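import Vale.Agent.Lib.P154.PChain.BP.R0_0

set_option linter.all false

namespace Vale.Agent.Lib.P154.PChain.BP.S1

open Vale.Agent.Lib.P154.Chain

noncomputable def pc0 : PT := (PT.nd (nat_lit 3551808) (PT.nd (nat_lit 3448692) (PT.nd (nat_lit 3380052) (PT.nd (nat_lit 3345732) (PT.nd (nat_lit 3345654) (PT.nd (nat_lit 3311334) PT.nil (PT.lf (nat_lit 76) (nat_lit 3) (nat_lit 1) (nat_lit 1) (nat_lit 117) (nat_lit 96) (nat_lit 117))) (PT.lf (nat_lit 152) (nat_lit 6) (nat_lit 2) (nat_lit 3) (nat_lit 116) (nat_lit 97) (nat_lit 117))) (PT.nd (nat_lit 34242) (PT.lf (nat_lit 152) (nat_lit 6) (nat_lit 2) (nat_lit 1) (nat_lit 117) (nat_lit 97) (nat_lit 116)) (PT.lf (nat_lit 228) (nat_lit 6) (nat_lit 3) (nat_lit 3) (nat_lit 115) (nat_lit 98) (nat_lit 117)))) (PT.nd (nat_lit 34320) (PT.nd (nat_lit 78) (PT.lf (nat_lit 304) (nat_lit 3) (nat_lit 4) (nat_lit 1) (nat_lit 116) (nat_lit 98) (nat_lit 116))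 (PT.lf (nat_lit 228) (nat_lit 6) (nat_lit 3) (nat_lit 1) (nat_lit 117) (nat_lit 98) (nat_lit 115))) (PT.nd (nat_lit 78) (PT.lf (nat_lit 380) (nat_lit 6) (nat_lit 5) (nat_lit 3) (nat_lit 115) (nat_lit 99) (nat_lit 116)) (PT.lf (nat_lit 380) (nat_lit 6) (nat_lit 5) (nat_lit 1) (nat_lit 116) (nat_lit 99) (nat_lit 115))))) (PT.nd (nat_lit 34476) (PT.nd (nat_lit 156) (PT.nd (nat_lit 78) (PT.lf (nat_lit 456) (nat_lit 6) (nat_lit 6) (nat_lit 3) (nat_lit 114) (nat_lit 100) (nat_lit 116)) (PT.lf (nat_lit 532) (nat_lit 3) (nat_lit 7) (nat_lit 1) (nat_lit 115) (nat_lit 100) (nat_lit 115))) (PT.nd (nat_lit 34242) (PT.lf (nat_lit 456) (nat_lit 6) (nat_lit 6) (nat_lit 1) (nat_lit 116) (nat_lit 100) (nat_lit 114)) (PT.lf (nat_lit 608) (nat_lit 6) (nat_lit 8) (nat_lit 3) (nat_lit 114) (nat_lit 101) (nat_lit 115)))) (PT.nd (nat_lit 34320) (PT.nd (nat_lit 34242) (PT.lf (nat_lit 608) (nat_lit 6) (nat_lit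 8) (nat_lit 1) (nat_lit 115) (nat_lit 101) (nat_lit 114)) (PT.lf (nat_lit 684) (nat_lit 6) (nat_lit 9) (nat_lit 3) (nat_lit 113) (nat_lit 102) (nat_lit 115))) (PT.nd (nat_lit 78) (PT.lf (nat_lit 760) (nat_lit 3) (nat_lit 10) (nat_lit 1) (nat_lit 114) (nat_lit 102) (nat_lit 114)) (PT.nd (nat_lit 34164) (PT.lf (nat_lit 684) (nat_lit 6) (nat_lit 9) (nat_lit 1) (nat_lit 115) (nat_lit 102) (nat_lit 113)) (PT.lf (nat_lit 836) (nat_lit 6) (nat_lit 11) (nat_lit 3) (nat_lit 112) (nat_lit 103) (nat_lit 115))))))) (PT.nd (nat_lit 68874) (PT.nd (nat_lit 34398) (PT.nd (nat_lit 156) (PT.nd (nat_lit 78) (PT.lf (nat_lit 912) (nat_lit 6) (nat_lit 12) (nat_lit 3) (nat_lit 113) (nat_lit 103) (nat_lit 114)) (PT.lf (nat_lit 912) (nat_lit 6) (nat_lit 12) (nat_lit 1) (nat_lit 114) (nat_lit 103) (nat_lit 113))) (PT.nd (nat_lit 34164) (PT.lf (nat_lit 836) (nat_lit 6) (nat_lit 11) (nat_lit 1) (nat_lit 115) (nat_lit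 103) (nat_lit 112)) (PT.lf (nat_lit 988) (nat_lit 6) (nat_lit 13) (nat_lit 3) (nat_lit 112) (nat_lit 104) (nat_lit 114)))) (PT.nd (nat_lit 34242) (PT.nd (nat_lit 78) (PT.lf (nat_lit 1064) (nat_lit 3) (nat_lit 14) (nat_lit 1) (nat_lit 113) (nat_lit 104) (nat_lit 113)) (PT.lf (nat_lit 988) (nat_lit 6) (nat_lit 13) (nat_lit 1) (nat_lit 114) (nat_lit 104) (nat_lit 112))) (PT.nd (nat_lit 78) (PT.lf (nat_lit 1140) (nat_lit 6) (nat_lit 15) (nat_lit 3) (nat_lit 111) (nat_lit 105) (nat_lit 114)) (PT.nd (nat_lit 78) (PT.lf (nat_lit 1216) (nat_lit 6) (nat_lit 16) (nat_lit 3) (nat_lit 112) (nat_lit 105) (nat_lit 113)) (PT.lf (nat_lit 1216) (nat_lit 6) (nat_lit 16) (nat_lit 1) (nat_lit 113) (nat_lit 105) (nat_lit 112)))))) (PT.nd (nat_lit 34320) (PT.nd (nat_lit 34164) (PT.nd (nat_lit 34086) (PT.lf (nat_lit 1140) (nat_lit 6) (nat_lit 15) (nat_lit 1) (nat_lit 114) (nat_lit 105) (nat_lit 111)) (PT.lf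 (nat_lit 1444) (nat_lit 6) (nat_lit 19) (nat_lit 3) (nat_lit 110) (nat_lit 106) (nat_lit 114))) (PT.nd (nat_lit 78) (PT.lf (nat_lit 1520) (nat_lit 6) (nat_lit 20) (nat_lit 3) (nat_lit 111) (nat_lit 106) (nat_lit 113)) (PT.lf (nat_lit 1596) (nat_lit 3) (nat_lit 21) (nat_lit 1) (nat_lit 112) (nat_lit 106) (nat_lit 112)))) (PT.nd (nat_lit 34086) (PT.nd (nat_lit 78) (PT.lf (nat_lit 1520) (nat_lit 6) (nat_lit 20) (nat_lit 1) (nat_lit 113) (nat_lit 106) (nat_lit 111)) (PT.lf (nat_lit 1444) (nat_lit 6) (nat_lit 19) (nat_lit 1) (nat_lit 114) (nat_lit 106) (nat_lit 110))) (PT.nd (nat_lit 78) (PT.lf (nat_lit 1368) (nat_lit 6) (nat_lit 18) (nat_lit 3) (nat_lit 109) (nat_lit 107) (nat_lit 114)) (PT.nd (nat_lit 78) (PT.lf (nat_lit 1748) (nat_lit 6) (nat_lit 23) (nat_lit 3) (nat_lit 110) (nat_lit 107) (nat_lit 113)) (PT.lf (nat_lit 1824) (nat_lit 6) (nat_lit 24) (nat_lit 3) (nat_lit 111) (nat_lit 107)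 (nat_lit 112))))))))
noncomputable def pc1 : PT := (PT.nd (nat_lit 102726) (PT.nd (nat_lit 34554) (PT.nd (nat_lit 34164) (PT.nd (nat_lit 156) (PT.nd (nat_lit 78) (PT.lf (nat_lit 1824) (nat_lit 6) (nat_lit 24) (nat_lit 1) (nat_lit 112) (nat_lit 107) (nat_lit 111)) (PT.lf (nat_lit 1748) (nat_lit 6) (nat_lit 23) (nat_lit 1) (nat_lit 113) (nat_lit 107) (nat_lit 110))) (PT.nd (nat_lit 33930) (PT.lf (nat_lit 1368) (nat_lit 6) (nat_lit 18) (nat_lit 1) (nat_lit 114) (nat_lit 107) (nat_lit 109)) (PT.lf (nat_lit 1292) (nat_lit 3) (nat_lit 17) (nat_lit 3) (nat_lit 108) (nat_lit 108) (nat_lit 114)))) (PT.nd (nat_lit 156) (PT.nd (nat_lit 78) (PT.lf (nat_lit 1672) (nat_lit 6) (nat_lit 22) (nat_lit 3) (nat_lit 109) (nat_lit 108) (nat_lit 113)) (PT.lf (nat_lit 1976) (nat_lit 6) (nat_lit 26) (nat_lit 3) (nat_lit 110) (nat_lit 108) (nat_lit 112))) (PT.nd (nat_lit 78) (PT.lf (nat_lit 2052) (nat_lit 3) (nat_lit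 27) (nat_lit 1) (nat_lit 111) (nat_lit 108) (nat_lit 111)) (PT.nd (nat_lit 78) (PT.lf (nat_lit 1976) (nat_lit 6) (nat_lit 26) (nat_lit 1) (nat_lit 112) (nat_lit 108) (nat_lit 110)) (PT.lf (nat_lit 1672) (nat_lit 6) (nat_lit 22) (nat_lit 1) (nat_lit 113) (nat_lit 108) (nat_lit 109)))))) (PT.nd (nat_lit 34086) (PT.nd (nat_lit 33930) (PT.nd (nat_lit 33852) (PT.lf (nat_lit 1292) (nat_lit 3) (nat_lit 17) (nat_lit 0) (nat_lit 114) (nat_lit 108) (nat_lit 108)) (PT.lf (nat_lit 1368) (nat_lit 6) (nat_lit 18) (nat_lit 5) (nat_lit 107) (nat_lit 109) (nat_lit 114))) (PT.nd (nat_lit 78) (PT.lf (nat_lit 1672) (nat_lit 6) (nat_lit 22) (nat_lit 5) (nat_lit 108) (nat_lit 109) (nat_lit 113)) (PT.lf (nat_lit 1900) (nat_lit 3) (nat_lit 25) (nat_lit 3) (nat_lit 109) (nat_lit 109) (nat_lit 112)))) (PT.nd (nat_lit 156) (PT.nd (nat_lit 78) (PT.lf (nat_lit 2128) (nat_lit 6) (nat_lit 28) (nat_lit 3) (nat_lit 110)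 (nat_lit 109) (nat_lit 111)) (PT.lf (nat_lit 2128) (nat_lit 6) (nat_lit 28) (nat_lit 1) (nat_lit 111) (nat_lit 109) (nat_lit 110))) (PT.nd (nat_lit 78) (PT.lf (nat_lit 1900) (nat_lit 3) (nat_lit 25) (nat_lit 0) (nat_lit 112) (nat_lit 109) (nat_lit 109)) (PT.nd (nat_lit 78) (PT.lf (nat_lit 1672) (nat_lit 6) (nat_lit 22) (nat_lit 0) (nat_lit 113) (nat_lit 109) (nat_lit 108)) (PT.lf (nat_lit 1368) (nat_lit 6) (nat_lit 18) (nat_lit 0) (nat_lit 114) (nat_lit 109) (nat_lit 107))))))) (PT.nd (nat_lit 34320) (PT.nd (nat_lit 312) (PT.nd (nat_lit 156) (PT.nd (nat_lit 78) (PT.lf (nat_lit 1444) (nat_lit 6) (nat_lit 19) (nat_lit 5) (nat_lit 106) (nat_lit 110) (nat_lit 114)) (PT.lf (nat_lit 1748) (nat_lit 6) (nat_lit 23) (nat_lit 5) (nat_lit 107) (nat_lit 110) (nat_lit 113))) (PT.nd (nat_lit 78) (PT.lf (nat_lit 1976) (nat_lit 6) (nat_lit 26) (nat_lit 5) (nat_lit 108) (nat_lit 110) (nat_lit 112)) (PT.lf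 (nat_lit 2128) (nat_lit 6) (nat_lit 28) (nat_lit 5) (nat_lit 109) (nat_lit 110) (nat_lit 111)))) (PT.nd (nat_lit 156) (PT.nd (nat_lit 78) (PT.lf (nat_lit 2204) (nat_lit 1) (nat_lit 29) (nat_lit 0) (nat_lit 110) (nat_lit 110) (nat_lit 110)) (PT.lf (nat_lit 2128) (nat_lit 6) (nat_lit 28) (nat_lit 0) (nat_lit 111) (nat_lit 110) (nat_lit 109))) (PT.nd (nat_lit 78) (PT.lf (nat_lit 1976) (nat_lit 6) (nat_lit 26) (nat_lit 0) (nat_lit 112) (nat_lit 110) (nat_lit 108)) (PT.nd (nat_lit 78) (PT.lf (nat_lit 1748) (nat_lit 6) (nat_lit 23) (nat_lit 0) (nat_lit 113) (nat_lit 110) (nat_lit 107)) (PT.lf (nat_lit 1444) (nat_lit 6) (nat_lit 19) (nat_lit 0) (nat_lit 114) (nat_lit 110) (nat_lit 106)))))) (PT.nd (nat_lit 312) (PT.nd (nat_lit 156) (PT.nd (nat_lit 78) (PT.lf (nat_lit 1140) (nat_lit 6) (nat_lit 15) (nat_lit 5) (nat_lit 105) (nat_lit 111) (nat_lit 114)) (PT.lf (nat_lit 1520) (nat_lit 6) (nat_lit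 20) (nat_lit 5) (nat_lit 106) (nat_lit 111) (nat_lit 113))) (PT.nd (nat_lit 78) (PT.lf (nat_lit 1824) (nat_lit 6) (nat_lit 24) (nat_lit 5) (nat_lit 107) (nat_lit 111) (nat_lit 112)) (PT.lf (nat_lit 2052) (nat_lit 3) (nat_lit 27) (nat_lit 4) (nat_lit 108) (nat_lit 111) (nat_lit 111)))) (PT.nd (nat_lit 156) (PT.nd (nat_lit 78) (PT.lf (nat_lit 2128) (nat_lit 6) (nat_lit 28) (nat_lit 4) (nat_lit 109) (nat_lit 111) (nat_lit 110)) (PT.lf (nat_lit 2128) (nat_lit 6) (nat_lit 28) (nat_lit 2) (nat_lit 110) (nat_lit 111) (nat_lit 109))) (PT.nd (nat_lit 78) (PT.lf (nat_lit 2052) (nat_lit 3) (nat_lit 27) (nat_lit 0) (nat_lit 111) (nat_lit 111) (nat_lit 108)) (PT.nd (nat_lit 78) (PT.lf (nat_lit 1824) (nat_lit 6) (nat_lit 24) (nat_lit 0) (nat_lit 112) (nat_lit 111) (nat_lit 107)) (PT.lf (nat_lit 1520) (nat_lit 6) (nat_lit 20) (nat_lit 0) (nat_lit 113) (nat_lit 111) (nat_lit 106))))))))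
noncomputable def pc2 : PT := (PT.nd (nat_lit 68094) (PT.nd (nat_lit 34086) (PT.nd (nat_lit 33774) (PT.nd (nat_lit 33618) (PT.nd (nat_lit 33540) (PT.lf (nat_lit 1140) (nat_lit 6) (nat_lit 15) (nat_lit 0) (nat_lit 114) (nat_lit 111) (nat_lit 105)) (PT.lf (nat_lit 836) (nat_lit 6) (nat_lit 11) (nat_lit 5) (nat_lit 103) (nat_lit 112) (nat_lit 115))) (PT.nd (nat_lit 78) (PT.lf (nat_lit 988) (nat_lit 6) (nat_lit 13) (nat_lit 5) (nat_lit 104) (nat_lit 112) (nat_lit 114)) (PT.lf (nat_lit 1216) (nat_lit 6) (nat_lit 16) (nat_lit 5) (nat_lit 105) (nat_lit 112) (nat_lit 113)))) (PT.nd (nat_lit 156) (PT.nd (nat_lit 78) (PT.lf (nat_lit 1596) (nat_lit 3) (nat_lit 21) (nat_lit 4) (nat_lit 106) (nat_lit 112) (nat_lit 112)) (PT.lf (nat_lit 1824) (nat_lit 6) (nat_lit 24) (nat_lit 4) (nat_lit 107) (nat_lit 112) (nat_lit 111))) (PT.nd (nat_lit 78) (PT.lf (nat_lit 1976) (nat_lit 6) (nat_lit 26) (nat_lit 4)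 (nat_lit 108) (nat_lit 112) (nat_lit 110)) (PT.lf (nat_lit 1900) (nat_lit 3) (nat_lit 25) (nat_lit 2) (nat_lit 109) (nat_lit 112) (nat_lit 109))))) (PT.nd (nat_lit 312) (PT.nd (nat_lit 156) (PT.nd (nat_lit 78) (PT.lf (nat_lit 1976) (nat_lit 6) (nat_lit 26) (nat_lit 2) (nat_lit 110) (nat_lit 112) (nat_lit 108)) (PT.lf (nat_lit 1824) (nat_lit 6) (nat_lit 24) (nat_lit 2) (nat_lit 111) (nat_lit 112) (nat_lit 107))) (PT.nd (nat_lit 78) (PT.lf (nat_lit 1596) (nat_lit 3) (nat_lit 21) (nat_lit 0) (nat_lit 112) (nat_lit 112) (nat_lit 106)) (PT.lf (nat_lit 1216) (nat_lit 6) (nat_lit 16) (nat_lit 0) (nat_lit 113) (nat_lit 112) (nat_lit 105)))) (PT.nd (nat_lit 33462) (PT.nd (nat_lit 78) (PT.lf (nat_lit 988) (nat_lit 6) (nat_lit 13) (nat_lit 0) (nat_lit 114) (nat_lit 112) (nat_lit 104)) (PT.lf (nat_lit 836) (nat_lit 6) (nat_lit 11) (nat_lit 0) (nat_lit 115) (nat_lit 112) (nat_lit 103))) (PT.nd (nat_lit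 78) (PT.lf (nat_lit 684) (nat_lit 6) (nat_lit 9) (nat_lit 5) (nat_lit 102) (nat_lit 113) (nat_lit 115)) (PT.nd (nat_lit 78) (PT.lf (nat_lit 912) (nat_lit 6) (nat_lit 12) (nat_lit 5) (nat_lit 103) (nat_lit 113) (nat_lit 114)) (PT.lf (nat_lit 1064) (nat_lit 3) (nat_lit 14) (nat_lit 4) (nat_lit 104) (nat_lit 113) (nat_lit 113))))))) (PT.nd (nat_lit 702) (PT.nd (nat_lit 312) (PT.nd (nat_lit 156) (PT.nd (nat_lit 78) (PT.lf (nat_lit 1216) (nat_lit 6) (nat_lit 16) (nat_lit 4) (nat_lit 105) (nat_lit 113) (nat_lit 112)) (PT.lf (nat_lit 1520) (nat_lit 6) (nat_lit 20) (nat_lit 4) (nat_lit 106) (nat_lit 113) (nat_lit 111))) (PT.nd (nat_lit 78) (PT.lf (nat_lit 1748) (nat_lit 6) (nat_lit 23) (nat_lit 4) (nat_lit 107) (nat_lit 113) (nat_lit 110)) (PT.lf (nat_lit 1672) (nat_lit 6) (nat_lit 22) (nat_lit 4) (nat_lit 108) (nat_lit 113) (nat_lit 109)))) (PT.nd (nat_lit 156) (PT.nd (nat_lit 78) (PT.lf (nat_lit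 1672) (nat_lit 6) (nat_lit 22) (nat_lit 2) (nat_lit 109) (nat_lit 113) (nat_lit 108)) (PT.lf (nat_lit 1748) (nat_lit 6) (nat_lit 23) (nat_lit 2) (nat_lit 110) (nat_lit 113) (nat_lit 107))) (PT.nd (nat_lit 78) (PT.lf (nat_lit 1520) (nat_lit 6) (nat_lit 20) (nat_lit 2) (nat_lit 111) (nat_lit 113) (nat_lit 106)) (PT.nd (nat_lit 78) (PT.lf (nat_lit 1216) (nat_lit 6) (nat_lit 16) (nat_lit 2) (nat_lit 112) (nat_lit 113) (nat_lit 105)) (PT.lf (nat_lit 1064) (nat_lit 3) (nat_lit 14) (nat_lit 0) (nat_lit 113) (nat_lit 113) (nat_lit 104)))))) (PT.nd (nat_lit 33462) (PT.nd (nat_lit 33306) (PT.nd (nat_lit 78) (PT.lf (nat_lit 912) (nat_lit 6) (nat_lit 12) (nat_lit 0) (nat_lit 114) (nat_lit 113) (nat_lit 103)) (PT.lf (nat_lit 684) (nat_lit 6) (nat_lit 9) (nat_lit 0) (nat_lit 115) (nat_lit 113) (nat_lit 102))) (PT.nd (nat_lit 78) (PT.lf (nat_lit 456) (nat_lit 6) (nat_lit 6) (nat_lit 5) (nat_lit 100)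 (nat_lit 114) (nat_lit 116)) (PT.lf (nat_lit 608) (nat_lit 6) (nat_lit 8) (nat_lit 5) (nat_lit 101) (nat_lit 114) (nat_lit 115)))) (PT.nd (nat_lit 156) (PT.nd (nat_lit 78) (PT.lf (nat_lit 760) (nat_lit 3) (nat_lit 10) (nat_lit 4) (nat_lit 102) (nat_lit 114) (nat_lit 114)) (PT.lf (nat_lit 912) (nat_lit 6) (nat_lit 12) (nat_lit 4) (nat_lit 103) (nat_lit 114) (nat_lit 113))) (PT.nd (nat_lit 78) (PT.lf (nat_lit 988) (nat_lit 6) (nat_lit 13) (nat_lit 4) (nat_lit 104) (nat_lit 114) (nat_lit 112)) (PT.nd (nat_lit 78) (PT.lf (nat_lit 1140) (nat_lit 6) (nat_lit 15) (nat_lit 4) (nat_lit 105) (nat_lit 114) (nat_lit 111)) (PT.lf (nat_lit 1444) (nat_lit 6) (nat_lit 19) (nat_lit 4) (nat_lit 106) (nat_lit 114) (nat_lit 110))))))))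
noncomputable def pc3 : PT := (PT.nd (nat_lit 34944) (PT.nd (nat_lit 702) (PT.nd (nat_lit 312) (PT.nd (nat_lit 156) (PT.nd (nat_lit 78) (PT.lf (nat_lit 1368) (nat_lit 6) (nat_lit 18) (nat_lit 4) (nat_lit 107) (nat_lit 114) (nat_lit 109)) (PT.lf (nat_lit 1292) (nat_lit 3) (nat_lit 17) (nat_lit 2) (nat_lit 108) (nat_lit 114) (nat_lit 108))) (PT.nd (nat_lit 78) (PT.lf (nat_lit 1368) (nat_lit 6) (nat_lit 18) (nat_lit 2) (nat_lit 109) (nat_lit 114) (nat_lit 107)) (PT.lf (nat_lit 1444) (nat_lit 6) (nat_lit 19) (nat_lit 2) (nat_lit 110) (nat_lit 114) (nat_lit 106)))) (PT.nd (nat_lit 156) (PT.nd (nat_lit 78) (PT.lf (nat_lit 1140) (nat_lit 6) (nat_lit 15) (nat_lit 2) (nat_lit 111) (nat_lit 114) (nat_lit 105)) (PT.lf (nat_lit 988) (nat_lit 6) (nat_lit 13) (nat_lit 2) (nat_lit 112) (nat_lit 114) (nat_lit 104))) (PT.nd (nat_lit 78) (PT.lf (nat_lit 912) (nat_lit 6) (nat_lit 12) (nat_lit 2) (nat_lit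 113) (nat_lit 114) (nat_lit 103)) (PT.nd (nat_lit 78) (PT.lf (nat_lit 760) (nat_lit 3) (nat_lit 10) (nat_lit 0) (nat_lit 114) (nat_lit 114) (nat_lit 102)) (PT.lf (nat_lit 608) (nat_lit 6) (nat_lit 8) (nat_lit 0) (nat_lit 115) (nat_lit 114) (nat_lit 101)))))) (PT.nd (nat_lit 33228) (PT.nd (nat_lit 33072) (PT.nd (nat_lit 32994) (PT.lf (nat_lit 456) (nat_lit 6) (nat_lit 6) (nat_lit 0) (nat_lit 116) (nat_lit 114) (nat_lit 100)) (PT.lf (nat_lit 228) (nat_lit 6) (nat_lit 3) (nat_lit 5) (nat_lit 98) (nat_lit 115) (nat_lit 117))) (PT.nd (nat_lit 78) (PT.lf (nat_lit 380) (nat_lit 6) (nat_lit 5) (nat_lit 5) (nat_lit 99) (nat_lit 115) (nat_lit 116)) (PT.lf (nat_lit 532) (nat_lit 3) (nat_lit 7) (nat_lit 4) (nat_lit 100) (nat_lit 115) (nat_lit 115)))) (PT.nd (nat_lit 156) (PT.nd (nat_lit 78) (PT.lf (nat_lit 608) (nat_lit 6) (nat_lit 8) (nat_lit 4) (nat_lit 101) (nat_lit 115) (nat_lit 114)) (PT.lf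 (nat_lit 684) (nat_lit 6) (nat_lit 9) (nat_lit 4) (nat_lit 102) (nat_lit 115) (nat_lit 113))) (PT.nd (nat_lit 702) (PT.lf (nat_lit 836) (nat_lit 6) (nat_lit 11) (nat_lit 4) (nat_lit 103) (nat_lit 115) (nat_lit 112)) (PT.nd (nat_lit 78) (PT.lf (nat_lit 836) (nat_lit 6) (nat_lit 11) (nat_lit 2) (nat_lit 112) (nat_lit 115) (nat_lit 103)) (PT.lf (nat_lit 684) (nat_lit 6) (nat_lit 9) (nat_lit 2) (nat_lit 113) (nat_lit 115) (nat_lit 102))))))) (PT.nd (nat_lit 34476) (PT.nd (nat_lit 33072) (PT.nd (nat_lit 156) (PT.nd (nat_lit 78) (PT.lf (nat_lit 608) (nat_lit 6) (nat_lit 8) (nat_lit 2) (nat_lit 114) (nat_lit 115) (nat_lit 101)) (PT.lf (nat_lit 532) (nat_lit 3) (nat_lit 7) (nat_lit 0) (nat_lit 115) (nat_lit 115) (nat_lit 100))) (PT.nd (nat_lit 78) (PT.lf (nat_lit 380) (nat_lit 6) (nat_lit 5) (nat_lit 0) (nat_lit 116) (nat_lit 115) (nat_lit 99)) (PT.lf (nat_lit 228) (nat_lit 6) (nat_lit 3) (nat_lit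 0) (nat_lit 117) (nat_lit 115) (nat_lit 98)))) (PT.nd (nat_lit 156) (PT.nd (nat_lit 78) (PT.lf (nat_lit 152) (nat_lit 6) (nat_lit 2) (nat_lit 5) (nat_lit 97) (nat_lit 116) (nat_lit 117)) (PT.lf (nat_lit 304) (nat_lit 3) (nat_lit 4) (nat_lit 4) (nat_lit 98) (nat_lit 116) (nat_lit 116))) (PT.nd (nat_lit 78) (PT.lf (nat_lit 380) (nat_lit 6) (nat_lit 5) (nat_lit 4) (nat_lit 99) (nat_lit 116) (nat_lit 115)) (PT.nd (nat_lit 1092) (PT.lf (nat_lit 456) (nat_lit 6) (nat_lit 6) (nat_lit 4) (nat_lit 100) (nat_lit 116) (nat_lit 114)) (PT.lf (nat_lit 456) (nat_lit 6) (nat_lit 6) (nat_lit 2) (nat_lit 114) (nat_lit 116) (nat_lit 100)))))) (PT.nd (nat_lit 32994) (PT.nd (nat_lit 156) (PT.nd (nat_lit 78) (PT.lf (nat_lit 380) (nat_lit 6) (nat_lit 5) (nat_lit 2) (nat_lit 115) (nat_lit 116) (nat_lit 99)) (PT.lf (nat_lit 304) (nat_lit 3) (nat_lit 4) (nat_lit 0) (nat_lit 116) (nat_lit 116) (nat_lit 98))) (PT.nd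 (nat_lit 32760) (PT.lf (nat_lit 152) (nat_lit 6) (nat_lit 2) (nat_lit 0) (nat_lit 117) (nat_lit 116) (nat_lit 97)) (PT.lf (nat_lit 76) (nat_lit 3) (nat_lit 1) (nat_lit 4) (nat_lit 96) (nat_lit 117) (nat_lit 117)))) (PT.nd (nat_lit 1404) (PT.nd (nat_lit 78) (PT.lf (nat_lit 152) (nat_lit 6) (nat_lit 2) (nat_lit 4) (nat_lit 97) (nat_lit 117) (nat_lit 116)) (PT.lf (nat_lit 228) (nat_lit 6) (nat_lit 3) (nat_lit 4) (nat_lit 98) (nat_lit 117) (nat_lit 115))) (PT.nd (nat_lit 78) (PT.lf (nat_lit 228) (nat_lit 6) (nat_lit 3) (nat_lit 2) (nat_lit 115) (nat_lit 117) (nat_lit 98)) (PT.nd (nat_lit 78) (PT.lf (nat_lit 152) (nat_lit 6) (nat_lit 2) (nat_lit 2) (nat_lit 116) (nat_lit 117) (nat_lit 97)) (PT.lf (nat_lit 76) (nat_lit 3) (nat_lit 1) (nat_lit 0) (nat_lit 117) (nat_lit 117) (nat_lit 96))))))))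
noncomputable def xc0 : XT := (XT.nd (nat_lit 137436) (nat_lit 0) (nat_lit 0) (XT.nd (nat_lit 102882) (nat_lit 0) (nat_lit 0) (XT.nd (nat_lit 68562) (nat_lit 0) (nat_lit 0) (XT.nd (nat_lit 34320) (nat_lit 0) (nat_lit 0) (XT.nd (nat_lit 34242) (nat_lit 0) (nat_lit 0) (XT.lf (nat_lit 0) (nat_lit 927828733122) (nat_lit 76) (nat_lit 2553267522005) (nat_lit 76) (nat_lit 2553267522005) (nat_lit 1) (nat_lit 4) (nat_lit 2) (nat_lit 5) (nat_lit 2) (nat_lit 4) (nat_lit 286) (nat_lit 187) (nat_lit 187)) (XT.lf (nat_lit 0) (nat_lit 700847495599) (nat_lit 76) (nat_lit 1931014394410) (nat_lit 76) (nat_lit 1931014394410) (nat_lit 1) (nat_lit 4) (nat_lit 2) (nat_lit 5) (nat_lit 2) (nat_lit 4) (nat_lit 284) (nat_lit 188) (nat_lit 188))) (XT.nd (nat_lit 78) (nat_lit 0) (nat_lit 0) (XT.lf (nat_lit 0) (nat_lit 1612859574402) (nat_lit 76) (nat_lit 4440869837967) (nat_lit 76) (nat_lit 4440847925240) (nat_lit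 1) (nat_lit 4) (nat_lit 2) (nat_lit 5) (nat_lit 2) (nat_lit 4) (nat_lit 285) (nat_lit 188) (nat_lit 187)) (XT.nd (nat_lit 34086) (nat_lit 0) (nat_lit 0) (XT.lf (nat_lit 0) (nat_lit 1855621484642) (nat_lit 76) (nat_lit 5106574271738) (nat_lit 76) (nat_lit 5106533304466) (nat_lit 1) (nat_lit 4) (nat_lit 2) (nat_lit 5) (nat_lit 2) (nat_lit 4) (nat_lit 286) (nat_lit 188) (nat_lit 186)) (XT.lf (nat_lit 0) (nat_lit 529108421458) (nat_lit 76) (nat_lit 1460558231534) (nat_lit 76) (nat_lit 1460558231534) (nat_lit 1) (nat_lit 4) (nat_lit 2) (nat_lit 5) (nat_lit 2) (nat_lit 4) (nat_lit 282) (nat_lit 189) (nat_lit 189))))) (XT.nd (nat_lit 234) (nat_lit 0) (nat_lit 0) (XT.nd (nat_lit 78) (nat_lit 0) (nat_lit 0) (XT.lf (nat_lit 0) (nat_lit 1217996254056) (nat_lit 76) (nat_lit 3358751172976) (nat_lit 76) (nat_lit 3358725973340) (nat_lit 1) (nat_lit 4) (nat_lit 2) (nat_lit 5) (nat_lit 2) (nat_lit 4)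 (nat_lit 283) (nat_lit 189) (nat_lit 188)) (XT.nd (nat_lit 78) (nat_lit 0) (nat_lit 0) (XT.lf (nat_lit 0) (nat_lit 1401653612356) (nat_lit 76) (nat_lit 3862073900709) (nat_lit 76) (nat_lit 3862026788346) (nat_lit 1) (nat_lit 4) (nat_lit 2) (nat_lit 5) (nat_lit 2) (nat_lit 4) (nat_lit 284) (nat_lit 189) (nat_lit 187)) (XT.lf (nat_lit 0) (nat_lit 1612782213958) (nat_lit 76) (nat_lit 4440932264857) (nat_lit 76) (nat_lit 4440866097949) (nat_lit 1) (nat_lit 4) (nat_lit 2) (nat_lit 5) (nat_lit 2) (nat_lit 4) (nat_lit 285) (nat_lit 189) (nat_lit 186)))) (XT.nd (nat_lit 33930) (nat_lit 0) (nat_lit 0) (XT.lf (nat_lit 0) (nat_lit 1855512835849) (nat_lit 76) (nat_lit 5106651755151) (nat_lit 76) (nat_lit 5106569019073) (nat_lit 1) (nat_lit 4) (nat_lit 2) (nat_lit 5) (nat_lit 2) (nat_lit 4) (nat_lit 286) (nat_lit 189) (nat_lit 185)) (XT.nd (nat_lit 78) (nat_lit 0) (nat_lit 0) (XT.lf (nat_lit 0) (nat_lit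 399124062007) (nat_lit 76) (nat_lit 1104890872096) (nat_lit 76) (nat_lit 1104890872096) (nat_lit 1) (nat_lit 4) (nat_lit 2) (nat_lit 5) (nat_lit 2) (nat_lit 4) (nat_lit 280) (nat_lit 190) (nat_lit 190)) (XT.lf (nat_lit 0) (nat_lit 919189260024) (nat_lit 76) (nat_lit 2540636332335) (nat_lit 76) (nat_lit 2540607352753) (nat_lit 1) (nat_lit 4) (nat_lit 2) (nat_lit 5) (nat_lit 2) (nat_lit 4) (nat_lit 281) (nat_lit 190) (nat_lit 189)))))) (XT.nd (nat_lit 34086) (nat_lit 0) (nat_lit 0) (XT.nd (nat_lit 156) (nat_lit 0) (nat_lit 0) (XT.nd (nat_lit 78) (nat_lit 0) (nat_lit 0) (XT.lf (nat_lit 0) (nat_lit 1058169257248) (nat_lit 76) (nat_lit 2921168341740) (nat_lit 76) (nat_lit 2921114162523) (nat_lit 1) (nat_lit 4) (nat_lit 2) (nat_lit 5) (nat_lit 2) (nat_lit 4) (nat_lit 282) (nat_lit 190) (nat_lit 188)) (XT.lf (nat_lit 0) (nat_lit 1217907289546) (nat_lit 76) (nat_lit 3358822963899) (nat_lit 76)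 (nat_lit 3358746871954) (nat_lit 1) (nat_lit 4) (nat_lit 2) (nat_lit 5) (nat_lit 2) (nat_lit 4) (nat_lit 283) (nat_lit 190) (nat_lit 187))) (XT.nd (nat_lit 78) (nat_lit 0) (nat_lit 0) (XT.lf (nat_lit 0) (nat_lit 1401528666244) (nat_lit 76) (nat_lit 3862163006634) (nat_lit 76) (nat_lit 3862067860144) (nat_lit 1) (nat_lit 4) (nat_lit 2) (nat_lit 5) (nat_lit 2) (nat_lit 4) (nat_lit 284) (nat_lit 190) (nat_lit 186)) (XT.nd (nat_lit 78) (nat_lit 0) (nat_lit 0) (XT.lf (nat_lit 0) (nat_lit 1612625979497) (nat_lit 76) (nat_lit 4441036427304) (nat_lit 76) (nat_lit 4440924711645) (nat_lit 1) (nat_lit 4) (nat_lit 2) (nat_lit 5) (nat_lit 2) (nat_lit 4) (nat_lit 285) (nat_lit 190) (nat_lit 185)) (XT.lf (nat_lit 0) (nat_lit 1855329394127) (nat_lit 76) (nat_lit 5106769010227) (nat_lit 76) (nat_lit 5106642886595) (nat_lit 1) (nat_lit 4) (nat_lit 2) (nat_lit 5) (nat_lit 2) (nat_lit 4) (nat_lit 286) (nat_lit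 190) (nat_lit 184))))) (XT.nd (nat_lit 234) (nat_lit 0) (nat_lit 0) (XT.nd (nat_lit 78) (nat_lit 0) (nat_lit 0) (XT.lf (nat_lit 0) (nat_lit 300693523731) (nat_lit 76) (nat_lit 836030102783) (nat_lit 76) (nat_lit 836030102783) (nat_lit 1) (nat_lit 4) (nat_lit 2) (nat_lit 5) (nat_lit 2) (nat_lit 4) (nat_lit 278) (nat_lit 191) (nat_lit 191)) (XT.nd (nat_lit 78) (nat_lit 0) (nat_lit 0) (XT.lf (nat_lit 0) (nat_lit 692979609601) (nat_lit 76) (nat_lit 1922164661892) (nat_lit 76) (nat_lit 1922131335374) (nat_lit 1) (nat_lit 4) (nat_lit 2) (nat_lit 5) (nat_lit 2) (nat_lit 4) (nat_lit 279) (nat_lit 191) (nat_lit 190)) (XT.lf (nat_lit 0) (nat_lit 798193400495) (nat_lit 76) (nat_lit 2209841404665) (nat_lit 76) (nat_lit 2209779098565) (nat_lit 1) (nat_lit 4) (nat_lit 2) (nat_lit 5) (nat_lit 2) (nat_lit 4) (nat_lit 280) (nat_lit 191) (nat_lit 189)))) (XT.nd (nat_lit 78) (nat_lit 0) (nat_lit 0) (XT.lf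 (nat_lit 0) (nat_lit 919086950837) (nat_lit 76) (nat_lit 2540718891896) (nat_lit 76) (nat_lit 2540631386160) (nat_lit 1) (nat_lit 4) (nat_lit 2) (nat_lit 5) (nat_lit 2) (nat_lit 4) (nat_lit 281) (nat_lit 191) (nat_lit 188)) (XT.nd (nat_lit 78) (nat_lit 0) (nat_lit 0) (XT.lf (nat_lit 0) (nat_lit 1058025569219) (nat_lit 76) (nat_lit 2921270813554) (nat_lit 76) (nat_lit 2921161395091) (nat_lit 1) (nat_lit 4) (nat_lit 2) (nat_lit 5) (nat_lit 2) (nat_lit 4) (nat_lit 282) (nat_lit 191) (nat_lit 187)) (XT.lf (nat_lit 0) (nat_lit 1217727619915) (nat_lit 76) (nat_lit 3358942750713) (nat_lit 76) (nat_lit 3358814277705) (nat_lit 1) (nat_lit 4) (nat_lit 2) (nat_lit 5) (nat_lit 2) (nat_lit 4) (nat_lit 283) (nat_lit 191) (nat_lit 186))))))) (XT.nd (nat_lit 34398) (nat_lit 0) (nat_lit 0) (XT.nd (nat_lit 33930) (nat_lit 0) (nat_lit 0) (XT.nd (nat_lit 156) (nat_lit 0) (nat_lit 0) (XT.nd (nat_lit 78) (nat_lit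 0) (nat_lit 0) (XT.lf (nat_lit 0) (nat_lit 1401317708264) (nat_lit 76) (nat_lit 3862297849972) (nat_lit 76) (nat_lit 3862152807794) (nat_lit 1) (nat_lit 4) (nat_lit 2) (nat_lit 5) (nat_lit 2) (nat_lit 4) (nat_lit 284) (nat_lit 191) (nat_lit 185)) (XT.lf (nat_lit 0) (nat_lit 1612387814256) (nat_lit 76) (nat_lit 4441184363271) (nat_lit 76) (nat_lit 4441024913120) (nat_lit 1) (nat_lit 4) (nat_lit 2) (nat_lit 5) (nat_lit 2) (nat_lit 4) (nat_lit 285) (nat_lit 191) (nat_lit 184))) (XT.nd (nat_lit 33618) (nat_lit 0) (nat_lit 0) (XT.lf (nat_lit 0) (nat_lit 1855067570400) (nat_lit 76) (nat_lit 5106928331089) (nat_lit 76) (nat_lit 5106756352265) (nat_lit 1) (nat_lit 4) (nat_lit 2) (nat_lit 5) (nat_lit 2) (nat_lit 4) (nat_lit 286) (nat_lit 191) (nat_lit 183)) (XT.nd (nat_lit 78) (nat_lit 0) (nat_lit 0) (XT.lf (nat_lit 0) (nat_lit 226100654313) (nat_lit 76) (nat_lit 632818814702) (nat_lit 76) (nat_lit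 632818814702) (nat_lit 1) (nat_lit 4) (nat_lit 2) (nat_lit 5) (nat_lit 2) (nat_lit 4) (nat_lit 276) (nat_lit 192) (nat_lit 192)) (XT.lf (nat_lit 0) (nat_lit 521623685691) (nat_lit 76) (nat_lit 1454673013129) (nat_lit 76) (nat_lit 1454634687632) (nat_lit 1) (nat_lit 4) (nat_lit 2) (nat_lit 5) (nat_lit 2) (nat_lit 4) (nat_lit 277) (nat_lit 192) (nat_lit 191))))) (XT.nd (nat_lit 234) (nat_lit 0) (nat_lit 0) (XT.nd (nat_lit 78) (nat_lit 0) (nat_lit 0) (XT.lf (nat_lit 0) (nat_lit 601324115417) (nat_lit 76) (nat_lit 1672128815110) (nat_lit 76) (nat_lit 1672057163095) (nat_lit 1) (nat_lit 4) (nat_lit 2) (nat_lit 5) (nat_lit 2) (nat_lit 4) (nat_lit 278) (nat_lit 192) (nat_lit 190)) (XT.nd (nat_lit 78) (nat_lit 0) (nat_lit 0) (XT.lf (nat_lit 0) (nat_lit 692861954037) (nat_lit 76) (nat_lit 1922259605388) (nat_lit 76) (nat_lit 1922158973791) (nat_lit 1) (nat_lit 4) (nat_lit 2) (nat_lit 5) (nat_lit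 2) (nat_lit 4) (nat_lit 279) (nat_lit 192) (nat_lit 189)) (XT.lf (nat_lit 0) (nat_lit 798028159262) (nat_lit 76) (nat_lit 2209959247250) (nat_lit 76) (nat_lit 2209833416018) (nat_lit 1) (nat_lit 4) (nat_lit 2) (nat_lit 5) (nat_lit 2) (nat_lit 4) (nat_lit 280) (nat_lit 192) (nat_lit 188)))) (XT.nd (nat_lit 78) (nat_lit 0) (nat_lit 0) (XT.lf (nat_lit 0) (nat_lit 918880330762) (nat_lit 76) (nat_lit 2540856646733) (nat_lit 76) (nat_lit 2540708902774) (nat_lit 1) (nat_lit 4) (nat_lit 2) (nat_lit 5) (nat_lit 2) (nat_lit 4) (nat_lit 281) (nat_lit 192) (nat_lit 187)) (XT.nd (nat_lit 78) (nat_lit 0) (nat_lit 0) (XT.lf (nat_lit 0) (nat_lit 1057782967542) (nat_lit 76) (nat_lit 2921425883392) (nat_lit 76) (nat_lit 2921259084888) (nat_lit 1) (nat_lit 4) (nat_lit 2) (nat_lit 5) (nat_lit 2) (nat_lit 4) (nat_lit 282) (nat_lit 192) (nat_lit 186)) (XT.lf (nat_lit 0) (nat_lit 1217453729889) (nat_lit 76)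 (nat_lit 3359112877075) (nat_lit 76) (nat_lit 3358929509401) (nat_lit 1) (nat_lit 4) (nat_lit 2) (nat_lit 5) (nat_lit 2) (nat_lit 4) (nat_lit 283) (nat_lit 192) (nat_lit 185)))))) (XT.nd (nat_lit 33852) (nat_lit 0) (nat_lit 0) (XT.nd (nat_lit 33618) (nat_lit 0) (nat_lit 0) (XT.nd (nat_lit 78) (nat_lit 0) (nat_lit 0) (XT.lf (nat_lit 0) (nat_lit 1401016610978) (nat_lit 76) (nat_lit 3862481068963) (nat_lit 76) (nat_lit 3862283293315) (nat_lit 1) (nat_lit 4) (nat_lit 2) (nat_lit 5) (nat_lit 2) (nat_lit 4) (nat_lit 284) (nat_lit 192) (nat_lit 184)) (XT.nd (nat_lit 78) (nat_lit 0) (nat_lit 0) (XT.lf (nat_lit 0) (nat_lit 1612063058483) (nat_lit 76) (nat_lit 4441378967157) (nat_lit 76) (nat_lit 4441168662836) (nat_lit 1) (nat_lit 4) (nat_lit 2) (nat_lit 5) (nat_lit 2) (nat_lit 4) (nat_lit 285) (nat_lit 192) (nat_lit 183)) (XT.lf (nat_lit 0) (nat_lit 1854722242029) (nat_lit 76) (nat_lit 5107132834883)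 (nat_lit 76) (nat_lit 5106911636064) (nat_lit 1) (nat_lit 4) (nat_lit 2) (nat_lit 5) (nat_lit 2) (nat_lit 4) (nat_lit 286) (nat_lit 192) (nat_lit 182)))) (XT.nd (nat_lit 78) (nat_lit 0) (nat_lit 0) (XT.lf (nat_lit 0) (nat_lit 169507701058) (nat_lit 76) (nat_lit 479260878118) (nat_lit 76) (nat_lit 479260878118) (nat_lit 1) (nat_lit 4) (nat_lit 2) (nat_lit 5) (nat_lit 2) (nat_lit 4) (nat_lit 274) (nat_lit 193) (nat_lit 193)) (XT.nd (nat_lit 78) (nat_lit 0) (nat_lit 0) (XT.lf (nat_lit 0) (nat_lit 391698720322) (nat_lit 76) (nat_lit 1101368219882) (nat_lit 76) (nat_lit 1101324145562) (nat_lit 1) (nat_lit 4) (nat_lit 2) (nat_lit 5) (nat_lit 2) (nat_lit 4) (nat_lit 275) (nat_lit 193) (nat_lit 192)) (XT.lf (nat_lit 0) (nat_lit 452128936773) (nat_lit 76) (nat_lit 1265716530379) (nat_lit 76) (nat_lit 1265634130561) (nat_lit 1) (nat_lit 4) (nat_lit 2) (nat_lit 5) (nat_lit 2) (nat_lit 4) (nat_lit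 276) (nat_lit 193) (nat_lit 191))))) (XT.nd (nat_lit 234) (nat_lit 0) (nat_lit 0) (XT.nd (nat_lit 78) (nat_lit 0) (nat_lit 0) (XT.lf (nat_lit 0) (nat_lit 521488381792) (nat_lit 76) (nat_lit 1454782198148) (nat_lit 76) (nat_lit 1454666471813) (nat_lit 1) (nat_lit 4) (nat_lit 2) (nat_lit 5) (nat_lit 2) (nat_lit 4) (nat_lit 277) (nat_lit 193) (nat_lit 190)) (XT.nd (nat_lit 78) (nat_lit 0) (nat_lit 0) (XT.lf (nat_lit 0) (nat_lit 601134087999) (nat_lit 76) (nat_lit 1672264334083) (nat_lit 76) (nat_lit 1672119628166) (nat_lit 1) (nat_lit 4) (nat_lit 2) (nat_lit 5) (nat_lit 2) (nat_lit 4) (nat_lit 278) (nat_lit 193) (nat_lit 189)) (XT.lf (nat_lit 0) (nat_lit 692624340950) (nat_lit 76) (nat_lit 1922418023450) (nat_lit 76) (nat_lit 1922248117897) (nat_lit 1) (nat_lit 4) (nat_lit 2) (nat_lit 5) (nat_lit 2) (nat_lit 4) (nat_lit 279) (nat_lit 193) (nat_lit 188)))) (XT.nd (nat_lit 78) (nat_lit 0)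 (nat_lit 0) (XT.lf (nat_lit 0) (nat_lit 797749167334) (nat_lit 76) (nat_lit 2210137577565) (nat_lit 76) (nat_lit 2209945759285) (nat_lit 1) (nat_lit 4) (nat_lit 2) (nat_lit 5) (nat_lit 2) (nat_lit 4) (nat_lit 280) (nat_lit 193) (nat_lit 187)) (XT.nd (nat_lit 78) (nat_lit 0) (nat_lit 0) (XT.lf (nat_lit 0) (nat_lit 918565357232) (nat_lit 76) (nat_lit 2541052292049) (nat_lit 76) (nat_lit 2540841419224) (nat_lit 1) (nat_lit 4) (nat_lit 2) (nat_lit 5) (nat_lit 2) (nat_lit 4) (nat_lit 281) (nat_lit 193) (nat_lit 186)) (XT.lf (nat_lit 0) (nat_lit 1057436705663) (nat_lit 76) (nat_lit 2921636585232) (nat_lit 76) (nat_lit 2921409143237) (nat_lit 1) (nat_lit 4) (nat_lit 2) (nat_lit 5) (nat_lit 2) (nat_lit 4) (nat_lit 282) (nat_lit 193) (nat_lit 185))))))))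
noncomputable def xc1 : XT := (XT.nd (nat_lit 68094) (nat_lit 0) (nat_lit 0) (XT.nd (nat_lit 34086) (nat_lit 0) (nat_lit 0) (XT.nd (nat_lit 33618) (nat_lit 0) (nat_lit 0) (XT.nd (nat_lit 156) (nat_lit 0) (nat_lit 0) (XT.nd (nat_lit 78) (nat_lit 0) (nat_lit 0) (XT.lf (nat_lit 0) (nat_lit 1217080260749) (nat_lit 76) (nat_lit 3359336671544) (nat_lit 76) (nat_lit 3359094821575) (nat_lit 1) (nat_lit 4) (nat_lit 2) (nat_lit 5) (nat_lit 2) (nat_lit 4) (nat_lit 283) (nat_lit 193) (nat_lit 184)) (XT.lf (nat_lit 0) (nat_lit 1400619483351) (nat_lit 76) (nat_lit 3862716248326) (nat_lit 76) (nat_lit 3862461869685) (nat_lit 1) (nat_lit 4) (nat_lit 2) (nat_lit 5) (nat_lit 2) (nat_lit 4) (nat_lit 284) (nat_lit 193) (nat_lit 183))) (XT.nd (nat_lit 78) (nat_lit 0) (nat_lit 0) (XT.lf (nat_lit 0) (nat_lit 1611645358258) (nat_lit 76) (nat_lit 4441624046428) (nat_lit 76) (nat_lit 4441358773289) (nat_lit 1)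 (nat_lit 4) (nat_lit 2) (nat_lit 5) (nat_lit 2) (nat_lit 4) (nat_lit 285) (nat_lit 193) (nat_lit 182)) (XT.nd (nat_lit 33306) (nat_lit 0) (nat_lit 0) (XT.lf (nat_lit 0) (nat_lit 1854286652589) (nat_lit 76) (nat_lit 5107386522770) (nat_lit 76) (nat_lit 5107111776154) (nat_lit 1) (nat_lit 4) (nat_lit 2) (nat_lit 5) (nat_lit 2) (nat_lit 4) (nat_lit 286) (nat_lit 193) (nat_lit 181)) (XT.lf (nat_lit 0) (nat_lit 126496766311) (nat_lit 76) (nat_lit 363262857632) (nat_lit 76) (nat_lit 363262857632) (nat_lit 1) (nat_lit 4) (nat_lit 2) (nat_lit 5) (nat_lit 2) (nat_lit 4) (nat_lit 272) (nat_lit 194) (nat_lit 194))))) (XT.nd (nat_lit 234) (nat_lit 0) (nat_lit 0) (XT.nd (nat_lit 78) (nat_lit 0) (nat_lit 0) (XT.lf (nat_lit 0) (nat_lit 293048221585) (nat_lit 76) (nat_lit 834433002796) (nat_lit 76) (nat_lit 834382317327) (nat_lit 1) (nat_lit 4) (nat_lit 2) (nat_lit 5) (nat_lit 2) (nat_lit 4) (nat_lit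 273) (nat_lit 194) (nat_lit 193)) (XT.nd (nat_lit 78) (nat_lit 0) (nat_lit 0) (XT.lf (nat_lit 0) (nat_lit 338932174486) (nat_lit 76) (nat_lit 958612492357) (nat_lit 76) (nat_lit 958517732567) (nat_lit 1) (nat_lit 4) (nat_lit 2) (nat_lit 5) (nat_lit 2) (nat_lit 4) (nat_lit 274) (nat_lit 194) (nat_lit 192)) (XT.lf (nat_lit 0) (nat_lit 391543120837) (nat_lit 76) (nat_lit 1101493782655) (nat_lit 76) (nat_lit 1101360697369) (nat_lit 1) (nat_lit 4) (nat_lit 2) (nat_lit 5) (nat_lit 2) (nat_lit 4) (nat_lit 275) (nat_lit 194) (nat_lit 191)))) (XT.nd (nat_lit 78) (nat_lit 0) (nat_lit 0) (XT.lf (nat_lit 0) (nat_lit 451910405242) (nat_lit 76) (nat_lit 1265872377198) (nat_lit 76) (nat_lit 1265705965393) (nat_lit 1) (nat_lit 4) (nat_lit 2) (nat_lit 5) (nat_lit 2) (nat_lit 4) (nat_lit 276) (nat_lit 194) (nat_lit 190)) (XT.nd (nat_lit 78) (nat_lit 0) (nat_lit 0) (XT.lf (nat_lit 0) (nat_lit 521215126742)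 (nat_lit 76) (nat_lit 1454964378921) (nat_lit 76) (nat_lit 1454768987535) (nat_lit 1) (nat_lit 4) (nat_lit 2) (nat_lit 5) (nat_lit 2) (nat_lit 4) (nat_lit 277) (nat_lit 194) (nat_lit 189)) (XT.lf (nat_lit 0) (nat_lit 600813247281) (nat_lit 76) (nat_lit 1672469413945) (nat_lit 76) (nat_lit 1672248822923) (nat_lit 1) (nat_lit 4) (nat_lit 2) (nat_lit 5) (nat_lit 2) (nat_lit 4) (nat_lit 278) (nat_lit 194) (nat_lit 188)))))) (XT.nd (nat_lit 468) (nat_lit 0) (nat_lit 0) (XT.nd (nat_lit 234) (nat_lit 0) (nat_lit 0) (XT.nd (nat_lit 78) (nat_lit 0) (nat_lit 0) (XT.lf (nat_lit 0) (nat_lit 692262121391) (nat_lit 76) (nat_lit 1922643015564) (nat_lit 76) (nat_lit 1922400511815) (nat_lit 1) (nat_lit 4) (nat_lit 2) (nat_lit 5) (nat_lit 2) (nat_lit 4) (nat_lit 279) (nat_lit 194) (nat_lit 187)) (XT.nd (nat_lit 78) (nat_lit 0) (nat_lit 0) (XT.lf (nat_lit 0) (nat_lit 797350966173) (nat_lit 76) (nat_lit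 2210379884680) (nat_lit 76) (nat_lit 2210118326386) (nat_lit 1) (nat_lit 4) (nat_lit 2) (nat_lit 5) (nat_lit 2) (nat_lit 4) (nat_lit 280) (nat_lit 194) (nat_lit 186)) (XT.lf (nat_lit 0) (nat_lit 918135867721) (nat_lit 76) (nat_lit 2541309655688) (nat_lit 76) (nat_lit 2541031528224) (nat_lit 1) (nat_lit 4) (nat_lit 2) (nat_lit 5) (nat_lit 2) (nat_lit 4) (nat_lit 281) (nat_lit 194) (nat_lit 185)))) (XT.nd (nat_lit 78) (nat_lit 0) (nat_lit 0) (XT.lf (nat_lit 0) (nat_lit 1056980008892) (nat_lit 76) (nat_lit 2921907041499) (nat_lit 76) (nat_lit 2921614506062) (nat_lit 1) (nat_lit 4) (nat_lit 2) (nat_lit 5) (nat_lit 2) (nat_lit 4) (nat_lit 282) (nat_lit 194) (nat_lit 184)) (XT.nd (nat_lit 78) (nat_lit 0) (nat_lit 0) (XT.lf (nat_lit 0) (nat_lit 1216599905491) (nat_lit 76) (nat_lit 3359618512706) (nat_lit 76) (nat_lit 3359313448596) (nat_lit 1) (nat_lit 4) (nat_lit 2) (nat_lit 5) (nat_lit 2)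 (nat_lit 4) (nat_lit 283) (nat_lit 194) (nat_lit 183)) (XT.lf (nat_lit 0) (nat_lit 1400118555495) (nat_lit 76) (nat_lit 3863007989396) (nat_lit 76) (nat_lit 3862692030788) (nat_lit 1) (nat_lit 4) (nat_lit 2) (nat_lit 5) (nat_lit 2) (nat_lit 4) (nat_lit 284) (nat_lit 194) (nat_lit 182))))) (XT.nd (nat_lit 33306) (nat_lit 0) (nat_lit 0) (XT.nd (nat_lit 78) (nat_lit 0) (nat_lit 0) (XT.lf (nat_lit 0) (nat_lit 1611126541187) (nat_lit 76) (nat_lit 4441924396114) (nat_lit 76) (nat_lit 4441598964030) (nat_lit 1) (nat_lit 4) (nat_lit 2) (nat_lit 5) (nat_lit 2) (nat_lit 4) (nat_lit 285) (nat_lit 194) (nat_lit 181)) (XT.nd (nat_lit 33150) (nat_lit 0) (nat_lit 0) (XT.lf (nat_lit 0) (nat_lit 1853752279679) (nat_lit 76) (nat_lit 5107694358210) (nat_lit 76) (nat_lit 5107360688319) (nat_lit 1) (nat_lit 4) (nat_lit 2) (nat_lit 5) (nat_lit 2) (nat_lit 4) (nat_lit 286) (nat_lit 194) (nat_lit 180)) (XT.lf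 (nat_lit 0) (nat_lit 93723009116) (nat_lit 76) (nat_lit 275682605972) (nat_lit 76) (nat_lit 275682605972) (nat_lit 1) (nat_lit 4) (nat_lit 2) (nat_lit 5) (nat_lit 2) (nat_lit 4) (nat_lit 270) (nat_lit 195) (nat_lit 195)))) (XT.nd (nat_lit 78) (nat_lit 0) (nat_lit 0) (XT.lf (nat_lit 0) (nat_lit 217984428898) (nat_lit 76) (nat_lit 632837688514) (nat_lit 76) (nat_lit 632779400225) (nat_lit 1) (nat_lit 4) (nat_lit 2) (nat_lit 5) (nat_lit 2) (nat_lit 4) (nat_lit 271) (nat_lit 195) (nat_lit 194)) (XT.nd (nat_lit 78) (nat_lit 0) (nat_lit 0) (XT.lf (nat_lit 0) (nat_lit 252897820846) (nat_lit 76) (nat_lit 726630061803) (nat_lit 76) (nat_lit 726521088045) (nat_lit 1) (nat_lit 4) (nat_lit 2) (nat_lit 5) (nat_lit 2) (nat_lit 4) (nat_lit 272) (nat_lit 195) (nat_lit 193)) (XT.lf (nat_lit 0) (nat_lit 292869282178) (nat_lit 76) (nat_lit 834577399985) (nat_lit 76) (nat_lit 834424351906) (nat_lit 1) (nat_lit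 4) (nat_lit 2) (nat_lit 5) (nat_lit 2) (nat_lit 4) (nat_lit 273) (nat_lit 195) (nat_lit 192))))))) (XT.nd (nat_lit 858) (nat_lit 0) (nat_lit 0) (XT.nd (nat_lit 390) (nat_lit 0) (nat_lit 0) (XT.nd (nat_lit 156) (nat_lit 0) (nat_lit 0) (XT.nd (nat_lit 78) (nat_lit 0) (nat_lit 0) (XT.lf (nat_lit 0) (nat_lit 338680863225) (nat_lit 76) (nat_lit 958791716199) (nat_lit 76) (nat_lit 958600342623) (nat_lit 1) (nat_lit 4) (nat_lit 2) (nat_lit 5) (nat_lit 2) (nat_lit 4) (nat_lit 274) (nat_lit 195) (nat_lit 191)) (XT.lf (nat_lit 0) (nat_lit 391228877531) (nat_lit 76) (nat_lit 1101703290543) (nat_lit 76) (nat_lit 1101478590449) (nat_lit 1) (nat_lit 4) (nat_lit 2) (nat_lit 5) (nat_lit 2) (nat_lit 4) (nat_lit 275) (nat_lit 195) (nat_lit 190))) (XT.nd (nat_lit 78) (nat_lit 0) (nat_lit 0) (XT.lf (nat_lit 0) (nat_lit 451541438417) (nat_lit 76) (nat_lit 1266108219039) (nat_lit 76) (nat_lit 1265854539363)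 (nat_lit 1) (nat_lit 4) (nat_lit 2) (nat_lit 5) (nat_lit 2) (nat_lit 4) (nat_lit 276) (nat_lit 195) (nat_lit 189)) (XT.nd (nat_lit 78) (nat_lit 0) (nat_lit 0) (XT.lf (nat_lit 0) (nat_lit 520798574249) (nat_lit 76) (nat_lit 1455223119851) (nat_lit 76) (nat_lit 1454944240540) (nat_lit 1) (nat_lit 4) (nat_lit 2) (nat_lit 5) (nat_lit 2) (nat_lit 4) (nat_lit 277) (nat_lit 195) (nat_lit 188)) (XT.lf (nat_lit 0) (nat_lit 600355315946) (nat_lit 76) (nat_lit 1672748067127) (nat_lit 76) (nat_lit 1672447275089) (nat_lit 1) (nat_lit 4) (nat_lit 2) (nat_lit 5) (nat_lit 2) (nat_lit 4) (nat_lit 278) (nat_lit 195) (nat_lit 187))))) (XT.nd (nat_lit 234) (nat_lit 0) (nat_lit 0) (XT.nd (nat_lit 78) (nat_lit 0) (nat_lit 0) (XT.lf (nat_lit 0) (nat_lit 691768208453) (nat_lit 76) (nat_lit 1922938983748) (nat_lit 76) (nat_lit 1922619137165) (nat_lit 1) (nat_lit 4) (nat_lit 2) (nat_lit 5) (nat_lit 2) (nat_lit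 4) (nat_lit 279) (nat_lit 195) (nat_lit 186)) (XT.nd (nat_lit 78) (nat_lit 0) (nat_lit 0) (XT.lf (nat_lit 0) (nat_lit 796825764886) (nat_lit 76) (nat_lit 2210690909387) (nat_lit 76) (nat_lit 2210354493634) (nat_lit 1) (nat_lit 4) (nat_lit 2) (nat_lit 5) (nat_lit 2) (nat_lit 4) (nat_lit 280) (nat_lit 195) (nat_lit 185)) (XT.lf (nat_lit 0) (nat_lit 917583459174) (nat_lit 76) (nat_lit 2541633773024) (nat_lit 76) (nat_lit 2541282949298) (nat_lit 1) (nat_lit 4) (nat_lit 2) (nat_lit 5) (nat_lit 2) (nat_lit 4) (nat_lit 281) (nat_lit 195) (nat_lit 184)))) (XT.nd (nat_lit 78) (nat_lit 0) (nat_lit 0) (XT.lf (nat_lit 0) (nat_lit 1056403941858) (nat_lit 76) (nat_lit 2922242543730) (nat_lit 76) (nat_lit 2921879191331) (nat_lit 1) (nat_lit 4) (nat_lit 2) (nat_lit 5) (nat_lit 2) (nat_lit 4) (nat_lit 282) (nat_lit 195) (nat_lit 183)) (XT.nd (nat_lit 78) (nat_lit 0) (nat_lit 0) (XT.lf (nat_lit 0) (nat_lit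 1216003265860) (nat_lit 76) (nat_lit 3359963914845) (nat_lit 76) (nat_lit 3359589667948) (nat_lit 1) (nat_lit 4) (nat_lit 2) (nat_lit 5) (nat_lit 2) (nat_lit 4) (nat_lit 283) (nat_lit 195) (nat_lit 182)) (XT.lf (nat_lit 0) (nat_lit 1399504026649) (nat_lit 76) (nat_lit 3863362000151) (nat_lit 76) (nat_lit 3862978279777) (nat_lit 1) (nat_lit 4) (nat_lit 2) (nat_lit 5) (nat_lit 2) (nat_lit 4) (nat_lit 284) (nat_lit 195) (nat_lit 181)))))) (XT.nd (nat_lit 33384) (nat_lit 0) (nat_lit 0) (XT.nd (nat_lit 33150) (nat_lit 0) (nat_lit 0) (XT.nd (nat_lit 78) (nat_lit 0) (nat_lit 0) (XT.lf (nat_lit 0) (nat_lit 1610496456501) (nat_lit 76) (nat_lit 4442285892623) (nat_lit 76) (nat_lit 4441893934443) (nat_lit 1) (nat_lit 4) (nat_lit 2) (nat_lit 5) (nat_lit 2) (nat_lit 4) (nat_lit 285) (nat_lit 195) (nat_lit 180)) (XT.nd (nat_lit 32994) (nat_lit 0) (nat_lit 0) (XT.lf (nat_lit 0) (nat_lit 1853108668176)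 (nat_lit 76) (nat_lit 5108062364068) (nat_lit 76) (nat_lit 5107663242579) (nat_lit 1) (nat_lit 4) (nat_lit 2) (nat_lit 5) (nat_lit 2) (nat_lit 4) (nat_lit 286) (nat_lit 195) (nat_lit 179)) (XT.lf (nat_lit 0) (nat_lit 68652332211) (nat_lit 76) (nat_lit 209609907790) (nat_lit 76) (nat_lit 209609907790) (nat_lit 1) (nat_lit 4) (nat_lit 2) (nat_lit 5) (nat_lit 2) (nat_lit 4) (nat_lit 268) (nat_lit 196) (nat_lit 196)))) (XT.nd (nat_lit 78) (nat_lit 0) (nat_lit 0) (XT.lf (nat_lit 0) (nat_lit 160685098205) (nat_lit 76) (nat_lit 480685636912) (nat_lit 76) (nat_lit 480618605380) (nat_lit 1) (nat_lit 4) (nat_lit 2) (nat_lit 5) (nat_lit 2) (nat_lit 4) (nat_lit 269) (nat_lit 196) (nat_lit 195)) (XT.nd (nat_lit 78) (nat_lit 0) (nat_lit 0) (XT.lf (nat_lit 0) (nat_lit 187335949690) (nat_lit 76) (nat_lit 551485210463) (nat_lit 76) (nat_lit 551359890641) (nat_lit 1) (nat_lit 4) (nat_lit 2) (nat_lit 5)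 (nat_lit 2) (nat_lit 4) (nat_lit 270) (nat_lit 196) (nat_lit 194)) (XT.lf (nat_lit 0) (nat_lit 217778648580) (nat_lit 76) (nat_lit 633003745281) (nat_lit 76) (nat_lit 632827739990) (nat_lit 1) (nat_lit 4) (nat_lit 2) (nat_lit 5) (nat_lit 2) (nat_lit 4) (nat_lit 271) (nat_lit 196) (nat_lit 193))))) (XT.nd (nat_lit 234) (nat_lit 0) (nat_lit 0) (XT.nd (nat_lit 78) (nat_lit 0) (nat_lit 0) (XT.lf (nat_lit 0) (nat_lit 252608812896) (nat_lit 76) (nat_lit 726836169221) (nat_lit 76) (nat_lit 726616089610) (nat_lit 1) (nat_lit 4) (nat_lit 2) (nat_lit 5) (nat_lit 2) (nat_lit 4) (nat_lit 272) (nat_lit 196) (nat_lit 192)) (XT.nd (nat_lit 78) (nat_lit 0) (nat_lit 0) (XT.lf (nat_lit 0) (nat_lit 292507902375) (nat_lit 76) (nat_lit 834818334056) (nat_lit 76) (nat_lit 834559928948) (nat_lit 1) (nat_lit 4) (nat_lit 2) (nat_lit 5) (nat_lit 2) (nat_lit 4) (nat_lit 273) (nat_lit 196) (nat_lit 191)) (XT.lf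 (nat_lit 0) (nat_lit 338256551376) (nat_lit 76) (nat_lit 959062934316) (nat_lit 76) (nat_lit 958771202689) (nat_lit 1) (nat_lit 4) (nat_lit 2) (nat_lit 5) (nat_lit 2) (nat_lit 4) (nat_lit 274) (nat_lit 196) (nat_lit 190)))) (XT.nd (nat_lit 78) (nat_lit 0) (nat_lit 0) (XT.lf (nat_lit 0) (nat_lit 390749842163) (nat_lit 76) (nat_lit 1102000842614) (nat_lit 76) (nat_lit 1101680131406) (nat_lit 1) (nat_lit 4) (nat_lit 2) (nat_lit 5) (nat_lit 2) (nat_lit 4) (nat_lit 275) (nat_lit 196) (nat_lit 189)) (XT.nd (nat_lit 78) (nat_lit 0) (nat_lit 0) (XT.lf (nat_lit 0) (nat_lit 451014817381) (nat_lit 76) (nat_lit 1266428670199) (nat_lit 76) (nat_lit 1266082759355) (nat_lit 1) (nat_lit 4) (nat_lit 2) (nat_lit 5) (nat_lit 2) (nat_lit 4) (nat_lit 276) (nat_lit 196) (nat_lit 188)) (XT.lf (nat_lit 0) (nat_lit 520230574371) (nat_lit 76) (nat_lit 1455563483263) (nat_lit 76) (nat_lit 1455195659693) (nat_lit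 1) (nat_lit 4) (nat_lit 2) (nat_lit 5) (nat_lit 2) (nat_lit 4) (nat_lit 277) (nat_lit 196) (nat_lit 187))))))))
noncomputable def xc2 : XT := (XT.nd (nat_lit 34554) (nat_lit 0) (nat_lit 0) (XT.nd (nat_lit 33618) (nat_lit 0) (nat_lit 0) (XT.nd (nat_lit 390) (nat_lit 0) (nat_lit 0) (XT.nd (nat_lit 156) (nat_lit 0) (nat_lit 0) (XT.nd (nat_lit 78) (nat_lit 0) (nat_lit 0) (XT.lf (nat_lit 0) (nat_lit 599751334466) (nat_lit 76) (nat_lit 1673105745541) (nat_lit 76) (nat_lit 1672718867425) (nat_lit 1) (nat_lit 4) (nat_lit 2) (nat_lit 5) (nat_lit 2) (nat_lit 4) (nat_lit 278) (nat_lit 196) (nat_lit 186)) (XT.lf (nat_lit 0) (nat_lit 691132938625) (nat_lit 76) (nat_lit 1923311718685) (nat_lit 76) (nat_lit 1922908271400) (nat_lit 1) (nat_lit 4) (nat_lit 2) (nat_lit 5) (nat_lit 2) (nat_lit 4) (nat_lit 279) (nat_lit 196) (nat_lit 185))) (XT.nd (nat_lit 78) (nat_lit 0) (nat_lit 0) (XT.lf (nat_lit 0) (nat_lit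 796163287797) (nat_lit 76) (nat_lit 2211076736953) (nat_lit 76) (nat_lit 2210658881694) (nat_lit 1) (nat_lit 4) (nat_lit 2) (nat_lit 5) (nat_lit 2) (nat_lit 4) (nat_lit 280) (nat_lit 196) (nat_lit 184)) (XT.nd (nat_lit 78) (nat_lit 0) (nat_lit 0) (XT.lf (nat_lit 0) (nat_lit 916897323598) (nat_lit 76) (nat_lit 2542030985484) (nat_lit 76) (nat_lit 2541600601553) (nat_lit 1) (nat_lit 4) (nat_lit 2) (nat_lit 5) (nat_lit 2) (nat_lit 4) (nat_lit 281) (nat_lit 196) (nat_lit 183)) (XT.lf (nat_lit 0) (nat_lit 1055697233684) (nat_lit 76) (nat_lit 2922649656099) (nat_lit 76) (nat_lit 2922208377669) (nat_lit 1) (nat_lit 4) (nat_lit 2) (nat_lit 5) (nat_lit 2) (nat_lit 4) (nat_lit 282) (nat_lit 196) (nat_lit 182))))) (XT.nd (nat_lit 234) (nat_lit 0) (nat_lit 0) (XT.nd (nat_lit 78) (nat_lit 0) (nat_lit 0) (XT.lf (nat_lit 0) (nat_lit 1215278668470) (nat_lit 76) (nat_lit 3360379635830) (nat_lit 76) (nat_lit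 3359928883923) (nat_lit 1) (nat_lit 4) (nat_lit 2) (nat_lit 5) (nat_lit 2) (nat_lit 4) (nat_lit 283) (nat_lit 196) (nat_lit 181)) (XT.nd (nat_lit 78) (nat_lit 0) (nat_lit 0) (XT.lf (nat_lit 0) (nat_lit 1398763873420) (nat_lit 76) (nat_lit 3863785206889) (nat_lit 76) (nat_lit 3863326217177) (nat_lit 1) (nat_lit 4) (nat_lit 2) (nat_lit 5) (nat_lit 2) (nat_lit 4) (nat_lit 284) (nat_lit 196) (nat_lit 180)) (XT.lf (nat_lit 0) (nat_lit 1609742776456) (nat_lit 76) (nat_lit 4442715608711) (nat_lit 76) (nat_lit 4442249455689) (nat_lit 1) (nat_lit 4) (nat_lit 2) (nat_lit 5) (nat_lit 2) (nat_lit 4) (nat_lit 285) (nat_lit 196) (nat_lit 179)))) (XT.nd (nat_lit 32838) (nat_lit 0) (nat_lit 0) (XT.lf (nat_lit 0) (nat_lit 1852343225681) (nat_lit 76) (nat_lit 5108497740461) (nat_lit 76) (nat_lit 5108025358475) (nat_lit 1) (nat_lit 4) (nat_lit 2) (nat_lit 5) (nat_lit 2) (nat_lit 4) (nat_lit 286) (nat_lit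 196) (nat_lit 178)) (XT.nd (nat_lit 78) (nat_lit 0) (nat_lit 0) (XT.lf (nat_lit 0) (nat_lit 49362939492) (nat_lit 76) (nat_lit 159822593144) (nat_lit 76) (nat_lit 159822593144) (nat_lit 1) (nat_lit 4) (nat_lit 2) (nat_lit 5) (nat_lit 2) (nat_lit 4) (nat_lit 266) (nat_lit 197) (nat_lit 197)) (XT.lf (nat_lit 0) (nat_lit 116737205070) (nat_lit 76) (nat_lit 365962240575) (nat_lit 76) (nat_lit 365885154312) (nat_lit 1) (nat_lit 4) (nat_lit 2) (nat_lit 5) (nat_lit 2) (nat_lit 4) (nat_lit 267) (nat_lit 197) (nat_lit 196)))))) (XT.nd (nat_lit 468) (nat_lit 0) (nat_lit 0) (XT.nd (nat_lit 234) (nat_lit 0) (nat_lit 0) (XT.nd (nat_lit 78) (nat_lit 0) (nat_lit 0) (XT.lf (nat_lit 0) (nat_lit 137178085598) (nat_lit 76) (nat_lit 419357813877) (nat_lit 76) (nat_lit 419213696082) (nat_lit 1) (nat_lit 4) (nat_lit 2) (nat_lit 5) (nat_lit 2) (nat_lit 4) (nat_lit 268) (nat_lit 197) (nat_lit 195)) (XT.nd (nat_lit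 78) (nat_lit 0) (nat_lit 0) (XT.lf (nat_lit 0) (nat_lit 160448450839) (nat_lit 76) (nat_lit 480876602195) (nat_lit 76) (nat_lit 480674196110) (nat_lit 1) (nat_lit 4) (nat_lit 2) (nat_lit 5) (nat_lit 2) (nat_lit 4) (nat_lit 269) (nat_lit 197) (nat_lit 194)) (XT.lf (nat_lit 0) (nat_lit 187003590549) (nat_lit 76) (nat_lit 551722233994) (nat_lit 76) (nat_lit 551469142441) (nat_lit 1) (nat_lit 4) (nat_lit 2) (nat_lit 5) (nat_lit 2) (nat_lit 4) (nat_lit 270) (nat_lit 197) (nat_lit 193)))) (XT.nd (nat_lit 78) (nat_lit 0) (nat_lit 0) (XT.lf (nat_lit 0) (nat_lit 217363061807) (nat_lit 76) (nat_lit 633280819463) (nat_lit 76) (nat_lit 632983653589) (nat_lit 1) (nat_lit 4) (nat_lit 2) (nat_lit 5) (nat_lit 2) (nat_lit 4) (nat_lit 271) (nat_lit 197) (nat_lit 192)) (XT.nd (nat_lit 78) (nat_lit 0) (nat_lit 0) (XT.lf (nat_lit 0) (nat_lit 252120854270) (nat_lit 76) (nat_lit 727148070056) (nat_lit 76) (nat_lit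 726812578686) (nat_lit 1) (nat_lit 4) (nat_lit 2) (nat_lit 5) (nat_lit 2) (nat_lit 4) (nat_lit 272) (nat_lit 197) (nat_lit 191)) (XT.lf (nat_lit 0) (nat_lit 291957011703) (nat_lit 76) (nat_lit 835160518937) (nat_lit 76) (nat_lit 834791701048) (nat_lit 1) (nat_lit 4) (nat_lit 2) (nat_lit 5) (nat_lit 2) (nat_lit 4) (nat_lit 273) (nat_lit 197) (nat_lit 190))))) (XT.nd (nat_lit 234) (nat_lit 0) (nat_lit 0) (XT.nd (nat_lit 78) (nat_lit 0) (nat_lit 0) (XT.lf (nat_lit 0) (nat_lit 337650937185) (nat_lit 76) (nat_lit 959431453150) (nat_lit 76) (nat_lit 959033655680) (nat_lit 1) (nat_lit 4) (nat_lit 2) (nat_lit 5) (nat_lit 2) (nat_lit 4) (nat_lit 274) (nat_lit 197) (nat_lit 189)) (XT.nd (nat_lit 78) (nat_lit 0) (nat_lit 0) (XT.lf (nat_lit 0) (nat_lit 390096642304) (nat_lit 76) (nat_lit 1102392260537) (nat_lit 76) (nat_lit 1101969263431) (nat_lit 1) (nat_lit 4) (nat_lit 2) (nat_lit 5) (nat_lit 2)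 (nat_lit 4) (nat_lit 275) (nat_lit 197) (nat_lit 188)) (XT.lf (nat_lit 0) (nat_lit 450320238680) (nat_lit 76) (nat_lit 1266840000374) (nat_lit 76) (nat_lit 1266395090541) (nat_lit 1) (nat_lit 4) (nat_lit 2) (nat_lit 5) (nat_lit 2) (nat_lit 4) (nat_lit 276) (nat_lit 197) (nat_lit 187)))) (XT.nd (nat_lit 78) (nat_lit 0) (nat_lit 0) (XT.lf (nat_lit 0) (nat_lit 519500014068) (nat_lit 76) (nat_lit 1455992128440) (nat_lit 76) (nat_lit 1455528164062) (nat_lit 1) (nat_lit 4) (nat_lit 2) (nat_lit 5) (nat_lit 2) (nat_lit 4) (nat_lit 277) (nat_lit 197) (nat_lit 186)) (XT.nd (nat_lit 78) (nat_lit 0) (nat_lit 0) (XT.lf (nat_lit 0) (nat_lit 598989485814) (nat_lit 76) (nat_lit 1673549447241) (nat_lit 76) (nat_lit 1673068913693) (nat_lit 1) (nat_lit 4) (nat_lit 2) (nat_lit 5) (nat_lit 2) (nat_lit 4) (nat_lit 278) (nat_lit 197) (nat_lit 185)) (XT.lf (nat_lit 0) (nat_lit 690343882712) (nat_lit 76) (nat_lit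 1923768513014) (nat_lit 76) (nat_lit 1923273571493) (nat_lit 1) (nat_lit 4) (nat_lit 2) (nat_lit 5) (nat_lit 2) (nat_lit 4) (nat_lit 279) (nat_lit 197) (nat_lit 184))))))) (XT.nd (nat_lit 33462) (nat_lit 0) (nat_lit 0) (XT.nd (nat_lit 390) (nat_lit 0) (nat_lit 0) (XT.nd (nat_lit 156) (nat_lit 0) (nat_lit 0) (XT.nd (nat_lit 78) (nat_lit 0) (nat_lit 0) (XT.lf (nat_lit 0) (nat_lit 795350573397) (nat_lit 76) (nat_lit 2211544916177) (nat_lit 76) (nat_lit 2211037445982) (nat_lit 1) (nat_lit 4) (nat_lit 2) (nat_lit 5) (nat_lit 2) (nat_lit 4) (nat_lit 280) (nat_lit 197) (nat_lit 183)) (XT.lf (nat_lit 0) (nat_lit 916064036600) (nat_lit 76) (nat_lit 2542509064617) (nat_lit 76) (nat_lit 2541990699924) (nat_lit 1) (nat_lit 4) (nat_lit 2) (nat_lit 5) (nat_lit 2) (nat_lit 4) (nat_lit 281) (nat_lit 197) (nat_lit 182))) (XT.nd (nat_lit 78) (nat_lit 0) (nat_lit 0) (XT.lf (nat_lit 0) (nat_lit 1054846057471)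 (nat_lit 76) (nat_lit 2923136343847) (nat_lit 76) (nat_lit 2922608505678) (nat_lit 1) (nat_lit 4) (nat_lit 2) (nat_lit 5) (nat_lit 2) (nat_lit 4) (nat_lit 282) (nat_lit 197) (nat_lit 181)) (XT.nd (nat_lit 78) (nat_lit 0) (nat_lit 0) (XT.lf (nat_lit 0) (nat_lit 1214411936418) (nat_lit 76) (nat_lit 3360873809331) (nat_lit 76) (nat_lit 3360337733356) (nat_lit 1) (nat_lit 4) (nat_lit 2) (nat_lit 5) (nat_lit 2) (nat_lit 4) (nat_lit 283) (nat_lit 197) (nat_lit 180)) (XT.lf (nat_lit 0) (nat_lit 1397883614551) (nat_lit 76) (nat_lit 3864285889741) (nat_lit 76) (nat_lit 3863742650457) (nat_lit 1) (nat_lit 4) (nat_lit 2) (nat_lit 5) (nat_lit 2) (nat_lit 4) (nat_lit 284) (nat_lit 197) (nat_lit 179))))) (XT.nd (nat_lit 32838) (nat_lit 0) (nat_lit 0) (XT.nd (nat_lit 78) (nat_lit 0) (nat_lit 0) (XT.lf (nat_lit 0) (nat_lit 1608850755137) (nat_lit 76) (nat_lit 4443221951867) (nat_lit 76) (nat_lit 4442672483619)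 (nat_lit 1) (nat_lit 4) (nat_lit 2) (nat_lit 5) (nat_lit 2) (nat_lit 4) (nat_lit 285) (nat_lit 197) (nat_lit 178)) (XT.nd (nat_lit 32682) (nat_lit 0) (nat_lit 0) (XT.lf (nat_lit 0) (nat_lit 1851440976145) (nat_lit 76) (nat_lit 5109009005622) (nat_lit 76) (nat_lit 5108454120882) (nat_lit 1) (nat_lit 4) (nat_lit 2) (nat_lit 5) (nat_lit 2) (nat_lit 4) (nat_lit 286) (nat_lit 197) (nat_lit 177)) (XT.lf (nat_lit 0) (nat_lit 34395174328) (nat_lit 76) (nat_lit 122375338777) (nat_lit 76) (nat_lit 122375338777) (nat_lit 1) (nat_lit 4) (nat_lit 2) (nat_lit 5) (nat_lit 2) (nat_lit 4) (nat_lit 264) (nat_lit 198) (nat_lit 198)))) (XT.nd (nat_lit 78) (nat_lit 0) (nat_lit 0) (XT.lf (nat_lit 0) (nat_lit 82791711830) (nat_lit 76) (nat_lit 279589096983) (nat_lit 76) (nat_lit 279500447781) (nat_lit 1) (nat_lit 4) (nat_lit 2) (nat_lit 5) (nat_lit 2) (nat_lit 4) (nat_lit 265) (nat_lit 198) (nat_lit 197)) (XT.nd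 (nat_lit 78) (nat_lit 0) (nat_lit 0) (XT.lf (nat_lit 0) (nat_lit 98580313337) (nat_lit 76) (nat_lit 319803884329) (nat_lit 76) (nat_lit 319638148865) (nat_lit 1) (nat_lit 4) (nat_lit 2) (nat_lit 5) (nat_lit 2) (nat_lit 4) (nat_lit 266) (nat_lit 198) (nat_lit 196)) (XT.lf (nat_lit 0) (nat_lit 116465060599) (nat_lit 76) (nat_lit 366181850650) (nat_lit 76) (nat_lit 365949083653) (nat_lit 1) (nat_lit 4) (nat_lit 2) (nat_lit 5) (nat_lit 2) (nat_lit 4) (nat_lit 267) (nat_lit 198) (nat_lit 195)))))) (XT.nd (nat_lit 468) (nat_lit 0) (nat_lit 0) (XT.nd (nat_lit 234) (nat_lit 0) (nat_lit 0) (XT.nd (nat_lit 78) (nat_lit 0) (nat_lit 0) (XT.lf (nat_lit 0) (nat_lit 136795872585) (nat_lit 76) (nat_lit 419630390938) (nat_lit 76) (nat_lit 419339335651) (nat_lit 1) (nat_lit 4) (nat_lit 2) (nat_lit 5) (nat_lit 2) (nat_lit 4) (nat_lit 268) (nat_lit 198) (nat_lit 194)) (XT.nd (nat_lit 78) (nat_lit 0) (nat_lit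 0) (XT.lf (nat_lit 0) (nat_lit 159970526050) (nat_lit 76) (nat_lit 481195237504) (nat_lit 76) (nat_lit 480853496748) (nat_lit 1) (nat_lit 4) (nat_lit 2) (nat_lit 5) (nat_lit 2) (nat_lit 4) (nat_lit 269) (nat_lit 198) (nat_lit 193)) (XT.lf (nat_lit 0) (nat_lit 186442438128) (nat_lit 76) (nat_lit 552080919954) (nat_lit 76) (nat_lit 551695104878) (nat_lit 1) (nat_lit 4) (nat_lit 2) (nat_lit 5) (nat_lit 2) (nat_lit 4) (nat_lit 270) (nat_lit 198) (nat_lit 192)))) (XT.nd (nat_lit 78) (nat_lit 0) (nat_lit 0) (XT.lf (nat_lit 0) (nat_lit 216729537533) (nat_lit 76) (nat_lit 633674332076) (nat_lit 76) (nat_lit 633250191503) (nat_lit 1) (nat_lit 4) (nat_lit 2) (nat_lit 5) (nat_lit 2) (nat_lit 4) (nat_lit 271) (nat_lit 198) (nat_lit 191)) (XT.nd (nat_lit 78) (nat_lit 0) (nat_lit 0) (XT.lf (nat_lit 0) (nat_lit 251424397950) (nat_lit 76) (nat_lit 727571866715) (nat_lit 76) (nat_lit 727114399624) (nat_lit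 1) (nat_lit 4) (nat_lit 2) (nat_lit 5) (nat_lit 2) (nat_lit 4) (nat_lit 272) (nat_lit 198) (nat_lit 190)) (XT.lf (nat_lit 0) (nat_lit 291205831864) (nat_lit 76) (nat_lit 835610649549) (nat_lit 76) (nat_lit 835124202877) (nat_lit 1) (nat_lit 4) (nat_lit 2) (nat_lit 5) (nat_lit 2) (nat_lit 4) (nat_lit 273) (nat_lit 198) (nat_lit 189))))) (XT.nd (nat_lit 234) (nat_lit 0) (nat_lit 0) (XT.nd (nat_lit 78) (nat_lit 0) (nat_lit 0) (XT.lf (nat_lit 0) (nat_lit 336852171679) (nat_lit 76) (nat_lit 959904482852) (nat_lit 76) (nat_lit 959392836544) (nat_lit 1) (nat_lit 4) (nat_lit 2) (nat_lit 5) (nat_lit 2) (nat_lit 4) (nat_lit 274) (nat_lit 198) (nat_lit 188)) (XT.nd (nat_lit 78) (nat_lit 0) (nat_lit 0) (XT.lf (nat_lit 0) (nat_lit 389256497955) (nat_lit 76) (nat_lit 1102885202491) (nat_lit 76) (nat_lit 1102351643456) (nat_lit 1) (nat_lit 4) (nat_lit 2) (nat_lit 5) (nat_lit 2) (nat_lit 4) (nat_lit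 275) (nat_lit 198) (nat_lit 187)) (XT.lf (nat_lit 0) (nat_lit 449444112729) (nat_lit 76) (nat_lit 1267350257330) (nat_lit 76) (nat_lit 1266797643750) (nat_lit 1) (nat_lit 4) (nat_lit 2) (nat_lit 5) (nat_lit 2) (nat_lit 4) (nat_lit 276) (nat_lit 198) (nat_lit 186)))) (XT.nd (nat_lit 78) (nat_lit 0) (nat_lit 0) (XT.lf (nat_lit 0) (nat_lit 518592599768) (nat_lit 76) (nat_lit 1456517441919) (nat_lit 76) (nat_lit 1455948259169) (nat_lit 1) (nat_lit 4) (nat_lit 2) (nat_lit 5) (nat_lit 2) (nat_lit 4) (nat_lit 277) (nat_lit 198) (nat_lit 185)) (XT.nd (nat_lit 78) (nat_lit 0) (nat_lit 0) (XT.lf (nat_lit 0) (nat_lit 598054864254) (nat_lit 76) (nat_lit 1674087853349) (nat_lit 76) (nat_lit 1673504262625) (nat_lit 1) (nat_lit 4) (nat_lit 2) (nat_lit 5) (nat_lit 2) (nat_lit 4) (nat_lit 278) (nat_lit 198) (nat_lit 184)) (XT.lf (nat_lit 0) (nat_lit 689385602665) (nat_lit 76) (nat_lit 1924318304017) (nat_lit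 76) (nat_lit 1923722184620) (nat_lit 1) (nat_lit 4) (nat_lit 2) (nat_lit 5) (nat_lit 2) (nat_lit 4) (nat_lit 279) (nat_lit 198) (nat_lit 183))))))))
noncomputable def xc3 : XT := (XT.nd (nat_lit 34242) (nat_lit 0) (nat_lit 0) (XT.nd (nat_lit 33306) (nat_lit 0) (nat_lit 0) (XT.nd (nat_lit 390) (nat_lit 0) (nat_lit 0) (XT.nd (nat_lit 156) (nat_lit 0) (nat_lit 0) (XT.nd (nat_lit 78) (nat_lit 0) (nat_lit 0) (XT.lf (nat_lit 0) (nat_lit 794371720752) (nat_lit 76) (nat_lit 2212104607087) (nat_lit 76) (nat_lit 2211497593193) (nat_lit 1) (nat_lit 4) (nat_lit 2) (nat_lit 5) (nat_lit 2) (nat_lit 4) (nat_lit 280) (nat_lit 198) (nat_lit 182)) (XT.lf (nat_lit 0) (nat_lit 915067294740) (nat_lit 76) (nat_lit 2543077364143) (nat_lit 76) (nat_lit 2542460876772) (nat_lit 1) (nat_lit 4) (nat_lit 2) (nat_lit 5) (nat_lit 2) (nat_lit 4) (nat_lit 281) (nat_lit 198) (nat_lit 181))) (XT.nd (nat_lit 78) (nat_lit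 0) (nat_lit 0) (XT.lf (nat_lit 0) (nat_lit 1053833759772) (nat_lit 76) (nat_lit 2923712129127) (nat_lit 76) (nat_lit 2923087403950) (nat_lit 1) (nat_lit 4) (nat_lit 2) (nat_lit 5) (nat_lit 2) (nat_lit 4) (nat_lit 282) (nat_lit 198) (nat_lit 180)) (XT.nd (nat_lit 78) (nat_lit 0) (nat_lit 0) (XT.lf (nat_lit 0) (nat_lit 1213386111902) (nat_lit 76) (nat_lit 3361456103961) (nat_lit 76) (nat_lit 3360824215475) (nat_lit 1) (nat_lit 4) (nat_lit 2) (nat_lit 5) (nat_lit 2) (nat_lit 4) (nat_lit 283) (nat_lit 198) (nat_lit 179)) (XT.lf (nat_lit 0) (nat_lit 1396846027585) (nat_lit 76) (nat_lit 3864873844676) (nat_lit 76) (nat_lit 3864235727225) (nat_lit 1) (nat_lit 4) (nat_lit 2) (nat_lit 5) (nat_lit 2) (nat_lit 4) (nat_lit 284) (nat_lit 198) (nat_lit 178))))) (XT.nd (nat_lit 32682) (nat_lit 0) (nat_lit 0) (XT.nd (nat_lit 78) (nat_lit 0) (nat_lit 0) (XT.lf (nat_lit 0) (nat_lit 1607802939955) (nat_lit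 76) (nat_lit 4443814828806) (nat_lit 76) (nat_lit 4443171294865) (nat_lit 1) (nat_lit 4) (nat_lit 2) (nat_lit 5) (nat_lit 2) (nat_lit 4) (nat_lit 285) (nat_lit 198) (nat_lit 177)) (XT.nd (nat_lit 32526) (nat_lit 0) (nat_lit 0) (XT.lf (nat_lit 0) (nat_lit 1850384266861) (nat_lit 76) (nat_lit 5109606162564) (nat_lit 76) (nat_lit 5108957918631) (nat_lit 1) (nat_lit 4) (nat_lit 2) (nat_lit 5) (nat_lit 2) (nat_lit 4) (nat_lit 286) (nat_lit 198) (nat_lit 176)) (XT.lf (nat_lit 0) (nat_lit 22637848521) (nat_lit 76) (nat_lit 94288809092) (nat_lit 76) (nat_lit 94288809092) (nat_lit 1) (nat_lit 4) (nat_lit 2) (nat_lit 5) (nat_lit 2) (nat_lit 4) (nat_lit 262) (nat_lit 199) (nat_lit 199)))) (XT.nd (nat_lit 78) (nat_lit 0) (nat_lit 0) (XT.lf (nat_lit 0) (nat_lit 56302284104) (nat_lit 76) (nat_lit 214708951377) (nat_lit 76) (nat_lit 214607004795) (nat_lit 1) (nat_lit 4) (nat_lit 2) (nat_lit 5) (nat_lit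 2) (nat_lit 4) (nat_lit 263) (nat_lit 199) (nat_lit 198)) (XT.nd (nat_lit 78) (nat_lit 0) (nat_lit 0) (XT.lf (nat_lit 0) (nat_lit 68622948163) (nat_lit 76) (nat_lit 244933180302) (nat_lit 76) (nat_lit 244742584518) (nat_lit 1) (nat_lit 4) (nat_lit 2) (nat_lit 5) (nat_lit 2) (nat_lit 4) (nat_lit 264) (nat_lit 199) (nat_lit 197)) (XT.lf (nat_lit 0) (nat_lit 82478745688) (nat_lit 76) (nat_lit 279841648569) (nat_lit 76) (nat_lit 279573966522) (nat_lit 1) (nat_lit 4) (nat_lit 2) (nat_lit 5) (nat_lit 2) (nat_lit 4) (nat_lit 265) (nat_lit 199) (nat_lit 196)))))) (XT.nd (nat_lit 468) (nat_lit 0) (nat_lit 0) (XT.nd (nat_lit 234) (nat_lit 0) (nat_lit 0) (XT.nd (nat_lit 78) (nat_lit 0) (nat_lit 0) (XT.lf (nat_lit 0) (nat_lit 98140768372) (nat_lit 76) (nat_lit 320117347949) (nat_lit 76) (nat_lit 319782634369) (nat_lit 1) (nat_lit 4) (nat_lit 2) (nat_lit 5) (nat_lit 2) (nat_lit 4) (nat_lit 266) (nat_lit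 199) (nat_lit 195)) (XT.nd (nat_lit 78) (nat_lit 0) (nat_lit 0) (XT.lf (nat_lit 0) (nat_lit 115915447092) (nat_lit 76) (nat_lit 366548281255) (nat_lit 76) (nat_lit 366155279386) (nat_lit 1) (nat_lit 4) (nat_lit 2) (nat_lit 5) (nat_lit 2) (nat_lit 4) (nat_lit 267) (nat_lit 199) (nat_lit 194)) (XT.lf (nat_lit 0) (nat_lit 136150547301) (nat_lit 76) (nat_lit 420042879792) (nat_lit 76) (nat_lit 419599192454) (nat_lit 1) (nat_lit 4) (nat_lit 2) (nat_lit 5) (nat_lit 2) (nat_lit 4) (nat_lit 268) (nat_lit 199) (nat_lit 193)))) (XT.nd (nat_lit 78) (nat_lit 0) (nat_lit 0) (XT.lf (nat_lit 0) (nat_lit 159241973136) (nat_lit 76) (nat_lit 481647777009) (nat_lit 76) (nat_lit 481160015350) (nat_lit 1) (nat_lit 4) (nat_lit 2) (nat_lit 5) (nat_lit 2) (nat_lit 4) (nat_lit 269) (nat_lit 199) (nat_lit 192)) (XT.nd (nat_lit 78) (nat_lit 0) (nat_lit 0) (XT.lf (nat_lit 0) (nat_lit 185641513360) (nat_lit 76) (nat_lit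 552568286112) (nat_lit 76) (nat_lit 552042198957) (nat_lit 1) (nat_lit 4) (nat_lit 2) (nat_lit 5) (nat_lit 2) (nat_lit 4) (nat_lit 270) (nat_lit 199) (nat_lit 191)) (XT.lf (nat_lit 0) (nat_lit 215865680719) (nat_lit 76) (nat_lit 634191982280) (nat_lit 76) (nat_lit 633632568607) (nat_lit 1) (nat_lit 4) (nat_lit 2) (nat_lit 5) (nat_lit 2) (nat_lit 4) (nat_lit 271) (nat_lit 199) (nat_lit 190))))) (XT.nd (nat_lit 234) (nat_lit 0) (nat_lit 0) (XT.nd (nat_lit 78) (nat_lit 0) (nat_lit 0) (XT.lf (nat_lit 0) (nat_lit 250505817617) (nat_lit 76) (nat_lit 728115850872) (nat_lit 76) (nat_lit 727527457618) (nat_lit 1) (nat_lit 4) (nat_lit 2) (nat_lit 5) (nat_lit 2) (nat_lit 4) (nat_lit 272) (nat_lit 199) (nat_lit 189)) (XT.nd (nat_lit 78) (nat_lit 0) (nat_lit 0) (XT.lf (nat_lit 0) (nat_lit 290239665863) (nat_lit 76) (nat_lit 836177532796) (nat_lit 76) (nat_lit 835563939906) (nat_lit 1) (nat_lit 4)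 (nat_lit 2) (nat_lit 5) (nat_lit 2) (nat_lit 4) (nat_lit 273) (nat_lit 199) (nat_lit 188)) (XT.lf (nat_lit 0) (nat_lit 335844626836) (nat_lit 76) (nat_lit 960491278351) (nat_lit 76) (nat_lit 959855772733) (nat_lit 1) (nat_lit 4) (nat_lit 2) (nat_lit 5) (nat_lit 2) (nat_lit 4) (nat_lit 274) (nat_lit 199) (nat_lit 187)))) (XT.nd (nat_lit 78) (nat_lit 0) (nat_lit 0) (XT.lf (nat_lit 0) (nat_lit 388212971510) (nat_lit 76) (nat_lit 1103489312992) (nat_lit 76) (nat_lit 1102834752829) (nat_lit 1) (nat_lit 4) (nat_lit 2) (nat_lit 5) (nat_lit 2) (nat_lit 4) (nat_lit 275) (nat_lit 199) (nat_lit 186)) (XT.nd (nat_lit 78) (nat_lit 0) (nat_lit 0) (XT.lf (nat_lit 0) (nat_lit 448369297935) (nat_lit 76) (nat_lit 1267969424353) (nat_lit 76) (nat_lit 1267298295021) (nat_lit 1) (nat_lit 4) (nat_lit 2) (nat_lit 5) (nat_lit 2) (nat_lit 4) (nat_lit 276) (nat_lit 199) (nat_lit 185)) (XT.lf (nat_lit 0) (nat_lit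 517490577714) (nat_lit 76) (nat_lit 1457149701572) (nat_lit 76) (nat_lit 1456464164266) (nat_lit 1) (nat_lit 4) (nat_lit 2) (nat_lit 5) (nat_lit 2) (nat_lit 4) (nat_lit 277) (nat_lit 199) (nat_lit 184))))))) (XT.nd (nat_lit 33150) (nat_lit 0) (nat_lit 0) (XT.nd (nat_lit 390) (nat_lit 0) (nat_lit 0) (XT.nd (nat_lit 156) (nat_lit 0) (nat_lit 0) (XT.nd (nat_lit 78) (nat_lit 0) (nat_lit 0) (XT.lf (nat_lit 0) (nat_lit 596929183712) (nat_lit 76) (nat_lit 1674731497896) (nat_lit 76) (nat_lit 1674033431917) (nat_lit 1) (nat_lit 4) (nat_lit 2) (nat_lit 5) (nat_lit 2) (nat_lit 4) (nat_lit 278) (nat_lit 199) (nat_lit 183)) (XT.lf (nat_lit 0) (nat_lit 688239349526) (nat_lit 76) (nat_lit 1924971848472) (nat_lit 76) (nat_lit 1924262887995) (nat_lit 1) (nat_lit 4) (nat_lit 2) (nat_lit 5) (nat_lit 2) (nat_lit 4) (nat_lit 279) (nat_lit 199) (nat_lit 182))) (XT.nd (nat_lit 78) (nat_lit 0) (nat_lit 0) (XT.lf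 (nat_lit 0) (nat_lit 793207578398) (nat_lit 76) (nat_lit 2212766760159) (nat_lit 76) (nat_lit 2212048326206) (nat_lit 1) (nat_lit 4) (nat_lit 2) (nat_lit 5) (nat_lit 2) (nat_lit 4) (nat_lit 280) (nat_lit 199) (nat_lit 181)) (XT.nd (nat_lit 78) (nat_lit 0) (nat_lit 0) (XT.lf (nat_lit 0) (nat_lit 913887596547) (nat_lit 76) (nat_lit 2543747002968) (nat_lit 76) (nat_lit 2543020331209) (nat_lit 1) (nat_lit 4) (nat_lit 2) (nat_lit 5) (nat_lit 2) (nat_lit 4) (nat_lit 281) (nat_lit 199) (nat_lit 180)) (XT.lf (nat_lit 0) (nat_lit 1052640534762) (nat_lit 76) (nat_lit 2924388277302) (nat_lit 76) (nat_lit 2923654442233) (nat_lit 1) (nat_lit 4) (nat_lit 2) (nat_lit 5) (nat_lit 2) (nat_lit 4) (nat_lit 282) (nat_lit 199) (nat_lit 179))))) (XT.nd (nat_lit 234) (nat_lit 0) (nat_lit 0) (XT.nd (nat_lit 78) (nat_lit 0) (nat_lit 0) (XT.lf (nat_lit 0) (nat_lit 1212181124442) (nat_lit 76) (nat_lit 3362137912441)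 (nat_lit 76) (nat_lit 3361397848408) (nat_lit 1) (nat_lit 4) (nat_lit 2) (nat_lit 5) (nat_lit 2) (nat_lit 4) (nat_lit 283) (nat_lit 199) (nat_lit 178)) (XT.nd (nat_lit 78) (nat_lit 0) (nat_lit 0) (XT.lf (nat_lit 0) (nat_lit 1395630811909) (nat_lit 76) (nat_lit 3865560575159) (nat_lit 76) (nat_lit 3864815094636) (nat_lit 1) (nat_lit 4) (nat_lit 2) (nat_lit 5) (nat_lit 2) (nat_lit 4) (nat_lit 284) (nat_lit 199) (nat_lit 177)) (XT.lf (nat_lit 0) (nat_lit 1606578830176) (nat_lit 76) (nat_lit 4444505839294) (nat_lit 76) (nat_lit 4443755648778) (nat_lit 1) (nat_lit 4) (nat_lit 2) (nat_lit 5) (nat_lit 2) (nat_lit 4) (nat_lit 285) (nat_lit 199) (nat_lit 176)))) (XT.nd (nat_lit 32370) (nat_lit 0) (nat_lit 0) (XT.lf (nat_lit 0) (nat_lit 1849152423081) (nat_lit 76) (nat_lit 5110300894794) (nat_lit 76) (nat_lit 5109546608633) (nat_lit 1) (nat_lit 4) (nat_lit 2) (nat_lit 5) (nat_lit 2) (nat_lit 4)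 (nat_lit 286) (nat_lit 199) (nat_lit 175)) (XT.nd (nat_lit 78) (nat_lit 0) (nat_lit 0) (XT.lf (nat_lit 0) (nat_lit 13242144358) (nat_lit 76) (nat_lit 73314678281) (nat_lit 76) (nat_lit 73314678281) (nat_lit 1) (nat_lit 4) (nat_lit 2) (nat_lit 5) (nat_lit 2) (nat_lit 4) (nat_lit 260) (nat_lit 200) (nat_lit 200)) (XT.lf (nat_lit 0) (nat_lit 35327449405) (nat_lit 76) (nat_lit 166145154081) (nat_lit 76) (nat_lit 166027915512) (nat_lit 1) (nat_lit 4) (nat_lit 2) (nat_lit 5) (nat_lit 2) (nat_lit 4) (nat_lit 261) (nat_lit 200) (nat_lit 199)))))) (XT.nd (nat_lit 468) (nat_lit 0) (nat_lit 0) (XT.nd (nat_lit 234) (nat_lit 0) (nat_lit 0) (XT.nd (nat_lit 78) (nat_lit 0) (nat_lit 0) (XT.lf (nat_lit 0) (nat_lit 45083186474) (nat_lit 76) (nat_lit 188787496344) (nat_lit 76) (nat_lit 188568311193) (nat_lit 1) (nat_lit 4) (nat_lit 2) (nat_lit 5) (nat_lit 2) (nat_lit 4) (nat_lit 262) (nat_lit 200) (nat_lit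 198)) (XT.nd (nat_lit 78) (nat_lit 0) (nat_lit 0) (XT.lf (nat_lit 0) (nat_lit 55942373042) (nat_lit 76) (nat_lit 214999385701) (nat_lit 76) (nat_lit 214691551347) (nat_lit 1) (nat_lit 4) (nat_lit 2) (nat_lit 5) (nat_lit 2) (nat_lit 4) (nat_lit 263) (nat_lit 200) (nat_lit 197)) (XT.lf (nat_lit 0) (nat_lit 68117471453) (nat_lit 76) (nat_lit 245293663464) (nat_lit 76) (nat_lit 244908742848) (nat_lit 1) (nat_lit 4) (nat_lit 2) (nat_lit 5) (nat_lit 2) (nat_lit 4) (nat_lit 264) (nat_lit 200) (nat_lit 196)))) (XT.nd (nat_lit 78) (nat_lit 0) (nat_lit 0) (XT.lf (nat_lit 0) (nat_lit 81846690155) (nat_lit 76) (nat_lit 280263043765) (nat_lit 76) (nat_lit 279811091616) (nat_lit 1) (nat_lit 4) (nat_lit 2) (nat_lit 5) (nat_lit 2) (nat_lit 4) (nat_lit 265) (nat_lit 200) (nat_lit 195)) (XT.nd (nat_lit 78) (nat_lit 0) (nat_lit 0) (XT.lf (nat_lit 0) (nat_lit 97398644296) (nat_lit 76) (nat_lit 320591710131)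 (nat_lit 76) (nat_lit 320081469693) (nat_lit 1) (nat_lit 4) (nat_lit 2) (nat_lit 5) (nat_lit 2) (nat_lit 4) (nat_lit 266) (nat_lit 200) (nat_lit 194)) (XT.lf (nat_lit 0) (nat_lit 115077611240) (nat_lit 76) (nat_lit 367068701686) (nat_lit 76) (nat_lit 366507775779) (nat_lit 1) (nat_lit 4) (nat_lit 2) (nat_lit 5) (nat_lit 2) (nat_lit 4) (nat_lit 267) (nat_lit 200) (nat_lit 193))))) (XT.nd (nat_lit 234) (nat_lit 0) (nat_lit 0) (XT.nd (nat_lit 78) (nat_lit 0) (nat_lit 0) (XT.lf (nat_lit 0) (nat_lit 135229483818) (nat_lit 76) (nat_lit 420603350873) (nat_lit 76) (nat_lit 419998350646) (nat_lit 1) (nat_lit 4) (nat_lit 2) (nat_lit 5) (nat_lit 2) (nat_lit 4) (nat_lit 268) (nat_lit 200) (nat_lit 192)) (XT.nd (nat_lit 78) (nat_lit 0) (nat_lit 0) (XT.lf (nat_lit 0) (nat_lit 158248537799) (nat_lit 76) (nat_lit 482243074743) (nat_lit 76) (nat_lit 481599749019) (nat_lit 1) (nat_lit 4) (nat_lit 2) (nat_lit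 5) (nat_lit 2) (nat_lit 4) (nat_lit 269) (nat_lit 200) (nat_lit 191)) (XT.lf (nat_lit 0) (nat_lit 184585145978) (nat_lit 76) (nat_lit 553193867893) (nat_lit 76) (nat_lit 552517215650) (nat_lit 1) (nat_lit 4) (nat_lit 2) (nat_lit 5) (nat_lit 2) (nat_lit 4) (nat_lit 270) (nat_lit 200) (nat_lit 190)))) (XT.nd (nat_lit 78) (nat_lit 0) (nat_lit 0) (XT.lf (nat_lit 0) (nat_lit 214754589818) (nat_lit 76) (nat_lit 634843898014) (nat_lit 76) (nat_lit 634138266190) (nat_lit 1) (nat_lit 4) (nat_lit 2) (nat_lit 5) (nat_lit 2) (nat_lit 4) (nat_lit 271) (nat_lit 200) (nat_lit 189)) (XT.nd (nat_lit 78) (nat_lit 0) (nat_lit 0) (XT.lf (nat_lit 0) (nat_lit 249347141048) (nat_lit 76) (nat_lit 728790665696) (nat_lit 76) (nat_lit 728059834236) (nat_lit 1) (nat_lit 4) (nat_lit 2) (nat_lit 5) (nat_lit 2) (nat_lit 4) (nat_lit 272) (nat_lit 200) (nat_lit 188)) (XT.lf (nat_lit 0) (nat_lit 289039610452) (nat_lit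 76) (nat_lit 836872259872) (nat_lit 76) (nat_lit 836119515685) (nat_lit 1) (nat_lit 4) (nat_lit 2) (nat_lit 5) (nat_lit 2) (nat_lit 4) (nat_lit 273) (nat_lit 200) (nat_lit 187))))))))
noncomputable def xc4 : XT := (XT.nd (nat_lit 33930) (nat_lit 0) (nat_lit 0) (XT.nd (nat_lit 858) (nat_lit 0) (nat_lit 0) (XT.nd (nat_lit 390) (nat_lit 0) (nat_lit 0) (XT.nd (nat_lit 156) (nat_lit 0) (nat_lit 0) (XT.nd (nat_lit 78) (nat_lit 0) (nat_lit 0) (XT.lf (nat_lit 0) (nat_lit 334608589823) (nat_lit 76) (nat_lit 961203320428) (nat_lit 76) (nat_lit 960431521696) (nat_lit 1) (nat_lit 4) (nat_lit 2) (nat_lit 5) (nat_lit 2) (nat_lit 4) (nat_lit 274) (nat_lit 200) (nat_lit 186)) (XT.lf (nat_lit 0) (nat_lit 386945646148) (nat_lit 76) (nat_lit 1104216411592) (nat_lit 76) (nat_lit 1103428043690) (nat_lit 1) (nat_lit 4) (nat_lit 2) (nat_lit 5) (nat_lit 2) (nat_lit 4) (nat_lit 275) (nat_lit 200) (nat_lit 185)))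 (XT.nd (nat_lit 78) (nat_lit 0) (nat_lit 0) (XT.lf (nat_lit 0) (nat_lit 447074765313) (nat_lit 76) (nat_lit 1268709615583) (nat_lit 76) (nat_lit 1267906839707) (nat_lit 1) (nat_lit 4) (nat_lit 2) (nat_lit 5) (nat_lit 2) (nat_lit 4) (nat_lit 276) (nat_lit 200) (nat_lit 184)) (XT.nd (nat_lit 78) (nat_lit 0) (nat_lit 0) (XT.lf (nat_lit 0) (nat_lit 516172386604) (nat_lit 76) (nat_lit 1457901277695) (nat_lit 76) (nat_lit 1457085973147) (nat_lit 1) (nat_lit 4) (nat_lit 2) (nat_lit 5) (nat_lit 2) (nat_lit 4) (nat_lit 277) (nat_lit 200) (nat_lit 183)) (XT.lf (nat_lit 0) (nat_lit 595590420005) (nat_lit 76) (nat_lit 1675492973928) (nat_lit 76) (nat_lit 1674666774882) (nat_lit 1) (nat_lit 4) (nat_lit 2) (nat_lit 5) (nat_lit 2) (nat_lit 4) (nat_lit 278) (nat_lit 200) (nat_lit 182))))) (XT.nd (nat_lit 234) (nat_lit 0) (nat_lit 0) (XT.nd (nat_lit 78) (nat_lit 0) (nat_lit 0) (XT.lf (nat_lit 0) (nat_lit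 686882696603) (nat_lit 76) (nat_lit 1925741933120) (nat_lit 76) (nat_lit 1924906260598) (nat_lit 1) (nat_lit 4) (nat_lit 2) (nat_lit 5) (nat_lit 2) (nat_lit 4) (nat_lit 279) (nat_lit 200) (nat_lit 181)) (XT.nd (nat_lit 78) (nat_lit 0) (nat_lit 0) (XT.lf (nat_lit 0) (nat_lit 791835369636) (nat_lit 76) (nat_lit 2213544330560) (nat_lit 76) (nat_lit 2212700420232) (nat_lit 1) (nat_lit 4) (nat_lit 2) (nat_lit 5) (nat_lit 2) (nat_lit 4) (nat_lit 280) (nat_lit 200) (nat_lit 180)) (XT.lf (nat_lit 0) (nat_lit 912501860968) (nat_lit 76) (nat_lit 2544531082720) (nat_lit 76) (nat_lit 2543680009082) (nat_lit 1) (nat_lit 4) (nat_lit 2) (nat_lit 5) (nat_lit 2) (nat_lit 4) (nat_lit 281) (nat_lit 200) (nat_lit 179)))) (XT.nd (nat_lit 78) (nat_lit 0) (nat_lit 0) (XT.lf (nat_lit 0) (nat_lit 1051243036733) (nat_lit 76) (nat_lit 2925178017358) (nat_lit 76) (nat_lit 2924320714756) (nat_lit 1) (nat_lit 4) (nat_lit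 2) (nat_lit 5) (nat_lit 2) (nat_lit 4) (nat_lit 282) (nat_lit 200) (nat_lit 178)) (XT.nd (nat_lit 78) (nat_lit 0) (nat_lit 0) (XT.lf (nat_lit 0) (nat_lit 1210773398197) (nat_lit 76) (nat_lit 3362932574501) (nat_lit 76) (nat_lit 3362069855408) (nat_lit 1) (nat_lit 4) (nat_lit 2) (nat_lit 5) (nat_lit 2) (nat_lit 4) (nat_lit 283) (nat_lit 200) (nat_lit 177)) (XT.lf (nat_lit 0) (nat_lit 1394214191562) (nat_lit 76) (nat_lit 3866359517224) (nat_lit 76) (nat_lit 3865492088138) (nat_lit 1) (nat_lit 4) (nat_lit 2) (nat_lit 5) (nat_lit 2) (nat_lit 4) (nat_lit 284) (nat_lit 200) (nat_lit 176)))))) (XT.nd (nat_lit 32604) (nat_lit 0) (nat_lit 0) (XT.nd (nat_lit 32370) (nat_lit 0) (nat_lit 0) (XT.nd (nat_lit 78) (nat_lit 0) (nat_lit 0) (XT.lf (nat_lit 0) (nat_lit 1605154475828) (nat_lit 76) (nat_lit 4445308503100) (nat_lit 76) (nat_lit 4444436978370) (nat_lit 1) (nat_lit 4) (nat_lit 2) (nat_lit 5)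 (nat_lit 2) (nat_lit 4) (nat_lit 285) (nat_lit 200) (nat_lit 175)) (XT.nd (nat_lit 32214) (nat_lit 0) (nat_lit 0) (XT.lf (nat_lit 0) (nat_lit 1847721343514) (nat_lit 76) (nat_lit 5111106794898) (nat_lit 76) (nat_lit 5110231708737) (nat_lit 1) (nat_lit 4) (nat_lit 2) (nat_lit 5) (nat_lit 2) (nat_lit 4) (nat_lit 286) (nat_lit 200) (nat_lit 174)) (XT.lf (nat_lit 0) (nat_lit 5556343939) (nat_lit 76) (nat_lit 57758040950) (nat_lit 76) (nat_lit 57758040950) (nat_lit 1) (nat_lit 4) (nat_lit 2) (nat_lit 5) (nat_lit 2) (nat_lit 4) (nat_lit 258) (nat_lit 201) (nat_lit 201)))) (XT.nd (nat_lit 78) (nat_lit 0) (nat_lit 0) (XT.lf (nat_lit 0) (nat_lit 18380686048) (nat_lit 76) (nat_lit 129993097324) (nat_lit 76) (nat_lit 129858272969) (nat_lit 1) (nat_lit 4) (nat_lit 2) (nat_lit 5) (nat_lit 2) (nat_lit 4) (nat_lit 259) (nat_lit 201) (nat_lit 200)) (XT.nd (nat_lit 78) (nat_lit 0) (nat_lit 0) (XT.lf (nat_lit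 0) (nat_lit 26262901563) (nat_lit 76) (nat_lit 146870716446) (nat_lit 76) (nat_lit 146618653521) (nat_lit 1) (nat_lit 4) (nat_lit 2) (nat_lit 5) (nat_lit 2) (nat_lit 4) (nat_lit 260) (nat_lit 201) (nat_lit 199)) (XT.lf (nat_lit 0) (nat_lit 34913551683) (nat_lit 76) (nat_lit 166479153553) (nat_lit 76) (nat_lit 166125144047) (nat_lit 1) (nat_lit 4) (nat_lit 2) (nat_lit 5) (nat_lit 2) (nat_lit 4) (nat_lit 261) (nat_lit 201) (nat_lit 198))))) (XT.nd (nat_lit 234) (nat_lit 0) (nat_lit 0) (XT.nd (nat_lit 78) (nat_lit 0) (nat_lit 0) (XT.lf (nat_lit 0) (nat_lit 44501888258) (nat_lit 76) (nat_lit 189202051981) (nat_lit 76) (nat_lit 188759393273) (nat_lit 1) (nat_lit 4) (nat_lit 2) (nat_lit 5) (nat_lit 2) (nat_lit 4) (nat_lit 262) (nat_lit 201) (nat_lit 197)) (XT.nd (nat_lit 78) (nat_lit 0) (nat_lit 0) (XT.lf (nat_lit 0) (nat_lit 55215509178) (nat_lit 76) (nat_lit 215483990177) (nat_lit 76) (nat_lit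 214964245205) (nat_lit 1) (nat_lit 4) (nat_lit 2) (nat_lit 5) (nat_lit 2) (nat_lit 4) (nat_lit 263) (nat_lit 201) (nat_lit 196)) (XT.lf (nat_lit 0) (nat_lit 67264028766) (nat_lit 76) (nat_lit 245839179974) (nat_lit 76) (nat_lit 245252403470) (nat_lit 1) (nat_lit 4) (nat_lit 2) (nat_lit 5) (nat_lit 2) (nat_lit 4) (nat_lit 264) (nat_lit 201) (nat_lit 195)))) (XT.nd (nat_lit 78) (nat_lit 0) (nat_lit 0) (XT.lf (nat_lit 0) (nat_lit 80883178925) (nat_lit 76) (nat_lit 280861527261) (nat_lit 76) (nat_lit 280216462468) (nat_lit 1) (nat_lit 4) (nat_lit 2) (nat_lit 5) (nat_lit 2) (nat_lit 4) (nat_lit 265) (nat_lit 201) (nat_lit 194)) (XT.nd (nat_lit 78) (nat_lit 0) (nat_lit 0) (XT.lf (nat_lit 0) (nat_lit 96339421290) (nat_lit 76) (nat_lit 321236251875) (nat_lit 76) (nat_lit 320540501613) (nat_lit 1) (nat_lit 4) (nat_lit 2) (nat_lit 5) (nat_lit 2) (nat_lit 4) (nat_lit 266) (nat_lit 201) (nat_lit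 193)) (XT.lf (nat_lit 0) (nat_lit 113935160603) (nat_lit 76) (nat_lit 367753294081) (nat_lit 76) (nat_lit 367013469498) (nat_lit 1) (nat_lit 4) (nat_lit 2) (nat_lit 5) (nat_lit 2) (nat_lit 4) (nat_lit 267) (nat_lit 201) (nat_lit 192))))))) (XT.nd (nat_lit 858) (nat_lit 0) (nat_lit 0) (XT.nd (nat_lit 390) (nat_lit 0) (nat_lit 0) (XT.nd (nat_lit 156) (nat_lit 0) (nat_lit 0) (XT.nd (nat_lit 78) (nat_lit 0) (nat_lit 0) (XT.lf (nat_lit 0) (nat_lit 134014661329) (nat_lit 76) (nat_lit 421322769921) (nat_lit 76) (nat_lit 420544619842) (nat_lit 1) (nat_lit 4) (nat_lit 2) (nat_lit 5) (nat_lit 2) (nat_lit 4) (nat_lit 268) (nat_lit 201) (nat_lit 191)) (XT.lf (nat_lit 0) (nat_lit 156970783263) (nat_lit 76) (nat_lit 482992777837) (nat_lit 76) (nat_lit 482181301240) (nat_lit 1) (nat_lit 4) (nat_lit 2) (nat_lit 5) (nat_lit 2) (nat_lit 4) (nat_lit 269) (nat_lit 201) (nat_lit 190))) (XT.nd (nat_lit 78)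 (nat_lit 0) (nat_lit 0) (XT.lf (nat_lit 0) (nat_lit 183252667923) (nat_lit 76) (nat_lit 553969904940) (nat_lit 76) (nat_lit 553129448761) (nat_lit 1) (nat_lit 4) (nat_lit 2) (nat_lit 5) (nat_lit 2) (nat_lit 4) (nat_lit 270) (nat_lit 201) (nat_lit 189)) (XT.nd (nat_lit 78) (nat_lit 0) (nat_lit 0) (XT.lf (nat_lit 0) (nat_lit 213374526095) (nat_lit 76) (nat_lit 635642834151) (nat_lit 76) (nat_lit 634777178336) (nat_lit 1) (nat_lit 4) (nat_lit 2) (nat_lit 5) (nat_lit 2) (nat_lit 4) (nat_lit 271) (nat_lit 201) (nat_lit 188)) (XT.lf (nat_lit 0) (nat_lit 247925698483) (nat_lit 76) (nat_lit 729609514085) (nat_lit 76) (nat_lit 728721945543) (nat_lit 1) (nat_lit 4) (nat_lit 2) (nat_lit 5) (nat_lit 2) (nat_lit 4) (nat_lit 272) (nat_lit 201) (nat_lit 187))))) (XT.nd (nat_lit 234) (nat_lit 0) (nat_lit 0) (XT.nd (nat_lit 78) (nat_lit 0) (nat_lit 0) (XT.lf (nat_lit 0) (nat_lit 287582186285) (nat_lit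 76) (nat_lit 837708423262) (nat_lit 76) (nat_lit 836801800175) (nat_lit 1) (nat_lit 4) (nat_lit 2) (nat_lit 5) (nat_lit 2) (nat_lit 4) (nat_lit 273) (nat_lit 201) (nat_lit 186)) (XT.nd (nat_lit 78) (nat_lit 0) (nat_lit 0) (XT.lf (nat_lit 0) (nat_lit 333119877307) (nat_lit 76) (nat_lit 962054540341) (nat_lit 76) (nat_lit 961131348085) (nat_lit 1) (nat_lit 4) (nat_lit 2) (nat_lit 5) (nat_lit 2) (nat_lit 4) (nat_lit 274) (nat_lit 201) (nat_lit 185)) (XT.lf (nat_lit 0) (nat_lit 385429726372) (nat_lit 76) (nat_lit 1105080724134) (nat_lit 76) (nat_lit 1104143123904) (nat_lit 1) (nat_lit 4) (nat_lit 2) (nat_lit 5) (nat_lit 2) (nat_lit 4) (nat_lit 275) (nat_lit 201) (nat_lit 184)))) (XT.nd (nat_lit 78) (nat_lit 0) (nat_lit 0) (XT.lf (nat_lit 0) (nat_lit 445535187049) (nat_lit 76) (nat_lit 1269585313020) (nat_lit 76) (nat_lit 1268635184117) (nat_lit 1) (nat_lit 4) (nat_lit 2) (nat_lit 5) (nat_lit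 2) (nat_lit 4) (nat_lit 276) (nat_lit 201) (nat_lit 183)) (XT.nd (nat_lit 78) (nat_lit 0) (nat_lit 0) (XT.lf (nat_lit 0) (nat_lit 514612235743) (nat_lit 76) (nat_lit 1458786875041) (nat_lit 76) (nat_lit 1457825851640) (nat_lit 1) (nat_lit 4) (nat_lit 2) (nat_lit 5) (nat_lit 2) (nat_lit 4) (nat_lit 277) (nat_lit 201) (nat_lit 182)) (XT.lf (nat_lit 0) (nat_lit 594012379929) (nat_lit 76) (nat_lit 1676387179890) (nat_lit 76) (nat_lit 1675416683012) (nat_lit 1) (nat_lit 4) (nat_lit 2) (nat_lit 5) (nat_lit 2) (nat_lit 4) (nat_lit 278) (nat_lit 201) (nat_lit 181)))))) (XT.nd (nat_lit 468) (nat_lit 0) (nat_lit 0) (XT.nd (nat_lit 234) (nat_lit 0) (nat_lit 0) (XT.nd (nat_lit 78) (nat_lit 0) (nat_lit 0) (XT.lf (nat_lit 0) (nat_lit 685289100687) (nat_lit 76) (nat_lit 1926643624835) (nat_lit 76) (nat_lit 1925664890151) (nat_lit 1) (nat_lit 4) (nat_lit 2) (nat_lit 5) (nat_lit 2) (nat_lit 4) (nat_lit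 279) (nat_lit 201) (nat_lit 180)) (XT.nd (nat_lit 78) (nat_lit 0) (nat_lit 0) (XT.lf (nat_lit 0) (nat_lit 790228246904) (nat_lit 76) (nat_lit 2214452531625) (nat_lit 76) (nat_lit 2213466633633) (nat_lit 1) (nat_lit 4) (nat_lit 2) (nat_lit 5) (nat_lit 2) (nat_lit 4) (nat_lit 280) (nat_lit 201) (nat_lit 179)) (XT.lf (nat_lit 0) (nat_lit 910882975786) (nat_lit 76) (nat_lit 2545444944089) (nat_lit 76) (nat_lit 2544452817132) (nat_lit 1) (nat_lit 4) (nat_lit 2) (nat_lit 5) (nat_lit 2) (nat_lit 4) (nat_lit 281) (nat_lit 201) (nat_lit 178)))) (XT.nd (nat_lit 78) (nat_lit 0) (nat_lit 0) (XT.lf (nat_lit 0) (nat_lit 1049613923334) (nat_lit 76) (nat_lit 2926096800732) (nat_lit 76) (nat_lit 2925099257284) (nat_lit 1) (nat_lit 4) (nat_lit 2) (nat_lit 5) (nat_lit 2) (nat_lit 4) (nat_lit 282) (nat_lit 201) (nat_lit 177)) (XT.nd (nat_lit 78) (nat_lit 0) (nat_lit 0) (XT.lf (nat_lit 0) (nat_lit 1209135390696)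 (nat_lit 76) (nat_lit 3363855637879) (nat_lit 76) (nat_lit 3362853384438) (nat_lit 1) (nat_lit 4) (nat_lit 2) (nat_lit 5) (nat_lit 2) (nat_lit 4) (nat_lit 283) (nat_lit 201) (nat_lit 176)) (XT.lf (nat_lit 0) (nat_lit 1392568450060) (nat_lit 76) (nat_lit 3867286302343) (nat_lit 76) (nat_lit 3866279953258) (nat_lit 1) (nat_lit 4) (nat_lit 2) (nat_lit 5) (nat_lit 2) (nat_lit 4) (nat_lit 284) (nat_lit 201) (nat_lit 175))))) (XT.nd (nat_lit 32214) (nat_lit 0) (nat_lit 0) (XT.nd (nat_lit 78) (nat_lit 0) (nat_lit 0) (XT.lf (nat_lit 0) (nat_lit 1603502009108) (nat_lit 76) (nat_lit 4446238524518) (nat_lit 76) (nat_lit 4445228614001) (nat_lit 1) (nat_lit 4) (nat_lit 2) (nat_lit 5) (nat_lit 2) (nat_lit 4) (nat_lit 285) (nat_lit 201) (nat_lit 174)) (XT.nd (nat_lit 32058) (nat_lit 0) (nat_lit 76) (XT.lf (nat_lit 0) (nat_lit 1846063028778) (nat_lit 76) (nat_lit 5112039630487) (nat_lit 76) (nat_lit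 5111026623075) (nat_lit 1) (nat_lit 4) (nat_lit 2) (nat_lit 5) (nat_lit 2) (nat_lit 4) (nat_lit 286) (nat_lit 201) (nat_lit 173)) (XT.lf (nat_lit 0) (nat_lit 45441726957) (nat_lit 152) (nat_lit 877510193) (nat_lit 0) (nat_lit 45441726957) (nat_lit 2) (nat_lit 5) (nat_lit 4) (nat_lit 4) (nat_lit 2) (nat_lit 4) (nat_lit 256) (nat_lit 202) (nat_lit 202)))) (XT.nd (nat_lit 78) (nat_lit 0) (nat_lit 0) (XT.lf (nat_lit 0) (nat_lit 4316707089) (nat_lit 76) (nat_lit 103311472229) (nat_lit 76) (nat_lit 103156424221) (nat_lit 1) (nat_lit 4) (nat_lit 2) (nat_lit 5) (nat_lit 2) (nat_lit 4) (nat_lit 257) (nat_lit 202) (nat_lit 201)) (XT.nd (nat_lit 78) (nat_lit 0) (nat_lit 0) (XT.lf (nat_lit 0) (nat_lit 10858092651) (nat_lit 76) (nat_lit 115793645765) (nat_lit 76) (nat_lit 115503773402) (nat_lit 1) (nat_lit 4) (nat_lit 2) (nat_lit 5) (nat_lit 2) (nat_lit 4) (nat_lit 258) (nat_lit 202) (nat_lit 200))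 (XT.lf (nat_lit 0) (nat_lit 17904703667) (nat_lit 76) (nat_lit 130377196717) (nat_lit 76) (nat_lit 129970085784) (nat_lit 1) (nat_lit 4) (nat_lit 2) (nat_lit 5) (nat_lit 2) (nat_lit 4) (nat_lit 259) (nat_lit 202) (nat_lit 199))))))))
noncomputable def xc5 : XT := (XT.nd (nat_lit 1794) (nat_lit 0) (nat_lit 0) (XT.nd (nat_lit 858) (nat_lit 0) (nat_lit 0) (XT.nd (nat_lit 390) (nat_lit 0) (nat_lit 0) (XT.nd (nat_lit 156) (nat_lit 0) (nat_lit 0) (XT.nd (nat_lit 78) (nat_lit 0) (nat_lit 0) (XT.lf (nat_lit 0) (nat_lit 25594408614) (nat_lit 76) (nat_lit 147347455428) (nat_lit 76) (nat_lit 146838397913) (nat_lit 1) (nat_lit 4) (nat_lit 2) (nat_lit 5) (nat_lit 2) (nat_lit 4) (nat_lit 260) (nat_lit 202) (nat_lit 198)) (XT.lf (nat_lit 0) (nat_lit 34077658240) (nat_lit 76) (nat_lit 167036448700) (nat_lit 76) (nat_lit 166438741984) (nat_lit 1) (nat_lit 4) (nat_lit 2) (nat_lit 5) (nat_lit 2) (nat_lit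 4) (nat_lit 261) (nat_lit 202) (nat_lit 197))) (XT.nd (nat_lit 78) (nat_lit 0) (nat_lit 0) (XT.lf (nat_lit 0) (nat_lit 43520429168) (nat_lit 76) (nat_lit 189829395967) (nat_lit 76) (nat_lit 189154602988) (nat_lit 1) (nat_lit 4) (nat_lit 2) (nat_lit 5) (nat_lit 2) (nat_lit 4) (nat_lit 262) (nat_lit 202) (nat_lit 196)) (XT.nd (nat_lit 78) (nat_lit 0) (nat_lit 0) (XT.lf (nat_lit 0) (nat_lit 54107471264) (nat_lit 76) (nat_lit 216172246196) (nat_lit 76) (nat_lit 215430421684) (nat_lit 1) (nat_lit 4) (nat_lit 2) (nat_lit 5) (nat_lit 2) (nat_lit 4) (nat_lit 263) (nat_lit 202) (nat_lit 195)) (XT.lf (nat_lit 0) (nat_lit 66045922309) (nat_lit 76) (nat_lit 246580402980) (nat_lit 76) (nat_lit 245780290178) (nat_lit 1) (nat_lit 4) (nat_lit 2) (nat_lit 5) (nat_lit 2) (nat_lit 4) (nat_lit 264) (nat_lit 202) (nat_lit 194))))) (XT.nd (nat_lit 234) (nat_lit 0) (nat_lit 0) (XT.nd (nat_lit 78) (nat_lit 0)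 (nat_lit 0) (XT.lf (nat_lit 0) (nat_lit 79569360693) (nat_lit 76) (nat_lit 281648808515) (nat_lit 76) (nat_lit 280798010245) (nat_lit 1) (nat_lit 4) (nat_lit 2) (nat_lit 5) (nat_lit 2) (nat_lit 4) (nat_lit 265) (nat_lit 202) (nat_lit 193)) (XT.nd (nat_lit 78) (nat_lit 0) (nat_lit 0) (XT.lf (nat_lit 0) (nat_lit 94942375427) (nat_lit 76) (nat_lit 322063583780) (nat_lit 76) (nat_lit 321168711189) (nat_lit 1) (nat_lit 4) (nat_lit 2) (nat_lit 5) (nat_lit 2) (nat_lit 4) (nat_lit 266) (nat_lit 202) (nat_lit 192)) (XT.lf (nat_lit 0) (nat_lit 112465742887) (nat_lit 76) (nat_lit 368615452639) (nat_lit 76) (nat_lit 367682254552) (nat_lit 1) (nat_lit 4) (nat_lit 2) (nat_lit 5) (nat_lit 2) (nat_lit 4) (nat_lit 267) (nat_lit 202) (nat_lit 191)))) (XT.nd (nat_lit 78) (nat_lit 0) (nat_lit 0) (XT.lf (nat_lit 0) (nat_lit 132482311566) (nat_lit 76) (nat_lit 422215212526) (nat_lit 76) (nat_lit 421248687920)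 (nat_lit 1) (nat_lit 4) (nat_lit 2) (nat_lit 5) (nat_lit 2) (nat_lit 4) (nat_lit 268) (nat_lit 202) (nat_lit 190)) (XT.nd (nat_lit 78) (nat_lit 0) (nat_lit 0) (XT.lf (nat_lit 0) (nat_lit 155383709982) (nat_lit 76) (nat_lit 483911554395) (nat_lit 76) (nat_lit 482916050208) (nat_lit 1) (nat_lit 4) (nat_lit 2) (nat_lit 5) (nat_lit 2) (nat_lit 4) (nat_lit 269) (nat_lit 202) (nat_lit 189)) (XT.lf (nat_lit 0) (nat_lit 181618008973) (nat_lit 76) (nat_lit 554911580587) (nat_lit 76) (nat_lit 553890876764) (nat_lit 1) (nat_lit 4) (nat_lit 2) (nat_lit 5) (nat_lit 2) (nat_lit 4) (nat_lit 270) (nat_lit 202) (nat_lit 188)))))) (XT.nd (nat_lit 468) (nat_lit 0) (nat_lit 0) (XT.nd (nat_lit 234) (nat_lit 0) (nat_lit 0) (XT.nd (nat_lit 78) (nat_lit 0) (nat_lit 0) (XT.lf (nat_lit 0) (nat_lit 211698488304) (nat_lit 76) (nat_lit 636604422050) (nat_lit 76) (nat_lit 635561805500) (nat_lit 1) (nat_lit 4) (nat_lit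 2) (nat_lit 5) (nat_lit 2) (nat_lit 4) (nat_lit 271) (nat_lit 202) (nat_lit 187)) (XT.nd (nat_lit 78) (nat_lit 0) (nat_lit 0) (XT.lf (nat_lit 0) (nat_lit 246213679090) (nat_lit 76) (nat_lit 730588416985) (nat_lit 76) (nat_lit 729526745890) (nat_lit 1) (nat_lit 4) (nat_lit 2) (nat_lit 5) (nat_lit 2) (nat_lit 4) (nat_lit 272) (nat_lit 202) (nat_lit 186)) (XT.lf (nat_lit 0) (nat_lit 285838878542) (nat_lit 76) (nat_lit 838702382686) (nat_lit 76) (nat_lit 837624142421) (nat_lit 1) (nat_lit 4) (nat_lit 2) (nat_lit 5) (nat_lit 2) (nat_lit 4) (nat_lit 273) (nat_lit 202) (nat_lit 185)))) (XT.nd (nat_lit 78) (nat_lit 0) (nat_lit 0) (XT.lf (nat_lit 0) (nat_lit 331349362304) (nat_lit 76) (nat_lit 963061592394) (nat_lit 76) (nat_lit 961968944155) (nat_lit 1) (nat_lit 4) (nat_lit 2) (nat_lit 5) (nat_lit 2) (nat_lit 4) (nat_lit 274) (nat_lit 202) (nat_lit 184)) (XT.nd (nat_lit 78) (nat_lit 0) (nat_lit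 0) (XT.lf (nat_lit 0) (nat_lit 383635552881) (nat_lit 76) (nat_lit 1106099161082) (nat_lit 76) (nat_lit 1104993984170) (nat_lit 1) (nat_lit 4) (nat_lit 2) (nat_lit 5) (nat_lit 2) (nat_lit 4) (nat_lit 275) (nat_lit 202) (nat_lit 183)) (XT.lf (nat_lit 0) (nat_lit 443720440961) (nat_lit 76) (nat_lit 1270613649875) (nat_lit 76) (nat_lit 1269497578466) (nat_lit 1) (nat_lit 4) (nat_lit 2) (nat_lit 5) (nat_lit 2) (nat_lit 4) (nat_lit 276) (nat_lit 202) (nat_lit 182))))) (XT.nd (nat_lit 234) (nat_lit 0) (nat_lit 0) (XT.nd (nat_lit 78) (nat_lit 0) (nat_lit 0) (XT.lf (nat_lit 0) (nat_lit 512779600440) (nat_lit 76) (nat_lit 1459823820512) (nat_lit 76) (nat_lit 1458698275627) (nat_lit 1) (nat_lit 4) (nat_lit 2) (nat_lit 5) (nat_lit 2) (nat_lit 4) (nat_lit 277) (nat_lit 202) (nat_lit 181)) (XT.nd (nat_lit 78) (nat_lit 0) (nat_lit 0) (XT.lf (nat_lit 0) (nat_lit 592164188786) (nat_lit 76) (nat_lit 1677431611114)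 (nat_lit 76) (nat_lit 1676297828423) (nat_lit 1) (nat_lit 4) (nat_lit 2) (nat_lit 5) (nat_lit 2) (nat_lit 4) (nat_lit 278) (nat_lit 202) (nat_lit 180)) (XT.lf (nat_lit 0) (nat_lit 683427382728) (nat_lit 76) (nat_lit 1927694565410) (nat_lit 76) (nat_lit 1926553619409) (nat_lit 1) (nat_lit 4) (nat_lit 2) (nat_lit 5) (nat_lit 2) (nat_lit 4) (nat_lit 279) (nat_lit 202) (nat_lit 179)))) (XT.nd (nat_lit 78) (nat_lit 0) (nat_lit 0) (XT.lf (nat_lit 0) (nat_lit 788354766495) (nat_lit 76) (nat_lit 2215509132505) (nat_lit 76) (nat_lit 2214361957540) (nat_lit 1) (nat_lit 4) (nat_lit 2) (nat_lit 5) (nat_lit 2) (nat_lit 4) (nat_lit 280) (nat_lit 202) (nat_lit 178)) (XT.nd (nat_lit 78) (nat_lit 0) (nat_lit 0) (XT.lf (nat_lit 0) (nat_lit 908999267160) (nat_lit 76) (nat_lit 2546506466973) (nat_lit 76) (nat_lit 2545353875517) (nat_lit 1) (nat_lit 4) (nat_lit 2) (nat_lit 5) (nat_lit 2) (nat_lit 4) (nat_lit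 281) (nat_lit 202) (nat_lit 177)) (XT.lf (nat_lit 0) (nat_lit 1047721320607) (nat_lit 76) (nat_lit 2927162603620) (nat_lit 76) (nat_lit 2926005302171) (nat_lit 1) (nat_lit 4) (nat_lit 2) (nat_lit 5) (nat_lit 2) (nat_lit 4) (nat_lit 282) (nat_lit 202) (nat_lit 176))))))) (XT.nd (nat_lit 32682) (nat_lit 0) (nat_lit 0) (XT.nd (nat_lit 32214) (nat_lit 0) (nat_lit 0) (XT.nd (nat_lit 156) (nat_lit 0) (nat_lit 0) (XT.nd (nat_lit 78) (nat_lit 0) (nat_lit 0) (XT.lf (nat_lit 0) (nat_lit 1207235053968) (nat_lit 76) (nat_lit 3364925162509) (nat_lit 76) (nat_lit 3363763765415) (nat_lit 1) (nat_lit 4) (nat_lit 2) (nat_lit 5) (nat_lit 2) (nat_lit 4) (nat_lit 283) (nat_lit 202) (nat_lit 175)) (XT.lf (nat_lit 0) (nat_lit 1390661388112) (nat_lit 76) (nat_lit 3868359063271) (nat_lit 76) (nat_lit 3867194104746) (nat_lit 1) (nat_lit 4) (nat_lit 2) (nat_lit 5) (nat_lit 2) (nat_lit 4) (nat_lit 284) (nat_lit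 202) (nat_lit 174))) (XT.nd (nat_lit 78) (nat_lit 0) (nat_lit 0) (XT.lf (nat_lit 0) (nat_lit 1601589099144) (nat_lit 76) (nat_lit 4447314099617) (nat_lit 76) (nat_lit 4446146044196) (nat_lit 1) (nat_lit 4) (nat_lit 2) (nat_lit 5) (nat_lit 2) (nat_lit 4) (nat_lit 285) (nat_lit 202) (nat_lit 173)) (XT.nd (nat_lit 31902) (nat_lit 0) (nat_lit 76) (XT.lf (nat_lit 0) (nat_lit 1844145033583) (nat_lit 76) (nat_lit 5113117652693) (nat_lit 76) (nat_lit 5111946904318) (nat_lit 1) (nat_lit 4) (nat_lit 2) (nat_lit 5) (nat_lit 2) (nat_lit 4) (nat_lit 286) (nat_lit 202) (nat_lit 172)) (XT.lf (nat_lit 0) (nat_lit 31678673390) (nat_lit 152) (nat_lit 6262567551) (nat_lit 0) (nat_lit 31678673390) (nat_lit 2) (nat_lit 5) (nat_lit 4) (nat_lit 4) (nat_lit 2) (nat_lit 4) (nat_lit 254) (nat_lit 203) (nat_lit 203))))) (XT.nd (nat_lit 234) (nat_lit 0) (nat_lit 0) (XT.nd (nat_lit 78) (nat_lit 76) (nat_lit 0) (XT.lf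 (nat_lit 0) (nat_lit 76320597764) (nat_lit 152) (nat_lit 7367007801) (nat_lit 0) (nat_lit 76142292555) (nat_lit 2) (nat_lit 5) (nat_lit 4) (nat_lit 4) (nat_lit 2) (nat_lit 4) (nat_lit 255) (nat_lit 203) (nat_lit 202)) (XT.nd (nat_lit 78) (nat_lit 76) (nat_lit 0) (XT.lf (nat_lit 0) (nat_lit 90916909324) (nat_lit 152) (nat_lit 2033158629) (nat_lit 0) (nat_lit 90583556107) (nat_lit 2) (nat_lit 5) (nat_lit 4) (nat_lit 4) (nat_lit 2) (nat_lit 4) (nat_lit 256) (nat_lit 203) (nat_lit 201)) (XT.lf (nat_lit 0) (nat_lit 3769327351) (nat_lit 76) (nat_lit 103753186531) (nat_lit 76) (nat_lit 103285008958) (nat_lit 1) (nat_lit 4) (nat_lit 2) (nat_lit 5) (nat_lit 2) (nat_lit 4) (nat_lit 257) (nat_lit 203) (nat_lit 200)))) (XT.nd (nat_lit 78) (nat_lit 0) (nat_lit 0) (XT.lf (nat_lit 0) (nat_lit 10089325760) (nat_lit 76) (nat_lit 116341895595) (nat_lit 76) (nat_lit 115756479453) (nat_lit 1) (nat_lit 4)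 (nat_lit 2) (nat_lit 5) (nat_lit 2) (nat_lit 4) (nat_lit 258) (nat_lit 203) (nat_lit 199)) (XT.nd (nat_lit 78) (nat_lit 0) (nat_lit 0) (XT.lf (nat_lit 0) (nat_lit 16943426208) (nat_lit 76) (nat_lit 131018086136) (nat_lit 76) (nat_lit 130330723412) (nat_lit 1) (nat_lit 4) (nat_lit 2) (nat_lit 5) (nat_lit 2) (nat_lit 4) (nat_lit 259) (nat_lit 203) (nat_lit 198)) (XT.lf (nat_lit 0) (nat_lit 24465730660) (nat_lit 76) (nat_lit 148068901012) (nat_lit 76) (nat_lit 147292889086) (nat_lit 1) (nat_lit 4) (nat_lit 2) (nat_lit 5) (nat_lit 2) (nat_lit 4) (nat_lit 260) (nat_lit 203) (nat_lit 197)))))) (XT.nd (nat_lit 468) (nat_lit 0) (nat_lit 0) (XT.nd (nat_lit 234) (nat_lit 0) (nat_lit 0) (XT.nd (nat_lit 78) (nat_lit 0) (nat_lit 0) (XT.lf (nat_lit 0) (nat_lit 32803414638) (nat_lit 76) (nat_lit 167827943123) (nat_lit 76) (nat_lit 166974844934) (nat_lit 1) (nat_lit 4) (nat_lit 2) (nat_lit 5) (nat_lit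 2) (nat_lit 4) (nat_lit 261) (nat_lit 203) (nat_lit 196)) (XT.nd (nat_lit 78) (nat_lit 0) (nat_lit 0) (XT.lf (nat_lit 0) (nat_lit 42119606743) (nat_lit 76) (nat_lit 190681802423) (nat_lit 76) (nat_lit 189761672702) (nat_lit 1) (nat_lit 4) (nat_lit 2) (nat_lit 5) (nat_lit 2) (nat_lit 4) (nat_lit 262) (nat_lit 203) (nat_lit 195)) (XT.lf (nat_lit 0) (nat_lit 52596580297) (nat_lit 76) (nat_lit 217077619639) (nat_lit 76) (nat_lit 216099201628) (nat_lit 1) (nat_lit 4) (nat_lit 2) (nat_lit 5) (nat_lit 2) (nat_lit 4) (nat_lit 263) (nat_lit 203) (nat_lit 194)))) (XT.nd (nat_lit 78) (nat_lit 0) (nat_lit 0) (XT.lf (nat_lit 0) (nat_lit 64439319566) (nat_lit 76) (nat_lit 247531834670) (nat_lit 76) (nat_lit 246502731191) (nat_lit 1) (nat_lit 4) (nat_lit 2) (nat_lit 5) (nat_lit 2) (nat_lit 4) (nat_lit 264) (nat_lit 203) (nat_lit 193)) (XT.nd (nat_lit 78) (nat_lit 0) (nat_lit 0) (XT.lf (nat_lit 0) (nat_lit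 77879530319) (nat_lit 76) (nat_lit 282640290857) (nat_lit 76) (nat_lit 281567113056) (nat_lit 1) (nat_lit 4) (nat_lit 2) (nat_lit 5) (nat_lit 2) (nat_lit 4) (nat_lit 265) (nat_lit 203) (nat_lit 192)) (XT.lf (nat_lit 0) (nat_lit 93180173200) (nat_lit 76) (nat_lit 323089892775) (nat_lit 76) (nat_lit 321978389478) (nat_lit 1) (nat_lit 4) (nat_lit 2) (nat_lit 5) (nat_lit 2) (nat_lit 4) (nat_lit 266) (nat_lit 203) (nat_lit 191))))) (XT.nd (nat_lit 234) (nat_lit 0) (nat_lit 0) (XT.nd (nat_lit 78) (nat_lit 0) (nat_lit 0) (XT.lf (nat_lit 0) (nat_lit 110640608613) (nat_lit 76) (nat_lit 369672045680) (nat_lit 76) (nat_lit 368527215865) (nat_lit 1) (nat_lit 4) (nat_lit 2) (nat_lit 5) (nat_lit 2) (nat_lit 4) (nat_lit 267) (nat_lit 203) (nat_lit 190)) (XT.nd (nat_lit 78) (nat_lit 0) (nat_lit 0) (XT.lf (nat_lit 0) (nat_lit 130602453773) (nat_lit 76) (nat_lit 423298139520) (nat_lit 76) (nat_lit 422124330123)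 (nat_lit 1) (nat_lit 4) (nat_lit 2) (nat_lit 5) (nat_lit 2) (nat_lit 4) (nat_lit 268) (nat_lit 203) (nat_lit 189)) (XT.lf (nat_lit 0) (nat_lit 153456266521) (nat_lit 76) (nat_lit 485017380479) (nat_lit 76) (nat_lit 483818371446) (nat_lit 1) (nat_lit 4) (nat_lit 2) (nat_lit 5) (nat_lit 2) (nat_lit 4) (nat_lit 269) (nat_lit 203) (nat_lit 188)))) (XT.nd (nat_lit 78) (nat_lit 0) (nat_lit 0) (XT.lf (nat_lit 0) (nat_lit 179649186671) (nat_lit 76) (nat_lit 556037318923) (nat_lit 76) (nat_lit 554816397163) (nat_lit 1) (nat_lit 4) (nat_lit 2) (nat_lit 5) (nat_lit 2) (nat_lit 4) (nat_lit 270) (nat_lit 203) (nat_lit 187)) (XT.nd (nat_lit 78) (nat_lit 0) (nat_lit 0) (XT.lf (nat_lit 0) (nat_lit 209693684399) (nat_lit 76) (nat_lit 637747475387) (nat_lit 76) (nat_lit 636507499082) (nat_lit 1) (nat_lit 4) (nat_lit 2) (nat_lit 5) (nat_lit 2) (nat_lit 4) (nat_lit 271) (nat_lit 203) (nat_lit 186)) (XT.lf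 (nat_lit 0) (nat_lit 244177586836) (nat_lit 76) (nat_lit 731746526846) (nat_lit 76) (nat_lit 730489981372) (nat_lit 1) (nat_lit 4) (nat_lit 2) (nat_lit 5) (nat_lit 2) (nat_lit 4) (nat_lit 272) (nat_lit 203) (nat_lit 185))))))))
noncomputable def xc6 : XT := (XT.nd (nat_lit 33462) (nat_lit 0) (nat_lit 0) (XT.nd (nat_lit 858) (nat_lit 0) (nat_lit 0) (XT.nd (nat_lit 390) (nat_lit 0) (nat_lit 0) (XT.nd (nat_lit 156) (nat_lit 0) (nat_lit 0) (XT.nd (nat_lit 78) (nat_lit 0) (nat_lit 0) (XT.lf (nat_lit 0) (nat_lit 283775579029) (nat_lit 76) (nat_lit 839873585175) (nat_lit 76) (nat_lit 838602631728) (nat_lit 1) (nat_lit 4) (nat_lit 2) (nat_lit 5) (nat_lit 2) (nat_lit 4) (nat_lit 273) (nat_lit 203) (nat_lit 184)) (XT.lf (nat_lit 0) (nat_lit 329262404303) (nat_lit 76) (nat_lit 964244179778) (nat_lit 76) (nat_lit 962960697657) (nat_lit 1) (nat_lit 4) (nat_lit 2) (nat_lit 5) (nat_lit 2) (nat_lit 4)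 (nat_lit 274) (nat_lit 203) (nat_lit 183))) (XT.nd (nat_lit 78) (nat_lit 0) (nat_lit 0) (XT.lf (nat_lit 0) (nat_lit 381528022283) (nat_lit 76) (nat_lit 1107291648374) (nat_lit 76) (nat_lit 1105997271755) (nat_lit 1) (nat_lit 4) (nat_lit 2) (nat_lit 5) (nat_lit 2) (nat_lit 4) (nat_lit 275) (nat_lit 203) (nat_lit 182)) (XT.nd (nat_lit 78) (nat_lit 0) (nat_lit 0) (XT.lf (nat_lit 0) (nat_lit 441595021147) (nat_lit 76) (nat_lit 1271814745784) (nat_lit 76) (nat_lit 1270510895688) (nat_lit 1) (nat_lit 4) (nat_lit 2) (nat_lit 5) (nat_lit 2) (nat_lit 4) (nat_lit 276) (nat_lit 203) (nat_lit 181)) (XT.lf (nat_lit 0) (nat_lit 510638624787) (nat_lit 76) (nat_lit 1461032402174) (nat_lit 76) (nat_lit 1459720314273) (nat_lit 1) (nat_lit 4) (nat_lit 2) (nat_lit 5) (nat_lit 2) (nat_lit 4) (nat_lit 277) (nat_lit 203) (nat_lit 180))))) (XT.nd (nat_lit 234) (nat_lit 0) (nat_lit 0) (XT.nd (nat_lit 78) (nat_lit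 0) (nat_lit 0) (XT.lf (nat_lit 0) (nat_lit 590009686316) (nat_lit 76) (nat_lit 1678646702126) (nat_lit 76) (nat_lit 1677327450916) (nat_lit 1) (nat_lit 4) (nat_lit 2) (nat_lit 5) (nat_lit 2) (nat_lit 4) (nat_lit 278) (nat_lit 203) (nat_lit 179)) (XT.nd (nat_lit 78) (nat_lit 0) (nat_lit 0) (XT.lf (nat_lit 0) (nat_lit 681261117808) (nat_lit 76) (nat_lit 1928915316726) (nat_lit 76) (nat_lit 1927589836552) (nat_lit 1) (nat_lit 4) (nat_lit 2) (nat_lit 5) (nat_lit 2) (nat_lit 4) (nat_lit 279) (nat_lit 203) (nat_lit 178)) (XT.lf (nat_lit 0) (nat_lit 786178273358) (nat_lit 76) (nat_lit 2216734805826) (nat_lit 76) (nat_lit 2215403909160) (nat_lit 1) (nat_lit 4) (nat_lit 2) (nat_lit 5) (nat_lit 2) (nat_lit 4) (nat_lit 280) (nat_lit 203) (nat_lit 177)))) (XT.nd (nat_lit 78) (nat_lit 0) (nat_lit 0) (XT.lf (nat_lit 0) (nat_lit 906813879922) (nat_lit 76) (nat_lit 2547736420298) (nat_lit 76) (nat_lit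 2546400813640) (nat_lit 1) (nat_lit 4) (nat_lit 2) (nat_lit 5) (nat_lit 2) (nat_lit 4) (nat_lit 281) (nat_lit 203) (nat_lit 176)) (XT.nd (nat_lit 78) (nat_lit 0) (nat_lit 0) (XT.lf (nat_lit 0) (nat_lit 1045528199368) (nat_lit 76) (nat_lit 2928396278686) (nat_lit 76) (nat_lit 2927056576383) (nat_lit 1) (nat_lit 4) (nat_lit 2) (nat_lit 5) (nat_lit 2) (nat_lit 4) (nat_lit 282) (nat_lit 203) (nat_lit 175)) (XT.lf (nat_lit 0) (nat_lit 1205035207510) (nat_lit 76) (nat_lit 3366162073873) (nat_lit 76) (nat_lit 3364818810139) (nat_lit 1) (nat_lit 4) (nat_lit 2) (nat_lit 5) (nat_lit 2) (nat_lit 4) (nat_lit 283) (nat_lit 203) (nat_lit 174)))))) (XT.nd (nat_lit 32136) (nat_lit 0) (nat_lit 0) (XT.nd (nat_lit 31902) (nat_lit 0) (nat_lit 76) (XT.nd (nat_lit 78) (nat_lit 0) (nat_lit 0) (XT.lf (nat_lit 0) (nat_lit 1388455693638) (nat_lit 76) (nat_lit 3869598788807) (nat_lit 76) (nat_lit 3868252428177)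 (nat_lit 1) (nat_lit 4) (nat_lit 2) (nat_lit 5) (nat_lit 2) (nat_lit 4) (nat_lit 284) (nat_lit 203) (nat_lit 173)) (XT.nd (nat_lit 78) (nat_lit 0) (nat_lit 0) (XT.lf (nat_lit 0) (nat_lit 1599378319438) (nat_lit 76) (nat_lit 4448556272259) (nat_lit 76) (nat_lit 4447207218675) (nat_lit 1) (nat_lit 4) (nat_lit 2) (nat_lit 5) (nat_lit 2) (nat_lit 4) (nat_lit 285) (nat_lit 203) (nat_lit 172)) (XT.lf (nat_lit 0) (nat_lit 1841929831936) (nat_lit 76) (nat_lit 5114361953253) (nat_lit 76) (nat_lit 5113010557971) (nat_lit 1) (nat_lit 4) (nat_lit 2) (nat_lit 5) (nat_lit 2) (nat_lit 4) (nat_lit 286) (nat_lit 203) (nat_lit 171)))) (XT.nd (nat_lit 78) (nat_lit 0) (nat_lit 0) (XT.lf (nat_lit 0) (nat_lit 20869557490) (nat_lit 152) (nat_lit 11174301137) (nat_lit 0) (nat_lit 20869557490) (nat_lit 2) (nat_lit 5) (nat_lit 4) (nat_lit 4) (nat_lit 2) (nat_lit 4) (nat_lit 252) (nat_lit 204) (nat_lit 204)) (XT.nd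 (nat_lit 78) (nat_lit 0) (nat_lit 0) (XT.lf (nat_lit 0) (nat_lit 51978578539) (nat_lit 152) (nat_lit 17608460414) (nat_lit 0) (nat_lit 51773527548) (nat_lit 2) (nat_lit 5) (nat_lit 4) (nat_lit 4) (nat_lit 2) (nat_lit 4) (nat_lit 253) (nat_lit 204) (nat_lit 203)) (XT.lf (nat_lit 0) (nat_lit 63395820500) (nat_lit 152) (nat_lit 12844994083) (nat_lit 0) (nat_lit 63012464300) (nat_lit 2) (nat_lit 5) (nat_lit 4) (nat_lit 4) (nat_lit 2) (nat_lit 4) (nat_lit 254) (nat_lit 204) (nat_lit 202))))) (XT.nd (nat_lit 234) (nat_lit 0) (nat_lit 0) (XT.nd (nat_lit 78) (nat_lit 76) (nat_lit 0) (XT.lf (nat_lit 0) (nat_lit 76214221683) (nat_lit 152) (nat_lit 7965005025) (nat_lit 0) (nat_lit 75675817475) (nat_lit 2) (nat_lit 5) (nat_lit 4) (nat_lit 4) (nat_lit 2) (nat_lit 4) (nat_lit 255) (nat_lit 204) (nat_lit 201)) (XT.nd (nat_lit 78) (nat_lit 76) (nat_lit 0) (XT.lf (nat_lit 0) (nat_lit 90684576895) (nat_lit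 152) (nat_lit 2873015196) (nat_lit 0) (nat_lit 90011348332) (nat_lit 2) (nat_lit 5) (nat_lit 4) (nat_lit 4) (nat_lit 2) (nat_lit 4) (nat_lit 256) (nat_lit 204) (nat_lit 200)) (XT.lf (nat_lit 0) (nat_lit 2663858273) (nat_lit 76) (nat_lit 104490209363) (nat_lit 76) (nat_lit 103699742230) (nat_lit 1) (nat_lit 4) (nat_lit 2) (nat_lit 5) (nat_lit 2) (nat_lit 4) (nat_lit 257) (nat_lit 204) (nat_lit 199)))) (XT.nd (nat_lit 78) (nat_lit 0) (nat_lit 0) (XT.lf (nat_lit 0) (nat_lit 8791346113) (nat_lit 76) (nat_lit 117171558016) (nat_lit 76) (nat_lit 116279144301) (nat_lit 1) (nat_lit 4) (nat_lit 2) (nat_lit 5) (nat_lit 2) (nat_lit 4) (nat_lit 258) (nat_lit 204) (nat_lit 198)) (XT.nd (nat_lit 78) (nat_lit 0) (nat_lit 0) (XT.lf (nat_lit 0) (nat_lit 15478046066) (nat_lit 76) (nat_lit 131928304722) (nat_lit 76) (nat_lit 130947241805) (nat_lit 1) (nat_lit 4) (nat_lit 2) (nat_lit 5) (nat_lit 2) (nat_lit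 4) (nat_lit 259) (nat_lit 204) (nat_lit 197)) (XT.lf (nat_lit 0) (nat_lit 22854784872) (nat_lit 76) (nat_lit 149049168437) (nat_lit 76) (nat_lit 147991019257) (nat_lit 1) (nat_lit 4) (nat_lit 2) (nat_lit 5) (nat_lit 2) (nat_lit 4) (nat_lit 260) (nat_lit 204) (nat_lit 196))))))) (XT.nd (nat_lit 858) (nat_lit 0) (nat_lit 0) (XT.nd (nat_lit 390) (nat_lit 0) (nat_lit 0) (XT.nd (nat_lit 156) (nat_lit 0) (nat_lit 0) (XT.nd (nat_lit 78) (nat_lit 0) (nat_lit 0) (XT.lf (nat_lit 0) (nat_lit 31065890026) (nat_lit 76) (nat_lit 168869122582) (nat_lit 76) (nat_lit 167743941870) (nat_lit 1) (nat_lit 4) (nat_lit 2) (nat_lit 5) (nat_lit 2) (nat_lit 4) (nat_lit 261) (nat_lit 204) (nat_lit 195)) (XT.lf (nat_lit 0) (nat_lit 40272013589) (nat_lit 76) (nat_lit 191775948868) (nat_lit 76) (nat_lit 190592479867) (nat_lit 1) (nat_lit 4) (nat_lit 2) (nat_lit 5) (nat_lit 2) (nat_lit 4) (nat_lit 262) (nat_lit 204)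 (nat_lit 194))) (XT.nd (nat_lit 78) (nat_lit 0) (nat_lit 0) (XT.lf (nat_lit 0) (nat_lit 50653275367) (nat_lit 76) (nat_lit 218217824332) (nat_lit 76) (nat_lit 216983669861) (nat_lit 1) (nat_lit 4) (nat_lit 2) (nat_lit 5) (nat_lit 2) (nat_lit 4) (nat_lit 263) (nat_lit 204) (nat_lit 193)) (XT.nd (nat_lit 78) (nat_lit 0) (nat_lit 0) (XT.lf (nat_lit 0) (nat_lit 62412787005) (nat_lit 76) (nat_lit 248712090015) (nat_lit 76) (nat_lit 247433861223) (nat_lit 1) (nat_lit 4) (nat_lit 2) (nat_lit 5) (nat_lit 2) (nat_lit 4) (nat_lit 264) (nat_lit 204) (nat_lit 192)) (XT.lf (nat_lit 0) (nat_lit 75780625904) (nat_lit 76) (nat_lit 283855372854) (nat_lit 76) (nat_lit 282538818566) (nat_lit 1) (nat_lit 4) (nat_lit 2) (nat_lit 5) (nat_lit 2) (nat_lit 4) (nat_lit 265) (nat_lit 204) (nat_lit 191))))) (XT.nd (nat_lit 234) (nat_lit 0) (nat_lit 0) (XT.nd (nat_lit 78) (nat_lit 0) (nat_lit 0) (XT.lf (nat_lit 0)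 (nat_lit 91018336739) (nat_lit 76) (nat_lit 324335258818) (nat_lit 76) (nat_lit 322985378012) (nat_lit 1) (nat_lit 4) (nat_lit 2) (nat_lit 5) (nat_lit 2) (nat_lit 4) (nat_lit 266) (nat_lit 204) (nat_lit 190)) (XT.nd (nat_lit 78) (nat_lit 0) (nat_lit 0) (XT.lf (nat_lit 0) (nat_lit 108424048633) (nat_lit 76) (nat_lit 370943745676) (nat_lit 76) (nat_lit 369564885289) (nat_lit 1) (nat_lit 4) (nat_lit 2) (nat_lit 5) (nat_lit 2) (nat_lit 4) (nat_lit 267) (nat_lit 204) (nat_lit 189)) (XT.lf (nat_lit 0) (nat_lit 128338308126) (nat_lit 76) (nat_lit 424592738606) (nat_lit 76) (nat_lit 423188678582) (nat_lit 1) (nat_lit 4) (nat_lit 2) (nat_lit 5) (nat_lit 2) (nat_lit 4) (nat_lit 268) (nat_lit 204) (nat_lit 188)))) (XT.nd (nat_lit 78) (nat_lit 0) (nat_lit 0) (XT.lf (nat_lit 0) (nat_lit 151150742031) (nat_lit 76) (nat_lit 486331891816) (nat_lit 76) (nat_lit 484905919066) (nat_lit 1) (nat_lit 4) (nat_lit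 2) (nat_lit 5) (nat_lit 2) (nat_lit 4) (nat_lit 269) (nat_lit 204) (nat_lit 187)) (XT.nd (nat_lit 78) (nat_lit 0) (nat_lit 0) (XT.lf (nat_lit 0) (nat_lit 177307680579) (nat_lit 76) (nat_lit 557369145262) (nat_lit 76) (nat_lit 555924117967) (nat_lit 1) (nat_lit 4) (nat_lit 2) (nat_lit 5) (nat_lit 2) (nat_lit 4) (nat_lit 270) (nat_lit 204) (nat_lit 186)) (XT.lf (nat_lit 0) (nat_lit 207320889959) (nat_lit 76) (nat_lit 639094358250) (nat_lit 76) (nat_lit 637632761785) (nat_lit 1) (nat_lit 4) (nat_lit 2) (nat_lit 5) (nat_lit 2) (nat_lit 4) (nat_lit 271) (nat_lit 204) (nat_lit 185)))))) (XT.nd (nat_lit 468) (nat_lit 0) (nat_lit 0) (XT.nd (nat_lit 234) (nat_lit 0) (nat_lit 0) (XT.nd (nat_lit 78) (nat_lit 0) (nat_lit 0) (XT.lf (nat_lit 0) (nat_lit 241777585135) (nat_lit 76) (nat_lit 733106502337) (nat_lit 76) (nat_lit 731630497899) (nat_lit 1) (nat_lit 4) (nat_lit 2) (nat_lit 5) (nat_lit 2) (nat_lit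 4) (nat_lit 272) (nat_lit 204) (nat_lit 184)) (XT.nd (nat_lit 78) (nat_lit 0) (nat_lit 0) (XT.lf (nat_lit 0) (nat_lit 281351918840) (nat_lit 76) (nat_lit 841244945562) (nat_lit 76) (nat_lit 839756412450) (nat_lit 1) (nat_lit 4) (nat_lit 2) (nat_lit 5) (nat_lit 2) (nat_lit 4) (nat_lit 273) (nat_lit 204) (nat_lit 183)) (XT.lf (nat_lit 0) (nat_lit 326818171517) (nat_lit 76) (nat_lit 965625440073) (nat_lit 76) (nat_lit 964126012463) (nat_lit 1) (nat_lit 4) (nat_lit 2) (nat_lit 5) (nat_lit 2) (nat_lit 4) (nat_lit 274) (nat_lit 204) (nat_lit 182)))) (XT.nd (nat_lit 78) (nat_lit 0) (nat_lit 0) (XT.lf (nat_lit 0) (nat_lit 379065900282) (nat_lit 76) (nat_lit 1108681517285) (nat_lit 76) (nat_lit 1107172616199) (nat_lit 1) (nat_lit 4) (nat_lit 2) (nat_lit 5) (nat_lit 2) (nat_lit 4) (nat_lit 275) (nat_lit 204) (nat_lit 181)) (XT.nd (nat_lit 78) (nat_lit 0) (nat_lit 0) (XT.lf (nat_lit 0) (nat_lit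 439117343307) (nat_lit 76) (nat_lit 1273212100447) (nat_lit 76) (nat_lit 1271694961556) (nat_lit 1) (nat_lit 4) (nat_lit 2) (nat_lit 5) (nat_lit 2) (nat_lit 4) (nat_lit 276) (nat_lit 204) (nat_lit 180)) (XT.lf (nat_lit 0) (nat_lit 508147420129) (nat_lit 76) (nat_lit 1462436266188) (nat_lit 76) (nat_lit 1460911963987) (nat_lit 1) (nat_lit 4) (nat_lit 2) (nat_lit 5) (nat_lit 2) (nat_lit 4) (nat_lit 277) (nat_lit 204) (nat_lit 179))))) (XT.nd (nat_lit 234) (nat_lit 0) (nat_lit 0) (XT.nd (nat_lit 78) (nat_lit 0) (nat_lit 0) (XT.lf (nat_lit 0) (nat_lit 587506719209) (nat_lit 76) (nat_lit 1680056226445) (nat_lit 76) (nat_lit 1678525695279) (nat_lit 1) (nat_lit 4) (nat_lit 2) (nat_lit 5) (nat_lit 2) (nat_lit 4) (nat_lit 278) (nat_lit 204) (nat_lit 178)) (XT.nd (nat_lit 78) (nat_lit 0) (nat_lit 0) (XT.lf (nat_lit 0) (nat_lit 678747922485) (nat_lit 76) (nat_lit 1930329763049) (nat_lit 76) (nat_lit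 1928793815393) (nat_lit 1) (nat_lit 4) (nat_lit 2) (nat_lit 5) (nat_lit 2) (nat_lit 4) (nat_lit 279) (nat_lit 204) (nat_lit 177)) (XT.lf (nat_lit 0) (nat_lit 783656183933) (nat_lit 76) (nat_lit 2218153532152) (nat_lit 76) (nat_lit 2216612874504) (nat_lit 1) (nat_lit 4) (nat_lit 2) (nat_lit 5) (nat_lit 2) (nat_lit 4) (nat_lit 280) (nat_lit 204) (nat_lit 176)))) (XT.nd (nat_lit 78) (nat_lit 0) (nat_lit 0) (XT.lf (nat_lit 0) (nat_lit 904284056495) (nat_lit 76) (nat_lit 2549158868366) (nat_lit 76) (nat_lit 2547614115072) (nat_lit 1) (nat_lit 4) (nat_lit 2) (nat_lit 5) (nat_lit 2) (nat_lit 4) (nat_lit 281) (nat_lit 204) (nat_lit 175)) (XT.nd (nat_lit 78) (nat_lit 0) (nat_lit 0) (XT.lf (nat_lit 0) (nat_lit 1042991650722) (nat_lit 76) (nat_lit 2929821963053) (nat_lit 76) (nat_lit 2928273648328) (nat_lit 1) (nat_lit 4) (nat_lit 2) (nat_lit 5) (nat_lit 2) (nat_lit 4) (nat_lit 282) (nat_lit 204)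 (nat_lit 174)) (XT.lf (nat_lit 0) (nat_lit 1202492810848) (nat_lit 76) (nat_lit 3367590572411) (nat_lit 76) (nat_lit 3366039160790) (nat_lit 1) (nat_lit 4) (nat_lit 2) (nat_lit 5) (nat_lit 2) (nat_lit 4) (nat_lit 283) (nat_lit 204) (nat_lit 173))))))))
noncomputable def xc7 : XT := (XT.nd (nat_lit 33306) (nat_lit 0) (nat_lit 0) (XT.nd (nat_lit 32370) (nat_lit 0) (nat_lit 0) (XT.nd (nat_lit 31902) (nat_lit 0) (nat_lit 0) (XT.nd (nat_lit 156) (nat_lit 0) (nat_lit 0) (XT.nd (nat_lit 78) (nat_lit 0) (nat_lit 0) (XT.lf (nat_lit 0) (nat_lit 1385908211745) (nat_lit 76) (nat_lit 3871029734451) (nat_lit 76) (nat_lit 3869475629877) (nat_lit 1) (nat_lit 4) (nat_lit 2) (nat_lit 5) (nat_lit 2) (nat_lit 4) (nat_lit 284) (nat_lit 204) (nat_lit 172)) (XT.lf (nat_lit 0) (nat_lit 1596826415605) (nat_lit 76) (nat_lit 4449989345821) (nat_lit 76) (nat_lit 4448432899548) (nat_lit 1) (nat_lit 4) (nat_lit 2)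 (nat_lit 5) (nat_lit 2) (nat_lit 4) (nat_lit 285) (nat_lit 204) (nat_lit 171))) (XT.nd (nat_lit 31590) (nat_lit 0) (nat_lit 76) (XT.lf (nat_lit 0) (nat_lit 1839374082937) (nat_lit 76) (nat_lit 5115796877179) (nat_lit 76) (nat_lit 5114238394646) (nat_lit 1) (nat_lit 4) (nat_lit 2) (nat_lit 5) (nat_lit 2) (nat_lit 4) (nat_lit 286) (nat_lit 204) (nat_lit 170)) (XT.nd (nat_lit 78) (nat_lit 0) (nat_lit 0) (XT.lf (nat_lit 0) (nat_lit 12233702335) (nat_lit 152) (nat_lit 15854112435) (nat_lit 0) (nat_lit 12233702335) (nat_lit 2) (nat_lit 5) (nat_lit 4) (nat_lit 4) (nat_lit 2) (nat_lit 4) (nat_lit 250) (nat_lit 205) (nat_lit 205)) (XT.lf (nat_lit 0) (nat_lit 32712901131) (nat_lit 152) (nat_lit 27158161569) (nat_lit 0) (nat_lit 32477092492) (nat_lit 2) (nat_lit 5) (nat_lit 4) (nat_lit 4) (nat_lit 2) (nat_lit 4) (nat_lit 251) (nat_lit 205) (nat_lit 204))))) (XT.nd (nat_lit 234) (nat_lit 76) (nat_lit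 0) (XT.nd (nat_lit 78) (nat_lit 0) (nat_lit 0) (XT.lf (nat_lit 0) (nat_lit 41783359758) (nat_lit 152) (nat_lit 22716440102) (nat_lit 0) (nat_lit 41342500128) (nat_lit 2) (nat_lit 5) (nat_lit 4) (nat_lit 4) (nat_lit 2) (nat_lit 4) (nat_lit 252) (nat_lit 205) (nat_lit 203)) (XT.nd (nat_lit 78) (nat_lit 0) (nat_lit 0) (XT.lf (nat_lit 0) (nat_lit 51856246046) (nat_lit 152) (nat_lit 18296157222) (nat_lit 0) (nat_lit 51237081206) (nat_lit 2) (nat_lit 5) (nat_lit 4) (nat_lit 4) (nat_lit 2) (nat_lit 4) (nat_lit 253) (nat_lit 205) (nat_lit 202)) (XT.lf (nat_lit 0) (nat_lit 63128638206) (nat_lit 152) (nat_lit 13810829134) (nat_lit 0) (nat_lit 62354425358) (nat_lit 2) (nat_lit 5) (nat_lit 4) (nat_lit 4) (nat_lit 2) (nat_lit 4) (nat_lit 254) (nat_lit 205) (nat_lit 201)))) (XT.nd (nat_lit 78) (nat_lit 76) (nat_lit 0) (XT.lf (nat_lit 0) (nat_lit 75821083041) (nat_lit 152) (nat_lit 9172699419) (nat_lit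 0) (nat_lit 74912045838) (nat_lit 2) (nat_lit 5) (nat_lit 4) (nat_lit 4) (nat_lit 2) (nat_lit 4) (nat_lit 255) (nat_lit 205) (nat_lit 200)) (XT.nd (nat_lit 78) (nat_lit 76) (nat_lit 0) (XT.lf (nat_lit 0) (nat_lit 90181910994) (nat_lit 152) (nat_lit 4291022061) (nat_lit 0) (nat_lit 89155635221) (nat_lit 2) (nat_lit 5) (nat_lit 4) (nat_lit 4) (nat_lit 2) (nat_lit 4) (nat_lit 256) (nat_lit 205) (nat_lit 199)) (XT.lf (nat_lit 0) (nat_lit 978671110) (nat_lit 76) (nat_lit 105536960737) (nat_lit 76) (nat_lit 104408738382) (nat_lit 1) (nat_lit 4) (nat_lit 2) (nat_lit 5) (nat_lit 2) (nat_lit 4) (nat_lit 257) (nat_lit 205) (nat_lit 198)))))) (XT.nd (nat_lit 468) (nat_lit 0) (nat_lit 0) (XT.nd (nat_lit 234) (nat_lit 0) (nat_lit 0) (XT.nd (nat_lit 78) (nat_lit 0) (nat_lit 0) (XT.lf (nat_lit 0) (nat_lit 6938758456) (nat_lit 76) (nat_lit 118298865555) (nat_lit 76) (nat_lit 117081993998) (nat_lit 1)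 (nat_lit 4) (nat_lit 2) (nat_lit 5) (nat_lit 2) (nat_lit 4) (nat_lit 258) (nat_lit 205) (nat_lit 197)) (XT.nd (nat_lit 78) (nat_lit 0) (nat_lit 0) (XT.lf (nat_lit 0) (nat_lit 13479892763) (nat_lit 76) (nat_lit 133125661099) (nat_lit 76) (nat_lit 131831703280) (nat_lit 1) (nat_lit 4) (nat_lit 2) (nat_lit 5) (nat_lit 2) (nat_lit 4) (nat_lit 259) (nat_lit 205) (nat_lit 196)) (XT.lf (nat_lit 0) (nat_lit 20730052744) (nat_lit 76) (nat_lit 150307436848) (nat_lit 76) (nat_lit 148946447496) (nat_lit 1) (nat_lit 4) (nat_lit 2) (nat_lit 5) (nat_lit 2) (nat_lit 4) (nat_lit 260) (nat_lit 205) (nat_lit 195)))) (XT.nd (nat_lit 78) (nat_lit 0) (nat_lit 0) (XT.lf (nat_lit 0) (nat_lit 28831089357) (nat_lit 76) (nat_lit 170180357979) (nat_lit 76) (nat_lit 168761080338) (nat_lit 1) (nat_lit 4) (nat_lit 2) (nat_lit 5) (nat_lit 2) (nat_lit 4) (nat_lit 261) (nat_lit 205) (nat_lit 194)) (XT.nd (nat_lit 78)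 (nat_lit 0) (nat_lit 0) (XT.lf (nat_lit 0) (nat_lit 37941501143) (nat_lit 76) (nat_lit 193133242514) (nat_lit 76) (nat_lit 191663279404) (nat_lit 1) (nat_lit 4) (nat_lit 2) (nat_lit 5) (nat_lit 2) (nat_lit 4) (nat_lit 262) (nat_lit 205) (nat_lit 193)) (XT.lf (nat_lit 0) (nat_lit 48239535290) (nat_lit 76) (nat_lit 219615168628) (nat_lit 76) (nat_lit 218101131198) (nat_lit 1) (nat_lit 4) (nat_lit 2) (nat_lit 5) (nat_lit 2) (nat_lit 4) (nat_lit 263) (nat_lit 205) (nat_lit 192))))) (XT.nd (nat_lit 234) (nat_lit 0) (nat_lit 0) (XT.nd (nat_lit 78) (nat_lit 0) (nat_lit 0) (XT.lf (nat_lit 0) (nat_lit 59926675075) (nat_lit 76) (nat_lit 250144260964) (nat_lit 76) (nat_lit 248591898037) (nat_lit 1) (nat_lit 4) (nat_lit 2) (nat_lit 5) (nat_lit 2) (nat_lit 4) (nat_lit 264) (nat_lit 205) (nat_lit 191)) (XT.nd (nat_lit 78) (nat_lit 0) (nat_lit 0) (XT.lf (nat_lit 0) (nat_lit 73231581928) (nat_lit 76)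 (nat_lit 285317827850) (nat_lit 76) (nat_lit 283732138404) (nat_lit 1) (nat_lit 4) (nat_lit 2) (nat_lit 5) (nat_lit 2) (nat_lit 4) (nat_lit 265) (nat_lit 205) (nat_lit 190)) (XT.lf (nat_lit 0) (nat_lit 88414569244) (nat_lit 76) (nat_lit 325824047767) (nat_lit 76) (nat_lit 324209378740) (nat_lit 1) (nat_lit 4) (nat_lit 2) (nat_lit 5) (nat_lit 2) (nat_lit 4) (nat_lit 266) (nat_lit 205) (nat_lit 189)))) (XT.nd (nat_lit 78) (nat_lit 0) (nat_lit 0) (XT.lf (nat_lit 0) (nat_lit 105772695470) (nat_lit 76) (nat_lit 372455433715) (nat_lit 76) (nat_lit 370815565052) (nat_lit 1) (nat_lit 4) (nat_lit 2) (nat_lit 5) (nat_lit 2) (nat_lit 4) (nat_lit 267) (nat_lit 205) (nat_lit 188)) (XT.nd (nat_lit 78) (nat_lit 0) (nat_lit 0) (XT.lf (nat_lit 0) (nat_lit 125645576120) (nat_lit 76) (nat_lit 426124338896) (nat_lit 76) (nat_lit 424462557507) (nat_lit 1) (nat_lit 4) (nat_lit 2) (nat_lit 5) (nat_lit 2) (nat_lit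 4) (nat_lit 268) (nat_lit 205) (nat_lit 187)) (XT.lf (nat_lit 0) (nat_lit 148422028424) (nat_lit 76) (nat_lit 487880807109) (nat_lit 76) (nat_lit 486199971174) (nat_lit 1) (nat_lit 4) (nat_lit 2) (nat_lit 5) (nat_lit 2) (nat_lit 4) (nat_lit 269) (nat_lit 205) (nat_lit 186))))))) (XT.nd (nat_lit 858) (nat_lit 0) (nat_lit 0) (XT.nd (nat_lit 390) (nat_lit 0) (nat_lit 0) (XT.nd (nat_lit 156) (nat_lit 0) (nat_lit 0) (XT.nd (nat_lit 78) (nat_lit 0) (nat_lit 0) (XT.lf (nat_lit 0) (nat_lit 174547678623) (nat_lit 76) (nat_lit 558933117078) (nat_lit 76) (nat_lit 557235711973) (nat_lit 1) (nat_lit 4) (nat_lit 2) (nat_lit 5) (nat_lit 2) (nat_lit 4) (nat_lit 270) (nat_lit 205) (nat_lit 185)) (XT.lf (nat_lit 0) (nat_lit 204533680742) (nat_lit 76) (nat_lit 640671422694) (nat_lit 76) (nat_lit 638959609616) (nat_lit 1) (nat_lit 4) (nat_lit 2) (nat_lit 5) (nat_lit 2) (nat_lit 4) (nat_lit 271) (nat_lit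 205) (nat_lit 184))) (XT.nd (nat_lit 78) (nat_lit 0) (nat_lit 0) (XT.lf (nat_lit 0) (nat_lit 238966717431) (nat_lit 76) (nat_lit 734694951676) (nat_lit 76) (nat_lit 732970609925) (nat_lit 1) (nat_lit 4) (nat_lit 2) (nat_lit 5) (nat_lit 2) (nat_lit 4) (nat_lit 272) (nat_lit 205) (nat_lit 183)) (XT.nd (nat_lit 78) (nat_lit 0) (nat_lit 0) (XT.lf (nat_lit 0) (nat_lit 278520478539) (nat_lit 76) (nat_lit 842843294809) (nat_lit 76) (nat_lit 841108058560) (nat_lit 1) (nat_lit 4) (nat_lit 2) (nat_lit 5) (nat_lit 2) (nat_lit 4) (nat_lit 273) (nat_lit 205) (nat_lit 182)) (XT.lf (nat_lit 0) (nat_lit 323968842000) (nat_lit 76) (nat_lit 967232397936) (nat_lit 76) (nat_lit 965487688210) (nat_lit 1) (nat_lit 4) (nat_lit 2) (nat_lit 5) (nat_lit 2) (nat_lit 4) (nat_lit 274) (nat_lit 205) (nat_lit 181))))) (XT.nd (nat_lit 234) (nat_lit 0) (nat_lit 0) (XT.nd (nat_lit 78) (nat_lit 0) (nat_lit 0) (XT.lf (nat_lit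 0) (nat_lit 376201014926) (nat_lit 76) (nat_lit 1110295960901) (nat_lit 76) (nat_lit 1108543013370) (nat_lit 1) (nat_lit 4) (nat_lit 2) (nat_lit 5) (nat_lit 2) (nat_lit 4) (nat_lit 275) (nat_lit 205) (nat_lit 180)) (XT.nd (nat_lit 78) (nat_lit 0) (nat_lit 0) (XT.lf (nat_lit 0) (nat_lit 436238931134) (nat_lit 76) (nat_lit 1274833053414) (nat_lit 76) (nat_lit 1273072942574) (nat_lit 1) (nat_lit 4) (nat_lit 2) (nat_lit 5) (nat_lit 2) (nat_lit 4) (nat_lit 276) (nat_lit 205) (nat_lit 179)) (XT.lf (nat_lit 0) (nat_lit 505257245507) (nat_lit 76) (nat_lit 1464062879459) (nat_lit 76) (nat_lit 1462296539654) (nat_lit 1) (nat_lit 4) (nat_lit 2) (nat_lit 5) (nat_lit 2) (nat_lit 4) (nat_lit 277) (nat_lit 205) (nat_lit 178)))) (XT.nd (nat_lit 78) (nat_lit 0) (nat_lit 0) (XT.lf (nat_lit 0) (nat_lit 584606316370) (nat_lit 76) (nat_lit 1681687761721) (nat_lit 76) (nat_lit 1679916005425) (nat_lit 1) (nat_lit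 4) (nat_lit 2) (nat_lit 5) (nat_lit 2) (nat_lit 4) (nat_lit 278) (nat_lit 205) (nat_lit 177)) (XT.nd (nat_lit 78) (nat_lit 0) (nat_lit 0) (XT.lf (nat_lit 0) (nat_lit 675838625544) (nat_lit 76) (nat_lit 1931965578329) (nat_lit 76) (nat_lit 1930189112040) (nat_lit 1) (nat_lit 4) (nat_lit 2) (nat_lit 5) (nat_lit 2) (nat_lit 4) (nat_lit 279) (nat_lit 205) (nat_lit 176)) (XT.lf (nat_lit 0) (nat_lit 780739152991) (nat_lit 76) (nat_lit 2219793069174) (nat_lit 76) (nat_lit 2218012507240) (nat_lit 1) (nat_lit 4) (nat_lit 2) (nat_lit 5) (nat_lit 2) (nat_lit 4) (nat_lit 280) (nat_lit 205) (nat_lit 175)))))) (XT.nd (nat_lit 31824) (nat_lit 0) (nat_lit 76) (XT.nd (nat_lit 234) (nat_lit 0) (nat_lit 0) (XT.nd (nat_lit 78) (nat_lit 0) (nat_lit 0) (XT.lf (nat_lit 0) (nat_lit 901360300334) (nat_lit 76) (nat_lit 2550801641686) (nat_lit 76) (nat_lit 2549017518321) (nat_lit 1) (nat_lit 4) (nat_lit 2) (nat_lit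 5) (nat_lit 2) (nat_lit 4) (nat_lit 281) (nat_lit 205) (nat_lit 174)) (XT.nd (nat_lit 78) (nat_lit 0) (nat_lit 0) (XT.lf (nat_lit 0) (nat_lit 1040062046545) (nat_lit 76) (nat_lit 2931467550544) (nat_lit 76) (nat_lit 2929680330283) (nat_lit 1) (nat_lit 4) (nat_lit 2) (nat_lit 5) (nat_lit 2) (nat_lit 4) (nat_lit 282) (nat_lit 205) (nat_lit 173)) (XT.lf (nat_lit 0) (nat_lit 1199558121439) (nat_lit 76) (nat_lit 3369238607008) (nat_lit 76) (nat_lit 3367448693794) (nat_lit 1) (nat_lit 4) (nat_lit 2) (nat_lit 5) (nat_lit 2) (nat_lit 4) (nat_lit 283) (nat_lit 205) (nat_lit 172)))) (XT.nd (nat_lit 78) (nat_lit 0) (nat_lit 0) (XT.lf (nat_lit 0) (nat_lit 1382969100396) (nat_lit 76) (nat_lit 3872679896966) (nat_lit 76) (nat_lit 3870887642054) (nat_lit 1) (nat_lit 4) (nat_lit 2) (nat_lit 5) (nat_lit 2) (nat_lit 4) (nat_lit 284) (nat_lit 205) (nat_lit 171)) (XT.nd (nat_lit 78) (nat_lit 0) (nat_lit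 0) (XT.lf (nat_lit 0) (nat_lit 1593883459090) (nat_lit 76) (nat_lit 4451641358700) (nat_lit 76) (nat_lit 4449847067528) (nat_lit 1) (nat_lit 4) (nat_lit 2) (nat_lit 5) (nat_lit 2) (nat_lit 4) (nat_lit 285) (nat_lit 205) (nat_lit 170)) (XT.lf (nat_lit 0) (nat_lit 1836427782800) (nat_lit 76) (nat_lit 5117450499070) (nat_lit 76) (nat_lit 5115654437237) (nat_lit 1) (nat_lit 4) (nat_lit 2) (nat_lit 5) (nat_lit 2) (nat_lit 4) (nat_lit 286) (nat_lit 205) (nat_lit 169))))) (XT.nd (nat_lit 234) (nat_lit 0) (nat_lit 0) (XT.nd (nat_lit 78) (nat_lit 0) (nat_lit 0) (XT.lf (nat_lit 0) (nat_lit 5171752939) (nat_lit 152) (nat_lit 20503432421) (nat_lit 0) (nat_lit 5171752939) (nat_lit 2) (nat_lit 5) (nat_lit 4) (nat_lit 4) (nat_lit 2) (nat_lit 4) (nat_lit 248) (nat_lit 206) (nat_lit 206)) (XT.nd (nat_lit 78) (nat_lit 0) (nat_lit 0) (XT.lf (nat_lit 0) (nat_lit 17156725383) (nat_lit 152) (nat_lit 36455652982)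 (nat_lit 0) (nat_lit 16885545448) (nat_lit 2) (nat_lit 5) (nat_lit 4) (nat_lit 4) (nat_lit 2) (nat_lit 4) (nat_lit 249) (nat_lit 206) (nat_lit 205)) (XT.lf (nat_lit 0) (nat_lit 24518286166) (nat_lit 152) (nat_lit 32131238371) (nat_lit 0) (nat_lit 24011297591) (nat_lit 2) (nat_lit 5) (nat_lit 4) (nat_lit 4) (nat_lit 2) (nat_lit 4) (nat_lit 250) (nat_lit 206) (nat_lit 204)))) (XT.nd (nat_lit 78) (nat_lit 0) (nat_lit 0) (XT.lf (nat_lit 0) (nat_lit 32572218764) (nat_lit 152) (nat_lit 27949012898) (nat_lit 0) (nat_lit 31860179199) (nat_lit 2) (nat_lit 5) (nat_lit 4) (nat_lit 4) (nat_lit 2) (nat_lit 4) (nat_lit 251) (nat_lit 206) (nat_lit 203)) (XT.nd (nat_lit 78) (nat_lit 0) (nat_lit 0) (XT.lf (nat_lit 0) (nat_lit 41476100120) (nat_lit 152) (nat_lit 23827150411) (nat_lit 0) (nat_lit 40585755345) (nat_lit 2) (nat_lit 5) (nat_lit 4) (nat_lit 4) (nat_lit 2) (nat_lit 4) (nat_lit 252) (nat_lit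 206) (nat_lit 202)) (XT.lf (nat_lit 0) (nat_lit 51404136608) (nat_lit 152) (nat_lit 19685005775) (nat_lit 0) (nat_lit 50358743825) (nat_lit 2) (nat_lit 5) (nat_lit 4) (nat_lit 4) (nat_lit 2) (nat_lit 4) (nat_lit 253) (nat_lit 206) (nat_lit 201))))))))
noncomputable def xc8 : XT := (XT.nd (nat_lit 1794) (nat_lit 0) (nat_lit 0) (XT.nd (nat_lit 858) (nat_lit 0) (nat_lit 0) (XT.nd (nat_lit 390) (nat_lit 0) (nat_lit 0) (XT.nd (nat_lit 156) (nat_lit 76) (nat_lit 0) (XT.nd (nat_lit 78) (nat_lit 0) (nat_lit 0) (XT.lf (nat_lit 0) (nat_lit 62550572420) (nat_lit 152) (nat_lit 15441537029) (nat_lit 0) (nat_lit 61370355281) (nat_lit 2) (nat_lit 5) (nat_lit 4) (nat_lit 4) (nat_lit 2) (nat_lit 4) (nat_lit 254) (nat_lit 206) (nat_lit 200)) (XT.lf (nat_lit 0) (nat_lit 75133489995) (nat_lit 152) (nat_lit 11013719786) (nat_lit 0) (nat_lit 73836034287) (nat_lit 2) (nat_lit 5) (nat_lit 4) (nat_lit 4) (nat_lit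 2) (nat_lit 4) (nat_lit 255) (nat_lit 206) (nat_lit 199))) (XT.nd (nat_lit 78) (nat_lit 76) (nat_lit 0) (XT.lf (nat_lit 0) (nat_lit 89399076852) (nat_lit 152) (nat_lit 6314922838) (nat_lit 0) (nat_lit 87999674562) (nat_lit 2) (nat_lit 5) (nat_lit 4) (nat_lit 4) (nat_lit 2) (nat_lit 4) (nat_lit 256) (nat_lit 206) (nat_lit 198)) (XT.nd (nat_lit 78) (nat_lit 76) (nat_lit 0) (XT.lf (nat_lit 0) (nat_lit 105626442299) (nat_lit 152) (nat_lit 1253213202) (nat_lit 0) (nat_lit 104138390807) (nat_lit 2) (nat_lit 5) (nat_lit 4) (nat_lit 4) (nat_lit 2) (nat_lit 4) (nat_lit 257) (nat_lit 206) (nat_lit 197)) (XT.lf (nat_lit 0) (nat_lit 4495316510) (nat_lit 76) (nat_lit 119745874228) (nat_lit 76) (nat_lit 118180736473) (nat_lit 1) (nat_lit 4) (nat_lit 2) (nat_lit 5) (nat_lit 2) (nat_lit 4) (nat_lit 258) (nat_lit 206) (nat_lit 196))))) (XT.nd (nat_lit 234) (nat_lit 0) (nat_lit 0) (XT.nd (nat_lit 78) (nat_lit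 0) (nat_lit 0) (XT.lf (nat_lit 0) (nat_lit 10909871992) (nat_lit 76) (nat_lit 134633581806) (nat_lit 76) (nat_lit 133001412519) (nat_lit 1) (nat_lit 4) (nat_lit 2) (nat_lit 5) (nat_lit 2) (nat_lit 4) (nat_lit 259) (nat_lit 206) (nat_lit 195)) (XT.nd (nat_lit 78) (nat_lit 0) (nat_lit 0) (XT.lf (nat_lit 0) (nat_lit 18049963431) (nat_lit 76) (nat_lit 151868324541) (nat_lit 76) (nat_lit 150177866964) (nat_lit 1) (nat_lit 4) (nat_lit 2) (nat_lit 5) (nat_lit 2) (nat_lit 4) (nat_lit 260) (nat_lit 206) (nat_lit 194)) (XT.lf (nat_lit 0) (nat_lit 26055288268) (nat_lit 76) (nat_lit 171787303920) (nat_lit 76) (nat_lit 170046160875) (nat_lit 1) (nat_lit 4) (nat_lit 2) (nat_lit 5) (nat_lit 2) (nat_lit 4) (nat_lit 261) (nat_lit 206) (nat_lit 193)))) (XT.nd (nat_lit 78) (nat_lit 0) (nat_lit 0) (XT.lf (nat_lit 0) (nat_lit 35082472423) (nat_lit 76) (nat_lit 194780239106) (nat_lit 76) (nat_lit 192995021740)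 (nat_lit 1) (nat_lit 4) (nat_lit 2) (nat_lit 5) (nat_lit 2) (nat_lit 4) (nat_lit 262) (nat_lit 206) (nat_lit 192)) (XT.nd (nat_lit 78) (nat_lit 0) (nat_lit 0) (XT.lf (nat_lit 0) (nat_lit 45308134717) (nat_lit 76) (nat_lit 221296991874) (nat_lit 76) (nat_lit 219473449011) (nat_lit 1) (nat_lit 4) (nat_lit 2) (nat_lit 5) (nat_lit 2) (nat_lit 4) (nat_lit 263) (nat_lit 206) (nat_lit 191)) (XT.lf (nat_lit 0) (nat_lit 56932342455) (nat_lit 76) (nat_lit 251856368256) (nat_lit 76) (nat_lit 249999498875) (nat_lit 1) (nat_lit 4) (nat_lit 2) (nat_lit 5) (nat_lit 2) (nat_lit 4) (nat_lit 264) (nat_lit 206) (nat_lit 190)))))) (XT.nd (nat_lit 468) (nat_lit 0) (nat_lit 0) (XT.nd (nat_lit 234) (nat_lit 0) (nat_lit 0) (XT.nd (nat_lit 78) (nat_lit 0) (nat_lit 0) (XT.lf (nat_lit 0) (nat_lit 70182525790) (nat_lit 76) (nat_lit 287056269094) (nat_lit 76) (nat_lit 285170420132) (nat_lit 1) (nat_lit 4) (nat_lit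 2) (nat_lit 5) (nat_lit 2) (nat_lit 4) (nat_lit 265) (nat_lit 206) (nat_lit 189)) (XT.nd (nat_lit 78) (nat_lit 0) (nat_lit 0) (XT.lf (nat_lit 0) (nat_lit 85317927437) (nat_lit 76) (nat_lit 327585388101) (nat_lit 76) (nat_lit 325674339503) (nat_lit 1) (nat_lit 4) (nat_lit 2) (nat_lit 5) (nat_lit 2) (nat_lit 4) (nat_lit 266) (nat_lit 206) (nat_lit 188)) (XT.lf (nat_lit 0) (nat_lit 102634674822) (nat_lit 76) (nat_lit 374236686301) (nat_lit 76) (nat_lit 372303724976) (nat_lit 1) (nat_lit 4) (nat_lit 2) (nat_lit 5) (nat_lit 2) (nat_lit 4) (nat_lit 267) (nat_lit 206) (nat_lit 187)))) (XT.nd (nat_lit 78) (nat_lit 0) (nat_lit 0) (XT.lf (nat_lit 0) (nat_lit 122471573871) (nat_lit 76) (nat_lit 427922906484) (nat_lit 76) (nat_lit 425970890614) (nat_lit 1) (nat_lit 4) (nat_lit 2) (nat_lit 5) (nat_lit 2) (nat_lit 4) (nat_lit 268) (nat_lit 206) (nat_lit 186)) (XT.nd (nat_lit 78) (nat_lit 0) (nat_lit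 0) (XT.lf (nat_lit 0) (nat_lit 145216737825) (nat_lit 76) (nat_lit 489694431219) (nat_lit 76) (nat_lit 487725846180) (nat_lit 1) (nat_lit 4) (nat_lit 2) (nat_lit 5) (nat_lit 2) (nat_lit 4) (nat_lit 269) (nat_lit 206) (nat_lit 185)) (XT.lf (nat_lit 0) (nat_lit 171315180764) (nat_lit 76) (nat_lit 560759833817) (nat_lit 76) (nat_lit 558776840804) (nat_lit 1) (nat_lit 4) (nat_lit 2) (nat_lit 5) (nat_lit 2) (nat_lit 4) (nat_lit 270) (nat_lit 206) (nat_lit 184))))) (XT.nd (nat_lit 234) (nat_lit 0) (nat_lit 0) (XT.nd (nat_lit 78) (nat_lit 0) (nat_lit 0) (XT.lf (nat_lit 0) (nat_lit 201277524395) (nat_lit 76) (nat_lit 642509524328) (nat_lit 76) (nat_lit 640514002642) (nat_lit 1) (nat_lit 4) (nat_lit 2) (nat_lit 5) (nat_lit 2) (nat_lit 4) (nat_lit 271) (nat_lit 206) (nat_lit 183)) (XT.nd (nat_lit 78) (nat_lit 0) (nat_lit 0) (XT.lf (nat_lit 0) (nat_lit 235689988487) (nat_lit 76) (nat_lit 736542953219)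 (nat_lit 76) (nat_lit 734536537035) (nat_lit 1) (nat_lit 4) (nat_lit 2) (nat_lit 5) (nat_lit 2) (nat_lit 4) (nat_lit 272) (nat_lit 206) (nat_lit 182)) (XT.lf (nat_lit 0) (nat_lit 275225860379) (nat_lit 76) (nat_lit 844699904968) (nat_lit 76) (nat_lit 842684015307) (nat_lit 1) (nat_lit 4) (nat_lit 2) (nat_lit 5) (nat_lit 2) (nat_lit 4) (nat_lit 273) (nat_lit 206) (nat_lit 181)))) (XT.nd (nat_lit 78) (nat_lit 0) (nat_lit 0) (XT.lf (nat_lit 0) (nat_lit 320658668001) (nat_lit 76) (nat_lit 969096493848) (nat_lit 76) (nat_lit 967072366381) (nat_lit 1) (nat_lit 4) (nat_lit 2) (nat_lit 5) (nat_lit 2) (nat_lit 4) (nat_lit 274) (nat_lit 206) (nat_lit 180)) (XT.nd (nat_lit 78) (nat_lit 0) (nat_lit 0) (XT.lf (nat_lit 0) (nat_lit 372877314110) (nat_lit 76) (nat_lit 1112166566163) (nat_lit 76) (nat_lit 1110135275387) (nat_lit 1) (nat_lit 4) (nat_lit 2) (nat_lit 5) (nat_lit 2) (nat_lit 4) (nat_lit 275)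 (nat_lit 206) (nat_lit 179)) (XT.lf (nat_lit 0) (nat_lit 432903467869) (nat_lit 76) (nat_lit 1276709318981) (nat_lit 76) (nat_lit 1274671799241) (nat_lit 1) (nat_lit 4) (nat_lit 2) (nat_lit 5) (nat_lit 2) (nat_lit 4) (nat_lit 276) (nat_lit 206) (nat_lit 178))))))) (XT.nd (nat_lit 32058) (nat_lit 0) (nat_lit 0) (XT.nd (nat_lit 390) (nat_lit 0) (nat_lit 0) (XT.nd (nat_lit 156) (nat_lit 0) (nat_lit 0) (XT.nd (nat_lit 78) (nat_lit 0) (nat_lit 0) (XT.lf (nat_lit 0) (nat_lit 501911554025) (nat_lit 76) (nat_lit 1465944067031) (nat_lit 76) (nat_lit 1463901130799) (nat_lit 1) (nat_lit 4) (nat_lit 2) (nat_lit 5) (nat_lit 2) (nat_lit 4) (nat_lit 277) (nat_lit 206) (nat_lit 177)) (XT.lf (nat_lit 0) (nat_lit 581251730786) (nat_lit 76) (nat_lit 1683573229295) (nat_lit 76) (nat_lit 1681525583072) (nat_lit 1) (nat_lit 4) (nat_lit 2) (nat_lit 5) (nat_lit 2) (nat_lit 4) (nat_lit 278) (nat_lit 206) (nat_lit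 176))) (XT.nd (nat_lit 78) (nat_lit 0) (nat_lit 0) (XT.lf (nat_lit 0) (nat_lit 672476305959) (nat_lit 76) (nat_lit 1933854767646) (nat_lit 76) (nat_lit 1931803025777) (nat_lit 1) (nat_lit 4) (nat_lit 2) (nat_lit 5) (nat_lit 2) (nat_lit 4) (nat_lit 279) (nat_lit 206) (nat_lit 175)) (XT.nd (nat_lit 78) (nat_lit 0) (nat_lit 0) (XT.lf (nat_lit 0) (nat_lit 777370108187) (nat_lit 76) (nat_lit 2221685494788) (nat_lit 76) (nat_lit 2219630191489) (nat_lit 1) (nat_lit 4) (nat_lit 2) (nat_lit 5) (nat_lit 2) (nat_lit 4) (nat_lit 280) (nat_lit 206) (nat_lit 174)) (XT.lf (nat_lit 0) (nat_lit 897985407515) (nat_lit 76) (nat_lit 2552696881472) (nat_lit 76) (nat_lit 2550638481276) (nat_lit 1) (nat_lit 4) (nat_lit 2) (nat_lit 5) (nat_lit 2) (nat_lit 4) (nat_lit 281) (nat_lit 206) (nat_lit 173))))) (XT.nd (nat_lit 234) (nat_lit 0) (nat_lit 0) (XT.nd (nat_lit 78) (nat_lit 0) (nat_lit 0) (XT.lf (nat_lit 0)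 (nat_lit 1036682068494) (nat_lit 76) (nat_lit 2933365237436) (nat_lit 76) (nat_lit 2931304144287) (nat_lit 1) (nat_lit 4) (nat_lit 2) (nat_lit 5) (nat_lit 2) (nat_lit 4) (nat_lit 282) (nat_lit 206) (nat_lit 172)) (XT.nd (nat_lit 78) (nat_lit 0) (nat_lit 0) (XT.lf (nat_lit 0) (nat_lit 1196173721448) (nat_lit 76) (nat_lit 3371138421818) (nat_lit 76) (nat_lit 3369074986971) (nat_lit 1) (nat_lit 4) (nat_lit 2) (nat_lit 5) (nat_lit 2) (nat_lit 4) (nat_lit 283) (nat_lit 206) (nat_lit 171)) (XT.lf (nat_lit 0) (nat_lit 1379580855239) (nat_lit 76) (nat_lit 3874581562140) (nat_lit 76) (nat_lit 3872516091033) (nat_lit 1) (nat_lit 4) (nat_lit 2) (nat_lit 5) (nat_lit 2) (nat_lit 4) (nat_lit 284) (nat_lit 206) (nat_lit 170)))) (XT.nd (nat_lit 78) (nat_lit 0) (nat_lit 0) (XT.lf (nat_lit 0) (nat_lit 1590491870310) (nat_lit 76) (nat_lit 4453544632886) (nat_lit 76) (nat_lit 4451477391118) (nat_lit 1) (nat_lit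 4) (nat_lit 2) (nat_lit 5) (nat_lit 2) (nat_lit 4) (nat_lit 285) (nat_lit 206) (nat_lit 169)) (XT.nd (nat_lit 31278) (nat_lit 0) (nat_lit 228) (XT.lf (nat_lit 0) (nat_lit 1833033286523) (nat_lit 76) (nat_lit 5119355172396) (nat_lit 76) (nat_lit 5117286390924) (nat_lit 1) (nat_lit 4) (nat_lit 2) (nat_lit 5) (nat_lit 2) (nat_lit 4) (nat_lit 286) (nat_lit 206) (nat_lit 168)) (XT.lf (nat_lit 0) (nat_lit 22210115821) (nat_lit 76) (nat_lit 760153665) (nat_lit 76) (nat_lit 760153665) (nat_lit 4) (nat_lit 4) (nat_lit 5) (nat_lit 5) (nat_lit 5) (nat_lit 4) (nat_lit 246) (nat_lit 207) (nat_lit 207)))))) (XT.nd (nat_lit 468) (nat_lit 76) (nat_lit 0) (XT.nd (nat_lit 234) (nat_lit 0) (nat_lit 0) (XT.nd (nat_lit 78) (nat_lit 0) (nat_lit 0) (XT.lf (nat_lit 0) (nat_lit 4257182457) (nat_lit 152) (nat_lit 45873919400) (nat_lit 0) (nat_lit 3945325531) (nat_lit 2) (nat_lit 5) (nat_lit 4) (nat_lit 4) (nat_lit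 2) (nat_lit 4) (nat_lit 247) (nat_lit 207) (nat_lit 206)) (XT.nd (nat_lit 78) (nat_lit 0) (nat_lit 0) (XT.lf (nat_lit 0) (nat_lit 10402019597) (nat_lit 152) (nat_lit 41493330369) (nat_lit 0) (nat_lit 9818982736) (nat_lit 2) (nat_lit 5) (nat_lit 4) (nat_lit 4) (nat_lit 2) (nat_lit 4) (nat_lit 248) (nat_lit 207) (nat_lit 205)) (XT.lf (nat_lit 0) (nat_lit 16994940661) (nat_lit 152) (nat_lit 37365132010) (nat_lit 0) (nat_lit 16176095161) (nat_lit 2) (nat_lit 5) (nat_lit 4) (nat_lit 4) (nat_lit 2) (nat_lit 4) (nat_lit 249) (nat_lit 207) (nat_lit 204)))) (XT.nd (nat_lit 78) (nat_lit 0) (nat_lit 0) (XT.lf (nat_lit 0) (nat_lit 24164937583) (nat_lit 152) (nat_lit 33408555227) (nat_lit 0) (nat_lit 23141041092) (nat_lit 2) (nat_lit 5) (nat_lit 4) (nat_lit 4) (nat_lit 2) (nat_lit 4) (nat_lit 250) (nat_lit 207) (nat_lit 203)) (XT.nd (nat_lit 78) (nat_lit 0) (nat_lit 0) (XT.lf (nat_lit 0) (nat_lit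 32052292910) (nat_lit 152) (nat_lit 29546188733) (nat_lit 0) (nat_lit 30850091210) (nat_lit 2) (nat_lit 5) (nat_lit 4) (nat_lit 4) (nat_lit 2) (nat_lit 4) (nat_lit 251) (nat_lit 207) (nat_lit 202)) (XT.lf (nat_lit 0) (nat_lit 40811324466) (nat_lit 152) (nat_lit 25702464490) (nat_lit 0) (nat_lit 39454074757) (nat_lit 2) (nat_lit 5) (nat_lit 4) (nat_lit 4) (nat_lit 2) (nat_lit 4) (nat_lit 252) (nat_lit 207) (nat_lit 201))))) (XT.nd (nat_lit 234) (nat_lit 76) (nat_lit 0) (XT.nd (nat_lit 78) (nat_lit 0) (nat_lit 0) (XT.lf (nat_lit 0) (nat_lit 50613404605) (nat_lit 152) (nat_lit 21802179196) (nat_lit 0) (nat_lit 49121330541) (nat_lit 2) (nat_lit 5) (nat_lit 4) (nat_lit 4) (nat_lit 2) (nat_lit 4) (nat_lit 253) (nat_lit 207) (nat_lit 200)) (XT.nd (nat_lit 78) (nat_lit 0) (nat_lit 0) (XT.lf (nat_lit 0) (nat_lit 61650313157) (nat_lit 152) (nat_lit 17769022923) (nat_lit 0) (nat_lit 60041000524)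 (nat_lit 2) (nat_lit 5) (nat_lit 4) (nat_lit 4) (nat_lit 2) (nat_lit 4) (nat_lit 254) (nat_lit 207) (nat_lit 199)) (XT.lf (nat_lit 0) (nat_lit 74137989637) (nat_lit 152) (nat_lit 13524086090) (nat_lit 0) (nat_lit 72426730422) (nat_lit 2) (nat_lit 5) (nat_lit 4) (nat_lit 4) (nat_lit 2) (nat_lit 4) (nat_lit 255) (nat_lit 207) (nat_lit 198)))) (XT.nd (nat_lit 78) (nat_lit 76) (nat_lit 0) (XT.lf (nat_lit 0) (nat_lit 88320758151) (nat_lit 152) (nat_lit 8984315585) (nat_lit 0) (nat_lit 86520849733) (nat_lit 2) (nat_lit 5) (nat_lit 4) (nat_lit 4) (nat_lit 2) (nat_lit 4) (nat_lit 256) (nat_lit 207) (nat_lit 197)) (XT.nd (nat_lit 78) (nat_lit 76) (nat_lit 0) (XT.lf (nat_lit 0) (nat_lit 104476107646) (nat_lit 152) (nat_lit 4060889813) (nat_lit 0) (nat_lit 102599112966) (nat_lit 2) (nat_lit 5) (nat_lit 4) (nat_lit 4) (nat_lit 2) (nat_lit 4) (nat_lit 257) (nat_lit 207) (nat_lit 196)) (XT.lf (nat_lit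 0) (nat_lit 1413213800) (nat_lit 76) (nat_lit 121540895074) (nat_lit 76) (nat_lit 119596868862) (nat_lit 1) (nat_lit 4) (nat_lit 2) (nat_lit 5) (nat_lit 2) (nat_lit 4) (nat_lit 258) (nat_lit 207) (nat_lit 195))))))))
noncomputable def xc9 : XT := (XT.nd (nat_lit 1794) (nat_lit 0) (nat_lit 0) (XT.nd (nat_lit 858) (nat_lit 0) (nat_lit 0) (XT.nd (nat_lit 390) (nat_lit 0) (nat_lit 0) (XT.nd (nat_lit 156) (nat_lit 0) (nat_lit 0) (XT.nd (nat_lit 78) (nat_lit 0) (nat_lit 0) (XT.lf (nat_lit 0) (nat_lit 7717700741) (nat_lit 76) (nat_lit 136481569638) (nat_lit 76) (nat_lit 134479255137) (nat_lit 1) (nat_lit 4) (nat_lit 2) (nat_lit 5) (nat_lit 2) (nat_lit 4) (nat_lit 259) (nat_lit 207) (nat_lit 194)) (XT.lf (nat_lit 0) (nat_lit 14762080404) (nat_lit 76) (nat_lit 153762370622) (nat_lit 76) (nat_lit 151709370651) (nat_lit 1) (nat_lit 4) (nat_lit 2) (nat_lit 5) (nat_lit 2) (nat_lit 4) (nat_lit 260)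 (nat_lit 207) (nat_lit 193))) (XT.nd (nat_lit 78) (nat_lit 0) (nat_lit 0) (XT.lf (nat_lit 0) (nat_lit 22684177609) (nat_lit 76) (nat_lit 173721400652) (nat_lit 76) (nat_lit 171624326360) (nat_lit 1) (nat_lit 4) (nat_lit 2) (nat_lit 5) (nat_lit 2) (nat_lit 4) (nat_lit 261) (nat_lit 207) (nat_lit 192)) (XT.nd (nat_lit 78) (nat_lit 0) (nat_lit 0) (XT.lf (nat_lit 0) (nat_lit 31638989911) (nat_lit 76) (nat_lit 196749162491) (nat_lit 76) (nat_lit 194613762703) (nat_lit 1) (nat_lit 4) (nat_lit 2) (nat_lit 5) (nat_lit 2) (nat_lit 4) (nat_lit 262) (nat_lit 207) (nat_lit 191)) (XT.lf (nat_lit 0) (nat_lit 41801720159) (nat_lit 76) (nat_lit 223296199305) (nat_lit 76) (nat_lit 221127472998) (nat_lit 1) (nat_lit 4) (nat_lit 2) (nat_lit 5) (nat_lit 2) (nat_lit 4) (nat_lit 263) (nat_lit 207) (nat_lit 190))))) (XT.nd (nat_lit 234) (nat_lit 0) (nat_lit 0) (XT.nd (nat_lit 78) (nat_lit 0) (nat_lit 0) (XT.lf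 (nat_lit 0) (nat_lit 53371204378) (nat_lit 76) (nat_lit 253881909640) (nat_lit 76) (nat_lit 251684203752) (nat_lit 1) (nat_lit 4) (nat_lit 2) (nat_lit 5) (nat_lit 2) (nat_lit 4) (nat_lit 264) (nat_lit 207) (nat_lit 189)) (XT.nd (nat_lit 78) (nat_lit 0) (nat_lit 0) (XT.lf (nat_lit 0) (nat_lit 66573802045) (nat_lit 76) (nat_lit 289104709568) (nat_lit 76) (nat_lit 286881804044) (nat_lit 1) (nat_lit 4) (nat_lit 2) (nat_lit 5) (nat_lit 2) (nat_lit 4) (nat_lit 265) (nat_lit 207) (nat_lit 188)) (XT.lf (nat_lit 0) (nat_lit 81667824850) (nat_lit 76) (nat_lit 329653740827) (nat_lit 76) (nat_lit 327408922576) (nat_lit 1) (nat_lit 4) (nat_lit 2) (nat_lit 5) (nat_lit 2) (nat_lit 4) (nat_lit 266) (nat_lit 207) (nat_lit 187)))) (XT.nd (nat_lit 78) (nat_lit 0) (nat_lit 0) (XT.lf (nat_lit 0) (nat_lit 98948590633) (nat_lit 76) (nat_lit 376322354028) (nat_lit 76) (nat_lit 374058481232) (nat_lit 1) (nat_lit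 4) (nat_lit 2) (nat_lit 5) (nat_lit 2) (nat_lit 4) (nat_lit 267) (nat_lit 207) (nat_lit 186)) (XT.nd (nat_lit 78) (nat_lit 0) (nat_lit 0) (XT.lf (nat_lit 0) (nat_lit 118754201332) (nat_lit 76) (nat_lit 430023630735) (nat_lit 76) (nat_lit 427743188769) (nat_lit 1) (nat_lit 4) (nat_lit 2) (nat_lit 5) (nat_lit 2) (nat_lit 4) (nat_lit 268) (nat_lit 207) (nat_lit 185)) (XT.lf (nat_lit 0) (nat_lit 141472158027) (nat_lit 76) (nat_lit 491808248099) (nat_lit 76) (nat_lit 489513398160) (nat_lit 1) (nat_lit 4) (nat_lit 2) (nat_lit 5) (nat_lit 2) (nat_lit 4) (nat_lit 269) (nat_lit 207) (nat_lit 184)))))) (XT.nd (nat_lit 468) (nat_lit 0) (nat_lit 0) (XT.nd (nat_lit 234) (nat_lit 0) (nat_lit 0) (XT.nd (nat_lit 78) (nat_lit 0) (nat_lit 0) (XT.lf (nat_lit 0) (nat_lit 167546942478) (nat_lit 76) (nat_lit 562885035591) (nat_lit 76) (nat_lit 560577656979) (nat_lit 1) (nat_lit 4) (nat_lit 2) (nat_lit 5) (nat_lit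 2) (nat_lit 4) (nat_lit 270) (nat_lit 207) (nat_lit 183)) (XT.nd (nat_lit 78) (nat_lit 0) (nat_lit 0) (XT.lf (nat_lit 0) (nat_lit 197488713512) (nat_lit 76) (nat_lit 644644626011) (nat_lit 76) (nat_lit 642326352901) (nat_lit 1) (nat_lit 4) (nat_lit 2) (nat_lit 5) (nat_lit 2) (nat_lit 4) (nat_lit 271) (nat_lit 207) (nat_lit 182)) (XT.lf (nat_lit 0) (nat_lit 231883288388) (nat_lit 76) (nat_lit 738686663517) (nat_lit 76) (nat_lit 736358916931) (nat_lit 1) (nat_lit 4) (nat_lit 2) (nat_lit 5) (nat_lit 2) (nat_lit 4) (nat_lit 272) (nat_lit 207) (nat_lit 181)))) (XT.nd (nat_lit 78) (nat_lit 0) (nat_lit 0) (XT.lf (nat_lit 0) (nat_lit 271403604441) (nat_lit 76) (nat_lit 846851101019) (nat_lit 76) (nat_lit 844515116627) (nat_lit 1) (nat_lit 4) (nat_lit 2) (nat_lit 5) (nat_lit 2) (nat_lit 4) (nat_lit 273) (nat_lit 207) (nat_lit 180)) (XT.nd (nat_lit 78) (nat_lit 0) (nat_lit 0) (XT.lf (nat_lit 0)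 (nat_lit 316822885246) (nat_lit 76) (nat_lit 971254199249) (nat_lit 76) (nat_lit 968911051548) (nat_lit 1) (nat_lit 4) (nat_lit 2) (nat_lit 5) (nat_lit 2) (nat_lit 4) (nat_lit 274) (nat_lit 207) (nat_lit 179)) (XT.lf (nat_lit 0) (nat_lit 369029768906) (nat_lit 76) (nat_lit 1114329931870) (nat_lit 76) (nat_lit 1111980555204) (nat_lit 1) (nat_lit 4) (nat_lit 2) (nat_lit 5) (nat_lit 2) (nat_lit 4) (nat_lit 275) (nat_lit 207) (nat_lit 178))))) (XT.nd (nat_lit 234) (nat_lit 0) (nat_lit 0) (XT.nd (nat_lit 78) (nat_lit 0) (nat_lit 0) (XT.lf (nat_lit 0) (nat_lit 429045694448) (nat_lit 76) (nat_lit 1278877606692) (nat_lit 76) (nat_lit 1276522813535) (nat_lit 1) (nat_lit 4) (nat_lit 2) (nat_lit 5) (nat_lit 2) (nat_lit 4) (nat_lit 276) (nat_lit 207) (nat_lit 177)) (XT.nd (nat_lit 78) (nat_lit 0) (nat_lit 0) (XT.lf (nat_lit 0) (nat_lit 498044886502) (nat_lit 76) (nat_lit 1468116634745) (nat_lit 76)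 (nat_lit 1465757131596) (nat_lit 1) (nat_lit 4) (nat_lit 2) (nat_lit 5) (nat_lit 2) (nat_lit 4) (nat_lit 277) (nat_lit 207) (nat_lit 176)) (XT.lf (nat_lit 0) (nat_lit 577377329262) (nat_lit 76) (nat_lit 1685749518752) (nat_lit 76) (nat_lit 1683385919957) (nat_lit 1) (nat_lit 4) (nat_lit 2) (nat_lit 5) (nat_lit 2) (nat_lit 4) (nat_lit 278) (nat_lit 207) (nat_lit 175)))) (XT.nd (nat_lit 78) (nat_lit 0) (nat_lit 0) (XT.lf (nat_lit 0) (nat_lit 668595179216) (nat_lit 76) (nat_lit 1936034293400) (nat_lit 76) (nat_lit 1933667133175) (nat_lit 1) (nat_lit 4) (nat_lit 2) (nat_lit 5) (nat_lit 2) (nat_lit 4) (nat_lit 279) (nat_lit 207) (nat_lit 174)) (XT.nd (nat_lit 78) (nat_lit 0) (nat_lit 0) (XT.lf (nat_lit 0) (nat_lit 773483133428) (nat_lit 76) (nat_lit 2223867834714) (nat_lit 76) (nat_lit 2221497577593) (nat_lit 1) (nat_lit 4) (nat_lit 2) (nat_lit 5) (nat_lit 2) (nat_lit 4) (nat_lit 280) (nat_lit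 207) (nat_lit 173)) (XT.lf (nat_lit 0) (nat_lit 894093347524) (nat_lit 76) (nat_lit 2554881668504) (nat_lit 76) (nat_lit 2552508718429) (nat_lit 1) (nat_lit 4) (nat_lit 2) (nat_lit 5) (nat_lit 2) (nat_lit 4) (nat_lit 281) (nat_lit 207) (nat_lit 172))))))) (XT.nd (nat_lit 31902) (nat_lit 0) (nat_lit 0) (XT.nd (nat_lit 31434) (nat_lit 0) (nat_lit 76) (XT.nd (nat_lit 156) (nat_lit 0) (nat_lit 0) (XT.nd (nat_lit 78) (nat_lit 0) (nat_lit 0) (XT.lf (nat_lit 0) (nat_lit 1032785586563) (nat_lit 76) (nat_lit 2935552152386) (nat_lit 76) (nat_lit 2933176860613) (nat_lit 1) (nat_lit 4) (nat_lit 2) (nat_lit 5) (nat_lit 2) (nat_lit 4) (nat_lit 282) (nat_lit 207) (nat_lit 171)) (XT.lf (nat_lit 0) (nat_lit 1192273394351) (nat_lit 76) (nat_lit 3373327187132) (nat_lit 76) (nat_lit 3370949859099) (nat_lit 1) (nat_lit 4) (nat_lit 2) (nat_lit 5) (nat_lit 2) (nat_lit 4) (nat_lit 283) (nat_lit 207) (nat_lit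 170))) (XT.nd (nat_lit 78) (nat_lit 0) (nat_lit 0) (XT.lf (nat_lit 0) (nat_lit 1375677184520) (nat_lit 76) (nat_lit 3876771936466) (nat_lit 76) (nat_lit 3874392837773) (nat_lit 1) (nat_lit 4) (nat_lit 2) (nat_lit 5) (nat_lit 2) (nat_lit 4) (nat_lit 284) (nat_lit 207) (nat_lit 169)) (XT.nd (nat_lit 78) (nat_lit 0) (nat_lit 0) (XT.lf (nat_lit 0) (nat_lit 1586585292094) (nat_lit 76) (nat_lit 4455736406353) (nat_lit 76) (nat_lit 4453355767954) (nat_lit 1) (nat_lit 4) (nat_lit 2) (nat_lit 5) (nat_lit 2) (nat_lit 4) (nat_lit 285) (nat_lit 207) (nat_lit 168)) (XT.lf (nat_lit 0) (nat_lit 1829124180048) (nat_lit 76) (nat_lit 5121548162507) (nat_lit 76) (nat_lit 5119166185235) (nat_lit 1) (nat_lit 4) (nat_lit 2) (nat_lit 5) (nat_lit 2) (nat_lit 4) (nat_lit 286) (nat_lit 207) (nat_lit 167))))) (XT.nd (nat_lit 234) (nat_lit 152) (nat_lit 0) (XT.nd (nat_lit 78) (nat_lit 0) (nat_lit 0) (XT.lf (nat_lit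 0) (nat_lit 6710515755) (nat_lit 76) (nat_lit 5832285996) (nat_lit 76) (nat_lit 5832285996) (nat_lit 4) (nat_lit 4) (nat_lit 5) (nat_lit 5) (nat_lit 5) (nat_lit 4) (nat_lit 244) (nat_lit 208) (nat_lit 208)) (XT.nd (nat_lit 78) (nat_lit 0) (nat_lit 0) (XT.lf (nat_lit 0) (nat_lit 28107192379) (nat_lit 76) (nat_lit 7000276000) (nat_lit 76) (nat_lit 6612949698) (nat_lit 4) (nat_lit 4) (nat_lit 5) (nat_lit 5) (nat_lit 5) (nat_lit 4) (nat_lit 245) (nat_lit 208) (nat_lit 207)) (XT.lf (nat_lit 0) (nat_lit 43919322309) (nat_lit 76) (nat_lit 2143544959) (nat_lit 76) (nat_lit 1419413177) (nat_lit 4) (nat_lit 4) (nat_lit 5) (nat_lit 5) (nat_lit 5) (nat_lit 4) (nat_lit 246) (nat_lit 208) (nat_lit 206)))) (XT.nd (nat_lit 78) (nat_lit 0) (nat_lit 0) (XT.lf (nat_lit 0) (nat_lit 4071130027) (nat_lit 152) (nat_lit 46919820283) (nat_lit 0) (nat_lit 3129457701) (nat_lit 2) (nat_lit 5) (nat_lit 4) (nat_lit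 4) (nat_lit 2) (nat_lit 4) (nat_lit 247) (nat_lit 208) (nat_lit 205)) (XT.nd (nat_lit 78) (nat_lit 0) (nat_lit 0) (XT.lf (nat_lit 0) (nat_lit 9995668727) (nat_lit 152) (nat_lit 42962244752) (nat_lit 0) (nat_lit 8818187762) (nat_lit 2) (nat_lit 5) (nat_lit 4) (nat_lit 4) (nat_lit 2) (nat_lit 4) (nat_lit 248) (nat_lit 208) (nat_lit 204)) (XT.lf (nat_lit 0) (nat_lit 16397025929) (nat_lit 152) (nat_lit 39201884221) (nat_lit 0) (nat_lit 15014493973) (nat_lit 2) (nat_lit 5) (nat_lit 4) (nat_lit 4) (nat_lit 2) (nat_lit 4) (nat_lit 249) (nat_lit 208) (nat_lit 203)))))) (XT.nd (nat_lit 468) (nat_lit 76) (nat_lit 0) (XT.nd (nat_lit 234) (nat_lit 0) (nat_lit 0) (XT.nd (nat_lit 78) (nat_lit 0) (nat_lit 0) (XT.lf (nat_lit 0) (nat_lit 23400445580) (nat_lit 152) (nat_lit 35565166418) (nat_lit 0) (nat_lit 21839608415) (nat_lit 2) (nat_lit 5) (nat_lit 4) (nat_lit 4) (nat_lit 2) (nat_lit 4) (nat_lit 250)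 (nat_lit 208) (nat_lit 202)) (XT.nd (nat_lit 78) (nat_lit 0) (nat_lit 0) (XT.lf (nat_lit 0) (nat_lit 31142951107) (nat_lit 152) (nat_lit 31980938168) (nat_lit 0) (nat_lit 29427065933) (nat_lit 2) (nat_lit 5) (nat_lit 4) (nat_lit 4) (nat_lit 2) (nat_lit 4) (nat_lit 251) (nat_lit 208) (nat_lit 201)) (XT.lf (nat_lit 0) (nat_lit 39776026314) (nat_lit 152) (nat_lit 28379073268) (nat_lit 0) (nat_lit 37925316785) (nat_lit 2) (nat_lit 5) (nat_lit 4) (nat_lit 4) (nat_lit 2) (nat_lit 4) (nat_lit 252) (nat_lit 208) (nat_lit 200)))) (XT.nd (nat_lit 78) (nat_lit 0) (nat_lit 0) (XT.lf (nat_lit 0) (nat_lit 49468579193) (nat_lit 152) (nat_lit 24689100445) (nat_lit 0) (nat_lit 47500631095) (nat_lit 2) (nat_lit 5) (nat_lit 4) (nat_lit 4) (nat_lit 2) (nat_lit 4) (nat_lit 253) (nat_lit 208) (nat_lit 199)) (XT.nd (nat_lit 78) (nat_lit 0) (nat_lit 0) (XT.lf (nat_lit 0) (nat_lit 60410246650) (nat_lit 152) (nat_lit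 20838824582) (nat_lit 0) (nat_lit 58340351970) (nat_lit 2) (nat_lit 5) (nat_lit 4) (nat_lit 4) (nat_lit 2) (nat_lit 4) (nat_lit 254) (nat_lit 208) (nat_lit 198)) (XT.lf (nat_lit 0) (nat_lit 72815104787) (nat_lit 152) (nat_lit 16752914192) (nat_lit 0) (nat_lit 70656560905) (nat_lit 2) (nat_lit 5) (nat_lit 4) (nat_lit 4) (nat_lit 2) (nat_lit 4) (nat_lit 255) (nat_lit 208) (nat_lit 197))))) (XT.nd (nat_lit 234) (nat_lit 76) (nat_lit 0) (XT.nd (nat_lit 78) (nat_lit 0) (nat_lit 0) (XT.lf (nat_lit 0) (nat_lit 86925857349) (nat_lit 152) (nat_lit 12351427552) (nat_lit 0) (nat_lit 84690227205) (nat_lit 2) (nat_lit 5) (nat_lit 4) (nat_lit 4) (nat_lit 2) (nat_lit 4) (nat_lit 256) (nat_lit 208) (nat_lit 196)) (XT.nd (nat_lit 78) (nat_lit 0) (nat_lit 0) (XT.lf (nat_lit 0) (nat_lit 103018584279) (nat_lit 152) (nat_lit 7548248618) (nat_lit 0) (nat_lit 100715922601) (nat_lit 2) (nat_lit 5) (nat_lit 4)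 (nat_lit 4) (nat_lit 2) (nat_lit 4) (nat_lit 257) (nat_lit 208) (nat_lit 195)) (XT.lf (nat_lit 0) (nat_lit 121408143276) (nat_lit 152) (nat_lit 2249402150) (nat_lit 0) (nat_lit 119047193310) (nat_lit 2) (nat_lit 5) (nat_lit 4) (nat_lit 4) (nat_lit 2) (nat_lit 4) (nat_lit 258) (nat_lit 208) (nat_lit 194)))) (XT.nd (nat_lit 78) (nat_lit 0) (nat_lit 0) (XT.lf (nat_lit 0) (nat_lit 3840923483) (nat_lit 76) (nat_lit 138705780880) (nat_lit 76) (nat_lit 136294145445) (nat_lit 1) (nat_lit 4) (nat_lit 2) (nat_lit 5) (nat_lit 2) (nat_lit 4) (nat_lit 259) (nat_lit 208) (nat_lit 193)) (XT.nd (nat_lit 78) (nat_lit 0) (nat_lit 0) (XT.lf (nat_lit 0) (nat_lit 10802075515) (nat_lit 76) (nat_lit 156026632514) (nat_lit 76) (nat_lit 153570922758) (nat_lit 1) (nat_lit 4) (nat_lit 2) (nat_lit 5) (nat_lit 2) (nat_lit 4) (nat_lit 260) (nat_lit 208) (nat_lit 192)) (XT.lf (nat_lit 0) (nat_lit 18651800867) (nat_lit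 76) (nat_lit 176020489198) (nat_lit 76) (nat_lit 173526453945) (nat_lit 1) (nat_lit 4) (nat_lit 2) (nat_lit 5) (nat_lit 2) (nat_lit 4) (nat_lit 261) (nat_lit 208) (nat_lit 191))))))))
noncomputable def xc10 : XT := (XT.nd (nat_lit 1794) (nat_lit 0) (nat_lit 0) (XT.nd (nat_lit 858) (nat_lit 0) (nat_lit 0) (XT.nd (nat_lit 390) (nat_lit 0) (nat_lit 0) (XT.nd (nat_lit 156) (nat_lit 0) (nat_lit 0) (XT.nd (nat_lit 78) (nat_lit 0) (nat_lit 0) (XT.lf (nat_lit 0) (nat_lit 27543681123) (nat_lit 76) (nat_lit 199078535083) (nat_lit 76) (nat_lit 196551173312) (nat_lit 1) (nat_lit 4) (nat_lit 2) (nat_lit 5) (nat_lit 2) (nat_lit 4) (nat_lit 262) (nat_lit 208) (nat_lit 190)) (XT.lf (nat_lit 0) (nat_lit 37651687852) (nat_lit 76) (nat_lit 225651905850) (nat_lit 76) (nat_lit 223095564497) (nat_lit 1) (nat_lit 4) (nat_lit 2) (nat_lit 5) (nat_lit 2) (nat_lit 4) (nat_lit 263) (nat_lit 208) (nat_lit 189)))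 (XT.nd (nat_lit 78) (nat_lit 0) (nat_lit 0) (XT.lf (nat_lit 0) (nat_lit 49173586403) (nat_lit 76) (nat_lit 256260515274) (nat_lit 76) (nat_lit 253678974286) (nat_lit 1) (nat_lit 4) (nat_lit 2) (nat_lit 5) (nat_lit 2) (nat_lit 4) (nat_lit 264) (nat_lit 208) (nat_lit 188)) (XT.nd (nat_lit 78) (nat_lit 0) (nat_lit 0) (XT.lf (nat_lit 0) (nat_lit 62334805227) (nat_lit 76) (nat_lit 291503227454) (nat_lit 76) (nat_lit 288899773739) (nat_lit 1) (nat_lit 4) (nat_lit 2) (nat_lit 5) (nat_lit 2) (nat_lit 4) (nat_lit 265) (nat_lit 208) (nat_lit 187)) (XT.lf (nat_lit 0) (nat_lit 77392846431) (nat_lit 76) (nat_lit 332069573715) (nat_lit 76) (nat_lit 329447065455) (nat_lit 1) (nat_lit 4) (nat_lit 2) (nat_lit 5) (nat_lit 2) (nat_lit 4) (nat_lit 266) (nat_lit 208) (nat_lit 186))))) (XT.nd (nat_lit 234) (nat_lit 0) (nat_lit 0) (XT.nd (nat_lit 78) (nat_lit 0) (nat_lit 0) (XT.lf (nat_lit 0) (nat_lit 94642323865)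 (nat_lit 76) (nat_lit 378753243440) (nat_lit 76) (nat_lit 376114166009) (nat_lit 1) (nat_lit 4) (nat_lit 2) (nat_lit 5) (nat_lit 2) (nat_lit 4) (nat_lit 267) (nat_lit 208) (nat_lit 185)) (XT.nd (nat_lit 78) (nat_lit 0) (nat_lit 0) (XT.lf (nat_lit 0) (nat_lit 114420727304) (nat_lit 76) (nat_lit 432467612775) (nat_lit 76) (nat_lit 429814127371) (nat_lit 1) (nat_lit 4) (nat_lit 2) (nat_lit 5) (nat_lit 2) (nat_lit 4) (nat_lit 268) (nat_lit 208) (nat_lit 184)) (XT.lf (nat_lit 0) (nat_lit 137115025511) (nat_lit 76) (nat_lit 494263615034) (nat_lit 76) (nat_lit 491597600957) (nat_lit 1) (nat_lit 4) (nat_lit 2) (nat_lit 5) (nat_lit 2) (nat_lit 4) (nat_lit 269) (nat_lit 208) (nat_lit 183)))) (XT.nd (nat_lit 78) (nat_lit 0) (nat_lit 0) (XT.lf (nat_lit 0) (nat_lit 163169237364) (nat_lit 76) (nat_lit 565350302435) (nat_lit 76) (nat_lit 562673393860) (nat_lit 1) (nat_lit 4) (nat_lit 2) (nat_lit 5)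 (nat_lit 2) (nat_lit 4) (nat_lit 270) (nat_lit 208) (nat_lit 182)) (XT.nd (nat_lit 78) (nat_lit 0) (nat_lit 0) (XT.lf (nat_lit 0) (nat_lit 193093119183) (nat_lit 76) (nat_lit 647118501470) (nat_lit 76) (nat_lit 644432119419) (nat_lit 1) (nat_lit 4) (nat_lit 2) (nat_lit 5) (nat_lit 2) (nat_lit 4) (nat_lit 271) (nat_lit 208) (nat_lit 181)) (XT.lf (nat_lit 0) (nat_lit 227472138220) (nat_lit 76) (nat_lit 741168024730) (nat_lit 76) (nat_lit 738473404873) (nat_lit 1) (nat_lit 4) (nat_lit 2) (nat_lit 5) (nat_lit 2) (nat_lit 4) (nat_lit 272) (nat_lit 208) (nat_lit 180)))))) (XT.nd (nat_lit 468) (nat_lit 0) (nat_lit 0) (XT.nd (nat_lit 234) (nat_lit 0) (nat_lit 0) (XT.nd (nat_lit 78) (nat_lit 0) (nat_lit 0) (XT.lf (nat_lit 0) (nat_lit 266978927457) (nat_lit 76) (nat_lit 849338971582) (nat_lit 76) (nat_lit 846637188416) (nat_lit 1) (nat_lit 4) (nat_lit 2) (nat_lit 5) (nat_lit 2) (nat_lit 4) (nat_lit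 273) (nat_lit 208) (nat_lit 179)) (XT.nd (nat_lit 78) (nat_lit 0) (nat_lit 0) (XT.lf (nat_lit 0) (nat_lit 312386445812) (nat_lit 76) (nat_lit 973747730117) (nat_lit 76) (nat_lit 971039717986) (nat_lit 1) (nat_lit 4) (nat_lit 2) (nat_lit 5) (nat_lit 2) (nat_lit 4) (nat_lit 274) (nat_lit 208) (nat_lit 178)) (XT.lf (nat_lit 0) (nat_lit 364583101255) (nat_lit 76) (nat_lit 1116828384741) (nat_lit 76) (nat_lit 1114114956120) (nat_lit 1) (nat_lit 4) (nat_lit 2) (nat_lit 5) (nat_lit 2) (nat_lit 4) (nat_lit 275) (nat_lit 208) (nat_lit 177)))) (XT.nd (nat_lit 78) (nat_lit 0) (nat_lit 0) (XT.lf (nat_lit 0) (nat_lit 424590132695) (nat_lit 76) (nat_lit 1281380339567) (nat_lit 76) (nat_lit 1278662200953) (nat_lit 1) (nat_lit 4) (nat_lit 2) (nat_lit 5) (nat_lit 2) (nat_lit 4) (nat_lit 276) (nat_lit 208) (nat_lit 176)) (XT.nd (nat_lit 78) (nat_lit 0) (nat_lit 0) (XT.lf (nat_lit 0) (nat_lit 493581590748)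 (nat_lit 76) (nat_lit 1470623089362) (nat_lit 76) (nat_lit 1467900855103) (nat_lit 1) (nat_lit 4) (nat_lit 2) (nat_lit 5) (nat_lit 2) (nat_lit 4) (nat_lit 277) (nat_lit 208) (nat_lit 175)) (XT.lf (nat_lit 0) (nat_lit 572907308289) (nat_lit 76) (nat_lit 1688259209667) (nat_lit 76) (nat_lit 1685533413977) (nat_lit 1) (nat_lit 4) (nat_lit 2) (nat_lit 5) (nat_lit 2) (nat_lit 4) (nat_lit 278) (nat_lit 208) (nat_lit 174))))) (XT.nd (nat_lit 234) (nat_lit 0) (nat_lit 0) (XT.nd (nat_lit 78) (nat_lit 0) (nat_lit 0) (XT.lf (nat_lit 0) (nat_lit 664119310227) (nat_lit 76) (nat_lit 1938546798487) (nat_lit 76) (nat_lit 1935817905901) (nat_lit 1) (nat_lit 4) (nat_lit 2) (nat_lit 5) (nat_lit 2) (nat_lit 4) (nat_lit 279) (nat_lit 208) (nat_lit 173)) (XT.nd (nat_lit 78) (nat_lit 0) (nat_lit 0) (XT.lf (nat_lit 0) (nat_lit 769002179207) (nat_lit 76) (nat_lit 2226382786907) (nat_lit 76) (nat_lit 2223651201368)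 (nat_lit 1) (nat_lit 4) (nat_lit 2) (nat_lit 5) (nat_lit 2) (nat_lit 4) (nat_lit 280) (nat_lit 208) (nat_lit 172)) (XT.lf (nat_lit 0) (nat_lit 889607971363) (nat_lit 76) (nat_lit 2557398748615) (nat_lit 76) (nat_lit 2554664821377) (nat_lit 1) (nat_lit 4) (nat_lit 2) (nat_lit 5) (nat_lit 2) (nat_lit 4) (nat_lit 281) (nat_lit 208) (nat_lit 171)))) (XT.nd (nat_lit 78) (nat_lit 0) (nat_lit 0) (XT.lf (nat_lit 0) (nat_lit 1028296365236) (nat_lit 76) (nat_lit 2938071082861) (nat_lit 76) (nat_lit 2935335119363) (nat_lit 1) (nat_lit 4) (nat_lit 2) (nat_lit 5) (nat_lit 2) (nat_lit 4) (nat_lit 282) (nat_lit 208) (nat_lit 170)) (XT.nd (nat_lit 78) (nat_lit 0) (nat_lit 0) (XT.lf (nat_lit 0) (nat_lit 1187780829402) (nat_lit 76) (nat_lit 3375847726619) (nat_lit 76) (nat_lit 3373109992461) (nat_lit 1) (nat_lit 4) (nat_lit 2) (nat_lit 5) (nat_lit 2) (nat_lit 4) (nat_lit 283) (nat_lit 208) (nat_lit 169))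 (XT.lf (nat_lit 0) (nat_lit 1371181712073) (nat_lit 76) (nat_lit 3879293875094) (nat_lit 76) (nat_lit 3876554601231) (nat_lit 1) (nat_lit 4) (nat_lit 2) (nat_lit 5) (nat_lit 2) (nat_lit 4) (nat_lit 284) (nat_lit 208) (nat_lit 168))))))) (XT.nd (nat_lit 31746) (nat_lit 0) (nat_lit 0) (XT.nd (nat_lit 31278) (nat_lit 0) (nat_lit 76) (XT.nd (nat_lit 31044) (nat_lit 0) (nat_lit 228) (XT.nd (nat_lit 78) (nat_lit 0) (nat_lit 0) (XT.lf (nat_lit 0) (nat_lit 1582087291389) (nat_lit 76) (nat_lit 4458259561624) (nat_lit 76) (nat_lit 4455518948888) (nat_lit 1) (nat_lit 4) (nat_lit 2) (nat_lit 5) (nat_lit 2) (nat_lit 4) (nat_lit 285) (nat_lit 208) (nat_lit 167)) (XT.lf (nat_lit 0) (nat_lit 1824623980857) (nat_lit 76) (nat_lit 5124072375730) (nat_lit 76) (nat_lit 5121330598756) (nat_lit 1) (nat_lit 4) (nat_lit 2) (nat_lit 5) (nat_lit 2) (nat_lit 4) (nat_lit 286) (nat_lit 208) (nat_lit 166))) (XT.nd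 (nat_lit 78) (nat_lit 76) (nat_lit 0) (XT.lf (nat_lit 0) (nat_lit 4091087493) (nat_lit 152) (nat_lit 6195683373) (nat_lit 0) (nat_lit 4091087493) (nat_lit 5) (nat_lit 5) (nat_lit 7) (nat_lit 4) (nat_lit 5) (nat_lit 4) (nat_lit 242) (nat_lit 209) (nat_lit 209)) (XT.nd (nat_lit 78) (nat_lit 76) (nat_lit 0) (XT.lf (nat_lit 0) (nat_lit 16256875218) (nat_lit 152) (nat_lit 405163055) (nat_lit 0) (nat_lit 15811449971) (nat_lit 5) (nat_lit 5) (nat_lit 7) (nat_lit 4) (nat_lit 5) (nat_lit 4) (nat_lit 243) (nat_lit 209) (nat_lit 208)) (XT.lf (nat_lit 0) (nat_lit 12844985777) (nat_lit 76) (nat_lit 12381295264) (nat_lit 76) (nat_lit 11548543716) (nat_lit 4) (nat_lit 4) (nat_lit 5) (nat_lit 5) (nat_lit 5) (nat_lit 4) (nat_lit 244) (nat_lit 209) (nat_lit 207))))) (XT.nd (nat_lit 234) (nat_lit 0) (nat_lit 0) (XT.nd (nat_lit 78) (nat_lit 152) (nat_lit 0) (XT.lf (nat_lit 0) (nat_lit 27030237311) (nat_lit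 76) (nat_lit 7952910597) (nat_lit 76) (nat_lit 6783353569) (nat_lit 4) (nat_lit 4) (nat_lit 5) (nat_lit 5) (nat_lit 5) (nat_lit 4) (nat_lit 245) (nat_lit 209) (nat_lit 206)) (XT.nd (nat_lit 78) (nat_lit 152) (nat_lit 0) (XT.lf (nat_lit 0) (nat_lit 42406793908) (nat_lit 76) (nat_lit 3301319840) (nat_lit 76) (nat_lit 1838888481) (nat_lit 4) (nat_lit 4) (nat_lit 5) (nat_lit 5) (nat_lit 5) (nat_lit 4) (nat_lit 246) (nat_lit 209) (nat_lit 205)) (XT.lf (nat_lit 0) (nat_lit 3383528085) (nat_lit 152) (nat_lit 49032085325) (nat_lit 0) (nat_lit 1793616336) (nat_lit 2) (nat_lit 5) (nat_lit 4) (nat_lit 4) (nat_lit 2) (nat_lit 4) (nat_lit 247) (nat_lit 209) (nat_lit 204)))) (XT.nd (nat_lit 78) (nat_lit 0) (nat_lit 0) (XT.lf (nat_lit 0) (nat_lit 9116502923) (nat_lit 152) (nat_lit 45442347622) (nat_lit 0) (nat_lit 7321540183) (nat_lit 2) (nat_lit 5) (nat_lit 4) (nat_lit 4) (nat_lit 2) (nat_lit 4) (nat_lit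 248) (nat_lit 209) (nat_lit 203)) (XT.nd (nat_lit 78) (nat_lit 0) (nat_lit 0) (XT.lf (nat_lit 0) (nat_lit 15351282855) (nat_lit 152) (nat_lit 42001846072) (nat_lit 0) (nat_lit 13378014906) (nat_lit 2) (nat_lit 5) (nat_lit 4) (nat_lit 4) (nat_lit 2) (nat_lit 4) (nat_lit 249) (nat_lit 209) (nat_lit 202)) (XT.lf (nat_lit 0) (nat_lit 22209852705) (nat_lit 152) (nat_lit 38643266512) (nat_lit 0) (nat_lit 20081536748) (nat_lit 2) (nat_lit 5) (nat_lit 4) (nat_lit 4) (nat_lit 2) (nat_lit 4) (nat_lit 250) (nat_lit 209) (nat_lit 201)))))) (XT.nd (nat_lit 468) (nat_lit 76) (nat_lit 0) (XT.nd (nat_lit 234) (nat_lit 0) (nat_lit 0) (XT.nd (nat_lit 78) (nat_lit 0) (nat_lit 0) (XT.lf (nat_lit 0) (nat_lit 29826401884) (nat_lit 152) (nat_lit 35300897605) (nat_lit 0) (nat_lit 27563261571) (nat_lit 2) (nat_lit 5) (nat_lit 4) (nat_lit 4) (nat_lit 2) (nat_lit 4) (nat_lit 251) (nat_lit 209) (nat_lit 200)) (XT.nd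 (nat_lit 78) (nat_lit 0) (nat_lit 0) (XT.lf (nat_lit 0) (nat_lit 38349949831) (nat_lit 152) (nat_lit 31909345176) (nat_lit 0) (nat_lit 35969570949) (nat_lit 2) (nat_lit 5) (nat_lit 4) (nat_lit 4) (nat_lit 2) (nat_lit 4) (nat_lit 252) (nat_lit 209) (nat_lit 199)) (XT.lf (nat_lit 0) (nat_lit 47947261615) (nat_lit 152) (nat_lit 28402252764) (nat_lit 0) (nat_lit 45464936151) (nat_lit 2) (nat_lit 5) (nat_lit 4) (nat_lit 4) (nat_lit 2) (nat_lit 4) (nat_lit 253) (nat_lit 209) (nat_lit 198)))) (XT.nd (nat_lit 78) (nat_lit 0) (nat_lit 0) (XT.lf (nat_lit 0) (nat_lit 58806110728) (nat_lit 152) (nat_lit 24711003344) (nat_lit 0) (nat_lit 56235136062) (nat_lit 2) (nat_lit 5) (nat_lit 4) (nat_lit 4) (nat_lit 2) (nat_lit 4) (nat_lit 254) (nat_lit 209) (nat_lit 197)) (XT.nd (nat_lit 78) (nat_lit 0) (nat_lit 0) (XT.lf (nat_lit 0) (nat_lit 71138952914) (nat_lit 152) (nat_lit 20763376818) (nat_lit 0) (nat_lit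 68490891985) (nat_lit 2) (nat_lit 5) (nat_lit 4) (nat_lit 4) (nat_lit 2) (nat_lit 4) (nat_lit 255) (nat_lit 209) (nat_lit 196)) (XT.lf (nat_lit 0) (nat_lit 85187082910) (nat_lit 152) (nat_lit 16482137016) (nat_lit 0) (nat_lit 82471990449) (nat_lit 2) (nat_lit 5) (nat_lit 4) (nat_lit 4) (nat_lit 2) (nat_lit 4) (nat_lit 256) (nat_lit 209) (nat_lit 195))))) (XT.nd (nat_lit 234) (nat_lit 76) (nat_lit 0) (XT.nd (nat_lit 78) (nat_lit 0) (nat_lit 0) (XT.lf (nat_lit 0) (nat_lit 101225355435) (nat_lit 152) (nat_lit 11783520550) (nat_lit 0) (nat_lit 98451974684) (nat_lit 2) (nat_lit 5) (nat_lit 4) (nat_lit 4) (nat_lit 2) (nat_lit 4) (nat_lit 257) (nat_lit 209) (nat_lit 194)) (XT.nd (nat_lit 78) (nat_lit 0) (nat_lit 0) (XT.lf (nat_lit 0) (nat_lit 119567562775) (nat_lit 152) (nat_lit 6575597967) (nat_lit 0) (nat_lit 116743496556) (nat_lit 2) (nat_lit 5) (nat_lit 4) (nat_lit 4) (nat_lit 2) (nat_lit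 4) (nat_lit 258) (nat_lit 209) (nat_lit 193)) (XT.lf (nat_lit 0) (nat_lit 140572574207) (nat_lit 152) (nat_lit 756475130) (nat_lit 0) (nat_lit 137704433666) (nat_lit 2) (nat_lit 5) (nat_lit 4) (nat_lit 4) (nat_lit 2) (nat_lit 4) (nat_lit 259) (nat_lit 209) (nat_lit 192)))) (XT.nd (nat_lit 78) (nat_lit 0) (nat_lit 0) (XT.lf (nat_lit 0) (nat_lit 6092470408) (nat_lit 76) (nat_lit 158705410995) (nat_lit 76) (nat_lit 155798944958) (nat_lit 1) (nat_lit 4) (nat_lit 2) (nat_lit 5) (nat_lit 2) (nat_lit 4) (nat_lit 260) (nat_lit 209) (nat_lit 191)) (XT.nd (nat_lit 78) (nat_lit 0) (nat_lit 0) (XT.lf (nat_lit 0) (nat_lit 13879263714) (nat_lit 76) (nat_lit 178729551724) (nat_lit 76) (nat_lit 175789759169) (nat_lit 1) (nat_lit 4) (nat_lit 2) (nat_lit 5) (nat_lit 2) (nat_lit 4) (nat_lit 261) (nat_lit 209) (nat_lit 190)) (XT.lf (nat_lit 0) (nat_lit 22716420451) (nat_lit 76) (nat_lit 201813931563) (nat_lit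 76) (nat_lit 198845159426) (nat_lit 1) (nat_lit 4) (nat_lit 2) (nat_lit 5) (nat_lit 2) (nat_lit 4) (nat_lit 262) (nat_lit 209) (nat_lit 189))))))))
noncomputable def xc11 : XT := (XT.nd (nat_lit 32604) (nat_lit 0) (nat_lit 0) (XT.nd (nat_lit 858) (nat_lit 0) (nat_lit 0) (XT.nd (nat_lit 390) (nat_lit 0) (nat_lit 0) (XT.nd (nat_lit 156) (nat_lit 0) (nat_lit 0) (XT.nd (nat_lit 78) (nat_lit 0) (nat_lit 0) (XT.lf (nat_lit 0) (nat_lit 32776841512) (nat_lit 76) (nat_lit 228410201419) (nat_lit 76) (nat_lit 225416229647) (nat_lit 1) (nat_lit 4) (nat_lit 2) (nat_lit 5) (nat_lit 2) (nat_lit 4) (nat_lit 263) (nat_lit 209) (nat_lit 188)) (XT.lf (nat_lit 0) (nat_lit 44257361221) (nat_lit 76) (nat_lit 259038723096) (nat_lit 76) (nat_lit 256022838596) (nat_lit 1) (nat_lit 4) (nat_lit 2) (nat_lit 5) (nat_lit 2) (nat_lit 4) (nat_lit 264) (nat_lit 209) (nat_lit 187))) (XT.nd (nat_lit 78) (nat_lit 0) (nat_lit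 0) (XT.lf (nat_lit 0) (nat_lit 57382598444) (nat_lit 76) (nat_lit 294298750278) (nat_lit 76) (nat_lit 291263811233) (nat_lit 1) (nat_lit 4) (nat_lit 2) (nat_lit 5) (nat_lit 2) (nat_lit 4) (nat_lit 265) (nat_lit 209) (nat_lit 186)) (XT.nd (nat_lit 78) (nat_lit 0) (nat_lit 0) (XT.lf (nat_lit 0) (nat_lit 72409351298) (nat_lit 76) (nat_lit 334880153061) (nat_lit 76) (nat_lit 331828644847) (nat_lit 1) (nat_lit 4) (nat_lit 2) (nat_lit 5) (nat_lit 2) (nat_lit 4) (nat_lit 266) (nat_lit 209) (nat_lit 185)) (XT.lf (nat_lit 0) (nat_lit 89631621471) (nat_lit 76) (nat_lit 381576915415) (nat_lit 76) (nat_lit 378510999227) (nat_lit 1) (nat_lit 4) (nat_lit 2) (nat_lit 5) (nat_lit 2) (nat_lit 4) (nat_lit 267) (nat_lit 209) (nat_lit 184))))) (XT.nd (nat_lit 234) (nat_lit 0) (nat_lit 0) (XT.nd (nat_lit 78) (nat_lit 0) (nat_lit 0) (XT.lf (nat_lit 0) (nat_lit 109386366423) (nat_lit 76) (nat_lit 435302669644)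 (nat_lit 76) (nat_lit 432224224784) (nat_lit 1) (nat_lit 4) (nat_lit 2) (nat_lit 5) (nat_lit 2) (nat_lit 4) (nat_lit 268) (nat_lit 209) (nat_lit 183)) (XT.nd (nat_lit 78) (nat_lit 0) (nat_lit 0) (XT.lf (nat_lit 0) (nat_lit 132060092033) (nat_lit 76) (nat_lit 497108571812) (nat_lit 76) (nat_lit 494019232453) (nat_lit 1) (nat_lit 4) (nat_lit 2) (nat_lit 5) (nat_lit 2) (nat_lit 4) (nat_lit 269) (nat_lit 209) (nat_lit 182)) (XT.lf (nat_lit 0) (nat_lit 158096414671) (nat_lit 76) (nat_lit 568203867829) (nat_lit 76) (nat_lit 565105054993) (nat_lit 1) (nat_lit 4) (nat_lit 2) (nat_lit 5) (nat_lit 2) (nat_lit 4) (nat_lit 270) (nat_lit 209) (nat_lit 181)))) (XT.nd (nat_lit 78) (nat_lit 0) (nat_lit 0) (XT.lf (nat_lit 0) (nat_lit 188004740651) (nat_lit 76) (nat_lit 649979552617) (nat_lit 76) (nat_lit 646872501976) (nat_lit 1) (nat_lit 4) (nat_lit 2) (nat_lit 5) (nat_lit 2) (nat_lit 4) (nat_lit 271)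 (nat_lit 209) (nat_lit 180)) (XT.nd (nat_lit 78) (nat_lit 0) (nat_lit 0) (XT.lf (nat_lit 0) (nat_lit 222370232871) (nat_lit 76) (nat_lit 744035585227) (nat_lit 76) (nat_lit 740921371277) (nat_lit 1) (nat_lit 4) (nat_lit 2) (nat_lit 5) (nat_lit 2) (nat_lit 4) (nat_lit 272) (nat_lit 209) (nat_lit 179)) (XT.lf (nat_lit 0) (nat_lit 261865259658) (nat_lit 76) (nat_lit 852212192384) (nat_lit 76) (nat_lit 849091749469) (nat_lit 1) (nat_lit 4) (nat_lit 2) (nat_lit 5) (nat_lit 2) (nat_lit 4) (nat_lit 273) (nat_lit 209) (nat_lit 178)))))) (XT.nd (nat_lit 468) (nat_lit 0) (nat_lit 0) (XT.nd (nat_lit 234) (nat_lit 0) (nat_lit 0) (XT.nd (nat_lit 78) (nat_lit 0) (nat_lit 0) (XT.lf (nat_lit 0) (nat_lit 307262549796) (nat_lit 76) (nat_lit 976625872923) (nat_lit 76) (nat_lit 973500013518) (nat_lit 1) (nat_lit 4) (nat_lit 2) (nat_lit 5) (nat_lit 2) (nat_lit 4) (nat_lit 274) (nat_lit 209) (nat_lit 177))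 (XT.nd (nat_lit 78) (nat_lit 0) (nat_lit 0) (XT.lf (nat_lit 0) (nat_lit 359450311137) (nat_lit 76) (nat_lit 1119710807551) (nat_lit 76) (nat_lit 1116580238153) (nat_lit 1) (nat_lit 4) (nat_lit 2) (nat_lit 5) (nat_lit 2) (nat_lit 4) (nat_lit 275) (nat_lit 209) (nat_lit 176)) (XT.lf (nat_lit 0) (nat_lit 419449608576) (nat_lit 76) (nat_lit 1284266484119) (nat_lit 76) (nat_lit 1281131819076) (nat_lit 1) (nat_lit 4) (nat_lit 2) (nat_lit 5) (nat_lit 2) (nat_lit 4) (nat_lit 276) (nat_lit 209) (nat_lit 175)))) (XT.nd (nat_lit 78) (nat_lit 0) (nat_lit 0) (XT.lf (nat_lit 0) (nat_lit 488434341411) (nat_lit 76) (nat_lit 1473512470212) (nat_lit 76) (nat_lit 1470374243738) (nat_lit 1) (nat_lit 4) (nat_lit 2) (nat_lit 5) (nat_lit 2) (nat_lit 4) (nat_lit 277) (nat_lit 209) (nat_lit 174)) (XT.nd (nat_lit 78) (nat_lit 0) (nat_lit 0) (XT.lf (nat_lit 0) (nat_lit 567754210936) (nat_lit 76) (nat_lit 1691151404689)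 (nat_lit 76) (nat_lit 1688010081319) (nat_lit 1) (nat_lit 4) (nat_lit 2) (nat_lit 5) (nat_lit 2) (nat_lit 4) (nat_lit 278) (nat_lit 209) (nat_lit 173)) (XT.lf (nat_lit 0) (nat_lit 658961127642) (nat_lit 76) (nat_lit 1941441440615) (nat_lit 76) (nat_lit 1938297424291) (nat_lit 1) (nat_lit 4) (nat_lit 2) (nat_lit 5) (nat_lit 2) (nat_lit 4) (nat_lit 279) (nat_lit 209) (nat_lit 172))))) (XT.nd (nat_lit 234) (nat_lit 0) (nat_lit 0) (XT.nd (nat_lit 78) (nat_lit 0) (nat_lit 0) (XT.lf (nat_lit 0) (nat_lit 763839574682) (nat_lit 76) (nat_lit 2229279556953) (nat_lit 76) (nat_lit 2226133198931) (nat_lit 1) (nat_lit 4) (nat_lit 2) (nat_lit 5) (nat_lit 2) (nat_lit 4) (nat_lit 280) (nat_lit 209) (nat_lit 171)) (XT.nd (nat_lit 78) (nat_lit 0) (nat_lit 0) (XT.lf (nat_lit 0) (nat_lit 884441521672) (nat_lit 76) (nat_lit 2560297369025) (nat_lit 76) (nat_lit 2557148974743) (nat_lit 1) (nat_lit 4) (nat_lit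 2) (nat_lit 5) (nat_lit 2) (nat_lit 4) (nat_lit 281) (nat_lit 209) (nat_lit 170)) (XT.lf (nat_lit 0) (nat_lit 1023126571922) (nat_lit 76) (nat_lit 2940971312282) (nat_lit 76) (nat_lit 2937821147340) (nat_lit 1) (nat_lit 4) (nat_lit 2) (nat_lit 5) (nat_lit 2) (nat_lit 4) (nat_lit 282) (nat_lit 209) (nat_lit 169)))) (XT.nd (nat_lit 78) (nat_lit 0) (nat_lit 0) (XT.lf (nat_lit 0) (nat_lit 1182608128591) (nat_lit 76) (nat_lit 3378749355181) (nat_lit 76) (nat_lit 3375597650534) (nat_lit 1) (nat_lit 4) (nat_lit 2) (nat_lit 5) (nat_lit 2) (nat_lit 4) (nat_lit 283) (nat_lit 209) (nat_lit 168)) (XT.nd (nat_lit 78) (nat_lit 0) (nat_lit 0) (XT.lf (nat_lit 0) (nat_lit 1366006483003) (nat_lit 76) (nat_lit 3882196720300) (nat_lit 76) (nat_lit 3879043676779) (nat_lit 1) (nat_lit 4) (nat_lit 2) (nat_lit 5) (nat_lit 2) (nat_lit 4) (nat_lit 284) (nat_lit 209) (nat_lit 167)) (XT.lf (nat_lit 0) (nat_lit 1576909863833)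 (nat_lit 76) (nat_lit 4461163464782) (nat_lit 76) (nat_lit 4458009257023) (nat_lit 1) (nat_lit 4) (nat_lit 2) (nat_lit 5) (nat_lit 2) (nat_lit 4) (nat_lit 285) (nat_lit 209) (nat_lit 166))))))) (XT.nd (nat_lit 858) (nat_lit 76) (nat_lit 0) (XT.nd (nat_lit 390) (nat_lit 152) (nat_lit 0) (XT.nd (nat_lit 156) (nat_lit 76) (nat_lit 0) (XT.nd (nat_lit 78) (nat_lit 152) (nat_lit 0) (XT.lf (nat_lit 0) (nat_lit 5607342168) (nat_lit 76) (nat_lit 2893100693) (nat_lit 76) (nat_lit 2893100693) (nat_lit 7) (nat_lit 4) (nat_lit 8) (nat_lit 5) (nat_lit 8) (nat_lit 4) (nat_lit 240) (nat_lit 210) (nat_lit 210)) (XT.lf (nat_lit 0) (nat_lit 1047513898) (nat_lit 152) (nat_lit 23990696192) (nat_lit 0) (nat_lit 535274864) (nat_lit 5) (nat_lit 5) (nat_lit 7) (nat_lit 4) (nat_lit 5) (nat_lit 4) (nat_lit 241) (nat_lit 210) (nat_lit 209))) (XT.nd (nat_lit 78) (nat_lit 76) (nat_lit 0) (XT.lf (nat_lit 0) (nat_lit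 8359886156) (nat_lit 152) (nat_lit 13020680779) (nat_lit 0) (nat_lit 7402221875) (nat_lit 5) (nat_lit 5) (nat_lit 7) (nat_lit 4) (nat_lit 5) (nat_lit 4) (nat_lit 242) (nat_lit 210) (nat_lit 208)) (XT.nd (nat_lit 78) (nat_lit 76) (nat_lit 0) (XT.lf (nat_lit 0) (nat_lit 16143692592) (nat_lit 152) (nat_lit 1581706680) (nat_lit 0) (nat_lit 14798702010) (nat_lit 5) (nat_lit 5) (nat_lit 7) (nat_lit 4) (nat_lit 5) (nat_lit 4) (nat_lit 243) (nat_lit 210) (nat_lit 207)) (XT.lf (nat_lit 0) (nat_lit 11105578116) (nat_lit 76) (nat_lit 13712736377) (nat_lit 76) (nat_lit 12030940315) (nat_lit 4) (nat_lit 4) (nat_lit 5) (nat_lit 5) (nat_lit 5) (nat_lit 4) (nat_lit 244) (nat_lit 210) (nat_lit 206))))) (XT.nd (nat_lit 234) (nat_lit 0) (nat_lit 0) (XT.nd (nat_lit 78) (nat_lit 152) (nat_lit 0) (XT.lf (nat_lit 0) (nat_lit 24855256317) (nat_lit 76) (nat_lit 9489491994) (nat_lit 76) (nat_lit 7514821601) (nat_lit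 4) (nat_lit 4) (nat_lit 5) (nat_lit 5) (nat_lit 5) (nat_lit 4) (nat_lit 245) (nat_lit 210) (nat_lit 205)) (XT.nd (nat_lit 78) (nat_lit 152) (nat_lit 0) (XT.lf (nat_lit 0) (nat_lit 39853053493) (nat_lit 76) (nat_lit 5016284091) (nat_lit 76) (nat_lit 2786940368) (nat_lit 4) (nat_lit 4) (nat_lit 5) (nat_lit 5) (nat_lit 5) (nat_lit 4) (nat_lit 246) (nat_lit 210) (nat_lit 204)) (XT.lf (nat_lit 0) (nat_lit 2090173734) (nat_lit 76) (nat_lit 92986134) (nat_lit 152) (nat_lit 52161291637) (nat_lit 2) (nat_lit 5) (nat_lit 3) (nat_lit 5) (nat_lit 4) (nat_lit 4) (nat_lit 247) (nat_lit 210) (nat_lit 203)))) (XT.nd (nat_lit 78) (nat_lit 0) (nat_lit 0) (XT.lf (nat_lit 0) (nat_lit 7747321117) (nat_lit 152) (nat_lit 48982162731) (nat_lit 0) (nat_lit 5299757766) (nat_lit 2) (nat_lit 5) (nat_lit 4) (nat_lit 4) (nat_lit 2) (nat_lit 4) (nat_lit 248) (nat_lit 210) (nat_lit 202)) (XT.nd (nat_lit 78) (nat_lit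 0) (nat_lit 0) (XT.lf (nat_lit 0) (nat_lit 13837251248) (nat_lit 152) (nat_lit 45819799423) (nat_lit 0) (nat_lit 11234639889) (nat_lit 2) (nat_lit 5) (nat_lit 4) (nat_lit 4) (nat_lit 2) (nat_lit 4) (nat_lit 249) (nat_lit 210) (nat_lit 201)) (XT.lf (nat_lit 0) (nat_lit 20569864750) (nat_lit 152) (nat_lit 42703079206) (nat_lit 0) (nat_lit 17832429035) (nat_lit 2) (nat_lit 5) (nat_lit 4) (nat_lit 4) (nat_lit 2) (nat_lit 4) (nat_lit 250) (nat_lit 210) (nat_lit 200)))))) (XT.nd (nat_lit 468) (nat_lit 76) (nat_lit 0) (XT.nd (nat_lit 234) (nat_lit 0) (nat_lit 0) (XT.nd (nat_lit 78) (nat_lit 0) (nat_lit 0) (XT.lf (nat_lit 0) (nat_lit 28076886669) (nat_lit 152) (nat_lit 39571022771) (nat_lit 0) (nat_lit 25222212385) (nat_lit 2) (nat_lit 5) (nat_lit 4) (nat_lit 4) (nat_lit 2) (nat_lit 4) (nat_lit 251) (nat_lit 210) (nat_lit 199)) (XT.nd (nat_lit 78) (nat_lit 0) (nat_lit 0) (XT.lf (nat_lit 0) (nat_lit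 36505193521) (nat_lit 152) (nat_lit 36362350752) (nat_lit 0) (nat_lit 33548572655) (nat_lit 2) (nat_lit 5) (nat_lit 4) (nat_lit 4) (nat_lit 2) (nat_lit 4) (nat_lit 252) (nat_lit 210) (nat_lit 198)) (XT.lf (nat_lit 0) (nat_lit 46019686962) (nat_lit 152) (nat_lit 33014284783) (nat_lit 0) (nat_lit 42974416893) (nat_lit 2) (nat_lit 5) (nat_lit 4) (nat_lit 4) (nat_lit 2) (nat_lit 4) (nat_lit 253) (nat_lit 210) (nat_lit 197)))) (XT.nd (nat_lit 78) (nat_lit 0) (nat_lit 0) (XT.lf (nat_lit 0) (nat_lit 56806520124) (nat_lit 152) (nat_lit 29461319227) (nat_lit 0) (nat_lit 53684163793) (nat_lit 2) (nat_lit 5) (nat_lit 4) (nat_lit 4) (nat_lit 2) (nat_lit 4) (nat_lit 254) (nat_lit 210) (nat_lit 196)) (XT.nd (nat_lit 78) (nat_lit 0) (nat_lit 0) (XT.lf (nat_lit 0) (nat_lit 69076739743) (nat_lit 152) (nat_lit 25633939540) (nat_lit 0) (nat_lit 65887351880) (nat_lit 2) (nat_lit 5) (nat_lit 4) (nat_lit 4)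 (nat_lit 2) (nat_lit 4) (nat_lit 255) (nat_lit 210) (nat_lit 195)) (XT.lf (nat_lit 0) (nat_lit 83070415334) (nat_lit 152) (nat_lit 21457262206) (nat_lit 0) (nat_lit 79822739182) (nat_lit 2) (nat_lit 5) (nat_lit 4) (nat_lit 4) (nat_lit 2) (nat_lit 4) (nat_lit 256) (nat_lit 210) (nat_lit 194))))) (XT.nd (nat_lit 234) (nat_lit 76) (nat_lit 0) (XT.nd (nat_lit 78) (nat_lit 0) (nat_lit 0) (XT.lf (nat_lit 0) (nat_lit 99061336202) (nat_lit 152) (nat_lit 16849569625) (nat_lit 0) (nat_lit 95762974580) (nat_lit 2) (nat_lit 5) (nat_lit 4) (nat_lit 4) (nat_lit 2) (nat_lit 4) (nat_lit 257) (nat_lit 210) (nat_lit 193)) (XT.nd (nat_lit 78) (nat_lit 0) (nat_lit 0) (XT.lf (nat_lit 0) (nat_lit 117362368189) (nat_lit 152) (nat_lit 11720711290) (nat_lit 0) (nat_lit 114019932247) (nat_lit 2) (nat_lit 5) (nat_lit 4) (nat_lit 4) (nat_lit 2) (nat_lit 4) (nat_lit 258) (nat_lit 210) (nat_lit 192)) (XT.lf (nat_lit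 0) (nat_lit 138331574965) (nat_lit 152) (nat_lit 5970339973) (nat_lit 0) (nat_lit 134950813526) (nat_lit 2) (nat_lit 5) (nat_lit 4) (nat_lit 4) (nat_lit 2) (nat_lit 4) (nat_lit 259) (nat_lit 210) (nat_lit 191)))) (XT.nd (nat_lit 78) (nat_lit 0) (nat_lit 0) (XT.lf (nat_lit 0) (nat_lit 541120636) (nat_lit 76) (nat_lit 161851116947) (nat_lit 76) (nat_lit 158437028990) (nat_lit 1) (nat_lit 4) (nat_lit 2) (nat_lit 5) (nat_lit 2) (nat_lit 4) (nat_lit 260) (nat_lit 210) (nat_lit 190)) (XT.nd (nat_lit 78) (nat_lit 0) (nat_lit 0) (XT.lf (nat_lit 0) (nat_lit 8273190423) (nat_lit 76) (nat_lit 181901591629) (nat_lit 76) (nat_lit 178458524091) (nat_lit 1) (nat_lit 4) (nat_lit 2) (nat_lit 5) (nat_lit 2) (nat_lit 4) (nat_lit 261) (nat_lit 210) (nat_lit 189)) (XT.lf (nat_lit 0) (nat_lit 17062761492) (nat_lit 76) (nat_lit 205008870557) (nat_lit 76) (nat_lit 201540603383) (nat_lit 1) (nat_lit 4) (nat_lit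 2) (nat_lit 5) (nat_lit 2) (nat_lit 4) (nat_lit 262) (nat_lit 210) (nat_lit 188))))))))
noncomputable def xc12 : XT := (XT.nd (nat_lit 32448) (nat_lit 0) (nat_lit 76) (XT.nd (nat_lit 858) (nat_lit 0) (nat_lit 0) (XT.nd (nat_lit 390) (nat_lit 0) (nat_lit 0) (XT.nd (nat_lit 156) (nat_lit 0) (nat_lit 0) (XT.nd (nat_lit 78) (nat_lit 0) (nat_lit 0) (XT.lf (nat_lit 0) (nat_lit 27081803711) (nat_lit 76) (nat_lit 231625052666) (nat_lit 76) (nat_lit 228134872764) (nat_lit 1) (nat_lit 4) (nat_lit 2) (nat_lit 5) (nat_lit 2) (nat_lit 4) (nat_lit 263) (nat_lit 210) (nat_lit 187)) (XT.lf (nat_lit 0) (nat_lit 38526341818) (nat_lit 76) (nat_lit 262270889344) (nat_lit 76) (nat_lit 258761654898) (nat_lit 1) (nat_lit 4) (nat_lit 2) (nat_lit 5) (nat_lit 2) (nat_lit 4) (nat_lit 264) (nat_lit 210) (nat_lit 186))) (XT.nd (nat_lit 78) (nat_lit 0) (nat_lit 0) (XT.lf (nat_lit 0) (nat_lit 51620290691) (nat_lit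 76) (nat_lit 297545973049) (nat_lit 76) (nat_lit 294020169433) (nat_lit 1) (nat_lit 4) (nat_lit 2) (nat_lit 5) (nat_lit 2) (nat_lit 4) (nat_lit 265) (nat_lit 210) (nat_lit 185)) (XT.nd (nat_lit 78) (nat_lit 0) (nat_lit 0) (XT.lf (nat_lit 0) (nat_lit 66619836286) (nat_lit 76) (nat_lit 338140468461) (nat_lit 76) (nat_lit 334600256872) (nat_lit 1) (nat_lit 4) (nat_lit 2) (nat_lit 5) (nat_lit 2) (nat_lit 4) (nat_lit 266) (nat_lit 210) (nat_lit 184)) (XT.lf (nat_lit 0) (nat_lit 83818447972) (nat_lit 76) (nat_lit 384848615709) (nat_lit 76) (nat_lit 381295875447) (nat_lit 1) (nat_lit 4) (nat_lit 2) (nat_lit 5) (nat_lit 2) (nat_lit 4) (nat_lit 267) (nat_lit 210) (nat_lit 183))))) (XT.nd (nat_lit 234) (nat_lit 0) (nat_lit 0) (XT.nd (nat_lit 78) (nat_lit 0) (nat_lit 0) (XT.lf (nat_lit 0) (nat_lit 103552620326) (nat_lit 76) (nat_lit 438584269848) (nat_lit 76) (nat_lit 435020635087) (nat_lit 1) (nat_lit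 4) (nat_lit 2) (nat_lit 5) (nat_lit 2) (nat_lit 4) (nat_lit 268) (nat_lit 210) (nat_lit 182)) (XT.nd (nat_lit 78) (nat_lit 0) (nat_lit 0) (XT.lf (nat_lit 0) (nat_lit 126208456720) (nat_lit 76) (nat_lit 500398780631) (nat_lit 76) (nat_lit 496825672394) (nat_lit 1) (nat_lit 4) (nat_lit 2) (nat_lit 5) (nat_lit 2) (nat_lit 4) (nat_lit 269) (nat_lit 210) (nat_lit 181)) (XT.lf (nat_lit 0) (nat_lit 152229223519) (nat_lit 76) (nat_lit 571501562401) (nat_lit 76) (nat_lit 567920216358) (nat_lit 1) (nat_lit 4) (nat_lit 2) (nat_lit 5) (nat_lit 2) (nat_lit 4) (nat_lit 270) (nat_lit 210) (nat_lit 180)))) (XT.nd (nat_lit 78) (nat_lit 0) (nat_lit 0) (XT.lf (nat_lit 0) (nat_lit 182124022682) (nat_lit 76) (nat_lit 653283756540) (nat_lit 76) (nat_lit 649695247188) (nat_lit 1) (nat_lit 4) (nat_lit 2) (nat_lit 5) (nat_lit 2) (nat_lit 4) (nat_lit 271) (nat_lit 210) (nat_lit 179)) (XT.nd (nat_lit 78) (nat_lit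 0) (nat_lit 0) (XT.lf (nat_lit 0) (nat_lit 216477752453) (nat_lit 76) (nat_lit 747345449455) (nat_lit 76) (nat_lit 743750711138) (nat_lit 1) (nat_lit 4) (nat_lit 2) (nat_lit 5) (nat_lit 2) (nat_lit 4) (nat_lit 272) (nat_lit 210) (nat_lit 178)) (XT.lf (nat_lit 0) (nat_lit 255962551023) (nat_lit 76) (nat_lit 855526978616) (nat_lit 76) (nat_lit 851926823808) (nat_lit 1) (nat_lit 4) (nat_lit 2) (nat_lit 5) (nat_lit 2) (nat_lit 4) (nat_lit 273) (nat_lit 210) (nat_lit 177)))))) (XT.nd (nat_lit 468) (nat_lit 0) (nat_lit 0) (XT.nd (nat_lit 234) (nat_lit 0) (nat_lit 0) (XT.nd (nat_lit 78) (nat_lit 0) (nat_lit 0) (XT.lf (nat_lit 0) (nat_lit 301350947060) (nat_lit 76) (nat_lit 979944939159) (nat_lit 76) (nat_lit 976340074359) (nat_lit 1) (nat_lit 4) (nat_lit 2) (nat_lit 5) (nat_lit 2) (nat_lit 4) (nat_lit 274) (nat_lit 210) (nat_lit 176)) (XT.nd (nat_lit 78) (nat_lit 0) (nat_lit 0) (XT.lf (nat_lit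 0) (nat_lit 353530974399) (nat_lit 76) (nat_lit 1123033595529) (nat_lit 76) (nat_lit 1119424635084) (nat_lit 1) (nat_lit 4) (nat_lit 2) (nat_lit 5) (nat_lit 2) (nat_lit 4) (nat_lit 275) (nat_lit 210) (nat_lit 175)) (XT.lf (nat_lit 0) (nat_lit 413523546619) (nat_lit 76) (nat_lit 1287592508394) (nat_lit 76) (nat_lit 1283979986519) (nat_lit 1) (nat_lit 4) (nat_lit 2) (nat_lit 5) (nat_lit 2) (nat_lit 4) (nat_lit 276) (nat_lit 210) (nat_lit 174)))) (XT.nd (nat_lit 78) (nat_lit 0) (nat_lit 0) (XT.lf (nat_lit 0) (nat_lit 482502431438) (nat_lit 76) (nat_lit 1476841308659) (nat_lit 76) (nat_lit 1473225689887) (nat_lit 1) (nat_lit 4) (nat_lit 2) (nat_lit 5) (nat_lit 2) (nat_lit 4) (nat_lit 277) (nat_lit 210) (nat_lit 173)) (XT.nd (nat_lit 78) (nat_lit 0) (nat_lit 0) (XT.lf (nat_lit 0) (nat_lit 561817215731) (nat_lit 76) (nat_lit 1694482690242) (nat_lit 76) (nat_lit 1690864378516) (nat_lit 1) (nat_lit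 4) (nat_lit 2) (nat_lit 5) (nat_lit 2) (nat_lit 4) (nat_lit 278) (nat_lit 210) (nat_lit 172)) (XT.lf (nat_lit 0) (nat_lit 653019710497) (nat_lit 76) (nat_lit 1944774854086) (nat_lit 76) (nat_lit 1941154200662) (nat_lit 1) (nat_lit 4) (nat_lit 2) (nat_lit 5) (nat_lit 2) (nat_lit 4) (nat_lit 279) (nat_lit 210) (nat_lit 171))))) (XT.nd (nat_lit 234) (nat_lit 0) (nat_lit 0) (XT.nd (nat_lit 78) (nat_lit 0) (nat_lit 0) (XT.lf (nat_lit 0) (nat_lit 757894312371) (nat_lit 76) (nat_lit 2232614820788) (nat_lit 76) (nat_lit 2228992131104) (nat_lit 1) (nat_lit 4) (nat_lit 2) (nat_lit 5) (nat_lit 2) (nat_lit 4) (nat_lit 280) (nat_lit 210) (nat_lit 170)) (XT.nd (nat_lit 78) (nat_lit 0) (nat_lit 0) (XT.lf (nat_lit 0) (nat_lit 878492915739) (nat_lit 76) (nat_lit 2563634241871) (nat_lit 76) (nat_lit 2560009781527) (nat_lit 1) (nat_lit 4) (nat_lit 2) (nat_lit 5) (nat_lit 2) (nat_lit 4) (nat_lit 281) (nat_lit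 210) (nat_lit 169)) (XT.lf (nat_lit 0) (nat_lit 1017175058492) (nat_lit 76) (nat_lit 2944309584270) (nat_lit 76) (nat_lit 2940683584221) (nat_lit 1) (nat_lit 4) (nat_lit 2) (nat_lit 5) (nat_lit 2) (nat_lit 4) (nat_lit 282) (nat_lit 210) (nat_lit 168)))) (XT.nd (nat_lit 78) (nat_lit 0) (nat_lit 0) (XT.lf (nat_lit 0) (nat_lit 1176654086902) (nat_lit 76) (nat_lit 3382088843813) (nat_lit 76) (nat_lit 3378461504890) (nat_lit 1) (nat_lit 4) (nat_lit 2) (nat_lit 5) (nat_lit 2) (nat_lit 4) (nat_lit 283) (nat_lit 210) (nat_lit 167)) (XT.nd (nat_lit 78) (nat_lit 0) (nat_lit 0) (XT.lf (nat_lit 0) (nat_lit 1360050242828) (nat_lit 76) (nat_lit 3885537266883) (nat_lit 76) (nat_lit 3881908763722) (nat_lit 1) (nat_lit 4) (nat_lit 2) (nat_lit 5) (nat_lit 2) (nat_lit 4) (nat_lit 284) (nat_lit 210) (nat_lit 166)) (XT.lf (nat_lit 0) (nat_lit 1570951711931) (nat_lit 76) (nat_lit 4464504931323) (nat_lit 76)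 (nat_lit 4460875415781) (nat_lit 1) (nat_lit 4) (nat_lit 2) (nat_lit 5) (nat_lit 2) (nat_lit 4) (nat_lit 285) (nat_lit 210) (nat_lit 165))))))) (XT.nd (nat_lit 858) (nat_lit 0) (nat_lit 0) (XT.nd (nat_lit 390) (nat_lit 228) (nat_lit 0) (XT.nd (nat_lit 156) (nat_lit 228) (nat_lit 0) (XT.nd (nat_lit 78) (nat_lit 0) (nat_lit 0) (XT.lf (nat_lit 0) (nat_lit 416500899) (nat_lit 152) (nat_lit 8337604699) (nat_lit 0) (nat_lit 416500899) (nat_lit 8) (nat_lit 5) (nat_lit 10) (nat_lit 4) (nat_lit 8) (nat_lit 4) (nat_lit 238) (nat_lit 211) (nat_lit 211)) (XT.lf (nat_lit 0) (nat_lit 8702609813) (nat_lit 152) (nat_lit 3635536458) (nat_lit 0) (nat_lit 8066408932) (nat_lit 8) (nat_lit 5) (nat_lit 10) (nat_lit 4) (nat_lit 8) (nat_lit 4) (nat_lit 239) (nat_lit 211) (nat_lit 210))) (XT.nd (nat_lit 78) (nat_lit 152) (nat_lit 0) (XT.lf (nat_lit 0) (nat_lit 10568071157) (nat_lit 76) (nat_lit 6718433209) (nat_lit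 76) (nat_lit 5529014172) (nat_lit 7) (nat_lit 4) (nat_lit 8) (nat_lit 5) (nat_lit 8) (nat_lit 4) (nat_lit 240) (nat_lit 211) (nat_lit 209)) (XT.nd (nat_lit 78) (nat_lit 0) (nat_lit 0) (XT.lf (nat_lit 0) (nat_lit 270760078) (nat_lit 76) (nat_lit 662527604) (nat_lit 152) (nat_lit 24697127561) (nat_lit 5) (nat_lit 5) (nat_lit 6) (nat_lit 5) (nat_lit 7) (nat_lit 4) (nat_lit 241) (nat_lit 211) (nat_lit 208)) (XT.lf (nat_lit 0) (nat_lit 7938832341) (nat_lit 152) (nat_lit 14920935541) (nat_lit 0) (nat_lit 6004766869) (nat_lit 5) (nat_lit 5) (nat_lit 7) (nat_lit 4) (nat_lit 5) (nat_lit 4) (nat_lit 242) (nat_lit 211) (nat_lit 207))))) (XT.nd (nat_lit 234) (nat_lit 152) (nat_lit 0) (XT.nd (nat_lit 78) (nat_lit 76) (nat_lit 0) (XT.lf (nat_lit 0) (nat_lit 15469687651) (nat_lit 152) (nat_lit 3957813262) (nat_lit 0) (nat_lit 13198816700) (nat_lit 5) (nat_lit 5) (nat_lit 7) (nat_lit 4) (nat_lit 5) (nat_lit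 4) (nat_lit 243) (nat_lit 211) (nat_lit 206)) (XT.nd (nat_lit 78) (nat_lit 0) (nat_lit 0) (XT.lf (nat_lit 0) (nat_lit 8168776639) (nat_lit 76) (nat_lit 15684945267) (nat_lit 76) (nat_lit 13121199985) (nat_lit 4) (nat_lit 4) (nat_lit 5) (nat_lit 5) (nat_lit 5) (nat_lit 4) (nat_lit 244) (nat_lit 211) (nat_lit 205)) (XT.lf (nat_lit 0) (nat_lit 21539695419) (nat_lit 76) (nat_lit 11640083738) (nat_lit 76) (nat_lit 8821665126) (nat_lit 4) (nat_lit 4) (nat_lit 5) (nat_lit 5) (nat_lit 5) (nat_lit 4) (nat_lit 245) (nat_lit 211) (nat_lit 204)))) (XT.nd (nat_lit 78) (nat_lit 152) (nat_lit 0) (XT.lf (nat_lit 0) (nat_lit 36208136577) (nat_lit 76) (nat_lit 7321991362) (nat_lit 76) (nat_lit 4282117679) (nat_lit 4) (nat_lit 4) (nat_lit 5) (nat_lit 5) (nat_lit 5) (nat_lit 4) (nat_lit 246) (nat_lit 211) (nat_lit 203)) (XT.nd (nat_lit 78) (nat_lit 76) (nat_lit 0) (XT.lf (nat_lit 0) (nat_lit 556932507) (nat_lit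 152) (nat_lit 2074023692) (nat_lit 76) (nat_lit 51888931325) (nat_lit 3) (nat_lit 5) (nat_lit 5) (nat_lit 5) (nat_lit 4) (nat_lit 4) (nat_lit 247) (nat_lit 211) (nat_lit 202)) (XT.lf (nat_lit 0) (nat_lit 5861334969) (nat_lit 152) (nat_lit 53650947329) (nat_lit 0) (nat_lit 2713283897) (nat_lit 2) (nat_lit 5) (nat_lit 4) (nat_lit 4) (nat_lit 2) (nat_lit 4) (nat_lit 248) (nat_lit 211) (nat_lit 201)))))) (XT.nd (nat_lit 468) (nat_lit 0) (nat_lit 0) (XT.nd (nat_lit 234) (nat_lit 0) (nat_lit 0) (XT.nd (nat_lit 78) (nat_lit 0) (nat_lit 0) (XT.lf (nat_lit 0) (nat_lit 11825308751) (nat_lit 152) (nat_lit 50730443364) (nat_lit 0) (nat_lit 8542433325) (nat_lit 2) (nat_lit 5) (nat_lit 4) (nat_lit 4) (nat_lit 2) (nat_lit 4) (nat_lit 249) (nat_lit 211) (nat_lit 200)) (XT.nd (nat_lit 78) (nat_lit 0) (nat_lit 0) (XT.lf (nat_lit 0) (nat_lit 18448394994) (nat_lit 152) (nat_lit 47824035619) (nat_lit 0) (nat_lit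 15048280997) (nat_lit 2) (nat_lit 5) (nat_lit 4) (nat_lit 4) (nat_lit 2) (nat_lit 4) (nat_lit 250) (nat_lit 211) (nat_lit 199)) (XT.lf (nat_lit 0) (nat_lit 25860175817) (nat_lit 152) (nat_lit 44874859593) (nat_lit 0) (nat_lit 22358115239) (nat_lit 2) (nat_lit 5) (nat_lit 4) (nat_lit 4) (nat_lit 2) (nat_lit 4) (nat_lit 251) (nat_lit 211) (nat_lit 198)))) (XT.nd (nat_lit 78) (nat_lit 0) (nat_lit 0) (XT.lf (nat_lit 0) (nat_lit 34205664325) (nat_lit 152) (nat_lit 41825214018) (nat_lit 0) (nat_lit 30614954545) (nat_lit 2) (nat_lit 5) (nat_lit 4) (nat_lit 4) (nat_lit 2) (nat_lit 4) (nat_lit 252) (nat_lit 211) (nat_lit 197)) (XT.nd (nat_lit 78) (nat_lit 0) (nat_lit 0) (XT.lf (nat_lit 0) (nat_lit 43648141815) (nat_lit 152) (nat_lit 38615431913) (nat_lit 0) (nat_lit 39980345772) (nat_lit 2) (nat_lit 5) (nat_lit 4) (nat_lit 4) (nat_lit 2) (nat_lit 4) (nat_lit 253) (nat_lit 211) (nat_lit 196)) (XT.lf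 (nat_lit 0) (nat_lit 54372352411) (nat_lit 152) (nat_lit 35182713195) (nat_lit 0) (nat_lit 50637524836) (nat_lit 2) (nat_lit 5) (nat_lit 4) (nat_lit 4) (nat_lit 2) (nat_lit 4) (nat_lit 254) (nat_lit 211) (nat_lit 195))))) (XT.nd (nat_lit 234) (nat_lit 0) (nat_lit 0) (XT.nd (nat_lit 78) (nat_lit 0) (nat_lit 0) (XT.lf (nat_lit 0) (nat_lit 66588117625) (nat_lit 152) (nat_lit 31459895976) (nat_lit 0) (nat_lit 62795001761) (nat_lit 2) (nat_lit 5) (nat_lit 4) (nat_lit 4) (nat_lit 2) (nat_lit 4) (nat_lit 255) (nat_lit 211) (nat_lit 194)) (XT.nd (nat_lit 78) (nat_lit 0) (nat_lit 0) (XT.lf (nat_lit 0) (nat_lit 80534441560) (nat_lit 152) (nat_lit 27374142527) (nat_lit 0) (nat_lit 76690640226) (nat_lit 2) (nat_lit 5) (nat_lit 4) (nat_lit 4) (nat_lit 2) (nat_lit 4) (nat_lit 256) (nat_lit 211) (nat_lit 193)) (XT.lf (nat_lit 0) (nat_lit 96484187073) (nat_lit 152) (nat_lit 22845514194) (nat_lit 0) (nat_lit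 92596311419) (nat_lit 2) (nat_lit 5) (nat_lit 4) (nat_lit 4) (nat_lit 2) (nat_lit 4) (nat_lit 257) (nat_lit 211) (nat_lit 192)))) (XT.nd (nat_lit 78) (nat_lit 0) (nat_lit 0) (XT.lf (nat_lit 0) (nat_lit 114749414405) (nat_lit 152) (nat_lit 17785407380) (nat_lit 0) (nat_lit 110823213254) (nat_lit 2) (nat_lit 5) (nat_lit 4) (nat_lit 4) (nat_lit 2) (nat_lit 4) (nat_lit 258) (nat_lit 211) (nat_lit 191)) (XT.nd (nat_lit 78) (nat_lit 0) (nat_lit 0) (XT.lf (nat_lit 0) (nat_lit 135687486698) (nat_lit 152) (nat_lit 12094819993) (nat_lit 0) (nat_lit 131727959029) (nat_lit 2) (nat_lit 5) (nat_lit 4) (nat_lit 4) (nat_lit 2) (nat_lit 4) (nat_lit 259) (nat_lit 211) (nat_lit 190)) (XT.lf (nat_lit 0) (nat_lit 159708061888) (nat_lit 152) (nat_lit 5662414456) (nat_lit 0) (nat_lit 155719554638) (nat_lit 2) (nat_lit 5) (nat_lit 4) (nat_lit 4) (nat_lit 2) (nat_lit 4) (nat_lit 260) (nat_lit 211) (nat_lit 189))))))))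
noncomputable def xc13 : XT := (XT.nd (nat_lit 1794) (nat_lit 0) (nat_lit 0) (XT.nd (nat_lit 858) (nat_lit 0) (nat_lit 0) (XT.nd (nat_lit 390) (nat_lit 0) (nat_lit 0) (XT.nd (nat_lit 156) (nat_lit 0) (nat_lit 0) (XT.nd (nat_lit 78) (nat_lit 0) (nat_lit 0) (XT.lf (nat_lit 0) (nat_lit 1723896952) (nat_lit 76) (nat_lit 185598670563) (nat_lit 76) (nat_lit 181584963676) (nat_lit 1) (nat_lit 4) (nat_lit 2) (nat_lit 5) (nat_lit 2) (nat_lit 4) (nat_lit 261) (nat_lit 211) (nat_lit 188)) (XT.lf (nat_lit 0) (nat_lit 10472089178) (nat_lit 76) (nat_lit 208725861743) (nat_lit 76) (nat_lit 204690242129) (nat_lit 1) (nat_lit 4) (nat_lit 2) (nat_lit 5) (nat_lit 2) (nat_lit 4) (nat_lit 262) (nat_lit 211) (nat_lit 187))) (XT.nd (nat_lit 78) (nat_lit 0) (nat_lit 0) (XT.lf (nat_lit 0) (nat_lit 20455149795) (nat_lit 76) (nat_lit 235359358853) (nat_lit 76) (nat_lit 231304684694) (nat_lit 1) (nat_lit 4) (nat_lit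 2) (nat_lit 5) (nat_lit 2) (nat_lit 4) (nat_lit 263) (nat_lit 211) (nat_lit 186)) (XT.nd (nat_lit 78) (nat_lit 0) (nat_lit 0) (XT.lf (nat_lit 0) (nat_lit 31868399554) (nat_lit 76) (nat_lit 266020252054) (nat_lit 76) (nat_lit 261949008726) (nat_lit 1) (nat_lit 4) (nat_lit 2) (nat_lit 5) (nat_lit 2) (nat_lit 4) (nat_lit 264) (nat_lit 211) (nat_lit 185)) (XT.lf (nat_lit 0) (nat_lit 44935141167) (nat_lit 76) (nat_lit 301308428388) (nat_lit 76) (nat_lit 297222777086) (nat_lit 1) (nat_lit 4) (nat_lit 2) (nat_lit 5) (nat_lit 2) (nat_lit 4) (nat_lit 265) (nat_lit 211) (nat_lit 184))))) (XT.nd (nat_lit 234) (nat_lit 0) (nat_lit 0) (XT.nd (nat_lit 78) (nat_lit 0) (nat_lit 0) (XT.lf (nat_lit 0) (nat_lit 59911028274) (nat_lit 76) (nat_lit 341914308695) (nat_lit 76) (nat_lit 337816128721) (nat_lit 1) (nat_lit 4) (nat_lit 2) (nat_lit 5) (nat_lit 2) (nat_lit 4) (nat_lit 266) (nat_lit 211) (nat_lit 183))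 (XT.nd (nat_lit 78) (nat_lit 0) (nat_lit 0) (XT.lf (nat_lit 0) (nat_lit 77089067362) (nat_lit 76) (nat_lit 388632355852) (nat_lit 76) (nat_lit 384523281379) (nat_lit 1) (nat_lit 4) (nat_lit 2) (nat_lit 5) (nat_lit 2) (nat_lit 4) (nat_lit 267) (nat_lit 211) (nat_lit 182)) (XT.lf (nat_lit 0) (nat_lit 96805350501) (nat_lit 76) (nat_lit 442376618606) (nat_lit 76) (nat_lit 438258070657) (nat_lit 1) (nat_lit 4) (nat_lit 2) (nat_lit 5) (nat_lit 2) (nat_lit 4) (nat_lit 268) (nat_lit 211) (nat_lit 181)))) (XT.nd (nat_lit 78) (nat_lit 0) (nat_lit 0) (XT.lf (nat_lit 0) (nat_lit 119445631056) (nat_lit 76) (nat_lit 504198615142) (nat_lit 76) (nat_lit 500071829387) (nat_lit 1) (nat_lit 4) (nat_lit 2) (nat_lit 5) (nat_lit 2) (nat_lit 4) (nat_lit 269) (nat_lit 211) (nat_lit 180)) (XT.nd (nat_lit 78) (nat_lit 0) (nat_lit 0) (XT.lf (nat_lit 0) (nat_lit 145452871038) (nat_lit 76) (nat_lit 575307906263)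 (nat_lit 76) (nat_lit 571173957198) (nat_lit 1) (nat_lit 4) (nat_lit 2) (nat_lit 5) (nat_lit 2) (nat_lit 4) (nat_lit 270) (nat_lit 211) (nat_lit 179)) (XT.lf (nat_lit 0) (nat_lit 175335907752) (nat_lit 76) (nat_lit 657095760706) (nat_lit 76) (nat_lit 652955582677) (nat_lit 1) (nat_lit 4) (nat_lit 2) (nat_lit 5) (nat_lit 2) (nat_lit 4) (nat_lit 271) (nat_lit 211) (nat_lit 178)))))) (XT.nd (nat_lit 468) (nat_lit 0) (nat_lit 0) (XT.nd (nat_lit 234) (nat_lit 0) (nat_lit 0) (XT.nd (nat_lit 78) (nat_lit 0) (nat_lit 0) (XT.lf (nat_lit 0) (nat_lit 209679409305) (nat_lit 76) (nat_lit 751162375625) (nat_lit 76) (nat_lit 747016781105) (nat_lit 1) (nat_lit 4) (nat_lit 2) (nat_lit 5) (nat_lit 2) (nat_lit 4) (nat_lit 272) (nat_lit 211) (nat_lit 177)) (XT.nd (nat_lit 78) (nat_lit 0) (nat_lit 0) (XT.lf (nat_lit 0) (nat_lit 249155313774) (nat_lit 76) (nat_lit 859348184790) (nat_lit 76) (nat_lit 855197880278)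 (nat_lit 1) (nat_lit 4) (nat_lit 2) (nat_lit 5) (nat_lit 2) (nat_lit 4) (nat_lit 273) (nat_lit 211) (nat_lit 176)) (XT.lf (nat_lit 0) (nat_lit 294535975809) (nat_lit 76) (nat_lit 983769867075) (nat_lit 76) (nat_lit 979615466918) (nat_lit 1) (nat_lit 4) (nat_lit 2) (nat_lit 5) (nat_lit 2) (nat_lit 4) (nat_lit 274) (nat_lit 211) (nat_lit 175)))) (XT.nd (nat_lit 78) (nat_lit 0) (nat_lit 0) (XT.lf (nat_lit 0) (nat_lit 346709277930) (nat_lit 76) (nat_lit 1126861759743) (nat_lit 76) (nat_lit 1122703798155) (nat_lit 1) (nat_lit 4) (nat_lit 2) (nat_lit 5) (nat_lit 2) (nat_lit 4) (nat_lit 275) (nat_lit 211) (nat_lit 174)) (XT.nd (nat_lit 78) (nat_lit 0) (nat_lit 0) (XT.lf (nat_lit 0) (nat_lit 406696002134) (nat_lit 76) (nat_lit 1291423486780) (nat_lit 76) (nat_lit 1287262428296) (nat_lit 1) (nat_lit 4) (nat_lit 2) (nat_lit 5) (nat_lit 2) (nat_lit 4) (nat_lit 276) (nat_lit 211) (nat_lit 173)) (XT.lf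 (nat_lit 0) (nat_lit 475669801721) (nat_lit 76) (nat_lit 1480674734151) (nat_lit 76) (nat_lit 1476510982713) (nat_lit 1) (nat_lit 4) (nat_lit 2) (nat_lit 5) (nat_lit 2) (nat_lit 4) (nat_lit 277) (nat_lit 211) (nat_lit 172))))) (XT.nd (nat_lit 234) (nat_lit 0) (nat_lit 0) (XT.nd (nat_lit 78) (nat_lit 0) (nat_lit 0) (XT.lf (nat_lit 0) (nat_lit 554980164074) (nat_lit 76) (nat_lit 1698318243652) (nat_lit 76) (nat_lit 1694152150515) (nat_lit 1) (nat_lit 4) (nat_lit 2) (nat_lit 5) (nat_lit 2) (nat_lit 4) (nat_lit 278) (nat_lit 211) (nat_lit 171)) (XT.nd (nat_lit 78) (nat_lit 0) (nat_lit 0) (XT.lf (nat_lit 0) (nat_lit 646178813674) (nat_lit 76) (nat_lit 1948612257859) (nat_lit 76) (nat_lit 1944444128464) (nat_lit 1) (nat_lit 4) (nat_lit 2) (nat_lit 5) (nat_lit 2) (nat_lit 4) (nat_lit 279) (nat_lit 211) (nat_lit 170)) (XT.lf (nat_lit 0) (nat_lit 751050071926) (nat_lit 76) (nat_lit 2236453833573)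 (nat_lit 76) (nat_lit 2232283933517) (nat_lit 1) (nat_lit 4) (nat_lit 2) (nat_lit 5) (nat_lit 2) (nat_lit 4) (nat_lit 280) (nat_lit 211) (nat_lit 169)))) (XT.nd (nat_lit 78) (nat_lit 0) (nat_lit 0) (XT.lf (nat_lit 0) (nat_lit 871645767797) (nat_lit 76) (nat_lit 2567474653798) (nat_lit 76) (nat_lit 2563303214037) (nat_lit 1) (nat_lit 4) (nat_lit 2) (nat_lit 5) (nat_lit 2) (nat_lit 4) (nat_lit 281) (nat_lit 211) (nat_lit 168)) (XT.nd (nat_lit 78) (nat_lit 0) (nat_lit 0) (XT.lf (nat_lit 0) (nat_lit 1010325382291) (nat_lit 76) (nat_lit 2948151212840) (nat_lit 76) (nat_lit 2943978434205) (nat_lit 1) (nat_lit 4) (nat_lit 2) (nat_lit 5) (nat_lit 2) (nat_lit 4) (nat_lit 282) (nat_lit 211) (nat_lit 167)) (XT.lf (nat_lit 0) (nat_lit 1169802212215) (nat_lit 76) (nat_lit 3385931530335) (nat_lit 76) (nat_lit 3381757587462) (nat_lit 1) (nat_lit 4) (nat_lit 2) (nat_lit 5) (nat_lit 2) (nat_lit 4) (nat_lit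 283) (nat_lit 211) (nat_lit 166))))))) (XT.nd (nat_lit 31356) (nat_lit 0) (nat_lit 76) (XT.nd (nat_lit 30888) (nat_lit 0) (nat_lit 228) (XT.nd (nat_lit 30654) (nat_lit 0) (nat_lit 532) (XT.nd (nat_lit 78) (nat_lit 0) (nat_lit 0) (XT.lf (nat_lit 0) (nat_lit 1353196456414) (nat_lit 76) (nat_lit 3889380873363) (nat_lit 76) (nat_lit 3885205918109) (nat_lit 1) (nat_lit 4) (nat_lit 2) (nat_lit 5) (nat_lit 2) (nat_lit 4) (nat_lit 284) (nat_lit 211) (nat_lit 165)) (XT.lf (nat_lit 0) (nat_lit 1564096263146) (nat_lit 76) (nat_lit 4468349337766) (nat_lit 76) (nat_lit 4464173502181) (nat_lit 1) (nat_lit 4) (nat_lit 2) (nat_lit 5) (nat_lit 2) (nat_lit 4) (nat_lit 285) (nat_lit 211) (nat_lit 164))) (XT.nd (nat_lit 78) (nat_lit 228) (nat_lit 0) (XT.lf (nat_lit 0) (nat_lit 1319809096) (nat_lit 152) (nat_lit 4863658449) (nat_lit 0) (nat_lit 1319809096) (nat_lit 11) (nat_lit 5) (nat_lit 13) (nat_lit 4)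 (nat_lit 11) (nat_lit 4) (nat_lit 236) (nat_lit 212) (nat_lit 212)) (XT.nd (nat_lit 78) (nat_lit 152) (nat_lit 0) (XT.lf (nat_lit 0) (nat_lit 4148789084) (nat_lit 76) (nat_lit 6598587821) (nat_lit 76) (nat_lit 5808426328) (nat_lit 10) (nat_lit 4) (nat_lit 11) (nat_lit 5) (nat_lit 11) (nat_lit 4) (nat_lit 237) (nat_lit 212) (nat_lit 211)) (XT.lf (nat_lit 0) (nat_lit 985708510) (nat_lit 76) (nat_lit 198410217) (nat_lit 152) (nat_lit 17187977968) (nat_lit 8) (nat_lit 5) (nat_lit 9) (nat_lit 5) (nat_lit 10) (nat_lit 4) (nat_lit 238) (nat_lit 212) (nat_lit 210))))) (XT.nd (nat_lit 234) (nat_lit 152) (nat_lit 0) (XT.nd (nat_lit 78) (nat_lit 152) (nat_lit 0) (XT.lf (nat_lit 0) (nat_lit 8713923796) (nat_lit 152) (nat_lit 4956210444) (nat_lit 0) (nat_lit 6792873747) (nat_lit 8) (nat_lit 5) (nat_lit 10) (nat_lit 4) (nat_lit 8) (nat_lit 4) (nat_lit 239) (nat_lit 212) (nat_lit 209)) (XT.nd (nat_lit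 78) (nat_lit 76) (nat_lit 0) (XT.lf (nat_lit 0) (nat_lit 8615580488) (nat_lit 76) (nat_lit 8343948956) (nat_lit 76) (nat_lit 5941839640) (nat_lit 7) (nat_lit 4) (nat_lit 8) (nat_lit 5) (nat_lit 8) (nat_lit 4) (nat_lit 240) (nat_lit 212) (nat_lit 208)) (XT.lf (nat_lit 0) (nat_lit 262349180) (nat_lit 152) (nat_lit 2274735427) (nat_lit 76) (nat_lit 23202546045) (nat_lit 6) (nat_lit 5) (nat_lit 8) (nat_lit 5) (nat_lit 7) (nat_lit 4) (nat_lit 241) (nat_lit 212) (nat_lit 207)))) (XT.nd (nat_lit 78) (nat_lit 76) (nat_lit 0) (XT.lf (nat_lit 0) (nat_lit 6910775533) (nat_lit 152) (nat_lit 18129309931) (nat_lit 0) (nat_lit 3962468459) (nat_lit 5) (nat_lit 5) (nat_lit 7) (nat_lit 4) (nat_lit 5) (nat_lit 4) (nat_lit 242) (nat_lit 212) (nat_lit 206)) (XT.nd (nat_lit 78) (nat_lit 76) (nat_lit 0) (XT.lf (nat_lit 0) (nat_lit 14221673342) (nat_lit 152) (nat_lit 7579971843) (nat_lit 0) (nat_lit 10980491938)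 (nat_lit 5) (nat_lit 5) (nat_lit 7) (nat_lit 4) (nat_lit 5) (nat_lit 4) (nat_lit 243) (nat_lit 212) (nat_lit 205)) (XT.lf (nat_lit 0) (nat_lit 3977122185) (nat_lit 76) (nat_lit 18336508628) (nat_lit 76) (nat_lit 14840653893) (nat_lit 4) (nat_lit 4) (nat_lit 5) (nat_lit 5) (nat_lit 5) (nat_lit 4) (nat_lit 244) (nat_lit 212) (nat_lit 204)))))) (XT.nd (nat_lit 468) (nat_lit 0) (nat_lit 0) (XT.nd (nat_lit 234) (nat_lit 152) (nat_lit 0) (XT.nd (nat_lit 78) (nat_lit 0) (nat_lit 0) (XT.lf (nat_lit 0) (nat_lit 17018684948) (nat_lit 76) (nat_lit 14446762626) (nat_lit 76) (nat_lit 10729452821) (nat_lit 4) (nat_lit 4) (nat_lit 5) (nat_lit 5) (nat_lit 5) (nat_lit 4) (nat_lit 245) (nat_lit 212) (nat_lit 203)) (XT.nd (nat_lit 78) (nat_lit 0) (nat_lit 0) (XT.lf (nat_lit 0) (nat_lit 31400729569) (nat_lit 76) (nat_lit 10263553315) (nat_lit 76) (nat_lit 6353673885) (nat_lit 4) (nat_lit 4) (nat_lit 5) (nat_lit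 5) (nat_lit 5) (nat_lit 4) (nat_lit 246) (nat_lit 212) (nat_lit 202)) (XT.lf (nat_lit 0) (nat_lit 47404643879) (nat_lit 76) (nat_lit 5705035298) (nat_lit 76) (nat_lit 1627704018) (nat_lit 4) (nat_lit 4) (nat_lit 5) (nat_lit 5) (nat_lit 5) (nat_lit 4) (nat_lit 247) (nat_lit 212) (nat_lit 201)))) (XT.nd (nat_lit 78) (nat_lit 0) (nat_lit 0) (XT.lf (nat_lit 0) (nat_lit 2919802320) (nat_lit 76) (nat_lit 514209171) (nat_lit 152) (nat_lit 59038204775) (nat_lit 2) (nat_lit 5) (nat_lit 3) (nat_lit 5) (nat_lit 4) (nat_lit 4) (nat_lit 248) (nat_lit 212) (nat_lit 200)) (XT.nd (nat_lit 78) (nat_lit 0) (nat_lit 0) (XT.lf (nat_lit 0) (nat_lit 9276091272) (nat_lit 152) (nat_lit 56829855710) (nat_lit 0) (nat_lit 5248721607) (nat_lit 2) (nat_lit 5) (nat_lit 4) (nat_lit 4) (nat_lit 2) (nat_lit 4) (nat_lit 249) (nat_lit 212) (nat_lit 199)) (XT.lf (nat_lit 0) (nat_lit 15803936419) (nat_lit 152) (nat_lit 54106328375)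 (nat_lit 0) (nat_lit 11674620172) (nat_lit 2) (nat_lit 5) (nat_lit 4) (nat_lit 4) (nat_lit 2) (nat_lit 4) (nat_lit 250) (nat_lit 212) (nat_lit 198))))) (XT.nd (nat_lit 234) (nat_lit 0) (nat_lit 0) (XT.nd (nat_lit 78) (nat_lit 0) (nat_lit 0) (XT.lf (nat_lit 0) (nat_lit 23132898899) (nat_lit 152) (nat_lit 51316178793) (nat_lit 0) (nat_lit 18914933450) (nat_lit 2) (nat_lit 5) (nat_lit 4) (nat_lit 4) (nat_lit 2) (nat_lit 4) (nat_lit 251) (nat_lit 212) (nat_lit 197)) (XT.nd (nat_lit 78) (nat_lit 0) (nat_lit 0) (XT.lf (nat_lit 0) (nat_lit 31406371456) (nat_lit 152) (nat_lit 48404817081) (nat_lit 0) (nat_lit 27111319744) (nat_lit 2) (nat_lit 5) (nat_lit 4) (nat_lit 4) (nat_lit 2) (nat_lit 4) (nat_lit 252) (nat_lit 212) (nat_lit 196)) (XT.lf (nat_lit 0) (nat_lit 40786226380) (nat_lit 152) (nat_lit 45315281815) (nat_lit 0) (nat_lit 36424143135) (nat_lit 2) (nat_lit 5) (nat_lit 4) (nat_lit 4) (nat_lit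 2) (nat_lit 4) (nat_lit 253) (nat_lit 212) (nat_lit 195)))) (XT.nd (nat_lit 78) (nat_lit 0) (nat_lit 0) (XT.lf (nat_lit 0) (nat_lit 51455982570) (nat_lit 152) (nat_lit 41987125565) (nat_lit 0) (nat_lit 47035611037) (nat_lit 2) (nat_lit 5) (nat_lit 4) (nat_lit 4) (nat_lit 2) (nat_lit 4) (nat_lit 254) (nat_lit 212) (nat_lit 194)) (XT.nd (nat_lit 78) (nat_lit 0) (nat_lit 0) (XT.lf (nat_lit 0) (nat_lit 63624396128) (nat_lit 152) (nat_lit 38355232231) (nat_lit 0) (nat_lit 59153339125) (nat_lit 2) (nat_lit 5) (nat_lit 4) (nat_lit 4) (nat_lit 2) (nat_lit 4) (nat_lit 255) (nat_lit 212) (nat_lit 193)) (XT.lf (nat_lit 0) (nat_lit 77529544708) (nat_lit 152) (nat_lit 34348543031) (nat_lit 0) (nat_lit 73014413385) (nat_lit 2) (nat_lit 5) (nat_lit 4) (nat_lit 4) (nat_lit 2) (nat_lit 4) (nat_lit 256) (nat_lit 212) (nat_lit 192))))))))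
noncomputable def xc14 : XT := (XT.nd (nat_lit 1794) (nat_lit 0) (nat_lit 0) (XT.nd (nat_lit 858) (nat_lit 0) (nat_lit 0) (XT.nd (nat_lit 390) (nat_lit 76) (nat_lit 0) (XT.nd (nat_lit 156) (nat_lit 0) (nat_lit 0) (XT.nd (nat_lit 78) (nat_lit 0) (nat_lit 0) (XT.lf (nat_lit 0) (nat_lit 93443485567) (nat_lit 152) (nat_lit 29888666218) (nat_lit 0) (nat_lit 88890028747) (nat_lit 2) (nat_lit 5) (nat_lit 4) (nat_lit 4) (nat_lit 2) (nat_lit 4) (nat_lit 257) (nat_lit 212) (nat_lit 191)) (XT.lf (nat_lit 0) (nat_lit 111677578415) (nat_lit 152) (nat_lit 24888343333) (nat_lit 0) (nat_lit 107090795077) (nat_lit 2) (nat_lit 5) (nat_lit 4) (nat_lit 4) (nat_lit 2) (nat_lit 4) (nat_lit 258) (nat_lit 212) (nat_lit 190))) (XT.nd (nat_lit 78) (nat_lit 0) (nat_lit 0) (XT.lf (nat_lit 0) (nat_lit 132588577245) (nat_lit 152) (nat_lit 19249741973) (nat_lit 0) (nat_lit 127972814325) (nat_lit 2) (nat_lit 5) (nat_lit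 4) (nat_lit 4) (nat_lit 2) (nat_lit 4) (nat_lit 259) (nat_lit 212) (nat_lit 189)) (XT.nd (nat_lit 78) (nat_lit 0) (nat_lit 0) (XT.lf (nat_lit 0) (nat_lit 156585610293) (nat_lit 152) (nat_lit 12862541676) (nat_lit 0) (nat_lit 151944647738) (nat_lit 2) (nat_lit 5) (nat_lit 4) (nat_lit 4) (nat_lit 2) (nat_lit 4) (nat_lit 260) (nat_lit 212) (nat_lit 188)) (XT.lf (nat_lit 0) (nat_lit 184138184729) (nat_lit 152) (nat_lit 5601775480) (nat_lit 0) (nat_lit 179475309446) (nat_lit 2) (nat_lit 5) (nat_lit 4) (nat_lit 4) (nat_lit 2) (nat_lit 4) (nat_lit 261) (nat_lit 212) (nat_lit 187))))) (XT.nd (nat_lit 234) (nat_lit 0) (nat_lit 0) (XT.nd (nat_lit 78) (nat_lit 0) (nat_lit 0) (XT.lf (nat_lit 0) (nat_lit 2815455574) (nat_lit 76) (nat_lit 213037628859) (nat_lit 76) (nat_lit 208355699032) (nat_lit 1) (nat_lit 4) (nat_lit 2) (nat_lit 5) (nat_lit 2) (nat_lit 4) (nat_lit 262) (nat_lit 212) (nat_lit 186))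 (XT.nd (nat_lit 78) (nat_lit 0) (nat_lit 0) (XT.lf (nat_lit 0) (nat_lit 12767227842) (nat_lit 76) (nat_lit 239686182493) (nat_lit 76) (nat_lit 234987683495) (nat_lit 1) (nat_lit 4) (nat_lit 2) (nat_lit 5) (nat_lit 2) (nat_lit 4) (nat_lit 263) (nat_lit 212) (nat_lit 185)) (XT.lf (nat_lit 0) (nat_lit 24153270340) (nat_lit 76) (nat_lit 270360168323) (nat_lit 76) (nat_lit 265647261352) (nat_lit 1) (nat_lit 4) (nat_lit 2) (nat_lit 5) (nat_lit 2) (nat_lit 4) (nat_lit 264) (nat_lit 212) (nat_lit 184)))) (XT.nd (nat_lit 78) (nat_lit 0) (nat_lit 0) (XT.lf (nat_lit 0) (nat_lit 37196353466) (nat_lit 76) (nat_lit 305659729551) (nat_lit 76) (nat_lit 300934293908) (nat_lit 1) (nat_lit 4) (nat_lit 2) (nat_lit 5) (nat_lit 2) (nat_lit 4) (nat_lit 265) (nat_lit 212) (nat_lit 183)) (XT.nd (nat_lit 78) (nat_lit 0) (nat_lit 0) (XT.lf (nat_lit 0) (nat_lit 52151667976) (nat_lit 76) (nat_lit 346275509767) (nat_lit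 76) (nat_lit 341539179625) (nat_lit 1) (nat_lit 4) (nat_lit 2) (nat_lit 5) (nat_lit 2) (nat_lit 4) (nat_lit 266) (nat_lit 212) (nat_lit 182)) (XT.lf (nat_lit 0) (nat_lit 69311817849) (nat_lit 76) (nat_lit 393002165539) (nat_lit 76) (nat_lit 388256361921) (nat_lit 1) (nat_lit 4) (nat_lit 2) (nat_lit 5) (nat_lit 2) (nat_lit 4) (nat_lit 267) (nat_lit 212) (nat_lit 181)))))) (XT.nd (nat_lit 468) (nat_lit 0) (nat_lit 0) (XT.nd (nat_lit 234) (nat_lit 0) (nat_lit 0) (XT.nd (nat_lit 78) (nat_lit 0) (nat_lit 0) (XT.lf (nat_lit 0) (nat_lit 89012545148) (nat_lit 76) (nat_lit 446753914047) (nat_lit 76) (nat_lit 441999872623) (nat_lit 1) (nat_lit 4) (nat_lit 2) (nat_lit 5) (nat_lit 2) (nat_lit 4) (nat_lit 268) (nat_lit 212) (nat_lit 180)) (XT.nd (nat_lit 78) (nat_lit 0) (nat_lit 0) (XT.lf (nat_lit 0) (nat_lit 111639298886) (nat_lit 76) (nat_lit 508582419933) (nat_lit 76) (nat_lit 503821215200) (nat_lit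 1) (nat_lit 4) (nat_lit 2) (nat_lit 5) (nat_lit 2) (nat_lit 4) (nat_lit 269) (nat_lit 212) (nat_lit 179)) (XT.lf (nat_lit 0) (nat_lit 137634776419) (nat_lit 76) (nat_lit 579697371359) (nat_lit 76) (nat_lit 574929937661) (nat_lit 1) (nat_lit 4) (nat_lit 2) (nat_lit 5) (nat_lit 2) (nat_lit 4) (nat_lit 270) (nat_lit 212) (nat_lit 178)))) (XT.nd (nat_lit 78) (nat_lit 0) (nat_lit 0) (XT.lf (nat_lit 0) (nat_lit 167507584915) (nat_lit 76) (nat_lit 661490147806) (nat_lit 76) (nat_lit 656717297618) (nat_lit 1) (nat_lit 4) (nat_lit 2) (nat_lit 5) (nat_lit 2) (nat_lit 4) (nat_lit 271) (nat_lit 212) (nat_lit 177)) (XT.nd (nat_lit 78) (nat_lit 0) (nat_lit 0) (XT.lf (nat_lit 0) (nat_lit 201842192368) (nat_lit 76) (nat_lit 755561042729) (nat_lit 76) (nat_lit 750783482548) (nat_lit 1) (nat_lit 4) (nat_lit 2) (nat_lit 5) (nat_lit 2) (nat_lit 4) (nat_lit 272) (nat_lit 212) (nat_lit 176)) (XT.lf (nat_lit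 0) (nat_lit 241310362834) (nat_lit 76) (nat_lit 863750573636) (nat_lit 76) (nat_lit 858968917810) (nat_lit 1) (nat_lit 4) (nat_lit 2) (nat_lit 5) (nat_lit 2) (nat_lit 4) (nat_lit 273) (nat_lit 212) (nat_lit 175))))) (XT.nd (nat_lit 234) (nat_lit 0) (nat_lit 0) (XT.nd (nat_lit 78) (nat_lit 0) (nat_lit 0) (XT.lf (nat_lit 0) (nat_lit 286684299651) (nat_lit 76) (nat_lit 988175492219) (nat_lit 76) (nat_lit 983390274962) (nat_lit 1) (nat_lit 4) (nat_lit 2) (nat_lit 5) (nat_lit 2) (nat_lit 4) (nat_lit 274) (nat_lit 212) (nat_lit 174)) (XT.nd (nat_lit 78) (nat_lit 0) (nat_lit 0) (XT.lf (nat_lit 0) (nat_lit 338851753756) (nat_lit 76) (nat_lit 1131270199058) (nat_lit 76) (nat_lit 1126481884905) (nat_lit 1) (nat_lit 4) (nat_lit 2) (nat_lit 5) (nat_lit 2) (nat_lit 4) (nat_lit 275) (nat_lit 212) (nat_lit 173)) (XT.lf (nat_lit 0) (nat_lit 398833392728) (nat_lit 76) (nat_lit 1295834373202) (nat_lit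 76) (nat_lit 1291043366095) (nat_lit 1) (nat_lit 4) (nat_lit 2) (nat_lit 5) (nat_lit 2) (nat_lit 4) (nat_lit 276) (nat_lit 212) (nat_lit 172)))) (XT.nd (nat_lit 78) (nat_lit 0) (nat_lit 0) (XT.lf (nat_lit 0) (nat_lit 467802770375) (nat_lit 76) (nat_lit 1485087748491) (nat_lit 76) (nat_lit 1480294399686) (nat_lit 1) (nat_lit 4) (nat_lit 2) (nat_lit 5) (nat_lit 2) (nat_lit 4) (nat_lit 277) (nat_lit 212) (nat_lit 171)) (XT.nd (nat_lit 78) (nat_lit 0) (nat_lit 0) (XT.lf (nat_lit 0) (nat_lit 547109287562) (nat_lit 76) (nat_lit 1702733108355) (nat_lit 76) (nat_lit 1697937723290) (nat_lit 1) (nat_lit 4) (nat_lit 2) (nat_lit 5) (nat_lit 2) (nat_lit 4) (nat_lit 278) (nat_lit 212) (nat_lit 170)) (XT.lf (nat_lit 0) (nat_lit 638304593540) (nat_lit 76) (nat_lit 1953028731574) (nat_lit 76) (nat_lit 1948231575849) (nat_lit 1) (nat_lit 4) (nat_lit 2) (nat_lit 5) (nat_lit 2) (nat_lit 4) (nat_lit 279)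 (nat_lit 212) (nat_lit 169))))))) (XT.nd (nat_lit 31200) (nat_lit 0) (nat_lit 76) (XT.nd (nat_lit 390) (nat_lit 0) (nat_lit 0) (XT.nd (nat_lit 156) (nat_lit 0) (nat_lit 0) (XT.nd (nat_lit 78) (nat_lit 0) (nat_lit 0) (XT.lf (nat_lit 0) (nat_lit 743172944295) (nat_lit 76) (nat_lit 2240871706429) (nat_lit 76) (nat_lit 2236073010999) (nat_lit 1) (nat_lit 4) (nat_lit 2) (nat_lit 5) (nat_lit 2) (nat_lit 4) (nat_lit 280) (nat_lit 212) (nat_lit 168)) (XT.lf (nat_lit 0) (nat_lit 863766111906) (nat_lit 76) (nat_lit 2571893743298) (nat_lit 76) (nat_lit 2567093708994) (nat_lit 1) (nat_lit 4) (nat_lit 2) (nat_lit 5) (nat_lit 2) (nat_lit 4) (nat_lit 281) (nat_lit 212) (nat_lit 167))) (XT.nd (nat_lit 78) (nat_lit 0) (nat_lit 0) (XT.lf (nat_lit 0) (nat_lit 1002443527915) (nat_lit 76) (nat_lit 2952571360292) (nat_lit 76) (nat_lit 2947770161750) (nat_lit 1) (nat_lit 4) (nat_lit 2) (nat_lit 5) (nat_lit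 2) (nat_lit 4) (nat_lit 282) (nat_lit 212) (nat_lit 166)) (XT.nd (nat_lit 78) (nat_lit 0) (nat_lit 0) (XT.lf (nat_lit 0) (nat_lit 1161918446112) (nat_lit 76) (nat_lit 3390352597744) (nat_lit 76) (nat_lit 3385550386821) (nat_lit 1) (nat_lit 4) (nat_lit 2) (nat_lit 5) (nat_lit 2) (nat_lit 4) (nat_lit 283) (nat_lit 212) (nat_lit 165)) (XT.lf (nat_lit 0) (nat_lit 1345311027940) (nat_lit 76) (nat_lit 3893802740735) (nat_lit 76) (nat_lit 3888999649481) (nat_lit 1) (nat_lit 4) (nat_lit 2) (nat_lit 5) (nat_lit 2) (nat_lit 4) (nat_lit 284) (nat_lit 212) (nat_lit 164))))) (XT.nd (nat_lit 30576) (nat_lit 0) (nat_lit 608) (XT.nd (nat_lit 30420) (nat_lit 0) (nat_lit 912) (XT.lf (nat_lit 0) (nat_lit 1556209389131) (nat_lit 76) (nat_lit 4472771900758) (nat_lit 76) (nat_lit 4467968043999) (nat_lit 1) (nat_lit 4) (nat_lit 2) (nat_lit 5) (nat_lit 2) (nat_lit 4) (nat_lit 285) (nat_lit 212) (nat_lit 163))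 (XT.nd (nat_lit 78) (nat_lit 152) (nat_lit 0) (XT.lf (nat_lit 0) (nat_lit 912986701) (nat_lit 152) (nat_lit 4429674645) (nat_lit 0) (nat_lit 912986701) (nat_lit 15) (nat_lit 5) (nat_lit 17) (nat_lit 4) (nat_lit 15) (nat_lit 4) (nat_lit 234) (nat_lit 213) (nat_lit 213)) (XT.lf (nat_lit 0) (nat_lit 4720958566) (nat_lit 152) (nat_lit 4967989895) (nat_lit 152) (nat_lit 3986609320) (nat_lit 13) (nat_lit 4) (nat_lit 15) (nat_lit 5) (nat_lit 15) (nat_lit 4) (nat_lit 235) (nat_lit 213) (nat_lit 212)))) (XT.nd (nat_lit 78) (nat_lit 152) (nat_lit 0) (XT.lf (nat_lit 0) (nat_lit 3160998308) (nat_lit 152) (nat_lit 10414938003) (nat_lit 0) (nat_lit 1462151098) (nat_lit 11) (nat_lit 5) (nat_lit 13) (nat_lit 4) (nat_lit 11) (nat_lit 4) (nat_lit 236) (nat_lit 213) (nat_lit 211)) (XT.nd (nat_lit 78) (nat_lit 76) (nat_lit 0) (XT.lf (nat_lit 0) (nat_lit 2795541669) (nat_lit 76) (nat_lit 8103882240) (nat_lit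 76) (nat_lit 5717938079) (nat_lit 10) (nat_lit 4) (nat_lit 11) (nat_lit 5) (nat_lit 11) (nat_lit 4) (nat_lit 237) (nat_lit 213) (nat_lit 210)) (XT.lf (nat_lit 0) (nat_lit 932008891) (nat_lit 152) (nat_lit 1044841276) (nat_lit 76) (nat_lit 16484061750) (nat_lit 9) (nat_lit 5) (nat_lit 11) (nat_lit 5) (nat_lit 10) (nat_lit 4) (nat_lit 238) (nat_lit 213) (nat_lit 209)))))) (XT.nd (nat_lit 468) (nat_lit 228) (nat_lit 0) (XT.nd (nat_lit 234) (nat_lit 152) (nat_lit 0) (XT.nd (nat_lit 78) (nat_lit 76) (nat_lit 0) (XT.lf (nat_lit 0) (nat_lit 8100572243) (nat_lit 152) (nat_lit 7623397690) (nat_lit 0) (nat_lit 4857087263) (nat_lit 8) (nat_lit 5) (nat_lit 10) (nat_lit 4) (nat_lit 8) (nat_lit 4) (nat_lit 239) (nat_lit 213) (nat_lit 208)) (XT.nd (nat_lit 78) (nat_lit 0) (nat_lit 0) (XT.lf (nat_lit 0) (nat_lit 5319011426) (nat_lit 76) (nat_lit 10694552198) (nat_lit 76) (nat_lit 7032754812) (nat_lit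 7) (nat_lit 4) (nat_lit 8) (nat_lit 5) (nat_lit 8) (nat_lit 4) (nat_lit 240) (nat_lit 213) (nat_lit 207)) (XT.lf (nat_lit 0) (nat_lit 19750340592) (nat_lit 76) (nat_lit 5089506089) (nat_lit 76) (nat_lit 1063958785) (nat_lit 7) (nat_lit 4) (nat_lit 8) (nat_lit 5) (nat_lit 8) (nat_lit 4) (nat_lit 241) (nat_lit 213) (nat_lit 206)))) (XT.nd (nat_lit 78) (nat_lit 0) (nat_lit 0) (XT.lf (nat_lit 0) (nat_lit 5255601576) (nat_lit 152) (nat_lit 22708576490) (nat_lit 0) (nat_lit 1235368631) (nat_lit 5) (nat_lit 5) (nat_lit 7) (nat_lit 4) (nat_lit 5) (nat_lit 4) (nat_lit 242) (nat_lit 213) (nat_lit 205)) (XT.nd (nat_lit 78) (nat_lit 0) (nat_lit 0) (XT.lf (nat_lit 0) (nat_lit 12375231993) (nat_lit 152) (nat_lit 12519050742) (nat_lit 0) (nat_lit 8100325718) (nat_lit 5) (nat_lit 5) (nat_lit 7) (nat_lit 4) (nat_lit 5) (nat_lit 4) (nat_lit 243) (nat_lit 213) (nat_lit 204)) (XT.lf (nat_lit 0) (nat_lit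 20205220109) (nat_lit 152) (nat_lit 1473788768) (nat_lit 0) (nat_lit 15708858763) (nat_lit 5) (nat_lit 5) (nat_lit 7) (nat_lit 4) (nat_lit 5) (nat_lit 4) (nat_lit 244) (nat_lit 213) (nat_lit 203))))) (XT.nd (nat_lit 234) (nat_lit 152) (nat_lit 0) (XT.nd (nat_lit 78) (nat_lit 0) (nat_lit 0) (XT.lf (nat_lit 0) (nat_lit 11203770351) (nat_lit 76) (nat_lit 17964441939) (nat_lit 76) (nat_lit 13275510967) (nat_lit 4) (nat_lit 4) (nat_lit 5) (nat_lit 5) (nat_lit 5) (nat_lit 4) (nat_lit 245) (nat_lit 213) (nat_lit 202)) (XT.nd (nat_lit 78) (nat_lit 0) (nat_lit 0) (XT.lf (nat_lit 0) (nat_lit 25336774505) (nat_lit 76) (nat_lit 13898522251) (nat_lit 76) (nat_lit 9042139431) (nat_lit 4) (nat_lit 4) (nat_lit 5) (nat_lit 5) (nat_lit 5) (nat_lit 4) (nat_lit 246) (nat_lit 213) (nat_lit 201)) (XT.lf (nat_lit 0) (nat_lit 41124131887) (nat_lit 76) (nat_lit 9441995210) (nat_lit 76) (nat_lit 4440002086) (nat_lit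 4) (nat_lit 4) (nat_lit 5) (nat_lit 5) (nat_lit 5) (nat_lit 4) (nat_lit 247) (nat_lit 213) (nat_lit 200)))) (XT.nd (nat_lit 78) (nat_lit 76) (nat_lit 0) (XT.lf (nat_lit 0) (nat_lit 589880806) (nat_lit 152) (nat_lit 3901658702) (nat_lit 76) (nat_lit 58268716384) (nat_lit 3) (nat_lit 5) (nat_lit 5) (nat_lit 5) (nat_lit 4) (nat_lit 4) (nat_lit 248) (nat_lit 213) (nat_lit 199)) (XT.nd (nat_lit 78) (nat_lit 0) (nat_lit 0) (XT.lf (nat_lit 0) (nat_lit 6139722816) (nat_lit 152) (nat_lit 64237372790) (nat_lit 0) (nat_lit 1289062549) (nat_lit 2) (nat_lit 5) (nat_lit 4) (nat_lit 4) (nat_lit 2) (nat_lit 4) (nat_lit 249) (nat_lit 213) (nat_lit 198)) (XT.lf (nat_lit 0) (nat_lit 12584749619) (nat_lit 152) (nat_lit 61672871898) (nat_lit 0) (nat_lit 7645440151) (nat_lit 2) (nat_lit 5) (nat_lit 4) (nat_lit 4) (nat_lit 2) (nat_lit 4) (nat_lit 250) (nat_lit 213) (nat_lit 197))))))))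
noncomputable def xc15 : XT := (XT.nd (nat_lit 1794) (nat_lit 0) (nat_lit 0) (XT.nd (nat_lit 858) (nat_lit 76) (nat_lit 0) (XT.nd (nat_lit 390) (nat_lit 0) (nat_lit 0) (XT.nd (nat_lit 156) (nat_lit 0) (nat_lit 0) (XT.nd (nat_lit 78) (nat_lit 0) (nat_lit 0) (XT.lf (nat_lit 0) (nat_lit 19841696148) (nat_lit 152) (nat_lit 59021006180) (nat_lit 0) (nat_lit 14825300417) (nat_lit 2) (nat_lit 5) (nat_lit 4) (nat_lit 4) (nat_lit 2) (nat_lit 4) (nat_lit 251) (nat_lit 213) (nat_lit 196)) (XT.lf (nat_lit 0) (nat_lit 28052546139) (nat_lit 152) (nat_lit 56229891307) (nat_lit 0) (nat_lit 22969118876) (nat_lit 2) (nat_lit 5) (nat_lit 4) (nat_lit 4) (nat_lit 2) (nat_lit 4) (nat_lit 252) (nat_lit 213) (nat_lit 195))) (XT.nd (nat_lit 78) (nat_lit 0) (nat_lit 0) (XT.lf (nat_lit 0) (nat_lit 37377946657) (nat_lit 152) (nat_lit 53244918509) (nat_lit 0) (nat_lit 32236231105) (nat_lit 2) (nat_lit 5) (nat_lit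 4) (nat_lit 4) (nat_lit 2) (nat_lit 4) (nat_lit 253) (nat_lit 213) (nat_lit 194)) (XT.nd (nat_lit 78) (nat_lit 0) (nat_lit 0) (XT.lf (nat_lit 0) (nat_lit 48000351191) (nat_lit 152) (nat_lit 50007686144) (nat_lit 0) (nat_lit 42807950170) (nat_lit 2) (nat_lit 5) (nat_lit 4) (nat_lit 4) (nat_lit 2) (nat_lit 4) (nat_lit 254) (nat_lit 213) (nat_lit 193)) (XT.lf (nat_lit 0) (nat_lit 60127589395) (nat_lit 152) (nat_lit 46454857058) (nat_lit 0) (nat_lit 54891114053) (nat_lit 2) (nat_lit 5) (nat_lit 4) (nat_lit 4) (nat_lit 2) (nat_lit 4) (nat_lit 255) (nat_lit 213) (nat_lit 192))))) (XT.nd (nat_lit 234) (nat_lit 0) (nat_lit 0) (XT.nd (nat_lit 78) (nat_lit 0) (nat_lit 0) (XT.lf (nat_lit 0) (nat_lit 73996933320) (nat_lit 152) (nat_lit 42516919377) (nat_lit 0) (nat_lit 68722132481) (nat_lit 2) (nat_lit 5) (nat_lit 4) (nat_lit 4) (nat_lit 2) (nat_lit 4) (nat_lit 256) (nat_lit 213) (nat_lit 191)) (XT.nd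 (nat_lit 78) (nat_lit 0) (nat_lit 0) (XT.lf (nat_lit 0) (nat_lit 89879739695) (nat_lit 152) (nat_lit 38116826495) (nat_lit 0) (nat_lit 84571612338) (nat_lit 2) (nat_lit 5) (nat_lit 4) (nat_lit 4) (nat_lit 2) (nat_lit 4) (nat_lit 257) (nat_lit 213) (nat_lit 190)) (XT.lf (nat_lit 0) (nat_lit 108086759081) (nat_lit 152) (nat_lit 33168489637) (nat_lit 0) (nat_lit 102749652142) (nat_lit 2) (nat_lit 5) (nat_lit 4) (nat_lit 4) (nat_lit 2) (nat_lit 4) (nat_lit 258) (nat_lit 213) (nat_lit 189)))) (XT.nd (nat_lit 78) (nat_lit 0) (nat_lit 0) (XT.lf (nat_lit 0) (nat_lit 128974215768) (nat_lit 152) (nat_lit 27575093518) (nat_lit 0) (nat_lit 123611909193) (nat_lit 2) (nat_lit 5) (nat_lit 4) (nat_lit 4) (nat_lit 2) (nat_lit 4) (nat_lit 259) (nat_lit 213) (nat_lit 188)) (XT.nd (nat_lit 78) (nat_lit 0) (nat_lit 0) (XT.lf (nat_lit 0) (nat_lit 152950777388) (nat_lit 152) (nat_lit 21227202125) (nat_lit 0)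 (nat_lit 147566558087) (nat_lit 2) (nat_lit 5) (nat_lit 4) (nat_lit 4) (nat_lit 2) (nat_lit 4) (nat_lit 260) (nat_lit 213) (nat_lit 187)) (XT.lf (nat_lit 0) (nat_lit 180485550582) (nat_lit 152) (nat_lit 14000617585) (nat_lit 0) (nat_lit 175082276736) (nat_lit 2) (nat_lit 5) (nat_lit 4) (nat_lit 4) (nat_lit 2) (nat_lit 4) (nat_lit 261) (nat_lit 213) (nat_lit 186)))))) (XT.nd (nat_lit 468) (nat_lit 0) (nat_lit 0) (XT.nd (nat_lit 234) (nat_lit 0) (nat_lit 0) (XT.nd (nat_lit 78) (nat_lit 76) (nat_lit 0) (XT.lf (nat_lit 0) (nat_lit 212117259173) (nat_lit 152) (nat_lit 5753950200) (nat_lit 0) (nat_lit 206697416156) (nat_lit 2) (nat_lit 5) (nat_lit 4) (nat_lit 4) (nat_lit 2) (nat_lit 4) (nat_lit 262) (nat_lit 213) (nat_lit 185)) (XT.nd (nat_lit 78) (nat_lit 0) (nat_lit 0) (XT.lf (nat_lit 0) (nat_lit 3867621986) (nat_lit 76) (nat_lit 244690178831) (nat_lit 76) (nat_lit 239255927840) (nat_lit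 1) (nat_lit 4) (nat_lit 2) (nat_lit 5) (nat_lit 2) (nat_lit 4) (nat_lit 263) (nat_lit 213) (nat_lit 184)) (XT.lf (nat_lit 0) (nat_lit 15230005997) (nat_lit 76) (nat_lit 275375549555) (nat_lit 76) (nat_lit 269928769893) (nat_lit 1) (nat_lit 4) (nat_lit 2) (nat_lit 5) (nat_lit 2) (nat_lit 4) (nat_lit 264) (nat_lit 213) (nat_lit 183)))) (XT.nd (nat_lit 78) (nat_lit 0) (nat_lit 0) (XT.lf (nat_lit 0) (nat_lit 28252516525) (nat_lit 76) (nat_lit 310685010692) (nat_lit 76) (nat_lit 305227336531) (nat_lit 1) (nat_lit 4) (nat_lit 2) (nat_lit 5) (nat_lit 2) (nat_lit 4) (nat_lit 265) (nat_lit 213) (nat_lit 182)) (XT.nd (nat_lit 78) (nat_lit 0) (nat_lit 0) (XT.lf (nat_lit 0) (nat_lit 43189941820) (nat_lit 76) (nat_lit 351309399524) (nat_lit 76) (nat_lit 345842251886) (nat_lit 1) (nat_lit 4) (nat_lit 2) (nat_lit 5) (nat_lit 2) (nat_lit 4) (nat_lit 266) (nat_lit 213) (nat_lit 181)) (XT.lf (nat_lit 0)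 (nat_lit 60334535853) (nat_lit 76) (nat_lit 398043541049) (nat_lit 76) (nat_lit 392568155606) (nat_lit 1) (nat_lit 4) (nat_lit 2) (nat_lit 5) (nat_lit 2) (nat_lit 4) (nat_lit 267) (nat_lit 213) (nat_lit 180))))) (XT.nd (nat_lit 234) (nat_lit 0) (nat_lit 0) (XT.nd (nat_lit 78) (nat_lit 0) (nat_lit 0) (XT.lf (nat_lit 0) (nat_lit 80021736336) (nat_lit 76) (nat_lit 451801798907) (nat_lit 76) (nat_lit 446319250155) (nat_lit 1) (nat_lit 4) (nat_lit 2) (nat_lit 5) (nat_lit 2) (nat_lit 4) (nat_lit 268) (nat_lit 213) (nat_lit 179)) (XT.nd (nat_lit 78) (nat_lit 0) (nat_lit 0) (XT.lf (nat_lit 0) (nat_lit 102636727625) (nat_lit 76) (nat_lit 513635965099) (nat_lit 76) (nat_lit 508147187382) (nat_lit 1) (nat_lit 4) (nat_lit 2) (nat_lit 5) (nat_lit 2) (nat_lit 4) (nat_lit 269) (nat_lit 213) (nat_lit 178)) (XT.lf (nat_lit 0) (nat_lit 128621976941) (nat_lit 76) (nat_lit 584755838528) (nat_lit 76) (nat_lit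 579261644320) (nat_lit 1) (nat_lit 4) (nat_lit 2) (nat_lit 5) (nat_lit 2) (nat_lit 4) (nat_lit 270) (nat_lit 213) (nat_lit 177)))) (XT.nd (nat_lit 78) (nat_lit 0) (nat_lit 0) (XT.lf (nat_lit 0) (nat_lit 158485891335) (nat_lit 76) (nat_lit 666552894979) (nat_lit 76) (nat_lit 661053990779) (nat_lit 1) (nat_lit 4) (nat_lit 2) (nat_lit 5) (nat_lit 2) (nat_lit 4) (nat_lit 271) (nat_lit 213) (nat_lit 176)) (XT.nd (nat_lit 78) (nat_lit 0) (nat_lit 0) (XT.lf (nat_lit 0) (nat_lit 192812764786) (nat_lit 76) (nat_lit 760627511644) (nat_lit 76) (nat_lit 755124511799) (nat_lit 1) (nat_lit 4) (nat_lit 2) (nat_lit 5) (nat_lit 2) (nat_lit 4) (nat_lit 272) (nat_lit 213) (nat_lit 175)) (XT.lf (nat_lit 0) (nat_lit 232274210034) (nat_lit 76) (nat_lit 868820278849) (nat_lit 76) (nat_lit 863313717572) (nat_lit 1) (nat_lit 4) (nat_lit 2) (nat_lit 5) (nat_lit 2) (nat_lit 4) (nat_lit 273) (nat_lit 213) (nat_lit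 174))))))) (XT.nd (nat_lit 858) (nat_lit 0) (nat_lit 0) (XT.nd (nat_lit 390) (nat_lit 0) (nat_lit 0) (XT.nd (nat_lit 156) (nat_lit 0) (nat_lit 0) (XT.nd (nat_lit 78) (nat_lit 0) (nat_lit 0) (XT.lf (nat_lit 0) (nat_lit 277642298835) (nat_lit 76) (nat_lit 993248011603) (nat_lit 76) (nat_lit 987738353431) (nat_lit 1) (nat_lit 4) (nat_lit 2) (nat_lit 5) (nat_lit 2) (nat_lit 4) (nat_lit 274) (nat_lit 213) (nat_lit 173)) (XT.lf (nat_lit 0) (nat_lit 329804667708) (nat_lit 76) (nat_lit 1136345165549) (nat_lit 76) (nat_lit 1130832814423) (nat_lit 1) (nat_lit 4) (nat_lit 2) (nat_lit 5) (nat_lit 2) (nat_lit 4) (nat_lit 275) (nat_lit 213) (nat_lit 172))) (XT.nd (nat_lit 78) (nat_lit 0) (nat_lit 0) (XT.lf (nat_lit 0) (nat_lit 389781884740) (nat_lit 76) (nat_lit 1300911467610) (nat_lit 76) (nat_lit 1295396774786) (nat_lit 1) (nat_lit 4) (nat_lit 2) (nat_lit 5) (nat_lit 2) (nat_lit 4) (nat_lit 276)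 (nat_lit 213) (nat_lit 171)) (XT.nd (nat_lit 78) (nat_lit 0) (nat_lit 0) (XT.lf (nat_lit 0) (nat_lit 458747417221) (nat_lit 76) (nat_lit 1490166693263) (nat_lit 76) (nat_lit 1484649964179) (nat_lit 1) (nat_lit 4) (nat_lit 2) (nat_lit 5) (nat_lit 2) (nat_lit 4) (nat_lit 277) (nat_lit 213) (nat_lit 170)) (XT.lf (nat_lit 0) (nat_lit 538050590786) (nat_lit 76) (nat_lit 1707813662139) (nat_lit 76) (nat_lit 1702295162395) (nat_lit 1) (nat_lit 4) (nat_lit 2) (nat_lit 5) (nat_lit 2) (nat_lit 4) (nat_lit 278) (nat_lit 213) (nat_lit 169))))) (XT.nd (nat_lit 234) (nat_lit 0) (nat_lit 0) (XT.nd (nat_lit 78) (nat_lit 0) (nat_lit 0) (XT.lf (nat_lit 0) (nat_lit 629242989266) (nat_lit 76) (nat_lit 1958110684499) (nat_lit 76) (nat_lit 1952590645050) (nat_lit 1) (nat_lit 4) (nat_lit 2) (nat_lit 5) (nat_lit 2) (nat_lit 4) (nat_lit 279) (nat_lit 213) (nat_lit 168)) (XT.nd (nat_lit 78) (nat_lit 0) (nat_lit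 0) (XT.lf (nat_lit 0) (nat_lit 734108811762) (nat_lit 76) (nat_lit 2245954875999) (nat_lit 76) (nat_lit 2240433497676) (nat_lit 1) (nat_lit 4) (nat_lit 2) (nat_lit 5) (nat_lit 2) (nat_lit 4) (nat_lit 280) (nat_lit 213) (nat_lit 167)) (XT.lf (nat_lit 0) (nat_lit 854699780888) (nat_lit 76) (nat_lit 2576977970818) (nat_lit 76) (nat_lit 2571455428257) (nat_lit 1) (nat_lit 4) (nat_lit 2) (nat_lit 5) (nat_lit 2) (nat_lit 4) (nat_lit 281) (nat_lit 213) (nat_lit 166)))) (XT.nd (nat_lit 78) (nat_lit 0) (nat_lit 0) (XT.lf (nat_lit 0) (nat_lit 993375285169) (nat_lit 76) (nat_lit 2957656507770) (nat_lit 76) (nat_lit 2952132952828) (nat_lit 1) (nat_lit 4) (nat_lit 2) (nat_lit 5) (nat_lit 2) (nat_lit 4) (nat_lit 282) (nat_lit 213) (nat_lit 165)) (XT.nd (nat_lit 78) (nat_lit 0) (nat_lit 0) (XT.lf (nat_lit 0) (nat_lit 1152848540995) (nat_lit 76) (nat_lit 3395438545186) (nat_lit 76) (nat_lit 3389914109913)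 (nat_lit 1) (nat_lit 4) (nat_lit 2) (nat_lit 5) (nat_lit 2) (nat_lit 4) (nat_lit 283) (nat_lit 213) (nat_lit 164)) (XT.lf (nat_lit 0) (nat_lit 1336239677283) (nat_lit 76) (nat_lit 3898889383797) (nat_lit 76) (nat_lit 3893364183019) (nat_lit 1) (nat_lit 4) (nat_lit 2) (nat_lit 5) (nat_lit 2) (nat_lit 4) (nat_lit 284) (nat_lit 213) (nat_lit 163)))))) (XT.nd (nat_lit 30654) (nat_lit 0) (nat_lit 304) (XT.nd (nat_lit 30420) (nat_lit 0) (nat_lit 760) (XT.nd (nat_lit 30264) (nat_lit 0) (nat_lit 1216) (XT.lf (nat_lit 0) (nat_lit 1547136781483) (nat_lit 76) (nat_lit 4477859148708) (nat_lit 76) (nat_lit 4472333282272) (nat_lit 1) (nat_lit 4) (nat_lit 2) (nat_lit 5) (nat_lit 2) (nat_lit 4) (nat_lit 285) (nat_lit 213) (nat_lit 162)) (XT.nd (nat_lit 78) (nat_lit 304) (nat_lit 0) (XT.lf (nat_lit 0) (nat_lit 5145479150) (nat_lit 152) (nat_lit 85988792) (nat_lit 152) (nat_lit 85988792) (nat_lit 21) (nat_lit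 4) (nat_lit 23) (nat_lit 5) (nat_lit 23) (nat_lit 4) (nat_lit 232) (nat_lit 214) (nat_lit 214)) (XT.lf (nat_lit 0) (nat_lit 1609225992) (nat_lit 152) (nat_lit 5560394519) (nat_lit 152) (nat_lit 4341519845) (nat_lit 17) (nat_lit 4) (nat_lit 19) (nat_lit 5) (nat_lit 19) (nat_lit 4) (nat_lit 233) (nat_lit 214) (nat_lit 213)))) (XT.nd (nat_lit 78) (nat_lit 304) (nat_lit 0) (XT.lf (nat_lit 0) (nat_lit 2563464356) (nat_lit 152) (nat_lit 9526306052) (nat_lit 0) (nat_lit 453496121) (nat_lit 15) (nat_lit 5) (nat_lit 17) (nat_lit 4) (nat_lit 15) (nat_lit 4) (nat_lit 234) (nat_lit 214) (nat_lit 212)) (XT.nd (nat_lit 78) (nat_lit 152) (nat_lit 0) (XT.lf (nat_lit 0) (nat_lit 3408378847) (nat_lit 152) (nat_lit 6646408902) (nat_lit 152) (nat_lit 3683066254) (nat_lit 13) (nat_lit 4) (nat_lit 15) (nat_lit 5) (nat_lit 15) (nat_lit 4) (nat_lit 235) (nat_lit 214) (nat_lit 211)) (XT.lf (nat_lit 0) (nat_lit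 2631267289) (nat_lit 76) (nat_lit 415210905) (nat_lit 152) (nat_lit 12086029698) (nat_lit 11) (nat_lit 5) (nat_lit 12) (nat_lit 5) (nat_lit 13) (nat_lit 4) (nat_lit 236) (nat_lit 214) (nat_lit 210))))) (XT.nd (nat_lit 234) (nat_lit 228) (nat_lit 0) (XT.nd (nat_lit 78) (nat_lit 152) (nat_lit 0) (XT.lf (nat_lit 0) (nat_lit 62570259) (nat_lit 76) (nat_lit 10353760997) (nat_lit 76) (nat_lit 6325352652) (nat_lit 10) (nat_lit 4) (nat_lit 11) (nat_lit 5) (nat_lit 11) (nat_lit 4) (nat_lit 237) (nat_lit 214) (nat_lit 209)) (XT.nd (nat_lit 78) (nat_lit 76) (nat_lit 0) (XT.lf (nat_lit 0) (nat_lit 81618625) (nat_lit 152) (nat_lit 4378185612) (nat_lit 76) (nat_lit 14148801800) (nat_lit 9) (nat_lit 5) (nat_lit 11) (nat_lit 5) (nat_lit 10) (nat_lit 4) (nat_lit 238) (nat_lit 214) (nat_lit 208)) (XT.lf (nat_lit 0) (nat_lit 6850554798) (nat_lit 152) (nat_lit 11689282295) (nat_lit 0) (nat_lit 2221175398)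 (nat_lit 8) (nat_lit 5) (nat_lit 10) (nat_lit 4) (nat_lit 8) (nat_lit 4) (nat_lit 239) (nat_lit 214) (nat_lit 207)))) (XT.nd (nat_lit 78) (nat_lit 152) (nat_lit 0) (XT.lf (nat_lit 0) (nat_lit 613865882) (nat_lit 76) (nat_lit 13816232997) (nat_lit 76) (nat_lit 8823103679) (nat_lit 7) (nat_lit 4) (nat_lit 8) (nat_lit 5) (nat_lit 8) (nat_lit 4) (nat_lit 240) (nat_lit 214) (nat_lit 206)) (XT.nd (nat_lit 78) (nat_lit 152) (nat_lit 0) (XT.lf (nat_lit 0) (nat_lit 14675491863) (nat_lit 76) (nat_lit 8380443540) (nat_lit 76) (nat_lit 3071009946) (nat_lit 7) (nat_lit 4) (nat_lit 8) (nat_lit 5) (nat_lit 8) (nat_lit 4) (nat_lit 241) (nat_lit 214) (nat_lit 205)) (XT.lf (nat_lit 0) (nat_lit 650068603) (nat_lit 76) (nat_lit 2347310913) (nat_lit 152) (nat_lit 26457471536) (nat_lit 5) (nat_lit 5) (nat_lit 6) (nat_lit 5) (nat_lit 7) (nat_lit 4) (nat_lit 242) (nat_lit 214) (nat_lit 204))))))))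
noncomputable def xc16 : XT := (XT.nd (nat_lit 1716) (nat_lit 0) (nat_lit 0) (XT.nd (nat_lit 858) (nat_lit 76) (nat_lit 0) (XT.nd (nat_lit 390) (nat_lit 152) (nat_lit 0) (XT.nd (nat_lit 156) (nat_lit 76) (nat_lit 0) (XT.nd (nat_lit 78) (nat_lit 0) (nat_lit 0) (XT.lf (nat_lit 0) (nat_lit 9894237578) (nat_lit 152) (nat_lit 18871684113) (nat_lit 0) (nat_lit 4501966960) (nat_lit 5) (nat_lit 5) (nat_lit 7) (nat_lit 4) (nat_lit 5) (nat_lit 4) (nat_lit 243) (nat_lit 214) (nat_lit 203)) (XT.lf (nat_lit 0) (nat_lit 17579600067) (nat_lit 152) (nat_lit 8098491962) (nat_lit 0) (nat_lit 11994759823) (nat_lit 5) (nat_lit 5) (nat_lit 7) (nat_lit 4) (nat_lit 5) (nat_lit 4) (nat_lit 244) (nat_lit 214) (nat_lit 202))) (XT.nd (nat_lit 78) (nat_lit 0) (nat_lit 0) (XT.lf (nat_lit 0) (nat_lit 3981181560) (nat_lit 76) (nat_lit 22261945837) (nat_lit 76) (nat_lit 16509653745) (nat_lit 4) (nat_lit 4) (nat_lit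 5) (nat_lit 5) (nat_lit 5) (nat_lit 4) (nat_lit 245) (nat_lit 214) (nat_lit 201)) (XT.nd (nat_lit 78) (nat_lit 0) (nat_lit 0) (XT.lf (nat_lit 0) (nat_lit 17897628786) (nat_lit 76) (nat_lit 18298017127) (nat_lit 76) (nat_lit 12400114731) (nat_lit 4) (nat_lit 4) (nat_lit 5) (nat_lit 5) (nat_lit 5) (nat_lit 4) (nat_lit 246) (nat_lit 214) (nat_lit 200)) (XT.lf (nat_lit 0) (nat_lit 33496675796) (nat_lit 76) (nat_lit 13930177891) (nat_lit 76) (nat_lit 7905657840) (nat_lit 4) (nat_lit 4) (nat_lit 5) (nat_lit 5) (nat_lit 5) (nat_lit 4) (nat_lit 247) (nat_lit 214) (nat_lit 199))))) (XT.nd (nat_lit 234) (nat_lit 0) (nat_lit 0) (XT.nd (nat_lit 78) (nat_lit 152) (nat_lit 0) (XT.lf (nat_lit 0) (nat_lit 51083521336) (nat_lit 76) (nat_lit 9072970406) (nat_lit 76) (nat_lit 2938348046) (nat_lit 4) (nat_lit 4) (nat_lit 5) (nat_lit 5) (nat_lit 5) (nat_lit 4) (nat_lit 248) (nat_lit 214) (nat_lit 198)) (XT.nd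 (nat_lit 78) (nat_lit 76) (nat_lit 0) (XT.lf (nat_lit 0) (nat_lit 2468988581) (nat_lit 152) (nat_lit 1094867247) (nat_lit 76) (nat_lit 68465760756) (nat_lit 3) (nat_lit 5) (nat_lit 5) (nat_lit 5) (nat_lit 4) (nat_lit 4) (nat_lit 249) (nat_lit 214) (nat_lit 197)) (XT.lf (nat_lit 0) (nat_lit 8727850505) (nat_lit 152) (nat_lit 70671707257) (nat_lit 0) (nat_lit 2881909151) (nat_lit 2) (nat_lit 5) (nat_lit 4) (nat_lit 4) (nat_lit 2) (nat_lit 4) (nat_lit 250) (nat_lit 214) (nat_lit 196)))) (XT.nd (nat_lit 78) (nat_lit 0) (nat_lit 0) (XT.lf (nat_lit 0) (nat_lit 15922174467) (nat_lit 152) (nat_lit 68140088377) (nat_lit 0) (nat_lit 10009201582) (nat_lit 2) (nat_lit 5) (nat_lit 4) (nat_lit 4) (nat_lit 2) (nat_lit 4) (nat_lit 251) (nat_lit 214) (nat_lit 195)) (XT.nd (nat_lit 78) (nat_lit 0) (nat_lit 0) (XT.lf (nat_lit 0) (nat_lit 24078570053) (nat_lit 152) (nat_lit 65453535972) (nat_lit 0) (nat_lit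 18107308878) (nat_lit 2) (nat_lit 5) (nat_lit 4) (nat_lit 4) (nat_lit 2) (nat_lit 4) (nat_lit 252) (nat_lit 214) (nat_lit 194)) (XT.lf (nat_lit 0) (nat_lit 33356618915) (nat_lit 152) (nat_lit 62559487059) (nat_lit 0) (nat_lit 27334672271) (nat_lit 2) (nat_lit 5) (nat_lit 4) (nat_lit 4) (nat_lit 2) (nat_lit 4) (nat_lit 253) (nat_lit 214) (nat_lit 193)))))) (XT.nd (nat_lit 390) (nat_lit 76) (nat_lit 0) (XT.nd (nat_lit 156) (nat_lit 0) (nat_lit 0) (XT.nd (nat_lit 78) (nat_lit 0) (nat_lit 0) (XT.lf (nat_lit 0) (nat_lit 43937848095) (nat_lit 152) (nat_lit 59401318943) (nat_lit 0) (nat_lit 37871827130) (nat_lit 2) (nat_lit 5) (nat_lit 4) (nat_lit 4) (nat_lit 2) (nat_lit 4) (nat_lit 254) (nat_lit 214) (nat_lit 192)) (XT.lf (nat_lit 0) (nat_lit 56029281643) (nat_lit 152) (nat_lit 55917241377) (nat_lit 0) (nat_lit 49924935182) (nat_lit 2) (nat_lit 5) (nat_lit 4) (nat_lit 4) (nat_lit 2) (nat_lit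 4) (nat_lit 255) (nat_lit 214) (nat_lit 191))) (XT.nd (nat_lit 78) (nat_lit 0) (nat_lit 0) (XT.lf (nat_lit 0) (nat_lit 69867491085) (nat_lit 152) (nat_lit 52039087626) (nat_lit 0) (nat_lit 63729818106) (nat_lit 2) (nat_lit 5) (nat_lit 4) (nat_lit 4) (nat_lit 2) (nat_lit 4) (nat_lit 256) (nat_lit 214) (nat_lit 190)) (XT.nd (nat_lit 78) (nat_lit 0) (nat_lit 0) (XT.lf (nat_lit 0) (nat_lit 85723223997) (nat_lit 152) (nat_lit 47690980771) (nat_lit 0) (nat_lit 79556571436) (nat_lit 2) (nat_lit 5) (nat_lit 4) (nat_lit 4) (nat_lit 2) (nat_lit 4) (nat_lit 257) (nat_lit 214) (nat_lit 189)) (XT.lf (nat_lit 0) (nat_lit 103906701240) (nat_lit 152) (nat_lit 42787849153) (nat_lit 0) (nat_lit 97714849043) (nat_lit 2) (nat_lit 5) (nat_lit 4) (nat_lit 4) (nat_lit 2) (nat_lit 4) (nat_lit 258) (nat_lit 214) (nat_lit 188))))) (XT.nd (nat_lit 234) (nat_lit 76) (nat_lit 0) (XT.nd (nat_lit 78) (nat_lit 0) (nat_lit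 0) (XT.lf (nat_lit 0) (nat_lit 124773686500) (nat_lit 152) (nat_lit 37233761938) (nat_lit 0) (nat_lit 118559921576) (nat_lit 2) (nat_lit 5) (nat_lit 4) (nat_lit 4) (nat_lit 2) (nat_lit 4) (nat_lit 259) (nat_lit 214) (nat_lit 187)) (XT.nd (nat_lit 78) (nat_lit 0) (nat_lit 0) (XT.lf (nat_lit 0) (nat_lit 148732446878) (nat_lit 152) (nat_lit 30920052202) (nat_lit 0) (nat_lit 142499627409) (nat_lit 2) (nat_lit 5) (nat_lit 4) (nat_lit 4) (nat_lit 2) (nat_lit 4) (nat_lit 260) (nat_lit 214) (nat_lit 186)) (XT.lf (nat_lit 0) (nat_lit 176251740732) (nat_lit 152) (nat_lit 23723190842) (nat_lit 0) (nat_lit 170002352093) (nat_lit 2) (nat_lit 5) (nat_lit 4) (nat_lit 4) (nat_lit 2) (nat_lit 4) (nat_lit 261) (nat_lit 214) (nat_lit 185)))) (XT.nd (nat_lit 78) (nat_lit 76) (nat_lit 0) (XT.lf (nat_lit 0) (nat_lit 207869989026) (nat_lit 152) (nat_lit 15502369699) (nat_lit 0) (nat_lit 201606192414) (nat_lit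 2) (nat_lit 5) (nat_lit 4) (nat_lit 4) (nat_lit 2) (nat_lit 4) (nat_lit 262) (nat_lit 214) (nat_lit 184)) (XT.nd (nat_lit 78) (nat_lit 76) (nat_lit 0) (XT.lf (nat_lit 0) (nat_lit 244205809663) (nat_lit 152) (nat_lit 6096746622) (nat_lit 0) (nat_lit 237929484378) (nat_lit 2) (nat_lit 5) (nat_lit 4) (nat_lit 4) (nat_lit 2) (nat_lit 4) (nat_lit 263) (nat_lit 214) (nat_lit 183)) (XT.lf (nat_lit 0) (nat_lit 4924020918) (nat_lit 76) (nat_lit 281164522776) (nat_lit 76) (nat_lit 274877302993) (nat_lit 1) (nat_lit 4) (nat_lit 2) (nat_lit 5) (nat_lit 2) (nat_lit 4) (nat_lit 264) (nat_lit 214) (nat_lit 182))))))) (XT.nd (nat_lit 858) (nat_lit 0) (nat_lit 0) (XT.nd (nat_lit 390) (nat_lit 0) (nat_lit 0) (XT.nd (nat_lit 156) (nat_lit 0) (nat_lit 0) (XT.nd (nat_lit 78) (nat_lit 0) (nat_lit 0) (XT.lf (nat_lit 0) (nat_lit 17928642231) (nat_lit 76) (nat_lit 316482592529) (nat_lit 76) (nat_lit 310185899269)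 (nat_lit 1) (nat_lit 4) (nat_lit 2) (nat_lit 5) (nat_lit 2) (nat_lit 4) (nat_lit 265) (nat_lit 214) (nat_lit 181)) (XT.lf (nat_lit 0) (nat_lit 32850511685) (nat_lit 76) (nat_lit 357114467113) (nat_lit 76) (nat_lit 350809536048) (nat_lit 1) (nat_lit 4) (nat_lit 2) (nat_lit 5) (nat_lit 2) (nat_lit 4) (nat_lit 266) (nat_lit 214) (nat_lit 180))) (XT.nd (nat_lit 78) (nat_lit 0) (nat_lit 0) (XT.lf (nat_lit 0) (nat_lit 49981578902) (nat_lit 76) (nat_lit 403855117989) (nat_lit 76) (nat_lit 397543023615) (nat_lit 1) (nat_lit 4) (nat_lit 2) (nat_lit 5) (nat_lit 2) (nat_lit 4) (nat_lit 267) (nat_lit 214) (nat_lit 179)) (XT.nd (nat_lit 78) (nat_lit 0) (nat_lit 0) (XT.lf (nat_lit 0) (nat_lit 69657016936) (nat_lit 76) (nat_lit 457619036152) (nat_lit 76) (nat_lit 451300712813) (nat_lit 1) (nat_lit 4) (nat_lit 2) (nat_lit 5) (nat_lit 2) (nat_lit 4) (nat_lit 268) (nat_lit 214) (nat_lit 178)) (XT.lf (nat_lit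 0) (nat_lit 92261780008) (nat_lit 76) (nat_lit 519458124347) (nat_lit 76) (nat_lit 513134384517) (nat_lit 1) (nat_lit 4) (nat_lit 2) (nat_lit 5) (nat_lit 2) (nat_lit 4) (nat_lit 269) (nat_lit 214) (nat_lit 177))))) (XT.nd (nat_lit 234) (nat_lit 0) (nat_lit 0) (XT.nd (nat_lit 78) (nat_lit 0) (nat_lit 0) (XT.lf (nat_lit 0) (nat_lit 118238135222) (nat_lit 76) (nat_lit 590582277780) (nat_lit 76) (nat_lit 584253827958) (nat_lit 1) (nat_lit 4) (nat_lit 2) (nat_lit 5) (nat_lit 2) (nat_lit 4) (nat_lit 270) (nat_lit 214) (nat_lit 176)) (XT.nd (nat_lit 78) (nat_lit 0) (nat_lit 0) (XT.lf (nat_lit 0) (nat_lit 148094315615) (nat_lit 76) (nat_lit 672383055974) (nat_lit 76) (nat_lit 666050510506) (nat_lit 1) (nat_lit 4) (nat_lit 2) (nat_lit 5) (nat_lit 2) (nat_lit 4) (nat_lit 271) (nat_lit 214) (nat_lit 175)) (XT.lf (nat_lit 0) (nat_lit 182414463847) (nat_lit 76) (nat_lit 766460908936) (nat_lit 76)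 (nat_lit 760124802038) (nat_lit 1) (nat_lit 4) (nat_lit 2) (nat_lit 5) (nat_lit 2) (nat_lit 4) (nat_lit 272) (nat_lit 214) (nat_lit 174)))) (XT.nd (nat_lit 78) (nat_lit 0) (nat_lit 0) (XT.lf (nat_lit 0) (nat_lit 221870061079) (nat_lit 76) (nat_lit 874656490313) (nat_lit 76) (nat_lit 868317286518) (nat_lit 1) (nat_lit 4) (nat_lit 2) (nat_lit 5) (nat_lit 2) (nat_lit 4) (nat_lit 273) (nat_lit 214) (nat_lit 173)) (XT.nd (nat_lit 78) (nat_lit 0) (nat_lit 0) (XT.lf (nat_lit 0) (nat_lit 267233064648) (nat_lit 76) (nat_lit 999086670173) (nat_lit 76) (nat_lit 992744773425) (nat_lit 1) (nat_lit 4) (nat_lit 2) (nat_lit 5) (nat_lit 2) (nat_lit 4) (nat_lit 274) (nat_lit 214) (nat_lit 172)) (XT.lf (nat_lit 0) (nat_lit 319391011581) (nat_lit 76) (nat_lit 1142185952037) (nat_lit 76) (nat_lit 1135841713591) (nat_lit 1) (nat_lit 4) (nat_lit 2) (nat_lit 5) (nat_lit 2) (nat_lit 4) (nat_lit 275) (nat_lit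 214) (nat_lit 171)))))) (XT.nd (nat_lit 468) (nat_lit 0) (nat_lit 0) (XT.nd (nat_lit 234) (nat_lit 0) (nat_lit 0) (XT.nd (nat_lit 78) (nat_lit 0) (nat_lit 0) (XT.lf (nat_lit 0) (nat_lit 379364383447) (nat_lit 76) (nat_lit 1306754104462) (nat_lit 76) (nat_lit 1300407829756) (nat_lit 1) (nat_lit 4) (nat_lit 2) (nat_lit 5) (nat_lit 2) (nat_lit 4) (nat_lit 276) (nat_lit 214) (nat_lit 170)) (XT.nd (nat_lit 78) (nat_lit 0) (nat_lit 0) (XT.lf (nat_lit 0) (nat_lit 448326572306) (nat_lit 76) (nat_lit 1496010939127) (nat_lit 76) (nat_lit 1489662893760) (nat_lit 1) (nat_lit 4) (nat_lit 2) (nat_lit 5) (nat_lit 2) (nat_lit 4) (nat_lit 277) (nat_lit 214) (nat_lit 169)) (XT.lf (nat_lit 0) (nat_lit 527626838374) (nat_lit 76) (nat_lit 1713659307144) (nat_lit 76) (nat_lit 1707309722073) (nat_lit 1) (nat_lit 4) (nat_lit 2) (nat_lit 5) (nat_lit 2) (nat_lit 4) (nat_lit 278) (nat_lit 214) (nat_lit 168))))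 (XT.nd (nat_lit 78) (nat_lit 0) (nat_lit 0) (XT.lf (nat_lit 0) (nat_lit 618816708595) (nat_lit 76) (nat_lit 1963957546148) (nat_lit 76) (nat_lit 1957606622203) (nat_lit 1) (nat_lit 4) (nat_lit 2) (nat_lit 5) (nat_lit 2) (nat_lit 4) (nat_lit 279) (nat_lit 214) (nat_lit 167)) (XT.nd (nat_lit 78) (nat_lit 0) (nat_lit 0) (XT.lf (nat_lit 0) (nat_lit 723680332605) (nat_lit 76) (nat_lit 2251802795599) (nat_lit 76) (nat_lit 2245450707416) (nat_lit 1) (nat_lit 4) (nat_lit 2) (nat_lit 5) (nat_lit 2) (nat_lit 4) (nat_lit 280) (nat_lit 214) (nat_lit 166)) (XT.lf (nat_lit 0) (nat_lit 844269390004) (nat_lit 76) (nat_lit 2582826810376) (nat_lit 76) (nat_lit 2576473709812) (nat_lit 1) (nat_lit 4) (nat_lit 2) (nat_lit 5) (nat_lit 2) (nat_lit 4) (nat_lit 281) (nat_lit 214) (nat_lit 165))))) (XT.nd (nat_lit 234) (nat_lit 0) (nat_lit 0) (XT.nd (nat_lit 78) (nat_lit 0) (nat_lit 0) (XT.lf (nat_lit 0) (nat_lit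 982943231914) (nat_lit 76) (nat_lit 2963506147291) (nat_lit 76) (nat_lit 2957152166396) (nat_lit 1) (nat_lit 4) (nat_lit 2) (nat_lit 5) (nat_lit 2) (nat_lit 4) (nat_lit 282) (nat_lit 214) (nat_lit 164)) (XT.nd (nat_lit 78) (nat_lit 0) (nat_lit 0) (XT.lf (nat_lit 0) (nat_lit 1142415042200) (nat_lit 76) (nat_lit 3401288880327) (nat_lit 76) (nat_lit 3394934133926) (nat_lit 1) (nat_lit 4) (nat_lit 2) (nat_lit 5) (nat_lit 2) (nat_lit 4) (nat_lit 283) (nat_lit 214) (nat_lit 163)) (XT.lf (nat_lit 0) (nat_lit 1325804921497) (nat_lit 76) (nat_lit 3904740323826) (nat_lit 76) (nat_lit 3898384911768) (nat_lit 1) (nat_lit 4) (nat_lit 2) (nat_lit 5) (nat_lit 2) (nat_lit 4) (nat_lit 284) (nat_lit 214) (nat_lit 162)))) (XT.nd (nat_lit 30108) (nat_lit 0) (nat_lit 1672) (XT.lf (nat_lit 0) (nat_lit 1536700932660) (nat_lit 76) (nat_lit 4483710614725) (nat_lit 76) (nat_lit 4477354623836) (nat_lit 1) (nat_lit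 4) (nat_lit 2) (nat_lit 5) (nat_lit 2) (nat_lit 4) (nat_lit 285) (nat_lit 214) (nat_lit 161)) (XT.nd (nat_lit 78) (nat_lit 228) (nat_lit 0) (XT.lf (nat_lit 0) (nat_lit 2163200245) (nat_lit 152) (nat_lit 1220945728) (nat_lit 152) (nat_lit 1220945728) (nat_lit 26) (nat_lit 4) (nat_lit 28) (nat_lit 5) (nat_lit 28) (nat_lit 4) (nat_lit 230) (nat_lit 215) (nat_lit 215)) (XT.lf (nat_lit 0) (nat_lit 4304139906) (nat_lit 228) (nat_lit 2782487414) (nat_lit 0) (nat_lit 2790297562) (nat_lit 23) (nat_lit 5) (nat_lit 26) (nat_lit 4) (nat_lit 23) (nat_lit 4) (nat_lit 231) (nat_lit 215) (nat_lit 214))))))))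
noncomputable def xc17 : XT := (XT.nd (nat_lit 1794) (nat_lit 76) (nat_lit 0) (XT.nd (nat_lit 858) (nat_lit 304) (nat_lit 0) (XT.nd (nat_lit 390) (nat_lit 456) (nat_lit 0) (XT.nd (nat_lit 156) (nat_lit 380) (nat_lit 0) (XT.nd (nat_lit 78) (nat_lit 228) (nat_lit 0) (XT.lf (nat_lit 0) (nat_lit 897936067) (nat_lit 228) (nat_lit 962519971) (nat_lit 76) (nat_lit 8802867848) (nat_lit 20) (nat_lit 5) (nat_lit 23) (nat_lit 5) (nat_lit 21) (nat_lit 4) (nat_lit 232) (nat_lit 215) (nat_lit 213)) (XT.lf (nat_lit 0) (nat_lit 341979181) (nat_lit 152) (nat_lit 7456521994) (nat_lit 152) (nat_lit 3776050425) (nat_lit 17) (nat_lit 4) (nat_lit 19) (nat_lit 5) (nat_lit 19) (nat_lit 4) (nat_lit 233) (nat_lit 215) (nat_lit 212))) (XT.nd (nat_lit 78) (nat_lit 228) (nat_lit 0) (XT.lf (nat_lit 0) (nat_lit 1056355423) (nat_lit 76) (nat_lit 1664063498) (nat_lit 152) (nat_lit 9916182763) (nat_lit 15) (nat_lit 5)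 (nat_lit 16) (nat_lit 5) (nat_lit 17) (nat_lit 4) (nat_lit 234) (nat_lit 215) (nat_lit 211)) (XT.nd (nat_lit 78) (nat_lit 76) (nat_lit 0) (XT.lf (nat_lit 0) (nat_lit 757538502) (nat_lit 152) (nat_lit 9054704973) (nat_lit 152) (nat_lit 4051421809) (nat_lit 13) (nat_lit 4) (nat_lit 15) (nat_lit 5) (nat_lit 15) (nat_lit 4) (nat_lit 235) (nat_lit 215) (nat_lit 210)) (XT.lf (nat_lit 0) (nat_lit 2357618569) (nat_lit 228) (nat_lit 744710197) (nat_lit 76) (nat_lit 12184229215) (nat_lit 12) (nat_lit 5) (nat_lit 15) (nat_lit 5) (nat_lit 13) (nat_lit 4) (nat_lit 236) (nat_lit 215) (nat_lit 209))))) (XT.nd (nat_lit 234) (nat_lit 152) (nat_lit 0) (XT.nd (nat_lit 78) (nat_lit 228) (nat_lit 0) (XT.lf (nat_lit 0) (nat_lit 9387338726) (nat_lit 152) (nat_lit 3898317816) (nat_lit 0) (nat_lit 3637649512) (nat_lit 11) (nat_lit 5) (nat_lit 13) (nat_lit 4) (nat_lit 11) (nat_lit 4) (nat_lit 237) (nat_lit 215)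 (nat_lit 208)) (XT.nd (nat_lit 78) (nat_lit 152) (nat_lit 0) (XT.lf (nat_lit 0) (nat_lit 9652633280) (nat_lit 76) (nat_lit 7682974068) (nat_lit 76) (nat_lit 1481507456) (nat_lit 10) (nat_lit 4) (nat_lit 11) (nat_lit 5) (nat_lit 11) (nat_lit 4) (nat_lit 238) (nat_lit 215) (nat_lit 207)) (XT.lf (nat_lit 0) (nat_lit 3741088187) (nat_lit 76) (nat_lit 1227856385) (nat_lit 152) (nat_lit 16035087764) (nat_lit 8) (nat_lit 5) (nat_lit 9) (nat_lit 5) (nat_lit 10) (nat_lit 4) (nat_lit 239) (nat_lit 215) (nat_lit 206)))) (XT.nd (nat_lit 78) (nat_lit 152) (nat_lit 0) (XT.lf (nat_lit 0) (nat_lit 12312640026) (nat_lit 152) (nat_lit 5312183188) (nat_lit 0) (nat_lit 5890487116) (nat_lit 8) (nat_lit 5) (nat_lit 10) (nat_lit 4) (nat_lit 8) (nat_lit 4) (nat_lit 240) (nat_lit 215) (nat_lit 205)) (XT.nd (nat_lit 78) (nat_lit 76) (nat_lit 0) (XT.lf (nat_lit 0) (nat_lit 8148231610) (nat_lit 76) (nat_lit 12481457957)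 (nat_lit 76) (nat_lit 5784257850) (nat_lit 7) (nat_lit 4) (nat_lit 8) (nat_lit 5) (nat_lit 8) (nat_lit 4) (nat_lit 241) (nat_lit 215) (nat_lit 204)) (XT.lf (nat_lit 0) (nat_lit 248563873) (nat_lit 152) (nat_lit 6419358726) (nat_lit 76) (nat_lit 23093008502) (nat_lit 6) (nat_lit 5) (nat_lit 8) (nat_lit 5) (nat_lit 7) (nat_lit 4) (nat_lit 242) (nat_lit 215) (nat_lit 203)))))) (XT.nd (nat_lit 468) (nat_lit 152) (nat_lit 0) (XT.nd (nat_lit 234) (nat_lit 76) (nat_lit 0) (XT.nd (nat_lit 78) (nat_lit 0) (nat_lit 0) (XT.lf (nat_lit 0) (nat_lit 6730148902) (nat_lit 152) (nat_lit 26762162608) (nat_lit 0) (nat_lit 115012995) (nat_lit 5) (nat_lit 5) (nat_lit 7) (nat_lit 4) (nat_lit 5) (nat_lit 4) (nat_lit 243) (nat_lit 215) (nat_lit 202)) (XT.nd (nat_lit 78) (nat_lit 0) (nat_lit 0) (XT.lf (nat_lit 0) (nat_lit 14289749975) (nat_lit 152) (nat_lit 16225552911) (nat_lit 0) (nat_lit 7507162220) (nat_lit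 5) (nat_lit 5) (nat_lit 7) (nat_lit 4) (nat_lit 5) (nat_lit 4) (nat_lit 244) (nat_lit 215) (nat_lit 201)) (XT.lf (nat_lit 0) (nat_lit 22748172042) (nat_lit 152) (nat_lit 4550758087) (nat_lit 0) (nat_lit 15819973983) (nat_lit 5) (nat_lit 5) (nat_lit 7) (nat_lit 4) (nat_lit 5) (nat_lit 4) (nat_lit 245) (nat_lit 215) (nat_lit 200)))) (XT.nd (nat_lit 78) (nat_lit 0) (nat_lit 0) (XT.lf (nat_lit 0) (nat_lit 8937743910) (nat_lit 76) (nat_lit 23548115015) (nat_lit 76) (nat_lit 16493299301) (nat_lit 4) (nat_lit 4) (nat_lit 5) (nat_lit 5) (nat_lit 5) (nat_lit 4) (nat_lit 246) (nat_lit 215) (nat_lit 199)) (XT.nd (nat_lit 78) (nat_lit 0) (nat_lit 0) (XT.lf (nat_lit 0) (nat_lit 24373042770) (nat_lit 76) (nat_lit 19257395610) (nat_lit 76) (nat_lit 12092477588) (nat_lit 4) (nat_lit 4) (nat_lit 5) (nat_lit 5) (nat_lit 5) (nat_lit 4) (nat_lit 247) (nat_lit 215) (nat_lit 198)) (XT.lf (nat_lit 0) (nat_lit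 41817498614) (nat_lit 76) (nat_lit 14467248848) (nat_lit 76) (nat_lit 7206589688) (nat_lit 4) (nat_lit 4) (nat_lit 5) (nat_lit 5) (nat_lit 5) (nat_lit 4) (nat_lit 248) (nat_lit 215) (nat_lit 197))))) (XT.nd (nat_lit 234) (nat_lit 0) (nat_lit 0) (XT.nd (nat_lit 78) (nat_lit 152) (nat_lit 0) (XT.lf (nat_lit 0) (nat_lit 61612416013) (nat_lit 76) (nat_lit 9083954466) (nat_lit 76) (nat_lit 1740042142) (nat_lit 4) (nat_lit 4) (nat_lit 5) (nat_lit 5) (nat_lit 5) (nat_lit 4) (nat_lit 249) (nat_lit 215) (nat_lit 196)) (XT.nd (nat_lit 78) (nat_lit 0) (nat_lit 0) (XT.lf (nat_lit 0) (nat_lit 1374532088) (nat_lit 76) (nat_lit 2851832559) (nat_lit 152) (nat_lit 78495652704) (nat_lit 2) (nat_lit 5) (nat_lit 3) (nat_lit 5) (nat_lit 4) (nat_lit 4) (nat_lit 250) (nat_lit 215) (nat_lit 195)) (XT.lf (nat_lit 0) (nat_lit 11297647563) (nat_lit 152) (nat_lit 78851842211) (nat_lit 0) (nat_lit 4372408923) (nat_lit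 2) (nat_lit 5) (nat_lit 4) (nat_lit 4) (nat_lit 2) (nat_lit 4) (nat_lit 251) (nat_lit 215) (nat_lit 194)))) (XT.nd (nat_lit 78) (nat_lit 0) (nat_lit 0) (XT.lf (nat_lit 0) (nat_lit 19406691492) (nat_lit 152) (nat_lit 76256213691) (nat_lit 0) (nat_lit 12430767383) (nat_lit 2) (nat_lit 5) (nat_lit 4) (nat_lit 4) (nat_lit 2) (nat_lit 4) (nat_lit 252) (nat_lit 215) (nat_lit 193)) (XT.nd (nat_lit 78) (nat_lit 0) (nat_lit 0) (XT.lf (nat_lit 0) (nat_lit 28643565000) (nat_lit 152) (nat_lit 73441229026) (nat_lit 0) (nat_lit 21623566570) (nat_lit 2) (nat_lit 5) (nat_lit 4) (nat_lit 4) (nat_lit 2) (nat_lit 4) (nat_lit 253) (nat_lit 215) (nat_lit 192)) (XT.lf (nat_lit 0) (nat_lit 39188989525) (nat_lit 152) (nat_lit 70351812429) (nat_lit 0) (nat_lit 32130665599) (nat_lit 2) (nat_lit 5) (nat_lit 4) (nat_lit 4) (nat_lit 2) (nat_lit 4) (nat_lit 254) (nat_lit 215) (nat_lit 191))))))) (XT.nd (nat_lit 858)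 (nat_lit 0) (nat_lit 0) (XT.nd (nat_lit 390) (nat_lit 76) (nat_lit 0) (XT.nd (nat_lit 156) (nat_lit 0) (nat_lit 0) (XT.nd (nat_lit 78) (nat_lit 0) (nat_lit 0) (XT.lf (nat_lit 0) (nat_lit 51249288590) (nat_lit 152) (nat_lit 66927518794) (nat_lit 0) (nat_lit 44157638145) (nat_lit 2) (nat_lit 5) (nat_lit 4) (nat_lit 4) (nat_lit 2) (nat_lit 4) (nat_lit 255) (nat_lit 215) (nat_lit 190)) (XT.lf (nat_lit 0) (nat_lit 65060424569) (nat_lit 152) (nat_lit 63101351070) (nat_lit 0) (nat_lit 57939794542) (nat_lit 2) (nat_lit 5) (nat_lit 4) (nat_lit 4) (nat_lit 2) (nat_lit 4) (nat_lit 256) (nat_lit 215) (nat_lit 189))) (XT.nd (nat_lit 78) (nat_lit 0) (nat_lit 0) (XT.lf (nat_lit 0) (nat_lit 80892615339) (nat_lit 152) (nat_lit 58798449455) (nat_lit 0) (nat_lit 73746785676) (nat_lit 2) (nat_lit 5) (nat_lit 4) (nat_lit 4) (nat_lit 2) (nat_lit 4) (nat_lit 257) (nat_lit 215) (nat_lit 188)) (XT.nd (nat_lit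 78) (nat_lit 0) (nat_lit 0) (XT.lf (nat_lit 0) (nat_lit 99055621154) (nat_lit 152) (nat_lit 53934626742) (nat_lit 0) (nat_lit 91887878764) (nat_lit 2) (nat_lit 5) (nat_lit 4) (nat_lit 4) (nat_lit 2) (nat_lit 4) (nat_lit 258) (nat_lit 215) (nat_lit 187)) (XT.lf (nat_lit 0) (nat_lit 119904805171) (nat_lit 152) (nat_lit 48414721183) (nat_lit 0) (nat_lit 112718008237) (nat_lit 2) (nat_lit 5) (nat_lit 4) (nat_lit 4) (nat_lit 2) (nat_lit 4) (nat_lit 259) (nat_lit 215) (nat_lit 186))))) (XT.nd (nat_lit 234) (nat_lit 76) (nat_lit 0) (XT.nd (nat_lit 78) (nat_lit 0) (nat_lit 0) (XT.lf (nat_lit 0) (nat_lit 143848086210) (nat_lit 152) (nat_lit 42130734627) (nat_lit 0) (nat_lit 136644720105) (nat_lit 2) (nat_lit 5) (nat_lit 4) (nat_lit 4) (nat_lit 2) (nat_lit 4) (nat_lit 260) (nat_lit 215) (nat_lit 185)) (XT.nd (nat_lit 78) (nat_lit 0) (nat_lit 0) (XT.lf (nat_lit 0) (nat_lit 171353919767) (nat_lit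 152) (nat_lit 34959719509) (nat_lit 0) (nat_lit 164136145689) (nat_lit 2) (nat_lit 5) (nat_lit 4) (nat_lit 4) (nat_lit 2) (nat_lit 4) (nat_lit 261) (nat_lit 215) (nat_lit 184)) (XT.lf (nat_lit 0) (nat_lit 202960463456) (nat_lit 152) (nat_lit 26761373360) (nat_lit 0) (nat_lit 195730160705) (nat_lit 2) (nat_lit 5) (nat_lit 4) (nat_lit 4) (nat_lit 2) (nat_lit 4) (nat_lit 262) (nat_lit 215) (nat_lit 183)))) (XT.nd (nat_lit 78) (nat_lit 76) (nat_lit 0) (XT.lf (nat_lit 0) (nat_lit 239286106175) (nat_lit 152) (nat_lit 17375293756) (nat_lit 0) (nat_lit 232044908927) (nat_lit 2) (nat_lit 5) (nat_lit 4) (nat_lit 4) (nat_lit 2) (nat_lit 4) (nat_lit 263) (nat_lit 215) (nat_lit 182)) (XT.nd (nat_lit 78) (nat_lit 76) (nat_lit 0) (XT.lf (nat_lit 0) (nat_lit 281041567022) (nat_lit 152) (nat_lit 6617840008) (nat_lit 0) (nat_lit 273790896296) (nat_lit 2) (nat_lit 5) (nat_lit 4) (nat_lit 4) (nat_lit 2)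 (nat_lit 4) (nat_lit 264) (nat_lit 215) (nat_lit 181)) (XT.lf (nat_lit 0) (nat_lit 6022741737) (nat_lit 76) (nat_lit 323165906010) (nat_lit 76) (nat_lit 315906997479) (nat_lit 1) (nat_lit 4) (nat_lit 2) (nat_lit 5) (nat_lit 2) (nat_lit 4) (nat_lit 265) (nat_lit 215) (nat_lit 180)))))) (XT.nd (nat_lit 468) (nat_lit 0) (nat_lit 0) (XT.nd (nat_lit 234) (nat_lit 0) (nat_lit 0) (XT.nd (nat_lit 78) (nat_lit 0) (nat_lit 0) (XT.lf (nat_lit 0) (nat_lit 20931084375) (nat_lit 76) (nat_lit 363804289945) (nat_lit 76) (nat_lit 356538218105) (nat_lit 1) (nat_lit 4) (nat_lit 2) (nat_lit 5) (nat_lit 2) (nat_lit 4) (nat_lit 266) (nat_lit 215) (nat_lit 179)) (XT.nd (nat_lit 78) (nat_lit 0) (nat_lit 0) (XT.lf (nat_lit 0) (nat_lit 38050389143) (nat_lit 76) (nat_lit 410550601125) (nat_lit 76) (nat_lit 403278300321) (nat_lit 1) (nat_lit 4) (nat_lit 2) (nat_lit 5) (nat_lit 2) (nat_lit 4) (nat_lit 267) (nat_lit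 215) (nat_lit 178)) (XT.lf (nat_lit 0) (nat_lit 57715598959) (nat_lit 76) (nat_lit 464319441292) (nat_lit 76) (nat_lit 457041723996) (nat_lit 1) (nat_lit 4) (nat_lit 2) (nat_lit 5) (nat_lit 2) (nat_lit 4) (nat_lit 268) (nat_lit 215) (nat_lit 177)))) (XT.nd (nat_lit 78) (nat_lit 0) (nat_lit 0) (XT.lf (nat_lit 0) (nat_lit 80311467929) (nat_lit 76) (nat_lit 526162809491) (nat_lit 76) (nat_lit 518880382204) (nat_lit 1) (nat_lit 4) (nat_lit 2) (nat_lit 5) (nat_lit 2) (nat_lit 4) (nat_lit 269) (nat_lit 215) (nat_lit 176)) (XT.nd (nat_lit 78) (nat_lit 0) (nat_lit 0) (XT.lf (nat_lit 0) (nat_lit 106280089142) (nat_lit 76) (nat_lit 597290684666) (nat_lit 76) (nat_lit 590004161733) (nat_lit 1) (nat_lit 4) (nat_lit 2) (nat_lit 5) (nat_lit 2) (nat_lit 4) (nat_lit 270) (nat_lit 215) (nat_lit 175)) (XT.lf (nat_lit 0) (nat_lit 136129544317) (nat_lit 76) (nat_lit 679094699158) (nat_lit 76) (nat_lit 671804614794)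 (nat_lit 1) (nat_lit 4) (nat_lit 2) (nat_lit 5) (nat_lit 2) (nat_lit 4) (nat_lit 271) (nat_lit 215) (nat_lit 174))))) (XT.nd (nat_lit 234) (nat_lit 0) (nat_lit 0) (XT.nd (nat_lit 78) (nat_lit 0) (nat_lit 0) (XT.lf (nat_lit 0) (nat_lit 170443844532) (nat_lit 76) (nat_lit 773175366292) (nat_lit 76) (nat_lit 765882185032) (nat_lit 1) (nat_lit 4) (nat_lit 2) (nat_lit 5) (nat_lit 2) (nat_lit 4) (nat_lit 272) (nat_lit 215) (nat_lit 173)) (XT.nd (nat_lit 78) (nat_lit 0) (nat_lit 0) (XT.lf (nat_lit 0) (nat_lit 209894356533) (nat_lit 76) (nat_lit 881373394774) (nat_lit 76) (nat_lit 874077520561) (nat_lit 1) (nat_lit 4) (nat_lit 2) (nat_lit 5) (nat_lit 2) (nat_lit 4) (nat_lit 273) (nat_lit 215) (nat_lit 172)) (XT.lf (nat_lit 0) (nat_lit 255252938162) (nat_lit 76) (nat_lit 1005805702553) (nat_lit 76) (nat_lit 998507486641) (nat_lit 1) (nat_lit 4) (nat_lit 2) (nat_lit 5) (nat_lit 2) (nat_lit 4) (nat_lit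 274) (nat_lit 215) (nat_lit 171)))) (XT.nd (nat_lit 78) (nat_lit 0) (nat_lit 0) (XT.lf (nat_lit 0) (nat_lit 307407039929) (nat_lit 76) (nat_lit 1148906834781) (nat_lit 76) (nat_lit 1141606582609) (nat_lit 1) (nat_lit 4) (nat_lit 2) (nat_lit 5) (nat_lit 2) (nat_lit 4) (nat_lit 275) (nat_lit 215) (nat_lit 170)) (XT.nd (nat_lit 78) (nat_lit 0) (nat_lit 0) (XT.lf (nat_lit 0) (nat_lit 367377068173) (nat_lit 76) (nat_lit 1313476596218) (nat_lit 76) (nat_lit 1306174573386) (nat_lit 1) (nat_lit 4) (nat_lit 2) (nat_lit 5) (nat_lit 2) (nat_lit 4) (nat_lit 276) (nat_lit 215) (nat_lit 169)) (XT.lf (nat_lit 0) (nat_lit 436336349534) (nat_lit 76) (nat_lit 1502734830023) (nat_lit 76) (nat_lit 1495431267486) (nat_lit 1) (nat_lit 4) (nat_lit 2) (nat_lit 5) (nat_lit 2) (nat_lit 4) (nat_lit 277) (nat_lit 215) (nat_lit 168))))))))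
noncomputable def xc18 : XT := (XT.nd (nat_lit 31668) (nat_lit 0) (nat_lit 76) (XT.nd (nat_lit 30732) (nat_lit 0) (nat_lit 456) (XT.nd (nat_lit 390) (nat_lit 0) (nat_lit 0) (XT.nd (nat_lit 156) (nat_lit 0) (nat_lit 0) (XT.nd (nat_lit 78) (nat_lit 0) (nat_lit 0) (XT.lf (nat_lit 0) (nat_lit 515634087343) (nat_lit 76) (nat_lit 1720384414684) (nat_lit 76) (nat_lit 1713079513274) (nat_lit 1) (nat_lit 4) (nat_lit 2) (nat_lit 5) (nat_lit 2) (nat_lit 4) (nat_lit 278) (nat_lit 215) (nat_lit 167)) (XT.lf (nat_lit 0) (nat_lit 606821759079) (nat_lit 76) (nat_lit 1970683711640) (nat_lit 76) (nat_lit 1963377645991) (nat_lit 1) (nat_lit 4) (nat_lit 2) (nat_lit 5) (nat_lit 2) (nat_lit 4) (nat_lit 279) (nat_lit 215) (nat_lit 166))) (XT.nd (nat_lit 78) (nat_lit 0) (nat_lit 0) (XT.lf (nat_lit 0) (nat_lit 711683471362) (nat_lit 76) (nat_lit 2258529881048) (nat_lit 76) (nat_lit 2251222803019) (nat_lit 1)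 (nat_lit 4) (nat_lit 2) (nat_lit 5) (nat_lit 2) (nat_lit 4) (nat_lit 280) (nat_lit 215) (nat_lit 165)) (XT.nd (nat_lit 78) (nat_lit 0) (nat_lit 0) (XT.lf (nat_lit 0) (nat_lit 832270866389) (nat_lit 76) (nat_lit 2589554695789) (nat_lit 76) (nat_lit 2582246737428) (nat_lit 1) (nat_lit 4) (nat_lit 2) (nat_lit 5) (nat_lit 2) (nat_lit 4) (nat_lit 281) (nat_lit 215) (nat_lit 164)) (XT.lf (nat_lit 0) (nat_lit 970943262759) (nat_lit 76) (nat_lit 2970234728324) (nat_lit 76) (nat_lit 2962926004458) (nat_lit 1) (nat_lit 4) (nat_lit 2) (nat_lit 5) (nat_lit 2) (nat_lit 4) (nat_lit 282) (nat_lit 215) (nat_lit 163))))) (XT.nd (nat_lit 30108) (nat_lit 0) (nat_lit 1900) (XT.nd (nat_lit 78) (nat_lit 0) (nat_lit 0) (XT.lf (nat_lit 0) (nat_lit 1130413816053) (nat_lit 76) (nat_lit 3408018066247) (nat_lit 76) (nat_lit 3400708676724) (nat_lit 1) (nat_lit 4) (nat_lit 2) (nat_lit 5) (nat_lit 2) (nat_lit 4) (nat_lit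 283) (nat_lit 215) (nat_lit 162)) (XT.nd (nat_lit 78) (nat_lit 0) (nat_lit 0) (XT.lf (nat_lit 0) (nat_lit 1313802602314) (nat_lit 76) (nat_lit 3911470035735) (nat_lit 76) (nat_lit 3904160067380) (nat_lit 1) (nat_lit 4) (nat_lit 2) (nat_lit 5) (nat_lit 2) (nat_lit 4) (nat_lit 284) (nat_lit 215) (nat_lit 161)) (XT.lf (nat_lit 0) (nat_lit 1524697663012) (nat_lit 76) (nat_lit 4490440784016) (nat_lit 76) (nat_lit 4483130312328) (nat_lit 1) (nat_lit 4) (nat_lit 2) (nat_lit 5) (nat_lit 2) (nat_lit 4) (nat_lit 285) (nat_lit 215) (nat_lit 160)))) (XT.nd (nat_lit 78) (nat_lit 608) (nat_lit 0) (XT.lf (nat_lit 0) (nat_lit 1820587137) (nat_lit 304) (nat_lit 432946054) (nat_lit 0) (nat_lit 1820587137) (nat_lit 34) (nat_lit 5) (nat_lit 38) (nat_lit 4) (nat_lit 34) (nat_lit 4) (nat_lit 228) (nat_lit 216) (nat_lit 216)) (XT.nd (nat_lit 78) (nat_lit 152) (nat_lit 0) (XT.lf (nat_lit 0) (nat_lit 1478553338)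 (nat_lit 152) (nat_lit 208543250) (nat_lit 228) (nat_lit 6962724357) (nat_lit 28) (nat_lit 5) (nat_lit 30) (nat_lit 5) (nat_lit 31) (nat_lit 4) (nat_lit 229) (nat_lit 216) (nat_lit 215)) (XT.lf (nat_lit 0) (nat_lit 3788033745) (nat_lit 152) (nat_lit 4484262006) (nat_lit 152) (nat_lit 969120081) (nat_lit 26) (nat_lit 4) (nat_lit 28) (nat_lit 5) (nat_lit 28) (nat_lit 4) (nat_lit 230) (nat_lit 216) (nat_lit 214)))))) (XT.nd (nat_lit 468) (nat_lit 380) (nat_lit 0) (XT.nd (nat_lit 234) (nat_lit 532) (nat_lit 0) (XT.nd (nat_lit 78) (nat_lit 304) (nat_lit 0) (XT.lf (nat_lit 0) (nat_lit 5286510271) (nat_lit 228) (nat_lit 3937702749) (nat_lit 0) (nat_lit 715364582) (nat_lit 23) (nat_lit 5) (nat_lit 26) (nat_lit 4) (nat_lit 23) (nat_lit 4) (nat_lit 231) (nat_lit 216) (nat_lit 213)) (XT.nd (nat_lit 78) (nat_lit 76) (nat_lit 0) (XT.lf (nat_lit 0) (nat_lit 1413985175) (nat_lit 228) (nat_lit 2774738825)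 (nat_lit 76) (nat_lit 6564833227) (nat_lit 20) (nat_lit 5) (nat_lit 23) (nat_lit 5) (nat_lit 21) (nat_lit 4) (nat_lit 232) (nat_lit 216) (nat_lit 212)) (XT.lf (nat_lit 0) (nat_lit 7903018339) (nat_lit 152) (nat_lit 2106389652) (nat_lit 0) (nat_lit 1688940649) (nat_lit 19) (nat_lit 5) (nat_lit 21) (nat_lit 4) (nat_lit 19) (nat_lit 4) (nat_lit 233) (nat_lit 216) (nat_lit 211)))) (XT.nd (nat_lit 78) (nat_lit 304) (nat_lit 0) (XT.lf (nat_lit 0) (nat_lit 2342598828) (nat_lit 228) (nat_lit 2142902011) (nat_lit 76) (nat_lit 8304211573) (nat_lit 16) (nat_lit 5) (nat_lit 19) (nat_lit 5) (nat_lit 17) (nat_lit 4) (nat_lit 234) (nat_lit 216) (nat_lit 210)) (XT.nd (nat_lit 78) (nat_lit 228) (nat_lit 0) (XT.lf (nat_lit 0) (nat_lit 9035536701) (nat_lit 152) (nat_lit 3119176433) (nat_lit 0) (nat_lit 1894422697) (nat_lit 15) (nat_lit 5) (nat_lit 17) (nat_lit 4) (nat_lit 15) (nat_lit 4) (nat_lit 235) (nat_lit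 216) (nat_lit 209)) (XT.lf (nat_lit 0) (nat_lit 1122861193) (nat_lit 228) (nat_lit 5366670250) (nat_lit 76) (nat_lit 9010366704) (nat_lit 12) (nat_lit 5) (nat_lit 15) (nat_lit 5) (nat_lit 13) (nat_lit 4) (nat_lit 236) (nat_lit 216) (nat_lit 208))))) (XT.nd (nat_lit 234) (nat_lit 152) (nat_lit 0) (XT.nd (nat_lit 78) (nat_lit 152) (nat_lit 0) (XT.lf (nat_lit 0) (nat_lit 7729624899) (nat_lit 152) (nat_lit 9295011220) (nat_lit 0) (nat_lit 146160896) (nat_lit 11) (nat_lit 5) (nat_lit 13) (nat_lit 4) (nat_lit 11) (nat_lit 4) (nat_lit 237) (nat_lit 216) (nat_lit 207)) (XT.nd (nat_lit 78) (nat_lit 76) (nat_lit 0) (XT.lf (nat_lit 0) (nat_lit 3611888123) (nat_lit 76) (nat_lit 11728165997) (nat_lit 76) (nat_lit 3751852083) (nat_lit 10) (nat_lit 4) (nat_lit 11) (nat_lit 5) (nat_lit 11) (nat_lit 4) (nat_lit 238) (nat_lit 216) (nat_lit 206)) (XT.lf (nat_lit 0) (nat_lit 2542459203) (nat_lit 152) (nat_lit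 3029607390) (nat_lit 76) (nat_lit 15732922334) (nat_lit 9) (nat_lit 5) (nat_lit 11) (nat_lit 5) (nat_lit 10) (nat_lit 4) (nat_lit 239) (nat_lit 216) (nat_lit 205)))) (XT.nd (nat_lit 78) (nat_lit 76) (nat_lit 0) (XT.lf (nat_lit 0) (nat_lit 9536415489) (nat_lit 152) (nat_lit 12748433734) (nat_lit 0) (nat_lit 1559588169) (nat_lit 8) (nat_lit 5) (nat_lit 10) (nat_lit 4) (nat_lit 8) (nat_lit 4) (nat_lit 240) (nat_lit 216) (nat_lit 204)) (XT.nd (nat_lit 78) (nat_lit 0) (nat_lit 0) (XT.lf (nat_lit 0) (nat_lit 40852567) (nat_lit 76) (nat_lit 17472786579) (nat_lit 76) (nat_lit 9256787784) (nat_lit 7) (nat_lit 4) (nat_lit 8) (nat_lit 5) (nat_lit 8) (nat_lit 4) (nat_lit 241) (nat_lit 216) (nat_lit 203)) (XT.lf (nat_lit 0) (nat_lit 14997903664) (nat_lit 76) (nat_lit 11777336394) (nat_lit 76) (nat_lit 3353362402) (nat_lit 7) (nat_lit 4) (nat_lit 8) (nat_lit 5) (nat_lit 8) (nat_lit 4) (nat_lit 242)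 (nat_lit 216) (nat_lit 202))))))) (XT.nd (nat_lit 858) (nat_lit 0) (nat_lit 0) (XT.nd (nat_lit 390) (nat_lit 152) (nat_lit 0) (XT.nd (nat_lit 156) (nat_lit 76) (nat_lit 0) (XT.nd (nat_lit 78) (nat_lit 76) (nat_lit 0) (XT.lf (nat_lit 0) (nat_lit 3010655488) (nat_lit 152) (nat_lit 2342658572) (nat_lit 76) (nat_lit 28651075441) (nat_lit 6) (nat_lit 5) (nat_lit 8) (nat_lit 5) (nat_lit 7) (nat_lit 4) (nat_lit 243) (nat_lit 216) (nat_lit 201)) (XT.lf (nat_lit 0) (nat_lit 10271303203) (nat_lit 152) (nat_lit 26013979330) (nat_lit 0) (nat_lit 2158265132) (nat_lit 5) (nat_lit 5) (nat_lit 7) (nat_lit 4) (nat_lit 5) (nat_lit 4) (nat_lit 244) (nat_lit 216) (nat_lit 200))) (XT.nd (nat_lit 78) (nat_lit 76) (nat_lit 0) (XT.lf (nat_lit 0) (nat_lit 18634631572) (nat_lit 152) (nat_lit 14518074831) (nat_lit 0) (nat_lit 10394975846) (nat_lit 5) (nat_lit 5) (nat_lit 7) (nat_lit 4) (nat_lit 5) (nat_lit 4) (nat_lit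 245) (nat_lit 216) (nat_lit 199)) (XT.nd (nat_lit 78) (nat_lit 76) (nat_lit 0) (XT.lf (nat_lit 0) (nat_lit 28074675327) (nat_lit 152) (nat_lit 1632231786) (nat_lit 0) (nat_lit 19724917292) (nat_lit 5) (nat_lit 5) (nat_lit 7) (nat_lit 4) (nat_lit 5) (nat_lit 4) (nat_lit 246) (nat_lit 216) (nat_lit 198)) (XT.lf (nat_lit 0) (nat_lit 13574726944) (nat_lit 76) (nat_lit 25527876541) (nat_lit 76) (nat_lit 17082377368) (nat_lit 4) (nat_lit 4) (nat_lit 5) (nat_lit 5) (nat_lit 5) (nat_lit 4) (nat_lit 247) (nat_lit 216) (nat_lit 197))))) (XT.nd (nat_lit 234) (nat_lit 152) (nat_lit 0) (XT.nd (nat_lit 78) (nat_lit 0) (nat_lit 0) (XT.lf (nat_lit 0) (nat_lit 30895365662) (nat_lit 76) (nat_lit 20796043451) (nat_lit 76) (nat_lit 12267291114) (nat_lit 4) (nat_lit 4) (nat_lit 5) (nat_lit 5) (nat_lit 5) (nat_lit 4) (nat_lit 248) (nat_lit 216) (nat_lit 196)) (XT.nd (nat_lit 78) (nat_lit 0) (nat_lit 0) (XT.lf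 (nat_lit 0) (nat_lit 50582615995) (nat_lit 76) (nat_lit 15463456609) (nat_lit 76) (nat_lit 6862310218) (nat_lit 4) (nat_lit 4) (nat_lit 5) (nat_lit 5) (nat_lit 5) (nat_lit 4) (nat_lit 249) (nat_lit 216) (nat_lit 195)) (XT.lf (nat_lit 0) (nat_lit 73021663275) (nat_lit 76) (nat_lit 9425782796) (nat_lit 76) (nat_lit 761685052) (nat_lit 4) (nat_lit 4) (nat_lit 5) (nat_lit 5) (nat_lit 5) (nat_lit 4) (nat_lit 250) (nat_lit 216) (nat_lit 194)))) (XT.nd (nat_lit 78) (nat_lit 0) (nat_lit 0) (XT.lf (nat_lit 0) (nat_lit 3622247824) (nat_lit 76) (nat_lit 2310966538) (nat_lit 152) (nat_lit 89110457735) (nat_lit 2) (nat_lit 5) (nat_lit 3) (nat_lit 5) (nat_lit 4) (nat_lit 4) (nat_lit 251) (nat_lit 216) (nat_lit 193)) (XT.nd (nat_lit 78) (nat_lit 0) (nat_lit 0) (XT.lf (nat_lit 0) (nat_lit 13945504137) (nat_lit 152) (nat_lit 88849281200) (nat_lit 0) (nat_lit 5828431621) (nat_lit 2) (nat_lit 5) (nat_lit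 4) (nat_lit 4) (nat_lit 2) (nat_lit 4) (nat_lit 252) (nat_lit 216) (nat_lit 192)) (XT.lf (nat_lit 0) (nat_lit 23146572989) (nat_lit 152) (nat_lit 86103048055) (nat_lit 0) (nat_lit 14991174977) (nat_lit 2) (nat_lit 5) (nat_lit 4) (nat_lit 4) (nat_lit 2) (nat_lit 4) (nat_lit 253) (nat_lit 216) (nat_lit 191)))))) (XT.nd (nat_lit 468) (nat_lit 0) (nat_lit 0) (XT.nd (nat_lit 234) (nat_lit 0) (nat_lit 0) (XT.nd (nat_lit 78) (nat_lit 0) (nat_lit 0) (XT.lf (nat_lit 0) (nat_lit 33660863031) (nat_lit 152) (nat_lit 83073415389) (nat_lit 0) (nat_lit 25472138501) (nat_lit 2) (nat_lit 5) (nat_lit 4) (nat_lit 4) (nat_lit 2) (nat_lit 4) (nat_lit 254) (nat_lit 216) (nat_lit 190)) (XT.nd (nat_lit 78) (nat_lit 0) (nat_lit 0) (XT.lf (nat_lit 0) (nat_lit 45694088633) (nat_lit 152) (nat_lit 79701107780) (nat_lit 0) (nat_lit 37476384521) (nat_lit 2) (nat_lit 5) (nat_lit 4) (nat_lit 4) (nat_lit 2) (nat_lit 4)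 (nat_lit 255) (nat_lit 216) (nat_lit 189)) (XT.lf (nat_lit 0) (nat_lit 59481682469) (nat_lit 152) (nat_lit 75920145297) (nat_lit 0) (nat_lit 51238778722) (nat_lit 2) (nat_lit 5) (nat_lit 4) (nat_lit 4) (nat_lit 2) (nat_lit 4) (nat_lit 256) (nat_lit 216) (nat_lit 188)))) (XT.nd (nat_lit 78) (nat_lit 0) (nat_lit 0) (XT.lf (nat_lit 0) (nat_lit 75293401811) (nat_lit 152) (nat_lit 71656552586) (nat_lit 0) (nat_lit 67028585336) (nat_lit 2) (nat_lit 5) (nat_lit 4) (nat_lit 4) (nat_lit 2) (nat_lit 4) (nat_lit 257) (nat_lit 216) (nat_lit 187)) (XT.nd (nat_lit 78) (nat_lit 0) (nat_lit 0) (XT.lf (nat_lit 0) (nat_lit 93438606385) (nat_lit 152) (nat_lit 66826911530) (nat_lit 0) (nat_lit 85154735365) (nat_lit 2) (nat_lit 5) (nat_lit 4) (nat_lit 4) (nat_lit 2) (nat_lit 4) (nat_lit 258) (nat_lit 216) (nat_lit 186)) (XT.lf (nat_lit 0) (nat_lit 114272311062) (nat_lit 152) (nat_lit 61336729151) (nat_lit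 0) (nat_lit 105971870872) (nat_lit 2) (nat_lit 5) (nat_lit 4) (nat_lit 4) (nat_lit 2) (nat_lit 4) (nat_lit 259) (nat_lit 216) (nat_lit 185))))) (XT.nd (nat_lit 234) (nat_lit 0) (nat_lit 0) (XT.nd (nat_lit 78) (nat_lit 0) (nat_lit 0) (XT.lf (nat_lit 0) (nat_lit 138202131804) (nat_lit 152) (nat_lit 55078588837) (nat_lit 0) (nat_lit 129887283641) (nat_lit 2) (nat_lit 5) (nat_lit 4) (nat_lit 4) (nat_lit 2) (nat_lit 4) (nat_lit 260) (nat_lit 216) (nat_lit 184)) (XT.nd (nat_lit 78) (nat_lit 0) (nat_lit 0) (XT.lf (nat_lit 0) (nat_lit 165696260755) (nat_lit 152) (nat_lit 47930048713) (nat_lit 0) (nat_lit 157368883920) (nat_lit 2) (nat_lit 5) (nat_lit 4) (nat_lit 4) (nat_lit 2) (nat_lit 4) (nat_lit 261) (nat_lit 216) (nat_lit 183)) (XT.lf (nat_lit 0) (nat_lit 197292626527) (nat_lit 152) (nat_lit 39751246037) (nat_lit 0) (nat_lit 188954355193) (nat_lit 2) (nat_lit 5) (nat_lit 4) (nat_lit 4) (nat_lit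 2) (nat_lit 4) (nat_lit 262) (nat_lit 216) (nat_lit 182)))) (XT.nd (nat_lit 78) (nat_lit 0) (nat_lit 0) (XT.lf (nat_lit 0) (nat_lit 233609418883) (nat_lit 152) (nat_lit 30382160757) (nat_lit 0) (nat_lit 225261674073) (nat_lit 2) (nat_lit 5) (nat_lit 4) (nat_lit 4) (nat_lit 2) (nat_lit 4) (nat_lit 263) (nat_lit 216) (nat_lit 181)) (XT.nd (nat_lit 78) (nat_lit 0) (nat_lit 0) (XT.lf (nat_lit 0) (nat_lit 275357183761) (nat_lit 152) (nat_lit 19639484683) (nat_lit 0) (nat_lit 267001201145) (nat_lit 2) (nat_lit 5) (nat_lit 4) (nat_lit 4) (nat_lit 2) (nat_lit 4) (nat_lit 264) (nat_lit 216) (nat_lit 180)) (XT.lf (nat_lit 0) (nat_lit 323352725257) (nat_lit 152) (nat_lit 7313035021) (nat_lit 0) (nat_lit 314989579332) (nat_lit 2) (nat_lit 5) (nat_lit 4) (nat_lit 4) (nat_lit 2) (nat_lit 4) (nat_lit 265) (nat_lit 216) (nat_lit 179))))))))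
noncomputable def xc19 : XT := (XT.nd (nat_lit 31512) (nat_lit 0) (nat_lit 152) (XT.nd (nat_lit 858) (nat_lit 0) (nat_lit 0) (XT.nd (nat_lit 390) (nat_lit 0) (nat_lit 0) (XT.nd (nat_lit 156) (nat_lit 0) (nat_lit 0) (XT.nd (nat_lit 78) (nat_lit 0) (nat_lit 0) (XT.lf (nat_lit 0) (nat_lit 7198453702) (nat_lit 76) (nat_lit 371509755856) (nat_lit 76) (nat_lit 363140380966) (nat_lit 1) (nat_lit 4) (nat_lit 2) (nat_lit 5) (nat_lit 2) (nat_lit 4) (nat_lit 266) (nat_lit 216) (nat_lit 178)) (XT.lf (nat_lit 0) (nat_lit 24307530253) (nat_lit 76) (nat_lit 418260989041) (nat_lit 76) (nat_lit 409886197660) (nat_lit 1) (nat_lit 4) (nat_lit 2) (nat_lit 5) (nat_lit 2) (nat_lit 4) (nat_lit 267) (nat_lit 216) (nat_lit 177))) (XT.nd (nat_lit 78) (nat_lit 0) (nat_lit 0) (XT.lf (nat_lit 0) (nat_lit 43963845967) (nat_lit 76) (nat_lit 472034109211) (nat_lit 76) (nat_lit 463654607838) (nat_lit 1) (nat_lit 4) (nat_lit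 2) (nat_lit 5) (nat_lit 2) (nat_lit 4) (nat_lit 268) (nat_lit 216) (nat_lit 176)) (XT.nd (nat_lit 78) (nat_lit 0) (nat_lit 0) (XT.lf (nat_lit 0) (nat_lit 66551980936) (nat_lit 76) (nat_lit 533881199153) (nat_lit 76) (nat_lit 525497602134) (nat_lit 1) (nat_lit 4) (nat_lit 2) (nat_lit 5) (nat_lit 2) (nat_lit 4) (nat_lit 269) (nat_lit 216) (nat_lit 175)) (XT.lf (nat_lit 0) (nat_lit 92513876930) (nat_lit 76) (nat_lit 605012310625) (nat_lit 76) (nat_lit 596625152176) (nat_lit 1) (nat_lit 4) (nat_lit 2) (nat_lit 5) (nat_lit 2) (nat_lit 4) (nat_lit 270) (nat_lit 216) (nat_lit 174))))) (XT.nd (nat_lit 234) (nat_lit 0) (nat_lit 0) (XT.nd (nat_lit 78) (nat_lit 0) (nat_lit 0) (XT.lf (nat_lit 0) (nat_lit 122357484089) (nat_lit 76) (nat_lit 686819139288) (nat_lit 76) (nat_lit 678428883943) (nat_lit 1) (nat_lit 4) (nat_lit 2) (nat_lit 5) (nat_lit 2) (nat_lit 4) (nat_lit 271) (nat_lit 216) (nat_lit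 173)) (XT.nd (nat_lit 78) (nat_lit 0) (nat_lit 0) (XT.lf (nat_lit 0) (nat_lit 156666699073) (nat_lit 76) (nat_lit 780902253529) (nat_lit 76) (nat_lit 772509305230) (nat_lit 1) (nat_lit 4) (nat_lit 2) (nat_lit 5) (nat_lit 2) (nat_lit 4) (nat_lit 272) (nat_lit 216) (nat_lit 172)) (XT.lf (nat_lit 0) (nat_lit 196112789133) (nat_lit 76) (nat_lit 889102409929) (nat_lit 76) (nat_lit 880707119932) (nat_lit 1) (nat_lit 4) (nat_lit 2) (nat_lit 5) (nat_lit 2) (nat_lit 4) (nat_lit 273) (nat_lit 216) (nat_lit 171)))) (XT.nd (nat_lit 78) (nat_lit 0) (nat_lit 0) (XT.lf (nat_lit 0) (nat_lit 241467525596) (nat_lit 76) (nat_lit 1013536568072) (nat_lit 76) (nat_lit 1005139241815) (nat_lit 1) (nat_lit 4) (nat_lit 2) (nat_lit 5) (nat_lit 2) (nat_lit 4) (nat_lit 274) (nat_lit 216) (nat_lit 170)) (XT.nd (nat_lit 78) (nat_lit 0) (nat_lit 0) (XT.lf (nat_lit 0) (nat_lit 293618283741) (nat_lit 76) (nat_lit 1156639309311)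 (nat_lit 76) (nat_lit 1148240212394) (nat_lit 1) (nat_lit 4) (nat_lit 2) (nat_lit 5) (nat_lit 2) (nat_lit 4) (nat_lit 275) (nat_lit 216) (nat_lit 169)) (XT.lf (nat_lit 0) (nat_lit 353585404488) (nat_lit 76) (nat_lit 1321210469889) (nat_lit 76) (nat_lit 1312809833267) (nat_lit 1) (nat_lit 4) (nat_lit 2) (nat_lit 5) (nat_lit 2) (nat_lit 4) (nat_lit 276) (nat_lit 216) (nat_lit 168)))))) (XT.nd (nat_lit 468) (nat_lit 0) (nat_lit 0) (XT.nd (nat_lit 234) (nat_lit 0) (nat_lit 0) (XT.nd (nat_lit 78) (nat_lit 0) (nat_lit 0) (XT.lf (nat_lit 0) (nat_lit 422542157590) (nat_lit 76) (nat_lit 1510469920338) (nat_lit 76) (nat_lit 1502067944843) (nat_lit 1) (nat_lit 4) (nat_lit 2) (nat_lit 5) (nat_lit 2) (nat_lit 4) (nat_lit 277) (nat_lit 216) (nat_lit 167)) (XT.nd (nat_lit 78) (nat_lit 0) (nat_lit 0) (XT.lf (nat_lit 0) (nat_lit 501837696913) (nat_lit 76) (nat_lit 1728120562951) (nat_lit 76) (nat_lit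 1719717423217) (nat_lit 1) (nat_lit 4) (nat_lit 2) (nat_lit 5) (nat_lit 2) (nat_lit 4) (nat_lit 278) (nat_lit 216) (nat_lit 166)) (XT.lf (nat_lit 0) (nat_lit 593023456922) (nat_lit 76) (nat_lit 1978420779865) (nat_lit 76) (nat_lit 1970016627750) (nat_lit 1) (nat_lit 4) (nat_lit 2) (nat_lit 5) (nat_lit 2) (nat_lit 4) (nat_lit 279) (nat_lit 216) (nat_lit 165)))) (XT.nd (nat_lit 78) (nat_lit 0) (nat_lit 0) (XT.lf (nat_lit 0) (nat_lit 697883506834) (nat_lit 76) (nat_lit 2266267749236) (nat_lit 76) (nat_lit 2257862716790) (nat_lit 1) (nat_lit 4) (nat_lit 2) (nat_lit 5) (nat_lit 2) (nat_lit 4) (nat_lit 280) (nat_lit 216) (nat_lit 164)) (XT.nd (nat_lit 78) (nat_lit 0) (nat_lit 0) (XT.lf (nat_lit 0) (nat_lit 818469456321) (nat_lit 76) (nat_lit 2597293259597) (nat_lit 76) (nat_lit 2588887461646) (nat_lit 1) (nat_lit 4) (nat_lit 2) (nat_lit 5) (nat_lit 2) (nat_lit 4) (nat_lit 281) (nat_lit 216)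 (nat_lit 163)) (XT.lf (nat_lit 0) (nat_lit 957140595700) (nat_lit 76) (nat_lit 2977973897020) (nat_lit 76) (nat_lit 2969567433411) (nat_lit 1) (nat_lit 4) (nat_lit 2) (nat_lit 5) (nat_lit 2) (nat_lit 4) (nat_lit 282) (nat_lit 216) (nat_lit 162))))) (XT.nd (nat_lit 29952) (nat_lit 0) (nat_lit 2508) (XT.nd (nat_lit 78) (nat_lit 0) (nat_lit 0) (XT.lf (nat_lit 0) (nat_lit 1116610055958) (nat_lit 76) (nat_lit 3415757760931) (nat_lit 76) (nat_lit 3407350718491) (nat_lit 1) (nat_lit 4) (nat_lit 2) (nat_lit 5) (nat_lit 2) (nat_lit 4) (nat_lit 283) (nat_lit 216) (nat_lit 161)) (XT.nd (nat_lit 78) (nat_lit 0) (nat_lit 0) (XT.lf (nat_lit 0) (nat_lit 1299997891752) (nat_lit 76) (nat_lit 3919210187800) (nat_lit 76) (nat_lit 3910802642028) (nat_lit 1) (nat_lit 4) (nat_lit 2) (nat_lit 5) (nat_lit 2) (nat_lit 4) (nat_lit 284) (nat_lit 216) (nat_lit 160)) (XT.lf (nat_lit 0) (nat_lit 1510892125958) (nat_lit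 76) (nat_lit 4498181333804) (nat_lit 76) (nat_lit 4489773350352) (nat_lit 1) (nat_lit 4) (nat_lit 2) (nat_lit 5) (nat_lit 2) (nat_lit 4) (nat_lit 285) (nat_lit 216) (nat_lit 159)))) (XT.nd (nat_lit 78) (nat_lit 532) (nat_lit 0) (XT.lf (nat_lit 0) (nat_lit 679042104) (nat_lit 532) (nat_lit 2329196893) (nat_lit 0) (nat_lit 679042104) (nat_lit 41) (nat_lit 5) (nat_lit 48) (nat_lit 4) (nat_lit 41) (nat_lit 4) (nat_lit 226) (nat_lit 217) (nat_lit 217)) (XT.nd (nat_lit 78) (nat_lit 304) (nat_lit 0) (XT.lf (nat_lit 0) (nat_lit 4700164631) (nat_lit 228) (nat_lit 2779280743) (nat_lit 228) (nat_lit 257266144) (nat_lit 38) (nat_lit 4) (nat_lit 41) (nat_lit 5) (nat_lit 41) (nat_lit 4) (nat_lit 227) (nat_lit 217) (nat_lit 216)) (XT.lf (nat_lit 0) (nat_lit 5599127522) (nat_lit 304) (nat_lit 1347384114) (nat_lit 0) (nat_lit 1233321252) (nat_lit 34) (nat_lit 5) (nat_lit 38) (nat_lit 4) (nat_lit 34) (nat_lit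 4) (nat_lit 228) (nat_lit 217) (nat_lit 215))))))) (XT.nd (nat_lit 858) (nat_lit 532) (nat_lit 0) (XT.nd (nat_lit 390) (nat_lit 684) (nat_lit 0) (XT.nd (nat_lit 156) (nat_lit 532) (nat_lit 0) (XT.nd (nat_lit 78) (nat_lit 152) (nat_lit 0) (XT.lf (nat_lit 0) (nat_lit 377834351) (nat_lit 152) (nat_lit 2751678308) (nat_lit 228) (nat_lit 5580337999) (nat_lit 28) (nat_lit 5) (nat_lit 30) (nat_lit 5) (nat_lit 31) (nat_lit 4) (nat_lit 229) (nat_lit 217) (nat_lit 214)) (XT.lf (nat_lit 0) (nat_lit 2162400246) (nat_lit 152) (nat_lit 7136191151) (nat_lit 152) (nat_lit 37132787) (nat_lit 26) (nat_lit 4) (nat_lit 28) (nat_lit 5) (nat_lit 28) (nat_lit 4) (nat_lit 230) (nat_lit 217) (nat_lit 213))) (XT.nd (nat_lit 78) (nat_lit 304) (nat_lit 0) (XT.lf (nat_lit 0) (nat_lit 3741749196) (nat_lit 152) (nat_lit 2064531787) (nat_lit 228) (nat_lit 4255855710) (nat_lit 23) (nat_lit 5) (nat_lit 25) (nat_lit 5)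 (nat_lit 26) (nat_lit 4) (nat_lit 231) (nat_lit 217) (nat_lit 212)) (XT.nd (nat_lit 78) (nat_lit 76) (nat_lit 0) (XT.lf (nat_lit 0) (nat_lit 1394869368) (nat_lit 228) (nat_lit 5811932119) (nat_lit 76) (nat_lit 3700908322) (nat_lit 20) (nat_lit 5) (nat_lit 23) (nat_lit 5) (nat_lit 21) (nat_lit 4) (nat_lit 232) (nat_lit 217) (nat_lit 211)) (XT.lf (nat_lit 0) (nat_lit 6035214399) (nat_lit 76) (nat_lit 1471525542) (nat_lit 152) (nat_lit 4376491805) (nat_lit 19) (nat_lit 5) (nat_lit 20) (nat_lit 5) (nat_lit 21) (nat_lit 4) (nat_lit 233) (nat_lit 217) (nat_lit 210))))) (XT.nd (nat_lit 234) (nat_lit 228) (nat_lit 0) (XT.nd (nat_lit 78) (nat_lit 228) (nat_lit 0) (XT.lf (nat_lit 0) (nat_lit 1414988031) (nat_lit 228) (nat_lit 6622984037) (nat_lit 76) (nat_lit 4968232199) (nat_lit 16) (nat_lit 5) (nat_lit 19) (nat_lit 5) (nat_lit 17) (nat_lit 4) (nat_lit 234) (nat_lit 217) (nat_lit 209)) (XT.nd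 (nat_lit 78) (nat_lit 152) (nat_lit 0) (XT.lf (nat_lit 0) (nat_lit 5898892908) (nat_lit 76) (nat_lit 1827572564) (nat_lit 152) (nat_lit 6570069385) (nat_lit 15) (nat_lit 5) (nat_lit 16) (nat_lit 5) (nat_lit 17) (nat_lit 4) (nat_lit 235) (nat_lit 217) (nat_lit 208)) (XT.lf (nat_lit 0) (nat_lit 4304719804) (nat_lit 152) (nat_lit 10691058869) (nat_lit 152) (nat_lit 784476988) (nat_lit 13) (nat_lit 4) (nat_lit 15) (nat_lit 5) (nat_lit 15) (nat_lit 4) (nat_lit 236) (nat_lit 217) (nat_lit 207)))) (XT.nd (nat_lit 78) (nat_lit 76) (nat_lit 0) (XT.lf (nat_lit 0) (nat_lit 1139249712) (nat_lit 76) (nat_lit 4375226007) (nat_lit 152) (nat_lit 11966225730) (nat_lit 11) (nat_lit 5) (nat_lit 12) (nat_lit 5) (nat_lit 13) (nat_lit 4) (nat_lit 237) (nat_lit 217) (nat_lit 206)) (XT.nd (nat_lit 78) (nat_lit 76) (nat_lit 0) (XT.lf (nat_lit 0) (nat_lit 12765371755) (nat_lit 152) (nat_lit 3807286954) (nat_lit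 0) (nat_lit 2858152224) (nat_lit 11) (nat_lit 5) (nat_lit 13) (nat_lit 4) (nat_lit 11) (nat_lit 4) (nat_lit 238) (nat_lit 217) (nat_lit 205)) (XT.lf (nat_lit 0) (nat_lit 10453122303) (nat_lit 76) (nat_lit 10710140249) (nat_lit 76) (nat_lit 505869745) (nat_lit 10) (nat_lit 4) (nat_lit 11) (nat_lit 5) (nat_lit 11) (nat_lit 4) (nat_lit 239) (nat_lit 217) (nat_lit 204)))))) (XT.nd (nat_lit 468) (nat_lit 152) (nat_lit 0) (XT.nd (nat_lit 234) (nat_lit 152) (nat_lit 0) (XT.nd (nat_lit 78) (nat_lit 76) (nat_lit 0) (XT.lf (nat_lit 0) (nat_lit 2277178245) (nat_lit 76) (nat_lit 3847703458) (nat_lit 152) (nat_lit 18115919573) (nat_lit 8) (nat_lit 5) (nat_lit 9) (nat_lit 5) (nat_lit 10) (nat_lit 4) (nat_lit 240) (nat_lit 217) (nat_lit 203)) (XT.nd (nat_lit 78) (nat_lit 76) (nat_lit 0) (XT.lf (nat_lit 0) (nat_lit 13882634866) (nat_lit 152) (nat_lit 9314768687) (nat_lit 0) (nat_lit 3987089579) (nat_lit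 8) (nat_lit 5) (nat_lit 10) (nat_lit 4) (nat_lit 8) (nat_lit 4) (nat_lit 241) (nat_lit 217) (nat_lit 202)) (XT.lf (nat_lit 0) (nat_lit 4940404202) (nat_lit 76) (nat_lit 17853408691) (nat_lit 76) (nat_lit 7777015407) (nat_lit 7) (nat_lit 4) (nat_lit 8) (nat_lit 5) (nat_lit 8) (nat_lit 4) (nat_lit 242) (nat_lit 217) (nat_lit 201)))) (XT.nd (nat_lit 78) (nat_lit 152) (nat_lit 0) (XT.lf (nat_lit 0) (nat_lit 21502740301) (nat_lit 76) (nat_lit 11595853484) (nat_lit 76) (nat_lit 1362201072) (nat_lit 7) (nat_lit 4) (nat_lit 8) (nat_lit 5) (nat_lit 8) (nat_lit 4) (nat_lit 243) (nat_lit 217) (nat_lit 200)) (XT.nd (nat_lit 78) (nat_lit 0) (nat_lit 0) (XT.lf (nat_lit 0) (nat_lit 1175405822) (nat_lit 76) (nat_lit 4375462110) (nat_lit 152) (nat_lit 33385051769) (nat_lit 5) (nat_lit 5) (nat_lit 6) (nat_lit 5) (nat_lit 7) (nat_lit 4) (nat_lit 244) (nat_lit 217) (nat_lit 199)) (XT.lf (nat_lit 0) (nat_lit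 13726276162) (nat_lit 152) (nat_lit 26314936216) (nat_lit 0) (nat_lit 4013952113) (nat_lit 5) (nat_lit 5) (nat_lit 7) (nat_lit 4) (nat_lit 5) (nat_lit 4) (nat_lit 245) (nat_lit 217) (nat_lit 198))))) (XT.nd (nat_lit 234) (nat_lit 76) (nat_lit 0) (XT.nd (nat_lit 78) (nat_lit 76) (nat_lit 0) (XT.lf (nat_lit 0) (nat_lit 23094415420) (nat_lit 152) (nat_lit 13564359957) (nat_lit 0) (nat_lit 13286350233) (nat_lit 5) (nat_lit 5) (nat_lit 7) (nat_lit 4) (nat_lit 5) (nat_lit 4) (nat_lit 246) (nat_lit 217) (nat_lit 197)) (XT.nd (nat_lit 78) (nat_lit 0) (nat_lit 0) (XT.lf (nat_lit 0) (nat_lit 890456923) (nat_lit 76) (nat_lit 32864304006) (nat_lit 76) (nat_lit 22972985655) (nat_lit 4) (nat_lit 4) (nat_lit 5) (nat_lit 5) (nat_lit 5) (nat_lit 4) (nat_lit 247) (nat_lit 217) (nat_lit 196)) (XT.lf (nat_lit 0) (nat_lit 18103428575) (nat_lit 76) (nat_lit 28183178456) (nat_lit 76) (nat_lit 18219466050) (nat_lit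 4) (nat_lit 4) (nat_lit 5) (nat_lit 5) (nat_lit 5) (nat_lit 4) (nat_lit 248) (nat_lit 217) (nat_lit 195)))) (XT.nd (nat_lit 78) (nat_lit 76) (nat_lit 0) (XT.lf (nat_lit 0) (nat_lit 37697055371) (nat_lit 76) (nat_lit 22894685128) (nat_lit 76) (nat_lit 12868021370) (nat_lit 4) (nat_lit 4) (nat_lit 5) (nat_lit 5) (nat_lit 5) (nat_lit 4) (nat_lit 249) (nat_lit 217) (nat_lit 194)) (XT.nd (nat_lit 78) (nat_lit 76) (nat_lit 0) (XT.lf (nat_lit 0) (nat_lit 60054690881) (nat_lit 76) (nat_lit 16895353500) (nat_lit 76) (nat_lit 6813949436) (nat_lit 4) (nat_lit 4) (nat_lit 5) (nat_lit 5) (nat_lit 5) (nat_lit 4) (nat_lit 250) (nat_lit 217) (nat_lit 193)) (XT.lf (nat_lit 0) (nat_lit 58137563) (nat_lit 152) (nat_lit 10008078198) (nat_lit 76) (nat_lit 85554039955) (nat_lit 3) (nat_lit 5) (nat_lit 5) (nat_lit 5) (nat_lit 4) (nat_lit 4) (nat_lit 251) (nat_lit 217) (nat_lit 192))))))))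
noncomputable def xc20 : XT := (XT.nd (nat_lit 1794) (nat_lit 0) (nat_lit 0) (XT.nd (nat_lit 858) (nat_lit 76) (nat_lit 0) (XT.nd (nat_lit 390) (nat_lit 0) (nat_lit 0) (XT.nd (nat_lit 156) (nat_lit 0) (nat_lit 0) (XT.nd (nat_lit 78) (nat_lit 0) (nat_lit 0) (XT.lf (nat_lit 0) (nat_lit 5709279457) (nat_lit 76) (nat_lit 1925179832) (nat_lit 152) (nat_lit 101600245393) (nat_lit 2) (nat_lit 5) (nat_lit 3) (nat_lit 5) (nat_lit 4) (nat_lit 4) (nat_lit 252) (nat_lit 217) (nat_lit 191)) (XT.lf (nat_lit 0) (nat_lit 16758093038) (nat_lit 152) (nat_lit 100792675390) (nat_lit 0) (nat_lit 7307733310) (nat_lit 2) (nat_lit 5) (nat_lit 4) (nat_lit 4) (nat_lit 2) (nat_lit 4) (nat_lit 253) (nat_lit 217) (nat_lit 190))) (XT.nd (nat_lit 78) (nat_lit 0) (nat_lit 0) (XT.lf (nat_lit 0) (nat_lit 27245309617) (nat_lit 152) (nat_lit 97815028750) (nat_lit 0) (nat_lit 17765970307) (nat_lit 2) (nat_lit 5) (nat_lit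 4) (nat_lit 4) (nat_lit 2) (nat_lit 4) (nat_lit 254) (nat_lit 217) (nat_lit 189)) (XT.nd (nat_lit 78) (nat_lit 0) (nat_lit 0) (XT.lf (nat_lit 0) (nat_lit 39254993076) (nat_lit 152) (nat_lit 94487926382) (nat_lit 0) (nat_lit 29750454130) (nat_lit 2) (nat_lit 5) (nat_lit 4) (nat_lit 4) (nat_lit 2) (nat_lit 4) (nat_lit 255) (nat_lit 217) (nat_lit 188)) (XT.lf (nat_lit 0) (nat_lit 53022115485) (nat_lit 152) (nat_lit 90746272803) (nat_lit 0) (nat_lit 43495663812) (nat_lit 2) (nat_lit 5) (nat_lit 4) (nat_lit 4) (nat_lit 2) (nat_lit 4) (nat_lit 256) (nat_lit 217) (nat_lit 187))))) (XT.nd (nat_lit 234) (nat_lit 0) (nat_lit 0) (XT.nd (nat_lit 78) (nat_lit 0) (nat_lit 0) (XT.lf (nat_lit 0) (nat_lit 68816033585) (nat_lit 152) (nat_lit 86516861749) (nat_lit 0) (nat_lit 59270527367) (nat_lit 2) (nat_lit 5) (nat_lit 4) (nat_lit 4) (nat_lit 2) (nat_lit 4) (nat_lit 257) (nat_lit 217) (nat_lit 186)) (XT.nd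 (nat_lit 78) (nat_lit 0) (nat_lit 0) (XT.lf (nat_lit 0) (nat_lit 86945758818) (nat_lit 152) (nat_lit 81716943872) (nat_lit 0) (nat_lit 77383683430) (nat_lit 2) (nat_lit 5) (nat_lit 4) (nat_lit 4) (nat_lit 2) (nat_lit 4) (nat_lit 258) (nat_lit 217) (nat_lit 185)) (XT.lf (nat_lit 0) (nat_lit 107766003199) (nat_lit 152) (nat_lit 76252607736) (nat_lit 0) (nat_lit 98189519837) (nat_lit 2) (nat_lit 5) (nat_lit 4) (nat_lit 4) (nat_lit 2) (nat_lit 4) (nat_lit 259) (nat_lit 217) (nat_lit 184)))) (XT.nd (nat_lit 78) (nat_lit 0) (nat_lit 0) (XT.lf (nat_lit 0) (nat_lit 131684119335) (nat_lit 152) (nat_lit 70016942416) (nat_lit 0) (nat_lit 122095107301) (nat_lit 2) (nat_lit 5) (nat_lit 4) (nat_lit 4) (nat_lit 2) (nat_lit 4) (nat_lit 260) (nat_lit 217) (nat_lit 183)) (XT.nd (nat_lit 78) (nat_lit 0) (nat_lit 0) (XT.lf (nat_lit 0) (nat_lit 159168070369) (nat_lit 152) (nat_lit 62887945765) (nat_lit 0)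 (nat_lit 149568163837) (nat_lit 2) (nat_lit 5) (nat_lit 4) (nat_lit 4) (nat_lit 2) (nat_lit 4) (nat_lit 261) (nat_lit 217) (nat_lit 182)) (XT.lf (nat_lit 0) (nat_lit 190755585777) (nat_lit 152) (nat_lit 54726137413) (nat_lit 0) (nat_lit 181146205769) (nat_lit 2) (nat_lit 5) (nat_lit 4) (nat_lit 4) (nat_lit 2) (nat_lit 4) (nat_lit 262) (nat_lit 217) (nat_lit 181)))))) (XT.nd (nat_lit 468) (nat_lit 0) (nat_lit 0) (XT.nd (nat_lit 234) (nat_lit 76) (nat_lit 0) (XT.nd (nat_lit 78) (nat_lit 0) (nat_lit 0) (XT.lf (nat_lit 0) (nat_lit 227064682166) (nat_lit 152) (nat_lit 45371829806) (nat_lit 0) (nat_lit 217447064351) (nat_lit 2) (nat_lit 5) (nat_lit 4) (nat_lit 4) (nat_lit 2) (nat_lit 4) (nat_lit 263) (nat_lit 217) (nat_lit 180)) (XT.nd (nat_lit 78) (nat_lit 0) (nat_lit 0) (XT.lf (nat_lit 0) (nat_lit 268805754898) (nat_lit 152) (nat_lit 34642003883) (nat_lit 0) (nat_lit 259180973774) (nat_lit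 2) (nat_lit 5) (nat_lit 4) (nat_lit 4) (nat_lit 2) (nat_lit 4) (nat_lit 264) (nat_lit 217) (nat_lit 179)) (XT.lf (nat_lit 0) (nat_lit 316795477136) (nat_lit 152) (nat_lit 22326728265) (nat_lit 0) (nat_lit 307164467048) (nat_lit 2) (nat_lit 5) (nat_lit 4) (nat_lit 4) (nat_lit 2) (nat_lit 4) (nat_lit 265) (nat_lit 217) (nat_lit 178)))) (XT.nd (nat_lit 78) (nat_lit 76) (nat_lit 0) (XT.lf (nat_lit 0) (nat_lit 371972778229) (nat_lit 152) (nat_lit 8185051909) (nat_lit 0) (nat_lit 362336351650) (nat_lit 2) (nat_lit 5) (nat_lit 4) (nat_lit 4) (nat_lit 2) (nat_lit 4) (nat_lit 266) (nat_lit 217) (nat_lit 177)) (XT.nd (nat_lit 78) (nat_lit 0) (nat_lit 0) (XT.lf (nat_lit 0) (nat_lit 8484120210) (nat_lit 76) (nat_lit 427137137152) (nat_lit 76) (nat_lit 417496000580) (nat_lit 1) (nat_lit 4) (nat_lit 2) (nat_lit 5) (nat_lit 2) (nat_lit 4) (nat_lit 267) (nat_lit 217) (nat_lit 176)) (XT.lf (nat_lit 0)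 (nat_lit 28132701924) (nat_lit 76) (nat_lit 480913979064) (nat_lit 76) (nat_lit 471268746847) (nat_lit 1) (nat_lit 4) (nat_lit 2) (nat_lit 5) (nat_lit 2) (nat_lit 4) (nat_lit 268) (nat_lit 217) (nat_lit 175))))) (XT.nd (nat_lit 234) (nat_lit 0) (nat_lit 0) (XT.nd (nat_lit 78) (nat_lit 0) (nat_lit 0) (XT.lf (nat_lit 0) (nat_lit 50714111674) (nat_lit 76) (nat_lit 542764305303) (nat_lit 76) (nat_lit 533115511656) (nat_lit 1) (nat_lit 4) (nat_lit 2) (nat_lit 5) (nat_lit 2) (nat_lit 4) (nat_lit 269) (nat_lit 217) (nat_lit 174)) (XT.nd (nat_lit 78) (nat_lit 0) (nat_lit 0) (XT.lf (nat_lit 0) (nat_lit 76670159652) (nat_lit 76) (nat_lit 613898230948) (nat_lit 76) (nat_lit 604246340404) (nat_lit 1) (nat_lit 4) (nat_lit 2) (nat_lit 5) (nat_lit 2) (nat_lit 4) (nat_lit 270) (nat_lit 217) (nat_lit 173)) (XT.lf (nat_lit 0) (nat_lit 106508681579) (nat_lit 76) (nat_lit 695707506717) (nat_lit 76) (nat_lit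 686052923220) (nat_lit 1) (nat_lit 4) (nat_lit 2) (nat_lit 5) (nat_lit 2) (nat_lit 4) (nat_lit 271) (nat_lit 217) (nat_lit 172)))) (XT.nd (nat_lit 78) (nat_lit 0) (nat_lit 0) (XT.lf (nat_lit 0) (nat_lit 140813474623) (nat_lit 76) (nat_lit 789792748875) (nat_lit 76) (nat_lit 780135823680) (nat_lit 1) (nat_lit 4) (nat_lit 2) (nat_lit 5) (nat_lit 2) (nat_lit 4) (nat_lit 272) (nat_lit 217) (nat_lit 171)) (XT.nd (nat_lit 78) (nat_lit 0) (nat_lit 0) (XT.lf (nat_lit 0) (nat_lit 180255719517) (nat_lit 76) (nat_lit 897994755639) (nat_lit 76) (nat_lit 888335794184) (nat_lit 1) (nat_lit 4) (nat_lit 2) (nat_lit 5) (nat_lit 2) (nat_lit 4) (nat_lit 273) (nat_lit 217) (nat_lit 170)) (XT.lf (nat_lit 0) (nat_lit 225607112358) (nat_lit 76) (nat_lit 1022430522794) (nat_lit 76) (nat_lit 1012769790678) (nat_lit 1) (nat_lit 4) (nat_lit 2) (nat_lit 5) (nat_lit 2) (nat_lit 4) (nat_lit 274) (nat_lit 217) (nat_lit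 169))))))) (XT.nd (nat_lit 30420) (nat_lit 0) (nat_lit 1140) (XT.nd (nat_lit 390) (nat_lit 0) (nat_lit 0) (XT.nd (nat_lit 156) (nat_lit 0) (nat_lit 0) (XT.nd (nat_lit 78) (nat_lit 0) (nat_lit 0) (XT.lf (nat_lit 0) (nat_lit 277754963005) (nat_lit 76) (nat_lit 1165534663174) (nat_lit 76) (nat_lit 1155872391353) (nat_lit 1) (nat_lit 4) (nat_lit 2) (nat_lit 5) (nat_lit 2) (nat_lit 4) (nat_lit 275) (nat_lit 217) (nat_lit 168)) (XT.lf (nat_lit 0) (nat_lit 337719555493) (nat_lit 76) (nat_lit 1330107040396) (nat_lit 76) (nat_lit 1320443429702) (nat_lit 1) (nat_lit 4) (nat_lit 2) (nat_lit 5) (nat_lit 2) (nat_lit 4) (nat_lit 276) (nat_lit 217) (nat_lit 167))) (XT.nd (nat_lit 78) (nat_lit 0) (nat_lit 0) (XT.lf (nat_lit 0) (nat_lit 406674110110) (nat_lit 76) (nat_lit 1519367548797) (nat_lit 76) (nat_lit 1509702773865) (nat_lit 1) (nat_lit 4) (nat_lit 2) (nat_lit 5) (nat_lit 2) (nat_lit 4) (nat_lit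 277) (nat_lit 217) (nat_lit 166)) (XT.nd (nat_lit 78) (nat_lit 0) (nat_lit 0) (XT.lf (nat_lit 0) (nat_lit 485967737706) (nat_lit 76) (nat_lit 1737019111367) (nat_lit 76) (nat_lit 1727353324054) (nat_lit 1) (nat_lit 4) (nat_lit 2) (nat_lit 5) (nat_lit 2) (nat_lit 4) (nat_lit 278) (nat_lit 217) (nat_lit 165)) (XT.lf (nat_lit 0) (nat_lit 577151835343) (nat_lit 76) (nat_lit 1987320128244) (nat_lit 76) (nat_lit 1977653460600) (nat_lit 1) (nat_lit 4) (nat_lit 2) (nat_lit 5) (nat_lit 2) (nat_lit 4) (nat_lit 279) (nat_lit 217) (nat_lit 164))))) (XT.nd (nat_lit 234) (nat_lit 0) (nat_lit 0) (XT.nd (nat_lit 78) (nat_lit 0) (nat_lit 0) (XT.lf (nat_lit 0) (nat_lit 682010439715) (nat_lit 76) (nat_lit 2275167793236) (nat_lit 76) (nat_lit 2265500360086) (nat_lit 1) (nat_lit 4) (nat_lit 2) (nat_lit 5) (nat_lit 2) (nat_lit 4) (nat_lit 280) (nat_lit 217) (nat_lit 163)) (XT.nd (nat_lit 78) (nat_lit 0) (nat_lit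 0) (XT.lf (nat_lit 0) (nat_lit 802595132211) (nat_lit 76) (nat_lit 2606193908484) (nat_lit 76) (nat_lit 2596525809677) (nat_lit 1) (nat_lit 4) (nat_lit 2) (nat_lit 5) (nat_lit 2) (nat_lit 4) (nat_lit 281) (nat_lit 217) (nat_lit 162)) (XT.lf (nat_lit 0) (nat_lit 941265178553) (nat_lit 76) (nat_lit 2986875071895) (nat_lit 76) (nat_lit 2977206394257) (nat_lit 1) (nat_lit 4) (nat_lit 2) (nat_lit 5) (nat_lit 2) (nat_lit 4) (nat_lit 282) (nat_lit 217) (nat_lit 161)))) (XT.nd (nat_lit 78) (nat_lit 0) (nat_lit 0) (XT.lf (nat_lit 0) (nat_lit 1100733688345) (nat_lit 76) (nat_lit 3424659393189) (nat_lit 76) (nat_lit 3414990212218) (nat_lit 1) (nat_lit 4) (nat_lit 2) (nat_lit 5) (nat_lit 2) (nat_lit 4) (nat_lit 283) (nat_lit 217) (nat_lit 160)) (XT.nd (nat_lit 78) (nat_lit 0) (nat_lit 0) (XT.lf (nat_lit 0) (nat_lit 1284120697648) (nat_lit 76) (nat_lit 3928112217781) (nat_lit 76) (nat_lit 3918442599130)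 (nat_lit 1) (nat_lit 4) (nat_lit 2) (nat_lit 5) (nat_lit 2) (nat_lit 4) (nat_lit 284) (nat_lit 217) (nat_lit 159)) (XT.lf (nat_lit 0) (nat_lit 1495014213164) (nat_lit 76) (nat_lit 4507083709631) (nat_lit 76) (nat_lit 4497413710389) (nat_lit 1) (nat_lit 4) (nat_lit 2) (nat_lit 5) (nat_lit 2) (nat_lit 4) (nat_lit 285) (nat_lit 217) (nat_lit 158)))))) (XT.nd (nat_lit 468) (nat_lit 1064) (nat_lit 0) (XT.nd (nat_lit 234) (nat_lit 836) (nat_lit 0) (XT.nd (nat_lit 78) (nat_lit 1292) (nat_lit 0) (XT.lf (nat_lit 0) (nat_lit 3363965571) (nat_lit 228) (nat_lit 30472665) (nat_lit 228) (nat_lit 30472665) (nat_lit 58) (nat_lit 4) (nat_lit 61) (nat_lit 5) (nat_lit 61) (nat_lit 4) (nat_lit 224) (nat_lit 218) (nat_lit 218)) (XT.nd (nat_lit 78) (nat_lit 532) (nat_lit 0) (XT.lf (nat_lit 0) (nat_lit 937164422) (nat_lit 380) (nat_lit 4642400992) (nat_lit 380) (nat_lit 1510058860) (nat_lit 48) (nat_lit 4)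 (nat_lit 53) (nat_lit 5) (nat_lit 53) (nat_lit 4) (nat_lit 225) (nat_lit 218) (nat_lit 217)) (XT.lf (nat_lit 0) (nat_lit 2260471204) (nat_lit 456) (nat_lit 1641735094) (nat_lit 532) (nat_lit 3502605924) (nat_lit 41) (nat_lit 5) (nat_lit 47) (nat_lit 5) (nat_lit 48) (nat_lit 4) (nat_lit 226) (nat_lit 218) (nat_lit 216)))) (XT.nd (nat_lit 78) (nat_lit 532) (nat_lit 0) (XT.lf (nat_lit 0) (nat_lit 1727077355) (nat_lit 304) (nat_lit 4023066661) (nat_lit 76) (nat_lit 2047219925) (nat_lit 37) (nat_lit 5) (nat_lit 41) (nat_lit 5) (nat_lit 38) (nat_lit 4) (nat_lit 227) (nat_lit 218) (nat_lit 215)) (XT.nd (nat_lit 78) (nat_lit 304) (nat_lit 0) (XT.lf (nat_lit 0) (nat_lit 5428244156) (nat_lit 228) (nat_lit 1759562133) (nat_lit 304) (nat_lit 1084036005) (nat_lit 34) (nat_lit 5) (nat_lit 37) (nat_lit 5) (nat_lit 38) (nat_lit 4) (nat_lit 228) (nat_lit 218) (nat_lit 214)) (XT.lf (nat_lit 0) (nat_lit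 4157913278) (nat_lit 304) (nat_lit 1704001922) (nat_lit 76) (nat_lit 2969526218) (nat_lit 30) (nat_lit 5) (nat_lit 34) (nat_lit 5) (nat_lit 31) (nat_lit 4) (nat_lit 229) (nat_lit 218) (nat_lit 213))))) (XT.nd (nat_lit 234) (nat_lit 304) (nat_lit 0) (XT.nd (nat_lit 78) (nat_lit 532) (nat_lit 0) (XT.lf (nat_lit 0) (nat_lit 392480315) (nat_lit 228) (nat_lit 586925611) (nat_lit 76) (nat_lit 8511727418) (nat_lit 27) (nat_lit 5) (nat_lit 30) (nat_lit 5) (nat_lit 28) (nat_lit 5) (nat_lit 230) (nat_lit 218) (nat_lit 212)) (XT.nd (nat_lit 78) (nat_lit 228) (nat_lit 0) (XT.lf (nat_lit 0) (nat_lit 287071638) (nat_lit 152) (nat_lit 5570595213) (nat_lit 228) (nat_lit 4390609570) (nat_lit 23) (nat_lit 5) (nat_lit 25) (nat_lit 5) (nat_lit 26) (nat_lit 4) (nat_lit 231) (nat_lit 218) (nat_lit 211)) (XT.lf (nat_lit 0) (nat_lit 840214640) (nat_lit 228) (nat_lit 10133523203) (nat_lit 76) (nat_lit 155059821)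 (nat_lit 20) (nat_lit 5) (nat_lit 23) (nat_lit 5) (nat_lit 21) (nat_lit 4) (nat_lit 232) (nat_lit 218) (nat_lit 210)))) (XT.nd (nat_lit 78) (nat_lit 228) (nat_lit 0) (XT.lf (nat_lit 0) (nat_lit 1133189284) (nat_lit 76) (nat_lit 5485563664) (nat_lit 152) (nat_lit 5512718030) (nat_lit 19) (nat_lit 5) (nat_lit 20) (nat_lit 5) (nat_lit 21) (nat_lit 4) (nat_lit 233) (nat_lit 218) (nat_lit 209)) (XT.nd (nat_lit 78) (nat_lit 76) (nat_lit 0) (XT.lf (nat_lit 0) (nat_lit 765060437) (nat_lit 152) (nat_lit 12415522517) (nat_lit 152) (nat_lit 111547820) (nat_lit 17) (nat_lit 4) (nat_lit 19) (nat_lit 5) (nat_lit 19) (nat_lit 4) (nat_lit 234) (nat_lit 218) (nat_lit 208)) (XT.lf (nat_lit 0) (nat_lit 5879939109) (nat_lit 228) (nat_lit 600654505) (nat_lit 76) (nat_lit 8128467436) (nat_lit 16) (nat_lit 5) (nat_lit 19) (nat_lit 5) (nat_lit 17) (nat_lit 4) (nat_lit 235) (nat_lit 218) (nat_lit 207))))))))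
noncomputable def xc21 : XT := (XT.nd (nat_lit 1794) (nat_lit 76) (nat_lit 0) (XT.nd (nat_lit 858) (nat_lit 228) (nat_lit 0) (XT.nd (nat_lit 390) (nat_lit 304) (nat_lit 0) (XT.nd (nat_lit 156) (nat_lit 228) (nat_lit 0) (XT.nd (nat_lit 78) (nat_lit 228) (nat_lit 0) (XT.lf (nat_lit 0) (nat_lit 12749135113) (nat_lit 152) (nat_lit 2931582813) (nat_lit 0) (nat_lit 444368455) (nat_lit 15) (nat_lit 5) (nat_lit 17) (nat_lit 4) (nat_lit 15) (nat_lit 4) (nat_lit 236) (nat_lit 218) (nat_lit 206)) (XT.lf (nat_lit 0) (nat_lit 2791490469) (nat_lit 228) (nat_lit 6867403790) (nat_lit 76) (nat_lit 8192753313) (nat_lit 12) (nat_lit 5) (nat_lit 15) (nat_lit 5) (nat_lit 13) (nat_lit 4) (nat_lit 237) (nat_lit 218) (nat_lit 205))) (XT.nd (nat_lit 78) (nat_lit 152) (nat_lit 0) (XT.lf (nat_lit 0) (nat_lit 7083981968) (nat_lit 76) (nat_lit 2569143505) (nat_lit 152) (nat_lit 10179979110) (nat_lit 11) (nat_lit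 5) (nat_lit 12) (nat_lit 5) (nat_lit 13) (nat_lit 4) (nat_lit 238) (nat_lit 218) (nat_lit 204)) (XT.nd (nat_lit 78) (nat_lit 76) (nat_lit 0) (XT.lf (nat_lit 0) (nat_lit 868845715) (nat_lit 76) (nat_lit 16763269622) (nat_lit 76) (nat_lit 4473002375) (nat_lit 10) (nat_lit 4) (nat_lit 11) (nat_lit 5) (nat_lit 11) (nat_lit 4) (nat_lit 239) (nat_lit 218) (nat_lit 203)) (XT.lf (nat_lit 0) (nat_lit 2183253406) (nat_lit 152) (nat_lit 7973713373) (nat_lit 76) (nat_lit 14541433177) (nat_lit 9) (nat_lit 5) (nat_lit 11) (nat_lit 5) (nat_lit 10) (nat_lit 4) (nat_lit 240) (nat_lit 218) (nat_lit 202))))) (XT.nd (nat_lit 234) (nat_lit 152) (nat_lit 0) (XT.nd (nat_lit 78) (nat_lit 76) (nat_lit 0) (XT.lf (nat_lit 0) (nat_lit 7113795106) (nat_lit 76) (nat_lit 2416969990) (nat_lit 152) (nat_lit 18144271841) (nat_lit 8) (nat_lit 5) (nat_lit 9) (nat_lit 5) (nat_lit 10) (nat_lit 4) (nat_lit 241) (nat_lit 218)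 (nat_lit 201)) (XT.nd (nat_lit 78) (nat_lit 76) (nat_lit 0) (XT.lf (nat_lit 0) (nat_lit 18169761327) (nat_lit 152) (nat_lit 6669692794) (nat_lit 0) (nat_lit 6243801927) (nat_lit 8) (nat_lit 5) (nat_lit 10) (nat_lit 4) (nat_lit 8) (nat_lit 4) (nat_lit 242) (nat_lit 218) (nat_lit 200)) (XT.lf (nat_lit 0) (nat_lit 9381596213) (nat_lit 76) (nat_lit 18837434456) (nat_lit 76) (nat_lit 6774727988) (nat_lit 7) (nat_lit 4) (nat_lit 8) (nat_lit 5) (nat_lit 8) (nat_lit 4) (nat_lit 243) (nat_lit 218) (nat_lit 199)))) (XT.nd (nat_lit 78) (nat_lit 76) (nat_lit 0) (XT.lf (nat_lit 0) (nat_lit 303437858) (nat_lit 152) (nat_lit 11550466216) (nat_lit 76) (nat_lit 27633922507) (nat_lit 6) (nat_lit 5) (nat_lit 8) (nat_lit 5) (nat_lit 7) (nat_lit 4) (nat_lit 244) (nat_lit 218) (nat_lit 198)) (XT.nd (nat_lit 78) (nat_lit 0) (nat_lit 0) (XT.lf (nat_lit 0) (nat_lit 4384856558) (nat_lit 76) (nat_lit 3629505917)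 (nat_lit 152) (nat_lit 36629934186) (nat_lit 5) (nat_lit 5) (nat_lit 6) (nat_lit 5) (nat_lit 7) (nat_lit 4) (nat_lit 245) (nat_lit 218) (nat_lit 197)) (XT.lf (nat_lit 0) (nat_lit 17232686379) (nat_lit 152) (nat_lit 27539197431) (nat_lit 0) (nat_lit 5774417113) (nat_lit 5) (nat_lit 5) (nat_lit 7) (nat_lit 4) (nat_lit 5) (nat_lit 4) (nat_lit 246) (nat_lit 218) (nat_lit 196)))))) (XT.nd (nat_lit 468) (nat_lit 76) (nat_lit 0) (XT.nd (nat_lit 234) (nat_lit 76) (nat_lit 0) (XT.nd (nat_lit 78) (nat_lit 76) (nat_lit 0) (XT.lf (nat_lit 0) (nat_lit 27817246248) (nat_lit 152) (nat_lit 13231205936) (nat_lit 0) (nat_lit 16286582927) (nat_lit 5) (nat_lit 5) (nat_lit 7) (nat_lit 4) (nat_lit 5) (nat_lit 4) (nat_lit 247) (nat_lit 218) (nat_lit 195)) (XT.nd (nat_lit 78) (nat_lit 0) (nat_lit 0) (XT.lf (nat_lit 0) (nat_lit 3191410322) (nat_lit 76) (nat_lit 36773184766) (nat_lit 76) (nat_lit 25179570092)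 (nat_lit 4) (nat_lit 4) (nat_lit 5) (nat_lit 5) (nat_lit 5) (nat_lit 4) (nat_lit 248) (nat_lit 218) (nat_lit 194)) (XT.lf (nat_lit 0) (nat_lit 22703625348) (nat_lit 76) (nat_lit 31523033624) (nat_lit 76) (nat_lit 19874678644) (nat_lit 4) (nat_lit 4) (nat_lit 5) (nat_lit 5) (nat_lit 5) (nat_lit 4) (nat_lit 249) (nat_lit 218) (nat_lit 193)))) (XT.nd (nat_lit 78) (nat_lit 76) (nat_lit 0) (XT.lf (nat_lit 0) (nat_lit 44990468013) (nat_lit 76) (nat_lit 25557043028) (nat_lit 76) (nat_lit 13861087781) (nat_lit 4) (nat_lit 4) (nat_lit 5) (nat_lit 5) (nat_lit 5) (nat_lit 4) (nat_lit 250) (nat_lit 218) (nat_lit 192)) (XT.nd (nat_lit 78) (nat_lit 76) (nat_lit 0) (XT.lf (nat_lit 0) (nat_lit 70487985240) (nat_lit 76) (nat_lit 18758487074) (nat_lit 76) (nat_lit 7021140291) (nat_lit 4) (nat_lit 4) (nat_lit 5) (nat_lit 5) (nat_lit 5) (nat_lit 4) (nat_lit 251) (nat_lit 218) (nat_lit 191)) (XT.lf (nat_lit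 0) (nat_lit 740020706) (nat_lit 152) (nat_lit 10234096353) (nat_lit 76) (nat_lit 98934787312) (nat_lit 3) (nat_lit 5) (nat_lit 5) (nat_lit 5) (nat_lit 4) (nat_lit 4) (nat_lit 252) (nat_lit 218) (nat_lit 190))))) (XT.nd (nat_lit 234) (nat_lit 0) (nat_lit 0) (XT.nd (nat_lit 78) (nat_lit 0) (nat_lit 0) (XT.lf (nat_lit 0) (nat_lit 7732926166) (nat_lit 76) (nat_lit 1660133226) (nat_lit 152) (nat_lit 116177309799) (nat_lit 2) (nat_lit 5) (nat_lit 3) (nat_lit 5) (nat_lit 4) (nat_lit 4) (nat_lit 253) (nat_lit 218) (nat_lit 189)) (XT.nd (nat_lit 78) (nat_lit 0) (nat_lit 0) (XT.lf (nat_lit 0) (nat_lit 19816807584) (nat_lit 152) (nat_lit 114865075383) (nat_lit 0) (nat_lit 8861388161) (nat_lit 2) (nat_lit 5) (nat_lit 4) (nat_lit 4) (nat_lit 2) (nat_lit 4) (nat_lit 254) (nat_lit 218) (nat_lit 188)) (XT.lf (nat_lit 0) (nat_lit 31806019616) (nat_lit 152) (nat_lit 111577281919) (nat_lit 0) (nat_lit 20828687466)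 (nat_lit 2) (nat_lit 5) (nat_lit 4) (nat_lit 4) (nat_lit 2) (nat_lit 4) (nat_lit 255) (nat_lit 218) (nat_lit 187)))) (XT.nd (nat_lit 78) (nat_lit 0) (nat_lit 0) (XT.lf (nat_lit 0) (nat_lit 45555340783) (nat_lit 152) (nat_lit 107869809996) (nat_lit 0) (nat_lit 34558954087) (nat_lit 2) (nat_lit 5) (nat_lit 4) (nat_lit 4) (nat_lit 2) (nat_lit 4) (nat_lit 256) (nat_lit 218) (nat_lit 186)) (XT.nd (nat_lit 78) (nat_lit 0) (nat_lit 0) (XT.lf (nat_lit 0) (nat_lit 61333779542) (nat_lit 152) (nat_lit 103670122121) (nat_lit 0) (nat_lit 50320823677) (nat_lit 2) (nat_lit 5) (nat_lit 4) (nat_lit 4) (nat_lit 2) (nat_lit 4) (nat_lit 257) (nat_lit 218) (nat_lit 185)) (XT.lf (nat_lit 0) (nat_lit 79450044479) (nat_lit 152) (nat_lit 98896050487) (nat_lit 0) (nat_lit 68422680640) (nat_lit 2) (nat_lit 5) (nat_lit 4) (nat_lit 4) (nat_lit 2) (nat_lit 4) (nat_lit 258) (nat_lit 218) (nat_lit 184))))))) (XT.nd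 (nat_lit 858) (nat_lit 0) (nat_lit 0) (XT.nd (nat_lit 390) (nat_lit 76) (nat_lit 0) (XT.nd (nat_lit 156) (nat_lit 0) (nat_lit 0) (XT.nd (nat_lit 78) (nat_lit 0) (nat_lit 0) (XT.lf (nat_lit 0) (nat_lit 100258584255) (nat_lit 152) (nat_lit 93454189345) (nat_lit 0) (nat_lit 89218691743) (nat_lit 2) (nat_lit 5) (nat_lit 4) (nat_lit 4) (nat_lit 2) (nat_lit 4) (nat_lit 259) (nat_lit 218) (nat_lit 183)) (XT.lf (nat_lit 0) (nat_lit 124166522474) (nat_lit 152) (nat_lit 87238067498) (nat_lit 0) (nat_lit 113115735464) (nat_lit 2) (nat_lit 5) (nat_lit 4) (nat_lit 4) (nat_lit 2) (nat_lit 4) (nat_lit 260) (nat_lit 218) (nat_lit 182))) (XT.nd (nat_lit 78) (nat_lit 0) (nat_lit 0) (XT.lf (nat_lit 0) (nat_lit 151641623144) (nat_lit 152) (nat_lit 80126065171) (nat_lit 0) (nat_lit 140581362658) (nat_lit 2) (nat_lit 5) (nat_lit 4) (nat_lit 4) (nat_lit 2) (nat_lit 4) (nat_lit 261) (nat_lit 218) (nat_lit 181))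 (XT.nd (nat_lit 78) (nat_lit 0) (nat_lit 0) (XT.lf (nat_lit 0) (nat_lit 183221442585) (nat_lit 152) (nat_lit 71979034493) (nat_lit 0) (nat_lit 172152944292) (nat_lit 2) (nat_lit 5) (nat_lit 4) (nat_lit 4) (nat_lit 2) (nat_lit 4) (nat_lit 262) (nat_lit 218) (nat_lit 180)) (XT.lf (nat_lit 0) (nat_lit 219523846827) (nat_lit 152) (nat_lit 62637577037) (nat_lit 0) (nat_lit 208448185225) (nat_lit 2) (nat_lit 5) (nat_lit 4) (nat_lit 4) (nat_lit 2) (nat_lit 4) (nat_lit 263) (nat_lit 218) (nat_lit 179))))) (XT.nd (nat_lit 234) (nat_lit 76) (nat_lit 0) (XT.nd (nat_lit 78) (nat_lit 0) (nat_lit 0) (XT.lf (nat_lit 0) (nat_lit 261259100301) (nat_lit 152) (nat_lit 51918925157) (nat_lit 0) (nat_lit 250177209735) (nat_lit 2) (nat_lit 5) (nat_lit 4) (nat_lit 4) (nat_lit 2) (nat_lit 4) (nat_lit 264) (nat_lit 218) (nat_lit 178)) (XT.nd (nat_lit 78) (nat_lit 0) (nat_lit 0) (XT.lf (nat_lit 0) (nat_lit 309243762316)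 (nat_lit 152) (nat_lit 39613366100) (nat_lit 0) (nat_lit 298156455259) (nat_lit 2) (nat_lit 5) (nat_lit 4) (nat_lit 4) (nat_lit 2) (nat_lit 4) (nat_lit 265) (nat_lit 218) (nat_lit 177)) (XT.lf (nat_lit 0) (nat_lit 364416663214) (nat_lit 152) (nat_lit 25480138926) (nat_lit 0) (nat_lit 353324646165) (nat_lit 2) (nat_lit 5) (nat_lit 4) (nat_lit 4) (nat_lit 2) (nat_lit 4) (nat_lit 266) (nat_lit 218) (nat_lit 176)))) (XT.nd (nat_lit 78) (nat_lit 76) (nat_lit 0) (XT.lf (nat_lit 0) (nat_lit 427857272796) (nat_lit 152) (nat_lit 9242723975) (nat_lit 0) (nat_lit 416761160102) (nat_lit 2) (nat_lit 5) (nat_lit 4) (nat_lit 4) (nat_lit 2) (nat_lit 4) (nat_lit 267) (nat_lit 218) (nat_lit 175)) (XT.nd (nat_lit 78) (nat_lit 0) (nat_lit 0) (XT.lf (nat_lit 0) (nat_lit 9912427054) (nat_lit 76) (nat_lit 491132787435) (nat_lit 76) (nat_lit 480033113309) (nat_lit 1) (nat_lit 4) (nat_lit 2) (nat_lit 5) (nat_lit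 2) (nat_lit 4) (nat_lit 268) (nat_lit 218) (nat_lit 174)) (XT.lf (nat_lit 0) (nat_lit 32487988788) (nat_lit 76) (nat_lit 552985927846) (nat_lit 76) (nat_lit 541883156824) (nat_lit 1) (nat_lit 4) (nat_lit 2) (nat_lit 5) (nat_lit 2) (nat_lit 4) (nat_lit 269) (nat_lit 218) (nat_lit 173)))))) (XT.nd (nat_lit 468) (nat_lit 0) (nat_lit 0) (XT.nd (nat_lit 234) (nat_lit 0) (nat_lit 0) (XT.nd (nat_lit 78) (nat_lit 0) (nat_lit 0) (XT.lf (nat_lit 0) (nat_lit 58438951534) (nat_lit 76) (nat_lit 624122300596) (nat_lit 76) (nat_lit 613016836621) (nat_lit 1) (nat_lit 4) (nat_lit 2) (nat_lit 5) (nat_lit 2) (nat_lit 4) (nat_lit 270) (nat_lit 218) (nat_lit 172)) (XT.nd (nat_lit 78) (nat_lit 0) (nat_lit 0) (XT.lf (nat_lit 0) (nat_lit 88273051520) (nat_lit 76) (nat_lit 705933704283) (nat_lit 76) (nat_lit 694825898610) (nat_lit 1) (nat_lit 4) (nat_lit 2) (nat_lit 5) (nat_lit 2) (nat_lit 4) (nat_lit 271) (nat_lit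 218) (nat_lit 171)) (XT.lf (nat_lit 0) (nat_lit 122573999399) (nat_lit 76) (nat_lit 800020796805) (nat_lit 76) (nat_lit 788910954873) (nat_lit 1) (nat_lit 4) (nat_lit 2) (nat_lit 5) (nat_lit 2) (nat_lit 4) (nat_lit 272) (nat_lit 218) (nat_lit 170)))) (XT.nd (nat_lit 78) (nat_lit 0) (nat_lit 0) (XT.lf (nat_lit 0) (nat_lit 162012900671) (nat_lit 76) (nat_lit 908224412581) (nat_lit 76) (nat_lit 897112799988) (nat_lit 1) (nat_lit 4) (nat_lit 2) (nat_lit 5) (nat_lit 2) (nat_lit 4) (nat_lit 273) (nat_lit 218) (nat_lit 169)) (XT.nd (nat_lit 78) (nat_lit 0) (nat_lit 0) (XT.lf (nat_lit 0) (nat_lit 207361386014) (nat_lit 76) (nat_lit 1032661578877) (nat_lit 76) (nat_lit 1021548426578) (nat_lit 1) (nat_lit 4) (nat_lit 2) (nat_lit 5) (nat_lit 2) (nat_lit 4) (nat_lit 274) (nat_lit 218) (nat_lit 168)) (XT.lf (nat_lit 0) (nat_lit 259506708403) (nat_lit 76) (nat_lit 1175766935901) (nat_lit 76) (nat_lit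 1164652444729) (nat_lit 1) (nat_lit 4) (nat_lit 2) (nat_lit 5) (nat_lit 2) (nat_lit 4) (nat_lit 275) (nat_lit 218) (nat_lit 167))))) (XT.nd (nat_lit 234) (nat_lit 0) (nat_lit 0) (XT.nd (nat_lit 78) (nat_lit 0) (nat_lit 0) (XT.lf (nat_lit 0) (nat_lit 319469102405) (nat_lit 76) (nat_lit 1340340371074) (nat_lit 76) (nat_lit 1329224715664) (nat_lit 1) (nat_lit 4) (nat_lit 2) (nat_lit 5) (nat_lit 2) (nat_lit 4) (nat_lit 276) (nat_lit 218) (nat_lit 166)) (XT.nd (nat_lit 78) (nat_lit 0) (nat_lit 0) (XT.lf (nat_lit 0) (nat_lit 388421745294) (nat_lit 76) (nat_lit 1529601799433) (nat_lit 76) (nat_lit 1518485131642) (nat_lit 1) (nat_lit 4) (nat_lit 2) (nat_lit 5) (nat_lit 2) (nat_lit 4) (nat_lit 277) (nat_lit 218) (nat_lit 165)) (XT.lf (nat_lit 0) (nat_lit 467713710519) (nat_lit 76) (nat_lit 1747254161967) (nat_lit 76) (nat_lit 1736136613845) (nat_lit 1) (nat_lit 4) (nat_lit 2) (nat_lit 5) (nat_lit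 2) (nat_lit 4) (nat_lit 278) (nat_lit 218) (nat_lit 164)))) (XT.nd (nat_lit 78) (nat_lit 0) (nat_lit 0) (XT.lf (nat_lit 0) (nat_lit 558896362617) (nat_lit 76) (nat_lit 1997555874464) (nat_lit 76) (nat_lit 1986437560836) (nat_lit 1) (nat_lit 4) (nat_lit 2) (nat_lit 5) (nat_lit 2) (nat_lit 4) (nat_lit 279) (nat_lit 218) (nat_lit 163)) (XT.nd (nat_lit 78) (nat_lit 0) (nat_lit 0) (XT.lf (nat_lit 0) (nat_lit 663753709997) (nat_lit 76) (nat_lit 2285404144343) (nat_lit 76) (nat_lit 2274285165058) (nat_lit 1) (nat_lit 4) (nat_lit 2) (nat_lit 5) (nat_lit 2) (nat_lit 4) (nat_lit 280) (nat_lit 218) (nat_lit 162)) (XT.lf (nat_lit 0) (nat_lit 784337309457) (nat_lit 76) (nat_lit 2616430785580) (nat_lit 76) (nat_lit 2605311227463) (nat_lit 1) (nat_lit 4) (nat_lit 2) (nat_lit 5) (nat_lit 2) (nat_lit 4) (nat_lit 281) (nat_lit 218) (nat_lit 161))))))))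
noncomputable def xc22 : XT := (XT.nd (nat_lit 31200) (nat_lit 0) (nat_lit 76) (XT.nd (nat_lit 30264) (nat_lit 0) (nat_lit 684) (XT.nd (nat_lit 29796) (nat_lit 0) (nat_lit 2432) (XT.nd (nat_lit 156) (nat_lit 0) (nat_lit 0) (XT.nd (nat_lit 78) (nat_lit 0) (nat_lit 0) (XT.lf (nat_lit 0) (nat_lit 923006405333) (nat_lit 76) (nat_lit 2997112406372) (nat_lit 76) (nat_lit 2985992344924) (nat_lit 1) (nat_lit 4) (nat_lit 2) (nat_lit 5) (nat_lit 2) (nat_lit 4) (nat_lit 282) (nat_lit 218) (nat_lit 160)) (XT.lf (nat_lit 0) (nat_lit 1082474088633) (nat_lit 76) (nat_lit 3434897125389) (nat_lit 76) (nat_lit 3423776626260) (nat_lit 1) (nat_lit 4) (nat_lit 2) (nat_lit 5) (nat_lit 2) (nat_lit 4) (nat_lit 283) (nat_lit 218) (nat_lit 159))) (XT.nd (nat_lit 78) (nat_lit 0) (nat_lit 0) (XT.lf (nat_lit 0) (nat_lit 1265860379246) (nat_lit 76) (nat_lit 3938350295827) (nat_lit 76) (nat_lit 3927229416107) (nat_lit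 1) (nat_lit 4) (nat_lit 2) (nat_lit 5) (nat_lit 2) (nat_lit 4) (nat_lit 284) (nat_lit 218) (nat_lit 158)) (XT.nd (nat_lit 29484) (nat_lit 0) (nat_lit 4788) (XT.lf (nat_lit 0) (nat_lit 1476753269816) (nat_lit 76) (nat_lit 4517322088413) (nat_lit 76) (nat_lit 4506200877744) (nat_lit 1) (nat_lit 4) (nat_lit 2) (nat_lit 5) (nat_lit 2) (nat_lit 4) (nat_lit 285) (nat_lit 218) (nat_lit 157)) (XT.lf (nat_lit 0) (nat_lit 2744923589) (nat_lit 76) (nat_lit 262787153) (nat_lit 76) (nat_lit 262787153) (nat_lit 64) (nat_lit 4) (nat_lit 65) (nat_lit 5) (nat_lit 65) (nat_lit 4) (nat_lit 222) (nat_lit 219) (nat_lit 219))))) (XT.nd (nat_lit 234) (nat_lit 1064) (nat_lit 0) (XT.nd (nat_lit 78) (nat_lit 1064) (nat_lit 0) (XT.lf (nat_lit 0) (nat_lit 4812856873) (nat_lit 228) (nat_lit 939547148) (nat_lit 0) (nat_lit 922487945) (nat_lit 61) (nat_lit 5) (nat_lit 64) (nat_lit 4) (nat_lit 61) (nat_lit 4) (nat_lit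 223) (nat_lit 219) (nat_lit 218)) (XT.nd (nat_lit 78) (nat_lit 760) (nat_lit 0) (XT.lf (nat_lit 0) (nat_lit 3225840980) (nat_lit 304) (nat_lit 563549189) (nat_lit 76) (nat_lit 3088204385) (nat_lit 57) (nat_lit 5) (nat_lit 61) (nat_lit 5) (nat_lit 58) (nat_lit 4) (nat_lit 224) (nat_lit 219) (nat_lit 217)) (XT.lf (nat_lit 0) (nat_lit 79520467) (nat_lit 380) (nat_lit 1106180455) (nat_lit 456) (nat_lit 5967812267) (nat_lit 47) (nat_lit 5) (nat_lit 52) (nat_lit 5) (nat_lit 53) (nat_lit 5) (nat_lit 225) (nat_lit 219) (nat_lit 216)))) (XT.nd (nat_lit 78) (nat_lit 608) (nat_lit 0) (XT.lf (nat_lit 0) (nat_lit 920596111) (nat_lit 456) (nat_lit 5207965488) (nat_lit 532) (nat_lit 1370269005) (nat_lit 41) (nat_lit 5) (nat_lit 47) (nat_lit 5) (nat_lit 48) (nat_lit 4) (nat_lit 226) (nat_lit 219) (nat_lit 215)) (XT.nd (nat_lit 78) (nat_lit 304) (nat_lit 0) (XT.lf (nat_lit 0) (nat_lit 1919376206) (nat_lit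 228) (nat_lit 1427704592) (nat_lit 304) (nat_lit 4573880478) (nat_lit 37) (nat_lit 5) (nat_lit 40) (nat_lit 5) (nat_lit 41) (nat_lit 5) (nat_lit 227) (nat_lit 219) (nat_lit 214)) (XT.lf (nat_lit 0) (nat_lit 13766608) (nat_lit 304) (nat_lit 5386255691) (nat_lit 76) (nat_lit 3025850940) (nat_lit 33) (nat_lit 5) (nat_lit 37) (nat_lit 5) (nat_lit 34) (nat_lit 5) (nat_lit 228) (nat_lit 219) (nat_lit 213)))))) (XT.nd (nat_lit 468) (nat_lit 684) (nat_lit 0) (XT.nd (nat_lit 234) (nat_lit 456) (nat_lit 0) (XT.nd (nat_lit 78) (nat_lit 380) (nat_lit 0) (XT.lf (nat_lit 0) (nat_lit 4176877798) (nat_lit 228) (nat_lit 622389327) (nat_lit 304) (nat_lit 4217157225) (nat_lit 30) (nat_lit 5) (nat_lit 33) (nat_lit 5) (nat_lit 34) (nat_lit 5) (nat_lit 229) (nat_lit 219) (nat_lit 212)) (XT.nd (nat_lit 78) (nat_lit 152) (nat_lit 0) (XT.lf (nat_lit 0) (nat_lit 485875129) (nat_lit 228) (nat_lit 4404932078) (nat_lit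 76) (nat_lit 4812335173) (nat_lit 27) (nat_lit 5) (nat_lit 30) (nat_lit 5) (nat_lit 28) (nat_lit 5) (nat_lit 230) (nat_lit 219) (nat_lit 211)) (XT.lf (nat_lit 0) (nat_lit 5529627928) (nat_lit 228) (nat_lit 4189574437) (nat_lit 76) (nat_lit 775399909) (nat_lit 25) (nat_lit 5) (nat_lit 28) (nat_lit 5) (nat_lit 26) (nat_lit 4) (nat_lit 231) (nat_lit 219) (nat_lit 210)))) (XT.nd (nat_lit 78) (nat_lit 304) (nat_lit 0) (XT.lf (nat_lit 0) (nat_lit 7112520128) (nat_lit 152) (nat_lit 4241604692) (nat_lit 228) (nat_lit 49847536) (nat_lit 23) (nat_lit 5) (nat_lit 25) (nat_lit 5) (nat_lit 26) (nat_lit 4) (nat_lit 232) (nat_lit 219) (nat_lit 209)) (XT.nd (nat_lit 78) (nat_lit 76) (nat_lit 0) (XT.lf (nat_lit 0) (nat_lit 5303116355) (nat_lit 228) (nat_lit 4905530374) (nat_lit 76) (nat_lit 2232761850) (nat_lit 20) (nat_lit 5) (nat_lit 23) (nat_lit 5) (nat_lit 21) (nat_lit 4) (nat_lit 233) (nat_lit 219)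 (nat_lit 208)) (XT.lf (nat_lit 0) (nat_lit 7480002593) (nat_lit 76) (nat_lit 4051307213) (nat_lit 152) (nat_lit 2097816070) (nat_lit 19) (nat_lit 5) (nat_lit 20) (nat_lit 5) (nat_lit 21) (nat_lit 4) (nat_lit 234) (nat_lit 219) (nat_lit 207))))) (XT.nd (nat_lit 234) (nat_lit 228) (nat_lit 0) (XT.nd (nat_lit 78) (nat_lit 228) (nat_lit 0) (XT.lf (nat_lit 0) (nat_lit 3576139589) (nat_lit 228) (nat_lit 8302369980) (nat_lit 76) (nat_lit 3105014714) (nat_lit 16) (nat_lit 5) (nat_lit 19) (nat_lit 5) (nat_lit 17) (nat_lit 4) (nat_lit 235) (nat_lit 219) (nat_lit 206)) (XT.nd (nat_lit 78) (nat_lit 152) (nat_lit 0) (XT.lf (nat_lit 0) (nat_lit 4857157459) (nat_lit 76) (nat_lit 5237241617) (nat_lit 152) (nat_lit 6433482111) (nat_lit 15) (nat_lit 5) (nat_lit 16) (nat_lit 5) (nat_lit 17) (nat_lit 4) (nat_lit 236) (nat_lit 219) (nat_lit 205)) (XT.lf (nat_lit 0) (nat_lit 1764317497) (nat_lit 152) (nat_lit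 15899352055) (nat_lit 152) (nat_lit 634840135) (nat_lit 13) (nat_lit 4) (nat_lit 15) (nat_lit 5) (nat_lit 15) (nat_lit 4) (nat_lit 237) (nat_lit 219) (nat_lit 204)))) (XT.nd (nat_lit 78) (nat_lit 152) (nat_lit 0) (XT.lf (nat_lit 0) (nat_lit 5969011682) (nat_lit 228) (nat_lit 3127937230) (nat_lit 76) (nat_lit 11207582148) (nat_lit 12) (nat_lit 5) (nat_lit 15) (nat_lit 5) (nat_lit 13) (nat_lit 4) (nat_lit 238) (nat_lit 219) (nat_lit 203)) (XT.nd (nat_lit 78) (nat_lit 76) (nat_lit 0) (XT.lf (nat_lit 0) (nat_lit 12512435444) (nat_lit 76) (nat_lit 1092612268) (nat_lit 152) (nat_lit 8999089036) (nat_lit 11) (nat_lit 5) (nat_lit 12) (nat_lit 5) (nat_lit 13) (nat_lit 4) (nat_lit 239) (nat_lit 219) (nat_lit 202)) (XT.lf (nat_lit 0) (nat_lit 5141163835) (nat_lit 76) (nat_lit 17451672683) (nat_lit 76) (nat_lit 2639631107) (nat_lit 10) (nat_lit 4) (nat_lit 11) (nat_lit 5) (nat_lit 11) (nat_lit 4)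 (nat_lit 240) (nat_lit 219) (nat_lit 201))))))) (XT.nd (nat_lit 858) (nat_lit 152) (nat_lit 0) (XT.nd (nat_lit 390) (nat_lit 152) (nat_lit 0) (XT.nd (nat_lit 156) (nat_lit 152) (nat_lit 0) (XT.nd (nat_lit 78) (nat_lit 76) (nat_lit 0) (XT.lf (nat_lit 0) (nat_lit 4579476473) (nat_lit 152) (nat_lit 5456570369) (nat_lit 76) (nat_lit 18199081748) (nat_lit 9) (nat_lit 5) (nat_lit 11) (nat_lit 5) (nat_lit 10) (nat_lit 4) (nat_lit 241) (nat_lit 219) (nat_lit 200)) (XT.lf (nat_lit 0) (nat_lit 11579760496) (nat_lit 76) (nat_lit 1261262947) (nat_lit 152) (nat_lit 18832615327) (nat_lit 8) (nat_lit 5) (nat_lit 9) (nat_lit 5) (nat_lit 10) (nat_lit 4) (nat_lit 242) (nat_lit 219) (nat_lit 199))) (XT.nd (nat_lit 78) (nat_lit 152) (nat_lit 0) (XT.lf (nat_lit 0) (nat_lit 22562319085) (nat_lit 152) (nat_lit 4613593823) (nat_lit 0) (nat_lit 8434549086) (nat_lit 8) (nat_lit 5) (nat_lit 10) (nat_lit 4) (nat_lit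 8) (nat_lit 4) (nat_lit 243) (nat_lit 219) (nat_lit 198)) (XT.nd (nat_lit 78) (nat_lit 76) (nat_lit 0) (XT.lf (nat_lit 0) (nat_lit 13586666556) (nat_lit 76) (nat_lit 20382153187) (nat_lit 76) (nat_lit 6150982758) (nat_lit 7) (nat_lit 4) (nat_lit 8) (nat_lit 5) (nat_lit 8) (nat_lit 4) (nat_lit 244) (nat_lit 219) (nat_lit 197)) (XT.lf (nat_lit 0) (nat_lit 1703664202) (nat_lit 152) (nat_lit 10777462303) (nat_lit 76) (nat_lit 32820156471) (nat_lit 6) (nat_lit 5) (nat_lit 8) (nat_lit 5) (nat_lit 7) (nat_lit 4) (nat_lit 245) (nat_lit 219) (nat_lit 196))))) (XT.nd (nat_lit 234) (nat_lit 76) (nat_lit 0) (XT.nd (nat_lit 78) (nat_lit 0) (nat_lit 0) (XT.lf (nat_lit 0) (nat_lit 7336074541) (nat_lit 76) (nat_lit 3113610057) (nat_lit 152) (nat_lit 40791437282) (nat_lit 5) (nat_lit 5) (nat_lit 6) (nat_lit 5) (nat_lit 7) (nat_lit 4) (nat_lit 246) (nat_lit 219) (nat_lit 195)) (XT.nd (nat_lit 78) (nat_lit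 0) (nat_lit 0) (XT.lf (nat_lit 0) (nat_lit 20912083697) (nat_lit 152) (nat_lit 29611113555) (nat_lit 0) (nat_lit 7516475470) (nat_lit 5) (nat_lit 5) (nat_lit 7) (nat_lit 4) (nat_lit 5) (nat_lit 4) (nat_lit 247) (nat_lit 219) (nat_lit 194)) (XT.lf (nat_lit 0) (nat_lit 32941567413) (nat_lit 152) (nat_lit 13425483791) (nat_lit 0) (nat_lit 19491218879) (nat_lit 5) (nat_lit 5) (nat_lit 7) (nat_lit 4) (nat_lit 5) (nat_lit 4) (nat_lit 248) (nat_lit 219) (nat_lit 193)))) (XT.nd (nat_lit 78) (nat_lit 0) (nat_lit 0) (XT.lf (nat_lit 0) (nat_lit 5308976206) (nat_lit 76) (nat_lit 41517317612) (nat_lit 76) (nat_lit 28019368811) (nat_lit 4) (nat_lit 4) (nat_lit 5) (nat_lit 5) (nat_lit 5) (nat_lit 4) (nat_lit 249) (nat_lit 219) (nat_lit 192)) (XT.nd (nat_lit 78) (nat_lit 0) (nat_lit 0) (XT.lf (nat_lit 0) (nat_lit 27534259877) (nat_lit 76) (nat_lit 35580319216) (nat_lit 76) (nat_lit 22040978880) (nat_lit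 4) (nat_lit 4) (nat_lit 5) (nat_lit 5) (nat_lit 5) (nat_lit 4) (nat_lit 250) (nat_lit 219) (nat_lit 191)) (XT.lf (nat_lit 0) (nat_lit 52978247543) (nat_lit 76) (nat_lit 28806973871) (nat_lit 76) (nat_lit 15231640895) (nat_lit 4) (nat_lit 4) (nat_lit 5) (nat_lit 5) (nat_lit 5) (nat_lit 4) (nat_lit 251) (nat_lit 219) (nat_lit 190)))))) (XT.nd (nat_lit 468) (nat_lit 0) (nat_lit 0) (XT.nd (nat_lit 234) (nat_lit 0) (nat_lit 0) (XT.nd (nat_lit 78) (nat_lit 152) (nat_lit 0) (XT.lf (nat_lit 0) (nat_lit 82138756355) (nat_lit 76) (nat_lit 21064759604) (nat_lit 76) (nat_lit 7458128680) (nat_lit 4) (nat_lit 4) (nat_lit 5) (nat_lit 5) (nat_lit 5) (nat_lit 4) (nat_lit 252) (nat_lit 219) (nat_lit 189)) (XT.nd (nat_lit 78) (nat_lit 76) (nat_lit 0) (XT.lf (nat_lit 0) (nat_lit 1360031379) (nat_lit 152) (nat_lit 10804981260) (nat_lit 76) (nat_lit 114189100958) (nat_lit 3) (nat_lit 5) (nat_lit 5) (nat_lit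 5) (nat_lit 4) (nat_lit 4) (nat_lit 253) (nat_lit 219) (nat_lit 188)) (XT.lf (nat_lit 0) (nat_lit 9775477408) (nat_lit 76) (nat_lit 1490383016) (nat_lit 152) (nat_lit 133102603885) (nat_lit 2) (nat_lit 5) (nat_lit 3) (nat_lit 5) (nat_lit 4) (nat_lit 4) (nat_lit 254) (nat_lit 219) (nat_lit 187)))) (XT.nd (nat_lit 78) (nat_lit 0) (nat_lit 0) (XT.lf (nat_lit 0) (nat_lit 23201427467) (nat_lit 152) (nat_lit 131303531347) (nat_lit 0) (nat_lit 10536528222) (nat_lit 2) (nat_lit 5) (nat_lit 4) (nat_lit 4) (nat_lit 2) (nat_lit 4) (nat_lit 255) (nat_lit 219) (nat_lit 186)) (XT.nd (nat_lit 78) (nat_lit 0) (nat_lit 0) (XT.lf (nat_lit 0) (nat_lit 36935269294) (nat_lit 152) (nat_lit 127625782604) (nat_lit 0) (nat_lit 24253800879) (nat_lit 2) (nat_lit 5) (nat_lit 4) (nat_lit 4) (nat_lit 2) (nat_lit 4) (nat_lit 256) (nat_lit 219) (nat_lit 185)) (XT.lf (nat_lit 0) (nat_lit 52700247757) (nat_lit 152) (nat_lit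 123451940972) (nat_lit 0) (nat_lit 40004371368) (nat_lit 2) (nat_lit 5) (nat_lit 4) (nat_lit 4) (nat_lit 2) (nat_lit 4) (nat_lit 257) (nat_lit 219) (nat_lit 184))))) (XT.nd (nat_lit 234) (nat_lit 0) (nat_lit 0) (XT.nd (nat_lit 78) (nat_lit 0) (nat_lit 0) (XT.lf (nat_lit 0) (nat_lit 70804808088) (nat_lit 152) (nat_lit 118700344332) (nat_lit 0) (nat_lit 58096403027) (nat_lit 2) (nat_lit 5) (nat_lit 4) (nat_lit 4) (nat_lit 2) (nat_lit 4) (nat_lit 258) (nat_lit 219) (nat_lit 183)) (XT.nd (nat_lit 78) (nat_lit 0) (nat_lit 0) (XT.lf (nat_lit 0) (nat_lit 91603169946) (nat_lit 152) (nat_lit 113278026662) (nat_lit 0) (nat_lit 78883870387) (nat_lit 2) (nat_lit 5) (nat_lit 4) (nat_lit 4) (nat_lit 2) (nat_lit 4) (nat_lit 259) (nat_lit 219) (nat_lit 182)) (XT.lf (nat_lit 0) (nat_lit 115502257802) (nat_lit 152) (nat_lit 107078899140) (nat_lit 0) (nat_lit 102773484766) (nat_lit 2) (nat_lit 5) (nat_lit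 4) (nat_lit 4) (nat_lit 2) (nat_lit 4) (nat_lit 260) (nat_lit 219) (nat_lit 181)))) (XT.nd (nat_lit 78) (nat_lit 0) (nat_lit 0) (XT.lf (nat_lit 0) (nat_lit 142969662504) (nat_lit 152) (nat_lit 99981674486) (nat_lit 0) (nat_lit 130232651663) (nat_lit 2) (nat_lit 5) (nat_lit 4) (nat_lit 4) (nat_lit 2) (nat_lit 4) (nat_lit 261) (nat_lit 219) (nat_lit 180)) (XT.nd (nat_lit 78) (nat_lit 0) (nat_lit 0) (XT.lf (nat_lit 0) (nat_lit 174542789799) (nat_lit 152) (nat_lit 91847493959) (nat_lit 0) (nat_lit 161798615648) (nat_lit 2) (nat_lit 5) (nat_lit 4) (nat_lit 4) (nat_lit 2) (nat_lit 4) (nat_lit 262) (nat_lit 219) (nat_lit 179)) (XT.lf (nat_lit 0) (nat_lit 210839374783) (nat_lit 152) (nat_lit 82517210547) (nat_lit 0) (nat_lit 198088971668) (nat_lit 2) (nat_lit 5) (nat_lit 4) (nat_lit 4) (nat_lit 2) (nat_lit 4) (nat_lit 263) (nat_lit 219) (nat_lit 178))))))))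
noncomputable def xc23 : XT := (XT.nd (nat_lit 31044) (nat_lit 0) (nat_lit 532) (XT.nd (nat_lit 858) (nat_lit 0) (nat_lit 0) (XT.nd (nat_lit 390) (nat_lit 76) (nat_lit 0) (XT.nd (nat_lit 156) (nat_lit 0) (nat_lit 0) (XT.nd (nat_lit 78) (nat_lit 0) (nat_lit 0) (XT.lf (nat_lit 0) (nat_lit 252569568034) (nat_lit 152) (nat_lit 71808275227) (nat_lit 0) (nat_lit 239813748427) (nat_lit 2) (nat_lit 5) (nat_lit 4) (nat_lit 4) (nat_lit 2) (nat_lit 4) (nat_lit 264) (nat_lit 219) (nat_lit 177)) (XT.lf (nat_lit 0) (nat_lit 300549829854) (nat_lit 152) (nat_lit 59511165352) (nat_lit 0) (nat_lit 287789300255) (nat_lit 2) (nat_lit 5) (nat_lit 4) (nat_lit 4) (nat_lit 2) (nat_lit 4) (nat_lit 265) (nat_lit 219) (nat_lit 176))) (XT.nd (nat_lit 78) (nat_lit 0) (nat_lit 0) (XT.lf (nat_lit 0) (nat_lit 355718904496) (nat_lit 152) (nat_lit 45385285294) (nat_lit 0) (nat_lit 342954279252) (nat_lit 2) (nat_lit 5)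 (nat_lit 4) (nat_lit 4) (nat_lit 2) (nat_lit 4) (nat_lit 266) (nat_lit 219) (nat_lit 175)) (XT.nd (nat_lit 78) (nat_lit 0) (nat_lit 0) (XT.lf (nat_lit 0) (nat_lit 419156186898) (nat_lit 152) (nat_lit 29154259139) (nat_lit 0) (nat_lit 406388000224) (nat_lit 2) (nat_lit 5) (nat_lit 4) (nat_lit 4) (nat_lit 2) (nat_lit 4) (nat_lit 267) (nat_lit 219) (nat_lit 174)) (XT.lf (nat_lit 0) (nat_lit 492102841282) (nat_lit 152) (nat_lit 10500523331) (nat_lit 0) (nat_lit 479331557712) (nat_lit 2) (nat_lit 5) (nat_lit 4) (nat_lit 4) (nat_lit 2) (nat_lit 4) (nat_lit 268) (nat_lit 219) (nat_lit 173))))) (XT.nd (nat_lit 234) (nat_lit 0) (nat_lit 0) (XT.nd (nat_lit 78) (nat_lit 0) (nat_lit 0) (XT.lf (nat_lit 0) (nat_lit 11517014221) (nat_lit 76) (nat_lit 564746055047) (nat_lit 76) (nat_lit 551972078523) (nat_lit 1) (nat_lit 4) (nat_lit 2) (nat_lit 5) (nat_lit 2) (nat_lit 4) (nat_lit 269) (nat_lit 219) (nat_lit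 172)) (XT.nd (nat_lit 78) (nat_lit 0) (nat_lit 0) (XT.lf (nat_lit 0) (nat_lit 37463555027) (nat_lit 76) (nat_lit 635884555716) (nat_lit 76) (nat_lit 623108237493) (nat_lit 1) (nat_lit 4) (nat_lit 2) (nat_lit 5) (nat_lit 2) (nat_lit 4) (nat_lit 270) (nat_lit 219) (nat_lit 171)) (XT.lf (nat_lit 0) (nat_lit 67293809847) (nat_lit 76) (nat_lit 717697809767) (nat_lit 76) (nat_lit 704919455284) (nat_lit 1) (nat_lit 4) (nat_lit 2) (nat_lit 5) (nat_lit 2) (nat_lit 4) (nat_lit 271) (nat_lit 219) (nat_lit 170)))) (XT.nd (nat_lit 78) (nat_lit 0) (nat_lit 0) (XT.lf (nat_lit 0) (nat_lit 101591414104) (nat_lit 76) (nat_lit 811786511301) (nat_lit 76) (nat_lit 799006386158) (nat_lit 1) (nat_lit 4) (nat_lit 2) (nat_lit 5) (nat_lit 2) (nat_lit 4) (nat_lit 272) (nat_lit 219) (nat_lit 169)) (XT.nd (nat_lit 78) (nat_lit 0) (nat_lit 0) (XT.lf (nat_lit 0) (nat_lit 141027407878) (nat_lit 76) (nat_lit 919991526218)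 (nat_lit 76) (nat_lit 907209861370) (nat_lit 1) (nat_lit 4) (nat_lit 2) (nat_lit 5) (nat_lit 2) (nat_lit 4) (nat_lit 273) (nat_lit 219) (nat_lit 168)) (XT.lf (nat_lit 0) (nat_lit 186373364963) (nat_lit 76) (nat_lit 1044429909157) (nat_lit 76) (nat_lit 1031646905435) (nat_lit 1) (nat_lit 4) (nat_lit 2) (nat_lit 5) (nat_lit 2) (nat_lit 4) (nat_lit 274) (nat_lit 219) (nat_lit 167)))))) (XT.nd (nat_lit 468) (nat_lit 0) (nat_lit 0) (XT.nd (nat_lit 234) (nat_lit 0) (nat_lit 0) (XT.nd (nat_lit 78) (nat_lit 0) (nat_lit 0) (XT.lf (nat_lit 0) (nat_lit 238516488865) (nat_lit 76) (nat_lit 1187536324133) (nat_lit 76) (nat_lit 1174752156173) (nat_lit 1) (nat_lit 4) (nat_lit 2) (nat_lit 5) (nat_lit 2) (nat_lit 4) (nat_lit 275) (nat_lit 219) (nat_lit 166)) (XT.nd (nat_lit 78) (nat_lit 0) (nat_lit 0) (XT.lf (nat_lit 0) (nat_lit 298476971140) (nat_lit 76) (nat_lit 1352110679264) (nat_lit 76) (nat_lit 1339325498923)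 (nat_lit 1) (nat_lit 4) (nat_lit 2) (nat_lit 5) (nat_lit 2) (nat_lit 4) (nat_lit 276) (nat_lit 219) (nat_lit 165)) (XT.lf (nat_lit 0) (nat_lit 367427951659) (nat_lit 76) (nat_lit 1541372907586) (nat_lit 76) (nat_lit 1528586846914) (nat_lit 1) (nat_lit 4) (nat_lit 2) (nat_lit 5) (nat_lit 2) (nat_lit 4) (nat_lit 277) (nat_lit 219) (nat_lit 164)))) (XT.nd (nat_lit 78) (nat_lit 0) (nat_lit 0) (XT.lf (nat_lit 0) (nat_lit 446718471344) (nat_lit 76) (nat_lit 1759025965740) (nat_lit 76) (nat_lit 1746239139563) (nat_lit 1) (nat_lit 4) (nat_lit 2) (nat_lit 5) (nat_lit 2) (nat_lit 4) (nat_lit 278) (nat_lit 219) (nat_lit 163)) (XT.nd (nat_lit 78) (nat_lit 0) (nat_lit 0) (XT.lf (nat_lit 0) (nat_lit 537899866449) (nat_lit 76) (nat_lit 2009328283124) (nat_lit 76) (nat_lit 1996540791290) (nat_lit 1) (nat_lit 4) (nat_lit 2) (nat_lit 5) (nat_lit 2) (nat_lit 4) (nat_lit 279) (nat_lit 219) (nat_lit 162))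 (XT.lf (nat_lit 0) (nat_lit 642756120794) (nat_lit 76) (nat_lit 2297177078992) (nat_lit 76) (nat_lit 2284389008326) (nat_lit 1) (nat_lit 4) (nat_lit 2) (nat_lit 5) (nat_lit 2) (nat_lit 4) (nat_lit 280) (nat_lit 219) (nat_lit 161))))) (XT.nd (nat_lit 234) (nat_lit 0) (nat_lit 0) (XT.nd (nat_lit 78) (nat_lit 0) (nat_lit 0) (XT.lf (nat_lit 0) (nat_lit 763338769787) (nat_lit 76) (nat_lit 2628204177610) (nat_lit 76) (nat_lit 2615415603612) (nat_lit 1) (nat_lit 4) (nat_lit 2) (nat_lit 5) (nat_lit 2) (nat_lit 4) (nat_lit 281) (nat_lit 219) (nat_lit 160)) (XT.nd (nat_lit 78) (nat_lit 0) (nat_lit 0) (XT.lf (nat_lit 0) (nat_lit 902007039172) (nat_lit 76) (nat_lit 3008886196126) (nat_lit 76) (nat_lit 2996097184448) (nat_lit 1) (nat_lit 4) (nat_lit 2) (nat_lit 5) (nat_lit 2) (nat_lit 4) (nat_lit 282) (nat_lit 219) (nat_lit 159)) (XT.lf (nat_lit 0) (nat_lit 1061474003782) (nat_lit 76) (nat_lit 3446671260989)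 (nat_lit 76) (nat_lit 3433881868719) (nat_lit 1) (nat_lit 4) (nat_lit 2) (nat_lit 5) (nat_lit 2) (nat_lit 4) (nat_lit 283) (nat_lit 219) (nat_lit 158)))) (XT.nd (nat_lit 78) (nat_lit 0) (nat_lit 0) (XT.lf (nat_lit 0) (nat_lit 1244859669449) (nat_lit 76) (nat_lit 3950124732163) (nat_lit 76) (nat_lit 3937335008944) (nat_lit 1) (nat_lit 4) (nat_lit 2) (nat_lit 5) (nat_lit 2) (nat_lit 4) (nat_lit 284) (nat_lit 219) (nat_lit 157)) (XT.nd (nat_lit 29328) (nat_lit 0) (nat_lit 4940) (XT.lf (nat_lit 0) (nat_lit 1455752016586) (nat_lit 76) (nat_lit 4529096786259) (nat_lit 76) (nat_lit 4516306775258) (nat_lit 1) (nat_lit 4) (nat_lit 2) (nat_lit 5) (nat_lit 2) (nat_lit 4) (nat_lit 285) (nat_lit 219) (nat_lit 156)) (XT.lf (nat_lit 0) (nat_lit 0) (nat_lit 0) (nat_lit 0) (nat_lit 0) (nat_lit 1073741823) (nat_lit 1) (nat_lit 0) (nat_lit 1) (nat_lit 0) (nat_lit 66) (nat_lit 0) (nat_lit 220) (nat_lit 220)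 (nat_lit 220))))))) (XT.nd (nat_lit 858) (nat_lit 1292) (nat_lit 0) (XT.nd (nat_lit 390) (nat_lit 2052) (nat_lit 0) (XT.nd (nat_lit 156) (nat_lit 836) (nat_lit 0) (XT.nd (nat_lit 78) (nat_lit 152) (nat_lit 0) (XT.lf (nat_lit 0) (nat_lit 5211482638) (nat_lit 76) (nat_lit 882295657) (nat_lit 0) (nat_lit 379644430) (nat_lit 65) (nat_lit 5) (nat_lit 66) (nat_lit 0) (nat_lit 65) (nat_lit 4) (nat_lit 221) (nat_lit 220) (nat_lit 219)) (XT.lf (nat_lit 0) (nat_lit 3644698664) (nat_lit 152) (nat_lit 1452463427) (nat_lit 76) (nat_lit 1473946663) (nat_lit 63) (nat_lit 5) (nat_lit 65) (nat_lit 5) (nat_lit 64) (nat_lit 4) (nat_lit 222) (nat_lit 220) (nat_lit 218))) (XT.nd (nat_lit 78) (nat_lit 608) (nat_lit 0) (XT.lf (nat_lit 0) (nat_lit 1698442980) (nat_lit 228) (nat_lit 1731344967) (nat_lit 76) (nat_lit 3307386747) (nat_lit 60) (nat_lit 5) (nat_lit 63) (nat_lit 5) (nat_lit 61) (nat_lit 5) (nat_lit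 223) (nat_lit 220) (nat_lit 217)) (XT.nd (nat_lit 78) (nat_lit 380) (nat_lit 0) (XT.lf (nat_lit 0) (nat_lit 5221538841) (nat_lit 228) (nat_lit 1035199915) (nat_lit 304) (nat_lit 716365468) (nat_lit 57) (nat_lit 5) (nat_lit 60) (nat_lit 5) (nat_lit 61) (nat_lit 5) (nat_lit 224) (nat_lit 220) (nat_lit 216)) (XT.lf (nat_lit 0) (nat_lit 3588513862) (nat_lit 380) (nat_lit 1614904460) (nat_lit 76) (nat_lit 2072341263) (nat_lit 52) (nat_lit 5) (nat_lit 57) (nat_lit 5) (nat_lit 53) (nat_lit 5) (nat_lit 225) (nat_lit 220) (nat_lit 215))))) (XT.nd (nat_lit 234) (nat_lit 836) (nat_lit 0) (XT.nd (nat_lit 78) (nat_lit 760) (nat_lit 0) (XT.lf (nat_lit 0) (nat_lit 440515878) (nat_lit 456) (nat_lit 1280719038) (nat_lit 76) (nat_lit 5933258605) (nat_lit 46) (nat_lit 5) (nat_lit 52) (nat_lit 5) (nat_lit 47) (nat_lit 5) (nat_lit 226) (nat_lit 220) (nat_lit 214)) (XT.nd (nat_lit 78) (nat_lit 304) (nat_lit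 0) (XT.lf (nat_lit 0) (nat_lit 4700775404) (nat_lit 532) (nat_lit 881436643) (nat_lit 76) (nat_lit 2523927381) (nat_lit 40) (nat_lit 5) (nat_lit 47) (nat_lit 5) (nat_lit 41) (nat_lit 5) (nat_lit 227) (nat_lit 220) (nat_lit 213)) (XT.lf (nat_lit 0) (nat_lit 703023936) (nat_lit 304) (nat_lit 372151981) (nat_lit 76) (nat_lit 7568151668) (nat_lit 36) (nat_lit 5) (nat_lit 40) (nat_lit 5) (nat_lit 37) (nat_lit 5) (nat_lit 228) (nat_lit 220) (nat_lit 212)))) (XT.nd (nat_lit 78) (nat_lit 380) (nat_lit 0) (XT.lf (nat_lit 0) (nat_lit 77591353) (nat_lit 228) (nat_lit 5055838901) (nat_lit 304) (nat_lit 4129603807) (nat_lit 30) (nat_lit 5) (nat_lit 33) (nat_lit 5) (nat_lit 34) (nat_lit 5) (nat_lit 229) (nat_lit 220) (nat_lit 211)) (XT.nd (nat_lit 78) (nat_lit 152) (nat_lit 0) (XT.lf (nat_lit 0) (nat_lit 137599970) (nat_lit 228) (nat_lit 9416467527) (nat_lit 76) (nat_lit 430634164) (nat_lit 27) (nat_lit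 5) (nat_lit 30) (nat_lit 5) (nat_lit 28) (nat_lit 5) (nat_lit 230) (nat_lit 220) (nat_lit 210)) (XT.lf (nat_lit 0) (nat_lit 786479266) (nat_lit 152) (nat_lit 4057713053) (nat_lit 228) (nat_lit 5959465652) (nat_lit 25) (nat_lit 5) (nat_lit 27) (nat_lit 5) (nat_lit 28) (nat_lit 5) (nat_lit 231) (nat_lit 220) (nat_lit 209)))))) (XT.nd (nat_lit 468) (nat_lit 532) (nat_lit 0) (XT.nd (nat_lit 234) (nat_lit 380) (nat_lit 0) (XT.nd (nat_lit 78) (nat_lit 228) (nat_lit 0) (XT.lf (nat_lit 0) (nat_lit 826009970) (nat_lit 152) (nat_lit 9426572362) (nat_lit 228) (nat_lit 1494189560) (nat_lit 23) (nat_lit 5) (nat_lit 25) (nat_lit 5) (nat_lit 26) (nat_lit 4) (nat_lit 232) (nat_lit 220) (nat_lit 208)) (XT.nd (nat_lit 78) (nat_lit 0) (nat_lit 0) (XT.lf (nat_lit 0) (nat_lit 412912309) (nat_lit 152) (nat_lit 3133688264) (nat_lit 228) (nat_lit 9271507082) (nat_lit 20) (nat_lit 5) (nat_lit 22) (nat_lit 5)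 (nat_lit 23) (nat_lit 5) (nat_lit 233) (nat_lit 220) (nat_lit 207)) (XT.lf (nat_lit 0) (nat_lit 9377880231) (nat_lit 228) (nat_lit 538886351) (nat_lit 76) (nat_lit 4121130235) (nat_lit 20) (nat_lit 5) (nat_lit 23) (nat_lit 5) (nat_lit 21) (nat_lit 4) (nat_lit 234) (nat_lit 220) (nat_lit 206)))) (XT.nd (nat_lit 78) (nat_lit 228) (nat_lit 0) (XT.lf (nat_lit 0) (nat_lit 755163464) (nat_lit 152) (nat_lit 2176507256) (nat_lit 76) (nat_lit 12496766615) (nat_lit 18) (nat_lit 5) (nat_lit 20) (nat_lit 5) (nat_lit 19) (nat_lit 5) (nat_lit 235) (nat_lit 220) (nat_lit 205)) (XT.nd (nat_lit 78) (nat_lit 76) (nat_lit 0) (XT.lf (nat_lit 0) (nat_lit 6908781698) (nat_lit 228) (nat_lit 4934738126) (nat_lit 76) (nat_lit 5158668890) (nat_lit 16) (nat_lit 5) (nat_lit 19) (nat_lit 5) (nat_lit 17) (nat_lit 4) (nat_lit 236) (nat_lit 220) (nat_lit 204)) (XT.lf (nat_lit 0) (nat_lit 9808252025) (nat_lit 76) (nat_lit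 4333355312) (nat_lit 152) (nat_lit 4658319532) (nat_lit 15) (nat_lit 5) (nat_lit 16) (nat_lit 5) (nat_lit 17) (nat_lit 4) (nat_lit 237) (nat_lit 220) (nat_lit 203))))) (XT.nd (nat_lit 234) (nat_lit 228) (nat_lit 0) (XT.nd (nat_lit 78) (nat_lit 76) (nat_lit 0) (XT.lf (nat_lit 0) (nat_lit 1705409181) (nat_lit 228) (nat_lit 14849304538) (nat_lit 76) (nat_lit 4294443463) (nat_lit 12) (nat_lit 5) (nat_lit 15) (nat_lit 5) (nat_lit 13) (nat_lit 4) (nat_lit 238) (nat_lit 220) (nat_lit 202)) (XT.nd (nat_lit 78) (nat_lit 0) (nat_lit 0) (XT.lf (nat_lit 0) (nat_lit 9850487) (nat_lit 76) (nat_lit 8940797218) (nat_lit 152) (nat_lit 14229514838) (nat_lit 11) (nat_lit 5) (nat_lit 12) (nat_lit 5) (nat_lit 13) (nat_lit 4) (nat_lit 239) (nat_lit 220) (nat_lit 201)) (XT.lf (nat_lit 0) (nat_lit 17542793646) (nat_lit 152) (nat_lit 8153679212) (nat_lit 0) (nat_lit 143790140) (nat_lit 11) (nat_lit 5) (nat_lit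 13) (nat_lit 4) (nat_lit 11) (nat_lit 4) (nat_lit 240) (nat_lit 220) (nat_lit 200)))) (XT.nd (nat_lit 78) (nat_lit 152) (nat_lit 0) (XT.lf (nat_lit 0) (nat_lit 9044278873) (nat_lit 76) (nat_lit 18688639175) (nat_lit 76) (nat_lit 1141948835) (nat_lit 10) (nat_lit 4) (nat_lit 11) (nat_lit 5) (nat_lit 11) (nat_lit 4) (nat_lit 241) (nat_lit 220) (nat_lit 199)) (XT.nd (nat_lit 78) (nat_lit 76) (nat_lit 0) (XT.lf (nat_lit 0) (nat_lit 6830658856) (nat_lit 152) (nat_lit 3467343251) (nat_lit 76) (nat_lit 22045339923) (nat_lit 9) (nat_lit 5) (nat_lit 11) (nat_lit 5) (nat_lit 10) (nat_lit 4) (nat_lit 242) (nat_lit 220) (nat_lit 198)) (XT.lf (nat_lit 0) (nat_lit 15886778350) (nat_lit 76) (nat_lit 302435344) (nat_lit 152) (nat_lit 20120042755) (nat_lit 8) (nat_lit 5) (nat_lit 9) (nat_lit 5) (nat_lit 10) (nat_lit 4) (nat_lit 243) (nat_lit 220) (nat_lit 197))))))))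
noncomputable def xc24 : XT := (XT.nd (nat_lit 1794) (nat_lit 76) (nat_lit 0) (XT.nd (nat_lit 858) (nat_lit 76) (nat_lit 0) (XT.nd (nat_lit 390) (nat_lit 152) (nat_lit 0) (XT.nd (nat_lit 156) (nat_lit 152) (nat_lit 0) (XT.nd (nat_lit 78) (nat_lit 76) (nat_lit 0) (XT.lf (nat_lit 0) (nat_lit 27207229185) (nat_lit 152) (nat_lit 2994439786) (nat_lit 0) (nat_lit 10648069347) (nat_lit 8) (nat_lit 5) (nat_lit 10) (nat_lit 4) (nat_lit 8) (nat_lit 4) (nat_lit 244) (nat_lit 220) (nat_lit 196)) (XT.lf (nat_lit 0) (nat_lit 17740228665) (nat_lit 76) (nat_lit 22470934435) (nat_lit 76) (nat_lit 5833589017) (nat_lit 7) (nat_lit 4) (nat_lit 8) (nat_lit 5) (nat_lit 8) (nat_lit 4) (nat_lit 245) (nat_lit 220) (nat_lit 195))) (XT.nd (nat_lit 78) (nat_lit 76) (nat_lit 0) (XT.lf (nat_lit 0) (nat_lit 2983569724) (nat_lit 152) (nat_lit 10499507852) (nat_lit 76) (nat_lit 38530435586) (nat_lit 6) (nat_lit 5) (nat_lit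 8) (nat_lit 5) (nat_lit 7) (nat_lit 4) (nat_lit 246) (nat_lit 220) (nat_lit 194)) (XT.nd (nat_lit 78) (nat_lit 0) (nat_lit 0) (XT.lf (nat_lit 0) (nat_lit 10170693283) (nat_lit 76) (nat_lit 2778895992) (nat_lit 152) (nat_lit 45902223172) (nat_lit 5) (nat_lit 5) (nat_lit 6) (nat_lit 5) (nat_lit 7) (nat_lit 4) (nat_lit 247) (nat_lit 220) (nat_lit 193)) (XT.lf (nat_lit 0) (nat_lit 24876491232) (nat_lit 152) (nat_lit 32495908384) (nat_lit 0) (nat_lit 9306249845) (nat_lit 5) (nat_lit 5) (nat_lit 7) (nat_lit 4) (nat_lit 5) (nat_lit 4) (nat_lit 248) (nat_lit 220) (nat_lit 192))))) (XT.nd (nat_lit 234) (nat_lit 76) (nat_lit 0) (XT.nd (nat_lit 78) (nat_lit 76) (nat_lit 0) (XT.lf (nat_lit 0) (nat_lit 38602450334) (nat_lit 152) (nat_lit 14085504442) (nat_lit 0) (nat_lit 22990817411) (nat_lit 5) (nat_lit 5) (nat_lit 7) (nat_lit 4) (nat_lit 5) (nat_lit 4) (nat_lit 249) (nat_lit 220) (nat_lit 191))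 (XT.nd (nat_lit 78) (nat_lit 0) (nat_lit 0) (XT.lf (nat_lit 0) (nat_lit 7344531965) (nat_lit 76) (nat_lit 47161289643) (nat_lit 76) (nat_lit 31513664080) (nat_lit 4) (nat_lit 4) (nat_lit 5) (nat_lit 5) (nat_lit 5) (nat_lit 4) (nat_lit 250) (nat_lit 220) (nat_lit 190)) (XT.lf (nat_lit 0) (nat_lit 32741972187) (nat_lit 76) (nat_lit 40409866568) (nat_lit 76) (nat_lit 24730943057) (nat_lit 4) (nat_lit 4) (nat_lit 5) (nat_lit 5) (nat_lit 5) (nat_lit 4) (nat_lit 251) (nat_lit 220) (nat_lit 189)))) (XT.nd (nat_lit 78) (nat_lit 76) (nat_lit 0) (XT.lf (nat_lit 0) (nat_lit 61862004961) (nat_lit 76) (nat_lit 32686715143) (nat_lit 76) (nat_lit 16980576025) (nat_lit 4) (nat_lit 4) (nat_lit 5) (nat_lit 5) (nat_lit 5) (nat_lit 4) (nat_lit 252) (nat_lit 220) (nat_lit 188)) (XT.nd (nat_lit 78) (nat_lit 76) (nat_lit 0) (XT.lf (nat_lit 0) (nat_lit 95274370056) (nat_lit 76) (nat_lit 23840730232) (nat_lit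 76) (nat_lit 8110925370) (nat_lit 4) (nat_lit 4) (nat_lit 5) (nat_lit 5) (nat_lit 5) (nat_lit 4) (nat_lit 253) (nat_lit 220) (nat_lit 187)) (XT.lf (nat_lit 0) (nat_lit 1948918935) (nat_lit 152) (nat_lit 11696632384) (nat_lit 76) (nat_lit 131630581828) (nat_lit 3) (nat_lit 5) (nat_lit 5) (nat_lit 5) (nat_lit 4) (nat_lit 4) (nat_lit 254) (nat_lit 220) (nat_lit 186)))))) (XT.nd (nat_lit 468) (nat_lit 0) (nat_lit 0) (XT.nd (nat_lit 234) (nat_lit 0) (nat_lit 0) (XT.nd (nat_lit 78) (nat_lit 0) (nat_lit 0) (XT.lf (nat_lit 0) (nat_lit 11909180734) (nat_lit 76) (nat_lit 1397290039) (nat_lit 152) (nat_lit 152688937845) (nat_lit 2) (nat_lit 5) (nat_lit 3) (nat_lit 5) (nat_lit 4) (nat_lit 4) (nat_lit 255) (nat_lit 220) (nat_lit 185)) (XT.nd (nat_lit 78) (nat_lit 0) (nat_lit 0) (XT.lf (nat_lit 0) (nat_lit 26993247444) (nat_lit 152) (nat_lit 150400720526) (nat_lit 0) (nat_lit 12378581623) (nat_lit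 2) (nat_lit 5) (nat_lit 4) (nat_lit 4) (nat_lit 2) (nat_lit 4) (nat_lit 256) (nat_lit 220) (nat_lit 184)) (XT.lf (nat_lit 0) (nat_lit 42746521302) (nat_lit 152) (nat_lit 146249353887) (nat_lit 0) (nat_lit 28119326809) (nat_lit 2) (nat_lit 5) (nat_lit 4) (nat_lit 4) (nat_lit 2) (nat_lit 4) (nat_lit 257) (nat_lit 220) (nat_lit 183)))) (XT.nd (nat_lit 78) (nat_lit 0) (nat_lit 0) (XT.lf (nat_lit 0) (nat_lit 60840903715) (nat_lit 152) (nat_lit 141517300720) (nat_lit 0) (nat_lit 46202814724) (nat_lit 2) (nat_lit 5) (nat_lit 4) (nat_lit 4) (nat_lit 2) (nat_lit 4) (nat_lit 258) (nat_lit 220) (nat_lit 182)) (XT.nd (nat_lit 78) (nat_lit 0) (nat_lit 0) (XT.lf (nat_lit 0) (nat_lit 81630415210) (nat_lit 152) (nat_lit 136111977375) (nat_lit 0) (nat_lit 66982852742) (nat_lit 2) (nat_lit 5) (nat_lit 4) (nat_lit 4) (nat_lit 2) (nat_lit 4) (nat_lit 259) (nat_lit 220) (nat_lit 181)) (XT.lf (nat_lit 0) (nat_lit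 105521807098) (nat_lit 152) (nat_lit 129927627525) (nat_lit 0) (nat_lit 90866006824) (nat_lit 2) (nat_lit 5) (nat_lit 4) (nat_lit 4) (nat_lit 2) (nat_lit 4) (nat_lit 260) (nat_lit 220) (nat_lit 180))))) (XT.nd (nat_lit 234) (nat_lit 0) (nat_lit 0) (XT.nd (nat_lit 78) (nat_lit 0) (nat_lit 0) (XT.lf (nat_lit 0) (nat_lit 132982519654) (nat_lit 152) (nat_lit 122843253023) (nat_lit 0) (nat_lit 118319556072) (nat_lit 2) (nat_lit 5) (nat_lit 4) (nat_lit 4) (nat_lit 2) (nat_lit 4) (nat_lit 261) (nat_lit 220) (nat_lit 179)) (XT.nd (nat_lit 78) (nat_lit 0) (nat_lit 0) (XT.lf (nat_lit 0) (nat_lit 164549827691) (nat_lit 152) (nat_lit 114720246539) (nat_lit 0) (nat_lit 149880635144) (nat_lit 2) (nat_lit 5) (nat_lit 4) (nat_lit 4) (nat_lit 2) (nat_lit 4) (nat_lit 262) (nat_lit 220) (nat_lit 178)) (XT.lf (nat_lit 0) (nat_lit 200841352452) (nat_lit 152) (nat_lit 105399679687) (nat_lit 0) (nat_lit 186166743413)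 (nat_lit 2) (nat_lit 5) (nat_lit 4) (nat_lit 4) (nat_lit 2) (nat_lit 4) (nat_lit 263) (nat_lit 220) (nat_lit 177)))) (XT.nd (nat_lit 78) (nat_lit 0) (nat_lit 0) (XT.lf (nat_lit 0) (nat_lit 242567145508) (nat_lit 152) (nat_lit 94699193550) (nat_lit 0) (nat_lit 227887826477) (nat_lit 2) (nat_lit 5) (nat_lit 4) (nat_lit 4) (nat_lit 2) (nat_lit 4) (nat_lit 264) (nat_lit 220) (nat_lit 176)) (XT.nd (nat_lit 78) (nat_lit 0) (nat_lit 0) (XT.lf (nat_lit 0) (nat_lit 290543581071) (nat_lit 152) (nat_lit 82409430791) (nat_lit 0) (nat_lit 275860166396) (nat_lit 2) (nat_lit 5) (nat_lit 4) (nat_lit 4) (nat_lit 2) (nat_lit 4) (nat_lit 265) (nat_lit 220) (nat_lit 175)) (XT.lf (nat_lit 0) (nat_lit 345709328534) (nat_lit 152) (nat_lit 68289939529) (nat_lit 0) (nat_lit 331022352427) (nat_lit 2) (nat_lit 5) (nat_lit 4) (nat_lit 4) (nat_lit 2) (nat_lit 4) (nat_lit 266) (nat_lit 220) (nat_lit 174))))))) (XT.nd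 (nat_lit 858) (nat_lit 0) (nat_lit 0) (XT.nd (nat_lit 390) (nat_lit 0) (nat_lit 0) (XT.nd (nat_lit 156) (nat_lit 76) (nat_lit 0) (XT.nd (nat_lit 78) (nat_lit 0) (nat_lit 0) (XT.lf (nat_lit 0) (nat_lit 409143717737) (nat_lit 152) (nat_lit 52064468848) (nat_lit 0) (nat_lit 394453644734) (nat_lit 2) (nat_lit 5) (nat_lit 4) (nat_lit 4) (nat_lit 2) (nat_lit 4) (nat_lit 267) (nat_lit 220) (nat_lit 173)) (XT.lf (nat_lit 0) (nat_lit 482087856296) (nat_lit 152) (nat_lit 33415563888) (nat_lit 0) (nat_lit 467395090340) (nat_lit 2) (nat_lit 5) (nat_lit 4) (nat_lit 4) (nat_lit 2) (nat_lit 4) (nat_lit 268) (nat_lit 220) (nat_lit 172))) (XT.nd (nat_lit 78) (nat_lit 76) (nat_lit 0) (XT.lf (nat_lit 0) (nat_lit 565968912138) (nat_lit 152) (nat_lit 11978354768) (nat_lit 0) (nat_lit 551273804483) (nat_lit 2) (nat_lit 5) (nat_lit 4) (nat_lit 4) (nat_lit 2) (nat_lit 4) (nat_lit 269) (nat_lit 220) (nat_lit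 171)) (XT.nd (nat_lit 78) (nat_lit 0) (nat_lit 0) (XT.lf (nat_lit 0) (nat_lit 13333581937) (nat_lit 76) (nat_lit 649415127386) (nat_lit 76) (nat_lit 634717983471) (nat_lit 1) (nat_lit 4) (nat_lit 2) (nat_lit 5) (nat_lit 2) (nat_lit 4) (nat_lit 270) (nat_lit 220) (nat_lit 170)) (XT.lf (nat_lit 0) (nat_lit 43160493136) (nat_lit 76) (nat_lit 731229990448) (nat_lit 76) (nat_lit 716531075874) (nat_lit 1) (nat_lit 4) (nat_lit 2) (nat_lit 5) (nat_lit 2) (nat_lit 4) (nat_lit 271) (nat_lit 220) (nat_lit 169))))) (XT.nd (nat_lit 234) (nat_lit 0) (nat_lit 0) (XT.nd (nat_lit 78) (nat_lit 0) (nat_lit 0) (XT.lf (nat_lit 0) (nat_lit 77455189894) (nat_lit 76) (nat_lit 825320091123) (nat_lit 76) (nat_lit 810619636844) (nat_lit 1) (nat_lit 4) (nat_lit 2) (nat_lit 5) (nat_lit 2) (nat_lit 4) (nat_lit 272) (nat_lit 220) (nat_lit 168)) (XT.nd (nat_lit 78) (nat_lit 0) (nat_lit 0) (XT.lf (nat_lit 0) (nat_lit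 116888655410) (nat_lit 76) (nat_lit 933526322684) (nat_lit 76) (nat_lit 918824529531) (nat_lit 1) (nat_lit 4) (nat_lit 2) (nat_lit 5) (nat_lit 2) (nat_lit 4) (nat_lit 273) (nat_lit 220) (nat_lit 167)) (XT.lf (nat_lit 0) (nat_lit 162232414009) (nat_lit 76) (nat_lit 1057965763575) (nat_lit 76) (nat_lit 1043262806183) (nat_lit 1) (nat_lit 4) (nat_lit 2) (nat_lit 5) (nat_lit 2) (nat_lit 4) (nat_lit 274) (nat_lit 220) (nat_lit 166)))) (XT.nd (nat_lit 78) (nat_lit 0) (nat_lit 0) (XT.lf (nat_lit 0) (nat_lit 214373626184) (nat_lit 76) (nat_lit 1201073098508) (nat_lit 76) (nat_lit 1186369128736) (nat_lit 1) (nat_lit 4) (nat_lit 2) (nat_lit 5) (nat_lit 2) (nat_lit 4) (nat_lit 275) (nat_lit 220) (nat_lit 165)) (XT.nd (nat_lit 78) (nat_lit 0) (nat_lit 0) (XT.lf (nat_lit 0) (nat_lit 274332446088) (nat_lit 76) (nat_lit 1365648253603) (nat_lit 76) (nat_lit 1350943403499) (nat_lit 1) (nat_lit 4) (nat_lit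 2) (nat_lit 5) (nat_lit 2) (nat_lit 4) (nat_lit 276) (nat_lit 220) (nat_lit 164)) (XT.lf (nat_lit 0) (nat_lit 343281981066) (nat_lit 76) (nat_lit 1554911177545) (nat_lit 76) (nat_lit 1540205561936) (nat_lit 1) (nat_lit 4) (nat_lit 2) (nat_lit 5) (nat_lit 2) (nat_lit 4) (nat_lit 277) (nat_lit 220) (nat_lit 163)))))) (XT.nd (nat_lit 468) (nat_lit 0) (nat_lit 0) (XT.nd (nat_lit 234) (nat_lit 0) (nat_lit 0) (XT.nd (nat_lit 78) (nat_lit 0) (nat_lit 0) (XT.lf (nat_lit 0) (nat_lit 422571243760) (nat_lit 76) (nat_lit 1772564840586) (nat_lit 76) (nat_lit 1757858559320) (nat_lit 1) (nat_lit 4) (nat_lit 2) (nat_lit 5) (nat_lit 2) (nat_lit 4) (nat_lit 278) (nat_lit 220) (nat_lit 162)) (XT.nd (nat_lit 78) (nat_lit 0) (nat_lit 0) (XT.lf (nat_lit 0) (nat_lit 513751545830) (nat_lit 76) (nat_lit 2022867683959) (nat_lit 76) (nat_lit 2008160823861) (nat_lit 1) (nat_lit 4) (nat_lit 2) (nat_lit 5) (nat_lit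 2) (nat_lit 4) (nat_lit 279) (nat_lit 220) (nat_lit 161)) (XT.lf (nat_lit 0) (nat_lit 618606849708) (nat_lit 76) (nat_lit 2310716937208) (nat_lit 76) (nat_lit 2296009573778) (nat_lit 1) (nat_lit 4) (nat_lit 2) (nat_lit 5) (nat_lit 2) (nat_lit 4) (nat_lit 280) (nat_lit 220) (nat_lit 160)))) (XT.nd (nat_lit 78) (nat_lit 0) (nat_lit 0) (XT.lf (nat_lit 0) (nat_lit 739188672209) (nat_lit 76) (nat_lit 2641744433550) (nat_lit 76) (nat_lit 2627036632440) (nat_lit 1) (nat_lit 4) (nat_lit 2) (nat_lit 5) (nat_lit 2) (nat_lit 4) (nat_lit 281) (nat_lit 220) (nat_lit 159)) (XT.nd (nat_lit 78) (nat_lit 0) (nat_lit 0) (XT.lf (nat_lit 0) (nat_lit 877856222904) (nat_lit 76) (nat_lit 3022426797912) (nat_lit 76) (nat_lit 3007718616211) (nat_lit 1) (nat_lit 4) (nat_lit 2) (nat_lit 5) (nat_lit 2) (nat_lit 4) (nat_lit 282) (nat_lit 220) (nat_lit 158)) (XT.lf (nat_lit 0) (nat_lit 1037322562568) (nat_lit 76)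 (nat_lit 3460212163511) (nat_lit 76) (nat_lit 3445503650860) (nat_lit 1) (nat_lit 4) (nat_lit 2) (nat_lit 5) (nat_lit 2) (nat_lit 4) (nat_lit 283) (nat_lit 220) (nat_lit 157))))) (XT.nd (nat_lit 29562) (nat_lit 0) (nat_lit 4180) (XT.nd (nat_lit 78) (nat_lit 0) (nat_lit 0) (XT.lf (nat_lit 0) (nat_lit 1220707684803) (nat_lit 76) (nat_lit 3963665896194) (nat_lit 76) (nat_lit 3948957095762) (nat_lit 1) (nat_lit 4) (nat_lit 2) (nat_lit 5) (nat_lit 2) (nat_lit 4) (nat_lit 284) (nat_lit 220) (nat_lit 156)) (XT.nd (nat_lit 29406) (nat_lit 0) (nat_lit 4636) (XT.lf (nat_lit 0) (nat_lit 1431599559390) (nat_lit 76) (nat_lit 4542638177689) (nat_lit 76) (nat_lit 4527929127012) (nat_lit 1) (nat_lit 4) (nat_lit 2) (nat_lit 5) (nat_lit 2) (nat_lit 4) (nat_lit 285) (nat_lit 220) (nat_lit 155)) (XT.lf (nat_lit 0) (nat_lit 1629031615) (nat_lit 228) (nat_lit 819664266) (nat_lit 228) (nat_lit 819664266) (nat_lit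 62) (nat_lit 3) (nat_lit 65) (nat_lit 3) (nat_lit 65) (nat_lit 5) (nat_lit 221) (nat_lit 221) (nat_lit 218)))) (XT.nd (nat_lit 78) (nat_lit 228) (nat_lit 0) (XT.lf (nat_lit 0) (nat_lit 942719587) (nat_lit 228) (nat_lit 2594734927) (nat_lit 304) (nat_lit 3130144271) (nat_lit 59) (nat_lit 5) (nat_lit 62) (nat_lit 3) (nat_lit 63) (nat_lit 5) (nat_lit 222) (nat_lit 221) (nat_lit 217)) (XT.nd (nat_lit 78) (nat_lit 228) (nat_lit 0) (XT.lf (nat_lit 76) (nat_lit 3555592338) (nat_lit 0) (nat_lit 1431361889) (nat_lit 304) (nat_lit 1877713084) (nat_lit 60) (nat_lit 5) (nat_lit 59) (nat_lit 5) (nat_lit 63) (nat_lit 5) (nat_lit 223) (nat_lit 221) (nat_lit 216)) (XT.lf (nat_lit 0) (nat_lit 1923837423) (nat_lit 304) (nat_lit 3820665690) (nat_lit 76) (nat_lit 1384797758) (nat_lit 56) (nat_lit 5) (nat_lit 60) (nat_lit 5) (nat_lit 57) (nat_lit 5) (nat_lit 224) (nat_lit 221) (nat_lit 215))))))))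
noncomputable def xc25 : XT := (XT.nd (nat_lit 1794) (nat_lit 304) (nat_lit 0) (XT.nd (nat_lit 858) (nat_lit 988) (nat_lit 0) (XT.nd (nat_lit 390) (nat_lit 1064) (nat_lit 0) (XT.nd (nat_lit 156) (nat_lit 988) (nat_lit 0) (XT.nd (nat_lit 78) (nat_lit 456) (nat_lit 0) (XT.lf (nat_lit 0) (nat_lit 3288578364) (nat_lit 304) (nat_lit 2512448616) (nat_lit 380) (nat_lit 1662225916) (nat_lit 52) (nat_lit 5) (nat_lit 56) (nat_lit 5) (nat_lit 57) (nat_lit 5) (nat_lit 225) (nat_lit 221) (nat_lit 214)) (XT.lf (nat_lit 0) (nat_lit 1975884035) (nat_lit 456) (nat_lit 4405819391) (nat_lit 76) (nat_lit 1488523548) (nat_lit 46) (nat_lit 5) (nat_lit 52) (nat_lit 5) (nat_lit 47) (nat_lit 5) (nat_lit 226) (nat_lit 221) (nat_lit 213))) (XT.nd (nat_lit 78) (nat_lit 532) (nat_lit 0) (XT.lf (nat_lit 0) (nat_lit 3774051641) (nat_lit 456) (nat_lit 2086208012) (nat_lit 532) (nat_lit 2492612746) (nat_lit 40) (nat_lit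 5) (nat_lit 46) (nat_lit 5) (nat_lit 47) (nat_lit 5) (nat_lit 227) (nat_lit 221) (nat_lit 212)) (XT.nd (nat_lit 78) (nat_lit 228) (nat_lit 0) (XT.lf (nat_lit 0) (nat_lit 1209806974) (nat_lit 304) (nat_lit 4728319362) (nat_lit 76) (nat_lit 2979750613) (nat_lit 36) (nat_lit 5) (nat_lit 40) (nat_lit 5) (nat_lit 37) (nat_lit 5) (nat_lit 228) (nat_lit 221) (nat_lit 211)) (XT.lf (nat_lit 0) (nat_lit 4646160385) (nat_lit 228) (nat_lit 583971857) (nat_lit 304) (nat_lit 4340907955) (nat_lit 33) (nat_lit 5) (nat_lit 36) (nat_lit 5) (nat_lit 37) (nat_lit 5) (nat_lit 229) (nat_lit 221) (nat_lit 210))))) (XT.nd (nat_lit 234) (nat_lit 456) (nat_lit 0) (XT.nd (nat_lit 78) (nat_lit 380) (nat_lit 0) (XT.lf (nat_lit 0) (nat_lit 5078236242) (nat_lit 228) (nat_lit 4813423066) (nat_lit 304) (nat_lit 428682140) (nat_lit 30) (nat_lit 5) (nat_lit 33) (nat_lit 5) (nat_lit 34) (nat_lit 5) (nat_lit 230) (nat_lit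 221) (nat_lit 209)) (XT.nd (nat_lit 78) (nat_lit 152) (nat_lit 0) (XT.lf (nat_lit 0) (nat_lit 3868258292) (nat_lit 228) (nat_lit 5774321762) (nat_lit 76) (nat_lit 1532485483) (nat_lit 27) (nat_lit 5) (nat_lit 30) (nat_lit 5) (nat_lit 28) (nat_lit 5) (nat_lit 231) (nat_lit 221) (nat_lit 208)) (XT.lf (nat_lit 0) (nat_lit 5531218990) (nat_lit 152) (nat_lit 3376978947) (nat_lit 228) (nat_lit 3239853452) (nat_lit 25) (nat_lit 5) (nat_lit 27) (nat_lit 5) (nat_lit 28) (nat_lit 5) (nat_lit 232) (nat_lit 221) (nat_lit 207)))) (XT.nd (nat_lit 78) (nat_lit 228) (nat_lit 0) (XT.lf (nat_lit 0) (nat_lit 1490358429) (nat_lit 228) (nat_lit 7886204389) (nat_lit 76) (nat_lit 3878334032) (nat_lit 22) (nat_lit 5) (nat_lit 25) (nat_lit 5) (nat_lit 23) (nat_lit 5) (nat_lit 233) (nat_lit 221) (nat_lit 206)) (XT.nd (nat_lit 78) (nat_lit 76) (nat_lit 0) (XT.lf (nat_lit 0) (nat_lit 4714174997) (nat_lit 152) (nat_lit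 2181779550) (nat_lit 228) (nat_lit 7613063332) (nat_lit 20) (nat_lit 5) (nat_lit 22) (nat_lit 5) (nat_lit 23) (nat_lit 5) (nat_lit 234) (nat_lit 221) (nat_lit 205)) (XT.lf (nat_lit 0) (nat_lit 3409016597) (nat_lit 76) (nat_lit 9937151822) (nat_lit 152) (nat_lit 2586904589) (nat_lit 19) (nat_lit 5) (nat_lit 20) (nat_lit 5) (nat_lit 21) (nat_lit 4) (nat_lit 235) (nat_lit 221) (nat_lit 204)))))) (XT.nd (nat_lit 468) (nat_lit 380) (nat_lit 0) (XT.nd (nat_lit 234) (nat_lit 304) (nat_lit 0) (XT.nd (nat_lit 78) (nat_lit 76) (nat_lit 0) (XT.lf (nat_lit 0) (nat_lit 1215248069) (nat_lit 152) (nat_lit 1986363353) (nat_lit 228) (nat_lit 14349945015) (nat_lit 16) (nat_lit 5) (nat_lit 18) (nat_lit 5) (nat_lit 19) (nat_lit 5) (nat_lit 236) (nat_lit 221) (nat_lit 203)) (XT.nd (nat_lit 78) (nat_lit 76) (nat_lit 0) (XT.lf (nat_lit 0) (nat_lit 10059443883) (nat_lit 228) (nat_lit 2186867673) (nat_lit 76)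 (nat_lit 7133151242) (nat_lit 16) (nat_lit 5) (nat_lit 19) (nat_lit 5) (nat_lit 17) (nat_lit 4) (nat_lit 237) (nat_lit 221) (nat_lit 202)) (XT.lf (nat_lit 0) (nat_lit 14472322303) (nat_lit 76) (nat_lit 3705874642) (nat_lit 152) (nat_lit 3285094005) (nat_lit 15) (nat_lit 5) (nat_lit 16) (nat_lit 5) (nat_lit 17) (nat_lit 4) (nat_lit 238) (nat_lit 221) (nat_lit 201)))) (XT.nd (nat_lit 78) (nat_lit 76) (nat_lit 0) (XT.lf (nat_lit 0) (nat_lit 3775174791) (nat_lit 228) (nat_lit 13940625835) (nat_lit 76) (nat_lit 6112878636) (nat_lit 12) (nat_lit 5) (nat_lit 15) (nat_lit 5) (nat_lit 13) (nat_lit 4) (nat_lit 239) (nat_lit 221) (nat_lit 200)) (XT.nd (nat_lit 78) (nat_lit 0) (nat_lit 0) (XT.lf (nat_lit 0) (nat_lit 2881949368) (nat_lit 76) (nat_lit 9057685511) (nat_lit 152) (nat_lit 14583462445) (nat_lit 11) (nat_lit 5) (nat_lit 12) (nat_lit 5) (nat_lit 13) (nat_lit 4) (nat_lit 240) (nat_lit 221)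 (nat_lit 199)) (XT.lf (nat_lit 0) (nat_lit 21631458615) (nat_lit 152) (nat_lit 6789541427) (nat_lit 0) (nat_lit 1176654558) (nat_lit 11) (nat_lit 5) (nat_lit 13) (nat_lit 4) (nat_lit 11) (nat_lit 4) (nat_lit 241) (nat_lit 221) (nat_lit 198))))) (XT.nd (nat_lit 234) (nat_lit 152) (nat_lit 0) (XT.nd (nat_lit 78) (nat_lit 76) (nat_lit 0) (XT.lf (nat_lit 0) (nat_lit 112679360) (nat_lit 152) (nat_lit 20332103450) (nat_lit 76) (nat_lit 12653357438) (nat_lit 9) (nat_lit 5) (nat_lit 11) (nat_lit 5) (nat_lit 10) (nat_lit 4) (nat_lit 242) (nat_lit 221) (nat_lit 197)) (XT.nd (nat_lit 78) (nat_lit 76) (nat_lit 0) (XT.lf (nat_lit 0) (nat_lit 9038063667) (nat_lit 152) (nat_lit 1864410581) (nat_lit 76) (nat_lit 26196296611) (nat_lit 9) (nat_lit 5) (nat_lit 11) (nat_lit 5) (nat_lit 10) (nat_lit 4) (nat_lit 243) (nat_lit 221) (nat_lit 196)) (XT.lf (nat_lit 0) (nat_lit 19705372211) (nat_lit 152) (nat_lit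 21467752061) (nat_lit 0) (nat_lit 494239400) (nat_lit 8) (nat_lit 5) (nat_lit 10) (nat_lit 4) (nat_lit 8) (nat_lit 4) (nat_lit 244) (nat_lit 221) (nat_lit 195)))) (XT.nd (nat_lit 78) (nat_lit 152) (nat_lit 0) (XT.lf (nat_lit 0) (nat_lit 32241479716) (nat_lit 152) (nat_lit 1696011719) (nat_lit 0) (nat_lit 12962359445) (nat_lit 8) (nat_lit 5) (nat_lit 10) (nat_lit 4) (nat_lit 8) (nat_lit 4) (nat_lit 245) (nat_lit 221) (nat_lit 194)) (XT.nd (nat_lit 78) (nat_lit 76) (nat_lit 0) (XT.lf (nat_lit 0) (nat_lit 22000931869) (nat_lit 76) (nat_lit 25109217905) (nat_lit 76) (nat_lit 5770978102) (nat_lit 7) (nat_lit 4) (nat_lit 8) (nat_lit 5) (nat_lit 8) (nat_lit 4) (nat_lit 246) (nat_lit 221) (nat_lit 193)) (XT.lf (nat_lit 0) (nat_lit 4205665402) (nat_lit 152) (nat_lit 10641864052) (nat_lit 76) (nat_lit 44905279293) (nat_lit 6) (nat_lit 5) (nat_lit 8) (nat_lit 5) (nat_lit 7) (nat_lit 4) (nat_lit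 247) (nat_lit 221) (nat_lit 192))))))) (XT.nd (nat_lit 858) (nat_lit 0) (nat_lit 0) (XT.nd (nat_lit 390) (nat_lit 152) (nat_lit 0) (XT.nd (nat_lit 156) (nat_lit 76) (nat_lit 0) (XT.nd (nat_lit 78) (nat_lit 0) (nat_lit 0) (XT.lf (nat_lit 0) (nat_lit 13007607340) (nat_lit 76) (nat_lit 2589487991) (nat_lit 152) (nat_lit 52025416987) (nat_lit 5) (nat_lit 5) (nat_lit 6) (nat_lit 5) (nat_lit 7) (nat_lit 4) (nat_lit 248) (nat_lit 221) (nat_lit 191)) (XT.lf (nat_lit 0) (nat_lit 29233745620) (nat_lit 152) (nat_lit 36193075583) (nat_lit 0) (nat_lit 11202983583) (nat_lit 5) (nat_lit 5) (nat_lit 7) (nat_lit 4) (nat_lit 5) (nat_lit 4) (nat_lit 249) (nat_lit 221) (nat_lit 190))) (XT.nd (nat_lit 78) (nat_lit 76) (nat_lit 0) (XT.lf (nat_lit 0) (nat_lit 44936975017) (nat_lit 152) (nat_lit 15174661362) (nat_lit 0) (nat_lit 26874915032) (nat_lit 5) (nat_lit 5) (nat_lit 7) (nat_lit 4) (nat_lit 5) (nat_lit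 4) (nat_lit 250) (nat_lit 221) (nat_lit 189)) (XT.nd (nat_lit 78) (nat_lit 0) (nat_lit 0) (XT.lf (nat_lit 0) (nat_lit 9383232046) (nat_lit 76) (nat_lit 53794178280) (nat_lit 76) (nat_lit 35704902688) (nat_lit 4) (nat_lit 4) (nat_lit 5) (nat_lit 5) (nat_lit 5) (nat_lit 4) (nat_lit 251) (nat_lit 221) (nat_lit 188)) (XT.lf (nat_lit 0) (nat_lit 38468068264) (nat_lit 76) (nat_lit 46087603240) (nat_lit 76) (nat_lit 27974661903) (nat_lit 4) (nat_lit 4) (nat_lit 5) (nat_lit 5) (nat_lit 5) (nat_lit 4) (nat_lit 252) (nat_lit 221) (nat_lit 187))))) (XT.nd (nat_lit 234) (nat_lit 76) (nat_lit 0) (XT.nd (nat_lit 78) (nat_lit 76) (nat_lit 0) (XT.lf (nat_lit 0) (nat_lit 71849827660) (nat_lit 76) (nat_lit 37256032577) (nat_lit 76) (nat_lit 19122512332) (nat_lit 4) (nat_lit 4) (nat_lit 5) (nat_lit 5) (nat_lit 5) (nat_lit 4) (nat_lit 253) (nat_lit 221) (nat_lit 186)) (XT.nd (nat_lit 78) (nat_lit 76) (nat_lit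 0) (XT.lf (nat_lit 0) (nat_lit 110181631613) (nat_lit 76) (nat_lit 27126674691) (nat_lit 76) (nat_lit 8975259742) (nat_lit 4) (nat_lit 4) (nat_lit 5) (nat_lit 5) (nat_lit 5) (nat_lit 4) (nat_lit 254) (nat_lit 221) (nat_lit 185)) (XT.lf (nat_lit 0) (nat_lit 2532283505) (nat_lit 152) (nat_lit 12899825870) (nat_lit 76) (nat_lit 151611929577) (nat_lit 3) (nat_lit 5) (nat_lit 5) (nat_lit 5) (nat_lit 4) (nat_lit 4) (nat_lit 255) (nat_lit 221) (nat_lit 184)))) (XT.nd (nat_lit 78) (nat_lit 0) (nat_lit 0) (XT.lf (nat_lit 0) (nat_lit 14200194301) (nat_lit 76) (nat_lit 1367450327) (nat_lit 152) (nat_lit 175305657257) (nat_lit 2) (nat_lit 5) (nat_lit 3) (nat_lit 5) (nat_lit 4) (nat_lit 4) (nat_lit 256) (nat_lit 221) (nat_lit 183)) (XT.nd (nat_lit 78) (nat_lit 0) (nat_lit 0) (XT.lf (nat_lit 0) (nat_lit 31277853356) (nat_lit 152) (nat_lit 172508397206) (nat_lit 0) (nat_lit 14433156518) (nat_lit 2)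 (nat_lit 5) (nat_lit 4) (nat_lit 4) (nat_lit 2) (nat_lit 4) (nat_lit 257) (nat_lit 221) (nat_lit 182)) (XT.lf (nat_lit 0) (nat_lit 49363385406) (nat_lit 152) (nat_lit 167793338363) (nat_lit 0) (nat_lit 32509215091) (nat_lit 2) (nat_lit 5) (nat_lit 4) (nat_lit 4) (nat_lit 2) (nat_lit 4) (nat_lit 258) (nat_lit 221) (nat_lit 181)))))) (XT.nd (nat_lit 468) (nat_lit 0) (nat_lit 0) (XT.nd (nat_lit 234) (nat_lit 0) (nat_lit 0) (XT.nd (nat_lit 78) (nat_lit 0) (nat_lit 0) (XT.lf (nat_lit 0) (nat_lit 70145200933) (nat_lit 152) (nat_lit 162402792692) (nat_lit 0) (nat_lit 53282792812) (nat_lit 2) (nat_lit 5) (nat_lit 4) (nat_lit 4) (nat_lit 2) (nat_lit 4) (nat_lit 259) (nat_lit 221) (nat_lit 180)) (XT.nd (nat_lit 78) (nat_lit 0) (nat_lit 0) (XT.lf (nat_lit 0) (nat_lit 94029900674) (nat_lit 152) (nat_lit 156231292993) (nat_lit 0) (nat_lit 77160329245) (nat_lit 2) (nat_lit 5) (nat_lit 4) (nat_lit 4)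 (nat_lit 2) (nat_lit 4) (nat_lit 260) (nat_lit 221) (nat_lit 179)) (XT.lf (nat_lit 0) (nat_lit 121484793973) (nat_lit 152) (nat_lit 149158092534) (nat_lit 0) (nat_lit 104608993579) (nat_lit 2) (nat_lit 5) (nat_lit 4) (nat_lit 4) (nat_lit 2) (nat_lit 4) (nat_lit 261) (nat_lit 221) (nat_lit 178)))) (XT.nd (nat_lit 78) (nat_lit 0) (nat_lit 0) (XT.lf (nat_lit 0) (nat_lit 153047041786) (nat_lit 152) (nat_lit 141044802611) (nat_lit 0) (nat_lit 136165824901) (nat_lit 2) (nat_lit 5) (nat_lit 4) (nat_lit 4) (nat_lit 2) (nat_lit 4) (nat_lit 262) (nat_lit 221) (nat_lit 177)) (XT.nd (nat_lit 78) (nat_lit 0) (nat_lit 0) (XT.lf (nat_lit 0) (nat_lit 189334166352) (nat_lit 152) (nat_lit 131732684941) (nat_lit 0) (nat_lit 172448239475) (nat_lit 2) (nat_lit 5) (nat_lit 4) (nat_lit 4) (nat_lit 2) (nat_lit 4) (nat_lit 263) (nat_lit 221) (nat_lit 176)) (XT.lf (nat_lit 0) (nat_lit 231056133152) (nat_lit 152)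 (nat_lit 121039545920) (nat_lit 0) (nat_lit 214166110629) (nat_lit 2) (nat_lit 5) (nat_lit 4) (nat_lit 4) (nat_lit 2) (nat_lit 4) (nat_lit 264) (nat_lit 221) (nat_lit 175))))) (XT.nd (nat_lit 234) (nat_lit 0) (nat_lit 0) (XT.nd (nat_lit 78) (nat_lit 0) (nat_lit 0) (XT.lf (nat_lit 0) (nat_lit 279029241536) (nat_lit 152) (nat_lit 108756171956) (nat_lit 0) (nat_lit 262135657583) (nat_lit 2) (nat_lit 5) (nat_lit 4) (nat_lit 4) (nat_lit 2) (nat_lit 4) (nat_lit 265) (nat_lit 221) (nat_lit 174)) (XT.nd (nat_lit 78) (nat_lit 0) (nat_lit 0) (XT.lf (nat_lit 0) (nat_lit 334192095799) (nat_lit 152) (nat_lit 94642236169) (nat_lit 0) (nat_lit 317295414950) (nat_lit 2) (nat_lit 5) (nat_lit 4) (nat_lit 4) (nat_lit 2) (nat_lit 4) (nat_lit 266) (nat_lit 221) (nat_lit 173)) (XT.lf (nat_lit 0) (nat_lit 397623969177) (nat_lit 152) (nat_lit 78421596336) (nat_lit 0) (nat_lit 380724595374) (nat_lit 2) (nat_lit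 5) (nat_lit 4) (nat_lit 4) (nat_lit 2) (nat_lit 4) (nat_lit 267) (nat_lit 221) (nat_lit 172)))) (XT.nd (nat_lit 78) (nat_lit 0) (nat_lit 0) (XT.lf (nat_lit 0) (nat_lit 470565920061) (nat_lit 152) (nat_lit 59776892113) (nat_lit 0) (nat_lit 453664204560) (nat_lit 2) (nat_lit 5) (nat_lit 4) (nat_lit 4) (nat_lit 2) (nat_lit 4) (nat_lit 268) (nat_lit 221) (nat_lit 171)) (XT.nd (nat_lit 78) (nat_lit 0) (nat_lit 0) (XT.lf (nat_lit 0) (nat_lit 554445073578) (nat_lit 152) (nat_lit 38343335808) (nat_lit 0) (nat_lit 537541321817) (nat_lit 2) (nat_lit 5) (nat_lit 4) (nat_lit 4) (nat_lit 2) (nat_lit 4) (nat_lit 269) (nat_lit 221) (nat_lit 170)) (XT.lf (nat_lit 0) (nat_lit 650902543600) (nat_lit 152) (nat_lit 13701575232) (nat_lit 0) (nat_lit 633997021179) (nat_lit 2) (nat_lit 5) (nat_lit 4) (nat_lit 4) (nat_lit 2) (nat_lit 4) (nat_lit 270) (nat_lit 221) (nat_lit 169))))))))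
noncomputable def xc26 : XT := (XT.nd (nat_lit 31278) (nat_lit 0) (nat_lit 228) (XT.nd (nat_lit 858) (nat_lit 0) (nat_lit 0) (XT.nd (nat_lit 390) (nat_lit 0) (nat_lit 0) (XT.nd (nat_lit 156) (nat_lit 0) (nat_lit 0) (XT.nd (nat_lit 78) (nat_lit 0) (nat_lit 0) (XT.lf (nat_lit 0) (nat_lit 15400927797) (nat_lit 76) (nat_lit 746795006385) (nat_lit 76) (nat_lit 729887944258) (nat_lit 1) (nat_lit 4) (nat_lit 2) (nat_lit 5) (nat_lit 2) (nat_lit 4) (nat_lit 271) (nat_lit 221) (nat_lit 168)) (XT.lf (nat_lit 0) (nat_lit 49693096297) (nat_lit 76) (nat_lit 840886323704) (nat_lit 76) (nat_lit 823977922704) (nat_lit 1) (nat_lit 4) (nat_lit 2) (nat_lit 5) (nat_lit 2) (nat_lit 4) (nat_lit 272) (nat_lit 221) (nat_lit 167))) (XT.nd (nat_lit 78) (nat_lit 0) (nat_lit 0) (XT.lf (nat_lit 0) (nat_lit 89124363327) (nat_lit 76) (nat_lit 949093613216) (nat_lit 76) (nat_lit 932184047978) (nat_lit 1) (nat_lit 4)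 (nat_lit 2) (nat_lit 5) (nat_lit 2) (nat_lit 4) (nat_lit 273) (nat_lit 221) (nat_lit 166)) (XT.nd (nat_lit 78) (nat_lit 0) (nat_lit 0) (XT.lf (nat_lit 0) (nat_lit 134466210199) (nat_lit 76) (nat_lit 1073533974064) (nat_lit 76) (nat_lit 1056623396446) (nat_lit 1) (nat_lit 4) (nat_lit 2) (nat_lit 5) (nat_lit 2) (nat_lit 4) (nat_lit 274) (nat_lit 221) (nat_lit 165)) (XT.lf (nat_lit 0) (nat_lit 186605760003) (nat_lit 76) (nat_lit 1216642108961) (nat_lit 76) (nat_lit 1199730651011) (nat_lit 1) (nat_lit 4) (nat_lit 2) (nat_lit 5) (nat_lit 2) (nat_lit 4) (nat_lit 275) (nat_lit 221) (nat_lit 164))))) (XT.nd (nat_lit 234) (nat_lit 0) (nat_lit 0) (XT.nd (nat_lit 78) (nat_lit 0) (nat_lit 0) (XT.lf (nat_lit 0) (nat_lit 246563134367) (nat_lit 76) (nat_lit 1381217959676) (nat_lit 76) (nat_lit 1364305736220) (nat_lit 1) (nat_lit 4) (nat_lit 2) (nat_lit 5) (nat_lit 2) (nat_lit 4) (nat_lit 276) (nat_lit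 221) (nat_lit 163)) (XT.nd (nat_lit 78) (nat_lit 0) (nat_lit 0) (XT.lf (nat_lit 0) (nat_lit 315511412354) (nat_lit 76) (nat_lit 1570481488505) (nat_lit 76) (nat_lit 1553568599393) (nat_lit 1) (nat_lit 4) (nat_lit 2) (nat_lit 5) (nat_lit 2) (nat_lit 4) (nat_lit 277) (nat_lit 221) (nat_lit 162)) (XT.lf (nat_lit 0) (nat_lit 394799582011) (nat_lit 76) (nat_lit 1788135677535) (nat_lit 76) (nat_lit 1771222209591) (nat_lit 1) (nat_lit 4) (nat_lit 2) (nat_lit 5) (nat_lit 2) (nat_lit 4) (nat_lit 278) (nat_lit 221) (nat_lit 161)))) (XT.nd (nat_lit 78) (nat_lit 0) (nat_lit 0) (XT.lf (nat_lit 0) (nat_lit 485978933615) (nat_lit 76) (nat_lit 2038438978290) (nat_lit 76) (nat_lit 2021525007013) (nat_lit 1) (nat_lit 4) (nat_lit 2) (nat_lit 5) (nat_lit 2) (nat_lit 4) (nat_lit 279) (nat_lit 221) (nat_lit 160)) (XT.nd (nat_lit 78) (nat_lit 0) (nat_lit 0) (XT.lf (nat_lit 0) (nat_lit 590833411000) (nat_lit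 76) (nat_lit 2326288629262) (nat_lit 76) (nat_lit 2309374220306) (nat_lit 1) (nat_lit 4) (nat_lit 2) (nat_lit 5) (nat_lit 2) (nat_lit 4) (nat_lit 280) (nat_lit 221) (nat_lit 159)) (XT.lf (nat_lit 0) (nat_lit 711414514813) (nat_lit 76) (nat_lit 2657316471450) (nat_lit 76) (nat_lit 2640401681902) (nat_lit 1) (nat_lit 4) (nat_lit 2) (nat_lit 5) (nat_lit 2) (nat_lit 4) (nat_lit 281) (nat_lit 221) (nat_lit 158)))))) (XT.nd (nat_lit 29952) (nat_lit 0) (nat_lit 2432) (XT.nd (nat_lit 29718) (nat_lit 0) (nat_lit 4104) (XT.nd (nat_lit 78) (nat_lit 0) (nat_lit 0) (XT.lf (nat_lit 0) (nat_lit 850081440561) (nat_lit 76) (nat_lit 3037999136548) (nat_lit 76) (nat_lit 3021084016051) (nat_lit 1) (nat_lit 4) (nat_lit 2) (nat_lit 5) (nat_lit 2) (nat_lit 4) (nat_lit 282) (nat_lit 221) (nat_lit 157)) (XT.nd (nat_lit 78) (nat_lit 0) (nat_lit 0) (XT.lf (nat_lit 0) (nat_lit 1009547236793) (nat_lit 76) (nat_lit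 3475784763656) (nat_lit 76) (nat_lit 3458869355377) (nat_lit 1) (nat_lit 4) (nat_lit 2) (nat_lit 5) (nat_lit 2) (nat_lit 4) (nat_lit 283) (nat_lit 221) (nat_lit 156)) (XT.lf (nat_lit 0) (nat_lit 1192931886478) (nat_lit 76) (nat_lit 3979238723739) (nat_lit 76) (nat_lit 3962323065215) (nat_lit 1) (nat_lit 4) (nat_lit 2) (nat_lit 5) (nat_lit 2) (nat_lit 4) (nat_lit 284) (nat_lit 221) (nat_lit 155)))) (XT.nd (nat_lit 78) (nat_lit 304) (nat_lit 0) (XT.lf (nat_lit 0) (nat_lit 1141648864) (nat_lit 0) (nat_lit 1141648864) (nat_lit 228) (nat_lit 1131073802) (nat_lit 59) (nat_lit 5) (nat_lit 59) (nat_lit 3) (nat_lit 62) (nat_lit 3) (nat_lit 222) (nat_lit 222) (nat_lit 216)) (XT.nd (nat_lit 78) (nat_lit 0) (nat_lit 0) (XT.lf (nat_lit 0) (nat_lit 1079985748) (nat_lit 304) (nat_lit 5722569908) (nat_lit 380) (nat_lit 255791454) (nat_lit 55) (nat_lit 5) (nat_lit 59) (nat_lit 5) (nat_lit 60) (nat_lit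 5) (nat_lit 223) (nat_lit 222) (nat_lit 215)) (XT.lf (nat_lit 76) (nat_lit 563363996) (nat_lit 0) (nat_lit 3843846618) (nat_lit 380) (nat_lit 2943915530) (nat_lit 56) (nat_lit 5) (nat_lit 55) (nat_lit 5) (nat_lit 60) (nat_lit 5) (nat_lit 224) (nat_lit 222) (nat_lit 214))))) (XT.nd (nat_lit 234) (nat_lit 988) (nat_lit 0) (XT.nd (nat_lit 78) (nat_lit 304) (nat_lit 0) (XT.lf (nat_lit 76) (nat_lit 53878328) (nat_lit 0) (nat_lit 91388002) (nat_lit 456) (nat_lit 7573652882) (nat_lit 51) (nat_lit 5) (nat_lit 50) (nat_lit 5) (nat_lit 56) (nat_lit 5) (nat_lit 225) (nat_lit 222) (nat_lit 213)) (XT.nd (nat_lit 78) (nat_lit 380) (nat_lit 0) (XT.lf (nat_lit 0) (nat_lit 3352774659) (nat_lit 380) (nat_lit 387054166) (nat_lit 76) (nat_lit 4411591171) (nat_lit 51) (nat_lit 5) (nat_lit 56) (nat_lit 5) (nat_lit 52) (nat_lit 5) (nat_lit 226) (nat_lit 222) (nat_lit 212)) (XT.lf (nat_lit 0) (nat_lit 6848701736)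 (nat_lit 456) (nat_lit 668357355) (nat_lit 76) (nat_lit 1148889871) (nat_lit 46) (nat_lit 5) (nat_lit 52) (nat_lit 5) (nat_lit 47) (nat_lit 5) (nat_lit 227) (nat_lit 222) (nat_lit 211)))) (XT.nd (nat_lit 78) (nat_lit 456) (nat_lit 0) (XT.lf (nat_lit 0) (nat_lit 1474548597) (nat_lit 532) (nat_lit 934571130) (nat_lit 76) (nat_lit 6851331817) (nat_lit 39) (nat_lit 5) (nat_lit 46) (nat_lit 5) (nat_lit 40) (nat_lit 5) (nat_lit 228) (nat_lit 222) (nat_lit 210)) (XT.nd (nat_lit 78) (nat_lit 228) (nat_lit 0) (XT.lf (nat_lit 0) (nat_lit 5139029713) (nat_lit 304) (nat_lit 1227379958) (nat_lit 76) (nat_lit 3576238121) (nat_lit 36) (nat_lit 5) (nat_lit 40) (nat_lit 5) (nat_lit 37) (nat_lit 5) (nat_lit 229) (nat_lit 222) (nat_lit 209)) (XT.lf (nat_lit 0) (nat_lit 9196900366) (nat_lit 228) (nat_lit 169350595) (nat_lit 304) (nat_lit 1360934257) (nat_lit 33) (nat_lit 5) (nat_lit 36) (nat_lit 5) (nat_lit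 37) (nat_lit 5) (nat_lit 230) (nat_lit 222) (nat_lit 208))))))) (XT.nd (nat_lit 858) (nat_lit 532) (nat_lit 0) (XT.nd (nat_lit 390) (nat_lit 684) (nat_lit 0) (XT.nd (nat_lit 156) (nat_lit 532) (nat_lit 0) (XT.nd (nat_lit 78) (nat_lit 152) (nat_lit 0) (XT.lf (nat_lit 0) (nat_lit 2635071871) (nat_lit 304) (nat_lit 2071574835) (nat_lit 76) (nat_lit 6905257705) (nat_lit 29) (nat_lit 5) (nat_lit 33) (nat_lit 5) (nat_lit 30) (nat_lit 5) (nat_lit 231) (nat_lit 222) (nat_lit 207)) (XT.lf (nat_lit 0) (nat_lit 7253803899) (nat_lit 228) (nat_lit 2818454227) (nat_lit 76) (nat_lit 2546673009) (nat_lit 27) (nat_lit 5) (nat_lit 30) (nat_lit 5) (nat_lit 28) (nat_lit 5) (nat_lit 232) (nat_lit 222) (nat_lit 206))) (XT.nd (nat_lit 78) (nat_lit 380) (nat_lit 0) (XT.lf (nat_lit 0) (nat_lit 9859403036) (nat_lit 152) (nat_lit 2908560902) (nat_lit 228) (nat_lit 993482095) (nat_lit 25) (nat_lit 5) (nat_lit 27)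 (nat_lit 5) (nat_lit 28) (nat_lit 5) (nat_lit 233) (nat_lit 222) (nat_lit 205)) (XT.nd (nat_lit 78) (nat_lit 152) (nat_lit 0) (XT.lf (nat_lit 0) (nat_lit 4075136540) (nat_lit 228) (nat_lit 5567171923) (nat_lit 76) (nat_lit 5406345129) (nat_lit 22) (nat_lit 5) (nat_lit 25) (nat_lit 5) (nat_lit 23) (nat_lit 5) (nat_lit 234) (nat_lit 222) (nat_lit 204)) (XT.lf (nat_lit 0) (nat_lit 8626840635) (nat_lit 152) (nat_lit 1433838956) (nat_lit 228) (nat_lit 6449412388) (nat_lit 20) (nat_lit 5) (nat_lit 22) (nat_lit 5) (nat_lit 23) (nat_lit 5) (nat_lit 235) (nat_lit 222) (nat_lit 203))))) (XT.nd (nat_lit 234) (nat_lit 304) (nat_lit 0) (XT.nd (nat_lit 78) (nat_lit 304) (nat_lit 0) (XT.lf (nat_lit 0) (nat_lit 6991347705) (nat_lit 76) (nat_lit 10305551461) (nat_lit 152) (nat_lit 866011197) (nat_lit 19) (nat_lit 5) (nat_lit 20) (nat_lit 5) (nat_lit 21) (nat_lit 4) (nat_lit 236) (nat_lit 222) (nat_lit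 202)) (XT.nd (nat_lit 78) (nat_lit 76) (nat_lit 0) (XT.lf (nat_lit 0) (nat_lit 4308714169) (nat_lit 152) (nat_lit 1185267590) (nat_lit 228) (nat_lit 14541940785) (nat_lit 16) (nat_lit 5) (nat_lit 18) (nat_lit 5) (nat_lit 19) (nat_lit 5) (nat_lit 237) (nat_lit 222) (nat_lit 201)) (XT.lf (nat_lit 0) (nat_lit 129048177) (nat_lit 76) (nat_lit 13041164430) (nat_lit 152) (nat_lit 8985067467) (nat_lit 15) (nat_lit 5) (nat_lit 16) (nat_lit 5) (nat_lit 17) (nat_lit 4) (nat_lit 238) (nat_lit 222) (nat_lit 200)))) (XT.nd (nat_lit 78) (nat_lit 304) (nat_lit 0) (XT.lf (nat_lit 0) (nat_lit 19057410705) (nat_lit 76) (nat_lit 3295794426) (nat_lit 152) (nat_lit 2211148498) (nat_lit 15) (nat_lit 5) (nat_lit 16) (nat_lit 5) (nat_lit 17) (nat_lit 4) (nat_lit 239) (nat_lit 222) (nat_lit 199)) (XT.nd (nat_lit 78) (nat_lit 76) (nat_lit 0) (XT.lf (nat_lit 0) (nat_lit 5713061015) (nat_lit 228) (nat_lit 13660396925)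 (nat_lit 76) (nat_lit 7917726237) (nat_lit 12) (nat_lit 5) (nat_lit 15) (nat_lit 5) (nat_lit 13) (nat_lit 4) (nat_lit 240) (nat_lit 222) (nat_lit 198)) (XT.lf (nat_lit 0) (nat_lit 5484843896) (nat_lit 76) (nat_lit 9490643600) (nat_lit 152) (nat_lit 15424683423) (nat_lit 11) (nat_lit 5) (nat_lit 12) (nat_lit 5) (nat_lit 13) (nat_lit 4) (nat_lit 241) (nat_lit 222) (nat_lit 197)))))) (XT.nd (nat_lit 468) (nat_lit 228) (nat_lit 0) (XT.nd (nat_lit 234) (nat_lit 152) (nat_lit 0) (XT.nd (nat_lit 78) (nat_lit 152) (nat_lit 0) (XT.lf (nat_lit 0) (nat_lit 25978064682) (nat_lit 152) (nat_lit 5851685558) (nat_lit 0) (nat_lit 2117837731) (nat_lit 11) (nat_lit 5) (nat_lit 13) (nat_lit 4) (nat_lit 11) (nat_lit 4) (nat_lit 242) (nat_lit 222) (nat_lit 196)) (XT.nd (nat_lit 78) (nat_lit 0) (nat_lit 0) (XT.lf (nat_lit 0) (nat_lit 1158108205) (nat_lit 152) (nat_lit 21535802308) (nat_lit 76) (nat_lit 15285409488)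 (nat_lit 9) (nat_lit 5) (nat_lit 11) (nat_lit 5) (nat_lit 10) (nat_lit 4) (nat_lit 243) (nat_lit 222) (nat_lit 195)) (XT.lf (nat_lit 0) (nat_lit 11288144470) (nat_lit 152) (nat_lit 538753335) (nat_lit 76) (nat_lit 30764044089) (nat_lit 9) (nat_lit 5) (nat_lit 11) (nat_lit 5) (nat_lit 10) (nat_lit 4) (nat_lit 244) (nat_lit 222) (nat_lit 194)))) (XT.nd (nat_lit 78) (nat_lit 76) (nat_lit 0) (XT.lf (nat_lit 0) (nat_lit 23490018176) (nat_lit 152) (nat_lit 23168267883) (nat_lit 0) (nat_lit 1191922872) (nat_lit 8) (nat_lit 5) (nat_lit 10) (nat_lit 4) (nat_lit 8) (nat_lit 4) (nat_lit 245) (nat_lit 222) (nat_lit 193)) (XT.nd (nat_lit 78) (nat_lit 76) (nat_lit 0) (XT.lf (nat_lit 0) (nat_lit 37798432224) (nat_lit 152) (nat_lit 628981314) (nat_lit 0) (nat_lit 15448928633) (nat_lit 8) (nat_lit 5) (nat_lit 10) (nat_lit 4) (nat_lit 8) (nat_lit 4) (nat_lit 246) (nat_lit 222) (nat_lit 192)) (XT.lf (nat_lit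 0) (nat_lit 26510651161) (nat_lit 76) (nat_lit 28321833713) (nat_lit 76) (nat_lit 5927627263) (nat_lit 7) (nat_lit 4) (nat_lit 8) (nat_lit 5) (nat_lit 8) (nat_lit 4) (nat_lit 247) (nat_lit 222) (nat_lit 191))))) (XT.nd (nat_lit 234) (nat_lit 76) (nat_lit 0) (XT.nd (nat_lit 78) (nat_lit 76) (nat_lit 0) (XT.lf (nat_lit 0) (nat_lit 5422194018) (nat_lit 152) (nat_lit 11154914943) (nat_lit 76) (nat_lit 52091187156) (nat_lit 6) (nat_lit 5) (nat_lit 8) (nat_lit 5) (nat_lit 7) (nat_lit 4) (nat_lit 248) (nat_lit 222) (nat_lit 190)) (XT.nd (nat_lit 78) (nat_lit 0) (nat_lit 0) (XT.lf (nat_lit 0) (nat_lit 15950287242) (nat_lit 76) (nat_lit 2519504838) (nat_lit 152) (nat_lit 59252942456) (nat_lit 5) (nat_lit 5) (nat_lit 6) (nat_lit 5) (nat_lit 7) (nat_lit 4) (nat_lit 249) (nat_lit 222) (nat_lit 189)) (XT.lf (nat_lit 0) (nat_lit 34091987579) (nat_lit 152) (nat_lit 40731890184) (nat_lit 0) (nat_lit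 13262105042) (nat_lit 5) (nat_lit 5) (nat_lit 7) (nat_lit 4) (nat_lit 5) (nat_lit 4) (nat_lit 250) (nat_lit 222) (nat_lit 188)))) (XT.nd (nat_lit 78) (nat_lit 76) (nat_lit 0) (XT.lf (nat_lit 0) (nat_lit 52088982240) (nat_lit 152) (nat_lit 16676819926) (nat_lit 0) (nat_lit 31235433957) (nat_lit 5) (nat_lit 5) (nat_lit 7) (nat_lit 4) (nat_lit 5) (nat_lit 4) (nat_lit 251) (nat_lit 222) (nat_lit 187)) (XT.nd (nat_lit 78) (nat_lit 0) (nat_lit 0) (XT.lf (nat_lit 0) (nat_lit 11499238808) (nat_lit 76) (nat_lit 61529615185) (nat_lit 76) (nat_lit 40655487994) (nat_lit 4) (nat_lit 4) (nat_lit 5) (nat_lit 5) (nat_lit 5) (nat_lit 4) (nat_lit 252) (nat_lit 222) (nat_lit 186)) (XT.lf (nat_lit 0) (nat_lit 44854384552) (nat_lit 76) (nat_lit 52710578651) (nat_lit 76) (nat_lit 31818556756) (nat_lit 4) (nat_lit 4) (nat_lit 5) (nat_lit 5) (nat_lit 5) (nat_lit 4) (nat_lit 253) (nat_lit 222) (nat_lit 185))))))))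
noncomputable def xc27 : XT := (XT.nd (nat_lit 1794) (nat_lit 0) (nat_lit 0) (XT.nd (nat_lit 858) (nat_lit 76) (nat_lit 0) (XT.nd (nat_lit 390) (nat_lit 0) (nat_lit 0) (XT.nd (nat_lit 156) (nat_lit 152) (nat_lit 0) (XT.nd (nat_lit 78) (nat_lit 0) (nat_lit 0) (XT.lf (nat_lit 0) (nat_lit 83163046198) (nat_lit 76) (nat_lit 42592120007) (nat_lit 76) (nat_lit 21684537501) (nat_lit 4) (nat_lit 4) (nat_lit 5) (nat_lit 5) (nat_lit 5) (nat_lit 4) (nat_lit 254) (nat_lit 222) (nat_lit 184)) (XT.lf (nat_lit 0) (nat_lit 127174741042) (nat_lit 76) (nat_lit 30976269411) (nat_lit 76) (nat_lit 10055155938) (nat_lit 4) (nat_lit 4) (nat_lit 5) (nat_lit 5) (nat_lit 5) (nat_lit 4) (nat_lit 255) (nat_lit 222) (nat_lit 183))) (XT.nd (nat_lit 78) (nat_lit 76) (nat_lit 0) (XT.lf (nat_lit 0) (nat_lit 3132184048) (nat_lit 152) (nat_lit 14417936709) (nat_lit 76) (nat_lit 174532743947) (nat_lit 3) (nat_lit 5) (nat_lit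 5) (nat_lit 5) (nat_lit 4) (nat_lit 4) (nat_lit 256) (nat_lit 222) (nat_lit 182)) (XT.nd (nat_lit 78) (nat_lit 0) (nat_lit 0) (XT.lf (nat_lit 0) (nat_lit 16711801108) (nat_lit 76) (nat_lit 1391521965) (nat_lit 152) (nat_lit 201384778992) (nat_lit 2) (nat_lit 5) (nat_lit 3) (nat_lit 5) (nat_lit 4) (nat_lit 4) (nat_lit 257) (nat_lit 222) (nat_lit 181)) (XT.lf (nat_lit 0) (nat_lit 36147693019) (nat_lit 152) (nat_lit 198042553651) (nat_lit 0) (nat_lit 16747685875) (nat_lit 2) (nat_lit 5) (nat_lit 4) (nat_lit 4) (nat_lit 2) (nat_lit 4) (nat_lit 258) (nat_lit 222) (nat_lit 180))))) (XT.nd (nat_lit 234) (nat_lit 0) (nat_lit 0) (XT.nd (nat_lit 78) (nat_lit 0) (nat_lit 0) (XT.lf (nat_lit 0) (nat_lit 56922816399) (nat_lit 152) (nat_lit 192664858130) (nat_lit 0) (nat_lit 37515645946) (nat_lit 2) (nat_lit 5) (nat_lit 4) (nat_lit 4) (nat_lit 2) (nat_lit 4) (nat_lit 259) (nat_lit 222) (nat_lit 179))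 (XT.nd (nat_lit 78) (nat_lit 0) (nat_lit 0) (XT.lf (nat_lit 0) (nat_lit 80801696883) (nat_lit 152) (nat_lit 186504532475) (nat_lit 0) (nat_lit 61388297466) (nat_lit 2) (nat_lit 5) (nat_lit 4) (nat_lit 4) (nat_lit 2) (nat_lit 4) (nat_lit 260) (nat_lit 222) (nat_lit 178)) (XT.lf (nat_lit 0) (nat_lit 108251529959) (nat_lit 152) (nat_lit 179441048576) (nat_lit 0) (nat_lit 88832714050) (nat_lit 2) (nat_lit 5) (nat_lit 4) (nat_lit 4) (nat_lit 2) (nat_lit 4) (nat_lit 261) (nat_lit 222) (nat_lit 177)))) (XT.nd (nat_lit 78) (nat_lit 0) (nat_lit 0) (XT.lf (nat_lit 0) (nat_lit 139809377577) (nat_lit 152) (nat_lit 171336207836) (nat_lit 0) (nat_lit 120385851676) (nat_lit 2) (nat_lit 5) (nat_lit 4) (nat_lit 4) (nat_lit 2) (nat_lit 4) (nat_lit 262) (nat_lit 222) (nat_lit 176)) (XT.nd (nat_lit 78) (nat_lit 0) (nat_lit 0) (XT.lf (nat_lit 0) (nat_lit 176092675886) (nat_lit 152) (nat_lit 162031437282)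 (nat_lit 0) (nat_lit 156665054340) (nat_lit 2) (nat_lit 5) (nat_lit 4) (nat_lit 4) (nat_lit 2) (nat_lit 4) (nat_lit 263) (nat_lit 222) (nat_lit 175)) (XT.lf (nat_lit 0) (nat_lit 217811315507) (nat_lit 152) (nat_lit 151344687056) (nat_lit 0) (nat_lit 198380132530) (nat_lit 2) (nat_lit 5) (nat_lit 4) (nat_lit 4) (nat_lit 2) (nat_lit 4) (nat_lit 264) (nat_lit 222) (nat_lit 174)))))) (XT.nd (nat_lit 468) (nat_lit 76) (nat_lit 0) (XT.nd (nat_lit 234) (nat_lit 0) (nat_lit 0) (XT.nd (nat_lit 78) (nat_lit 0) (nat_lit 0) (XT.lf (nat_lit 0) (nat_lit 265781530692) (nat_lit 152) (nat_lit 139066868567) (nat_lit 0) (nat_lit 246347250818) (nat_lit 2) (nat_lit 5) (nat_lit 4) (nat_lit 4) (nat_lit 2) (nat_lit 4) (nat_lit 265) (nat_lit 222) (nat_lit 173)) (XT.nd (nat_lit 78) (nat_lit 0) (nat_lit 0) (XT.lf (nat_lit 0) (nat_lit 320941869129) (nat_lit 152) (nat_lit 124957763628) (nat_lit 0) (nat_lit 301504896303)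 (nat_lit 2) (nat_lit 5) (nat_lit 4) (nat_lit 4) (nat_lit 2) (nat_lit 4) (nat_lit 266) (nat_lit 222) (nat_lit 172)) (XT.lf (nat_lit 0) (nat_lit 384371554832) (nat_lit 152) (nat_lit 108741324532) (nat_lit 0) (nat_lit 364932240307) (nat_lit 2) (nat_lit 5) (nat_lit 4) (nat_lit 4) (nat_lit 2) (nat_lit 4) (nat_lit 267) (nat_lit 222) (nat_lit 171)))) (XT.nd (nat_lit 78) (nat_lit 0) (nat_lit 0) (XT.lf (nat_lit 0) (nat_lit 457311603391) (nat_lit 152) (nat_lit 90100273123) (nat_lit 0) (nat_lit 437870252606) (nat_lit 2) (nat_lit 5) (nat_lit 4) (nat_lit 4) (nat_lit 2) (nat_lit 4) (nat_lit 268) (nat_lit 222) (nat_lit 170)) (XT.nd (nat_lit 78) (nat_lit 0) (nat_lit 0) (XT.lf (nat_lit 0) (nat_lit 541189102711) (nat_lit 152) (nat_lit 68669893179) (nat_lit 0) (nat_lit 521745981266) (nat_lit 2) (nat_lit 5) (nat_lit 4) (nat_lit 4) (nat_lit 2) (nat_lit 4) (nat_lit 269) (nat_lit 222) (nat_lit 169)) (XT.lf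 (nat_lit 0) (nat_lit 637645134302) (nat_lit 152) (nat_lit 44030894656) (nat_lit 0) (nat_lit 618200473152) (nat_lit 2) (nat_lit 5) (nat_lit 4) (nat_lit 4) (nat_lit 2) (nat_lit 4) (nat_lit 270) (nat_lit 222) (nat_lit 168))))) (XT.nd (nat_lit 234) (nat_lit 0) (nat_lit 0) (XT.nd (nat_lit 78) (nat_lit 76) (nat_lit 0) (XT.lf (nat_lit 0) (nat_lit 748566881391) (nat_lit 152) (nat_lit 15701210194) (nat_lit 0) (nat_lit 729120881367) (nat_lit 2) (nat_lit 5) (nat_lit 4) (nat_lit 4) (nat_lit 2) (nat_lit 4) (nat_lit 271) (nat_lit 222) (nat_lit 167)) (XT.nd (nat_lit 78) (nat_lit 0) (nat_lit 0) (XT.lf (nat_lit 0) (nat_lit 17761961915) (nat_lit 76) (nat_lit 858789765767) (nat_lit 76) (nat_lit 839342601505) (nat_lit 1) (nat_lit 4) (nat_lit 2) (nat_lit 5) (nat_lit 2) (nat_lit 4) (nat_lit 272) (nat_lit 222) (nat_lit 166)) (XT.lf (nat_lit 0) (nat_lit 57191317219) (nat_lit 76) (nat_lit 966997975237) (nat_lit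 76) (nat_lit 947549798594) (nat_lit 1) (nat_lit 4) (nat_lit 2) (nat_lit 5) (nat_lit 2) (nat_lit 4) (nat_lit 273) (nat_lit 222) (nat_lit 165)))) (XT.nd (nat_lit 78) (nat_lit 0) (nat_lit 0) (XT.lf (nat_lit 0) (nat_lit 102531501719) (nat_lit 76) (nat_lit 1091439136049) (nat_lit 76) (nat_lit 1071990079075) (nat_lit 1) (nat_lit 4) (nat_lit 2) (nat_lit 5) (nat_lit 2) (nat_lit 4) (nat_lit 274) (nat_lit 222) (nat_lit 164)) (XT.nd (nat_lit 78) (nat_lit 0) (nat_lit 0) (XT.lf (nat_lit 0) (nat_lit 154669605983) (nat_lit 76) (nat_lit 1234547966566) (nat_lit 76) (nat_lit 1215098144086) (nat_lit 1) (nat_lit 4) (nat_lit 2) (nat_lit 5) (nat_lit 2) (nat_lit 4) (nat_lit 275) (nat_lit 222) (nat_lit 163)) (XT.lf (nat_lit 0) (nat_lit 214625723356) (nat_lit 76) (nat_lit 1399124422168) (nat_lit 76) (nat_lit 1379673934031) (nat_lit 1) (nat_lit 4) (nat_lit 2) (nat_lit 5) (nat_lit 2) (nat_lit 4) (nat_lit 276) (nat_lit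 222) (nat_lit 162))))))) (XT.nd (nat_lit 30420) (nat_lit 0) (nat_lit 1292) (XT.nd (nat_lit 390) (nat_lit 0) (nat_lit 0) (XT.nd (nat_lit 156) (nat_lit 0) (nat_lit 0) (XT.nd (nat_lit 78) (nat_lit 0) (nat_lit 0) (XT.lf (nat_lit 0) (nat_lit 283572908306) (nat_lit 76) (nat_lit 1588388476986) (nat_lit 76) (nat_lit 1568937410018) (nat_lit 1) (nat_lit 4) (nat_lit 2) (nat_lit 5) (nat_lit 2) (nat_lit 4) (nat_lit 277) (nat_lit 222) (nat_lit 161)) (XT.lf (nat_lit 0) (nat_lit 362860127498) (nat_lit 76) (nat_lit 1806043123397) (nat_lit 76) (nat_lit 1786591553097) (nat_lit 1) (nat_lit 4) (nat_lit 2) (nat_lit 5) (nat_lit 2) (nat_lit 4) (nat_lit 278) (nat_lit 222) (nat_lit 160))) (XT.nd (nat_lit 78) (nat_lit 0) (nat_lit 0) (XT.lf (nat_lit 0) (nat_lit 454038652609) (nat_lit 76) (nat_lit 2056346821875) (nat_lit 76) (nat_lit 2036894813894) (nat_lit 1) (nat_lit 4) (nat_lit 2) (nat_lit 5) (nat_lit 2) (nat_lit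 4) (nat_lit 279) (nat_lit 222) (nat_lit 159)) (XT.nd (nat_lit 78) (nat_lit 0) (nat_lit 0) (XT.lf (nat_lit 0) (nat_lit 558892411306) (nat_lit 76) (nat_lit 2344196818694) (nat_lit 76) (nat_lit 2324744430122) (nat_lit 1) (nat_lit 4) (nat_lit 2) (nat_lit 5) (nat_lit 2) (nat_lit 4) (nat_lit 280) (nat_lit 222) (nat_lit 158)) (XT.lf (nat_lit 0) (nat_lit 679472890171) (nat_lit 76) (nat_lit 2675224961617) (nat_lit 76) (nat_lit 2655772242096) (nat_lit 1) (nat_lit 4) (nat_lit 2) (nat_lit 5) (nat_lit 2) (nat_lit 4) (nat_lit 281) (nat_lit 222) (nat_lit 157))))) (XT.nd (nat_lit 29796) (nat_lit 0) (nat_lit 3724) (XT.nd (nat_lit 78) (nat_lit 0) (nat_lit 0) (XT.lf (nat_lit 0) (nat_lit 818139272488) (nat_lit 76) (nat_lit 3055907888225) (nat_lit 76) (nat_lit 3036454880922) (nat_lit 1) (nat_lit 4) (nat_lit 2) (nat_lit 5) (nat_lit 2) (nat_lit 4) (nat_lit 282) (nat_lit 222) (nat_lit 156)) (XT.nd (nat_lit 78)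 (nat_lit 0) (nat_lit 0) (XT.lf (nat_lit 0) (nat_lit 977604596170) (nat_lit 76) (nat_lit 3493693742732) (nat_lit 76) (nat_lit 3474240485184) (nat_lit 1) (nat_lit 4) (nat_lit 2) (nat_lit 5) (nat_lit 2) (nat_lit 4) (nat_lit 283) (nat_lit 222) (nat_lit 155)) (XT.lf (nat_lit 0) (nat_lit 1160988834942) (nat_lit 76) (nat_lit 3997147900554) (nat_lit 76) (nat_lit 3977694425402) (nat_lit 1) (nat_lit 4) (nat_lit 2) (nat_lit 5) (nat_lit 2) (nat_lit 4) (nat_lit 284) (nat_lit 222) (nat_lit 154)))) (XT.nd (nat_lit 78) (nat_lit 304) (nat_lit 0) (XT.lf (nat_lit 0) (nat_lit 1976935912) (nat_lit 380) (nat_lit 839865102) (nat_lit 380) (nat_lit 839865102) (nat_lit 54) (nat_lit 3) (nat_lit 59) (nat_lit 3) (nat_lit 59) (nat_lit 5) (nat_lit 223) (nat_lit 223) (nat_lit 214)) (XT.nd (nat_lit 78) (nat_lit 304) (nat_lit 0) (XT.lf (nat_lit 76) (nat_lit 4734168103) (nat_lit 0) (nat_lit 2164222777) (nat_lit 380) (nat_lit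 739490429) (nat_lit 55) (nat_lit 5) (nat_lit 54) (nat_lit 3) (nat_lit 59) (nat_lit 5) (nat_lit 224) (nat_lit 223) (nat_lit 213)) (XT.lf (nat_lit 0) (nat_lit 1890079350) (nat_lit 380) (nat_lit 4020492591) (nat_lit 456) (nat_lit 2119736947) (nat_lit 50) (nat_lit 5) (nat_lit 55) (nat_lit 5) (nat_lit 56) (nat_lit 5) (nat_lit 225) (nat_lit 223) (nat_lit 212)))))) (XT.nd (nat_lit 468) (nat_lit 836) (nat_lit 0) (XT.nd (nat_lit 234) (nat_lit 760) (nat_lit 0) (XT.nd (nat_lit 78) (nat_lit 836) (nat_lit 0) (XT.lf (nat_lit 76) (nat_lit 3452446327) (nat_lit 0) (nat_lit 1236347443) (nat_lit 456) (nat_lit 3807527073) (nat_lit 51) (nat_lit 5) (nat_lit 50) (nat_lit 5) (nat_lit 56) (nat_lit 5) (nat_lit 226) (nat_lit 223) (nat_lit 211)) (XT.nd (nat_lit 78) (nat_lit 532) (nat_lit 0) (XT.lf (nat_lit 0) (nat_lit 3008085291) (nat_lit 380) (nat_lit 4828237804) (nat_lit 456) (nat_lit 1203100843) (nat_lit 46)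 (nat_lit 5) (nat_lit 51) (nat_lit 5) (nat_lit 52) (nat_lit 5) (nat_lit 227) (nat_lit 223) (nat_lit 210)) (XT.lf (nat_lit 0) (nat_lit 1644882078) (nat_lit 532) (nat_lit 7019513841) (nat_lit 76) (nat_lit 1001961715) (nat_lit 39) (nat_lit 5) (nat_lit 46) (nat_lit 5) (nat_lit 40) (nat_lit 5) (nat_lit 228) (nat_lit 223) (nat_lit 209)))) (XT.nd (nat_lit 78) (nat_lit 532) (nat_lit 0) (XT.lf (nat_lit 0) (nat_lit 2261139616) (nat_lit 228) (nat_lit 2663005065) (nat_lit 304) (nat_lit 5455718392) (nat_lit 36) (nat_lit 5) (nat_lit 39) (nat_lit 5) (nat_lit 40) (nat_lit 5) (nat_lit 229) (nat_lit 223) (nat_lit 208)) (XT.nd (nat_lit 78) (nat_lit 304) (nat_lit 0) (XT.lf (nat_lit 0) (nat_lit 1865330927) (nat_lit 228) (nat_lit 6923253206) (nat_lit 304) (nat_lit 2405266485) (nat_lit 33) (nat_lit 5) (nat_lit 36) (nat_lit 5) (nat_lit 37) (nat_lit 5) (nat_lit 230) (nat_lit 223) (nat_lit 207)) (XT.lf (nat_lit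 0) (nat_lit 1161427905) (nat_lit 304) (nat_lit 10718417118) (nat_lit 76) (nat_lit 239602625) (nat_lit 29) (nat_lit 5) (nat_lit 33) (nat_lit 5) (nat_lit 30) (nat_lit 5) (nat_lit 231) (nat_lit 223) (nat_lit 206))))) (XT.nd (nat_lit 234) (nat_lit 456) (nat_lit 0) (XT.nd (nat_lit 78) (nat_lit 228) (nat_lit 0) (XT.lf (nat_lit 0) (nat_lit 632298155) (nat_lit 152) (nat_lit 4759853949) (nat_lit 228) (nat_lit 7765662253) (nat_lit 27) (nat_lit 5) (nat_lit 29) (nat_lit 5) (nat_lit 30) (nat_lit 5) (nat_lit 232) (nat_lit 223) (nat_lit 205)) (XT.nd (nat_lit 78) (nat_lit 228) (nat_lit 0) (XT.lf (nat_lit 0) (nat_lit 10463089504) (nat_lit 228) (nat_lit 351229319) (nat_lit 76) (nat_lit 3521728556) (nat_lit 27) (nat_lit 5) (nat_lit 30) (nat_lit 5) (nat_lit 28) (nat_lit 5) (nat_lit 233) (nat_lit 223) (nat_lit 204)) (XT.lf (nat_lit 0) (nat_lit 877344841) (nat_lit 228) (nat_lit 1706298507) (nat_lit 76) (nat_lit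 13082350013) (nat_lit 24) (nat_lit 5) (nat_lit 27) (nat_lit 5) (nat_lit 25) (nat_lit 5) (nat_lit 234) (nat_lit 223) (nat_lit 203)))) (XT.nd (nat_lit 78) (nat_lit 304) (nat_lit 0) (XT.lf (nat_lit 0) (nat_lit 6471831858) (nat_lit 228) (nat_lit 3754260471) (nat_lit 76) (nat_lit 6932806155) (nat_lit 22) (nat_lit 5) (nat_lit 25) (nat_lit 5) (nat_lit 23) (nat_lit 5) (nat_lit 235) (nat_lit 223) (nat_lit 202)) (XT.nd (nat_lit 78) (nat_lit 152) (nat_lit 0) (XT.lf (nat_lit 0) (nat_lit 12344715040) (nat_lit 152) (nat_lit 835903437) (nat_lit 228) (nat_lit 5673451509) (nat_lit 20) (nat_lit 5) (nat_lit 22) (nat_lit 5) (nat_lit 23) (nat_lit 5) (nat_lit 236) (nat_lit 223) (nat_lit 201)) (XT.lf (nat_lit 0) (nat_lit 568789067) (nat_lit 152) (nat_lit 10418519301) (nat_lit 76) (nat_lit 9777810126) (nat_lit 18) (nat_lit 5) (nat_lit 20) (nat_lit 5) (nat_lit 19) (nat_lit 5) (nat_lit 237) (nat_lit 223) (nat_lit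 200))))))))
noncomputable def xc28 : XT := (XT.nd (nat_lit 1794) (nat_lit 76) (nat_lit 0) (XT.nd (nat_lit 858) (nat_lit 380) (nat_lit 0) (XT.nd (nat_lit 390) (nat_lit 304) (nat_lit 0) (XT.nd (nat_lit 156) (nat_lit 304) (nat_lit 0) (XT.nd (nat_lit 78) (nat_lit 76) (nat_lit 0) (XT.lf (nat_lit 0) (nat_lit 7156290776) (nat_lit 152) (nat_lit 532017830) (nat_lit 228) (nat_lit 15240815281) (nat_lit 16) (nat_lit 5) (nat_lit 18) (nat_lit 5) (nat_lit 19) (nat_lit 5) (nat_lit 238) (nat_lit 223) (nat_lit 199)) (XT.lf (nat_lit 0) (nat_lit 2247744583) (nat_lit 76) (nat_lit 14157372649) (nat_lit 152) (nat_lit 8970471406) (nat_lit 15) (nat_lit 5) (nat_lit 16) (nat_lit 5) (nat_lit 17) (nat_lit 4) (nat_lit 239) (nat_lit 223) (nat_lit 198))) (XT.nd (nat_lit 78) (nat_lit 304) (nat_lit 0) (XT.lf (nat_lit 0) (nat_lit 23741534641) (nat_lit 76) (nat_lit 3059757985) (nat_lit 152) (nat_lit 1358163224) (nat_lit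 15) (nat_lit 5) (nat_lit 16) (nat_lit 5) (nat_lit 17) (nat_lit 4) (nat_lit 240) (nat_lit 223) (nat_lit 197)) (XT.nd (nat_lit 78) (nat_lit 76) (nat_lit 0) (XT.lf (nat_lit 0) (nat_lit 7607154387) (nat_lit 228) (nat_lit 13916395757) (nat_lit 76) (nat_lit 9776777086) (nat_lit 12) (nat_lit 5) (nat_lit 15) (nat_lit 5) (nat_lit 13) (nat_lit 4) (nat_lit 241) (nat_lit 223) (nat_lit 196)) (XT.lf (nat_lit 0) (nat_lit 7948857530) (nat_lit 76) (nat_lit 10214281927) (nat_lit 152) (nat_lit 16720390935) (nat_lit 11) (nat_lit 5) (nat_lit 12) (nat_lit 5) (nat_lit 13) (nat_lit 4) (nat_lit 242) (nat_lit 223) (nat_lit 195))))) (XT.nd (nat_lit 234) (nat_lit 76) (nat_lit 0) (XT.nd (nat_lit 78) (nat_lit 228) (nat_lit 0) (XT.lf (nat_lit 0) (nat_lit 30707959470) (nat_lit 152) (nat_lit 5250204303) (nat_lit 0) (nat_lit 3013725103) (nat_lit 11) (nat_lit 5) (nat_lit 13) (nat_lit 4) (nat_lit 11) (nat_lit 4) (nat_lit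 243) (nat_lit 223) (nat_lit 194)) (XT.nd (nat_lit 78) (nat_lit 76) (nat_lit 0) (XT.lf (nat_lit 0) (nat_lit 2109538570) (nat_lit 152) (nat_lit 23370243234) (nat_lit 76) (nat_lit 18133266987) (nat_lit 9) (nat_lit 5) (nat_lit 11) (nat_lit 5) (nat_lit 10) (nat_lit 4) (nat_lit 244) (nat_lit 223) (nat_lit 193)) (XT.lf (nat_lit 0) (nat_lit 625579346) (nat_lit 76) (nat_lit 13047105152) (nat_lit 152) (nat_lit 35250765314) (nat_lit 8) (nat_lit 5) (nat_lit 9) (nat_lit 5) (nat_lit 10) (nat_lit 4) (nat_lit 245) (nat_lit 223) (nat_lit 192)))) (XT.nd (nat_lit 78) (nat_lit 76) (nat_lit 0) (XT.lf (nat_lit 0) (nat_lit 27640243120) (nat_lit 152) (nat_lit 25494436620) (nat_lit 0) (nat_lit 1842202843) (nat_lit 8) (nat_lit 5) (nat_lit 10) (nat_lit 4) (nat_lit 8) (nat_lit 4) (nat_lit 246) (nat_lit 223) (nat_lit 191)) (XT.nd (nat_lit 78) (nat_lit 0) (nat_lit 0) (XT.lf (nat_lit 0) (nat_lit 290390561) (nat_lit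 76) (nat_lit 43729766238) (nat_lit 76) (nat_lit 17892853910) (nat_lit 7) (nat_lit 4) (nat_lit 8) (nat_lit 5) (nat_lit 8) (nat_lit 4) (nat_lit 247) (nat_lit 223) (nat_lit 190)) (XT.lf (nat_lit 0) (nat_lit 31401864723) (nat_lit 76) (nat_lit 32151381452) (nat_lit 76) (nat_lit 6280667341) (nat_lit 7) (nat_lit 4) (nat_lit 8) (nat_lit 5) (nat_lit 8) (nat_lit 4) (nat_lit 248) (nat_lit 223) (nat_lit 189)))))) (XT.nd (nat_lit 468) (nat_lit 152) (nat_lit 0) (XT.nd (nat_lit 234) (nat_lit 76) (nat_lit 0) (XT.nd (nat_lit 78) (nat_lit 76) (nat_lit 0) (XT.lf (nat_lit 0) (nat_lit 6678380440) (nat_lit 152) (nat_lit 12009075650) (nat_lit 76) (nat_lit 60245217569) (nat_lit 6) (nat_lit 5) (nat_lit 8) (nat_lit 5) (nat_lit 7) (nat_lit 4) (nat_lit 249) (nat_lit 223) (nat_lit 188)) (XT.nd (nat_lit 78) (nat_lit 0) (nat_lit 0) (XT.lf (nat_lit 0) (nat_lit 19092576114) (nat_lit 76) (nat_lit 2550809503) (nat_lit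 152) (nat_lit 67705128000) (nat_lit 5) (nat_lit 5) (nat_lit 6) (nat_lit 5) (nat_lit 7) (nat_lit 4) (nat_lit 250) (nat_lit 223) (nat_lit 187)) (XT.lf (nat_lit 0) (nat_lit 39563577864) (nat_lit 152) (nat_lit 46168594895) (nat_lit 0) (nat_lit 15537752686) (nat_lit 5) (nat_lit 5) (nat_lit 7) (nat_lit 4) (nat_lit 5) (nat_lit 4) (nat_lit 251) (nat_lit 223) (nat_lit 186)))) (XT.nd (nat_lit 78) (nat_lit 76) (nat_lit 0) (XT.lf (nat_lit 0) (nat_lit 60213453183) (nat_lit 152) (nat_lit 18593056987) (nat_lit 0) (nat_lit 36169733301) (nat_lit 5) (nat_lit 5) (nat_lit 7) (nat_lit 4) (nat_lit 5) (nat_lit 4) (nat_lit 252) (nat_lit 223) (nat_lit 185)) (XT.nd (nat_lit 78) (nat_lit 0) (nat_lit 0) (XT.lf (nat_lit 0) (nat_lit 13759869019) (nat_lit 76) (nat_lit 70506740006) (nat_lit 76) (nat_lit 46447459512) (nat_lit 4) (nat_lit 4) (nat_lit 5) (nat_lit 5) (nat_lit 5) (nat_lit 4) (nat_lit 253) (nat_lit 223) (nat_lit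 184)) (XT.lf (nat_lit 0) (nat_lit 52048406921) (nat_lit 76) (nat_lit 60397758964) (nat_lit 76) (nat_lit 36324947504) (nat_lit 4) (nat_lit 4) (nat_lit 5) (nat_lit 5) (nat_lit 5) (nat_lit 4) (nat_lit 254) (nat_lit 223) (nat_lit 183))))) (XT.nd (nat_lit 234) (nat_lit 76) (nat_lit 0) (XT.nd (nat_lit 78) (nat_lit 76) (nat_lit 0) (XT.lf (nat_lit 0) (nat_lit 96042602856) (nat_lit 76) (nat_lit 48790149761) (nat_lit 76) (nat_lit 24705572243) (nat_lit 4) (nat_lit 4) (nat_lit 5) (nat_lit 5) (nat_lit 5) (nat_lit 4) (nat_lit 255) (nat_lit 223) (nat_lit 182)) (XT.nd (nat_lit 78) (nat_lit 76) (nat_lit 0) (XT.lf (nat_lit 0) (nat_lit 146603212831) (nat_lit 76) (nat_lit 35456806999) (nat_lit 76) (nat_lit 11361998126) (nat_lit 4) (nat_lit 4) (nat_lit 5) (nat_lit 5) (nat_lit 5) (nat_lit 4) (nat_lit 256) (nat_lit 223) (nat_lit 181)) (XT.lf (nat_lit 0) (nat_lit 3768407132) (nat_lit 152) (nat_lit 16265418866)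 (nat_lit 76) (nat_lit 200848024109) (nat_lit 3) (nat_lit 5) (nat_lit 5) (nat_lit 5) (nat_lit 4) (nat_lit 4) (nat_lit 257) (nat_lit 223) (nat_lit 180)))) (XT.nd (nat_lit 78) (nat_lit 0) (nat_lit 0) (XT.lf (nat_lit 0) (nat_lit 19507098806) (nat_lit 76) (nat_lit 1463353541) (nat_lit 152) (nat_lit 231428619202) (nat_lit 2) (nat_lit 5) (nat_lit 3) (nat_lit 5) (nat_lit 4) (nat_lit 4) (nat_lit 258) (nat_lit 223) (nat_lit 179)) (XT.nd (nat_lit 78) (nat_lit 0) (nat_lit 0) (XT.lf (nat_lit 0) (nat_lit 41704562782) (nat_lit 152) (nat_lit 227490257578) (nat_lit 0) (nat_lit 19372924487) (nat_lit 2) (nat_lit 5) (nat_lit 4) (nat_lit 4) (nat_lit 2) (nat_lit 4) (nat_lit 259) (nat_lit 223) (nat_lit 178)) (XT.lf (nat_lit 0) (nat_lit 65578383043) (nat_lit 152) (nat_lit 221339648484) (nat_lit 0) (nat_lit 43241328257) (nat_lit 2) (nat_lit 5) (nat_lit 4) (nat_lit 4) (nat_lit 2) (nat_lit 4) (nat_lit 260) (nat_lit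 223) (nat_lit 177))))))) (XT.nd (nat_lit 858) (nat_lit 76) (nat_lit 0) (XT.nd (nat_lit 390) (nat_lit 0) (nat_lit 0) (XT.nd (nat_lit 156) (nat_lit 0) (nat_lit 0) (XT.nd (nat_lit 78) (nat_lit 0) (nat_lit 0) (XT.lf (nat_lit 0) (nat_lit 93023815923) (nat_lit 152) (nat_lit 214284613768) (nat_lit 0) (nat_lit 70682051145) (nat_lit 2) (nat_lit 5) (nat_lit 4) (nat_lit 4) (nat_lit 2) (nat_lit 4) (nat_lit 261) (nat_lit 223) (nat_lit 176)) (XT.lf (nat_lit 0) (nat_lit 124577837285) (nat_lit 152) (nat_lit 206187120142) (nat_lit 0) (nat_lit 102231976861) (nat_lit 2) (nat_lit 5) (nat_lit 4) (nat_lit 4) (nat_lit 2) (nat_lit 4) (nat_lit 262) (nat_lit 223) (nat_lit 175))) (XT.nd (nat_lit 78) (nat_lit 0) (nat_lit 0) (XT.lf (nat_lit 0) (nat_lit 160857808415) (nat_lit 152) (nat_lit 196888738384) (nat_lit 0) (nat_lit 138508386561) (nat_lit 2) (nat_lit 5) (nat_lit 4) (nat_lit 4) (nat_lit 2) (nat_lit 4) (nat_lit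 263) (nat_lit 223) (nat_lit 174)) (XT.nd (nat_lit 78) (nat_lit 0) (nat_lit 0) (XT.lf (nat_lit 0) (nat_lit 202573554836) (nat_lit 152) (nat_lit 186207543634) (nat_lit 0) (nat_lit 180221036086) (nat_lit 2) (nat_lit 5) (nat_lit 4) (nat_lit 4) (nat_lit 2) (nat_lit 4) (nat_lit 264) (nat_lit 223) (nat_lit 173)) (XT.lf (nat_lit 0) (nat_lit 250541254196) (nat_lit 152) (nat_lit 173934555992) (nat_lit 0) (nat_lit 228186042492) (nat_lit 2) (nat_lit 5) (nat_lit 4) (nat_lit 4) (nat_lit 2) (nat_lit 4) (nat_lit 265) (nat_lit 223) (nat_lit 172))))) (XT.nd (nat_lit 234) (nat_lit 0) (nat_lit 0) (XT.nd (nat_lit 78) (nat_lit 0) (nat_lit 0) (XT.lf (nat_lit 0) (nat_lit 305699404959) (nat_lit 152) (nat_lit 159829651790) (nat_lit 0) (nat_lit 283341851556) (nat_lit 2) (nat_lit 5) (nat_lit 4) (nat_lit 4) (nat_lit 2) (nat_lit 4) (nat_lit 266) (nat_lit 223) (nat_lit 171)) (XT.nd (nat_lit 78) (nat_lit 0) (nat_lit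 0) (XT.lf (nat_lit 0) (nat_lit 369127188336) (nat_lit 152) (nat_lit 143616865509) (nat_lit 0) (nat_lit 346767598674) (nat_lit 2) (nat_lit 5) (nat_lit 4) (nat_lit 4) (nat_lit 2) (nat_lit 4) (nat_lit 267) (nat_lit 223) (nat_lit 170)) (XT.lf (nat_lit 0) (nat_lit 442065582699) (nat_lit 152) (nat_lit 124978990461) (nat_lit 0) (nat_lit 419704222376) (nat_lit 2) (nat_lit 5) (nat_lit 4) (nat_lit 4) (nat_lit 2) (nat_lit 4) (nat_lit 268) (nat_lit 223) (nat_lit 169)))) (XT.nd (nat_lit 78) (nat_lit 0) (nat_lit 0) (XT.lf (nat_lit 0) (nat_lit 525941643588) (nat_lit 152) (nat_lit 103551372569) (nat_lit 0) (nat_lit 503578743560) (nat_lit 2) (nat_lit 5) (nat_lit 4) (nat_lit 4) (nat_lit 2) (nat_lit 4) (nat_lit 269) (nat_lit 223) (nat_lit 168)) (XT.nd (nat_lit 78) (nat_lit 0) (nat_lit 0) (XT.lf (nat_lit 0) (nat_lit 622396424369) (nat_lit 152) (nat_lit 78914775832) (nat_lit 0) (nat_lit 600032185468) (nat_lit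 2) (nat_lit 5) (nat_lit 4) (nat_lit 4) (nat_lit 2) (nat_lit 4) (nat_lit 270) (nat_lit 223) (nat_lit 167)) (XT.lf (nat_lit 0) (nat_lit 733317083796) (nat_lit 152) (nat_lit 50587179878) (nat_lit 0) (nat_lit 710951680657) (nat_lit 2) (nat_lit 5) (nat_lit 4) (nat_lit 4) (nat_lit 2) (nat_lit 4) (nat_lit 271) (nat_lit 223) (nat_lit 166)))))) (XT.nd (nat_lit 468) (nat_lit 0) (nat_lit 0) (XT.nd (nat_lit 234) (nat_lit 0) (nat_lit 0) (XT.nd (nat_lit 78) (nat_lit 76) (nat_lit 0) (XT.lf (nat_lit 0) (nat_lit 860873808685) (nat_lit 152) (nat_lit 18014349134) (nat_lit 0) (nat_lit 838507393165) (nat_lit 2) (nat_lit 5) (nat_lit 4) (nat_lit 4) (nat_lit 2) (nat_lit 4) (nat_lit 272) (nat_lit 223) (nat_lit 165)) (XT.nd (nat_lit 78) (nat_lit 0) (nat_lit 0) (XT.lf (nat_lit 0) (nat_lit 20464740096) (nat_lit 76) (nat_lit 987589711482) (nat_lit 76) (nat_lit 965222415631) (nat_lit 1) (nat_lit 4) (nat_lit 2) (nat_lit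 5) (nat_lit 2) (nat_lit 4) (nat_lit 273) (nat_lit 223) (nat_lit 164)) (XT.lf (nat_lit 0) (nat_lit 65803479056) (nat_lit 76) (nat_lit 1112031567914) (nat_lit 76) (nat_lit 1089663506558) (nat_lit 1) (nat_lit 4) (nat_lit 2) (nat_lit 5) (nat_lit 2) (nat_lit 4) (nat_lit 274) (nat_lit 223) (nat_lit 163)))) (XT.nd (nat_lit 78) (nat_lit 0) (nat_lit 0) (XT.lf (nat_lit 0) (nat_lit 117940326329) (nat_lit 76) (nat_lit 1255141003318) (nat_lit 76) (nat_lit 1232772276305) (nat_lit 1) (nat_lit 4) (nat_lit 2) (nat_lit 5) (nat_lit 2) (nat_lit 4) (nat_lit 275) (nat_lit 223) (nat_lit 162)) (XT.nd (nat_lit 78) (nat_lit 0) (nat_lit 0) (XT.lf (nat_lit 0) (nat_lit 177895350665) (nat_lit 76) (nat_lit 1419717984909) (nat_lit 76) (nat_lit 1397348679064) (nat_lit 1) (nat_lit 4) (nat_lit 2) (nat_lit 5) (nat_lit 2) (nat_lit 4) (nat_lit 276) (nat_lit 223) (nat_lit 161)) (XT.lf (nat_lit 0) (nat_lit 246841585150) (nat_lit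 76) (nat_lit 1608982497109) (nat_lit 76) (nat_lit 1586612687931) (nat_lit 1) (nat_lit 4) (nat_lit 2) (nat_lit 5) (nat_lit 2) (nat_lit 4) (nat_lit 277) (nat_lit 223) (nat_lit 160))))) (XT.nd (nat_lit 234) (nat_lit 0) (nat_lit 0) (XT.nd (nat_lit 78) (nat_lit 0) (nat_lit 0) (XT.lf (nat_lit 0) (nat_lit 326127977849) (nat_lit 76) (nat_lit 1826637541243) (nat_lit 76) (nat_lit 1804267294385) (nat_lit 1) (nat_lit 4) (nat_lit 2) (nat_lit 5) (nat_lit 2) (nat_lit 4) (nat_lit 278) (nat_lit 223) (nat_lit 159)) (XT.nd (nat_lit 78) (nat_lit 0) (nat_lit 0) (XT.lf (nat_lit 0) (nat_lit 417305784271) (nat_lit 76) (nat_lit 2076941585567) (nat_lit 76) (nat_lit 2054570958118) (nat_lit 1) (nat_lit 4) (nat_lit 2) (nat_lit 5) (nat_lit 2) (nat_lit 4) (nat_lit 279) (nat_lit 223) (nat_lit 158)) (XT.lf (nat_lit 0) (nat_lit 522158918021) (nat_lit 76) (nat_lit 2364791883122) (nat_lit 76) (nat_lit 2342420924723) (nat_lit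 1) (nat_lit 4) (nat_lit 2) (nat_lit 5) (nat_lit 2) (nat_lit 4) (nat_lit 280) (nat_lit 223) (nat_lit 157)))) (XT.nd (nat_lit 78) (nat_lit 0) (nat_lit 0) (XT.lf (nat_lit 0) (nat_lit 642738853455) (nat_lit 76) (nat_lit 2695820287555) (nat_lit 76) (nat_lit 2673449041375) (nat_lit 1) (nat_lit 4) (nat_lit 2) (nat_lit 5) (nat_lit 2) (nat_lit 4) (nat_lit 281) (nat_lit 223) (nat_lit 156)) (XT.nd (nat_lit 78) (nat_lit 0) (nat_lit 0) (XT.lf (nat_lit 0) (nat_lit 781404763221) (nat_lit 76) (nat_lit 3076503441562) (nat_lit 76) (nat_lit 3054131945137) (nat_lit 1) (nat_lit 4) (nat_lit 2) (nat_lit 5) (nat_lit 2) (nat_lit 4) (nat_lit 282) (nat_lit 223) (nat_lit 155)) (XT.lf (nat_lit 0) (nat_lit 940869675991) (nat_lit 76) (nat_lit 3514289493808) (nat_lit 76) (nat_lit 3491917779778) (nat_lit 1) (nat_lit 4) (nat_lit 2) (nat_lit 5) (nat_lit 2) (nat_lit 4) (nat_lit 283) (nat_lit 223) (nat_lit 154))))))))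
noncomputable def xc29 : XT := (XT.nd (nat_lit 31434) (nat_lit 0) (nat_lit 76) (XT.nd (nat_lit 30498) (nat_lit 0) (nat_lit 608) (XT.nd (nat_lit 30030) (nat_lit 0) (nat_lit 1976) (XT.nd (nat_lit 29796) (nat_lit 0) (nat_lit 3648) (XT.nd (nat_lit 29718) (nat_lit 0) (nat_lit 3648) (XT.lf (nat_lit 0) (nat_lit 1124253557447) (nat_lit 76) (nat_lit 4017743823577) (nat_lit 76) (nat_lit 3995371920326) (nat_lit 1) (nat_lit 4) (nat_lit 2) (nat_lit 5) (nat_lit 2) (nat_lit 4) (nat_lit 284) (nat_lit 223) (nat_lit 153)) (XT.lf (nat_lit 0) (nat_lit 342818439) (nat_lit 0) (nat_lit 342818439) (nat_lit 380) (nat_lit 3310839158) (nat_lit 49) (nat_lit 5) (nat_lit 49) (nat_lit 3) (nat_lit 54) (nat_lit 3) (nat_lit 224) (nat_lit 224) (nat_lit 212))) (XT.nd (nat_lit 78) (nat_lit 0) (nat_lit 76) (XT.lf (nat_lit 0) (nat_lit 3605236301) (nat_lit 380) (nat_lit 655649672) (nat_lit 456) (nat_lit 4152567748) (nat_lit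 49) (nat_lit 5) (nat_lit 54) (nat_lit 3) (nat_lit 55) (nat_lit 5) (nat_lit 225) (nat_lit 224) (nat_lit 211)) (XT.nd (nat_lit 78) (nat_lit 0) (nat_lit 0) (XT.lf (nat_lit 0) (nat_lit 6034631439) (nat_lit 380) (nat_lit 1822800919) (nat_lit 456) (nat_lit 1052281170) (nat_lit 50) (nat_lit 5) (nat_lit 55) (nat_lit 5) (nat_lit 56) (nat_lit 5) (nat_lit 226) (nat_lit 224) (nat_lit 210)) (XT.lf (nat_lit 76) (nat_lit 6534007982) (nat_lit 0) (nat_lit 2277188021) (nat_lit 456) (nat_lit 671908504) (nat_lit 51) (nat_lit 5) (nat_lit 50) (nat_lit 5) (nat_lit 56) (nat_lit 5) (nat_lit 227) (nat_lit 224) (nat_lit 209))))) (XT.nd (nat_lit 234) (nat_lit 684) (nat_lit 0) (XT.nd (nat_lit 78) (nat_lit 684) (nat_lit 0) (XT.lf (nat_lit 0) (nat_lit 1794176268) (nat_lit 456) (nat_lit 4098855232) (nat_lit 76) (nat_lit 4244902460) (nat_lit 45) (nat_lit 5) (nat_lit 51) (nat_lit 5) (nat_lit 46) (nat_lit 5) (nat_lit 228)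 (nat_lit 224) (nat_lit 208)) (XT.nd (nat_lit 78) (nat_lit 228) (nat_lit 0) (XT.lf (nat_lit 0) (nat_lit 4651643375) (nat_lit 532) (nat_lit 5270019130) (nat_lit 76) (nat_lit 963948109) (nat_lit 39) (nat_lit 5) (nat_lit 46) (nat_lit 5) (nat_lit 40) (nat_lit 5) (nat_lit 229) (nat_lit 224) (nat_lit 207)) (XT.lf (nat_lit 0) (nat_lit 5165521299) (nat_lit 228) (nat_lit 2958963669) (nat_lit 304) (nat_lit 3606812822) (nat_lit 36) (nat_lit 5) (nat_lit 39) (nat_lit 5) (nat_lit 40) (nat_lit 5) (nat_lit 230) (nat_lit 224) (nat_lit 206)))) (XT.nd (nat_lit 78) (nat_lit 456) (nat_lit 0) (XT.lf (nat_lit 0) (nat_lit 4679077092) (nat_lit 228) (nat_lit 7631525330) (nat_lit 304) (nat_lit 378542762) (nat_lit 33) (nat_lit 5) (nat_lit 36) (nat_lit 5) (nat_lit 37) (nat_lit 5) (nat_lit 231) (nat_lit 224) (nat_lit 205)) (XT.nd (nat_lit 78) (nat_lit 152) (nat_lit 0) (XT.lf (nat_lit 0) (nat_lit 3376174845) (nat_lit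 304) (nat_lit 9732284814) (nat_lit 76) (nat_lit 659636290) (nat_lit 29) (nat_lit 5) (nat_lit 33) (nat_lit 5) (nat_lit 30) (nat_lit 5) (nat_lit 232) (nat_lit 224) (nat_lit 204)) (XT.lf (nat_lit 0) (nat_lit 3101477469) (nat_lit 152) (nat_lit 4930976563) (nat_lit 228) (nat_lit 6947273953) (nat_lit 27) (nat_lit 5) (nat_lit 29) (nat_lit 5) (nat_lit 30) (nat_lit 5) (nat_lit 233) (nat_lit 224) (nat_lit 203)))))) (XT.nd (nat_lit 468) (nat_lit 532) (nat_lit 0) (XT.nd (nat_lit 234) (nat_lit 456) (nat_lit 0) (XT.nd (nat_lit 78) (nat_lit 228) (nat_lit 0) (XT.lf (nat_lit 0) (nat_lit 1875138228) (nat_lit 152) (nat_lit 11806455124) (nat_lit 228) (nat_lit 2668381207) (nat_lit 25) (nat_lit 5) (nat_lit 27) (nat_lit 5) (nat_lit 28) (nat_lit 5) (nat_lit 234) (nat_lit 224) (nat_lit 202)) (XT.nd (nat_lit 78) (nat_lit 0) (nat_lit 0) (XT.lf (nat_lit 0) (nat_lit 126165317) (nat_lit 152) (nat_lit 2369896099) (nat_lit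 228) (nat_lit 15397192928) (nat_lit 22) (nat_lit 5) (nat_lit 24) (nat_lit 5) (nat_lit 25) (nat_lit 5) (nat_lit 235) (nat_lit 224) (nat_lit 201)) (XT.lf (nat_lit 0) (nat_lit 8792644321) (nat_lit 228) (nat_lit 2315140760) (nat_lit 76) (nat_lit 8513754871) (nat_lit 22) (nat_lit 5) (nat_lit 25) (nat_lit 5) (nat_lit 23) (nat_lit 5) (nat_lit 236) (nat_lit 224) (nat_lit 200)))) (XT.nd (nat_lit 78) (nat_lit 304) (nat_lit 0) (XT.lf (nat_lit 0) (nat_lit 16029199845) (nat_lit 152) (nat_lit 346535559) (nat_lit 228) (nat_lit 5206228981) (nat_lit 20) (nat_lit 5) (nat_lit 22) (nat_lit 5) (nat_lit 23) (nat_lit 5) (nat_lit 237) (nat_lit 224) (nat_lit 199)) (XT.nd (nat_lit 78) (nat_lit 152) (nat_lit 0) (XT.lf (nat_lit 0) (nat_lit 1799576123) (nat_lit 152) (nat_lit 10162903225) (nat_lit 76) (nat_lit 11823535797) (nat_lit 18) (nat_lit 5) (nat_lit 20) (nat_lit 5) (nat_lit 19) (nat_lit 5) (nat_lit 238) (nat_lit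 224) (nat_lit 198)) (XT.lf (nat_lit 0) (nat_lit 9878043709) (nat_lit 228) (nat_lit 16389850971) (nat_lit 76) (nat_lit 15736400) (nat_lit 16) (nat_lit 5) (nat_lit 19) (nat_lit 5) (nat_lit 17) (nat_lit 4) (nat_lit 239) (nat_lit 224) (nat_lit 197))))) (XT.nd (nat_lit 234) (nat_lit 228) (nat_lit 0) (XT.nd (nat_lit 78) (nat_lit 228) (nat_lit 0) (XT.lf (nat_lit 0) (nat_lit 4172308297) (nat_lit 76) (nat_lit 15645843238) (nat_lit 152) (nat_lit 9285905118) (nat_lit 15) (nat_lit 5) (nat_lit 16) (nat_lit 5) (nat_lit 17) (nat_lit 4) (nat_lit 240) (nat_lit 224) (nat_lit 196)) (XT.nd (nat_lit 78) (nat_lit 228) (nat_lit 0) (XT.lf (nat_lit 0) (nat_lit 28683114425) (nat_lit 76) (nat_lit 2966430111) (nat_lit 152) (nat_lit 666116405) (nat_lit 15) (nat_lit 5) (nat_lit 16) (nat_lit 5) (nat_lit 17) (nat_lit 4) (nat_lit 241) (nat_lit 224) (nat_lit 195)) (XT.lf (nat_lit 0) (nat_lit 9532450017) (nat_lit 228)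 (nat_lit 14648043621) (nat_lit 76) (nat_lit 11750962393) (nat_lit 12) (nat_lit 5) (nat_lit 15) (nat_lit 5) (nat_lit 13) (nat_lit 4) (nat_lit 242) (nat_lit 224) (nat_lit 194)))) (XT.nd (nat_lit 78) (nat_lit 152) (nat_lit 0) (XT.lf (nat_lit 0) (nat_lit 10382234968) (nat_lit 76) (nat_lit 11217155246) (nat_lit 152) (nat_lit 18458699102) (nat_lit 11) (nat_lit 5) (nat_lit 12) (nat_lit 5) (nat_lit 13) (nat_lit 4) (nat_lit 243) (nat_lit 224) (nat_lit 193)) (XT.nd (nat_lit 78) (nat_lit 152) (nat_lit 0) (XT.lf (nat_lit 0) (nat_lit 35944161016) (nat_lit 152) (nat_lit 4919221460) (nat_lit 0) (nat_lit 3902994992) (nat_lit 11) (nat_lit 5) (nat_lit 13) (nat_lit 4) (nat_lit 11) (nat_lit 4) (nat_lit 244) (nat_lit 224) (nat_lit 192)) (XT.lf (nat_lit 0) (nat_lit 3014032972) (nat_lit 152) (nat_lit 25820256528) (nat_lit 76) (nat_lit 21272951609) (nat_lit 9) (nat_lit 5) (nat_lit 11) (nat_lit 5) (nat_lit 10)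 (nat_lit 4) (nat_lit 245) (nat_lit 224) (nat_lit 191))))))) (XT.nd (nat_lit 858) (nat_lit 152) (nat_lit 0) (XT.nd (nat_lit 390) (nat_lit 152) (nat_lit 0) (XT.nd (nat_lit 156) (nat_lit 152) (nat_lit 0) (XT.nd (nat_lit 78) (nat_lit 0) (nat_lit 0) (XT.lf (nat_lit 0) (nat_lit 1685594659) (nat_lit 76) (nat_lit 14572588795) (nat_lit 152) (nat_lit 39960390119) (nat_lit 8) (nat_lit 5) (nat_lit 9) (nat_lit 5) (nat_lit 10) (nat_lit 4) (nat_lit 246) (nat_lit 224) (nat_lit 190)) (XT.lf (nat_lit 0) (nat_lit 32260171624) (nat_lit 152) (nat_lit 28449739017) (nat_lit 0) (nat_lit 2475048612) (nat_lit 8) (nat_lit 5) (nat_lit 10) (nat_lit 4) (nat_lit 8) (nat_lit 4) (nat_lit 247) (nat_lit 224) (nat_lit 189))) (XT.nd (nat_lit 78) (nat_lit 76) (nat_lit 0) (XT.lf (nat_lit 0) (nat_lit 1129267308) (nat_lit 76) (nat_lit 49925120462) (nat_lit 76) (nat_lit 20110604595) (nat_lit 7) (nat_lit 4) (nat_lit 8) (nat_lit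 5) (nat_lit 8) (nat_lit 4) (nat_lit 248) (nat_lit 224) (nat_lit 188)) (XT.nd (nat_lit 78) (nat_lit 76) (nat_lit 0) (XT.lf (nat_lit 0) (nat_lit 36803725443) (nat_lit 76) (nat_lit 36657470661) (nat_lit 76) (nat_lit 6817395789) (nat_lit 7) (nat_lit 4) (nat_lit 8) (nat_lit 5) (nat_lit 8) (nat_lit 4) (nat_lit 249) (nat_lit 224) (nat_lit 187)) (XT.lf (nat_lit 0) (nat_lit 8015001264) (nat_lit 152) (nat_lit 13191097463) (nat_lit 76) (nat_lit 69539355471) (nat_lit 6) (nat_lit 5) (nat_lit 8) (nat_lit 5) (nat_lit 7) (nat_lit 4) (nat_lit 250) (nat_lit 224) (nat_lit 186))))) (XT.nd (nat_lit 234) (nat_lit 76) (nat_lit 0) (XT.nd (nat_lit 78) (nat_lit 0) (nat_lit 0) (XT.lf (nat_lit 0) (nat_lit 22523378059) (nat_lit 76) (nat_lit 2671335610) (nat_lit 152) (nat_lit 77531403192) (nat_lit 5) (nat_lit 5) (nat_lit 6) (nat_lit 5) (nat_lit 7) (nat_lit 4) (nat_lit 251) (nat_lit 224) (nat_lit 185)) (XT.nd (nat_lit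 78) (nat_lit 0) (nat_lit 0) (XT.lf (nat_lit 0) (nat_lit 45768656811) (nat_lit 152) (nat_lit 52584939843) (nat_lit 0) (nat_lit 18084923632) (nat_lit 5) (nat_lit 5) (nat_lit 7) (nat_lit 4) (nat_lit 5) (nat_lit 4) (nat_lit 252) (nat_lit 224) (nat_lit 184)) (XT.lf (nat_lit 0) (nat_lit 69480725306) (nat_lit 152) (nat_lit 20939455287) (nat_lit 0) (nat_lit 41783461160) (nat_lit 5) (nat_lit 5) (nat_lit 7) (nat_lit 4) (nat_lit 5) (nat_lit 4) (nat_lit 253) (nat_lit 224) (nat_lit 183)))) (XT.nd (nat_lit 78) (nat_lit 0) (nat_lit 0) (XT.lf (nat_lit 0) (nat_lit 16228949099) (nat_lit 76) (nat_lit 80891962760) (nat_lit 76) (nat_lit 53182932556) (nat_lit 4) (nat_lit 4) (nat_lit 5) (nat_lit 5) (nat_lit 5) (nat_lit 4) (nat_lit 254) (nat_lit 224) (nat_lit 182)) (XT.nd (nat_lit 78) (nat_lit 0) (nat_lit 0) (XT.lf (nat_lit 0) (nat_lit 60207928592) (nat_lit 76) (nat_lit 69291519985) (nat_lit 76) (nat_lit 41572258427)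 (nat_lit 4) (nat_lit 4) (nat_lit 5) (nat_lit 5) (nat_lit 5) (nat_lit 4) (nat_lit 255) (nat_lit 224) (nat_lit 181)) (XT.lf (nat_lit 0) (nat_lit 110755306878) (nat_lit 76) (nat_lit 55964408900) (nat_lit 76) (nat_lit 28236250512) (nat_lit 4) (nat_lit 4) (nat_lit 5) (nat_lit 5) (nat_lit 5) (nat_lit 4) (nat_lit 256) (nat_lit 224) (nat_lit 180)))))) (XT.nd (nat_lit 468) (nat_lit 0) (nat_lit 0) (XT.nd (nat_lit 234) (nat_lit 0) (nat_lit 0) (XT.nd (nat_lit 78) (nat_lit 152) (nat_lit 0) (XT.lf (nat_lit 0) (nat_lit 168860054402) (nat_lit 76) (nat_lit 40649881679) (nat_lit 76) (nat_lit 12913986917) (nat_lit 4) (nat_lit 4) (nat_lit 5) (nat_lit 5) (nat_lit 5) (nat_lit 4) (nat_lit 257) (nat_lit 224) (nat_lit 179)) (XT.nd (nat_lit 78) (nat_lit 76) (nat_lit 0) (XT.lf (nat_lit 0) (nat_lit 4459487088) (nat_lit 152) (nat_lit 18466888899) (nat_lit 76) (nat_lit 231077585812) (nat_lit 3) (nat_lit 5) (nat_lit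 5) (nat_lit 5) (nat_lit 4) (nat_lit 4) (nat_lit 258) (nat_lit 224) (nat_lit 178)) (XT.lf (nat_lit 0) (nat_lit 22651331893) (nat_lit 76) (nat_lit 1579342985) (nat_lit 152) (nat_lit 266018997800) (nat_lit 2) (nat_lit 5) (nat_lit 3) (nat_lit 5) (nat_lit 4) (nat_lit 4) (nat_lit 259) (nat_lit 224) (nat_lit 177)))) (XT.nd (nat_lit 78) (nat_lit 0) (nat_lit 0) (XT.lf (nat_lit 0) (nat_lit 48062111707) (nat_lit 152) (nat_lit 261418197637) (nat_lit 0) (nat_lit 22364372220) (nat_lit 2) (nat_lit 5) (nat_lit 4) (nat_lit 4) (nat_lit 2) (nat_lit 4) (nat_lit 260) (nat_lit 224) (nat_lit 176)) (XT.nd (nat_lit 78) (nat_lit 0) (nat_lit 0) (XT.lf (nat_lit 0) (nat_lit 75503718331) (nat_lit 152) (nat_lit 254370510036) (nat_lit 0) (nat_lit 49801883199) (nat_lit 2) (nat_lit 5) (nat_lit 4) (nat_lit 4) (nat_lit 2) (nat_lit 4) (nat_lit 261) (nat_lit 224) (nat_lit 175)) (XT.lf (nat_lit 0) (nat_lit 107054412514) (nat_lit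 152) (nat_lit 246279405206) (nat_lit 0) (nat_lit 81349015951) (nat_lit 2) (nat_lit 5) (nat_lit 4) (nat_lit 4) (nat_lit 2) (nat_lit 4) (nat_lit 262) (nat_lit 224) (nat_lit 174))))) (XT.nd (nat_lit 234) (nat_lit 0) (nat_lit 0) (XT.nd (nat_lit 78) (nat_lit 0) (nat_lit 0) (XT.lf (nat_lit 0) (nat_lit 143331490445) (nat_lit 152) (nat_lit 236986578923) (nat_lit 0) (nat_lit 117622996985) (nat_lit 2) (nat_lit 5) (nat_lit 4) (nat_lit 4) (nat_lit 2) (nat_lit 4) (nat_lit 263) (nat_lit 224) (nat_lit 173)) (XT.nd (nat_lit 78) (nat_lit 0) (nat_lit 0) (XT.lf (nat_lit 0) (nat_lit 185044721040) (nat_lit 152) (nat_lit 226310215020) (nat_lit 0) (nat_lit 159333534627) (nat_lit 2) (nat_lit 5) (nat_lit 4) (nat_lit 4) (nat_lit 2) (nat_lit 4) (nat_lit 264) (nat_lit 224) (nat_lit 172)) (XT.lf (nat_lit 0) (nat_lit 233010232725) (nat_lit 152) (nat_lit 214041428116) (nat_lit 0) (nat_lit 207296704614) (nat_lit 2)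 (nat_lit 5) (nat_lit 4) (nat_lit 4) (nat_lit 2) (nat_lit 4) (nat_lit 265) (nat_lit 224) (nat_lit 171)))) (XT.nd (nat_lit 78) (nat_lit 0) (nat_lit 0) (XT.lf (nat_lit 0) (nat_lit 288166481163) (nat_lit 152) (nat_lit 199940176728) (nat_lit 0) (nat_lit 262450916792) (nat_lit 2) (nat_lit 5) (nat_lit 4) (nat_lit 4) (nat_lit 2) (nat_lit 4) (nat_lit 266) (nat_lit 224) (nat_lit 170)) (XT.nd (nat_lit 78) (nat_lit 0) (nat_lit 0) (XT.lf (nat_lit 0) (nat_lit 351592610344) (nat_lit 152) (nat_lit 183730566808) (nat_lit 0) (nat_lit 325875275312) (nat_lit 2) (nat_lit 5) (nat_lit 4) (nat_lit 4) (nat_lit 2) (nat_lit 4) (nat_lit 267) (nat_lit 224) (nat_lit 169)) (XT.lf (nat_lit 0) (nat_lit 424529566275) (nat_lit 152) (nat_lit 165095453813) (nat_lit 0) (nat_lit 398810691539) (nat_lit 2) (nat_lit 5) (nat_lit 4) (nat_lit 4) (nat_lit 2) (nat_lit 4) (nat_lit 268) (nat_lit 224) (nat_lit 168))))))))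
noncomputable def xc30 : XT := (XT.nd (nat_lit 31512) (nat_lit 0) (nat_lit 304) (XT.nd (nat_lit 858) (nat_lit 0) (nat_lit 0) (XT.nd (nat_lit 390) (nat_lit 76) (nat_lit 0) (XT.nd (nat_lit 156) (nat_lit 0) (nat_lit 0) (XT.nd (nat_lit 78) (nat_lit 0) (nat_lit 0) (XT.lf (nat_lit 0) (nat_lit 508404376354) (nat_lit 152) (nat_lit 143670237706) (nat_lit 0) (nat_lit 482684162744) (nat_lit 2) (nat_lit 5) (nat_lit 4) (nat_lit 4) (nat_lit 2) (nat_lit 4) (nat_lit 269) (nat_lit 224) (nat_lit 167)) (XT.lf (nat_lit 0) (nat_lit 604858069474) (nat_lit 152) (nat_lit 119035729478) (nat_lit 0) (nat_lit 579136691626) (nat_lit 2) (nat_lit 5) (nat_lit 4) (nat_lit 4) (nat_lit 2) (nat_lit 4) (nat_lit 270) (nat_lit 224) (nat_lit 166))) (XT.nd (nat_lit 78) (nat_lit 0) (nat_lit 0) (XT.lf (nat_lit 0) (nat_lit 715777783110) (nat_lit 152) (nat_lit 90709949618) (nat_lit 0) (nat_lit 690055392881) (nat_lit 2) (nat_lit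 5) (nat_lit 4) (nat_lit 4) (nat_lit 2) (nat_lit 4) (nat_lit 271) (nat_lit 224) (nat_lit 165)) (XT.nd (nat_lit 78) (nat_lit 0) (nat_lit 0) (XT.lf (nat_lit 0) (nat_lit 843333685570) (nat_lit 152) (nat_lit 58138698087) (nat_lit 0) (nat_lit 817610415010) (nat_lit 2) (nat_lit 5) (nat_lit 4) (nat_lit 4) (nat_lit 2) (nat_lit 4) (nat_lit 272) (nat_lit 224) (nat_lit 164)) (XT.lf (nat_lit 0) (nat_lit 990021435818) (nat_lit 152) (nat_lit 20684711267) (nat_lit 0) (nat_lit 964297399753) (nat_lit 2) (nat_lit 5) (nat_lit 4) (nat_lit 4) (nat_lit 2) (nat_lit 4) (nat_lit 273) (nat_lit 224) (nat_lit 163))))) (XT.nd (nat_lit 234) (nat_lit 0) (nat_lit 0) (XT.nd (nat_lit 78) (nat_lit 0) (nat_lit 0) (XT.lf (nat_lit 0) (nat_lit 23563550462) (nat_lit 76) (nat_lit 1135714165067) (nat_lit 76) (nat_lit 1109989463344) (nat_lit 1) (nat_lit 4) (nat_lit 2) (nat_lit 5) (nat_lit 2) (nat_lit 4) (nat_lit 274) (nat_lit 224)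 (nat_lit 162)) (XT.nd (nat_lit 78) (nat_lit 0) (nat_lit 0) (XT.lf (nat_lit 0) (nat_lit 75699304699) (nat_lit 76) (nat_lit 1278824126460) (nat_lit 76) (nat_lit 1253098845905) (nat_lit 1) (nat_lit 4) (nat_lit 2) (nat_lit 5) (nat_lit 2) (nat_lit 4) (nat_lit 275) (nat_lit 224) (nat_lit 161)) (XT.lf (nat_lit 0) (nat_lit 135653378569) (nat_lit 76) (nat_lit 1443401565432) (nat_lit 76) (nat_lit 1417675781545) (nat_lit 1) (nat_lit 4) (nat_lit 2) (nat_lit 5) (nat_lit 2) (nat_lit 4) (nat_lit 276) (nat_lit 224) (nat_lit 160)))) (XT.nd (nat_lit 78) (nat_lit 0) (nat_lit 0) (XT.lf (nat_lit 0) (nat_lit 204598786562) (nat_lit 76) (nat_lit 1632666475355) (nat_lit 76) (nat_lit 1606940253788) (nat_lit 1) (nat_lit 4) (nat_lit 2) (nat_lit 5) (nat_lit 2) (nat_lit 4) (nat_lit 277) (nat_lit 224) (nat_lit 159)) (XT.nd (nat_lit 78) (nat_lit 0) (nat_lit 0) (XT.lf (nat_lit 0) (nat_lit 283884460572) (nat_lit 76) (nat_lit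 1850321865336) (nat_lit 76) (nat_lit 1824595263177) (nat_lit 1) (nat_lit 4) (nat_lit 2) (nat_lit 5) (nat_lit 2) (nat_lit 4) (nat_lit 278) (nat_lit 224) (nat_lit 158)) (XT.lf (nat_lit 0) (nat_lit 375061642047) (nat_lit 76) (nat_lit 2100626210395) (nat_lit 76) (nat_lit 2074899277288) (nat_lit 1) (nat_lit 4) (nat_lit 2) (nat_lit 5) (nat_lit 2) (nat_lit 4) (nat_lit 279) (nat_lit 224) (nat_lit 157)))))) (XT.nd (nat_lit 30186) (nat_lit 0) (nat_lit 2660) (XT.nd (nat_lit 234) (nat_lit 0) (nat_lit 0) (XT.nd (nat_lit 78) (nat_lit 0) (nat_lit 0) (XT.lf (nat_lit 0) (nat_lit 479914232365) (nat_lit 76) (nat_lit 2388476769460) (nat_lit 76) (nat_lit 2362749548570) (nat_lit 1) (nat_lit 4) (nat_lit 2) (nat_lit 5) (nat_lit 2) (nat_lit 4) (nat_lit 280) (nat_lit 224) (nat_lit 156)) (XT.nd (nat_lit 78) (nat_lit 0) (nat_lit 0) (XT.lf (nat_lit 0) (nat_lit 600493695249) (nat_lit 76) (nat_lit 2719505401292) (nat_lit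 76) (nat_lit 2693777930158) (nat_lit 1) (nat_lit 4) (nat_lit 2) (nat_lit 5) (nat_lit 2) (nat_lit 4) (nat_lit 281) (nat_lit 224) (nat_lit 155)) (XT.lf (nat_lit 0) (nat_lit 739159194103) (nat_lit 76) (nat_lit 3100188753038) (nat_lit 76) (nat_lit 3074461064299) (nat_lit 1) (nat_lit 4) (nat_lit 2) (nat_lit 5) (nat_lit 2) (nat_lit 4) (nat_lit 282) (nat_lit 224) (nat_lit 154)))) (XT.nd (nat_lit 78) (nat_lit 0) (nat_lit 0) (XT.lf (nat_lit 0) (nat_lit 898623749557) (nat_lit 76) (nat_lit 3537974977231) (nat_lit 76) (nat_lit 3512247099271) (nat_lit 1) (nat_lit 4) (nat_lit 2) (nat_lit 5) (nat_lit 2) (nat_lit 4) (nat_lit 283) (nat_lit 224) (nat_lit 153)) (XT.nd (nat_lit 29796) (nat_lit 0) (nat_lit 3648) (XT.lf (nat_lit 0) (nat_lit 1082007320304) (nat_lit 76) (nat_lit 4041429456518) (nat_lit 76) (nat_lit 4015701414018) (nat_lit 1) (nat_lit 4) (nat_lit 2) (nat_lit 5) (nat_lit 2) (nat_lit 4) (nat_lit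 284) (nat_lit 224) (nat_lit 152)) (XT.lf (nat_lit 0) (nat_lit 1365289626) (nat_lit 0) (nat_lit 1365289626) (nat_lit 380) (nat_lit 1701871200) (nat_lit 49) (nat_lit 5) (nat_lit 49) (nat_lit 3) (nat_lit 54) (nat_lit 3) (nat_lit 225) (nat_lit 225) (nat_lit 210))))) (XT.nd (nat_lit 234) (nat_lit 608) (nat_lit 0) (XT.nd (nat_lit 78) (nat_lit 380) (nat_lit 0) (XT.lf (nat_lit 76) (nat_lit 1326076227) (nat_lit 0) (nat_lit 6188782216) (nat_lit 456) (nat_lit 1876968592) (nat_lit 50) (nat_lit 5) (nat_lit 49) (nat_lit 5) (nat_lit 55) (nat_lit 5) (nat_lit 226) (nat_lit 225) (nat_lit 209)) (XT.nd (nat_lit 78) (nat_lit 456) (nat_lit 0) (XT.lf (nat_lit 76) (nat_lit 22695401) (nat_lit 0) (nat_lit 9837177664) (nat_lit 456) (nat_lit 140399993) (nat_lit 51) (nat_lit 5) (nat_lit 50) (nat_lit 5) (nat_lit 56) (nat_lit 5) (nat_lit 227) (nat_lit 225) (nat_lit 208)) (XT.lf (nat_lit 0) (nat_lit 1928583193) (nat_lit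 456) (nat_lit 1284248717) (nat_lit 532) (nat_lit 7471316621) (nat_lit 44) (nat_lit 5) (nat_lit 50) (nat_lit 5) (nat_lit 51) (nat_lit 5) (nat_lit 228) (nat_lit 225) (nat_lit 207)))) (XT.nd (nat_lit 78) (nat_lit 684) (nat_lit 0) (XT.lf (nat_lit 0) (nat_lit 4413798486) (nat_lit 456) (nat_lit 2593525167) (nat_lit 76) (nat_lit 4454653481) (nat_lit 45) (nat_lit 5) (nat_lit 51) (nat_lit 5) (nat_lit 46) (nat_lit 5) (nat_lit 229) (nat_lit 225) (nat_lit 206)) (XT.nd (nat_lit 78) (nat_lit 228) (nat_lit 0) (XT.lf (nat_lit 0) (nat_lit 7436368320) (nat_lit 532) (nat_lit 3941488512) (nat_lit 76) (nat_lit 966152527) (nat_lit 39) (nat_lit 5) (nat_lit 46) (nat_lit 5) (nat_lit 40) (nat_lit 5) (nat_lit 230) (nat_lit 225) (nat_lit 205)) (XT.lf (nat_lit 0) (nat_lit 7880017351) (nat_lit 228) (nat_lit 3324553281) (nat_lit 304) (nat_lit 2131000469) (nat_lit 36) (nat_lit 5) (nat_lit 39) (nat_lit 5) (nat_lit 40)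 (nat_lit 5) (nat_lit 231) (nat_lit 225) (nat_lit 204))))))) (XT.nd (nat_lit 858) (nat_lit 760) (nat_lit 0) (XT.nd (nat_lit 390) (nat_lit 532) (nat_lit 0) (XT.nd (nat_lit 156) (nat_lit 532) (nat_lit 0) (XT.nd (nat_lit 78) (nat_lit 228) (nat_lit 0) (XT.lf (nat_lit 0) (nat_lit 1301447276) (nat_lit 304) (nat_lit 7189532349) (nat_lit 76) (nat_lit 5959935123) (nat_lit 32) (nat_lit 5) (nat_lit 36) (nat_lit 5) (nat_lit 33) (nat_lit 5) (nat_lit 232) (nat_lit 225) (nat_lit 203)) (XT.lf (nat_lit 0) (nat_lit 5425536992) (nat_lit 304) (nat_lit 9230770355) (nat_lit 76) (nat_lit 1049011429) (nat_lit 29) (nat_lit 5) (nat_lit 33) (nat_lit 5) (nat_lit 30) (nat_lit 5) (nat_lit 233) (nat_lit 225) (nat_lit 202))) (XT.nd (nat_lit 78) (nat_lit 380) (nat_lit 0) (XT.lf (nat_lit 0) (nat_lit 5362037155) (nat_lit 152) (nat_lit 5260146316) (nat_lit 228) (nat_lit 6489752466) (nat_lit 27) (nat_lit 5) (nat_lit 29) (nat_lit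 5) (nat_lit 30) (nat_lit 5) (nat_lit 234) (nat_lit 225) (nat_lit 201)) (XT.nd (nat_lit 78) (nat_lit 228) (nat_lit 0) (XT.lf (nat_lit 0) (nat_lit 3895782367) (nat_lit 152) (nat_lit 13092693533) (nat_lit 228) (nat_lit 1710177846) (nat_lit 25) (nat_lit 5) (nat_lit 27) (nat_lit 5) (nat_lit 28) (nat_lit 5) (nat_lit 235) (nat_lit 225) (nat_lit 200)) (XT.lf (nat_lit 0) (nat_lit 1802358059) (nat_lit 152) (nat_lit 2230148029) (nat_lit 228) (nat_lit 16448999405) (nat_lit 22) (nat_lit 5) (nat_lit 24) (nat_lit 5) (nat_lit 25) (nat_lit 5) (nat_lit 236) (nat_lit 225) (nat_lit 199))))) (XT.nd (nat_lit 234) (nat_lit 228) (nat_lit 0) (XT.nd (nat_lit 78) (nat_lit 304) (nat_lit 0) (XT.lf (nat_lit 0) (nat_lit 11132363415) (nat_lit 228) (nat_lit 1148416575) (nat_lit 76) (nat_lit 10199912841) (nat_lit 22) (nat_lit 5) (nat_lit 25) (nat_lit 5) (nat_lit 23) (nat_lit 5) (nat_lit 237) (nat_lit 225) (nat_lit 198))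 (XT.nd (nat_lit 78) (nat_lit 152) (nat_lit 0) (XT.lf (nat_lit 0) (nat_lit 19754692109) (nat_lit 228) (nat_lit 4925653458) (nat_lit 76) (nat_lit 63008096) (nat_lit 20) (nat_lit 5) (nat_lit 23) (nat_lit 5) (nat_lit 21) (nat_lit 4) (nat_lit 238) (nat_lit 225) (nat_lit 197)) (XT.lf (nat_lit 0) (nat_lit 2935651441) (nat_lit 152) (nat_lit 10312371623) (nat_lit 76) (nat_lit 14034914297) (nat_lit 18) (nat_lit 5) (nat_lit 20) (nat_lit 5) (nat_lit 19) (nat_lit 5) (nat_lit 239) (nat_lit 225) (nat_lit 196)))) (XT.nd (nat_lit 78) (nat_lit 76) (nat_lit 0) (XT.lf (nat_lit 0) (nat_lit 12154610841) (nat_lit 228) (nat_lit 17537029705) (nat_lit 76) (nat_lit 469477704) (nat_lit 16) (nat_lit 5) (nat_lit 19) (nat_lit 5) (nat_lit 17) (nat_lit 4) (nat_lit 240) (nat_lit 225) (nat_lit 195)) (XT.nd (nat_lit 78) (nat_lit 0) (nat_lit 0) (XT.lf (nat_lit 0) (nat_lit 5998458531) (nat_lit 76) (nat_lit 17512466183) (nat_lit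 152) (nat_lit 9899859318) (nat_lit 15) (nat_lit 5) (nat_lit 16) (nat_lit 5) (nat_lit 17) (nat_lit 4) (nat_lit 241) (nat_lit 225) (nat_lit 194)) (XT.lf (nat_lit 0) (nat_lit 34029324188) (nat_lit 76) (nat_lit 2993782852) (nat_lit 152) (nat_lit 88702067) (nat_lit 15) (nat_lit 5) (nat_lit 16) (nat_lit 5) (nat_lit 17) (nat_lit 4) (nat_lit 242) (nat_lit 225) (nat_lit 193)))))) (XT.nd (nat_lit 468) (nat_lit 228) (nat_lit 0) (XT.nd (nat_lit 234) (nat_lit 228) (nat_lit 0) (XT.nd (nat_lit 78) (nat_lit 76) (nat_lit 0) (XT.lf (nat_lit 0) (nat_lit 11555302376) (nat_lit 228) (nat_lit 15820061885) (nat_lit 76) (nat_lit 13897477257) (nat_lit 12) (nat_lit 5) (nat_lit 15) (nat_lit 5) (nat_lit 13) (nat_lit 4) (nat_lit 243) (nat_lit 225) (nat_lit 192)) (XT.nd (nat_lit 78) (nat_lit 0) (nat_lit 0) (XT.lf (nat_lit 0) (nat_lit 12877981410) (nat_lit 76) (nat_lit 12499525153) (nat_lit 152) (nat_lit 20645462022)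 (nat_lit 11) (nat_lit 5) (nat_lit 12) (nat_lit 5) (nat_lit 13) (nat_lit 4) (nat_lit 244) (nat_lit 225) (nat_lit 191)) (XT.lf (nat_lit 0) (nat_lit 41812161445) (nat_lit 152) (nat_lit 4811347788) (nat_lit 0) (nat_lit 4819038664) (nat_lit 11) (nat_lit 5) (nat_lit 13) (nat_lit 4) (nat_lit 11) (nat_lit 4) (nat_lit 245) (nat_lit 225) (nat_lit 190)))) (XT.nd (nat_lit 78) (nat_lit 76) (nat_lit 0) (XT.lf (nat_lit 0) (nat_lit 3910798498) (nat_lit 152) (nat_lit 28895167830) (nat_lit 76) (nat_lit 24781243746) (nat_lit 9) (nat_lit 5) (nat_lit 11) (nat_lit 5) (nat_lit 10) (nat_lit 4) (nat_lit 246) (nat_lit 225) (nat_lit 189)) (XT.nd (nat_lit 78) (nat_lit 0) (nat_lit 0) (XT.lf (nat_lit 0) (nat_lit 2669003544) (nat_lit 76) (nat_lit 16432139020) (nat_lit 152) (nat_lit 45517405165) (nat_lit 8) (nat_lit 5) (nat_lit 9) (nat_lit 5) (nat_lit 10) (nat_lit 4) (nat_lit 247) (nat_lit 225) (nat_lit 188)) (XT.lf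 (nat_lit 0) (nat_lit 37457527830) (nat_lit 152) (nat_lit 32060214541) (nat_lit 0) (nat_lit 3115882722) (nat_lit 8) (nat_lit 5) (nat_lit 10) (nat_lit 4) (nat_lit 8) (nat_lit 4) (nat_lit 248) (nat_lit 225) (nat_lit 187))))) (XT.nd (nat_lit 234) (nat_lit 76) (nat_lit 0) (XT.nd (nat_lit 78) (nat_lit 76) (nat_lit 0) (XT.lf (nat_lit 0) (nat_lit 1900032197) (nat_lit 76) (nat_lit 57138568524) (nat_lit 76) (nat_lit 22774698194) (nat_lit 7) (nat_lit 4) (nat_lit 8) (nat_lit 5) (nat_lit 8) (nat_lit 4) (nat_lit 249) (nat_lit 225) (nat_lit 186)) (XT.nd (nat_lit 78) (nat_lit 76) (nat_lit 0) (XT.lf (nat_lit 0) (nat_lit 42847218861) (nat_lit 76) (nat_lit 41916682557) (nat_lit 76) (nat_lit 7533485948) (nat_lit 7) (nat_lit 4) (nat_lit 8) (nat_lit 5) (nat_lit 8) (nat_lit 4) (nat_lit 250) (nat_lit 225) (nat_lit 185)) (XT.lf (nat_lit 0) (nat_lit 9470456564) (nat_lit 152) (nat_lit 14701452415) (nat_lit 76)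 (nat_lit 80164856347) (nat_lit 6) (nat_lit 5) (nat_lit 8) (nat_lit 5) (nat_lit 7) (nat_lit 4) (nat_lit 251) (nat_lit 225) (nat_lit 184)))) (XT.nd (nat_lit 78) (nat_lit 0) (nat_lit 0) (XT.lf (nat_lit 0) (nat_lit 26330554354) (nat_lit 76) (nat_lit 2873854235) (nat_lit 152) (nat_lit 88911968864) (nat_lit 5) (nat_lit 5) (nat_lit 6) (nat_lit 5) (nat_lit 7) (nat_lit 4) (nat_lit 252) (nat_lit 225) (nat_lit 183)) (XT.nd (nat_lit 78) (nat_lit 0) (nat_lit 0) (XT.lf (nat_lit 0) (nat_lit 52838524155) (nat_lit 152) (nat_lit 60087845821) (nat_lit 0) (nat_lit 20961373363) (nat_lit 5) (nat_lit 5) (nat_lit 7) (nat_lit 4) (nat_lit 5) (nat_lit 4) (nat_lit 253) (nat_lit 225) (nat_lit 182)) (XT.lf (nat_lit 0) (nat_lit 80080720034) (nat_lit 152) (nat_lit 23745734451) (nat_lit 0) (nat_lit 48193337888) (nat_lit 5) (nat_lit 5) (nat_lit 7) (nat_lit 4) (nat_lit 5) (nat_lit 4) (nat_lit 254) (nat_lit 225) (nat_lit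 181))))))))
noncomputable def xc31 : XT := (XT.nd (nat_lit 1794) (nat_lit 0) (nat_lit 0) (XT.nd (nat_lit 858) (nat_lit 76) (nat_lit 0) (XT.nd (nat_lit 390) (nat_lit 76) (nat_lit 0) (XT.nd (nat_lit 156) (nat_lit 76) (nat_lit 0) (XT.nd (nat_lit 78) (nat_lit 0) (nat_lit 0) (XT.lf (nat_lit 0) (nat_lit 18969605057) (nat_lit 76) (nat_lit 92881493849) (nat_lit 76) (nat_lit 60985214872) (nat_lit 4) (nat_lit 4) (nat_lit 5) (nat_lit 5) (nat_lit 5) (nat_lit 4) (nat_lit 255) (nat_lit 225) (nat_lit 180)) (XT.lf (nat_lit 0) (nat_lit 69505477527) (nat_lit 76) (nat_lit 79559801613) (nat_lit 76) (nat_lit 47655786262) (nat_lit 4) (nat_lit 4) (nat_lit 5) (nat_lit 5) (nat_lit 5) (nat_lit 4) (nat_lit 256) (nat_lit 225) (nat_lit 179))) (XT.nd (nat_lit 78) (nat_lit 76) (nat_lit 0) (XT.lf (nat_lit 0) (nat_lit 127600219994) (nat_lit 76) (nat_lit 64249986436) (nat_lit 76) (nat_lit 32339243803) (nat_lit 4) (nat_lit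 4) (nat_lit 5) (nat_lit 5) (nat_lit 5) (nat_lit 4) (nat_lit 257) (nat_lit 225) (nat_lit 178)) (XT.nd (nat_lit 78) (nat_lit 76) (nat_lit 0) (XT.lf (nat_lit 0) (nat_lit 194390468722) (nat_lit 76) (nat_lit 46652508453) (nat_lit 76) (nat_lit 14735916010) (nat_lit 4) (nat_lit 4) (nat_lit 5) (nat_lit 5) (nat_lit 5) (nat_lit 4) (nat_lit 258) (nat_lit 225) (nat_lit 177)) (XT.lf (nat_lit 0) (nat_lit 5223547306) (nat_lit 152) (nat_lit 21056700837) (nat_lit 76) (nat_lit 265816621102) (nat_lit 3) (nat_lit 5) (nat_lit 5) (nat_lit 5) (nat_lit 4) (nat_lit 4) (nat_lit 259) (nat_lit 225) (nat_lit 176))))) (XT.nd (nat_lit 234) (nat_lit 0) (nat_lit 0) (XT.nd (nat_lit 78) (nat_lit 0) (nat_lit 0) (XT.lf (nat_lit 0) (nat_lit 26213998230) (nat_lit 76) (nat_lit 1737973289) (nat_lit 152) (nat_lit 305828150470) (nat_lit 2) (nat_lit 5) (nat_lit 3) (nat_lit 5) (nat_lit 4) (nat_lit 4) (nat_lit 260) (nat_lit 225)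 (nat_lit 175)) (XT.nd (nat_lit 78) (nat_lit 0) (nat_lit 0) (XT.lf (nat_lit 0) (nat_lit 55348452665) (nat_lit 152) (nat_lit 300483026656) (nat_lit 0) (nat_lit 25783685187) (nat_lit 2) (nat_lit 5) (nat_lit 4) (nat_lit 4) (nat_lit 2) (nat_lit 4) (nat_lit 261) (nat_lit 225) (nat_lit 174)) (XT.lf (nat_lit 0) (nat_lit 86896253648) (nat_lit 152) (nat_lit 292397477301) (nat_lit 0) (nat_lit 57328389274) (nat_lit 2) (nat_lit 5) (nat_lit 4) (nat_lit 4) (nat_lit 2) (nat_lit 4) (nat_lit 262) (nat_lit 225) (nat_lit 173)))) (XT.nd (nat_lit 78) (nat_lit 0) (nat_lit 0) (XT.lf (nat_lit 0) (nat_lit 123170815754) (nat_lit 152) (nat_lit 283109481865) (nat_lit 0) (nat_lit 93600258426) (nat_lit 2) (nat_lit 5) (nat_lit 4) (nat_lit 4) (nat_lit 2) (nat_lit 4) (nat_lit 263) (nat_lit 225) (nat_lit 172)) (XT.nd (nat_lit 78) (nat_lit 0) (nat_lit 0) (XT.lf (nat_lit 0) (nat_lit 164881858675) (nat_lit 152) (nat_lit 272437318699)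 (nat_lit 0) (nat_lit 135308959648) (nat_lit 2) (nat_lit 5) (nat_lit 4) (nat_lit 4) (nat_lit 2) (nat_lit 4) (nat_lit 264) (nat_lit 225) (nat_lit 171)) (XT.lf (nat_lit 0) (nat_lit 212845468034) (nat_lit 152) (nat_lit 260172184610) (nat_lit 0) (nat_lit 183270532748) (nat_lit 2) (nat_lit 5) (nat_lit 4) (nat_lit 4) (nat_lit 2) (nat_lit 4) (nat_lit 265) (nat_lit 225) (nat_lit 170)))))) (XT.nd (nat_lit 468) (nat_lit 76) (nat_lit 0) (XT.nd (nat_lit 234) (nat_lit 0) (nat_lit 0) (XT.nd (nat_lit 78) (nat_lit 0) (nat_lit 0) (XT.lf (nat_lit 0) (nat_lit 268000062275) (nat_lit 152) (nat_lit 246074109583) (nat_lit 0) (nat_lit 238423356329) (nat_lit 2) (nat_lit 5) (nat_lit 4) (nat_lit 4) (nat_lit 2) (nat_lit 4) (nat_lit 266) (nat_lit 225) (nat_lit 169)) (XT.nd (nat_lit 78) (nat_lit 0) (nat_lit 0) (XT.lf (nat_lit 0) (nat_lit 331424753025) (nat_lit 152) (nat_lit 229867261715) (nat_lit 0) (nat_lit 301846507374)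 (nat_lit 2) (nat_lit 5) (nat_lit 4) (nat_lit 4) (nat_lit 2) (nat_lit 4) (nat_lit 267) (nat_lit 225) (nat_lit 168)) (XT.lf (nat_lit 0) (nat_lit 404360458146) (nat_lit 152) (nat_lit 211234550505) (nat_lit 0) (nat_lit 374780873621) (nat_lit 2) (nat_lit 5) (nat_lit 4) (nat_lit 4) (nat_lit 2) (nat_lit 4) (nat_lit 268) (nat_lit 225) (nat_lit 167)))) (XT.nd (nat_lit 78) (nat_lit 0) (nat_lit 0) (XT.lf (nat_lit 0) (nat_lit 488234180564) (nat_lit 152) (nat_lit 189811422907) (nat_lit 0) (nat_lit 458653431801) (nat_lit 2) (nat_lit 5) (nat_lit 4) (nat_lit 4) (nat_lit 2) (nat_lit 4) (nat_lit 269) (nat_lit 225) (nat_lit 166)) (XT.nd (nat_lit 78) (nat_lit 0) (nat_lit 0) (XT.lf (nat_lit 0) (nat_lit 584686927893) (nat_lit 152) (nat_lit 165178730773) (nat_lit 0) (nat_lit 555105166749) (nat_lit 2) (nat_lit 5) (nat_lit 4) (nat_lit 4) (nat_lit 2) (nat_lit 4) (nat_lit 270) (nat_lit 225) (nat_lit 165)) (XT.lf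 (nat_lit 0) (nat_lit 695605819100) (nat_lit 152) (nat_lit 136854530126) (nat_lit 0) (nat_lit 666023177625) (nat_lit 2) (nat_lit 5) (nat_lit 4) (nat_lit 4) (nat_lit 2) (nat_lit 4) (nat_lit 271) (nat_lit 225) (nat_lit 164))))) (XT.nd (nat_lit 234) (nat_lit 76) (nat_lit 0) (XT.nd (nat_lit 78) (nat_lit 0) (nat_lit 0) (XT.lf (nat_lit 0) (nat_lit 823161006406) (nat_lit 152) (nat_lit 104284651823) (nat_lit 0) (nat_lit 793577599426) (nat_lit 2) (nat_lit 5) (nat_lit 4) (nat_lit 4) (nat_lit 2) (nat_lit 4) (nat_lit 272) (nat_lit 225) (nat_lit 163)) (XT.nd (nat_lit 78) (nat_lit 0) (nat_lit 0) (XT.lf (nat_lit 0) (nat_lit 969848134780) (nat_lit 152) (nat_lit 66831859115) (nat_lit 0) (nat_lit 940264062143) (nat_lit 2) (nat_lit 5) (nat_lit 4) (nat_lit 4) (nat_lit 2) (nat_lit 4) (nat_lit 273) (nat_lit 225) (nat_lit 162)) (XT.lf (nat_lit 0) (nat_lit 1138537169777) (nat_lit 152) (nat_lit 23763379970) (nat_lit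 0) (nat_lit 1108952518307) (nat_lit 2) (nat_lit 5) (nat_lit 4) (nat_lit 4) (nat_lit 2) (nat_lit 4) (nat_lit 274) (nat_lit 225) (nat_lit 161)))) (XT.nd (nat_lit 78) (nat_lit 0) (nat_lit 0) (XT.lf (nat_lit 0) (nat_lit 27120086323) (nat_lit 76) (nat_lit 1306060701443) (nat_lit 76) (nat_lit 1276475546641) (nat_lit 1) (nat_lit 4) (nat_lit 2) (nat_lit 5) (nat_lit 2) (nat_lit 4) (nat_lit 275) (nat_lit 225) (nat_lit 160)) (XT.nd (nat_lit 78) (nat_lit 0) (nat_lit 0) (XT.lf (nat_lit 0) (nat_lit 87073333701) (nat_lit 76) (nat_lit 1470638538138) (nat_lit 76) (nat_lit 1441052945656) (nat_lit 1) (nat_lit 4) (nat_lit 2) (nat_lit 5) (nat_lit 2) (nat_lit 4) (nat_lit 276) (nat_lit 225) (nat_lit 159)) (XT.lf (nat_lit 0) (nat_lit 156018023004) (nat_lit 76) (nat_lit 1659903793907) (nat_lit 76) (nat_lit 1630317820834) (nat_lit 1) (nat_lit 4) (nat_lit 2) (nat_lit 5) (nat_lit 2) (nat_lit 4) (nat_lit 277) (nat_lit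 225) (nat_lit 158))))))) (XT.nd (nat_lit 30654) (nat_lit 0) (nat_lit 1140) (XT.nd (nat_lit 390) (nat_lit 0) (nat_lit 0) (XT.nd (nat_lit 156) (nat_lit 0) (nat_lit 0) (XT.nd (nat_lit 78) (nat_lit 0) (nat_lit 0) (XT.lf (nat_lit 0) (nat_lit 235303072067) (nat_lit 76) (nat_lit 1877559484624) (nat_lit 76) (nat_lit 1847973180601) (nat_lit 1) (nat_lit 4) (nat_lit 2) (nat_lit 5) (nat_lit 2) (nat_lit 4) (nat_lit 278) (nat_lit 225) (nat_lit 157)) (XT.lf (nat_lit 0) (nat_lit 326479710110) (nat_lit 76) (nat_lit 2127864091193) (nat_lit 76) (nat_lit 2098277499389) (nat_lit 1) (nat_lit 4) (nat_lit 2) (nat_lit 5) (nat_lit 2) (nat_lit 4) (nat_lit 279) (nat_lit 225) (nat_lit 156))) (XT.nd (nat_lit 78) (nat_lit 0) (nat_lit 0) (XT.lf (nat_lit 0) (nat_lit 431331827879) (nat_lit 76) (nat_lit 2415714877657) (nat_lit 76) (nat_lit 2386128035607) (nat_lit 1) (nat_lit 4) (nat_lit 2) (nat_lit 5) (nat_lit 2) (nat_lit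 4) (nat_lit 280) (nat_lit 225) (nat_lit 155)) (XT.nd (nat_lit 78) (nat_lit 0) (nat_lit 0) (XT.lf (nat_lit 0) (nat_lit 551910879850) (nat_lit 76) (nat_lit 2746743707228) (nat_lit 76) (nat_lit 2717156647574) (nat_lit 1) (nat_lit 4) (nat_lit 2) (nat_lit 5) (nat_lit 2) (nat_lit 4) (nat_lit 281) (nat_lit 225) (nat_lit 154)) (XT.lf (nat_lit 0) (nat_lit 690576021388) (nat_lit 76) (nat_lit 3127427230920) (nat_lit 76) (nat_lit 3097839982045) (nat_lit 1) (nat_lit 4) (nat_lit 2) (nat_lit 5) (nat_lit 2) (nat_lit 4) (nat_lit 282) (nat_lit 225) (nat_lit 153))))) (XT.nd (nat_lit 30030) (nat_lit 0) (nat_lit 3192) (XT.nd (nat_lit 78) (nat_lit 0) (nat_lit 0) (XT.lf (nat_lit 0) (nat_lit 850040266133) (nat_lit 76) (nat_lit 3565213604632) (nat_lit 76) (nat_lit 3535626191217) (nat_lit 1) (nat_lit 4) (nat_lit 2) (nat_lit 5) (nat_lit 2) (nat_lit 4) (nat_lit 283) (nat_lit 225) (nat_lit 152)) (XT.nd (nat_lit 29874)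 (nat_lit 0) (nat_lit 3648) (XT.lf (nat_lit 0) (nat_lit 1033423566699) (nat_lit 76) (nat_lit 4068668213936) (nat_lit 76) (nat_lit 4039080657442) (nat_lit 1) (nat_lit 4) (nat_lit 2) (nat_lit 5) (nat_lit 2) (nat_lit 4) (nat_lit 284) (nat_lit 225) (nat_lit 151)) (XT.lf (nat_lit 0) (nat_lit 2304335185) (nat_lit 0) (nat_lit 2304335185) (nat_lit 380) (nat_lit 365020439) (nat_lit 49) (nat_lit 5) (nat_lit 49) (nat_lit 3) (nat_lit 54) (nat_lit 3) (nat_lit 226) (nat_lit 226) (nat_lit 208)))) (XT.nd (nat_lit 78) (nat_lit 0) (nat_lit 0) (XT.lf (nat_lit 0) (nat_lit 587916555) (nat_lit 456) (nat_lit 7472010186) (nat_lit 532) (nat_lit 2523852760) (nat_lit 43) (nat_lit 5) (nat_lit 49) (nat_lit 5) (nat_lit 50) (nat_lit 5) (nat_lit 227) (nat_lit 226) (nat_lit 207)) (XT.nd (nat_lit 78) (nat_lit 0) (nat_lit 76) (XT.lf (nat_lit 76) (nat_lit 1638734540) (nat_lit 0) (nat_lit 536101385) (nat_lit 532) (nat_lit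 9130923960) (nat_lit 44) (nat_lit 5) (nat_lit 43) (nat_lit 5) (nat_lit 50) (nat_lit 5) (nat_lit 228) (nat_lit 226) (nat_lit 206)) (XT.lf (nat_lit 76) (nat_lit 107810661) (nat_lit 0) (nat_lit 4125979628) (nat_lit 532) (nat_lit 7884222381) (nat_lit 45) (nat_lit 5) (nat_lit 44) (nat_lit 5) (nat_lit 51) (nat_lit 5) (nat_lit 229) (nat_lit 226) (nat_lit 205)))))) (XT.nd (nat_lit 468) (nat_lit 836) (nat_lit 0) (XT.nd (nat_lit 234) (nat_lit 684) (nat_lit 0) (XT.nd (nat_lit 78) (nat_lit 684) (nat_lit 0) (XT.lf (nat_lit 0) (nat_lit 6853180756) (nat_lit 456) (nat_lit 1379409632) (nat_lit 76) (nat_lit 4799989993) (nat_lit 45) (nat_lit 5) (nat_lit 51) (nat_lit 5) (nat_lit 46) (nat_lit 5) (nat_lit 230) (nat_lit 226) (nat_lit 204)) (XT.nd (nat_lit 78) (nat_lit 228) (nat_lit 0) (XT.lf (nat_lit 0) (nat_lit 10129879098) (nat_lit 532) (nat_lit 2930418037) (nat_lit 76) (nat_lit 1003409773) (nat_lit 39) (nat_lit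 5) (nat_lit 46) (nat_lit 5) (nat_lit 40) (nat_lit 5) (nat_lit 231) (nat_lit 226) (nat_lit 203)) (XT.lf (nat_lit 0) (nat_lit 10528687521) (nat_lit 228) (nat_lit 3764064297) (nat_lit 304) (nat_lit 925634074) (nat_lit 36) (nat_lit 5) (nat_lit 39) (nat_lit 5) (nat_lit 40) (nat_lit 5) (nat_lit 232) (nat_lit 226) (nat_lit 202)))) (XT.nd (nat_lit 78) (nat_lit 380) (nat_lit 0) (XT.lf (nat_lit 0) (nat_lit 2793446807) (nat_lit 304) (nat_lit 6746921445) (nat_lit 76) (nat_lit 6970478773) (nat_lit 32) (nat_lit 5) (nat_lit 36) (nat_lit 5) (nat_lit 33) (nat_lit 5) (nat_lit 233) (nat_lit 226) (nat_lit 201)) (XT.nd (nat_lit 78) (nat_lit 152) (nat_lit 0) (XT.lf (nat_lit 0) (nat_lit 7406048767) (nat_lit 304) (nat_lit 9132318097) (nat_lit 76) (nat_lit 1425969718) (nat_lit 29) (nat_lit 5) (nat_lit 33) (nat_lit 5) (nat_lit 30) (nat_lit 5) (nat_lit 234) (nat_lit 226) (nat_lit 200)) (XT.lf (nat_lit 0) (nat_lit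 7523876236) (nat_lit 152) (nat_lit 5738788882) (nat_lit 228) (nat_lit 6329292780) (nat_lit 27) (nat_lit 5) (nat_lit 29) (nat_lit 5) (nat_lit 30) (nat_lit 5) (nat_lit 235) (nat_lit 226) (nat_lit 199))))) (XT.nd (nat_lit 234) (nat_lit 456) (nat_lit 0) (XT.nd (nat_lit 78) (nat_lit 228) (nat_lit 0) (XT.lf (nat_lit 0) (nat_lit 5795365906) (nat_lit 152) (nat_lit 14690072150) (nat_lit 228) (nat_lit 939513188) (nat_lit 25) (nat_lit 5) (nat_lit 27) (nat_lit 5) (nat_lit 28) (nat_lit 5) (nat_lit 236) (nat_lit 226) (nat_lit 198)) (XT.nd (nat_lit 78) (nat_lit 0) (nat_lit 0) (XT.lf (nat_lit 0) (nat_lit 3325844429) (nat_lit 152) (nat_lit 2190203326) (nat_lit 228) (nat_lit 17965292635) (nat_lit 22) (nat_lit 5) (nat_lit 24) (nat_lit 5) (nat_lit 25) (nat_lit 5) (nat_lit 237) (nat_lit 226) (nat_lit 197)) (XT.lf (nat_lit 0) (nat_lit 13574106354) (nat_lit 228) (nat_lit 175881104) (nat_lit 76) (nat_lit 12039234164)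 (nat_lit 22) (nat_lit 5) (nat_lit 25) (nat_lit 5) (nat_lit 23) (nat_lit 5) (nat_lit 238) (nat_lit 226) (nat_lit 196)))) (XT.nd (nat_lit 78) (nat_lit 304) (nat_lit 0) (XT.lf (nat_lit 0) (nat_lit 23422758467) (nat_lit 228) (nat_lit 4567759361) (nat_lit 76) (nat_lit 406363743) (nat_lit 20) (nat_lit 5) (nat_lit 23) (nat_lit 5) (nat_lit 21) (nat_lit 4) (nat_lit 239) (nat_lit 226) (nat_lit 195)) (XT.nd (nat_lit 78) (nat_lit 152) (nat_lit 0) (XT.lf (nat_lit 0) (nat_lit 4030924601) (nat_lit 152) (nat_lit 10819554711) (nat_lit 76) (nat_lit 16471227533) (nat_lit 18) (nat_lit 5) (nat_lit 20) (nat_lit 5) (nat_lit 19) (nat_lit 5) (nat_lit 240) (nat_lit 226) (nat_lit 194)) (XT.lf (nat_lit 0) (nat_lit 14578831257) (nat_lit 228) (nat_lit 19176053794) (nat_lit 76) (nat_lit 881208126) (nat_lit 16) (nat_lit 5) (nat_lit 19) (nat_lit 5) (nat_lit 17) (nat_lit 4) (nat_lit 241) (nat_lit 226) (nat_lit 193))))))))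
noncomputable def xc32 : XT := (XT.nd (nat_lit 1716) (nat_lit 76) (nat_lit 0) (XT.nd (nat_lit 858) (nat_lit 304) (nat_lit 0) (XT.nd (nat_lit 390) (nat_lit 380) (nat_lit 0) (XT.nd (nat_lit 156) (nat_lit 228) (nat_lit 0) (XT.nd (nat_lit 78) (nat_lit 76) (nat_lit 0) (XT.lf (nat_lit 0) (nat_lit 7805829571) (nat_lit 76) (nat_lit 19776195436) (nat_lit 152) (nat_lit 10795854043) (nat_lit 15) (nat_lit 5) (nat_lit 16) (nat_lit 5) (nat_lit 17) (nat_lit 4) (nat_lit 242) (nat_lit 226) (nat_lit 192)) (XT.lf (nat_lit 0) (nat_lit 389635269) (nat_lit 152) (nat_lit 2726787193) (nat_lit 76) (nat_lit 39522653585) (nat_lit 14) (nat_lit 5) (nat_lit 16) (nat_lit 5) (nat_lit 15) (nat_lit 5) (nat_lit 243) (nat_lit 226) (nat_lit 191))) (XT.nd (nat_lit 78) (nat_lit 76) (nat_lit 0) (XT.lf (nat_lit 0) (nat_lit 13736979476) (nat_lit 228) (nat_lit 17417881543) (nat_lit 76) (nat_lit 16272360098) (nat_lit 12) (nat_lit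 5) (nat_lit 15) (nat_lit 5) (nat_lit 13) (nat_lit 4) (nat_lit 244) (nat_lit 226) (nat_lit 190)) (XT.nd (nat_lit 78) (nat_lit 0) (nat_lit 0) (XT.lf (nat_lit 0) (nat_lit 15519252306) (nat_lit 76) (nat_lit 14071842674) (nat_lit 152) (nat_lit 23302173994) (nat_lit 11) (nat_lit 5) (nat_lit 12) (nat_lit 5) (nat_lit 13) (nat_lit 4) (nat_lit 245) (nat_lit 226) (nat_lit 189)) (XT.lf (nat_lit 0) (nat_lit 48444194567) (nat_lit 152) (nat_lit 4893536238) (nat_lit 0) (nat_lit 5791871343) (nat_lit 11) (nat_lit 5) (nat_lit 13) (nat_lit 4) (nat_lit 11) (nat_lit 4) (nat_lit 246) (nat_lit 226) (nat_lit 188))))) (XT.nd (nat_lit 234) (nat_lit 152) (nat_lit 0) (XT.nd (nat_lit 78) (nat_lit 76) (nat_lit 0) (XT.lf (nat_lit 0) (nat_lit 4833645554) (nat_lit 152) (nat_lit 32625944195) (nat_lit 76) (nat_lit 28738392043) (nat_lit 9) (nat_lit 5) (nat_lit 11) (nat_lit 5) (nat_lit 10) (nat_lit 4) (nat_lit 247) (nat_lit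 226) (nat_lit 187)) (XT.nd (nat_lit 78) (nat_lit 0) (nat_lit 0) (XT.lf (nat_lit 0) (nat_lit 3621769718) (nat_lit 76) (nat_lit 18650201390) (nat_lit 152) (nat_lit 52014548285) (nat_lit 8) (nat_lit 5) (nat_lit 9) (nat_lit 5) (nat_lit 10) (nat_lit 4) (nat_lit 248) (nat_lit 226) (nat_lit 186)) (XT.lf (nat_lit 0) (nat_lit 43347106314) (nat_lit 152) (nat_lit 36372471426) (nat_lit 0) (nat_lit 3787103935) (nat_lit 8) (nat_lit 5) (nat_lit 10) (nat_lit 4) (nat_lit 8) (nat_lit 4) (nat_lit 249) (nat_lit 226) (nat_lit 185)))) (XT.nd (nat_lit 78) (nat_lit 76) (nat_lit 0) (XT.lf (nat_lit 0) (nat_lit 2639762768) (nat_lit 76) (nat_lit 65501172321) (nat_lit 76) (nat_lit 25924364481) (nat_lit 7) (nat_lit 4) (nat_lit 8) (nat_lit 5) (nat_lit 8) (nat_lit 4) (nat_lit 250) (nat_lit 226) (nat_lit 184)) (XT.nd (nat_lit 78) (nat_lit 76) (nat_lit 0) (XT.lf (nat_lit 0) (nat_lit 49669715379) (nat_lit 76) (nat_lit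 48023157566) (nat_lit 76) (nat_lit 8431736282) (nat_lit 7) (nat_lit 4) (nat_lit 8) (nat_lit 5) (nat_lit 8) (nat_lit 4) (nat_lit 251) (nat_lit 226) (nat_lit 183)) (XT.lf (nat_lit 0) (nat_lit 11082484489) (nat_lit 152) (nat_lit 16552560888) (nat_lit 76) (nat_lit 92336728508) (nat_lit 6) (nat_lit 5) (nat_lit 8) (nat_lit 5) (nat_lit 7) (nat_lit 4) (nat_lit 252) (nat_lit 226) (nat_lit 182)))))) (XT.nd (nat_lit 390) (nat_lit 152) (nat_lit 0) (XT.nd (nat_lit 156) (nat_lit 76) (nat_lit 0) (XT.nd (nat_lit 78) (nat_lit 0) (nat_lit 0) (XT.lf (nat_lit 0) (nat_lit 30604273300) (nat_lit 76) (nat_lit 3155078521) (nat_lit 152) (nat_lit 102060374926) (nat_lit 5) (nat_lit 5) (nat_lit 6) (nat_lit 5) (nat_lit 7) (nat_lit 4) (nat_lit 253) (nat_lit 226) (nat_lit 181)) (XT.lf (nat_lit 0) (nat_lit 60918986198) (nat_lit 152) (nat_lit 68810032148) (nat_lit 0) (nat_lit 24229368544) (nat_lit 5) (nat_lit 5) (nat_lit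 7) (nat_lit 4) (nat_lit 5) (nat_lit 4) (nat_lit 254) (nat_lit 226) (nat_lit 180))) (XT.nd (nat_lit 78) (nat_lit 76) (nat_lit 0) (XT.lf (nat_lit 0) (nat_lit 92227335361) (nat_lit 152) (nat_lit 27054559360) (nat_lit 0) (nat_lit 55529981333) (nat_lit 5) (nat_lit 5) (nat_lit 7) (nat_lit 4) (nat_lit 5) (nat_lit 4) (nat_lit 255) (nat_lit 226) (nat_lit 179)) (XT.nd (nat_lit 78) (nat_lit 0) (nat_lit 0) (XT.lf (nat_lit 0) (nat_lit 22046662900) (nat_lit 76) (nat_lit 106704634127) (nat_lit 76) (nat_lit 70000552817) (nat_lit 4) (nat_lit 4) (nat_lit 5) (nat_lit 5) (nat_lit 5) (nat_lit 4) (nat_lit 256) (nat_lit 226) (nat_lit 178)) (XT.lf (nat_lit 0) (nat_lit 80132705316) (nat_lit 76) (nat_lit 91398916378) (nat_lit 76) (nat_lit 54688985258) (nat_lit 4) (nat_lit 4) (nat_lit 5) (nat_lit 5) (nat_lit 5) (nat_lit 4) (nat_lit 257) (nat_lit 226) (nat_lit 177))))) (XT.nd (nat_lit 234) (nat_lit 76) (nat_lit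 0) (XT.nd (nat_lit 78) (nat_lit 76) (nat_lit 0) (XT.lf (nat_lit 0) (nat_lit 146915388784) (nat_lit 76) (nat_lit 73805001377) (nat_lit 76) (nat_lit 37089983466) (nat_lit 4) (nat_lit 4) (nat_lit 5) (nat_lit 5) (nat_lit 5) (nat_lit 4) (nat_lit 258) (nat_lit 226) (nat_lit 176)) (XT.nd (nat_lit 78) (nat_lit 76) (nat_lit 0) (XT.lf (nat_lit 0) (nat_lit 223701331023) (nat_lit 76) (nat_lit 53578660352) (nat_lit 76) (nat_lit 16859219144) (nat_lit 4) (nat_lit 4) (nat_lit 5) (nat_lit 5) (nat_lit 5) (nat_lit 4) (nat_lit 259) (nat_lit 226) (nat_lit 175)) (XT.lf (nat_lit 0) (nat_lit 6079016758) (nat_lit 152) (nat_lit 24078932695) (nat_lit 76) (nat_lit 305747637836) (nat_lit 3) (nat_lit 5) (nat_lit 5) (nat_lit 5) (nat_lit 4) (nat_lit 4) (nat_lit 260) (nat_lit 226) (nat_lit 174)))) (XT.nd (nat_lit 78) (nat_lit 0) (nat_lit 0) (XT.lf (nat_lit 0) (nat_lit 30270836379) (nat_lit 76) (nat_lit 1939485053) (nat_lit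 152) (nat_lit 351631524648) (nat_lit 2) (nat_lit 5) (nat_lit 3) (nat_lit 5) (nat_lit 4) (nat_lit 4) (nat_lit 261) (nat_lit 226) (nat_lit 173)) (XT.nd (nat_lit 78) (nat_lit 0) (nat_lit 0) (XT.lf (nat_lit 0) (nat_lit 63708961928) (nat_lit 152) (nat_lit 345443646532) (nat_lit 0) (nat_lit 29700128047) (nat_lit 2) (nat_lit 5) (nat_lit 4) (nat_lit 4) (nat_lit 2) (nat_lit 4) (nat_lit 262) (nat_lit 226) (nat_lit 172)) (XT.lf (nat_lit 0) (nat_lit 99981336359) (nat_lit 152) (nat_lit 336159851833) (nat_lit 0) (nat_lit 65970160780) (nat_lit 2) (nat_lit 5) (nat_lit 4) (nat_lit 4) (nat_lit 2) (nat_lit 4) (nat_lit 263) (nat_lit 226) (nat_lit 171))))))) (XT.nd (nat_lit 858) (nat_lit 76) (nat_lit 0) (XT.nd (nat_lit 390) (nat_lit 0) (nat_lit 0) (XT.nd (nat_lit 156) (nat_lit 0) (nat_lit 0) (XT.nd (nat_lit 78) (nat_lit 0) (nat_lit 0) (XT.lf (nat_lit 0) (nat_lit 141690476954) (nat_lit 152) (nat_lit 325491341482)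 (nat_lit 0) (nat_lit 107677265116) (nat_lit 2) (nat_lit 5) (nat_lit 4) (nat_lit 4) (nat_lit 2) (nat_lit 4) (nat_lit 264) (nat_lit 226) (nat_lit 170)) (XT.lf (nat_lit 0) (nat_lit 189652432117) (nat_lit 152) (nat_lit 313229383753) (nat_lit 0) (nat_lit 155637449618) (nat_lit 2) (nat_lit 5) (nat_lit 4) (nat_lit 4) (nat_lit 2) (nat_lit 4) (nat_lit 265) (nat_lit 226) (nat_lit 169))) (XT.nd (nat_lit 78) (nat_lit 0) (nat_lit 0) (XT.lf (nat_lit 0) (nat_lit 244805587927) (nat_lit 152) (nat_lit 299134070779) (nat_lit 0) (nat_lit 210789065723) (nat_lit 2) (nat_lit 5) (nat_lit 4) (nat_lit 4) (nat_lit 2) (nat_lit 4) (nat_lit 266) (nat_lit 226) (nat_lit 168)) (XT.nd (nat_lit 78) (nat_lit 0) (nat_lit 0) (XT.lf (nat_lit 0) (nat_lit 308229027867) (nat_lit 152) (nat_lit 282929624696) (nat_lit 0) (nat_lit 274211166789) (nat_lit 2) (nat_lit 5) (nat_lit 4) (nat_lit 4) (nat_lit 2) (nat_lit 4) (nat_lit 267)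 (nat_lit 226) (nat_lit 167)) (XT.lf (nat_lit 0) (nat_lit 381163645327) (nat_lit 152) (nat_lit 264299001995) (nat_lit 0) (nat_lit 347144620012) (nat_lit 2) (nat_lit 5) (nat_lit 4) (nat_lit 4) (nat_lit 2) (nat_lit 4) (nat_lit 268) (nat_lit 226) (nat_lit 166))))) (XT.nd (nat_lit 234) (nat_lit 0) (nat_lit 0) (XT.nd (nat_lit 78) (nat_lit 0) (nat_lit 0) (XT.lf (nat_lit 0) (nat_lit 465036421953) (nat_lit 152) (nat_lit 242877690492) (nat_lit 0) (nat_lit 431016384257) (nat_lit 2) (nat_lit 5) (nat_lit 4) (nat_lit 4) (nat_lit 2) (nat_lit 4) (nat_lit 269) (nat_lit 226) (nat_lit 165)) (XT.nd (nat_lit 78) (nat_lit 0) (nat_lit 0) (XT.lf (nat_lit 0) (nat_lit 561488346854) (nat_lit 152) (nat_lit 218246577571) (nat_lit 0) (nat_lit 527467428826) (nat_lit 2) (nat_lit 5) (nat_lit 4) (nat_lit 4) (nat_lit 2) (nat_lit 4) (nat_lit 270) (nat_lit 226) (nat_lit 164)) (XT.lf (nat_lit 0) (nat_lit 672406522907) (nat_lit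 152) (nat_lit 189923750152) (nat_lit 0) (nat_lit 638384839374) (nat_lit 2) (nat_lit 5) (nat_lit 4) (nat_lit 4) (nat_lit 2) (nat_lit 4) (nat_lit 271) (nat_lit 226) (nat_lit 163)))) (XT.nd (nat_lit 78) (nat_lit 0) (nat_lit 0) (XT.lf (nat_lit 0) (nat_lit 799961088339) (nat_lit 152) (nat_lit 157355065961) (nat_lit 0) (nat_lit 765938739149) (nat_lit 2) (nat_lit 5) (nat_lit 4) (nat_lit 4) (nat_lit 2) (nat_lit 4) (nat_lit 272) (nat_lit 226) (nat_lit 162)) (XT.nd (nat_lit 78) (nat_lit 0) (nat_lit 0) (XT.lf (nat_lit 0) (nat_lit 946647675954) (nat_lit 152) (nat_lit 119903311610) (nat_lit 0) (nat_lit 912624747932) (nat_lit 2) (nat_lit 5) (nat_lit 4) (nat_lit 4) (nat_lit 2) (nat_lit 4) (nat_lit 273) (nat_lit 226) (nat_lit 161)) (XT.lf (nat_lit 0) (nat_lit 1115336240724) (nat_lit 152) (nat_lit 76835735385) (nat_lit 0) (nat_lit 1081312809370) (nat_lit 2) (nat_lit 5) (nat_lit 4) (nat_lit 4) (nat_lit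 2) (nat_lit 4) (nat_lit 274) (nat_lit 226) (nat_lit 160)))))) (XT.nd (nat_lit 468) (nat_lit 0) (nat_lit 0) (XT.nd (nat_lit 234) (nat_lit 0) (nat_lit 0) (XT.nd (nat_lit 78) (nat_lit 76) (nat_lit 0) (XT.lf (nat_lit 0) (nat_lit 1309327211093) (nat_lit 152) (nat_lit 27309710794) (nat_lit 0) (nat_lit 1275303342059) (nat_lit 2) (nat_lit 5) (nat_lit 4) (nat_lit 4) (nat_lit 2) (nat_lit 4) (nat_lit 275) (nat_lit 226) (nat_lit 159)) (XT.nd (nat_lit 78) (nat_lit 0) (nat_lit 0) (XT.lf (nat_lit 0) (nat_lit 31204736920) (nat_lit 76) (nat_lit 1501961800320) (nat_lit 76) (nat_lit 1467937550694) (nat_lit 1) (nat_lit 4) (nat_lit 2) (nat_lit 5) (nat_lit 2) (nat_lit 4) (nat_lit 276) (nat_lit 226) (nat_lit 158)) (XT.lf (nat_lit 0) (nat_lit 100148801277) (nat_lit 76) (nat_lit 1691227356825) (nat_lit 76) (nat_lit 1657202776250) (nat_lit 1) (nat_lit 4) (nat_lit 2) (nat_lit 5) (nat_lit 2) (nat_lit 4) (nat_lit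 277) (nat_lit 226) (nat_lit 157)))) (XT.nd (nat_lit 78) (nat_lit 0) (nat_lit 0) (XT.lf (nat_lit 0) (nat_lit 179433306907) (nat_lit 76) (nat_lit 1908883309051) (nat_lit 76) (nat_lit 1874858440694) (nat_lit 1) (nat_lit 4) (nat_lit 2) (nat_lit 5) (nat_lit 2) (nat_lit 4) (nat_lit 278) (nat_lit 226) (nat_lit 156)) (XT.nd (nat_lit 78) (nat_lit 0) (nat_lit 0) (XT.lf (nat_lit 0) (nat_lit 270609472401) (nat_lit 76) (nat_lit 2159188143019) (nat_lit 76) (nat_lit 2125163024417) (nat_lit 1) (nat_lit 4) (nat_lit 2) (nat_lit 5) (nat_lit 2) (nat_lit 4) (nat_lit 279) (nat_lit 226) (nat_lit 155)) (XT.lf (nat_lit 0) (nat_lit 375461179257) (nat_lit 76) (nat_lit 2447039127222) (nat_lit 76) (nat_lit 2413013791015) (nat_lit 1) (nat_lit 4) (nat_lit 2) (nat_lit 5) (nat_lit 2) (nat_lit 4) (nat_lit 280) (nat_lit 226) (nat_lit 154))))) (XT.nd (nat_lit 234) (nat_lit 0) (nat_lit 0) (XT.nd (nat_lit 78) (nat_lit 0)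 (nat_lit 0) (XT.lf (nat_lit 0) (nat_lit 496039873912) (nat_lit 76) (nat_lit 2778068128740) (nat_lit 76) (nat_lit 2744042603312) (nat_lit 1) (nat_lit 4) (nat_lit 2) (nat_lit 5) (nat_lit 2) (nat_lit 4) (nat_lit 281) (nat_lit 226) (nat_lit 153)) (XT.nd (nat_lit 78) (nat_lit 0) (nat_lit 0) (XT.lf (nat_lit 0) (nat_lit 634704704742) (nat_lit 76) (nat_lit 3158751801951) (nat_lit 76) (nat_lit 3124726111983) (nat_lit 1) (nat_lit 4) (nat_lit 2) (nat_lit 5) (nat_lit 2) (nat_lit 4) (nat_lit 282) (nat_lit 226) (nat_lit 152)) (XT.lf (nat_lit 0) (nat_lit 794168679305) (nat_lit 76) (nat_lit 3596538305679) (nat_lit 76) (nat_lit 3562512472633) (nat_lit 1) (nat_lit 4) (nat_lit 2) (nat_lit 5) (nat_lit 2) (nat_lit 4) (nat_lit 283) (nat_lit 226) (nat_lit 151)))) (XT.nd (nat_lit 29952) (nat_lit 0) (nat_lit 3116) (XT.lf (nat_lit 0) (nat_lit 977551744930) (nat_lit 76) (nat_lit 4099993028040) (nat_lit 76) (nat_lit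 4065967070578) (nat_lit 1) (nat_lit 4) (nat_lit 2) (nat_lit 5) (nat_lit 2) (nat_lit 4) (nat_lit 284) (nat_lit 226) (nat_lit 150)) (XT.nd (nat_lit 78) (nat_lit 0) (nat_lit 76) (XT.lf (nat_lit 0) (nat_lit 744882413) (nat_lit 532) (nat_lit 2439936731) (nat_lit 532) (nat_lit 2439936731) (nat_lit 42) (nat_lit 3) (nat_lit 49) (nat_lit 3) (nat_lit 49) (nat_lit 5) (nat_lit 227) (nat_lit 227) (nat_lit 206)) (XT.lf (nat_lit 0) (nat_lit 2671153438) (nat_lit 456) (nat_lit 7268281709) (nat_lit 532) (nat_lit 2064822756) (nat_lit 43) (nat_lit 5) (nat_lit 49) (nat_lit 5) (nat_lit 50) (nat_lit 5) (nat_lit 228) (nat_lit 227) (nat_lit 205))))))))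
noncomputable def xc33 : XT := (XT.nd (nat_lit 1794) (nat_lit 380) (nat_lit 0) (XT.nd (nat_lit 858) (nat_lit 988) (nat_lit 0) (XT.nd (nat_lit 390) (nat_lit 1140) (nat_lit 0) (XT.nd (nat_lit 156) (nat_lit 608) (nat_lit 0) (XT.nd (nat_lit 78) (nat_lit 0) (nat_lit 76) (XT.lf (nat_lit 76) (nat_lit 3096959859) (nat_lit 0) (nat_lit 1168085632) (nat_lit 532) (nat_lit 8588951318) (nat_lit 44) (nat_lit 5) (nat_lit 43) (nat_lit 5) (nat_lit 50) (nat_lit 5) (nat_lit 229) (nat_lit 227) (nat_lit 204)) (XT.lf (nat_lit 76) (nat_lit 1381046069) (nat_lit 0) (nat_lit 5040409464) (nat_lit 532) (nat_lit 7384391889) (nat_lit 45) (nat_lit 5) (nat_lit 44) (nat_lit 5) (nat_lit 51) (nat_lit 5) (nat_lit 230) (nat_lit 227) (nat_lit 203))) (XT.nd (nat_lit 78) (nat_lit 760) (nat_lit 0) (XT.lf (nat_lit 0) (nat_lit 9225061459) (nat_lit 456) (nat_lit 374113659) (nat_lit 76) (nat_lit 5275858805) (nat_lit 45) (nat_lit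 5) (nat_lit 51) (nat_lit 5) (nat_lit 46) (nat_lit 5) (nat_lit 231) (nat_lit 227) (nat_lit 202)) (XT.nd (nat_lit 78) (nat_lit 304) (nat_lit 0) (XT.lf (nat_lit 0) (nat_lit 12842597659) (nat_lit 532) (nat_lit 2158416468) (nat_lit 76) (nat_lit 1072510554) (nat_lit 39) (nat_lit 5) (nat_lit 46) (nat_lit 5) (nat_lit 40) (nat_lit 5) (nat_lit 232) (nat_lit 227) (nat_lit 201)) (XT.lf (nat_lit 0) (nat_lit 84217606) (nat_lit 304) (nat_lit 4197411160) (nat_lit 76) (nat_lit 13130481776) (nat_lit 35) (nat_lit 5) (nat_lit 39) (nat_lit 5) (nat_lit 36) (nat_lit 5) (nat_lit 233) (nat_lit 227) (nat_lit 200))))) (XT.nd (nat_lit 234) (nat_lit 532) (nat_lit 0) (XT.nd (nat_lit 78) (nat_lit 380) (nat_lit 0) (XT.lf (nat_lit 0) (nat_lit 4193017657) (nat_lit 304) (nat_lit 6608834326) (nat_lit 76) (nat_lit 8104181691) (nat_lit 32) (nat_lit 5) (nat_lit 36) (nat_lit 5) (nat_lit 33) (nat_lit 5) (nat_lit 234) (nat_lit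 227) (nat_lit 199)) (XT.nd (nat_lit 78) (nat_lit 152) (nat_lit 0) (XT.lf (nat_lit 0) (nat_lit 9399134702) (nat_lit 304) (nat_lit 9380753477) (nat_lit 76) (nat_lit 1805919296) (nat_lit 29) (nat_lit 5) (nat_lit 33) (nat_lit 5) (nat_lit 30) (nat_lit 5) (nat_lit 235) (nat_lit 227) (nat_lit 198)) (XT.lf (nat_lit 0) (nat_lit 9678948037) (nat_lit 152) (nat_lit 6364915810) (nat_lit 228) (nat_lit 6421278337) (nat_lit 27) (nat_lit 5) (nat_lit 29) (nat_lit 5) (nat_lit 30) (nat_lit 5) (nat_lit 236) (nat_lit 227) (nat_lit 197)))) (XT.nd (nat_lit 78) (nat_lit 380) (nat_lit 0) (XT.lf (nat_lit 0) (nat_lit 7659163181) (nat_lit 152) (nat_lit 16616437102) (nat_lit 228) (nat_lit 303735942) (nat_lit 25) (nat_lit 5) (nat_lit 27) (nat_lit 5) (nat_lit 28) (nat_lit 5) (nat_lit 237) (nat_lit 227) (nat_lit 196)) (XT.nd (nat_lit 78) (nat_lit 152) (nat_lit 0) (XT.lf (nat_lit 0) (nat_lit 4772269419) (nat_lit 152)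 (nat_lit 2235583044) (nat_lit 228) (nat_lit 19940951043) (nat_lit 22) (nat_lit 5) (nat_lit 24) (nat_lit 5) (nat_lit 25) (nat_lit 5) (nat_lit 238) (nat_lit 227) (nat_lit 195)) (XT.lf (nat_lit 0) (nat_lit 698300262) (nat_lit 152) (nat_lit 15512374729) (nat_lit 228) (nat_lit 13397514409) (nat_lit 20) (nat_lit 5) (nat_lit 22) (nat_lit 5) (nat_lit 23) (nat_lit 5) (nat_lit 239) (nat_lit 227) (nat_lit 194)))))) (XT.nd (nat_lit 468) (nat_lit 380) (nat_lit 0) (XT.nd (nat_lit 234) (nat_lit 304) (nat_lit 0) (XT.nd (nat_lit 78) (nat_lit 304) (nat_lit 0) (XT.lf (nat_lit 0) (nat_lit 27469149584) (nat_lit 228) (nat_lit 4423628661) (nat_lit 76) (nat_lit 719798026) (nat_lit 20) (nat_lit 5) (nat_lit 23) (nat_lit 5) (nat_lit 21) (nat_lit 4) (nat_lit 240) (nat_lit 227) (nat_lit 193)) (XT.nd (nat_lit 78) (nat_lit 152) (nat_lit 0) (XT.lf (nat_lit 0) (nat_lit 5130781019) (nat_lit 152) (nat_lit 11656346024)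 (nat_lit 76) (nat_lit 19192252753) (nat_lit 18) (nat_lit 5) (nat_lit 20) (nat_lit 5) (nat_lit 19) (nat_lit 5) (nat_lit 241) (nat_lit 227) (nat_lit 192)) (XT.lf (nat_lit 0) (nat_lit 17220120058) (nat_lit 228) (nat_lit 21302722454) (nat_lit 76) (nat_lit 1271467807) (nat_lit 16) (nat_lit 5) (nat_lit 19) (nat_lit 5) (nat_lit 17) (nat_lit 4) (nat_lit 242) (nat_lit 227) (nat_lit 191)))) (XT.nd (nat_lit 78) (nat_lit 228) (nat_lit 0) (XT.lf (nat_lit 0) (nat_lit 9662981709) (nat_lit 76) (nat_lit 22468038231) (nat_lit 152) (nat_lit 11969875498) (nat_lit 15) (nat_lit 5) (nat_lit 16) (nat_lit 5) (nat_lit 17) (nat_lit 4) (nat_lit 243) (nat_lit 227) (nat_lit 190)) (XT.nd (nat_lit 78) (nat_lit 152) (nat_lit 0) (XT.lf (nat_lit 0) (nat_lit 815974567) (nat_lit 152) (nat_lit 2519081503) (nat_lit 76) (nat_lit 45669861960) (nat_lit 14) (nat_lit 5) (nat_lit 16) (nat_lit 5) (nat_lit 15) (nat_lit 5) (nat_lit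 244) (nat_lit 227) (nat_lit 189)) (XT.lf (nat_lit 0) (nat_lit 16136567413) (nat_lit 228) (nat_lit 19444409049) (nat_lit 76) (nat_lit 18932693320) (nat_lit 12) (nat_lit 5) (nat_lit 15) (nat_lit 5) (nat_lit 13) (nat_lit 4) (nat_lit 245) (nat_lit 227) (nat_lit 188))))) (XT.nd (nat_lit 234) (nat_lit 152) (nat_lit 0) (XT.nd (nat_lit 78) (nat_lit 152) (nat_lit 0) (XT.lf (nat_lit 0) (nat_lit 18383679800) (nat_lit 76) (nat_lit 15953801494) (nat_lit 152) (nat_lit 26464715721) (nat_lit 11) (nat_lit 5) (nat_lit 12) (nat_lit 5) (nat_lit 13) (nat_lit 4) (nat_lit 246) (nat_lit 227) (nat_lit 187)) (XT.nd (nat_lit 78) (nat_lit 152) (nat_lit 0) (XT.lf (nat_lit 0) (nat_lit 55983193434) (nat_lit 152) (nat_lit 5144002427) (nat_lit 0) (nat_lit 6849670479) (nat_lit 11) (nat_lit 5) (nat_lit 13) (nat_lit 4) (nat_lit 11) (nat_lit 4) (nat_lit 247) (nat_lit 227) (nat_lit 186)) (XT.lf (nat_lit 0) (nat_lit 5812928517)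 (nat_lit 152) (nat_lit 37063504020) (nat_lit 76) (nat_lit 33230596396) (nat_lit 9) (nat_lit 5) (nat_lit 11) (nat_lit 5) (nat_lit 10) (nat_lit 4) (nat_lit 248) (nat_lit 227) (nat_lit 185)))) (XT.nd (nat_lit 78) (nat_lit 76) (nat_lit 0) (XT.lf (nat_lit 0) (nat_lit 4582740765) (nat_lit 76) (nat_lit 21261146734) (nat_lit 152) (nat_lit 59566849504) (nat_lit 8) (nat_lit 5) (nat_lit 9) (nat_lit 5) (nat_lit 10) (nat_lit 4) (nat_lit 249) (nat_lit 227) (nat_lit 184)) (XT.nd (nat_lit 78) (nat_lit 76) (nat_lit 0) (XT.lf (nat_lit 0) (nat_lit 50054048866) (nat_lit 152) (nat_lit 41452708647) (nat_lit 0) (nat_lit 4509300946) (nat_lit 8) (nat_lit 5) (nat_lit 10) (nat_lit 4) (nat_lit 8) (nat_lit 4) (nat_lit 250) (nat_lit 227) (nat_lit 183)) (XT.lf (nat_lit 0) (nat_lit 3379565173) (nat_lit 76) (nat_lit 75168933061) (nat_lit 76) (nat_lit 29611477799) (nat_lit 7) (nat_lit 4) (nat_lit 8) (nat_lit 5) (nat_lit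 8) (nat_lit 4) (nat_lit 251) (nat_lit 227) (nat_lit 182))))))) (XT.nd (nat_lit 858) (nat_lit 0) (nat_lit 0) (XT.nd (nat_lit 390) (nat_lit 228) (nat_lit 0) (XT.nd (nat_lit 156) (nat_lit 76) (nat_lit 0) (XT.nd (nat_lit 78) (nat_lit 76) (nat_lit 0) (XT.lf (nat_lit 0) (nat_lit 57419162242) (nat_lit 76) (nat_lit 55089748498) (nat_lit 76) (nat_lit 9521243372) (nat_lit 7) (nat_lit 4) (nat_lit 8) (nat_lit 5) (nat_lit 8) (nat_lit 4) (nat_lit 252) (nat_lit 227) (nat_lit 181)) (XT.lf (nat_lit 0) (nat_lit 12889628005) (nat_lit 152) (nat_lit 18767687450) (nat_lit 76) (nat_lit 106298499568) (nat_lit 6) (nat_lit 5) (nat_lit 8) (nat_lit 5) (nat_lit 7) (nat_lit 4) (nat_lit 253) (nat_lit 227) (nat_lit 180))) (XT.nd (nat_lit 78) (nat_lit 0) (nat_lit 0) (XT.lf (nat_lit 0) (nat_lit 35440007523) (nat_lit 76) (nat_lit 3515029260) (nat_lit 152) (nat_lit 117226981812) (nat_lit 5) (nat_lit 5) (nat_lit 6) (nat_lit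 5) (nat_lit 7) (nat_lit 4) (nat_lit 254) (nat_lit 227) (nat_lit 179)) (XT.nd (nat_lit 78) (nat_lit 0) (nat_lit 0) (XT.lf (nat_lit 0) (nat_lit 70173797015) (nat_lit 152) (nat_lit 78911506311) (nat_lit 0) (nat_lit 27957376228) (nat_lit 5) (nat_lit 5) (nat_lit 7) (nat_lit 4) (nat_lit 5) (nat_lit 4) (nat_lit 255) (nat_lit 227) (nat_lit 178)) (XT.lf (nat_lit 0) (nat_lit 106163142524) (nat_lit 152) (nat_lit 30921412256) (nat_lit 0) (nat_lit 63940871926) (nat_lit 5) (nat_lit 5) (nat_lit 7) (nat_lit 4) (nat_lit 5) (nat_lit 4) (nat_lit 256) (nat_lit 227) (nat_lit 177))))) (XT.nd (nat_lit 234) (nat_lit 152) (nat_lit 0) (XT.nd (nat_lit 78) (nat_lit 0) (nat_lit 0) (XT.lf (nat_lit 0) (nat_lit 25528798126) (nat_lit 76) (nat_lit 122627846221) (nat_lit 76) (nat_lit 80400488832) (nat_lit 4) (nat_lit 4) (nat_lit 5) (nat_lit 5) (nat_lit 5) (nat_lit 4) (nat_lit 257) (nat_lit 227) (nat_lit 176)) (XT.nd (nat_lit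 78) (nat_lit 0) (nat_lit 0) (XT.lf (nat_lit 0) (nat_lit 92304903106) (nat_lit 76) (nat_lit 105037029465) (nat_lit 76) (nat_lit 62805248779) (nat_lit 4) (nat_lit 4) (nat_lit 5) (nat_lit 5) (nat_lit 5) (nat_lit 4) (nat_lit 258) (nat_lit 227) (nat_lit 175)) (XT.lf (nat_lit 0) (nat_lit 169085124921) (nat_lit 76) (nat_lit 84813382567) (nat_lit 76) (nat_lit 42577755535) (nat_lit 4) (nat_lit 4) (nat_lit 5) (nat_lit 5) (nat_lit 5) (nat_lit 4) (nat_lit 259) (nat_lit 227) (nat_lit 174)))) (XT.nd (nat_lit 78) (nat_lit 152) (nat_lit 0) (XT.lf (nat_lit 0) (nat_lit 257371685302) (nat_lit 76) (nat_lit 61561225478) (nat_lit 76) (nat_lit 19322253798) (nat_lit 4) (nat_lit 4) (nat_lit 5) (nat_lit 5) (nat_lit 5) (nat_lit 4) (nat_lit 260) (nat_lit 227) (nat_lit 173)) (XT.nd (nat_lit 78) (nat_lit 76) (nat_lit 0) (XT.lf (nat_lit 0) (nat_lit 7045264248) (nat_lit 152) (nat_lit 27587730431) (nat_lit 76) (nat_lit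 351654035737) (nat_lit 3) (nat_lit 5) (nat_lit 5) (nat_lit 5) (nat_lit 4) (nat_lit 4) (nat_lit 261) (nat_lit 227) (nat_lit 172)) (XT.lf (nat_lit 0) (nat_lit 34905781998) (nat_lit 76) (nat_lit 2185656031) (nat_lit 152) (nat_lit 404322681781) (nat_lit 2) (nat_lit 5) (nat_lit 3) (nat_lit 5) (nat_lit 4) (nat_lit 4) (nat_lit 262) (nat_lit 227) (nat_lit 171)))))) (XT.nd (nat_lit 468) (nat_lit 0) (nat_lit 0) (XT.nd (nat_lit 234) (nat_lit 0) (nat_lit 0) (XT.nd (nat_lit 78) (nat_lit 0) (nat_lit 0) (XT.lf (nat_lit 0) (nat_lit 73309345055) (nat_lit 152) (nat_lit 397175630848) (nat_lit 0) (nat_lit 34192115181) (nat_lit 2) (nat_lit 5) (nat_lit 4) (nat_lit 4) (nat_lit 2) (nat_lit 4) (nat_lit 263) (nat_lit 227) (nat_lit 170)) (XT.nd (nat_lit 78) (nat_lit 0) (nat_lit 0) (XT.lf (nat_lit 0) (nat_lit 115016831454) (nat_lit 152) (nat_lit 386510296858) (nat_lit 0) (nat_lit 75897830919) (nat_lit 2) (nat_lit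 5) (nat_lit 4) (nat_lit 4) (nat_lit 2) (nat_lit 4) (nat_lit 264) (nat_lit 227) (nat_lit 169)) (XT.lf (nat_lit 0) (nat_lit 162977348185) (nat_lit 152) (nat_lit 374251101182) (nat_lit 0) (nat_lit 123856807946) (nat_lit 2) (nat_lit 5) (nat_lit 4) (nat_lit 4) (nat_lit 2) (nat_lit 4) (nat_lit 265) (nat_lit 227) (nat_lit 168)))) (XT.nd (nat_lit 78) (nat_lit 0) (nat_lit 0) (XT.lf (nat_lit 0) (nat_lit 218129253185) (nat_lit 152) (nat_lit 360158189993) (nat_lit 0) (nat_lit 179007374072) (nat_lit 2) (nat_lit 5) (nat_lit 4) (nat_lit 4) (nat_lit 2) (nat_lit 4) (nat_lit 266) (nat_lit 227) (nat_lit 167)) (XT.nd (nat_lit 78) (nat_lit 0) (nat_lit 0) (XT.lf (nat_lit 0) (nat_lit 281551605464) (nat_lit 152) (nat_lit 343955832419) (nat_lit 0) (nat_lit 242428562114) (nat_lit 2) (nat_lit 5) (nat_lit 4) (nat_lit 4) (nat_lit 2) (nat_lit 4) (nat_lit 267) (nat_lit 227) (nat_lit 166)) (XT.lf (nat_lit 0) (nat_lit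 354485277133) (nat_lit 152) (nat_lit 325327025812) (nat_lit 0) (nat_lit 315361221401) (nat_lit 2) (nat_lit 5) (nat_lit 4) (nat_lit 4) (nat_lit 2) (nat_lit 4) (nat_lit 268) (nat_lit 227) (nat_lit 165))))) (XT.nd (nat_lit 234) (nat_lit 0) (nat_lit 0) (XT.nd (nat_lit 78) (nat_lit 0) (nat_lit 0) (XT.lf (nat_lit 0) (nat_lit 438357231331) (nat_lit 152) (nat_lit 303907293522) (nat_lit 0) (nat_lit 399232295268) (nat_lit 2) (nat_lit 5) (nat_lit 4) (nat_lit 4) (nat_lit 2) (nat_lit 4) (nat_lit 269) (nat_lit 227) (nat_lit 164)) (XT.nd (nat_lit 78) (nat_lit 0) (nat_lit 0) (XT.lf (nat_lit 0) (nat_lit 534808441077) (nat_lit 152) (nat_lit 279277553829) (nat_lit 0) (nat_lit 495682739508) (nat_lit 2) (nat_lit 5) (nat_lit 4) (nat_lit 4) (nat_lit 2) (nat_lit 4) (nat_lit 270) (nat_lit 227) (nat_lit 163)) (XT.lf (nat_lit 0) (nat_lit 645725995256) (nat_lit 152) (nat_lit 250955920522) (nat_lit 0) (nat_lit 606599628031)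 (nat_lit 2) (nat_lit 5) (nat_lit 4) (nat_lit 4) (nat_lit 2) (nat_lit 4) (nat_lit 271) (nat_lit 227) (nat_lit 162)))) (XT.nd (nat_lit 78) (nat_lit 0) (nat_lit 0) (XT.lf (nat_lit 0) (nat_lit 773280019929) (nat_lit 152) (nat_lit 218388274688) (nat_lit 0) (nat_lit 734153073872) (nat_lit 2) (nat_lit 5) (nat_lit 4) (nat_lit 4) (nat_lit 2) (nat_lit 4) (nat_lit 272) (nat_lit 227) (nat_lit 161)) (XT.nd (nat_lit 78) (nat_lit 0) (nat_lit 0) (XT.lf (nat_lit 0) (nat_lit 919966137317) (nat_lit 152) (nat_lit 180937423258) (nat_lit 0) (nat_lit 880838687928) (nat_lit 2) (nat_lit 5) (nat_lit 4) (nat_lit 4) (nat_lit 2) (nat_lit 4) (nat_lit 273) (nat_lit 227) (nat_lit 160)) (XT.lf (nat_lit 0) (nat_lit 1088654293196) (nat_lit 152) (nat_lit 137870632181) (nat_lit 0) (nat_lit 1049526406126) (nat_lit 2) (nat_lit 5) (nat_lit 4) (nat_lit 4) (nat_lit 2) (nat_lit 4) (nat_lit 274) (nat_lit 227) (nat_lit 159))))))))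
noncomputable def xc34 : XT := (XT.nd (nat_lit 31746) (nat_lit 0) (nat_lit 76) (XT.nd (nat_lit 30810) (nat_lit 0) (nat_lit 1444) (XT.nd (nat_lit 390) (nat_lit 0) (nat_lit 0) (XT.nd (nat_lit 156) (nat_lit 76) (nat_lit 0) (XT.nd (nat_lit 78) (nat_lit 0) (nat_lit 0) (XT.lf (nat_lit 0) (nat_lit 1282644908007) (nat_lit 152) (nat_lit 88345290327) (nat_lit 0) (nat_lit 1243516640345) (nat_lit 2) (nat_lit 5) (nat_lit 4) (nat_lit 4) (nat_lit 2) (nat_lit 4) (nat_lit 275) (nat_lit 227) (nat_lit 158)) (XT.lf (nat_lit 0) (nat_lit 1505733450299) (nat_lit 152) (nat_lit 31392423617) (nat_lit 0) (nat_lit 1466604851689) (nat_lit 2) (nat_lit 5) (nat_lit 4) (nat_lit 4) (nat_lit 2) (nat_lit 4) (nat_lit 276) (nat_lit 227) (nat_lit 157))) (XT.nd (nat_lit 78) (nat_lit 0) (nat_lit 0) (XT.lf (nat_lit 0) (nat_lit 35898027911) (nat_lit 76) (nat_lit 1727250016425) (nat_lit 76) (nat_lit 1688121130033) (nat_lit 1) (nat_lit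 4) (nat_lit 2) (nat_lit 5) (nat_lit 2) (nat_lit 4) (nat_lit 277) (nat_lit 227) (nat_lit 156)) (XT.nd (nat_lit 78) (nat_lit 0) (nat_lit 0) (XT.lf (nat_lit 0) (nat_lit 115182060992) (nat_lit 76) (nat_lit 1944906196050) (nat_lit 76) (nat_lit 1905777059413) (nat_lit 1) (nat_lit 4) (nat_lit 2) (nat_lit 5) (nat_lit 2) (nat_lit 4) (nat_lit 278) (nat_lit 227) (nat_lit 155)) (XT.lf (nat_lit 0) (nat_lit 206357815573) (nat_lit 76) (nat_lit 2195211227758) (nat_lit 76) (nat_lit 2156081873516) (nat_lit 1) (nat_lit 4) (nat_lit 2) (nat_lit 5) (nat_lit 2) (nat_lit 4) (nat_lit 279) (nat_lit 227) (nat_lit 154))))) (XT.nd (nat_lit 234) (nat_lit 0) (nat_lit 0) (XT.nd (nat_lit 78) (nat_lit 0) (nat_lit 0) (XT.lf (nat_lit 0) (nat_lit 311209165114) (nat_lit 76) (nat_lit 2483062383907) (nat_lit 76) (nat_lit 2443932840444) (nat_lit 1) (nat_lit 4) (nat_lit 2) (nat_lit 5) (nat_lit 2) (nat_lit 4) (nat_lit 280) (nat_lit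 227) (nat_lit 153)) (XT.nd (nat_lit 78) (nat_lit 0) (nat_lit 0) (XT.lf (nat_lit 0) (nat_lit 431787549060) (nat_lit 76) (nat_lit 2814091534943) (nat_lit 76) (nat_lit 2774961826940) (nat_lit 1) (nat_lit 4) (nat_lit 2) (nat_lit 5) (nat_lit 2) (nat_lit 4) (nat_lit 281) (nat_lit 227) (nat_lit 152)) (XT.lf (nat_lit 0) (nat_lit 570452109708) (nat_lit 76) (nat_lit 3194775338171) (nat_lit 76) (nat_lit 3155645487089) (nat_lit 1) (nat_lit 4) (nat_lit 2) (nat_lit 5) (nat_lit 2) (nat_lit 4) (nat_lit 282) (nat_lit 227) (nat_lit 151)))) (XT.nd (nat_lit 78) (nat_lit 0) (nat_lit 0) (XT.lf (nat_lit 0) (nat_lit 729915849330) (nat_lit 76) (nat_lit 3632561954957) (nat_lit 76) (nat_lit 3593431979459) (nat_lit 1) (nat_lit 4) (nat_lit 2) (nat_lit 5) (nat_lit 2) (nat_lit 4) (nat_lit 283) (nat_lit 227) (nat_lit 150)) (XT.nd (nat_lit 30030) (nat_lit 0) (nat_lit 3116) (XT.lf (nat_lit 0) (nat_lit 913298710659) (nat_lit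 76) (nat_lit 4136016775629) (nat_lit 76) (nat_lit 4096886691944) (nat_lit 1) (nat_lit 4) (nat_lit 2) (nat_lit 5) (nat_lit 2) (nat_lit 4) (nat_lit 284) (nat_lit 227) (nat_lit 149)) (XT.lf (nat_lit 0) (nat_lit 1721383886) (nat_lit 532) (nat_lit 2337324840) (nat_lit 532) (nat_lit 2337324840) (nat_lit 42) (nat_lit 3) (nat_lit 49) (nat_lit 3) (nat_lit 49) (nat_lit 5) (nat_lit 228) (nat_lit 228) (nat_lit 204)))))) (XT.nd (nat_lit 468) (nat_lit 1140) (nat_lit 0) (XT.nd (nat_lit 234) (nat_lit 608) (nat_lit 0) (XT.nd (nat_lit 78) (nat_lit 0) (nat_lit 0) (XT.lf (nat_lit 0) (nat_lit 4580370423) (nat_lit 456) (nat_lit 7356988989) (nat_lit 532) (nat_lit 1741194247) (nat_lit 43) (nat_lit 5) (nat_lit 49) (nat_lit 5) (nat_lit 50) (nat_lit 5) (nat_lit 229) (nat_lit 228) (nat_lit 203)) (XT.nd (nat_lit 78) (nat_lit 0) (nat_lit 76) (XT.lf (nat_lit 76) (nat_lit 4478263866) (nat_lit 0) (nat_lit 1760363914)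 (nat_lit 532) (nat_lit 8431841286) (nat_lit 44) (nat_lit 5) (nat_lit 43) (nat_lit 5) (nat_lit 50) (nat_lit 5) (nat_lit 230) (nat_lit 228) (nat_lit 202)) (XT.lf (nat_lit 76) (nat_lit 2538723819) (nat_lit 0) (nat_lit 6019936208) (nat_lit 532) (nat_lit 7219866287) (nat_lit 45) (nat_lit 5) (nat_lit 44) (nat_lit 5) (nat_lit 51) (nat_lit 5) (nat_lit 231) (nat_lit 228) (nat_lit 201)))) (XT.nd (nat_lit 78) (nat_lit 304) (nat_lit 0) (XT.lf (nat_lit 0) (nat_lit 511983755) (nat_lit 456) (nat_lit 11125334333) (nat_lit 532) (nat_lit 5382969976) (nat_lit 39) (nat_lit 5) (nat_lit 45) (nat_lit 5) (nat_lit 46) (nat_lit 5) (nat_lit 232) (nat_lit 228) (nat_lit 200)) (XT.nd (nat_lit 78) (nat_lit 304) (nat_lit 0) (XT.lf (nat_lit 0) (nat_lit 15671245679) (nat_lit 532) (nat_lit 1566062285) (nat_lit 76) (nat_lit 1171828962) (nat_lit 39) (nat_lit 5) (nat_lit 46) (nat_lit 5) (nat_lit 40) (nat_lit 5) (nat_lit 233)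 (nat_lit 228) (nat_lit 199)) (XT.lf (nat_lit 0) (nat_lit 925165735) (nat_lit 304) (nat_lit 3942227964) (nat_lit 76) (nat_lit 15087662883) (nat_lit 35) (nat_lit 5) (nat_lit 39) (nat_lit 5) (nat_lit 36) (nat_lit 5) (nat_lit 234) (nat_lit 228) (nat_lit 198))))) (XT.nd (nat_lit 234) (nat_lit 532) (nat_lit 0) (XT.nd (nat_lit 78) (nat_lit 380) (nat_lit 0) (XT.lf (nat_lit 0) (nat_lit 5563409874) (nat_lit 304) (nat_lit 6730499485) (nat_lit 76) (nat_lit 9386448719) (nat_lit 32) (nat_lit 5) (nat_lit 36) (nat_lit 5) (nat_lit 33) (nat_lit 5) (nat_lit 235) (nat_lit 228) (nat_lit 197)) (XT.nd (nat_lit 78) (nat_lit 152) (nat_lit 0) (XT.lf (nat_lit 0) (nat_lit 11476058684) (nat_lit 304) (nat_lit 9939917664) (nat_lit 76) (nat_lit 2202367962) (nat_lit 29) (nat_lit 5) (nat_lit 33) (nat_lit 5) (nat_lit 30) (nat_lit 5) (nat_lit 236) (nat_lit 228) (nat_lit 196)) (XT.lf (nat_lit 0) (nat_lit 11906964432) (nat_lit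 152) (nat_lit 7142192763) (nat_lit 228) (nat_lit 6736146186) (nat_lit 27) (nat_lit 5) (nat_lit 29) (nat_lit 5) (nat_lit 30) (nat_lit 5) (nat_lit 237) (nat_lit 228) (nat_lit 195)))) (XT.nd (nat_lit 78) (nat_lit 304) (nat_lit 0) (XT.lf (nat_lit 0) (nat_lit 226097740) (nat_lit 228) (nat_lit 18667060919) (nat_lit 76) (nat_lit 9327737128) (nat_lit 24) (nat_lit 5) (nat_lit 27) (nat_lit 5) (nat_lit 25) (nat_lit 5) (nat_lit 238) (nat_lit 228) (nat_lit 194)) (XT.nd (nat_lit 78) (nat_lit 152) (nat_lit 0) (XT.lf (nat_lit 0) (nat_lit 6204592498) (nat_lit 152) (nat_lit 2356817831) (nat_lit 228) (nat_lit 22388323955) (nat_lit 22) (nat_lit 5) (nat_lit 24) (nat_lit 5) (nat_lit 25) (nat_lit 5) (nat_lit 239) (nat_lit 228) (nat_lit 193)) (XT.lf (nat_lit 0) (nat_lit 1492054269) (nat_lit 152) (nat_lit 17608122367) (nat_lit 228) (nat_lit 14911566231) (nat_lit 20) (nat_lit 5) (nat_lit 22) (nat_lit 5) (nat_lit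 23) (nat_lit 5) (nat_lit 240) (nat_lit 228) (nat_lit 192))))))) (XT.nd (nat_lit 858) (nat_lit 456) (nat_lit 0) (XT.nd (nat_lit 390) (nat_lit 456) (nat_lit 0) (XT.nd (nat_lit 156) (nat_lit 304) (nat_lit 0) (XT.nd (nat_lit 78) (nat_lit 152) (nat_lit 0) (XT.lf (nat_lit 0) (nat_lit 31992529468) (nat_lit 228) (nat_lit 4460107096) (nat_lit 76) (nat_lit 1018678673) (nat_lit 20) (nat_lit 5) (nat_lit 23) (nat_lit 5) (nat_lit 21) (nat_lit 4) (nat_lit 241) (nat_lit 228) (nat_lit 191)) (XT.lf (nat_lit 0) (nat_lit 6274853920) (nat_lit 152) (nat_lit 12810361713) (nat_lit 76) (nat_lit 22260384496) (nat_lit 18) (nat_lit 5) (nat_lit 20) (nat_lit 5) (nat_lit 19) (nat_lit 5) (nat_lit 242) (nat_lit 228) (nat_lit 190))) (XT.nd (nat_lit 78) (nat_lit 152) (nat_lit 0) (XT.lf (nat_lit 0) (nat_lit 20146778229) (nat_lit 228) (nat_lit 23931220117) (nat_lit 76) (nat_lit 1657332373) (nat_lit 16) (nat_lit 5) (nat_lit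 19) (nat_lit 5) (nat_lit 17) (nat_lit 4) (nat_lit 243) (nat_lit 228) (nat_lit 189)) (XT.nd (nat_lit 78) (nat_lit 76) (nat_lit 0) (XT.lf (nat_lit 0) (nat_lit 11631353503) (nat_lit 76) (nat_lit 25630617107) (nat_lit 152) (nat_lit 13428603210) (nat_lit 15) (nat_lit 5) (nat_lit 16) (nat_lit 5) (nat_lit 17) (nat_lit 4) (nat_lit 244) (nat_lit 228) (nat_lit 188)) (XT.lf (nat_lit 0) (nat_lit 1216551476) (nat_lit 152) (nat_lit 2430611956) (nat_lit 76) (nat_lit 52685793305) (nat_lit 14) (nat_lit 5) (nat_lit 16) (nat_lit 5) (nat_lit 15) (nat_lit 5) (nat_lit 245) (nat_lit 228) (nat_lit 187))))) (XT.nd (nat_lit 234) (nat_lit 228) (nat_lit 0) (XT.nd (nat_lit 78) (nat_lit 76) (nat_lit 0) (XT.lf (nat_lit 0) (nat_lit 18813416243) (nat_lit 228) (nat_lit 21917853222) (nat_lit 76) (nat_lit 21938555131) (nat_lit 12) (nat_lit 5) (nat_lit 15) (nat_lit 5) (nat_lit 13) (nat_lit 4) (nat_lit 246) (nat_lit 228)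 (nat_lit 186)) (XT.nd (nat_lit 78) (nat_lit 0) (nat_lit 0) (XT.lf (nat_lit 0) (nat_lit 21546932827) (nat_lit 76) (nat_lit 18173852753) (nat_lit 152) (nat_lit 30182790284) (nat_lit 11) (nat_lit 5) (nat_lit 12) (nat_lit 5) (nat_lit 13) (nat_lit 4) (nat_lit 247) (nat_lit 228) (nat_lit 185)) (XT.lf (nat_lit 0) (nat_lit 64586623060) (nat_lit 152) (nat_lit 5549958747) (nat_lit 0) (nat_lit 8020046143) (nat_lit 11) (nat_lit 5) (nat_lit 13) (nat_lit 4) (nat_lit 11) (nat_lit 4) (nat_lit 248) (nat_lit 228) (nat_lit 184)))) (XT.nd (nat_lit 78) (nat_lit 76) (nat_lit 0) (XT.lf (nat_lit 0) (nat_lit 6877106834) (nat_lit 152) (nat_lit 42277977220) (nat_lit 76) (nat_lit 38352384756) (nat_lit 9) (nat_lit 5) (nat_lit 11) (nat_lit 5) (nat_lit 10) (nat_lit 4) (nat_lit 249) (nat_lit 228) (nat_lit 183)) (XT.nd (nat_lit 78) (nat_lit 0) (nat_lit 0) (XT.lf (nat_lit 0) (nat_lit 5585997316) (nat_lit 76) (nat_lit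 24309233780) (nat_lit 152) (nat_lit 68312930976) (nat_lit 8) (nat_lit 5) (nat_lit 9) (nat_lit 5) (nat_lit 10) (nat_lit 4) (nat_lit 250) (nat_lit 228) (nat_lit 182)) (XT.lf (nat_lit 0) (nat_lit 57717072343) (nat_lit 152) (nat_lit 47386582056) (nat_lit 0) (nat_lit 5302241585) (nat_lit 8) (nat_lit 5) (nat_lit 10) (nat_lit 4) (nat_lit 8) (nat_lit 4) (nat_lit 251) (nat_lit 228) (nat_lit 181)))))) (XT.nd (nat_lit 468) (nat_lit 228) (nat_lit 0) (XT.nd (nat_lit 234) (nat_lit 76) (nat_lit 0) (XT.nd (nat_lit 78) (nat_lit 76) (nat_lit 0) (XT.lf (nat_lit 0) (nat_lit 4146490867) (nat_lit 76) (nat_lit 86325244583) (nat_lit 76) (nat_lit 33900805249) (nat_lit 7) (nat_lit 4) (nat_lit 8) (nat_lit 5) (nat_lit 8) (nat_lit 4) (nat_lit 252) (nat_lit 228) (nat_lit 180)) (XT.nd (nat_lit 78) (nat_lit 76) (nat_lit 0) (XT.lf (nat_lit 0) (nat_lit 66258115637) (nat_lit 76) (nat_lit 63249707784) (nat_lit 76) (nat_lit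 10816913166) (nat_lit 7) (nat_lit 4) (nat_lit 8) (nat_lit 5) (nat_lit 8) (nat_lit 4) (nat_lit 253) (nat_lit 228) (nat_lit 179)) (XT.lf (nat_lit 0) (nat_lit 14932539763) (nat_lit 152) (nat_lit 21380377375) (nat_lit 76) (nat_lit 122327404396) (nat_lit 6) (nat_lit 5) (nat_lit 8) (nat_lit 5) (nat_lit 7) (nat_lit 4) (nat_lit 254) (nat_lit 228) (nat_lit 178)))) (XT.nd (nat_lit 78) (nat_lit 0) (nat_lit 0) (XT.lf (nat_lit 0) (nat_lit 40941334343) (nat_lit 76) (nat_lit 3956604224) (nat_lit 152) (nat_lit 134703316909) (nat_lit 5) (nat_lit 5) (nat_lit 6) (nat_lit 5) (nat_lit 7) (nat_lit 4) (nat_lit 255) (nat_lit 228) (nat_lit 177)) (XT.nd (nat_lit 78) (nat_lit 0) (nat_lit 0) (XT.lf (nat_lit 0) (nat_lit 80788307315) (nat_lit 152) (nat_lit 90581857468) (nat_lit 0) (nat_lit 32221759525) (nat_lit 5) (nat_lit 5) (nat_lit 7) (nat_lit 4) (nat_lit 5) (nat_lit 4) (nat_lit 256) (nat_lit 228) (nat_lit 176))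 (XT.lf (nat_lit 0) (nat_lit 122164518900) (nat_lit 152) (nat_lit 35414950364) (nat_lit 0) (nat_lit 73593547814) (nat_lit 5) (nat_lit 5) (nat_lit 7) (nat_lit 4) (nat_lit 5) (nat_lit 4) (nat_lit 257) (nat_lit 228) (nat_lit 175))))) (XT.nd (nat_lit 234) (nat_lit 152) (nat_lit 0) (XT.nd (nat_lit 78) (nat_lit 0) (nat_lit 0) (XT.lf (nat_lit 0) (nat_lit 29490545665) (nat_lit 76) (nat_lit 140959654138) (nat_lit 76) (nat_lit 92384836707) (nat_lit 4) (nat_lit 4) (nat_lit 5) (nat_lit 5) (nat_lit 5) (nat_lit 4) (nat_lit 258) (nat_lit 228) (nat_lit 174)) (XT.nd (nat_lit 78) (nat_lit 0) (nat_lit 0) (XT.lf (nat_lit 0) (nat_lit 106265793198) (nat_lit 76) (nat_lit 120738349958) (nat_lit 76) (nat_lit 72160187878) (nat_lit 4) (nat_lit 4) (nat_lit 5) (nat_lit 5) (nat_lit 5) (nat_lit 4) (nat_lit 259) (nat_lit 228) (nat_lit 173)) (XT.lf (nat_lit 0) (nat_lit 194548028116) (nat_lit 76) (nat_lit 97488230015)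 (nat_lit 76) (nat_lit 48907159546) (nat_lit 4) (nat_lit 4) (nat_lit 5) (nat_lit 5) (nat_lit 5) (nat_lit 4) (nat_lit 260) (nat_lit 228) (nat_lit 172)))) (XT.nd (nat_lit 78) (nat_lit 152) (nat_lit 0) (XT.lf (nat_lit 0) (nat_lit 296064511538) (nat_lit 76) (nat_lit 70754400659) (nat_lit 76) (nat_lit 22170801155) (nat_lit 4) (nat_lit 4) (nat_lit 5) (nat_lit 5) (nat_lit 5) (nat_lit 4) (nat_lit 261) (nat_lit 228) (nat_lit 171)) (XT.nd (nat_lit 78) (nat_lit 76) (nat_lit 0) (XT.lf (nat_lit 0) (nat_lit 8143184303) (nat_lit 152) (nat_lit 31647975313) (nat_lit 76) (nat_lit 404435602138) (nat_lit 3) (nat_lit 5) (nat_lit 5) (nat_lit 5) (nat_lit 4) (nat_lit 4) (nat_lit 262) (nat_lit 228) (nat_lit 170)) (XT.lf (nat_lit 0) (nat_lit 40212968891) (nat_lit 76) (nat_lit 2479665660) (nat_lit 152) (nat_lit 464930576250) (nat_lit 2) (nat_lit 5) (nat_lit 3) (nat_lit 5) (nat_lit 4) (nat_lit 4) (nat_lit 263) (nat_lit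 228) (nat_lit 169))))))))
noncomputable def xc35 : XT := (XT.nd (nat_lit 31824) (nat_lit 0) (nat_lit 456) (XT.nd (nat_lit 858) (nat_lit 76) (nat_lit 0) (XT.nd (nat_lit 390) (nat_lit 0) (nat_lit 0) (XT.nd (nat_lit 156) (nat_lit 0) (nat_lit 0) (XT.nd (nat_lit 78) (nat_lit 0) (nat_lit 0) (XT.lf (nat_lit 0) (nat_lit 84339046501) (nat_lit 152) (nat_lit 456688033953) (nat_lit 0) (nat_lit 39348885521) (nat_lit 2) (nat_lit 5) (nat_lit 4) (nat_lit 4) (nat_lit 2) (nat_lit 4) (nat_lit 264) (nat_lit 228) (nat_lit 168)) (XT.lf (nat_lit 0) (nat_lit 132298312423) (nat_lit 152) (nat_lit 444431240063) (nat_lit 0) (nat_lit 87306812569) (nat_lit 2) (nat_lit 5) (nat_lit 4) (nat_lit 4) (nat_lit 2) (nat_lit 4) (nat_lit 265) (nat_lit 228) (nat_lit 167))) (XT.nd (nat_lit 78) (nat_lit 0) (nat_lit 0) (XT.lf (nat_lit 0) (nat_lit 187449129762) (nat_lit 152) (nat_lit 430340417382) (nat_lit 0) (nat_lit 142456465670)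 (nat_lit 2) (nat_lit 5) (nat_lit 4) (nat_lit 4) (nat_lit 2) (nat_lit 4) (nat_lit 266) (nat_lit 228) (nat_lit 166)) (XT.nd (nat_lit 78) (nat_lit 0) (nat_lit 0) (XT.lf (nat_lit 0) (nat_lit 250870536249) (nat_lit 152) (nat_lit 414139875903) (nat_lit 0) (nat_lit 205876859776) (nat_lit 2) (nat_lit 5) (nat_lit 4) (nat_lit 4) (nat_lit 2) (nat_lit 4) (nat_lit 267) (nat_lit 228) (nat_lit 165)) (XT.lf (nat_lit 0) (nat_lit 323803385489) (nat_lit 152) (nat_lit 395512648509) (nat_lit 0) (nat_lit 278808828685) (nat_lit 2) (nat_lit 5) (nat_lit 4) (nat_lit 4) (nat_lit 2) (nat_lit 4) (nat_lit 268) (nat_lit 228) (nat_lit 164))))) (XT.nd (nat_lit 234) (nat_lit 0) (nat_lit 0) (XT.nd (nat_lit 78) (nat_lit 0) (nat_lit 0) (XT.lf (nat_lit 0) (nat_lit 407674624533) (nat_lit 152) (nat_lit 374094289447) (nat_lit 0) (nat_lit 362679302224) (nat_lit 2) (nat_lit 5) (nat_lit 4) (nat_lit 4) (nat_lit 2) (nat_lit 4) (nat_lit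 269) (nat_lit 228) (nat_lit 163)) (XT.nd (nat_lit 78) (nat_lit 0) (nat_lit 0) (XT.lf (nat_lit 0) (nat_lit 504125212405) (nat_lit 152) (nat_lit 349465743865) (nat_lit 0) (nat_lit 459129224439) (nat_lit 2) (nat_lit 5) (nat_lit 4) (nat_lit 4) (nat_lit 2) (nat_lit 4) (nat_lit 270) (nat_lit 228) (nat_lit 162)) (XT.lf (nat_lit 0) (nat_lit 615042225825) (nat_lit 152) (nat_lit 321145148916) (nat_lit 0) (nat_lit 570045659026) (nat_lit 2) (nat_lit 5) (nat_lit 4) (nat_lit 4) (nat_lit 2) (nat_lit 4) (nat_lit 271) (nat_lit 228) (nat_lit 161)))) (XT.nd (nat_lit 78) (nat_lit 0) (nat_lit 0) (XT.lf (nat_lit 0) (nat_lit 742595780272) (nat_lit 152) (nat_lit 288578406003) (nat_lit 0) (nat_lit 697598710141) (nat_lit 2) (nat_lit 5) (nat_lit 4) (nat_lit 4) (nat_lit 2) (nat_lit 4) (nat_lit 272) (nat_lit 228) (nat_lit 160)) (XT.nd (nat_lit 78) (nat_lit 0) (nat_lit 0) (XT.lf (nat_lit 0) (nat_lit 889281488768)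 (nat_lit 152) (nat_lit 251128339720) (nat_lit 0) (nat_lit 844283980958) (nat_lit 2) (nat_lit 5) (nat_lit 4) (nat_lit 4) (nat_lit 2) (nat_lit 4) (nat_lit 273) (nat_lit 228) (nat_lit 159)) (XT.lf (nat_lit 0) (nat_lit 1057969289089) (nat_lit 152) (nat_lit 208062231380) (nat_lit 0) (nat_lit 1012971400687) (nat_lit 2) (nat_lit 5) (nat_lit 4) (nat_lit 4) (nat_lit 2) (nat_lit 4) (nat_lit 274) (nat_lit 228) (nat_lit 158)))))) (XT.nd (nat_lit 468) (nat_lit 0) (nat_lit 0) (XT.nd (nat_lit 234) (nat_lit 76) (nat_lit 0) (XT.nd (nat_lit 78) (nat_lit 0) (nat_lit 0) (XT.lf (nat_lit 0) (nat_lit 1251959594718) (nat_lit 152) (nat_lit 158537483211) (nat_lit 0) (nat_lit 1206961375367) (nat_lit 2) (nat_lit 5) (nat_lit 4) (nat_lit 4) (nat_lit 2) (nat_lit 4) (nat_lit 275) (nat_lit 228) (nat_lit 157)) (XT.nd (nat_lit 78) (nat_lit 0) (nat_lit 0) (XT.lf (nat_lit 0) (nat_lit 1475047868158) (nat_lit 152) (nat_lit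 101585132748) (nat_lit 0) (nat_lit 1430049361025) (nat_lit 2) (nat_lit 5) (nat_lit 4) (nat_lit 4) (nat_lit 2) (nat_lit 4) (nat_lit 276) (nat_lit 228) (nat_lit 156)) (XT.lf (nat_lit 0) (nat_lit 1731598879975) (nat_lit 152) (nat_lit 36090894874) (nat_lit 0) (nat_lit 1686600122597) (nat_lit 2) (nat_lit 5) (nat_lit 4) (nat_lit 4) (nat_lit 2) (nat_lit 4) (nat_lit 277) (nat_lit 228) (nat_lit 155)))) (XT.nd (nat_lit 78) (nat_lit 0) (nat_lit 0) (XT.lf (nat_lit 0) (nat_lit 41292244728) (nat_lit 76) (nat_lit 1986332941238) (nat_lit 76) (nat_lit 1941333966256) (nat_lit 1) (nat_lit 4) (nat_lit 2) (nat_lit 5) (nat_lit 2) (nat_lit 4) (nat_lit 278) (nat_lit 228) (nat_lit 154)) (XT.nd (nat_lit 78) (nat_lit 0) (nat_lit 0) (XT.lf (nat_lit 0) (nat_lit 132467641993) (nat_lit 76) (nat_lit 2236638144892) (nat_lit 76) (nat_lit 2191638980689) (nat_lit 1) (nat_lit 4) (nat_lit 2) (nat_lit 5) (nat_lit 2) (nat_lit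 4) (nat_lit 279) (nat_lit 228) (nat_lit 153)) (XT.lf (nat_lit 0) (nat_lit 237318680824) (nat_lit 76) (nat_lit 2524489450560) (nat_lit 76) (nat_lit 2479490121816) (nat_lit 1) (nat_lit 4) (nat_lit 2) (nat_lit 5) (nat_lit 2) (nat_lit 4) (nat_lit 280) (nat_lit 228) (nat_lit 152))))) (XT.nd (nat_lit 234) (nat_lit 0) (nat_lit 0) (XT.nd (nat_lit 78) (nat_lit 0) (nat_lit 0) (XT.lf (nat_lit 0) (nat_lit 357896794589) (nat_lit 76) (nat_lit 2855518731613) (nat_lit 76) (nat_lit 2810519259791) (nat_lit 1) (nat_lit 4) (nat_lit 2) (nat_lit 5) (nat_lit 2) (nat_lit 4) (nat_lit 281) (nat_lit 228) (nat_lit 151)) (XT.nd (nat_lit 78) (nat_lit 0) (nat_lit 0) (XT.lf (nat_lit 0) (nat_lit 496561120296) (nat_lit 76) (nat_lit 3236202647898) (nat_lit 76) (nat_lit 3191203051660) (nat_lit 1) (nat_lit 4) (nat_lit 2) (nat_lit 5) (nat_lit 2) (nat_lit 4) (nat_lit 282) (nat_lit 228) (nat_lit 150)) (XT.lf (nat_lit 0) (nat_lit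 656024655622) (nat_lit 76) (nat_lit 3673989362995) (nat_lit 76) (nat_lit 3628989658569) (nat_lit 1) (nat_lit 4) (nat_lit 2) (nat_lit 5) (nat_lit 2) (nat_lit 4) (nat_lit 283) (nat_lit 228) (nat_lit 149)))) (XT.nd (nat_lit 30108) (nat_lit 0) (nat_lit 3116) (XT.lf (nat_lit 0) (nat_lit 839407339302) (nat_lit 76) (nat_lit 4177444269156) (nat_lit 76) (nat_lit 4132444470653) (nat_lit 1) (nat_lit 4) (nat_lit 2) (nat_lit 5) (nat_lit 2) (nat_lit 4) (nat_lit 284) (nat_lit 228) (nat_lit 148)) (XT.nd (nat_lit 78) (nat_lit 0) (nat_lit 76) (XT.lf (nat_lit 0) (nat_lit 2633481155) (nat_lit 532) (nat_lit 2333592829) (nat_lit 532) (nat_lit 2333592829) (nat_lit 42) (nat_lit 3) (nat_lit 49) (nat_lit 3) (nat_lit 49) (nat_lit 5) (nat_lit 229) (nat_lit 229) (nat_lit 202)) (XT.lf (nat_lit 0) (nat_lit 6408101955) (nat_lit 456) (nat_lit 7703233008) (nat_lit 532) (nat_lit 1523468339) (nat_lit 43) (nat_lit 5) (nat_lit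 49) (nat_lit 5) (nat_lit 50) (nat_lit 5) (nat_lit 230) (nat_lit 229) (nat_lit 201))))))) (XT.nd (nat_lit 858) (nat_lit 988) (nat_lit 0) (XT.nd (nat_lit 390) (nat_lit 1140) (nat_lit 0) (XT.nd (nat_lit 156) (nat_lit 608) (nat_lit 0) (XT.nd (nat_lit 78) (nat_lit 0) (nat_lit 76) (XT.lf (nat_lit 76) (nat_lit 5843205736) (nat_lit 0) (nat_lit 2339779890) (nat_lit 532) (nat_lit 8603647551) (nat_lit 44) (nat_lit 5) (nat_lit 43) (nat_lit 5) (nat_lit 50) (nat_lit 5) (nat_lit 231) (nat_lit 229) (nat_lit 200)) (XT.lf (nat_lit 76) (nat_lit 3638262704) (nat_lit 0) (nat_lit 7091898529) (nat_lit 532) (nat_lit 7340892064) (nat_lit 45) (nat_lit 5) (nat_lit 44) (nat_lit 5) (nat_lit 51) (nat_lit 5) (nat_lit 232) (nat_lit 229) (nat_lit 199))) (XT.nd (nat_lit 78) (nat_lit 304) (nat_lit 0) (XT.lf (nat_lit 0) (nat_lit 1318361393) (nat_lit 456) (nat_lit 12850482065) (nat_lit 532) (nat_lit 5338799874) (nat_lit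 39) (nat_lit 5) (nat_lit 45) (nat_lit 5) (nat_lit 46) (nat_lit 5) (nat_lit 233) (nat_lit 229) (nat_lit 198)) (XT.nd (nat_lit 78) (nat_lit 304) (nat_lit 0) (XT.lf (nat_lit 0) (nat_lit 18704169484) (nat_lit 532) (nat_lit 1108255822) (nat_lit 76) (nat_lit 1301056482) (nat_lit 39) (nat_lit 5) (nat_lit 46) (nat_lit 5) (nat_lit 40) (nat_lit 5) (nat_lit 234) (nat_lit 229) (nat_lit 197)) (XT.lf (nat_lit 0) (nat_lit 1690266107) (nat_lit 304) (nat_lit 3864530120) (nat_lit 76) (nat_lit 17341442818) (nat_lit 35) (nat_lit 5) (nat_lit 39) (nat_lit 5) (nat_lit 36) (nat_lit 5) (nat_lit 235) (nat_lit 229) (nat_lit 196))))) (XT.nd (nat_lit 234) (nat_lit 532) (nat_lit 0) (XT.nd (nat_lit 78) (nat_lit 380) (nat_lit 0) (XT.lf (nat_lit 0) (nat_lit 6958556189) (nat_lit 304) (nat_lit 7082486515) (nat_lit 76) (nat_lit 10844805270) (nat_lit 32) (nat_lit 5) (nat_lit 36) (nat_lit 5) (nat_lit 33) (nat_lit 5) (nat_lit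 236) (nat_lit 229) (nat_lit 195)) (XT.nd (nat_lit 78) (nat_lit 152) (nat_lit 0) (XT.lf (nat_lit 0) (nat_lit 13701855976) (nat_lit 304) (nat_lit 10789734172) (nat_lit 76) (nat_lit 2627665139) (nat_lit 29) (nat_lit 5) (nat_lit 33) (nat_lit 5) (nat_lit 30) (nat_lit 5) (nat_lit 237) (nat_lit 229) (nat_lit 194)) (XT.lf (nat_lit 0) (nat_lit 14279908295) (nat_lit 152) (nat_lit 8079336106) (nat_lit 228) (nat_lit 7256342102) (nat_lit 27) (nat_lit 5) (nat_lit 29) (nat_lit 5) (nat_lit 30) (nat_lit 5) (nat_lit 238) (nat_lit 229) (nat_lit 193)))) (XT.nd (nat_lit 78) (nat_lit 304) (nat_lit 0) (XT.lf (nat_lit 0) (nat_lit 681880723) (nat_lit 228) (nat_lit 20875258056) (nat_lit 76) (nat_lit 10862098998) (nat_lit 24) (nat_lit 5) (nat_lit 27) (nat_lit 5) (nat_lit 25) (nat_lit 5) (nat_lit 239) (nat_lit 229) (nat_lit 192)) (XT.nd (nat_lit 78) (nat_lit 152) (nat_lit 0) (XT.lf (nat_lit 0) (nat_lit 7677045204)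 (nat_lit 152) (nat_lit 2548448128) (nat_lit 228) (nat_lit 25335404499) (nat_lit 22) (nat_lit 5) (nat_lit 24) (nat_lit 5) (nat_lit 25) (nat_lit 5) (nat_lit 240) (nat_lit 229) (nat_lit 191)) (XT.lf (nat_lit 0) (nat_lit 2236852176) (nat_lit 152) (nat_lit 20074589440) (nat_lit 228) (nat_lit 16773575012) (nat_lit 20) (nat_lit 5) (nat_lit 22) (nat_lit 5) (nat_lit 23) (nat_lit 5) (nat_lit 241) (nat_lit 229) (nat_lit 190)))))) (XT.nd (nat_lit 468) (nat_lit 380) (nat_lit 0) (XT.nd (nat_lit 234) (nat_lit 304) (nat_lit 0) (XT.nd (nat_lit 78) (nat_lit 304) (nat_lit 0) (XT.lf (nat_lit 0) (nat_lit 37096140416) (nat_lit 228) (nat_lit 4654971279) (nat_lit 76) (nat_lit 1315836574) (nat_lit 20) (nat_lit 5) (nat_lit 23) (nat_lit 5) (nat_lit 21) (nat_lit 4) (nat_lit 242) (nat_lit 229) (nat_lit 189)) (XT.nd (nat_lit 78) (nat_lit 152) (nat_lit 0) (XT.lf (nat_lit 0) (nat_lit 7499224351) (nat_lit 152) (nat_lit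 14282436790) (nat_lit 76) (nat_lit 25742575501) (nat_lit 18) (nat_lit 5) (nat_lit 20) (nat_lit 5) (nat_lit 19) (nat_lit 5) (nat_lit 243) (nat_lit 229) (nat_lit 188)) (XT.lf (nat_lit 0) (nat_lit 23428636295) (nat_lit 228) (nat_lit 27092237194) (nat_lit 76) (nat_lit 2053489428) (nat_lit 16) (nat_lit 5) (nat_lit 19) (nat_lit 5) (nat_lit 17) (nat_lit 4) (nat_lit 244) (nat_lit 229) (nat_lit 187)))) (XT.nd (nat_lit 78) (nat_lit 228) (nat_lit 0) (XT.lf (nat_lit 0) (nat_lit 13768438032) (nat_lit 76) (nat_lit 29318213938) (nat_lit 152) (nat_lit 15188259581) (nat_lit 15) (nat_lit 5) (nat_lit 16) (nat_lit 5) (nat_lit 17) (nat_lit 4) (nat_lit 245) (nat_lit 229) (nat_lit 186)) (XT.nd (nat_lit 78) (nat_lit 152) (nat_lit 0) (XT.lf (nat_lit 0) (nat_lit 1609378790) (nat_lit 152) (nat_lit 2442589932) (nat_lit 76) (nat_lit 60713767821) (nat_lit 14) (nat_lit 5) (nat_lit 16) (nat_lit 5) (nat_lit 15) (nat_lit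 5) (nat_lit 246) (nat_lit 229) (nat_lit 185)) (XT.lf (nat_lit 0) (nat_lit 21829276481) (nat_lit 228) (nat_lit 24870395339) (nat_lit 76) (nat_lit 25354826350) (nat_lit 12) (nat_lit 5) (nat_lit 15) (nat_lit 5) (nat_lit 13) (nat_lit 4) (nat_lit 247) (nat_lit 229) (nat_lit 184))))) (XT.nd (nat_lit 234) (nat_lit 152) (nat_lit 0) (XT.nd (nat_lit 78) (nat_lit 152) (nat_lit 0) (XT.lf (nat_lit 0) (nat_lit 25085741036) (nat_lit 76) (nat_lit 20769103471) (nat_lit 152) (nat_lit 34519938282) (nat_lit 11) (nat_lit 5) (nat_lit 12) (nat_lit 5) (nat_lit 13) (nat_lit 4) (nat_lit 248) (nat_lit 229) (nat_lit 183)) (XT.nd (nat_lit 78) (nat_lit 152) (nat_lit 0) (XT.lf (nat_lit 0) (nat_lit 74430344769) (nat_lit 152) (nat_lit 6105973131) (nat_lit 0) (nat_lit 9331124968) (nat_lit 11) (nat_lit 5) (nat_lit 13) (nat_lit 4) (nat_lit 11) (nat_lit 4) (nat_lit 249) (nat_lit 229) (nat_lit 182)) (XT.lf (nat_lit 0) (nat_lit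 8054033192) (nat_lit 152) (nat_lit 48358764613) (nat_lit 76) (nat_lit 44208984550) (nat_lit 9) (nat_lit 5) (nat_lit 11) (nat_lit 5) (nat_lit 10) (nat_lit 4) (nat_lit 250) (nat_lit 229) (nat_lit 181)))) (XT.nd (nat_lit 78) (nat_lit 76) (nat_lit 0) (XT.lf (nat_lit 0) (nat_lit 6662721440) (nat_lit 76) (nat_lit 27848938345) (nat_lit 152) (nat_lit 78417000337) (nat_lit 8) (nat_lit 5) (nat_lit 9) (nat_lit 5) (nat_lit 10) (nat_lit 4) (nat_lit 251) (nat_lit 229) (nat_lit 180)) (XT.nd (nat_lit 78) (nat_lit 76) (nat_lit 0) (XT.lf (nat_lit 0) (nat_lit 66491772058) (nat_lit 152) (nat_lit 54279799695) (nat_lit 0) (nat_lit 6185702963) (nat_lit 8) (nat_lit 5) (nat_lit 10) (nat_lit 4) (nat_lit 8) (nat_lit 4) (nat_lit 252) (nat_lit 229) (nat_lit 179)) (XT.lf (nat_lit 0) (nat_lit 4965054984) (nat_lit 76) (nat_lit 99184028672) (nat_lit 76) (nat_lit 38870694113) (nat_lit 7) (nat_lit 4) (nat_lit 8) (nat_lit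 5) (nat_lit 8) (nat_lit 4) (nat_lit 253) (nat_lit 229) (nat_lit 178))))))))
noncomputable def xc36 : XT := (XT.nd (nat_lit 1794) (nat_lit 76) (nat_lit 0) (XT.nd (nat_lit 858) (nat_lit 0) (nat_lit 0) (XT.nd (nat_lit 390) (nat_lit 228) (nat_lit 0) (XT.nd (nat_lit 156) (nat_lit 76) (nat_lit 0) (XT.nd (nat_lit 78) (nat_lit 76) (nat_lit 0) (XT.lf (nat_lit 0) (nat_lit 76367781232) (nat_lit 76) (nat_lit 72658900822) (nat_lit 76) (nat_lit 12339248468) (nat_lit 7) (nat_lit 4) (nat_lit 8) (nat_lit 5) (nat_lit 8) (nat_lit 4) (nat_lit 254) (nat_lit 229) (nat_lit 177)) (XT.lf (nat_lit 0) (nat_lit 17255193927) (nat_lit 152) (nat_lit 24434342720) (nat_lit 76) (nat_lit 140740129341) (nat_lit 6) (nat_lit 5) (nat_lit 8) (nat_lit 5) (nat_lit 7) (nat_lit 4) (nat_lit 255) (nat_lit 229) (nat_lit 176))) (XT.nd (nat_lit 78) (nat_lit 0) (nat_lit 0) (XT.lf (nat_lit 0) (nat_lit 47222667342) (nat_lit 76) (nat_lit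 4485308903) (nat_lit 152) (nat_lit 154827368566) (nat_lit 5) (nat_lit 5) (nat_lit 6) (nat_lit 5) (nat_lit 7) (nat_lit 4) (nat_lit 256) (nat_lit 229) (nat_lit 175)) (XT.nd (nat_lit 78) (nat_lit 0) (nat_lit 0) (XT.lf (nat_lit 0) (nat_lit 92973427323) (nat_lit 152) (nat_lit 104043332844) (nat_lit 0) (nat_lit 37108540931) (nat_lit 5) (nat_lit 5) (nat_lit 7) (nat_lit 4) (nat_lit 5) (nat_lit 4) (nat_lit 257) (nat_lit 229) (nat_lit 174)) (XT.lf (nat_lit 0) (nat_lit 140547347962) (nat_lit 152) (nat_lit 40617798794) (nat_lit 0) (nat_lit 84679116922) (nat_lit 5) (nat_lit 5) (nat_lit 7) (nat_lit 4) (nat_lit 5) (nat_lit 4) (nat_lit 258) (nat_lit 229) (nat_lit 173))))) (XT.nd (nat_lit 234) (nat_lit 152) (nat_lit 0) (XT.nd (nat_lit 78) (nat_lit 0) (nat_lit 0) (XT.lf (nat_lit 0) (nat_lit 34014261972) (nat_lit 76) (nat_lit 162056442322) (nat_lit 76) (nat_lit 106185302893) (nat_lit 4) (nat_lit 4) (nat_lit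 5) (nat_lit 5) (nat_lit 5) (nat_lit 4) (nat_lit 259) (nat_lit 229) (nat_lit 172)) (XT.nd (nat_lit 78) (nat_lit 0) (nat_lit 0) (XT.lf (nat_lit 0) (nat_lit 122292735619) (nat_lit 76) (nat_lit 138808093811) (nat_lit 76) (nat_lit 82934425348) (nat_lit 4) (nat_lit 4) (nat_lit 5) (nat_lit 5) (nat_lit 5) (nat_lit 4) (nat_lit 260) (nat_lit 229) (nat_lit 171)) (XT.lf (nat_lit 0) (nat_lit 223805948370) (nat_lit 76) (nat_lit 112075804830) (nat_lit 76) (nat_lit 56199937206) (nat_lit 4) (nat_lit 4) (nat_lit 5) (nat_lit 5) (nat_lit 5) (nat_lit 4) (nat_lit 261) (nat_lit 229) (nat_lit 170)))) (XT.nd (nat_lit 78) (nat_lit 152) (nat_lit 0) (XT.lf (nat_lit 0) (nat_lit 340540028300) (nat_lit 76) (nat_lit 81336552334) (nat_lit 76) (nat_lit 25458772397) (nat_lit 4) (nat_lit 4) (nat_lit 5) (nat_lit 5) (nat_lit 5) (nat_lit 4) (nat_lit 262) (nat_lit 229) (nat_lit 169)) (XT.nd (nat_lit 78) (nat_lit 76) (nat_lit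 0) (XT.lf (nat_lit 0) (nat_lit 9395762452) (nat_lit 152) (nat_lit 36336256916) (nat_lit 76) (nat_lit 465126243812) (nat_lit 3) (nat_lit 5) (nat_lit 5) (nat_lit 5) (nat_lit 4) (nat_lit 4) (nat_lit 263) (nat_lit 229) (nat_lit 168)) (XT.lf (nat_lit 0) (nat_lit 46298842084) (nat_lit 76) (nat_lit 2826028533) (nat_lit 152) (nat_lit 534639532972) (nat_lit 2) (nat_lit 5) (nat_lit 3) (nat_lit 5) (nat_lit 4) (nat_lit 4) (nat_lit 264) (nat_lit 229) (nat_lit 167)))))) (XT.nd (nat_lit 468) (nat_lit 0) (nat_lit 0) (XT.nd (nat_lit 234) (nat_lit 0) (nat_lit 0) (XT.nd (nat_lit 78) (nat_lit 0) (nat_lit 0) (XT.lf (nat_lit 0) (nat_lit 97015082824) (nat_lit 152) (nat_lit 525142890069) (nat_lit 0) (nat_lit 45272354881) (nat_lit 2) (nat_lit 5) (nat_lit 4) (nat_lit 4) (nat_lit 2) (nat_lit 4) (nat_lit 265) (nat_lit 229) (nat_lit 166)) (XT.nd (nat_lit 78) (nat_lit 0) (nat_lit 0) (XT.lf (nat_lit 0) (nat_lit 152164954371)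 (nat_lit 152) (nat_lit 511053883483) (nat_lit 0) (nat_lit 100421214047) (nat_lit 2) (nat_lit 5) (nat_lit 4) (nat_lit 4) (nat_lit 2) (nat_lit 4) (nat_lit 266) (nat_lit 229) (nat_lit 165)) (XT.lf (nat_lit 0) (nat_lit 215585538431) (nat_lit 152) (nat_lit 494854921217) (nat_lit 0) (nat_lit 163840917775) (nat_lit 2) (nat_lit 5) (nat_lit 4) (nat_lit 4) (nat_lit 2) (nat_lit 4) (nat_lit 267) (nat_lit 229) (nat_lit 164)))) (XT.nd (nat_lit 78) (nat_lit 0) (nat_lit 0) (XT.lf (nat_lit 0) (nat_lit 288517672516) (nat_lit 152) (nat_lit 476229067051) (nat_lit 0) (nat_lit 236772286355) (nat_lit 2) (nat_lit 5) (nat_lit 4) (nat_lit 4) (nat_lit 2) (nat_lit 4) (nat_lit 268) (nat_lit 229) (nat_lit 163)) (XT.nd (nat_lit 78) (nat_lit 0) (nat_lit 0) (XT.lf (nat_lit 0) (nat_lit 372388289687) (nat_lit 152) (nat_lit 454811902101) (nat_lit 0) (nat_lit 320642237869) (nat_lit 2) (nat_lit 5) (nat_lit 4) (nat_lit 4)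 (nat_lit 2) (nat_lit 4) (nat_lit 269) (nat_lit 229) (nat_lit 162)) (XT.lf (nat_lit 0) (nat_lit 468838336799) (nat_lit 152) (nat_lit 430184394877) (nat_lit 0) (nat_lit 417091706149) (nat_lit 2) (nat_lit 5) (nat_lit 4) (nat_lit 4) (nat_lit 2) (nat_lit 4) (nat_lit 270) (nat_lit 229) (nat_lit 161))))) (XT.nd (nat_lit 234) (nat_lit 0) (nat_lit 0) (XT.nd (nat_lit 78) (nat_lit 0) (nat_lit 0) (XT.lf (nat_lit 0) (nat_lit 579754879993) (nat_lit 152) (nat_lit 401864702848) (nat_lit 0) (nat_lit 528007746011) (nat_lit 2) (nat_lit 5) (nat_lit 4) (nat_lit 4) (nat_lit 2) (nat_lit 4) (nat_lit 271) (nat_lit 229) (nat_lit 160)) (XT.nd (nat_lit 78) (nat_lit 0) (nat_lit 0) (XT.lf (nat_lit 0) (nat_lit 707308025548) (nat_lit 152) (nat_lit 369298745083) (nat_lit 0) (nat_lit 655560453886) (nat_lit 2) (nat_lit 5) (nat_lit 4) (nat_lit 4) (nat_lit 2) (nat_lit 4) (nat_lit 272) (nat_lit 229) (nat_lit 159)) (XT.lf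 (nat_lit 0) (nat_lit 853993378486) (nat_lit 152) (nat_lit 331849361537) (nat_lit 0) (nat_lit 802245426232) (nat_lit 2) (nat_lit 5) (nat_lit 4) (nat_lit 4) (nat_lit 2) (nat_lit 4) (nat_lit 273) (nat_lit 229) (nat_lit 158)))) (XT.nd (nat_lit 78) (nat_lit 0) (nat_lit 0) (XT.lf (nat_lit 0) (nat_lit 1022680869626) (nat_lit 152) (nat_lit 288783846882) (nat_lit 0) (nat_lit 970932586423) (nat_lit 2) (nat_lit 5) (nat_lit 4) (nat_lit 4) (nat_lit 2) (nat_lit 4) (nat_lit 274) (nat_lit 229) (nat_lit 157)) (XT.nd (nat_lit 78) (nat_lit 0) (nat_lit 0) (XT.lf (nat_lit 0) (nat_lit 1216670906402) (nat_lit 152) (nat_lit 239259614960) (nat_lit 0) (nat_lit 1164922335417) (nat_lit 2) (nat_lit 5) (nat_lit 4) (nat_lit 4) (nat_lit 2) (nat_lit 4) (nat_lit 275) (nat_lit 229) (nat_lit 156)) (XT.lf (nat_lit 0) (nat_lit 1439758946056) (nat_lit 152) (nat_lit 182307713408) (nat_lit 0) (nat_lit 1388010124826) (nat_lit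 2) (nat_lit 5) (nat_lit 4) (nat_lit 4) (nat_lit 2) (nat_lit 4) (nat_lit 276) (nat_lit 229) (nat_lit 155))))))) (XT.nd (nat_lit 30966) (nat_lit 0) (nat_lit 1292) (XT.nd (nat_lit 390) (nat_lit 0) (nat_lit 0) (XT.nd (nat_lit 156) (nat_lit 76) (nat_lit 0) (XT.nd (nat_lit 78) (nat_lit 0) (nat_lit 0) (XT.lf (nat_lit 0) (nat_lit 1696309754582) (nat_lit 152) (nat_lit 116813865891) (nat_lit 0) (nat_lit 1644560715747) (nat_lit 2) (nat_lit 5) (nat_lit 4) (nat_lit 4) (nat_lit 2) (nat_lit 4) (nat_lit 277) (nat_lit 229) (nat_lit 154)) (XT.lf (nat_lit 0) (nat_lit 1991342804319) (nat_lit 152) (nat_lit 41496671045) (nat_lit 0) (nat_lit 1939593576264) (nat_lit 2) (nat_lit 5) (nat_lit 4) (nat_lit 4) (nat_lit 2) (nat_lit 4) (nat_lit 278) (nat_lit 229) (nat_lit 153))) (XT.nd (nat_lit 78) (nat_lit 0) (nat_lit 0) (XT.lf (nat_lit 0) (nat_lit 47493274352) (nat_lit 76) (nat_lit 2284279421062) (nat_lit 76) (nat_lit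 2232530028467) (nat_lit 1) (nat_lit 4) (nat_lit 2) (nat_lit 5) (nat_lit 2) (nat_lit 4) (nat_lit 279) (nat_lit 229) (nat_lit 152)) (XT.nd (nat_lit 78) (nat_lit 0) (nat_lit 0) (XT.lf (nat_lit 0) (nat_lit 152344043001) (nat_lit 76) (nat_lit 2572130856746) (nat_lit 76) (nat_lit 2520381321072) (nat_lit 1) (nat_lit 4) (nat_lit 2) (nat_lit 5) (nat_lit 2) (nat_lit 4) (nat_lit 280) (nat_lit 229) (nat_lit 151)) (XT.lf (nat_lit 0) (nat_lit 272921921825) (nat_lit 76) (nat_lit 2903160250857) (nat_lit 76) (nat_lit 2851410590767) (nat_lit 1) (nat_lit 4) (nat_lit 2) (nat_lit 5) (nat_lit 2) (nat_lit 4) (nat_lit 281) (nat_lit 229) (nat_lit 150))))) (XT.nd (nat_lit 30342) (nat_lit 0) (nat_lit 3116) (XT.nd (nat_lit 78) (nat_lit 0) (nat_lit 0) (XT.lf (nat_lit 0) (nat_lit 411586043236) (nat_lit 76) (nat_lit 3283844265454) (nat_lit 76) (nat_lit 3232094497176) (nat_lit 1) (nat_lit 4) (nat_lit 2) (nat_lit 5)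 (nat_lit 2) (nat_lit 4) (nat_lit 282) (nat_lit 229) (nat_lit 149)) (XT.nd (nat_lit 78) (nat_lit 0) (nat_lit 0) (XT.lf (nat_lit 0) (nat_lit 571049400913) (nat_lit 76) (nat_lit 3721631066039) (nat_lit 76) (nat_lit 3669881203684) (nat_lit 1) (nat_lit 4) (nat_lit 2) (nat_lit 5) (nat_lit 2) (nat_lit 4) (nat_lit 283) (nat_lit 229) (nat_lit 148)) (XT.lf (nat_lit 0) (nat_lit 754431930116) (nat_lit 76) (nat_lit 4225086046536) (nat_lit 76) (nat_lit 4173336102376) (nat_lit 1) (nat_lit 4) (nat_lit 2) (nat_lit 5) (nat_lit 2) (nat_lit 4) (nat_lit 284) (nat_lit 229) (nat_lit 147)))) (XT.nd (nat_lit 78) (nat_lit 0) (nat_lit 76) (XT.lf (nat_lit 0) (nat_lit 3522937874) (nat_lit 532) (nat_lit 2415706810) (nat_lit 532) (nat_lit 2415706810) (nat_lit 42) (nat_lit 3) (nat_lit 49) (nat_lit 3) (nat_lit 49) (nat_lit 5) (nat_lit 230) (nat_lit 230) (nat_lit 200)) (XT.nd (nat_lit 78) (nat_lit 0) (nat_lit 0) (XT.lf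 (nat_lit 0) (nat_lit 8231832159) (nat_lit 456) (nat_lit 8286087087) (nat_lit 532) (nat_lit 1389867572) (nat_lit 43) (nat_lit 5) (nat_lit 49) (nat_lit 5) (nat_lit 50) (nat_lit 5) (nat_lit 231) (nat_lit 230) (nat_lit 199)) (XT.lf (nat_lit 76) (nat_lit 7243847118) (nat_lit 0) (nat_lit 2929205391) (nat_lit 532) (nat_lit 9067752394) (nat_lit 44) (nat_lit 5) (nat_lit 43) (nat_lit 5) (nat_lit 50) (nat_lit 5) (nat_lit 232) (nat_lit 230) (nat_lit 198)))))) (XT.nd (nat_lit 468) (nat_lit 836) (nat_lit 0) (XT.nd (nat_lit 234) (nat_lit 760) (nat_lit 0) (XT.nd (nat_lit 78) (nat_lit 380) (nat_lit 0) (XT.lf (nat_lit 76) (nat_lit 4727465485) (nat_lit 0) (nat_lit 8283450333) (nat_lit 532) (nat_lit 7714650323) (nat_lit 45) (nat_lit 5) (nat_lit 44) (nat_lit 5) (nat_lit 51) (nat_lit 5) (nat_lit 233) (nat_lit 230) (nat_lit 197)) (XT.nd (nat_lit 78) (nat_lit 0) (nat_lit 0) (XT.lf (nat_lit 0) (nat_lit 2067782956)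 (nat_lit 456) (nat_lit 14820661242) (nat_lit 532) (nat_lit 5495676114) (nat_lit 39) (nat_lit 5) (nat_lit 45) (nat_lit 5) (nat_lit 46) (nat_lit 5) (nat_lit 234) (nat_lit 230) (nat_lit 196)) (XT.lf (nat_lit 0) (nat_lit 22025664059) (nat_lit 532) (nat_lit 750701526) (nat_lit 76) (nat_lit 1461018869) (nat_lit 39) (nat_lit 5) (nat_lit 46) (nat_lit 5) (nat_lit 40) (nat_lit 5) (nat_lit 235) (nat_lit 230) (nat_lit 195)))) (XT.nd (nat_lit 78) (nat_lit 456) (nat_lit 0) (XT.lf (nat_lit 0) (nat_lit 2417398091) (nat_lit 304) (nat_lit 3938325299) (nat_lit 76) (nat_lit 19935574555) (nat_lit 35) (nat_lit 5) (nat_lit 39) (nat_lit 5) (nat_lit 36) (nat_lit 5) (nat_lit 236) (nat_lit 230) (nat_lit 194)) (XT.nd (nat_lit 78) (nat_lit 228) (nat_lit 0) (XT.lf (nat_lit 0) (nat_lit 8426260097) (nat_lit 304) (nat_lit 7647628571) (nat_lit 76) (nat_lit 12509627567) (nat_lit 32) (nat_lit 5) (nat_lit 36) (nat_lit 5)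 (nat_lit 33) (nat_lit 5) (nat_lit 237) (nat_lit 230) (nat_lit 193)) (XT.lf (nat_lit 0) (nat_lit 16138524535) (nat_lit 304) (nat_lit 11923376800) (nat_lit 76) (nat_lit 3093604689) (nat_lit 29) (nat_lit 5) (nat_lit 33) (nat_lit 5) (nat_lit 30) (nat_lit 5) (nat_lit 238) (nat_lit 230) (nat_lit 192))))) (XT.nd (nat_lit 234) (nat_lit 304) (nat_lit 0) (XT.nd (nat_lit 78) (nat_lit 380) (nat_lit 0) (XT.lf (nat_lit 0) (nat_lit 16865674651) (nat_lit 152) (nat_lit 9189772952) (nat_lit 228) (nat_lit 7974112122) (nat_lit 27) (nat_lit 5) (nat_lit 29) (nat_lit 5) (nat_lit 30) (nat_lit 5) (nat_lit 239) (nat_lit 230) (nat_lit 191)) (XT.nd (nat_lit 78) (nat_lit 152) (nat_lit 0) (XT.lf (nat_lit 0) (nat_lit 1103155892) (nat_lit 228) (nat_lit 23559014060) (nat_lit 76) (nat_lit 12593645456) (nat_lit 24) (nat_lit 5) (nat_lit 27) (nat_lit 5) (nat_lit 25) (nat_lit 5) (nat_lit 240) (nat_lit 230) (nat_lit 190))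 (XT.lf (nat_lit 0) (nat_lit 9238253274) (nat_lit 152) (nat_lit 2808301451) (nat_lit 228) (nat_lit 28824813058) (nat_lit 22) (nat_lit 5) (nat_lit 24) (nat_lit 5) (nat_lit 25) (nat_lit 5) (nat_lit 241) (nat_lit 230) (nat_lit 189)))) (XT.nd (nat_lit 78) (nat_lit 152) (nat_lit 0) (XT.lf (nat_lit 0) (nat_lit 2966323115) (nat_lit 152) (nat_lit 22953640781) (nat_lit 228) (nat_lit 19006264455) (nat_lit 20) (nat_lit 5) (nat_lit 22) (nat_lit 5) (nat_lit 23) (nat_lit 5) (nat_lit 242) (nat_lit 230) (nat_lit 188)) (XT.nd (nat_lit 78) (nat_lit 152) (nat_lit 0) (XT.lf (nat_lit 0) (nat_lit 42890982293) (nat_lit 228) (nat_lit 4994690028) (nat_lit 76) (nat_lit 1622366012) (nat_lit 20) (nat_lit 5) (nat_lit 23) (nat_lit 5) (nat_lit 21) (nat_lit 4) (nat_lit 243) (nat_lit 230) (nat_lit 187)) (XT.lf (nat_lit 0) (nat_lit 8838204293) (nat_lit 152) (nat_lit 16084931474) (nat_lit 76) (nat_lit 29712191188) (nat_lit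 18) (nat_lit 5) (nat_lit 20) (nat_lit 5) (nat_lit 19) (nat_lit 5) (nat_lit 244) (nat_lit 230) (nat_lit 186))))))))
noncomputable def xc37 : XT := (XT.nd (nat_lit 1794) (nat_lit 76) (nat_lit 0) (XT.nd (nat_lit 858) (nat_lit 380) (nat_lit 0) (XT.nd (nat_lit 390) (nat_lit 304) (nat_lit 0) (XT.nd (nat_lit 156) (nat_lit 304) (nat_lit 0) (XT.nd (nat_lit 78) (nat_lit 76) (nat_lit 0) (XT.lf (nat_lit 0) (nat_lit 27139409116) (nat_lit 228) (nat_lit 30831939738) (nat_lit 76) (nat_lit 2473087283) (nat_lit 16) (nat_lit 5) (nat_lit 19) (nat_lit 5) (nat_lit 17) (nat_lit 4) (nat_lit 245) (nat_lit 230) (nat_lit 185)) (XT.lf (nat_lit 0) (nat_lit 16130400526) (nat_lit 76) (nat_lit 33597234698) (nat_lit 152) (nat_lit 17273958547) (nat_lit 15) (nat_lit 5) (nat_lit 16) (nat_lit 5) (nat_lit 17) (nat_lit 4) (nat_lit 246) (nat_lit 230) (nat_lit 184))) (XT.nd (nat_lit 78) (nat_lit 228) (nat_lit 0) (XT.lf (nat_lit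 0) (nat_lit 2009836341) (nat_lit 152) (nat_lit 2542351718) (nat_lit 76) (nat_lit 69915430741) (nat_lit 14) (nat_lit 5) (nat_lit 16) (nat_lit 5) (nat_lit 15) (nat_lit 5) (nat_lit 247) (nat_lit 230) (nat_lit 183)) (XT.nd (nat_lit 78) (nat_lit 76) (nat_lit 0) (XT.lf (nat_lit 0) (nat_lit 25250244740) (nat_lit 228) (nat_lit 28347543776) (nat_lit 76) (nat_lit 29252937221) (nat_lit 12) (nat_lit 5) (nat_lit 15) (nat_lit 5) (nat_lit 13) (nat_lit 4) (nat_lit 248) (nat_lit 230) (nat_lit 182)) (XT.lf (nat_lit 0) (nat_lit 29080563088) (nat_lit 76) (nat_lit 23785544837) (nat_lit 152) (nat_lit 39554057158) (nat_lit 11) (nat_lit 5) (nat_lit 12) (nat_lit 5) (nat_lit 13) (nat_lit 4) (nat_lit 249) (nat_lit 230) (nat_lit 181))))) (XT.nd (nat_lit 234) (nat_lit 76) (nat_lit 0) (XT.nd (nat_lit 78) (nat_lit 228) (nat_lit 0) (XT.lf (nat_lit 0) (nat_lit 85712649414) (nat_lit 152) (nat_lit 6812810932) (nat_lit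 0) (nat_lit 10812511598) (nat_lit 11) (nat_lit 5) (nat_lit 13) (nat_lit 4) (nat_lit 11) (nat_lit 4) (nat_lit 250) (nat_lit 230) (nat_lit 180)) (XT.nd (nat_lit 78) (nat_lit 76) (nat_lit 0) (XT.lf (nat_lit 0) (nat_lit 9372051465) (nat_lit 152) (nat_lit 55415294473) (nat_lit 76) (nat_lit 50918776150) (nat_lit 9) (nat_lit 5) (nat_lit 11) (nat_lit 5) (nat_lit 10) (nat_lit 4) (nat_lit 251) (nat_lit 230) (nat_lit 179)) (XT.lf (nat_lit 0) (nat_lit 7842715310) (nat_lit 76) (nat_lit 31945613311) (nat_lit 152) (nat_lit 90071519925) (nat_lit 8) (nat_lit 5) (nat_lit 9) (nat_lit 5) (nat_lit 10) (nat_lit 4) (nat_lit 252) (nat_lit 230) (nat_lit 178)))) (XT.nd (nat_lit 78) (nat_lit 76) (nat_lit 0) (XT.lf (nat_lit 0) (nat_lit 76554111677) (nat_lit 152) (nat_lit 62259372924) (nat_lit 0) (nat_lit 7180193675) (nat_lit 8) (nat_lit 5) (nat_lit 10) (nat_lit 4) (nat_lit 8) (nat_lit 4) (nat_lit 253) (nat_lit 230)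 (nat_lit 177)) (XT.nd (nat_lit 78) (nat_lit 0) (nat_lit 0) (XT.lf (nat_lit 0) (nat_lit 5858463883) (nat_lit 76) (nat_lit 113993578077) (nat_lit 76) (nat_lit 44614166340) (nat_lit 7) (nat_lit 4) (nat_lit 8) (nat_lit 5) (nat_lit 8) (nat_lit 4) (nat_lit 254) (nat_lit 230) (nat_lit 176)) (XT.lf (nat_lit 0) (nat_lit 87952209853) (nat_lit 76) (nat_lit 83498557776) (nat_lit 76) (nat_lit 14114368878) (nat_lit 7) (nat_lit 4) (nat_lit 8) (nat_lit 5) (nat_lit 8) (nat_lit 4) (nat_lit 255) (nat_lit 230) (nat_lit 175)))))) (XT.nd (nat_lit 468) (nat_lit 152) (nat_lit 0) (XT.nd (nat_lit 234) (nat_lit 76) (nat_lit 0) (XT.nd (nat_lit 78) (nat_lit 76) (nat_lit 0) (XT.lf (nat_lit 0) (nat_lit 19906061446) (nat_lit 152) (nat_lit 27983735141) (nat_lit 76) (nat_lit 161899250282) (nat_lit 6) (nat_lit 5) (nat_lit 8) (nat_lit 5) (nat_lit 7) (nat_lit 4) (nat_lit 256) (nat_lit 230) (nat_lit 174)) (XT.nd (nat_lit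 78) (nat_lit 0) (nat_lit 0) (XT.lf (nat_lit 0) (nat_lit 54412028010) (nat_lit 76) (nat_lit 5109117749) (nat_lit 152) (nat_lit 177989889065) (nat_lit 5) (nat_lit 5) (nat_lit 6) (nat_lit 5) (nat_lit 7) (nat_lit 4) (nat_lit 257) (nat_lit 230) (nat_lit 173)) (XT.lf (nat_lit 0) (nat_lit 106970007705) (nat_lit 152) (nat_lit 119554707445) (nat_lit 0) (nat_lit 42715288972) (nat_lit 5) (nat_lit 5) (nat_lit 7) (nat_lit 4) (nat_lit 5) (nat_lit 4) (nat_lit 258) (nat_lit 230) (nat_lit 172)))) (XT.nd (nat_lit 78) (nat_lit 76) (nat_lit 0) (XT.lf (nat_lit 0) (nat_lit 161673420838) (nat_lit 152) (nat_lit 46627750938) (nat_lit 0) (nat_lit 97416173071) (nat_lit 5) (nat_lit 5) (nat_lit 7) (nat_lit 4) (nat_lit 5) (nat_lit 4) (nat_lit 259) (nat_lit 230) (nat_lit 171)) (XT.nd (nat_lit 78) (nat_lit 0) (nat_lit 0) (XT.lf (nat_lit 0) (nat_lit 39192117303) (nat_lit 76) (nat_lit 186329248983) (nat_lit 76) (nat_lit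 122069802055) (nat_lit 4) (nat_lit 4) (nat_lit 5) (nat_lit 5) (nat_lit 5) (nat_lit 4) (nat_lit 260) (nat_lit 230) (nat_lit 170)) (XT.lf (nat_lit 0) (nat_lit 140702485992) (nat_lit 76) (nat_lit 159598299459) (nat_lit 76) (nat_lit 95336940218) (nat_lit 4) (nat_lit 4) (nat_lit 5) (nat_lit 5) (nat_lit 5) (nat_lit 4) (nat_lit 261) (nat_lit 230) (nat_lit 169))))) (XT.nd (nat_lit 234) (nat_lit 76) (nat_lit 0) (XT.nd (nat_lit 78) (nat_lit 76) (nat_lit 0) (XT.lf (nat_lit 0) (nat_lit 257434092826) (nat_lit 76) (nat_lit 128860211707) (nat_lit 76) (nat_lit 64597189585) (nat_lit 4) (nat_lit 4) (nat_lit 5) (nat_lit 5) (nat_lit 5) (nat_lit 4) (nat_lit 262) (nat_lit 230) (nat_lit 168)) (XT.nd (nat_lit 78) (nat_lit 76) (nat_lit 0) (XT.lf (nat_lit 0) (nat_lit 391670817068) (nat_lit 76) (nat_lit 93513588360) (nat_lit 76) (nat_lit 29249120255) (nat_lit 4) (nat_lit 4) (nat_lit 5) (nat_lit 5) (nat_lit 5) (nat_lit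 4) (nat_lit 263) (nat_lit 230) (nat_lit 167)) (XT.lf (nat_lit 0) (nat_lit 10828643270) (nat_lit 152) (nat_lit 41742147480) (nat_lit 76) (nat_lit 534914311842) (nat_lit 3) (nat_lit 5) (nat_lit 5) (nat_lit 5) (nat_lit 4) (nat_lit 4) (nat_lit 264) (nat_lit 230) (nat_lit 166)))) (XT.nd (nat_lit 78) (nat_lit 0) (nat_lit 0) (XT.lf (nat_lit 0) (nat_lit 53284445605) (nat_lit 76) (nat_lit 3230585384) (nat_lit 152) (nat_lit 614812302452) (nat_lit 2) (nat_lit 5) (nat_lit 3) (nat_lit 5) (nat_lit 4) (nat_lit 4) (nat_lit 265) (nat_lit 230) (nat_lit 165)) (XT.nd (nat_lit 78) (nat_lit 0) (nat_lit 0) (XT.lf (nat_lit 0) (nat_lit 111586384453) (nat_lit 152) (nat_lit 603877764807) (nat_lit 0) (nat_lit 52079190368) (nat_lit 2) (nat_lit 5) (nat_lit 4) (nat_lit 4) (nat_lit 2) (nat_lit 4) (nat_lit 266) (nat_lit 230) (nat_lit 164)) (XT.lf (nat_lit 0) (nat_lit 175006253358) (nat_lit 152) (nat_lit 587680175769)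 (nat_lit 0) (nat_lit 115498293767) (nat_lit 2) (nat_lit 5) (nat_lit 4) (nat_lit 4) (nat_lit 2) (nat_lit 4) (nat_lit 267) (nat_lit 230) (nat_lit 163))))))) (XT.nd (nat_lit 858) (nat_lit 76) (nat_lit 0) (XT.nd (nat_lit 390) (nat_lit 0) (nat_lit 0) (XT.nd (nat_lit 156) (nat_lit 0) (nat_lit 0) (XT.nd (nat_lit 78) (nat_lit 0) (nat_lit 0) (XT.lf (nat_lit 0) (nat_lit 247937765570) (nat_lit 152) (nat_lit 569055515715) (nat_lit 0) (nat_lit 188429140322) (nat_lit 2) (nat_lit 5) (nat_lit 4) (nat_lit 4) (nat_lit 2) (nat_lit 4) (nat_lit 268) (nat_lit 230) (nat_lit 162)) (XT.lf (nat_lit 0) (nat_lit 331807841980) (nat_lit 152) (nat_lit 547639389122) (nat_lit 0) (nat_lit 272298637901) (nat_lit 2) (nat_lit 5) (nat_lit 4) (nat_lit 4) (nat_lit 2) (nat_lit 4) (nat_lit 269) (nat_lit 230) (nat_lit 161))) (XT.nd (nat_lit 78) (nat_lit 0) (nat_lit 0) (XT.lf (nat_lit 0) (nat_lit 428257418867) (nat_lit 152) (nat_lit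 523012784819) (nat_lit 0) (nat_lit 368747711455) (nat_lit 2) (nat_lit 5) (nat_lit 4) (nat_lit 4) (nat_lit 2) (nat_lit 4) (nat_lit 270) (nat_lit 230) (nat_lit 160)) (XT.nd (nat_lit 78) (nat_lit 0) (nat_lit 0) (XT.lf (nat_lit 0) (nat_lit 539173553169) (nat_lit 152) (nat_lit 494693877938) (nat_lit 0) (nat_lit 479663408077) (nat_lit 2) (nat_lit 5) (nat_lit 4) (nat_lit 4) (nat_lit 2) (nat_lit 4) (nat_lit 271) (nat_lit 230) (nat_lit 159)) (XT.lf (nat_lit 0) (nat_lit 666726343165) (nat_lit 152) (nat_lit 462128602909) (nat_lit 0) (nat_lit 607215817482) (nat_lit 2) (nat_lit 5) (nat_lit 4) (nat_lit 4) (nat_lit 2) (nat_lit 4) (nat_lit 272) (nat_lit 230) (nat_lit 158))))) (XT.nd (nat_lit 234) (nat_lit 0) (nat_lit 0) (XT.nd (nat_lit 78) (nat_lit 0) (nat_lit 0) (XT.lf (nat_lit 0) (nat_lit 813411386922) (nat_lit 152) (nat_lit 424679813048) (nat_lit 0) (nat_lit 753900530290) (nat_lit 2) (nat_lit 5) (nat_lit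 4) (nat_lit 4) (nat_lit 2) (nat_lit 4) (nat_lit 273) (nat_lit 230) (nat_lit 157)) (XT.nd (nat_lit 78) (nat_lit 0) (nat_lit 0) (XT.lf (nat_lit 0) (nat_lit 982098609209) (nat_lit 152) (nat_lit 381614814640) (nat_lit 0) (nat_lit 922587464795) (nat_lit 2) (nat_lit 5) (nat_lit 4) (nat_lit 4) (nat_lit 2) (nat_lit 4) (nat_lit 274) (nat_lit 230) (nat_lit 156)) (XT.lf (nat_lit 0) (nat_lit 1176088412200) (nat_lit 152) (nat_lit 332091031629) (nat_lit 0) (nat_lit 1116577017541) (nat_lit 2) (nat_lit 5) (nat_lit 4) (nat_lit 4) (nat_lit 2) (nat_lit 4) (nat_lit 275) (nat_lit 230) (nat_lit 155)))) (XT.nd (nat_lit 78) (nat_lit 0) (nat_lit 0) (XT.lf (nat_lit 0) (nat_lit 1399176248563) (nat_lit 152) (nat_lit 275139520434) (nat_lit 0) (nat_lit 1339664636299) (nat_lit 2) (nat_lit 5) (nat_lit 4) (nat_lit 4) (nat_lit 2) (nat_lit 4) (nat_lit 276) (nat_lit 230) (nat_lit 154)) (XT.nd (nat_lit 78) (nat_lit 0) (nat_lit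 0) (XT.lf (nat_lit 0) (nat_lit 1655726880313) (nat_lit 152) (nat_lit 209646012358) (nat_lit 0) (nat_lit 1596215078828) (nat_lit 2) (nat_lit 5) (nat_lit 4) (nat_lit 4) (nat_lit 2) (nat_lit 4) (nat_lit 277) (nat_lit 230) (nat_lit 153)) (XT.lf (nat_lit 0) (nat_lit 1950759776332) (nat_lit 152) (nat_lit 134329112679) (nat_lit 0) (nat_lit 1891247810307) (nat_lit 2) (nat_lit 5) (nat_lit 4) (nat_lit 4) (nat_lit 2) (nat_lit 4) (nat_lit 278) (nat_lit 230) (nat_lit 152)))))) (XT.nd (nat_lit 30732) (nat_lit 0) (nat_lit 2584) (XT.nd (nat_lit 234) (nat_lit 0) (nat_lit 0) (XT.nd (nat_lit 78) (nat_lit 76) (nat_lit 0) (XT.lf (nat_lit 0) (nat_lit 2290047319370) (nat_lit 152) (nat_lit 47715229879) (nat_lit 0) (nat_lit 2230535210266) (nat_lit 2) (nat_lit 5) (nat_lit 4) (nat_lit 4) (nat_lit 2) (nat_lit 4) (nat_lit 279) (nat_lit 230) (nat_lit 151)) (XT.nd (nat_lit 78) (nat_lit 0) (nat_lit 0) (XT.lf (nat_lit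 0) (nat_lit 54622704382) (nat_lit 76) (nat_lit 2626918716935) (nat_lit 76) (nat_lit 2567406483416) (nat_lit 1) (nat_lit 4) (nat_lit 2) (nat_lit 5) (nat_lit 2) (nat_lit 4) (nat_lit 280) (nat_lit 230) (nat_lit 150)) (XT.lf (nat_lit 0) (nat_lit 175200378909) (nat_lit 76) (nat_lit 2957948209357) (nat_lit 76) (nat_lit 2898435867650) (nat_lit 1) (nat_lit 4) (nat_lit 2) (nat_lit 5) (nat_lit 2) (nat_lit 4) (nat_lit 281) (nat_lit 230) (nat_lit 149)))) (XT.nd (nat_lit 78) (nat_lit 0) (nat_lit 0) (XT.lf (nat_lit 0) (nat_lit 313864322671) (nat_lit 76) (nat_lit 3338632309441) (nat_lit 76) (nat_lit 3279119873658) (nat_lit 1) (nat_lit 4) (nat_lit 2) (nat_lit 5) (nat_lit 2) (nat_lit 4) (nat_lit 282) (nat_lit 230) (nat_lit 148)) (XT.nd (nat_lit 30342) (nat_lit 0) (nat_lit 3116) (XT.lf (nat_lit 0) (nat_lit 473327525871) (nat_lit 76) (nat_lit 3776419184363) (nat_lit 76) (nat_lit 3716906666774) (nat_lit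 1) (nat_lit 4) (nat_lit 2) (nat_lit 5) (nat_lit 2) (nat_lit 4) (nat_lit 283) (nat_lit 230) (nat_lit 147)) (XT.lf (nat_lit 0) (nat_lit 4425242105) (nat_lit 532) (nat_lit 2575473082) (nat_lit 532) (nat_lit 2575473082) (nat_lit 42) (nat_lit 3) (nat_lit 49) (nat_lit 3) (nat_lit 49) (nat_lit 5) (nat_lit 231) (nat_lit 231) (nat_lit 198))))) (XT.nd (nat_lit 234) (nat_lit 608) (nat_lit 0) (XT.nd (nat_lit 78) (nat_lit 0) (nat_lit 0) (XT.lf (nat_lit 0) (nat_lit 10118792171) (nat_lit 456) (nat_lit 9096008941) (nat_lit 532) (nat_lit 1324532194) (nat_lit 43) (nat_lit 5) (nat_lit 49) (nat_lit 5) (nat_lit 50) (nat_lit 5) (nat_lit 232) (nat_lit 231) (nat_lit 197)) (XT.nd (nat_lit 78) (nat_lit 0) (nat_lit 76) (XT.lf (nat_lit 76) (nat_lit 8726764845) (nat_lit 0) (nat_lit 3548895097) (nat_lit 532) (nat_lit 9803006149) (nat_lit 44) (nat_lit 5) (nat_lit 43) (nat_lit 5) (nat_lit 50) (nat_lit 5) (nat_lit 233)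 (nat_lit 231) (nat_lit 196)) (XT.lf (nat_lit 76) (nat_lit 5847521696) (nat_lit 0) (nat_lit 9622578110) (nat_lit 532) (nat_lit 8321847455) (nat_lit 45) (nat_lit 5) (nat_lit 44) (nat_lit 5) (nat_lit 51) (nat_lit 5) (nat_lit 234) (nat_lit 231) (nat_lit 195)))) (XT.nd (nat_lit 78) (nat_lit 304) (nat_lit 0) (XT.lf (nat_lit 0) (nat_lit 2795090176) (nat_lit 456) (nat_lit 17075977341) (nat_lit 532) (nat_lit 5833113550) (nat_lit 39) (nat_lit 5) (nat_lit 45) (nat_lit 5) (nat_lit 46) (nat_lit 5) (nat_lit 235) (nat_lit 231) (nat_lit 194)) (XT.nd (nat_lit 78) (nat_lit 304) (nat_lit 0) (XT.lf (nat_lit 0) (nat_lit 25719584860) (nat_lit 532) (nat_lit 467244244) (nat_lit 76) (nat_lit 1653558401) (nat_lit 39) (nat_lit 5) (nat_lit 46) (nat_lit 5) (nat_lit 40) (nat_lit 5) (nat_lit 236) (nat_lit 231) (nat_lit 193)) (XT.lf (nat_lit 0) (nat_lit 3138111449) (nat_lit 304) (nat_lit 4146552854) (nat_lit 76) (nat_lit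 22920553698) (nat_lit 35) (nat_lit 5) (nat_lit 39) (nat_lit 5) (nat_lit 36) (nat_lit 5) (nat_lit 237) (nat_lit 231) (nat_lit 192))))))))
noncomputable def xc38 : XT := (XT.nd (nat_lit 1794) (nat_lit 304) (nat_lit 0) (XT.nd (nat_lit 858) (nat_lit 684) (nat_lit 0) (XT.nd (nat_lit 390) (nat_lit 608) (nat_lit 0) (XT.nd (nat_lit 156) (nat_lit 532) (nat_lit 0) (XT.nd (nat_lit 78) (nat_lit 228) (nat_lit 0) (XT.lf (nat_lit 0) (nat_lit 10010743897) (nat_lit 304) (nat_lit 8418794844) (nat_lit 76) (nat_lit 14414881916) (nat_lit 32) (nat_lit 5) (nat_lit 36) (nat_lit 5) (nat_lit 33) (nat_lit 5) (nat_lit 238) (nat_lit 231) (nat_lit 191)) (XT.lf (nat_lit 0) (nat_lit 18847688971) (nat_lit 304) (nat_lit 13345291638) (nat_lit 76) (nat_lit 3611928779) (nat_lit 29) (nat_lit 5) (nat_lit 33) (nat_lit 5) (nat_lit 30) (nat_lit 5) (nat_lit 239) (nat_lit 231) (nat_lit 190))) (XT.nd (nat_lit 78) (nat_lit 380) (nat_lit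 0) (XT.lf (nat_lit 0) (nat_lit 19731087370) (nat_lit 152) (nat_lit 10491517858) (nat_lit 228) (nat_lit 8889940627) (nat_lit 27) (nat_lit 5) (nat_lit 29) (nat_lit 5) (nat_lit 30) (nat_lit 5) (nat_lit 240) (nat_lit 231) (nat_lit 189)) (XT.nd (nat_lit 78) (nat_lit 152) (nat_lit 0) (XT.lf (nat_lit 0) (nat_lit 1509833859) (nat_lit 228) (nat_lit 26754467149) (nat_lit 76) (nat_lit 14559994057) (nat_lit 24) (nat_lit 5) (nat_lit 27) (nat_lit 5) (nat_lit 25) (nat_lit 5) (nat_lit 241) (nat_lit 231) (nat_lit 188)) (XT.lf (nat_lit 0) (nat_lit 10933746494) (nat_lit 152) (nat_lit 3136984176) (nat_lit 228) (nat_lit 32913448350) (nat_lit 22) (nat_lit 5) (nat_lit 24) (nat_lit 5) (nat_lit 25) (nat_lit 5) (nat_lit 242) (nat_lit 231) (nat_lit 187))))) (XT.nd (nat_lit 234) (nat_lit 304) (nat_lit 0) (XT.nd (nat_lit 78) (nat_lit 152) (nat_lit 0) (XT.lf (nat_lit 0) (nat_lit 3709149173) (nat_lit 152) (nat_lit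 26296772285) (nat_lit 228) (nat_lit 21642953228) (nat_lit 20) (nat_lit 5) (nat_lit 22) (nat_lit 5) (nat_lit 23) (nat_lit 5) (nat_lit 243) (nat_lit 231) (nat_lit 186)) (XT.nd (nat_lit 78) (nat_lit 152) (nat_lit 0) (XT.lf (nat_lit 0) (nat_lit 49498860878) (nat_lit 228) (nat_lit 5472795654) (nat_lit 76) (nat_lit 1948256983) (nat_lit 20) (nat_lit 5) (nat_lit 23) (nat_lit 5) (nat_lit 21) (nat_lit 4) (nat_lit 244) (nat_lit 231) (nat_lit 185)) (XT.lf (nat_lit 0) (nat_lit 10325822490) (nat_lit 152) (nat_lit 18240680015) (nat_lit 76) (nat_lit 34250856812) (nat_lit 18) (nat_lit 5) (nat_lit 20) (nat_lit 5) (nat_lit 19) (nat_lit 5) (nat_lit 245) (nat_lit 231) (nat_lit 184)))) (XT.nd (nat_lit 78) (nat_lit 152) (nat_lit 0) (XT.lf (nat_lit 0) (nat_lit 31358885609) (nat_lit 228) (nat_lit 35211639556) (nat_lit 76) (nat_lit 2928416683) (nat_lit 16) (nat_lit 5) (nat_lit 19) (nat_lit 5) (nat_lit 17) (nat_lit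 4) (nat_lit 246) (nat_lit 231) (nat_lit 183)) (XT.nd (nat_lit 78) (nat_lit 76) (nat_lit 0) (XT.lf (nat_lit 0) (nat_lit 18774306002) (nat_lit 76) (nat_lit 38547057082) (nat_lit 152) (nat_lit 19719464450) (nat_lit 15) (nat_lit 5) (nat_lit 16) (nat_lit 5) (nat_lit 17) (nat_lit 4) (nat_lit 247) (nat_lit 231) (nat_lit 182)) (XT.lf (nat_lit 0) (nat_lit 2431576995) (nat_lit 152) (nat_lit 2722096381) (nat_lit 76) (nat_lit 80474274840) (nat_lit 14) (nat_lit 5) (nat_lit 16) (nat_lit 5) (nat_lit 15) (nat_lit 5) (nat_lit 248) (nat_lit 231) (nat_lit 181)))))) (XT.nd (nat_lit 468) (nat_lit 228) (nat_lit 0) (XT.nd (nat_lit 234) (nat_lit 228) (nat_lit 0) (XT.nd (nat_lit 78) (nat_lit 76) (nat_lit 0) (XT.lf (nat_lit 0) (nat_lit 29148614561) (nat_lit 228) (nat_lit 32408060323) (nat_lit 76) (nat_lit 33712625946) (nat_lit 12) (nat_lit 5) (nat_lit 15) (nat_lit 5) (nat_lit 13) (nat_lit 4) (nat_lit 249) (nat_lit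 231) (nat_lit 180)) (XT.nd (nat_lit 78) (nat_lit 0) (nat_lit 0) (XT.lf (nat_lit 0) (nat_lit 33618043314) (nat_lit 76) (nat_lit 27278575689) (nat_lit 152) (nat_lit 45378377930) (nat_lit 11) (nat_lit 5) (nat_lit 12) (nat_lit 5) (nat_lit 13) (nat_lit 4) (nat_lit 250) (nat_lit 231) (nat_lit 179)) (XT.lf (nat_lit 0) (nat_lit 98658584958) (nat_lit 152) (nat_lit 7676654562) (nat_lit 0) (nat_lit 12496178799) (nat_lit 11) (nat_lit 5) (nat_lit 13) (nat_lit 4) (nat_lit 11) (nat_lit 4) (nat_lit 251) (nat_lit 231) (nat_lit 178)))) (XT.nd (nat_lit 78) (nat_lit 76) (nat_lit 0) (XT.lf (nat_lit 0) (nat_lit 10860969427) (nat_lit 152) (nat_lit 63578412968) (nat_lit 76) (nat_lit 58615907443) (nat_lit 9) (nat_lit 5) (nat_lit 11) (nat_lit 5) (nat_lit 10) (nat_lit 4) (nat_lit 252) (nat_lit 231) (nat_lit 177)) (XT.nd (nat_lit 78) (nat_lit 0) (nat_lit 0) (XT.lf (nat_lit 0) (nat_lit 9155671305) (nat_lit 76) (nat_lit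 36676460385) (nat_lit 152) (nat_lit 103500561364) (nat_lit 8) (nat_lit 5) (nat_lit 9) (nat_lit 5) (nat_lit 10) (nat_lit 4) (nat_lit 253) (nat_lit 231) (nat_lit 176)) (XT.lf (nat_lit 0) (nat_lit 88104202954) (nat_lit 152) (nat_lit 71475483608) (nat_lit 0) (nat_lit 8307608561) (nat_lit 8) (nat_lit 5) (nat_lit 10) (nat_lit 4) (nat_lit 8) (nat_lit 4) (nat_lit 254) (nat_lit 231) (nat_lit 175))))) (XT.nd (nat_lit 234) (nat_lit 76) (nat_lit 0) (XT.nd (nat_lit 78) (nat_lit 76) (nat_lit 0) (XT.lf (nat_lit 0) (nat_lit 6849634714) (nat_lit 76) (nat_lit 131041155511) (nat_lit 76) (nat_lit 51240407065) (nat_lit 7) (nat_lit 4) (nat_lit 8) (nat_lit 5) (nat_lit 8) (nat_lit 4) (nat_lit 255) (nat_lit 231) (nat_lit 174)) (XT.nd (nat_lit 78) (nat_lit 76) (nat_lit 0) (XT.lf (nat_lit 0) (nat_lit 101242781547) (nat_lit 76) (nat_lit 95978594244) (nat_lit 76) (nat_lit 16174233578) (nat_lit 7) (nat_lit 4) (nat_lit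 8) (nat_lit 5) (nat_lit 8) (nat_lit 4) (nat_lit 256) (nat_lit 231) (nat_lit 173)) (XT.lf (nat_lit 0) (nat_lit 22939296509) (nat_lit 152) (nat_lit 32093764987) (nat_lit 76) (nat_lit 186220509499) (nat_lit 6) (nat_lit 5) (nat_lit 8) (nat_lit 5) (nat_lit 7) (nat_lit 4) (nat_lit 257) (nat_lit 231) (nat_lit 172)))) (XT.nd (nat_lit 78) (nat_lit 0) (nat_lit 0) (XT.lf (nat_lit 0) (nat_lit 62653953622) (nat_lit 76) (nat_lit 5838443832) (nat_lit 152) (nat_lit 204641805479) (nat_lit 5) (nat_lit 5) (nat_lit 6) (nat_lit 5) (nat_lit 7) (nat_lit 4) (nat_lit 258) (nat_lit 231) (nat_lit 171)) (XT.nd (nat_lit 78) (nat_lit 0) (nat_lit 0) (XT.lf (nat_lit 0) (nat_lit 123053744237) (nat_lit 152) (nat_lit 137415985149) (nat_lit 0) (nat_lit 49153181110) (nat_lit 5) (nat_lit 5) (nat_lit 7) (nat_lit 4) (nat_lit 5) (nat_lit 4) (nat_lit 259) (nat_lit 231) (nat_lit 170)) (XT.lf (nat_lit 0) (nat_lit 185957682116)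 (nat_lit 152) (nat_lit 53559367133) (nat_lit 0) (nat_lit 112055206676) (nat_lit 5) (nat_lit 5) (nat_lit 7) (nat_lit 4) (nat_lit 5) (nat_lit 4) (nat_lit 260) (nat_lit 231) (nat_lit 169))))))) (XT.nd (nat_lit 858) (nat_lit 76) (nat_lit 0) (XT.nd (nat_lit 390) (nat_lit 76) (nat_lit 0) (XT.nd (nat_lit 156) (nat_lit 76) (nat_lit 0) (XT.nd (nat_lit 78) (nat_lit 0) (nat_lit 0) (XT.lf (nat_lit 0) (nat_lit 45128187100) (nat_lit 76) (nat_lit 214251672483) (nat_lit 76) (nat_lit 140347534162) (nat_lit 4) (nat_lit 4) (nat_lit 5) (nat_lit 5) (nat_lit 5) (nat_lit 4) (nat_lit 261) (nat_lit 231) (nat_lit 168)) (XT.lf (nat_lit 0) (nat_lit 161857643414) (nat_lit 76) (nat_lit 183514597554) (nat_lit 76) (nat_lit 109609013249) (nat_lit 4) (nat_lit 4) (nat_lit 5) (nat_lit 5) (nat_lit 5) (nat_lit 4) (nat_lit 262) (nat_lit 231) (nat_lit 167))) (XT.nd (nat_lit 78) (nat_lit 76) (nat_lit 0) (XT.lf (nat_lit 0) (nat_lit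 296092497639) (nat_lit 76) (nat_lit 148168854921) (nat_lit 76) (nat_lit 74262013239) (nat_lit 4) (nat_lit 4) (nat_lit 5) (nat_lit 5) (nat_lit 5) (nat_lit 4) (nat_lit 263) (nat_lit 231) (nat_lit 166)) (XT.nd (nat_lit 78) (nat_lit 76) (nat_lit 0) (XT.lf (nat_lit 0) (nat_lit 450459083879) (nat_lit 76) (nat_lit 107522897447) (nat_lit 76) (nat_lit 33614962394) (nat_lit 4) (nat_lit 4) (nat_lit 5) (nat_lit 5) (nat_lit 5) (nat_lit 4) (nat_lit 264) (nat_lit 231) (nat_lit 165)) (XT.lf (nat_lit 0) (nat_lit 12470721575) (nat_lit 152) (nat_lit 47969784935) (nat_lit 76) (nat_lit 615165924750) (nat_lit 3) (nat_lit 5) (nat_lit 5) (nat_lit 5) (nat_lit 4) (nat_lit 4) (nat_lit 265) (nat_lit 231) (nat_lit 164))))) (XT.nd (nat_lit 234) (nat_lit 0) (nat_lit 0) (XT.nd (nat_lit 78) (nat_lit 0) (nat_lit 0) (XT.lf (nat_lit 0) (nat_lit 61307945875) (nat_lit 76) (nat_lit 3700543755) (nat_lit 152) (nat_lit 707016635181)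 (nat_lit 2) (nat_lit 5) (nat_lit 3) (nat_lit 5) (nat_lit 4) (nat_lit 4) (nat_lit 266) (nat_lit 231) (nat_lit 163)) (XT.nd (nat_lit 78) (nat_lit 0) (nat_lit 0) (XT.lf (nat_lit 0) (nat_lit 128338738495) (nat_lit 152) (nat_lit 694431785843) (nat_lit 0) (nat_lit 59903153804) (nat_lit 2) (nat_lit 5) (nat_lit 4) (nat_lit 4) (nat_lit 2) (nat_lit 4) (nat_lit 267) (nat_lit 231) (nat_lit 162)) (XT.lf (nat_lit 0) (nat_lit 201269709947) (nat_lit 152) (nat_lit 675808164147) (nat_lit 0) (nat_lit 132833546424) (nat_lit 2) (nat_lit 5) (nat_lit 4) (nat_lit 4) (nat_lit 2) (nat_lit 4) (nat_lit 268) (nat_lit 231) (nat_lit 161)))) (XT.nd (nat_lit 78) (nat_lit 0) (nat_lit 0) (XT.lf (nat_lit 0) (nat_lit 285139316132) (nat_lit 152) (nat_lit 654392940475) (nat_lit 0) (nat_lit 216702649277) (nat_lit 2) (nat_lit 5) (nat_lit 4) (nat_lit 4) (nat_lit 2) (nat_lit 4) (nat_lit 269) (nat_lit 231) (nat_lit 160)) (XT.nd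 (nat_lit 78) (nat_lit 0) (nat_lit 0) (XT.lf (nat_lit 0) (nat_lit 381588484127) (nat_lit 152) (nat_lit 629767121319) (nat_lit 0) (nat_lit 313151379591) (nat_lit 2) (nat_lit 5) (nat_lit 4) (nat_lit 4) (nat_lit 2) (nat_lit 4) (nat_lit 270) (nat_lit 231) (nat_lit 159)) (XT.lf (nat_lit 0) (nat_lit 492504262870) (nat_lit 152) (nat_lit 601448897175) (nat_lit 0) (nat_lit 424066777743) (nat_lit 2) (nat_lit 5) (nat_lit 4) (nat_lit 4) (nat_lit 2) (nat_lit 4) (nat_lit 271) (nat_lit 231) (nat_lit 158)))))) (XT.nd (nat_lit 468) (nat_lit 76) (nat_lit 0) (XT.nd (nat_lit 234) (nat_lit 0) (nat_lit 0) (XT.nd (nat_lit 78) (nat_lit 0) (nat_lit 0) (XT.lf (nat_lit 0) (nat_lit 620056743686) (nat_lit 152) (nat_lit 568884215831) (nat_lit 0) (nat_lit 551618927610) (nat_lit 2) (nat_lit 5) (nat_lit 4) (nat_lit 4) (nat_lit 2) (nat_lit 4) (nat_lit 272) (nat_lit 231) (nat_lit 157)) (XT.nd (nat_lit 78) (nat_lit 0) (nat_lit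 0) (XT.lf (nat_lit 0) (nat_lit 766741518590) (nat_lit 152) (nat_lit 531435942218) (nat_lit 0) (nat_lit 698303414732) (nat_lit 2) (nat_lit 5) (nat_lit 4) (nat_lit 4) (nat_lit 2) (nat_lit 4) (nat_lit 273) (nat_lit 231) (nat_lit 156)) (XT.lf (nat_lit 0) (nat_lit 935428507091) (nat_lit 152) (nat_lit 488371392721) (nat_lit 0) (nat_lit 866990152988) (nat_lit 2) (nat_lit 5) (nat_lit 4) (nat_lit 4) (nat_lit 2) (nat_lit 4) (nat_lit 274) (nat_lit 231) (nat_lit 155)))) (XT.nd (nat_lit 78) (nat_lit 0) (nat_lit 0) (XT.lf (nat_lit 0) (nat_lit 1129418106791) (nat_lit 152) (nat_lit 438848000067) (nat_lit 0) (nat_lit 1060979535083) (nat_lit 2) (nat_lit 5) (nat_lit 4) (nat_lit 4) (nat_lit 2) (nat_lit 4) (nat_lit 275) (nat_lit 231) (nat_lit 154)) (XT.nd (nat_lit 78) (nat_lit 0) (nat_lit 0) (XT.lf (nat_lit 0) (nat_lit 1352505766378) (nat_lit 152) (nat_lit 381896828313) (nat_lit 0) (nat_lit 1284067005449)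 (nat_lit 2) (nat_lit 5) (nat_lit 4) (nat_lit 4) (nat_lit 2) (nat_lit 4) (nat_lit 276) (nat_lit 231) (nat_lit 153)) (XT.lf (nat_lit 0) (nat_lit 1609056244410) (nat_lit 152) (nat_lit 316403615403) (nat_lit 0) (nat_lit 1540617318941) (nat_lit 2) (nat_lit 5) (nat_lit 4) (nat_lit 4) (nat_lit 2) (nat_lit 4) (nat_lit 277) (nat_lit 231) (nat_lit 152))))) (XT.nd (nat_lit 234) (nat_lit 76) (nat_lit 0) (XT.nd (nat_lit 78) (nat_lit 0) (nat_lit 0) (XT.lf (nat_lit 0) (nat_lit 1904089006763) (nat_lit 152) (nat_lit 241086972390) (nat_lit 0) (nat_lit 1835649938215) (nat_lit 2) (nat_lit 5) (nat_lit 4) (nat_lit 4) (nat_lit 2) (nat_lit 4) (nat_lit 278) (nat_lit 231) (nat_lit 151)) (XT.nd (nat_lit 78) (nat_lit 0) (nat_lit 0) (XT.lf (nat_lit 0) (nat_lit 2243376433568) (nat_lit 152) (nat_lit 154473312778) (nat_lit 0) (nat_lit 2174937240604) (nat_lit 2) (nat_lit 5) (nat_lit 4) (nat_lit 4) (nat_lit 2) (nat_lit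 4) (nat_lit 279) (nat_lit 231) (nat_lit 150)) (XT.lf (nat_lit 0) (nat_lit 2633556757089) (nat_lit 152) (nat_lit 54868021489) (nat_lit 0) (nat_lit 2565117455937) (nat_lit 2) (nat_lit 5) (nat_lit 4) (nat_lit 4) (nat_lit 2) (nat_lit 4) (nat_lit 280) (nat_lit 231) (nat_lit 149)))) (XT.nd (nat_lit 78) (nat_lit 0) (nat_lit 0) (XT.lf (nat_lit 0) (nat_lit 62820222611) (nat_lit 76) (nat_lit 3020954545431) (nat_lit 76) (nat_lit 2952515150203) (nat_lit 1) (nat_lit 4) (nat_lit 2) (nat_lit 5) (nat_lit 2) (nat_lit 4) (nat_lit 281) (nat_lit 231) (nat_lit 148)) (XT.nd (nat_lit 78) (nat_lit 0) (nat_lit 0) (XT.lf (nat_lit 0) (nat_lit 201484011896) (nat_lit 76) (nat_lit 3401638719852) (nat_lit 76) (nat_lit 3333199242819) (nat_lit 1) (nat_lit 4) (nat_lit 2) (nat_lit 5) (nat_lit 2) (nat_lit 4) (nat_lit 282) (nat_lit 231) (nat_lit 147)) (XT.lf (nat_lit 0) (nat_lit 360947080768) (nat_lit 76) (nat_lit 3839425659416)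 (nat_lit 76) (nat_lit 3770986111247) (nat_lit 1) (nat_lit 4) (nat_lit 2) (nat_lit 5) (nat_lit 2) (nat_lit 4) (nat_lit 283) (nat_lit 231) (nat_lit 146))))))))
noncomputable def xc39 : XT := (XT.nd (nat_lit 1794) (nat_lit 456) (nat_lit 0) (XT.nd (nat_lit 858) (nat_lit 1216) (nat_lit 0) (XT.nd (nat_lit 390) (nat_lit 1140) (nat_lit 0) (XT.nd (nat_lit 156) (nat_lit 228) (nat_lit 0) (XT.nd (nat_lit 78) (nat_lit 0) (nat_lit 76) (XT.lf (nat_lit 0) (nat_lit 5371722977) (nat_lit 532) (nat_lit 2808607089) (nat_lit 532) (nat_lit 2808607089) (nat_lit 42) (nat_lit 3) (nat_lit 49) (nat_lit 3) (nat_lit 49) (nat_lit 5) (nat_lit 232) (nat_lit 232) (nat_lit 196)) (XT.lf (nat_lit 0) (nat_lit 12129756696) (nat_lit 456) (nat_lit 10133006723) (nat_lit 532) (nat_lit 1316168156) (nat_lit 43) (nat_lit 5) (nat_lit 49) (nat_lit 5) (nat_lit 50) (nat_lit 5) (nat_lit 233) (nat_lit 232) (nat_lit 195))) (XT.nd (nat_lit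 78) (nat_lit 304) (nat_lit 0) (XT.lf (nat_lit 76) (nat_lit 10335470052) (nat_lit 0) (nat_lit 4217568793) (nat_lit 532) (nat_lit 10800936010) (nat_lit 44) (nat_lit 5) (nat_lit 43) (nat_lit 5) (nat_lit 50) (nat_lit 5) (nat_lit 234) (nat_lit 232) (nat_lit 194)) (XT.nd (nat_lit 78) (nat_lit 380) (nat_lit 0) (XT.lf (nat_lit 76) (nat_lit 7035376899) (nat_lit 0) (nat_lit 11139016037) (nat_lit 532) (nat_lit 9154245241) (nat_lit 45) (nat_lit 5) (nat_lit 44) (nat_lit 5) (nat_lit 51) (nat_lit 5) (nat_lit 235) (nat_lit 232) (nat_lit 193)) (XT.lf (nat_lit 0) (nat_lit 3529771303) (nat_lit 456) (nat_lit 19661734557) (nat_lit 532) (nat_lit 6339903658) (nat_lit 39) (nat_lit 5) (nat_lit 45) (nat_lit 5) (nat_lit 46) (nat_lit 5) (nat_lit 236) (nat_lit 232) (nat_lit 192))))) (XT.nd (nat_lit 234) (nat_lit 608) (nat_lit 0) (XT.nd (nat_lit 78) (nat_lit 532) (nat_lit 0) (XT.lf (nat_lit 0) (nat_lit 29872472452)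 (nat_lit 532) (nat_lit 237850722) (nat_lit 76) (nat_lit 1881468685) (nat_lit 39) (nat_lit 5) (nat_lit 46) (nat_lit 5) (nat_lit 40) (nat_lit 5) (nat_lit 237) (nat_lit 232) (nat_lit 191)) (XT.nd (nat_lit 78) (nat_lit 228) (nat_lit 0) (XT.lf (nat_lit 0) (nat_lit 3879605968) (nat_lit 304) (nat_lit 4479294770) (nat_lit 76) (nat_lit 26354586061) (nat_lit 35) (nat_lit 5) (nat_lit 39) (nat_lit 5) (nat_lit 36) (nat_lit 5) (nat_lit 238) (nat_lit 232) (nat_lit 190)) (XT.lf (nat_lit 0) (nat_lit 11754733392) (nat_lit 304) (nat_lit 9397320677) (nat_lit 76) (nat_lit 16598898864) (nat_lit 32) (nat_lit 5) (nat_lit 36) (nat_lit 5) (nat_lit 33) (nat_lit 5) (nat_lit 239) (nat_lit 232) (nat_lit 189)))) (XT.nd (nat_lit 78) (nat_lit 380) (nat_lit 0) (XT.lf (nat_lit 0) (nat_lit 21892903380) (nat_lit 304) (nat_lit 15069889406) (nat_lit 76) (nat_lit 4194764135) (nat_lit 29) (nat_lit 5) (nat_lit 33) (nat_lit 5)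 (nat_lit 30) (nat_lit 5) (nat_lit 240) (nat_lit 232) (nat_lit 188)) (XT.nd (nat_lit 78) (nat_lit 228) (nat_lit 0) (XT.lf (nat_lit 0) (nat_lit 22944483195) (nat_lit 152) (nat_lit 12007233411) (nat_lit 228) (nat_lit 10011493487) (nat_lit 27) (nat_lit 5) (nat_lit 29) (nat_lit 5) (nat_lit 30) (nat_lit 5) (nat_lit 241) (nat_lit 232) (nat_lit 187)) (XT.lf (nat_lit 0) (nat_lit 1918694255) (nat_lit 228) (nat_lit 30511758945) (nat_lit 76) (nat_lit 16802444419) (nat_lit 24) (nat_lit 5) (nat_lit 27) (nat_lit 5) (nat_lit 25) (nat_lit 5) (nat_lit 242) (nat_lit 232) (nat_lit 186)))))) (XT.nd (nat_lit 468) (nat_lit 532) (nat_lit 0) (XT.nd (nat_lit 234) (nat_lit 380) (nat_lit 0) (XT.nd (nat_lit 78) (nat_lit 152) (nat_lit 0) (XT.lf (nat_lit 0) (nat_lit 12808027922) (nat_lit 152) (nat_lit 3537541260) (nat_lit 228) (nat_lit 37672706309) (nat_lit 22) (nat_lit 5) (nat_lit 24) (nat_lit 5) (nat_lit 25) (nat_lit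 5) (nat_lit 243) (nat_lit 232) (nat_lit 185)) (XT.nd (nat_lit 78) (nat_lit 0) (nat_lit 0) (XT.lf (nat_lit 0) (nat_lit 4490759802) (nat_lit 152) (nat_lit 30165738326) (nat_lit 228) (nat_lit 24727391755) (nat_lit 20) (nat_lit 5) (nat_lit 22) (nat_lit 5) (nat_lit 23) (nat_lit 5) (nat_lit 244) (nat_lit 232) (nat_lit 184)) (XT.lf (nat_lit 0) (nat_lit 57055433858) (nat_lit 228) (nat_lit 6088726059) (nat_lit 76) (nat_lit 2302904656) (nat_lit 20) (nat_lit 5) (nat_lit 23) (nat_lit 5) (nat_lit 21) (nat_lit 4) (nat_lit 245) (nat_lit 232) (nat_lit 183)))) (XT.nd (nat_lit 78) (nat_lit 228) (nat_lit 0) (XT.lf (nat_lit 0) (nat_lit 11997106112) (nat_lit 152) (nat_lit 20782459765) (nat_lit 76) (nat_lit 39450365823) (nat_lit 18) (nat_lit 5) (nat_lit 20) (nat_lit 5) (nat_lit 19) (nat_lit 5) (nat_lit 246) (nat_lit 232) (nat_lit 182)) (XT.nd (nat_lit 78) (nat_lit 76) (nat_lit 0) (XT.lf (nat_lit 0) (nat_lit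 36175055029) (nat_lit 228) (nat_lit 40308061374) (nat_lit 76) (nat_lit 3431472235) (nat_lit 16) (nat_lit 5) (nat_lit 19) (nat_lit 5) (nat_lit 17) (nat_lit 4) (nat_lit 247) (nat_lit 232) (nat_lit 181)) (XT.lf (nat_lit 0) (nat_lit 21760089255) (nat_lit 76) (nat_lit 44261242056) (nat_lit 152) (nat_lit 22567298764) (nat_lit 15) (nat_lit 5) (nat_lit 16) (nat_lit 5) (nat_lit 17) (nat_lit 4) (nat_lit 248) (nat_lit 232) (nat_lit 180))))) (XT.nd (nat_lit 234) (nat_lit 228) (nat_lit 0) (XT.nd (nat_lit 78) (nat_lit 228) (nat_lit 0) (XT.lf (nat_lit 0) (nat_lit 2887251317) (nat_lit 152) (nat_lit 2977966155) (nat_lit 76) (nat_lit 92599502635) (nat_lit 14) (nat_lit 5) (nat_lit 16) (nat_lit 5) (nat_lit 15) (nat_lit 5) (nat_lit 249) (nat_lit 232) (nat_lit 179)) (XT.nd (nat_lit 78) (nat_lit 76) (nat_lit 0) (XT.lf (nat_lit 0) (nat_lit 33604712499) (nat_lit 228) (nat_lit 37124380888) (nat_lit 76) (nat_lit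 38823771742) (nat_lit 12) (nat_lit 5) (nat_lit 15) (nat_lit 5) (nat_lit 13) (nat_lit 4) (nat_lit 250) (nat_lit 232) (nat_lit 178)) (XT.lf (nat_lit 0) (nat_lit 38793374206) (nat_lit 76) (nat_lit 31313801836) (nat_lit 152) (nat_lit 52102875412) (nat_lit 11) (nat_lit 5) (nat_lit 12) (nat_lit 5) (nat_lit 13) (nat_lit 4) (nat_lit 251) (nat_lit 232) (nat_lit 177)))) (XT.nd (nat_lit 78) (nat_lit 228) (nat_lit 0) (XT.lf (nat_lit 0) (nat_lit 113524698322) (nat_lit 152) (nat_lit 8708623060) (nat_lit 0) (nat_lit 14417328085) (nat_lit 11) (nat_lit 5) (nat_lit 13) (nat_lit 4) (nat_lit 11) (nat_lit 4) (nat_lit 252) (nat_lit 232) (nat_lit 176)) (XT.nd (nat_lit 78) (nat_lit 76) (nat_lit 0) (XT.lf (nat_lit 0) (nat_lit 12552958124) (nat_lit 152) (nat_lit 73002376671) (nat_lit 76) (nat_lit 67453144124) (nat_lit 9) (nat_lit 5) (nat_lit 11) (nat_lit 5) (nat_lit 10) (nat_lit 4) (nat_lit 253) (nat_lit 232)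 (nat_lit 175)) (XT.lf (nat_lit 0) (nat_lit 10632272434) (nat_lit 76) (nat_lit 42131808518) (nat_lit 152) (nat_lit 118963878801) (nat_lit 8) (nat_lit 5) (nat_lit 9) (nat_lit 5) (nat_lit 10) (nat_lit 4) (nat_lit 254) (nat_lit 232) (nat_lit 174))))))) (XT.nd (nat_lit 858) (nat_lit 152) (nat_lit 0) (XT.nd (nat_lit 390) (nat_lit 76) (nat_lit 0) (XT.nd (nat_lit 156) (nat_lit 152) (nat_lit 0) (XT.nd (nat_lit 78) (nat_lit 76) (nat_lit 0) (XT.lf (nat_lit 0) (nat_lit 101370475761) (nat_lit 152) (nat_lit 82103955294) (nat_lit 0) (nat_lit 9591848775) (nat_lit 8) (nat_lit 5) (nat_lit 10) (nat_lit 4) (nat_lit 8) (nat_lit 4) (nat_lit 255) (nat_lit 232) (nat_lit 173)) (XT.lf (nat_lit 0) (nat_lit 7962071414) (nat_lit 76) (nat_lit 150658418230) (nat_lit 76) (nat_lit 58876650184) (nat_lit 7) (nat_lit 4) (nat_lit 8) (nat_lit 5) (nat_lit 8) (nat_lit 4) (nat_lit 256) (nat_lit 232) (nat_lit 172))) (XT.nd (nat_lit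 78) (nat_lit 152) (nat_lit 0) (XT.lf (nat_lit 0) (nat_lit 116503104425) (nat_lit 76) (nat_lit 110341548070) (nat_lit 76) (nat_lit 18557048666) (nat_lit 7) (nat_lit 4) (nat_lit 8) (nat_lit 5) (nat_lit 8) (nat_lit 4) (nat_lit 257) (nat_lit 232) (nat_lit 171)) (XT.nd (nat_lit 78) (nat_lit 76) (nat_lit 0) (XT.lf (nat_lit 0) (nat_lit 26415976124) (nat_lit 152) (nat_lit 36841644158) (nat_lit 76) (nat_lit 214181088135) (nat_lit 6) (nat_lit 5) (nat_lit 8) (nat_lit 5) (nat_lit 7) (nat_lit 4) (nat_lit 258) (nat_lit 232) (nat_lit 170)) (XT.lf (nat_lit 0) (nat_lit 72112629962) (nat_lit 76) (nat_lit 6686201651) (nat_lit 152) (nat_lit 235302864999) (nat_lit 5) (nat_lit 5) (nat_lit 6) (nat_lit 5) (nat_lit 7) (nat_lit 4) (nat_lit 259) (nat_lit 232) (nat_lit 169))))) (XT.nd (nat_lit 234) (nat_lit 0) (nat_lit 0) (XT.nd (nat_lit 78) (nat_lit 76) (nat_lit 0) (XT.lf (nat_lit 0) (nat_lit 141540717309) (nat_lit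 152) (nat_lit 157973994707) (nat_lit 0) (nat_lit 56549295358) (nat_lit 5) (nat_lit 5) (nat_lit 7) (nat_lit 4) (nat_lit 5) (nat_lit 4) (nat_lit 260) (nat_lit 232) (nat_lit 168)) (XT.nd (nat_lit 78) (nat_lit 76) (nat_lit 0) (XT.lf (nat_lit 0) (nat_lit 213876474814) (nat_lit 152) (nat_lit 61545978104) (nat_lit 0) (nat_lit 128883606879) (nat_lit 5) (nat_lit 5) (nat_lit 7) (nat_lit 4) (nat_lit 5) (nat_lit 4) (nat_lit 261) (nat_lit 232) (nat_lit 167)) (XT.lf (nat_lit 0) (nat_lit 51940706054) (nat_lit 76) (nat_lit 246369034814) (nat_lit 76) (nat_lit 161374909502) (nat_lit 4) (nat_lit 4) (nat_lit 5) (nat_lit 5) (nat_lit 5) (nat_lit 4) (nat_lit 262) (nat_lit 232) (nat_lit 166)))) (XT.nd (nat_lit 78) (nat_lit 0) (nat_lit 0) (XT.lf (nat_lit 0) (nat_lit 186173934177) (nat_lit 76) (nat_lit 211024058020) (nat_lit 76) (nat_lit 126028839337) (nat_lit 4) (nat_lit 4) (nat_lit 5) (nat_lit 5) (nat_lit 5)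 (nat_lit 4) (nat_lit 263) (nat_lit 232) (nat_lit 165)) (XT.nd (nat_lit 78) (nat_lit 0) (nat_lit 0) (XT.lf (nat_lit 0) (nat_lit 340539106416) (nat_lit 76) (nat_lit 170378766493) (nat_lit 76) (nat_lit 85382597052) (nat_lit 4) (nat_lit 4) (nat_lit 5) (nat_lit 5) (nat_lit 5) (nat_lit 4) (nat_lit 264) (nat_lit 232) (nat_lit 164)) (XT.lf (nat_lit 0) (nat_lit 518056410924) (nat_lit 76) (nat_lit 123637926267) (nat_lit 76) (nat_lit 38640930081) (nat_lit 4) (nat_lit 4) (nat_lit 5) (nat_lit 5) (nat_lit 5) (nat_lit 4) (nat_lit 265) (nat_lit 232) (nat_lit 163)))))) (XT.nd (nat_lit 468) (nat_lit 0) (nat_lit 0) (XT.nd (nat_lit 234) (nat_lit 0) (nat_lit 0) (XT.nd (nat_lit 78) (nat_lit 76) (nat_lit 0) (XT.lf (nat_lit 0) (nat_lit 14354775417) (nat_lit 152) (nat_lit 55139782227) (nat_lit 76) (nat_lit 707451751936) (nat_lit 3) (nat_lit 5) (nat_lit 5) (nat_lit 5) (nat_lit 4) (nat_lit 4) (nat_lit 266) (nat_lit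 232) (nat_lit 162)) (XT.nd (nat_lit 78) (nat_lit 0) (nat_lit 0) (XT.lf (nat_lit 0) (nat_lit 70527452257) (nat_lit 76) (nat_lit 4244563363) (nat_lit 152) (nat_lit 813055888387) (nat_lit 2) (nat_lit 5) (nat_lit 3) (nat_lit 5) (nat_lit 4) (nat_lit 4) (nat_lit 267) (nat_lit 232) (nat_lit 161)) (XT.lf (nat_lit 0) (nat_lit 147600434996) (nat_lit 152) (nat_lit 798575651123) (nat_lit 0) (nat_lit 68897764780) (nat_lit 2) (nat_lit 5) (nat_lit 4) (nat_lit 4) (nat_lit 2) (nat_lit 4) (nat_lit 268) (nat_lit 232) (nat_lit 160)))) (XT.nd (nat_lit 78) (nat_lit 0) (nat_lit 0) (XT.lf (nat_lit 0) (nat_lit 231469632289) (nat_lit 152) (nat_lit 777161212598) (nat_lit 0) (nat_lit 152766524393) (nat_lit 2) (nat_lit 5) (nat_lit 4) (nat_lit 4) (nat_lit 2) (nat_lit 4) (nat_lit 269) (nat_lit 232) (nat_lit 159)) (XT.nd (nat_lit 78) (nat_lit 0) (nat_lit 0) (XT.lf (nat_lit 0) (nat_lit 327918444726) (nat_lit 152) (nat_lit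 752536076180) (nat_lit 0) (nat_lit 249214956238) (nat_lit 2) (nat_lit 5) (nat_lit 4) (nat_lit 4) (nat_lit 2) (nat_lit 4) (nat_lit 270) (nat_lit 232) (nat_lit 158)) (XT.lf (nat_lit 0) (nat_lit 438833914288) (nat_lit 152) (nat_lit 724218445720) (nat_lit 0) (nat_lit 360130094851) (nat_lit 2) (nat_lit 5) (nat_lit 4) (nat_lit 4) (nat_lit 2) (nat_lit 4) (nat_lit 271) (nat_lit 232) (nat_lit 157))))) (XT.nd (nat_lit 234) (nat_lit 0) (nat_lit 0) (XT.nd (nat_lit 78) (nat_lit 0) (nat_lit 0) (XT.lf (nat_lit 0) (nat_lit 566386126251) (nat_lit 152) (nat_lit 691654280624) (nat_lit 0) (nat_lit 487682019032) (nat_lit 2) (nat_lit 5) (nat_lit 4) (nat_lit 4) (nat_lit 2) (nat_lit 4) (nat_lit 272) (nat_lit 232) (nat_lit 156)) (XT.nd (nat_lit 78) (nat_lit 0) (nat_lit 0) (XT.lf (nat_lit 0) (nat_lit 713070667369) (nat_lit 152) (nat_lit 654206455921) (nat_lit 0) (nat_lit 634366309906) (nat_lit 2) (nat_lit 5) (nat_lit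 4) (nat_lit 4) (nat_lit 2) (nat_lit 4) (nat_lit 273) (nat_lit 232) (nat_lit 155)) (XT.lf (nat_lit 0) (nat_lit 881757452579) (nat_lit 152) (nat_lit 611142296781) (nat_lit 0) (nat_lit 803052877511) (nat_lit 2) (nat_lit 5) (nat_lit 4) (nat_lit 4) (nat_lit 2) (nat_lit 4) (nat_lit 274) (nat_lit 232) (nat_lit 154)))) (XT.nd (nat_lit 78) (nat_lit 0) (nat_lit 0) (XT.lf (nat_lit 0) (nat_lit 1075746875503) (nat_lit 152) (nat_lit 561619243568) (nat_lit 0) (nat_lit 997042111214) (nat_lit 2) (nat_lit 5) (nat_lit 4) (nat_lit 4) (nat_lit 2) (nat_lit 4) (nat_lit 275) (nat_lit 232) (nat_lit 153)) (XT.nd (nat_lit 78) (nat_lit 0) (nat_lit 0) (XT.lf (nat_lit 0) (nat_lit 1298834381373) (nat_lit 152) (nat_lit 504668366981) (nat_lit 0) (nat_lit 1220129452543) (nat_lit 2) (nat_lit 5) (nat_lit 4) (nat_lit 4) (nat_lit 2) (nat_lit 4) (nat_lit 276) (nat_lit 232) (nat_lit 152)) (XT.lf (nat_lit 0) (nat_lit 1555384725738)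 (nat_lit 152) (nat_lit 439175410737) (nat_lit 0) (nat_lit 1476679653830) (nat_lit 2) (nat_lit 5) (nat_lit 4) (nat_lit 4) (nat_lit 2) (nat_lit 4) (nat_lit 277) (nat_lit 232) (nat_lit 151))))))))
noncomputable def xc40 : XT := (XT.nd (nat_lit 32214) (nat_lit 0) (nat_lit 76) (XT.nd (nat_lit 31278) (nat_lit 0) (nat_lit 1064) (XT.nd (nat_lit 390) (nat_lit 0) (nat_lit 0) (XT.nd (nat_lit 156) (nat_lit 76) (nat_lit 0) (XT.nd (nat_lit 78) (nat_lit 0) (nat_lit 0) (XT.lf (nat_lit 0) (nat_lit 1850417371857) (nat_lit 152) (nat_lit 363858990912) (nat_lit 0) (nat_lit 1771712175533) (nat_lit 2) (nat_lit 5) (nat_lit 4) (nat_lit 4) (nat_lit 2) (nat_lit 4) (nat_lit 278) (nat_lit 232) (nat_lit 150)) (XT.lf (nat_lit 0) (nat_lit 2189704697590) (nat_lit 152) (nat_lit 277245525377) (nat_lit 0) (nat_lit 2110999393079) (nat_lit 2) (nat_lit 5) (nat_lit 4) (nat_lit 4) (nat_lit 2) (nat_lit 4) (nat_lit 279) (nat_lit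 232) (nat_lit 149))) (XT.nd (nat_lit 78) (nat_lit 76) (nat_lit 0) (XT.lf (nat_lit 0) (nat_lit 2579884933223) (nat_lit 152) (nat_lit 177640402850) (nat_lit 0) (nat_lit 2501179534635) (nat_lit 2) (nat_lit 5) (nat_lit 4) (nat_lit 4) (nat_lit 2) (nat_lit 4) (nat_lit 280) (nat_lit 232) (nat_lit 148)) (XT.nd (nat_lit 78) (nat_lit 76) (nat_lit 0) (XT.lf (nat_lit 0) (nat_lit 3028592039887) (nat_lit 152) (nat_lit 63094827457) (nat_lit 0) (nat_lit 2949886559493) (nat_lit 2) (nat_lit 5) (nat_lit 4) (nat_lit 4) (nat_lit 2) (nat_lit 4) (nat_lit 281) (nat_lit 232) (nat_lit 147)) (XT.lf (nat_lit 0) (nat_lit 72246365699) (nat_lit 76) (nat_lit 3474096230803) (nat_lit 76) (nat_lit 3395390679274) (nat_lit 1) (nat_lit 4) (nat_lit 2) (nat_lit 5) (nat_lit 2) (nat_lit 4) (nat_lit 282) (nat_lit 232) (nat_lit 146))))) (XT.nd (nat_lit 30654) (nat_lit 0) (nat_lit 2888) (XT.nd (nat_lit 30498) (nat_lit 0) (nat_lit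 3116) (XT.lf (nat_lit 0) (nat_lit 231709317763) (nat_lit 76) (nat_lit 3911883226576) (nat_lit 76) (nat_lit 3833177613190) (nat_lit 1) (nat_lit 4) (nat_lit 2) (nat_lit 5) (nat_lit 2) (nat_lit 4) (nat_lit 283) (nat_lit 232) (nat_lit 145)) (XT.nd (nat_lit 78) (nat_lit 0) (nat_lit 76) (XT.lf (nat_lit 0) (nat_lit 6391239122) (nat_lit 532) (nat_lit 3114066805) (nat_lit 532) (nat_lit 3114066805) (nat_lit 42) (nat_lit 3) (nat_lit 49) (nat_lit 3) (nat_lit 49) (nat_lit 5) (nat_lit 233) (nat_lit 233) (nat_lit 194)) (XT.lf (nat_lit 0) (nat_lit 14322109198) (nat_lit 456) (nat_lit 11405393602) (nat_lit 532) (nat_lit 1357038471) (nat_lit 43) (nat_lit 5) (nat_lit 49) (nat_lit 5) (nat_lit 50) (nat_lit 5) (nat_lit 234) (nat_lit 233) (nat_lit 193)))) (XT.nd (nat_lit 78) (nat_lit 304) (nat_lit 0) (XT.lf (nat_lit 76) (nat_lit 12112399618) (nat_lit 0) (nat_lit 4953296309) (nat_lit 532) (nat_lit 12063782603)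 (nat_lit 44) (nat_lit 5) (nat_lit 43) (nat_lit 5) (nat_lit 50) (nat_lit 5) (nat_lit 235) (nat_lit 233) (nat_lit 192)) (XT.nd (nat_lit 78) (nat_lit 380) (nat_lit 0) (XT.lf (nat_lit 76) (nat_lit 8325637648) (nat_lit 0) (nat_lit 12865105654) (nat_lit 532) (nat_lit 10212917504) (nat_lit 45) (nat_lit 5) (nat_lit 44) (nat_lit 5) (nat_lit 51) (nat_lit 5) (nat_lit 236) (nat_lit 233) (nat_lit 191)) (XT.lf (nat_lit 0) (nat_lit 4297738019) (nat_lit 456) (nat_lit 22629414865) (nat_lit 532) (nat_lit 7012494557) (nat_lit 39) (nat_lit 5) (nat_lit 45) (nat_lit 5) (nat_lit 46) (nat_lit 5) (nat_lit 237) (nat_lit 233) (nat_lit 190)))))) (XT.nd (nat_lit 468) (nat_lit 684) (nat_lit 0) (XT.nd (nat_lit 234) (nat_lit 608) (nat_lit 0) (XT.nd (nat_lit 78) (nat_lit 532) (nat_lit 0) (XT.lf (nat_lit 0) (nat_lit 34576367790) (nat_lit 532) (nat_lit 47078305) (nat_lit 76) (nat_lit 2148472749) (nat_lit 39) (nat_lit 5)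 (nat_lit 46) (nat_lit 5) (nat_lit 40) (nat_lit 5) (nat_lit 238) (nat_lit 233) (nat_lit 189)) (XT.nd (nat_lit 78) (nat_lit 228) (nat_lit 0) (XT.lf (nat_lit 0) (nat_lit 4666293784) (nat_lit 304) (nat_lit 4932481225) (nat_lit 76) (nat_lit 30304711065) (nat_lit 35) (nat_lit 5) (nat_lit 39) (nat_lit 5) (nat_lit 36) (nat_lit 5) (nat_lit 239) (nat_lit 233) (nat_lit 188)) (XT.lf (nat_lit 0) (nat_lit 13701215923) (nat_lit 304) (nat_lit 10591952130) (nat_lit 76) (nat_lit 19105206026) (nat_lit 32) (nat_lit 5) (nat_lit 36) (nat_lit 5) (nat_lit 33) (nat_lit 5) (nat_lit 240) (nat_lit 233) (nat_lit 187)))) (XT.nd (nat_lit 78) (nat_lit 380) (nat_lit 0) (XT.lf (nat_lit 0) (nat_lit 25341724378) (nat_lit 304) (nat_lit 17120772834) (nat_lit 76) (nat_lit 4855015457) (nat_lit 29) (nat_lit 5) (nat_lit 33) (nat_lit 5) (nat_lit 30) (nat_lit 5) (nat_lit 241) (nat_lit 233) (nat_lit 186)) (XT.nd (nat_lit 78) (nat_lit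 228) (nat_lit 0) (XT.lf (nat_lit 0) (nat_lit 26578014063) (nat_lit 152) (nat_lit 13764452922) (nat_lit 228) (nat_lit 11352961757) (nat_lit 27) (nat_lit 5) (nat_lit 29) (nat_lit 5) (nat_lit 30) (nat_lit 5) (nat_lit 242) (nat_lit 233) (nat_lit 185)) (XT.lf (nat_lit 0) (nat_lit 2344407897) (nat_lit 228) (nat_lit 34895042049) (nat_lit 76) (nat_lit 19367008627) (nat_lit 24) (nat_lit 5) (nat_lit 27) (nat_lit 5) (nat_lit 25) (nat_lit 5) (nat_lit 243) (nat_lit 233) (nat_lit 184))))) (XT.nd (nat_lit 234) (nat_lit 380) (nat_lit 0) (XT.nd (nat_lit 78) (nat_lit 152) (nat_lit 0) (XT.lf (nat_lit 0) (nat_lit 14906335668) (nat_lit 152) (nat_lit 4015249543) (nat_lit 228) (nat_lit 43189200691) (nat_lit 22) (nat_lit 5) (nat_lit 24) (nat_lit 5) (nat_lit 25) (nat_lit 5) (nat_lit 244) (nat_lit 233) (nat_lit 183)) (XT.nd (nat_lit 78) (nat_lit 0) (nat_lit 0) (XT.lf (nat_lit 0) (nat_lit 5334686252) (nat_lit 152)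 (nat_lit 34633472571) (nat_lit 228) (nat_lit 28314001874) (nat_lit 20) (nat_lit 5) (nat_lit 22) (nat_lit 5) (nat_lit 23) (nat_lit 5) (nat_lit 245) (nat_lit 233) (nat_lit 182)) (XT.lf (nat_lit 0) (nat_lit 65713366214) (nat_lit 228) (nat_lit 6847033877) (nat_lit 76) (nat_lit 2695530620) (nat_lit 20) (nat_lit 5) (nat_lit 23) (nat_lit 5) (nat_lit 21) (nat_lit 4) (nat_lit 246) (nat_lit 233) (nat_lit 181)))) (XT.nd (nat_lit 78) (nat_lit 228) (nat_lit 0) (XT.lf (nat_lit 0) (nat_lit 13889231763) (nat_lit 152) (nat_lit 23752893188) (nat_lit 76) (nat_lit 45414711236) (nat_lit 18) (nat_lit 5) (nat_lit 20) (nat_lit 5) (nat_lit 19) (nat_lit 5) (nat_lit 247) (nat_lit 233) (nat_lit 180)) (XT.nd (nat_lit 78) (nat_lit 76) (nat_lit 0) (XT.lf (nat_lit 0) (nat_lit 41686255875) (nat_lit 228) (nat_lit 46214138924) (nat_lit 76) (nat_lit 3994429780) (nat_lit 16) (nat_lit 5) (nat_lit 19) (nat_lit 5) (nat_lit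 17) (nat_lit 4) (nat_lit 248) (nat_lit 233) (nat_lit 179)) (XT.lf (nat_lit 0) (nat_lit 25152372853) (nat_lit 76) (nat_lit 50849106181) (nat_lit 152) (nat_lit 25869153236) (nat_lit 15) (nat_lit 5) (nat_lit 16) (nat_lit 5) (nat_lit 17) (nat_lit 4) (nat_lit 249) (nat_lit 233) (nat_lit 178))))))) (XT.nd (nat_lit 858) (nat_lit 228) (nat_lit 0) (XT.nd (nat_lit 390) (nat_lit 304) (nat_lit 0) (XT.nd (nat_lit 156) (nat_lit 228) (nat_lit 0) (XT.nd (nat_lit 78) (nat_lit 152) (nat_lit 0) (XT.lf (nat_lit 0) (nat_lit 3389101035) (nat_lit 152) (nat_lit 3309390996) (nat_lit 76) (nat_lit 106530325247) (nat_lit 14) (nat_lit 5) (nat_lit 16) (nat_lit 5) (nat_lit 15) (nat_lit 5) (nat_lit 250) (nat_lit 233) (nat_lit 177)) (XT.lf (nat_lit 0) (nat_lit 38708788564) (nat_lit 228) (nat_lit 42583481512) (nat_lit 76) (nat_lit 44688359736) (nat_lit 12) (nat_lit 5) (nat_lit 15) (nat_lit 5) (nat_lit 13) (nat_lit 4)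 (nat_lit 251) (nat_lit 233) (nat_lit 176))) (XT.nd (nat_lit 78) (nat_lit 152) (nat_lit 0) (XT.lf (nat_lit 0) (nat_lit 44712663434) (nat_lit 76) (nat_lit 35968104470) (nat_lit 152) (nat_lit 59856106946) (nat_lit 11) (nat_lit 5) (nat_lit 12) (nat_lit 5) (nat_lit 13) (nat_lit 4) (nat_lit 252) (nat_lit 233) (nat_lit 175)) (XT.nd (nat_lit 78) (nat_lit 152) (nat_lit 0) (XT.lf (nat_lit 0) (nat_lit 130604310912) (nat_lit 152) (nat_lit 9924534903) (nat_lit 0) (nat_lit 16615256195) (nat_lit 11) (nat_lit 5) (nat_lit 13) (nat_lit 4) (nat_lit 11) (nat_lit 4) (nat_lit 253) (nat_lit 233) (nat_lit 174)) (XT.lf (nat_lit 0) (nat_lit 14483420393) (nat_lit 152) (nat_lit 83867441494) (nat_lit 76) (nat_lit 77605029212) (nat_lit 9) (nat_lit 5) (nat_lit 11) (nat_lit 5) (nat_lit 10) (nat_lit 4) (nat_lit 254) (nat_lit 233) (nat_lit 173))))) (XT.nd (nat_lit 234) (nat_lit 152) (nat_lit 0) (XT.nd (nat_lit 78) (nat_lit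 76) (nat_lit 0) (XT.lf (nat_lit 0) (nat_lit 12305185460) (nat_lit 76) (nat_lit 48416705751) (nat_lit 152) (nat_lit 136761756071) (nat_lit 8) (nat_lit 5) (nat_lit 9) (nat_lit 5) (nat_lit 10) (nat_lit 4) (nat_lit 255) (nat_lit 233) (nat_lit 172)) (XT.nd (nat_lit 78) (nat_lit 76) (nat_lit 0) (XT.lf (nat_lit 0) (nat_lit 116614340027) (nat_lit 152) (nat_lit 94349340002) (nat_lit 0) (nat_lit 11059434356) (nat_lit 8) (nat_lit 5) (nat_lit 10) (nat_lit 4) (nat_lit 8) (nat_lit 4) (nat_lit 256) (nat_lit 233) (nat_lit 171)) (XT.lf (nat_lit 0) (nat_lit 9220647905) (nat_lit 76) (nat_lit 173227758956) (nat_lit 76) (nat_lit 67670478191) (nat_lit 7) (nat_lit 4) (nat_lit 8) (nat_lit 5) (nat_lit 8) (nat_lit 4) (nat_lit 257) (nat_lit 233) (nat_lit 170)))) (XT.nd (nat_lit 78) (nat_lit 152) (nat_lit 0) (XT.lf (nat_lit 0) (nat_lit 134034453375) (nat_lit 76) (nat_lit 126867195924) (nat_lit 76) (nat_lit 21307849861)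 (nat_lit 7) (nat_lit 4) (nat_lit 8) (nat_lit 5) (nat_lit 8) (nat_lit 4) (nat_lit 258) (nat_lit 233) (nat_lit 169)) (XT.nd (nat_lit 78) (nat_lit 76) (nat_lit 0) (XT.lf (nat_lit 0) (nat_lit 30405431248) (nat_lit 152) (nat_lit 42317844977) (nat_lit 76) (nat_lit 246329046978) (nat_lit 6) (nat_lit 5) (nat_lit 8) (nat_lit 5) (nat_lit 7) (nat_lit 4) (nat_lit 259) (nat_lit 233) (nat_lit 168)) (XT.lf (nat_lit 0) (nat_lit 82975334134) (nat_lit 76) (nat_lit 7667953255) (nat_lit 152) (nat_lit 270571669947) (nat_lit 5) (nat_lit 5) (nat_lit 6) (nat_lit 5) (nat_lit 7) (nat_lit 4) (nat_lit 260) (nat_lit 233) (nat_lit 167)))))) (XT.nd (nat_lit 468) (nat_lit 152) (nat_lit 0) (XT.nd (nat_lit 234) (nat_lit 0) (nat_lit 0) (XT.nd (nat_lit 78) (nat_lit 76) (nat_lit 0) (XT.lf (nat_lit 0) (nat_lit 162793686106) (nat_lit 152) (nat_lit 181628968610) (nat_lit 0) (nat_lit 65049184620) (nat_lit 5) (nat_lit 5) (nat_lit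 7) (nat_lit 4) (nat_lit 5) (nat_lit 4) (nat_lit 261) (nat_lit 233) (nat_lit 166)) (XT.nd (nat_lit 78) (nat_lit 76) (nat_lit 0) (XT.lf (nat_lit 0) (nat_lit 245976955775) (nat_lit 152) (nat_lit 70742113686) (nat_lit 0) (nat_lit 148231360918) (nat_lit 5) (nat_lit 5) (nat_lit 7) (nat_lit 4) (nat_lit 5) (nat_lit 4) (nat_lit 262) (nat_lit 233) (nat_lit 165)) (XT.lf (nat_lit 0) (nat_lit 59764546094) (nat_lit 76) (nat_lit 283308973369) (nat_lit 76) (nat_lit 185562427755) (nat_lit 4) (nat_lit 4) (nat_lit 5) (nat_lit 5) (nat_lit 5) (nat_lit 4) (nat_lit 263) (nat_lit 233) (nat_lit 164)))) (XT.nd (nat_lit 78) (nat_lit 0) (nat_lit 0) (XT.lf (nat_lit 0) (nat_lit 214128488766) (nat_lit 76) (nat_lit 242664260926) (nat_lit 76) (nat_lit 144916888565) (nat_lit 4) (nat_lit 4) (nat_lit 5) (nat_lit 5) (nat_lit 5) (nat_lit 4) (nat_lit 264) (nat_lit 233) (nat_lit 163)) (XT.nd (nat_lit 78) (nat_lit 0) (nat_lit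 0) (XT.lf (nat_lit 0) (nat_lit 391644724085) (nat_lit 76) (nat_lit 195923924252) (nat_lit 76) (nat_lit 98175832982) (nat_lit 4) (nat_lit 4) (nat_lit 5) (nat_lit 5) (nat_lit 5) (nat_lit 4) (nat_lit 265) (nat_lit 233) (nat_lit 162)) (XT.lf (nat_lit 0) (nat_lit 595786395785) (nat_lit 76) (nat_lit 142173478498) (nat_lit 76) (nat_lit 44424762090) (nat_lit 4) (nat_lit 4) (nat_lit 5) (nat_lit 5) (nat_lit 5) (nat_lit 4) (nat_lit 266) (nat_lit 233) (nat_lit 161))))) (XT.nd (nat_lit 234) (nat_lit 0) (nat_lit 0) (XT.nd (nat_lit 78) (nat_lit 76) (nat_lit 0) (XT.lf (nat_lit 0) (nat_lit 16518158540) (nat_lit 152) (nat_lit 63391490243) (nat_lit 76) (nat_lit 813577785784) (nat_lit 3) (nat_lit 5) (nat_lit 5) (nat_lit 5) (nat_lit 4) (nat_lit 4) (nat_lit 267) (nat_lit 233) (nat_lit 160)) (XT.nd (nat_lit 78) (nat_lit 0) (nat_lit 0) (XT.lf (nat_lit 0) (nat_lit 81124199209) (nat_lit 76) (nat_lit 4872883440)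 (nat_lit 152) (nat_lit 935004258736) (nat_lit 2) (nat_lit 5) (nat_lit 3) (nat_lit 5) (nat_lit 4) (nat_lit 4) (nat_lit 268) (nat_lit 233) (nat_lit 159)) (XT.lf (nat_lit 0) (nat_lit 169748731420) (nat_lit 152) (nat_lit 918346193425) (nat_lit 0) (nat_lit 79239339067) (nat_lit 2) (nat_lit 5) (nat_lit 4) (nat_lit 4) (nat_lit 2) (nat_lit 4) (nat_lit 269) (nat_lit 233) (nat_lit 158)))) (XT.nd (nat_lit 78) (nat_lit 0) (nat_lit 0) (XT.lf (nat_lit 0) (nat_lit 266197234675) (nat_lit 152) (nat_lit 893721650691) (nat_lit 0) (nat_lit 175687511373) (nat_lit 2) (nat_lit 5) (nat_lit 4) (nat_lit 4) (nat_lit 2) (nat_lit 4) (nat_lit 270) (nat_lit 233) (nat_lit 157)) (XT.nd (nat_lit 78) (nat_lit 0) (nat_lit 0) (XT.lf (nat_lit 0) (nat_lit 377112435384) (nat_lit 152) (nat_lit 865404536479) (nat_lit 0) (nat_lit 286602424301) (nat_lit 2) (nat_lit 5) (nat_lit 4) (nat_lit 4) (nat_lit 2) (nat_lit 4) (nat_lit 271)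 (nat_lit 233) (nat_lit 156)) (XT.lf (nat_lit 0) (nat_lit 504664413562) (nat_lit 152) (nat_lit 832840820293) (nat_lit 0) (nat_lit 414154152233) (nat_lit 2) (nat_lit 5) (nat_lit 4) (nat_lit 4) (nat_lit 2) (nat_lit 4) (nat_lit 272) (nat_lit 233) (nat_lit 155))))))))
noncomputable def xc41 : XT := (XT.nd (nat_lit 32292) (nat_lit 0) (nat_lit 152) (XT.nd (nat_lit 31356) (nat_lit 0) (nat_lit 1596) (XT.nd (nat_lit 390) (nat_lit 76) (nat_lit 0) (XT.nd (nat_lit 156) (nat_lit 0) (nat_lit 0) (XT.nd (nat_lit 78) (nat_lit 0) (nat_lit 0) (XT.lf (nat_lit 0) (nat_lit 651348751389) (nat_lit 152) (nat_lit 795393385948) (nat_lit 0) (nat_lit 560838272456) (nat_lit 2) (nat_lit 5) (nat_lit 4) (nat_lit 4) (nat_lit 2) (nat_lit 4) (nat_lit 273) (nat_lit 233) (nat_lit 154)) (XT.lf (nat_lit 0) (nat_lit 820035359823) (nat_lit 152) (nat_lit 752329566249) (nat_lit 0) (nat_lit 729524691669) (nat_lit 2) (nat_lit 5) (nat_lit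 4) (nat_lit 4) (nat_lit 2) (nat_lit 4) (nat_lit 274) (nat_lit 233) (nat_lit 153))) (XT.nd (nat_lit 78) (nat_lit 0) (nat_lit 0) (XT.lf (nat_lit 0) (nat_lit 1014024629029) (nat_lit 152) (nat_lit 702806808202) (nat_lit 0) (nat_lit 923513796335) (nat_lit 2) (nat_lit 5) (nat_lit 4) (nat_lit 4) (nat_lit 2) (nat_lit 4) (nat_lit 275) (nat_lit 233) (nat_lit 152)) (XT.nd (nat_lit 78) (nat_lit 0) (nat_lit 0) (XT.lf (nat_lit 0) (nat_lit 1237112001232) (nat_lit 152) (nat_lit 645856188281) (nat_lit 0) (nat_lit 1146601025459) (nat_lit 2) (nat_lit 5) (nat_lit 4) (nat_lit 4) (nat_lit 2) (nat_lit 4) (nat_lit 276) (nat_lit 233) (nat_lit 151)) (XT.lf (nat_lit 0) (nat_lit 1493662229364) (nat_lit 152) (nat_lit 580363455226) (nat_lit 0) (nat_lit 1403151129175) (nat_lit 2) (nat_lit 5) (nat_lit 4) (nat_lit 4) (nat_lit 2) (nat_lit 4) (nat_lit 277) (nat_lit 233) (nat_lit 150))))) (XT.nd (nat_lit 234) (nat_lit 76)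 (nat_lit 0) (XT.nd (nat_lit 78) (nat_lit 0) (nat_lit 0) (XT.lf (nat_lit 0) (nat_lit 1788694774412) (nat_lit 152) (nat_lit 505047229476) (nat_lit 0) (nat_lit 1698183566035) (nat_lit 2) (nat_lit 5) (nat_lit 4) (nat_lit 4) (nat_lit 2) (nat_lit 4) (nat_lit 278) (nat_lit 233) (nat_lit 149)) (XT.nd (nat_lit 78) (nat_lit 0) (nat_lit 0) (XT.lf (nat_lit 0) (nat_lit 2127982012256) (nat_lit 152) (nat_lit 418433932704) (nat_lit 0) (nat_lit 2037470709803) (nat_lit 2) (nat_lit 5) (nat_lit 4) (nat_lit 4) (nat_lit 2) (nat_lit 4) (nat_lit 279) (nat_lit 233) (nat_lit 148)) (XT.lf (nat_lit 0) (nat_lit 2518162171464) (nat_lit 152) (nat_lit 318828956927) (nat_lit 0) (nat_lit 2427650787206) (nat_lit 2) (nat_lit 5) (nat_lit 4) (nat_lit 4) (nat_lit 2) (nat_lit 4) (nat_lit 280) (nat_lit 233) (nat_lit 147)))) (XT.nd (nat_lit 78) (nat_lit 76) (nat_lit 0) (XT.lf (nat_lit 0) (nat_lit 2966869211672) (nat_lit 152)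 (nat_lit 204283509142) (nat_lit 0) (nat_lit 2876357756278) (nat_lit 2) (nat_lit 5) (nat_lit 4) (nat_lit 4) (nat_lit 2) (nat_lit 4) (nat_lit 281) (nat_lit 233) (nat_lit 146)) (XT.nd (nat_lit 78) (nat_lit 76) (nat_lit 0) (XT.lf (nat_lit 0) (nat_lit 3482882183666) (nat_lit 152) (nat_lit 72556482761) (nat_lit 0) (nat_lit 3392370666416) (nat_lit 2) (nat_lit 5) (nat_lit 4) (nat_lit 4) (nat_lit 2) (nat_lit 4) (nat_lit 282) (nat_lit 233) (nat_lit 145)) (XT.lf (nat_lit 0) (nat_lit 83085671930) (nat_lit 76) (nat_lit 3995209533899) (nat_lit 76) (nat_lit 3904697962860) (nat_lit 1) (nat_lit 4) (nat_lit 2) (nat_lit 5) (nat_lit 2) (nat_lit 4) (nat_lit 283) (nat_lit 233) (nat_lit 144)))))) (XT.nd (nat_lit 468) (nat_lit 1064) (nat_lit 0) (XT.nd (nat_lit 234) (nat_lit 456) (nat_lit 0) (XT.nd (nat_lit 78) (nat_lit 0) (nat_lit 76) (XT.lf (nat_lit 0) (nat_lit 7511556521) (nat_lit 532) (nat_lit 3493591687)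 (nat_lit 532) (nat_lit 3493591687) (nat_lit 42) (nat_lit 3) (nat_lit 49) (nat_lit 3) (nat_lit 49) (nat_lit 5) (nat_lit 234) (nat_lit 234) (nat_lit 192)) (XT.nd (nat_lit 78) (nat_lit 0) (nat_lit 0) (XT.lf (nat_lit 0) (nat_lit 16752383232) (nat_lit 456) (nat_lit 12929008595) (nat_lit 532) (nat_lit 1442216238) (nat_lit 43) (nat_lit 5) (nat_lit 49) (nat_lit 5) (nat_lit 50) (nat_lit 5) (nat_lit 235) (nat_lit 234) (nat_lit 191)) (XT.lf (nat_lit 76) (nat_lit 14100608565) (nat_lit 0) (nat_lit 5774243268) (nat_lit 532) (nat_lit 13603184543) (nat_lit 44) (nat_lit 5) (nat_lit 43) (nat_lit 5) (nat_lit 50) (nat_lit 5) (nat_lit 236) (nat_lit 234) (nat_lit 190)))) (XT.nd (nat_lit 78) (nat_lit 608) (nat_lit 0) (XT.lf (nat_lit 76) (nat_lit 9752142437) (nat_lit 0) (nat_lit 14836638769) (nat_lit 532) (nat_lit 11507074772) (nat_lit 45) (nat_lit 5) (nat_lit 44) (nat_lit 5) (nat_lit 51) (nat_lit 5) (nat_lit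 237) (nat_lit 234) (nat_lit 189)) (XT.nd (nat_lit 78) (nat_lit 228) (nat_lit 0) (XT.lf (nat_lit 0) (nat_lit 5122739758) (nat_lit 456) (nat_lit 26037755355) (nat_lit 532) (nat_lit 7853862390) (nat_lit 39) (nat_lit 5) (nat_lit 45) (nat_lit 5) (nat_lit 46) (nat_lit 5) (nat_lit 238) (nat_lit 234) (nat_lit 188)) (XT.lf (nat_lit 0) (nat_lit 123254385) (nat_lit 228) (nat_lit 39811171385) (nat_lit 304) (nat_lit 2338947883) (nat_lit 36) (nat_lit 5) (nat_lit 39) (nat_lit 5) (nat_lit 40) (nat_lit 5) (nat_lit 239) (nat_lit 234) (nat_lit 187))))) (XT.nd (nat_lit 234) (nat_lit 532) (nat_lit 0) (XT.nd (nat_lit 78) (nat_lit 456) (nat_lit 0) (XT.lf (nat_lit 0) (nat_lit 5521055939) (nat_lit 304) (nat_lit 5506978921) (nat_lit 76) (nat_lit 34848101729) (nat_lit 35) (nat_lit 5) (nat_lit 39) (nat_lit 5) (nat_lit 36) (nat_lit 5) (nat_lit 240) (nat_lit 234) (nat_lit 186)) (XT.nd (nat_lit 78) (nat_lit 228) (nat_lit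 0) (XT.lf (nat_lit 0) (nat_lit 15894978668) (nat_lit 304) (nat_lit 12018199279) (nat_lit 76) (nat_lit 21983442381) (nat_lit 32) (nat_lit 5) (nat_lit 36) (nat_lit 5) (nat_lit 33) (nat_lit 5) (nat_lit 241) (nat_lit 234) (nat_lit 185)) (XT.lf (nat_lit 0) (nat_lit 29267660156) (nat_lit 304) (nat_lit 19530401058) (nat_lit 76) (nat_lit 5606735982) (nat_lit 29) (nat_lit 5) (nat_lit 33) (nat_lit 5) (nat_lit 30) (nat_lit 5) (nat_lit 242) (nat_lit 234) (nat_lit 184)))) (XT.nd (nat_lit 78) (nat_lit 380) (nat_lit 0) (XT.lf (nat_lit 0) (nat_lit 30709788678) (nat_lit 152) (nat_lit 15795952239) (nat_lit 228) (nat_lit 12934729648) (nat_lit 27) (nat_lit 5) (nat_lit 29) (nat_lit 5) (nat_lit 30) (nat_lit 5) (nat_lit 243) (nat_lit 234) (nat_lit 183)) (XT.nd (nat_lit 78) (nat_lit 152) (nat_lit 0) (XT.lf (nat_lit 0) (nat_lit 2800348479) (nat_lit 228) (nat_lit 39982999122) (nat_lit 76) (nat_lit 22305479615)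 (nat_lit 24) (nat_lit 5) (nat_lit 27) (nat_lit 5) (nat_lit 25) (nat_lit 5) (nat_lit 244) (nat_lit 234) (nat_lit 182)) (XT.lf (nat_lit 0) (nat_lit 17276201752) (nat_lit 152) (nat_lit 4577519655) (nat_lit 228) (nat_lit 49565946341) (nat_lit 22) (nat_lit 5) (nat_lit 24) (nat_lit 5) (nat_lit 25) (nat_lit 5) (nat_lit 245) (nat_lit 234) (nat_lit 181))))))) (XT.nd (nat_lit 858) (nat_lit 380) (nat_lit 0) (XT.nd (nat_lit 390) (nat_lit 532) (nat_lit 0) (XT.nd (nat_lit 156) (nat_lit 380) (nat_lit 0) (XT.nd (nat_lit 78) (nat_lit 0) (nat_lit 0) (XT.lf (nat_lit 0) (nat_lit 6263669892) (nat_lit 152) (nat_lit 39785297613) (nat_lit 228) (nat_lit 32468475581) (nat_lit 20) (nat_lit 5) (nat_lit 22) (nat_lit 5) (nat_lit 23) (nat_lit 5) (nat_lit 246) (nat_lit 234) (nat_lit 180)) (XT.lf (nat_lit 0) (nat_lit 75645696119) (nat_lit 228) (nat_lit 7756885865) (nat_lit 76) (nat_lit 3135542833) (nat_lit 20) (nat_lit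 5) (nat_lit 23) (nat_lit 5) (nat_lit 21) (nat_lit 4) (nat_lit 247) (nat_lit 234) (nat_lit 179))) (XT.nd (nat_lit 78) (nat_lit 228) (nat_lit 0) (XT.lf (nat_lit 0) (nat_lit 16042604985) (nat_lit 152) (nat_lit 27204722788) (nat_lit 76) (nat_lit 52262298291) (nat_lit 18) (nat_lit 5) (nat_lit 20) (nat_lit 5) (nat_lit 19) (nat_lit 5) (nat_lit 248) (nat_lit 234) (nat_lit 178)) (XT.nd (nat_lit 78) (nat_lit 76) (nat_lit 0) (XT.lf (nat_lit 0) (nat_lit 48003423060) (nat_lit 228) (nat_lit 53040300098) (nat_lit 76) (nat_lit 4630068130) (nat_lit 16) (nat_lit 5) (nat_lit 19) (nat_lit 5) (nat_lit 17) (nat_lit 4) (nat_lit 249) (nat_lit 234) (nat_lit 177)) (XT.lf (nat_lit 0) (nat_lit 29022219487) (nat_lit 76) (nat_lit 58437665163) (nat_lit 152) (nat_lit 29686584564) (nat_lit 15) (nat_lit 5) (nat_lit 16) (nat_lit 5) (nat_lit 17) (nat_lit 4) (nat_lit 250) (nat_lit 234) (nat_lit 176))))) (XT.nd (nat_lit 234)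 (nat_lit 228) (nat_lit 0) (XT.nd (nat_lit 78) (nat_lit 228) (nat_lit 0) (XT.lf (nat_lit 0) (nat_lit 3949460157) (nat_lit 152) (nat_lit 3718638902) (nat_lit 76) (nat_lit 122540798205) (nat_lit 14) (nat_lit 5) (nat_lit 16) (nat_lit 5) (nat_lit 15) (nat_lit 5) (nat_lit 251) (nat_lit 234) (nat_lit 175)) (XT.nd (nat_lit 78) (nat_lit 76) (nat_lit 0) (XT.lf (nat_lit 0) (nat_lit 44563023061) (nat_lit 228) (nat_lit 48888163278) (nat_lit 76) (nat_lit 51422632399) (nat_lit 12) (nat_lit 5) (nat_lit 15) (nat_lit 5) (nat_lit 13) (nat_lit 4) (nat_lit 252) (nat_lit 234) (nat_lit 174)) (XT.lf (nat_lit 0) (nat_lit 51495391377) (nat_lit 76) (nat_lit 41330981658) (nat_lit 152) (nat_lit 68787491019) (nat_lit 11) (nat_lit 5) (nat_lit 12) (nat_lit 5) (nat_lit 13) (nat_lit 4) (nat_lit 253) (nat_lit 234) (nat_lit 173)))) (XT.nd (nat_lit 78) (nat_lit 228) (nat_lit 0) (XT.lf (nat_lit 0) (nat_lit 150233451190) (nat_lit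 152) (nat_lit 11344873653) (nat_lit 0) (nat_lit 19134258346) (nat_lit 11) (nat_lit 5) (nat_lit 13) (nat_lit 4) (nat_lit 11) (nat_lit 4) (nat_lit 254) (nat_lit 234) (nat_lit 172)) (XT.nd (nat_lit 78) (nat_lit 76) (nat_lit 0) (XT.lf (nat_lit 0) (nat_lit 16691864303) (nat_lit 152) (nat_lit 96383064957) (nat_lit 76) (nat_lit 89271427050) (nat_lit 9) (nat_lit 5) (nat_lit 11) (nat_lit 5) (nat_lit 10) (nat_lit 4) (nat_lit 255) (nat_lit 234) (nat_lit 171)) (XT.lf (nat_lit 0) (nat_lit 14209997050) (nat_lit 76) (nat_lit 55652841825) (nat_lit 152) (nat_lit 157240704132) (nat_lit 8) (nat_lit 5) (nat_lit 9) (nat_lit 5) (nat_lit 10) (nat_lit 4) (nat_lit 256) (nat_lit 234) (nat_lit 170)))))) (XT.nd (nat_lit 468) (nat_lit 152) (nat_lit 0) (XT.nd (nat_lit 234) (nat_lit 152) (nat_lit 0) (XT.nd (nat_lit 78) (nat_lit 76) (nat_lit 0) (XT.lf (nat_lit 0) (nat_lit 134135445967) (nat_lit 152) (nat_lit 108448653225)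 (nat_lit 0) (nat_lit 12740132696) (nat_lit 8) (nat_lit 5) (nat_lit 10) (nat_lit 4) (nat_lit 8) (nat_lit 4) (nat_lit 257) (nat_lit 234) (nat_lit 169)) (XT.nd (nat_lit 78) (nat_lit 0) (nat_lit 0) (XT.lf (nat_lit 0) (nat_lit 10652339252) (nat_lit 76) (nat_lit 199189675533) (nat_lit 76) (nat_lit 77792566350) (nat_lit 7) (nat_lit 4) (nat_lit 8) (nat_lit 5) (nat_lit 8) (nat_lit 4) (nat_lit 258) (nat_lit 234) (nat_lit 168)) (XT.lf (nat_lit 0) (nat_lit 154181877174) (nat_lit 76) (nat_lit 145877929864) (nat_lit 76) (nat_lit 24479259019) (nat_lit 7) (nat_lit 4) (nat_lit 8) (nat_lit 5) (nat_lit 8) (nat_lit 4) (nat_lit 259) (nat_lit 234) (nat_lit 167)))) (XT.nd (nat_lit 78) (nat_lit 76) (nat_lit 0) (XT.lf (nat_lit 0) (nat_lit 34986706204) (nat_lit 152) (nat_lit 48627679906) (nat_lit 76) (nat_lit 283294128503) (nat_lit 6) (nat_lit 5) (nat_lit 8) (nat_lit 5) (nat_lit 7) (nat_lit 4) (nat_lit 260) (nat_lit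 234) (nat_lit 166)) (XT.nd (nat_lit 78) (nat_lit 0) (nat_lit 0) (XT.lf (nat_lit 0) (nat_lit 95456272951) (nat_lit 76) (nat_lit 8802132147) (nat_lit 152) (nat_lit 311137288263) (nat_lit 5) (nat_lit 5) (nat_lit 6) (nat_lit 5) (nat_lit 7) (nat_lit 4) (nat_lit 261) (nat_lit 234) (nat_lit 165)) (XT.lf (nat_lit 0) (nat_lit 187229269230) (nat_lit 152) (nat_lit 208842217264) (nat_lit 0) (nat_lit 74819791015) (nat_lit 5) (nat_lit 5) (nat_lit 7) (nat_lit 4) (nat_lit 5) (nat_lit 4) (nat_lit 262) (nat_lit 234) (nat_lit 164))))) (XT.nd (nat_lit 234) (nat_lit 76) (nat_lit 0) (XT.nd (nat_lit 78) (nat_lit 76) (nat_lit 0) (XT.lf (nat_lit 0) (nat_lit 282887873236) (nat_lit 152) (nat_lit 81326390185) (nat_lit 0) (nat_lit 170477568275) (nat_lit 5) (nat_lit 5) (nat_lit 7) (nat_lit 4) (nat_lit 5) (nat_lit 4) (nat_lit 263) (nat_lit 234) (nat_lit 163)) (XT.nd (nat_lit 78) (nat_lit 0) (nat_lit 0) (XT.lf (nat_lit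 0) (nat_lit 68753979714) (nat_lit 76) (nat_lit 325793662159) (nat_lit 76) (nat_lit 213382638290) (nat_lit 4) (nat_lit 4) (nat_lit 5) (nat_lit 5) (nat_lit 5) (nat_lit 4) (nat_lit 264) (nat_lit 234) (nat_lit 162)) (XT.lf (nat_lit 0) (nat_lit 246269285304) (nat_lit 76) (nat_lit 279053763356) (nat_lit 76) (nat_lit 166642114348) (nat_lit 4) (nat_lit 4) (nat_lit 5) (nat_lit 5) (nat_lit 5) (nat_lit 4) (nat_lit 265) (nat_lit 234) (nat_lit 161)))) (XT.nd (nat_lit 78) (nat_lit 76) (nat_lit 0) (XT.lf (nat_lit 0) (nat_lit 450410148544) (nat_lit 76) (nat_lit 225303698360) (nat_lit 76) (nat_lit 112891505753) (nat_lit 4) (nat_lit 4) (nat_lit 5) (nat_lit 5) (nat_lit 5) (nat_lit 4) (nat_lit 266) (nat_lit 234) (nat_lit 160)) (XT.nd (nat_lit 78) (nat_lit 76) (nat_lit 0) (XT.lf (nat_lit 0) (nat_lit 685170629802) (nat_lit 76) (nat_lit 163491835465) (nat_lit 76) (nat_lit 51079170163) (nat_lit 4) (nat_lit 4)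 (nat_lit 5) (nat_lit 5) (nat_lit 5) (nat_lit 4) (nat_lit 267) (nat_lit 234) (nat_lit 159)) (XT.lf (nat_lit 0) (nat_lit 19003569890) (nat_lit 152) (nat_lit 72885650968) (nat_lit 76) (nat_lit 935620707759) (nat_lit 3) (nat_lit 5) (nat_lit 5) (nat_lit 5) (nat_lit 4) (nat_lit 4) (nat_lit 268) (nat_lit 234) (nat_lit 158))))))))
noncomputable def xc42 : XT := (XT.nd (nat_lit 32370) (nat_lit 0) (nat_lit 152) (XT.nd (nat_lit 858) (nat_lit 0) (nat_lit 0) (XT.nd (nat_lit 390) (nat_lit 0) (nat_lit 0) (XT.nd (nat_lit 156) (nat_lit 0) (nat_lit 0) (XT.nd (nat_lit 78) (nat_lit 0) (nat_lit 0) (XT.lf (nat_lit 0) (nat_lit 93306159232) (nat_lit 76) (nat_lit 5597491247) (nat_lit 152) (nat_lit 1075247326350) (nat_lit 2) (nat_lit 5) (nat_lit 3) (nat_lit 5) (nat_lit 4) (nat_lit 4) (nat_lit 269) (nat_lit 234) (nat_lit 157)) (XT.lf (nat_lit 0) (nat_lit 195217265082) (nat_lit 152) (nat_lit 1056086171311) (nat_lit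 0) (nat_lit 91130464555) (nat_lit 2) (nat_lit 5) (nat_lit 4) (nat_lit 4) (nat_lit 2) (nat_lit 4) (nat_lit 270) (nat_lit 234) (nat_lit 156))) (XT.nd (nat_lit 78) (nat_lit 0) (nat_lit 0) (XT.lf (nat_lit 0) (nat_lit 306132232007) (nat_lit 152) (nat_lit 1027769506010) (nat_lit 0) (nat_lit 202045181234) (nat_lit 2) (nat_lit 5) (nat_lit 4) (nat_lit 4) (nat_lit 2) (nat_lit 4) (nat_lit 271) (nat_lit 234) (nat_lit 155)) (XT.nd (nat_lit 78) (nat_lit 0) (nat_lit 0) (XT.lf (nat_lit 0) (nat_lit 433684006892) (nat_lit 152) (nat_lit 995206180182) (nat_lit 0) (nat_lit 329596738515) (nat_lit 2) (nat_lit 5) (nat_lit 4) (nat_lit 4) (nat_lit 2) (nat_lit 4) (nat_lit 272) (nat_lit 234) (nat_lit 154)) (XT.lf (nat_lit 0) (nat_lit 580368167944) (nat_lit 152) (nat_lit 957759085277) (nat_lit 0) (nat_lit 476280710346) (nat_lit 2) (nat_lit 5) (nat_lit 4) (nat_lit 4) (nat_lit 2) (nat_lit 4) (nat_lit 273) (nat_lit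 234) (nat_lit 153))))) (XT.nd (nat_lit 234) (nat_lit 0) (nat_lit 0) (XT.nd (nat_lit 78) (nat_lit 0) (nat_lit 0) (XT.lf (nat_lit 0) (nat_lit 749054622661) (nat_lit 152) (nat_lit 914695560744) (nat_lit 0) (nat_lit 644967000522) (nat_lit 2) (nat_lit 5) (nat_lit 4) (nat_lit 4) (nat_lit 2) (nat_lit 4) (nat_lit 274) (nat_lit 234) (nat_lit 152)) (XT.nd (nat_lit 78) (nat_lit 0) (nat_lit 0) (XT.lf (nat_lit 0) (nat_lit 943043758200) (nat_lit 152) (nat_lit 865173059364) (nat_lit 0) (nat_lit 838955992982) (nat_lit 2) (nat_lit 5) (nat_lit 4) (nat_lit 4) (nat_lit 2) (nat_lit 4) (nat_lit 275) (nat_lit 234) (nat_lit 151)) (XT.lf (nat_lit 0) (nat_lit 1166131014169) (nat_lit 152) (nat_lit 808222662630) (nat_lit 0) (nat_lit 1062043124536) (nat_lit 2) (nat_lit 5) (nat_lit 4) (nat_lit 4) (nat_lit 2) (nat_lit 4) (nat_lit 276) (nat_lit 234) (nat_lit 150)))) (XT.nd (nat_lit 78) (nat_lit 0) (nat_lit 0) (XT.lf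 (nat_lit 0) (nat_lit 1422681141230) (nat_lit 152) (nat_lit 742730123652) (nat_lit 0) (nat_lit 1318593143409) (nat_lit 2) (nat_lit 5) (nat_lit 4) (nat_lit 4) (nat_lit 2) (nat_lit 4) (nat_lit 277) (nat_lit 234) (nat_lit 149)) (XT.nd (nat_lit 78) (nat_lit 0) (nat_lit 0) (XT.lf (nat_lit 0) (nat_lit 1717713598389) (nat_lit 152) (nat_lit 667414066665) (nat_lit 0) (nat_lit 1613625506492) (nat_lit 2) (nat_lit 5) (nat_lit 4) (nat_lit 4) (nat_lit 2) (nat_lit 4) (nat_lit 278) (nat_lit 234) (nat_lit 148)) (XT.lf (nat_lit 0) (nat_lit 2057000759809) (nat_lit 152) (nat_lit 580800916642) (nat_lit 0) (nat_lit 1952912586106) (nat_lit 2) (nat_lit 5) (nat_lit 4) (nat_lit 4) (nat_lit 2) (nat_lit 4) (nat_lit 279) (nat_lit 234) (nat_lit 147)))))) (XT.nd (nat_lit 31044) (nat_lit 0) (nat_lit 2280) (XT.nd (nat_lit 234) (nat_lit 0) (nat_lit 0) (XT.nd (nat_lit 78) (nat_lit 0) (nat_lit 0) (XT.lf (nat_lit 0) (nat_lit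 2447180852560) (nat_lit 152) (nat_lit 481196068473) (nat_lit 0) (nat_lit 2343092607722) (nat_lit 2) (nat_lit 5) (nat_lit 4) (nat_lit 4) (nat_lit 2) (nat_lit 4) (nat_lit 280) (nat_lit 234) (nat_lit 146)) (XT.nd (nat_lit 78) (nat_lit 0) (nat_lit 0) (XT.lf (nat_lit 0) (nat_lit 2895887834980) (nat_lit 152) (nat_lit 366650731652) (nat_lit 0) (nat_lit 2791799528285) (nat_lit 2) (nat_lit 5) (nat_lit 4) (nat_lit 4) (nat_lit 2) (nat_lit 4) (nat_lit 281) (nat_lit 234) (nat_lit 145)) (XT.lf (nat_lit 0) (nat_lit 3411900756723) (nat_lit 152) (nat_lit 234923801762) (nat_lit 0) (nat_lit 3307812396240) (nat_lit 2) (nat_lit 5) (nat_lit 4) (nat_lit 4) (nat_lit 2) (nat_lit 4) (nat_lit 282) (nat_lit 234) (nat_lit 144)))) (XT.nd (nat_lit 30654) (nat_lit 0) (nat_lit 3040) (XT.lf (nat_lit 0) (nat_lit 4005315522782) (nat_lit 152) (nat_lit 83438012783) (nat_lit 0) (nat_lit 3901227115526) (nat_lit 2) (nat_lit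 5) (nat_lit 4) (nat_lit 4) (nat_lit 2) (nat_lit 4) (nat_lit 283) (nat_lit 234) (nat_lit 143)) (XT.nd (nat_lit 78) (nat_lit 0) (nat_lit 76) (XT.lf (nat_lit 0) (nat_lit 8760506657) (nat_lit 532) (nat_lit 3951403492) (nat_lit 532) (nat_lit 3951403492) (nat_lit 42) (nat_lit 3) (nat_lit 49) (nat_lit 3) (nat_lit 49) (nat_lit 5) (nat_lit 235) (nat_lit 235) (nat_lit 190)) (XT.lf (nat_lit 0) (nat_lit 19478441212) (nat_lit 456) (nat_lit 14726814290) (nat_lit 532) (nat_lit 1569037897) (nat_lit 43) (nat_lit 5) (nat_lit 49) (nat_lit 5) (nat_lit 50) (nat_lit 5) (nat_lit 236) (nat_lit 235) (nat_lit 189))))) (XT.nd (nat_lit 234) (nat_lit 532) (nat_lit 0) (XT.nd (nat_lit 78) (nat_lit 304) (nat_lit 0) (XT.lf (nat_lit 76) (nat_lit 16345264314) (nat_lit 0) (nat_lit 6699323056) (nat_lit 532) (nat_lit 15439378330) (nat_lit 44) (nat_lit 5) (nat_lit 43) (nat_lit 5) (nat_lit 50) (nat_lit 5) (nat_lit 237) (nat_lit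 235) (nat_lit 188)) (XT.nd (nat_lit 78) (nat_lit 380) (nat_lit 0) (XT.lf (nat_lit 76) (nat_lit 11349299637) (nat_lit 0) (nat_lit 17093716639) (nat_lit 532) (nat_lit 13053339876) (nat_lit 45) (nat_lit 5) (nat_lit 44) (nat_lit 5) (nat_lit 51) (nat_lit 5) (nat_lit 238) (nat_lit 235) (nat_lit 187)) (XT.lf (nat_lit 0) (nat_lit 6027514455) (nat_lit 456) (nat_lit 29953950424) (nat_lit 532) (nat_lit 8872768704) (nat_lit 39) (nat_lit 5) (nat_lit 45) (nat_lit 5) (nat_lit 46) (nat_lit 5) (nat_lit 239) (nat_lit 235) (nat_lit 186)))) (XT.nd (nat_lit 78) (nat_lit 304) (nat_lit 0) (XT.lf (nat_lit 0) (nat_lit 278033927) (nat_lit 228) (nat_lit 45777348484) (nat_lit 304) (nat_lit 2548076559) (nat_lit 36) (nat_lit 5) (nat_lit 39) (nat_lit 5) (nat_lit 40) (nat_lit 5) (nat_lit 240) (nat_lit 235) (nat_lit 185)) (XT.nd (nat_lit 78) (nat_lit 228) (nat_lit 0) (XT.lf (nat_lit 0) (nat_lit 6466279047) (nat_lit 304)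 (nat_lit 6207978888) (nat_lit 76) (nat_lit 40073565762) (nat_lit 35) (nat_lit 5) (nat_lit 39) (nat_lit 5) (nat_lit 36) (nat_lit 5) (nat_lit 241) (nat_lit 235) (nat_lit 184)) (XT.lf (nat_lit 0) (nat_lit 18384012128) (nat_lit 304) (nat_lit 13698021292) (nat_lit 76) (nat_lit 25290376848) (nat_lit 32) (nat_lit 5) (nat_lit 36) (nat_lit 5) (nat_lit 33) (nat_lit 5) (nat_lit 242) (nat_lit 235) (nat_lit 183))))))) (XT.nd (nat_lit 858) (nat_lit 608) (nat_lit 0) (XT.nd (nat_lit 390) (nat_lit 608) (nat_lit 0) (XT.nd (nat_lit 156) (nat_lit 532) (nat_lit 0) (XT.nd (nat_lit 78) (nat_lit 152) (nat_lit 0) (XT.lf (nat_lit 0) (nat_lit 33752082994) (nat_lit 304) (nat_lit 22340121746) (nat_lit 76) (nat_lit 6465491715) (nat_lit 29) (nat_lit 5) (nat_lit 33) (nat_lit 5) (nat_lit 30) (nat_lit 5) (nat_lit 243) (nat_lit 235) (nat_lit 182)) (XT.lf (nat_lit 0) (nat_lit 35425952637) (nat_lit 152) (nat_lit 18140264832)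 (nat_lit 228) (nat_lit 14783312349) (nat_lit 27) (nat_lit 5) (nat_lit 29) (nat_lit 5) (nat_lit 30) (nat_lit 5) (nat_lit 244) (nat_lit 235) (nat_lit 181))) (XT.nd (nat_lit 78) (nat_lit 304) (nat_lit 0) (XT.lf (nat_lit 0) (nat_lit 3299250957) (nat_lit 228) (nat_lit 45869825750) (nat_lit 76) (nat_lit 25676571647) (nat_lit 24) (nat_lit 5) (nat_lit 27) (nat_lit 5) (nat_lit 25) (nat_lit 5) (nat_lit 245) (nat_lit 235) (nat_lit 180)) (XT.nd (nat_lit 78) (nat_lit 152) (nat_lit 0) (XT.lf (nat_lit 0) (nat_lit 19968891548) (nat_lit 152) (nat_lit 5233888760) (nat_lit 228) (nat_lit 56923988044) (nat_lit 22) (nat_lit 5) (nat_lit 24) (nat_lit 5) (nat_lit 25) (nat_lit 5) (nat_lit 246) (nat_lit 235) (nat_lit 179)) (XT.lf (nat_lit 0) (nat_lit 7300597088) (nat_lit 152) (nat_lit 45720429990) (nat_lit 228) (nat_lit 37268707920) (nat_lit 20) (nat_lit 5) (nat_lit 22) (nat_lit 5) (nat_lit 23) (nat_lit 5) (nat_lit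 247) (nat_lit 235) (nat_lit 178))))) (XT.nd (nat_lit 234) (nat_lit 304) (nat_lit 0) (XT.nd (nat_lit 78) (nat_lit 304) (nat_lit 0) (XT.lf (nat_lit 0) (nat_lit 87049507039) (nat_lit 228) (nat_lit 8831796368) (nat_lit 76) (nat_lit 3632855445) (nat_lit 20) (nat_lit 5) (nat_lit 23) (nat_lit 5) (nat_lit 21) (nat_lit 4) (nat_lit 248) (nat_lit 235) (nat_lit 177)) (XT.nd (nat_lit 78) (nat_lit 152) (nat_lit 0) (XT.lf (nat_lit 0) (nat_lit 18501917061) (nat_lit 152) (nat_lit 31201420334) (nat_lit 76) (nat_lit 60128395678) (nat_lit 18) (nat_lit 5) (nat_lit 20) (nat_lit 5) (nat_lit 19) (nat_lit 5) (nat_lit 249) (nat_lit 235) (nat_lit 176)) (XT.lf (nat_lit 0) (nat_lit 55252502722) (nat_lit 228) (nat_lit 60916224384) (nat_lit 76) (nat_lit 5352157845) (nat_lit 16) (nat_lit 5) (nat_lit 19) (nat_lit 5) (nat_lit 17) (nat_lit 4) (nat_lit 250) (nat_lit 235) (nat_lit 175)))) (XT.nd (nat_lit 78) (nat_lit 228)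 (nat_lit 0) (XT.lf (nat_lit 0) (nat_lit 33448891319) (nat_lit 76) (nat_lit 67173971313) (nat_lit 152) (nat_lit 34091979312) (nat_lit 15) (nat_lit 5) (nat_lit 16) (nat_lit 5) (nat_lit 17) (nat_lit 4) (nat_lit 251) (nat_lit 235) (nat_lit 174)) (XT.nd (nat_lit 78) (nat_lit 152) (nat_lit 0) (XT.lf (nat_lit 0) (nat_lit 4581194089) (nat_lit 152) (nat_lit 4210528694) (nat_lit 76) (nat_lit 140945301052) (nat_lit 14) (nat_lit 5) (nat_lit 16) (nat_lit 5) (nat_lit 15) (nat_lit 5) (nat_lit 252) (nat_lit 235) (nat_lit 173)) (XT.lf (nat_lit 0) (nat_lit 51283708060) (nat_lit 228) (nat_lit 56158748480) (nat_lit 76) (nat_lit 59159481854) (nat_lit 12) (nat_lit 5) (nat_lit 15) (nat_lit 5) (nat_lit 13) (nat_lit 4) (nat_lit 253) (nat_lit 235) (nat_lit 172)))))) (XT.nd (nat_lit 468) (nat_lit 228) (nat_lit 0) (XT.nd (nat_lit 234) (nat_lit 152) (nat_lit 0) (XT.nd (nat_lit 78) (nat_lit 152) (nat_lit 0) (XT.lf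 (nat_lit 0) (nat_lit 59277037270) (nat_lit 76) (nat_lit 47506176369) (nat_lit 152) (nat_lit 79070051747) (nat_lit 11) (nat_lit 5) (nat_lit 12) (nat_lit 5) (nat_lit 13) (nat_lit 4) (nat_lit 254) (nat_lit 235) (nat_lit 171)) (XT.nd (nat_lit 78) (nat_lit 152) (nat_lit 0) (XT.lf (nat_lit 0) (nat_lit 172797575592) (nat_lit 152) (nat_lit 12994928719) (nat_lit 0) (nat_lit 22024596510) (nat_lit 11) (nat_lit 5) (nat_lit 13) (nat_lit 4) (nat_lit 11) (nat_lit 4) (nat_lit 255) (nat_lit 235) (nat_lit 170)) (XT.lf (nat_lit 0) (nat_lit 19222812834) (nat_lit 152) (nat_lit 110791758908) (nat_lit 76) (nat_lit 102681531244) (nat_lit 9) (nat_lit 5) (nat_lit 11) (nat_lit 5) (nat_lit 10) (nat_lit 4) (nat_lit 256) (nat_lit 235) (nat_lit 169)))) (XT.nd (nat_lit 78) (nat_lit 76) (nat_lit 0) (XT.lf (nat_lit 0) (nat_lit 16386134619) (nat_lit 76) (nat_lit 63980828750) (nat_lit 152) (nat_lit 180800106274) (nat_lit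 8) (nat_lit 5) (nat_lit 9) (nat_lit 5) (nat_lit 10) (nat_lit 4) (nat_lit 257) (nat_lit 235) (nat_lit 168)) (XT.nd (nat_lit 78) (nat_lit 76) (nat_lit 0) (XT.lf (nat_lit 0) (nat_lit 154277656953) (nat_lit 152) (nat_lit 124675809222) (nat_lit 0) (nat_lit 14667623819) (nat_lit 8) (nat_lit 5) (nat_lit 10) (nat_lit 4) (nat_lit 8) (nat_lit 4) (nat_lit 258) (nat_lit 235) (nat_lit 167)) (XT.lf (nat_lit 0) (nat_lit 12286934308) (nat_lit 76) (nat_lit 229051304734) (nat_lit 76) (nat_lit 89439913633) (nat_lit 7) (nat_lit 4) (nat_lit 8) (nat_lit 5) (nat_lit 8) (nat_lit 4) (nat_lit 259) (nat_lit 235) (nat_lit 166))))) (XT.nd (nat_lit 234) (nat_lit 76) (nat_lit 0) (XT.nd (nat_lit 78) (nat_lit 152) (nat_lit 0) (XT.lf (nat_lit 0) (nat_lit 177341110200) (nat_lit 76) (nat_lit 167744991406) (nat_lit 76) (nat_lit 28132419463) (nat_lit 7) (nat_lit 4) (nat_lit 8) (nat_lit 5) (nat_lit 8) (nat_lit 4) (nat_lit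 260) (nat_lit 235) (nat_lit 165)) (XT.nd (nat_lit 78) (nat_lit 76) (nat_lit 0) (XT.lf (nat_lit 0) (nat_lit 40250183038) (nat_lit 152) (nat_lit 55893218040) (nat_lit 76) (nat_lit 325800137744) (nat_lit 6) (nat_lit 5) (nat_lit 8) (nat_lit 5) (nat_lit 7) (nat_lit 4) (nat_lit 261) (nat_lit 235) (nat_lit 164)) (XT.lf (nat_lit 0) (nat_lit 109800905725) (nat_lit 76) (nat_lit 10110343011) (nat_lit 152) (nat_lit 357792658685) (nat_lit 5) (nat_lit 5) (nat_lit 6) (nat_lit 5) (nat_lit 7) (nat_lit 4) (nat_lit 262) (nat_lit 235) (nat_lit 163)))) (XT.nd (nat_lit 78) (nat_lit 76) (nat_lit 0) (XT.lf (nat_lit 0) (nat_lit 215326158826) (nat_lit 152) (nat_lit 240145036328) (nat_lit 0) (nat_lit 86052762467) (nat_lit 5) (nat_lit 5) (nat_lit 7) (nat_lit 4) (nat_lit 5) (nat_lit 4) (nat_lit 263) (nat_lit 235) (nat_lit 162)) (XT.nd (nat_lit 78) (nat_lit 76) (nat_lit 0) (XT.lf (nat_lit 0) (nat_lit 325331923101)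 (nat_lit 152) (nat_lit 93504902168) (nat_lit 0) (nat_lit 196057901603) (nat_lit 5) (nat_lit 5) (nat_lit 7) (nat_lit 4) (nat_lit 5) (nat_lit 4) (nat_lit 264) (nat_lit 235) (nat_lit 161)) (XT.lf (nat_lit 0) (nat_lit 79085792517) (nat_lit 76) (nat_lit 374653896954) (nat_lit 76) (nat_lit 245379331857) (nat_lit 4) (nat_lit 4) (nat_lit 5) (nat_lit 5) (nat_lit 5) (nat_lit 4) (nat_lit 265) (nat_lit 235) (nat_lit 160))))))))
noncomputable def xc43 : XT := (XT.nd (nat_lit 32448) (nat_lit 0) (nat_lit 228) (XT.nd (nat_lit 858) (nat_lit 0) (nat_lit 0) (XT.nd (nat_lit 390) (nat_lit 0) (nat_lit 0) (XT.nd (nat_lit 156) (nat_lit 152) (nat_lit 0) (XT.nd (nat_lit 78) (nat_lit 0) (nat_lit 0) (XT.lf (nat_lit 0) (nat_lit 283225952749) (nat_lit 76) (nat_lit 320904163051) (nat_lit 76) (nat_lit 191629125260) (nat_lit 4) (nat_lit 4) (nat_lit 5) (nat_lit 5) (nat_lit 5) (nat_lit 4) (nat_lit 266) (nat_lit 235) (nat_lit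 159)) (XT.lf (nat_lit 0) (nat_lit 517985822694) (nat_lit 76) (nat_lit 259092588064) (nat_lit 76) (nat_lit 129817139233) (nat_lit 4) (nat_lit 4) (nat_lit 5) (nat_lit 5) (nat_lit 5) (nat_lit 4) (nat_lit 267) (nat_lit 235) (nat_lit 158))) (XT.nd (nat_lit 78) (nat_lit 152) (nat_lit 0) (XT.lf (nat_lit 0) (nat_lit 787958530244) (nat_lit 76) (nat_lit 188009815089) (nat_lit 76) (nat_lit 58734008833) (nat_lit 4) (nat_lit 4) (nat_lit 5) (nat_lit 5) (nat_lit 5) (nat_lit 4) (nat_lit 268) (nat_lit 235) (nat_lit 157)) (XT.nd (nat_lit 78) (nat_lit 76) (nat_lit 0) (XT.lf (nat_lit 0) (nat_lit 21859918280) (nat_lit 152) (nat_lit 83807487036) (nat_lit 76) (nat_lit 1075968542927) (nat_lit 3) (nat_lit 5) (nat_lit 5) (nat_lit 5) (nat_lit 4) (nat_lit 4) (nat_lit 269) (nat_lit 235) (nat_lit 156)) (XT.lf (nat_lit 0) (nat_lit 107312162619) (nat_lit 76) (nat_lit 6432332545) (nat_lit 152) (nat_lit 1236528700389)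 (nat_lit 2) (nat_lit 5) (nat_lit 3) (nat_lit 5) (nat_lit 4) (nat_lit 4) (nat_lit 270) (nat_lit 235) (nat_lit 155))))) (XT.nd (nat_lit 234) (nat_lit 0) (nat_lit 0) (XT.nd (nat_lit 78) (nat_lit 0) (nat_lit 0) (XT.lf (nat_lit 0) (nat_lit 224504561045) (nat_lit 152) (nat_lit 1214490060238) (nat_lit 0) (nat_lit 104803984807) (nat_lit 2) (nat_lit 5) (nat_lit 4) (nat_lit 4) (nat_lit 2) (nat_lit 4) (nat_lit 271) (nat_lit 235) (nat_lit 154)) (XT.nd (nat_lit 78) (nat_lit 0) (nat_lit 0) (XT.lf (nat_lit 0) (nat_lit 352056159156) (nat_lit 152) (nat_lit 1181927073851) (nat_lit 0) (nat_lit 232355393696) (nat_lit 2) (nat_lit 5) (nat_lit 4) (nat_lit 4) (nat_lit 2) (nat_lit 4) (nat_lit 272) (nat_lit 235) (nat_lit 153)) (XT.lf (nat_lit 0) (nat_lit 498740166490) (nat_lit 152) (nat_lit 1144480274113) (nat_lit 0) (nat_lit 379039236490) (nat_lit 2) (nat_lit 5) (nat_lit 4) (nat_lit 4) (nat_lit 2) (nat_lit 4)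 (nat_lit 273) (nat_lit 235) (nat_lit 152)))) (XT.nd (nat_lit 78) (nat_lit 0) (nat_lit 0) (XT.lf (nat_lit 0) (nat_lit 667426487539) (nat_lit 152) (nat_lit 1101417006246) (nat_lit 0) (nat_lit 547725414461) (nat_lit 2) (nat_lit 5) (nat_lit 4) (nat_lit 4) (nat_lit 2) (nat_lit 4) (nat_lit 274) (nat_lit 235) (nat_lit 151)) (XT.nd (nat_lit 78) (nat_lit 0) (nat_lit 0) (XT.lf (nat_lit 0) (nat_lit 861415506845) (nat_lit 152) (nat_lit 1051894728054) (nat_lit 0) (nat_lit 741714309351) (nat_lit 2) (nat_lit 5) (nat_lit 4) (nat_lit 4) (nat_lit 2) (nat_lit 4) (nat_lit 275) (nat_lit 235) (nat_lit 150)) (XT.lf (nat_lit 0) (nat_lit 1084502661743) (nat_lit 152) (nat_lit 994944525397) (nat_lit 0) (nat_lit 964801356061) (nat_lit 2) (nat_lit 5) (nat_lit 4) (nat_lit 4) (nat_lit 2) (nat_lit 4) (nat_lit 276) (nat_lit 235) (nat_lit 149)))))) (XT.nd (nat_lit 468) (nat_lit 0) (nat_lit 0) (XT.nd (nat_lit 234) (nat_lit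 0) (nat_lit 0) (XT.nd (nat_lit 78) (nat_lit 0) (nat_lit 0) (XT.lf (nat_lit 0) (nat_lit 1341052700915) (nat_lit 152) (nat_lit 929452155180) (nat_lit 0) (nat_lit 1221351301156) (nat_lit 2) (nat_lit 5) (nat_lit 4) (nat_lit 4) (nat_lit 2) (nat_lit 4) (nat_lit 277) (nat_lit 235) (nat_lit 148)) (XT.nd (nat_lit 78) (nat_lit 0) (nat_lit 0) (XT.lf (nat_lit 0) (nat_lit 1636085081649) (nat_lit 152) (nat_lit 854136244943) (nat_lit 0) (nat_lit 1516383600085) (nat_lit 2) (nat_lit 5) (nat_lit 4) (nat_lit 4) (nat_lit 2) (nat_lit 4) (nat_lit 278) (nat_lit 235) (nat_lit 147)) (XT.lf (nat_lit 0) (nat_lit 1975372176612) (nat_lit 152) (nat_lit 767523222528) (nat_lit 0) (nat_lit 1855670623913) (nat_lit 2) (nat_lit 5) (nat_lit 4) (nat_lit 4) (nat_lit 2) (nat_lit 4) (nat_lit 279) (nat_lit 235) (nat_lit 146)))) (XT.nd (nat_lit 78) (nat_lit 0) (nat_lit 0) (XT.lf (nat_lit 0) (nat_lit 2365552211576) (nat_lit 152)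 (nat_lit 667918485324) (nat_lit 0) (nat_lit 2245850597020) (nat_lit 2) (nat_lit 5) (nat_lit 4) (nat_lit 4) (nat_lit 2) (nat_lit 4) (nat_lit 280) (nat_lit 235) (nat_lit 145)) (XT.nd (nat_lit 78) (nat_lit 0) (nat_lit 0) (XT.lf (nat_lit 0) (nat_lit 2814259143745) (nat_lit 152) (nat_lit 553373244993) (nat_lit 0) (nat_lit 2694557475400) (nat_lit 2) (nat_lit 5) (nat_lit 4) (nat_lit 4) (nat_lit 2) (nat_lit 4) (nat_lit 281) (nat_lit 235) (nat_lit 144)) (XT.lf (nat_lit 0) (nat_lit 3330272021792) (nat_lit 152) (nat_lit 421646399008) (nat_lit 0) (nat_lit 3210570306675) (nat_lit 2) (nat_lit 5) (nat_lit 4) (nat_lit 4) (nat_lit 2) (nat_lit 4) (nat_lit 282) (nat_lit 235) (nat_lit 143))))) (XT.nd (nat_lit 30888) (nat_lit 0) (nat_lit 2812) (XT.nd (nat_lit 30732) (nat_lit 0) (nat_lit 3040) (XT.lf (nat_lit 0) (nat_lit 3923686749855) (nat_lit 152) (nat_lit 270160682989) (nat_lit 0) (nat_lit 3803984994066)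 (nat_lit 2) (nat_lit 5) (nat_lit 4) (nat_lit 4) (nat_lit 2) (nat_lit 4) (nat_lit 283) (nat_lit 235) (nat_lit 142)) (XT.nd (nat_lit 78) (nat_lit 0) (nat_lit 76) (XT.lf (nat_lit 0) (nat_lit 10166996007) (nat_lit 532) (nat_lit 4494036928) (nat_lit 532) (nat_lit 4494036928) (nat_lit 42) (nat_lit 3) (nat_lit 49) (nat_lit 3) (nat_lit 49) (nat_lit 5) (nat_lit 236) (nat_lit 236) (nat_lit 188)) (XT.lf (nat_lit 0) (nat_lit 22561417597) (nat_lit 456) (nat_lit 16828807629) (nat_lit 532) (nat_lit 1736710574) (nat_lit 43) (nat_lit 5) (nat_lit 49) (nat_lit 5) (nat_lit 50) (nat_lit 5) (nat_lit 237) (nat_lit 236) (nat_lit 187)))) (XT.nd (nat_lit 78) (nat_lit 304) (nat_lit 0) (XT.lf (nat_lit 76) (nat_lit 18895023311) (nat_lit 0) (nat_lit 7748791117) (nat_lit 532) (nat_lit 17600817107) (nat_lit 44) (nat_lit 5) (nat_lit 43) (nat_lit 5) (nat_lit 50) (nat_lit 5) (nat_lit 238) (nat_lit 236) (nat_lit 186)) (XT.nd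 (nat_lit 78) (nat_lit 380) (nat_lit 0) (XT.lf (nat_lit 76) (nat_lit 13153271773) (nat_lit 0) (nat_lit 19681654705) (nat_lit 532) (nat_lit 14875389166) (nat_lit 45) (nat_lit 5) (nat_lit 44) (nat_lit 5) (nat_lit 51) (nat_lit 5) (nat_lit 239) (nat_lit 236) (nat_lit 185)) (XT.lf (nat_lit 0) (nat_lit 7034752196) (nat_lit 456) (nat_lit 34455006516) (nat_lit 532) (nat_lit 10083326320) (nat_lit 39) (nat_lit 5) (nat_lit 45) (nat_lit 5) (nat_lit 46) (nat_lit 5) (nat_lit 240) (nat_lit 236) (nat_lit 184))))))) (XT.nd (nat_lit 858) (nat_lit 836) (nat_lit 0) (XT.nd (nat_lit 390) (nat_lit 836) (nat_lit 0) (XT.nd (nat_lit 156) (nat_lit 608) (nat_lit 0) (XT.nd (nat_lit 78) (nat_lit 76) (nat_lit 0) (XT.lf (nat_lit 0) (nat_lit 422794883) (nat_lit 228) (nat_lit 52639793019) (nat_lit 304) (nat_lit 2823132271) (nat_lit 36) (nat_lit 5) (nat_lit 39) (nat_lit 5) (nat_lit 40) (nat_lit 5) (nat_lit 241) (nat_lit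 236) (nat_lit 183)) (XT.lf (nat_lit 0) (nat_lit 7524738648) (nat_lit 304) (nat_lit 7044622321) (nat_lit 76) (nat_lit 46083276448) (nat_lit 35) (nat_lit 5) (nat_lit 39) (nat_lit 5) (nat_lit 36) (nat_lit 5) (nat_lit 242) (nat_lit 236) (nat_lit 182))) (XT.nd (nat_lit 78) (nat_lit 380) (nat_lit 0) (XT.lf (nat_lit 0) (nat_lit 21220847716) (nat_lit 304) (nat_lit 15659788471) (nat_lit 76) (nat_lit 29091054819) (nat_lit 32) (nat_lit 5) (nat_lit 36) (nat_lit 5) (nat_lit 33) (nat_lit 5) (nat_lit 243) (nat_lit 236) (nat_lit 181)) (XT.nd (nat_lit 78) (nat_lit 152) (nat_lit 0) (XT.lf (nat_lit 0) (nat_lit 38886179992) (nat_lit 304) (nat_lit 25600524151) (nat_lit 76) (nat_lit 7448733495) (nat_lit 29) (nat_lit 5) (nat_lit 33) (nat_lit 5) (nat_lit 30) (nat_lit 5) (nat_lit 244) (nat_lit 236) (nat_lit 180)) (XT.lf (nat_lit 0) (nat_lit 40822791208) (nat_lit 152) (nat_lit 20842340290) (nat_lit 228) (nat_lit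 16931526217) (nat_lit 27) (nat_lit 5) (nat_lit 29) (nat_lit 5) (nat_lit 30) (nat_lit 5) (nat_lit 245) (nat_lit 236) (nat_lit 179))))) (XT.nd (nat_lit 234) (nat_lit 304) (nat_lit 0) (XT.nd (nat_lit 78) (nat_lit 304) (nat_lit 0) (XT.lf (nat_lit 0) (nat_lit 3853760684) (nat_lit 228) (nat_lit 52666652551) (nat_lit 76) (nat_lit 29547165212) (nat_lit 24) (nat_lit 5) (nat_lit 27) (nat_lit 5) (nat_lit 25) (nat_lit 5) (nat_lit 246) (nat_lit 236) (nat_lit 178)) (XT.nd (nat_lit 78) (nat_lit 152) (nat_lit 0) (XT.lf (nat_lit 0) (nat_lit 23040792036) (nat_lit 152) (nat_lit 5996092042) (nat_lit 228) (nat_lit 65404476423) (nat_lit 22) (nat_lit 5) (nat_lit 24) (nat_lit 5) (nat_lit 25) (nat_lit 5) (nat_lit 247) (nat_lit 236) (nat_lit 177)) (XT.lf (nat_lit 0) (nat_lit 8469317436) (nat_lit 152) (nat_lit 52553797125) (nat_lit 228) (nat_lit 42806054564) (nat_lit 20) (nat_lit 5) (nat_lit 22) (nat_lit 5) (nat_lit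 23) (nat_lit 5) (nat_lit 248) (nat_lit 236) (nat_lit 176)))) (XT.nd (nat_lit 78) (nat_lit 304) (nat_lit 0) (XT.lf (nat_lit 0) (nat_lit 100150000393) (nat_lit 228) (nat_lit 10089554574) (nat_lit 76) (nat_lit 4198185416) (nat_lit 20) (nat_lit 5) (nat_lit 23) (nat_lit 5) (nat_lit 21) (nat_lit 4) (nat_lit 249) (nat_lit 236) (nat_lit 175)) (XT.nd (nat_lit 78) (nat_lit 152) (nat_lit 0) (XT.lf (nat_lit 0) (nat_lit 21317220747) (nat_lit 152) (nat_lit 35818109095) (nat_lit 76) (nat_lit 69167883871) (nat_lit 18) (nat_lit 5) (nat_lit 20) (nat_lit 5) (nat_lit 19) (nat_lit 5) (nat_lit 250) (nat_lit 236) (nat_lit 174)) (XT.lf (nat_lit 0) (nat_lit 63577101157) (nat_lit 228) (nat_lit 69993075260) (nat_lit 76) (nat_lit 6175835582) (nat_lit 16) (nat_lit 5) (nat_lit 19) (nat_lit 5) (nat_lit 17) (nat_lit 4) (nat_lit 251) (nat_lit 236) (nat_lit 173)))))) (XT.nd (nat_lit 468) (nat_lit 304) (nat_lit 0) (XT.nd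 (nat_lit 234) (nat_lit 228) (nat_lit 0) (XT.nd (nat_lit 78) (nat_lit 228) (nat_lit 0) (XT.lf (nat_lit 0) (nat_lit 38521679768) (nat_lit 76) (nat_lit 77227879013) (nat_lit 152) (nat_lit 39169789112) (nat_lit 15) (nat_lit 5) (nat_lit 16) (nat_lit 5) (nat_lit 17) (nat_lit 4) (nat_lit 252) (nat_lit 236) (nat_lit 172)) (XT.nd (nat_lit 78) (nat_lit 152) (nat_lit 0) (XT.lf (nat_lit 0) (nat_lit 5298100921) (nat_lit 152) (nat_lit 4792273561) (nat_lit 76) (nat_lit 162104777205) (nat_lit 14) (nat_lit 5) (nat_lit 16) (nat_lit 5) (nat_lit 15) (nat_lit 5) (nat_lit 253) (nat_lit 236) (nat_lit 171)) (XT.lf (nat_lit 0) (nat_lit 59003660518) (nat_lit 228) (nat_lit 64535196449) (nat_lit 76) (nat_lit 68051139175) (nat_lit 12) (nat_lit 5) (nat_lit 15) (nat_lit 5) (nat_lit 13) (nat_lit 4) (nat_lit 254) (nat_lit 236) (nat_lit 170)))) (XT.nd (nat_lit 78) (nat_lit 152) (nat_lit 0) (XT.lf (nat_lit 0) (nat_lit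 68211948010) (nat_lit 76) (nat_lit 54613613193) (nat_lit 152) (nat_lit 90903668828) (nat_lit 11) (nat_lit 5) (nat_lit 12) (nat_lit 5) (nat_lit 13) (nat_lit 4) (nat_lit 255) (nat_lit 236) (nat_lit 169)) (XT.nd (nat_lit 78) (nat_lit 152) (nat_lit 0) (XT.lf (nat_lit 0) (nat_lit 198739220796) (nat_lit 152) (nat_lit 14905093560) (nat_lit 0) (nat_lit 25343559643) (nat_lit 11) (nat_lit 5) (nat_lit 13) (nat_lit 4) (nat_lit 11) (nat_lit 4) (nat_lit 256) (nat_lit 236) (nat_lit 168)) (XT.lf (nat_lit 0) (nat_lit 22126778340) (nat_lit 152) (nat_lit 127373648798) (nat_lit 76) (nat_lit 118098422659) (nat_lit 9) (nat_lit 5) (nat_lit 11) (nat_lit 5) (nat_lit 10) (nat_lit 4) (nat_lit 257) (nat_lit 236) (nat_lit 167))))) (XT.nd (nat_lit 234) (nat_lit 152) (nat_lit 0) (XT.nd (nat_lit 78) (nat_lit 76) (nat_lit 0) (XT.lf (nat_lit 0) (nat_lit 18877807561) (nat_lit 76) (nat_lit 73562876050) (nat_lit 152) (nat_lit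 207899930549) (nat_lit 8) (nat_lit 5) (nat_lit 9) (nat_lit 5) (nat_lit 10) (nat_lit 4) (nat_lit 258) (nat_lit 236) (nat_lit 166)) (XT.nd (nat_lit 78) (nat_lit 76) (nat_lit 0) (XT.lf (nat_lit 0) (nat_lit 177435860575) (nat_lit 152) (nat_lit 143346827496) (nat_lit 0) (nat_lit 16880222000) (nat_lit 8) (nat_lit 5) (nat_lit 10) (nat_lit 4) (nat_lit 8) (nat_lit 4) (nat_lit 259) (nat_lit 236) (nat_lit 165)) (XT.lf (nat_lit 0) (nat_lit 14157758324) (nat_lit 76) (nat_lit 263396280497) (nat_lit 76) (nat_lit 102839615104) (nat_lit 7) (nat_lit 4) (nat_lit 8) (nat_lit 5) (nat_lit 8) (nat_lit 4) (nat_lit 260) (nat_lit 236) (nat_lit 164)))) (XT.nd (nat_lit 78) (nat_lit 152) (nat_lit 0) (XT.lf (nat_lit 0) (nat_lit 203966436616) (nat_lit 76) (nat_lit 192895679294) (nat_lit 76) (nat_lit 32338121015) (nat_lit 7) (nat_lit 4) (nat_lit 8) (nat_lit 5) (nat_lit 8) (nat_lit 4) (nat_lit 261) (nat_lit 236) (nat_lit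 163)) (XT.nd (nat_lit 78) (nat_lit 76) (nat_lit 0) (XT.lf (nat_lit 0) (nat_lit 46299408719) (nat_lit 152) (nat_lit 64255564564) (nat_lit 76) (nat_lit 374679148927) (nat_lit 6) (nat_lit 5) (nat_lit 8) (nat_lit 5) (nat_lit 7) (nat_lit 4) (nat_lit 262) (nat_lit 236) (nat_lit 162)) (XT.lf (nat_lit 0) (nat_lit 126290846371) (nat_lit 76) (nat_lit 11617738350) (nat_lit 152) (nat_lit 411450046851) (nat_lit 5) (nat_lit 5) (nat_lit 6) (nat_lit 5) (nat_lit 7) (nat_lit 4) (nat_lit 263) (nat_lit 236) (nat_lit 161))))))))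
noncomputable def xc44 : XT := (XT.nd (nat_lit 32526) (nat_lit 0) (nat_lit 380) (XT.nd (nat_lit 858) (nat_lit 0) (nat_lit 0) (XT.nd (nat_lit 390) (nat_lit 152) (nat_lit 0) (XT.nd (nat_lit 156) (nat_lit 76) (nat_lit 0) (XT.nd (nat_lit 78) (nat_lit 0) (nat_lit 0) (XT.lf (nat_lit 0) (nat_lit 247634533850) (nat_lit 152) (nat_lit 276149012173) (nat_lit 0) (nat_lit 98968240390) (nat_lit 5) (nat_lit 5) (nat_lit 7) (nat_lit 4) (nat_lit 5) (nat_lit 4) (nat_lit 264) (nat_lit 236) (nat_lit 160)) (XT.lf (nat_lit 0) (nat_lit 374139930001) (nat_lit 152) (nat_lit 107515176969) (nat_lit 0) (nat_lit 225473163846) (nat_lit 5) (nat_lit 5) (nat_lit 7) (nat_lit 4) (nat_lit 5) (nat_lit 4) (nat_lit 265) (nat_lit 236) (nat_lit 159))) (XT.nd (nat_lit 78) (nat_lit 0) (nat_lit 0) (XT.lf (nat_lit 0) (nat_lit 90962813264) (nat_lit 76) (nat_lit 430845316447) (nat_lit 76) (nat_lit 282178139253) (nat_lit 4) (nat_lit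 4) (nat_lit 5) (nat_lit 5) (nat_lit 5) (nat_lit 4) (nat_lit 266) (nat_lit 236) (nat_lit 158)) (XT.nd (nat_lit 78) (nat_lit 0) (nat_lit 0) (XT.lf (nat_lit 0) (nat_lit 325722151634) (nat_lit 76) (nat_lit 369033991813) (nat_lit 76) (nat_lit 220366457194) (nat_lit 4) (nat_lit 4) (nat_lit 5) (nat_lit 5) (nat_lit 5) (nat_lit 4) (nat_lit 267) (nat_lit 236) (nat_lit 157)) (XT.lf (nat_lit 0) (nat_lit 595694396944) (nat_lit 76) (nat_lit 297951436537) (nat_lit 76) (nat_lit 149283591114) (nat_lit 4) (nat_lit 4) (nat_lit 5) (nat_lit 5) (nat_lit 5) (nat_lit 4) (nat_lit 268) (nat_lit 236) (nat_lit 156))))) (XT.nd (nat_lit 234) (nat_lit 0) (nat_lit 0) (XT.nd (nat_lit 78) (nat_lit 152) (nat_lit 0) (XT.lf (nat_lit 0) (nat_lit 906161614864) (nat_lit 76) (nat_lit 216206904973) (nat_lit 76) (nat_lit 67538789285) (nat_lit 4) (nat_lit 4) (nat_lit 5) (nat_lit 5) (nat_lit 5) (nat_lit 4) (nat_lit 269) (nat_lit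 236) (nat_lit 155)) (XT.nd (nat_lit 78) (nat_lit 76) (nat_lit 0) (XT.lf (nat_lit 0) (nat_lit 25143301415) (nat_lit 152) (nat_lit 96370283756) (nat_lit 76) (nat_lit 1237367400172) (nat_lit 3) (nat_lit 5) (nat_lit 5) (nat_lit 5) (nat_lit 4) (nat_lit 4) (nat_lit 270) (nat_lit 236) (nat_lit 154)) (XT.lf (nat_lit 0) (nat_lit 123416608564) (nat_lit 76) (nat_lit 7393566254) (nat_lit 152) (nat_lit 1422003676591) (nat_lit 2) (nat_lit 5) (nat_lit 3) (nat_lit 5) (nat_lit 4) (nat_lit 4) (nat_lit 271) (nat_lit 236) (nat_lit 153)))) (XT.nd (nat_lit 78) (nat_lit 0) (nat_lit 0) (XT.lf (nat_lit 0) (nat_lit 258183803766) (nat_lit 152) (nat_lit 1396656736178) (nat_lit 0) (nat_lit 120527569726) (nat_lit 2) (nat_lit 5) (nat_lit 4) (nat_lit 4) (nat_lit 2) (nat_lit 4) (nat_lit 272) (nat_lit 236) (nat_lit 152)) (XT.nd (nat_lit 78) (nat_lit 0) (nat_lit 0) (XT.lf (nat_lit 0) (nat_lit 404867677432) (nat_lit 152)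 (nat_lit 1359210193106) (nat_lit 0) (nat_lit 267211300314) (nat_lit 2) (nat_lit 5) (nat_lit 4) (nat_lit 4) (nat_lit 2) (nat_lit 4) (nat_lit 273) (nat_lit 236) (nat_lit 151)) (XT.lf (nat_lit 0) (nat_lit 573553882249) (nat_lit 152) (nat_lit 1316147148427) (nat_lit 0) (nat_lit 435897380714) (nat_lit 2) (nat_lit 5) (nat_lit 4) (nat_lit 4) (nat_lit 2) (nat_lit 4) (nat_lit 274) (nat_lit 236) (nat_lit 150)))))) (XT.nd (nat_lit 468) (nat_lit 0) (nat_lit 0) (XT.nd (nat_lit 234) (nat_lit 0) (nat_lit 0) (XT.nd (nat_lit 78) (nat_lit 0) (nat_lit 0) (XT.lf (nat_lit 0) (nat_lit 767542800483) (nat_lit 152) (nat_lit 1266625064312) (nat_lit 0) (nat_lit 629886190761) (nat_lit 2) (nat_lit 5) (nat_lit 4) (nat_lit 4) (nat_lit 2) (nat_lit 4) (nat_lit 275) (nat_lit 236) (nat_lit 149)) (XT.nd (nat_lit 78) (nat_lit 0) (nat_lit 0) (XT.lf (nat_lit 0) (nat_lit 990629867492) (nat_lit 152) (nat_lit 1209675030417) (nat_lit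 0) (nat_lit 852973163694) (nat_lit 2) (nat_lit 5) (nat_lit 4) (nat_lit 4) (nat_lit 2) (nat_lit 4) (nat_lit 276) (nat_lit 236) (nat_lit 148)) (XT.lf (nat_lit 0) (nat_lit 1247179830239) (nat_lit 152) (nat_lit 1144182806950) (nat_lit 0) (nat_lit 1109523044635) (nat_lit 2) (nat_lit 5) (nat_lit 4) (nat_lit 4) (nat_lit 2) (nat_lit 4) (nat_lit 277) (nat_lit 236) (nat_lit 147)))) (XT.nd (nat_lit 78) (nat_lit 0) (nat_lit 0) (XT.lf (nat_lit 0) (nat_lit 1542212144517) (nat_lit 152) (nat_lit 1068867024321) (nat_lit 0) (nat_lit 1404555287778) (nat_lit 2) (nat_lit 5) (nat_lit 4) (nat_lit 4) (nat_lit 2) (nat_lit 4) (nat_lit 278) (nat_lit 236) (nat_lit 146)) (XT.nd (nat_lit 78) (nat_lit 0) (nat_lit 0) (XT.lf (nat_lit 0) (nat_lit 1881499181692) (nat_lit 152) (nat_lit 982254112871) (nat_lit 0) (nat_lit 1743842263096) (nat_lit 2) (nat_lit 5) (nat_lit 4) (nat_lit 4) (nat_lit 2) (nat_lit 4) (nat_lit 279)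 (nat_lit 236) (nat_lit 145)) (XT.lf (nat_lit 0) (nat_lit 2271679166405) (nat_lit 152) (nat_lit 882649472156) (nat_lit 0) (nat_lit 2134022194021) (nat_lit 2) (nat_lit 5) (nat_lit 4) (nat_lit 4) (nat_lit 2) (nat_lit 4) (nat_lit 280) (nat_lit 236) (nat_lit 144))))) (XT.nd (nat_lit 30966) (nat_lit 0) (nat_lit 3040) (XT.nd (nat_lit 78) (nat_lit 0) (nat_lit 0) (XT.lf (nat_lit 0) (nat_lit 2720386054878) (nat_lit 152) (nat_lit 768104315730) (nat_lit 0) (nat_lit 2582729035721) (nat_lit 2) (nat_lit 5) (nat_lit 4) (nat_lit 4) (nat_lit 2) (nat_lit 4) (nat_lit 281) (nat_lit 236) (nat_lit 143)) (XT.nd (nat_lit 78) (nat_lit 0) (nat_lit 0) (XT.lf (nat_lit 0) (nat_lit 3236398894929) (nat_lit 152) (nat_lit 636377542705) (nat_lit 0) (nat_lit 3098741835100) (nat_lit 2) (nat_lit 5) (nat_lit 4) (nat_lit 4) (nat_lit 2) (nat_lit 4) (nat_lit 282) (nat_lit 236) (nat_lit 142)) (XT.lf (nat_lit 0) (nat_lit 3829813589951)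 (nat_lit 152) (nat_lit 484891890131) (nat_lit 0) (nat_lit 3692156494755) (nat_lit 2) (nat_lit 5) (nat_lit 4) (nat_lit 4) (nat_lit 2) (nat_lit 4) (nat_lit 283) (nat_lit 236) (nat_lit 141)))) (XT.nd (nat_lit 78) (nat_lit 0) (nat_lit 76) (XT.lf (nat_lit 0) (nat_lit 11761923179) (nat_lit 532) (nat_lit 5130276994) (nat_lit 532) (nat_lit 5130276994) (nat_lit 42) (nat_lit 3) (nat_lit 49) (nat_lit 3) (nat_lit 49) (nat_lit 5) (nat_lit 237) (nat_lit 237) (nat_lit 186)) (XT.nd (nat_lit 78) (nat_lit 0) (nat_lit 0) (XT.lf (nat_lit 0) (nat_lit 26067528312) (nat_lit 456) (nat_lit 19272199620) (nat_lit 532) (nat_lit 1946039083) (nat_lit 43) (nat_lit 5) (nat_lit 49) (nat_lit 5) (nat_lit 50) (nat_lit 5) (nat_lit 238) (nat_lit 237) (nat_lit 185)) (XT.lf (nat_lit 76) (nat_lit 21803355711) (nat_lit 0) (nat_lit 8944810806) (nat_lit 532) (nat_lit 20124139693) (nat_lit 44) (nat_lit 5) (nat_lit 43) (nat_lit 5)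 (nat_lit 50) (nat_lit 5) (nat_lit 239) (nat_lit 237) (nat_lit 184))))))) (XT.nd (nat_lit 858) (nat_lit 988) (nat_lit 0) (XT.nd (nat_lit 390) (nat_lit 912) (nat_lit 0) (XT.nd (nat_lit 156) (nat_lit 532) (nat_lit 0) (XT.nd (nat_lit 78) (nat_lit 380) (nat_lit 0) (XT.lf (nat_lit 76) (nat_lit 15203069488) (nat_lit 0) (nat_lit 22651960053) (nat_lit 532) (nat_lit 17003898531) (nat_lit 45) (nat_lit 5) (nat_lit 44) (nat_lit 5) (nat_lit 51) (nat_lit 5) (nat_lit 240) (nat_lit 237) (nat_lit 183)) (XT.lf (nat_lit 0) (nat_lit 8167931433) (nat_lit 456) (nat_lit 39629279065) (nat_lit 532) (nat_lit 11504817563) (nat_lit 39) (nat_lit 5) (nat_lit 45) (nat_lit 5) (nat_lit 46) (nat_lit 5) (nat_lit 241) (nat_lit 237) (nat_lit 182))) (XT.nd (nat_lit 78) (nat_lit 304) (nat_lit 0) (XT.lf (nat_lit 0) (nat_lit 564139157) (nat_lit 228) (nat_lit 60532618124) (nat_lit 304) (nat_lit 3165576954) (nat_lit 36) (nat_lit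 5) (nat_lit 39) (nat_lit 5) (nat_lit 40) (nat_lit 5) (nat_lit 242) (nat_lit 237) (nat_lit 181)) (XT.nd (nat_lit 78) (nat_lit 228) (nat_lit 0) (XT.lf (nat_lit 0) (nat_lit 8720381576) (nat_lit 304) (nat_lit 8029819714) (nat_lit 76) (nat_lit 52994766646) (nat_lit 35) (nat_lit 5) (nat_lit 39) (nat_lit 5) (nat_lit 36) (nat_lit 5) (nat_lit 243) (nat_lit 237) (nat_lit 180)) (XT.lf (nat_lit 0) (nat_lit 24463886985) (nat_lit 304) (nat_lit 17938483763) (nat_lit 76) (nat_lit 33460097877) (nat_lit 32) (nat_lit 5) (nat_lit 36) (nat_lit 5) (nat_lit 33) (nat_lit 5) (nat_lit 244) (nat_lit 237) (nat_lit 179))))) (XT.nd (nat_lit 234) (nat_lit 304) (nat_lit 0) (XT.nd (nat_lit 78) (nat_lit 380) (nat_lit 0) (XT.lf (nat_lit 0) (nat_lit 44773008350) (nat_lit 304) (nat_lit 29372084168) (nat_lit 76) (nat_lit 8576189472) (nat_lit 29) (nat_lit 5) (nat_lit 33) (nat_lit 5) (nat_lit 30) (nat_lit 5) (nat_lit 245) (nat_lit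 237) (nat_lit 178)) (XT.nd (nat_lit 78) (nat_lit 228) (nat_lit 0) (XT.lf (nat_lit 0) (nat_lit 47008928737) (nat_lit 152) (nat_lit 23954351623) (nat_lit 228) (nat_lit 19418867259) (nat_lit 27) (nat_lit 5) (nat_lit 29) (nat_lit 5) (nat_lit 30) (nat_lit 5) (nat_lit 246) (nat_lit 237) (nat_lit 177)) (XT.lf (nat_lit 0) (nat_lit 4476907648) (nat_lit 228) (nat_lit 60503401237) (nat_lit 76) (nat_lit 33993688250) (nat_lit 24) (nat_lit 5) (nat_lit 27) (nat_lit 5) (nat_lit 25) (nat_lit 5) (nat_lit 247) (nat_lit 237) (nat_lit 176)))) (XT.nd (nat_lit 78) (nat_lit 152) (nat_lit 0) (XT.lf (nat_lit 0) (nat_lit 26554806308) (nat_lit 152) (nat_lit 6878205256) (nat_lit 228) (nat_lit 75171208507) (nat_lit 22) (nat_lit 5) (nat_lit 24) (nat_lit 5) (nat_lit 25) (nat_lit 5) (nat_lit 248) (nat_lit 237) (nat_lit 175)) (XT.nd (nat_lit 78) (nat_lit 0) (nat_lit 0) (XT.lf (nat_lit 0) (nat_lit 9795390503) (nat_lit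 152) (nat_lit 60418191938) (nat_lit 228) (nat_lit 49186917724) (nat_lit 20) (nat_lit 5) (nat_lit 22) (nat_lit 5) (nat_lit 23) (nat_lit 5) (nat_lit 249) (nat_lit 237) (nat_lit 174)) (XT.lf (nat_lit 0) (nat_lit 115205065516) (nat_lit 228) (nat_lit 11552317629) (nat_lit 76) (nat_lit 4843339810) (nat_lit 20) (nat_lit 5) (nat_lit 23) (nat_lit 5) (nat_lit 21) (nat_lit 4) (nat_lit 250) (nat_lit 237) (nat_lit 173)))))) (XT.nd (nat_lit 468) (nat_lit 304) (nat_lit 0) (XT.nd (nat_lit 234) (nat_lit 304) (nat_lit 0) (XT.nd (nat_lit 78) (nat_lit 228) (nat_lit 0) (XT.lf (nat_lit 0) (nat_lit 24545061801) (nat_lit 152) (nat_lit 41142791970) (nat_lit 76) (nat_lit 79558362363) (nat_lit 18) (nat_lit 5) (nat_lit 20) (nat_lit 5) (nat_lit 19) (nat_lit 5) (nat_lit 251) (nat_lit 237) (nat_lit 172)) (XT.nd (nat_lit 78) (nat_lit 76) (nat_lit 0) (XT.lf (nat_lit 0) (nat_lit 73141434214) (nat_lit 228) (nat_lit 80446227262)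 (nat_lit 76) (nat_lit 7117979586) (nat_lit 16) (nat_lit 5) (nat_lit 19) (nat_lit 5) (nat_lit 17) (nat_lit 4) (nat_lit 252) (nat_lit 237) (nat_lit 171)) (XT.lf (nat_lit 0) (nat_lit 44341863493) (nat_lit 76) (nat_lit 88795283552) (nat_lit 152) (nat_lit 45018046063) (nat_lit 15) (nat_lit 5) (nat_lit 16) (nat_lit 5) (nat_lit 17) (nat_lit 4) (nat_lit 253) (nat_lit 237) (nat_lit 170)))) (XT.nd (nat_lit 78) (nat_lit 228) (nat_lit 0) (XT.lf (nat_lit 0) (nat_lit 6115294486) (nat_lit 152) (nat_lit 5473432601) (nat_lit 76) (nat_lit 186433863159) (nat_lit 14) (nat_lit 5) (nat_lit 16) (nat_lit 5) (nat_lit 15) (nat_lit 5) (nat_lit 254) (nat_lit 237) (nat_lit 169)) (XT.nd (nat_lit 78) (nat_lit 76) (nat_lit 0) (XT.lf (nat_lit 0) (nat_lit 67874925097) (nat_lit 228) (nat_lit 74179661700) (nat_lit 76) (nat_lit 78272220292) (nat_lit 12) (nat_lit 5) (nat_lit 15) (nat_lit 5) (nat_lit 13) (nat_lit 4) (nat_lit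 255) (nat_lit 237) (nat_lit 168)) (XT.lf (nat_lit 0) (nat_lit 78476522934) (nat_lit 76) (nat_lit 62791674354) (nat_lit 152) (nat_lit 104518885935) (nat_lit 11) (nat_lit 5) (nat_lit 12) (nat_lit 5) (nat_lit 13) (nat_lit 4) (nat_lit 256) (nat_lit 237) (nat_lit 167))))) (XT.nd (nat_lit 234) (nat_lit 76) (nat_lit 0) (XT.nd (nat_lit 78) (nat_lit 228) (nat_lit 0) (XT.lf (nat_lit 0) (nat_lit 228566745779) (nat_lit 152) (nat_lit 17111311684) (nat_lit 0) (nat_lit 29156642669) (nat_lit 11) (nat_lit 5) (nat_lit 13) (nat_lit 4) (nat_lit 11) (nat_lit 4) (nat_lit 257) (nat_lit 237) (nat_lit 166)) (XT.nd (nat_lit 78) (nat_lit 76) (nat_lit 0) (XT.lf (nat_lit 0) (nat_lit 25461328990) (nat_lit 152) (nat_lit 146451814118) (nat_lit 76) (nat_lit 135824272432) (nat_lit 9) (nat_lit 5) (nat_lit 11) (nat_lit 5) (nat_lit 10) (nat_lit 4) (nat_lit 258) (nat_lit 237) (nat_lit 165)) (XT.lf (nat_lit 0) (nat_lit 21735000624)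 (nat_lit 76) (nat_lit 84585907071) (nat_lit 152) (nat_lit 239069652331) (nat_lit 8) (nat_lit 5) (nat_lit 9) (nat_lit 5) (nat_lit 10) (nat_lit 4) (nat_lit 259) (nat_lit 237) (nat_lit 164)))) (XT.nd (nat_lit 78) (nat_lit 76) (nat_lit 0) (XT.lf (nat_lit 0) (nat_lit 204063757679) (nat_lit 152) (nat_lit 164825900310) (nat_lit 0) (nat_lit 19421672773) (nat_lit 8) (nat_lit 5) (nat_lit 10) (nat_lit 4) (nat_lit 8) (nat_lit 4) (nat_lit 260) (nat_lit 237) (nat_lit 163)) (XT.nd (nat_lit 78) (nat_lit 0) (nat_lit 0) (XT.lf (nat_lit 0) (nat_lit 16302430669) (nat_lit 76) (nat_lit 302896104465) (nat_lit 76) (nat_lit 118253243137) (nat_lit 7) (nat_lit 4) (nat_lit 8) (nat_lit 5) (nat_lit 8) (nat_lit 4) (nat_lit 261) (nat_lit 237) (nat_lit 162)) (XT.lf (nat_lit 0) (nat_lit 234579670454) (nat_lit 76) (nat_lit 221821667616) (nat_lit 76) (nat_lit 37178131139) (nat_lit 7) (nat_lit 4) (nat_lit 8) (nat_lit 5)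 (nat_lit 8) (nat_lit 4) (nat_lit 262) (nat_lit 237) (nat_lit 161))))))))
noncomputable def xc45 : XT := (XT.nd (nat_lit 32682) (nat_lit 0) (nat_lit 380) (XT.nd (nat_lit 858) (nat_lit 0) (nat_lit 0) (XT.nd (nat_lit 390) (nat_lit 152) (nat_lit 0) (XT.nd (nat_lit 156) (nat_lit 76) (nat_lit 0) (XT.nd (nat_lit 78) (nat_lit 76) (nat_lit 0) (XT.lf (nat_lit 0) (nat_lit 53253165566) (nat_lit 152) (nat_lit 73877539186) (nat_lit 76) (nat_lit 430887819392) (nat_lit 6) (nat_lit 5) (nat_lit 8) (nat_lit 5) (nat_lit 7) (nat_lit 4) (nat_lit 263) (nat_lit 237) (nat_lit 160)) (XT.lf (nat_lit 0) (nat_lit 145249448591) (nat_lit 76) (nat_lit 13353475767) (nat_lit 152) (nat_lit 473158850184) (nat_lit 5) (nat_lit 5) (nat_lit 6) (nat_lit 5) (nat_lit 7) (nat_lit 4) (nat_lit 264) (nat_lit 237) (nat_lit 159))) (XT.nd (nat_lit 78) (nat_lit 76) (nat_lit 0) (XT.lf (nat_lit 0) (nat_lit 284786860393) (nat_lit 152) (nat_lit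 317557920065) (nat_lit 0) (nat_lit 113819195581) (nat_lit 5) (nat_lit 5) (nat_lit 7) (nat_lit 4) (nat_lit 5) (nat_lit 4) (nat_lit 265) (nat_lit 237) (nat_lit 158)) (XT.nd (nat_lit 78) (nat_lit 76) (nat_lit 0) (XT.lf (nat_lit 0) (nat_lit 430267133819) (nat_lit 152) (nat_lit 123630763136) (nat_lit 0) (nat_lit 259299111582) (nat_lit 5) (nat_lit 5) (nat_lit 7) (nat_lit 4) (nat_lit 5) (nat_lit 4) (nat_lit 266) (nat_lit 237) (nat_lit 157)) (XT.lf (nat_lit 0) (nat_lit 104617936099) (nat_lit 76) (nat_lit 495467074178) (nat_lit 76) (nat_lit 324498741137) (nat_lit 4) (nat_lit 4) (nat_lit 5) (nat_lit 5) (nat_lit 5) (nat_lit 4) (nat_lit 267) (nat_lit 237) (nat_lit 156))))) (XT.nd (nat_lit 234) (nat_lit 152) (nat_lit 0) (XT.nd (nat_lit 78) (nat_lit 0) (nat_lit 0) (XT.lf (nat_lit 0) (nat_lit 374589779462) (nat_lit 76) (nat_lit 424384708206) (nat_lit 76) (nat_lit 253416104900) (nat_lit 4) (nat_lit 4)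 (nat_lit 5) (nat_lit 5) (nat_lit 5) (nat_lit 4) (nat_lit 268) (nat_lit 237) (nat_lit 155)) (XT.nd (nat_lit 78) (nat_lit 0) (nat_lit 0) (XT.lf (nat_lit 0) (nat_lit 685056647863) (nat_lit 76) (nat_lit 342640341254) (nat_lit 76) (nat_lit 171671502935) (nat_lit 4) (nat_lit 4) (nat_lit 5) (nat_lit 5) (nat_lit 5) (nat_lit 4) (nat_lit 269) (nat_lit 237) (nat_lit 154)) (XT.lf (nat_lit 0) (nat_lit 1042092893074) (nat_lit 76) (nat_lit 248634627011) (nat_lit 76) (nat_lit 77665584334) (nat_lit 4) (nat_lit 4) (nat_lit 5) (nat_lit 5) (nat_lit 5) (nat_lit 4) (nat_lit 270) (nat_lit 237) (nat_lit 153)))) (XT.nd (nat_lit 78) (nat_lit 76) (nat_lit 0) (XT.lf (nat_lit 0) (nat_lit 28918120175) (nat_lit 152) (nat_lit 110819530415) (nat_lit 76) (nat_lit 1422975214021) (nat_lit 3) (nat_lit 5) (nat_lit 5) (nat_lit 5) (nat_lit 4) (nat_lit 4) (nat_lit 271) (nat_lit 237) (nat_lit 152)) (XT.nd (nat_lit 78) (nat_lit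 0) (nat_lit 0) (XT.lf (nat_lit 0) (nat_lit 141934862837) (nat_lit 76) (nat_lit 8499866846) (nat_lit 152) (nat_lit 1635300954842) (nat_lit 2) (nat_lit 5) (nat_lit 3) (nat_lit 5) (nat_lit 4) (nat_lit 4) (nat_lit 272) (nat_lit 237) (nat_lit 151)) (XT.lf (nat_lit 0) (nat_lit 296914065116) (nat_lit 152) (nat_lit 1606150079803) (nat_lit 0) (nat_lit 138608963935) (nat_lit 2) (nat_lit 5) (nat_lit 4) (nat_lit 4) (nat_lit 2) (nat_lit 4) (nat_lit 273) (nat_lit 237) (nat_lit 150)))))) (XT.nd (nat_lit 468) (nat_lit 0) (nat_lit 0) (XT.nd (nat_lit 234) (nat_lit 0) (nat_lit 0) (XT.nd (nat_lit 78) (nat_lit 0) (nat_lit 0) (XT.lf (nat_lit 0) (nat_lit 465600168860) (nat_lit 152) (nat_lit 1563087229201) (nat_lit 0) (nat_lit 307294959492) (nat_lit 2) (nat_lit 5) (nat_lit 4) (nat_lit 4) (nat_lit 2) (nat_lit 4) (nat_lit 274) (nat_lit 237) (nat_lit 149)) (XT.nd (nat_lit 78) (nat_lit 0) (nat_lit 0) (XT.lf (nat_lit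 0) (nat_lit 659588999206) (nat_lit 152) (nat_lit 1513565313847) (nat_lit 0) (nat_lit 501283695761) (nat_lit 2) (nat_lit 5) (nat_lit 4) (nat_lit 4) (nat_lit 2) (nat_lit 4) (nat_lit 275) (nat_lit 237) (nat_lit 148)) (XT.lf (nat_lit 0) (nat_lit 882675989790) (nat_lit 152) (nat_lit 1456615426702) (nat_lit 0) (nat_lit 724370604540) (nat_lit 2) (nat_lit 5) (nat_lit 4) (nat_lit 4) (nat_lit 2) (nat_lit 4) (nat_lit 276) (nat_lit 237) (nat_lit 147)))) (XT.nd (nat_lit 78) (nat_lit 0) (nat_lit 0) (XT.lf (nat_lit 0) (nat_lit 1139225886081) (nat_lit 152) (nat_lit 1391123330843) (nat_lit 0) (nat_lit 980920429696) (nat_lit 2) (nat_lit 5) (nat_lit 4) (nat_lit 4) (nat_lit 2) (nat_lit 4) (nat_lit 277) (nat_lit 237) (nat_lit 146)) (XT.nd (nat_lit 78) (nat_lit 0) (nat_lit 0) (XT.lf (nat_lit 0) (nat_lit 1434258142571) (nat_lit 152) (nat_lit 1315807659179) (nat_lit 0) (nat_lit 1275952624329) (nat_lit 2) (nat_lit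 5) (nat_lit 4) (nat_lit 4) (nat_lit 2) (nat_lit 4) (nat_lit 278) (nat_lit 237) (nat_lit 145)) (XT.lf (nat_lit 0) (nat_lit 1773545129496) (nat_lit 152) (nat_lit 1229194844218) (nat_lit 0) (nat_lit 1615239557465) (nat_lit 2) (nat_lit 5) (nat_lit 4) (nat_lit 4) (nat_lit 2) (nat_lit 4) (nat_lit 279) (nat_lit 237) (nat_lit 144))))) (XT.nd (nat_lit 31122) (nat_lit 0) (nat_lit 3040) (XT.nd (nat_lit 78) (nat_lit 0) (nat_lit 0) (XT.lf (nat_lit 0) (nat_lit 2163725070512) (nat_lit 152) (nat_lit 1129590287409) (nat_lit 0) (nat_lit 2005419451709) (nat_lit 2) (nat_lit 5) (nat_lit 4) (nat_lit 4) (nat_lit 2) (nat_lit 4) (nat_lit 280) (nat_lit 237) (nat_lit 143)) (XT.nd (nat_lit 78) (nat_lit 0) (nat_lit 0) (XT.lf (nat_lit 0) (nat_lit 2612431920988) (nat_lit 152) (nat_lit 1015045203943) (nat_lit 0) (nat_lit 2454126261513) (nat_lit 2) (nat_lit 5) (nat_lit 4) (nat_lit 4) (nat_lit 2) (nat_lit 4) (nat_lit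 281) (nat_lit 237) (nat_lit 142)) (XT.lf (nat_lit 0) (nat_lit 3128444727999) (nat_lit 152) (nat_lit 883318494362) (nat_lit 0) (nat_lit 2970139033157) (nat_lit 2) (nat_lit 5) (nat_lit 4) (nat_lit 4) (nat_lit 2) (nat_lit 4) (nat_lit 282) (nat_lit 237) (nat_lit 141)))) (XT.nd (nat_lit 78) (nat_lit 0) (nat_lit 76) (XT.lf (nat_lit 0) (nat_lit 13579049290) (nat_lit 532) (nat_lit 5871186806) (nat_lit 532) (nat_lit 5871186806) (nat_lit 42) (nat_lit 3) (nat_lit 49) (nat_lit 3) (nat_lit 49) (nat_lit 5) (nat_lit 238) (nat_lit 238) (nat_lit 184)) (XT.nd (nat_lit 78) (nat_lit 0) (nat_lit 0) (XT.lf (nat_lit 0) (nat_lit 30069830016) (nat_lit 456) (nat_lit 22101835497) (nat_lit 532) (nat_lit 2199246966) (nat_lit 43) (nat_lit 5) (nat_lit 49) (nat_lit 5) (nat_lit 50) (nat_lit 5) (nat_lit 239) (nat_lit 238) (nat_lit 183)) (XT.lf (nat_lit 76) (nat_lit 25129873361) (nat_lit 0) (nat_lit 10312015242) (nat_lit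 532) (nat_lit 23054443082) (nat_lit 44) (nat_lit 5) (nat_lit 43) (nat_lit 5) (nat_lit 50) (nat_lit 5) (nat_lit 240) (nat_lit 238) (nat_lit 182))))))) (XT.nd (nat_lit 858) (nat_lit 988) (nat_lit 0) (XT.nd (nat_lit 390) (nat_lit 912) (nat_lit 0) (XT.nd (nat_lit 156) (nat_lit 532) (nat_lit 0) (XT.nd (nat_lit 78) (nat_lit 380) (nat_lit 0) (XT.lf (nat_lit 76) (nat_lit 17541607000) (nat_lit 0) (nat_lit 26063407854) (nat_lit 532) (nat_lit 19476752490) (nat_lit 45) (nat_lit 5) (nat_lit 44) (nat_lit 5) (nat_lit 51) (nat_lit 5) (nat_lit 241) (nat_lit 238) (nat_lit 181)) (XT.lf (nat_lit 0) (nat_lit 9452074952) (nat_lit 456) (nat_lit 45578224098) (nat_lit 532) (nat_lit 13161725298) (nat_lit 39) (nat_lit 5) (nat_lit 45) (nat_lit 5) (nat_lit 46) (nat_lit 5) (nat_lit 242) (nat_lit 238) (nat_lit 180))) (XT.nd (nat_lit 78) (nat_lit 304) (nat_lit 0) (XT.lf (nat_lit 0) (nat_lit 707682557) (nat_lit 228)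 (nat_lit 69610133643) (nat_lit 304) (nat_lit 3579146838) (nat_lit 36) (nat_lit 5) (nat_lit 39) (nat_lit 5) (nat_lit 40) (nat_lit 5) (nat_lit 243) (nat_lit 238) (nat_lit 179)) (XT.nd (nat_lit 78) (nat_lit 228) (nat_lit 0) (XT.lf (nat_lit 0) (nat_lit 10079049120) (nat_lit 304) (nat_lit 9180231458) (nat_lit 76) (nat_lit 60943224540) (nat_lit 35) (nat_lit 5) (nat_lit 39) (nat_lit 5) (nat_lit 36) (nat_lit 5) (nat_lit 244) (nat_lit 238) (nat_lit 178)) (XT.lf (nat_lit 0) (nat_lit 28178772198) (nat_lit 304) (nat_lit 20576119860) (nat_lit 76) (nat_lit 38483184267) (nat_lit 32) (nat_lit 5) (nat_lit 36) (nat_lit 5) (nat_lit 33) (nat_lit 5) (nat_lit 245) (nat_lit 238) (nat_lit 177))))) (XT.nd (nat_lit 234) (nat_lit 304) (nat_lit 0) (XT.nd (nat_lit 78) (nat_lit 380) (nat_lit 0) (XT.lf (nat_lit 0) (nat_lit 51529716775) (nat_lit 304) (nat_lit 33726086883) (nat_lit 76) (nat_lit 9870289691) (nat_lit 29)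 (nat_lit 5) (nat_lit 33) (nat_lit 5) (nat_lit 30) (nat_lit 5) (nat_lit 246) (nat_lit 238) (nat_lit 176)) (XT.nd (nat_lit 78) (nat_lit 228) (nat_lit 0) (XT.lf (nat_lit 0) (nat_lit 54107692508) (nat_lit 152) (nat_lit 27536661486) (nat_lit 228) (nat_lit 22292084577) (nat_lit 27) (nat_lit 5) (nat_lit 29) (nat_lit 5) (nat_lit 30) (nat_lit 5) (nat_lit 247) (nat_lit 238) (nat_lit 175)) (XT.lf (nat_lit 0) (nat_lit 5182532915) (nat_lit 228) (nat_lit 69531085943) (nat_lit 76) (nat_lit 39103666445) (nat_lit 24) (nat_lit 5) (nat_lit 27) (nat_lit 5) (nat_lit 25) (nat_lit 5) (nat_lit 248) (nat_lit 238) (nat_lit 174)))) (XT.nd (nat_lit 78) (nat_lit 152) (nat_lit 0) (XT.lf (nat_lit 0) (nat_lit 30581804545) (nat_lit 152) (nat_lit 7896854312) (nat_lit 228) (nat_lit 86413665300) (nat_lit 22) (nat_lit 5) (nat_lit 24) (nat_lit 5) (nat_lit 25) (nat_lit 5) (nat_lit 249) (nat_lit 238) (nat_lit 173)) (XT.nd (nat_lit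 78) (nat_lit 0) (nat_lit 0) (XT.lf (nat_lit 0) (nat_lit 11306797719) (nat_lit 152) (nat_lit 69466799931) (nat_lit 228) (nat_lit 56534675592) (nat_lit 20) (nat_lit 5) (nat_lit 22) (nat_lit 5) (nat_lit 23) (nat_lit 5) (nat_lit 250) (nat_lit 238) (nat_lit 172)) (XT.lf (nat_lit 0) (nat_lit 132510449211) (nat_lit 228) (nat_lit 13246851374) (nat_lit 76) (nat_lit 5581505493) (nat_lit 20) (nat_lit 5) (nat_lit 23) (nat_lit 5) (nat_lit 21) (nat_lit 4) (nat_lit 251) (nat_lit 238) (nat_lit 171)))))) (XT.nd (nat_lit 468) (nat_lit 304) (nat_lit 0) (XT.nd (nat_lit 234) (nat_lit 304) (nat_lit 0) (XT.nd (nat_lit 78) (nat_lit 228) (nat_lit 0) (XT.lf (nat_lit 0) (nat_lit 28249700422) (nat_lit 152) (nat_lit 47277890547) (nat_lit 76) (nat_lit 91503682623) (nat_lit 18) (nat_lit 5) (nat_lit 20) (nat_lit 5) (nat_lit 19) (nat_lit 5) (nat_lit 252) (nat_lit 238) (nat_lit 170)) (XT.nd (nat_lit 78) (nat_lit 76) (nat_lit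 0) (XT.lf (nat_lit 0) (nat_lit 84133645856) (nat_lit 228) (nat_lit 92478522949) (nat_lit 76) (nat_lit 8197599901) (nat_lit 16) (nat_lit 5) (nat_lit 19) (nat_lit 5) (nat_lit 17) (nat_lit 4) (nat_lit 253) (nat_lit 238) (nat_lit 169)) (XT.lf (nat_lit 0) (nat_lit 51024849450) (nat_lit 76) (nat_lit 102101890026) (nat_lit 152) (nat_lit 51750177233) (nat_lit 15) (nat_lit 5) (nat_lit 16) (nat_lit 5) (nat_lit 17) (nat_lit 4) (nat_lit 254) (nat_lit 238) (nat_lit 168)))) (XT.nd (nat_lit 78) (nat_lit 228) (nat_lit 0) (XT.lf (nat_lit 0) (nat_lit 7049585579) (nat_lit 152) (nat_lit 6265954490) (nat_lit 76) (nat_lit 214409051799) (nat_lit 14) (nat_lit 5) (nat_lit 16) (nat_lit 5) (nat_lit 15) (nat_lit 5) (nat_lit 255) (nat_lit 238) (nat_lit 167)) (XT.nd (nat_lit 78) (nat_lit 76) (nat_lit 0) (XT.lf (nat_lit 0) (nat_lit 78071827756) (nat_lit 228) (nat_lit 85279530261) (nat_lit 76) (nat_lit 90023193405)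 (nat_lit 12) (nat_lit 5) (nat_lit 15) (nat_lit 5) (nat_lit 13) (nat_lit 4) (nat_lit 256) (nat_lit 238) (nat_lit 166)) (XT.lf (nat_lit 0) (nat_lit 90272789822) (nat_lit 76) (nat_lit 72199854000) (nat_lit 152) (nat_lit 120181343991) (nat_lit 11) (nat_lit 5) (nat_lit 12) (nat_lit 5) (nat_lit 13) (nat_lit 4) (nat_lit 257) (nat_lit 238) (nat_lit 165))))) (XT.nd (nat_lit 234) (nat_lit 76) (nat_lit 0) (XT.nd (nat_lit 78) (nat_lit 228) (nat_lit 0) (XT.lf (nat_lit 0) (nat_lit 262864341285) (nat_lit 152) (nat_lit 19655667484) (nat_lit 0) (nat_lit 33538871832) (nat_lit 11) (nat_lit 5) (nat_lit 13) (nat_lit 4) (nat_lit 11) (nat_lit 4) (nat_lit 258) (nat_lit 238) (nat_lit 164)) (XT.nd (nat_lit 78) (nat_lit 76) (nat_lit 0) (XT.lf (nat_lit 0) (nat_lit 29292274197) (nat_lit 152) (nat_lit 168398503437) (nat_lit 76) (nat_lit 156206296188) (nat_lit 9) (nat_lit 5) (nat_lit 11) (nat_lit 5) (nat_lit 10) (nat_lit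 4) (nat_lit 259) (nat_lit 238) (nat_lit 163)) (XT.lf (nat_lit 0) (nat_lit 25014548962) (nat_lit 76) (nat_lit 97265172801) (nat_lit 152) (nat_lit 274918555530) (nat_lit 8) (nat_lit 5) (nat_lit 9) (nat_lit 5) (nat_lit 10) (nat_lit 4) (nat_lit 260) (nat_lit 238) (nat_lit 162)))) (XT.nd (nat_lit 78) (nat_lit 76) (nat_lit 0) (XT.lf (nat_lit 0) (nat_lit 234682786751) (nat_lit 152) (nat_lit 189532430868) (nat_lit 0) (nat_lit 22342044652) (nat_lit 8) (nat_lit 5) (nat_lit 10) (nat_lit 4) (nat_lit 8) (nat_lit 4) (nat_lit 261) (nat_lit 238) (nat_lit 161)) (XT.nd (nat_lit 78) (nat_lit 0) (nat_lit 0) (XT.lf (nat_lit 0) (nat_lit 18763680788) (nat_lit 76) (nat_lit 348323247464) (nat_lit 76) (nat_lit 135981918278) (nat_lit 7) (nat_lit 4) (nat_lit 8) (nat_lit 5) (nat_lit 8) (nat_lit 4) (nat_lit 262) (nat_lit 238) (nat_lit 160)) (XT.lf (nat_lit 0) (nat_lit 269780434516) (nat_lit 76) (nat_lit 255088593697)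 (nat_lit 76) (nat_lit 42746754001) (nat_lit 7) (nat_lit 4) (nat_lit 8) (nat_lit 5) (nat_lit 8) (nat_lit 4) (nat_lit 263) (nat_lit 238) (nat_lit 159))))))))
noncomputable def xc46 : XT := (XT.nd (nat_lit 32760) (nat_lit 0) (nat_lit 304) (XT.nd (nat_lit 858) (nat_lit 0) (nat_lit 0) (XT.nd (nat_lit 390) (nat_lit 152) (nat_lit 0) (XT.nd (nat_lit 156) (nat_lit 76) (nat_lit 0) (XT.nd (nat_lit 78) (nat_lit 76) (nat_lit 0) (XT.lf (nat_lit 0) (nat_lit 61247828899) (nat_lit 152) (nat_lit 84946799507) (nat_lit 76) (nat_lit 495526132661) (nat_lit 6) (nat_lit 5) (nat_lit 8) (nat_lit 5) (nat_lit 7) (nat_lit 4) (nat_lit 264) (nat_lit 238) (nat_lit 158)) (XT.lf (nat_lit 0) (nat_lit 167048189331) (nat_lit 76) (nat_lit 15351262095) (nat_lit 152) (nat_lit 544126096468) (nat_lit 5) (nat_lit 5) (nat_lit 6) (nat_lit 5) (nat_lit 7) (nat_lit 4) (nat_lit 265) (nat_lit 238) (nat_lit 157))) (XT.nd (nat_lit 78)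 (nat_lit 76) (nat_lit 0) (XT.lf (nat_lit 0) (nat_lit 327510293206) (nat_lit 152) (nat_lit 365181442529) (nat_lit 0) (nat_lit 130896399405) (nat_lit 5) (nat_lit 5) (nat_lit 7) (nat_lit 4) (nat_lit 5) (nat_lit 4) (nat_lit 266) (nat_lit 238) (nat_lit 156)) (XT.nd (nat_lit 78) (nat_lit 76) (nat_lit 0) (XT.lf (nat_lit 0) (nat_lit 494811902809) (nat_lit 152) (nat_lit 142166538002) (nat_lit 0) (nat_lit 298197738742) (nat_lit 5) (nat_lit 5) (nat_lit 7) (nat_lit 4) (nat_lit 5) (nat_lit 4) (nat_lit 267) (nat_lit 238) (nat_lit 155)) (XT.lf (nat_lit 0) (nat_lit 120318717891) (nat_lit 76) (nat_lit 569783324540) (nat_lit 76) (nat_lit 373168925461) (nat_lit 4) (nat_lit 4) (nat_lit 5) (nat_lit 5) (nat_lit 5) (nat_lit 4) (nat_lit 268) (nat_lit 238) (nat_lit 154))))) (XT.nd (nat_lit 234) (nat_lit 152) (nat_lit 0) (XT.nd (nat_lit 78) (nat_lit 0) (nat_lit 0) (XT.lf (nat_lit 0) (nat_lit 430785282361) (nat_lit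 76) (nat_lit 488039100729) (nat_lit 76) (nat_lit 291424497291) (nat_lit 4) (nat_lit 4) (nat_lit 5) (nat_lit 5) (nat_lit 5) (nat_lit 4) (nat_lit 269) (nat_lit 238) (nat_lit 153)) (XT.nd (nat_lit 78) (nat_lit 0) (nat_lit 0) (XT.lf (nat_lit 0) (nat_lit 787821263285) (nat_lit 76) (nat_lit 394033510957) (nat_lit 76) (nat_lit 197418729815) (nat_lit 4) (nat_lit 4) (nat_lit 5) (nat_lit 5) (nat_lit 5) (nat_lit 4) (nat_lit 270) (nat_lit 238) (nat_lit 152)) (XT.lf (nat_lit 0) (nat_lit 1198412147247) (nat_lit 76) (nat_lit 285927315424) (nat_lit 76) (nat_lit 89312379758) (nat_lit 4) (nat_lit 4) (nat_lit 5) (nat_lit 5) (nat_lit 5) (nat_lit 4) (nat_lit 271) (nat_lit 238) (nat_lit 151)))) (XT.nd (nat_lit 78) (nat_lit 76) (nat_lit 0) (XT.lf (nat_lit 0) (nat_lit 33258351282) (nat_lit 152) (nat_lit 127437699368) (nat_lit 76) (nat_lit 1636423540603) (nat_lit 3) (nat_lit 5) (nat_lit 5) (nat_lit 5) (nat_lit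 4) (nat_lit 4) (nat_lit 272) (nat_lit 238) (nat_lit 150)) (XT.nd (nat_lit 78) (nat_lit 0) (nat_lit 0) (XT.lf (nat_lit 0) (nat_lit 163229449910) (nat_lit 76) (nat_lit 9772779314) (nat_lit 152) (nat_lit 1880593623031) (nat_lit 2) (nat_lit 5) (nat_lit 3) (nat_lit 5) (nat_lit 4) (nat_lit 4) (nat_lit 273) (nat_lit 238) (nat_lit 149)) (XT.lf (nat_lit 0) (nat_lit 341453209503) (nat_lit 152) (nat_lit 1847068684928) (nat_lit 0) (nat_lit 159402016466) (nat_lit 2) (nat_lit 5) (nat_lit 4) (nat_lit 4) (nat_lit 2) (nat_lit 4) (nat_lit 274) (nat_lit 238) (nat_lit 148)))))) (XT.nd (nat_lit 468) (nat_lit 0) (nat_lit 0) (XT.nd (nat_lit 234) (nat_lit 0) (nat_lit 0) (XT.nd (nat_lit 78) (nat_lit 0) (nat_lit 0) (XT.lf (nat_lit 0) (nat_lit 535441963424) (nat_lit 152) (nat_lit 1797546916324) (nat_lit 0) (nat_lit 353390688581) (nat_lit 2) (nat_lit 5) (nat_lit 4) (nat_lit 4) (nat_lit 2) (nat_lit 4) (nat_lit 275)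 (nat_lit 238) (nat_lit 147)) (XT.nd (nat_lit 78) (nat_lit 0) (nat_lit 0) (XT.lf (nat_lit 0) (nat_lit 758528887552) (nat_lit 152) (nat_lit 1740597156788) (nat_lit 0) (nat_lit 576477541574) (nat_lit 2) (nat_lit 5) (nat_lit 4) (nat_lit 4) (nat_lit 2) (nat_lit 4) (nat_lit 276) (nat_lit 238) (nat_lit 146)) (XT.lf (nat_lit 0) (nat_lit 1015078726055) (nat_lit 152) (nat_lit 1675105171893) (nat_lit 0) (nat_lit 833027318220) (nat_lit 2) (nat_lit 5) (nat_lit 4) (nat_lit 4) (nat_lit 2) (nat_lit 4) (nat_lit 277) (nat_lit 238) (nat_lit 145)))) (XT.nd (nat_lit 78) (nat_lit 0) (nat_lit 0) (XT.lf (nat_lit 0) (nat_lit 1310110932294) (nat_lit 152) (nat_lit 1599789596719) (nat_lit 0) (nat_lit 1128059470670) (nat_lit 2) (nat_lit 5) (nat_lit 4) (nat_lit 4) (nat_lit 2) (nat_lit 4) (nat_lit 278) (nat_lit 238) (nat_lit 144)) (XT.nd (nat_lit 78) (nat_lit 0) (nat_lit 0) (XT.lf (nat_lit 0) (nat_lit 1649397875523)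 (nat_lit 152) (nat_lit 1513176865663) (nat_lit 0) (nat_lit 1467346367126) (nat_lit 2) (nat_lit 5) (nat_lit 4) (nat_lit 4) (nat_lit 2) (nat_lit 4) (nat_lit 279) (nat_lit 238) (nat_lit 143)) (XT.lf (nat_lit 0) (nat_lit 2039577778543) (nat_lit 152) (nat_lit 1413572381814) (nat_lit 0) (nat_lit 1857526229474) (nat_lit 2) (nat_lit 5) (nat_lit 4) (nat_lit 4) (nat_lit 2) (nat_lit 4) (nat_lit 280) (nat_lit 238) (nat_lit 142))))) (XT.nd (nat_lit 31200) (nat_lit 0) (nat_lit 3116) (XT.nd (nat_lit 78) (nat_lit 0) (nat_lit 0) (XT.lf (nat_lit 0) (nat_lit 2488284595978) (nat_lit 152) (nat_lit 1299027361793) (nat_lit 0) (nat_lit 2306233011543) (nat_lit 2) (nat_lit 5) (nat_lit 4) (nat_lit 4) (nat_lit 2) (nat_lit 4) (nat_lit 281) (nat_lit 238) (nat_lit 141)) (XT.nd (nat_lit 31044) (nat_lit 0) (nat_lit 3040) (XT.lf (nat_lit 0) (nat_lit 3004297374258) (nat_lit 152) (nat_lit 1167300707380) (nat_lit 0) (nat_lit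 2822245759069) (nat_lit 2) (nat_lit 5) (nat_lit 4) (nat_lit 4) (nat_lit 2) (nat_lit 4) (nat_lit 282) (nat_lit 238) (nat_lit 140)) (XT.lf (nat_lit 0) (nat_lit 15655859526) (nat_lit 532) (nat_lit 6730215120) (nat_lit 532) (nat_lit 6730215120) (nat_lit 42) (nat_lit 3) (nat_lit 49) (nat_lit 3) (nat_lit 49) (nat_lit 5) (nat_lit 239) (nat_lit 239) (nat_lit 182)))) (XT.nd (nat_lit 78) (nat_lit 0) (nat_lit 0) (XT.lf (nat_lit 0) (nat_lit 34650000138) (nat_lit 456) (nat_lit 25370839316) (nat_lit 532) (nat_lit 2499872780) (nat_lit 43) (nat_lit 5) (nat_lit 49) (nat_lit 5) (nat_lit 50) (nat_lit 5) (nat_lit 240) (nat_lit 239) (nat_lit 181)) (XT.nd (nat_lit 78) (nat_lit 0) (nat_lit 76) (XT.lf (nat_lit 76) (nat_lit 28941709218) (nat_lit 0) (nat_lit 11878086197) (nat_lit 532) (nat_lit 26445828777) (nat_lit 44) (nat_lit 5) (nat_lit 43) (nat_lit 5) (nat_lit 50) (nat_lit 5) (nat_lit 241) (nat_lit 239) (nat_lit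 180)) (XT.lf (nat_lit 76) (nat_lit 20216762673) (nat_lit 0) (nat_lit 29983243262) (nat_lit 532) (nat_lit 22339489696) (nat_lit 45) (nat_lit 5) (nat_lit 44) (nat_lit 5) (nat_lit 51) (nat_lit 5) (nat_lit 242) (nat_lit 239) (nat_lit 179))))))) (XT.nd (nat_lit 858) (nat_lit 912) (nat_lit 0) (XT.nd (nat_lit 390) (nat_lit 836) (nat_lit 0) (XT.nd (nat_lit 156) (nat_lit 532) (nat_lit 0) (XT.nd (nat_lit 78) (nat_lit 228) (nat_lit 0) (XT.lf (nat_lit 0) (nat_lit 10914463741) (nat_lit 456) (nat_lit 52418400566) (nat_lit 532) (nat_lit 15083950142) (nat_lit 39) (nat_lit 5) (nat_lit 45) (nat_lit 5) (nat_lit 46) (nat_lit 5) (nat_lit 243) (nat_lit 239) (nat_lit 178)) (XT.lf (nat_lit 0) (nat_lit 858388836) (nat_lit 228) (nat_lit 80049856185) (nat_lit 304) (nat_lit 4069692467) (nat_lit 36) (nat_lit 5) (nat_lit 39) (nat_lit 5) (nat_lit 40) (nat_lit 5) (nat_lit 244) (nat_lit 239) (nat_lit 177))) (XT.nd (nat_lit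 78) (nat_lit 456) (nat_lit 0) (XT.lf (nat_lit 0) (nat_lit 11629175152) (nat_lit 304) (nat_lit 10516388133) (nat_lit 76) (nat_lit 70084135742) (nat_lit 35) (nat_lit 5) (nat_lit 39) (nat_lit 5) (nat_lit 36) (nat_lit 5) (nat_lit 245) (nat_lit 239) (nat_lit 176)) (XT.nd (nat_lit 78) (nat_lit 228) (nat_lit 0) (XT.lf (nat_lit 0) (nat_lit 32439842972) (nat_lit 304) (nat_lit 23622359035) (nat_lit 76) (nat_lit 44258740704) (nat_lit 32) (nat_lit 5) (nat_lit 36) (nat_lit 5) (nat_lit 33) (nat_lit 5) (nat_lit 246) (nat_lit 239) (nat_lit 175)) (XT.lf (nat_lit 0) (nat_lit 59289992568) (nat_lit 304) (nat_lit 38745824180) (nat_lit 76) (nat_lit 11356634127) (nat_lit 29) (nat_lit 5) (nat_lit 33) (nat_lit 5) (nat_lit 30) (nat_lit 5) (nat_lit 247) (nat_lit 239) (nat_lit 174))))) (XT.nd (nat_lit 234) (nat_lit 304) (nat_lit 0) (XT.nd (nat_lit 78) (nat_lit 380) (nat_lit 0) (XT.lf (nat_lit 0) (nat_lit 62259706089)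 (nat_lit 152) (nat_lit 31658961933) (nat_lit 228) (nat_lit 25605944317) (nat_lit 27) (nat_lit 5) (nat_lit 29) (nat_lit 5) (nat_lit 30) (nat_lit 5) (nat_lit 248) (nat_lit 239) (nat_lit 173)) (XT.nd (nat_lit 78) (nat_lit 152) (nat_lit 0) (XT.lf (nat_lit 0) (nat_lit 5985689125) (nat_lit 228) (nat_lit 79924585901) (nat_lit 76) (nat_lit 44977477249) (nat_lit 24) (nat_lit 5) (nat_lit 27) (nat_lit 5) (nat_lit 25) (nat_lit 5) (nat_lit 249) (nat_lit 239) (nat_lit 172)) (XT.lf (nat_lit 0) (nat_lit 35202177148) (nat_lit 152) (nat_lit 9071490789) (nat_lit 228) (nat_lit 99350592613) (nat_lit 22) (nat_lit 5) (nat_lit 24) (nat_lit 5) (nat_lit 25) (nat_lit 5) (nat_lit 250) (nat_lit 239) (nat_lit 171)))) (XT.nd (nat_lit 78) (nat_lit 152) (nat_lit 0) (XT.lf (nat_lit 0) (nat_lit 13034649997) (nat_lit 152) (nat_lit 79876142568) (nat_lit 228) (nat_lit 64991981058) (nat_lit 20) (nat_lit 5) (nat_lit 22) (nat_lit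 5) (nat_lit 23) (nat_lit 5) (nat_lit 251) (nat_lit 239) (nat_lit 170)) (XT.nd (nat_lit 78) (nat_lit 152) (nat_lit 0) (XT.lf (nat_lit 0) (nat_lit 152405635774) (nat_lit 228) (nat_lit 15204908268) (nat_lit 76) (nat_lit 6427551515) (nat_lit 20) (nat_lit 5) (nat_lit 23) (nat_lit 5) (nat_lit 21) (nat_lit 4) (nat_lit 252) (nat_lit 239) (nat_lit 169)) (XT.lf (nat_lit 0) (nat_lit 32504455561) (nat_lit 152) (nat_lit 54342110826) (nat_lit 76) (nat_lit 105237980503) (nat_lit 18) (nat_lit 5) (nat_lit 20) (nat_lit 5) (nat_lit 19) (nat_lit 5) (nat_lit 253) (nat_lit 239) (nat_lit 168)))))) (XT.nd (nat_lit 468) (nat_lit 380) (nat_lit 0) (XT.nd (nat_lit 234) (nat_lit 228) (nat_lit 0) (XT.nd (nat_lit 78) (nat_lit 152) (nat_lit 0) (XT.lf (nat_lit 0) (nat_lit 96769569113) (nat_lit 228) (nat_lit 106324109783) (nat_lit 76) (nat_lit 9436255672) (nat_lit 16) (nat_lit 5) (nat_lit 19) (nat_lit 5) (nat_lit 17)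 (nat_lit 4) (nat_lit 254) (nat_lit 239) (nat_lit 167)) (XT.nd (nat_lit 78) (nat_lit 76) (nat_lit 0) (XT.lf (nat_lit 0) (nat_lit 58702551487) (nat_lit 76) (nat_lit 117407581047) (nat_lit 152) (nat_lit 59497145603) (nat_lit 15) (nat_lit 5) (nat_lit 16) (nat_lit 5) (nat_lit 17) (nat_lit 4) (nat_lit 255) (nat_lit 239) (nat_lit 166)) (XT.lf (nat_lit 0) (nat_lit 8119875529) (nat_lit 152) (nat_lit 7184302861) (nat_lit 76) (nat_lit 246578053551) (nat_lit 14) (nat_lit 5) (nat_lit 16) (nat_lit 5) (nat_lit 15) (nat_lit 5) (nat_lit 256) (nat_lit 239) (nat_lit 165)))) (XT.nd (nat_lit 78) (nat_lit 76) (nat_lit 0) (XT.lf (nat_lit 0) (nat_lit 89794446074) (nat_lit 228) (nat_lit 98050982905) (nat_lit 76) (nat_lit 103534339764) (nat_lit 12) (nat_lit 5) (nat_lit 15) (nat_lit 5) (nat_lit 13) (nat_lit 4) (nat_lit 257) (nat_lit 239) (nat_lit 164)) (XT.nd (nat_lit 78) (nat_lit 0) (nat_lit 0) (XT.lf (nat_lit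 0) (nat_lit 103832451923) (nat_lit 76) (nat_lit 83021838522) (nat_lit 152) (nat_lit 138196920006) (nat_lit 11) (nat_lit 5) (nat_lit 12) (nat_lit 5) (nat_lit 13) (nat_lit 4) (nat_lit 258) (nat_lit 239) (nat_lit 163)) (XT.lf (nat_lit 0) (nat_lit 302303507517) (nat_lit 152) (nat_lit 22587124636) (nat_lit 0) (nat_lit 38576305830) (nat_lit 11) (nat_lit 5) (nat_lit 13) (nat_lit 4) (nat_lit 11) (nat_lit 4) (nat_lit 259) (nat_lit 239) (nat_lit 162))))) (XT.nd (nat_lit 234) (nat_lit 152) (nat_lit 0) (XT.nd (nat_lit 78) (nat_lit 76) (nat_lit 0) (XT.lf (nat_lit 0) (nat_lit 33694996884) (nat_lit 152) (nat_lit 193642337329) (nat_lit 76) (nat_lit 179643579286) (nat_lit 9) (nat_lit 5) (nat_lit 11) (nat_lit 5) (nat_lit 10) (nat_lit 4) (nat_lit 260) (nat_lit 239) (nat_lit 161)) (XT.nd (nat_lit 78) (nat_lit 0) (nat_lit 0) (XT.lf (nat_lit 0) (nat_lit 28781323551) (nat_lit 76) (nat_lit 111848430512) (nat_lit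 152) (nat_lit 316147609446) (nat_lit 8) (nat_lit 5) (nat_lit 9) (nat_lit 5) (nat_lit 10) (nat_lit 4) (nat_lit 261) (nat_lit 239) (nat_lit 160)) (XT.lf (nat_lit 0) (nat_lit 269892361981) (nat_lit 152) (nat_lit 217949173011) (nat_lit 0) (nat_lit 25698735820) (nat_lit 8) (nat_lit 5) (nat_lit 10) (nat_lit 4) (nat_lit 8) (nat_lit 4) (nat_lit 262) (nat_lit 239) (nat_lit 159)))) (XT.nd (nat_lit 78) (nat_lit 76) (nat_lit 0) (XT.lf (nat_lit 0) (nat_lit 21590244639) (nat_lit 76) (nat_lit 400566235400) (nat_lit 76) (nat_lit 156372165318) (nat_lit 7) (nat_lit 4) (nat_lit 8) (nat_lit 5) (nat_lit 8) (nat_lit 4) (nat_lit 263) (nat_lit 239) (nat_lit 158)) (XT.nd (nat_lit 78) (nat_lit 76) (nat_lit 0) (XT.lf (nat_lit 0) (nat_lit 310257944679) (nat_lit 76) (nat_lit 293347100853) (nat_lit 76) (nat_lit 49152644751) (nat_lit 7) (nat_lit 4) (nat_lit 8) (nat_lit 5) (nat_lit 8) (nat_lit 4) (nat_lit 264) (nat_lit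 239) (nat_lit 157)) (XT.lf (nat_lit 0) (nat_lit 70440060699) (nat_lit 152) (nat_lit 97679465514) (nat_lit 76) (nat_lit 569858939411) (nat_lit 6) (nat_lit 5) (nat_lit 8) (nat_lit 5) (nat_lit 7) (nat_lit 4) (nat_lit 265) (nat_lit 239) (nat_lit 156))))))))
noncomputable def xc47 : XT := (XT.nd (nat_lit 32838) (nat_lit 0) (nat_lit 228) (XT.nd (nat_lit 858) (nat_lit 0) (nat_lit 0) (XT.nd (nat_lit 390) (nat_lit 152) (nat_lit 0) (XT.nd (nat_lit 156) (nat_lit 76) (nat_lit 0) (XT.nd (nat_lit 78) (nat_lit 0) (nat_lit 0) (XT.lf (nat_lit 0) (nat_lit 192113979887) (nat_lit 76) (nat_lit 17649992970) (nat_lit 152) (nat_lit 625740034572) (nat_lit 5) (nat_lit 5) (nat_lit 6) (nat_lit 5) (nat_lit 7) (nat_lit 4) (nat_lit 266) (nat_lit 239) (nat_lit 155)) (XT.lf (nat_lit 0) (nat_lit 376640923202) (nat_lit 152) (nat_lit 419950972295) (nat_lit 0) (nat_lit 150534129248) (nat_lit 5) (nat_lit 5) (nat_lit 7) (nat_lit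 4) (nat_lit 5) (nat_lit 4) (nat_lit 267) (nat_lit 239) (nat_lit 154))) (XT.nd (nat_lit 78) (nat_lit 76) (nat_lit 0) (XT.lf (nat_lit 0) (nat_lit 569037241286) (nat_lit 152) (nat_lit 163484834690) (nat_lit 0) (nat_lit 342930242974) (nat_lit 5) (nat_lit 5) (nat_lit 7) (nat_lit 4) (nat_lit 5) (nat_lit 4) (nat_lit 268) (nat_lit 239) (nat_lit 153)) (XT.nd (nat_lit 78) (nat_lit 0) (nat_lit 0) (XT.lf (nat_lit 0) (nat_lit 138372643817) (nat_lit 76) (nat_lit 655247941736) (nat_lit 76) (nat_lit 429140765720) (nat_lit 4) (nat_lit 4) (nat_lit 5) (nat_lit 5) (nat_lit 5) (nat_lit 4) (nat_lit 269) (nat_lit 239) (nat_lit 152)) (XT.lf (nat_lit 0) (nat_lit 495408394927) (nat_lit 76) (nat_lit 561242460199) (nat_lit 76) (nat_lit 335135129658) (nat_lit 4) (nat_lit 4) (nat_lit 5) (nat_lit 5) (nat_lit 5) (nat_lit 4) (nat_lit 270) (nat_lit 239) (nat_lit 151))))) (XT.nd (nat_lit 234) (nat_lit 76) (nat_lit 0) (XT.nd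 (nat_lit 78) (nat_lit 76) (nat_lit 0) (XT.lf (nat_lit 0) (nat_lit 905999079049) (nat_lit 76) (nat_lit 453136358783) (nat_lit 76) (nat_lit 227028893873) (nat_lit 4) (nat_lit 4) (nat_lit 5) (nat_lit 5) (nat_lit 5) (nat_lit 4) (nat_lit 271) (nat_lit 239) (nat_lit 150)) (XT.nd (nat_lit 78) (nat_lit 76) (nat_lit 0) (XT.lf (nat_lit 0) (nat_lit 1378177992178) (nat_lit 76) (nat_lit 328814518114) (nat_lit 76) (nat_lit 102706936361) (nat_lit 4) (nat_lit 4) (nat_lit 5) (nat_lit 5) (nat_lit 5) (nat_lit 4) (nat_lit 272) (nat_lit 239) (nat_lit 149)) (XT.lf (nat_lit 0) (nat_lit 38249004223) (nat_lit 152) (nat_lit 146549754569) (nat_lit 76) (nat_lit 1881888617614) (nat_lit 3) (nat_lit 5) (nat_lit 5) (nat_lit 5) (nat_lit 4) (nat_lit 4) (nat_lit 273) (nat_lit 239) (nat_lit 148)))) (XT.nd (nat_lit 78) (nat_lit 0) (nat_lit 0) (XT.lf (nat_lit 0) (nat_lit 187717162404) (nat_lit 76) (nat_lit 11237132840) (nat_lit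 152) (nat_lit 2162680795002) (nat_lit 2) (nat_lit 5) (nat_lit 3) (nat_lit 5) (nat_lit 4) (nat_lit 4) (nat_lit 274) (nat_lit 239) (nat_lit 147)) (XT.nd (nat_lit 78) (nat_lit 0) (nat_lit 0) (XT.lf (nat_lit 0) (nat_lit 392672729394) (nat_lit 152) (nat_lit 2124126033532) (nat_lit 0) (nat_lit 183313610383) (nat_lit 2) (nat_lit 5) (nat_lit 4) (nat_lit 4) (nat_lit 2) (nat_lit 4) (nat_lit 275) (nat_lit 239) (nat_lit 146)) (XT.lf (nat_lit 0) (nat_lit 615759595734) (nat_lit 152) (nat_lit 2067176384959) (nat_lit 0) (nat_lit 406400414867) (nat_lit 2) (nat_lit 5) (nat_lit 4) (nat_lit 4) (nat_lit 2) (nat_lit 4) (nat_lit 276) (nat_lit 239) (nat_lit 145)))))) (XT.nd (nat_lit 31512) (nat_lit 0) (nat_lit 2584) (XT.nd (nat_lit 234) (nat_lit 0) (nat_lit 0) (XT.nd (nat_lit 78) (nat_lit 0) (nat_lit 0) (XT.lf (nat_lit 0) (nat_lit 872309383986) (nat_lit 152) (nat_lit 2001684496555) (nat_lit 0) (nat_lit 662950149330)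 (nat_lit 2) (nat_lit 5) (nat_lit 4) (nat_lit 4) (nat_lit 2) (nat_lit 4) (nat_lit 277) (nat_lit 239) (nat_lit 144)) (XT.nd (nat_lit 78) (nat_lit 0) (nat_lit 0) (XT.lf (nat_lit 0) (nat_lit 1167341546529) (nat_lit 152) (nat_lit 1926369005285) (nat_lit 0) (nat_lit 957982265101) (nat_lit 2) (nat_lit 5) (nat_lit 4) (nat_lit 4) (nat_lit 2) (nat_lit 4) (nat_lit 278) (nat_lit 239) (nat_lit 143)) (XT.lf (nat_lit 0) (nat_lit 1506628451761) (nat_lit 152) (nat_lit 1839756347190) (nat_lit 0) (nat_lit 1297269129661) (nat_lit 2) (nat_lit 5) (nat_lit 4) (nat_lit 4) (nat_lit 2) (nat_lit 4) (nat_lit 279) (nat_lit 239) (nat_lit 142)))) (XT.nd (nat_lit 78) (nat_lit 0) (nat_lit 0) (XT.lf (nat_lit 0) (nat_lit 1896808321740) (nat_lit 152) (nat_lit 1740151926785) (nat_lit 0) (nat_lit 1687448964273) (nat_lit 2) (nat_lit 5) (nat_lit 4) (nat_lit 4) (nat_lit 2) (nat_lit 4) (nat_lit 280) (nat_lit 239) (nat_lit 141))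 (XT.nd (nat_lit 78) (nat_lit 0) (nat_lit 0) (XT.lf (nat_lit 0) (nat_lit 2345515110445) (nat_lit 152) (nat_lit 1625606961932) (nat_lit 0) (nat_lit 2136155722224) (nat_lit 2) (nat_lit 5) (nat_lit 4) (nat_lit 4) (nat_lit 2) (nat_lit 4) (nat_lit 281) (nat_lit 239) (nat_lit 140)) (XT.lf (nat_lit 0) (nat_lit 2861527863741) (nat_lit 152) (nat_lit 1493880355492) (nat_lit 0) (nat_lit 2652168448778) (nat_lit 2) (nat_lit 5) (nat_lit 4) (nat_lit 4) (nat_lit 2) (nat_lit 4) (nat_lit 282) (nat_lit 239) (nat_lit 139))))) (XT.nd (nat_lit 234) (nat_lit 456) (nat_lit 0) (XT.nd (nat_lit 78) (nat_lit 0) (nat_lit 76) (XT.lf (nat_lit 0) (nat_lit 18034448543) (nat_lit 532) (nat_lit 7723377100) (nat_lit 532) (nat_lit 7723377100) (nat_lit 42) (nat_lit 3) (nat_lit 49) (nat_lit 3) (nat_lit 49) (nat_lit 5) (nat_lit 240) (nat_lit 240) (nat_lit 180)) (XT.nd (nat_lit 78) (nat_lit 0) (nat_lit 0) (XT.lf (nat_lit 0) (nat_lit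 39900200061) (nat_lit 456) (nat_lit 29141477308) (nat_lit 532) (nat_lit 2852728001) (nat_lit 43) (nat_lit 5) (nat_lit 49) (nat_lit 5) (nat_lit 50) (nat_lit 5) (nat_lit 241) (nat_lit 240) (nat_lit 179)) (XT.lf (nat_lit 76) (nat_lit 33314991955) (nat_lit 0) (nat_lit 13674369009) (nat_lit 532) (nat_lit 30362207239) (nat_lit 44) (nat_lit 5) (nat_lit 43) (nat_lit 5) (nat_lit 50) (nat_lit 5) (nat_lit 242) (nat_lit 240) (nat_lit 178)))) (XT.nd (nat_lit 78) (nat_lit 608) (nat_lit 0) (XT.lf (nat_lit 76) (nat_lit 23282482838) (nat_lit 0) (nat_lit 34488536353) (nat_lit 532) (nat_lit 25645970301) (nat_lit 45) (nat_lit 5) (nat_lit 44) (nat_lit 5) (nat_lit 51) (nat_lit 5) (nat_lit 243) (nat_lit 240) (nat_lit 177)) (XT.nd (nat_lit 78) (nat_lit 228) (nat_lit 0) (XT.lf (nat_lit 0) (nat_lit 12585340332) (nat_lit 456) (nat_lit 60283763942) (nat_lit 532) (nat_lit 17307197521) (nat_lit 39) (nat_lit 5) (nat_lit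 45) (nat_lit 5) (nat_lit 46) (nat_lit 5) (nat_lit 244) (nat_lit 240) (nat_lit 176)) (XT.lf (nat_lit 0) (nat_lit 1020836307) (nat_lit 228) (nat_lit 92055975441) (nat_lit 304) (nat_lit 4645116925) (nat_lit 36) (nat_lit 5) (nat_lit 39) (nat_lit 5) (nat_lit 40) (nat_lit 5) (nat_lit 245) (nat_lit 240) (nat_lit 175))))))) (XT.nd (nat_lit 858) (nat_lit 760) (nat_lit 0) (XT.nd (nat_lit 390) (nat_lit 684) (nat_lit 0) (XT.nd (nat_lit 156) (nat_lit 608) (nat_lit 0) (XT.nd (nat_lit 78) (nat_lit 228) (nat_lit 0) (XT.lf (nat_lit 0) (nat_lit 13402488032) (nat_lit 304) (nat_lit 12062936678) (nat_lit 76) (nat_lit 80596323227) (nat_lit 35) (nat_lit 5) (nat_lit 39) (nat_lit 5) (nat_lit 36) (nat_lit 5) (nat_lit 246) (nat_lit 240) (nat_lit 174)) (XT.lf (nat_lit 0) (nat_lit 37331721078) (nat_lit 304) (nat_lit 27135331943) (nat_lit 76) (nat_lit 50899879823) (nat_lit 32) (nat_lit 5) (nat_lit 36) (nat_lit 5)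 (nat_lit 33) (nat_lit 5) (nat_lit 247) (nat_lit 240) (nat_lit 173))) (XT.nd (nat_lit 78) (nat_lit 380) (nat_lit 0) (XT.lf (nat_lit 0) (nat_lit 68206794499) (nat_lit 304) (nat_lit 44528075322) (nat_lit 76) (nat_lit 13064515621) (nat_lit 29) (nat_lit 5) (nat_lit 33) (nat_lit 5) (nat_lit 30) (nat_lit 5) (nat_lit 248) (nat_lit 240) (nat_lit 172)) (XT.nd (nat_lit 78) (nat_lit 228) (nat_lit 0) (XT.lf (nat_lit 0) (nat_lit 71625777090) (nat_lit 152) (nat_lit 36401606771) (nat_lit 228) (nat_lit 29424187235) (nat_lit 27) (nat_lit 5) (nat_lit 29) (nat_lit 5) (nat_lit 30) (nat_lit 5) (nat_lit 249) (nat_lit 240) (nat_lit 171)) (XT.lf (nat_lit 0) (nat_lit 6903033058) (nat_lit 228) (nat_lit 91885929413) (nat_lit 76) (nat_lit 51730345216) (nat_lit 24) (nat_lit 5) (nat_lit 27) (nat_lit 5) (nat_lit 25) (nat_lit 5) (nat_lit 250) (nat_lit 240) (nat_lit 170))))) (XT.nd (nat_lit 234) (nat_lit 380) (nat_lit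 0) (XT.nd (nat_lit 78) (nat_lit 152) (nat_lit 0) (XT.lf (nat_lit 0) (nat_lit 40507533529) (nat_lit 152) (nat_lit 10424734885) (nat_lit 228) (nat_lit 114234185299) (nat_lit 22) (nat_lit 5) (nat_lit 24) (nat_lit 5) (nat_lit 25) (nat_lit 5) (nat_lit 251) (nat_lit 240) (nat_lit 169)) (XT.nd (nat_lit 78) (nat_lit 0) (nat_lit 0) (XT.lf (nat_lit 0) (nat_lit 15013917531) (nat_lit 152) (nat_lit 91849490341) (nat_lit 228) (nat_lit 74723465648) (nat_lit 20) (nat_lit 5) (nat_lit 22) (nat_lit 5) (nat_lit 23) (nat_lit 5) (nat_lit 252) (nat_lit 240) (nat_lit 168)) (XT.lf (nat_lit 0) (nat_lit 175280559916) (nat_lit 228) (nat_lit 17463738412) (nat_lit 76) (nat_lit 7398353580) (nat_lit 20) (nat_lit 5) (nat_lit 23) (nat_lit 5) (nat_lit 21) (nat_lit 4) (nat_lit 253) (nat_lit 240) (nat_lit 167)))) (XT.nd (nat_lit 78) (nat_lit 228) (nat_lit 0) (XT.lf (nat_lit 0) (nat_lit 37393205238) (nat_lit 152) (nat_lit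 62472661247) (nat_lit 76) (nat_lit 121030290423) (nat_lit 18) (nat_lit 5) (nat_lit 20) (nat_lit 5) (nat_lit 19) (nat_lit 5) (nat_lit 254) (nat_lit 240) (nat_lit 166)) (XT.nd (nat_lit 78) (nat_lit 76) (nat_lit 0) (XT.lf (nat_lit 0) (nat_lit 111297009302) (nat_lit 228) (nat_lit 122252921631) (nat_lit 76) (nat_lit 10858511252) (nat_lit 16) (nat_lit 5) (nat_lit 19) (nat_lit 5) (nat_lit 17) (nat_lit 4) (nat_lit 255) (nat_lit 240) (nat_lit 165)) (XT.lf (nat_lit 0) (nat_lit 67526062467) (nat_lit 76) (nat_lit 135011464909) (nat_lit 152) (nat_lit 68409953198) (nat_lit 15) (nat_lit 5) (nat_lit 16) (nat_lit 5) (nat_lit 17) (nat_lit 4) (nat_lit 256) (nat_lit 240) (nat_lit 164)))))) (XT.nd (nat_lit 468) (nat_lit 228) (nat_lit 0) (XT.nd (nat_lit 234) (nat_lit 228) (nat_lit 0) (XT.nd (nat_lit 78) (nat_lit 228) (nat_lit 0) (XT.lf (nat_lit 0) (nat_lit 9347574902) (nat_lit 152) (nat_lit 8245657324) (nat_lit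 76) (nat_lit 283570541533) (nat_lit 14) (nat_lit 5) (nat_lit 16) (nat_lit 5) (nat_lit 15) (nat_lit 5) (nat_lit 257) (nat_lit 240) (nat_lit 163)) (XT.nd (nat_lit 78) (nat_lit 76) (nat_lit 0) (XT.lf (nat_lit 0) (nat_lit 103272568868) (nat_lit 228) (nat_lit 112743146867) (nat_lit 76) (nat_lit 119070288346) (nat_lit 12) (nat_lit 5) (nat_lit 15) (nat_lit 5) (nat_lit 13) (nat_lit 4) (nat_lit 258) (nat_lit 240) (nat_lit 162)) (XT.lf (nat_lit 0) (nat_lit 119421492587) (nat_lit 76) (nat_lit 95469070006) (nat_lit 152) (nat_lit 158917667396) (nat_lit 11) (nat_lit 5) (nat_lit 12) (nat_lit 5) (nat_lit 13) (nat_lit 4) (nat_lit 259) (nat_lit 240) (nat_lit 161)))) (XT.nd (nat_lit 78) (nat_lit 228) (nat_lit 0) (XT.lf (nat_lit 0) (nat_lit 347656228382) (nat_lit 152) (nat_lit 25962419819) (nat_lit 0) (nat_lit 44367744691) (nat_lit 11) (nat_lit 5) (nat_lit 13) (nat_lit 4) (nat_lit 11) (nat_lit 4) (nat_lit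 260) (nat_lit 240) (nat_lit 160)) (XT.nd (nat_lit 78) (nat_lit 76) (nat_lit 0) (XT.lf (nat_lit 0) (nat_lit 38755962150) (nat_lit 152) (nat_lit 222676633770) (nat_lit 76) (nat_lit 206594909125) (nat_lit 9) (nat_lit 5) (nat_lit 11) (nat_lit 5) (nat_lit 10) (nat_lit 4) (nat_lit 261) (nat_lit 240) (nat_lit 159)) (XT.lf (nat_lit 0) (nat_lit 33109555918) (nat_lit 76) (nat_lit 128620766387) (nat_lit 152) (nat_lit 363563150171) (nat_lit 8) (nat_lit 5) (nat_lit 9) (nat_lit 5) (nat_lit 10) (nat_lit 4) (nat_lit 262) (nat_lit 240) (nat_lit 158))))) (XT.nd (nat_lit 234) (nat_lit 152) (nat_lit 0) (XT.nd (nat_lit 78) (nat_lit 76) (nat_lit 0) (XT.lf (nat_lit 0) (nat_lit 310381628162) (nat_lit 152) (nat_lit 250631626478) (nat_lit 0) (nat_lit 29557617626) (nat_lit 8) (nat_lit 5) (nat_lit 10) (nat_lit 4) (nat_lit 8) (nat_lit 4) (nat_lit 263) (nat_lit 240) (nat_lit 157)) (XT.nd (nat_lit 78) (nat_lit 0) (nat_lit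 0) (XT.lf (nat_lit 0) (nat_lit 24837863932) (nat_lit 76) (nat_lit 460647012537) (nat_lit 76) (nat_lit 179822666333) (nat_lit 7) (nat_lit 4) (nat_lit 8) (nat_lit 5) (nat_lit 8) (nat_lit 4) (nat_lit 264) (nat_lit 240) (nat_lit 156)) (XT.lf (nat_lit 0) (nat_lit 356804534291) (nat_lit 76) (nat_lit 337345550178) (nat_lit 76) (nat_lit 56520912088) (nat_lit 7) (nat_lit 4) (nat_lit 8) (nat_lit 5) (nat_lit 8) (nat_lit 4) (nat_lit 265) (nat_lit 240) (nat_lit 155)))) (XT.nd (nat_lit 78) (nat_lit 76) (nat_lit 0) (XT.lf (nat_lit 0) (nat_lit 81009893975) (nat_lit 152) (nat_lit 112324312435) (nat_lit 76) (nat_lit 655340719340) (nat_lit 6) (nat_lit 5) (nat_lit 8) (nat_lit 5) (nat_lit 7) (nat_lit 4) (nat_lit 266) (nat_lit 240) (nat_lit 154)) (XT.nd (nat_lit 78) (nat_lit 0) (nat_lit 0) (XT.lf (nat_lit 0) (nat_lit 220937551090) (nat_lit 76) (nat_lit 20294498766) (nat_lit 152) (nat_lit 719597276910) (nat_lit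 5) (nat_lit 5) (nat_lit 6) (nat_lit 5) (nat_lit 7) (nat_lit 4) (nat_lit 267) (nat_lit 240) (nat_lit 153)) (XT.lf (nat_lit 0) (nat_lit 433140151296) (nat_lit 152) (nat_lit 482937805955) (nat_lit 0) (nat_lit 173116721175) (nat_lit 5) (nat_lit 5) (nat_lit 7) (nat_lit 4) (nat_lit 5) (nat_lit 4) (nat_lit 268) (nat_lit 240) (nat_lit 152))))))))
noncomputable def xc48 : XT := (XT.nd (nat_lit 32838) (nat_lit 0) (nat_lit 152) (XT.nd (nat_lit 858) (nat_lit 0) (nat_lit 0) (XT.nd (nat_lit 390) (nat_lit 152) (nat_lit 0) (XT.nd (nat_lit 156) (nat_lit 0) (nat_lit 0) (XT.nd (nat_lit 78) (nat_lit 76) (nat_lit 0) (XT.lf (nat_lit 0) (nat_lit 654395514100) (nat_lit 152) (nat_lit 188002505821) (nat_lit 0) (nat_lit 394371929454) (nat_lit 5) (nat_lit 5) (nat_lit 7) (nat_lit 4) (nat_lit 5) (nat_lit 4) (nat_lit 269) (nat_lit 240) (nat_lit 151)) (XT.lf (nat_lit 0) (nat_lit 159133166661) (nat_lit 76) (nat_lit 753532954180)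 (nat_lit 76) (nat_lit 493509235164) (nat_lit 4) (nat_lit 4) (nat_lit 5) (nat_lit 5) (nat_lit 5) (nat_lit 4) (nat_lit 270) (nat_lit 240) (nat_lit 150))) (XT.nd (nat_lit 78) (nat_lit 0) (nat_lit 0) (XT.lf (nat_lit 0) (nat_lit 569723677010) (nat_lit 76) (nat_lit 645426934605) (nat_lit 76) (nat_lit 385403098747) (nat_lit 4) (nat_lit 4) (nat_lit 5) (nat_lit 5) (nat_lit 5) (nat_lit 4) (nat_lit 271) (nat_lit 240) (nat_lit 149)) (XT.nd (nat_lit 78) (nat_lit 0) (nat_lit 0) (XT.lf (nat_lit 0) (nat_lit 1041902439032) (nat_lit 76) (nat_lit 521105165102) (nat_lit 76) (nat_lit 261081227641) (nat_lit 4) (nat_lit 4) (nat_lit 5) (nat_lit 5) (nat_lit 5) (nat_lit 4) (nat_lit 272) (nat_lit 240) (nat_lit 148)) (XT.lf (nat_lit 0) (nat_lit 1584907732853) (nat_lit 76) (nat_lit 378135263224) (nat_lit 76) (nat_lit 118111237412) (nat_lit 4) (nat_lit 4) (nat_lit 5) (nat_lit 5) (nat_lit 5) (nat_lit 4) (nat_lit 273)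 (nat_lit 240) (nat_lit 147))))) (XT.nd (nat_lit 234) (nat_lit 0) (nat_lit 0) (XT.nd (nat_lit 78) (nat_lit 76) (nat_lit 0) (XT.lf (nat_lit 0) (nat_lit 43987791719) (nat_lit 152) (nat_lit 168529495861) (nat_lit 76) (nat_lit 2164173079193) (nat_lit 3) (nat_lit 5) (nat_lit 5) (nat_lit 5) (nat_lit 4) (nat_lit 4) (nat_lit 274) (nat_lit 240) (nat_lit 146)) (XT.nd (nat_lit 78) (nat_lit 0) (nat_lit 0) (XT.lf (nat_lit 0) (nat_lit 215877228263) (nat_lit 76) (nat_lit 12921520633) (nat_lit 152) (nat_lit 2487081499141) (nat_lit 2) (nat_lit 5) (nat_lit 3) (nat_lit 5) (nat_lit 4) (nat_lit 4) (nat_lit 275) (nat_lit 240) (nat_lit 145)) (XT.lf (nat_lit 0) (nat_lit 451574802104) (nat_lit 152) (nat_lit 2442742704810) (nat_lit 0) (nat_lit 210811628461) (nat_lit 2) (nat_lit 5) (nat_lit 4) (nat_lit 4) (nat_lit 2) (nat_lit 4) (nat_lit 276) (nat_lit 240) (nat_lit 144)))) (XT.nd (nat_lit 78) (nat_lit 0) (nat_lit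 0) (XT.lf (nat_lit 0) (nat_lit 708124546660) (nat_lit 152) (nat_lit 2377250900311) (nat_lit 0) (nat_lit 467361326245) (nat_lit 2) (nat_lit 5) (nat_lit 4) (nat_lit 4) (nat_lit 2) (nat_lit 4) (nat_lit 277) (nat_lit 240) (nat_lit 143)) (XT.nd (nat_lit 78) (nat_lit 0) (nat_lit 0) (XT.lf (nat_lit 0) (nat_lit 1003156671206) (nat_lit 152) (nat_lit 2301935482001) (nat_lit 0) (nat_lit 762393410119) (nat_lit 2) (nat_lit 5) (nat_lit 4) (nat_lit 4) (nat_lit 2) (nat_lit 4) (nat_lit 278) (nat_lit 240) (nat_lit 142)) (XT.lf (nat_lit 0) (nat_lit 1342443543398) (nat_lit 152) (nat_lit 2215322887350) (nat_lit 0) (nat_lit 1101680246944) (nat_lit 2) (nat_lit 5) (nat_lit 4) (nat_lit 4) (nat_lit 2) (nat_lit 4) (nat_lit 279) (nat_lit 240) (nat_lit 141)))))) (XT.nd (nat_lit 31512) (nat_lit 0) (nat_lit 2280) (XT.nd (nat_lit 156) (nat_lit 0) (nat_lit 0) (XT.nd (nat_lit 78) (nat_lit 0) (nat_lit 0) (XT.lf (nat_lit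 0) (nat_lit 1732623384646) (nat_lit 152) (nat_lit 2115718522114) (nat_lit 0) (nat_lit 1491860057438) (nat_lit 2) (nat_lit 5) (nat_lit 4) (nat_lit 4) (nat_lit 2) (nat_lit 4) (nat_lit 280) (nat_lit 240) (nat_lit 140)) (XT.lf (nat_lit 0) (nat_lit 2181330148367) (nat_lit 152) (nat_lit 2001173605234) (nat_lit 0) (nat_lit 1940566794417) (nat_lit 2) (nat_lit 5) (nat_lit 4) (nat_lit 4) (nat_lit 2) (nat_lit 4) (nat_lit 281) (nat_lit 240) (nat_lit 139))) (XT.nd (nat_lit 31200) (nat_lit 0) (nat_lit 3040) (XT.lf (nat_lit 0) (nat_lit 2697342879939) (nat_lit 152) (nat_lit 1869447040510) (nat_lit 0) (nat_lit 2456579502735) (nat_lit 2) (nat_lit 5) (nat_lit 4) (nat_lit 4) (nat_lit 2) (nat_lit 4) (nat_lit 282) (nat_lit 240) (nat_lit 138)) (XT.nd (nat_lit 78) (nat_lit 0) (nat_lit 76) (XT.lf (nat_lit 0) (nat_lit 20762458992) (nat_lit 532) (nat_lit 8869505374) (nat_lit 532) (nat_lit 8869505374) (nat_lit 42)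 (nat_lit 3) (nat_lit 49) (nat_lit 3) (nat_lit 49) (nat_lit 5) (nat_lit 241) (nat_lit 241) (nat_lit 178)) (XT.lf (nat_lit 0) (nat_lit 45925078767) (nat_lit 456) (nat_lit 33486243020) (nat_lit 532) (nat_lit 3263906997) (nat_lit 43) (nat_lit 5) (nat_lit 49) (nat_lit 5) (nat_lit 50) (nat_lit 5) (nat_lit 242) (nat_lit 241) (nat_lit 177))))) (XT.nd (nat_lit 234) (nat_lit 532) (nat_lit 0) (XT.nd (nat_lit 78) (nat_lit 304) (nat_lit 0) (XT.lf (nat_lit 76) (nat_lit 38336457273) (nat_lit 0) (nat_lit 15736541284) (nat_lit 532) (nat_lit 34878356205) (nat_lit 44) (nat_lit 5) (nat_lit 43) (nat_lit 5) (nat_lit 50) (nat_lit 5) (nat_lit 243) (nat_lit 241) (nat_lit 176)) (XT.nd (nat_lit 78) (nat_lit 380) (nat_lit 0) (XT.lf (nat_lit 76) (nat_lit 26799963591) (nat_lit 0) (nat_lit 39667719717) (nat_lit 532) (nat_lit 29459260667) (nat_lit 45) (nat_lit 5) (nat_lit 44) (nat_lit 5) (nat_lit 51) (nat_lit 5) (nat_lit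 244) (nat_lit 241) (nat_lit 175)) (XT.lf (nat_lit 0) (nat_lit 14498628739) (nat_lit 456) (nat_lit 69328296996) (nat_lit 532) (nat_lit 19873526569) (nat_lit 39) (nat_lit 5) (nat_lit 45) (nat_lit 5) (nat_lit 46) (nat_lit 5) (nat_lit 245) (nat_lit 241) (nat_lit 174)))) (XT.nd (nat_lit 78) (nat_lit 304) (nat_lit 0) (XT.lf (nat_lit 0) (nat_lit 1199435588) (nat_lit 228) (nat_lit 105863344027) (nat_lit 304) (nat_lit 5315397196) (nat_lit 36) (nat_lit 5) (nat_lit 39) (nat_lit 5) (nat_lit 40) (nat_lit 5) (nat_lit 246) (nat_lit 241) (nat_lit 173)) (XT.nd (nat_lit 78) (nat_lit 228) (nat_lit 0) (XT.lf (nat_lit 0) (nat_lit 15434741469) (nat_lit 304) (nat_lit 13849005026) (nat_lit 76) (nat_lit 92685444395) (nat_lit 35) (nat_lit 5) (nat_lit 39) (nat_lit 5) (nat_lit 36) (nat_lit 5) (nat_lit 247) (nat_lit 241) (nat_lit 172)) (XT.lf (nat_lit 0) (nat_lit 42951064615) (nat_lit 304) (nat_lit 31182659373) (nat_lit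 76) (nat_lit 58536622108) (nat_lit 32) (nat_lit 5) (nat_lit 36) (nat_lit 5) (nat_lit 33) (nat_lit 5) (nat_lit 248) (nat_lit 241) (nat_lit 171))))))) (XT.nd (nat_lit 858) (nat_lit 608) (nat_lit 0) (XT.nd (nat_lit 390) (nat_lit 608) (nat_lit 0) (XT.nd (nat_lit 156) (nat_lit 532) (nat_lit 0) (XT.nd (nat_lit 78) (nat_lit 152) (nat_lit 0) (XT.lf (nat_lit 0) (nat_lit 78455434124) (nat_lit 304) (nat_lit 51184887767) (nat_lit 76) (nat_lit 15027509695) (nat_lit 29) (nat_lit 5) (nat_lit 33) (nat_lit 5) (nat_lit 30) (nat_lit 5) (nat_lit 249) (nat_lit 241) (nat_lit 170)) (XT.lf (nat_lit 0) (nat_lit 82390146557) (nat_lit 152) (nat_lit 41857160109) (nat_lit 228) (nat_lit 33820689626) (nat_lit 27) (nat_lit 5) (nat_lit 29) (nat_lit 5) (nat_lit 30) (nat_lit 5) (nat_lit 250) (nat_lit 241) (nat_lit 169))) (XT.nd (nat_lit 78) (nat_lit 304) (nat_lit 0) (XT.lf (nat_lit 0) (nat_lit 7953225685) (nat_lit 228)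 (nat_lit 105648142551) (nat_lit 76) (nat_lit 59494620159) (nat_lit 24) (nat_lit 5) (nat_lit 27) (nat_lit 5) (nat_lit 25) (nat_lit 5) (nat_lit 251) (nat_lit 241) (nat_lit 168)) (XT.nd (nat_lit 78) (nat_lit 152) (nat_lit 0) (XT.lf (nat_lit 0) (nat_lit 46602589689) (nat_lit 152) (nat_lit 11982789523) (nat_lit 228) (nat_lit 131354949233) (nat_lit 22) (nat_lit 5) (nat_lit 24) (nat_lit 5) (nat_lit 25) (nat_lit 5) (nat_lit 252) (nat_lit 241) (nat_lit 167)) (XT.lf (nat_lit 0) (nat_lit 17284205564) (nat_lit 152) (nat_lit 105620809082) (nat_lit 228) (nat_lit 85918894706) (nat_lit 20) (nat_lit 5) (nat_lit 22) (nat_lit 5) (nat_lit 23) (nat_lit 5) (nat_lit 253) (nat_lit 241) (nat_lit 166))))) (XT.nd (nat_lit 234) (nat_lit 304) (nat_lit 0) (XT.nd (nat_lit 78) (nat_lit 304) (nat_lit 0) (XT.lf (nat_lit 0) (nat_lit 201583289481) (nat_lit 228) (nat_lit 20066735017) (nat_lit 76) (nat_lit 8513149593) (nat_lit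 20) (nat_lit 5) (nat_lit 23) (nat_lit 5) (nat_lit 21) (nat_lit 4) (nat_lit 254) (nat_lit 241) (nat_lit 165)) (XT.nd (nat_lit 78) (nat_lit 152) (nat_lit 0) (XT.lf (nat_lit 0) (nat_lit 43012077399) (nat_lit 152) (nat_lit 71827858201) (nat_lit 76) (nat_lit 139189834246) (nat_lit 18) (nat_lit 5) (nat_lit 20) (nat_lit 5) (nat_lit 19) (nat_lit 5) (nat_lit 255) (nat_lit 241) (nat_lit 164)) (XT.lf (nat_lit 0) (nat_lit 128000638068) (nat_lit 228) (nat_lit 140575884739) (nat_lit 76) (nat_lit 12492442745) (nat_lit 16) (nat_lit 5) (nat_lit 19) (nat_lit 5) (nat_lit 17) (nat_lit 4) (nat_lit 256) (nat_lit 241) (nat_lit 163)))) (XT.nd (nat_lit 78) (nat_lit 228) (nat_lit 0) (XT.lf (nat_lit 0) (nat_lit 77668679404) (nat_lit 76) (nat_lit 155257700112) (nat_lit 152) (nat_lit 78662550717) (nat_lit 15) (nat_lit 5) (nat_lit 16) (nat_lit 5) (nat_lit 17) (nat_lit 4) (nat_lit 257) (nat_lit 241) (nat_lit 162))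 (XT.nd (nat_lit 78) (nat_lit 152) (nat_lit 0) (XT.lf (nat_lit 0) (nat_lit 10757059375) (nat_lit 152) (nat_lit 9470187612) (nat_lit 76) (nat_lit 326110493234) (nat_lit 14) (nat_lit 5) (nat_lit 16) (nat_lit 5) (nat_lit 15) (nat_lit 5) (nat_lit 258) (nat_lit 241) (nat_lit 161)) (XT.lf (nat_lit 0) (nat_lit 118770226132) (nat_lit 228) (nat_lit 129642911166) (nat_lit 76) (nat_lit 136935215430) (nat_lit 12) (nat_lit 5) (nat_lit 15) (nat_lit 5) (nat_lit 13) (nat_lit 4) (nat_lit 259) (nat_lit 241) (nat_lit 160)))))) (XT.nd (nat_lit 468) (nat_lit 228) (nat_lit 0) (XT.nd (nat_lit 234) (nat_lit 152) (nat_lit 0) (XT.nd (nat_lit 78) (nat_lit 152) (nat_lit 0) (XT.lf (nat_lit 0) (nat_lit 137345433205) (nat_lit 76) (nat_lit 109784860153) (nat_lit 152) (nat_lit 182748670540) (nat_lit 11) (nat_lit 5) (nat_lit 12) (nat_lit 5) (nat_lit 13) (nat_lit 4) (nat_lit 260) (nat_lit 241) (nat_lit 159)) (XT.nd (nat_lit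 78) (nat_lit 152) (nat_lit 0) (XT.lf (nat_lit 0) (nat_lit 399810102894) (nat_lit 152) (nat_lit 29847124182) (nat_lit 0) (nat_lit 51026681809) (nat_lit 11) (nat_lit 5) (nat_lit 13) (nat_lit 4) (nat_lit 11) (nat_lit 4) (nat_lit 261) (nat_lit 241) (nat_lit 158)) (XT.lf (nat_lit 0) (nat_lit 44574434531) (nat_lit 152) (nat_lit 256069014160) (nat_lit 76) (nat_lit 237587769648) (nat_lit 9) (nat_lit 5) (nat_lit 11) (nat_lit 5) (nat_lit 10) (nat_lit 4) (nat_lit 262) (nat_lit 241) (nat_lit 157)))) (XT.nd (nat_lit 78) (nat_lit 76) (nat_lit 0) (XT.lf (nat_lit 0) (nat_lit 38084332469) (nat_lit 76) (nat_lit 147910154539) (nat_lit 152) (nat_lit 418092631626) (nat_lit 8) (nat_lit 5) (nat_lit 9) (nat_lit 5) (nat_lit 10) (nat_lit 4) (nat_lit 263) (nat_lit 241) (nat_lit 156)) (XT.nd (nat_lit 78) (nat_lit 76) (nat_lit 0) (XT.lf (nat_lit 0) (nat_lit 356942964549) (nat_lit 152) (nat_lit 288218867625) (nat_lit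 0) (nat_lit 33994338859) (nat_lit 8) (nat_lit 5) (nat_lit 10) (nat_lit 4) (nat_lit 8) (nat_lit 4) (nat_lit 264) (nat_lit 241) (nat_lit 155)) (XT.lf (nat_lit 0) (nat_lit 28570411269) (nat_lit 76) (nat_lit 529740920241) (nat_lit 76) (nat_lit 206792040738) (nat_lit 7) (nat_lit 4) (nat_lit 8) (nat_lit 5) (nat_lit 8) (nat_lit 4) (nat_lit 265) (nat_lit 241) (nat_lit 154))))) (XT.nd (nat_lit 234) (nat_lit 76) (nat_lit 0) (XT.nd (nat_lit 78) (nat_lit 152) (nat_lit 0) (XT.lf (nat_lit 0) (nat_lit 410331186389) (nat_lit 76) (nat_lit 387944648639) (nat_lit 76) (nat_lit 64995548428) (nat_lit 7) (nat_lit 4) (nat_lit 8) (nat_lit 5) (nat_lit 8) (nat_lit 4) (nat_lit 266) (nat_lit 241) (nat_lit 153)) (XT.nd (nat_lit 78) (nat_lit 76) (nat_lit 0) (XT.lf (nat_lit 0) (nat_lit 93164269694) (nat_lit 152) (nat_lit 129167611167) (nat_lit 76) (nat_lit 753644049561) (nat_lit 6) (nat_lit 5) (nat_lit 8) (nat_lit 5)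 (nat_lit 7) (nat_lit 4) (nat_lit 267) (nat_lit 241) (nat_lit 152)) (XT.lf (nat_lit 0) (nat_lit 254083079194) (nat_lit 76) (nat_lit 23336410330) (nat_lit 152) (nat_lit 827534023193) (nat_lit 5) (nat_lit 5) (nat_lit 6) (nat_lit 5) (nat_lit 7) (nat_lit 4) (nat_lit 268) (nat_lit 241) (nat_lit 151)))) (XT.nd (nat_lit 78) (nat_lit 76) (nat_lit 0) (XT.lf (nat_lit 0) (nat_lit 498113510183) (nat_lit 152) (nat_lit 555374082002) (nat_lit 0) (nat_lit 199086098946) (nat_lit 5) (nat_lit 5) (nat_lit 7) (nat_lit 4) (nat_lit 5) (nat_lit 4) (nat_lit 269) (nat_lit 241) (nat_lit 150)) (XT.nd (nat_lit 78) (nat_lit 76) (nat_lit 0) (XT.lf (nat_lit 0) (nat_lit 752556872686) (nat_lit 152) (nat_lit 216199060089) (nat_lit 0) (nat_lit 453529344606) (nat_lit 5) (nat_lit 5) (nat_lit 7) (nat_lit 4) (nat_lit 5) (nat_lit 4) (nat_lit 270) (nat_lit 241) (nat_lit 149)) (XT.lf (nat_lit 0) (nat_lit 183006639786) (nat_lit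 76) (nat_lit 866561249808) (nat_lit 76) (nat_lit 567533620125) (nat_lit 4) (nat_lit 4) (nat_lit 5) (nat_lit 5) (nat_lit 5) (nat_lit 4) (nat_lit 271) (nat_lit 241) (nat_lit 148))))))))
noncomputable def xc49 : XT := (XT.nd (nat_lit 32994) (nat_lit 0) (nat_lit 76) (XT.nd (nat_lit 32058) (nat_lit 0) (nat_lit 1520) (XT.nd (nat_lit 390) (nat_lit 0) (nat_lit 0) (XT.nd (nat_lit 156) (nat_lit 152) (nat_lit 0) (XT.nd (nat_lit 78) (nat_lit 0) (nat_lit 0) (XT.lf (nat_lit 0) (nat_lit 655185270410) (nat_lit 76) (nat_lit 742239542189) (nat_lit 76) (nat_lit 443211824156) (nat_lit 4) (nat_lit 4) (nat_lit 5) (nat_lit 5) (nat_lit 5) (nat_lit 4) (nat_lit 272) (nat_lit 241) (nat_lit 147)) (XT.lf (nat_lit 0) (nat_lit 1198190449972) (nat_lit 76) (nat_lit 599269694122) (nat_lit 76) (nat_lit 300241899263) (nat_lit 4) (nat_lit 4) (nat_lit 5) (nat_lit 5) (nat_lit 5) (nat_lit 4) (nat_lit 273) (nat_lit 241) (nat_lit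 146))) (XT.nd (nat_lit 78) (nat_lit 152) (nat_lit 0) (XT.lf (nat_lit 0) (nat_lit 1822646192855) (nat_lit 76) (nat_lit 434854469450) (nat_lit 76) (nat_lit 135826607786) (nat_lit 4) (nat_lit 4) (nat_lit 5) (nat_lit 5) (nat_lit 5) (nat_lit 4) (nat_lit 274) (nat_lit 241) (nat_lit 145)) (XT.nd (nat_lit 78) (nat_lit 76) (nat_lit 0) (XT.lf (nat_lit 0) (nat_lit 50587046950) (nat_lit 152) (nat_lit 193806862098) (nat_lit 76) (nat_lit 2488799924957) (nat_lit 3) (nat_lit 5) (nat_lit 5) (nat_lit 5) (nat_lit 4) (nat_lit 4) (nat_lit 275) (nat_lit 241) (nat_lit 144)) (XT.lf (nat_lit 0) (nat_lit 248260696434) (nat_lit 76) (nat_lit 14858854865) (nat_lit 152) (nat_lit 2860142653985) (nat_lit 2) (nat_lit 5) (nat_lit 3) (nat_lit 5) (nat_lit 4) (nat_lit 4) (nat_lit 276) (nat_lit 241) (nat_lit 143))))) (XT.nd (nat_lit 234) (nat_lit 0) (nat_lit 0) (XT.nd (nat_lit 78) (nat_lit 0) (nat_lit 0) (XT.lf (nat_lit 0)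 (nat_lit 519311902042) (nat_lit 152) (nat_lit 2809152421495) (nat_lit 0) (nat_lit 242434111120) (nat_lit 2) (nat_lit 5) (nat_lit 4) (nat_lit 4) (nat_lit 2) (nat_lit 4) (nat_lit 277) (nat_lit 241) (nat_lit 142)) (XT.nd (nat_lit 78) (nat_lit 0) (nat_lit 0) (XT.lf (nat_lit 0) (nat_lit 814343993548) (nat_lit 152) (nat_lit 2733837066630) (nat_lit 0) (nat_lit 537466167259) (nat_lit 2) (nat_lit 5) (nat_lit 4) (nat_lit 4) (nat_lit 2) (nat_lit 4) (nat_lit 278) (nat_lit 241) (nat_lit 141)) (XT.lf (nat_lit 0) (nat_lit 1153630837008) (nat_lit 152) (nat_lit 2647224527147) (nat_lit 0) (nat_lit 876752979966) (nat_lit 2) (nat_lit 5) (nat_lit 4) (nat_lit 4) (nat_lit 2) (nat_lit 4) (nat_lit 279) (nat_lit 241) (nat_lit 140)))) (XT.nd (nat_lit 78) (nat_lit 0) (nat_lit 0) (XT.lf (nat_lit 0) (nat_lit 1543810653273) (nat_lit 152) (nat_lit 2547620209884) (nat_lit 0) (nat_lit 1266932769488) (nat_lit 2) (nat_lit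 5) (nat_lit 4) (nat_lit 4) (nat_lit 2) (nat_lit 4) (nat_lit 280) (nat_lit 241) (nat_lit 139)) (XT.nd (nat_lit 78) (nat_lit 0) (nat_lit 0) (XT.lf (nat_lit 0) (nat_lit 1992517395270) (nat_lit 152) (nat_lit 2433075334719) (nat_lit 0) (nat_lit 1715639488231) (nat_lit 2) (nat_lit 5) (nat_lit 4) (nat_lit 4) (nat_lit 2) (nat_lit 4) (nat_lit 281) (nat_lit 241) (nat_lit 138)) (XT.lf (nat_lit 0) (nat_lit 2508530107950) (nat_lit 152) (nat_lit 2301348806269) (nat_lit 0) (nat_lit 2231652180690) (nat_lit 2) (nat_lit 5) (nat_lit 4) (nat_lit 4) (nat_lit 2) (nat_lit 4) (nat_lit 282) (nat_lit 241) (nat_lit 137)))))) (XT.nd (nat_lit 468) (nat_lit 1064) (nat_lit 0) (XT.nd (nat_lit 234) (nat_lit 456) (nat_lit 0) (XT.nd (nat_lit 78) (nat_lit 0) (nat_lit 76) (XT.lf (nat_lit 0) (nat_lit 23894100557) (nat_lit 532) (nat_lit 10190571415) (nat_lit 532) (nat_lit 10190571415) (nat_lit 42) (nat_lit 3) (nat_lit 49)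 (nat_lit 3) (nat_lit 49) (nat_lit 5) (nat_lit 242) (nat_lit 242) (nat_lit 176)) (XT.nd (nat_lit 78) (nat_lit 0) (nat_lit 0) (XT.lf (nat_lit 0) (nat_lit 52843971922) (nat_lit 456) (nat_lit 38489175024) (nat_lit 532) (nat_lit 3740842609) (nat_lit 43) (nat_lit 5) (nat_lit 49) (nat_lit 5) (nat_lit 50) (nat_lit 5) (nat_lit 243) (nat_lit 242) (nat_lit 175)) (XT.lf (nat_lit 76) (nat_lit 44105237036) (nat_lit 0) (nat_lit 18105352854) (nat_lit 532) (nat_lit 40081238467) (nat_lit 44) (nat_lit 5) (nat_lit 43) (nat_lit 5) (nat_lit 50) (nat_lit 5) (nat_lit 244) (nat_lit 242) (nat_lit 174)))) (XT.nd (nat_lit 78) (nat_lit 608) (nat_lit 0) (XT.lf (nat_lit 76) (nat_lit 30838943633) (nat_lit 0) (nat_lit 45622341124) (nat_lit 532) (nat_lit 33852739424) (nat_lit 45) (nat_lit 5) (nat_lit 44) (nat_lit 5) (nat_lit 51) (nat_lit 5) (nat_lit 245) (nat_lit 242) (nat_lit 173)) (XT.nd (nat_lit 78) (nat_lit 228) (nat_lit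 0) (XT.lf (nat_lit 0) (nat_lit 16692695153) (nat_lit 456) (nat_lit 79729029986) (nat_lit 532) (nat_lit 22832059842) (nat_lit 39) (nat_lit 5) (nat_lit 45) (nat_lit 5) (nat_lit 46) (nat_lit 5) (nat_lit 246) (nat_lit 242) (nat_lit 172)) (XT.lf (nat_lit 0) (nat_lit 1398612805) (nat_lit 228) (nat_lit 121742068521) (nat_lit 304) (nat_lit 6092678596) (nat_lit 36) (nat_lit 5) (nat_lit 39) (nat_lit 5) (nat_lit 40) (nat_lit 5) (nat_lit 247) (nat_lit 242) (nat_lit 171))))) (XT.nd (nat_lit 234) (nat_lit 532) (nat_lit 0) (XT.nd (nat_lit 78) (nat_lit 456) (nat_lit 0) (XT.lf (nat_lit 0) (nat_lit 17766497289) (nat_lit 304) (nat_lit 15908683073) (nat_lit 76) (nat_lit 106588013556) (nat_lit 35) (nat_lit 5) (nat_lit 39) (nat_lit 5) (nat_lit 36) (nat_lit 5) (nat_lit 248) (nat_lit 242) (nat_lit 170)) (XT.nd (nat_lit 78) (nat_lit 228) (nat_lit 0) (XT.lf (nat_lit 0) (nat_lit 49408533666) (nat_lit 304) (nat_lit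 35842687873) (nat_lit 76) (nat_lit 67318446474) (nat_lit 32) (nat_lit 5) (nat_lit 36) (nat_lit 5) (nat_lit 33) (nat_lit 5) (nat_lit 249) (nat_lit 242) (nat_lit 169)) (XT.lf (nat_lit 0) (nat_lit 90237072835) (nat_lit 304) (nat_lit 58845684180) (nat_lit 76) (nat_lit 17284144073) (nat_lit 29) (nat_lit 5) (nat_lit 33) (nat_lit 5) (nat_lit 30) (nat_lit 5) (nat_lit 250) (nat_lit 242) (nat_lit 168)))) (XT.nd (nat_lit 78) (nat_lit 380) (nat_lit 0) (XT.lf (nat_lit 0) (nat_lit 94764171680) (nat_lit 152) (nat_lit 48132189569) (nat_lit 228) (nat_lit 38880843584) (nat_lit 27) (nat_lit 5) (nat_lit 29) (nat_lit 5) (nat_lit 30) (nat_lit 5) (nat_lit 251) (nat_lit 242) (nat_lit 167)) (XT.nd (nat_lit 78) (nat_lit 152) (nat_lit 0) (XT.lf (nat_lit 0) (nat_lit 9157353331) (nat_lit 228) (nat_lit 121479729700) (nat_lit 76) (nat_lit 68422384571) (nat_lit 24) (nat_lit 5) (nat_lit 27) (nat_lit 5) (nat_lit 25) (nat_lit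 5) (nat_lit 252) (nat_lit 242) (nat_lit 166)) (XT.lf (nat_lit 0) (nat_lit 53607289016) (nat_lit 152) (nat_lit 13775931510) (nat_lit 228) (nat_lit 151047330476) (nat_lit 22) (nat_lit 5) (nat_lit 24) (nat_lit 5) (nat_lit 25) (nat_lit 5) (nat_lit 253) (nat_lit 242) (nat_lit 165))))))) (XT.nd (nat_lit 858) (nat_lit 380) (nat_lit 0) (XT.nd (nat_lit 390) (nat_lit 532) (nat_lit 0) (XT.nd (nat_lit 156) (nat_lit 380) (nat_lit 0) (XT.nd (nat_lit 78) (nat_lit 0) (nat_lit 0) (XT.lf (nat_lit 0) (nat_lit 19890598519) (nat_lit 152) (nat_lit 121459314330) (nat_lit 228) (nat_lit 98796830394) (nat_lit 20) (nat_lit 5) (nat_lit 22) (nat_lit 5) (nat_lit 23) (nat_lit 5) (nat_lit 254) (nat_lit 242) (nat_lit 164)) (XT.lf (nat_lit 0) (nat_lit 231828832489) (nat_lit 228) (nat_lit 23064220389) (nat_lit 76) (nat_lit 9793935247) (nat_lit 20) (nat_lit 5) (nat_lit 23) (nat_lit 5) (nat_lit 21) (nat_lit 4) (nat_lit 255)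 (nat_lit 242) (nat_lit 163))) (XT.nd (nat_lit 78) (nat_lit 228) (nat_lit 0) (XT.lf (nat_lit 0) (nat_lit 49471368309) (nat_lit 152) (nat_lit 82590163787) (nat_lit 76) (nat_lit 160072090298) (nat_lit 18) (nat_lit 5) (nat_lit 20) (nat_lit 5) (nat_lit 19) (nat_lit 5) (nat_lit 256) (nat_lit 242) (nat_lit 162)) (XT.nd (nat_lit 78) (nat_lit 76) (nat_lit 0) (XT.lf (nat_lit 0) (nat_lit 147207597575) (nat_lit 228) (nat_lit 161650944094) (nat_lit 76) (nat_lit 14370206930) (nat_lit 16) (nat_lit 5) (nat_lit 19) (nat_lit 5) (nat_lit 17) (nat_lit 4) (nat_lit 257) (nat_lit 242) (nat_lit 161)) (XT.lf (nat_lit 0) (nat_lit 89329346204) (nat_lit 76) (nat_lit 178542208033) (nat_lit 152) (nat_lit 90455207079) (nat_lit 15) (nat_lit 5) (nat_lit 16) (nat_lit 5) (nat_lit 17) (nat_lit 4) (nat_lit 258) (nat_lit 242) (nat_lit 160))))) (XT.nd (nat_lit 234) (nat_lit 228) (nat_lit 0) (XT.nd (nat_lit 78) (nat_lit 228)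 (nat_lit 0) (XT.lf (nat_lit 0) (nat_lit 12376174605) (nat_lit 152) (nat_lit 10881401341) (nat_lit 76) (nat_lit 375030371924) (nat_lit 14) (nat_lit 5) (nat_lit 16) (nat_lit 5) (nat_lit 15) (nat_lit 5) (nat_lit 259) (nat_lit 242) (nat_lit 159)) (XT.nd (nat_lit 78) (nat_lit 76) (nat_lit 0) (XT.lf (nat_lit 0) (nat_lit 136590880607) (nat_lit 228) (nat_lit 149080495114) (nat_lit 76) (nat_lit 157478812551) (nat_lit 12) (nat_lit 5) (nat_lit 15) (nat_lit 5) (nat_lit 13) (nat_lit 4) (nat_lit 260) (nat_lit 242) (nat_lit 158)) (XT.lf (nat_lit 0) (nat_lit 157955351573) (nat_lit 76) (nat_lit 126249133332) (nat_lit 152) (nat_lit 210155945061) (nat_lit 11) (nat_lit 5) (nat_lit 12) (nat_lit 5) (nat_lit 13) (nat_lit 4) (nat_lit 261) (nat_lit 242) (nat_lit 157)))) (XT.nd (nat_lit 78) (nat_lit 228) (nat_lit 0) (XT.lf (nat_lit 0) (nat_lit 459785731942) (nat_lit 152) (nat_lit 34316889512) (nat_lit 0) (nat_lit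 58683538836) (nat_lit 11) (nat_lit 5) (nat_lit 13) (nat_lit 4) (nat_lit 11) (nat_lit 4) (nat_lit 262) (nat_lit 242) (nat_lit 156)) (XT.nd (nat_lit 78) (nat_lit 76) (nat_lit 0) (XT.lf (nat_lit 0) (nat_lit 51264439453) (nat_lit 152) (nat_lit 294472474280) (nat_lit 76) (nat_lit 273228675478) (nat_lit 9) (nat_lit 5) (nat_lit 11) (nat_lit 5) (nat_lit 10) (nat_lit 4) (nat_lit 263) (nat_lit 242) (nat_lit 155)) (XT.lf (nat_lit 0) (nat_lit 43803290970) (nat_lit 76) (nat_lit 170093859718) (nat_lit 152) (nat_lit 480802752403) (nat_lit 8) (nat_lit 5) (nat_lit 9) (nat_lit 5) (nat_lit 10) (nat_lit 4) (nat_lit 264) (nat_lit 242) (nat_lit 154)))))) (XT.nd (nat_lit 468) (nat_lit 152) (nat_lit 0) (XT.nd (nat_lit 234) (nat_lit 152) (nat_lit 0) (XT.nd (nat_lit 78) (nat_lit 76) (nat_lit 0) (XT.lf (nat_lit 0) (nat_lit 410487503494) (nat_lit 152) (nat_lit 331446024556) (nat_lit 0) (nat_lit 39095817543) (nat_lit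 8) (nat_lit 5) (nat_lit 10) (nat_lit 4) (nat_lit 8) (nat_lit 4) (nat_lit 265) (nat_lit 242) (nat_lit 153)) (XT.nd (nat_lit 78) (nat_lit 0) (nat_lit 0) (XT.lf (nat_lit 0) (nat_lit 32861165963) (nat_lit 76) (nat_lit 609199680829) (nat_lit 76) (nat_lit 237807802959) (nat_lit 7) (nat_lit 4) (nat_lit 8) (nat_lit 5) (nat_lit 8) (nat_lit 4) (nat_lit 266) (nat_lit 242) (nat_lit 152)) (XT.lf (nat_lit 0) (nat_lit 471885380003) (nat_lit 76) (nat_lit 446134278588) (nat_lit 76) (nat_lit 74742233831) (nat_lit 7) (nat_lit 4) (nat_lit 8) (nat_lit 5) (nat_lit 8) (nat_lit 4) (nat_lit 267) (nat_lit 242) (nat_lit 151)))) (XT.nd (nat_lit 78) (nat_lit 76) (nat_lit 0) (XT.lf (nat_lit 0) (nat_lit 107141096630) (nat_lit 152) (nat_lit 148538708885) (nat_lit 76) (nat_lit 866692337388) (nat_lit 6) (nat_lit 5) (nat_lit 8) (nat_lit 5) (nat_lit 7) (nat_lit 4) (nat_lit 268) (nat_lit 242) (nat_lit 150)) (XT.nd (nat_lit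 78) (nat_lit 0) (nat_lit 0) (XT.lf (nat_lit 0) (nat_lit 292199242730) (nat_lit 76) (nat_lit 26835160537) (nat_lit 152) (nat_lit 951661975252) (nat_lit 5) (nat_lit 5) (nat_lit 6) (nat_lit 5) (nat_lit 7) (nat_lit 4) (nat_lit 269) (nat_lit 242) (nat_lit 149)) (XT.lf (nat_lit 0) (nat_lit 572832303207) (nat_lit 152) (nat_lit 638676871168) (nat_lit 0) (nat_lit 228950427470) (nat_lit 5) (nat_lit 5) (nat_lit 7) (nat_lit 4) (nat_lit 5) (nat_lit 4) (nat_lit 270) (nat_lit 242) (nat_lit 148))))) (XT.nd (nat_lit 234) (nat_lit 76) (nat_lit 0) (XT.nd (nat_lit 78) (nat_lit 76) (nat_lit 0) (XT.lf (nat_lit 0) (nat_lit 865441939674) (nat_lit 152) (nat_lit 248626029420) (nat_lit 0) (nat_lit 521559975586) (nat_lit 5) (nat_lit 5) (nat_lit 7) (nat_lit 4) (nat_lit 5) (nat_lit 4) (nat_lit 271) (nat_lit 242) (nat_lit 147)) (XT.nd (nat_lit 78) (nat_lit 0) (nat_lit 0) (XT.lf (nat_lit 0) (nat_lit 210460280839) (nat_lit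 76) (nat_lit 996544191534) (nat_lit 76) (nat_lit 652662150620) (nat_lit 4) (nat_lit 4) (nat_lit 5) (nat_lit 5) (nat_lit 5) (nat_lit 4) (nat_lit 272) (nat_lit 242) (nat_lit 146)) (XT.lf (nat_lit 0) (nat_lit 753465361046) (nat_lit 76) (nat_lit 853574390260) (nat_lit 76) (nat_lit 509692282541) (nat_lit 4) (nat_lit 4) (nat_lit 5) (nat_lit 5) (nat_lit 5) (nat_lit 4) (nat_lit 273) (nat_lit 242) (nat_lit 145)))) (XT.nd (nat_lit 78) (nat_lit 76) (nat_lit 0) (XT.lf (nat_lit 0) (nat_lit 1377921017533) (nat_lit 76) (nat_lit 689159206278) (nat_lit 76) (nat_lit 345277040467) (nat_lit 4) (nat_lit 4) (nat_lit 5) (nat_lit 5) (nat_lit 5) (nat_lit 4) (nat_lit 274) (nat_lit 242) (nat_lit 144)) (XT.nd (nat_lit 78) (nat_lit 76) (nat_lit 0) (XT.lf (nat_lit 0) (nat_lit 2096044860970) (nat_lit 76) (nat_lit 500081820770) (nat_lit 76) (nat_lit 156199604445) (nat_lit 4) (nat_lit 4) (nat_lit 5) (nat_lit 5) (nat_lit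 5) (nat_lit 4) (nat_lit 275) (nat_lit 242) (nat_lit 143)) (XT.lf (nat_lit 0) (nat_lit 58175925523) (nat_lit 152) (nat_lit 222876335161) (nat_lit 76) (nat_lit 2862120582044) (nat_lit 3) (nat_lit 5) (nat_lit 5) (nat_lit 5) (nat_lit 4) (nat_lit 4) (nat_lit 276) (nat_lit 242) (nat_lit 142))))))))
noncomputable def xc50 : XT := (XT.nd (nat_lit 33072) (nat_lit 0) (nat_lit 0) (XT.nd (nat_lit 32136) (nat_lit 0) (nat_lit 988) (XT.nd (nat_lit 390) (nat_lit 0) (nat_lit 0) (XT.nd (nat_lit 156) (nat_lit 0) (nat_lit 0) (XT.nd (nat_lit 78) (nat_lit 0) (nat_lit 0) (XT.lf (nat_lit 0) (nat_lit 285501225422) (nat_lit 76) (nat_lit 17087007207) (nat_lit 152) (nat_lit 3289163242989) (nat_lit 2) (nat_lit 5) (nat_lit 3) (nat_lit 5) (nat_lit 4) (nat_lit 4) (nat_lit 277) (nat_lit 242) (nat_lit 141)) (XT.lf (nat_lit 0) (nat_lit 597209352469) (nat_lit 152) (nat_lit 3230524007565) (nat_lit 0) (nat_lit 278799786117)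 (nat_lit 2) (nat_lit 5) (nat_lit 4) (nat_lit 4) (nat_lit 2) (nat_lit 4) (nat_lit 278) (nat_lit 242) (nat_lit 140))) (XT.nd (nat_lit 78) (nat_lit 0) (nat_lit 0) (XT.lf (nat_lit 0) (nat_lit 936496170946) (nat_lit 152) (nat_lit 3143911516055) (nat_lit 0) (nat_lit 618086577851) (nat_lit 2) (nat_lit 5) (nat_lit 4) (nat_lit 4) (nat_lit 2) (nat_lit 4) (nat_lit 279) (nat_lit 242) (nat_lit 139)) (XT.nd (nat_lit 78) (nat_lit 0) (nat_lit 0) (XT.lf (nat_lit 0) (nat_lit 1326675965487) (nat_lit 152) (nat_lit 3044307240507) (nat_lit 0) (nat_lit 1008266349137) (nat_lit 2) (nat_lit 5) (nat_lit 4) (nat_lit 4) (nat_lit 2) (nat_lit 4) (nat_lit 280) (nat_lit 242) (nat_lit 138)) (XT.lf (nat_lit 0) (nat_lit 1775382688592) (nat_lit 152) (nat_lit 2929762401617) (nat_lit 0) (nat_lit 1456973052022) (nat_lit 2) (nat_lit 5) (nat_lit 4) (nat_lit 4) (nat_lit 2) (nat_lit 4) (nat_lit 281) (nat_lit 242) (nat_lit 137)))))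 (XT.nd (nat_lit 31512) (nat_lit 0) (nat_lit 2812) (XT.nd (nat_lit 31356) (nat_lit 0) (nat_lit 3040) (XT.lf (nat_lit 0) (nat_lit 2291395384846) (nat_lit 152) (nat_lit 2798035904710) (nat_lit 0) (nat_lit 1972985730692) (nat_lit 2) (nat_lit 5) (nat_lit 4) (nat_lit 4) (nat_lit 2) (nat_lit 4) (nat_lit 282) (nat_lit 242) (nat_lit 136)) (XT.nd (nat_lit 78) (nat_lit 0) (nat_lit 76) (XT.lf (nat_lit 0) (nat_lit 27491276296) (nat_lit 532) (nat_lit 11712079800) (nat_lit 532) (nat_lit 11712079800) (nat_lit 42) (nat_lit 3) (nat_lit 49) (nat_lit 3) (nat_lit 49) (nat_lit 5) (nat_lit 243) (nat_lit 243) (nat_lit 174)) (XT.lf (nat_lit 0) (nat_lit 60793351332) (nat_lit 456) (nat_lit 44247425041) (nat_lit 532) (nat_lit 4292403452) (nat_lit 43) (nat_lit 5) (nat_lit 49) (nat_lit 5) (nat_lit 50) (nat_lit 5) (nat_lit 244) (nat_lit 243) (nat_lit 173)))) (XT.nd (nat_lit 78) (nat_lit 304) (nat_lit 0) (XT.lf (nat_lit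 76) (nat_lit 50734868468) (nat_lit 0) (nat_lit 20827454744) (nat_lit 532) (nat_lit 46071593486) (nat_lit 44) (nat_lit 5) (nat_lit 43) (nat_lit 5) (nat_lit 50) (nat_lit 5) (nat_lit 245) (nat_lit 243) (nat_lit 172)) (XT.nd (nat_lit 78) (nat_lit 380) (nat_lit 0) (XT.lf (nat_lit 76) (nat_lit 35479140946) (nat_lit 0) (nat_lit 52469067302) (nat_lit 532) (nat_lit 38911436468) (nat_lit 45) (nat_lit 5) (nat_lit 44) (nat_lit 5) (nat_lit 51) (nat_lit 5) (nat_lit 246) (nat_lit 243) (nat_lit 171)) (XT.lf (nat_lit 0) (nat_lit 19211171905) (nat_lit 456) (nat_lit 91689509958) (nat_lit 532) (nat_lit 26239858827) (nat_lit 39) (nat_lit 5) (nat_lit 45) (nat_lit 5) (nat_lit 46) (nat_lit 5) (nat_lit 247) (nat_lit 243) (nat_lit 170)))))) (XT.nd (nat_lit 468) (nat_lit 684) (nat_lit 0) (XT.nd (nat_lit 234) (nat_lit 608) (nat_lit 0) (XT.nd (nat_lit 78) (nat_lit 304) (nat_lit 0) (XT.lf (nat_lit 0) (nat_lit 1622969473)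 (nat_lit 228) (nat_lit 140002791191) (nat_lit 304) (nat_lit 6991436204) (nat_lit 36) (nat_lit 5) (nat_lit 39) (nat_lit 5) (nat_lit 40) (nat_lit 5) (nat_lit 248) (nat_lit 243) (nat_lit 169)) (XT.nd (nat_lit 78) (nat_lit 228) (nat_lit 0) (XT.lf (nat_lit 0) (nat_lit 20443981977) (nat_lit 304) (nat_lit 18281622429) (nat_lit 76) (nat_lit 122576028445) (nat_lit 35) (nat_lit 5) (nat_lit 39) (nat_lit 5) (nat_lit 36) (nat_lit 5) (nat_lit 249) (nat_lit 243) (nat_lit 168)) (XT.lf (nat_lit 0) (nat_lit 56831011718) (nat_lit 304) (nat_lit 41205956532) (nat_lit 76) (nat_lit 77417219909) (nat_lit 32) (nat_lit 5) (nat_lit 36) (nat_lit 5) (nat_lit 33) (nat_lit 5) (nat_lit 250) (nat_lit 243) (nat_lit 167)))) (XT.nd (nat_lit 78) (nat_lit 380) (nat_lit 0) (XT.lf (nat_lit 0) (nat_lit 103782708309) (nat_lit 304) (nat_lit 67659730190) (nat_lit 76) (nat_lit 19878662036) (nat_lit 29) (nat_lit 5) (nat_lit 33) (nat_lit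 5) (nat_lit 30) (nat_lit 5) (nat_lit 251) (nat_lit 243) (nat_lit 166)) (XT.nd (nat_lit 78) (nat_lit 228) (nat_lit 0) (XT.lf (nat_lit 0) (nat_lit 108990520033) (nat_lit 152) (nat_lit 55349337810) (nat_lit 228) (nat_lit 44703178451) (nat_lit 27) (nat_lit 5) (nat_lit 29) (nat_lit 5) (nat_lit 30) (nat_lit 5) (nat_lit 252) (nat_lit 243) (nat_lit 165)) (XT.lf (nat_lit 0) (nat_lit 10539382640) (nat_lit 228) (nat_lit 139689867428) (nat_lit 76) (nat_lit 78688442739) (nat_lit 24) (nat_lit 5) (nat_lit 27) (nat_lit 5) (nat_lit 25) (nat_lit 5) (nat_lit 253) (nat_lit 243) (nat_lit 164))))) (XT.nd (nat_lit 234) (nat_lit 380) (nat_lit 0) (XT.nd (nat_lit 78) (nat_lit 152) (nat_lit 0) (XT.lf (nat_lit 0) (nat_lit 61659203445) (nat_lit 152) (nat_lit 15839087633) (nat_lit 228) (nat_lit 173696217463) (nat_lit 22) (nat_lit 5) (nat_lit 24) (nat_lit 5) (nat_lit 25) (nat_lit 5) (nat_lit 254) (nat_lit 243) (nat_lit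 163)) (XT.nd (nat_lit 78) (nat_lit 0) (nat_lit 0) (XT.lf (nat_lit 0) (nat_lit 22884594437) (nat_lit 152) (nat_lit 139674721034) (nat_lit 228) (nat_lit 113608870252) (nat_lit 20) (nat_lit 5) (nat_lit 22) (nat_lit 5) (nat_lit 23) (nat_lit 5) (nat_lit 255) (nat_lit 243) (nat_lit 162)) (XT.lf (nat_lit 0) (nat_lit 266609244006) (nat_lit 228) (nat_lit 26514382837) (nat_lit 76) (nat_lit 11265908873) (nat_lit 20) (nat_lit 5) (nat_lit 23) (nat_lit 5) (nat_lit 21) (nat_lit 4) (nat_lit 256) (nat_lit 243) (nat_lit 161)))) (XT.nd (nat_lit 78) (nat_lit 228) (nat_lit 0) (XT.lf (nat_lit 0) (nat_lit 56897728981) (nat_lit 152) (nat_lit 94969710553) (nat_lit 76) (nat_lit 184085762758) (nat_lit 18) (nat_lit 5) (nat_lit 20) (nat_lit 5) (nat_lit 19) (nat_lit 5) (nat_lit 257) (nat_lit 243) (nat_lit 160)) (XT.nd (nat_lit 78) (nat_lit 76) (nat_lit 0) (XT.lf (nat_lit 0) (nat_lit 169293927227) (nat_lit 228) (nat_lit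 185890023625) (nat_lit 76) (nat_lit 16528685246) (nat_lit 16) (nat_lit 5) (nat_lit 19) (nat_lit 5) (nat_lit 17) (nat_lit 4) (nat_lit 258) (nat_lit 243) (nat_lit 159)) (XT.lf (nat_lit 0) (nat_lit 102736585480) (nat_lit 76) (nat_lit 205320403439) (nat_lit 152) (nat_lit 104018402133) (nat_lit 15) (nat_lit 5) (nat_lit 16) (nat_lit 5) (nat_lit 17) (nat_lit 4) (nat_lit 259) (nat_lit 243) (nat_lit 158))))))) (XT.nd (nat_lit 858) (nat_lit 228) (nat_lit 0) (XT.nd (nat_lit 390) (nat_lit 304) (nat_lit 0) (XT.nd (nat_lit 156) (nat_lit 228) (nat_lit 0) (XT.nd (nat_lit 78) (nat_lit 152) (nat_lit 0) (XT.lf (nat_lit 0) (nat_lit 14236802175) (nat_lit 152) (nat_lit 12506568508) (nat_lit 76) (nat_lit 431287426544) (nat_lit 14) (nat_lit 5) (nat_lit 16) (nat_lit 5) (nat_lit 15) (nat_lit 5) (nat_lit 260) (nat_lit 243) (nat_lit 157)) (XT.lf (nat_lit 0) (nat_lit 157083384574) (nat_lit 228) (nat_lit 171435875448)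 (nat_lit 76) (nat_lit 181103140903) (nat_lit 12) (nat_lit 5) (nat_lit 15) (nat_lit 5) (nat_lit 13) (nat_lit 4) (nat_lit 261) (nat_lit 243) (nat_lit 156))) (XT.nd (nat_lit 78) (nat_lit 152) (nat_lit 0) (XT.lf (nat_lit 0) (nat_lit 181654781635) (nat_lit 76) (nat_lit 145183890217) (nat_lit 152) (nat_lit 241675536396) (nat_lit 11) (nat_lit 5) (nat_lit 12) (nat_lit 5) (nat_lit 13) (nat_lit 4) (nat_lit 262) (nat_lit 243) (nat_lit 155)) (XT.nd (nat_lit 78) (nat_lit 152) (nat_lit 0) (XT.lf (nat_lit 0) (nat_lit 528756702217) (nat_lit 152) (nat_lit 39458900597) (nat_lit 0) (nat_lit 67488228267) (nat_lit 11) (nat_lit 5) (nat_lit 13) (nat_lit 4) (nat_lit 11) (nat_lit 4) (nat_lit 263) (nat_lit 243) (nat_lit 154)) (XT.lf (nat_lit 0) (nat_lit 58957008768) (nat_lit 152) (nat_lit 338638134076) (nat_lit 76) (nat_lit 314215048922) (nat_lit 9) (nat_lit 5) (nat_lit 11) (nat_lit 5) (nat_lit 10) (nat_lit 4)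 (nat_lit 264) (nat_lit 243) (nat_lit 153))))) (XT.nd (nat_lit 234) (nat_lit 152) (nat_lit 0) (XT.nd (nat_lit 78) (nat_lit 76) (nat_lit 0) (XT.lf (nat_lit 0) (nat_lit 50378554846) (nat_lit 76) (nat_lit 195605807862) (nat_lit 152) (nat_lit 552920311603) (nat_lit 8) (nat_lit 5) (nat_lit 9) (nat_lit 5) (nat_lit 10) (nat_lit 4) (nat_lit 265) (nat_lit 243) (nat_lit 152)) (XT.nd (nat_lit 78) (nat_lit 76) (nat_lit 0) (XT.lf (nat_lit 0) (nat_lit 472062968725) (nat_lit 152) (nat_lit 381158638475) (nat_lit 0) (nat_lit 44961950368) (nat_lit 8) (nat_lit 5) (nat_lit 10) (nat_lit 4) (nat_lit 8) (nat_lit 4) (nat_lit 266) (nat_lit 243) (nat_lit 151)) (XT.lf (nat_lit 0) (nat_lit 37794267515) (nat_lit 76) (nat_lit 700577835260) (nat_lit 76) (nat_lit 273476671784) (nat_lit 7) (nat_lit 4) (nat_lit 8) (nat_lit 5) (nat_lit 8) (nat_lit 4) (nat_lit 267) (nat_lit 243) (nat_lit 150)))) (XT.nd (nat_lit 78) (nat_lit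 152) (nat_lit 0) (XT.lf (nat_lit 0) (nat_lit 542671601488) (nat_lit 76) (nat_lit 513052857165) (nat_lit 76) (nat_lit 85951567498) (nat_lit 7) (nat_lit 4) (nat_lit 8) (nat_lit 5) (nat_lit 8) (nat_lit 4) (nat_lit 268) (nat_lit 243) (nat_lit 149)) (XT.nd (nat_lit 78) (nat_lit 76) (nat_lit 0) (XT.lf (nat_lit 0) (nat_lit 123213914419) (nat_lit 152) (nat_lit 170816457405) (nat_lit 76) (nat_lit 996697458615) (nat_lit 6) (nat_lit 5) (nat_lit 8) (nat_lit 5) (nat_lit 7) (nat_lit 4) (nat_lit 269) (nat_lit 243) (nat_lit 148)) (XT.lf (nat_lit 0) (nat_lit 336031928123) (nat_lit 76) (nat_lit 30859140596) (nat_lit 152) (nat_lit 1094409644757) (nat_lit 5) (nat_lit 5) (nat_lit 6) (nat_lit 5) (nat_lit 7) (nat_lit 4) (nat_lit 270) (nat_lit 243) (nat_lit 147)))))) (XT.nd (nat_lit 468) (nat_lit 152) (nat_lit 0) (XT.nd (nat_lit 234) (nat_lit 0) (nat_lit 0) (XT.nd (nat_lit 78) (nat_lit 76) (nat_lit 0) (XT.lf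 (nat_lit 0) (nat_lit 658758484414) (nat_lit 152) (nat_lit 734475889075) (nat_lit 0) (nat_lit 263294060537) (nat_lit 5) (nat_lit 5) (nat_lit 7) (nat_lit 4) (nat_lit 5) (nat_lit 4) (nat_lit 271) (nat_lit 243) (nat_lit 146)) (XT.nd (nat_lit 78) (nat_lit 76) (nat_lit 0) (XT.lf (nat_lit 0) (nat_lit 995259392125) (nat_lit 152) (nat_lit 285917748818) (nat_lit 0) (nat_lit 599794901443) (nat_lit 5) (nat_lit 5) (nat_lit 7) (nat_lit 4) (nat_lit 5) (nat_lit 4) (nat_lit 272) (nat_lit 243) (nat_lit 145)) (XT.lf (nat_lit 0) (nat_lit 242031323029) (nat_lit 76) (nat_lit 1146024878301) (nat_lit 76) (nat_lit 750560329528) (nat_lit 4) (nat_lit 4) (nat_lit 5) (nat_lit 5) (nat_lit 5) (nat_lit 4) (nat_lit 273) (nat_lit 243) (nat_lit 144)))) (XT.nd (nat_lit 78) (nat_lit 0) (nat_lit 0) (XT.lf (nat_lit 0) (nat_lit 866486904390) (nat_lit 76) (nat_lit 981609729701) (nat_lit 76) (nat_lit 586145130413) (nat_lit 4)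 (nat_lit 4) (nat_lit 5) (nat_lit 5) (nat_lit 5) (nat_lit 4) (nat_lit 274) (nat_lit 243) (nat_lit 143)) (XT.nd (nat_lit 78) (nat_lit 0) (nat_lit 0) (XT.lf (nat_lit 0) (nat_lit 1584610682499) (nat_lit 76) (nat_lit 792532374960) (nat_lit 76) (nat_lit 397067731747) (nat_lit 4) (nat_lit 4) (nat_lit 5) (nat_lit 5) (nat_lit 5) (nat_lit 4) (nat_lit 275) (nat_lit 243) (nat_lit 142)) (XT.lf (nat_lit 0) (nat_lit 2410452905191) (nat_lit 76) (nat_lit 575093474530) (nat_lit 76) (nat_lit 179628793120) (nat_lit 4) (nat_lit 4) (nat_lit 5) (nat_lit 5) (nat_lit 5) (nat_lit 4) (nat_lit 276) (nat_lit 243) (nat_lit 141))))) (XT.nd (nat_lit 234) (nat_lit 0) (nat_lit 0) (XT.nd (nat_lit 78) (nat_lit 76) (nat_lit 0) (XT.lf (nat_lit 0) (nat_lit 66902935547) (nat_lit 152) (nat_lit 256306608686) (nat_lit 76) (nat_lit 3291439174715) (nat_lit 3) (nat_lit 5) (nat_lit 5) (nat_lit 5) (nat_lit 4) (nat_lit 4) (nat_lit 277)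 (nat_lit 243) (nat_lit 140)) (XT.nd (nat_lit 78) (nat_lit 0) (nat_lit 0) (XT.lf (nat_lit 0) (nat_lit 328327486379) (nat_lit 76) (nat_lit 19649547219) (nat_lit 152) (nat_lit 3782537117646) (nat_lit 2) (nat_lit 5) (nat_lit 3) (nat_lit 5) (nat_lit 4) (nat_lit 4) (nat_lit 278) (nat_lit 243) (nat_lit 139)) (XT.lf (nat_lit 0) (nat_lit 686791258267) (nat_lit 152) (nat_lit 3715101642988) (nat_lit 0) (nat_lit 320620176211) (nat_lit 2) (nat_lit 5) (nat_lit 4) (nat_lit 4) (nat_lit 2) (nat_lit 4) (nat_lit 279) (nat_lit 243) (nat_lit 138)))) (XT.nd (nat_lit 78) (nat_lit 0) (nat_lit 0) (XT.lf (nat_lit 0) (nat_lit 1076971033916) (nat_lit 152) (nat_lit 3615497403714) (nat_lit 0) (nat_lit 710799931639) (nat_lit 2) (nat_lit 5) (nat_lit 4) (nat_lit 4) (nat_lit 2) (nat_lit 4) (nat_lit 280) (nat_lit 243) (nat_lit 137)) (XT.nd (nat_lit 78) (nat_lit 0) (nat_lit 0) (XT.lf (nat_lit 0) (nat_lit 1525677740595)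 (nat_lit 152) (nat_lit 3500952596366) (nat_lit 0) (nat_lit 1159506620734) (nat_lit 2) (nat_lit 5) (nat_lit 4) (nat_lit 4) (nat_lit 2) (nat_lit 4) (nat_lit 281) (nat_lit 243) (nat_lit 136)) (XT.lf (nat_lit 0) (nat_lit 2041690422564) (nat_lit 152) (nat_lit 3369226126888) (nat_lit 0) (nat_lit 1675519287413) (nat_lit 2) (nat_lit 5) (nat_lit 4) (nat_lit 4) (nat_lit 2) (nat_lit 4) (nat_lit 282) (nat_lit 243) (nat_lit 135))))))))
noncomputable def xc51 : XT := (XT.nd (nat_lit 1794) (nat_lit 456) (nat_lit 0) (XT.nd (nat_lit 858) (nat_lit 1216) (nat_lit 0) (XT.nd (nat_lit 390) (nat_lit 1140) (nat_lit 0) (XT.nd (nat_lit 156) (nat_lit 228) (nat_lit 0) (XT.nd (nat_lit 78) (nat_lit 0) (nat_lit 76) (XT.lf (nat_lit 0) (nat_lit 31624843472) (nat_lit 532) (nat_lit 13463540293) (nat_lit 532) (nat_lit 13463540293) (nat_lit 42) (nat_lit 3) (nat_lit 49) (nat_lit 3) (nat_lit 49) (nat_lit 5) (nat_lit 244) (nat_lit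 244) (nat_lit 172)) (XT.lf (nat_lit 0) (nat_lit 69929581723) (nat_lit 456) (nat_lit 50873101188) (nat_lit 532) (nat_lit 4929031041) (nat_lit 43) (nat_lit 5) (nat_lit 49) (nat_lit 5) (nat_lit 50) (nat_lit 5) (nat_lit 245) (nat_lit 244) (nat_lit 171))) (XT.nd (nat_lit 78) (nat_lit 304) (nat_lit 0) (XT.lf (nat_lit 76) (nat_lit 58355568211) (nat_lit 0) (nat_lit 23956335876) (nat_lit 532) (nat_lit 52965825324) (nat_lit 44) (nat_lit 5) (nat_lit 43) (nat_lit 5) (nat_lit 50) (nat_lit 5) (nat_lit 246) (nat_lit 244) (nat_lit 170)) (XT.nd (nat_lit 78) (nat_lit 380) (nat_lit 0) (XT.lf (nat_lit 76) (nat_lit 40811867111) (nat_lit 0) (nat_lit 60341979389) (nat_lit 532) (nat_lit 44733623492) (nat_lit 45) (nat_lit 5) (nat_lit 44) (nat_lit 5) (nat_lit 51) (nat_lit 5) (nat_lit 247) (nat_lit 244) (nat_lit 169)) (XT.lf (nat_lit 0) (nat_lit 22103866578) (nat_lit 456) (nat_lit 105443787473) (nat_lit 532) (nat_lit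 30162975655) (nat_lit 39) (nat_lit 5) (nat_lit 45) (nat_lit 5) (nat_lit 46) (nat_lit 5) (nat_lit 248) (nat_lit 244) (nat_lit 168))))) (XT.nd (nat_lit 234) (nat_lit 608) (nat_lit 0) (XT.nd (nat_lit 78) (nat_lit 304) (nat_lit 0) (XT.lf (nat_lit 0) (nat_lit 1877427935) (nat_lit 228) (nat_lit 161002765554) (nat_lit 304) (nat_lit 8028700457) (nat_lit 36) (nat_lit 5) (nat_lit 39) (nat_lit 5) (nat_lit 40) (nat_lit 5) (nat_lit 249) (nat_lit 244) (nat_lit 167)) (XT.nd (nat_lit 78) (nat_lit 228) (nat_lit 0) (XT.lf (nat_lit 0) (nat_lit 23520038701) (nat_lit 304) (nat_lit 21013761366) (nat_lit 76) (nat_lit 140962291204) (nat_lit 35) (nat_lit 5) (nat_lit 39) (nat_lit 5) (nat_lit 36) (nat_lit 5) (nat_lit 250) (nat_lit 244) (nat_lit 166)) (XT.lf (nat_lit 0) (nat_lit 65364130774) (nat_lit 304) (nat_lit 47376918426) (nat_lit 76) (nat_lit 89030563927) (nat_lit 32) (nat_lit 5) (nat_lit 36) (nat_lit 5) (nat_lit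 33) (nat_lit 5) (nat_lit 251) (nat_lit 244) (nat_lit 165)))) (XT.nd (nat_lit 78) (nat_lit 380) (nat_lit 0) (XT.lf (nat_lit 0) (nat_lit 119357732363) (nat_lit 304) (nat_lit 77799006076) (nat_lit 76) (nat_lit 22861895255) (nat_lit 29) (nat_lit 5) (nat_lit 33) (nat_lit 5) (nat_lit 30) (nat_lit 5) (nat_lit 252) (nat_lit 244) (nat_lit 164)) (XT.nd (nat_lit 78) (nat_lit 228) (nat_lit 0) (XT.lf (nat_lit 0) (nat_lit 125347962009) (nat_lit 152) (nat_lit 63649711870) (nat_lit 228) (nat_lit 51401251308) (nat_lit 27) (nat_lit 5) (nat_lit 29) (nat_lit 5) (nat_lit 30) (nat_lit 5) (nat_lit 253) (nat_lit 244) (nat_lit 163)) (XT.lf (nat_lit 0) (nat_lit 12126661536) (nat_lit 228) (nat_lit 160634408618) (nat_lit 76) (nat_lit 90493751103) (nat_lit 24) (nat_lit 5) (nat_lit 27) (nat_lit 5) (nat_lit 25) (nat_lit 5) (nat_lit 254) (nat_lit 244) (nat_lit 162)))))) (XT.nd (nat_lit 468) (nat_lit 532) (nat_lit 0)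 (XT.nd (nat_lit 234) (nat_lit 380) (nat_lit 0) (XT.nd (nat_lit 78) (nat_lit 152) (nat_lit 0) (XT.lf (nat_lit 0) (nat_lit 70916266251) (nat_lit 152) (nat_lit 18212505708) (nat_lit 228) (nat_lit 199744440189) (nat_lit 22) (nat_lit 5) (nat_lit 24) (nat_lit 5) (nat_lit 25) (nat_lit 5) (nat_lit 255) (nat_lit 244) (nat_lit 161)) (XT.nd (nat_lit 78) (nat_lit 0) (nat_lit 0) (XT.lf (nat_lit 0) (nat_lit 26325152139) (nat_lit 152) (nat_lit 160623289912) (nat_lit 228) (nat_lit 130644541280) (nat_lit 20) (nat_lit 5) (nat_lit 22) (nat_lit 5) (nat_lit 23) (nat_lit 5) (nat_lit 256) (nat_lit 244) (nat_lit 160)) (XT.lf (nat_lit 0) (nat_lit 306605232984) (nat_lit 228) (nat_lit 30484379121) (nat_lit 76) (nat_lit 12957975422) (nat_lit 20) (nat_lit 5) (nat_lit 23) (nat_lit 5) (nat_lit 21) (nat_lit 4) (nat_lit 257) (nat_lit 244) (nat_lit 159)))) (XT.nd (nat_lit 78) (nat_lit 228) (nat_lit 0) (XT.lf (nat_lit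 0) (nat_lit 65436664642) (nat_lit 152) (nat_lit 109208378628) (nat_lit 76) (nat_lit 211700788923) (nat_lit 18) (nat_lit 5) (nat_lit 20) (nat_lit 5) (nat_lit 19) (nat_lit 5) (nat_lit 258) (nat_lit 244) (nat_lit 158)) (XT.nd (nat_lit 78) (nat_lit 76) (nat_lit 0) (XT.lf (nat_lit 0) (nat_lit 194691940709) (nat_lit 228) (nat_lit 213767053004) (nat_lit 76) (nat_lit 19010216597) (nat_lit 16) (nat_lit 5) (nat_lit 19) (nat_lit 5) (nat_lit 17) (nat_lit 4) (nat_lit 259) (nat_lit 244) (nat_lit 157)) (XT.lf (nat_lit 0) (nat_lit 118152999461) (nat_lit 76) (nat_lit 236116092840) (nat_lit 152) (nat_lit 119617316700) (nat_lit 15) (nat_lit 5) (nat_lit 16) (nat_lit 5) (nat_lit 17) (nat_lit 4) (nat_lit 260) (nat_lit 244) (nat_lit 156))))) (XT.nd (nat_lit 234) (nat_lit 228) (nat_lit 0) (XT.nd (nat_lit 78) (nat_lit 228) (nat_lit 0) (XT.lf (nat_lit 0) (nat_lit 16375499347) (nat_lit 152) (nat_lit 14377228238)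 (nat_lit 76) (nat_lit 495982430001) (nat_lit 14) (nat_lit 5) (nat_lit 16) (nat_lit 5) (nat_lit 15) (nat_lit 5) (nat_lit 261) (nat_lit 244) (nat_lit 155)) (XT.nd (nat_lit 78) (nat_lit 76) (nat_lit 0) (XT.lf (nat_lit 0) (nat_lit 180648819954) (nat_lit 228) (nat_lit 197146195190) (nat_lit 76) (nat_lit 208270507290) (nat_lit 12) (nat_lit 5) (nat_lit 15) (nat_lit 5) (nat_lit 13) (nat_lit 4) (nat_lit 262) (nat_lit 244) (nat_lit 154)) (XT.lf (nat_lit 0) (nat_lit 208907632018) (nat_lit 76) (nat_lit 166959497859) (nat_lit 152) (nat_lit 277923993190) (nat_lit 11) (nat_lit 5) (nat_lit 12) (nat_lit 5) (nat_lit 13) (nat_lit 4) (nat_lit 263) (nat_lit 244) (nat_lit 153)))) (XT.nd (nat_lit 78) (nat_lit 228) (nat_lit 0) (XT.lf (nat_lit 0) (nat_lit 608072559522) (nat_lit 152) (nat_lit 45373560002) (nat_lit 0) (nat_lit 77613094723) (nat_lit 11) (nat_lit 5) (nat_lit 13) (nat_lit 4) (nat_lit 11) (nat_lit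 4) (nat_lit 264) (nat_lit 244) (nat_lit 152)) (XT.nd (nat_lit 78) (nat_lit 76) (nat_lit 0) (XT.lf (nat_lit 0) (nat_lit 67802755468) (nat_lit 152) (nat_lit 389429913662) (nat_lit 76) (nat_lit 361348873083) (nat_lit 9) (nat_lit 5) (nat_lit 11) (nat_lit 5) (nat_lit 10) (nat_lit 4) (nat_lit 265) (nat_lit 244) (nat_lit 151)) (XT.lf (nat_lit 0) (nat_lit 57938945053) (nat_lit 76) (nat_lit 224945067840) (nat_lit 152) (nat_lit 635856200565) (nat_lit 8) (nat_lit 5) (nat_lit 9) (nat_lit 5) (nat_lit 10) (nat_lit 4) (nat_lit 266) (nat_lit 244) (nat_lit 150))))))) (XT.nd (nat_lit 858) (nat_lit 152) (nat_lit 0) (XT.nd (nat_lit 390) (nat_lit 76) (nat_lit 0) (XT.nd (nat_lit 156) (nat_lit 152) (nat_lit 0) (XT.nd (nat_lit 78) (nat_lit 76) (nat_lit 0) (XT.lf (nat_lit 0) (nat_lit 542874183188) (nat_lit 152) (nat_lit 438329190568) (nat_lit 0) (nat_lit 51707573882) (nat_lit 8) (nat_lit 5) (nat_lit 10) (nat_lit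 4) (nat_lit 8) (nat_lit 4) (nat_lit 267) (nat_lit 244) (nat_lit 149)) (XT.lf (nat_lit 0) (nat_lit 43466376759) (nat_lit 76) (nat_lit 805663151235) (nat_lit 76) (nat_lit 314496432198) (nat_lit 7) (nat_lit 4) (nat_lit 8) (nat_lit 5) (nat_lit 8) (nat_lit 4) (nat_lit 268) (nat_lit 244) (nat_lit 148))) (XT.nd (nat_lit 78) (nat_lit 152) (nat_lit 0) (XT.lf (nat_lit 0) (nat_lit 624074923552) (nat_lit 76) (nat_lit 590009603727) (nat_lit 76) (nat_lit 98842789272) (nat_lit 7) (nat_lit 4) (nat_lit 8) (nat_lit 5) (nat_lit 8) (nat_lit 4) (nat_lit 269) (nat_lit 244) (nat_lit 147)) (XT.nd (nat_lit 78) (nat_lit 76) (nat_lit 0) (XT.lf (nat_lit 0) (nat_lit 141697251710) (nat_lit 152) (nat_lit 196436613870) (nat_lit 76) (nat_lit 1146203038177) (nat_lit 6) (nat_lit 5) (nat_lit 8) (nat_lit 5) (nat_lit 7) (nat_lit 4) (nat_lit 270) (nat_lit 244) (nat_lit 146)) (XT.lf (nat_lit 0) (nat_lit 386438833776) (nat_lit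 76) (nat_lit 35487033220) (nat_lit 152) (nat_lit 1258569861389) (nat_lit 5) (nat_lit 5) (nat_lit 6) (nat_lit 5) (nat_lit 7) (nat_lit 4) (nat_lit 271) (nat_lit 244) (nat_lit 145))))) (XT.nd (nat_lit 234) (nat_lit 0) (nat_lit 0) (XT.nd (nat_lit 78) (nat_lit 76) (nat_lit 0) (XT.lf (nat_lit 0) (nat_lit 757573267077) (nat_lit 152) (nat_lit 844645372424) (nat_lit 0) (nat_lit 302788977895) (nat_lit 5) (nat_lit 5) (nat_lit 7) (nat_lit 4) (nat_lit 5) (nat_lit 4) (nat_lit 272) (nat_lit 244) (nat_lit 144)) (XT.nd (nat_lit 78) (nat_lit 76) (nat_lit 0) (XT.lf (nat_lit 0) (nat_lit 1144549179205) (nat_lit 152) (nat_lit 328803758955) (nat_lit 0) (nat_lit 689764839509) (nat_lit 5) (nat_lit 5) (nat_lit 7) (nat_lit 4) (nat_lit 5) (nat_lit 4) (nat_lit 273) (nat_lit 244) (nat_lit 143)) (XT.lf (nat_lit 0) (nat_lit 278337533820) (nat_lit 76) (nat_lit 1317927897788) (nat_lit 76) (nat_lit 863143514166) (nat_lit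 4) (nat_lit 4) (nat_lit 5) (nat_lit 5) (nat_lit 5) (nat_lit 4) (nat_lit 274) (nat_lit 244) (nat_lit 142)))) (XT.nd (nat_lit 78) (nat_lit 0) (nat_lit 0) (XT.lf (nat_lit 0) (nat_lit 996461255123) (nat_lit 76) (nat_lit 1128850569801) (nat_lit 76) (nat_lit 674066147983) (nat_lit 4) (nat_lit 4) (nat_lit 5) (nat_lit 5) (nat_lit 5) (nat_lit 4) (nat_lit 275) (nat_lit 244) (nat_lit 141)) (XT.nd (nat_lit 78) (nat_lit 0) (nat_lit 0) (XT.lf (nat_lit 0) (nat_lit 1822303428417) (nat_lit 76) (nat_lit 911411692634) (nat_lit 76) (nat_lit 456627237603) (nat_lit 4) (nat_lit 4) (nat_lit 5) (nat_lit 5) (nat_lit 5) (nat_lit 4) (nat_lit 276) (nat_lit 244) (nat_lit 140)) (XT.lf (nat_lit 0) (nat_lit 2772021835355) (nat_lit 76) (nat_lit 661357027387) (nat_lit 76) (nat_lit 206572543474) (nat_lit 4) (nat_lit 4) (nat_lit 5) (nat_lit 5) (nat_lit 5) (nat_lit 4) (nat_lit 277) (nat_lit 244) (nat_lit 139)))))) (XT.nd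 (nat_lit 31980) (nat_lit 0) (nat_lit 2280) (XT.nd (nat_lit 234) (nat_lit 0) (nat_lit 0) (XT.nd (nat_lit 78) (nat_lit 76) (nat_lit 0) (XT.lf (nat_lit 0) (nat_lit 76938845591) (nat_lit 152) (nat_lit 294751710197) (nat_lit 76) (nat_lit 3785155433050) (nat_lit 3) (nat_lit 5) (nat_lit 5) (nat_lit 5) (nat_lit 4) (nat_lit 4) (nat_lit 278) (nat_lit 244) (nat_lit 138)) (XT.nd (nat_lit 78) (nat_lit 0) (nat_lit 0) (XT.lf (nat_lit 0) (nat_lit 377577423811) (nat_lit 76) (nat_lit 22596592860) (nat_lit 152) (nat_lit 4349917222690) (nat_lit 2) (nat_lit 5) (nat_lit 3) (nat_lit 5) (nat_lit 4) (nat_lit 4) (nat_lit 279) (nat_lit 244) (nat_lit 137)) (XT.lf (nat_lit 0) (nat_lit 789810327292) (nat_lit 152) (nat_lit 4272366159219) (nat_lit 0) (nat_lit 368713521869) (nat_lit 2) (nat_lit 5) (nat_lit 4) (nat_lit 4) (nat_lit 2) (nat_lit 4) (nat_lit 280) (nat_lit 244) (nat_lit 136)))) (XT.nd (nat_lit 31590) (nat_lit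 0) (nat_lit 3040) (XT.lf (nat_lit 0) (nat_lit 1238517019686) (nat_lit 152) (nat_lit 4157821379299) (nat_lit 0) (nat_lit 817420198973) (nat_lit 2) (nat_lit 5) (nat_lit 4) (nat_lit 4) (nat_lit 2) (nat_lit 4) (nat_lit 281) (nat_lit 244) (nat_lit 135)) (XT.nd (nat_lit 78) (nat_lit 0) (nat_lit 76) (XT.lf (nat_lit 0) (nat_lit 36376037464) (nat_lit 532) (nat_lit 15479024852) (nat_lit 532) (nat_lit 15479024852) (nat_lit 42) (nat_lit 3) (nat_lit 49) (nat_lit 3) (nat_lit 49) (nat_lit 5) (nat_lit 245) (nat_lit 245) (nat_lit 170)) (XT.lf (nat_lit 0) (nat_lit 80432045591) (nat_lit 456) (nat_lit 58495417891) (nat_lit 532) (nat_lit 5662916563) (nat_lit 43) (nat_lit 5) (nat_lit 49) (nat_lit 5) (nat_lit 50) (nat_lit 5) (nat_lit 246) (nat_lit 245) (nat_lit 169))))) (XT.nd (nat_lit 234) (nat_lit 532) (nat_lit 0) (XT.nd (nat_lit 78) (nat_lit 304) (nat_lit 0) (XT.lf (nat_lit 76) (nat_lit 67116819867) (nat_lit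 0) (nat_lit 27553387710) (nat_lit 532) (nat_lit 60898217320) (nat_lit 44) (nat_lit 5) (nat_lit 43) (nat_lit 5) (nat_lit 50) (nat_lit 5) (nat_lit 247) (nat_lit 245) (nat_lit 168)) (XT.nd (nat_lit 78) (nat_lit 380) (nat_lit 0) (XT.lf (nat_lit 76) (nat_lit 46941855135) (nat_lit 0) (nat_lit 69395205970) (nat_lit 532) (nat_lit 51432681423) (nat_lit 45) (nat_lit 5) (nat_lit 44) (nat_lit 5) (nat_lit 51) (nat_lit 5) (nat_lit 248) (nat_lit 245) (nat_lit 167)) (XT.lf (nat_lit 0) (nat_lit 25427778427) (nat_lit 456) (nat_lit 121260999088) (nat_lit 532) (nat_lit 34677696486) (nat_lit 39) (nat_lit 5) (nat_lit 45) (nat_lit 5) (nat_lit 46) (nat_lit 5) (nat_lit 249) (nat_lit 245) (nat_lit 166)))) (XT.nd (nat_lit 78) (nat_lit 304) (nat_lit 0) (XT.lf (nat_lit 0) (nat_lit 2167369567) (nat_lit 228) (nat_lit 185152844421) (nat_lit 304) (nat_lit 9224346791) (nat_lit 36) (nat_lit 5) (nat_lit 39) (nat_lit 5)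 (nat_lit 40) (nat_lit 5) (nat_lit 250) (nat_lit 245) (nat_lit 165)) (XT.nd (nat_lit 78) (nat_lit 228) (nat_lit 0) (XT.lf (nat_lit 0) (nat_lit 27055197194) (nat_lit 304) (nat_lit 24158185172) (nat_lit 76) (nat_lit 162106527884) (nat_lit 35) (nat_lit 5) (nat_lit 39) (nat_lit 5) (nat_lit 36) (nat_lit 5) (nat_lit 251) (nat_lit 245) (nat_lit 164)) (XT.lf (nat_lit 0) (nat_lit 75175152884) (nat_lit 304) (nat_lit 54475946484) (nat_lit 76) (nat_lit 102385723965) (nat_lit 32) (nat_lit 5) (nat_lit 36) (nat_lit 5) (nat_lit 33) (nat_lit 5) (nat_lit 252) (nat_lit 245) (nat_lit 163))))))))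
noncomputable def xc52 : XT := (XT.nd (nat_lit 1794) (nat_lit 152) (nat_lit 0) (XT.nd (nat_lit 858) (nat_lit 608) (nat_lit 0) (XT.nd (nat_lit 390) (nat_lit 608) (nat_lit 0) (XT.nd (nat_lit 156) (nat_lit 532) (nat_lit 0) (XT.nd (nat_lit 78) (nat_lit 152) (nat_lit 0) (XT.lf (nat_lit 0) (nat_lit 137267152374) (nat_lit 304) (nat_lit 89461534762) (nat_lit 76) (nat_lit 26292263788) (nat_lit 29) (nat_lit 5) (nat_lit 33) (nat_lit 5) (nat_lit 30) (nat_lit 5) (nat_lit 253) (nat_lit 245) (nat_lit 162)) (XT.lf (nat_lit 0) (nat_lit 144156858746) (nat_lit 152) (nat_lit 73195636240) (nat_lit 228) (nat_lit 59105840585) (nat_lit 27) (nat_lit 5) (nat_lit 29) (nat_lit 5) (nat_lit 30) (nat_lit 5) (nat_lit 254) (nat_lit 245) (nat_lit 161))) (XT.nd (nat_lit 78) (nat_lit 304) (nat_lit 0) (XT.lf (nat_lit 0) (nat_lit 13950478536) (nat_lit 228) (nat_lit 184722810800) (nat_lit 76) (nat_lit 104069357778) (nat_lit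 24) (nat_lit 5) (nat_lit 27) (nat_lit 5) (nat_lit 25) (nat_lit 5) (nat_lit 255) (nat_lit 245) (nat_lit 160)) (XT.nd (nat_lit 78) (nat_lit 152) (nat_lit 0) (XT.lf (nat_lit 0) (nat_lit 81559893174) (nat_lit 152) (nat_lit 20942532741) (nat_lit 228) (nat_lit 229701410646) (nat_lit 22) (nat_lit 5) (nat_lit 24) (nat_lit 5) (nat_lit 25) (nat_lit 5) (nat_lit 256) (nat_lit 245) (nat_lit 159)) (XT.lf (nat_lit 0) (nat_lit 30279874705) (nat_lit 152) (nat_lit 184714787725) (nat_lit 228) (nat_lit 150236943070) (nat_lit 20) (nat_lit 5) (nat_lit 22) (nat_lit 5) (nat_lit 23) (nat_lit 5) (nat_lit 257) (nat_lit 245) (nat_lit 158))))) (XT.nd (nat_lit 234) (nat_lit 304) (nat_lit 0) (XT.nd (nat_lit 78) (nat_lit 304) (nat_lit 0) (XT.lf (nat_lit 0) (nat_lit 352599497990) (nat_lit 228) (nat_lit 35051621137) (nat_lit 76) (nat_lit 14903320294) (nat_lit 20) (nat_lit 5) (nat_lit 23) (nat_lit 5) (nat_lit 21) (nat_lit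 4) (nat_lit 258) (nat_lit 245) (nat_lit 157)) (XT.nd (nat_lit 78) (nat_lit 152) (nat_lit 0) (XT.lf (nat_lit 0) (nat_lit 75255397847) (nat_lit 152) (nat_lit 125584502334) (nat_lit 76) (nat_lit 243457541855) (nat_lit 18) (nat_lit 5) (nat_lit 20) (nat_lit 5) (nat_lit 19) (nat_lit 5) (nat_lit 259) (nat_lit 245) (nat_lit 156)) (XT.lf (nat_lit 0) (nat_lit 223898699224) (nat_lit 228) (nat_lit 245827215556) (nat_lit 76) (nat_lit 21863434201) (nat_lit 16) (nat_lit 5) (nat_lit 19) (nat_lit 5) (nat_lit 17) (nat_lit 4) (nat_lit 260) (nat_lit 245) (nat_lit 155)))) (XT.nd (nat_lit 78) (nat_lit 228) (nat_lit 0) (XT.lf (nat_lit 0) (nat_lit 135880430409) (nat_lit 76) (nat_lit 271531713862) (nat_lit 152) (nat_lit 137557006264) (nat_lit 15) (nat_lit 5) (nat_lit 16) (nat_lit 5) (nat_lit 17) (nat_lit 4) (nat_lit 261) (nat_lit 245) (nat_lit 154)) (XT.nd (nat_lit 78) (nat_lit 152) (nat_lit 0) (XT.lf (nat_lit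 0) (nat_lit 18834226401) (nat_lit 152) (nat_lit 16529785596) (nat_lit 76) (nat_lit 570381223216) (nat_lit 14) (nat_lit 5) (nat_lit 16) (nat_lit 5) (nat_lit 15) (nat_lit 5) (nat_lit 262) (nat_lit 245) (nat_lit 153)) (XT.lf (nat_lit 0) (nat_lit 207748356704) (nat_lit 228) (nat_lit 226714297190) (nat_lit 76) (nat_lit 239512516466) (nat_lit 12) (nat_lit 5) (nat_lit 15) (nat_lit 5) (nat_lit 13) (nat_lit 4) (nat_lit 263) (nat_lit 245) (nat_lit 152)))))) (XT.nd (nat_lit 468) (nat_lit 228) (nat_lit 0) (XT.nd (nat_lit 234) (nat_lit 152) (nat_lit 0) (XT.nd (nat_lit 78) (nat_lit 152) (nat_lit 0) (XT.lf (nat_lit 0) (nat_lit 240247280139) (nat_lit 76) (nat_lit 192001928481) (nat_lit 152) (nat_lit 319610419263) (nat_lit 11) (nat_lit 5) (nat_lit 12) (nat_lit 5) (nat_lit 13) (nat_lit 4) (nat_lit 264) (nat_lit 245) (nat_lit 151)) (XT.nd (nat_lit 78) (nat_lit 152) (nat_lit 0) (XT.lf (nat_lit 0) (nat_lit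 699285221879) (nat_lit 152) (nat_lit 52176436586) (nat_lit 0) (nat_lit 89256293121) (nat_lit 11) (nat_lit 5) (nat_lit 13) (nat_lit 4) (nat_lit 11) (nat_lit 4) (nat_lit 265) (nat_lit 245) (nat_lit 150)) (XT.lf (nat_lit 0) (nat_lit 77974828815) (nat_lit 152) (nat_lit 447841421108) (nat_lit 76) (nat_lit 415552388788) (nat_lit 9) (nat_lit 5) (nat_lit 11) (nat_lit 5) (nat_lit 10) (nat_lit 4) (nat_lit 266) (nat_lit 245) (nat_lit 149)))) (XT.nd (nat_lit 78) (nat_lit 76) (nat_lit 0) (XT.lf (nat_lit 0) (nat_lit 66632514206) (nat_lit 76) (nat_lit 258685609716) (nat_lit 152) (nat_lit 731232999060) (nat_lit 8) (nat_lit 5) (nat_lit 9) (nat_lit 5) (nat_lit 10) (nat_lit 4) (nat_lit 267) (nat_lit 245) (nat_lit 148)) (XT.nd (nat_lit 78) (nat_lit 76) (nat_lit 0) (XT.lf (nat_lit 0) (nat_lit 624306648402) (nat_lit 152) (nat_lit 504076116467) (nat_lit 0) (nat_lit 59464716360) (nat_lit 8) (nat_lit 5) (nat_lit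 10) (nat_lit 4) (nat_lit 8) (nat_lit 4) (nat_lit 268) (nat_lit 245) (nat_lit 147)) (XT.lf (nat_lit 0) (nat_lit 49988578352) (nat_lit 76) (nat_lit 926511596084) (nat_lit 76) (nat_lit 361669581070) (nat_lit 7) (nat_lit 4) (nat_lit 8) (nat_lit 5) (nat_lit 8) (nat_lit 4) (nat_lit 269) (nat_lit 245) (nat_lit 146))))) (XT.nd (nat_lit 234) (nat_lit 76) (nat_lit 0) (XT.nd (nat_lit 78) (nat_lit 152) (nat_lit 0) (XT.lf (nat_lit 0) (nat_lit 717688114327) (nat_lit 76) (nat_lit 678510150515) (nat_lit 76) (nat_lit 113668063352) (nat_lit 7) (nat_lit 4) (nat_lit 8) (nat_lit 5) (nat_lit 8) (nat_lit 4) (nat_lit 270) (nat_lit 245) (nat_lit 145)) (XT.nd (nat_lit 78) (nat_lit 76) (nat_lit 0) (XT.lf (nat_lit 0) (nat_lit 162952784743) (nat_lit 152) (nat_lit 225900357636) (nat_lit 76) (nat_lit 1318134220384) (nat_lit 6) (nat_lit 5) (nat_lit 8) (nat_lit 5) (nat_lit 7) (nat_lit 4) (nat_lit 271) (nat_lit 245) (nat_lit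 144)) (XT.lf (nat_lit 0) (nat_lit 444406259171) (nat_lit 76) (nat_lit 40809348342) (nat_lit 152) (nat_lit 1447354410479) (nat_lit 5) (nat_lit 5) (nat_lit 6) (nat_lit 5) (nat_lit 7) (nat_lit 4) (nat_lit 272) (nat_lit 245) (nat_lit 143)))) (XT.nd (nat_lit 78) (nat_lit 76) (nat_lit 0) (XT.lf (nat_lit 0) (nat_lit 871210020843) (nat_lit 152) (nat_lit 971340741604) (nat_lit 0) (nat_lit 348207935753) (nat_lit 5) (nat_lit 5) (nat_lit 7) (nat_lit 4) (nat_lit 5) (nat_lit 4) (nat_lit 273) (nat_lit 245) (nat_lit 142)) (XT.nd (nat_lit 78) (nat_lit 76) (nat_lit 0) (XT.lf (nat_lit 0) (nat_lit 1316232220178) (nat_lit 152) (nat_lit 378123073509) (nat_lit 0) (nat_lit 793230096891) (nat_lit 5) (nat_lit 5) (nat_lit 7) (nat_lit 4) (nat_lit 5) (nat_lit 4) (nat_lit 274) (nat_lit 245) (nat_lit 141)) (XT.lf (nat_lit 0) (nat_lit 320089307437) (nat_lit 76) (nat_lit 1515616543886) (nat_lit 76) (nat_lit 992614387385)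 (nat_lit 4) (nat_lit 4) (nat_lit 5) (nat_lit 5) (nat_lit 5) (nat_lit 4) (nat_lit 275) (nat_lit 245) (nat_lit 140))))))) (XT.nd (nat_lit 32448) (nat_lit 0) (nat_lit 988) (XT.nd (nat_lit 390) (nat_lit 0) (nat_lit 0) (XT.nd (nat_lit 156) (nat_lit 152) (nat_lit 0) (XT.nd (nat_lit 78) (nat_lit 0) (nat_lit 0) (XT.lf (nat_lit 0) (nat_lit 1145931437777) (nat_lit 76) (nat_lit 1298177686949) (nat_lit 76) (nat_lit 775175501567) (nat_lit 4) (nat_lit 4) (nat_lit 5) (nat_lit 5) (nat_lit 5) (nat_lit 4) (nat_lit 276) (nat_lit 245) (nat_lit 139)) (XT.lf (nat_lit 0) (nat_lit 2095649807363) (nat_lit 76) (nat_lit 1048123039293) (nat_lit 76) (nat_lit 525120828796) (nat_lit 4) (nat_lit 4) (nat_lit 5) (nat_lit 5) (nat_lit 5) (nat_lit 4) (nat_lit 277) (nat_lit 245) (nat_lit 138))) (XT.nd (nat_lit 78) (nat_lit 152) (nat_lit 0) (XT.lf (nat_lit 0) (nat_lit 3187825862557) (nat_lit 76) (nat_lit 760560227377) (nat_lit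 76) (nat_lit 237557995041) (nat_lit 4) (nat_lit 4) (nat_lit 5) (nat_lit 5) (nat_lit 5) (nat_lit 4) (nat_lit 278) (nat_lit 245) (nat_lit 137)) (XT.nd (nat_lit 78) (nat_lit 76) (nat_lit 0) (XT.lf (nat_lit 0) (nat_lit 88480027600) (nat_lit 152) (nat_lit 338963793916) (nat_lit 76) (nat_lit 4352929036951) (nat_lit 3) (nat_lit 5) (nat_lit 5) (nat_lit 5) (nat_lit 4) (nat_lit 4) (nat_lit 279) (nat_lit 245) (nat_lit 136)) (XT.lf (nat_lit 0) (nat_lit 434214653243) (nat_lit 76) (nat_lit 25985789584) (nat_lit 152) (nat_lit 5002404456300) (nat_lit 2) (nat_lit 5) (nat_lit 3) (nat_lit 5) (nat_lit 4) (nat_lit 4) (nat_lit 280) (nat_lit 245) (nat_lit 135))))) (XT.nd (nat_lit 31824) (nat_lit 0) (nat_lit 2812) (XT.nd (nat_lit 31668) (nat_lit 0) (nat_lit 3040) (XT.lf (nat_lit 0) (nat_lit 908282163936) (nat_lit 152) (nat_lit 4913220530952) (nat_lit 0) (nat_lit 424020791530) (nat_lit 2) (nat_lit 5) (nat_lit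 4) (nat_lit 4) (nat_lit 2) (nat_lit 4) (nat_lit 281) (nat_lit 245) (nat_lit 134)) (XT.nd (nat_lit 78) (nat_lit 0) (nat_lit 76) (XT.lf (nat_lit 0) (nat_lit 41838089566) (nat_lit 532) (nat_lit 17797818856) (nat_lit 532) (nat_lit 17797818856) (nat_lit 42) (nat_lit 3) (nat_lit 49) (nat_lit 3) (nat_lit 49) (nat_lit 5) (nat_lit 246) (nat_lit 246) (nat_lit 168)) (XT.lf (nat_lit 0) (nat_lit 92506702418) (nat_lit 456) (nat_lit 67263191085) (nat_lit 532) (nat_lit 6508218597) (nat_lit 43) (nat_lit 5) (nat_lit 49) (nat_lit 5) (nat_lit 50) (nat_lit 5) (nat_lit 247) (nat_lit 246) (nat_lit 167)))) (XT.nd (nat_lit 78) (nat_lit 304) (nat_lit 0) (XT.lf (nat_lit 76) (nat_lit 77190328802) (nat_lit 0) (nat_lit 31689119081) (nat_lit 532) (nat_lit 70023511882) (nat_lit 44) (nat_lit 5) (nat_lit 43) (nat_lit 5) (nat_lit 50) (nat_lit 5) (nat_lit 248) (nat_lit 246) (nat_lit 166)) (XT.nd (nat_lit 78) (nat_lit 380)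 (nat_lit 0) (XT.lf (nat_lit 76) (nat_lit 53989339800) (nat_lit 0) (nat_lit 79805945975) (nat_lit 532) (nat_lit 59139276951) (nat_lit 45) (nat_lit 5) (nat_lit 44) (nat_lit 5) (nat_lit 51) (nat_lit 5) (nat_lit 249) (nat_lit 246) (nat_lit 165)) (XT.lf (nat_lit 0) (nat_lit 29248245276) (nat_lit 456) (nat_lit 139450635525) (nat_lit 532) (nat_lit 39871997070) (nat_lit 39) (nat_lit 5) (nat_lit 45) (nat_lit 5) (nat_lit 46) (nat_lit 5) (nat_lit 250) (nat_lit 246) (nat_lit 164)))))) (XT.nd (nat_lit 468) (nat_lit 684) (nat_lit 0) (XT.nd (nat_lit 234) (nat_lit 608) (nat_lit 0) (XT.nd (nat_lit 78) (nat_lit 304) (nat_lit 0) (XT.lf (nat_lit 0) (nat_lit 2498771745) (nat_lit 228) (nat_lit 212925517046) (nat_lit 304) (nat_lit 10601451563) (nat_lit 36) (nat_lit 5) (nat_lit 39) (nat_lit 5) (nat_lit 40) (nat_lit 5) (nat_lit 251) (nat_lit 246) (nat_lit 163)) (XT.nd (nat_lit 78) (nat_lit 228) (nat_lit 0) (XT.lf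 (nat_lit 0) (nat_lit 31118885231) (nat_lit 304) (nat_lit 27776135709) (nat_lit 76) (nat_lit 186422426159) (nat_lit 35) (nat_lit 5) (nat_lit 39) (nat_lit 5) (nat_lit 36) (nat_lit 5) (nat_lit 252) (nat_lit 246) (nat_lit 162)) (XT.lf (nat_lit 0) (nat_lit 86456267022) (nat_lit 304) (nat_lit 62641660040) (nat_lit 76) (nat_lit 117744017682) (nat_lit 32) (nat_lit 5) (nat_lit 36) (nat_lit 5) (nat_lit 33) (nat_lit 5) (nat_lit 253) (nat_lit 246) (nat_lit 161)))) (XT.nd (nat_lit 78) (nat_lit 380) (nat_lit 0) (XT.lf (nat_lit 0) (nat_lit 157861580736) (nat_lit 304) (nat_lit 102875228322) (nat_lit 76) (nat_lit 30236923201) (nat_lit 29) (nat_lit 5) (nat_lit 33) (nat_lit 5) (nat_lit 30) (nat_lit 5) (nat_lit 254) (nat_lit 246) (nat_lit 160)) (XT.nd (nat_lit 78) (nat_lit 228) (nat_lit 0) (XT.lf (nat_lit 0) (nat_lit 165785455562) (nat_lit 152) (nat_lit 84173822954) (nat_lit 228) (nat_lit 67967483463) (nat_lit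 27) (nat_lit 5) (nat_lit 29) (nat_lit 5) (nat_lit 30) (nat_lit 5) (nat_lit 255) (nat_lit 246) (nat_lit 159)) (XT.lf (nat_lit 0) (nat_lit 16046693243) (nat_lit 228) (nat_lit 212426121561) (nat_lit 76) (nat_lit 119680928937) (nat_lit 24) (nat_lit 5) (nat_lit 27) (nat_lit 5) (nat_lit 25) (nat_lit 5) (nat_lit 256) (nat_lit 246) (nat_lit 158))))) (XT.nd (nat_lit 234) (nat_lit 380) (nat_lit 0) (XT.nd (nat_lit 78) (nat_lit 152) (nat_lit 0) (XT.lf (nat_lit 0) (nat_lit 93798555401) (nat_lit 152) (nat_lit 24082514676) (nat_lit 228) (nat_lit 264153071716) (nat_lit 22) (nat_lit 5) (nat_lit 24) (nat_lit 5) (nat_lit 25) (nat_lit 5) (nat_lit 257) (nat_lit 246) (nat_lit 157)) (XT.nd (nat_lit 78) (nat_lit 0) (nat_lit 0) (XT.lf (nat_lit 0) (nat_lit 34826354772) (nat_lit 152) (nat_lit 212420496868) (nat_lit 228) (nat_lit 172769248687) (nat_lit 20) (nat_lit 5) (nat_lit 22) (nat_lit 5) (nat_lit 23) (nat_lit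 5) (nat_lit 258) (nat_lit 246) (nat_lit 156)) (XT.lf (nat_lit 0) (nat_lit 405492054112) (nat_lit 228) (nat_lit 40305269902) (nat_lit 76) (nat_lit 17140064884) (nat_lit 20) (nat_lit 5) (nat_lit 23) (nat_lit 5) (nat_lit 21) (nat_lit 4) (nat_lit 259) (nat_lit 246) (nat_lit 155)))) (XT.nd (nat_lit 78) (nat_lit 228) (nat_lit 0) (XT.lf (nat_lit 0) (nat_lit 86546152520) (nat_lit 152) (nat_lit 144418296332) (nat_lit 76) (nat_lit 279977409121) (nat_lit 18) (nat_lit 5) (nat_lit 20) (nat_lit 5) (nat_lit 19) (nat_lit 5) (nat_lit 260) (nat_lit 246) (nat_lit 154)) (XT.nd (nat_lit 78) (nat_lit 76) (nat_lit 0) (XT.lf (nat_lit 0) (nat_lit 257485747895) (nat_lit 228) (nat_lit 282697596265) (nat_lit 76) (nat_lit 25144223521) (nat_lit 16) (nat_lit 5) (nat_lit 19) (nat_lit 5) (nat_lit 17) (nat_lit 4) (nat_lit 261) (nat_lit 246) (nat_lit 153)) (XT.lf (nat_lit 0) (nat_lit 156265883271) (nat_lit 76) (nat_lit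 312260115248) (nat_lit 152) (nat_lit 158188358382) (nat_lit 15) (nat_lit 5) (nat_lit 16) (nat_lit 5) (nat_lit 17) (nat_lit 4) (nat_lit 262) (nat_lit 246) (nat_lit 152))))))))
noncomputable def xc53 : XT := (XT.nd (nat_lit 33462) (nat_lit 0) (nat_lit 304) (XT.nd (nat_lit 858) (nat_lit 228) (nat_lit 0) (XT.nd (nat_lit 390) (nat_lit 304) (nat_lit 0) (XT.nd (nat_lit 156) (nat_lit 228) (nat_lit 0) (XT.nd (nat_lit 78) (nat_lit 152) (nat_lit 0) (XT.lf (nat_lit 0) (nat_lit 21661176733) (nat_lit 152) (nat_lit 19006208538) (nat_lit 76) (nat_lit 655939487012) (nat_lit 14) (nat_lit 5) (nat_lit 16) (nat_lit 5) (nat_lit 15) (nat_lit 5) (nat_lit 263) (nat_lit 246) (nat_lit 151)) (XT.lf (nat_lit 0) (nat_lit 238912284128) (nat_lit 228) (nat_lit 260718547796) (nat_lit 76) (nat_lit 275440477552) (nat_lit 12) (nat_lit 5) (nat_lit 15) (nat_lit 5) (nat_lit 13) (nat_lit 4) (nat_lit 264) (nat_lit 246) (nat_lit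 150))) (XT.nd (nat_lit 78) (nat_lit 152) (nat_lit 0) (XT.lf (nat_lit 0) (nat_lit 276287021172) (nat_lit 76) (nat_lit 220801088032) (nat_lit 152) (nat_lit 367550339125) (nat_lit 11) (nat_lit 5) (nat_lit 12) (nat_lit 5) (nat_lit 13) (nat_lit 4) (nat_lit 265) (nat_lit 246) (nat_lit 149)) (XT.nd (nat_lit 78) (nat_lit 152) (nat_lit 0) (XT.lf (nat_lit 0) (nat_lit 804179349909) (nat_lit 152) (nat_lit 60000514613) (nat_lit 0) (nat_lit 102645670314) (nat_lit 11) (nat_lit 5) (nat_lit 13) (nat_lit 4) (nat_lit 11) (nat_lit 4) (nat_lit 266) (nat_lit 246) (nat_lit 148)) (XT.lf (nat_lit 0) (nat_lit 89672308355) (nat_lit 152) (nat_lit 515015381266) (nat_lit 76) (nat_lit 477886142942) (nat_lit 9) (nat_lit 5) (nat_lit 11) (nat_lit 5) (nat_lit 10) (nat_lit 4) (nat_lit 267) (nat_lit 246) (nat_lit 147))))) (XT.nd (nat_lit 234) (nat_lit 152) (nat_lit 0) (XT.nd (nat_lit 78) (nat_lit 76) (nat_lit 0) (XT.lf (nat_lit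 0) (nat_lit 76629453639) (nat_lit 76) (nat_lit 297487529964) (nat_lit 152) (nat_lit 840916715203) (nat_lit 8) (nat_lit 5) (nat_lit 9) (nat_lit 5) (nat_lit 10) (nat_lit 4) (nat_lit 268) (nat_lit 246) (nat_lit 146)) (XT.nd (nat_lit 78) (nat_lit 76) (nat_lit 0) (XT.lf (nat_lit 0) (nat_lit 717953657182) (nat_lit 152) (nat_lit 579685679353) (nat_lit 0) (nat_lit 68385184794) (nat_lit 8) (nat_lit 5) (nat_lit 10) (nat_lit 4) (nat_lit 8) (nat_lit 4) (nat_lit 269) (nat_lit 246) (nat_lit 145)) (XT.lf (nat_lit 0) (nat_lit 57488562707) (nat_lit 76) (nat_lit 1065487558304) (nat_lit 76) (nat_lit 415919023177) (nat_lit 7) (nat_lit 4) (nat_lit 8) (nat_lit 5) (nat_lit 8) (nat_lit 4) (nat_lit 270) (nat_lit 246) (nat_lit 144)))) (XT.nd (nat_lit 78) (nat_lit 152) (nat_lit 0) (XT.lf (nat_lit 0) (nat_lit 825342807652) (nat_lit 76) (nat_lit 780285997273) (nat_lit 76) (nat_lit 130717407591) (nat_lit 7) (nat_lit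 4) (nat_lit 8) (nat_lit 5) (nat_lit 8) (nat_lit 4) (nat_lit 271) (nat_lit 246) (nat_lit 143)) (XT.nd (nat_lit 78) (nat_lit 76) (nat_lit 0) (XT.lf (nat_lit 0) (nat_lit 187396417219) (nat_lit 152) (nat_lit 259784089305) (nat_lit 76) (nat_lit 1515854902765) (nat_lit 6) (nat_lit 5) (nat_lit 8) (nat_lit 5) (nat_lit 7) (nat_lit 4) (nat_lit 272) (nat_lit 246) (nat_lit 142)) (XT.lf (nat_lit 0) (nat_lit 511068408124) (nat_lit 76) (nat_lit 46930191153) (nat_lit 152) (nat_lit 1664456868748) (nat_lit 5) (nat_lit 5) (nat_lit 6) (nat_lit 5) (nat_lit 7) (nat_lit 4) (nat_lit 273) (nat_lit 246) (nat_lit 141)))))) (XT.nd (nat_lit 468) (nat_lit 152) (nat_lit 0) (XT.nd (nat_lit 234) (nat_lit 0) (nat_lit 0) (XT.nd (nat_lit 78) (nat_lit 76) (nat_lit 0) (XT.lf (nat_lit 0) (nat_lit 1001892101441) (nat_lit 152) (nat_lit 1117040766506) (nat_lit 0) (nat_lit 400439588252) (nat_lit 5) (nat_lit 5) (nat_lit 7) (nat_lit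 4) (nat_lit 5) (nat_lit 4) (nat_lit 274) (nat_lit 246) (nat_lit 140)) (XT.nd (nat_lit 78) (nat_lit 76) (nat_lit 0) (XT.lf (nat_lit 0) (nat_lit 1513667555353) (nat_lit 152) (nat_lit 434840589893) (nat_lit 0) (nat_lit 912215013282) (nat_lit 5) (nat_lit 5) (nat_lit 7) (nat_lit 4) (nat_lit 5) (nat_lit 4) (nat_lit 275) (nat_lit 246) (nat_lit 139)) (XT.lf (nat_lit 0) (nat_lit 368103568235) (nat_lit 76) (nat_lit 1742958618232) (nat_lit 76) (nat_lit 1141506051046) (nat_lit 4) (nat_lit 4) (nat_lit 5) (nat_lit 5) (nat_lit 5) (nat_lit 4) (nat_lit 276) (nat_lit 246) (nat_lit 138)))) (XT.nd (nat_lit 78) (nat_lit 0) (nat_lit 0) (XT.lf (nat_lit 0) (nat_lit 1317821905342) (nat_lit 76) (nat_lit 1492903985873) (nat_lit 76) (nat_lit 891451396848) (nat_lit 4) (nat_lit 4) (nat_lit 5) (nat_lit 5) (nat_lit 5) (nat_lit 4) (nat_lit 277) (nat_lit 246) (nat_lit 137)) (XT.nd (nat_lit 78) (nat_lit 0) (nat_lit 0)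 (XT.lf (nat_lit 0) (nat_lit 2409997932292) (nat_lit 76) (nat_lit 1205341187258) (nat_lit 76) (nat_lit 603888579243) (nat_lit 4) (nat_lit 4) (nat_lit 5) (nat_lit 5) (nat_lit 5) (nat_lit 4) (nat_lit 278) (nat_lit 246) (nat_lit 136)) (XT.lf (nat_lit 0) (nat_lit 3666000310483) (nat_lit 76) (nat_lit 874643993719) (nat_lit 76) (nat_lit 273191369191) (nat_lit 4) (nat_lit 4) (nat_lit 5) (nat_lit 5) (nat_lit 5) (nat_lit 4) (nat_lit 279) (nat_lit 246) (nat_lit 135))))) (XT.nd (nat_lit 31902) (nat_lit 0) (nat_lit 3116) (XT.nd (nat_lit 78) (nat_lit 76) (nat_lit 0) (XT.lf (nat_lit 0) (nat_lit 101752300300) (nat_lit 152) (nat_lit 389807854262) (nat_lit 76) (nat_lit 5005868610977) (nat_lit 3) (nat_lit 5) (nat_lit 5) (nat_lit 5) (nat_lit 4) (nat_lit 4) (nat_lit 280) (nat_lit 246) (nat_lit 134)) (XT.nd (nat_lit 31746) (nat_lit 0) (nat_lit 3040) (XT.lf (nat_lit 0) (nat_lit 499347316909) (nat_lit 76) (nat_lit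 29883437073) (nat_lit 152) (nat_lit 5752764860251) (nat_lit 2) (nat_lit 5) (nat_lit 3) (nat_lit 5) (nat_lit 4) (nat_lit 4) (nat_lit 281) (nat_lit 246) (nat_lit 133)) (XT.lf (nat_lit 0) (nat_lit 48118072552) (nat_lit 532) (nat_lit 20465178094) (nat_lit 532) (nat_lit 20465178094) (nat_lit 42) (nat_lit 3) (nat_lit 49) (nat_lit 3) (nat_lit 49) (nat_lit 5) (nat_lit 247) (nat_lit 247) (nat_lit 166)))) (XT.nd (nat_lit 78) (nat_lit 0) (nat_lit 0) (XT.lf (nat_lit 0) (nat_lit 106390155788) (nat_lit 456) (nat_lit 77347724954) (nat_lit 532) (nat_lit 7481324392) (nat_lit 43) (nat_lit 5) (nat_lit 49) (nat_lit 5) (nat_lit 50) (nat_lit 5) (nat_lit 248) (nat_lit 247) (nat_lit 165)) (XT.nd (nat_lit 78) (nat_lit 0) (nat_lit 76) (XT.lf (nat_lit 76) (nat_lit 88773404364) (nat_lit 0) (nat_lit 36444546085) (nat_lit 532) (nat_lit 80519902153) (nat_lit 44) (nat_lit 5) (nat_lit 43) (nat_lit 5) (nat_lit 50) (nat_lit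 5) (nat_lit 249) (nat_lit 247) (nat_lit 164)) (XT.lf (nat_lit 76) (nat_lit 62092433696) (nat_lit 0) (nat_lit 91777941168) (nat_lit 532) (nat_lit 68003887445) (nat_lit 45) (nat_lit 5) (nat_lit 44) (nat_lit 5) (nat_lit 51) (nat_lit 5) (nat_lit 250) (nat_lit 247) (nat_lit 163))))))) (XT.nd (nat_lit 858) (nat_lit 912) (nat_lit 0) (XT.nd (nat_lit 390) (nat_lit 836) (nat_lit 0) (XT.nd (nat_lit 156) (nat_lit 532) (nat_lit 0) (XT.nd (nat_lit 78) (nat_lit 228) (nat_lit 0) (XT.lf (nat_lit 0) (nat_lit 33640245836) (nat_lit 456) (nat_lit 160368598773) (nat_lit 532) (nat_lit 45847236035) (nat_lit 39) (nat_lit 5) (nat_lit 45) (nat_lit 5) (nat_lit 46) (nat_lit 5) (nat_lit 251) (nat_lit 247) (nat_lit 162)) (XT.lf (nat_lit 0) (nat_lit 2878348748) (nat_lit 228) (nat_lit 244864152512) (nat_lit 304) (nat_lit 12186718637) (nat_lit 36) (nat_lit 5) (nat_lit 39) (nat_lit 5) (nat_lit 40) (nat_lit 5) (nat_lit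 252) (nat_lit 247) (nat_lit 161))) (XT.nd (nat_lit 78) (nat_lit 456) (nat_lit 0) (XT.lf (nat_lit 0) (nat_lit 35790807588) (nat_lit 304) (nat_lit 31938187643) (nat_lit 76) (nat_lit 214385728905) (nat_lit 35) (nat_lit 5) (nat_lit 39) (nat_lit 5) (nat_lit 36) (nat_lit 5) (nat_lit 253) (nat_lit 247) (nat_lit 160)) (XT.nd (nat_lit 78) (nat_lit 228) (nat_lit 0) (XT.lf (nat_lit 0) (nat_lit 99428367722) (nat_lit 304) (nat_lit 72033615348) (nat_lit 76) (nat_lit 135405949349) (nat_lit 32) (nat_lit 5) (nat_lit 36) (nat_lit 5) (nat_lit 33) (nat_lit 5) (nat_lit 254) (nat_lit 247) (nat_lit 159)) (XT.lf (nat_lit 0) (nat_lit 181544111234) (nat_lit 304) (nat_lit 118302326065) (nat_lit 76) (nat_lit 34773081602) (nat_lit 29) (nat_lit 5) (nat_lit 33) (nat_lit 5) (nat_lit 30) (nat_lit 5) (nat_lit 255) (nat_lit 247) (nat_lit 158))))) (XT.nd (nat_lit 234) (nat_lit 304) (nat_lit 0) (XT.nd (nat_lit 78) (nat_lit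 380) (nat_lit 0) (XT.lf (nat_lit 0) (nat_lit 190657106035) (nat_lit 152) (nat_lit 96799020237) (nat_lit 228) (nat_lit 78159405068) (nat_lit 27) (nat_lit 5) (nat_lit 29) (nat_lit 5) (nat_lit 30) (nat_lit 5) (nat_lit 256) (nat_lit 247) (nat_lit 157)) (XT.nd (nat_lit 78) (nat_lit 152) (nat_lit 0) (XT.lf (nat_lit 0) (nat_lit 18456451805) (nat_lit 228) (nat_lit 244286175252) (nat_lit 76) (nat_lit 137633951071) (nat_lit 24) (nat_lit 5) (nat_lit 27) (nat_lit 5) (nat_lit 25) (nat_lit 5) (nat_lit 257) (nat_lit 247) (nat_lit 156)) (XT.lf (nat_lit 0) (nat_lit 107871876140) (nat_lit 152) (nat_lit 27693834806) (nat_lit 228) (nat_lit 303773347765) (nat_lit 22) (nat_lit 5) (nat_lit 24) (nat_lit 5) (nat_lit 25) (nat_lit 5) (nat_lit 258) (nat_lit 247) (nat_lit 155)))) (XT.nd (nat_lit 78) (nat_lit 152) (nat_lit 0) (XT.lf (nat_lit 0) (nat_lit 40053709774) (nat_lit 152) (nat_lit 244282430365) (nat_lit 228)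 (nat_lit 198682189228) (nat_lit 20) (nat_lit 5) (nat_lit 22) (nat_lit 5) (nat_lit 23) (nat_lit 5) (nat_lit 259) (nat_lit 247) (nat_lit 154)) (XT.nd (nat_lit 78) (nat_lit 152) (nat_lit 0) (XT.lf (nat_lit 0) (nat_lit 466317851964) (nat_lit 228) (nat_lit 46347964428) (nat_lit 76) (nat_lit 19712017186) (nat_lit 20) (nat_lit 5) (nat_lit 23) (nat_lit 5) (nat_lit 21) (nat_lit 4) (nat_lit 260) (nat_lit 247) (nat_lit 153)) (XT.lf (nat_lit 0) (nat_lit 99529924167) (nat_lit 152) (nat_lit 166078105923) (nat_lit 76) (nat_lit 321974955074) (nat_lit 18) (nat_lit 5) (nat_lit 20) (nat_lit 5) (nat_lit 19) (nat_lit 5) (nat_lit 261) (nat_lit 247) (nat_lit 152)))))) (XT.nd (nat_lit 468) (nat_lit 380) (nat_lit 0) (XT.nd (nat_lit 234) (nat_lit 228) (nat_lit 0) (XT.nd (nat_lit 78) (nat_lit 152) (nat_lit 0) (XT.lf (nat_lit 0) (nat_lit 296110306704) (nat_lit 228) (nat_lit 325099436744) (nat_lit 76) (nat_lit 28916820519)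 (nat_lit 16) (nat_lit 5) (nat_lit 19) (nat_lit 5) (nat_lit 17) (nat_lit 4) (nat_lit 262) (nat_lit 247) (nat_lit 151)) (XT.nd (nat_lit 78) (nat_lit 76) (nat_lit 0) (XT.lf (nat_lit 0) (nat_lit 179708327803) (nat_lit 76) (nat_lit 359098107437) (nat_lit 152) (nat_lit 181914949514) (nat_lit 15) (nat_lit 5) (nat_lit 16) (nat_lit 5) (nat_lit 17) (nat_lit 4) (nat_lit 263) (nat_lit 247) (nat_lit 150)) (XT.lf (nat_lit 0) (nat_lit 24911726681) (nat_lit 152) (nat_lit 21854837438) (nat_lit 76) (nat_lit 754331226937) (nat_lit 14) (nat_lit 5) (nat_lit 16) (nat_lit 5) (nat_lit 15) (nat_lit 5) (nat_lit 264) (nat_lit 247) (nat_lit 149)))) (XT.nd (nat_lit 78) (nat_lit 76) (nat_lit 0) (XT.lf (nat_lit 0) (nat_lit 274750392471) (nat_lit 228) (nat_lit 299824141707) (nat_lit 76) (nat_lit 316757368554) (nat_lit 12) (nat_lit 5) (nat_lit 15) (nat_lit 5) (nat_lit 13) (nat_lit 4) (nat_lit 265) (nat_lit 247) (nat_lit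 148)) (XT.nd (nat_lit 78) (nat_lit 0) (nat_lit 0) (XT.lf (nat_lit 0) (nat_lit 317732077381) (nat_lit 76) (nat_lit 253920397005) (nat_lit 152) (nat_lit 422681647628) (nat_lit 11) (nat_lit 5) (nat_lit 12) (nat_lit 5) (nat_lit 13) (nat_lit 4) (nat_lit 266) (nat_lit 247) (nat_lit 147)) (XT.lf (nat_lit 0) (nat_lit 924807269218) (nat_lit 152) (nat_lit 68998786541) (nat_lit 0) (nat_lit 118043226513) (nat_lit 11) (nat_lit 5) (nat_lit 13) (nat_lit 4) (nat_lit 11) (nat_lit 4) (nat_lit 267) (nat_lit 247) (nat_lit 146))))) (XT.nd (nat_lit 234) (nat_lit 152) (nat_lit 0) (XT.nd (nat_lit 78) (nat_lit 76) (nat_lit 0) (XT.lf (nat_lit 0) (nat_lit 103124103734) (nat_lit 152) (nat_lit 592265984858) (nat_lit 76) (nat_lit 549569741764) (nat_lit 9) (nat_lit 5) (nat_lit 11) (nat_lit 5) (nat_lit 10) (nat_lit 4) (nat_lit 268) (nat_lit 247) (nat_lit 145)) (XT.nd (nat_lit 78) (nat_lit 0) (nat_lit 0) (XT.lf (nat_lit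 0) (nat_lit 88125431082) (nat_lit 76) (nat_lit 342109962892) (nat_lit 152) (nat_lit 967053289617) (nat_lit 8) (nat_lit 5) (nat_lit 9) (nat_lit 5) (nat_lit 10) (nat_lit 4) (nat_lit 269) (nat_lit 247) (nat_lit 144)) (XT.lf (nat_lit 0) (nat_lit 825647470614) (nat_lit 152) (nat_lit 666637128925) (nat_lit 0) (nat_lit 78643537924) (nat_lit 8) (nat_lit 5) (nat_lit 10) (nat_lit 4) (nat_lit 8) (nat_lit 4) (nat_lit 270) (nat_lit 247) (nat_lit 143)))) (XT.nd (nat_lit 78) (nat_lit 76) (nat_lit 0) (XT.lf (nat_lit 0) (nat_lit 66113130744) (nat_lit 76) (nat_lit 1225310104381) (nat_lit 76) (nat_lit 478306124251) (nat_lit 7) (nat_lit 4) (nat_lit 8) (nat_lit 5) (nat_lit 8) (nat_lit 4) (nat_lit 271) (nat_lit 247) (nat_lit 142)) (XT.nd (nat_lit 78) (nat_lit 76) (nat_lit 0) (XT.lf (nat_lit 0) (nat_lit 949145345001) (nat_lit 76) (nat_lit 897328385848) (nat_lit 76) (nat_lit 150324364466) (nat_lit 7) (nat_lit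 4) (nat_lit 8) (nat_lit 5) (nat_lit 8) (nat_lit 4) (nat_lit 272) (nat_lit 247) (nat_lit 141)) (XT.lf (nat_lit 0) (nat_lit 215506420267) (nat_lit 152) (nat_lit 298750703097) (nat_lit 76) (nat_lit 1743233553547) (nat_lit 6) (nat_lit 5) (nat_lit 8) (nat_lit 5) (nat_lit 7) (nat_lit 4) (nat_lit 273) (nat_lit 247) (nat_lit 140))))))))
noncomputable def xc54 : XT := (XT.nd (nat_lit 33540) (nat_lit 0) (nat_lit 76) (XT.nd (nat_lit 32604) (nat_lit 0) (nat_lit 1140) (XT.nd (nat_lit 390) (nat_lit 76) (nat_lit 0) (XT.nd (nat_lit 156) (nat_lit 76) (nat_lit 0) (XT.nd (nat_lit 78) (nat_lit 0) (nat_lit 0) (XT.lf (nat_lit 0) (nat_lit 587729584336) (nat_lit 76) (nat_lit 53969296808) (nat_lit 152) (nat_lit 1914124867262) (nat_lit 5) (nat_lit 5) (nat_lit 6) (nat_lit 5) (nat_lit 7) (nat_lit 4) (nat_lit 274) (nat_lit 247) (nat_lit 139)) (XT.lf (nat_lit 0) (nat_lit 1152176353308) (nat_lit 152) (nat_lit 1284596060054)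 (nat_lit 0) (nat_lit 460505875930) (nat_lit 5) (nat_lit 5) (nat_lit 7) (nat_lit 4) (nat_lit 5) (nat_lit 4) (nat_lit 275) (nat_lit 247) (nat_lit 138))) (XT.nd (nat_lit 78) (nat_lit 76) (nat_lit 0) (XT.lf (nat_lit 0) (nat_lit 1740718068353) (nat_lit 152) (nat_lit 500065964091) (nat_lit 0) (nat_lit 1049047569135) (nat_lit 5) (nat_lit 5) (nat_lit 7) (nat_lit 4) (nat_lit 5) (nat_lit 4) (nat_lit 276) (nat_lit 247) (nat_lit 137)) (XT.nd (nat_lit 78) (nat_lit 0) (nat_lit 0) (XT.lf (nat_lit 0) (nat_lit 423319757295) (nat_lit 76) (nat_lit 2004402103038) (nat_lit 76) (nat_lit 1312731584830) (nat_lit 4) (nat_lit 4) (nat_lit 5) (nat_lit 5) (nat_lit 5) (nat_lit 4) (nat_lit 277) (nat_lit 247) (nat_lit 136)) (XT.lf (nat_lit 0) (nat_lit 1515495759687) (nat_lit 76) (nat_lit 1716839315989) (nat_lit 76) (nat_lit 1025168781269) (nat_lit 4) (nat_lit 4) (nat_lit 5) (nat_lit 5) (nat_lit 5) (nat_lit 4) (nat_lit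 278) (nat_lit 247) (nat_lit 135))))) (XT.nd (nat_lit 31980) (nat_lit 0) (nat_lit 2964) (XT.nd (nat_lit 78) (nat_lit 76) (nat_lit 0) (XT.lf (nat_lit 0) (nat_lit 2771498116522) (nat_lit 76) (nat_lit 1386142132508) (nat_lit 76) (nat_lit 694471583428) (nat_lit 4) (nat_lit 4) (nat_lit 5) (nat_lit 5) (nat_lit 5) (nat_lit 4) (nat_lit 279) (nat_lit 247) (nat_lit 134)) (XT.nd (nat_lit 78) (nat_lit 76) (nat_lit 0) (XT.lf (nat_lit 0) (nat_lit 4215900786956) (nat_lit 76) (nat_lit 1005840390308) (nat_lit 76) (nat_lit 314169828742) (nat_lit 4) (nat_lit 4) (nat_lit 5) (nat_lit 5) (nat_lit 5) (nat_lit 4) (nat_lit 280) (nat_lit 247) (nat_lit 133)) (XT.lf (nat_lit 0) (nat_lit 117015348415) (nat_lit 152) (nat_lit 448278647720) (nat_lit 76) (nat_lit 5756749067828) (nat_lit 3) (nat_lit 5) (nat_lit 5) (nat_lit 5) (nat_lit 4) (nat_lit 4) (nat_lit 281) (nat_lit 247) (nat_lit 132)))) (XT.nd (nat_lit 78) (nat_lit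 0) (nat_lit 76) (XT.lf (nat_lit 0) (nat_lit 55339011829) (nat_lit 532) (nat_lit 23533205401) (nat_lit 532) (nat_lit 23533205401) (nat_lit 42) (nat_lit 3) (nat_lit 49) (nat_lit 3) (nat_lit 49) (nat_lit 5) (nat_lit 248) (nat_lit 248) (nat_lit 164)) (XT.nd (nat_lit 78) (nat_lit 0) (nat_lit 0) (XT.lf (nat_lit 0) (nat_lit 122354310919) (nat_lit 456) (nat_lit 88946144723) (nat_lit 532) (nat_lit 8601158594) (nat_lit 43) (nat_lit 5) (nat_lit 49) (nat_lit 5) (nat_lit 50) (nat_lit 5) (nat_lit 249) (nat_lit 248) (nat_lit 163)) (XT.lf (nat_lit 76) (nat_lit 102092837508) (nat_lit 0) (nat_lit 41912785005) (nat_lit 532) (nat_lit 92592491248) (nat_lit 44) (nat_lit 5) (nat_lit 43) (nat_lit 5) (nat_lit 50) (nat_lit 5) (nat_lit 250) (nat_lit 248) (nat_lit 162)))))) (XT.nd (nat_lit 468) (nat_lit 836) (nat_lit 0) (XT.nd (nat_lit 234) (nat_lit 532) (nat_lit 0) (XT.nd (nat_lit 78) (nat_lit 608) (nat_lit 0)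 (XT.lf (nat_lit 76) (nat_lit 71409847277) (nat_lit 0) (nat_lit 105545466593) (nat_lit 532) (nat_lit 78199721187) (nat_lit 45) (nat_lit 5) (nat_lit 44) (nat_lit 5) (nat_lit 51) (nat_lit 5) (nat_lit 251) (nat_lit 248) (nat_lit 161)) (XT.nd (nat_lit 78) (nat_lit 228) (nat_lit 0) (XT.lf (nat_lit 0) (nat_lit 38689884806) (nat_lit 456) (nat_lit 184424166789) (nat_lit 532) (nat_lit 52720116830) (nat_lit 39) (nat_lit 5) (nat_lit 45) (nat_lit 5) (nat_lit 46) (nat_lit 5) (nat_lit 252) (nat_lit 248) (nat_lit 160)) (XT.lf (nat_lit 0) (nat_lit 3313701243) (nat_lit 228) (nat_lit 281593630142) (nat_lit 304) (nat_lit 14010983023) (nat_lit 36) (nat_lit 5) (nat_lit 39) (nat_lit 5) (nat_lit 40) (nat_lit 5) (nat_lit 253) (nat_lit 248) (nat_lit 159)))) (XT.nd (nat_lit 78) (nat_lit 456) (nat_lit 0) (XT.lf (nat_lit 0) (nat_lit 41162521030) (nat_lit 304) (nat_lit 36725612634) (nat_lit 76) (nat_lit 246543541981)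 (nat_lit 35) (nat_lit 5) (nat_lit 39) (nat_lit 5) (nat_lit 36) (nat_lit 5) (nat_lit 254) (nat_lit 248) (nat_lit 158)) (XT.nd (nat_lit 78) (nat_lit 228) (nat_lit 0) (XT.lf (nat_lit 0) (nat_lit 114345390856) (nat_lit 304) (nat_lit 82835410997) (nat_lit 76) (nat_lit 155717090534) (nat_lit 32) (nat_lit 5) (nat_lit 36) (nat_lit 5) (nat_lit 33) (nat_lit 5) (nat_lit 255) (nat_lit 248) (nat_lit 157)) (XT.lf (nat_lit 0) (nat_lit 208778218194) (nat_lit 304) (nat_lit 136044509375) (nat_lit 76) (nat_lit 39989512592) (nat_lit 29) (nat_lit 5) (nat_lit 33) (nat_lit 5) (nat_lit 30) (nat_lit 5) (nat_lit 256) (nat_lit 248) (nat_lit 156))))) (XT.nd (nat_lit 234) (nat_lit 304) (nat_lit 0) (XT.nd (nat_lit 78) (nat_lit 380) (nat_lit 0) (XT.lf (nat_lit 0) (nat_lit 219258569588) (nat_lit 152) (nat_lit 111318210770) (nat_lit 228) (nat_lit 89880895477) (nat_lit 27) (nat_lit 5) (nat_lit 29) (nat_lit 5) (nat_lit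 30) (nat_lit 5) (nat_lit 257) (nat_lit 248) (nat_lit 155)) (XT.nd (nat_lit 78) (nat_lit 152) (nat_lit 0) (XT.lf (nat_lit 0) (nat_lit 21227002430) (nat_lit 228) (nat_lit 280926179389) (nat_lit 76) (nat_lit 158279711249) (nat_lit 24) (nat_lit 5) (nat_lit 27) (nat_lit 5) (nat_lit 25) (nat_lit 5) (nat_lit 258) (nat_lit 248) (nat_lit 154)) (XT.lf (nat_lit 0) (nat_lit 124055332366) (nat_lit 152) (nat_lit 31847110730) (nat_lit 228) (nat_lit 349337319905) (nat_lit 22) (nat_lit 5) (nat_lit 24) (nat_lit 5) (nat_lit 25) (nat_lit 5) (nat_lit 259) (nat_lit 248) (nat_lit 153)))) (XT.nd (nat_lit 78) (nat_lit 152) (nat_lit 0) (XT.lf (nat_lit 0) (nat_lit 46064338478) (nat_lit 152) (nat_lit 280923932135) (nat_lit 228) (nat_lit 228482667509) (nat_lit 20) (nat_lit 5) (nat_lit 22) (nat_lit 5) (nat_lit 23) (nat_lit 5) (nat_lit 260) (nat_lit 248) (nat_lit 152)) (XT.nd (nat_lit 78) (nat_lit 152) (nat_lit 0)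 (XT.lf (nat_lit 0) (nat_lit 536267034284) (nat_lit 228) (nat_lit 53297818102) (nat_lit 76) (nat_lit 22669532481) (nat_lit 20) (nat_lit 5) (nat_lit 23) (nat_lit 5) (nat_lit 21) (nat_lit 4) (nat_lit 261) (nat_lit 248) (nat_lit 151)) (XT.lf (nat_lit 0) (nat_lit 114460810727) (nat_lit 152) (nat_lit 190987602636) (nat_lit 76) (nat_lit 370271905015) (nat_lit 18) (nat_lit 5) (nat_lit 20) (nat_lit 5) (nat_lit 19) (nat_lit 5) (nat_lit 262) (nat_lit 248) (nat_lit 150))))))) (XT.nd (nat_lit 858) (nat_lit 228) (nat_lit 0) (XT.nd (nat_lit 390) (nat_lit 304) (nat_lit 0) (XT.nd (nat_lit 156) (nat_lit 304) (nat_lit 0) (XT.nd (nat_lit 78) (nat_lit 76) (nat_lit 0) (XT.lf (nat_lit 0) (nat_lit 340528135603) (nat_lit 228) (nat_lit 373862235840) (nat_lit 76) (nat_lit 33255072118) (nat_lit 16) (nat_lit 5) (nat_lit 19) (nat_lit 5) (nat_lit 17) (nat_lit 4) (nat_lit 263) (nat_lit 248) (nat_lit 149)) (XT.lf (nat_lit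 0) (nat_lit 206666514246) (nat_lit 76) (nat_lit 412962048431) (nat_lit 152) (nat_lit 209200934758) (nat_lit 15) (nat_lit 5) (nat_lit 16) (nat_lit 5) (nat_lit 17) (nat_lit 4) (nat_lit 264) (nat_lit 248) (nat_lit 148))) (XT.nd (nat_lit 78) (nat_lit 228) (nat_lit 0) (XT.lf (nat_lit 0) (nat_lit 28649524199) (nat_lit 152) (nat_lit 25131322124) (nat_lit 76) (nat_lit 867481528650) (nat_lit 14) (nat_lit 5) (nat_lit 16) (nat_lit 5) (nat_lit 15) (nat_lit 5) (nat_lit 265) (nat_lit 248) (nat_lit 147)) (XT.nd (nat_lit 78) (nat_lit 76) (nat_lit 0) (XT.lf (nat_lit 0) (nat_lit 315963908410) (nat_lit 228) (nat_lit 344796108326) (nat_lit 76) (nat_lit 364271593399) (nat_lit 12) (nat_lit 5) (nat_lit 15) (nat_lit 5) (nat_lit 13) (nat_lit 4) (nat_lit 266) (nat_lit 248) (nat_lit 146)) (XT.lf (nat_lit 0) (nat_lit 365393403569) (nat_lit 76) (nat_lit 292007810634) (nat_lit 152) (nat_lit 486082955366) (nat_lit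 11) (nat_lit 5) (nat_lit 12) (nat_lit 5) (nat_lit 13) (nat_lit 4) (nat_lit 267) (nat_lit 248) (nat_lit 145))))) (XT.nd (nat_lit 234) (nat_lit 76) (nat_lit 0) (XT.nd (nat_lit 78) (nat_lit 228) (nat_lit 0) (XT.lf (nat_lit 0) (nat_lit 1063529128465) (nat_lit 152) (nat_lit 79347239484) (nat_lit 0) (nat_lit 135750244064) (nat_lit 11) (nat_lit 5) (nat_lit 13) (nat_lit 4) (nat_lit 11) (nat_lit 4) (nat_lit 268) (nat_lit 248) (nat_lit 144)) (XT.nd (nat_lit 78) (nat_lit 76) (nat_lit 0) (XT.lf (nat_lit 0) (nat_lit 118593436970) (nat_lit 152) (nat_lit 681104594422) (nat_lit 76) (nat_lit 632005715225) (nat_lit 9) (nat_lit 5) (nat_lit 11) (nat_lit 5) (nat_lit 10) (nat_lit 4) (nat_lit 269) (nat_lit 248) (nat_lit 143)) (XT.lf (nat_lit 0) (nat_lit 101345424872) (nat_lit 76) (nat_lit 393425930621) (nat_lit 152) (nat_lit 1112110577678) (nat_lit 8) (nat_lit 5) (nat_lit 9) (nat_lit 5) (nat_lit 10) (nat_lit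 4) (nat_lit 270) (nat_lit 248) (nat_lit 142)))) (XT.nd (nat_lit 78) (nat_lit 76) (nat_lit 0) (XT.lf (nat_lit 0) (nat_lit 949495169546) (nat_lit 152) (nat_lit 766631637900) (nat_lit 0) (nat_lit 90440503705) (nat_lit 8) (nat_lit 5) (nat_lit 10) (nat_lit 4) (nat_lit 8) (nat_lit 4) (nat_lit 271) (nat_lit 248) (nat_lit 141)) (XT.nd (nat_lit 78) (nat_lit 0) (nat_lit 0) (XT.lf (nat_lit 0) (nat_lit 76031070965) (nat_lit 76) (nat_lit 1409106175676) (nat_lit 76) (nat_lit 550051473964) (nat_lit 7) (nat_lit 4) (nat_lit 8) (nat_lit 5) (nat_lit 8) (nat_lit 4) (nat_lit 272) (nat_lit 248) (nat_lit 140)) (XT.lf (nat_lit 0) (nat_lit 1091517990760) (nat_lit 76) (nat_lit 1031927257323) (nat_lit 76) (nat_lit 172872524419) (nat_lit 7) (nat_lit 4) (nat_lit 8) (nat_lit 5) (nat_lit 8) (nat_lit 4) (nat_lit 273) (nat_lit 248) (nat_lit 139)))))) (XT.nd (nat_lit 468) (nat_lit 0) (nat_lit 0) (XT.nd (nat_lit 234) (nat_lit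 76) (nat_lit 0) (XT.nd (nat_lit 78) (nat_lit 76) (nat_lit 0) (XT.lf (nat_lit 0) (nat_lit 247832791976) (nat_lit 152) (nat_lit 343562552717) (nat_lit 76) (nat_lit 2004718900656) (nat_lit 6) (nat_lit 5) (nat_lit 8) (nat_lit 5) (nat_lit 7) (nat_lit 4) (nat_lit 274) (nat_lit 248) (nat_lit 138)) (XT.nd (nat_lit 78) (nat_lit 0) (nat_lit 0) (XT.lf (nat_lit 0) (nat_lit 675889713852) (nat_lit 76) (nat_lit 62064371467) (nat_lit 152) (nat_lit 2201243195236) (nat_lit 5) (nat_lit 5) (nat_lit 6) (nat_lit 5) (nat_lit 7) (nat_lit 4) (nat_lit 275) (nat_lit 248) (nat_lit 137)) (XT.lf (nat_lit 0) (nat_lit 1325003136475) (nat_lit 152) (nat_lit 1477284847944) (nat_lit 0) (nat_lit 529582021547) (nat_lit 5) (nat_lit 5) (nat_lit 7) (nat_lit 4) (nat_lit 5) (nat_lit 4) (nat_lit 276) (nat_lit 248) (nat_lit 136)))) (XT.nd (nat_lit 78) (nat_lit 76) (nat_lit 0) (XT.lf (nat_lit 0) (nat_lit 2001826065711) (nat_lit 152)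 (nat_lit 575075318603) (nat_lit 0) (nat_lit 1206404934269) (nat_lit 5) (nat_lit 5) (nat_lit 7) (nat_lit 4) (nat_lit 5) (nat_lit 4) (nat_lit 277) (nat_lit 248) (nat_lit 135)) (XT.nd (nat_lit 78) (nat_lit 0) (nat_lit 0) (XT.lf (nat_lit 0) (nat_lit 486818215275) (nat_lit 76) (nat_lit 2305062185655) (nat_lit 76) (nat_lit 1509641039853) (nat_lit 4) (nat_lit 4) (nat_lit 5) (nat_lit 5) (nat_lit 5) (nat_lit 4) (nat_lit 278) (nat_lit 248) (nat_lit 134)) (XT.lf (nat_lit 0) (nat_lit 1742820553540) (nat_lit 76) (nat_lit 1974365010919) (nat_lit 76) (nat_lit 1178943852632) (nat_lit 4) (nat_lit 4) (nat_lit 5) (nat_lit 5) (nat_lit 5) (nat_lit 4) (nat_lit 279) (nat_lit 248) (nat_lit 133))))) (XT.nd (nat_lit 32136) (nat_lit 0) (nat_lit 2660) (XT.nd (nat_lit 31980) (nat_lit 0) (nat_lit 2888) (XT.lf (nat_lit 0) (nat_lit 3187223207827) (nat_lit 76) (nat_lit 1594063276325) (nat_lit 76) (nat_lit 798642107179)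 (nat_lit 4) (nat_lit 4) (nat_lit 5) (nat_lit 5) (nat_lit 5) (nat_lit 4) (nat_lit 280) (nat_lit 248) (nat_lit 132)) (XT.nd (nat_lit 78) (nat_lit 0) (nat_lit 76) (XT.lf (nat_lit 0) (nat_lit 63642304733) (nat_lit 532) (nat_lit 27061863408) (nat_lit 532) (nat_lit 27061863408) (nat_lit 42) (nat_lit 3) (nat_lit 49) (nat_lit 3) (nat_lit 49) (nat_lit 5) (nat_lit 249) (nat_lit 249) (nat_lit 162)) (XT.lf (nat_lit 0) (nat_lit 140711715978) (nat_lit 456) (nat_lit 102285239230) (nat_lit 532) (nat_lit 9889544514) (nat_lit 43) (nat_lit 5) (nat_lit 49) (nat_lit 5) (nat_lit 50) (nat_lit 5) (nat_lit 250) (nat_lit 249) (nat_lit 161)))) (XT.nd (nat_lit 78) (nat_lit 304) (nat_lit 0) (XT.lf (nat_lit 76) (nat_lit 117409351027) (nat_lit 0) (nat_lit 48200880077) (nat_lit 532) (nat_lit 106477284612) (nat_lit 44) (nat_lit 5) (nat_lit 43) (nat_lit 5) (nat_lit 50) (nat_lit 5) (nat_lit 251) (nat_lit 249) (nat_lit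 160)) (XT.nd (nat_lit 78) (nat_lit 380) (nat_lit 0) (XT.lf (nat_lit 76) (nat_lit 82124007565) (nat_lit 0) (nat_lit 121377917396) (nat_lit 532) (nat_lit 89926088155) (nat_lit 45) (nat_lit 5) (nat_lit 44) (nat_lit 5) (nat_lit 51) (nat_lit 5) (nat_lit 252) (nat_lit 249) (nat_lit 159)) (XT.lf (nat_lit 0) (nat_lit 44496091227) (nat_lit 456) (nat_lit 212088002167) (nat_lit 532) (nat_lit 60624955066) (nat_lit 39) (nat_lit 5) (nat_lit 45) (nat_lit 5) (nat_lit 46) (nat_lit 5) (nat_lit 253) (nat_lit 249) (nat_lit 158))))))))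
noncomputable def xc55 : XT := (XT.nd (nat_lit 1794) (nat_lit 76) (nat_lit 0) (XT.nd (nat_lit 858) (nat_lit 836) (nat_lit 0) (XT.nd (nat_lit 390) (nat_lit 836) (nat_lit 0) (XT.nd (nat_lit 156) (nat_lit 608) (nat_lit 0) (XT.nd (nat_lit 78) (nat_lit 76) (nat_lit 0) (XT.lf (nat_lit 0) (nat_lit 3813478685) (nat_lit 228) (nat_lit 323832564835) (nat_lit 304) (nat_lit 16109799921) (nat_lit 36) (nat_lit 5) (nat_lit 39) (nat_lit 5) (nat_lit 40) (nat_lit 5) (nat_lit 254) (nat_lit 249) (nat_lit 157)) (XT.lf (nat_lit 0) (nat_lit 47339237411) (nat_lit 304) (nat_lit 42231956870) (nat_lit 76) (nat_lit 283525038300) (nat_lit 35) (nat_lit 5) (nat_lit 39) (nat_lit 5) (nat_lit 36) (nat_lit 5) (nat_lit 255) (nat_lit 249) (nat_lit 156))) (XT.nd (nat_lit 78) (nat_lit 380) (nat_lit 0) (XT.lf (nat_lit 0) (nat_lit 131499292471) (nat_lit 304) (nat_lit 95258267711) (nat_lit 76) (nat_lit 179074842230) (nat_lit 32)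 (nat_lit 5) (nat_lit 36) (nat_lit 5) (nat_lit 33) (nat_lit 5) (nat_lit 256) (nat_lit 249) (nat_lit 155)) (XT.nd (nat_lit 78) (nat_lit 152) (nat_lit 0) (XT.lf (nat_lit 0) (nat_lit 240096833928) (nat_lit 304) (nat_lit 156448792132) (nat_lit 76) (nat_lit 45988293922) (nat_lit 29) (nat_lit 5) (nat_lit 33) (nat_lit 5) (nat_lit 30) (nat_lit 5) (nat_lit 257) (nat_lit 249) (nat_lit 154)) (XT.lf (nat_lit 0) (nat_lit 252149546064) (nat_lit 152) (nat_lit 128015441438) (nat_lit 228) (nat_lit 103361199665) (nat_lit 27) (nat_lit 5) (nat_lit 29) (nat_lit 5) (nat_lit 30) (nat_lit 5) (nat_lit 258) (nat_lit 249) (nat_lit 153))))) (XT.nd (nat_lit 234) (nat_lit 304) (nat_lit 0) (XT.nd (nat_lit 78) (nat_lit 304) (nat_lit 0) (XT.lf (nat_lit 0) (nat_lit 24412627732) (nat_lit 228) (nat_lit 323062896733) (nat_lit 76) (nat_lit 182022172676) (nat_lit 24) (nat_lit 5) (nat_lit 27) (nat_lit 5) (nat_lit 25) (nat_lit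 5) (nat_lit 259) (nat_lit 249) (nat_lit 152)) (XT.nd (nat_lit 78) (nat_lit 152) (nat_lit 0) (XT.lf (nat_lit 0) (nat_lit 142665654757) (nat_lit 152) (nat_lit 36623572955) (nat_lit 228) (nat_lit 401736382900) (nat_lit 22) (nat_lit 5) (nat_lit 24) (nat_lit 5) (nat_lit 25) (nat_lit 5) (nat_lit 260) (nat_lit 249) (nat_lit 151)) (XT.lf (nat_lit 0) (nat_lit 52975934232) (nat_lit 152) (nat_lit 323061869567) (nat_lit 228) (nat_lit 262753668691) (nat_lit 20) (nat_lit 5) (nat_lit 22) (nat_lit 5) (nat_lit 23) (nat_lit 5) (nat_lit 261) (nat_lit 249) (nat_lit 150)))) (XT.nd (nat_lit 78) (nat_lit 304) (nat_lit 0) (XT.lf (nat_lit 0) (nat_lit 616708227063) (nat_lit 228) (nat_lit 61290720693) (nat_lit 76) (nat_lit 26070501269) (nat_lit 20) (nat_lit 5) (nat_lit 23) (nat_lit 5) (nat_lit 21) (nat_lit 4) (nat_lit 262) (nat_lit 249) (nat_lit 149)) (XT.nd (nat_lit 78) (nat_lit 152) (nat_lit 0) (XT.lf (nat_lit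 0) (nat_lit 131630989376) (nat_lit 152) (nat_lit 219634065016) (nat_lit 76) (nat_lit 425813225119) (nat_lit 18) (nat_lit 5) (nat_lit 20) (nat_lit 5) (nat_lit 19) (nat_lit 5) (nat_lit 263) (nat_lit 249) (nat_lit 148)) (XT.lf (nat_lit 0) (nat_lit 391608325994) (nat_lit 228) (nat_lit 429939970901) (nat_lit 76) (nat_lit 38243883803) (nat_lit 16) (nat_lit 5) (nat_lit 19) (nat_lit 5) (nat_lit 17) (nat_lit 4) (nat_lit 264) (nat_lit 249) (nat_lit 147)))))) (XT.nd (nat_lit 468) (nat_lit 304) (nat_lit 0) (XT.nd (nat_lit 234) (nat_lit 228) (nat_lit 0) (XT.nd (nat_lit 78) (nat_lit 228) (nat_lit 0) (XT.lf (nat_lit 0) (nat_lit 237667956239) (nat_lit 76) (nat_lit 474905769593) (nat_lit 152) (nat_lit 240580124360) (nat_lit 15) (nat_lit 5) (nat_lit 16) (nat_lit 5) (nat_lit 17) (nat_lit 4) (nat_lit 265) (nat_lit 249) (nat_lit 146)) (XT.nd (nat_lit 78) (nat_lit 152) (nat_lit 0) (XT.lf (nat_lit 0) (nat_lit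 32947738097) (nat_lit 152) (nat_lit 28899704049) (nat_lit 76) (nat_lit 997604224997) (nat_lit 14) (nat_lit 5) (nat_lit 16) (nat_lit 5) (nat_lit 15) (nat_lit 5) (nat_lit 266) (nat_lit 249) (nat_lit 145)) (XT.lf (nat_lit 0) (nat_lit 363359218352) (nat_lit 228) (nat_lit 396514273430) (nat_lit 76) (nat_lit 418912800886) (nat_lit 12) (nat_lit 5) (nat_lit 15) (nat_lit 5) (nat_lit 13) (nat_lit 4) (nat_lit 267) (nat_lit 249) (nat_lit 144)))) (XT.nd (nat_lit 78) (nat_lit 152) (nat_lit 0) (XT.lf (nat_lit 0) (nat_lit 420203559345) (nat_lit 76) (nat_lit 335808493819) (nat_lit 152) (nat_lit 558994688345) (nat_lit 11) (nat_lit 5) (nat_lit 12) (nat_lit 5) (nat_lit 13) (nat_lit 4) (nat_lit 268) (nat_lit 249) (nat_lit 143)) (XT.nd (nat_lit 78) (nat_lit 152) (nat_lit 0) (XT.lf (nat_lit 0) (nat_lit 1223059079106) (nat_lit 152) (nat_lit 91248293242) (nat_lit 0) (nat_lit 156113184132) (nat_lit 11) (nat_lit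 5) (nat_lit 13) (nat_lit 4) (nat_lit 11) (nat_lit 4) (nat_lit 269) (nat_lit 249) (nat_lit 142)) (XT.lf (nat_lit 0) (nat_lit 136382995181) (nat_lit 152) (nat_lit 783269309548) (nat_lit 76) (nat_lit 726806959804) (nat_lit 9) (nat_lit 5) (nat_lit 11) (nat_lit 5) (nat_lit 10) (nat_lit 4) (nat_lit 270) (nat_lit 249) (nat_lit 141))))) (XT.nd (nat_lit 234) (nat_lit 152) (nat_lit 0) (XT.nd (nat_lit 78) (nat_lit 76) (nat_lit 0) (XT.lf (nat_lit 0) (nat_lit 116548130194) (nat_lit 76) (nat_lit 452439421950) (nat_lit 152) (nat_lit 1278926630960) (nat_lit 8) (nat_lit 5) (nat_lit 9) (nat_lit 5) (nat_lit 10) (nat_lit 4) (nat_lit 271) (nat_lit 249) (nat_lit 140)) (XT.nd (nat_lit 78) (nat_lit 76) (nat_lit 0) (XT.lf (nat_lit 0) (nat_lit 1091919882285) (nat_lit 152) (nat_lit 881625581797) (nat_lit 0) (nat_lit 104006908254) (nat_lit 8) (nat_lit 5) (nat_lit 10) (nat_lit 4) (nat_lit 8) (nat_lit 4) (nat_lit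 272) (nat_lit 249) (nat_lit 139)) (XT.lf (nat_lit 0) (nat_lit 87436465531) (nat_lit 76) (nat_lit 1620471766025) (nat_lit 76) (nat_lit 632558764870) (nat_lit 7) (nat_lit 4) (nat_lit 8) (nat_lit 5) (nat_lit 8) (nat_lit 4) (nat_lit 273) (nat_lit 249) (nat_lit 138)))) (XT.nd (nat_lit 78) (nat_lit 152) (nat_lit 0) (XT.lf (nat_lit 0) (nat_lit 1255246327566) (nat_lit 76) (nat_lit 1186716053746) (nat_lit 76) (nat_lit 198803029005) (nat_lit 7) (nat_lit 4) (nat_lit 8) (nat_lit 5) (nat_lit 8) (nat_lit 4) (nat_lit 274) (nat_lit 249) (nat_lit 137)) (XT.nd (nat_lit 78) (nat_lit 76) (nat_lit 0) (XT.lf (nat_lit 0) (nat_lit 285008019785) (nat_lit 152) (nat_lit 395096364097) (nat_lit 76) (nat_lit 2305426973242) (nat_lit 6) (nat_lit 5) (nat_lit 8) (nat_lit 5) (nat_lit 7) (nat_lit 4) (nat_lit 275) (nat_lit 249) (nat_lit 136)) (XT.lf (nat_lit 0) (nat_lit 777273694080) (nat_lit 76) (nat_lit 71373785325) (nat_lit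 152) (nat_lit 2531429370464) (nat_lit 5) (nat_lit 5) (nat_lit 6) (nat_lit 5) (nat_lit 7) (nat_lit 4) (nat_lit 276) (nat_lit 249) (nat_lit 135))))))) (XT.nd (nat_lit 32838) (nat_lit 0) (nat_lit 608) (XT.nd (nat_lit 32370) (nat_lit 0) (nat_lit 2356) (XT.nd (nat_lit 156) (nat_lit 76) (nat_lit 0) (XT.nd (nat_lit 78) (nat_lit 0) (nat_lit 0) (XT.lf (nat_lit 0) (nat_lit 1523753856604) (nat_lit 152) (nat_lit 1698877105482) (nat_lit 0) (nat_lit 609019524573) (nat_lit 5) (nat_lit 5) (nat_lit 7) (nat_lit 4) (nat_lit 5) (nat_lit 4) (nat_lit 277) (nat_lit 249) (nat_lit 134)) (XT.lf (nat_lit 0) (nat_lit 2302100192660) (nat_lit 152) (nat_lit 661336207998) (nat_lit 0) (nat_lit 1387365848143) (nat_lit 5) (nat_lit 5) (nat_lit 7) (nat_lit 4) (nat_lit 5) (nat_lit 4) (nat_lit 278) (nat_lit 249) (nat_lit 133))) (XT.nd (nat_lit 78) (nat_lit 0) (nat_lit 0) (XT.lf (nat_lit 0) (nat_lit 559841321393) (nat_lit 76)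 (nat_lit 2650821337443) (nat_lit 76) (nat_lit 1736086982068) (nat_lit 4) (nat_lit 4) (nat_lit 5) (nat_lit 5) (nat_lit 5) (nat_lit 4) (nat_lit 279) (nat_lit 249) (nat_lit 132)) (XT.nd (nat_lit 32058) (nat_lit 0) (nat_lit 2888) (XT.lf (nat_lit 0) (nat_lit 2004243961638) (nat_lit 76) (nat_lit 2270519609462) (nat_lit 76) (nat_lit 1355785244646) (nat_lit 4) (nat_lit 4) (nat_lit 5) (nat_lit 5) (nat_lit 5) (nat_lit 4) (nat_lit 280) (nat_lit 249) (nat_lit 131)) (XT.lf (nat_lit 0) (nat_lit 73190496288) (nat_lit 532) (nat_lit 31120142690) (nat_lit 532) (nat_lit 31120142690) (nat_lit 42) (nat_lit 3) (nat_lit 49) (nat_lit 3) (nat_lit 49) (nat_lit 5) (nat_lit 250) (nat_lit 250) (nat_lit 160))))) (XT.nd (nat_lit 234) (nat_lit 608) (nat_lit 0) (XT.nd (nat_lit 78) (nat_lit 0) (nat_lit 0) (XT.lf (nat_lit 0) (nat_lit 161821693354) (nat_lit 456) (nat_lit 117625887344) (nat_lit 532) (nat_lit 11371624304)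 (nat_lit 43) (nat_lit 5) (nat_lit 49) (nat_lit 5) (nat_lit 50) (nat_lit 5) (nat_lit 251) (nat_lit 250) (nat_lit 159)) (XT.nd (nat_lit 78) (nat_lit 0) (nat_lit 76) (XT.lf (nat_lit 76) (nat_lit 135022710501) (nat_lit 0) (nat_lit 55431902313) (nat_lit 532) (nat_lit 122445791993) (nat_lit 44) (nat_lit 5) (nat_lit 43) (nat_lit 5) (nat_lit 50) (nat_lit 5) (nat_lit 252) (nat_lit 250) (nat_lit 158)) (XT.lf (nat_lit 76) (nat_lit 94444637581) (nat_lit 0) (nat_lit 139585081991) (nat_lit 532) (nat_lit 103412285908) (nat_lit 45) (nat_lit 5) (nat_lit 44) (nat_lit 5) (nat_lit 51) (nat_lit 5) (nat_lit 253) (nat_lit 250) (nat_lit 157)))) (XT.nd (nat_lit 78) (nat_lit 304) (nat_lit 0) (XT.lf (nat_lit 0) (nat_lit 51172564420) (nat_lit 456) (nat_lit 243901361554) (nat_lit 532) (nat_lit 69716294327) (nat_lit 39) (nat_lit 5) (nat_lit 45) (nat_lit 5) (nat_lit 46) (nat_lit 5) (nat_lit 254) (nat_lit 250) (nat_lit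 156)) (XT.nd (nat_lit 78) (nat_lit 76) (nat_lit 0) (XT.lf (nat_lit 0) (nat_lit 4387558904) (nat_lit 228) (nat_lit 372407366515) (nat_lit 304) (nat_lit 18524129602) (nat_lit 36) (nat_lit 5) (nat_lit 39) (nat_lit 5) (nat_lit 40) (nat_lit 5) (nat_lit 255) (nat_lit 250) (nat_lit 155)) (XT.lf (nat_lit 0) (nat_lit 54441891057) (nat_lit 304) (nat_lit 48564861810) (nat_lit 76) (nat_lit 326053767596) (nat_lit 35) (nat_lit 5) (nat_lit 39) (nat_lit 5) (nat_lit 36) (nat_lit 5) (nat_lit 256) (nat_lit 250) (nat_lit 154)))))) (XT.nd (nat_lit 468) (nat_lit 608) (nat_lit 0) (XT.nd (nat_lit 234) (nat_lit 532) (nat_lit 0) (XT.nd (nat_lit 78) (nat_lit 380) (nat_lit 0) (XT.lf (nat_lit 0) (nat_lit 151225768940) (nat_lit 304) (nat_lit 109545151583) (nat_lit 76) (nat_lit 205936210807) (nat_lit 32) (nat_lit 5) (nat_lit 36) (nat_lit 5) (nat_lit 33) (nat_lit 5) (nat_lit 257) (nat_lit 250) (nat_lit 153)) (XT.nd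 (nat_lit 78) (nat_lit 152) (nat_lit 0) (XT.lf (nat_lit 0) (nat_lit 276112782840) (nat_lit 304) (nat_lit 179914301010) (nat_lit 76) (nat_lit 52886806019) (nat_lit 29) (nat_lit 5) (nat_lit 33) (nat_lit 5) (nat_lit 30) (nat_lit 5) (nat_lit 258) (nat_lit 250) (nat_lit 152)) (XT.lf (nat_lit 0) (nat_lit 289973634713) (nat_lit 152) (nat_lit 147217378865) (nat_lit 228) (nat_lit 118863995771) (nat_lit 27) (nat_lit 5) (nat_lit 29) (nat_lit 5) (nat_lit 30) (nat_lit 5) (nat_lit 259) (nat_lit 250) (nat_lit 151)))) (XT.nd (nat_lit 78) (nat_lit 304) (nat_lit 0) (XT.lf (nat_lit 0) (nat_lit 28075712771) (nat_lit 228) (nat_lit 371520660494) (nat_lit 76) (nat_lit 209325880233) (nat_lit 24) (nat_lit 5) (nat_lit 27) (nat_lit 5) (nat_lit 25) (nat_lit 5) (nat_lit 260) (nat_lit 250) (nat_lit 150)) (XT.nd (nat_lit 78) (nat_lit 152) (nat_lit 0) (XT.lf (nat_lit 0) (nat_lit 164067032299) (nat_lit 152) (nat_lit 42116651898)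 (nat_lit 228) (nat_lit 461995679662) (nat_lit 22) (nat_lit 5) (nat_lit 24) (nat_lit 5) (nat_lit 25) (nat_lit 5) (nat_lit 261) (nat_lit 250) (nat_lit 149)) (XT.lf (nat_lit 0) (nat_lit 60923795053) (nat_lit 152) (nat_lit 371520656702) (nat_lit 228) (nat_lit 302165661192) (nat_lit 20) (nat_lit 5) (nat_lit 22) (nat_lit 5) (nat_lit 23) (nat_lit 5) (nat_lit 262) (nat_lit 250) (nat_lit 148))))) (XT.nd (nat_lit 234) (nat_lit 304) (nat_lit 0) (XT.nd (nat_lit 78) (nat_lit 304) (nat_lit 0) (XT.lf (nat_lit 0) (nat_lit 709215321340) (nat_lit 228) (nat_lit 70482990328) (nat_lit 76) (nat_lit 29981483958) (nat_lit 20) (nat_lit 5) (nat_lit 23) (nat_lit 5) (nat_lit 21) (nat_lit 4) (nat_lit 263) (nat_lit 250) (nat_lit 147)) (XT.nd (nat_lit 78) (nat_lit 152) (nat_lit 0) (XT.lf (nat_lit 0) (nat_lit 151376437056) (nat_lit 152) (nat_lit 252577905947) (nat_lit 76) (nat_lit 489685612934) (nat_lit 18) (nat_lit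 5) (nat_lit 20) (nat_lit 5) (nat_lit 19) (nat_lit 5) (nat_lit 264) (nat_lit 250) (nat_lit 146)) (XT.lf (nat_lit 0) (nat_lit 450350308392) (nat_lit 228) (nat_lit 494429756469) (nat_lit 76) (nat_lit 43980882908) (nat_lit 16) (nat_lit 5) (nat_lit 19) (nat_lit 5) (nat_lit 17) (nat_lit 4) (nat_lit 265) (nat_lit 250) (nat_lit 145)))) (XT.nd (nat_lit 78) (nat_lit 228) (nat_lit 0) (XT.lf (nat_lit 0) (nat_lit 273319257316) (nat_lit 76) (nat_lit 546141191853) (nat_lit 152) (nat_lit 276666424216) (nat_lit 15) (nat_lit 5) (nat_lit 16) (nat_lit 5) (nat_lit 17) (nat_lit 4) (nat_lit 266) (nat_lit 250) (nat_lit 144)) (XT.nd (nat_lit 78) (nat_lit 152) (nat_lit 0) (XT.lf (nat_lit 0) (nat_lit 37890492587) (nat_lit 152) (nat_lit 33233664274) (nat_lit 76) (nat_lit 1147245211903) (nat_lit 14) (nat_lit 5) (nat_lit 16) (nat_lit 5) (nat_lit 15) (nat_lit 5) (nat_lit 267) (nat_lit 250) (nat_lit 143)) (XT.lf (nat_lit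 0) (nat_lit 417863648312) (nat_lit 228) (nat_lit 455990468401) (nat_lit 76) (nat_lit 481750075255) (nat_lit 12) (nat_lit 5) (nat_lit 15) (nat_lit 5) (nat_lit 13) (nat_lit 4) (nat_lit 268) (nat_lit 250) (nat_lit 142))))))))
noncomputable def xc56 : XT := (XT.nd (nat_lit 33852) (nat_lit 0) (nat_lit 76) (XT.nd (nat_lit 858) (nat_lit 76) (nat_lit 0) (XT.nd (nat_lit 390) (nat_lit 228) (nat_lit 0) (XT.nd (nat_lit 156) (nat_lit 228) (nat_lit 0) (XT.nd (nat_lit 78) (nat_lit 0) (nat_lit 0) (XT.lf (nat_lit 0) (nat_lit 483234959214) (nat_lit 76) (nat_lit 386179398584) (nat_lit 152) (nat_lit 642843354488) (nat_lit 11) (nat_lit 5) (nat_lit 12) (nat_lit 5) (nat_lit 13) (nat_lit 4) (nat_lit 269) (nat_lit 250) (nat_lit 141)) (XT.lf (nat_lit 0) (nat_lit 1406518380573) (nat_lit 152) (nat_lit 104934756763) (nat_lit 0) (nat_lit 179530466825) (nat_lit 11) (nat_lit 5) (nat_lit 13) (nat_lit 4) (nat_lit 11)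 (nat_lit 4) (nat_lit 270) (nat_lit 250) (nat_lit 140))) (XT.nd (nat_lit 78) (nat_lit 76) (nat_lit 0) (XT.lf (nat_lit 0) (nat_lit 156840854791) (nat_lit 152) (nat_lit 900758969467) (nat_lit 76) (nat_lit 835828296625) (nat_lit 9) (nat_lit 5) (nat_lit 11) (nat_lit 5) (nat_lit 10) (nat_lit 4) (nat_lit 271) (nat_lit 250) (nat_lit 139)) (XT.nd (nat_lit 78) (nat_lit 0) (nat_lit 0) (XT.lf (nat_lit 0) (nat_lit 134031023893) (nat_lit 76) (nat_lit 520305034098) (nat_lit 152) (nat_lit 1470765222300) (nat_lit 8) (nat_lit 5) (nat_lit 9) (nat_lit 5) (nat_lit 10) (nat_lit 4) (nat_lit 272) (nat_lit 250) (nat_lit 138)) (XT.lf (nat_lit 0) (nat_lit 1255708195296) (nat_lit 152) (nat_lit 1013868812800) (nat_lit 0) (nat_lit 119608193257) (nat_lit 8) (nat_lit 5) (nat_lit 10) (nat_lit 4) (nat_lit 8) (nat_lit 4) (nat_lit 273) (nat_lit 250) (nat_lit 137))))) (XT.nd (nat_lit 234) (nat_lit 76) (nat_lit 0) (XT.nd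 (nat_lit 78) (nat_lit 76) (nat_lit 0) (XT.lf (nat_lit 0) (nat_lit 100552490309) (nat_lit 76) (nat_lit 1863542276864) (nat_lit 76) (nat_lit 727442254316) (nat_lit 7) (nat_lit 4) (nat_lit 8) (nat_lit 5) (nat_lit 8) (nat_lit 4) (nat_lit 274) (nat_lit 250) (nat_lit 136)) (XT.nd (nat_lit 78) (nat_lit 76) (nat_lit 0) (XT.lf (nat_lit 0) (nat_lit 1443533759265) (nat_lit 76) (nat_lit 1364723240882) (nat_lit 76) (nat_lit 228623200499) (nat_lit 7) (nat_lit 4) (nat_lit 8) (nat_lit 5) (nat_lit 8) (nat_lit 4) (nat_lit 275) (nat_lit 250) (nat_lit 135)) (XT.lf (nat_lit 0) (nat_lit 327759456410) (nat_lit 152) (nat_lit 454360386555) (nat_lit 76) (nat_lit 2651241198804) (nat_lit 6) (nat_lit 5) (nat_lit 8) (nat_lit 5) (nat_lit 7) (nat_lit 4) (nat_lit 276) (nat_lit 250) (nat_lit 134)))) (XT.nd (nat_lit 78) (nat_lit 0) (nat_lit 0) (XT.lf (nat_lit 0) (nat_lit 893865143769) (nat_lit 76) (nat_lit 82079670242)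 (nat_lit 152) (nat_lit 2911143546123) (nat_lit 5) (nat_lit 5) (nat_lit 6) (nat_lit 5) (nat_lit 7) (nat_lit 4) (nat_lit 277) (nat_lit 250) (nat_lit 133)) (XT.nd (nat_lit 78) (nat_lit 0) (nat_lit 0) (XT.lf (nat_lit 0) (nat_lit 1752317123870) (nat_lit 152) (nat_lit 1953708316178) (nat_lit 0) (nat_lit 700372604331) (nat_lit 5) (nat_lit 5) (nat_lit 7) (nat_lit 4) (nat_lit 5) (nat_lit 4) (nat_lit 278) (nat_lit 250) (nat_lit 132)) (XT.lf (nat_lit 0) (nat_lit 2647415385712) (nat_lit 152) (nat_lit 760536330393) (nat_lit 0) (nat_lit 1595470856732) (nat_lit 5) (nat_lit 5) (nat_lit 7) (nat_lit 4) (nat_lit 5) (nat_lit 4) (nat_lit 279) (nat_lit 250) (nat_lit 131)))))) (XT.nd (nat_lit 32526) (nat_lit 0) (nat_lit 1520) (XT.nd (nat_lit 32292) (nat_lit 0) (nat_lit 2660) (XT.nd (nat_lit 32136) (nat_lit 0) (nat_lit 2888) (XT.lf (nat_lit 0) (nat_lit 643817802268) (nat_lit 76) (nat_lit 3048444404934) (nat_lit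 76) (nat_lit 1996499867743) (nat_lit 4) (nat_lit 4) (nat_lit 5) (nat_lit 5) (nat_lit 5) (nat_lit 4) (nat_lit 280) (nat_lit 250) (nat_lit 130)) (XT.nd (nat_lit 78) (nat_lit 0) (nat_lit 76) (XT.lf (nat_lit 0) (nat_lit 84170466455) (nat_lit 532) (nat_lit 35787407777) (nat_lit 532) (nat_lit 35787407777) (nat_lit 42) (nat_lit 3) (nat_lit 49) (nat_lit 3) (nat_lit 49) (nat_lit 5) (nat_lit 251) (nat_lit 251) (nat_lit 158)) (XT.lf (nat_lit 0) (nat_lit 186097382123) (nat_lit 456) (nat_lit 135268153983) (nat_lit 532) (nat_lit 13076345730) (nat_lit 43) (nat_lit 5) (nat_lit 49) (nat_lit 5) (nat_lit 50) (nat_lit 5) (nat_lit 252) (nat_lit 251) (nat_lit 157)))) (XT.nd (nat_lit 78) (nat_lit 304) (nat_lit 0) (XT.lf (nat_lit 76) (nat_lit 155277596712) (nat_lit 0) (nat_lit 63747360797) (nat_lit 532) (nat_lit 140810327854) (nat_lit 44) (nat_lit 5) (nat_lit 43) (nat_lit 5) (nat_lit 50) (nat_lit 5) (nat_lit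 253) (nat_lit 251) (nat_lit 156)) (XT.nd (nat_lit 78) (nat_lit 380) (nat_lit 0) (XT.lf (nat_lit 76) (nat_lit 108612867344) (nat_lit 0) (nat_lit 160523204959) (nat_lit 532) (nat_lit 118922075509) (nat_lit 45) (nat_lit 5) (nat_lit 44) (nat_lit 5) (nat_lit 51) (nat_lit 5) (nat_lit 254) (nat_lit 251) (nat_lit 155)) (XT.lf (nat_lit 0) (nat_lit 58850006368) (nat_lit 456) (nat_lit 280486686061) (nat_lit 532) (nat_lit 80171920707) (nat_lit 39) (nat_lit 5) (nat_lit 45) (nat_lit 5) (nat_lit 46) (nat_lit 5) (nat_lit 255) (nat_lit 251) (nat_lit 154))))) (XT.nd (nat_lit 234) (nat_lit 608) (nat_lit 0) (XT.nd (nat_lit 78) (nat_lit 304) (nat_lit 0) (XT.lf (nat_lit 0) (nat_lit 5047249198) (nat_lit 228) (nat_lit 428268408697) (nat_lit 304) (nat_lit 21301130663) (nat_lit 36) (nat_lit 5) (nat_lit 39) (nat_lit 5) (nat_lit 40) (nat_lit 5) (nat_lit 256) (nat_lit 251) (nat_lit 153)) (XT.nd (nat_lit 78) (nat_lit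 228) (nat_lit 0) (XT.lf (nat_lit 0) (nat_lit 62609511604) (nat_lit 304) (nat_lit 55848163037) (nat_lit 76) (nat_lit 374961812737) (nat_lit 35) (nat_lit 5) (nat_lit 39) (nat_lit 5) (nat_lit 36) (nat_lit 5) (nat_lit 257) (nat_lit 251) (nat_lit 152)) (XT.lf (nat_lit 0) (nat_lit 173910830953) (nat_lit 304) (nat_lit 125975520703) (nat_lit 76) (nat_lit 236826749983) (nat_lit 32) (nat_lit 5) (nat_lit 36) (nat_lit 5) (nat_lit 33) (nat_lit 5) (nat_lit 258) (nat_lit 251) (nat_lit 151)))) (XT.nd (nat_lit 78) (nat_lit 380) (nat_lit 0) (XT.lf (nat_lit 0) (nat_lit 317530776881) (nat_lit 304) (nat_lit 206900077586) (nat_lit 76) (nat_lit 60820029575) (nat_lit 29) (nat_lit 5) (nat_lit 33) (nat_lit 5) (nat_lit 30) (nat_lit 5) (nat_lit 259) (nat_lit 251) (nat_lit 150)) (XT.nd (nat_lit 78) (nat_lit 228) (nat_lit 0) (XT.lf (nat_lit 0) (nat_lit 333470932654) (nat_lit 152) (nat_lit 169299699277) (nat_lit 228)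 (nat_lit 136692548752) (nat_lit 27) (nat_lit 5) (nat_lit 29) (nat_lit 5) (nat_lit 30) (nat_lit 5) (nat_lit 260) (nat_lit 251) (nat_lit 149)) (XT.lf (nat_lit 0) (nat_lit 32287970163) (nat_lit 228) (nat_lit 427247496242) (nat_lit 76) (nat_lit 240725050855) (nat_lit 24) (nat_lit 5) (nat_lit 27) (nat_lit 5) (nat_lit 25) (nat_lit 5) (nat_lit 261) (nat_lit 251) (nat_lit 148))))))) (XT.nd (nat_lit 858) (nat_lit 304) (nat_lit 0) (XT.nd (nat_lit 390) (nat_lit 532) (nat_lit 0) (XT.nd (nat_lit 156) (nat_lit 304) (nat_lit 0) (XT.nd (nat_lit 78) (nat_lit 152) (nat_lit 0) (XT.lf (nat_lit 0) (nat_lit 188678243536) (nat_lit 152) (nat_lit 48433804124) (nat_lit 228) (nat_lit 531294153975) (nat_lit 22) (nat_lit 5) (nat_lit 24) (nat_lit 5) (nat_lit 25) (nat_lit 5) (nat_lit 262) (nat_lit 251) (nat_lit 147)) (XT.lf (nat_lit 0) (nat_lit 70063476361) (nat_lit 152) (nat_lit 427248382201) (nat_lit 228) (nat_lit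 347489710520) (nat_lit 20) (nat_lit 5) (nat_lit 22) (nat_lit 5) (nat_lit 23) (nat_lit 5) (nat_lit 263) (nat_lit 251) (nat_lit 146))) (XT.nd (nat_lit 78) (nat_lit 304) (nat_lit 0) (XT.lf (nat_lit 0) (nat_lit 815598269989) (nat_lit 228) (nat_lit 81054426803) (nat_lit 76) (nat_lit 34479014679) (nat_lit 20) (nat_lit 5) (nat_lit 23) (nat_lit 5) (nat_lit 21) (nat_lit 4) (nat_lit 264) (nat_lit 251) (nat_lit 145)) (XT.nd (nat_lit 78) (nat_lit 152) (nat_lit 0) (XT.lf (nat_lit 0) (nat_lit 174083506980) (nat_lit 152) (nat_lit 290463632429) (nat_lit 76) (nat_lit 563138760391) (nat_lit 18) (nat_lit 5) (nat_lit 20) (nat_lit 5) (nat_lit 19) (nat_lit 5) (nat_lit 265) (nat_lit 251) (nat_lit 144)) (XT.lf (nat_lit 0) (nat_lit 517903409280) (nat_lit 228) (nat_lit 568593304954) (nat_lit 76) (nat_lit 50578330304) (nat_lit 16) (nat_lit 5) (nat_lit 19) (nat_lit 5) (nat_lit 17) (nat_lit 4) (nat_lit 266) (nat_lit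 251) (nat_lit 143))))) (XT.nd (nat_lit 234) (nat_lit 228) (nat_lit 0) (XT.nd (nat_lit 78) (nat_lit 228) (nat_lit 0) (XT.lf (nat_lit 0) (nat_lit 314317983450) (nat_lit 76) (nat_lit 628062035525) (nat_lit 152) (nat_lit 318165844333) (nat_lit 15) (nat_lit 5) (nat_lit 16) (nat_lit 5) (nat_lit 17) (nat_lit 4) (nat_lit 267) (nat_lit 251) (nat_lit 142)) (XT.nd (nat_lit 78) (nat_lit 152) (nat_lit 0) (XT.lf (nat_lit 0) (nat_lit 43574515454) (nat_lit 152) (nat_lit 38217961262) (nat_lit 76) (nat_lit 1319332260726) (nat_lit 14) (nat_lit 5) (nat_lit 16) (nat_lit 5) (nat_lit 15) (nat_lit 5) (nat_lit 268) (nat_lit 251) (nat_lit 141)) (XT.lf (nat_lit 0) (nat_lit 480543609326) (nat_lit 228) (nat_lit 524388323315) (nat_lit 76) (nat_lit 554012854396) (nat_lit 12) (nat_lit 5) (nat_lit 15) (nat_lit 5) (nat_lit 13) (nat_lit 4) (nat_lit 269) (nat_lit 251) (nat_lit 140)))) (XT.nd (nat_lit 78) (nat_lit 152) (nat_lit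 0) (XT.lf (nat_lit 0) (nat_lit 555720857891) (nat_lit 76) (nat_lit 444106029122) (nat_lit 152) (nat_lit 739269451530) (nat_lit 11) (nat_lit 5) (nat_lit 12) (nat_lit 5) (nat_lit 13) (nat_lit 4) (nat_lit 270) (nat_lit 251) (nat_lit 139)) (XT.nd (nat_lit 78) (nat_lit 152) (nat_lit 0) (XT.lf (nat_lit 0) (nat_lit 1617496470060) (nat_lit 152) (nat_lit 120674380134) (nat_lit 0) (nat_lit 206460267528) (nat_lit 11) (nat_lit 5) (nat_lit 13) (nat_lit 4) (nat_lit 11) (nat_lit 4) (nat_lit 271) (nat_lit 251) (nat_lit 138)) (XT.lf (nat_lit 0) (nat_lit 180367293281) (nat_lit 152) (nat_lit 1035872257978) (nat_lit 76) (nat_lit 961202762555) (nat_lit 9) (nat_lit 5) (nat_lit 11) (nat_lit 5) (nat_lit 10) (nat_lit 4) (nat_lit 272) (nat_lit 251) (nat_lit 137)))))) (XT.nd (nat_lit 468) (nat_lit 0) (nat_lit 0) (XT.nd (nat_lit 234) (nat_lit 152) (nat_lit 0) (XT.nd (nat_lit 78) (nat_lit 76) (nat_lit 0) (XT.lf (nat_lit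 0) (nat_lit 154136187247) (nat_lit 76) (nat_lit 598350561503) (nat_lit 152) (nat_lit 1691379700689) (nat_lit 8) (nat_lit 5) (nat_lit 9) (nat_lit 5) (nat_lit 10) (nat_lit 4) (nat_lit 273) (nat_lit 251) (nat_lit 136)) (XT.nd (nat_lit 78) (nat_lit 76) (nat_lit 0) (XT.lf (nat_lit 0) (nat_lit 1444064674623) (nat_lit 152) (nat_lit 1165948676295) (nat_lit 0) (nat_lit 137549610349) (nat_lit 8) (nat_lit 5) (nat_lit 10) (nat_lit 4) (nat_lit 8) (nat_lit 4) (nat_lit 274) (nat_lit 251) (nat_lit 135)) (XT.lf (nat_lit 0) (nat_lit 115635783477) (nat_lit 76) (nat_lit 2143073426283) (nat_lit 76) (nat_lit 836558346501) (nat_lit 7) (nat_lit 4) (nat_lit 8) (nat_lit 5) (nat_lit 8) (nat_lit 4) (nat_lit 275) (nat_lit 251) (nat_lit 134)))) (XT.nd (nat_lit 78) (nat_lit 152) (nat_lit 0) (XT.lf (nat_lit 0) (nat_lit 1660064188043) (nat_lit 76) (nat_lit 1569431559962) (nat_lit 76) (nat_lit 262916466694) (nat_lit 7)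 (nat_lit 4) (nat_lit 8) (nat_lit 5) (nat_lit 8) (nat_lit 4) (nat_lit 276) (nat_lit 251) (nat_lit 133)) (XT.nd (nat_lit 78) (nat_lit 76) (nat_lit 0) (XT.lf (nat_lit 0) (nat_lit 376923551551) (nat_lit 152) (nat_lit 522514117766) (nat_lit 76) (nat_lit 3048927514409) (nat_lit 6) (nat_lit 5) (nat_lit 8) (nat_lit 5) (nat_lit 7) (nat_lit 4) (nat_lit 277) (nat_lit 251) (nat_lit 132)) (XT.lf (nat_lit 0) (nat_lit 1027945214447) (nat_lit 76) (nat_lit 94391482493) (nat_lit 152) (nat_lit 3347814904196) (nat_lit 5) (nat_lit 5) (nat_lit 6) (nat_lit 5) (nat_lit 7) (nat_lit 4) (nat_lit 278) (nat_lit 251) (nat_lit 131))))) (XT.nd (nat_lit 32370) (nat_lit 0) (nat_lit 2888) (XT.nd (nat_lit 78) (nat_lit 0) (nat_lit 0) (XT.lf (nat_lit 0) (nat_lit 2015164835193) (nat_lit 152) (nat_lit 2246764295079) (nat_lit 0) (nat_lit 805428609214) (nat_lit 5) (nat_lit 5) (nat_lit 7) (nat_lit 4) (nat_lit 5) (nat_lit 4) (nat_lit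 279) (nat_lit 251) (nat_lit 130)) (XT.nd (nat_lit 32214) (nat_lit 0) (nat_lit 2812) (XT.lf (nat_lit 0) (nat_lit 3044527817693) (nat_lit 152) (nat_lit 874616546450) (nat_lit 0) (nat_lit 1834791584575) (nat_lit 5) (nat_lit 5) (nat_lit 7) (nat_lit 4) (nat_lit 5) (nat_lit 4) (nat_lit 280) (nat_lit 251) (nat_lit 129)) (XT.lf (nat_lit 0) (nat_lit 96797091791) (nat_lit 532) (nat_lit 41154947059) (nat_lit 532) (nat_lit 41154947059) (nat_lit 42) (nat_lit 3) (nat_lit 49) (nat_lit 3) (nat_lit 49) (nat_lit 5) (nat_lit 252) (nat_lit 252) (nat_lit 156)))) (XT.nd (nat_lit 78) (nat_lit 0) (nat_lit 0) (XT.lf (nat_lit 0) (nat_lit 214013830475) (nat_lit 456) (nat_lit 155557154804) (nat_lit 532) (nat_lit 15037024644) (nat_lit 43) (nat_lit 5) (nat_lit 49) (nat_lit 5) (nat_lit 50) (nat_lit 5) (nat_lit 253) (nat_lit 252) (nat_lit 155)) (XT.nd (nat_lit 78) (nat_lit 0) (nat_lit 76) (XT.lf (nat_lit 76) (nat_lit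 178570355037) (nat_lit 0) (nat_lit 73309973905) (nat_lit 532) (nat_lit 161930112995) (nat_lit 44) (nat_lit 5) (nat_lit 43) (nat_lit 5) (nat_lit 50) (nat_lit 5) (nat_lit 254) (nat_lit 252) (nat_lit 154)) (XT.lf (nat_lit 76) (nat_lit 124905957465) (nat_lit 0) (nat_lit 184601958421) (nat_lit 532) (nat_lit 136758834256) (nat_lit 45) (nat_lit 5) (nat_lit 44) (nat_lit 5) (nat_lit 51) (nat_lit 5) (nat_lit 255) (nat_lit 252) (nat_lit 153))))))))
noncomputable def xc57 : XT := (XT.nd (nat_lit 1794) (nat_lit 76) (nat_lit 0) (XT.nd (nat_lit 858) (nat_lit 912) (nat_lit 0) (XT.nd (nat_lit 390) (nat_lit 836) (nat_lit 0) (XT.nd (nat_lit 156) (nat_lit 532) (nat_lit 0) (XT.nd (nat_lit 78) (nat_lit 228) (nat_lit 0) (XT.lf (nat_lit 0) (nat_lit 67678684854) (nat_lit 456) (nat_lit 322559779914) (nat_lit 532) (nat_lit 92196334319) (nat_lit 39) (nat_lit 5) (nat_lit 45) (nat_lit 5) (nat_lit 46) (nat_lit 5) (nat_lit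 256) (nat_lit 252) (nat_lit 152)) (XT.lf (nat_lit 0) (nat_lit 5805513484) (nat_lit 228) (nat_lit 492508622520) (nat_lit 304) (nat_lit 24495076535) (nat_lit 36) (nat_lit 5) (nat_lit 39) (nat_lit 5) (nat_lit 40) (nat_lit 5) (nat_lit 257) (nat_lit 252) (nat_lit 151))) (XT.nd (nat_lit 78) (nat_lit 456) (nat_lit 0) (XT.lf (nat_lit 0) (nat_lit 72001949225) (nat_lit 304) (nat_lit 64224307685) (nat_lit 76) (nat_lit 431206069525) (nat_lit 35) (nat_lit 5) (nat_lit 39) (nat_lit 5) (nat_lit 36) (nat_lit 5) (nat_lit 258) (nat_lit 252) (nat_lit 150)) (XT.nd (nat_lit 78) (nat_lit 228) (nat_lit 0) (XT.lf (nat_lit 0) (nat_lit 199998360452) (nat_lit 304) (nat_lit 144870787472) (nat_lit 76) (nat_lit 272350843808) (nat_lit 32) (nat_lit 5) (nat_lit 36) (nat_lit 5) (nat_lit 33) (nat_lit 5) (nat_lit 259) (nat_lit 252) (nat_lit 149)) (XT.lf (nat_lit 0) (nat_lit 365161207488) (nat_lit 304) (nat_lit 237934054383)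 (nat_lit 76) (nat_lit 69943187247) (nat_lit 29) (nat_lit 5) (nat_lit 33) (nat_lit 5) (nat_lit 30) (nat_lit 5) (nat_lit 260) (nat_lit 252) (nat_lit 148))))) (XT.nd (nat_lit 234) (nat_lit 304) (nat_lit 0) (XT.nd (nat_lit 78) (nat_lit 380) (nat_lit 0) (XT.lf (nat_lit 0) (nat_lit 383492519798) (nat_lit 152) (nat_lit 194694437595) (nat_lit 228) (nat_lit 157195639848) (nat_lit 27) (nat_lit 5) (nat_lit 29) (nat_lit 5) (nat_lit 30) (nat_lit 5) (nat_lit 261) (nat_lit 252) (nat_lit 147)) (XT.nd (nat_lit 78) (nat_lit 152) (nat_lit 0) (XT.lf (nat_lit 0) (nat_lit 37131846576) (nat_lit 228) (nat_lit 491333665422) (nat_lit 76) (nat_lit 276834026696) (nat_lit 24) (nat_lit 5) (nat_lit 27) (nat_lit 5) (nat_lit 25) (nat_lit 5) (nat_lit 262) (nat_lit 252) (nat_lit 146)) (XT.lf (nat_lit 0) (nat_lit 216980854465) (nat_lit 152) (nat_lit 55698613451) (nat_lit 228) (nat_lit 610987613452) (nat_lit 22) (nat_lit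 5) (nat_lit 24) (nat_lit 5) (nat_lit 25) (nat_lit 5) (nat_lit 263) (nat_lit 252) (nat_lit 145)))) (XT.nd (nat_lit 78) (nat_lit 152) (nat_lit 0) (XT.lf (nat_lit 0) (nat_lit 80573838684) (nat_lit 152) (nat_lit 491335357486) (nat_lit 228) (nat_lit 399612562296) (nat_lit 20) (nat_lit 5) (nat_lit 22) (nat_lit 5) (nat_lit 23) (nat_lit 5) (nat_lit 264) (nat_lit 252) (nat_lit 144)) (XT.nd (nat_lit 78) (nat_lit 152) (nat_lit 0) (XT.lf (nat_lit 0) (nat_lit 937938502319) (nat_lit 228) (nat_lit 93211825550) (nat_lit 76) (nat_lit 39651099870) (nat_lit 20) (nat_lit 5) (nat_lit 23) (nat_lit 5) (nat_lit 21) (nat_lit 4) (nat_lit 265) (nat_lit 252) (nat_lit 143)) (XT.lf (nat_lit 0) (nat_lit 200196490014) (nat_lit 152) (nat_lit 334032451841) (nat_lit 76) (nat_lit 647609805465) (nat_lit 18) (nat_lit 5) (nat_lit 20) (nat_lit 5) (nat_lit 19) (nat_lit 5) (nat_lit 266) (nat_lit 252) (nat_lit 142)))))) (XT.nd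 (nat_lit 468) (nat_lit 380) (nat_lit 0) (XT.nd (nat_lit 234) (nat_lit 228) (nat_lit 0) (XT.nd (nat_lit 78) (nat_lit 152) (nat_lit 0) (XT.lf (nat_lit 0) (nat_lit 595589340052) (nat_lit 228) (nat_lit 653881608837) (nat_lit 76) (nat_lit 58165318005) (nat_lit 16) (nat_lit 5) (nat_lit 19) (nat_lit 5) (nat_lit 17) (nat_lit 4) (nat_lit 267) (nat_lit 252) (nat_lit 141)) (XT.nd (nat_lit 78) (nat_lit 76) (nat_lit 0) (XT.lf (nat_lit 0) (nat_lit 361466314265) (nat_lit 76) (nat_lit 722271087465) (nat_lit 152) (nat_lit 365890310007) (nat_lit 15) (nat_lit 5) (nat_lit 16) (nat_lit 5) (nat_lit 17) (nat_lit 4) (nat_lit 268) (nat_lit 252) (nat_lit 140)) (XT.lf (nat_lit 0) (nat_lit 50111032266) (nat_lit 152) (nat_lit 43950086339) (nat_lit 76) (nat_lit 1517232301753) (nat_lit 14) (nat_lit 5) (nat_lit 16) (nat_lit 5) (nat_lit 15) (nat_lit 5) (nat_lit 269) (nat_lit 252) (nat_lit 139)))) (XT.nd (nat_lit 78)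 (nat_lit 76) (nat_lit 0) (XT.lf (nat_lit 0) (nat_lit 552625463592) (nat_lit 228) (nat_lit 603046030908) (nat_lit 76) (nat_lit 637114985091) (nat_lit 12) (nat_lit 5) (nat_lit 15) (nat_lit 5) (nat_lit 13) (nat_lit 4) (nat_lit 270) (nat_lit 252) (nat_lit 138)) (XT.nd (nat_lit 78) (nat_lit 0) (nat_lit 0) (XT.lf (nat_lit 0) (nat_lit 639079481694) (nat_lit 76) (nat_lit 510721722337) (nat_lit 152) (nat_lit 850159562165) (nat_lit 11) (nat_lit 5) (nat_lit 12) (nat_lit 5) (nat_lit 13) (nat_lit 4) (nat_lit 271) (nat_lit 252) (nat_lit 137)) (XT.lf (nat_lit 0) (nat_lit 1860121191912) (nat_lit 152) (nat_lit 138775090920) (nat_lit 0) (nat_lit 237429482083) (nat_lit 11) (nat_lit 5) (nat_lit 13) (nat_lit 4) (nat_lit 11) (nat_lit 4) (nat_lit 272) (nat_lit 252) (nat_lit 136))))) (XT.nd (nat_lit 234) (nat_lit 152) (nat_lit 0) (XT.nd (nat_lit 78) (nat_lit 76) (nat_lit 0) (XT.lf (nat_lit 0) (nat_lit 207422621883)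 (nat_lit 152) (nat_lit 1191252675572) (nat_lit 76) (nat_lit 1105383344377) (nat_lit 9) (nat_lit 5) (nat_lit 11) (nat_lit 5) (nat_lit 10) (nat_lit 4) (nat_lit 273) (nat_lit 252) (nat_lit 135)) (XT.nd (nat_lit 78) (nat_lit 0) (nat_lit 0) (XT.lf (nat_lit 0) (nat_lit 177257000793) (nat_lit 76) (nat_lit 688102973548) (nat_lit 152) (nat_lit 1945086425202) (nat_lit 8) (nat_lit 5) (nat_lit 9) (nat_lit 5) (nat_lit 10) (nat_lit 4) (nat_lit 274) (nat_lit 252) (nat_lit 134)) (XT.lf (nat_lit 0) (nat_lit 1660674564877) (nat_lit 152) (nat_lit 1340840631105) (nat_lit 0) (nat_lit 158182194134) (nat_lit 8) (nat_lit 5) (nat_lit 10) (nat_lit 4) (nat_lit 8) (nat_lit 4) (nat_lit 275) (nat_lit 252) (nat_lit 133)))) (XT.nd (nat_lit 78) (nat_lit 76) (nat_lit 0) (XT.lf (nat_lit 0) (nat_lit 132981468293) (nat_lit 76) (nat_lit 2464534294963) (nat_lit 76) (nat_lit 962041912494) (nat_lit 7) (nat_lit 4) (nat_lit 8)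 (nat_lit 5) (nat_lit 8) (nat_lit 4) (nat_lit 276) (nat_lit 252) (nat_lit 132)) (XT.nd (nat_lit 78) (nat_lit 76) (nat_lit 0) (XT.lf (nat_lit 0) (nat_lit 1909074092157) (nat_lit 76) (nat_lit 1804846167641) (nat_lit 76) (nat_lit 302353774975) (nat_lit 7) (nat_lit 4) (nat_lit 8) (nat_lit 5) (nat_lit 8) (nat_lit 4) (nat_lit 277) (nat_lit 252) (nat_lit 131)) (XT.lf (nat_lit 0) (nat_lit 433462217878) (nat_lit 152) (nat_lit 600890988344) (nat_lit 76) (nat_lit 3506266744243) (nat_lit 6) (nat_lit 5) (nat_lit 8) (nat_lit 5) (nat_lit 7) (nat_lit 4) (nat_lit 278) (nat_lit 252) (nat_lit 130))))))) (XT.nd (nat_lit 33072) (nat_lit 0) (nat_lit 456) (XT.nd (nat_lit 32604) (nat_lit 0) (nat_lit 1824) (XT.nd (nat_lit 32370) (nat_lit 0) (nat_lit 2812) (XT.nd (nat_lit 78) (nat_lit 0) (nat_lit 0) (XT.lf (nat_lit 0) (nat_lit 1182137222787) (nat_lit 76) (nat_lit 108550100304) (nat_lit 152) (nat_lit 3849987008373)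 (nat_lit 5) (nat_lit 5) (nat_lit 6) (nat_lit 5) (nat_lit 7) (nat_lit 4) (nat_lit 279) (nat_lit 252) (nat_lit 129)) (XT.lf (nat_lit 0) (nat_lit 2317439668406) (nat_lit 152) (nat_lit 2583778736296) (nat_lit 0) (nat_lit 926242986973) (nat_lit 5) (nat_lit 5) (nat_lit 7) (nat_lit 4) (nat_lit 5) (nat_lit 4) (nat_lit 280) (nat_lit 252) (nat_lit 128))) (XT.nd (nat_lit 78) (nat_lit 0) (nat_lit 76) (XT.lf (nat_lit 0) (nat_lit 111317453569) (nat_lit 532) (nat_lit 47327756691) (nat_lit 532) (nat_lit 47327756691) (nat_lit 42) (nat_lit 3) (nat_lit 49) (nat_lit 3) (nat_lit 49) (nat_lit 5) (nat_lit 253) (nat_lit 253) (nat_lit 154)) (XT.nd (nat_lit 78) (nat_lit 0) (nat_lit 0) (XT.lf (nat_lit 0) (nat_lit 246117297132) (nat_lit 456) (nat_lit 178889803807) (nat_lit 532) (nat_lit 17291993883) (nat_lit 43) (nat_lit 5) (nat_lit 49) (nat_lit 5) (nat_lit 50) (nat_lit 5) (nat_lit 254) (nat_lit 253) (nat_lit 153))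 (XT.lf (nat_lit 76) (nat_lit 205356754280) (nat_lit 0) (nat_lit 84306854859) (nat_lit 532) (nat_lit 186218296080) (nat_lit 44) (nat_lit 5) (nat_lit 43) (nat_lit 5) (nat_lit 50) (nat_lit 5) (nat_lit 255) (nat_lit 253) (nat_lit 152))))) (XT.nd (nat_lit 234) (nat_lit 532) (nat_lit 0) (XT.nd (nat_lit 78) (nat_lit 608) (nat_lit 0) (XT.lf (nat_lit 76) (nat_lit 143642728226) (nat_lit 0) (nat_lit 212292458398) (nat_lit 532) (nat_lit 157271485422) (nat_lit 45) (nat_lit 5) (nat_lit 44) (nat_lit 5) (nat_lit 51) (nat_lit 5) (nat_lit 256) (nat_lit 253) (nat_lit 151)) (XT.nd (nat_lit 78) (nat_lit 228) (nat_lit 0) (XT.lf (nat_lit 0) (nat_lit 77831377965) (nat_lit 456) (nat_lit 370943815668) (nat_lit 532) (nat_lit 106024745152) (nat_lit 39) (nat_lit 5) (nat_lit 45) (nat_lit 5) (nat_lit 46) (nat_lit 5) (nat_lit 257) (nat_lit 253) (nat_lit 150)) (XT.lf (nat_lit 0) (nat_lit 6677230417) (nat_lit 228) (nat_lit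 566384879996) (nat_lit 304) (nat_lit 28168412702) (nat_lit 36) (nat_lit 5) (nat_lit 39) (nat_lit 5) (nat_lit 40) (nat_lit 5) (nat_lit 258) (nat_lit 253) (nat_lit 149)))) (XT.nd (nat_lit 78) (nat_lit 456) (nat_lit 0) (XT.lf (nat_lit 0) (nat_lit 82803005979) (nat_lit 304) (nat_lit 73857137349) (nat_lit 76) (nat_lit 495886968519) (nat_lit 35) (nat_lit 5) (nat_lit 39) (nat_lit 5) (nat_lit 36) (nat_lit 5) (nat_lit 259) (nat_lit 253) (nat_lit 148)) (XT.nd (nat_lit 78) (nat_lit 228) (nat_lit 0) (XT.lf (nat_lit 0) (nat_lit 229998798721) (nat_lit 304) (nat_lit 166600603070) (nat_lit 76) (nat_lit 313203531875) (nat_lit 32) (nat_lit 5) (nat_lit 36) (nat_lit 5) (nat_lit 33) (nat_lit 5) (nat_lit 260) (nat_lit 253) (nat_lit 147)) (XT.lf (nat_lit 0) (nat_lit 419936004169) (nat_lit 304) (nat_lit 273623380053) (nat_lit 76) (nat_lit 80434781201) (nat_lit 29) (nat_lit 5) (nat_lit 33) (nat_lit 5) (nat_lit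 30) (nat_lit 5) (nat_lit 261) (nat_lit 253) (nat_lit 146)))))) (XT.nd (nat_lit 468) (nat_lit 532) (nat_lit 0) (XT.nd (nat_lit 234) (nat_lit 304) (nat_lit 0) (XT.nd (nat_lit 78) (nat_lit 380) (nat_lit 0) (XT.lf (nat_lit 0) (nat_lit 441017114022) (nat_lit 152) (nat_lit 223898439474) (nat_lit 228) (nat_lit 180774387551) (nat_lit 27) (nat_lit 5) (nat_lit 29) (nat_lit 5) (nat_lit 30) (nat_lit 5) (nat_lit 262) (nat_lit 253) (nat_lit 145)) (XT.nd (nat_lit 78) (nat_lit 152) (nat_lit 0) (XT.lf (nat_lit 0) (nat_lit 42702138412) (nat_lit 228) (nat_lit 565032992925) (nat_lit 76) (nat_lit 318359295700) (nat_lit 24) (nat_lit 5) (nat_lit 27) (nat_lit 5) (nat_lit 25) (nat_lit 5) (nat_lit 263) (nat_lit 253) (nat_lit 144)) (XT.lf (nat_lit 0) (nat_lit 249528643806) (nat_lit 152) (nat_lit 64053207895) (nat_lit 228) (nat_lit 702635253679) (nat_lit 22) (nat_lit 5) (nat_lit 24) (nat_lit 5) (nat_lit 25) (nat_lit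 5) (nat_lit 264) (nat_lit 253) (nat_lit 143)))) (XT.nd (nat_lit 78) (nat_lit 152) (nat_lit 0) (XT.lf (nat_lit 0) (nat_lit 92660550305) (nat_lit 152) (nat_lit 565035447842) (nat_lit 228) (nat_lit 459553989323) (nat_lit 20) (nat_lit 5) (nat_lit 22) (nat_lit 5) (nat_lit 23) (nat_lit 5) (nat_lit 265) (nat_lit 253) (nat_lit 142)) (XT.nd (nat_lit 78) (nat_lit 152) (nat_lit 0) (XT.lf (nat_lit 0) (nat_lit 1078629649563) (nat_lit 228) (nat_lit 107193020726) (nat_lit 76) (nat_lit 45598941023) (nat_lit 20) (nat_lit 5) (nat_lit 23) (nat_lit 5) (nat_lit 21) (nat_lit 4) (nat_lit 266) (nat_lit 253) (nat_lit 141)) (XT.lf (nat_lit 0) (nat_lit 230226309065) (nat_lit 152) (nat_lit 384136771071) (nat_lit 76) (nat_lit 744751450965) (nat_lit 18) (nat_lit 5) (nat_lit 20) (nat_lit 5) (nat_lit 19) (nat_lit 5) (nat_lit 267) (nat_lit 253) (nat_lit 140))))) (XT.nd (nat_lit 234) (nat_lit 228) (nat_lit 0) (XT.nd (nat_lit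 78) (nat_lit 152) (nat_lit 0) (XT.lf (nat_lit 0) (nat_lit 684928058172) (nat_lit 228) (nat_lit 751963327017) (nat_lit 76) (nat_lit 66890295785) (nat_lit 16) (nat_lit 5) (nat_lit 19) (nat_lit 5) (nat_lit 17) (nat_lit 4) (nat_lit 268) (nat_lit 253) (nat_lit 139)) (XT.nd (nat_lit 78) (nat_lit 76) (nat_lit 0) (XT.lf (nat_lit 0) (nat_lit 415686740269) (nat_lit 76) (nat_lit 830611558986) (nat_lit 152) (nat_lit 420773545752) (nat_lit 15) (nat_lit 5) (nat_lit 16) (nat_lit 5) (nat_lit 17) (nat_lit 4) (nat_lit 269) (nat_lit 253) (nat_lit 138)) (XT.lf (nat_lit 0) (nat_lit 57627943811) (nat_lit 152) (nat_lit 50542168958) (nat_lit 76) (nat_lit 1744817299695) (nat_lit 14) (nat_lit 5) (nat_lit 16) (nat_lit 5) (nat_lit 15) (nat_lit 5) (nat_lit 270) (nat_lit 253) (nat_lit 137)))) (XT.nd (nat_lit 78) (nat_lit 76) (nat_lit 0) (XT.lf (nat_lit 0) (nat_lit 635519519704) (nat_lit 228) (nat_lit 693502526543)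 (nat_lit 76) (nat_lit 732682386001) (nat_lit 12) (nat_lit 5) (nat_lit 15) (nat_lit 5) (nat_lit 13) (nat_lit 4) (nat_lit 271) (nat_lit 253) (nat_lit 136)) (XT.nd (nat_lit 78) (nat_lit 0) (nat_lit 0) (XT.lf (nat_lit 0) (nat_lit 734941778330) (nat_lit 76) (nat_lit 587329821025) (nat_lit 152) (nat_lit 977683264283) (nat_lit 11) (nat_lit 5) (nat_lit 12) (nat_lit 5) (nat_lit 13) (nat_lit 4) (nat_lit 272) (nat_lit 253) (nat_lit 135)) (XT.lf (nat_lit 0) (nat_lit 2139139560750) (nat_lit 152) (nat_lit 159591017142) (nat_lit 0) (nat_lit 273044036287) (nat_lit 11) (nat_lit 5) (nat_lit 13) (nat_lit 4) (nat_lit 11) (nat_lit 4) (nat_lit 273) (nat_lit 253) (nat_lit 134))))))))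
noncomputable def xc58 : XT := (XT.nd (nat_lit 34164) (nat_lit 0) (nat_lit 76) (XT.nd (nat_lit 33228) (nat_lit 0) (nat_lit 684) (XT.nd (nat_lit 390) (nat_lit 76) (nat_lit 0) (XT.nd (nat_lit 156) (nat_lit 76) (nat_lit 0) (XT.nd (nat_lit 78) (nat_lit 76) (nat_lit 0) (XT.lf (nat_lit 0) (nat_lit 238536192563) (nat_lit 152) (nat_lit 1369940258493) (nat_lit 76) (nat_lit 1271190972641) (nat_lit 9) (nat_lit 5) (nat_lit 11) (nat_lit 5) (nat_lit 10) (nat_lit 4) (nat_lit 274) (nat_lit 253) (nat_lit 133)) (XT.lf (nat_lit 0) (nat_lit 203845842374) (nat_lit 76) (nat_lit 791318289387) (nat_lit 152) (nat_lit 2236849214623) (nat_lit 8) (nat_lit 5) (nat_lit 9) (nat_lit 5) (nat_lit 10) (nat_lit 4) (nat_lit 275) (nat_lit 253) (nat_lit 132))) (XT.nd (nat_lit 78) (nat_lit 76) (nat_lit 0) (XT.lf (nat_lit 0) (nat_lit 1909775892565) (nat_lit 152) (nat_lit 1541966463665) (nat_lit 0) (nat_lit 181909630802) (nat_lit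 8) (nat_lit 5) (nat_lit 10) (nat_lit 4) (nat_lit 8) (nat_lit 4) (nat_lit 276) (nat_lit 253) (nat_lit 131)) (XT.nd (nat_lit 78) (nat_lit 0) (nat_lit 0) (XT.lf (nat_lit 0) (nat_lit 152928928457) (nat_lit 76) (nat_lit 2834214329368) (nat_lit 76) (nat_lit 1106348058739) (nat_lit 7) (nat_lit 4) (nat_lit 8) (nat_lit 5) (nat_lit 8) (nat_lit 4) (nat_lit 277) (nat_lit 253) (nat_lit 130)) (XT.lf (nat_lit 0) (nat_lit 2195435414607) (nat_lit 76) (nat_lit 2075572997274) (nat_lit 76) (nat_lit 347706718934) (nat_lit 7) (nat_lit 4) (nat_lit 8) (nat_lit 5) (nat_lit 8) (nat_lit 4) (nat_lit 278) (nat_lit 253) (nat_lit 129))))) (XT.nd (nat_lit 32604) (nat_lit 0) (nat_lit 2508) (XT.nd (nat_lit 32448) (nat_lit 0) (nat_lit 2736) (XT.lf (nat_lit 0) (nat_lit 498481651577) (nat_lit 152) (nat_lit 691024449763) (nat_lit 76) (nat_lit 4032206833514) (nat_lit 6) (nat_lit 5) (nat_lit 8) (nat_lit 5) (nat_lit 7) (nat_lit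 4) (nat_lit 279) (nat_lit 253) (nat_lit 128)) (XT.nd (nat_lit 78) (nat_lit 0) (nat_lit 76) (XT.lf (nat_lit 0) (nat_lit 128015675015) (nat_lit 532) (nat_lit 54426593218) (nat_lit 532) (nat_lit 54426593218) (nat_lit 42) (nat_lit 3) (nat_lit 49) (nat_lit 3) (nat_lit 49) (nat_lit 5) (nat_lit 254) (nat_lit 254) (nat_lit 152)) (XT.lf (nat_lit 0) (nat_lit 283035944319) (nat_lit 456) (nat_lit 205722575537) (nat_lit 532) (nat_lit 19885351032) (nat_lit 43) (nat_lit 5) (nat_lit 49) (nat_lit 5) (nat_lit 50) (nat_lit 5) (nat_lit 255) (nat_lit 254) (nat_lit 151)))) (XT.nd (nat_lit 78) (nat_lit 304) (nat_lit 0) (XT.lf (nat_lit 76) (nat_lit 236160907109) (nat_lit 0) (nat_lit 96953174104) (nat_lit 532) (nat_lit 214150031898) (nat_lit 44) (nat_lit 5) (nat_lit 43) (nat_lit 5) (nat_lit 50) (nat_lit 5) (nat_lit 256) (nat_lit 254) (nat_lit 150)) (XT.nd (nat_lit 78) (nat_lit 380) (nat_lit 0) (XT.lf (nat_lit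 76) (nat_lit 165189800705) (nat_lit 0) (nat_lit 244136483085) (nat_lit 532) (nat_lit 180861320543) (nat_lit 45) (nat_lit 5) (nat_lit 44) (nat_lit 5) (nat_lit 51) (nat_lit 5) (nat_lit 257) (nat_lit 254) (nat_lit 149)) (XT.lf (nat_lit 0) (nat_lit 89506757917) (nat_lit 456) (nat_lit 426585440016) (nat_lit 532) (nat_lit 121927671053) (nat_lit 39) (nat_lit 5) (nat_lit 45) (nat_lit 5) (nat_lit 46) (nat_lit 5) (nat_lit 258) (nat_lit 254) (nat_lit 148)))))) (XT.nd (nat_lit 468) (nat_lit 684) (nat_lit 0) (XT.nd (nat_lit 234) (nat_lit 608) (nat_lit 0) (XT.nd (nat_lit 78) (nat_lit 304) (nat_lit 0) (XT.lf (nat_lit 0) (nat_lit 7679487880) (nat_lit 228) (nat_lit 651342584847) (nat_lit 304) (nat_lit 32392974937) (nat_lit 36) (nat_lit 5) (nat_lit 39) (nat_lit 5) (nat_lit 40) (nat_lit 5) (nat_lit 259) (nat_lit 254) (nat_lit 147)) (XT.nd (nat_lit 78) (nat_lit 228) (nat_lit 0) (XT.lf (nat_lit 0) (nat_lit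 95224034850) (nat_lit 304) (nat_lit 84935090568) (nat_lit 76) (nat_lit 570270005151) (nat_lit 35) (nat_lit 5) (nat_lit 39) (nat_lit 5) (nat_lit 36) (nat_lit 5) (nat_lit 260) (nat_lit 254) (nat_lit 146)) (XT.lf (nat_lit 0) (nat_lit 264499135884) (nat_lit 304) (nat_lit 191590086708) (nat_lit 76) (nat_lit 360184108156) (nat_lit 32) (nat_lit 5) (nat_lit 36) (nat_lit 5) (nat_lit 33) (nat_lit 5) (nat_lit 261) (nat_lit 254) (nat_lit 145)))) (XT.nd (nat_lit 78) (nat_lit 380) (nat_lit 0) (XT.lf (nat_lit 0) (nat_lit 482926870245) (nat_lit 304) (nat_lit 314666295388) (nat_lit 76) (nat_lit 92500085994) (nat_lit 29) (nat_lit 5) (nat_lit 33) (nat_lit 5) (nat_lit 30) (nat_lit 5) (nat_lit 262) (nat_lit 254) (nat_lit 144)) (XT.nd (nat_lit 78) (nat_lit 228) (nat_lit 0) (XT.lf (nat_lit 0) (nat_lit 507170222716) (nat_lit 152) (nat_lit 257483081568) (nat_lit 228) (nat_lit 207890093303) (nat_lit 27) (nat_lit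 5) (nat_lit 29) (nat_lit 5) (nat_lit 30) (nat_lit 5) (nat_lit 263) (nat_lit 254) (nat_lit 143)) (XT.lf (nat_lit 0) (nat_lit 49107848474) (nat_lit 228) (nat_lit 649787395693) (nat_lit 76) (nat_lit 366113314819) (nat_lit 24) (nat_lit 5) (nat_lit 27) (nat_lit 5) (nat_lit 25) (nat_lit 5) (nat_lit 264) (nat_lit 254) (nat_lit 142))))) (XT.nd (nat_lit 234) (nat_lit 380) (nat_lit 0) (XT.nd (nat_lit 78) (nat_lit 152) (nat_lit 0) (XT.lf (nat_lit 0) (nat_lit 286958440317) (nat_lit 152) (nat_lit 73661039685) (nat_lit 228) (nat_lit 808030162305) (nat_lit 22) (nat_lit 5) (nat_lit 24) (nat_lit 5) (nat_lit 25) (nat_lit 5) (nat_lit 265) (nat_lit 254) (nat_lit 141)) (XT.nd (nat_lit 78) (nat_lit 0) (nat_lit 0) (XT.lf (nat_lit 0) (nat_lit 106560113620) (nat_lit 152) (nat_lit 649790603757) (nat_lit 228) (nat_lit 528486741924) (nat_lit 20) (nat_lit 5) (nat_lit 22) (nat_lit 5) (nat_lit 23) (nat_lit 5) (nat_lit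 266) (nat_lit 254) (nat_lit 140)) (XT.lf (nat_lit 0) (nat_lit 1240424378204) (nat_lit 228) (nat_lit 123271536287) (nat_lit 76) (nat_lit 52438915388) (nat_lit 20) (nat_lit 5) (nat_lit 23) (nat_lit 5) (nat_lit 21) (nat_lit 4) (nat_lit 267) (nat_lit 254) (nat_lit 139)))) (XT.nd (nat_lit 78) (nat_lit 228) (nat_lit 0) (XT.lf (nat_lit 0) (nat_lit 264760516708) (nat_lit 152) (nat_lit 441756871952) (nat_lit 76) (nat_lit 856464300694) (nat_lit 18) (nat_lit 5) (nat_lit 20) (nat_lit 5) (nat_lit 19) (nat_lit 5) (nat_lit 268) (nat_lit 254) (nat_lit 138)) (XT.nd (nat_lit 78) (nat_lit 76) (nat_lit 0) (XT.lf (nat_lit 0) (nat_lit 787667506679) (nat_lit 228) (nat_lit 864757430497) (nat_lit 76) (nat_lit 76923976319) (nat_lit 16) (nat_lit 5) (nat_lit 19) (nat_lit 5) (nat_lit 17) (nat_lit 4) (nat_lit 269) (nat_lit 254) (nat_lit 137)) (XT.lf (nat_lit 0) (nat_lit 478040113400) (nat_lit 76) (nat_lit 955203147959)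 (nat_lit 152) (nat_lit 483889342638) (nat_lit 15) (nat_lit 5) (nat_lit 16) (nat_lit 5) (nat_lit 17) (nat_lit 4) (nat_lit 270) (nat_lit 254) (nat_lit 136))))))) (XT.nd (nat_lit 33306) (nat_lit 0) (nat_lit 988) (XT.nd (nat_lit 390) (nat_lit 152) (nat_lit 0) (XT.nd (nat_lit 156) (nat_lit 228) (nat_lit 0) (XT.nd (nat_lit 78) (nat_lit 152) (nat_lit 0) (XT.lf (nat_lit 0) (nat_lit 66272329489) (nat_lit 152) (nat_lit 58123168910) (nat_lit 76) (nat_lit 2006540010097) (nat_lit 14) (nat_lit 5) (nat_lit 16) (nat_lit 5) (nat_lit 15) (nat_lit 5) (nat_lit 271) (nat_lit 254) (nat_lit 135)) (XT.lf (nat_lit 0) (nat_lit 730847626542) (nat_lit 228) (nat_lit 797527596261) (nat_lit 76) (nat_lit 842584859702) (nat_lit 12) (nat_lit 5) (nat_lit 15) (nat_lit 5) (nat_lit 13) (nat_lit 4) (nat_lit 272) (nat_lit 254) (nat_lit 134))) (XT.nd (nat_lit 78) (nat_lit 152) (nat_lit 0) (XT.lf (nat_lit 0) (nat_lit 845183328165)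 (nat_lit 76) (nat_lit 675429173452) (nat_lit 152) (nat_lit 1124335578344) (nat_lit 11) (nat_lit 5) (nat_lit 12) (nat_lit 5) (nat_lit 13) (nat_lit 4) (nat_lit 273) (nat_lit 254) (nat_lit 133)) (XT.nd (nat_lit 78) (nat_lit 152) (nat_lit 0) (XT.lf (nat_lit 0) (nat_lit 2460010638568) (nat_lit 152) (nat_lit 183529414578) (nat_lit 0) (nat_lit 314000741459) (nat_lit 11) (nat_lit 5) (nat_lit 13) (nat_lit 4) (nat_lit 11) (nat_lit 4) (nat_lit 274) (nat_lit 254) (nat_lit 132)) (XT.lf (nat_lit 0) (nat_lit 274316755587) (nat_lit 152) (nat_lit 1575431056500) (nat_lit 76) (nat_lit 1461869714270) (nat_lit 9) (nat_lit 5) (nat_lit 11) (nat_lit 5) (nat_lit 10) (nat_lit 4) (nat_lit 275) (nat_lit 254) (nat_lit 131))))) (XT.nd (nat_lit 234) (nat_lit 0) (nat_lit 0) (XT.nd (nat_lit 78) (nat_lit 76) (nat_lit 0) (XT.lf (nat_lit 0) (nat_lit 234422939118) (nat_lit 76) (nat_lit 910015934350) (nat_lit 152) (nat_lit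 2572376464976) (nat_lit 8) (nat_lit 5) (nat_lit 9) (nat_lit 5) (nat_lit 10) (nat_lit 4) (nat_lit 276) (nat_lit 254) (nat_lit 130)) (XT.nd (nat_lit 78) (nat_lit 76) (nat_lit 0) (XT.lf (nat_lit 0) (nat_lit 2196242384546) (nat_lit 152) (nat_lit 1773261235025) (nat_lit 0) (nat_lit 209196156745) (nat_lit 8) (nat_lit 5) (nat_lit 10) (nat_lit 4) (nat_lit 8) (nat_lit 4) (nat_lit 277) (nat_lit 254) (nat_lit 129)) (XT.lf (nat_lit 0) (nat_lit 175868449139) (nat_lit 76) (nat_lit 3259346395719) (nat_lit 76) (nat_lit 1272300161213) (nat_lit 7) (nat_lit 4) (nat_lit 8) (nat_lit 5) (nat_lit 8) (nat_lit 4) (nat_lit 278) (nat_lit 254) (nat_lit 128)))) (XT.nd (nat_lit 32526) (nat_lit 0) (nat_lit 2660) (XT.lf (nat_lit 0) (nat_lit 2524750884549) (nat_lit 76) (nat_lit 2386908874644) (nat_lit 76) (nat_lit 399862634308) (nat_lit 7) (nat_lit 4) (nat_lit 8) (nat_lit 5) (nat_lit 8) (nat_lit 4) (nat_lit 279) (nat_lit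 254) (nat_lit 127)) (XT.nd (nat_lit 78) (nat_lit 0) (nat_lit 76) (XT.lf (nat_lit 0) (nat_lit 147218482532) (nat_lit 532) (nat_lit 62590334960) (nat_lit 532) (nat_lit 62590334960) (nat_lit 42) (nat_lit 3) (nat_lit 49) (nat_lit 3) (nat_lit 49) (nat_lit 5) (nat_lit 255) (nat_lit 255) (nat_lit 150)) (XT.lf (nat_lit 0) (nat_lit 325492131896) (nat_lit 456) (nat_lit 236580433443) (nat_lit 532) (nat_lit 22867819521) (nat_lit 43) (nat_lit 5) (nat_lit 49) (nat_lit 5) (nat_lit 50) (nat_lit 5) (nat_lit 256) (nat_lit 255) (nat_lit 149)))))) (XT.nd (nat_lit 468) (nat_lit 912) (nat_lit 0) (XT.nd (nat_lit 234) (nat_lit 532) (nat_lit 0) (XT.nd (nat_lit 78) (nat_lit 304) (nat_lit 0) (XT.lf (nat_lit 76) (nat_lit 271585526872) (nat_lit 0) (nat_lit 111496370269) (nat_lit 532) (nat_lit 246271774041) (nat_lit 44) (nat_lit 5) (nat_lit 43) (nat_lit 5) (nat_lit 50) (nat_lit 5) (nat_lit 257) (nat_lit 255) (nat_lit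 148)) (XT.nd (nat_lit 78) (nat_lit 380) (nat_lit 0) (XT.lf (nat_lit 76) (nat_lit 189968772320) (nat_lit 0) (nat_lit 280757073451) (nat_lit 532) (nat_lit 207989847402) (nat_lit 45) (nat_lit 5) (nat_lit 44) (nat_lit 5) (nat_lit 51) (nat_lit 5) (nat_lit 258) (nat_lit 255) (nat_lit 147)) (XT.lf (nat_lit 0) (nat_lit 102933280684) (nat_lit 456) (nat_lit 490573295336) (nat_lit 532) (nat_lit 140216227479) (nat_lit 39) (nat_lit 5) (nat_lit 45) (nat_lit 5) (nat_lit 46) (nat_lit 5) (nat_lit 259) (nat_lit 255) (nat_lit 146)))) (XT.nd (nat_lit 78) (nat_lit 304) (nat_lit 0) (XT.lf (nat_lit 0) (nat_lit 8831919871) (nat_lit 228) (nat_lit 749043952047) (nat_lit 304) (nat_lit 37251392127) (nat_lit 36) (nat_lit 5) (nat_lit 39) (nat_lit 5) (nat_lit 40) (nat_lit 5) (nat_lit 260) (nat_lit 255) (nat_lit 145)) (XT.nd (nat_lit 78) (nat_lit 228) (nat_lit 0) (XT.lf (nat_lit 0) (nat_lit 109508077108) (nat_lit 304)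 (nat_lit 97674887322) (nat_lit 76) (nat_lit 655810499386) (nat_lit 35) (nat_lit 5) (nat_lit 39) (nat_lit 5) (nat_lit 36) (nat_lit 5) (nat_lit 261) (nat_lit 255) (nat_lit 144)) (XT.lf (nat_lit 0) (nat_lit 304174397461) (nat_lit 304) (nat_lit 220328140869) (nat_lit 76) (nat_lit 414211759539) (nat_lit 32) (nat_lit 5) (nat_lit 36) (nat_lit 5) (nat_lit 33) (nat_lit 5) (nat_lit 262) (nat_lit 255) (nat_lit 143))))) (XT.nd (nat_lit 234) (nat_lit 304) (nat_lit 0) (XT.nd (nat_lit 78) (nat_lit 380) (nat_lit 0) (XT.lf (nat_lit 0) (nat_lit 555366252729) (nat_lit 304) (nat_lit 361865792306) (nat_lit 76) (nat_lit 106375165141) (nat_lit 29) (nat_lit 5) (nat_lit 33) (nat_lit 5) (nat_lit 30) (nat_lit 5) (nat_lit 263) (nat_lit 255) (nat_lit 142)) (XT.nd (nat_lit 78) (nat_lit 228) (nat_lit 0) (XT.lf (nat_lit 0) (nat_lit 583246165644) (nat_lit 152) (nat_lit 296105450173) (nat_lit 228) (nat_lit 239073265234)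 (nat_lit 27) (nat_lit 5) (nat_lit 29) (nat_lit 5) (nat_lit 30) (nat_lit 5) (nat_lit 264) (nat_lit 255) (nat_lit 141)) (XT.lf (nat_lit 0) (nat_lit 56474320113) (nat_lit 228) (nat_lit 747255092063) (nat_lit 76) (nat_lit 421030406382) (nat_lit 24) (nat_lit 5) (nat_lit 27) (nat_lit 5) (nat_lit 25) (nat_lit 5) (nat_lit 265) (nat_lit 255) (nat_lit 140)))) (XT.nd (nat_lit 78) (nat_lit 152) (nat_lit 0) (XT.lf (nat_lit 0) (nat_lit 330002584391) (nat_lit 152) (nat_lit 84710082674) (nat_lit 228) (nat_lit 929234399750) (nat_lit 22) (nat_lit 5) (nat_lit 24) (nat_lit 5) (nat_lit 25) (nat_lit 5) (nat_lit 266) (nat_lit 255) (nat_lit 139)) (XT.nd (nat_lit 78) (nat_lit 0) (nat_lit 0) (XT.lf (nat_lit 0) (nat_lit 122544494195) (nat_lit 152) (nat_lit 747259072385) (nat_lit 228) (nat_lit 607759491741) (nat_lit 20) (nat_lit 5) (nat_lit 22) (nat_lit 5) (nat_lit 23) (nat_lit 5) (nat_lit 267) (nat_lit 255) (nat_lit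 138)) (XT.lf (nat_lit 0) (nat_lit 1426488247567) (nat_lit 228) (nat_lit 141761935881) (nat_lit 76) (nat_lit 60304853424) (nat_lit 20) (nat_lit 5) (nat_lit 23) (nat_lit 5) (nat_lit 21) (nat_lit 4) (nat_lit 268) (nat_lit 255) (nat_lit 137))))))))
noncomputable def xc59 : XT := (XT.nd (nat_lit 34320) (nat_lit 0) (nat_lit 76) (XT.nd (nat_lit 33384) (nat_lit 0) (nat_lit 1140) (XT.nd (nat_lit 390) (nat_lit 380) (nat_lit 0) (XT.nd (nat_lit 156) (nat_lit 304) (nat_lit 0) (XT.nd (nat_lit 78) (nat_lit 152) (nat_lit 0) (XT.lf (nat_lit 0) (nat_lit 304474791783) (nat_lit 152) (nat_lit 508020089111) (nat_lit 76) (nat_lit 984934045672) (nat_lit 18) (nat_lit 5) (nat_lit 20) (nat_lit 5) (nat_lit 19) (nat_lit 5) (nat_lit 269) (nat_lit 255) (nat_lit 136)) (XT.lf (nat_lit 0) (nat_lit 905817813991) (nat_lit 228) (nat_lit 994470745961) (nat_lit 76) (nat_lit 88462675728) (nat_lit 16) (nat_lit 5) (nat_lit 19)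 (nat_lit 5) (nat_lit 17) (nat_lit 4) (nat_lit 270) (nat_lit 255) (nat_lit 135))) (XT.nd (nat_lit 78) (nat_lit 228) (nat_lit 0) (XT.lf (nat_lit 0) (nat_lit 549746404202) (nat_lit 76) (nat_lit 1098483510606) (nat_lit 152) (nat_lit 556472566358) (nat_lit 15) (nat_lit 5) (nat_lit 16) (nat_lit 5) (nat_lit 17) (nat_lit 4) (nat_lit 271) (nat_lit 255) (nat_lit 134)) (XT.nd (nat_lit 78) (nat_lit 152) (nat_lit 0) (XT.lf (nat_lit 0) (nat_lit 76213325684) (nat_lit 152) (nat_lit 66841398203) (nat_lit 76) (nat_lit 2307521098907) (nat_lit 14) (nat_lit 5) (nat_lit 16) (nat_lit 5) (nat_lit 15) (nat_lit 5) (nat_lit 272) (nat_lit 255) (nat_lit 133)) (XT.lf (nat_lit 0) (nat_lit 840474905785) (nat_lit 228) (nat_lit 917156501853) (nat_lit 76) (nat_lit 968972676219) (nat_lit 12) (nat_lit 5) (nat_lit 15) (nat_lit 5) (nat_lit 13) (nat_lit 4) (nat_lit 273) (nat_lit 255) (nat_lit 132))))) (XT.nd (nat_lit 234) (nat_lit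 152) (nat_lit 0) (XT.nd (nat_lit 78) (nat_lit 152) (nat_lit 0) (XT.lf (nat_lit 0) (nat_lit 971961041444) (nat_lit 76) (nat_lit 776743458182) (nat_lit 152) (nat_lit 1292985782331) (nat_lit 11) (nat_lit 5) (nat_lit 12) (nat_lit 5) (nat_lit 13) (nat_lit 4) (nat_lit 274) (nat_lit 255) (nat_lit 131)) (XT.nd (nat_lit 78) (nat_lit 152) (nat_lit 0) (XT.lf (nat_lit 0) (nat_lit 2829012343016) (nat_lit 152) (nat_lit 211058633846) (nat_lit 0) (nat_lit 361100928088) (nat_lit 11) (nat_lit 5) (nat_lit 13) (nat_lit 4) (nat_lit 11) (nat_lit 4) (nat_lit 275) (nat_lit 255) (nat_lit 130)) (XT.lf (nat_lit 0) (nat_lit 315464370353) (nat_lit 152) (nat_lit 1811745532920) (nat_lit 76) (nat_lit 1681150243799) (nat_lit 9) (nat_lit 5) (nat_lit 11) (nat_lit 5) (nat_lit 10) (nat_lit 4) (nat_lit 276) (nat_lit 255) (nat_lit 129)))) (XT.nd (nat_lit 78) (nat_lit 76) (nat_lit 0) (XT.lf (nat_lit 0) (nat_lit 269586546630)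 (nat_lit 76) (nat_lit 1046518250065) (nat_lit 152) (nat_lit 2958232835032) (nat_lit 8) (nat_lit 5) (nat_lit 9) (nat_lit 5) (nat_lit 10) (nat_lit 4) (nat_lit 277) (nat_lit 255) (nat_lit 128)) (XT.nd (nat_lit 78) (nat_lit 76) (nat_lit 0) (XT.lf (nat_lit 0) (nat_lit 2525678823963) (nat_lit 152) (nat_lit 2039250270419) (nat_lit 0) (nat_lit 240575641747) (nat_lit 8) (nat_lit 5) (nat_lit 10) (nat_lit 4) (nat_lit 8) (nat_lit 4) (nat_lit 278) (nat_lit 255) (nat_lit 127)) (XT.lf (nat_lit 0) (nat_lit 202248853685) (nat_lit 76) (nat_lit 3748248292276) (nat_lit 76) (nat_lit 1463145104990) (nat_lit 7) (nat_lit 4) (nat_lit 8) (nat_lit 5) (nat_lit 8) (nat_lit 4) (nat_lit 279) (nat_lit 255) (nat_lit 126)))))) (XT.nd (nat_lit 468) (nat_lit 1064) (nat_lit 0) (XT.nd (nat_lit 234) (nat_lit 456) (nat_lit 0) (XT.nd (nat_lit 78) (nat_lit 0) (nat_lit 76) (XT.lf (nat_lit 0) (nat_lit 169301599913) (nat_lit 532)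 (nat_lit 71978698254) (nat_lit 532) (nat_lit 71978698254) (nat_lit 42) (nat_lit 3) (nat_lit 49) (nat_lit 3) (nat_lit 49) (nat_lit 5) (nat_lit 256) (nat_lit 256) (nat_lit 148)) (XT.nd (nat_lit 78) (nat_lit 0) (nat_lit 0) (XT.lf (nat_lit 0) (nat_lit 374316553518) (nat_lit 456) (nat_lit 272067098895) (nat_lit 532) (nat_lit 26297739772) (nat_lit 43) (nat_lit 5) (nat_lit 49) (nat_lit 5) (nat_lit 50) (nat_lit 5) (nat_lit 257) (nat_lit 256) (nat_lit 147)) (XT.lf (nat_lit 76) (nat_lit 312323721646) (nat_lit 0) (nat_lit 128220992199) (nat_lit 532) (nat_lit 283211963481) (nat_lit 44) (nat_lit 5) (nat_lit 43) (nat_lit 5) (nat_lit 50) (nat_lit 5) (nat_lit 258) (nat_lit 256) (nat_lit 146)))) (XT.nd (nat_lit 78) (nat_lit 608) (nat_lit 0) (XT.lf (nat_lit 76) (nat_lit 218464467380) (nat_lit 0) (nat_lit 322870723621) (nat_lit 532) (nat_lit 239187816972) (nat_lit 45) (nat_lit 5) (nat_lit 44) (nat_lit 5)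 (nat_lit 51) (nat_lit 5) (nat_lit 259) (nat_lit 256) (nat_lit 145)) (XT.nd (nat_lit 78) (nat_lit 228) (nat_lit 0) (XT.lf (nat_lit 0) (nat_lit 118373657723) (nat_lit 456) (nat_lit 564159319367) (nat_lit 532) (nat_lit 161248212276) (nat_lit 39) (nat_lit 5) (nat_lit 45) (nat_lit 5) (nat_lit 46) (nat_lit 5) (nat_lit 260) (nat_lit 256) (nat_lit 144)) (XT.lf (nat_lit 0) (nat_lit 10157092584) (nat_lit 228) (nat_lit 861400529332) (nat_lit 304) (nat_lit 42838700907) (nat_lit 36) (nat_lit 5) (nat_lit 39) (nat_lit 5) (nat_lit 40) (nat_lit 5) (nat_lit 261) (nat_lit 256) (nat_lit 143))))) (XT.nd (nat_lit 234) (nat_lit 532) (nat_lit 0) (XT.nd (nat_lit 78) (nat_lit 456) (nat_lit 0) (XT.lf (nat_lit 0) (nat_lit 125934619133) (nat_lit 304) (nat_lit 112325767430) (nat_lit 76) (nat_lit 754182069350) (nat_lit 35) (nat_lit 5) (nat_lit 39) (nat_lit 5) (nat_lit 36) (nat_lit 5) (nat_lit 262) (nat_lit 256) (nat_lit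 142)) (XT.nd (nat_lit 78) (nat_lit 228) (nat_lit 0) (XT.lf (nat_lit 0) (nat_lit 349800852879) (nat_lit 304) (nat_lit 253377015046) (nat_lit 76) (nat_lit 476343550056) (nat_lit 32) (nat_lit 5) (nat_lit 36) (nat_lit 5) (nat_lit 33) (nat_lit 5) (nat_lit 263) (nat_lit 256) (nat_lit 141)) (XT.lf (nat_lit 0) (nat_lit 638671456761) (nat_lit 304) (nat_lit 416145322861) (nat_lit 76) (nat_lit 122331490005) (nat_lit 29) (nat_lit 5) (nat_lit 33) (nat_lit 5) (nat_lit 30) (nat_lit 5) (nat_lit 264) (nat_lit 256) (nat_lit 140)))) (XT.nd (nat_lit 78) (nat_lit 380) (nat_lit 0) (XT.lf (nat_lit 0) (nat_lit 670733400148) (nat_lit 152) (nat_lit 340521196901) (nat_lit 228) (nat_lit 274933996369) (nat_lit 27) (nat_lit 5) (nat_lit 29) (nat_lit 5) (nat_lit 30) (nat_lit 5) (nat_lit 265) (nat_lit 256) (nat_lit 139)) (XT.nd (nat_lit 78) (nat_lit 152) (nat_lit 0) (XT.lf (nat_lit 0) (nat_lit 64945690714) (nat_lit 228)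 (nat_lit 859343043598) (nat_lit 76) (nat_lit 484185038673) (nat_lit 24) (nat_lit 5) (nat_lit 27) (nat_lit 5) (nat_lit 25) (nat_lit 5) (nat_lit 266) (nat_lit 256) (nat_lit 138)) (XT.lf (nat_lit 0) (nat_lit 379503257892) (nat_lit 152) (nat_lit 97416509658) (nat_lit 228) (nat_lit 1068619342774) (nat_lit 22) (nat_lit 5) (nat_lit 24) (nat_lit 5) (nat_lit 25) (nat_lit 5) (nat_lit 267) (nat_lit 256) (nat_lit 137))))))) (XT.nd (nat_lit 858) (nat_lit 0) (nat_lit 0) (XT.nd (nat_lit 390) (nat_lit 532) (nat_lit 0) (XT.nd (nat_lit 156) (nat_lit 380) (nat_lit 0) (XT.nd (nat_lit 78) (nat_lit 0) (nat_lit 0) (XT.lf (nat_lit 0) (nat_lit 140926443206) (nat_lit 152) (nat_lit 859347841041) (nat_lit 228) (nat_lit 698923217791) (nat_lit 20) (nat_lit 5) (nat_lit 22) (nat_lit 5) (nat_lit 23) (nat_lit 5) (nat_lit 268) (nat_lit 256) (nat_lit 136)) (XT.lf (nat_lit 0) (nat_lit 1640461645483) (nat_lit 228) (nat_lit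 163025976094) (nat_lit 76) (nat_lit 69350657602) (nat_lit 20) (nat_lit 5) (nat_lit 23) (nat_lit 5) (nat_lit 21) (nat_lit 4) (nat_lit 269) (nat_lit 256) (nat_lit 135))) (XT.nd (nat_lit 78) (nat_lit 228) (nat_lit 0) (XT.lf (nat_lit 0) (nat_lit 350146159941) (nat_lit 152) (nat_lit 584222865326) (nat_lit 76) (nat_lit 1132674228042) (nat_lit 18) (nat_lit 5) (nat_lit 20) (nat_lit 5) (nat_lit 19) (nat_lit 5) (nat_lit 270) (nat_lit 256) (nat_lit 134)) (XT.nd (nat_lit 78) (nat_lit 76) (nat_lit 0) (XT.lf (nat_lit 0) (nat_lit 1041690623185) (nat_lit 228) (nat_lit 1143641131685) (nat_lit 76) (nat_lit 101732154941) (nat_lit 16) (nat_lit 5) (nat_lit 19) (nat_lit 5) (nat_lit 17) (nat_lit 4) (nat_lit 271) (nat_lit 256) (nat_lit 133)) (XT.lf (nat_lit 0) (nat_lit 632208571858) (nat_lit 76) (nat_lit 1263255954363) (nat_lit 152) (nat_lit 639943316963) (nat_lit 15) (nat_lit 5) (nat_lit 16) (nat_lit 5) (nat_lit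 17) (nat_lit 4) (nat_lit 272) (nat_lit 256) (nat_lit 132))))) (XT.nd (nat_lit 234) (nat_lit 228) (nat_lit 0) (XT.nd (nat_lit 78) (nat_lit 228) (nat_lit 0) (XT.lf (nat_lit 0) (nat_lit 87645435518) (nat_lit 152) (nat_lit 76867421889) (nat_lit 76) (nat_lit 2653649329750) (nat_lit 14) (nat_lit 5) (nat_lit 16) (nat_lit 5) (nat_lit 15) (nat_lit 5) (nat_lit 273) (nat_lit 256) (nat_lit 131)) (XT.nd (nat_lit 78) (nat_lit 76) (nat_lit 0) (XT.lf (nat_lit 0) (nat_lit 966546243930) (nat_lit 228) (nat_lit 1054729800308) (nat_lit 76) (nat_lit 1114318643861) (nat_lit 12) (nat_lit 5) (nat_lit 15) (nat_lit 5) (nat_lit 13) (nat_lit 4) (nat_lit 274) (nat_lit 256) (nat_lit 130)) (XT.lf (nat_lit 0) (nat_lit 1117755359516) (nat_lit 76) (nat_lit 893254907884) (nat_lit 152) (nat_lit 1486933549291) (nat_lit 11) (nat_lit 5) (nat_lit 12) (nat_lit 5) (nat_lit 13) (nat_lit 4) (nat_lit 275) (nat_lit 256) (nat_lit 129))))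 (XT.nd (nat_lit 78) (nat_lit 228) (nat_lit 0) (XT.lf (nat_lit 0) (nat_lit 3253364276633) (nat_lit 152) (nat_lit 242717283048) (nat_lit 0) (nat_lit 415266124321) (nat_lit 11) (nat_lit 5) (nat_lit 13) (nat_lit 4) (nat_lit 11) (nat_lit 4) (nat_lit 276) (nat_lit 256) (nat_lit 128)) (XT.nd (nat_lit 78) (nat_lit 76) (nat_lit 0) (XT.lf (nat_lit 0) (nat_lit 362784102600) (nat_lit 152) (nat_lit 2083507225199) (nat_lit 76) (nat_lit 1933322835104) (nat_lit 9) (nat_lit 5) (nat_lit 11) (nat_lit 5) (nat_lit 10) (nat_lit 4) (nat_lit 277) (nat_lit 256) (nat_lit 127)) (XT.lf (nat_lit 0) (nat_lit 310024654632) (nat_lit 76) (nat_lit 1203495931288) (nat_lit 152) (nat_lit 3401967684906) (nat_lit 8) (nat_lit 5) (nat_lit 9) (nat_lit 5) (nat_lit 10) (nat_lit 4) (nat_lit 278) (nat_lit 256) (nat_lit 126)))))) (XT.nd (nat_lit 33072) (nat_lit 0) (nat_lit 1216) (XT.nd (nat_lit 32838) (nat_lit 0) (nat_lit 2356) (XT.nd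 (nat_lit 32682) (nat_lit 0) (nat_lit 2584) (XT.lf (nat_lit 0) (nat_lit 2904530709362) (nat_lit 152) (nat_lit 2345137697667) (nat_lit 0) (nat_lit 276662034506) (nat_lit 8) (nat_lit 5) (nat_lit 10) (nat_lit 4) (nat_lit 8) (nat_lit 4) (nat_lit 279) (nat_lit 256) (nat_lit 125)) (XT.nd (nat_lit 78) (nat_lit 0) (nat_lit 76) (XT.lf (nat_lit 0) (nat_lit 194697100771) (nat_lit 532) (nat_lit 82775361631) (nat_lit 532) (nat_lit 82775361631) (nat_lit 42) (nat_lit 3) (nat_lit 49) (nat_lit 3) (nat_lit 49) (nat_lit 5) (nat_lit 257) (nat_lit 257) (nat_lit 146)) (XT.lf (nat_lit 0) (nat_lit 430464491621) (nat_lit 456) (nat_lit 312876861601) (nat_lit 532) (nat_lit 30242209678) (nat_lit 43) (nat_lit 5) (nat_lit 49) (nat_lit 5) (nat_lit 50) (nat_lit 5) (nat_lit 258) (nat_lit 257) (nat_lit 145)))) (XT.nd (nat_lit 78) (nat_lit 304) (nat_lit 0) (XT.lf (nat_lit 76) (nat_lit 359172556447) (nat_lit 0) (nat_lit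 147454266843) (nat_lit 532) (nat_lit 325693321960) (nat_lit 44) (nat_lit 5) (nat_lit 43) (nat_lit 5) (nat_lit 50) (nat_lit 5) (nat_lit 259) (nat_lit 257) (nat_lit 144)) (XT.nd (nat_lit 78) (nat_lit 380) (nat_lit 0) (XT.lf (nat_lit 76) (nat_lit 251234424226) (nat_lit 0) (nat_lit 371301399576) (nat_lit 532) (nat_lit 275065605744) (nat_lit 45) (nat_lit 5) (nat_lit 44) (nat_lit 5) (nat_lit 51) (nat_lit 5) (nat_lit 260) (nat_lit 257) (nat_lit 143)) (XT.lf (nat_lit 0) (nat_lit 136129997450) (nat_lit 456) (nat_lit 648783239752) (nat_lit 532) (nat_lit 185435104364) (nat_lit 39) (nat_lit 5) (nat_lit 45) (nat_lit 5) (nat_lit 46) (nat_lit 5) (nat_lit 261) (nat_lit 257) (nat_lit 142))))) (XT.nd (nat_lit 234) (nat_lit 608) (nat_lit 0) (XT.nd (nat_lit 78) (nat_lit 304) (nat_lit 0) (XT.lf (nat_lit 0) (nat_lit 11680947385) (nat_lit 228) (nat_lit 990610596995) (nat_lit 304) (nat_lit 49264203556) (nat_lit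 36) (nat_lit 5) (nat_lit 39) (nat_lit 5) (nat_lit 40) (nat_lit 5) (nat_lit 262) (nat_lit 257) (nat_lit 141)) (XT.nd (nat_lit 78) (nat_lit 228) (nat_lit 0) (XT.lf (nat_lit 0) (nat_lit 144825061877) (nat_lit 304) (nat_lit 129174365633) (nat_lit 76) (nat_lit 867309376015) (nat_lit 35) (nat_lit 5) (nat_lit 39) (nat_lit 5) (nat_lit 36) (nat_lit 5) (nat_lit 263) (nat_lit 257) (nat_lit 140)) (XT.lf (nat_lit 0) (nat_lit 402271204477) (nat_lit 304) (nat_lit 291383304957) (nat_lit 76) (nat_lit 547795102668) (nat_lit 32) (nat_lit 5) (nat_lit 36) (nat_lit 5) (nat_lit 33) (nat_lit 5) (nat_lit 264) (nat_lit 257) (nat_lit 139)))) (XT.nd (nat_lit 78) (nat_lit 380) (nat_lit 0) (XT.lf (nat_lit 0) (nat_lit 734472376502) (nat_lit 304) (nat_lit 478566865493) (nat_lit 76) (nat_lit 140681251383) (nat_lit 29) (nat_lit 5) (nat_lit 33) (nat_lit 5) (nat_lit 30) (nat_lit 5) (nat_lit 265) (nat_lit 257) (nat_lit 138))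 (XT.nd (nat_lit 78) (nat_lit 228) (nat_lit 0) (XT.lf (nat_lit 0) (nat_lit 771343644315) (nat_lit 152) (nat_lit 391599322902) (nat_lit 228) (nat_lit 316173900247) (nat_lit 27) (nat_lit 5) (nat_lit 29) (nat_lit 5) (nat_lit 30) (nat_lit 5) (nat_lit 266) (nat_lit 257) (nat_lit 137)) (XT.lf (nat_lit 0) (nat_lit 74687712626) (nat_lit 228) (nat_lit 988244264013) (nat_lit 76) (nat_lit 556812848413) (nat_lit 24) (nat_lit 5) (nat_lit 27) (nat_lit 5) (nat_lit 25) (nat_lit 5) (nat_lit 267) (nat_lit 257) (nat_lit 136))))))))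
noncomputable def xc60 : XT := (XT.nd (nat_lit 34476) (nat_lit 0) (nat_lit 228) (XT.nd (nat_lit 858) (nat_lit 76) (nat_lit 0) (XT.nd (nat_lit 390) (nat_lit 532) (nat_lit 0) (XT.nd (nat_lit 156) (nat_lit 304) (nat_lit 0) (XT.nd (nat_lit 78) (nat_lit 152) (nat_lit 0) (XT.lf (nat_lit 0) (nat_lit 436428962714) (nat_lit 152) (nat_lit 112028921519) (nat_lit 228) (nat_lit 1228912080154) (nat_lit 22) (nat_lit 5) (nat_lit 24) (nat_lit 5) (nat_lit 25) (nat_lit 5) (nat_lit 268) (nat_lit 257) (nat_lit 135)) (XT.lf (nat_lit 0) (nat_lit 162065617537) (nat_lit 152) (nat_lit 988249947480) (nat_lit 228) (nat_lit 803761550962) (nat_lit 20) (nat_lit 5) (nat_lit 22) (nat_lit 5) (nat_lit 23) (nat_lit 5) (nat_lit 269) (nat_lit 257) (nat_lit 134))) (XT.nd (nat_lit 78) (nat_lit 304) (nat_lit 0) (XT.lf (nat_lit 0) (nat_lit 1886531013879) (nat_lit 228) (nat_lit 187479683344) (nat_lit 76) (nat_lit 79753313834)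 (nat_lit 20) (nat_lit 5) (nat_lit 23) (nat_lit 5) (nat_lit 21) (nat_lit 4) (nat_lit 270) (nat_lit 257) (nat_lit 133)) (XT.nd (nat_lit 78) (nat_lit 152) (nat_lit 0) (XT.lf (nat_lit 0) (nat_lit 402668196892) (nat_lit 152) (nat_lit 671856115805) (nat_lit 76) (nat_lit 1302575419352) (nat_lit 18) (nat_lit 5) (nat_lit 20) (nat_lit 5) (nat_lit 19) (nat_lit 5) (nat_lit 271) (nat_lit 257) (nat_lit 132)) (XT.lf (nat_lit 0) (nat_lit 1197944320327) (nat_lit 228) (nat_lit 1315187130421) (nat_lit 76) (nat_lit 116992037050) (nat_lit 16) (nat_lit 5) (nat_lit 19) (nat_lit 5) (nat_lit 17) (nat_lit 4) (nat_lit 272) (nat_lit 257) (nat_lit 131))))) (XT.nd (nat_lit 234) (nat_lit 228) (nat_lit 0) (XT.nd (nat_lit 78) (nat_lit 228) (nat_lit 0) (XT.lf (nat_lit 0) (nat_lit 727040014178) (nat_lit 76) (nat_lit 1452744284884) (nat_lit 152) (nat_lit 735934712921) (nat_lit 15) (nat_lit 5) (nat_lit 16) (nat_lit 5) (nat_lit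 17) (nat_lit 4) (nat_lit 273) (nat_lit 257) (nat_lit 130)) (XT.nd (nat_lit 78) (nat_lit 152) (nat_lit 0) (XT.lf (nat_lit 0) (nat_lit 100792334763) (nat_lit 152) (nat_lit 88397394497) (nat_lit 76) (nat_lit 3051696779124) (nat_lit 14) (nat_lit 5) (nat_lit 16) (nat_lit 5) (nat_lit 15) (nat_lit 5) (nat_lit 274) (nat_lit 257) (nat_lit 129)) (XT.lf (nat_lit 0) (nat_lit 1111528257855) (nat_lit 228) (nat_lit 1212939136652) (nat_lit 76) (nat_lit 1281466490504) (nat_lit 12) (nat_lit 5) (nat_lit 15) (nat_lit 5) (nat_lit 13) (nat_lit 4) (nat_lit 275) (nat_lit 257) (nat_lit 128)))) (XT.nd (nat_lit 78) (nat_lit 152) (nat_lit 0) (XT.lf (nat_lit 0) (nat_lit 1285418785830) (nat_lit 76) (nat_lit 1027243091872) (nat_lit 152) (nat_lit 1709973505776) (nat_lit 11) (nat_lit 5) (nat_lit 12) (nat_lit 5) (nat_lit 13) (nat_lit 4) (nat_lit 276) (nat_lit 257) (nat_lit 127)) (XT.nd (nat_lit 78) (nat_lit 152) (nat_lit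 0) (XT.lf (nat_lit 0) (nat_lit 3741368980257) (nat_lit 152) (nat_lit 279124765203) (nat_lit 0) (nat_lit 477556086085) (nat_lit 11) (nat_lit 5) (nat_lit 13) (nat_lit 4) (nat_lit 11) (nat_lit 4) (nat_lit 277) (nat_lit 257) (nat_lit 126)) (XT.lf (nat_lit 0) (nat_lit 417201775982) (nat_lit 152) (nat_lit 2396033204889) (nat_lit 76) (nat_lit 2223321301758) (nat_lit 9) (nat_lit 5) (nat_lit 11) (nat_lit 5) (nat_lit 10) (nat_lit 4) (nat_lit 278) (nat_lit 257) (nat_lit 125)))))) (XT.nd (nat_lit 33150) (nat_lit 0) (nat_lit 1216) (XT.nd (nat_lit 32916) (nat_lit 0) (nat_lit 2356) (XT.nd (nat_lit 32760) (nat_lit 0) (nat_lit 2584) (XT.lf (nat_lit 0) (nat_lit 356528448107) (nat_lit 76) (nat_lit 1384020278421) (nat_lit 152) (nat_lit 3912262780643) (nat_lit 8) (nat_lit 5) (nat_lit 9) (nat_lit 5) (nat_lit 10) (nat_lit 4) (nat_lit 279) (nat_lit 257) (nat_lit 124)) (XT.nd (nat_lit 78) (nat_lit 0) (nat_lit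 76) (XT.lf (nat_lit 0) (nat_lit 223901863143) (nat_lit 532) (nat_lit 95191558986) (nat_lit 532) (nat_lit 95191558986) (nat_lit 42) (nat_lit 3) (nat_lit 49) (nat_lit 3) (nat_lit 49) (nat_lit 5) (nat_lit 258) (nat_lit 258) (nat_lit 144)) (XT.lf (nat_lit 0) (nat_lit 495034509467) (nat_lit 456) (nat_lit 359808162389) (nat_lit 532) (nat_lit 34778396661) (nat_lit 43) (nat_lit 5) (nat_lit 49) (nat_lit 5) (nat_lit 50) (nat_lit 5) (nat_lit 259) (nat_lit 258) (nat_lit 143)))) (XT.nd (nat_lit 78) (nat_lit 304) (nat_lit 0) (XT.lf (nat_lit 76) (nat_lit 413048649030) (nat_lit 0) (nat_lit 169572502003) (nat_lit 532) (nat_lit 374546990544) (nat_lit 44) (nat_lit 5) (nat_lit 43) (nat_lit 5) (nat_lit 50) (nat_lit 5) (nat_lit 260) (nat_lit 258) (nat_lit 142)) (XT.nd (nat_lit 78) (nat_lit 380) (nat_lit 0) (XT.lf (nat_lit 76) (nat_lit 288919804676) (nat_lit 0) (nat_lit 426996660486) (nat_lit 532) (nat_lit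 316325156417) (nat_lit 45) (nat_lit 5) (nat_lit 44) (nat_lit 5) (nat_lit 51) (nat_lit 5) (nat_lit 261) (nat_lit 258) (nat_lit 141)) (XT.lf (nat_lit 0) (nat_lit 156549717156) (nat_lit 456) (nat_lit 746100742713) (nat_lit 532) (nat_lit 213250113116) (nat_lit 39) (nat_lit 5) (nat_lit 45) (nat_lit 5) (nat_lit 46) (nat_lit 5) (nat_lit 262) (nat_lit 258) (nat_lit 140))))) (XT.nd (nat_lit 234) (nat_lit 608) (nat_lit 0) (XT.nd (nat_lit 78) (nat_lit 304) (nat_lit 0) (XT.lf (nat_lit 0) (nat_lit 13433309465) (nat_lit 228) (nat_lit 1139202177670) (nat_lit 304) (nat_lit 56653605367) (nat_lit 36) (nat_lit 5) (nat_lit 39) (nat_lit 5) (nat_lit 40) (nat_lit 5) (nat_lit 263) (nat_lit 258) (nat_lit 139)) (XT.nd (nat_lit 78) (nat_lit 228) (nat_lit 0) (XT.lf (nat_lit 0) (nat_lit 166549010099) (nat_lit 304) (nat_lit 148550318654) (nat_lit 76) (nat_lit 997405779591) (nat_lit 35) (nat_lit 5) (nat_lit 39) (nat_lit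 5) (nat_lit 36) (nat_lit 5) (nat_lit 264) (nat_lit 258) (nat_lit 138)) (XT.lf (nat_lit 0) (nat_lit 462612054273) (nat_lit 304) (nat_lit 335090602329) (nat_lit 76) (nat_lit 629964383269) (nat_lit 32) (nat_lit 5) (nat_lit 36) (nat_lit 5) (nat_lit 33) (nat_lit 5) (nat_lit 265) (nat_lit 258) (nat_lit 137)))) (XT.nd (nat_lit 78) (nat_lit 380) (nat_lit 0) (XT.lf (nat_lit 0) (nat_lit 844643385134) (nat_lit 304) (nat_lit 550351701899) (nat_lit 76) (nat_lit 161783467731) (nat_lit 29) (nat_lit 5) (nat_lit 33) (nat_lit 5) (nat_lit 30) (nat_lit 5) (nat_lit 266) (nat_lit 258) (nat_lit 136)) (XT.nd (nat_lit 78) (nat_lit 228) (nat_lit 0) (XT.lf (nat_lit 0) (nat_lit 887045368009) (nat_lit 152) (nat_lit 450339180859) (nat_lit 228) (nat_lit 363599837400) (nat_lit 27) (nat_lit 5) (nat_lit 29) (nat_lit 5) (nat_lit 30) (nat_lit 5) (nat_lit 267) (nat_lit 258) (nat_lit 135)) (XT.lf (nat_lit 0) (nat_lit 85890996783)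 (nat_lit 228) (nat_lit 1136480725071) (nat_lit 76) (nat_lit 640334816460) (nat_lit 24) (nat_lit 5) (nat_lit 27) (nat_lit 5) (nat_lit 25) (nat_lit 5) (nat_lit 268) (nat_lit 258) (nat_lit 134))))))) (XT.nd (nat_lit 33696) (nat_lit 0) (nat_lit 684) (XT.nd (nat_lit 390) (nat_lit 380) (nat_lit 0) (XT.nd (nat_lit 156) (nat_lit 304) (nat_lit 0) (XT.nd (nat_lit 78) (nat_lit 152) (nat_lit 0) (XT.lf (nat_lit 0) (nat_lit 501893470553) (nat_lit 152) (nat_lit 128833210910) (nat_lit 228) (nat_lit 1413248768142) (nat_lit 22) (nat_lit 5) (nat_lit 24) (nat_lit 5) (nat_lit 25) (nat_lit 5) (nat_lit 269) (nat_lit 258) (nat_lit 133)) (XT.lf (nat_lit 0) (nat_lit 186375617332) (nat_lit 152) (nat_lit 1136487386886) (nat_lit 228) (nat_lit 924325670564) (nat_lit 20) (nat_lit 5) (nat_lit 22) (nat_lit 5) (nat_lit 23) (nat_lit 5) (nat_lit 270) (nat_lit 258) (nat_lit 132))) (XT.nd (nat_lit 78) (nat_lit 304) (nat_lit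 0) (XT.lf (nat_lit 0) (nat_lit 2169510757888) (nat_lit 228) (nat_lit 215601492810) (nat_lit 76) (nat_lit 91716354456) (nat_lit 20) (nat_lit 5) (nat_lit 23) (nat_lit 5) (nat_lit 21) (nat_lit 4) (nat_lit 271) (nat_lit 258) (nat_lit 131)) (XT.nd (nat_lit 78) (nat_lit 152) (nat_lit 0) (XT.lf (nat_lit 0) (nat_lit 463068511840) (nat_lit 152) (nat_lit 772634397583) (nat_lit 76) (nat_lit 1497961775433) (nat_lit 18) (nat_lit 5) (nat_lit 20) (nat_lit 5) (nat_lit 19) (nat_lit 5) (nat_lit 272) (nat_lit 258) (nat_lit 130)) (XT.lf (nat_lit 0) (nat_lit 1377636046762) (nat_lit 228) (nat_lit 1512465070670) (nat_lit 76) (nat_lit 134540887121) (nat_lit 16) (nat_lit 5) (nat_lit 19) (nat_lit 5) (nat_lit 17) (nat_lit 4) (nat_lit 273) (nat_lit 258) (nat_lit 129))))) (XT.nd (nat_lit 234) (nat_lit 76) (nat_lit 0) (XT.nd (nat_lit 78) (nat_lit 228) (nat_lit 0) (XT.lf (nat_lit 0) (nat_lit 836096134673) (nat_lit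 76) (nat_lit 1670655880256) (nat_lit 152) (nat_lit 846324843045) (nat_lit 15) (nat_lit 5) (nat_lit 16) (nat_lit 5) (nat_lit 17) (nat_lit 4) (nat_lit 274) (nat_lit 258) (nat_lit 128)) (XT.nd (nat_lit 78) (nat_lit 152) (nat_lit 0) (XT.lf (nat_lit 0) (nat_lit 115911248431) (nat_lit 152) (nat_lit 101656897300) (nat_lit 76) (nat_lit 3509451333733) (nat_lit 14) (nat_lit 5) (nat_lit 16) (nat_lit 5) (nat_lit 15) (nat_lit 5) (nat_lit 275) (nat_lit 258) (nat_lit 127)) (XT.lf (nat_lit 0) (nat_lit 1278257555011) (nat_lit 228) (nat_lit 1394879906050) (nat_lit 76) (nat_lit 1473686501935) (nat_lit 12) (nat_lit 5) (nat_lit 15) (nat_lit 5) (nat_lit 13) (nat_lit 4) (nat_lit 276) (nat_lit 258) (nat_lit 126)))) (XT.nd (nat_lit 78) (nat_lit 0) (nat_lit 0) (XT.lf (nat_lit 0) (nat_lit 1478231696245) (nat_lit 76) (nat_lit 1181329516187) (nat_lit 152) (nat_lit 1966469474244) (nat_lit 11) (nat_lit 5) (nat_lit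 12) (nat_lit 5) (nat_lit 13) (nat_lit 4) (nat_lit 277) (nat_lit 258) (nat_lit 125)) (XT.nd (nat_lit 32916) (nat_lit 0) (nat_lit 2356) (XT.lf (nat_lit 0) (nat_lit 4302574374273) (nat_lit 152) (nat_lit 320993396579) (nat_lit 0) (nat_lit 549189531599) (nat_lit 11) (nat_lit 5) (nat_lit 13) (nat_lit 4) (nat_lit 11) (nat_lit 4) (nat_lit 278) (nat_lit 258) (nat_lit 124)) (XT.lf (nat_lit 0) (nat_lit 257487291768) (nat_lit 532) (nat_lit 109470212010) (nat_lit 532) (nat_lit 109470212010) (nat_lit 42) (nat_lit 3) (nat_lit 49) (nat_lit 3) (nat_lit 49) (nat_lit 5) (nat_lit 259) (nat_lit 259) (nat_lit 142)))))) (XT.nd (nat_lit 468) (nat_lit 1140) (nat_lit 0) (XT.nd (nat_lit 234) (nat_lit 608) (nat_lit 0) (XT.nd (nat_lit 78) (nat_lit 0) (nat_lit 0) (XT.lf (nat_lit 0) (nat_lit 569289946077) (nat_lit 456) (nat_lit 413779214005) (nat_lit 532) (nat_lit 39995046921) (nat_lit 43) (nat_lit 5) (nat_lit 49)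 (nat_lit 5) (nat_lit 50) (nat_lit 5) (nat_lit 260) (nat_lit 259) (nat_lit 141)) (XT.nd (nat_lit 78) (nat_lit 0) (nat_lit 76) (XT.lf (nat_lit 76) (nat_lit 475006104505) (nat_lit 0) (nat_lit 195008449238) (nat_lit 532) (nat_lit 430728789816) (nat_lit 44) (nat_lit 5) (nat_lit 43) (nat_lit 5) (nat_lit 50) (nat_lit 5) (nat_lit 261) (nat_lit 259) (nat_lit 140)) (XT.lf (nat_lit 76) (nat_lit 332257939322) (nat_lit 0) (nat_lit 491046198102) (nat_lit 532) (nat_lit 363773710456) (nat_lit 45) (nat_lit 5) (nat_lit 44) (nat_lit 5) (nat_lit 51) (nat_lit 5) (nat_lit 262) (nat_lit 259) (nat_lit 139)))) (XT.nd (nat_lit 78) (nat_lit 304) (nat_lit 0) (XT.lf (nat_lit 0) (nat_lit 180032341148) (nat_lit 456) (nat_lit 858015866973) (nat_lit 532) (nat_lit 245237435828) (nat_lit 39) (nat_lit 5) (nat_lit 45) (nat_lit 5) (nat_lit 46) (nat_lit 5) (nat_lit 263) (nat_lit 259) (nat_lit 138)) (XT.nd (nat_lit 78) (nat_lit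 76) (nat_lit 0) (XT.lf (nat_lit 0) (nat_lit 15448472215) (nat_lit 228) (nat_lit 1310082497610) (nat_lit 304) (nat_lit 65151473224) (nat_lit 36) (nat_lit 5) (nat_lit 39) (nat_lit 5) (nat_lit 40) (nat_lit 5) (nat_lit 264) (nat_lit 259) (nat_lit 137)) (XT.lf (nat_lit 0) (nat_lit 191531504480) (nat_lit 304) (nat_lit 170832713844) (nat_lit 76) (nat_lit 1147016644392) (nat_lit 35) (nat_lit 5) (nat_lit 39) (nat_lit 5) (nat_lit 36) (nat_lit 5) (nat_lit 265) (nat_lit 259) (nat_lit 136))))) (XT.nd (nat_lit 234) (nat_lit 532) (nat_lit 0) (XT.nd (nat_lit 78) (nat_lit 380) (nat_lit 0) (XT.lf (nat_lit 0) (nat_lit 532003990296) (nat_lit 304) (nat_lit 385354042682) (nat_lit 76) (nat_lit 724459052253) (nat_lit 32) (nat_lit 5) (nat_lit 36) (nat_lit 5) (nat_lit 33) (nat_lit 5) (nat_lit 266) (nat_lit 259) (nat_lit 135)) (XT.nd (nat_lit 78) (nat_lit 152) (nat_lit 0) (XT.lf (nat_lit 0) (nat_lit 971340007957)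 (nat_lit 304) (nat_lit 632904310931) (nat_lit 76) (nat_lit 186051009547) (nat_lit 29) (nat_lit 5) (nat_lit 33) (nat_lit 5) (nat_lit 30) (nat_lit 5) (nat_lit 267) (nat_lit 259) (nat_lit 134)) (XT.lf (nat_lit 0) (nat_lit 1020102307083) (nat_lit 152) (nat_lit 517890027379) (nat_lit 228) (nat_lit 418139701189) (nat_lit 27) (nat_lit 5) (nat_lit 29) (nat_lit 5) (nat_lit 30) (nat_lit 5) (nat_lit 268) (nat_lit 259) (nat_lit 133)))) (XT.nd (nat_lit 78) (nat_lit 304) (nat_lit 0) (XT.lf (nat_lit 0) (nat_lit 98774742530) (nat_lit 228) (nat_lit 1306952698826) (nat_lit 76) (nat_lit 736385069769) (nat_lit 24) (nat_lit 5) (nat_lit 27) (nat_lit 5) (nat_lit 25) (nat_lit 5) (nat_lit 269) (nat_lit 259) (nat_lit 132)) (XT.nd (nat_lit 78) (nat_lit 152) (nat_lit 0) (XT.lf (nat_lit 0) (nat_lit 577177614713) (nat_lit 152) (nat_lit 148158155619) (nat_lit 228) (nat_lit 1625235989575) (nat_lit 22) (nat_lit 5) (nat_lit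 24) (nat_lit 5) (nat_lit 25) (nat_lit 5) (nat_lit 270) (nat_lit 259) (nat_lit 131)) (XT.lf (nat_lit 0) (nat_lit 214332078770) (nat_lit 152) (nat_lit 1306960455058) (nat_lit 228) (nat_lit 1062974435673) (nat_lit 20) (nat_lit 5) (nat_lit 22) (nat_lit 5) (nat_lit 23) (nat_lit 5) (nat_lit 271) (nat_lit 259) (nat_lit 130))))))))
noncomputable def xc61 : XT := (XT.nd (nat_lit 34710) (nat_lit 0) (nat_lit 76) (XT.nd (nat_lit 33774) (nat_lit 0) (nat_lit 380) (XT.nd (nat_lit 390) (nat_lit 228) (nat_lit 0) (XT.nd (nat_lit 156) (nat_lit 304) (nat_lit 0) (XT.nd (nat_lit 78) (nat_lit 152) (nat_lit 0) (XT.lf (nat_lit 0) (nat_lit 2494937441081) (nat_lit 228) (nat_lit 247941608577) (nat_lit 76) (nat_lit 105473840553) (nat_lit 20) (nat_lit 5) (nat_lit 23) (nat_lit 5) (nat_lit 21) (nat_lit 4) (nat_lit 272) (nat_lit 259) (nat_lit 129)) (XT.lf (nat_lit 0) (nat_lit 532528853202) (nat_lit 152) (nat_lit 888529454693)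 (nat_lit 76) (nat_lit 1722656074397) (nat_lit 18) (nat_lit 5) (nat_lit 20) (nat_lit 5) (nat_lit 19) (nat_lit 5) (nat_lit 273) (nat_lit 259) (nat_lit 128))) (XT.nd (nat_lit 78) (nat_lit 152) (nat_lit 0) (XT.lf (nat_lit 0) (nat_lit 1584281513046) (nat_lit 228) (nat_lit 1739334733491) (nat_lit 76) (nat_lit 154722053847) (nat_lit 16) (nat_lit 5) (nat_lit 19) (nat_lit 5) (nat_lit 17) (nat_lit 4) (nat_lit 274) (nat_lit 259) (nat_lit 127)) (XT.nd (nat_lit 78) (nat_lit 76) (nat_lit 0) (XT.lf (nat_lit 0) (nat_lit 961510644377) (nat_lit 76) (nat_lit 1921254226484) (nat_lit 152) (nat_lit 973273511419) (nat_lit 15) (nat_lit 5) (nat_lit 16) (nat_lit 5) (nat_lit 17) (nat_lit 4) (nat_lit 275) (nat_lit 259) (nat_lit 126)) (XT.lf (nat_lit 0) (nat_lit 133297983676) (nat_lit 152) (nat_lit 116905351463) (nat_lit 76) (nat_lit 4035869062329) (nat_lit 14) (nat_lit 5) (nat_lit 16) (nat_lit 5) (nat_lit 15) (nat_lit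 5) (nat_lit 276) (nat_lit 259) (nat_lit 125))))) (XT.nd (nat_lit 33150) (nat_lit 0) (nat_lit 2432) (XT.nd (nat_lit 78) (nat_lit 76) (nat_lit 0) (XT.lf (nat_lit 0) (nat_lit 1469996232480) (nat_lit 228) (nat_lit 1604111815513) (nat_lit 76) (nat_lit 1694739505849) (nat_lit 12) (nat_lit 5) (nat_lit 15) (nat_lit 5) (nat_lit 13) (nat_lit 4) (nat_lit 277) (nat_lit 259) (nat_lit 124)) (XT.nd (nat_lit 32994) (nat_lit 0) (nat_lit 2356) (XT.lf (nat_lit 0) (nat_lit 1699966520657) (nat_lit 76) (nat_lit 1358528913774) (nat_lit 152) (nat_lit 2261439851980) (nat_lit 11) (nat_lit 5) (nat_lit 12) (nat_lit 5) (nat_lit 13) (nat_lit 4) (nat_lit 278) (nat_lit 259) (nat_lit 123)) (XT.lf (nat_lit 0) (nat_lit 296110498315) (nat_lit 532) (nat_lit 125890682698) (nat_lit 532) (nat_lit 125890682698) (nat_lit 42) (nat_lit 3) (nat_lit 49) (nat_lit 3) (nat_lit 49) (nat_lit 5) (nat_lit 260) (nat_lit 260) (nat_lit 140))))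 (XT.nd (nat_lit 78) (nat_lit 0) (nat_lit 0) (XT.lf (nat_lit 0) (nat_lit 654683634731) (nat_lit 456) (nat_lit 475845965487) (nat_lit 532) (nat_lit 45994221358) (nat_lit 43) (nat_lit 5) (nat_lit 49) (nat_lit 5) (nat_lit 50) (nat_lit 5) (nat_lit 261) (nat_lit 260) (nat_lit 139)) (XT.nd (nat_lit 78) (nat_lit 0) (nat_lit 76) (XT.lf (nat_lit 76) (nat_lit 546257139743) (nat_lit 0) (nat_lit 224259771017) (nat_lit 532) (nat_lit 495337919775) (nat_lit 44) (nat_lit 5) (nat_lit 43) (nat_lit 5) (nat_lit 50) (nat_lit 5) (nat_lit 262) (nat_lit 260) (nat_lit 138)) (XT.lf (nat_lit 76) (nat_lit 382096754185) (nat_lit 0) (nat_lit 564703156961) (nat_lit 532) (nat_lit 418339601108) (nat_lit 45) (nat_lit 5) (nat_lit 44) (nat_lit 5) (nat_lit 51) (nat_lit 5) (nat_lit 263) (nat_lit 260) (nat_lit 137)))))) (XT.nd (nat_lit 468) (nat_lit 836) (nat_lit 0) (XT.nd (nat_lit 234) (nat_lit 608) (nat_lit 0) (XT.nd (nat_lit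 78) (nat_lit 304) (nat_lit 0) (XT.lf (nat_lit 0) (nat_lit 207037318157) (nat_lit 456) (nat_lit 986718256737) (nat_lit 532) (nat_lit 282022904317) (nat_lit 39) (nat_lit 5) (nat_lit 45) (nat_lit 5) (nat_lit 46) (nat_lit 5) (nat_lit 264) (nat_lit 260) (nat_lit 136)) (XT.nd (nat_lit 78) (nat_lit 76) (nat_lit 0) (XT.lf (nat_lit 0) (nat_lit 17765868817) (nat_lit 228) (nat_lit 1506594867177) (nat_lit 304) (nat_lit 74924063434) (nat_lit 36) (nat_lit 5) (nat_lit 39) (nat_lit 5) (nat_lit 40) (nat_lit 5) (nat_lit 265) (nat_lit 260) (nat_lit 135)) (XT.lf (nat_lit 0) (nat_lit 220261338180) (nat_lit 304) (nat_lit 196457505528) (nat_lit 76) (nat_lit 1319069139435) (nat_lit 35) (nat_lit 5) (nat_lit 39) (nat_lit 5) (nat_lit 36) (nat_lit 5) (nat_lit 266) (nat_lit 260) (nat_lit 134)))) (XT.nd (nat_lit 78) (nat_lit 380) (nat_lit 0) (XT.lf (nat_lit 0) (nat_lit 611804685538) (nat_lit 304) (nat_lit 443157035664)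 (nat_lit 76) (nat_lit 833127918782) (nat_lit 32) (nat_lit 5) (nat_lit 36) (nat_lit 5) (nat_lit 33) (nat_lit 5) (nat_lit 267) (nat_lit 260) (nat_lit 133)) (XT.nd (nat_lit 78) (nat_lit 152) (nat_lit 0) (XT.lf (nat_lit 0) (nat_lit 1117041096146) (nat_lit 304) (nat_lit 727839846983) (nat_lit 76) (nat_lit 213958677355) (nat_lit 29) (nat_lit 5) (nat_lit 33) (nat_lit 5) (nat_lit 30) (nat_lit 5) (nat_lit 268) (nat_lit 260) (nat_lit 132)) (XT.lf (nat_lit 0) (nat_lit 1173117754373) (nat_lit 152) (nat_lit 595573508342) (nat_lit 228) (nat_lit 480860571814) (nat_lit 27) (nat_lit 5) (nat_lit 29) (nat_lit 5) (nat_lit 30) (nat_lit 5) (nat_lit 269) (nat_lit 260) (nat_lit 131))))) (XT.nd (nat_lit 234) (nat_lit 304) (nat_lit 0) (XT.nd (nat_lit 78) (nat_lit 304) (nat_lit 0) (XT.lf (nat_lit 0) (nat_lit 113591026672) (nat_lit 228) (nat_lit 1502995501567) (nat_lit 76) (nat_lit 846842853554) (nat_lit 24) (nat_lit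 5) (nat_lit 27) (nat_lit 5) (nat_lit 25) (nat_lit 5) (nat_lit 270) (nat_lit 260) (nat_lit 130)) (XT.nd (nat_lit 78) (nat_lit 152) (nat_lit 0) (XT.lf (nat_lit 0) (nat_lit 663754350362) (nat_lit 152) (nat_lit 170381851039) (nat_lit 228) (nat_lit 1869021317094) (nat_lit 22) (nat_lit 5) (nat_lit 24) (nat_lit 5) (nat_lit 25) (nat_lit 5) (nat_lit 271) (nat_lit 260) (nat_lit 129)) (XT.lf (nat_lit 0) (nat_lit 246481980445) (nat_lit 152) (nat_lit 1503004493176) (nat_lit 228) (nat_lit 1222420536392) (nat_lit 20) (nat_lit 5) (nat_lit 22) (nat_lit 5) (nat_lit 23) (nat_lit 5) (nat_lit 272) (nat_lit 260) (nat_lit 128)))) (XT.nd (nat_lit 78) (nat_lit 304) (nat_lit 0) (XT.lf (nat_lit 0) (nat_lit 2869178109802) (nat_lit 228) (nat_lit 285132768083) (nat_lit 76) (nat_lit 121294941534) (nat_lit 20) (nat_lit 5) (nat_lit 23) (nat_lit 5) (nat_lit 21) (nat_lit 4) (nat_lit 273) (nat_lit 260) (nat_lit 127)) (XT.nd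 (nat_lit 78) (nat_lit 152) (nat_lit 0) (XT.lf (nat_lit 0) (nat_lit 612408230018) (nat_lit 152) (nat_lit 1021808795372) (nat_lit 76) (nat_lit 1981054510244) (nat_lit 18) (nat_lit 5) (nat_lit 20) (nat_lit 5) (nat_lit 19) (nat_lit 5) (nat_lit 274) (nat_lit 260) (nat_lit 126)) (XT.lf (nat_lit 0) (nat_lit 1821923784820) (nat_lit 228) (nat_lit 2000234869580) (nat_lit 76) (nat_lit 177930387374) (nat_lit 16) (nat_lit 5) (nat_lit 19) (nat_lit 5) (nat_lit 17) (nat_lit 4) (nat_lit 275) (nat_lit 260) (nat_lit 125))))))) (XT.nd (nat_lit 33852) (nat_lit 0) (nat_lit 228) (XT.nd (nat_lit 33384) (nat_lit 0) (nat_lit 1520) (XT.nd (nat_lit 156) (nat_lit 152) (nat_lit 0) (XT.nd (nat_lit 78) (nat_lit 76) (nat_lit 0) (XT.lf (nat_lit 0) (nat_lit 1105737308711) (nat_lit 76) (nat_lit 2209442333378) (nat_lit 152) (nat_lit 1119264494213) (nat_lit 15) (nat_lit 5) (nat_lit 16) (nat_lit 5) (nat_lit 17) (nat_lit 4)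 (nat_lit 276) (nat_lit 260) (nat_lit 124)) (XT.lf (nat_lit 0) (nat_lit 153292717508) (nat_lit 152) (nat_lit 134441093364) (nat_lit 76) (nat_lit 4641249443257) (nat_lit 14) (nat_lit 5) (nat_lit 16) (nat_lit 5) (nat_lit 15) (nat_lit 5) (nat_lit 277) (nat_lit 260) (nat_lit 123))) (XT.nd (nat_lit 33072) (nat_lit 0) (nat_lit 2280) (XT.lf (nat_lit 0) (nat_lit 1690495700786) (nat_lit 228) (nat_lit 1844728530036) (nat_lit 76) (nat_lit 1948950453371) (nat_lit 12) (nat_lit 5) (nat_lit 15) (nat_lit 5) (nat_lit 13) (nat_lit 4) (nat_lit 278) (nat_lit 260) (nat_lit 122)) (XT.nd (nat_lit 78) (nat_lit 0) (nat_lit 76) (XT.lf (nat_lit 0) (nat_lit 340527158341) (nat_lit 532) (nat_lit 144774238891) (nat_lit 532) (nat_lit 144774238891) (nat_lit 42) (nat_lit 3) (nat_lit 49) (nat_lit 3) (nat_lit 49) (nat_lit 5) (nat_lit 261) (nat_lit 261) (nat_lit 138)) (XT.lf (nat_lit 0) (nat_lit 752886328705) (nat_lit 456)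 (nat_lit 547222761544) (nat_lit 532) (nat_lit 52893292104) (nat_lit 43) (nat_lit 5) (nat_lit 49) (nat_lit 5) (nat_lit 50) (nat_lit 5) (nat_lit 262) (nat_lit 261) (nat_lit 137))))) (XT.nd (nat_lit 234) (nat_lit 532) (nat_lit 0) (XT.nd (nat_lit 78) (nat_lit 304) (nat_lit 0) (XT.lf (nat_lit 76) (nat_lit 628195801111) (nat_lit 0) (nat_lit 257898777798) (nat_lit 532) (nat_lit 569638465199) (nat_lit 44) (nat_lit 5) (nat_lit 43) (nat_lit 5) (nat_lit 50) (nat_lit 5) (nat_lit 263) (nat_lit 261) (nat_lit 136)) (XT.nd (nat_lit 78) (nat_lit 380) (nat_lit 0) (XT.lf (nat_lit 76) (nat_lit 439411361048) (nat_lit 0) (nat_lit 649408652542) (nat_lit 532) (nat_lit 481090415818) (nat_lit 45) (nat_lit 5) (nat_lit 44) (nat_lit 5) (nat_lit 51) (nat_lit 5) (nat_lit 264) (nat_lit 261) (nat_lit 135)) (XT.lf (nat_lit 0) (nat_lit 238093011032) (nat_lit 456) (nat_lit 1134726002597) (nat_lit 532) (nat_lit 324326228898)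 (nat_lit 39) (nat_lit 5) (nat_lit 45) (nat_lit 5) (nat_lit 46) (nat_lit 5) (nat_lit 265) (nat_lit 261) (nat_lit 134)))) (XT.nd (nat_lit 78) (nat_lit 304) (nat_lit 0) (XT.lf (nat_lit 0) (nat_lit 20430844240) (nat_lit 228) (nat_lit 1732584093417) (nat_lit 304) (nat_lit 86162574066) (nat_lit 36) (nat_lit 5) (nat_lit 39) (nat_lit 5) (nat_lit 40) (nat_lit 5) (nat_lit 266) (nat_lit 261) (nat_lit 133)) (XT.nd (nat_lit 78) (nat_lit 228) (nat_lit 0) (XT.lf (nat_lit 0) (nat_lit 253300620591) (nat_lit 304) (nat_lit 225926044103) (nat_lit 76) (nat_lit 1516929509129) (nat_lit 35) (nat_lit 5) (nat_lit 39) (nat_lit 5) (nat_lit 36) (nat_lit 5) (nat_lit 267) (nat_lit 261) (nat_lit 132)) (XT.lf (nat_lit 0) (nat_lit 703575461486) (nat_lit 304) (nat_lit 509630505253) (nat_lit 76) (nat_lit 958097113171) (nat_lit 32) (nat_lit 5) (nat_lit 36) (nat_lit 5) (nat_lit 33) (nat_lit 5) (nat_lit 268) (nat_lit 261)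 (nat_lit 131)))))) (XT.nd (nat_lit 468) (nat_lit 380) (nat_lit 0) (XT.nd (nat_lit 234) (nat_lit 304) (nat_lit 0) (XT.nd (nat_lit 78) (nat_lit 380) (nat_lit 0) (XT.lf (nat_lit 0) (nat_lit 1284597326349) (nat_lit 304) (nat_lit 837015740410) (nat_lit 76) (nat_lit 246052491341) (nat_lit 29) (nat_lit 5) (nat_lit 33) (nat_lit 5) (nat_lit 30) (nat_lit 5) (nat_lit 269) (nat_lit 261) (nat_lit 130)) (XT.nd (nat_lit 78) (nat_lit 228) (nat_lit 0) (XT.lf (nat_lit 0) (nat_lit 1349085494071) (nat_lit 152) (nat_lit 684909517094) (nat_lit 228) (nat_lit 552989593651) (nat_lit 27) (nat_lit 5) (nat_lit 29) (nat_lit 5) (nat_lit 30) (nat_lit 5) (nat_lit 270) (nat_lit 261) (nat_lit 129)) (XT.lf (nat_lit 0) (nat_lit 130629735692) (nat_lit 228) (nat_lit 1728444749613) (nat_lit 76) (nat_lit 973869299220) (nat_lit 24) (nat_lit 5) (nat_lit 27) (nat_lit 5) (nat_lit 25) (nat_lit 5) (nat_lit 271) (nat_lit 261) (nat_lit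 128)))) (XT.nd (nat_lit 78) (nat_lit 152) (nat_lit 0) (XT.lf (nat_lit 0) (nat_lit 763317573573) (nat_lit 152) (nat_lit 195939107581) (nat_lit 228) (nat_lit 2149374461035) (nat_lit 22) (nat_lit 5) (nat_lit 24) (nat_lit 5) (nat_lit 25) (nat_lit 5) (nat_lit 272) (nat_lit 261) (nat_lit 127)) (XT.nd (nat_lit 78) (nat_lit 0) (nat_lit 0) (XT.lf (nat_lit 0) (nat_lit 283454345459) (nat_lit 152) (nat_lit 1728455144362) (nat_lit 228) (nat_lit 1405783567980) (nat_lit 20) (nat_lit 5) (nat_lit 22) (nat_lit 5) (nat_lit 23) (nat_lit 5) (nat_lit 273) (nat_lit 261) (nat_lit 126)) (XT.lf (nat_lit 0) (nat_lit 3299554866015) (nat_lit 228) (nat_lit 327902621457) (nat_lit 76) (nat_lit 139489201591) (nat_lit 20) (nat_lit 5) (nat_lit 23) (nat_lit 5) (nat_lit 21) (nat_lit 4) (nat_lit 274) (nat_lit 261) (nat_lit 125))))) (XT.nd (nat_lit 33384) (nat_lit 0) (nat_lit 2052) (XT.nd (nat_lit 78) (nat_lit 228) (nat_lit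 0) (XT.lf (nat_lit 0) (nat_lit 704269501447) (nat_lit 152) (nat_lit 1175080056058) (nat_lit 76) (nat_lit 2278212705448) (nat_lit 18) (nat_lit 5) (nat_lit 20) (nat_lit 5) (nat_lit 19) (nat_lit 5) (nat_lit 275) (nat_lit 261) (nat_lit 124)) (XT.nd (nat_lit 78) (nat_lit 76) (nat_lit 0) (XT.lf (nat_lit 0) (nat_lit 2095212386431) (nat_lit 228) (nat_lit 2300270044111) (nat_lit 76) (nat_lit 204619964725) (nat_lit 16) (nat_lit 5) (nat_lit 19) (nat_lit 5) (nat_lit 17) (nat_lit 4) (nat_lit 276) (nat_lit 261) (nat_lit 123)) (XT.lf (nat_lit 0) (nat_lit 1271597956191) (nat_lit 76) (nat_lit 2540858662910) (nat_lit 152) (nat_lit 1287154135136) (nat_lit 15) (nat_lit 5) (nat_lit 16) (nat_lit 5) (nat_lit 17) (nat_lit 4) (nat_lit 277) (nat_lit 261) (nat_lit 122)))) (XT.nd (nat_lit 78) (nat_lit 0) (nat_lit 76) (XT.lf (nat_lit 0) (nat_lit 391606296576) (nat_lit 532) (nat_lit 166490339783) (nat_lit 532) (nat_lit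 166490339783) (nat_lit 42) (nat_lit 3) (nat_lit 49) (nat_lit 3) (nat_lit 49) (nat_lit 5) (nat_lit 262) (nat_lit 262) (nat_lit 136)) (XT.nd (nat_lit 78) (nat_lit 0) (nat_lit 0) (XT.lf (nat_lit 0) (nat_lit 865819390499) (nat_lit 456) (nat_lit 629306101094) (nat_lit 532) (nat_lit 60827238693) (nat_lit 43) (nat_lit 5) (nat_lit 49) (nat_lit 5) (nat_lit 50) (nat_lit 5) (nat_lit 263) (nat_lit 262) (nat_lit 135)) (XT.lf (nat_lit 76) (nat_lit 722425239638) (nat_lit 0) (nat_lit 296583625567) (nat_lit 532) (nat_lit 655084127195) (nat_lit 44) (nat_lit 5) (nat_lit 43) (nat_lit 5) (nat_lit 50) (nat_lit 5) (nat_lit 264) (nat_lit 262) (nat_lit 134))))))))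
noncomputable def xc62 : XT := (XT.nd (nat_lit 35022) (nat_lit 0) (nat_lit 304) (XT.nd (nat_lit 858) (nat_lit 304) (nat_lit 0) (XT.nd (nat_lit 390) (nat_lit 912) (nat_lit 0) (XT.nd (nat_lit 156) (nat_lit 532) (nat_lit 0) (XT.nd (nat_lit 78) (nat_lit 380) (nat_lit 0) (XT.lf (nat_lit 76) (nat_lit 505323136083) (nat_lit 0) (nat_lit 746819967087) (nat_lit 532) (nat_lit 553253883328) (nat_lit 45) (nat_lit 5) (nat_lit 44) (nat_lit 5) (nat_lit 51) (nat_lit 5) (nat_lit 265) (nat_lit 262) (nat_lit 133)) (XT.lf (nat_lit 0) (nat_lit 273807034634) (nat_lit 456) (nat_lit 1304934908543) (nat_lit 532) (nat_lit 372975079251) (nat_lit 39) (nat_lit 5) (nat_lit 45) (nat_lit 5) (nat_lit 46) (nat_lit 5) (nat_lit 266) (nat_lit 262) (nat_lit 132))) (XT.nd (nat_lit 78) (nat_lit 304) (nat_lit 0) (XT.lf (nat_lit 0) (nat_lit 23495542785) (nat_lit 228) (nat_lit 1992471704528) (nat_lit 304) (nat_lit 99086885406)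 (nat_lit 36) (nat_lit 5) (nat_lit 39) (nat_lit 5) (nat_lit 40) (nat_lit 5) (nat_lit 267) (nat_lit 262) (nat_lit 131)) (XT.nd (nat_lit 78) (nat_lit 228) (nat_lit 0) (XT.lf (nat_lit 0) (nat_lit 291295775445) (nat_lit 304) (nat_lit 259814884742) (nat_lit 76) (nat_lit 1744468934574) (nat_lit 35) (nat_lit 5) (nat_lit 39) (nat_lit 5) (nat_lit 36) (nat_lit 5) (nat_lit 268) (nat_lit 262) (nat_lit 130)) (XT.lf (nat_lit 0) (nat_lit 809111835995) (nat_lit 304) (nat_lit 586075016193) (nat_lit 76) (nat_lit 1101811685116) (nat_lit 32) (nat_lit 5) (nat_lit 36) (nat_lit 5) (nat_lit 33) (nat_lit 5) (nat_lit 269) (nat_lit 262) (nat_lit 129))))) (XT.nd (nat_lit 234) (nat_lit 304) (nat_lit 0) (XT.nd (nat_lit 78) (nat_lit 380) (nat_lit 0) (XT.lf (nat_lit 0) (nat_lit 1477286975042) (nat_lit 304) (nat_lit 962568038242) (nat_lit 76) (nat_lit 282960374404) (nat_lit 29) (nat_lit 5) (nat_lit 33) (nat_lit 5) (nat_lit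 30) (nat_lit 5) (nat_lit 270) (nat_lit 262) (nat_lit 128)) (XT.nd (nat_lit 78) (nat_lit 228) (nat_lit 0) (XT.lf (nat_lit 0) (nat_lit 1551448376059) (nat_lit 152) (nat_lit 787645931425) (nat_lit 228) (nat_lit 635937984356) (nat_lit 27) (nat_lit 5) (nat_lit 29) (nat_lit 5) (nat_lit 30) (nat_lit 5) (nat_lit 271) (nat_lit 262) (nat_lit 127)) (XT.lf (nat_lit 0) (nat_lit 150224237649) (nat_lit 228) (nat_lit 1987711403688) (nat_lit 76) (nat_lit 1119949707436) (nat_lit 24) (nat_lit 5) (nat_lit 27) (nat_lit 5) (nat_lit 25) (nat_lit 5) (nat_lit 272) (nat_lit 262) (nat_lit 126)))) (XT.nd (nat_lit 78) (nat_lit 152) (nat_lit 0) (XT.lf (nat_lit 0) (nat_lit 877815263035) (nat_lit 152) (nat_lit 225329957753) (nat_lit 228) (nat_lit 2471780589643) (nat_lit 22) (nat_lit 5) (nat_lit 24) (nat_lit 5) (nat_lit 25) (nat_lit 5) (nat_lit 273) (nat_lit 262) (nat_lit 125)) (XT.nd (nat_lit 78) (nat_lit 0) (nat_lit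 0) (XT.lf (nat_lit 0) (nat_lit 325972548655) (nat_lit 152) (nat_lit 1987723398783) (nat_lit 228) (nat_lit 1616651066223) (nat_lit 20) (nat_lit 5) (nat_lit 22) (nat_lit 5) (nat_lit 23) (nat_lit 5) (nat_lit 274) (nat_lit 262) (nat_lit 124)) (XT.lf (nat_lit 0) (nat_lit 3794488125969) (nat_lit 228) (nat_lit 377087967917) (nat_lit 76) (nat_lit 160412596065) (nat_lit 20) (nat_lit 5) (nat_lit 23) (nat_lit 5) (nat_lit 21) (nat_lit 4) (nat_lit 275) (nat_lit 262) (nat_lit 123)))))) (XT.nd (nat_lit 33696) (nat_lit 0) (nat_lit 836) (XT.nd (nat_lit 33462) (nat_lit 0) (nat_lit 2052) (XT.nd (nat_lit 78) (nat_lit 152) (nat_lit 0) (XT.lf (nat_lit 0) (nat_lit 809909954587) (nat_lit 152) (nat_lit 1351342020141) (nat_lit 76) (nat_lit 2619944625380) (nat_lit 18) (nat_lit 5) (nat_lit 20) (nat_lit 5) (nat_lit 19) (nat_lit 5) (nat_lit 276) (nat_lit 262) (nat_lit 122)) (XT.nd (nat_lit 33306) (nat_lit 0) (nat_lit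 1976) (XT.lf (nat_lit 0) (nat_lit 2409494270020) (nat_lit 228) (nat_lit 2645310508455) (nat_lit 76) (nat_lit 235312973985) (nat_lit 16) (nat_lit 5) (nat_lit 19) (nat_lit 5) (nat_lit 17) (nat_lit 4) (nat_lit 277) (nat_lit 262) (nat_lit 121)) (XT.lf (nat_lit 0) (nat_lit 450347289821) (nat_lit 532) (nat_lit 191463864329) (nat_lit 532) (nat_lit 191463864329) (nat_lit 42) (nat_lit 3) (nat_lit 49) (nat_lit 3) (nat_lit 49) (nat_lit 5) (nat_lit 263) (nat_lit 263) (nat_lit 134)))) (XT.nd (nat_lit 78) (nat_lit 0) (nat_lit 0) (XT.lf (nat_lit 0) (nat_lit 995692384131) (nat_lit 456) (nat_lit 723701959788) (nat_lit 532) (nat_lit 69951288786) (nat_lit 43) (nat_lit 5) (nat_lit 49) (nat_lit 5) (nat_lit 50) (nat_lit 5) (nat_lit 264) (nat_lit 263) (nat_lit 133)) (XT.nd (nat_lit 78) (nat_lit 0) (nat_lit 76) (XT.lf (nat_lit 76) (nat_lit 830789077274) (nat_lit 0) (nat_lit 341071192918) (nat_lit 532) (nat_lit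 753346664775) (nat_lit 44) (nat_lit 5) (nat_lit 43) (nat_lit 5) (nat_lit 50) (nat_lit 5) (nat_lit 265) (nat_lit 263) (nat_lit 132)) (XT.lf (nat_lit 76) (nat_lit 581121660090) (nat_lit 0) (nat_lit 858842974749) (nat_lit 532) (nat_lit 636241894097) (nat_lit 45) (nat_lit 5) (nat_lit 44) (nat_lit 5) (nat_lit 51) (nat_lit 5) (nat_lit 266) (nat_lit 263) (nat_lit 131))))) (XT.nd (nat_lit 234) (nat_lit 608) (nat_lit 0) (XT.nd (nat_lit 78) (nat_lit 304) (nat_lit 0) (XT.lf (nat_lit 0) (nat_lit 314878144232) (nat_lit 456) (nat_lit 1500675149026) (nat_lit 532) (nat_lit 428921277636) (nat_lit 39) (nat_lit 5) (nat_lit 45) (nat_lit 5) (nat_lit 46) (nat_lit 5) (nat_lit 267) (nat_lit 263) (nat_lit 130)) (XT.nd (nat_lit 78) (nat_lit 76) (nat_lit 0) (XT.lf (nat_lit 0) (nat_lit 27019928577) (nat_lit 228) (nat_lit 2291342458014) (nat_lit 304) (nat_lit 113949861680) (nat_lit 36) (nat_lit 5) (nat_lit 39) (nat_lit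 5) (nat_lit 40) (nat_lit 5) (nat_lit 268) (nat_lit 263) (nat_lit 129)) (XT.lf (nat_lit 0) (nat_lit 334990188465) (nat_lit 304) (nat_lit 298787067566) (nat_lit 76) (nat_lit 2006139274062) (nat_lit 35) (nat_lit 5) (nat_lit 39) (nat_lit 5) (nat_lit 36) (nat_lit 5) (nat_lit 269) (nat_lit 263) (nat_lit 128)))) (XT.nd (nat_lit 78) (nat_lit 380) (nat_lit 0) (XT.lf (nat_lit 0) (nat_lit 930478653200) (nat_lit 304) (nat_lit 673986219587) (nat_lit 76) (nat_lit 1267083441640) (nat_lit 32) (nat_lit 5) (nat_lit 36) (nat_lit 5) (nat_lit 33) (nat_lit 5) (nat_lit 270) (nat_lit 263) (nat_lit 127)) (XT.nd (nat_lit 78) (nat_lit 152) (nat_lit 0) (XT.lf (nat_lit 0) (nat_lit 1698880058909) (nat_lit 304) (nat_lit 1106953196168) (nat_lit 76) (nat_lit 325404437645) (nat_lit 29) (nat_lit 5) (nat_lit 33) (nat_lit 5) (nat_lit 30) (nat_lit 5) (nat_lit 271) (nat_lit 263) (nat_lit 126)) (XT.lf (nat_lit 0) (nat_lit 1784165676232)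 (nat_lit 152) (nat_lit 905792811133) (nat_lit 228) (nat_lit 731328645454) (nat_lit 27) (nat_lit 5) (nat_lit 29) (nat_lit 5) (nat_lit 30) (nat_lit 5) (nat_lit 272) (nat_lit 263) (nat_lit 125))))))) (XT.nd (nat_lit 34242) (nat_lit 0) (nat_lit 0) (XT.nd (nat_lit 33774) (nat_lit 0) (nat_lit 1140) (XT.nd (nat_lit 156) (nat_lit 152) (nat_lit 0) (XT.nd (nat_lit 78) (nat_lit 152) (nat_lit 0) (XT.lf (nat_lit 0) (nat_lit 172757904754) (nat_lit 228) (nat_lit 2285868070108) (nat_lit 76) (nat_lit 1287942173633) (nat_lit 24) (nat_lit 5) (nat_lit 27) (nat_lit 5) (nat_lit 25) (nat_lit 5) (nat_lit 273) (nat_lit 263) (nat_lit 124)) (XT.lf (nat_lit 0) (nat_lit 1009487592888) (nat_lit 152) (nat_lit 259129439344) (nat_lit 228) (nat_lit 2842547647430) (nat_lit 22) (nat_lit 5) (nat_lit 24) (nat_lit 5) (nat_lit 25) (nat_lit 5) (nat_lit 274) (nat_lit 263) (nat_lit 123))) (XT.nd (nat_lit 78) (nat_lit 0) (nat_lit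 0) (XT.lf (nat_lit 0) (nat_lit 374868469802) (nat_lit 152) (nat_lit 2285881895570) (nat_lit 228) (nat_lit 1859148698214) (nat_lit 20) (nat_lit 5) (nat_lit 22) (nat_lit 5) (nat_lit 23) (nat_lit 5) (nat_lit 275) (nat_lit 263) (nat_lit 122)) (XT.nd (nat_lit 33462) (nat_lit 0) (nat_lit 1672) (XT.lf (nat_lit 0) (nat_lit 4363661367587) (nat_lit 228) (nat_lit 433651127749) (nat_lit 76) (nat_lit 184474496239) (nat_lit 20) (nat_lit 5) (nat_lit 23) (nat_lit 5) (nat_lit 21) (nat_lit 4) (nat_lit 276) (nat_lit 263) (nat_lit 121)) (XT.lf (nat_lit 0) (nat_lit 517899420162) (nat_lit 532) (nat_lit 220183424000) (nat_lit 532) (nat_lit 220183424000) (nat_lit 42) (nat_lit 3) (nat_lit 49) (nat_lit 3) (nat_lit 49) (nat_lit 5) (nat_lit 264) (nat_lit 264) (nat_lit 132))))) (XT.nd (nat_lit 234) (nat_lit 608) (nat_lit 0) (XT.nd (nat_lit 78) (nat_lit 0) (nat_lit 0) (XT.lf (nat_lit 0) (nat_lit 1145046306066) (nat_lit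 456) (nat_lit 832257211057) (nat_lit 532) (nat_lit 80443955102) (nat_lit 43) (nat_lit 5) (nat_lit 49) (nat_lit 5) (nat_lit 50) (nat_lit 5) (nat_lit 265) (nat_lit 264) (nat_lit 131)) (XT.nd (nat_lit 78) (nat_lit 0) (nat_lit 76) (XT.lf (nat_lit 76) (nat_lit 955407477950) (nat_lit 0) (nat_lit 392231889637) (nat_lit 532) (nat_lit 866348602866) (nat_lit 44) (nat_lit 5) (nat_lit 43) (nat_lit 5) (nat_lit 50) (nat_lit 5) (nat_lit 266) (nat_lit 264) (nat_lit 130)) (XT.lf (nat_lit 76) (nat_lit 668289949627) (nat_lit 0) (nat_lit 987669430489) (nat_lit 532) (nat_lit 731678123974) (nat_lit 45) (nat_lit 5) (nat_lit 44) (nat_lit 5) (nat_lit 51) (nat_lit 5) (nat_lit 267) (nat_lit 264) (nat_lit 129)))) (XT.nd (nat_lit 78) (nat_lit 304) (nat_lit 0) (XT.lf (nat_lit 0) (nat_lit 362109907003) (nat_lit 456) (nat_lit 1725776424557) (nat_lit 532) (nat_lit 493259421265) (nat_lit 39) (nat_lit 5) (nat_lit 45) (nat_lit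 5) (nat_lit 46) (nat_lit 5) (nat_lit 268) (nat_lit 264) (nat_lit 128)) (XT.nd (nat_lit 78) (nat_lit 76) (nat_lit 0) (XT.lf (nat_lit 0) (nat_lit 31072958978) (nat_lit 228) (nat_lit 2635043825057) (nat_lit 304) (nat_lit 131042298182) (nat_lit 36) (nat_lit 5) (nat_lit 39) (nat_lit 5) (nat_lit 40) (nat_lit 5) (nat_lit 269) (nat_lit 264) (nat_lit 127)) (XT.lf (nat_lit 0) (nat_lit 385238752049) (nat_lit 304) (nat_lit 343605089978) (nat_lit 76) (nat_lit 2307060164643) (nat_lit 35) (nat_lit 5) (nat_lit 39) (nat_lit 5) (nat_lit 36) (nat_lit 5) (nat_lit 270) (nat_lit 264) (nat_lit 126)))))) (XT.nd (nat_lit 34008) (nat_lit 0) (nat_lit 1140) (XT.nd (nat_lit 234) (nat_lit 532) (nat_lit 0) (XT.nd (nat_lit 78) (nat_lit 380) (nat_lit 0) (XT.lf (nat_lit 0) (nat_lit 1070050482790) (nat_lit 304) (nat_lit 775084115448) (nat_lit 76) (nat_lit 1457145960728) (nat_lit 32) (nat_lit 5) (nat_lit 36) (nat_lit 5)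 (nat_lit 33) (nat_lit 5) (nat_lit 271) (nat_lit 264) (nat_lit 125)) (XT.nd (nat_lit 78) (nat_lit 152) (nat_lit 0) (XT.lf (nat_lit 0) (nat_lit 1953712096185) (nat_lit 304) (nat_lit 1272996139442) (nat_lit 76) (nat_lit 374215108645) (nat_lit 29) (nat_lit 5) (nat_lit 33) (nat_lit 5) (nat_lit 30) (nat_lit 5) (nat_lit 272) (nat_lit 264) (nat_lit 124)) (XT.lf (nat_lit 0) (nat_lit 2051790560758) (nat_lit 152) (nat_lit 1041661725237) (nat_lit 228) (nat_lit 841027914632) (nat_lit 27) (nat_lit 5) (nat_lit 29) (nat_lit 5) (nat_lit 30) (nat_lit 5) (nat_lit 273) (nat_lit 264) (nat_lit 123)))) (XT.nd (nat_lit 156) (nat_lit 304) (nat_lit 0) (XT.lf (nat_lit 0) (nat_lit 198671614253) (nat_lit 228) (nat_lit 2628748247253) (nat_lit 76) (nat_lit 1481133507301) (nat_lit 24) (nat_lit 5) (nat_lit 27) (nat_lit 5) (nat_lit 25) (nat_lit 5) (nat_lit 274) (nat_lit 264) (nat_lit 122)) (XT.nd (nat_lit 33540) (nat_lit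 0) (nat_lit 1672) (XT.lf (nat_lit 0) (nat_lit 431098769647) (nat_lit 152) (nat_lit 2628764170052) (nat_lit 228) (nat_lit 2138020981818) (nat_lit 20) (nat_lit 5) (nat_lit 22) (nat_lit 5) (nat_lit 23) (nat_lit 5) (nat_lit 276) (nat_lit 264) (nat_lit 120)) (XT.lf (nat_lit 0) (nat_lit 595584361065) (nat_lit 532) (nat_lit 253210922494) (nat_lit 532) (nat_lit 253210922494) (nat_lit 42) (nat_lit 3) (nat_lit 49) (nat_lit 3) (nat_lit 49) (nat_lit 5) (nat_lit 265) (nat_lit 265) (nat_lit 130))))) (XT.nd (nat_lit 234) (nat_lit 608) (nat_lit 0) (XT.nd (nat_lit 78) (nat_lit 0) (nat_lit 0) (XT.lf (nat_lit 0) (nat_lit 1316803300607) (nat_lit 456) (nat_lit 957095760429) (nat_lit 532) (nat_lit 92510527949) (nat_lit 43) (nat_lit 5) (nat_lit 49) (nat_lit 5) (nat_lit 50) (nat_lit 5) (nat_lit 266) (nat_lit 265) (nat_lit 129)) (XT.nd (nat_lit 78) (nat_lit 0) (nat_lit 76) (XT.lf (nat_lit 76) (nat_lit 1098718629196)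 (nat_lit 0) (nat_lit 451066686528) (nat_lit 532) (nat_lit 996300846699) (nat_lit 44) (nat_lit 5) (nat_lit 43) (nat_lit 5) (nat_lit 50) (nat_lit 5) (nat_lit 267) (nat_lit 265) (nat_lit 128)) (XT.lf (nat_lit 76) (nat_lit 768533472714) (nat_lit 0) (nat_lit 1135819852266) (nat_lit 532) (nat_lit 841429801558) (nat_lit 45) (nat_lit 5) (nat_lit 44) (nat_lit 5) (nat_lit 51) (nat_lit 5) (nat_lit 268) (nat_lit 265) (nat_lit 127)))) (XT.nd (nat_lit 78) (nat_lit 304) (nat_lit 0) (XT.lf (nat_lit 0) (nat_lit 416426424158) (nat_lit 456) (nat_lit 1984642890643) (nat_lit 532) (nat_lit 567248298147) (nat_lit 39) (nat_lit 5) (nat_lit 45) (nat_lit 5) (nat_lit 46) (nat_lit 5) (nat_lit 269) (nat_lit 265) (nat_lit 126)) (XT.nd (nat_lit 78) (nat_lit 76) (nat_lit 0) (XT.lf (nat_lit 0) (nat_lit 35733933913) (nat_lit 228) (nat_lit 3030300397562) (nat_lit 304) (nat_lit 150698610584) (nat_lit 36) (nat_lit 5) (nat_lit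 39) (nat_lit 5) (nat_lit 40) (nat_lit 5) (nat_lit 270) (nat_lit 265) (nat_lit 125)) (XT.lf (nat_lit 0) (nat_lit 443024591559) (nat_lit 304) (nat_lit 395145824952) (nat_lit 76) (nat_lit 2653119188940) (nat_lit 35) (nat_lit 5) (nat_lit 39) (nat_lit 5) (nat_lit 36) (nat_lit 5) (nat_lit 271) (nat_lit 265) (nat_lit 124))))))))
noncomputable def xc63 : XT := (XT.nd (nat_lit 102882) (nat_lit 0) (nat_lit 760) (XT.nd (nat_lit 34398) (nat_lit 0) (nat_lit 380) (XT.nd (nat_lit 33930) (nat_lit 0) (nat_lit 1064) (XT.nd (nat_lit 156) (nat_lit 532) (nat_lit 0) (XT.nd (nat_lit 78) (nat_lit 228) (nat_lit 0) (XT.lf (nat_lit 0) (nat_lit 1230558079111) (nat_lit 304) (nat_lit 891346704730) (nat_lit 76) (nat_lit 1675717856985) (nat_lit 32) (nat_lit 5) (nat_lit 36) (nat_lit 5) (nat_lit 33) (nat_lit 5) (nat_lit 272) (nat_lit 265) (nat_lit 123)) (XT.lf (nat_lit 0) (nat_lit 2246768932117) (nat_lit 304) (nat_lit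 1463945533023) (nat_lit 76) (nat_lit 430347378989) (nat_lit 29) (nat_lit 5) (nat_lit 33) (nat_lit 5) (nat_lit 30) (nat_lit 5) (nat_lit 273) (nat_lit 265) (nat_lit 122))) (XT.nd (nat_lit 78) (nat_lit 380) (nat_lit 0) (XT.lf (nat_lit 0) (nat_lit 2359559169893) (nat_lit 152) (nat_lit 1197910978302) (nat_lit 228) (nat_lit 967182080927) (nat_lit 27) (nat_lit 5) (nat_lit 29) (nat_lit 5) (nat_lit 30) (nat_lit 5) (nat_lit 274) (nat_lit 265) (nat_lit 121)) (XT.nd (nat_lit 78) (nat_lit 152) (nat_lit 0) (XT.lf (nat_lit 0) (nat_lit 228472374377) (nat_lit 228) (nat_lit 3023060459108) (nat_lit 76) (nat_lit 1703303539160) (nat_lit 24) (nat_lit 5) (nat_lit 27) (nat_lit 5) (nat_lit 25) (nat_lit 5) (nat_lit 275) (nat_lit 265) (nat_lit 120)) (XT.lf (nat_lit 0) (nat_lit 1335047399820) (nat_lit 152) (nat_lit 342698666134) (nat_lit 228) (nat_lit 3759269219536) (nat_lit 22) (nat_lit 5) (nat_lit 24) (nat_lit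 5) (nat_lit 25) (nat_lit 5) (nat_lit 276) (nat_lit 265) (nat_lit 119))))) (XT.nd (nat_lit 234) (nat_lit 456) (nat_lit 0) (XT.nd (nat_lit 78) (nat_lit 0) (nat_lit 76) (XT.lf (nat_lit 0) (nat_lit 684922036304) (nat_lit 532) (nat_lit 291192549445) (nat_lit 532) (nat_lit 291192549445) (nat_lit 42) (nat_lit 3) (nat_lit 49) (nat_lit 3) (nat_lit 49) (nat_lit 5) (nat_lit 266) (nat_lit 266) (nat_lit 128)) (XT.nd (nat_lit 78) (nat_lit 0) (nat_lit 0) (XT.lf (nat_lit 0) (nat_lit 1514323832470) (nat_lit 456) (nat_lit 1100660100080) (nat_lit 532) (nat_lit 106387091703) (nat_lit 43) (nat_lit 5) (nat_lit 49) (nat_lit 5) (nat_lit 50) (nat_lit 5) (nat_lit 267) (nat_lit 266) (nat_lit 127)) (XT.lf (nat_lit 76) (nat_lit 1263526445923) (nat_lit 0) (nat_lit 518726699673) (nat_lit 532) (nat_lit 1145745938469) (nat_lit 44) (nat_lit 5) (nat_lit 43) (nat_lit 5) (nat_lit 50) (nat_lit 5) (nat_lit 268) (nat_lit 266)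 (nat_lit 126)))) (XT.nd (nat_lit 78) (nat_lit 608) (nat_lit 0) (XT.lf (nat_lit 76) (nat_lit 883813516791) (nat_lit 0) (nat_lit 1306192835554) (nat_lit 532) (nat_lit 967644240781) (nat_lit 45) (nat_lit 5) (nat_lit 44) (nat_lit 5) (nat_lit 51) (nat_lit 5) (nat_lit 269) (nat_lit 266) (nat_lit 125)) (XT.nd (nat_lit 78) (nat_lit 228) (nat_lit 0) (XT.lf (nat_lit 0) (nat_lit 478890411302) (nat_lit 456) (nat_lit 2282339326056) (nat_lit 532) (nat_lit 652335515415) (nat_lit 39) (nat_lit 5) (nat_lit 45) (nat_lit 5) (nat_lit 46) (nat_lit 5) (nat_lit 270) (nat_lit 266) (nat_lit 124)) (XT.lf (nat_lit 0) (nat_lit 41094047507) (nat_lit 228) (nat_lit 3484845456248) (nat_lit 304) (nat_lit 173303377729) (nat_lit 36) (nat_lit 5) (nat_lit 39) (nat_lit 5) (nat_lit 40) (nat_lit 5) (nat_lit 271) (nat_lit 266) (nat_lit 123)))))) (XT.nd (nat_lit 34164) (nat_lit 0) (nat_lit 152) (XT.nd (nat_lit 234) (nat_lit 152)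 (nat_lit 0) (XT.nd (nat_lit 78) (nat_lit 456) (nat_lit 0) (XT.lf (nat_lit 0) (nat_lit 509478300484) (nat_lit 304) (nat_lit 454417677127) (nat_lit 76) (nat_lit 3051087066979) (nat_lit 35) (nat_lit 5) (nat_lit 39) (nat_lit 5) (nat_lit 36) (nat_lit 5) (nat_lit 272) (nat_lit 266) (nat_lit 122)) (XT.nd (nat_lit 78) (nat_lit 228) (nat_lit 0) (XT.lf (nat_lit 0) (nat_lit 1415141809051) (nat_lit 304) (nat_lit 1025048689241) (nat_lit 76) (nat_lit 1927075537158) (nat_lit 32) (nat_lit 5) (nat_lit 36) (nat_lit 5) (nat_lit 33) (nat_lit 5) (nat_lit 273) (nat_lit 266) (nat_lit 121)) (XT.lf (nat_lit 0) (nat_lit 2583784288195) (nat_lit 304) (nat_lit 1683537342307) (nat_lit 76) (nat_lit 494899488898) (nat_lit 29) (nat_lit 5) (nat_lit 33) (nat_lit 5) (nat_lit 30) (nat_lit 5) (nat_lit 274) (nat_lit 266) (nat_lit 120)))) (XT.nd (nat_lit 33774) (nat_lit 0) (nat_lit 1140) (XT.lf (nat_lit 0) (nat_lit 2713493064297)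 (nat_lit 152) (nat_lit 1377597620722) (nat_lit 228) (nat_lit 1112259377262) (nat_lit 27) (nat_lit 5) (nat_lit 29) (nat_lit 5) (nat_lit 30) (nat_lit 5) (nat_lit 275) (nat_lit 266) (nat_lit 119)) (XT.nd (nat_lit 78) (nat_lit 0) (nat_lit 76) (XT.lf (nat_lit 0) (nat_lit 787660357689) (nat_lit 532) (nat_lit 334871423225) (nat_lit 532) (nat_lit 334871423225) (nat_lit 42) (nat_lit 3) (nat_lit 49) (nat_lit 3) (nat_lit 49) (nat_lit 5) (nat_lit 267) (nat_lit 267) (nat_lit 126)) (XT.lf (nat_lit 0) (nat_lit 1741472435146) (nat_lit 456) (nat_lit 1265759096632) (nat_lit 532) (nat_lit 122345143785) (nat_lit 43) (nat_lit 5) (nat_lit 49) (nat_lit 5) (nat_lit 50) (nat_lit 5) (nat_lit 268) (nat_lit 267) (nat_lit 125))))) (XT.nd (nat_lit 234) (nat_lit 760) (nat_lit 0) (XT.nd (nat_lit 78) (nat_lit 304) (nat_lit 0) (XT.lf (nat_lit 76) (nat_lit 1453055429709) (nat_lit 0) (nat_lit 596535712311) (nat_lit 532)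 (nat_lit 1317607802597) (nat_lit 44) (nat_lit 5) (nat_lit 43) (nat_lit 5) (nat_lit 50) (nat_lit 5) (nat_lit 269) (nat_lit 267) (nat_lit 124)) (XT.nd (nat_lit 78) (nat_lit 380) (nat_lit 0) (XT.lf (nat_lit 76) (nat_lit 1016385561830) (nat_lit 0) (nat_lit 1502121765006) (nat_lit 532) (nat_lit 1112790853449) (nat_lit 45) (nat_lit 5) (nat_lit 44) (nat_lit 5) (nat_lit 51) (nat_lit 5) (nat_lit 270) (nat_lit 267) (nat_lit 123)) (XT.lf (nat_lit 0) (nat_lit 550723990781) (nat_lit 456) (nat_lit 2624690226338) (nat_lit 532) (nat_lit 750185821969) (nat_lit 39) (nat_lit 5) (nat_lit 45) (nat_lit 5) (nat_lit 46) (nat_lit 5) (nat_lit 271) (nat_lit 267) (nat_lit 122)))) (XT.nd (nat_lit 78) (nat_lit 532) (nat_lit 0) (XT.lf (nat_lit 0) (nat_lit 47258172409) (nat_lit 228) (nat_lit 4007572273968) (nat_lit 304) (nat_lit 199298865907) (nat_lit 36) (nat_lit 5) (nat_lit 39) (nat_lit 5) (nat_lit 40) (nat_lit 5)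 (nat_lit 272) (nat_lit 267) (nat_lit 121)) (XT.nd (nat_lit 156) (nat_lit 456) (nat_lit 0) (XT.lf (nat_lit 0) (nat_lit 585900060824) (nat_lit 304) (nat_lit 522580312387) (nat_lit 76) (nat_lit 3508750126797) (nat_lit 35) (nat_lit 5) (nat_lit 39) (nat_lit 5) (nat_lit 36) (nat_lit 5) (nat_lit 273) (nat_lit 267) (nat_lit 120)) (XT.lf (nat_lit 0) (nat_lit 2971351943719) (nat_lit 304) (nat_lit 1936067928024) (nat_lit 76) (nat_lit 569134414547) (nat_lit 29) (nat_lit 5) (nat_lit 33) (nat_lit 5) (nat_lit 30) (nat_lit 5) (nat_lit 275) (nat_lit 267) (nat_lit 118))))))) (XT.nd (nat_lit 34788) (nat_lit 0) (nat_lit 304) (XT.nd (nat_lit 390) (nat_lit 532) (nat_lit 0) (XT.nd (nat_lit 156) (nat_lit 228) (nat_lit 0) (XT.nd (nat_lit 78) (nat_lit 0) (nat_lit 76) (XT.lf (nat_lit 0) (nat_lit 905809423395) (nat_lit 532) (nat_lit 385102130177) (nat_lit 532) (nat_lit 385102130177) (nat_lit 42) (nat_lit 3) (nat_lit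 49) (nat_lit 3) (nat_lit 49) (nat_lit 5) (nat_lit 268) (nat_lit 268) (nat_lit 124)) (XT.lf (nat_lit 0) (nat_lit 2002693321443) (nat_lit 456) (nat_lit 1455622947168) (nat_lit 532) (nat_lit 140696906526) (nat_lit 43) (nat_lit 5) (nat_lit 49) (nat_lit 5) (nat_lit 50) (nat_lit 5) (nat_lit 269) (nat_lit 268) (nat_lit 123))) (XT.nd (nat_lit 78) (nat_lit 304) (nat_lit 0) (XT.lf (nat_lit 76) (nat_lit 1671013756942) (nat_lit 0) (nat_lit 686016074971) (nat_lit 532) (nat_lit 1515248952841) (nat_lit 44) (nat_lit 5) (nat_lit 43) (nat_lit 5) (nat_lit 50) (nat_lit 5) (nat_lit 270) (nat_lit 268) (nat_lit 122)) (XT.nd (nat_lit 78) (nat_lit 380) (nat_lit 0) (XT.lf (nat_lit 76) (nat_lit 1168843409352) (nat_lit 0) (nat_lit 1727440032871) (nat_lit 532) (nat_lit 1279709463736) (nat_lit 45) (nat_lit 5) (nat_lit 44) (nat_lit 5) (nat_lit 51) (nat_lit 5) (nat_lit 271) (nat_lit 268) (nat_lit 121)) (XT.lf (nat_lit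 0) (nat_lit 633332602846) (nat_lit 456) (nat_lit 3018393761328) (nat_lit 532) (nat_lit 862713679567) (nat_lit 39) (nat_lit 5) (nat_lit 45) (nat_lit 5) (nat_lit 46) (nat_lit 5) (nat_lit 272) (nat_lit 268) (nat_lit 120))))) (XT.nd (nat_lit 34164) (nat_lit 0) (nat_lit 836) (XT.nd (nat_lit 156) (nat_lit 304) (nat_lit 0) (XT.lf (nat_lit 0) (nat_lit 54346911710) (nat_lit 228) (nat_lit 4608708114521) (nat_lit 304) (nat_lit 229193681818) (nat_lit 36) (nat_lit 5) (nat_lit 39) (nat_lit 5) (nat_lit 40) (nat_lit 5) (nat_lit 273) (nat_lit 268) (nat_lit 119)) (XT.nd (nat_lit 33930) (nat_lit 0) (nat_lit 760) (XT.lf (nat_lit 0) (nat_lit 1871525068520) (nat_lit 304) (nat_lit 1355626860967) (nat_lit 76) (nat_lit 2548557400232) (nat_lit 32) (nat_lit 5) (nat_lit 36) (nat_lit 5) (nat_lit 33) (nat_lit 5) (nat_lit 275) (nat_lit 268) (nat_lit 117)) (XT.lf (nat_lit 0) (nat_lit 1041680846018) (nat_lit 532) (nat_lit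 442867444766) (nat_lit 532) (nat_lit 442867444766) (nat_lit 42) (nat_lit 3) (nat_lit 49) (nat_lit 3) (nat_lit 49) (nat_lit 5) (nat_lit 269) (nat_lit 269) (nat_lit 122)))) (XT.nd (nat_lit 78) (nat_lit 0) (nat_lit 0) (XT.lf (nat_lit 0) (nat_lit 2303097335557) (nat_lit 456) (nat_lit 1673966378689) (nat_lit 532) (nat_lit 161801435830) (nat_lit 43) (nat_lit 5) (nat_lit 49) (nat_lit 5) (nat_lit 50) (nat_lit 5) (nat_lit 270) (nat_lit 269) (nat_lit 121)) (XT.nd (nat_lit 78) (nat_lit 0) (nat_lit 76) (XT.lf (nat_lit 76) (nat_lit 1921665830145) (nat_lit 0) (nat_lit 788918490612) (nat_lit 532) (nat_lit 1742536280535) (nat_lit 44) (nat_lit 5) (nat_lit 43) (nat_lit 5) (nat_lit 50) (nat_lit 5) (nat_lit 271) (nat_lit 269) (nat_lit 120)) (XT.lf (nat_lit 76) (nat_lit 1344169930772) (nat_lit 0) (nat_lit 1986556040157) (nat_lit 532) (nat_lit 1471665869890) (nat_lit 45) (nat_lit 5) (nat_lit 44) (nat_lit 5)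 (nat_lit 51) (nat_lit 5) (nat_lit 272) (nat_lit 269) (nat_lit 119)))))) (XT.nd (nat_lit 34476) (nat_lit 0) (nat_lit 228) (XT.nd (nat_lit 34242) (nat_lit 0) (nat_lit 532) (XT.nd (nat_lit 78) (nat_lit 228) (nat_lit 0) (XT.lf (nat_lit 0) (nat_lit 728332503441) (nat_lit 456) (nat_lit 3471152826312) (nat_lit 532) (nat_lit 992120719633) (nat_lit 39) (nat_lit 5) (nat_lit 45) (nat_lit 5) (nat_lit 46) (nat_lit 5) (nat_lit 273) (nat_lit 269) (nat_lit 118)) (XT.nd (nat_lit 34086) (nat_lit 0) (nat_lit 456) (XT.lf (nat_lit 0) (nat_lit 62498958630) (nat_lit 228) (nat_lit 5300014331289) (nat_lit 304) (nat_lit 263572723524) (nat_lit 36) (nat_lit 5) (nat_lit 39) (nat_lit 5) (nat_lit 40) (nat_lit 5) (nat_lit 274) (nat_lit 269) (nat_lit 117)) (XT.lf (nat_lit 0) (nat_lit 1197932979812) (nat_lit 532) (nat_lit 509297557747) (nat_lit 532) (nat_lit 509297557747) (nat_lit 42) (nat_lit 3) (nat_lit 49) (nat_lit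 3) (nat_lit 49) (nat_lit 5) (nat_lit 270) (nat_lit 270) (nat_lit 120)))) (XT.nd (nat_lit 78) (nat_lit 0) (nat_lit 0) (XT.lf (nat_lit 0) (nat_lit 2648561947912) (nat_lit 456) (nat_lit 1925061327511) (nat_lit 532) (nat_lit 186071646158) (nat_lit 43) (nat_lit 5) (nat_lit 49) (nat_lit 5) (nat_lit 50) (nat_lit 5) (nat_lit 271) (nat_lit 270) (nat_lit 119)) (XT.nd (nat_lit 78) (nat_lit 0) (nat_lit 76) (XT.lf (nat_lit 76) (nat_lit 2209915711972) (nat_lit 0) (nat_lit 907256267527) (nat_lit 532) (nat_lit 2003916711097) (nat_lit 44) (nat_lit 5) (nat_lit 43) (nat_lit 5) (nat_lit 50) (nat_lit 5) (nat_lit 272) (nat_lit 270) (nat_lit 118)) (XT.lf (nat_lit 76) (nat_lit 1545795427962) (nat_lit 0) (nat_lit 2284539447961) (nat_lit 532) (nat_lit 1692415740236) (nat_lit 45) (nat_lit 5) (nat_lit 44) (nat_lit 5) (nat_lit 51) (nat_lit 5) (nat_lit 273) (nat_lit 270) (nat_lit 117))))) (XT.nd (nat_lit 34320) (nat_lit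 0) (nat_lit 304) (XT.nd (nat_lit 34164) (nat_lit 0) (nat_lit 228) (XT.lf (nat_lit 0) (nat_lit 837582386646) (nat_lit 456) (nat_lit 3991825750853) (nat_lit 532) (nat_lit 1140938818604) (nat_lit 39) (nat_lit 5) (nat_lit 45) (nat_lit 5) (nat_lit 46) (nat_lit 5) (nat_lit 274) (nat_lit 270) (nat_lit 116)) (XT.nd (nat_lit 78) (nat_lit 0) (nat_lit 76) (XT.lf (nat_lit 0) (nat_lit 1377622931994) (nat_lit 532) (nat_lit 585692188585) (nat_lit 532) (nat_lit 585692188585) (nat_lit 42) (nat_lit 3) (nat_lit 49) (nat_lit 3) (nat_lit 49) (nat_lit 5) (nat_lit 271) (nat_lit 271) (nat_lit 118)) (XT.lf (nat_lit 0) (nat_lit 3045846249188) (nat_lit 456) (nat_lit 2213820520603) (nat_lit 532) (nat_lit 213982389265) (nat_lit 43) (nat_lit 5) (nat_lit 49) (nat_lit 5) (nat_lit 50) (nat_lit 5) (nat_lit 272) (nat_lit 271) (nat_lit 117)))) (XT.nd (nat_lit 78) (nat_lit 0) (nat_lit 0) (XT.lf (nat_lit 76) (nat_lit 2541403074292)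 (nat_lit 0) (nat_lit 1043344710169) (nat_lit 532) (nat_lit 2304504209052) (nat_lit 44) (nat_lit 5) (nat_lit 43) (nat_lit 5) (nat_lit 50) (nat_lit 5) (nat_lit 273) (nat_lit 271) (nat_lit 116)) (XT.nd (nat_lit 34320) (nat_lit 76) (nat_lit 0) (XT.lf (nat_lit 76) (nat_lit 1777664747883) (nat_lit 0) (nat_lit 2627220366502) (nat_lit 532) (nat_lit 1946278093605) (nat_lit 45) (nat_lit 5) (nat_lit 44) (nat_lit 5) (nat_lit 51) (nat_lit 5) (nat_lit 274) (nat_lit 271) (nat_lit 115)) (XT.lf (nat_lit 0) (nat_lit 3502723193440) (nat_lit 456) (nat_lit 2545893594131) (nat_lit 532) (nat_lit 246079744770) (nat_lit 43) (nat_lit 5) (nat_lit 49) (nat_lit 5) (nat_lit 50) (nat_lit 5) (nat_lit 273) (nat_lit 272) (nat_lit 115))))))))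

set_option maxRecDepth 10000000 in
noncomputable def Tp : PT := (PT.nd (nat_lit 3827070) (PT.nd (nat_lit 3689322) pc0 pc1) (PT.nd (nat_lit 102648) pc2 pc3))

set_option maxRecDepth 10000000 in
noncomputable def Tx : XT := (XT.nd (nat_lit 6454734) (nat_lit 0) (nat_lit 76) XT.nil (XT.nd (nat_lit 2922894) (nat_lit 0) (nat_lit 0) (XT.nd (nat_lit 1338090) (nat_lit 0) (nat_lit 0) (XT.nd (nat_lit 925392) (nat_lit 0) (nat_lit 0) (XT.nd (nat_lit 651066) (nat_lit 0) (nat_lit 0) (XT.nd (nat_lit 446238) (nat_lit 0) (nat_lit 0) (XT.nd (nat_lit 308958) (nat_lit 0) (nat_lit 0) (XT.nd (nat_lit 206154) (nat_lit 0) (nat_lit 0) xc0 xc1) (XT.nd (nat_lit 68952) (nat_lit 0) (nat_lit 0) xc2 xc3)) (XT.nd (nat_lit 103116) (nat_lit 0) (nat_lit 0) (XT.nd (nat_lit 67704) (nat_lit 0) (nat_lit 0) xc4 xc5) (XT.nd (nat_lit 35256) (nat_lit 0) (nat_lit 0) xc6 xc7))) (XT.nd (nat_lit 138294) (nat_lit 0) (nat_lit 0) (XT.nd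 (nat_lit 69420) (nat_lit 0) (nat_lit 0) (XT.nd (nat_lit 34788) (nat_lit 0) (nat_lit 0) xc8 xc9) (XT.nd (nat_lit 34476) (nat_lit 0) (nat_lit 0) xc10 xc11)) (XT.nd (nat_lit 68328) (nat_lit 0) (nat_lit 0) (XT.nd (nat_lit 34242) (nat_lit 0) (nat_lit 0) xc12 xc13) (XT.nd (nat_lit 33930) (nat_lit 0) (nat_lit 0) xc14 xc15)))) (XT.nd (nat_lit 206466) (nat_lit 0) (nat_lit 0) (XT.nd (nat_lit 103896) (nat_lit 0) (nat_lit 0) (XT.nd (nat_lit 37128) (nat_lit 0) (nat_lit 0) (XT.nd (nat_lit 33540) (nat_lit 0) (nat_lit 0) xc16 xc17) (XT.nd (nat_lit 33462) (nat_lit 0) (nat_lit 0) xc18 xc19)) (XT.nd (nat_lit 36738) (nat_lit 0) (nat_lit 0) (XT.nd (nat_lit 33150) (nat_lit 0) (nat_lit 0) xc20 xc21) (XT.nd (nat_lit 32994) (nat_lit 0) (nat_lit 0) xc22 xc23))) (XT.nd (nat_lit 102726) (nat_lit 0) (nat_lit 0) (XT.nd (nat_lit 36504) (nat_lit 0) (nat_lit 0) (XT.nd (nat_lit 32916) (nat_lit 0) (nat_lit 76) xc24 xc25)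 (XT.nd (nat_lit 33072) (nat_lit 0) (nat_lit 0) xc26 xc27)) (XT.nd (nat_lit 36816) (nat_lit 0) (nat_lit 0) (XT.nd (nat_lit 3588) (nat_lit 0) (nat_lit 0) xc28 xc29) (XT.nd (nat_lit 33306) (nat_lit 0) (nat_lit 0) xc30 xc31))))) (XT.nd (nat_lit 483678) (nat_lit 0) (nat_lit 76) (XT.nd (nat_lit 209196) (nat_lit 0) (nat_lit 0) (XT.nd (nat_lit 104130) (nat_lit 0) (nat_lit 0) (XT.nd (nat_lit 36972) (nat_lit 0) (nat_lit 0) (XT.nd (nat_lit 33384) (nat_lit 0) (nat_lit 76) xc32 xc33) (XT.nd (nat_lit 33540) (nat_lit 0) (nat_lit 0) xc34 xc35)) (XT.nd (nat_lit 67548) (nat_lit 0) (nat_lit 0) (XT.nd (nat_lit 33696) (nat_lit 0) (nat_lit 0) xc36 xc37) (XT.nd (nat_lit 33930) (nat_lit 0) (nat_lit 76) xc38 xc39))) (XT.nd (nat_lit 136500) (nat_lit 0) (nat_lit 76) (XT.nd (nat_lit 68094) (nat_lit 0) (nat_lit 76) (XT.nd (nat_lit 34008) (nat_lit 0) (nat_lit 0) xc40 xc41) (XT.nd (nat_lit 34164) (nat_lit 0) (nat_lit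 0) xc42 xc43)) (XT.nd (nat_lit 68796) (nat_lit 0) (nat_lit 0) (XT.nd (nat_lit 34320) (nat_lit 0) (nat_lit 0) xc44 xc45) (XT.nd (nat_lit 34554) (nat_lit 0) (nat_lit 0) xc46 xc47)))) (XT.nd (nat_lit 343980) (nat_lit 0) (nat_lit 152) (XT.nd (nat_lit 170742) (nat_lit 0) (nat_lit 0) (XT.nd (nat_lit 69420) (nat_lit 0) (nat_lit 0) (XT.nd (nat_lit 34632) (nat_lit 0) (nat_lit 0) xc48 xc49) (XT.nd (nat_lit 66222) (nat_lit 0) (nat_lit 0) xc50 xc51)) (XT.nd (nat_lit 70434) (nat_lit 0) (nat_lit 76) (XT.nd (nat_lit 35178) (nat_lit 0) (nat_lit 0) xc52 xc53) (XT.nd (nat_lit 67236) (nat_lit 0) (nat_lit 76) xc54 xc55))) (XT.nd (nat_lit 240708) (nat_lit 0) (nat_lit 304) (XT.nd (nat_lit 103584) (nat_lit 0) (nat_lit 152) (XT.nd (nat_lit 67782) (nat_lit 0) (nat_lit 76) xc56 xc57) (XT.nd (nat_lit 68406) (nat_lit 0) (nat_lit 76) xc58 xc59)) (XT.nd (nat_lit 171756) (nat_lit 0) (nat_lit 608) (XT.nd (nat_lit 69108)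 (nat_lit 0) (nat_lit 228) xc60 xc61) (XT.nd (nat_lit 103740) (nat_lit 0) (nat_lit 456) xc62 xc63)))))) XT.nil))

set_option maxRecDepth 10000000 in
noncomputable def Te : XT := XT.nil

set_option maxRecDepth 10000000 in
noncomputable def Tz : ZL := (ZL.cons (nat_lit 76) (nat_lit 3) (nat_lit 100744465516124100696) (ZL.cons (nat_lit 152) (nat_lit 6) (nat_lit 189470515116366615174) (ZL.cons (nat_lit 228) (nat_lit 6) (nat_lit 179239051219310121276) (ZL.cons (nat_lit 304) (nat_lit 3) (nat_lit 88784708305885914068) (ZL.cons (nat_lit 380) (nat_lit 6) (nat_lit 167472867737695153290) (ZL.cons (nat_lit 456) (nat_lit 6) (nat_lit 158983327320513351348) (ZL.cons (nat_lit 532) (nat_lit 3) (nat_lit 78765735570022635179) (ZL.cons (nat_lit 608) (nat_lit 6) (nat_lit 149220355840754279116) (ZL.cons (nat_lit 684) (nat_lit 6) (nat_lit 142376913062227355818) (ZL.cons (nat_lit 760) (nat_lit 3) (nat_lit 70557214713518860088)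 (ZL.cons (nat_lit 836) (nat_lit 6) (nat_lit 136867249358797669366) (ZL.cons (nat_lit 912) (nat_lit 6) (nat_lit 134506953866921394030) (ZL.cons (nat_lit 988) (nat_lit 6) (nat_lit 129268652464663894298) (ZL.cons (nat_lit 1064) (nat_lit 3) (nat_lit 64085420303988627302) (ZL.cons (nat_lit 1140) (nat_lit 6) (nat_lit 125297036714568878594) (ZL.cons (nat_lit 1216) (nat_lit 6) (nat_lit 123244605852067769606) (ZL.cons (nat_lit 1292) (nat_lit 3) (nat_lit 60160248104228468906) (ZL.cons (nat_lit 1368) (nat_lit 6) (nat_lit 120866302723336155254) (ZL.cons (nat_lit 1444) (nat_lit 6) (nat_lit 122514401091091009652) (ZL.cons (nat_lit 1520) (nat_lit 6) (nat_lit 119631866745272970840) (ZL.cons (nat_lit 1596) (nat_lit 3) (nat_lit 59338623869729250773) (ZL.cons (nat_lit 1672) (nat_lit 6) (nat_lit 116088455254600033884) (ZL.cons (nat_lit 1748) (nat_lit 6) (nat_lit 117261939261590351380) (ZL.cons (nat_lit 1824)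 (nat_lit 6) (nat_lit 115477216772458952262) (ZL.cons (nat_lit 1900) (nat_lit 3) (nat_lit 56477113078714884825) (ZL.cons (nat_lit 1976) (nat_lit 6) (nat_lit 113581903649540869704) (ZL.cons (nat_lit 2052) (nat_lit 3) (nat_lit 56375900083111969940) (ZL.cons (nat_lit 2128) (nat_lit 6) (nat_lit 111402293558185074764) (ZL.cons (nat_lit 2204) (nat_lit 1) (nat_lit 18446744073709551617) ZL.nil)))))))))))))))))))))))))))))

noncomputable def vl : XL := ⟨(nat_lit 0), (nat_lit 76), (nat_lit 91679095), (nat_lit 152), (nat_lit 251695744), (nat_lit 152), (nat_lit 251695744), (nat_lit 1), (nat_lit 4), (nat_lit 2), (nat_lit 5), (nat_lit 2), (nat_lit 4), (nat_lit 0), (nat_lit 0), (nat_lit 0)⟩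

noncomputable def cp0 : Nat := (nat_lit 9365427223818201357208262771082167097983799390609183659935976932113006055570409155878748830303764209334647641415995528498075560154984903922565361885270017858443066109158882319765991313446412113181039085719738660078104460533051705685881915808388055336029349268793389662447716392580535348067294805527251060787548035656894928823577367162182544382426322594846051415476005828483094755580659713251033814306187244724134483954300885000092386223153130102738019394483640647993079013136415176508063283021252507481983723485949939501030425611990980294166309837286031161966633287717144216448954636791899776981745819661832616511932760594003055469667297404396954460738013437795626529119725290520576)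

noncomputable def cp1 : Nat := (nat_lit 269700758699703187888061202669512466564287340456605797922353108617308614166762305618823024490561408255585445155900775968210302367992731075031167206693331619552396551716864406117907398903258431259414100692560500810388830586525744261490467334045685641229515476169310328050639370353605098430941167960618958204629099211137620812546210007463609488751516700905055422846202284460743847110408177275068980019402093158004660590698497127889061747879547011825319439988304883900340751120317429341292866355207362723812739519081584430788860515637906469201856738799675900252884238061317665736960966272192226044915011444898550164945414394184776906582251861393871496609709559095396860172632608857146154340990274570315993702933063040143031668687395541464964069958659177659623507779889533927242091813829326664731666367156112479295605939148640913595657328129133569934893965961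83661814497693087702168680334485813522987934681140733735100572141020164254892606602599423027729528098787776491261308305815323044546185242715221375725025305776325305970730313429068403889098337228966322937242988505583173865817411334381541916571687327642498215527745082518117877165439241284874534933524667277615252563368689490831651337821932759129058746905372205793057380695808296915292222518551292439955001287028522265087520979331927300112272270563415510014899247790097755601120115209550267520037683680125832220227760579493474372379786543541416652077815970973163102976210906484458760712489908145983577432363919012518139110328150977717933381531283138805025970196245104195272704)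

noncomputable def rc0 : Nat := (nat_lit 269700758699703187888061202669512466564287340456605797922353108617308614166762305618823024490561408255585445155900775968210302367992731075031167206693331619552396551716864406117907398903258431259414100692560500810388830586525744261490467334045685641229515476169310328050639370353605098430941167960618958204629099211137620812546210007463609488751516700905055422846202284460743847110408177275068980019402093158004660590698497127889061747879547011825319439988304883900340751120317429341292866355207362723812739519081584430788860515637906469201856738799675900252884238061317665736960966272192226044915011444898550164945414394184776906582251861393871496609709559095396860172632608857146154340990274570315993702933063040143031668687395541464964069958659177659623507779889533927242091813829326664731666367156112479295605939148640913595657328129133569934893965961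83661814497693087702168680334485813522987934681140733735100572141020164254892606602599423027729528098787776491261308305815323044546185242715221375725025305776325305970730313429068403889098337228966322937242988505583173865817411334381541916571687327642498215527745082518117877165439241284874534933524667277615252563368689490831651337821932759129058746905372205793057380695808296915292222518551292439955001287028522265087520979331927300112272270563415510014899247790097755601120115209550267520037683680125832220227760579493474372379786543541416652077815970973163102976210906484458760712489908145983577432363919012518139110328150977717933381531283138805025970196245104195272704)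

end Vale.Agent.Lib.P154.PChain.BP.S1
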