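import Vale.Agent.Lib.P154.PChain.BP.R1_0

set_option linter.all false

namespace Vale.Agent.Lib.P154.PChain.BP.S2

open Vale.Agent.Lib.P154.Chain

noncomputable def pc0 : PT := (PT.nd (nat_lit 4602780) (PT.nd (nat_lit 4399980) (PT.nd (nat_lit 4318782) (PT.nd (nat_lit 4278144) (PT.nd (nat_lit 4278066) (PT.nd (nat_lit 4237506) PT.nil (PT.lf (nat_lit 76) (nat_lit 3) (nat_lit 1) (nat_lit 1) (nat_lit 143) (nat_lit 104) (nat_lit 143))) (PT.lf (nat_lit 152) (nat_lit 6) (nat_lit 2) (nat_lit 3) (nat_lit 142) (nat_lit 105) (nat_lit 143))) (PT.nd (nat_lit 40482) (PT.lf (nat_lit 152) (nat_lit 6) (nat_lit 2) (nat_lit 1) (nat_lit 143) (nat_lit 105) (nat_lit 142)) (PT.nd (nat_lit 78) (PT.lf (nat_lit 228) (nat_lit 6) (nat_lit 3) (nat_lit 3) (nat_lit 141) (nat_lit 106) (nat_lit 143)) (PT.lf (nat_lit 304) (nat_lit 3) (nat_lit 4) (nat_lit 1) (nat_lit 142) (nat_lit 106) (nat_lit 142))))) (PT.nd (nat_lit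 40560) (PT.nd (nat_lit 40482) (PT.lf (nat_lit 228) (nat_lit 6) (nat_lit 3) (nat_lit 1) (nat_lit 143) (nat_lit 106) (nat_lit 141)) (PT.lf (nat_lit 380) (nat_lit 6) (nat_lit 5) (nat_lit 3) (nat_lit 141) (nat_lit 107) (nat_lit 142))) (PT.nd (nat_lit 40482) (PT.lf (nat_lit 380) (nat_lit 6) (nat_lit 5) (nat_lit 1) (nat_lit 142) (nat_lit 107) (nat_lit 141)) (PT.nd (nat_lit 78) (PT.lf (nat_lit 456) (nat_lit 6) (nat_lit 6) (nat_lit 3) (nat_lit 140) (nat_lit 108) (nat_lit 142)) (PT.lf (nat_lit 532) (nat_lit 3) (nat_lit 7) (nat_lit 1) (nat_lit 141) (nat_lit 108) (nat_lit 141)))))) (PT.nd (nat_lit 81198) (PT.nd (nat_lit 40560) (PT.nd (nat_lit 40482) (PT.lf (nat_lit 456) (nat_lit 6) (nat_lit 6) (nat_lit 1) (nat_lit 142) (nat_lit 108) (nat_lit 140)) (PT.lf (nat_lit 608) (nat_lit 6) (nat_lit 8) (nat_lit 3) (nat_lit 140) (nat_lit 109) (nat_lit 141))) (PT.nd (nat_lit 40482) (PT.lf (nat_lit 608) (nat_lit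 6) (nat_lit 8) (nat_lit 1) (nat_lit 141) (nat_lit 109) (nat_lit 140)) (PT.nd (nat_lit 78) (PT.lf (nat_lit 684) (nat_lit 6) (nat_lit 9) (nat_lit 3) (nat_lit 139) (nat_lit 110) (nat_lit 141)) (PT.lf (nat_lit 760) (nat_lit 3) (nat_lit 10) (nat_lit 1) (nat_lit 140) (nat_lit 110) (nat_lit 140))))) (PT.nd (nat_lit 81042) (PT.nd (nat_lit 40482) (PT.lf (nat_lit 684) (nat_lit 6) (nat_lit 9) (nat_lit 1) (nat_lit 141) (nat_lit 110) (nat_lit 139)) (PT.nd (nat_lit 78) (PT.lf (nat_lit 836) (nat_lit 6) (nat_lit 11) (nat_lit 3) (nat_lit 139) (nat_lit 111) (nat_lit 140)) (PT.lf (nat_lit 836) (nat_lit 6) (nat_lit 11) (nat_lit 1) (nat_lit 140) (nat_lit 111) (nat_lit 139)))) (PT.nd (nat_lit 78) (PT.lf (nat_lit 912) (nat_lit 6) (nat_lit 12) (nat_lit 3) (nat_lit 138) (nat_lit 112) (nat_lit 140)) (PT.nd (nat_lit 78) (PT.lf (nat_lit 988) (nat_lit 3) (nat_lit 13) (nat_lit 1) (nat_lit 139) (nat_lit 112) (nat_lit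 139)) (PT.lf (nat_lit 912) (nat_lit 6) (nat_lit 12) (nat_lit 1) (nat_lit 140) (nat_lit 112) (nat_lit 138))))))) (PT.nd (nat_lit 81432) (PT.nd (nat_lit 40716) (PT.nd (nat_lit 156) (PT.nd (nat_lit 78) (PT.lf (nat_lit 1064) (nat_lit 6) (nat_lit 14) (nat_lit 3) (nat_lit 137) (nat_lit 113) (nat_lit 140)) (PT.lf (nat_lit 1140) (nat_lit 6) (nat_lit 15) (nat_lit 3) (nat_lit 138) (nat_lit 113) (nat_lit 139))) (PT.nd (nat_lit 78) (PT.lf (nat_lit 1140) (nat_lit 6) (nat_lit 15) (nat_lit 1) (nat_lit 139) (nat_lit 113) (nat_lit 138)) (PT.nd (nat_lit 40404) (PT.lf (nat_lit 1064) (nat_lit 6) (nat_lit 14) (nat_lit 1) (nat_lit 140) (nat_lit 113) (nat_lit 137)) (PT.lf (nat_lit 1216) (nat_lit 6) (nat_lit 16) (nat_lit 3) (nat_lit 137) (nat_lit 114) (nat_lit 139))))) (PT.nd (nat_lit 40482) (PT.nd (nat_lit 78) (PT.lf (nat_lit 1292) (nat_lit 3) (nat_lit 17) (nat_lit 1) (nat_lit 138) (nat_lit 114) (nat_lit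 138)) (PT.lf (nat_lit 1216) (nat_lit 6) (nat_lit 16) (nat_lit 1) (nat_lit 139) (nat_lit 114) (nat_lit 137))) (PT.nd (nat_lit 78) (PT.lf (nat_lit 1368) (nat_lit 6) (nat_lit 18) (nat_lit 3) (nat_lit 136) (nat_lit 115) (nat_lit 139)) (PT.nd (nat_lit 78) (PT.lf (nat_lit 1444) (nat_lit 6) (nat_lit 19) (nat_lit 3) (nat_lit 137) (nat_lit 115) (nat_lit 138)) (PT.lf (nat_lit 1444) (nat_lit 6) (nat_lit 19) (nat_lit 1) (nat_lit 138) (nat_lit 115) (nat_lit 137)))))) (PT.nd (nat_lit 81042) (PT.nd (nat_lit 40482) (PT.nd (nat_lit 40404) (PT.lf (nat_lit 1368) (nat_lit 6) (nat_lit 18) (nat_lit 1) (nat_lit 139) (nat_lit 115) (nat_lit 136)) (PT.lf (nat_lit 1520) (nat_lit 6) (nat_lit 20) (nat_lit 3) (nat_lit 136) (nat_lit 116) (nat_lit 138))) (PT.nd (nat_lit 78) (PT.lf (nat_lit 1596) (nat_lit 3) (nat_lit 21) (nat_lit 1) (nat_lit 137) (nat_lit 116) (nat_lit 137)) (PT.nd (nat_lit 40404) (PT.lf (nat_lit 1520)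 (nat_lit 6) (nat_lit 20) (nat_lit 1) (nat_lit 138) (nat_lit 116) (nat_lit 136)) (PT.lf (nat_lit 1672) (nat_lit 6) (nat_lit 22) (nat_lit 3) (nat_lit 135) (nat_lit 117) (nat_lit 138))))) (PT.nd (nat_lit 40482) (PT.nd (nat_lit 78) (PT.lf (nat_lit 1748) (nat_lit 6) (nat_lit 23) (nat_lit 3) (nat_lit 136) (nat_lit 117) (nat_lit 137)) (PT.nd (nat_lit 78) (PT.lf (nat_lit 1748) (nat_lit 6) (nat_lit 23) (nat_lit 1) (nat_lit 137) (nat_lit 117) (nat_lit 136)) (PT.lf (nat_lit 1672) (nat_lit 6) (nat_lit 22) (nat_lit 1) (nat_lit 138) (nat_lit 117) (nat_lit 135)))) (PT.nd (nat_lit 78) (PT.lf (nat_lit 1824) (nat_lit 6) (nat_lit 24) (nat_lit 3) (nat_lit 134) (nat_lit 118) (nat_lit 138)) (PT.nd (nat_lit 78) (PT.lf (nat_lit 1900) (nat_lit 6) (nat_lit 25) (nat_lit 3) (nat_lit 135) (nat_lit 118) (nat_lit 137)) (PT.lf (nat_lit 1976) (nat_lit 3) (nat_lit 26) (nat_lit 1) (nat_lit 136) (nat_lit 118) (nat_lit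 136))))))))
noncomputable def pc1 : PT := (PT.nd (nat_lit 162396) (PT.nd (nat_lit 81276) (PT.nd (nat_lit 40638) (PT.nd (nat_lit 40404) (PT.nd (nat_lit 78) (PT.lf (nat_lit 1900) (nat_lit 6) (nat_lit 25) (nat_lit 1) (nat_lit 137) (nat_lit 118) (nat_lit 135)) (PT.lf (nat_lit 1824) (nat_lit 6) (nat_lit 24) (nat_lit 1) (nat_lit 138) (nat_lit 118) (nat_lit 134))) (PT.nd (nat_lit 78) (PT.lf (nat_lit 2052) (nat_lit 6) (nat_lit 27) (nat_lit 3) (nat_lit 134) (nat_lit 119) (nat_lit 137)) (PT.nd (nat_lit 78) (PT.lf (nat_lit 2128) (nat_lit 6) (nat_lit 28) (nat_lit 3) (nat_lit 135) (nat_lit 119) (nat_lit 136)) (PT.lf (nat_lit 2128) (nat_lit 6) (nat_lit 28) (nat_lit 1) (nat_lit 136) (nat_lit 119) (nat_lit 135))))) (PT.nd (nat_lit 40404) (PT.nd (nat_lit 40326) (PT.lf (nat_lit 2052) (nat_lit 6) (nat_lit 27) (nat_lit 1) (nat_lit 137) (nat_lit 119) (nat_lit 134)) (PT.lf (nat_lit 2204) (nat_lit 6) (nat_lit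 29) (nat_lit 3) (nat_lit 133) (nat_lit 120) (nat_lit 137))) (PT.nd (nat_lit 78) (PT.lf (nat_lit 2280) (nat_lit 6) (nat_lit 30) (nat_lit 3) (nat_lit 134) (nat_lit 120) (nat_lit 136)) (PT.nd (nat_lit 78) (PT.lf (nat_lit 2356) (nat_lit 3) (nat_lit 31) (nat_lit 1) (nat_lit 135) (nat_lit 120) (nat_lit 135)) (PT.lf (nat_lit 2280) (nat_lit 6) (nat_lit 30) (nat_lit 1) (nat_lit 136) (nat_lit 120) (nat_lit 134)))))) (PT.nd (nat_lit 40560) (PT.nd (nat_lit 40326) (PT.nd (nat_lit 40248) (PT.lf (nat_lit 2204) (nat_lit 6) (nat_lit 29) (nat_lit 1) (nat_lit 137) (nat_lit 120) (nat_lit 133)) (PT.lf (nat_lit 2432) (nat_lit 6) (nat_lit 32) (nat_lit 3) (nat_lit 132) (nat_lit 121) (nat_lit 137))) (PT.nd (nat_lit 78) (PT.lf (nat_lit 2508) (nat_lit 6) (nat_lit 33) (nat_lit 3) (nat_lit 133) (nat_lit 121) (nat_lit 136)) (PT.nd (nat_lit 78) (PT.lf (nat_lit 2584) (nat_lit 6) (nat_lit 34) (nat_lit 3) (nat_lit 134)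 (nat_lit 121) (nat_lit 135)) (PT.lf (nat_lit 2584) (nat_lit 6) (nat_lit 34) (nat_lit 1) (nat_lit 135) (nat_lit 121) (nat_lit 134))))) (PT.nd (nat_lit 40326) (PT.nd (nat_lit 78) (PT.lf (nat_lit 2508) (nat_lit 6) (nat_lit 33) (nat_lit 1) (nat_lit 136) (nat_lit 121) (nat_lit 133)) (PT.nd (nat_lit 40170) (PT.lf (nat_lit 2432) (nat_lit 6) (nat_lit 32) (nat_lit 1) (nat_lit 137) (nat_lit 121) (nat_lit 132)) (PT.lf (nat_lit 2660) (nat_lit 6) (nat_lit 35) (nat_lit 3) (nat_lit 131) (nat_lit 122) (nat_lit 137)))) (PT.nd (nat_lit 78) (PT.lf (nat_lit 2736) (nat_lit 6) (nat_lit 36) (nat_lit 3) (nat_lit 132) (nat_lit 122) (nat_lit 136)) (PT.nd (nat_lit 78) (PT.lf (nat_lit 2812) (nat_lit 6) (nat_lit 37) (nat_lit 3) (nat_lit 133) (nat_lit 122) (nat_lit 135)) (PT.lf (nat_lit 2888) (nat_lit 3) (nat_lit 38) (nat_lit 1) (nat_lit 134) (nat_lit 122) (nat_lit 134))))))) (PT.nd (nat_lit 81042) (PT.nd (nat_lit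 40482) (PT.nd (nat_lit 156) (PT.nd (nat_lit 78) (PT.lf (nat_lit 2812) (nat_lit 6) (nat_lit 37) (nat_lit 1) (nat_lit 135) (nat_lit 122) (nat_lit 133)) (PT.lf (nat_lit 2736) (nat_lit 6) (nat_lit 36) (nat_lit 1) (nat_lit 136) (nat_lit 122) (nat_lit 132))) (PT.nd (nat_lit 40170) (PT.lf (nat_lit 2660) (nat_lit 6) (nat_lit 35) (nat_lit 1) (nat_lit 137) (nat_lit 122) (nat_lit 131)) (PT.nd (nat_lit 78) (PT.lf (nat_lit 2964) (nat_lit 6) (nat_lit 39) (nat_lit 3) (nat_lit 131) (nat_lit 123) (nat_lit 136)) (PT.lf (nat_lit 3040) (nat_lit 6) (nat_lit 40) (nat_lit 3) (nat_lit 132) (nat_lit 123) (nat_lit 135))))) (PT.nd (nat_lit 234) (PT.nd (nat_lit 78) (PT.lf (nat_lit 3116) (nat_lit 6) (nat_lit 41) (nat_lit 3) (nat_lit 133) (nat_lit 123) (nat_lit 134)) (PT.nd (nat_lit 78) (PT.lf (nat_lit 3116) (nat_lit 6) (nat_lit 41) (nat_lit 1) (nat_lit 134) (nat_lit 123) (nat_lit 133)) (PT.lf (nat_lit 3040) (nat_lit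 6) (nat_lit 40) (nat_lit 1) (nat_lit 135) (nat_lit 123) (nat_lit 132)))) (PT.nd (nat_lit 40170) (PT.lf (nat_lit 2964) (nat_lit 6) (nat_lit 39) (nat_lit 1) (nat_lit 136) (nat_lit 123) (nat_lit 131)) (PT.nd (nat_lit 78) (PT.lf (nat_lit 3420) (nat_lit 6) (nat_lit 45) (nat_lit 3) (nat_lit 130) (nat_lit 124) (nat_lit 136)) (PT.lf (nat_lit 3496) (nat_lit 6) (nat_lit 46) (nat_lit 3) (nat_lit 131) (nat_lit 124) (nat_lit 135)))))) (PT.nd (nat_lit 40404) (PT.nd (nat_lit 156) (PT.nd (nat_lit 78) (PT.lf (nat_lit 3572) (nat_lit 6) (nat_lit 47) (nat_lit 3) (nat_lit 132) (nat_lit 124) (nat_lit 134)) (PT.lf (nat_lit 3648) (nat_lit 3) (nat_lit 48) (nat_lit 1) (nat_lit 133) (nat_lit 124) (nat_lit 133))) (PT.nd (nat_lit 78) (PT.lf (nat_lit 3572) (nat_lit 6) (nat_lit 47) (nat_lit 1) (nat_lit 134) (nat_lit 124) (nat_lit 132)) (PT.nd (nat_lit 78) (PT.lf (nat_lit 3496) (nat_lit 6) (nat_lit 46) (nat_lit 1)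 (nat_lit 135) (nat_lit 124) (nat_lit 131)) (PT.lf (nat_lit 3420) (nat_lit 6) (nat_lit 45) (nat_lit 1) (nat_lit 136) (nat_lit 124) (nat_lit 130))))) (PT.nd (nat_lit 234) (PT.nd (nat_lit 78) (PT.lf (nat_lit 3344) (nat_lit 6) (nat_lit 44) (nat_lit 3) (nat_lit 129) (nat_lit 125) (nat_lit 136)) (PT.nd (nat_lit 78) (PT.lf (nat_lit 3876) (nat_lit 6) (nat_lit 51) (nat_lit 3) (nat_lit 130) (nat_lit 125) (nat_lit 135)) (PT.lf (nat_lit 3952) (nat_lit 6) (nat_lit 52) (nat_lit 3) (nat_lit 131) (nat_lit 125) (nat_lit 134)))) (PT.nd (nat_lit 78) (PT.lf (nat_lit 4028) (nat_lit 6) (nat_lit 53) (nat_lit 3) (nat_lit 132) (nat_lit 125) (nat_lit 133)) (PT.nd (nat_lit 78) (PT.lf (nat_lit 4028) (nat_lit 6) (nat_lit 53) (nat_lit 1) (nat_lit 133) (nat_lit 125) (nat_lit 132)) (PT.lf (nat_lit 3952) (nat_lit 6) (nat_lit 52) (nat_lit 1) (nat_lit 134) (nat_lit 125) (nat_lit 131))))))))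
noncomputable def pc2 : PT := (PT.nd (nat_lit 121212) (PT.nd (nat_lit 40716) (PT.nd (nat_lit 40326) (PT.nd (nat_lit 40092) (PT.nd (nat_lit 78) (PT.lf (nat_lit 3876) (nat_lit 6) (nat_lit 51) (nat_lit 1) (nat_lit 135) (nat_lit 125) (nat_lit 130)) (PT.lf (nat_lit 3344) (nat_lit 6) (nat_lit 44) (nat_lit 1) (nat_lit 136) (nat_lit 125) (nat_lit 129))) (PT.nd (nat_lit 78) (PT.lf (nat_lit 3268) (nat_lit 6) (nat_lit 43) (nat_lit 3) (nat_lit 128) (nat_lit 126) (nat_lit 136)) (PT.nd (nat_lit 78) (PT.lf (nat_lit 3800) (nat_lit 6) (nat_lit 50) (nat_lit 3) (nat_lit 129) (nat_lit 126) (nat_lit 135)) (PT.lf (nat_lit 4256) (nat_lit 6) (nat_lit 56) (nat_lit 3) (nat_lit 130) (nat_lit 126) (nat_lit 134))))) (PT.nd (nat_lit 156) (PT.nd (nat_lit 78) (PT.lf (nat_lit 4332) (nat_lit 6) (nat_lit 57) (nat_lit 3) (nat_lit 131) (nat_lit 126) (nat_lit 133)) (PT.lf (nat_lit 4408) (nat_lit 3) (nat_lit 58) (nat_lit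 1) (nat_lit 132) (nat_lit 126) (nat_lit 132))) (PT.nd (nat_lit 78) (PT.lf (nat_lit 4332) (nat_lit 6) (nat_lit 57) (nat_lit 1) (nat_lit 133) (nat_lit 126) (nat_lit 131)) (PT.nd (nat_lit 78) (PT.lf (nat_lit 4256) (nat_lit 6) (nat_lit 56) (nat_lit 1) (nat_lit 134) (nat_lit 126) (nat_lit 130)) (PT.lf (nat_lit 3800) (nat_lit 6) (nat_lit 50) (nat_lit 1) (nat_lit 135) (nat_lit 126) (nat_lit 129)))))) (PT.nd (nat_lit 40248) (PT.nd (nat_lit 40014) (PT.nd (nat_lit 39936) (PT.lf (nat_lit 3268) (nat_lit 6) (nat_lit 43) (nat_lit 1) (nat_lit 136) (nat_lit 126) (nat_lit 128)) (PT.lf (nat_lit 3192) (nat_lit 3) (nat_lit 42) (nat_lit 3) (nat_lit 127) (nat_lit 127) (nat_lit 136))) (PT.nd (nat_lit 78) (PT.lf (nat_lit 3724) (nat_lit 6) (nat_lit 49) (nat_lit 3) (nat_lit 128) (nat_lit 127) (nat_lit 135)) (PT.nd (nat_lit 78) (PT.lf (nat_lit 4180) (nat_lit 6) (nat_lit 55) (nat_lit 3) (nat_lit 129) (nat_lit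 127) (nat_lit 134)) (PT.lf (nat_lit 4560) (nat_lit 6) (nat_lit 60) (nat_lit 3) (nat_lit 130) (nat_lit 127) (nat_lit 133))))) (PT.nd (nat_lit 234) (PT.nd (nat_lit 78) (PT.lf (nat_lit 4636) (nat_lit 6) (nat_lit 61) (nat_lit 3) (nat_lit 131) (nat_lit 127) (nat_lit 132)) (PT.nd (nat_lit 78) (PT.lf (nat_lit 4636) (nat_lit 6) (nat_lit 61) (nat_lit 1) (nat_lit 132) (nat_lit 127) (nat_lit 131)) (PT.lf (nat_lit 4560) (nat_lit 6) (nat_lit 60) (nat_lit 1) (nat_lit 133) (nat_lit 127) (nat_lit 130)))) (PT.nd (nat_lit 78) (PT.lf (nat_lit 4180) (nat_lit 6) (nat_lit 55) (nat_lit 1) (nat_lit 134) (nat_lit 127) (nat_lit 129)) (PT.nd (nat_lit 78) (PT.lf (nat_lit 3724) (nat_lit 6) (nat_lit 49) (nat_lit 1) (nat_lit 135) (nat_lit 127) (nat_lit 128)) (PT.lf (nat_lit 3192) (nat_lit 3) (nat_lit 42) (nat_lit 0) (nat_lit 136) (nat_lit 127) (nat_lit 127))))))) (PT.nd (nat_lit 40560) (PT.nd (nat_lit 390) (PT.nd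 (nat_lit 156) (PT.nd (nat_lit 78) (PT.lf (nat_lit 3268) (nat_lit 6) (nat_lit 43) (nat_lit 5) (nat_lit 126) (nat_lit 128) (nat_lit 136)) (PT.lf (nat_lit 3724) (nat_lit 6) (nat_lit 49) (nat_lit 5) (nat_lit 127) (nat_lit 128) (nat_lit 135))) (PT.nd (nat_lit 78) (PT.lf (nat_lit 4104) (nat_lit 3) (nat_lit 54) (nat_lit 3) (nat_lit 128) (nat_lit 128) (nat_lit 134)) (PT.nd (nat_lit 78) (PT.lf (nat_lit 4484) (nat_lit 6) (nat_lit 59) (nat_lit 3) (nat_lit 129) (nat_lit 128) (nat_lit 133)) (PT.lf (nat_lit 4788) (nat_lit 6) (nat_lit 63) (nat_lit 3) (nat_lit 130) (nat_lit 128) (nat_lit 132))))) (PT.nd (nat_lit 234) (PT.nd (nat_lit 78) (PT.lf (nat_lit 4864) (nat_lit 3) (nat_lit 64) (nat_lit 1) (nat_lit 131) (nat_lit 128) (nat_lit 131)) (PT.nd (nat_lit 78) (PT.lf (nat_lit 4788) (nat_lit 6) (nat_lit 63) (nat_lit 1) (nat_lit 132) (nat_lit 128) (nat_lit 130)) (PT.lf (nat_lit 4484) (nat_lit 6) (nat_lit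 59) (nat_lit 1) (nat_lit 133) (nat_lit 128) (nat_lit 129)))) (PT.nd (nat_lit 78) (PT.lf (nat_lit 4104) (nat_lit 3) (nat_lit 54) (nat_lit 0) (nat_lit 134) (nat_lit 128) (nat_lit 128)) (PT.nd (nat_lit 78) (PT.lf (nat_lit 3724) (nat_lit 6) (nat_lit 49) (nat_lit 0) (nat_lit 135) (nat_lit 128) (nat_lit 127)) (PT.lf (nat_lit 3268) (nat_lit 6) (nat_lit 43) (nat_lit 0) (nat_lit 136) (nat_lit 128) (nat_lit 126)))))) (PT.nd (nat_lit 390) (PT.nd (nat_lit 156) (PT.nd (nat_lit 78) (PT.lf (nat_lit 3344) (nat_lit 6) (nat_lit 44) (nat_lit 5) (nat_lit 125) (nat_lit 129) (nat_lit 136)) (PT.lf (nat_lit 3800) (nat_lit 6) (nat_lit 50) (nat_lit 5) (nat_lit 126) (nat_lit 129) (nat_lit 135))) (PT.nd (nat_lit 78) (PT.lf (nat_lit 4180) (nat_lit 6) (nat_lit 55) (nat_lit 5) (nat_lit 127) (nat_lit 129) (nat_lit 134)) (PT.nd (nat_lit 78) (PT.lf (nat_lit 4484) (nat_lit 6) (nat_lit 59) (nat_lit 5) (nat_lit 128) (nat_lit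 129) (nat_lit 133)) (PT.lf (nat_lit 4712) (nat_lit 3) (nat_lit 62) (nat_lit 3) (nat_lit 129) (nat_lit 129) (nat_lit 132))))) (PT.nd (nat_lit 234) (PT.nd (nat_lit 78) (PT.lf (nat_lit 4940) (nat_lit 6) (nat_lit 65) (nat_lit 3) (nat_lit 130) (nat_lit 129) (nat_lit 131)) (PT.nd (nat_lit 78) (PT.lf (nat_lit 4940) (nat_lit 6) (nat_lit 65) (nat_lit 1) (nat_lit 131) (nat_lit 129) (nat_lit 130)) (PT.lf (nat_lit 4712) (nat_lit 3) (nat_lit 62) (nat_lit 0) (nat_lit 132) (nat_lit 129) (nat_lit 129)))) (PT.nd (nat_lit 78) (PT.lf (nat_lit 4484) (nat_lit 6) (nat_lit 59) (nat_lit 0) (nat_lit 133) (nat_lit 129) (nat_lit 128)) (PT.nd (nat_lit 78) (PT.lf (nat_lit 4180) (nat_lit 6) (nat_lit 55) (nat_lit 0) (nat_lit 134) (nat_lit 129) (nat_lit 127)) (PT.lf (nat_lit 3800) (nat_lit 6) (nat_lit 50) (nat_lit 0) (nat_lit 135) (nat_lit 129) (nat_lit 126))))))))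
noncomputable def pc3 : PT := (PT.nd (nat_lit 80730) (PT.nd (nat_lit 40404) (PT.nd (nat_lit 40014) (PT.nd (nat_lit 39780) (PT.nd (nat_lit 39702) (PT.lf (nat_lit 3344) (nat_lit 6) (nat_lit 44) (nat_lit 0) (nat_lit 136) (nat_lit 129) (nat_lit 125)) (PT.lf (nat_lit 3420) (nat_lit 6) (nat_lit 45) (nat_lit 5) (nat_lit 124) (nat_lit 130) (nat_lit 136))) (PT.nd (nat_lit 78) (PT.lf (nat_lit 3876) (nat_lit 6) (nat_lit 51) (nat_lit 5) (nat_lit 125) (nat_lit 130) (nat_lit 135)) (PT.nd (nat_lit 78) (PT.lf (nat_lit 4256) (nat_lit 6) (nat_lit 56) (nat_lit 5) (nat_lit 126) (nat_lit 130) (nat_lit 134)) (PT.lf (nat_lit 4560) (nat_lit 6) (nat_lit 60) (nat_lit 5) (nat_lit 127) (nat_lit 130) (nat_lit 133))))) (PT.nd (nat_lit 156) (PT.nd (nat_lit 78) (PT.lf (nat_lit 4788) (nat_lit 6) (nat_lit 63) (nat_lit 5) (nat_lit 128) (nat_lit 130) (nat_lit 132)) (PT.lf (nat_lit 4940) (nat_lit 6) (nat_lit 65) (nat_lit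 5) (nat_lit 129) (nat_lit 130) (nat_lit 131))) (PT.nd (nat_lit 78) (PT.lf (nat_lit 5016) (nat_lit 1) (nat_lit 66) (nat_lit 0) (nat_lit 130) (nat_lit 130) (nat_lit 130)) (PT.nd (nat_lit 78) (PT.lf (nat_lit 4940) (nat_lit 6) (nat_lit 65) (nat_lit 0) (nat_lit 131) (nat_lit 130) (nat_lit 129)) (PT.lf (nat_lit 4788) (nat_lit 6) (nat_lit 63) (nat_lit 0) (nat_lit 132) (nat_lit 130) (nat_lit 128)))))) (PT.nd (nat_lit 39858) (PT.nd (nat_lit 156) (PT.nd (nat_lit 78) (PT.lf (nat_lit 4560) (nat_lit 6) (nat_lit 60) (nat_lit 0) (nat_lit 133) (nat_lit 130) (nat_lit 127)) (PT.lf (nat_lit 4256) (nat_lit 6) (nat_lit 56) (nat_lit 0) (nat_lit 134) (nat_lit 130) (nat_lit 126))) (PT.nd (nat_lit 78) (PT.lf (nat_lit 3876) (nat_lit 6) (nat_lit 51) (nat_lit 0) (nat_lit 135) (nat_lit 130) (nat_lit 125)) (PT.nd (nat_lit 39546) (PT.lf (nat_lit 3420) (nat_lit 6) (nat_lit 45) (nat_lit 0) (nat_lit 136) (nat_lit 130)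 (nat_lit 124)) (PT.lf (nat_lit 2660) (nat_lit 6) (nat_lit 35) (nat_lit 5) (nat_lit 122) (nat_lit 131) (nat_lit 137))))) (PT.nd (nat_lit 234) (PT.nd (nat_lit 78) (PT.lf (nat_lit 2964) (nat_lit 6) (nat_lit 39) (nat_lit 5) (nat_lit 123) (nat_lit 131) (nat_lit 136)) (PT.nd (nat_lit 78) (PT.lf (nat_lit 3496) (nat_lit 6) (nat_lit 46) (nat_lit 5) (nat_lit 124) (nat_lit 131) (nat_lit 135)) (PT.lf (nat_lit 3952) (nat_lit 6) (nat_lit 52) (nat_lit 5) (nat_lit 125) (nat_lit 131) (nat_lit 134)))) (PT.nd (nat_lit 78) (PT.lf (nat_lit 4332) (nat_lit 6) (nat_lit 57) (nat_lit 5) (nat_lit 126) (nat_lit 131) (nat_lit 133)) (PT.nd (nat_lit 78) (PT.lf (nat_lit 4636) (nat_lit 6) (nat_lit 61) (nat_lit 5) (nat_lit 127) (nat_lit 131) (nat_lit 132)) (PT.lf (nat_lit 4864) (nat_lit 3) (nat_lit 64) (nat_lit 4) (nat_lit 128) (nat_lit 131) (nat_lit 131))))))) (PT.nd (nat_lit 40170) (PT.nd (nat_lit 390) (PT.nd (nat_lit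 156) (PT.nd (nat_lit 78) (PT.lf (nat_lit 4940) (nat_lit 6) (nat_lit 65) (nat_lit 4) (nat_lit 129) (nat_lit 131) (nat_lit 130)) (PT.lf (nat_lit 4940) (nat_lit 6) (nat_lit 65) (nat_lit 2) (nat_lit 130) (nat_lit 131) (nat_lit 129))) (PT.nd (nat_lit 78) (PT.lf (nat_lit 4864) (nat_lit 3) (nat_lit 64) (nat_lit 0) (nat_lit 131) (nat_lit 131) (nat_lit 128)) (PT.nd (nat_lit 78) (PT.lf (nat_lit 4636) (nat_lit 6) (nat_lit 61) (nat_lit 0) (nat_lit 132) (nat_lit 131) (nat_lit 127)) (PT.lf (nat_lit 4332) (nat_lit 6) (nat_lit 57) (nat_lit 0) (nat_lit 133) (nat_lit 131) (nat_lit 126))))) (PT.nd (nat_lit 234) (PT.nd (nat_lit 78) (PT.lf (nat_lit 3952) (nat_lit 6) (nat_lit 52) (nat_lit 0) (nat_lit 134) (nat_lit 131) (nat_lit 125)) (PT.nd (nat_lit 78) (PT.lf (nat_lit 3496) (nat_lit 6) (nat_lit 46) (nat_lit 0) (nat_lit 135) (nat_lit 131) (nat_lit 124)) (PT.lf (nat_lit 2964) (nat_lit 6) (nat_lit 39) (nat_lit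 0) (nat_lit 136) (nat_lit 131) (nat_lit 123)))) (PT.nd (nat_lit 39390) (PT.lf (nat_lit 2660) (nat_lit 6) (nat_lit 35) (nat_lit 0) (nat_lit 137) (nat_lit 131) (nat_lit 122)) (PT.nd (nat_lit 78) (PT.lf (nat_lit 2432) (nat_lit 6) (nat_lit 32) (nat_lit 5) (nat_lit 121) (nat_lit 132) (nat_lit 137)) (PT.lf (nat_lit 2736) (nat_lit 6) (nat_lit 36) (nat_lit 5) (nat_lit 122) (nat_lit 132) (nat_lit 136)))))) (PT.nd (nat_lit 390) (PT.nd (nat_lit 156) (PT.nd (nat_lit 78) (PT.lf (nat_lit 3040) (nat_lit 6) (nat_lit 40) (nat_lit 5) (nat_lit 123) (nat_lit 132) (nat_lit 135)) (PT.lf (nat_lit 3572) (nat_lit 6) (nat_lit 47) (nat_lit 5) (nat_lit 124) (nat_lit 132) (nat_lit 134))) (PT.nd (nat_lit 78) (PT.lf (nat_lit 4028) (nat_lit 6) (nat_lit 53) (nat_lit 5) (nat_lit 125) (nat_lit 132) (nat_lit 133)) (PT.nd (nat_lit 78) (PT.lf (nat_lit 4408) (nat_lit 3) (nat_lit 58) (nat_lit 4) (nat_lit 126) (nat_lit 132)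 (nat_lit 132)) (PT.lf (nat_lit 4636) (nat_lit 6) (nat_lit 61) (nat_lit 4) (nat_lit 127) (nat_lit 132) (nat_lit 131))))) (PT.nd (nat_lit 234) (PT.nd (nat_lit 78) (PT.lf (nat_lit 4788) (nat_lit 6) (nat_lit 63) (nat_lit 4) (nat_lit 128) (nat_lit 132) (nat_lit 130)) (PT.nd (nat_lit 78) (PT.lf (nat_lit 4712) (nat_lit 3) (nat_lit 62) (nat_lit 2) (nat_lit 129) (nat_lit 132) (nat_lit 129)) (PT.lf (nat_lit 4788) (nat_lit 6) (nat_lit 63) (nat_lit 2) (nat_lit 130) (nat_lit 132) (nat_lit 128)))) (PT.nd (nat_lit 78) (PT.lf (nat_lit 4636) (nat_lit 6) (nat_lit 61) (nat_lit 2) (nat_lit 131) (nat_lit 132) (nat_lit 127)) (PT.nd (nat_lit 78) (PT.lf (nat_lit 4408) (nat_lit 3) (nat_lit 58) (nat_lit 0) (nat_lit 132) (nat_lit 132) (nat_lit 126)) (PT.lf (nat_lit 4028) (nat_lit 6) (nat_lit 53) (nat_lit 0) (nat_lit 133) (nat_lit 132) (nat_lit 125))))))))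
noncomputable def pc4 : PT := (PT.nd (nat_lit 40872) (PT.nd (nat_lit 40014) (PT.nd (nat_lit 39624) (PT.nd (nat_lit 156) (PT.nd (nat_lit 78) (PT.lf (nat_lit 3572) (nat_lit 6) (nat_lit 47) (nat_lit 0) (nat_lit 134) (nat_lit 132) (nat_lit 124)) (PT.lf (nat_lit 3040) (nat_lit 6) (nat_lit 40) (nat_lit 0) (nat_lit 135) (nat_lit 132) (nat_lit 123))) (PT.nd (nat_lit 78) (PT.lf (nat_lit 2736) (nat_lit 6) (nat_lit 36) (nat_lit 0) (nat_lit 136) (nat_lit 132) (nat_lit 122)) (PT.nd (nat_lit 39312) (PT.lf (nat_lit 2432) (nat_lit 6) (nat_lit 32) (nat_lit 0) (nat_lit 137) (nat_lit 132) (nat_lit 121)) (PT.lf (nat_lit 2204) (nat_lit 6) (nat_lit 29) (nat_lit 5) (nat_lit 120) (nat_lit 133) (nat_lit 137))))) (PT.nd (nat_lit 156) (PT.nd (nat_lit 78) (PT.lf (nat_lit 2508) (nat_lit 6) (nat_lit 33) (nat_lit 5) (nat_lit 121) (nat_lit 133) (nat_lit 136)) (PT.lf (nat_lit 2812) (nat_lit 6) (nat_lit 37) (nat_lit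 5) (nat_lit 122) (nat_lit 133) (nat_lit 135))) (PT.nd (nat_lit 78) (PT.lf (nat_lit 3116) (nat_lit 6) (nat_lit 41) (nat_lit 5) (nat_lit 123) (nat_lit 133) (nat_lit 134)) (PT.nd (nat_lit 78) (PT.lf (nat_lit 3648) (nat_lit 3) (nat_lit 48) (nat_lit 4) (nat_lit 124) (nat_lit 133) (nat_lit 133)) (PT.lf (nat_lit 4028) (nat_lit 6) (nat_lit 53) (nat_lit 4) (nat_lit 125) (nat_lit 133) (nat_lit 132)))))) (PT.nd (nat_lit 390) (PT.nd (nat_lit 156) (PT.nd (nat_lit 78) (PT.lf (nat_lit 4332) (nat_lit 6) (nat_lit 57) (nat_lit 4) (nat_lit 126) (nat_lit 133) (nat_lit 131)) (PT.lf (nat_lit 4560) (nat_lit 6) (nat_lit 60) (nat_lit 4) (nat_lit 127) (nat_lit 133) (nat_lit 130))) (PT.nd (nat_lit 78) (PT.lf (nat_lit 4484) (nat_lit 6) (nat_lit 59) (nat_lit 4) (nat_lit 128) (nat_lit 133) (nat_lit 129)) (PT.nd (nat_lit 78) (PT.lf (nat_lit 4484) (nat_lit 6) (nat_lit 59) (nat_lit 2) (nat_lit 129) (nat_lit 133) (nat_lit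 128)) (PT.lf (nat_lit 4560) (nat_lit 6) (nat_lit 60) (nat_lit 2) (nat_lit 130) (nat_lit 133) (nat_lit 127))))) (PT.nd (nat_lit 234) (PT.nd (nat_lit 78) (PT.lf (nat_lit 4332) (nat_lit 6) (nat_lit 57) (nat_lit 2) (nat_lit 131) (nat_lit 133) (nat_lit 126)) (PT.nd (nat_lit 78) (PT.lf (nat_lit 4028) (nat_lit 6) (nat_lit 53) (nat_lit 2) (nat_lit 132) (nat_lit 133) (nat_lit 125)) (PT.lf (nat_lit 3648) (nat_lit 3) (nat_lit 48) (nat_lit 0) (nat_lit 133) (nat_lit 133) (nat_lit 124)))) (PT.nd (nat_lit 78) (PT.lf (nat_lit 3116) (nat_lit 6) (nat_lit 41) (nat_lit 0) (nat_lit 134) (nat_lit 133) (nat_lit 123)) (PT.nd (nat_lit 78) (PT.lf (nat_lit 2812) (nat_lit 6) (nat_lit 37) (nat_lit 0) (nat_lit 135) (nat_lit 133) (nat_lit 122)) (PT.lf (nat_lit 2508) (nat_lit 6) (nat_lit 33) (nat_lit 0) (nat_lit 136) (nat_lit 133) (nat_lit 121))))))) (PT.nd (nat_lit 39936) (PT.nd (nat_lit 39468) (PT.nd (nat_lit 39234)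 (PT.nd (nat_lit 39156) (PT.lf (nat_lit 2204) (nat_lit 6) (nat_lit 29) (nat_lit 0) (nat_lit 137) (nat_lit 133) (nat_lit 120)) (PT.lf (nat_lit 1824) (nat_lit 6) (nat_lit 24) (nat_lit 5) (nat_lit 118) (nat_lit 134) (nat_lit 138))) (PT.nd (nat_lit 78) (PT.lf (nat_lit 2052) (nat_lit 6) (nat_lit 27) (nat_lit 5) (nat_lit 119) (nat_lit 134) (nat_lit 137)) (PT.nd (nat_lit 78) (PT.lf (nat_lit 2280) (nat_lit 6) (nat_lit 30) (nat_lit 5) (nat_lit 120) (nat_lit 134) (nat_lit 136)) (PT.lf (nat_lit 2584) (nat_lit 6) (nat_lit 34) (nat_lit 5) (nat_lit 121) (nat_lit 134) (nat_lit 135))))) (PT.nd (nat_lit 234) (PT.nd (nat_lit 78) (PT.lf (nat_lit 2888) (nat_lit 3) (nat_lit 38) (nat_lit 4) (nat_lit 122) (nat_lit 134) (nat_lit 134)) (PT.nd (nat_lit 78) (PT.lf (nat_lit 3116) (nat_lit 6) (nat_lit 41) (nat_lit 4) (nat_lit 123) (nat_lit 134) (nat_lit 133)) (PT.lf (nat_lit 3572) (nat_lit 6) (nat_lit 47) (nat_lit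 4) (nat_lit 124) (nat_lit 134) (nat_lit 132)))) (PT.nd (nat_lit 78) (PT.lf (nat_lit 3952) (nat_lit 6) (nat_lit 52) (nat_lit 4) (nat_lit 125) (nat_lit 134) (nat_lit 131)) (PT.nd (nat_lit 78) (PT.lf (nat_lit 4256) (nat_lit 6) (nat_lit 56) (nat_lit 4) (nat_lit 126) (nat_lit 134) (nat_lit 130)) (PT.lf (nat_lit 4180) (nat_lit 6) (nat_lit 55) (nat_lit 4) (nat_lit 127) (nat_lit 134) (nat_lit 129)))))) (PT.nd (nat_lit 390) (PT.nd (nat_lit 156) (PT.nd (nat_lit 78) (PT.lf (nat_lit 4104) (nat_lit 3) (nat_lit 54) (nat_lit 2) (nat_lit 128) (nat_lit 134) (nat_lit 128)) (PT.lf (nat_lit 4180) (nat_lit 6) (nat_lit 55) (nat_lit 2) (nat_lit 129) (nat_lit 134) (nat_lit 127))) (PT.nd (nat_lit 78) (PT.lf (nat_lit 4256) (nat_lit 6) (nat_lit 56) (nat_lit 2) (nat_lit 130) (nat_lit 134) (nat_lit 126)) (PT.nd (nat_lit 78) (PT.lf (nat_lit 3952) (nat_lit 6) (nat_lit 52) (nat_lit 2) (nat_lit 131) (nat_lit 134) (nat_lit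 125)) (PT.lf (nat_lit 3572) (nat_lit 6) (nat_lit 47) (nat_lit 2) (nat_lit 132) (nat_lit 134) (nat_lit 124))))) (PT.nd (nat_lit 234) (PT.nd (nat_lit 78) (PT.lf (nat_lit 3116) (nat_lit 6) (nat_lit 41) (nat_lit 2) (nat_lit 133) (nat_lit 134) (nat_lit 123)) (PT.nd (nat_lit 78) (PT.lf (nat_lit 2888) (nat_lit 3) (nat_lit 38) (nat_lit 0) (nat_lit 134) (nat_lit 134) (nat_lit 122)) (PT.lf (nat_lit 2584) (nat_lit 6) (nat_lit 34) (nat_lit 0) (nat_lit 135) (nat_lit 134) (nat_lit 121)))) (PT.nd (nat_lit 78) (PT.lf (nat_lit 2280) (nat_lit 6) (nat_lit 30) (nat_lit 0) (nat_lit 136) (nat_lit 134) (nat_lit 120)) (PT.nd (nat_lit 78) (PT.lf (nat_lit 2052) (nat_lit 6) (nat_lit 27) (nat_lit 0) (nat_lit 137) (nat_lit 134) (nat_lit 119)) (PT.lf (nat_lit 1824) (nat_lit 6) (nat_lit 24) (nat_lit 0) (nat_lit 138) (nat_lit 134) (nat_lit 118))))))))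
noncomputable def pc5 : PT := (PT.nd (nat_lit 1638) (PT.nd (nat_lit 780) (PT.nd (nat_lit 390) (PT.nd (nat_lit 156) (PT.nd (nat_lit 78) (PT.lf (nat_lit 1672) (nat_lit 6) (nat_lit 22) (nat_lit 5) (nat_lit 117) (nat_lit 135) (nat_lit 138)) (PT.lf (nat_lit 1900) (nat_lit 6) (nat_lit 25) (nat_lit 5) (nat_lit 118) (nat_lit 135) (nat_lit 137))) (PT.nd (nat_lit 78) (PT.lf (nat_lit 2128) (nat_lit 6) (nat_lit 28) (nat_lit 5) (nat_lit 119) (nat_lit 135) (nat_lit 136)) (PT.nd (nat_lit 78) (PT.lf (nat_lit 2356) (nat_lit 3) (nat_lit 31) (nat_lit 4) (nat_lit 120) (nat_lit 135) (nat_lit 135)) (PT.lf (nat_lit 2584) (nat_lit 6) (nat_lit 34) (nat_lit 4) (nat_lit 121) (nat_lit 135) (nat_lit 134))))) (PT.nd (nat_lit 156) (PT.nd (nat_lit 78) (PT.lf (nat_lit 2812) (nat_lit 6) (nat_lit 37) (nat_lit 4) (nat_lit 122) (nat_lit 135) (nat_lit 133)) (PT.lf (nat_lit 3040) (nat_lit 6) (nat_lit 40) (nat_lit 4) (nat_lit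 123) (nat_lit 135) (nat_lit 132))) (PT.nd (nat_lit 78) (PT.lf (nat_lit 3496) (nat_lit 6) (nat_lit 46) (nat_lit 4) (nat_lit 124) (nat_lit 135) (nat_lit 131)) (PT.nd (nat_lit 78) (PT.lf (nat_lit 3876) (nat_lit 6) (nat_lit 51) (nat_lit 4) (nat_lit 125) (nat_lit 135) (nat_lit 130)) (PT.lf (nat_lit 3800) (nat_lit 6) (nat_lit 50) (nat_lit 4) (nat_lit 126) (nat_lit 135) (nat_lit 129)))))) (PT.nd (nat_lit 390) (PT.nd (nat_lit 156) (PT.nd (nat_lit 78) (PT.lf (nat_lit 3724) (nat_lit 6) (nat_lit 49) (nat_lit 4) (nat_lit 127) (nat_lit 135) (nat_lit 128)) (PT.lf (nat_lit 3724) (nat_lit 6) (nat_lit 49) (nat_lit 2) (nat_lit 128) (nat_lit 135) (nat_lit 127))) (PT.nd (nat_lit 78) (PT.lf (nat_lit 3800) (nat_lit 6) (nat_lit 50) (nat_lit 2) (nat_lit 129) (nat_lit 135) (nat_lit 126)) (PT.nd (nat_lit 78) (PT.lf (nat_lit 3876) (nat_lit 6) (nat_lit 51) (nat_lit 2) (nat_lit 130) (nat_lit 135) (nat_lit 125))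 (PT.lf (nat_lit 3496) (nat_lit 6) (nat_lit 46) (nat_lit 2) (nat_lit 131) (nat_lit 135) (nat_lit 124))))) (PT.nd (nat_lit 234) (PT.nd (nat_lit 78) (PT.lf (nat_lit 3040) (nat_lit 6) (nat_lit 40) (nat_lit 2) (nat_lit 132) (nat_lit 135) (nat_lit 123)) (PT.nd (nat_lit 78) (PT.lf (nat_lit 2812) (nat_lit 6) (nat_lit 37) (nat_lit 2) (nat_lit 133) (nat_lit 135) (nat_lit 122)) (PT.lf (nat_lit 2584) (nat_lit 6) (nat_lit 34) (nat_lit 2) (nat_lit 134) (nat_lit 135) (nat_lit 121)))) (PT.nd (nat_lit 78) (PT.lf (nat_lit 2356) (nat_lit 3) (nat_lit 31) (nat_lit 0) (nat_lit 135) (nat_lit 135) (nat_lit 120)) (PT.nd (nat_lit 78) (PT.lf (nat_lit 2128) (nat_lit 6) (nat_lit 28) (nat_lit 0) (nat_lit 136) (nat_lit 135) (nat_lit 119)) (PT.lf (nat_lit 1900) (nat_lit 6) (nat_lit 25) (nat_lit 0) (nat_lit 137) (nat_lit 135) (nat_lit 118))))))) (PT.nd (nat_lit 39624) (PT.nd (nat_lit 39156) (PT.nd (nat_lit 38922) (PT.nd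 (nat_lit 38844) (PT.lf (nat_lit 1672) (nat_lit 6) (nat_lit 22) (nat_lit 0) (nat_lit 138) (nat_lit 135) (nat_lit 117)) (PT.lf (nat_lit 1368) (nat_lit 6) (nat_lit 18) (nat_lit 5) (nat_lit 115) (nat_lit 136) (nat_lit 139))) (PT.nd (nat_lit 78) (PT.lf (nat_lit 1520) (nat_lit 6) (nat_lit 20) (nat_lit 5) (nat_lit 116) (nat_lit 136) (nat_lit 138)) (PT.nd (nat_lit 78) (PT.lf (nat_lit 1748) (nat_lit 6) (nat_lit 23) (nat_lit 5) (nat_lit 117) (nat_lit 136) (nat_lit 137)) (PT.lf (nat_lit 1976) (nat_lit 3) (nat_lit 26) (nat_lit 4) (nat_lit 118) (nat_lit 136) (nat_lit 136))))) (PT.nd (nat_lit 234) (PT.nd (nat_lit 78) (PT.lf (nat_lit 2128) (nat_lit 6) (nat_lit 28) (nat_lit 4) (nat_lit 119) (nat_lit 136) (nat_lit 135)) (PT.nd (nat_lit 78) (PT.lf (nat_lit 2280) (nat_lit 6) (nat_lit 30) (nat_lit 4) (nat_lit 120) (nat_lit 136) (nat_lit 134)) (PT.lf (nat_lit 2508) (nat_lit 6) (nat_lit 33) (nat_lit 4) (nat_lit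 121) (nat_lit 136) (nat_lit 133)))) (PT.nd (nat_lit 78) (PT.lf (nat_lit 2736) (nat_lit 6) (nat_lit 36) (nat_lit 4) (nat_lit 122) (nat_lit 136) (nat_lit 132)) (PT.nd (nat_lit 78) (PT.lf (nat_lit 2964) (nat_lit 6) (nat_lit 39) (nat_lit 4) (nat_lit 123) (nat_lit 136) (nat_lit 131)) (PT.lf (nat_lit 3420) (nat_lit 6) (nat_lit 45) (nat_lit 4) (nat_lit 124) (nat_lit 136) (nat_lit 130)))))) (PT.nd (nat_lit 390) (PT.nd (nat_lit 156) (PT.nd (nat_lit 78) (PT.lf (nat_lit 3344) (nat_lit 6) (nat_lit 44) (nat_lit 4) (nat_lit 125) (nat_lit 136) (nat_lit 129)) (PT.lf (nat_lit 3268) (nat_lit 6) (nat_lit 43) (nat_lit 4) (nat_lit 126) (nat_lit 136) (nat_lit 128))) (PT.nd (nat_lit 78) (PT.lf (nat_lit 3192) (nat_lit 3) (nat_lit 42) (nat_lit 2) (nat_lit 127) (nat_lit 136) (nat_lit 127)) (PT.nd (nat_lit 78) (PT.lf (nat_lit 3268) (nat_lit 6) (nat_lit 43) (nat_lit 2) (nat_lit 128) (nat_lit 136) (nat_lit 126))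 (PT.lf (nat_lit 3344) (nat_lit 6) (nat_lit 44) (nat_lit 2) (nat_lit 129) (nat_lit 136) (nat_lit 125))))) (PT.nd (nat_lit 234) (PT.nd (nat_lit 78) (PT.lf (nat_lit 3420) (nat_lit 6) (nat_lit 45) (nat_lit 2) (nat_lit 130) (nat_lit 136) (nat_lit 124)) (PT.nd (nat_lit 78) (PT.lf (nat_lit 2964) (nat_lit 6) (nat_lit 39) (nat_lit 2) (nat_lit 131) (nat_lit 136) (nat_lit 123)) (PT.lf (nat_lit 2736) (nat_lit 6) (nat_lit 36) (nat_lit 2) (nat_lit 132) (nat_lit 136) (nat_lit 122)))) (PT.nd (nat_lit 78) (PT.lf (nat_lit 2508) (nat_lit 6) (nat_lit 33) (nat_lit 2) (nat_lit 133) (nat_lit 136) (nat_lit 121)) (PT.nd (nat_lit 78) (PT.lf (nat_lit 2280) (nat_lit 6) (nat_lit 30) (nat_lit 2) (nat_lit 134) (nat_lit 136) (nat_lit 120)) (PT.lf (nat_lit 2128) (nat_lit 6) (nat_lit 28) (nat_lit 2) (nat_lit 135) (nat_lit 136) (nat_lit 119))))))))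
noncomputable def pc6 : PT := (PT.nd (nat_lit 40794) (PT.nd (nat_lit 39312) (PT.nd (nat_lit 38922) (PT.nd (nat_lit 156) (PT.nd (nat_lit 78) (PT.lf (nat_lit 1976) (nat_lit 3) (nat_lit 26) (nat_lit 0) (nat_lit 136) (nat_lit 136) (nat_lit 118)) (PT.lf (nat_lit 1748) (nat_lit 6) (nat_lit 23) (nat_lit 0) (nat_lit 137) (nat_lit 136) (nat_lit 117))) (PT.nd (nat_lit 78) (PT.lf (nat_lit 1520) (nat_lit 6) (nat_lit 20) (nat_lit 0) (nat_lit 138) (nat_lit 136) (nat_lit 116)) (PT.nd (nat_lit 38610) (PT.lf (nat_lit 1368) (nat_lit 6) (nat_lit 18) (nat_lit 0) (nat_lit 139) (nat_lit 136) (nat_lit 115)) (PT.lf (nat_lit 1064) (nat_lit 6) (nat_lit 14) (nat_lit 5) (nat_lit 113) (nat_lit 137) (nat_lit 140))))) (PT.nd (nat_lit 156) (PT.nd (nat_lit 78) (PT.lf (nat_lit 1216) (nat_lit 6) (nat_lit 16) (nat_lit 5) (nat_lit 114) (nat_lit 137) (nat_lit 139)) (PT.lf (nat_lit 1444) (nat_lit 6) (nat_lit 19) (nat_lit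 5) (nat_lit 115) (nat_lit 137) (nat_lit 138))) (PT.nd (nat_lit 78) (PT.lf (nat_lit 1596) (nat_lit 3) (nat_lit 21) (nat_lit 4) (nat_lit 116) (nat_lit 137) (nat_lit 137)) (PT.nd (nat_lit 78) (PT.lf (nat_lit 1748) (nat_lit 6) (nat_lit 23) (nat_lit 4) (nat_lit 117) (nat_lit 137) (nat_lit 136)) (PT.lf (nat_lit 1900) (nat_lit 6) (nat_lit 25) (nat_lit 4) (nat_lit 118) (nat_lit 137) (nat_lit 135)))))) (PT.nd (nat_lit 1014) (PT.nd (nat_lit 156) (PT.nd (nat_lit 78) (PT.lf (nat_lit 2052) (nat_lit 6) (nat_lit 27) (nat_lit 4) (nat_lit 119) (nat_lit 137) (nat_lit 134)) (PT.lf (nat_lit 2204) (nat_lit 6) (nat_lit 29) (nat_lit 4) (nat_lit 120) (nat_lit 137) (nat_lit 133))) (PT.nd (nat_lit 78) (PT.lf (nat_lit 2432) (nat_lit 6) (nat_lit 32) (nat_lit 4) (nat_lit 121) (nat_lit 137) (nat_lit 132)) (PT.nd (nat_lit 702) (PT.lf (nat_lit 2660) (nat_lit 6) (nat_lit 35) (nat_lit 4) (nat_lit 122) (nat_lit 137)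 (nat_lit 131)) (PT.lf (nat_lit 2660) (nat_lit 6) (nat_lit 35) (nat_lit 2) (nat_lit 131) (nat_lit 137) (nat_lit 122))))) (PT.nd (nat_lit 234) (PT.nd (nat_lit 78) (PT.lf (nat_lit 2432) (nat_lit 6) (nat_lit 32) (nat_lit 2) (nat_lit 132) (nat_lit 137) (nat_lit 121)) (PT.nd (nat_lit 78) (PT.lf (nat_lit 2204) (nat_lit 6) (nat_lit 29) (nat_lit 2) (nat_lit 133) (nat_lit 137) (nat_lit 120)) (PT.lf (nat_lit 2052) (nat_lit 6) (nat_lit 27) (nat_lit 2) (nat_lit 134) (nat_lit 137) (nat_lit 119)))) (PT.nd (nat_lit 78) (PT.lf (nat_lit 1900) (nat_lit 6) (nat_lit 25) (nat_lit 2) (nat_lit 135) (nat_lit 137) (nat_lit 118)) (PT.nd (nat_lit 78) (PT.lf (nat_lit 1748) (nat_lit 6) (nat_lit 23) (nat_lit 2) (nat_lit 136) (nat_lit 137) (nat_lit 117)) (PT.lf (nat_lit 1596) (nat_lit 3) (nat_lit 21) (nat_lit 0) (nat_lit 137) (nat_lit 137) (nat_lit 116))))))) (PT.nd (nat_lit 40404) (PT.nd (nat_lit 38766) (PT.nd (nat_lit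 156) (PT.nd (nat_lit 78) (PT.lf (nat_lit 1444) (nat_lit 6) (nat_lit 19) (nat_lit 0) (nat_lit 138) (nat_lit 137) (nat_lit 115)) (PT.lf (nat_lit 1216) (nat_lit 6) (nat_lit 16) (nat_lit 0) (nat_lit 139) (nat_lit 137) (nat_lit 114))) (PT.nd (nat_lit 38454) (PT.lf (nat_lit 1064) (nat_lit 6) (nat_lit 14) (nat_lit 0) (nat_lit 140) (nat_lit 137) (nat_lit 113)) (PT.nd (nat_lit 78) (PT.lf (nat_lit 912) (nat_lit 6) (nat_lit 12) (nat_lit 5) (nat_lit 112) (nat_lit 138) (nat_lit 140)) (PT.lf (nat_lit 1140) (nat_lit 6) (nat_lit 15) (nat_lit 5) (nat_lit 113) (nat_lit 138) (nat_lit 139))))) (PT.nd (nat_lit 234) (PT.nd (nat_lit 78) (PT.lf (nat_lit 1292) (nat_lit 3) (nat_lit 17) (nat_lit 4) (nat_lit 114) (nat_lit 138) (nat_lit 138)) (PT.nd (nat_lit 78) (PT.lf (nat_lit 1444) (nat_lit 6) (nat_lit 19) (nat_lit 4) (nat_lit 115) (nat_lit 138) (nat_lit 137)) (PT.lf (nat_lit 1520) (nat_lit 6) (nat_lit 20) (nat_lit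 4) (nat_lit 116) (nat_lit 138) (nat_lit 136)))) (PT.nd (nat_lit 78) (PT.lf (nat_lit 1672) (nat_lit 6) (nat_lit 22) (nat_lit 4) (nat_lit 117) (nat_lit 138) (nat_lit 135)) (PT.nd (nat_lit 1248) (PT.lf (nat_lit 1824) (nat_lit 6) (nat_lit 24) (nat_lit 4) (nat_lit 118) (nat_lit 138) (nat_lit 134)) (PT.lf (nat_lit 1824) (nat_lit 6) (nat_lit 24) (nat_lit 2) (nat_lit 134) (nat_lit 138) (nat_lit 118)))))) (PT.nd (nat_lit 390) (PT.nd (nat_lit 156) (PT.nd (nat_lit 78) (PT.lf (nat_lit 1672) (nat_lit 6) (nat_lit 22) (nat_lit 2) (nat_lit 135) (nat_lit 138) (nat_lit 117)) (PT.lf (nat_lit 1520) (nat_lit 6) (nat_lit 20) (nat_lit 2) (nat_lit 136) (nat_lit 138) (nat_lit 116))) (PT.nd (nat_lit 78) (PT.lf (nat_lit 1444) (nat_lit 6) (nat_lit 19) (nat_lit 2) (nat_lit 137) (nat_lit 138) (nat_lit 115)) (PT.nd (nat_lit 78) (PT.lf (nat_lit 1292) (nat_lit 3) (nat_lit 17) (nat_lit 0) (nat_lit 138) (nat_lit 138)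 (nat_lit 114)) (PT.lf (nat_lit 1140) (nat_lit 6) (nat_lit 15) (nat_lit 0) (nat_lit 139) (nat_lit 138) (nat_lit 113))))) (PT.nd (nat_lit 38454) (PT.nd (nat_lit 38298) (PT.lf (nat_lit 912) (nat_lit 6) (nat_lit 12) (nat_lit 0) (nat_lit 140) (nat_lit 138) (nat_lit 112)) (PT.nd (nat_lit 78) (PT.lf (nat_lit 684) (nat_lit 6) (nat_lit 9) (nat_lit 5) (nat_lit 110) (nat_lit 139) (nat_lit 141)) (PT.lf (nat_lit 836) (nat_lit 6) (nat_lit 11) (nat_lit 5) (nat_lit 111) (nat_lit 139) (nat_lit 140)))) (PT.nd (nat_lit 78) (PT.lf (nat_lit 988) (nat_lit 3) (nat_lit 13) (nat_lit 4) (nat_lit 112) (nat_lit 139) (nat_lit 139)) (PT.nd (nat_lit 78) (PT.lf (nat_lit 1140) (nat_lit 6) (nat_lit 15) (nat_lit 4) (nat_lit 113) (nat_lit 139) (nat_lit 138)) (PT.lf (nat_lit 1216) (nat_lit 6) (nat_lit 16) (nat_lit 4) (nat_lit 114) (nat_lit 139) (nat_lit 137))))))))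
noncomputable def pc7 : PT := (PT.nd (nat_lit 80730) (PT.nd (nat_lit 40326) (PT.nd (nat_lit 1950) (PT.nd (nat_lit 1716) (PT.nd (nat_lit 1638) (PT.lf (nat_lit 1368) (nat_lit 6) (nat_lit 18) (nat_lit 4) (nat_lit 115) (nat_lit 139) (nat_lit 136)) (PT.lf (nat_lit 1368) (nat_lit 6) (nat_lit 18) (nat_lit 2) (nat_lit 136) (nat_lit 139) (nat_lit 115))) (PT.nd (nat_lit 78) (PT.lf (nat_lit 1216) (nat_lit 6) (nat_lit 16) (nat_lit 2) (nat_lit 137) (nat_lit 139) (nat_lit 114)) (PT.nd (nat_lit 78) (PT.lf (nat_lit 1140) (nat_lit 6) (nat_lit 15) (nat_lit 2) (nat_lit 138) (nat_lit 139) (nat_lit 113)) (PT.lf (nat_lit 988) (nat_lit 3) (nat_lit 13) (nat_lit 0) (nat_lit 139) (nat_lit 139) (nat_lit 112))))) (PT.nd (nat_lit 38142) (PT.nd (nat_lit 78) (PT.lf (nat_lit 836) (nat_lit 6) (nat_lit 11) (nat_lit 0) (nat_lit 140) (nat_lit 139) (nat_lit 111)) (PT.lf (nat_lit 684) (nat_lit 6) (nat_lit 9) (nat_lit 0)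 (nat_lit 141) (nat_lit 139) (nat_lit 110))) (PT.nd (nat_lit 78) (PT.lf (nat_lit 456) (nat_lit 6) (nat_lit 6) (nat_lit 5) (nat_lit 108) (nat_lit 140) (nat_lit 142)) (PT.nd (nat_lit 78) (PT.lf (nat_lit 608) (nat_lit 6) (nat_lit 8) (nat_lit 5) (nat_lit 109) (nat_lit 140) (nat_lit 141)) (PT.lf (nat_lit 760) (nat_lit 3) (nat_lit 10) (nat_lit 4) (nat_lit 110) (nat_lit 140) (nat_lit 140)))))) (PT.nd (nat_lit 2184) (PT.nd (nat_lit 156) (PT.nd (nat_lit 78) (PT.lf (nat_lit 836) (nat_lit 6) (nat_lit 11) (nat_lit 4) (nat_lit 111) (nat_lit 140) (nat_lit 139)) (PT.lf (nat_lit 912) (nat_lit 6) (nat_lit 12) (nat_lit 4) (nat_lit 112) (nat_lit 140) (nat_lit 138))) (PT.nd (nat_lit 1872) (PT.lf (nat_lit 1064) (nat_lit 6) (nat_lit 14) (nat_lit 4) (nat_lit 113) (nat_lit 140) (nat_lit 137)) (PT.nd (nat_lit 78) (PT.lf (nat_lit 1064) (nat_lit 6) (nat_lit 14) (nat_lit 2) (nat_lit 137) (nat_lit 140) (nat_lit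 113)) (PT.lf (nat_lit 912) (nat_lit 6) (nat_lit 12) (nat_lit 2) (nat_lit 138) (nat_lit 140) (nat_lit 112))))) (PT.nd (nat_lit 234) (PT.nd (nat_lit 78) (PT.lf (nat_lit 836) (nat_lit 6) (nat_lit 11) (nat_lit 2) (nat_lit 139) (nat_lit 140) (nat_lit 111)) (PT.nd (nat_lit 78) (PT.lf (nat_lit 760) (nat_lit 3) (nat_lit 10) (nat_lit 0) (nat_lit 140) (nat_lit 140) (nat_lit 110)) (PT.lf (nat_lit 608) (nat_lit 6) (nat_lit 8) (nat_lit 0) (nat_lit 141) (nat_lit 140) (nat_lit 109)))) (PT.nd (nat_lit 37830) (PT.lf (nat_lit 456) (nat_lit 6) (nat_lit 6) (nat_lit 0) (nat_lit 142) (nat_lit 140) (nat_lit 108)) (PT.nd (nat_lit 78) (PT.lf (nat_lit 228) (nat_lit 6) (nat_lit 3) (nat_lit 5) (nat_lit 106) (nat_lit 141) (nat_lit 143)) (PT.lf (nat_lit 380) (nat_lit 6) (nat_lit 5) (nat_lit 5) (nat_lit 107) (nat_lit 141) (nat_lit 142))))))) (PT.nd (nat_lit 40638) (PT.nd (nat_lit 2574) (PT.nd (nat_lit 156) (PT.nd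 (nat_lit 78) (PT.lf (nat_lit 532) (nat_lit 3) (nat_lit 7) (nat_lit 4) (nat_lit 108) (nat_lit 141) (nat_lit 141)) (PT.lf (nat_lit 608) (nat_lit 6) (nat_lit 8) (nat_lit 4) (nat_lit 109) (nat_lit 141) (nat_lit 140))) (PT.nd (nat_lit 2262) (PT.lf (nat_lit 684) (nat_lit 6) (nat_lit 9) (nat_lit 4) (nat_lit 110) (nat_lit 141) (nat_lit 139)) (PT.nd (nat_lit 78) (PT.lf (nat_lit 684) (nat_lit 6) (nat_lit 9) (nat_lit 2) (nat_lit 139) (nat_lit 141) (nat_lit 110)) (PT.lf (nat_lit 608) (nat_lit 6) (nat_lit 8) (nat_lit 2) (nat_lit 140) (nat_lit 141) (nat_lit 109))))) (PT.nd (nat_lit 37830) (PT.nd (nat_lit 78) (PT.lf (nat_lit 532) (nat_lit 3) (nat_lit 7) (nat_lit 0) (nat_lit 141) (nat_lit 141) (nat_lit 108)) (PT.nd (nat_lit 78) (PT.lf (nat_lit 380) (nat_lit 6) (nat_lit 5) (nat_lit 0) (nat_lit 142) (nat_lit 141) (nat_lit 107)) (PT.lf (nat_lit 228) (nat_lit 6) (nat_lit 3) (nat_lit 0) (nat_lit 143) (nat_lit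 141) (nat_lit 106)))) (PT.nd (nat_lit 78) (PT.lf (nat_lit 152) (nat_lit 6) (nat_lit 2) (nat_lit 5) (nat_lit 105) (nat_lit 142) (nat_lit 143)) (PT.nd (nat_lit 78) (PT.lf (nat_lit 304) (nat_lit 3) (nat_lit 4) (nat_lit 4) (nat_lit 106) (nat_lit 142) (nat_lit 142)) (PT.lf (nat_lit 380) (nat_lit 6) (nat_lit 5) (nat_lit 4) (nat_lit 107) (nat_lit 142) (nat_lit 141)))))) (PT.nd (nat_lit 40326) (PT.nd (nat_lit 2574) (PT.nd (nat_lit 2496) (PT.lf (nat_lit 456) (nat_lit 6) (nat_lit 6) (nat_lit 4) (nat_lit 108) (nat_lit 142) (nat_lit 140)) (PT.lf (nat_lit 456) (nat_lit 6) (nat_lit 6) (nat_lit 2) (nat_lit 140) (nat_lit 142) (nat_lit 108))) (PT.nd (nat_lit 78) (PT.lf (nat_lit 380) (nat_lit 6) (nat_lit 5) (nat_lit 2) (nat_lit 141) (nat_lit 142) (nat_lit 107)) (PT.nd (nat_lit 78) (PT.lf (nat_lit 304) (nat_lit 3) (nat_lit 4) (nat_lit 0) (nat_lit 142) (nat_lit 142) (nat_lit 106)) (PT.lf (nat_lit 152)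 (nat_lit 6) (nat_lit 2) (nat_lit 0) (nat_lit 143) (nat_lit 142) (nat_lit 105))))) (PT.nd (nat_lit 2886) (PT.nd (nat_lit 78) (PT.lf (nat_lit 76) (nat_lit 3) (nat_lit 1) (nat_lit 4) (nat_lit 104) (nat_lit 143) (nat_lit 143)) (PT.nd (nat_lit 78) (PT.lf (nat_lit 152) (nat_lit 6) (nat_lit 2) (nat_lit 4) (nat_lit 105) (nat_lit 143) (nat_lit 142)) (PT.lf (nat_lit 228) (nat_lit 6) (nat_lit 3) (nat_lit 4) (nat_lit 106) (nat_lit 143) (nat_lit 141)))) (PT.nd (nat_lit 78) (PT.lf (nat_lit 228) (nat_lit 6) (nat_lit 3) (nat_lit 2) (nat_lit 141) (nat_lit 143) (nat_lit 106)) (PT.nd (nat_lit 78) (PT.lf (nat_lit 152) (nat_lit 6) (nat_lit 2) (nat_lit 2) (nat_lit 142) (nat_lit 143) (nat_lit 105)) (PT.lf (nat_lit 76) (nat_lit 3) (nat_lit 1) (nat_lit 0) (nat_lit 143) (nat_lit 143) (nat_lit 104))))))))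
noncomputable def xc0 : XT := (XT.nd (nat_lit 202722) (nat_lit 0) (nat_lit 0) (XT.nd (nat_lit 121836) (nat_lit 0) (nat_lit 0) (XT.nd (nat_lit 81198) (nat_lit 0) (nat_lit 0) (XT.nd (nat_lit 40638) (nat_lit 0) (nat_lit 0) (XT.nd (nat_lit 40482) (nat_lit 0) (nat_lit 0) (XT.lf (nat_lit 0) (nat_lit 370378729434) (nat_lit 76) (nat_lit 1026317449395) (nat_lit 76) (nat_lit 1026317449395) (nat_lit 1) (nat_lit 4) (nat_lit 2) (nat_lit 5) (nat_lit 2) (nat_lit 4) (nat_lit 368) (nat_lit 206) (nat_lit 206)) (XT.nd (nat_lit 78) (nat_lit 0) (nat_lit 0) (XT.lf (nat_lit 0) (nat_lit 316893834238) (nat_lit 76) (nat_lit 880238434781) (nat_lit 76) (nat_lit 880238434781) (nat_lit 1) (nat_lit 4) (nat_lit 2) (nat_lit 5) (nat_lit 2) (nat_lit 4) (nat_lit 366) (nat_lit 207) (nat_lit 207)) (XT.lf (nat_lit 0) (nat_lit 685224382461) (nat_lit 76) (nat_lit 1900942030212) (nat_lit 76) (nat_lit 1900923586807) (nat_lit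 1) (nat_lit 4) (nat_lit 2) (nat_lit 5) (nat_lit 2) (nat_lit 4) (nat_lit 367) (nat_lit 207) (nat_lit 206)))) (XT.nd (nat_lit 40404) (nat_lit 0) (nat_lit 0) (XT.nd (nat_lit 40326) (nat_lit 0) (nat_lit 0) (XT.lf (nat_lit 0) (nat_lit 740740260076) (nat_lit 76) (nat_lit 2052661618568) (nat_lit 76) (nat_lit 2052626097937) (nat_lit 1) (nat_lit 4) (nat_lit 2) (nat_lit 5) (nat_lit 2) (nat_lit 4) (nat_lit 368) (nat_lit 207) (nat_lit 205)) (XT.lf (nat_lit 0) (nat_lit 270987458988) (nat_lit 76) (nat_lit 755026156197) (nat_lit 76) (nat_lit 755026156197) (nat_lit 1) (nat_lit 4) (nat_lit 2) (nat_lit 5) (nat_lit 2) (nat_lit 4) (nat_lit 364) (nat_lit 208) (nat_lit 208))) (XT.nd (nat_lit 78) (nat_lit 0) (nat_lit 0) (XT.lf (nat_lit 0) (nat_lit 586125307963) (nat_lit 76) (nat_lit 1630453669357) (nat_lit 76) (nat_lit 1630433750481) (nat_lit 1) (nat_lit 4) (nat_lit 2) (nat_lit 5) (nat_lit 2) (nat_lit 4)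 (nat_lit 365) (nat_lit 208) (nat_lit 207)) (XT.lf (nat_lit 0) (nat_lit 633769093780) (nat_lit 76) (nat_lit 1760505726920) (nat_lit 76) (nat_lit 1760467364639) (nat_lit 1) (nat_lit 4) (nat_lit 2) (nat_lit 5) (nat_lit 2) (nat_lit 4) (nat_lit 366) (nat_lit 208) (nat_lit 206))))) (XT.nd (nat_lit 40326) (nat_lit 0) (nat_lit 0) (XT.nd (nat_lit 78) (nat_lit 0) (nat_lit 0) (XT.lf (nat_lit 0) (nat_lit 685188608972) (nat_lit 76) (nat_lit 1900979163943) (nat_lit 76) (nat_lit 1900923724435) (nat_lit 1) (nat_lit 4) (nat_lit 2) (nat_lit 5) (nat_lit 2) (nat_lit 4) (nat_lit 367) (nat_lit 208) (nat_lit 205)) (XT.nd (nat_lit 40170) (nat_lit 0) (nat_lit 0) (XT.lf (nat_lit 0) (nat_lit 740688561779) (nat_lit 76) (nat_lit 2052706415607) (nat_lit 76) (nat_lit 2052635163852) (nat_lit 1) (nat_lit 4) (nat_lit 2) (nat_lit 5) (nat_lit 2) (nat_lit 4) (nat_lit 368) (nat_lit 208) (nat_lit 204)) (XT.lf (nat_lit 0)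 (nat_lit 231574307226) (nat_lit 76) (nat_lit 647705894983) (nat_lit 76) (nat_lit 647705894983) (nat_lit 1) (nat_lit 4) (nat_lit 2) (nat_lit 5) (nat_lit 2) (nat_lit 4) (nat_lit 362) (nat_lit 209) (nat_lit 209)))) (XT.nd (nat_lit 156) (nat_lit 0) (nat_lit 0) (XT.nd (nat_lit 78) (nat_lit 0) (nat_lit 0) (XT.lf (nat_lit 0) (nat_lit 501056291881) (nat_lit 76) (nat_lit 1398609678894) (nat_lit 76) (nat_lit 1398588166507) (nat_lit 1) (nat_lit 4) (nat_lit 2) (nat_lit 5) (nat_lit 2) (nat_lit 4) (nat_lit 363) (nat_lit 209) (nat_lit 208)) (XT.lf (nat_lit 0) (nat_lit 541954857305) (nat_lit 76) (nat_lit 1510083478341) (nat_lit 76) (nat_lit 1510042047078) (nat_lit 1) (nat_lit 4) (nat_lit 2) (nat_lit 5) (nat_lit 2) (nat_lit 4) (nat_lit 364) (nat_lit 209) (nat_lit 207))) (XT.nd (nat_lit 78) (nat_lit 0) (nat_lit 0) (XT.lf (nat_lit 0) (nat_lit 586086672595) (nat_lit 76) (nat_lit 1630493773787) (nat_lit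 76) (nat_lit 1630433899119) (nat_lit 1) (nat_lit 4) (nat_lit 2) (nat_lit 5) (nat_lit 2) (nat_lit 4) (nat_lit 365) (nat_lit 209) (nat_lit 206)) (XT.lf (nat_lit 0) (nat_lit 633713259618) (nat_lit 76) (nat_lit 1760554107722) (nat_lit 76) (nat_lit 1760477155828) (nat_lit 1) (nat_lit 4) (nat_lit 2) (nat_lit 5) (nat_lit 2) (nat_lit 4) (nat_lit 366) (nat_lit 209) (nat_lit 205)))))) (XT.nd (nat_lit 40482) (nat_lit 0) (nat_lit 0) (XT.nd (nat_lit 40170) (nat_lit 0) (nat_lit 0) (XT.nd (nat_lit 78) (nat_lit 0) (nat_lit 0) (XT.lf (nat_lit 0) (nat_lit 685116850002) (nat_lit 76) (nat_lit 1901035208052) (nat_lit 76) (nat_lit 1900942443911) (nat_lit 1) (nat_lit 4) (nat_lit 2) (nat_lit 5) (nat_lit 2) (nat_lit 4) (nat_lit 367) (nat_lit 209) (nat_lit 204)) (XT.nd (nat_lit 40014) (nat_lit 0) (nat_lit 0) (XT.lf (nat_lit 0) (nat_lit 740602057616) (nat_lit 76) (nat_lit 2052769555371) (nat_lit 76) (nat_lit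 2052662150261) (nat_lit 1) (nat_lit 4) (nat_lit 2) (nat_lit 5) (nat_lit 2) (nat_lit 4) (nat_lit 368) (nat_lit 209) (nat_lit 203)) (XT.lf (nat_lit 0) (nat_lit 197723581296) (nat_lit 76) (nat_lit 555727481715) (nat_lit 76) (nat_lit 555727481715) (nat_lit 1) (nat_lit 4) (nat_lit 2) (nat_lit 5) (nat_lit 2) (nat_lit 4) (nat_lit 360) (nat_lit 210) (nat_lit 210)))) (XT.nd (nat_lit 156) (nat_lit 0) (nat_lit 0) (XT.nd (nat_lit 78) (nat_lit 0) (nat_lit 0) (XT.lf (nat_lit 0) (nat_lit 428007186933) (nat_lit 76) (nat_lit 1199901501892) (nat_lit 76) (nat_lit 1199878268515) (nat_lit 1) (nat_lit 4) (nat_lit 2) (nat_lit 5) (nat_lit 2) (nat_lit 4) (nat_lit 361) (nat_lit 210) (nat_lit 209)) (XT.lf (nat_lit 0) (nat_lit 463126948927) (nat_lit 76) (nat_lit 1295445449190) (nat_lit 76) (nat_lit 1295400703425) (nat_lit 1) (nat_lit 4) (nat_lit 2) (nat_lit 5) (nat_lit 2) (nat_lit 4) (nat_lit 362) (nat_lit 210)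 (nat_lit 208))) (XT.nd (nat_lit 78) (nat_lit 0) (nat_lit 0) (XT.lf (nat_lit 0) (nat_lit 501014565683) (nat_lit 76) (nat_lit 1398652991678) (nat_lit 76) (nat_lit 1398588327036) (nat_lit 1) (nat_lit 4) (nat_lit 2) (nat_lit 5) (nat_lit 2) (nat_lit 4) (nat_lit 363) (nat_lit 210) (nat_lit 207)) (XT.lf (nat_lit 0) (nat_lit 541894556411) (nat_lit 76) (nat_lit 1510135729607) (nat_lit 76) (nat_lit 1510052621561) (nat_lit 1) (nat_lit 4) (nat_lit 2) (nat_lit 5) (nat_lit 2) (nat_lit 4) (nat_lit 364) (nat_lit 210) (nat_lit 206))))) (XT.nd (nat_lit 40092) (nat_lit 0) (nat_lit 0) (XT.nd (nat_lit 156) (nat_lit 0) (nat_lit 0) (XT.nd (nat_lit 78) (nat_lit 0) (nat_lit 0) (XT.lf (nat_lit 0) (nat_lit 586009172907) (nat_lit 76) (nat_lit 1630554301425) (nat_lit 76) (nat_lit 1630454116152) (nat_lit 1) (nat_lit 4) (nat_lit 2) (nat_lit 5) (nat_lit 2) (nat_lit 4) (nat_lit 365) (nat_lit 210) (nat_lit 205)) (XT.lf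 (nat_lit 0) (nat_lit 633619835123) (nat_lit 76) (nat_lit 1760622298668) (nat_lit 76) (nat_lit 1760506301149) (nat_lit 1) (nat_lit 4) (nat_lit 2) (nat_lit 5) (nat_lit 2) (nat_lit 4) (nat_lit 366) (nat_lit 210) (nat_lit 204))) (XT.nd (nat_lit 78) (nat_lit 0) (nat_lit 0) (XT.lf (nat_lit 0) (nat_lit 685008680314) (nat_lit 76) (nat_lit 1901110494653) (nat_lit 76) (nat_lit 1900979856165) (nat_lit 1) (nat_lit 4) (nat_lit 2) (nat_lit 5) (nat_lit 2) (nat_lit 4) (nat_lit 367) (nat_lit 210) (nat_lit 203)) (XT.lf (nat_lit 0) (nat_lit 740480234971) (nat_lit 76) (nat_lit 2052851412023) (nat_lit 76) (nat_lit 2052707217082) (nat_lit 1) (nat_lit 4) (nat_lit 2) (nat_lit 5) (nat_lit 2) (nat_lit 4) (nat_lit 368) (nat_lit 210) (nat_lit 202)))) (XT.nd (nat_lit 156) (nat_lit 0) (nat_lit 0) (XT.nd (nat_lit 78) (nat_lit 0) (nat_lit 0) (XT.lf (nat_lit 0) (nat_lit 168636914894) (nat_lit 76) (nat_lit 476904743294)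 (nat_lit 76) (nat_lit 476904743294) (nat_lit 1) (nat_lit 4) (nat_lit 2) (nat_lit 5) (nat_lit 2) (nat_lit 4) (nat_lit 358) (nat_lit 211) (nat_lit 211)) (XT.lf (nat_lit 0) (nat_lit 365253927612) (nat_lit 76) (nat_lit 1029606798216) (nat_lit 76) (nat_lit 1029581706167) (nat_lit 1) (nat_lit 4) (nat_lit 2) (nat_lit 5) (nat_lit 2) (nat_lit 4) (nat_lit 359) (nat_lit 211) (nat_lit 210))) (XT.nd (nat_lit 78) (nat_lit 0) (nat_lit 0) (XT.lf (nat_lit 0) (nat_lit 395423763824) (nat_lit 76) (nat_lit 1111491315391) (nat_lit 76) (nat_lit 1111442989965) (nat_lit 1) (nat_lit 4) (nat_lit 2) (nat_lit 5) (nat_lit 2) (nat_lit 4) (nat_lit 360) (nat_lit 211) (nat_lit 209)) (XT.lf (nat_lit 0) (nat_lit 427962122639) (nat_lit 76) (nat_lit 1199948279699) (nat_lit 76) (nat_lit 1199878441886) (nat_lit 1) (nat_lit 4) (nat_lit 2) (nat_lit 5) (nat_lit 2) (nat_lit 4) (nat_lit 361) (nat_lit 211) (nat_lit 208))))))) (XT.nd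 (nat_lit 40716) (nat_lit 0) (nat_lit 0) (XT.nd (nat_lit 40170) (nat_lit 0) (nat_lit 0) (XT.nd (nat_lit 234) (nat_lit 0) (nat_lit 0) (XT.nd (nat_lit 78) (nat_lit 0) (nat_lit 0) (XT.lf (nat_lit 0) (nat_lit 463061823961) (nat_lit 76) (nat_lit 1295501880557) (nat_lit 76) (nat_lit 1295412123868) (nat_lit 1) (nat_lit 4) (nat_lit 2) (nat_lit 5) (nat_lit 2) (nat_lit 4) (nat_lit 362) (nat_lit 211) (nat_lit 207)) (XT.nd (nat_lit 78) (nat_lit 0) (nat_lit 0) (XT.lf (nat_lit 0) (nat_lit 500930866021) (nat_lit 76) (nat_lit 1398718361527) (nat_lit 76) (nat_lit 1398610161433) (nat_lit 1) (nat_lit 4) (nat_lit 2) (nat_lit 5) (nat_lit 2) (nat_lit 4) (nat_lit 363) (nat_lit 211) (nat_lit 206)) (XT.lf (nat_lit 0) (nat_lit 541793657955) (nat_lit 76) (nat_lit 1510209375828) (nat_lit 76) (nat_lit 1510084098508) (nat_lit 1) (nat_lit 4) (nat_lit 2) (nat_lit 5) (nat_lit 2) (nat_lit 4) (nat_lit 364) (nat_lit 211)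 (nat_lit 205)))) (XT.nd (nat_lit 156) (nat_lit 0) (nat_lit 0) (XT.nd (nat_lit 78) (nat_lit 0) (nat_lit 0) (XT.lf (nat_lit 0) (nat_lit 585892349644) (nat_lit 76) (nat_lit 1630635610954) (nat_lit 76) (nat_lit 1630494521386) (nat_lit 1) (nat_lit 4) (nat_lit 2) (nat_lit 5) (nat_lit 2) (nat_lit 4) (nat_lit 365) (nat_lit 211) (nat_lit 204)) (XT.lf (nat_lit 0) (nat_lit 633488266666) (nat_lit 76) (nat_lit 1760710703852) (nat_lit 76) (nat_lit 1760554973315) (nat_lit 1) (nat_lit 4) (nat_lit 2) (nat_lit 5) (nat_lit 2) (nat_lit 4) (nat_lit 366) (nat_lit 211) (nat_lit 203))) (XT.nd (nat_lit 78) (nat_lit 0) (nat_lit 0) (XT.lf (nat_lit 0) (nat_lit 684863458901) (nat_lit 76) (nat_lit 1901205469888) (nat_lit 76) (nat_lit 1901036182899) (nat_lit 1) (nat_lit 4) (nat_lit 2) (nat_lit 5) (nat_lit 2) (nat_lit 4) (nat_lit 367) (nat_lit 211) (nat_lit 202)) (XT.lf (nat_lit 0) (nat_lit 740322371932) (nat_lit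 76) (nat_lit 2052952470639) (nat_lit 76) (nat_lit 2052770631378) (nat_lit 1) (nat_lit 4) (nat_lit 2) (nat_lit 5) (nat_lit 2) (nat_lit 4) (nat_lit 368) (nat_lit 211) (nat_lit 201))))) (XT.nd (nat_lit 234) (nat_lit 0) (nat_lit 0) (XT.nd (nat_lit 78) (nat_lit 0) (nat_lit 0) (XT.lf (nat_lit 0) (nat_lit 143629451672) (nat_lit 76) (nat_lit 409363589701) (nat_lit 76) (nat_lit 409363589701) (nat_lit 1) (nat_lit 4) (nat_lit 2) (nat_lit 5) (nat_lit 2) (nat_lit 4) (nat_lit 356) (nat_lit 212) (nat_lit 212)) (XT.nd (nat_lit 78) (nat_lit 0) (nat_lit 0) (XT.lf (nat_lit 0) (nat_lit 311317662367) (nat_lit 76) (nat_lit 883677310670) (nat_lit 76) (nat_lit 883650211258) (nat_lit 1) (nat_lit 4) (nat_lit 2) (nat_lit 5) (nat_lit 2) (nat_lit 4) (nat_lit 357) (nat_lit 212) (nat_lit 211)) (XT.lf (nat_lit 0) (nat_lit 337248559120) (nat_lit 76) (nat_lit 953848746707) (nat_lit 76) (nat_lit 953796555247) (nat_lit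 1) (nat_lit 4) (nat_lit 2) (nat_lit 5) (nat_lit 2) (nat_lit 4) (nat_lit 358) (nat_lit 212) (nat_lit 210)))) (XT.nd (nat_lit 156) (nat_lit 0) (nat_lit 0) (XT.nd (nat_lit 78) (nat_lit 0) (nat_lit 0) (XT.lf (nat_lit 0) (nat_lit 365205258175) (nat_lit 76) (nat_lit 1029657318247) (nat_lit 76) (nat_lit 1029581893409) (nat_lit 1) (nat_lit 4) (nat_lit 2) (nat_lit 5) (nat_lit 2) (nat_lit 4) (nat_lit 359) (nat_lit 212) (nat_lit 209)) (XT.lf (nat_lit 0) (nat_lit 395353428861) (nat_lit 76) (nat_lit 1111552261267) (nat_lit 76) (nat_lit 1111455324043) (nat_lit 1) (nat_lit 4) (nat_lit 2) (nat_lit 5) (nat_lit 2) (nat_lit 4) (nat_lit 360) (nat_lit 212) (nat_lit 208))) (XT.nd (nat_lit 78) (nat_lit 0) (nat_lit 0) (XT.lf (nat_lit 0) (nat_lit 427871727004) (nat_lit 76) (nat_lit 1200018879136) (nat_lit 76) (nat_lit 1199902023034) (nat_lit 1) (nat_lit 4) (nat_lit 2) (nat_lit 5) (nat_lit 2) (nat_lit 4) (nat_lit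 361) (nat_lit 212) (nat_lit 207)) (XT.lf (nat_lit 0) (nat_lit 462952853630) (nat_lit 76) (nat_lit 1295581418476) (nat_lit 76) (nat_lit 1295446118970) (nat_lit 1) (nat_lit 4) (nat_lit 2) (nat_lit 5) (nat_lit 2) (nat_lit 4) (nat_lit 362) (nat_lit 212) (nat_lit 206)))))) (XT.nd (nat_lit 40014) (nat_lit 0) (nat_lit 0) (XT.nd (nat_lit 234) (nat_lit 0) (nat_lit 0) (XT.nd (nat_lit 78) (nat_lit 0) (nat_lit 0) (XT.lf (nat_lit 0) (nat_lit 500804696896) (nat_lit 76) (nat_lit 1398806175818) (nat_lit 76) (nat_lit 1398653799086) (nat_lit 1) (nat_lit 4) (nat_lit 2) (nat_lit 5) (nat_lit 2) (nat_lit 4) (nat_lit 363) (nat_lit 212) (nat_lit 205)) (XT.nd (nat_lit 78) (nat_lit 0) (nat_lit 0) (XT.lf (nat_lit 0) (nat_lit 541651564023) (nat_lit 76) (nat_lit 1510304853427) (nat_lit 76) (nat_lit 1510136664448) (nat_lit 1) (nat_lit 4) (nat_lit 2) (nat_lit 5) (nat_lit 2) (nat_lit 4) (nat_lit 364) (nat_lit 212)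 (nat_lit 204)) (XT.lf (nat_lit 0) (nat_lit 585735510518) (nat_lit 76) (nat_lit 1630738184207) (nat_lit 76) (nat_lit 1630555354259) (nat_lit 1) (nat_lit 4) (nat_lit 2) (nat_lit 5) (nat_lit 2) (nat_lit 4) (nat_lit 365) (nat_lit 212) (nat_lit 203)))) (XT.nd (nat_lit 156) (nat_lit 0) (nat_lit 0) (XT.nd (nat_lit 78) (nat_lit 0) (nat_lit 0) (XT.lf (nat_lit 0) (nat_lit 633317774584) (nat_lit 76) (nat_lit 1760819847157) (nat_lit 76) (nat_lit 1760623460756) (nat_lit 1) (nat_lit 4) (nat_lit 2) (nat_lit 5) (nat_lit 2) (nat_lit 4) (nat_lit 366) (nat_lit 212) (nat_lit 202)) (XT.lf (nat_lit 0) (nat_lit 684680325193) (nat_lit 76) (nat_lit 1901320696573) (nat_lit 76) (nat_lit 1901111757901) (nat_lit 1) (nat_lit 4) (nat_lit 2) (nat_lit 5) (nat_lit 2) (nat_lit 4) (nat_lit 367) (nat_lit 212) (nat_lit 201))) (XT.nd (nat_lit 39546) (nat_lit 0) (nat_lit 0) (XT.lf (nat_lit 0) (nat_lit 740127533014) (nat_lit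 76) (nat_lit 2053073330084) (nat_lit 76) (nat_lit 2052852768939) (nat_lit 1) (nat_lit 4) (nat_lit 2) (nat_lit 5) (nat_lit 2) (nat_lit 4) (nat_lit 368) (nat_lit 212) (nat_lit 200)) (XT.lf (nat_lit 0) (nat_lit 122113620894) (nat_lit 76) (nat_lit 351497507933) (nat_lit 76) (nat_lit 351497507933) (nat_lit 1) (nat_lit 4) (nat_lit 2) (nat_lit 5) (nat_lit 2) (nat_lit 4) (nat_lit 354) (nat_lit 213) (nat_lit 213))))) (XT.nd (nat_lit 312) (nat_lit 0) (nat_lit 0) (XT.nd (nat_lit 156) (nat_lit 0) (nat_lit 0) (XT.nd (nat_lit 78) (nat_lit 0) (nat_lit 0) (XT.lf (nat_lit 0) (nat_lit 264929711627) (nat_lit 76) (nat_lit 758642730604) (nat_lit 76) (nat_lit 758613463239) (nat_lit 1) (nat_lit 4) (nat_lit 2) (nat_lit 5) (nat_lit 2) (nat_lit 4) (nat_lit 355) (nat_lit 213) (nat_lit 212)) (XT.lf (nat_lit 0) (nat_lit 287231611022) (nat_lit 76) (nat_lit 818769580330) (nat_lit 76) (nat_lit 818713213553) (nat_lit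 1) (nat_lit 4) (nat_lit 2) (nat_lit 5) (nat_lit 2) (nat_lit 4) (nat_lit 356) (nat_lit 213) (nat_lit 211))) (XT.nd (nat_lit 78) (nat_lit 0) (nat_lit 0) (XT.lf (nat_lit 0) (nat_lit 311265099375) (nat_lit 76) (nat_lit 883731872304) (nat_lit 76) (nat_lit 883650413479) (nat_lit 1) (nat_lit 4) (nat_lit 2) (nat_lit 5) (nat_lit 2) (nat_lit 4) (nat_lit 357) (nat_lit 213) (nat_lit 210)) (XT.lf (nat_lit 0) (nat_lit 337172597360) (nat_lit 76) (nat_lit 953914568254) (nat_lit 76) (nat_lit 953809876051) (nat_lit 1) (nat_lit 4) (nat_lit 2) (nat_lit 5) (nat_lit 2) (nat_lit 4) (nat_lit 358) (nat_lit 213) (nat_lit 209)))) (XT.nd (nat_lit 156) (nat_lit 0) (nat_lit 0) (XT.nd (nat_lit 78) (nat_lit 0) (nat_lit 0) (XT.lf (nat_lit 0) (nat_lit 365107630889) (nat_lit 76) (nat_lit 1029733565639) (nat_lit 76) (nat_lit 1029607361049) (nat_lit 1) (nat_lit 4) (nat_lit 2) (nat_lit 5) (nat_lit 2) (nat_lit 4) (nat_lit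 359) (nat_lit 213) (nat_lit 208)) (XT.lf (nat_lit 0) (nat_lit 395235740903) (nat_lit 76) (nat_lit 1111638162220) (nat_lit 76) (nat_lit 1111492038753) (nat_lit 1) (nat_lit 4) (nat_lit 2) (nat_lit 5) (nat_lit 2) (nat_lit 4) (nat_lit 360) (nat_lit 213) (nat_lit 207))) (XT.nd (nat_lit 78) (nat_lit 0) (nat_lit 0) (XT.lf (nat_lit 0) (nat_lit 427735464349) (nat_lit 76) (nat_lit 1200113718570) (nat_lit 76) (nat_lit 1199949151699) (nat_lit 1) (nat_lit 4) (nat_lit 2) (nat_lit 5) (nat_lit 2) (nat_lit 4) (nat_lit 361) (nat_lit 213) (nat_lit 206)) (XT.lf (nat_lit 0) (nat_lit 462799392182) (nat_lit 76) (nat_lit 1295684534283) (nat_lit 76) (nat_lit 1295502890185) (nat_lit 1) (nat_lit 4) (nat_lit 2) (nat_lit 5) (nat_lit 2) (nat_lit 4) (nat_lit 362) (nat_lit 213) (nat_lit 205))))))))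
noncomputable def xc1 : XT := (XT.nd (nat_lit 80730) (nat_lit 0) (nat_lit 0) (XT.nd (nat_lit 40404) (nat_lit 0) (nat_lit 0) (XT.nd (nat_lit 39858) (nat_lit 0) (nat_lit 0) (XT.nd (nat_lit 234) (nat_lit 0) (nat_lit 0) (XT.nd (nat_lit 78) (nat_lit 0) (nat_lit 0) (XT.lf (nat_lit 0) (nat_lit 500635310640) (nat_lit 76) (nat_lit 1398916954932) (nat_lit 76) (nat_lit 1398719498588) (nat_lit 1) (nat_lit 4) (nat_lit 2) (nat_lit 5) (nat_lit 2) (nat_lit 4) (nat_lit 363) (nat_lit 213) (nat_lit 204)) (XT.nd (nat_lit 78) (nat_lit 0) (nat_lit 0) (XT.lf (nat_lit 0) (nat_lit 541467432574) (nat_lit 76) (nat_lit 1510422728196) (nat_lit 76) (nat_lit 1510210630883) (nat_lit 1) (nat_lit 4) (nat_lit 2) (nat_lit 5) (nat_lit 2) (nat_lit 4) (nat_lit 364) (nat_lit 213) (nat_lit 203)) (XT.lf (nat_lit 0) (nat_lit 585537726113) (nat_lit 76) (nat_lit 1630862629028) (nat_lit 76) (nat_lit 1630636975262) (nat_lit 1) (nat_lit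 4) (nat_lit 2) (nat_lit 5) (nat_lit 2) (nat_lit 4) (nat_lit 365) (nat_lit 213) (nat_lit 202)))) (XT.nd (nat_lit 156) (nat_lit 0) (nat_lit 0) (XT.nd (nat_lit 78) (nat_lit 0) (nat_lit 0) (XT.lf (nat_lit 0) (nat_lit 633107348553) (nat_lit 76) (nat_lit 1760950375358) (nat_lit 76) (nat_lit 1760712169321) (nat_lit 1) (nat_lit 4) (nat_lit 2) (nat_lit 5) (nat_lit 2) (nat_lit 4) (nat_lit 366) (nat_lit 213) (nat_lit 201)) (XT.lf (nat_lit 0) (nat_lit 684458193952) (nat_lit 76) (nat_lit 1901456857534) (nat_lit 76) (nat_lit 1901207029024) (nat_lit 1) (nat_lit 4) (nat_lit 2) (nat_lit 5) (nat_lit 2) (nat_lit 4) (nat_lit 367) (nat_lit 213) (nat_lit 200))) (XT.nd (nat_lit 39390) (nat_lit 0) (nat_lit 0) (XT.lf (nat_lit 0) (nat_lit 739894563617) (nat_lit 76) (nat_lit 2053214706563) (nat_lit 76) (nat_lit 2052954116504) (nat_lit 1) (nat_lit 4) (nat_lit 2) (nat_lit 5) (nat_lit 2) (nat_lit 4) (nat_lit 368)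 (nat_lit 213) (nat_lit 199)) (XT.lf (nat_lit 0) (nat_lit 103585225216) (nat_lit 76) (nat_lit 301929406523) (nat_lit 76) (nat_lit 301929406523) (nat_lit 1) (nat_lit 4) (nat_lit 2) (nat_lit 5) (nat_lit 2) (nat_lit 4) (nat_lit 352) (nat_lit 214) (nat_lit 214))))) (XT.nd (nat_lit 234) (nat_lit 0) (nat_lit 0) (XT.nd (nat_lit 78) (nat_lit 0) (nat_lit 0) (XT.lf (nat_lit 0) (nat_lit 225001520203) (nat_lit 76) (nat_lit 651528280636) (nat_lit 76) (nat_lit 651496671882) (nat_lit 1) (nat_lit 4) (nat_lit 2) (nat_lit 5) (nat_lit 2) (nat_lit 4) (nat_lit 353) (nat_lit 214) (nat_lit 213)) (XT.nd (nat_lit 78) (nat_lit 0) (nat_lit 0) (XT.lf (nat_lit 0) (nat_lit 244197766080) (nat_lit 76) (nat_lit 703040808868) (nat_lit 76) (nat_lit 702979932749) (nat_lit 1) (nat_lit 4) (nat_lit 2) (nat_lit 5) (nat_lit 2) (nat_lit 4) (nat_lit 354) (nat_lit 214) (nat_lit 212)) (XT.lf (nat_lit 0) (nat_lit 264872943596) (nat_lit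 76) (nat_lit 758701657168) (nat_lit 76) (nat_lit 758613681637) (nat_lit 1) (nat_lit 4) (nat_lit 2) (nat_lit 5) (nat_lit 2) (nat_lit 4) (nat_lit 355) (nat_lit 214) (nat_lit 211)))) (XT.nd (nat_lit 156) (nat_lit 0) (nat_lit 0) (XT.nd (nat_lit 78) (nat_lit 0) (nat_lit 0) (XT.lf (nat_lit 0) (nat_lit 287149572321) (nat_lit 76) (nat_lit 818840667600) (nat_lit 76) (nat_lit 818727600021) (nat_lit 1) (nat_lit 4) (nat_lit 2) (nat_lit 5) (nat_lit 2) (nat_lit 4) (nat_lit 356) (nat_lit 214) (nat_lit 210)) (XT.lf (nat_lit 0) (nat_lit 311159661906) (nat_lit 76) (nat_lit 883814219487) (nat_lit 76) (nat_lit 883677918530) (nat_lit 1) (nat_lit 4) (nat_lit 2) (nat_lit 5) (nat_lit 2) (nat_lit 4) (nat_lit 357) (nat_lit 214) (nat_lit 209))) (XT.nd (nat_lit 78) (nat_lit 0) (nat_lit 0) (XT.lf (nat_lit 0) (nat_lit 337045494365) (nat_lit 76) (nat_lit 954007341282) (nat_lit 76) (nat_lit 953849527939) (nat_lit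 1) (nat_lit 4) (nat_lit 2) (nat_lit 5) (nat_lit 2) (nat_lit 4) (nat_lit 358) (nat_lit 214) (nat_lit 208)) (XT.lf (nat_lit 0) (nat_lit 364960467222) (nat_lit 76) (nat_lit 1029835992228) (nat_lit 76) (nat_lit 1029658260007) (nat_lit 1) (nat_lit 4) (nat_lit 2) (nat_lit 5) (nat_lit 2) (nat_lit 4) (nat_lit 359) (nat_lit 214) (nat_lit 207)))))) (XT.nd (nat_lit 546) (nat_lit 0) (nat_lit 0) (XT.nd (nat_lit 234) (nat_lit 0) (nat_lit 0) (XT.nd (nat_lit 78) (nat_lit 0) (nat_lit 0) (XT.lf (nat_lit 0) (nat_lit 395070002539) (nat_lit 76) (nat_lit 1111749527291) (nat_lit 76) (nat_lit 1111553351666) (nat_lit 1) (nat_lit 4) (nat_lit 2) (nat_lit 5) (nat_lit 2) (nat_lit 4) (nat_lit 360) (nat_lit 214) (nat_lit 206)) (XT.nd (nat_lit 78) (nat_lit 0) (nat_lit 0) (XT.lf (nat_lit 0) (nat_lit 427552527193) (nat_lit 76) (nat_lit 1200233360014) (nat_lit 76) (nat_lit 1200020107162) (nat_lit 1) (nat_lit 4) (nat_lit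 2) (nat_lit 5) (nat_lit 2) (nat_lit 4) (nat_lit 361) (nat_lit 214) (nat_lit 205)) (XT.lf (nat_lit 0) (nat_lit 462600530217) (nat_lit 76) (nat_lit 1295811839034) (nat_lit 76) (nat_lit 1295582773936) (nat_lit 1) (nat_lit 4) (nat_lit 2) (nat_lit 5) (nat_lit 2) (nat_lit 4) (nat_lit 362) (nat_lit 214) (nat_lit 204)))) (XT.nd (nat_lit 156) (nat_lit 0) (nat_lit 0) (XT.nd (nat_lit 78) (nat_lit 0) (nat_lit 0) (XT.lf (nat_lit 0) (nat_lit 500421703483) (nat_lit 76) (nat_lit 1399051355338) (nat_lit 76) (nat_lit 1398807649271) (nat_lit 1) (nat_lit 4) (nat_lit 2) (nat_lit 5) (nat_lit 2) (nat_lit 4) (nat_lit 363) (nat_lit 214) (nat_lit 203)) (XT.lf (nat_lit 0) (nat_lit 541240172460) (nat_lit 76) (nat_lit 1510563698654) (nat_lit 76) (nat_lit 1510306436134) (nat_lit 1) (nat_lit 4) (nat_lit 2) (nat_lit 5) (nat_lit 2) (nat_lit 4) (nat_lit 364) (nat_lit 214) (nat_lit 202))) (XT.nd (nat_lit 78) (nat_lit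 0) (nat_lit 0) (XT.lf (nat_lit 0) (nat_lit 585297824373) (nat_lit 76) (nat_lit 1631009682866) (nat_lit 76) (nat_lit 1630739868075) (nat_lit 1) (nat_lit 4) (nat_lit 2) (nat_lit 5) (nat_lit 2) (nat_lit 4) (nat_lit 365) (nat_lit 214) (nat_lit 201)) (XT.lf (nat_lit 0) (nat_lit 632855741603) (nat_lit 76) (nat_lit 1761103061955) (nat_lit 76) (nat_lit 1760821624691) (nat_lit 1) (nat_lit 4) (nat_lit 2) (nat_lit 5) (nat_lit 2) (nat_lit 4) (nat_lit 366) (nat_lit 214) (nat_lit 200))))) (XT.nd (nat_lit 39468) (nat_lit 0) (nat_lit 0) (XT.nd (nat_lit 39312) (nat_lit 0) (nat_lit 0) (XT.nd (nat_lit 78) (nat_lit 0) (nat_lit 0) (XT.lf (nat_lit 0) (nat_lit 684195748846) (nat_lit 76) (nat_lit 1901614759650) (nat_lit 76) (nat_lit 1901322560837) (nat_lit 1) (nat_lit 4) (nat_lit 2) (nat_lit 5) (nat_lit 2) (nat_lit 4) (nat_lit 367) (nat_lit 214) (nat_lit 199)) (XT.lf (nat_lit 0) (nat_lit 739622083180) (nat_lit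 76) (nat_lit 2053377437863) (nat_lit 76) (nat_lit 2053075274652) (nat_lit 1) (nat_lit 4) (nat_lit 2) (nat_lit 5) (nat_lit 2) (nat_lit 4) (nat_lit 368) (nat_lit 214) (nat_lit 198))) (XT.nd (nat_lit 78) (nat_lit 0) (nat_lit 0) (XT.lf (nat_lit 0) (nat_lit 87611510526) (nat_lit 76) (nat_lit 259478904755) (nat_lit 76) (nat_lit 259478904755) (nat_lit 1) (nat_lit 4) (nat_lit 2) (nat_lit 5) (nat_lit 2) (nat_lit 4) (nat_lit 350) (nat_lit 215) (nat_lit 215)) (XT.lf (nat_lit 0) (nat_lit 190598891171) (nat_lit 76) (nat_lit 559784057820) (nat_lit 76) (nat_lit 559749920365) (nat_lit 1) (nat_lit 4) (nat_lit 2) (nat_lit 5) (nat_lit 2) (nat_lit 4) (nat_lit 351) (nat_lit 215) (nat_lit 214)))) (XT.nd (nat_lit 156) (nat_lit 0) (nat_lit 0) (XT.nd (nat_lit 78) (nat_lit 0) (nat_lit 0) (XT.lf (nat_lit 0) (nat_lit 207138616667) (nat_lit 76) (nat_lit 603908269489) (nat_lit 76) (nat_lit 603842523280) (nat_lit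 1) (nat_lit 4) (nat_lit 2) (nat_lit 5) (nat_lit 2) (nat_lit 4) (nat_lit 352) (nat_lit 215) (nat_lit 213)) (XT.lf (nat_lit 0) (nat_lit 224940210728) (nat_lit 76) (nat_lit 651591921326) (nat_lit 76) (nat_lit 651496907752) (nat_lit 1) (nat_lit 4) (nat_lit 2) (nat_lit 5) (nat_lit 2) (nat_lit 4) (nat_lit 353) (nat_lit 215) (nat_lit 212))) (XT.nd (nat_lit 78) (nat_lit 0) (nat_lit 0) (XT.lf (nat_lit 0) (nat_lit 244109164283) (nat_lit 76) (nat_lit 703117583120) (nat_lit 76) (nat_lit 702995470134) (nat_lit 1) (nat_lit 4) (nat_lit 2) (nat_lit 5) (nat_lit 2) (nat_lit 4) (nat_lit 354) (nat_lit 215) (nat_lit 211)) (XT.lf (nat_lit 0) (nat_lit 264759071129) (nat_lit 76) (nat_lit 758790592126) (nat_lit 76) (nat_lit 758643387092) (nat_lit 1) (nat_lit 4) (nat_lit 2) (nat_lit 5) (nat_lit 2) (nat_lit 4) (nat_lit 355) (nat_lit 215) (nat_lit 210))))))) (XT.nd (nat_lit 40170) (nat_lit 0) (nat_lit 0) (XT.nd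 (nat_lit 546) (nat_lit 0) (nat_lit 0) (XT.nd (nat_lit 234) (nat_lit 0) (nat_lit 0) (XT.nd (nat_lit 78) (nat_lit 0) (nat_lit 0) (XT.lf (nat_lit 0) (nat_lit 287012301086) (nat_lit 76) (nat_lit 818940862471) (nat_lit 76) (nat_lit 818770424060) (nat_lit 1) (nat_lit 4) (nat_lit 2) (nat_lit 5) (nat_lit 2) (nat_lit 4) (nat_lit 356) (nat_lit 215) (nat_lit 209)) (XT.nd (nat_lit 78) (nat_lit 0) (nat_lit 0) (XT.lf (nat_lit 0) (nat_lit 311000725146) (nat_lit 76) (nat_lit 883924840203) (nat_lit 76) (nat_lit 883732889405) (nat_lit 1) (nat_lit 4) (nat_lit 2) (nat_lit 5) (nat_lit 2) (nat_lit 4) (nat_lit 357) (nat_lit 215) (nat_lit 208)) (XT.lf (nat_lit 0) (nat_lit 336866496932) (nat_lit 76) (nat_lit 954127615559) (nat_lit 76) (nat_lit 953915745884) (nat_lit 1) (nat_lit 4) (nat_lit 2) (nat_lit 5) (nat_lit 2) (nat_lit 4) (nat_lit 358) (nat_lit 215) (nat_lit 207)))) (XT.nd (nat_lit 156) (nat_lit 0) (nat_lit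 0) (XT.nd (nat_lit 78) (nat_lit 0) (nat_lit 0) (XT.lf (nat_lit 0) (nat_lit 364762895093) (nat_lit 76) (nat_lit 1029965204987) (nat_lit 76) (nat_lit 1029734891907) (nat_lit 1) (nat_lit 4) (nat_lit 2) (nat_lit 5) (nat_lit 2) (nat_lit 4) (nat_lit 359) (nat_lit 215) (nat_lit 206)) (XT.lf (nat_lit 0) (nat_lit 394855231618) (nat_lit 76) (nat_lit 1111887016422) (nat_lit 76) (nat_lit 1111639626116) (nat_lit 1) (nat_lit 4) (nat_lit 2) (nat_lit 5) (nat_lit 2) (nat_lit 4) (nat_lit 360) (nat_lit 215) (nat_lit 205))) (XT.nd (nat_lit 78) (nat_lit 0) (nat_lit 0) (XT.lf (nat_lit 0) (nat_lit 427321831463) (nat_lit 76) (nat_lit 1200378512452) (nat_lit 76) (nat_lit 1200115309900) (nat_lit 1) (nat_lit 4) (nat_lit 2) (nat_lit 5) (nat_lit 2) (nat_lit 4) (nat_lit 361) (nat_lit 215) (nat_lit 204)) (XT.lf (nat_lit 0) (nat_lit 462355089295) (nat_lit 76) (nat_lit 1295964087128) (nat_lit 76) (nat_lit 1295686243606)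 (nat_lit 1) (nat_lit 4) (nat_lit 2) (nat_lit 5) (nat_lit 2) (nat_lit 4) (nat_lit 362) (nat_lit 215) (nat_lit 203))))) (XT.nd (nat_lit 312) (nat_lit 0) (nat_lit 0) (XT.nd (nat_lit 156) (nat_lit 0) (nat_lit 0) (XT.nd (nat_lit 78) (nat_lit 0) (nat_lit 0) (XT.lf (nat_lit 0) (nat_lit 500162609604) (nat_lit 76) (nat_lit 1399210173483) (nat_lit 76) (nat_lit 1398918773509) (nat_lit 1) (nat_lit 4) (nat_lit 2) (nat_lit 5) (nat_lit 2) (nat_lit 4) (nat_lit 363) (nat_lit 215) (nat_lit 202)) (XT.lf (nat_lit 0) (nat_lit 540968436955) (nat_lit 76) (nat_lit 1510728600179) (nat_lit 76) (nat_lit 1510424647933) (nat_lit 1) (nat_lit 4) (nat_lit 2) (nat_lit 5) (nat_lit 2) (nat_lit 4) (nat_lit 364) (nat_lit 215) (nat_lit 201))) (XT.nd (nat_lit 78) (nat_lit 0) (nat_lit 0) (XT.lf (nat_lit 0) (nat_lit 585014383658) (nat_lit 76) (nat_lit 1631180217151) (nat_lit 76) (nat_lit 1630864642432) (nat_lit 1) (nat_lit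 4) (nat_lit 2) (nat_lit 5) (nat_lit 2) (nat_lit 4) (nat_lit 365) (nat_lit 215) (nat_lit 200)) (XT.lf (nat_lit 0) (nat_lit 632561462731) (nat_lit 76) (nat_lit 1761278811759) (nat_lit 76) (nat_lit 1760952475491) (nat_lit 1) (nat_lit 4) (nat_lit 2) (nat_lit 5) (nat_lit 2) (nat_lit 4) (nat_lit 366) (nat_lit 215) (nat_lit 199)))) (XT.nd (nat_lit 39156) (nat_lit 0) (nat_lit 0) (XT.nd (nat_lit 78) (nat_lit 0) (nat_lit 0) (XT.lf (nat_lit 0) (nat_lit 683891434643) (nat_lit 76) (nat_lit 1901795338638) (nat_lit 76) (nat_lit 1901459037972) (nat_lit 1) (nat_lit 4) (nat_lit 2) (nat_lit 5) (nat_lit 2) (nat_lit 4) (nat_lit 367) (nat_lit 215) (nat_lit 198)) (XT.lf (nat_lit 0) (nat_lit 739308477005) (nat_lit 76) (nat_lit 2053562488317) (nat_lit 76) (nat_lit 2053216961357) (nat_lit 1) (nat_lit 4) (nat_lit 2) (nat_lit 5) (nat_lit 2) (nat_lit 4) (nat_lit 368) (nat_lit 215) (nat_lit 197))) (XT.nd (nat_lit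 78) (nat_lit 0) (nat_lit 0) (XT.lf (nat_lit 0) (nat_lit 73820934877) (nat_lit 76) (nat_lit 223134289931) (nat_lit 76) (nat_lit 223134289931) (nat_lit 1) (nat_lit 4) (nat_lit 2) (nat_lit 5) (nat_lit 2) (nat_lit 4) (nat_lit 348) (nat_lit 216) (nat_lit 216)) (XT.lf (nat_lit 0) (nat_lit 160919890045) (nat_lit 76) (nat_lit 481224459685) (nat_lit 76) (nat_lit 481187591235) (nat_lit 1) (nat_lit 4) (nat_lit 2) (nat_lit 5) (nat_lit 2) (nat_lit 4) (nat_lit 349) (nat_lit 216) (nat_lit 215)))))) (XT.nd (nat_lit 546) (nat_lit 0) (nat_lit 0) (XT.nd (nat_lit 234) (nat_lit 0) (nat_lit 0) (XT.nd (nat_lit 78) (nat_lit 0) (nat_lit 0) (XT.lf (nat_lit 0) (nat_lit 175188640586) (nat_lit 76) (nat_lit 519011222467) (nat_lit 76) (nat_lit 518940216562) (nat_lit 1) (nat_lit 4) (nat_lit 2) (nat_lit 5) (nat_lit 2) (nat_lit 4) (nat_lit 350) (nat_lit 216) (nat_lit 214)) (XT.nd (nat_lit 78) (nat_lit 0) (nat_lit 0)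 (XT.lf (nat_lit 0) (nat_lit 190532676939) (nat_lit 76) (nat_lit 559852789764) (nat_lit 76) (nat_lit 559750175105) (nat_lit 1) (nat_lit 4) (nat_lit 2) (nat_lit 5) (nat_lit 2) (nat_lit 4) (nat_lit 351) (nat_lit 216) (nat_lit 213)) (XT.lf (nat_lit 0) (nat_lit 207042926726) (nat_lit 76) (nat_lit 603991185681) (nat_lit 76) (nat_lit 603859303656) (nat_lit 1) (nat_lit 4) (nat_lit 2) (nat_lit 5) (nat_lit 2) (nat_lit 4) (nat_lit 352) (nat_lit 216) (nat_lit 212)))) (XT.nd (nat_lit 156) (nat_lit 0) (nat_lit 0) (XT.nd (nat_lit 78) (nat_lit 0) (nat_lit 0) (XT.lf (nat_lit 0) (nat_lit 224817228465) (nat_lit 76) (nat_lit 651687971080) (nat_lit 76) (nat_lit 651528989644) (nat_lit 1) (nat_lit 4) (nat_lit 2) (nat_lit 5) (nat_lit 2) (nat_lit 4) (nat_lit 353) (nat_lit 216) (nat_lit 211)) (XT.lf (nat_lit 0) (nat_lit 243960911350) (nat_lit 76) (nat_lit 703225793580) (nat_lit 76) (nat_lit 703041720096) (nat_lit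 1) (nat_lit 4) (nat_lit 2) (nat_lit 5) (nat_lit 2) (nat_lit 4) (nat_lit 354) (nat_lit 216) (nat_lit 210))) (XT.nd (nat_lit 78) (nat_lit 0) (nat_lit 0) (XT.lf (nat_lit 0) (nat_lit 264587419428) (nat_lit 76) (nat_lit 758910062499) (nat_lit 76) (nat_lit 758702755637) (nat_lit 1) (nat_lit 4) (nat_lit 2) (nat_lit 5) (nat_lit 2) (nat_lit 4) (nat_lit 355) (nat_lit 216) (nat_lit 209)) (XT.lf (nat_lit 0) (nat_lit 286818983859) (nat_lit 76) (nat_lit 819070758690) (nat_lit 76) (nat_lit 818841939441) (nat_lit 1) (nat_lit 4) (nat_lit 2) (nat_lit 5) (nat_lit 2) (nat_lit 4) (nat_lit 356) (nat_lit 216) (nat_lit 208))))) (XT.nd (nat_lit 312) (nat_lit 0) (nat_lit 0) (XT.nd (nat_lit 156) (nat_lit 0) (nat_lit 0) (XT.nd (nat_lit 78) (nat_lit 0) (nat_lit 0) (XT.lf (nat_lit 0) (nat_lit 310787347247) (nat_lit 76) (nat_lit 884064389983) (nat_lit 76) (nat_lit 883815651857) (nat_lit 1) (nat_lit 4) (nat_lit 2)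 (nat_lit 5) (nat_lit 2) (nat_lit 4) (nat_lit 357) (nat_lit 216) (nat_lit 207)) (XT.lf (nat_lit 0) (nat_lit 336634544337) (nat_lit 76) (nat_lit 954276103821) (nat_lit 76) (nat_lit 954008922290) (nat_lit 1) (nat_lit 4) (nat_lit 2) (nat_lit 5) (nat_lit 2) (nat_lit 4) (nat_lit 358) (nat_lit 216) (nat_lit 206))) (XT.nd (nat_lit 78) (nat_lit 0) (nat_lit 0) (XT.lf (nat_lit 0) (nat_lit 364513743705) (nat_lit 76) (nat_lit 1030121969620) (nat_lit 76) (nat_lit 1029837710863) (nat_lit 1) (nat_lit 4) (nat_lit 2) (nat_lit 5) (nat_lit 2) (nat_lit 4) (nat_lit 359) (nat_lit 216) (nat_lit 205)) (XT.lf (nat_lit 0) (nat_lit 394590155421) (nat_lit 76) (nat_lit 1112051444363) (nat_lit 76) (nat_lit 1111751373360) (nat_lit 1) (nat_lit 4) (nat_lit 2) (nat_lit 5) (nat_lit 2) (nat_lit 4) (nat_lit 360) (nat_lit 216) (nat_lit 204)))) (XT.nd (nat_lit 156) (nat_lit 0) (nat_lit 0) (XT.nd (nat_lit 78) (nat_lit 0) (nat_lit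 0) (XT.lf (nat_lit 0) (nat_lit 427042010073) (nat_lit 76) (nat_lit 1200550036049) (nat_lit 76) (nat_lit 1200235324076) (nat_lit 1) (nat_lit 4) (nat_lit 2) (nat_lit 5) (nat_lit 2) (nat_lit 4) (nat_lit 361) (nat_lit 216) (nat_lit 203)) (XT.lf (nat_lit 0) (nat_lit 462061614949) (nat_lit 76) (nat_lit 1296142180775) (nat_lit 76) (nat_lit 1295813912350) (nat_lit 1) (nat_lit 4) (nat_lit 2) (nat_lit 5) (nat_lit 2) (nat_lit 4) (nat_lit 362) (nat_lit 216) (nat_lit 202))) (XT.nd (nat_lit 78) (nat_lit 0) (nat_lit 0) (XT.lf (nat_lit 0) (nat_lit 499856493631) (nat_lit 76) (nat_lit 1399394350511) (nat_lit 76) (nat_lit 1399053529815) (nat_lit 1) (nat_lit 4) (nat_lit 2) (nat_lit 5) (nat_lit 2) (nat_lit 4) (nat_lit 363) (nat_lit 216) (nat_lit 201)) (XT.lf (nat_lit 0) (nat_lit 540650615773) (nat_lit 76) (nat_lit 1510918409967) (nat_lit 76) (nat_lit 1510565966797) (nat_lit 1) (nat_lit 4) (nat_lit 2) (nat_lit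 5) (nat_lit 2) (nat_lit 4) (nat_lit 364) (nat_lit 216) (nat_lit 200))))))))
noncomputable def xc2 : XT := (XT.nd (nat_lit 79794) (nat_lit 0) (nat_lit 0) (XT.nd (nat_lit 39936) (nat_lit 0) (nat_lit 0) (XT.nd (nat_lit 39390) (nat_lit 0) (nat_lit 0) (XT.nd (nat_lit 234) (nat_lit 0) (nat_lit 0) (XT.nd (nat_lit 78) (nat_lit 0) (nat_lit 0) (XT.lf (nat_lit 0) (nat_lit 584685724320) (nat_lit 76) (nat_lit 1631375242458) (nat_lit 76) (nat_lit 1631012037738) (nat_lit 1) (nat_lit 4) (nat_lit 2) (nat_lit 5) (nat_lit 2) (nat_lit 4) (nat_lit 365) (nat_lit 216) (nat_lit 199)) (XT.nd (nat_lit 78) (nat_lit 0) (nat_lit 0) (XT.lf (nat_lit 0) (nat_lit 632222768062) (nat_lit 76) (nat_lit 1761478666249) (nat_lit 76) (nat_lit 1761105497133) (nat_lit 1) (nat_lit 4) (nat_lit 2) (nat_lit 5) (nat_lit 2) (nat_lit 4) (nat_lit 366) (nat_lit 216) (nat_lit 198)) (XT.lf (nat_lit 0) (nat_lit 683543448001) (nat_lit 76)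 (nat_lit 1901999664594) (nat_lit 76) (nat_lit 1901617269184) (nat_lit 1) (nat_lit 4) (nat_lit 2) (nat_lit 5) (nat_lit 2) (nat_lit 4) (nat_lit 367) (nat_lit 216) (nat_lit 197)))) (XT.nd (nat_lit 39000) (nat_lit 0) (nat_lit 0) (XT.nd (nat_lit 38922) (nat_lit 0) (nat_lit 0) (XT.lf (nat_lit 0) (nat_lit 738951886685) (nat_lit 76) (nat_lit 2053770954520) (nat_lit 76) (nat_lit 2053380016245) (nat_lit 1) (nat_lit 4) (nat_lit 2) (nat_lit 5) (nat_lit 2) (nat_lit 4) (nat_lit 368) (nat_lit 216) (nat_lit 196)) (XT.lf (nat_lit 0) (nat_lit 61894393883) (nat_lit 76) (nat_lit 192028476881) (nat_lit 76) (nat_lit 192028476881) (nat_lit 1) (nat_lit 4) (nat_lit 2) (nat_lit 5) (nat_lit 2) (nat_lit 4) (nat_lit 346) (nat_lit 217) (nat_lit 217))) (XT.nd (nat_lit 78) (nat_lit 0) (nat_lit 0) (XT.lf (nat_lit 0) (nat_lit 135275895154) (nat_lit 76) (nat_lit 413976254972) (nat_lit 76) (nat_lit 413936437045) (nat_lit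 1) (nat_lit 4) (nat_lit 2) (nat_lit 5) (nat_lit 2) (nat_lit 4) (nat_lit 347) (nat_lit 217) (nat_lit 216)) (XT.lf (nat_lit 0) (nat_lit 147604738851) (nat_lit 76) (nat_lit 446326265857) (nat_lit 76) (nat_lit 446249579479) (nat_lit 1) (nat_lit 4) (nat_lit 2) (nat_lit 5) (nat_lit 2) (nat_lit 4) (nat_lit 348) (nat_lit 217) (nat_lit 215))))) (XT.nd (nat_lit 234) (nat_lit 0) (nat_lit 0) (XT.nd (nat_lit 78) (nat_lit 0) (nat_lit 0) (XT.lf (nat_lit 0) (nat_lit 160848378674) (nat_lit 76) (nat_lit 481298690186) (nat_lit 76) (nat_lit 481187866353) (nat_lit 1) (nat_lit 4) (nat_lit 2) (nat_lit 5) (nat_lit 2) (nat_lit 4) (nat_lit 349) (nat_lit 217) (nat_lit 214)) (XT.nd (nat_lit 78) (nat_lit 0) (nat_lit 0) (XT.lf (nat_lit 0) (nat_lit 175085295450) (nat_lit 76) (nat_lit 519100771954) (nat_lit 76) (nat_lit 518958339368) (nat_lit 1) (nat_lit 4) (nat_lit 2) (nat_lit 5) (nat_lit 2) (nat_lit 4) (nat_lit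 350) (nat_lit 217) (nat_lit 213)) (XT.lf (nat_lit 0) (nat_lit 190399856094) (nat_lit 76) (nat_lit 559956523499) (nat_lit 76) (nat_lit 559784823548) (nat_lit 1) (nat_lit 4) (nat_lit 2) (nat_lit 5) (nat_lit 2) (nat_lit 4) (nat_lit 351) (nat_lit 217) (nat_lit 212)))) (XT.nd (nat_lit 156) (nat_lit 0) (nat_lit 0) (XT.nd (nat_lit 78) (nat_lit 0) (nat_lit 0) (XT.lf (nat_lit 0) (nat_lit 206882813558) (nat_lit 76) (nat_lit 604108052978) (nat_lit 76) (nat_lit 603909253615) (nat_lit 1) (nat_lit 4) (nat_lit 2) (nat_lit 5) (nat_lit 2) (nat_lit 4) (nat_lit 352) (nat_lit 217) (nat_lit 211)) (XT.lf (nat_lit 0) (nat_lit 224631844627) (nat_lit 76) (nat_lit 651816999084) (nat_lit 76) (nat_lit 651593107672) (nat_lit 1) (nat_lit 4) (nat_lit 2) (nat_lit 5) (nat_lit 2) (nat_lit 4) (nat_lit 353) (nat_lit 217) (nat_lit 210))) (XT.nd (nat_lit 78) (nat_lit 0) (nat_lit 0) (XT.lf (nat_lit 0) (nat_lit 243752128744)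 (nat_lit 76) (nat_lit 703366081497) (nat_lit 76) (nat_lit 703118956707) (nat_lit 1) (nat_lit 4) (nat_lit 2) (nat_lit 5) (nat_lit 2) (nat_lit 4) (nat_lit 354) (nat_lit 217) (nat_lit 209)) (XT.lf (nat_lit 0) (nat_lit 264356971297) (nat_lit 76) (nat_lit 759060776261) (nat_lit 76) (nat_lit 758792139085) (nat_lit 1) (nat_lit 4) (nat_lit 2) (nat_lit 5) (nat_lit 2) (nat_lit 4) (nat_lit 355) (nat_lit 217) (nat_lit 208)))))) (XT.nd (nat_lit 546) (nat_lit 0) (nat_lit 0) (XT.nd (nat_lit 234) (nat_lit 0) (nat_lit 0) (XT.nd (nat_lit 78) (nat_lit 0) (nat_lit 0) (XT.lf (nat_lit 0) (nat_lit 286568475056) (nat_lit 76) (nat_lit 819231126013) (nat_lit 76) (nat_lit 818942569960) (nat_lit 1) (nat_lit 4) (nat_lit 2) (nat_lit 5) (nat_lit 2) (nat_lit 4) (nat_lit 356) (nat_lit 217) (nat_lit 207)) (XT.nd (nat_lit 78) (nat_lit 0) (nat_lit 0) (XT.lf (nat_lit 0) (nat_lit 310518263747) (nat_lit 76) (nat_lit 884233695787)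 (nat_lit 76) (nat_lit 883926696330) (nat_lit 1) (nat_lit 4) (nat_lit 2) (nat_lit 5) (nat_lit 2) (nat_lit 4) (nat_lit 357) (nat_lit 217) (nat_lit 206)) (XT.lf (nat_lit 0) (nat_lit 336348262045) (nat_lit 76) (nat_lit 954453685997) (nat_lit 76) (nat_lit 954129609314) (nat_lit 1) (nat_lit 4) (nat_lit 2) (nat_lit 5) (nat_lit 2) (nat_lit 4) (nat_lit 358) (nat_lit 217) (nat_lit 205)))) (XT.nd (nat_lit 156) (nat_lit 0) (nat_lit 0) (XT.nd (nat_lit 78) (nat_lit 0) (nat_lit 0) (XT.lf (nat_lit 0) (nat_lit 364211536604) (nat_lit 76) (nat_lit 1030307215104) (nat_lit 76) (nat_lit 1029967326174) (nat_lit 1) (nat_lit 4) (nat_lit 2) (nat_lit 5) (nat_lit 2) (nat_lit 4) (nat_lit 359) (nat_lit 217) (nat_lit 204)) (XT.lf (nat_lit 0) (nat_lit 394273203128) (nat_lit 76) (nat_lit 1112243785503) (nat_lit 76) (nat_lit 1111889255603) (nat_lit 1) (nat_lit 4) (nat_lit 2) (nat_lit 5) (nat_lit 2) (nat_lit 4) (nat_lit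 360) (nat_lit 217) (nat_lit 203))) (XT.nd (nat_lit 78) (nat_lit 0) (nat_lit 0) (XT.lf (nat_lit 0) (nat_lit 426711404824) (nat_lit 76) (nat_lit 1200748947239) (nat_lit 76) (nat_lit 1200380860887) (nat_lit 1) (nat_lit 4) (nat_lit 2) (nat_lit 5) (nat_lit 2) (nat_lit 4) (nat_lit 361) (nat_lit 217) (nat_lit 202)) (XT.lf (nat_lit 0) (nat_lit 461718368073) (nat_lit 76) (nat_lit 1296347175346) (nat_lit 76) (nat_lit 1295966536723) (nat_lit 1) (nat_lit 4) (nat_lit 2) (nat_lit 5) (nat_lit 2) (nat_lit 4) (nat_lit 362) (nat_lit 217) (nat_lit 201))))) (XT.nd (nat_lit 312) (nat_lit 0) (nat_lit 0) (XT.nd (nat_lit 156) (nat_lit 0) (nat_lit 0) (XT.nd (nat_lit 78) (nat_lit 0) (nat_lit 0) (XT.lf (nat_lit 0) (nat_lit 499501541546) (nat_lit 76) (nat_lit 1399604977842) (nat_lit 76) (nat_lit 1399212716746) (nat_lit 1) (nat_lit 4) (nat_lit 2) (nat_lit 5) (nat_lit 2) (nat_lit 4) (nat_lit 363) (nat_lit 217) (nat_lit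 200)) (XT.lf (nat_lit 0) (nat_lit 540284825530) (nat_lit 76) (nat_lit 1511134252816) (nat_lit 76) (nat_lit 1510731230170) (nat_lit 1) (nat_lit 4) (nat_lit 2) (nat_lit 5) (nat_lit 2) (nat_lit 4) (nat_lit 364) (nat_lit 217) (nat_lit 199))) (XT.nd (nat_lit 78) (nat_lit 0) (nat_lit 0) (XT.lf (nat_lit 0) (nat_lit 584309898747) (nat_lit 76) (nat_lit 1631595914491) (nat_lit 76) (nat_lit 1631182927447) (nat_lit 1) (nat_lit 4) (nat_lit 2) (nat_lit 5) (nat_lit 2) (nat_lit 4) (nat_lit 365) (nat_lit 217) (nat_lit 198)) (XT.lf (nat_lit 0) (nat_lit 631837650517) (nat_lit 76) (nat_lit 1761703809749) (nat_lit 76) (nat_lit 1761281596411) (nat_lit 1) (nat_lit 4) (nat_lit 2) (nat_lit 5) (nat_lit 2) (nat_lit 4) (nat_lit 366) (nat_lit 217) (nat_lit 197)))) (XT.nd (nat_lit 38844) (nat_lit 0) (nat_lit 0) (XT.nd (nat_lit 78) (nat_lit 0) (nat_lit 0) (XT.lf (nat_lit 0) (nat_lit 683149726777) (nat_lit 76) (nat_lit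 1902228948340) (nat_lit 76) (nat_lit 1901798192138) (nat_lit 1) (nat_lit 4) (nat_lit 2) (nat_lit 5) (nat_lit 2) (nat_lit 4) (nat_lit 367) (nat_lit 217) (nat_lit 196)) (XT.lf (nat_lit 0) (nat_lit 738550199091) (nat_lit 76) (nat_lit 2054004071828) (nat_lit 76) (nat_lit 2053565405565) (nat_lit 1) (nat_lit 4) (nat_lit 2) (nat_lit 5) (nat_lit 2) (nat_lit 4) (nat_lit 368) (nat_lit 217) (nat_lit 195))) (XT.nd (nat_lit 78) (nat_lit 0) (nat_lit 0) (XT.lf (nat_lit 0) (nat_lit 51557694550) (nat_lit 76) (nat_lit 165418398855) (nat_lit 76) (nat_lit 165418398855) (nat_lit 1) (nat_lit 4) (nat_lit 2) (nat_lit 5) (nat_lit 2) (nat_lit 4) (nat_lit 344) (nat_lit 218) (nat_lit 218)) (XT.lf (nat_lit 0) (nat_lit 113075344943) (nat_lit 76) (nat_lit 356434066028) (nat_lit 76) (nat_lit 356391062667) (nat_lit 1) (nat_lit 4) (nat_lit 2) (nat_lit 5) (nat_lit 2) (nat_lit 4) (nat_lit 345) (nat_lit 218) (nat_lit 217)))))))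 (XT.nd (nat_lit 1170) (nat_lit 0) (nat_lit 0) (XT.nd (nat_lit 546) (nat_lit 0) (nat_lit 0) (XT.nd (nat_lit 234) (nat_lit 0) (nat_lit 0) (XT.nd (nat_lit 78) (nat_lit 0) (nat_lit 0) (XT.lf (nat_lit 0) (nat_lit 123748686390) (nat_lit 76) (nat_lit 384119254636) (nat_lit 76) (nat_lit 384036433348) (nat_lit 1) (nat_lit 4) (nat_lit 2) (nat_lit 5) (nat_lit 2) (nat_lit 4) (nat_lit 346) (nat_lit 218) (nat_lit 216)) (XT.nd (nat_lit 78) (nat_lit 0) (nat_lit 0) (XT.lf (nat_lit 0) (nat_lit 135198662873) (nat_lit 76) (nat_lit 414056423912) (nat_lit 76) (nat_lit 413936734173) (nat_lit 1) (nat_lit 4) (nat_lit 2) (nat_lit 5) (nat_lit 2) (nat_lit 4) (nat_lit 347) (nat_lit 218) (nat_lit 215)) (XT.lf (nat_lit 0) (nat_lit 147493126104) (nat_lit 76) (nat_lit 446422979303) (nat_lit 76) (nat_lit 446269152110) (nat_lit 1) (nat_lit 4) (nat_lit 2) (nat_lit 5) (nat_lit 2) (nat_lit 4) (nat_lit 348) (nat_lit 218)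 (nat_lit 214)))) (XT.nd (nat_lit 156) (nat_lit 0) (nat_lit 0) (XT.nd (nat_lit 78) (nat_lit 0) (nat_lit 0) (XT.lf (nat_lit 0) (nat_lit 160704932161) (nat_lit 76) (nat_lit 481410722619) (nat_lit 76) (nat_lit 481225286672) (nat_lit 1) (nat_lit 4) (nat_lit 2) (nat_lit 5) (nat_lit 2) (nat_lit 4) (nat_lit 349) (nat_lit 218) (nat_lit 213)) (XT.lf (nat_lit 0) (nat_lit 174912373229) (nat_lit 76) (nat_lit 519226988635) (nat_lit 76) (nat_lit 519012285323) (nat_lit 1) (nat_lit 4) (nat_lit 2) (nat_lit 5) (nat_lit 2) (nat_lit 4) (nat_lit 350) (nat_lit 218) (nat_lit 212))) (XT.nd (nat_lit 78) (nat_lit 0) (nat_lit 0) (XT.lf (nat_lit 0) (nat_lit 190199641550) (nat_lit 76) (nat_lit 560095873743) (nat_lit 76) (nat_lit 559854071019) (nat_lit 1) (nat_lit 4) (nat_lit 2) (nat_lit 5) (nat_lit 2) (nat_lit 4) (nat_lit 351) (nat_lit 218) (nat_lit 211)) (XT.lf (nat_lit 0) (nat_lit 206657328345) (nat_lit 76) (nat_lit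 604259563928) (nat_lit 76) (nat_lit 603992669155) (nat_lit 1) (nat_lit 4) (nat_lit 2) (nat_lit 5) (nat_lit 2) (nat_lit 4) (nat_lit 352) (nat_lit 218) (nat_lit 210))))) (XT.nd (nat_lit 312) (nat_lit 0) (nat_lit 0) (XT.nd (nat_lit 156) (nat_lit 0) (nat_lit 0) (XT.nd (nat_lit 78) (nat_lit 0) (nat_lit 0) (XT.lf (nat_lit 0) (nat_lit 224382960646) (nat_lit 76) (nat_lit 651979769946) (nat_lit 76) (nat_lit 651689641796) (nat_lit 1) (nat_lit 4) (nat_lit 2) (nat_lit 5) (nat_lit 2) (nat_lit 4) (nat_lit 353) (nat_lit 218) (nat_lit 209)) (XT.lf (nat_lit 0) (nat_lit 243481579237) (nat_lit 76) (nat_lit 703539278205) (nat_lit 76) (nat_lit 703227637668) (nat_lit 1) (nat_lit 4) (nat_lit 2) (nat_lit 5) (nat_lit 2) (nat_lit 4) (nat_lit 354) (nat_lit 218) (nat_lit 208))) (XT.nd (nat_lit 78) (nat_lit 0) (nat_lit 0) (XT.lf (nat_lit 0) (nat_lit 264066361118) (nat_lit 76) (nat_lit 759243626530) (nat_lit 76)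 (nat_lit 758912067116) (nat_lit 1) (nat_lit 4) (nat_lit 2) (nat_lit 5) (nat_lit 2) (nat_lit 4) (nat_lit 355) (nat_lit 218) (nat_lit 207)) (XT.lf (nat_lit 0) (nat_lit 286259290180) (nat_lit 76) (nat_lit 819422914763) (nat_lit 76) (nat_lit 819072911945) (nat_lit 1) (nat_lit 4) (nat_lit 2) (nat_lit 5) (nat_lit 2) (nat_lit 4) (nat_lit 356) (nat_lit 218) (nat_lit 206)))) (XT.nd (nat_lit 156) (nat_lit 0) (nat_lit 0) (XT.nd (nat_lit 78) (nat_lit 0) (nat_lit 0) (XT.lf (nat_lit 0) (nat_lit 310191880079) (nat_lit 76) (nat_lit 884433760910) (nat_lit 76) (nat_lit 884066680865) (nat_lit 1) (nat_lit 4) (nat_lit 2) (nat_lit 5) (nat_lit 2) (nat_lit 4) (nat_lit 357) (nat_lit 218) (nat_lit 205)) (XT.lf (nat_lit 0) (nat_lit 336005953567) (nat_lit 76) (nat_lit 954661414428) (nat_lit 76) (nat_lit 954278522137) (nat_lit 1) (nat_lit 4) (nat_lit 2) (nat_lit 5) (nat_lit 2) (nat_lit 4) (nat_lit 358) (nat_lit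 218) (nat_lit 204))) (XT.nd (nat_lit 78) (nat_lit 0) (nat_lit 0) (XT.lf (nat_lit 0) (nat_lit 363854482934) (nat_lit 76) (nat_lit 1030522039190) (nat_lit 76) (nat_lit 1030124505930) (nat_lit 1) (nat_lit 4) (nat_lit 2) (nat_lit 5) (nat_lit 2) (nat_lit 4) (nat_lit 359) (nat_lit 218) (nat_lit 203)) (XT.lf (nat_lit 0) (nat_lit 393902496501) (nat_lit 76) (nat_lit 1112465179639) (nat_lit 76) (nat_lit 1112054089926) (nat_lit 1) (nat_lit 4) (nat_lit 2) (nat_lit 5) (nat_lit 2) (nat_lit 4) (nat_lit 360) (nat_lit 218) (nat_lit 202)))))) (XT.nd (nat_lit 546) (nat_lit 0) (nat_lit 0) (XT.nd (nat_lit 234) (nat_lit 0) (nat_lit 0) (XT.nd (nat_lit 78) (nat_lit 0) (nat_lit 0) (XT.lf (nat_lit 0) (nat_lit 426328056571) (nat_lit 76) (nat_lit 1200976424757) (nat_lit 76) (nat_lit 1200552782772) (nat_lit 1) (nat_lit 4) (nat_lit 2) (nat_lit 5) (nat_lit 2) (nat_lit 4) (nat_lit 361) (nat_lit 218) (nat_lit 201))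 (XT.nd (nat_lit 78) (nat_lit 0) (nat_lit 0) (XT.lf (nat_lit 0) (nat_lit 461323314611) (nat_lit 76) (nat_lit 1296580285624) (nat_lit 76) (nat_lit 1296145021166) (nat_lit 1) (nat_lit 4) (nat_lit 2) (nat_lit 5) (nat_lit 2) (nat_lit 4) (nat_lit 362) (nat_lit 218) (nat_lit 200)) (XT.lf (nat_lit 0) (nat_lit 499095649927) (nat_lit 76) (nat_lit 1399843303638) (nat_lit 76) (nat_lit 1399397277631) (nat_lit 1) (nat_lit 4) (nat_lit 2) (nat_lit 5) (nat_lit 2) (nat_lit 4) (nat_lit 363) (nat_lit 218) (nat_lit 199)))) (XT.nd (nat_lit 156) (nat_lit 0) (nat_lit 0) (XT.nd (nat_lit 78) (nat_lit 0) (nat_lit 0) (XT.lf (nat_lit 0) (nat_lit 539868898581) (nat_lit 76) (nat_lit 1511377407796) (nat_lit 76) (nat_lit 1510921417391) (nat_lit 1) (nat_lit 4) (nat_lit 2) (nat_lit 5) (nat_lit 2) (nat_lit 4) (nat_lit 364) (nat_lit 218) (nat_lit 198)) (XT.lf (nat_lit 0) (nat_lit 583884679824) (nat_lit 76) (nat_lit 1631843540936)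 (nat_lit 76) (nat_lit 1631378324238) (nat_lit 1) (nat_lit 4) (nat_lit 2) (nat_lit 5) (nat_lit 2) (nat_lit 4) (nat_lit 365) (nat_lit 218) (nat_lit 197))) (XT.nd (nat_lit 78) (nat_lit 0) (nat_lit 0) (XT.lf (nat_lit 0) (nat_lit 631403827916) (nat_lit 76) (nat_lit 1761955576441) (nat_lit 76) (nat_lit 1761481816878) (nat_lit 1) (nat_lit 4) (nat_lit 2) (nat_lit 5) (nat_lit 2) (nat_lit 4) (nat_lit 366) (nat_lit 218) (nat_lit 196)) (XT.lf (nat_lit 0) (nat_lit 682707937808) (nat_lit 76) (nat_lit 1902484548594) (nat_lit 76) (nat_lit 1902002878971) (nat_lit 1) (nat_lit 4) (nat_lit 2) (nat_lit 5) (nat_lit 2) (nat_lit 4) (nat_lit 367) (nat_lit 218) (nat_lit 195))))) (XT.nd (nat_lit 38844) (nat_lit 0) (nat_lit 0) (XT.nd (nat_lit 38688) (nat_lit 0) (nat_lit 0) (XT.nd (nat_lit 38610) (nat_lit 0) (nat_lit 0) (XT.lf (nat_lit 0) (nat_lit 738101033855) (nat_lit 76) (nat_lit 2054263221676) (nat_lit 76)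 (nat_lit 2053774227923) (nat_lit 1) (nat_lit 4) (nat_lit 2) (nat_lit 5) (nat_lit 2) (nat_lit 4) (nat_lit 368) (nat_lit 218) (nat_lit 194)) (XT.lf (nat_lit 0) (nat_lit 42575099171) (nat_lit 76) (nat_lit 142667340434) (nat_lit 76) (nat_lit 142667340434) (nat_lit 1) (nat_lit 4) (nat_lit 2) (nat_lit 5) (nat_lit 2) (nat_lit 4) (nat_lit 342) (nat_lit 219) (nat_lit 219))) (XT.nd (nat_lit 78) (nat_lit 0) (nat_lit 0) (XT.lf (nat_lit 0) (nat_lit 93809796901) (nat_lit 76) (nat_lit 307222205798) (nat_lit 76) (nat_lit 307175762168) (nat_lit 1) (nat_lit 4) (nat_lit 2) (nat_lit 5) (nat_lit 2) (nat_lit 4) (nat_lit 343) (nat_lit 219) (nat_lit 218)) (XT.lf (nat_lit 0) (nat_lit 103072079614) (nat_lit 76) (nat_lit 330904082654) (nat_lit 76) (nat_lit 330814635663) (nat_lit 1) (nat_lit 4) (nat_lit 2) (nat_lit 5) (nat_lit 2) (nat_lit 4) (nat_lit 344) (nat_lit 219) (nat_lit 217)))) (XT.nd (nat_lit 156) (nat_lit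 0) (nat_lit 0) (XT.nd (nat_lit 78) (nat_lit 0) (nat_lit 0) (XT.lf (nat_lit 0) (nat_lit 112991934080) (nat_lit 76) (nat_lit 356520648483) (nat_lit 76) (nat_lit 356391383565) (nat_lit 1) (nat_lit 4) (nat_lit 2) (nat_lit 5) (nat_lit 2) (nat_lit 4) (nat_lit 345) (nat_lit 219) (nat_lit 216)) (XT.lf (nat_lit 0) (nat_lit 123628144624) (nat_lit 76) (nat_lit 384223705158) (nat_lit 76) (nat_lit 384057571790) (nat_lit 1) (nat_lit 4) (nat_lit 2) (nat_lit 5) (nat_lit 2) (nat_lit 4) (nat_lit 346) (nat_lit 219) (nat_lit 215))) (XT.nd (nat_lit 78) (nat_lit 0) (nat_lit 0) (XT.lf (nat_lit 0) (nat_lit 135043740640) (nat_lit 76) (nat_lit 414177418940) (nat_lit 76) (nat_lit 413977148117) (nat_lit 1) (nat_lit 4) (nat_lit 2) (nat_lit 5) (nat_lit 2) (nat_lit 4) (nat_lit 347) (nat_lit 219) (nat_lit 214)) (XT.lf (nat_lit 0) (nat_lit 147306370105) (nat_lit 76) (nat_lit 446559293319) (nat_lit 76) (nat_lit 446327413742)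 (nat_lit 1) (nat_lit 4) (nat_lit 2) (nat_lit 5) (nat_lit 2) (nat_lit 4) (nat_lit 348) (nat_lit 219) (nat_lit 213))))))))
noncomputable def xc3 : XT := (XT.nd (nat_lit 40638) (nat_lit 0) (nat_lit 0) (XT.nd (nat_lit 1092) (nat_lit 0) (nat_lit 0) (XT.nd (nat_lit 546) (nat_lit 0) (nat_lit 0) (XT.nd (nat_lit 234) (nat_lit 0) (nat_lit 0) (XT.nd (nat_lit 78) (nat_lit 0) (nat_lit 0) (XT.lf (nat_lit 0) (nat_lit 160488700454) (nat_lit 76) (nat_lit 481561220882) (nat_lit 76) (nat_lit 481300073940) (nat_lit 1) (nat_lit 4) (nat_lit 2) (nat_lit 5) (nat_lit 2) (nat_lit 4) (nat_lit 349) (nat_lit 219) (nat_lit 212)) (XT.nd (nat_lit 78) (nat_lit 0) (nat_lit 0) (XT.lf (nat_lit 0) (nat_lit 174668849198) (nat_lit 76) (nat_lit 519390620461) (nat_lit 76) (nat_lit 519102374107) (nat_lit 1) (nat_lit 4) (nat_lit 2) (nat_lit 5) (nat_lit 2) (nat_lit 4) (nat_lit 350) (nat_lit 219) (nat_lit 211)) (XT.lf (nat_lit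 0) (nat_lit 189930846850) (nat_lit 76) (nat_lit 560271666275) (nat_lit 76) (nat_lit 559958327873) (nat_lit 1) (nat_lit 4) (nat_lit 2) (nat_lit 5) (nat_lit 2) (nat_lit 4) (nat_lit 351) (nat_lit 219) (nat_lit 210)))) (XT.nd (nat_lit 156) (nat_lit 0) (nat_lit 0) (XT.nd (nat_lit 78) (nat_lit 0) (nat_lit 0) (XT.lf (nat_lit 0) (nat_lit 206365134877) (nat_lit 76) (nat_lit 604446616373) (nat_lit 76) (nat_lit 604110044593) (nat_lit 1) (nat_lit 4) (nat_lit 2) (nat_lit 5) (nat_lit 2) (nat_lit 4) (nat_lit 352) (nat_lit 219) (nat_lit 209)) (XT.lf (nat_lit 0) (nat_lit 224069101652) (nat_lit 76) (nat_lit 652177248237) (nat_lit 76) (nat_lit 651819164070) (nat_lit 1) (nat_lit 4) (nat_lit 2) (nat_lit 5) (nat_lit 2) (nat_lit 4) (nat_lit 353) (nat_lit 219) (nat_lit 208))) (XT.nd (nat_lit 78) (nat_lit 0) (nat_lit 0) (XT.lf (nat_lit 0) (nat_lit 243147659571) (nat_lit 76) (nat_lit 703746410056) (nat_lit 76)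 (nat_lit 703368407012) (nat_lit 1) (nat_lit 4) (nat_lit 2) (nat_lit 5) (nat_lit 2) (nat_lit 4) (nat_lit 354) (nat_lit 219) (nat_lit 207)) (XT.lf (nat_lit 0) (nat_lit 263713866755) (nat_lit 76) (nat_lit 759459696863) (nat_lit 76) (nat_lit 759063250414) (nat_lit 1) (nat_lit 4) (nat_lit 2) (nat_lit 5) (nat_lit 2) (nat_lit 4) (nat_lit 355) (nat_lit 219) (nat_lit 206))))) (XT.nd (nat_lit 234) (nat_lit 0) (nat_lit 0) (XT.nd (nat_lit 78) (nat_lit 0) (nat_lit 0) (XT.lf (nat_lit 0) (nat_lit 285889597025) (nat_lit 76) (nat_lit 819647261468) (nat_lit 76) (nat_lit 819233737794) (nat_lit 1) (nat_lit 4) (nat_lit 2) (nat_lit 5) (nat_lit 2) (nat_lit 4) (nat_lit 356) (nat_lit 219) (nat_lit 205)) (XT.nd (nat_lit 78) (nat_lit 0) (nat_lit 0) (XT.lf (nat_lit 0) (nat_lit 309806262115) (nat_lit 76) (nat_lit 884665770922) (nat_lit 76) (nat_lit 884236435001) (nat_lit 1) (nat_lit 4) (nat_lit 2) (nat_lit 5) (nat_lit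 2) (nat_lit 4) (nat_lit 357) (nat_lit 219) (nat_lit 204)) (XT.lf (nat_lit 0) (nat_lit 335605590411) (nat_lit 76) (nat_lit 954900520096) (nat_lit 76) (nat_lit 954456543205) (nat_lit 1) (nat_lit 4) (nat_lit 2) (nat_lit 5) (nat_lit 2) (nat_lit 4) (nat_lit 358) (nat_lit 219) (nat_lit 203)))) (XT.nd (nat_lit 156) (nat_lit 0) (nat_lit 0) (XT.nd (nat_lit 78) (nat_lit 0) (nat_lit 0) (XT.lf (nat_lit 0) (nat_lit 363440466822) (nat_lit 76) (nat_lit 1030767714909) (nat_lit 76) (nat_lit 1030310181566) (nat_lit 1) (nat_lit 4) (nat_lit 2) (nat_lit 5) (nat_lit 2) (nat_lit 4) (nat_lit 359) (nat_lit 219) (nat_lit 202)) (XT.lf (nat_lit 0) (nat_lit 393475838762) (nat_lit 76) (nat_lit 1112716938739) (nat_lit 76) (nat_lit 1112246853125) (nat_lit 1) (nat_lit 4) (nat_lit 2) (nat_lit 5) (nat_lit 2) (nat_lit 4) (nat_lit 360) (nat_lit 219) (nat_lit 201))) (XT.nd (nat_lit 78) (nat_lit 0) (nat_lit 0) (XT.lf (nat_lit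 0) (nat_lit 425889693623) (nat_lit 76) (nat_lit 1201233816616) (nat_lit 76) (nat_lit 1200752108528) (nat_lit 1) (nat_lit 4) (nat_lit 2) (nat_lit 5) (nat_lit 2) (nat_lit 4) (nat_lit 361) (nat_lit 219) (nat_lit 200)) (XT.lf (nat_lit 0) (nat_lit 460874113505) (nat_lit 76) (nat_lit 1296842893001) (nat_lit 76) (nat_lit 1296350423364) (nat_lit 1) (nat_lit 4) (nat_lit 2) (nat_lit 5) (nat_lit 2) (nat_lit 4) (nat_lit 362) (nat_lit 219) (nat_lit 199)))))) (XT.nd (nat_lit 38922) (nat_lit 0) (nat_lit 0) (XT.nd (nat_lit 234) (nat_lit 0) (nat_lit 0) (XT.nd (nat_lit 78) (nat_lit 0) (nat_lit 0) (XT.lf (nat_lit 0) (nat_lit 498636413491) (nat_lit 76) (nat_lit 1400110740199) (nat_lit 76) (nat_lit 1399608306165) (nat_lit 1) (nat_lit 4) (nat_lit 2) (nat_lit 5) (nat_lit 2) (nat_lit 4) (nat_lit 363) (nat_lit 219) (nat_lit 198)) (XT.nd (nat_lit 78) (nat_lit 0) (nat_lit 0) (XT.lf (nat_lit 0) (nat_lit 539400370172)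 (nat_lit 76) (nat_lit 1511649315824) (nat_lit 76) (nat_lit 1511137655495) (nat_lit 1) (nat_lit 4) (nat_lit 2) (nat_lit 5) (nat_lit 2) (nat_lit 4) (nat_lit 364) (nat_lit 219) (nat_lit 197)) (XT.lf (nat_lit 0) (nat_lit 583407547737) (nat_lit 76) (nat_lit 1632119589211) (nat_lit 76) (nat_lit 1631599386017) (nat_lit 1) (nat_lit 4) (nat_lit 2) (nat_lit 5) (nat_lit 2) (nat_lit 4) (nat_lit 365) (nat_lit 219) (nat_lit 196)))) (XT.nd (nat_lit 156) (nat_lit 0) (nat_lit 0) (XT.nd (nat_lit 78) (nat_lit 0) (nat_lit 0) (XT.lf (nat_lit 0) (nat_lit 630918729460) (nat_lit 76) (nat_lit 1762235458277) (nat_lit 76) (nat_lit 1761707345024) (nat_lit 1) (nat_lit 4) (nat_lit 2) (nat_lit 5) (nat_lit 2) (nat_lit 4) (nat_lit 366) (nat_lit 219) (nat_lit 195)) (XT.lf (nat_lit 0) (nat_lit 682215463084) (nat_lit 76) (nat_lit 1902767980025) (nat_lit 76) (nat_lit 1902232542642) (nat_lit 1) (nat_lit 4) (nat_lit 2) (nat_lit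 5) (nat_lit 2) (nat_lit 4) (nat_lit 367) (nat_lit 219) (nat_lit 194))) (XT.nd (nat_lit 38454) (nat_lit 0) (nat_lit 0) (XT.lf (nat_lit 0) (nat_lit 737601729254) (nat_lit 76) (nat_lit 2054549939768) (nat_lit 76) (nat_lit 2054007720783) (nat_lit 1) (nat_lit 4) (nat_lit 2) (nat_lit 5) (nat_lit 2) (nat_lit 4) (nat_lit 368) (nat_lit 219) (nat_lit 193)) (XT.lf (nat_lit 0) (nat_lit 34743786337) (nat_lit 76) (nat_lit 123229792886) (nat_lit 76) (nat_lit 123229792886) (nat_lit 1) (nat_lit 4) (nat_lit 2) (nat_lit 5) (nat_lit 2) (nat_lit 4) (nat_lit 340) (nat_lit 220) (nat_lit 220))))) (XT.nd (nat_lit 312) (nat_lit 0) (nat_lit 0) (XT.nd (nat_lit 156) (nat_lit 0) (nat_lit 0) (XT.nd (nat_lit 78) (nat_lit 0) (nat_lit 0) (XT.lf (nat_lit 0) (nat_lit 77041967796) (nat_lit 76) (nat_lit 265161963132) (nat_lit 76) (nat_lit 265111804012) (nat_lit 1) (nat_lit 4) (nat_lit 2) (nat_lit 5) (nat_lit 2) (nat_lit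 4) (nat_lit 341) (nat_lit 220) (nat_lit 219)) (XT.lf (nat_lit 0) (nat_lit 85103424096) (nat_lit 76) (nat_lit 285407348606) (nat_lit 76) (nat_lit 285310745856) (nat_lit 1) (nat_lit 4) (nat_lit 2) (nat_lit 5) (nat_lit 2) (nat_lit 4) (nat_lit 342) (nat_lit 220) (nat_lit 218))) (XT.nd (nat_lit 78) (nat_lit 0) (nat_lit 0) (XT.lf (nat_lit 0) (nat_lit 93719713169) (nat_lit 76) (nat_lit 307315714849) (nat_lit 76) (nat_lit 307176108738) (nat_lit 1) (nat_lit 4) (nat_lit 2) (nat_lit 5) (nat_lit 2) (nat_lit 4) (nat_lit 343) (nat_lit 220) (nat_lit 217)) (XT.lf (nat_lit 0) (nat_lit 102941894505) (nat_lit 76) (nat_lit 331016889217) (nat_lit 76) (nat_lit 330837465179) (nat_lit 1) (nat_lit 4) (nat_lit 2) (nat_lit 5) (nat_lit 2) (nat_lit 4) (nat_lit 344) (nat_lit 220) (nat_lit 216)))) (XT.nd (nat_lit 156) (nat_lit 0) (nat_lit 0) (XT.nd (nat_lit 78) (nat_lit 0) (nat_lit 0) (XT.lf (nat_lit 0) (nat_lit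 112824618068) (nat_lit 76) (nat_lit 356651323114) (nat_lit 76) (nat_lit 356435030625) (nat_lit 1) (nat_lit 4) (nat_lit 2) (nat_lit 5) (nat_lit 2) (nat_lit 4) (nat_lit 345) (nat_lit 220) (nat_lit 215)) (XT.lf (nat_lit 0) (nat_lit 123426448145) (nat_lit 76) (nat_lit 384370924295) (nat_lit 76) (nat_lit 384120494352) (nat_lit 1) (nat_lit 4) (nat_lit 2) (nat_lit 5) (nat_lit 2) (nat_lit 4) (nat_lit 346) (nat_lit 220) (nat_lit 214))) (XT.nd (nat_lit 78) (nat_lit 0) (nat_lit 0) (XT.lf (nat_lit 0) (nat_lit 134810210395) (nat_lit 76) (nat_lit 414339957065) (nat_lit 76) (nat_lit 414057918367) (nat_lit 1) (nat_lit 4) (nat_lit 2) (nat_lit 5) (nat_lit 2) (nat_lit 4) (nat_lit 347) (nat_lit 220) (nat_lit 213)) (XT.lf (nat_lit 0) (nat_lit 147043364152) (nat_lit 76) (nat_lit 446736015691) (nat_lit 76) (nat_lit 446424709628) (nat_lit 1) (nat_lit 4) (nat_lit 2) (nat_lit 5) (nat_lit 2) (nat_lit 4) (nat_lit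 348) (nat_lit 220) (nat_lit 212))))))) (XT.nd (nat_lit 1170) (nat_lit 0) (nat_lit 0) (XT.nd (nat_lit 546) (nat_lit 0) (nat_lit 0) (XT.nd (nat_lit 234) (nat_lit 0) (nat_lit 0) (XT.nd (nat_lit 78) (nat_lit 0) (nat_lit 0) (XT.lf (nat_lit 0) (nat_lit 160198402178) (nat_lit 76) (nat_lit 481751076817) (nat_lit 76) (nat_lit 481412671342) (nat_lit 1) (nat_lit 4) (nat_lit 2) (nat_lit 5) (nat_lit 2) (nat_lit 4) (nat_lit 349) (nat_lit 220) (nat_lit 211)) (XT.nd (nat_lit 78) (nat_lit 0) (nat_lit 0) (XT.lf (nat_lit 0) (nat_lit 174353280253) (nat_lit 76) (nat_lit 519592637102) (nat_lit 76) (nat_lit 519229139579) (nat_lit 1) (nat_lit 4) (nat_lit 2) (nat_lit 5) (nat_lit 2) (nat_lit 4) (nat_lit 350) (nat_lit 220) (nat_lit 210)) (XT.lf (nat_lit 0) (nat_lit 189591879137) (nat_lit 76) (nat_lit 560484942828) (nat_lit 76) (nat_lit 560098211928) (nat_lit 1) (nat_lit 4) (nat_lit 2) (nat_lit 5) (nat_lit 2)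 (nat_lit 4) (nat_lit 351) (nat_lit 220) (nat_lit 209)))) (XT.nd (nat_lit 156) (nat_lit 0) (nat_lit 0) (XT.nd (nat_lit 78) (nat_lit 0) (nat_lit 0) (XT.lf (nat_lit 0) (nat_lit 206004501638) (nat_lit 76) (nat_lit 604670318771) (nat_lit 76) (nat_lit 604262075484) (nat_lit 1) (nat_lit 4) (nat_lit 2) (nat_lit 5) (nat_lit 2) (nat_lit 4) (nat_lit 352) (nat_lit 220) (nat_lit 208)) (XT.lf (nat_lit 0) (nat_lit 223688407741) (nat_lit 76) (nat_lit 652410604196) (nat_lit 76) (nat_lit 651982442032) (nat_lit 1) (nat_lit 4) (nat_lit 2) (nat_lit 5) (nat_lit 2) (nat_lit 4) (nat_lit 353) (nat_lit 220) (nat_lit 207))) (XT.nd (nat_lit 78) (nat_lit 0) (nat_lit 0) (XT.lf (nat_lit 0) (nat_lit 242748390964) (nat_lit 76) (nat_lit 703988704497) (nat_lit 76) (nat_lit 703542098928) (nat_lit 1) (nat_lit 4) (nat_lit 2) (nat_lit 5) (nat_lit 2) (nat_lit 4) (nat_lit 354) (nat_lit 220) (nat_lit 206)) (XT.lf (nat_lit 0)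 (nat_lit 263297399355) (nat_lit 76) (nat_lit 759710267676) (nat_lit 76) (nat_lit 759246584881) (nat_lit 1) (nat_lit 4) (nat_lit 2) (nat_lit 5) (nat_lit 2) (nat_lit 4) (nat_lit 355) (nat_lit 220) (nat_lit 205))))) (XT.nd (nat_lit 312) (nat_lit 0) (nat_lit 0) (XT.nd (nat_lit 156) (nat_lit 0) (nat_lit 0) (XT.nd (nat_lit 78) (nat_lit 0) (nat_lit 0) (XT.lf (nat_lit 0) (nat_lit 285457204816) (nat_lit 76) (nat_lit 819905495590) (nat_lit 76) (nat_lit 819426000548) (nat_lit 1) (nat_lit 4) (nat_lit 2) (nat_lit 5) (nat_lit 2) (nat_lit 4) (nat_lit 356) (nat_lit 220) (nat_lit 204)) (XT.lf (nat_lit 0) (nat_lit 309359124713) (nat_lit 76) (nat_lit 884931100699) (nat_lit 76) (nat_lit 884436964688) (nat_lit 1) (nat_lit 4) (nat_lit 2) (nat_lit 5) (nat_lit 2) (nat_lit 4) (nat_lit 357) (nat_lit 220) (nat_lit 203))) (XT.nd (nat_lit 78) (nat_lit 0) (nat_lit 0) (XT.lf (nat_lit 0) (nat_lit 335144800053) (nat_lit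 76) (nat_lit 955172419923) (nat_lit 76) (nat_lit 954664727460) (nat_lit 1) (nat_lit 4) (nat_lit 2) (nat_lit 5) (nat_lit 2) (nat_lit 4) (nat_lit 358) (nat_lit 220) (nat_lit 202)) (XT.lf (nat_lit 0) (nat_lit 362967034837) (nat_lit 76) (nat_lit 1031045698117) (nat_lit 76) (nat_lit 1030525453382) (nat_lit 1) (nat_lit 4) (nat_lit 2) (nat_lit 5) (nat_lit 2) (nat_lit 4) (nat_lit 359) (nat_lit 220) (nat_lit 201)))) (XT.nd (nat_lit 156) (nat_lit 0) (nat_lit 0) (XT.nd (nat_lit 78) (nat_lit 0) (nat_lit 0) (XT.lf (nat_lit 0) (nat_lit 392990701568) (nat_lit 76) (nat_lit 1113000554707) (nat_lit 76) (nat_lit 1112468687499) (nat_lit 1) (nat_lit 4) (nat_lit 2) (nat_lit 5) (nat_lit 2) (nat_lit 4) (nat_lit 360) (nat_lit 220) (nat_lit 200)) (XT.lf (nat_lit 0) (nat_lit 425393718272) (nat_lit 76) (nat_lit 1201522648102) (nat_lit 76) (nat_lit 1200980019345) (nat_lit 1) (nat_lit 4) (nat_lit 2) (nat_lit 5)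 (nat_lit 2) (nat_lit 4) (nat_lit 361) (nat_lit 220) (nat_lit 199))) (XT.nd (nat_lit 78) (nat_lit 0) (nat_lit 0) (XT.lf (nat_lit 0) (nat_lit 460368102824) (nat_lit 76) (nat_lit 1297136553671) (nat_lit 76) (nat_lit 1296583960516) (nat_lit 1) (nat_lit 4) (nat_lit 2) (nat_lit 5) (nat_lit 2) (nat_lit 4) (nat_lit 362) (nat_lit 220) (nat_lit 198)) (XT.lf (nat_lit 0) (nat_lit 498121110837) (nat_lit 76) (nat_lit 1400408872336) (nat_lit 76) (nat_lit 1399847052887) (nat_lit 1) (nat_lit 4) (nat_lit 2) (nat_lit 5) (nat_lit 2) (nat_lit 4) (nat_lit 363) (nat_lit 220) (nat_lit 197)))))) (XT.nd (nat_lit 38766) (nat_lit 0) (nat_lit 0) (XT.nd (nat_lit 234) (nat_lit 0) (nat_lit 0) (XT.nd (nat_lit 78) (nat_lit 0) (nat_lit 0) (XT.lf (nat_lit 0) (nat_lit 538876463840) (nat_lit 76) (nat_lit 1511951588207) (nat_lit 76) (nat_lit 1511381225893) (nat_lit 1) (nat_lit 4) (nat_lit 2) (nat_lit 5) (nat_lit 2) (nat_lit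 4) (nat_lit 364) (nat_lit 220) (nat_lit 196)) (XT.nd (nat_lit 78) (nat_lit 0) (nat_lit 0) (XT.lf (nat_lit 0) (nat_lit 582875675036) (nat_lit 76) (nat_lit 1632425695155) (nat_lit 76) (nat_lit 1631847422782) (nat_lit 1) (nat_lit 4) (nat_lit 2) (nat_lit 5) (nat_lit 2) (nat_lit 4) (nat_lit 365) (nat_lit 220) (nat_lit 195)) (XT.lf (nat_lit 0) (nat_lit 630379480491) (nat_lit 76) (nat_lit 1762545113816) (nat_lit 76) (nat_lit 1761959517313) (nat_lit 1) (nat_lit 4) (nat_lit 2) (nat_lit 5) (nat_lit 2) (nat_lit 4) (nat_lit 366) (nat_lit 220) (nat_lit 194)))) (XT.nd (nat_lit 38376) (nat_lit 0) (nat_lit 0) (XT.nd (nat_lit 78) (nat_lit 0) (nat_lit 0) (XT.lf (nat_lit 0) (nat_lit 681669384238) (nat_lit 76) (nat_lit 1903080922225) (nat_lit 76) (nat_lit 1902488544120) (nat_lit 1) (nat_lit 4) (nat_lit 2) (nat_lit 5) (nat_lit 2) (nat_lit 4) (nat_lit 367) (nat_lit 220) (nat_lit 193)) (XT.lf (nat_lit 0)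 (nat_lit 737049326447) (nat_lit 76) (nat_lit 2054865925173) (nat_lit 76) (nat_lit 2054267267807) (nat_lit 1) (nat_lit 4) (nat_lit 2) (nat_lit 5) (nat_lit 2) (nat_lit 4) (nat_lit 368) (nat_lit 220) (nat_lit 192))) (XT.nd (nat_lit 78) (nat_lit 0) (nat_lit 0) (XT.lf (nat_lit 0) (nat_lit 27889097914) (nat_lit 76) (nat_lit 106638472286) (nat_lit 76) (nat_lit 106638472286) (nat_lit 1) (nat_lit 4) (nat_lit 2) (nat_lit 5) (nat_lit 2) (nat_lit 4) (nat_lit 338) (nat_lit 221) (nat_lit 221)) (XT.lf (nat_lit 0) (nat_lit 62395471946) (nat_lit 76) (nat_lit 229243559475) (nat_lit 76) (nat_lit 229189387625) (nat_lit 1) (nat_lit 4) (nat_lit 2) (nat_lit 5) (nat_lit 2) (nat_lit 4) (nat_lit 339) (nat_lit 221) (nat_lit 220))))) (XT.nd (nat_lit 312) (nat_lit 0) (nat_lit 0) (XT.nd (nat_lit 156) (nat_lit 0) (nat_lit 0) (XT.nd (nat_lit 78) (nat_lit 0) (nat_lit 0) (XT.lf (nat_lit 0) (nat_lit 69437056489) (nat_lit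 76) (nat_lit 246538066930) (nat_lit 76) (nat_lit 246433735960) (nat_lit 1) (nat_lit 4) (nat_lit 2) (nat_lit 5) (nat_lit 2) (nat_lit 4) (nat_lit 340) (nat_lit 221) (nat_lit 219)) (XT.lf (nat_lit 0) (nat_lit 76944677365) (nat_lit 76) (nat_lit 265262952908) (nat_lit 76) (nat_lit 265112178308) (nat_lit 1) (nat_lit 4) (nat_lit 2) (nat_lit 5) (nat_lit 2) (nat_lit 4) (nat_lit 341) (nat_lit 221) (nat_lit 218))) (XT.nd (nat_lit 78) (nat_lit 0) (nat_lit 0) (XT.lf (nat_lit 0) (nat_lit 84962824180) (nat_lit 76) (nat_lit 285529179695) (nat_lit 76) (nat_lit 285335401734) (nat_lit 1) (nat_lit 4) (nat_lit 2) (nat_lit 5) (nat_lit 2) (nat_lit 4) (nat_lit 342) (nat_lit 221) (nat_lit 217)) (XT.lf (nat_lit 0) (nat_lit 93539011876) (nat_lit 76) (nat_lit 307456843450) (nat_lit 76) (nat_lit 307223247562) (nat_lit 1) (nat_lit 4) (nat_lit 2) (nat_lit 5) (nat_lit 2) (nat_lit 4) (nat_lit 343) (nat_lit 221) (nat_lit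 216)))) (XT.nd (nat_lit 156) (nat_lit 0) (nat_lit 0) (XT.nd (nat_lit 78) (nat_lit 0) (nat_lit 0) (XT.lf (nat_lit 0) (nat_lit 102724062308) (nat_lit 76) (nat_lit 331175885885) (nat_lit 76) (nat_lit 330905421546) (nat_lit 1) (nat_lit 4) (nat_lit 2) (nat_lit 5) (nat_lit 2) (nat_lit 4) (nat_lit 344) (nat_lit 221) (nat_lit 215)) (XT.lf (nat_lit 0) (nat_lit 112572405404) (nat_lit 76) (nat_lit 356826864288) (nat_lit 76) (nat_lit 356522262495) (nat_lit 1) (nat_lit 4) (nat_lit 2) (nat_lit 5) (nat_lit 2) (nat_lit 4) (nat_lit 345) (nat_lit 221) (nat_lit 214))) (XT.nd (nat_lit 78) (nat_lit 0) (nat_lit 0) (XT.lf (nat_lit 0) (nat_lit 123142401715) (nat_lit 76) (nat_lit 384561784457) (nat_lit 76) (nat_lit 384225573909) (nat_lit 1) (nat_lit 4) (nat_lit 2) (nat_lit 5) (nat_lit 2) (nat_lit 4) (nat_lit 346) (nat_lit 221) (nat_lit 213)) (XT.lf (nat_lit 0) (nat_lit 134496688257) (nat_lit 76) (nat_lit 414545001474)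 (nat_lit 76) (nat_lit 414179523562) (nat_lit 1) (nat_lit 4) (nat_lit 2) (nat_lit 5) (nat_lit 2) (nat_lit 4) (nat_lit 347) (nat_lit 221) (nat_lit 212))))))))
noncomputable def xc4 : XT := (XT.nd (nat_lit 40326) (nat_lit 0) (nat_lit 0) (XT.nd (nat_lit 1092) (nat_lit 0) (nat_lit 0) (XT.nd (nat_lit 546) (nat_lit 0) (nat_lit 0) (XT.nd (nat_lit 234) (nat_lit 0) (nat_lit 0) (XT.nd (nat_lit 78) (nat_lit 0) (nat_lit 0) (XT.lf (nat_lit 0) (nat_lit 146702549691) (nat_lit 76) (nat_lit 446954193662) (nat_lit 76) (nat_lit 446561616338) (nat_lit 1) (nat_lit 4) (nat_lit 2) (nat_lit 5) (nat_lit 2) (nat_lit 4) (nat_lit 348) (nat_lit 221) (nat_lit 211)) (XT.nd (nat_lit 78) (nat_lit 0) (nat_lit 0) (XT.lf (nat_lit 0) (nat_lit 159832317047) (nat_lit 76) (nat_lit 481981415495) (nat_lit 76) (nat_lit 481563746122) (nat_lit 1) (nat_lit 4) (nat_lit 2) (nat_lit 5) (nat_lit 2) (nat_lit 4) (nat_lit 349) (nat_lit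 221) (nat_lit 210)) (XT.lf (nat_lit 0) (nat_lit 173963796355) (nat_lit 76) (nat_lit 519834235692) (nat_lit 76) (nat_lit 519393332942) (nat_lit 1) (nat_lit 4) (nat_lit 2) (nat_lit 5) (nat_lit 2) (nat_lit 4) (nat_lit 350) (nat_lit 221) (nat_lit 209)))) (XT.nd (nat_lit 156) (nat_lit 0) (nat_lit 0) (XT.nd (nat_lit 78) (nat_lit 0) (nat_lit 0) (XT.lf (nat_lit 0) (nat_lit 189180729713) (nat_lit 76) (nat_lit 560736967264) (nat_lit 76) (nat_lit 560274552127) (nat_lit 1) (nat_lit 4) (nat_lit 2) (nat_lit 5) (nat_lit 2) (nat_lit 4) (nat_lit 351) (nat_lit 221) (nat_lit 208)) (XT.lf (nat_lit 0) (nat_lit 205573291542) (nat_lit 76) (nat_lit 604931996768) (nat_lit 76) (nat_lit 604449662754) (nat_lit 1) (nat_lit 4) (nat_lit 2) (nat_lit 5) (nat_lit 2) (nat_lit 4) (nat_lit 352) (nat_lit 221) (nat_lit 207))) (XT.nd (nat_lit 78) (nat_lit 0) (nat_lit 0) (XT.lf (nat_lit 0) (nat_lit 223238622948) (nat_lit 76)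 (nat_lit 652681220675) (nat_lit 76) (nat_lit 652180443256) (nat_lit 1) (nat_lit 4) (nat_lit 2) (nat_lit 5) (nat_lit 2) (nat_lit 4) (nat_lit 353) (nat_lit 221) (nat_lit 206)) (XT.lf (nat_lit 0) (nat_lit 242281407378) (nat_lit 76) (nat_lit 704267597348) (nat_lit 76) (nat_lit 703749742703) (nat_lit 1) (nat_lit 4) (nat_lit 2) (nat_lit 5) (nat_lit 2) (nat_lit 4) (nat_lit 354) (nat_lit 221) (nat_lit 205))))) (XT.nd (nat_lit 234) (nat_lit 0) (nat_lit 0) (XT.nd (nat_lit 78) (nat_lit 0) (nat_lit 0) (XT.lf (nat_lit 0) (nat_lit 262814490961) (nat_lit 76) (nat_lit 759996823835) (nat_lit 76) (nat_lit 759463156943) (nat_lit 1) (nat_lit 4) (nat_lit 2) (nat_lit 5) (nat_lit 2) (nat_lit 4) (nat_lit 355) (nat_lit 221) (nat_lit 204)) (XT.nd (nat_lit 78) (nat_lit 0) (nat_lit 0) (XT.lf (nat_lit 0) (nat_lit 284959551230) (nat_lit 76) (nat_lit 820199147403) (nat_lit 76) (nat_lit 819650839543) (nat_lit 1) (nat_lit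 4) (nat_lit 2) (nat_lit 5) (nat_lit 2) (nat_lit 4) (nat_lit 356) (nat_lit 221) (nat_lit 203)) (XT.lf (nat_lit 0) (nat_lit 308847818170) (nat_lit 76) (nat_lit 885231322563) (nat_lit 76) (nat_lit 884669458250) (nat_lit 1) (nat_lit 4) (nat_lit 2) (nat_lit 5) (nat_lit 2) (nat_lit 4) (nat_lit 357) (nat_lit 221) (nat_lit 202)))) (XT.nd (nat_lit 156) (nat_lit 0) (nat_lit 0) (XT.nd (nat_lit 78) (nat_lit 0) (nat_lit 0) (XT.lf (nat_lit 0) (nat_lit 334620851884) (nat_lit 76) (nat_lit 955478725168) (nat_lit 76) (nat_lit 954904308584) (nat_lit 1) (nat_lit 4) (nat_lit 2) (nat_lit 5) (nat_lit 2) (nat_lit 4) (nat_lit 358) (nat_lit 221) (nat_lit 201)) (XT.lf (nat_lit 0) (nat_lit 362431381458) (nat_lit 76) (nat_lit 1031357636122) (nat_lit 76) (nat_lit 1030771597064) (nat_lit 1) (nat_lit 4) (nat_lit 2) (nat_lit 5) (nat_lit 2) (nat_lit 4) (nat_lit 359) (nat_lit 221) (nat_lit 200))) (XT.nd (nat_lit 78)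 (nat_lit 0) (nat_lit 0) (XT.lf (nat_lit 0) (nat_lit 392444210033) (nat_lit 76) (nat_lit 1113317708230) (nat_lit 76) (nat_lit 1112720907623) (nat_lit 1) (nat_lit 4) (nat_lit 2) (nat_lit 5) (nat_lit 2) (nat_lit 4) (nat_lit 360) (nat_lit 221) (nat_lit 199)) (XT.lf (nat_lit 0) (nat_lit 424837191406) (nat_lit 76) (nat_lit 1201844630809) (nat_lit 76) (nat_lit 1201237865805) (nat_lit 1) (nat_lit 4) (nat_lit 2) (nat_lit 5) (nat_lit 2) (nat_lit 4) (nat_lit 361) (nat_lit 221) (nat_lit 198)))))) (XT.nd (nat_lit 38610) (nat_lit 0) (nat_lit 0) (XT.nd (nat_lit 234) (nat_lit 0) (nat_lit 0) (XT.nd (nat_lit 78) (nat_lit 0) (nat_lit 0) (XT.lf (nat_lit 0) (nat_lit 459802283985) (nat_lit 76) (nat_lit 1297463007845) (nat_lit 76) (nat_lit 1296847016546) (nat_lit 1) (nat_lit 4) (nat_lit 2) (nat_lit 5) (nat_lit 2) (nat_lit 4) (nat_lit 362) (nat_lit 221) (nat_lit 197)) (XT.nd (nat_lit 78) (nat_lit 0) (nat_lit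 0) (XT.lf (nat_lit 0) (nat_lit 497546688320) (nat_lit 76) (nat_lit 1400739466756) (nat_lit 76) (nat_lit 1400114932592) (nat_lit 1) (nat_lit 4) (nat_lit 2) (nat_lit 5) (nat_lit 2) (nat_lit 4) (nat_lit 363) (nat_lit 221) (nat_lit 196)) (XT.lf (nat_lit 0) (nat_lit 538294074954) (nat_lit 76) (nat_lit 1512286016189) (nat_lit 76) (nat_lit 1511653571965) (nat_lit 1) (nat_lit 4) (nat_lit 2) (nat_lit 5) (nat_lit 2) (nat_lit 4) (nat_lit 364) (nat_lit 221) (nat_lit 195)))) (XT.nd (nat_lit 156) (nat_lit 0) (nat_lit 0) (XT.nd (nat_lit 78) (nat_lit 0) (nat_lit 0) (XT.lf (nat_lit 0) (nat_lit 582285909882) (nat_lit 76) (nat_lit 1632763672732) (nat_lit 76) (nat_lit 1632123904378) (nat_lit 1) (nat_lit 4) (nat_lit 2) (nat_lit 5) (nat_lit 2) (nat_lit 4) (nat_lit 365) (nat_lit 221) (nat_lit 194)) (XT.lf (nat_lit 0) (nat_lit 629782885460) (nat_lit 76) (nat_lit 1762886378053) (nat_lit 76) (nat_lit 1762239828099)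 (nat_lit 1) (nat_lit 4) (nat_lit 2) (nat_lit 5) (nat_lit 2) (nat_lit 4) (nat_lit 366) (nat_lit 221) (nat_lit 193))) (XT.nd (nat_lit 78) (nat_lit 0) (nat_lit 0) (XT.lf (nat_lit 0) (nat_lit 681066465247) (nat_lit 76) (nat_lit 1903425229667) (nat_lit 76) (nat_lit 1902772400452) (nat_lit 1) (nat_lit 4) (nat_lit 2) (nat_lit 5) (nat_lit 2) (nat_lit 4) (nat_lit 367) (nat_lit 221) (nat_lit 192)) (XT.lf (nat_lit 0) (nat_lit 736440551937) (nat_lit 76) (nat_lit 2055213050397) (nat_lit 76) (nat_lit 2054554407051) (nat_lit 1) (nat_lit 4) (nat_lit 2) (nat_lit 5) (nat_lit 2) (nat_lit 4) (nat_lit 368) (nat_lit 221) (nat_lit 191))))) (XT.nd (nat_lit 312) (nat_lit 0) (nat_lit 0) (XT.nd (nat_lit 156) (nat_lit 0) (nat_lit 0) (XT.nd (nat_lit 78) (nat_lit 0) (nat_lit 0) (XT.lf (nat_lit 0) (nat_lit 21860459518) (nat_lit 76) (nat_lit 92493192017) (nat_lit 76) (nat_lit 92493192017) (nat_lit 1) (nat_lit 4) (nat_lit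 2) (nat_lit 5) (nat_lit 2) (nat_lit 4) (nat_lit 336) (nat_lit 222) (nat_lit 222)) (XT.lf (nat_lit 0) (nat_lit 49546014647) (nat_lit 76) (nat_lit 198602110842) (nat_lit 76) (nat_lit 198543605244) (nat_lit 1) (nat_lit 4) (nat_lit 2) (nat_lit 5) (nat_lit 2) (nat_lit 4) (nat_lit 337) (nat_lit 222) (nat_lit 221))) (XT.nd (nat_lit 78) (nat_lit 0) (nat_lit 0) (XT.lf (nat_lit 0) (nat_lit 55723638348) (nat_lit 76) (nat_lit 213361704222) (nat_lit 76) (nat_lit 213249026774) (nat_lit 1) (nat_lit 4) (nat_lit 2) (nat_lit 5) (nat_lit 2) (nat_lit 4) (nat_lit 338) (nat_lit 222) (nat_lit 220)) (XT.lf (nat_lit 0) (nat_lit 62290398282) (nat_lit 76) (nat_lit 229352628433) (nat_lit 76) (nat_lit 229189791865) (nat_lit 1) (nat_lit 4) (nat_lit 2) (nat_lit 5) (nat_lit 2) (nat_lit 4) (nat_lit 339) (nat_lit 222) (nat_lit 219)))) (XT.nd (nat_lit 156) (nat_lit 0) (nat_lit 0) (XT.nd (nat_lit 78) (nat_lit 0) (nat_lit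 0) (XT.lf (nat_lit 0) (nat_lit 69285208579) (nat_lit 76) (nat_lit 246669644506) (nat_lit 76) (nat_lit 246460364308) (nat_lit 1) (nat_lit 4) (nat_lit 2) (nat_lit 5) (nat_lit 2) (nat_lit 4) (nat_lit 340) (nat_lit 222) (nat_lit 218)) (XT.lf (nat_lit 0) (nat_lit 76749519969) (nat_lit 76) (nat_lit 265415371797) (nat_lit 76) (nat_lit 265163088238) (nat_lit 1) (nat_lit 4) (nat_lit 2) (nat_lit 5) (nat_lit 2) (nat_lit 4) (nat_lit 341) (nat_lit 222) (nat_lit 217))) (XT.nd (nat_lit 78) (nat_lit 0) (nat_lit 0) (XT.lf (nat_lit 0) (nat_lit 84727565407) (nat_lit 76) (nat_lit 285700896096) (nat_lit 76) (nat_lit 285408794610) (nat_lit 1) (nat_lit 4) (nat_lit 2) (nat_lit 5) (nat_lit 2) (nat_lit 4) (nat_lit 342) (nat_lit 222) (nat_lit 216)) (XT.lf (nat_lit 0) (nat_lit 93266622199) (nat_lit 76) (nat_lit 307646427919) (nat_lit 76) (nat_lit 307317457982) (nat_lit 1) (nat_lit 4) (nat_lit 2) (nat_lit 5) (nat_lit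 2) (nat_lit 4) (nat_lit 343) (nat_lit 222) (nat_lit 215))))))) (XT.nd (nat_lit 1092) (nat_lit 0) (nat_lit 0) (XT.nd (nat_lit 546) (nat_lit 0) (nat_lit 0) (XT.nd (nat_lit 234) (nat_lit 0) (nat_lit 0) (XT.nd (nat_lit 78) (nat_lit 0) (nat_lit 0) (XT.lf (nat_lit 0) (nat_lit 102417292165) (nat_lit 76) (nat_lit 331382014860) (nat_lit 76) (nat_lit 331018907469) (nat_lit 1) (nat_lit 4) (nat_lit 2) (nat_lit 5) (nat_lit 2) (nat_lit 4) (nat_lit 344) (nat_lit 222) (nat_lit 214)) (XT.nd (nat_lit 78) (nat_lit 0) (nat_lit 0) (XT.lf (nat_lit 0) (nat_lit 112233801495) (nat_lit 76) (nat_lit 357048312250) (nat_lit 76) (nat_lit 356653596105) (nat_lit 1) (nat_lit 4) (nat_lit 2) (nat_lit 5) (nat_lit 2) (nat_lit 4) (nat_lit 345) (nat_lit 222) (nat_lit 213)) (XT.lf (nat_lit 0) (nat_lit 122774322097) (nat_lit 76) (nat_lit 384797416666) (nat_lit 76) (nat_lit 384373433156) (nat_lit 1) (nat_lit 4) (nat_lit 2)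 (nat_lit 5) (nat_lit 2) (nat_lit 4) (nat_lit 346) (nat_lit 222) (nat_lit 212)))) (XT.nd (nat_lit 156) (nat_lit 0) (nat_lit 0) (XT.nd (nat_lit 78) (nat_lit 0) (nat_lit 0) (XT.lf (nat_lit 0) (nat_lit 134101316317) (nat_lit 76) (nat_lit 414793767246) (nat_lit 76) (nat_lit 414342684324) (nat_lit 1) (nat_lit 4) (nat_lit 2) (nat_lit 5) (nat_lit 2) (nat_lit 4) (nat_lit 347) (nat_lit 222) (nat_lit 211)) (XT.lf (nat_lit 0) (nat_lit 146281907081) (nat_lit 76) (nat_lit 447215120140) (nat_lit 76) (nat_lit 446738945170) (nat_lit 1) (nat_lit 4) (nat_lit 2) (nat_lit 5) (nat_lit 2) (nat_lit 4) (nat_lit 348) (nat_lit 222) (nat_lit 210))) (XT.nd (nat_lit 78) (nat_lit 0) (nat_lit 0) (XT.lf (nat_lit 0) (nat_lit 159388275669) (nat_lit 76) (nat_lit 482253601886) (nat_lit 76) (nat_lit 481754193537) (nat_lit 1) (nat_lit 4) (nat_lit 2) (nat_lit 5) (nat_lit 2) (nat_lit 4) (nat_lit 349) (nat_lit 222) (nat_lit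 209)) (XT.lf (nat_lit 0) (nat_lit 173498089451) (nat_lit 76) (nat_lit 520116847929) (nat_lit 76) (nat_lit 519595927194) (nat_lit 1) (nat_lit 4) (nat_lit 2) (nat_lit 5) (nat_lit 2) (nat_lit 4) (nat_lit 350) (nat_lit 222) (nat_lit 208))))) (XT.nd (nat_lit 234) (nat_lit 0) (nat_lit 0) (XT.nd (nat_lit 78) (nat_lit 0) (nat_lit 0) (XT.lf (nat_lit 0) (nat_lit 188694962137) (nat_lit 76) (nat_lit 561029233061) (nat_lit 76) (nat_lit 560488393449) (nat_lit 1) (nat_lit 4) (nat_lit 2) (nat_lit 5) (nat_lit 2) (nat_lit 4) (nat_lit 351) (nat_lit 222) (nat_lit 207)) (XT.nd (nat_lit 78) (nat_lit 0) (nat_lit 0) (XT.lf (nat_lit 0) (nat_lit 205068949269) (nat_lit 76) (nat_lit 605233201047) (nat_lit 76) (nat_lit 604673918031) (nat_lit 1) (nat_lit 4) (nat_lit 2) (nat_lit 5) (nat_lit 2) (nat_lit 4) (nat_lit 352) (nat_lit 222) (nat_lit 206)) (XT.lf (nat_lit 0) (nat_lit 222717081883) (nat_lit 76) (nat_lit 652990701326)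 (nat_lit 76) (nat_lit 652414341083) (nat_lit 1) (nat_lit 4) (nat_lit 2) (nat_lit 5) (nat_lit 2) (nat_lit 4) (nat_lit 353) (nat_lit 222) (nat_lit 205)))) (XT.nd (nat_lit 156) (nat_lit 0) (nat_lit 0) (XT.nd (nat_lit 78) (nat_lit 0) (nat_lit 0) (XT.lf (nat_lit 0) (nat_lit 241743941504) (nat_lit 76) (nat_lit 704584741306) (nat_lit 76) (nat_lit 703992568817) (nat_lit 1) (nat_lit 4) (nat_lit 2) (nat_lit 5) (nat_lit 2) (nat_lit 4) (nat_lit 354) (nat_lit 222) (nat_lit 204)) (XT.lf (nat_lit 0) (nat_lit 262262279894) (nat_lit 76) (nat_lit 760321063448) (nat_lit 76) (nat_lit 759714249990) (nat_lit 1) (nat_lit 4) (nat_lit 2) (nat_lit 5) (nat_lit 2) (nat_lit 4) (nat_lit 355) (nat_lit 222) (nat_lit 203))) (XT.nd (nat_lit 78) (nat_lit 0) (nat_lit 0) (XT.lf (nat_lit 0) (nat_lit 284393687207) (nat_lit 76) (nat_lit 820529957068) (nat_lit 76) (nat_lit 819909587157) (nat_lit 1) (nat_lit 4) (nat_lit 2)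 (nat_lit 5) (nat_lit 2) (nat_lit 4) (nat_lit 356) (nat_lit 222) (nat_lit 202)) (XT.lf (nat_lit 0) (nat_lit 308269312521) (nat_lit 76) (nat_lit 885568215609) (nat_lit 76) (nat_lit 884935293427) (nat_lit 1) (nat_lit 4) (nat_lit 2) (nat_lit 5) (nat_lit 2) (nat_lit 4) (nat_lit 357) (nat_lit 222) (nat_lit 201)))))) (XT.nd (nat_lit 546) (nat_lit 0) (nat_lit 0) (XT.nd (nat_lit 234) (nat_lit 0) (nat_lit 0) (XT.nd (nat_lit 78) (nat_lit 0) (nat_lit 0) (XT.lf (nat_lit 0) (nat_lit 334030641025) (nat_lit 76) (nat_lit 955821250974) (nat_lit 76) (nat_lit 955176706318) (nat_lit 1) (nat_lit 4) (nat_lit 2) (nat_lit 5) (nat_lit 2) (nat_lit 4) (nat_lit 358) (nat_lit 222) (nat_lit 200)) (XT.nd (nat_lit 78) (nat_lit 0) (nat_lit 0) (XT.lf (nat_lit 0) (nat_lit 361830332443) (nat_lit 76) (nat_lit 1031705377446) (nat_lit 76) (nat_lit 1031050071241) (nat_lit 1) (nat_lit 4) (nat_lit 2) (nat_lit 5) (nat_lit 2)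 (nat_lit 4) (nat_lit 359) (nat_lit 222) (nat_lit 199)) (XT.lf (nat_lit 0) (nat_lit 391833125687) (nat_lit 76) (nat_lit 1113670278738) (nat_lit 76) (nat_lit 1113005008135) (nat_lit 1) (nat_lit 4) (nat_lit 2) (nat_lit 5) (nat_lit 2) (nat_lit 4) (nat_lit 360) (nat_lit 222) (nat_lit 198)))) (XT.nd (nat_lit 156) (nat_lit 0) (nat_lit 0) (XT.nd (nat_lit 78) (nat_lit 0) (nat_lit 0) (XT.lf (nat_lit 0) (nat_lit 424216815087) (nat_lit 76) (nat_lit 1202201672783) (nat_lit 76) (nat_lit 1201527175887) (nat_lit 1) (nat_lit 4) (nat_lit 2) (nat_lit 5) (nat_lit 2) (nat_lit 4) (nat_lit 361) (nat_lit 222) (nat_lit 197)) (XT.lf (nat_lit 0) (nat_lit 459173303988) (nat_lit 76) (nat_lit 1297824190065) (nat_lit 76) (nat_lit 1297141150304) (nat_lit 1) (nat_lit 4) (nat_lit 2) (nat_lit 5) (nat_lit 2) (nat_lit 4) (nat_lit 362) (nat_lit 222) (nat_lit 196))) (XT.nd (nat_lit 78) (nat_lit 0) (nat_lit 0) (XT.lf (nat_lit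 0) (nat_lit 496909741954) (nat_lit 76) (nat_lit 1401104482538) (nat_lit 76) (nat_lit 1400413532717) (nat_lit 1) (nat_lit 4) (nat_lit 2) (nat_lit 5) (nat_lit 2) (nat_lit 4) (nat_lit 363) (nat_lit 222) (nat_lit 195)) (XT.lf (nat_lit 0) (nat_lit 537649752320) (nat_lit 76) (nat_lit 1512654581565) (nat_lit 76) (nat_lit 1511956307614) (nat_lit 1) (nat_lit 4) (nat_lit 2) (nat_lit 5) (nat_lit 2) (nat_lit 4) (nat_lit 364) (nat_lit 222) (nat_lit 194))))) (XT.nd (nat_lit 38220) (nat_lit 0) (nat_lit 0) (XT.nd (nat_lit 156) (nat_lit 0) (nat_lit 0) (XT.nd (nat_lit 78) (nat_lit 0) (nat_lit 0) (XT.lf (nat_lit 0) (nat_lit 581634757372) (nat_lit 76) (nat_lit 1633135524769) (nat_lit 76) (nat_lit 1632430469216) (nat_lit 1) (nat_lit 4) (nat_lit 2) (nat_lit 5) (nat_lit 2) (nat_lit 4) (nat_lit 365) (nat_lit 222) (nat_lit 193)) (XT.lf (nat_lit 0) (nat_lit 629125408989) (nat_lit 76) (nat_lit 1763261273296)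 (nat_lit 76) (nat_lit 1762549938483) (nat_lit 1) (nat_lit 4) (nat_lit 2) (nat_lit 5) (nat_lit 2) (nat_lit 4) (nat_lit 366) (nat_lit 222) (nat_lit 192))) (XT.nd (nat_lit 78) (nat_lit 0) (nat_lit 0) (XT.lf (nat_lit 0) (nat_lit 680403133257) (nat_lit 76) (nat_lit 1903802942692) (nat_lit 76) (nat_lit 1903085793748) (nat_lit 1) (nat_lit 4) (nat_lit 2) (nat_lit 5) (nat_lit 2) (nat_lit 4) (nat_lit 367) (nat_lit 222) (nat_lit 191)) (XT.lf (nat_lit 0) (nat_lit 735771798170) (nat_lit 76) (nat_lit 2055593372480) (nat_lit 76) (nat_lit 2054870840082) (nat_lit 1) (nat_lit 4) (nat_lit 2) (nat_lit 5) (nat_lit 2) (nat_lit 4) (nat_lit 368) (nat_lit 222) (nat_lit 190)))) (XT.nd (nat_lit 156) (nat_lit 0) (nat_lit 0) (XT.nd (nat_lit 78) (nat_lit 0) (nat_lit 0) (XT.lf (nat_lit 0) (nat_lit 16527878044) (nat_lit 76) (nat_lit 80451325318) (nat_lit 76) (nat_lit 80451325318) (nat_lit 1) (nat_lit 4) (nat_lit 2)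 (nat_lit 5) (nat_lit 2) (nat_lit 4) (nat_lit 334) (nat_lit 223) (nat_lit 223)) (XT.lf (nat_lit 0) (nat_lit 38213832430) (nat_lit 76) (nat_lit 172497024058) (nat_lit 76) (nat_lit 172433838012) (nat_lit 1) (nat_lit 4) (nat_lit 2) (nat_lit 5) (nat_lit 2) (nat_lit 4) (nat_lit 335) (nat_lit 223) (nat_lit 222))) (XT.nd (nat_lit 78) (nat_lit 0) (nat_lit 0) (XT.lf (nat_lit 0) (nat_lit 43661996957) (nat_lit 76) (nat_lit 185077924457) (nat_lit 76) (nat_lit 184956232813) (nat_lit 1) (nat_lit 4) (nat_lit 2) (nat_lit 5) (nat_lit 2) (nat_lit 4) (nat_lit 336) (nat_lit 223) (nat_lit 221)) (XT.lf (nat_lit 0) (nat_lit 49432535089) (nat_lit 76) (nat_lit 198719905316) (nat_lit 76) (nat_lit 198544041823) (nat_lit 1) (nat_lit 4) (nat_lit 2) (nat_lit 5) (nat_lit 2) (nat_lit 4) (nat_lit 337) (nat_lit 223) (nat_lit 220))))))))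
noncomputable def xc5 : XT := (XT.nd (nat_lit 2262) (nat_lit 0) (nat_lit 0) (XT.nd (nat_lit 1092) (nat_lit 0) (nat_lit 0) (XT.nd (nat_lit 546) (nat_lit 0) (nat_lit 0) (XT.nd (nat_lit 234) (nat_lit 0) (nat_lit 0) (XT.nd (nat_lit 78) (nat_lit 0) (nat_lit 0) (XT.lf (nat_lit 0) (nat_lit 55559642605) (nat_lit 76) (nat_lit 213503808004) (nat_lit 76) (nat_lit 213277785390) (nat_lit 1) (nat_lit 4) (nat_lit 2) (nat_lit 5) (nat_lit 2) (nat_lit 4) (nat_lit 338) (nat_lit 223) (nat_lit 219)) (XT.nd (nat_lit 78) (nat_lit 0) (nat_lit 0) (XT.lf (nat_lit 0) (nat_lit 62079628293) (nat_lit 76) (nat_lit 229517240833) (nat_lit 76) (nat_lit 229244774589) (nat_lit 1) (nat_lit 4) (nat_lit 2) (nat_lit 5) (nat_lit 2) (nat_lit 4) (nat_lit 339) (nat_lit 223) (nat_lit 218)) (XT.lf (nat_lit 0) (nat_lit 69031129104) (nat_lit 76) (nat_lit 246855098220) (nat_lit 76) (nat_lit 246539628615) (nat_lit 1) (nat_lit 4) (nat_lit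 2) (nat_lit 5) (nat_lit 2) (nat_lit 4) (nat_lit 340) (nat_lit 223) (nat_lit 217)))) (XT.nd (nat_lit 156) (nat_lit 0) (nat_lit 0) (XT.nd (nat_lit 78) (nat_lit 0) (nat_lit 0) (XT.lf (nat_lit 0) (nat_lit 76455339118) (nat_lit 76) (nat_lit 265620123023) (nat_lit 76) (nat_lit 265264835491) (nat_lit 1) (nat_lit 4) (nat_lit 2) (nat_lit 5) (nat_lit 2) (nat_lit 4) (nat_lit 341) (nat_lit 223) (nat_lit 216)) (XT.lf (nat_lit 0) (nat_lit 84396253652) (nat_lit 76) (nat_lit 285923515389) (nat_lit 76) (nat_lit 285531359406) (nat_lit 1) (nat_lit 4) (nat_lit 2) (nat_lit 5) (nat_lit 2) (nat_lit 4) (nat_lit 342) (nat_lit 223) (nat_lit 215))) (XT.nd (nat_lit 78) (nat_lit 0) (nat_lit 0) (XT.lf (nat_lit 0) (nat_lit 92900929977) (nat_lit 76) (nat_lit 307885591718) (nat_lit 76) (nat_lit 307459298281) (nat_lit 1) (nat_lit 4) (nat_lit 2) (nat_lit 5) (nat_lit 2) (nat_lit 4) (nat_lit 343) (nat_lit 223) (nat_lit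 214)) (XT.lf (nat_lit 0) (nat_lit 102019766177) (nat_lit 76) (nat_lit 331636497646) (nat_lit 76) (nat_lit 331178595455) (nat_lit 1) (nat_lit 4) (nat_lit 2) (nat_lit 5) (nat_lit 2) (nat_lit 4) (nat_lit 344) (nat_lit 223) (nat_lit 213))))) (XT.nd (nat_lit 234) (nat_lit 0) (nat_lit 0) (XT.nd (nat_lit 78) (nat_lit 0) (nat_lit 0) (XT.lf (nat_lit 0) (nat_lit 111806799799) (nat_lit 76) (nat_lit 357316979284) (nat_lit 76) (nat_lit 356829809728) (nat_lit 1) (nat_lit 4) (nat_lit 2) (nat_lit 5) (nat_lit 2) (nat_lit 4) (nat_lit 345) (nat_lit 223) (nat_lit 212)) (XT.nd (nat_lit 78) (nat_lit 0) (nat_lit 0) (XT.lf (nat_lit 0) (nat_lit 122320028079) (nat_lit 76) (nat_lit 385079217263) (nat_lit 76) (nat_lit 384564948295) (nat_lit 1) (nat_lit 4) (nat_lit 2) (nat_lit 5) (nat_lit 2) (nat_lit 4) (nat_lit 346) (nat_lit 223) (nat_lit 211)) (XT.lf (nat_lit 0) (nat_lit 133621751628) (nat_lit 76) (nat_lit 415087728548)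 (nat_lit 76) (nat_lit 414548367532) (nat_lit 1) (nat_lit 4) (nat_lit 2) (nat_lit 5) (nat_lit 2) (nat_lit 4) (nat_lit 347) (nat_lit 223) (nat_lit 210)))) (XT.nd (nat_lit 156) (nat_lit 0) (nat_lit 0) (XT.nd (nat_lit 78) (nat_lit 0) (nat_lit 0) (XT.lf (nat_lit 0) (nat_lit 145778943625) (nat_lit 76) (nat_lit 447520341356) (nat_lit 76) (nat_lit 446957746962) (nat_lit 1) (nat_lit 4) (nat_lit 2) (nat_lit 5) (nat_lit 2) (nat_lit 4) (nat_lit 348) (nat_lit 223) (nat_lit 209)) (XT.lf (nat_lit 0) (nat_lit 158863646687) (nat_lit 76) (nat_lit 482569248946) (nat_lit 76) (nat_lit 481985142165) (nat_lit 1) (nat_lit 4) (nat_lit 2) (nat_lit 5) (nat_lit 2) (nat_lit 4) (nat_lit 349) (nat_lit 223) (nat_lit 208))) (XT.nd (nat_lit 78) (nat_lit 0) (nat_lit 0) (XT.lf (nat_lit 0) (nat_lit 172953399796) (nat_lit 76) (nat_lit 520442148550) (nat_lit 76) (nat_lit 519838122892) (nat_lit 1) (nat_lit 4) (nat_lit 2)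 (nat_lit 5) (nat_lit 2) (nat_lit 4) (nat_lit 350) (nat_lit 223) (nat_lit 207)) (XT.lf (nat_lit 0) (nat_lit 188131697786) (nat_lit 76) (nat_lit 561363472165) (nat_lit 76) (nat_lit 560741003102) (nat_lit 1) (nat_lit 4) (nat_lit 2) (nat_lit 5) (nat_lit 2) (nat_lit 4) (nat_lit 351) (nat_lit 223) (nat_lit 206)))))) (XT.nd (nat_lit 546) (nat_lit 0) (nat_lit 0) (XT.nd (nat_lit 234) (nat_lit 0) (nat_lit 0) (XT.nd (nat_lit 78) (nat_lit 0) (nat_lit 0) (XT.lf (nat_lit 0) (nat_lit 204488486126) (nat_lit 76) (nat_lit 605575716522) (nat_lit 76) (nat_lit 604936170234) (nat_lit 1) (nat_lit 4) (nat_lit 2) (nat_lit 5) (nat_lit 2) (nat_lit 4) (nat_lit 352) (nat_lit 223) (nat_lit 205)) (XT.nd (nat_lit 78) (nat_lit 0) (nat_lit 0) (XT.lf (nat_lit 0) (nat_lit 222120693931) (nat_lit 76) (nat_lit 653340880109) (nat_lit 76) (nat_lit 652685521574) (nat_lit 1) (nat_lit 4) (nat_lit 2) (nat_lit 5) (nat_lit 2) (nat_lit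 4) (nat_lit 353) (nat_lit 223) (nat_lit 204)) (XT.lf (nat_lit 0) (nat_lit 241132808360) (nat_lit 76) (nat_lit 704942015745) (nat_lit 76) (nat_lit 704272016240) (nat_lit 1) (nat_lit 4) (nat_lit 2) (nat_lit 5) (nat_lit 2) (nat_lit 4) (nat_lit 354) (nat_lit 223) (nat_lit 203)))) (XT.nd (nat_lit 156) (nat_lit 0) (nat_lit 0) (XT.nd (nat_lit 78) (nat_lit 0) (nat_lit 0) (XT.lf (nat_lit 0) (nat_lit 261637493793) (nat_lit 76) (nat_lit 760684907938) (nat_lit 76) (nat_lit 760001351981) (nat_lit 1) (nat_lit 4) (nat_lit 2) (nat_lit 5) (nat_lit 2) (nat_lit 4) (nat_lit 355) (nat_lit 223) (nat_lit 202)) (XT.lf (nat_lit 0) (nat_lit 283756259479) (nat_lit 76) (nat_lit 820899884938) (nat_lit 76) (nat_lit 820203776710) (nat_lit 1) (nat_lit 4) (nat_lit 2) (nat_lit 5) (nat_lit 2) (nat_lit 4) (nat_lit 356) (nat_lit 223) (nat_lit 201))) (XT.nd (nat_lit 78) (nat_lit 0) (nat_lit 0) (XT.lf (nat_lit 0) (nat_lit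 307620179584) (nat_lit 76) (nat_lit 885943776239) (nat_lit 76) (nat_lit 885236045537) (nat_lit 1) (nat_lit 4) (nat_lit 2) (nat_lit 5) (nat_lit 2) (nat_lit 4) (nat_lit 357) (nat_lit 223) (nat_lit 200)) (XT.lf (nat_lit 0) (nat_lit 333370669931) (nat_lit 76) (nat_lit 956202027122) (nat_lit 76) (nat_lit 955483534871) (nat_lit 1) (nat_lit 4) (nat_lit 2) (nat_lit 5) (nat_lit 2) (nat_lit 4) (nat_lit 358) (nat_lit 223) (nat_lit 199))))) (XT.nd (nat_lit 312) (nat_lit 0) (nat_lit 0) (XT.nd (nat_lit 156) (nat_lit 0) (nat_lit 0) (XT.nd (nat_lit 78) (nat_lit 0) (nat_lit 0) (XT.lf (nat_lit 0) (nat_lit 361160326019) (nat_lit 76) (nat_lit 1032090982778) (nat_lit 76) (nat_lit 1031362526129) (nat_lit 1) (nat_lit 4) (nat_lit 2) (nat_lit 5) (nat_lit 2) (nat_lit 4) (nat_lit 359) (nat_lit 223) (nat_lit 198)) (XT.lf (nat_lit 0) (nat_lit 391153827290) (nat_lit 76) (nat_lit 1114060355536) (nat_lit 76) (nat_lit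 1113322672594) (nat_lit 1) (nat_lit 4) (nat_lit 2) (nat_lit 5) (nat_lit 2) (nat_lit 4) (nat_lit 360) (nat_lit 223) (nat_lit 197))) (XT.nd (nat_lit 78) (nat_lit 0) (nat_lit 0) (XT.lf (nat_lit 0) (nat_lit 423528913011) (nat_lit 76) (nat_lit 1202595889828) (nat_lit 76) (nat_lit 1201849664021) (nat_lit 1) (nat_lit 4) (nat_lit 2) (nat_lit 5) (nat_lit 2) (nat_lit 4) (nat_lit 361) (nat_lit 223) (nat_lit 196)) (XT.lf (nat_lit 0) (nat_lit 458477435544) (nat_lit 76) (nat_lit 1298222240672) (nat_lit 76) (nat_lit 1297468104805) (nat_lit 1) (nat_lit 4) (nat_lit 2) (nat_lit 5) (nat_lit 2) (nat_lit 4) (nat_lit 362) (nat_lit 223) (nat_lit 195)))) (XT.nd (nat_lit 156) (nat_lit 0) (nat_lit 0) (XT.nd (nat_lit 78) (nat_lit 0) (nat_lit 0) (XT.lf (nat_lit 0) (nat_lit 496206497242) (nat_lit 76) (nat_lit 1401506082739) (nat_lit 76) (nat_lit 1400744622742) (nat_lit 1) (nat_lit 4) (nat_lit 2) (nat_lit 5) (nat_lit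 2) (nat_lit 4) (nat_lit 363) (nat_lit 223) (nat_lit 194)) (XT.lf (nat_lit 0) (nat_lit 536939677731) (nat_lit 76) (nat_lit 1513059468427) (nat_lit 76) (nat_lit 1512291226828) (nat_lit 1) (nat_lit 4) (nat_lit 2) (nat_lit 5) (nat_lit 2) (nat_lit 4) (nat_lit 364) (nat_lit 223) (nat_lit 193))) (XT.nd (nat_lit 78) (nat_lit 0) (nat_lit 0) (XT.lf (nat_lit 0) (nat_lit 580918358822) (nat_lit 76) (nat_lit 1633543454836) (nat_lit 76) (nat_lit 1632768933977) (nat_lit 1) (nat_lit 4) (nat_lit 2) (nat_lit 5) (nat_lit 2) (nat_lit 4) (nat_lit 365) (nat_lit 223) (nat_lit 192)) (XT.lf (nat_lit 0) (nat_lit 628403154921) (nat_lit 76) (nat_lit 1763672021145) (nat_lit 76) (nat_lit 1762891686156) (nat_lit 1) (nat_lit 4) (nat_lit 2) (nat_lit 5) (nat_lit 2) (nat_lit 4) (nat_lit 366) (nat_lit 223) (nat_lit 191))))))) (XT.nd (nat_lit 38922) (nat_lit 0) (nat_lit 0) (XT.nd (nat_lit 38298) (nat_lit 0) (nat_lit 0)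 (XT.nd (nat_lit 37986) (nat_lit 0) (nat_lit 0) (XT.nd (nat_lit 78) (nat_lit 0) (nat_lit 0) (XT.lf (nat_lit 0) (nat_lit 679675457411) (nat_lit 76) (nat_lit 1904216299599) (nat_lit 76) (nat_lit 1903430581156) (nat_lit 1) (nat_lit 4) (nat_lit 2) (nat_lit 5) (nat_lit 2) (nat_lit 4) (nat_lit 367) (nat_lit 223) (nat_lit 190)) (XT.nd (nat_lit 37830) (nat_lit 0) (nat_lit 0) (XT.lf (nat_lit 0) (nat_lit 735039102161) (nat_lit 76) (nat_lit 2056009145181) (nat_lit 76) (nat_lit 2055218442058) (nat_lit 1) (nat_lit 4) (nat_lit 2) (nat_lit 5) (nat_lit 2) (nat_lit 4) (nat_lit 368) (nat_lit 223) (nat_lit 189)) (XT.lf (nat_lit 0) (nat_lit 11778933532) (nat_lit 76) (nat_lit 70219631223) (nat_lit 76) (nat_lit 70219631223) (nat_lit 1) (nat_lit 4) (nat_lit 2) (nat_lit 5) (nat_lit 2) (nat_lit 4) (nat_lit 332) (nat_lit 224) (nat_lit 224)))) (XT.nd (nat_lit 156) (nat_lit 0) (nat_lit 0) (XT.nd (nat_lit 78) (nat_lit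 0) (nat_lit 0) (XT.lf (nat_lit 0) (nat_lit 28157201552) (nat_lit 76) (nat_lit 150294337722) (nat_lit 76) (nat_lit 150226096793) (nat_lit 1) (nat_lit 4) (nat_lit 2) (nat_lit 5) (nat_lit 2) (nat_lit 4) (nat_lit 333) (nat_lit 224) (nat_lit 223)) (XT.lf (nat_lit 0) (nat_lit 32992120244) (nat_lit 76) (nat_lit 161001514292) (nat_lit 76) (nat_lit 160870087317) (nat_lit 1) (nat_lit 4) (nat_lit 2) (nat_lit 5) (nat_lit 2) (nat_lit 4) (nat_lit 334) (nat_lit 224) (nat_lit 222))) (XT.nd (nat_lit 78) (nat_lit 0) (nat_lit 0) (XT.lf (nat_lit 0) (nat_lit 38091274508) (nat_lit 76) (nat_lit 172624242091) (nat_lit 76) (nat_lit 172434309517) (nat_lit 1) (nat_lit 4) (nat_lit 2) (nat_lit 5) (nat_lit 2) (nat_lit 4) (nat_lit 335) (nat_lit 224) (nat_lit 221)) (XT.lf (nat_lit 0) (nat_lit 43484881555) (nat_lit 76) (nat_lit 185231396542) (nat_lit 76) (nat_lit 184987292119) (nat_lit 1) (nat_lit 4) (nat_lit 2) (nat_lit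 5) (nat_lit 2) (nat_lit 4) (nat_lit 336) (nat_lit 224) (nat_lit 220))))) (XT.nd (nat_lit 312) (nat_lit 0) (nat_lit 0) (XT.nd (nat_lit 156) (nat_lit 0) (nat_lit 0) (XT.nd (nat_lit 78) (nat_lit 0) (nat_lit 0) (XT.lf (nat_lit 0) (nat_lit 49204903501) (nat_lit 76) (nat_lit 198897686709) (nat_lit 76) (nat_lit 198603423165) (nat_lit 1) (nat_lit 4) (nat_lit 2) (nat_lit 5) (nat_lit 2) (nat_lit 4) (nat_lit 337) (nat_lit 224) (nat_lit 219)) (XT.lf (nat_lit 0) (nat_lit 55285236773) (nat_lit 76) (nat_lit 213704098015) (nat_lit 76) (nat_lit 213363390842) (nat_lit 1) (nat_lit 4) (nat_lit 2) (nat_lit 5) (nat_lit 2) (nat_lit 4) (nat_lit 338) (nat_lit 224) (nat_lit 218))) (XT.nd (nat_lit 78) (nat_lit 0) (nat_lit 0) (XT.lf (nat_lit 0) (nat_lit 61761912974) (nat_lit 76) (nat_lit 229738372157) (nat_lit 76) (nat_lit 229354661623) (nat_lit 1) (nat_lit 4) (nat_lit 2) (nat_lit 5) (nat_lit 2) (nat_lit 4) (nat_lit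 339) (nat_lit 224) (nat_lit 217)) (XT.lf (nat_lit 0) (nat_lit 68673312409) (nat_lit 76) (nat_lit 247095527056) (nat_lit 76) (nat_lit 246671998595) (nat_lit 1) (nat_lit 4) (nat_lit 2) (nat_lit 5) (nat_lit 2) (nat_lit 4) (nat_lit 340) (nat_lit 224) (nat_lit 216)))) (XT.nd (nat_lit 156) (nat_lit 0) (nat_lit 0) (XT.nd (nat_lit 78) (nat_lit 0) (nat_lit 0) (XT.lf (nat_lit 0) (nat_lit 76060391518) (nat_lit 76) (nat_lit 265878419926) (nat_lit 76) (nat_lit 265418023014) (nat_lit 1) (nat_lit 4) (nat_lit 2) (nat_lit 5) (nat_lit 2) (nat_lit 4) (nat_lit 341) (nat_lit 224) (nat_lit 215)) (XT.lf (nat_lit 0) (nat_lit 83966925585) (nat_lit 76) (nat_lit 286198356798) (nat_lit 76) (nat_lit 285703822432) (nat_lit 1) (nat_lit 4) (nat_lit 2) (nat_lit 5) (nat_lit 2) (nat_lit 4) (nat_lit 342) (nat_lit 224) (nat_lit 214))) (XT.nd (nat_lit 78) (nat_lit 0) (nat_lit 0) (XT.lf (nat_lit 0) (nat_lit 92439768146)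 (nat_lit 76) (nat_lit 308175752114) (nat_lit 76) (nat_lit 307649608993) (nat_lit 1) (nat_lit 4) (nat_lit 2) (nat_lit 5) (nat_lit 2) (nat_lit 4) (nat_lit 343) (nat_lit 224) (nat_lit 213)) (XT.lf (nat_lit 0) (nat_lit 101529128637) (nat_lit 76) (nat_lit 331940842290) (nat_lit 76) (nat_lit 331385431805) (nat_lit 1) (nat_lit 4) (nat_lit 2) (nat_lit 5) (nat_lit 2) (nat_lit 4) (nat_lit 344) (nat_lit 224) (nat_lit 212)))))) (XT.nd (nat_lit 546) (nat_lit 0) (nat_lit 0) (XT.nd (nat_lit 234) (nat_lit 0) (nat_lit 0) (XT.nd (nat_lit 78) (nat_lit 0) (nat_lit 0) (XT.lf (nat_lit 0) (nat_lit 111288869935) (nat_lit 76) (nat_lit 357634457490) (nat_lit 76) (nat_lit 357051947593) (nat_lit 1) (nat_lit 4) (nat_lit 2) (nat_lit 5) (nat_lit 2) (nat_lit 4) (nat_lit 345) (nat_lit 224) (nat_lit 211)) (XT.nd (nat_lit 78) (nat_lit 0) (nat_lit 0) (XT.lf (nat_lit 0) (nat_lit 121776827546) (nat_lit 76) (nat_lit 385408856175)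 (nat_lit 76) (nat_lit 384801254229) (nat_lit 1) (nat_lit 4) (nat_lit 2) (nat_lit 5) (nat_lit 2) (nat_lit 4) (nat_lit 346) (nat_lit 224) (nat_lit 210)) (XT.lf (nat_lit 0) (nat_lit 133055152328) (nat_lit 76) (nat_lit 415428627374) (nat_lit 76) (nat_lit 414797792050) (nat_lit 1) (nat_lit 4) (nat_lit 2) (nat_lit 5) (nat_lit 2) (nat_lit 4) (nat_lit 347) (nat_lit 224) (nat_lit 209)))) (XT.nd (nat_lit 156) (nat_lit 0) (nat_lit 0) (XT.nd (nat_lit 78) (nat_lit 0) (nat_lit 0) (XT.lf (nat_lit 0) (nat_lit 145190678798) (nat_lit 76) (nat_lit 447871666027) (nat_lit 76) (nat_lit 447219318316) (nat_lit 1) (nat_lit 4) (nat_lit 2) (nat_lit 5) (nat_lit 2) (nat_lit 4) (nat_lit 348) (nat_lit 224) (nat_lit 208)) (XT.lf (nat_lit 0) (nat_lit 158255321188) (nat_lit 76) (nat_lit 482930227178) (nat_lit 76) (nat_lit 482257960591) (nat_lit 1) (nat_lit 4) (nat_lit 2) (nat_lit 5) (nat_lit 2) (nat_lit 4) (nat_lit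 349) (nat_lit 224) (nat_lit 207))) (XT.nd (nat_lit 78) (nat_lit 0) (nat_lit 0) (XT.lf (nat_lit 0) (nat_lit 172326499601) (nat_lit 76) (nat_lit 520812065263) (nat_lit 76) (nat_lit 520121355272) (nat_lit 1) (nat_lit 4) (nat_lit 2) (nat_lit 5) (nat_lit 2) (nat_lit 4) (nat_lit 350) (nat_lit 224) (nat_lit 206)) (XT.lf (nat_lit 0) (nat_lit 187487598798) (nat_lit 76) (nat_lit 561741665250) (nat_lit 76) (nat_lit 561033878032) (nat_lit 1) (nat_lit 4) (nat_lit 2) (nat_lit 5) (nat_lit 2) (nat_lit 4) (nat_lit 351) (nat_lit 224) (nat_lit 205))))) (XT.nd (nat_lit 312) (nat_lit 0) (nat_lit 0) (XT.nd (nat_lit 156) (nat_lit 0) (nat_lit 0) (XT.nd (nat_lit 78) (nat_lit 0) (nat_lit 0) (XT.lf (nat_lit 0) (nat_lit 203828462329) (nat_lit 76) (nat_lit 605961572916) (nat_lit 76) (nat_lit 605237973451) (nat_lit 1) (nat_lit 4) (nat_lit 2) (nat_lit 5) (nat_lit 2) (nat_lit 4) (nat_lit 352) (nat_lit 224) (nat_lit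 204)) (XT.lf (nat_lit 0) (nat_lit 221445924942) (nat_lit 76) (nat_lit 653733832157) (nat_lit 76) (nat_lit 652995591723) (nat_lit 1) (nat_lit 4) (nat_lit 2) (nat_lit 5) (nat_lit 2) (nat_lit 4) (nat_lit 353) (nat_lit 224) (nat_lit 203))) (XT.nd (nat_lit 78) (nat_lit 0) (nat_lit 0) (XT.lf (nat_lit 0) (nat_lit 240444386414) (nat_lit 76) (nat_lit 705341537844) (nat_lit 76) (nat_lit 704589740958) (nat_lit 1) (nat_lit 4) (nat_lit 2) (nat_lit 5) (nat_lit 2) (nat_lit 4) (nat_lit 354) (nat_lit 224) (nat_lit 202)) (XT.lf (nat_lit 0) (nat_lit 260936430222) (nat_lit 76) (nat_lit 761090513418) (nat_lit 76) (nat_lit 760326164260) (nat_lit 1) (nat_lit 4) (nat_lit 2) (nat_lit 5) (nat_lit 2) (nat_lit 4) (nat_lit 355) (nat_lit 224) (nat_lit 201)))) (XT.nd (nat_lit 156) (nat_lit 0) (nat_lit 0) (XT.nd (nat_lit 78) (nat_lit 0) (nat_lit 0) (XT.lf (nat_lit 0) (nat_lit 283043490698) (nat_lit 76) (nat_lit 821311123178)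 (nat_lit 76) (nat_lit 820535151547) (nat_lit 1) (nat_lit 4) (nat_lit 2) (nat_lit 5) (nat_lit 2) (nat_lit 4) (nat_lit 356) (nat_lit 224) (nat_lit 200)) (XT.lf (nat_lit 0) (nat_lit 306896572646) (nat_lit 76) (nat_lit 886360229997) (nat_lit 76) (nat_lit 885573496817) (nat_lit 1) (nat_lit 4) (nat_lit 2) (nat_lit 5) (nat_lit 2) (nat_lit 4) (nat_lit 357) (nat_lit 224) (nat_lit 199))) (XT.nd (nat_lit 78) (nat_lit 0) (nat_lit 0) (XT.lf (nat_lit 0) (nat_lit 332637027663) (nat_lit 76) (nat_lit 956623310064) (nat_lit 76) (nat_lit 955826612486) (nat_lit 1) (nat_lit 4) (nat_lit 2) (nat_lit 5) (nat_lit 2) (nat_lit 4) (nat_lit 358) (nat_lit 224) (nat_lit 198)) (XT.lf (nat_lit 0) (nat_lit 360417391777) (nat_lit 76) (nat_lit 1032516737186) (nat_lit 76) (nat_lit 1031710813314) (nat_lit 1) (nat_lit 4) (nat_lit 2) (nat_lit 5) (nat_lit 2) (nat_lit 4) (nat_lit 359) (nat_lit 224) (nat_lit 197))))))))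
noncomputable def xc6 : XT := (XT.nd (nat_lit 39858) (nat_lit 0) (nat_lit 0) (XT.nd (nat_lit 38688) (nat_lit 0) (nat_lit 0) (XT.nd (nat_lit 546) (nat_lit 0) (nat_lit 0) (XT.nd (nat_lit 234) (nat_lit 0) (nat_lit 0) (XT.nd (nat_lit 78) (nat_lit 0) (nat_lit 0) (XT.lf (nat_lit 0) (nat_lit 390402289370) (nat_lit 76) (nat_lit 1114490250191) (nat_lit 76) (nat_lit 1113675783454) (nat_lit 1) (nat_lit 4) (nat_lit 2) (nat_lit 5) (nat_lit 2) (nat_lit 4) (nat_lit 360) (nat_lit 224) (nat_lit 196)) (XT.nd (nat_lit 78) (nat_lit 0) (nat_lit 0) (XT.lf (nat_lit 0) (nat_lit 422769408723) (nat_lit 76) (nat_lit 1203029618045) (nat_lit 76) (nat_lit 1202207241248) (nat_lit 1) (nat_lit 4) (nat_lit 2) (nat_lit 5) (nat_lit 2) (nat_lit 4) (nat_lit 361) (nat_lit 224) (nat_lit 195)) (XT.lf (nat_lit 0) (nat_lit 457710554987) (nat_lit 76) (nat_lit 1298659518483) (nat_lit 76) (nat_lit 1297829817556) (nat_lit 1) (nat_lit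 4) (nat_lit 2) (nat_lit 5) (nat_lit 2) (nat_lit 4) (nat_lit 362) (nat_lit 224) (nat_lit 194)))) (XT.nd (nat_lit 156) (nat_lit 0) (nat_lit 0) (XT.nd (nat_lit 78) (nat_lit 0) (nat_lit 0) (XT.lf (nat_lit 0) (nat_lit 495432786808) (nat_lit 76) (nat_lit 1401946647211) (nat_lit 76) (nat_lit 1401110164683) (nat_lit 1) (nat_lit 4) (nat_lit 2) (nat_lit 5) (nat_lit 2) (nat_lit 4) (nat_lit 363) (nat_lit 224) (nat_lit 193)) (XT.lf (nat_lit 0) (nat_lit 536159643337) (nat_lit 76) (nat_lit 1513503076104) (nat_lit 76) (nat_lit 1512660314315) (nat_lit 1) (nat_lit 4) (nat_lit 2) (nat_lit 5) (nat_lit 2) (nat_lit 4) (nat_lit 364) (nat_lit 224) (nat_lit 192))) (XT.nd (nat_lit 78) (nat_lit 0) (nat_lit 0) (XT.lf (nat_lit 0) (nat_lit 580132468909) (nat_lit 76) (nat_lit 1633989880295) (nat_lit 76) (nat_lit 1633141304377) (nat_lit 1) (nat_lit 4) (nat_lit 2) (nat_lit 5) (nat_lit 2) (nat_lit 4) (nat_lit 365) (nat_lit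 224) (nat_lit 191)) (XT.lf (nat_lit 0) (nat_lit 627611843231) (nat_lit 76) (nat_lit 1764121055662) (nat_lit 76) (nat_lit 1763267096289) (nat_lit 1) (nat_lit 4) (nat_lit 2) (nat_lit 5) (nat_lit 2) (nat_lit 4) (nat_lit 366) (nat_lit 224) (nat_lit 190))))) (XT.nd (nat_lit 37830) (nat_lit 0) (nat_lit 0) (XT.nd (nat_lit 78) (nat_lit 0) (nat_lit 0) (XT.lf (nat_lit 0) (nat_lit 678879125558) (nat_lit 76) (nat_lit 1904667749910) (nat_lit 76) (nat_lit 1903808805858) (nat_lit 1) (nat_lit 4) (nat_lit 2) (nat_lit 5) (nat_lit 2) (nat_lit 4) (nat_lit 367) (nat_lit 224) (nat_lit 189)) (XT.nd (nat_lit 37674) (nat_lit 0) (nat_lit 0) (XT.lf (nat_lit 0) (nat_lit 734238122008) (nat_lit 76) (nat_lit 2056462832338) (nat_lit 76) (nat_lit 2055599272842) (nat_lit 1) (nat_lit 4) (nat_lit 2) (nat_lit 5) (nat_lit 2) (nat_lit 4) (nat_lit 368) (nat_lit 224) (nat_lit 188)) (XT.lf (nat_lit 0) (nat_lit 7516194411) (nat_lit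 76) (nat_lit 61547249628) (nat_lit 76) (nat_lit 61547249628) (nat_lit 1) (nat_lit 4) (nat_lit 2) (nat_lit 5) (nat_lit 2) (nat_lit 4) (nat_lit 330) (nat_lit 225) (nat_lit 225)))) (XT.nd (nat_lit 156) (nat_lit 0) (nat_lit 0) (XT.nd (nat_lit 78) (nat_lit 0) (nat_lit 0) (XT.lf (nat_lit 0) (nat_lit 19166861462) (nat_lit 76) (nat_lit 131451588221) (nat_lit 76) (nat_lit 131377888017) (nat_lit 1) (nat_lit 4) (nat_lit 2) (nat_lit 5) (nat_lit 2) (nat_lit 4) (nat_lit 331) (nat_lit 225) (nat_lit 224)) (XT.lf (nat_lit 0) (nat_lit 23489140352) (nat_lit 76) (nat_lit 140546035194) (nat_lit 76) (nat_lit 140404094061) (nat_lit 1) (nat_lit 4) (nat_lit 2) (nat_lit 5) (nat_lit 2) (nat_lit 4) (nat_lit 332) (nat_lit 225) (nat_lit 223))) (XT.nd (nat_lit 78) (nat_lit 0) (nat_lit 0) (XT.lf (nat_lit 0) (nat_lit 28024838996) (nat_lit 76) (nat_lit 150431733197) (nat_lit 76) (nat_lit 150226606018) (nat_lit 1) (nat_lit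 4) (nat_lit 2) (nat_lit 5) (nat_lit 2) (nat_lit 4) (nat_lit 333) (nat_lit 225) (nat_lit 222)) (XT.lf (nat_lit 0) (nat_lit 32800835609) (nat_lit 76) (nat_lit 161167264144) (nat_lit 76) (nat_lit 160903631367) (nat_lit 1) (nat_lit 4) (nat_lit 2) (nat_lit 5) (nat_lit 2) (nat_lit 4) (nat_lit 334) (nat_lit 225) (nat_lit 221)))))) (XT.nd (nat_lit 546) (nat_lit 0) (nat_lit 0) (XT.nd (nat_lit 234) (nat_lit 0) (nat_lit 0) (XT.nd (nat_lit 78) (nat_lit 0) (nat_lit 0) (XT.lf (nat_lit 0) (nat_lit 37845432393) (nat_lit 76) (nat_lit 172816245994) (nat_lit 76) (nat_lit 172498441368) (nat_lit 1) (nat_lit 4) (nat_lit 2) (nat_lit 5) (nat_lit 2) (nat_lit 4) (nat_lit 335) (nat_lit 225) (nat_lit 220)) (XT.nd (nat_lit 78) (nat_lit 0) (nat_lit 0) (XT.lf (nat_lit 0) (nat_lit 43188523256) (nat_lit 76) (nat_lit 185447709753) (nat_lit 76) (nat_lit 185079746006) (nat_lit 1) (nat_lit 4) (nat_lit 2) (nat_lit 5) (nat_lit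 2) (nat_lit 4) (nat_lit 336) (nat_lit 225) (nat_lit 219)) (XT.lf (nat_lit 0) (nat_lit 48861770956) (nat_lit 76) (nat_lit 199136508538) (nat_lit 76) (nat_lit 198722101161) (nat_lit 1) (nat_lit 4) (nat_lit 2) (nat_lit 5) (nat_lit 2) (nat_lit 4) (nat_lit 337) (nat_lit 225) (nat_lit 218)))) (XT.nd (nat_lit 156) (nat_lit 0) (nat_lit 0) (XT.nd (nat_lit 78) (nat_lit 0) (nat_lit 0) (XT.lf (nat_lit 0) (nat_lit 54898794741) (nat_lit 76) (nat_lit 213963761158) (nat_lit 76) (nat_lit 213506350420) (nat_lit 1) (nat_lit 4) (nat_lit 2) (nat_lit 5) (nat_lit 2) (nat_lit 4) (nat_lit 338) (nat_lit 225) (nat_lit 217)) (XT.lf (nat_lit 0) (nat_lit 61335369567) (nat_lit 76) (nat_lit 230017332812) (nat_lit 76) (nat_lit 229520104147) (nat_lit 1) (nat_lit 4) (nat_lit 2) (nat_lit 5) (nat_lit 2) (nat_lit 4) (nat_lit 339) (nat_lit 225) (nat_lit 216))) (XT.nd (nat_lit 78) (nat_lit 0) (nat_lit 0) (XT.lf (nat_lit 0)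 (nat_lit 68209638097) (nat_lit 76) (nat_lit 247392355778) (nat_lit 76) (nat_lit 246858258662) (nat_lit 1) (nat_lit 4) (nat_lit 2) (nat_lit 5) (nat_lit 2) (nat_lit 4) (nat_lit 340) (nat_lit 225) (nat_lit 215)) (XT.lf (nat_lit 0) (nat_lit 75562336740) (nat_lit 76) (nat_lit 266191793154) (nat_lit 76) (nat_lit 265623558583) (nat_lit 1) (nat_lit 4) (nat_lit 2) (nat_lit 5) (nat_lit 2) (nat_lit 4) (nat_lit 341) (nat_lit 225) (nat_lit 214))))) (XT.nd (nat_lit 312) (nat_lit 0) (nat_lit 0) (XT.nd (nat_lit 156) (nat_lit 0) (nat_lit 0) (XT.nd (nat_lit 78) (nat_lit 0) (nat_lit 0) (XT.lf (nat_lit 0) (nat_lit 83437037042) (nat_lit 76) (nat_lit 286527049013) (nat_lit 76) (nat_lit 285927205689) (nat_lit 1) (nat_lit 4) (nat_lit 2) (nat_lit 5) (nat_lit 2) (nat_lit 4) (nat_lit 342) (nat_lit 225) (nat_lit 213)) (XT.lf (nat_lit 0) (nat_lit 91880403893) (nat_lit 76) (nat_lit 308518628577) (nat_lit 76) (nat_lit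 307889517888) (nat_lit 1) (nat_lit 4) (nat_lit 2) (nat_lit 5) (nat_lit 2) (nat_lit 4) (nat_lit 343) (nat_lit 225) (nat_lit 212))) (XT.nd (nat_lit 78) (nat_lit 0) (nat_lit 0) (XT.lf (nat_lit 0) (nat_lit 100942472061) (nat_lit 76) (nat_lit 332296852316) (nat_lit 76) (nat_lit 331640642214) (nat_lit 1) (nat_lit 4) (nat_lit 2) (nat_lit 5) (nat_lit 2) (nat_lit 4) (nat_lit 344) (nat_lit 225) (nat_lit 211)) (XT.lf (nat_lit 0) (nat_lit 110676942691) (nat_lit 76) (nat_lit 358002628222) (nat_lit 76) (nat_lit 357321326072) (nat_lit 1) (nat_lit 4) (nat_lit 2) (nat_lit 5) (nat_lit 2) (nat_lit 4) (nat_lit 345) (nat_lit 225) (nat_lit 210)))) (XT.nd (nat_lit 156) (nat_lit 0) (nat_lit 0) (XT.nd (nat_lit 78) (nat_lit 0) (nat_lit 0) (XT.lf (nat_lit 0) (nat_lit 121141501533) (nat_lit 76) (nat_lit 385788286820) (nat_lit 76) (nat_lit 385083751292) (nat_lit 1) (nat_lit 4) (nat_lit 2) (nat_lit 5) (nat_lit 2)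 (nat_lit 4) (nat_lit 346) (nat_lit 225) (nat_lit 209)) (XT.lf (nat_lit 0) (nat_lit 132398160789) (nat_lit 76) (nat_lit 415818483864) (nat_lit 76) (nat_lit 415092435949) (nat_lit 1) (nat_lit 4) (nat_lit 2) (nat_lit 5) (nat_lit 2) (nat_lit 4) (nat_lit 347) (nat_lit 225) (nat_lit 208))) (XT.nd (nat_lit 78) (nat_lit 0) (nat_lit 0) (XT.lf (nat_lit 0) (nat_lit 144513626587) (nat_lit 76) (nat_lit 448271176077) (nat_lit 76) (nat_lit 447525209286) (nat_lit 1) (nat_lit 4) (nat_lit 2) (nat_lit 5) (nat_lit 2) (nat_lit 4) (nat_lit 348) (nat_lit 225) (nat_lit 207)) (XT.lf (nat_lit 0) (nat_lit 157559694281) (nat_lit 76) (nat_lit 483338675710) (nat_lit 76) (nat_lit 482574265515) (nat_lit 1) (nat_lit 4) (nat_lit 2) (nat_lit 5) (nat_lit 2) (nat_lit 4) (nat_lit 349) (nat_lit 225) (nat_lit 206))))))) (XT.nd (nat_lit 1170) (nat_lit 0) (nat_lit 0) (XT.nd (nat_lit 546) (nat_lit 0) (nat_lit 0) (XT.nd (nat_lit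 234) (nat_lit 0) (nat_lit 0) (XT.nd (nat_lit 78) (nat_lit 0) (nat_lit 0) (XT.lf (nat_lit 0) (nat_lit 171613673901) (nat_lit 76) (nat_lit 521228790168) (nat_lit 76) (nat_lit 520447302746) (nat_lit 1) (nat_lit 4) (nat_lit 2) (nat_lit 5) (nat_lit 2) (nat_lit 4) (nat_lit 350) (nat_lit 225) (nat_lit 205)) (XT.nd (nat_lit 78) (nat_lit 0) (nat_lit 0) (XT.lf (nat_lit 0) (nat_lit 186758848290) (nat_lit 76) (nat_lit 562166053462) (nat_lit 76) (nat_lit 561368753794) (nat_lit 1) (nat_lit 4) (nat_lit 2) (nat_lit 5) (nat_lit 2) (nat_lit 4) (nat_lit 351) (nat_lit 225) (nat_lit 204)) (XT.lf (nat_lit 0) (nat_lit 203084966628) (nat_lit 76) (nat_lit 606393056783) (nat_lit 76) (nat_lit 605581116146) (nat_lit 1) (nat_lit 4) (nat_lit 2) (nat_lit 5) (nat_lit 2) (nat_lit 4) (nat_lit 352) (nat_lit 225) (nat_lit 203)))) (XT.nd (nat_lit 156) (nat_lit 0) (nat_lit 0) (XT.nd (nat_lit 78) (nat_lit 0) (nat_lit 0)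 (XT.lf (nat_lit 0) (nat_lit 220688776284) (nat_lit 76) (nat_lit 654171886076) (nat_lit 76) (nat_lit 653346388985) (nat_lit 1) (nat_lit 4) (nat_lit 2) (nat_lit 5) (nat_lit 2) (nat_lit 4) (nat_lit 353) (nat_lit 225) (nat_lit 202)) (XT.lf (nat_lit 0) (nat_lit 239674596130) (nat_lit 76) (nat_lit 705785675143) (nat_lit 76) (nat_lit 704947625782) (nat_lit 1) (nat_lit 4) (nat_lit 2) (nat_lit 5) (nat_lit 2) (nat_lit 4) (nat_lit 354) (nat_lit 225) (nat_lit 201))) (XT.nd (nat_lit 78) (nat_lit 0) (nat_lit 0) (XT.lf (nat_lit 0) (nat_lit 260154934728) (nat_lit 76) (nat_lit 761540283477) (nat_lit 76) (nat_lit 760690611642) (nat_lit 1) (nat_lit 4) (nat_lit 2) (nat_lit 5) (nat_lit 2) (nat_lit 4) (nat_lit 355) (nat_lit 225) (nat_lit 200)) (XT.lf (nat_lit 0) (nat_lit 282251157048) (nat_lit 76) (nat_lit 821766108755) (nat_lit 76) (nat_lit 820905675371) (nat_lit 1) (nat_lit 4) (nat_lit 2) (nat_lit 5) (nat_lit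 2) (nat_lit 4) (nat_lit 356) (nat_lit 225) (nat_lit 199))))) (XT.nd (nat_lit 312) (nat_lit 0) (nat_lit 0) (XT.nd (nat_lit 156) (nat_lit 0) (nat_lit 0) (XT.nd (nat_lit 78) (nat_lit 0) (nat_lit 0) (XT.lf (nat_lit 0) (nat_lit 306094203666) (nat_lit 76) (nat_lit 886820044758) (nat_lit 76) (nat_lit 885949646977) (nat_lit 1) (nat_lit 4) (nat_lit 2) (nat_lit 5) (nat_lit 2) (nat_lit 4) (nat_lit 357) (nat_lit 225) (nat_lit 198)) (XT.lf (nat_lit 0) (nat_lit 331825366709) (nat_lit 76) (nat_lit 957087596291) (nat_lit 76) (nat_lit 956207972216) (nat_lit 1) (nat_lit 4) (nat_lit 2) (nat_lit 5) (nat_lit 2) (nat_lit 4) (nat_lit 358) (nat_lit 225) (nat_lit 197))) (XT.nd (nat_lit 78) (nat_lit 0) (nat_lit 0) (XT.lf (nat_lit 0) (nat_lit 359597127146) (nat_lit 76) (nat_lit 1032985163660) (nat_lit 76) (nat_lit 1032096996720) (nat_lit 1) (nat_lit 4) (nat_lit 2) (nat_lit 5) (nat_lit 2) (nat_lit 4) (nat_lit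 359) (nat_lit 225) (nat_lit 196)) (XT.lf (nat_lit 0) (nat_lit 389574058369) (nat_lit 76) (nat_lit 1114962510227) (nat_lit 76) (nat_lit 1114066433226) (nat_lit 1) (nat_lit 4) (nat_lit 2) (nat_lit 5) (nat_lit 2) (nat_lit 4) (nat_lit 360) (nat_lit 225) (nat_lit 195)))) (XT.nd (nat_lit 156) (nat_lit 0) (nat_lit 0) (XT.nd (nat_lit 78) (nat_lit 0) (nat_lit 0) (XT.lf (nat_lit 0) (nat_lit 421933801455) (nat_lit 76) (nat_lit 1203505427675) (nat_lit 76) (nat_lit 1202602026545) (nat_lit 1) (nat_lit 4) (nat_lit 2) (nat_lit 5) (nat_lit 2) (nat_lit 4) (nat_lit 361) (nat_lit 225) (nat_lit 194)) (XT.lf (nat_lit 0) (nat_lit 456868117842) (nat_lit 76) (nat_lit 1299138614774) (nat_lit 76) (nat_lit 1298228432042) (nat_lit 1) (nat_lit 4) (nat_lit 2) (nat_lit 5) (nat_lit 2) (nat_lit 4) (nat_lit 362) (nat_lit 225) (nat_lit 193))) (XT.nd (nat_lit 78) (nat_lit 0) (nat_lit 0) (XT.lf (nat_lit 0) (nat_lit 494584025703)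 (nat_lit 76) (nat_lit 1402428786707) (nat_lit 76) (nat_lit 1401512324715) (nat_lit 1) (nat_lit 4) (nat_lit 2) (nat_lit 5) (nat_lit 2) (nat_lit 4) (nat_lit 363) (nat_lit 225) (nat_lit 192)) (XT.lf (nat_lit 0) (nat_lit 535305026713) (nat_lit 76) (nat_lit 1513988033382) (nat_lit 76) (nat_lit 1513065757260) (nat_lit 1) (nat_lit 4) (nat_lit 2) (nat_lit 5) (nat_lit 2) (nat_lit 4) (nat_lit 364) (nat_lit 225) (nat_lit 191)))))) (XT.nd (nat_lit 37986) (nat_lit 0) (nat_lit 0) (XT.nd (nat_lit 234) (nat_lit 0) (nat_lit 0) (XT.nd (nat_lit 78) (nat_lit 0) (nat_lit 0) (XT.lf (nat_lit 0) (nat_lit 579272430507) (nat_lit 76) (nat_lit 1634477446632) (nat_lit 76) (nat_lit 1633549787055) (nat_lit 1) (nat_lit 4) (nat_lit 2) (nat_lit 5) (nat_lit 2) (nat_lit 4) (nat_lit 365) (nat_lit 225) (nat_lit 190)) (XT.nd (nat_lit 78) (nat_lit 0) (nat_lit 0) (XT.lf (nat_lit 0) (nat_lit 626746784666) (nat_lit 76) (nat_lit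 1764611037793) (nat_lit 76) (nat_lit 1763678393536) (nat_lit 1) (nat_lit 4) (nat_lit 2) (nat_lit 5) (nat_lit 2) (nat_lit 4) (nat_lit 366) (nat_lit 225) (nat_lit 189)) (XT.lf (nat_lit 0) (nat_lit 678009418693) (nat_lit 76) (nat_lit 1905159968887) (nat_lit 76) (nat_lit 1904222709187) (nat_lit 1) (nat_lit 4) (nat_lit 2) (nat_lit 5) (nat_lit 2) (nat_lit 4) (nat_lit 367) (nat_lit 225) (nat_lit 188)))) (XT.nd (nat_lit 37596) (nat_lit 0) (nat_lit 0) (XT.nd (nat_lit 37518) (nat_lit 0) (nat_lit 0) (XT.lf (nat_lit 0) (nat_lit 733364111161) (nat_lit 76) (nat_lit 2056957122469) (nat_lit 76) (nat_lit 2056015589210) (nat_lit 1) (nat_lit 4) (nat_lit 2) (nat_lit 5) (nat_lit 2) (nat_lit 4) (nat_lit 368) (nat_lit 225) (nat_lit 187)) (XT.lf (nat_lit 0) (nat_lit 3654995277) (nat_lit 76) (nat_lit 54219698929) (nat_lit 76) (nat_lit 54219698929) (nat_lit 1) (nat_lit 4) (nat_lit 2) (nat_lit 5) (nat_lit 2)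 (nat_lit 4) (nat_lit 328) (nat_lit 226) (nat_lit 226))) (XT.nd (nat_lit 78) (nat_lit 0) (nat_lit 0) (XT.lf (nat_lit 0) (nat_lit 11061221855) (nat_lit 76) (nat_lit 115504841033) (nat_lit 76) (nat_lit 115425244813) (nat_lit 1) (nat_lit 4) (nat_lit 2) (nat_lit 5) (nat_lit 2) (nat_lit 4) (nat_lit 329) (nat_lit 226) (nat_lit 225)) (XT.lf (nat_lit 0) (nat_lit 14958163974) (nat_lit 76) (nat_lit 123209813825) (nat_lit 76) (nat_lit 123056517401) (nat_lit 1) (nat_lit 4) (nat_lit 2) (nat_lit 5) (nat_lit 2) (nat_lit 4) (nat_lit 330) (nat_lit 226) (nat_lit 224))))) (XT.nd (nat_lit 312) (nat_lit 0) (nat_lit 0) (XT.nd (nat_lit 156) (nat_lit 0) (nat_lit 0) (XT.nd (nat_lit 78) (nat_lit 0) (nat_lit 0) (XT.lf (nat_lit 0) (nat_lit 19023909901) (nat_lit 76) (nat_lit 131599975334) (nat_lit 76) (nat_lit 131378437980) (nat_lit 1) (nat_lit 4) (nat_lit 2) (nat_lit 5) (nat_lit 2) (nat_lit 4) (nat_lit 331) (nat_lit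 226) (nat_lit 223)) (XT.lf (nat_lit 0) (nat_lit 23282552946) (nat_lit 76) (nat_lit 140725045034) (nat_lit 76) (nat_lit 140440321635) (nat_lit 1) (nat_lit 4) (nat_lit 2) (nat_lit 5) (nat_lit 2) (nat_lit 4) (nat_lit 332) (nat_lit 226) (nat_lit 222))) (XT.nd (nat_lit 78) (nat_lit 0) (nat_lit 0) (XT.lf (nat_lit 0) (nat_lit 27759329512) (nat_lit 76) (nat_lit 150639097413) (nat_lit 76) (nat_lit 150295868417) (nat_lit 1) (nat_lit 4) (nat_lit 2) (nat_lit 5) (nat_lit 2) (nat_lit 4) (nat_lit 333) (nat_lit 226) (nat_lit 221)) (XT.lf (nat_lit 0) (nat_lit 32480768646) (nat_lit 76) (nat_lit 161400882412) (nat_lit 76) (nat_lit 161003481565) (nat_lit 1) (nat_lit 4) (nat_lit 2) (nat_lit 5) (nat_lit 2) (nat_lit 4) (nat_lit 334) (nat_lit 226) (nat_lit 220)))) (XT.nd (nat_lit 156) (nat_lit 0) (nat_lit 0) (XT.nd (nat_lit 78) (nat_lit 0) (nat_lit 0) (XT.lf (nat_lit 0) (nat_lit 37474849245) (nat_lit 76) (nat_lit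 173074173570) (nat_lit 76) (nat_lit 172626613603) (nat_lit 1) (nat_lit 4) (nat_lit 2) (nat_lit 5) (nat_lit 2) (nat_lit 4) (nat_lit 335) (nat_lit 226) (nat_lit 219)) (XT.lf (nat_lit 0) (nat_lit 42771165862) (nat_lit 76) (nat_lit 185728145947) (nat_lit 76) (nat_lit 185234142350) (nat_lit 1) (nat_lit 4) (nat_lit 2) (nat_lit 5) (nat_lit 2) (nat_lit 4) (nat_lit 336) (nat_lit 226) (nat_lit 218))) (XT.nd (nat_lit 78) (nat_lit 0) (nat_lit 0) (XT.lf (nat_lit 0) (nat_lit 48401104076) (nat_lit 76) (nat_lit 199437786046) (nat_lit 76) (nat_lit 198900779087) (nat_lit 1) (nat_lit 4) (nat_lit 2) (nat_lit 5) (nat_lit 2) (nat_lit 4) (nat_lit 337) (nat_lit 226) (nat_lit 217)) (XT.lf (nat_lit 0) (nat_lit 54398026485) (nat_lit 76) (nat_lit 214284336177) (nat_lit 76) (nat_lit 213707511292) (nat_lit 1) (nat_lit 4) (nat_lit 2) (nat_lit 5) (nat_lit 2) (nat_lit 4) (nat_lit 338) (nat_lit 226) (nat_lit 216))))))))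
noncomputable def xc7 : XT := (XT.nd (nat_lit 2262) (nat_lit 0) (nat_lit 0) (XT.nd (nat_lit 1092) (nat_lit 0) (nat_lit 0) (XT.nd (nat_lit 546) (nat_lit 0) (nat_lit 0) (XT.nd (nat_lit 234) (nat_lit 0) (nat_lit 0) (XT.nd (nat_lit 78) (nat_lit 0) (nat_lit 0) (XT.lf (nat_lit 0) (nat_lit 60797470406) (nat_lit 76) (nat_lit 230355775898) (nat_lit 76) (nat_lit 229742082563) (nat_lit 1) (nat_lit 4) (nat_lit 2) (nat_lit 5) (nat_lit 2) (nat_lit 4) (nat_lit 339) (nat_lit 226) (nat_lit 215)) (XT.nd (nat_lit 78) (nat_lit 0) (nat_lit 0) (XT.lf (nat_lit 0) (nat_lit 67637358470) (nat_lit 76) (nat_lit 247747343370) (nat_lit 76) (nat_lit 247099512580) (nat_lit 1) (nat_lit 4) (nat_lit 2) (nat_lit 5) (nat_lit 2) (nat_lit 4) (nat_lit 340) (nat_lit 226) (nat_lit 214)) (XT.lf (nat_lit 0) (nat_lit 74958223347) (nat_lit 76) (nat_lit 266562099734) (nat_lit 76) (nat_lit 265882660189) (nat_lit 1) (nat_lit 4) (nat_lit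 2) (nat_lit 5) (nat_lit 2) (nat_lit 4) (nat_lit 341) (nat_lit 226) (nat_lit 213)))) (XT.nd (nat_lit 156) (nat_lit 0) (nat_lit 0) (XT.nd (nat_lit 78) (nat_lit 0) (nat_lit 0) (XT.lf (nat_lit 0) (nat_lit 82803447940) (nat_lit 76) (nat_lit 286911539841) (nat_lit 76) (nat_lit 286202832932) (nat_lit 1) (nat_lit 4) (nat_lit 2) (nat_lit 5) (nat_lit 2) (nat_lit 4) (nat_lit 342) (nat_lit 226) (nat_lit 212)) (XT.lf (nat_lit 0) (nat_lit 91219522469) (nat_lit 76) (nat_lit 308916252967) (nat_lit 76) (nat_lit 308180446646) (nat_lit 1) (nat_lit 4) (nat_lit 2) (nat_lit 5) (nat_lit 2) (nat_lit 4) (nat_lit 343) (nat_lit 226) (nat_lit 211))) (XT.nd (nat_lit 78) (nat_lit 0) (nat_lit 0) (XT.lf (nat_lit 0) (nat_lit 100256319968) (nat_lit 76) (nat_lit 332706637412) (nat_lit 76) (nat_lit 331945739042) (nat_lit 1) (nat_lit 4) (nat_lit 2) (nat_lit 5) (nat_lit 2) (nat_lit 4) (nat_lit 344) (nat_lit 226) (nat_lit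 210)) (XT.lf (nat_lit 0) (nat_lit 109967391829) (nat_lit 76) (nat_lit 358423673231) (nat_lit 76) (nat_lit 357639541484) (nat_lit 1) (nat_lit 4) (nat_lit 2) (nat_lit 5) (nat_lit 2) (nat_lit 4) (nat_lit 345) (nat_lit 226) (nat_lit 209))))) (XT.nd (nat_lit 234) (nat_lit 0) (nat_lit 0) (XT.nd (nat_lit 78) (nat_lit 0) (nat_lit 0) (XT.lf (nat_lit 0) (nat_lit 120410285146) (nat_lit 76) (nat_lit 386219757674) (nat_lit 76) (nat_lit 385414113540) (nat_lit 1) (nat_lit 4) (nat_lit 2) (nat_lit 5) (nat_lit 2) (nat_lit 4) (nat_lit 346) (nat_lit 226) (nat_lit 208)) (XT.nd (nat_lit 78) (nat_lit 0) (nat_lit 0) (XT.lf (nat_lit 0) (nat_lit 131646883729) (nat_lit 76) (nat_lit 416259608279) (nat_lit 76) (nat_lit 415434045268) (nat_lit 1) (nat_lit 4) (nat_lit 2) (nat_lit 5) (nat_lit 2) (nat_lit 4) (nat_lit 347) (nat_lit 226) (nat_lit 207)) (XT.lf (nat_lit 0) (nat_lit 143743774832) (nat_lit 76) (nat_lit 448721238974)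 (nat_lit 76) (nat_lit 447877232559) (nat_lit 1) (nat_lit 4) (nat_lit 2) (nat_lit 5) (nat_lit 2) (nat_lit 4) (nat_lit 348) (nat_lit 226) (nat_lit 206)))) (XT.nd (nat_lit 156) (nat_lit 0) (nat_lit 0) (XT.nd (nat_lit 78) (nat_lit 0) (nat_lit 0) (XT.lf (nat_lit 0) (nat_lit 156772643732) (nat_lit 76) (nat_lit 483797014979) (nat_lit 76) (nat_lit 482935931338) (nat_lit 1) (nat_lit 4) (nat_lit 2) (nat_lit 5) (nat_lit 2) (nat_lit 4) (nat_lit 349) (nat_lit 226) (nat_lit 205)) (XT.lf (nat_lit 0) (nat_lit 170810698544) (nat_lit 76) (nat_lit 521694792745) (nat_lit 76) (nat_lit 520817896857) (nat_lit 1) (nat_lit 4) (nat_lit 2) (nat_lit 5) (nat_lit 2) (nat_lit 4) (nat_lit 350) (nat_lit 226) (nat_lit 204))) (XT.nd (nat_lit 78) (nat_lit 0) (nat_lit 0) (XT.lf (nat_lit 0) (nat_lit 185941127740) (nat_lit 76) (nat_lit 562639151694) (nat_lit 76) (nat_lit 561747614837) (nat_lit 1) (nat_lit 4) (nat_lit 2)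 (nat_lit 5) (nat_lit 2) (nat_lit 4) (nat_lit 351) (nat_lit 226) (nat_lit 203)) (XT.lf (nat_lit 0) (nat_lit 202253593122) (nat_lit 76) (nat_lit 606872725066) (nat_lit 76) (nat_lit 605967631756) (nat_lit 1) (nat_lit 4) (nat_lit 2) (nat_lit 5) (nat_lit 2) (nat_lit 4) (nat_lit 352) (nat_lit 226) (nat_lit 202)))))) (XT.nd (nat_lit 546) (nat_lit 0) (nat_lit 0) (XT.nd (nat_lit 234) (nat_lit 0) (nat_lit 0) (XT.nd (nat_lit 78) (nat_lit 0) (nat_lit 0) (XT.lf (nat_lit 0) (nat_lit 219844761152) (nat_lit 76) (nat_lit 654657637739) (nat_lit 76) (nat_lit 653739992158) (nat_lit 1) (nat_lit 4) (nat_lit 2) (nat_lit 5) (nat_lit 2) (nat_lit 4) (nat_lit 353) (nat_lit 226) (nat_lit 201)) (XT.nd (nat_lit 78) (nat_lit 0) (nat_lit 0) (XT.lf (nat_lit 0) (nat_lit 238818875788) (nat_lit 76) (nat_lit 706277059567) (nat_lit 76) (nat_lit 705347791512) (nat_lit 1) (nat_lit 4) (nat_lit 2) (nat_lit 5) (nat_lit 2) (nat_lit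 4) (nat_lit 354) (nat_lit 226) (nat_lit 200)) (XT.lf (nat_lit 0) (nat_lit 259288376229) (nat_lit 76) (nat_lit 762036883419) (nat_lit 76) (nat_lit 761096853815) (nat_lit 1) (nat_lit 4) (nat_lit 2) (nat_lit 5) (nat_lit 2) (nat_lit 4) (nat_lit 355) (nat_lit 226) (nat_lit 199)))) (XT.nd (nat_lit 156) (nat_lit 0) (nat_lit 0) (XT.nd (nat_lit 78) (nat_lit 0) (nat_lit 0) (XT.lf (nat_lit 0) (nat_lit 281374563218) (nat_lit 76) (nat_lit 822267537881) (nat_lit 76) (nat_lit 821317543879) (nat_lit 1) (nat_lit 4) (nat_lit 2) (nat_lit 5) (nat_lit 2) (nat_lit 4) (nat_lit 356) (nat_lit 226) (nat_lit 198)) (XT.lf (nat_lit 0) (nat_lit 305208317863) (nat_lit 76) (nat_lit 887325945350) (nat_lit 76) (nat_lit 886366725055) (nat_lit 1) (nat_lit 4) (nat_lit 2) (nat_lit 5) (nat_lit 2) (nat_lit 4) (nat_lit 357) (nat_lit 226) (nat_lit 197))) (XT.nd (nat_lit 78) (nat_lit 0) (nat_lit 0) (XT.lf (nat_lit 0) (nat_lit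 330930877229) (nat_lit 76) (nat_lit 957597637130) (nat_lit 76) (nat_lit 956629873970) (nat_lit 1) (nat_lit 4) (nat_lit 2) (nat_lit 5) (nat_lit 2) (nat_lit 4) (nat_lit 358) (nat_lit 226) (nat_lit 196)) (XT.lf (nat_lit 0) (nat_lit 358694671296) (nat_lit 76) (nat_lit 1033499038061) (nat_lit 76) (nat_lit 1032523364840) (nat_lit 1) (nat_lit 4) (nat_lit 2) (nat_lit 5) (nat_lit 2) (nat_lit 4) (nat_lit 359) (nat_lit 226) (nat_lit 195))))) (XT.nd (nat_lit 312) (nat_lit 0) (nat_lit 0) (XT.nd (nat_lit 156) (nat_lit 0) (nat_lit 0) (XT.nd (nat_lit 78) (nat_lit 0) (nat_lit 0) (XT.lf (nat_lit 0) (nat_lit 388664226252) (nat_lit 76) (nat_lit 1115479934222) (nat_lit 76) (nat_lit 1114496936871) (nat_lit 1) (nat_lit 4) (nat_lit 2) (nat_lit 5) (nat_lit 2) (nat_lit 4) (nat_lit 360) (nat_lit 226) (nat_lit 194)) (XT.lf (nat_lit 0) (nat_lit 421017139460) (nat_lit 76) (nat_lit 1204026138331) (nat_lit 76) (nat_lit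 1203036359379) (nat_lit 1) (nat_lit 4) (nat_lit 2) (nat_lit 5) (nat_lit 2) (nat_lit 4) (nat_lit 361) (nat_lit 226) (nat_lit 193))) (XT.nd (nat_lit 78) (nat_lit 0) (nat_lit 0) (XT.lf (nat_lit 0) (nat_lit 455945131887) (nat_lit 76) (nat_lit 1299662368635) (nat_lit 76) (nat_lit 1298666310422) (nat_lit 1) (nat_lit 4) (nat_lit 2) (nat_lit 5) (nat_lit 2) (nat_lit 4) (nat_lit 362) (nat_lit 226) (nat_lit 192)) (XT.lf (nat_lit 0) (nat_lit 493655184229) (nat_lit 76) (nat_lit 1402955358350) (nat_lit 76) (nat_lit 1401953486008) (nat_lit 1) (nat_lit 4) (nat_lit 2) (nat_lit 5) (nat_lit 2) (nat_lit 4) (nat_lit 363) (nat_lit 226) (nat_lit 191)))) (XT.nd (nat_lit 156) (nat_lit 0) (nat_lit 0) (XT.nd (nat_lit 78) (nat_lit 0) (nat_lit 0) (XT.lf (nat_lit 0) (nat_lit 534370763462) (nat_lit 76) (nat_lit 1514517214083) (nat_lit 76) (nat_lit 1513509958287) (nat_lit 1) (nat_lit 4) (nat_lit 2) (nat_lit 5) (nat_lit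 2) (nat_lit 4) (nat_lit 364) (nat_lit 226) (nat_lit 190)) (XT.lf (nat_lit 0) (nat_lit 578333147093) (nat_lit 76) (nat_lit 1635009043126) (nat_lit 76) (nat_lit 1633996802650) (nat_lit 1) (nat_lit 4) (nat_lit 2) (nat_lit 5) (nat_lit 2) (nat_lit 4) (nat_lit 365) (nat_lit 226) (nat_lit 189))) (XT.nd (nat_lit 78) (nat_lit 0) (nat_lit 0) (XT.lf (nat_lit 0) (nat_lit 625802852951) (nat_lit 76) (nat_lit 1765144871134) (nat_lit 76) (nat_lit 1764128015214) (nat_lit 1) (nat_lit 4) (nat_lit 2) (nat_lit 5) (nat_lit 2) (nat_lit 4) (nat_lit 366) (nat_lit 226) (nat_lit 188)) (XT.lf (nat_lit 0) (nat_lit 677061182997) (nat_lit 76) (nat_lit 1905695873382) (nat_lit 76) (nat_lit 1904674743903) (nat_lit 1) (nat_lit 4) (nat_lit 2) (nat_lit 5) (nat_lit 2) (nat_lit 4) (nat_lit 367) (nat_lit 226) (nat_lit 187))))))) (XT.nd (nat_lit 38454) (nat_lit 0) (nat_lit 0) (XT.nd (nat_lit 37830) (nat_lit 0) (nat_lit 0)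 (XT.nd (nat_lit 37518) (nat_lit 0) (nat_lit 0) (XT.nd (nat_lit 37362) (nat_lit 0) (nat_lit 0) (XT.lf (nat_lit 0) (nat_lit 732411890298) (nat_lit 76) (nat_lit 2057494944700) (nat_lit 76) (nat_lit 2056469858221) (nat_lit 1) (nat_lit 4) (nat_lit 2) (nat_lit 5) (nat_lit 2) (nat_lit 4) (nat_lit 368) (nat_lit 226) (nat_lit 186)) (XT.nd (nat_lit 78) (nat_lit 0) (nat_lit 0) (XT.lf (nat_lit 0) (nat_lit 121524969) (nat_lit 76) (nat_lit 48053733461) (nat_lit 76) (nat_lit 48053733461) (nat_lit 1) (nat_lit 4) (nat_lit 2) (nat_lit 5) (nat_lit 2) (nat_lit 4) (nat_lit 326) (nat_lit 227) (nat_lit 227)) (XT.lf (nat_lit 0) (nat_lit 3682240553) (nat_lit 76) (nat_lit 102057578929) (nat_lit 76) (nat_lit 101971615011) (nat_lit 1) (nat_lit 4) (nat_lit 2) (nat_lit 5) (nat_lit 2) (nat_lit 4) (nat_lit 327) (nat_lit 227) (nat_lit 226)))) (XT.nd (nat_lit 156) (nat_lit 0) (nat_lit 0) (XT.nd (nat_lit 78) (nat_lit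 0) (nat_lit 0) (XT.lf (nat_lit 0) (nat_lit 7229827718) (nat_lit 76) (nat_lit 108563937593) (nat_lit 76) (nat_lit 108398377455) (nat_lit 1) (nat_lit 4) (nat_lit 2) (nat_lit 5) (nat_lit 2) (nat_lit 4) (nat_lit 328) (nat_lit 227) (nat_lit 225)) (XT.lf (nat_lit 0) (nat_lit 10906834169) (nat_lit 76) (nat_lit 115665099115) (nat_lit 76) (nat_lit 115425838774) (nat_lit 1) (nat_lit 4) (nat_lit 2) (nat_lit 5) (nat_lit 2) (nat_lit 4) (nat_lit 329) (nat_lit 227) (nat_lit 224))) (XT.nd (nat_lit 78) (nat_lit 0) (nat_lit 0) (XT.lf (nat_lit 0) (nat_lit 14735049576) (nat_lit 76) (nat_lit 123403144452) (nat_lit 76) (nat_lit 123095643181) (nat_lit 1) (nat_lit 4) (nat_lit 2) (nat_lit 5) (nat_lit 2) (nat_lit 4) (nat_lit 330) (nat_lit 227) (nat_lit 223)) (XT.lf (nat_lit 0) (nat_lit 18737159659) (nat_lit 76) (nat_lit 131823928687) (nat_lit 76) (nat_lit 131453241370) (nat_lit 1) (nat_lit 4) (nat_lit 2) (nat_lit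 5) (nat_lit 2) (nat_lit 4) (nat_lit 331) (nat_lit 227) (nat_lit 222))))) (XT.nd (nat_lit 312) (nat_lit 0) (nat_lit 0) (XT.nd (nat_lit 156) (nat_lit 0) (nat_lit 0) (XT.nd (nat_lit 78) (nat_lit 0) (nat_lit 0) (XT.lf (nat_lit 0) (nat_lit 22936880626) (nat_lit 76) (nat_lit 140977352764) (nat_lit 76) (nat_lit 140548159849) (nat_lit 1) (nat_lit 4) (nat_lit 2) (nat_lit 5) (nat_lit 2) (nat_lit 4) (nat_lit 332) (nat_lit 227) (nat_lit 221)) (XT.lf (nat_lit 0) (nat_lit 27359099712) (nat_lit 76) (nat_lit 150917659196) (nat_lit 76) (nat_lit 150434294431) (nat_lit 1) (nat_lit 4) (nat_lit 2) (nat_lit 5) (nat_lit 2) (nat_lit 4) (nat_lit 333) (nat_lit 227) (nat_lit 220))) (XT.nd (nat_lit 78) (nat_lit 0) (nat_lit 0) (XT.lf (nat_lit 0) (nat_lit 32030022660) (nat_lit 76) (nat_lit 161703753502) (nat_lit 76) (nat_lit 161170229617) (nat_lit 1) (nat_lit 4) (nat_lit 2) (nat_lit 5) (nat_lit 2) (nat_lit 4) (nat_lit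 334) (nat_lit 227) (nat_lit 219)) (XT.lf (nat_lit 0) (nat_lit 36977329014) (nat_lit 76) (nat_lit 173399553278) (nat_lit 76) (nat_lit 172819585764) (nat_lit 1) (nat_lit 4) (nat_lit 2) (nat_lit 5) (nat_lit 2) (nat_lit 4) (nat_lit 335) (nat_lit 227) (nat_lit 218)))) (XT.nd (nat_lit 156) (nat_lit 0) (nat_lit 0) (XT.nd (nat_lit 78) (nat_lit 0) (nat_lit 0) (XT.lf (nat_lit 0) (nat_lit 42230336145) (nat_lit 76) (nat_lit 186074366968) (nat_lit 76) (nat_lit 185451396093) (nat_lit 1) (nat_lit 4) (nat_lit 2) (nat_lit 5) (nat_lit 2) (nat_lit 4) (nat_lit 336) (nat_lit 227) (nat_lit 217)) (XT.lf (nat_lit 0) (nat_lit 47820172983) (nat_lit 76) (nat_lit 199803304579) (nat_lit 76) (nat_lit 199140515776) (nat_lit 1) (nat_lit 4) (nat_lit 2) (nat_lit 5) (nat_lit 2) (nat_lit 4) (nat_lit 337) (nat_lit 227) (nat_lit 216))) (XT.nd (nat_lit 78) (nat_lit 0) (nat_lit 0) (XT.lf (nat_lit 0) (nat_lit 53779964488)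 (nat_lit 76) (nat_lit 214667722777) (nat_lit 76) (nat_lit 213968065524) (nat_lit 1) (nat_lit 4) (nat_lit 2) (nat_lit 5) (nat_lit 2) (nat_lit 4) (nat_lit 338) (nat_lit 227) (nat_lit 215)) (XT.lf (nat_lit 0) (nat_lit 60145027942) (nat_lit 76) (nat_lit 230755707005) (nat_lit 76) (nat_lit 230021912297) (nat_lit 1) (nat_lit 4) (nat_lit 2) (nat_lit 5) (nat_lit 2) (nat_lit 4) (nat_lit 339) (nat_lit 227) (nat_lit 214)))))) (XT.nd (nat_lit 546) (nat_lit 0) (nat_lit 0) (XT.nd (nat_lit 234) (nat_lit 0) (nat_lit 0) (XT.nd (nat_lit 78) (nat_lit 0) (nat_lit 0) (XT.lf (nat_lit 0) (nat_lit 66953082241) (nat_lit 76) (nat_lit 248162593464) (nat_lit 76) (nat_lit 247397190002) (nat_lit 1) (nat_lit 4) (nat_lit 2) (nat_lit 5) (nat_lit 2) (nat_lit 4) (nat_lit 340) (nat_lit 227) (nat_lit 213)) (XT.nd (nat_lit 78) (nat_lit 0) (nat_lit 0) (XT.lf (nat_lit 0) (nat_lit 74244471409) (nat_lit 76) (nat_lit 266991534075)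 (nat_lit 76) (nat_lit 266196863248) (nat_lit 1) (nat_lit 4) (nat_lit 2) (nat_lit 5) (nat_lit 2) (nat_lit 4) (nat_lit 341) (nat_lit 227) (nat_lit 212)) (XT.lf (nat_lit 0) (nat_lit 82062403679) (nat_lit 76) (nat_lit 287354107745) (nat_lit 76) (nat_lit 286532337506) (nat_lit 1) (nat_lit 4) (nat_lit 2) (nat_lit 5) (nat_lit 2) (nat_lit 4) (nat_lit 342) (nat_lit 227) (nat_lit 211)))) (XT.nd (nat_lit 156) (nat_lit 0) (nat_lit 0) (XT.nd (nat_lit 78) (nat_lit 0) (nat_lit 0) (XT.lf (nat_lit 0) (nat_lit 90453207538) (nat_lit 76) (nat_lit 309370981577) (nat_lit 76) (nat_lit 308524119290) (nat_lit 1) (nat_lit 4) (nat_lit 2) (nat_lit 5) (nat_lit 2) (nat_lit 4) (nat_lit 343) (nat_lit 227) (nat_lit 210)) (XT.lf (nat_lit 0) (nat_lit 99466606269) (nat_lit 76) (nat_lit 333172625935) (nat_lit 76) (nat_lit 332302530270) (nat_lit 1) (nat_lit 4) (nat_lit 2) (nat_lit 5) (nat_lit 2) (nat_lit 4) (nat_lit 344)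 (nat_lit 227) (nat_lit 209))) (XT.nd (nat_lit 78) (nat_lit 0) (nat_lit 0) (XT.lf (nat_lit 0) (nat_lit 109156012605) (nat_lit 76) (nat_lit 358900087599) (nat_lit 76) (nat_lit 358008479547) (nat_lit 1) (nat_lit 4) (nat_lit 2) (nat_lit 5) (nat_lit 2) (nat_lit 4) (nat_lit 345) (nat_lit 227) (nat_lit 208)) (XT.lf (nat_lit 0) (nat_lit 119578845249) (nat_lit 76) (nat_lit 386705825603) (nat_lit 76) (nat_lit 385794298674) (nat_lit 1) (nat_lit 4) (nat_lit 2) (nat_lit 5) (nat_lit 2) (nat_lit 4) (nat_lit 346) (nat_lit 227) (nat_lit 207))))) (XT.nd (nat_lit 312) (nat_lit 0) (nat_lit 0) (XT.nd (nat_lit 156) (nat_lit 0) (nat_lit 0) (XT.nd (nat_lit 78) (nat_lit 0) (nat_lit 0) (XT.lf (nat_lit 0) (nat_lit 130796869137) (nat_lit 76) (nat_lit 416754614689) (nat_lit 76) (nat_lit 415824644356) (nat_lit 1) (nat_lit 4) (nat_lit 2) (nat_lit 5) (nat_lit 2) (nat_lit 4) (nat_lit 347) (nat_lit 227) (nat_lit 206))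 (XT.lf (nat_lit 0) (nat_lit 142876561446) (nat_lit 76) (nat_lit 449224521757) (nat_lit 76) (nat_lit 448277474198) (nat_lit 1) (nat_lit 4) (nat_lit 2) (nat_lit 5) (nat_lit 2) (nat_lit 4) (nat_lit 348) (nat_lit 227) (nat_lit 205))) (XT.nd (nat_lit 78) (nat_lit 0) (nat_lit 0) (XT.lf (nat_lit 0) (nat_lit 155889505538) (nat_lit 76) (nat_lit 484307961070) (nat_lit 76) (nat_lit 483345101264) (nat_lit 1) (nat_lit 4) (nat_lit 2) (nat_lit 5) (nat_lit 2) (nat_lit 4) (nat_lit 349) (nat_lit 227) (nat_lit 204)) (XT.lf (nat_lit 0) (nat_lit 169912815157) (nat_lit 76) (nat_lit 522212834491) (nat_lit 76) (nat_lit 521235333716) (nat_lit 1) (nat_lit 4) (nat_lit 2) (nat_lit 5) (nat_lit 2) (nat_lit 4) (nat_lit 350) (nat_lit 227) (nat_lit 203)))) (XT.nd (nat_lit 156) (nat_lit 0) (nat_lit 0) (XT.nd (nat_lit 78) (nat_lit 0) (nat_lit 0) (XT.lf (nat_lit 0) (nat_lit 185029591396) (nat_lit 76) (nat_lit 563163763491)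 (nat_lit 76) (nat_lit 562172706263) (nat_lit 1) (nat_lit 4) (nat_lit 2) (nat_lit 5) (nat_lit 2) (nat_lit 4) (nat_lit 351) (nat_lit 227) (nat_lit 202)) (XT.lf (nat_lit 0) (nat_lit 201329415152) (nat_lit 76) (nat_lit 607403420244) (nat_lit 76) (nat_lit 606399810744) (nat_lit 1) (nat_lit 4) (nat_lit 2) (nat_lit 5) (nat_lit 2) (nat_lit 4) (nat_lit 352) (nat_lit 227) (nat_lit 201))) (XT.nd (nat_lit 78) (nat_lit 0) (nat_lit 0) (XT.lf (nat_lit 0) (nat_lit 218908877973) (nat_lit 76) (nat_lit 655193965677) (nat_lit 76) (nat_lit 654178733704) (nat_lit 1) (nat_lit 4) (nat_lit 2) (nat_lit 5) (nat_lit 2) (nat_lit 4) (nat_lit 353) (nat_lit 227) (nat_lit 200)) (XT.lf (nat_lit 0) (nat_lit 237872154452) (nat_lit 76) (nat_lit 706818603023) (nat_lit 76) (nat_lit 705792609501) (nat_lit 1) (nat_lit 4) (nat_lit 2) (nat_lit 5) (nat_lit 2) (nat_lit 4) (nat_lit 354) (nat_lit 227) (nat_lit 199))))))))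
noncomputable def xc8 : XT := (XT.nd (nat_lit 39390) (nat_lit 0) (nat_lit 0) (XT.nd (nat_lit 38220) (nat_lit 0) (nat_lit 0) (XT.nd (nat_lit 546) (nat_lit 0) (nat_lit 0) (XT.nd (nat_lit 234) (nat_lit 0) (nat_lit 0) (XT.nd (nat_lit 78) (nat_lit 0) (nat_lit 0) (XT.lf (nat_lit 0) (nat_lit 258331619563) (nat_lit 76) (nat_lit 762583256058) (nat_lit 76) (nat_lit 761547298139) (nat_lit 1) (nat_lit 4) (nat_lit 2) (nat_lit 5) (nat_lit 2) (nat_lit 4) (nat_lit 355) (nat_lit 227) (nat_lit 198)) (XT.nd (nat_lit 78) (nat_lit 0) (nat_lit 0) (XT.lf (nat_lit 0) (nat_lit 280408514579) (nat_lit 76) (nat_lit 822818381987) (nat_lit 76) (nat_lit 821773197773) (nat_lit 1) (nat_lit 4) (nat_lit 2) (nat_lit 5) (nat_lit 2) (nat_lit 4) (nat_lit 356) (nat_lit 227) (nat_lit 197)) (XT.lf (nat_lit 0) (nat_lit 304233665546) (nat_lit 76) (nat_lit 887880929703) (nat_lit 76) (nat_lit 886827202625) (nat_lit 1) (nat_lit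 4) (nat_lit 2) (nat_lit 5) (nat_lit 2) (nat_lit 4) (nat_lit 357) (nat_lit 227) (nat_lit 196)))) (XT.nd (nat_lit 156) (nat_lit 0) (nat_lit 0) (XT.nd (nat_lit 78) (nat_lit 0) (nat_lit 0) (XT.lf (nat_lit 0) (nat_lit 329948258542) (nat_lit 76) (nat_lit 958156455044) (nat_lit 76) (nat_lit 957094817906) (nat_lit 1) (nat_lit 4) (nat_lit 2) (nat_lit 5) (nat_lit 2) (nat_lit 4) (nat_lit 358) (nat_lit 227) (nat_lit 195)) (XT.lf (nat_lit 0) (nat_lit 357704676342) (nat_lit 76) (nat_lit 1034061405569) (nat_lit 76) (nat_lit 1032992444301) (nat_lit 1) (nat_lit 4) (nat_lit 2) (nat_lit 5) (nat_lit 2) (nat_lit 4) (nat_lit 359) (nat_lit 227) (nat_lit 194))) (XT.nd (nat_lit 78) (nat_lit 0) (nat_lit 0) (XT.lf (nat_lit 0) (nat_lit 387667401421) (nat_lit 76) (nat_lit 1116045588391) (nat_lit 76) (nat_lit 1114969845522) (nat_lit 1) (nat_lit 4) (nat_lit 2) (nat_lit 5) (nat_lit 2) (nat_lit 4) (nat_lit 360) (nat_lit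 227) (nat_lit 193)) (XT.lf (nat_lit 0) (nat_lit 420013990669) (nat_lit 76) (nat_lit 1204594835705) (nat_lit 76) (nat_lit 1203512813575) (nat_lit 1) (nat_lit 4) (nat_lit 2) (nat_lit 5) (nat_lit 2) (nat_lit 4) (nat_lit 361) (nat_lit 227) (nat_lit 192))))) (XT.nd (nat_lit 234) (nat_lit 0) (nat_lit 0) (XT.nd (nat_lit 78) (nat_lit 0) (nat_lit 0) (XT.lf (nat_lit 0) (nat_lit 454936127576) (nat_lit 76) (nat_lit 1300233883792) (nat_lit 76) (nat_lit 1299146047531) (nat_lit 1) (nat_lit 4) (nat_lit 2) (nat_lit 5) (nat_lit 2) (nat_lit 4) (nat_lit 362) (nat_lit 227) (nat_lit 191)) (XT.nd (nat_lit 78) (nat_lit 0) (nat_lit 0) (XT.lf (nat_lit 0) (nat_lit 492640758141) (nat_lit 76) (nat_lit 1403529482565) (nat_lit 76) (nat_lit 1402436262851) (nat_lit 1) (nat_lit 4) (nat_lit 2) (nat_lit 5) (nat_lit 2) (nat_lit 4) (nat_lit 363) (nat_lit 227) (nat_lit 190)) (XT.lf (nat_lit 0) (nat_lit 533351317211) (nat_lit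 76) (nat_lit 1515093754092) (nat_lit 76) (nat_lit 1513995549698) (nat_lit 1) (nat_lit 4) (nat_lit 2) (nat_lit 5) (nat_lit 2) (nat_lit 4) (nat_lit 364) (nat_lit 227) (nat_lit 189)))) (XT.nd (nat_lit 156) (nat_lit 0) (nat_lit 0) (XT.nd (nat_lit 78) (nat_lit 0) (nat_lit 0) (XT.lf (nat_lit 0) (nat_lit 577309052542) (nat_lit 76) (nat_lit 1635587819981) (nat_lit 76) (nat_lit 1634485000144) (nat_lit 1) (nat_lit 4) (nat_lit 2) (nat_lit 5) (nat_lit 2) (nat_lit 4) (nat_lit 365) (nat_lit 227) (nat_lit 188)) (XT.lf (nat_lit 0) (nat_lit 624774454419) (nat_lit 76) (nat_lit 1765725719143) (nat_lit 76) (nat_lit 1764618625746) (nat_lit 1) (nat_lit 4) (nat_lit 2) (nat_lit 5) (nat_lit 2) (nat_lit 4) (nat_lit 366) (nat_lit 227) (nat_lit 187))) (XT.nd (nat_lit 78) (nat_lit 0) (nat_lit 0) (XT.lf (nat_lit 0) (nat_lit 676028799297) (nat_lit 76) (nat_lit 1906278639127) (nat_lit 76) (nat_lit 1905167588730) (nat_lit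 1) (nat_lit 4) (nat_lit 2) (nat_lit 5) (nat_lit 2) (nat_lit 4) (nat_lit 367) (nat_lit 227) (nat_lit 186)) (XT.lf (nat_lit 0) (nat_lit 731375816628) (nat_lit 76) (nat_lit 2058079486125) (nat_lit 76) (nat_lit 2056964771840) (nat_lit 1) (nat_lit 4) (nat_lit 2) (nat_lit 5) (nat_lit 2) (nat_lit 4) (nat_lit 368) (nat_lit 227) (nat_lit 185)))))) (XT.nd (nat_lit 546) (nat_lit 0) (nat_lit 0) (XT.nd (nat_lit 234) (nat_lit 0) (nat_lit 0) (XT.nd (nat_lit 78) (nat_lit 76) (nat_lit 0) (XT.lf (nat_lit 0) (nat_lit 39819847706) (nat_lit 152) (nat_lit 2991303124) (nat_lit 0) (nat_lit 39819847706) (nat_lit 2) (nat_lit 5) (nat_lit 4) (nat_lit 4) (nat_lit 2) (nat_lit 4) (nat_lit 324) (nat_lit 228) (nat_lit 228)) (XT.nd (nat_lit 78) (nat_lit 76) (nat_lit 0) (XT.lf (nat_lit 0) (nat_lit 87737808633) (nat_lit 152) (nat_lit 2952643541) (nat_lit 0) (nat_lit 87644967602) (nat_lit 2) (nat_lit 5) (nat_lit 4) (nat_lit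 4) (nat_lit 2) (nat_lit 4) (nat_lit 325) (nat_lit 228) (nat_lit 227)) (XT.lf (nat_lit 0) (nat_lit 156474074) (nat_lit 76) (nat_lit 96241969835) (nat_lit 76) (nat_lit 96063164886) (nat_lit 1) (nat_lit 4) (nat_lit 2) (nat_lit 5) (nat_lit 2) (nat_lit 4) (nat_lit 326) (nat_lit 228) (nat_lit 226)))) (XT.nd (nat_lit 156) (nat_lit 0) (nat_lit 0) (XT.nd (nat_lit 78) (nat_lit 0) (nat_lit 0) (XT.lf (nat_lit 0) (nat_lit 3515501853) (nat_lit 76) (nat_lit 102230657657) (nat_lit 76) (nat_lit 101972256488) (nat_lit 1) (nat_lit 4) (nat_lit 2) (nat_lit 5) (nat_lit 2) (nat_lit 4) (nat_lit 327) (nat_lit 228) (nat_lit 225)) (XT.lf (nat_lit 0) (nat_lit 6988864168) (nat_lit 76) (nat_lit 108772734670) (nat_lit 76) (nat_lit 108440633297) (nat_lit 1) (nat_lit 4) (nat_lit 2) (nat_lit 5) (nat_lit 2) (nat_lit 4) (nat_lit 328) (nat_lit 228) (nat_lit 224))) (XT.nd (nat_lit 78) (nat_lit 0) (nat_lit 0) (XT.lf (nat_lit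 0) (nat_lit 10597143908) (nat_lit 76) (nat_lit 115906968737) (nat_lit 76) (nat_lit 115506626435) (nat_lit 1) (nat_lit 4) (nat_lit 2) (nat_lit 5) (nat_lit 2) (nat_lit 4) (nat_lit 329) (nat_lit 228) (nat_lit 223)) (XT.lf (nat_lit 0) (nat_lit 14361723470) (nat_lit 76) (nat_lit 123675636800) (nat_lit 76) (nat_lit 123212108452) (nat_lit 1) (nat_lit 4) (nat_lit 2) (nat_lit 5) (nat_lit 2) (nat_lit 4) (nat_lit 330) (nat_lit 228) (nat_lit 222))))) (XT.nd (nat_lit 312) (nat_lit 0) (nat_lit 0) (XT.nd (nat_lit 156) (nat_lit 0) (nat_lit 0) (XT.nd (nat_lit 78) (nat_lit 0) (nat_lit 0) (XT.lf (nat_lit 0) (nat_lit 18304911475) (nat_lit 76) (nat_lit 132124775412) (nat_lit 76) (nat_lit 131602741466) (nat_lit 1) (nat_lit 4) (nat_lit 2) (nat_lit 5) (nat_lit 2) (nat_lit 4) (nat_lit 331) (nat_lit 228) (nat_lit 221)) (XT.lf (nat_lit 0) (nat_lit 22450074962) (nat_lit 76) (nat_lit 141304453541) (nat_lit 76)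 (nat_lit 140728247745) (nat_lit 1) (nat_lit 4) (nat_lit 2) (nat_lit 5) (nat_lit 2) (nat_lit 4) (nat_lit 332) (nat_lit 228) (nat_lit 220))) (XT.nd (nat_lit 78) (nat_lit 0) (nat_lit 0) (XT.lf (nat_lit 0) (nat_lit 26821777863) (nat_lit 76) (nat_lit 151269069280) (nat_lit 76) (nat_lit 150642704364) (nat_lit 1) (nat_lit 4) (nat_lit 2) (nat_lit 5) (nat_lit 2) (nat_lit 4) (nat_lit 333) (nat_lit 228) (nat_lit 219)) (XT.lf (nat_lit 0) (nat_lit 31445926566) (nat_lit 76) (nat_lit 162077672204) (nat_lit 76) (nat_lit 161404863659) (nat_lit 1) (nat_lit 4) (nat_lit 2) (nat_lit 5) (nat_lit 2) (nat_lit 4) (nat_lit 334) (nat_lit 228) (nat_lit 218)))) (XT.nd (nat_lit 156) (nat_lit 0) (nat_lit 0) (XT.nd (nat_lit 78) (nat_lit 0) (nat_lit 0) (XT.lf (nat_lit 0) (nat_lit 36349923434) (nat_lit 76) (nat_lit 173794313294) (nat_lit 76) (nat_lit 173078501387) (nat_lit 1) (nat_lit 4) (nat_lit 2) (nat_lit 5) (nat_lit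 2) (nat_lit 4) (nat_lit 335) (nat_lit 228) (nat_lit 217)) (XT.lf (nat_lit 0) (nat_lit 41562829188) (nat_lit 76) (nat_lit 186488424496) (nat_lit 76) (nat_lit 185732794663) (nat_lit 1) (nat_lit 4) (nat_lit 2) (nat_lit 5) (nat_lit 2) (nat_lit 4) (nat_lit 336) (nat_lit 228) (nat_lit 216))) (XT.nd (nat_lit 78) (nat_lit 0) (nat_lit 0) (XT.lf (nat_lit 0) (nat_lit 47115535122) (nat_lit 76) (nat_lit 200235230174) (nat_lit 76) (nat_lit 199442731889) (nat_lit 1) (nat_lit 4) (nat_lit 2) (nat_lit 5) (nat_lit 2) (nat_lit 4) (nat_lit 337) (nat_lit 228) (nat_lit 215)) (XT.lf (nat_lit 0) (nat_lit 53040946160) (nat_lit 76) (nat_lit 215116192879) (nat_lit 76) (nat_lit 214289557140) (nat_lit 1) (nat_lit 4) (nat_lit 2) (nat_lit 5) (nat_lit 2) (nat_lit 4) (nat_lit 338) (nat_lit 228) (nat_lit 214))))))) (XT.nd (nat_lit 1092) (nat_lit 0) (nat_lit 0) (XT.nd (nat_lit 546) (nat_lit 0) (nat_lit 0) (XT.nd (nat_lit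 234) (nat_lit 0) (nat_lit 0) (XT.nd (nat_lit 78) (nat_lit 0) (nat_lit 0) (XT.lf (nat_lit 0) (nat_lit 59374175849) (nat_lit 76) (nat_lit 231219496093) (nat_lit 76) (nat_lit 230361251600) (nat_lit 1) (nat_lit 4) (nat_lit 2) (nat_lit 5) (nat_lit 2) (nat_lit 4) (nat_lit 339) (nat_lit 228) (nat_lit 213)) (XT.nd (nat_lit 78) (nat_lit 0) (nat_lit 0) (XT.lf (nat_lit 0) (nat_lit 66152754438) (nat_lit 76) (nat_lit 248640566800) (nat_lit 76) (nat_lit 247753054942) (nat_lit 1) (nat_lit 4) (nat_lit 2) (nat_lit 5) (nat_lit 2) (nat_lit 4) (nat_lit 340) (nat_lit 228) (nat_lit 212)) (XT.lf (nat_lit 0) (nat_lit 73416851284) (nat_lit 76) (nat_lit 267482640974) (nat_lit 76) (nat_lit 266568029704) (nat_lit 1) (nat_lit 4) (nat_lit 2) (nat_lit 5) (nat_lit 2) (nat_lit 4) (nat_lit 341) (nat_lit 228) (nat_lit 211)))) (XT.nd (nat_lit 156) (nat_lit 0) (nat_lit 0) (XT.nd (nat_lit 78) (nat_lit 0) (nat_lit 0) (XT.lf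 (nat_lit 0) (nat_lit 81209512885) (nat_lit 76) (nat_lit 287857375350) (nat_lit 76) (nat_lit 286917672031) (nat_lit 1) (nat_lit 4) (nat_lit 2) (nat_lit 5) (nat_lit 2) (nat_lit 4) (nat_lit 342) (nat_lit 228) (nat_lit 210)) (XT.lf (nat_lit 0) (nat_lit 89576917976) (nat_lit 76) (nat_lit 309885509095) (nat_lit 76) (nat_lit 308922572399) (nat_lit 1) (nat_lit 4) (nat_lit 2) (nat_lit 5) (nat_lit 2) (nat_lit 4) (nat_lit 343) (nat_lit 228) (nat_lit 209))) (XT.nd (nat_lit 78) (nat_lit 0) (nat_lit 0) (XT.lf (nat_lit 0) (nat_lit 98568651181) (nat_lit 76) (nat_lit 333697579298) (nat_lit 76) (nat_lit 332713130215) (nat_lit 1) (nat_lit 4) (nat_lit 2) (nat_lit 5) (nat_lit 2) (nat_lit 4) (nat_lit 344) (nat_lit 228) (nat_lit 208)) (XT.lf (nat_lit 0) (nat_lit 108237996844) (nat_lit 76) (nat_lit 359434694523) (nat_lit 76) (nat_lit 358430326563) (nat_lit 1) (nat_lit 4) (nat_lit 2) (nat_lit 5) (nat_lit 2)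 (nat_lit 4) (nat_lit 345) (nat_lit 228) (nat_lit 207))))) (XT.nd (nat_lit 234) (nat_lit 0) (nat_lit 0) (XT.nd (nat_lit 78) (nat_lit 0) (nat_lit 0) (XT.lf (nat_lit 0) (nat_lit 118642254792) (nat_lit 76) (nat_lit 387249371009) (nat_lit 76) (nat_lit 386226559644) (nat_lit 1) (nat_lit 4) (nat_lit 2) (nat_lit 5) (nat_lit 2) (nat_lit 4) (nat_lit 346) (nat_lit 228) (nat_lit 206)) (XT.nd (nat_lit 78) (nat_lit 0) (nat_lit 0) (XT.lf (nat_lit 0) (nat_lit 129843079887) (nat_lit 76) (nat_lit 417306436467) (nat_lit 76) (nat_lit 416266547877) (nat_lit 1) (nat_lit 4) (nat_lit 2) (nat_lit 5) (nat_lit 2) (nat_lit 4) (nat_lit 347) (nat_lit 228) (nat_lit 205)) (XT.lf (nat_lit 0) (nat_lit 141906847388) (nat_lit 76) (nat_lit 449784006843) (nat_lit 76) (nat_lit 448728306005) (nat_lit 1) (nat_lit 4) (nat_lit 2) (nat_lit 5) (nat_lit 2) (nat_lit 4) (nat_lit 348) (nat_lit 228) (nat_lit 204)))) (XT.nd (nat_lit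 156) (nat_lit 0) (nat_lit 0) (XT.nd (nat_lit 78) (nat_lit 0) (nat_lit 0) (XT.lf (nat_lit 0) (nat_lit 154905046288) (nat_lit 76) (nat_lit 484874541811) (nat_lit 76) (nat_lit 483804200004) (nat_lit 1) (nat_lit 4) (nat_lit 2) (nat_lit 5) (nat_lit 2) (nat_lit 4) (nat_lit 349) (nat_lit 228) (nat_lit 203)) (XT.lf (nat_lit 0) (nat_lit 168914702950) (nat_lit 76) (nat_lit 522785985282) (nat_lit 76) (nat_lit 521702087023) (nat_lit 1) (nat_lit 4) (nat_lit 2) (nat_lit 5) (nat_lit 2) (nat_lit 4) (nat_lit 350) (nat_lit 228) (nat_lit 202))) (XT.nd (nat_lit 78) (nat_lit 0) (nat_lit 0) (XT.lf (nat_lit 0) (nat_lit 184018837563) (nat_lit 76) (nat_lit 563742997664) (nat_lit 76) (nat_lit 562646547133) (nat_lit 1) (nat_lit 4) (nat_lit 2) (nat_lit 5) (nat_lit 2) (nat_lit 4) (nat_lit 351) (nat_lit 228) (nat_lit 201)) (XT.lf (nat_lit 0) (nat_lit 200306956109) (nat_lit 76) (nat_lit 607988287176) (nat_lit 76)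 (nat_lit 606880214172) (nat_lit 1) (nat_lit 4) (nat_lit 2) (nat_lit 5) (nat_lit 2) (nat_lit 4) (nat_lit 352) (nat_lit 228) (nat_lit 200)))))) (XT.nd (nat_lit 546) (nat_lit 0) (nat_lit 0) (XT.nd (nat_lit 234) (nat_lit 0) (nat_lit 0) (XT.nd (nat_lit 78) (nat_lit 0) (nat_lit 0) (XT.lf (nat_lit 0) (nat_lit 217875580773) (nat_lit 76) (nat_lit 655784048127) (nat_lit 76) (nat_lit 654665213574) (nat_lit 1) (nat_lit 4) (nat_lit 2) (nat_lit 5) (nat_lit 2) (nat_lit 4) (nat_lit 353) (nat_lit 228) (nat_lit 199)) (XT.nd (nat_lit 78) (nat_lit 0) (nat_lit 0) (XT.lf (nat_lit 0) (nat_lit 236828821922) (nat_lit 76) (nat_lit 707413514657) (nat_lit 76) (nat_lit 706284715706) (nat_lit 1) (nat_lit 4) (nat_lit 2) (nat_lit 5) (nat_lit 2) (nat_lit 4) (nat_lit 354) (nat_lit 228) (nat_lit 198)) (XT.lf (nat_lit 0) (nat_lit 257278995060) (nat_lit 76) (nat_lit 763182639159) (nat_lit 76) (nat_lit 762044613914) (nat_lit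 1) (nat_lit 4) (nat_lit 2) (nat_lit 5) (nat_lit 2) (nat_lit 4) (nat_lit 355) (nat_lit 228) (nat_lit 197)))) (XT.nd (nat_lit 156) (nat_lit 0) (nat_lit 0) (XT.nd (nat_lit 78) (nat_lit 0) (nat_lit 0) (XT.lf (nat_lit 0) (nat_lit 279347286398) (nat_lit 76) (nat_lit 823421905334) (nat_lit 76) (nat_lit 822275337225) (nat_lit 1) (nat_lit 4) (nat_lit 2) (nat_lit 5) (nat_lit 2) (nat_lit 4) (nat_lit 356) (nat_lit 228) (nat_lit 196)) (XT.lf (nat_lit 0) (nat_lit 303164470995) (nat_lit 76) (nat_lit 888488286612) (nat_lit 76) (nat_lit 887333808442) (nat_lit 1) (nat_lit 4) (nat_lit 2) (nat_lit 5) (nat_lit 2) (nat_lit 4) (nat_lit 357) (nat_lit 228) (nat_lit 195))) (XT.nd (nat_lit 78) (nat_lit 0) (nat_lit 0) (XT.lf (nat_lit 0) (nat_lit 328871687724) (nat_lit 76) (nat_lit 958767361547) (nat_lit 76) (nat_lit 957605559248) (nat_lit 1) (nat_lit 4) (nat_lit 2) (nat_lit 5) (nat_lit 2) (nat_lit 4) (nat_lit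 358) (nat_lit 228) (nat_lit 194)) (XT.lf (nat_lit 0) (nat_lit 356621275647) (nat_lit 76) (nat_lit 1034675598733) (nat_lit 76) (nat_lit 1033507014833) (nat_lit 1) (nat_lit 4) (nat_lit 2) (nat_lit 5) (nat_lit 2) (nat_lit 4) (nat_lit 359) (nat_lit 228) (nat_lit 193))))) (XT.nd (nat_lit 312) (nat_lit 0) (nat_lit 0) (XT.nd (nat_lit 156) (nat_lit 0) (nat_lit 0) (XT.nd (nat_lit 78) (nat_lit 0) (nat_lit 0) (XT.lf (nat_lit 0) (nat_lit 386577676765) (nat_lit 76) (nat_lit 1116662824760) (nat_lit 76) (nat_lit 1115487961599) (nat_lit 1) (nat_lit 4) (nat_lit 2) (nat_lit 5) (nat_lit 2) (nat_lit 4) (nat_lit 360) (nat_lit 228) (nat_lit 192)) (XT.lf (nat_lit 0) (nat_lit 418918410494) (nat_lit 76) (nat_lit 1205214889857) (nat_lit 76) (nat_lit 1204034212565) (nat_lit 1) (nat_lit 4) (nat_lit 2) (nat_lit 5) (nat_lit 2) (nat_lit 4) (nat_lit 361) (nat_lit 228) (nat_lit 191))) (XT.nd (nat_lit 78) (nat_lit 0)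 (nat_lit 0) (XT.lf (nat_lit 0) (nat_lit 453835125625) (nat_lit 76) (nat_lit 1300856547001) (nat_lit 76) (nat_lit 1299670486255) (nat_lit 1) (nat_lit 4) (nat_lit 2) (nat_lit 5) (nat_lit 2) (nat_lit 4) (nat_lit 362) (nat_lit 228) (nat_lit 190)) (XT.lf (nat_lit 0) (nat_lit 491534736026) (nat_lit 76) (nat_lit 1404154561568) (nat_lit 76) (nat_lit 1402963516143) (nat_lit 1) (nat_lit 4) (nat_lit 2) (nat_lit 5) (nat_lit 2) (nat_lit 4) (nat_lit 363) (nat_lit 228) (nat_lit 189)))) (XT.nd (nat_lit 156) (nat_lit 0) (nat_lit 0) (XT.nd (nat_lit 78) (nat_lit 0) (nat_lit 0) (XT.lf (nat_lit 0) (nat_lit 532240646796) (nat_lit 76) (nat_lit 1515721069942) (nat_lit 76) (nat_lit 1514525409073) (nat_lit 1) (nat_lit 4) (nat_lit 2) (nat_lit 5) (nat_lit 2) (nat_lit 4) (nat_lit 364) (nat_lit 228) (nat_lit 188)) (XT.lf (nat_lit 0) (nat_lit 576194078146) (nat_lit 76) (nat_lit 1636217206985) (nat_lit 76) (nat_lit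 1635017272557) (nat_lit 1) (nat_lit 4) (nat_lit 2) (nat_lit 5) (nat_lit 2) (nat_lit 4) (nat_lit 365) (nat_lit 228) (nat_lit 187))) (XT.nd (nat_lit 78) (nat_lit 0) (nat_lit 0) (XT.lf (nat_lit 0) (nat_lit 623655494855) (nat_lit 76) (nat_lit 1766357023882) (nat_lit 76) (nat_lit 1765153132455) (nat_lit 1) (nat_lit 4) (nat_lit 2) (nat_lit 5) (nat_lit 2) (nat_lit 4) (nat_lit 366) (nat_lit 228) (nat_lit 186)) (XT.lf (nat_lit 0) (nat_lit 674906149763) (nat_lit 76) (nat_lit 1906911719547) (nat_lit 76) (nat_lit 1905704164231) (nat_lit 1) (nat_lit 4) (nat_lit 2) (nat_lit 5) (nat_lit 2) (nat_lit 4) (nat_lit 367) (nat_lit 228) (nat_lit 185))))))))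
noncomputable def xc9 : XT := (XT.nd (nat_lit 39234) (nat_lit 0) (nat_lit 0) (XT.nd (nat_lit 38064) (nat_lit 0) (nat_lit 0) (XT.nd (nat_lit 37518) (nat_lit 0) (nat_lit 0) (XT.nd (nat_lit 37206) (nat_lit 0) (nat_lit 0) (XT.nd (nat_lit 37050) (nat_lit 0) (nat_lit 76) (XT.lf (nat_lit 0) (nat_lit 730249750455) (nat_lit 76) (nat_lit 2058714210694) (nat_lit 76) (nat_lit 2057503262889) (nat_lit 1) (nat_lit 4) (nat_lit 2) (nat_lit 5) (nat_lit 2) (nat_lit 4) (nat_lit 368) (nat_lit 228) (nat_lit 184)) (XT.nd (nat_lit 78) (nat_lit 0) (nat_lit 0) (XT.lf (nat_lit 0) (nat_lit 32540522195) (nat_lit 152) (nat_lit 5902061924) (nat_lit 0) (nat_lit 32540522195) (nat_lit 2) (nat_lit 5) (nat_lit 4) (nat_lit 4) (nat_lit 2) (nat_lit 4) (nat_lit 322) (nat_lit 229) (nat_lit 229)) (XT.lf (nat_lit 0) (nat_lit 72152620536) (nat_lit 152) (nat_lit 8959196851) (nat_lit 0) (nat_lit 72052352223) (nat_lit 2) (nat_lit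 5) (nat_lit 4) (nat_lit 4) (nat_lit 2) (nat_lit 4) (nat_lit 323) (nat_lit 229) (nat_lit 228)))) (XT.nd (nat_lit 156) (nat_lit 76) (nat_lit 0) (XT.nd (nat_lit 78) (nat_lit 0) (nat_lit 0) (XT.lf (nat_lit 0) (nat_lit 79693705349) (nat_lit 152) (nat_lit 6071430837) (nat_lit 0) (nat_lit 79500596004) (nat_lit 2) (nat_lit 5) (nat_lit 4) (nat_lit 4) (nat_lit 2) (nat_lit 4) (nat_lit 324) (nat_lit 229) (nat_lit 227)) (XT.lf (nat_lit 0) (nat_lit 87748986739) (nat_lit 152) (nat_lit 3123713117) (nat_lit 0) (nat_lit 87469913477) (nat_lit 2) (nat_lit 5) (nat_lit 4) (nat_lit 4) (nat_lit 2) (nat_lit 4) (nat_lit 325) (nat_lit 229) (nat_lit 226))) (XT.nd (nat_lit 78) (nat_lit 76) (nat_lit 0) (XT.lf (nat_lit 0) (nat_lit 96366199707) (nat_lit 152) (nat_lit 98575735) (nat_lit 0) (nat_lit 96007530224) (nat_lit 2) (nat_lit 5) (nat_lit 4) (nat_lit 4) (nat_lit 2) (nat_lit 4) (nat_lit 326) (nat_lit 229) (nat_lit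 225)) (XT.lf (nat_lit 0) (nat_lit 3181036370) (nat_lit 76) (nat_lit 102491876849) (nat_lit 76) (nat_lit 102059507162) (nat_lit 1) (nat_lit 4) (nat_lit 2) (nat_lit 5) (nat_lit 2) (nat_lit 4) (nat_lit 327) (nat_lit 229) (nat_lit 224))))) (XT.nd (nat_lit 234) (nat_lit 0) (nat_lit 0) (XT.nd (nat_lit 78) (nat_lit 0) (nat_lit 0) (XT.lf (nat_lit 0) (nat_lit 6585671973) (nat_lit 76) (nat_lit 109067026406) (nat_lit 76) (nat_lit 108566415790) (nat_lit 1) (nat_lit 4) (nat_lit 2) (nat_lit 5) (nat_lit 2) (nat_lit 4) (nat_lit 328) (nat_lit 229) (nat_lit 223)) (XT.nd (nat_lit 78) (nat_lit 0) (nat_lit 0) (XT.lf (nat_lit 0) (nat_lit 10130315869) (nat_lit 76) (nat_lit 116231883199) (nat_lit 76) (nat_lit 115668086538) (nat_lit 1) (nat_lit 4) (nat_lit 2) (nat_lit 5) (nat_lit 2) (nat_lit 4) (nat_lit 329) (nat_lit 229) (nat_lit 222)) (XT.lf (nat_lit 0) (nat_lit 13835973353) (nat_lit 76) (nat_lit 124028905639)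 (nat_lit 76) (nat_lit 123406603380) (nat_lit 1) (nat_lit 4) (nat_lit 2) (nat_lit 5) (nat_lit 2) (nat_lit 4) (nat_lit 330) (nat_lit 229) (nat_lit 221)))) (XT.nd (nat_lit 156) (nat_lit 0) (nat_lit 0) (XT.nd (nat_lit 78) (nat_lit 0) (nat_lit 0) (XT.lf (nat_lit 0) (nat_lit 17724603878) (nat_lit 76) (nat_lit 132504298303) (nat_lit 76) (nat_lit 131827824194) (nat_lit 1) (nat_lit 4) (nat_lit 2) (nat_lit 5) (nat_lit 2) (nat_lit 4) (nat_lit 331) (nat_lit 229) (nat_lit 220)) (XT.lf (nat_lit 0) (nat_lit 21819251180) (nat_lit 76) (nat_lit 141708285740) (nat_lit 76) (nat_lit 140981652510) (nat_lit 1) (nat_lit 4) (nat_lit 2) (nat_lit 5) (nat_lit 2) (nat_lit 4) (nat_lit 332) (nat_lit 229) (nat_lit 219))) (XT.nd (nat_lit 78) (nat_lit 0) (nat_lit 0) (XT.lf (nat_lit 0) (nat_lit 26144179836) (nat_lit 76) (nat_lit 151695410097) (nat_lit 76) (nat_lit 150922333238) (nat_lit 1) (nat_lit 4) (nat_lit 2) (nat_lit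 5) (nat_lit 2) (nat_lit 4) (nat_lit 333) (nat_lit 229) (nat_lit 218)) (XT.lf (nat_lit 0) (nat_lit 30725019052) (nat_lit 76) (nat_lit 162524854335) (nat_lit 76) (nat_lit 161708774114) (nat_lit 1) (nat_lit 4) (nat_lit 2) (nat_lit 5) (nat_lit 2) (nat_lit 4) (nat_lit 334) (nat_lit 229) (nat_lit 217)))))) (XT.nd (nat_lit 546) (nat_lit 0) (nat_lit 0) (XT.nd (nat_lit 234) (nat_lit 0) (nat_lit 0) (XT.nd (nat_lit 78) (nat_lit 0) (nat_lit 0) (XT.lf (nat_lit 0) (nat_lit 35588914543) (nat_lit 76) (nat_lit 174260792937) (nat_lit 76) (nat_lit 173404894789) (nat_lit 1) (nat_lit 4) (nat_lit 2) (nat_lit 5) (nat_lit 2) (nat_lit 4) (nat_lit 335) (nat_lit 229) (nat_lit 216)) (XT.nd (nat_lit 78) (nat_lit 0) (nat_lit 0) (XT.lf (nat_lit 0) (nat_lit 40764689394) (nat_lit 76) (nat_lit 186972772206) (nat_lit 76) (nat_lit 186080005608) (nat_lit 1) (nat_lit 4) (nat_lit 2) (nat_lit 5) (nat_lit 2) (nat_lit 4) (nat_lit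 336) (nat_lit 229) (nat_lit 215)) (XT.lf (nat_lit 0) (nat_lit 46283014861) (nat_lit 76) (nat_lit 200736122389) (nat_lit 76) (nat_lit 199809218337) (nat_lit 1) (nat_lit 4) (nat_lit 2) (nat_lit 5) (nat_lit 2) (nat_lit 4) (nat_lit 337) (nat_lit 229) (nat_lit 214)))) (XT.nd (nat_lit 156) (nat_lit 0) (nat_lit 0) (XT.nd (nat_lit 78) (nat_lit 0) (nat_lit 0) (XT.lf (nat_lit 0) (nat_lit 52176592133) (nat_lit 76) (nat_lit 215632404082) (nat_lit 76) (nat_lit 214673891275) (nat_lit 1) (nat_lit 4) (nat_lit 2) (nat_lit 5) (nat_lit 2) (nat_lit 4) (nat_lit 338) (nat_lit 229) (nat_lit 213)) (XT.lf (nat_lit 0) (nat_lit 58480346114) (nat_lit 76) (nat_lit 231749891544) (nat_lit 76) (nat_lit 230762111372) (nat_lit 1) (nat_lit 4) (nat_lit 2) (nat_lit 5) (nat_lit 2) (nat_lit 4) (nat_lit 339) (nat_lit 229) (nat_lit 212))) (XT.nd (nat_lit 78) (nat_lit 0) (nat_lit 0) (XT.lf (nat_lit 0) (nat_lit 65231632381)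 (nat_lit 76) (nat_lit 249184095813) (nat_lit 76) (nat_lit 248169216230) (nat_lit 1) (nat_lit 4) (nat_lit 2) (nat_lit 5) (nat_lit 2) (nat_lit 4) (nat_lit 340) (nat_lit 229) (nat_lit 211)) (XT.lf (nat_lit 0) (nat_lit 72470458557) (nat_lit 76) (nat_lit 268038330693) (nat_lit 76) (nat_lit 266998359061) (nat_lit 1) (nat_lit 4) (nat_lit 2) (nat_lit 5) (nat_lit 2) (nat_lit 4) (nat_lit 341) (nat_lit 229) (nat_lit 210))))) (XT.nd (nat_lit 312) (nat_lit 0) (nat_lit 0) (XT.nd (nat_lit 156) (nat_lit 0) (nat_lit 0) (XT.nd (nat_lit 78) (nat_lit 0) (nat_lit 0) (XT.lf (nat_lit 0) (nat_lit 80239721389) (nat_lit 76) (nat_lit 288424324982) (nat_lit 76) (nat_lit 287361119972) (nat_lit 1) (nat_lit 4) (nat_lit 2) (nat_lit 5) (nat_lit 2) (nat_lit 4) (nat_lit 342) (nat_lit 229) (nat_lit 209)) (XT.lf (nat_lit 0) (nat_lit 88585460955) (nat_lit 76) (nat_lit 310462884572) (nat_lit 76) (nat_lit 309378167176) (nat_lit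 1) (nat_lit 4) (nat_lit 2) (nat_lit 5) (nat_lit 2) (nat_lit 4) (nat_lit 343) (nat_lit 229) (nat_lit 208))) (XT.nd (nat_lit 78) (nat_lit 0) (nat_lit 0) (XT.lf (nat_lit 0) (nat_lit 97557133488) (nat_lit 76) (nat_lit 334284608336) (nat_lit 76) (nat_lit 333179972062) (nat_lit 1) (nat_lit 4) (nat_lit 2) (nat_lit 5) (nat_lit 2) (nat_lit 4) (nat_lit 344) (nat_lit 229) (nat_lit 207)) (XT.lf (nat_lit 0) (nat_lit 107207904455) (nat_lit 76) (nat_lit 360030662043) (nat_lit 76) (nat_lit 358907582365) (nat_lit 1) (nat_lit 4) (nat_lit 2) (nat_lit 5) (nat_lit 2) (nat_lit 4) (nat_lit 345) (nat_lit 229) (nat_lit 206)))) (XT.nd (nat_lit 156) (nat_lit 0) (nat_lit 0) (XT.nd (nat_lit 78) (nat_lit 0) (nat_lit 0) (XT.lf (nat_lit 0) (nat_lit 117594963610) (nat_lit 76) (nat_lit 387853614901) (nat_lit 76) (nat_lit 386713457997) (nat_lit 1) (nat_lit 4) (nat_lit 2) (nat_lit 5) (nat_lit 2) (nat_lit 4) (nat_lit 346)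 (nat_lit 229) (nat_lit 205)) (XT.lf (nat_lit 0) (nat_lit 128779863896) (nat_lit 76) (nat_lit 417918343667) (nat_lit 76) (nat_lit 416762374516) (nat_lit 1) (nat_lit 4) (nat_lit 2) (nat_lit 5) (nat_lit 2) (nat_lit 4) (nat_lit 347) (nat_lit 229) (nat_lit 204))) (XT.nd (nat_lit 78) (nat_lit 0) (nat_lit 0) (XT.lf (nat_lit 0) (nat_lit 140828886204) (nat_lit 76) (nat_lit 450403009698) (nat_lit 76) (nat_lit 449232399578) (nat_lit 1) (nat_lit 4) (nat_lit 2) (nat_lit 5) (nat_lit 2) (nat_lit 4) (nat_lit 348) (nat_lit 229) (nat_lit 203)) (XT.lf (nat_lit 0) (nat_lit 153813432148) (nat_lit 76) (nat_lit 485500114717) (nat_lit 76) (nat_lit 484315948144) (nat_lit 1) (nat_lit 4) (nat_lit 2) (nat_lit 5) (nat_lit 2) (nat_lit 4) (nat_lit 349) (nat_lit 229) (nat_lit 202))))))) (XT.nd (nat_lit 1170) (nat_lit 0) (nat_lit 0) (XT.nd (nat_lit 546) (nat_lit 0) (nat_lit 0) (XT.nd (nat_lit 234) (nat_lit 0) (nat_lit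 0) (XT.nd (nat_lit 78) (nat_lit 0) (nat_lit 0) (XT.lf (nat_lit 0) (nat_lit 167810447184) (nat_lit 76) (nat_lit 523417641569) (nat_lit 76) (nat_lit 522220922725) (nat_lit 1) (nat_lit 4) (nat_lit 2) (nat_lit 5) (nat_lit 2) (nat_lit 4) (nat_lit 350) (nat_lit 229) (nat_lit 201)) (XT.nd (nat_lit 78) (nat_lit 0) (nat_lit 0) (XT.lf (nat_lit 0) (nat_lit 182902876587) (nat_lit 76) (nat_lit 564380286710) (nat_lit 76) (nat_lit 563171945393) (nat_lit 1) (nat_lit 4) (nat_lit 2) (nat_lit 5) (nat_lit 2) (nat_lit 4) (nat_lit 351) (nat_lit 229) (nat_lit 200)) (XT.lf (nat_lit 0) (nat_lit 199180156977) (nat_lit 76) (nat_lit 608630791741) (nat_lit 76) (nat_lit 607411688874) (nat_lit 1) (nat_lit 4) (nat_lit 2) (nat_lit 5) (nat_lit 2) (nat_lit 4) (nat_lit 352) (nat_lit 229) (nat_lit 199)))) (XT.nd (nat_lit 156) (nat_lit 0) (nat_lit 0) (XT.nd (nat_lit 78) (nat_lit 0) (nat_lit 0) (XT.lf (nat_lit 0) (nat_lit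 216738746310) (nat_lit 76) (nat_lit 656431381876) (nat_lit 76) (nat_lit 655202314612) (nat_lit 1) (nat_lit 4) (nat_lit 2) (nat_lit 5) (nat_lit 2) (nat_lit 4) (nat_lit 353) (nat_lit 229) (nat_lit 198)) (XT.lf (nat_lit 0) (nat_lit 235682695486) (nat_lit 76) (nat_lit 708065319872) (nat_lit 76) (nat_lit 706827026314) (nat_lit 1) (nat_lit 4) (nat_lit 2) (nat_lit 5) (nat_lit 2) (nat_lit 4) (nat_lit 354) (nat_lit 229) (nat_lit 197))) (XT.nd (nat_lit 78) (nat_lit 0) (nat_lit 0) (XT.lf (nat_lit 0) (nat_lit 256124264946) (nat_lit 76) (nat_lit 763838584621) (nat_lit 76) (nat_lit 762591748198) (nat_lit 1) (nat_lit 4) (nat_lit 2) (nat_lit 5) (nat_lit 2) (nat_lit 4) (nat_lit 355) (nat_lit 229) (nat_lit 196)) (XT.lf (nat_lit 0) (nat_lit 278184589915) (nat_lit 76) (nat_lit 824081684357) (nat_lit 76) (nat_lit 822826937875) (nat_lit 1) (nat_lit 4) (nat_lit 2) (nat_lit 5) (nat_lit 2) (nat_lit 4) (nat_lit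 356) (nat_lit 229) (nat_lit 195))))) (XT.nd (nat_lit 312) (nat_lit 0) (nat_lit 0) (XT.nd (nat_lit 156) (nat_lit 0) (nat_lit 0) (XT.nd (nat_lit 78) (nat_lit 0) (nat_lit 0) (XT.lf (nat_lit 0) (nat_lit 301994398245) (nat_lit 76) (nat_lit 889151615229) (nat_lit 76) (nat_lit 887889544617) (nat_lit 1) (nat_lit 4) (nat_lit 2) (nat_lit 5) (nat_lit 2) (nat_lit 4) (nat_lit 357) (nat_lit 229) (nat_lit 194)) (XT.lf (nat_lit 0) (nat_lit 327694785096) (nat_lit 76) (nat_lit 959433976826) (nat_lit 76) (nat_lit 958165124612) (nat_lit 1) (nat_lit 4) (nat_lit 2) (nat_lit 5) (nat_lit 2) (nat_lit 4) (nat_lit 358) (nat_lit 229) (nat_lit 193))) (XT.nd (nat_lit 78) (nat_lit 0) (nat_lit 0) (XT.lf (nat_lit 0) (nat_lit 355438049058) (nat_lit 76) (nat_lit 1035345257217) (nat_lit 76) (nat_lit 1034070125742) (nat_lit 1) (nat_lit 4) (nat_lit 2) (nat_lit 5) (nat_lit 2) (nat_lit 4) (nat_lit 359) (nat_lit 229) (nat_lit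 192)) (XT.lf (nat_lit 0) (nat_lit 385388594658) (nat_lit 76) (nat_lit 1117335301026) (nat_lit 76) (nat_lit 1116054355421) (nat_lit 1) (nat_lit 4) (nat_lit 2) (nat_lit 5) (nat_lit 2) (nat_lit 4) (nat_lit 360) (nat_lit 229) (nat_lit 191)))) (XT.nd (nat_lit 156) (nat_lit 0) (nat_lit 0) (XT.nd (nat_lit 78) (nat_lit 0) (nat_lit 0) (XT.lf (nat_lit 0) (nat_lit 417723906610) (nat_lit 76) (nat_lit 1205889975180) (nat_lit 76) (nat_lit 1204603646122) (nat_lit 1) (nat_lit 4) (nat_lit 2) (nat_lit 5) (nat_lit 2) (nat_lit 4) (nat_lit 361) (nat_lit 229) (nat_lit 190)) (XT.lf (nat_lit 0) (nat_lit 452635601577) (nat_lit 76) (nat_lit 1301534048119) (nat_lit 76) (nat_lit 1300242734380) (nat_lit 1) (nat_lit 4) (nat_lit 2) (nat_lit 5) (nat_lit 2) (nat_lit 4) (nat_lit 362) (nat_lit 229) (nat_lit 189))) (XT.nd (nat_lit 78) (nat_lit 0) (nat_lit 0) (XT.lf (nat_lit 0) (nat_lit 490330563679) (nat_lit 76) (nat_lit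 1404834299533) (nat_lit 76) (nat_lit 1403538370350) (nat_lit 1) (nat_lit 4) (nat_lit 2) (nat_lit 5) (nat_lit 2) (nat_lit 4) (nat_lit 363) (nat_lit 229) (nat_lit 188)) (XT.lf (nat_lit 0) (nat_lit 531032170467) (nat_lit 76) (nat_lit 1516402879060) (nat_lit 76) (nat_lit 1515102676318) (nat_lit 1) (nat_lit 4) (nat_lit 2) (nat_lit 5) (nat_lit 2) (nat_lit 4) (nat_lit 364) (nat_lit 229) (nat_lit 187)))))) (XT.nd (nat_lit 37362) (nat_lit 0) (nat_lit 0) (XT.nd (nat_lit 234) (nat_lit 0) (nat_lit 0) (XT.nd (nat_lit 78) (nat_lit 0) (nat_lit 0) (XT.lf (nat_lit 0) (nat_lit 574981616649) (nat_lit 76) (nat_lit 1636900933839) (nat_lit 76) (nat_lit 1635596774098) (nat_lit 1) (nat_lit 4) (nat_lit 2) (nat_lit 5) (nat_lit 2) (nat_lit 4) (nat_lit 365) (nat_lit 229) (nat_lit 186)) (XT.nd (nat_lit 78) (nat_lit 0) (nat_lit 0) (XT.lf (nat_lit 0) (nat_lit 622439343388) (nat_lit 76) (nat_lit 1767042526417) (nat_lit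 76) (nat_lit 1765734702787) (nat_lit 1) (nat_lit 4) (nat_lit 2) (nat_lit 5) (nat_lit 2) (nat_lit 4) (nat_lit 366) (nat_lit 229) (nat_lit 185)) (XT.lf (nat_lit 0) (nat_lit 673686581657) (nat_lit 76) (nat_lit 1907598866230) (nat_lit 76) (nat_lit 1906287650111) (nat_lit 1) (nat_lit 4) (nat_lit 2) (nat_lit 5) (nat_lit 2) (nat_lit 4) (nat_lit 367) (nat_lit 229) (nat_lit 184)))) (XT.nd (nat_lit 36972) (nat_lit 0) (nat_lit 76) (XT.nd (nat_lit 36894) (nat_lit 0) (nat_lit 76) (XT.lf (nat_lit 0) (nat_lit 729027018794) (nat_lit 76) (nat_lit 2059402879738) (nat_lit 76) (nat_lit 2058088522425) (nat_lit 1) (nat_lit 4) (nat_lit 2) (nat_lit 5) (nat_lit 2) (nat_lit 4) (nat_lit 368) (nat_lit 229) (nat_lit 183)) (XT.lf (nat_lit 0) (nat_lit 26171787524) (nat_lit 152) (nat_lit 8664568570) (nat_lit 0) (nat_lit 26171787524) (nat_lit 2) (nat_lit 5) (nat_lit 4) (nat_lit 4) (nat_lit 2) (nat_lit 4) (nat_lit 320)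 (nat_lit 230) (nat_lit 230))) (XT.nd (nat_lit 78) (nat_lit 0) (nat_lit 0) (XT.lf (nat_lit 0) (nat_lit 58545361054) (nat_lit 152) (nat_lit 14623070654) (nat_lit 0) (nat_lit 58437071275) (nat_lit 2) (nat_lit 5) (nat_lit 4) (nat_lit 4) (nat_lit 2) (nat_lit 4) (nat_lit 321) (nat_lit 230) (nat_lit 229)) (XT.lf (nat_lit 0) (nat_lit 65139375122) (nat_lit 152) (nat_lit 11900054403) (nat_lit 0) (nat_lit 64930817029) (nat_lit 2) (nat_lit 5) (nat_lit 4) (nat_lit 4) (nat_lit 2) (nat_lit 4) (nat_lit 322) (nat_lit 230) (nat_lit 228))))) (XT.nd (nat_lit 312) (nat_lit 76) (nat_lit 0) (XT.nd (nat_lit 156) (nat_lit 0) (nat_lit 0) (XT.nd (nat_lit 78) (nat_lit 0) (nat_lit 0) (XT.lf (nat_lit 0) (nat_lit 72164692890) (nat_lit 152) (nat_lit 9143951993) (nat_lit 0) (nat_lit 71863293767) (nat_lit 2) (nat_lit 5) (nat_lit 4) (nat_lit 4) (nat_lit 2) (nat_lit 4) (nat_lit 323) (nat_lit 230) (nat_lit 227)) (XT.lf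 (nat_lit 0) (nat_lit 79662945872) (nat_lit 152) (nat_lit 6338430967) (nat_lit 0) (nat_lit 79275582831) (nat_lit 2) (nat_lit 5) (nat_lit 4) (nat_lit 4) (nat_lit 2) (nat_lit 4) (nat_lit 324) (nat_lit 230) (nat_lit 226))) (XT.nd (nat_lit 78) (nat_lit 0) (nat_lit 0) (XT.lf (nat_lit 0) (nat_lit 87678568160) (nat_lit 152) (nat_lit 3466866015) (nat_lit 0) (nat_lit 87211608899) (nat_lit 2) (nat_lit 5) (nat_lit 4) (nat_lit 4) (nat_lit 2) (nat_lit 4) (nat_lit 325) (nat_lit 230) (nat_lit 225)) (XT.lf (nat_lit 0) (nat_lit 96259059736) (nat_lit 152) (nat_lit 512240454) (nat_lit 0) (nat_lit 95718400271) (nat_lit 2) (nat_lit 5) (nat_lit 4) (nat_lit 4) (nat_lit 2) (nat_lit 4) (nat_lit 326) (nat_lit 230) (nat_lit 224)))) (XT.nd (nat_lit 156) (nat_lit 0) (nat_lit 0) (XT.nd (nat_lit 78) (nat_lit 0) (nat_lit 0) (XT.lf (nat_lit 0) (nat_lit 2676862088) (nat_lit 76) (nat_lit 102842784468) (nat_lit 76) (nat_lit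 102233884074) (nat_lit 1) (nat_lit 4) (nat_lit 2) (nat_lit 5) (nat_lit 2) (nat_lit 4) (nat_lit 327) (nat_lit 230) (nat_lit 223)) (XT.lf (nat_lit 0) (nat_lit 6017861847) (nat_lit 76) (nat_lit 109448556752) (nat_lit 76) (nat_lit 108776470312) (nat_lit 1) (nat_lit 4) (nat_lit 2) (nat_lit 5) (nat_lit 2) (nat_lit 4) (nat_lit 328) (nat_lit 230) (nat_lit 222))) (XT.nd (nat_lit 78) (nat_lit 0) (nat_lit 0) (XT.lf (nat_lit 0) (nat_lit 9503583664) (nat_lit 76) (nat_lit 116641767922) (nat_lit 76) (nat_lit 115911175884) (nat_lit 1) (nat_lit 4) (nat_lit 2) (nat_lit 5) (nat_lit 2) (nat_lit 4) (nat_lit 329) (nat_lit 230) (nat_lit 221)) (XT.lf (nat_lit 0) (nat_lit 13154683668) (nat_lit 76) (nat_lit 124465044414) (nat_lit 76) (nat_lit 123680280526) (nat_lit 1) (nat_lit 4) (nat_lit 2) (nat_lit 5) (nat_lit 2) (nat_lit 4) (nat_lit 330) (nat_lit 230) (nat_lit 220))))))))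
noncomputable def xc10 : XT := (XT.nd (nat_lit 2262) (nat_lit 0) (nat_lit 0) (XT.nd (nat_lit 1092) (nat_lit 0) (nat_lit 0) (XT.nd (nat_lit 546) (nat_lit 0) (nat_lit 0) (XT.nd (nat_lit 234) (nat_lit 0) (nat_lit 0) (XT.nd (nat_lit 78) (nat_lit 0) (nat_lit 0) (XT.lf (nat_lit 0) (nat_lit 16992798008) (nat_lit 76) (nat_lit 132964746385) (nat_lit 76) (nat_lit 132129823377) (nat_lit 1) (nat_lit 4) (nat_lit 2) (nat_lit 5) (nat_lit 2) (nat_lit 4) (nat_lit 331) (nat_lit 230) (nat_lit 219)) (XT.nd (nat_lit 78) (nat_lit 0) (nat_lit 0) (XT.lf (nat_lit 0) (nat_lit 21040671065) (nat_lit 76) (nat_lit 142191242440) (nat_lit 76) (nat_lit 141309875802) (nat_lit 1) (nat_lit 4) (nat_lit 2) (nat_lit 5) (nat_lit 2) (nat_lit 4) (nat_lit 332) (nat_lit 230) (nat_lit 218)) (XT.lf (nat_lit 0) (nat_lit 25322290234) (nat_lit 76) (nat_lit 152199208111) (nat_lit 76) (nat_lit 151274838112) (nat_lit 1) (nat_lit 4) (nat_lit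 2) (nat_lit 5) (nat_lit 2) (nat_lit 4) (nat_lit 333) (nat_lit 230) (nat_lit 217)))) (XT.nd (nat_lit 156) (nat_lit 0) (nat_lit 0) (XT.nd (nat_lit 78) (nat_lit 0) (nat_lit 0) (XT.lf (nat_lit 0) (nat_lit 29863028075) (nat_lit 76) (nat_lit 163047949861) (nat_lit 76) (nat_lit 162083761935) (nat_lit 1) (nat_lit 4) (nat_lit 2) (nat_lit 5) (nat_lit 2) (nat_lit 4) (nat_lit 334) (nat_lit 230) (nat_lit 216)) (XT.lf (nat_lit 0) (nat_lit 34689792662) (nat_lit 76) (nat_lit 174801756530) (nat_lit 76) (nat_lit 173800700153) (nat_lit 1) (nat_lit 4) (nat_lit 2) (nat_lit 5) (nat_lit 2) (nat_lit 4) (nat_lit 335) (nat_lit 230) (nat_lit 215))) (XT.nd (nat_lit 78) (nat_lit 0) (nat_lit 0) (XT.lf (nat_lit 0) (nat_lit 39831187045) (nat_lit 76) (nat_lit 187530280305) (nat_lit 76) (nat_lit 186495086474) (nat_lit 1) (nat_lit 4) (nat_lit 2) (nat_lit 5) (nat_lit 2) (nat_lit 4) (nat_lit 336) (nat_lit 230) (nat_lit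 214)) (XT.lf (nat_lit 0) (nat_lit 45317678747) (nat_lit 76) (nat_lit 201308949476) (nat_lit 76) (nat_lit 200242146891) (nat_lit 1) (nat_lit 4) (nat_lit 2) (nat_lit 5) (nat_lit 2) (nat_lit 4) (nat_lit 337) (nat_lit 230) (nat_lit 213))))) (XT.nd (nat_lit 234) (nat_lit 0) (nat_lit 0) (XT.nd (nat_lit 78) (nat_lit 0) (nat_lit 0) (XT.lf (nat_lit 0) (nat_lit 51181780311) (nat_lit 76) (nat_lit 216219415416) (nat_lit 76) (nat_lit 215123345465) (nat_lit 1) (nat_lit 4) (nat_lit 2) (nat_lit 5) (nat_lit 2) (nat_lit 4) (nat_lit 338) (nat_lit 230) (nat_lit 212)) (XT.nd (nat_lit 78) (nat_lit 0) (nat_lit 0) (XT.lf (nat_lit 0) (nat_lit 57458241968) (nat_lit 76) (nat_lit 232350036441) (nat_lit 76) (nat_lit 231226867078) (nat_lit 1) (nat_lit 4) (nat_lit 2) (nat_lit 5) (nat_lit 2) (nat_lit 4) (nat_lit 339) (nat_lit 230) (nat_lit 211)) (XT.lf (nat_lit 0) (nat_lit 64184257566) (nat_lit 76) (nat_lit 249796401416)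 (nat_lit 76) (nat_lit 248648140006) (nat_lit 1) (nat_lit 4) (nat_lit 2) (nat_lit 5) (nat_lit 2) (nat_lit 4) (nat_lit 340) (nat_lit 230) (nat_lit 210)))) (XT.nd (nat_lit 156) (nat_lit 0) (nat_lit 0) (XT.nd (nat_lit 78) (nat_lit 0) (nat_lit 0) (XT.lf (nat_lit 0) (nat_lit 71399684974) (nat_lit 76) (nat_lit 268661896209) (nat_lit 76) (nat_lit 267490401420) (nat_lit 1) (nat_lit 4) (nat_lit 2) (nat_lit 5) (nat_lit 2) (nat_lit 4) (nat_lit 341) (nat_lit 230) (nat_lit 209)) (XT.lf (nat_lit 0) (nat_lit 79147282281) (nat_lit 76) (nat_lit 289058316343) (nat_lit 76) (nat_lit 287865309168) (nat_lit 1) (nat_lit 4) (nat_lit 2) (nat_lit 5) (nat_lit 2) (nat_lit 4) (nat_lit 342) (nat_lit 230) (nat_lit 208))) (XT.nd (nat_lit 78) (nat_lit 0) (nat_lit 0) (XT.lf (nat_lit 0) (nat_lit 87472961174) (nat_lit 76) (nat_lit 311106529494) (nat_lit 76) (nat_lit 309893603442) (nat_lit 1) (nat_lit 4) (nat_lit 2) (nat_lit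 5) (nat_lit 2) (nat_lit 4) (nat_lit 343) (nat_lit 230) (nat_lit 207)) (XT.lf (nat_lit 0) (nat_lit 96426059011) (nat_lit 76) (nat_lit 334937191739) (nat_lit 76) (nat_lit 333705822283) (nat_lit 1) (nat_lit 4) (nat_lit 2) (nat_lit 5) (nat_lit 2) (nat_lit 4) (nat_lit 344) (nat_lit 230) (nat_lit 206)))))) (XT.nd (nat_lit 546) (nat_lit 0) (nat_lit 0) (XT.nd (nat_lit 234) (nat_lit 0) (nat_lit 0) (XT.nd (nat_lit 78) (nat_lit 0) (nat_lit 0) (XT.lf (nat_lit 0) (nat_lit 106059631185) (nat_lit 76) (nat_lit 360691521819) (nat_lit 76) (nat_lit 359443075136) (nat_lit 1) (nat_lit 4) (nat_lit 2) (nat_lit 5) (nat_lit 2) (nat_lit 4) (nat_lit 345) (nat_lit 230) (nat_lit 205)) (XT.nd (nat_lit 78) (nat_lit 0) (nat_lit 0) (XT.lf (nat_lit 0) (nat_lit 116430765532) (nat_lit 76) (nat_lit 388522137984) (nat_lit 76) (nat_lit 387257879055) (nat_lit 1) (nat_lit 4) (nat_lit 2) (nat_lit 5) (nat_lit 2) (nat_lit 4)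 (nat_lit 346) (nat_lit 230) (nat_lit 204)) (XT.lf (nat_lit 0) (nat_lit 127600920625) (nat_lit 76) (nat_lit 418593962406) (nat_lit 76) (nat_lit 417315062507) (nat_lit 1) (nat_lit 4) (nat_lit 2) (nat_lit 5) (nat_lit 2) (nat_lit 4) (nat_lit 347) (nat_lit 230) (nat_lit 203)))) (XT.nd (nat_lit 156) (nat_lit 0) (nat_lit 0) (XT.nd (nat_lit 78) (nat_lit 0) (nat_lit 0) (XT.lf (nat_lit 0) (nat_lit 139636289977) (nat_lit 76) (nat_lit 451085198487) (nat_lit 76) (nat_lit 449792742136) (nat_lit 1) (nat_lit 4) (nat_lit 2) (nat_lit 5) (nat_lit 2) (nat_lit 4) (nat_lit 348) (nat_lit 230) (nat_lit 202)) (XT.lf (nat_lit 0) (nat_lit 152608194294) (nat_lit 76) (nat_lit 486188386887) (nat_lit 76) (nat_lit 484883378265) (nat_lit 1) (nat_lit 4) (nat_lit 2) (nat_lit 5) (nat_lit 2) (nat_lit 4) (nat_lit 349) (nat_lit 230) (nat_lit 201))) (XT.nd (nat_lit 78) (nat_lit 0) (nat_lit 0) (XT.lf (nat_lit 0) (nat_lit 166593504121)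 (nat_lit 76) (nat_lit 524111546499) (nat_lit 76) (nat_lit 522794915403) (nat_lit 1) (nat_lit 4) (nat_lit 2) (nat_lit 5) (nat_lit 2) (nat_lit 4) (nat_lit 350) (nat_lit 230) (nat_lit 200)) (XT.lf (nat_lit 0) (nat_lit 181675095367) (nat_lit 76) (nat_lit 565079407159) (nat_lit 76) (nat_lit 563752014514) (nat_lit 1) (nat_lit 4) (nat_lit 2) (nat_lit 5) (nat_lit 2) (nat_lit 4) (nat_lit 351) (nat_lit 230) (nat_lit 199))))) (XT.nd (nat_lit 312) (nat_lit 0) (nat_lit 0) (XT.nd (nat_lit 156) (nat_lit 0) (nat_lit 0) (XT.nd (nat_lit 78) (nat_lit 0) (nat_lit 0) (XT.lf (nat_lit 0) (nat_lit 197942340426) (nat_lit 76) (nat_lit 609334741373) (nat_lit 76) (nat_lit 607997384330) (nat_lit 1) (nat_lit 4) (nat_lit 2) (nat_lit 5) (nat_lit 2) (nat_lit 4) (nat_lit 352) (nat_lit 230) (nat_lit 198)) (XT.lf (nat_lit 0) (nat_lit 215491637786) (nat_lit 76) (nat_lit 657139802975) (nat_lit 76) (nat_lit 655793219638)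 (nat_lit 1) (nat_lit 4) (nat_lit 2) (nat_lit 5) (nat_lit 2) (nat_lit 4) (nat_lit 353) (nat_lit 230) (nat_lit 197))) (XT.nd (nat_lit 78) (nat_lit 0) (nat_lit 0) (XT.lf (nat_lit 0) (nat_lit 234426983284) (nat_lit 76) (nat_lit 708777881217) (nat_lit 76) (nat_lit 707422755016) (nat_lit 1) (nat_lit 4) (nat_lit 2) (nat_lit 5) (nat_lit 2) (nat_lit 4) (nat_lit 354) (nat_lit 230) (nat_lit 196)) (XT.lf (nat_lit 0) (nat_lit 254860586375) (nat_lit 76) (nat_lit 764554979528) (nat_lit 76) (nat_lit 763191943266) (nat_lit 1) (nat_lit 4) (nat_lit 2) (nat_lit 5) (nat_lit 2) (nat_lit 4) (nat_lit 355) (nat_lit 230) (nat_lit 195)))) (XT.nd (nat_lit 156) (nat_lit 0) (nat_lit 0) (XT.nd (nat_lit 78) (nat_lit 0) (nat_lit 0) (XT.lf (nat_lit 0) (nat_lit 276913535076) (nat_lit 76) (nat_lit 824801628859) (nat_lit 76) (nat_lit 823431268467) (nat_lit 1) (nat_lit 4) (nat_lit 2) (nat_lit 5) (nat_lit 2) (nat_lit 4)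 (nat_lit 356) (nat_lit 230) (nat_lit 194)) (XT.lf (nat_lit 0) (nat_lit 300716513529) (nat_lit 76) (nat_lit 889874846392) (nat_lit 76) (nat_lit 888497704399) (nat_lit 1) (nat_lit 4) (nat_lit 2) (nat_lit 5) (nat_lit 2) (nat_lit 4) (nat_lit 357) (nat_lit 230) (nat_lit 193))) (XT.nd (nat_lit 78) (nat_lit 0) (nat_lit 0) (XT.lf (nat_lit 0) (nat_lit 326410576420) (nat_lit 76) (nat_lit 960160251194) (nat_lit 76) (nat_lit 958776829940) (nat_lit 1) (nat_lit 4) (nat_lit 2) (nat_lit 5) (nat_lit 2) (nat_lit 4) (nat_lit 358) (nat_lit 230) (nat_lit 192)) (XT.lf (nat_lit 0) (nat_lit 354147984863) (nat_lit 76) (nat_lit 1036074349367) (nat_lit 76) (nat_lit 1034685113983) (nat_lit 1) (nat_lit 4) (nat_lit 2) (nat_lit 5) (nat_lit 2) (nat_lit 4) (nat_lit 359) (nat_lit 230) (nat_lit 191))))))) (XT.nd (nat_lit 37830) (nat_lit 0) (nat_lit 0) (XT.nd (nat_lit 546) (nat_lit 0) (nat_lit 0) (XT.nd (nat_lit 234)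 (nat_lit 0) (nat_lit 0) (XT.nd (nat_lit 78) (nat_lit 0) (nat_lit 0) (XT.lf (nat_lit 0) (nat_lit 384093108686) (nat_lit 76) (nat_lit 1118067002234) (nat_lit 76) (nat_lit 1116672383396) (nat_lit 1) (nat_lit 4) (nat_lit 2) (nat_lit 5) (nat_lit 2) (nat_lit 4) (nat_lit 360) (nat_lit 230) (nat_lit 190)) (XT.nd (nat_lit 78) (nat_lit 0) (nat_lit 0) (XT.lf (nat_lit 0) (nat_lit 416423400474) (nat_lit 76) (nat_lit 1206624092182) (nat_lit 76) (nat_lit 1205224488665) (nat_lit 1) (nat_lit 4) (nat_lit 2) (nat_lit 5) (nat_lit 2) (nat_lit 4) (nat_lit 361) (nat_lit 230) (nat_lit 189)) (XT.lf (nat_lit 0) (nat_lit 451330447142) (nat_lit 76) (nat_lit 1302270401967) (nat_lit 76) (nat_lit 1300866183005) (nat_lit 1) (nat_lit 4) (nat_lit 2) (nat_lit 5) (nat_lit 2) (nat_lit 4) (nat_lit 362) (nat_lit 230) (nat_lit 188)))) (XT.nd (nat_lit 156) (nat_lit 0) (nat_lit 0) (XT.nd (nat_lit 78) (nat_lit 0) (nat_lit 0)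 (XT.lf (nat_lit 0) (nat_lit 489021105262) (nat_lit 76) (nat_lit 1405572724535) (nat_lit 76) (nat_lit 1404164232014) (nat_lit 1) (nat_lit 4) (nat_lit 2) (nat_lit 5) (nat_lit 2) (nat_lit 4) (nat_lit 363) (nat_lit 230) (nat_lit 187)) (XT.lf (nat_lit 0) (nat_lit 529718726883) (nat_lit 76) (nat_lit 1517143221797) (nat_lit 76) (nat_lit 1515730772277) (nat_lit 1) (nat_lit 4) (nat_lit 2) (nat_lit 5) (nat_lit 2) (nat_lit 4) (nat_lit 364) (nat_lit 230) (nat_lit 186))) (XT.nd (nat_lit 78) (nat_lit 0) (nat_lit 0) (XT.lf (nat_lit 0) (nat_lit 573664483095) (nat_lit 76) (nat_lit 1637643052257) (nat_lit 76) (nat_lit 1636226938849) (nat_lit 1) (nat_lit 4) (nat_lit 2) (nat_lit 5) (nat_lit 2) (nat_lit 4) (nat_lit 365) (nat_lit 230) (nat_lit 185)) (XT.lf (nat_lit 0) (nat_lit 621118793195) (nat_lit 76) (nat_lit 1767786288984) (nat_lit 76) (nat_lit 1766366783086) (nat_lit 1) (nat_lit 4) (nat_lit 2) (nat_lit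 5) (nat_lit 2) (nat_lit 4) (nat_lit 366) (nat_lit 230) (nat_lit 184))))) (XT.nd (nat_lit 36972) (nat_lit 0) (nat_lit 76) (XT.nd (nat_lit 36816) (nat_lit 0) (nat_lit 76) (XT.nd (nat_lit 78) (nat_lit 0) (nat_lit 0) (XT.lf (nat_lit 0) (nat_lit 672362867909) (nat_lit 76) (nat_lit 1908344151157) (nat_lit 76) (nat_lit 1906921504066) (nat_lit 1) (nat_lit 4) (nat_lit 2) (nat_lit 5) (nat_lit 2) (nat_lit 4) (nat_lit 367) (nat_lit 230) (nat_lit 183)) (XT.lf (nat_lit 0) (nat_lit 727700375829) (nat_lit 76) (nat_lit 2060149574257) (nat_lit 76) (nat_lit 2058724018654) (nat_lit 1) (nat_lit 4) (nat_lit 2) (nat_lit 5) (nat_lit 2) (nat_lit 4) (nat_lit 368) (nat_lit 230) (nat_lit 182))) (XT.nd (nat_lit 78) (nat_lit 0) (nat_lit 0) (XT.lf (nat_lit 0) (nat_lit 20573506823) (nat_lit 152) (nat_lit 11321332900) (nat_lit 0) (nat_lit 20573506823) (nat_lit 2) (nat_lit 5) (nat_lit 4) (nat_lit 4) (nat_lit 2) (nat_lit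 4) (nat_lit 318) (nat_lit 231) (nat_lit 231)) (XT.lf (nat_lit 0) (nat_lit 46614218740) (nat_lit 152) (nat_lit 20034289810) (nat_lit 0) (nat_lit 46497265779) (nat_lit 2) (nat_lit 5) (nat_lit 4) (nat_lit 4) (nat_lit 2) (nat_lit 4) (nat_lit 319) (nat_lit 231) (nat_lit 230)))) (XT.nd (nat_lit 156) (nat_lit 0) (nat_lit 0) (XT.nd (nat_lit 78) (nat_lit 0) (nat_lit 0) (XT.lf (nat_lit 0) (nat_lit 52406572238) (nat_lit 152) (nat_lit 17432742139) (nat_lit 0) (nat_lit 52181329498) (nat_lit 2) (nat_lit 5) (nat_lit 4) (nat_lit 4) (nat_lit 2) (nat_lit 4) (nat_lit 320) (nat_lit 231) (nat_lit 229)) (XT.lf (nat_lit 0) (nat_lit 58558399196) (nat_lit 152) (nat_lit 14822606208) (nat_lit 0) (nat_lit 58232888143) (nat_lit 2) (nat_lit 5) (nat_lit 4) (nat_lit 4) (nat_lit 2) (nat_lit 4) (nat_lit 321) (nat_lit 231) (nat_lit 228))) (XT.nd (nat_lit 78) (nat_lit 0) (nat_lit 0) (XT.lf (nat_lit 0) (nat_lit 65106154887)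 (nat_lit 152) (nat_lit 12188414544) (nat_lit 0) (nat_lit 64687802802) (nat_lit 2) (nat_lit 5) (nat_lit 4) (nat_lit 4) (nat_lit 2) (nat_lit 4) (nat_lit 322) (nat_lit 231) (nat_lit 227)) (XT.lf (nat_lit 0) (nat_lit 72088640825) (nat_lit 152) (nat_lit 9514557123) (nat_lit 0) (nat_lit 71584324823) (nat_lit 2) (nat_lit 5) (nat_lit 4) (nat_lit 4) (nat_lit 2) (nat_lit 4) (nat_lit 323) (nat_lit 231) (nat_lit 226)))))) (XT.nd (nat_lit 546) (nat_lit 0) (nat_lit 0) (XT.nd (nat_lit 234) (nat_lit 76) (nat_lit 0) (XT.nd (nat_lit 78) (nat_lit 0) (nat_lit 0) (XT.lf (nat_lit 0) (nat_lit 79547234704) (nat_lit 152) (nat_lit 6785188864) (nat_lit 0) (nat_lit 78963322482) (nat_lit 2) (nat_lit 5) (nat_lit 4) (nat_lit 4) (nat_lit 2) (nat_lit 4) (nat_lit 324) (nat_lit 231) (nat_lit 225)) (XT.nd (nat_lit 78) (nat_lit 0) (nat_lit 0) (XT.lf (nat_lit 0) (nat_lit 87526135600) (nat_lit 152) (nat_lit 3984135733) (nat_lit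 0) (nat_lit 86868523174) (nat_lit 2) (nat_lit 5) (nat_lit 4) (nat_lit 4) (nat_lit 2) (nat_lit 4) (nat_lit 325) (nat_lit 231) (nat_lit 224)) (XT.lf (nat_lit 0) (nat_lit 96072625888) (nat_lit 152) (nat_lit 1094798896) (nat_lit 0) (nat_lit 95346772533) (nat_lit 2) (nat_lit 5) (nat_lit 4) (nat_lit 4) (nat_lit 2) (nat_lit 4) (nat_lit 326) (nat_lit 231) (nat_lit 223)))) (XT.nd (nat_lit 156) (nat_lit 0) (nat_lit 0) (XT.nd (nat_lit 78) (nat_lit 0) (nat_lit 0) (XT.lf (nat_lit 0) (nat_lit 1999991307) (nat_lit 76) (nat_lit 103285459969) (nat_lit 76) (nat_lit 102496420568) (nat_lit 1) (nat_lit 4) (nat_lit 2) (nat_lit 5) (nat_lit 2) (nat_lit 4) (nat_lit 327) (nat_lit 231) (nat_lit 222)) (XT.lf (nat_lit 0) (nat_lit 5282068988) (nat_lit 76) (nat_lit 109919586629) (nat_lit 76) (nat_lit 109072041630) (nat_lit 1) (nat_lit 4) (nat_lit 2) (nat_lit 5) (nat_lit 2) (nat_lit 4) (nat_lit 328) (nat_lit 231)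 (nat_lit 221))) (XT.nd (nat_lit 78) (nat_lit 0) (nat_lit 0) (XT.lf (nat_lit 0) (nat_lit 8713233325) (nat_lit 76) (nat_lit 117139051851) (nat_lit 76) (nat_lit 116237335002) (nat_lit 1) (nat_lit 4) (nat_lit 2) (nat_lit 5) (nat_lit 2) (nat_lit 4) (nat_lit 329) (nat_lit 231) (nat_lit 220)) (XT.lf (nat_lit 0) (nat_lit 12313817144) (nat_lit 76) (nat_lit 124986637651) (nat_lit 76) (nat_lit 124034761682) (nat_lit 1) (nat_lit 4) (nat_lit 2) (nat_lit 5) (nat_lit 2) (nat_lit 4) (nat_lit 330) (nat_lit 231) (nat_lit 219))))) (XT.nd (nat_lit 312) (nat_lit 0) (nat_lit 0) (XT.nd (nat_lit 156) (nat_lit 0) (nat_lit 0) (XT.nd (nat_lit 78) (nat_lit 0) (nat_lit 0) (XT.lf (nat_lit 0) (nat_lit 16105157239) (nat_lit 76) (nat_lit 133508848241) (nat_lit 76) (nat_lit 132510528642) (nat_lit 1) (nat_lit 4) (nat_lit 2) (nat_lit 5) (nat_lit 2) (nat_lit 4) (nat_lit 331) (nat_lit 231) (nat_lit 218)) (XT.lf (nat_lit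 0) (nat_lit 20109720809) (nat_lit 76) (nat_lit 142756185609) (nat_lit 76) (nat_lit 141714862649) (nat_lit 1) (nat_lit 4) (nat_lit 2) (nat_lit 5) (nat_lit 2) (nat_lit 4) (nat_lit 332) (nat_lit 231) (nat_lit 217))) (XT.nd (nat_lit 78) (nat_lit 0) (nat_lit 0) (XT.lf (nat_lit 0) (nat_lit 24351238602) (nat_lit 76) (nat_lit 152783448792) (nat_lit 76) (nat_lit 151702307905) (nat_lit 1) (nat_lit 4) (nat_lit 2) (nat_lit 5) (nat_lit 2) (nat_lit 4) (nat_lit 333) (nat_lit 231) (nat_lit 216)) (XT.lf (nat_lit 0) (nat_lit 28854845538) (nat_lit 76) (nat_lit 163650058608) (nat_lit 76) (nat_lit 162532049270) (nat_lit 1) (nat_lit 4) (nat_lit 2) (nat_lit 5) (nat_lit 2) (nat_lit 4) (nat_lit 334) (nat_lit 231) (nat_lit 215)))) (XT.nd (nat_lit 156) (nat_lit 0) (nat_lit 0) (XT.nd (nat_lit 78) (nat_lit 0) (nat_lit 0) (XT.lf (nat_lit 0) (nat_lit 33647229659) (nat_lit 76) (nat_lit 175420409783) (nat_lit 76) (nat_lit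 174268262991) (nat_lit 1) (nat_lit 4) (nat_lit 2) (nat_lit 5) (nat_lit 2) (nat_lit 4) (nat_lit 335) (nat_lit 231) (nat_lit 214)) (XT.lf (nat_lit 0) (nat_lit 38756790277) (nat_lit 76) (nat_lit 188164252546) (nat_lit 76) (nat_lit 186980497000) (nat_lit 1) (nat_lit 4) (nat_lit 2) (nat_lit 5) (nat_lit 2) (nat_lit 4) (nat_lit 336) (nat_lit 231) (nat_lit 213))) (XT.nd (nat_lit 78) (nat_lit 0) (nat_lit 0) (XT.lf (nat_lit 0) (nat_lit 44213806270) (nat_lit 76) (nat_lit 201957105965) (nat_lit 76) (nat_lit 200744083053) (nat_lit 1) (nat_lit 4) (nat_lit 2) (nat_lit 5) (nat_lit 2) (nat_lit 4) (nat_lit 337) (nat_lit 231) (nat_lit 212)) (XT.lf (nat_lit 0) (nat_lit 50050615511) (nat_lit 76) (nat_lit 216880705467) (nat_lit 76) (nat_lit 215640583143) (nat_lit 1) (nat_lit 4) (nat_lit 2) (nat_lit 5) (nat_lit 2) (nat_lit 4) (nat_lit 338) (nat_lit 231) (nat_lit 211))))))))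
noncomputable def xc11 : XT := (XT.nd (nat_lit 2262) (nat_lit 0) (nat_lit 0) (XT.nd (nat_lit 1092) (nat_lit 0) (nat_lit 0) (XT.nd (nat_lit 546) (nat_lit 0) (nat_lit 0) (XT.nd (nat_lit 234) (nat_lit 0) (nat_lit 0) (XT.nd (nat_lit 78) (nat_lit 0) (nat_lit 0) (XT.lf (nat_lit 0) (nat_lit 56301806499) (nat_lit 76) (nat_lit 233023487198) (nat_lit 76) (nat_lit 231758272826) (nat_lit 1) (nat_lit 4) (nat_lit 2) (nat_lit 5) (nat_lit 2) (nat_lit 4) (nat_lit 339) (nat_lit 231) (nat_lit 210)) (XT.nd (nat_lit 78) (nat_lit 0) (nat_lit 0) (XT.lf (nat_lit 0) (nat_lit 63004423328) (nat_lit 76) (nat_lit 250481112086) (nat_lit 76) (nat_lit 249192664337) (nat_lit 1) (nat_lit 4) (nat_lit 2) (nat_lit 5) (nat_lit 2) (nat_lit 4) (nat_lit 340) (nat_lit 231) (nat_lit 209)) (XT.lf (nat_lit 0) (nat_lit 70198185211) (nat_lit 76) (nat_lit 269357032724) (nat_lit 76) (nat_lit 268047072588) (nat_lit 1) (nat_lit 4) (nat_lit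 2) (nat_lit 5) (nat_lit 2) (nat_lit 4) (nat_lit 341) (nat_lit 231) (nat_lit 208)))) (XT.nd (nat_lit 156) (nat_lit 0) (nat_lit 0) (XT.nd (nat_lit 78) (nat_lit 0) (nat_lit 0) (XT.lf (nat_lit 0) (nat_lit 77925721845) (nat_lit 76) (nat_lit 289763106419) (nat_lit 76) (nat_lit 288433227406) (nat_lit 1) (nat_lit 4) (nat_lit 2) (nat_lit 5) (nat_lit 2) (nat_lit 4) (nat_lit 342) (nat_lit 231) (nat_lit 207)) (XT.lf (nat_lit 0) (nat_lit 86232826042) (nat_lit 76) (nat_lit 311820258052) (nat_lit 76) (nat_lit 310471935634) (nat_lit 1) (nat_lit 4) (nat_lit 2) (nat_lit 5) (nat_lit 2) (nat_lit 4) (nat_lit 343) (nat_lit 231) (nat_lit 206))) (XT.nd (nat_lit 78) (nat_lit 0) (nat_lit 0) (XT.lf (nat_lit 0) (nat_lit 95168725086) (nat_lit 76) (nat_lit 335659196669) (nat_lit 76) (nat_lit 334293797026) (nat_lit 1) (nat_lit 4) (nat_lit 2) (nat_lit 5) (nat_lit 2) (nat_lit 4) (nat_lit 344) (nat_lit 231) (nat_lit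 205)) (XT.lf (nat_lit 0) (nat_lit 104786372452) (nat_lit 76) (nat_lit 361421190056) (nat_lit 76) (nat_lit 360039978166) (nat_lit 1) (nat_lit 4) (nat_lit 2) (nat_lit 5) (nat_lit 2) (nat_lit 4) (nat_lit 345) (nat_lit 231) (nat_lit 204))))) (XT.nd (nat_lit 234) (nat_lit 0) (nat_lit 0) (XT.nd (nat_lit 78) (nat_lit 0) (nat_lit 0) (XT.lf (nat_lit 0) (nat_lit 115142761606) (nat_lit 76) (nat_lit 389258901877) (nat_lit 76) (nat_lit 387863049018) (nat_lit 1) (nat_lit 4) (nat_lit 2) (nat_lit 5) (nat_lit 2) (nat_lit 4) (nat_lit 346) (nat_lit 231) (nat_lit 203)) (XT.nd (nat_lit 78) (nat_lit 0) (nat_lit 0) (XT.lf (nat_lit 0) (nat_lit 126299263743) (nat_lit 76) (nat_lit 419337296350) (nat_lit 76) (nat_lit 417927887037) (nat_lit 1) (nat_lit 4) (nat_lit 2) (nat_lit 5) (nat_lit 2) (nat_lit 4) (nat_lit 347) (nat_lit 231) (nat_lit 202)) (XT.lf (nat_lit 0) (nat_lit 138321991468) (nat_lit 76) (nat_lit 451834615812)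 (nat_lit 76) (nat_lit 450412654228) (nat_lit 1) (nat_lit 4) (nat_lit 2) (nat_lit 5) (nat_lit 2) (nat_lit 4) (nat_lit 348) (nat_lit 231) (nat_lit 201)))) (XT.nd (nat_lit 156) (nat_lit 0) (nat_lit 0) (XT.nd (nat_lit 78) (nat_lit 0) (nat_lit 0) (XT.lf (nat_lit 0) (nat_lit 151282190576) (nat_lit 76) (nat_lit 486943436971) (nat_lit 76) (nat_lit 485509852915) (nat_lit 1) (nat_lit 4) (nat_lit 2) (nat_lit 5) (nat_lit 2) (nat_lit 4) (nat_lit 349) (nat_lit 231) (nat_lit 200)) (XT.lf (nat_lit 0) (nat_lit 165256662246) (nat_lit 76) (nat_lit 524871812102) (nat_lit 76) (nat_lit 523427466496) (nat_lit 1) (nat_lit 4) (nat_lit 2) (nat_lit 5) (nat_lit 2) (nat_lit 4) (nat_lit 350) (nat_lit 231) (nat_lit 199))) (XT.nd (nat_lit 78) (nat_lit 0) (nat_lit 0) (XT.lf (nat_lit 0) (nat_lit 180328218162) (nat_lit 76) (nat_lit 565844501945) (nat_lit 76) (nat_lit 564390191942) (nat_lit 1) (nat_lit 4) (nat_lit 2)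 (nat_lit 5) (nat_lit 2) (nat_lit 4) (nat_lit 351) (nat_lit 231) (nat_lit 198)) (XT.lf (nat_lit 0) (nat_lit 196586171248) (nat_lit 76) (nat_lit 610104307626) (nat_lit 76) (nat_lit 608640771328) (nat_lit 1) (nat_lit 4) (nat_lit 2) (nat_lit 5) (nat_lit 2) (nat_lit 4) (nat_lit 352) (nat_lit 231) (nat_lit 197)))))) (XT.nd (nat_lit 546) (nat_lit 0) (nat_lit 0) (XT.nd (nat_lit 234) (nat_lit 0) (nat_lit 0) (XT.nd (nat_lit 78) (nat_lit 0) (nat_lit 0) (XT.lf (nat_lit 0) (nat_lit 214126864930) (nat_lit 76) (nat_lit 657913509474) (nat_lit 76) (nat_lit 656441430312) (nat_lit 1) (nat_lit 4) (nat_lit 2) (nat_lit 5) (nat_lit 2) (nat_lit 4) (nat_lit 353) (nat_lit 231) (nat_lit 196)) (XT.nd (nat_lit 78) (nat_lit 0) (nat_lit 0) (XT.lf (nat_lit 0) (nat_lit 233054244059) (nat_lit 76) (nat_lit 709555421278) (nat_lit 76) (nat_lit 708075432056) (nat_lit 1) (nat_lit 4) (nat_lit 2) (nat_lit 5) (nat_lit 2) (nat_lit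 4) (nat_lit 354) (nat_lit 231) (nat_lit 195)) (XT.lf (nat_lit 0) (nat_lit 253480470882) (nat_lit 76) (nat_lit 765336069183) (nat_lit 76) (nat_lit 763848755831) (nat_lit 1) (nat_lit 4) (nat_lit 2) (nat_lit 5) (nat_lit 2) (nat_lit 4) (nat_lit 355) (nat_lit 231) (nat_lit 194)))) (XT.nd (nat_lit 156) (nat_lit 0) (nat_lit 0) (XT.nd (nat_lit 78) (nat_lit 0) (nat_lit 0) (XT.lf (nat_lit 0) (nat_lit 275526589706) (nat_lit 76) (nat_lit 825586005175) (nat_lit 76) (nat_lit 824091910222) (nat_lit 1) (nat_lit 4) (nat_lit 2) (nat_lit 5) (nat_lit 2) (nat_lit 4) (nat_lit 356) (nat_lit 231) (nat_lit 193)) (XT.lf (nat_lit 0) (nat_lit 299323244199) (nat_lit 76) (nat_lit 890662265913) (nat_lit 76) (nat_lit 889161891699) (nat_lit 1) (nat_lit 4) (nat_lit 2) (nat_lit 5) (nat_lit 2) (nat_lit 4) (nat_lit 357) (nat_lit 231) (nat_lit 192))) (XT.nd (nat_lit 78) (nat_lit 0) (nat_lit 0) (XT.lf (nat_lit 0) (nat_lit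 325011451571) (nat_lit 76) (nat_lit 960950488497) (nat_lit 76) (nat_lit 959444300153) (nat_lit 1) (nat_lit 4) (nat_lit 2) (nat_lit 5) (nat_lit 2) (nat_lit 4) (nat_lit 358) (nat_lit 231) (nat_lit 191)) (XT.lf (nat_lit 0) (nat_lit 352743438237) (nat_lit 76) (nat_lit 1036867195728) (nat_lit 76) (nat_lit 1035355623930) (nat_lit 1) (nat_lit 4) (nat_lit 2) (nat_lit 5) (nat_lit 2) (nat_lit 4) (nat_lit 359) (nat_lit 231) (nat_lit 190))))) (XT.nd (nat_lit 312) (nat_lit 0) (nat_lit 0) (XT.nd (nat_lit 156) (nat_lit 0) (nat_lit 0) (XT.nd (nat_lit 78) (nat_lit 0) (nat_lit 0) (XT.lf (nat_lit 0) (nat_lit 382683541896) (nat_lit 76) (nat_lit 1118862264389) (nat_lit 76) (nat_lit 1117345707911) (nat_lit 1) (nat_lit 4) (nat_lit 2) (nat_lit 5) (nat_lit 2) (nat_lit 4) (nat_lit 360) (nat_lit 231) (nat_lit 189)) (XT.lf (nat_lit 0) (nat_lit 415009185385) (nat_lit 76) (nat_lit 1207421591184) (nat_lit 76) (nat_lit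 1205900419262) (nat_lit 1) (nat_lit 4) (nat_lit 2) (nat_lit 5) (nat_lit 2) (nat_lit 4) (nat_lit 361) (nat_lit 231) (nat_lit 188))) (XT.nd (nat_lit 78) (nat_lit 0) (nat_lit 0) (XT.lf (nat_lit 0) (nat_lit 449911928071) (nat_lit 76) (nat_lit 1303069972123) (nat_lit 76) (nat_lit 1301544526641) (nat_lit 1) (nat_lit 4) (nat_lit 2) (nat_lit 5) (nat_lit 2) (nat_lit 4) (nat_lit 362) (nat_lit 231) (nat_lit 187)) (XT.lf (nat_lit 0) (nat_lit 487598601023) (nat_lit 76) (nat_lit 1406374212426) (nat_lit 76) (nat_lit 1404844809945) (nat_lit 1) (nat_lit 4) (nat_lit 2) (nat_lit 5) (nat_lit 2) (nat_lit 4) (nat_lit 363) (nat_lit 231) (nat_lit 186)))) (XT.nd (nat_lit 156) (nat_lit 0) (nat_lit 0) (XT.nd (nat_lit 78) (nat_lit 0) (nat_lit 0) (XT.lf (nat_lit 0) (nat_lit 528292532674) (nat_lit 76) (nat_lit 1517946485370) (nat_lit 76) (nat_lit 1516413419001) (nat_lit 1) (nat_lit 4) (nat_lit 2) (nat_lit 5) (nat_lit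 2) (nat_lit 4) (nat_lit 364) (nat_lit 231) (nat_lit 185)) (XT.lf (nat_lit 0) (nat_lit 572234872247) (nat_lit 76) (nat_lit 1638447959979) (nat_lit 76) (nat_lit 1636911501120) (nat_lit 1) (nat_lit 4) (nat_lit 2) (nat_lit 5) (nat_lit 2) (nat_lit 4) (nat_lit 365) (nat_lit 231) (nat_lit 184))) (XT.nd (nat_lit 78) (nat_lit 0) (nat_lit 0) (XT.lf (nat_lit 0) (nat_lit 619686018792) (nat_lit 76) (nat_lit 1768592719065) (nat_lit 76) (nat_lit 1767053119013) (nat_lit 1) (nat_lit 4) (nat_lit 2) (nat_lit 5) (nat_lit 2) (nat_lit 4) (nat_lit 366) (nat_lit 231) (nat_lit 183)) (XT.lf (nat_lit 0) (nat_lit 670927164289) (nat_lit 76) (nat_lit 1909151990831) (nat_lit 76) (nat_lit 1907609482267) (nat_lit 1) (nat_lit 4) (nat_lit 2) (nat_lit 5) (nat_lit 2) (nat_lit 4) (nat_lit 367) (nat_lit 231) (nat_lit 182))))))) (XT.nd (nat_lit 37674) (nat_lit 0) (nat_lit 0) (XT.nd (nat_lit 37050) (nat_lit 0) (nat_lit 0)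 (XT.nd (nat_lit 36738) (nat_lit 0) (nat_lit 76) (XT.nd (nat_lit 36582) (nat_lit 0) (nat_lit 76) (XT.lf (nat_lit 0) (nat_lit 726261959970) (nat_lit 76) (nat_lit 2060958719110) (nat_lit 76) (nat_lit 2059413517478) (nat_lit 1) (nat_lit 4) (nat_lit 2) (nat_lit 5) (nat_lit 2) (nat_lit 4) (nat_lit 368) (nat_lit 231) (nat_lit 181)) (XT.nd (nat_lit 78) (nat_lit 0) (nat_lit 0) (XT.lf (nat_lit 0) (nat_lit 15624716842) (nat_lit 152) (nat_lit 13910509048) (nat_lit 0) (nat_lit 15624716842) (nat_lit 2) (nat_lit 5) (nat_lit 4) (nat_lit 4) (nat_lit 2) (nat_lit 4) (nat_lit 316) (nat_lit 232) (nat_lit 232)) (XT.lf (nat_lit 0) (nat_lit 36098867901) (nat_lit 152) (nat_lit 25273327151) (nat_lit 0) (nat_lit 35972558703) (nat_lit 2) (nat_lit 5) (nat_lit 4) (nat_lit 4) (nat_lit 2) (nat_lit 4) (nat_lit 317) (nat_lit 232) (nat_lit 231)))) (XT.nd (nat_lit 156) (nat_lit 0) (nat_lit 0) (XT.nd (nat_lit 78) (nat_lit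 0) (nat_lit 0) (XT.lf (nat_lit 0) (nat_lit 41215050611) (nat_lit 152) (nat_lit 22754559199) (nat_lit 0) (nat_lit 40971788452) (nat_lit 2) (nat_lit 5) (nat_lit 4) (nat_lit 4) (nat_lit 2) (nat_lit 4) (nat_lit 318) (nat_lit 232) (nat_lit 230)) (XT.lf (nat_lit 0) (nat_lit 46628299934) (nat_lit 152) (nat_lit 20249788208) (nat_lit 0) (nat_lit 46276747996) (nat_lit 2) (nat_lit 5) (nat_lit 4) (nat_lit 4) (nat_lit 2) (nat_lit 4) (nat_lit 319) (nat_lit 232) (nat_lit 229))) (XT.nd (nat_lit 78) (nat_lit 0) (nat_lit 0) (XT.lf (nat_lit 0) (nat_lit 52370694384) (nat_lit 152) (nat_lit 17744171091) (nat_lit 0) (nat_lit 51918874133) (nat_lit 2) (nat_lit 5) (nat_lit 4) (nat_lit 4) (nat_lit 2) (nat_lit 4) (nat_lit 320) (nat_lit 232) (nat_lit 228)) (XT.lf (nat_lit 0) (nat_lit 58476262965) (nat_lit 152) (nat_lit 15222859747) (nat_lit 0) (nat_lit 57931601683) (nat_lit 2) (nat_lit 5) (nat_lit 4) (nat_lit 4)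 (nat_lit 2) (nat_lit 4) (nat_lit 321) (nat_lit 232) (nat_lit 227))))) (XT.nd (nat_lit 312) (nat_lit 76) (nat_lit 0) (XT.nd (nat_lit 156) (nat_lit 0) (nat_lit 0) (XT.nd (nat_lit 78) (nat_lit 0) (nat_lit 0) (XT.lf (nat_lit 0) (nat_lit 64981186825) (nat_lit 152) (nat_lit 12670913072) (nat_lit 0) (nat_lit 64350561625) (nat_lit 2) (nat_lit 5) (nat_lit 4) (nat_lit 4) (nat_lit 2) (nat_lit 4) (nat_lit 322) (nat_lit 232) (nat_lit 226)) (XT.lf (nat_lit 0) (nat_lit 71924013660) (nat_lit 152) (nat_lit 10073208418) (nat_lit 0) (nat_lit 71213792240) (nat_lit 2) (nat_lit 5) (nat_lit 4) (nat_lit 4) (nat_lit 2) (nat_lit 4) (nat_lit 323) (nat_lit 232) (nat_lit 225))) (XT.nd (nat_lit 78) (nat_lit 0) (nat_lit 0) (XT.lf (nat_lit 0) (nat_lit 79345886148) (nat_lit 152) (nat_lit 7414351981) (nat_lit 0) (nat_lit 78561964525) (nat_lit 2) (nat_lit 5) (nat_lit 4) (nat_lit 4) (nat_lit 2) (nat_lit 4) (nat_lit 324)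 (nat_lit 232) (nat_lit 224)) (XT.lf (nat_lit 0) (nat_lit 87290785756) (nat_lit 152) (nat_lit 4678587573) (nat_lit 0) (nat_lit 86438623203) (nat_lit 2) (nat_lit 5) (nat_lit 4) (nat_lit 4) (nat_lit 2) (nat_lit 4) (nat_lit 325) (nat_lit 232) (nat_lit 223)))) (XT.nd (nat_lit 156) (nat_lit 0) (nat_lit 0) (XT.nd (nat_lit 78) (nat_lit 76) (nat_lit 0) (XT.lf (nat_lit 0) (nat_lit 95805793370) (nat_lit 152) (nat_lit 1849703258) (nat_lit 0) (nat_lit 94890444771) (nat_lit 2) (nat_lit 5) (nat_lit 4) (nat_lit 4) (nat_lit 2) (nat_lit 4) (nat_lit 326) (nat_lit 232) (nat_lit 222)) (XT.lf (nat_lit 0) (nat_lit 1146412941) (nat_lit 76) (nat_lit 103822526612) (nat_lit 76) (nat_lit 102848672415) (nat_lit 1) (nat_lit 4) (nat_lit 2) (nat_lit 5) (nat_lit 2) (nat_lit 4) (nat_lit 327) (nat_lit 232) (nat_lit 221))) (XT.nd (nat_lit 78) (nat_lit 0) (nat_lit 0) (XT.lf (nat_lit 0) (nat_lit 4373933142) (nat_lit 76)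 (nat_lit 110482907325) (nat_lit 76) (nat_lit 109454881278) (nat_lit 1) (nat_lit 4) (nat_lit 2) (nat_lit 5) (nat_lit 2) (nat_lit 4) (nat_lit 328) (nat_lit 232) (nat_lit 220)) (XT.lf (nat_lit 0) (nat_lit 7754581294) (nat_lit 76) (nat_lit 117726681855) (nat_lit 76) (nat_lit 116648496688) (nat_lit 1) (nat_lit 4) (nat_lit 2) (nat_lit 5) (nat_lit 2) (nat_lit 4) (nat_lit 329) (nat_lit 232) (nat_lit 219)))))) (XT.nd (nat_lit 546) (nat_lit 0) (nat_lit 0) (XT.nd (nat_lit 234) (nat_lit 0) (nat_lit 0) (XT.nd (nat_lit 78) (nat_lit 0) (nat_lit 0) (XT.lf (nat_lit 0) (nat_lit 11308390868) (nat_lit 76) (nat_lit 125596776273) (nat_lit 76) (nat_lit 124472147476) (nat_lit 1) (nat_lit 4) (nat_lit 2) (nat_lit 5) (nat_lit 2) (nat_lit 4) (nat_lit 330) (nat_lit 232) (nat_lit 218)) (XT.nd (nat_lit 78) (nat_lit 0) (nat_lit 0) (XT.lf (nat_lit 0) (nat_lit 15056421476) (nat_lit 76) (nat_lit 134139828175) (nat_lit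 76) (nat_lit 132972196017) (nat_lit 1) (nat_lit 4) (nat_lit 2) (nat_lit 5) (nat_lit 2) (nat_lit 4) (nat_lit 331) (nat_lit 232) (nat_lit 217)) (XT.lf (nat_lit 0) (nat_lit 19020883670) (nat_lit 76) (nat_lit 143406463056) (nat_lit 76) (nat_lit 142199012971) (nat_lit 1) (nat_lit 4) (nat_lit 2) (nat_lit 5) (nat_lit 2) (nat_lit 4) (nat_lit 332) (nat_lit 232) (nat_lit 216)))) (XT.nd (nat_lit 156) (nat_lit 0) (nat_lit 0) (XT.nd (nat_lit 78) (nat_lit 0) (nat_lit 0) (XT.lf (nat_lit 0) (nat_lit 23225270559) (nat_lit 76) (nat_lit 153451594305) (nat_lit 76) (nat_lit 152207275770) (nat_lit 1) (nat_lit 4) (nat_lit 2) (nat_lit 5) (nat_lit 2) (nat_lit 4) (nat_lit 333) (nat_lit 232) (nat_lit 215)) (XT.lf (nat_lit 0) (nat_lit 27694497029) (nat_lit 76) (nat_lit 164334748628) (nat_lit 76) (nat_lit 163056292638) (nat_lit 1) (nat_lit 4) (nat_lit 2) (nat_lit 5) (nat_lit 2) (nat_lit 4) (nat_lit 334) (nat_lit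 232) (nat_lit 214))) (XT.nd (nat_lit 78) (nat_lit 0) (nat_lit 0) (XT.lf (nat_lit 0) (nat_lit 32455047384) (nat_lit 76) (nat_lit 176120418791) (nat_lit 76) (nat_lit 174810354047) (nat_lit 1) (nat_lit 4) (nat_lit 2) (nat_lit 5) (nat_lit 2) (nat_lit 4) (nat_lit 335) (nat_lit 232) (nat_lit 213)) (XT.lf (nat_lit 0) (nat_lit 37535132293) (nat_lit 76) (nat_lit 188878445801) (nat_lit 76) (nat_lit 187539113692) (nat_lit 1) (nat_lit 4) (nat_lit 2) (nat_lit 5) (nat_lit 2) (nat_lit 4) (nat_lit 336) (nat_lit 232) (nat_lit 212))))) (XT.nd (nat_lit 312) (nat_lit 0) (nat_lit 0) (XT.nd (nat_lit 156) (nat_lit 0) (nat_lit 0) (XT.nd (nat_lit 78) (nat_lit 0) (nat_lit 0) (XT.lf (nat_lit 0) (nat_lit 42964855963) (nat_lit 76) (nat_lit 202684432782) (nat_lit 76) (nat_lit 201318001261) (nat_lit 1) (nat_lit 4) (nat_lit 2) (nat_lit 5) (nat_lit 2) (nat_lit 4) (nat_lit 337) (nat_lit 232) (nat_lit 211)) (XT.lf (nat_lit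 0) (nat_lit 48776394534) (nat_lit 76) (nat_lit 217620192990) (nat_lit 76) (nat_lit 216228669421) (nat_lit 1) (nat_lit 4) (nat_lit 2) (nat_lit 5) (nat_lit 2) (nat_lit 4) (nat_lit 338) (nat_lit 232) (nat_lit 210))) (XT.nd (nat_lit 78) (nat_lit 0) (nat_lit 0) (XT.lf (nat_lit 0) (nat_lit 55004186754) (nat_lit 76) (nat_lit 233774234634) (nat_lit 76) (nat_lit 232359477687) (nat_lit 1) (nat_lit 4) (nat_lit 2) (nat_lit 5) (nat_lit 2) (nat_lit 4) (nat_lit 339) (nat_lit 232) (nat_lit 209)) (XT.lf (nat_lit 0) (nat_lit 61685138058) (nat_lit 76) (nat_lit 251242285368) (nat_lit 76) (nat_lit 249806016034) (nat_lit 1) (nat_lit 4) (nat_lit 2) (nat_lit 5) (nat_lit 2) (nat_lit 4) (nat_lit 340) (nat_lit 232) (nat_lit 208)))) (XT.nd (nat_lit 156) (nat_lit 0) (nat_lit 0) (XT.nd (nat_lit 78) (nat_lit 0) (nat_lit 0) (XT.lf (nat_lit 0) (nat_lit 68858839268) (nat_lit 76) (nat_lit 270127859566) (nat_lit 76) (nat_lit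 268671671356) (nat_lit 1) (nat_lit 4) (nat_lit 2) (nat_lit 5) (nat_lit 2) (nat_lit 4) (nat_lit 341) (nat_lit 232) (nat_lit 207)) (XT.lf (nat_lit 0) (nat_lit 76567801207) (nat_lit 76) (nat_lit 290542871743) (nat_lit 76) (nat_lit 289068240128) (nat_lit 1) (nat_lit 4) (nat_lit 2) (nat_lit 5) (nat_lit 2) (nat_lit 4) (nat_lit 342) (nat_lit 232) (nat_lit 206))) (XT.nd (nat_lit 78) (nat_lit 0) (nat_lit 0) (XT.lf (nat_lit 0) (nat_lit 84857706611) (nat_lit 76) (nat_lit 312608299748) (nat_lit 76) (nat_lit 311116590907) (nat_lit 1) (nat_lit 4) (nat_lit 2) (nat_lit 5) (nat_lit 2) (nat_lit 4) (nat_lit 343) (nat_lit 232) (nat_lit 205)) (XT.lf (nat_lit 0) (nat_lit 93777680846) (nat_lit 76) (nat_lit 336454901674) (nat_lit 76) (nat_lit 334947380586) (nat_lit 1) (nat_lit 4) (nat_lit 2) (nat_lit 5) (nat_lit 2) (nat_lit 4) (nat_lit 344) (nat_lit 232) (nat_lit 204))))))))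
noncomputable def xc12 : XT := (XT.nd (nat_lit 38610) (nat_lit 0) (nat_lit 0) (XT.nd (nat_lit 1092) (nat_lit 0) (nat_lit 0) (XT.nd (nat_lit 546) (nat_lit 0) (nat_lit 0) (XT.nd (nat_lit 234) (nat_lit 0) (nat_lit 0) (XT.nd (nat_lit 78) (nat_lit 0) (nat_lit 0) (XT.lf (nat_lit 0) (nat_lit 103380583019) (nat_lit 76) (nat_lit 362223990716) (nat_lit 76) (nat_lit 360701828659) (nat_lit 1) (nat_lit 4) (nat_lit 2) (nat_lit 5) (nat_lit 2) (nat_lit 4) (nat_lit 345) (nat_lit 232) (nat_lit 203)) (XT.nd (nat_lit 78) (nat_lit 0) (nat_lit 0) (XT.lf (nat_lit 0) (nat_lit 113723319217) (nat_lit 76) (nat_lit 390068272588) (nat_lit 76) (nat_lit 388532554078) (nat_lit 1) (nat_lit 4) (nat_lit 2) (nat_lit 5) (nat_lit 2) (nat_lit 4) (nat_lit 346) (nat_lit 232) (nat_lit 202)) (XT.lf (nat_lit 0) (nat_lit 124867179727) (nat_lit 76) (nat_lit 420152750441) (nat_lit 76) (nat_lit 418604479660) (nat_lit 1) (nat_lit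 4) (nat_lit 2) (nat_lit 5) (nat_lit 2) (nat_lit 4) (nat_lit 347) (nat_lit 232) (nat_lit 201)))) (XT.nd (nat_lit 156) (nat_lit 0) (nat_lit 0) (XT.nd (nat_lit 78) (nat_lit 0) (nat_lit 0) (XT.lf (nat_lit 0) (nat_lit 136878202243) (nat_lit 76) (nat_lit 452655702663) (nat_lit 76) (nat_lit 451095809408) (nat_lit 1) (nat_lit 4) (nat_lit 2) (nat_lit 5) (nat_lit 2) (nat_lit 4) (nat_lit 348) (nat_lit 232) (nat_lit 200)) (XT.lf (nat_lit 0) (nat_lit 149827563194) (nat_lit 76) (nat_lit 487769739341) (nat_lit 76) (nat_lit 486199084537) (nat_lit 1) (nat_lit 4) (nat_lit 2) (nat_lit 5) (nat_lit 2) (nat_lit 4) (nat_lit 349) (nat_lit 232) (nat_lit 199))) (XT.nd (nat_lit 78) (nat_lit 0) (nat_lit 0) (XT.lf (nat_lit 0) (nat_lit 163791999534) (nat_lit 76) (nat_lit 525702943655) (nat_lit 76) (nat_lit 524122324454) (nat_lit 1) (nat_lit 4) (nat_lit 2) (nat_lit 5) (nat_lit 2) (nat_lit 4) (nat_lit 350) (nat_lit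 232) (nat_lit 198)) (XT.lf (nat_lit 0) (nat_lit 178854263477) (nat_lit 76) (nat_lit 566680104965) (nat_lit 76) (nat_lit 565090259469) (nat_lit 1) (nat_lit 4) (nat_lit 2) (nat_lit 5) (nat_lit 2) (nat_lit 4) (nat_lit 351) (nat_lit 232) (nat_lit 197))))) (XT.nd (nat_lit 234) (nat_lit 0) (nat_lit 0) (XT.nd (nat_lit 78) (nat_lit 0) (nat_lit 0) (XT.lf (nat_lit 0) (nat_lit 195103612885) (nat_lit 76) (nat_lit 610944050892) (nat_lit 76) (nat_lit 609345662532) (nat_lit 1) (nat_lit 4) (nat_lit 2) (nat_lit 5) (nat_lit 2) (nat_lit 4) (nat_lit 352) (nat_lit 232) (nat_lit 196)) (XT.nd (nat_lit 78) (nat_lit 0) (nat_lit 0) (XT.lf (nat_lit 0) (nat_lit 212636340198) (nat_lit 76) (nat_lit 658757086302) (nat_lit 76) (nat_lit 657150787882) (nat_lit 1) (nat_lit 4) (nat_lit 2) (nat_lit 5) (nat_lit 2) (nat_lit 4) (nat_lit 353) (nat_lit 232) (nat_lit 195)) (XT.lf (nat_lit 0) (nat_lit 231556343059) (nat_lit 76)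 (nat_lit 710402547700) (nat_lit 76) (nat_lit 708788925150) (nat_lit 1) (nat_lit 4) (nat_lit 2) (nat_lit 5) (nat_lit 2) (nat_lit 4) (nat_lit 354) (nat_lit 232) (nat_lit 194)))) (XT.nd (nat_lit 156) (nat_lit 0) (nat_lit 0) (XT.nd (nat_lit 78) (nat_lit 0) (nat_lit 0) (XT.lf (nat_lit 0) (nat_lit 251975740005) (nat_lit 76) (nat_lit 766186482266) (nat_lit 76) (nat_lit 764566078115) (nat_lit 1) (nat_lit 4) (nat_lit 2) (nat_lit 5) (nat_lit 2) (nat_lit 4) (nat_lit 355) (nat_lit 232) (nat_lit 193)) (XT.lf (nat_lit 0) (nat_lit 274015534869) (nat_lit 76) (nat_lit 826439461464) (nat_lit 76) (nat_lit 824812778051) (nat_lit 1) (nat_lit 4) (nat_lit 2) (nat_lit 5) (nat_lit 2) (nat_lit 4) (nat_lit 356) (nat_lit 232) (nat_lit 192))) (XT.nd (nat_lit 78) (nat_lit 0) (nat_lit 0) (XT.lf (nat_lit 0) (nat_lit 297806333842) (nat_lit 76) (nat_lit 891518539984) (nat_lit 76) (nat_lit 889886042441) (nat_lit 1) (nat_lit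 4) (nat_lit 2) (nat_lit 5) (nat_lit 2) (nat_lit 4) (nat_lit 357) (nat_lit 232) (nat_lit 191)) (XT.lf (nat_lit 0) (nat_lit 323489119438) (nat_lit 76) (nat_lit 961809371626) (nat_lit 76) (nat_lit 960171490629) (nat_lit 1) (nat_lit 4) (nat_lit 2) (nat_lit 5) (nat_lit 2) (nat_lit 4) (nat_lit 358) (nat_lit 232) (nat_lit 190)))))) (XT.nd (nat_lit 546) (nat_lit 0) (nat_lit 0) (XT.nd (nat_lit 234) (nat_lit 0) (nat_lit 0) (XT.nd (nat_lit 78) (nat_lit 0) (nat_lit 0) (XT.lf (nat_lit 0) (nat_lit 351216085940) (nat_lit 76) (nat_lit 1037728494651) (nat_lit 76) (nat_lit 1036085628975) (nat_lit 1) (nat_lit 4) (nat_lit 2) (nat_lit 5) (nat_lit 2) (nat_lit 4) (nat_lit 359) (nat_lit 232) (nat_lit 189)) (XT.nd (nat_lit 78) (nat_lit 0) (nat_lit 0) (XT.lf (nat_lit 0) (nat_lit 381151541299) (nat_lit 76) (nat_lit 1119725800158) (nat_lit 76) (nat_lit 1118078319038) (nat_lit 1) (nat_lit 4) (nat_lit 2) (nat_lit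 5) (nat_lit 2) (nat_lit 4) (nat_lit 360) (nat_lit 232) (nat_lit 188)) (XT.lf (nat_lit 0) (nat_lit 413472880807) (nat_lit 76) (nat_lit 1208287198107) (nat_lit 76) (nat_lit 1206635443428) (nat_lit 1) (nat_lit 4) (nat_lit 2) (nat_lit 5) (nat_lit 2) (nat_lit 4) (nat_lit 361) (nat_lit 232) (nat_lit 187)))) (XT.nd (nat_lit 156) (nat_lit 0) (nat_lit 0) (XT.nd (nat_lit 78) (nat_lit 0) (nat_lit 0) (XT.lf (nat_lit 0) (nat_lit 448371638325) (nat_lit 76) (nat_lit 1303937496781) (nat_lit 76) (nat_lit 1302281785102) (nat_lit 1) (nat_lit 4) (nat_lit 2) (nat_lit 5) (nat_lit 2) (nat_lit 4) (nat_lit 362) (nat_lit 232) (nat_lit 186)) (XT.lf (nat_lit 0) (nat_lit 486054621307) (nat_lit 76) (nat_lit 1407243512765) (nat_lit 76) (nat_lit 1405584137198) (nat_lit 1) (nat_lit 4) (nat_lit 2) (nat_lit 5) (nat_lit 2) (nat_lit 4) (nat_lit 363) (nat_lit 232) (nat_lit 185))) (XT.nd (nat_lit 78) (nat_lit 0) (nat_lit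 0) (XT.lf (nat_lit 0) (nat_lit 526745136319) (nat_lit 76) (nat_lit 1518817429858) (nat_lit 76) (nat_lit 1517154661801) (nat_lit 1) (nat_lit 4) (nat_lit 2) (nat_lit 5) (nat_lit 2) (nat_lit 4) (nat_lit 364) (nat_lit 232) (nat_lit 184)) (XT.lf (nat_lit 0) (nat_lit 570684312337) (nat_lit 76) (nat_lit 1639320426826) (nat_lit 76) (nat_lit 1637654517577) (nat_lit 1) (nat_lit 4) (nat_lit 2) (nat_lit 5) (nat_lit 2) (nat_lit 4) (nat_lit 365) (nat_lit 232) (nat_lit 183))))) (XT.nd (nat_lit 36660) (nat_lit 0) (nat_lit 76) (XT.nd (nat_lit 156) (nat_lit 0) (nat_lit 0) (XT.nd (nat_lit 78) (nat_lit 0) (nat_lit 0) (XT.lf (nat_lit 0) (nat_lit 618132529665) (nat_lit 76) (nat_lit 1769466595506) (nat_lit 76) (nat_lit 1767797777743) (nat_lit 1) (nat_lit 4) (nat_lit 2) (nat_lit 5) (nat_lit 2) (nat_lit 4) (nat_lit 366) (nat_lit 232) (nat_lit 182)) (XT.lf (nat_lit 0) (nat_lit 669370962924) (nat_lit 76) (nat_lit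 1910027172450) (nat_lit 76) (nat_lit 1908355661621) (nat_lit 1) (nat_lit 4) (nat_lit 2) (nat_lit 5) (nat_lit 2) (nat_lit 4) (nat_lit 367) (nat_lit 232) (nat_lit 181))) (XT.nd (nat_lit 36426) (nat_lit 0) (nat_lit 76) (XT.lf (nat_lit 0) (nat_lit 724703247273) (nat_lit 76) (nat_lit 2061835109228) (nat_lit 76) (nat_lit 2060161104817) (nat_lit 1) (nat_lit 4) (nat_lit 2) (nat_lit 5) (nat_lit 2) (nat_lit 4) (nat_lit 368) (nat_lit 232) (nat_lit 180)) (XT.lf (nat_lit 0) (nat_lit 11220827139) (nat_lit 152) (nat_lit 16466653542) (nat_lit 0) (nat_lit 11220827139) (nat_lit 2) (nat_lit 5) (nat_lit 4) (nat_lit 4) (nat_lit 2) (nat_lit 4) (nat_lit 314) (nat_lit 233) (nat_lit 233)))) (XT.nd (nat_lit 156) (nat_lit 0) (nat_lit 0) (XT.nd (nat_lit 78) (nat_lit 0) (nat_lit 0) (XT.lf (nat_lit 0) (nat_lit 26774424505) (nat_lit 152) (nat_lit 30412729465) (nat_lit 0) (nat_lit 26638010571) (nat_lit 2) (nat_lit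 5) (nat_lit 4) (nat_lit 4) (nat_lit 2) (nat_lit 4) (nat_lit 315) (nat_lit 233) (nat_lit 232)) (XT.lf (nat_lit 0) (nat_lit 31322913606) (nat_lit 152) (nat_lit 27941862968) (nat_lit 0) (nat_lit 31060190474) (nat_lit 2) (nat_lit 5) (nat_lit 4) (nat_lit 4) (nat_lit 2) (nat_lit 4) (nat_lit 316) (nat_lit 233) (nat_lit 231))) (XT.nd (nat_lit 78) (nat_lit 0) (nat_lit 0) (XT.lf (nat_lit 0) (nat_lit 36114075590) (nat_lit 152) (nat_lit 25506065421) (nat_lit 0) (nat_lit 35734399498) (nat_lit 2) (nat_lit 5) (nat_lit 4) (nat_lit 4) (nat_lit 2) (nat_lit 4) (nat_lit 317) (nat_lit 233) (nat_lit 230)) (XT.lf (nat_lit 0) (nat_lit 41176302529) (nat_lit 152) (nat_lit 23090902467) (nat_lit 0) (nat_lit 40688336658) (nat_lit 2) (nat_lit 5) (nat_lit 4) (nat_lit 4) (nat_lit 2) (nat_lit 4) (nat_lit 318) (nat_lit 233) (nat_lit 229))))))) (XT.nd (nat_lit 1092) (nat_lit 0) (nat_lit 0) (XT.nd (nat_lit 546) (nat_lit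 76) (nat_lit 0) (XT.nd (nat_lit 234) (nat_lit 0) (nat_lit 0) (XT.nd (nat_lit 78) (nat_lit 0) (nat_lit 0) (XT.lf (nat_lit 0) (nat_lit 46539592804) (nat_lit 152) (nat_lit 20682062031) (nat_lit 0) (nat_lit 45951358620) (nat_lit 2) (nat_lit 5) (nat_lit 4) (nat_lit 4) (nat_lit 2) (nat_lit 4) (nat_lit 319) (nat_lit 233) (nat_lit 228)) (XT.nd (nat_lit 78) (nat_lit 0) (nat_lit 0) (XT.lf (nat_lit 0) (nat_lit 52235728877) (nat_lit 152) (nat_lit 18265269502) (nat_lit 0) (nat_lit 51554653661) (nat_lit 2) (nat_lit 5) (nat_lit 4) (nat_lit 4) (nat_lit 2) (nat_lit 4) (nat_lit 320) (nat_lit 233) (nat_lit 227)) (XT.lf (nat_lit 0) (nat_lit 58298465628) (nat_lit 152) (nat_lit 15826203146) (nat_lit 0) (nat_lit 57531426494) (nat_lit 2) (nat_lit 5) (nat_lit 4) (nat_lit 4) (nat_lit 2) (nat_lit 4) (nat_lit 321) (nat_lit 233) (nat_lit 226)))) (XT.nd (nat_lit 156) (nat_lit 0) (nat_lit 0) (XT.nd (nat_lit 78) (nat_lit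 0) (nat_lit 0) (XT.lf (nat_lit 0) (nat_lit 64763730385) (nat_lit 152) (nat_lit 13350409238) (nat_lit 0) (nat_lit 63917095031) (nat_lit 2) (nat_lit 5) (nat_lit 4) (nat_lit 4) (nat_lit 2) (nat_lit 4) (nat_lit 322) (nat_lit 233) (nat_lit 225)) (XT.lf (nat_lit 0) (nat_lit 71669835829) (nat_lit 152) (nat_lit 10823216406) (nat_lit 0) (nat_lit 70749500272) (nat_lit 2) (nat_lit 5) (nat_lit 4) (nat_lit 4) (nat_lit 2) (nat_lit 4) (nat_lit 323) (nat_lit 233) (nat_lit 224))) (XT.nd (nat_lit 78) (nat_lit 0) (nat_lit 0) (XT.lf (nat_lit 0) (nat_lit 79057707029) (nat_lit 152) (nat_lit 8229648692) (nat_lit 0) (nat_lit 78069130542) (nat_lit 2) (nat_lit 5) (nat_lit 4) (nat_lit 4) (nat_lit 2) (nat_lit 4) (nat_lit 324) (nat_lit 233) (nat_lit 223)) (XT.lf (nat_lit 0) (nat_lit 86971123962) (nat_lit 152) (nat_lit 5554336806) (nat_lit 0) (nat_lit 85919361430) (nat_lit 2) (nat_lit 5) (nat_lit 4) (nat_lit 4)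 (nat_lit 2) (nat_lit 4) (nat_lit 325) (nat_lit 233) (nat_lit 222))))) (XT.nd (nat_lit 234) (nat_lit 0) (nat_lit 0) (XT.nd (nat_lit 78) (nat_lit 76) (nat_lit 0) (XT.lf (nat_lit 0) (nat_lit 95456980952) (nat_lit 152) (nat_lit 2781427048) (nat_lit 0) (nat_lit 94346712822) (nat_lit 2) (nat_lit 5) (nat_lit 4) (nat_lit 4) (nat_lit 2) (nat_lit 4) (nat_lit 326) (nat_lit 233) (nat_lit 221)) (XT.nd (nat_lit 78) (nat_lit 0) (nat_lit 0) (XT.lf (nat_lit 0) (nat_lit 111068747) (nat_lit 76) (nat_lit 104457167016) (nat_lit 76) (nat_lit 103292727036) (nat_lit 1) (nat_lit 4) (nat_lit 2) (nat_lit 5) (nat_lit 2) (nat_lit 4) (nat_lit 327) (nat_lit 233) (nat_lit 220)) (XT.lf (nat_lit 0) (nat_lit 3288072763) (nat_lit 76) (nat_lit 111141857036) (nat_lit 76) (nat_lit 109927257936) (nat_lit 1) (nat_lit 4) (nat_lit 2) (nat_lit 5) (nat_lit 2) (nat_lit 4) (nat_lit 328) (nat_lit 233) (nat_lit 219)))) (XT.nd (nat_lit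 156) (nat_lit 0) (nat_lit 0) (XT.nd (nat_lit 78) (nat_lit 0) (nat_lit 0) (XT.lf (nat_lit 0) (nat_lit 6621946670) (nat_lit 76) (nat_lit 118408140184) (nat_lit 76) (nat_lit 117147097454) (nat_lit 1) (nat_lit 4) (nat_lit 2) (nat_lit 5) (nat_lit 2) (nat_lit 4) (nat_lit 329) (nat_lit 233) (nat_lit 218)) (XT.lf (nat_lit 0) (nat_lit 10132446758) (nat_lit 76) (nat_lit 126299075915) (nat_lit 76) (nat_lit 124995029824) (nat_lit 1) (nat_lit 4) (nat_lit 2) (nat_lit 5) (nat_lit 2) (nat_lit 4) (nat_lit 330) (nat_lit 233) (nat_lit 217))) (XT.nd (nat_lit 78) (nat_lit 0) (nat_lit 0) (XT.lf (nat_lit 0) (nat_lit 13840375989) (nat_lit 76) (nat_lit 134861425330) (nat_lit 76) (nat_lit 133517561312) (nat_lit 1) (nat_lit 4) (nat_lit 2) (nat_lit 5) (nat_lit 2) (nat_lit 4) (nat_lit 331) (nat_lit 233) (nat_lit 216)) (XT.lf (nat_lit 0) (nat_lit 17767707279) (nat_lit 76) (nat_lit 144145928277) (nat_lit 76) (nat_lit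 142765195808) (nat_lit 1) (nat_lit 4) (nat_lit 2) (nat_lit 5) (nat_lit 2) (nat_lit 4) (nat_lit 332) (nat_lit 233) (nat_lit 215)))))) (XT.nd (nat_lit 546) (nat_lit 0) (nat_lit 0) (XT.nd (nat_lit 234) (nat_lit 0) (nat_lit 0) (XT.nd (nat_lit 78) (nat_lit 0) (nat_lit 0) (XT.lf (nat_lit 0) (nat_lit 21937713702) (nat_lit 76) (nat_lit 154207604033) (nat_lit 76) (nat_lit 152792734110) (nat_lit 1) (nat_lit 4) (nat_lit 2) (nat_lit 5) (nat_lit 2) (nat_lit 4) (nat_lit 333) (nat_lit 233) (nat_lit 214)) (XT.nd (nat_lit 78) (nat_lit 0) (nat_lit 0) (XT.lf (nat_lit 0) (nat_lit 26375106406) (nat_lit 76) (nat_lit 165106077344) (nat_lit 76) (nat_lit 163659598666) (nat_lit 1) (nat_lit 4) (nat_lit 2) (nat_lit 5) (nat_lit 2) (nat_lit 4) (nat_lit 334) (nat_lit 233) (nat_lit 213)) (XT.lf (nat_lit 0) (nat_lit 31106181052) (nat_lit 76) (nat_lit 176905931754) (nat_lit 76) (nat_lit 175430185711) (nat_lit 1) (nat_lit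 4) (nat_lit 2) (nat_lit 5) (nat_lit 2) (nat_lit 4) (nat_lit 335) (nat_lit 233) (nat_lit 212)))) (XT.nd (nat_lit 156) (nat_lit 0) (nat_lit 0) (XT.nd (nat_lit 78) (nat_lit 0) (nat_lit 0) (XT.lf (nat_lit 0) (nat_lit 36158973638) (nat_lit 76) (nat_lit 189677092326) (nat_lit 76) (nat_lit 188174246872) (nat_lit 1) (nat_lit 4) (nat_lit 2) (nat_lit 5) (nat_lit 2) (nat_lit 4) (nat_lit 336) (nat_lit 233) (nat_lit 211)) (XT.lf (nat_lit 0) (nat_lit 41563426639) (nat_lit 76) (nat_lit 203495240014) (nat_lit 76) (nat_lit 201967302511) (nat_lit 1) (nat_lit 4) (nat_lit 2) (nat_lit 5) (nat_lit 2) (nat_lit 4) (nat_lit 337) (nat_lit 233) (nat_lit 210))) (XT.nd (nat_lit 78) (nat_lit 0) (nat_lit 0) (XT.lf (nat_lit 0) (nat_lit 47351566443) (nat_lit 76) (nat_lit 218442260135) (nat_lit 76) (nat_lit 216891089254) (nat_lit 1) (nat_lit 4) (nat_lit 2) (nat_lit 5) (nat_lit 2) (nat_lit 4) (nat_lit 338) (nat_lit 233)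 (nat_lit 209)) (XT.lf (nat_lit 0) (nat_lit 53557693137) (nat_lit 76) (nat_lit 234606727624) (nat_lit 76) (nat_lit 233034044356) (nat_lit 1) (nat_lit 4) (nat_lit 2) (nat_lit 5) (nat_lit 2) (nat_lit 4) (nat_lit 339) (nat_lit 233) (nat_lit 208))))) (XT.nd (nat_lit 312) (nat_lit 0) (nat_lit 0) (XT.nd (nat_lit 156) (nat_lit 0) (nat_lit 0) (XT.nd (nat_lit 78) (nat_lit 0) (nat_lit 0) (XT.lf (nat_lit 0) (nat_lit 60218583769) (nat_lit 76) (nat_lit 252084431918) (nat_lit 76) (nat_lit 250491829774) (nat_lit 1) (nat_lit 4) (nat_lit 2) (nat_lit 5) (nat_lit 2) (nat_lit 4) (nat_lit 340) (nat_lit 233) (nat_lit 207)) (XT.lf (nat_lit 0) (nat_lit 67373710282) (nat_lit 76) (nat_lit 270978944599) (nat_lit 76) (nat_lit 269367899050) (nat_lit 1) (nat_lit 4) (nat_lit 2) (nat_lit 5) (nat_lit 2) (nat_lit 4) (nat_lit 341) (nat_lit 233) (nat_lit 206))) (XT.nd (nat_lit 78) (nat_lit 0) (nat_lit 0) (XT.lf (nat_lit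 0) (nat_lit 75065473428) (nat_lit 76) (nat_lit 291402233148) (nat_lit 76) (nat_lit 289774110373) (nat_lit 1) (nat_lit 4) (nat_lit 2) (nat_lit 5) (nat_lit 2) (nat_lit 4) (nat_lit 342) (nat_lit 233) (nat_lit 205)) (XT.lf (nat_lit 0) (nat_lit 83339454024) (nat_lit 76) (nat_lit 313475324461) (nat_lit 76) (nat_lit 311831389439) (nat_lit 1) (nat_lit 4) (nat_lit 2) (nat_lit 5) (nat_lit 2) (nat_lit 4) (nat_lit 343) (nat_lit 233) (nat_lit 204)))) (XT.nd (nat_lit 156) (nat_lit 0) (nat_lit 0) (XT.nd (nat_lit 78) (nat_lit 0) (nat_lit 0) (XT.lf (nat_lit 0) (nat_lit 92244683066) (nat_lit 76) (nat_lit 337329022041) (nat_lit 76) (nat_lit 335670446050) (nat_lit 1) (nat_lit 4) (nat_lit 2) (nat_lit 5) (nat_lit 2) (nat_lit 4) (nat_lit 344) (nat_lit 233) (nat_lit 203)) (XT.lf (nat_lit 0) (nat_lit 101833932283) (nat_lit 76) (nat_lit 363104681134) (nat_lit 76) (nat_lit 361432548691) (nat_lit 1) (nat_lit 4)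 (nat_lit 2) (nat_lit 5) (nat_lit 2) (nat_lit 4) (nat_lit 345) (nat_lit 233) (nat_lit 202))) (XT.nd (nat_lit 78) (nat_lit 0) (nat_lit 0) (XT.lf (nat_lit 0) (nat_lit 112164026854) (nat_lit 76) (nat_lit 390955046387) (nat_lit 76) (nat_lit 389270361672) (nat_lit 1) (nat_lit 4) (nat_lit 2) (nat_lit 5) (nat_lit 2) (nat_lit 4) (nat_lit 346) (nat_lit 233) (nat_lit 201)) (XT.lf (nat_lit 0) (nat_lit 123296182155) (nat_lit 76) (nat_lit 421045157000) (nat_lit 76) (nat_lit 419348849812) (nat_lit 1) (nat_lit 4) (nat_lit 2) (nat_lit 5) (nat_lit 2) (nat_lit 4) (nat_lit 347) (nat_lit 233) (nat_lit 200))))))))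
noncomputable def xc13 : XT := (XT.nd (nat_lit 38454) (nat_lit 0) (nat_lit 0) (XT.nd (nat_lit 1092) (nat_lit 0) (nat_lit 0) (XT.nd (nat_lit 546) (nat_lit 0) (nat_lit 0) (XT.nd (nat_lit 234) (nat_lit 0) (nat_lit 0) (XT.nd (nat_lit 78) (nat_lit 0) (nat_lit 0) (XT.lf (nat_lit 0) (nat_lit 135296366514) (nat_lit 76) (nat_lit 453553324740) (nat_lit 76) (nat_lit 451846256003) (nat_lit 1) (nat_lit 4) (nat_lit 2) (nat_lit 5) (nat_lit 2) (nat_lit 4) (nat_lit 348) (nat_lit 233) (nat_lit 199)) (XT.nd (nat_lit 78) (nat_lit 0) (nat_lit 0) (XT.lf (nat_lit 0) (nat_lit 148235692134) (nat_lit 76) (nat_lit 488672190602) (nat_lit 76) (nat_lit 486955157467) (nat_lit 1) (nat_lit 4) (nat_lit 2) (nat_lit 5) (nat_lit 2) (nat_lit 4) (nat_lit 349) (nat_lit 233) (nat_lit 198)) (XT.lf (nat_lit 0) (nat_lit 162190836501) (nat_lit 76) (nat_lit 526609866383) (nat_lit 76) (nat_lit 524883606954) (nat_lit 1) (nat_lit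 4) (nat_lit 2) (nat_lit 5) (nat_lit 2) (nat_lit 4) (nat_lit 350) (nat_lit 233) (nat_lit 197)))) (XT.nd (nat_lit 156) (nat_lit 0) (nat_lit 0) (XT.nd (nat_lit 78) (nat_lit 0) (nat_lit 0) (XT.lf (nat_lit 0) (nat_lit 177244496766) (nat_lit 76) (nat_lit 567591167939) (nat_lit 76) (nat_lit 565856365645) (nat_lit 1) (nat_lit 4) (nat_lit 2) (nat_lit 5) (nat_lit 2) (nat_lit 4) (nat_lit 351) (nat_lit 233) (nat_lit 196)) (XT.lf (nat_lit 0) (nat_lit 193485879805) (nat_lit 76) (nat_lit 611858947428) (nat_lit 76) (nat_lit 610116235074) (nat_lit 1) (nat_lit 4) (nat_lit 2) (nat_lit 5) (nat_lit 2) (nat_lit 4) (nat_lit 352) (nat_lit 233) (nat_lit 195))) (XT.nd (nat_lit 78) (nat_lit 0) (nat_lit 0) (XT.lf (nat_lit 0) (nat_lit 211011230850) (nat_lit 76) (nat_lit 659675532432) (nat_lit 76) (nat_lit 657925495948) (nat_lit 1) (nat_lit 4) (nat_lit 2) (nat_lit 5) (nat_lit 2) (nat_lit 4) (nat_lit 353) (nat_lit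 233) (nat_lit 194)) (XT.lf (nat_lit 0) (nat_lit 229924403835) (nat_lit 76) (nat_lit 711324280492) (nat_lit 76) (nat_lit 709567462406) (nat_lit 1) (nat_lit 4) (nat_lit 2) (nat_lit 5) (nat_lit 2) (nat_lit 4) (nat_lit 354) (nat_lit 233) (nat_lit 193))))) (XT.nd (nat_lit 234) (nat_lit 0) (nat_lit 0) (XT.nd (nat_lit 78) (nat_lit 0) (nat_lit 0) (XT.lf (nat_lit 0) (nat_lit 250337476820) (nat_lit 76) (nat_lit 767111258262) (nat_lit 76) (nat_lit 765348160916) (nat_lit 1) (nat_lit 4) (nat_lit 2) (nat_lit 5) (nat_lit 2) (nat_lit 4) (nat_lit 355) (nat_lit 233) (nat_lit 192)) (XT.nd (nat_lit 78) (nat_lit 0) (nat_lit 0) (XT.lf (nat_lit 0) (nat_lit 272371416165) (nat_lit 76) (nat_lit 827367055242) (nat_lit 76) (nat_lit 825598143766) (nat_lit 1) (nat_lit 4) (nat_lit 2) (nat_lit 5) (nat_lit 2) (nat_lit 4) (nat_lit 356) (nat_lit 233) (nat_lit 191)) (XT.lf (nat_lit 0) (nat_lit 296156793361) (nat_lit 76)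 (nat_lit 892448742820) (nat_lit 76) (nat_lit 890674447890) (nat_lit 1) (nat_lit 4) (nat_lit 2) (nat_lit 5) (nat_lit 2) (nat_lit 4) (nat_lit 357) (nat_lit 233) (nat_lit 190)))) (XT.nd (nat_lit 156) (nat_lit 0) (nat_lit 0) (XT.nd (nat_lit 78) (nat_lit 0) (nat_lit 0) (XT.lf (nat_lit 0) (nat_lit 321834558793) (nat_lit 76) (nat_lit 962741990256) (nat_lit 76) (nat_lit 960962710646) (nat_lit 1) (nat_lit 4) (nat_lit 2) (nat_lit 5) (nat_lit 2) (nat_lit 4) (nat_lit 358) (nat_lit 233) (nat_lit 189)) (XT.lf (nat_lit 0) (nat_lit 349556876996) (nat_lit 76) (nat_lit 1038663350127) (nat_lit 76) (nat_lit 1036879455074) (nat_lit 1) (nat_lit 4) (nat_lit 2) (nat_lit 5) (nat_lit 2) (nat_lit 4) (nat_lit 359) (nat_lit 233) (nat_lit 188))) (XT.nd (nat_lit 78) (nat_lit 0) (nat_lit 0) (XT.lf (nat_lit 0) (nat_lit 379488028374) (nat_lit 76) (nat_lit 1120662726789) (nat_lit 76) (nat_lit 1118874558176) (nat_lit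 1) (nat_lit 4) (nat_lit 2) (nat_lit 5) (nat_lit 2) (nat_lit 4) (nat_lit 360) (nat_lit 233) (nat_lit 187)) (XT.lf (nat_lit 0) (nat_lit 411805382713) (nat_lit 76) (nat_lit 1209226042473) (nat_lit 76) (nat_lit 1207433916861) (nat_lit 1) (nat_lit 4) (nat_lit 2) (nat_lit 5) (nat_lit 2) (nat_lit 4) (nat_lit 361) (nat_lit 233) (nat_lit 186)))))) (XT.nd (nat_lit 36738) (nat_lit 0) (nat_lit 76) (XT.nd (nat_lit 234) (nat_lit 0) (nat_lit 0) (XT.nd (nat_lit 78) (nat_lit 0) (nat_lit 0) (XT.lf (nat_lit 0) (nat_lit 446700450262) (nat_lit 76) (nat_lit 1304878116828) (nat_lit 76) (nat_lit 1303082327327) (nat_lit 1) (nat_lit 4) (nat_lit 2) (nat_lit 5) (nat_lit 2) (nat_lit 4) (nat_lit 362) (nat_lit 233) (nat_lit 185)) (XT.nd (nat_lit 78) (nat_lit 0) (nat_lit 0) (XT.lf (nat_lit 0) (nat_lit 484380016605) (nat_lit 76) (nat_lit 1408185776961) (nat_lit 76) (nat_lit 1406386594971) (nat_lit 1) (nat_lit 4) (nat_lit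 2) (nat_lit 5) (nat_lit 2) (nat_lit 4) (nat_lit 363) (nat_lit 233) (nat_lit 184)) (XT.lf (nat_lit 0) (nat_lit 525067368061) (nat_lit 76) (nat_lit 1519761216413) (nat_lit 76) (nat_lit 1517958893230) (nat_lit 1) (nat_lit 4) (nat_lit 2) (nat_lit 5) (nat_lit 2) (nat_lit 4) (nat_lit 364) (nat_lit 233) (nat_lit 183)))) (XT.nd (nat_lit 156) (nat_lit 0) (nat_lit 0) (XT.nd (nat_lit 78) (nat_lit 0) (nat_lit 0) (XT.lf (nat_lit 0) (nat_lit 569003614863) (nat_lit 76) (nat_lit 1640265622975) (nat_lit 76) (nat_lit 1638460391279) (nat_lit 1) (nat_lit 4) (nat_lit 2) (nat_lit 5) (nat_lit 2) (nat_lit 4) (nat_lit 365) (nat_lit 233) (nat_lit 182)) (XT.lf (nat_lit 0) (nat_lit 616449119952) (nat_lit 76) (nat_lit 1770413096833) (nat_lit 76) (nat_lit 1768605172069) (nat_lit 1) (nat_lit 4) (nat_lit 2) (nat_lit 5) (nat_lit 2) (nat_lit 4) (nat_lit 366) (nat_lit 233) (nat_lit 181))) (XT.nd (nat_lit 78) (nat_lit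 0) (nat_lit 0) (XT.lf (nat_lit 0) (nat_lit 667685041879) (nat_lit 76) (nat_lit 1910974882276) (nat_lit 76) (nat_lit 1909164463932) (nat_lit 1) (nat_lit 4) (nat_lit 2) (nat_lit 5) (nat_lit 2) (nat_lit 4) (nat_lit 367) (nat_lit 233) (nat_lit 180)) (XT.lf (nat_lit 0) (nat_lit 723015000922) (nat_lit 76) (nat_lit 2062783938033) (nat_lit 76) (nat_lit 2060971210818) (nat_lit 1) (nat_lit 4) (nat_lit 2) (nat_lit 5) (nat_lit 2) (nat_lit 4) (nat_lit 368) (nat_lit 233) (nat_lit 179))))) (XT.nd (nat_lit 312) (nat_lit 0) (nat_lit 0) (XT.nd (nat_lit 156) (nat_lit 0) (nat_lit 0) (XT.nd (nat_lit 78) (nat_lit 0) (nat_lit 0) (XT.lf (nat_lit 0) (nat_lit 7271213603) (nat_lit 152) (nat_lit 19021386176) (nat_lit 0) (nat_lit 7271213603) (nat_lit 2) (nat_lit 5) (nat_lit 4) (nat_lit 4) (nat_lit 2) (nat_lit 4) (nat_lit 312) (nat_lit 234) (nat_lit 234)) (XT.lf (nat_lit 0) (nat_lit 18446254299) (nat_lit 152) (nat_lit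 35518532581) (nat_lit 0) (nat_lit 18298927251) (nat_lit 2) (nat_lit 5) (nat_lit 4) (nat_lit 4) (nat_lit 2) (nat_lit 4) (nat_lit 313) (nat_lit 234) (nat_lit 233))) (XT.nd (nat_lit 78) (nat_lit 0) (nat_lit 0) (XT.lf (nat_lit 0) (nat_lit 22521012594) (nat_lit 152) (nat_lit 33063819545) (nat_lit 0) (nat_lit 22237271612) (nat_lit 2) (nat_lit 5) (nat_lit 4) (nat_lit 4) (nat_lit 2) (nat_lit 4) (nat_lit 314) (nat_lit 234) (nat_lit 232)) (XT.lf (nat_lit 0) (nat_lit 26790848809) (nat_lit 152) (nat_lit 30664086797) (nat_lit 0) (nat_lit 26380798630) (nat_lit 2) (nat_lit 5) (nat_lit 4) (nat_lit 4) (nat_lit 2) (nat_lit 4) (nat_lit 315) (nat_lit 234) (nat_lit 231)))) (XT.nd (nat_lit 156) (nat_lit 0) (nat_lit 0) (XT.nd (nat_lit 78) (nat_lit 0) (nat_lit 0) (XT.lf (nat_lit 0) (nat_lit 31281065677) (nat_lit 152) (nat_lit 28305113698) (nat_lit 0) (nat_lit 30754062536) (nat_lit 2) (nat_lit 5) (nat_lit 4)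 (nat_lit 4) (nat_lit 2) (nat_lit 4) (nat_lit 316) (nat_lit 234) (nat_lit 230)) (XT.lf (nat_lit 0) (nat_lit 36018271890) (nat_lit 152) (nat_lit 25972921150) (nat_lit 0) (nat_lit 35382978971) (nat_lit 2) (nat_lit 5) (nat_lit 4) (nat_lit 4) (nat_lit 2) (nat_lit 4) (nat_lit 317) (nat_lit 234) (nat_lit 229))) (XT.nd (nat_lit 78) (nat_lit 0) (nat_lit 0) (XT.lf (nat_lit 0) (nat_lit 41030539782) (nat_lit 152) (nat_lit 23653688751) (nat_lit 0) (nat_lit 40294978549) (nat_lit 2) (nat_lit 5) (nat_lit 4) (nat_lit 4) (nat_lit 2) (nat_lit 4) (nat_lit 318) (nat_lit 234) (nat_lit 228)) (XT.lf (nat_lit 0) (nat_lit 46347571680) (nat_lit 152) (nat_lit 21333672902) (nat_lit 0) (nat_lit 45519169416) (nat_lit 2) (nat_lit 5) (nat_lit 4) (nat_lit 4) (nat_lit 2) (nat_lit 4) (nat_lit 319) (nat_lit 234) (nat_lit 227))))))) (XT.nd (nat_lit 1170) (nat_lit 0) (nat_lit 0) (XT.nd (nat_lit 546) (nat_lit 76) (nat_lit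 0) (XT.nd (nat_lit 234) (nat_lit 0) (nat_lit 0) (XT.nd (nat_lit 78) (nat_lit 0) (nat_lit 0) (XT.lf (nat_lit 0) (nat_lit 52000875922) (nat_lit 152) (nat_lit 18999125361) (nat_lit 0) (nat_lit 51086509740) (nat_lit 2) (nat_lit 5) (nat_lit 4) (nat_lit 4) (nat_lit 2) (nat_lit 4) (nat_lit 320) (nat_lit 234) (nat_lit 226)) (XT.nd (nat_lit 78) (nat_lit 0) (nat_lit 0) (XT.lf (nat_lit 0) (nat_lit 58023953570) (nat_lit 152) (nat_lit 16636211773) (nat_lit 0) (nat_lit 57029991168) (nat_lit 2) (nat_lit 5) (nat_lit 4) (nat_lit 4) (nat_lit 2) (nat_lit 4) (nat_lit 321) (nat_lit 234) (nat_lit 225)) (XT.lf (nat_lit 0) (nat_lit 64452496936) (nat_lit 152) (nat_lit 14230929686) (nat_lit 0) (nat_lit 63384834330) (nat_lit 2) (nat_lit 5) (nat_lit 4) (nat_lit 4) (nat_lit 2) (nat_lit 4) (nat_lit 322) (nat_lit 234) (nat_lit 224)))) (XT.nd (nat_lit 156) (nat_lit 0) (nat_lit 0) (XT.nd (nat_lit 78) (nat_lit 0) (nat_lit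 0) (XT.lf (nat_lit 0) (nat_lit 71324601092) (nat_lit 152) (nat_lit 11769025577) (nat_lit 0) (nat_lit 70188697557) (nat_lit 2) (nat_lit 5) (nat_lit 4) (nat_lit 4) (nat_lit 2) (nat_lit 4) (nat_lit 323) (nat_lit 234) (nat_lit 223)) (XT.lf (nat_lit 0) (nat_lit 78680989617) (nat_lit 152) (nat_lit 9235910385) (nat_lit 0) (nat_lit 77481900037) (nat_lit 2) (nat_lit 5) (nat_lit 4) (nat_lit 4) (nat_lit 2) (nat_lit 4) (nat_lit 324) (nat_lit 234) (nat_lit 222))) (XT.nd (nat_lit 78) (nat_lit 0) (nat_lit 0) (XT.lf (nat_lit 0) (nat_lit 86565255927) (nat_lit 152) (nat_lit 6616573056) (nat_lit 0) (nat_lit 85307660748) (nat_lit 2) (nat_lit 5) (nat_lit 4) (nat_lit 4) (nat_lit 2) (nat_lit 4) (nat_lit 325) (nat_lit 234) (nat_lit 221)) (XT.lf (nat_lit 0) (nat_lit 95024121597) (nat_lit 152) (nat_lit 3895491592) (nat_lit 0) (nat_lit 93712354569) (nat_lit 2) (nat_lit 5) (nat_lit 4) (nat_lit 4) (nat_lit 2) (nat_lit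 4) (nat_lit 326) (nat_lit 234) (nat_lit 220))))) (XT.nd (nat_lit 312) (nat_lit 0) (nat_lit 0) (XT.nd (nat_lit 156) (nat_lit 0) (nat_lit 0) (XT.nd (nat_lit 78) (nat_lit 76) (nat_lit 0) (XT.lf (nat_lit 0) (nat_lit 104107713241) (nat_lit 152) (nat_lit 1056541065) (nat_lit 0) (nat_lit 102745787092) (nat_lit 2) (nat_lit 5) (nat_lit 4) (nat_lit 4) (nat_lit 2) (nat_lit 4) (nat_lit 327) (nat_lit 234) (nat_lit 219)) (XT.lf (nat_lit 0) (nat_lit 2018053124) (nat_lit 76) (nat_lit 111900340650) (nat_lit 76) (nat_lit 110491970872) (nat_lit 1) (nat_lit 4) (nat_lit 2) (nat_lit 5) (nat_lit 2) (nat_lit 4) (nat_lit 328) (nat_lit 234) (nat_lit 218))) (XT.nd (nat_lit 78) (nat_lit 0) (nat_lit 0) (XT.lf (nat_lit 0) (nat_lit 5308617545) (nat_lit 76) (nat_lit 119187465112) (nat_lit 76) (nat_lit 117736091972) (nat_lit 1) (nat_lit 4) (nat_lit 2) (nat_lit 5) (nat_lit 2) (nat_lit 4) (nat_lit 329) (nat_lit 234)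 (nat_lit 217)) (XT.lf (nat_lit 0) (nat_lit 8779016256) (nat_lit 76) (nat_lit 127097698355) (nat_lit 76) (nat_lit 125606507288) (nat_lit 1) (nat_lit 4) (nat_lit 2) (nat_lit 5) (nat_lit 2) (nat_lit 4) (nat_lit 330) (nat_lit 234) (nat_lit 216)))) (XT.nd (nat_lit 156) (nat_lit 0) (nat_lit 0) (XT.nd (nat_lit 78) (nat_lit 0) (nat_lit 0) (XT.lf (nat_lit 0) (nat_lit 12449814584) (nat_lit 76) (nat_lit 135677915837) (nat_lit 76) (nat_lit 134149856319) (nat_lit 1) (nat_lit 4) (nat_lit 2) (nat_lit 5) (nat_lit 2) (nat_lit 4) (nat_lit 331) (nat_lit 234) (nat_lit 215)) (XT.lf (nat_lit 0) (nat_lit 16342765407) (nat_lit 76) (nat_lit 144978963290) (nat_lit 76) (nat_lit 143416766318) (nat_lit 1) (nat_lit 4) (nat_lit 2) (nat_lit 5) (nat_lit 2) (nat_lit 4) (nat_lit 332) (nat_lit 234) (nat_lit 214))) (XT.nd (nat_lit 78) (nat_lit 0) (nat_lit 0) (XT.lf (nat_lit 0) (nat_lit 20480938064) (nat_lit 76) (nat_lit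 155055958033) (nat_lit 76) (nat_lit 153462152307) (nat_lit 1) (nat_lit 4) (nat_lit 2) (nat_lit 5) (nat_lit 2) (nat_lit 4) (nat_lit 333) (nat_lit 234) (nat_lit 213)) (XT.lf (nat_lit 0) (nat_lit 24888855059) (nat_lit 76) (nat_lit 165968615591) (nat_lit 76) (nat_lit 164345542500) (nat_lit 1) (nat_lit 4) (nat_lit 2) (nat_lit 5) (nat_lit 2) (nat_lit 4) (nat_lit 334) (nat_lit 234) (nat_lit 212)))))) (XT.nd (nat_lit 546) (nat_lit 0) (nat_lit 0) (XT.nd (nat_lit 234) (nat_lit 0) (nat_lit 0) (XT.nd (nat_lit 78) (nat_lit 0) (nat_lit 0) (XT.lf (nat_lit 0) (nat_lit 29592637382) (nat_lit 76) (nat_lit 177781603564) (nat_lit 76) (nat_lit 176131431061) (nat_lit 1) (nat_lit 4) (nat_lit 2) (nat_lit 5) (nat_lit 2) (nat_lit 4) (nat_lit 335) (nat_lit 234) (nat_lit 211)) (XT.nd (nat_lit 78) (nat_lit 0) (nat_lit 0) (XT.lf (nat_lit 0) (nat_lit 34620159299) (nat_lit 76) (nat_lit 190564924843) (nat_lit 76) (nat_lit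 188889660291) (nat_lit 1) (nat_lit 4) (nat_lit 2) (nat_lit 5) (nat_lit 2) (nat_lit 4) (nat_lit 336) (nat_lit 234) (nat_lit 210)) (XT.lf (nat_lit 0) (nat_lit 40001213532) (nat_lit 76) (nat_lit 204394332443) (nat_lit 76) (nat_lit 202695834514) (nat_lit 1) (nat_lit 4) (nat_lit 2) (nat_lit 5) (nat_lit 2) (nat_lit 4) (nat_lit 337) (nat_lit 234) (nat_lit 209)))) (XT.nd (nat_lit 156) (nat_lit 0) (nat_lit 0) (XT.nd (nat_lit 78) (nat_lit 0) (nat_lit 0) (XT.lf (nat_lit 0) (nat_lit 45767687810) (nat_lit 76) (nat_lit 219351778409) (nat_lit 76) (nat_lit 217631768093) (nat_lit 1) (nat_lit 4) (nat_lit 2) (nat_lit 5) (nat_lit 2) (nat_lit 4) (nat_lit 338) (nat_lit 234) (nat_lit 208)) (XT.lf (nat_lit 0) (nat_lit 51953753832) (nat_lit 76) (nat_lit 235525899459) (nat_lit 76) (nat_lit 233785970266) (nat_lit 1) (nat_lit 4) (nat_lit 2) (nat_lit 5) (nat_lit 2) (nat_lit 4) (nat_lit 339) (nat_lit 234) (nat_lit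 207))) (XT.nd (nat_lit 78) (nat_lit 0) (nat_lit 0) (XT.lf (nat_lit 0) (nat_lit 58596069767) (nat_lit 76) (nat_lit 253012542235) (nat_lit 76) (nat_lit 251254169638) (nat_lit 1) (nat_lit 4) (nat_lit 2) (nat_lit 5) (nat_lit 2) (nat_lit 4) (nat_lit 340) (nat_lit 234) (nat_lit 206)) (XT.lf (nat_lit 0) (nat_lit 65733997488) (nat_lit 76) (nat_lit 271915331288) (nat_lit 76) (nat_lit 270139881464) (nat_lit 1) (nat_lit 4) (nat_lit 2) (nat_lit 5) (nat_lit 2) (nat_lit 4) (nat_lit 341) (nat_lit 234) (nat_lit 205))))) (XT.nd (nat_lit 312) (nat_lit 0) (nat_lit 0) (XT.nd (nat_lit 156) (nat_lit 0) (nat_lit 0) (XT.nd (nat_lit 78) (nat_lit 0) (nat_lit 0) (XT.lf (nat_lit 0) (nat_lit 73409835825) (nat_lit 76) (nat_lit 292346283145) (nat_lit 76) (nat_lit 290555021074) (nat_lit 1) (nat_lit 4) (nat_lit 2) (nat_lit 5) (nat_lit 2) (nat_lit 4) (nat_lit 342) (nat_lit 234) (nat_lit 204)) (XT.lf (nat_lit 0) (nat_lit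 81669071228) (nat_lit 76) (nat_lit 314426470113) (nat_lit 76) (nat_lit 312620567073) (nat_lit 1) (nat_lit 4) (nat_lit 2) (nat_lit 5) (nat_lit 2) (nat_lit 4) (nat_lit 343) (nat_lit 234) (nat_lit 203))) (XT.nd (nat_lit 78) (nat_lit 0) (nat_lit 0) (XT.lf (nat_lit 0) (nat_lit 90560647314) (nat_lit 76) (nat_lit 338286737744) (nat_lit 76) (nat_lit 336467278252) (nat_lit 1) (nat_lit 4) (nat_lit 2) (nat_lit 5) (nat_lit 2) (nat_lit 4) (nat_lit 344) (nat_lit 234) (nat_lit 202)) (XT.lf (nat_lit 0) (nat_lit 100137254905) (nat_lit 76) (nat_lit 364068480218) (nat_lit 76) (nat_lit 362236468455) (nat_lit 1) (nat_lit 4) (nat_lit 2) (nat_lit 5) (nat_lit 2) (nat_lit 4) (nat_lit 345) (nat_lit 234) (nat_lit 201)))) (XT.nd (nat_lit 156) (nat_lit 0) (nat_lit 0) (XT.nd (nat_lit 78) (nat_lit 0) (nat_lit 0) (XT.lf (nat_lit 0) (nat_lit 110455644266) (nat_lit 76) (nat_lit 391924478230) (nat_lit 76) (nat_lit 390080843994)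 (nat_lit 1) (nat_lit 4) (nat_lit 2) (nat_lit 5) (nat_lit 2) (nat_lit 4) (nat_lit 346) (nat_lit 234) (nat_lit 200)) (XT.lf (nat_lit 0) (nat_lit 121576961411) (nat_lit 76) (nat_lit 422019804362) (nat_lit 76) (nat_lit 420165408576) (nat_lit 1) (nat_lit 4) (nat_lit 2) (nat_lit 5) (nat_lit 2) (nat_lit 4) (nat_lit 347) (nat_lit 234) (nat_lit 199))) (XT.nd (nat_lit 78) (nat_lit 0) (nat_lit 0) (XT.lf (nat_lit 0) (nat_lit 133567110439) (nat_lit 76) (nat_lit 454532801286) (nat_lit 76) (nat_lit 452668441102) (nat_lit 1) (nat_lit 4) (nat_lit 2) (nat_lit 5) (nat_lit 2) (nat_lit 4) (nat_lit 348) (nat_lit 234) (nat_lit 198)) (XT.lf (nat_lit 0) (nat_lit 146497144087) (nat_lit 76) (nat_lit 489656138614) (nat_lit 76) (nat_lit 487782552136) (nat_lit 1) (nat_lit 4) (nat_lit 2) (nat_lit 5) (nat_lit 2) (nat_lit 4) (nat_lit 349) (nat_lit 234) (nat_lit 197))))))))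
noncomputable def xc14 : XT := (XT.nd (nat_lit 38298) (nat_lit 0) (nat_lit 0) (XT.nd (nat_lit 1092) (nat_lit 0) (nat_lit 0) (XT.nd (nat_lit 546) (nat_lit 0) (nat_lit 0) (XT.nd (nat_lit 234) (nat_lit 0) (nat_lit 0) (XT.nd (nat_lit 78) (nat_lit 0) (nat_lit 0) (XT.lf (nat_lit 0) (nat_lit 160443684775) (nat_lit 76) (nat_lit 527597954641) (nat_lit 76) (nat_lit 525715825299) (nat_lit 1) (nat_lit 4) (nat_lit 2) (nat_lit 5) (nat_lit 2) (nat_lit 4) (nat_lit 350) (nat_lit 234) (nat_lit 196)) (XT.nd (nat_lit 78) (nat_lit 0) (nat_lit 0) (XT.lf (nat_lit 0) (nat_lit 175489378671) (nat_lit 76) (nat_lit 568583089759) (nat_lit 76) (nat_lit 566693050357) (nat_lit 1) (nat_lit 4) (nat_lit 2) (nat_lit 5) (nat_lit 2) (nat_lit 4) (nat_lit 351) (nat_lit 234) (nat_lit 195)) (XT.lf (nat_lit 0) (nat_lit 191723385442) (nat_lit 76) (nat_lit 612854418842) (nat_lit 76) (nat_lit 610957055310) (nat_lit 1) (nat_lit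 4) (nat_lit 2) (nat_lit 5) (nat_lit 2) (nat_lit 4) (nat_lit 352) (nat_lit 234) (nat_lit 194)))) (XT.nd (nat_lit 156) (nat_lit 0) (nat_lit 0) (XT.nd (nat_lit 78) (nat_lit 0) (nat_lit 0) (XT.lf (nat_lit 0) (nat_lit 209241906611) (nat_lit 76) (nat_lit 660674290508) (nat_lit 76) (nat_lit 658770145374) (nat_lit 1) (nat_lit 4) (nat_lit 2) (nat_lit 5) (nat_lit 2) (nat_lit 4) (nat_lit 353) (nat_lit 234) (nat_lit 193)) (XT.lf (nat_lit 0) (nat_lit 228148755635) (nat_lit 76) (nat_lit 712326081772) (nat_lit 76) (nat_lit 710415657378) (nat_lit 1) (nat_lit 4) (nat_lit 2) (nat_lit 5) (nat_lit 2) (nat_lit 4) (nat_lit 354) (nat_lit 234) (nat_lit 192))) (XT.nd (nat_lit 78) (nat_lit 0) (nat_lit 0) (XT.lf (nat_lit 0) (nat_lit 248555973101) (nat_lit 76) (nat_lit 768115877325) (nat_lit 76) (nat_lit 766199638801) (nat_lit 1) (nat_lit 4) (nat_lit 2) (nat_lit 5) (nat_lit 2) (nat_lit 4) (nat_lit 355) (nat_lit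 234) (nat_lit 191)) (XT.lf (nat_lit 0) (nat_lit 270584490669) (nat_lit 76) (nat_lit 828374283363) (nat_lit 76) (nat_lit 826452661384) (nat_lit 1) (nat_lit 4) (nat_lit 2) (nat_lit 5) (nat_lit 2) (nat_lit 4) (nat_lit 356) (nat_lit 234) (nat_lit 190))))) (XT.nd (nat_lit 234) (nat_lit 0) (nat_lit 0) (XT.nd (nat_lit 78) (nat_lit 0) (nat_lit 0) (XT.lf (nat_lit 0) (nat_lit 294364847702) (nat_lit 76) (nat_lit 893458386735) (nat_lit 76) (nat_lit 891531780077) (nat_lit 1) (nat_lit 4) (nat_lit 2) (nat_lit 5) (nat_lit 2) (nat_lit 4) (nat_lit 357) (nat_lit 234) (nat_lit 189)) (XT.nd (nat_lit 78) (nat_lit 0) (nat_lit 0) (XT.lf (nat_lit 0) (nat_lit 320037964834) (nat_lit 76) (nat_lit 963753871017) (nat_lit 76) (nat_lit 961822648915) (nat_lit 1) (nat_lit 4) (nat_lit 2) (nat_lit 5) (nat_lit 2) (nat_lit 4) (nat_lit 358) (nat_lit 234) (nat_lit 188)) (XT.lf (nat_lit 0) (nat_lit 347755979055) (nat_lit 76)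 (nat_lit 1039677302043) (nat_lit 76) (nat_lit 1037741806381) (nat_lit 1) (nat_lit 4) (nat_lit 2) (nat_lit 5) (nat_lit 2) (nat_lit 4) (nat_lit 359) (nat_lit 234) (nat_lit 187)))) (XT.nd (nat_lit 156) (nat_lit 0) (nat_lit 0) (XT.nd (nat_lit 78) (nat_lit 0) (nat_lit 0) (XT.lf (nat_lit 0) (nat_lit 377683145266) (nat_lit 76) (nat_lit 1121678596440) (nat_lit 76) (nat_lit 1119739143779) (nat_lit 1) (nat_lit 4) (nat_lit 2) (nat_lit 5) (nat_lit 2) (nat_lit 4) (nat_lit 360) (nat_lit 234) (nat_lit 186)) (XT.lf (nat_lit 0) (nat_lit 409996809635) (nat_lit 76) (nat_lit 1210243687804) (nat_lit 76) (nat_lit 1208300571255) (nat_lit 1) (nat_lit 4) (nat_lit 2) (nat_lit 5) (nat_lit 2) (nat_lit 4) (nat_lit 361) (nat_lit 234) (nat_lit 185))) (XT.nd (nat_lit 78) (nat_lit 0) (nat_lit 0) (XT.lf (nat_lit 0) (nat_lit 444888460544) (nat_lit 76) (nat_lit 1305897406308) (nat_lit 76) (nat_lit 1303950897270) (nat_lit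 1) (nat_lit 4) (nat_lit 2) (nat_lit 5) (nat_lit 2) (nat_lit 4) (nat_lit 362) (nat_lit 234) (nat_lit 184)) (XT.lf (nat_lit 0) (nat_lit 482564863332) (nat_lit 76) (nat_lit 1409206588801) (nat_lit 76) (nat_lit 1407256938569) (nat_lit 1) (nat_lit 4) (nat_lit 2) (nat_lit 5) (nat_lit 2) (nat_lit 4) (nat_lit 363) (nat_lit 234) (nat_lit 183)))))) (XT.nd (nat_lit 36582) (nat_lit 0) (nat_lit 76) (XT.nd (nat_lit 234) (nat_lit 0) (nat_lit 0) (XT.nd (nat_lit 78) (nat_lit 0) (nat_lit 0) (XT.lf (nat_lit 0) (nat_lit 523249285572) (nat_lit 76) (nat_lit 1520783437847) (nat_lit 76) (nat_lit 1518830879102) (nat_lit 1) (nat_lit 4) (nat_lit 2) (nat_lit 5) (nat_lit 2) (nat_lit 4) (nat_lit 364) (nat_lit 234) (nat_lit 182)) (XT.nd (nat_lit 78) (nat_lit 0) (nat_lit 0) (XT.lf (nat_lit 0) (nat_lit 567182820135) (nat_lit 76) (nat_lit 1641289149587) (nat_lit 76) (nat_lit 1639333897775) (nat_lit 1) (nat_lit 4) (nat_lit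 2) (nat_lit 5) (nat_lit 2) (nat_lit 4) (nat_lit 365) (nat_lit 234) (nat_lit 181)) (XT.lf (nat_lit 0) (nat_lit 614625813893) (nat_lit 76) (nat_lit 1771437831943) (nat_lit 76) (nat_lit 1769480086550) (nat_lit 1) (nat_lit 4) (nat_lit 2) (nat_lit 5) (nat_lit 2) (nat_lit 4) (nat_lit 366) (nat_lit 234) (nat_lit 180)))) (XT.nd (nat_lit 36192) (nat_lit 0) (nat_lit 76) (XT.nd (nat_lit 78) (nat_lit 0) (nat_lit 0) (XT.lf (nat_lit 0) (nat_lit 665859410512) (nat_lit 76) (nat_lit 1912000736366) (nat_lit 76) (nat_lit 1910040682102) (nat_lit 1) (nat_lit 4) (nat_lit 2) (nat_lit 5) (nat_lit 2) (nat_lit 4) (nat_lit 367) (nat_lit 234) (nat_lit 179)) (XT.lf (nat_lit 0) (nat_lit 721187216492) (nat_lit 76) (nat_lit 2063810828216) (nat_lit 76) (nat_lit 2061848636109) (nat_lit 1) (nat_lit 4) (nat_lit 2) (nat_lit 5) (nat_lit 2) (nat_lit 4) (nat_lit 368) (nat_lit 234) (nat_lit 178))) (XT.nd (nat_lit 78) (nat_lit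 0) (nat_lit 0) (XT.lf (nat_lit 0) (nat_lit 3697149626) (nat_lit 152) (nat_lit 21603968428) (nat_lit 0) (nat_lit 3697149626) (nat_lit 2) (nat_lit 5) (nat_lit 4) (nat_lit 4) (nat_lit 2) (nat_lit 4) (nat_lit 310) (nat_lit 235) (nat_lit 235)) (XT.lf (nat_lit 0) (nat_lit 10945510741) (nat_lit 152) (nat_lit 40651497319) (nat_lit 0) (nat_lit 10786397529) (nat_lit 2) (nat_lit 5) (nat_lit 4) (nat_lit 4) (nat_lit 2) (nat_lit 4) (nat_lit 311) (nat_lit 235) (nat_lit 234))))) (XT.nd (nat_lit 312) (nat_lit 0) (nat_lit 0) (XT.nd (nat_lit 156) (nat_lit 0) (nat_lit 0) (XT.nd (nat_lit 78) (nat_lit 0) (nat_lit 0) (XT.lf (nat_lit 0) (nat_lit 14628134188) (nat_lit 152) (nat_lit 38183725810) (nat_lit 0) (nat_lit 14321693928) (nat_lit 2) (nat_lit 5) (nat_lit 4) (nat_lit 4) (nat_lit 2) (nat_lit 4) (nat_lit 312) (nat_lit 235) (nat_lit 233)) (XT.lf (nat_lit 0) (nat_lit 18463992548) (nat_lit 152) (nat_lit 35789998499)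 (nat_lit 0) (nat_lit 18021138353) (nat_lit 2) (nat_lit 5) (nat_lit 4) (nat_lit 4) (nat_lit 2) (nat_lit 4) (nat_lit 313) (nat_lit 235) (nat_lit 232))) (XT.nd (nat_lit 78) (nat_lit 0) (nat_lit 0) (XT.lf (nat_lit 0) (nat_lit 22475816831) (nat_lit 152) (nat_lit 33456130333) (nat_lit 0) (nat_lit 21906653439) (nat_lit 2) (nat_lit 5) (nat_lit 4) (nat_lit 4) (nat_lit 2) (nat_lit 4) (nat_lit 314) (nat_lit 235) (nat_lit 231)) (XT.lf (nat_lit 0) (nat_lit 26687380814) (nat_lit 152) (nat_lit 31168290984) (nat_lit 0) (nat_lit 26001264461) (nat_lit 2) (nat_lit 5) (nat_lit 4) (nat_lit 4) (nat_lit 2) (nat_lit 4) (nat_lit 315) (nat_lit 235) (nat_lit 230)))) (XT.nd (nat_lit 156) (nat_lit 0) (nat_lit 0) (XT.nd (nat_lit 78) (nat_lit 0) (nat_lit 0) (XT.lf (nat_lit 0) (nat_lit 31123641910) (nat_lit 152) (nat_lit 28912922884) (nat_lit 0) (nat_lit 30329235779) (nat_lit 2) (nat_lit 5) (nat_lit 4) (nat_lit 4)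 (nat_lit 2) (nat_lit 4) (nat_lit 316) (nat_lit 235) (nat_lit 229)) (XT.lf (nat_lit 0) (nat_lit 35810889076) (nat_lit 152) (nat_lit 26676660890) (nat_lit 0) (nat_lit 34916214631) (nat_lit 2) (nat_lit 5) (nat_lit 4) (nat_lit 4) (nat_lit 2) (nat_lit 4) (nat_lit 317) (nat_lit 235) (nat_lit 228))) (XT.nd (nat_lit 78) (nat_lit 0) (nat_lit 0) (XT.lf (nat_lit 0) (nat_lit 40776898590) (nat_lit 152) (nat_lit 24446253079) (nat_lit 0) (nat_lit 39789383114) (nat_lit 2) (nat_lit 5) (nat_lit 4) (nat_lit 4) (nat_lit 2) (nat_lit 4) (nat_lit 318) (nat_lit 235) (nat_lit 227)) (XT.lf (nat_lit 0) (nat_lit 46051098657) (nat_lit 152) (nat_lit 22208482219) (nat_lit 0) (nat_lit 44977619263) (nat_lit 2) (nat_lit 5) (nat_lit 4) (nat_lit 4) (nat_lit 2) (nat_lit 4) (nat_lit 319) (nat_lit 235) (nat_lit 226))))))) (XT.nd (nat_lit 1170) (nat_lit 0) (nat_lit 0) (XT.nd (nat_lit 546) (nat_lit 76) (nat_lit 0) (XT.nd (nat_lit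 234) (nat_lit 0) (nat_lit 0) (XT.nd (nat_lit 78) (nat_lit 0) (nat_lit 0) (XT.lf (nat_lit 0) (nat_lit 51664743797) (nat_lit 152) (nat_lit 19950087445) (nat_lit 0) (nat_lit 50511668183) (nat_lit 2) (nat_lit 5) (nat_lit 4) (nat_lit 4) (nat_lit 2) (nat_lit 4) (nat_lit 320) (nat_lit 235) (nat_lit 225)) (XT.nd (nat_lit 78) (nat_lit 0) (nat_lit 0) (XT.lf (nat_lit 0) (nat_lit 57651100054) (nat_lit 152) (nat_lit 17657685678) (nat_lit 0) (nat_lit 56424324236) (nat_lit 2) (nat_lit 5) (nat_lit 4) (nat_lit 4) (nat_lit 2) (nat_lit 4) (nat_lit 321) (nat_lit 235) (nat_lit 224)) (XT.lf (nat_lit 0) (nat_lit 64045642131) (nat_lit 152) (nat_lit 15317692315) (nat_lit 0) (nat_lit 62750625384) (nat_lit 2) (nat_lit 5) (nat_lit 4) (nat_lit 4) (nat_lit 2) (nat_lit 4) (nat_lit 322) (nat_lit 235) (nat_lit 223)))) (XT.nd (nat_lit 156) (nat_lit 0) (nat_lit 0) (XT.nd (nat_lit 78) (nat_lit 0) (nat_lit 0) (XT.lf (nat_lit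 0) (nat_lit 70886263613) (nat_lit 152) (nat_lit 12916240728) (nat_lit 0) (nat_lit 69528060820) (nat_lit 2) (nat_lit 5) (nat_lit 4) (nat_lit 4) (nat_lit 2) (nat_lit 4) (nat_lit 323) (nat_lit 235) (nat_lit 222)) (XT.lf (nat_lit 0) (nat_lit 78213501514) (nat_lit 152) (nat_lit 10439100093) (nat_lit 0) (nat_lit 76796793123) (nat_lit 2) (nat_lit 5) (nat_lit 4) (nat_lit 4) (nat_lit 2) (nat_lit 4) (nat_lit 324) (nat_lit 235) (nat_lit 221))) (XT.nd (nat_lit 78) (nat_lit 0) (nat_lit 0) (XT.lf (nat_lit 0) (nat_lit 86070776505) (nat_lit 152) (nat_lit 7871591057) (nat_lit 0) (nat_lit 84599896264) (nat_lit 2) (nat_lit 5) (nat_lit 4) (nat_lit 4) (nat_lit 2) (nat_lit 4) (nat_lit 325) (nat_lit 235) (nat_lit 220)) (XT.lf (nat_lit 0) (nat_lit 94504650213) (nat_lit 152) (nat_lit 5198498754) (nat_lit 0) (nat_lit 92983610852) (nat_lit 2) (nat_lit 5) (nat_lit 4) (nat_lit 4) (nat_lit 2) (nat_lit 4) (nat_lit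 326) (nat_lit 235) (nat_lit 219))))) (XT.nd (nat_lit 312) (nat_lit 0) (nat_lit 0) (XT.nd (nat_lit 156) (nat_lit 0) (nat_lit 0) (XT.nd (nat_lit 78) (nat_lit 76) (nat_lit 0) (XT.lf (nat_lit 0) (nat_lit 103565101152) (nat_lit 152) (nat_lit 2403982636) (nat_lit 0) (nat_lit 101997618161) (nat_lit 2) (nat_lit 5) (nat_lit 4) (nat_lit 4) (nat_lit 2) (nat_lit 4) (nat_lit 327) (nat_lit 235) (nat_lit 218)) (XT.lf (nat_lit 0) (nat_lit 556348182) (nat_lit 76) (nat_lit 112762852885) (nat_lit 76) (nat_lit 111152366533) (nat_lit 1) (nat_lit 4) (nat_lit 2) (nat_lit 5) (nat_lit 2) (nat_lit 4) (nat_lit 328) (nat_lit 235) (nat_lit 217))) (XT.nd (nat_lit 78) (nat_lit 0) (nat_lit 0) (XT.lf (nat_lit 0) (nat_lit 3806811226) (nat_lit 76) (nat_lit 120069274858) (nat_lit 76) (nat_lit 118418970579) (nat_lit 1) (nat_lit 4) (nat_lit 2) (nat_lit 5) (nat_lit 2) (nat_lit 4) (nat_lit 329) (nat_lit 235) (nat_lit 216))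 (XT.lf (nat_lit 0) (nat_lit 7240079033) (nat_lit 76) (nat_lit 127997376168) (nat_lit 76) (nat_lit 126310203439) (nat_lit 1) (nat_lit 4) (nat_lit 2) (nat_lit 5) (nat_lit 2) (nat_lit 4) (nat_lit 330) (nat_lit 235) (nat_lit 215)))) (XT.nd (nat_lit 156) (nat_lit 0) (nat_lit 0) (XT.nd (nat_lit 78) (nat_lit 0) (nat_lit 0) (XT.lf (nat_lit 0) (nat_lit 10876496894) (nat_lit 76) (nat_lit 136594138157) (nat_lit 76) (nat_lit 134872827972) (nat_lit 1) (nat_lit 4) (nat_lit 2) (nat_lit 5) (nat_lit 2) (nat_lit 4) (nat_lit 331) (nat_lit 235) (nat_lit 214)) (XT.lf (nat_lit 0) (nat_lit 14737613952) (nat_lit 76) (nat_lit 145910504597) (nat_lit 76) (nat_lit 144157585659) (nat_lit 1) (nat_lit 4) (nat_lit 2) (nat_lit 5) (nat_lit 2) (nat_lit 4) (nat_lit 332) (nat_lit 235) (nat_lit 213))) (XT.nd (nat_lit 78) (nat_lit 0) (nat_lit 0) (XT.lf (nat_lit 0) (nat_lit 18846310900) (nat_lit 76) (nat_lit 156001683588)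 (nat_lit 76) (nat_lit 154219497285) (nat_lit 1) (nat_lit 4) (nat_lit 2) (nat_lit 5) (nat_lit 2) (nat_lit 4) (nat_lit 333) (nat_lit 235) (nat_lit 212)) (XT.lf (nat_lit 0) (nat_lit 23226935573) (nat_lit 76) (nat_lit 166927474709) (nat_lit 76) (nat_lit 165118188993) (nat_lit 1) (nat_lit 4) (nat_lit 2) (nat_lit 5) (nat_lit 2) (nat_lit 4) (nat_lit 334) (nat_lit 235) (nat_lit 211)))))) (XT.nd (nat_lit 546) (nat_lit 0) (nat_lit 0) (XT.nd (nat_lit 234) (nat_lit 0) (nat_lit 0) (XT.nd (nat_lit 78) (nat_lit 0) (nat_lit 0) (XT.lf (nat_lit 0) (nat_lit 27905447227) (nat_lit 76) (nat_lit 178752623387) (nat_lit 76) (nat_lit 176918245624) (nat_lit 1) (nat_lit 4) (nat_lit 2) (nat_lit 5) (nat_lit 2) (nat_lit 4) (nat_lit 335) (nat_lit 235) (nat_lit 210)) (XT.nd (nat_lit 78) (nat_lit 0) (nat_lit 0) (XT.lf (nat_lit 0) (nat_lit 32909570376) (nat_lit 76) (nat_lit 191547204579) (nat_lit 76) (nat_lit 189689593438)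 (nat_lit 1) (nat_lit 4) (nat_lit 2) (nat_lit 5) (nat_lit 2) (nat_lit 4) (nat_lit 336) (nat_lit 235) (nat_lit 209)) (XT.lf (nat_lit 0) (nat_lit 38268959083) (nat_lit 76) (nat_lit 205387038025) (nat_lit 76) (nat_lit 203507914496) (nat_lit 1) (nat_lit 4) (nat_lit 2) (nat_lit 5) (nat_lit 2) (nat_lit 4) (nat_lit 337) (nat_lit 235) (nat_lit 208)))) (XT.nd (nat_lit 156) (nat_lit 0) (nat_lit 0) (XT.nd (nat_lit 78) (nat_lit 0) (nat_lit 0) (XT.lf (nat_lit 0) (nat_lit 44015372688) (nat_lit 76) (nat_lit 220354137552) (nat_lit 76) (nat_lit 218455095147) (nat_lit 1) (nat_lit 4) (nat_lit 2) (nat_lit 5) (nat_lit 2) (nat_lit 4) (nat_lit 338) (nat_lit 235) (nat_lit 207)) (XT.lf (nat_lit 0) (nat_lit 50182864014) (nat_lit 76) (nat_lit 236537197083) (nat_lit 76) (nat_lit 234619711274) (nat_lit 1) (nat_lit 4) (nat_lit 2) (nat_lit 5) (nat_lit 2) (nat_lit 4) (nat_lit 339) (nat_lit 235) (nat_lit 206))) (XT.nd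 (nat_lit 78) (nat_lit 0) (nat_lit 0) (XT.lf (nat_lit 0) (nat_lit 56807981156) (nat_lit 76) (nat_lit 254032116232) (nat_lit 76) (nat_lit 252097553196) (nat_lit 1) (nat_lit 4) (nat_lit 2) (nat_lit 5) (nat_lit 2) (nat_lit 4) (nat_lit 340) (nat_lit 235) (nat_lit 205)) (XT.lf (nat_lit 0) (nat_lit 63929984069) (nat_lit 76) (nat_lit 272942568592) (nat_lit 76) (nat_lit 270992193310) (nat_lit 1) (nat_lit 4) (nat_lit 2) (nat_lit 5) (nat_lit 2) (nat_lit 4) (nat_lit 341) (nat_lit 235) (nat_lit 204))))) (XT.nd (nat_lit 312) (nat_lit 0) (nat_lit 0) (XT.nd (nat_lit 156) (nat_lit 0) (nat_lit 0) (XT.nd (nat_lit 78) (nat_lit 0) (nat_lit 0) (XT.lf (nat_lit 0) (nat_lit 71591077213) (nat_lit 76) (nat_lit 293380616104) (nat_lit 76) (nat_lit 291415599852) (nat_lit 1) (nat_lit 4) (nat_lit 2) (nat_lit 5) (nat_lit 2) (nat_lit 4) (nat_lit 342) (nat_lit 235) (nat_lit 203)) (XT.lf (nat_lit 0) (nat_lit 79836659660)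 (nat_lit 76) (nat_lit 315467373123) (nat_lit 76) (nat_lit 313488800419) (nat_lit 1) (nat_lit 4) (nat_lit 2) (nat_lit 5) (nat_lit 2) (nat_lit 4) (nat_lit 343) (nat_lit 235) (nat_lit 202))) (XT.nd (nat_lit 78) (nat_lit 0) (nat_lit 0) (XT.lf (nat_lit 0) (nat_lit 88715594120) (nat_lit 76) (nat_lit 339333724135) (nat_lit 76) (nat_lit 337342599160) (nat_lit 1) (nat_lit 4) (nat_lit 2) (nat_lit 5) (nat_lit 2) (nat_lit 4) (nat_lit 344) (nat_lit 235) (nat_lit 201)) (XT.lf (nat_lit 0) (nat_lit 98280496501) (nat_lit 76) (nat_lit 365121099369) (nat_lit 76) (nat_lit 363118351920) (nat_lit 1) (nat_lit 4) (nat_lit 2) (nat_lit 5) (nat_lit 2) (nat_lit 4) (nat_lit 345) (nat_lit 235) (nat_lit 200)))) (XT.nd (nat_lit 156) (nat_lit 0) (nat_lit 0) (XT.nd (nat_lit 78) (nat_lit 0) (nat_lit 0) (XT.lf (nat_lit 0) (nat_lit 108588047705) (nat_lit 76) (nat_lit 392982312900) (nat_lit 76) (nat_lit 390968803901) (nat_lit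 1) (nat_lit 4) (nat_lit 2) (nat_lit 5) (nat_lit 2) (nat_lit 4) (nat_lit 346) (nat_lit 235) (nat_lit 199)) (XT.lf (nat_lit 0) (nat_lit 119699329519) (nat_lit 76) (nat_lit 423082468215) (nat_lit 76) (nat_lit 421058994819) (nat_lit 1) (nat_lit 4) (nat_lit 2) (nat_lit 5) (nat_lit 2) (nat_lit 4) (nat_lit 347) (nat_lit 235) (nat_lit 198))) (XT.nd (nat_lit 78) (nat_lit 0) (nat_lit 0) (XT.lf (nat_lit 0) (nat_lit 131680186575) (nat_lit 76) (nat_lit 455599936605) (nat_lit 76) (nat_lit 453567236916) (nat_lit 1) (nat_lit 4) (nat_lit 2) (nat_lit 5) (nat_lit 2) (nat_lit 4) (nat_lit 348) (nat_lit 235) (nat_lit 197)) (XT.lf (nat_lit 0) (nat_lit 144601616544) (nat_lit 76) (nat_lit 490727414180) (nat_lit 76) (nat_lit 488686171625) (nat_lit 1) (nat_lit 4) (nat_lit 2) (nat_lit 5) (nat_lit 2) (nat_lit 4) (nat_lit 349) (nat_lit 235) (nat_lit 196))))))))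
noncomputable def xc15 : XT := (XT.nd (nat_lit 38142) (nat_lit 0) (nat_lit 0) (XT.nd (nat_lit 1092) (nat_lit 0) (nat_lit 0) (XT.nd (nat_lit 546) (nat_lit 0) (nat_lit 0) (XT.nd (nat_lit 234) (nat_lit 0) (nat_lit 0) (XT.nd (nat_lit 78) (nat_lit 0) (nat_lit 0) (XT.lf (nat_lit 0) (nat_lit 158540190864) (nat_lit 76) (nat_lit 528673063769) (nat_lit 76) (nat_lit 526623911154) (nat_lit 1) (nat_lit 4) (nat_lit 2) (nat_lit 5) (nat_lit 2) (nat_lit 4) (nat_lit 350) (nat_lit 235) (nat_lit 195)) (XT.nd (nat_lit 78) (nat_lit 0) (nat_lit 0) (XT.lf (nat_lit 0) (nat_lit 173578508492) (nat_lit 76) (nat_lit 569661748481) (nat_lit 76) (nat_lit 567605271737) (nat_lit 1) (nat_lit 4) (nat_lit 2) (nat_lit 5) (nat_lit 2) (nat_lit 4) (nat_lit 351) (nat_lit 235) (nat_lit 194)) (XT.lf (nat_lit 0) (nat_lit 189805685386) (nat_lit 76) (nat_lit 613936364226) (nat_lit 76) (nat_lit 611873105880) (nat_lit 1) (nat_lit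 4) (nat_lit 2) (nat_lit 5) (nat_lit 2) (nat_lit 4) (nat_lit 352) (nat_lit 235) (nat_lit 193)))) (XT.nd (nat_lit 156) (nat_lit 0) (nat_lit 0) (XT.nd (nat_lit 78) (nat_lit 0) (nat_lit 0) (XT.lf (nat_lit 0) (nat_lit 207317882594) (nat_lit 76) (nat_lit 661759279096) (nat_lit 76) (nat_lit 659689741489) (nat_lit 1) (nat_lit 4) (nat_lit 2) (nat_lit 5) (nat_lit 2) (nat_lit 4) (nat_lit 353) (nat_lit 235) (nat_lit 192)) (XT.lf (nat_lit 0) (nat_lit 226218876099) (nat_lit 76) (nat_lit 713413888143) (nat_lit 76) (nat_lit 711338536406) (nat_lit 1) (nat_lit 4) (nat_lit 2) (nat_lit 5) (nat_lit 2) (nat_lit 4) (nat_lit 354) (nat_lit 235) (nat_lit 191))) (XT.nd (nat_lit 78) (nat_lit 0) (nat_lit 0) (XT.lf (nat_lit 0) (nat_lit 246620671788) (nat_lit 76) (nat_lit 769206292753) (nat_lit 76) (nat_lit 767125557563) (nat_lit 1) (nat_lit 4) (nat_lit 2) (nat_lit 5) (nat_lit 2) (nat_lit 4) (nat_lit 355) (nat_lit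 235) (nat_lit 190)) (XT.lf (nat_lit 0) (nat_lit 268644169193) (nat_lit 76) (nat_lit 829467114585) (nat_lit 76) (nat_lit 827381394715) (nat_lit 1) (nat_lit 4) (nat_lit 2) (nat_lit 5) (nat_lit 2) (nat_lit 4) (nat_lit 356) (nat_lit 235) (nat_lit 189))))) (XT.nd (nat_lit 234) (nat_lit 0) (nat_lit 0) (XT.nd (nat_lit 78) (nat_lit 0) (nat_lit 0) (XT.lf (nat_lit 0) (nat_lit 292419877926) (nat_lit 76) (nat_lit 894553454803) (nat_lit 76) (nat_lit 892463119489) (nat_lit 1) (nat_lit 4) (nat_lit 2) (nat_lit 5) (nat_lit 2) (nat_lit 4) (nat_lit 357) (nat_lit 235) (nat_lit 188)) (XT.nd (nat_lit 78) (nat_lit 0) (nat_lit 0) (XT.lf (nat_lit 0) (nat_lit 318088691076) (nat_lit 76) (nat_lit 964851010240) (nat_lit 76) (nat_lit 962756401366) (nat_lit 1) (nat_lit 4) (nat_lit 2) (nat_lit 5) (nat_lit 2) (nat_lit 4) (nat_lit 358) (nat_lit 235) (nat_lit 187)) (XT.lf (nat_lit 0) (nat_lit 345802720130) (nat_lit 76)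 (nat_lit 1040776359001) (nat_lit 76) (nat_lit 1038677793128) (nat_lit 1) (nat_lit 4) (nat_lit 2) (nat_lit 5) (nat_lit 2) (nat_lit 4) (nat_lit 359) (nat_lit 235) (nat_lit 186)))) (XT.nd (nat_lit 156) (nat_lit 0) (nat_lit 0) (XT.nd (nat_lit 78) (nat_lit 0) (nat_lit 0) (XT.lf (nat_lit 0) (nat_lit 375726196370) (nat_lit 76) (nat_lit 1122779429078) (nat_lit 76) (nat_lit 1120677199317) (nat_lit 1) (nat_lit 4) (nat_lit 2) (nat_lit 5) (nat_lit 2) (nat_lit 4) (nat_lit 360) (nat_lit 235) (nat_lit 185)) (XT.lf (nat_lit 0) (nat_lit 408036444100) (nat_lit 76) (nat_lit 1211346164592) (nat_lit 76) (nat_lit 1209240542342) (nat_lit 1) (nat_lit 4) (nat_lit 2) (nat_lit 5) (nat_lit 2) (nat_lit 4) (nat_lit 361) (nat_lit 235) (nat_lit 184))) (XT.nd (nat_lit 78) (nat_lit 0) (nat_lit 0) (XT.lf (nat_lit 0) (nat_lit 442924931455) (nat_lit 76) (nat_lit 1307001405456) (nat_lit 76) (nat_lit 1304892642012) (nat_lit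 1) (nat_lit 4) (nat_lit 2) (nat_lit 5) (nat_lit 2) (nat_lit 4) (nat_lit 362) (nat_lit 235) (nat_lit 183)) (XT.lf (nat_lit 0) (nat_lit 480598405026) (nat_lit 76) (nat_lit 1410311997542) (nat_lit 76) (nat_lit 1408200325585) (nat_lit 1) (nat_lit 4) (nat_lit 2) (nat_lit 5) (nat_lit 2) (nat_lit 4) (nat_lit 363) (nat_lit 235) (nat_lit 182)))))) (XT.nd (nat_lit 36426) (nat_lit 0) (nat_lit 76) (XT.nd (nat_lit 234) (nat_lit 0) (nat_lit 0) (XT.nd (nat_lit 78) (nat_lit 0) (nat_lit 0) (XT.lf (nat_lit 0) (nat_lit 521280115027) (nat_lit 76) (nat_lit 1521890151766) (nat_lit 76) (nat_lit 1519775786742) (nat_lit 1) (nat_lit 4) (nat_lit 2) (nat_lit 5) (nat_lit 2) (nat_lit 4) (nat_lit 364) (nat_lit 235) (nat_lit 181)) (XT.nd (nat_lit 78) (nat_lit 0) (nat_lit 0) (XT.lf (nat_lit 0) (nat_lit 565211138258) (nat_lit 76) (nat_lit 1642397072004) (nat_lit 76) (nat_lit 1640280213399) (nat_lit 1) (nat_lit 4) (nat_lit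 2) (nat_lit 5) (nat_lit 2) (nat_lit 4) (nat_lit 365) (nat_lit 235) (nat_lit 180)) (XT.lf (nat_lit 0) (nat_lit 612651806709) (nat_lit 76) (nat_lit 1772546873340) (nat_lit 76) (nat_lit 1770427705864) (nat_lit 1) (nat_lit 4) (nat_lit 2) (nat_lit 5) (nat_lit 2) (nat_lit 4) (nat_lit 366) (nat_lit 235) (nat_lit 179)))) (XT.nd (nat_lit 36036) (nat_lit 0) (nat_lit 76) (XT.nd (nat_lit 78) (nat_lit 0) (nat_lit 0) (XT.lf (nat_lit 0) (nat_lit 663883250267) (nat_lit 76) (nat_lit 1913110813856) (nat_lit 76) (nat_lit 1910989508537) (nat_lit 1) (nat_lit 4) (nat_lit 2) (nat_lit 5) (nat_lit 2) (nat_lit 4) (nat_lit 367) (nat_lit 235) (nat_lit 178)) (XT.lf (nat_lit 0) (nat_lit 719209062671) (nat_lit 76) (nat_lit 2064921865051) (nat_lit 76) (nat_lit 2062798580247) (nat_lit 1) (nat_lit 4) (nat_lit 2) (nat_lit 5) (nat_lit 2) (nat_lit 4) (nat_lit 368) (nat_lit 235) (nat_lit 177))) (XT.nd (nat_lit 78) (nat_lit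 0) (nat_lit 0) (XT.lf (nat_lit 0) (nat_lit 430026307) (nat_lit 152) (nat_lit 24241812100) (nat_lit 0) (nat_lit 430026307) (nat_lit 2) (nat_lit 5) (nat_lit 4) (nat_lit 4) (nat_lit 2) (nat_lit 4) (nat_lit 308) (nat_lit 236) (nat_lit 236)) (XT.lf (nat_lit 0) (nat_lit 4125297776) (nat_lit 152) (nat_lit 45868193692) (nat_lit 0) (nat_lit 3953455507) (nat_lit 2) (nat_lit 5) (nat_lit 4) (nat_lit 4) (nat_lit 2) (nat_lit 4) (nat_lit 309) (nat_lit 236) (nat_lit 235))))) (XT.nd (nat_lit 312) (nat_lit 0) (nat_lit 0) (XT.nd (nat_lit 156) (nat_lit 0) (nat_lit 0) (XT.nd (nat_lit 78) (nat_lit 0) (nat_lit 0) (XT.lf (nat_lit 0) (nat_lit 7486862793) (nat_lit 152) (nat_lit 43360166590) (nat_lit 0) (nat_lit 7155907311) (nat_lit 2) (nat_lit 5) (nat_lit 4) (nat_lit 4) (nat_lit 2) (nat_lit 4) (nat_lit 310) (nat_lit 236) (nat_lit 234)) (XT.lf (nat_lit 0) (nat_lit 10964668050) (nat_lit 152) (nat_lit 40944680510)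 (nat_lit 0) (nat_lit 10486385520) (nat_lit 2) (nat_lit 5) (nat_lit 4) (nat_lit 4) (nat_lit 2) (nat_lit 4) (nat_lit 311) (nat_lit 236) (nat_lit 233))) (XT.nd (nat_lit 78) (nat_lit 0) (nat_lit 0) (XT.lf (nat_lit 0) (nat_lit 14579322764) (nat_lit 152) (nat_lit 38607421462) (nat_lit 0) (nat_lit 13964626301) (nat_lit 2) (nat_lit 5) (nat_lit 4) (nat_lit 4) (nat_lit 2) (nat_lit 4) (nat_lit 312) (nat_lit 236) (nat_lit 232)) (XT.lf (nat_lit 0) (nat_lit 18352247112) (nat_lit 152) (nat_lit 36334539021) (nat_lit 0) (nat_lit 17611241451) (nat_lit 2) (nat_lit 5) (nat_lit 4) (nat_lit 4) (nat_lit 2) (nat_lit 4) (nat_lit 313) (nat_lit 236) (nat_lit 231)))) (XT.nd (nat_lit 156) (nat_lit 0) (nat_lit 0) (XT.nd (nat_lit 78) (nat_lit 0) (nat_lit 0) (XT.lf (nat_lit 0) (nat_lit 22305799163) (nat_lit 152) (nat_lit 34112564254) (nat_lit 0) (nat_lit 21447840541) (nat_lit 2) (nat_lit 5) (nat_lit 4) (nat_lit 4)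 (nat_lit 2) (nat_lit 4) (nat_lit 314) (nat_lit 236) (nat_lit 230)) (XT.lf (nat_lit 0) (nat_lit 26463407374) (nat_lit 152) (nat_lit 31928329904) (nat_lit 0) (nat_lit 25497158973) (nat_lit 2) (nat_lit 5) (nat_lit 4) (nat_lit 4) (nat_lit 2) (nat_lit 4) (nat_lit 315) (nat_lit 236) (nat_lit 229))) (XT.nd (nat_lit 78) (nat_lit 0) (nat_lit 0) (XT.lf (nat_lit 0) (nat_lit 30849709423) (nat_lit 152) (nat_lit 29768892359) (nat_lit 0) (nat_lit 29783192709) (nat_lit 2) (nat_lit 5) (nat_lit 4) (nat_lit 4) (nat_lit 2) (nat_lit 4) (nat_lit 316) (nat_lit 236) (nat_lit 228)) (XT.lf (nat_lit 0) (nat_lit 35490698212) (nat_lit 152) (nat_lit 27621454952) (nat_lit 0) (nat_lit 34331340466) (nat_lit 2) (nat_lit 5) (nat_lit 4) (nat_lit 4) (nat_lit 2) (nat_lit 4) (nat_lit 317) (nat_lit 236) (nat_lit 227))))))) (XT.nd (nat_lit 1170) (nat_lit 0) (nat_lit 0) (XT.nd (nat_lit 546) (nat_lit 76) (nat_lit 0) (XT.nd (nat_lit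 234) (nat_lit 0) (nat_lit 0) (XT.nd (nat_lit 78) (nat_lit 0) (nat_lit 0) (XT.lf (nat_lit 0) (nat_lit 40413875895) (nat_lit 152) (nat_lit 25473292129) (nat_lit 0) (nat_lit 39168554232) (nat_lit 2) (nat_lit 5) (nat_lit 4) (nat_lit 4) (nat_lit 2) (nat_lit 4) (nat_lit 318) (nat_lit 236) (nat_lit 226)) (XT.nd (nat_lit 78) (nat_lit 0) (nat_lit 0) (XT.lf (nat_lit 0) (nat_lit 45648416860) (nat_lit 152) (nat_lit 23311674036) (nat_lit 0) (nat_lit 44323498977) (nat_lit 2) (nat_lit 5) (nat_lit 4) (nat_lit 4) (nat_lit 2) (nat_lit 4) (nat_lit 319) (nat_lit 236) (nat_lit 225)) (XT.lf (nat_lit 0) (nat_lit 51225340608) (nat_lit 152) (nat_lit 21123791084) (nat_lit 0) (nat_lit 49826722521) (nat_lit 2) (nat_lit 5) (nat_lit 4) (nat_lit 4) (nat_lit 2) (nat_lit 4) (nat_lit 320) (nat_lit 236) (nat_lit 224)))) (XT.nd (nat_lit 156) (nat_lit 0) (nat_lit 0) (XT.nd (nat_lit 78) (nat_lit 0) (nat_lit 0) (XT.lf (nat_lit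 0) (nat_lit 57177695576) (nat_lit 152) (nat_lit 18896678041) (nat_lit 0) (nat_lit 55710836560) (nat_lit 2) (nat_lit 5) (nat_lit 4) (nat_lit 4) (nat_lit 2) (nat_lit 4) (nat_lit 321) (nat_lit 236) (nat_lit 223)) (XT.lf (nat_lit 0) (nat_lit 63540754980) (nat_lit 152) (nat_lit 16617137199) (nat_lit 0) (nat_lit 62010709918) (nat_lit 2) (nat_lit 5) (nat_lit 4) (nat_lit 4) (nat_lit 2) (nat_lit 4) (nat_lit 322) (nat_lit 236) (nat_lit 222))) (XT.nd (nat_lit 78) (nat_lit 0) (nat_lit 0) (XT.lf (nat_lit 0) (nat_lit 70352225837) (nat_lit 152) (nat_lit 14271660169) (nat_lit 0) (nat_lit 68763675177) (nat_lit 2) (nat_lit 5) (nat_lit 4) (nat_lit 4) (nat_lit 2) (nat_lit 4) (nat_lit 323) (nat_lit 236) (nat_lit 221)) (XT.lf (nat_lit 0) (nat_lit 77652472420) (nat_lit 152) (nat_lit 11846347828) (nat_lit 0) (nat_lit 76009749910) (nat_lit 2) (nat_lit 5) (nat_lit 4) (nat_lit 4) (nat_lit 2) (nat_lit 4) (nat_lit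 324) (nat_lit 236) (nat_lit 220))))) (XT.nd (nat_lit 312) (nat_lit 76) (nat_lit 0) (XT.nd (nat_lit 156) (nat_lit 0) (nat_lit 0) (XT.nd (nat_lit 78) (nat_lit 0) (nat_lit 0) (XT.lf (nat_lit 0) (nat_lit 85484755448) (nat_lit 152) (nat_lit 9326827953) (nat_lit 0) (nat_lit 83791873818) (nat_lit 2) (nat_lit 5) (nat_lit 4) (nat_lit 4) (nat_lit 2) (nat_lit 4) (nat_lit 325) (nat_lit 236) (nat_lit 219)) (XT.lf (nat_lit 0) (nat_lit 93895488452) (nat_lit 152) (nat_lit 6698170058) (nat_lit 0) (nat_lit 92156163191) (nat_lit 2) (nat_lit 5) (nat_lit 4) (nat_lit 4) (nat_lit 2) (nat_lit 4) (nat_lit 326) (nat_lit 236) (nat_lit 218))) (XT.nd (nat_lit 78) (nat_lit 0) (nat_lit 0) (XT.lf (nat_lit 0) (nat_lit 102934512811) (nat_lit 152) (nat_lit 3944796910) (nat_lit 0) (nat_lit 101152184190) (nat_lit 2) (nat_lit 5) (nat_lit 4) (nat_lit 4) (nat_lit 2) (nat_lit 4) (nat_lit 327) (nat_lit 236) (nat_lit 217)) (XT.lf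 (nat_lit 0) (nat_lit 112655393115) (nat_lit 152) (nat_lit 1050392224) (nat_lit 0) (nat_lit 110833246566) (nat_lit 2) (nat_lit 5) (nat_lit 4) (nat_lit 4) (nat_lit 2) (nat_lit 4) (nat_lit 328) (nat_lit 236) (nat_lit 216)))) (XT.nd (nat_lit 156) (nat_lit 0) (nat_lit 0) (XT.nd (nat_lit 78) (nat_lit 0) (nat_lit 0) (XT.lf (nat_lit 0) (nat_lit 2107628122) (nat_lit 76) (nat_lit 121058794964) (nat_lit 76) (nat_lit 119199779965) (nat_lit 1) (nat_lit 4) (nat_lit 2) (nat_lit 5) (nat_lit 2) (nat_lit 4) (nat_lit 329) (nat_lit 236) (nat_lit 215)) (XT.lf (nat_lit 0) (nat_lit 5506515462) (nat_lit 76) (nat_lit 129003440780) (nat_lit 76) (nat_lit 127110288327) (nat_lit 1) (nat_lit 4) (nat_lit 2) (nat_lit 5) (nat_lit 2) (nat_lit 4) (nat_lit 330) (nat_lit 236) (nat_lit 214))) (XT.nd (nat_lit 78) (nat_lit 0) (nat_lit 0) (XT.lf (nat_lit 0) (nat_lit 9111099558) (nat_lit 76) (nat_lit 137615521756) (nat_lit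 76) (nat_lit 135690760548) (nat_lit 1) (nat_lit 4) (nat_lit 2) (nat_lit 5) (nat_lit 2) (nat_lit 4) (nat_lit 331) (nat_lit 236) (nat_lit 213)) (XT.lf (nat_lit 0) (nat_lit 12942740907) (nat_lit 76) (nat_lit 146946072444) (nat_lit 76) (nat_lit 144992043872) (nat_lit 1) (nat_lit 4) (nat_lit 2) (nat_lit 5) (nat_lit 2) (nat_lit 4) (nat_lit 332) (nat_lit 236) (nat_lit 212)))))) (XT.nd (nat_lit 546) (nat_lit 0) (nat_lit 0) (XT.nd (nat_lit 234) (nat_lit 0) (nat_lit 0) (XT.nd (nat_lit 78) (nat_lit 0) (nat_lit 0) (XT.lf (nat_lit 0) (nat_lit 17024145532) (nat_lit 76) (nat_lit 157050384998) (nat_lit 76) (nat_lit 155069257013) (nat_lit 1) (nat_lit 4) (nat_lit 2) (nat_lit 5) (nat_lit 2) (nat_lit 4) (nat_lit 333) (nat_lit 236) (nat_lit 211)) (XT.nd (nat_lit 78) (nat_lit 0) (nat_lit 0) (XT.lf (nat_lit 0) (nat_lit 21379499535) (nat_lit 76) (nat_lit 167988336824) (nat_lit 76) (nat_lit 165982116791) (nat_lit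 1) (nat_lit 4) (nat_lit 2) (nat_lit 5) (nat_lit 2) (nat_lit 4) (nat_lit 334) (nat_lit 236) (nat_lit 210)) (XT.lf (nat_lit 0) (nat_lit 26034612421) (nat_lit 76) (nat_lit 179824745416) (nat_lit 76) (nat_lit 177795292005) (nat_lit 1) (nat_lit 4) (nat_lit 2) (nat_lit 5) (nat_lit 2) (nat_lit 4) (nat_lit 335) (nat_lit 236) (nat_lit 209)))) (XT.nd (nat_lit 156) (nat_lit 0) (nat_lit 0) (XT.nd (nat_lit 78) (nat_lit 0) (nat_lit 0) (XT.lf (nat_lit 0) (nat_lit 31017070045) (nat_lit 76) (nat_lit 192629752453) (nat_lit 76) (nat_lit 190578786655) (nat_lit 1) (nat_lit 4) (nat_lit 2) (nat_lit 5) (nat_lit 2) (nat_lit 4) (nat_lit 336) (nat_lit 236) (nat_lit 208)) (XT.lf (nat_lit 0) (nat_lit 36356398079) (nat_lit 76) (nat_lit 206479239459) (nat_lit 76) (nat_lit 204408354785) (nat_lit 1) (nat_lit 4) (nat_lit 2) (nat_lit 5) (nat_lit 2) (nat_lit 4) (nat_lit 337) (nat_lit 236) (nat_lit 207))) (XT.nd (nat_lit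 78) (nat_lit 0) (nat_lit 0) (XT.lf (nat_lit 0) (nat_lit 42084236989) (nat_lit 76) (nat_lit 221455277468) (nat_lit 76) (nat_lit 219365949389) (nat_lit 1) (nat_lit 4) (nat_lit 2) (nat_lit 5) (nat_lit 2) (nat_lit 4) (nat_lit 338) (nat_lit 236) (nat_lit 206)) (XT.lf (nat_lit 0) (nat_lit 48234529521) (nat_lit 76) (nat_lit 237646613372) (nat_lit 76) (nat_lit 235540208067) (nat_lit 1) (nat_lit 4) (nat_lit 2) (nat_lit 5) (nat_lit 2) (nat_lit 4) (nat_lit 339) (nat_lit 236) (nat_lit 205))))) (XT.nd (nat_lit 312) (nat_lit 0) (nat_lit 0) (XT.nd (nat_lit 156) (nat_lit 0) (nat_lit 0) (XT.nd (nat_lit 78) (nat_lit 0) (nat_lit 0) (XT.lf (nat_lit 0) (nat_lit 54843721855) (nat_lit 76) (nat_lit 255149195828) (nat_lit 76) (nat_lit 253026978276) (nat_lit 1) (nat_lit 4) (nat_lit 2) (nat_lit 5) (nat_lit 2) (nat_lit 4) (nat_lit 340) (nat_lit 236) (nat_lit 204)) (XT.lf (nat_lit 0) (nat_lit 61950979575) (nat_lit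 76) (nat_lit 274066743843) (nat_lit 76) (nat_lit 271929885323) (nat_lit 1) (nat_lit 4) (nat_lit 2) (nat_lit 5) (nat_lit 2) (nat_lit 4) (nat_lit 341) (nat_lit 236) (nat_lit 203))) (XT.nd (nat_lit 78) (nat_lit 0) (nat_lit 0) (XT.lf (nat_lit 0) (nat_lit 69598419763) (nat_lit 76) (nat_lit 294511361406) (nat_lit 76) (nat_lit 292360946433) (nat_lit 1) (nat_lit 4) (nat_lit 2) (nat_lit 5) (nat_lit 2) (nat_lit 4) (nat_lit 342) (nat_lit 236) (nat_lit 202)) (XT.lf (nat_lit 0) (nat_lit 77831360584) (nat_lit 76) (nat_lit 316604201806) (nat_lit 76) (nat_lit 314441234561) (nat_lit 1) (nat_lit 4) (nat_lit 2) (nat_lit 5) (nat_lit 2) (nat_lit 4) (nat_lit 343) (nat_lit 236) (nat_lit 201)))) (XT.nd (nat_lit 156) (nat_lit 0) (nat_lit 0) (XT.nd (nat_lit 78) (nat_lit 0) (nat_lit 0) (XT.lf (nat_lit 0) (nat_lit 86698589834) (nat_lit 76) (nat_lit 340476185578) (nat_lit 76) (nat_lit 338301595860) (nat_lit 1)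 (nat_lit 4) (nat_lit 2) (nat_lit 5) (nat_lit 2) (nat_lit 4) (nat_lit 344) (nat_lit 236) (nat_lit 200)) (XT.lf (nat_lit 0) (nat_lit 96252654058) (nat_lit 76) (nat_lit 366268776330) (nat_lit 76) (nat_lit 364083425063) (nat_lit 1) (nat_lit 4) (nat_lit 2) (nat_lit 5) (nat_lit 2) (nat_lit 4) (nat_lit 345) (nat_lit 236) (nat_lit 199))) (XT.nd (nat_lit 78) (nat_lit 0) (nat_lit 0) (XT.lf (nat_lit 0) (nat_lit 106550169932) (nat_lit 76) (nat_lit 394134819044) (nat_lit 76) (nat_lit 391939503380) (nat_lit 1) (nat_lit 4) (nat_lit 2) (nat_lit 5) (nat_lit 2) (nat_lit 4) (nat_lit 346) (nat_lit 236) (nat_lit 198)) (XT.lf (nat_lit 0) (nat_lit 117652159773) (nat_lit 76) (nat_lit 424239445826) (nat_lit 76) (nat_lit 422034903867) (nat_lit 1) (nat_lit 4) (nat_lit 2) (nat_lit 5) (nat_lit 2) (nat_lit 4) (nat_lit 347) (nat_lit 236) (nat_lit 197))))))))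
noncomputable def xc16 : XT := (XT.nd (nat_lit 38064) (nat_lit 0) (nat_lit 0) (XT.nd (nat_lit 1092) (nat_lit 0) (nat_lit 0) (XT.nd (nat_lit 546) (nat_lit 0) (nat_lit 0) (XT.nd (nat_lit 234) (nat_lit 0) (nat_lit 0) (XT.nd (nat_lit 78) (nat_lit 0) (nat_lit 0) (XT.lf (nat_lit 0) (nat_lit 129624413151) (nat_lit 76) (nat_lit 456761054463) (nat_lit 76) (nat_lit 454547969639) (nat_lit 1) (nat_lit 4) (nat_lit 2) (nat_lit 5) (nat_lit 2) (nat_lit 4) (nat_lit 348) (nat_lit 236) (nat_lit 196)) (XT.nd (nat_lit 78) (nat_lit 0) (nat_lit 0) (XT.lf (nat_lit 0) (nat_lit 142537876751) (nat_lit 76) (nat_lit 491892365600) (nat_lit 76) (nat_lit 489671370716) (nat_lit 1) (nat_lit 4) (nat_lit 2) (nat_lit 5) (nat_lit 2) (nat_lit 4) (nat_lit 349) (nat_lit 236) (nat_lit 195)) (XT.lf (nat_lit 0) (nat_lit 156469074803) (nat_lit 76) (nat_lit 529841564783) (nat_lit 76) (nat_lit 527613245769) (nat_lit 1) (nat_lit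 4) (nat_lit 2) (nat_lit 5) (nat_lit 2) (nat_lit 4) (nat_lit 350) (nat_lit 236) (nat_lit 194)))) (XT.nd (nat_lit 156) (nat_lit 0) (nat_lit 0) (XT.nd (nat_lit 78) (nat_lit 0) (nat_lit 0) (XT.lf (nat_lit 0) (nat_lit 171500562554) (nat_lit 76) (nat_lit 570833536156) (nat_lit 76) (nat_lit 568598435541) (nat_lit 1) (nat_lit 4) (nat_lit 2) (nat_lit 5) (nat_lit 2) (nat_lit 4) (nat_lit 351) (nat_lit 236) (nat_lit 193)) (XT.lf (nat_lit 0) (nat_lit 187721415488) (nat_lit 76) (nat_lit 615111195105) (nat_lit 76) (nat_lit 612869815230) (nat_lit 1) (nat_lit 4) (nat_lit 2) (nat_lit 5) (nat_lit 2) (nat_lit 4) (nat_lit 352) (nat_lit 236) (nat_lit 192))) (XT.nd (nat_lit 78) (nat_lit 0) (nat_lit 0) (XT.lf (nat_lit 0) (nat_lit 205227757176) (nat_lit 76) (nat_lit 662936927758) (nat_lit 76) (nat_lit 660689733752) (nat_lit 1) (nat_lit 4) (nat_lit 2) (nat_lit 5) (nat_lit 2) (nat_lit 4) (nat_lit 353) (nat_lit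 236) (nat_lit 191)) (XT.lf (nat_lit 0) (nat_lit 224123328905) (nat_lit 76) (nat_lit 714594145863) (nat_lit 76) (nat_lit 712341568403) (nat_lit 1) (nat_lit 4) (nat_lit 2) (nat_lit 5) (nat_lit 2) (nat_lit 4) (nat_lit 354) (nat_lit 236) (nat_lit 190))))) (XT.nd (nat_lit 234) (nat_lit 0) (nat_lit 0) (XT.nd (nat_lit 78) (nat_lit 0) (nat_lit 0) (XT.lf (nat_lit 0) (nat_lit 244520104430) (nat_lit 76) (nat_lit 770388966267) (nat_lit 76) (nat_lit 768131404128) (nat_lit 1) (nat_lit 4) (nat_lit 2) (nat_lit 5) (nat_lit 2) (nat_lit 4) (nat_lit 355) (nat_lit 236) (nat_lit 189)) (XT.nd (nat_lit 78) (nat_lit 0) (nat_lit 0) (XT.lf (nat_lit 0) (nat_lit 266538953535) (nat_lit 76) (nat_lit 830652024945) (nat_lit 76) (nat_lit 828389847362) (nat_lit 1) (nat_lit 4) (nat_lit 2) (nat_lit 5) (nat_lit 2) (nat_lit 4) (nat_lit 356) (nat_lit 236) (nat_lit 188)) (XT.lf (nat_lit 0) (nat_lit 290310358287) (nat_lit 76)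 (nat_lit 895740436318) (nat_lit 76) (nat_lit 893473985175) (nat_lit 1) (nat_lit 4) (nat_lit 2) (nat_lit 5) (nat_lit 2) (nat_lit 4) (nat_lit 357) (nat_lit 236) (nat_lit 187)))) (XT.nd (nat_lit 156) (nat_lit 0) (nat_lit 0) (XT.nd (nat_lit 78) (nat_lit 0) (nat_lit 0) (XT.lf (nat_lit 0) (nat_lit 315975186270) (nat_lit 76) (nat_lit 966039909490) (nat_lit 76) (nat_lit 963769501348) (nat_lit 1) (nat_lit 4) (nat_lit 2) (nat_lit 5) (nat_lit 2) (nat_lit 4) (nat_lit 358) (nat_lit 236) (nat_lit 186)) (XT.lf (nat_lit 0) (nat_lit 343685525353) (nat_lit 76) (nat_lit 1041967033931) (nat_lit 76) (nat_lit 1039692961901) (nat_lit 1) (nat_lit 4) (nat_lit 2) (nat_lit 5) (nat_lit 2) (nat_lit 4) (nat_lit 359) (nat_lit 236) (nat_lit 185))) (XT.nd (nat_lit 78) (nat_lit 0) (nat_lit 0) (XT.lf (nat_lit 0) (nat_lit 373605584954) (nat_lit 76) (nat_lit 1123971748158) (nat_lit 76) (nat_lit 1121694283638) (nat_lit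 1) (nat_lit 4) (nat_lit 2) (nat_lit 5) (nat_lit 2) (nat_lit 4) (nat_lit 360) (nat_lit 236) (nat_lit 184)) (XT.lf (nat_lit 0) (nat_lit 405912669130) (nat_lit 76) (nat_lit 1212540006032) (nat_lit 76) (nat_lit 1210259400319) (nat_lit 1) (nat_lit 4) (nat_lit 2) (nat_lit 5) (nat_lit 2) (nat_lit 4) (nat_lit 361) (nat_lit 236) (nat_lit 183)))))) (XT.nd (nat_lit 36348) (nat_lit 0) (nat_lit 76) (XT.nd (nat_lit 234) (nat_lit 0) (nat_lit 0) (XT.nd (nat_lit 78) (nat_lit 0) (nat_lit 0) (XT.lf (nat_lit 0) (nat_lit 440798227267) (nat_lit 76) (nat_lit 1308196656488) (nat_lit 76) (nat_lit 1305913142263) (nat_lit 1) (nat_lit 4) (nat_lit 2) (nat_lit 5) (nat_lit 2) (nat_lit 4) (nat_lit 362) (nat_lit 236) (nat_lit 182)) (XT.nd (nat_lit 78) (nat_lit 0) (nat_lit 0) (XT.lf (nat_lit 0) (nat_lit 478468988600) (nat_lit 76) (nat_lit 1411508553753) (nat_lit 76) (nat_lit 1409222346459) (nat_lit 1) (nat_lit 4) (nat_lit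 2) (nat_lit 5) (nat_lit 2) (nat_lit 4) (nat_lit 363) (nat_lit 236) (nat_lit 181)) (XT.lf (nat_lit 0) (nat_lit 519148187269) (nat_lit 76) (nat_lit 1523087916475) (nat_lit 76) (nat_lit 1520799215601) (nat_lit 1) (nat_lit 4) (nat_lit 2) (nat_lit 5) (nat_lit 2) (nat_lit 4) (nat_lit 364) (nat_lit 236) (nat_lit 180)))) (XT.nd (nat_lit 156) (nat_lit 0) (nat_lit 0) (XT.nd (nat_lit 78) (nat_lit 0) (nat_lit 0) (XT.lf (nat_lit 0) (nat_lit 563076885193) (nat_lit 76) (nat_lit 1643595955694) (nat_lit 76) (nat_lit 1641304945948) (nat_lit 1) (nat_lit 4) (nat_lit 2) (nat_lit 5) (nat_lit 2) (nat_lit 4) (nat_lit 365) (nat_lit 236) (nat_lit 179)) (XT.lf (nat_lit 0) (nat_lit 610515400582) (nat_lit 76) (nat_lit 1773746793123) (nat_lit 76) (nat_lit 1771453645534) (nat_lit 1) (nat_lit 4) (nat_lit 2) (nat_lit 5) (nat_lit 2) (nat_lit 4) (nat_lit 366) (nat_lit 236) (nat_lit 178))) (XT.nd (nat_lit 35880) (nat_lit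 0) (nat_lit 228) (XT.lf (nat_lit 0) (nat_lit 661744850563) (nat_lit 76) (nat_lit 1914311692984) (nat_lit 76) (nat_lit 1912016565910) (nat_lit 1) (nat_lit 4) (nat_lit 2) (nat_lit 5) (nat_lit 2) (nat_lit 4) (nat_lit 367) (nat_lit 236) (nat_lit 177)) (XT.lf (nat_lit 0) (nat_lit 16711150851) (nat_lit 76) (nat_lit 2524605854) (nat_lit 76) (nat_lit 2524605854) (nat_lit 4) (nat_lit 4) (nat_lit 5) (nat_lit 5) (nat_lit 5) (nat_lit 4) (nat_lit 306) (nat_lit 237) (nat_lit 237))))) (XT.nd (nat_lit 312) (nat_lit 0) (nat_lit 0) (XT.nd (nat_lit 156) (nat_lit 0) (nat_lit 0) (XT.nd (nat_lit 78) (nat_lit 152) (nat_lit 0) (XT.lf (nat_lit 0) (nat_lit 42375994237) (nat_lit 76) (nat_lit 2279052777) (nat_lit 76) (nat_lit 2078615954) (nat_lit 4) (nat_lit 4) (nat_lit 5) (nat_lit 5) (nat_lit 5) (nat_lit 4) (nat_lit 307) (nat_lit 237) (nat_lit 236)) (XT.lf (nat_lit 0) (nat_lit 960021237) (nat_lit 152) (nat_lit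 48648032313) (nat_lit 0) (nat_lit 602589317) (nat_lit 2) (nat_lit 5) (nat_lit 4) (nat_lit 4) (nat_lit 2) (nat_lit 4) (nat_lit 308) (nat_lit 237) (nat_lit 235))) (XT.nd (nat_lit 78) (nat_lit 0) (nat_lit 0) (XT.lf (nat_lit 0) (nat_lit 4145987669) (nat_lit 152) (nat_lit 46184831538) (nat_lit 0) (nat_lit 3629442537) (nat_lit 2) (nat_lit 5) (nat_lit 4) (nat_lit 4) (nat_lit 2) (nat_lit 4) (nat_lit 309) (nat_lit 237) (nat_lit 234)) (XT.lf (nat_lit 0) (nat_lit 7434146455) (nat_lit 152) (nat_lit 43817757893) (nat_lit 0) (nat_lit 6770274274) (nat_lit 2) (nat_lit 5) (nat_lit 4) (nat_lit 4) (nat_lit 2) (nat_lit 4) (nat_lit 310) (nat_lit 237) (nat_lit 233)))) (XT.nd (nat_lit 156) (nat_lit 0) (nat_lit 0) (XT.nd (nat_lit 78) (nat_lit 0) (nat_lit 0) (XT.lf (nat_lit 0) (nat_lit 10843982980) (nat_lit 152) (nat_lit 41532784274) (nat_lit 0) (nat_lit 10043696866) (nat_lit 2) (nat_lit 5) (nat_lit 4) (nat_lit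 4) (nat_lit 2) (nat_lit 4) (nat_lit 311) (nat_lit 237) (nat_lit 232)) (XT.lf (nat_lit 0) (nat_lit 14395703683) (nat_lit 152) (nat_lit 39316370096) (nat_lit 0) (nat_lit 13469108371) (nat_lit 2) (nat_lit 5) (nat_lit 4) (nat_lit 4) (nat_lit 2) (nat_lit 4) (nat_lit 312) (nat_lit 237) (nat_lit 231))) (XT.nd (nat_lit 78) (nat_lit 0) (nat_lit 0) (XT.lf (nat_lit 0) (nat_lit 18110355797) (nat_lit 152) (nat_lit 37155381054) (nat_lit 0) (nat_lit 17066807524) (nat_lit 2) (nat_lit 5) (nat_lit 4) (nat_lit 4) (nat_lit 2) (nat_lit 4) (nat_lit 313) (nat_lit 237) (nat_lit 230)) (XT.lf (nat_lit 0) (nat_lit 22009952077) (nat_lit 152) (nat_lit 35037011286) (nat_lit 0) (nat_lit 20858114026) (nat_lit 2) (nat_lit 5) (nat_lit 4) (nat_lit 4) (nat_lit 2) (nat_lit 4) (nat_lit 314) (nat_lit 237) (nat_lit 229))))))) (XT.nd (nat_lit 1092) (nat_lit 76) (nat_lit 0) (XT.nd (nat_lit 546) (nat_lit 0) (nat_lit 0) (XT.nd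 (nat_lit 234) (nat_lit 0) (nat_lit 0) (XT.nd (nat_lit 78) (nat_lit 0) (nat_lit 0) (XT.lf (nat_lit 0) (nat_lit 26117601241) (nat_lit 152) (nat_lit 32948707491) (nat_lit 0) (nat_lit 24865494875) (nat_lit 2) (nat_lit 5) (nat_lit 4) (nat_lit 4) (nat_lit 2) (nat_lit 4) (nat_lit 315) (nat_lit 237) (nat_lit 228)) (XT.nd (nat_lit 78) (nat_lit 0) (nat_lit 0) (XT.lf (nat_lit 0) (nat_lit 30457644913) (nat_lit 152) (nat_lit 30878094533) (nat_lit 0) (nat_lit 29112697516) (nat_lit 2) (nat_lit 5) (nat_lit 4) (nat_lit 4) (nat_lit 2) (nat_lit 4) (nat_lit 316) (nat_lit 237) (nat_lit 227)) (XT.lf (nat_lit 0) (nat_lit 35055801870) (nat_lit 152) (nat_lit 28812902115) (nat_lit 0) (nat_lit 33624890556) (nat_lit 2) (nat_lit 5) (nat_lit 4) (nat_lit 4) (nat_lit 2) (nat_lit 4) (nat_lit 317) (nat_lit 237) (nat_lit 226)))) (XT.nd (nat_lit 156) (nat_lit 0) (nat_lit 0) (XT.nd (nat_lit 78) (nat_lit 0) (nat_lit 0)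 (XT.lf (nat_lit 0) (nat_lit 39939320451) (nat_lit 152) (nat_lit 26740892059) (nat_lit 0) (nat_lit 38428812917) (nat_lit 2) (nat_lit 5) (nat_lit 4) (nat_lit 4) (nat_lit 2) (nat_lit 4) (nat_lit 318) (nat_lit 237) (nat_lit 225)) (XT.lf (nat_lit 0) (nat_lit 45137140025) (nat_lit 152) (nat_lit 24649785788) (nat_lit 0) (nat_lit 43552932287) (nat_lit 2) (nat_lit 5) (nat_lit 4) (nat_lit 4) (nat_lit 2) (nat_lit 4) (nat_lit 319) (nat_lit 237) (nat_lit 224))) (XT.nd (nat_lit 78) (nat_lit 0) (nat_lit 0) (XT.lf (nat_lit 0) (nat_lit 50680062485) (nat_lit 152) (nat_lit 22527191559) (nat_lit 0) (nat_lit 49027613817) (nat_lit 2) (nat_lit 5) (nat_lit 4) (nat_lit 4) (nat_lit 2) (nat_lit 4) (nat_lit 320) (nat_lit 237) (nat_lit 223)) (XT.lf (nat_lit 0) (nat_lit 56600934779) (nat_lit 152) (nat_lit 20360531037) (nat_lit 0) (nat_lit 54885300066) (nat_lit 2) (nat_lit 5) (nat_lit 4) (nat_lit 4) (nat_lit 2) (nat_lit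 4) (nat_lit 321) (nat_lit 237) (nat_lit 222))))) (XT.nd (nat_lit 234) (nat_lit 0) (nat_lit 0) (XT.nd (nat_lit 78) (nat_lit 0) (nat_lit 0) (XT.lf (nat_lit 0) (nat_lit 62934843558) (nat_lit 152) (nat_lit 18136964753) (nat_lit 0) (nat_lit 61160703247) (nat_lit 2) (nat_lit 5) (nat_lit 4) (nat_lit 4) (nat_lit 2) (nat_lit 4) (nat_lit 322) (nat_lit 237) (nat_lit 221)) (XT.nd (nat_lit 78) (nat_lit 0) (nat_lit 0) (XT.lf (nat_lit 0) (nat_lit 69719323096) (nat_lit 152) (nat_lit 15843316017) (nat_lit 0) (nat_lit 67891010935) (nat_lit 2) (nat_lit 5) (nat_lit 4) (nat_lit 4) (nat_lit 2) (nat_lit 4) (nat_lit 323) (nat_lit 237) (nat_lit 220)) (XT.lf (nat_lit 0) (nat_lit 76994577717) (nat_lit 152) (nat_lit 13465992836) (nat_lit 0) (nat_lit 75116106436) (nat_lit 2) (nat_lit 5) (nat_lit 4) (nat_lit 4) (nat_lit 2) (nat_lit 4) (nat_lit 324) (nat_lit 237) (nat_lit 219)))) (XT.nd (nat_lit 156) (nat_lit 0)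 (nat_lit 0) (XT.nd (nat_lit 78) (nat_lit 0) (nat_lit 0) (XT.lf (nat_lit 0) (nat_lit 84803720040) (nat_lit 152) (nat_lit 10990907370) (nat_lit 0) (nat_lit 82878805129) (nat_lit 2) (nat_lit 5) (nat_lit 4) (nat_lit 4) (nat_lit 2) (nat_lit 4) (nat_lit 325) (nat_lit 237) (nat_lit 218)) (XT.lf (nat_lit 0) (nat_lit 93193026464) (nat_lit 152) (nat_lit 8403392446) (nat_lit 0) (nat_lit 91225108192) (nat_lit 2) (nat_lit 5) (nat_lit 4) (nat_lit 4) (nat_lit 2) (nat_lit 4) (nat_lit 326) (nat_lit 237) (nat_lit 217))) (XT.nd (nat_lit 78) (nat_lit 0) (nat_lit 0) (XT.lf (nat_lit 0) (nat_lit 102212211398) (nat_lit 152) (nat_lit 5688114641) (nat_lit 0) (nat_lit 100204475200) (nat_lit 2) (nat_lit 5) (nat_lit 4) (nat_lit 4) (nat_lit 2) (nat_lit 4) (nat_lit 327) (nat_lit 237) (nat_lit 216)) (XT.lf (nat_lit 0) (nat_lit 111914721864) (nat_lit 152) (nat_lit 2828983420) (nat_lit 0) (nat_lit 109870117214) (nat_lit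 2) (nat_lit 5) (nat_lit 4) (nat_lit 4) (nat_lit 2) (nat_lit 4) (nat_lit 328) (nat_lit 237) (nat_lit 215)))))) (XT.nd (nat_lit 546) (nat_lit 0) (nat_lit 0) (XT.nd (nat_lit 234) (nat_lit 0) (nat_lit 0) (XT.nd (nat_lit 78) (nat_lit 0) (nat_lit 0) (XT.lf (nat_lit 0) (nat_lit 200998999) (nat_lit 76) (nat_lit 122161889251) (nat_lit 76) (nat_lit 120083147147) (nat_lit 1) (nat_lit 4) (nat_lit 2) (nat_lit 5) (nat_lit 2) (nat_lit 4) (nat_lit 329) (nat_lit 237) (nat_lit 214)) (XT.nd (nat_lit 78) (nat_lit 0) (nat_lit 0) (XT.lf (nat_lit 0) (nat_lit 3568052574) (nat_lit 76) (nat_lit 130121854055) (nat_lit 76) (nat_lit 128011503197) (nat_lit 1) (nat_lit 4) (nat_lit 2) (nat_lit 5) (nat_lit 2) (nat_lit 4) (nat_lit 330) (nat_lit 237) (nat_lit 213)) (XT.lf (nat_lit 0) (nat_lit 7143160961) (nat_lit 76) (nat_lit 138748119278) (nat_lit 76) (nat_lit 136608501055) (nat_lit 1) (nat_lit 4) (nat_lit 2) (nat_lit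 5) (nat_lit 2) (nat_lit 4) (nat_lit 331) (nat_lit 237) (nat_lit 212)))) (XT.nd (nat_lit 156) (nat_lit 0) (nat_lit 0) (XT.nd (nat_lit 78) (nat_lit 0) (nat_lit 0) (XT.lf (nat_lit 0) (nat_lit 10947509987) (nat_lit 76) (nat_lit 148091803529) (nat_lit 76) (nat_lit 145925085894) (nat_lit 1) (nat_lit 4) (nat_lit 2) (nat_lit 5) (nat_lit 2) (nat_lit 4) (nat_lit 332) (nat_lit 237) (nat_lit 211)) (XT.lf (nat_lit 0) (nat_lit 15003643943) (nat_lit 76) (nat_lit 158208276788) (nat_lit 76) (nat_lit 156016467105) (nat_lit 1) (nat_lit 4) (nat_lit 2) (nat_lit 5) (nat_lit 2) (nat_lit 4) (nat_lit 333) (nat_lit 237) (nat_lit 210))) (XT.nd (nat_lit 78) (nat_lit 0) (nat_lit 0) (XT.lf (nat_lit 0) (nat_lit 19335599178) (nat_lit 76) (nat_lit 169157488528) (nat_lit 76) (nat_lit 166942445466) (nat_lit 1) (nat_lit 4) (nat_lit 2) (nat_lit 5) (nat_lit 2) (nat_lit 4) (nat_lit 334) (nat_lit 237) (nat_lit 209)) (XT.lf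 (nat_lit 0) (nat_lit 23969046538) (nat_lit 76) (nat_lit 181004322965) (nat_lit 76) (nat_lit 178767767516) (nat_lit 1) (nat_lit 4) (nat_lit 2) (nat_lit 5) (nat_lit 2) (nat_lit 4) (nat_lit 335) (nat_lit 237) (nat_lit 208))))) (XT.nd (nat_lit 312) (nat_lit 0) (nat_lit 0) (XT.nd (nat_lit 156) (nat_lit 0) (nat_lit 0) (XT.nd (nat_lit 78) (nat_lit 0) (nat_lit 0) (XT.lf (nat_lit 0) (nat_lit 28931443489) (nat_lit 76) (nat_lit 193818983562) (nat_lit 76) (nat_lit 191562509237) (nat_lit 1) (nat_lit 4) (nat_lit 2) (nat_lit 5) (nat_lit 2) (nat_lit 4) (nat_lit 336) (nat_lit 237) (nat_lit 207)) (XT.lf (nat_lit 0) (nat_lit 34252196827) (nat_lit 76) (nat_lit 207677409050) (nat_lit 76) (nat_lit 205402491321) (nat_lit 1) (nat_lit 4) (nat_lit 2) (nat_lit 5) (nat_lit 2) (nat_lit 4) (nat_lit 337) (nat_lit 237) (nat_lit 206))) (XT.nd (nat_lit 78) (nat_lit 0) (nat_lit 0) (XT.lf (nat_lit 0) (nat_lit 39962836944)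 (nat_lit 76) (nat_lit 222661723432) (nat_lit 76) (nat_lit 220369728476) (nat_lit 1) (nat_lit 4) (nat_lit 2) (nat_lit 5) (nat_lit 2) (nat_lit 4) (nat_lit 338) (nat_lit 237) (nat_lit 205)) (XT.lf (nat_lit 0) (nat_lit 46097204668) (nat_lit 76) (nat_lit 238860722643) (nat_lit 76) (nat_lit 236552915441) (nat_lit 1) (nat_lit 4) (nat_lit 2) (nat_lit 5) (nat_lit 2) (nat_lit 4) (nat_lit 339) (nat_lit 237) (nat_lit 204)))) (XT.nd (nat_lit 156) (nat_lit 0) (nat_lit 0) (XT.nd (nat_lit 78) (nat_lit 0) (nat_lit 0) (XT.lf (nat_lit 0) (nat_lit 52691651809) (nat_lit 76) (nat_lit 256370400755) (nat_lit 76) (nat_lit 254047952583) (nat_lit 1) (nat_lit 4) (nat_lit 2) (nat_lit 5) (nat_lit 2) (nat_lit 4) (nat_lit 340) (nat_lit 237) (nat_lit 203)) (XT.lf (nat_lit 0) (nat_lit 59785256573) (nat_lit 76) (nat_lit 275294518821) (nat_lit 76) (nat_lit 272958514197) (nat_lit 1) (nat_lit 4) (nat_lit 2) (nat_lit 5)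 (nat_lit 2) (nat_lit 4) (nat_lit 341) (nat_lit 237) (nat_lit 202))) (XT.nd (nat_lit 78) (nat_lit 0) (nat_lit 0) (XT.lf (nat_lit 0) (nat_lit 67420055134) (nat_lit 76) (nat_lit 295745219765) (nat_lit 76) (nat_lit 293396662869) (nat_lit 1) (nat_lit 4) (nat_lit 2) (nat_lit 5) (nat_lit 2) (nat_lit 4) (nat_lit 342) (nat_lit 237) (nat_lit 201)) (XT.lf (nat_lit 0) (nat_lit 75641290745) (nat_lit 76) (nat_lit 317843692924) (nat_lit 76) (nat_lit 315483513555) (nat_lit 1) (nat_lit 4) (nat_lit 2) (nat_lit 5) (nat_lit 2) (nat_lit 4) (nat_lit 343) (nat_lit 237) (nat_lit 200))))))))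
noncomputable def xc17 : XT := (XT.nd (nat_lit 37908) (nat_lit 0) (nat_lit 0) (XT.nd (nat_lit 1092) (nat_lit 0) (nat_lit 0) (XT.nd (nat_lit 546) (nat_lit 0) (nat_lit 0) (XT.nd (nat_lit 234) (nat_lit 0) (nat_lit 0) (XT.nd (nat_lit 78) (nat_lit 0) (nat_lit 0) (XT.lf (nat_lit 0) (nat_lit 84497681839) (nat_lit 76) (nat_lit 341720892215) (nat_lit 76) (nat_lit 339349951296) (nat_lit 1) (nat_lit 4) (nat_lit 2) (nat_lit 5) (nat_lit 2) (nat_lit 4) (nat_lit 344) (nat_lit 237) (nat_lit 199)) (XT.nd (nat_lit 78) (nat_lit 0) (nat_lit 0) (XT.lf (nat_lit 0) (nat_lit 94041710732) (nat_lit 76) (nat_lit 367518312150) (nat_lit 76) (nat_lit 365137406835) (nat_lit 1) (nat_lit 4) (nat_lit 2) (nat_lit 5) (nat_lit 2) (nat_lit 4) (nat_lit 345) (nat_lit 237) (nat_lit 198)) (XT.lf (nat_lit 0) (nat_lit 104329934634) (nat_lit 76) (nat_lit 395388826331) (nat_lit 76) (nat_lit 392998694721) (nat_lit 1) (nat_lit 4)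 (nat_lit 2) (nat_lit 5) (nat_lit 2) (nat_lit 4) (nat_lit 346) (nat_lit 237) (nat_lit 197)))) (XT.nd (nat_lit 156) (nat_lit 0) (nat_lit 0) (XT.nd (nat_lit 78) (nat_lit 0) (nat_lit 0) (XT.lf (nat_lit 0) (nat_lit 115423320797) (nat_lit 76) (nat_lit 425497593359) (nat_lit 76) (nat_lit 423098918885) (nat_lit 1) (nat_lit 4) (nat_lit 2) (nat_lit 5) (nat_lit 2) (nat_lit 4) (nat_lit 347) (nat_lit 237) (nat_lit 196)) (XT.lf (nat_lit 0) (nat_lit 127387607805) (nat_lit 76) (nat_lit 458023035558) (nat_lit 76) (nat_lit 455616451024) (nat_lit 1) (nat_lit 4) (nat_lit 2) (nat_lit 5) (nat_lit 2) (nat_lit 4) (nat_lit 348) (nat_lit 237) (nat_lit 195))) (XT.nd (nat_lit 78) (nat_lit 0) (nat_lit 0) (XT.lf (nat_lit 0) (nat_lit 140293695138) (nat_lit 76) (nat_lit 493157896289) (nat_lit 76) (nat_lit 490743987624) (nat_lit 1) (nat_lit 4) (nat_lit 2) (nat_lit 5) (nat_lit 2) (nat_lit 4) (nat_lit 349) (nat_lit 237)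 (nat_lit 194)) (XT.lf (nat_lit 0) (nat_lit 154218063312) (nat_lit 76) (nat_lit 531110382133) (nat_lit 76) (nat_lit 528689691867) (nat_lit 1) (nat_lit 4) (nat_lit 2) (nat_lit 5) (nat_lit 2) (nat_lit 4) (nat_lit 350) (nat_lit 237) (nat_lit 193))))) (XT.nd (nat_lit 234) (nat_lit 0) (nat_lit 0) (XT.nd (nat_lit 78) (nat_lit 0) (nat_lit 0) (XT.lf (nat_lit 0) (nat_lit 169243227103) (nat_lit 76) (nat_lit 572105396711) (nat_lit 76) (nat_lit 569678427185) (nat_lit 1) (nat_lit 4) (nat_lit 2) (nat_lit 5) (nat_lit 2) (nat_lit 4) (nat_lit 351) (nat_lit 237) (nat_lit 192)) (XT.nd (nat_lit 78) (nat_lit 0) (nat_lit 0) (XT.lf (nat_lit 0) (nat_lit 185458224518) (nat_lit 76) (nat_lit 616385873443) (nat_lit 76) (nat_lit 613953089786) (nat_lit 1) (nat_lit 4) (nat_lit 2) (nat_lit 5) (nat_lit 2) (nat_lit 4) (nat_lit 352) (nat_lit 237) (nat_lit 191)) (XT.lf (nat_lit 0) (nat_lit 202959144430) (nat_lit 76) (nat_lit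 664214215153) (nat_lit 76) (nat_lit 661776048043) (nat_lit 1) (nat_lit 4) (nat_lit 2) (nat_lit 5) (nat_lit 2) (nat_lit 4) (nat_lit 353) (nat_lit 237) (nat_lit 190)))) (XT.nd (nat_lit 156) (nat_lit 0) (nat_lit 0) (XT.nd (nat_lit 78) (nat_lit 0) (nat_lit 0) (XT.lf (nat_lit 0) (nat_lit 221849695994) (nat_lit 76) (nat_lit 715873849052) (nat_lit 76) (nat_lit 713430697262) (nat_lit 1) (nat_lit 4) (nat_lit 2) (nat_lit 5) (nat_lit 2) (nat_lit 4) (nat_lit 354) (nat_lit 237) (nat_lit 189)) (XT.lf (nat_lit 0) (nat_lit 242241823220) (nat_lit 76) (nat_lit 771670906303) (nat_lit 76) (nat_lit 769223139069) (nat_lit 1) (nat_lit 4) (nat_lit 2) (nat_lit 5) (nat_lit 2) (nat_lit 4) (nat_lit 355) (nat_lit 237) (nat_lit 188))) (XT.nd (nat_lit 78) (nat_lit 0) (nat_lit 0) (XT.lf (nat_lit 0) (nat_lit 264256368344) (nat_lit 76) (nat_lit 831936036135) (nat_lit 76) (nat_lit 829483995342) (nat_lit 1) (nat_lit 4)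 (nat_lit 2) (nat_lit 5) (nat_lit 2) (nat_lit 4) (nat_lit 356) (nat_lit 237) (nat_lit 187)) (XT.lf (nat_lit 0) (nat_lit 288023787928) (nat_lit 76) (nat_lit 897026365243) (nat_lit 76) (nat_lit 894570367450) (nat_lit 1) (nat_lit 4) (nat_lit 2) (nat_lit 5) (nat_lit 2) (nat_lit 4) (nat_lit 357) (nat_lit 237) (nat_lit 186)))))) (XT.nd (nat_lit 546) (nat_lit 0) (nat_lit 0) (XT.nd (nat_lit 234) (nat_lit 0) (nat_lit 0) (XT.nd (nat_lit 78) (nat_lit 0) (nat_lit 0) (XT.lf (nat_lit 0) (nat_lit 313684925940) (nat_lit 76) (nat_lit 967327614096) (nat_lit 76) (nat_lit 964867952415) (nat_lit 1) (nat_lit 4) (nat_lit 2) (nat_lit 5) (nat_lit 2) (nat_lit 4) (nat_lit 358) (nat_lit 237) (nat_lit 185)) (XT.nd (nat_lit 78) (nat_lit 0) (nat_lit 0) (XT.lf (nat_lit 0) (nat_lit 341391848385) (nat_lit 76) (nat_lit 1043256382686) (nat_lit 76) (nat_lit 1040793328516) (nat_lit 1) (nat_lit 4) (nat_lit 2) (nat_lit 5)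 (nat_lit 2) (nat_lit 4) (nat_lit 359) (nat_lit 237) (nat_lit 184)) (XT.lf (nat_lit 0) (nat_lit 371308744431) (nat_lit 76) (nat_lit 1125262619273) (nat_lit 76) (nat_lit 1122796423909) (nat_lit 1) (nat_lit 4) (nat_lit 2) (nat_lit 5) (nat_lit 2) (nat_lit 4) (nat_lit 360) (nat_lit 237) (nat_lit 183)))) (XT.nd (nat_lit 156) (nat_lit 0) (nat_lit 0) (XT.nd (nat_lit 78) (nat_lit 0) (nat_lit 0) (XT.lf (nat_lit 0) (nat_lit 403612899389) (nat_lit 76) (nat_lit 1213832286740) (nat_lit 76) (nat_lit 1211363182863) (nat_lit 1) (nat_lit 4) (nat_lit 2) (nat_lit 5) (nat_lit 2) (nat_lit 4) (nat_lit 361) (nat_lit 237) (nat_lit 182)) (XT.lf (nat_lit 0) (nat_lit 438495745288) (nat_lit 76) (nat_lit 1309490242375) (nat_lit 76) (nat_lit 1307018445431) (nat_lit 1) (nat_lit 4) (nat_lit 2) (nat_lit 5) (nat_lit 2) (nat_lit 4) (nat_lit 362) (nat_lit 237) (nat_lit 181))) (XT.nd (nat_lit 78) (nat_lit 0) (nat_lit 0)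 (XT.lf (nat_lit 0) (nat_lit 476163995289) (nat_lit 76) (nat_lit 1412803348137) (nat_lit 76) (nat_lit 1410329057613) (nat_lit 1) (nat_lit 4) (nat_lit 2) (nat_lit 5) (nat_lit 2) (nat_lit 4) (nat_lit 363) (nat_lit 237) (nat_lit 180)) (XT.lf (nat_lit 0) (nat_lit 516840868651) (nat_lit 76) (nat_lit 1524383829840) (nat_lit 76) (nat_lit 1521907230444) (nat_lit 1) (nat_lit 4) (nat_lit 2) (nat_lit 5) (nat_lit 2) (nat_lit 4) (nat_lit 364) (nat_lit 237) (nat_lit 179))))) (XT.nd (nat_lit 35958) (nat_lit 0) (nat_lit 76) (XT.nd (nat_lit 156) (nat_lit 0) (nat_lit 0) (XT.nd (nat_lit 78) (nat_lit 0) (nat_lit 0) (XT.lf (nat_lit 0) (nat_lit 560767413513) (nat_lit 76) (nat_lit 1644892905151) (nat_lit 76) (nat_lit 1642414167912) (nat_lit 1) (nat_lit 4) (nat_lit 2) (nat_lit 5) (nat_lit 2) (nat_lit 4) (nat_lit 365) (nat_lit 237) (nat_lit 178)) (XT.lf (nat_lit 0) (nat_lit 608203935326) (nat_lit 76) (nat_lit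 1775044701925) (nat_lit 76) (nat_lit 1772563985201) (nat_lit 1) (nat_lit 4) (nat_lit 2) (nat_lit 5) (nat_lit 2) (nat_lit 4) (nat_lit 366) (nat_lit 237) (nat_lit 177))) (XT.nd (nat_lit 35724) (nat_lit 0) (nat_lit 228) (XT.lf (nat_lit 0) (nat_lit 659431539404) (nat_lit 76) (nat_lit 1915610490069) (nat_lit 76) (nat_lit 1913127940488) (nat_lit 1) (nat_lit 4) (nat_lit 2) (nat_lit 5) (nat_lit 2) (nat_lit 4) (nat_lit 367) (nat_lit 237) (nat_lit 176)) (XT.lf (nat_lit 0) (nat_lit 8353403336) (nat_lit 76) (nat_lit 5279109117) (nat_lit 76) (nat_lit 5279109117) (nat_lit 4) (nat_lit 4) (nat_lit 5) (nat_lit 5) (nat_lit 5) (nat_lit 4) (nat_lit 304) (nat_lit 238) (nat_lit 238)))) (XT.nd (nat_lit 156) (nat_lit 152) (nat_lit 0) (XT.nd (nat_lit 78) (nat_lit 0) (nat_lit 0) (XT.lf (nat_lit 0) (nat_lit 24825652277) (nat_lit 76) (nat_lit 7974852156) (nat_lit 76) (nat_lit 7758380388) (nat_lit 4) (nat_lit 4)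 (nat_lit 5) (nat_lit 5) (nat_lit 5) (nat_lit 4) (nat_lit 305) (nat_lit 238) (nat_lit 237)) (XT.lf (nat_lit 0) (nat_lit 33263316681) (nat_lit 76) (nat_lit 5340560036) (nat_lit 76) (nat_lit 4923651444) (nat_lit 4) (nat_lit 4) (nat_lit 5) (nat_lit 5) (nat_lit 5) (nat_lit 4) (nat_lit 306) (nat_lit 238) (nat_lit 236))) (XT.nd (nat_lit 78) (nat_lit 152) (nat_lit 0) (XT.lf (nat_lit 0) (nat_lit 42069800860) (nat_lit 76) (nat_lit 2639731253) (nat_lit 76) (nat_lit 2037233011) (nat_lit 4) (nat_lit 4) (nat_lit 5) (nat_lit 5) (nat_lit 5) (nat_lit 4) (nat_lit 307) (nat_lit 238) (nat_lit 235)) (XT.lf (nat_lit 0) (nat_lit 903087592) (nat_lit 152) (nat_lit 49142230921) (nat_lit 0) (nat_lit 186105638) (nat_lit 2) (nat_lit 5) (nat_lit 4) (nat_lit 4) (nat_lit 2) (nat_lit 4) (nat_lit 308) (nat_lit 238) (nat_lit 234))))))) (XT.nd (nat_lit 1170) (nat_lit 76) (nat_lit 0) (XT.nd (nat_lit 546) (nat_lit 0) (nat_lit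 0) (XT.nd (nat_lit 234) (nat_lit 0) (nat_lit 0) (XT.nd (nat_lit 78) (nat_lit 0) (nat_lit 0) (XT.lf (nat_lit 0) (nat_lit 4015647793) (nat_lit 152) (nat_lit 46819983603) (nat_lit 0) (nat_lit 3151338790) (nat_lit 2) (nat_lit 5) (nat_lit 4) (nat_lit 4) (nat_lit 2) (nat_lit 4) (nat_lit 309) (nat_lit 238) (nat_lit 233)) (XT.nd (nat_lit 78) (nat_lit 0) (nat_lit 0) (XT.lf (nat_lit 0) (nat_lit 7235837846) (nat_lit 152) (nat_lit 44583422419) (nat_lit 0) (nat_lit 6235114909) (nat_lit 2) (nat_lit 5) (nat_lit 4) (nat_lit 4) (nat_lit 2) (nat_lit 4) (nat_lit 310) (nat_lit 238) (nat_lit 232)) (XT.lf (nat_lit 0) (nat_lit 10582740360) (nat_lit 152) (nat_lit 42419293670) (nat_lit 0) (nat_lit 9455708225) (nat_lit 2) (nat_lit 5) (nat_lit 4) (nat_lit 4) (nat_lit 2) (nat_lit 4) (nat_lit 311) (nat_lit 238) (nat_lit 231)))) (XT.nd (nat_lit 156) (nat_lit 0) (nat_lit 0) (XT.nd (nat_lit 78) (nat_lit 0) (nat_lit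 0) (XT.lf (nat_lit 0) (nat_lit 14076188830) (nat_lit 152) (nat_lit 40314772892) (nat_lit 0) (nat_lit 12832203734) (nat_lit 2) (nat_lit 5) (nat_lit 4) (nat_lit 4) (nat_lit 2) (nat_lit 4) (nat_lit 312) (nat_lit 238) (nat_lit 230)) (XT.lf (nat_lit 0) (nat_lit 17736885173) (nat_lit 152) (nat_lit 38257388848) (nat_lit 0) (nat_lit 16384610299) (nat_lit 2) (nat_lit 5) (nat_lit 4) (nat_lit 4) (nat_lit 2) (nat_lit 4) (nat_lit 313) (nat_lit 238) (nat_lit 229))) (XT.nd (nat_lit 78) (nat_lit 0) (nat_lit 0) (XT.lf (nat_lit 0) (nat_lit 21586522406) (nat_lit 152) (nat_lit 36234949635) (nat_lit 0) (nat_lit 20133979218) (nat_lit 2) (nat_lit 5) (nat_lit 4) (nat_lit 4) (nat_lit 2) (nat_lit 4) (nat_lit 314) (nat_lit 238) (nat_lit 228)) (XT.lf (nat_lit 0) (nat_lit 25647913192) (nat_lit 152) (nat_lit 34235470427) (nat_lit 0) (nat_lit 24102528973) (nat_lit 2) (nat_lit 5) (nat_lit 4) (nat_lit 4) (nat_lit 2)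 (nat_lit 4) (nat_lit 315) (nat_lit 238) (nat_lit 227))))) (XT.nd (nat_lit 312) (nat_lit 0) (nat_lit 0) (XT.nd (nat_lit 156) (nat_lit 0) (nat_lit 0) (XT.nd (nat_lit 78) (nat_lit 0) (nat_lit 0) (XT.lf (nat_lit 0) (nat_lit 29945125033) (nat_lit 152) (nat_lit 32247102458) (nat_lit 0) (nat_lit 28313776896) (nat_lit 2) (nat_lit 5) (nat_lit 4) (nat_lit 4) (nat_lit 2) (nat_lit 4) (nat_lit 316) (nat_lit 238) (nat_lit 226)) (XT.lf (nat_lit 0) (nat_lit 34503622888) (nat_lit 152) (nat_lit 30258062807) (nat_lit 0) (nat_lit 32792678531) (nat_lit 2) (nat_lit 5) (nat_lit 4) (nat_lit 4) (nat_lit 2) (nat_lit 4) (nat_lit 317) (nat_lit 238) (nat_lit 225))) (XT.nd (nat_lit 78) (nat_lit 0) (nat_lit 0) (XT.lf (nat_lit 0) (nat_lit 39350420078) (nat_lit 152) (nat_lit 28256564572) (nat_lit 0) (nat_lit 37565775517) (nat_lit 2) (nat_lit 5) (nat_lit 4) (nat_lit 4) (nat_lit 2) (nat_lit 4) (nat_lit 318) (nat_lit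 238) (nat_lit 224)) (XT.lf (nat_lit 0) (nat_lit 44514238363) (nat_lit 152) (nat_lit 26230747024) (nat_lit 0) (nat_lit 42661352873) (nat_lit 2) (nat_lit 5) (nat_lit 4) (nat_lit 4) (nat_lit 2) (nat_lit 4) (nat_lit 319) (nat_lit 238) (nat_lit 223)))) (XT.nd (nat_lit 156) (nat_lit 0) (nat_lit 0) (XT.nd (nat_lit 78) (nat_lit 0) (nat_lit 0) (XT.lf (nat_lit 0) (nat_lit 50025678149) (nat_lit 152) (nat_lit 24168605317) (nat_lit 0) (nat_lit 48109606613) (nat_lit 2) (nat_lit 5) (nat_lit 4) (nat_lit 4) (nat_lit 2) (nat_lit 4) (nat_lit 320) (nat_lit 238) (nat_lit 222)) (XT.lf (nat_lit 0) (nat_lit 55917399819) (nat_lit 152) (nat_lit 22057919353) (nat_lit 0) (nat_lit 53942822685) (nat_lit 2) (nat_lit 5) (nat_lit 4) (nat_lit 4) (nat_lit 2) (nat_lit 4) (nat_lit 321) (nat_lit 238) (nat_lit 221))) (XT.nd (nat_lit 78) (nat_lit 0) (nat_lit 0) (XT.lf (nat_lit 0) (nat_lit 62224317279) (nat_lit 152) (nat_lit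 19886181362) (nat_lit 0) (nat_lit 60195568295) (nat_lit 2) (nat_lit 5) (nat_lit 4) (nat_lit 4) (nat_lit 2) (nat_lit 4) (nat_lit 322) (nat_lit 238) (nat_lit 220)) (XT.lf (nat_lit 0) (nat_lit 68983804855) (nat_lit 152) (nat_lit 17640521787) (nat_lit 0) (nat_lit 66904896751) (nat_lit 2) (nat_lit 5) (nat_lit 4) (nat_lit 4) (nat_lit 2) (nat_lit 4) (nat_lit 323) (nat_lit 238) (nat_lit 219)))))) (XT.nd (nat_lit 546) (nat_lit 0) (nat_lit 0) (XT.nd (nat_lit 234) (nat_lit 76) (nat_lit 0) (XT.nd (nat_lit 78) (nat_lit 0) (nat_lit 0) (XT.lf (nat_lit 0) (nat_lit 76235918771) (nat_lit 152) (nat_lit 15307633014) (nat_lit 0) (nat_lit 74110567037) (nat_lit 2) (nat_lit 5) (nat_lit 4) (nat_lit 4) (nat_lit 2) (nat_lit 4) (nat_lit 324) (nat_lit 238) (nat_lit 218)) (XT.nd (nat_lit 78) (nat_lit 0) (nat_lit 0) (XT.lf (nat_lit 0) (nat_lit 84023634515) (nat_lit 152) (nat_lit 12873690519) (nat_lit 0) (nat_lit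 81855279420) (nat_lit 2) (nat_lit 5) (nat_lit 4) (nat_lit 4) (nat_lit 2) (nat_lit 4) (nat_lit 325) (nat_lit 238) (nat_lit 217)) (XT.lf (nat_lit 0) (nat_lit 92393101514) (nat_lit 152) (nat_lit 10324270937) (nat_lit 0) (nat_lit 90184928492) (nat_lit 2) (nat_lit 5) (nat_lit 4) (nat_lit 4) (nat_lit 2) (nat_lit 4) (nat_lit 326) (nat_lit 238) (nat_lit 216)))) (XT.nd (nat_lit 156) (nat_lit 76) (nat_lit 0) (XT.nd (nat_lit 78) (nat_lit 0) (nat_lit 0) (XT.lf (nat_lit 0) (nat_lit 101393916610) (nat_lit 152) (nat_lit 7644266598) (nat_lit 0) (nat_lit 99148875137) (nat_lit 2) (nat_lit 5) (nat_lit 4) (nat_lit 4) (nat_lit 2) (nat_lit 4) (nat_lit 327) (nat_lit 238) (nat_lit 215)) (XT.lf (nat_lit 0) (nat_lit 111079417966) (nat_lit 152) (nat_lit 4817795994) (nat_lit 0) (nat_lit 108800239039) (nat_lit 2) (nat_lit 5) (nat_lit 4) (nat_lit 4) (nat_lit 2) (nat_lit 4) (nat_lit 328) (nat_lit 238) (nat_lit 214)))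 (XT.nd (nat_lit 78) (nat_lit 76) (nat_lit 0) (XT.lf (nat_lit 0) (nat_lit 121507001146) (nat_lit 152) (nat_lit 1828109670) (nat_lit 0) (nat_lit 119196213465) (nat_lit 2) (nat_lit 5) (nat_lit 4) (nat_lit 4) (nat_lit 2) (nat_lit 4) (nat_lit 329) (nat_lit 238) (nat_lit 213)) (XT.lf (nat_lit 0) (nat_lit 1413203180) (nat_lit 76) (nat_lit 131359243626) (nat_lit 76) (nat_lit 129019188580) (nat_lit 1) (nat_lit 4) (nat_lit 2) (nat_lit 5) (nat_lit 2) (nat_lit 4) (nat_lit 330) (nat_lit 238) (nat_lit 212))))) (XT.nd (nat_lit 312) (nat_lit 0) (nat_lit 0) (XT.nd (nat_lit 156) (nat_lit 0) (nat_lit 0) (XT.nd (nat_lit 78) (nat_lit 0) (nat_lit 0) (XT.lf (nat_lit 0) (nat_lit 4961019244) (nat_lit 76) (nat_lit 139998642412) (nat_lit 76) (nat_lit 137631487954) (nat_lit 1) (nat_lit 4) (nat_lit 2) (nat_lit 5) (nat_lit 2) (nat_lit 4) (nat_lit 331) (nat_lit 238) (nat_lit 211)) (XT.lf (nat_lit 0) (nat_lit 8740097600)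 (nat_lit 76) (nat_lit 149354487369) (nat_lit 76) (nat_lit 146962240863) (nat_lit 1) (nat_lit 4) (nat_lit 2) (nat_lit 5) (nat_lit 2) (nat_lit 4) (nat_lit 332) (nat_lit 238) (nat_lit 210))) (XT.nd (nat_lit 78) (nat_lit 0) (nat_lit 0) (XT.lf (nat_lit 0) (nat_lit 12772832788) (nat_lit 76) (nat_lit 159482220541) (nat_lit 76) (nat_lit 157066740657) (nat_lit 1) (nat_lit 4) (nat_lit 2) (nat_lit 5) (nat_lit 2) (nat_lit 4) (nat_lit 333) (nat_lit 238) (nat_lit 209)) (XT.lf (nat_lit 0) (nat_lit 17083122498) (nat_lit 76) (nat_lit 170441858126) (nat_lit 76) (nat_lit 168004865855) (nat_lit 1) (nat_lit 4) (nat_lit 2) (nat_lit 5) (nat_lit 2) (nat_lit 4) (nat_lit 334) (nat_lit 238) (nat_lit 208)))) (XT.nd (nat_lit 156) (nat_lit 0) (nat_lit 0) (XT.nd (nat_lit 78) (nat_lit 0) (nat_lit 0) (XT.lf (nat_lit 0) (nat_lit 21696509186) (nat_lit 76) (nat_lit 182298346123) (nat_lit 76) (nat_lit 179841434976) (nat_lit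 1) (nat_lit 4) (nat_lit 2) (nat_lit 5) (nat_lit 2) (nat_lit 4) (nat_lit 335) (nat_lit 238) (nat_lit 207)) (XT.lf (nat_lit 0) (nat_lit 26640331440) (nat_lit 76) (nat_lit 195121945203) (nat_lit 76) (nat_lit 192646590651) (nat_lit 1) (nat_lit 4) (nat_lit 2) (nat_lit 5) (nat_lit 2) (nat_lit 4) (nat_lit 336) (nat_lit 238) (nat_lit 206))) (XT.nd (nat_lit 78) (nat_lit 0) (nat_lit 0) (XT.lf (nat_lit 0) (nat_lit 31943885986) (nat_lit 76) (nat_lit 208988647063) (nat_lit 76) (nat_lit 206496215285) (nat_lit 1) (nat_lit 4) (nat_lit 2) (nat_lit 5) (nat_lit 2) (nat_lit 4) (nat_lit 337) (nat_lit 238) (nat_lit 205)) (XT.lf (nat_lit 0) (nat_lit 37638601294) (nat_lit 76) (nat_lit 223980624752) (nat_lit 76) (nat_lit 221472380727) (nat_lit 1) (nat_lit 4) (nat_lit 2) (nat_lit 5) (nat_lit 2) (nat_lit 4) (nat_lit 338) (nat_lit 238) (nat_lit 204))))))))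
noncomputable def xc18 : XT := (XT.nd (nat_lit 37752) (nat_lit 0) (nat_lit 0) (XT.nd (nat_lit 1092) (nat_lit 0) (nat_lit 0) (XT.nd (nat_lit 546) (nat_lit 0) (nat_lit 0) (XT.nd (nat_lit 234) (nat_lit 0) (nat_lit 0) (XT.nd (nat_lit 78) (nat_lit 0) (nat_lit 0) (XT.lf (nat_lit 0) (nat_lit 43758223826) (nat_lit 76) (nat_lit 240186719619) (nat_lit 76) (nat_lit 237663834625) (nat_lit 1) (nat_lit 4) (nat_lit 2) (nat_lit 5) (nat_lit 2) (nat_lit 4) (nat_lit 339) (nat_lit 238) (nat_lit 203)) (XT.nd (nat_lit 78) (nat_lit 0) (nat_lit 0) (XT.lf (nat_lit 0) (nat_lit 50339018010) (nat_lit 76) (nat_lit 257702967781) (nat_lit 76) (nat_lit 255166526334) (nat_lit 1) (nat_lit 4) (nat_lit 2) (nat_lit 5) (nat_lit 2) (nat_lit 4) (nat_lit 340) (nat_lit 238) (nat_lit 202)) (XT.lf (nat_lit 0) (nat_lit 57419981147) (nat_lit 76) (nat_lit 276633169229) (nat_lit 76) (nat_lit 274084175510) (nat_lit 1) (nat_lit 4)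 (nat_lit 2) (nat_lit 5) (nat_lit 2) (nat_lit 4) (nat_lit 341) (nat_lit 238) (nat_lit 201)))) (XT.nd (nat_lit 156) (nat_lit 0) (nat_lit 0) (XT.nd (nat_lit 78) (nat_lit 0) (nat_lit 0) (XT.lf (nat_lit 0) (nat_lit 65043074500) (nat_lit 76) (nat_lit 297089502932) (nat_lit 76) (nat_lit 294528886740) (nat_lit 1) (nat_lit 4) (nat_lit 2) (nat_lit 5) (nat_lit 2) (nat_lit 4) (nat_lit 342) (nat_lit 238) (nat_lit 200)) (XT.lf (nat_lit 0) (nat_lit 73253471954) (nat_lit 76) (nat_lit 319193191610) (nat_lit 76) (nat_lit 316621813869) (nat_lit 1) (nat_lit 4) (nat_lit 2) (nat_lit 5) (nat_lit 2) (nat_lit 4) (nat_lit 343) (nat_lit 238) (nat_lit 199))) (XT.nd (nat_lit 78) (nat_lit 0) (nat_lit 0) (XT.lf (nat_lit 0) (nat_lit 82099827717) (nat_lit 76) (nat_lit 343075220084) (nat_lit 76) (nat_lit 340493877946) (nat_lit 1) (nat_lit 4) (nat_lit 2) (nat_lit 5) (nat_lit 2) (nat_lit 4) (nat_lit 344) (nat_lit 238)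 (nat_lit 198)) (XT.lf (nat_lit 0) (nat_lit 91634564637) (nat_lit 76) (nat_lit 368877111486) (nat_lit 76) (nat_lit 366286543054) (nat_lit 1) (nat_lit 4) (nat_lit 2) (nat_lit 5) (nat_lit 2) (nat_lit 4) (nat_lit 345) (nat_lit 238) (nat_lit 197))))) (XT.nd (nat_lit 234) (nat_lit 0) (nat_lit 0) (XT.nd (nat_lit 78) (nat_lit 0) (nat_lit 0) (XT.lf (nat_lit 0) (nat_lit 101914184861) (nat_lit 76) (nat_lit 396751765914) (nat_lit 76) (nat_lit 394152654616) (nat_lit 1) (nat_lit 4) (nat_lit 2) (nat_lit 5) (nat_lit 2) (nat_lit 4) (nat_lit 346) (nat_lit 238) (nat_lit 196)) (XT.nd (nat_lit 78) (nat_lit 0) (nat_lit 0) (XT.lf (nat_lit 0) (nat_lit 112999604654) (nat_lit 76) (nat_lit 426864366503) (nat_lit 76) (nat_lit 424257345146) (nat_lit 1) (nat_lit 4) (nat_lit 2) (nat_lit 5) (nat_lit 2) (nat_lit 4) (nat_lit 347) (nat_lit 238) (nat_lit 195)) (XT.lf (nat_lit 0) (nat_lit 124956515395) (nat_lit 76) (nat_lit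 459393358296) (nat_lit 76) (nat_lit 456779012809) (nat_lit 1) (nat_lit 4) (nat_lit 2) (nat_lit 5) (nat_lit 2) (nat_lit 4) (nat_lit 348) (nat_lit 238) (nat_lit 194)))) (XT.nd (nat_lit 156) (nat_lit 0) (nat_lit 0) (XT.nd (nat_lit 78) (nat_lit 0) (nat_lit 0) (XT.lf (nat_lit 0) (nat_lit 137855772851) (nat_lit 76) (nat_lit 494531505688) (nat_lit 76) (nat_lit 491910378600) (nat_lit 1) (nat_lit 4) (nat_lit 2) (nat_lit 5) (nat_lit 2) (nat_lit 4) (nat_lit 349) (nat_lit 238) (nat_lit 193)) (XT.lf (nat_lit 0) (nat_lit 151773817065) (nat_lit 76) (nat_lit 532487034738) (nat_lit 76) (nat_lit 529859628389) (nat_lit 1) (nat_lit 4) (nat_lit 2) (nat_lit 5) (nat_lit 2) (nat_lit 4) (nat_lit 350) (nat_lit 238) (nat_lit 192))) (XT.nd (nat_lit 78) (nat_lit 0) (nat_lit 0) (XT.lf (nat_lit 0) (nat_lit 166793125337) (nat_lit 76) (nat_lit 573484867098) (nat_lit 76) (nat_lit 570851646619) (nat_lit 1) (nat_lit 4)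 (nat_lit 2) (nat_lit 5) (nat_lit 2) (nat_lit 4) (nat_lit 351) (nat_lit 238) (nat_lit 191)) (XT.lf (nat_lit 0) (nat_lit 183002700975) (nat_lit 76) (nat_lit 617767952887) (nat_lit 76) (nat_lit 615129348954) (nat_lit 1) (nat_lit 4) (nat_lit 2) (nat_lit 5) (nat_lit 2) (nat_lit 4) (nat_lit 352) (nat_lit 238) (nat_lit 190)))))) (XT.nd (nat_lit 546) (nat_lit 0) (nat_lit 0) (XT.nd (nat_lit 234) (nat_lit 0) (nat_lit 0) (XT.nd (nat_lit 78) (nat_lit 0) (nat_lit 0) (XT.lf (nat_lit 0) (nat_lit 200498600723) (nat_lit 76) (nat_lit 665598710392) (nat_lit 76) (nat_lit 662955121779) (nat_lit 1) (nat_lit 4) (nat_lit 2) (nat_lit 5) (nat_lit 2) (nat_lit 4) (nat_lit 353) (nat_lit 238) (nat_lit 189)) (XT.nd (nat_lit 78) (nat_lit 0) (nat_lit 0) (XT.lf (nat_lit 0) (nat_lit 219384503987) (nat_lit 76) (nat_lit 717260581137) (nat_lit 76) (nat_lit 714612377080) (nat_lit 1) (nat_lit 4) (nat_lit 2) (nat_lit 5) (nat_lit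 2) (nat_lit 4) (nat_lit 354) (nat_lit 238) (nat_lit 188)) (XT.lf (nat_lit 0) (nat_lit 239772327232) (nat_lit 76) (nat_lit 773059709542) (nat_lit 76) (nat_lit 770407231926) (nat_lit 1) (nat_lit 4) (nat_lit 2) (nat_lit 5) (nat_lit 2) (nat_lit 4) (nat_lit 355) (nat_lit 238) (nat_lit 187)))) (XT.nd (nat_lit 156) (nat_lit 0) (nat_lit 0) (XT.nd (nat_lit 78) (nat_lit 0) (nat_lit 0) (XT.lf (nat_lit 0) (nat_lit 261782887188) (nat_lit 76) (nat_lit 833326757110) (nat_lit 76) (nat_lit 830670322494) (nat_lit 1) (nat_lit 4) (nat_lit 2) (nat_lit 5) (nat_lit 2) (nat_lit 4) (nat_lit 356) (nat_lit 238) (nat_lit 186)) (XT.lf (nat_lit 0) (nat_lit 285546616802) (nat_lit 76) (nat_lit 898418861898) (nat_lit 76) (nat_lit 895758763394) (nat_lit 1) (nat_lit 4) (nat_lit 2) (nat_lit 5) (nat_lit 2) (nat_lit 4) (nat_lit 357) (nat_lit 238) (nat_lit 185))) (XT.nd (nat_lit 78) (nat_lit 0) (nat_lit 0) (XT.lf (nat_lit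 0) (nat_lit 311204338175) (nat_lit 76) (nat_lit 968721754900) (nat_lit 76) (nat_lit 966058263907) (nat_lit 1) (nat_lit 4) (nat_lit 2) (nat_lit 5) (nat_lit 2) (nat_lit 4) (nat_lit 358) (nat_lit 238) (nat_lit 184)) (XT.lf (nat_lit 0) (nat_lit 338908097065) (nat_lit 76) (nat_lit 1044652045851) (nat_lit 76) (nat_lit 1041985413664) (nat_lit 1) (nat_lit 4) (nat_lit 2) (nat_lit 5) (nat_lit 2) (nat_lit 4) (nat_lit 359) (nat_lit 238) (nat_lit 183))))) (XT.nd (nat_lit 312) (nat_lit 0) (nat_lit 0) (XT.nd (nat_lit 156) (nat_lit 0) (nat_lit 0) (XT.nd (nat_lit 78) (nat_lit 0) (nat_lit 0) (XT.lf (nat_lit 0) (nat_lit 368822063894) (nat_lit 76) (nat_lit 1126659692030) (nat_lit 76) (nat_lit 1123990151331) (nat_lit 1) (nat_lit 4) (nat_lit 2) (nat_lit 5) (nat_lit 2) (nat_lit 4) (nat_lit 360) (nat_lit 238) (nat_lit 182)) (XT.lf (nat_lit 0) (nat_lit 401123506614) (nat_lit 76) (nat_lit 1215230664675) (nat_lit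 76) (nat_lit 1212558430908) (nat_lit 1) (nat_lit 4) (nat_lit 2) (nat_lit 5) (nat_lit 2) (nat_lit 4) (nat_lit 361) (nat_lit 238) (nat_lit 181))) (XT.nd (nat_lit 78) (nat_lit 0) (nat_lit 0) (XT.lf (nat_lit 0) (nat_lit 436003841181) (nat_lit 76) (nat_lit 1310889828809) (nat_lit 76) (nat_lit 1308215101461) (nat_lit 1) (nat_lit 4) (nat_lit 2) (nat_lit 5) (nat_lit 2) (nat_lit 4) (nat_lit 362) (nat_lit 238) (nat_lit 180)) (XT.lf (nat_lit 0) (nat_lit 473669765875) (nat_lit 76) (nat_lit 1414204053551) (nat_lit 76) (nat_lit 1411527017333) (nat_lit 1) (nat_lit 4) (nat_lit 2) (nat_lit 5) (nat_lit 2) (nat_lit 4) (nat_lit 363) (nat_lit 238) (nat_lit 179)))) (XT.nd (nat_lit 156) (nat_lit 0) (nat_lit 0) (XT.nd (nat_lit 78) (nat_lit 0) (nat_lit 0) (XT.lf (nat_lit 0) (nat_lit 514344486175) (nat_lit 76) (nat_lit 1525785571346) (nat_lit 76) (nat_lit 1523106397284) (nat_lit 1) (nat_lit 4) (nat_lit 2) (nat_lit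 5) (nat_lit 2) (nat_lit 4) (nat_lit 364) (nat_lit 238) (nat_lit 178)) (XT.lf (nat_lit 0) (nat_lit 558269037461) (nat_lit 76) (nat_lit 1646295606003) (nat_lit 76) (nat_lit 1643614452456) (nat_lit 1) (nat_lit 4) (nat_lit 2) (nat_lit 5) (nat_lit 2) (nat_lit 4) (nat_lit 365) (nat_lit 238) (nat_lit 177))) (XT.nd (nat_lit 78) (nat_lit 0) (nat_lit 0) (XT.lf (nat_lit 0) (nat_lit 605703713370) (nat_lit 76) (nat_lit 1776448291059) (nat_lit 76) (nat_lit 1773765304656) (nat_lit 1) (nat_lit 4) (nat_lit 2) (nat_lit 5) (nat_lit 2) (nat_lit 4) (nat_lit 366) (nat_lit 238) (nat_lit 176)) (XT.lf (nat_lit 0) (nat_lit 656929608277) (nat_lit 76) (nat_lit 1917014901687) (nat_lit 76) (nat_lit 1914330218194) (nat_lit 1) (nat_lit 4) (nat_lit 2) (nat_lit 5) (nat_lit 2) (nat_lit 4) (nat_lit 367) (nat_lit 238) (nat_lit 175))))))) (XT.nd (nat_lit 1170) (nat_lit 76) (nat_lit 0) (XT.nd (nat_lit 546) (nat_lit 0) (nat_lit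 0) (XT.nd (nat_lit 234) (nat_lit 152) (nat_lit 0) (XT.nd (nat_lit 78) (nat_lit 0) (nat_lit 0) (XT.lf (nat_lit 0) (nat_lit 710084740) (nat_lit 76) (nat_lit 7889825016) (nat_lit 76) (nat_lit 7889825016) (nat_lit 4) (nat_lit 4) (nat_lit 5) (nat_lit 5) (nat_lit 5) (nat_lit 4) (nat_lit 302) (nat_lit 239) (nat_lit 239)) (XT.nd (nat_lit 78) (nat_lit 0) (nat_lit 0) (XT.lf (nat_lit 0) (nat_lit 8858668193) (nat_lit 76) (nat_lit 13339756616) (nat_lit 76) (nat_lit 13105967106) (nat_lit 4) (nat_lit 4) (nat_lit 5) (nat_lit 5) (nat_lit 5) (nat_lit 4) (nat_lit 303) (nat_lit 239) (nat_lit 238)) (XT.lf (nat_lit 0) (nat_lit 16535102849) (nat_lit 76) (nat_lit 10872874429) (nat_lit 76) (nat_lit 10422613150) (nat_lit 4) (nat_lit 4) (nat_lit 5) (nat_lit 5) (nat_lit 5) (nat_lit 4) (nat_lit 304) (nat_lit 239) (nat_lit 237)))) (XT.nd (nat_lit 156) (nat_lit 152) (nat_lit 0) (XT.nd (nat_lit 78) (nat_lit 0) (nat_lit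 0) (XT.lf (nat_lit 0) (nat_lit 24494963429) (nat_lit 76) (nat_lit 8364384910) (nat_lit 76) (nat_lit 7713686809) (nat_lit 4) (nat_lit 4) (nat_lit 5) (nat_lit 5) (nat_lit 5) (nat_lit 4) (nat_lit 305) (nat_lit 239) (nat_lit 236)) (XT.lf (nat_lit 0) (nat_lit 32785419479) (nat_lit 76) (nat_lit 5799422937) (nat_lit 76) (nat_lit 4963135185) (nat_lit 4) (nat_lit 4) (nat_lit 5) (nat_lit 5) (nat_lit 5) (nat_lit 4) (nat_lit 306) (nat_lit 239) (nat_lit 235))) (XT.nd (nat_lit 78) (nat_lit 152) (nat_lit 0) (XT.lf (nat_lit 0) (nat_lit 41455599627) (nat_lit 76) (nat_lit 3162788735) (nat_lit 76) (nat_lit 2154658714) (nat_lit 4) (nat_lit 4) (nat_lit 5) (nat_lit 5) (nat_lit 5) (nat_lit 4) (nat_lit 307) (nat_lit 239) (nat_lit 234)) (XT.lf (nat_lit 0) (nat_lit 286333496) (nat_lit 76) (nat_lit 412501470) (nat_lit 152) (nat_lit 49566567808) (nat_lit 2) (nat_lit 5) (nat_lit 3) (nat_lit 5) (nat_lit 4) (nat_lit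 4) (nat_lit 308) (nat_lit 239) (nat_lit 233))))) (XT.nd (nat_lit 312) (nat_lit 0) (nat_lit 0) (XT.nd (nat_lit 156) (nat_lit 0) (nat_lit 0) (XT.nd (nat_lit 78) (nat_lit 0) (nat_lit 0) (XT.lf (nat_lit 0) (nat_lit 3733505764) (nat_lit 152) (nat_lit 47777413751) (nat_lit 0) (nat_lit 2516311058) (nat_lit 2) (nat_lit 5) (nat_lit 4) (nat_lit 4) (nat_lit 2) (nat_lit 4) (nat_lit 309) (nat_lit 239) (nat_lit 232)) (XT.lf (nat_lit 0) (nat_lit 6890761805) (nat_lit 152) (nat_lit 45661697437) (nat_lit 0) (nat_lit 5547257902) (nat_lit 2) (nat_lit 5) (nat_lit 4) (nat_lit 4) (nat_lit 2) (nat_lit 4) (nat_lit 310) (nat_lit 239) (nat_lit 231))) (XT.nd (nat_lit 78) (nat_lit 0) (nat_lit 0) (XT.lf (nat_lit 0) (nat_lit 10179392086) (nat_lit 152) (nat_lit 43609462088) (nat_lit 0) (nat_lit 8718935221) (nat_lit 2) (nat_lit 5) (nat_lit 4) (nat_lit 4) (nat_lit 2) (nat_lit 4) (nat_lit 311) (nat_lit 239) (nat_lit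 230)) (XT.lf (nat_lit 0) (nat_lit 13618884785) (nat_lit 152) (nat_lit 41608546308) (nat_lit 0) (nat_lit 12050138142) (nat_lit 2) (nat_lit 5) (nat_lit 4) (nat_lit 4) (nat_lit 2) (nat_lit 4) (nat_lit 312) (nat_lit 239) (nat_lit 229)))) (XT.nd (nat_lit 156) (nat_lit 0) (nat_lit 0) (XT.nd (nat_lit 78) (nat_lit 0) (nat_lit 0) (XT.lf (nat_lit 0) (nat_lit 17229622081) (nat_lit 152) (nat_lit 39647092819) (nat_lit 0) (nat_lit 15560607124) (nat_lit 2) (nat_lit 5) (nat_lit 4) (nat_lit 4) (nat_lit 2) (nat_lit 4) (nat_lit 313) (nat_lit 239) (nat_lit 228)) (XT.lf (nat_lit 0) (nat_lit 21033000936) (nat_lit 152) (nat_lit 37713478193) (nat_lit 0) (nat_lit 19271144948) (nat_lit 2) (nat_lit 5) (nat_lit 4) (nat_lit 4) (nat_lit 2) (nat_lit 4) (nat_lit 314) (nat_lit 239) (nat_lit 227))) (XT.nd (nat_lit 78) (nat_lit 0) (nat_lit 0) (XT.lf (nat_lit 0) (nat_lit 25051559891) (nat_lit 152) (nat_lit 35796243974)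 (nat_lit 0) (nat_lit 23203739986) (nat_lit 2) (nat_lit 5) (nat_lit 4) (nat_lit 4) (nat_lit 2) (nat_lit 4) (nat_lit 315) (nat_lit 239) (nat_lit 226)) (XT.lf (nat_lit 0) (nat_lit 29309112630) (nat_lit 152) (nat_lit 33884028772) (nat_lit 0) (nat_lit 27381696504) (nat_lit 2) (nat_lit 5) (nat_lit 4) (nat_lit 4) (nat_lit 2) (nat_lit 4) (nat_lit 316) (nat_lit 239) (nat_lit 225)))))) (XT.nd (nat_lit 546) (nat_lit 76) (nat_lit 0) (XT.nd (nat_lit 234) (nat_lit 0) (nat_lit 0) (XT.nd (nat_lit 78) (nat_lit 0) (nat_lit 0) (XT.lf (nat_lit 0) (nat_lit 33830889094) (nat_lit 152) (nat_lit 31965500942) (nat_lit 0) (nat_lit 31829772764) (nat_lit 2) (nat_lit 5) (nat_lit 4) (nat_lit 4) (nat_lit 2) (nat_lit 4) (nat_lit 317) (nat_lit 239) (nat_lit 224)) (XT.nd (nat_lit 78) (nat_lit 0) (nat_lit 0) (XT.lf (nat_lit 0) (nat_lit 38643684995) (nat_lit 152) (nat_lit 30029291431) (nat_lit 0) (nat_lit 36574327736)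 (nat_lit 2) (nat_lit 5) (nat_lit 4) (nat_lit 4) (nat_lit 2) (nat_lit 4) (nat_lit 318) (nat_lit 239) (nat_lit 223)) (XT.lf (nat_lit 0) (nat_lit 43776020606) (nat_lit 152) (nat_lit 28063926405) (nat_lit 0) (nat_lit 41643477302) (nat_lit 2) (nat_lit 5) (nat_lit 4) (nat_lit 4) (nat_lit 2) (nat_lit 4) (nat_lit 319) (nat_lit 239) (nat_lit 222)))) (XT.nd (nat_lit 156) (nat_lit 0) (nat_lit 0) (XT.nd (nat_lit 78) (nat_lit 0) (nat_lit 0) (XT.lf (nat_lit 0) (nat_lit 49258309767) (nat_lit 152) (nat_lit 26057759255) (nat_lit 0) (nat_lit 47067260865) (nat_lit 2) (nat_lit 5) (nat_lit 4) (nat_lit 4) (nat_lit 2) (nat_lit 4) (nat_lit 320) (nat_lit 239) (nat_lit 221)) (XT.lf (nat_lit 0) (nat_lit 55123040118) (nat_lit 152) (nat_lit 23998901585) (nat_lit 0) (nat_lit 52877819366) (nat_lit 2) (nat_lit 5) (nat_lit 4) (nat_lit 4) (nat_lit 2) (nat_lit 4) (nat_lit 321) (nat_lit 239) (nat_lit 220))) (XT.nd (nat_lit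 78) (nat_lit 0) (nat_lit 0) (XT.lf (nat_lit 0) (nat_lit 61404965617) (nat_lit 152) (nat_lit 21875152755) (nat_lit 0) (nat_lit 59109585744) (nat_lit 2) (nat_lit 5) (nat_lit 4) (nat_lit 4) (nat_lit 2) (nat_lit 4) (nat_lit 322) (nat_lit 239) (nat_lit 219)) (XT.lf (nat_lit 0) (nat_lit 68141312488) (nat_lit 152) (nat_lit 19673927587) (nat_lit 0) (nat_lit 65799488985) (nat_lit 2) (nat_lit 5) (nat_lit 4) (nat_lit 4) (nat_lit 2) (nat_lit 4) (nat_lit 323) (nat_lit 239) (nat_lit 218))))) (XT.nd (nat_lit 312) (nat_lit 76) (nat_lit 0) (XT.nd (nat_lit 156) (nat_lit 0) (nat_lit 0) (XT.nd (nat_lit 78) (nat_lit 0) (nat_lit 0) (XT.lf (nat_lit 0) (nat_lit 75371999824) (nat_lit 152) (nat_lit 17382181786) (nat_lit 0) (nat_lit 72987172961) (nat_lit 2) (nat_lit 5) (nat_lit 4) (nat_lit 4) (nat_lit 2) (nat_lit 4) (nat_lit 324) (nat_lit 239) (nat_lit 217)) (XT.lf (nat_lit 0) (nat_lit 83139876143) (nat_lit 152)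 (nat_lit 14986334633) (nat_lit 0) (nat_lit 80715231353) (nat_lit 2) (nat_lit 5) (nat_lit 4) (nat_lit 4) (nat_lit 2) (nat_lit 4) (nat_lit 325) (nat_lit 239) (nat_lit 216))) (XT.nd (nat_lit 78) (nat_lit 0) (nat_lit 0) (XT.lf (nat_lit 0) (nat_lit 91490973304) (nat_lit 152) (nat_lit 12472188517) (nat_lit 0) (nat_lit 89029460063) (nat_lit 2) (nat_lit 5) (nat_lit 4) (nat_lit 4) (nat_lit 2) (nat_lit 4) (nat_lit 326) (nat_lit 239) (nat_lit 215)) (XT.lf (nat_lit 0) (nat_lit 100474779291) (nat_lit 152) (nat_lit 9824844795) (nat_lit 0) (nat_lit 97979128595) (nat_lit 2) (nat_lit 5) (nat_lit 4) (nat_lit 4) (nat_lit 2) (nat_lit 4) (nat_lit 327) (nat_lit 239) (nat_lit 214)))) (XT.nd (nat_lit 156) (nat_lit 76) (nat_lit 0) (XT.nd (nat_lit 78) (nat_lit 0) (nat_lit 0) (XT.lf (nat_lit 0) (nat_lit 110144531472) (nat_lit 152) (nat_lit 7028615502) (nat_lit 0) (nat_lit 107617272022) (nat_lit 2) (nat_lit 5)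 (nat_lit 4) (nat_lit 4) (nat_lit 2) (nat_lit 4) (nat_lit 328) (nat_lit 239) (nat_lit 213)) (XT.lf (nat_lit 0) (nat_lit 120557532082) (nat_lit 152) (nat_lit 4066930393) (nat_lit 0) (nat_lit 118001005268) (nat_lit 2) (nat_lit 5) (nat_lit 4) (nat_lit 4) (nat_lit 2) (nat_lit 4) (nat_lit 329) (nat_lit 239) (nat_lit 212))) (XT.nd (nat_lit 78) (nat_lit 76) (nat_lit 0) (XT.lf (nat_lit 0) (nat_lit 131775487793) (nat_lit 152) (nat_lit 922238739) (nat_lit 0) (nat_lit 129191861566) (nat_lit 2) (nat_lit 5) (nat_lit 4) (nat_lit 4) (nat_lit 2) (nat_lit 4) (nat_lit 330) (nat_lit 239) (nat_lit 211)) (XT.lf (nat_lit 0) (nat_lit 2551743197) (nat_lit 76) (nat_lit 141374501665) (nat_lit 76) (nat_lit 138765783390) (nat_lit 1) (nat_lit 4) (nat_lit 2) (nat_lit 5) (nat_lit 2) (nat_lit 4) (nat_lit 331) (nat_lit 239) (nat_lit 210))))))))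
noncomputable def xc19 : XT := (XT.nd (nat_lit 2262) (nat_lit 0) (nat_lit 0) (XT.nd (nat_lit 1092) (nat_lit 0) (nat_lit 0) (XT.nd (nat_lit 546) (nat_lit 0) (nat_lit 0) (XT.nd (nat_lit 234) (nat_lit 0) (nat_lit 0) (XT.nd (nat_lit 78) (nat_lit 0) (nat_lit 0) (XT.lf (nat_lit 0) (nat_lit 6307422786) (nat_lit 76) (nat_lit 150741606535) (nat_lit 76) (nat_lit 148109654882) (nat_lit 1) (nat_lit 4) (nat_lit 2) (nat_lit 5) (nat_lit 2) (nat_lit 4) (nat_lit 332) (nat_lit 239) (nat_lit 209)) (XT.nd (nat_lit 78) (nat_lit 0) (nat_lit 0) (XT.lf (nat_lit 0) (nat_lit 10318492448) (nat_lit 76) (nat_lit 160879765553) (nat_lit 76) (nat_lit 158226301513) (nat_lit 1) (nat_lit 4) (nat_lit 2) (nat_lit 5) (nat_lit 2) (nat_lit 4) (nat_lit 333) (nat_lit 239) (nat_lit 208)) (XT.lf (nat_lit 0) (nat_lit 14608721485) (nat_lit 76) (nat_lit 171849056698) (nat_lit 76) (nat_lit 169175673782) (nat_lit 1) (nat_lit 4) (nat_lit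 2) (nat_lit 5) (nat_lit 2) (nat_lit 4) (nat_lit 334) (nat_lit 239) (nat_lit 207)))) (XT.nd (nat_lit 156) (nat_lit 0) (nat_lit 0) (XT.nd (nat_lit 78) (nat_lit 0) (nat_lit 0) (XT.lf (nat_lit 0) (nat_lit 19203533477) (nat_lit 76) (nat_lit 183714483177) (nat_lit 76) (nat_lit 181022656857) (nat_lit 1) (nat_lit 4) (nat_lit 2) (nat_lit 5) (nat_lit 2) (nat_lit 4) (nat_lit 335) (nat_lit 239) (nat_lit 206)) (XT.lf (nat_lit 0) (nat_lit 24130156939) (nat_lit 76) (nat_lit 196546358629) (nat_lit 76) (nat_lit 193837455082) (nat_lit 1) (nat_lit 4) (nat_lit 2) (nat_lit 5) (nat_lit 2) (nat_lit 4) (nat_lit 336) (nat_lit 239) (nat_lit 205))) (XT.nd (nat_lit 78) (nat_lit 0) (nat_lit 0) (XT.lf (nat_lit 0) (nat_lit 29417786676) (nat_lit 76) (nat_lit 210420723797) (nat_lit 76) (nat_lit 207696008004) (nat_lit 1) (nat_lit 4) (nat_lit 2) (nat_lit 5) (nat_lit 2) (nat_lit 4) (nat_lit 337) (nat_lit 239) (nat_lit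 204)) (XT.lf (nat_lit 0) (nat_lit 35097756791) (nat_lit 76) (nat_lit 225419797141) (nat_lit 76) (nat_lit 222680440379) (nat_lit 1) (nat_lit 4) (nat_lit 2) (nat_lit 5) (nat_lit 2) (nat_lit 4) (nat_lit 338) (nat_lit 239) (nat_lit 203))))) (XT.nd (nat_lit 234) (nat_lit 0) (nat_lit 0) (XT.nd (nat_lit 78) (nat_lit 0) (nat_lit 0) (XT.lf (nat_lit 0) (nat_lit 41203726366) (nat_lit 76) (nat_lit 241632462059) (nat_lit 76) (nat_lit 238879548844) (nat_lit 1) (nat_lit 4) (nat_lit 2) (nat_lit 5) (nat_lit 2) (nat_lit 4) (nat_lit 339) (nat_lit 239) (nat_lit 202)) (XT.nd (nat_lit 78) (nat_lit 0) (nat_lit 0) (XT.lf (nat_lit 0) (nat_lit 47771878925) (nat_lit 76) (nat_lit 259154793602) (nat_lit 76) (nat_lit 256389328115) (nat_lit 1) (nat_lit 4) (nat_lit 2) (nat_lit 5) (nat_lit 2) (nat_lit 4) (nat_lit 340) (nat_lit 239) (nat_lit 201)) (XT.lf (nat_lit 0) (nat_lit 54841136852) (nat_lit 76) (nat_lit 278090627809)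 (nat_lit 76) (nat_lit 275313539849) (nat_lit 1) (nat_lit 4) (nat_lit 2) (nat_lit 5) (nat_lit 2) (nat_lit 4) (nat_lit 341) (nat_lit 239) (nat_lit 200)))) (XT.nd (nat_lit 156) (nat_lit 0) (nat_lit 0) (XT.nd (nat_lit 78) (nat_lit 0) (nat_lit 0) (XT.lf (nat_lit 0) (nat_lit 62453392048) (nat_lit 76) (nat_lit 298552177031) (nat_lit 76) (nat_lit 295764327521) (nat_lit 1) (nat_lit 4) (nat_lit 2) (nat_lit 5) (nat_lit 2) (nat_lit 4) (nat_lit 342) (nat_lit 239) (nat_lit 199)) (XT.lf (nat_lit 0) (nat_lit 70653754171) (nat_lit 76) (nat_lit 320660694893) (nat_lit 76) (nat_lit 317862880986) (nat_lit 1) (nat_lit 4) (nat_lit 2) (nat_lit 5) (nat_lit 2) (nat_lit 4) (nat_lit 343) (nat_lit 239) (nat_lit 198))) (XT.nd (nat_lit 78) (nat_lit 0) (nat_lit 0) (XT.lf (nat_lit 0) (nat_lit 79490817961) (nat_lit 76) (nat_lit 344547194833) (nat_lit 76) (nat_lit 341740154632) (nat_lit 1) (nat_lit 4) (nat_lit 2) (nat_lit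 5) (nat_lit 2) (nat_lit 4) (nat_lit 344) (nat_lit 239) (nat_lit 197)) (XT.lf (nat_lit 0) (nat_lit 89016951204) (nat_lit 76) (nat_lit 370353226482) (nat_lit 76) (nat_lit 367537643416) (nat_lit 1) (nat_lit 4) (nat_lit 2) (nat_lit 5) (nat_lit 2) (nat_lit 4) (nat_lit 345) (nat_lit 239) (nat_lit 196)))))) (XT.nd (nat_lit 546) (nat_lit 0) (nat_lit 0) (XT.nd (nat_lit 234) (nat_lit 0) (nat_lit 0) (XT.nd (nat_lit 78) (nat_lit 0) (nat_lit 0) (XT.lf (nat_lit 0) (nat_lit 99288605058) (nat_lit 76) (nat_lit 398231714471) (nat_lit 76) (nat_lit 395408221345) (nat_lit 1) (nat_lit 4) (nat_lit 2) (nat_lit 5) (nat_lit 2) (nat_lit 4) (nat_lit 346) (nat_lit 239) (nat_lit 195)) (XT.nd (nat_lit 78) (nat_lit 0) (nat_lit 0) (XT.lf (nat_lit 0) (nat_lit 110366648584) (nat_lit 76) (nat_lit 428347864655) (nat_lit 76) (nat_lit 425517047399) (nat_lit 1) (nat_lit 4) (nat_lit 2) (nat_lit 5) (nat_lit 2) (nat_lit 4) (nat_lit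 347) (nat_lit 239) (nat_lit 194)) (XT.lf (nat_lit 0) (nat_lit 122316729448) (nat_lit 76) (nat_lit 460880143109) (nat_lit 76) (nat_lit 458042544252) (nat_lit 1) (nat_lit 4) (nat_lit 2) (nat_lit 5) (nat_lit 2) (nat_lit 4) (nat_lit 348) (nat_lit 239) (nat_lit 193)))) (XT.nd (nat_lit 156) (nat_lit 0) (nat_lit 0) (XT.nd (nat_lit 78) (nat_lit 0) (nat_lit 0) (XT.lf (nat_lit 0) (nat_lit 135209662943) (nat_lit 76) (nat_lit 496021333706) (nat_lit 76) (nat_lit 493177455588) (nat_lit 1) (nat_lit 4) (nat_lit 2) (nat_lit 5) (nat_lit 2) (nat_lit 4) (nat_lit 349) (nat_lit 239) (nat_lit 192)) (XT.lf (nat_lit 0) (nat_lit 149121851638) (nat_lit 76) (nat_lit 533979680538) (nat_lit 76) (nat_lit 531129988290) (nat_lit 1) (nat_lit 4) (nat_lit 2) (nat_lit 5) (nat_lit 2) (nat_lit 4) (nat_lit 350) (nat_lit 239) (nat_lit 191))) (XT.nd (nat_lit 78) (nat_lit 0) (nat_lit 0) (XT.lf (nat_lit 0) (nat_lit 164135738133)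 (nat_lit 76) (nat_lit 574980121956) (nat_lit 76) (nat_lit 572125046254) (nat_lit 1) (nat_lit 4) (nat_lit 2) (nat_lit 5) (nat_lit 2) (nat_lit 4) (nat_lit 351) (nat_lit 239) (nat_lit 190)) (XT.lf (nat_lit 0) (nat_lit 180340293607) (nat_lit 76) (nat_lit 619265623539) (nat_lit 76) (nat_lit 616405563158) (nat_lit 1) (nat_lit 4) (nat_lit 2) (nat_lit 5) (nat_lit 2) (nat_lit 4) (nat_lit 352) (nat_lit 239) (nat_lit 189))))) (XT.nd (nat_lit 312) (nat_lit 0) (nat_lit 0) (XT.nd (nat_lit 156) (nat_lit 0) (nat_lit 0) (XT.nd (nat_lit 78) (nat_lit 0) (nat_lit 0) (XT.lf (nat_lit 0) (nat_lit 197831545056) (nat_lit 76) (nat_lit 667098617890) (nat_lit 76) (nat_lit 664233942065) (nat_lit 1) (nat_lit 4) (nat_lit 2) (nat_lit 5) (nat_lit 2) (nat_lit 4) (nat_lit 353) (nat_lit 239) (nat_lit 188)) (XT.lf (nat_lit 0) (nat_lit 216713144339) (nat_lit 76) (nat_lit 718762559789) (nat_lit 76) (nat_lit 715893610405)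 (nat_lit 1) (nat_lit 4) (nat_lit 2) (nat_lit 5) (nat_lit 2) (nat_lit 4) (nat_lit 354) (nat_lit 239) (nat_lit 187))) (XT.nd (nat_lit 78) (nat_lit 0) (nat_lit 0) (XT.lf (nat_lit 0) (nat_lit 237096982416) (nat_lit 76) (nat_lit 774563605930) (nat_lit 76) (nat_lit 771690699546) (nat_lit 1) (nat_lit 4) (nat_lit 2) (nat_lit 5) (nat_lit 2) (nat_lit 4) (nat_lit 355) (nat_lit 239) (nat_lit 186)) (XT.lf (nat_lit 0) (nat_lit 259103852402) (nat_lit 76) (nat_lit 834832429178) (nat_lit 76) (nat_lit 831955858906) (nat_lit 1) (nat_lit 4) (nat_lit 2) (nat_lit 5) (nat_lit 2) (nat_lit 4) (nat_lit 356) (nat_lit 239) (nat_lit 185)))) (XT.nd (nat_lit 156) (nat_lit 0) (nat_lit 0) (XT.nd (nat_lit 78) (nat_lit 0) (nat_lit 0) (XT.lf (nat_lit 0) (nat_lit 282864165376) (nat_lit 76) (nat_lit 899926178116) (nat_lit 76) (nat_lit 897046215354) (nat_lit 1) (nat_lit 4) (nat_lit 2) (nat_lit 5) (nat_lit 2) (nat_lit 4)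 (nat_lit 357) (nat_lit 239) (nat_lit 184)) (XT.lf (nat_lit 0) (nat_lit 308518723195) (nat_lit 76) (nat_lit 970230593477) (nat_lit 76) (nat_lit 967347489522) (nat_lit 1) (nat_lit 4) (nat_lit 2) (nat_lit 5) (nat_lit 2) (nat_lit 4) (nat_lit 358) (nat_lit 239) (nat_lit 183))) (XT.nd (nat_lit 78) (nat_lit 0) (nat_lit 0) (XT.lf (nat_lit 0) (nat_lit 336219552868) (nat_lit 76) (nat_lit 1046162294021) (nat_lit 76) (nat_lit 1043276281553) (nat_lit 1) (nat_lit 4) (nat_lit 2) (nat_lit 5) (nat_lit 2) (nat_lit 4) (nat_lit 359) (nat_lit 239) (nat_lit 182)) (XT.lf (nat_lit 0) (nat_lit 366130807459) (nat_lit 76) (nat_lit 1128171245379) (nat_lit 76) (nat_lit 1125282539843) (nat_lit 1) (nat_lit 4) (nat_lit 2) (nat_lit 5) (nat_lit 2) (nat_lit 4) (nat_lit 360) (nat_lit 239) (nat_lit 181))))))) (XT.nd (nat_lit 36504) (nat_lit 0) (nat_lit 76) (XT.nd (nat_lit 35880) (nat_lit 0) (nat_lit 228) (XT.nd (nat_lit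 234) (nat_lit 0) (nat_lit 0) (XT.nd (nat_lit 78) (nat_lit 0) (nat_lit 0) (XT.lf (nat_lit 0) (nat_lit 398429738847) (nat_lit 76) (nat_lit 1216743426522) (nat_lit 76) (nat_lit 1213852227406) (nat_lit 1) (nat_lit 4) (nat_lit 2) (nat_lit 5) (nat_lit 2) (nat_lit 4) (nat_lit 361) (nat_lit 239) (nat_lit 180)) (XT.nd (nat_lit 78) (nat_lit 0) (nat_lit 0) (XT.lf (nat_lit 0) (nat_lit 433307748107) (nat_lit 76) (nat_lit 1312403709636) (nat_lit 76) (nat_lit 1309510201649) (nat_lit 1) (nat_lit 4) (nat_lit 2) (nat_lit 5) (nat_lit 2) (nat_lit 4) (nat_lit 362) (nat_lit 239) (nat_lit 179)) (XT.lf (nat_lit 0) (nat_lit 470971519739) (nat_lit 76) (nat_lit 1415718970471) (nat_lit 76) (nat_lit 1412823324640) (nat_lit 1) (nat_lit 4) (nat_lit 2) (nat_lit 5) (nat_lit 2) (nat_lit 4) (nat_lit 363) (nat_lit 239) (nat_lit 178)))) (XT.nd (nat_lit 156) (nat_lit 0) (nat_lit 0) (XT.nd (nat_lit 78) (nat_lit 0) (nat_lit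 0) (XT.lf (nat_lit 0) (nat_lit 511644246463) (nat_lit 76) (nat_lit 1527301447611) (nat_lit 76) (nat_lit 1524403822296) (nat_lit 1) (nat_lit 4) (nat_lit 2) (nat_lit 5) (nat_lit 2) (nat_lit 4) (nat_lit 364) (nat_lit 239) (nat_lit 177)) (XT.lf (nat_lit 0) (nat_lit 555566951845) (nat_lit 76) (nat_lit 1647812370550) (nat_lit 76) (nat_lit 1644912912378) (nat_lit 1) (nat_lit 4) (nat_lit 2) (nat_lit 5) (nat_lit 2) (nat_lit 4) (nat_lit 365) (nat_lit 239) (nat_lit 176))) (XT.nd (nat_lit 78) (nat_lit 0) (nat_lit 0) (XT.lf (nat_lit 0) (nat_lit 602999918583) (nat_lit 76) (nat_lit 1777965878091) (nat_lit 76) (nat_lit 1775064722830) (nat_lit 1) (nat_lit 4) (nat_lit 2) (nat_lit 5) (nat_lit 2) (nat_lit 4) (nat_lit 366) (nat_lit 239) (nat_lit 175)) (XT.lf (nat_lit 0) (nat_lit 654224230926) (nat_lit 76) (nat_lit 1918533250277) (nat_lit 76) (nat_lit 1915630523637) (nat_lit 1) (nat_lit 4) (nat_lit 2) (nat_lit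 5) (nat_lit 2) (nat_lit 4) (nat_lit 367) (nat_lit 239) (nat_lit 174))))) (XT.nd (nat_lit 312) (nat_lit 0) (nat_lit 0) (XT.nd (nat_lit 156) (nat_lit 76) (nat_lit 0) (XT.nd (nat_lit 78) (nat_lit 0) (nat_lit 0) (XT.lf (nat_lit 0) (nat_lit 4191175398) (nat_lit 152) (nat_lit 6040857153) (nat_lit 0) (nat_lit 4191175398) (nat_lit 5) (nat_lit 5) (nat_lit 7) (nat_lit 4) (nat_lit 5) (nat_lit 4) (nat_lit 300) (nat_lit 240) (nat_lit 240)) (XT.lf (nat_lit 0) (nat_lit 12775111418) (nat_lit 152) (nat_lit 5533109540) (nat_lit 0) (nat_lit 12522618747) (nat_lit 5) (nat_lit 5) (nat_lit 7) (nat_lit 4) (nat_lit 5) (nat_lit 4) (nat_lit 301) (nat_lit 240) (nat_lit 239))) (XT.nd (nat_lit 78) (nat_lit 0) (nat_lit 0) (XT.lf (nat_lit 0) (nat_lit 1234729350) (nat_lit 76) (nat_lit 16119478723) (nat_lit 76) (nat_lit 15633196542) (nat_lit 4) (nat_lit 4) (nat_lit 5) (nat_lit 5) (nat_lit 5) (nat_lit 4) (nat_lit 302)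 (nat_lit 240) (nat_lit 238)) (XT.lf (nat_lit 0) (nat_lit 8501524238) (nat_lit 76) (nat_lit 13760451990) (nat_lit 76) (nat_lit 13057698040) (nat_lit 4) (nat_lit 4) (nat_lit 5) (nat_lit 5) (nat_lit 5) (nat_lit 4) (nat_lit 303) (nat_lit 240) (nat_lit 237)))) (XT.nd (nat_lit 156) (nat_lit 0) (nat_lit 0) (XT.nd (nat_lit 78) (nat_lit 0) (nat_lit 0) (XT.lf (nat_lit 0) (nat_lit 16018973871) (nat_lit 76) (nat_lit 11368446362) (nat_lit 76) (nat_lit 10465255590) (nat_lit 4) (nat_lit 4) (nat_lit 5) (nat_lit 5) (nat_lit 5) (nat_lit 4) (nat_lit 304) (nat_lit 240) (nat_lit 236)) (XT.lf (nat_lit 0) (nat_lit 23831626097) (nat_lit 76) (nat_lit 8929286991) (nat_lit 76) (nat_lit 7840506568) (nat_lit 4) (nat_lit 4) (nat_lit 5) (nat_lit 5) (nat_lit 5) (nat_lit 4) (nat_lit 305) (nat_lit 240) (nat_lit 235))) (XT.nd (nat_lit 78) (nat_lit 0) (nat_lit 0) (XT.lf (nat_lit 0) (nat_lit 31985778115) (nat_lit 76) (nat_lit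 6428519600) (nat_lit 76) (nat_lit 5167896907) (nat_lit 4) (nat_lit 4) (nat_lit 5) (nat_lit 5) (nat_lit 5) (nat_lit 4) (nat_lit 306) (nat_lit 240) (nat_lit 234)) (XT.lf (nat_lit 0) (nat_lit 40529750826) (nat_lit 76) (nat_lit 3851324825) (nat_lit 76) (nat_lit 2431588920) (nat_lit 4) (nat_lit 4) (nat_lit 5) (nat_lit 5) (nat_lit 5) (nat_lit 4) (nat_lit 307) (nat_lit 240) (nat_lit 233)))))) (XT.nd (nat_lit 546) (nat_lit 0) (nat_lit 0) (XT.nd (nat_lit 234) (nat_lit 0) (nat_lit 0) (XT.nd (nat_lit 78) (nat_lit 76) (nat_lit 0) (XT.lf (nat_lit 0) (nat_lit 365391673) (nat_lit 152) (nat_lit 807048272) (nat_lit 76) (nat_lit 49138793050) (nat_lit 3) (nat_lit 5) (nat_lit 5) (nat_lit 5) (nat_lit 4) (nat_lit 4) (nat_lit 308) (nat_lit 240) (nat_lit 232)) (XT.nd (nat_lit 78) (nat_lit 0) (nat_lit 0) (XT.lf (nat_lit 0) (nat_lit 3297889628) (nat_lit 152) (nat_lit 49062795642) (nat_lit 0) (nat_lit 1720596214)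 (nat_lit 2) (nat_lit 5) (nat_lit 4) (nat_lit 4) (nat_lit 2) (nat_lit 4) (nat_lit 309) (nat_lit 240) (nat_lit 231)) (XT.lf (nat_lit 0) (nat_lit 6396873436) (nat_lit 152) (nat_lit 47058972727) (nat_lit 0) (nat_lit 4702627062) (nat_lit 2) (nat_lit 5) (nat_lit 4) (nat_lit 4) (nat_lit 2) (nat_lit 4) (nat_lit 310) (nat_lit 240) (nat_lit 230)))) (XT.nd (nat_lit 156) (nat_lit 0) (nat_lit 0) (XT.nd (nat_lit 78) (nat_lit 0) (nat_lit 0) (XT.lf (nat_lit 0) (nat_lit 9631547946) (nat_lit 152) (nat_lit 45110342376) (nat_lit 0) (nat_lit 7829011793) (nat_lit 2) (nat_lit 5) (nat_lit 4) (nat_lit 4) (nat_lit 2) (nat_lit 4) (nat_lit 311) (nat_lit 240) (nat_lit 229)) (XT.lf (nat_lit 0) (nat_lit 13021081597) (nat_lit 152) (nat_lit 43205357151) (nat_lit 0) (nat_lit 11118277130) (nat_lit 2) (nat_lit 5) (nat_lit 4) (nat_lit 4) (nat_lit 2) (nat_lit 4) (nat_lit 312) (nat_lit 240) (nat_lit 228))) (XT.nd (nat_lit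 78) (nat_lit 0) (nat_lit 0) (XT.lf (nat_lit 0) (nat_lit 16585560516) (nat_lit 152) (nat_lit 41332728250) (nat_lit 0) (nat_lit 14589915018) (nat_lit 2) (nat_lit 5) (nat_lit 4) (nat_lit 4) (nat_lit 2) (nat_lit 4) (nat_lit 313) (nat_lit 240) (nat_lit 227)) (XT.lf (nat_lit 0) (nat_lit 20346107540) (nat_lit 152) (nat_lit 39481358613) (nat_lit 0) (nat_lit 18264498125) (nat_lit 2) (nat_lit 5) (nat_lit 4) (nat_lit 4) (nat_lit 2) (nat_lit 4) (nat_lit 314) (nat_lit 240) (nat_lit 226))))) (XT.nd (nat_lit 312) (nat_lit 0) (nat_lit 0) (XT.nd (nat_lit 156) (nat_lit 0) (nat_lit 0) (XT.nd (nat_lit 78) (nat_lit 0) (nat_lit 0) (XT.lf (nat_lit 0) (nat_lit 24325007393) (nat_lit 152) (nat_lit 37640277160) (nat_lit 0) (nat_lit 22163801758) (nat_lit 2) (nat_lit 5) (nat_lit 4) (nat_lit 4) (nat_lit 2) (nat_lit 4) (nat_lit 315) (nat_lit 240) (nat_lit 225)) (XT.lf (nat_lit 0) (nat_lit 28545838740) (nat_lit 152)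 (nat_lit 35798573779) (nat_lit 0) (nat_lit 26310932901) (nat_lit 2) (nat_lit 5) (nat_lit 4) (nat_lit 4) (nat_lit 2) (nat_lit 4) (nat_lit 316) (nat_lit 240) (nat_lit 224))) (XT.nd (nat_lit 78) (nat_lit 0) (nat_lit 0) (XT.lf (nat_lit 0) (nat_lit 33033613916) (nat_lit 152) (nat_lit 33945334673) (nat_lit 0) (nat_lit 30730467147) (nat_lit 2) (nat_lit 5) (nat_lit 4) (nat_lit 4) (nat_lit 2) (nat_lit 4) (nat_lit 317) (nat_lit 240) (nat_lit 223)) (XT.lf (nat_lit 0) (nat_lit 37814927143) (nat_lit 152) (nat_lit 32069577684) (nat_lit 0) (nat_lit 35448594329) (nat_lit 2) (nat_lit 5) (nat_lit 4) (nat_lit 4) (nat_lit 2) (nat_lit 4) (nat_lit 318) (nat_lit 240) (nat_lit 222)))) (XT.nd (nat_lit 156) (nat_lit 0) (nat_lit 0) (XT.nd (nat_lit 78) (nat_lit 0) (nat_lit 0) (XT.lf (nat_lit 0) (nat_lit 42918112130) (nat_lit 152) (nat_lit 30160187215) (nat_lit 0) (nat_lit 40493273718) (nat_lit 2) (nat_lit 5) (nat_lit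 4) (nat_lit 4) (nat_lit 2) (nat_lit 4) (nat_lit 319) (nat_lit 240) (nat_lit 221)) (XT.lf (nat_lit 0) (nat_lit 48373409972) (nat_lit 152) (nat_lit 28205848359) (nat_lit 0) (nat_lit 45894399710) (nat_lit 2) (nat_lit 5) (nat_lit 4) (nat_lit 4) (nat_lit 2) (nat_lit 4) (nat_lit 320) (nat_lit 240) (nat_lit 220))) (XT.nd (nat_lit 78) (nat_lit 0) (nat_lit 0) (XT.lf (nat_lit 0) (nat_lit 54213148362) (nat_lit 152) (nat_lit 26194979849) (nat_lit 0) (nat_lit 51683978979) (nat_lit 2) (nat_lit 5) (nat_lit 4) (nat_lit 4) (nat_lit 2) (nat_lit 4) (nat_lit 321) (nat_lit 240) (nat_lit 219)) (XT.lf (nat_lit 0) (nat_lit 60471933155) (nat_lit 152) (nat_lit 24115665428) (nat_lit 0) (nat_lit 57896320142) (nat_lit 2) (nat_lit 5) (nat_lit 4) (nat_lit 4) (nat_lit 2) (nat_lit 4) (nat_lit 322) (nat_lit 240) (nat_lit 218))))))))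
noncomputable def xc20 : XT := (XT.nd (nat_lit 2262) (nat_lit 0) (nat_lit 0) (XT.nd (nat_lit 1092) (nat_lit 0) (nat_lit 0) (XT.nd (nat_lit 546) (nat_lit 76) (nat_lit 0) (XT.nd (nat_lit 234) (nat_lit 0) (nat_lit 0) (XT.nd (nat_lit 78) (nat_lit 0) (nat_lit 0) (XT.lf (nat_lit 0) (nat_lit 67186853446) (nat_lit 152) (nat_lit 21955583231) (nat_lit 0) (nat_lit 64568237073) (nat_lit 2) (nat_lit 5) (nat_lit 4) (nat_lit 4) (nat_lit 2) (nat_lit 4) (nat_lit 323) (nat_lit 240) (nat_lit 217)) (XT.nd (nat_lit 78) (nat_lit 0) (nat_lit 0) (XT.lf (nat_lit 0) (nat_lit 74397701358) (nat_lit 152) (nat_lit 19701932772) (nat_lit 0) (nat_lit 71739267057) (nat_lit 2) (nat_lit 5) (nat_lit 4) (nat_lit 4) (nat_lit 2) (nat_lit 4) (nat_lit 324) (nat_lit 240) (nat_lit 216)) (XT.lf (nat_lit 0) (nat_lit 82147207838) (nat_lit 152) (nat_lit 17341359085) (nat_lit 0) (nat_lit 79451905087) (nat_lit 2) (nat_lit 5) (nat_lit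 4) (nat_lit 4) (nat_lit 2) (nat_lit 4) (nat_lit 325) (nat_lit 240) (nat_lit 215)))) (XT.nd (nat_lit 156) (nat_lit 0) (nat_lit 0) (XT.nd (nat_lit 78) (nat_lit 0) (nat_lit 0) (XT.lf (nat_lit 0) (nat_lit 90481295890) (nat_lit 152) (nat_lit 14859873586) (nat_lit 0) (nat_lit 87751855685) (nat_lit 2) (nat_lit 5) (nat_lit 4) (nat_lit 4) (nat_lit 2) (nat_lit 4) (nat_lit 326) (nat_lit 240) (nat_lit 214)) (XT.lf (nat_lit 0) (nat_lit 99449352702) (nat_lit 152) (nat_lit 12242771175) (nat_lit 0) (nat_lit 96688303742) (nat_lit 2) (nat_lit 5) (nat_lit 4) (nat_lit 4) (nat_lit 2) (nat_lit 4) (nat_lit 327) (nat_lit 240) (nat_lit 213))) (XT.nd (nat_lit 78) (nat_lit 0) (nat_lit 0) (XT.lf (nat_lit 0) (nat_lit 109104522313) (nat_lit 152) (nat_lit 9474543097) (nat_lit 0) (nat_lit 106314205988) (nat_lit 2) (nat_lit 5) (nat_lit 4) (nat_lit 4) (nat_lit 2) (nat_lit 4) (nat_lit 328) (nat_lit 240) (nat_lit 212))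 (XT.lf (nat_lit 0) (nat_lit 119504020544) (nat_lit 152) (nat_lit 6538785038) (nat_lit 0) (nat_lit 116686604807) (nat_lit 2) (nat_lit 5) (nat_lit 4) (nat_lit 4) (nat_lit 2) (nat_lit 4) (nat_lit 329) (nat_lit 240) (nat_lit 211))))) (XT.nd (nat_lit 234) (nat_lit 0) (nat_lit 0) (XT.nd (nat_lit 78) (nat_lit 76) (nat_lit 0) (XT.lf (nat_lit 0) (nat_lit 130709474051) (nat_lit 152) (nat_lit 3418099912) (nat_lit 0) (nat_lit 127866966267) (nat_lit 2) (nat_lit 5) (nat_lit 4) (nat_lit 4) (nat_lit 2) (nat_lit 4) (nat_lit 330) (nat_lit 240) (nat_lit 210)) (XT.nd (nat_lit 78) (nat_lit 76) (nat_lit 0) (XT.lf (nat_lit 0) (nat_lit 142787285522) (nat_lit 152) (nat_lit 93994771) (nat_lit 0) (nat_lit 139921544359) (nat_lit 2) (nat_lit 5) (nat_lit 4) (nat_lit 4) (nat_lit 2) (nat_lit 4) (nat_lit 331) (nat_lit 240) (nat_lit 209)) (XT.lf (nat_lit 0) (nat_lit 3635069693) (nat_lit 76) (nat_lit 152261380993) (nat_lit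 76) (nat_lit 149374127443) (nat_lit 1) (nat_lit 4) (nat_lit 2) (nat_lit 5) (nat_lit 2) (nat_lit 4) (nat_lit 332) (nat_lit 240) (nat_lit 208)))) (XT.nd (nat_lit 156) (nat_lit 0) (nat_lit 0) (XT.nd (nat_lit 78) (nat_lit 0) (nat_lit 0) (XT.lf (nat_lit 0) (nat_lit 7626078683) (nat_lit 76) (nat_lit 162409193571) (nat_lit 76) (nat_lit 159502021145) (nat_lit 1) (nat_lit 4) (nat_lit 2) (nat_lit 5) (nat_lit 2) (nat_lit 4) (nat_lit 333) (nat_lit 240) (nat_lit 207)) (XT.lf (nat_lit 0) (nat_lit 11897733023) (nat_lit 76) (nat_lit 173387423198) (nat_lit 76) (nat_lit 170461807368) (nat_lit 1) (nat_lit 4) (nat_lit 2) (nat_lit 5) (nat_lit 2) (nat_lit 4) (nat_lit 334) (nat_lit 240) (nat_lit 206))) (XT.nd (nat_lit 78) (nat_lit 0) (nat_lit 0) (XT.lf (nat_lit 0) (nat_lit 16475346222) (nat_lit 76) (nat_lit 185261126050) (nat_lit 76) (nat_lit 182318432993) (nat_lit 1) (nat_lit 4) (nat_lit 2) (nat_lit 5) (nat_lit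 2) (nat_lit 4) (nat_lit 335) (nat_lit 240) (nat_lit 205)) (XT.lf (nat_lit 0) (nat_lit 21386044875) (nat_lit 76) (nat_lit 198100664810) (nat_lit 76) (nat_lit 195142159506) (nat_lit 1) (nat_lit 4) (nat_lit 2) (nat_lit 5) (nat_lit 2) (nat_lit 4) (nat_lit 336) (nat_lit 240) (nat_lit 204)))))) (XT.nd (nat_lit 546) (nat_lit 0) (nat_lit 0) (XT.nd (nat_lit 234) (nat_lit 0) (nat_lit 0) (XT.nd (nat_lit 78) (nat_lit 0) (nat_lit 0) (XT.lf (nat_lit 0) (nat_lit 26658929420) (nat_lit 76) (nat_lit 211982125633) (nat_lit 76) (nat_lit 209008979360) (nat_lit 1) (nat_lit 4) (nat_lit 2) (nat_lit 5) (nat_lit 2) (nat_lit 4) (nat_lit 337) (nat_lit 240) (nat_lit 203)) (XT.nd (nat_lit 78) (nat_lit 0) (nat_lit 0) (XT.lf (nat_lit 0) (nat_lit 32325246579) (nat_lit 76) (nat_lit 226987769028) (nat_lit 76) (nat_lit 224001066302) (nat_lit 1) (nat_lit 4) (nat_lit 2) (nat_lit 5) (nat_lit 2) (nat_lit 4) (nat_lit 338)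 (nat_lit 240) (nat_lit 202)) (XT.lf (nat_lit 0) (nat_lit 38418574528) (nat_lit 76) (nat_lit 243206517326) (nat_lit 76) (nat_lit 240207262329) (nat_lit 1) (nat_lit 4) (nat_lit 2) (nat_lit 5) (nat_lit 2) (nat_lit 4) (nat_lit 339) (nat_lit 240) (nat_lit 201)))) (XT.nd (nat_lit 156) (nat_lit 0) (nat_lit 0) (XT.nd (nat_lit 78) (nat_lit 0) (nat_lit 0) (XT.lf (nat_lit 0) (nat_lit 44975021877) (nat_lit 76) (nat_lit 260734481629) (nat_lit 76) (nat_lit 257723604159) (nat_lit 1) (nat_lit 4) (nat_lit 2) (nat_lit 5) (nat_lit 2) (nat_lit 4) (nat_lit 340) (nat_lit 240) (nat_lit 200)) (XT.lf (nat_lit 0) (nat_lit 52033441647) (nat_lit 76) (nat_lit 279675531355) (nat_lit 76) (nat_lit 276653892335) (nat_lit 1) (nat_lit 4) (nat_lit 2) (nat_lit 5) (nat_lit 2) (nat_lit 4) (nat_lit 341) (nat_lit 240) (nat_lit 199))) (XT.nd (nat_lit 78) (nat_lit 0) (nat_lit 0) (XT.lf (nat_lit 0) (nat_lit 59635661512) (nat_lit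 76) (nat_lit 300141909760) (nat_lit 76) (nat_lit 297110306343) (nat_lit 1) (nat_lit 4) (nat_lit 2) (nat_lit 5) (nat_lit 2) (nat_lit 4) (nat_lit 342) (nat_lit 240) (nat_lit 198)) (XT.lf (nat_lit 0) (nat_lit 67826731663) (nat_lit 76) (nat_lit 322254899088) (nat_lit 76) (nat_lit 319214069377) (nat_lit 1) (nat_lit 4) (nat_lit 2) (nat_lit 5) (nat_lit 2) (nat_lit 4) (nat_lit 343) (nat_lit 240) (nat_lit 197))))) (XT.nd (nat_lit 312) (nat_lit 0) (nat_lit 0) (XT.nd (nat_lit 156) (nat_lit 0) (nat_lit 0) (XT.nd (nat_lit 78) (nat_lit 0) (nat_lit 0) (XT.lf (nat_lit 0) (nat_lit 76655191775) (nat_lit 76) (nat_lit 346145539275) (nat_lit 76) (nat_lit 343096166699) (nat_lit 1) (nat_lit 4) (nat_lit 2) (nat_lit 5) (nat_lit 2) (nat_lit 4) (nat_lit 344) (nat_lit 240) (nat_lit 196)) (XT.lf (nat_lit 0) (nat_lit 86173358648) (nat_lit 76) (nat_lit 371955404486) (nat_lit 76) (nat_lit 368898121850) (nat_lit 1)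 (nat_lit 4) (nat_lit 2) (nat_lit 5) (nat_lit 2) (nat_lit 4) (nat_lit 345) (nat_lit 240) (nat_lit 195))) (XT.nd (nat_lit 78) (nat_lit 0) (nat_lit 0) (XT.lf (nat_lit 0) (nat_lit 96437636235) (nat_lit 76) (nat_lit 399837442069) (nat_lit 76) (nat_lit 396772835303) (nat_lit 1) (nat_lit 4) (nat_lit 2) (nat_lit 5) (nat_lit 2) (nat_lit 4) (nat_lit 346) (nat_lit 240) (nat_lit 194)) (XT.lf (nat_lit 0) (nat_lit 107508849884) (nat_lit 76) (nat_lit 429956878914) (nat_lit 76) (nat_lit 426885490547) (nat_lit 1) (nat_lit 4) (nat_lit 2) (nat_lit 5) (nat_lit 2) (nat_lit 4) (nat_lit 347) (nat_lit 240) (nat_lit 193)))) (XT.nd (nat_lit 156) (nat_lit 0) (nat_lit 0) (XT.nd (nat_lit 78) (nat_lit 0) (nat_lit 0) (XT.lf (nat_lit 0) (nat_lit 119452606787) (nat_lit 76) (nat_lit 462492200573) (nat_lit 76) (nat_lit 459414532946) (nat_lit 1) (nat_lit 4) (nat_lit 2) (nat_lit 5) (nat_lit 2) (nat_lit 4) (nat_lit 348)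 (nat_lit 240) (nat_lit 192)) (XT.lf (nat_lit 0) (nat_lit 132339684763) (nat_lit 76) (nat_lit 497636208952) (nat_lit 76) (nat_lit 494552727194) (nat_lit 1) (nat_lit 4) (nat_lit 2) (nat_lit 5) (nat_lit 2) (nat_lit 4) (nat_lit 349) (nat_lit 240) (nat_lit 191))) (XT.nd (nat_lit 78) (nat_lit 0) (nat_lit 0) (XT.lf (nat_lit 0) (nat_lit 146246451682) (nat_lit 76) (nat_lit 535597164842) (nat_lit 76) (nat_lit 532508299630) (nat_lit 1) (nat_lit 4) (nat_lit 2) (nat_lit 5) (nat_lit 2) (nat_lit 4) (nat_lit 350) (nat_lit 240) (nat_lit 190)) (XT.lf (nat_lit 0) (nat_lit 161255318013) (nat_lit 76) (nat_lit 576600022054) (nat_lit 76) (nat_lit 573506172162) (nat_lit 1) (nat_lit 4) (nat_lit 2) (nat_lit 5) (nat_lit 2) (nat_lit 4) (nat_lit 351) (nat_lit 240) (nat_lit 189))))))) (XT.nd (nat_lit 1092) (nat_lit 0) (nat_lit 0) (XT.nd (nat_lit 546) (nat_lit 0) (nat_lit 0) (XT.nd (nat_lit 234) (nat_lit 0) (nat_lit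 0) (XT.nd (nat_lit 78) (nat_lit 0) (nat_lit 0) (XT.lf (nat_lit 0) (nat_lit 177455225187) (nat_lit 76) (nat_lit 620887760484) (nat_lit 76) (nat_lit 617789295148) (nat_lit 1) (nat_lit 4) (nat_lit 2) (nat_lit 5) (nat_lit 2) (nat_lit 4) (nat_lit 352) (nat_lit 240) (nat_lit 188)) (XT.nd (nat_lit 78) (nat_lit 0) (nat_lit 0) (XT.lf (nat_lit 0) (nat_lit 194942172655) (nat_lit 76) (nat_lit 668722825989) (nat_lit 76) (nat_lit 665620087094) (nat_lit 1) (nat_lit 4) (nat_lit 2) (nat_lit 5) (nat_lit 2) (nat_lit 4) (nat_lit 353) (nat_lit 240) (nat_lit 187)) (XT.lf (nat_lit 0) (nat_lit 213819786770) (nat_lit 76) (nat_lit 720388685624) (nat_lit 76) (nat_lit 717281989729) (nat_lit 1) (nat_lit 4) (nat_lit 2) (nat_lit 5) (nat_lit 2) (nat_lit 4) (nat_lit 354) (nat_lit 240) (nat_lit 186)))) (XT.nd (nat_lit 156) (nat_lit 0) (nat_lit 0) (XT.nd (nat_lit 78) (nat_lit 0) (nat_lit 0) (XT.lf (nat_lit 0) (nat_lit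 234199934877) (nat_lit 76) (nat_lit 776191507445) (nat_lit 76) (nat_lit 773081147662) (nat_lit 1) (nat_lit 4) (nat_lit 2) (nat_lit 5) (nat_lit 2) (nat_lit 4) (nat_lit 355) (nat_lit 240) (nat_lit 185)) (XT.lf (nat_lit 0) (nat_lit 256203388223) (nat_lit 76) (nat_lit 836461974842) (nat_lit 76) (nat_lit 833348222570) (nat_lit 1) (nat_lit 4) (nat_lit 2) (nat_lit 5) (nat_lit 2) (nat_lit 4) (nat_lit 356) (nat_lit 240) (nat_lit 184))) (XT.nd (nat_lit 78) (nat_lit 0) (nat_lit 0) (XT.lf (nat_lit 0) (nat_lit 279960537643) (nat_lit 76) (nat_lit 901557246140) (nat_lit 76) (nat_lit 898440352674) (nat_lit 1) (nat_lit 4) (nat_lit 2) (nat_lit 5) (nat_lit 2) (nat_lit 4) (nat_lit 357) (nat_lit 240) (nat_lit 183)) (XT.lf (nat_lit 0) (nat_lit 305612166245) (nat_lit 76) (nat_lit 971863071094) (nat_lit 76) (nat_lit 968743269116) (nat_lit 1) (nat_lit 4) (nat_lit 2) (nat_lit 5) (nat_lit 2) (nat_lit 4) (nat_lit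 358) (nat_lit 240) (nat_lit 182))))) (XT.nd (nat_lit 234) (nat_lit 0) (nat_lit 0) (XT.nd (nat_lit 78) (nat_lit 0) (nat_lit 0) (XT.lf (nat_lit 0) (nat_lit 333310283679) (nat_lit 76) (nat_lit 1047796076816) (nat_lit 76) (nat_lit 1044673581770) (nat_lit 1) (nat_lit 4) (nat_lit 2) (nat_lit 5) (nat_lit 2) (nat_lit 4) (nat_lit 359) (nat_lit 240) (nat_lit 181)) (XT.nd (nat_lit 78) (nat_lit 0) (nat_lit 0) (XT.lf (nat_lit 0) (nat_lit 363219026938) (nat_lit 76) (nat_lit 1129806236672) (nat_lit 76) (nat_lit 1126681248046) (nat_lit 1) (nat_lit 4) (nat_lit 2) (nat_lit 5) (nat_lit 2) (nat_lit 4) (nat_lit 360) (nat_lit 240) (nat_lit 180)) (XT.lf (nat_lit 0) (nat_lit 395515633019) (nat_lit 76) (nat_lit 1218379536796) (nat_lit 76) (nat_lit 1215252239298) (nat_lit 1) (nat_lit 4) (nat_lit 2) (nat_lit 5) (nat_lit 2) (nat_lit 4) (nat_lit 361) (nat_lit 240) (nat_lit 179)))) (XT.nd (nat_lit 156) (nat_lit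 0) (nat_lit 0) (XT.nd (nat_lit 78) (nat_lit 0) (nat_lit 0) (XT.lf (nat_lit 0) (nat_lit 430391489217) (nat_lit 76) (nat_lit 1314040856002) (nat_lit 76) (nat_lit 1310911420661) (nat_lit 1) (nat_lit 4) (nat_lit 2) (nat_lit 5) (nat_lit 2) (nat_lit 4) (nat_lit 362) (nat_lit 240) (nat_lit 178)) (XT.lf (nat_lit 0) (nat_lit 468053267273) (nat_lit 76) (nat_lit 1417357076183) (nat_lit 76) (nat_lit 1414225661357) (nat_lit 1) (nat_lit 4) (nat_lit 2) (nat_lit 5) (nat_lit 2) (nat_lit 4) (nat_lit 363) (nat_lit 240) (nat_lit 177))) (XT.nd (nat_lit 78) (nat_lit 0) (nat_lit 0) (XT.lf (nat_lit 0) (nat_lit 508724148093) (nat_lit 76) (nat_lit 1528940441605) (nat_lit 76) (nat_lit 1525807193923) (nat_lit 1) (nat_lit 4) (nat_lit 2) (nat_lit 5) (nat_lit 2) (nat_lit 4) (nat_lit 364) (nat_lit 240) (nat_lit 176)) (XT.lf (nat_lit 0) (nat_lit 552645144305) (nat_lit 76) (nat_lit 1649452187028) (nat_lit 76) (nat_lit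 1646317242257) (nat_lit 1) (nat_lit 4) (nat_lit 2) (nat_lit 5) (nat_lit 2) (nat_lit 4) (nat_lit 365) (nat_lit 240) (nat_lit 175)))))) (XT.nd (nat_lit 35724) (nat_lit 0) (nat_lit 76) (XT.nd (nat_lit 35412) (nat_lit 0) (nat_lit 228) (XT.nd (nat_lit 78) (nat_lit 0) (nat_lit 0) (XT.lf (nat_lit 0) (nat_lit 600076528479) (nat_lit 76) (nat_lit 1779606456128) (nat_lit 76) (nat_lit 1776469939977) (nat_lit 1) (nat_lit 4) (nat_lit 2) (nat_lit 5) (nat_lit 2) (nat_lit 4) (nat_lit 366) (nat_lit 240) (nat_lit 174)) (XT.nd (nat_lit 35256) (nat_lit 0) (nat_lit 304) (XT.lf (nat_lit 0) (nat_lit 651299375483) (nat_lit 76) (nat_lit 1920174533461) (nat_lit 76) (nat_lit 1917036562331) (nat_lit 1) (nat_lit 4) (nat_lit 2) (nat_lit 5) (nat_lit 2) (nat_lit 4) (nat_lit 367) (nat_lit 240) (nat_lit 173)) (XT.lf (nat_lit 0) (nat_lit 172659949) (nat_lit 152) (nat_lit 12327782836) (nat_lit 0) (nat_lit 172659949) (nat_lit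 5) (nat_lit 5) (nat_lit 7) (nat_lit 4) (nat_lit 5) (nat_lit 4) (nat_lit 298) (nat_lit 241) (nat_lit 241)))) (XT.nd (nat_lit 156) (nat_lit 76) (nat_lit 0) (XT.nd (nat_lit 78) (nat_lit 0) (nat_lit 0) (XT.lf (nat_lit 0) (nat_lit 4392891851) (nat_lit 152) (nat_lit 18511657661) (nat_lit 0) (nat_lit 4120199767) (nat_lit 5) (nat_lit 5) (nat_lit 7) (nat_lit 4) (nat_lit 5) (nat_lit 4) (nat_lit 299) (nat_lit 241) (nat_lit 240)) (XT.lf (nat_lit 0) (nat_lit 8553907068) (nat_lit 152) (nat_lit 12271971064) (nat_lit 0) (nat_lit 8028722313) (nat_lit 5) (nat_lit 5) (nat_lit 7) (nat_lit 4) (nat_lit 5) (nat_lit 4) (nat_lit 300) (nat_lit 241) (nat_lit 239))) (XT.nd (nat_lit 78) (nat_lit 76) (nat_lit 0) (XT.lf (nat_lit 0) (nat_lit 12853023417) (nat_lit 152) (nat_lit 5899529961) (nat_lit 0) (nat_lit 12094049151) (nat_lit 5) (nat_lit 5) (nat_lit 7) (nat_lit 4) (nat_lit 5) (nat_lit 4) (nat_lit 301) (nat_lit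 241) (nat_lit 238)) (XT.lf (nat_lit 0) (nat_lit 677310054) (nat_lit 76) (nat_lit 16654696411) (nat_lit 76) (nat_lit 15679250377) (nat_lit 4) (nat_lit 4) (nat_lit 5) (nat_lit 5) (nat_lit 5) (nat_lit 4) (nat_lit 302) (nat_lit 241) (nat_lit 237))))) (XT.nd (nat_lit 312) (nat_lit 152) (nat_lit 0) (XT.nd (nat_lit 156) (nat_lit 0) (nat_lit 0) (XT.nd (nat_lit 78) (nat_lit 0) (nat_lit 0) (XT.lf (nat_lit 0) (nat_lit 7785119920) (nat_lit 76) (nat_lit 14370546238) (nat_lit 76) (nat_lit 13194663381) (nat_lit 4) (nat_lit 4) (nat_lit 5) (nat_lit 5) (nat_lit 5) (nat_lit 4) (nat_lit 303) (nat_lit 241) (nat_lit 236)) (XT.lf (nat_lit 0) (nat_lit 15155361198) (nat_lit 76) (nat_lit 12047870758) (nat_lit 76) (nat_lit 10686398250) (nat_lit 4) (nat_lit 4) (nat_lit 5) (nat_lit 5) (nat_lit 5) (nat_lit 4) (nat_lit 304) (nat_lit 241) (nat_lit 235))) (XT.nd (nat_lit 78) (nat_lit 0) (nat_lit 0) (XT.lf (nat_lit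 0) (nat_lit 22831709392) (nat_lit 76) (nat_lit 9672905968) (nat_lit 76) (nat_lit 8139591191) (nat_lit 4) (nat_lit 4) (nat_lit 5) (nat_lit 5) (nat_lit 5) (nat_lit 4) (nat_lit 305) (nat_lit 241) (nat_lit 234)) (XT.lf (nat_lit 0) (nat_lit 30859653973) (nat_lit 76) (nat_lit 7231578003) (nat_lit 76) (nat_lit 5539150014) (nat_lit 4) (nat_lit 4) (nat_lit 5) (nat_lit 5) (nat_lit 5) (nat_lit 4) (nat_lit 306) (nat_lit 241) (nat_lit 233)))) (XT.nd (nat_lit 156) (nat_lit 152) (nat_lit 0) (XT.nd (nat_lit 78) (nat_lit 0) (nat_lit 0) (XT.lf (nat_lit 0) (nat_lit 39286767946) (nat_lit 76) (nat_lit 4709419735) (nat_lit 76) (nat_lit 2869664697) (nat_lit 4) (nat_lit 4) (nat_lit 5) (nat_lit 5) (nat_lit 5) (nat_lit 4) (nat_lit 307) (nat_lit 241) (nat_lit 232)) (XT.lf (nat_lit 0) (nat_lit 48162989764) (nat_lit 76) (nat_lit 2091485039) (nat_lit 76) (nat_lit 115316068) (nat_lit 4) (nat_lit 4) (nat_lit 5) (nat_lit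 5) (nat_lit 5) (nat_lit 4) (nat_lit 308) (nat_lit 241) (nat_lit 231))) (XT.nd (nat_lit 78) (nat_lit 0) (nat_lit 0) (XT.lf (nat_lit 0) (nat_lit 2706217956) (nat_lit 152) (nat_lit 50683746354) (nat_lit 0) (nat_lit 759478911) (nat_lit 2) (nat_lit 5) (nat_lit 4) (nat_lit 4) (nat_lit 2) (nat_lit 4) (nat_lit 309) (nat_lit 241) (nat_lit 230)) (XT.lf (nat_lit 0) (nat_lit 5751245994) (nat_lit 152) (nat_lit 48783528438) (nat_lit 0) (nat_lit 3696217170) (nat_lit 2) (nat_lit 5) (nat_lit 4) (nat_lit 4) (nat_lit 2) (nat_lit 4) (nat_lit 310) (nat_lit 241) (nat_lit 229))))))))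
noncomputable def xc21 : XT := (XT.nd (nat_lit 2262) (nat_lit 0) (nat_lit 0) (XT.nd (nat_lit 1092) (nat_lit 76) (nat_lit 0) (XT.nd (nat_lit 546) (nat_lit 0) (nat_lit 0) (XT.nd (nat_lit 234) (nat_lit 0) (nat_lit 0) (XT.nd (nat_lit 78) (nat_lit 0) (nat_lit 0) (XT.lf (nat_lit 0) (nat_lit 8935961456) (nat_lit 152) (nat_lit 46930828641) (nat_lit 0) (nat_lit 6780664318) (nat_lit 2) (nat_lit 5) (nat_lit 4) (nat_lit 4) (nat_lit 2) (nat_lit 4) (nat_lit 311) (nat_lit 241) (nat_lit 228)) (XT.nd (nat_lit 78) (nat_lit 0) (nat_lit 0) (XT.lf (nat_lit 0) (nat_lit 12279236730) (nat_lit 152) (nat_lit 45114668004) (nat_lit 0) (nat_lit 10031098561) (nat_lit 2) (nat_lit 5) (nat_lit 4) (nat_lit 4) (nat_lit 2) (nat_lit 4) (nat_lit 312) (nat_lit 241) (nat_lit 227)) (XT.lf (nat_lit 0) (nat_lit 15800883818) (nat_lit 152) (nat_lit 43324284091) (nat_lit 0) (nat_lit 13466781732) (nat_lit 2) (nat_lit 5) (nat_lit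 4) (nat_lit 4) (nat_lit 2) (nat_lit 4) (nat_lit 313) (nat_lit 241) (nat_lit 226)))) (XT.nd (nat_lit 156) (nat_lit 0) (nat_lit 0) (XT.nd (nat_lit 78) (nat_lit 0) (nat_lit 0) (XT.lf (nat_lit 0) (nat_lit 19521771740) (nat_lit 152) (nat_lit 41549067221) (nat_lit 0) (nat_lit 17108073433) (nat_lit 2) (nat_lit 5) (nat_lit 4) (nat_lit 4) (nat_lit 2) (nat_lit 4) (nat_lit 314) (nat_lit 241) (nat_lit 225)) (XT.lf (nat_lit 0) (nat_lit 23463950201) (nat_lit 152) (nat_lit 39778497590) (nat_lit 0) (nat_lit 20976551691) (nat_lit 2) (nat_lit 5) (nat_lit 4) (nat_lit 4) (nat_lit 2) (nat_lit 4) (nat_lit 315) (nat_lit 241) (nat_lit 224))) (XT.nd (nat_lit 78) (nat_lit 0) (nat_lit 0) (XT.lf (nat_lit 0) (nat_lit 27650780260) (nat_lit 152) (nat_lit 38002082933) (nat_lit 0) (nat_lit 25095140821) (nat_lit 2) (nat_lit 5) (nat_lit 4) (nat_lit 4) (nat_lit 2) (nat_lit 4) (nat_lit 316) (nat_lit 241) (nat_lit 223))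 (XT.lf (nat_lit 0) (nat_lit 32107072762) (nat_lit 152) (nat_lit 36209296348) (nat_lit 0) (nat_lit 29488247276) (nat_lit 2) (nat_lit 5) (nat_lit 4) (nat_lit 4) (nat_lit 2) (nat_lit 4) (nat_lit 317) (nat_lit 241) (nat_lit 222))))) (XT.nd (nat_lit 234) (nat_lit 0) (nat_lit 0) (XT.nd (nat_lit 78) (nat_lit 0) (nat_lit 0) (XT.lf (nat_lit 0) (nat_lit 36859235365) (nat_lit 152) (nat_lit 34389513916) (nat_lit 0) (nat_lit 34181904281) (nat_lit 2) (nat_lit 5) (nat_lit 4) (nat_lit 4) (nat_lit 2) (nat_lit 4) (nat_lit 318) (nat_lit 241) (nat_lit 221)) (XT.nd (nat_lit 78) (nat_lit 0) (nat_lit 0) (XT.lf (nat_lit 0) (nat_lit 41935429032) (nat_lit 152) (nat_lit 32531951741) (nat_lit 0) (nat_lit 39203926099) (nat_lit 2) (nat_lit 5) (nat_lit 4) (nat_lit 4) (nat_lit 2) (nat_lit 4) (nat_lit 319) (nat_lit 241) (nat_lit 220)) (XT.lf (nat_lit 0) (nat_lit 47365734913) (nat_lit 152) (nat_lit 30625602046) (nat_lit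 0) (nat_lit 44584072860) (nat_lit 2) (nat_lit 5) (nat_lit 4) (nat_lit 4) (nat_lit 2) (nat_lit 4) (nat_lit 320) (nat_lit 241) (nat_lit 219)))) (XT.nd (nat_lit 156) (nat_lit 0) (nat_lit 0) (XT.nd (nat_lit 78) (nat_lit 0) (nat_lit 0) (XT.lf (nat_lit 0) (nat_lit 53182332597) (nat_lit 152) (nat_lit 28659167944) (nat_lit 0) (nat_lit 50354226913) (nat_lit 2) (nat_lit 5) (nat_lit 4) (nat_lit 4) (nat_lit 2) (nat_lit 4) (nat_lit 321) (nat_lit 241) (nat_lit 218)) (XT.lf (nat_lit 0) (nat_lit 59419690811) (nat_lit 152) (nat_lit 26620996493) (nat_lit 0) (nat_lit 56548581766) (nat_lit 2) (nat_lit 5) (nat_lit 4) (nat_lit 4) (nat_lit 2) (nat_lit 4) (nat_lit 322) (nat_lit 241) (nat_lit 217))) (XT.nd (nat_lit 78) (nat_lit 0) (nat_lit 0) (XT.lf (nat_lit 0) (nat_lit 66114771678) (nat_lit 152) (nat_lit 24499009639) (nat_lit 0) (nat_lit 63203844706) (nat_lit 2) (nat_lit 5) (nat_lit 4) (nat_lit 4) (nat_lit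 2) (nat_lit 4) (nat_lit 323) (nat_lit 241) (nat_lit 216)) (XT.lf (nat_lit 0) (nat_lit 73307249751) (nat_lit 152) (nat_lit 22280632646) (nat_lit 0) (nat_lit 70359454328) (nat_lit 2) (nat_lit 5) (nat_lit 4) (nat_lit 4) (nat_lit 2) (nat_lit 4) (nat_lit 324) (nat_lit 241) (nat_lit 215)))))) (XT.nd (nat_lit 546) (nat_lit 76) (nat_lit 0) (XT.nd (nat_lit 234) (nat_lit 0) (nat_lit 0) (XT.nd (nat_lit 78) (nat_lit 0) (nat_lit 0) (XT.lf (nat_lit 0) (nat_lit 81039747122) (nat_lit 152) (nat_lit 19952719576) (nat_lit 0) (nat_lit 78057814245) (nat_lit 2) (nat_lit 5) (nat_lit 4) (nat_lit 4) (nat_lit 2) (nat_lit 4) (nat_lit 325) (nat_lit 241) (nat_lit 214)) (XT.nd (nat_lit 78) (nat_lit 0) (nat_lit 0) (XT.lf (nat_lit 0) (nat_lit 89358085999) (nat_lit 152) (nat_lit 17501475389) (nat_lit 0) (nat_lit 86344544368) (nat_lit 2) (nat_lit 5) (nat_lit 4) (nat_lit 4) (nat_lit 2) (nat_lit 4) (nat_lit 326) (nat_lit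 241) (nat_lit 213)) (XT.lf (nat_lit 0) (nat_lit 98311560240) (nat_lit 152) (nat_lit 14912374192) (nat_lit 0) (nat_lit 95268751245) (nat_lit 2) (nat_lit 5) (nat_lit 4) (nat_lit 4) (nat_lit 2) (nat_lit 4) (nat_lit 327) (nat_lit 241) (nat_lit 212)))) (XT.nd (nat_lit 156) (nat_lit 0) (nat_lit 0) (XT.nd (nat_lit 78) (nat_lit 0) (nat_lit 0) (XT.lf (nat_lit 0) (nat_lit 107953227472) (nat_lit 152) (nat_lit 12170073164) (nat_lit 0) (nat_lit 104883319065) (nat_lit 2) (nat_lit 5) (nat_lit 4) (nat_lit 4) (nat_lit 2) (nat_lit 4) (nat_lit 328) (nat_lit 241) (nat_lit 211)) (XT.lf (nat_lit 0) (nat_lit 118340223500) (nat_lit 152) (nat_lit 9258321633) (nat_lit 0) (nat_lit 115245223045) (nat_lit 2) (nat_lit 5) (nat_lit 4) (nat_lit 4) (nat_lit 2) (nat_lit 4) (nat_lit 329) (nat_lit 241) (nat_lit 210))) (XT.nd (nat_lit 78) (nat_lit 0) (nat_lit 0) (XT.lf (nat_lit 0) (nat_lit 129534100894) (nat_lit 152) (nat_lit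 6159864774) (nat_lit 0) (nat_lit 126415867060) (nat_lit 2) (nat_lit 5) (nat_lit 4) (nat_lit 4) (nat_lit 2) (nat_lit 4) (nat_lit 330) (nat_lit 241) (nat_lit 209)) (XT.lf (nat_lit 0) (nat_lit 141601193740) (nat_lit 152) (nat_lit 2856341362) (nat_lit 0) (nat_lit 138461447520) (nat_lit 2) (nat_lit 5) (nat_lit 4) (nat_lit 4) (nat_lit 2) (nat_lit 4) (nat_lit 331) (nat_lit 241) (nat_lit 208))))) (XT.nd (nat_lit 312) (nat_lit 0) (nat_lit 0) (XT.nd (nat_lit 156) (nat_lit 0) (nat_lit 0) (XT.nd (nat_lit 78) (nat_lit 0) (nat_lit 0) (XT.lf (nat_lit 0) (nat_lit 707202154) (nat_lit 76) (nat_lit 153922816813) (nat_lit 76) (nat_lit 150763151716) (nat_lit 1) (nat_lit 4) (nat_lit 2) (nat_lit 5) (nat_lit 2) (nat_lit 4) (nat_lit 332) (nat_lit 241) (nat_lit 207)) (XT.lf (nat_lit 0) (nat_lit 4679636447) (nat_lit 76) (nat_lit 164079567874) (nat_lit 76) (nat_lit 160901459372) (nat_lit 1) (nat_lit 4) (nat_lit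 2) (nat_lit 5) (nat_lit 2) (nat_lit 4) (nat_lit 333) (nat_lit 241) (nat_lit 206))) (XT.nd (nat_lit 78) (nat_lit 0) (nat_lit 0) (XT.lf (nat_lit 0) (nat_lit 8934091995) (nat_lit 76) (nat_lit 175066073873) (nat_lit 76) (nat_lit 171870888145) (nat_lit 1) (nat_lit 4) (nat_lit 2) (nat_lit 5) (nat_lit 2) (nat_lit 4) (nat_lit 334) (nat_lit 241) (nat_lit 205)) (XT.lf (nat_lit 0) (nat_lit 13495780386) (nat_lit 76) (nat_lit 186947440032) (nat_lit 76) (nat_lit 183736442058) (nat_lit 1) (nat_lit 4) (nat_lit 2) (nat_lit 5) (nat_lit 2) (nat_lit 4) (nat_lit 335) (nat_lit 241) (nat_lit 204)))) (XT.nd (nat_lit 156) (nat_lit 0) (nat_lit 0) (XT.nd (nat_lit 78) (nat_lit 0) (nat_lit 0) (XT.lf (nat_lit 0) (nat_lit 18391733846) (nat_lit 76) (nat_lit 199794074447) (nat_lit 76) (nat_lit 196568435503) (nat_lit 1) (nat_lit 4) (nat_lit 2) (nat_lit 5) (nat_lit 2) (nat_lit 4) (nat_lit 336) (nat_lit 241) (nat_lit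 203)) (XT.lf (nat_lit 0) (nat_lit 23650965434) (nat_lit 76) (nat_lit 213682105321) (nat_lit 76) (nat_lit 210442909924) (nat_lit 1) (nat_lit 4) (nat_lit 2) (nat_lit 5) (nat_lit 2) (nat_lit 4) (nat_lit 337) (nat_lit 241) (nat_lit 202))) (XT.nd (nat_lit 78) (nat_lit 0) (nat_lit 0) (XT.lf (nat_lit 0) (nat_lit 29304640967) (nat_lit 76) (nat_lit 228693832097) (nat_lit 76) (nat_lit 225442084429) (nat_lit 1) (nat_lit 4) (nat_lit 2) (nat_lit 5) (nat_lit 2) (nat_lit 4) (nat_lit 338) (nat_lit 241) (nat_lit 201)) (XT.lf (nat_lit 0) (nat_lit 35386263706) (nat_lit 76) (nat_lit 244918213155) (nat_lit 76) (nat_lit 241654843014) (nat_lit 1) (nat_lit 4) (nat_lit 2) (nat_lit 5) (nat_lit 2) (nat_lit 4) (nat_lit 339) (nat_lit 241) (nat_lit 200))))))) (XT.nd (nat_lit 1170) (nat_lit 0) (nat_lit 0) (XT.nd (nat_lit 546) (nat_lit 0) (nat_lit 0) (XT.nd (nat_lit 234) (nat_lit 0) (nat_lit 0) (XT.nd (nat_lit 78)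 (nat_lit 0) (nat_lit 0) (XT.lf (nat_lit 0) (nat_lit 41931872898) (nat_lit 76) (nat_lit 262451392977) (nat_lit 76) (nat_lit 259177261286) (nat_lit 1) (nat_lit 4) (nat_lit 2) (nat_lit 5) (nat_lit 2) (nat_lit 4) (nat_lit 340) (nat_lit 241) (nat_lit 199)) (XT.nd (nat_lit 78) (nat_lit 0) (nat_lit 0) (XT.lf (nat_lit 0) (nat_lit 48980257338) (nat_lit 76) (nat_lit 281397271886) (nat_lit 76) (nat_lit 278113175798) (nat_lit 1) (nat_lit 4) (nat_lit 2) (nat_lit 5) (nat_lit 2) (nat_lit 4) (nat_lit 341) (nat_lit 241) (nat_lit 198)) (XT.lf (nat_lit 0) (nat_lit 56573185231) (nat_lit 76) (nat_lit 301868121757) (nat_lit 76) (nat_lit 298574799375) (nat_lit 1) (nat_lit 4) (nat_lit 2) (nat_lit 5) (nat_lit 2) (nat_lit 4) (nat_lit 342) (nat_lit 241) (nat_lit 197)))) (XT.nd (nat_lit 156) (nat_lit 0) (nat_lit 0) (XT.nd (nat_lit 78) (nat_lit 0) (nat_lit 0) (XT.lf (nat_lit 0) (nat_lit 64755651703) (nat_lit 76)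 (nat_lit 323985251332) (nat_lit 76) (nat_lit 320683386085) (nat_lit 1) (nat_lit 4) (nat_lit 2) (nat_lit 5) (nat_lit 2) (nat_lit 4) (nat_lit 343) (nat_lit 241) (nat_lit 196)) (XT.lf (nat_lit 0) (nat_lit 73576145446) (nat_lit 76) (nat_lit 347879725081) (nat_lit 76) (nat_lit 344569949774) (nat_lit 1) (nat_lit 4) (nat_lit 2) (nat_lit 5) (nat_lit 2) (nat_lit 4) (nat_lit 344) (nat_lit 241) (nat_lit 195))) (XT.nd (nat_lit 78) (nat_lit 0) (nat_lit 0) (XT.lf (nat_lit 0) (nat_lit 83086936052) (nat_lit 76) (nat_lit 373693139886) (nat_lit 76) (nat_lit 370376040449) (nat_lit 1) (nat_lit 4) (nat_lit 2) (nat_lit 5) (nat_lit 2) (nat_lit 4) (nat_lit 345) (nat_lit 241) (nat_lit 194)) (XT.lf (nat_lit 0) (nat_lit 93344383761) (nat_lit 76) (nat_lit 401578464130) (nat_lit 76) (nat_lit 398254583092) (nat_lit 1) (nat_lit 4) (nat_lit 2) (nat_lit 5) (nat_lit 2) (nat_lit 4) (nat_lit 346) (nat_lit 241) (nat_lit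 193))))) (XT.nd (nat_lit 312) (nat_lit 0) (nat_lit 0) (XT.nd (nat_lit 156) (nat_lit 0) (nat_lit 0) (XT.nd (nat_lit 78) (nat_lit 0) (nat_lit 0) (XT.lf (nat_lit 0) (nat_lit 104409273450) (nat_lit 76) (nat_lit 431700944180) (nat_lit 76) (nat_lit 428370783882) (nat_lit 1) (nat_lit 4) (nat_lit 2) (nat_lit 5) (nat_lit 2) (nat_lit 4) (nat_lit 347) (nat_lit 241) (nat_lit 192)) (XT.lf (nat_lit 0) (nat_lit 116347174834) (nat_lit 76) (nat_lit 464239083622) (nat_lit 76) (nat_lit 460903109193) (nat_lit 1) (nat_lit 4) (nat_lit 2) (nat_lit 5) (nat_lit 2) (nat_lit 4) (nat_lit 348) (nat_lit 241) (nat_lit 191))) (XT.nd (nat_lit 78) (nat_lit 0) (nat_lit 0) (XT.lf (nat_lit 0) (nat_lit 129228831033) (nat_lit 76) (nat_lit 499385701058) (nat_lit 76) (nat_lit 496044343176) (nat_lit 1) (nat_lit 4) (nat_lit 2) (nat_lit 5) (nat_lit 2) (nat_lit 4) (nat_lit 349) (nat_lit 241) (nat_lit 190)) (XT.lf (nat_lit 0) (nat_lit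 143130577788) (nat_lit 76) (nat_lit 537349072742) (nat_lit 76) (nat_lit 534002730179) (nat_lit 1) (nat_lit 4) (nat_lit 2) (nat_lit 5) (nat_lit 2) (nat_lit 4) (nat_lit 350) (nat_lit 241) (nat_lit 189)))) (XT.nd (nat_lit 156) (nat_lit 0) (nat_lit 0) (XT.nd (nat_lit 78) (nat_lit 0) (nat_lit 0) (XT.lf (nat_lit 0) (nat_lit 158134795820) (nat_lit 76) (nat_lit 578354166801) (nat_lit 76) (nat_lit 575003208794) (nat_lit 1) (nat_lit 4) (nat_lit 2) (nat_lit 5) (nat_lit 2) (nat_lit 4) (nat_lit 351) (nat_lit 241) (nat_lit 188)) (XT.lf (nat_lit 0) (nat_lit 174330399013) (nat_lit 76) (nat_lit 622643976385) (nat_lit 76) (nat_lit 619288744819) (nat_lit 1) (nat_lit 4) (nat_lit 2) (nat_lit 5) (nat_lit 2) (nat_lit 4) (nat_lit 352) (nat_lit 241) (nat_lit 187))) (XT.nd (nat_lit 78) (nat_lit 0) (nat_lit 0) (XT.lf (nat_lit 0) (nat_lit 191813361312) (nat_lit 76) (nat_lit 670480959625) (nat_lit 76) (nat_lit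 667121771060) (nat_lit 1) (nat_lit 4) (nat_lit 2) (nat_lit 5) (nat_lit 2) (nat_lit 4) (nat_lit 353) (nat_lit 241) (nat_lit 186)) (XT.lf (nat_lit 0) (nat_lit 210687285458) (nat_lit 76) (nat_lit 722148594940) (nat_lit 76) (nat_lit 718785742487) (nat_lit 1) (nat_lit 4) (nat_lit 2) (nat_lit 5) (nat_lit 2) (nat_lit 4) (nat_lit 354) (nat_lit 241) (nat_lit 185)))))) (XT.nd (nat_lit 546) (nat_lit 0) (nat_lit 0) (XT.nd (nat_lit 234) (nat_lit 0) (nat_lit 0) (XT.nd (nat_lit 78) (nat_lit 0) (nat_lit 0) (XT.lf (nat_lit 0) (nat_lit 231064016925) (nat_lit 76) (nat_lit 777953060911) (nat_lit 76) (nat_lit 774586815968) (nat_lit 1) (nat_lit 4) (nat_lit 2) (nat_lit 5) (nat_lit 2) (nat_lit 4) (nat_lit 355) (nat_lit 241) (nat_lit 184)) (XT.nd (nat_lit 78) (nat_lit 0) (nat_lit 0) (XT.lf (nat_lit 0) (nat_lit 253064306717) (nat_lit 76) (nat_lit 838225050668) (nat_lit 76) (nat_lit 834855664531) (nat_lit 1)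 (nat_lit 4) (nat_lit 2) (nat_lit 5) (nat_lit 2) (nat_lit 4) (nat_lit 356) (nat_lit 241) (nat_lit 183)) (XT.lf (nat_lit 0) (nat_lit 276818526920) (nat_lit 76) (nat_lit 903321731558) (nat_lit 76) (nat_lit 899949436909) (nat_lit 1) (nat_lit 4) (nat_lit 2) (nat_lit 5) (nat_lit 2) (nat_lit 4) (nat_lit 357) (nat_lit 241) (nat_lit 182)))) (XT.nd (nat_lit 156) (nat_lit 0) (nat_lit 0) (XT.nd (nat_lit 78) (nat_lit 0) (nat_lit 0) (XT.lf (nat_lit 0) (nat_lit 302467443283) (nat_lit 76) (nat_lit 973628861691) (nat_lit 76) (nat_lit 970253873975) (nat_lit 1) (nat_lit 4) (nat_lit 2) (nat_lit 5) (nat_lit 2) (nat_lit 4) (nat_lit 358) (nat_lit 241) (nat_lit 181)) (XT.lf (nat_lit 0) (nat_lit 330163049386) (nat_lit 76) (nat_lit 1049563075911) (nat_lit 76) (nat_lit 1046185594614) (nat_lit 1) (nat_lit 4) (nat_lit 2) (nat_lit 5) (nat_lit 2) (nat_lit 4) (nat_lit 359) (nat_lit 241) (nat_lit 180))) (XT.nd (nat_lit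 78) (nat_lit 0) (nat_lit 0) (XT.lf (nat_lit 0) (nat_lit 360069467337) (nat_lit 76) (nat_lit 1131574354748) (nat_lit 76) (nat_lit 1128194564580) (nat_lit 1) (nat_lit 4) (nat_lit 2) (nat_lit 5) (nat_lit 2) (nat_lit 4) (nat_lit 360) (nat_lit 241) (nat_lit 179)) (XT.lf (nat_lit 0) (nat_lit 392363920356) (nat_lit 76) (nat_lit 1220148690964) (nat_lit 76) (nat_lit 1216766762952) (nat_lit 1) (nat_lit 4) (nat_lit 2) (nat_lit 5) (nat_lit 2) (nat_lit 4) (nat_lit 361) (nat_lit 241) (nat_lit 178))))) (XT.nd (nat_lit 312) (nat_lit 0) (nat_lit 0) (XT.nd (nat_lit 156) (nat_lit 0) (nat_lit 0) (XT.nd (nat_lit 78) (nat_lit 0) (nat_lit 0) (XT.lf (nat_lit 0) (nat_lit 427237782978) (nat_lit 76) (nat_lit 1315810969516) (nat_lit 76) (nat_lit 1312427062019) (nat_lit 1) (nat_lit 4) (nat_lit 2) (nat_lit 5) (nat_lit 2) (nat_lit 4) (nat_lit 362) (nat_lit 241) (nat_lit 177)) (XT.lf (nat_lit 0) (nat_lit 464897715130)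 (nat_lit 76) (nat_lit 1419128077979) (nat_lit 76) (nat_lit 1415742337626) (nat_lit 1) (nat_lit 4) (nat_lit 2) (nat_lit 5) (nat_lit 2) (nat_lit 4) (nat_lit 363) (nat_lit 241) (nat_lit 176))) (XT.nd (nat_lit 78) (nat_lit 0) (nat_lit 0) (XT.lf (nat_lit 0) (nat_lit 505566886780) (nat_lit 76) (nat_lit 1530712265885) (nat_lit 76) (nat_lit 1527324828443) (nat_lit 1) (nat_lit 4) (nat_lit 2) (nat_lit 5) (nat_lit 2) (nat_lit 4) (nat_lit 364) (nat_lit 241) (nat_lit 175)) (XT.lf (nat_lit 0) (nat_lit 549486300427) (nat_lit 76) (nat_lit 1651224772867) (nat_lit 76) (nat_lit 1647835764046) (nat_lit 1) (nat_lit 4) (nat_lit 2) (nat_lit 5) (nat_lit 2) (nat_lit 4) (nat_lit 365) (nat_lit 241) (nat_lit 174)))) (XT.nd (nat_lit 35178) (nat_lit 0) (nat_lit 456) (XT.nd (nat_lit 78) (nat_lit 0) (nat_lit 0) (XT.lf (nat_lit 0) (nat_lit 596916219263) (nat_lit 76) (nat_lit 1781379747114) (nat_lit 76) (nat_lit 1777989283312)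 (nat_lit 1) (nat_lit 4) (nat_lit 2) (nat_lit 5) (nat_lit 2) (nat_lit 4) (nat_lit 366) (nat_lit 241) (nat_lit 173)) (XT.lf (nat_lit 0) (nat_lit 648137709473) (nat_lit 76) (nat_lit 1921948477362) (nat_lit 76) (nat_lit 1918556666356) (nat_lit 1) (nat_lit 4) (nat_lit 2) (nat_lit 5) (nat_lit 2) (nat_lit 4) (nat_lit 367) (nat_lit 241) (nat_lit 172))) (XT.nd (nat_lit 78) (nat_lit 0) (nat_lit 0) (XT.lf (nat_lit 0) (nat_lit 4256727928) (nat_lit 76) (nat_lit 3456439490) (nat_lit 76) (nat_lit 3456439490) (nat_lit 7) (nat_lit 4) (nat_lit 8) (nat_lit 5) (nat_lit 8) (nat_lit 4) (nat_lit 296) (nat_lit 242) (nat_lit 242)) (XT.lf (nat_lit 0) (nat_lit 17026375709) (nat_lit 76) (nat_lit 3536839493) (nat_lit 76) (nat_lit 3218771445) (nat_lit 7) (nat_lit 4) (nat_lit 8) (nat_lit 5) (nat_lit 8) (nat_lit 4) (nat_lit 297) (nat_lit 242) (nat_lit 241))))))))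
noncomputable def xc22 : XT := (XT.nd (nat_lit 2262) (nat_lit 76) (nat_lit 0) (XT.nd (nat_lit 1092) (nat_lit 0) (nat_lit 0) (XT.nd (nat_lit 546) (nat_lit 152) (nat_lit 0) (XT.nd (nat_lit 234) (nat_lit 76) (nat_lit 0) (XT.nd (nat_lit 78) (nat_lit 0) (nat_lit 0) (XT.lf (nat_lit 0) (nat_lit 493001128) (nat_lit 76) (nat_lit 38526095) (nat_lit 152) (nat_lit 24823443428) (nat_lit 5) (nat_lit 5) (nat_lit 6) (nat_lit 5) (nat_lit 7) (nat_lit 4) (nat_lit 298) (nat_lit 242) (nat_lit 240)) (XT.nd (nat_lit 78) (nat_lit 0) (nat_lit 0) (XT.lf (nat_lit 0) (nat_lit 4477036810) (nat_lit 152) (nat_lit 18907391716) (nat_lit 0) (nat_lit 3657344603) (nat_lit 5) (nat_lit 5) (nat_lit 7) (nat_lit 4) (nat_lit 5) (nat_lit 4) (nat_lit 299) (nat_lit 242) (nat_lit 239)) (XT.lf (nat_lit 0) (nat_lit 8544407755) (nat_lit 152) (nat_lit 12843868784) (nat_lit 0) (nat_lit 7490926038) (nat_lit 5) (nat_lit 5) (nat_lit 7)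 (nat_lit 4) (nat_lit 5) (nat_lit 4) (nat_lit 300) (nat_lit 242) (nat_lit 238)))) (XT.nd (nat_lit 156) (nat_lit 76) (nat_lit 0) (XT.nd (nat_lit 78) (nat_lit 0) (nat_lit 0) (XT.lf (nat_lit 0) (nat_lit 12756816445) (nat_lit 152) (nat_lit 6634542184) (nat_lit 0) (nat_lit 11486862959) (nat_lit 5) (nat_lit 5) (nat_lit 7) (nat_lit 4) (nat_lit 5) (nat_lit 4) (nat_lit 301) (nat_lit 242) (nat_lit 237)) (XT.lf (nat_lit 0) (nat_lit 17139225300) (nat_lit 152) (nat_lit 242615908) (nat_lit 0) (nat_lit 15668834992) (nat_lit 5) (nat_lit 5) (nat_lit 7) (nat_lit 4) (nat_lit 5) (nat_lit 4) (nat_lit 302) (nat_lit 242) (nat_lit 236))) (XT.nd (nat_lit 78) (nat_lit 0) (nat_lit 0) (XT.lf (nat_lit 0) (nat_lit 6705209878) (nat_lit 76) (nat_lit 15173654732) (nat_lit 76) (nat_lit 13517674773) (nat_lit 4) (nat_lit 4) (nat_lit 5) (nat_lit 5) (nat_lit 5) (nat_lit 4) (nat_lit 303) (nat_lit 242) (nat_lit 235)) (XT.lf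 (nat_lit 0) (nat_lit 13939147125) (nat_lit 76) (nat_lit 12915173833) (nat_lit 76) (nat_lit 11087351605) (nat_lit 4) (nat_lit 4) (nat_lit 5) (nat_lit 5) (nat_lit 5) (nat_lit 4) (nat_lit 304) (nat_lit 242) (nat_lit 234))))) (XT.nd (nat_lit 234) (nat_lit 152) (nat_lit 0) (XT.nd (nat_lit 78) (nat_lit 0) (nat_lit 0) (XT.lf (nat_lit 0) (nat_lit 21489287882) (nat_lit 76) (nat_lit 10599648471) (nat_lit 76) (nat_lit 8612713030) (nat_lit 4) (nat_lit 4) (nat_lit 5) (nat_lit 5) (nat_lit 5) (nat_lit 4) (nat_lit 305) (nat_lit 242) (nat_lit 233)) (XT.nd (nat_lit 78) (nat_lit 0) (nat_lit 0) (XT.lf (nat_lit 0) (nat_lit 29400373726) (nat_lit 76) (nat_lit 8213357012) (nat_lit 76) (nat_lit 6079094523) (nat_lit 4) (nat_lit 4) (nat_lit 5) (nat_lit 5) (nat_lit 5) (nat_lit 4) (nat_lit 306) (nat_lit 242) (nat_lit 232)) (XT.lf (nat_lit 0) (nat_lit 37719285163) (nat_lit 76) (nat_lit 5742158472) (nat_lit 76) (nat_lit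 3471482050) (nat_lit 4) (nat_lit 4) (nat_lit 5) (nat_lit 5) (nat_lit 5) (nat_lit 4) (nat_lit 307) (nat_lit 242) (nat_lit 231)))) (XT.nd (nat_lit 156) (nat_lit 0) (nat_lit 0) (XT.nd (nat_lit 78) (nat_lit 152) (nat_lit 0) (XT.lf (nat_lit 0) (nat_lit 46495319449) (nat_lit 76) (nat_lit 3171408710) (nat_lit 76) (nat_lit 774423090) (nat_lit 4) (nat_lit 4) (nat_lit 5) (nat_lit 5) (nat_lit 5) (nat_lit 4) (nat_lit 308) (nat_lit 242) (nat_lit 230)) (XT.lf (nat_lit 0) (nat_lit 1572056914) (nat_lit 76) (nat_lit 392363996) (nat_lit 152) (nat_lit 52266943887) (nat_lit 2) (nat_lit 5) (nat_lit 3) (nat_lit 5) (nat_lit 4) (nat_lit 4) (nat_lit 309) (nat_lit 242) (nat_lit 229))) (XT.nd (nat_lit 78) (nat_lit 0) (nat_lit 0) (XT.lf (nat_lit 0) (nat_lit 4950053537) (nat_lit 152) (nat_lit 50845584158) (nat_lit 0) (nat_lit 2522064315) (nat_lit 2) (nat_lit 5) (nat_lit 4) (nat_lit 4) (nat_lit 2) (nat_lit 4) (nat_lit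 310) (nat_lit 242) (nat_lit 228)) (XT.lf (nat_lit 0) (nat_lit 8088510622) (nat_lit 152) (nat_lit 49081708950) (nat_lit 0) (nat_lit 5567680369) (nat_lit 2) (nat_lit 5) (nat_lit 4) (nat_lit 4) (nat_lit 2) (nat_lit 4) (nat_lit 311) (nat_lit 242) (nat_lit 227)))))) (XT.nd (nat_lit 546) (nat_lit 0) (nat_lit 0) (XT.nd (nat_lit 234) (nat_lit 0) (nat_lit 0) (XT.nd (nat_lit 78) (nat_lit 0) (nat_lit 0) (XT.lf (nat_lit 0) (nat_lit 11388954065) (nat_lit 152) (nat_lit 47347793301) (nat_lit 0) (nat_lit 8782159895) (nat_lit 2) (nat_lit 5) (nat_lit 4) (nat_lit 4) (nat_lit 2) (nat_lit 4) (nat_lit 312) (nat_lit 242) (nat_lit 226)) (XT.nd (nat_lit 78) (nat_lit 0) (nat_lit 0) (XT.lf (nat_lit 0) (nat_lit 14870942051) (nat_lit 152) (nat_lit 45633562155) (nat_lit 0) (nat_lit 12184551660) (nat_lit 2) (nat_lit 5) (nat_lit 4) (nat_lit 4) (nat_lit 2) (nat_lit 4) (nat_lit 313) (nat_lit 242) (nat_lit 225)) (XT.lf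 (nat_lit 0) (nat_lit 18555108581) (nat_lit 152) (nat_lit 43928857106) (nat_lit 0) (nat_lit 15795017987) (nat_lit 2) (nat_lit 5) (nat_lit 4) (nat_lit 4) (nat_lit 2) (nat_lit 4) (nat_lit 314) (nat_lit 242) (nat_lit 224)))) (XT.nd (nat_lit 156) (nat_lit 0) (nat_lit 0) (XT.nd (nat_lit 78) (nat_lit 0) (nat_lit 0) (XT.lf (nat_lit 0) (nat_lit 22463285755) (nat_lit 152) (nat_lit 42223576198) (nat_lit 0) (nat_lit 19634954231) (nat_lit 2) (nat_lit 5) (nat_lit 4) (nat_lit 4) (nat_lit 2) (nat_lit 4) (nat_lit 315) (nat_lit 242) (nat_lit 223)) (XT.lf (nat_lit 0) (nat_lit 26618633140) (nat_lit 152) (nat_lit 40507614063) (nat_lit 0) (nat_lit 23727115570) (nat_lit 2) (nat_lit 5) (nat_lit 4) (nat_lit 4) (nat_lit 2) (nat_lit 4) (nat_lit 316) (nat_lit 242) (nat_lit 222))) (XT.nd (nat_lit 78) (nat_lit 0) (nat_lit 0) (XT.lf (nat_lit 0) (nat_lit 31045775017) (nat_lit 152) (nat_lit 38770802036) (nat_lit 0)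 (nat_lit 28095751849) (nat_lit 2) (nat_lit 5) (nat_lit 4) (nat_lit 4) (nat_lit 2) (nat_lit 4) (nat_lit 317) (nat_lit 242) (nat_lit 221)) (XT.lf (nat_lit 0) (nat_lit 35770946301) (nat_lit 152) (nat_lit 37002847898) (nat_lit 0) (nat_lit 32766751283) (nat_lit 2) (nat_lit 5) (nat_lit 4) (nat_lit 4) (nat_lit 2) (nat_lit 4) (nat_lit 318) (nat_lit 242) (nat_lit 220))))) (XT.nd (nat_lit 312) (nat_lit 0) (nat_lit 0) (XT.nd (nat_lit 156) (nat_lit 0) (nat_lit 0) (XT.nd (nat_lit 78) (nat_lit 0) (nat_lit 0) (XT.lf (nat_lit 0) (nat_lit 40822148007) (nat_lit 152) (nat_lit 35193274883) (nat_lit 0) (nat_lit 37767793869) (nat_lit 2) (nat_lit 5) (nat_lit 4) (nat_lit 4) (nat_lit 2) (nat_lit 4) (nat_lit 319) (nat_lit 242) (nat_lit 219)) (XT.lf (nat_lit 0) (nat_lit 46229313182) (nat_lit 152) (nat_lit 33331359596) (nat_lit 0) (nat_lit 43128515414) (nat_lit 2) (nat_lit 5) (nat_lit 4) (nat_lit 4) (nat_lit 2)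 (nat_lit 4) (nat_lit 320) (nat_lit 242) (nat_lit 218))) (XT.nd (nat_lit 78) (nat_lit 0) (nat_lit 0) (XT.lf (nat_lit 0) (nat_lit 52024484286) (nat_lit 152) (nat_lit 31406068465) (nat_lit 0) (nat_lit 48880683157) (nat_lit 2) (nat_lit 5) (nat_lit 4) (nat_lit 4) (nat_lit 2) (nat_lit 4) (nat_lit 321) (nat_lit 242) (nat_lit 217)) (XT.lf (nat_lit 0) (nat_lit 58242003075) (nat_lit 152) (nat_lit 29405992357) (nat_lit 0) (nat_lit 55058384019) (nat_lit 2) (nat_lit 5) (nat_lit 4) (nat_lit 4) (nat_lit 2) (nat_lit 4) (nat_lit 322) (nat_lit 242) (nat_lit 216)))) (XT.nd (nat_lit 156) (nat_lit 0) (nat_lit 0) (XT.nd (nat_lit 78) (nat_lit 0) (nat_lit 0) (XT.lf (nat_lit 0) (nat_lit 64918714104) (nat_lit 152) (nat_lit 27319278969) (nat_lit 0) (nat_lit 61698226597) (nat_lit 2) (nat_lit 5) (nat_lit 4) (nat_lit 4) (nat_lit 2) (nat_lit 4) (nat_lit 323) (nat_lit 242) (nat_lit 215)) (XT.lf (nat_lit 0) (nat_lit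 72094183068) (nat_lit 152) (nat_lit 25133562593) (nat_lit 0) (nat_lit 68839558107) (nat_lit 2) (nat_lit 5) (nat_lit 4) (nat_lit 4) (nat_lit 2) (nat_lit 4) (nat_lit 324) (nat_lit 242) (nat_lit 214))) (XT.nd (nat_lit 78) (nat_lit 0) (nat_lit 0) (XT.lf (nat_lit 0) (nat_lit 79810931264) (nat_lit 152) (nat_lit 22835890834) (nat_lit 0) (nat_lit 76524697549) (nat_lit 2) (nat_lit 5) (nat_lit 4) (nat_lit 4) (nat_lit 2) (nat_lit 4) (nat_lit 325) (nat_lit 242) (nat_lit 213)) (XT.lf (nat_lit 0) (nat_lit 88114687571) (nat_lit 152) (nat_lit 20412647861) (nat_lit 0) (nat_lit 84799186491) (nat_lit 2) (nat_lit 5) (nat_lit 4) (nat_lit 4) (nat_lit 2) (nat_lit 4) (nat_lit 326) (nat_lit 242) (nat_lit 212))))))) (XT.nd (nat_lit 1170) (nat_lit 0) (nat_lit 0) (XT.nd (nat_lit 546) (nat_lit 0) (nat_lit 0) (XT.nd (nat_lit 234) (nat_lit 76) (nat_lit 0) (XT.nd (nat_lit 78) (nat_lit 0) (nat_lit 0) (XT.lf (nat_lit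 0) (nat_lit 97054659433) (nat_lit 152) (nat_lit 17849473715) (nat_lit 0) (nat_lit 93712058941) (nat_lit 2) (nat_lit 5) (nat_lit 4) (nat_lit 4) (nat_lit 2) (nat_lit 4) (nat_lit 327) (nat_lit 242) (nat_lit 211)) (XT.nd (nat_lit 78) (nat_lit 0) (nat_lit 0) (XT.lf (nat_lit 0) (nat_lit 106683824462) (nat_lit 152) (nat_lit 15131179215) (nat_lit 0) (nat_lit 103316131922) (nat_lit 2) (nat_lit 5) (nat_lit 4) (nat_lit 4) (nat_lit 2) (nat_lit 4) (nat_lit 328) (nat_lit 242) (nat_lit 210)) (XT.lf (nat_lit 0) (nat_lit 117059244376) (nat_lit 152) (nat_lit 12241655951) (nat_lit 0) (nat_lit 113668318458) (nat_lit 2) (nat_lit 5) (nat_lit 4) (nat_lit 4) (nat_lit 2) (nat_lit 4) (nat_lit 329) (nat_lit 242) (nat_lit 209)))) (XT.nd (nat_lit 156) (nat_lit 76) (nat_lit 0) (XT.nd (nat_lit 78) (nat_lit 0) (nat_lit 0) (XT.lf (nat_lit 0) (nat_lit 128242403145) (nat_lit 152) (nat_lit 9163780821) (nat_lit 0) (nat_lit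 124829964840) (nat_lit 2) (nat_lit 5) (nat_lit 4) (nat_lit 4) (nat_lit 2) (nat_lit 4) (nat_lit 330) (nat_lit 242) (nat_lit 208)) (XT.lf (nat_lit 0) (nat_lit 140299571340) (nat_lit 152) (nat_lit 5879314564) (nat_lit 0) (nat_lit 136867214158) (nat_lit 2) (nat_lit 5) (nat_lit 4) (nat_lit 4) (nat_lit 2) (nat_lit 4) (nat_lit 331) (nat_lit 242) (nat_lit 207))) (XT.nd (nat_lit 78) (nat_lit 76) (nat_lit 0) (XT.lf (nat_lit 0) (nat_lit 153302198846) (nat_lit 152) (nat_lit 2368793679) (nat_lit 0) (nat_lit 149851398259) (nat_lit 2) (nat_lit 5) (nat_lit 4) (nat_lit 4) (nat_lit 2) (nat_lit 4) (nat_lit 332) (nat_lit 242) (nat_lit 206)) (XT.lf (nat_lit 0) (nat_lit 1461705344) (nat_lit 76) (nat_lit 165900786974) (nat_lit 76) (nat_lit 162432909162) (nat_lit 1) (nat_lit 4) (nat_lit 2) (nat_lit 5) (nat_lit 2) (nat_lit 4) (nat_lit 333) (nat_lit 242) (nat_lit 205))))) (XT.nd (nat_lit 312) (nat_lit 0) (nat_lit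 0) (XT.nd (nat_lit 156) (nat_lit 0) (nat_lit 0) (XT.nd (nat_lit 78) (nat_lit 0) (nat_lit 0) (XT.lf (nat_lit 0) (nat_lit 5700236083) (nat_lit 76) (nat_lit 176894956281) (nat_lit 76) (nat_lit 173411266222) (nat_lit 1) (nat_lit 4) (nat_lit 2) (nat_lit 5) (nat_lit 2) (nat_lit 4) (nat_lit 334) (nat_lit 242) (nat_lit 204)) (XT.lf (nat_lit 0) (nat_lit 10247179281) (nat_lit 76) (nat_lit 188783418096) (nat_lit 76) (nat_lit 185285087067) (nat_lit 1) (nat_lit 4) (nat_lit 2) (nat_lit 5) (nat_lit 2) (nat_lit 4) (nat_lit 335) (nat_lit 242) (nat_lit 203))) (XT.nd (nat_lit 78) (nat_lit 0) (nat_lit 0) (XT.lf (nat_lit 0) (nat_lit 15129479785) (nat_lit 76) (nat_lit 201636622562) (nat_lit 76) (nat_lit 198124735080) (nat_lit 1) (nat_lit 4) (nat_lit 2) (nat_lit 5) (nat_lit 2) (nat_lit 4) (nat_lit 336) (nat_lit 242) (nat_lit 202)) (XT.lf (nat_lit 0) (nat_lit 20376069747) (nat_lit 76) (nat_lit 215530736816)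 (nat_lit 76) (nat_lit 212006297064) (nat_lit 1) (nat_lit 4) (nat_lit 2) (nat_lit 5) (nat_lit 2) (nat_lit 4) (nat_lit 337) (nat_lit 242) (nat_lit 201)))) (XT.nd (nat_lit 156) (nat_lit 0) (nat_lit 0) (XT.nd (nat_lit 78) (nat_lit 0) (nat_lit 0) (XT.lf (nat_lit 0) (nat_lit 26018040070) (nat_lit 76) (nat_lit 230548096352) (nat_lit 76) (nat_lit 227012034126) (nat_lit 1) (nat_lit 4) (nat_lit 2) (nat_lit 5) (nat_lit 2) (nat_lit 4) (nat_lit 338) (nat_lit 242) (nat_lit 200)) (XT.lf (nat_lit 0) (nat_lit 32088824653) (nat_lit 76) (nat_lit 246777692929) (nat_lit 76) (nat_lit 243230869154) (nat_lit 1) (nat_lit 4) (nat_lit 2) (nat_lit 5) (nat_lit 2) (nat_lit 4) (nat_lit 339) (nat_lit 242) (nat_lit 199))) (XT.nd (nat_lit 78) (nat_lit 0) (nat_lit 0) (XT.lf (nat_lit 0) (nat_lit 38624398514) (nat_lit 76) (nat_lit 264315701934) (nat_lit 76) (nat_lit 260758913761) (nat_lit 1) (nat_lit 4) (nat_lit 2) (nat_lit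 5) (nat_lit 2) (nat_lit 4) (nat_lit 340) (nat_lit 242) (nat_lit 198)) (XT.lf (nat_lit 0) (nat_lit 45663490982) (nat_lit 76) (nat_lit 283266052309) (nat_lit 76) (nat_lit 279700037843) (nat_lit 1) (nat_lit 4) (nat_lit 2) (nat_lit 5) (nat_lit 2) (nat_lit 4) (nat_lit 341) (nat_lit 242) (nat_lit 197)))))) (XT.nd (nat_lit 546) (nat_lit 0) (nat_lit 0) (XT.nd (nat_lit 234) (nat_lit 0) (nat_lit 0) (XT.nd (nat_lit 78) (nat_lit 0) (nat_lit 0) (XT.lf (nat_lit 0) (nat_lit 53247815195) (nat_lit 76) (nat_lit 303741042428) (nat_lit 76) (nat_lit 300166485096) (nat_lit 1) (nat_lit 4) (nat_lit 2) (nat_lit 5) (nat_lit 2) (nat_lit 4) (nat_lit 342) (nat_lit 242) (nat_lit 196)) (XT.nd (nat_lit 78) (nat_lit 0) (nat_lit 0) (XT.lf (nat_lit 0) (nat_lit 61422315299) (nat_lit 76) (nat_lit 325862005564) (nat_lit 76) (nat_lit 322279538172) (nat_lit 1) (nat_lit 4) (nat_lit 2) (nat_lit 5) (nat_lit 2) (nat_lit 4) (nat_lit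 343) (nat_lit 242) (nat_lit 195)) (XT.lf (nat_lit 0) (nat_lit 70235432774) (nat_lit 76) (nat_lit 349760028907) (nat_lit 76) (nat_lit 346170237386) (nat_lit 1) (nat_lit 4) (nat_lit 2) (nat_lit 5) (nat_lit 2) (nat_lit 4) (nat_lit 344) (nat_lit 242) (nat_lit 194)))) (XT.nd (nat_lit 156) (nat_lit 0) (nat_lit 0) (XT.nd (nat_lit 78) (nat_lit 0) (nat_lit 0) (XT.lf (nat_lit 0) (nat_lit 79739393503) (nat_lit 76) (nat_lit 375576730373) (nat_lit 76) (nat_lit 371980157250) (nat_lit 1) (nat_lit 4) (nat_lit 2) (nat_lit 5) (nat_lit 2) (nat_lit 4) (nat_lit 345) (nat_lit 242) (nat_lit 193)) (XT.lf (nat_lit 0) (nat_lit 89990517252) (nat_lit 76) (nat_lit 403465097822) (nat_lit 76) (nat_lit 399862245439) (nat_lit 1) (nat_lit 4) (nat_lit 2) (nat_lit 5) (nat_lit 2) (nat_lit 4) (nat_lit 346) (nat_lit 242) (nat_lit 192))) (XT.nd (nat_lit 78) (nat_lit 0) (nat_lit 0) (XT.lf (nat_lit 0) (nat_lit 101049551422)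 (nat_lit 76) (nat_lit 433590395655) (nat_lit 76) (nat_lit 429981729141) (nat_lit 1) (nat_lit 4) (nat_lit 2) (nat_lit 5) (nat_lit 2) (nat_lit 4) (nat_lit 347) (nat_lit 242) (nat_lit 191)) (XT.lf (nat_lit 0) (nat_lit 112982031029) (nat_lit 76) (nat_lit 466131144154) (nat_lit 76) (nat_lit 462517094186) (nat_lit 1) (nat_lit 4) (nat_lit 2) (nat_lit 5) (nat_lit 2) (nat_lit 4) (nat_lit 348) (nat_lit 242) (nat_lit 190))))) (XT.nd (nat_lit 312) (nat_lit 0) (nat_lit 0) (XT.nd (nat_lit 156) (nat_lit 0) (nat_lit 0) (XT.nd (nat_lit 78) (nat_lit 0) (nat_lit 0) (XT.lf (nat_lit 0) (nat_lit 125858667065) (nat_lit 76) (nat_lit 501280177385) (nat_lit 76) (nat_lit 497661142738) (nat_lit 1) (nat_lit 4) (nat_lit 2) (nat_lit 5) (nat_lit 2) (nat_lit 4) (nat_lit 349) (nat_lit 242) (nat_lit 189)) (XT.lf (nat_lit 0) (nat_lit 139755765519) (nat_lit 76) (nat_lit 539245785915) (nat_lit 76) (nat_lit 535622135824)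 (nat_lit 1) (nat_lit 4) (nat_lit 2) (nat_lit 5) (nat_lit 2) (nat_lit 4) (nat_lit 350) (nat_lit 242) (nat_lit 188))) (XT.nd (nat_lit 78) (nat_lit 0) (nat_lit 0) (XT.lf (nat_lit 0) (nat_lit 154755679570) (nat_lit 76) (nat_lit 580252951128) (nat_lit 76) (nat_lit 576625027477) (nat_lit 1) (nat_lit 4) (nat_lit 2) (nat_lit 5) (nat_lit 2) (nat_lit 4) (nat_lit 351) (nat_lit 242) (nat_lit 187)) (XT.lf (nat_lit 0) (nat_lit 170947297595) (nat_lit 76) (nat_lit 624544678447) (nat_lit 76) (nat_lit 620912797797) (nat_lit 1) (nat_lit 4) (nat_lit 2) (nat_lit 5) (nat_lit 2) (nat_lit 4) (nat_lit 352) (nat_lit 242) (nat_lit 186)))) (XT.nd (nat_lit 156) (nat_lit 0) (nat_lit 0) (XT.nd (nat_lit 78) (nat_lit 0) (nat_lit 0) (XT.lf (nat_lit 0) (nat_lit 188426569924) (nat_lit 76) (nat_lit 672383437368) (nat_lit 76) (nat_lit 668747892830) (nat_lit 1) (nat_lit 4) (nat_lit 2) (nat_lit 5) (nat_lit 2) (nat_lit 4)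 (nat_lit 353) (nat_lit 242) (nat_lit 185)) (XT.lf (nat_lit 0) (nat_lit 207297077431) (nat_lit 76) (nat_lit 724052716832) (nat_lit 76) (nat_lit 720413779805) (nat_lit 1) (nat_lit 4) (nat_lit 2) (nat_lit 5) (nat_lit 2) (nat_lit 4) (nat_lit 354) (nat_lit 242) (nat_lit 184))) (XT.nd (nat_lit 78) (nat_lit 0) (nat_lit 0) (XT.lf (nat_lit 0) (nat_lit 227670645344) (nat_lit 76) (nat_lit 779858705163) (nat_lit 76) (nat_lit 776216626942) (nat_lit 1) (nat_lit 4) (nat_lit 2) (nat_lit 5) (nat_lit 2) (nat_lit 4) (nat_lit 355) (nat_lit 242) (nat_lit 183)) (XT.lf (nat_lit 0) (nat_lit 249668005918) (nat_lit 76) (nat_lit 840132104513) (nat_lit 76) (nat_lit 836487117779) (nat_lit 1) (nat_lit 4) (nat_lit 2) (nat_lit 5) (nat_lit 2) (nat_lit 4) (nat_lit 356) (nat_lit 242) (nat_lit 182))))))))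
noncomputable def xc23 : XT := (XT.nd (nat_lit 37128) (nat_lit 0) (nat_lit 0) (XT.nd (nat_lit 35958) (nat_lit 0) (nat_lit 76) (XT.nd (nat_lit 546) (nat_lit 0) (nat_lit 0) (XT.nd (nat_lit 234) (nat_lit 0) (nat_lit 0) (XT.nd (nat_lit 78) (nat_lit 0) (nat_lit 0) (XT.lf (nat_lit 0) (nat_lit 273419513882) (nat_lit 76) (nat_lit 905230090581) (nat_lit 76) (nat_lit 901582410780) (nat_lit 1) (nat_lit 4) (nat_lit 2) (nat_lit 5) (nat_lit 2) (nat_lit 4) (nat_lit 357) (nat_lit 242) (nat_lit 181)) (XT.nd (nat_lit 78) (nat_lit 0) (nat_lit 0) (XT.lf (nat_lit 0) (nat_lit 299065918914) (nat_lit 76) (nat_lit 975538429213) (nat_lit 76) (nat_lit 971888255831) (nat_lit 1) (nat_lit 4) (nat_lit 2) (nat_lit 5) (nat_lit 2) (nat_lit 4) (nat_lit 358) (nat_lit 242) (nat_lit 180)) (XT.lf (nat_lit 0) (nat_lit 326759199710) (nat_lit 76) (nat_lit 1051473762413) (nat_lit 76) (nat_lit 1047821280160) (nat_lit 1) (nat_lit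 4) (nat_lit 2) (nat_lit 5) (nat_lit 2) (nat_lit 4) (nat_lit 359) (nat_lit 242) (nat_lit 179)))) (XT.nd (nat_lit 156) (nat_lit 0) (nat_lit 0) (XT.nd (nat_lit 78) (nat_lit 0) (nat_lit 0) (XT.lf (nat_lit 0) (nat_lit 356663464599) (nat_lit 76) (nat_lit 1133486077342) (nat_lit 76) (nat_lit 1129831457246) (nat_lit 1) (nat_lit 4) (nat_lit 2) (nat_lit 5) (nat_lit 2) (nat_lit 4) (nat_lit 360) (nat_lit 242) (nat_lit 178)) (XT.lf (nat_lit 0) (nat_lit 388955924042) (nat_lit 76) (nat_lit 1222061372904) (nat_lit 76) (nat_lit 1218404773322) (nat_lit 1) (nat_lit 4) (nat_lit 2) (nat_lit 5) (nat_lit 2) (nat_lit 4) (nat_lit 361) (nat_lit 242) (nat_lit 177))) (XT.nd (nat_lit 78) (nat_lit 0) (nat_lit 0) (XT.lf (nat_lit 0) (nat_lit 423827940760) (nat_lit 76) (nat_lit 1317724539738) (nat_lit 76) (nat_lit 1314066107300) (nat_lit 1) (nat_lit 4) (nat_lit 2) (nat_lit 5) (nat_lit 2) (nat_lit 4) (nat_lit 362) (nat_lit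 242) (nat_lit 176)) (XT.lf (nat_lit 0) (nat_lit 461486163742) (nat_lit 76) (nat_lit 1421042470685) (nat_lit 76) (nat_lit 1417382341158) (nat_lit 1) (nat_lit 4) (nat_lit 2) (nat_lit 5) (nat_lit 2) (nat_lit 4) (nat_lit 363) (nat_lit 242) (nat_lit 175))))) (XT.nd (nat_lit 234) (nat_lit 0) (nat_lit 0) (XT.nd (nat_lit 78) (nat_lit 0) (nat_lit 0) (XT.lf (nat_lit 0) (nat_lit 502153752827) (nat_lit 76) (nat_lit 1532627420150) (nat_lit 76) (nat_lit 1528965719244) (nat_lit 1) (nat_lit 4) (nat_lit 2) (nat_lit 5) (nat_lit 2) (nat_lit 4) (nat_lit 364) (nat_lit 242) (nat_lit 174)) (XT.nd (nat_lit 78) (nat_lit 0) (nat_lit 0) (XT.lf (nat_lit 0) (nat_lit 546071701136) (nat_lit 76) (nat_lit 1653140632279) (nat_lit 76) (nat_lit 1649477476393) (nat_lit 1) (nat_lit 4) (nat_lit 2) (nat_lit 5) (nat_lit 2) (nat_lit 4) (nat_lit 365) (nat_lit 242) (nat_lit 173)) (XT.lf (nat_lit 0) (nat_lit 593500263177) (nat_lit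 76) (nat_lit 1783296259440) (nat_lit 76) (nat_lit 1779631756350) (nat_lit 1) (nat_lit 4) (nat_lit 2) (nat_lit 5) (nat_lit 2) (nat_lit 4) (nat_lit 366) (nat_lit 242) (nat_lit 172)))) (XT.nd (nat_lit 35022) (nat_lit 0) (nat_lit 456) (XT.nd (nat_lit 34944) (nat_lit 0) (nat_lit 532) (XT.lf (nat_lit 0) (nat_lit 644720497096) (nat_lit 76) (nat_lit 1923865594238) (nat_lit 76) (nat_lit 1920199843737) (nat_lit 1) (nat_lit 4) (nat_lit 2) (nat_lit 5) (nat_lit 2) (nat_lit 4) (nat_lit 367) (nat_lit 242) (nat_lit 171)) (XT.lf (nat_lit 0) (nat_lit 3142996802) (nat_lit 152) (nat_lit 3610405686) (nat_lit 0) (nat_lit 3142996802) (nat_lit 8) (nat_lit 5) (nat_lit 10) (nat_lit 4) (nat_lit 8) (nat_lit 4) (nat_lit 294) (nat_lit 243) (nat_lit 243))) (XT.nd (nat_lit 78) (nat_lit 0) (nat_lit 0) (XT.lf (nat_lit 0) (nat_lit 249260630) (nat_lit 76) (nat_lit 10557178146) (nat_lit 76) (nat_lit 10213664654) (nat_lit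 7) (nat_lit 4) (nat_lit 8) (nat_lit 5) (nat_lit 8) (nat_lit 4) (nat_lit 295) (nat_lit 243) (nat_lit 242)) (XT.lf (nat_lit 0) (nat_lit 8315181341) (nat_lit 76) (nat_lit 7347166049) (nat_lit 76) (nat_lit 6685584510) (nat_lit 7) (nat_lit 4) (nat_lit 8) (nat_lit 5) (nat_lit 8) (nat_lit 4) (nat_lit 296) (nat_lit 243) (nat_lit 241)))))) (XT.nd (nat_lit 546) (nat_lit 152) (nat_lit 0) (XT.nd (nat_lit 234) (nat_lit 76) (nat_lit 0) (XT.nd (nat_lit 78) (nat_lit 152) (nat_lit 0) (XT.lf (nat_lit 0) (nat_lit 16644513678) (nat_lit 76) (nat_lit 4055176170) (nat_lit 76) (nat_lit 3099087180) (nat_lit 7) (nat_lit 4) (nat_lit 8) (nat_lit 5) (nat_lit 8) (nat_lit 4) (nat_lit 297) (nat_lit 243) (nat_lit 240)) (XT.nd (nat_lit 78) (nat_lit 76) (nat_lit 0) (XT.lf (nat_lit 0) (nat_lit 538712980) (nat_lit 152) (nat_lit 108258074) (nat_lit 76) (nat_lit 24733174299) (nat_lit 6) (nat_lit 5) (nat_lit 8) (nat_lit 5)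 (nat_lit 7) (nat_lit 4) (nat_lit 298) (nat_lit 243) (nat_lit 239)) (XT.lf (nat_lit 0) (nat_lit 4373133280) (nat_lit 152) (nat_lit 19701204917) (nat_lit 0) (nat_lit 3001583516) (nat_lit 5) (nat_lit 5) (nat_lit 7) (nat_lit 4) (nat_lit 5) (nat_lit 4) (nat_lit 299) (nat_lit 243) (nat_lit 238)))) (XT.nd (nat_lit 156) (nat_lit 76) (nat_lit 0) (XT.nd (nat_lit 78) (nat_lit 0) (nat_lit 0) (XT.lf (nat_lit 0) (nat_lit 8353796566) (nat_lit 152) (nat_lit 13800796488) (nat_lit 0) (nat_lit 6765775033) (nat_lit 5) (nat_lit 5) (nat_lit 7) (nat_lit 4) (nat_lit 5) (nat_lit 4) (nat_lit 300) (nat_lit 243) (nat_lit 237)) (XT.lf (nat_lit 0) (nat_lit 12485920386) (nat_lit 152) (nat_lit 7742501837) (nat_lit 0) (nat_lit 10697462030) (nat_lit 5) (nat_lit 5) (nat_lit 7) (nat_lit 4) (nat_lit 5) (nat_lit 4) (nat_lit 301) (nat_lit 243) (nat_lit 236))) (XT.nd (nat_lit 78) (nat_lit 76) (nat_lit 0) (XT.lf (nat_lit 0)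 (nat_lit 16793991399) (nat_lit 152) (nat_lit 1490419957) (nat_lit 0) (nat_lit 14819943392) (nat_lit 5) (nat_lit 5) (nat_lit 7) (nat_lit 4) (nat_lit 5) (nat_lit 4) (nat_lit 302) (nat_lit 243) (nat_lit 235)) (XT.lf (nat_lit 0) (nat_lit 5255394648) (nat_lit 76) (nat_lit 16174536635) (nat_lit 76) (nat_lit 14028646360) (nat_lit 4) (nat_lit 4) (nat_lit 5) (nat_lit 5) (nat_lit 5) (nat_lit 4) (nat_lit 303) (nat_lit 243) (nat_lit 234))))) (XT.nd (nat_lit 312) (nat_lit 152) (nat_lit 0) (XT.nd (nat_lit 156) (nat_lit 0) (nat_lit 0) (XT.nd (nat_lit 78) (nat_lit 0) (nat_lit 0) (XT.lf (nat_lit 0) (nat_lit 12363124457) (nat_lit 76) (nat_lit 13975495163) (nat_lit 76) (nat_lit 11670491675) (nat_lit 4) (nat_lit 4) (nat_lit 5) (nat_lit 5) (nat_lit 5) (nat_lit 4) (nat_lit 304) (nat_lit 243) (nat_lit 233)) (XT.lf (nat_lit 0) (nat_lit 19796406477) (nat_lit 76) (nat_lit 11715006307) (nat_lit 76) (nat_lit 9262675771)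 (nat_lit 4) (nat_lit 4) (nat_lit 5) (nat_lit 5) (nat_lit 5) (nat_lit 4) (nat_lit 305) (nat_lit 243) (nat_lit 232))) (XT.nd (nat_lit 78) (nat_lit 0) (nat_lit 0) (XT.lf (nat_lit 0) (nat_lit 27599289785) (nat_lit 76) (nat_lit 9379674577) (nat_lit 76) (nat_lit 6790930107) (nat_lit 4) (nat_lit 4) (nat_lit 5) (nat_lit 5) (nat_lit 5) (nat_lit 4) (nat_lit 306) (nat_lit 243) (nat_lit 231)) (XT.lf (nat_lit 0) (nat_lit 35818013690) (nat_lit 76) (nat_lit 6955660970) (nat_lit 76) (nat_lit 4240607303) (nat_lit 4) (nat_lit 4) (nat_lit 5) (nat_lit 5) (nat_lit 5) (nat_lit 4) (nat_lit 307) (nat_lit 243) (nat_lit 230)))) (XT.nd (nat_lit 156) (nat_lit 76) (nat_lit 0) (XT.nd (nat_lit 78) (nat_lit 76) (nat_lit 0) (XT.lf (nat_lit 0) (nat_lit 44501281742) (nat_lit 76) (nat_lit 4428600962) (nat_lit 76) (nat_lit 1596594333) (nat_lit 4) (nat_lit 4) (nat_lit 5) (nat_lit 5) (nat_lit 5) (nat_lit 4) (nat_lit 308)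 (nat_lit 243) (nat_lit 229)) (XT.lf (nat_lit 0) (nat_lit 1098910353) (nat_lit 152) (nat_lit 654562871) (nat_lit 76) (nat_lit 52571593833) (nat_lit 3) (nat_lit 5) (nat_lit 5) (nat_lit 5) (nat_lit 4) (nat_lit 4) (nat_lit 309) (nat_lit 243) (nat_lit 228))) (XT.nd (nat_lit 78) (nat_lit 0) (nat_lit 0) (XT.lf (nat_lit 0) (nat_lit 3988548260) (nat_lit 152) (nat_lit 53257359479) (nat_lit 0) (nat_lit 1173210555) (nat_lit 2) (nat_lit 5) (nat_lit 4) (nat_lit 4) (nat_lit 2) (nat_lit 4) (nat_lit 310) (nat_lit 243) (nat_lit 227)) (XT.lf (nat_lit 0) (nat_lit 7084173514) (nat_lit 152) (nat_lit 51575729259) (nat_lit 0) (nat_lit 4182871891) (nat_lit 2) (nat_lit 5) (nat_lit 4) (nat_lit 4) (nat_lit 2) (nat_lit 4) (nat_lit 311) (nat_lit 243) (nat_lit 226))))))) (XT.nd (nat_lit 1170) (nat_lit 76) (nat_lit 0) (XT.nd (nat_lit 546) (nat_lit 0) (nat_lit 0) (XT.nd (nat_lit 234) (nat_lit 0) (nat_lit 0) (XT.nd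 (nat_lit 78) (nat_lit 0) (nat_lit 0) (XT.lf (nat_lit 0) (nat_lit 10344957854) (nat_lit 152) (nat_lit 49917966377) (nat_lit 0) (nat_lit 7364060012) (nat_lit 2) (nat_lit 5) (nat_lit 4) (nat_lit 4) (nat_lit 2) (nat_lit 4) (nat_lit 312) (nat_lit 243) (nat_lit 225)) (XT.nd (nat_lit 78) (nat_lit 0) (nat_lit 0) (XT.lf (nat_lit 0) (nat_lit 13790224449) (nat_lit 152) (nat_lit 48274247053) (nat_lit 0) (nat_lit 10735626403) (nat_lit 2) (nat_lit 5) (nat_lit 4) (nat_lit 4) (nat_lit 2) (nat_lit 4) (nat_lit 313) (nat_lit 243) (nat_lit 224)) (XT.lf (nat_lit 0) (nat_lit 17440389691) (nat_lit 152) (nat_lit 46634830727) (nat_lit 0) (nat_lit 14317550715) (nat_lit 2) (nat_lit 5) (nat_lit 4) (nat_lit 4) (nat_lit 2) (nat_lit 4) (nat_lit 314) (nat_lit 243) (nat_lit 223)))) (XT.nd (nat_lit 156) (nat_lit 0) (nat_lit 0) (XT.nd (nat_lit 78) (nat_lit 0) (nat_lit 0) (XT.lf (nat_lit 0) (nat_lit 21317084190) (nat_lit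 152) (nat_lit 44990002341) (nat_lit 0) (nat_lit 18131059169) (nat_lit 2) (nat_lit 5) (nat_lit 4) (nat_lit 4) (nat_lit 2) (nat_lit 4) (nat_lit 315) (nat_lit 243) (nat_lit 222)) (XT.lf (nat_lit 0) (nat_lit 25443280950) (nat_lit 152) (nat_lit 43330014763) (nat_lit 0) (nat_lit 22198750331) (nat_lit 2) (nat_lit 5) (nat_lit 4) (nat_lit 4) (nat_lit 2) (nat_lit 4) (nat_lit 316) (nat_lit 243) (nat_lit 221))) (XT.nd (nat_lit 78) (nat_lit 0) (nat_lit 0) (XT.lf (nat_lit 0) (nat_lit 29843431509) (nat_lit 152) (nat_lit 41645031030) (nat_lit 0) (nat_lit 26544729040) (nat_lit 2) (nat_lit 5) (nat_lit 4) (nat_lit 4) (nat_lit 2) (nat_lit 4) (nat_lit 317) (nat_lit 243) (nat_lit 220)) (XT.lf (nat_lit 0) (nat_lit 34543610831) (nat_lit 152) (nat_lit 39925066053) (nat_lit 0) (nat_lit 31194749241) (nat_lit 2) (nat_lit 5) (nat_lit 4) (nat_lit 4) (nat_lit 2) (nat_lit 4) (nat_lit 318) (nat_lit 243) (nat_lit 219)))))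 (XT.nd (nat_lit 312) (nat_lit 0) (nat_lit 0) (XT.nd (nat_lit 156) (nat_lit 0) (nat_lit 0) (XT.nd (nat_lit 78) (nat_lit 0) (nat_lit 0) (XT.lf (nat_lit 0) (nat_lit 39571671831) (nat_lit 152) (nat_lit 38159927446) (nat_lit 0) (nat_lit 36176366612) (nat_lit 2) (nat_lit 5) (nat_lit 4) (nat_lit 4) (nat_lit 2) (nat_lit 4) (nat_lit 319) (nat_lit 243) (nat_lit 218)) (XT.lf (nat_lit 0) (nat_lit 44957410427) (nat_lit 152) (nat_lit 36339155130) (nat_lit 0) (nat_lit 41519101847) (nat_lit 2) (nat_lit 5) (nat_lit 4) (nat_lit 4) (nat_lit 2) (nat_lit 4) (nat_lit 320) (nat_lit 243) (nat_lit 217))) (XT.nd (nat_lit 78) (nat_lit 0) (nat_lit 0) (XT.lf (nat_lit 0) (nat_lit 50732742107) (nat_lit 152) (nat_lit 34451959342) (nat_lit 0) (nat_lit 47254615600) (nat_lit 2) (nat_lit 5) (nat_lit 4) (nat_lit 4) (nat_lit 2) (nat_lit 4) (nat_lit 321) (nat_lit 243) (nat_lit 216)) (XT.lf (nat_lit 0) (nat_lit 56931891058)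 (nat_lit 152) (nat_lit 32487156699) (nat_lit 0) (nat_lit 53416896100) (nat_lit 2) (nat_lit 5) (nat_lit 4) (nat_lit 4) (nat_lit 2) (nat_lit 4) (nat_lit 322) (nat_lit 243) (nat_lit 215)))) (XT.nd (nat_lit 156) (nat_lit 0) (nat_lit 0) (XT.nd (nat_lit 78) (nat_lit 0) (nat_lit 0) (XT.lf (nat_lit 0) (nat_lit 63591592977) (nat_lit 152) (nat_lit 30433103928) (nat_lit 0) (nat_lit 60042460565) (nat_lit 2) (nat_lit 5) (nat_lit 4) (nat_lit 4) (nat_lit 2) (nat_lit 4) (nat_lit 323) (nat_lit 243) (nat_lit 214)) (XT.lf (nat_lit 0) (nat_lit 70751312766) (nat_lit 152) (nat_lit 28277628863) (nat_lit 0) (nat_lit 67170571599) (nat_lit 2) (nat_lit 5) (nat_lit 4) (nat_lit 4) (nat_lit 2) (nat_lit 4) (nat_lit 324) (nat_lit 243) (nat_lit 213))) (XT.nd (nat_lit 78) (nat_lit 0) (nat_lit 0) (XT.lf (nat_lit 0) (nat_lit 78453478392) (nat_lit 152) (nat_lit 26007958319) (nat_lit 0) (nat_lit 74843469860) (nat_lit 2)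 (nat_lit 5) (nat_lit 4) (nat_lit 4) (nat_lit 2) (nat_lit 4) (nat_lit 325) (nat_lit 243) (nat_lit 212)) (XT.lf (nat_lit 0) (nat_lit 86743732320) (nat_lit 152) (nat_lit 23610642396) (nat_lit 0) (nat_lit 83106624376) (nat_lit 2) (nat_lit 5) (nat_lit 4) (nat_lit 4) (nat_lit 2) (nat_lit 4) (nat_lit 326) (nat_lit 243) (nat_lit 211)))))) (XT.nd (nat_lit 546) (nat_lit 76) (nat_lit 0) (XT.nd (nat_lit 234) (nat_lit 0) (nat_lit 0) (XT.nd (nat_lit 78) (nat_lit 0) (nat_lit 0) (XT.lf (nat_lit 0) (nat_lit 95671201979) (nat_lit 152) (nat_lit 21071474778) (nat_lit 0) (nat_lit 92009001987) (nat_lit 2) (nat_lit 5) (nat_lit 4) (nat_lit 4) (nat_lit 2) (nat_lit 4) (nat_lit 327) (nat_lit 243) (nat_lit 210)) (XT.nd (nat_lit 78) (nat_lit 0) (nat_lit 0) (XT.lf (nat_lit 0) (nat_lit 105288790894) (nat_lit 152) (nat_lit 18375408545) (nat_lit 0) (nat_lit 101603357524) (nat_lit 2) (nat_lit 5) (nat_lit 4) (nat_lit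 4) (nat_lit 2) (nat_lit 4) (nat_lit 328) (nat_lit 243) (nat_lit 209)) (XT.lf (nat_lit 0) (nat_lit 115653492184) (nat_lit 152) (nat_lit 15506467009) (nat_lit 0) (nat_lit 111946546427) (nat_lit 2) (nat_lit 5) (nat_lit 4) (nat_lit 4) (nat_lit 2) (nat_lit 4) (nat_lit 329) (nat_lit 243) (nat_lit 208)))) (XT.nd (nat_lit 156) (nat_lit 0) (nat_lit 0) (XT.nd (nat_lit 78) (nat_lit 0) (nat_lit 0) (XT.lf (nat_lit 0) (nat_lit 126826726301) (nat_lit 152) (nat_lit 12447649035) (nat_lit 0) (nat_lit 123099861668) (nat_lit 2) (nat_lit 5) (nat_lit 4) (nat_lit 4) (nat_lit 2) (nat_lit 4) (nat_lit 330) (nat_lit 243) (nat_lit 207)) (XT.lf (nat_lit 0) (nat_lit 138874705003) (nat_lit 152) (nat_lit 9180828294) (nat_lit 0) (nat_lit 135129396965) (nat_lit 2) (nat_lit 5) (nat_lit 4) (nat_lit 4) (nat_lit 2) (nat_lit 4) (nat_lit 331) (nat_lit 243) (nat_lit 206))) (XT.nd (nat_lit 78) (nat_lit 0) (nat_lit 0) (XT.lf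 (nat_lit 0) (nat_lit 151868823720) (nat_lit 152) (nat_lit 5686645848) (nat_lit 0) (nat_lit 148106438455) (nat_lit 2) (nat_lit 5) (nat_lit 4) (nat_lit 4) (nat_lit 2) (nat_lit 4) (nat_lit 332) (nat_lit 243) (nat_lit 205)) (XT.lf (nat_lit 0) (nat_lit 165886084635) (nat_lit 152) (nat_lit 1944395430) (nat_lit 0) (nat_lit 162107887125) (nat_lit 2) (nat_lit 5) (nat_lit 4) (nat_lit 4) (nat_lit 2) (nat_lit 4) (nat_lit 333) (nat_lit 243) (nat_lit 204))))) (XT.nd (nat_lit 312) (nat_lit 0) (nat_lit 0) (XT.nd (nat_lit 156) (nat_lit 0) (nat_lit 0) (XT.nd (nat_lit 78) (nat_lit 0) (nat_lit 0) (XT.lf (nat_lit 0) (nat_lit 2177001698) (nat_lit 76) (nat_lit 178884908245) (nat_lit 76) (nat_lit 175092069765) (nat_lit 1) (nat_lit 4) (nat_lit 2) (nat_lit 5) (nat_lit 2) (nat_lit 4) (nat_lit 334) (nat_lit 243) (nat_lit 203)) (XT.lf (nat_lit 0) (nat_lit 6710291939) (nat_lit 76) (nat_lit 190779940111) (nat_lit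 76) (nat_lit 186973545178) (nat_lit 1) (nat_lit 4) (nat_lit 2) (nat_lit 5) (nat_lit 2) (nat_lit 4) (nat_lit 335) (nat_lit 243) (nat_lit 202))) (XT.nd (nat_lit 78) (nat_lit 0) (nat_lit 0) (XT.lf (nat_lit 0) (nat_lit 11579950817) (nat_lit 76) (nat_lit 203639227957) (nat_lit 76) (nat_lit 199820280753) (nat_lit 1) (nat_lit 4) (nat_lit 2) (nat_lit 5) (nat_lit 2) (nat_lit 4) (nat_lit 336) (nat_lit 243) (nat_lit 201)) (XT.lf (nat_lit 0) (nat_lit 16814835569) (nat_lit 76) (nat_lit 217538974972) (nat_lit 76) (nat_lit 213708405295) (nat_lit 1) (nat_lit 4) (nat_lit 2) (nat_lit 5) (nat_lit 2) (nat_lit 4) (nat_lit 337) (nat_lit 243) (nat_lit 200)))) (XT.nd (nat_lit 156) (nat_lit 0) (nat_lit 0) (XT.nd (nat_lit 78) (nat_lit 0) (nat_lit 0) (XT.lf (nat_lit 0) (nat_lit 22445967735) (nat_lit 76) (nat_lit 232561550026) (nat_lit 76) (nat_lit 228720218799) (nat_lit 1) (nat_lit 4) (nat_lit 2) (nat_lit 5)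 (nat_lit 2) (nat_lit 4) (nat_lit 338) (nat_lit 243) (nat_lit 199)) (XT.lf (nat_lit 0) (nat_lit 28506716987) (nat_lit 76) (nat_lit 248795975786) (nat_lit 76) (nat_lit 244944680162) (nat_lit 1) (nat_lit 4) (nat_lit 2) (nat_lit 5) (nat_lit 2) (nat_lit 4) (nat_lit 339) (nat_lit 243) (nat_lit 198))) (XT.nd (nat_lit 78) (nat_lit 0) (nat_lit 0) (XT.lf (nat_lit 0) (nat_lit 35032998876) (nat_lit 76) (nat_lit 266338456258) (nat_lit 76) (nat_lit 262477934340) (nat_lit 1) (nat_lit 4) (nat_lit 2) (nat_lit 5) (nat_lit 2) (nat_lit 4) (nat_lit 340) (nat_lit 243) (nat_lit 197)) (XT.lf (nat_lit 0) (nat_lit 42063487665) (nat_lit 76) (nat_lit 285292946880) (nat_lit 76) (nat_lit 281423882097) (nat_lit 1) (nat_lit 4) (nat_lit 2) (nat_lit 5) (nat_lit 2) (nat_lit 4) (nat_lit 341) (nat_lit 243) (nat_lit 196))))))))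
noncomputable def xc24 : XT := (XT.nd (nat_lit 36972) (nat_lit 0) (nat_lit 76) (XT.nd (nat_lit 1092) (nat_lit 0) (nat_lit 0) (XT.nd (nat_lit 546) (nat_lit 0) (nat_lit 0) (XT.nd (nat_lit 234) (nat_lit 0) (nat_lit 0) (XT.nd (nat_lit 78) (nat_lit 0) (nat_lit 0) (XT.lf (nat_lit 0) (nat_lit 49639845510) (nat_lit 76) (nat_lit 305771770560) (nat_lit 76) (nat_lit 301894795717) (nat_lit 1) (nat_lit 4) (nat_lit 2) (nat_lit 5) (nat_lit 2) (nat_lit 4) (nat_lit 342) (nat_lit 243) (nat_lit 195)) (XT.nd (nat_lit 78) (nat_lit 0) (nat_lit 0) (XT.lf (nat_lit 0) (nat_lit 57806969346) (nat_lit 76) (nat_lit 327896283290) (nat_lit 76) (nat_lit 324011984318) (nat_lit 1) (nat_lit 4) (nat_lit 2) (nat_lit 5) (nat_lit 2) (nat_lit 4) (nat_lit 343) (nat_lit 243) (nat_lit 194)) (XT.lf (nat_lit 0) (nat_lit 66613256944) (nat_lit 76) (nat_lit 351797593295) (nat_lit 76) (nat_lit 347906512721) (nat_lit 1) (nat_lit 4)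 (nat_lit 2) (nat_lit 5) (nat_lit 2) (nat_lit 4) (nat_lit 344) (nat_lit 243) (nat_lit 193)))) (XT.nd (nat_lit 156) (nat_lit 0) (nat_lit 0) (XT.nd (nat_lit 78) (nat_lit 0) (nat_lit 0) (XT.lf (nat_lit 0) (nat_lit 76110893712) (nat_lit 76) (nat_lit 377617337965) (nat_lit 76) (nat_lit 373719978131) (nat_lit 1) (nat_lit 4) (nat_lit 2) (nat_lit 5) (nat_lit 2) (nat_lit 4) (nat_lit 345) (nat_lit 243) (nat_lit 192)) (XT.lf (nat_lit 0) (nat_lit 86356161942) (nat_lit 76) (nat_lit 405508523197) (nat_lit 76) (nat_lit 401605349232) (nat_lit 1) (nat_lit 4) (nat_lit 2) (nat_lit 5) (nat_lit 2) (nat_lit 4) (nat_lit 346) (nat_lit 243) (nat_lit 191))) (XT.nd (nat_lit 78) (nat_lit 0) (nat_lit 0) (XT.lf (nat_lit 0) (nat_lit 97409774335) (nat_lit 76) (nat_lit 435636430087) (nat_lit 76) (nat_lit 431727872668) (nat_lit 1) (nat_lit 4) (nat_lit 2) (nat_lit 5) (nat_lit 2) (nat_lit 4) (nat_lit 347) (nat_lit 243)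 (nat_lit 190)) (XT.lf (nat_lit 0) (nat_lit 109337233779) (nat_lit 76) (nat_lit 468179594381) (nat_lit 76) (nat_lit 464266052282) (nat_lit 1) (nat_lit 4) (nat_lit 2) (nat_lit 5) (nat_lit 2) (nat_lit 4) (nat_lit 348) (nat_lit 243) (nat_lit 189))))) (XT.nd (nat_lit 234) (nat_lit 0) (nat_lit 0) (XT.nd (nat_lit 78) (nat_lit 0) (nat_lit 0) (XT.lf (nat_lit 0) (nat_lit 122209221515) (nat_lit 76) (nat_lit 503330864458) (nat_lit 76) (nat_lit 499412706915) (nat_lit 1) (nat_lit 4) (nat_lit 2) (nat_lit 5) (nat_lit 2) (nat_lit 4) (nat_lit 349) (nat_lit 243) (nat_lit 188)) (XT.nd (nat_lit 78) (nat_lit 0) (nat_lit 0) (XT.lf (nat_lit 0) (nat_lit 136102015988) (nat_lit 76) (nat_lit 541298544142) (nat_lit 76) (nat_lit 537376113040) (nat_lit 1) (nat_lit 4) (nat_lit 2) (nat_lit 5) (nat_lit 2) (nat_lit 4) (nat_lit 350) (nat_lit 243) (nat_lit 187)) (XT.lf (nat_lit 0) (nat_lit 151097944871) (nat_lit 76) (nat_lit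 582307627090) (nat_lit 76) (nat_lit 578381238989) (nat_lit 1) (nat_lit 4) (nat_lit 2) (nat_lit 5) (nat_lit 2) (nat_lit 4) (nat_lit 351) (nat_lit 243) (nat_lit 186)))) (XT.nd (nat_lit 156) (nat_lit 0) (nat_lit 0) (XT.nd (nat_lit 78) (nat_lit 0) (nat_lit 0) (XT.lf (nat_lit 0) (nat_lit 167285872926) (nat_lit 76) (nat_lit 626601130090) (nat_lit 76) (nat_lit 622671078101) (nat_lit 1) (nat_lit 4) (nat_lit 2) (nat_lit 5) (nat_lit 2) (nat_lit 4) (nat_lit 352) (nat_lit 243) (nat_lit 185)) (XT.lf (nat_lit 0) (nat_lit 184761728616) (nat_lit 76) (nat_lit 674441533160) (nat_lit 76) (nat_lit 670508088681) (nat_lit 1) (nat_lit 4) (nat_lit 2) (nat_lit 5) (nat_lit 2) (nat_lit 4) (nat_lit 353) (nat_lit 243) (nat_lit 184))) (XT.nd (nat_lit 78) (nat_lit 0) (nat_lit 0) (XT.lf (nat_lit 0) (nat_lit 203629072568) (nat_lit 76) (nat_lit 726112334985) (nat_lit 76) (nat_lit 722175749312) (nat_lit 1) (nat_lit 4)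 (nat_lit 2) (nat_lit 5) (nat_lit 2) (nat_lit 4) (nat_lit 354) (nat_lit 243) (nat_lit 183)) (XT.lf (nat_lit 0) (nat_lit 223999711264) (nat_lit 76) (nat_lit 781919732908) (nat_lit 76) (nat_lit 777980238723) (nat_lit 1) (nat_lit 4) (nat_lit 2) (nat_lit 5) (nat_lit 2) (nat_lit 4) (nat_lit 355) (nat_lit 243) (nat_lit 182)))))) (XT.nd (nat_lit 546) (nat_lit 0) (nat_lit 0) (XT.nd (nat_lit 234) (nat_lit 0) (nat_lit 0) (XT.nd (nat_lit 78) (nat_lit 0) (nat_lit 0) (XT.lf (nat_lit 0) (nat_lit 245994359600) (nat_lit 76) (nat_lit 842194437436) (nat_lit 76) (nat_lit 838252250184) (nat_lit 1) (nat_lit 4) (nat_lit 2) (nat_lit 5) (nat_lit 2) (nat_lit 4) (nat_lit 356) (nat_lit 243) (nat_lit 181)) (XT.nd (nat_lit 78) (nat_lit 0) (nat_lit 0) (XT.lf (nat_lit 0) (nat_lit 269743356232) (nat_lit 76) (nat_lit 907293632003) (nat_lit 76) (nat_lit 903348951170) (nat_lit 1) (nat_lit 4) (nat_lit 2) (nat_lit 5) (nat_lit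 2) (nat_lit 4) (nat_lit 357) (nat_lit 243) (nat_lit 180)) (XT.lf (nat_lit 0) (nat_lit 295387435957) (nat_lit 76) (nat_lit 977603089615) (nat_lit 76) (nat_lit 973656099910) (nat_lit 1) (nat_lit 4) (nat_lit 2) (nat_lit 5) (nat_lit 2) (nat_lit 4) (nat_lit 358) (nat_lit 243) (nat_lit 179)))) (XT.nd (nat_lit 156) (nat_lit 0) (nat_lit 0) (XT.nd (nat_lit 78) (nat_lit 0) (nat_lit 0) (XT.lf (nat_lit 0) (nat_lit 323078563690) (nat_lit 76) (nat_lit 1053539458908) (nat_lit 76) (nat_lit 1049590331360) (nat_lit 1) (nat_lit 4) (nat_lit 2) (nat_lit 5) (nat_lit 2) (nat_lit 4) (nat_lit 359) (nat_lit 243) (nat_lit 178)) (XT.lf (nat_lit 0) (nat_lit 352980835004) (nat_lit 76) (nat_lit 1135552733182) (nat_lit 76) (nat_lit 1131601626149) (nat_lit 1) (nat_lit 4) (nat_lit 2) (nat_lit 5) (nat_lit 2) (nat_lit 4) (nat_lit 360) (nat_lit 243) (nat_lit 177))) (XT.nd (nat_lit 78) (nat_lit 0) (nat_lit 0) (XT.lf (nat_lit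 0) (nat_lit 385271448543) (nat_lit 76) (nat_lit 1224128917026) (nat_lit 76) (nat_lit 1220175977137) (nat_lit 1) (nat_lit 4) (nat_lit 2) (nat_lit 5) (nat_lit 2) (nat_lit 4) (nat_lit 361) (nat_lit 243) (nat_lit 176)) (XT.lf (nat_lit 0) (nat_lit 420141756091) (nat_lit 76) (nat_lit 1319792906344) (nat_lit 76) (nat_lit 1315838269366) (nat_lit 1) (nat_lit 4) (nat_lit 2) (nat_lit 5) (nat_lit 2) (nat_lit 4) (nat_lit 362) (nat_lit 243) (nat_lit 175))))) (XT.nd (nat_lit 312) (nat_lit 0) (nat_lit 0) (XT.nd (nat_lit 156) (nat_lit 0) (nat_lit 0) (XT.nd (nat_lit 78) (nat_lit 0) (nat_lit 0) (XT.lf (nat_lit 0) (nat_lit 457798396507) (nat_lit 76) (nat_lit 1423111598850) (nat_lit 76) (nat_lit 1419155390493) (nat_lit 1) (nat_lit 4) (nat_lit 2) (nat_lit 5) (nat_lit 2) (nat_lit 4) (nat_lit 363) (nat_lit 243) (nat_lit 174)) (XT.lf (nat_lit 0) (nat_lit 498464520254) (nat_lit 76) (nat_lit 1534697253463) (nat_lit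 76) (nat_lit 1530739590125) (nat_lit 1) (nat_lit 4) (nat_lit 2) (nat_lit 5) (nat_lit 2) (nat_lit 4) (nat_lit 364) (nat_lit 243) (nat_lit 173))) (XT.nd (nat_lit 78) (nat_lit 0) (nat_lit 0) (XT.lf (nat_lit 0) (nat_lit 542381111769) (nat_lit 76) (nat_lit 1655211118506) (nat_lit 76) (nat_lit 1651252107964) (nat_lit 1) (nat_lit 4) (nat_lit 2) (nat_lit 5) (nat_lit 2) (nat_lit 4) (nat_lit 365) (nat_lit 243) (nat_lit 172)) (XT.lf (nat_lit 0) (nat_lit 589808417519) (nat_lit 76) (nat_lit 1785367350217) (nat_lit 76) (nat_lit 1781407092264) (nat_lit 1) (nat_lit 4) (nat_lit 2) (nat_lit 5) (nat_lit 2) (nat_lit 4) (nat_lit 366) (nat_lit 243) (nat_lit 171)))) (XT.nd (nat_lit 34866) (nat_lit 0) (nat_lit 532) (XT.nd (nat_lit 34788) (nat_lit 0) (nat_lit 684) (XT.lf (nat_lit 0) (nat_lit 641027488206) (nat_lit 76) (nat_lit 1925937244783) (nat_lit 76) (nat_lit 1921975831820) (nat_lit 1) (nat_lit 4) (nat_lit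 2) (nat_lit 5) (nat_lit 2) (nat_lit 4) (nat_lit 367) (nat_lit 243) (nat_lit 170)) (XT.lf (nat_lit 0) (nat_lit 6947936863) (nat_lit 76) (nat_lit 933728168) (nat_lit 76) (nat_lit 933728168) (nat_lit 10) (nat_lit 4) (nat_lit 11) (nat_lit 5) (nat_lit 11) (nat_lit 4) (nat_lit 292) (nat_lit 244) (nat_lit 244))) (XT.nd (nat_lit 78) (nat_lit 0) (nat_lit 0) (XT.lf (nat_lit 0) (nat_lit 2263258005) (nat_lit 152) (nat_lit 14517779838) (nat_lit 0) (nat_lit 1892263435) (nat_lit 8) (nat_lit 5) (nat_lit 10) (nat_lit 4) (nat_lit 8) (nat_lit 4) (nat_lit 293) (nat_lit 244) (nat_lit 243)) (XT.lf (nat_lit 0) (nat_lit 6546037148) (nat_lit 152) (nat_lit 7424235875) (nat_lit 0) (nat_lit 5831529087) (nat_lit 8) (nat_lit 5) (nat_lit 10) (nat_lit 4) (nat_lit 8) (nat_lit 4) (nat_lit 294) (nat_lit 244) (nat_lit 242))))))) (XT.nd (nat_lit 1092) (nat_lit 152) (nat_lit 0) (XT.nd (nat_lit 546) (nat_lit 76) (nat_lit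 0) (XT.nd (nat_lit 234) (nat_lit 152) (nat_lit 0) (XT.nd (nat_lit 78) (nat_lit 76) (nat_lit 0) (XT.lf (nat_lit 0) (nat_lit 10957755165) (nat_lit 152) (nat_lit 154988920) (nat_lit 0) (nat_lit 9925179056) (nat_lit 8) (nat_lit 5) (nat_lit 10) (nat_lit 4) (nat_lit 8) (nat_lit 4) (nat_lit 295) (nat_lit 244) (nat_lit 241)) (XT.nd (nat_lit 78) (nat_lit 0) (nat_lit 0) (XT.lf (nat_lit 0) (nat_lit 7719182833) (nat_lit 76) (nat_lit 7991019270) (nat_lit 76) (nat_lit 6663935709) (nat_lit 7) (nat_lit 4) (nat_lit 8) (nat_lit 5) (nat_lit 8) (nat_lit 4) (nat_lit 296) (nat_lit 244) (nat_lit 240)) (XT.lf (nat_lit 0) (nat_lit 15878526730) (nat_lit 76) (nat_lit 4776853103) (nat_lit 76) (nat_lit 3177077458) (nat_lit 7) (nat_lit 4) (nat_lit 8) (nat_lit 5) (nat_lit 8) (nat_lit 4) (nat_lit 297) (nat_lit 244) (nat_lit 239)))) (XT.nd (nat_lit 156) (nat_lit 0) (nat_lit 0) (XT.nd (nat_lit 78) (nat_lit 76) (nat_lit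 0) (XT.lf (nat_lit 0) (nat_lit 376980825) (nat_lit 152) (nat_lit 1068148198) (nat_lit 76) (nat_lit 23975944846) (nat_lit 6) (nat_lit 5) (nat_lit 8) (nat_lit 5) (nat_lit 7) (nat_lit 4) (nat_lit 298) (nat_lit 244) (nat_lit 238)) (XT.lf (nat_lit 0) (nat_lit 4080565537) (nat_lit 152) (nat_lit 20897801342) (nat_lit 0) (nat_lit 2149030512) (nat_lit 5) (nat_lit 5) (nat_lit 7) (nat_lit 4) (nat_lit 5) (nat_lit 4) (nat_lit 299) (nat_lit 244) (nat_lit 237))) (XT.nd (nat_lit 78) (nat_lit 0) (nat_lit 0) (XT.lf (nat_lit 0) (nat_lit 7980943953) (nat_lit 152) (nat_lit 15148424861) (nat_lit 0) (nat_lit 5848972106) (nat_lit 5) (nat_lit 5) (nat_lit 7) (nat_lit 4) (nat_lit 5) (nat_lit 4) (nat_lit 300) (nat_lit 244) (nat_lit 236)) (XT.lf (nat_lit 0) (nat_lit 12038729930) (nat_lit 152) (nat_lit 9229974606) (nat_lit 0) (nat_lit 9721168432) (nat_lit 5) (nat_lit 5) (nat_lit 7) (nat_lit 4) (nat_lit 5) (nat_lit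 4) (nat_lit 301) (nat_lit 244) (nat_lit 235))))) (XT.nd (nat_lit 234) (nat_lit 0) (nat_lit 0) (XT.nd (nat_lit 78) (nat_lit 76) (nat_lit 0) (XT.lf (nat_lit 0) (nat_lit 16277969608) (nat_lit 152) (nat_lit 3107378279) (nat_lit 0) (nat_lit 13788565841) (nat_lit 5) (nat_lit 5) (nat_lit 7) (nat_lit 4) (nat_lit 5) (nat_lit 4) (nat_lit 302) (nat_lit 244) (nat_lit 234)) (XT.nd (nat_lit 78) (nat_lit 0) (nat_lit 0) (XT.lf (nat_lit 0) (nat_lit 3427082730) (nat_lit 76) (nat_lit 17379123099) (nat_lit 76) (nat_lit 14730606119) (nat_lit 4) (nat_lit 4) (nat_lit 5) (nat_lit 5) (nat_lit 5) (nat_lit 4) (nat_lit 303) (nat_lit 244) (nat_lit 233)) (XT.lf (nat_lit 0) (nat_lit 10417953801) (nat_lit 76) (nat_lit 15235118133) (nat_lit 76) (nat_lit 12439274106) (nat_lit 4) (nat_lit 4) (nat_lit 5) (nat_lit 5) (nat_lit 5) (nat_lit 4) (nat_lit 304) (nat_lit 244) (nat_lit 232)))) (XT.nd (nat_lit 156) (nat_lit 0) (nat_lit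 0) (XT.nd (nat_lit 78) (nat_lit 0) (nat_lit 0) (XT.lf (nat_lit 0) (nat_lit 17743033286) (nat_lit 76) (nat_lit 13025589005) (nat_lit 76) (nat_lit 10093331044) (nat_lit 4) (nat_lit 4) (nat_lit 5) (nat_lit 5) (nat_lit 5) (nat_lit 4) (nat_lit 305) (nat_lit 244) (nat_lit 231)) (XT.lf (nat_lit 0) (nat_lit 25445729062) (nat_lit 76) (nat_lit 10737442209) (nat_lit 76) (nat_lit 7678875050) (nat_lit 4) (nat_lit 4) (nat_lit 5) (nat_lit 5) (nat_lit 5) (nat_lit 4) (nat_lit 306) (nat_lit 244) (nat_lit 230))) (XT.nd (nat_lit 78) (nat_lit 0) (nat_lit 0) (XT.lf (nat_lit 0) (nat_lit 33571686733) (nat_lit 76) (nat_lit 8357118355) (nat_lit 76) (nat_lit 5181598235) (nat_lit 4) (nat_lit 4) (nat_lit 5) (nat_lit 5) (nat_lit 5) (nat_lit 4) (nat_lit 307) (nat_lit 244) (nat_lit 229)) (XT.lf (nat_lit 0) (nat_lit 42169060124) (nat_lit 76) (nat_lit 5870511822) (nat_lit 76) (nat_lit 2586701923) (nat_lit 4) (nat_lit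 4) (nat_lit 5) (nat_lit 5) (nat_lit 5) (nat_lit 4) (nat_lit 308) (nat_lit 244) (nat_lit 228)))))) (XT.nd (nat_lit 546) (nat_lit 0) (nat_lit 0) (XT.nd (nat_lit 234) (nat_lit 0) (nat_lit 0) (XT.nd (nat_lit 78) (nat_lit 76) (nat_lit 0) (XT.lf (nat_lit 0) (nat_lit 115128581) (nat_lit 152) (nat_lit 3144610762) (nat_lit 76) (nat_lit 51170520231) (nat_lit 3) (nat_lit 5) (nat_lit 5) (nat_lit 5) (nat_lit 4) (nat_lit 4) (nat_lit 309) (nat_lit 244) (nat_lit 227)) (XT.nd (nat_lit 78) (nat_lit 0) (nat_lit 0) (XT.lf (nat_lit 0) (nat_lit 2492897457) (nat_lit 76) (nat_lit 377206725) (nat_lit 152) (nat_lit 55665011507) (nat_lit 2) (nat_lit 5) (nat_lit 3) (nat_lit 5) (nat_lit 4) (nat_lit 4) (nat_lit 310) (nat_lit 244) (nat_lit 226)) (XT.lf (nat_lit 0) (nat_lit 5916998503) (nat_lit 152) (nat_lit 54427668949) (nat_lit 0) (nat_lit 2618032613) (nat_lit 2) (nat_lit 5) (nat_lit 4) (nat_lit 4) (nat_lit 2) (nat_lit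 4) (nat_lit 311) (nat_lit 244) (nat_lit 225)))) (XT.nd (nat_lit 156) (nat_lit 0) (nat_lit 0) (XT.nd (nat_lit 78) (nat_lit 0) (nat_lit 0) (XT.lf (nat_lit 0) (nat_lit 9141061453) (nat_lit 152) (nat_lit 52840417888) (nat_lit 0) (nat_lit 5768395359) (nat_lit 2) (nat_lit 5) (nat_lit 4) (nat_lit 4) (nat_lit 2) (nat_lit 4) (nat_lit 312) (nat_lit 244) (nat_lit 224)) (XT.lf (nat_lit 0) (nat_lit 12552326759) (nat_lit 152) (nat_lit 51261987287) (nat_lit 0) (nat_lit 9111419736) (nat_lit 2) (nat_lit 5) (nat_lit 4) (nat_lit 4) (nat_lit 2) (nat_lit 4) (nat_lit 313) (nat_lit 244) (nat_lit 223))) (XT.nd (nat_lit 78) (nat_lit 0) (nat_lit 0) (XT.lf (nat_lit 0) (nat_lit 16171009327) (nat_lit 152) (nat_lit 49683023484) (nat_lit 0) (nat_lit 12666916258) (nat_lit 2) (nat_lit 5) (nat_lit 4) (nat_lit 4) (nat_lit 2) (nat_lit 4) (nat_lit 314) (nat_lit 244) (nat_lit 222)) (XT.lf (nat_lit 0) (nat_lit 20018553201)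 (nat_lit 152) (nat_lit 48094169655) (nat_lit 0) (nat_lit 16455954535) (nat_lit 2) (nat_lit 5) (nat_lit 4) (nat_lit 4) (nat_lit 2) (nat_lit 4) (nat_lit 315) (nat_lit 244) (nat_lit 221))))) (XT.nd (nat_lit 312) (nat_lit 0) (nat_lit 0) (XT.nd (nat_lit 156) (nat_lit 0) (nat_lit 0) (XT.nd (nat_lit 78) (nat_lit 0) (nat_lit 0) (XT.lf (nat_lit 0) (nat_lit 24117758643) (nat_lit 152) (nat_lit 46486010370) (nat_lit 0) (nat_lit 20500988126) (nat_lit 2) (nat_lit 5) (nat_lit 4) (nat_lit 4) (nat_lit 2) (nat_lit 4) (nat_lit 316) (nat_lit 244) (nat_lit 220)) (XT.lf (nat_lit 0) (nat_lit 28492917239) (nat_lit 152) (nat_lit 44849015798) (nat_lit 0) (nat_lit 24825987602) (nat_lit 2) (nat_lit 5) (nat_lit 4) (nat_lit 4) (nat_lit 2) (nat_lit 4) (nat_lit 317) (nat_lit 244) (nat_lit 219))) (XT.nd (nat_lit 78) (nat_lit 0) (nat_lit 0) (XT.lf (nat_lit 0) (nat_lit 33169955856) (nat_lit 152) (nat_lit 43173485229)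 (nat_lit 0) (nat_lit 29456582589) (nat_lit 2) (nat_lit 5) (nat_lit 4) (nat_lit 4) (nat_lit 2) (nat_lit 4) (nat_lit 318) (nat_lit 244) (nat_lit 218)) (XT.lf (nat_lit 0) (nat_lit 38176590278) (nat_lit 152) (nat_lit 41449489593) (nat_lit 0) (nat_lit 34420213650) (nat_lit 2) (nat_lit 5) (nat_lit 4) (nat_lit 4) (nat_lit 2) (nat_lit 4) (nat_lit 319) (nat_lit 244) (nat_lit 217)))) (XT.nd (nat_lit 156) (nat_lit 0) (nat_lit 0) (XT.nd (nat_lit 78) (nat_lit 0) (nat_lit 0) (XT.lf (nat_lit 0) (nat_lit 43542489448) (nat_lit 152) (nat_lit 39666812619) (nat_lit 0) (nat_lit 39746294894) (nat_lit 2) (nat_lit 5) (nat_lit 4) (nat_lit 4) (nat_lit 2) (nat_lit 4) (nat_lit 320) (nat_lit 244) (nat_lit 216)) (XT.lf (nat_lit 0) (nat_lit 49299451290) (nat_lit 152) (nat_lit 37814890297) (nat_lit 0) (nat_lit 45466388284) (nat_lit 2) (nat_lit 5) (nat_lit 4) (nat_lit 4) (nat_lit 2) (nat_lit 4) (nat_lit 321) (nat_lit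 244) (nat_lit 215))) (XT.nd (nat_lit 78) (nat_lit 0) (nat_lit 0) (XT.lf (nat_lit 0) (nat_lit 55481591131) (nat_lit 152) (nat_lit 35882748271) (nat_lit 0) (nat_lit 51614390671) (nat_lit 2) (nat_lit 5) (nat_lit 4) (nat_lit 4) (nat_lit 2) (nat_lit 4) (nat_lit 322) (nat_lit 244) (nat_lit 214)) (XT.lf (nat_lit 0) (nat_lit 62125543876) (nat_lit 152) (nat_lit 33858936812) (nat_lit 0) (nat_lit 58226734661) (nat_lit 2) (nat_lit 5) (nat_lit 4) (nat_lit 4) (nat_lit 2) (nat_lit 4) (nat_lit 323) (nat_lit 244) (nat_lit 213))))))))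
noncomputable def xc25 : XT := (XT.nd (nat_lit 2262) (nat_lit 0) (nat_lit 0) (XT.nd (nat_lit 1092) (nat_lit 0) (nat_lit 0) (XT.nd (nat_lit 546) (nat_lit 76) (nat_lit 0) (XT.nd (nat_lit 234) (nat_lit 0) (nat_lit 0) (XT.nd (nat_lit 78) (nat_lit 0) (nat_lit 0) (XT.lf (nat_lit 0) (nat_lit 69270681094) (nat_lit 152) (nat_lit 31731462961) (nat_lit 0) (nat_lit 65342604515) (nat_lit 2) (nat_lit 5) (nat_lit 4) (nat_lit 4) (nat_lit 2) (nat_lit 4) (nat_lit 324) (nat_lit 244) (nat_lit 212)) (XT.nd (nat_lit 78) (nat_lit 0) (nat_lit 0) (XT.lf (nat_lit 0) (nat_lit 76959344341) (nat_lit 152) (nat_lit 29487719467) (nat_lit 0) (nat_lit 73004168350) (nat_lit 2) (nat_lit 5) (nat_lit 4) (nat_lit 4) (nat_lit 2) (nat_lit 4) (nat_lit 325) (nat_lit 244) (nat_lit 211)) (XT.lf (nat_lit 0) (nat_lit 85237096066) (nat_lit 152) (nat_lit 27114410073) (nat_lit 0) (nat_lit 81256828027) (nat_lit 2) (nat_lit 5) (nat_lit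 4) (nat_lit 4) (nat_lit 2) (nat_lit 4) (nat_lit 326) (nat_lit 244) (nat_lit 210)))) (XT.nd (nat_lit 156) (nat_lit 0) (nat_lit 0) (XT.nd (nat_lit 78) (nat_lit 0) (nat_lit 0) (XT.lf (nat_lit 0) (nat_lit 94152989611) (nat_lit 152) (nat_lit 24597470721) (nat_lit 0) (nat_lit 90149488194) (nat_lit 2) (nat_lit 5) (nat_lit 4) (nat_lit 4) (nat_lit 2) (nat_lit 4) (nat_lit 327) (nat_lit 244) (nat_lit 209)) (XT.lf (nat_lit 0) (nat_lit 103759859902) (nat_lit 152) (nat_lit 21921986217) (nat_lit 0) (nat_lit 99734846098) (nat_lit 2) (nat_lit 5) (nat_lit 4) (nat_lit 4) (nat_lit 2) (nat_lit 4) (nat_lit 328) (nat_lit 244) (nat_lit 208))) (XT.nd (nat_lit 78) (nat_lit 0) (nat_lit 0) (XT.lf (nat_lit 0) (nat_lit 114114636540) (nat_lit 152) (nat_lit 19072101837) (nat_lit 0) (nat_lit 110069703859) (nat_lit 2) (nat_lit 5) (nat_lit 4) (nat_lit 4) (nat_lit 2) (nat_lit 4) (nat_lit 329) (nat_lit 244) (nat_lit 207))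 (XT.lf (nat_lit 0) (nat_lit 125278681165) (nat_lit 152) (nat_lit 16030929378) (nat_lit 0) (nat_lit 121215305079) (nat_lit 2) (nat_lit 5) (nat_lit 4) (nat_lit 4) (nat_lit 2) (nat_lit 4) (nat_lit 330) (nat_lit 244) (nat_lit 206))))) (XT.nd (nat_lit 234) (nat_lit 76) (nat_lit 0) (XT.nd (nat_lit 78) (nat_lit 0) (nat_lit 0) (XT.lf (nat_lit 0) (nat_lit 137318151077) (nat_lit 152) (nat_lit 12780447076) (nat_lit 0) (nat_lit 133237697766) (nat_lit 2) (nat_lit 5) (nat_lit 4) (nat_lit 4) (nat_lit 2) (nat_lit 4) (nat_lit 331) (nat_lit 244) (nat_lit 205)) (XT.nd (nat_lit 78) (nat_lit 0) (nat_lit 0) (XT.lf (nat_lit 0) (nat_lit 150304391285) (nat_lit 152) (nat_lit 9301392815) (nat_lit 0) (nat_lit 146208125727) (nat_lit 2) (nat_lit 5) (nat_lit 4) (nat_lit 4) (nat_lit 2) (nat_lit 4) (nat_lit 332) (nat_lit 244) (nat_lit 204)) (XT.lf (nat_lit 0) (nat_lit 164314357286) (nat_lit 152) (nat_lit 5573149976)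 (nat_lit 0) (nat_lit 160203450758) (nat_lit 2) (nat_lit 5) (nat_lit 4) (nat_lit 4) (nat_lit 2) (nat_lit 4) (nat_lit 333) (nat_lit 244) (nat_lit 203)))) (XT.nd (nat_lit 156) (nat_lit 0) (nat_lit 0) (XT.nd (nat_lit 78) (nat_lit 76) (nat_lit 0) (XT.lf (nat_lit 0) (nat_lit 179431071099) (nat_lit 152) (nat_lit 1573625269) (nat_lit 0) (nat_lit 175306608119) (nat_lit 2) (nat_lit 5) (nat_lit 4) (nat_lit 4) (nat_lit 2) (nat_lit 4) (nat_lit 334) (nat_lit 244) (nat_lit 202)) (XT.lf (nat_lit 0) (nat_lit 2864159027) (nat_lit 76) (nat_lit 192948837319) (nat_lit 76) (nat_lit 188811822067) (nat_lit 1) (nat_lit 4) (nat_lit 2) (nat_lit 5) (nat_lit 2) (nat_lit 4) (nat_lit 335) (nat_lit 244) (nat_lit 201))) (XT.nd (nat_lit 78) (nat_lit 0) (nat_lit 0) (XT.lf (nat_lit 0) (nat_lit 7722112695) (nat_lit 76) (nat_lit 205813757925) (nat_lit 76) (nat_lit 201665120200) (nat_lit 1) (nat_lit 4) (nat_lit 2) (nat_lit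 5) (nat_lit 2) (nat_lit 4) (nat_lit 336) (nat_lit 244) (nat_lit 200)) (XT.lf (nat_lit 0) (nat_lit 12946159291) (nat_lit 76) (nat_lit 219718720458) (nat_lit 76) (nat_lit 215559321184) (nat_lit 1) (nat_lit 4) (nat_lit 2) (nat_lit 5) (nat_lit 2) (nat_lit 4) (nat_lit 337) (nat_lit 244) (nat_lit 199)))))) (XT.nd (nat_lit 546) (nat_lit 0) (nat_lit 0) (XT.nd (nat_lit 234) (nat_lit 0) (nat_lit 0) (XT.nd (nat_lit 78) (nat_lit 0) (nat_lit 0) (XT.lf (nat_lit 0) (nat_lit 18567256126) (nat_lit 76) (nat_lit 234746124696) (nat_lit 76) (nat_lit 230576761024) (nat_lit 1) (nat_lit 4) (nat_lit 2) (nat_lit 5) (nat_lit 2) (nat_lit 4) (nat_lit 338) (nat_lit 244) (nat_lit 198)) (XT.nd (nat_lit 78) (nat_lit 0) (nat_lit 0) (XT.lf (nat_lit 0) (nat_lit 24618713406) (nat_lit 76) (nat_lit 250985021922) (nat_lit 76) (nat_lit 246806431957) (nat_lit 1) (nat_lit 4) (nat_lit 2) (nat_lit 5) (nat_lit 2) (nat_lit 4) (nat_lit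 339) (nat_lit 244) (nat_lit 197)) (XT.lf (nat_lit 0) (nat_lit 31136391616) (nat_lit 76) (nat_lit 268531642640) (nat_lit 76) (nat_lit 264344509810) (nat_lit 1) (nat_lit 4) (nat_lit 2) (nat_lit 5) (nat_lit 2) (nat_lit 4) (nat_lit 340) (nat_lit 244) (nat_lit 196)))) (XT.nd (nat_lit 156) (nat_lit 0) (nat_lit 0) (XT.nd (nat_lit 78) (nat_lit 0) (nat_lit 0) (XT.lf (nat_lit 0) (nat_lit 38158914036) (nat_lit 76) (nat_lit 287489966824) (nat_lit 76) (nat_lit 283294923934) (nat_lit 1) (nat_lit 4) (nat_lit 2) (nat_lit 5) (nat_lit 2) (nat_lit 4) (nat_lit 341) (nat_lit 244) (nat_lit 195)) (XT.lf (nat_lit 0) (nat_lit 45727895614) (nat_lit 76) (nat_lit 307972340098) (nat_lit 76) (nat_lit 303769973078) (nat_lit 1) (nat_lit 4) (nat_lit 2) (nat_lit 5) (nat_lit 2) (nat_lit 4) (nat_lit 342) (nat_lit 244) (nat_lit 194))) (XT.nd (nat_lit 78) (nat_lit 0) (nat_lit 0) (XT.lf (nat_lit 0) (nat_lit 53888189572)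 (nat_lit 76) (nat_lit 330100139490) (nat_lit 76) (nat_lit 325890990869) (nat_lit 1) (nat_lit 4) (nat_lit 2) (nat_lit 5) (nat_lit 2) (nat_lit 4) (nat_lit 343) (nat_lit 244) (nat_lit 193)) (XT.lf (nat_lit 0) (nat_lit 62688153210) (nat_lit 76) (nat_lit 354004492699) (nat_lit 76) (nat_lit 349789064817) (nat_lit 1) (nat_lit 4) (nat_lit 2) (nat_lit 5) (nat_lit 2) (nat_lit 4) (nat_lit 344) (nat_lit 244) (nat_lit 192))))) (XT.nd (nat_lit 312) (nat_lit 0) (nat_lit 0) (XT.nd (nat_lit 156) (nat_lit 0) (nat_lit 0) (XT.nd (nat_lit 78) (nat_lit 0) (nat_lit 0) (XT.lf (nat_lit 0) (nat_lit 72179934459) (nat_lit 76) (nat_lit 379827055153) (nat_lit 76) (nat_lit 375605813140) (nat_lit 1) (nat_lit 4) (nat_lit 2) (nat_lit 5) (nat_lit 2) (nat_lit 4) (nat_lit 345) (nat_lit 244) (nat_lit 191)) (XT.lf (nat_lit 0) (nat_lit 82419780912) (nat_lit 76) (nat_lit 407720849442) (nat_lit 76) (nat_lit 403494223976) (nat_lit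 1) (nat_lit 4) (nat_lit 2) (nat_lit 5) (nat_lit 2) (nat_lit 4) (nat_lit 346) (nat_lit 244) (nat_lit 190))) (XT.nd (nat_lit 78) (nat_lit 0) (nat_lit 0) (XT.lf (nat_lit 0) (nat_lit 93468373142) (nat_lit 76) (nat_lit 437851172126) (nat_lit 76) (nat_lit 433619561980) (nat_lit 1) (nat_lit 4) (nat_lit 2) (nat_lit 5) (nat_lit 2) (nat_lit 4) (nat_lit 347) (nat_lit 244) (nat_lit 189)) (XT.lf (nat_lit 0) (nat_lit 105391184285) (nat_lit 76) (nat_lit 470396573266) (nat_lit 76) (nat_lit 466160347676) (nat_lit 1) (nat_lit 4) (nat_lit 2) (nat_lit 5) (nat_lit 2) (nat_lit 4) (nat_lit 348) (nat_lit 244) (nat_lit 188)))) (XT.nd (nat_lit 156) (nat_lit 0) (nat_lit 0) (XT.nd (nat_lit 78) (nat_lit 0) (nat_lit 0) (XT.lf (nat_lit 0) (nat_lit 118258868040) (nat_lit 76) (nat_lit 505549914497) (nat_lit 76) (nat_lit 501309415348) (nat_lit 1) (nat_lit 4) (nat_lit 2) (nat_lit 5) (nat_lit 2) (nat_lit 4) (nat_lit 349)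 (nat_lit 244) (nat_lit 187)) (XT.lf (nat_lit 0) (nat_lit 132147677346) (nat_lit 76) (nat_lit 543519511917) (nat_lit 76) (nat_lit 539275055768) (nat_lit 1) (nat_lit 4) (nat_lit 2) (nat_lit 5) (nat_lit 2) (nat_lit 4) (nat_lit 350) (nat_lit 244) (nat_lit 186))) (XT.nd (nat_lit 78) (nat_lit 0) (nat_lit 0) (XT.lf (nat_lit 0) (nat_lit 147139916258) (nat_lit 76) (nat_lit 584530370546) (nat_lit 76) (nat_lit 580282250509) (nat_lit 1) (nat_lit 4) (nat_lit 2) (nat_lit 5) (nat_lit 2) (nat_lit 4) (nat_lit 351) (nat_lit 244) (nat_lit 185)) (XT.lf (nat_lit 0) (nat_lit 163324427674) (nat_lit 76) (nat_lit 628825517695) (nat_lit 76) (nat_lit 624574005169) (nat_lit 1) (nat_lit 4) (nat_lit 2) (nat_lit 5) (nat_lit 2) (nat_lit 4) (nat_lit 352) (nat_lit 244) (nat_lit 184))))))) (XT.nd (nat_lit 35724) (nat_lit 0) (nat_lit 228) (XT.nd (nat_lit 546) (nat_lit 0) (nat_lit 0) (XT.nd (nat_lit 234) (nat_lit 0) (nat_lit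 0) (XT.nd (nat_lit 78) (nat_lit 0) (nat_lit 0) (XT.lf (nat_lit 0) (nat_lit 180797119810) (nat_lit 76) (nat_lit 676667443125) (nat_lit 76) (nat_lit 672412789405) (nat_lit 1) (nat_lit 4) (nat_lit 2) (nat_lit 5) (nat_lit 2) (nat_lit 4) (nat_lit 353) (nat_lit 244) (nat_lit 183)) (XT.nd (nat_lit 78) (nat_lit 0) (nat_lit 0) (XT.lf (nat_lit 0) (nat_lit 199661534544) (nat_lit 76) (nat_lit 728339654542) (nat_lit 76) (nat_lit 724082092309) (nat_lit 1) (nat_lit 4) (nat_lit 2) (nat_lit 5) (nat_lit 2) (nat_lit 4) (nat_lit 354) (nat_lit 244) (nat_lit 182)) (XT.lf (nat_lit 0) (nat_lit 220029461002) (nat_lit 76) (nat_lit 784148357643) (nat_lit 76) (nat_lit 779888102344) (nat_lit 1) (nat_lit 4) (nat_lit 2) (nat_lit 5) (nat_lit 2) (nat_lit 4) (nat_lit 355) (nat_lit 244) (nat_lit 181)))) (XT.nd (nat_lit 156) (nat_lit 0) (nat_lit 0) (XT.nd (nat_lit 78) (nat_lit 0) (nat_lit 0) (XT.lf (nat_lit 0) (nat_lit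 242021598006) (nat_lit 76) (nat_lit 844424270670) (nat_lit 76) (nat_lit 840161521790) (nat_lit 1) (nat_lit 4) (nat_lit 2) (nat_lit 5) (nat_lit 2) (nat_lit 4) (nat_lit 356) (nat_lit 244) (nat_lit 180)) (XT.lf (nat_lit 0) (nat_lit 265768269331) (nat_lit 76) (nat_lit 909524584218) (nat_lit 76) (nat_lit 905259526466) (nat_lit 1) (nat_lit 4) (nat_lit 2) (nat_lit 5) (nat_lit 2) (nat_lit 4) (nat_lit 357) (nat_lit 244) (nat_lit 179))) (XT.nd (nat_lit 78) (nat_lit 0) (nat_lit 0) (XT.lf (nat_lit 0) (nat_lit 291410195994) (nat_lit 76) (nat_lit 979835077922) (nat_lit 76) (nat_lit 975567882326) (nat_lit 1) (nat_lit 4) (nat_lit 2) (nat_lit 5) (nat_lit 2) (nat_lit 4) (nat_lit 358) (nat_lit 244) (nat_lit 178)) (XT.lf (nat_lit 0) (nat_lit 319099330151) (nat_lit 76) (nat_lit 1055772406560) (nat_lit 76) (nat_lit 1051503231480) (nat_lit 1) (nat_lit 4) (nat_lit 2) (nat_lit 5) (nat_lit 2) (nat_lit 4) (nat_lit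 359) (nat_lit 244) (nat_lit 177))))) (XT.nd (nat_lit 312) (nat_lit 0) (nat_lit 0) (XT.nd (nat_lit 156) (nat_lit 0) (nat_lit 0) (XT.nd (nat_lit 78) (nat_lit 0) (nat_lit 0) (XT.lf (nat_lit 0) (nat_lit 348999755561) (nat_lit 76) (nat_lit 1137786569117) (nat_lit 76) (nat_lit 1133515561180) (nat_lit 1) (nat_lit 4) (nat_lit 2) (nat_lit 5) (nat_lit 2) (nat_lit 4) (nat_lit 360) (nat_lit 244) (nat_lit 176)) (XT.lf (nat_lit 0) (nat_lit 381288659929) (nat_lit 76) (nat_lit 1226363575444) (nat_lit 76) (nat_lit 1222090870419) (nat_lit 1) (nat_lit 4) (nat_lit 2) (nat_lit 5) (nat_lit 2) (nat_lit 4) (nat_lit 361) (nat_lit 244) (nat_lit 175))) (XT.nd (nat_lit 78) (nat_lit 0) (nat_lit 0) (XT.lf (nat_lit 0) (nat_lit 416157384912) (nat_lit 76) (nat_lit 1322028326321) (nat_lit 76) (nat_lit 1317754049917) (nat_lit 1) (nat_lit 4) (nat_lit 2) (nat_lit 5) (nat_lit 2) (nat_lit 4) (nat_lit 362) (nat_lit 244) (nat_lit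 174)) (XT.lf (nat_lit 0) (nat_lit 453812559991) (nat_lit 76) (nat_lit 1425347723974) (nat_lit 76) (nat_lit 1421071992589) (nat_lit 1) (nat_lit 4) (nat_lit 2) (nat_lit 5) (nat_lit 2) (nat_lit 4) (nat_lit 363) (nat_lit 244) (nat_lit 173)))) (XT.nd (nat_lit 156) (nat_lit 0) (nat_lit 0) (XT.nd (nat_lit 78) (nat_lit 0) (nat_lit 0) (XT.lf (nat_lit 0) (nat_lit 494477326944) (nat_lit 76) (nat_lit 1536934031501) (nat_lit 76) (nat_lit 1532656952912) (nat_lit 1) (nat_lit 4) (nat_lit 2) (nat_lit 5) (nat_lit 2) (nat_lit 4) (nat_lit 364) (nat_lit 244) (nat_lit 172)) (XT.lf (nat_lit 0) (nat_lit 538392662168) (nat_lit 76) (nat_lit 1657448501095) (nat_lit 76) (nat_lit 1653170175094) (nat_lit 1) (nat_lit 4) (nat_lit 2) (nat_lit 5) (nat_lit 2) (nat_lit 4) (nat_lit 365) (nat_lit 244) (nat_lit 171))) (XT.nd (nat_lit 78) (nat_lit 0) (nat_lit 0) (XT.lf (nat_lit 0) (nat_lit 585818804685) (nat_lit 76) (nat_lit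 1787605292575) (nat_lit 76) (nat_lit 1783325811564) (nat_lit 1) (nat_lit 4) (nat_lit 2) (nat_lit 5) (nat_lit 2) (nat_lit 4) (nat_lit 366) (nat_lit 244) (nat_lit 170)) (XT.lf (nat_lit 0) (nat_lit 637036798305) (nat_lit 76) (nat_lit 1928175705446) (nat_lit 76) (nat_lit 1923895154981) (nat_lit 1) (nat_lit 4) (nat_lit 2) (nat_lit 5) (nat_lit 2) (nat_lit 4) (nat_lit 367) (nat_lit 244) (nat_lit 169)))))) (XT.nd (nat_lit 546) (nat_lit 228) (nat_lit 0) (XT.nd (nat_lit 234) (nat_lit 228) (nat_lit 0) (XT.nd (nat_lit 78) (nat_lit 76) (nat_lit 0) (XT.lf (nat_lit 0) (nat_lit 3280548215) (nat_lit 152) (nat_lit 1328580589) (nat_lit 0) (nat_lit 3280548215) (nat_lit 11) (nat_lit 5) (nat_lit 13) (nat_lit 4) (nat_lit 11) (nat_lit 4) (nat_lit 290) (nat_lit 245) (nat_lit 245)) (XT.nd (nat_lit 78) (nat_lit 0) (nat_lit 0) (XT.lf (nat_lit 0) (nat_lit 5330018711) (nat_lit 76) (nat_lit 5885172878) (nat_lit 76)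 (nat_lit 5452444811) (nat_lit 10) (nat_lit 4) (nat_lit 11) (nat_lit 5) (nat_lit 11) (nat_lit 4) (nat_lit 291) (nat_lit 245) (nat_lit 244)) (XT.lf (nat_lit 0) (nat_lit 13700119673) (nat_lit 76) (nat_lit 2386486856) (nat_lit 76) (nat_lit 1553084652) (nat_lit 10) (nat_lit 4) (nat_lit 11) (nat_lit 5) (nat_lit 11) (nat_lit 4) (nat_lit 292) (nat_lit 245) (nat_lit 243)))) (XT.nd (nat_lit 156) (nat_lit 76) (nat_lit 0) (XT.nd (nat_lit 78) (nat_lit 0) (nat_lit 0) (XT.lf (nat_lit 0) (nat_lit 2433154007) (nat_lit 152) (nat_lit 14940902805) (nat_lit 0) (nat_lit 1317971809) (nat_lit 8) (nat_lit 5) (nat_lit 10) (nat_lit 4) (nat_lit 8) (nat_lit 4) (nat_lit 293) (nat_lit 245) (nat_lit 242)) (XT.lf (nat_lit 0) (nat_lit 6613200719) (nat_lit 152) (nat_lit 8035714864) (nat_lit 0) (nat_lit 5179950473) (nat_lit 8) (nat_lit 5) (nat_lit 10) (nat_lit 4) (nat_lit 8) (nat_lit 4) (nat_lit 294) (nat_lit 245) (nat_lit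 241))) (XT.nd (nat_lit 78) (nat_lit 76) (nat_lit 0) (XT.lf (nat_lit 0) (nat_lit 10929796114) (nat_lit 152) (nat_lit 940871633) (nat_lit 0) (nat_lit 9202038417) (nat_lit 8) (nat_lit 5) (nat_lit 10) (nat_lit 4) (nat_lit 8) (nat_lit 4) (nat_lit 295) (nat_lit 245) (nat_lit 240)) (XT.lf (nat_lit 0) (nat_lit 6721928489) (nat_lit 76) (nat_lit 8848254069) (nat_lit 76) (nat_lit 6847804287) (nat_lit 7) (nat_lit 4) (nat_lit 8) (nat_lit 5) (nat_lit 8) (nat_lit 4) (nat_lit 296) (nat_lit 245) (nat_lit 239))))) (XT.nd (nat_lit 312) (nat_lit 76) (nat_lit 0) (XT.nd (nat_lit 156) (nat_lit 76) (nat_lit 0) (XT.nd (nat_lit 78) (nat_lit 76) (nat_lit 0) (XT.lf (nat_lit 0) (nat_lit 14723875683) (nat_lit 76) (nat_lit 5706146895) (nat_lit 76) (nat_lit 3453204443) (nat_lit 7) (nat_lit 4) (nat_lit 8) (nat_lit 5) (nat_lit 8) (nat_lit 4) (nat_lit 297) (nat_lit 245) (nat_lit 238)) (XT.lf (nat_lit 0) (nat_lit 33515657)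 (nat_lit 152) (nat_lit 2417019394) (nat_lit 76) (nat_lit 23028412225) (nat_lit 6) (nat_lit 5) (nat_lit 8) (nat_lit 5) (nat_lit 7) (nat_lit 4) (nat_lit 298) (nat_lit 245) (nat_lit 237))) (XT.nd (nat_lit 78) (nat_lit 0) (nat_lit 0) (XT.lf (nat_lit 0) (nat_lit 3597599845) (nat_lit 152) (nat_lit 22504271933) (nat_lit 0) (nat_lit 1094633427) (nat_lit 5) (nat_lit 5) (nat_lit 7) (nat_lit 4) (nat_lit 5) (nat_lit 4) (nat_lit 299) (nat_lit 245) (nat_lit 236)) (XT.lf (nat_lit 0) (nat_lit 7423640418) (nat_lit 152) (nat_lit 16894739848) (nat_lit 0) (nat_lit 4735084350) (nat_lit 5) (nat_lit 5) (nat_lit 7) (nat_lit 4) (nat_lit 5) (nat_lit 4) (nat_lit 300) (nat_lit 245) (nat_lit 235)))) (XT.nd (nat_lit 156) (nat_lit 76) (nat_lit 0) (XT.nd (nat_lit 78) (nat_lit 0) (nat_lit 0) (XT.lf (nat_lit 0) (nat_lit 11412595060) (nat_lit 152) (nat_lit 11105775145) (nat_lit 0) (nat_lit 8552196723) (nat_lit 5) (nat_lit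 5) (nat_lit 7) (nat_lit 4) (nat_lit 5) (nat_lit 4) (nat_lit 301) (nat_lit 245) (nat_lit 234)) (XT.lf (nat_lit 0) (nat_lit 15588102020) (nat_lit 152) (nat_lit 5103072848) (nat_lit 0) (nat_lit 12568590471) (nat_lit 5) (nat_lit 5) (nat_lit 7) (nat_lit 4) (nat_lit 5) (nat_lit 4) (nat_lit 302) (nat_lit 245) (nat_lit 233))) (XT.nd (nat_lit 78) (nat_lit 0) (nat_lit 0) (XT.lf (nat_lit 0) (nat_lit 1209439684) (nat_lit 76) (nat_lit 18794552413) (nat_lit 76) (nat_lit 15627713814) (nat_lit 4) (nat_lit 4) (nat_lit 5) (nat_lit 5) (nat_lit 5) (nat_lit 4) (nat_lit 303) (nat_lit 245) (nat_lit 232)) (XT.lf (nat_lit 0) (nat_lit 8092108220) (nat_lit 76) (nat_lit 16701507175) (nat_lit 76) (nat_lit 13398254644) (nat_lit 4) (nat_lit 4) (nat_lit 5) (nat_lit 5) (nat_lit 5) (nat_lit 4) (nat_lit 304) (nat_lit 245) (nat_lit 231))))))))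
noncomputable def xc26 : XT := (XT.nd (nat_lit 2262) (nat_lit 76) (nat_lit 0) (XT.nd (nat_lit 1092) (nat_lit 0) (nat_lit 0) (XT.nd (nat_lit 546) (nat_lit 0) (nat_lit 0) (XT.nd (nat_lit 234) (nat_lit 152) (nat_lit 0) (XT.nd (nat_lit 78) (nat_lit 0) (nat_lit 0) (XT.lf (nat_lit 0) (nat_lit 15317000172) (nat_lit 76) (nat_lit 14539162981) (nat_lit 76) (nat_lit 11109601251) (nat_lit 4) (nat_lit 4) (nat_lit 5) (nat_lit 5) (nat_lit 5) (nat_lit 4) (nat_lit 305) (nat_lit 245) (nat_lit 230)) (XT.nd (nat_lit 78) (nat_lit 0) (nat_lit 0) (XT.lf (nat_lit 0) (nat_lit 22926929714) (nat_lit 76) (nat_lit 12294705938) (nat_lit 76) (nat_lit 8748191247) (nat_lit 4) (nat_lit 4) (nat_lit 5) (nat_lit 5) (nat_lit 5) (nat_lit 4) (nat_lit 306) (nat_lit 245) (nat_lit 229)) (XT.lf (nat_lit 0) (nat_lit 30966992725) (nat_lit 76) (nat_lit 9954835559) (nat_lit 76) (nat_lit 6300031090) (nat_lit 4) (nat_lit 4) (nat_lit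 5) (nat_lit 5) (nat_lit 5) (nat_lit 4) (nat_lit 307) (nat_lit 245) (nat_lit 228)))) (XT.nd (nat_lit 156) (nat_lit 152) (nat_lit 0) (XT.nd (nat_lit 78) (nat_lit 0) (nat_lit 0) (XT.lf (nat_lit 0) (nat_lit 39484834022) (nat_lit 76) (nat_lit 7505685948) (nat_lit 76) (nat_lit 3750613165) (nat_lit 4) (nat_lit 4) (nat_lit 5) (nat_lit 5) (nat_lit 5) (nat_lit 4) (nat_lit 308) (nat_lit 245) (nat_lit 227)) (XT.lf (nat_lit 0) (nat_lit 48530929703) (nat_lit 76) (nat_lit 4932743624) (nat_lit 76) (nat_lit 1084829810) (nat_lit 4) (nat_lit 4) (nat_lit 5) (nat_lit 5) (nat_lit 5) (nat_lit 4) (nat_lit 309) (nat_lit 245) (nat_lit 226))) (XT.nd (nat_lit 78) (nat_lit 76) (nat_lit 0) (XT.lf (nat_lit 0) (nat_lit 1627419198) (nat_lit 152) (nat_lit 548845797) (nat_lit 76) (nat_lit 56486970536) (nat_lit 3) (nat_lit 5) (nat_lit 5) (nat_lit 5) (nat_lit 4) (nat_lit 4) (nat_lit 310) (nat_lit 245) (nat_lit 225)) (XT.lf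 (nat_lit 0) (nat_lit 4580068998) (nat_lit 152) (nat_lit 57654428402) (nat_lit 0) (nat_lit 863889413) (nat_lit 2) (nat_lit 5) (nat_lit 4) (nat_lit 4) (nat_lit 2) (nat_lit 4) (nat_lit 311) (nat_lit 245) (nat_lit 224))))) (XT.nd (nat_lit 234) (nat_lit 0) (nat_lit 0) (XT.nd (nat_lit 78) (nat_lit 0) (nat_lit 0) (XT.lf (nat_lit 0) (nat_lit 7770130659) (nat_lit 152) (nat_lit 56132466064) (nat_lit 0) (nat_lit 3985710145) (nat_lit 2) (nat_lit 5) (nat_lit 4) (nat_lit 4) (nat_lit 2) (nat_lit 4) (nat_lit 312) (nat_lit 245) (nat_lit 223)) (XT.nd (nat_lit 78) (nat_lit 0) (nat_lit 0) (XT.lf (nat_lit 0) (nat_lit 11149913291) (nat_lit 152) (nat_lit 54614487985) (nat_lit 0) (nat_lit 7302306731) (nat_lit 2) (nat_lit 5) (nat_lit 4) (nat_lit 4) (nat_lit 2) (nat_lit 4) (nat_lit 313) (nat_lit 245) (nat_lit 222)) (XT.lf (nat_lit 0) (nat_lit 14739445235) (nat_lit 152) (nat_lit 53091498739) (nat_lit 0) (nat_lit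 10833333077) (nat_lit 2) (nat_lit 5) (nat_lit 4) (nat_lit 4) (nat_lit 2) (nat_lit 4) (nat_lit 314) (nat_lit 245) (nat_lit 221)))) (XT.nd (nat_lit 156) (nat_lit 0) (nat_lit 0) (XT.nd (nat_lit 78) (nat_lit 0) (nat_lit 0) (XT.lf (nat_lit 0) (nat_lit 18559997791) (nat_lit 152) (nat_lit 51554473204) (nat_lit 0) (nat_lit 14599713783) (nat_lit 2) (nat_lit 5) (nat_lit 4) (nat_lit 4) (nat_lit 2) (nat_lit 4) (nat_lit 315) (nat_lit 245) (nat_lit 220)) (XT.lf (nat_lit 0) (nat_lit 22634211270) (nat_lit 152) (nat_lit 49994303081) (nat_lit 0) (nat_lit 18623768142) (nat_lit 2) (nat_lit 5) (nat_lit 4) (nat_lit 4) (nat_lit 2) (nat_lit 4) (nat_lit 316) (nat_lit 245) (nat_lit 219))) (XT.nd (nat_lit 78) (nat_lit 0) (nat_lit 0) (XT.lf (nat_lit 0) (nat_lit 26986229161) (nat_lit 152) (nat_lit 48401742916) (nat_lit 0) (nat_lit 22929342403) (nat_lit 2) (nat_lit 5) (nat_lit 4) (nat_lit 4) (nat_lit 2) (nat_lit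 4) (nat_lit 317) (nat_lit 245) (nat_lit 218)) (XT.lf (nat_lit 0) (nat_lit 31641841199) (nat_lit 152) (nat_lit 46767355318) (nat_lit 0) (nat_lit 27541951080) (nat_lit 2) (nat_lit 5) (nat_lit 4) (nat_lit 4) (nat_lit 2) (nat_lit 4) (nat_lit 318) (nat_lit 245) (nat_lit 217)))))) (XT.nd (nat_lit 546) (nat_lit 0) (nat_lit 0) (XT.nd (nat_lit 234) (nat_lit 0) (nat_lit 0) (XT.nd (nat_lit 78) (nat_lit 0) (nat_lit 0) (XT.lf (nat_lit 0) (nat_lit 36628636195) (nat_lit 152) (nat_lit 45081455025) (nat_lit 0) (nat_lit 32488928149) (nat_lit 2) (nat_lit 5) (nat_lit 4) (nat_lit 4) (nat_lit 2) (nat_lit 4) (nat_lit 319) (nat_lit 245) (nat_lit 216)) (XT.nd (nat_lit 78) (nat_lit 0) (nat_lit 0) (XT.lf (nat_lit 0) (nat_lit 41976165528) (nat_lit 152) (nat_lit 43334051517) (nat_lit 0) (nat_lit 37799589031) (nat_lit 2) (nat_lit 5) (nat_lit 4) (nat_lit 4) (nat_lit 2) (nat_lit 4) (nat_lit 320) (nat_lit 245) (nat_lit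 215)) (XT.lf (nat_lit 0) (nat_lit 47716118260) (nat_lit 152) (nat_lit 41514789811) (nat_lit 0) (nat_lit 43505404309) (nat_lit 2) (nat_lit 5) (nat_lit 4) (nat_lit 4) (nat_lit 2) (nat_lit 4) (nat_lit 321) (nat_lit 245) (nat_lit 214)))) (XT.nd (nat_lit 156) (nat_lit 0) (nat_lit 0) (XT.nd (nat_lit 78) (nat_lit 0) (nat_lit 0) (XT.lf (nat_lit 0) (nat_lit 53882508926) (nat_lit 152) (nat_lit 39612889097) (nat_lit 0) (nat_lit 49640186221) (nat_lit 2) (nat_lit 5) (nat_lit 4) (nat_lit 4) (nat_lit 2) (nat_lit 4) (nat_lit 322) (nat_lit 245) (nat_lit 213)) (XT.lf (nat_lit 0) (nat_lit 60511879101) (nat_lit 152) (nat_lit 37617078852) (nat_lit 0) (nat_lit 56240289031) (nat_lit 2) (nat_lit 5) (nat_lit 4) (nat_lit 4) (nat_lit 2) (nat_lit 4) (nat_lit 323) (nat_lit 245) (nat_lit 212))) (XT.nd (nat_lit 78) (nat_lit 0) (nat_lit 0) (XT.lf (nat_lit 0) (nat_lit 67643513940) (nat_lit 152) (nat_lit 35515532052)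 (nat_lit 0) (nat_lit 63344824458) (nat_lit 2) (nat_lit 5) (nat_lit 4) (nat_lit 4) (nat_lit 2) (nat_lit 4) (nat_lit 324) (nat_lit 245) (nat_lit 211)) (XT.lf (nat_lit 0) (nat_lit 75319674984) (nat_lit 152) (nat_lit 33295795086) (nat_lit 0) (nat_lit 70995893454) (nat_lit 2) (nat_lit 5) (nat_lit 4) (nat_lit 4) (nat_lit 2) (nat_lit 4) (nat_lit 325) (nat_lit 245) (nat_lit 210))))) (XT.nd (nat_lit 312) (nat_lit 0) (nat_lit 0) (XT.nd (nat_lit 156) (nat_lit 0) (nat_lit 0) (XT.nd (nat_lit 78) (nat_lit 0) (nat_lit 0) (XT.lf (nat_lit 0) (nat_lit 83585850595) (nat_lit 152) (nat_lit 30944713958) (nat_lit 0) (nat_lit 79238835686) (nat_lit 2) (nat_lit 5) (nat_lit 4) (nat_lit 4) (nat_lit 2) (nat_lit 4) (nat_lit 326) (nat_lit 245) (nat_lit 209)) (XT.lf (nat_lit 0) (nat_lit 92491025516) (nat_lit 152) (nat_lit 28448356335) (nat_lit 0) (nat_lit 88122498221) (nat_lit 2) (nat_lit 5) (nat_lit 4) (nat_lit 4)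 (nat_lit 2) (nat_lit 4) (nat_lit 327) (nat_lit 245) (nat_lit 208))) (XT.nd (nat_lit 78) (nat_lit 0) (nat_lit 0) (XT.lf (nat_lit 0) (nat_lit 102087971155) (nat_lit 152) (nat_lit 25791928987) (nat_lit 0) (nat_lit 97699524983) (nat_lit 2) (nat_lit 5) (nat_lit 4) (nat_lit 4) (nat_lit 2) (nat_lit 4) (nat_lit 328) (nat_lit 245) (nat_lit 207)) (XT.lf (nat_lit 0) (nat_lit 112433558300) (nat_lit 152) (nat_lit 22959690122) (nat_lit 0) (nat_lit 108026668724) (nat_lit 2) (nat_lit 5) (nat_lit 4) (nat_lit 4) (nat_lit 2) (nat_lit 4) (nat_lit 329) (nat_lit 245) (nat_lit 206)))) (XT.nd (nat_lit 156) (nat_lit 0) (nat_lit 0) (XT.nd (nat_lit 78) (nat_lit 0) (nat_lit 0) (XT.lf (nat_lit 0) (nat_lit 123589094136) (nat_lit 152) (nat_lit 19934856103) (nat_lit 0) (nat_lit 119165127333) (nat_lit 2) (nat_lit 5) (nat_lit 4) (nat_lit 4) (nat_lit 2) (nat_lit 4) (nat_lit 330) (nat_lit 245) (nat_lit 205)) (XT.lf (nat_lit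 0) (nat_lit 135620685540) (nat_lit 152) (nat_lit 16699501986) (nat_lit 0) (nat_lit 131180906490) (nat_lit 2) (nat_lit 5) (nat_lit 4) (nat_lit 4) (nat_lit 2) (nat_lit 4) (nat_lit 331) (nat_lit 245) (nat_lit 204))) (XT.nd (nat_lit 78) (nat_lit 0) (nat_lit 0) (XT.lf (nat_lit 0) (nat_lit 148599630832) (nat_lit 152) (nat_lit 13234455303) (nat_lit 0) (nat_lit 144145210814) (nat_lit 2) (nat_lit 5) (nat_lit 4) (nat_lit 4) (nat_lit 2) (nat_lit 4) (nat_lit 332) (nat_lit 245) (nat_lit 203)) (XT.lf (nat_lit 0) (nat_lit 162602842281) (nat_lit 152) (nat_lit 9519182445) (nat_lit 0) (nat_lit 158134865810) (nat_lit 2) (nat_lit 5) (nat_lit 4) (nat_lit 4) (nat_lit 2) (nat_lit 4) (nat_lit 333) (nat_lit 245) (nat_lit 202))))))) (XT.nd (nat_lit 1170) (nat_lit 0) (nat_lit 0) (XT.nd (nat_lit 546) (nat_lit 0) (nat_lit 0) (XT.nd (nat_lit 234) (nat_lit 0) (nat_lit 0) (XT.nd (nat_lit 78) (nat_lit 76) (nat_lit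 0) (XT.lf (nat_lit 0) (nat_lit 177713301880) (nat_lit 152) (nat_lit 5531666978) (nat_lit 0) (nat_lit 173232773138) (nat_lit 2) (nat_lit 5) (nat_lit 4) (nat_lit 4) (nat_lit 2) (nat_lit 4) (nat_lit 334) (nat_lit 245) (nat_lit 201)) (XT.nd (nat_lit 78) (nat_lit 76) (nat_lit 0) (XT.lf (nat_lit 0) (nat_lit 194020553094) (nat_lit 152) (nat_lit 1248279183) (nat_lit 0) (nat_lit 189528401879) (nat_lit 2) (nat_lit 5) (nat_lit 4) (nat_lit 4) (nat_lit 2) (nat_lit 4) (nat_lit 335) (nat_lit 245) (nat_lit 200)) (XT.lf (nat_lit 0) (nat_lit 3533104157) (nat_lit 76) (nat_lit 208173098568) (nat_lit 76) (nat_lit 203670185803) (nat_lit 1) (nat_lit 4) (nat_lit 2) (nat_lit 5) (nat_lit 2) (nat_lit 4) (nat_lit 336) (nat_lit 245) (nat_lit 199)))) (XT.nd (nat_lit 156) (nat_lit 0) (nat_lit 0) (XT.nd (nat_lit 78) (nat_lit 0) (nat_lit 0) (XT.lf (nat_lit 0) (nat_lit 8747115422) (nat_lit 76) (nat_lit 222082890285)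 (nat_lit 76) (nat_lit 217570013122) (nat_lit 1) (nat_lit 4) (nat_lit 2) (nat_lit 5) (nat_lit 2) (nat_lit 4) (nat_lit 337) (nat_lit 245) (nat_lit 198)) (XT.lf (nat_lit 0) (nat_lit 14358920285) (nat_lit 76) (nat_lit 237114765989) (nat_lit 76) (nat_lit 232592662532) (nat_lit 1) (nat_lit 4) (nat_lit 2) (nat_lit 5) (nat_lit 2) (nat_lit 4) (nat_lit 338) (nat_lit 245) (nat_lit 197))) (XT.nd (nat_lit 78) (nat_lit 0) (nat_lit 0) (XT.lf (nat_lit 0) (nat_lit 20401773886) (nat_lit 76) (nat_lit 253357803462) (nat_lit 76) (nat_lit 248827157141) (nat_lit 1) (nat_lit 4) (nat_lit 2) (nat_lit 5) (nat_lit 2) (nat_lit 4) (nat_lit 339) (nat_lit 245) (nat_lit 196)) (XT.lf (nat_lit 0) (nat_lit 26911485728) (nat_lit 76) (nat_lit 270908257742) (nat_lit 76) (nat_lit 266369701360) (nat_lit 1) (nat_lit 4) (nat_lit 2) (nat_lit 5) (nat_lit 2) (nat_lit 4) (nat_lit 340) (nat_lit 245) (nat_lit 195))))) (XT.nd (nat_lit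 312) (nat_lit 0) (nat_lit 0) (XT.nd (nat_lit 156) (nat_lit 0) (nat_lit 0) (XT.nd (nat_lit 78) (nat_lit 0) (nat_lit 0) (XT.lf (nat_lit 0) (nat_lit 33926631880) (nat_lit 76) (nat_lit 289870131520) (nat_lit 76) (nat_lit 285324251009) (nat_lit 1) (nat_lit 4) (nat_lit 2) (nat_lit 5) (nat_lit 2) (nat_lit 4) (nat_lit 341) (nat_lit 245) (nat_lit 194)) (XT.lf (nat_lit 0) (nat_lit 41488783580) (nat_lit 76) (nat_lit 310355791456) (nat_lit 76) (nat_lit 305803129343) (nat_lit 1) (nat_lit 4) (nat_lit 2) (nat_lit 5) (nat_lit 2) (nat_lit 4) (nat_lit 342) (nat_lit 245) (nat_lit 193))) (XT.nd (nat_lit 78) (nat_lit 0) (nat_lit 0) (XT.lf (nat_lit 0) (nat_lit 49642753579) (nat_lit 76) (nat_lit 332486634052) (nat_lit 76) (nat_lit 327927692679) (nat_lit 1) (nat_lit 4) (nat_lit 2) (nat_lit 5) (nat_lit 2) (nat_lit 4) (nat_lit 343) (nat_lit 245) (nat_lit 192)) (XT.lf (nat_lit 0) (nat_lit 58436861697) (nat_lit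 76) (nat_lit 356393805044) (nat_lit 76) (nat_lit 351829049540) (nat_lit 1) (nat_lit 4) (nat_lit 2) (nat_lit 5) (nat_lit 2) (nat_lit 4) (nat_lit 344) (nat_lit 245) (nat_lit 191)))) (XT.nd (nat_lit 156) (nat_lit 0) (nat_lit 0) (XT.nd (nat_lit 78) (nat_lit 0) (nat_lit 0) (XT.lf (nat_lit 0) (nat_lit 67923221170) (nat_lit 76) (nat_lit 382218976555) (nat_lit 76) (nat_lit 377648837597) (nat_lit 1) (nat_lit 4) (nat_lit 2) (nat_lit 5) (nat_lit 2) (nat_lit 4) (nat_lit 345) (nat_lit 245) (nat_lit 190)) (XT.lf (nat_lit 0) (nat_lit 78158047459) (nat_lit 76) (nat_lit 410115186638) (nat_lit 76) (nat_lit 405540063001) (nat_lit 1) (nat_lit 4) (nat_lit 2) (nat_lit 5) (nat_lit 2) (nat_lit 4) (nat_lit 346) (nat_lit 245) (nat_lit 189))) (XT.nd (nat_lit 78) (nat_lit 0) (nat_lit 0) (XT.lf (nat_lit 0) (nat_lit 89201991389) (nat_lit 76) (nat_lit 440247746169) (nat_lit 76) (nat_lit 435668007088) (nat_lit 1)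 (nat_lit 4) (nat_lit 2) (nat_lit 5) (nat_lit 2) (nat_lit 4) (nat_lit 347) (nat_lit 245) (nat_lit 188)) (XT.lf (nat_lit 0) (nat_lit 101120498551) (nat_lit 76) (nat_lit 472795218463) (nat_lit 76) (nat_lit 468211205822) (nat_lit 1) (nat_lit 4) (nat_lit 2) (nat_lit 5) (nat_lit 2) (nat_lit 4) (nat_lit 348) (nat_lit 245) (nat_lit 187)))))) (XT.nd (nat_lit 546) (nat_lit 0) (nat_lit 0) (XT.nd (nat_lit 234) (nat_lit 0) (nat_lit 0) (XT.nd (nat_lit 78) (nat_lit 0) (nat_lit 0) (XT.lf (nat_lit 0) (nat_lit 113984197138) (nat_lit 76) (nat_lit 507950477429) (nat_lit 76) (nat_lit 503362507790) (nat_lit 1) (nat_lit 4) (nat_lit 2) (nat_lit 5) (nat_lit 2) (nat_lit 4) (nat_lit 349) (nat_lit 245) (nat_lit 186)) (XT.nd (nat_lit 78) (nat_lit 0) (nat_lit 0) (XT.lf (nat_lit 0) (nat_lit 127869316474) (nat_lit 76) (nat_lit 545921850530) (nat_lit 76) (nat_lit 541330217001) (nat_lit 1) (nat_lit 4) (nat_lit 2) (nat_lit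 5) (nat_lit 2) (nat_lit 4) (nat_lit 350) (nat_lit 245) (nat_lit 185)) (XT.lf (nat_lit 0) (nat_lit 142858138747) (nat_lit 76) (nat_lit 586934353308) (nat_lit 76) (nat_lit 582339327290) (nat_lit 1) (nat_lit 4) (nat_lit 2) (nat_lit 5) (nat_lit 2) (nat_lit 4) (nat_lit 351) (nat_lit 245) (nat_lit 184)))) (XT.nd (nat_lit 156) (nat_lit 0) (nat_lit 0) (XT.nd (nat_lit 78) (nat_lit 0) (nat_lit 0) (XT.lf (nat_lit 0) (nat_lit 159039486608) (nat_lit 76) (nat_lit 631231022817) (nat_lit 76) (nat_lit 626632855606) (nat_lit 1) (nat_lit 4) (nat_lit 2) (nat_lit 5) (nat_lit 2) (nat_lit 4) (nat_lit 352) (nat_lit 245) (nat_lit 183)) (XT.lf (nat_lit 0) (nat_lit 176509249527) (nat_lit 76) (nat_lit 679074357839) (nat_lit 76) (nat_lit 674473282116) (nat_lit 1) (nat_lit 4) (nat_lit 2) (nat_lit 5) (nat_lit 2) (nat_lit 4) (nat_lit 353) (nat_lit 245) (nat_lit 182))) (XT.nd (nat_lit 78) (nat_lit 0) (nat_lit 0) (XT.lf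 (nat_lit 0) (nat_lit 195370952023) (nat_lit 76) (nat_lit 730747874435) (nat_lit 76) (nat_lit 726144105644) (nat_lit 1) (nat_lit 4) (nat_lit 2) (nat_lit 5) (nat_lit 2) (nat_lit 4) (nat_lit 354) (nat_lit 245) (nat_lit 181)) (XT.lf (nat_lit 0) (nat_lit 215736367148) (nat_lit 76) (nat_lit 786557786035) (nat_lit 76) (nat_lit 781951523663) (nat_lit 1) (nat_lit 4) (nat_lit 2) (nat_lit 5) (nat_lit 2) (nat_lit 4) (nat_lit 355) (nat_lit 245) (nat_lit 180))))) (XT.nd (nat_lit 312) (nat_lit 0) (nat_lit 0) (XT.nd (nat_lit 156) (nat_lit 0) (nat_lit 0) (XT.nd (nat_lit 78) (nat_lit 0) (nat_lit 0) (XT.lf (nat_lit 0) (nat_lit 237726178846) (nat_lit 76) (nat_lit 846834818042) (nat_lit 76) (nat_lit 842226246799) (nat_lit 1) (nat_lit 4) (nat_lit 2) (nat_lit 5) (nat_lit 2) (nat_lit 4) (nat_lit 356) (nat_lit 245) (nat_lit 179)) (XT.lf (nat_lit 0) (nat_lit 261470697109) (nat_lit 76) (nat_lit 911936167682)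 (nat_lit 76) (nat_lit 907325458595) (nat_lit 1) (nat_lit 4) (nat_lit 2) (nat_lit 5) (nat_lit 2) (nat_lit 4) (nat_lit 357) (nat_lit 245) (nat_lit 178))) (XT.nd (nat_lit 78) (nat_lit 0) (nat_lit 0) (XT.lf (nat_lit 0) (nat_lit 287110630195) (nat_lit 76) (nat_lit 982247620731) (nat_lit 76) (nat_lit 977634932160) (nat_lit 1) (nat_lit 4) (nat_lit 2) (nat_lit 5) (nat_lit 2) (nat_lit 4) (nat_lit 358) (nat_lit 245) (nat_lit 177)) (XT.lf (nat_lit 0) (nat_lit 314797918449) (nat_lit 76) (nat_lit 1058185837652) (nat_lit 76) (nat_lit 1053571316224) (nat_lit 1) (nat_lit 4) (nat_lit 2) (nat_lit 5) (nat_lit 2) (nat_lit 4) (nat_lit 359) (nat_lit 245) (nat_lit 176)))) (XT.nd (nat_lit 156) (nat_lit 0) (nat_lit 0) (XT.nd (nat_lit 78) (nat_lit 0) (nat_lit 0) (XT.lf (nat_lit 0) (nat_lit 344696634688) (nat_lit 76) (nat_lit 1140200822692) (nat_lit 76) (nat_lit 1135584604176) (nat_lit 1) (nat_lit 4) (nat_lit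 2) (nat_lit 5) (nat_lit 2) (nat_lit 4) (nat_lit 360) (nat_lit 245) (nat_lit 175)) (XT.lf (nat_lit 0) (nat_lit 376983956492) (nat_lit 76) (nat_lit 1228778590579) (nat_lit 76) (nat_lit 1224160800683) (nat_lit 1) (nat_lit 4) (nat_lit 2) (nat_lit 5) (nat_lit 2) (nat_lit 4) (nat_lit 361) (nat_lit 245) (nat_lit 174))) (XT.nd (nat_lit 78) (nat_lit 0) (nat_lit 0) (XT.lf (nat_lit 0) (nat_lit 411851216137) (nat_lit 76) (nat_lit 1324444046603) (nat_lit 76) (nat_lit 1319824801727) (nat_lit 1) (nat_lit 4) (nat_lit 2) (nat_lit 5) (nat_lit 2) (nat_lit 4) (nat_lit 362) (nat_lit 245) (nat_lit 173)) (XT.lf (nat_lit 0) (nat_lit 449505034422) (nat_lit 76) (nat_lit 1427764097171) (nat_lit 76) (nat_lit 1423143505090) (nat_lit 1) (nat_lit 4) (nat_lit 2) (nat_lit 5) (nat_lit 2) (nat_lit 4) (nat_lit 363) (nat_lit 245) (nat_lit 172))))))))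
noncomputable def xc27 : XT := (XT.nd (nat_lit 36660) (nat_lit 0) (nat_lit 0) (XT.nd (nat_lit 35490) (nat_lit 0) (nat_lit 76) (XT.nd (nat_lit 34944) (nat_lit 0) (nat_lit 456) (XT.nd (nat_lit 234) (nat_lit 0) (nat_lit 0) (XT.nd (nat_lit 78) (nat_lit 0) (nat_lit 0) (XT.lf (nat_lit 0) (nat_lit 490168545083) (nat_lit 76) (nat_lit 1539351009248) (nat_lit 76) (nat_lit 1534729169756) (nat_lit 1) (nat_lit 4) (nat_lit 2) (nat_lit 5) (nat_lit 2) (nat_lit 4) (nat_lit 364) (nat_lit 245) (nat_lit 171)) (XT.nd (nat_lit 78) (nat_lit 0) (nat_lit 0) (XT.lf (nat_lit 0) (nat_lit 534082717074) (nat_lit 76) (nat_lit 1659866038610) (nat_lit 76) (nat_lit 1655243044108) (nat_lit 1) (nat_lit 4) (nat_lit 2) (nat_lit 5) (nat_lit 2) (nat_lit 4) (nat_lit 365) (nat_lit 245) (nat_lit 170)) (XT.lf (nat_lit 0) (nat_lit 581507782525) (nat_lit 76) (nat_lit 1790023348394) (nat_lit 76) (nat_lit 1785399284438) (nat_lit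 1) (nat_lit 4) (nat_lit 2) (nat_lit 5) (nat_lit 2) (nat_lit 4) (nat_lit 366) (nat_lit 245) (nat_lit 169)))) (XT.nd (nat_lit 34554) (nat_lit 0) (nat_lit 760) (XT.nd (nat_lit 34476) (nat_lit 0) (nat_lit 912) (XT.lf (nat_lit 0) (nat_lit 632724778860) (nat_lit 76) (nat_lit 1930594241176) (nat_lit 76) (nat_lit 1925969186985) (nat_lit 1) (nat_lit 4) (nat_lit 2) (nat_lit 5) (nat_lit 2) (nat_lit 4) (nat_lit 367) (nat_lit 245) (nat_lit 168)) (XT.lf (nat_lit 0) (nat_lit 5568764054) (nat_lit 152) (nat_lit 767645327) (nat_lit 152) (nat_lit 767645327) (nat_lit 13) (nat_lit 4) (nat_lit 15) (nat_lit 5) (nat_lit 15) (nat_lit 4) (nat_lit 288) (nat_lit 246) (nat_lit 246))) (XT.nd (nat_lit 78) (nat_lit 0) (nat_lit 0) (XT.lf (nat_lit 0) (nat_lit 2619920194) (nat_lit 152) (nat_lit 10192619513) (nat_lit 0) (nat_lit 2152573882) (nat_lit 11) (nat_lit 5) (nat_lit 13) (nat_lit 4) (nat_lit 11) (nat_lit 4) (nat_lit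 289) (nat_lit 246) (nat_lit 245)) (XT.lf (nat_lit 0) (nat_lit 6915319535) (nat_lit 152) (nat_lit 2857999752) (nat_lit 0) (nat_lit 6015245156) (nat_lit 11) (nat_lit 5) (nat_lit 13) (nat_lit 4) (nat_lit 11) (nat_lit 4) (nat_lit 290) (nat_lit 246) (nat_lit 244))))) (XT.nd (nat_lit 234) (nat_lit 76) (nat_lit 0) (XT.nd (nat_lit 78) (nat_lit 152) (nat_lit 0) (XT.lf (nat_lit 0) (nat_lit 4922850281) (nat_lit 76) (nat_lit 6532028293) (nat_lit 76) (nat_lit 5231279777) (nat_lit 10) (nat_lit 4) (nat_lit 11) (nat_lit 5) (nat_lit 11) (nat_lit 4) (nat_lit 291) (nat_lit 246) (nat_lit 243)) (XT.nd (nat_lit 78) (nat_lit 152) (nat_lit 0) (XT.lf (nat_lit 0) (nat_lit 13111697490) (nat_lit 76) (nat_lit 3113251949) (nat_lit 76) (nat_lit 1441508863) (nat_lit 10) (nat_lit 4) (nat_lit 11) (nat_lit 5) (nat_lit 11) (nat_lit 4) (nat_lit 292) (nat_lit 246) (nat_lit 242)) (XT.lf (nat_lit 0) (nat_lit 2402958232) (nat_lit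 152) (nat_lit 15789656135) (nat_lit 0) (nat_lit 536979919) (nat_lit 8) (nat_lit 5) (nat_lit 10) (nat_lit 4) (nat_lit 8) (nat_lit 4) (nat_lit 293) (nat_lit 246) (nat_lit 241)))) (XT.nd (nat_lit 156) (nat_lit 76) (nat_lit 0) (XT.nd (nat_lit 78) (nat_lit 0) (nat_lit 0) (XT.lf (nat_lit 0) (nat_lit 6487882321) (nat_lit 152) (nat_lit 9058871918) (nat_lit 0) (nat_lit 4327396557) (nat_lit 8) (nat_lit 5) (nat_lit 10) (nat_lit 4) (nat_lit 8) (nat_lit 4) (nat_lit 294) (nat_lit 246) (nat_lit 240)) (XT.lf (nat_lit 0) (nat_lit 10716401215) (nat_lit 152) (nat_lit 2125513616) (nat_lit 0) (nat_lit 8283223366) (nat_lit 8) (nat_lit 5) (nat_lit 10) (nat_lit 4) (nat_lit 8) (nat_lit 4) (nat_lit 295) (nat_lit 246) (nat_lit 239))) (XT.nd (nat_lit 78) (nat_lit 0) (nat_lit 0) (XT.lf (nat_lit 0) (nat_lit 5317508656) (nat_lit 76) (nat_lit 9923950356) (nat_lit 76) (nat_lit 7238279837) (nat_lit 7) (nat_lit 4) (nat_lit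 8) (nat_lit 5) (nat_lit 8) (nat_lit 4) (nat_lit 296) (nat_lit 246) (nat_lit 238)) (XT.lf (nat_lit 0) (nat_lit 13173718161) (nat_lit 76) (nat_lit 6848564472) (nat_lit 76) (nat_lit 3929104442) (nat_lit 7) (nat_lit 4) (nat_lit 8) (nat_lit 5) (nat_lit 8) (nat_lit 4) (nat_lit 297) (nat_lit 246) (nat_lit 237)))))) (XT.nd (nat_lit 546) (nat_lit 152) (nat_lit 0) (XT.nd (nat_lit 234) (nat_lit 76) (nat_lit 0) (XT.nd (nat_lit 78) (nat_lit 152) (nat_lit 0) (XT.lf (nat_lit 0) (nat_lit 21377744434) (nat_lit 76) (nat_lit 3655647978) (nat_lit 76) (nat_lit 519716179) (nat_lit 7) (nat_lit 4) (nat_lit 8) (nat_lit 5) (nat_lit 8) (nat_lit 4) (nat_lit 298) (nat_lit 246) (nat_lit 236)) (XT.nd (nat_lit 78) (nat_lit 0) (nat_lit 0) (XT.lf (nat_lit 0) (nat_lit 2748928685) (nat_lit 76) (nat_lit 176695019) (nat_lit 152) (nat_lit 24357691016) (nat_lit 5) (nat_lit 5) (nat_lit 6) (nat_lit 5) (nat_lit 7) (nat_lit 4)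 (nat_lit 299) (nat_lit 246) (nat_lit 235)) (XT.lf (nat_lit 0) (nat_lit 6678583424) (nat_lit 152) (nat_lit 19050089983) (nat_lit 0) (nat_lit 3417510950) (nat_lit 5) (nat_lit 5) (nat_lit 7) (nat_lit 4) (nat_lit 5) (nat_lit 4) (nat_lit 300) (nat_lit 246) (nat_lit 234)))) (XT.nd (nat_lit 156) (nat_lit 76) (nat_lit 0) (XT.nd (nat_lit 78) (nat_lit 0) (nat_lit 0) (XT.lf (nat_lit 0) (nat_lit 10603805348) (nat_lit 152) (nat_lit 13381019310) (nat_lit 0) (nat_lit 7183619662) (nat_lit 5) (nat_lit 5) (nat_lit 7) (nat_lit 4) (nat_lit 5) (nat_lit 4) (nat_lit 301) (nat_lit 246) (nat_lit 233)) (XT.lf (nat_lit 0) (nat_lit 14720300532) (nat_lit 152) (nat_lit 7489330002) (nat_lit 0) (nat_lit 11152787797) (nat_lit 5) (nat_lit 5) (nat_lit 7) (nat_lit 4) (nat_lit 5) (nat_lit 4) (nat_lit 302) (nat_lit 246) (nat_lit 232))) (XT.nd (nat_lit 78) (nat_lit 76) (nat_lit 0) (XT.lf (nat_lit 0) (nat_lit 19052463021)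 (nat_lit 152) (nat_lit 1340108347) (nat_lit 0) (nat_lit 15348536353) (nat_lit 5) (nat_lit 5) (nat_lit 7) (nat_lit 4) (nat_lit 5) (nat_lit 4) (nat_lit 303) (nat_lit 246) (nat_lit 231)) (XT.lf (nat_lit 0) (nat_lit 5371804925) (nat_lit 76) (nat_lit 18383352003) (nat_lit 76) (nat_lit 14553116137) (nat_lit 4) (nat_lit 4) (nat_lit 5) (nat_lit 5) (nat_lit 5) (nat_lit 4) (nat_lit 304) (nat_lit 246) (nat_lit 230))))) (XT.nd (nat_lit 312) (nat_lit 152) (nat_lit 0) (XT.nd (nat_lit 156) (nat_lit 0) (nat_lit 0) (XT.nd (nat_lit 78) (nat_lit 0) (nat_lit 0) (XT.lf (nat_lit 0) (nat_lit 12503930643) (nat_lit 76) (nat_lit 16264697561) (nat_lit 76) (nat_lit 12317508735) (nat_lit 4) (nat_lit 4) (nat_lit 5) (nat_lit 5) (nat_lit 5) (nat_lit 4) (nat_lit 305) (nat_lit 246) (nat_lit 229)) (XT.lf (nat_lit 0) (nat_lit 20027965525) (nat_lit 76) (nat_lit 14060693993) (nat_lit 76) (nat_lit 10005215388) (nat_lit 4)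 (nat_lit 4) (nat_lit 5) (nat_lit 5) (nat_lit 5) (nat_lit 4) (nat_lit 306) (nat_lit 246) (nat_lit 228))) (XT.nd (nat_lit 78) (nat_lit 0) (nat_lit 0) (XT.lf (nat_lit 0) (nat_lit 27988496442) (nat_lit 76) (nat_lit 11758280537) (nat_lit 76) (nat_lit 7602533618) (nat_lit 4) (nat_lit 4) (nat_lit 5) (nat_lit 5) (nat_lit 5) (nat_lit 4) (nat_lit 307) (nat_lit 246) (nat_lit 227)) (XT.lf (nat_lit 0) (nat_lit 36432696912) (nat_lit 76) (nat_lit 9343813260) (nat_lit 76) (nat_lit 5095225310) (nat_lit 4) (nat_lit 4) (nat_lit 5) (nat_lit 5) (nat_lit 5) (nat_lit 4) (nat_lit 308) (nat_lit 246) (nat_lit 226)))) (XT.nd (nat_lit 156) (nat_lit 76) (nat_lit 0) (XT.nd (nat_lit 78) (nat_lit 76) (nat_lit 0) (XT.lf (nat_lit 0) (nat_lit 45410606641) (nat_lit 76) (nat_lit 6802984209) (nat_lit 76) (nat_lit 2468432341) (nat_lit 4) (nat_lit 4) (nat_lit 5) (nat_lit 5) (nat_lit 5) (nat_lit 4) (nat_lit 309) (nat_lit 246)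 (nat_lit 225)) (XT.lf (nat_lit 0) (nat_lit 278733839) (nat_lit 152) (nat_lit 3834381702) (nat_lit 76) (nat_lit 54689073142) (nat_lit 3) (nat_lit 5) (nat_lit 5) (nat_lit 5) (nat_lit 4) (nat_lit 4) (nat_lit 310) (nat_lit 246) (nat_lit 224))) (XT.nd (nat_lit 78) (nat_lit 0) (nat_lit 0) (XT.lf (nat_lit 0) (nat_lit 1945708585) (nat_lit 76) (nat_lit 1147347605) (nat_lit 152) (nat_lit 60155375288) (nat_lit 2) (nat_lit 5) (nat_lit 3) (nat_lit 5) (nat_lit 4) (nat_lit 4) (nat_lit 311) (nat_lit 246) (nat_lit 223)) (XT.lf (nat_lit 0) (nat_lit 6224041440) (nat_lit 152) (nat_lit 59813619340) (nat_lit 0) (nat_lit 2005440309) (nat_lit 2) (nat_lit 5) (nat_lit 4) (nat_lit 4) (nat_lit 2) (nat_lit 4) (nat_lit 312) (nat_lit 246) (nat_lit 222))))))) (XT.nd (nat_lit 1170) (nat_lit 76) (nat_lit 0) (XT.nd (nat_lit 546) (nat_lit 0) (nat_lit 0) (XT.nd (nat_lit 234) (nat_lit 0) (nat_lit 0) (XT.nd (nat_lit 78)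 (nat_lit 0) (nat_lit 0) (XT.lf (nat_lit 0) (nat_lit 9574673447) (nat_lit 152) (nat_lit 58351615819) (nat_lit 0) (nat_lit 5297566719) (nat_lit 2) (nat_lit 5) (nat_lit 4) (nat_lit 4) (nat_lit 2) (nat_lit 4) (nat_lit 313) (nat_lit 246) (nat_lit 221)) (XT.nd (nat_lit 78) (nat_lit 0) (nat_lit 0) (XT.lf (nat_lit 0) (nat_lit 13137214072) (nat_lit 152) (nat_lit 56880454866) (nat_lit 0) (nat_lit 8805935494) (nat_lit 2) (nat_lit 5) (nat_lit 4) (nat_lit 4) (nat_lit 2) (nat_lit 4) (nat_lit 314) (nat_lit 246) (nat_lit 220)) (XT.lf (nat_lit 0) (nat_lit 16932774666) (nat_lit 152) (nat_lit 55391418492) (nat_lit 0) (nat_lit 12551336968) (nat_lit 2) (nat_lit 5) (nat_lit 4) (nat_lit 4) (nat_lit 2) (nat_lit 4) (nat_lit 315) (nat_lit 246) (nat_lit 219)))) (XT.nd (nat_lit 156) (nat_lit 0) (nat_lit 0) (XT.nd (nat_lit 78) (nat_lit 0) (nat_lit 0) (XT.lf (nat_lit 0) (nat_lit 20983847441) (nat_lit 152) (nat_lit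 53875682777) (nat_lit 0) (nat_lit 16555966112) (nat_lit 2) (nat_lit 5) (nat_lit 4) (nat_lit 4) (nat_lit 2) (nat_lit 4) (nat_lit 316) (nat_lit 246) (nat_lit 218)) (XT.lf (nat_lit 0) (nat_lit 25314438752) (nat_lit 152) (nat_lit 52324265583) (nat_lit 0) (nat_lit 20843554063) (nat_lit 2) (nat_lit 5) (nat_lit 4) (nat_lit 4) (nat_lit 2) (nat_lit 4) (nat_lit 317) (nat_lit 246) (nat_lit 217))) (XT.nd (nat_lit 78) (nat_lit 0) (nat_lit 0) (XT.lf (nat_lit 0) (nat_lit 29950211365) (nat_lit 152) (nat_lit 50727973327) (nat_lit 0) (nat_lit 25439508748) (nat_lit 2) (nat_lit 5) (nat_lit 4) (nat_lit 4) (nat_lit 2) (nat_lit 4) (nat_lit 318) (nat_lit 246) (nat_lit 216)) (XT.lf (nat_lit 0) (nat_lit 34918636523) (nat_lit 152) (nat_lit 49077346500) (nat_lit 0) (nat_lit 30371065456) (nat_lit 2) (nat_lit 5) (nat_lit 4) (nat_lit 4) (nat_lit 2) (nat_lit 4) (nat_lit 319) (nat_lit 246) (nat_lit 215))))) (XT.nd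 (nat_lit 312) (nat_lit 0) (nat_lit 0) (XT.nd (nat_lit 156) (nat_lit 0) (nat_lit 0) (XT.nd (nat_lit 78) (nat_lit 0) (nat_lit 0) (XT.lf (nat_lit 0) (nat_lit 40249156747) (nat_lit 152) (nat_lit 47362603609) (nat_lit 0) (nat_lit 35667448225) (nat_lit 2) (nat_lit 5) (nat_lit 4) (nat_lit 4) (nat_lit 2) (nat_lit 4) (nat_lit 320) (nat_lit 246) (nat_lit 214)) (XT.lf (nat_lit 0) (nat_lit 45973360304) (nat_lit 152) (nat_lit 45573583215) (nat_lit 0) (nat_lit 41360043028) (nat_lit 2) (nat_lit 5) (nat_lit 4) (nat_lit 4) (nat_lit 2) (nat_lit 4) (nat_lit 321) (nat_lit 246) (nat_lit 213))) (XT.nd (nat_lit 78) (nat_lit 0) (nat_lit 0) (XT.lf (nat_lit 0) (nat_lit 52125168400) (nat_lit 152) (nat_lit 43699683715) (nat_lit 0) (nat_lit 47482583759) (nat_lit 2) (nat_lit 5) (nat_lit 4) (nat_lit 4) (nat_lit 2) (nat_lit 4) (nat_lit 322) (nat_lit 246) (nat_lit 212)) (XT.lf (nat_lit 0) (nat_lit 58741036195) (nat_lit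 152) (nat_lit 41729800520) (nat_lit 0) (nat_lit 54071352142) (nat_lit 2) (nat_lit 5) (nat_lit 4) (nat_lit 4) (nat_lit 2) (nat_lit 4) (nat_lit 323) (nat_lit 246) (nat_lit 211)))) (XT.nd (nat_lit 156) (nat_lit 0) (nat_lit 0) (XT.nd (nat_lit 78) (nat_lit 0) (nat_lit 0) (XT.lf (nat_lit 0) (nat_lit 65860168831) (nat_lit 152) (nat_lit 39652260248) (nat_lit 0) (nat_lit 61165392730) (nat_lit 2) (nat_lit 5) (nat_lit 4) (nat_lit 4) (nat_lit 2) (nat_lit 4) (nat_lit 324) (nat_lit 246) (nat_lit 210)) (XT.lf (nat_lit 0) (nat_lit 73524753761) (nat_lit 152) (nat_lit 37454751549) (nat_lit 0) (nat_lit 68806744282) (nat_lit 2) (nat_lit 5) (nat_lit 4) (nat_lit 4) (nat_lit 2) (nat_lit 4) (nat_lit 325) (nat_lit 246) (nat_lit 209))) (XT.nd (nat_lit 78) (nat_lit 0) (nat_lit 0) (XT.lf (nat_lit 0) (nat_lit 81780210748) (nat_lit 152) (nat_lit 35124252150) (nat_lit 0) (nat_lit 77040688882) (nat_lit 2) (nat_lit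 5) (nat_lit 4) (nat_lit 4) (nat_lit 2) (nat_lit 4) (nat_lit 326) (nat_lit 246) (nat_lit 208)) (XT.lf (nat_lit 0) (nat_lit 90675461017) (nat_lit 152) (nat_lit 32646951683) (nat_lit 0) (nat_lit 85916020274) (nat_lit 2) (nat_lit 5) (nat_lit 4) (nat_lit 4) (nat_lit 2) (nat_lit 4) (nat_lit 327) (nat_lit 246) (nat_lit 207)))))) (XT.nd (nat_lit 546) (nat_lit 76) (nat_lit 0) (XT.nd (nat_lit 234) (nat_lit 0) (nat_lit 0) (XT.nd (nat_lit 78) (nat_lit 0) (nat_lit 0) (XT.lf (nat_lit 0) (nat_lit 100263217163) (nat_lit 152) (nat_lit 30008169850) (nat_lit 0) (nat_lit 95485333016) (nat_lit 2) (nat_lit 5) (nat_lit 4) (nat_lit 4) (nat_lit 2) (nat_lit 4) (nat_lit 328) (nat_lit 246) (nat_lit 206)) (XT.nd (nat_lit 78) (nat_lit 0) (nat_lit 0) (XT.lf (nat_lit 0) (nat_lit 110600295519) (nat_lit 152) (nat_lit 27192269425) (nat_lit 0) (nat_lit 105805334146) (nat_lit 2) (nat_lit 5) (nat_lit 4) (nat_lit 4) (nat_lit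 2) (nat_lit 4) (nat_lit 329) (nat_lit 246) (nat_lit 205)) (XT.lf (nat_lit 0) (nat_lit 121747952846) (nat_lit 152) (nat_lit 24182563590) (nat_lit 0) (nat_lit 116937179226) (nat_lit 2) (nat_lit 5) (nat_lit 4) (nat_lit 4) (nat_lit 2) (nat_lit 4) (nat_lit 330) (nat_lit 246) (nat_lit 204)))) (XT.nd (nat_lit 156) (nat_lit 0) (nat_lit 0) (XT.nd (nat_lit 78) (nat_lit 0) (nat_lit 0) (XT.lf (nat_lit 0) (nat_lit 133772249335) (nat_lit 152) (nat_lit 20961217051) (nat_lit 0) (nat_lit 128946834746) (nat_lit 2) (nat_lit 5) (nat_lit 4) (nat_lit 4) (nat_lit 2) (nat_lit 4) (nat_lit 331) (nat_lit 246) (nat_lit 203)) (XT.lf (nat_lit 0) (nat_lit 146744440076) (nat_lit 152) (nat_lit 17509140349) (nat_lit 0) (nat_lit 141905469034) (nat_lit 2) (nat_lit 5) (nat_lit 4) (nat_lit 4) (nat_lit 2) (nat_lit 4) (nat_lit 332) (nat_lit 246) (nat_lit 202))) (XT.nd (nat_lit 78) (nat_lit 0) (nat_lit 0) (XT.lf (nat_lit 0)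 (nat_lit 160741397311) (nat_lit 152) (nat_lit 13805876731) (nat_lit 0) (nat_lit 155889873998) (nat_lit 2) (nat_lit 5) (nat_lit 4) (nat_lit 4) (nat_lit 2) (nat_lit 4) (nat_lit 333) (nat_lit 246) (nat_lit 201)) (XT.lf (nat_lit 0) (nat_lit 175846065971) (nat_lit 152) (nat_lit 9829480933) (nat_lit 0) (nat_lit 170982920185) (nat_lit 2) (nat_lit 5) (nat_lit 4) (nat_lit 4) (nat_lit 2) (nat_lit 4) (nat_lit 334) (nat_lit 246) (nat_lit 200))))) (XT.nd (nat_lit 312) (nat_lit 0) (nat_lit 0) (XT.nd (nat_lit 156) (nat_lit 76) (nat_lit 0) (XT.nd (nat_lit 78) (nat_lit 0) (nat_lit 0) (XT.lf (nat_lit 0) (nat_lit 192147955204) (nat_lit 152) (nat_lit 5556389126) (nat_lit 0) (nat_lit 187274047869) (nat_lit 2) (nat_lit 5) (nat_lit 4) (nat_lit 4) (nat_lit 2) (nat_lit 4) (nat_lit 335) (nat_lit 246) (nat_lit 199)) (XT.lf (nat_lit 0) (nat_lit 209743668799) (nat_lit 152) (nat_lit 961279286) (nat_lit 0) (nat_lit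 204859797066) (nat_lit 2) (nat_lit 5) (nat_lit 4) (nat_lit 4) (nat_lit 2) (nat_lit 4) (nat_lit 336) (nat_lit 246) (nat_lit 198))) (XT.nd (nat_lit 78) (nat_lit 0) (nat_lit 0) (XT.lf (nat_lit 0) (nat_lit 4192820741) (nat_lit 76) (nat_lit 224645494348) (nat_lit 76) (nat_lit 219752396321) (nat_lit 1) (nat_lit 4) (nat_lit 2) (nat_lit 5) (nat_lit 2) (nat_lit 4) (nat_lit 337) (nat_lit 246) (nat_lit 197)) (XT.lf (nat_lit 0) (nat_lit 9796021926) (nat_lit 76) (nat_lit 239681510299) (nat_lit 76) (nat_lit 234779869407) (nat_lit 1) (nat_lit 4) (nat_lit 2) (nat_lit 5) (nat_lit 2) (nat_lit 4) (nat_lit 338) (nat_lit 246) (nat_lit 196)))) (XT.nd (nat_lit 156) (nat_lit 0) (nat_lit 0) (XT.nd (nat_lit 78) (nat_lit 0) (nat_lit 0) (XT.lf (nat_lit 0) (nat_lit 15830909158) (nat_lit 76) (nat_lit 255928381334) (nat_lit 76) (nat_lit 251018830382) (nat_lit 1) (nat_lit 4) (nat_lit 2) (nat_lit 5) (nat_lit 2) (nat_lit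 4) (nat_lit 339) (nat_lit 246) (nat_lit 195)) (XT.lf (nat_lit 0) (nat_lit 22333244732) (nat_lit 76) (nat_lit 273482385208) (nat_lit 76) (nat_lit 268565510126) (nat_lit 1) (nat_lit 4) (nat_lit 2) (nat_lit 5) (nat_lit 2) (nat_lit 4) (nat_lit 340) (nat_lit 246) (nat_lit 194))) (XT.nd (nat_lit 78) (nat_lit 0) (nat_lit 0) (XT.lf (nat_lit 0) (nat_lit 29341561007) (nat_lit 76) (nat_lit 292447545647) (nat_lit 76) (nat_lit 287523888964) (nat_lit 1) (nat_lit 4) (nat_lit 2) (nat_lit 5) (nat_lit 2) (nat_lit 4) (nat_lit 341) (nat_lit 246) (nat_lit 193)) (XT.lf (nat_lit 0) (nat_lit 36897388747) (nat_lit 76) (nat_lit 312936248787) (nat_lit 76) (nat_lit 308006312844) (nat_lit 1) (nat_lit 4) (nat_lit 2) (nat_lit 5) (nat_lit 2) (nat_lit 4) (nat_lit 342) (nat_lit 246) (nat_lit 192))))))))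
noncomputable def xc28 : XT := (XT.nd (nat_lit 36504) (nat_lit 0) (nat_lit 76) (XT.nd (nat_lit 1092) (nat_lit 0) (nat_lit 0) (XT.nd (nat_lit 546) (nat_lit 0) (nat_lit 0) (XT.nd (nat_lit 234) (nat_lit 0) (nat_lit 0) (XT.nd (nat_lit 78) (nat_lit 0) (nat_lit 0) (XT.lf (nat_lit 0) (nat_lit 45045503226) (nat_lit 76) (nat_lit 335069909166) (nat_lit 76) (nat_lit 330134159092) (nat_lit 1) (nat_lit 4) (nat_lit 2) (nat_lit 5) (nat_lit 2) (nat_lit 4) (nat_lit 343) (nat_lit 246) (nat_lit 191)) (XT.nd (nat_lit 78) (nat_lit 0) (nat_lit 0) (XT.lf (nat_lit 0) (nat_lit 53834189568) (nat_lit 76) (nat_lit 358979689216) (nat_lit 76) (nat_lit 354038555687) (nat_lit 1) (nat_lit 4) (nat_lit 2) (nat_lit 5) (nat_lit 2) (nat_lit 4) (nat_lit 344) (nat_lit 246) (nat_lit 190)) (XT.lf (nat_lit 0) (nat_lit 63315528877) (nat_lit 76) (nat_lit 384807276521) (nat_lit 76) (nat_lit 379861158313) (nat_lit 1) (nat_lit 4)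 (nat_lit 2) (nat_lit 5) (nat_lit 2) (nat_lit 4) (nat_lit 345) (nat_lit 246) (nat_lit 189)))) (XT.nd (nat_lit 156) (nat_lit 0) (nat_lit 0) (XT.nd (nat_lit 78) (nat_lit 0) (nat_lit 0) (XT.lf (nat_lit 0) (nat_lit 73545706867) (nat_lit 76) (nat_lit 412705723451) (nat_lit 76) (nat_lit 407754989799) (nat_lit 1) (nat_lit 4) (nat_lit 2) (nat_lit 5) (nat_lit 2) (nat_lit 4) (nat_lit 346) (nat_lit 246) (nat_lit 188)) (XT.lf (nat_lit 0) (nat_lit 84585346815) (nat_lit 76) (nat_lit 442840354136) (nat_lit 76) (nat_lit 437885346924) (nat_lit 1) (nat_lit 4) (nat_lit 2) (nat_lit 5) (nat_lit 2) (nat_lit 4) (nat_lit 347) (nat_lit 246) (nat_lit 187))) (XT.nd (nat_lit 78) (nat_lit 0) (nat_lit 0) (XT.lf (nat_lit 0) (nat_lit 96499868810) (nat_lit 76) (nat_lit 475389744165) (nat_lit 76) (nat_lit 470430779954) (nat_lit 1) (nat_lit 4) (nat_lit 2) (nat_lit 5) (nat_lit 2) (nat_lit 4) (nat_lit 348) (nat_lit 246)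 (nat_lit 186)) (XT.lf (nat_lit 0) (nat_lit 109359877426) (nat_lit 76) (nat_lit 510546778812) (nat_lit 76) (nat_lit 505584150713) (nat_lit 1) (nat_lit 4) (nat_lit 2) (nat_lit 5) (nat_lit 2) (nat_lit 4) (nat_lit 349) (nat_lit 246) (nat_lit 185))))) (XT.nd (nat_lit 234) (nat_lit 0) (nat_lit 0) (XT.nd (nat_lit 78) (nat_lit 0) (nat_lit 0) (XT.lf (nat_lit 0) (nat_lit 123241580123) (nat_lit 76) (nat_lit 548519796061) (nat_lit 76) (nat_lit 543553775473) (nat_lit 1) (nat_lit 4) (nat_lit 2) (nat_lit 5) (nat_lit 2) (nat_lit 4) (nat_lit 350) (nat_lit 246) (nat_lit 184)) (XT.nd (nat_lit 78) (nat_lit 0) (nat_lit 0) (XT.lf (nat_lit 0) (nat_lit 138227238841) (nat_lit 76) (nat_lit 589533821199) (nat_lit 76) (nat_lit 584564659418) (nat_lit 1) (nat_lit 4) (nat_lit 2) (nat_lit 5) (nat_lit 2) (nat_lit 4) (nat_lit 351) (nat_lit 246) (nat_lit 183)) (XT.lf (nat_lit 0) (nat_lit 154405657485) (nat_lit 76) (nat_lit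 633831900301) (nat_lit 76) (nat_lit 628859830007) (nat_lit 1) (nat_lit 4) (nat_lit 2) (nat_lit 5) (nat_lit 2) (nat_lit 4) (nat_lit 352) (nat_lit 246) (nat_lit 182)))) (XT.nd (nat_lit 156) (nat_lit 0) (nat_lit 0) (XT.nd (nat_lit 78) (nat_lit 0) (nat_lit 0) (XT.lf (nat_lit 0) (nat_lit 171872708165) (nat_lit 76) (nat_lit 681676540502) (nat_lit 76) (nat_lit 676701777141) (nat_lit 1) (nat_lit 4) (nat_lit 2) (nat_lit 5) (nat_lit 2) (nat_lit 4) (nat_lit 353) (nat_lit 246) (nat_lit 181)) (XT.lf (nat_lit 0) (nat_lit 190731899330) (nat_lit 76) (nat_lit 733351265596) (nat_lit 76) (nat_lit 728374008654) (nat_lit 1) (nat_lit 4) (nat_lit 2) (nat_lit 5) (nat_lit 2) (nat_lit 4) (nat_lit 354) (nat_lit 246) (nat_lit 180))) (XT.nd (nat_lit 78) (nat_lit 0) (nat_lit 0) (XT.lf (nat_lit 0) (nat_lit 211094989148) (nat_lit 76) (nat_lit 789162296176) (nat_lit 76) (nat_lit 784182730363) (nat_lit 1) (nat_lit 4)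 (nat_lit 2) (nat_lit 5) (nat_lit 2) (nat_lit 4) (nat_lit 355) (nat_lit 246) (nat_lit 179)) (XT.lf (nat_lit 0) (nat_lit 233082647783) (nat_lit 76) (nat_lit 849440364276) (nat_lit 76) (nat_lit 844458660619) (nat_lit 1) (nat_lit 4) (nat_lit 2) (nat_lit 5) (nat_lit 2) (nat_lit 4) (nat_lit 356) (nat_lit 246) (nat_lit 178)))))) (XT.nd (nat_lit 546) (nat_lit 0) (nat_lit 0) (XT.nd (nat_lit 234) (nat_lit 0) (nat_lit 0) (XT.nd (nat_lit 78) (nat_lit 0) (nat_lit 0) (XT.lf (nat_lit 0) (nat_lit 256825172471) (nat_lit 76) (nat_lit 914542673261) (nat_lit 76) (nat_lit 909558990119) (nat_lit 1) (nat_lit 4) (nat_lit 2) (nat_lit 5) (nat_lit 2) (nat_lit 4) (nat_lit 357) (nat_lit 246) (nat_lit 177)) (XT.nd (nat_lit 78) (nat_lit 0) (nat_lit 0) (XT.lf (nat_lit 0) (nat_lit 282463259653) (nat_lit 76) (nat_lit 984855014593) (nat_lit 76) (nat_lit 979869498595) (nat_lit 1) (nat_lit 4) (nat_lit 2) (nat_lit 5) (nat_lit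 2) (nat_lit 4) (nat_lit 358) (nat_lit 246) (nat_lit 176)) (XT.lf (nat_lit 0) (nat_lit 310148838736) (nat_lit 76) (nat_lit 1060794053997) (nat_lit 76) (nat_lit 1055806840910) (nat_lit 1) (nat_lit 4) (nat_lit 2) (nat_lit 5) (nat_lit 2) (nat_lit 4) (nat_lit 359) (nat_lit 246) (nat_lit 175)))) (XT.nd (nat_lit 156) (nat_lit 0) (nat_lit 0) (XT.nd (nat_lit 78) (nat_lit 0) (nat_lit 0) (XT.lf (nat_lit 0) (nat_lit 340045972411) (nat_lit 76) (nat_lit 1142809800597) (nat_lit 76) (nat_lit 1137821016131) (nat_lit 1) (nat_lit 4) (nat_lit 2) (nat_lit 5) (nat_lit 2) (nat_lit 4) (nat_lit 360) (nat_lit 246) (nat_lit 174)) (XT.lf (nat_lit 0) (nat_lit 372331828877) (nat_lit 76) (nat_lit 1231388273631) (nat_lit 76) (nat_lit 1226398034184) (nat_lit 1) (nat_lit 4) (nat_lit 2) (nat_lit 5) (nat_lit 2) (nat_lit 4) (nat_lit 361) (nat_lit 246) (nat_lit 173))) (XT.nd (nat_lit 78) (nat_lit 0) (nat_lit 0) (XT.lf (nat_lit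 0) (nat_lit 407197731728) (nat_lit 76) (nat_lit 1327054382569) (nat_lit 76) (nat_lit 1322062795918) (nat_lit 1) (nat_lit 4) (nat_lit 2) (nat_lit 5) (nat_lit 2) (nat_lit 4) (nat_lit 362) (nat_lit 246) (nat_lit 172)) (XT.lf (nat_lit 0) (nat_lit 444850293721) (nat_lit 76) (nat_lit 1430375037687) (nat_lit 76) (nat_lit 1425382203625) (nat_lit 1) (nat_lit 4) (nat_lit 2) (nat_lit 5) (nat_lit 2) (nat_lit 4) (nat_lit 363) (nat_lit 246) (nat_lit 171))))) (XT.nd (nat_lit 34554) (nat_lit 0) (nat_lit 760) (XT.nd (nat_lit 156) (nat_lit 0) (nat_lit 0) (XT.nd (nat_lit 78) (nat_lit 0) (nat_lit 0) (XT.lf (nat_lit 0) (nat_lit 485512641150) (nat_lit 76) (nat_lit 1541962509533) (nat_lit 76) (nat_lit 1536968520460) (nat_lit 1) (nat_lit 4) (nat_lit 2) (nat_lit 5) (nat_lit 2) (nat_lit 4) (nat_lit 364) (nat_lit 246) (nat_lit 170)) (XT.lf (nat_lit 0) (nat_lit 529425736074) (nat_lit 76) (nat_lit 1662478057199)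 (nat_lit 76) (nat_lit 1657482998672) (nat_lit 1) (nat_lit 4) (nat_lit 2) (nat_lit 5) (nat_lit 2) (nat_lit 4) (nat_lit 365) (nat_lit 246) (nat_lit 169))) (XT.nd (nat_lit 78) (nat_lit 0) (nat_lit 0) (XT.lf (nat_lit 0) (nat_lit 576849804240) (nat_lit 76) (nat_lit 1792635846894) (nat_lit 76) (nat_lit 1787639798132) (nat_lit 1) (nat_lit 4) (nat_lit 2) (nat_lit 5) (nat_lit 2) (nat_lit 4) (nat_lit 366) (nat_lit 246) (nat_lit 168)) (XT.lf (nat_lit 0) (nat_lit 628065877164) (nat_lit 76) (nat_lit 1933207184039) (nat_lit 76) (nat_lit 1928210218393) (nat_lit 1) (nat_lit 4) (nat_lit 2) (nat_lit 5) (nat_lit 2) (nat_lit 4) (nat_lit 367) (nat_lit 246) (nat_lit 167)))) (XT.nd (nat_lit 156) (nat_lit 152) (nat_lit 0) (XT.nd (nat_lit 78) (nat_lit 152) (nat_lit 0) (XT.lf (nat_lit 0) (nat_lit 2045377026) (nat_lit 152) (nat_lit 2338517630) (nat_lit 0) (nat_lit 2045377026) (nat_lit 15) (nat_lit 5) (nat_lit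 17) (nat_lit 4) (nat_lit 15) (nat_lit 4) (nat_lit 286) (nat_lit 247) (nat_lit 247)) (XT.lf (nat_lit 0) (nat_lit 2898234713) (nat_lit 152) (nat_lit 5577211935) (nat_lit 152) (nat_lit 5032099196) (nat_lit 13) (nat_lit 4) (nat_lit 15) (nat_lit 5) (nat_lit 15) (nat_lit 4) (nat_lit 287) (nat_lit 247) (nat_lit 246))) (XT.nd (nat_lit 78) (nat_lit 152) (nat_lit 0) (XT.lf (nat_lit 0) (nat_lit 10944949114) (nat_lit 152) (nat_lit 2161073517) (nat_lit 152) (nat_lit 1111226761) (nat_lit 13) (nat_lit 4) (nat_lit 15) (nat_lit 5) (nat_lit 15) (nat_lit 4) (nat_lit 288) (nat_lit 247) (nat_lit 245)) (XT.lf (nat_lit 0) (nat_lit 2889357941) (nat_lit 152) (nat_lit 10610363746) (nat_lit 0) (nat_lit 1484549544) (nat_lit 11) (nat_lit 5) (nat_lit 13) (nat_lit 4) (nat_lit 11) (nat_lit 4) (nat_lit 289) (nat_lit 247) (nat_lit 244))))))) (XT.nd (nat_lit 1092) (nat_lit 228) (nat_lit 0) (XT.nd (nat_lit 546) (nat_lit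 152) (nat_lit 0) (XT.nd (nat_lit 234) (nat_lit 228) (nat_lit 0) (XT.nd (nat_lit 78) (nat_lit 76) (nat_lit 0) (XT.lf (nat_lit 0) (nat_lit 7080013572) (nat_lit 152) (nat_lit 3461705628) (nat_lit 0) (nat_lit 5274531038) (nat_lit 11) (nat_lit 5) (nat_lit 13) (nat_lit 4) (nat_lit 11) (nat_lit 4) (nat_lit 290) (nat_lit 247) (nat_lit 243)) (XT.nd (nat_lit 78) (nat_lit 0) (nat_lit 0) (XT.lf (nat_lit 0) (nat_lit 4106100571) (nat_lit 76) (nat_lit 7396844272) (nat_lit 76) (nat_lit 5220367168) (nat_lit 10) (nat_lit 4) (nat_lit 11) (nat_lit 5) (nat_lit 11) (nat_lit 4) (nat_lit 291) (nat_lit 247) (nat_lit 242)) (XT.lf (nat_lit 0) (nat_lit 12127120232) (nat_lit 76) (nat_lit 4052058371) (nat_lit 76) (nat_lit 1532067776) (nat_lit 10) (nat_lit 4) (nat_lit 11) (nat_lit 5) (nat_lit 11) (nat_lit 4) (nat_lit 292) (nat_lit 247) (nat_lit 241)))) (XT.nd (nat_lit 156) (nat_lit 76) (nat_lit 0) (XT.nd (nat_lit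 78) (nat_lit 0) (nat_lit 0) (XT.lf (nat_lit 0) (nat_lit 1704701594) (nat_lit 76) (nat_lit 479317750) (nat_lit 152) (nat_lit 16601279330) (nat_lit 8) (nat_lit 5) (nat_lit 9) (nat_lit 5) (nat_lit 10) (nat_lit 4) (nat_lit 293) (nat_lit 247) (nat_lit 240)) (XT.lf (nat_lit 0) (nat_lit 6169339329) (nat_lit 152) (nat_lit 10499770189) (nat_lit 0) (nat_lit 3268815168) (nat_lit 8) (nat_lit 5) (nat_lit 10) (nat_lit 4) (nat_lit 8) (nat_lit 4) (nat_lit 294) (nat_lit 247) (nat_lit 239))) (XT.nd (nat_lit 78) (nat_lit 76) (nat_lit 0) (XT.lf (nat_lit 0) (nat_lit 10316305906) (nat_lit 152) (nat_lit 3715934970) (nat_lit 0) (nat_lit 7163289074) (nat_lit 8) (nat_lit 5) (nat_lit 10) (nat_lit 4) (nat_lit 8) (nat_lit 4) (nat_lit 295) (nat_lit 247) (nat_lit 238)) (XT.lf (nat_lit 0) (nat_lit 3497600843) (nat_lit 76) (nat_lit 11224482629) (nat_lit 76) (nat_lit 7837676287) (nat_lit 7) (nat_lit 4) (nat_lit 8) (nat_lit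 5) (nat_lit 8) (nat_lit 4) (nat_lit 296) (nat_lit 247) (nat_lit 237))))) (XT.nd (nat_lit 234) (nat_lit 0) (nat_lit 0) (XT.nd (nat_lit 78) (nat_lit 152) (nat_lit 0) (XT.lf (nat_lit 0) (nat_lit 11218868045) (nat_lit 76) (nat_lit 8210875716) (nat_lit 76) (nat_lit 4607597605) (nat_lit 7) (nat_lit 4) (nat_lit 8) (nat_lit 5) (nat_lit 8) (nat_lit 4) (nat_lit 297) (nat_lit 247) (nat_lit 236)) (XT.nd (nat_lit 78) (nat_lit 152) (nat_lit 0) (XT.lf (nat_lit 0) (nat_lit 19297947740) (nat_lit 76) (nat_lit 5075161973) (nat_lit 76) (nat_lit 1271447040) (nat_lit 7) (nat_lit 4) (nat_lit 8) (nat_lit 5) (nat_lit 8) (nat_lit 4) (nat_lit 298) (nat_lit 247) (nat_lit 235)) (XT.lf (nat_lit 0) (nat_lit 356959702) (nat_lit 76) (nat_lit 1732590435) (nat_lit 152) (nat_lit 25296478619) (nat_lit 5) (nat_lit 5) (nat_lit 6) (nat_lit 5) (nat_lit 7) (nat_lit 4) (nat_lit 299) (nat_lit 247) (nat_lit 234)))) (XT.nd (nat_lit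 156) (nat_lit 0) (nat_lit 0) (XT.nd (nat_lit 78) (nat_lit 0) (nat_lit 0) (XT.lf (nat_lit 0) (nat_lit 5741357816) (nat_lit 152) (nat_lit 21627247710) (nat_lit 0) (nat_lit 1888444063) (nat_lit 5) (nat_lit 5) (nat_lit 7) (nat_lit 4) (nat_lit 5) (nat_lit 4) (nat_lit 300) (nat_lit 247) (nat_lit 233)) (XT.lf (nat_lit 0) (nat_lit 9607567964) (nat_lit 152) (nat_lit 16069190027) (nat_lit 0) (nat_lit 5607327163) (nat_lit 5) (nat_lit 5) (nat_lit 7) (nat_lit 4) (nat_lit 5) (nat_lit 4) (nat_lit 301) (nat_lit 247) (nat_lit 232))) (XT.nd (nat_lit 78) (nat_lit 0) (nat_lit 0) (XT.lf (nat_lit 0) (nat_lit 13669422615) (nat_lit 152) (nat_lit 10280290526) (nat_lit 0) (nat_lit 9532767880) (nat_lit 5) (nat_lit 5) (nat_lit 7) (nat_lit 4) (nat_lit 5) (nat_lit 4) (nat_lit 302) (nat_lit 247) (nat_lit 231)) (XT.lf (nat_lit 0) (nat_lit 17950992018) (nat_lit 152) (nat_lit 4226244617) (nat_lit 0) (nat_lit 13688028085)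 (nat_lit 5) (nat_lit 5) (nat_lit 7) (nat_lit 4) (nat_lit 5) (nat_lit 4) (nat_lit 303) (nat_lit 247) (nat_lit 230)))))) (XT.nd (nat_lit 546) (nat_lit 152) (nat_lit 0) (XT.nd (nat_lit 234) (nat_lit 0) (nat_lit 0) (XT.nd (nat_lit 78) (nat_lit 0) (nat_lit 0) (XT.lf (nat_lit 0) (nat_lit 2240923600) (nat_lit 76) (nat_lit 20290619103) (nat_lit 76) (nat_lit 15910702209) (nat_lit 4) (nat_lit 4) (nat_lit 5) (nat_lit 5) (nat_lit 5) (nat_lit 4) (nat_lit 304) (nat_lit 247) (nat_lit 229)) (XT.nd (nat_lit 78) (nat_lit 0) (nat_lit 0) (XT.lf (nat_lit 0) (nat_lit 9287154658) (nat_lit 76) (nat_lit 18212418137) (nat_lit 76) (nat_lit 13724211464) (nat_lit 4) (nat_lit 4) (nat_lit 5) (nat_lit 5) (nat_lit 5) (nat_lit 4) (nat_lit 305) (nat_lit 247) (nat_lit 228)) (XT.lf (nat_lit 0) (nat_lit 16731657445) (nat_lit 76) (nat_lit 16045871491) (nat_lit 76) (nat_lit 11457396504) (nat_lit 4) (nat_lit 4) (nat_lit 5)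 (nat_lit 5) (nat_lit 5) (nat_lit 4) (nat_lit 306) (nat_lit 247) (nat_lit 227)))) (XT.nd (nat_lit 156) (nat_lit 0) (nat_lit 0) (XT.nd (nat_lit 78) (nat_lit 0) (nat_lit 0) (XT.lf (nat_lit 0) (nat_lit 24618547535) (nat_lit 76) (nat_lit 13778140369) (nat_lit 76) (nat_lit 9096824352) (nat_lit 4) (nat_lit 4) (nat_lit 5) (nat_lit 5) (nat_lit 5) (nat_lit 4) (nat_lit 307) (nat_lit 247) (nat_lit 226)) (XT.lf (nat_lit 0) (nat_lit 32994562054) (nat_lit 76) (nat_lit 11395786365) (nat_lit 76) (nat_lit 6628506430) (nat_lit 4) (nat_lit 4) (nat_lit 5) (nat_lit 5) (nat_lit 5) (nat_lit 4) (nat_lit 308) (nat_lit 247) (nat_lit 225))) (XT.nd (nat_lit 78) (nat_lit 0) (nat_lit 0) (XT.lf (nat_lit 0) (nat_lit 41909336644) (nat_lit 76) (nat_lit 8884691825) (nat_lit 76) (nat_lit 4037815670) (nat_lit 4) (nat_lit 4) (nat_lit 5) (nat_lit 5) (nat_lit 5) (nat_lit 4) (nat_lit 309) (nat_lit 247) (nat_lit 224)) (XT.lf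 (nat_lit 0) (nat_lit 51415699598) (nat_lit 76) (nat_lit 6229976190) (nat_lit 76) (nat_lit 1309399832) (nat_lit 4) (nat_lit 4) (nat_lit 5) (nat_lit 5) (nat_lit 5) (nat_lit 4) (nat_lit 310) (nat_lit 247) (nat_lit 223))))) (XT.nd (nat_lit 312) (nat_lit 0) (nat_lit 0) (XT.nd (nat_lit 156) (nat_lit 0) (nat_lit 0) (XT.nd (nat_lit 78) (nat_lit 76) (nat_lit 0) (XT.lf (nat_lit 0) (nat_lit 1494226173) (nat_lit 152) (nat_lit 1880826846) (nat_lit 76) (nat_lit 60034903953) (nat_lit 3) (nat_lit 5) (nat_lit 5) (nat_lit 5) (nat_lit 4) (nat_lit 4) (nat_lit 311) (nat_lit 247) (nat_lit 222)) (XT.lf (nat_lit 0) (nat_lit 4304447742) (nat_lit 76) (nat_lit 193846044) (nat_lit 152) (nat_lit 63716507915) (nat_lit 2) (nat_lit 5) (nat_lit 3) (nat_lit 5) (nat_lit 4) (nat_lit 4) (nat_lit 312) (nat_lit 247) (nat_lit 221))) (XT.nd (nat_lit 78) (nat_lit 0) (nat_lit 0) (XT.lf (nat_lit 0) (nat_lit 7817272473) (nat_lit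 152) (nat_lit 62495516729) (nat_lit 0) (nat_lit 3085319758) (nat_lit 2) (nat_lit 5) (nat_lit 4) (nat_lit 4) (nat_lit 2) (nat_lit 4) (nat_lit 313) (nat_lit 247) (nat_lit 220)) (XT.lf (nat_lit 0) (nat_lit 11354821136) (nat_lit 152) (nat_lit 61072344938) (nat_lit 0) (nat_lit 6572709301) (nat_lit 2) (nat_lit 5) (nat_lit 4) (nat_lit 4) (nat_lit 2) (nat_lit 4) (nat_lit 314) (nat_lit 247) (nat_lit 219)))) (XT.nd (nat_lit 156) (nat_lit 0) (nat_lit 0) (XT.nd (nat_lit 78) (nat_lit 0) (nat_lit 0) (XT.lf (nat_lit 0) (nat_lit 15127241025) (nat_lit 152) (nat_lit 59627742972) (nat_lit 0) (nat_lit 10298685560) (nat_lit 2) (nat_lit 5) (nat_lit 4) (nat_lit 4) (nat_lit 2) (nat_lit 4) (nat_lit 315) (nat_lit 247) (nat_lit 218)) (XT.lf (nat_lit 0) (nat_lit 19156887220) (nat_lit 152) (nat_lit 58153150227) (nat_lit 0) (nat_lit 14285328394) (nat_lit 2) (nat_lit 5) (nat_lit 4) (nat_lit 4) (nat_lit 2) (nat_lit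 4) (nat_lit 316) (nat_lit 247) (nat_lit 217))) (XT.nd (nat_lit 78) (nat_lit 0) (nat_lit 0) (XT.lf (nat_lit 0) (nat_lit 23467639106) (nat_lit 152) (nat_lit 56639828376) (nat_lit 0) (nat_lit 18556262354) (nat_lit 2) (nat_lit 5) (nat_lit 4) (nat_lit 4) (nat_lit 2) (nat_lit 4) (nat_lit 317) (nat_lit 247) (nat_lit 216)) (XT.lf (nat_lit 0) (nat_lit 28085041881) (nat_lit 152) (nat_lit 55078809586) (nat_lit 0) (nat_lit 23136796677) (nat_lit 2) (nat_lit 5) (nat_lit 4) (nat_lit 4) (nat_lit 2) (nat_lit 4) (nat_lit 318) (nat_lit 247) (nat_lit 215))))))))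
noncomputable def xc29 : XT := (XT.nd (nat_lit 2262) (nat_lit 0) (nat_lit 0) (XT.nd (nat_lit 1092) (nat_lit 76) (nat_lit 0) (XT.nd (nat_lit 546) (nat_lit 0) (nat_lit 0) (XT.nd (nat_lit 234) (nat_lit 0) (nat_lit 0) (XT.nd (nat_lit 78) (nat_lit 0) (nat_lit 0) (XT.lf (nat_lit 0) (nat_lit 33036457930) (nat_lit 152) (nat_lit 53460843376) (nat_lit 0) (nat_lit 28054075272) (nat_lit 2) (nat_lit 5) (nat_lit 4) (nat_lit 4) (nat_lit 2) (nat_lit 4) (nat_lit 319) (nat_lit 247) (nat_lit 214)) (XT.nd (nat_lit 78) (nat_lit 0) (nat_lit 0) (XT.lf (nat_lit 0) (nat_lit 38351228978) (nat_lit 152) (nat_lit 51776341796) (nat_lit 0) (nat_lit 33337237566) (nat_lit 2) (nat_lit 5) (nat_lit 4) (nat_lit 4) (nat_lit 2) (nat_lit 4) (nat_lit 320) (nat_lit 247) (nat_lit 213)) (XT.lf (nat_lit 0) (nat_lit 44060849965) (nat_lit 152) (nat_lit 50015322617) (nat_lit 0) (nat_lit 39017591188) (nat_lit 2) (nat_lit 5) (nat_lit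 4) (nat_lit 4) (nat_lit 2) (nat_lit 4) (nat_lit 321) (nat_lit 247) (nat_lit 212)))) (XT.nd (nat_lit 156) (nat_lit 0) (nat_lit 0) (XT.nd (nat_lit 78) (nat_lit 0) (nat_lit 0) (XT.lf (nat_lit 0) (nat_lit 50199155682) (nat_lit 152) (nat_lit 48167350167) (nat_lit 0) (nat_lit 45128797493) (nat_lit 2) (nat_lit 5) (nat_lit 4) (nat_lit 4) (nat_lit 2) (nat_lit 4) (nat_lit 322) (nat_lit 247) (nat_lit 211)) (XT.lf (nat_lit 0) (nat_lit 56802521274) (nat_lit 152) (nat_lit 46221473500) (nat_lit 0) (nat_lit 51707071037) (nat_lit 2) (nat_lit 5) (nat_lit 4) (nat_lit 4) (nat_lit 2) (nat_lit 4) (nat_lit 323) (nat_lit 247) (nat_lit 210))) (XT.nd (nat_lit 78) (nat_lit 0) (nat_lit 0) (XT.lf (nat_lit 0) (nat_lit 63910077797) (nat_lit 152) (nat_lit 44166161495) (nat_lit 0) (nat_lit 58791394182) (nat_lit 2) (nat_lit 5) (nat_lit 4) (nat_lit 4) (nat_lit 2) (nat_lit 4) (nat_lit 324) (nat_lit 247) (nat_lit 209))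 (XT.lf (nat_lit 0) (nat_lit 71563944103) (nat_lit 152) (nat_lit 41989234525) (nat_lit 0) (nat_lit 66423748101) (nat_lit 2) (nat_lit 5) (nat_lit 4) (nat_lit 4) (nat_lit 2) (nat_lit 4) (nat_lit 325) (nat_lit 247) (nat_lit 208))))) (XT.nd (nat_lit 234) (nat_lit 0) (nat_lit 0) (XT.nd (nat_lit 78) (nat_lit 0) (nat_lit 0) (XT.lf (nat_lit 0) (nat_lit 79809476437) (nat_lit 152) (nat_lit 39677792282) (nat_lit 0) (nat_lit 74649361558) (nat_lit 2) (nat_lit 5) (nat_lit 4) (nat_lit 4) (nat_lit 2) (nat_lit 4) (nat_lit 326) (nat_lit 247) (nat_lit 207)) (XT.nd (nat_lit 78) (nat_lit 0) (nat_lit 0) (XT.lf (nat_lit 0) (nat_lit 88695537214) (nat_lit 152) (nat_lit 37218137330) (nat_lit 0) (nat_lit 83516978930) (nat_lit 2) (nat_lit 5) (nat_lit 4) (nat_lit 4) (nat_lit 2) (nat_lit 4) (nat_lit 327) (nat_lit 247) (nat_lit 206)) (XT.lf (nat_lit 0) (nat_lit 98274784571) (nat_lit 152) (nat_lit 34595693936) (nat_lit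 0) (nat_lit 93079149061) (nat_lit 2) (nat_lit 5) (nat_lit 4) (nat_lit 4) (nat_lit 2) (nat_lit 4) (nat_lit 328) (nat_lit 247) (nat_lit 205)))) (XT.nd (nat_lit 156) (nat_lit 0) (nat_lit 0) (XT.nd (nat_lit 78) (nat_lit 0) (nat_lit 0) (XT.lf (nat_lit 0) (nat_lit 108603984418) (nat_lit 152) (nat_lit 31794921696) (nat_lit 0) (nat_lit 103392536662) (nat_lit 2) (nat_lit 5) (nat_lit 4) (nat_lit 4) (nat_lit 2) (nat_lit 4) (nat_lit 329) (nat_lit 247) (nat_lit 204)) (XT.lf (nat_lit 0) (nat_lit 119744346829) (nat_lit 152) (nat_lit 28799223439) (nat_lit 0) (nat_lit 114518258104) (nat_lit 2) (nat_lit 5) (nat_lit 4) (nat_lit 4) (nat_lit 2) (nat_lit 4) (nat_lit 330) (nat_lit 247) (nat_lit 203))) (XT.nd (nat_lit 78) (nat_lit 0) (nat_lit 0) (XT.lf (nat_lit 0) (nat_lit 131761888767) (nat_lit 152) (nat_lit 25590846881) (nat_lit 0) (nat_lit 126522243589) (nat_lit 2) (nat_lit 5) (nat_lit 4) (nat_lit 4) (nat_lit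 2) (nat_lit 4) (nat_lit 331) (nat_lit 247) (nat_lit 202)) (XT.lf (nat_lit 0) (nat_lit 144727825294) (nat_lit 152) (nat_lit 22150779420) (nat_lit 0) (nat_lit 139475627844) (nat_lit 2) (nat_lit 5) (nat_lit 4) (nat_lit 4) (nat_lit 2) (nat_lit 4) (nat_lit 332) (nat_lit 247) (nat_lit 201)))))) (XT.nd (nat_lit 546) (nat_lit 0) (nat_lit 0) (XT.nd (nat_lit 234) (nat_lit 76) (nat_lit 0) (XT.nd (nat_lit 78) (nat_lit 0) (nat_lit 0) (XT.lf (nat_lit 0) (nat_lit 158718991589) (nat_lit 152) (nat_lit 18458635470) (nat_lit 0) (nat_lit 153455171667) (nat_lit 2) (nat_lit 5) (nat_lit 4) (nat_lit 4) (nat_lit 2) (nat_lit 4) (nat_lit 333) (nat_lit 247) (nat_lit 200)) (XT.nd (nat_lit 78) (nat_lit 0) (nat_lit 0) (XT.lf (nat_lit 0) (nat_lit 173818298269) (nat_lit 152) (nat_lit 14492535659) (nat_lit 0) (nat_lit 168543716797) (nat_lit 2) (nat_lit 5) (nat_lit 4) (nat_lit 4) (nat_lit 2) (nat_lit 4) (nat_lit 334)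 (nat_lit 247) (nat_lit 199)) (XT.lf (nat_lit 0) (nat_lit 190115222706) (nat_lit 152) (nat_lit 10228977175) (nat_lit 0) (nat_lit 184830676836) (nat_lit 2) (nat_lit 5) (nat_lit 4) (nat_lit 4) (nat_lit 2) (nat_lit 4) (nat_lit 335) (nat_lit 247) (nat_lit 198)))) (XT.nd (nat_lit 156) (nat_lit 76) (nat_lit 0) (XT.nd (nat_lit 78) (nat_lit 0) (nat_lit 0) (XT.lf (nat_lit 0) (nat_lit 207706339266) (nat_lit 152) (nat_lit 5642694486) (nat_lit 0) (nat_lit 202412567103) (nat_lit 2) (nat_lit 5) (nat_lit 4) (nat_lit 4) (nat_lit 2) (nat_lit 4) (nat_lit 336) (nat_lit 247) (nat_lit 197)) (XT.lf (nat_lit 0) (nat_lit 226695891604) (nat_lit 152) (nat_lit 706509620) (nat_lit 0) (nat_lit 221393576576) (nat_lit 2) (nat_lit 5) (nat_lit 4) (nat_lit 4) (nat_lit 2) (nat_lit 4) (nat_lit 337) (nat_lit 247) (nat_lit 196))) (XT.nd (nat_lit 78) (nat_lit 0) (nat_lit 0) (XT.lf (nat_lit 0) (nat_lit 4851521651) (nat_lit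 76) (nat_lit 242461567962) (nat_lit 76) (nat_lit 237151342873) (nat_lit 1) (nat_lit 4) (nat_lit 2) (nat_lit 5) (nat_lit 2) (nat_lit 4) (nat_lit 338) (nat_lit 247) (nat_lit 195)) (XT.lf (nat_lit 0) (nat_lit 10879032615) (nat_lit 76) (nat_lit 258711988591) (nat_lit 76) (nat_lit 253394439373) (nat_lit 1) (nat_lit 4) (nat_lit 2) (nat_lit 5) (nat_lit 2) (nat_lit 4) (nat_lit 339) (nat_lit 247) (nat_lit 194))))) (XT.nd (nat_lit 312) (nat_lit 0) (nat_lit 0) (XT.nd (nat_lit 156) (nat_lit 0) (nat_lit 0) (XT.nd (nat_lit 78) (nat_lit 0) (nat_lit 0) (XT.lf (nat_lit 0) (nat_lit 17374538312) (nat_lit 76) (nat_lit 276269279126) (nat_lit 76) (nat_lit 270944948307) (nat_lit 1) (nat_lit 4) (nat_lit 2) (nat_lit 5) (nat_lit 2) (nat_lit 4) (nat_lit 340) (nat_lit 247) (nat_lit 193)) (XT.lf (nat_lit 0) (nat_lit 24376530627) (nat_lit 76) (nat_lit 295237482770) (nat_lit 76) (nat_lit 289906872690) (nat_lit 1)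 (nat_lit 4) (nat_lit 2) (nat_lit 5) (nat_lit 2) (nat_lit 4) (nat_lit 341) (nat_lit 247) (nat_lit 192))) (XT.nd (nat_lit 78) (nat_lit 0) (nat_lit 0) (XT.lf (nat_lit 0) (nat_lit 31926502847) (nat_lit 76) (nat_lit 315729003693) (nat_lit 76) (nat_lit 310392579483) (nat_lit 1) (nat_lit 4) (nat_lit 2) (nat_lit 5) (nat_lit 2) (nat_lit 4) (nat_lit 342) (nat_lit 247) (nat_lit 191)) (XT.lf (nat_lit 0) (nat_lit 40069195550) (nat_lit 76) (nat_lit 337865273130) (nat_lit 76) (nat_lit 332523465465) (nat_lit 1) (nat_lit 4) (nat_lit 2) (nat_lit 5) (nat_lit 2) (nat_lit 4) (nat_lit 343) (nat_lit 247) (nat_lit 190)))) (XT.nd (nat_lit 156) (nat_lit 0) (nat_lit 0) (XT.nd (nat_lit 78) (nat_lit 0) (nat_lit 0) (XT.lf (nat_lit 0) (nat_lit 48852861728) (nat_lit 76) (nat_lit 361777468973) (nat_lit 76) (nat_lit 356430676629) (nat_lit 1) (nat_lit 4) (nat_lit 2) (nat_lit 5) (nat_lit 2) (nat_lit 4) (nat_lit 344) (nat_lit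 247) (nat_lit 189)) (XT.lf (nat_lit 0) (nat_lit 58329552737) (nat_lit 76) (nat_lit 387607293125) (nat_lit 76) (nat_lit 382255885337) (nat_lit 1) (nat_lit 4) (nat_lit 2) (nat_lit 5) (nat_lit 2) (nat_lit 4) (nat_lit 345) (nat_lit 247) (nat_lit 188))) (XT.nd (nat_lit 78) (nat_lit 0) (nat_lit 0) (XT.lf (nat_lit 0) (nat_lit 68555426746) (nat_lit 76) (nat_lit 415507811209) (nat_lit 76) (nat_lit 410152129861) (nat_lit 1) (nat_lit 4) (nat_lit 2) (nat_lit 5) (nat_lit 2) (nat_lit 4) (nat_lit 346) (nat_lit 247) (nat_lit 187)) (XT.lf (nat_lit 0) (nat_lit 79591081526) (nat_lit 76) (nat_lit 445644359629) (nat_lit 76) (nat_lit 440284721282) (nat_lit 1) (nat_lit 4) (nat_lit 2) (nat_lit 5) (nat_lit 2) (nat_lit 4) (nat_lit 347) (nat_lit 247) (nat_lit 186))))))) (XT.nd (nat_lit 1170) (nat_lit 0) (nat_lit 0) (XT.nd (nat_lit 546) (nat_lit 0) (nat_lit 0) (XT.nd (nat_lit 234) (nat_lit 0) (nat_lit 0) (XT.nd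 (nat_lit 78) (nat_lit 0) (nat_lit 0) (XT.lf (nat_lit 0) (nat_lit 91501913551) (nat_lit 76) (nat_lit 478195525339) (nat_lit 76) (nat_lit 472832223104) (nat_lit 1) (nat_lit 4) (nat_lit 2) (nat_lit 5) (nat_lit 2) (nat_lit 4) (nat_lit 348) (nat_lit 247) (nat_lit 185)) (XT.nd (nat_lit 78) (nat_lit 0) (nat_lit 0) (XT.lf (nat_lit 0) (nat_lit 104358505528) (nat_lit 76) (nat_lit 513354204135) (nat_lit 76) (nat_lit 507987509411) (nat_lit 1) (nat_lit 4) (nat_lit 2) (nat_lit 5) (nat_lit 2) (nat_lit 4) (nat_lit 349) (nat_lit 247) (nat_lit 184)) (XT.lf (nat_lit 0) (nat_lit 118237044670) (nat_lit 76) (nat_lit 551328743744) (nat_lit 76) (nat_lit 545958907827) (nat_lit 1) (nat_lit 4) (nat_lit 2) (nat_lit 5) (nat_lit 2) (nat_lit 4) (nat_lit 350) (nat_lit 247) (nat_lit 183)))) (XT.nd (nat_lit 156) (nat_lit 0) (nat_lit 0) (XT.nd (nat_lit 78) (nat_lit 0) (nat_lit 0) (XT.lf (nat_lit 0) (nat_lit 133219774171)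 (nat_lit 76) (nat_lit 592344178475) (nat_lit 76) (nat_lit 586971434045) (nat_lit 1) (nat_lit 4) (nat_lit 2) (nat_lit 5) (nat_lit 2) (nat_lit 4) (nat_lit 351) (nat_lit 247) (nat_lit 182)) (XT.lf (nat_lit 0) (nat_lit 149395480577) (nat_lit 76) (nat_lit 636643562755) (nat_lit 76) (nat_lit 631268125257) (nat_lit 1) (nat_lit 4) (nat_lit 2) (nat_lit 5) (nat_lit 2) (nat_lit 4) (nat_lit 352) (nat_lit 247) (nat_lit 181))) (XT.nd (nat_lit 78) (nat_lit 0) (nat_lit 0) (XT.lf (nat_lit 0) (nat_lit 166860019925) (nat_lit 76) (nat_lit 684489411455) (nat_lit 76) (nat_lit 679111480376) (nat_lit 1) (nat_lit 4) (nat_lit 2) (nat_lit 5) (nat_lit 2) (nat_lit 4) (nat_lit 353) (nat_lit 247) (nat_lit 180)) (XT.lf (nat_lit 0) (nat_lit 185716885782) (nat_lit 76) (nat_lit 736165255529) (nat_lit 76) (nat_lit 730785015579) (nat_lit 1) (nat_lit 4) (nat_lit 2) (nat_lit 5) (nat_lit 2) (nat_lit 4) (nat_lit 354) (nat_lit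 247) (nat_lit 179))))) (XT.nd (nat_lit 312) (nat_lit 0) (nat_lit 0) (XT.nd (nat_lit 156) (nat_lit 0) (nat_lit 0) (XT.nd (nat_lit 78) (nat_lit 0) (nat_lit 0) (XT.lf (nat_lit 0) (nat_lit 206077822539) (nat_lit 76) (nat_lit 791977322202) (nat_lit 76) (nat_lit 786594944409) (nat_lit 1) (nat_lit 4) (nat_lit 2) (nat_lit 5) (nat_lit 2) (nat_lit 4) (nat_lit 355) (nat_lit 247) (nat_lit 178)) (XT.lf (nat_lit 0) (nat_lit 228063487598) (nat_lit 76) (nat_lit 852256349647) (nat_lit 76) (nat_lit 846871992368) (nat_lit 1) (nat_lit 4) (nat_lit 2) (nat_lit 5) (nat_lit 2) (nat_lit 4) (nat_lit 356) (nat_lit 247) (nat_lit 177))) (XT.nd (nat_lit 78) (nat_lit 0) (nat_lit 0) (XT.lf (nat_lit 0) (nat_lit 251804166381) (nat_lit 76) (nat_lit 917359546914) (nat_lit 76) (nat_lit 911973356780) (nat_lit 1) (nat_lit 4) (nat_lit 2) (nat_lit 5) (nat_lit 2) (nat_lit 4) (nat_lit 357) (nat_lit 247) (nat_lit 176)) (XT.lf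 (nat_lit 0) (nat_lit 277440544394) (nat_lit 76) (nat_lit 987672710730) (nat_lit 76) (nat_lit 982284823506) (nat_lit 1) (nat_lit 4) (nat_lit 2) (nat_lit 5) (nat_lit 2) (nat_lit 4) (nat_lit 358) (nat_lit 247) (nat_lit 175)))) (XT.nd (nat_lit 156) (nat_lit 0) (nat_lit 0) (XT.nd (nat_lit 78) (nat_lit 0) (nat_lit 0) (XT.lf (nat_lit 0) (nat_lit 305124540912) (nat_lit 76) (nat_lit 1063612511693) (nat_lit 76) (nat_lit 1058223053091) (nat_lit 1) (nat_lit 4) (nat_lit 2) (nat_lit 5) (nat_lit 2) (nat_lit 4) (nat_lit 359) (nat_lit 247) (nat_lit 174)) (XT.lf (nat_lit 0) (nat_lit 335020209249) (nat_lit 76) (nat_lit 1145628963440) (nat_lit 76) (nat_lit 1140238049857) (nat_lit 1) (nat_lit 4) (nat_lit 2) (nat_lit 5) (nat_lit 2) (nat_lit 4) (nat_lit 360) (nat_lit 247) (nat_lit 173))) (XT.nd (nat_lit 78) (nat_lit 0) (nat_lit 0) (XT.lf (nat_lit 0) (nat_lit 367304708920) (nat_lit 76) (nat_lit 1234208089389)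 (nat_lit 76) (nat_lit 1228815828601) (nat_lit 1) (nat_lit 4) (nat_lit 2) (nat_lit 5) (nat_lit 2) (nat_lit 4) (nat_lit 361) (nat_lit 247) (nat_lit 172)) (XT.lf (nat_lit 0) (nat_lit 402169355480) (nat_lit 76) (nat_lit 1329874802877) (nat_lit 76) (nat_lit 1324481294679) (nat_lit 1) (nat_lit 4) (nat_lit 2) (nat_lit 5) (nat_lit 2) (nat_lit 4) (nat_lit 362) (nat_lit 247) (nat_lit 171)))))) (XT.nd (nat_lit 34632) (nat_lit 0) (nat_lit 532) (XT.nd (nat_lit 234) (nat_lit 0) (nat_lit 0) (XT.nd (nat_lit 78) (nat_lit 0) (nat_lit 0) (XT.lf (nat_lit 0) (nat_lit 439820754240) (nat_lit 76) (nat_lit 1433196017763) (nat_lit 76) (nat_lit 1427801354554) (nat_lit 1) (nat_lit 4) (nat_lit 2) (nat_lit 5) (nat_lit 2) (nat_lit 4) (nat_lit 363) (nat_lit 247) (nat_lit 170)) (XT.nd (nat_lit 78) (nat_lit 0) (nat_lit 0) (XT.lf (nat_lit 0) (nat_lit 480482024603) (nat_lit 76) (nat_lit 1544784007913) (nat_lit 76) (nat_lit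 1539388275250) (nat_lit 1) (nat_lit 4) (nat_lit 2) (nat_lit 5) (nat_lit 2) (nat_lit 4) (nat_lit 364) (nat_lit 247) (nat_lit 169)) (XT.lf (nat_lit 0) (nat_lit 524394122242) (nat_lit 76) (nat_lit 1665300035491) (nat_lit 76) (nat_lit 1659903312593) (nat_lit 1) (nat_lit 4) (nat_lit 2) (nat_lit 5) (nat_lit 2) (nat_lit 4) (nat_lit 365) (nat_lit 247) (nat_lit 168)))) (XT.nd (nat_lit 34242) (nat_lit 0) (nat_lit 1064) (XT.nd (nat_lit 78) (nat_lit 0) (nat_lit 0) (XT.lf (nat_lit 0) (nat_lit 571817266997) (nat_lit 76) (nat_lit 1795458269549) (nat_lit 76) (nat_lit 1790060629766) (nat_lit 1) (nat_lit 4) (nat_lit 2) (nat_lit 5) (nat_lit 2) (nat_lit 4) (nat_lit 366) (nat_lit 247) (nat_lit 167)) (XT.lf (nat_lit 0) (nat_lit 623032484910) (nat_lit 76) (nat_lit 1936030018140) (nat_lit 76) (nat_lit 1930631529390) (nat_lit 1) (nat_lit 4) (nat_lit 2) (nat_lit 5) (nat_lit 2) (nat_lit 4) (nat_lit 367) (nat_lit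 247) (nat_lit 166))) (XT.nd (nat_lit 78) (nat_lit 152) (nat_lit 0) (XT.lf (nat_lit 0) (nat_lit 2383289851) (nat_lit 152) (nat_lit 1735374498) (nat_lit 152) (nat_lit 1735374498) (nat_lit 17) (nat_lit 4) (nat_lit 19) (nat_lit 5) (nat_lit 19) (nat_lit 4) (nat_lit 284) (nat_lit 248) (nat_lit 248)) (XT.lf (nat_lit 0) (nat_lit 329741185) (nat_lit 76) (nat_lit 134470682) (nat_lit 152) (nat_lit 11806221855) (nat_lit 15) (nat_lit 5) (nat_lit 16) (nat_lit 5) (nat_lit 17) (nat_lit 4) (nat_lit 285) (nat_lit 248) (nat_lit 247))))) (XT.nd (nat_lit 312) (nat_lit 228) (nat_lit 0) (XT.nd (nat_lit 156) (nat_lit 152) (nat_lit 0) (XT.nd (nat_lit 78) (nat_lit 152) (nat_lit 0) (XT.lf (nat_lit 0) (nat_lit 4563616280) (nat_lit 152) (nat_lit 4874616307) (nat_lit 0) (nat_lit 3429781783) (nat_lit 15) (nat_lit 5) (nat_lit 17) (nat_lit 4) (nat_lit 15) (nat_lit 4) (nat_lit 286) (nat_lit 248) (nat_lit 246)) (XT.lf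 (nat_lit 0) (nat_lit 2497670403) (nat_lit 152) (nat_lit 6333727550) (nat_lit 152) (nat_lit 4695159036) (nat_lit 13) (nat_lit 4) (nat_lit 15) (nat_lit 5) (nat_lit 15) (nat_lit 4) (nat_lit 287) (nat_lit 248) (nat_lit 245))) (XT.nd (nat_lit 78) (nat_lit 152) (nat_lit 0) (XT.lf (nat_lit 0) (nat_lit 10366070920) (nat_lit 152) (nat_lit 2992283691) (nat_lit 152) (nat_lit 886368864) (nat_lit 13) (nat_lit 4) (nat_lit 15) (nat_lit 5) (nat_lit 15) (nat_lit 4) (nat_lit 288) (nat_lit 248) (nat_lit 244)) (XT.lf (nat_lit 0) (nat_lit 2962483790) (nat_lit 152) (nat_lit 11448327734) (nat_lit 0) (nat_lit 611888518) (nat_lit 11) (nat_lit 5) (nat_lit 13) (nat_lit 4) (nat_lit 11) (nat_lit 4) (nat_lit 289) (nat_lit 248) (nat_lit 243)))) (XT.nd (nat_lit 156) (nat_lit 152) (nat_lit 0) (XT.nd (nat_lit 78) (nat_lit 76) (nat_lit 0) (XT.lf (nat_lit 0) (nat_lit 7056154504) (nat_lit 152) (nat_lit 4471856322) (nat_lit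 0) (nat_lit 4334564661) (nat_lit 11) (nat_lit 5) (nat_lit 13) (nat_lit 4) (nat_lit 11) (nat_lit 4) (nat_lit 290) (nat_lit 248) (nat_lit 242)) (XT.lf (nat_lit 0) (nat_lit 2874929583) (nat_lit 76) (nat_lit 8484745651) (nat_lit 76) (nat_lit 5419642318) (nat_lit 10) (nat_lit 4) (nat_lit 11) (nat_lit 5) (nat_lit 11) (nat_lit 4) (nat_lit 291) (nat_lit 248) (nat_lit 241))) (XT.nd (nat_lit 78) (nat_lit 152) (nat_lit 0) (XT.lf (nat_lit 0) (nat_lit 10740553365) (nat_lit 76) (nat_lit 5208469420) (nat_lit 76) (nat_lit 1825298039) (nat_lit 10) (nat_lit 4) (nat_lit 11) (nat_lit 5) (nat_lit 11) (nat_lit 4) (nat_lit 292) (nat_lit 248) (nat_lit 240)) (XT.lf (nat_lit 0) (nat_lit 29998957) (nat_lit 76) (nat_lit 1752538441) (nat_lit 152) (nat_lit 17076334689) (nat_lit 8) (nat_lit 5) (nat_lit 9) (nat_lit 5) (nat_lit 10) (nat_lit 4) (nat_lit 293) (nat_lit 248) (nat_lit 239))))))))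
noncomputable def xc30 : XT := (XT.nd (nat_lit 2262) (nat_lit 76) (nat_lit 0) (XT.nd (nat_lit 1092) (nat_lit 152) (nat_lit 0) (XT.nd (nat_lit 546) (nat_lit 76) (nat_lit 0) (XT.nd (nat_lit 234) (nat_lit 152) (nat_lit 0) (XT.nd (nat_lit 78) (nat_lit 76) (nat_lit 0) (XT.lf (nat_lit 0) (nat_lit 5655684078) (nat_lit 152) (nat_lit 12366948334) (nat_lit 0) (nat_lit 1997933229) (nat_lit 8) (nat_lit 5) (nat_lit 10) (nat_lit 4) (nat_lit 8) (nat_lit 4) (nat_lit 294) (nat_lit 248) (nat_lit 238)) (XT.nd (nat_lit 78) (nat_lit 76) (nat_lit 0) (XT.lf (nat_lit 0) (nat_lit 9727139251) (nat_lit 152) (nat_lit 5721560414) (nat_lit 0) (nat_lit 5835598892) (nat_lit 8) (nat_lit 5) (nat_lit 10) (nat_lit 4) (nat_lit 8) (nat_lit 4) (nat_lit 295) (nat_lit 248) (nat_lit 237)) (XT.lf (nat_lit 0) (nat_lit 1251420414) (nat_lit 76) (nat_lit 12757557744) (nat_lit 76) (nat_lit 8649545616) (nat_lit 7) (nat_lit 4) (nat_lit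 8) (nat_lit 5) (nat_lit 8) (nat_lit 4) (nat_lit 296) (nat_lit 248) (nat_lit 236)))) (XT.nd (nat_lit 156) (nat_lit 152) (nat_lit 0) (XT.nd (nat_lit 78) (nat_lit 0) (nat_lit 0) (XT.lf (nat_lit 0) (nat_lit 8847741037) (nat_lit 76) (nat_lit 9801153583) (nat_lit 76) (nat_lit 5492704632) (nat_lit 7) (nat_lit 4) (nat_lit 8) (nat_lit 5) (nat_lit 8) (nat_lit 4) (nat_lit 297) (nat_lit 248) (nat_lit 235)) (XT.lf (nat_lit 0) (nat_lit 16811129457) (nat_lit 76) (nat_lit 6718405351) (nat_lit 76) (nat_lit 2224366749) (nat_lit 7) (nat_lit 4) (nat_lit 8) (nat_lit 5) (nat_lit 8) (nat_lit 4) (nat_lit 298) (nat_lit 248) (nat_lit 234))) (XT.nd (nat_lit 78) (nat_lit 76) (nat_lit 0) (XT.lf (nat_lit 0) (nat_lit 1116065907) (nat_lit 152) (nat_lit 2344463783) (nat_lit 76) (nat_lit 24042194996) (nat_lit 6) (nat_lit 5) (nat_lit 8) (nat_lit 5) (nat_lit 7) (nat_lit 4) (nat_lit 299) (nat_lit 248) (nat_lit 233)) (XT.lf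 (nat_lit 0) (nat_lit 4606409666) (nat_lit 152) (nat_lit 24641485075) (nat_lit 0) (nat_lit 138822552) (nat_lit 5) (nat_lit 5) (nat_lit 7) (nat_lit 4) (nat_lit 5) (nat_lit 4) (nat_lit 300) (nat_lit 248) (nat_lit 232))))) (XT.nd (nat_lit 234) (nat_lit 76) (nat_lit 0) (XT.nd (nat_lit 78) (nat_lit 0) (nat_lit 0) (XT.lf (nat_lit 0) (nat_lit 8417979281) (nat_lit 152) (nat_lit 19186217199) (nat_lit 0) (nat_lit 3813978233) (nat_lit 5) (nat_lit 5) (nat_lit 7) (nat_lit 4) (nat_lit 5) (nat_lit 4) (nat_lit 301) (nat_lit 248) (nat_lit 231)) (XT.nd (nat_lit 78) (nat_lit 0) (nat_lit 0) (XT.lf (nat_lit 0) (nat_lit 12429240845) (nat_lit 152) (nat_lit 13492493444) (nat_lit 0) (nat_lit 7698930600) (nat_lit 5) (nat_lit 5) (nat_lit 7) (nat_lit 4) (nat_lit 5) (nat_lit 4) (nat_lit 302) (nat_lit 248) (nat_lit 230)) (XT.lf (nat_lit 0) (nat_lit 16663964798) (nat_lit 152) (nat_lit 7526573226) (nat_lit 0) (nat_lit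 11816701592) (nat_lit 5) (nat_lit 5) (nat_lit 7) (nat_lit 4) (nat_lit 5) (nat_lit 4) (nat_lit 303) (nat_lit 248) (nat_lit 229)))) (XT.nd (nat_lit 156) (nat_lit 0) (nat_lit 0) (XT.nd (nat_lit 78) (nat_lit 76) (nat_lit 0) (XT.lf (nat_lit 0) (nat_lit 21147245800) (nat_lit 152) (nat_lit 1253102944) (nat_lit 0) (nat_lit 16191692815) (nat_lit 5) (nat_lit 5) (nat_lit 7) (nat_lit 4) (nat_lit 5) (nat_lit 4) (nat_lit 304) (nat_lit 248) (nat_lit 228)) (XT.lf (nat_lit 0) (nat_lit 5647609839) (nat_lit 76) (nat_lit 20393866755) (nat_lit 76) (nat_lit 15338045457) (nat_lit 4) (nat_lit 4) (nat_lit 5) (nat_lit 5) (nat_lit 5) (nat_lit 4) (nat_lit 305) (nat_lit 248) (nat_lit 227))) (XT.nd (nat_lit 78) (nat_lit 0) (nat_lit 0) (XT.lf (nat_lit 0) (nat_lit 13018471799) (nat_lit 76) (nat_lit 18262002444) (nat_lit 76) (nat_lit 13113340114) (nat_lit 4) (nat_lit 4) (nat_lit 5) (nat_lit 5) (nat_lit 5) (nat_lit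 4) (nat_lit 306) (nat_lit 248) (nat_lit 226)) (XT.lf (nat_lit 0) (nat_lit 20837175938) (nat_lit 76) (nat_lit 16026384595) (nat_lit 76) (nat_lit 10791758347) (nat_lit 4) (nat_lit 4) (nat_lit 5) (nat_lit 5) (nat_lit 5) (nat_lit 4) (nat_lit 307) (nat_lit 248) (nat_lit 225)))))) (XT.nd (nat_lit 546) (nat_lit 0) (nat_lit 0) (XT.nd (nat_lit 234) (nat_lit 152) (nat_lit 0) (XT.nd (nat_lit 78) (nat_lit 0) (nat_lit 0) (XT.lf (nat_lit 0) (nat_lit 29150055317) (nat_lit 76) (nat_lit 13673765103) (nat_lit 76) (nat_lit 8359542635) (nat_lit 4) (nat_lit 4) (nat_lit 5) (nat_lit 5) (nat_lit 5) (nat_lit 4) (nat_lit 308) (nat_lit 248) (nat_lit 224)) (XT.nd (nat_lit 78) (nat_lit 0) (nat_lit 0) (XT.lf (nat_lit 0) (nat_lit 38006371444) (nat_lit 76) (nat_lit 11190202519) (nat_lit 76) (nat_lit 5802279848) (nat_lit 4) (nat_lit 4) (nat_lit 5) (nat_lit 5) (nat_lit 5) (nat_lit 4) (nat_lit 309) (nat_lit 248) (nat_lit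 223)) (XT.lf (nat_lit 0) (nat_lit 47458606191) (nat_lit 76) (nat_lit 8560979435) (nat_lit 76) (nat_lit 3104815835) (nat_lit 4) (nat_lit 4) (nat_lit 5) (nat_lit 5) (nat_lit 5) (nat_lit 4) (nat_lit 310) (nat_lit 248) (nat_lit 222)))) (XT.nd (nat_lit 156) (nat_lit 76) (nat_lit 0) (XT.nd (nat_lit 78) (nat_lit 76) (nat_lit 0) (XT.lf (nat_lit 0) (nat_lit 57562772802) (nat_lit 76) (nat_lit 5770515271) (nat_lit 76) (nat_lit 251165624) (nat_lit 4) (nat_lit 4) (nat_lit 5) (nat_lit 5) (nat_lit 5) (nat_lit 4) (nat_lit 311) (nat_lit 248) (nat_lit 221)) (XT.lf (nat_lit 0) (nat_lit 2636735484) (nat_lit 152) (nat_lit 93445435) (nat_lit 76) (nat_lit 65669919314) (nat_lit 3) (nat_lit 5) (nat_lit 5) (nat_lit 5) (nat_lit 4) (nat_lit 4) (nat_lit 312) (nat_lit 248) (nat_lit 220))) (XT.nd (nat_lit 78) (nat_lit 0) (nat_lit 0) (XT.lf (nat_lit 0) (nat_lit 5867296140) (nat_lit 152) (nat_lit 67070747168) (nat_lit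 0) (nat_lit 652456238) (nat_lit 2) (nat_lit 5) (nat_lit 4) (nat_lit 4) (nat_lit 2) (nat_lit 4) (nat_lit 313) (nat_lit 248) (nat_lit 219)) (XT.lf (nat_lit 0) (nat_lit 9381704097) (nat_lit 152) (nat_lit 65692009784) (nat_lit 0) (nat_lit 4120420566) (nat_lit 2) (nat_lit 5) (nat_lit 4) (nat_lit 4) (nat_lit 2) (nat_lit 4) (nat_lit 314) (nat_lit 248) (nat_lit 218))))) (XT.nd (nat_lit 312) (nat_lit 0) (nat_lit 0) (XT.nd (nat_lit 156) (nat_lit 0) (nat_lit 0) (XT.nd (nat_lit 78) (nat_lit 0) (nat_lit 0) (XT.lf (nat_lit 0) (nat_lit 13132697407) (nat_lit 152) (nat_lit 64288550788) (nat_lit 0) (nat_lit 7828410514) (nat_lit 2) (nat_lit 5) (nat_lit 4) (nat_lit 4) (nat_lit 2) (nat_lit 4) (nat_lit 315) (nat_lit 248) (nat_lit 217)) (XT.lf (nat_lit 0) (nat_lit 17142504177) (nat_lit 152) (nat_lit 62852053387) (nat_lit 0) (nat_lit 11798399357) (nat_lit 2) (nat_lit 5) (nat_lit 4) (nat_lit 4) (nat_lit 2)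 (nat_lit 4) (nat_lit 316) (nat_lit 248) (nat_lit 216))) (XT.nd (nat_lit 78) (nat_lit 0) (nat_lit 0) (XT.lf (nat_lit 0) (nat_lit 21434886226) (nat_lit 152) (nat_lit 61374005002) (nat_lit 0) (nat_lit 16053912955) (nat_lit 2) (nat_lit 5) (nat_lit 4) (nat_lit 4) (nat_lit 2) (nat_lit 4) (nat_lit 317) (nat_lit 248) (nat_lit 215)) (XT.lf (nat_lit 0) (nat_lit 26035279891) (nat_lit 152) (nat_lit 59845646829) (nat_lit 0) (nat_lit 20620169166) (nat_lit 2) (nat_lit 5) (nat_lit 4) (nat_lit 4) (nat_lit 2) (nat_lit 4) (nat_lit 318) (nat_lit 248) (nat_lit 214)))) (XT.nd (nat_lit 156) (nat_lit 0) (nat_lit 0) (XT.nd (nat_lit 78) (nat_lit 0) (nat_lit 0) (XT.lf (nat_lit 0) (nat_lit 30970946765) (nat_lit 152) (nat_lit 58257921930) (nat_lit 0) (nat_lit 25524227285) (nat_lit 2) (nat_lit 5) (nat_lit 4) (nat_lit 4) (nat_lit 2) (nat_lit 4) (nat_lit 319) (nat_lit 248) (nat_lit 213)) (XT.lf (nat_lit 0) (nat_lit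 36271135243) (nat_lit 152) (nat_lit 56601421565) (nat_lit 0) (nat_lit 30795148399) (nat_lit 2) (nat_lit 5) (nat_lit 4) (nat_lit 4) (nat_lit 2) (nat_lit 4) (nat_lit 320) (nat_lit 248) (nat_lit 212))) (XT.nd (nat_lit 78) (nat_lit 0) (nat_lit 0) (XT.lf (nat_lit 0) (nat_lit 41967253851) (nat_lit 152) (nat_lit 54866329435) (nat_lit 0) (nat_lit 36464167595) (nat_lit 2) (nat_lit 5) (nat_lit 4) (nat_lit 4) (nat_lit 2) (nat_lit 4) (nat_lit 321) (nat_lit 248) (nat_lit 211)) (XT.lf (nat_lit 0) (nat_lit 48093057365) (nat_lit 152) (nat_lit 53042363514) (nat_lit 0) (nat_lit 42564879061) (nat_lit 2) (nat_lit 5) (nat_lit 4) (nat_lit 4) (nat_lit 2) (nat_lit 4) (nat_lit 322) (nat_lit 248) (nat_lit 210))))))) (XT.nd (nat_lit 1170) (nat_lit 76) (nat_lit 0) (XT.nd (nat_lit 546) (nat_lit 0) (nat_lit 0) (XT.nd (nat_lit 234) (nat_lit 0) (nat_lit 0) (XT.nd (nat_lit 78) (nat_lit 0) (nat_lit 0) (XT.lf (nat_lit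 0) (nat_lit 54684846843) (nat_lit 152) (nat_lit 51118715114) (nat_lit 0) (nat_lit 49133435161) (nat_lit 2) (nat_lit 5) (nat_lit 4) (nat_lit 4) (nat_lit 2) (nat_lit 4) (nat_lit 323) (nat_lit 248) (nat_lit 209)) (XT.nd (nat_lit 78) (nat_lit 0) (nat_lit 0) (XT.lf (nat_lit 0) (nat_lit 61781684741) (nat_lit 152) (nat_lit 49083984837) (nat_lit 0) (nat_lit 56208760672) (nat_lit 2) (nat_lit 5) (nat_lit 4) (nat_lit 4) (nat_lit 2) (nat_lit 4) (nat_lit 324) (nat_lit 248) (nat_lit 208)) (XT.lf (nat_lit 0) (nat_lit 69425626395) (nat_lit 152) (nat_lit 46926115023) (nat_lit 0) (nat_lit 63832783449) (nat_lit 2) (nat_lit 5) (nat_lit 4) (nat_lit 4) (nat_lit 2) (nat_lit 4) (nat_lit 325) (nat_lit 248) (nat_lit 207)))) (XT.nd (nat_lit 156) (nat_lit 0) (nat_lit 0) (XT.nd (nat_lit 78) (nat_lit 0) (nat_lit 0) (XT.lf (nat_lit 0) (nat_lit 77661969237) (nat_lit 152) (nat_lit 44632318295) (nat_lit 0) (nat_lit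 72050682887) (nat_lit 2) (nat_lit 5) (nat_lit 4) (nat_lit 4) (nat_lit 2) (nat_lit 4) (nat_lit 326) (nat_lit 248) (nat_lit 206)) (XT.lf (nat_lit 0) (nat_lit 86539521224) (nat_lit 152) (nat_lit 42189001782) (nat_lit 0) (nat_lit 80911157648) (nat_lit 2) (nat_lit 5) (nat_lit 4) (nat_lit 4) (nat_lit 2) (nat_lit 4) (nat_lit 327) (nat_lit 248) (nat_lit 205))) (XT.nd (nat_lit 78) (nat_lit 0) (nat_lit 0) (XT.lf (nat_lit 0) (nat_lit 96110890073) (nat_lit 152) (nat_lit 39581686574) (nat_lit 0) (nat_lit 90466714249) (nat_lit 2) (nat_lit 5) (nat_lit 4) (nat_lit 4) (nat_lit 2) (nat_lit 4) (nat_lit 328) (nat_lit 248) (nat_lit 204)) (XT.lf (nat_lit 0) (nat_lit 106432795005) (nat_lit 152) (nat_lit 36794921912) (nat_lit 0) (nat_lit 100773978213) (nat_lit 2) (nat_lit 5) (nat_lit 4) (nat_lit 4) (nat_lit 2) (nat_lit 4) (nat_lit 329) (nat_lit 248) (nat_lit 203))))) (XT.nd (nat_lit 312) (nat_lit 0) (nat_lit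 0) (XT.nd (nat_lit 156) (nat_lit 0) (nat_lit 0) (XT.nd (nat_lit 78) (nat_lit 0) (nat_lit 0) (XT.lf (nat_lit 0) (nat_lit 117566402865) (nat_lit 152) (nat_lit 33812193636) (nat_lit 0) (nat_lit 111894029620) (nat_lit 2) (nat_lit 5) (nat_lit 4) (nat_lit 4) (nat_lit 2) (nat_lit 4) (nat_lit 330) (nat_lit 248) (nat_lit 202)) (XT.lf (nat_lit 0) (nat_lit 129577690588) (nat_lit 152) (nat_lit 30615826318) (nat_lit 0) (nat_lit 123892765072) (nat_lit 2) (nat_lit 5) (nat_lit 4) (nat_lit 4) (nat_lit 2) (nat_lit 4) (nat_lit 331) (nat_lit 248) (nat_lit 201))) (XT.nd (nat_lit 78) (nat_lit 0) (nat_lit 0) (XT.lf (nat_lit 0) (nat_lit 142537836176) (nat_lit 152) (nat_lit 27186878524) (nat_lit 0) (nat_lit 136841288186) (nat_lit 2) (nat_lit 5) (nat_lit 4) (nat_lit 4) (nat_lit 2) (nat_lit 4) (nat_lit 332) (nat_lit 248) (nat_lit 200)) (XT.lf (nat_lit 0) (nat_lit 156523640491) (nat_lit 152) (nat_lit 23505030563)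 (nat_lit 0) (nat_lit 150816330952) (nat_lit 2) (nat_lit 5) (nat_lit 4) (nat_lit 4) (nat_lit 2) (nat_lit 4) (nat_lit 333) (nat_lit 248) (nat_lit 199)))) (XT.nd (nat_lit 156) (nat_lit 0) (nat_lit 0) (XT.nd (nat_lit 78) (nat_lit 0) (nat_lit 0) (XT.lf (nat_lit 0) (nat_lit 171617982374) (nat_lit 152) (nat_lit 19548464075) (nat_lit 0) (nat_lit 165900708437) (nat_lit 2) (nat_lit 5) (nat_lit 4) (nat_lit 4) (nat_lit 2) (nat_lit 4) (nat_lit 334) (nat_lit 248) (nat_lit 198)) (XT.lf (nat_lit 0) (nat_lit 187910309776) (nat_lit 152) (nat_lit 15293732742) (nat_lit 0) (nat_lit 182183809545) (nat_lit 2) (nat_lit 5) (nat_lit 4) (nat_lit 4) (nat_lit 2) (nat_lit 4) (nat_lit 335) (nat_lit 248) (nat_lit 197))) (XT.nd (nat_lit 78) (nat_lit 0) (nat_lit 0) (XT.lf (nat_lit 0) (nat_lit 205497169823) (nat_lit 152) (nat_lit 10715623340) (nat_lit 0) (nat_lit 199762126728) (nat_lit 2) (nat_lit 5) (nat_lit 4) (nat_lit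 4) (nat_lit 2) (nat_lit 4) (nat_lit 336) (nat_lit 248) (nat_lit 196)) (XT.lf (nat_lit 0) (nat_lit 224482780946) (nat_lit 152) (nat_lit 5787006332) (nat_lit 0) (nat_lit 218739827790) (nat_lit 2) (nat_lit 5) (nat_lit 4) (nat_lit 4) (nat_lit 2) (nat_lit 4) (nat_lit 337) (nat_lit 248) (nat_lit 195)))))) (XT.nd (nat_lit 546) (nat_lit 0) (nat_lit 0) (XT.nd (nat_lit 234) (nat_lit 0) (nat_lit 0) (XT.nd (nat_lit 78) (nat_lit 76) (nat_lit 0) (XT.lf (nat_lit 0) (nat_lit 244979650468) (nat_lit 152) (nat_lit 478675100) (nat_lit 0) (nat_lit 239229373183) (nat_lit 2) (nat_lit 5) (nat_lit 4) (nat_lit 4) (nat_lit 2) (nat_lit 4) (nat_lit 338) (nat_lit 248) (nat_lit 194)) (XT.nd (nat_lit 78) (nat_lit 0) (nat_lit 0) (XT.lf (nat_lit 0) (nat_lit 5516799804) (nat_lit 76) (nat_lit 261725120684) (nat_lit 76) (nat_lit 255968061798) (nat_lit 1) (nat_lit 4) (nat_lit 2) (nat_lit 5) (nat_lit 2) (nat_lit 4) (nat_lit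 339) (nat_lit 248) (nat_lit 193)) (XT.lf (nat_lit 0) (nat_lit 12005981540) (nat_lit 76) (nat_lit 279285454424) (nat_lit 76) (nat_lit 273522116277) (nat_lit 1) (nat_lit 4) (nat_lit 2) (nat_lit 5) (nat_lit 2) (nat_lit 4) (nat_lit 340) (nat_lit 248) (nat_lit 192)))) (XT.nd (nat_lit 156) (nat_lit 0) (nat_lit 0) (XT.nd (nat_lit 78) (nat_lit 0) (nat_lit 0) (XT.lf (nat_lit 0) (nat_lit 19002118336) (nat_lit 76) (nat_lit 298256475851) (nat_lit 76) (nat_lit 292487323573) (nat_lit 1) (nat_lit 4) (nat_lit 2) (nat_lit 5) (nat_lit 2) (nat_lit 4) (nat_lit 341) (nat_lit 248) (nat_lit 191)) (XT.lf (nat_lit 0) (nat_lit 26546668780) (nat_lit 76) (nat_lit 318750605831) (nat_lit 76) (nat_lit 312976070100) (nat_lit 1) (nat_lit 4) (nat_lit 2) (nat_lit 5) (nat_lit 2) (nat_lit 4) (nat_lit 342) (nat_lit 248) (nat_lit 190))) (XT.nd (nat_lit 78) (nat_lit 0) (nat_lit 0) (XT.lf (nat_lit 0) (nat_lit 34684341319)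 (nat_lit 76) (nat_lit 340889291062) (nat_lit 76) (nat_lit 335109770651) (nat_lit 1) (nat_lit 4) (nat_lit 2) (nat_lit 5) (nat_lit 2) (nat_lit 4) (nat_lit 343) (nat_lit 248) (nat_lit 189)) (XT.lf (nat_lit 0) (nat_lit 43463359197) (nat_lit 76) (nat_lit 364803723752) (nat_lit 76) (nat_lit 359019587897) (nat_lit 1) (nat_lit 4) (nat_lit 2) (nat_lit 5) (nat_lit 2) (nat_lit 4) (nat_lit 344) (nat_lit 248) (nat_lit 188))))) (XT.nd (nat_lit 312) (nat_lit 0) (nat_lit 0) (XT.nd (nat_lit 156) (nat_lit 0) (nat_lit 0) (XT.nd (nat_lit 78) (nat_lit 0) (nat_lit 0) (XT.lf (nat_lit 0) (nat_lit 52935746225) (nat_lit 76) (nat_lit 390635619057) (nat_lit 76) (nat_lit 384847209643) (nat_lit 1) (nat_lit 4) (nat_lit 2) (nat_lit 5) (nat_lit 2) (nat_lit 4) (nat_lit 345) (nat_lit 248) (nat_lit 187)) (XT.lf (nat_lit 0) (nat_lit 63157635066) (nat_lit 76) (nat_lit 418538054877) (nat_lit 76) (nat_lit 412745688463) (nat_lit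 1) (nat_lit 4) (nat_lit 2) (nat_lit 5) (nat_lit 2) (nat_lit 4) (nat_lit 346) (nat_lit 248) (nat_lit 186))) (XT.nd (nat_lit 78) (nat_lit 0) (nat_lit 0) (XT.lf (nat_lit 0) (nat_lit 74189599876) (nat_lit 76) (nat_lit 448676378978) (nat_lit 76) (nat_lit 442880348676) (nat_lit 1) (nat_lit 4) (nat_lit 2) (nat_lit 5) (nat_lit 2) (nat_lit 4) (nat_lit 347) (nat_lit 248) (nat_lit 185)) (XT.lf (nat_lit 0) (nat_lit 86097015262) (nat_lit 76) (nat_lit 481229188837) (nat_lit 76) (nat_lit 475429766045) (nat_lit 1) (nat_lit 4) (nat_lit 2) (nat_lit 5) (nat_lit 2) (nat_lit 4) (nat_lit 348) (nat_lit 248) (nat_lit 184)))) (XT.nd (nat_lit 156) (nat_lit 0) (nat_lit 0) (XT.nd (nat_lit 78) (nat_lit 0) (nat_lit 0) (XT.lf (nat_lit 0) (nat_lit 98950443684) (nat_lit 76) (nat_lit 516389389993) (nat_lit 76) (nat_lit 510586826008) (nat_lit 1) (nat_lit 4) (nat_lit 2) (nat_lit 5) (nat_lit 2) (nat_lit 4) (nat_lit 349)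 (nat_lit 248) (nat_lit 183)) (XT.lf (nat_lit 0) (nat_lit 112826053609) (nat_lit 76) (nat_lit 554365339195) (nat_lit 76) (nat_lit 548559866697) (nat_lit 1) (nat_lit 4) (nat_lit 2) (nat_lit 5) (nat_lit 2) (nat_lit 4) (nat_lit 350) (nat_lit 248) (nat_lit 182))) (XT.nd (nat_lit 78) (nat_lit 0) (nat_lit 0) (XT.lf (nat_lit 0) (nat_lit 127806070872) (nat_lit 76) (nat_lit 595382079104) (nat_lit 76) (nat_lit 589573913539) (nat_lit 1) (nat_lit 4) (nat_lit 2) (nat_lit 5) (nat_lit 2) (nat_lit 4) (nat_lit 351) (nat_lit 248) (nat_lit 181)) (XT.lf (nat_lit 0) (nat_lit 143979265946) (nat_lit 76) (nat_lit 639682671883) (nat_lit 76) (nat_lit 633872012737) (nat_lit 1) (nat_lit 4) (nat_lit 2) (nat_lit 5) (nat_lit 2) (nat_lit 4) (nat_lit 352) (nat_lit 248) (nat_lit 180))))))))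
noncomputable def xc31 : XT := (XT.nd (nat_lit 36192) (nat_lit 0) (nat_lit 76) (XT.nd (nat_lit 1092) (nat_lit 0) (nat_lit 0) (XT.nd (nat_lit 546) (nat_lit 0) (nat_lit 0) (XT.nd (nat_lit 234) (nat_lit 0) (nat_lit 0) (XT.nd (nat_lit 78) (nat_lit 0) (nat_lit 0) (XT.lf (nat_lit 0) (nat_lit 161441479987) (nat_lit 76) (nat_lit 687529639562) (nat_lit 76) (nat_lit 681716671546) (nat_lit 1) (nat_lit 4) (nat_lit 2) (nat_lit 5) (nat_lit 2) (nat_lit 4) (nat_lit 353) (nat_lit 248) (nat_lit 179)) (XT.nd (nat_lit 78) (nat_lit 0) (nat_lit 0) (XT.lf (nat_lit 0) (nat_lit 180296192782) (nat_lit 76) (nat_lit 739206519729) (nat_lit 76) (nat_lit 733391413869) (nat_lit 1) (nat_lit 4) (nat_lit 2) (nat_lit 5) (nat_lit 2) (nat_lit 4) (nat_lit 354) (nat_lit 248) (nat_lit 178)) (XT.lf (nat_lit 0) (nat_lit 200655135962) (nat_lit 76) (nat_lit 795019545747) (nat_lit 76) (nat_lit 789202460402) (nat_lit 1) (nat_lit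 4) (nat_lit 2) (nat_lit 5) (nat_lit 2) (nat_lit 4) (nat_lit 355) (nat_lit 248) (nat_lit 177)))) (XT.nd (nat_lit 156) (nat_lit 0) (nat_lit 0) (XT.nd (nat_lit 78) (nat_lit 0) (nat_lit 0) (XT.lf (nat_lit 0) (nat_lit 222638955117) (nat_lit 76) (nat_lit 855299461475) (nat_lit 76) (nat_lit 849480543273) (nat_lit 1) (nat_lit 4) (nat_lit 2) (nat_lit 5) (nat_lit 2) (nat_lit 4) (nat_lit 356) (nat_lit 248) (nat_lit 176)) (XT.lf (nat_lit 0) (nat_lit 246377924731) (nat_lit 76) (nat_lit 920403481226) (nat_lit 76) (nat_lit 914582865935) (nat_lit 1) (nat_lit 4) (nat_lit 2) (nat_lit 5) (nat_lit 2) (nat_lit 4) (nat_lit 357) (nat_lit 248) (nat_lit 175))) (XT.nd (nat_lit 78) (nat_lit 0) (nat_lit 0) (XT.lf (nat_lit 0) (nat_lit 272012720178) (nat_lit 76) (nat_lit 990717406601) (nat_lit 76) (nat_lit 984895219931) (nat_lit 1) (nat_lit 4) (nat_lit 2) (nat_lit 5) (nat_lit 2) (nat_lit 4) (nat_lit 358) (nat_lit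 248) (nat_lit 174)) (XT.lf (nat_lit 0) (nat_lit 299695251359) (nat_lit 76) (nat_lit 1066657912711) (nat_lit 76) (nat_lit 1060834271061) (nat_lit 1) (nat_lit 4) (nat_lit 2) (nat_lit 5) (nat_lit 2) (nat_lit 4) (nat_lit 359) (nat_lit 248) (nat_lit 173))))) (XT.nd (nat_lit 234) (nat_lit 0) (nat_lit 0) (XT.nd (nat_lit 78) (nat_lit 0) (nat_lit 0) (XT.lf (nat_lit 0) (nat_lit 329589562901) (nat_lit 76) (nat_lit 1148675017373) (nat_lit 76) (nat_lit 1142850028518) (nat_lit 1) (nat_lit 4) (nat_lit 2) (nat_lit 5) (nat_lit 2) (nat_lit 4) (nat_lit 360) (nat_lit 248) (nat_lit 172)) (XT.nd (nat_lit 78) (nat_lit 0) (nat_lit 0) (XT.lf (nat_lit 0) (nat_lit 361872806281) (nat_lit 76) (nat_lit 1237254747871) (nat_lit 76) (nat_lit 1231428511605) (nat_lit 1) (nat_lit 4) (nat_lit 2) (nat_lit 5) (nat_lit 2) (nat_lit 4) (nat_lit 361) (nat_lit 248) (nat_lit 171)) (XT.lf (nat_lit 0) (nat_lit 396736289608) (nat_lit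 76) (nat_lit 1332922021128) (nat_lit 76) (nat_lit 1327094629852) (nat_lit 1) (nat_lit 4) (nat_lit 2) (nat_lit 5) (nat_lit 2) (nat_lit 4) (nat_lit 362) (nat_lit 248) (nat_lit 170)))) (XT.nd (nat_lit 156) (nat_lit 0) (nat_lit 0) (XT.nd (nat_lit 78) (nat_lit 0) (nat_lit 0) (XT.lf (nat_lit 0) (nat_lit 434386611302) (nat_lit 76) (nat_lit 1436243754318) (nat_lit 76) (nat_lit 1430415293588) (nat_lit 1) (nat_lit 4) (nat_lit 2) (nat_lit 5) (nat_lit 2) (nat_lit 4) (nat_lit 363) (nat_lit 248) (nat_lit 169)) (XT.lf (nat_lit 0) (nat_lit 475046884380) (nat_lit 76) (nat_lit 1547832224380) (nat_lit 76) (nat_lit 1542002773415) (nat_lit 1) (nat_lit 4) (nat_lit 2) (nat_lit 5) (nat_lit 2) (nat_lit 4) (nat_lit 364) (nat_lit 248) (nat_lit 168))) (XT.nd (nat_lit 78) (nat_lit 0) (nat_lit 0) (XT.lf (nat_lit 0) (nat_lit 518958058608) (nat_lit 76) (nat_lit 1668348696320) (nat_lit 76) (nat_lit 1662518328470) (nat_lit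 1) (nat_lit 4) (nat_lit 2) (nat_lit 5) (nat_lit 2) (nat_lit 4) (nat_lit 365) (nat_lit 248) (nat_lit 167)) (XT.lf (nat_lit 0) (nat_lit 566380348352) (nat_lit 76) (nat_lit 1798507341824) (nat_lit 76) (nat_lit 1792676125008) (nat_lit 1) (nat_lit 4) (nat_lit 2) (nat_lit 5) (nat_lit 2) (nat_lit 4) (nat_lit 366) (nat_lit 248) (nat_lit 166)))))) (XT.nd (nat_lit 34476) (nat_lit 0) (nat_lit 532) (XT.nd (nat_lit 34164) (nat_lit 0) (nat_lit 912) (XT.nd (nat_lit 34008) (nat_lit 0) (nat_lit 1368) (XT.lf (nat_lit 0) (nat_lit 617594774589) (nat_lit 76) (nat_lit 1939079471385) (nat_lit 76) (nat_lit 1933247468488) (nat_lit 1) (nat_lit 4) (nat_lit 2) (nat_lit 5) (nat_lit 2) (nat_lit 4) (nat_lit 367) (nat_lit 248) (nat_lit 165)) (XT.nd (nat_lit 78) (nat_lit 0) (nat_lit 0) (XT.lf (nat_lit 0) (nat_lit 286792931) (nat_lit 152) (nat_lit 4790165440) (nat_lit 0) (nat_lit 286792931) (nat_lit 19) (nat_lit 5)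 (nat_lit 21) (nat_lit 4) (nat_lit 19) (nat_lit 4) (nat_lit 282) (nat_lit 249) (nat_lit 249)) (XT.lf (nat_lit 0) (nat_lit 4590459923) (nat_lit 152) (nat_lit 2704396042) (nat_lit 0) (nat_lit 3903774864) (nat_lit 19) (nat_lit 5) (nat_lit 21) (nat_lit 4) (nat_lit 19) (nat_lit 4) (nat_lit 283) (nat_lit 249) (nat_lit 248)))) (XT.nd (nat_lit 156) (nat_lit 228) (nat_lit 0) (XT.nd (nat_lit 78) (nat_lit 76) (nat_lit 0) (XT.lf (nat_lit 0) (nat_lit 4578000366) (nat_lit 152) (nat_lit 4231009065) (nat_lit 152) (nat_lit 2908504508) (nat_lit 17) (nat_lit 4) (nat_lit 19) (nat_lit 5) (nat_lit 19) (nat_lit 4) (nat_lit 284) (nat_lit 249) (nat_lit 247)) (XT.lf (nat_lit 0) (nat_lit 880941483) (nat_lit 228) (nat_lit 78868029) (nat_lit 76) (nat_lit 11328572068) (nat_lit 16) (nat_lit 5) (nat_lit 19) (nat_lit 5) (nat_lit 17) (nat_lit 4) (nat_lit 285) (nat_lit 249) (nat_lit 246))) (XT.nd (nat_lit 78) (nat_lit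 152) (nat_lit 0) (XT.lf (nat_lit 0) (nat_lit 4851170615) (nat_lit 152) (nat_lit 5468530299) (nat_lit 0) (nat_lit 2576782602) (nat_lit 15) (nat_lit 5) (nat_lit 17) (nat_lit 4) (nat_lit 15) (nat_lit 4) (nat_lit 286) (nat_lit 249) (nat_lit 245)) (XT.lf (nat_lit 0) (nat_lit 1694168068) (nat_lit 152) (nat_lit 7306129097) (nat_lit 152) (nat_lit 4564394771) (nat_lit 13) (nat_lit 4) (nat_lit 15) (nat_lit 5) (nat_lit 15) (nat_lit 4) (nat_lit 287) (nat_lit 249) (nat_lit 244))))) (XT.nd (nat_lit 312) (nat_lit 152) (nat_lit 0) (XT.nd (nat_lit 156) (nat_lit 76) (nat_lit 0) (XT.nd (nat_lit 78) (nat_lit 152) (nat_lit 0) (XT.lf (nat_lit 0) (nat_lit 9397463137) (nat_lit 152) (nat_lit 4033846866) (nat_lit 152) (nat_lit 859384474) (nat_lit 13) (nat_lit 4) (nat_lit 15) (nat_lit 5) (nat_lit 15) (nat_lit 4) (nat_lit 288) (nat_lit 249) (nat_lit 243)) (XT.lf (nat_lit 0) (nat_lit 2356284055) (nat_lit 76) (nat_lit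 495360456) (nat_lit 152) (nat_lit 12228030164) (nat_lit 11) (nat_lit 5) (nat_lit 12) (nat_lit 5) (nat_lit 13) (nat_lit 4) (nat_lit 289) (nat_lit 249) (nat_lit 242))) (XT.nd (nat_lit 78) (nat_lit 76) (nat_lit 0) (XT.lf (nat_lit 0) (nat_lit 6843600945) (nat_lit 152) (nat_lit 5894437912) (nat_lit 0) (nat_lit 3189775853) (nat_lit 11) (nat_lit 5) (nat_lit 13) (nat_lit 4) (nat_lit 11) (nat_lit 4) (nat_lit 290) (nat_lit 249) (nat_lit 241)) (XT.lf (nat_lit 0) (nat_lit 1222041488) (nat_lit 76) (nat_lit 9802179254) (nat_lit 76) (nat_lit 5830286115) (nat_lit 10) (nat_lit 4) (nat_lit 11) (nat_lit 5) (nat_lit 11) (nat_lit 4) (nat_lit 291) (nat_lit 249) (nat_lit 240)))) (XT.nd (nat_lit 156) (nat_lit 76) (nat_lit 0) (XT.nd (nat_lit 78) (nat_lit 76) (nat_lit 0) (XT.lf (nat_lit 0) (nat_lit 8943780198) (nat_lit 76) (nat_lit 6589337902) (nat_lit 76) (nat_lit 2322937312) (nat_lit 10) (nat_lit 4) (nat_lit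 11) (nat_lit 5) (nat_lit 11) (nat_lit 4) (nat_lit 292) (nat_lit 249) (nat_lit 239)) (XT.lf (nat_lit 0) (nat_lit 1232548722) (nat_lit 152) (nat_lit 1975391333) (nat_lit 76) (nat_lit 15739897224) (nat_lit 9) (nat_lit 5) (nat_lit 11) (nat_lit 5) (nat_lit 10) (nat_lit 4) (nat_lit 293) (nat_lit 249) (nat_lit 238))) (XT.nd (nat_lit 78) (nat_lit 0) (nat_lit 0) (XT.lf (nat_lit 0) (nat_lit 4943872688) (nat_lit 152) (nat_lit 14671471112) (nat_lit 0) (nat_lit 507219590) (nat_lit 8) (nat_lit 5) (nat_lit 10) (nat_lit 4) (nat_lit 8) (nat_lit 4) (nat_lit 294) (nat_lit 249) (nat_lit 237)) (XT.lf (nat_lit 0) (nat_lit 8945409894) (nat_lit 152) (nat_lit 8154275136) (nat_lit 0) (nat_lit 4292285027) (nat_lit 8) (nat_lit 5) (nat_lit 10) (nat_lit 4) (nat_lit 8) (nat_lit 4) (nat_lit 295) (nat_lit 249) (nat_lit 236))))))) (XT.nd (nat_lit 1170) (nat_lit 152) (nat_lit 0) (XT.nd (nat_lit 546) (nat_lit 76) (nat_lit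 0) (XT.nd (nat_lit 234) (nat_lit 152) (nat_lit 0) (XT.nd (nat_lit 78) (nat_lit 76) (nat_lit 0) (XT.lf (nat_lit 0) (nat_lit 13132413252) (nat_lit 152) (nat_lit 1362591668) (nat_lit 0) (nat_lit 8278851562) (nat_lit 8) (nat_lit 5) (nat_lit 10) (nat_lit 4) (nat_lit 8) (nat_lit 4) (nat_lit 296) (nat_lit 249) (nat_lit 235)) (XT.nd (nat_lit 78) (nat_lit 0) (nat_lit 0) (XT.lf (nat_lit 0) (nat_lit 6046286016) (nat_lit 76) (nat_lit 11628821941) (nat_lit 76) (nat_lit 6589670601) (nat_lit 7) (nat_lit 4) (nat_lit 8) (nat_lit 5) (nat_lit 8) (nat_lit 4) (nat_lit 297) (nat_lit 249) (nat_lit 234)) (XT.lf (nat_lit 0) (nat_lit 13902552884) (nat_lit 76) (nat_lit 8595115848) (nat_lit 76) (nat_lit 3384122239) (nat_lit 7) (nat_lit 4) (nat_lit 8) (nat_lit 5) (nat_lit 8) (nat_lit 4) (nat_lit 298) (nat_lit 249) (nat_lit 233)))) (XT.nd (nat_lit 156) (nat_lit 0) (nat_lit 0) (XT.nd (nat_lit 78) (nat_lit 152) (nat_lit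 0) (XT.lf (nat_lit 0) (nat_lit 22181012928) (nat_lit 76) (nat_lit 5413164796) (nat_lit 76) (nat_lit 43057975) (nat_lit 7) (nat_lit 4) (nat_lit 8) (nat_lit 5) (nat_lit 8) (nat_lit 4) (nat_lit 299) (nat_lit 249) (nat_lit 232)) (XT.lf (nat_lit 0) (nat_lit 1374935709) (nat_lit 76) (nat_lit 1938703511) (nat_lit 152) (nat_lit 26218586581) (nat_lit 5) (nat_lit 5) (nat_lit 6) (nat_lit 5) (nat_lit 7) (nat_lit 4) (nat_lit 300) (nat_lit 249) (nat_lit 231))) (XT.nd (nat_lit 78) (nat_lit 0) (nat_lit 0) (XT.lf (nat_lit 0) (nat_lit 7027989883) (nat_lit 152) (nat_lit 22750572096) (nat_lit 0) (nat_lit 1792945620) (nat_lit 5) (nat_lit 5) (nat_lit 7) (nat_lit 4) (nat_lit 5) (nat_lit 4) (nat_lit 301) (nat_lit 249) (nat_lit 230)) (XT.lf (nat_lit 0) (nat_lit 10992405997) (nat_lit 152) (nat_lit 17144974032) (nat_lit 0) (nat_lit 5640408773) (nat_lit 5) (nat_lit 5) (nat_lit 7) (nat_lit 4) (nat_lit 5) (nat_lit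 4) (nat_lit 302) (nat_lit 249) (nat_lit 229))))) (XT.nd (nat_lit 312) (nat_lit 0) (nat_lit 0) (XT.nd (nat_lit 156) (nat_lit 76) (nat_lit 0) (XT.nd (nat_lit 78) (nat_lit 0) (nat_lit 0) (XT.lf (nat_lit 0) (nat_lit 15183754533) (nat_lit 152) (nat_lit 11260651677) (nat_lit 0) (nat_lit 9723467531) (nat_lit 5) (nat_lit 5) (nat_lit 7) (nat_lit 4) (nat_lit 5) (nat_lit 4) (nat_lit 303) (nat_lit 249) (nat_lit 228)) (XT.lf (nat_lit 0) (nat_lit 19626873112) (nat_lit 152) (nat_lit 5062734971) (nat_lit 0) (nat_lit 14066317796) (nat_lit 5) (nat_lit 5) (nat_lit 7) (nat_lit 4) (nat_lit 5) (nat_lit 4) (nat_lit 304) (nat_lit 249) (nat_lit 227))) (XT.nd (nat_lit 78) (nat_lit 0) (nat_lit 0) (XT.lf (nat_lit 0) (nat_lit 1563728513) (nat_lit 76) (nat_lit 22821970520) (nat_lit 76) (nat_lit 17168574172) (nat_lit 4) (nat_lit 4) (nat_lit 5) (nat_lit 5) (nat_lit 5) (nat_lit 4) (nat_lit 305) (nat_lit 249) (nat_lit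 226)) (XT.lf (nat_lit 0) (nat_lit 8866404523) (nat_lit 76) (nat_lit 20722219481) (nat_lit 76) (nat_lit 14982859216) (nat_lit 4) (nat_lit 4) (nat_lit 5) (nat_lit 5) (nat_lit 5) (nat_lit 4) (nat_lit 306) (nat_lit 249) (nat_lit 225)))) (XT.nd (nat_lit 156) (nat_lit 0) (nat_lit 0) (XT.nd (nat_lit 78) (nat_lit 0) (nat_lit 0) (XT.lf (nat_lit 0) (nat_lit 16621973522) (nat_lit 76) (nat_lit 18516336144) (nat_lit 76) (nat_lit 12697379659) (nat_lit 4) (nat_lit 4) (nat_lit 5) (nat_lit 5) (nat_lit 5) (nat_lit 4) (nat_lit 307) (nat_lit 249) (nat_lit 224)) (XT.lf (nat_lit 0) (nat_lit 24876394438) (nat_lit 76) (nat_lit 16191248607) (nat_lit 76) (nat_lit 10298591919) (nat_lit 4) (nat_lit 4) (nat_lit 5) (nat_lit 5) (nat_lit 5) (nat_lit 4) (nat_lit 308) (nat_lit 249) (nat_lit 223))) (XT.nd (nat_lit 78) (nat_lit 0) (nat_lit 0) (XT.lf (nat_lit 0) (nat_lit 33678582358) (nat_lit 76) (nat_lit 13733178575)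 (nat_lit 76) (nat_lit 7772280957) (nat_lit 4) (nat_lit 4) (nat_lit 5) (nat_lit 5) (nat_lit 5) (nat_lit 4) (nat_lit 309) (nat_lit 249) (nat_lit 222)) (XT.lf (nat_lit 0) (nat_lit 43080698396) (nat_lit 76) (nat_lit 11127559706) (nat_lit 76) (nat_lit 5103476042) (nat_lit 4) (nat_lit 4) (nat_lit 5) (nat_lit 5) (nat_lit 5) (nat_lit 4) (nat_lit 310) (nat_lit 249) (nat_lit 221)))))) (XT.nd (nat_lit 546) (nat_lit 0) (nat_lit 0) (XT.nd (nat_lit 234) (nat_lit 0) (nat_lit 0) (XT.nd (nat_lit 78) (nat_lit 152) (nat_lit 0) (XT.lf (nat_lit 0) (nat_lit 53138458794) (nat_lit 76) (nat_lit 8358951295) (nat_lit 76) (nat_lit 2276362033) (nat_lit 4) (nat_lit 4) (nat_lit 5) (nat_lit 5) (nat_lit 5) (nat_lit 4) (nat_lit 311) (nat_lit 249) (nat_lit 220)) (XT.nd (nat_lit 78) (nat_lit 76) (nat_lit 0) (XT.lf (nat_lit 0) (nat_lit 689506163) (nat_lit 152) (nat_lit 4702588290) (nat_lit 76) (nat_lit 63203106612) (nat_lit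 3) (nat_lit 5) (nat_lit 5) (nat_lit 5) (nat_lit 4) (nat_lit 4) (nat_lit 312) (nat_lit 249) (nat_lit 219)) (XT.lf (nat_lit 0) (nat_lit 1642642499) (nat_lit 76) (nat_lit 2121570352) (nat_lit 152) (nat_lit 70033873076) (nat_lit 2) (nat_lit 5) (nat_lit 3) (nat_lit 5) (nat_lit 4) (nat_lit 4) (nat_lit 313) (nat_lit 249) (nat_lit 218)))) (XT.nd (nat_lit 156) (nat_lit 0) (nat_lit 0) (XT.nd (nat_lit 78) (nat_lit 0) (nat_lit 0) (XT.lf (nat_lit 0) (nat_lit 7206170411) (nat_lit 152) (nat_lit 70766825197) (nat_lit 0) (nat_lit 1434537206) (nat_lit 2) (nat_lit 5) (nat_lit 4) (nat_lit 4) (nat_lit 2) (nat_lit 4) (nat_lit 314) (nat_lit 249) (nat_lit 217)) (XT.lf (nat_lit 0) (nat_lit 10937324296) (nat_lit 152) (nat_lit 69401461544) (nat_lit 0) (nat_lit 5125873164) (nat_lit 2) (nat_lit 5) (nat_lit 4) (nat_lit 4) (nat_lit 2) (nat_lit 4) (nat_lit 315) (nat_lit 249) (nat_lit 216))) (XT.nd (nat_lit 78) (nat_lit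 0) (nat_lit 0) (XT.lf (nat_lit 0) (nat_lit 14928761228) (nat_lit 152) (nat_lit 68000237608) (nat_lit 0) (nat_lit 9080441645) (nat_lit 2) (nat_lit 5) (nat_lit 4) (nat_lit 4) (nat_lit 2) (nat_lit 4) (nat_lit 316) (nat_lit 249) (nat_lit 215)) (XT.lf (nat_lit 0) (nat_lit 19204134167) (nat_lit 152) (nat_lit 66554849840) (nat_lit 0) (nat_lit 13321677130) (nat_lit 2) (nat_lit 5) (nat_lit 4) (nat_lit 4) (nat_lit 2) (nat_lit 4) (nat_lit 317) (nat_lit 249) (nat_lit 214))))) (XT.nd (nat_lit 312) (nat_lit 0) (nat_lit 0) (XT.nd (nat_lit 156) (nat_lit 0) (nat_lit 0) (XT.nd (nat_lit 78) (nat_lit 0) (nat_lit 0) (XT.lf (nat_lit 0) (nat_lit 23788778657) (nat_lit 152) (nat_lit 65056732978) (nat_lit 0) (nat_lit 17874712865) (nat_lit 2) (nat_lit 5) (nat_lit 4) (nat_lit 4) (nat_lit 2) (nat_lit 4) (nat_lit 318) (nat_lit 249) (nat_lit 213)) (XT.lf (nat_lit 0) (nat_lit 28709862961) (nat_lit 152) (nat_lit 63497009294)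 (nat_lit 0) (nat_lit 22766529804) (nat_lit 2) (nat_lit 5) (nat_lit 4) (nat_lit 4) (nat_lit 2) (nat_lit 4) (nat_lit 319) (nat_lit 249) (nat_lit 212))) (XT.nd (nat_lit 78) (nat_lit 0) (nat_lit 0) (XT.lf (nat_lit 0) (nat_lit 33996549060) (nat_lit 152) (nat_lit 61866435979) (nat_lit 0) (nat_lit 28026116492) (nat_lit 2) (nat_lit 5) (nat_lit 4) (nat_lit 4) (nat_lit 2) (nat_lit 4) (nat_lit 320) (nat_lit 249) (nat_lit 211)) (XT.lf (nat_lit 0) (nat_lit 39680165465) (nat_lit 152) (nat_lit 60155350378) (nat_lit 0) (nat_lit 33684640848) (nat_lit 2) (nat_lit 5) (nat_lit 4) (nat_lit 4) (nat_lit 2) (nat_lit 4) (nat_lit 321) (nat_lit 249) (nat_lit 210)))) (XT.nd (nat_lit 156) (nat_lit 0) (nat_lit 0) (XT.nd (nat_lit 78) (nat_lit 0) (nat_lit 0) (XT.lf (nat_lit 0) (nat_lit 45794392865) (nat_lit 152) (nat_lit 58353612724) (nat_lit 0) (nat_lit 39775634870) (nat_lit 2) (nat_lit 5) (nat_lit 4) (nat_lit 4)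 (nat_lit 2) (nat_lit 4) (nat_lit 322) (nat_lit 249) (nat_lit 209)) (XT.lf (nat_lit 0) (nat_lit 52375463719) (nat_lit 152) (nat_lit 56450546052) (nat_lit 0) (nat_lit 46335193337) (nat_lit 2) (nat_lit 5) (nat_lit 4) (nat_lit 4) (nat_lit 2) (nat_lit 4) (nat_lit 323) (nat_lit 249) (nat_lit 208))) (XT.nd (nat_lit 78) (nat_lit 0) (nat_lit 0) (XT.lf (nat_lit 0) (nat_lit 59462376965) (nat_lit 152) (nat_lit 54434872931) (nat_lit 0) (nat_lit 53402187707) (nat_lit 2) (nat_lit 5) (nat_lit 4) (nat_lit 4) (nat_lit 2) (nat_lit 4) (nat_lit 324) (nat_lit 249) (nat_lit 207)) (XT.lf (nat_lit 0) (nat_lit 67097129127) (nat_lit 152) (nat_lit 52294648632) (nat_lit 0) (nat_lit 61018496464) (nat_lit 2) (nat_lit 5) (nat_lit 4) (nat_lit 4) (nat_lit 2) (nat_lit 4) (nat_lit 325) (nat_lit 249) (nat_lit 206))))))))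
noncomputable def xc32 : XT := (XT.nd (nat_lit 2262) (nat_lit 0) (nat_lit 0) (XT.nd (nat_lit 1092) (nat_lit 76) (nat_lit 0) (XT.nd (nat_lit 546) (nat_lit 0) (nat_lit 0) (XT.nd (nat_lit 234) (nat_lit 0) (nat_lit 0) (XT.nd (nat_lit 78) (nat_lit 0) (nat_lit 0) (XT.lf (nat_lit 0) (nat_lit 75324963179) (nat_lit 152) (nat_lit 50017190343) (nat_lit 0) (nat_lit 69229253290) (nat_lit 2) (nat_lit 5) (nat_lit 4) (nat_lit 4) (nat_lit 2) (nat_lit 4) (nat_lit 326) (nat_lit 249) (nat_lit 205)) (XT.nd (nat_lit 78) (nat_lit 0) (nat_lit 0) (XT.lf (nat_lit 0) (nat_lit 84194636658) (nat_lit 152) (nat_lit 47589002016) (nat_lit 0) (nat_lit 78083114522) (nat_lit 2) (nat_lit 5) (nat_lit 4) (nat_lit 4) (nat_lit 2) (nat_lit 4) (nat_lit 327) (nat_lit 249) (nat_lit 204)) (XT.lf (nat_lit 0) (nat_lit 93758710591) (nat_lit 152) (nat_lit 44995694386) (nat_lit 0) (nat_lit 87632547486) (nat_lit 2) (nat_lit 5) (nat_lit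 4) (nat_lit 4) (nat_lit 2) (nat_lit 4) (nat_lit 328) (nat_lit 249) (nat_lit 203)))) (XT.nd (nat_lit 156) (nat_lit 0) (nat_lit 0) (XT.nd (nat_lit 78) (nat_lit 0) (nat_lit 0) (XT.lf (nat_lit 0) (nat_lit 104073860972) (nat_lit 152) (nat_lit 42221899704) (nat_lit 0) (nat_lit 97934141414) (nat_lit 2) (nat_lit 5) (nat_lit 4) (nat_lit 4) (nat_lit 2) (nat_lit 4) (nat_lit 329) (nat_lit 249) (nat_lit 202)) (XT.lf (nat_lit 0) (nat_lit 115201214617) (nat_lit 152) (nat_lit 39251180669) (nat_lit 0) (nat_lit 109048942788) (nat_lit 2) (nat_lit 5) (nat_lit 4) (nat_lit 4) (nat_lit 2) (nat_lit 4) (nat_lit 330) (nat_lit 249) (nat_lit 201))) (XT.nd (nat_lit 78) (nat_lit 0) (nat_lit 0) (XT.lf (nat_lit 0) (nat_lit 127206711401) (nat_lit 152) (nat_lit 36065933019) (nat_lit 0) (nat_lit 121042817099) (nat_lit 2) (nat_lit 5) (nat_lit 4) (nat_lit 4) (nat_lit 2) (nat_lit 4) (nat_lit 331) (nat_lit 249) (nat_lit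 200)) (XT.lf (nat_lit 0) (nat_lit 140161495009) (nat_lit 152) (nat_lit 32647281213) (nat_lit 0) (nat_lit 133986839157) (nat_lit 2) (nat_lit 5) (nat_lit 4) (nat_lit 4) (nat_lit 2) (nat_lit 4) (nat_lit 332) (nat_lit 249) (nat_lit 199))))) (XT.nd (nat_lit 234) (nat_lit 0) (nat_lit 0) (XT.nd (nat_lit 78) (nat_lit 0) (nat_lit 0) (XT.lf (nat_lit 0) (nat_lit 154142334527) (nat_lit 152) (nat_lit 28974966574) (nat_lit 0) (nat_lit 147957714278) (nat_lit 2) (nat_lit 5) (nat_lit 4) (nat_lit 4) (nat_lit 2) (nat_lit 4) (nat_lit 333) (nat_lit 249) (nat_lit 198)) (XT.nd (nat_lit 78) (nat_lit 0) (nat_lit 0) (XT.lf (nat_lit 0) (nat_lit 169232079375) (nat_lit 152) (nat_lit 25027227237) (nat_lit 0) (nat_lit 163038232832) (nat_lit 2) (nat_lit 5) (nat_lit 4) (nat_lit 4) (nat_lit 2) (nat_lit 4) (nat_lit 334) (nat_lit 249) (nat_lit 197)) (XT.lf (nat_lit 0) (nat_lit 185520150265) (nat_lit 152) (nat_lit 20780669192)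 (nat_lit 0) (nat_lit 179317760857) (nat_lit 2) (nat_lit 5) (nat_lit 4) (nat_lit 4) (nat_lit 2) (nat_lit 4) (nat_lit 335) (nat_lit 249) (nat_lit 196)))) (XT.nd (nat_lit 156) (nat_lit 0) (nat_lit 0) (XT.nd (nat_lit 78) (nat_lit 0) (nat_lit 0) (XT.lf (nat_lit 0) (nat_lit 203103069096) (nat_lit 152) (nat_lit 16210127649) (nat_lit 0) (nat_lit 196892769628) (nat_lit 2) (nat_lit 5) (nat_lit 4) (nat_lit 4) (nat_lit 2) (nat_lit 4) (nat_lit 336) (nat_lit 249) (nat_lit 195)) (XT.lf (nat_lit 0) (nat_lit 222085030945) (nat_lit 152) (nat_lit 11288517918) (nat_lit 0) (nat_lit 215867407347) (nat_lit 2) (nat_lit 5) (nat_lit 4) (nat_lit 4) (nat_lit 2) (nat_lit 4) (nat_lit 337) (nat_lit 249) (nat_lit 194))) (XT.nd (nat_lit 78) (nat_lit 0) (nat_lit 0) (XT.lf (nat_lit 0) (nat_lit 242578521510) (nat_lit 152) (nat_lit 5986674904) (nat_lit 0) (nat_lit 236354116311) (nat_lit 2) (nat_lit 5) (nat_lit 4) (nat_lit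 4) (nat_lit 2) (nat_lit 4) (nat_lit 338) (nat_lit 249) (nat_lit 193)) (XT.lf (nat_lit 0) (nat_lit 264704983698) (nat_lit 152) (nat_lit 273180279) (nat_lit 0) (nat_lit 258474299239) (nat_lit 2) (nat_lit 5) (nat_lit 4) (nat_lit 4) (nat_lit 2) (nat_lit 4) (nat_lit 339) (nat_lit 249) (nat_lit 192)))))) (XT.nd (nat_lit 546) (nat_lit 0) (nat_lit 0) (XT.nd (nat_lit 234) (nat_lit 0) (nat_lit 0) (XT.nd (nat_lit 78) (nat_lit 0) (nat_lit 0) (XT.lf (nat_lit 0) (nat_lit 6195760748) (nat_lit 76) (nat_lit 282548784733) (nat_lit 76) (nat_lit 276312286143) (nat_lit 1) (nat_lit 4) (nat_lit 2) (nat_lit 5) (nat_lit 2) (nat_lit 4) (nat_lit 340) (nat_lit 249) (nat_lit 191)) (XT.nd (nat_lit 78) (nat_lit 0) (nat_lit 0) (XT.lf (nat_lit 0) (nat_lit 13186475767) (nat_lit 76) (nat_lit 301522415218) (nat_lit 76) (nat_lit 295280533174) (nat_lit 1) (nat_lit 4) (nat_lit 2) (nat_lit 5) (nat_lit 2) (nat_lit 4) (nat_lit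 341) (nat_lit 249) (nat_lit 190)) (XT.lf (nat_lit 0) (nat_lit 20726006047) (nat_lit 76) (nat_lit 322018960992) (nat_lit 76) (nat_lit 315772094269) (nat_lit 1) (nat_lit 4) (nat_lit 2) (nat_lit 5) (nat_lit 2) (nat_lit 4) (nat_lit 342) (nat_lit 249) (nat_lit 189)))) (XT.nd (nat_lit 156) (nat_lit 0) (nat_lit 0) (XT.nd (nat_lit 78) (nat_lit 0) (nat_lit 0) (XT.lf (nat_lit 0) (nat_lit 28859030286) (nat_lit 76) (nat_lit 344159883069) (nat_lit 76) (nat_lit 337908400902) (nat_lit 1) (nat_lit 4) (nat_lit 2) (nat_lit 5) (nat_lit 2) (nat_lit 4) (nat_lit 343) (nat_lit 249) (nat_lit 188)) (XT.lf (nat_lit 0) (nat_lit 37633744183) (nat_lit 76) (nat_lit 368076386913) (nat_lit 76) (nat_lit 361820631186) (nat_lit 1) (nat_lit 4) (nat_lit 2) (nat_lit 5) (nat_lit 2) (nat_lit 4) (nat_lit 344) (nat_lit 249) (nat_lit 187))) (XT.nd (nat_lit 78) (nat_lit 0) (nat_lit 0) (XT.lf (nat_lit 0) (nat_lit 47102146043)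 (nat_lit 76) (nat_lit 393910199954) (nat_lit 76) (nat_lit 387650487228) (nat_lit 1) (nat_lit 4) (nat_lit 2) (nat_lit 5) (nat_lit 2) (nat_lit 4) (nat_lit 345) (nat_lit 249) (nat_lit 186)) (XT.lf (nat_lit 0) (nat_lit 57320344913) (nat_lit 76) (nat_lit 421814411454) (nat_lit 76) (nat_lit 415551034840) (nat_lit 1) (nat_lit 4) (nat_lit 2) (nat_lit 5) (nat_lit 2) (nat_lit 4) (nat_lit 346) (nat_lit 249) (nat_lit 185))))) (XT.nd (nat_lit 312) (nat_lit 0) (nat_lit 0) (XT.nd (nat_lit 156) (nat_lit 0) (nat_lit 0) (XT.nd (nat_lit 78) (nat_lit 0) (nat_lit 0) (XT.lf (nat_lit 0) (nat_lit 68348893085) (nat_lit 76) (nat_lit 451954379704) (nat_lit 76) (nat_lit 445687610600) (nat_lit 1) (nat_lit 4) (nat_lit 2) (nat_lit 5) (nat_lit 2) (nat_lit 4) (nat_lit 347) (nat_lit 249) (nat_lit 184)) (XT.lf (nat_lit 0) (nat_lit 80253144916) (nat_lit 76) (nat_lit 484508711923) (nat_lit 76) (nat_lit 478238801626) (nat_lit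 1) (nat_lit 4) (nat_lit 2) (nat_lit 5) (nat_lit 2) (nat_lit 4) (nat_lit 348) (nat_lit 249) (nat_lit 183))) (XT.nd (nat_lit 78) (nat_lit 0) (nat_lit 0) (XT.lf (nat_lit 0) (nat_lit 93103644121) (nat_lit 76) (nat_lit 519670322672) (nat_lit 76) (nat_lit 513397503862) (nat_lit 1) (nat_lit 4) (nat_lit 2) (nat_lit 5) (nat_lit 2) (nat_lit 4) (nat_lit 349) (nat_lit 249) (nat_lit 182)) (XT.lf (nat_lit 0) (nat_lit 106976541807) (nat_lit 76) (nat_lit 557647577053) (nat_lit 76) (nat_lit 551372065175) (nat_lit 1) (nat_lit 4) (nat_lit 2) (nat_lit 5) (nat_lit 2) (nat_lit 4) (nat_lit 350) (nat_lit 249) (nat_lit 181)))) (XT.nd (nat_lit 156) (nat_lit 0) (nat_lit 0) (XT.nd (nat_lit 78) (nat_lit 0) (nat_lit 0) (XT.lf (nat_lit 0) (nat_lit 121954047738) (nat_lit 76) (nat_lit 598665525460) (nat_lit 76) (nat_lit 592387520002) (nat_lit 1) (nat_lit 4) (nat_lit 2) (nat_lit 5) (nat_lit 2) (nat_lit 4) (nat_lit 351)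 (nat_lit 249) (nat_lit 180)) (XT.lf (nat_lit 0) (nat_lit 138124917505) (nat_lit 76) (nat_lit 642967237219) (nat_lit 76) (nat_lit 636686922890) (nat_lit 1) (nat_lit 4) (nat_lit 2) (nat_lit 5) (nat_lit 2) (nat_lit 4) (nat_lit 352) (nat_lit 249) (nat_lit 179))) (XT.nd (nat_lit 78) (nat_lit 0) (nat_lit 0) (XT.lf (nat_lit 0) (nat_lit 155584978484) (nat_lit 76) (nat_lit 690815240992) (nat_lit 76) (nat_lit 684532788819) (nat_lit 1) (nat_lit 4) (nat_lit 2) (nat_lit 5) (nat_lit 2) (nat_lit 4) (nat_lit 353) (nat_lit 249) (nat_lit 178)) (XT.lf (nat_lit 0) (nat_lit 174437697703) (nat_lit 76) (nat_lit 742493080504) (nat_lit 76) (nat_lit 736208648846) (nat_lit 1) (nat_lit 4) (nat_lit 2) (nat_lit 5) (nat_lit 2) (nat_lit 4) (nat_lit 354) (nat_lit 249) (nat_lit 177))))))) (XT.nd (nat_lit 34866) (nat_lit 0) (nat_lit 532) (XT.nd (nat_lit 546) (nat_lit 0) (nat_lit 0) (XT.nd (nat_lit 234) (nat_lit 0) (nat_lit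 0) (XT.nd (nat_lit 78) (nat_lit 0) (nat_lit 0) (XT.lf (nat_lit 0) (nat_lit 194794794980) (nat_lit 76) (nat_lit 798306994804) (nat_lit 76) (nat_lit 792020730290) (nat_lit 1) (nat_lit 4) (nat_lit 2) (nat_lit 5) (nat_lit 2) (nat_lit 4) (nat_lit 355) (nat_lit 249) (nat_lit 176)) (XT.nd (nat_lit 78) (nat_lit 0) (nat_lit 0) (XT.lf (nat_lit 0) (nat_lit 216776904965) (nat_lit 76) (nat_lit 858587733015) (nat_lit 76) (nat_lit 852299771412) (nat_lit 1) (nat_lit 4) (nat_lit 2) (nat_lit 5) (nat_lit 2) (nat_lit 4) (nat_lit 356) (nat_lit 249) (nat_lit 175)) (XT.lf (nat_lit 0) (nat_lit 240514292013) (nat_lit 76) (nat_lit 923692514326) (nat_lit 76) (nat_lit 917402981343) (nat_lit 1) (nat_lit 4) (nat_lit 2) (nat_lit 5) (nat_lit 2) (nat_lit 4) (nat_lit 357) (nat_lit 249) (nat_lit 174)))) (XT.nd (nat_lit 156) (nat_lit 0) (nat_lit 0) (XT.nd (nat_lit 78) (nat_lit 0) (nat_lit 0) (XT.lf (nat_lit 0) (nat_lit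 266147622123) (nat_lit 76) (nat_lit 994007144847) (nat_lit 76) (nat_lit 987716156885) (nat_lit 1) (nat_lit 4) (nat_lit 2) (nat_lit 5) (nat_lit 2) (nat_lit 4) (nat_lit 358) (nat_lit 249) (nat_lit 173)) (XT.lf (nat_lit 0) (nat_lit 293828796509) (nat_lit 76) (nat_lit 1069948303872) (nat_lit 76) (nat_lit 1063655968706) (nat_lit 1) (nat_lit 4) (nat_lit 2) (nat_lit 5) (nat_lit 2) (nat_lit 4) (nat_lit 359) (nat_lit 249) (nat_lit 172))) (XT.nd (nat_lit 78) (nat_lit 0) (nat_lit 0) (XT.lf (nat_lit 0) (nat_lit 323721851760) (nat_lit 76) (nat_lit 1151966013084) (nat_lit 76) (nat_lit 1145672430506) (nat_lit 1) (nat_lit 4) (nat_lit 2) (nat_lit 5) (nat_lit 2) (nat_lit 4) (nat_lit 360) (nat_lit 249) (nat_lit 171)) (XT.lf (nat_lit 0) (nat_lit 356003931908) (nat_lit 76) (nat_lit 1240546303351) (nat_lit 76) (nat_lit 1234251565762) (nat_lit 1) (nat_lit 4) (nat_lit 2) (nat_lit 5) (nat_lit 2) (nat_lit 4)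 (nat_lit 361) (nat_lit 249) (nat_lit 170))))) (XT.nd (nat_lit 234) (nat_lit 0) (nat_lit 0) (XT.nd (nat_lit 78) (nat_lit 0) (nat_lit 0) (XT.lf (nat_lit 0) (nat_lit 390866338168) (nat_lit 76) (nat_lit 1336214094912) (nat_lit 76) (nat_lit 1329918287870) (nat_lit 1) (nat_lit 4) (nat_lit 2) (nat_lit 5) (nat_lit 2) (nat_lit 4) (nat_lit 362) (nat_lit 249) (nat_lit 169)) (XT.nd (nat_lit 78) (nat_lit 0) (nat_lit 0) (XT.lf (nat_lit 0) (nat_lit 428515662577) (nat_lit 76) (nat_lit 1439536308014) (nat_lit 76) (nat_lit 1433239510736) (nat_lit 1) (nat_lit 4) (nat_lit 2) (nat_lit 5) (nat_lit 2) (nat_lit 4) (nat_lit 363) (nat_lit 249) (nat_lit 168)) (XT.lf (nat_lit 0) (nat_lit 469175012243) (nat_lit 76) (nat_lit 1551125222438) (nat_lit 76) (nat_lit 1544827508276) (nat_lit 1) (nat_lit 4) (nat_lit 2) (nat_lit 5) (nat_lit 2) (nat_lit 4) (nat_lit 364) (nat_lit 249) (nat_lit 167)))) (XT.nd (nat_lit 156)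 (nat_lit 0) (nat_lit 0) (XT.nd (nat_lit 78) (nat_lit 0) (nat_lit 0) (XT.lf (nat_lit 0) (nat_lit 513085331461) (nat_lit 76) (nat_lit 1671642105825) (nat_lit 76) (nat_lit 1665343542695) (nat_lit 1) (nat_lit 4) (nat_lit 2) (nat_lit 5) (nat_lit 2) (nat_lit 4) (nat_lit 365) (nat_lit 249) (nat_lit 166)) (XT.lf (nat_lit 0) (nat_lit 560506829528) (nat_lit 76) (nat_lit 1801801132298) (nat_lit 76) (nat_lit 1795501783088) (nat_lit 1) (nat_lit 4) (nat_lit 2) (nat_lit 5) (nat_lit 2) (nat_lit 4) (nat_lit 366) (nat_lit 249) (nat_lit 165))) (XT.nd (nat_lit 33852) (nat_lit 0) (nat_lit 1672) (XT.lf (nat_lit 0) (nat_lit 611720522731) (nat_lit 76) (nat_lit 1942373614608) (nat_lit 76) (nat_lit 1936073537545) (nat_lit 1) (nat_lit 4) (nat_lit 2) (nat_lit 5) (nat_lit 2) (nat_lit 4) (nat_lit 367) (nat_lit 249) (nat_lit 164)) (XT.lf (nat_lit 0) (nat_lit 1849398805) (nat_lit 228) (nat_lit 1240439542) (nat_lit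 0) (nat_lit 1849398805) (nat_lit 23) (nat_lit 5) (nat_lit 26) (nat_lit 4) (nat_lit 23) (nat_lit 4) (nat_lit 280) (nat_lit 250) (nat_lit 250)))))) (XT.nd (nat_lit 546) (nat_lit 380) (nat_lit 0) (XT.nd (nat_lit 234) (nat_lit 456) (nat_lit 0) (XT.nd (nat_lit 78) (nat_lit 152) (nat_lit 0) (XT.lf (nat_lit 0) (nat_lit 4429427111) (nat_lit 152) (nat_lit 3329113717) (nat_lit 152) (nat_lit 2528164265) (nat_lit 21) (nat_lit 4) (nat_lit 23) (nat_lit 5) (nat_lit 23) (nat_lit 4) (nat_lit 281) (nat_lit 250) (nat_lit 249)) (XT.nd (nat_lit 78) (nat_lit 0) (nat_lit 0) (XT.lf (nat_lit 0) (nat_lit 957139129) (nat_lit 76) (nat_lit 244643776) (nat_lit 152) (nat_lit 9535048295) (nat_lit 19) (nat_lit 5) (nat_lit 20) (nat_lit 5) (nat_lit 21) (nat_lit 4) (nat_lit 282) (nat_lit 250) (nat_lit 248)) (XT.lf (nat_lit 0) (nat_lit 5102304289) (nat_lit 152) (nat_lit 3077019378) (nat_lit 0) (nat_lit 3038179869) (nat_lit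 19) (nat_lit 5) (nat_lit 21) (nat_lit 4) (nat_lit 19) (nat_lit 4) (nat_lit 283) (nat_lit 250) (nat_lit 247)))) (XT.nd (nat_lit 156) (nat_lit 228) (nat_lit 0) (XT.nd (nat_lit 78) (nat_lit 76) (nat_lit 0) (XT.lf (nat_lit 0) (nat_lit 4011144848) (nat_lit 152) (nat_lit 5193789960) (nat_lit 152) (nat_lit 2540943782) (nat_lit 17) (nat_lit 4) (nat_lit 19) (nat_lit 5) (nat_lit 19) (nat_lit 4) (nat_lit 284) (nat_lit 250) (nat_lit 246)) (XT.lf (nat_lit 0) (nat_lit 1128764553) (nat_lit 228) (nat_lit 850128645) (nat_lit 76) (nat_lit 10345441172) (nat_lit 16) (nat_lit 5) (nat_lit 19) (nat_lit 5) (nat_lit 17) (nat_lit 4) (nat_lit 285) (nat_lit 250) (nat_lit 245))) (XT.nd (nat_lit 78) (nat_lit 152) (nat_lit 0) (XT.lf (nat_lit 0) (nat_lit 4955121082) (nat_lit 152) (nat_lit 6462296726) (nat_lit 0) (nat_lit 1526701699) (nat_lit 15) (nat_lit 5) (nat_lit 17) (nat_lit 4) (nat_lit 15) (nat_lit 4) (nat_lit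 286) (nat_lit 250) (nat_lit 244)) (XT.lf (nat_lit 0) (nat_lit 482966214) (nat_lit 152) (nat_lit 8500178954) (nat_lit 152) (nat_lit 4639031503) (nat_lit 13) (nat_lit 4) (nat_lit 15) (nat_lit 5) (nat_lit 15) (nat_lit 4) (nat_lit 287) (nat_lit 250) (nat_lit 243))))) (XT.nd (nat_lit 312) (nat_lit 228) (nat_lit 0) (XT.nd (nat_lit 156) (nat_lit 0) (nat_lit 0) (XT.nd (nat_lit 78) (nat_lit 152) (nat_lit 0) (XT.lf (nat_lit 0) (nat_lit 8033385867) (nat_lit 152) (nat_lit 5291935269) (nat_lit 152) (nat_lit 1030113682) (nat_lit 13) (nat_lit 4) (nat_lit 15) (nat_lit 5) (nat_lit 15) (nat_lit 4) (nat_lit 288) (nat_lit 250) (nat_lit 242)) (XT.lf (nat_lit 0) (nat_lit 702725147) (nat_lit 76) (nat_lit 1862438941) (nat_lit 152) (nat_lit 12589650202) (nat_lit 11) (nat_lit 5) (nat_lit 12) (nat_lit 5) (nat_lit 13) (nat_lit 4) (nat_lit 289) (nat_lit 250) (nat_lit 241))) (XT.nd (nat_lit 78) (nat_lit 0) (nat_lit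 0) (XT.lf (nat_lit 0) (nat_lit 6441093318) (nat_lit 152) (nat_lit 7737880512) (nat_lit 0) (nat_lit 1833380680) (nat_lit 11) (nat_lit 5) (nat_lit 13) (nat_lit 4) (nat_lit 11) (nat_lit 4) (nat_lit 290) (nat_lit 250) (nat_lit 240)) (XT.lf (nat_lit 0) (nat_lit 10515333235) (nat_lit 152) (nat_lit 819219934) (nat_lit 0) (nat_lit 5613113146) (nat_lit 11) (nat_lit 5) (nat_lit 13) (nat_lit 4) (nat_lit 11) (nat_lit 4) (nat_lit 291) (nat_lit 250) (nat_lit 239)))) (XT.nd (nat_lit 156) (nat_lit 76) (nat_lit 0) (XT.nd (nat_lit 78) (nat_lit 76) (nat_lit 0) (XT.lf (nat_lit 0) (nat_lit 6726153186) (nat_lit 76) (nat_lit 8202846742) (nat_lit 76) (nat_lit 3027934568) (nat_lit 10) (nat_lit 4) (nat_lit 11) (nat_lit 5) (nat_lit 11) (nat_lit 4) (nat_lit 292) (nat_lit 250) (nat_lit 238)) (XT.lf (nat_lit 0) (nat_lit 491964709) (nat_lit 152) (nat_lit 4404118248) (nat_lit 76) (nat_lit 14159744845) (nat_lit 9)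 (nat_lit 5) (nat_lit 11) (nat_lit 5) (nat_lit 10) (nat_lit 4) (nat_lit 293) (nat_lit 250) (nat_lit 237))) (XT.nd (nat_lit 78) (nat_lit 0) (nat_lit 0) (XT.lf (nat_lit 0) (nat_lit 2784384814) (nat_lit 76) (nat_lit 1275989786) (nat_lit 152) (nat_lit 16181692754) (nat_lit 8) (nat_lit 5) (nat_lit 9) (nat_lit 5) (nat_lit 10) (nat_lit 4) (nat_lit 294) (nat_lit 250) (nat_lit 236)) (XT.lf (nat_lit 0) (nat_lit 7966485363) (nat_lit 152) (nat_lit 11028495223) (nat_lit 0) (nat_lit 2524201916) (nat_lit 8) (nat_lit 5) (nat_lit 10) (nat_lit 4) (nat_lit 8) (nat_lit 4) (nat_lit 295) (nat_lit 250) (nat_lit 235))))))))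
noncomputable def xc33 : XT := (XT.nd (nat_lit 2262) (nat_lit 76) (nat_lit 0) (XT.nd (nat_lit 1092) (nat_lit 152) (nat_lit 0) (XT.nd (nat_lit 546) (nat_lit 76) (nat_lit 0) (XT.nd (nat_lit 234) (nat_lit 152) (nat_lit 0) (XT.nd (nat_lit 78) (nat_lit 76) (nat_lit 0) (XT.lf (nat_lit 0) (nat_lit 12093545334) (nat_lit 152) (nat_lit 4346715685) (nat_lit 0) (nat_lit 6465672236) (nat_lit 8) (nat_lit 5) (nat_lit 10) (nat_lit 4) (nat_lit 8) (nat_lit 4) (nat_lit 296) (nat_lit 250) (nat_lit 234)) (XT.nd (nat_lit 78) (nat_lit 0) (nat_lit 0) (XT.lf (nat_lit 0) (nat_lit 2797901765) (nat_lit 76) (nat_lit 13704711418) (nat_lit 76) (nat_lit 7904996051) (nat_lit 7) (nat_lit 4) (nat_lit 8) (nat_lit 5) (nat_lit 8) (nat_lit 4) (nat_lit 297) (nat_lit 250) (nat_lit 233)) (XT.lf (nat_lit 0) (nat_lit 10554982012) (nat_lit 76) (nat_lit 10716414714) (nat_lit 76) (nat_lit 4757586134) (nat_lit 7) (nat_lit 4) (nat_lit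 8) (nat_lit 5) (nat_lit 8) (nat_lit 4) (nat_lit 298) (nat_lit 250) (nat_lit 232)))) (XT.nd (nat_lit 156) (nat_lit 76) (nat_lit 0) (XT.nd (nat_lit 78) (nat_lit 76) (nat_lit 0) (XT.lf (nat_lit 0) (nat_lit 18741602591) (nat_lit 76) (nat_lit 7576509392) (nat_lit 76) (nat_lit 1470353764) (nat_lit 7) (nat_lit 4) (nat_lit 8) (nat_lit 5) (nat_lit 8) (nat_lit 4) (nat_lit 299) (nat_lit 250) (nat_lit 231)) (XT.lf (nat_lit 0) (nat_lit 1877324380) (nat_lit 152) (nat_lit 2337734849) (nat_lit 76) (nat_lit 25477623055) (nat_lit 6) (nat_lit 5) (nat_lit 8) (nat_lit 5) (nat_lit 7) (nat_lit 4) (nat_lit 300) (nat_lit 250) (nat_lit 230))) (XT.nd (nat_lit 78) (nat_lit 0) (nat_lit 0) (XT.lf (nat_lit 0) (nat_lit 4948826595) (nat_lit 76) (nat_lit 492377902) (nat_lit 152) (nat_lit 26302840621) (nat_lit 5) (nat_lit 5) (nat_lit 6) (nat_lit 5) (nat_lit 7) (nat_lit 4) (nat_lit 301) (nat_lit 250) (nat_lit 229)) (XT.lf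 (nat_lit 0) (nat_lit 9350403494) (nat_lit 152) (nat_lit 21259376621) (nat_lit 0) (nat_lit 3345003753) (nat_lit 5) (nat_lit 5) (nat_lit 7) (nat_lit 4) (nat_lit 5) (nat_lit 4) (nat_lit 302) (nat_lit 250) (nat_lit 228))))) (XT.nd (nat_lit 234) (nat_lit 76) (nat_lit 0) (XT.nd (nat_lit 78) (nat_lit 0) (nat_lit 0) (XT.lf (nat_lit 0) (nat_lit 13501589607) (nat_lit 152) (nat_lit 15450607842) (nat_lit 0) (nat_lit 7395921552) (nat_lit 5) (nat_lit 5) (nat_lit 7) (nat_lit 4) (nat_lit 5) (nat_lit 4) (nat_lit 303) (nat_lit 250) (nat_lit 227)) (XT.nd (nat_lit 78) (nat_lit 0) (nat_lit 0) (XT.lf (nat_lit 0) (nat_lit 17907520757) (nat_lit 152) (nat_lit 9322648150) (nat_lit 0) (nat_lit 11709011671) (nat_lit 5) (nat_lit 5) (nat_lit 7) (nat_lit 4) (nat_lit 5) (nat_lit 4) (nat_lit 304) (nat_lit 250) (nat_lit 226)) (XT.lf (nat_lit 0) (nat_lit 22594306166) (nat_lit 152) (nat_lit 2839183712) (nat_lit 0) (nat_lit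 16309833162) (nat_lit 5) (nat_lit 5) (nat_lit 7) (nat_lit 4) (nat_lit 5) (nat_lit 4) (nat_lit 305) (nat_lit 250) (nat_lit 225)))) (XT.nd (nat_lit 156) (nat_lit 0) (nat_lit 0) (XT.nd (nat_lit 78) (nat_lit 0) (nat_lit 0) (XT.lf (nat_lit 0) (nat_lit 4250850773) (nat_lit 76) (nat_lit 23441101666) (nat_lit 76) (nat_lit 17077032442) (nat_lit 4) (nat_lit 4) (nat_lit 5) (nat_lit 5) (nat_lit 5) (nat_lit 4) (nat_lit 306) (nat_lit 250) (nat_lit 224)) (XT.lf (nat_lit 0) (nat_lit 11947961309) (nat_lit 76) (nat_lit 21262750284) (nat_lit 76) (nat_lit 14824980857) (nat_lit 4) (nat_lit 4) (nat_lit 5) (nat_lit 5) (nat_lit 5) (nat_lit 4) (nat_lit 307) (nat_lit 250) (nat_lit 223))) (XT.nd (nat_lit 78) (nat_lit 0) (nat_lit 0) (XT.lf (nat_lit 0) (nat_lit 20148254019) (nat_lit 76) (nat_lit 18963155299) (nat_lit 76) (nat_lit 12457144942) (nat_lit 4) (nat_lit 4) (nat_lit 5) (nat_lit 5) (nat_lit 5) (nat_lit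 4) (nat_lit 308) (nat_lit 250) (nat_lit 222)) (XT.lf (nat_lit 0) (nat_lit 28900323230) (nat_lit 76) (nat_lit 16528689481) (nat_lit 76) (nat_lit 9959493078) (nat_lit 4) (nat_lit 4) (nat_lit 5) (nat_lit 5) (nat_lit 5) (nat_lit 4) (nat_lit 309) (nat_lit 250) (nat_lit 221)))))) (XT.nd (nat_lit 546) (nat_lit 0) (nat_lit 0) (XT.nd (nat_lit 234) (nat_lit 152) (nat_lit 0) (XT.nd (nat_lit 78) (nat_lit 0) (nat_lit 0) (XT.lf (nat_lit 0) (nat_lit 38256033055) (nat_lit 76) (nat_lit 13944926366) (nat_lit 76) (nat_lit 7317224365) (nat_lit 4) (nat_lit 4) (nat_lit 5) (nat_lit 5) (nat_lit 5) (nat_lit 4) (nat_lit 310) (nat_lit 250) (nat_lit 220)) (XT.nd (nat_lit 78) (nat_lit 0) (nat_lit 0) (XT.lf (nat_lit 0) (nat_lit 48270824738) (nat_lit 76) (nat_lit 11196554764) (nat_lit 76) (nat_lit 4514680914) (nat_lit 4) (nat_lit 4) (nat_lit 5) (nat_lit 5) (nat_lit 5) (nat_lit 4) (nat_lit 311) (nat_lit 250) (nat_lit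 219)) (XT.lf (nat_lit 0) (nat_lit 59004045193) (nat_lit 76) (nat_lit 8267288030) (nat_lit 76) (nat_lit 1535255059) (nat_lit 4) (nat_lit 4) (nat_lit 5) (nat_lit 5) (nat_lit 5) (nat_lit 4) (nat_lit 312) (nat_lit 250) (nat_lit 218)))) (XT.nd (nat_lit 156) (nat_lit 0) (nat_lit 0) (XT.nd (nat_lit 78) (nat_lit 76) (nat_lit 0) (XT.lf (nat_lit 0) (nat_lit 1556734190) (nat_lit 152) (nat_lit 3540469483) (nat_lit 76) (nat_lit 68920000626) (nat_lit 3) (nat_lit 5) (nat_lit 5) (nat_lit 5) (nat_lit 4) (nat_lit 4) (nat_lit 313) (nat_lit 250) (nat_lit 217)) (XT.lf (nat_lit 0) (nat_lit 3273434810) (nat_lit 76) (nat_lit 1579889599) (nat_lit 152) (nat_lit 74784970940) (nat_lit 2) (nat_lit 5) (nat_lit 3) (nat_lit 5) (nat_lit 4) (nat_lit 4) (nat_lit 314) (nat_lit 250) (nat_lit 216))) (XT.nd (nat_lit 78) (nat_lit 0) (nat_lit 0) (XT.lf (nat_lit 0) (nat_lit 8528112073) (nat_lit 152) (nat_lit 74996773969) (nat_lit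 0) (nat_lit 2175058472) (nat_lit 2) (nat_lit 5) (nat_lit 4) (nat_lit 4) (nat_lit 2) (nat_lit 4) (nat_lit 315) (nat_lit 250) (nat_lit 215)) (XT.lf (nat_lit 0) (nat_lit 12502539895) (nat_lit 152) (nat_lit 73628210650) (nat_lit 0) (nat_lit 6115348840) (nat_lit 2) (nat_lit 5) (nat_lit 4) (nat_lit 4) (nat_lit 2) (nat_lit 4) (nat_lit 316) (nat_lit 250) (nat_lit 214))))) (XT.nd (nat_lit 312) (nat_lit 0) (nat_lit 0) (XT.nd (nat_lit 156) (nat_lit 0) (nat_lit 0) (XT.nd (nat_lit 78) (nat_lit 0) (nat_lit 0) (XT.lf (nat_lit 0) (nat_lit 16762163659) (nat_lit 152) (nat_lit 72213064193) (nat_lit 0) (nat_lit 10343363850) (nat_lit 2) (nat_lit 5) (nat_lit 4) (nat_lit 4) (nat_lit 2) (nat_lit 4) (nat_lit 317) (nat_lit 250) (nat_lit 213)) (XT.lf (nat_lit 0) (nat_lit 21332225580) (nat_lit 152) (nat_lit 70742948546) (nat_lit 0) (nat_lit 14884158405) (nat_lit 2) (nat_lit 5) (nat_lit 4) (nat_lit 4) (nat_lit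 2) (nat_lit 4) (nat_lit 318) (nat_lit 250) (nat_lit 212))) (XT.nd (nat_lit 78) (nat_lit 0) (nat_lit 0) (XT.lf (nat_lit 0) (nat_lit 26239807504) (nat_lit 152) (nat_lit 69209151912) (nat_lit 0) (nat_lit 19764640918) (nat_lit 2) (nat_lit 5) (nat_lit 4) (nat_lit 4) (nat_lit 2) (nat_lit 4) (nat_lit 319) (nat_lit 250) (nat_lit 211)) (XT.lf (nat_lit 0) (nat_lit 31513991400) (nat_lit 152) (nat_lit 67602585125) (nat_lit 0) (nat_lit 25013732766) (nat_lit 2) (nat_lit 5) (nat_lit 4) (nat_lit 4) (nat_lit 2) (nat_lit 4) (nat_lit 320) (nat_lit 250) (nat_lit 210)))) (XT.nd (nat_lit 156) (nat_lit 0) (nat_lit 0) (XT.nd (nat_lit 78) (nat_lit 0) (nat_lit 0) (XT.lf (nat_lit 0) (nat_lit 37186031691) (nat_lit 152) (nat_lit 65913727791) (nat_lit 0) (nat_lit 30662539679) (nat_lit 2) (nat_lit 5) (nat_lit 4) (nat_lit 4) (nat_lit 2) (nat_lit 4) (nat_lit 321) (nat_lit 250) (nat_lit 209)) (XT.lf (nat_lit 0) (nat_lit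 43289540467) (nat_lit 152) (nat_lit 64132571865) (nat_lit 0) (nat_lit 36744536068) (nat_lit 2) (nat_lit 5) (nat_lit 4) (nat_lit 4) (nat_lit 2) (nat_lit 4) (nat_lit 322) (nat_lit 250) (nat_lit 208))) (XT.nd (nat_lit 78) (nat_lit 0) (nat_lit 0) (XT.lf (nat_lit 0) (nat_lit 49860686669) (nat_lit 152) (nat_lit 62248562350) (nat_lit 0) (nat_lit 43295763393) (nat_lit 2) (nat_lit 5) (nat_lit 4) (nat_lit 4) (nat_lit 2) (nat_lit 4) (nat_lit 323) (nat_lit 250) (nat_lit 207)) (XT.lf (nat_lit 0) (nat_lit 56938410423) (nat_lit 152) (nat_lit 60250534744) (nat_lit 0) (nat_lit 50355043742) (nat_lit 2) (nat_lit 5) (nat_lit 4) (nat_lit 4) (nat_lit 2) (nat_lit 4) (nat_lit 324) (nat_lit 250) (nat_lit 206))))))) (XT.nd (nat_lit 1170) (nat_lit 76) (nat_lit 0) (XT.nd (nat_lit 546) (nat_lit 0) (nat_lit 0) (XT.nd (nat_lit 234) (nat_lit 0) (nat_lit 0) (XT.nd (nat_lit 78) (nat_lit 0) (nat_lit 0) (XT.lf (nat_lit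 0) (nat_lit 64564653795) (nat_lit 152) (nat_lit 58126648884) (nat_lit 0) (nat_lit 57964209888) (nat_lit 2) (nat_lit 5) (nat_lit 4) (nat_lit 4) (nat_lit 2) (nat_lit 4) (nat_lit 325) (nat_lit 250) (nat_lit 205)) (XT.nd (nat_lit 78) (nat_lit 0) (nat_lit 0) (XT.lf (nat_lit 0) (nat_lit 72784609339) (nat_lit 152) (nat_lit 55864318780) (nat_lit 0) (nat_lit 66168353185) (nat_lit 2) (nat_lit 5) (nat_lit 4) (nat_lit 4) (nat_lit 2) (nat_lit 4) (nat_lit 326) (nat_lit 250) (nat_lit 204)) (XT.lf (nat_lit 0) (nat_lit 81646987902) (nat_lit 152) (nat_lit 53450138031) (nat_lit 0) (nat_lit 75016090780) (nat_lit 2) (nat_lit 5) (nat_lit 4) (nat_lit 4) (nat_lit 2) (nat_lit 4) (nat_lit 327) (nat_lit 250) (nat_lit 203)))) (XT.nd (nat_lit 156) (nat_lit 0) (nat_lit 0) (XT.nd (nat_lit 78) (nat_lit 0) (nat_lit 0) (XT.lf (nat_lit 0) (nat_lit 91204307283) (nat_lit 152) (nat_lit 50869800381) (nat_lit 0) (nat_lit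 84559853708) (nat_lit 2) (nat_lit 5) (nat_lit 4) (nat_lit 4) (nat_lit 2) (nat_lit 4) (nat_lit 328) (nat_lit 250) (nat_lit 202)) (XT.lf (nat_lit 0) (nat_lit 101513203450) (nat_lit 152) (nat_lit 48108014941) (nat_lit 0) (nat_lit 94856197604) (nat_lit 2) (nat_lit 5) (nat_lit 4) (nat_lit 4) (nat_lit 2) (nat_lit 4) (nat_lit 329) (nat_lit 250) (nat_lit 201))) (XT.nd (nat_lit 78) (nat_lit 0) (nat_lit 0) (XT.lf (nat_lit 0) (nat_lit 112634766157) (nat_lit 152) (nat_lit 45148415573) (nat_lit 0) (nat_lit 105966137837) (nat_lit 2) (nat_lit 5) (nat_lit 4) (nat_lit 4) (nat_lit 2) (nat_lit 4) (nat_lit 330) (nat_lit 250) (nat_lit 200)) (XT.lf (nat_lit 0) (nat_lit 124634900960) (nat_lit 152) (nat_lit 41973463912) (nat_lit 0) (nat_lit 117955511091) (nat_lit 2) (nat_lit 5) (nat_lit 4) (nat_lit 4) (nat_lit 2) (nat_lit 4) (nat_lit 331) (nat_lit 250) (nat_lit 199))))) (XT.nd (nat_lit 312) (nat_lit 0) (nat_lit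 0) (XT.nd (nat_lit 156) (nat_lit 0) (nat_lit 0) (XT.nd (nat_lit 78) (nat_lit 0) (nat_lit 0) (XT.lf (nat_lit 0) (nat_lit 137584719770) (nat_lit 152) (nat_lit 38564345429) (nat_lit 0) (nat_lit 130895365504) (nat_lit 2) (nat_lit 5) (nat_lit 4) (nat_lit 4) (nat_lit 2) (nat_lit 4) (nat_lit 332) (nat_lit 250) (nat_lit 198)) (XT.lf (nat_lit 0) (nat_lit 151560962255) (nat_lit 152) (nat_lit 34900857940) (nat_lit 0) (nat_lit 144862381694) (nat_lit 2) (nat_lit 5) (nat_lit 4) (nat_lit 4) (nat_lit 2) (nat_lit 4) (nat_lit 333) (nat_lit 250) (nat_lit 197))) (XT.nd (nat_lit 78) (nat_lit 0) (nat_lit 0) (XT.lf (nat_lit 0) (nat_lit 166646450590) (nat_lit 152) (nat_lit 30961291891) (nat_lit 0) (nat_lit 159939327165) (nat_lit 2) (nat_lit 5) (nat_lit 4) (nat_lit 4) (nat_lit 2) (nat_lit 4) (nat_lit 334) (nat_lit 250) (nat_lit 196)) (XT.lf (nat_lit 0) (nat_lit 182930580264) (nat_lit 152) (nat_lit 26722301704)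 (nat_lit 0) (nat_lit 176215546778) (nat_lit 2) (nat_lit 5) (nat_lit 4) (nat_lit 4) (nat_lit 2) (nat_lit 4) (nat_lit 335) (nat_lit 250) (nat_lit 195)))) (XT.nd (nat_lit 156) (nat_lit 0) (nat_lit 0) (XT.nd (nat_lit 78) (nat_lit 0) (nat_lit 0) (XT.lf (nat_lit 0) (nat_lit 200509849821) (nat_lit 152) (nat_lit 22158767438) (nat_lit 0) (nat_lit 193787492206) (nat_lit 2) (nat_lit 5) (nat_lit 4) (nat_lit 4) (nat_lit 2) (nat_lit 4) (nat_lit 336) (nat_lit 250) (nat_lit 194)) (XT.lf (nat_lit 0) (nat_lit 219488432712) (nat_lit 152) (nat_lit 17243645926) (nat_lit 0) (nat_lit 212759293496) (nat_lit 2) (nat_lit 5) (nat_lit 4) (nat_lit 4) (nat_lit 2) (nat_lit 4) (nat_lit 337) (nat_lit 250) (nat_lit 193))) (XT.nd (nat_lit 78) (nat_lit 0) (nat_lit 0) (XT.lf (nat_lit 0) (nat_lit 239978794613) (nat_lit 152) (nat_lit 11947810523) (nat_lit 0) (nat_lit 233243376136) (nat_lit 2) (nat_lit 5) (nat_lit 4) (nat_lit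 4) (nat_lit 2) (nat_lit 4) (nat_lit 338) (nat_lit 250) (nat_lit 192)) (XT.lf (nat_lit 0) (nat_lit 262102359891) (nat_lit 152) (nat_lit 6239878500) (nat_lit 0) (nat_lit 255361127283) (nat_lit 2) (nat_lit 5) (nat_lit 4) (nat_lit 4) (nat_lit 2) (nat_lit 4) (nat_lit 339) (nat_lit 250) (nat_lit 191)))))) (XT.nd (nat_lit 546) (nat_lit 0) (nat_lit 0) (XT.nd (nat_lit 234) (nat_lit 0) (nat_lit 0) (XT.nd (nat_lit 78) (nat_lit 76) (nat_lit 0) (XT.lf (nat_lit 0) (nat_lit 285990231154) (nat_lit 152) (nat_lit 86025075) (nat_lit 0) (nat_lit 279243615092) (nat_lit 2) (nat_lit 5) (nat_lit 4) (nat_lit 4) (nat_lit 2) (nat_lit 4) (nat_lit 340) (nat_lit 250) (nat_lit 190)) (XT.nd (nat_lit 78) (nat_lit 0) (nat_lit 0) (XT.lf (nat_lit 0) (nat_lit 6895139851) (nat_lit 76) (nat_lit 305054654586) (nat_lit 76) (nat_lit 298303053845) (nat_lit 1) (nat_lit 4) (nat_lit 2) (nat_lit 5) (nat_lit 2) (nat_lit 4) (nat_lit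 341) (nat_lit 250) (nat_lit 189)) (XT.lf (nat_lit 0) (nat_lit 14430021831) (nat_lit 76) (nat_lit 325553437207) (nat_lit 76) (nat_lit 318797221022) (nat_lit 1) (nat_lit 4) (nat_lit 2) (nat_lit 5) (nat_lit 2) (nat_lit 4) (nat_lit 342) (nat_lit 250) (nat_lit 188)))) (XT.nd (nat_lit 156) (nat_lit 0) (nat_lit 0) (XT.nd (nat_lit 78) (nat_lit 0) (nat_lit 0) (XT.lf (nat_lit 0) (nat_lit 22558742089) (nat_lit 76) (nat_lit 347696430438) (nat_lit 76) (nat_lit 340935940694) (nat_lit 1) (nat_lit 4) (nat_lit 2) (nat_lit 5) (nat_lit 2) (nat_lit 4) (nat_lit 343) (nat_lit 250) (nat_lit 187)) (XT.lf (nat_lit 0) (nat_lit 31329470819) (nat_lit 76) (nat_lit 371614852017) (nat_lit 76) (nat_lit 364850405273) (nat_lit 1) (nat_lit 4) (nat_lit 2) (nat_lit 5) (nat_lit 2) (nat_lit 4) (nat_lit 344) (nat_lit 250) (nat_lit 186))) (XT.nd (nat_lit 78) (nat_lit 0) (nat_lit 0) (XT.lf (nat_lit 0) (nat_lit 40794182708)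 (nat_lit 76) (nat_lit 397450440739) (nat_lit 76) (nat_lit 390682330107) (nat_lit 1) (nat_lit 4) (nat_lit 2) (nat_lit 5) (nat_lit 2) (nat_lit 4) (nat_lit 345) (nat_lit 250) (nat_lit 185)) (XT.lf (nat_lit 0) (nat_lit 51008964940) (nat_lit 76) (nat_lit 425356296388) (nat_lit 76) (nat_lit 418584793267) (nat_lit 1) (nat_lit 4) (nat_lit 2) (nat_lit 5) (nat_lit 2) (nat_lit 4) (nat_lit 346) (nat_lit 250) (nat_lit 184))))) (XT.nd (nat_lit 312) (nat_lit 0) (nat_lit 0) (XT.nd (nat_lit 156) (nat_lit 0) (nat_lit 0) (XT.nd (nat_lit 78) (nat_lit 0) (nat_lit 0) (XT.lf (nat_lit 0) (nat_lit 62034349556) (nat_lit 76) (nat_lit 455497786998) (nat_lit 76) (nat_lit 448723142683) (nat_lit 1) (nat_lit 4) (nat_lit 2) (nat_lit 5) (nat_lit 2) (nat_lit 4) (nat_lit 347) (nat_lit 250) (nat_lit 183)) (XT.lf (nat_lit 0) (nat_lit 73935672170) (nat_lit 76) (nat_lit 488053528809) (nat_lit 76) (nat_lit 481275975982) (nat_lit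 1) (nat_lit 4) (nat_lit 2) (nat_lit 5) (nat_lit 2) (nat_lit 4) (nat_lit 348) (nat_lit 250) (nat_lit 182))) (XT.nd (nat_lit 78) (nat_lit 0) (nat_lit 0) (XT.lf (nat_lit 0) (nat_lit 86783459137) (nat_lit 76) (nat_lit 523216444737) (nat_lit 76) (nat_lit 516436198842) (nat_lit 1) (nat_lit 4) (nat_lit 2) (nat_lit 5) (nat_lit 2) (nat_lit 4) (nat_lit 349) (nat_lit 250) (nat_lit 181)) (XT.lf (nat_lit 0) (nat_lit 100653845492) (nat_lit 76) (nat_lit 561194907616) (nat_lit 76) (nat_lit 554412168140) (nat_lit 1) (nat_lit 4) (nat_lit 2) (nat_lit 5) (nat_lit 2) (nat_lit 4) (nat_lit 350) (nat_lit 250) (nat_lit 180)))) (XT.nd (nat_lit 156) (nat_lit 0) (nat_lit 0) (XT.nd (nat_lit 78) (nat_lit 0) (nat_lit 0) (XT.lf (nat_lit 0) (nat_lit 115629026116) (nat_lit 76) (nat_lit 602213975004) (nat_lit 76) (nat_lit 595428926657) (nat_lit 1) (nat_lit 4) (nat_lit 2) (nat_lit 5) (nat_lit 2) (nat_lit 4) (nat_lit 351)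 (nat_lit 250) (nat_lit 179)) (XT.lf (nat_lit 0) (nat_lit 131797742820) (nat_lit 76) (nat_lit 646516722855) (nat_lit 76) (nat_lit 639729536665) (nat_lit 1) (nat_lit 4) (nat_lit 2) (nat_lit 5) (nat_lit 2) (nat_lit 4) (nat_lit 352) (nat_lit 250) (nat_lit 178))) (XT.nd (nat_lit 78) (nat_lit 0) (nat_lit 0) (XT.lf (nat_lit 0) (nat_lit 149255810223) (nat_lit 76) (nat_lit 694365685973) (nat_lit 76) (nat_lit 687576520298) (nat_lit 1) (nat_lit 4) (nat_lit 2) (nat_lit 5) (nat_lit 2) (nat_lit 4) (nat_lit 353) (nat_lit 250) (nat_lit 177)) (XT.lf (nat_lit 0) (nat_lit 168106683538) (nat_lit 76) (nat_lit 746044413767) (nat_lit 76) (nat_lit 739253415236) (nat_lit 1) (nat_lit 4) (nat_lit 2) (nat_lit 5) (nat_lit 2) (nat_lit 4) (nat_lit 354) (nat_lit 250) (nat_lit 176))))))))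
noncomputable def xc34 : XT := (XT.nd (nat_lit 35880) (nat_lit 0) (nat_lit 76) (XT.nd (nat_lit 34710) (nat_lit 0) (nat_lit 684) (XT.nd (nat_lit 546) (nat_lit 0) (nat_lit 0) (XT.nd (nat_lit 234) (nat_lit 0) (nat_lit 0) (XT.nd (nat_lit 78) (nat_lit 0) (nat_lit 0) (XT.lf (nat_lit 0) (nat_lit 188462071645) (nat_lit 76) (nat_lit 801859150552) (nat_lit 76) (nat_lit 795066454931) (nat_lit 1) (nat_lit 4) (nat_lit 2) (nat_lit 5) (nat_lit 2) (nat_lit 4) (nat_lit 355) (nat_lit 250) (nat_lit 175)) (XT.nd (nat_lit 78) (nat_lit 0) (nat_lit 0) (XT.lf (nat_lit 0) (nat_lit 210442599065) (nat_lit 76) (nat_lit 862140650321) (nat_lit 76) (nat_lit 855346383322) (nat_lit 1) (nat_lit 4) (nat_lit 2) (nat_lit 5) (nat_lit 2) (nat_lit 4) (nat_lit 356) (nat_lit 250) (nat_lit 174)) (XT.lf (nat_lit 0) (nat_lit 234178520775) (nat_lit 76) (nat_lit 927246136779) (nat_lit 76) (nat_lit 920450414799) (nat_lit 1) (nat_lit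 4) (nat_lit 2) (nat_lit 5) (nat_lit 2) (nat_lit 4) (nat_lit 357) (nat_lit 250) (nat_lit 173)))) (XT.nd (nat_lit 156) (nat_lit 0) (nat_lit 0) (XT.nd (nat_lit 78) (nat_lit 0) (nat_lit 0) (XT.lf (nat_lit 0) (nat_lit 259810494090) (nat_lit 76) (nat_lit 997561420215) (nat_lit 76) (nat_lit 990764351031) (nat_lit 1) (nat_lit 4) (nat_lit 2) (nat_lit 5) (nat_lit 2) (nat_lit 4) (nat_lit 358) (nat_lit 250) (nat_lit 172)) (XT.lf (nat_lit 0) (nat_lit 287490412185) (nat_lit 76) (nat_lit 1073503183790) (nat_lit 76) (nat_lit 1066704867195) (nat_lit 1) (nat_lit 4) (nat_lit 2) (nat_lit 5) (nat_lit 2) (nat_lit 4) (nat_lit 359) (nat_lit 250) (nat_lit 171))) (XT.nd (nat_lit 78) (nat_lit 0) (nat_lit 0) (XT.lf (nat_lit 0) (nat_lit 317382304204) (nat_lit 76) (nat_lit 1155521452770) (nat_lit 76) (nat_lit 1148721981165) (nat_lit 1) (nat_lit 4) (nat_lit 2) (nat_lit 5) (nat_lit 2) (nat_lit 4) (nat_lit 360) (nat_lit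 250) (nat_lit 170)) (XT.lf (nat_lit 0) (nat_lit 349663307285) (nat_lit 76) (nat_lit 1244102261342) (nat_lit 76) (nat_lit 1237301720282) (nat_lit 1) (nat_lit 4) (nat_lit 2) (nat_lit 5) (nat_lit 2) (nat_lit 4) (nat_lit 361) (nat_lit 250) (nat_lit 169))))) (XT.nd (nat_lit 234) (nat_lit 0) (nat_lit 0) (XT.nd (nat_lit 78) (nat_lit 0) (nat_lit 0) (XT.lf (nat_lit 0) (nat_lit 384524716260) (nat_lit 76) (nat_lit 1339770532814) (nat_lit 76) (nat_lit 1332969001519) (nat_lit 1) (nat_lit 4) (nat_lit 2) (nat_lit 5) (nat_lit 2) (nat_lit 4) (nat_lit 362) (nat_lit 250) (nat_lit 168)) (XT.nd (nat_lit 78) (nat_lit 0) (nat_lit 0) (XT.lf (nat_lit 0) (nat_lit 422173117258) (nat_lit 76) (nat_lit 1443093190279) (nat_lit 76) (nat_lit 1436290742099) (nat_lit 1) (nat_lit 4) (nat_lit 2) (nat_lit 5) (nat_lit 2) (nat_lit 4) (nat_lit 363) (nat_lit 250) (nat_lit 167)) (XT.lf (nat_lit 0) (nat_lit 462831611914) (nat_lit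 76) (nat_lit 1554682516149) (nat_lit 76) (nat_lit 1547879219003) (nat_lit 1) (nat_lit 4) (nat_lit 2) (nat_lit 5) (nat_lit 2) (nat_lit 4) (nat_lit 364) (nat_lit 250) (nat_lit 166)))) (XT.nd (nat_lit 156) (nat_lit 0) (nat_lit 0) (XT.nd (nat_lit 78) (nat_lit 0) (nat_lit 0) (XT.lf (nat_lit 0) (nat_lit 506741139455) (nat_lit 76) (nat_lit 1675199780505) (nat_lit 76) (nat_lit 1668395697278) (nat_lit 1) (nat_lit 4) (nat_lit 2) (nat_lit 5) (nat_lit 2) (nat_lit 4) (nat_lit 365) (nat_lit 250) (nat_lit 165)) (XT.lf (nat_lit 0) (nat_lit 554161904489) (nat_lit 76) (nat_lit 1805359159728) (nat_lit 76) (nat_lit 1798554348648) (nat_lit 1) (nat_lit 4) (nat_lit 2) (nat_lit 5) (nat_lit 2) (nat_lit 4) (nat_lit 366) (nat_lit 250) (nat_lit 164))) (XT.nd (nat_lit 33696) (nat_lit 0) (nat_lit 1900) (XT.lf (nat_lit 0) (nat_lit 605374918957) (nat_lit 76) (nat_lit 1945931968657) (nat_lit 76) (nat_lit 1939126483640)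 (nat_lit 1) (nat_lit 4) (nat_lit 2) (nat_lit 5) (nat_lit 2) (nat_lit 4) (nat_lit 367) (nat_lit 250) (nat_lit 163)) (XT.lf (nat_lit 0) (nat_lit 1629734860) (nat_lit 152) (nat_lit 1474189226) (nat_lit 152) (nat_lit 1474189226) (nat_lit 26) (nat_lit 4) (nat_lit 28) (nat_lit 5) (nat_lit 28) (nat_lit 4) (nat_lit 278) (nat_lit 251) (nat_lit 251)))))) (XT.nd (nat_lit 546) (nat_lit 456) (nat_lit 0) (XT.nd (nat_lit 234) (nat_lit 380) (nat_lit 0) (XT.nd (nat_lit 78) (nat_lit 152) (nat_lit 0) (XT.lf (nat_lit 0) (nat_lit 495876090) (nat_lit 152) (nat_lit 191673684) (nat_lit 228) (nat_lit 8822885518) (nat_lit 23) (nat_lit 5) (nat_lit 25) (nat_lit 5) (nat_lit 26) (nat_lit 4) (nat_lit 279) (nat_lit 251) (nat_lit 250)) (XT.nd (nat_lit 78) (nat_lit 152) (nat_lit 0) (XT.lf (nat_lit 0) (nat_lit 4449333475) (nat_lit 228) (nat_lit 2655238545) (nat_lit 0) (nat_lit 2783358614) (nat_lit 23) (nat_lit 5) (nat_lit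 26) (nat_lit 4) (nat_lit 23) (nat_lit 4) (nat_lit 280) (nat_lit 251) (nat_lit 249)) (XT.lf (nat_lit 0) (nat_lit 4075940896) (nat_lit 152) (nat_lit 4318625608) (nat_lit 152) (nat_lit 1911030884) (nat_lit 21) (nat_lit 4) (nat_lit 23) (nat_lit 5) (nat_lit 23) (nat_lit 4) (nat_lit 281) (nat_lit 251) (nat_lit 248)))) (XT.nd (nat_lit 156) (nat_lit 228) (nat_lit 0) (XT.nd (nat_lit 78) (nat_lit 0) (nat_lit 0) (XT.lf (nat_lit 0) (nat_lit 377826117) (nat_lit 76) (nat_lit 1291455565) (nat_lit 152) (nat_lit 9094991393) (nat_lit 19) (nat_lit 5) (nat_lit 20) (nat_lit 5) (nat_lit 21) (nat_lit 4) (nat_lit 282) (nat_lit 251) (nat_lit 247)) (XT.lf (nat_lit 0) (nat_lit 5442341116) (nat_lit 152) (nat_lit 3824474189) (nat_lit 0) (nat_lit 1988545486) (nat_lit 19) (nat_lit 5) (nat_lit 21) (nat_lit 4) (nat_lit 19) (nat_lit 4) (nat_lit 283) (nat_lit 251) (nat_lit 246))) (XT.nd (nat_lit 78) (nat_lit 76) (nat_lit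 0) (XT.lf (nat_lit 0) (nat_lit 3062654005) (nat_lit 152) (nat_lit 6364797050) (nat_lit 152) (nat_lit 2365888680) (nat_lit 17) (nat_lit 4) (nat_lit 19) (nat_lit 5) (nat_lit 19) (nat_lit 4) (nat_lit 284) (nat_lit 251) (nat_lit 245)) (XT.lf (nat_lit 0) (nat_lit 1201219375) (nat_lit 228) (nat_lit 2005106085) (nat_lit 76) (nat_lit 9172814107) (nat_lit 16) (nat_lit 5) (nat_lit 19) (nat_lit 5) (nat_lit 17) (nat_lit 4) (nat_lit 285) (nat_lit 251) (nat_lit 244))))) (XT.nd (nat_lit 312) (nat_lit 152) (nat_lit 0) (XT.nd (nat_lit 156) (nat_lit 228) (nat_lit 0) (XT.nd (nat_lit 78) (nat_lit 0) (nat_lit 0) (XT.lf (nat_lit 0) (nat_lit 4876083685) (nat_lit 152) (nat_lit 7861804573) (nat_lit 0) (nat_lit 273316371) (nat_lit 15) (nat_lit 5) (nat_lit 17) (nat_lit 4) (nat_lit 15) (nat_lit 4) (nat_lit 286) (nat_lit 251) (nat_lit 243)) (XT.lf (nat_lit 0) (nat_lit 8807332209) (nat_lit 152) (nat_lit 1085929527)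 (nat_lit 0) (nat_lit 3803890759) (nat_lit 15) (nat_lit 5) (nat_lit 17) (nat_lit 4) (nat_lit 15) (nat_lit 4) (nat_lit 287) (nat_lit 251) (nat_lit 242))) (XT.nd (nat_lit 78) (nat_lit 76) (nat_lit 0) (XT.lf (nat_lit 0) (nat_lit 6265755691) (nat_lit 152) (nat_lit 6774004238) (nat_lit 152) (nat_lit 1399568217) (nat_lit 13) (nat_lit 4) (nat_lit 15) (nat_lit 5) (nat_lit 15) (nat_lit 4) (nat_lit 288) (nat_lit 251) (nat_lit 241)) (XT.lf (nat_lit 0) (nat_lit 2119027971) (nat_lit 228) (nat_lit 1310371331) (nat_lit 76) (nat_lit 11817750211) (nat_lit 12) (nat_lit 5) (nat_lit 15) (nat_lit 5) (nat_lit 13) (nat_lit 4) (nat_lit 289) (nat_lit 251) (nat_lit 240)))) (XT.nd (nat_lit 156) (nat_lit 76) (nat_lit 0) (XT.nd (nat_lit 78) (nat_lit 0) (nat_lit 0) (XT.lf (nat_lit 0) (nat_lit 5846246393) (nat_lit 152) (nat_lit 10013108226) (nat_lit 0) (nat_lit 257341245) (nat_lit 11) (nat_lit 5) (nat_lit 13) (nat_lit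 4) (nat_lit 11) (nat_lit 4) (nat_lit 290) (nat_lit 251) (nat_lit 239)) (XT.lf (nat_lit 0) (nat_lit 9849199500) (nat_lit 152) (nat_lit 3221010017) (nat_lit 0) (nat_lit 3987602268) (nat_lit 11) (nat_lit 5) (nat_lit 13) (nat_lit 4) (nat_lit 11) (nat_lit 4) (nat_lit 291) (nat_lit 251) (nat_lit 238))) (XT.nd (nat_lit 78) (nat_lit 0) (nat_lit 0) (XT.lf (nat_lit 0) (nat_lit 4074530835) (nat_lit 76) (nat_lit 10058557472) (nat_lit 76) (nat_lit 3944467568) (nat_lit 10) (nat_lit 4) (nat_lit 11) (nat_lit 5) (nat_lit 11) (nat_lit 4) (nat_lit 292) (nat_lit 251) (nat_lit 237)) (XT.lf (nat_lit 0) (nat_lit 11899317782) (nat_lit 76) (nat_lit 6815601527) (nat_lit 76) (nat_lit 467722114) (nat_lit 10) (nat_lit 4) (nat_lit 11) (nat_lit 5) (nat_lit 11) (nat_lit 4) (nat_lit 293) (nat_lit 251) (nat_lit 236))))))) (XT.nd (nat_lit 1170) (nat_lit 152) (nat_lit 0) (XT.nd (nat_lit 546) (nat_lit 152) (nat_lit 0)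 (XT.nd (nat_lit 234) (nat_lit 152) (nat_lit 0) (XT.nd (nat_lit 78) (nat_lit 76) (nat_lit 0) (XT.lf (nat_lit 0) (nat_lit 2996375089) (nat_lit 152) (nat_lit 331890996) (nat_lit 76) (nat_lit 17051805956) (nat_lit 9) (nat_lit 5) (nat_lit 11) (nat_lit 5) (nat_lit 10) (nat_lit 4) (nat_lit 294) (nat_lit 251) (nat_lit 235)) (XT.nd (nat_lit 78) (nat_lit 0) (nat_lit 0) (XT.lf (nat_lit 0) (nat_lit 6784564625) (nat_lit 152) (nat_lit 14361253090) (nat_lit 0) (nat_lit 520872028) (nat_lit 8) (nat_lit 5) (nat_lit 10) (nat_lit 4) (nat_lit 8) (nat_lit 4) (nat_lit 295) (nat_lit 251) (nat_lit 234)) (XT.lf (nat_lit 0) (nat_lit 10856121460) (nat_lit 152) (nat_lit 7781236450) (nat_lit 0) (nat_lit 4420586593) (nat_lit 8) (nat_lit 5) (nat_lit 10) (nat_lit 4) (nat_lit 8) (nat_lit 4) (nat_lit 296) (nat_lit 251) (nat_lit 233)))) (XT.nd (nat_lit 156) (nat_lit 76) (nat_lit 0) (XT.nd (nat_lit 78) (nat_lit 76) (nat_lit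 0) (XT.lf (nat_lit 0) (nat_lit 15146507912) (nat_lit 152) (nat_lit 870806282) (nat_lit 0) (nat_lit 8551859834) (nat_lit 8) (nat_lit 5) (nat_lit 10) (nat_lit 4) (nat_lit 8) (nat_lit 4) (nat_lit 297) (nat_lit 251) (nat_lit 232)) (XT.lf (nat_lit 0) (nat_lit 6748579383) (nat_lit 76) (nat_lit 13094872607) (nat_lit 76) (nat_lit 6352897481) (nat_lit 7) (nat_lit 4) (nat_lit 8) (nat_lit 5) (nat_lit 8) (nat_lit 4) (nat_lit 298) (nat_lit 251) (nat_lit 231))) (XT.nd (nat_lit 78) (nat_lit 76) (nat_lit 0) (XT.lf (nat_lit 0) (nat_lit 14850163421) (nat_lit 76) (nat_lit 9993898517) (nat_lit 76) (nat_lit 3115509456) (nat_lit 7) (nat_lit 4) (nat_lit 8) (nat_lit 5) (nat_lit 8) (nat_lit 4) (nat_lit 299) (nat_lit 251) (nat_lit 230)) (XT.lf (nat_lit 0) (nat_lit 270622584) (nat_lit 152) (nat_lit 6441803281) (nat_lit 76) (nat_lit 23158078217) (nat_lit 6) (nat_lit 5) (nat_lit 8) (nat_lit 5) (nat_lit 7) (nat_lit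 4) (nat_lit 300) (nat_lit 251) (nat_lit 229))))) (XT.nd (nat_lit 312) (nat_lit 76) (nat_lit 0) (XT.nd (nat_lit 156) (nat_lit 0) (nat_lit 0) (XT.nd (nat_lit 78) (nat_lit 0) (nat_lit 0) (XT.lf (nat_lit 0) (nat_lit 549608447) (nat_lit 76) (nat_lit 3138497161) (nat_lit 152) (nat_lit 28245513252) (nat_lit 5) (nat_lit 5) (nat_lit 6) (nat_lit 5) (nat_lit 7) (nat_lit 4) (nat_lit 301) (nat_lit 251) (nat_lit 228)) (XT.lf (nat_lit 0) (nat_lit 7493502951) (nat_lit 152) (nat_lit 25860082855) (nat_lit 0) (nat_lit 799113138) (nat_lit 5) (nat_lit 5) (nat_lit 7) (nat_lit 4) (nat_lit 5) (nat_lit 4) (nat_lit 302) (nat_lit 251) (nat_lit 227))) (XT.nd (nat_lit 78) (nat_lit 0) (nat_lit 0) (XT.lf (nat_lit 0) (nat_lit 11607501635) (nat_lit 152) (nat_lit 20121271090) (nat_lit 0) (nat_lit 4820270791) (nat_lit 5) (nat_lit 5) (nat_lit 7) (nat_lit 4) (nat_lit 5) (nat_lit 4) (nat_lit 303) (nat_lit 251) (nat_lit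 226)) (XT.lf (nat_lit 0) (nat_lit 15978999980) (nat_lit 152) (nat_lit 14058086413) (nat_lit 0) (nat_lit 9105805219) (nat_lit 5) (nat_lit 5) (nat_lit 7) (nat_lit 4) (nat_lit 5) (nat_lit 4) (nat_lit 304) (nat_lit 251) (nat_lit 225)))) (XT.nd (nat_lit 156) (nat_lit 76) (nat_lit 0) (XT.nd (nat_lit 78) (nat_lit 0) (nat_lit 0) (XT.lf (nat_lit 0) (nat_lit 20633903163) (nat_lit 152) (nat_lit 7634598839) (nat_lit 0) (nat_lit 13681112181) (nat_lit 5) (nat_lit 5) (nat_lit 7) (nat_lit 4) (nat_lit 5) (nat_lit 4) (nat_lit 305) (nat_lit 251) (nat_lit 224)) (XT.lf (nat_lit 0) (nat_lit 25599795793) (nat_lit 152) (nat_lit 812743258) (nat_lit 0) (nat_lit 18573304608) (nat_lit 5) (nat_lit 5) (nat_lit 7) (nat_lit 4) (nat_lit 5) (nat_lit 4) (nat_lit 306) (nat_lit 251) (nat_lit 223))) (XT.nd (nat_lit 78) (nat_lit 0) (nat_lit 0) (XT.lf (nat_lit 0) (nat_lit 6787441451) (nat_lit 76) (nat_lit 24281902063) (nat_lit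 76) (nat_lit 17187169948) (nat_lit 4) (nat_lit 4) (nat_lit 5) (nat_lit 5) (nat_lit 5) (nat_lit 4) (nat_lit 307) (nat_lit 251) (nat_lit 222)) (XT.lf (nat_lit 0) (nat_lit 14937615451) (nat_lit 76) (nat_lit 22005911292) (nat_lit 76) (nat_lit 14847993131) (nat_lit 4) (nat_lit 4) (nat_lit 5) (nat_lit 5) (nat_lit 5) (nat_lit 4) (nat_lit 308) (nat_lit 251) (nat_lit 221)))))) (XT.nd (nat_lit 546) (nat_lit 0) (nat_lit 0) (XT.nd (nat_lit 234) (nat_lit 152) (nat_lit 0) (XT.nd (nat_lit 78) (nat_lit 0) (nat_lit 0) (XT.lf (nat_lit 0) (nat_lit 23643278449) (nat_lit 76) (nat_lit 19593301228) (nat_lit 76) (nat_lit 12376877469) (nat_lit 4) (nat_lit 4) (nat_lit 5) (nat_lit 5) (nat_lit 5) (nat_lit 4) (nat_lit 309) (nat_lit 251) (nat_lit 220)) (XT.nd (nat_lit 78) (nat_lit 0) (nat_lit 0) (XT.lf (nat_lit 0) (nat_lit 32956019559) (nat_lit 76) (nat_lit 17029774922) (nat_lit 76) (nat_lit 9759179313) (nat_lit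 4) (nat_lit 4) (nat_lit 5) (nat_lit 5) (nat_lit 5) (nat_lit 4) (nat_lit 310) (nat_lit 251) (nat_lit 219)) (XT.lf (nat_lit 0) (nat_lit 42931025394) (nat_lit 76) (nat_lit 14300141106) (nat_lit 76) (nat_lit 6979386378) (nat_lit 4) (nat_lit 4) (nat_lit 5) (nat_lit 5) (nat_lit 5) (nat_lit 4) (nat_lit 311) (nat_lit 251) (nat_lit 218)))) (XT.nd (nat_lit 156) (nat_lit 152) (nat_lit 0) (XT.nd (nat_lit 78) (nat_lit 0) (nat_lit 0) (XT.lf (nat_lit 0) (nat_lit 53627407101) (nat_lit 76) (nat_lit 11388224175) (nat_lit 76) (nat_lit 4021025816) (nat_lit 4) (nat_lit 4) (nat_lit 5) (nat_lit 5) (nat_lit 5) (nat_lit 4) (nat_lit 312) (nat_lit 251) (nat_lit 217)) (XT.lf (nat_lit 0) (nat_lit 65108550645) (nat_lit 76) (nat_lit 8276768322) (nat_lit 76) (nat_lit 866566602) (nat_lit 4) (nat_lit 4) (nat_lit 5) (nat_lit 5) (nat_lit 5) (nat_lit 4) (nat_lit 313) (nat_lit 251) (nat_lit 216))) (XT.nd (nat_lit 78) (nat_lit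 76) (nat_lit 0) (XT.lf (nat_lit 0) (nat_lit 2377489947) (nat_lit 152) (nat_lit 2504840556) (nat_lit 76) (nat_lit 74999997697) (nat_lit 3) (nat_lit 5) (nat_lit 5) (nat_lit 5) (nat_lit 4) (nat_lit 4) (nat_lit 314) (nat_lit 251) (nat_lit 215)) (XT.lf (nat_lit 0) (nat_lit 4820787056) (nat_lit 76) (nat_lit 1096364459) (nat_lit 152) (nat_lit 80037648603) (nat_lit 2) (nat_lit 5) (nat_lit 3) (nat_lit 5) (nat_lit 4) (nat_lit 4) (nat_lit 315) (nat_lit 251) (nat_lit 214))))) (XT.nd (nat_lit 312) (nat_lit 0) (nat_lit 0) (XT.nd (nat_lit 156) (nat_lit 0) (nat_lit 0) (XT.nd (nat_lit 78) (nat_lit 0) (nat_lit 0) (XT.lf (nat_lit 0) (nat_lit 9849462572) (nat_lit 152) (nat_lit 79769323463) (nat_lit 0) (nat_lit 2885550024) (nat_lit 2) (nat_lit 5) (nat_lit 4) (nat_lit 4) (nat_lit 2) (nat_lit 4) (nat_lit 316) (nat_lit 251) (nat_lit 213)) (XT.lf (nat_lit 0) (nat_lit 14094503766) (nat_lit 152) (nat_lit 78382178221)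 (nat_lit 0) (nat_lit 7101323853) (nat_lit 2) (nat_lit 5) (nat_lit 4) (nat_lit 4) (nat_lit 2) (nat_lit 4) (nat_lit 317) (nat_lit 251) (nat_lit 212))) (XT.nd (nat_lit 78) (nat_lit 0) (nat_lit 0) (XT.lf (nat_lit 0) (nat_lit 18651063307) (nat_lit 152) (nat_lit 76937989624) (nat_lit 0) (nat_lit 11630783982) (nat_lit 2) (nat_lit 5) (nat_lit 4) (nat_lit 4) (nat_lit 2) (nat_lit 4) (nat_lit 318) (nat_lit 251) (nat_lit 211)) (XT.lf (nat_lit 0) (nat_lit 23546143028) (nat_lit 152) (nat_lit 75428199518) (nat_lit 0) (nat_lit 16500771655) (nat_lit 2) (nat_lit 5) (nat_lit 4) (nat_lit 4) (nat_lit 2) (nat_lit 4) (nat_lit 319) (nat_lit 251) (nat_lit 210)))) (XT.nd (nat_lit 156) (nat_lit 0) (nat_lit 0) (XT.nd (nat_lit 78) (nat_lit 0) (nat_lit 0) (XT.lf (nat_lit 0) (nat_lit 28808750810) (nat_lit 152) (nat_lit 73843860998) (nat_lit 0) (nat_lit 21740146059) (nat_lit 2) (nat_lit 5) (nat_lit 4) (nat_lit 4)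 (nat_lit 2) (nat_lit 4) (nat_lit 320) (nat_lit 251) (nat_lit 209)) (XT.lf (nat_lit 0) (nat_lit 34470072477) (nat_lit 152) (nat_lit 72175585392) (nat_lit 0) (nat_lit 27379955339) (nat_lit 2) (nat_lit 5) (nat_lit 4) (nat_lit 4) (nat_lit 2) (nat_lit 4) (nat_lit 321) (nat_lit 251) (nat_lit 208))) (XT.nd (nat_lit 78) (nat_lit 0) (nat_lit 0) (XT.lf (nat_lit 0) (nat_lit 40563656601) (nat_lit 152) (nat_lit 70413486623) (nat_lit 0) (nat_lit 33453620586) (nat_lit 2) (nat_lit 5) (nat_lit 4) (nat_lit 4) (nat_lit 2) (nat_lit 4) (nat_lit 322) (nat_lit 251) (nat_lit 207)) (XT.lf (nat_lit 0) (nat_lit 47125613311) (nat_lit 152) (nat_lit 68547122622) (nat_lit 0) (nat_lit 39997133891) (nat_lit 2) (nat_lit 5) (nat_lit 4) (nat_lit 4) (nat_lit 2) (nat_lit 4) (nat_lit 323) (nat_lit 251) (nat_lit 206))))))))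
noncomputable def xc35 : XT := (XT.nd (nat_lit 2262) (nat_lit 0) (nat_lit 0) (XT.nd (nat_lit 1092) (nat_lit 76) (nat_lit 0) (XT.nd (nat_lit 546) (nat_lit 0) (nat_lit 0) (XT.nd (nat_lit 234) (nat_lit 0) (nat_lit 0) (XT.nd (nat_lit 78) (nat_lit 0) (nat_lit 0) (XT.lf (nat_lit 0) (nat_lit 54194828275) (nat_lit 152) (nat_lit 66565433456) (nat_lit 0) (nat_lit 47049271629) (nat_lit 2) (nat_lit 5) (nat_lit 4) (nat_lit 4) (nat_lit 2) (nat_lit 4) (nat_lit 324) (nat_lit 251) (nat_lit 205)) (XT.nd (nat_lit 78) (nat_lit 0) (nat_lit 0) (XT.lf (nat_lit 0) (nat_lit 61813193138) (nat_lit 152) (nat_lit 64456675781) (nat_lit 0) (nat_lit 54651824246) (nat_lit 2) (nat_lit 5) (nat_lit 4) (nat_lit 4) (nat_lit 2) (nat_lit 4) (nat_lit 325) (nat_lit 251) (nat_lit 204)) (XT.lf (nat_lit 0) (nat_lit 70025853767) (nat_lit 152) (nat_lit 62208353256) (nat_lit 0) (nat_lit 62849843906) (nat_lit 2) (nat_lit 5) (nat_lit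 4) (nat_lit 4) (nat_lit 2) (nat_lit 4) (nat_lit 326) (nat_lit 251) (nat_lit 203)))) (XT.nd (nat_lit 156) (nat_lit 0) (nat_lit 0) (XT.nd (nat_lit 78) (nat_lit 0) (nat_lit 0) (XT.lf (nat_lit 0) (nat_lit 78881477779) (nat_lit 152) (nat_lit 59807142487) (nat_lit 0) (nat_lit 71691911465) (nat_lit 2) (nat_lit 5) (nat_lit 4) (nat_lit 4) (nat_lit 2) (nat_lit 4) (nat_lit 327) (nat_lit 251) (nat_lit 202)) (XT.lf (nat_lit 0) (nat_lit 88432542946) (nat_lit 152) (nat_lit 57238814078) (nat_lit 0) (nat_lit 81230424361) (nat_lit 2) (nat_lit 5) (nat_lit 4) (nat_lit 4) (nat_lit 2) (nat_lit 4) (nat_lit 328) (nat_lit 251) (nat_lit 201))) (XT.nd (nat_lit 78) (nat_lit 0) (nat_lit 0) (XT.lf (nat_lit 0) (nat_lit 98735648174) (nat_lit 152) (nat_lit 54488148305) (nat_lit 0) (nat_lit 91521907115) (nat_lit 2) (nat_lit 5) (nat_lit 4) (nat_lit 4) (nat_lit 2) (nat_lit 4) (nat_lit 329) (nat_lit 251) (nat_lit 200))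 (XT.lf (nat_lit 0) (nat_lit 109851848900) (nat_lit 152) (nat_lit 51538844925) (nat_lit 0) (nat_lit 102627346292) (nat_lit 2) (nat_lit 5) (nat_lit 4) (nat_lit 4) (nat_lit 2) (nat_lit 4) (nat_lit 330) (nat_lit 251) (nat_lit 199))))) (XT.nd (nat_lit 234) (nat_lit 0) (nat_lit 0) (XT.nd (nat_lit 78) (nat_lit 0) (nat_lit 0) (XT.lf (nat_lit 0) (nat_lit 121847018906) (nat_lit 152) (nat_lit 48373426587) (nat_lit 0) (nat_lit 114612551901) (nat_lit 2) (nat_lit 5) (nat_lit 4) (nat_lit 4) (nat_lit 2) (nat_lit 4) (nat_lit 331) (nat_lit 251) (nat_lit 198)) (XT.nd (nat_lit 78) (nat_lit 0) (nat_lit 0) (XT.lf (nat_lit 0) (nat_lit 134792240682) (nat_lit 152) (nat_lit 44973135254) (nat_lit 0) (nat_lit 127548547383) (nat_lit 2) (nat_lit 5) (nat_lit 4) (nat_lit 4) (nat_lit 2) (nat_lit 4) (nat_lit 332) (nat_lit 251) (nat_lit 197)) (XT.lf (nat_lit 0) (nat_lit 148764226653) (nat_lit 152) (nat_lit 41317821053)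 (nat_lit 0) (nat_lit 141511990489) (nat_lit 2) (nat_lit 5) (nat_lit 4) (nat_lit 4) (nat_lit 2) (nat_lit 4) (nat_lit 333) (nat_lit 251) (nat_lit 196)))) (XT.nd (nat_lit 156) (nat_lit 0) (nat_lit 0) (XT.nd (nat_lit 78) (nat_lit 0) (nat_lit 0) (XT.lf (nat_lit 0) (nat_lit 163845773773) (nat_lit 152) (nat_lit 37385822863) (nat_lit 0) (nat_lit 156585627549) (nat_lit 2) (nat_lit 5) (nat_lit 4) (nat_lit 4) (nat_lit 2) (nat_lit 4) (nat_lit 334) (nat_lit 251) (nat_lit 195)) (XT.lf (nat_lit 0) (nat_lit 180126254173) (nat_lit 152) (nat_lit 33153839953) (nat_lit 0) (nat_lit 172858783819) (nat_lit 2) (nat_lit 5) (nat_lit 4) (nat_lit 4) (nat_lit 2) (nat_lit 4) (nat_lit 335) (nat_lit 251) (nat_lit 194))) (XT.nd (nat_lit 78) (nat_lit 0) (nat_lit 0) (XT.lf (nat_lit 0) (nat_lit 197702144773) (nat_lit 152) (nat_lit 28596793906) (nat_lit 0) (nat_lit 190427892818) (nat_lit 2) (nat_lit 5) (nat_lit 4) (nat_lit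 4) (nat_lit 2) (nat_lit 4) (nat_lit 336) (nat_lit 251) (nat_lit 193)) (XT.lf (nat_lit 0) (nat_lit 216677599000) (nat_lit 152) (nat_lit 23687680004) (nat_lit 0) (nat_lit 209397067784) (nat_lit 2) (nat_lit 5) (nat_lit 4) (nat_lit 4) (nat_lit 2) (nat_lit 4) (nat_lit 337) (nat_lit 251) (nat_lit 192)))))) (XT.nd (nat_lit 546) (nat_lit 0) (nat_lit 0) (XT.nd (nat_lit 234) (nat_lit 76) (nat_lit 0) (XT.nd (nat_lit 78) (nat_lit 0) (nat_lit 0) (XT.lf (nat_lit 0) (nat_lit 237165063989) (nat_lit 152) (nat_lit 18397407203) (nat_lit 0) (nat_lit 229878718643) (nat_lit 2) (nat_lit 5) (nat_lit 4) (nat_lit 4) (nat_lit 2) (nat_lit 4) (nat_lit 338) (nat_lit 251) (nat_lit 191)) (XT.nd (nat_lit 78) (nat_lit 0) (nat_lit 0) (XT.lf (nat_lit 0) (nat_lit 259285946942) (nat_lit 152) (nat_lit 12694625738) (nat_lit 0) (nat_lit 251994218141) (nat_lit 2) (nat_lit 5) (nat_lit 4) (nat_lit 4) (nat_lit 2) (nat_lit 4) (nat_lit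 339) (nat_lit 251) (nat_lit 190)) (XT.lf (nat_lit 0) (nat_lit 283171334570) (nat_lit 152) (nat_lit 6545541348) (nat_lit 0) (nat_lit 275874621090) (nat_lit 2) (nat_lit 5) (nat_lit 4) (nat_lit 4) (nat_lit 2) (nat_lit 4) (nat_lit 340) (nat_lit 251) (nat_lit 189)))) (XT.nd (nat_lit 156) (nat_lit 0) (nat_lit 0) (XT.nd (nat_lit 78) (nat_lit 0) (nat_lit 0) (XT.lf (nat_lit 0) (nat_lit 90828599) (nat_lit 76) (nat_lit 308874125744) (nat_lit 76) (nat_lit 301572796820) (nat_lit 1) (nat_lit 4) (nat_lit 2) (nat_lit 5) (nat_lit 2) (nat_lit 4) (nat_lit 341) (nat_lit 251) (nat_lit 188)) (XT.lf (nat_lit 0) (nat_lit 7621406598) (nat_lit 76) (nat_lit 329374979519) (nat_lit 76) (nat_lit 322069377036) (nat_lit 1) (nat_lit 4) (nat_lit 2) (nat_lit 5) (nat_lit 2) (nat_lit 4) (nat_lit 342) (nat_lit 251) (nat_lit 187))) (XT.nd (nat_lit 78) (nat_lit 0) (nat_lit 0) (XT.lf (nat_lit 0) (nat_lit 15746141688) (nat_lit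 76) (nat_lit 351519890485) (nat_lit 76) (nat_lit 344210331003) (nat_lit 1) (nat_lit 4) (nat_lit 2) (nat_lit 5) (nat_lit 2) (nat_lit 4) (nat_lit 343) (nat_lit 251) (nat_lit 186)) (XT.lf (nat_lit 0) (nat_lit 24513180447) (nat_lit 76) (nat_lit 375440087745) (nat_lit 76) (nat_lit 368126864374) (nat_lit 1) (nat_lit 4) (nat_lit 2) (nat_lit 5) (nat_lit 2) (nat_lit 4) (nat_lit 344) (nat_lit 251) (nat_lit 185))))) (XT.nd (nat_lit 312) (nat_lit 0) (nat_lit 0) (XT.nd (nat_lit 156) (nat_lit 0) (nat_lit 0) (XT.nd (nat_lit 78) (nat_lit 0) (nat_lit 0) (XT.lf (nat_lit 0) (nat_lit 33974475698) (nat_lit 76) (nat_lit 401277320616) (nat_lit 76) (nat_lit 393960704756) (nat_lit 1) (nat_lit 4) (nat_lit 2) (nat_lit 5) (nat_lit 2) (nat_lit 4) (nat_lit 345) (nat_lit 251) (nat_lit 184)) (XT.lf (nat_lit 0) (nat_lit 44186094374) (nat_lit 76) (nat_lit 429184698625) (nat_lit 76) (nat_lit 421864941571) (nat_lit 1)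 (nat_lit 4) (nat_lit 2) (nat_lit 5) (nat_lit 2) (nat_lit 4) (nat_lit 346) (nat_lit 251) (nat_lit 183))) (XT.nd (nat_lit 78) (nat_lit 0) (nat_lit 0) (XT.lf (nat_lit 0) (nat_lit 55208549774) (nat_lit 76) (nat_lit 459327598828) (nat_lit 76) (nat_lit 452004933261) (nat_lit 1) (nat_lit 4) (nat_lit 2) (nat_lit 5) (nat_lit 2) (nat_lit 4) (nat_lit 347) (nat_lit 251) (nat_lit 182)) (XT.lf (nat_lit 0) (nat_lit 67107160149) (nat_lit 76) (nat_lit 491884645818) (nat_lit 76) (nat_lit 484559287184) (nat_lit 1) (nat_lit 4) (nat_lit 2) (nat_lit 5) (nat_lit 2) (nat_lit 4) (nat_lit 348) (nat_lit 251) (nat_lit 181)))) (XT.nd (nat_lit 156) (nat_lit 0) (nat_lit 0) (XT.nd (nat_lit 78) (nat_lit 0) (nat_lit 0) (XT.lf (nat_lit 0) (nat_lit 79952435784) (nat_lit 76) (nat_lit 527048770244) (nat_lit 76) (nat_lit 519720918029) (nat_lit 1) (nat_lit 4) (nat_lit 2) (nat_lit 5) (nat_lit 2) (nat_lit 4) (nat_lit 349) (nat_lit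 251) (nat_lit 180)) (XT.lf (nat_lit 0) (nat_lit 93820496832) (nat_lit 76) (nat_lit 565028352103) (nat_lit 76) (nat_lit 557698191017) (nat_lit 1) (nat_lit 4) (nat_lit 2) (nat_lit 5) (nat_lit 2) (nat_lit 4) (nat_lit 350) (nat_lit 251) (nat_lit 179))) (XT.nd (nat_lit 78) (nat_lit 0) (nat_lit 0) (XT.lf (nat_lit 0) (nat_lit 108793524394) (nat_lit 76) (nat_lit 606048455583) (nat_lit 76) (nat_lit 598716156654) (nat_lit 1) (nat_lit 4) (nat_lit 2) (nat_lit 5) (nat_lit 2) (nat_lit 4) (nat_lit 351) (nat_lit 251) (nat_lit 178)) (XT.lf (nat_lit 0) (nat_lit 124960247522) (nat_lit 76) (nat_lit 650352162780) (nat_lit 76) (nat_lit 643017884366) (nat_lit 1) (nat_lit 4) (nat_lit 2) (nat_lit 5) (nat_lit 2) (nat_lit 4) (nat_lit 352) (nat_lit 251) (nat_lit 177))))))) (XT.nd (nat_lit 34632) (nat_lit 0) (nat_lit 760) (XT.nd (nat_lit 546) (nat_lit 0) (nat_lit 0) (XT.nd (nat_lit 234) (nat_lit 0) (nat_lit 0)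 (XT.nd (nat_lit 78) (nat_lit 0) (nat_lit 0) (XT.lf (nat_lit 0) (nat_lit 142416469021) (nat_lit 76) (nat_lit 698202014180) (nat_lit 76) (nat_lit 690865902910) (nat_lit 1) (nat_lit 4) (nat_lit 2) (nat_lit 5) (nat_lit 2) (nat_lit 4) (nat_lit 353) (nat_lit 251) (nat_lit 176)) (XT.nd (nat_lit 78) (nat_lit 0) (nat_lit 0) (XT.lf (nat_lit 0) (nat_lit 161265633167) (nat_lit 76) (nat_lit 749881564458) (nat_lit 76) (nat_lit 742543756099) (nat_lit 1) (nat_lit 4) (nat_lit 2) (nat_lit 5) (nat_lit 2) (nat_lit 4) (nat_lit 354) (nat_lit 251) (nat_lit 175)) (XT.lf (nat_lit 0) (nat_lit 181619438708) (nat_lit 76) (nat_lit 805697062802) (nat_lit 76) (nat_lit 798357683063) (nat_lit 1) (nat_lit 4) (nat_lit 2) (nat_lit 5) (nat_lit 2) (nat_lit 4) (nat_lit 355) (nat_lit 251) (nat_lit 174)))) (XT.nd (nat_lit 156) (nat_lit 0) (nat_lit 0) (XT.nd (nat_lit 78) (nat_lit 0) (nat_lit 0) (XT.lf (nat_lit 0) (nat_lit 203598500790)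 (nat_lit 76) (nat_lit 865979267719) (nat_lit 76) (nat_lit 858638433000) (nat_lit 1) (nat_lit 4) (nat_lit 2) (nat_lit 5) (nat_lit 2) (nat_lit 4) (nat_lit 356) (nat_lit 251) (nat_lit 173)) (XT.lf (nat_lit 0) (nat_lit 227333065706) (nat_lit 76) (nat_lit 931085407091) (nat_lit 76) (nat_lit 923743225168) (nat_lit 1) (nat_lit 4) (nat_lit 2) (nat_lit 5) (nat_lit 2) (nat_lit 4) (nat_lit 357) (nat_lit 251) (nat_lit 172))) (XT.nd (nat_lit 78) (nat_lit 0) (nat_lit 0) (XT.lf (nat_lit 0) (nat_lit 252963782730) (nat_lit 76) (nat_lit 1001401295077) (nat_lit 76) (nat_lit 994057865743) (nat_lit 1) (nat_lit 4) (nat_lit 2) (nat_lit 5) (nat_lit 2) (nat_lit 4) (nat_lit 358) (nat_lit 251) (nat_lit 171)) (XT.lf (nat_lit 0) (nat_lit 280642537592) (nat_lit 76) (nat_lit 1077343618421) (nat_lit 76) (nat_lit 1069999034076) (nat_lit 1) (nat_lit 4) (nat_lit 2) (nat_lit 5) (nat_lit 2) (nat_lit 4) (nat_lit 359) (nat_lit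 251) (nat_lit 170))))) (XT.nd (nat_lit 312) (nat_lit 0) (nat_lit 0) (XT.nd (nat_lit 156) (nat_lit 0) (nat_lit 0) (XT.nd (nat_lit 78) (nat_lit 0) (nat_lit 0) (XT.lf (nat_lit 0) (nat_lit 310533352544) (nat_lit 76) (nat_lit 1159362405705) (nat_lit 76) (nat_lit 1152016751906) (nat_lit 1) (nat_lit 4) (nat_lit 2) (nat_lit 5) (nat_lit 2) (nat_lit 4) (nat_lit 360) (nat_lit 251) (nat_lit 169)) (XT.lf (nat_lit 0) (nat_lit 342813358340) (nat_lit 76) (nat_lit 1247943694188) (nat_lit 76) (nat_lit 1240597050154) (nat_lit 1) (nat_lit 4) (nat_lit 2) (nat_lit 5) (nat_lit 2) (nat_lit 4) (nat_lit 361) (nat_lit 251) (nat_lit 168))) (XT.nd (nat_lit 78) (nat_lit 0) (nat_lit 0) (XT.lf (nat_lit 0) (nat_lit 377673843905) (nat_lit 76) (nat_lit 1343612410023) (nat_lit 76) (nat_lit 1336264849104) (nat_lit 1) (nat_lit 4) (nat_lit 2) (nat_lit 5) (nat_lit 2) (nat_lit 4) (nat_lit 362) (nat_lit 251) (nat_lit 167))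 (XT.lf (nat_lit 0) (nat_lit 415321389892) (nat_lit 76) (nat_lit 1446935478934) (nat_lit 76) (nat_lit 1439587069048) (nat_lit 1) (nat_lit 4) (nat_lit 2) (nat_lit 5) (nat_lit 2) (nat_lit 4) (nat_lit 363) (nat_lit 251) (nat_lit 166)))) (XT.nd (nat_lit 156) (nat_lit 0) (nat_lit 0) (XT.nd (nat_lit 78) (nat_lit 0) (nat_lit 0) (XT.lf (nat_lit 0) (nat_lit 455979092871) (nat_lit 76) (nat_lit 1558525185773) (nat_lit 76) (nat_lit 1551175989807) (nat_lit 1) (nat_lit 4) (nat_lit 2) (nat_lit 5) (nat_lit 2) (nat_lit 4) (nat_lit 364) (nat_lit 251) (nat_lit 165)) (XT.lf (nat_lit 0) (nat_lit 499887887378) (nat_lit 76) (nat_lit 1679042802879) (nat_lit 76) (nat_lit 1671692879060) (nat_lit 1) (nat_lit 4) (nat_lit 2) (nat_lit 5) (nat_lit 2) (nat_lit 4) (nat_lit 365) (nat_lit 251) (nat_lit 164))) (XT.nd (nat_lit 78) (nat_lit 0) (nat_lit 0) (XT.lf (nat_lit 0) (nat_lit 547307973677) (nat_lit 76) (nat_lit 1809202508721)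 (nat_lit 76) (nat_lit 1801851910965) (nat_lit 1) (nat_lit 4) (nat_lit 2) (nat_lit 5) (nat_lit 2) (nat_lit 4) (nat_lit 366) (nat_lit 251) (nat_lit 163)) (XT.lf (nat_lit 0) (nat_lit 598520359687) (nat_lit 76) (nat_lit 1949775620076) (nat_lit 76) (nat_lit 1942424398304) (nat_lit 1) (nat_lit 4) (nat_lit 2) (nat_lit 5) (nat_lit 2) (nat_lit 4) (nat_lit 367) (nat_lit 251) (nat_lit 162)))))) (XT.nd (nat_lit 546) (nat_lit 684) (nat_lit 0) (XT.nd (nat_lit 234) (nat_lit 456) (nat_lit 0) (XT.nd (nat_lit 78) (nat_lit 380) (nat_lit 0) (XT.lf (nat_lit 0) (nat_lit 4023389924) (nat_lit 228) (nat_lit 124535357) (nat_lit 228) (nat_lit 124535357) (nat_lit 31) (nat_lit 4) (nat_lit 34) (nat_lit 5) (nat_lit 34) (nat_lit 4) (nat_lit 276) (nat_lit 252) (nat_lit 252)) (XT.nd (nat_lit 78) (nat_lit 152) (nat_lit 0) (XT.lf (nat_lit 0) (nat_lit 3356728115) (nat_lit 228) (nat_lit 3133599384) (nat_lit 0) (nat_lit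 2347762479) (nat_lit 28) (nat_lit 5) (nat_lit 31) (nat_lit 4) (nat_lit 28) (nat_lit 4) (nat_lit 277) (nat_lit 252) (nat_lit 251)) (XT.lf (nat_lit 0) (nat_lit 3095401234) (nat_lit 152) (nat_lit 4006768311) (nat_lit 152) (nat_lit 2063575234) (nat_lit 26) (nat_lit 4) (nat_lit 28) (nat_lit 5) (nat_lit 28) (nat_lit 4) (nat_lit 278) (nat_lit 252) (nat_lit 250)))) (XT.nd (nat_lit 156) (nat_lit 228) (nat_lit 0) (XT.nd (nat_lit 78) (nat_lit 0) (nat_lit 0) (XT.lf (nat_lit 0) (nat_lit 124467077) (nat_lit 152) (nat_lit 1285477905) (nat_lit 228) (nat_lit 8118054991) (nat_lit 23) (nat_lit 5) (nat_lit 25) (nat_lit 5) (nat_lit 26) (nat_lit 4) (nat_lit 279) (nat_lit 252) (nat_lit 249)) (XT.lf (nat_lit 0) (nat_lit 5039413827) (nat_lit 228) (nat_lit 3179350164) (nat_lit 0) (nat_lit 1697591662) (nat_lit 23) (nat_lit 5) (nat_lit 26) (nat_lit 4) (nat_lit 23) (nat_lit 4) (nat_lit 280) (nat_lit 252) (nat_lit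 248))) (XT.nd (nat_lit 78) (nat_lit 76) (nat_lit 0) (XT.lf (nat_lit 0) (nat_lit 3366873732) (nat_lit 152) (nat_lit 5502563711) (nat_lit 152) (nat_lit 1474056487) (nat_lit 21) (nat_lit 4) (nat_lit 23) (nat_lit 5) (nat_lit 23) (nat_lit 4) (nat_lit 281) (nat_lit 252) (nat_lit 247)) (XT.lf (nat_lit 0) (nat_lit 1978244750) (nat_lit 228) (nat_lit 549577640) (nat_lit 76) (nat_lit 8282217079) (nat_lit 20) (nat_lit 5) (nat_lit 23) (nat_lit 5) (nat_lit 21) (nat_lit 4) (nat_lit 282) (nat_lit 252) (nat_lit 246))))) (XT.nd (nat_lit 312) (nat_lit 304) (nat_lit 0) (XT.nd (nat_lit 156) (nat_lit 152) (nat_lit 0) (XT.nd (nat_lit 78) (nat_lit 152) (nat_lit 0) (XT.lf (nat_lit 0) (nat_lit 5612585436) (nat_lit 152) (nat_lit 4951189836) (nat_lit 0) (nat_lit 748651659) (nat_lit 19) (nat_lit 5) (nat_lit 21) (nat_lit 4) (nat_lit 19) (nat_lit 4) (nat_lit 283) (nat_lit 252) (nat_lit 245)) (XT.lf (nat_lit 0) (nat_lit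 1726907151) (nat_lit 152) (nat_lit 7750969635) (nat_lit 152) (nat_lit 2382301840) (nat_lit 17) (nat_lit 4) (nat_lit 19) (nat_lit 5) (nat_lit 19) (nat_lit 4) (nat_lit 284) (nat_lit 252) (nat_lit 244))) (XT.nd (nat_lit 78) (nat_lit 76) (nat_lit 0) (XT.lf (nat_lit 0) (nat_lit 1098735310) (nat_lit 228) (nat_lit 3550644660) (nat_lit 76) (nat_lit 7803741971) (nat_lit 16) (nat_lit 5) (nat_lit 19) (nat_lit 5) (nat_lit 17) (nat_lit 4) (nat_lit 285) (nat_lit 252) (nat_lit 243)) (XT.lf (nat_lit 0) (nat_lit 3390230598) (nat_lit 76) (nat_lit 1253506311) (nat_lit 152) (nat_lit 8451987768) (nat_lit 15) (nat_lit 5) (nat_lit 16) (nat_lit 5) (nat_lit 17) (nat_lit 4) (nat_lit 286) (nat_lit 252) (nat_lit 242)))) (XT.nd (nat_lit 156) (nat_lit 152) (nat_lit 0) (XT.nd (nat_lit 78) (nat_lit 152) (nat_lit 0) (XT.lf (nat_lit 0) (nat_lit 8465986528) (nat_lit 152) (nat_lit 3033942516) (nat_lit 0) (nat_lit 2290601055)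 (nat_lit 15) (nat_lit 5) (nat_lit 17) (nat_lit 4) (nat_lit 15) (nat_lit 4) (nat_lit 287) (nat_lit 252) (nat_lit 241)) (XT.lf (nat_lit 0) (nat_lit 4084097761) (nat_lit 152) (nat_lit 8488836404) (nat_lit 152) (nat_lit 1969937440) (nat_lit 13) (nat_lit 4) (nat_lit 15) (nat_lit 5) (nat_lit 15) (nat_lit 4) (nat_lit 288) (nat_lit 252) (nat_lit 240))) (XT.nd (nat_lit 78) (nat_lit 76) (nat_lit 0) (XT.lf (nat_lit 0) (nat_lit 1504725521) (nat_lit 228) (nat_lit 3707137927) (nat_lit 76) (nat_lit 10145833415) (nat_lit 12) (nat_lit 5) (nat_lit 15) (nat_lit 5) (nat_lit 13) (nat_lit 4) (nat_lit 289) (nat_lit 252) (nat_lit 239)) (XT.lf (nat_lit 0) (nat_lit 3465536839) (nat_lit 76) (nat_lit 1629180133) (nat_lit 152) (nat_lit 11143605573) (nat_lit 11) (nat_lit 5) (nat_lit 12) (nat_lit 5) (nat_lit 13) (nat_lit 4) (nat_lit 290) (nat_lit 252) (nat_lit 238))))))))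
noncomputable def xc36 : XT := (XT.nd (nat_lit 2262) (nat_lit 76) (nat_lit 0) (XT.nd (nat_lit 1092) (nat_lit 228) (nat_lit 0) (XT.nd (nat_lit 546) (nat_lit 228) (nat_lit 0) (XT.nd (nat_lit 234) (nat_lit 152) (nat_lit 0) (XT.nd (nat_lit 78) (nat_lit 76) (nat_lit 0) (XT.lf (nat_lit 0) (nat_lit 8992481953) (nat_lit 152) (nat_lit 6058693054) (nat_lit 0) (nat_lit 2136772187) (nat_lit 11) (nat_lit 5) (nat_lit 13) (nat_lit 4) (nat_lit 11) (nat_lit 4) (nat_lit 291) (nat_lit 252) (nat_lit 237)) (XT.nd (nat_lit 78) (nat_lit 0) (nat_lit 0) (XT.lf (nat_lit 0) (nat_lit 973199828) (nat_lit 76) (nat_lit 12167466897) (nat_lit 76) (nat_lit 5077967621) (nat_lit 10) (nat_lit 4) (nat_lit 11) (nat_lit 5) (nat_lit 11) (nat_lit 4) (nat_lit 292) (nat_lit 252) (nat_lit 236)) (XT.lf (nat_lit 0) (nat_lit 8692226951) (nat_lit 76) (nat_lit 8971137483) (nat_lit 76) (nat_lit 1665166438) (nat_lit 10) (nat_lit 4) (nat_lit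 11) (nat_lit 5) (nat_lit 11) (nat_lit 4) (nat_lit 293) (nat_lit 252) (nat_lit 235)))) (XT.nd (nat_lit 156) (nat_lit 0) (nat_lit 0) (XT.nd (nat_lit 78) (nat_lit 76) (nat_lit 0) (XT.lf (nat_lit 0) (nat_lit 1802585928) (nat_lit 152) (nat_lit 3757029136) (nat_lit 76) (nat_lit 14973218835) (nat_lit 9) (nat_lit 5) (nat_lit 11) (nat_lit 5) (nat_lit 10) (nat_lit 4) (nat_lit 294) (nat_lit 252) (nat_lit 234)) (XT.lf (nat_lit 0) (nat_lit 3615777805) (nat_lit 76) (nat_lit 1820652638) (nat_lit 152) (nat_lit 16395432515) (nat_lit 8) (nat_lit 5) (nat_lit 9) (nat_lit 5) (nat_lit 10) (nat_lit 4) (nat_lit 295) (nat_lit 252) (nat_lit 233))) (XT.nd (nat_lit 78) (nat_lit 0) (nat_lit 0) (XT.lf (nat_lit 0) (nat_lit 9412808746) (nat_lit 152) (nat_lit 11686506680) (nat_lit 0) (nat_lit 2131475609) (nat_lit 8) (nat_lit 5) (nat_lit 10) (nat_lit 4) (nat_lit 8) (nat_lit 4) (nat_lit 296) (nat_lit 252) (nat_lit 232))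 (XT.lf (nat_lit 0) (nat_lit 13655610205) (nat_lit 152) (nat_lit 4863321794) (nat_lit 0) (nat_lit 6226950020) (nat_lit 8) (nat_lit 5) (nat_lit 10) (nat_lit 4) (nat_lit 8) (nat_lit 4) (nat_lit 297) (nat_lit 252) (nat_lit 231))))) (XT.nd (nat_lit 234) (nat_lit 152) (nat_lit 0) (XT.nd (nat_lit 78) (nat_lit 0) (nat_lit 0) (XT.lf (nat_lit 0) (nat_lit 2460788538) (nat_lit 76) (nat_lit 15744584094) (nat_lit 76) (nat_lit 8179509975) (nat_lit 7) (nat_lit 4) (nat_lit 8) (nat_lit 5) (nat_lit 8) (nat_lit 4) (nat_lit 298) (nat_lit 252) (nat_lit 230)) (XT.nd (nat_lit 78) (nat_lit 0) (nat_lit 0) (XT.lf (nat_lit 0) (nat_lit 10483635038) (nat_lit 76) (nat_lit 12679657440) (nat_lit 76) (nat_lit 4988274123) (nat_lit 7) (nat_lit 4) (nat_lit 8) (nat_lit 5) (nat_lit 8) (nat_lit 4) (nat_lit 299) (nat_lit 252) (nat_lit 229)) (XT.lf (nat_lit 0) (nat_lit 18996666592) (nat_lit 76) (nat_lit 9438961346) (nat_lit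 76) (nat_lit 1630625068) (nat_lit 7) (nat_lit 4) (nat_lit 8) (nat_lit 5) (nat_lit 8) (nat_lit 4) (nat_lit 300) (nat_lit 252) (nat_lit 228)))) (XT.nd (nat_lit 156) (nat_lit 0) (nat_lit 0) (XT.nd (nat_lit 78) (nat_lit 76) (nat_lit 0) (XT.lf (nat_lit 0) (nat_lit 1817621634) (nat_lit 152) (nat_lit 4135973057) (nat_lit 76) (nat_lit 26183012163) (nat_lit 6) (nat_lit 5) (nat_lit 8) (nat_lit 5) (nat_lit 7) (nat_lit 4) (nat_lit 301) (nat_lit 252) (nat_lit 227)) (XT.lf (nat_lit 0) (nat_lit 3343329471) (nat_lit 76) (nat_lit 2118316606) (nat_lit 152) (nat_lit 28906985138) (nat_lit 5) (nat_lit 5) (nat_lit 6) (nat_lit 5) (nat_lit 7) (nat_lit 4) (nat_lit 302) (nat_lit 252) (nat_lit 226))) (XT.nd (nat_lit 78) (nat_lit 0) (nat_lit 0) (XT.lf (nat_lit 0) (nat_lit 9490266391) (nat_lit 152) (nat_lit 25300319427) (nat_lit 0) (nat_lit 1981252131) (nat_lit 5) (nat_lit 5) (nat_lit 7) (nat_lit 4) (nat_lit 5)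 (nat_lit 4) (nat_lit 303) (nat_lit 252) (nat_lit 225)) (XT.lf (nat_lit 0) (nat_lit 13829882510) (nat_lit 152) (nat_lit 19297111614) (nat_lit 0) (nat_lit 6241272030) (nat_lit 5) (nat_lit 5) (nat_lit 7) (nat_lit 4) (nat_lit 5) (nat_lit 4) (nat_lit 304) (nat_lit 252) (nat_lit 224)))))) (XT.nd (nat_lit 546) (nat_lit 152) (nat_lit 0) (XT.nd (nat_lit 234) (nat_lit 0) (nat_lit 0) (XT.nd (nat_lit 78) (nat_lit 76) (nat_lit 0) (XT.lf (nat_lit 0) (nat_lit 18455265113) (nat_lit 152) (nat_lit 12929158175) (nat_lit 0) (nat_lit 10792954429) (nat_lit 5) (nat_lit 5) (nat_lit 7) (nat_lit 4) (nat_lit 5) (nat_lit 4) (nat_lit 305) (nat_lit 252) (nat_lit 223)) (XT.nd (nat_lit 78) (nat_lit 76) (nat_lit 0) (XT.lf (nat_lit 0) (nat_lit 23393823873) (nat_lit 152) (nat_lit 6158723088) (nat_lit 0) (nat_lit 15663272260) (nat_lit 5) (nat_lit 5) (nat_lit 7) (nat_lit 4) (nat_lit 5) (nat_lit 4) (nat_lit 306) (nat_lit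 252) (nat_lit 222)) (XT.lf (nat_lit 0) (nat_lit 1109833087) (nat_lit 76) (nat_lit 27591682749) (nat_lit 76) (nat_lit 19797945090) (nat_lit 4) (nat_lit 4) (nat_lit 5) (nat_lit 5) (nat_lit 5) (nat_lit 4) (nat_lit 307) (nat_lit 252) (nat_lit 221)))) (XT.nd (nat_lit 156) (nat_lit 0) (nat_lit 0) (XT.nd (nat_lit 78) (nat_lit 0) (nat_lit 0) (XT.lf (nat_lit 0) (nat_lit 9213600875) (nat_lit 76) (nat_lit 25337547733) (nat_lit 76) (nat_lit 17485304475) (nat_lit 4) (nat_lit 4) (nat_lit 5) (nat_lit 5) (nat_lit 5) (nat_lit 4) (nat_lit 308) (nat_lit 252) (nat_lit 220)) (XT.lf (nat_lit 0) (nat_lit 17876295157) (nat_lit 76) (nat_lit 22945174478) (nat_lit 76) (nat_lit 15038759371) (nat_lit 4) (nat_lit 4) (nat_lit 5) (nat_lit 5) (nat_lit 5) (nat_lit 4) (nat_lit 309) (nat_lit 252) (nat_lit 219))) (XT.nd (nat_lit 78) (nat_lit 0) (nat_lit 0) (XT.lf (nat_lit 0) (nat_lit 27149250420) (nat_lit 76) (nat_lit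 20400385958) (nat_lit 76) (nat_lit 12443811730) (nat_lit 4) (nat_lit 4) (nat_lit 5) (nat_lit 5) (nat_lit 5) (nat_lit 4) (nat_lit 310) (nat_lit 252) (nat_lit 218)) (XT.lf (nat_lit 0) (nat_lit 37087417507) (nat_lit 76) (nat_lit 17688101945) (nat_lit 76) (nat_lit 9685084087) (nat_lit 4) (nat_lit 4) (nat_lit 5) (nat_lit 5) (nat_lit 5) (nat_lit 4) (nat_lit 311) (nat_lit 252) (nat_lit 217))))) (XT.nd (nat_lit 312) (nat_lit 76) (nat_lit 0) (XT.nd (nat_lit 156) (nat_lit 76) (nat_lit 0) (XT.nd (nat_lit 78) (nat_lit 0) (nat_lit 0) (XT.lf (nat_lit 0) (nat_lit 47749689263) (nat_lit 76) (nat_lit 14792249644) (nat_lit 76) (nat_lit 6746228426) (nat_lit 4) (nat_lit 4) (nat_lit 5) (nat_lit 5) (nat_lit 5) (nat_lit 4) (nat_lit 312) (nat_lit 252) (nat_lit 216)) (XT.lf (nat_lit 0) (nat_lit 59199249518) (nat_lit 76) (nat_lit 11695668450) (nat_lit 76) (nat_lit 3609829305) (nat_lit 4) (nat_lit 4) (nat_lit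 5) (nat_lit 5) (nat_lit 5) (nat_lit 4) (nat_lit 313) (nat_lit 252) (nat_lit 215))) (XT.nd (nat_lit 78) (nat_lit 76) (nat_lit 0) (XT.lf (nat_lit 0) (nat_lit 71503947520) (nat_lit 76) (nat_lit 8380008252) (nat_lit 76) (nat_lit 257300656) (nat_lit 4) (nat_lit 4) (nat_lit 5) (nat_lit 5) (nat_lit 5) (nat_lit 4) (nat_lit 314) (nat_lit 252) (nat_lit 214)) (XT.lf (nat_lit 0) (nat_lit 3164583022) (nat_lit 152) (nat_lit 1574512362) (nat_lit 76) (nat_lit 81485591666) (nat_lit 3) (nat_lit 5) (nat_lit 5) (nat_lit 5) (nat_lit 4) (nat_lit 4) (nat_lit 315) (nat_lit 252) (nat_lit 213)))) (XT.nd (nat_lit 156) (nat_lit 0) (nat_lit 0) (XT.nd (nat_lit 78) (nat_lit 0) (nat_lit 0) (XT.lf (nat_lit 0) (nat_lit 6308539751) (nat_lit 76) (nat_lit 661168688) (nat_lit 152) (nat_lit 85814700262) (nat_lit 2) (nat_lit 5) (nat_lit 3) (nat_lit 5) (nat_lit 4) (nat_lit 4) (nat_lit 316) (nat_lit 252) (nat_lit 212)) (XT.lf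 (nat_lit 0) (nat_lit 11185346132) (nat_lit 152) (nat_lit 85098749636) (nat_lit 0) (nat_lit 3576345049) (nat_lit 2) (nat_lit 5) (nat_lit 4) (nat_lit 4) (nat_lit 2) (nat_lit 4) (nat_lit 317) (nat_lit 252) (nat_lit 211))) (XT.nd (nat_lit 78) (nat_lit 0) (nat_lit 0) (XT.lf (nat_lit 0) (nat_lit 15729403470) (nat_lit 152) (nat_lit 83678567567) (nat_lit 0) (nat_lit 8095310339) (nat_lit 2) (nat_lit 5) (nat_lit 4) (nat_lit 4) (nat_lit 2) (nat_lit 4) (nat_lit 318) (nat_lit 252) (nat_lit 210)) (XT.lf (nat_lit 0) (nat_lit 20612907077) (nat_lit 152) (nat_lit 82191005728) (nat_lit 0) (nat_lit 12955580568) (nat_lit 2) (nat_lit 5) (nat_lit 4) (nat_lit 4) (nat_lit 2) (nat_lit 4) (nat_lit 319) (nat_lit 252) (nat_lit 209))))))) (XT.nd (nat_lit 1092) (nat_lit 76) (nat_lit 0) (XT.nd (nat_lit 546) (nat_lit 0) (nat_lit 0) (XT.nd (nat_lit 234) (nat_lit 0) (nat_lit 0) (XT.nd (nat_lit 78) (nat_lit 0) (nat_lit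 0) (XT.lf (nat_lit 0) (nat_lit 25864796235) (nat_lit 152) (nat_lit 80627248936) (nat_lit 0) (nat_lit 18185957339) (nat_lit 2) (nat_lit 5) (nat_lit 4) (nat_lit 4) (nat_lit 2) (nat_lit 4) (nat_lit 320) (nat_lit 252) (nat_lit 208)) (XT.nd (nat_lit 78) (nat_lit 0) (nat_lit 0) (XT.lf (nat_lit 0) (nat_lit 31516193250) (nat_lit 152) (nat_lit 78978030486) (nat_lit 0) (nat_lit 23817435477) (nat_lit 2) (nat_lit 5) (nat_lit 4) (nat_lit 4) (nat_lit 2) (nat_lit 4) (nat_lit 321) (nat_lit 252) (nat_lit 207)) (XT.lf (nat_lit 0) (nat_lit 37600587881) (nat_lit 152) (nat_lit 77233577231) (nat_lit 0) (nat_lit 29883386704) (nat_lit 2) (nat_lit 5) (nat_lit 4) (nat_lit 4) (nat_lit 2) (nat_lit 4) (nat_lit 322) (nat_lit 252) (nat_lit 206)))) (XT.nd (nat_lit 156) (nat_lit 0) (nat_lit 0) (XT.nd (nat_lit 78) (nat_lit 0) (nat_lit 0) (XT.lf (nat_lit 0) (nat_lit 44154035802) (nat_lit 152) (nat_lit 75383551671) (nat_lit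 0) (nat_lit 36419757398) (nat_lit 2) (nat_lit 5) (nat_lit 4) (nat_lit 4) (nat_lit 2) (nat_lit 4) (nat_lit 323) (nat_lit 252) (nat_lit 205)) (XT.lf (nat_lit 0) (nat_lit 51215372257) (nat_lit 152) (nat_lit 73416990689) (nat_lit 0) (nat_lit 43465281607) (nat_lit 2) (nat_lit 5) (nat_lit 4) (nat_lit 4) (nat_lit 2) (nat_lit 4) (nat_lit 324) (nat_lit 252) (nat_lit 204))) (XT.nd (nat_lit 78) (nat_lit 0) (nat_lit 0) (XT.lf (nat_lit 0) (nat_lit 58826442205) (nat_lit 152) (nat_lit 71322240593) (nat_lit 0) (nat_lit 51061710586) (nat_lit 2) (nat_lit 5) (nat_lit 4) (nat_lit 4) (nat_lit 2) (nat_lit 4) (nat_lit 325) (nat_lit 252) (nat_lit 203)) (XT.lf (nat_lit 0) (nat_lit 67032348282) (nat_lit 152) (nat_lit 69086888048) (nat_lit 0) (nat_lit 59254060211) (nat_lit 2) (nat_lit 5) (nat_lit 4) (nat_lit 4) (nat_lit 2) (nat_lit 4) (nat_lit 326) (nat_lit 252) (nat_lit 202))))) (XT.nd (nat_lit 234) (nat_lit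 0) (nat_lit 0) (XT.nd (nat_lit 78) (nat_lit 0) (nat_lit 0) (XT.lf (nat_lit 0) (nat_lit 75881718080) (nat_lit 152) (nat_lit 66697686520) (nat_lit 0) (nat_lit 68090877737) (nat_lit 2) (nat_lit 5) (nat_lit 4) (nat_lit 4) (nat_lit 2) (nat_lit 4) (nat_lit 327) (nat_lit 252) (nat_lit 201)) (XT.nd (nat_lit 78) (nat_lit 0) (nat_lit 0) (XT.lf (nat_lit 0) (nat_lit 85426992308) (nat_lit 152) (nat_lit 64140477779) (nat_lit 0) (nat_lit 77624529492) (nat_lit 2) (nat_lit 5) (nat_lit 4) (nat_lit 4) (nat_lit 2) (nat_lit 4) (nat_lit 328) (nat_lit 252) (nat_lit 200)) (XT.lf (nat_lit 0) (nat_lit 95724735555) (nat_lit 152) (nat_lit 61400107994) (nat_lit 0) (nat_lit 87911511190) (nat_lit 2) (nat_lit 5) (nat_lit 4) (nat_lit 4) (nat_lit 2) (nat_lit 4) (nat_lit 329) (nat_lit 252) (nat_lit 199)))) (XT.nd (nat_lit 156) (nat_lit 0) (nat_lit 0) (XT.nd (nat_lit 78) (nat_lit 0) (nat_lit 0) (XT.lf (nat_lit 0) (nat_lit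 106835971485) (nat_lit 152) (nat_lit 58460337937) (nat_lit 0) (nat_lit 99012782721) (nat_lit 2) (nat_lit 5) (nat_lit 4) (nat_lit 4) (nat_lit 2) (nat_lit 4) (nat_lit 330) (nat_lit 252) (nat_lit 198)) (XT.lf (nat_lit 0) (nat_lit 118826544457) (nat_lit 152) (nat_lit 55303746749) (nat_lit 0) (nat_lit 110994129400) (nat_lit 2) (nat_lit 5) (nat_lit 4) (nat_lit 4) (nat_lit 2) (nat_lit 4) (nat_lit 331) (nat_lit 252) (nat_lit 197))) (XT.nd (nat_lit 78) (nat_lit 0) (nat_lit 0) (XT.lf (nat_lit 0) (nat_lit 131767509720) (nat_lit 152) (nat_lit 51911628704) (nat_lit 0) (nat_lit 123926551798) (nat_lit 2) (nat_lit 5) (nat_lit 4) (nat_lit 4) (nat_lit 2) (nat_lit 4) (nat_lit 332) (nat_lit 252) (nat_lit 196)) (XT.lf (nat_lit 0) (nat_lit 145735554475) (nat_lit 152) (nat_lit 48263882362) (nat_lit 0) (nat_lit 137886686493) (nat_lit 2) (nat_lit 5) (nat_lit 4) (nat_lit 4) (nat_lit 2) (nat_lit 4) (nat_lit 333)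 (nat_lit 252) (nat_lit 195)))))) (XT.nd (nat_lit 546) (nat_lit 76) (nat_lit 0) (XT.nd (nat_lit 234) (nat_lit 0) (nat_lit 0) (XT.nd (nat_lit 78) (nat_lit 0) (nat_lit 0) (XT.lf (nat_lit 0) (nat_lit 160813452321) (nat_lit 152) (nat_lit 44338891448) (nat_lit 0) (nat_lit 152957260209) (nat_lit 2) (nat_lit 5) (nat_lit 4) (nat_lit 4) (nat_lit 2) (nat_lit 4) (nat_lit 334) (nat_lit 252) (nat_lit 194)) (XT.nd (nat_lit 78) (nat_lit 0) (nat_lit 0) (XT.lf (nat_lit 0) (nat_lit 177090553763) (nat_lit 152) (nat_lit 40113396757) (nat_lit 0) (nat_lit 169227580050) (nat_lit 2) (nat_lit 5) (nat_lit 4) (nat_lit 4) (nat_lit 2) (nat_lit 4) (nat_lit 335) (nat_lit 252) (nat_lit 193)) (XT.lf (nat_lit 0) (nat_lit 194663315699) (nat_lit 152) (nat_lit 35562358321) (nat_lit 0) (nat_lit 186794062725) (nat_lit 2) (nat_lit 5) (nat_lit 4) (nat_lit 4) (nat_lit 2) (nat_lit 4) (nat_lit 336) (nat_lit 252) (nat_lit 192))))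 (XT.nd (nat_lit 156) (nat_lit 0) (nat_lit 0) (XT.nd (nat_lit 78) (nat_lit 0) (nat_lit 0) (XT.lf (nat_lit 0) (nat_lit 213635873015) (nat_lit 152) (nat_lit 30658807021) (nat_lit 0) (nat_lit 205760805911) (nat_lit 2) (nat_lit 5) (nat_lit 4) (nat_lit 4) (nat_lit 2) (nat_lit 4) (nat_lit 337) (nat_lit 252) (nat_lit 191)) (XT.lf (nat_lit 0) (nat_lit 234120655679) (nat_lit 152) (nat_lit 25373684778) (nat_lit 0) (nat_lit 226240205121) (nat_lit 2) (nat_lit 5) (nat_lit 4) (nat_lit 4) (nat_lit 2) (nat_lit 4) (nat_lit 338) (nat_lit 252) (nat_lit 190))) (XT.nd (nat_lit 78) (nat_lit 0) (nat_lit 0) (XT.lf (nat_lit 0) (nat_lit 256239054997) (nat_lit 152) (nat_lit 19675672348) (nat_lit 0) (nat_lit 248353619759) (nat_lit 2) (nat_lit 5) (nat_lit 4) (nat_lit 4) (nat_lit 2) (nat_lit 4) (nat_lit 339) (nat_lit 252) (nat_lit 189)) (XT.lf (nat_lit 0) (nat_lit 280122142964) (nat_lit 152) (nat_lit 13531003731)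 (nat_lit 0) (nat_lit 272232092282) (nat_lit 2) (nat_lit 5) (nat_lit 4) (nat_lit 4) (nat_lit 2) (nat_lit 4) (nat_lit 340) (nat_lit 252) (nat_lit 188))))) (XT.nd (nat_lit 312) (nat_lit 0) (nat_lit 0) (XT.nd (nat_lit 156) (nat_lit 0) (nat_lit 0) (XT.nd (nat_lit 78) (nat_lit 76) (nat_lit 0) (XT.lf (nat_lit 0) (nat_lit 305911448990) (nat_lit 152) (nat_lit 6903266076) (nat_lit 0) (nat_lit 298017124749) (nat_lit 2) (nat_lit 5) (nat_lit 4) (nat_lit 4) (nat_lit 2) (nat_lit 4) (nat_lit 341) (nat_lit 252) (nat_lit 187)) (XT.lf (nat_lit 0) (nat_lit 259812997) (nat_lit 76) (nat_lit 333506234105) (nat_lit 76) (nat_lit 325607952865) (nat_lit 1) (nat_lit 4) (nat_lit 2) (nat_lit 5) (nat_lit 2) (nat_lit 4) (nat_lit 342) (nat_lit 252) (nat_lit 186))) (XT.nd (nat_lit 78) (nat_lit 0) (nat_lit 0) (XT.lf (nat_lit 0) (nat_lit 8380858116) (nat_lit 76) (nat_lit 355652920753) (nat_lit 76) (nat_lit 347750975624)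 (nat_lit 1) (nat_lit 4) (nat_lit 2) (nat_lit 5) (nat_lit 2) (nat_lit 4) (nat_lit 343) (nat_lit 252) (nat_lit 185)) (XT.lf (nat_lit 0) (nat_lit 17144480236) (nat_lit 76) (nat_lit 379574762162) (nat_lit 76) (nat_lit 371669424544) (nat_lit 1) (nat_lit 4) (nat_lit 2) (nat_lit 5) (nat_lit 2) (nat_lit 4) (nat_lit 344) (nat_lit 252) (nat_lit 184)))) (XT.nd (nat_lit 156) (nat_lit 0) (nat_lit 0) (XT.nd (nat_lit 78) (nat_lit 0) (nat_lit 0) (XT.lf (nat_lit 0) (nat_lit 26602611932) (nat_lit 76) (nat_lit 405413517392) (nat_lit 76) (nat_lit 397505038580) (nat_lit 1) (nat_lit 4) (nat_lit 2) (nat_lit 5) (nat_lit 2) (nat_lit 4) (nat_lit 345) (nat_lit 252) (nat_lit 183)) (XT.lf (nat_lit 0) (nat_lit 36811301392) (nat_lit 76) (nat_lit 433322304994) (nat_lit 76) (nat_lit 425410917670) (nat_lit 1) (nat_lit 4) (nat_lit 2) (nat_lit 5) (nat_lit 2) (nat_lit 4) (nat_lit 346) (nat_lit 252) (nat_lit 182))) (XT.nd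 (nat_lit 78) (nat_lit 0) (nat_lit 0) (XT.lf (nat_lit 0) (nat_lit 47831044553) (nat_lit 76) (nat_lit 463466510375) (nat_lit 76) (nat_lit 455552429984) (nat_lit 1) (nat_lit 4) (nat_lit 2) (nat_lit 5) (nat_lit 2) (nat_lit 4) (nat_lit 347) (nat_lit 252) (nat_lit 181)) (XT.lf (nat_lit 0) (nat_lit 59727143596) (nat_lit 76) (nat_lit 496024765864) (nat_lit 76) (nat_lit 488108191891) (nat_lit 1) (nat_lit 4) (nat_lit 2) (nat_lit 5) (nat_lit 2) (nat_lit 4) (nat_lit 348) (nat_lit 252) (nat_lit 180))))))))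
noncomputable def xc37 : XT := (XT.nd (nat_lit 35646) (nat_lit 0) (nat_lit 228) (XT.nd (nat_lit 1092) (nat_lit 0) (nat_lit 0) (XT.nd (nat_lit 546) (nat_lit 0) (nat_lit 0) (XT.nd (nat_lit 234) (nat_lit 0) (nat_lit 0) (XT.nd (nat_lit 78) (nat_lit 0) (nat_lit 0) (XT.lf (nat_lit 0) (nat_lit 72570093925) (nat_lit 76) (nat_lit 531190009270) (nat_lit 76) (nat_lit 523271126426) (nat_lit 1) (nat_lit 4) (nat_lit 2) (nat_lit 5) (nat_lit 2) (nat_lit 4) (nat_lit 349) (nat_lit 252) (nat_lit 179)) (XT.nd (nat_lit 78) (nat_lit 0) (nat_lit 0) (XT.lf (nat_lit 0) (nat_lit 86436001910) (nat_lit 76) (nat_lit 569170627222) (nat_lit 76) (nat_lit 561249606534) (nat_lit 1) (nat_lit 4) (nat_lit 2) (nat_lit 5) (nat_lit 2) (nat_lit 4) (nat_lit 350) (nat_lit 252) (nat_lit 178)) (XT.lf (nat_lit 0) (nat_lit 101407035896) (nat_lit 76) (nat_lit 610191690047) (nat_lit 76) (nat_lit 602268689875) (nat_lit 1) (nat_lit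 4) (nat_lit 2) (nat_lit 5) (nat_lit 2) (nat_lit 4) (nat_lit 351) (nat_lit 252) (nat_lit 177)))) (XT.nd (nat_lit 156) (nat_lit 0) (nat_lit 0) (XT.nd (nat_lit 78) (nat_lit 0) (nat_lit 0) (XT.lf (nat_lit 0) (nat_lit 117571913121) (nat_lit 76) (nat_lit 654496285526) (nat_lit 76) (nat_lit 646571452498) (nat_lit 1) (nat_lit 4) (nat_lit 2) (nat_lit 5) (nat_lit 2) (nat_lit 4) (nat_lit 352) (nat_lit 252) (nat_lit 176)) (XT.lf (nat_lit 0) (nat_lit 135026425450) (nat_lit 76) (nat_lit 702346959410) (nat_lit 76) (nat_lit 694420429293) (nat_lit 1) (nat_lit 4) (nat_lit 2) (nat_lit 5) (nat_lit 2) (nat_lit 4) (nat_lit 353) (nat_lit 252) (nat_lit 175))) (XT.nd (nat_lit 78) (nat_lit 0) (nat_lit 0) (XT.lf (nat_lit 0) (nat_lit 153874007030) (nat_lit 76) (nat_lit 754027271247) (nat_lit 76) (nat_lit 746099169751) (nat_lit 1) (nat_lit 4) (nat_lit 2) (nat_lit 5) (nat_lit 2) (nat_lit 4) (nat_lit 354) (nat_lit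 252) (nat_lit 174)) (XT.lf (nat_lit 0) (nat_lit 174226347233) (nat_lit 76) (nat_lit 809843474738) (nat_lit 76) (nat_lit 801913918261) (nat_lit 1) (nat_lit 4) (nat_lit 2) (nat_lit 5) (nat_lit 2) (nat_lit 4) (nat_lit 355) (nat_lit 252) (nat_lit 173))))) (XT.nd (nat_lit 234) (nat_lit 0) (nat_lit 0) (XT.nd (nat_lit 78) (nat_lit 0) (nat_lit 0) (XT.lf (nat_lit 0) (nat_lit 196204052521) (nat_lit 76) (nat_lit 870126332570) (nat_lit 76) (nat_lit 862195428889) (nat_lit 1) (nat_lit 4) (nat_lit 2) (nat_lit 5) (nat_lit 2) (nat_lit 4) (nat_lit 356) (nat_lit 252) (nat_lit 172)) (XT.nd (nat_lit 78) (nat_lit 0) (nat_lit 0) (XT.lf (nat_lit 0) (nat_lit 219937361146) (nat_lit 76) (nat_lit 935233076492) (nat_lit 76) (nat_lit 927300925400) (nat_lit 1) (nat_lit 4) (nat_lit 2) (nat_lit 5) (nat_lit 2) (nat_lit 4) (nat_lit 357) (nat_lit 252) (nat_lit 171)) (XT.lf (nat_lit 0) (nat_lit 245566914937) (nat_lit 76)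 (nat_lit 1005549524246) (nat_lit 76) (nat_lit 997616218144) (nat_lit 1) (nat_lit 4) (nat_lit 2) (nat_lit 5) (nat_lit 2) (nat_lit 4) (nat_lit 358) (nat_lit 252) (nat_lit 170)))) (XT.nd (nat_lit 156) (nat_lit 0) (nat_lit 0) (XT.nd (nat_lit 78) (nat_lit 0) (nat_lit 0) (XT.lf (nat_lit 0) (nat_lit 273244592733) (nat_lit 76) (nat_lit 1081492365895) (nat_lit 76) (nat_lit 1073557990338) (nat_lit 1) (nat_lit 4) (nat_lit 2) (nat_lit 5) (nat_lit 2) (nat_lit 4) (nat_lit 359) (nat_lit 252) (nat_lit 169)) (XT.lf (nat_lit 0) (nat_lit 303134410400) (nat_lit 76) (nat_lit 1163511633090) (nat_lit 76) (nat_lit 1155576267298) (nat_lit 1) (nat_lit 4) (nat_lit 2) (nat_lit 5) (nat_lit 2) (nat_lit 4) (nat_lit 360) (nat_lit 252) (nat_lit 168))) (XT.nd (nat_lit 78) (nat_lit 0) (nat_lit 0) (XT.lf (nat_lit 0) (nat_lit 335413492785) (nat_lit 76) (nat_lit 1252093365935) (nat_lit 76) (nat_lit 1244157083259) (nat_lit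 1) (nat_lit 4) (nat_lit 2) (nat_lit 5) (nat_lit 2) (nat_lit 4) (nat_lit 361) (nat_lit 252) (nat_lit 167)) (XT.lf (nat_lit 0) (nat_lit 370273123338) (nat_lit 76) (nat_lit 1347762493217) (nat_lit 76) (nat_lit 1339825361574) (nat_lit 1) (nat_lit 4) (nat_lit 2) (nat_lit 5) (nat_lit 2) (nat_lit 4) (nat_lit 362) (nat_lit 252) (nat_lit 166)))))) (XT.nd (nat_lit 33930) (nat_lit 0) (nat_lit 1368) (XT.nd (nat_lit 234) (nat_lit 0) (nat_lit 0) (XT.nd (nat_lit 78) (nat_lit 0) (nat_lit 0) (XT.lf (nat_lit 0) (nat_lit 407919877649) (nat_lit 76) (nat_lit 1451085943097) (nat_lit 76) (nat_lit 1443148025373) (nat_lit 1) (nat_lit 4) (nat_lit 2) (nat_lit 5) (nat_lit 2) (nat_lit 4) (nat_lit 363) (nat_lit 252) (nat_lit 165)) (XT.nd (nat_lit 78) (nat_lit 0) (nat_lit 0) (XT.lf (nat_lit 0) (nat_lit 448576847594) (nat_lit 76) (nat_lit 1562676002686) (nat_lit 76) (nat_lit 1554737357109) (nat_lit 1) (nat_lit 4)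 (nat_lit 2) (nat_lit 5) (nat_lit 2) (nat_lit 4) (nat_lit 364) (nat_lit 252) (nat_lit 164)) (XT.lf (nat_lit 0) (nat_lit 492484963367) (nat_lit 76) (nat_lit 1683193946411) (nat_lit 76) (nat_lit 1675254626897) (nat_lit 1) (nat_lit 4) (nat_lit 2) (nat_lit 5) (nat_lit 2) (nat_lit 4) (nat_lit 365) (nat_lit 252) (nat_lit 163)))) (XT.nd (nat_lit 33540) (nat_lit 0) (nat_lit 2204) (XT.nd (nat_lit 33462) (nat_lit 0) (nat_lit 2508) (XT.lf (nat_lit 0) (nat_lit 539904421207) (nat_lit 76) (nat_lit 1813353954679) (nat_lit 76) (nat_lit 1805414011148) (nat_lit 1) (nat_lit 4) (nat_lit 2) (nat_lit 5) (nat_lit 2) (nat_lit 4) (nat_lit 366) (nat_lit 252) (nat_lit 162)) (XT.lf (nat_lit 0) (nat_lit 1054157434) (nat_lit 304) (nat_lit 1901004084) (nat_lit 0) (nat_lit 1054157434) (nat_lit 34) (nat_lit 5) (nat_lit 38) (nat_lit 4) (nat_lit 34) (nat_lit 4) (nat_lit 274) (nat_lit 253) (nat_lit 253))) (XT.nd (nat_lit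 78) (nat_lit 76) (nat_lit 0) (XT.lf (nat_lit 0) (nat_lit 1865890793) (nat_lit 228) (nat_lit 3790892011) (nat_lit 228) (nat_lit 2614034493) (nat_lit 31) (nat_lit 4) (nat_lit 34) (nat_lit 5) (nat_lit 34) (nat_lit 4) (nat_lit 275) (nat_lit 253) (nat_lit 252)) (XT.lf (nat_lit 0) (nat_lit 766638933) (nat_lit 304) (nat_lit 671931423) (nat_lit 76) (nat_lit 7114119096) (nat_lit 30) (nat_lit 5) (nat_lit 34) (nat_lit 5) (nat_lit 31) (nat_lit 4) (nat_lit 276) (nat_lit 253) (nat_lit 251))))) (XT.nd (nat_lit 312) (nat_lit 304) (nat_lit 0) (XT.nd (nat_lit 156) (nat_lit 228) (nat_lit 0) (XT.nd (nat_lit 78) (nat_lit 152) (nat_lit 0) (XT.lf (nat_lit 0) (nat_lit 4216158304) (nat_lit 228) (nat_lit 3457790504) (nat_lit 0) (nat_lit 1183282339) (nat_lit 28) (nat_lit 5) (nat_lit 31) (nat_lit 4) (nat_lit 28) (nat_lit 4) (nat_lit 277) (nat_lit 253) (nat_lit 250)) (XT.lf (nat_lit 0) (nat_lit 2602223520) (nat_lit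 152) (nat_lit 5245016748) (nat_lit 152) (nat_lit 1347115374) (nat_lit 26) (nat_lit 4) (nat_lit 28) (nat_lit 5) (nat_lit 28) (nat_lit 4) (nat_lit 278) (nat_lit 253) (nat_lit 249))) (XT.nd (nat_lit 78) (nat_lit 152) (nat_lit 0) (XT.lf (nat_lit 0) (nat_lit 1986446944) (nat_lit 228) (nat_lit 567041180) (nat_lit 76) (nat_lit 7010348806) (nat_lit 25) (nat_lit 5) (nat_lit 28) (nat_lit 5) (nat_lit 26) (nat_lit 4) (nat_lit 279) (nat_lit 253) (nat_lit 248)) (XT.lf (nat_lit 0) (nat_lit 5472535440) (nat_lit 228) (nat_lit 4056319789) (nat_lit 0) (nat_lit 435062580) (nat_lit 23) (nat_lit 5) (nat_lit 26) (nat_lit 4) (nat_lit 23) (nat_lit 4) (nat_lit 280) (nat_lit 253) (nat_lit 247)))) (XT.nd (nat_lit 156) (nat_lit 76) (nat_lit 0) (XT.nd (nat_lit 78) (nat_lit 76) (nat_lit 0) (XT.lf (nat_lit 0) (nat_lit 2298023741) (nat_lit 152) (nat_lit 6887943955) (nat_lit 152) (nat_lit 1214651597) (nat_lit 21) (nat_lit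 4) (nat_lit 23) (nat_lit 5) (nat_lit 23) (nat_lit 4) (nat_lit 281) (nat_lit 253) (nat_lit 246)) (XT.lf (nat_lit 0) (nat_lit 2134797813) (nat_lit 228) (nat_lit 1821634664) (nat_lit 76) (nat_lit 6917625533) (nat_lit 20) (nat_lit 5) (nat_lit 23) (nat_lit 5) (nat_lit 21) (nat_lit 4) (nat_lit 282) (nat_lit 253) (nat_lit 245))) (XT.nd (nat_lit 78) (nat_lit 0) (nat_lit 0) (XT.lf (nat_lit 0) (nat_lit 4906362618) (nat_lit 76) (nat_lit 725122705) (nat_lit 152) (nat_lit 5756159667) (nat_lit 19) (nat_lit 5) (nat_lit 20) (nat_lit 5) (nat_lit 21) (nat_lit 4) (nat_lit 283) (nat_lit 253) (nat_lit 244)) (XT.lf (nat_lit 0) (nat_lit 9356607292) (nat_lit 152) (nat_lit 3810591) (nat_lit 0) (nat_lit 2586365744) (nat_lit 19) (nat_lit 5) (nat_lit 21) (nat_lit 4) (nat_lit 19) (nat_lit 4) (nat_lit 284) (nat_lit 253) (nat_lit 243))))))) (XT.nd (nat_lit 1170) (nat_lit 228) (nat_lit 0) (XT.nd (nat_lit 546) (nat_lit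 304) (nat_lit 0) (XT.nd (nat_lit 234) (nat_lit 304) (nat_lit 0) (XT.nd (nat_lit 78) (nat_lit 76) (nat_lit 0) (XT.lf (nat_lit 0) (nat_lit 820705047) (nat_lit 228) (nat_lit 5495903117) (nat_lit 76) (nat_lit 6230111745) (nat_lit 16) (nat_lit 5) (nat_lit 19) (nat_lit 5) (nat_lit 17) (nat_lit 4) (nat_lit 285) (nat_lit 253) (nat_lit 242)) (XT.nd (nat_lit 78) (nat_lit 0) (nat_lit 0) (XT.lf (nat_lit 0) (nat_lit 1213169283) (nat_lit 76) (nat_lit 3025683137) (nat_lit 152) (nat_lit 8960756206) (nat_lit 15) (nat_lit 5) (nat_lit 16) (nat_lit 5) (nat_lit 17) (nat_lit 4) (nat_lit 286) (nat_lit 253) (nat_lit 241)) (XT.lf (nat_lit 0) (nat_lit 7945469987) (nat_lit 152) (nat_lit 5396776460) (nat_lit 0) (nat_lit 561545614) (nat_lit 15) (nat_lit 5) (nat_lit 17) (nat_lit 4) (nat_lit 15) (nat_lit 4) (nat_lit 287) (nat_lit 253) (nat_lit 240)))) (XT.nd (nat_lit 156) (nat_lit 76) (nat_lit 0) (XT.nd (nat_lit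 78) (nat_lit 76) (nat_lit 0) (XT.lf (nat_lit 0) (nat_lit 1475483735) (nat_lit 152) (nat_lit 10446593736) (nat_lit 152) (nat_lit 2744601316) (nat_lit 13) (nat_lit 4) (nat_lit 15) (nat_lit 5) (nat_lit 15) (nat_lit 4) (nat_lit 288) (nat_lit 253) (nat_lit 239)) (XT.lf (nat_lit 0) (nat_lit 701715872) (nat_lit 228) (nat_lit 6536930857) (nat_lit 76) (nat_lit 8249816751) (nat_lit 12) (nat_lit 5) (nat_lit 15) (nat_lit 5) (nat_lit 13) (nat_lit 4) (nat_lit 289) (nat_lit 253) (nat_lit 238))) (XT.nd (nat_lit 78) (nat_lit 0) (nat_lit 0) (XT.lf (nat_lit 0) (nat_lit 373666390) (nat_lit 76) (nat_lit 3781553968) (nat_lit 152) (nat_lit 12224881439) (nat_lit 11) (nat_lit 5) (nat_lit 12) (nat_lit 5) (nat_lit 13) (nat_lit 4) (nat_lit 290) (nat_lit 253) (nat_lit 237)) (XT.lf (nat_lit 0) (nat_lit 7940103749) (nat_lit 152) (nat_lit 9349084945) (nat_lit 0) (nat_lit 49655020) (nat_lit 11) (nat_lit 5) (nat_lit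 13) (nat_lit 4) (nat_lit 11) (nat_lit 4) (nat_lit 291) (nat_lit 253) (nat_lit 236))))) (XT.nd (nat_lit 312) (nat_lit 152) (nat_lit 0) (XT.nd (nat_lit 156) (nat_lit 76) (nat_lit 0) (XT.nd (nat_lit 78) (nat_lit 76) (nat_lit 0) (XT.lf (nat_lit 0) (nat_lit 12008293274) (nat_lit 152) (nat_lit 2466344748) (nat_lit 0) (nat_lit 3901372777) (nat_lit 11) (nat_lit 5) (nat_lit 13) (nat_lit 4) (nat_lit 11) (nat_lit 4) (nat_lit 292) (nat_lit 253) (nat_lit 235)) (XT.lf (nat_lit 0) (nat_lit 5024883267) (nat_lit 76) (nat_lit 11388915558) (nat_lit 76) (nat_lit 3081558238) (nat_lit 10) (nat_lit 4) (nat_lit 11) (nat_lit 5) (nat_lit 11) (nat_lit 4) (nat_lit 293) (nat_lit 253) (nat_lit 234))) (XT.nd (nat_lit 78) (nat_lit 0) (nat_lit 0) (XT.lf (nat_lit 0) (nat_lit 404968290) (nat_lit 152) (nat_lit 7650612927) (nat_lit 76) (nat_lit 12651034130) (nat_lit 9) (nat_lit 5) (nat_lit 11) (nat_lit 5) (nat_lit 10)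 (nat_lit 4) (nat_lit 294) (nat_lit 253) (nat_lit 233)) (XT.lf (nat_lit 0) (nat_lit 3903631510) (nat_lit 152) (nat_lit 545235697) (nat_lit 76) (nat_lit 17567650736) (nat_lit 9) (nat_lit 5) (nat_lit 11) (nat_lit 5) (nat_lit 10) (nat_lit 4) (nat_lit 295) (nat_lit 253) (nat_lit 232)))) (XT.nd (nat_lit 156) (nat_lit 76) (nat_lit 0) (XT.nd (nat_lit 78) (nat_lit 0) (nat_lit 0) (XT.lf (nat_lit 0) (nat_lit 7328475401) (nat_lit 76) (nat_lit 437090874) (nat_lit 152) (nat_lit 15659089887) (nat_lit 8) (nat_lit 5) (nat_lit 9) (nat_lit 5) (nat_lit 10) (nat_lit 4) (nat_lit 296) (nat_lit 253) (nat_lit 231)) (XT.lf (nat_lit 0) (nat_lit 11953795510) (nat_lit 152) (nat_lit 9343266499) (nat_lit 0) (nat_lit 3647101527) (nat_lit 8) (nat_lit 5) (nat_lit 10) (nat_lit 4) (nat_lit 8) (nat_lit 4) (nat_lit 297) (nat_lit 253) (nat_lit 230))) (XT.nd (nat_lit 78) (nat_lit 76) (nat_lit 0) (XT.lf (nat_lit 0) (nat_lit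 16403579451) (nat_lit 152) (nat_lit 2217053543) (nat_lit 0) (nat_lit 7970576271) (nat_lit 8) (nat_lit 5) (nat_lit 10) (nat_lit 4) (nat_lit 8) (nat_lit 4) (nat_lit 298) (nat_lit 253) (nat_lit 229)) (XT.lf (nat_lit 0) (nat_lit 5616141718) (nat_lit 76) (nat_lit 15649701769) (nat_lit 76) (nat_lit 7099745628) (nat_lit 7) (nat_lit 4) (nat_lit 8) (nat_lit 5) (nat_lit 8) (nat_lit 4) (nat_lit 299) (nat_lit 253) (nat_lit 228)))))) (XT.nd (nat_lit 546) (nat_lit 76) (nat_lit 0) (XT.nd (nat_lit 234) (nat_lit 76) (nat_lit 0) (XT.nd (nat_lit 78) (nat_lit 76) (nat_lit 0) (XT.lf (nat_lit 0) (nat_lit 14061668523) (nat_lit 76) (nat_lit 12439910542) (nat_lit 76) (nat_lit 3781664623) (nat_lit 7) (nat_lit 4) (nat_lit 8) (nat_lit 5) (nat_lit 8) (nat_lit 4) (nat_lit 300) (nat_lit 253) (nat_lit 227)) (XT.nd (nat_lit 78) (nat_lit 76) (nat_lit 0) (XT.lf (nat_lit 0) (nat_lit 23052828328) (nat_lit 76) (nat_lit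 9032856501) (nat_lit 76) (nat_lit 274342268) (nat_lit 7) (nat_lit 4) (nat_lit 8) (nat_lit 5) (nat_lit 8) (nat_lit 4) (nat_lit 301) (nat_lit 253) (nat_lit 226)) (XT.lf (nat_lit 0) (nat_lit 3270772484) (nat_lit 152) (nat_lit 2048148496) (nat_lit 76) (nat_lit 29282700880) (nat_lit 6) (nat_lit 5) (nat_lit 8) (nat_lit 5) (nat_lit 7) (nat_lit 4) (nat_lit 302) (nat_lit 253) (nat_lit 225)))) (XT.nd (nat_lit 156) (nat_lit 0) (nat_lit 0) (XT.nd (nat_lit 78) (nat_lit 0) (nat_lit 0) (XT.lf (nat_lit 0) (nat_lit 5968265262) (nat_lit 76) (nat_lit 1197881104) (nat_lit 152) (nat_lit 29849371474) (nat_lit 5) (nat_lit 5) (nat_lit 6) (nat_lit 5) (nat_lit 7) (nat_lit 4) (nat_lit 303) (nat_lit 253) (nat_lit 224)) (XT.lf (nat_lit 0) (nat_lit 11447432837) (nat_lit 152) (nat_lit 25070769831) (nat_lit 0) (nat_lit 3098437094) (nat_lit 5) (nat_lit 5) (nat_lit 7) (nat_lit 4) (nat_lit 5) (nat_lit 4) (nat_lit 304)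 (nat_lit 253) (nat_lit 223))) (XT.nd (nat_lit 78) (nat_lit 0) (nat_lit 0) (XT.lf (nat_lit 0) (nat_lit 16045481569) (nat_lit 152) (nat_lit 18754236885) (nat_lit 0) (nat_lit 7628244897) (nat_lit 5) (nat_lit 5) (nat_lit 7) (nat_lit 4) (nat_lit 5) (nat_lit 4) (nat_lit 305) (nat_lit 253) (nat_lit 222)) (XT.lf (nat_lit 0) (nat_lit 20958731190) (nat_lit 152) (nat_lit 12031413367) (nat_lit 0) (nat_lit 12478308473) (nat_lit 5) (nat_lit 5) (nat_lit 7) (nat_lit 4) (nat_lit 5) (nat_lit 4) (nat_lit 306) (nat_lit 253) (nat_lit 221))))) (XT.nd (nat_lit 312) (nat_lit 0) (nat_lit 0) (XT.nd (nat_lit 156) (nat_lit 0) (nat_lit 0) (XT.nd (nat_lit 78) (nat_lit 76) (nat_lit 0) (XT.lf (nat_lit 0) (nat_lit 26216297254) (nat_lit 152) (nat_lit 4862460323) (nat_lit 0) (nat_lit 17677368938) (nat_lit 5) (nat_lit 5) (nat_lit 7) (nat_lit 4) (nat_lit 5) (nat_lit 4) (nat_lit 307) (nat_lit 253) (nat_lit 220)) (XT.lf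 (nat_lit 0) (nat_lit 2942290205) (nat_lit 76) (nat_lit 28977807652) (nat_lit 76) (nat_lit 20384707486) (nat_lit 4) (nat_lit 4) (nat_lit 5) (nat_lit 5) (nat_lit 5) (nat_lit 4) (nat_lit 308) (nat_lit 253) (nat_lit 219))) (XT.nd (nat_lit 78) (nat_lit 0) (nat_lit 0) (XT.lf (nat_lit 0) (nat_lit 11565198640) (nat_lit 76) (nat_lit 26604172183) (nat_lit 76) (nat_lit 17960912897) (nat_lit 4) (nat_lit 4) (nat_lit 5) (nat_lit 5) (nat_lit 5) (nat_lit 4) (nat_lit 309) (nat_lit 253) (nat_lit 218)) (XT.lf (nat_lit 0) (nat_lit 20801315154) (nat_lit 76) (nat_lit 24076733465) (nat_lit 76) (nat_lit 15387030549) (nat_lit 4) (nat_lit 4) (nat_lit 5) (nat_lit 5) (nat_lit 5) (nat_lit 4) (nat_lit 310) (nat_lit 253) (nat_lit 217)))) (XT.nd (nat_lit 156) (nat_lit 0) (nat_lit 0) (XT.nd (nat_lit 78) (nat_lit 0) (nat_lit 0) (XT.lf (nat_lit 0) (nat_lit 30705372290) (nat_lit 76) (nat_lit 21380514084) (nat_lit 76)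 (nat_lit 12647807807) (nat_lit 4) (nat_lit 4) (nat_lit 5) (nat_lit 5) (nat_lit 5) (nat_lit 4) (nat_lit 311) (nat_lit 253) (nat_lit 216)) (XT.lf (nat_lit 0) (nat_lit 41336060757) (nat_lit 76) (nat_lit 18499536442) (nat_lit 76) (nat_lit 9727012239) (nat_lit 4) (nat_lit 4) (nat_lit 5) (nat_lit 5) (nat_lit 5) (nat_lit 4) (nat_lit 312) (nat_lit 253) (nat_lit 215))) (XT.nd (nat_lit 78) (nat_lit 0) (nat_lit 0) (XT.lf (nat_lit 0) (nat_lit 52756377227) (nat_lit 76) (nat_lit 15416728081) (nat_lit 76) (nat_lit 6607335426) (nat_lit 4) (nat_lit 4) (nat_lit 5) (nat_lit 5) (nat_lit 5) (nat_lit 4) (nat_lit 313) (nat_lit 253) (nat_lit 214)) (XT.lf (nat_lit 0) (nat_lit 65033997650) (nat_lit 76) (nat_lit 12113820505) (nat_lit 76) (nat_lit 3270290396) (nat_lit 4) (nat_lit 4) (nat_lit 5) (nat_lit 5) (nat_lit 5) (nat_lit 4) (nat_lit 314) (nat_lit 253) (nat_lit 213))))))))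
noncomputable def xc38 : XT := (XT.nd (nat_lit 2262) (nat_lit 0) (nat_lit 0) (XT.nd (nat_lit 1092) (nat_lit 76) (nat_lit 0) (XT.nd (nat_lit 546) (nat_lit 0) (nat_lit 0) (XT.nd (nat_lit 234) (nat_lit 0) (nat_lit 0) (XT.nd (nat_lit 78) (nat_lit 76) (nat_lit 0) (XT.lf (nat_lit 0) (nat_lit 288695727) (nat_lit 152) (nat_lit 8274651749) (nat_lit 76) (nat_lit 77945089114) (nat_lit 3) (nat_lit 5) (nat_lit 5) (nat_lit 5) (nat_lit 4) (nat_lit 4) (nat_lit 315) (nat_lit 253) (nat_lit 212)) (XT.nd (nat_lit 78) (nat_lit 76) (nat_lit 0) (XT.lf (nat_lit 0) (nat_lit 3929489959) (nat_lit 152) (nat_lit 731067112) (nat_lit 76) (nat_lit 88420757718) (nat_lit 3) (nat_lit 5) (nat_lit 5) (nat_lit 5) (nat_lit 4) (nat_lit 4) (nat_lit 316) (nat_lit 253) (nat_lit 211)) (XT.lf (nat_lit 0) (nat_lit 7758087241) (nat_lit 76) (nat_lit 265755490) (nat_lit 152) (nat_lit 92143216278) (nat_lit 2) (nat_lit 5) (nat_lit 3)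 (nat_lit 5) (nat_lit 4) (nat_lit 4) (nat_lit 317) (nat_lit 253) (nat_lit 210)))) (XT.nd (nat_lit 156) (nat_lit 0) (nat_lit 0) (XT.nd (nat_lit 78) (nat_lit 0) (nat_lit 0) (XT.lf (nat_lit 0) (nat_lit 12549932529) (nat_lit 152) (nat_lit 91004626540) (nat_lit 0) (nat_lit 4256786521) (nat_lit 2) (nat_lit 5) (nat_lit 4) (nat_lit 4) (nat_lit 2) (nat_lit 4) (nat_lit 318) (nat_lit 253) (nat_lit 209)) (XT.lf (nat_lit 0) (nat_lit 17422717512) (nat_lit 152) (nat_lit 89537646429) (nat_lit 0) (nat_lit 9108059118) (nat_lit 2) (nat_lit 5) (nat_lit 4) (nat_lit 4) (nat_lit 2) (nat_lit 4) (nat_lit 319) (nat_lit 253) (nat_lit 208))) (XT.nd (nat_lit 78) (nat_lit 0) (nat_lit 0) (XT.lf (nat_lit 0) (nat_lit 22664682018) (nat_lit 152) (nat_lit 87992946794) (nat_lit 0) (nat_lit 14330104747) (nat_lit 2) (nat_lit 5) (nat_lit 4) (nat_lit 4) (nat_lit 2) (nat_lit 4) (nat_lit 320) (nat_lit 253) (nat_lit 207)) (XT.lf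 (nat_lit 0) (nat_lit 28306889540) (nat_lit 152) (nat_lit 86361373859) (nat_lit 0) (nat_lit 19953868865) (nat_lit 2) (nat_lit 5) (nat_lit 4) (nat_lit 4) (nat_lit 2) (nat_lit 4) (nat_lit 321) (nat_lit 253) (nat_lit 206))))) (XT.nd (nat_lit 234) (nat_lit 0) (nat_lit 0) (XT.nd (nat_lit 78) (nat_lit 0) (nat_lit 0) (XT.lf (nat_lit 0) (nat_lit 34382775382) (nat_lit 152) (nat_lit 84633259044) (nat_lit 0) (nat_lit 26012677480) (nat_lit 2) (nat_lit 5) (nat_lit 4) (nat_lit 4) (nat_lit 2) (nat_lit 4) (nat_lit 322) (nat_lit 253) (nat_lit 205)) (XT.nd (nat_lit 78) (nat_lit 0) (nat_lit 0) (XT.lf (nat_lit 0) (nat_lit 40928344794) (nat_lit 152) (nat_lit 82798361668) (nat_lit 0) (nat_lit 32542434645) (nat_lit 2) (nat_lit 5) (nat_lit 4) (nat_lit 4) (nat_lit 2) (nat_lit 4) (nat_lit 323) (nat_lit 253) (nat_lit 204)) (XT.lf (nat_lit 0) (nat_lit 47982386334) (nat_lit 152) (nat_lit 80845808265) (nat_lit 0)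 (nat_lit 39581835216) (nat_lit 2) (nat_lit 5) (nat_lit 4) (nat_lit 4) (nat_lit 2) (nat_lit 4) (nat_lit 324) (nat_lit 253) (nat_lit 203)))) (XT.nd (nat_lit 156) (nat_lit 0) (nat_lit 0) (XT.nd (nat_lit 78) (nat_lit 0) (nat_lit 0) (XT.lf (nat_lit 0) (nat_lit 55586701731) (nat_lit 152) (nat_lit 78764028149) (nat_lit 0) (nat_lit 47172594160) (nat_lit 2) (nat_lit 5) (nat_lit 4) (nat_lit 4) (nat_lit 2) (nat_lit 4) (nat_lit 325) (nat_lit 253) (nat_lit 202)) (XT.lf (nat_lit 0) (nat_lit 63786353594) (nat_lit 152) (nat_lit 76540684845) (nat_lit 0) (nat_lit 55359693752) (nat_lit 2) (nat_lit 5) (nat_lit 4) (nat_lit 4) (nat_lit 2) (nat_lit 4) (nat_lit 326) (nat_lit 253) (nat_lit 201))) (XT.nd (nat_lit 78) (nat_lit 0) (nat_lit 0) (XT.lf (nat_lit 0) (nat_lit 72629932452) (nat_lit 152) (nat_lit 74162602984) (nat_lit 0) (nat_lit 64191650137) (nat_lit 2) (nat_lit 5) (nat_lit 4) (nat_lit 4) (nat_lit 2)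 (nat_lit 4) (nat_lit 327) (nat_lit 253) (nat_lit 200)) (XT.lf (nat_lit 0) (nat_lit 82169844700) (nat_lit 152) (nat_lit 71615690231) (nat_lit 0) (nat_lit 73720800836) (nat_lit 2) (nat_lit 5) (nat_lit 4) (nat_lit 4) (nat_lit 2) (nat_lit 4) (nat_lit 328) (nat_lit 253) (nat_lit 199)))))) (XT.nd (nat_lit 546) (nat_lit 76) (nat_lit 0) (XT.nd (nat_lit 234) (nat_lit 0) (nat_lit 0) (XT.nd (nat_lit 78) (nat_lit 0) (nat_lit 0) (XT.lf (nat_lit 0) (nat_lit 92462623150) (nat_lit 152) (nat_lit 68884853769) (nat_lit 0) (nat_lit 84003614888) (nat_lit 2) (nat_lit 5) (nat_lit 4) (nat_lit 4) (nat_lit 2) (nat_lit 4) (nat_lit 329) (nat_lit 253) (nat_lit 198)) (XT.nd (nat_lit 78) (nat_lit 0) (nat_lit 0) (XT.lf (nat_lit 0) (nat_lit 103569262045) (nat_lit 152) (nat_lit 65953910863) (nat_lit 0) (nat_lit 95101027489) (nat_lit 2) (nat_lit 5) (nat_lit 4) (nat_lit 4) (nat_lit 2) (nat_lit 4) (nat_lit 330) (nat_lit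 253) (nat_lit 197)) (XT.lf (nat_lit 0) (nat_lit 115555578505) (nat_lit 152) (nat_lit 62805492962) (nat_lit 0) (nat_lit 107078801084) (nat_lit 2) (nat_lit 5) (nat_lit 4) (nat_lit 4) (nat_lit 2) (nat_lit 4) (nat_lit 331) (nat_lit 253) (nat_lit 196)))) (XT.nd (nat_lit 156) (nat_lit 0) (nat_lit 0) (XT.nd (nat_lit 78) (nat_lit 0) (nat_lit 0) (XT.lf (nat_lit 0) (nat_lit 128492602552) (nat_lit 152) (nat_lit 59420942776) (nat_lit 0) (nat_lit 120007915071) (nat_lit 2) (nat_lit 5) (nat_lit 4) (nat_lit 4) (nat_lit 2) (nat_lit 4) (nat_lit 332) (nat_lit 253) (nat_lit 195)) (XT.lf (nat_lit 0) (nat_lit 142456998033) (nat_lit 152) (nat_lit 55780203711) (nat_lit 0) (nat_lit 133964986423) (nat_lit 2) (nat_lit 5) (nat_lit 4) (nat_lit 4) (nat_lit 2) (nat_lit 4) (nat_lit 333) (nat_lit 253) (nat_lit 194))) (XT.nd (nat_lit 78) (nat_lit 0) (nat_lit 0) (XT.lf (nat_lit 0) (nat_lit 157531516922) (nat_lit 152)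 (nat_lit 51861701016) (nat_lit 0) (nat_lit 149032723710) (nat_lit 2) (nat_lit 5) (nat_lit 4) (nat_lit 4) (nat_lit 2) (nat_lit 4) (nat_lit 334) (nat_lit 253) (nat_lit 193)) (XT.lf (nat_lit 0) (nat_lit 173805489700) (nat_lit 152) (nat_lit 47642213936) (nat_lit 0) (nat_lit 165300417227) (nat_lit 2) (nat_lit 5) (nat_lit 4) (nat_lit 4) (nat_lit 2) (nat_lit 4) (nat_lit 335) (nat_lit 253) (nat_lit 192))))) (XT.nd (nat_lit 312) (nat_lit 76) (nat_lit 0) (XT.nd (nat_lit 156) (nat_lit 0) (nat_lit 0) (XT.nd (nat_lit 78) (nat_lit 0) (nat_lit 0) (XT.lf (nat_lit 0) (nat_lit 191375354725) (nat_lit 152) (nat_lit 43096738101) (nat_lit 0) (nat_lit 182864468122) (nat_lit 2) (nat_lit 5) (nat_lit 4) (nat_lit 4) (nat_lit 2) (nat_lit 4) (nat_lit 336) (nat_lit 253) (nat_lit 191)) (XT.lf (nat_lit 0) (nat_lit 210345229715) (nat_lit 152) (nat_lit 38198337360) (nat_lit 0) (nat_lit 201828959658) (nat_lit 2) (nat_lit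 5) (nat_lit 4) (nat_lit 4) (nat_lit 2) (nat_lit 4) (nat_lit 337) (nat_lit 253) (nat_lit 190))) (XT.nd (nat_lit 78) (nat_lit 0) (nat_lit 0) (XT.lf (nat_lit 0) (nat_lit 230827528745) (nat_lit 152) (nat_lit 32917984151) (nat_lit 0) (nat_lit 222306274008) (nat_lit 2) (nat_lit 5) (nat_lit 4) (nat_lit 4) (nat_lit 2) (nat_lit 4) (nat_lit 338) (nat_lit 253) (nat_lit 189)) (XT.lf (nat_lit 0) (nat_lit 252943628401) (nat_lit 152) (nat_lit 27224387494) (nat_lit 0) (nat_lit 244417758220) (nat_lit 2) (nat_lit 5) (nat_lit 4) (nat_lit 4) (nat_lit 2) (nat_lit 4) (nat_lit 339) (nat_lit 253) (nat_lit 188)))) (XT.nd (nat_lit 156) (nat_lit 76) (nat_lit 0) (XT.nd (nat_lit 78) (nat_lit 0) (nat_lit 0) (XT.lf (nat_lit 0) (nat_lit 276824587051) (nat_lit 152) (nat_lit 21083807555) (nat_lit 0) (nat_lit 268294443311) (nat_lit 2) (nat_lit 5) (nat_lit 4) (nat_lit 4) (nat_lit 2) (nat_lit 4) (nat_lit 340) (nat_lit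 253) (nat_lit 187)) (XT.lf (nat_lit 0) (nat_lit 302611921489) (nat_lit 152) (nat_lit 14459855714) (nat_lit 0) (nat_lit 294077820749) (nat_lit 2) (nat_lit 5) (nat_lit 4) (nat_lit 4) (nat_lit 2) (nat_lit 4) (nat_lit 341) (nat_lit 253) (nat_lit 186))) (XT.nd (nat_lit 78) (nat_lit 76) (nat_lit 0) (XT.lf (nat_lit 0) (nat_lit 330458445546) (nat_lit 152) (nat_lit 7313278922) (nat_lit 0) (nat_lit 321920680919) (nat_lit 2) (nat_lit 5) (nat_lit 4) (nat_lit 4) (nat_lit 2) (nat_lit 4) (nat_lit 342) (nat_lit 253) (nat_lit 185)) (XT.lf (nat_lit 0) (nat_lit 419245250) (nat_lit 76) (nat_lit 360120013271) (nat_lit 76) (nat_lit 351578856154) (nat_lit 1) (nat_lit 4) (nat_lit 2) (nat_lit 5) (nat_lit 2) (nat_lit 4) (nat_lit 343) (nat_lit 253) (nat_lit 184))))))) (XT.nd (nat_lit 1170) (nat_lit 0) (nat_lit 0) (XT.nd (nat_lit 546) (nat_lit 0) (nat_lit 0) (XT.nd (nat_lit 234) (nat_lit 0) (nat_lit 0) (XT.nd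 (nat_lit 78) (nat_lit 0) (nat_lit 0) (XT.lf (nat_lit 0) (nat_lit 9179703815) (nat_lit 76) (nat_lit 384043377040) (nat_lit 76) (nat_lit 375499078730) (nat_lit 1) (nat_lit 4) (nat_lit 2) (nat_lit 5) (nat_lit 2) (nat_lit 4) (nat_lit 344) (nat_lit 253) (nat_lit 183)) (XT.nd (nat_lit 78) (nat_lit 0) (nat_lit 0) (XT.lf (nat_lit 0) (nat_lit 18634906294) (nat_lit 76) (nat_lit 409883541863) (nat_lit 76) (nat_lit 401336335040) (nat_lit 1) (nat_lit 4) (nat_lit 2) (nat_lit 5) (nat_lit 2) (nat_lit 4) (nat_lit 345) (nat_lit 253) (nat_lit 182)) (XT.lf (nat_lit 0) (nat_lit 28840883515) (nat_lit 76) (nat_lit 437793634644) (nat_lit 76) (nat_lit 429243734753) (nat_lit 1) (nat_lit 4) (nat_lit 2) (nat_lit 5) (nat_lit 2) (nat_lit 4) (nat_lit 346) (nat_lit 253) (nat_lit 181)))) (XT.nd (nat_lit 156) (nat_lit 0) (nat_lit 0) (XT.nd (nat_lit 78) (nat_lit 0) (nat_lit 0) (XT.lf (nat_lit 0) (nat_lit 39858115344)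 (nat_lit 76) (nat_lit 467939048523) (nat_lit 76) (nat_lit 459386655052) (nat_lit 1) (nat_lit 4) (nat_lit 2) (nat_lit 5) (nat_lit 2) (nat_lit 4) (nat_lit 347) (nat_lit 253) (nat_lit 180)) (XT.lf (nat_lit 0) (nat_lit 51751889081) (nat_lit 76) (nat_lit 500498422992) (nat_lit 76) (nat_lit 491943720650) (nat_lit 1) (nat_lit 4) (nat_lit 2) (nat_lit 5) (nat_lit 2) (nat_lit 4) (nat_lit 348) (nat_lit 253) (nat_lit 179))) (XT.nd (nat_lit 78) (nat_lit 0) (nat_lit 0) (XT.lf (nat_lit 0) (nat_lit 64592686347) (nat_lit 76) (nat_lit 535664702491) (nat_lit 76) (nat_lit 527107862305) (nat_lit 1) (nat_lit 4) (nat_lit 2) (nat_lit 5) (nat_lit 2) (nat_lit 4) (nat_lit 349) (nat_lit 253) (nat_lit 178)) (XT.lf (nat_lit 0) (nat_lit 78456600756) (nat_lit 76) (nat_lit 573646279788) (nat_lit 76) (nat_lit 565087460117) (nat_lit 1) (nat_lit 4) (nat_lit 2) (nat_lit 5) (nat_lit 2) (nat_lit 4) (nat_lit 350) (nat_lit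 253) (nat_lit 177))))) (XT.nd (nat_lit 312) (nat_lit 0) (nat_lit 0) (XT.nd (nat_lit 156) (nat_lit 0) (nat_lit 0) (XT.nd (nat_lit 78) (nat_lit 0) (nat_lit 0) (XT.lf (nat_lit 0) (nat_lit 93425788838) (nat_lit 76) (nat_lit 614668230896) (nat_lit 76) (nat_lit 606107578369) (nat_lit 1) (nat_lit 4) (nat_lit 2) (nat_lit 5) (nat_lit 2) (nat_lit 4) (nat_lit 351) (nat_lit 253) (nat_lit 176)) (XT.lf (nat_lit 0) (nat_lit 109588956893) (nat_lit 76) (nat_lit 658973648859) (nat_lit 76) (nat_lit 650411299243) (nat_lit 1) (nat_lit 4) (nat_lit 2) (nat_lit 5) (nat_lit 2) (nat_lit 4) (nat_lit 352) (nat_lit 253) (nat_lit 175))) (XT.nd (nat_lit 78) (nat_lit 0) (nat_lit 0) (XT.lf (nat_lit 0) (nat_lit 127041886657) (nat_lit 76) (nat_lit 706825084301) (nat_lit 76) (nat_lit 698261163306) (nat_lit 1) (nat_lit 4) (nat_lit 2) (nat_lit 5) (nat_lit 2) (nat_lit 4) (nat_lit 353) (nat_lit 253) (nat_lit 174)) (XT.lf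 (nat_lit 0) (nat_lit 145888002899) (nat_lit 76) (nat_lit 758506101286) (nat_lit 76) (nat_lit 749940725311) (nat_lit 1) (nat_lit 4) (nat_lit 2) (nat_lit 5) (nat_lit 2) (nat_lit 4) (nat_lit 354) (nat_lit 253) (nat_lit 173)))) (XT.nd (nat_lit 156) (nat_lit 0) (nat_lit 0) (XT.nd (nat_lit 78) (nat_lit 0) (nat_lit 0) (XT.lf (nat_lit 0) (nat_lit 166238986308) (nat_lit 76) (nat_lit 814322957691) (nat_lit 76) (nat_lit 805756234511) (nat_lit 1) (nat_lit 4) (nat_lit 2) (nat_lit 5) (nat_lit 2) (nat_lit 4) (nat_lit 355) (nat_lit 253) (nat_lit 172)) (XT.lf (nat_lit 0) (nat_lit 188215435305) (nat_lit 76) (nat_lit 874606420073) (nat_lit 76) (nat_lit 866038449482) (nat_lit 1) (nat_lit 4) (nat_lit 2) (nat_lit 5) (nat_lit 2) (nat_lit 4) (nat_lit 356) (nat_lit 253) (nat_lit 171))) (XT.nd (nat_lit 78) (nat_lit 0) (nat_lit 0) (XT.lf (nat_lit 0) (nat_lit 211947580697) (nat_lit 76) (nat_lit 939713723763) (nat_lit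 76) (nat_lit 931144598162) (nat_lit 1) (nat_lit 4) (nat_lit 2) (nat_lit 5) (nat_lit 2) (nat_lit 4) (nat_lit 357) (nat_lit 253) (nat_lit 170)) (XT.lf (nat_lit 0) (nat_lit 237576057422) (nat_lit 76) (nat_lit 1010030689822) (nat_lit 76) (nat_lit 1001460494767) (nat_lit 1) (nat_lit 4) (nat_lit 2) (nat_lit 5) (nat_lit 2) (nat_lit 4) (nat_lit 358) (nat_lit 253) (nat_lit 169)))))) (XT.nd (nat_lit 546) (nat_lit 0) (nat_lit 0) (XT.nd (nat_lit 234) (nat_lit 0) (nat_lit 0) (XT.nd (nat_lit 78) (nat_lit 0) (nat_lit 0) (XT.lf (nat_lit 0) (nat_lit 265252737932) (nat_lit 76) (nat_lit 1085974011382) (nat_lit 76) (nat_lit 1077402826091) (nat_lit 1) (nat_lit 4) (nat_lit 2) (nat_lit 5) (nat_lit 2) (nat_lit 4) (nat_lit 359) (nat_lit 253) (nat_lit 168)) (XT.nd (nat_lit 78) (nat_lit 0) (nat_lit 0) (XT.lf (nat_lit 0) (nat_lit 295141632188) (nat_lit 76) (nat_lit 1167993722940) (nat_lit 76) (nat_lit 1159421620765)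 (nat_lit 1) (nat_lit 4) (nat_lit 2) (nat_lit 5) (nat_lit 2) (nat_lit 4) (nat_lit 360) (nat_lit 253) (nat_lit 167)) (XT.lf (nat_lit 0) (nat_lit 327419859562) (nat_lit 76) (nat_lit 1256575867232) (nat_lit 76) (nat_lit 1248002916090) (nat_lit 1) (nat_lit 4) (nat_lit 2) (nat_lit 5) (nat_lit 2) (nat_lit 4) (nat_lit 361) (nat_lit 253) (nat_lit 166)))) (XT.nd (nat_lit 156) (nat_lit 0) (nat_lit 0) (XT.nd (nat_lit 78) (nat_lit 0) (nat_lit 0) (XT.lf (nat_lit 0) (nat_lit 362278698440) (nat_lit 76) (nat_lit 1352245375483) (nat_lit 76) (nat_lit 1343671638260) (nat_lit 1) (nat_lit 4) (nat_lit 2) (nat_lit 5) (nat_lit 2) (nat_lit 4) (nat_lit 362) (nat_lit 253) (nat_lit 165)) (XT.lf (nat_lit 0) (nat_lit 399924719716) (nat_lit 76) (nat_lit 1455569178112) (nat_lit 76) (nat_lit 1446994713037) (nat_lit 1) (nat_lit 4) (nat_lit 2) (nat_lit 5) (nat_lit 2) (nat_lit 4) (nat_lit 363) (nat_lit 253) (nat_lit 164)))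 (XT.nd (nat_lit 78) (nat_lit 0) (nat_lit 0) (XT.lf (nat_lit 0) (nat_lit 440581010927) (nat_lit 76) (nat_lit 1567159564320) (nat_lit 76) (nat_lit 1558584425308) (nat_lit 1) (nat_lit 4) (nat_lit 2) (nat_lit 5) (nat_lit 2) (nat_lit 4) (nat_lit 364) (nat_lit 253) (nat_lit 163)) (XT.lf (nat_lit 0) (nat_lit 484488498241) (nat_lit 76) (nat_lit 1687677810471) (nat_lit 76) (nat_lit 1679102047442) (nat_lit 1) (nat_lit 4) (nat_lit 2) (nat_lit 5) (nat_lit 2) (nat_lit 4) (nat_lit 365) (nat_lit 253) (nat_lit 162))))) (XT.nd (nat_lit 33540) (nat_lit 0) (nat_lit 1900) (XT.nd (nat_lit 33384) (nat_lit 0) (nat_lit 2508) (XT.nd (nat_lit 33306) (nat_lit 0) (nat_lit 2812) (XT.lf (nat_lit 0) (nat_lit 531907374175) (nat_lit 76) (nat_lit 1817838098762) (nat_lit 76) (nat_lit 1809261757941) (nat_lit 1) (nat_lit 4) (nat_lit 2) (nat_lit 5) (nat_lit 2) (nat_lit 4) (nat_lit 366) (nat_lit 253) (nat_lit 161)) (XT.lf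 (nat_lit 0) (nat_lit 459818245) (nat_lit 228) (nat_lit 1665555239) (nat_lit 228) (nat_lit 1665555239) (nat_lit 38) (nat_lit 4) (nat_lit 41) (nat_lit 5) (nat_lit 41) (nat_lit 4) (nat_lit 272) (nat_lit 254) (nat_lit 254))) (XT.nd (nat_lit 78) (nat_lit 304) (nat_lit 0) (XT.lf (nat_lit 0) (nat_lit 6382018245) (nat_lit 228) (nat_lit 1392817569) (nat_lit 228) (nat_lit 20130959) (nat_lit 38) (nat_lit 4) (nat_lit 41) (nat_lit 5) (nat_lit 41) (nat_lit 4) (nat_lit 273) (nat_lit 254) (nat_lit 253)) (XT.lf (nat_lit 0) (nat_lit 3262715060) (nat_lit 304) (nat_lit 3950836529) (nat_lit 0) (nat_lit 814851422) (nat_lit 34) (nat_lit 5) (nat_lit 38) (nat_lit 4) (nat_lit 34) (nat_lit 4) (nat_lit 274) (nat_lit 254) (nat_lit 252)))) (XT.nd (nat_lit 156) (nat_lit 304) (nat_lit 0) (XT.nd (nat_lit 78) (nat_lit 76) (nat_lit 0) (XT.lf (nat_lit 0) (nat_lit 1564164842) (nat_lit 228) (nat_lit 5131793185) (nat_lit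 228) (nat_lit 1594246660) (nat_lit 31) (nat_lit 4) (nat_lit 34) (nat_lit 5) (nat_lit 34) (nat_lit 4) (nat_lit 275) (nat_lit 254) (nat_lit 251)) (XT.lf (nat_lit 0) (nat_lit 1629175611) (nat_lit 304) (nat_lit 1157826890) (nat_lit 76) (nat_lit 5791957860) (nat_lit 30) (nat_lit 5) (nat_lit 34) (nat_lit 5) (nat_lit 31) (nat_lit 4) (nat_lit 276) (nat_lit 254) (nat_lit 250))) (XT.nd (nat_lit 78) (nat_lit 152) (nat_lit 0) (XT.lf (nat_lit 0) (nat_lit 4783606405) (nat_lit 152) (nat_lit 151175329) (nat_lit 228) (nat_lit 3960554318) (nat_lit 28) (nat_lit 5) (nat_lit 30) (nat_lit 5) (nat_lit 31) (nat_lit 4) (nat_lit 277) (nat_lit 254) (nat_lit 249)) (XT.lf (nat_lit 0) (nat_lit 1777014042) (nat_lit 152) (nat_lit 6670461531) (nat_lit 152) (nat_lit 794753187) (nat_lit 26) (nat_lit 4) (nat_lit 28) (nat_lit 5) (nat_lit 28) (nat_lit 4) (nat_lit 278) (nat_lit 254) (nat_lit 248))))))))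
noncomputable def xc39 : XT := (XT.nd (nat_lit 2262) (nat_lit 228) (nat_lit 0) (XT.nd (nat_lit 1092) (nat_lit 456) (nat_lit 0) (XT.nd (nat_lit 546) (nat_lit 380) (nat_lit 0) (XT.nd (nat_lit 234) (nat_lit 380) (nat_lit 0) (XT.nd (nat_lit 78) (nat_lit 304) (nat_lit 0) (XT.lf (nat_lit 0) (nat_lit 2417544185) (nat_lit 228) (nat_lit 1588836301) (nat_lit 76) (nat_lit 5612012271) (nat_lit 25) (nat_lit 5) (nat_lit 28) (nat_lit 5) (nat_lit 26) (nat_lit 4) (nat_lit 279) (nat_lit 254) (nat_lit 247)) (XT.nd (nat_lit 78) (nat_lit 152) (nat_lit 0) (XT.lf (nat_lit 0) (nat_lit 4711892723) (nat_lit 152) (nat_lit 1064985155) (nat_lit 228) (nat_lit 4251972041) (nat_lit 23) (nat_lit 5) (nat_lit 25) (nat_lit 5) (nat_lit 26) (nat_lit 4) (nat_lit 280) (nat_lit 254) (nat_lit 246)) (XT.lf (nat_lit 0) (nat_lit 863056996) (nat_lit 152) (nat_lit 8482976003) (nat_lit 152) (nat_lit 1131278999) (nat_lit 21) (nat_lit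 4) (nat_lit 23) (nat_lit 5) (nat_lit 23) (nat_lit 4) (nat_lit 281) (nat_lit 254) (nat_lit 245)))) (XT.nd (nat_lit 156) (nat_lit 228) (nat_lit 0) (XT.nd (nat_lit 78) (nat_lit 76) (nat_lit 0) (XT.lf (nat_lit 0) (nat_lit 2130781864) (nat_lit 228) (nat_lit 3464783464) (nat_lit 76) (nat_lit 5361869674) (nat_lit 20) (nat_lit 5) (nat_lit 23) (nat_lit 5) (nat_lit 21) (nat_lit 4) (nat_lit 282) (nat_lit 254) (nat_lit 244)) (XT.lf (nat_lit 0) (nat_lit 3050482360) (nat_lit 76) (nat_lit 2455299428) (nat_lit 152) (nat_lit 5975148594) (nat_lit 19) (nat_lit 5) (nat_lit 20) (nat_lit 5) (nat_lit 21) (nat_lit 4) (nat_lit 283) (nat_lit 254) (nat_lit 243))) (XT.nd (nat_lit 78) (nat_lit 228) (nat_lit 0) (XT.lf (nat_lit 0) (nat_lit 9114109628) (nat_lit 152) (nat_lit 2033289094) (nat_lit 0) (nat_lit 902174375) (nat_lit 19) (nat_lit 5) (nat_lit 21) (nat_lit 4) (nat_lit 19) (nat_lit 4) (nat_lit 284) (nat_lit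 254) (nat_lit 242)) (XT.lf (nat_lit 0) (nat_lit 365480997) (nat_lit 228) (nat_lit 7852408914) (nat_lit 76) (nat_lit 4442598212) (nat_lit 16) (nat_lit 5) (nat_lit 19) (nat_lit 5) (nat_lit 17) (nat_lit 4) (nat_lit 285) (nat_lit 254) (nat_lit 241))))) (XT.nd (nat_lit 234) (nat_lit 304) (nat_lit 0) (XT.nd (nat_lit 78) (nat_lit 76) (nat_lit 0) (XT.lf (nat_lit 0) (nat_lit 3685473982) (nat_lit 228) (nat_lit 1317818074) (nat_lit 76) (nat_lit 8318064583) (nat_lit 16) (nat_lit 5) (nat_lit 19) (nat_lit 5) (nat_lit 17) (nat_lit 4) (nat_lit 286) (nat_lit 254) (nat_lit 240)) (XT.nd (nat_lit 78) (nat_lit 0) (nat_lit 0) (XT.lf (nat_lit 0) (nat_lit 5811074870) (nat_lit 76) (nat_lit 1466902206) (nat_lit 152) (nat_lit 6756810164) (nat_lit 15) (nat_lit 5) (nat_lit 16) (nat_lit 5) (nat_lit 17) (nat_lit 4) (nat_lit 287) (nat_lit 254) (nat_lit 239)) (XT.lf (nat_lit 0) (nat_lit 11121224810) (nat_lit 152) (nat_lit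 1496729705) (nat_lit 0) (nat_lit 2190497497) (nat_lit 15) (nat_lit 5) (nat_lit 17) (nat_lit 4) (nat_lit 15) (nat_lit 4) (nat_lit 288) (nat_lit 254) (nat_lit 238)))) (XT.nd (nat_lit 156) (nat_lit 76) (nat_lit 0) (XT.nd (nat_lit 78) (nat_lit 76) (nat_lit 0) (XT.lf (nat_lit 0) (nat_lit 5815645765) (nat_lit 152) (nat_lit 9513700465) (nat_lit 152) (nat_lit 310281067) (nat_lit 13) (nat_lit 4) (nat_lit 15) (nat_lit 5) (nat_lit 15) (nat_lit 4) (nat_lit 289) (nat_lit 254) (nat_lit 237)) (XT.lf (nat_lit 0) (nat_lit 3092232873) (nat_lit 228) (nat_lit 3024067691) (nat_lit 76) (nat_lit 10420969736) (nat_lit 12) (nat_lit 5) (nat_lit 15) (nat_lit 5) (nat_lit 13) (nat_lit 4) (nat_lit 290) (nat_lit 254) (nat_lit 236))) (XT.nd (nat_lit 78) (nat_lit 0) (nat_lit 0) (XT.lf (nat_lit 0) (nat_lit 4337204738) (nat_lit 76) (nat_lit 2406500221) (nat_lit 152) (nat_lit 10763060475) (nat_lit 11) (nat_lit 5) (nat_lit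 12) (nat_lit 5) (nat_lit 13) (nat_lit 4) (nat_lit 291) (nat_lit 254) (nat_lit 235)) (XT.lf (nat_lit 0) (nat_lit 10701620164) (nat_lit 152) (nat_lit 6321971231) (nat_lit 0) (nat_lit 1529237436) (nat_lit 11) (nat_lit 5) (nat_lit 13) (nat_lit 4) (nat_lit 11) (nat_lit 4) (nat_lit 292) (nat_lit 254) (nat_lit 234)))))) (XT.nd (nat_lit 546) (nat_lit 152) (nat_lit 0) (XT.nd (nat_lit 234) (nat_lit 152) (nat_lit 0) (XT.nd (nat_lit 78) (nat_lit 76) (nat_lit 0) (XT.lf (nat_lit 0) (nat_lit 875554324) (nat_lit 76) (nat_lit 14083263326) (nat_lit 76) (nat_lit 4725290947) (nat_lit 10) (nat_lit 4) (nat_lit 11) (nat_lit 5) (nat_lit 11) (nat_lit 4) (nat_lit 293) (nat_lit 254) (nat_lit 233)) (XT.nd (nat_lit 78) (nat_lit 76) (nat_lit 0) (XT.lf (nat_lit 0) (nat_lit 8833790469) (nat_lit 76) (nat_lit 10798015178) (nat_lit 76) (nat_lit 1268200530) (nat_lit 10) (nat_lit 4) (nat_lit 11) (nat_lit 5) (nat_lit 11)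 (nat_lit 4) (nat_lit 294) (nat_lit 254) (nat_lit 232)) (XT.lf (nat_lit 0) (nat_lit 2249253446) (nat_lit 152) (nat_lit 5010480692) (nat_lit 76) (nat_lit 14956241299) (nat_lit 9) (nat_lit 5) (nat_lit 11) (nat_lit 5) (nat_lit 10) (nat_lit 4) (nat_lit 295) (nat_lit 254) (nat_lit 231)))) (XT.nd (nat_lit 156) (nat_lit 76) (nat_lit 0) (XT.nd (nat_lit 78) (nat_lit 0) (nat_lit 0) (XT.lf (nat_lit 0) (nat_lit 2549984975) (nat_lit 76) (nat_lit 3404938045) (nat_lit 152) (nat_lit 17681742462) (nat_lit 8) (nat_lit 5) (nat_lit 9) (nat_lit 5) (nat_lit 10) (nat_lit 4) (nat_lit 296) (nat_lit 254) (nat_lit 230)) (XT.lf (nat_lit 0) (nat_lit 10030978997) (nat_lit 152) (nat_lit 14337188217) (nat_lit 0) (nat_lit 797026365) (nat_lit 8) (nat_lit 5) (nat_lit 10) (nat_lit 4) (nat_lit 8) (nat_lit 4) (nat_lit 297) (nat_lit 254) (nat_lit 229))) (XT.nd (nat_lit 78) (nat_lit 76) (nat_lit 0) (XT.lf (nat_lit 0) (nat_lit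 14442988437) (nat_lit 152) (nat_lit 7280233379) (nat_lit 0) (nat_lit 5092082844) (nat_lit 8) (nat_lit 5) (nat_lit 10) (nat_lit 4) (nat_lit 8) (nat_lit 4) (nat_lit 298) (nat_lit 254) (nat_lit 228)) (XT.lf (nat_lit 0) (nat_lit 218839055) (nat_lit 76) (nat_lit 18921631768) (nat_lit 76) (nat_lit 9462436396) (nat_lit 7) (nat_lit 4) (nat_lit 8) (nat_lit 5) (nat_lit 8) (nat_lit 4) (nat_lit 299) (nat_lit 254) (nat_lit 227))))) (XT.nd (nat_lit 312) (nat_lit 76) (nat_lit 0) (XT.nd (nat_lit 156) (nat_lit 76) (nat_lit 0) (XT.nd (nat_lit 78) (nat_lit 0) (nat_lit 0) (XT.lf (nat_lit 0) (nat_lit 8601861464) (nat_lit 76) (nat_lit 15740456158) (nat_lit 76) (nat_lit 6180992473) (nat_lit 7) (nat_lit 4) (nat_lit 8) (nat_lit 5) (nat_lit 8) (nat_lit 4) (nat_lit 300) (nat_lit 254) (nat_lit 226)) (XT.lf (nat_lit 0) (nat_lit 17535146828) (nat_lit 76) (nat_lit 12359898059) (nat_lit 76) (nat_lit 2707593343) (nat_lit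 7) (nat_lit 4) (nat_lit 8) (nat_lit 5) (nat_lit 8) (nat_lit 4) (nat_lit 301) (nat_lit 254) (nat_lit 225))) (XT.nd (nat_lit 78) (nat_lit 0) (nat_lit 0) (XT.lf (nat_lit 0) (nat_lit 929403365) (nat_lit 152) (nat_lit 7805109633) (nat_lit 76) (nat_lit 26116818234) (nat_lit 6) (nat_lit 5) (nat_lit 8) (nat_lit 5) (nat_lit 7) (nat_lit 4) (nat_lit 302) (nat_lit 254) (nat_lit 224)) (XT.lf (nat_lit 0) (nat_lit 4653611512) (nat_lit 152) (nat_lit 138352908) (nat_lit 76) (nat_lit 32486983397) (nat_lit 6) (nat_lit 5) (nat_lit 8) (nat_lit 5) (nat_lit 7) (nat_lit 4) (nat_lit 303) (nat_lit 254) (nat_lit 223)))) (XT.nd (nat_lit 156) (nat_lit 0) (nat_lit 0) (XT.nd (nat_lit 78) (nat_lit 0) (nat_lit 0) (XT.lf (nat_lit 0) (nat_lit 8466876546) (nat_lit 76) (nat_lit 359297301) (nat_lit 152) (nat_lit 31062619139) (nat_lit 5) (nat_lit 5) (nat_lit 6) (nat_lit 5) (nat_lit 7) (nat_lit 4) (nat_lit 304) (nat_lit 254)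 (nat_lit 222)) (XT.lf (nat_lit 0) (nat_lit 13390272332) (nat_lit 152) (nat_lit 25144353956) (nat_lit 0) (nat_lit 4168229751) (nat_lit 5) (nat_lit 5) (nat_lit 7) (nat_lit 4) (nat_lit 5) (nat_lit 4) (nat_lit 305) (nat_lit 254) (nat_lit 221))) (XT.nd (nat_lit 78) (nat_lit 0) (nat_lit 0) (XT.lf (nat_lit 0) (nat_lit 18280087565) (nat_lit 152) (nat_lit 18465615224) (nat_lit 0) (nat_lit 8999539386) (nat_lit 5) (nat_lit 5) (nat_lit 7) (nat_lit 4) (nat_lit 5) (nat_lit 4) (nat_lit 306) (nat_lit 254) (nat_lit 220)) (XT.lf (nat_lit 0) (nat_lit 23515955121) (nat_lit 152) (nat_lit 11337481425) (nat_lit 0) (nat_lit 14181235092) (nat_lit 5) (nat_lit 5) (nat_lit 7) (nat_lit 4) (nat_lit 5) (nat_lit 4) (nat_lit 307) (nat_lit 254) (nat_lit 219))))))) (XT.nd (nat_lit 1170) (nat_lit 0) (nat_lit 0) (XT.nd (nat_lit 546) (nat_lit 152) (nat_lit 0) (XT.nd (nat_lit 234) (nat_lit 0) (nat_lit 0) (XT.nd (nat_lit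 78) (nat_lit 76) (nat_lit 0) (XT.lf (nat_lit 0) (nat_lit 29128902363) (nat_lit 152) (nat_lit 3717711767) (nat_lit 0) (nat_lit 19744023214) (nat_lit 5) (nat_lit 5) (nat_lit 7) (nat_lit 4) (nat_lit 5) (nat_lit 4) (nat_lit 308) (nat_lit 254) (nat_lit 218)) (XT.nd (nat_lit 78) (nat_lit 0) (nat_lit 0) (XT.lf (nat_lit 0) (nat_lit 4672589805) (nat_lit 76) (nat_lit 30591977293) (nat_lit 76) (nat_lit 21160654514) (nat_lit 4) (nat_lit 4) (nat_lit 5) (nat_lit 5) (nat_lit 5) (nat_lit 4) (nat_lit 309) (nat_lit 254) (nat_lit 217)) (XT.lf (nat_lit 0) (nat_lit 13874596368) (nat_lit 76) (nat_lit 28080603207) (nat_lit 76) (nat_lit 18606277067) (nat_lit 4) (nat_lit 4) (nat_lit 5) (nat_lit 5) (nat_lit 5) (nat_lit 4) (nat_lit 310) (nat_lit 254) (nat_lit 216)))) (XT.nd (nat_lit 156) (nat_lit 0) (nat_lit 0) (XT.nd (nat_lit 78) (nat_lit 0) (nat_lit 0) (XT.lf (nat_lit 0) (nat_lit 23747070216) (nat_lit 76) (nat_lit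 25399258484) (nat_lit 76) (nat_lit 15885114417) (nat_lit 4) (nat_lit 4) (nat_lit 5) (nat_lit 5) (nat_lit 5) (nat_lit 4) (nat_lit 311) (nat_lit 254) (nat_lit 215)) (XT.lf (nat_lit 0) (nat_lit 34348514897) (nat_lit 76) (nat_lit 22532053675) (nat_lit 76) (nat_lit 12981041158) (nat_lit 4) (nat_lit 4) (nat_lit 5) (nat_lit 5) (nat_lit 5) (nat_lit 4) (nat_lit 312) (nat_lit 254) (nat_lit 214))) (XT.nd (nat_lit 78) (nat_lit 0) (nat_lit 0) (XT.lf (nat_lit 0) (nat_lit 45741753787) (nat_lit 76) (nat_lit 19461997936) (nat_lit 76) (nat_lit 9876847964) (nat_lit 4) (nat_lit 4) (nat_lit 5) (nat_lit 5) (nat_lit 5) (nat_lit 4) (nat_lit 313) (nat_lit 254) (nat_lit 213)) (XT.lf (nat_lit 0) (nat_lit 57994302377) (nat_lit 76) (nat_lit 16170898344) (nat_lit 76) (nat_lit 6554139618) (nat_lit 4) (nat_lit 4) (nat_lit 5) (nat_lit 5) (nat_lit 5) (nat_lit 4) (nat_lit 314) (nat_lit 254) (nat_lit 212))))) (XT.nd (nat_lit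 312) (nat_lit 0) (nat_lit 0) (XT.nd (nat_lit 156) (nat_lit 76) (nat_lit 0) (XT.nd (nat_lit 78) (nat_lit 76) (nat_lit 0) (XT.lf (nat_lit 0) (nat_lit 71178768362) (nat_lit 76) (nat_lit 12639252087) (nat_lit 76) (nat_lit 2993225996) (nat_lit 4) (nat_lit 4) (nat_lit 5) (nat_lit 5) (nat_lit 5) (nat_lit 4) (nat_lit 315) (nat_lit 254) (nat_lit 211)) (XT.lf (nat_lit 0) (nat_lit 785624991) (nat_lit 152) (nat_lit 8039025520) (nat_lit 76) (nat_lit 84566176538) (nat_lit 3) (nat_lit 5) (nat_lit 5) (nat_lit 5) (nat_lit 4) (nat_lit 4) (nat_lit 316) (nat_lit 254) (nat_lit 210))) (XT.nd (nat_lit 78) (nat_lit 0) (nat_lit 0) (XT.lf (nat_lit 0) (nat_lit 43745444) (nat_lit 76) (nat_lit 4639890611) (nat_lit 152) (nat_lit 95808651169) (nat_lit 2) (nat_lit 5) (nat_lit 3) (nat_lit 5) (nat_lit 4) (nat_lit 4) (nat_lit 317) (nat_lit 254) (nat_lit 209)) (XT.lf (nat_lit 0) (nat_lit 9093809174) (nat_lit 152) (nat_lit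 98959580226) (nat_lit 0) (nat_lit 92465721) (nat_lit 2) (nat_lit 5) (nat_lit 4) (nat_lit 4) (nat_lit 2) (nat_lit 4) (nat_lit 318) (nat_lit 254) (nat_lit 208)))) (XT.nd (nat_lit 156) (nat_lit 0) (nat_lit 0) (XT.nd (nat_lit 78) (nat_lit 0) (nat_lit 0) (XT.lf (nat_lit 0) (nat_lit 13956669506) (nat_lit 152) (nat_lit 97511657271) (nat_lit 0) (nat_lit 4935407176) (nat_lit 2) (nat_lit 5) (nat_lit 4) (nat_lit 4) (nat_lit 2) (nat_lit 4) (nat_lit 319) (nat_lit 254) (nat_lit 207)) (XT.lf (nat_lit 0) (nat_lit 19189444519) (nat_lit 152) (nat_lit 95984603151) (nat_lit 0) (nat_lit 10149738785) (nat_lit 2) (nat_lit 5) (nat_lit 4) (nat_lit 4) (nat_lit 2) (nat_lit 4) (nat_lit 320) (nat_lit 254) (nat_lit 206))) (XT.nd (nat_lit 78) (nat_lit 0) (nat_lit 0) (XT.lf (nat_lit 0) (nat_lit 24823143252) (nat_lit 152) (nat_lit 94369368656) (nat_lit 0) (nat_lit 15766360292) (nat_lit 2) (nat_lit 5) (nat_lit 4) (nat_lit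 4) (nat_lit 2) (nat_lit 4) (nat_lit 321) (nat_lit 254) (nat_lit 205)) (XT.lf (nat_lit 0) (nat_lit 30891150585) (nat_lit 152) (nat_lit 92656382025) (nat_lit 0) (nat_lit 21818555378) (nat_lit 2) (nat_lit 5) (nat_lit 4) (nat_lit 4) (nat_lit 2) (nat_lit 4) (nat_lit 322) (nat_lit 254) (nat_lit 204)))))) (XT.nd (nat_lit 546) (nat_lit 0) (nat_lit 0) (XT.nd (nat_lit 234) (nat_lit 0) (nat_lit 0) (XT.nd (nat_lit 78) (nat_lit 0) (nat_lit 0) (XT.lf (nat_lit 0) (nat_lit 37429425082) (nat_lit 152) (nat_lit 90835492228) (nat_lit 0) (nat_lit 28342188905) (nat_lit 2) (nat_lit 5) (nat_lit 4) (nat_lit 4) (nat_lit 2) (nat_lit 4) (nat_lit 323) (nat_lit 254) (nat_lit 203)) (XT.nd (nat_lit 78) (nat_lit 0) (nat_lit 0) (XT.lf (nat_lit 0) (nat_lit 44476712070) (nat_lit 152) (nat_lit 88895908805) (nat_lit 0) (nat_lit 35375919441) (nat_lit 2) (nat_lit 5) (nat_lit 4) (nat_lit 4) (nat_lit 2) (nat_lit 4) (nat_lit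 324) (nat_lit 254) (nat_lit 202)) (XT.lf (nat_lit 0) (nat_lit 52074773253) (nat_lit 152) (nat_lit 86826137930) (nat_lit 0) (nat_lit 42961428353) (nat_lit 2) (nat_lit 5) (nat_lit 4) (nat_lit 4) (nat_lit 2) (nat_lit 4) (nat_lit 325) (nat_lit 254) (nat_lit 201)))) (XT.nd (nat_lit 156) (nat_lit 0) (nat_lit 0) (XT.nd (nat_lit 78) (nat_lit 0) (nat_lit 0) (XT.lf (nat_lit 0) (nat_lit 60268634177) (nat_lit 152) (nat_lit 84613914293) (nat_lit 0) (nat_lit 51143666803) (nat_lit 2) (nat_lit 5) (nat_lit 4) (nat_lit 4) (nat_lit 2) (nat_lit 4) (nat_lit 326) (nat_lit 254) (nat_lit 200)) (XT.lf (nat_lit 0) (nat_lit 69106851055) (nat_lit 152) (nat_lit 82246128422) (nat_lit 0) (nat_lit 59971122132) (nat_lit 2) (nat_lit 5) (nat_lit 4) (nat_lit 4) (nat_lit 2) (nat_lit 4) (nat_lit 327) (nat_lit 254) (nat_lit 199))) (XT.nd (nat_lit 78) (nat_lit 0) (nat_lit 0) (XT.lf (nat_lit 0) (nat_lit 78641798506) (nat_lit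 152) (nat_lit 79708748991) (nat_lit 0) (nat_lit 69496105185) (nat_lit 2) (nat_lit 5) (nat_lit 4) (nat_lit 4) (nat_lit 2) (nat_lit 4) (nat_lit 328) (nat_lit 254) (nat_lit 198)) (XT.lf (nat_lit 0) (nat_lit 88929979922) (nat_lit 152) (nat_lit 76986739679) (nat_lit 0) (nat_lit 79775060307) (nat_lit 2) (nat_lit 5) (nat_lit 4) (nat_lit 4) (nat_lit 2) (nat_lit 4) (nat_lit 329) (nat_lit 254) (nat_lit 197))))) (XT.nd (nat_lit 312) (nat_lit 0) (nat_lit 0) (XT.nd (nat_lit 156) (nat_lit 0) (nat_lit 0) (XT.nd (nat_lit 78) (nat_lit 0) (nat_lit 0) (XT.lf (nat_lit 0) (nat_lit 100032362303) (nat_lit 152) (nat_lit 74063970061) (nat_lit 0) (nat_lit 90868899824) (nat_lit 2) (nat_lit 5) (nat_lit 4) (nat_lit 4) (nat_lit 2) (nat_lit 4) (nat_lit 330) (nat_lit 254) (nat_lit 196)) (XT.lf (nat_lit 0) (nat_lit 112014737547) (nat_lit 152) (nat_lit 70923120019) (nat_lit 0) (nat_lit 102843365008) (nat_lit 2) (nat_lit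 5) (nat_lit 4) (nat_lit 4) (nat_lit 2) (nat_lit 4) (nat_lit 331) (nat_lit 254) (nat_lit 195))) (XT.nd (nat_lit 78) (nat_lit 0) (nat_lit 0) (XT.lf (nat_lit 0) (nat_lit 124948112320) (nat_lit 152) (nat_lit 67545577110) (nat_lit 0) (nat_lit 115769415651) (nat_lit 2) (nat_lit 5) (nat_lit 4) (nat_lit 4) (nat_lit 2) (nat_lit 4) (nat_lit 332) (nat_lit 254) (nat_lit 194)) (XT.lf (nat_lit 0) (nat_lit 138909128844) (nat_lit 152) (nat_lit 63911326264) (nat_lit 0) (nat_lit 129723650574) (nat_lit 2) (nat_lit 5) (nat_lit 4) (nat_lit 4) (nat_lit 2) (nat_lit 4) (nat_lit 333) (nat_lit 254) (nat_lit 193)))) (XT.nd (nat_lit 156) (nat_lit 0) (nat_lit 0) (XT.nd (nat_lit 78) (nat_lit 0) (nat_lit 0) (XT.lf (nat_lit 0) (nat_lit 153980519069) (nat_lit 152) (nat_lit 59998831180) (nat_lit 0) (nat_lit 144788761538) (nat_lit 2) (nat_lit 5) (nat_lit 4) (nat_lit 4) (nat_lit 2) (nat_lit 4) (nat_lit 334) (nat_lit 254)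 (nat_lit 192)) (XT.lf (nat_lit 0) (nat_lit 170251594935) (nat_lit 152) (nat_lit 55784906701) (nat_lit 0) (nat_lit 161054023274) (nat_lit 2) (nat_lit 5) (nat_lit 4) (nat_lit 4) (nat_lit 2) (nat_lit 4) (nat_lit 335) (nat_lit 254) (nat_lit 191))) (XT.nd (nat_lit 78) (nat_lit 0) (nat_lit 0) (XT.lf (nat_lit 0) (nat_lit 187818777635) (nat_lit 152) (nat_lit 51244581424) (nat_lit 0) (nat_lit 178615822520) (nat_lit 2) (nat_lit 5) (nat_lit 4) (nat_lit 4) (nat_lit 2) (nat_lit 4) (nat_lit 336) (nat_lit 254) (nat_lit 190)) (XT.lf (nat_lit 0) (nat_lit 206786168991) (nat_lit 152) (nat_lit 46350949717) (nat_lit 0) (nat_lit 197578229196) (nat_lit 2) (nat_lit 5) (nat_lit 4) (nat_lit 4) (nat_lit 2) (nat_lit 4) (nat_lit 337) (nat_lit 254) (nat_lit 189))))))))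
noncomputable def xc40 : XT := (XT.nd (nat_lit 35334) (nat_lit 0) (nat_lit 532) (XT.nd (nat_lit 1092) (nat_lit 0) (nat_lit 0) (XT.nd (nat_lit 546) (nat_lit 0) (nat_lit 0) (XT.nd (nat_lit 234) (nat_lit 76) (nat_lit 0) (XT.nd (nat_lit 78) (nat_lit 0) (nat_lit 0) (XT.lf (nat_lit 0) (nat_lit 227266168359) (nat_lit 152) (nat_lit 41075012282) (nat_lit 0) (nat_lit 218053613120) (nat_lit 2) (nat_lit 5) (nat_lit 4) (nat_lit 4) (nat_lit 2) (nat_lit 4) (nat_lit 338) (nat_lit 254) (nat_lit 188)) (XT.nd (nat_lit 78) (nat_lit 0) (nat_lit 0) (XT.lf (nat_lit 0) (nat_lit 249380138699) (nat_lit 152) (nat_lit 35385504303) (nat_lit 0) (nat_lit 240163309900) (nat_lit 2) (nat_lit 5) (nat_lit 4) (nat_lit 4) (nat_lit 2) (nat_lit 4) (nat_lit 339) (nat_lit 254) (nat_lit 187)) (XT.lf (nat_lit 0) (nat_lit 273259125760) (nat_lit 152) (nat_lit 29248710178) (nat_lit 0) (nat_lit 264038339963) (nat_lit 2) (nat_lit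 5) (nat_lit 4) (nat_lit 4) (nat_lit 2) (nat_lit 4) (nat_lit 340) (nat_lit 254) (nat_lit 186)))) (XT.nd (nat_lit 156) (nat_lit 76) (nat_lit 0) (XT.nd (nat_lit 78) (nat_lit 0) (nat_lit 0) (XT.lf (nat_lit 0) (nat_lit 299044634652) (nat_lit 152) (nat_lit 22628263720) (nat_lit 0) (nat_lit 289820184966) (nat_lit 2) (nat_lit 5) (nat_lit 4) (nat_lit 4) (nat_lit 2) (nat_lit 4) (nat_lit 341) (nat_lit 254) (nat_lit 185)) (XT.lf (nat_lit 0) (nat_lit 326889468390) (nat_lit 152) (nat_lit 15484932653) (nat_lit 0) (nat_lit 317661626215) (nat_lit 2) (nat_lit 5) (nat_lit 4) (nat_lit 4) (nat_lit 2) (nat_lit 4) (nat_lit 342) (nat_lit 254) (nat_lit 184))) (XT.nd (nat_lit 78) (nat_lit 76) (nat_lit 0) (XT.lf (nat_lit 0) (nat_lit 356958633395) (nat_lit 152) (nat_lit 7776386126) (nat_lit 0) (nat_lit 347727650027) (nat_lit 2) (nat_lit 5) (nat_lit 4) (nat_lit 4) (nat_lit 2) (nat_lit 4) (nat_lit 343) (nat_lit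 254) (nat_lit 183)) (XT.lf (nat_lit 0) (nat_lit 571652508) (nat_lit 76) (nat_lit 388872413062) (nat_lit 76) (nat_lit 379638521180) (nat_lit 1) (nat_lit 4) (nat_lit 2) (nat_lit 5) (nat_lit 2) (nat_lit 4) (nat_lit 344) (nat_lit 254) (nat_lit 182))))) (XT.nd (nat_lit 234) (nat_lit 0) (nat_lit 0) (XT.nd (nat_lit 78) (nat_lit 0) (nat_lit 0) (XT.lf (nat_lit 0) (nat_lit 10024142749) (nat_lit 76) (nat_lit 414713883063) (nat_lit 76) (nat_lit 405477298115) (nat_lit 1) (nat_lit 4) (nat_lit 2) (nat_lit 5) (nat_lit 2) (nat_lit 4) (nat_lit 345) (nat_lit 254) (nat_lit 181)) (XT.nd (nat_lit 78) (nat_lit 0) (nat_lit 0) (XT.lf (nat_lit 0) (nat_lit 20227608638) (nat_lit 76) (nat_lit 442625184342) (nat_lit 76) (nat_lit 433386105813) (nat_lit 1) (nat_lit 4) (nat_lit 2) (nat_lit 5) (nat_lit 2) (nat_lit 4) (nat_lit 346) (nat_lit 254) (nat_lit 180)) (XT.lf (nat_lit 0) (nat_lit 31242515160) (nat_lit 76) (nat_lit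 472771717202) (nat_lit 76) (nat_lit 463530329801) (nat_lit 1) (nat_lit 4) (nat_lit 2) (nat_lit 5) (nat_lit 2) (nat_lit 4) (nat_lit 347) (nat_lit 254) (nat_lit 179)))) (XT.nd (nat_lit 156) (nat_lit 0) (nat_lit 0) (XT.nd (nat_lit 78) (nat_lit 0) (nat_lit 0) (XT.lf (nat_lit 0) (nat_lit 43134135835) (nat_lit 76) (nat_lit 505332127763) (nat_lit 76) (nat_lit 496088602519) (nat_lit 1) (nat_lit 4) (nat_lit 2) (nat_lit 5) (nat_lit 2) (nat_lit 4) (nat_lit 348) (nat_lit 254) (nat_lit 178)) (XT.lf (nat_lit 0) (nat_lit 55972939525) (nat_lit 76) (nat_lit 540499366607) (nat_lit 76) (nat_lit 531253861878) (nat_lit 1) (nat_lit 4) (nat_lit 2) (nat_lit 5) (nat_lit 2) (nat_lit 4) (nat_lit 349) (nat_lit 254) (nat_lit 177))) (XT.nd (nat_lit 78) (nat_lit 0) (nat_lit 0) (XT.lf (nat_lit 0) (nat_lit 69835008030) (nat_lit 76) (nat_lit 578481832187) (nat_lit 76) (nat_lit 569234494601) (nat_lit 1) (nat_lit 4) (nat_lit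 2) (nat_lit 5) (nat_lit 2) (nat_lit 4) (nat_lit 350) (nat_lit 254) (nat_lit 176)) (XT.lf (nat_lit 0) (nat_lit 84802486942) (nat_lit 76) (nat_lit 619504605778) (nat_lit 76) (nat_lit 610255571104) (nat_lit 1) (nat_lit 4) (nat_lit 2) (nat_lit 5) (nat_lit 2) (nat_lit 4) (nat_lit 351) (nat_lit 254) (nat_lit 175)))))) (XT.nd (nat_lit 546) (nat_lit 0) (nat_lit 0) (XT.nd (nat_lit 234) (nat_lit 0) (nat_lit 0) (XT.nd (nat_lit 78) (nat_lit 0) (nat_lit 0) (XT.lf (nat_lit 0) (nat_lit 100964072432) (nat_lit 76) (nat_lit 663810785300) (nat_lit 76) (nat_lit 654560179247) (nat_lit 1) (nat_lit 4) (nat_lit 2) (nat_lit 5) (nat_lit 2) (nat_lit 4) (nat_lit 352) (nat_lit 254) (nat_lit 174)) (XT.nd (nat_lit 78) (nat_lit 0) (nat_lit 0) (XT.lf (nat_lit 0) (nat_lit 118415536858) (nat_lit 76) (nat_lit 711662925891) (nat_lit 76) (nat_lit 702410864857) (nat_lit 1) (nat_lit 4) (nat_lit 2) (nat_lit 5) (nat_lit 2)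 (nat_lit 4) (nat_lit 353) (nat_lit 254) (nat_lit 173)) (XT.lf (nat_lit 0) (nat_lit 137260296305) (nat_lit 76) (nat_lit 763344595789) (nat_lit 76) (nat_lit 754091187551) (nat_lit 1) (nat_lit 4) (nat_lit 2) (nat_lit 5) (nat_lit 2) (nat_lit 4) (nat_lit 354) (nat_lit 254) (nat_lit 172)))) (XT.nd (nat_lit 156) (nat_lit 0) (nat_lit 0) (XT.nd (nat_lit 78) (nat_lit 0) (nat_lit 0) (XT.lf (nat_lit 0) (nat_lit 157610023424) (nat_lit 76) (nat_lit 819162056744) (nat_lit 76) (nat_lit 809907401095) (nat_lit 1) (nat_lit 4) (nat_lit 2) (nat_lit 5) (nat_lit 2) (nat_lit 4) (nat_lit 355) (nat_lit 254) (nat_lit 171)) (XT.lf (nat_lit 0) (nat_lit 179585309188) (nat_lit 76) (nat_lit 879446078895) (nat_lit 76) (nat_lit 870190268235) (nat_lit 1) (nat_lit 4) (nat_lit 2) (nat_lit 5) (nat_lit 2) (nat_lit 4) (nat_lit 356) (nat_lit 254) (nat_lit 170))) (XT.nd (nat_lit 78) (nat_lit 0) (nat_lit 0) (XT.lf (nat_lit 0)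 (nat_lit 203316377513) (nat_lit 76) (nat_lit 944553900890) (nat_lit 76) (nat_lit 935297020776) (nat_lit 1) (nat_lit 4) (nat_lit 2) (nat_lit 5) (nat_lit 2) (nat_lit 4) (nat_lit 357) (nat_lit 254) (nat_lit 169)) (XT.lf (nat_lit 0) (nat_lit 228943856953) (nat_lit 76) (nat_lit 1014871346860) (nat_lit 76) (nat_lit 1005613476511) (nat_lit 1) (nat_lit 4) (nat_lit 2) (nat_lit 5) (nat_lit 2) (nat_lit 4) (nat_lit 358) (nat_lit 254) (nat_lit 168))))) (XT.nd (nat_lit 312) (nat_lit 0) (nat_lit 0) (XT.nd (nat_lit 156) (nat_lit 0) (nat_lit 0) (XT.nd (nat_lit 78) (nat_lit 0) (nat_lit 0) (XT.lf (nat_lit 0) (nat_lit 256619614052) (nat_lit 76) (nat_lit 1090815112782) (nat_lit 76) (nat_lit 1081556325549) (nat_lit 1) (nat_lit 4) (nat_lit 2) (nat_lit 5) (nat_lit 2) (nat_lit 4) (nat_lit 359) (nat_lit 254) (nat_lit 167)) (XT.lf (nat_lit 0) (nat_lit 286507653298) (nat_lit 76) (nat_lit 1172835235787) (nat_lit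 76) (nat_lit 1163575599586) (nat_lit 1) (nat_lit 4) (nat_lit 2) (nat_lit 5) (nat_lit 2) (nat_lit 4) (nat_lit 360) (nat_lit 254) (nat_lit 166))) (XT.nd (nat_lit 78) (nat_lit 0) (nat_lit 0) (XT.lf (nat_lit 0) (nat_lit 318785088995) (nat_lit 76) (nat_lit 1261417761048) (nat_lit 76) (nat_lit 1252157338766) (nat_lit 1) (nat_lit 4) (nat_lit 2) (nat_lit 5) (nat_lit 2) (nat_lit 4) (nat_lit 361) (nat_lit 254) (nat_lit 165)) (XT.lf (nat_lit 0) (nat_lit 353643194839) (nat_lit 76) (nat_lit 1357087622048) (nat_lit 76) (nat_lit 1347826471914) (nat_lit 1) (nat_lit 4) (nat_lit 2) (nat_lit 5) (nat_lit 2) (nat_lit 4) (nat_lit 362) (nat_lit 254) (nat_lit 164)))) (XT.nd (nat_lit 156) (nat_lit 0) (nat_lit 0) (XT.nd (nat_lit 78) (nat_lit 0) (nat_lit 0) (XT.lf (nat_lit 0) (nat_lit 391288537381) (nat_lit 76) (nat_lit 1460411751297) (nat_lit 76) (nat_lit 1451149927225) (nat_lit 1) (nat_lit 4) (nat_lit 2) (nat_lit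 5) (nat_lit 2) (nat_lit 4) (nat_lit 363) (nat_lit 254) (nat_lit 163)) (XT.lf (nat_lit 0) (nat_lit 431944200133) (nat_lit 76) (nat_lit 1572002439931) (nat_lit 76) (nat_lit 1562739991843) (nat_lit 1) (nat_lit 4) (nat_lit 2) (nat_lit 5) (nat_lit 2) (nat_lit 4) (nat_lit 364) (nat_lit 254) (nat_lit 162))) (XT.nd (nat_lit 78) (nat_lit 0) (nat_lit 0) (XT.lf (nat_lit 0) (nat_lit 475851105541) (nat_lit 76) (nat_lit 1692520966105) (nat_lit 76) (nat_lit 1683257940225) (nat_lit 1) (nat_lit 4) (nat_lit 2) (nat_lit 5) (nat_lit 2) (nat_lit 4) (nat_lit 365) (nat_lit 254) (nat_lit 161)) (XT.lf (nat_lit 0) (nat_lit 523269442674) (nat_lit 76) (nat_lit 1822681513678) (nat_lit 76) (nat_lit 1813417952804) (nat_lit 1) (nat_lit 4) (nat_lit 2) (nat_lit 5) (nat_lit 2) (nat_lit 4) (nat_lit 366) (nat_lit 254) (nat_lit 160))))))) (XT.nd (nat_lit 1092) (nat_lit 836) (nat_lit 0) (XT.nd (nat_lit 546) (nat_lit 836)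 (nat_lit 0) (XT.nd (nat_lit 234) (nat_lit 608) (nat_lit 0) (XT.nd (nat_lit 78) (nat_lit 760) (nat_lit 0) (XT.lf (nat_lit 0) (nat_lit 2754228929) (nat_lit 380) (nat_lit 428800703) (nat_lit 380) (nat_lit 428800703) (nat_lit 48) (nat_lit 4) (nat_lit 53) (nat_lit 5) (nat_lit 53) (nat_lit 4) (nat_lit 270) (nat_lit 255) (nat_lit 255)) (XT.nd (nat_lit 78) (nat_lit 228) (nat_lit 0) (XT.lf (nat_lit 0) (nat_lit 2348515391) (nat_lit 532) (nat_lit 4180720635) (nat_lit 0) (nat_lit 866013853) (nat_lit 41) (nat_lit 5) (nat_lit 48) (nat_lit 4) (nat_lit 41) (nat_lit 4) (nat_lit 271) (nat_lit 255) (nat_lit 254)) (XT.lf (nat_lit 0) (nat_lit 783210900) (nat_lit 228) (nat_lit 4831897592) (nat_lit 228) (nat_lit 1976709445) (nat_lit 38) (nat_lit 4) (nat_lit 41) (nat_lit 5) (nat_lit 41) (nat_lit 4) (nat_lit 272) (nat_lit 255) (nat_lit 253)))) (XT.nd (nat_lit 156) (nat_lit 304) (nat_lit 0) (XT.nd (nat_lit 78)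 (nat_lit 228) (nat_lit 0) (XT.lf (nat_lit 0) (nat_lit 1154846335) (nat_lit 304) (nat_lit 1724113889) (nat_lit 76) (nat_lit 4932850782) (nat_lit 37) (nat_lit 5) (nat_lit 41) (nat_lit 5) (nat_lit 38) (nat_lit 4) (nat_lit 273) (nat_lit 255) (nat_lit 252)) (XT.lf (nat_lit 0) (nat_lit 3642454731) (nat_lit 228) (nat_lit 658269555) (nat_lit 304) (nat_lit 3755765397) (nat_lit 34) (nat_lit 5) (nat_lit 37) (nat_lit 5) (nat_lit 38) (nat_lit 4) (nat_lit 274) (nat_lit 255) (nat_lit 251))) (XT.nd (nat_lit 78) (nat_lit 76) (nat_lit 0) (XT.lf (nat_lit 0) (nat_lit 958924936) (nat_lit 228) (nat_lit 6644684096) (nat_lit 228) (nat_lit 725485325) (nat_lit 31) (nat_lit 4) (nat_lit 34) (nat_lit 5) (nat_lit 34) (nat_lit 4) (nat_lit 275) (nat_lit 255) (nat_lit 250)) (XT.lf (nat_lit 0) (nat_lit 2356110172) (nat_lit 304) (nat_lit 1952717052) (nat_lit 76) (nat_lit 4315541669) (nat_lit 30) (nat_lit 5) (nat_lit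 34) (nat_lit 5) (nat_lit 31) (nat_lit 4) (nat_lit 276) (nat_lit 255) (nat_lit 249))))) (XT.nd (nat_lit 234) (nat_lit 456) (nat_lit 0) (XT.nd (nat_lit 78) (nat_lit 228) (nat_lit 0) (XT.lf (nat_lit 0) (nat_lit 3820279649) (nat_lit 152) (nat_lit 1727187307) (nat_lit 228) (nat_lit 3402714740) (nat_lit 28) (nat_lit 5) (nat_lit 30) (nat_lit 5) (nat_lit 31) (nat_lit 4) (nat_lit 277) (nat_lit 255) (nat_lit 248)) (XT.nd (nat_lit 78) (nat_lit 76) (nat_lit 0) (XT.lf (nat_lit 0) (nat_lit 614882671) (nat_lit 152) (nat_lit 8291549742) (nat_lit 152) (nat_lit 403215415) (nat_lit 26) (nat_lit 4) (nat_lit 28) (nat_lit 5) (nat_lit 28) (nat_lit 4) (nat_lit 278) (nat_lit 255) (nat_lit 247)) (XT.lf (nat_lit 0) (nat_lit 2702797918) (nat_lit 228) (nat_lit 2953199715) (nat_lit 76) (nat_lit 4036232590) (nat_lit 25) (nat_lit 5) (nat_lit 28) (nat_lit 5) (nat_lit 26) (nat_lit 4) (nat_lit 279) (nat_lit 255) (nat_lit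 246)))) (XT.nd (nat_lit 156) (nat_lit 304) (nat_lit 0) (XT.nd (nat_lit 78) (nat_lit 0) (nat_lit 0) (XT.lf (nat_lit 0) (nat_lit 3153462463) (nat_lit 152) (nat_lit 2790913184) (nat_lit 228) (nat_lit 4167950639) (nat_lit 23) (nat_lit 5) (nat_lit 25) (nat_lit 5) (nat_lit 26) (nat_lit 4) (nat_lit 280) (nat_lit 255) (nat_lit 245)) (XT.lf (nat_lit 0) (nat_lit 9373345956) (nat_lit 228) (nat_lit 899180743) (nat_lit 0) (nat_lit 299678695) (nat_lit 23) (nat_lit 5) (nat_lit 26) (nat_lit 4) (nat_lit 23) (nat_lit 4) (nat_lit 281) (nat_lit 255) (nat_lit 244))) (XT.nd (nat_lit 78) (nat_lit 76) (nat_lit 0) (XT.lf (nat_lit 0) (nat_lit 1966173106) (nat_lit 228) (nat_lit 5488761217) (nat_lit 76) (nat_lit 3605730210) (nat_lit 20) (nat_lit 5) (nat_lit 23) (nat_lit 5) (nat_lit 21) (nat_lit 4) (nat_lit 282) (nat_lit 255) (nat_lit 243)) (XT.lf (nat_lit 0) (nat_lit 803067974) (nat_lit 76) (nat_lit 4412708739)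 (nat_lit 152) (nat_lit 6378575452) (nat_lit 19) (nat_lit 5) (nat_lit 20) (nat_lit 5) (nat_lit 21) (nat_lit 4) (nat_lit 283) (nat_lit 255) (nat_lit 242)))))) (XT.nd (nat_lit 546) (nat_lit 304) (nat_lit 0) (XT.nd (nat_lit 234) (nat_lit 304) (nat_lit 0) (XT.nd (nat_lit 78) (nat_lit 228) (nat_lit 0) (XT.lf (nat_lit 0) (nat_lit 7685335228) (nat_lit 76) (nat_lit 1047266159) (nat_lit 152) (nat_lit 3437862404) (nat_lit 19) (nat_lit 5) (nat_lit 20) (nat_lit 5) (nat_lit 21) (nat_lit 4) (nat_lit 284) (nat_lit 255) (nat_lit 241)) (XT.nd (nat_lit 78) (nat_lit 76) (nat_lit 0) (XT.lf (nat_lit 0) (nat_lit 2153601953) (nat_lit 152) (nat_lit 10357119782) (nat_lit 152) (nat_lit 283832936) (nat_lit 17) (nat_lit 4) (nat_lit 19) (nat_lit 5) (nat_lit 19) (nat_lit 4) (nat_lit 285) (nat_lit 255) (nat_lit 240)) (XT.lf (nat_lit 0) (nat_lit 2986490339) (nat_lit 228) (nat_lit 4204900430) (nat_lit 76) (nat_lit 6269805975)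 (nat_lit 16) (nat_lit 5) (nat_lit 19) (nat_lit 5) (nat_lit 17) (nat_lit 4) (nat_lit 286) (nat_lit 255) (nat_lit 239)))) (XT.nd (nat_lit 156) (nat_lit 228) (nat_lit 0) (XT.nd (nat_lit 78) (nat_lit 0) (nat_lit 0) (XT.lf (nat_lit 0) (nat_lit 2669266594) (nat_lit 76) (nat_lit 3775029068) (nat_lit 152) (nat_lit 7741216771) (nat_lit 15) (nat_lit 5) (nat_lit 16) (nat_lit 5) (nat_lit 17) (nat_lit 4) (nat_lit 287) (nat_lit 255) (nat_lit 238)) (XT.lf (nat_lit 0) (nat_lit 10134716042) (nat_lit 76) (nat_lit 40328129) (nat_lit 152) (nat_lit 4793234145) (nat_lit 15) (nat_lit 5) (nat_lit 16) (nat_lit 5) (nat_lit 17) (nat_lit 4) (nat_lit 288) (nat_lit 255) (nat_lit 237))) (XT.nd (nat_lit 78) (nat_lit 76) (nat_lit 0) (XT.lf (nat_lit 0) (nat_lit 2207785027) (nat_lit 152) (nat_lit 12033976155) (nat_lit 152) (nat_lit 1569098450) (nat_lit 13) (nat_lit 4) (nat_lit 15) (nat_lit 5) (nat_lit 15) (nat_lit 4)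 (nat_lit 289) (nat_lit 255) (nat_lit 236)) (XT.lf (nat_lit 0) (nat_lit 1843122398) (nat_lit 228) (nat_lit 6864972626) (nat_lit 76) (nat_lit 8007171031) (nat_lit 12) (nat_lit 5) (nat_lit 15) (nat_lit 5) (nat_lit 13) (nat_lit 4) (nat_lit 290) (nat_lit 255) (nat_lit 235))))) (XT.nd (nat_lit 312) (nat_lit 152) (nat_lit 0) (XT.nd (nat_lit 156) (nat_lit 76) (nat_lit 0) (XT.nd (nat_lit 78) (nat_lit 0) (nat_lit 0) (XT.lf (nat_lit 0) (nat_lit 204289407) (nat_lit 76) (nat_lit 5141589626) (nat_lit 152) (nat_lit 12350853758) (nat_lit 11) (nat_lit 5) (nat_lit 12) (nat_lit 5) (nat_lit 13) (nat_lit 4) (nat_lit 291) (nat_lit 255) (nat_lit 234)) (XT.lf (nat_lit 0) (nat_lit 8056647712) (nat_lit 76) (nat_lit 1160767440) (nat_lit 152) (nat_lit 9532360219) (nat_lit 11) (nat_lit 5) (nat_lit 12) (nat_lit 5) (nat_lit 13) (nat_lit 4) (nat_lit 292) (nat_lit 255) (nat_lit 233))) (XT.nd (nat_lit 78) (nat_lit 76)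 (nat_lit 0) (XT.lf (nat_lit 0) (nat_lit 13380716269) (nat_lit 152) (nat_lit 3591240153) (nat_lit 0) (nat_lit 2916674179) (nat_lit 11) (nat_lit 5) (nat_lit 13) (nat_lit 4) (nat_lit 11) (nat_lit 4) (nat_lit 293) (nat_lit 255) (nat_lit 232)) (XT.lf (nat_lit 0) (nat_lit 4100151022) (nat_lit 76) (nat_lit 13819171036) (nat_lit 76) (nat_lit 3196015734) (nat_lit 10) (nat_lit 4) (nat_lit 11) (nat_lit 5) (nat_lit 11) (nat_lit 4) (nat_lit 294) (nat_lit 255) (nat_lit 231)))) (XT.nd (nat_lit 156) (nat_lit 76) (nat_lit 0) (XT.nd (nat_lit 78) (nat_lit 0) (nat_lit 0) (XT.lf (nat_lit 0) (nat_lit 376532985) (nat_lit 152) (nat_lit 9987293739) (nat_lit 76) (nat_lit 12074547449) (nat_lit 9) (nat_lit 5) (nat_lit 11) (nat_lit 5) (nat_lit 10) (nat_lit 4) (nat_lit 295) (nat_lit 255) (nat_lit 230)) (XT.lf (nat_lit 0) (nat_lit 3982595379) (nat_lit 152) (nat_lit 2623097894) (nat_lit 76) (nat_lit 17261386384) (nat_lit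 9) (nat_lit 5) (nat_lit 11) (nat_lit 5) (nat_lit 10) (nat_lit 4) (nat_lit 296) (nat_lit 255) (nat_lit 229))) (XT.nd (nat_lit 78) (nat_lit 0) (nat_lit 0) (XT.lf (nat_lit 0) (nat_lit 5471617146) (nat_lit 76) (nat_lit 2463393732) (nat_lit 152) (nat_lit 17470531505) (nat_lit 8) (nat_lit 5) (nat_lit 9) (nat_lit 5) (nat_lit 10) (nat_lit 4) (nat_lit 297) (nat_lit 255) (nat_lit 228)) (XT.lf (nat_lit 0) (nat_lit 12252799249) (nat_lit 152) (nat_lit 12881853608) (nat_lit 0) (nat_lit 1928578469) (nat_lit 8) (nat_lit 5) (nat_lit 10) (nat_lit 4) (nat_lit 8) (nat_lit 4) (nat_lit 298) (nat_lit 255) (nat_lit 227))))))))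
noncomputable def xc41 : XT := (XT.nd (nat_lit 2262) (nat_lit 76) (nat_lit 0) (XT.nd (nat_lit 1092) (nat_lit 152) (nat_lit 0) (XT.nd (nat_lit 546) (nat_lit 76) (nat_lit 0) (XT.nd (nat_lit 234) (nat_lit 152) (nat_lit 0) (XT.nd (nat_lit 78) (nat_lit 76) (nat_lit 0) (XT.lf (nat_lit 0) (nat_lit 16912633004) (nat_lit 152) (nat_lit 5453106062) (nat_lit 0) (nat_lit 6488143911) (nat_lit 8) (nat_lit 5) (nat_lit 10) (nat_lit 4) (nat_lit 8) (nat_lit 4) (nat_lit 299) (nat_lit 255) (nat_lit 226)) (XT.nd (nat_lit 78) (nat_lit 0) (nat_lit 0) (XT.lf (nat_lit 0) (nat_lit 2584891003) (nat_lit 76) (nat_lit 19360156983) (nat_lit 76) (nat_lit 8842826858) (nat_lit 7) (nat_lit 4) (nat_lit 8) (nat_lit 5) (nat_lit 8) (nat_lit 4) (nat_lit 300) (nat_lit 255) (nat_lit 225)) (XT.lf (nat_lit 0) (nat_lit 11464588922) (nat_lit 76) (nat_lit 16004132163) (nat_lit 76) (nat_lit 5400838121) (nat_lit 7) (nat_lit 4) (nat_lit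 8) (nat_lit 5) (nat_lit 8) (nat_lit 4) (nat_lit 301) (nat_lit 255) (nat_lit 224)))) (XT.nd (nat_lit 156) (nat_lit 76) (nat_lit 0) (XT.nd (nat_lit 78) (nat_lit 76) (nat_lit 0) (XT.lf (nat_lit 0) (nat_lit 20951457223) (nat_lit 76) (nat_lit 12426874638) (nat_lit 76) (nat_lit 1743984375) (nat_lit 7) (nat_lit 4) (nat_lit 8) (nat_lit 5) (nat_lit 8) (nat_lit 4) (nat_lit 302) (nat_lit 255) (nat_lit 223)) (XT.lf (nat_lit 0) (nat_lit 2041882698) (nat_lit 152) (nat_lit 6509474453) (nat_lit 76) (nat_lit 29004002996) (nat_lit 6) (nat_lit 5) (nat_lit 8) (nat_lit 5) (nat_lit 7) (nat_lit 4) (nat_lit 303) (nat_lit 255) (nat_lit 222))) (XT.nd (nat_lit 78) (nat_lit 0) (nat_lit 0) (XT.lf (nat_lit 0) (nat_lit 1714145850) (nat_lit 76) (nat_lit 4314208594) (nat_lit 152) (nat_lit 34151761563) (nat_lit 5) (nat_lit 5) (nat_lit 6) (nat_lit 5) (nat_lit 7) (nat_lit 4) (nat_lit 304) (nat_lit 255) (nat_lit 221))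 (XT.lf (nat_lit 0) (nat_lit 10473902829) (nat_lit 152) (nat_lit 32137376746) (nat_lit 0) (nat_lit 392405198) (nat_lit 5) (nat_lit 5) (nat_lit 7) (nat_lit 4) (nat_lit 5) (nat_lit 4) (nat_lit 305) (nat_lit 255) (nat_lit 220))))) (XT.nd (nat_lit 234) (nat_lit 76) (nat_lit 0) (XT.nd (nat_lit 78) (nat_lit 0) (nat_lit 0) (XT.lf (nat_lit 0) (nat_lit 15342019555) (nat_lit 152) (nat_lit 25499457261) (nat_lit 0) (nat_lit 5206350074) (nat_lit 5) (nat_lit 5) (nat_lit 7) (nat_lit 4) (nat_lit 5) (nat_lit 4) (nat_lit 306) (nat_lit 255) (nat_lit 219)) (XT.nd (nat_lit 78) (nat_lit 0) (nat_lit 0) (XT.lf (nat_lit 0) (nat_lit 20557795900) (nat_lit 152) (nat_lit 18409119060) (nat_lit 0) (nat_lit 10371967299) (nat_lit 5) (nat_lit 5) (nat_lit 7) (nat_lit 4) (nat_lit 5) (nat_lit 4) (nat_lit 307) (nat_lit 255) (nat_lit 218)) (XT.lf (nat_lit 0) (nat_lit 26152140169) (nat_lit 152) (nat_lit 10824345327) (nat_lit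 0) (nat_lit 15919867938) (nat_lit 5) (nat_lit 5) (nat_lit 7) (nat_lit 4) (nat_lit 5) (nat_lit 4) (nat_lit 308) (nat_lit 255) (nat_lit 217)))) (XT.nd (nat_lit 156) (nat_lit 0) (nat_lit 0) (XT.nd (nat_lit 78) (nat_lit 76) (nat_lit 0) (XT.lf (nat_lit 0) (nat_lit 32158204033) (nat_lit 152) (nat_lit 2700189253) (nat_lit 0) (nat_lit 21882928440) (nat_lit 5) (nat_lit 5) (nat_lit 7) (nat_lit 4) (nat_lit 5) (nat_lit 4) (nat_lit 309) (nat_lit 255) (nat_lit 216)) (XT.lf (nat_lit 0) (nat_lit 6328046839) (nat_lit 76) (nat_lit 32435721818) (nat_lit 76) (nat_lit 22120628299) (nat_lit 4) (nat_lit 4) (nat_lit 5) (nat_lit 5) (nat_lit 5) (nat_lit 4) (nat_lit 310) (nat_lit 255) (nat_lit 215))) (XT.nd (nat_lit 78) (nat_lit 0) (nat_lit 0) (XT.lf (nat_lit 0) (nat_lit 16171276901) (nat_lit 76) (nat_lit 29768149928) (nat_lit 76) (nat_lit 19416187958) (nat_lit 4) (nat_lit 4) (nat_lit 5) (nat_lit 5) (nat_lit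 5) (nat_lit 4) (nat_lit 311) (nat_lit 255) (nat_lit 214)) (XT.lf (nat_lit 0) (nat_lit 26745644003) (nat_lit 76) (nat_lit 26913697742) (nat_lit 76) (nat_lit 16527598317) (nat_lit 4) (nat_lit 4) (nat_lit 5) (nat_lit 5) (nat_lit 5) (nat_lit 4) (nat_lit 312) (nat_lit 255) (nat_lit 213)))))) (XT.nd (nat_lit 546) (nat_lit 0) (nat_lit 0) (XT.nd (nat_lit 234) (nat_lit 152) (nat_lit 0) (XT.nd (nat_lit 78) (nat_lit 0) (nat_lit 0) (XT.lf (nat_lit 0) (nat_lit 38113811061) (nat_lit 76) (nat_lit 23855449986) (nat_lit 76) (nat_lit 13437741808) (nat_lit 4) (nat_lit 4) (nat_lit 5) (nat_lit 5) (nat_lit 5) (nat_lit 4) (nat_lit 313) (nat_lit 255) (nat_lit 212)) (XT.nd (nat_lit 78) (nat_lit 0) (nat_lit 0) (XT.lf (nat_lit 0) (nat_lit 50343144990) (nat_lit 76) (nat_lit 20575283713) (nat_lit 76) (nat_lit 10128308169) (nat_lit 4) (nat_lit 4) (nat_lit 5) (nat_lit 5) (nat_lit 5) (nat_lit 4) (nat_lit 314) (nat_lit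 255) (nat_lit 211)) (XT.lf (nat_lit 0) (nat_lit 63506115919) (nat_lit 76) (nat_lit 17053760899) (nat_lit 76) (nat_lit 6579685943) (nat_lit 4) (nat_lit 4) (nat_lit 5) (nat_lit 5) (nat_lit 5) (nat_lit 4) (nat_lit 315) (nat_lit 255) (nat_lit 210)))) (XT.nd (nat_lit 156) (nat_lit 76) (nat_lit 0) (XT.nd (nat_lit 78) (nat_lit 76) (nat_lit 0) (XT.lf (nat_lit 0) (nat_lit 77680726638) (nat_lit 76) (nat_lit 13270013261) (nat_lit 76) (nat_lit 2770846257) (nat_lit 4) (nat_lit 4) (nat_lit 5) (nat_lit 5) (nat_lit 5) (nat_lit 4) (nat_lit 316) (nat_lit 255) (nat_lit 209)) (XT.lf (nat_lit 0) (nat_lit 1254710936) (nat_lit 152) (nat_lit 7912601634) (nat_lit 76) (nat_lit 91661957882) (nat_lit 3) (nat_lit 5) (nat_lit 5) (nat_lit 5) (nat_lit 4) (nat_lit 4) (nat_lit 317) (nat_lit 255) (nat_lit 208))) (XT.nd (nat_lit 78) (nat_lit 0) (nat_lit 0) (XT.lf (nat_lit 0) (nat_lit 797308832) (nat_lit 76) (nat_lit 4655201552)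 (nat_lit 152) (nat_lit 103047325249) (nat_lit 2) (nat_lit 5) (nat_lit 3) (nat_lit 5) (nat_lit 4) (nat_lit 4) (nat_lit 318) (nat_lit 255) (nat_lit 207)) (XT.lf (nat_lit 0) (nat_lit 10194223514) (nat_lit 152) (nat_lit 106160291652) (nat_lit 0) (nat_lit 412897917) (nat_lit 2) (nat_lit 5) (nat_lit 4) (nat_lit 4) (nat_lit 2) (nat_lit 4) (nat_lit 319) (nat_lit 255) (nat_lit 206))))) (XT.nd (nat_lit 312) (nat_lit 0) (nat_lit 0) (XT.nd (nat_lit 156) (nat_lit 0) (nat_lit 0) (XT.nd (nat_lit 78) (nat_lit 0) (nat_lit 0) (XT.lf (nat_lit 0) (nat_lit 15418489738) (nat_lit 152) (nat_lit 104649575971) (nat_lit 0) (nat_lit 5620086915) (nat_lit 2) (nat_lit 5) (nat_lit 4) (nat_lit 4) (nat_lit 2) (nat_lit 4) (nat_lit 320) (nat_lit 255) (nat_lit 205)) (XT.lf (nat_lit 0) (nat_lit 21044309963) (nat_lit 152) (nat_lit 103049469661) (nat_lit 0) (nat_lit 11230094892) (nat_lit 2) (nat_lit 5) (nat_lit 4) (nat_lit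 4) (nat_lit 2) (nat_lit 4) (nat_lit 321) (nat_lit 255) (nat_lit 204))) (XT.nd (nat_lit 78) (nat_lit 0) (nat_lit 0) (XT.lf (nat_lit 0) (nat_lit 27105022381) (nat_lit 152) (nat_lit 101350490609) (nat_lit 0) (nat_lit 17276166341) (nat_lit 2) (nat_lit 5) (nat_lit 4) (nat_lit 4) (nat_lit 2) (nat_lit 4) (nat_lit 322) (nat_lit 255) (nat_lit 203)) (XT.lf (nat_lit 0) (nat_lit 33636542325) (nat_lit 152) (nat_lit 99542570792) (nat_lit 0) (nat_lit 23794129833) (nat_lit 2) (nat_lit 5) (nat_lit 4) (nat_lit 4) (nat_lit 2) (nat_lit 4) (nat_lit 323) (nat_lit 255) (nat_lit 202)))) (XT.nd (nat_lit 156) (nat_lit 0) (nat_lit 0) (XT.nd (nat_lit 78) (nat_lit 0) (nat_lit 0) (XT.lf (nat_lit 0) (nat_lit 40677575100) (nat_lit 152) (nat_lit 97614996610) (nat_lit 0) (nat_lit 30822610337) (nat_lit 2) (nat_lit 5) (nat_lit 4) (nat_lit 4) (nat_lit 2) (nat_lit 4) (nat_lit 324) (nat_lit 255) (nat_lit 201)) (XT.lf (nat_lit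 0) (nat_lit 48269845344) (nat_lit 152) (nat_lit 95556345402) (nat_lit 0) (nat_lit 38403258107) (nat_lit 2) (nat_lit 5) (nat_lit 4) (nat_lit 4) (nat_lit 2) (nat_lit 4) (nat_lit 325) (nat_lit 255) (nat_lit 200))) (XT.nd (nat_lit 78) (nat_lit 0) (nat_lit 0) (XT.lf (nat_lit 0) (nat_lit 56458344287) (nat_lit 152) (nat_lit 93354417754) (nat_lit 0) (nat_lit 46580995501) (nat_lit 2) (nat_lit 5) (nat_lit 4) (nat_lit 4) (nat_lit 2) (nat_lit 4) (nat_lit 326) (nat_lit 255) (nat_lit 199)) (XT.lf (nat_lit 0) (nat_lit 65291596368) (nat_lit 152) (nat_lit 90996165205) (nat_lit 0) (nat_lit 55404283184) (nat_lit 2) (nat_lit 5) (nat_lit 4) (nat_lit 4) (nat_lit 2) (nat_lit 4) (nat_lit 327) (nat_lit 255) (nat_lit 198))))))) (XT.nd (nat_lit 1170) (nat_lit 76) (nat_lit 0) (XT.nd (nat_lit 546) (nat_lit 0) (nat_lit 0) (XT.nd (nat_lit 234) (nat_lit 0) (nat_lit 0) (XT.nd (nat_lit 78) (nat_lit 0) (nat_lit 0) (XT.lf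 (nat_lit 0) (nat_lit 74821946785) (nat_lit 152) (nat_lit 88467612925) (nat_lit 0) (nat_lit 64925407307) (nat_lit 2) (nat_lit 5) (nat_lit 4) (nat_lit 4) (nat_lit 2) (nat_lit 4) (nat_lit 328) (nat_lit 255) (nat_lit 197)) (XT.nd (nat_lit 78) (nat_lit 0) (nat_lit 0) (XT.lf (nat_lit 0) (nat_lit 85105871687) (nat_lit 152) (nat_lit 85753776901) (nat_lit 0) (nat_lit 75200789345) (nat_lit 2) (nat_lit 5) (nat_lit 4) (nat_lit 4) (nat_lit 2) (nat_lit 4) (nat_lit 329) (nat_lit 255) (nat_lit 196)) (XT.lf (nat_lit 0) (nat_lit 96204312854) (nat_lit 152) (nat_lit 82838575141) (nat_lit 0) (nat_lit 86291320451) (nat_lit 2) (nat_lit 5) (nat_lit 4) (nat_lit 4) (nat_lit 2) (nat_lit 4) (nat_lit 330) (nat_lit 255) (nat_lit 195)))) (XT.nd (nat_lit 156) (nat_lit 0) (nat_lit 0) (XT.nd (nat_lit 78) (nat_lit 0) (nat_lit 0) (XT.lf (nat_lit 0) (nat_lit 108183038823) (nat_lit 152) (nat_lit 79704732376) (nat_lit 0)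 (nat_lit 98262722291) (nat_lit 2) (nat_lit 5) (nat_lit 4) (nat_lit 4) (nat_lit 2) (nat_lit 4) (nat_lit 331) (nat_lit 255) (nat_lit 194)) (XT.lf (nat_lit 0) (nat_lit 121113034639) (nat_lit 152) (nat_lit 76333677686) (nat_lit 0) (nat_lit 111185936506) (nat_lit 2) (nat_lit 5) (nat_lit 4) (nat_lit 4) (nat_lit 2) (nat_lit 4) (nat_lit 332) (nat_lit 255) (nat_lit 193))) (XT.nd (nat_lit 78) (nat_lit 0) (nat_lit 0) (XT.lf (nat_lit 0) (nat_lit 135070922499) (nat_lit 152) (nat_lit 72705434451) (nat_lit 0) (nat_lit 125137545105) (nat_lit 2) (nat_lit 5) (nat_lit 4) (nat_lit 4) (nat_lit 2) (nat_lit 4) (nat_lit 333) (nat_lit 255) (nat_lit 192)) (XT.lf (nat_lit 0) (nat_lit 150139415812) (nat_lit 152) (nat_lit 68798501968) (nat_lit 0) (nat_lit 140200224287) (nat_lit 2) (nat_lit 5) (nat_lit 4) (nat_lit 4) (nat_lit 2) (nat_lit 4) (nat_lit 334) (nat_lit 255) (nat_lit 191))))) (XT.nd (nat_lit 312) (nat_lit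 0) (nat_lit 0) (XT.nd (nat_lit 156) (nat_lit 0) (nat_lit 0) (XT.nd (nat_lit 78) (nat_lit 0) (nat_lit 0) (XT.lf (nat_lit 0) (nat_lit 166407809353) (nat_lit 152) (nat_lit 64589728048) (nat_lit 0) (nat_lit 156463234375) (nat_lit 2) (nat_lit 5) (nat_lit 4) (nat_lit 4) (nat_lit 2) (nat_lit 4) (nat_lit 335) (nat_lit 255) (nat_lit 190)) (XT.lf (nat_lit 0) (nat_lit 183972508419) (nat_lit 152) (nat_lit 60054171805) (nat_lit 0) (nat_lit 174022948760) (nat_lit 2) (nat_lit 5) (nat_lit 4) (nat_lit 4) (nat_lit 2) (nat_lit 4) (nat_lit 336) (nat_lit 255) (nat_lit 189))) (XT.nd (nat_lit 78) (nat_lit 0) (nat_lit 0) (XT.lf (nat_lit 0) (nat_lit 202937600113) (nat_lit 152) (nat_lit 55164955872) (nat_lit 0) (nat_lit 192983425011) (nat_lit 2) (nat_lit 5) (nat_lit 4) (nat_lit 4) (nat_lit 2) (nat_lit 4) (nat_lit 337) (nat_lit 255) (nat_lit 188)) (XT.lf (nat_lit 0) (nat_lit 223415470165) (nat_lit 152) (nat_lit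 49893107115) (nat_lit 0) (nat_lit 213457021503) (nat_lit 2) (nat_lit 5) (nat_lit 4) (nat_lit 4) (nat_lit 2) (nat_lit 4) (nat_lit 338) (nat_lit 255) (nat_lit 187)))) (XT.nd (nat_lit 156) (nat_lit 0) (nat_lit 0) (XT.nd (nat_lit 78) (nat_lit 0) (nat_lit 0) (XT.lf (nat_lit 0) (nat_lit 245527468915) (nat_lit 152) (nat_lit 44207384949) (nat_lit 0) (nat_lit 235565063254) (nat_lit 2) (nat_lit 5) (nat_lit 4) (nat_lit 4) (nat_lit 2) (nat_lit 4) (nat_lit 339) (nat_lit 255) (nat_lit 186)) (XT.lf (nat_lit 0) (nat_lit 269404630431) (nat_lit 152) (nat_lit 38074096208) (nat_lit 0) (nat_lit 259438560882) (nat_lit 2) (nat_lit 5) (nat_lit 4) (nat_lit 4) (nat_lit 2) (nat_lit 4) (nat_lit 340) (nat_lit 255) (nat_lit 185))) (XT.nd (nat_lit 78) (nat_lit 0) (nat_lit 0) (XT.lf (nat_lit 0) (nat_lit 295188449003) (nat_lit 152) (nat_lit 31456895474) (nat_lit 0) (nat_lit 285218986965) (nat_lit 2) (nat_lit 5) (nat_lit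 4) (nat_lit 4) (nat_lit 2) (nat_lit 4) (nat_lit 341) (nat_lit 255) (nat_lit 184)) (XT.lf (nat_lit 0) (nat_lit 323031717630) (nat_lit 152) (nat_lit 24316569708) (nat_lit 0) (nat_lit 313059114398) (nat_lit 2) (nat_lit 5) (nat_lit 4) (nat_lit 4) (nat_lit 2) (nat_lit 4) (nat_lit 342) (nat_lit 255) (nat_lit 183)))))) (XT.nd (nat_lit 546) (nat_lit 0) (nat_lit 0) (XT.nd (nat_lit 234) (nat_lit 0) (nat_lit 0) (XT.nd (nat_lit 78) (nat_lit 76) (nat_lit 0) (XT.lf (nat_lit 0) (nat_lit 353099433459) (nat_lit 152) (nat_lit 16610805867) (nat_lit 0) (nat_lit 343123921714) (nat_lit 2) (nat_lit 5) (nat_lit 4) (nat_lit 4) (nat_lit 2) (nat_lit 4) (nat_lit 343) (nat_lit 255) (nat_lit 182)) (XT.nd (nat_lit 78) (nat_lit 76) (nat_lit 0) (XT.lf (nat_lit 0) (nat_lit 385569775547) (nat_lit 152) (nat_lit 8293940167) (nat_lit 0) (nat_lit 375591570735) (nat_lit 2) (nat_lit 5) (nat_lit 4) (nat_lit 4) (nat_lit 2) (nat_lit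 4) (nat_lit 344) (nat_lit 255) (nat_lit 181)) (XT.lf (nat_lit 0) (nat_lit 719294550) (nat_lit 76) (nat_lit 419933165236) (nat_lit 76) (nat_lit 409952466844) (nat_lit 1) (nat_lit 4) (nat_lit 2) (nat_lit 5) (nat_lit 2) (nat_lit 4) (nat_lit 345) (nat_lit 255) (nat_lit 180)))) (XT.nd (nat_lit 156) (nat_lit 0) (nat_lit 0) (XT.nd (nat_lit 78) (nat_lit 0) (nat_lit 0) (XT.lf (nat_lit 0) (nat_lit 10920435132) (nat_lit 76) (nat_lit 447845585495) (nat_lit 76) (nat_lit 437862578231) (nat_lit 1) (nat_lit 4) (nat_lit 2) (nat_lit 5) (nat_lit 2) (nat_lit 4) (nat_lit 346) (nat_lit 255) (nat_lit 179)) (XT.lf (nat_lit 0) (nat_lit 21933188592) (nat_lit 76) (nat_lit 477993154448) (nat_lit 76) (nat_lit 468008009340) (nat_lit 1) (nat_lit 4) (nat_lit 2) (nat_lit 5) (nat_lit 2) (nat_lit 4) (nat_lit 347) (nat_lit 255) (nat_lit 178))) (XT.nd (nat_lit 78) (nat_lit 0) (nat_lit 0) (XT.lf (nat_lit 0) (nat_lit 33822815690)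 (nat_lit 76) (nat_lit 510554524354) (nat_lit 76) (nat_lit 500567399762) (nat_lit 1) (nat_lit 4) (nat_lit 2) (nat_lit 5) (nat_lit 2) (nat_lit 4) (nat_lit 348) (nat_lit 255) (nat_lit 177)) (XT.lf (nat_lit 0) (nat_lit 46659773477) (nat_lit 76) (nat_lit 545722651481) (nat_lit 76) (nat_lit 535733694032) (nat_lit 1) (nat_lit 4) (nat_lit 2) (nat_lit 5) (nat_lit 2) (nat_lit 4) (nat_lit 349) (nat_lit 255) (nat_lit 176))))) (XT.nd (nat_lit 312) (nat_lit 0) (nat_lit 0) (XT.nd (nat_lit 156) (nat_lit 0) (nat_lit 0) (XT.nd (nat_lit 78) (nat_lit 0) (nat_lit 0) (XT.lf (nat_lit 0) (nat_lit 60520132812) (nat_lit 76) (nat_lit 583705939544) (nat_lit 76) (nat_lit 573715285006) (nat_lit 1) (nat_lit 4) (nat_lit 2) (nat_lit 5) (nat_lit 2) (nat_lit 4) (nat_lit 350) (nat_lit 255) (nat_lit 175)) (XT.lf (nat_lit 0) (nat_lit 75486029159) (nat_lit 76) (nat_lit 624729474695) (nat_lit 76) (nat_lit 614737248778) (nat_lit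 1) (nat_lit 4) (nat_lit 2) (nat_lit 5) (nat_lit 2) (nat_lit 4) (nat_lit 351) (nat_lit 255) (nat_lit 174))) (XT.nd (nat_lit 78) (nat_lit 0) (nat_lit 0) (XT.lf (nat_lit 0) (nat_lit 91646149311) (nat_lit 76) (nat_lit 669036359364) (nat_lit 76) (nat_lit 659042678467) (nat_lit 1) (nat_lit 4) (nat_lit 2) (nat_lit 5) (nat_lit 2) (nat_lit 4) (nat_lit 352) (nat_lit 255) (nat_lit 173)) (XT.lf (nat_lit 0) (nat_lit 109096256942) (nat_lit 76) (nat_lit 716889152868) (nat_lit 76) (nat_lit 706894124767) (nat_lit 1) (nat_lit 4) (nat_lit 2) (nat_lit 5) (nat_lit 2) (nat_lit 4) (nat_lit 353) (nat_lit 255) (nat_lit 172)))) (XT.nd (nat_lit 156) (nat_lit 0) (nat_lit 0) (XT.nd (nat_lit 78) (nat_lit 0) (nat_lit 0) (XT.lf (nat_lit 0) (nat_lit 127939760099) (nat_lit 76) (nat_lit 768571427317) (nat_lit 76) (nat_lit 758575151805) (nat_lit 1) (nat_lit 4) (nat_lit 2) (nat_lit 5) (nat_lit 2) (nat_lit 4) (nat_lit 354)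 (nat_lit 255) (nat_lit 171)) (XT.lf (nat_lit 0) (nat_lit 148288323985) (nat_lit 76) (nat_lit 824389448041) (nat_lit 76) (nat_lit 814392017518) (nat_lit 1) (nat_lit 4) (nat_lit 2) (nat_lit 5) (nat_lit 2) (nat_lit 4) (nat_lit 355) (nat_lit 255) (nat_lit 170))) (XT.nd (nat_lit 78) (nat_lit 0) (nat_lit 0) (XT.lf (nat_lit 0) (nat_lit 170262532681) (nat_lit 76) (nat_lit 884673988495) (nat_lit 76) (nat_lit 874675488518) (nat_lit 1) (nat_lit 4) (nat_lit 2) (nat_lit 5) (nat_lit 2) (nat_lit 4) (nat_lit 356) (nat_lit 255) (nat_lit 169)) (XT.lf (nat_lit 0) (nat_lit 193992603723) (nat_lit 76) (nat_lit 949782290402) (nat_lit 76) (nat_lit 939782800190) (nat_lit 1) (nat_lit 4) (nat_lit 2) (nat_lit 5) (nat_lit 2) (nat_lit 4) (nat_lit 357) (nat_lit 255) (nat_lit 168))))))))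
noncomputable def xc42 : XT := (XT.nd (nat_lit 35178) (nat_lit 0) (nat_lit 228) (XT.nd (nat_lit 34008) (nat_lit 0) (nat_lit 1140) (XT.nd (nat_lit 546) (nat_lit 0) (nat_lit 0) (XT.nd (nat_lit 234) (nat_lit 0) (nat_lit 0) (XT.nd (nat_lit 78) (nat_lit 0) (nat_lit 0) (XT.lf (nat_lit 0) (nat_lit 219619159751) (nat_lit 76) (nat_lit 1020100180735) (nat_lit 76) (nat_lit 1010099773638) (nat_lit 1) (nat_lit 4) (nat_lit 2) (nat_lit 5) (nat_lit 2) (nat_lit 4) (nat_lit 358) (nat_lit 255) (nat_lit 167)) (XT.nd (nat_lit 78) (nat_lit 0) (nat_lit 0) (XT.lf (nat_lit 0) (nat_lit 247294061840) (nat_lit 76) (nat_lit 1096044358103) (nat_lit 76) (nat_lit 1086043102039) (nat_lit 1) (nat_lit 4) (nat_lit 2) (nat_lit 5) (nat_lit 2) (nat_lit 4) (nat_lit 359) (nat_lit 255) (nat_lit 166)) (XT.lf (nat_lit 0) (nat_lit 277181309409) (nat_lit 76) (nat_lit 1178064862077) (nat_lit 76) (nat_lit 1168062819933) (nat_lit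 1) (nat_lit 4) (nat_lit 2) (nat_lit 5) (nat_lit 2) (nat_lit 4) (nat_lit 360) (nat_lit 255) (nat_lit 165)))) (XT.nd (nat_lit 156) (nat_lit 0) (nat_lit 0) (XT.nd (nat_lit 78) (nat_lit 0) (nat_lit 0) (XT.lf (nat_lit 0) (nat_lit 309458012073) (nat_lit 76) (nat_lit 1266647740087) (nat_lit 76) (nat_lit 1256644970090) (nat_lit 1) (nat_lit 4) (nat_lit 2) (nat_lit 5) (nat_lit 2) (nat_lit 4) (nat_lit 361) (nat_lit 255) (nat_lit 164)) (XT.lf (nat_lit 0) (nat_lit 344315439181) (nat_lit 76) (nat_lit 1362317927707) (nat_lit 76) (nat_lit 1352314483772) (nat_lit 1) (nat_lit 4) (nat_lit 2) (nat_lit 5) (nat_lit 2) (nat_lit 4) (nat_lit 362) (nat_lit 255) (nat_lit 163))) (XT.nd (nat_lit 78) (nat_lit 0) (nat_lit 0) (XT.lf (nat_lit 0) (nat_lit 381960153264) (nat_lit 76) (nat_lit 1465642359381) (nat_lit 76) (nat_lit 1455638291431) (nat_lit 1) (nat_lit 4) (nat_lit 2) (nat_lit 5) (nat_lit 2) (nat_lit 4) (nat_lit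 363) (nat_lit 255) (nat_lit 162)) (XT.lf (nat_lit 0) (nat_lit 422615234111) (nat_lit 76) (nat_lit 1577233328039) (nat_lit 76) (nat_lit 1567228682296) (nat_lit 1) (nat_lit 4) (nat_lit 2) (nat_lit 5) (nat_lit 2) (nat_lit 4) (nat_lit 364) (nat_lit 255) (nat_lit 161))))) (XT.nd (nat_lit 33150) (nat_lit 0) (nat_lit 2812) (XT.nd (nat_lit 78) (nat_lit 0) (nat_lit 0) (XT.lf (nat_lit 0) (nat_lit 466521600717) (nat_lit 76) (nat_lit 1697752113494) (nat_lit 76) (nat_lit 1687746932758) (nat_lit 1) (nat_lit 4) (nat_lit 2) (nat_lit 5) (nat_lit 2) (nat_lit 4) (nat_lit 365) (nat_lit 255) (nat_lit 160)) (XT.nd (nat_lit 32994) (nat_lit 0) (nat_lit 3952) (XT.lf (nat_lit 0) (nat_lit 513939438960) (nat_lit 76) (nat_lit 1827912901142) (nat_lit 76) (nat_lit 1817907225042) (nat_lit 1) (nat_lit 4) (nat_lit 2) (nat_lit 5) (nat_lit 2) (nat_lit 4) (nat_lit 366) (nat_lit 255) (nat_lit 159)) (XT.lf (nat_lit 0) (nat_lit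 780518174) (nat_lit 380) (nat_lit 1906231265) (nat_lit 0) (nat_lit 780518174) (nat_lit 53) (nat_lit 5) (nat_lit 58) (nat_lit 4) (nat_lit 53) (nat_lit 4) (nat_lit 268) (nat_lit 256) (nat_lit 256)))) (XT.nd (nat_lit 156) (nat_lit 684) (nat_lit 0) (XT.nd (nat_lit 78) (nat_lit 76) (nat_lit 0) (XT.lf (nat_lit 0) (nat_lit 624869340) (nat_lit 380) (nat_lit 4088345717) (nat_lit 380) (nat_lit 2359155923) (nat_lit 48) (nat_lit 4) (nat_lit 53) (nat_lit 5) (nat_lit 53) (nat_lit 4) (nat_lit 269) (nat_lit 256) (nat_lit 255)) (XT.lf (nat_lit 0) (nat_lit 707196171) (nat_lit 456) (nat_lit 1859323419) (nat_lit 76) (nat_lit 4665677520) (nat_lit 47) (nat_lit 5) (nat_lit 53) (nat_lit 5) (nat_lit 48) (nat_lit 4) (nat_lit 270) (nat_lit 256) (nat_lit 254))) (XT.nd (nat_lit 78) (nat_lit 228) (nat_lit 0) (XT.lf (nat_lit 0) (nat_lit 2944745490) (nat_lit 456) (nat_lit 784840319) (nat_lit 532) (nat_lit 3684325887)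 (nat_lit 41) (nat_lit 5) (nat_lit 47) (nat_lit 5) (nat_lit 48) (nat_lit 4) (nat_lit 271) (nat_lit 256) (nat_lit 253)) (XT.lf (nat_lit 0) (nat_lit 373125679) (nat_lit 228) (nat_lit 6487964337) (nat_lit 228) (nat_lit 760668409) (nat_lit 38) (nat_lit 4) (nat_lit 41) (nat_lit 5) (nat_lit 41) (nat_lit 4) (nat_lit 272) (nat_lit 256) (nat_lit 252)))))) (XT.nd (nat_lit 546) (nat_lit 684) (nat_lit 0) (XT.nd (nat_lit 234) (nat_lit 456) (nat_lit 0) (XT.nd (nat_lit 78) (nat_lit 456) (nat_lit 0) (XT.lf (nat_lit 0) (nat_lit 2205724457) (nat_lit 304) (nat_lit 2316246575) (nat_lit 76) (nat_lit 3326191615) (nat_lit 37) (nat_lit 5) (nat_lit 41) (nat_lit 5) (nat_lit 38) (nat_lit 4) (nat_lit 273) (nat_lit 256) (nat_lit 251)) (XT.nd (nat_lit 78) (nat_lit 228) (nat_lit 0) (XT.lf (nat_lit 0) (nat_lit 2899390634) (nat_lit 228) (nat_lit 2337737715) (nat_lit 304) (nat_lit 2865245240) (nat_lit 34) (nat_lit 5)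 (nat_lit 37) (nat_lit 5) (nat_lit 38) (nat_lit 4) (nat_lit 274) (nat_lit 256) (nat_lit 250)) (XT.lf (nat_lit 0) (nat_lit 46584468) (nat_lit 228) (nat_lit 8338530023) (nat_lit 228) (nat_lit 2602273) (nat_lit 31) (nat_lit 4) (nat_lit 34) (nat_lit 5) (nat_lit 34) (nat_lit 4) (nat_lit 275) (nat_lit 256) (nat_lit 249)))) (XT.nd (nat_lit 156) (nat_lit 228) (nat_lit 0) (XT.nd (nat_lit 78) (nat_lit 152) (nat_lit 0) (XT.lf (nat_lit 0) (nat_lit 2951750378) (nat_lit 304) (nat_lit 3061312370) (nat_lit 76) (nat_lit 2676121392) (nat_lit 30) (nat_lit 5) (nat_lit 34) (nat_lit 5) (nat_lit 31) (nat_lit 4) (nat_lit 276) (nat_lit 256) (nat_lit 248)) (XT.lf (nat_lit 0) (nat_lit 2536104808) (nat_lit 152) (nat_lit 3491783373) (nat_lit 228) (nat_lit 2996601432) (nat_lit 28) (nat_lit 5) (nat_lit 30) (nat_lit 5) (nat_lit 31) (nat_lit 4) (nat_lit 277) (nat_lit 256) (nat_lit 247))) (XT.nd (nat_lit 78) (nat_lit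 228) (nat_lit 0) (XT.lf (nat_lit 0) (nat_lit 8529690885) (nat_lit 152) (nat_lit 736277075) (nat_lit 228) (nat_lit 127913409) (nat_lit 28) (nat_lit 5) (nat_lit 30) (nat_lit 5) (nat_lit 31) (nat_lit 4) (nat_lit 278) (nat_lit 256) (nat_lit 246)) (XT.lf (nat_lit 0) (nat_lit 2843898536) (nat_lit 228) (nat_lit 4668216537) (nat_lit 76) (nat_lit 2273671807) (nat_lit 25) (nat_lit 5) (nat_lit 28) (nat_lit 5) (nat_lit 26) (nat_lit 4) (nat_lit 279) (nat_lit 256) (nat_lit 245))))) (XT.nd (nat_lit 312) (nat_lit 304) (nat_lit 0) (XT.nd (nat_lit 156) (nat_lit 228) (nat_lit 0) (XT.nd (nat_lit 78) (nat_lit 0) (nat_lit 0) (XT.lf (nat_lit 0) (nat_lit 1234967480) (nat_lit 152) (nat_lit 4730039601) (nat_lit 228) (nat_lit 4250715641) (nat_lit 23) (nat_lit 5) (nat_lit 25) (nat_lit 5) (nat_lit 26) (nat_lit 4) (nat_lit 280) (nat_lit 256) (nat_lit 244)) (XT.lf (nat_lit 0) (nat_lit 7657937846) (nat_lit 152) (nat_lit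 1657109189) (nat_lit 228) (nat_lit 1367056487) (nat_lit 23) (nat_lit 5) (nat_lit 25) (nat_lit 5) (nat_lit 26) (nat_lit 4) (nat_lit 281) (nat_lit 256) (nat_lit 243))) (XT.nd (nat_lit 78) (nat_lit 0) (nat_lit 0) (XT.lf (nat_lit 0) (nat_lit 1639996079) (nat_lit 228) (nat_lit 7905561865) (nat_lit 76) (nat_lit 1638800387) (nat_lit 20) (nat_lit 5) (nat_lit 23) (nat_lit 5) (nat_lit 21) (nat_lit 4) (nat_lit 282) (nat_lit 256) (nat_lit 242)) (XT.lf (nat_lit 0) (nat_lit 4804224821) (nat_lit 228) (nat_lit 1756694148) (nat_lit 76) (nat_lit 5164105640) (nat_lit 20) (nat_lit 5) (nat_lit 23) (nat_lit 5) (nat_lit 21) (nat_lit 4) (nat_lit 283) (nat_lit 256) (nat_lit 241)))) (XT.nd (nat_lit 156) (nat_lit 228) (nat_lit 0) (XT.nd (nat_lit 78) (nat_lit 0) (nat_lit 0) (XT.lf (nat_lit 0) (nat_lit 4932882190) (nat_lit 76) (nat_lit 3280116898) (nat_lit 152) (nat_lit 4096918824) (nat_lit 19) (nat_lit 5) (nat_lit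 20) (nat_lit 5) (nat_lit 21) (nat_lit 4) (nat_lit 284) (nat_lit 256) (nat_lit 240)) (XT.lf (nat_lit 0) (nat_lit 11825942185) (nat_lit 152) (nat_lit 889123904) (nat_lit 0) (nat_lit 232284330) (nat_lit 19) (nat_lit 5) (nat_lit 21) (nat_lit 4) (nat_lit 19) (nat_lit 4) (nat_lit 285) (nat_lit 256) (nat_lit 239))) (XT.nd (nat_lit 78) (nat_lit 0) (nat_lit 0) (XT.lf (nat_lit 0) (nat_lit 2108582615) (nat_lit 228) (nat_lit 7525874061) (nat_lit 76) (nat_lit 3987835087) (nat_lit 16) (nat_lit 5) (nat_lit 19) (nat_lit 5) (nat_lit 17) (nat_lit 4) (nat_lit 286) (nat_lit 256) (nat_lit 238)) (XT.lf (nat_lit 0) (nat_lit 5447435341) (nat_lit 228) (nat_lit 875567845) (nat_lit 76) (nat_lit 8033221648) (nat_lit 16) (nat_lit 5) (nat_lit 19) (nat_lit 5) (nat_lit 17) (nat_lit 4) (nat_lit 287) (nat_lit 256) (nat_lit 237))))))) (XT.nd (nat_lit 1170) (nat_lit 228) (nat_lit 0) (XT.nd (nat_lit 546) (nat_lit 304)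 (nat_lit 0) (XT.nd (nat_lit 234) (nat_lit 76) (nat_lit 0) (XT.nd (nat_lit 78) (nat_lit 228) (nat_lit 0) (XT.lf (nat_lit 0) (nat_lit 6455729387) (nat_lit 76) (nat_lit 2647470048) (nat_lit 152) (nat_lit 6041883713) (nat_lit 15) (nat_lit 5) (nat_lit 16) (nat_lit 5) (nat_lit 17) (nat_lit 4) (nat_lit 288) (nat_lit 256) (nat_lit 236)) (XT.nd (nat_lit 78) (nat_lit 228) (nat_lit 0) (XT.lf (nat_lit 0) (nat_lit 13004427170) (nat_lit 152) (nat_lit 1780486105) (nat_lit 0) (nat_lit 1216077069) (nat_lit 15) (nat_lit 5) (nat_lit 17) (nat_lit 4) (nat_lit 15) (nat_lit 4) (nat_lit 289) (nat_lit 256) (nat_lit 235)) (XT.lf (nat_lit 0) (nat_lit 391500110) (nat_lit 228) (nat_lit 11190501640) (nat_lit 76) (nat_lit 5333861037) (nat_lit 12) (nat_lit 5) (nat_lit 15) (nat_lit 5) (nat_lit 13) (nat_lit 4) (nat_lit 290) (nat_lit 256) (nat_lit 234)))) (XT.nd (nat_lit 156) (nat_lit 0) (nat_lit 0) (XT.nd (nat_lit 78)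 (nat_lit 76) (nat_lit 0) (XT.lf (nat_lit 0) (nat_lit 3843678083) (nat_lit 228) (nat_lit 4210408279) (nat_lit 76) (nat_lit 9847358311) (nat_lit 12) (nat_lit 5) (nat_lit 15) (nat_lit 5) (nat_lit 13) (nat_lit 4) (nat_lit 291) (nat_lit 256) (nat_lit 233)) (XT.lf (nat_lit 0) (nat_lit 3343286814) (nat_lit 76) (nat_lit 4221201242) (nat_lit 152) (nat_lit 11402121045) (nat_lit 11) (nat_lit 5) (nat_lit 12) (nat_lit 5) (nat_lit 13) (nat_lit 4) (nat_lit 292) (nat_lit 256) (nat_lit 232))) (XT.nd (nat_lit 78) (nat_lit 0) (nat_lit 0) (XT.lf (nat_lit 0) (nat_lit 11592526061) (nat_lit 76) (nat_lit 20558878) (nat_lit 152) (nat_lit 8501614764) (nat_lit 11) (nat_lit 5) (nat_lit 12) (nat_lit 5) (nat_lit 13) (nat_lit 4) (nat_lit 293) (nat_lit 256) (nat_lit 231)) (XT.lf (nat_lit 0) (nat_lit 16014073512) (nat_lit 152) (nat_lit 1103771895) (nat_lit 0) (nat_lit 4234625525) (nat_lit 11) (nat_lit 5) (nat_lit 13)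 (nat_lit 4) (nat_lit 11) (nat_lit 4) (nat_lit 294) (nat_lit 256) (nat_lit 230))))) (XT.nd (nat_lit 312) (nat_lit 76) (nat_lit 0) (XT.nd (nat_lit 156) (nat_lit 76) (nat_lit 0) (XT.nd (nat_lit 78) (nat_lit 76) (nat_lit 0) (XT.lf (nat_lit 0) (nat_lit 7132683296) (nat_lit 76) (nat_lit 13732357878) (nat_lit 76) (nat_lit 1816495958) (nat_lit 10) (nat_lit 4) (nat_lit 11) (nat_lit 5) (nat_lit 11) (nat_lit 4) (nat_lit 295) (nat_lit 256) (nat_lit 229)) (XT.lf (nat_lit 0) (nat_lit 1844990492) (nat_lit 152) (nat_lit 8204590893) (nat_lit 76) (nat_lit 14067035116) (nat_lit 9) (nat_lit 5) (nat_lit 11) (nat_lit 5) (nat_lit 10) (nat_lit 4) (nat_lit 296) (nat_lit 256) (nat_lit 228))) (XT.nd (nat_lit 78) (nat_lit 76) (nat_lit 0) (XT.lf (nat_lit 0) (nat_lit 5632994553) (nat_lit 152) (nat_lit 442495406) (nat_lit 76) (nat_lit 19592782360) (nat_lit 9) (nat_lit 5) (nat_lit 11) (nat_lit 5) (nat_lit 10) (nat_lit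 4) (nat_lit 297) (nat_lit 256) (nat_lit 227)) (XT.lf (nat_lit 0) (nat_lit 8239279108) (nat_lit 76) (nat_lit 1619707894) (nat_lit 152) (nat_lit 17474355136) (nat_lit 8) (nat_lit 5) (nat_lit 9) (nat_lit 5) (nat_lit 10) (nat_lit 4) (nat_lit 298) (nat_lit 256) (nat_lit 226)))) (XT.nd (nat_lit 156) (nat_lit 76) (nat_lit 0) (XT.nd (nat_lit 78) (nat_lit 0) (nat_lit 0) (XT.lf (nat_lit 0) (nat_lit 14449880126) (nat_lit 152) (nat_lit 11681340797) (nat_lit 0) (nat_lit 2998322560) (nat_lit 8) (nat_lit 5) (nat_lit 10) (nat_lit 4) (nat_lit 8) (nat_lit 4) (nat_lit 299) (nat_lit 256) (nat_lit 225)) (XT.lf (nat_lit 0) (nat_lit 19392363031) (nat_lit 152) (nat_lit 3823557232) (nat_lit 0) (nat_lit 7854841548) (nat_lit 8) (nat_lit 5) (nat_lit 10) (nat_lit 4) (nat_lit 8) (nat_lit 4) (nat_lit 300) (nat_lit 256) (nat_lit 224))) (XT.nd (nat_lit 78) (nat_lit 0) (nat_lit 0) (XT.lf (nat_lit 0) (nat_lit 4805180932)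 (nat_lit 76) (nat_lit 19987154275) (nat_lit 76) (nat_lit 8370036571) (nat_lit 7) (nat_lit 4) (nat_lit 8) (nat_lit 5) (nat_lit 8) (nat_lit 4) (nat_lit 301) (nat_lit 256) (nat_lit 223)) (XT.lf (nat_lit 0) (nat_lit 14246106636) (nat_lit 76) (nat_lit 16430930083) (nat_lit 76) (nat_lit 4740112175) (nat_lit 7) (nat_lit 4) (nat_lit 8) (nat_lit 5) (nat_lit 8) (nat_lit 4) (nat_lit 302) (nat_lit 256) (nat_lit 222)))))) (XT.nd (nat_lit 546) (nat_lit 76) (nat_lit 0) (XT.nd (nat_lit 234) (nat_lit 0) (nat_lit 0) (XT.nd (nat_lit 78) (nat_lit 152) (nat_lit 0) (XT.lf (nat_lit 0) (nat_lit 24353824357) (nat_lit 76) (nat_lit 12630716596) (nat_lit 76) (nat_lit 871657759) (nat_lit 7) (nat_lit 4) (nat_lit 8) (nat_lit 5) (nat_lit 8) (nat_lit 4) (nat_lit 303) (nat_lit 256) (nat_lit 221)) (XT.nd (nat_lit 78) (nat_lit 76) (nat_lit 0) (XT.lf (nat_lit 0) (nat_lit 3095259946) (nat_lit 152) (nat_lit 5384104193) (nat_lit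 76) (nat_lit 32008341842) (nat_lit 6) (nat_lit 5) (nat_lit 8) (nat_lit 5) (nat_lit 7) (nat_lit 4) (nat_lit 304) (nat_lit 256) (nat_lit 220)) (XT.lf (nat_lit 0) (nat_lit 3455731602) (nat_lit 76) (nat_lit 3917577091) (nat_lit 152) (nat_lit 35951386124) (nat_lit 5) (nat_lit 5) (nat_lit 6) (nat_lit 5) (nat_lit 7) (nat_lit 4) (nat_lit 305) (nat_lit 256) (nat_lit 219)))) (XT.nd (nat_lit 156) (nat_lit 0) (nat_lit 0) (XT.nd (nat_lit 78) (nat_lit 0) (nat_lit 0) (XT.lf (nat_lit 0) (nat_lit 12127116385) (nat_lit 152) (nat_lit 33174621505) (nat_lit 0) (nat_lit 1076262375) (nat_lit 5) (nat_lit 5) (nat_lit 7) (nat_lit 4) (nat_lit 5) (nat_lit 4) (nat_lit 306) (nat_lit 256) (nat_lit 218)) (XT.lf (nat_lit 0) (nat_lit 17324289757) (nat_lit 152) (nat_lit 26119279229) (nat_lit 0) (nat_lit 6226992118) (nat_lit 5) (nat_lit 5) (nat_lit 7) (nat_lit 4) (nat_lit 5) (nat_lit 4) (nat_lit 307) (nat_lit 256) (nat_lit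 217))) (XT.nd (nat_lit 78) (nat_lit 0) (nat_lit 0) (XT.lf (nat_lit 0) (nat_lit 22901409052) (nat_lit 152) (nat_lit 18566909130) (nat_lit 0) (nat_lit 11761108051) (nat_lit 5) (nat_lit 5) (nat_lit 7) (nat_lit 4) (nat_lit 5) (nat_lit 4) (nat_lit 308) (nat_lit 256) (nat_lit 216)) (XT.lf (nat_lit 0) (nat_lit 28891523864) (nat_lit 152) (nat_lit 10472756420) (nat_lit 0) (nat_lit 17711404937) (nat_lit 5) (nat_lit 5) (nat_lit 7) (nat_lit 4) (nat_lit 5) (nat_lit 4) (nat_lit 309) (nat_lit 256) (nat_lit 215))))) (XT.nd (nat_lit 312) (nat_lit 0) (nat_lit 0) (XT.nd (nat_lit 156) (nat_lit 0) (nat_lit 0) (XT.nd (nat_lit 78) (nat_lit 76) (nat_lit 0) (XT.lf (nat_lit 0) (nat_lit 35330131171) (nat_lit 152) (nat_lit 1788855752) (nat_lit 0) (nat_lit 24113143793) (nat_lit 5) (nat_lit 5) (nat_lit 7) (nat_lit 4) (nat_lit 5) (nat_lit 4) (nat_lit 310) (nat_lit 256) (nat_lit 214)) (XT.lf (nat_lit 0) (nat_lit 7933098756)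 (nat_lit 76) (nat_lit 34513078142) (nat_lit 76) (nat_lit 23261953310) (nat_lit 4) (nat_lit 4) (nat_lit 5) (nat_lit 5) (nat_lit 5) (nat_lit 4) (nat_lit 311) (nat_lit 256) (nat_lit 213))) (XT.nd (nat_lit 78) (nat_lit 0) (nat_lit 0) (XT.lf (nat_lit 0) (nat_lit 18482394025) (nat_lit 76) (nat_lit 31670433940) (nat_lit 76) (nat_lit 20387700353) (nat_lit 4) (nat_lit 4) (nat_lit 5) (nat_lit 5) (nat_lit 5) (nat_lit 4) (nat_lit 312) (nat_lit 256) (nat_lit 212)) (XT.lf (nat_lit 0) (nat_lit 29827346423) (nat_lit 76) (nat_lit 28623119503) (nat_lit 76) (nat_lit 17311118551) (nat_lit 4) (nat_lit 4) (nat_lit 5) (nat_lit 5) (nat_lit 5) (nat_lit 4) (nat_lit 313) (nat_lit 256) (nat_lit 211)))) (XT.nd (nat_lit 156) (nat_lit 0) (nat_lit 0) (XT.nd (nat_lit 78) (nat_lit 0) (nat_lit 0) (XT.lf (nat_lit 0) (nat_lit 42035185297) (nat_lit 76) (nat_lit 25353076672) (nat_lit 76) (nat_lit 14013976308) (nat_lit 4)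 (nat_lit 4) (nat_lit 5) (nat_lit 5) (nat_lit 5) (nat_lit 4) (nat_lit 314) (nat_lit 256) (nat_lit 210)) (XT.lf (nat_lit 0) (nat_lit 55178253397) (nat_lit 76) (nat_lit 21840927416) (nat_lit 76) (nat_lit 10476735004) (nat_lit 4) (nat_lit 4) (nat_lit 5) (nat_lit 5) (nat_lit 5) (nat_lit 4) (nat_lit 315) (nat_lit 256) (nat_lit 209))) (XT.nd (nat_lit 78) (nat_lit 0) (nat_lit 0) (XT.lf (nat_lit 0) (nat_lit 69334435570) (nat_lit 76) (nat_lit 18065858999) (nat_lit 76) (nat_lit 6678433209) (nat_lit 4) (nat_lit 4) (nat_lit 5) (nat_lit 5) (nat_lit 5) (nat_lit 4) (nat_lit 316) (nat_lit 256) (nat_lit 208)) (XT.lf (nat_lit 0) (nat_lit 84587620303) (nat_lit 76) (nat_lit 14005500644) (nat_lit 76) (nat_lit 2596562467) (nat_lit 4) (nat_lit 4) (nat_lit 5) (nat_lit 5) (nat_lit 5) (nat_lit 4) (nat_lit 317) (nat_lit 256) (nat_lit 207))))))))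
noncomputable def xc43 : XT := (XT.nd (nat_lit 2262) (nat_lit 0) (nat_lit 0) (XT.nd (nat_lit 1092) (nat_lit 76) (nat_lit 0) (XT.nd (nat_lit 546) (nat_lit 0) (nat_lit 0) (XT.nd (nat_lit 234) (nat_lit 0) (nat_lit 0) (XT.nd (nat_lit 78) (nat_lit 76) (nat_lit 0) (XT.lf (nat_lit 0) (nat_lit 1703369656) (nat_lit 152) (nat_lit 7885848167) (nat_lit 76) (nat_lit 99278254038) (nat_lit 3) (nat_lit 5) (nat_lit 5) (nat_lit 5) (nat_lit 4) (nat_lit 4) (nat_lit 318) (nat_lit 256) (nat_lit 206)) (XT.nd (nat_lit 78) (nat_lit 0) (nat_lit 0) (XT.lf (nat_lit 0) (nat_lit 1504152311) (nat_lit 76) (nat_lit 4722507673) (nat_lit 152) (nat_lit 110925869487) (nat_lit 2) (nat_lit 5) (nat_lit 3) (nat_lit 5) (nat_lit 4) (nat_lit 4) (nat_lit 319) (nat_lit 256) (nat_lit 205)) (XT.lf (nat_lit 0) (nat_lit 11329471277) (nat_lit 152) (nat_lit 114039213242) (nat_lit 0) (nat_lit 714306755) (nat_lit 2) (nat_lit 5) (nat_lit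 4) (nat_lit 4) (nat_lit 2) (nat_lit 4) (nat_lit 320) (nat_lit 256) (nat_lit 204)))) (XT.nd (nat_lit 156) (nat_lit 0) (nat_lit 0) (XT.nd (nat_lit 78) (nat_lit 0) (nat_lit 0) (XT.lf (nat_lit 0) (nat_lit 16947996586) (nat_lit 152) (nat_lit 112453114510) (nat_lit 0) (nat_lit 6318191094) (nat_lit 2) (nat_lit 5) (nat_lit 4) (nat_lit 4) (nat_lit 2) (nat_lit 4) (nat_lit 321) (nat_lit 256) (nat_lit 203)) (XT.lf (nat_lit 0) (nat_lit 23001954453) (nat_lit 152) (nat_lit 110767105438) (nat_lit 0) (nat_lit 12358592508) (nat_lit 2) (nat_lit 5) (nat_lit 4) (nat_lit 4) (nat_lit 2) (nat_lit 4) (nat_lit 322) (nat_lit 256) (nat_lit 202))) (XT.nd (nat_lit 78) (nat_lit 0) (nat_lit 0) (XT.lf (nat_lit 0) (nat_lit 29527220183) (nat_lit 152) (nat_lit 108971194862) (nat_lit 0) (nat_lit 18871305968) (nat_lit 2) (nat_lit 5) (nat_lit 4) (nat_lit 4) (nat_lit 2) (nat_lit 4) (nat_lit 323) (nat_lit 256) (nat_lit 201))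 (XT.lf (nat_lit 0) (nat_lit 36562462019) (nat_lit 152) (nat_lit 107054740348) (nat_lit 0) (nat_lit 25894925330) (nat_lit 2) (nat_lit 5) (nat_lit 4) (nat_lit 4) (nat_lit 2) (nat_lit 4) (nat_lit 324) (nat_lit 256) (nat_lit 200))))) (XT.nd (nat_lit 234) (nat_lit 0) (nat_lit 0) (XT.nd (nat_lit 78) (nat_lit 0) (nat_lit 0) (XT.lf (nat_lit 0) (nat_lit 44149370282) (nat_lit 152) (nat_lit 105006385128) (nat_lit 0) (nat_lit 33471072043) (nat_lit 2) (nat_lit 5) (nat_lit 4) (nat_lit 4) (nat_lit 2) (nat_lit 4) (nat_lit 325) (nat_lit 256) (nat_lit 199)) (XT.nd (nat_lit 78) (nat_lit 0) (nat_lit 0) (XT.lf (nat_lit 0) (nat_lit 52332904428) (nat_lit 152) (nat_lit 102813990803) (nat_lit 0) (nat_lit 41644641792) (nat_lit 2) (nat_lit 5) (nat_lit 4) (nat_lit 4) (nat_lit 2) (nat_lit 4) (nat_lit 326) (nat_lit 256) (nat_lit 198)) (XT.lf (nat_lit 0) (nat_lit 61161559475) (nat_lit 152) (nat_lit 100464565404)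 (nat_lit 0) (nat_lit 50464070545) (nat_lit 2) (nat_lit 5) (nat_lit 4) (nat_lit 4) (nat_lit 2) (nat_lit 4) (nat_lit 327) (nat_lit 256) (nat_lit 197)))) (XT.nd (nat_lit 156) (nat_lit 0) (nat_lit 0) (XT.nd (nat_lit 78) (nat_lit 0) (nat_lit 0) (XT.lf (nat_lit 0) (nat_lit 70687653379) (nat_lit 152) (nat_lit 97944186412) (nat_lit 0) (nat_lit 59981621584) (nat_lit 2) (nat_lit 5) (nat_lit 4) (nat_lit 4) (nat_lit 2) (nat_lit 4) (nat_lit 328) (nat_lit 256) (nat_lit 196)) (XT.lf (nat_lit 0) (nat_lit 80967637066) (nat_lit 152) (nat_lit 95237918246) (nat_lit 0) (nat_lit 70253695211) (nat_lit 2) (nat_lit 5) (nat_lit 4) (nat_lit 4) (nat_lit 2) (nat_lit 4) (nat_lit 329) (nat_lit 256) (nat_lit 195))) (XT.nd (nat_lit 78) (nat_lit 0) (nat_lit 0) (XT.lf (nat_lit 0) (nat_lit 92062428958) (nat_lit 152) (nat_lit 92329723764) (nat_lit 0) (nat_lit 81341162974) (nat_lit 2) (nat_lit 5) (nat_lit 4) (nat_lit 4)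 (nat_lit 2) (nat_lit 4) (nat_lit 330) (nat_lit 256) (nat_lit 194)) (XT.lf (nat_lit 0) (nat_lit 104037775970) (nat_lit 152) (nat_lit 89202369218) (nat_lit 0) (nat_lit 93309728384) (nat_lit 2) (nat_lit 5) (nat_lit 4) (nat_lit 4) (nat_lit 2) (nat_lit 4) (nat_lit 331) (nat_lit 256) (nat_lit 193)))))) (XT.nd (nat_lit 546) (nat_lit 76) (nat_lit 0) (XT.nd (nat_lit 234) (nat_lit 0) (nat_lit 0) (XT.nd (nat_lit 78) (nat_lit 0) (nat_lit 0) (XT.lf (nat_lit 0) (nat_lit 116964643122) (nat_lit 152) (nat_lit 85837322138) (nat_lit 0) (nat_lit 106230316275) (nat_lit 2) (nat_lit 5) (nat_lit 4) (nat_lit 4) (nat_lit 2) (nat_lit 4) (nat_lit 332) (nat_lit 256) (nat_lit 192)) (XT.nd (nat_lit 78) (nat_lit 0) (nat_lit 0) (XT.lf (nat_lit 0) (nat_lit 130919634070) (nat_lit 152) (nat_lit 82214641505) (nat_lit 0) (nat_lit 120179493094) (nat_lit 2) (nat_lit 5) (nat_lit 4) (nat_lit 4) (nat_lit 2) (nat_lit 4) (nat_lit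 333) (nat_lit 256) (nat_lit 191)) (XT.lf (nat_lit 0) (nat_lit 145985445058) (nat_lit 152) (nat_lit 78312859580) (nat_lit 0) (nat_lit 135239920627) (nat_lit 2) (nat_lit 5) (nat_lit 4) (nat_lit 4) (nat_lit 2) (nat_lit 4) (nat_lit 334) (nat_lit 256) (nat_lit 190)))) (XT.nd (nat_lit 156) (nat_lit 0) (nat_lit 0) (XT.nd (nat_lit 78) (nat_lit 0) (nat_lit 0) (XT.lf (nat_lit 0) (nat_lit 162251354965) (nat_lit 152) (nat_lit 74108854694) (nat_lit 0) (nat_lit 151500845855) (nat_lit 2) (nat_lit 5) (nat_lit 4) (nat_lit 4) (nat_lit 2) (nat_lit 4) (nat_lit 335) (nat_lit 256) (nat_lit 189)) (XT.lf (nat_lit 0) (nat_lit 179813754369) (nat_lit 152) (nat_lit 69577714225) (nat_lit 0) (nat_lit 169058629814) (nat_lit 2) (nat_lit 5) (nat_lit 4) (nat_lit 4) (nat_lit 2) (nat_lit 4) (nat_lit 336) (nat_lit 256) (nat_lit 188))) (XT.nd (nat_lit 78) (nat_lit 0) (nat_lit 0) (XT.lf (nat_lit 0) (nat_lit 198776716747)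 (nat_lit 152) (nat_lit 64692586970) (nat_lit 0) (nat_lit 188017318633) (nat_lit 2) (nat_lit 5) (nat_lit 4) (nat_lit 4) (nat_lit 2) (nat_lit 4) (nat_lit 337) (nat_lit 256) (nat_lit 187)) (XT.lf (nat_lit 0) (nat_lit 219252615209) (nat_lit 152) (nat_lit 59424524026) (nat_lit 0) (nat_lit 208489260096) (nat_lit 2) (nat_lit 5) (nat_lit 4) (nat_lit 4) (nat_lit 2) (nat_lit 4) (nat_lit 338) (nat_lit 256) (nat_lit 186))))) (XT.nd (nat_lit 312) (nat_lit 76) (nat_lit 0) (XT.nd (nat_lit 156) (nat_lit 0) (nat_lit 0) (XT.nd (nat_lit 78) (nat_lit 0) (nat_lit 0) (XT.lf (nat_lit 0) (nat_lit 241362788414) (nat_lit 152) (nat_lit 53742307244) (nat_lit 0) (nat_lit 230595769413) (nat_lit 2) (nat_lit 5) (nat_lit 4) (nat_lit 4) (nat_lit 2) (nat_lit 4) (nat_lit 339) (nat_lit 256) (nat_lit 185)) (XT.lf (nat_lit 0) (nat_lit 265238259611) (nat_lit 152) (nat_lit 47612264227) (nat_lit 0) (nat_lit 254467848120) (nat_lit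 2) (nat_lit 5) (nat_lit 4) (nat_lit 4) (nat_lit 2) (nat_lit 4) (nat_lit 340) (nat_lit 256) (nat_lit 184))) (XT.nd (nat_lit 78) (nat_lit 0) (nat_lit 0) (XT.lf (nat_lit 0) (nat_lit 291020513071) (nat_lit 152) (nat_lit 40998068795) (nat_lit 0) (nat_lit 280246960387) (nat_lit 2) (nat_lit 5) (nat_lit 4) (nat_lit 4) (nat_lit 2) (nat_lit 4) (nat_lit 341) (nat_lit 256) (nat_lit 183)) (XT.lf (nat_lit 0) (nat_lit 318862332521) (nat_lit 152) (nat_lit 33860525714) (nat_lit 0) (nat_lit 308085871324) (nat_lit 2) (nat_lit 5) (nat_lit 4) (nat_lit 4) (nat_lit 2) (nat_lit 4) (nat_lit 342) (nat_lit 256) (nat_lit 182)))) (XT.nd (nat_lit 156) (nat_lit 76) (nat_lit 0) (XT.nd (nat_lit 78) (nat_lit 0) (nat_lit 0) (XT.lf (nat_lit 0) (nat_lit 348928706520) (nat_lit 152) (nat_lit 26157338435) (nat_lit 0) (nat_lit 338149552256) (nat_lit 2) (nat_lit 5) (nat_lit 4) (nat_lit 4) (nat_lit 2) (nat_lit 4) (nat_lit 343)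 (nat_lit 256) (nat_lit 181)) (XT.lf (nat_lit 0) (nat_lit 381397806172) (nat_lit 152) (nat_lit 17842858439) (nat_lit 0) (nat_lit 370616158327) (nat_lit 2) (nat_lit 5) (nat_lit 4) (nat_lit 4) (nat_lit 2) (nat_lit 4) (nat_lit 344) (nat_lit 256) (nat_lit 180))) (XT.nd (nat_lit 78) (nat_lit 76) (nat_lit 0) (XT.lf (nat_lit 0) (nat_lit 416462040957) (nat_lit 152) (nat_lit 8867814734) (nat_lit 0) (nat_lit 405678084241) (nat_lit 2) (nat_lit 5) (nat_lit 4) (nat_lit 4) (nat_lit 2) (nat_lit 4) (nat_lit 345) (nat_lit 256) (nat_lit 179)) (XT.lf (nat_lit 0) (nat_lit 864209377) (nat_lit 76) (nat_lit 453485773813) (nat_lit 76) (nat_lit 442699679254) (nat_lit 1) (nat_lit 4) (nat_lit 2) (nat_lit 5) (nat_lit 2) (nat_lit 4) (nat_lit 346) (nat_lit 256) (nat_lit 178))))))) (XT.nd (nat_lit 1170) (nat_lit 0) (nat_lit 0) (XT.nd (nat_lit 546) (nat_lit 0) (nat_lit 0) (XT.nd (nat_lit 234) (nat_lit 0) (nat_lit 0)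 (XT.nd (nat_lit 78) (nat_lit 0) (nat_lit 0) (XT.lf (nat_lit 0) (nat_lit 11874969260) (nat_lit 76) (nat_lit 483634302111) (nat_lit 76) (nat_lit 472846228066) (nat_lit 1) (nat_lit 4) (nat_lit 2) (nat_lit 5) (nat_lit 2) (nat_lit 4) (nat_lit 347) (nat_lit 256) (nat_lit 177)) (XT.nd (nat_lit 78) (nat_lit 0) (nat_lit 0) (XT.lf (nat_lit 0) (nat_lit 23762750455) (nat_lit 76) (nat_lit 516196560300) (nat_lit 76) (nat_lit 505406653399) (nat_lit 1) (nat_lit 4) (nat_lit 2) (nat_lit 5) (nat_lit 2) (nat_lit 4) (nat_lit 348) (nat_lit 256) (nat_lit 176)) (XT.lf (nat_lit 0) (nat_lit 36597999071) (nat_lit 76) (nat_lit 551365509910) (nat_lit 76) (nat_lit 540573905920) (nat_lit 1) (nat_lit 4) (nat_lit 2) (nat_lit 5) (nat_lit 2) (nat_lit 4) (nat_lit 349) (nat_lit 256) (nat_lit 175)))) (XT.nd (nat_lit 156) (nat_lit 0) (nat_lit 0) (XT.nd (nat_lit 78) (nat_lit 0) (nat_lit 0) (XT.lf (nat_lit 0) (nat_lit 50456775841)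 (nat_lit 76) (nat_lit 589349559532) (nat_lit 76) (nat_lit 578556384163) (nat_lit 1) (nat_lit 4) (nat_lit 2) (nat_lit 5) (nat_lit 2) (nat_lit 4) (nat_lit 350) (nat_lit 256) (nat_lit 174)) (XT.lf (nat_lit 0) (nat_lit 65421206850) (nat_lit 76) (nat_lit 630373799830) (nat_lit 76) (nat_lit 619579169481) (nat_lit 1) (nat_lit 4) (nat_lit 2) (nat_lit 5) (nat_lit 2) (nat_lit 4) (nat_lit 351) (nat_lit 256) (nat_lit 173))) (XT.nd (nat_lit 78) (nat_lit 0) (nat_lit 0) (XT.lf (nat_lit 0) (nat_lit 81579970208) (nat_lit 76) (nat_lit 674681337414) (nat_lit 76) (nat_lit 663885359860) (nat_lit 1) (nat_lit 4) (nat_lit 2) (nat_lit 5) (nat_lit 2) (nat_lit 4) (nat_lit 352) (nat_lit 256) (nat_lit 172)) (XT.lf (nat_lit 0) (nat_lit 99028821548) (nat_lit 76) (nat_lit 722534735468) (nat_lit 76) (nat_lit 711737510504) (nat_lit 1) (nat_lit 4) (nat_lit 2) (nat_lit 5) (nat_lit 2) (nat_lit 4) (nat_lit 353) (nat_lit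 256) (nat_lit 171))))) (XT.nd (nat_lit 312) (nat_lit 0) (nat_lit 0) (XT.nd (nat_lit 156) (nat_lit 0) (nat_lit 0) (XT.nd (nat_lit 78) (nat_lit 0) (nat_lit 0) (XT.lf (nat_lit 0) (nat_lit 117871161473) (nat_lit 76) (nat_lit 774217569686) (nat_lit 76) (nat_lit 763419189711) (nat_lit 1) (nat_lit 4) (nat_lit 2) (nat_lit 5) (nat_lit 2) (nat_lit 4) (nat_lit 354) (nat_lit 256) (nat_lit 170)) (XT.lf (nat_lit 0) (nat_lit 138218648291) (nat_lit 76) (nat_lit 830036108714) (nat_lit 76) (nat_lit 819236659285) (nat_lit 1) (nat_lit 4) (nat_lit 2) (nat_lit 5) (nat_lit 2) (nat_lit 4) (nat_lit 355) (nat_lit 256) (nat_lit 169))) (XT.nd (nat_lit 78) (nat_lit 0) (nat_lit 0) (XT.lf (nat_lit 0) (nat_lit 160191859703) (nat_lit 76) (nat_lit 890321129080) (nat_lit 76) (nat_lit 879520689415) (nat_lit 1) (nat_lit 4) (nat_lit 2) (nat_lit 5) (nat_lit 2) (nat_lit 4) (nat_lit 356) (nat_lit 256) (nat_lit 168)) (XT.lf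 (nat_lit 0) (nat_lit 183921007333) (nat_lit 76) (nat_lit 955429875349) (nat_lit 76) (nat_lit 944628518800) (nat_lit 1) (nat_lit 4) (nat_lit 2) (nat_lit 5) (nat_lit 2) (nat_lit 4) (nat_lit 357) (nat_lit 256) (nat_lit 167)))) (XT.nd (nat_lit 156) (nat_lit 0) (nat_lit 0) (XT.nd (nat_lit 78) (nat_lit 0) (nat_lit 0) (XT.lf (nat_lit 0) (nat_lit 209546708351) (nat_lit 76) (nat_lit 1025748177128) (nat_lit 76) (nat_lit 1014945971612) (nat_lit 1) (nat_lit 4) (nat_lit 2) (nat_lit 5) (nat_lit 2) (nat_lit 4) (nat_lit 358) (nat_lit 256) (nat_lit 166)) (XT.lf (nat_lit 0) (nat_lit 237220818763) (nat_lit 76) (nat_lit 1101692735466) (nat_lit 76) (nat_lit 1090889743869) (nat_lit 1) (nat_lit 4) (nat_lit 2) (nat_lit 5) (nat_lit 2) (nat_lit 4) (nat_lit 359) (nat_lit 256) (nat_lit 165))) (XT.nd (nat_lit 78) (nat_lit 0) (nat_lit 0) (XT.lf (nat_lit 0) (nat_lit 267107333298) (nat_lit 76) (nat_lit 1183713592189)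 (nat_lit 76) (nat_lit 1172909872740) (nat_lit 1) (nat_lit 4) (nat_lit 2) (nat_lit 5) (nat_lit 2) (nat_lit 4) (nat_lit 360) (nat_lit 256) (nat_lit 164)) (XT.lf (nat_lit 0) (nat_lit 299383357227) (nat_lit 76) (nat_lit 1272296796819) (nat_lit 76) (nat_lit 1261492403432) (nat_lit 1) (nat_lit 4) (nat_lit 2) (nat_lit 5) (nat_lit 2) (nat_lit 4) (nat_lit 361) (nat_lit 256) (nat_lit 163)))))) (XT.nd (nat_lit 33306) (nat_lit 0) (nat_lit 2432) (XT.nd (nat_lit 234) (nat_lit 0) (nat_lit 0) (XT.nd (nat_lit 78) (nat_lit 0) (nat_lit 0) (XT.lf (nat_lit 0) (nat_lit 334240155877) (nat_lit 76) (nat_lit 1367967286864) (nat_lit 76) (nat_lit 1357162269461) (nat_lit 1) (nat_lit 4) (nat_lit 2) (nat_lit 5) (nat_lit 2) (nat_lit 4) (nat_lit 362) (nat_lit 256) (nat_lit 162)) (XT.nd (nat_lit 78) (nat_lit 0) (nat_lit 0) (XT.lf (nat_lit 0) (nat_lit 371884288055) (nat_lit 76) (nat_lit 1471291998562) (nat_lit 76) (nat_lit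 1460486403367) (nat_lit 1) (nat_lit 4) (nat_lit 2) (nat_lit 5) (nat_lit 2) (nat_lit 4) (nat_lit 363) (nat_lit 256) (nat_lit 161)) (XT.lf (nat_lit 0) (nat_lit 412538830099) (nat_lit 76) (nat_lit 1582883226501) (nat_lit 76) (nat_lit 1572077096312) (nat_lit 1) (nat_lit 4) (nat_lit 2) (nat_lit 5) (nat_lit 2) (nat_lit 4) (nat_lit 364) (nat_lit 256) (nat_lit 160)))) (XT.nd (nat_lit 32916) (nat_lit 0) (nat_lit 4256) (XT.nd (nat_lit 78) (nat_lit 0) (nat_lit 0) (XT.lf (nat_lit 0) (nat_lit 456444697815) (nat_lit 76) (nat_lit 1703402252032) (nat_lit 76) (nat_lit 1692595626479) (nat_lit 1) (nat_lit 4) (nat_lit 2) (nat_lit 5) (nat_lit 2) (nat_lit 4) (nat_lit 365) (nat_lit 256) (nat_lit 159)) (XT.lf (nat_lit 0) (nat_lit 503862074122) (nat_lit 76) (nat_lit 1833563261971) (nat_lit 76) (nat_lit 1822756177748) (nat_lit 1) (nat_lit 4) (nat_lit 2) (nat_lit 5) (nat_lit 2) (nat_lit 4) (nat_lit 366) (nat_lit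 256) (nat_lit 158))) (XT.nd (nat_lit 78) (nat_lit 76) (nat_lit 0) (XT.lf (nat_lit 0) (nat_lit 679342205) (nat_lit 228) (nat_lit 1339009377) (nat_lit 228) (nat_lit 1339009377) (nat_lit 58) (nat_lit 4) (nat_lit 61) (nat_lit 5) (nat_lit 61) (nat_lit 4) (nat_lit 266) (nat_lit 257) (nat_lit 257)) (XT.lf (nat_lit 0) (nat_lit 358111158) (nat_lit 304) (nat_lit 1272055766) (nat_lit 76) (nat_lit 5190119485) (nat_lit 57) (nat_lit 5) (nat_lit 61) (nat_lit 5) (nat_lit 58) (nat_lit 4) (nat_lit 267) (nat_lit 257) (nat_lit 256))))) (XT.nd (nat_lit 312) (nat_lit 608) (nat_lit 0) (XT.nd (nat_lit 156) (nat_lit 532) (nat_lit 0) (XT.nd (nat_lit 78) (nat_lit 380) (nat_lit 0) (XT.lf (nat_lit 0) (nat_lit 3005354380) (nat_lit 304) (nat_lit 307052510) (nat_lit 380) (nat_lit 3632062246) (nat_lit 53) (nat_lit 5) (nat_lit 57) (nat_lit 5) (nat_lit 58) (nat_lit 4) (nat_lit 268) (nat_lit 257) (nat_lit 255)) (XT.lf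 (nat_lit 0) (nat_lit 383073143) (nat_lit 380) (nat_lit 5953924619) (nat_lit 380) (nat_lit 756108187) (nat_lit 48) (nat_lit 4) (nat_lit 53) (nat_lit 5) (nat_lit 53) (nat_lit 4) (nat_lit 269) (nat_lit 257) (nat_lit 254))) (XT.nd (nat_lit 78) (nat_lit 456) (nat_lit 0) (XT.lf (nat_lit 0) (nat_lit 2118208675) (nat_lit 456) (nat_lit 2274443925) (nat_lit 76) (nat_lit 2866652040) (nat_lit 47) (nat_lit 5) (nat_lit 53) (nat_lit 5) (nat_lit 48) (nat_lit 4) (nat_lit 270) (nat_lit 257) (nat_lit 253)) (XT.lf (nat_lit 0) (nat_lit 2396616456) (nat_lit 456) (nat_lit 2627239810) (nat_lit 532) (nat_lit 2426973886) (nat_lit 41) (nat_lit 5) (nat_lit 47) (nat_lit 5) (nat_lit 48) (nat_lit 4) (nat_lit 271) (nat_lit 257) (nat_lit 252)))) (XT.nd (nat_lit 156) (nat_lit 304) (nat_lit 0) (XT.nd (nat_lit 78) (nat_lit 228) (nat_lit 0) (XT.lf (nat_lit 0) (nat_lit 332081321) (nat_lit 532) (nat_lit 321739198) (nat_lit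 76) (nat_lit 7015485523) (nat_lit 40) (nat_lit 5) (nat_lit 47) (nat_lit 5) (nat_lit 41) (nat_lit 5) (nat_lit 272) (nat_lit 257) (nat_lit 251)) (XT.lf (nat_lit 0) (nat_lit 3139737862) (nat_lit 304) (nat_lit 3192371372) (nat_lit 76) (nat_lit 1572166610) (nat_lit 37) (nat_lit 5) (nat_lit 41) (nat_lit 5) (nat_lit 38) (nat_lit 4) (nat_lit 273) (nat_lit 257) (nat_lit 250))) (XT.nd (nat_lit 78) (nat_lit 76) (nat_lit 0) (XT.lf (nat_lit 0) (nat_lit 1866250332) (nat_lit 228) (nat_lit 4190596829) (nat_lit 304) (nat_lit 2111129806) (nat_lit 34) (nat_lit 5) (nat_lit 37) (nat_lit 5) (nat_lit 38) (nat_lit 4) (nat_lit 274) (nat_lit 257) (nat_lit 249)) (XT.lf (nat_lit 0) (nat_lit 623710316) (nat_lit 304) (nat_lit 1178874000) (nat_lit 76) (nat_lit 6656803806) (nat_lit 33) (nat_lit 5) (nat_lit 37) (nat_lit 5) (nat_lit 34) (nat_lit 5) (nat_lit 275) (nat_lit 257) (nat_lit 248))))))))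
noncomputable def xc44 : XT := (XT.nd (nat_lit 2262) (nat_lit 380) (nat_lit 0) (XT.nd (nat_lit 1092) (nat_lit 608) (nat_lit 0) (XT.nd (nat_lit 546) (nat_lit 380) (nat_lit 0) (XT.nd (nat_lit 234) (nat_lit 532) (nat_lit 0) (XT.nd (nat_lit 78) (nat_lit 228) (nat_lit 0) (XT.lf (nat_lit 0) (nat_lit 3419625948) (nat_lit 304) (nat_lit 4490182298) (nat_lit 76) (nat_lit 863981945) (nat_lit 30) (nat_lit 5) (nat_lit 34) (nat_lit 5) (nat_lit 31) (nat_lit 4) (nat_lit 276) (nat_lit 257) (nat_lit 247)) (XT.nd (nat_lit 78) (nat_lit 76) (nat_lit 0) (XT.lf (nat_lit 0) (nat_lit 923471957) (nat_lit 152) (nat_lit 5455420394) (nat_lit 228) (nat_lit 2739807795) (nat_lit 28) (nat_lit 5) (nat_lit 30) (nat_lit 5) (nat_lit 31) (nat_lit 4) (nat_lit 277) (nat_lit 257) (nat_lit 246)) (XT.lf (nat_lit 0) (nat_lit 45548356) (nat_lit 228) (nat_lit 2678883040) (nat_lit 76) (nat_lit 6769781745) (nat_lit 27) (nat_lit 5)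 (nat_lit 30) (nat_lit 5) (nat_lit 28) (nat_lit 5) (nat_lit 278) (nat_lit 257) (nat_lit 245)))) (XT.nd (nat_lit 156) (nat_lit 380) (nat_lit 0) (XT.nd (nat_lit 78) (nat_lit 0) (nat_lit 0) (XT.lf (nat_lit 0) (nat_lit 2841682191) (nat_lit 228) (nat_lit 6744049831) (nat_lit 76) (nat_lit 313885118) (nat_lit 25) (nat_lit 5) (nat_lit 28) (nat_lit 5) (nat_lit 26) (nat_lit 4) (nat_lit 279) (nat_lit 257) (nat_lit 244)) (XT.lf (nat_lit 0) (nat_lit 5864266283) (nat_lit 228) (nat_lit 1002187658) (nat_lit 76) (nat_lit 3471168262) (nat_lit 25) (nat_lit 5) (nat_lit 28) (nat_lit 5) (nat_lit 26) (nat_lit 4) (nat_lit 280) (nat_lit 257) (nat_lit 243))) (XT.nd (nat_lit 78) (nat_lit 228) (nat_lit 0) (XT.lf (nat_lit 0) (nat_lit 5270985606) (nat_lit 152) (nat_lit 3851889947) (nat_lit 228) (nat_lit 1688615297) (nat_lit 23) (nat_lit 5) (nat_lit 25) (nat_lit 5) (nat_lit 26) (nat_lit 4) (nat_lit 281) (nat_lit 257)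 (nat_lit 242)) (XT.lf (nat_lit 0) (nat_lit 584688494) (nat_lit 152) (nat_lit 579568012) (nat_lit 228) (nat_lit 10163877802) (nat_lit 20) (nat_lit 5) (nat_lit 22) (nat_lit 5) (nat_lit 23) (nat_lit 5) (nat_lit 282) (nat_lit 257) (nat_lit 241))))) (XT.nd (nat_lit 234) (nat_lit 304) (nat_lit 0) (XT.nd (nat_lit 78) (nat_lit 76) (nat_lit 0) (XT.lf (nat_lit 0) (nat_lit 4253378975) (nat_lit 228) (nat_lit 4675814253) (nat_lit 76) (nat_lit 2945753505) (nat_lit 20) (nat_lit 5) (nat_lit 23) (nat_lit 5) (nat_lit 21) (nat_lit 4) (nat_lit 283) (nat_lit 257) (nat_lit 240)) (XT.nd (nat_lit 78) (nat_lit 0) (nat_lit 0) (XT.lf (nat_lit 0) (nat_lit 1767281101) (nat_lit 76) (nat_lit 5762102645) (nat_lit 152) (nat_lit 4941205296) (nat_lit 19) (nat_lit 5) (nat_lit 20) (nat_lit 5) (nat_lit 21) (nat_lit 4) (nat_lit 284) (nat_lit 257) (nat_lit 239)) (XT.lf (nat_lit 0) (nat_lit 8813082704) (nat_lit 76) (nat_lit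 2268856376) (nat_lit 152) (nat_lit 2031031500) (nat_lit 19) (nat_lit 5) (nat_lit 20) (nat_lit 5) (nat_lit 21) (nat_lit 4) (nat_lit 285) (nat_lit 257) (nat_lit 238)))) (XT.nd (nat_lit 156) (nat_lit 76) (nat_lit 0) (XT.nd (nat_lit 78) (nat_lit 0) (nat_lit 0) (XT.lf (nat_lit 0) (nat_lit 1046548395) (nat_lit 228) (nat_lit 11300418812) (nat_lit 76) (nat_lit 1458629127) (nat_lit 16) (nat_lit 5) (nat_lit 19) (nat_lit 5) (nat_lit 17) (nat_lit 4) (nat_lit 286) (nat_lit 257) (nat_lit 237)) (XT.lf (nat_lit 0) (nat_lit 4334700497) (nat_lit 228) (nat_lit 4733754523) (nat_lit 76) (nat_lit 5475224111) (nat_lit 16) (nat_lit 5) (nat_lit 19) (nat_lit 5) (nat_lit 17) (nat_lit 4) (nat_lit 287) (nat_lit 257) (nat_lit 236))) (XT.nd (nat_lit 78) (nat_lit 0) (nat_lit 0) (XT.lf (nat_lit 0) (nat_lit 2312853024) (nat_lit 76) (nat_lit 5531030270) (nat_lit 152) (nat_lit 7500467395) (nat_lit 15) (nat_lit 5) (nat_lit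 16) (nat_lit 5) (nat_lit 17) (nat_lit 4) (nat_lit 288) (nat_lit 257) (nat_lit 235)) (XT.lf (nat_lit 0) (nat_lit 10035392012) (nat_lit 76) (nat_lit 1633649214) (nat_lit 152) (nat_lit 4537382558) (nat_lit 15) (nat_lit 5) (nat_lit 16) (nat_lit 5) (nat_lit 17) (nat_lit 4) (nat_lit 289) (nat_lit 257) (nat_lit 234)))))) (XT.nd (nat_lit 546) (nat_lit 228) (nat_lit 0) (XT.nd (nat_lit 234) (nat_lit 152) (nat_lit 0) (XT.nd (nat_lit 78) (nat_lit 76) (nat_lit 0) (XT.lf (nat_lit 0) (nat_lit 1079203873) (nat_lit 152) (nat_lit 14720293451) (nat_lit 152) (nat_lit 1338177239) (nat_lit 13) (nat_lit 4) (nat_lit 15) (nat_lit 5) (nat_lit 15) (nat_lit 4) (nat_lit 290) (nat_lit 257) (nat_lit 233)) (XT.nd (nat_lit 78) (nat_lit 0) (nat_lit 0) (XT.lf (nat_lit 0) (nat_lit 2138658909) (nat_lit 228) (nat_lit 9119295329) (nat_lit 76) (nat_lit 6871323251) (nat_lit 12) (nat_lit 5) (nat_lit 15) (nat_lit 5) (nat_lit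 13) (nat_lit 4) (nat_lit 291) (nat_lit 257) (nat_lit 232)) (XT.lf (nat_lit 0) (nat_lit 5739911951) (nat_lit 228) (nat_lit 1800531273) (nat_lit 76) (nat_lit 11663622282) (nat_lit 12) (nat_lit 5) (nat_lit 15) (nat_lit 5) (nat_lit 13) (nat_lit 4) (nat_lit 292) (nat_lit 257) (nat_lit 231)))) (XT.nd (nat_lit 156) (nat_lit 76) (nat_lit 0) (XT.nd (nat_lit 78) (nat_lit 0) (nat_lit 0) (XT.lf (nat_lit 0) (nat_lit 6287922474) (nat_lit 76) (nat_lit 3417165899) (nat_lit 152) (nat_lit 10653796032) (nat_lit 11) (nat_lit 5) (nat_lit 12) (nat_lit 5) (nat_lit 13) (nat_lit 4) (nat_lit 293) (nat_lit 257) (nat_lit 230)) (XT.lf (nat_lit 0) (nat_lit 13988727313) (nat_lit 152) (nat_lit 6634184398) (nat_lit 0) (nat_lit 983182505) (nat_lit 11) (nat_lit 5) (nat_lit 13) (nat_lit 4) (nat_lit 11) (nat_lit 4) (nat_lit 294) (nat_lit 257) (nat_lit 229))) (XT.nd (nat_lit 78) (nat_lit 0) (nat_lit 0) (XT.lf (nat_lit 0)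 (nat_lit 1249339230) (nat_lit 76) (nat_lit 17415841593) (nat_lit 76) (nat_lit 4283987588) (nat_lit 10) (nat_lit 4) (nat_lit 11) (nat_lit 5) (nat_lit 11) (nat_lit 4) (nat_lit 295) (nat_lit 257) (nat_lit 228)) (XT.lf (nat_lit 0) (nat_lit 10021988110) (nat_lit 76) (nat_lit 13808701274) (nat_lit 76) (nat_lit 559894308) (nat_lit 10) (nat_lit 4) (nat_lit 11) (nat_lit 5) (nat_lit 11) (nat_lit 4) (nat_lit 296) (nat_lit 257) (nat_lit 227))))) (XT.nd (nat_lit 312) (nat_lit 76) (nat_lit 0) (XT.nd (nat_lit 156) (nat_lit 0) (nat_lit 0) (XT.nd (nat_lit 78) (nat_lit 76) (nat_lit 0) (XT.lf (nat_lit 0) (nat_lit 3225730050) (nat_lit 152) (nat_lit 6647578239) (nat_lit 76) (nat_lit 16072476691) (nat_lit 9) (nat_lit 5) (nat_lit 11) (nat_lit 5) (nat_lit 10) (nat_lit 4) (nat_lit 297) (nat_lit 257) (nat_lit 226)) (XT.lf (nat_lit 0) (nat_lit 1654284845) (nat_lit 76) (nat_lit 5610931454) (nat_lit 152) (nat_lit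 20360593440) (nat_lit 8) (nat_lit 5) (nat_lit 9) (nat_lit 5) (nat_lit 10) (nat_lit 4) (nat_lit 298) (nat_lit 257) (nat_lit 225))) (XT.nd (nat_lit 78) (nat_lit 0) (nat_lit 0) (XT.lf (nat_lit 0) (nat_lit 10895963094) (nat_lit 76) (nat_lit 857002859) (nat_lit 152) (nat_lit 17677328503) (nat_lit 8) (nat_lit 5) (nat_lit 9) (nat_lit 5) (nat_lit 10) (nat_lit 4) (nat_lit 299) (nat_lit 257) (nat_lit 224)) (XT.lf (nat_lit 0) (nat_lit 16649129228) (nat_lit 152) (nat_lit 10703072770) (nat_lit 0) (nat_lit 4023045888) (nat_lit 8) (nat_lit 5) (nat_lit 10) (nat_lit 4) (nat_lit 8) (nat_lit 4) (nat_lit 300) (nat_lit 257) (nat_lit 223)))) (XT.nd (nat_lit 156) (nat_lit 0) (nat_lit 0) (XT.nd (nat_lit 78) (nat_lit 76) (nat_lit 0) (XT.lf (nat_lit 0) (nat_lit 21909732343) (nat_lit 152) (nat_lit 2358353578) (nat_lit 0) (nat_lit 9209948800) (nat_lit 8) (nat_lit 5) (nat_lit 10) (nat_lit 4) (nat_lit 8) (nat_lit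 4) (nat_lit 301) (nat_lit 257) (nat_lit 222)) (XT.lf (nat_lit 0) (nat_lit 6915845962) (nat_lit 76) (nat_lit 20795818604) (nat_lit 76) (nat_lit 8027794131) (nat_lit 7) (nat_lit 4) (nat_lit 8) (nat_lit 5) (nat_lit 8) (nat_lit 4) (nat_lit 302) (nat_lit 257) (nat_lit 221))) (XT.nd (nat_lit 78) (nat_lit 0) (nat_lit 0) (XT.lf (nat_lit 0) (nat_lit 16984175311) (nat_lit 76) (nat_lit 17013637811) (nat_lit 76) (nat_lit 4182427292) (nat_lit 7) (nat_lit 4) (nat_lit 8) (nat_lit 5) (nat_lit 8) (nat_lit 4) (nat_lit 303) (nat_lit 257) (nat_lit 220)) (XT.lf (nat_lit 0) (nat_lit 27782111920) (nat_lit 76) (nat_lit 12963612184) (nat_lit 76) (nat_lit 73896067) (nat_lit 7) (nat_lit 4) (nat_lit 8) (nat_lit 5) (nat_lit 8) (nat_lit 4) (nat_lit 304) (nat_lit 257) (nat_lit 219))))))) (XT.nd (nat_lit 1092) (nat_lit 152) (nat_lit 0) (XT.nd (nat_lit 546) (nat_lit 76) (nat_lit 0) (XT.nd (nat_lit 234) (nat_lit 0)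 (nat_lit 0) (XT.nd (nat_lit 78) (nat_lit 76) (nat_lit 0) (XT.lf (nat_lit 0) (nat_lit 4105935125) (nat_lit 152) (nat_lit 4403542905) (nat_lit 76) (nat_lit 35155444895) (nat_lit 6) (nat_lit 5) (nat_lit 8) (nat_lit 5) (nat_lit 7) (nat_lit 4) (nat_lit 305) (nat_lit 257) (nat_lit 218)) (XT.nd (nat_lit 78) (nat_lit 0) (nat_lit 0) (XT.lf (nat_lit 0) (nat_lit 5107750902) (nat_lit 76) (nat_lit 3595036592) (nat_lit 152) (nat_lit 38028014536) (nat_lit 5) (nat_lit 5) (nat_lit 6) (nat_lit 5) (nat_lit 7) (nat_lit 4) (nat_lit 306) (nat_lit 257) (nat_lit 217)) (XT.lf (nat_lit 0) (nat_lit 13796275176) (nat_lit 152) (nat_lit 34513651770) (nat_lit 0) (nat_lit 1721746734) (nat_lit 5) (nat_lit 5) (nat_lit 7) (nat_lit 4) (nat_lit 5) (nat_lit 4) (nat_lit 307) (nat_lit 257) (nat_lit 216)))) (XT.nd (nat_lit 156) (nat_lit 0) (nat_lit 0) (XT.nd (nat_lit 78) (nat_lit 0) (nat_lit 0) (XT.lf (nat_lit 0) (nat_lit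 19357445419) (nat_lit 152) (nat_lit 26991285035) (nat_lit 0) (nat_lit 7243099051) (nat_lit 5) (nat_lit 5) (nat_lit 7) (nat_lit 4) (nat_lit 5) (nat_lit 4) (nat_lit 308) (nat_lit 257) (nat_lit 215)) (XT.lf (nat_lit 0) (nat_lit 25332792592) (nat_lit 152) (nat_lit 18924913218) (nat_lit 0) (nat_lit 13181577773) (nat_lit 5) (nat_lit 5) (nat_lit 7) (nat_lit 4) (nat_lit 5) (nat_lit 4) (nat_lit 309) (nat_lit 257) (nat_lit 214))) (XT.nd (nat_lit 78) (nat_lit 0) (nat_lit 0) (XT.lf (nat_lit 0) (nat_lit 31757726159) (nat_lit 152) (nat_lit 10266735599) (nat_lit 0) (nat_lit 19572373885) (nat_lit 5) (nat_lit 5) (nat_lit 7) (nat_lit 4) (nat_lit 5) (nat_lit 4) (nat_lit 310) (nat_lit 257) (nat_lit 213)) (XT.lf (nat_lit 0) (nat_lit 38670319800) (nat_lit 152) (nat_lit 965444458) (nat_lit 0) (nat_lit 26453358772) (nat_lit 5) (nat_lit 5) (nat_lit 7) (nat_lit 4) (nat_lit 5) (nat_lit 4) (nat_lit 311) (nat_lit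 257) (nat_lit 212))))) (XT.nd (nat_lit 234) (nat_lit 0) (nat_lit 0) (XT.nd (nat_lit 78) (nat_lit 0) (nat_lit 0) (XT.lf (nat_lit 0) (nat_lit 9509797556) (nat_lit 76) (nat_lit 36830450336) (nat_lit 76) (nat_lit 24584221943) (nat_lit 4) (nat_lit 4) (nat_lit 5) (nat_lit 5) (nat_lit 5) (nat_lit 4) (nat_lit 312) (nat_lit 257) (nat_lit 211)) (XT.nd (nat_lit 78) (nat_lit 0) (nat_lit 0) (XT.lf (nat_lit 0) (nat_lit 20833254899) (nat_lit 76) (nat_lit 33793259342) (nat_lit 76) (nat_lit 21519931537) (nat_lit 4) (nat_lit 4) (nat_lit 5) (nat_lit 5) (nat_lit 5) (nat_lit 4) (nat_lit 313) (nat_lit 257) (nat_lit 210)) (XT.lf (nat_lit 0) (nat_lit 33021190944) (nat_lit 76) (nat_lit 30532590069) (nat_lit 76) (nat_lit 18234170216) (nat_lit 4) (nat_lit 4) (nat_lit 5) (nat_lit 5) (nat_lit 5) (nat_lit 4) (nat_lit 314) (nat_lit 257) (nat_lit 209)))) (XT.nd (nat_lit 156) (nat_lit 0) (nat_lit 0) (XT.nd (nat_lit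 78) (nat_lit 0) (nat_lit 0) (XT.lf (nat_lit 0) (nat_lit 46145830498) (nat_lit 76) (nat_lit 27029120034) (nat_lit 76) (nat_lit 14707466803) (nat_lit 4) (nat_lit 4) (nat_lit 5) (nat_lit 5) (nat_lit 5) (nat_lit 4) (nat_lit 315) (nat_lit 257) (nat_lit 208)) (XT.lf (nat_lit 0) (nat_lit 60284949203) (nat_lit 76) (nat_lit 23262087932) (nat_lit 76) (nat_lit 10918922314) (nat_lit 4) (nat_lit 4) (nat_lit 5) (nat_lit 5) (nat_lit 5) (nat_lit 4) (nat_lit 316) (nat_lit 257) (nat_lit 207))) (XT.nd (nat_lit 78) (nat_lit 0) (nat_lit 0) (XT.lf (nat_lit 0) (nat_lit 75522334429) (nat_lit 76) (nat_lit 19209170610) (nat_lit 76) (nat_lit 6846086115) (nat_lit 4) (nat_lit 4) (nat_lit 5) (nat_lit 5) (nat_lit 5) (nat_lit 4) (nat_lit 317) (nat_lit 257) (nat_lit 206)) (XT.lf (nat_lit 0) (nat_lit 91948281792) (nat_lit 76) (nat_lit 14846350780) (nat_lit 76) (nat_lit 2464822881) (nat_lit 4) (nat_lit 4) (nat_lit 5)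 (nat_lit 5) (nat_lit 5) (nat_lit 4) (nat_lit 318) (nat_lit 257) (nat_lit 205)))))) (XT.nd (nat_lit 546) (nat_lit 0) (nat_lit 0) (XT.nd (nat_lit 234) (nat_lit 0) (nat_lit 0) (XT.nd (nat_lit 78) (nat_lit 76) (nat_lit 0) (XT.lf (nat_lit 0) (nat_lit 2138234776) (nat_lit 152) (nat_lit 7951076790) (nat_lit 76) (nat_lit 107463432334) (nat_lit 3) (nat_lit 5) (nat_lit 5) (nat_lit 5) (nat_lit 4) (nat_lit 4) (nat_lit 319) (nat_lit 257) (nat_lit 204)) (XT.nd (nat_lit 78) (nat_lit 0) (nat_lit 0) (XT.lf (nat_lit 0) (nat_lit 2175803745) (nat_lit 76) (nat_lit 4838725637) (nat_lit 152) (nat_lit 119486803087) (nat_lit 2) (nat_lit 5) (nat_lit 3) (nat_lit 5) (nat_lit 4) (nat_lit 4) (nat_lit 320) (nat_lit 257) (nat_lit 203)) (XT.lf (nat_lit 0) (nat_lit 12509928672) (nat_lit 152) (nat_lit 122636028505) (nat_lit 0) (nat_lit 1001541320) (nat_lit 2) (nat_lit 5) (nat_lit 4) (nat_lit 4) (nat_lit 2) (nat_lit 4)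 (nat_lit 321) (nat_lit 257) (nat_lit 202)))) (XT.nd (nat_lit 156) (nat_lit 0) (nat_lit 0) (XT.nd (nat_lit 78) (nat_lit 0) (nat_lit 0) (XT.lf (nat_lit 0) (nat_lit 18557632325) (nat_lit 152) (nat_lit 120962028675) (nat_lit 0) (nat_lit 7036692701) (nat_lit 2) (nat_lit 5) (nat_lit 4) (nat_lit 4) (nat_lit 2) (nat_lit 4) (nat_lit 322) (nat_lit 257) (nat_lit 201)) (XT.lf (nat_lit 0) (nat_lit 25077107116) (nat_lit 152) (nat_lit 119177237766) (nat_lit 0) (nat_lit 13544545019) (nat_lit 2) (nat_lit 5) (nat_lit 4) (nat_lit 4) (nat_lit 2) (nat_lit 4) (nat_lit 323) (nat_lit 257) (nat_lit 200))) (XT.nd (nat_lit 78) (nat_lit 0) (nat_lit 0) (XT.lf (nat_lit 0) (nat_lit 32106986971) (nat_lit 152) (nat_lit 117271079240) (nat_lit 0) (nat_lit 20563663325) (nat_lit 2) (nat_lit 5) (nat_lit 4) (nat_lit 4) (nat_lit 2) (nat_lit 4) (nat_lit 324) (nat_lit 257) (nat_lit 199)) (XT.lf (nat_lit 0) (nat_lit 39688930437)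 (nat_lit 152) (nat_lit 115232257344) (nat_lit 0) (nat_lit 28135642393) (nat_lit 2) (nat_lit 5) (nat_lit 4) (nat_lit 4) (nat_lit 2) (nat_lit 4) (nat_lit 325) (nat_lit 257) (nat_lit 198))))) (XT.nd (nat_lit 312) (nat_lit 0) (nat_lit 0) (XT.nd (nat_lit 156) (nat_lit 0) (nat_lit 0) (XT.nd (nat_lit 78) (nat_lit 0) (nat_lit 0) (XT.lf (nat_lit 0) (nat_lit 47867867550) (nat_lit 152) (nat_lit 113048690168) (nat_lit 0) (nat_lit 36305353211) (nat_lit 2) (nat_lit 5) (nat_lit 4) (nat_lit 4) (nat_lit 2) (nat_lit 4) (nat_lit 326) (nat_lit 257) (nat_lit 197)) (XT.lf (nat_lit 0) (nat_lit 56692266084) (nat_lit 152) (nat_lit 110707438057) (nat_lit 0) (nat_lit 45121208881) (nat_lit 2) (nat_lit 5) (nat_lit 4) (nat_lit 4) (nat_lit 2) (nat_lit 4) (nat_lit 327) (nat_lit 257) (nat_lit 196))) (XT.nd (nat_lit 78) (nat_lit 0) (nat_lit 0) (XT.lf (nat_lit 0) (nat_lit 66214418771) (nat_lit 152) (nat_lit 108194626924)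 (nat_lit 0) (nat_lit 54635451508) (nat_lit 2) (nat_lit 5) (nat_lit 4) (nat_lit 4) (nat_lit 2) (nat_lit 4) (nat_lit 328) (nat_lit 257) (nat_lit 195)) (XT.lf (nat_lit 0) (nat_lit 76490753184) (nat_lit 152) (nat_lit 105495366035) (nat_lit 0) (nat_lit 64904461792) (nat_lit 2) (nat_lit 5) (nat_lit 4) (nat_lit 4) (nat_lit 2) (nat_lit 4) (nat_lit 329) (nat_lit 257) (nat_lit 194)))) (XT.nd (nat_lit 156) (nat_lit 0) (nat_lit 0) (XT.nd (nat_lit 78) (nat_lit 0) (nat_lit 0) (XT.lf (nat_lit 0) (nat_lit 87582166119) (nat_lit 152) (nat_lit 102593659772) (nat_lit 0) (nat_lit 75989093125) (nat_lit 2) (nat_lit 5) (nat_lit 4) (nat_lit 4) (nat_lit 2) (nat_lit 4) (nat_lit 330) (nat_lit 257) (nat_lit 193)) (XT.lf (nat_lit 0) (nat_lit 99554384467) (nat_lit 152) (nat_lit 99472312836) (nat_lit 0) (nat_lit 87955032212) (nat_lit 2) (nat_lit 5) (nat_lit 4) (nat_lit 4) (nat_lit 2) (nat_lit 4) (nat_lit 331) (nat_lit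 257) (nat_lit 192))) (XT.nd (nat_lit 78) (nat_lit 0) (nat_lit 0) (XT.lf (nat_lit 0) (nat_lit 112478354708) (nat_lit 152) (nat_lit 96112828359) (nat_lit 0) (nat_lit 100873188323) (nat_lit 2) (nat_lit 5) (nat_lit 4) (nat_lit 4) (nat_lit 2) (nat_lit 4) (nat_lit 332) (nat_lit 257) (nat_lit 191)) (XT.lf (nat_lit 0) (nat_lit 126430663331) (nat_lit 152) (nat_lit 92495298283) (nat_lit 0) (nat_lit 114820113492) (nat_lit 2) (nat_lit 5) (nat_lit 4) (nat_lit 4) (nat_lit 2) (nat_lit 4) (nat_lit 333) (nat_lit 257) (nat_lit 190))))))))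
noncomputable def xc45 : XT := (XT.nd (nat_lit 2262) (nat_lit 0) (nat_lit 0) (XT.nd (nat_lit 1092) (nat_lit 0) (nat_lit 0) (XT.nd (nat_lit 546) (nat_lit 76) (nat_lit 0) (XT.nd (nat_lit 234) (nat_lit 0) (nat_lit 0) (XT.nd (nat_lit 78) (nat_lit 0) (nat_lit 0) (XT.lf (nat_lit 0) (nat_lit 141493990684) (nat_lit 152) (nat_lit 88598285393) (nat_lit 0) (nat_lit 129878456166) (nat_lit 2) (nat_lit 5) (nat_lit 4) (nat_lit 4) (nat_lit 2) (nat_lit 4) (nat_lit 334) (nat_lit 257) (nat_lit 189)) (XT.nd (nat_lit 78) (nat_lit 0) (nat_lit 0) (XT.lf (nat_lit 0) (nat_lit 157757600930) (nat_lit 152) (nat_lit 84398696280) (nat_lit 0) (nat_lit 146137450967) (nat_lit 2) (nat_lit 5) (nat_lit 4) (nat_lit 4) (nat_lit 2) (nat_lit 4) (nat_lit 335) (nat_lit 257) (nat_lit 188)) (XT.lf (nat_lit 0) (nat_lit 175317871017) (nat_lit 152) (nat_lit 79871644489) (nat_lit 0) (nat_lit 163693447495) (nat_lit 2) (nat_lit 5)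 (nat_lit 4) (nat_lit 4) (nat_lit 2) (nat_lit 4) (nat_lit 336) (nat_lit 257) (nat_lit 187)))) (XT.nd (nat_lit 156) (nat_lit 0) (nat_lit 0) (XT.nd (nat_lit 78) (nat_lit 0) (nat_lit 0) (XT.lf (nat_lit 0) (nat_lit 194278861806) (nat_lit 152) (nat_lit 74990303048) (nat_lit 0) (nat_lit 182650481284) (nat_lit 2) (nat_lit 5) (nat_lit 4) (nat_lit 4) (nat_lit 2) (nat_lit 4) (nat_lit 337) (nat_lit 257) (nat_lit 186)) (XT.lf (nat_lit 0) (nat_lit 214752934723) (nat_lit 152) (nat_lit 69725745487) (nat_lit 0) (nat_lit 203120890313) (nat_lit 2) (nat_lit 5) (nat_lit 4) (nat_lit 4) (nat_lit 2) (nat_lit 4) (nat_lit 338) (nat_lit 257) (nat_lit 185))) (XT.nd (nat_lit 78) (nat_lit 0) (nat_lit 0) (XT.lf (nat_lit 0) (nat_lit 236861417608) (nat_lit 152) (nat_lit 64046774430) (nat_lit 0) (nat_lit 225225980709) (nat_lit 2) (nat_lit 5) (nat_lit 4) (nat_lit 4) (nat_lit 2) (nat_lit 4) (nat_lit 339) (nat_lit 257)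 (nat_lit 184)) (XT.lf (nat_lit 0) (nat_lit 260735323693) (nat_lit 152) (nat_lit 57919736714) (nat_lit 0) (nat_lit 249096745601) (nat_lit 2) (nat_lit 5) (nat_lit 4) (nat_lit 4) (nat_lit 2) (nat_lit 4) (nat_lit 340) (nat_lit 257) (nat_lit 183))))) (XT.nd (nat_lit 234) (nat_lit 76) (nat_lit 0) (XT.nd (nat_lit 78) (nat_lit 0) (nat_lit 0) (XT.lf (nat_lit 0) (nat_lit 286516127977) (nat_lit 152) (nat_lit 51308323968) (nat_lit 0) (nat_lit 274874641372) (nat_lit 2) (nat_lit 5) (nat_lit 4) (nat_lit 4) (nat_lit 2) (nat_lit 4) (nat_lit 341) (nat_lit 257) (nat_lit 182)) (XT.nd (nat_lit 78) (nat_lit 0) (nat_lit 0) (XT.lf (nat_lit 0) (nat_lit 314356605597) (nat_lit 152) (nat_lit 44173357448) (nat_lit 0) (nat_lit 302712425924) (nat_lit 2) (nat_lit 5) (nat_lit 4) (nat_lit 4) (nat_lit 2) (nat_lit 4) (nat_lit 342) (nat_lit 257) (nat_lit 181)) (XT.lf (nat_lit 0) (nat_lit 344421737159) (nat_lit 152) (nat_lit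 36472555874) (nat_lit 0) (nat_lit 332775063906) (nat_lit 2) (nat_lit 5) (nat_lit 4) (nat_lit 4) (nat_lit 2) (nat_lit 4) (nat_lit 343) (nat_lit 257) (nat_lit 180)))) (XT.nd (nat_lit 156) (nat_lit 76) (nat_lit 0) (XT.nd (nat_lit 78) (nat_lit 0) (nat_lit 0) (XT.lf (nat_lit 0) (nat_lit 376889686408) (nat_lit 152) (nat_lit 28160284863) (nat_lit 0) (nat_lit 365240704284) (nat_lit 2) (nat_lit 5) (nat_lit 4) (nat_lit 4) (nat_lit 2) (nat_lit 4) (nat_lit 344) (nat_lit 257) (nat_lit 179)) (XT.lf (nat_lit 0) (nat_lit 411952856006) (nat_lit 152) (nat_lit 19187286516) (nat_lit 0) (nat_lit 400301736038) (nat_lit 2) (nat_lit 5) (nat_lit 4) (nat_lit 4) (nat_lit 2) (nat_lit 4) (nat_lit 345) (nat_lit 257) (nat_lit 178))) (XT.nd (nat_lit 78) (nat_lit 76) (nat_lit 0) (XT.lf (nat_lit 0) (nat_lit 449819027697) (nat_lit 152) (nat_lit 9500387507) (nat_lit 0) (nat_lit 438165928244) (nat_lit 2) (nat_lit 5) (nat_lit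 4) (nat_lit 4) (nat_lit 2) (nat_lit 4) (nat_lit 346) (nat_lit 257) (nat_lit 177)) (XT.lf (nat_lit 0) (nat_lit 1008252902) (nat_lit 76) (nat_lit 489728589215) (nat_lit 76) (nat_lit 478073656905) (nat_lit 1) (nat_lit 4) (nat_lit 2) (nat_lit 5) (nat_lit 2) (nat_lit 4) (nat_lit 347) (nat_lit 257) (nat_lit 176)))))) (XT.nd (nat_lit 546) (nat_lit 0) (nat_lit 0) (XT.nd (nat_lit 234) (nat_lit 0) (nat_lit 0) (XT.nd (nat_lit 78) (nat_lit 0) (nat_lit 0) (XT.lf (nat_lit 0) (nat_lit 12894324927) (nat_lit 76) (nat_lit 522291669887) (nat_lit 76) (nat_lit 510635040489) (nat_lit 1) (nat_lit 4) (nat_lit 2) (nat_lit 5) (nat_lit 2) (nat_lit 4) (nat_lit 348) (nat_lit 257) (nat_lit 175)) (XT.nd (nat_lit 78) (nat_lit 0) (nat_lit 0) (XT.lf (nat_lit 0) (nat_lit 25727990978) (nat_lit 76) (nat_lit 557461381057) (nat_lit 76) (nat_lit 545803180280) (nat_lit 1) (nat_lit 4) (nat_lit 2) (nat_lit 5) (nat_lit 2) (nat_lit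 4) (nat_lit 349) (nat_lit 257) (nat_lit 174)) (XT.lf (nat_lit 0) (nat_lit 39585302410) (nat_lit 76) (nat_lit 595446135826) (nat_lit 76) (nat_lit 583786480068) (nat_lit 1) (nat_lit 4) (nat_lit 2) (nat_lit 5) (nat_lit 2) (nat_lit 4) (nat_lit 350) (nat_lit 257) (nat_lit 173)))) (XT.nd (nat_lit 156) (nat_lit 0) (nat_lit 0) (XT.nd (nat_lit 78) (nat_lit 0) (nat_lit 0) (XT.lf (nat_lit 0) (nat_lit 54548376625) (nat_lit 76) (nat_lit 636471029039) (nat_lit 76) (nat_lit 624810026077) (nat_lit 1) (nat_lit 4) (nat_lit 2) (nat_lit 5) (nat_lit 2) (nat_lit 4) (nat_lit 351) (nat_lit 257) (nat_lit 172)) (XT.lf (nat_lit 0) (nat_lit 70705883691) (nat_lit 76) (nat_lit 680779171172) (nat_lit 76) (nat_lit 669116920799) (nat_lit 1) (nat_lit 4) (nat_lit 2) (nat_lit 5) (nat_lit 2) (nat_lit 4) (nat_lit 352) (nat_lit 257) (nat_lit 171))) (XT.nd (nat_lit 78) (nat_lit 0) (nat_lit 0) (XT.lf (nat_lit 0) (nat_lit 88153571799)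 (nat_lit 76) (nat_lit 728633128995) (nat_lit 76) (nat_lit 716969723612) (nat_lit 1) (nat_lit 4) (nat_lit 2) (nat_lit 5) (nat_lit 2) (nat_lit 4) (nat_lit 353) (nat_lit 257) (nat_lit 170)) (XT.lf (nat_lit 0) (nat_lit 106994834656) (nat_lit 76) (nat_lit 780316481517) (nat_lit 76) (nat_lit 768652006680) (nat_lit 1) (nat_lit 4) (nat_lit 2) (nat_lit 5) (nat_lit 2) (nat_lit 4) (nat_lit 354) (nat_lit 257) (nat_lit 169))))) (XT.nd (nat_lit 312) (nat_lit 0) (nat_lit 0) (XT.nd (nat_lit 156) (nat_lit 0) (nat_lit 0) (XT.nd (nat_lit 78) (nat_lit 0) (nat_lit 0) (XT.lf (nat_lit 0) (nat_lit 127341324190) (nat_lit 76) (nat_lit 836135500456) (nat_lit 76) (nat_lit 824470035384) (nat_lit 1) (nat_lit 4) (nat_lit 2) (nat_lit 5) (nat_lit 2) (nat_lit 4) (nat_lit 355) (nat_lit 257) (nat_lit 168)) (XT.lf (nat_lit 0) (nat_lit 149313612191) (nat_lit 76) (nat_lit 896420965185) (nat_lit 76) (nat_lit 884754583227)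 (nat_lit 1) (nat_lit 4) (nat_lit 2) (nat_lit 5) (nat_lit 2) (nat_lit 4) (nat_lit 356) (nat_lit 257) (nat_lit 167))) (XT.nd (nat_lit 78) (nat_lit 0) (nat_lit 0) (XT.lf (nat_lit 0) (nat_lit 173041904810) (nat_lit 76) (nat_lit 961530122900) (nat_lit 76) (nat_lit 949862891976) (nat_lit 1) (nat_lit 4) (nat_lit 2) (nat_lit 5) (nat_lit 2) (nat_lit 4) (nat_lit 357) (nat_lit 257) (nat_lit 166)) (XT.lf (nat_lit 0) (nat_lit 198666814152) (nat_lit 76) (nat_lit 1031848805649) (nat_lit 76) (nat_lit 1020180788644) (nat_lit 1) (nat_lit 4) (nat_lit 2) (nat_lit 5) (nat_lit 2) (nat_lit 4) (nat_lit 358) (nat_lit 257) (nat_lit 165)))) (XT.nd (nat_lit 156) (nat_lit 0) (nat_lit 0) (XT.nd (nat_lit 78) (nat_lit 0) (nat_lit 0) (XT.lf (nat_lit 0) (nat_lit 226340191530) (nat_lit 76) (nat_lit 1107793716736) (nat_lit 76) (nat_lit 1096124971878) (nat_lit 1) (nat_lit 4) (nat_lit 2) (nat_lit 5) (nat_lit 2) (nat_lit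 4) (nat_lit 359) (nat_lit 257) (nat_lit 164)) (XT.lf (nat_lit 0) (nat_lit 256226027330) (nat_lit 76) (nat_lit 1189814900079) (nat_lit 76) (nat_lit 1178145481284) (nat_lit 1) (nat_lit 4) (nat_lit 2) (nat_lit 5) (nat_lit 2) (nat_lit 4) (nat_lit 360) (nat_lit 257) (nat_lit 163))) (XT.nd (nat_lit 78) (nat_lit 0) (nat_lit 0) (XT.lf (nat_lit 0) (nat_lit 288501422801) (nat_lit 76) (nat_lit 1278398407134) (nat_lit 76) (nat_lit 1266728364323) (nat_lit 1) (nat_lit 4) (nat_lit 2) (nat_lit 5) (nat_lit 2) (nat_lit 4) (nat_lit 361) (nat_lit 257) (nat_lit 162)) (XT.lf (nat_lit 0) (nat_lit 323357639545) (nat_lit 76) (nat_lit 1374069177203) (nat_lit 76) (nat_lit 1362398556599) (nat_lit 1) (nat_lit 4) (nat_lit 2) (nat_lit 5) (nat_lit 2) (nat_lit 4) (nat_lit 362) (nat_lit 257) (nat_lit 161))))))) (XT.nd (nat_lit 33774) (nat_lit 0) (nat_lit 1064) (XT.nd (nat_lit 33150) (nat_lit 0) (nat_lit 2508) (XT.nd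 (nat_lit 234) (nat_lit 0) (nat_lit 0) (XT.nd (nat_lit 78) (nat_lit 0) (nat_lit 0) (XT.lf (nat_lit 0) (nat_lit 361001232921) (nat_lit 76) (nat_lit 1477394148182) (nat_lit 76) (nat_lit 1465722992585) (nat_lit 1) (nat_lit 4) (nat_lit 2) (nat_lit 5) (nat_lit 2) (nat_lit 4) (nat_lit 363) (nat_lit 257) (nat_lit 160)) (XT.nd (nat_lit 78) (nat_lit 0) (nat_lit 0) (XT.lf (nat_lit 0) (nat_lit 401655276075) (nat_lit 76) (nat_lit 1588985616196) (nat_lit 76) (nat_lit 1577313965235) (nat_lit 1) (nat_lit 4) (nat_lit 2) (nat_lit 5) (nat_lit 2) (nat_lit 4) (nat_lit 364) (nat_lit 257) (nat_lit 159)) (XT.lf (nat_lit 0) (nat_lit 445560681855) (nat_lit 76) (nat_lit 1709504864019) (nat_lit 76) (nat_lit 1697832754387) (nat_lit 1) (nat_lit 4) (nat_lit 2) (nat_lit 5) (nat_lit 2) (nat_lit 4) (nat_lit 365) (nat_lit 257) (nat_lit 158)))) (XT.nd (nat_lit 32760) (nat_lit 0) (nat_lit 4332) (XT.nd (nat_lit 32682) (nat_lit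 0) (nat_lit 4560) (XT.lf (nat_lit 0) (nat_lit 492977630444) (nat_lit 76) (nat_lit 1839666079784) (nat_lit 76) (nat_lit 1827993545457) (nat_lit 1) (nat_lit 4) (nat_lit 2) (nat_lit 5) (nat_lit 2) (nat_lit 4) (nat_lit 366) (nat_lit 257) (nat_lit 157)) (XT.lf (nat_lit 0) (nat_lit 69330094) (nat_lit 228) (nat_lit 3143248527) (nat_lit 0) (nat_lit 69330094) (nat_lit 61) (nat_lit 5) (nat_lit 64) (nat_lit 4) (nat_lit 61) (nat_lit 4) (nat_lit 264) (nat_lit 258) (nat_lit 258))) (XT.nd (nat_lit 78) (nat_lit 228) (nat_lit 0) (XT.lf (nat_lit 0) (nat_lit 3108910752) (nat_lit 228) (nat_lit 2592523481) (nat_lit 0) (nat_lit 930629618) (nat_lit 61) (nat_lit 5) (nat_lit 64) (nat_lit 4) (nat_lit 61) (nat_lit 4) (nat_lit 265) (nat_lit 258) (nat_lit 257)) (XT.lf (nat_lit 0) (nat_lit 1255123831) (nat_lit 228) (nat_lit 4832857377) (nat_lit 228) (nat_lit 637649268) (nat_lit 58) (nat_lit 4) (nat_lit 61) (nat_lit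 5) (nat_lit 61) (nat_lit 4) (nat_lit 266) (nat_lit 258) (nat_lit 256))))) (XT.nd (nat_lit 312) (nat_lit 988) (nat_lit 0) (XT.nd (nat_lit 156) (nat_lit 456) (nat_lit 0) (XT.nd (nat_lit 78) (nat_lit 304) (nat_lit 0) (XT.lf (nat_lit 0) (nat_lit 2175105000) (nat_lit 304) (nat_lit 1538514686) (nat_lit 76) (nat_lit 3123995807) (nat_lit 57) (nat_lit 5) (nat_lit 61) (nat_lit 5) (nat_lit 58) (nat_lit 4) (nat_lit 267) (nat_lit 258) (nat_lit 255)) (XT.lf (nat_lit 0) (nat_lit 2624550897) (nat_lit 304) (nat_lit 2383369188) (nat_lit 380) (nat_lit 1964190619) (nat_lit 53) (nat_lit 5) (nat_lit 57) (nat_lit 5) (nat_lit 58) (nat_lit 4) (nat_lit 268) (nat_lit 258) (nat_lit 254))) (XT.nd (nat_lit 78) (nat_lit 380) (nat_lit 0) (XT.lf (nat_lit 0) (nat_lit 717833431) (nat_lit 380) (nat_lit 136032580) (nat_lit 76) (nat_lit 6277502151) (nat_lit 52) (nat_lit 5) (nat_lit 57) (nat_lit 5) (nat_lit 53) (nat_lit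 5) (nat_lit 269) (nat_lit 258) (nat_lit 253)) (XT.lf (nat_lit 0) (nat_lit 3426698358) (nat_lit 456) (nat_lit 2942398970) (nat_lit 76) (nat_lit 937696601) (nat_lit 47) (nat_lit 5) (nat_lit 53) (nat_lit 5) (nat_lit 48) (nat_lit 4) (nat_lit 270) (nat_lit 258) (nat_lit 252)))) (XT.nd (nat_lit 156) (nat_lit 456) (nat_lit 0) (XT.nd (nat_lit 78) (nat_lit 76) (nat_lit 0) (XT.lf (nat_lit 0) (nat_lit 1590572326) (nat_lit 456) (nat_lit 4626499789) (nat_lit 532) (nat_lit 1290905863) (nat_lit 41) (nat_lit 5) (nat_lit 47) (nat_lit 5) (nat_lit 48) (nat_lit 4) (nat_lit 271) (nat_lit 258) (nat_lit 251)) (XT.lf (nat_lit 0) (nat_lit 1317491521) (nat_lit 532) (nat_lit 1312861094) (nat_lit 76) (nat_lit 5101795964) (nat_lit 40) (nat_lit 5) (nat_lit 47) (nat_lit 5) (nat_lit 41) (nat_lit 5) (nat_lit 272) (nat_lit 258) (nat_lit 250))) (XT.nd (nat_lit 78) (nat_lit 228) (nat_lit 0) (XT.lf (nat_lit 0) (nat_lit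 3613517223) (nat_lit 228) (nat_lit 357502158) (nat_lit 304) (nat_lit 4008775907) (nat_lit 37) (nat_lit 5) (nat_lit 40) (nat_lit 5) (nat_lit 41) (nat_lit 5) (nat_lit 273) (nat_lit 258) (nat_lit 249)) (XT.lf (nat_lit 0) (nat_lit 536911511) (nat_lit 228) (nat_lit 6227826802) (nat_lit 304) (nat_lit 1488950264) (nat_lit 34) (nat_lit 5) (nat_lit 37) (nat_lit 5) (nat_lit 38) (nat_lit 4) (nat_lit 274) (nat_lit 258) (nat_lit 248)))))) (XT.nd (nat_lit 546) (nat_lit 608) (nat_lit 0) (XT.nd (nat_lit 234) (nat_lit 532) (nat_lit 0) (XT.nd (nat_lit 78) (nat_lit 228) (nat_lit 0) (XT.lf (nat_lit 0) (nat_lit 1133459274) (nat_lit 304) (nat_lit 2708506488) (nat_lit 76) (nat_lit 4708716579) (nat_lit 33) (nat_lit 5) (nat_lit 37) (nat_lit 5) (nat_lit 34) (nat_lit 5) (nat_lit 275) (nat_lit 258) (nat_lit 247)) (XT.nd (nat_lit 78) (nat_lit 0) (nat_lit 0) (XT.lf (nat_lit 0) (nat_lit 2599953834) (nat_lit 228)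 (nat_lit 1191204131) (nat_lit 304) (nat_lit 5085238570) (nat_lit 30) (nat_lit 5) (nat_lit 33) (nat_lit 5) (nat_lit 34) (nat_lit 5) (nat_lit 276) (nat_lit 258) (nat_lit 246)) (XT.lf (nat_lit 0) (nat_lit 6627263080) (nat_lit 304) (nat_lit 975791780) (nat_lit 76) (nat_lit 1628340431) (nat_lit 30) (nat_lit 5) (nat_lit 34) (nat_lit 5) (nat_lit 31) (nat_lit 4) (nat_lit 277) (nat_lit 258) (nat_lit 245)))) (XT.nd (nat_lit 156) (nat_lit 152) (nat_lit 0) (XT.nd (nat_lit 78) (nat_lit 152) (nat_lit 0) (XT.lf (nat_lit 0) (nat_lit 77902062) (nat_lit 228) (nat_lit 4843813395) (nat_lit 76) (nat_lit 4692856820) (nat_lit 27) (nat_lit 5) (nat_lit 30) (nat_lit 5) (nat_lit 28) (nat_lit 5) (nat_lit 278) (nat_lit 258) (nat_lit 244)) (XT.lf (nat_lit 0) (nat_lit 790682816) (nat_lit 152) (nat_lit 1952408401) (nat_lit 228) (nat_lit 7287547897) (nat_lit 25) (nat_lit 5) (nat_lit 27) (nat_lit 5) (nat_lit 28) (nat_lit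 5) (nat_lit 279) (nat_lit 258) (nat_lit 243))) (XT.nd (nat_lit 78) (nat_lit 152) (nat_lit 0) (XT.lf (nat_lit 0) (nat_lit 5654994418) (nat_lit 228) (nat_lit 3543308816) (nat_lit 76) (nat_lit 1279368808) (nat_lit 25) (nat_lit 5) (nat_lit 28) (nat_lit 5) (nat_lit 26) (nat_lit 4) (nat_lit 280) (nat_lit 258) (nat_lit 242)) (XT.lf (nat_lit 0) (nat_lit 2506216776) (nat_lit 152) (nat_lit 6281889134) (nat_lit 228) (nat_lit 2173635149) (nat_lit 23) (nat_lit 5) (nat_lit 25) (nat_lit 5) (nat_lit 26) (nat_lit 4) (nat_lit 281) (nat_lit 258) (nat_lit 241))))) (XT.nd (nat_lit 312) (nat_lit 304) (nat_lit 0) (XT.nd (nat_lit 156) (nat_lit 76) (nat_lit 0) (XT.nd (nat_lit 78) (nat_lit 152) (nat_lit 0) (XT.lf (nat_lit 0) (nat_lit 631190475) (nat_lit 228) (nat_lit 2434301286) (nat_lit 76) (nat_lit 8419748288) (nat_lit 22) (nat_lit 5) (nat_lit 25) (nat_lit 5) (nat_lit 23) (nat_lit 5) (nat_lit 282) (nat_lit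 258) (nat_lit 240)) (XT.lf (nat_lit 0) (nat_lit 3540661100) (nat_lit 228) (nat_lit 8011763542) (nat_lit 76) (nat_lit 494127426) (nat_lit 20) (nat_lit 5) (nat_lit 23) (nat_lit 5) (nat_lit 21) (nat_lit 4) (nat_lit 283) (nat_lit 258) (nat_lit 239))) (XT.nd (nat_lit 78) (nat_lit 76) (nat_lit 0) (XT.lf (nat_lit 0) (nat_lit 6721721319) (nat_lit 228) (nat_lit 1738671778) (nat_lit 76) (nat_lit 4189514854) (nat_lit 20) (nat_lit 5) (nat_lit 23) (nat_lit 5) (nat_lit 21) (nat_lit 4) (nat_lit 284) (nat_lit 258) (nat_lit 238)) (XT.lf (nat_lit 0) (nat_lit 5136043163) (nat_lit 76) (nat_lit 5043746900) (nat_lit 152) (nat_lit 3120167618) (nat_lit 19) (nat_lit 5) (nat_lit 20) (nat_lit 5) (nat_lit 21) (nat_lit 4) (nat_lit 285) (nat_lit 258) (nat_lit 237)))) (XT.nd (nat_lit 156) (nat_lit 76) (nat_lit 0) (XT.nd (nat_lit 78) (nat_lit 228) (nat_lit 0) (XT.lf (nat_lit 0) (nat_lit 12506443740) (nat_lit 76) (nat_lit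 1358398260) (nat_lit 152) (nat_lit 141352814) (nat_lit 19) (nat_lit 5) (nat_lit 20) (nat_lit 5) (nat_lit 21) (nat_lit 4) (nat_lit 286) (nat_lit 258) (nat_lit 236)) (XT.lf (nat_lit 0) (nat_lit 3035301222) (nat_lit 228) (nat_lit 9061684295) (nat_lit 76) (nat_lit 2657136326) (nat_lit 16) (nat_lit 5) (nat_lit 19) (nat_lit 5) (nat_lit 17) (nat_lit 4) (nat_lit 287) (nat_lit 258) (nat_lit 235))) (XT.nd (nat_lit 78) (nat_lit 76) (nat_lit 0) (XT.lf (nat_lit 0) (nat_lit 6445392237) (nat_lit 228) (nat_lit 2202484495) (nat_lit 76) (nat_lit 6914924326) (nat_lit 16) (nat_lit 5) (nat_lit 19) (nat_lit 5) (nat_lit 17) (nat_lit 4) (nat_lit 288) (nat_lit 258) (nat_lit 234)) (XT.lf (nat_lit 0) (nat_lit 5334181519) (nat_lit 76) (nat_lit 4838680805) (nat_lit 152) (nat_lit 6259901220) (nat_lit 15) (nat_lit 5) (nat_lit 16) (nat_lit 5) (nat_lit 17) (nat_lit 4) (nat_lit 289) (nat_lit 258) (nat_lit 233))))))))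
noncomputable def xc46 : XT := (XT.nd (nat_lit 2262) (nat_lit 228) (nat_lit 0) (XT.nd (nat_lit 1092) (nat_lit 228) (nat_lit 0) (XT.nd (nat_lit 546) (nat_lit 228) (nat_lit 0) (XT.nd (nat_lit 234) (nat_lit 152) (nat_lit 0) (XT.nd (nat_lit 78) (nat_lit 228) (nat_lit 0) (XT.lf (nat_lit 0) (nat_lit 13464427312) (nat_lit 76) (nat_lit 713570886) (nat_lit 152) (nat_lit 3196110601) (nat_lit 15) (nat_lit 5) (nat_lit 16) (nat_lit 5) (nat_lit 17) (nat_lit 4) (nat_lit 290) (nat_lit 258) (nat_lit 232)) (XT.nd (nat_lit 78) (nat_lit 0) (nat_lit 0) (XT.lf (nat_lit 0) (nat_lit 215804530) (nat_lit 228) (nat_lit 14561680827) (nat_lit 76) (nat_lit 3604489058) (nat_lit 12) (nat_lit 5) (nat_lit 15) (nat_lit 5) (nat_lit 13) (nat_lit 4) (nat_lit 291) (nat_lit 258) (nat_lit 231)) (XT.lf (nat_lit 0) (nat_lit 3780806827) (nat_lit 228) (nat_lit 7305589262) (nat_lit 76) (nat_lit 8373321062) (nat_lit 12) (nat_lit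 5) (nat_lit 15) (nat_lit 5) (nat_lit 13) (nat_lit 4) (nat_lit 292) (nat_lit 258) (nat_lit 230)))) (XT.nd (nat_lit 156) (nat_lit 76) (nat_lit 0) (XT.nd (nat_lit 78) (nat_lit 0) (nat_lit 0) (XT.lf (nat_lit 0) (nat_lit 431892040) (nat_lit 76) (nat_lit 7139688032) (nat_lit 152) (nat_lit 13056958844) (nat_lit 11) (nat_lit 5) (nat_lit 12) (nat_lit 5) (nat_lit 13) (nat_lit 4) (nat_lit 293) (nat_lit 258) (nat_lit 229)) (XT.lf (nat_lit 0) (nat_lit 9086200369) (nat_lit 76) (nat_lit 2711688483) (nat_lit 152) (nat_lit 10082493151) (nat_lit 11) (nat_lit 5) (nat_lit 12) (nat_lit 5) (nat_lit 13) (nat_lit 4) (nat_lit 294) (nat_lit 258) (nat_lit 228))) (XT.nd (nat_lit 78) (nat_lit 76) (nat_lit 0) (XT.lf (nat_lit 0) (nat_lit 16348505861) (nat_lit 152) (nat_lit 4962219271) (nat_lit 0) (nat_lit 1922841376) (nat_lit 11) (nat_lit 5) (nat_lit 13) (nat_lit 4) (nat_lit 11) (nat_lit 4) (nat_lit 295) (nat_lit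 258) (nat_lit 227)) (XT.lf (nat_lit 0) (nat_lit 3496221693) (nat_lit 76) (nat_lit 17862585555) (nat_lit 76) (nat_lit 3328631292) (nat_lit 10) (nat_lit 4) (nat_lit 11) (nat_lit 5) (nat_lit 11) (nat_lit 4) (nat_lit 296) (nat_lit 258) (nat_lit 226))))) (XT.nd (nat_lit 234) (nat_lit 76) (nat_lit 0) (XT.nd (nat_lit 78) (nat_lit 76) (nat_lit 0) (XT.lf (nat_lit 0) (nat_lit 567359574) (nat_lit 152) (nat_lit 13454114662) (nat_lit 76) (nat_lit 12228778048) (nat_lit 9) (nat_lit 5) (nat_lit 11) (nat_lit 5) (nat_lit 10) (nat_lit 4) (nat_lit 297) (nat_lit 258) (nat_lit 225)) (XT.nd (nat_lit 78) (nat_lit 76) (nat_lit 0) (XT.lf (nat_lit 0) (nat_lit 4541007520) (nat_lit 152) (nat_lit 5281767964) (nat_lit 76) (nat_lit 18112800516) (nat_lit 9) (nat_lit 5) (nat_lit 11) (nat_lit 5) (nat_lit 10) (nat_lit 4) (nat_lit 298) (nat_lit 258) (nat_lit 224)) (XT.lf (nat_lit 0) (nat_lit 3636203242) (nat_lit 76) (nat_lit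 5233619242) (nat_lit 152) (nat_lit 20882982542) (nat_lit 8) (nat_lit 5) (nat_lit 9) (nat_lit 5) (nat_lit 10) (nat_lit 4) (nat_lit 299) (nat_lit 258) (nat_lit 223)))) (XT.nd (nat_lit 156) (nat_lit 76) (nat_lit 0) (XT.nd (nat_lit 78) (nat_lit 0) (nat_lit 0) (XT.lf (nat_lit 0) (nat_lit 13480210151) (nat_lit 76) (nat_lit 160575376) (nat_lit 152) (nat_lit 18067016290) (nat_lit 8) (nat_lit 5) (nat_lit 9) (nat_lit 5) (nat_lit 10) (nat_lit 4) (nat_lit 300) (nat_lit 258) (nat_lit 222)) (XT.lf (nat_lit 0) (nat_lit 18875485742) (nat_lit 152) (nat_lit 9919422080) (nat_lit 0) (nat_lit 5017778381) (nat_lit 8) (nat_lit 5) (nat_lit 10) (nat_lit 4) (nat_lit 8) (nat_lit 4) (nat_lit 301) (nat_lit 258) (nat_lit 221))) (XT.nd (nat_lit 78) (nat_lit 76) (nat_lit 0) (XT.lf (nat_lit 0) (nat_lit 24490683316) (nat_lit 152) (nat_lit 1028599169) (nat_lit 0) (nat_lit 10569789910) (nat_lit 8) (nat_lit 5) (nat_lit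 10) (nat_lit 4) (nat_lit 8) (nat_lit 4) (nat_lit 302) (nat_lit 258) (nat_lit 220)) (XT.lf (nat_lit 0) (nat_lit 8949095255) (nat_lit 76) (nat_lit 21781922353) (nat_lit 76) (nat_lit 7802523349) (nat_lit 7) (nat_lit 4) (nat_lit 8) (nat_lit 5) (nat_lit 8) (nat_lit 4) (nat_lit 303) (nat_lit 258) (nat_lit 219)))))) (XT.nd (nat_lit 546) (nat_lit 76) (nat_lit 0) (XT.nd (nat_lit 234) (nat_lit 76) (nat_lit 0) (XT.nd (nat_lit 78) (nat_lit 76) (nat_lit 0) (XT.lf (nat_lit 0) (nat_lit 19713262683) (nat_lit 76) (nat_lit 17747356855) (nat_lit 76) (nat_lit 3713786001) (nat_lit 7) (nat_lit 4) (nat_lit 8) (nat_lit 5) (nat_lit 8) (nat_lit 4) (nat_lit 304) (nat_lit 258) (nat_lit 218)) (XT.nd (nat_lit 78) (nat_lit 0) (nat_lit 0) (XT.lf (nat_lit 0) (nat_lit 630716389) (nat_lit 152) (nat_lit 12771839883) (nat_lit 76) (nat_lit 30625565273) (nat_lit 6) (nat_lit 5) (nat_lit 8) (nat_lit 5) (nat_lit 7) (nat_lit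 4) (nat_lit 305) (nat_lit 258) (nat_lit 217)) (XT.lf (nat_lit 0) (nat_lit 5088606080) (nat_lit 152) (nat_lit 3545872957) (nat_lit 76) (nat_lit 38470654582) (nat_lit 6) (nat_lit 5) (nat_lit 8) (nat_lit 5) (nat_lit 7) (nat_lit 4) (nat_lit 306) (nat_lit 258) (nat_lit 216)))) (XT.nd (nat_lit 156) (nat_lit 0) (nat_lit 0) (XT.nd (nat_lit 78) (nat_lit 0) (nat_lit 0) (XT.lf (nat_lit 0) (nat_lit 6695692623) (nat_lit 76) (nat_lit 3337417755) (nat_lit 152) (nat_lit 40384828334) (nat_lit 5) (nat_lit 5) (nat_lit 6) (nat_lit 5) (nat_lit 7) (nat_lit 4) (nat_lit 307) (nat_lit 258) (nat_lit 215)) (XT.lf (nat_lit 0) (nat_lit 15499248006) (nat_lit 152) (nat_lit 36147395270) (nat_lit 0) (nat_lit 2339067550) (nat_lit 5) (nat_lit 5) (nat_lit 7) (nat_lit 4) (nat_lit 5) (nat_lit 4) (nat_lit 308) (nat_lit 258) (nat_lit 214))) (XT.nd (nat_lit 78) (nat_lit 0) (nat_lit 0) (XT.lf (nat_lit 0) (nat_lit 21460921438)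 (nat_lit 152) (nat_lit 28106746503) (nat_lit 0) (nat_lit 8266603528) (nat_lit 5) (nat_lit 5) (nat_lit 7) (nat_lit 4) (nat_lit 5) (nat_lit 4) (nat_lit 309) (nat_lit 258) (nat_lit 213)) (XT.lf (nat_lit 0) (nat_lit 27873194134) (nat_lit 152) (nat_lit 19472386521) (nat_lit 0) (nat_lit 14647267470) (nat_lit 5) (nat_lit 5) (nat_lit 7) (nat_lit 4) (nat_lit 5) (nat_lit 4) (nat_lit 310) (nat_lit 258) (nat_lit 212))))) (XT.nd (nat_lit 312) (nat_lit 0) (nat_lit 0) (XT.nd (nat_lit 156) (nat_lit 76) (nat_lit 0) (XT.nd (nat_lit 78) (nat_lit 0) (nat_lit 0) (XT.lf (nat_lit 0) (nat_lit 34774064746) (nat_lit 152) (nat_lit 10193148748) (nat_lit 0) (nat_lit 21518870717) (nat_lit 5) (nat_lit 5) (nat_lit 7) (nat_lit 4) (nat_lit 5) (nat_lit 4) (nat_lit 311) (nat_lit 258) (nat_lit 211)) (XT.lf (nat_lit 0) (nat_lit 42204427323) (nat_lit 152) (nat_lit 214045108) (nat_lit 0) (nat_lit 28922133882) (nat_lit 5)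 (nat_lit 5) (nat_lit 7) (nat_lit 4) (nat_lit 5) (nat_lit 4) (nat_lit 312) (nat_lit 258) (nat_lit 210))) (XT.nd (nat_lit 78) (nat_lit 0) (nat_lit 0) (XT.lf (nat_lit 0) (nat_lit 11078238168) (nat_lit 76) (nat_lit 39396507369) (nat_lit 76) (nat_lit 26089121879) (nat_lit 4) (nat_lit 4) (nat_lit 5) (nat_lit 5) (nat_lit 5) (nat_lit 4) (nat_lit 313) (nat_lit 258) (nat_lit 209)) (XT.lf (nat_lit 0) (nat_lit 23247745668) (nat_lit 76) (nat_lit 36144517317) (nat_lit 76) (nat_lit 22813898450) (nat_lit 4) (nat_lit 4) (nat_lit 5) (nat_lit 5) (nat_lit 5) (nat_lit 4) (nat_lit 314) (nat_lit 258) (nat_lit 208)))) (XT.nd (nat_lit 156) (nat_lit 0) (nat_lit 0) (XT.nd (nat_lit 78) (nat_lit 0) (nat_lit 0) (XT.lf (nat_lit 0) (nat_lit 36355321754) (nat_lit 76) (nat_lit 32649083597) (nat_lit 76) (nat_lit 19296952343) (nat_lit 4) (nat_lit 4) (nat_lit 5) (nat_lit 5) (nat_lit 5) (nat_lit 4) (nat_lit 315) (nat_lit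 258) (nat_lit 207)) (XT.lf (nat_lit 0) (nat_lit 50478640951) (nat_lit 76) (nat_lit 28889492528) (nat_lit 76) (nat_lit 15517442397) (nat_lit 4) (nat_lit 4) (nat_lit 5) (nat_lit 5) (nat_lit 5) (nat_lit 4) (nat_lit 316) (nat_lit 258) (nat_lit 206))) (XT.nd (nat_lit 78) (nat_lit 0) (nat_lit 0) (XT.lf (nat_lit 0) (nat_lit 65701397004) (nat_lit 76) (nat_lit 24843465051) (nat_lit 76) (nat_lit 11452971515) (nat_lit 4) (nat_lit 4) (nat_lit 5) (nat_lit 5) (nat_lit 5) (nat_lit 4) (nat_lit 317) (nat_lit 258) (nat_lit 205)) (XT.lf (nat_lit 0) (nat_lit 82113798835) (nat_lit 76) (nat_lit 20487024707) (nat_lit 76) (nat_lit 7079453945) (nat_lit 4) (nat_lit 4) (nat_lit 5) (nat_lit 5) (nat_lit 5) (nat_lit 4) (nat_lit 318) (nat_lit 258) (nat_lit 204))))))) (XT.nd (nat_lit 1170) (nat_lit 76) (nat_lit 0) (XT.nd (nat_lit 546) (nat_lit 0) (nat_lit 0) (XT.nd (nat_lit 234) (nat_lit 0) (nat_lit 0) (XT.nd (nat_lit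 78) (nat_lit 152) (nat_lit 0) (XT.lf (nat_lit 0) (nat_lit 99813105124) (nat_lit 76) (nat_lit 15794355553) (nat_lit 76) (nat_lit 2370972545) (nat_lit 4) (nat_lit 4) (nat_lit 5) (nat_lit 5) (nat_lit 5) (nat_lit 4) (nat_lit 319) (nat_lit 258) (nat_lit 203)) (XT.nd (nat_lit 78) (nat_lit 76) (nat_lit 0) (XT.lf (nat_lit 0) (nat_lit 2565291112) (nat_lit 152) (nat_lit 8102218463) (nat_lit 76) (nat_lit 116268769930) (nat_lit 3) (nat_lit 5) (nat_lit 5) (nat_lit 5) (nat_lit 4) (nat_lit 4) (nat_lit 320) (nat_lit 258) (nat_lit 202)) (XT.lf (nat_lit 0) (nat_lit 2822535440) (nat_lit 76) (nat_lit 5001558728) (nat_lit 152) (nat_lit 128777283721) (nat_lit 2) (nat_lit 5) (nat_lit 3) (nat_lit 5) (nat_lit 4) (nat_lit 4) (nat_lit 321) (nat_lit 258) (nat_lit 201)))) (XT.nd (nat_lit 156) (nat_lit 0) (nat_lit 0) (XT.nd (nat_lit 78) (nat_lit 0) (nat_lit 0) (XT.lf (nat_lit 0) (nat_lit 13745719274) (nat_lit 152)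 (nat_lit 131995674678) (nat_lit 0) (nat_lit 1278929735) (nat_lit 2) (nat_lit 5) (nat_lit 4) (nat_lit 4) (nat_lit 2) (nat_lit 4) (nat_lit 322) (nat_lit 258) (nat_lit 200)) (XT.lf (nat_lit 0) (nat_lit 20259832084) (nat_lit 152) (nat_lit 130221179758) (nat_lit 0) (nat_lit 7782280997) (nat_lit 2) (nat_lit 5) (nat_lit 4) (nat_lit 4) (nat_lit 2) (nat_lit 4) (nat_lit 323) (nat_lit 258) (nat_lit 199))) (XT.nd (nat_lit 78) (nat_lit 0) (nat_lit 0) (XT.lf (nat_lit 0) (nat_lit 27284747143) (nat_lit 152) (nat_lit 128324554555) (nat_lit 0) (nat_lit 14797231657) (nat_lit 2) (nat_lit 5) (nat_lit 4) (nat_lit 4) (nat_lit 2) (nat_lit 4) (nat_lit 324) (nat_lit 258) (nat_lit 198)) (XT.lf (nat_lit 0) (nat_lit 34862093574) (nat_lit 152) (nat_lit 126294559809) (nat_lit 0) (nat_lit 22365351795) (nat_lit 2) (nat_lit 5) (nat_lit 4) (nat_lit 4) (nat_lit 2) (nat_lit 4) (nat_lit 325) (nat_lit 258) (nat_lit 197)))))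 (XT.nd (nat_lit 312) (nat_lit 0) (nat_lit 0) (XT.nd (nat_lit 156) (nat_lit 0) (nat_lit 0) (XT.nd (nat_lit 78) (nat_lit 0) (nat_lit 0) (XT.lf (nat_lit 0) (nat_lit 43036774174) (nat_lit 152) (nat_lit 124119165921) (nat_lit 0) (nat_lit 30531489530) (nat_lit 2) (nat_lit 5) (nat_lit 4) (nat_lit 4) (nat_lit 2) (nat_lit 4) (nat_lit 326) (nat_lit 258) (nat_lit 196)) (XT.lf (nat_lit 0) (nat_lit 51857231492) (nat_lit 152) (nat_lit 121785481669) (nat_lit 0) (nat_lit 39344036788) (nat_lit 2) (nat_lit 5) (nat_lit 4) (nat_lit 4) (nat_lit 2) (nat_lit 4) (nat_lit 327) (nat_lit 258) (nat_lit 195))) (XT.nd (nat_lit 78) (nat_lit 0) (nat_lit 0) (XT.lf (nat_lit 0) (nat_lit 61375734906) (nat_lit 152) (nat_lit 119279677813) (nat_lit 0) (nat_lit 48855216072) (nat_lit 2) (nat_lit 5) (nat_lit 4) (nat_lit 4) (nat_lit 2) (nat_lit 4) (nat_lit 328) (nat_lit 258) (nat_lit 194)) (XT.lf (nat_lit 0) (nat_lit 71648690361)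 (nat_lit 152) (nat_lit 116586905143) (nat_lit 0) (nat_lit 59121389926) (nat_lit 2) (nat_lit 5) (nat_lit 4) (nat_lit 4) (nat_lit 2) (nat_lit 4) (nat_lit 329) (nat_lit 258) (nat_lit 193)))) (XT.nd (nat_lit 156) (nat_lit 0) (nat_lit 0) (XT.nd (nat_lit 78) (nat_lit 0) (nat_lit 0) (XT.lf (nat_lit 0) (nat_lit 82736974632) (nat_lit 152) (nat_lit 113691206490) (nat_lit 0) (nat_lit 70203394936) (nat_lit 2) (nat_lit 5) (nat_lit 4) (nat_lit 4) (nat_lit 2) (nat_lit 4) (nat_lit 330) (nat_lit 258) (nat_lit 192)) (XT.lf (nat_lit 0) (nat_lit 94706296069) (nat_lit 152) (nat_lit 110575422157) (nat_lit 0) (nat_lit 82166902243) (nat_lit 2) (nat_lit 5) (nat_lit 4) (nat_lit 4) (nat_lit 2) (nat_lit 4) (nat_lit 331) (nat_lit 258) (nat_lit 191))) (XT.nd (nat_lit 78) (nat_lit 0) (nat_lit 0) (XT.lf (nat_lit 0) (nat_lit 107627583984) (nat_lit 152) (nat_lit 107221088237) (nat_lit 0) (nat_lit 95082806704) (nat_lit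 2) (nat_lit 5) (nat_lit 4) (nat_lit 4) (nat_lit 2) (nat_lit 4) (nat_lit 332) (nat_lit 258) (nat_lit 190)) (XT.lf (nat_lit 0) (nat_lit 121577408973) (nat_lit 152) (nat_lit 103608327196) (nat_lit 0) (nat_lit 109027647013) (nat_lit 2) (nat_lit 5) (nat_lit 4) (nat_lit 4) (nat_lit 2) (nat_lit 4) (nat_lit 333) (nat_lit 258) (nat_lit 189)))))) (XT.nd (nat_lit 546) (nat_lit 76) (nat_lit 0) (XT.nd (nat_lit 234) (nat_lit 0) (nat_lit 0) (XT.nd (nat_lit 78) (nat_lit 0) (nat_lit 0) (XT.lf (nat_lit 0) (nat_lit 136638436664) (nat_lit 152) (nat_lit 99715730079) (nat_lit 0) (nat_lit 124084059261) (nat_lit 2) (nat_lit 5) (nat_lit 4) (nat_lit 4) (nat_lit 2) (nat_lit 4) (nat_lit 334) (nat_lit 258) (nat_lit 188)) (XT.nd (nat_lit 78) (nat_lit 0) (nat_lit 0) (XT.lf (nat_lit 0) (nat_lit 152899917594) (nat_lit 152) (nat_lit 95520229644) (nat_lit 0) (nat_lit 140341266631) (nat_lit 2) (nat_lit 5) (nat_lit 4)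 (nat_lit 4) (nat_lit 2) (nat_lit 4) (nat_lit 335) (nat_lit 258) (nat_lit 187)) (XT.lf (nat_lit 0) (nat_lit 170458216092) (nat_lit 152) (nat_lit 90996963667) (nat_lit 0) (nat_lit 157895608129) (nat_lit 2) (nat_lit 5) (nat_lit 4) (nat_lit 4) (nat_lit 2) (nat_lit 4) (nat_lit 336) (nat_lit 258) (nat_lit 186)))) (XT.nd (nat_lit 156) (nat_lit 0) (nat_lit 0) (XT.nd (nat_lit 78) (nat_lit 0) (nat_lit 0) (XT.lf (nat_lit 0) (nat_lit 189417381335) (nat_lit 152) (nat_lit 86119127609) (nat_lit 0) (nat_lit 176851109484) (nat_lit 2) (nat_lit 5) (nat_lit 4) (nat_lit 4) (nat_lit 2) (nat_lit 4) (nat_lit 337) (nat_lit 258) (nat_lit 185)) (XT.lf (nat_lit 0) (nat_lit 209889763932) (nat_lit 152) (nat_lit 80857815773) (nat_lit 0) (nat_lit 197320099592) (nat_lit 2) (nat_lit 5) (nat_lit 4) (nat_lit 4) (nat_lit 2) (nat_lit 4) (nat_lit 338) (nat_lit 258) (nat_lit 184))) (XT.nd (nat_lit 78) (nat_lit 0) (nat_lit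 0) (XT.lf (nat_lit 0) (nat_lit 231996681706) (nat_lit 152) (nat_lit 75181850017) (nat_lit 0) (nat_lit 219423876173) (nat_lit 2) (nat_lit 5) (nat_lit 4) (nat_lit 4) (nat_lit 2) (nat_lit 4) (nat_lit 339) (nat_lit 258) (nat_lit 183)) (XT.lf (nat_lit 0) (nat_lit 255869138615) (nat_lit 152) (nat_lit 69057594987) (nat_lit 0) (nat_lit 243293424568) (nat_lit 2) (nat_lit 5) (nat_lit 4) (nat_lit 4) (nat_lit 2) (nat_lit 4) (nat_lit 340) (nat_lit 258) (nat_lit 182))))) (XT.nd (nat_lit 312) (nat_lit 76) (nat_lit 0) (XT.nd (nat_lit 156) (nat_lit 0) (nat_lit 0) (XT.nd (nat_lit 78) (nat_lit 0) (nat_lit 0) (XT.lf (nat_lit 0) (nat_lit 281648601068) (nat_lit 152) (nat_lit 62448758801) (nat_lit 0) (nat_lit 269070193955) (nat_lit 2) (nat_lit 5) (nat_lit 4) (nat_lit 4) (nat_lit 2) (nat_lit 4) (nat_lit 341) (nat_lit 258) (nat_lit 181)) (XT.lf (nat_lit 0) (nat_lit 309487836252) (nat_lit 152) (nat_lit 55316177987)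 (nat_lit 0) (nat_lit 296906935558) (nat_lit 2) (nat_lit 5) (nat_lit 4) (nat_lit 4) (nat_lit 2) (nat_lit 4) (nat_lit 342) (nat_lit 258) (nat_lit 180))) (XT.nd (nat_lit 78) (nat_lit 0) (nat_lit 0) (XT.lf (nat_lit 0) (nat_lit 339551817411) (nat_lit 152) (nat_lit 47617585398) (nat_lit 0) (nat_lit 326968607846) (nat_lit 2) (nat_lit 5) (nat_lit 4) (nat_lit 4) (nat_lit 2) (nat_lit 4) (nat_lit 343) (nat_lit 258) (nat_lit 179)) (XT.lf (nat_lit 0) (nat_lit 372018701472) (nat_lit 152) (nat_lit 39307359745) (nat_lit 0) (nat_lit 359433354063) (nat_lit 2) (nat_lit 5) (nat_lit 4) (nat_lit 4) (nat_lit 2) (nat_lit 4) (nat_lit 344) (nat_lit 258) (nat_lit 178)))) (XT.nd (nat_lit 156) (nat_lit 76) (nat_lit 0) (XT.nd (nat_lit 78) (nat_lit 0) (nat_lit 0) (XT.lf (nat_lit 0) (nat_lit 407080884784) (nat_lit 152) (nat_lit 30336255247) (nat_lit 0) (nat_lit 394493557890) (nat_lit 2) (nat_lit 5) (nat_lit 4) (nat_lit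 4) (nat_lit 2) (nat_lit 4) (nat_lit 345) (nat_lit 258) (nat_lit 177)) (XT.lf (nat_lit 0) (nat_lit 444946143248) (nat_lit 152) (nat_lit 20651109802) (nat_lit 0) (nat_lit 432356983498) (nat_lit 2) (nat_lit 5) (nat_lit 4) (nat_lit 4) (nat_lit 2) (nat_lit 4) (nat_lit 346) (nat_lit 258) (nat_lit 176))) (XT.nd (nat_lit 78) (nat_lit 76) (nat_lit 0) (XT.lf (nat_lit 0) (nat_lit 485838863581) (nat_lit 152) (nat_lit 10194529956) (nat_lit 0) (nat_lit 473248006742) (nat_lit 2) (nat_lit 5) (nat_lit 4) (nat_lit 4) (nat_lit 2) (nat_lit 4) (nat_lit 347) (nat_lit 258) (nat_lit 175)) (XT.lf (nat_lit 0) (nat_lit 1153133621) (nat_lit 76) (nat_lit 528875972285) (nat_lit 76) (nat_lit 516283544067) (nat_lit 1) (nat_lit 4) (nat_lit 2) (nat_lit 5) (nat_lit 2) (nat_lit 4) (nat_lit 348) (nat_lit 258) (nat_lit 174))))))))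
noncomputable def xc47 : XT := (XT.nd (nat_lit 34710) (nat_lit 0) (nat_lit 532) (XT.nd (nat_lit 1092) (nat_lit 0) (nat_lit 0) (XT.nd (nat_lit 546) (nat_lit 0) (nat_lit 0) (XT.nd (nat_lit 234) (nat_lit 0) (nat_lit 0) (XT.nd (nat_lit 78) (nat_lit 0) (nat_lit 0) (XT.lf (nat_lit 0) (nat_lit 13985334334) (nat_lit 76) (nat_lit 564046388602) (nat_lit 76) (nat_lit 551452505403) (nat_lit 1) (nat_lit 4) (nat_lit 2) (nat_lit 5) (nat_lit 2) (nat_lit 4) (nat_lit 349) (nat_lit 258) (nat_lit 173)) (XT.nd (nat_lit 78) (nat_lit 0) (nat_lit 0) (XT.lf (nat_lit 0) (nat_lit 27841288972) (nat_lit 76) (nat_lit 602031796285) (nat_lit 76) (nat_lit 589436565882) (nat_lit 1) (nat_lit 4) (nat_lit 2) (nat_lit 5) (nat_lit 2) (nat_lit 4) (nat_lit 350) (nat_lit 258) (nat_lit 172)) (XT.lf (nat_lit 0) (nat_lit 42803106896) (nat_lit 76) (nat_lit 643057294048) (nat_lit 76) (nat_lit 630460816233) (nat_lit 1) (nat_lit 4)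 (nat_lit 2) (nat_lit 5) (nat_lit 2) (nat_lit 4) (nat_lit 351) (nat_lit 258) (nat_lit 171)))) (XT.nd (nat_lit 156) (nat_lit 0) (nat_lit 0) (XT.nd (nat_lit 78) (nat_lit 0) (nat_lit 0) (XT.lf (nat_lit 0) (nat_lit 58959450730) (nat_lit 76) (nat_lit 687365995950) (nat_lit 76) (nat_lit 674768363125) (nat_lit 1) (nat_lit 4) (nat_lit 2) (nat_lit 5) (nat_lit 2) (nat_lit 4) (nat_lit 352) (nat_lit 258) (nat_lit 170)) (XT.lf (nat_lit 0) (nat_lit 76406061770) (nat_lit 76) (nat_lit 735220472077) (nat_lit 76) (nat_lit 722621769799) (nat_lit 1) (nat_lit 4) (nat_lit 2) (nat_lit 5) (nat_lit 2) (nat_lit 4) (nat_lit 353) (nat_lit 258) (nat_lit 169))) (XT.nd (nat_lit 78) (nat_lit 0) (nat_lit 0) (XT.lf (nat_lit 0) (nat_lit 95246327343) (nat_lit 76) (nat_lit 786904304511) (nat_lit 76) (nat_lit 774304611997) (nat_lit 1) (nat_lit 4) (nat_lit 2) (nat_lit 5) (nat_lit 2) (nat_lit 4) (nat_lit 354) (nat_lit 258)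 (nat_lit 168)) (XT.lf (nat_lit 0) (nat_lit 115591893466) (nat_lit 76) (nat_lit 842723767812) (nat_lit 76) (nat_lit 830123158414) (nat_lit 1) (nat_lit 4) (nat_lit 2) (nat_lit 5) (nat_lit 2) (nat_lit 4) (nat_lit 355) (nat_lit 258) (nat_lit 167))))) (XT.nd (nat_lit 234) (nat_lit 0) (nat_lit 0) (XT.nd (nat_lit 78) (nat_lit 0) (nat_lit 0) (XT.lf (nat_lit 0) (nat_lit 137563326456) (nat_lit 76) (nat_lit 903009643987) (nat_lit 76) (nat_lit 890408185622) (nat_lit 1) (nat_lit 4) (nat_lit 2) (nat_lit 5) (nat_lit 2) (nat_lit 4) (nat_lit 356) (nat_lit 258) (nat_lit 166)) (XT.nd (nat_lit 78) (nat_lit 0) (nat_lit 0) (XT.lf (nat_lit 0) (nat_lit 161290827399) (nat_lit 76) (nat_lit 968119182672) (nat_lit 76) (nat_lit 955516938226) (nat_lit 1) (nat_lit 4) (nat_lit 2) (nat_lit 5) (nat_lit 2) (nat_lit 4) (nat_lit 357) (nat_lit 258) (nat_lit 165)) (XT.lf (nat_lit 0) (nat_lit 186915003706) (nat_lit 76) (nat_lit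 1038438218170) (nat_lit 76) (nat_lit 1025835245871) (nat_lit 1) (nat_lit 4) (nat_lit 2) (nat_lit 5) (nat_lit 2) (nat_lit 4) (nat_lit 358) (nat_lit 258) (nat_lit 164)))) (XT.nd (nat_lit 156) (nat_lit 0) (nat_lit 0) (XT.nd (nat_lit 78) (nat_lit 0) (nat_lit 0) (XT.lf (nat_lit 0) (nat_lit 214587702350) (nat_lit 76) (nat_lit 1114383455876) (nat_lit 76) (nat_lit 1101779809640) (nat_lit 1) (nat_lit 4) (nat_lit 2) (nat_lit 5) (nat_lit 2) (nat_lit 4) (nat_lit 359) (nat_lit 258) (nat_lit 163)) (XT.lf (nat_lit 0) (nat_lit 244472909691) (nat_lit 76) (nat_lit 1196404941645) (nat_lit 76) (nat_lit 1183800671392) (nat_lit 1) (nat_lit 4) (nat_lit 2) (nat_lit 5) (nat_lit 2) (nat_lit 4) (nat_lit 360) (nat_lit 258) (nat_lit 162))) (XT.nd (nat_lit 78) (nat_lit 0) (nat_lit 0) (XT.lf (nat_lit 0) (nat_lit 276747723256) (nat_lit 76) (nat_lit 1284988728724) (nat_lit 76) (nat_lit 1272383880679) (nat_lit 1) (nat_lit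 4) (nat_lit 2) (nat_lit 5) (nat_lit 2) (nat_lit 4) (nat_lit 361) (nat_lit 258) (nat_lit 161)) (XT.lf (nat_lit 0) (nat_lit 311603401199) (nat_lit 76) (nat_lit 1380659758074) (nat_lit 76) (nat_lit 1368054375036) (nat_lit 1) (nat_lit 4) (nat_lit 2) (nat_lit 5) (nat_lit 2) (nat_lit 4) (nat_lit 362) (nat_lit 258) (nat_lit 160)))))) (XT.nd (nat_lit 32994) (nat_lit 0) (nat_lit 2964) (XT.nd (nat_lit 234) (nat_lit 0) (nat_lit 0) (XT.nd (nat_lit 78) (nat_lit 0) (nat_lit 0) (XT.lf (nat_lit 0) (nat_lit 349246495684) (nat_lit 76) (nat_lit 1483984969128) (nat_lit 76) (nat_lit 1471379090726) (nat_lit 1) (nat_lit 4) (nat_lit 2) (nat_lit 5) (nat_lit 2) (nat_lit 4) (nat_lit 363) (nat_lit 258) (nat_lit 159)) (XT.nd (nat_lit 78) (nat_lit 0) (nat_lit 0) (XT.lf (nat_lit 0) (nat_lit 389900076903) (nat_lit 76) (nat_lit 1595576659434) (nat_lit 76) (nat_lit 1582970322361) (nat_lit 1) (nat_lit 4) (nat_lit 2)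 (nat_lit 5) (nat_lit 2) (nat_lit 4) (nat_lit 364) (nat_lit 258) (nat_lit 158)) (XT.lf (nat_lit 0) (nat_lit 433805054965) (nat_lit 76) (nat_lit 1716096113082) (nat_lit 76) (nat_lit 1703489351314) (nat_lit 1) (nat_lit 4) (nat_lit 2) (nat_lit 5) (nat_lit 2) (nat_lit 4) (nat_lit 365) (nat_lit 258) (nat_lit 157)))) (XT.nd (nat_lit 32604) (nat_lit 0) (nat_lit 4560) (XT.nd (nat_lit 32526) (nat_lit 0) (nat_lit 4864) (XT.lf (nat_lit 0) (nat_lit 481221607518) (nat_lit 76) (nat_lit 1846257519427) (nat_lit 76) (nat_lit 1833650364424) (nat_lit 1) (nat_lit 4) (nat_lit 2) (nat_lit 5) (nat_lit 2) (nat_lit 4) (nat_lit 366) (nat_lit 258) (nat_lit 156)) (XT.lf (nat_lit 0) (nat_lit 1561817445) (nat_lit 76) (nat_lit 111018215) (nat_lit 0) (nat_lit 1561817445) (nat_lit 65) (nat_lit 5) (nat_lit 66) (nat_lit 0) (nat_lit 65) (nat_lit 4) (nat_lit 262) (nat_lit 259) (nat_lit 259))) (XT.nd (nat_lit 78) (nat_lit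 228) (nat_lit 0) (XT.lf (nat_lit 0) (nat_lit 3206898979) (nat_lit 76) (nat_lit 2921766151) (nat_lit 76) (nat_lit 381019037) (nat_lit 64) (nat_lit 4) (nat_lit 65) (nat_lit 5) (nat_lit 65) (nat_lit 4) (nat_lit 263) (nat_lit 259) (nat_lit 258)) (XT.lf (nat_lit 0) (nat_lit 123192371) (nat_lit 152) (nat_lit 2288578354) (nat_lit 228) (nat_lit 4159209529) (nat_lit 61) (nat_lit 5) (nat_lit 63) (nat_lit 5) (nat_lit 64) (nat_lit 4) (nat_lit 264) (nat_lit 259) (nat_lit 257))))) (XT.nd (nat_lit 312) (nat_lit 988) (nat_lit 0) (XT.nd (nat_lit 156) (nat_lit 304) (nat_lit 0) (XT.nd (nat_lit 78) (nat_lit 304) (nat_lit 0) (XT.lf (nat_lit 0) (nat_lit 3820402774) (nat_lit 152) (nat_lit 1416123498) (nat_lit 228) (nat_lit 1415088311) (nat_lit 61) (nat_lit 5) (nat_lit 63) (nat_lit 5) (nat_lit 64) (nat_lit 4) (nat_lit 265) (nat_lit 259) (nat_lit 256)) (XT.lf (nat_lit 0) (nat_lit 901160629) (nat_lit 228) (nat_lit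 342367087) (nat_lit 304) (nat_lit 5511732497) (nat_lit 57) (nat_lit 5) (nat_lit 60) (nat_lit 5) (nat_lit 61) (nat_lit 5) (nat_lit 266) (nat_lit 259) (nat_lit 255))) (XT.nd (nat_lit 78) (nat_lit 304) (nat_lit 0) (XT.lf (nat_lit 0) (nat_lit 3903827935) (nat_lit 304) (nat_lit 2024504399) (nat_lit 76) (nat_lit 947924589) (nat_lit 57) (nat_lit 5) (nat_lit 61) (nat_lit 5) (nat_lit 58) (nat_lit 4) (nat_lit 267) (nat_lit 259) (nat_lit 254)) (XT.lf (nat_lit 0) (nat_lit 2020087134) (nat_lit 304) (nat_lit 4598016375) (nat_lit 380) (nat_lit 402681815) (nat_lit 53) (nat_lit 5) (nat_lit 57) (nat_lit 5) (nat_lit 58) (nat_lit 4) (nat_lit 268) (nat_lit 259) (nat_lit 253)))) (XT.nd (nat_lit 156) (nat_lit 532) (nat_lit 0) (XT.nd (nat_lit 78) (nat_lit 380) (nat_lit 0) (XT.lf (nat_lit 0) (nat_lit 2099823809) (nat_lit 380) (nat_lit 918539174) (nat_lit 76) (nat_lit 4167259449) (nat_lit 52) (nat_lit 5) (nat_lit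 57) (nat_lit 5) (nat_lit 53) (nat_lit 5) (nat_lit 269) (nat_lit 259) (nat_lit 252)) (XT.lf (nat_lit 0) (nat_lit 3476831758) (nat_lit 380) (nat_lit 1192261389) (nat_lit 456) (nat_lit 2703559331) (nat_lit 47) (nat_lit 5) (nat_lit 52) (nat_lit 5) (nat_lit 53) (nat_lit 5) (nat_lit 270) (nat_lit 259) (nat_lit 251))) (XT.nd (nat_lit 78) (nat_lit 76) (nat_lit 0) (XT.lf (nat_lit 0) (nat_lit 521836541) (nat_lit 456) (nat_lit 6794467722) (nat_lit 532) (nat_lit 269389564) (nat_lit 41) (nat_lit 5) (nat_lit 47) (nat_lit 5) (nat_lit 48) (nat_lit 4) (nat_lit 271) (nat_lit 259) (nat_lit 250)) (XT.lf (nat_lit 0) (nat_lit 2201030493) (nat_lit 532) (nat_lit 2577035291) (nat_lit 76) (nat_lit 3037130012) (nat_lit 40) (nat_lit 5) (nat_lit 47) (nat_lit 5) (nat_lit 41) (nat_lit 5) (nat_lit 272) (nat_lit 259) (nat_lit 249))))))) (XT.nd (nat_lit 1170) (nat_lit 608) (nat_lit 0) (XT.nd (nat_lit 546) (nat_lit 836)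 (nat_lit 0) (XT.nd (nat_lit 234) (nat_lit 456) (nat_lit 0) (XT.nd (nat_lit 78) (nat_lit 304) (nat_lit 0) (XT.lf (nat_lit 0) (nat_lit 2191977139) (nat_lit 228) (nat_lit 2547951528) (nat_lit 304) (nat_lit 3332405151) (nat_lit 37) (nat_lit 5) (nat_lit 40) (nat_lit 5) (nat_lit 41) (nat_lit 5) (nat_lit 273) (nat_lit 259) (nat_lit 248)) (XT.nd (nat_lit 78) (nat_lit 304) (nat_lit 0) (XT.lf (nat_lit 0) (nat_lit 7314201097) (nat_lit 228) (nat_lit 79068144) (nat_lit 304) (nat_lit 964485297) (nat_lit 37) (nat_lit 5) (nat_lit 40) (nat_lit 5) (nat_lit 41) (nat_lit 5) (nat_lit 274) (nat_lit 259) (nat_lit 247)) (XT.lf (nat_lit 0) (nat_lit 1527397574) (nat_lit 304) (nat_lit 4552367664) (nat_lit 76) (nat_lit 2582572027) (nat_lit 33) (nat_lit 5) (nat_lit 37) (nat_lit 5) (nat_lit 34) (nat_lit 5) (nat_lit 275) (nat_lit 259) (nat_lit 246)))) (XT.nd (nat_lit 156) (nat_lit 228) (nat_lit 0) (XT.nd (nat_lit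 78) (nat_lit 0) (nat_lit 0) (XT.lf (nat_lit 0) (nat_lit 569093907) (nat_lit 228) (nat_lit 3497452787) (nat_lit 304) (nat_lit 4931224630) (nat_lit 30) (nat_lit 5) (nat_lit 33) (nat_lit 5) (nat_lit 34) (nat_lit 5) (nat_lit 276) (nat_lit 259) (nat_lit 245)) (XT.lf (nat_lit 0) (nat_lit 6186020584) (nat_lit 228) (nat_lit 608861542) (nat_lit 304) (nat_lit 2566727952) (nat_lit 30) (nat_lit 5) (nat_lit 33) (nat_lit 5) (nat_lit 34) (nat_lit 5) (nat_lit 277) (nat_lit 259) (nat_lit 244))) (XT.nd (nat_lit 78) (nat_lit 76) (nat_lit 0) (XT.lf (nat_lit 0) (nat_lit 2386520317) (nat_lit 152) (nat_lit 7343809268) (nat_lit 228) (nat_lit 25539402) (nat_lit 28) (nat_lit 5) (nat_lit 30) (nat_lit 5) (nat_lit 31) (nat_lit 4) (nat_lit 278) (nat_lit 259) (nat_lit 243)) (XT.lf (nat_lit 0) (nat_lit 2560877794) (nat_lit 228) (nat_lit 1856945001) (nat_lit 76) (nat_lit 5760739522) (nat_lit 27) (nat_lit 5) (nat_lit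 30) (nat_lit 5) (nat_lit 28) (nat_lit 5) (nat_lit 279) (nat_lit 259) (nat_lit 242))))) (XT.nd (nat_lit 312) (nat_lit 304) (nat_lit 0) (XT.nd (nat_lit 156) (nat_lit 380) (nat_lit 0) (XT.nd (nat_lit 78) (nat_lit 0) (nat_lit 0) (XT.lf (nat_lit 0) (nat_lit 4142883731) (nat_lit 152) (nat_lit 1192035102) (nat_lit 228) (nat_lit 5301865932) (nat_lit 25) (nat_lit 5) (nat_lit 27) (nat_lit 5) (nat_lit 28) (nat_lit 5) (nat_lit 280) (nat_lit 259) (nat_lit 241)) (XT.lf (nat_lit 0) (nat_lit 8324453001) (nat_lit 228) (nat_lit 620099137) (nat_lit 76) (nat_lit 2187936488) (nat_lit 25) (nat_lit 5) (nat_lit 28) (nat_lit 5) (nat_lit 26) (nat_lit 4) (nat_lit 281) (nat_lit 259) (nat_lit 240))) (XT.nd (nat_lit 78) (nat_lit 228) (nat_lit 0) (XT.lf (nat_lit 0) (nat_lit 5832206872) (nat_lit 152) (nat_lit 5786948121) (nat_lit 228) (nat_lit 43699694) (nat_lit 23) (nat_lit 5) (nat_lit 25) (nat_lit 5) (nat_lit 26)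 (nat_lit 4) (nat_lit 282) (nat_lit 259) (nat_lit 239)) (XT.lf (nat_lit 0) (nat_lit 396250102) (nat_lit 152) (nat_lit 2321427978) (nat_lit 228) (nat_lit 9518713024) (nat_lit 20) (nat_lit 5) (nat_lit 22) (nat_lit 5) (nat_lit 23) (nat_lit 5) (nat_lit 283) (nat_lit 259) (nat_lit 238)))) (XT.nd (nat_lit 156) (nat_lit 228) (nat_lit 0) (XT.nd (nat_lit 78) (nat_lit 76) (nat_lit 0) (XT.lf (nat_lit 0) (nat_lit 5794351049) (nat_lit 228) (nat_lit 5586771649) (nat_lit 76) (nat_lit 1467084536) (nat_lit 20) (nat_lit 5) (nat_lit 23) (nat_lit 5) (nat_lit 21) (nat_lit 4) (nat_lit 284) (nat_lit 259) (nat_lit 237)) (XT.lf (nat_lit 0) (nat_lit 1011669094) (nat_lit 76) (nat_lit 8096599356) (nat_lit 152) (nat_lit 4401621795) (nat_lit 19) (nat_lit 5) (nat_lit 20) (nat_lit 5) (nat_lit 21) (nat_lit 4) (nat_lit 285) (nat_lit 259) (nat_lit 236))) (XT.nd (nat_lit 78) (nat_lit 228) (nat_lit 0) (XT.lf (nat_lit 0)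 (nat_lit 8313884412) (nat_lit 76) (nat_lit 4436166442) (nat_lit 152) (nat_lit 1469631763) (nat_lit 19) (nat_lit 5) (nat_lit 20) (nat_lit 5) (nat_lit 21) (nat_lit 4) (nat_lit 286) (nat_lit 259) (nat_lit 235)) (XT.lf (nat_lit 0) (nat_lit 1091827257) (nat_lit 152) (nat_lit 460792178) (nat_lit 228) (nat_lit 13435294036) (nat_lit 16) (nat_lit 5) (nat_lit 18) (nat_lit 5) (nat_lit 19) (nat_lit 5) (nat_lit 287) (nat_lit 259) (nat_lit 234)))))) (XT.nd (nat_lit 546) (nat_lit 228) (nat_lit 0) (XT.nd (nat_lit 234) (nat_lit 304) (nat_lit 0) (XT.nd (nat_lit 78) (nat_lit 76) (nat_lit 0) (XT.lf (nat_lit 0) (nat_lit 4911380598) (nat_lit 228) (nat_lit 7092202011) (nat_lit 76) (nat_lit 3797190830) (nat_lit 16) (nat_lit 5) (nat_lit 19) (nat_lit 5) (nat_lit 17) (nat_lit 4) (nat_lit 288) (nat_lit 259) (nat_lit 233)) (XT.nd (nat_lit 78) (nat_lit 0) (nat_lit 0) (XT.lf (nat_lit 0) (nat_lit 122263438) (nat_lit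 76) (nat_lit 8353974021) (nat_lit 152) (nat_lit 8207576381) (nat_lit 15) (nat_lit 5) (nat_lit 16) (nat_lit 5) (nat_lit 17) (nat_lit 4) (nat_lit 289) (nat_lit 259) (nat_lit 232)) (XT.lf (nat_lit 0) (nat_lit 8192586354) (nat_lit 76) (nat_lit 4252839839) (nat_lit 152) (nat_lit 5182672427) (nat_lit 15) (nat_lit 5) (nat_lit 16) (nat_lit 5) (nat_lit 17) (nat_lit 4) (nat_lit 290) (nat_lit 259) (nat_lit 231)))) (XT.nd (nat_lit 156) (nat_lit 76) (nat_lit 0) (XT.nd (nat_lit 78) (nat_lit 228) (nat_lit 0) (XT.lf (nat_lit 0) (nat_lit 16666050044) (nat_lit 152) (nat_lit 1863590956) (nat_lit 0) (nat_lit 123695971) (nat_lit 15) (nat_lit 5) (nat_lit 17) (nat_lit 4) (nat_lit 15) (nat_lit 4) (nat_lit 291) (nat_lit 259) (nat_lit 230)) (XT.lf (nat_lit 0) (nat_lit 1595157045) (nat_lit 228) (nat_lit 13371754467) (nat_lit 76) (nat_lit 4774599989) (nat_lit 12) (nat_lit 5) (nat_lit 15) (nat_lit 5) (nat_lit 13)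 (nat_lit 4) (nat_lit 292) (nat_lit 259) (nat_lit 229))) (XT.nd (nat_lit 78) (nat_lit 76) (nat_lit 0) (XT.lf (nat_lit 0) (nat_lit 5344464106) (nat_lit 228) (nat_lit 5709609712) (nat_lit 76) (nat_lit 9859623604) (nat_lit 12) (nat_lit 5) (nat_lit 15) (nat_lit 5) (nat_lit 13) (nat_lit 4) (nat_lit 293) (nat_lit 259) (nat_lit 228)) (XT.lf (nat_lit 0) (nat_lit 2591669420) (nat_lit 76) (nat_lit 6804519845) (nat_lit 152) (nat_lit 12783361325) (nat_lit 11) (nat_lit 5) (nat_lit 12) (nat_lit 5) (nat_lit 13) (nat_lit 4) (nat_lit 294) (nat_lit 259) (nat_lit 227))))) (XT.nd (nat_lit 312) (nat_lit 76) (nat_lit 0) (XT.nd (nat_lit 156) (nat_lit 152) (nat_lit 0) (XT.nd (nat_lit 78) (nat_lit 0) (nat_lit 0) (XT.lf (nat_lit 0) (nat_lit 11780898265) (nat_lit 76) (nat_lit 2089416868) (nat_lit 152) (nat_lit 9668579430) (nat_lit 11) (nat_lit 5) (nat_lit 12) (nat_lit 5) (nat_lit 13) (nat_lit 4) (nat_lit 295)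 (nat_lit 259) (nat_lit 226)) (XT.lf (nat_lit 0) (nat_lit 18720069768) (nat_lit 152) (nat_lit 3470736697) (nat_lit 0) (nat_lit 2814841072) (nat_lit 11) (nat_lit 5) (nat_lit 13) (nat_lit 4) (nat_lit 11) (nat_lit 4) (nat_lit 296) (nat_lit 259) (nat_lit 225))) (XT.nd (nat_lit 78) (nat_lit 76) (nat_lit 0) (XT.lf (nat_lit 0) (nat_lit 5616570427) (nat_lit 76) (nat_lit 18480101175) (nat_lit 76) (nat_lit 2482031447) (nat_lit 10) (nat_lit 4) (nat_lit 11) (nat_lit 5) (nat_lit 11) (nat_lit 4) (nat_lit 297) (nat_lit 259) (nat_lit 224)) (XT.lf (nat_lit 0) (nat_lit 1591654882) (nat_lit 152) (nat_lit 12773391489) (nat_lit 76) (nat_lit 13905715190) (nat_lit 9) (nat_lit 5) (nat_lit 11) (nat_lit 5) (nat_lit 10) (nat_lit 4) (nat_lit 298) (nat_lit 259) (nat_lit 223)))) (XT.nd (nat_lit 156) (nat_lit 0) (nat_lit 0) (XT.nd (nat_lit 78) (nat_lit 76) (nat_lit 0) (XT.lf (nat_lit 0) (nat_lit 5810683069) (nat_lit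 152) (nat_lit 4077409081) (nat_lit 76) (nat_lit 20208708722) (nat_lit 9) (nat_lit 5) (nat_lit 11) (nat_lit 5) (nat_lit 10) (nat_lit 4) (nat_lit 299) (nat_lit 259) (nat_lit 222)) (XT.lf (nat_lit 0) (nat_lit 5512812472) (nat_lit 76) (nat_lit 4943986826) (nat_lit 152) (nat_lit 21605011428) (nat_lit 8) (nat_lit 5) (nat_lit 9) (nat_lit 5) (nat_lit 10) (nat_lit 4) (nat_lit 300) (nat_lit 259) (nat_lit 221))) (XT.nd (nat_lit 78) (nat_lit 0) (nat_lit 0) (XT.lf (nat_lit 0) (nat_lit 15556049965) (nat_lit 152) (nat_lit 18163205514) (nat_lit 0) (nat_lit 458299040) (nat_lit 8) (nat_lit 5) (nat_lit 10) (nat_lit 4) (nat_lit 8) (nat_lit 4) (nat_lit 301) (nat_lit 259) (nat_lit 220)) (XT.lf (nat_lit 0) (nat_lit 21152350883) (nat_lit 152) (nat_lit 9307028905) (nat_lit 0) (nat_lit 5996094361) (nat_lit 8) (nat_lit 5) (nat_lit 10) (nat_lit 4) (nat_lit 8) (nat_lit 4) (nat_lit 302) (nat_lit 259) (nat_lit 219))))))))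
noncomputable def xc48 : XT := (XT.nd (nat_lit 2262) (nat_lit 76) (nat_lit 0) (XT.nd (nat_lit 1092) (nat_lit 152) (nat_lit 0) (XT.nd (nat_lit 546) (nat_lit 76) (nat_lit 0) (XT.nd (nat_lit 234) (nat_lit 152) (nat_lit 0) (XT.nd (nat_lit 78) (nat_lit 0) (nat_lit 0) (XT.lf (nat_lit 0) (nat_lit 200968898) (nat_lit 76) (nat_lit 26963826725) (nat_lit 76) (nat_lit 11753398353) (nat_lit 7) (nat_lit 4) (nat_lit 8) (nat_lit 5) (nat_lit 8) (nat_lit 4) (nat_lit 303) (nat_lit 259) (nat_lit 218)) (XT.nd (nat_lit 78) (nat_lit 0) (nat_lit 0) (XT.lf (nat_lit 0) (nat_lit 10933868567) (nat_lit 76) (nat_lit 22943576159) (nat_lit 76) (nat_lit 7682988667) (nat_lit 7) (nat_lit 4) (nat_lit 8) (nat_lit 5) (nat_lit 8) (nat_lit 4) (nat_lit 304) (nat_lit 259) (nat_lit 217)) (XT.lf (nat_lit 0) (nat_lit 22465180820) (nat_lit 76) (nat_lit 18629275049) (nat_lit 76) (nat_lit 3322243926) (nat_lit 7) (nat_lit 4) (nat_lit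 8) (nat_lit 5) (nat_lit 8) (nat_lit 4) (nat_lit 305) (nat_lit 259) (nat_lit 216)))) (XT.nd (nat_lit 156) (nat_lit 76) (nat_lit 0) (XT.nd (nat_lit 78) (nat_lit 0) (nat_lit 0) (XT.lf (nat_lit 0) (nat_lit 1286910871) (nat_lit 152) (nat_lit 12673259870) (nat_lit 76) (nat_lit 33541142064) (nat_lit 6) (nat_lit 5) (nat_lit 8) (nat_lit 5) (nat_lit 7) (nat_lit 4) (nat_lit 306) (nat_lit 259) (nat_lit 215)) (XT.lf (nat_lit 0) (nat_lit 6056562317) (nat_lit 152) (nat_lit 2792202790) (nat_lit 76) (nat_lit 41979354699) (nat_lit 6) (nat_lit 5) (nat_lit 8) (nat_lit 5) (nat_lit 7) (nat_lit 4) (nat_lit 307) (nat_lit 259) (nat_lit 214))) (XT.nd (nat_lit 78) (nat_lit 0) (nat_lit 0) (XT.lf (nat_lit 0) (nat_lit 8242426265) (nat_lit 76) (nat_lit 3136971391) (nat_lit 152) (nat_lit 43027971112) (nat_lit 5) (nat_lit 5) (nat_lit 6) (nat_lit 5) (nat_lit 7) (nat_lit 4) (nat_lit 308) (nat_lit 259) (nat_lit 213))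 (XT.lf (nat_lit 0) (nat_lit 17252965981) (nat_lit 152) (nat_lit 38072667137) (nat_lit 0) (nat_lit 2937356429) (nat_lit 5) (nat_lit 5) (nat_lit 7) (nat_lit 4) (nat_lit 5) (nat_lit 4) (nat_lit 309) (nat_lit 259) (nat_lit 212))))) (XT.nd (nat_lit 234) (nat_lit 76) (nat_lit 0) (XT.nd (nat_lit 78) (nat_lit 0) (nat_lit 0) (XT.lf (nat_lit 0) (nat_lit 23653515648) (nat_lit 152) (nat_lit 29460360524) (nat_lit 0) (nat_lit 9308638732) (nat_lit 5) (nat_lit 5) (nat_lit 7) (nat_lit 4) (nat_lit 5) (nat_lit 4) (nat_lit 310) (nat_lit 259) (nat_lit 211)) (XT.nd (nat_lit 78) (nat_lit 0) (nat_lit 0) (XT.lf (nat_lit 0) (nat_lit 30543531605) (nat_lit 152) (nat_lit 20201542537) (nat_lit 0) (nat_lit 16171555276) (nat_lit 5) (nat_lit 5) (nat_lit 7) (nat_lit 4) (nat_lit 5) (nat_lit 4) (nat_lit 311) (nat_lit 259) (nat_lit 210)) (XT.lf (nat_lit 0) (nat_lit 37963843574) (nat_lit 152) (nat_lit 10241346106) (nat_lit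 0) (nat_lit 23566775198) (nat_lit 5) (nat_lit 5) (nat_lit 7) (nat_lit 4) (nat_lit 5) (nat_lit 4) (nat_lit 312) (nat_lit 259) (nat_lit 209)))) (XT.nd (nat_lit 156) (nat_lit 0) (nat_lit 0) (XT.nd (nat_lit 78) (nat_lit 0) (nat_lit 0) (XT.lf (nat_lit 0) (nat_lit 504488724) (nat_lit 76) (nat_lit 45466068017) (nat_lit 76) (nat_lit 31045766262) (nat_lit 4) (nat_lit 4) (nat_lit 5) (nat_lit 5) (nat_lit 5) (nat_lit 4) (nat_lit 313) (nat_lit 259) (nat_lit 208)) (XT.lf (nat_lit 0) (nat_lit 12656932756) (nat_lit 76) (nat_lit 42222114281) (nat_lit 76) (nat_lit 27780300139) (nat_lit 4) (nat_lit 4) (nat_lit 5) (nat_lit 5) (nat_lit 5) (nat_lit 4) (nat_lit 314) (nat_lit 259) (nat_lit 207))) (XT.nd (nat_lit 78) (nat_lit 0) (nat_lit 0) (XT.lf (nat_lit 0) (nat_lit 25748709335) (nat_lit 76) (nat_lit 38734121593) (nat_lit 76) (nat_lit 24272388575) (nat_lit 4) (nat_lit 4) (nat_lit 5) (nat_lit 5) (nat_lit 5)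 (nat_lit 4) (nat_lit 315) (nat_lit 259) (nat_lit 206)) (XT.lf (nat_lit 0) (nat_lit 39857399358) (nat_lit 76) (nat_lit 34981420369) (nat_lit 76) (nat_lit 20501243947) (nat_lit 4) (nat_lit 4) (nat_lit 5) (nat_lit 5) (nat_lit 5) (nat_lit 4) (nat_lit 316) (nat_lit 259) (nat_lit 205)))))) (XT.nd (nat_lit 546) (nat_lit 0) (nat_lit 0) (XT.nd (nat_lit 234) (nat_lit 152) (nat_lit 0) (XT.nd (nat_lit 78) (nat_lit 0) (nat_lit 0) (XT.lf (nat_lit 0) (nat_lit 55066609880) (nat_lit 76) (nat_lit 30941772378) (nat_lit 76) (nat_lit 16444518729) (nat_lit 4) (nat_lit 4) (nat_lit 5) (nat_lit 5) (nat_lit 5) (nat_lit 4) (nat_lit 317) (nat_lit 259) (nat_lit 204)) (XT.nd (nat_lit 78) (nat_lit 0) (nat_lit 0) (XT.lf (nat_lit 0) (nat_lit 71466469553) (nat_lit 76) (nat_lit 26591238966) (nat_lit 76) (nat_lit 12078173071) (nat_lit 4) (nat_lit 4) (nat_lit 5) (nat_lit 5) (nat_lit 5) (nat_lit 4) (nat_lit 318) (nat_lit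 259) (nat_lit 203)) (XT.lf (nat_lit 0) (nat_lit 89154162732) (nat_lit 76) (nat_lit 21904039194) (nat_lit 76) (nat_lit 7376332329) (nat_lit 4) (nat_lit 4) (nat_lit 5) (nat_lit 5) (nat_lit 5) (nat_lit 4) (nat_lit 319) (nat_lit 259) (nat_lit 202)))) (XT.nd (nat_lit 156) (nat_lit 76) (nat_lit 0) (XT.nd (nat_lit 78) (nat_lit 76) (nat_lit 0) (XT.lf (nat_lit 0) (nat_lit 108234505376) (nat_lit 76) (nat_lit 16852397063) (nat_lit 76) (nat_lit 2311133746) (nat_lit 4) (nat_lit 4) (nat_lit 5) (nat_lit 5) (nat_lit 5) (nat_lit 4) (nat_lit 320) (nat_lit 259) (nat_lit 201)) (XT.lf (nat_lit 0) (nat_lit 2989991042) (nat_lit 152) (nat_lit 8334634221) (nat_lit 76) (nat_lit 125748823487) (nat_lit 3) (nat_lit 5) (nat_lit 5) (nat_lit 5) (nat_lit 4) (nat_lit 4) (nat_lit 321) (nat_lit 259) (nat_lit 200))) (XT.nd (nat_lit 78) (nat_lit 0) (nat_lit 0) (XT.lf (nat_lit 0) (nat_lit 3453574382) (nat_lit 76) (nat_lit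 5209412369) (nat_lit 152) (nat_lit 138849302142) (nat_lit 2) (nat_lit 5) (nat_lit 3) (nat_lit 5) (nat_lit 4) (nat_lit 4) (nat_lit 322) (nat_lit 259) (nat_lit 199)) (XT.lf (nat_lit 0) (nat_lit 15046848273) (nat_lit 152) (nat_lit 142168466421) (nat_lit 0) (nat_lit 1550367151) (nat_lit 2) (nat_lit 5) (nat_lit 4) (nat_lit 4) (nat_lit 2) (nat_lit 4) (nat_lit 323) (nat_lit 259) (nat_lit 198))))) (XT.nd (nat_lit 312) (nat_lit 0) (nat_lit 0) (XT.nd (nat_lit 156) (nat_lit 0) (nat_lit 0) (XT.nd (nat_lit 78) (nat_lit 0) (nat_lit 0) (XT.lf (nat_lit 0) (nat_lit 22067166297) (nat_lit 152) (nat_lit 140280668368) (nat_lit 0) (nat_lit 8561458881) (nat_lit 2) (nat_lit 5) (nat_lit 4) (nat_lit 4) (nat_lit 2) (nat_lit 4) (nat_lit 324) (nat_lit 259) (nat_lit 197)) (XT.lf (nat_lit 0) (nat_lit 29640256215) (nat_lit 152) (nat_lit 138258846910) (nat_lit 0) (nat_lit 16126005935) (nat_lit 2) (nat_lit 5) (nat_lit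 4) (nat_lit 4) (nat_lit 2) (nat_lit 4) (nat_lit 325) (nat_lit 259) (nat_lit 196))) (XT.nd (nat_lit 78) (nat_lit 0) (nat_lit 0) (XT.lf (nat_lit 0) (nat_lit 37810995599) (nat_lit 152) (nat_lit 136091020881) (nat_lit 0) (nat_lit 24288835258) (nat_lit 2) (nat_lit 5) (nat_lit 4) (nat_lit 4) (nat_lit 2) (nat_lit 4) (nat_lit 326) (nat_lit 259) (nat_lit 195)) (XT.lf (nat_lit 0) (nat_lit 46627803643) (nat_lit 152) (nat_lit 133764343906) (nat_lit 0) (nat_lit 33098319173) (nat_lit 2) (nat_lit 5) (nat_lit 4) (nat_lit 4) (nat_lit 2) (nat_lit 4) (nat_lit 327) (nat_lit 259) (nat_lit 194)))) (XT.nd (nat_lit 156) (nat_lit 0) (nat_lit 0) (XT.nd (nat_lit 78) (nat_lit 0) (nat_lit 0) (XT.lf (nat_lit 0) (nat_lit 56142928099) (nat_lit 152) (nat_lit 131265028268) (nat_lit 0) (nat_lit 42606662028) (nat_lit 2) (nat_lit 5) (nat_lit 4) (nat_lit 4) (nat_lit 2) (nat_lit 4) (nat_lit 328) (nat_lit 259) (nat_lit 193))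 (XT.lf (nat_lit 0) (nat_lit 66412754891) (nat_lit 152) (nat_lit 128578263209) (nat_lit 0) (nat_lit 52870209559) (nat_lit 2) (nat_lit 5) (nat_lit 4) (nat_lit 4) (nat_lit 2) (nat_lit 4) (nat_lit 329) (nat_lit 259) (nat_lit 192))) (XT.nd (nat_lit 78) (nat_lit 0) (nat_lit 0) (XT.lf (nat_lit 0) (nat_lit 77498142250) (nat_lit 152) (nat_lit 125688127158) (nat_lit 0) (nat_lit 63949782788) (nat_lit 2) (nat_lit 5) (nat_lit 4) (nat_lit 4) (nat_lit 2) (nat_lit 4) (nat_lit 330) (nat_lit 259) (nat_lit 191)) (XT.lf (nat_lit 0) (nat_lit 89464781362) (nat_lit 152) (nat_lit 122577493383) (nat_lit 0) (nat_lit 75911038445) (nat_lit 2) (nat_lit 5) (nat_lit 4) (nat_lit 4) (nat_lit 2) (nat_lit 4) (nat_lit 331) (nat_lit 259) (nat_lit 190))))))) (XT.nd (nat_lit 1092) (nat_lit 76) (nat_lit 0) (XT.nd (nat_lit 546) (nat_lit 0) (nat_lit 0) (XT.nd (nat_lit 234) (nat_lit 0) (nat_lit 0) (XT.nd (nat_lit 78) (nat_lit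 0) (nat_lit 0) (XT.lf (nat_lit 0) (nat_lit 102383585643) (nat_lit 152) (nat_lit 119227928497) (nat_lit 0) (nat_lit 88824858047) (nat_lit 2) (nat_lit 5) (nat_lit 4) (nat_lit 4) (nat_lit 2) (nat_lit 4) (nat_lit 332) (nat_lit 259) (nat_lit 189)) (XT.nd (nat_lit 78) (nat_lit 0) (nat_lit 0) (XT.lf (nat_lit 0) (nat_lit 116331110970) (nat_lit 152) (nat_lit 115619583229) (nat_lit 0) (nat_lit 102767767930) (nat_lit 2) (nat_lit 5) (nat_lit 4) (nat_lit 4) (nat_lit 2) (nat_lit 4) (nat_lit 333) (nat_lit 259) (nat_lit 188)) (XT.lf (nat_lit 0) (nat_lit 131390009345) (nat_lit 152) (nat_lit 111731074791) (nat_lit 0) (nat_lit 117822392746) (nat_lit 2) (nat_lit 5) (nat_lit 4) (nat_lit 4) (nat_lit 2) (nat_lit 4) (nat_lit 334) (nat_lit 259) (nat_lit 187)))) (XT.nd (nat_lit 156) (nat_lit 0) (nat_lit 0) (XT.nd (nat_lit 78) (nat_lit 0) (nat_lit 0) (XT.lf (nat_lit 0) (nat_lit 147649518685) (nat_lit 152) (nat_lit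 107539360170) (nat_lit 0) (nat_lit 134077945086) (nat_lit 2) (nat_lit 5) (nat_lit 4) (nat_lit 4) (nat_lit 2) (nat_lit 4) (nat_lit 335) (nat_lit 259) (nat_lit 186)) (XT.lf (nat_lit 0) (nat_lit 165205991638) (nat_lit 152) (nat_lit 103019599576) (nat_lit 0) (nat_lit 151630754151) (nat_lit 2) (nat_lit 5) (nat_lit 4) (nat_lit 4) (nat_lit 2) (nat_lit 4) (nat_lit 336) (nat_lit 259) (nat_lit 185))) (XT.nd (nat_lit 78) (nat_lit 0) (nat_lit 0) (XT.lf (nat_lit 0) (nat_lit 184163466561) (nat_lit 152) (nat_lit 98145009242) (nat_lit 0) (nat_lit 170584836585) (nat_lit 2) (nat_lit 5) (nat_lit 4) (nat_lit 4) (nat_lit 2) (nat_lit 4) (nat_lit 337) (nat_lit 259) (nat_lit 184)) (XT.lf (nat_lit 0) (nat_lit 204634284047) (nat_lit 152) (nat_lit 92886702708) (nat_lit 0) (nat_lit 191052512877) (nat_lit 2) (nat_lit 5) (nat_lit 4) (nat_lit 4) (nat_lit 2) (nat_lit 4) (nat_lit 338) (nat_lit 259) (nat_lit 183)))))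 (XT.nd (nat_lit 234) (nat_lit 0) (nat_lit 0) (XT.nd (nat_lit 78) (nat_lit 0) (nat_lit 0) (XT.lf (nat_lit 0) (nat_lit 226739752645) (nat_lit 152) (nat_lit 87213519637) (nat_lit 0) (nat_lit 213155072962) (nat_lit 2) (nat_lit 5) (nat_lit 4) (nat_lit 4) (nat_lit 2) (nat_lit 4) (nat_lit 339) (nat_lit 259) (nat_lit 182)) (XT.nd (nat_lit 78) (nat_lit 0) (nat_lit 0) (XT.lf (nat_lit 0) (nat_lit 250610867722) (nat_lit 152) (nat_lit 81091841168) (nat_lit 0) (nat_lit 237023494973) (nat_lit 2) (nat_lit 5) (nat_lit 4) (nat_lit 4) (nat_lit 2) (nat_lit 4) (nat_lit 340) (nat_lit 259) (nat_lit 181)) (XT.lf (nat_lit 0) (nat_lit 276389087740) (nat_lit 152) (nat_lit 74485390688) (nat_lit 0) (nat_lit 262799221410) (nat_lit 2) (nat_lit 5) (nat_lit 4) (nat_lit 4) (nat_lit 2) (nat_lit 4) (nat_lit 341) (nat_lit 259) (nat_lit 180)))) (XT.nd (nat_lit 156) (nat_lit 0) (nat_lit 0) (XT.nd (nat_lit 78) (nat_lit 0)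 (nat_lit 0) (XT.lf (nat_lit 0) (nat_lit 304227172521) (nat_lit 152) (nat_lit 67355018859) (nat_lit 0) (nat_lit 290634997319) (nat_lit 2) (nat_lit 5) (nat_lit 4) (nat_lit 4) (nat_lit 2) (nat_lit 4) (nat_lit 342) (nat_lit 259) (nat_lit 179)) (XT.lf (nat_lit 0) (nat_lit 334290088492) (nat_lit 152) (nat_lit 59658471628) (nat_lit 0) (nat_lit 320695775447) (nat_lit 2) (nat_lit 5) (nat_lit 4) (nat_lit 4) (nat_lit 2) (nat_lit 4) (nat_lit 343) (nat_lit 259) (nat_lit 178))) (XT.nd (nat_lit 78) (nat_lit 0) (nat_lit 0) (XT.lf (nat_lit 0) (nat_lit 366755986267) (nat_lit 152) (nat_lit 51350139824) (nat_lit 0) (nat_lit 353159693737) (nat_lit 2) (nat_lit 5) (nat_lit 4) (nat_lit 4) (nat_lit 2) (nat_lit 4) (nat_lit 344) (nat_lit 259) (nat_lit 177)) (XT.lf (nat_lit 0) (nat_lit 401817256352) (nat_lit 152) (nat_lit 42380788890) (nat_lit 0) (nat_lit 388219130965) (nat_lit 2) (nat_lit 5) (nat_lit 4) (nat_lit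 4) (nat_lit 2) (nat_lit 4) (nat_lit 345) (nat_lit 259) (nat_lit 176)))))) (XT.nd (nat_lit 546) (nat_lit 0) (nat_lit 0) (XT.nd (nat_lit 234) (nat_lit 76) (nat_lit 0) (XT.nd (nat_lit 78) (nat_lit 0) (nat_lit 0) (XT.lf (nat_lit 0) (nat_lit 439681669235) (nat_lit 152) (nat_lit 32697267115) (nat_lit 0) (nat_lit 426081846759) (nat_lit 2) (nat_lit 5) (nat_lit 4) (nat_lit 4) (nat_lit 2) (nat_lit 4) (nat_lit 346) (nat_lit 259) (nat_lit 175)) (XT.nd (nat_lit 78) (nat_lit 0) (nat_lit 0) (XT.lf (nat_lit 0) (nat_lit 480573606623) (nat_lit 152) (nat_lit 22242190668) (nat_lit 0) (nat_lit 466972212769) (nat_lit 2) (nat_lit 5) (nat_lit 4) (nat_lit 4) (nat_lit 2) (nat_lit 4) (nat_lit 347) (nat_lit 259) (nat_lit 174)) (XT.lf (nat_lit 0) (nat_lit 524735391108) (nat_lit 152) (nat_lit 10953603540) (nat_lit 0) (nat_lit 511132542273) (nat_lit 2) (nat_lit 5) (nat_lit 4) (nat_lit 4) (nat_lit 2) (nat_lit 4) (nat_lit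 348) (nat_lit 259) (nat_lit 173)))) (XT.nd (nat_lit 156) (nat_lit 0) (nat_lit 0) (XT.nd (nat_lit 78) (nat_lit 0) (nat_lit 0) (XT.lf (nat_lit 0) (nat_lit 1300443027) (nat_lit 76) (nat_lit 571159554812) (nat_lit 76) (nat_lit 557555358772) (nat_lit 1) (nat_lit 4) (nat_lit 2) (nat_lit 5) (nat_lit 2) (nat_lit 4) (nat_lit 349) (nat_lit 259) (nat_lit 172)) (XT.lf (nat_lit 0) (nat_lit 15155141374) (nat_lit 76) (nat_lit 609145567045) (nat_lit 76) (nat_lit 595540123595) (nat_lit 1) (nat_lit 4) (nat_lit 2) (nat_lit 5) (nat_lit 2) (nat_lit 4) (nat_lit 350) (nat_lit 259) (nat_lit 171))) (XT.nd (nat_lit 78) (nat_lit 0) (nat_lit 0) (XT.lf (nat_lit 0) (nat_lit 30115796065) (nat_lit 76) (nat_lit 650171624576) (nat_lit 76) (nat_lit 636565026115) (nat_lit 1) (nat_lit 4) (nat_lit 2) (nat_lit 5) (nat_lit 2) (nat_lit 4) (nat_lit 351) (nat_lit 259) (nat_lit 170)) (XT.lf (nat_lit 0) (nat_lit 46271062831) (nat_lit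 76) (nat_lit 694480844783) (nat_lit 76) (nat_lit 680873176868) (nat_lit 1) (nat_lit 4) (nat_lit 2) (nat_lit 5) (nat_lit 2) (nat_lit 4) (nat_lit 352) (nat_lit 259) (nat_lit 169))))) (XT.nd (nat_lit 312) (nat_lit 0) (nat_lit 0) (XT.nd (nat_lit 156) (nat_lit 0) (nat_lit 0) (XT.nd (nat_lit 78) (nat_lit 0) (nat_lit 0) (XT.lf (nat_lit 0) (nat_lit 63716676588) (nat_lit 76) (nat_lit 742335800822) (nat_lit 76) (nat_lit 728727142671) (nat_lit 1) (nat_lit 4) (nat_lit 2) (nat_lit 5) (nat_lit 2) (nat_lit 4) (nat_lit 353) (nat_lit 259) (nat_lit 168)) (XT.lf (nat_lit 0) (nat_lit 82556018749) (nat_lit 76) (nat_lit 794020077617) (nat_lit 76) (nat_lit 780410502583) (nat_lit 1) (nat_lit 4) (nat_lit 2) (nat_lit 5) (nat_lit 2) (nat_lit 4) (nat_lit 354) (nat_lit 259) (nat_lit 167))) (XT.nd (nat_lit 78) (nat_lit 0) (nat_lit 0) (XT.lf (nat_lit 0) (nat_lit 102900729861) (nat_lit 76) (nat_lit 849839952366) (nat_lit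 76) (nat_lit 836229528364) (nat_lit 1) (nat_lit 4) (nat_lit 2) (nat_lit 5) (nat_lit 2) (nat_lit 4) (nat_lit 355) (nat_lit 259) (nat_lit 166)) (XT.lf (nat_lit 0) (nat_lit 124871371175) (nat_lit 76) (nat_lit 910126209510) (nat_lit 76) (nat_lit 896514999427) (nat_lit 1) (nat_lit 4) (nat_lit 2) (nat_lit 5) (nat_lit 2) (nat_lit 4) (nat_lit 356) (nat_lit 259) (nat_lit 165)))) (XT.nd (nat_lit 156) (nat_lit 0) (nat_lit 0) (XT.nd (nat_lit 78) (nat_lit 0) (nat_lit 0) (XT.lf (nat_lit 0) (nat_lit 148598139084) (nat_lit 76) (nat_lit 975236100944) (nat_lit 76) (nat_lit 961624163009) (nat_lit 1) (nat_lit 4) (nat_lit 2) (nat_lit 5) (nat_lit 2) (nat_lit 4) (nat_lit 357) (nat_lit 259) (nat_lit 164)) (XT.lf (nat_lit 0) (nat_lit 174221636656) (nat_lit 76) (nat_lit 1045555463061) (nat_lit 76) (nat_lit 1031942851189) (nat_lit 1) (nat_lit 4) (nat_lit 2) (nat_lit 5) (nat_lit 2) (nat_lit 4) (nat_lit 358) (nat_lit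 259) (nat_lit 163))) (XT.nd (nat_lit 78) (nat_lit 0) (nat_lit 0) (XT.lf (nat_lit 0) (nat_lit 201893706842) (nat_lit 76) (nat_lit 1121501003193) (nat_lit 76) (nat_lit 1107887767305) (nat_lit 1) (nat_lit 4) (nat_lit 2) (nat_lit 5) (nat_lit 2) (nat_lit 4) (nat_lit 359) (nat_lit 259) (nat_lit 162)) (XT.lf (nat_lit 0) (nat_lit 231778332277) (nat_lit 76) (nat_lit 1203522768985) (nat_lit 76) (nat_lit 1189908955304) (nat_lit 1) (nat_lit 4) (nat_lit 2) (nat_lit 5) (nat_lit 2) (nat_lit 4) (nat_lit 360) (nat_lit 259) (nat_lit 161))))))))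
noncomputable def xc49 : XT := (XT.nd (nat_lit 34554) (nat_lit 0) (nat_lit 304) (XT.nd (nat_lit 33384) (nat_lit 0) (nat_lit 1672) (XT.nd (nat_lit 32838) (nat_lit 0) (nat_lit 4256) (XT.nd (nat_lit 234) (nat_lit 0) (nat_lit 0) (XT.nd (nat_lit 78) (nat_lit 0) (nat_lit 0) (XT.lf (nat_lit 0) (nat_lit 264052607040) (nat_lit 76) (nat_lit 1292106815345) (nat_lit 76) (nat_lit 1278492466671) (nat_lit 1) (nat_lit 4) (nat_lit 2) (nat_lit 5) (nat_lit 2) (nat_lit 4) (nat_lit 361) (nat_lit 259) (nat_lit 160)) (XT.nd (nat_lit 78) (nat_lit 0) (nat_lit 0) (XT.lf (nat_lit 0) (nat_lit 298907786092) (nat_lit 76) (nat_lit 1387778084771) (nat_lit 76) (nat_lit 1374163240732) (nat_lit 1) (nat_lit 4) (nat_lit 2) (nat_lit 5) (nat_lit 2) (nat_lit 4) (nat_lit 362) (nat_lit 259) (nat_lit 159)) (XT.lf (nat_lit 0) (nat_lit 336550418642) (nat_lit 76) (nat_lit 1491103518117) (nat_lit 76) (nat_lit 1477488215408) (nat_lit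 1) (nat_lit 4) (nat_lit 2) (nat_lit 5) (nat_lit 2) (nat_lit 4) (nat_lit 363) (nat_lit 259) (nat_lit 158)))) (XT.nd (nat_lit 156) (nat_lit 0) (nat_lit 0) (XT.nd (nat_lit 78) (nat_lit 0) (nat_lit 0) (XT.lf (nat_lit 0) (nat_lit 377203572143) (nat_lit 76) (nat_lit 1602695414249) (nat_lit 76) (nat_lit 1589079686845) (nat_lit 1) (nat_lit 4) (nat_lit 2) (nat_lit 5) (nat_lit 2) (nat_lit 4) (nat_lit 364) (nat_lit 259) (nat_lit 157)) (XT.lf (nat_lit 0) (nat_lit 421108154169) (nat_lit 76) (nat_lit 1723215058476) (nat_lit 76) (nat_lit 1709598937836) (nat_lit 1) (nat_lit 4) (nat_lit 2) (nat_lit 5) (nat_lit 2) (nat_lit 4) (nat_lit 365) (nat_lit 259) (nat_lit 156))) (XT.nd (nat_lit 32370) (nat_lit 0) (nat_lit 4940) (XT.lf (nat_lit 0) (nat_lit 468524340023) (nat_lit 76) (nat_lit 1853376641284) (nat_lit 76) (nat_lit 1839760156536) (nat_lit 1) (nat_lit 4) (nat_lit 2) (nat_lit 5) (nat_lit 2) (nat_lit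 4) (nat_lit 366) (nat_lit 259) (nat_lit 155)) (XT.lf (nat_lit 0) (nat_lit 0) (nat_lit 0) (nat_lit 0) (nat_lit 0) (nat_lit 1073741823) (nat_lit 1) (nat_lit 0) (nat_lit 1) (nat_lit 0) (nat_lit 66) (nat_lit 0) (nat_lit 260) (nat_lit 260) (nat_lit 260))))) (XT.nd (nat_lit 234) (nat_lit 456) (nat_lit 0) (XT.nd (nat_lit 78) (nat_lit 152) (nat_lit 0) (XT.lf (nat_lit 0) (nat_lit 2892254528) (nat_lit 76) (nat_lit 3408668669) (nat_lit 0) (nat_lit 148247644) (nat_lit 65) (nat_lit 5) (nat_lit 66) (nat_lit 0) (nat_lit 65) (nat_lit 4) (nat_lit 261) (nat_lit 260) (nat_lit 259)) (XT.nd (nat_lit 78) (nat_lit 152) (nat_lit 0) (XT.lf (nat_lit 0) (nat_lit 5730375436) (nat_lit 76) (nat_lit 305233297) (nat_lit 0) (nat_lit 445621438) (nat_lit 65) (nat_lit 5) (nat_lit 66) (nat_lit 0) (nat_lit 65) (nat_lit 4) (nat_lit 262) (nat_lit 260) (nat_lit 258)) (XT.lf (nat_lit 0) (nat_lit 1967663699) (nat_lit 152) (nat_lit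 3544557127) (nat_lit 76) (nat_lit 1016767383) (nat_lit 63) (nat_lit 5) (nat_lit 65) (nat_lit 5) (nat_lit 64) (nat_lit 4) (nat_lit 263) (nat_lit 260) (nat_lit 257)))) (XT.nd (nat_lit 156) (nat_lit 228) (nat_lit 0) (XT.nd (nat_lit 78) (nat_lit 228) (nat_lit 0) (XT.lf (nat_lit 0) (nat_lit 4615069668) (nat_lit 152) (nat_lit 216233845) (nat_lit 76) (nat_lit 1769101906) (nat_lit 63) (nat_lit 5) (nat_lit 65) (nat_lit 5) (nat_lit 64) (nat_lit 4) (nat_lit 264) (nat_lit 260) (nat_lit 256)) (XT.lf (nat_lit 0) (nat_lit 595383379) (nat_lit 228) (nat_lit 3317189657) (nat_lit 76) (nat_lit 2777683926) (nat_lit 60) (nat_lit 5) (nat_lit 63) (nat_lit 5) (nat_lit 61) (nat_lit 5) (nat_lit 265) (nat_lit 260) (nat_lit 255))) (XT.nd (nat_lit 78) (nat_lit 0) (nat_lit 0) (XT.lf (nat_lit 0) (nat_lit 268779095) (nat_lit 228) (nat_lit 2788271128) (nat_lit 304) (nat_lit 3744816629) (nat_lit 57) (nat_lit 5) (nat_lit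 60) (nat_lit 5) (nat_lit 61) (nat_lit 5) (nat_lit 266) (nat_lit 260) (nat_lit 254)) (XT.lf (nat_lit 0) (nat_lit 4166596398) (nat_lit 228) (nat_lit 1422130113) (nat_lit 304) (nat_lit 1344976994) (nat_lit 57) (nat_lit 5) (nat_lit 60) (nat_lit 5) (nat_lit 61) (nat_lit 5) (nat_lit 267) (nat_lit 260) (nat_lit 253)))))) (XT.nd (nat_lit 546) (nat_lit 1064) (nat_lit 0) (XT.nd (nat_lit 234) (nat_lit 760) (nat_lit 0) (XT.nd (nat_lit 78) (nat_lit 380) (nat_lit 0) (XT.lf (nat_lit 0) (nat_lit 1008606137) (nat_lit 380) (nat_lit 5927934691) (nat_lit 76) (nat_lit 152197866) (nat_lit 52) (nat_lit 5) (nat_lit 57) (nat_lit 5) (nat_lit 53) (nat_lit 5) (nat_lit 268) (nat_lit 260) (nat_lit 252)) (XT.nd (nat_lit 78) (nat_lit 380) (nat_lit 0) (XT.lf (nat_lit 0) (nat_lit 3397074070) (nat_lit 380) (nat_lit 1940473038) (nat_lit 76) (nat_lit 1923202077) (nat_lit 52) (nat_lit 5) (nat_lit 57) (nat_lit 5) (nat_lit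 53) (nat_lit 5) (nat_lit 269) (nat_lit 260) (nat_lit 251)) (XT.lf (nat_lit 0) (nat_lit 2318224034) (nat_lit 380) (nat_lit 3533316018) (nat_lit 456) (nat_lit 1605827735) (nat_lit 47) (nat_lit 5) (nat_lit 52) (nat_lit 5) (nat_lit 53) (nat_lit 5) (nat_lit 270) (nat_lit 260) (nat_lit 250)))) (XT.nd (nat_lit 156) (nat_lit 228) (nat_lit 0) (XT.nd (nat_lit 78) (nat_lit 456) (nat_lit 0) (XT.lf (nat_lit 0) (nat_lit 668964991) (nat_lit 456) (nat_lit 828498052) (nat_lit 76) (nat_lit 6181134174) (nat_lit 46) (nat_lit 5) (nat_lit 52) (nat_lit 5) (nat_lit 47) (nat_lit 5) (nat_lit 271) (nat_lit 260) (nat_lit 249)) (XT.lf (nat_lit 0) (nat_lit 2987934026) (nat_lit 532) (nat_lit 4121753190) (nat_lit 76) (nat_lit 809252608) (nat_lit 40) (nat_lit 5) (nat_lit 47) (nat_lit 5) (nat_lit 41) (nat_lit 5) (nat_lit 272) (nat_lit 260) (nat_lit 248))) (XT.nd (nat_lit 78) (nat_lit 0) (nat_lit 0) (XT.lf (nat_lit 0)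 (nat_lit 481846101) (nat_lit 228) (nat_lit 4929374429) (nat_lit 304) (nat_lit 2774403413) (nat_lit 37) (nat_lit 5) (nat_lit 40) (nat_lit 5) (nat_lit 41) (nat_lit 5) (nat_lit 273) (nat_lit 260) (nat_lit 247)) (XT.lf (nat_lit 0) (nat_lit 5526226510) (nat_lit 228) (nat_lit 2467496736) (nat_lit 304) (nat_lit 483263597) (nat_lit 37) (nat_lit 5) (nat_lit 40) (nat_lit 5) (nat_lit 41) (nat_lit 5) (nat_lit 274) (nat_lit 260) (nat_lit 246))))) (XT.nd (nat_lit 312) (nat_lit 532) (nat_lit 0) (XT.nd (nat_lit 156) (nat_lit 228) (nat_lit 0) (XT.nd (nat_lit 78) (nat_lit 0) (nat_lit 0) (XT.lf (nat_lit 0) (nat_lit 1807859667) (nat_lit 304) (nat_lit 6721384113) (nat_lit 76) (nat_lit 265770773) (nat_lit 33) (nat_lit 5) (nat_lit 37) (nat_lit 5) (nat_lit 34) (nat_lit 5) (nat_lit 275) (nat_lit 260) (nat_lit 245)) (XT.lf (nat_lit 0) (nat_lit 4268778228) (nat_lit 304) (nat_lit 1707471399) (nat_lit 76) (nat_lit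 3160675853) (nat_lit 33) (nat_lit 5) (nat_lit 37) (nat_lit 5) (nat_lit 34) (nat_lit 5) (nat_lit 276) (nat_lit 260) (nat_lit 244))) (XT.nd (nat_lit 78) (nat_lit 0) (nat_lit 0) (XT.lf (nat_lit 0) (nat_lit 3742464422) (nat_lit 228) (nat_lit 3149805565) (nat_lit 304) (nat_lit 2617083987) (nat_lit 30) (nat_lit 5) (nat_lit 33) (nat_lit 5) (nat_lit 34) (nat_lit 5) (nat_lit 277) (nat_lit 260) (nat_lit 243)) (XT.lf (nat_lit 0) (nat_lit 9577053159) (nat_lit 228) (nat_lit 76604313) (nat_lit 304) (nat_lit 264067472) (nat_lit 30) (nat_lit 5) (nat_lit 33) (nat_lit 5) (nat_lit 34) (nat_lit 5) (nat_lit 278) (nat_lit 260) (nat_lit 242)))) (XT.nd (nat_lit 156) (nat_lit 152) (nat_lit 0) (XT.nd (nat_lit 78) (nat_lit 152) (nat_lit 0) (XT.lf (nat_lit 0) (nat_lit 2267078317) (nat_lit 228) (nat_lit 4833813328) (nat_lit 76) (nat_lit 3245522391) (nat_lit 27) (nat_lit 5) (nat_lit 30) (nat_lit 5) (nat_lit 28)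 (nat_lit 5) (nat_lit 279) (nat_lit 260) (nat_lit 241)) (XT.lf (nat_lit 0) (nat_lit 934213928) (nat_lit 152) (nat_lit 3977410364) (nat_lit 228) (nat_lit 5903520451) (nat_lit 25) (nat_lit 5) (nat_lit 27) (nat_lit 5) (nat_lit 28) (nat_lit 5) (nat_lit 280) (nat_lit 260) (nat_lit 240))) (XT.nd (nat_lit 78) (nat_lit 152) (nat_lit 0) (XT.lf (nat_lit 0) (nat_lit 7294055761) (nat_lit 152) (nat_lit 501590322) (nat_lit 228) (nat_lit 3523781156) (nat_lit 25) (nat_lit 5) (nat_lit 27) (nat_lit 5) (nat_lit 28) (nat_lit 5) (nat_lit 281) (nat_lit 260) (nat_lit 239)) (XT.lf (nat_lit 0) (nat_lit 2189002116) (nat_lit 152) (nat_lit 8754823451) (nat_lit 228) (nat_lit 917816983) (nat_lit 23) (nat_lit 5) (nat_lit 25) (nat_lit 5) (nat_lit 26) (nat_lit 4) (nat_lit 282) (nat_lit 260) (nat_lit 238))))))) (XT.nd (nat_lit 1170) (nat_lit 456) (nat_lit 0) (XT.nd (nat_lit 546) (nat_lit 380) (nat_lit 0) (XT.nd (nat_lit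 234) (nat_lit 304) (nat_lit 0) (XT.nd (nat_lit 78) (nat_lit 152) (nat_lit 0) (XT.lf (nat_lit 0) (nat_lit 1831519455) (nat_lit 228) (nat_lit 3513118790) (nat_lit 76) (nat_lit 7096793249) (nat_lit 22) (nat_lit 5) (nat_lit 25) (nat_lit 5) (nat_lit 23) (nat_lit 5) (nat_lit 283) (nat_lit 260) (nat_lit 237)) (XT.nd (nat_lit 78) (nat_lit 0) (nat_lit 0) (XT.lf (nat_lit 0) (nat_lit 3140344112) (nat_lit 152) (nat_lit 1597346362) (nat_lit 228) (nat_lit 8329298478) (nat_lit 20) (nat_lit 5) (nat_lit 22) (nat_lit 5) (nat_lit 23) (nat_lit 5) (nat_lit 284) (nat_lit 260) (nat_lit 236)) (XT.lf (nat_lit 0) (nat_lit 7947231317) (nat_lit 228) (nat_lit 3405170020) (nat_lit 76) (nat_lit 2384714429) (nat_lit 20) (nat_lit 5) (nat_lit 23) (nat_lit 5) (nat_lit 21) (nat_lit 4) (nat_lit 285) (nat_lit 260) (nat_lit 235)))) (XT.nd (nat_lit 156) (nat_lit 152) (nat_lit 0) (XT.nd (nat_lit 78) (nat_lit 76) (nat_lit 0)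 (XT.lf (nat_lit 0) (nat_lit 3654600581) (nat_lit 76) (nat_lit 7808141925) (nat_lit 152) (nat_lit 2994354071) (nat_lit 19) (nat_lit 5) (nat_lit 20) (nat_lit 5) (nat_lit 21) (nat_lit 4) (nat_lit 286) (nat_lit 260) (nat_lit 234)) (XT.lf (nat_lit 0) (nat_lit 39774945) (nat_lit 152) (nat_lit 3883358980) (nat_lit 76) (nat_lit 11310353035) (nat_lit 18) (nat_lit 5) (nat_lit 20) (nat_lit 5) (nat_lit 19) (nat_lit 5) (nat_lit 287) (nat_lit 260) (nat_lit 233))) (XT.nd (nat_lit 78) (nat_lit 0) (nat_lit 0) (XT.lf (nat_lit 0) (nat_lit 3177133767) (nat_lit 228) (nat_lit 12500973902) (nat_lit 76) (nat_lit 386020302) (nat_lit 16) (nat_lit 5) (nat_lit 19) (nat_lit 5) (nat_lit 17) (nat_lit 4) (nat_lit 288) (nat_lit 260) (nat_lit 232)) (XT.lf (nat_lit 0) (nat_lit 6704544199) (nat_lit 228) (nat_lit 5349549856) (nat_lit 76) (nat_lit 4896133790) (nat_lit 16) (nat_lit 5) (nat_lit 19) (nat_lit 5) (nat_lit 17)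 (nat_lit 4) (nat_lit 289) (nat_lit 260) (nat_lit 231))))) (XT.nd (nat_lit 312) (nat_lit 76) (nat_lit 0) (XT.nd (nat_lit 156) (nat_lit 228) (nat_lit 0) (XT.nd (nat_lit 78) (nat_lit 0) (nat_lit 0) (XT.lf (nat_lit 0) (nat_lit 2383591100) (nat_lit 76) (nat_lit 8121425803) (nat_lit 152) (nat_lit 7403052037) (nat_lit 15) (nat_lit 5) (nat_lit 16) (nat_lit 5) (nat_lit 17) (nat_lit 4) (nat_lit 290) (nat_lit 260) (nat_lit 230)) (XT.lf (nat_lit 0) (nat_lit 10932758621) (nat_lit 76) (nat_lit 3758931711) (nat_lit 152) (nat_lit 4244387653) (nat_lit 15) (nat_lit 5) (nat_lit 16) (nat_lit 5) (nat_lit 17) (nat_lit 4) (nat_lit 291) (nat_lit 260) (nat_lit 229))) (XT.nd (nat_lit 78) (nat_lit 228) (nat_lit 0) (XT.lf (nat_lit 0) (nat_lit 19175899805) (nat_lit 152) (nat_lit 6221835) (nat_lit 0) (nat_lit 867303212) (nat_lit 15) (nat_lit 5) (nat_lit 17) (nat_lit 4) (nat_lit 15) (nat_lit 4) (nat_lit 292) (nat_lit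 260) (nat_lit 228)) (XT.lf (nat_lit 0) (nat_lit 2890540658) (nat_lit 228) (nat_lit 12422581221) (nat_lit 76) (nat_lit 5912528041) (nat_lit 12) (nat_lit 5) (nat_lit 15) (nat_lit 5) (nat_lit 13) (nat_lit 4) (nat_lit 293) (nat_lit 260) (nat_lit 227)))) (XT.nd (nat_lit 156) (nat_lit 0) (nat_lit 0) (XT.nd (nat_lit 78) (nat_lit 76) (nat_lit 0) (XT.lf (nat_lit 0) (nat_lit 6853290725) (nat_lit 228) (nat_lit 4297014041) (nat_lit 76) (nat_lit 11348356505) (nat_lit 12) (nat_lit 5) (nat_lit 15) (nat_lit 5) (nat_lit 13) (nat_lit 4) (nat_lit 294) (nat_lit 260) (nat_lit 226)) (XT.lf (nat_lit 0) (nat_lit 4621041739) (nat_lit 76) (nat_lit 6571838198) (nat_lit 152) (nat_lit 12675925442) (nat_lit 11) (nat_lit 5) (nat_lit 12) (nat_lit 5) (nat_lit 13) (nat_lit 4) (nat_lit 295) (nat_lit 260) (nat_lit 225))) (XT.nd (nat_lit 78) (nat_lit 0) (nat_lit 0) (XT.lf (nat_lit 0) (nat_lit 14410443057) (nat_lit 76)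 (nat_lit 1537085741) (nat_lit 152) (nat_lit 9395672462) (nat_lit 11) (nat_lit 5) (nat_lit 12) (nat_lit 5) (nat_lit 13) (nat_lit 4) (nat_lit 296) (nat_lit 260) (nat_lit 224)) (XT.lf (nat_lit 0) (nat_lit 21129612454) (nat_lit 152) (nat_lit 2129345465) (nat_lit 0) (nat_lit 3672892200) (nat_lit 11) (nat_lit 5) (nat_lit 13) (nat_lit 4) (nat_lit 11) (nat_lit 4) (nat_lit 297) (nat_lit 260) (nat_lit 223)))))) (XT.nd (nat_lit 546) (nat_lit 152) (nat_lit 0) (XT.nd (nat_lit 234) (nat_lit 152) (nat_lit 0) (XT.nd (nat_lit 78) (nat_lit 76) (nat_lit 0) (XT.lf (nat_lit 0) (nat_lit 7643957618) (nat_lit 76) (nat_lit 19262786339) (nat_lit 76) (nat_lit 1726469864) (nat_lit 10) (nat_lit 4) (nat_lit 11) (nat_lit 5) (nat_lit 11) (nat_lit 4) (nat_lit 298) (nat_lit 260) (nat_lit 222)) (XT.nd (nat_lit 78) (nat_lit 0) (nat_lit 0) (XT.lf (nat_lit 0) (nat_lit 2558241853) (nat_lit 152) (nat_lit 12288873622) (nat_lit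 76) (nat_lit 15617139224) (nat_lit 9) (nat_lit 5) (nat_lit 11) (nat_lit 5) (nat_lit 10) (nat_lit 4) (nat_lit 299) (nat_lit 260) (nat_lit 221)) (XT.lf (nat_lit 0) (nat_lit 7052625289) (nat_lit 152) (nat_lit 3008797005) (nat_lit 76) (nat_lit 22380004327) (nat_lit 9) (nat_lit 5) (nat_lit 11) (nat_lit 5) (nat_lit 10) (nat_lit 4) (nat_lit 300) (nat_lit 260) (nat_lit 220)))) (XT.nd (nat_lit 156) (nat_lit 76) (nat_lit 0) (XT.nd (nat_lit 78) (nat_lit 0) (nat_lit 0) (XT.lf (nat_lit 0) (nat_lit 7313330757) (nat_lit 76) (nat_lit 4732233862) (nat_lit 152) (nat_lit 22520132408) (nat_lit 8) (nat_lit 5) (nat_lit 9) (nat_lit 5) (nat_lit 10) (nat_lit 4) (nat_lit 301) (nat_lit 260) (nat_lit 219)) (XT.lf (nat_lit 0) (nat_lit 17510558297) (nat_lit 152) (nat_lit 18314459233) (nat_lit 0) (nat_lit 1029123805) (nat_lit 8) (nat_lit 5) (nat_lit 10) (nat_lit 4) (nat_lit 8) (nat_lit 4) (nat_lit 302) (nat_lit 260)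 (nat_lit 218))) (XT.nd (nat_lit 78) (nat_lit 76) (nat_lit 0) (XT.lf (nat_lit 0) (nat_lit 23501968894) (nat_lit 152) (nat_lit 8846218326) (nat_lit 0) (nat_lit 6970375282) (nat_lit 8) (nat_lit 5) (nat_lit 10) (nat_lit 4) (nat_lit 8) (nat_lit 4) (nat_lit 303) (nat_lit 260) (nat_lit 217)) (XT.lf (nat_lit 0) (nat_lit 1391903532) (nat_lit 76) (nat_lit 28583062509) (nat_lit 76) (nat_lit 12005025267) (nat_lit 7) (nat_lit 4) (nat_lit 8) (nat_lit 5) (nat_lit 8) (nat_lit 4) (nat_lit 304) (nat_lit 260) (nat_lit 216))))) (XT.nd (nat_lit 312) (nat_lit 76) (nat_lit 0) (XT.nd (nat_lit 156) (nat_lit 76) (nat_lit 0) (XT.nd (nat_lit 78) (nat_lit 0) (nat_lit 0) (XT.lf (nat_lit 0) (nat_lit 12896408721) (nat_lit 76) (nat_lit 24281034146) (nat_lit 76) (nat_lit 7659993543) (nat_lit 7) (nat_lit 4) (nat_lit 8) (nat_lit 5) (nat_lit 8) (nat_lit 4) (nat_lit 305) (nat_lit 260) (nat_lit 215)) (XT.lf (nat_lit 0) (nat_lit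 25269645905) (nat_lit 76) (nat_lit 19658479918) (nat_lit 76) (nat_lit 2997621388) (nat_lit 7) (nat_lit 4) (nat_lit 8) (nat_lit 5) (nat_lit 8) (nat_lit 4) (nat_lit 306) (nat_lit 260) (nat_lit 214))) (XT.nd (nat_lit 78) (nat_lit 0) (nat_lit 0) (XT.lf (nat_lit 0) (nat_lit 1909185733) (nat_lit 152) (nat_lit 12726620656) (nat_lit 76) (nat_lit 36623551717) (nat_lit 6) (nat_lit 5) (nat_lit 8) (nat_lit 5) (nat_lit 7) (nat_lit 4) (nat_lit 307) (nat_lit 260) (nat_lit 213)) (XT.lf (nat_lit 0) (nat_lit 7021940998) (nat_lit 152) (nat_lit 2126227158) (nat_lit 76) (nat_lit 45707257044) (nat_lit 6) (nat_lit 5) (nat_lit 8) (nat_lit 5) (nat_lit 7) (nat_lit 4) (nat_lit 308) (nat_lit 260) (nat_lit 212)))) (XT.nd (nat_lit 156) (nat_lit 0) (nat_lit 0) (XT.nd (nat_lit 78) (nat_lit 0) (nat_lit 0) (XT.lf (nat_lit 0) (nat_lit 9768656984) (nat_lit 76) (nat_lit 2987174829) (nat_lit 152) (nat_lit 45966399225) (nat_lit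 5) (nat_lit 5) (nat_lit 6) (nat_lit 5) (nat_lit 7) (nat_lit 4) (nat_lit 309) (nat_lit 260) (nat_lit 211)) (XT.lf (nat_lit 0) (nat_lit 19073685199) (nat_lit 152) (nat_lit 40289845602) (nat_lit 0) (nat_lit 3524851352) (nat_lit 5) (nat_lit 5) (nat_lit 7) (nat_lit 4) (nat_lit 5) (nat_lit 4) (nat_lit 310) (nat_lit 260) (nat_lit 210))) (XT.nd (nat_lit 78) (nat_lit 0) (nat_lit 0) (XT.lf (nat_lit 0) (nat_lit 25953650548) (nat_lit 152) (nat_lit 31049934824) (nat_lit 0) (nat_lit 10379724653) (nat_lit 5) (nat_lit 5) (nat_lit 7) (nat_lit 4) (nat_lit 5) (nat_lit 4) (nat_lit 311) (nat_lit 260) (nat_lit 209)) (XT.lf (nat_lit 0) (nat_lit 33364656400) (nat_lit 152) (nat_lit 21107245067) (nat_lit 0) (nat_lit 17767497127) (nat_lit 5) (nat_lit 5) (nat_lit 7) (nat_lit 4) (nat_lit 5) (nat_lit 4) (nat_lit 312) (nat_lit 260) (nat_lit 208))))))))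
noncomputable def xc50 : XT := (XT.nd (nat_lit 2262) (nat_lit 76) (nat_lit 0) (XT.nd (nat_lit 1092) (nat_lit 0) (nat_lit 0) (XT.nd (nat_lit 546) (nat_lit 152) (nat_lit 0) (XT.nd (nat_lit 234) (nat_lit 0) (nat_lit 0) (XT.nd (nat_lit 78) (nat_lit 76) (nat_lit 0) (XT.lf (nat_lit 0) (nat_lit 41350619825) (nat_lit 152) (nat_lit 10402856690) (nat_lit 0) (nat_lit 25731948166) (nat_lit 5) (nat_lit 5) (nat_lit 7) (nat_lit 4) (nat_lit 5) (nat_lit 4) (nat_lit 313) (nat_lit 260) (nat_lit 207)) (XT.nd (nat_lit 78) (nat_lit 0) (nat_lit 0) (XT.lf (nat_lit 0) (nat_lit 1185991836) (nat_lit 76) (nat_lit 48801396349) (nat_lit 76) (nat_lit 33162805813) (nat_lit 4) (nat_lit 4) (nat_lit 5) (nat_lit 5) (nat_lit 5) (nat_lit 4) (nat_lit 314) (nat_lit 260) (nat_lit 206)) (XT.lf (nat_lit 0) (nat_lit 14263139241) (nat_lit 76) (nat_lit 45320293507) (nat_lit 76) (nat_lit 29663259566) (nat_lit 4) (nat_lit 4) (nat_lit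 5) (nat_lit 5) (nat_lit 5) (nat_lit 4) (nat_lit 315) (nat_lit 260) (nat_lit 205)))) (XT.nd (nat_lit 156) (nat_lit 0) (nat_lit 0) (XT.nd (nat_lit 78) (nat_lit 0) (nat_lit 0) (XT.lf (nat_lit 0) (nat_lit 28358283733) (nat_lit 76) (nat_lit 41573971769) (nat_lit 76) (nat_lit 25899860602) (nat_lit 4) (nat_lit 4) (nat_lit 5) (nat_lit 5) (nat_lit 5) (nat_lit 4) (nat_lit 316) (nat_lit 260) (nat_lit 204)) (XT.lf (nat_lit 0) (nat_lit 43554952096) (nat_lit 76) (nat_lit 37540230710) (nat_lit 76) (nat_lit 21850307296) (nat_lit 4) (nat_lit 4) (nat_lit 5) (nat_lit 5) (nat_lit 5) (nat_lit 4) (nat_lit 317) (nat_lit 260) (nat_lit 203))) (XT.nd (nat_lit 78) (nat_lit 0) (nat_lit 0) (XT.lf (nat_lit 0) (nat_lit 59943198660) (nat_lit 76) (nat_lit 33195166679) (nat_lit 76) (nat_lit 17490602296) (nat_lit 4) (nat_lit 4) (nat_lit 5) (nat_lit 5) (nat_lit 5) (nat_lit 4) (nat_lit 318) (nat_lit 260) (nat_lit 202))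 (XT.lf (nat_lit 0) (nat_lit 77620138959) (nat_lit 76) (nat_lit 28513031149) (nat_lit 76) (nat_lit 12794910313) (nat_lit 4) (nat_lit 4) (nat_lit 5) (nat_lit 5) (nat_lit 5) (nat_lit 4) (nat_lit 319) (nat_lit 260) (nat_lit 201))))) (XT.nd (nat_lit 234) (nat_lit 76) (nat_lit 0) (XT.nd (nat_lit 78) (nat_lit 76) (nat_lit 0) (XT.lf (nat_lit 0) (nat_lit 96690525234) (nat_lit 76) (nat_lit 23466078131) (nat_lit 76) (nat_lit 7735405024) (nat_lit 4) (nat_lit 4) (nat_lit 5) (nat_lit 5) (nat_lit 5) (nat_lit 4) (nat_lit 320) (nat_lit 260) (nat_lit 200)) (XT.nd (nat_lit 78) (nat_lit 76) (nat_lit 0) (XT.lf (nat_lit 0) (nat_lit 117267367180) (nat_lit 76) (nat_lit 18024399755) (nat_lit 76) (nat_lit 2282104175) (nat_lit 4) (nat_lit 4) (nat_lit 5) (nat_lit 5) (nat_lit 5) (nat_lit 4) (nat_lit 321) (nat_lit 260) (nat_lit 199)) (XT.lf (nat_lit 0) (nat_lit 3417356169) (nat_lit 152) (nat_lit 8644956296) (nat_lit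 76) (nat_lit 135961808895) (nat_lit 3) (nat_lit 5) (nat_lit 5) (nat_lit 5) (nat_lit 4) (nat_lit 4) (nat_lit 322) (nat_lit 260) (nat_lit 198)))) (XT.nd (nat_lit 156) (nat_lit 0) (nat_lit 0) (XT.nd (nat_lit 78) (nat_lit 0) (nat_lit 0) (XT.lf (nat_lit 0) (nat_lit 4077284978) (nat_lit 76) (nat_lit 5461323918) (nat_lit 152) (nat_lit 149759917543) (nat_lit 2) (nat_lit 5) (nat_lit 3) (nat_lit 5) (nat_lit 4) (nat_lit 4) (nat_lit 323) (nat_lit 260) (nat_lit 197)) (XT.lf (nat_lit 0) (nat_lit 16423325436) (nat_lit 152) (nat_lit 153210271725) (nat_lit 0) (nat_lit 1819392268) (nat_lit 2) (nat_lit 5) (nat_lit 4) (nat_lit 4) (nat_lit 2) (nat_lit 4) (nat_lit 324) (nat_lit 260) (nat_lit 196))) (XT.nd (nat_lit 78) (nat_lit 0) (nat_lit 0) (XT.lf (nat_lit 0) (nat_lit 23992474139) (nat_lit 152) (nat_lit 151196018125) (nat_lit 0) (nat_lit 9380630911) (nat_lit 2) (nat_lit 5) (nat_lit 4) (nat_lit 4) (nat_lit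 2) (nat_lit 4) (nat_lit 325) (nat_lit 260) (nat_lit 195)) (XT.lf (nat_lit 0) (nat_lit 32159564248) (nat_lit 152) (nat_lit 149035199373) (nat_lit 0) (nat_lit 17540396891) (nat_lit 2) (nat_lit 5) (nat_lit 4) (nat_lit 4) (nat_lit 2) (nat_lit 4) (nat_lit 326) (nat_lit 260) (nat_lit 194)))))) (XT.nd (nat_lit 546) (nat_lit 0) (nat_lit 0) (XT.nd (nat_lit 234) (nat_lit 0) (nat_lit 0) (XT.nd (nat_lit 78) (nat_lit 0) (nat_lit 0) (XT.lf (nat_lit 0) (nat_lit 40972993335) (nat_lit 152) (nat_lit 146715010617) (nat_lit 0) (nat_lit 26347044376) (nat_lit 2) (nat_lit 5) (nat_lit 4) (nat_lit 4) (nat_lit 2) (nat_lit 4) (nat_lit 327) (nat_lit 260) (nat_lit 193)) (XT.nd (nat_lit 78) (nat_lit 0) (nat_lit 0) (XT.lf (nat_lit 0) (nat_lit 50484989127) (nat_lit 152) (nat_lit 144221702590) (nat_lit 0) (nat_lit 35852760908) (nat_lit 2) (nat_lit 5) (nat_lit 4) (nat_lit 4) (nat_lit 2) (nat_lit 4) (nat_lit 328) (nat_lit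 260) (nat_lit 192)) (XT.lf (nat_lit 0) (nat_lit 60751919007) (nat_lit 152) (nat_lit 141540500133) (nat_lit 0) (nat_lit 46113876658) (nat_lit 2) (nat_lit 5) (nat_lit 4) (nat_lit 4) (nat_lit 2) (nat_lit 4) (nat_lit 329) (nat_lit 260) (nat_lit 191)))) (XT.nd (nat_lit 156) (nat_lit 0) (nat_lit 0) (XT.nd (nat_lit 78) (nat_lit 0) (nat_lit 0) (XT.lf (nat_lit 0) (nat_lit 71834624042) (nat_lit 152) (nat_lit 138655514639) (nat_lit 0) (nat_lit 57191198238) (nat_lit 2) (nat_lit 5) (nat_lit 4) (nat_lit 4) (nat_lit 2) (nat_lit 4) (nat_lit 330) (nat_lit 260) (nat_lit 190)) (XT.lf (nat_lit 0) (nat_lit 83798779519) (nat_lit 152) (nat_lit 135549649899) (nat_lit 0) (nat_lit 69150369035) (nat_lit 2) (nat_lit 5) (nat_lit 4) (nat_lit 4) (nat_lit 2) (nat_lit 4) (nat_lit 331) (nat_lit 260) (nat_lit 189))) (XT.nd (nat_lit 78) (nat_lit 0) (nat_lit 0) (XT.lf (nat_lit 0) (nat_lit 96715284138) (nat_lit 152) (nat_lit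 132204500787) (nat_lit 0) (nat_lit 82062258210) (nat_lit 2) (nat_lit 5) (nat_lit 4) (nat_lit 4) (nat_lit 2) (nat_lit 4) (nat_lit 332) (nat_lit 260) (nat_lit 188)) (XT.lf (nat_lit 0) (nat_lit 110660680149) (nat_lit 152) (nat_lit 128600244197) (nat_lit 0) (nat_lit 96003380662) (nat_lit 2) (nat_lit 5) (nat_lit 4) (nat_lit 4) (nat_lit 2) (nat_lit 4) (nat_lit 333) (nat_lit 260) (nat_lit 187))))) (XT.nd (nat_lit 312) (nat_lit 0) (nat_lit 0) (XT.nd (nat_lit 156) (nat_lit 0) (nat_lit 0) (XT.nd (nat_lit 78) (nat_lit 0) (nat_lit 0) (XT.lf (nat_lit 0) (nat_lit 125717606935) (nat_lit 152) (nat_lit 124715521572) (nat_lit 0) (nat_lit 111056350449) (nat_lit 2) (nat_lit 5) (nat_lit 4) (nat_lit 4) (nat_lit 2) (nat_lit 4) (nat_lit 334) (nat_lit 260) (nat_lit 186)) (XT.lf (nat_lit 0) (nat_lit 141975290729) (nat_lit 152) (nat_lit 120527312334) (nat_lit 0) (nat_lit 127310370355) (nat_lit 2) (nat_lit 5)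 (nat_lit 4) (nat_lit 4) (nat_lit 2) (nat_lit 4) (nat_lit 335) (nat_lit 260) (nat_lit 185))) (XT.nd (nat_lit 78) (nat_lit 0) (nat_lit 0) (XT.lf (nat_lit 0) (nat_lit 159530073362) (nat_lit 152) (nat_lit 116010797465) (nat_lit 0) (nat_lit 144861760499) (nat_lit 2) (nat_lit 5) (nat_lit 4) (nat_lit 4) (nat_lit 2) (nat_lit 4) (nat_lit 336) (nat_lit 260) (nat_lit 184)) (XT.lf (nat_lit 0) (nat_lit 178485983174) (nat_lit 152) (nat_lit 111139212433) (nat_lit 0) (nat_lit 163814529117) (nat_lit 2) (nat_lit 5) (nat_lit 4) (nat_lit 4) (nat_lit 2) (nat_lit 4) (nat_lit 337) (nat_lit 260) (nat_lit 183)))) (XT.nd (nat_lit 156) (nat_lit 0) (nat_lit 0) (XT.nd (nat_lit 78) (nat_lit 0) (nat_lit 0) (XT.lf (nat_lit 0) (nat_lit 198955351484) (nat_lit 152) (nat_lit 105883688584) (nat_lit 0) (nat_lit 184280988914) (nat_lit 2) (nat_lit 5) (nat_lit 4) (nat_lit 4) (nat_lit 2) (nat_lit 4) (nat_lit 338) (nat_lit 260)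 (nat_lit 182)) (XT.lf (nat_lit 0) (nat_lit 221059478251) (nat_lit 152) (nat_lit 100213082075) (nat_lit 0) (nat_lit 206382422613) (nat_lit 2) (nat_lit 5) (nat_lit 4) (nat_lit 4) (nat_lit 2) (nat_lit 4) (nat_lit 339) (nat_lit 260) (nat_lit 181))) (XT.nd (nat_lit 78) (nat_lit 0) (nat_lit 0) (XT.lf (nat_lit 0) (nat_lit 244929350893) (nat_lit 152) (nat_lit 94093789310) (nat_lit 0) (nat_lit 230249801675) (nat_lit 2) (nat_lit 5) (nat_lit 4) (nat_lit 4) (nat_lit 2) (nat_lit 4) (nat_lit 340) (nat_lit 260) (nat_lit 180)) (XT.lf (nat_lit 0) (nat_lit 270706420507) (nat_lit 152) (nat_lit 87489547816) (nat_lit 0) (nat_lit 256024562418) (nat_lit 2) (nat_lit 5) (nat_lit 4) (nat_lit 4) (nat_lit 2) (nat_lit 4) (nat_lit 341) (nat_lit 260) (nat_lit 179))))))) (XT.nd (nat_lit 1170) (nat_lit 0) (nat_lit 0) (XT.nd (nat_lit 546) (nat_lit 76) (nat_lit 0) (XT.nd (nat_lit 234) (nat_lit 0) (nat_lit 0) (XT.nd (nat_lit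 78) (nat_lit 0) (nat_lit 0) (XT.lf (nat_lit 0) (nat_lit 298543440100) (nat_lit 152) (nat_lit 80361221344) (nat_lit 0) (nat_lit 283859444167) (nat_lit 2) (nat_lit 5) (nat_lit 4) (nat_lit 4) (nat_lit 2) (nat_lit 4) (nat_lit 342) (nat_lit 260) (nat_lit 178)) (XT.nd (nat_lit 78) (nat_lit 0) (nat_lit 0) (XT.lf (nat_lit 0) (nat_lit 328605369785) (nat_lit 152) (nat_lit 72666567962) (nat_lit 0) (nat_lit 313919394368) (nat_lit 2) (nat_lit 5) (nat_lit 4) (nat_lit 4) (nat_lit 2) (nat_lit 4) (nat_lit 343) (nat_lit 260) (nat_lit 177)) (XT.lf (nat_lit 0) (nat_lit 361070354333) (nat_lit 152) (nat_lit 64359989723) (nat_lit 0) (nat_lit 346382546059) (nat_lit 2) (nat_lit 5) (nat_lit 4) (nat_lit 4) (nat_lit 2) (nat_lit 4) (nat_lit 344) (nat_lit 260) (nat_lit 176)))) (XT.nd (nat_lit 156) (nat_lit 0) (nat_lit 0) (XT.nd (nat_lit 78) (nat_lit 0) (nat_lit 0) (XT.lf (nat_lit 0) (nat_lit 396130778837) (nat_lit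 152) (nat_lit 55392262459) (nat_lit 0) (nat_lit 381441273474) (nat_lit 2) (nat_lit 5) (nat_lit 4) (nat_lit 4) (nat_lit 2) (nat_lit 4) (nat_lit 345) (nat_lit 260) (nat_lit 175)) (XT.lf (nat_lit 0) (nat_lit 433994408775) (nat_lit 152) (nat_lit 45710244083) (nat_lit 0) (nat_lit 419303332033) (nat_lit 2) (nat_lit 5) (nat_lit 4) (nat_lit 4) (nat_lit 2) (nat_lit 4) (nat_lit 346) (nat_lit 260) (nat_lit 174))) (XT.nd (nat_lit 78) (nat_lit 0) (nat_lit 0) (XT.lf (nat_lit 0) (nat_lit 474885621214) (nat_lit 152) (nat_lit 35256559672) (nat_lit 0) (nat_lit 460193089492) (nat_lit 2) (nat_lit 5) (nat_lit 4) (nat_lit 4) (nat_lit 2) (nat_lit 4) (nat_lit 347) (nat_lit 260) (nat_lit 173)) (XT.lf (nat_lit 0) (nat_lit 519046734449) (nat_lit 152) (nat_lit 23969261466) (nat_lit 0) (nat_lit 504352855523) (nat_lit 2) (nat_lit 5) (nat_lit 4) (nat_lit 4) (nat_lit 2) (nat_lit 4) (nat_lit 348) (nat_lit 260) (nat_lit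 172))))) (XT.nd (nat_lit 312) (nat_lit 0) (nat_lit 0) (XT.nd (nat_lit 156) (nat_lit 0) (nat_lit 0) (XT.nd (nat_lit 78) (nat_lit 76) (nat_lit 0) (XT.lf (nat_lit 0) (nat_lit 566739443967) (nat_lit 152) (nat_lit 11781461771) (nat_lit 0) (nat_lit 552044317629) (nat_lit 2) (nat_lit 5) (nat_lit 4) (nat_lit 4) (nat_lit 2) (nat_lit 4) (nat_lit 349) (nat_lit 260) (nat_lit 171)) (XT.lf (nat_lit 0) (nat_lit 1451682444) (nat_lit 76) (nat_lit 616829603785) (nat_lit 76) (nat_lit 602133322437) (nat_lit 1) (nat_lit 4) (nat_lit 2) (nat_lit 5) (nat_lit 2) (nat_lit 4) (nat_lit 350) (nat_lit 260) (nat_lit 170))) (XT.nd (nat_lit 78) (nat_lit 0) (nat_lit 0) (XT.lf (nat_lit 0) (nat_lit 16411260068) (nat_lit 76) (nat_lit 657856179620) (nat_lit 76) (nat_lit 643158828818) (nat_lit 1) (nat_lit 4) (nat_lit 2) (nat_lit 5) (nat_lit 2) (nat_lit 4) (nat_lit 351) (nat_lit 260) (nat_lit 169)) (XT.lf (nat_lit 0) (nat_lit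 32565529550) (nat_lit 76) (nat_lit 702165879738) (nat_lit 76) (nat_lit 687467538701) (nat_lit 1) (nat_lit 4) (nat_lit 2) (nat_lit 5) (nat_lit 2) (nat_lit 4) (nat_lit 352) (nat_lit 260) (nat_lit 168)))) (XT.nd (nat_lit 156) (nat_lit 0) (nat_lit 0) (XT.nd (nat_lit 78) (nat_lit 0) (nat_lit 0) (XT.lf (nat_lit 0) (nat_lit 50010219895) (nat_lit 76) (nat_lit 750021280139) (nat_lit 76) (nat_lit 735322022217) (nat_lit 1) (nat_lit 4) (nat_lit 2) (nat_lit 5) (nat_lit 2) (nat_lit 4) (nat_lit 353) (nat_lit 260) (nat_lit 167)) (XT.lf (nat_lit 0) (nat_lit 68848707046) (nat_lit 76) (nat_lit 801705968382) (nat_lit 76) (nat_lit 787005861492) (nat_lit 1) (nat_lit 4) (nat_lit 2) (nat_lit 5) (nat_lit 2) (nat_lit 4) (nat_lit 354) (nat_lit 260) (nat_lit 166))) (XT.nd (nat_lit 78) (nat_lit 0) (nat_lit 0) (XT.lf (nat_lit 0) (nat_lit 89192626481) (nat_lit 76) (nat_lit 857526224099) (nat_lit 76) (nat_lit 842825331129)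 (nat_lit 1) (nat_lit 4) (nat_lit 2) (nat_lit 5) (nat_lit 2) (nat_lit 4) (nat_lit 355) (nat_lit 260) (nat_lit 165)) (XT.lf (nat_lit 0) (nat_lit 111162534761) (nat_lit 76) (nat_lit 917812833992) (nat_lit 76) (nat_lit 903111213170) (nat_lit 1) (nat_lit 4) (nat_lit 2) (nat_lit 5) (nat_lit 2) (nat_lit 4) (nat_lit 356) (nat_lit 260) (nat_lit 164)))))) (XT.nd (nat_lit 546) (nat_lit 0) (nat_lit 0) (XT.nd (nat_lit 234) (nat_lit 0) (nat_lit 0) (XT.nd (nat_lit 78) (nat_lit 0) (nat_lit 0) (XT.lf (nat_lit 0) (nat_lit 134888623935) (nat_lit 76) (nat_lit 982923052046) (nat_lit 76) (nat_lit 968220757286) (nat_lit 1) (nat_lit 4) (nat_lit 2) (nat_lit 5) (nat_lit 2) (nat_lit 4) (nat_lit 357) (nat_lit 260) (nat_lit 163)) (XT.nd (nat_lit 78) (nat_lit 0) (nat_lit 0) (XT.lf (nat_lit 0) (nat_lit 160511493049) (nat_lit 76) (nat_lit 1053242716589) (nat_lit 76) (nat_lit 1038539797813) (nat_lit 1) (nat_lit 4)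 (nat_lit 2) (nat_lit 5) (nat_lit 2) (nat_lit 4) (nat_lit 358) (nat_lit 260) (nat_lit 162)) (XT.lf (nat_lit 0) (nat_lit 188182981329) (nat_lit 76) (nat_lit 1129188536745) (nat_lit 76) (nat_lit 1114485040176) (nat_lit 1) (nat_lit 4) (nat_lit 2) (nat_lit 5) (nat_lit 2) (nat_lit 4) (nat_lit 359) (nat_lit 260) (nat_lit 161)))) (XT.nd (nat_lit 156) (nat_lit 0) (nat_lit 0) (XT.nd (nat_lit 78) (nat_lit 0) (nat_lit 0) (XT.lf (nat_lit 0) (nat_lit 218067067963) (nat_lit 76) (nat_lit 1211210561818) (nat_lit 76) (nat_lit 1196506530256) (nat_lit 1) (nat_lit 4) (nat_lit 2) (nat_lit 5) (nat_lit 2) (nat_lit 4) (nat_lit 360) (nat_lit 260) (nat_lit 160)) (XT.lf (nat_lit 0) (nat_lit 250340843835) (nat_lit 76) (nat_lit 1299794848253) (nat_lit 76) (nat_lit 1285090321327) (nat_lit 1) (nat_lit 4) (nat_lit 2) (nat_lit 5) (nat_lit 2) (nat_lit 4) (nat_lit 361) (nat_lit 260) (nat_lit 159))) (XT.nd (nat_lit 78)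 (nat_lit 0) (nat_lit 0) (XT.lf (nat_lit 0) (nat_lit 285195560952) (nat_lit 76) (nat_lit 1395466339971) (nat_lit 76) (nat_lit 1380761354374) (nat_lit 1) (nat_lit 4) (nat_lit 2) (nat_lit 5) (nat_lit 2) (nat_lit 4) (nat_lit 362) (nat_lit 260) (nat_lit 158)) (XT.lf (nat_lit 0) (nat_lit 322837765783) (nat_lit 76) (nat_lit 1498791979143) (nat_lit 76) (nat_lit 1484086568851) (nat_lit 1) (nat_lit 4) (nat_lit 2) (nat_lit 5) (nat_lit 2) (nat_lit 4) (nat_lit 363) (nat_lit 260) (nat_lit 157))))) (XT.nd (nat_lit 32682) (nat_lit 0) (nat_lit 4408) (XT.nd (nat_lit 156) (nat_lit 0) (nat_lit 0) (XT.nd (nat_lit 78) (nat_lit 0) (nat_lit 0) (XT.lf (nat_lit 0) (nat_lit 363490523248) (nat_lit 76) (nat_lit 1610384065854) (nat_lit 76) (nat_lit 1595678262326) (nat_lit 1) (nat_lit 4) (nat_lit 2) (nat_lit 5) (nat_lit 2) (nat_lit 4) (nat_lit 364) (nat_lit 260) (nat_lit 156)) (XT.lf (nat_lit 0) (nat_lit 407394738575)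 (nat_lit 76) (nat_lit 1730903886544) (nat_lit 76) (nat_lit 1716197718909) (nat_lit 1) (nat_lit 4) (nat_lit 2) (nat_lit 5) (nat_lit 2) (nat_lit 4) (nat_lit 365) (nat_lit 260) (nat_lit 155))) (XT.nd (nat_lit 32448) (nat_lit 0) (nat_lit 4864) (XT.lf (nat_lit 0) (nat_lit 454810584893) (nat_lit 76) (nat_lit 1861065632742) (nat_lit 76) (nat_lit 1846359127971) (nat_lit 1) (nat_lit 4) (nat_lit 2) (nat_lit 5) (nat_lit 2) (nat_lit 4) (nat_lit 366) (nat_lit 260) (nat_lit 154)) (XT.lf (nat_lit 0) (nat_lit 1409516447) (nat_lit 0) (nat_lit 1409516447) (nat_lit 76) (nat_lit 415241533) (nat_lit 65) (nat_lit 5) (nat_lit 65) (nat_lit 3) (nat_lit 66) (nat_lit 0) (nat_lit 261) (nat_lit 261) (nat_lit 258)))) (XT.nd (nat_lit 156) (nat_lit 228) (nat_lit 0) (XT.nd (nat_lit 78) (nat_lit 0) (nat_lit 0) (XT.lf (nat_lit 0) (nat_lit 1736212049) (nat_lit 228) (nat_lit 657994048) (nat_lit 228) (nat_lit 4114652447)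 (nat_lit 62) (nat_lit 3) (nat_lit 65) (nat_lit 3) (nat_lit 65) (nat_lit 5) (nat_lit 262) (nat_lit 261) (nat_lit 257)) (XT.lf (nat_lit 76) (nat_lit 2539402938) (nat_lit 0) (nat_lit 1729251049) (nat_lit 228) (nat_lit 2299147515) (nat_lit 63) (nat_lit 5) (nat_lit 62) (nat_lit 3) (nat_lit 65) (nat_lit 5) (nat_lit 263) (nat_lit 261) (nat_lit 256))) (XT.nd (nat_lit 78) (nat_lit 0) (nat_lit 76) (XT.lf (nat_lit 0) (nat_lit 124361080) (nat_lit 228) (nat_lit 759196283) (nat_lit 304) (nat_lit 5766860775) (nat_lit 59) (nat_lit 5) (nat_lit 62) (nat_lit 3) (nat_lit 63) (nat_lit 5) (nat_lit 264) (nat_lit 261) (nat_lit 255)) (XT.lf (nat_lit 0) (nat_lit 2459461236) (nat_lit 228) (nat_lit 4046733179) (nat_lit 76) (nat_lit 242553864) (nat_lit 60) (nat_lit 5) (nat_lit 63) (nat_lit 5) (nat_lit 61) (nat_lit 5) (nat_lit 265) (nat_lit 261) (nat_lit 254))))))))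
noncomputable def xc51 : XT := (XT.nd (nat_lit 2262) (nat_lit 760) (nat_lit 0) (XT.nd (nat_lit 1092) (nat_lit 1140) (nat_lit 0) (XT.nd (nat_lit 546) (nat_lit 988) (nat_lit 0) (XT.nd (nat_lit 234) (nat_lit 1216) (nat_lit 0) (XT.nd (nat_lit 78) (nat_lit 304) (nat_lit 0) (XT.lf (nat_lit 0) (nat_lit 4811930653) (nat_lit 228) (nat_lit 548965857) (nat_lit 76) (nat_lit 1508747481) (nat_lit 60) (nat_lit 5) (nat_lit 63) (nat_lit 5) (nat_lit 61) (nat_lit 5) (nat_lit 266) (nat_lit 261) (nat_lit 253)) (XT.nd (nat_lit 78) (nat_lit 0) (nat_lit 0) (XT.lf (nat_lit 0) (nat_lit 210877057) (nat_lit 304) (nat_lit 3769110063) (nat_lit 76) (nat_lit 3030437611) (nat_lit 56) (nat_lit 5) (nat_lit 60) (nat_lit 5) (nat_lit 57) (nat_lit 5) (nat_lit 267) (nat_lit 261) (nat_lit 252)) (XT.lf (nat_lit 0) (nat_lit 2372830806) (nat_lit 304) (nat_lit 433107) (nat_lit 76) (nat_lit 4799992754) (nat_lit 56) (nat_lit 5)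 (nat_lit 60) (nat_lit 5) (nat_lit 57) (nat_lit 5) (nat_lit 268) (nat_lit 261) (nat_lit 251)))) (XT.nd (nat_lit 156) (nat_lit 532) (nat_lit 0) (XT.nd (nat_lit 78) (nat_lit 380) (nat_lit 0) (XT.lf (nat_lit 0) (nat_lit 4136508463) (nat_lit 304) (nat_lit 492610453) (nat_lit 380) (nat_lit 2727126917) (nat_lit 52) (nat_lit 5) (nat_lit 56) (nat_lit 5) (nat_lit 57) (nat_lit 5) (nat_lit 269) (nat_lit 261) (nat_lit 250)) (XT.lf (nat_lit 0) (nat_lit 907344252) (nat_lit 380) (nat_lit 6049962760) (nat_lit 456) (nat_lit 606033994) (nat_lit 47) (nat_lit 5) (nat_lit 52) (nat_lit 5) (nat_lit 53) (nat_lit 5) (nat_lit 270) (nat_lit 261) (nat_lit 249))) (XT.nd (nat_lit 78) (nat_lit 456) (nat_lit 0) (XT.lf (nat_lit 0) (nat_lit 1540190826) (nat_lit 456) (nat_lit 2444893215) (nat_lit 76) (nat_lit 3804168062) (nat_lit 46) (nat_lit 5) (nat_lit 52) (nat_lit 5) (nat_lit 47) (nat_lit 5) (nat_lit 271) (nat_lit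 261) (nat_lit 248)) (XT.lf (nat_lit 0) (nat_lit 2044215588) (nat_lit 456) (nat_lit 1679030381) (nat_lit 532) (nat_lit 4317519014) (nat_lit 40) (nat_lit 5) (nat_lit 46) (nat_lit 5) (nat_lit 47) (nat_lit 5) (nat_lit 272) (nat_lit 261) (nat_lit 247))))) (XT.nd (nat_lit 234) (nat_lit 684) (nat_lit 0) (XT.nd (nat_lit 78) (nat_lit 304) (nat_lit 0) (XT.lf (nat_lit 0) (nat_lit 6025597624) (nat_lit 532) (nat_lit 1450622776) (nat_lit 76) (nat_lit 841178642) (nat_lit 40) (nat_lit 5) (nat_lit 47) (nat_lit 5) (nat_lit 41) (nat_lit 5) (nat_lit 273) (nat_lit 261) (nat_lit 246)) (XT.nd (nat_lit 78) (nat_lit 76) (nat_lit 0) (XT.lf (nat_lit 0) (nat_lit 3445293048) (nat_lit 228) (nat_lit 5060492056) (nat_lit 304) (nat_lit 111416829) (nat_lit 37) (nat_lit 5) (nat_lit 40) (nat_lit 5) (nat_lit 41) (nat_lit 5) (nat_lit 274) (nat_lit 261) (nat_lit 245)) (XT.lf (nat_lit 0) (nat_lit 2041797556) (nat_lit 304)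 (nat_lit 323538918) (nat_lit 76) (nat_lit 6578940767) (nat_lit 36) (nat_lit 5) (nat_lit 40) (nat_lit 5) (nat_lit 37) (nat_lit 5) (nat_lit 275) (nat_lit 261) (nat_lit 244)))) (XT.nd (nat_lit 156) (nat_lit 228) (nat_lit 0) (XT.nd (nat_lit 78) (nat_lit 228) (nat_lit 0) (XT.lf (nat_lit 0) (nat_lit 4377663299) (nat_lit 304) (nat_lit 4287719214) (nat_lit 76) (nat_lit 631012125) (nat_lit 33) (nat_lit 5) (nat_lit 37) (nat_lit 5) (nat_lit 34) (nat_lit 5) (nat_lit 276) (nat_lit 261) (nat_lit 243)) (XT.lf (nat_lit 0) (nat_lit 954976405) (nat_lit 228) (nat_lit 5923803563) (nat_lit 304) (nat_lit 2800020434) (nat_lit 30) (nat_lit 5) (nat_lit 33) (nat_lit 5) (nat_lit 34) (nat_lit 5) (nat_lit 277) (nat_lit 261) (nat_lit 242))) (XT.nd (nat_lit 78) (nat_lit 228) (nat_lit 0) (XT.lf (nat_lit 0) (nat_lit 6723482806) (nat_lit 228) (nat_lit 2863858388) (nat_lit 304) (nat_lit 504229672) (nat_lit 30) (nat_lit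 5) (nat_lit 33) (nat_lit 5) (nat_lit 34) (nat_lit 5) (nat_lit 278) (nat_lit 261) (nat_lit 241)) (XT.lf (nat_lit 0) (nat_lit 1840935810) (nat_lit 228) (nat_lit 8197116020) (nat_lit 76) (nat_lit 498658390) (nat_lit 27) (nat_lit 5) (nat_lit 30) (nat_lit 5) (nat_lit 28) (nat_lit 5) (nat_lit 279) (nat_lit 261) (nat_lit 240)))))) (XT.nd (nat_lit 546) (nat_lit 608) (nat_lit 0) (XT.nd (nat_lit 234) (nat_lit 380) (nat_lit 0) (XT.nd (nat_lit 78) (nat_lit 152) (nat_lit 0) (XT.lf (nat_lit 0) (nat_lit 4414563478) (nat_lit 228) (nat_lit 2541831943) (nat_lit 76) (nat_lit 4054856616) (nat_lit 27) (nat_lit 5) (nat_lit 30) (nat_lit 5) (nat_lit 28) (nat_lit 5) (nat_lit 280) (nat_lit 261) (nat_lit 239)) (XT.nd (nat_lit 78) (nat_lit 0) (nat_lit 0) (XT.lf (nat_lit 0) (nat_lit 3619822646) (nat_lit 152) (nat_lit 3568003575) (nat_lit 228) (nat_lit 4336696484) (nat_lit 25) (nat_lit 5) (nat_lit 27) (nat_lit 5)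 (nat_lit 28) (nat_lit 5) (nat_lit 281) (nat_lit 261) (nat_lit 238)) (XT.lf (nat_lit 0) (nat_lit 10166242387) (nat_lit 228) (nat_lit 1788811364) (nat_lit 76) (nat_lit 125383338) (nat_lit 25) (nat_lit 5) (nat_lit 28) (nat_lit 5) (nat_lit 26) (nat_lit 4) (nat_lit 282) (nat_lit 261) (nat_lit 237)))) (XT.nd (nat_lit 156) (nat_lit 152) (nat_lit 0) (XT.nd (nat_lit 78) (nat_lit 0) (nat_lit 0) (XT.lf (nat_lit 0) (nat_lit 795708620) (nat_lit 228) (nat_lit 7845903199) (nat_lit 76) (nat_lit 4027774498) (nat_lit 22) (nat_lit 5) (nat_lit 25) (nat_lit 5) (nat_lit 23) (nat_lit 5) (nat_lit 283) (nat_lit 261) (nat_lit 236)) (XT.lf (nat_lit 0) (nat_lit 3586712314) (nat_lit 228) (nat_lit 1408326563) (nat_lit 76) (nat_lit 8309211961) (nat_lit 22) (nat_lit 5) (nat_lit 25) (nat_lit 5) (nat_lit 23) (nat_lit 5) (nat_lit 284) (nat_lit 261) (nat_lit 235))) (XT.nd (nat_lit 78) (nat_lit 0) (nat_lit 0) (XT.lf (nat_lit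 0) (nat_lit 5717012315) (nat_lit 152) (nat_lit 945130767) (nat_lit 228) (nat_lit 7323050116) (nat_lit 20) (nat_lit 5) (nat_lit 22) (nat_lit 5) (nat_lit 23) (nat_lit 5) (nat_lit 285) (nat_lit 261) (nat_lit 234)) (XT.lf (nat_lit 0) (nat_lit 10031339885) (nat_lit 228) (nat_lit 1424031357) (nat_lit 76) (nat_lit 3261588231) (nat_lit 20) (nat_lit 5) (nat_lit 23) (nat_lit 5) (nat_lit 21) (nat_lit 4) (nat_lit 286) (nat_lit 261) (nat_lit 233))))) (XT.nd (nat_lit 312) (nat_lit 304) (nat_lit 0) (XT.nd (nat_lit 156) (nat_lit 152) (nat_lit 0) (XT.nd (nat_lit 78) (nat_lit 76) (nat_lit 0) (XT.lf (nat_lit 0) (nat_lit 6143468935) (nat_lit 76) (nat_lit 7630165210) (nat_lit 152) (nat_lit 1725502648) (nat_lit 19) (nat_lit 5) (nat_lit 20) (nat_lit 5) (nat_lit 21) (nat_lit 4) (nat_lit 287) (nat_lit 261) (nat_lit 232)) (XT.lf (nat_lit 0) (nat_lit 1369756464) (nat_lit 152) (nat_lit 2087776988) (nat_lit 76)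 (nat_lit 12885901287) (nat_lit 18) (nat_lit 5) (nat_lit 20) (nat_lit 5) (nat_lit 19) (nat_lit 5) (nat_lit 288) (nat_lit 261) (nat_lit 231))) (XT.nd (nat_lit 78) (nat_lit 0) (nat_lit 0) (XT.lf (nat_lit 0) (nat_lit 4727835166) (nat_lit 228) (nat_lit 11362136707) (nat_lit 76) (nat_lit 1153168309) (nat_lit 16) (nat_lit 5) (nat_lit 19) (nat_lit 5) (nat_lit 17) (nat_lit 4) (nat_lit 289) (nat_lit 261) (nat_lit 230)) (XT.lf (nat_lit 0) (nat_lit 8441399121) (nat_lit 228) (nat_lit 3797036893) (nat_lit 76) (nat_lit 5969552625) (nat_lit 16) (nat_lit 5) (nat_lit 19) (nat_lit 5) (nat_lit 17) (nat_lit 4) (nat_lit 290) (nat_lit 261) (nat_lit 229)))) (XT.nd (nat_lit 156) (nat_lit 228) (nat_lit 0) (XT.nd (nat_lit 78) (nat_lit 0) (nat_lit 0) (XT.lf (nat_lit 0) (nat_lit 4504616682) (nat_lit 76) (nat_lit 7998792354) (nat_lit 152) (nat_lit 6742612340) (nat_lit 15) (nat_lit 5) (nat_lit 16) (nat_lit 5) (nat_lit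 17) (nat_lit 4) (nat_lit 291) (nat_lit 261) (nat_lit 228)) (XT.lf (nat_lit 0) (nat_lit 13594729583) (nat_lit 76) (nat_lit 3344509662) (nat_lit 152) (nat_lit 3424046202) (nat_lit 15) (nat_lit 5) (nat_lit 16) (nat_lit 5) (nat_lit 17) (nat_lit 4) (nat_lit 292) (nat_lit 261) (nat_lit 227))) (XT.nd (nat_lit 78) (nat_lit 0) (nat_lit 0) (XT.lf (nat_lit 0) (nat_lit 184880944) (nat_lit 228) (nat_lit 19768408047) (nat_lit 76) (nat_lit 1613786984) (nat_lit 12) (nat_lit 5) (nat_lit 15) (nat_lit 5) (nat_lit 13) (nat_lit 4) (nat_lit 293) (nat_lit 261) (nat_lit 226)) (XT.lf (nat_lit 0) (nat_lit 4122959365) (nat_lit 228) (nat_lit 11685494711) (nat_lit 76) (nat_lit 7033644184) (nat_lit 12) (nat_lit 5) (nat_lit 15) (nat_lit 5) (nat_lit 13) (nat_lit 4) (nat_lit 294) (nat_lit 261) (nat_lit 225))))))) (XT.nd (nat_lit 1170) (nat_lit 304) (nat_lit 0) (XT.nd (nat_lit 546) (nat_lit 228) (nat_lit 0) (XT.nd (nat_lit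 234) (nat_lit 152) (nat_lit 0) (XT.nd (nat_lit 78) (nat_lit 76) (nat_lit 0) (XT.lf (nat_lit 0) (nat_lit 8328568293) (nat_lit 228) (nat_lit 3038096454) (nat_lit 76) (nat_lit 12856330488) (nat_lit 12) (nat_lit 5) (nat_lit 15) (nat_lit 5) (nat_lit 13) (nat_lit 4) (nat_lit 295) (nat_lit 261) (nat_lit 224)) (XT.nd (nat_lit 78) (nat_lit 0) (nat_lit 0) (XT.lf (nat_lit 0) (nat_lit 6552829643) (nat_lit 76) (nat_lit 6431395923) (nat_lit 152) (nat_lit 12721116771) (nat_lit 11) (nat_lit 5) (nat_lit 12) (nat_lit 5) (nat_lit 13) (nat_lit 4) (nat_lit 296) (nat_lit 261) (nat_lit 223)) (XT.lf (nat_lit 0) (nat_lit 17009671618) (nat_lit 76) (nat_lit 1043210627) (nat_lit 152) (nat_lit 9250212641) (nat_lit 11) (nat_lit 5) (nat_lit 12) (nat_lit 5) (nat_lit 13) (nat_lit 4) (nat_lit 297) (nat_lit 261) (nat_lit 222)))) (XT.nd (nat_lit 156) (nat_lit 76) (nat_lit 0) (XT.nd (nat_lit 78) (nat_lit 76) (nat_lit 0)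 (XT.lf (nat_lit 0) (nat_lit 23601820532) (nat_lit 152) (nat_lit 911618542) (nat_lit 0) (nat_lit 4509302316) (nat_lit 11) (nat_lit 5) (nat_lit 13) (nat_lit 4) (nat_lit 11) (nat_lit 4) (nat_lit 298) (nat_lit 261) (nat_lit 221)) (XT.lf (nat_lit 0) (nat_lit 9608407660) (nat_lit 76) (nat_lit 20207338970) (nat_lit 76) (nat_lit 1046579824) (nat_lit 10) (nat_lit 4) (nat_lit 11) (nat_lit 5) (nat_lit 11) (nat_lit 4) (nat_lit 299) (nat_lit 261) (nat_lit 220))) (XT.nd (nat_lit 78) (nat_lit 0) (nat_lit 0) (XT.lf (nat_lit 0) (nat_lit 3482426733) (nat_lit 152) (nat_lit 11980497584) (nat_lit 76) (nat_lit 17380027869) (nat_lit 9) (nat_lit 5) (nat_lit 11) (nat_lit 5) (nat_lit 10) (nat_lit 4) (nat_lit 300) (nat_lit 261) (nat_lit 219)) (XT.lf (nat_lit 0) (nat_lit 8283062656) (nat_lit 152) (nat_lit 2053680463) (nat_lit 76) (nat_lit 24645883845) (nat_lit 9) (nat_lit 5) (nat_lit 11) (nat_lit 5) (nat_lit 10)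 (nat_lit 4) (nat_lit 301) (nat_lit 261) (nat_lit 218))))) (XT.nd (nat_lit 312) (nat_lit 76) (nat_lit 0) (XT.nd (nat_lit 156) (nat_lit 76) (nat_lit 0) (XT.nd (nat_lit 78) (nat_lit 0) (nat_lit 0) (XT.lf (nat_lit 0) (nat_lit 9063943590) (nat_lit 76) (nat_lit 4590174789) (nat_lit 152) (nat_lit 23624486540) (nat_lit 8) (nat_lit 5) (nat_lit 9) (nat_lit 5) (nat_lit 10) (nat_lit 4) (nat_lit 302) (nat_lit 261) (nat_lit 217)) (XT.lf (nat_lit 0) (nat_lit 19520134387) (nat_lit 152) (nat_lit 18663529961) (nat_lit 0) (nat_lit 1569410536) (nat_lit 8) (nat_lit 5) (nat_lit 10) (nat_lit 4) (nat_lit 8) (nat_lit 4) (nat_lit 303) (nat_lit 261) (nat_lit 216))) (XT.nd (nat_lit 78) (nat_lit 76) (nat_lit 0) (XT.lf (nat_lit 0) (nat_lit 25945766615) (nat_lit 152) (nat_lit 8520502820) (nat_lit 0) (nat_lit 7952039403) (nat_lit 8) (nat_lit 5) (nat_lit 10) (nat_lit 4) (nat_lit 8) (nat_lit 4) (nat_lit 304) (nat_lit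 261) (nat_lit 215)) (XT.lf (nat_lit 0) (nat_lit 2510506434) (nat_lit 76) (nat_lit 30408570375) (nat_lit 76) (nat_lit 12375025236) (nat_lit 7) (nat_lit 4) (nat_lit 8) (nat_lit 5) (nat_lit 8) (nat_lit 4) (nat_lit 305) (nat_lit 261) (nat_lit 214)))) (XT.nd (nat_lit 156) (nat_lit 76) (nat_lit 0) (XT.nd (nat_lit 78) (nat_lit 0) (nat_lit 0) (XT.lf (nat_lit 0) (nat_lit 14860760881) (nat_lit 76) (nat_lit 25796538050) (nat_lit 76) (nat_lit 7726124460) (nat_lit 7) (nat_lit 4) (nat_lit 8) (nat_lit 5) (nat_lit 8) (nat_lit 4) (nat_lit 306) (nat_lit 261) (nat_lit 213)) (XT.lf (nat_lit 0) (nat_lit 28154772635) (nat_lit 76) (nat_lit 20835807545) (nat_lit 76) (nat_lit 2731256500) (nat_lit 7) (nat_lit 4) (nat_lit 8) (nat_lit 5) (nat_lit 8) (nat_lit 4) (nat_lit 307) (nat_lit 261) (nat_lit 212))) (XT.nd (nat_lit 78) (nat_lit 0) (nat_lit 0) (XT.lf (nat_lit 0) (nat_lit 2507155495) (nat_lit 152) (nat_lit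 12921276368) (nat_lit 76) (nat_lit 39895615456) (nat_lit 6) (nat_lit 5) (nat_lit 8) (nat_lit 5) (nat_lit 7) (nat_lit 4) (nat_lit 308) (nat_lit 261) (nat_lit 211)) (XT.lf (nat_lit 0) (nat_lit 7995950818) (nat_lit 152) (nat_lit 1533849460) (nat_lit 76) (nat_lit 49680670572) (nat_lit 6) (nat_lit 5) (nat_lit 8) (nat_lit 5) (nat_lit 7) (nat_lit 4) (nat_lit 309) (nat_lit 261) (nat_lit 210)))))) (XT.nd (nat_lit 546) (nat_lit 152) (nat_lit 0) (XT.nd (nat_lit 234) (nat_lit 76) (nat_lit 0) (XT.nd (nat_lit 78) (nat_lit 0) (nat_lit 0) (XT.lf (nat_lit 0) (nat_lit 11293322227) (nat_lit 76) (nat_lit 2882566620) (nat_lit 152) (nat_lit 49211775656) (nat_lit 5) (nat_lit 5) (nat_lit 6) (nat_lit 5) (nat_lit 7) (nat_lit 4) (nat_lit 310) (nat_lit 261) (nat_lit 209)) (XT.nd (nat_lit 78) (nat_lit 0) (nat_lit 0) (XT.lf (nat_lit 0) (nat_lit 20977222282) (nat_lit 152) (nat_lit 42802612377) (nat_lit 0) (nat_lit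 4109056889) (nat_lit 5) (nat_lit 5) (nat_lit 7) (nat_lit 4) (nat_lit 5) (nat_lit 4) (nat_lit 311) (nat_lit 261) (nat_lit 208)) (XT.lf (nat_lit 0) (nat_lit 28379611357) (nat_lit 152) (nat_lit 32876132505) (nat_lit 0) (nat_lit 11489933578) (nat_lit 5) (nat_lit 5) (nat_lit 7) (nat_lit 4) (nat_lit 5) (nat_lit 4) (nat_lit 312) (nat_lit 261) (nat_lit 207)))) (XT.nd (nat_lit 156) (nat_lit 76) (nat_lit 0) (XT.nd (nat_lit 78) (nat_lit 0) (nat_lit 0) (XT.lf (nat_lit 0) (nat_lit 36357596287) (nat_lit 152) (nat_lit 22186753280) (nat_lit 0) (nat_lit 19447999631) (nat_lit 5) (nat_lit 5) (nat_lit 7) (nat_lit 4) (nat_lit 5) (nat_lit 4) (nat_lit 313) (nat_lit 261) (nat_lit 206)) (XT.lf (nat_lit 0) (nat_lit 44958454018) (nat_lit 152) (nat_lit 10671130231) (nat_lit 0) (nat_lit 28030413958) (nat_lit 5) (nat_lit 5) (nat_lit 7) (nat_lit 4) (nat_lit 5) (nat_lit 4) (nat_lit 314) (nat_lit 261) (nat_lit 205)))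 (XT.nd (nat_lit 78) (nat_lit 0) (nat_lit 0) (XT.lf (nat_lit 0) (nat_lit 1830548835) (nat_lit 76) (nat_lit 52446628506) (nat_lit 76) (nat_lit 35501511219) (nat_lit 4) (nat_lit 4) (nat_lit 5) (nat_lit 5) (nat_lit 5) (nat_lit 4) (nat_lit 315) (nat_lit 261) (nat_lit 204)) (XT.lf (nat_lit 0) (nat_lit 15913151169) (nat_lit 76) (nat_lit 48706213699) (nat_lit 76) (nat_lit 31745284166) (nat_lit 4) (nat_lit 4) (nat_lit 5) (nat_lit 5) (nat_lit 5) (nat_lit 4) (nat_lit 316) (nat_lit 261) (nat_lit 203))))) (XT.nd (nat_lit 312) (nat_lit 152) (nat_lit 0) (XT.nd (nat_lit 156) (nat_lit 0) (nat_lit 0) (XT.nd (nat_lit 78) (nat_lit 0) (nat_lit 0) (XT.lf (nat_lit 0) (nat_lit 31098206422) (nat_lit 76) (nat_lit 44677942022) (nat_lit 76) (nat_lit 27702371519) (nat_lit 4) (nat_lit 4) (nat_lit 5) (nat_lit 5) (nat_lit 5) (nat_lit 4) (nat_lit 317) (nat_lit 261) (nat_lit 202)) (XT.lf (nat_lit 0) (nat_lit 47475700106)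 (nat_lit 76) (nat_lit 40337942232) (nat_lit 76) (nat_lit 23348815277) (nat_lit 4) (nat_lit 4) (nat_lit 5) (nat_lit 5) (nat_lit 5) (nat_lit 4) (nat_lit 318) (nat_lit 261) (nat_lit 201))) (XT.nd (nat_lit 78) (nat_lit 0) (nat_lit 0) (XT.lf (nat_lit 0) (nat_lit 65142684036) (nat_lit 76) (nat_lit 35660495815) (nat_lit 76) (nat_lit 18658816588) (nat_lit 4) (nat_lit 4) (nat_lit 5) (nat_lit 5) (nat_lit 5) (nat_lit 4) (nat_lit 319) (nat_lit 261) (nat_lit 200)) (XT.lf (nat_lit 0) (nat_lit 84203851450) (nat_lit 76) (nat_lit 30617884568) (nat_lit 76) (nat_lit 13604582868) (nat_lit 4) (nat_lit 4) (nat_lit 5) (nat_lit 5) (nat_lit 5) (nat_lit 4) (nat_lit 320) (nat_lit 261) (nat_lit 199)))) (XT.nd (nat_lit 156) (nat_lit 152) (nat_lit 0) (XT.nd (nat_lit 78) (nat_lit 0) (nat_lit 0) (XT.lf (nat_lit 0) (nat_lit 104772157414) (nat_lit 76) (nat_lit 25180226351) (nat_lit 76) (nat_lit 8156163102) (nat_lit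 4) (nat_lit 4) (nat_lit 5) (nat_lit 5) (nat_lit 5) (nat_lit 4) (nat_lit 321) (nat_lit 261) (nat_lit 198)) (XT.lf (nat_lit 0) (nat_lit 126969488185) (nat_lit 76) (nat_lit 19315298004) (nat_lit 76) (nat_lit 2281270357) (nat_lit 4) (nat_lit 4) (nat_lit 5) (nat_lit 5) (nat_lit 5) (nat_lit 4) (nat_lit 322) (nat_lit 261) (nat_lit 197))) (XT.nd (nat_lit 78) (nat_lit 76) (nat_lit 0) (XT.lf (nat_lit 0) (nat_lit 3852066546) (nat_lit 152) (nat_lit 9030955524) (nat_lit 76) (nat_lit 146969994629) (nat_lit 3) (nat_lit 5) (nat_lit 5) (nat_lit 5) (nat_lit 4) (nat_lit 4) (nat_lit 323) (nat_lit 261) (nat_lit 196)) (XT.lf (nat_lit 0) (nat_lit 4701328412) (nat_lit 76) (nat_lit 5756904865) (nat_lit 152) (nat_lit 161571533331) (nat_lit 2) (nat_lit 5) (nat_lit 3) (nat_lit 5) (nat_lit 4) (nat_lit 4) (nat_lit 324) (nat_lit 261) (nat_lit 195))))))))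
noncomputable def xc52 : XT := (XT.nd (nat_lit 2262) (nat_lit 0) (nat_lit 0) (XT.nd (nat_lit 1092) (nat_lit 76) (nat_lit 0) (XT.nd (nat_lit 546) (nat_lit 0) (nat_lit 0) (XT.nd (nat_lit 234) (nat_lit 0) (nat_lit 0) (XT.nd (nat_lit 78) (nat_lit 0) (nat_lit 0) (XT.lf (nat_lit 0) (nat_lit 17885279006) (nat_lit 152) (nat_lit 165182738174) (nat_lit 0) (nat_lit 2089254130) (nat_lit 2) (nat_lit 5) (nat_lit 4) (nat_lit 4) (nat_lit 2) (nat_lit 4) (nat_lit 325) (nat_lit 261) (nat_lit 194)) (XT.nd (nat_lit 78) (nat_lit 0) (nat_lit 0) (XT.lf (nat_lit 0) (nat_lit 26048990158) (nat_lit 152) (nat_lit 163028407641) (nat_lit 0) (nat_lit 10246183681) (nat_lit 2) (nat_lit 5) (nat_lit 4) (nat_lit 4) (nat_lit 2) (nat_lit 4) (nat_lit 326) (nat_lit 261) (nat_lit 193)) (XT.lf (nat_lit 0) (nat_lit 34859290581) (nat_lit 152) (nat_lit 160714226495) (nat_lit 0) (nat_lit 19050204843) (nat_lit 2) (nat_lit 5) (nat_lit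 4) (nat_lit 4) (nat_lit 2) (nat_lit 4) (nat_lit 327) (nat_lit 261) (nat_lit 192)))) (XT.nd (nat_lit 156) (nat_lit 0) (nat_lit 0) (XT.nd (nat_lit 78) (nat_lit 0) (nat_lit 0) (XT.lf (nat_lit 0) (nat_lit 44368389462) (nat_lit 152) (nat_lit 158226481070) (nat_lit 0) (nat_lit 28553489594) (nat_lit 2) (nat_lit 5) (nat_lit 4) (nat_lit 4) (nat_lit 2) (nat_lit 4) (nat_lit 328) (nat_lit 261) (nat_lit 191)) (XT.lf (nat_lit 0) (nat_lit 54632637017) (nat_lit 152) (nat_lit 155550429171) (nat_lit 0) (nat_lit 38812353695) (nat_lit 2) (nat_lit 5) (nat_lit 4) (nat_lit 4) (nat_lit 2) (nat_lit 4) (nat_lit 329) (nat_lit 261) (nat_lit 190))) (XT.nd (nat_lit 78) (nat_lit 0) (nat_lit 0) (XT.lf (nat_lit 0) (nat_lit 65712858416) (nat_lit 152) (nat_lit 152670212712) (nat_lit 0) (nat_lit 49887590415) (nat_lit 2) (nat_lit 5) (nat_lit 4) (nat_lit 4) (nat_lit 2) (nat_lit 4) (nat_lit 330) (nat_lit 261) (nat_lit 189))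 (XT.lf (nat_lit 0) (nat_lit 77674714232) (nat_lit 152) (nat_lit 149568763744) (nat_lit 0) (nat_lit 61844830786) (nat_lit 2) (nat_lit 5) (nat_lit 4) (nat_lit 4) (nat_lit 2) (nat_lit 4) (nat_lit 331) (nat_lit 261) (nat_lit 188))))) (XT.nd (nat_lit 234) (nat_lit 0) (nat_lit 0) (XT.nd (nat_lit 78) (nat_lit 0) (nat_lit 0) (XT.lf (nat_lit 0) (nat_lit 90589089535) (nat_lit 152) (nat_lit 146227703310) (nat_lit 0) (nat_lit 74754932530) (nat_lit 2) (nat_lit 5) (nat_lit 4) (nat_lit 4) (nat_lit 2) (nat_lit 4) (nat_lit 332) (nat_lit 261) (nat_lit 187)) (XT.nd (nat_lit 78) (nat_lit 0) (nat_lit 0) (XT.lf (nat_lit 0) (nat_lit 104532513956) (nat_lit 152) (nat_lit 142627232534) (nat_lit 0) (nat_lit 88694399952) (nat_lit 2) (nat_lit 5) (nat_lit 4) (nat_lit 4) (nat_lit 2) (nat_lit 4) (nat_lit 333) (nat_lit 261) (nat_lit 186)) (XT.lf (nat_lit 0) (nat_lit 119587615197) (nat_lit 152) (nat_lit 138746015293)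 (nat_lit 0) (nat_lit 103745837305) (nat_lit 2) (nat_lit 5) (nat_lit 4) (nat_lit 4) (nat_lit 2) (nat_lit 4) (nat_lit 334) (nat_lit 261) (nat_lit 185)))) (XT.nd (nat_lit 156) (nat_lit 0) (nat_lit 0) (XT.nd (nat_lit 78) (nat_lit 0) (nat_lit 0) (XT.lf (nat_lit 0) (nat_lit 135843608672) (nat_lit 152) (nat_lit 134561051780) (nat_lit 0) (nat_lit 119998438290) (nat_lit 2) (nat_lit 5) (nat_lit 4) (nat_lit 4) (nat_lit 2) (nat_lit 4) (nat_lit 335) (nat_lit 261) (nat_lit 184)) (XT.lf (nat_lit 0) (nat_lit 153396826193) (nat_lit 152) (nat_lit 130047542212) (nat_lit 0) (nat_lit 137548514618) (nat_lit 2) (nat_lit 5) (nat_lit 4) (nat_lit 4) (nat_lit 2) (nat_lit 4) (nat_lit 336) (nat_lit 261) (nat_lit 183))) (XT.nd (nat_lit 78) (nat_lit 0) (nat_lit 0) (XT.lf (nat_lit 0) (nat_lit 172351286829) (nat_lit 152) (nat_lit 125178739865) (nat_lit 0) (nat_lit 156500066741) (nat_lit 2) (nat_lit 5) (nat_lit 4) (nat_lit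 4) (nat_lit 2) (nat_lit 4) (nat_lit 337) (nat_lit 261) (nat_lit 182)) (XT.lf (nat_lit 0) (nat_lit 192819313308) (nat_lit 152) (nat_lit 119925792577) (nat_lit 0) (nat_lit 176965400152) (nat_lit 2) (nat_lit 5) (nat_lit 4) (nat_lit 4) (nat_lit 2) (nat_lit 4) (nat_lit 338) (nat_lit 261) (nat_lit 181)))))) (XT.nd (nat_lit 546) (nat_lit 76) (nat_lit 0) (XT.nd (nat_lit 234) (nat_lit 0) (nat_lit 0) (XT.nd (nat_lit 78) (nat_lit 0) (nat_lit 0) (XT.lf (nat_lit 0) (nat_lit 214922197639) (nat_lit 152) (nat_lit 114257571773) (nat_lit 0) (nat_lit 199065790903) (nat_lit 2) (nat_lit 5) (nat_lit 4) (nat_lit 4) (nat_lit 2) (nat_lit 4) (nat_lit 339) (nat_lit 261) (nat_lit 180)) (XT.nd (nat_lit 78) (nat_lit 0) (nat_lit 0) (XT.lf (nat_lit 0) (nat_lit 238790919878) (nat_lit 152) (nat_lit 108140487994) (nat_lit 0) (nat_lit 222932204271) (nat_lit 2) (nat_lit 5) (nat_lit 4) (nat_lit 4) (nat_lit 2) (nat_lit 4)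 (nat_lit 340) (nat_lit 261) (nat_lit 179)) (XT.lf (nat_lit 0) (nat_lit 264566924304) (nat_lit 152) (nat_lit 101538291857) (nat_lit 0) (nat_lit 248706070853) (nat_lit 2) (nat_lit 5) (nat_lit 4) (nat_lit 4) (nat_lit 2) (nat_lit 4) (nat_lit 341) (nat_lit 261) (nat_lit 178)))) (XT.nd (nat_lit 156) (nat_lit 0) (nat_lit 0) (XT.nd (nat_lit 78) (nat_lit 0) (nat_lit 0) (XT.lf (nat_lit 0) (nat_lit 292402957611) (nat_lit 152) (nat_lit 94411859235) (nat_lit 0) (nat_lit 276540124675) (nat_lit 2) (nat_lit 5) (nat_lit 4) (nat_lit 4) (nat_lit 2) (nat_lit 4) (nat_lit 342) (nat_lit 261) (nat_lit 177)) (XT.lf (nat_lit 0) (nat_lit 322463974070) (nat_lit 152) (nat_lit 86718959417) (nat_lit 0) (nat_lit 306599308277) (nat_lit 2) (nat_lit 5) (nat_lit 4) (nat_lit 4) (nat_lit 2) (nat_lit 4) (nat_lit 343) (nat_lit 261) (nat_lit 176))) (XT.nd (nat_lit 78) (nat_lit 0) (nat_lit 0) (XT.lf (nat_lit 0) (nat_lit 354928113037)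 (nat_lit 152) (nat_lit 78414004848) (nat_lit 0) (nat_lit 339061750155) (nat_lit 2) (nat_lit 5) (nat_lit 4) (nat_lit 4) (nat_lit 2) (nat_lit 4) (nat_lit 344) (nat_lit 261) (nat_lit 175)) (XT.lf (nat_lit 0) (nat_lit 389987754595) (nat_lit 152) (nat_lit 69447780983) (nat_lit 0) (nat_lit 374119820335) (nat_lit 2) (nat_lit 5) (nat_lit 4) (nat_lit 4) (nat_lit 2) (nat_lit 4) (nat_lit 345) (nat_lit 261) (nat_lit 174))))) (XT.nd (nat_lit 312) (nat_lit 76) (nat_lit 0) (XT.nd (nat_lit 156) (nat_lit 0) (nat_lit 0) (XT.nd (nat_lit 78) (nat_lit 0) (nat_lit 0) (XT.lf (nat_lit 0) (nat_lit 427850659584) (nat_lit 152) (nat_lit 59767154643) (nat_lit 0) (nat_lit 411981270344) (nat_lit 2) (nat_lit 5) (nat_lit 4) (nat_lit 4) (nat_lit 2) (nat_lit 4) (nat_lit 346) (nat_lit 261) (nat_lit 173)) (XT.lf (nat_lit 0) (nat_lit 468741200774) (nat_lit 152) (nat_lit 49314759154) (nat_lit 0) (nat_lit 452870464329) (nat_lit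 2) (nat_lit 5) (nat_lit 4) (nat_lit 4) (nat_lit 2) (nat_lit 4) (nat_lit 347) (nat_lit 261) (nat_lit 172))) (XT.nd (nat_lit 78) (nat_lit 0) (nat_lit 0) (XT.lf (nat_lit 0) (nat_lit 512901692482) (nat_lit 152) (nat_lit 38028654394) (nat_lit 0) (nat_lit 497029708626) (nat_lit 2) (nat_lit 5) (nat_lit 4) (nat_lit 4) (nat_lit 2) (nat_lit 4) (nat_lit 348) (nat_lit 261) (nat_lit 171)) (XT.lf (nat_lit 0) (nat_lit 560593826512) (nat_lit 152) (nat_lit 25841959742) (nat_lit 0) (nat_lit 544720687645) (nat_lit 2) (nat_lit 5) (nat_lit 4) (nat_lit 4) (nat_lit 2) (nat_lit 4) (nat_lit 349) (nat_lit 261) (nat_lit 170)))) (XT.nd (nat_lit 156) (nat_lit 0) (nat_lit 0) (XT.nd (nat_lit 78) (nat_lit 76) (nat_lit 0) (XT.lf (nat_lit 0) (nat_lit 612100222916) (nat_lit 152) (nat_lit 12682457749) (nat_lit 0) (nat_lit 596226014596) (nat_lit 2) (nat_lit 5) (nat_lit 4) (nat_lit 4) (nat_lit 2) (nat_lit 4) (nat_lit 350)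 (nat_lit 261) (nat_lit 169)) (XT.lf (nat_lit 0) (nat_lit 1608286839) (nat_lit 76) (nat_lit 666156497283) (nat_lit 76) (nat_lit 650281298727) (nat_lit 1) (nat_lit 4) (nat_lit 2) (nat_lit 5) (nat_lit 2) (nat_lit 4) (nat_lit 351) (nat_lit 261) (nat_lit 168))) (XT.nd (nat_lit 78) (nat_lit 0) (nat_lit 0) (XT.lf (nat_lit 0) (nat_lit 17761632910) (nat_lit 76) (nat_lit 710466641764) (nat_lit 76) (nat_lit 694590526323) (nat_lit 1) (nat_lit 4) (nat_lit 2) (nat_lit 5) (nat_lit 2) (nat_lit 4) (nat_lit 352) (nat_lit 261) (nat_lit 167)) (XT.lf (nat_lit 0) (nat_lit 35205468245) (nat_lit 76) (nat_lit 758322453611) (nat_lit 76) (nat_lit 742445489204) (nat_lit 1) (nat_lit 4) (nat_lit 2) (nat_lit 5) (nat_lit 2) (nat_lit 4) (nat_lit 353) (nat_lit 261) (nat_lit 166))))))) (XT.nd (nat_lit 33540) (nat_lit 0) (nat_lit 2432) (XT.nd (nat_lit 546) (nat_lit 0) (nat_lit 0) (XT.nd (nat_lit 234) (nat_lit 0) (nat_lit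 0) (XT.nd (nat_lit 78) (nat_lit 0) (nat_lit 0) (XT.lf (nat_lit 0) (nat_lit 54043163719) (nat_lit 76) (nat_lit 810007522823) (nat_lit 76) (nat_lit 794129772335) (nat_lit 1) (nat_lit 4) (nat_lit 2) (nat_lit 5) (nat_lit 2) (nat_lit 4) (nat_lit 354) (nat_lit 261) (nat_lit 165)) (XT.nd (nat_lit 78) (nat_lit 0) (nat_lit 0) (XT.lf (nat_lit 0) (nat_lit 74386350120) (nat_lit 76) (nat_lit 865828131290) (nat_lit 76) (nat_lit 849949652949) (nat_lit 1) (nat_lit 4) (nat_lit 2) (nat_lit 5) (nat_lit 2) (nat_lit 4) (nat_lit 355) (nat_lit 261) (nat_lit 164)) (XT.lf (nat_lit 0) (nat_lit 96355579666) (nat_lit 76) (nat_lit 926115067803) (nat_lit 76) (nat_lit 910235915525) (nat_lit 1) (nat_lit 4) (nat_lit 2) (nat_lit 5) (nat_lit 2) (nat_lit 4) (nat_lit 356) (nat_lit 261) (nat_lit 163)))) (XT.nd (nat_lit 156) (nat_lit 0) (nat_lit 0) (XT.nd (nat_lit 78) (nat_lit 0) (nat_lit 0) (XT.lf (nat_lit 0) (nat_lit 120081040381)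 (nat_lit 76) (nat_lit 991225588282) (nat_lit 76) (nat_lit 975345811988) (nat_lit 1) (nat_lit 4) (nat_lit 2) (nat_lit 5) (nat_lit 2) (nat_lit 4) (nat_lit 357) (nat_lit 261) (nat_lit 162)) (XT.lf (nat_lit 0) (nat_lit 145703327589) (nat_lit 76) (nat_lit 1061545532848) (nat_lit 76) (nat_lit 1045665178762) (nat_lit 1) (nat_lit 4) (nat_lit 2) (nat_lit 5) (nat_lit 2) (nat_lit 4) (nat_lit 358) (nat_lit 261) (nat_lit 161))) (XT.nd (nat_lit 78) (nat_lit 0) (nat_lit 0) (XT.lf (nat_lit 0) (nat_lit 173374277067) (nat_lit 76) (nat_lit 1137491612285) (nat_lit 76) (nat_lit 1121610723205) (nat_lit 1) (nat_lit 4) (nat_lit 2) (nat_lit 5) (nat_lit 2) (nat_lit 4) (nat_lit 359) (nat_lit 261) (nat_lit 160)) (XT.lf (nat_lit 0) (nat_lit 203257864811) (nat_lit 76) (nat_lit 1219513877434) (nat_lit 76) (nat_lit 1203632492989) (nat_lit 1) (nat_lit 4) (nat_lit 2) (nat_lit 5) (nat_lit 2) (nat_lit 4) (nat_lit 360)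 (nat_lit 261) (nat_lit 159))))) (XT.nd (nat_lit 234) (nat_lit 0) (nat_lit 0) (XT.nd (nat_lit 78) (nat_lit 0) (nat_lit 0) (XT.lf (nat_lit 0) (nat_lit 235531178748) (nat_lit 76) (nat_lit 1308098386161) (nat_lit 76) (nat_lit 1292216543046) (nat_lit 1) (nat_lit 4) (nat_lit 2) (nat_lit 5) (nat_lit 2) (nat_lit 4) (nat_lit 361) (nat_lit 261) (nat_lit 158)) (XT.nd (nat_lit 78) (nat_lit 0) (nat_lit 0) (XT.lf (nat_lit 0) (nat_lit 270385468146) (nat_lit 76) (nat_lit 1403770083704) (nat_lit 76) (nat_lit 1387887815894) (nat_lit 1) (nat_lit 4) (nat_lit 2) (nat_lit 5) (nat_lit 2) (nat_lit 4) (nat_lit 362) (nat_lit 261) (nat_lit 157)) (XT.lf (nat_lit 0) (nat_lit 308027276942) (nat_lit 76) (nat_lit 1507095913456) (nat_lit 76) (nat_lit 1491213252410) (nat_lit 1) (nat_lit 4) (nat_lit 2) (nat_lit 5) (nat_lit 2) (nat_lit 4) (nat_lit 363) (nat_lit 261) (nat_lit 156)))) (XT.nd (nat_lit 156) (nat_lit 0) (nat_lit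 0) (XT.nd (nat_lit 78) (nat_lit 0) (nat_lit 0) (XT.lf (nat_lit 0) (nat_lit 348679667708) (nat_lit 76) (nat_lit 1618688176629) (nat_lit 76) (nat_lit 1602805151476) (nat_lit 1) (nat_lit 4) (nat_lit 2) (nat_lit 5) (nat_lit 2) (nat_lit 4) (nat_lit 364) (nat_lit 261) (nat_lit 155)) (XT.lf (nat_lit 0) (nat_lit 392583543498) (nat_lit 76) (nat_lit 1739208160710) (nat_lit 76) (nat_lit 1723324798420) (nat_lit 1) (nat_lit 4) (nat_lit 2) (nat_lit 5) (nat_lit 2) (nat_lit 4) (nat_lit 365) (nat_lit 261) (nat_lit 154))) (XT.nd (nat_lit 32526) (nat_lit 0) (nat_lit 4636) (XT.lf (nat_lit 0) (nat_lit 439999075430) (nat_lit 76) (nat_lit 1869370058197) (nat_lit 76) (nat_lit 1853486383744) (nat_lit 1) (nat_lit 4) (nat_lit 2) (nat_lit 5) (nat_lit 2) (nat_lit 4) (nat_lit 366) (nat_lit 261) (nat_lit 153)) (XT.lf (nat_lit 0) (nat_lit 2069192617) (nat_lit 228) (nat_lit 604942920) (nat_lit 228) (nat_lit 604942920)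 (nat_lit 62) (nat_lit 3) (nat_lit 65) (nat_lit 3) (nat_lit 65) (nat_lit 5) (nat_lit 262) (nat_lit 262) (nat_lit 256)))))) (XT.nd (nat_lit 546) (nat_lit 1444) (nat_lit 0) (XT.nd (nat_lit 234) (nat_lit 532) (nat_lit 0) (XT.nd (nat_lit 78) (nat_lit 228) (nat_lit 0) (XT.lf (nat_lit 76) (nat_lit 1893358021) (nat_lit 0) (nat_lit 4648063420) (nat_lit 228) (nat_lit 86723769) (nat_lit 63) (nat_lit 5) (nat_lit 62) (nat_lit 3) (nat_lit 65) (nat_lit 5) (nat_lit 263) (nat_lit 262) (nat_lit 255)) (XT.nd (nat_lit 78) (nat_lit 0) (nat_lit 0) (XT.lf (nat_lit 0) (nat_lit 2115841644) (nat_lit 228) (nat_lit 1585464233) (nat_lit 304) (nat_lit 3014614796) (nat_lit 59) (nat_lit 5) (nat_lit 62) (nat_lit 3) (nat_lit 63) (nat_lit 5) (nat_lit 264) (nat_lit 262) (nat_lit 254)) (XT.lf (nat_lit 76) (nat_lit 1773886577) (nat_lit 0) (nat_lit 2546332883) (nat_lit 304) (nat_lit 2505039171) (nat_lit 60) (nat_lit 5) (nat_lit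 59) (nat_lit 5) (nat_lit 63) (nat_lit 5) (nat_lit 265) (nat_lit 262) (nat_lit 253)))) (XT.nd (nat_lit 156) (nat_lit 304) (nat_lit 0) (XT.nd (nat_lit 78) (nat_lit 228) (nat_lit 0) (XT.lf (nat_lit 76) (nat_lit 5367000496) (nat_lit 0) (nat_lit 1177648069) (nat_lit 304) (nat_lit 412258291) (nat_lit 60) (nat_lit 5) (nat_lit 59) (nat_lit 5) (nat_lit 63) (nat_lit 5) (nat_lit 266) (nat_lit 262) (nat_lit 252)) (XT.lf (nat_lit 0) (nat_lit 1626182268) (nat_lit 304) (nat_lit 5037574525) (nat_lit 76) (nat_lit 443028576) (nat_lit 56) (nat_lit 5) (nat_lit 60) (nat_lit 5) (nat_lit 57) (nat_lit 5) (nat_lit 267) (nat_lit 262) (nat_lit 251))) (XT.nd (nat_lit 78) (nat_lit 304) (nat_lit 0) (XT.lf (nat_lit 0) (nat_lit 3702508581) (nat_lit 304) (nat_lit 1336279515) (nat_lit 76) (nat_lit 2238083692) (nat_lit 56) (nat_lit 5) (nat_lit 60) (nat_lit 5) (nat_lit 57) (nat_lit 5) (nat_lit 268) (nat_lit 262) (nat_lit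 250)) (XT.lf (nat_lit 0) (nat_lit 2664642678) (nat_lit 304) (nat_lit 3179470943) (nat_lit 380) (nat_lit 1625296320) (nat_lit 52) (nat_lit 5) (nat_lit 56) (nat_lit 5) (nat_lit 57) (nat_lit 5) (nat_lit 269) (nat_lit 262) (nat_lit 249))))) (XT.nd (nat_lit 312) (nat_lit 532) (nat_lit 0) (XT.nd (nat_lit 156) (nat_lit 456) (nat_lit 0) (XT.nd (nat_lit 78) (nat_lit 380) (nat_lit 0) (XT.lf (nat_lit 0) (nat_lit 332716378) (nat_lit 380) (nat_lit 760884676) (nat_lit 76) (nat_lit 6593333361) (nat_lit 51) (nat_lit 5) (nat_lit 56) (nat_lit 5) (nat_lit 52) (nat_lit 5) (nat_lit 270) (nat_lit 262) (nat_lit 248)) (XT.lf (nat_lit 0) (nat_lit 2329825208) (nat_lit 456) (nat_lit 4336001809) (nat_lit 76) (nat_lit 1255653625) (nat_lit 46) (nat_lit 5) (nat_lit 52) (nat_lit 5) (nat_lit 47) (nat_lit 5) (nat_lit 271) (nat_lit 262) (nat_lit 247))) (XT.nd (nat_lit 78) (nat_lit 456) (nat_lit 0) (XT.lf (nat_lit 0)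 (nat_lit 4396369375) (nat_lit 456) (nat_lit 13879540) (nat_lit 76) (nat_lit 3772340637) (nat_lit 46) (nat_lit 5) (nat_lit 52) (nat_lit 5) (nat_lit 47) (nat_lit 5) (nat_lit 272) (nat_lit 262) (nat_lit 246)) (XT.lf (nat_lit 0) (nat_lit 4767861636) (nat_lit 456) (nat_lit 1845336248) (nat_lit 532) (nat_lit 1853122349) (nat_lit 40) (nat_lit 5) (nat_lit 46) (nat_lit 5) (nat_lit 47) (nat_lit 5) (nat_lit 273) (nat_lit 262) (nat_lit 245)))) (XT.nd (nat_lit 156) (nat_lit 228) (nat_lit 0) (XT.nd (nat_lit 78) (nat_lit 0) (nat_lit 0) (XT.lf (nat_lit 0) (nat_lit 145591931) (nat_lit 304) (nat_lit 7723847329) (nat_lit 76) (nat_lit 909496580) (nat_lit 36) (nat_lit 5) (nat_lit 40) (nat_lit 5) (nat_lit 37) (nat_lit 5) (nat_lit 274) (nat_lit 262) (nat_lit 244)) (XT.lf (nat_lit 0) (nat_lit 2235331315) (nat_lit 304) (nat_lit 2943202892) (nat_lit 76) (nat_lit 3932096938) (nat_lit 36) (nat_lit 5) (nat_lit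 40) (nat_lit 5) (nat_lit 37) (nat_lit 5) (nat_lit 275) (nat_lit 262) (nat_lit 243))) (XT.nd (nat_lit 78) (nat_lit 0) (nat_lit 0) (XT.lf (nat_lit 0) (nat_lit 2204918358) (nat_lit 228) (nat_lit 2228845867) (nat_lit 304) (nat_lit 5040166207) (nat_lit 33) (nat_lit 5) (nat_lit 36) (nat_lit 5) (nat_lit 37) (nat_lit 5) (nat_lit 276) (nat_lit 262) (nat_lit 242)) (XT.lf (nat_lit 0) (nat_lit 6807072915) (nat_lit 304) (nat_lit 2083261076) (nat_lit 76) (nat_lit 976400236) (nat_lit 33) (nat_lit 5) (nat_lit 37) (nat_lit 5) (nat_lit 34) (nat_lit 5) (nat_lit 277) (nat_lit 262) (nat_lit 241))))))))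
noncomputable def xc53 : XT := (XT.nd (nat_lit 2262) (nat_lit 380) (nat_lit 0) (XT.nd (nat_lit 1092) (nat_lit 684) (nat_lit 0) (XT.nd (nat_lit 546) (nat_lit 456) (nat_lit 0) (XT.nd (nat_lit 234) (nat_lit 380) (nat_lit 0) (XT.nd (nat_lit 78) (nat_lit 228) (nat_lit 0) (XT.lf (nat_lit 0) (nat_lit 3514357138) (nat_lit 228) (nat_lit 5899623012) (nat_lit 304) (nat_lit 873817408) (nat_lit 30) (nat_lit 5) (nat_lit 33) (nat_lit 5) (nat_lit 34) (nat_lit 5) (nat_lit 278) (nat_lit 262) (nat_lit 240)) (XT.nd (nat_lit 78) (nat_lit 152) (nat_lit 0) (XT.lf (nat_lit 0) (nat_lit 1374009300) (nat_lit 304) (nat_lit 1220200246) (nat_lit 76) (nat_lit 8148842262) (nat_lit 29) (nat_lit 5) (nat_lit 33) (nat_lit 5) (nat_lit 30) (nat_lit 5) (nat_lit 279) (nat_lit 262) (nat_lit 239)) (XT.lf (nat_lit 0) (nat_lit 3808691134) (nat_lit 228) (nat_lit 6372620070) (nat_lit 76) (nat_lit 1047525538) (nat_lit 27) (nat_lit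 5) (nat_lit 30) (nat_lit 5) (nat_lit 28) (nat_lit 5) (nat_lit 280) (nat_lit 262) (nat_lit 238)))) (XT.nd (nat_lit 156) (nat_lit 228) (nat_lit 0) (XT.nd (nat_lit 78) (nat_lit 152) (nat_lit 0) (XT.lf (nat_lit 0) (nat_lit 6453358612) (nat_lit 228) (nat_lit 448636618) (nat_lit 76) (nat_lit 4850517809) (nat_lit 27) (nat_lit 5) (nat_lit 30) (nat_lit 5) (nat_lit 28) (nat_lit 5) (nat_lit 281) (nat_lit 262) (nat_lit 237)) (XT.lf (nat_lit 0) (nat_lit 6147810038) (nat_lit 152) (nat_lit 3229644461) (nat_lit 228) (nat_lit 2935427811) (nat_lit 25) (nat_lit 5) (nat_lit 27) (nat_lit 5) (nat_lit 28) (nat_lit 5) (nat_lit 282) (nat_lit 262) (nat_lit 236))) (XT.nd (nat_lit 78) (nat_lit 76) (nat_lit 0) (XT.lf (nat_lit 0) (nat_lit 263682917) (nat_lit 152) (nat_lit 12231093563) (nat_lit 228) (nat_lit 426771211) (nat_lit 23) (nat_lit 5) (nat_lit 25) (nat_lit 5) (nat_lit 26) (nat_lit 4) (nat_lit 283) (nat_lit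 262) (nat_lit 235)) (XT.lf (nat_lit 0) (nat_lit 2348875775) (nat_lit 228) (nat_lit 6264462742) (nat_lit 76) (nat_lit 4946917988) (nat_lit 22) (nat_lit 5) (nat_lit 25) (nat_lit 5) (nat_lit 23) (nat_lit 5) (nat_lit 284) (nat_lit 262) (nat_lit 234))))) (XT.nd (nat_lit 234) (nat_lit 228) (nat_lit 0) (XT.nd (nat_lit 78) (nat_lit 76) (nat_lit 0) (XT.lf (nat_lit 0) (nat_lit 552100340) (nat_lit 152) (nat_lit 4714003342) (nat_lit 228) (nat_lit 8987831725) (nat_lit 20) (nat_lit 5) (nat_lit 22) (nat_lit 5) (nat_lit 23) (nat_lit 5) (nat_lit 285) (nat_lit 262) (nat_lit 233)) (XT.nd (nat_lit 78) (nat_lit 76) (nat_lit 0) (XT.lf (nat_lit 0) (nat_lit 8168063863) (nat_lit 152) (nat_lit 352014116) (nat_lit 228) (nat_lit 6474915868) (nat_lit 20) (nat_lit 5) (nat_lit 22) (nat_lit 5) (nat_lit 23) (nat_lit 5) (nat_lit 286) (nat_lit 262) (nat_lit 232)) (XT.lf (nat_lit 0) (nat_lit 414856790) (nat_lit 76) (nat_lit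 11670677188) (nat_lit 152) (nat_lit 3705853106) (nat_lit 19) (nat_lit 5) (nat_lit 20) (nat_lit 5) (nat_lit 21) (nat_lit 4) (nat_lit 287) (nat_lit 262) (nat_lit 231)))) (XT.nd (nat_lit 156) (nat_lit 152) (nat_lit 0) (XT.nd (nat_lit 78) (nat_lit 76) (nat_lit 0) (XT.lf (nat_lit 0) (nat_lit 8518091433) (nat_lit 76) (nat_lit 7552454225) (nat_lit 152) (nat_lit 570333199) (nat_lit 19) (nat_lit 5) (nat_lit 20) (nat_lit 5) (nat_lit 21) (nat_lit 4) (nat_lit 288) (nat_lit 262) (nat_lit 230)) (XT.lf (nat_lit 0) (nat_lit 2616853718) (nat_lit 152) (nat_lit 449028647) (nat_lit 76) (nat_lit 14491807691) (nat_lit 18) (nat_lit 5) (nat_lit 20) (nat_lit 5) (nat_lit 19) (nat_lit 5) (nat_lit 289) (nat_lit 262) (nat_lit 229))) (XT.nd (nat_lit 78) (nat_lit 0) (nat_lit 0) (XT.lf (nat_lit 0) (nat_lit 6217628078) (nat_lit 228) (nat_lit 10437332688) (nat_lit 76) (nat_lit 1876651526) (nat_lit 16) (nat_lit 5) (nat_lit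 19) (nat_lit 5) (nat_lit 17) (nat_lit 4) (nat_lit 290) (nat_lit 262) (nat_lit 228)) (XT.lf (nat_lit 0) (nat_lit 10145938920) (nat_lit 228) (nat_lit 2402860071) (nat_lit 76) (nat_lit 7031588828) (nat_lit 16) (nat_lit 5) (nat_lit 19) (nat_lit 5) (nat_lit 17) (nat_lit 4) (nat_lit 291) (nat_lit 262) (nat_lit 227)))))) (XT.nd (nat_lit 546) (nat_lit 304) (nat_lit 0) (XT.nd (nat_lit 234) (nat_lit 76) (nat_lit 0) (XT.nd (nat_lit 78) (nat_lit 228) (nat_lit 0) (XT.lf (nat_lit 0) (nat_lit 6519939973) (nat_lit 76) (nat_lit 7976532236) (nat_lit 152) (nat_lit 6208046825) (nat_lit 15) (nat_lit 5) (nat_lit 16) (nat_lit 5) (nat_lit 17) (nat_lit 4) (nat_lit 292) (nat_lit 262) (nat_lit 226)) (XT.nd (nat_lit 78) (nat_lit 228) (nat_lit 0) (XT.lf (nat_lit 0) (nat_lit 16214672724) (nat_lit 76) (nat_lit 2998956077) (nat_lit 152) (nat_lit 2703549063) (nat_lit 15) (nat_lit 5) (nat_lit 16) (nat_lit 5) (nat_lit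 17) (nat_lit 4) (nat_lit 293) (nat_lit 262) (nat_lit 225)) (XT.lf (nat_lit 0) (nat_lit 1126685729) (nat_lit 228) (nat_lit 19747201980) (nat_lit 76) (nat_lit 2342995406) (nat_lit 12) (nat_lit 5) (nat_lit 15) (nat_lit 5) (nat_lit 13) (nat_lit 4) (nat_lit 294) (nat_lit 262) (nat_lit 224)))) (XT.nd (nat_lit 156) (nat_lit 76) (nat_lit 0) (XT.nd (nat_lit 78) (nat_lit 0) (nat_lit 0) (XT.lf (nat_lit 0) (nat_lit 5311142696) (nat_lit 228) (nat_lit 11136372520) (nat_lit 76) (nat_lit 8151988926) (nat_lit 12) (nat_lit 5) (nat_lit 15) (nat_lit 5) (nat_lit 13) (nat_lit 4) (nat_lit 295) (nat_lit 262) (nat_lit 223)) (XT.lf (nat_lit 0) (nat_lit 9789619111) (nat_lit 228) (nat_lit 1907105496) (nat_lit 76) (nat_lit 14399330637) (nat_lit 12) (nat_lit 5) (nat_lit 15) (nat_lit 5) (nat_lit 13) (nat_lit 4) (nat_lit 296) (nat_lit 262) (nat_lit 222))) (XT.nd (nat_lit 78) (nat_lit 0) (nat_lit 0) (XT.lf (nat_lit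 0) (nat_lit 8416308900) (nat_lit 76) (nat_lit 6374757622) (nat_lit 152) (nat_lit 12908145356) (nat_lit 11) (nat_lit 5) (nat_lit 12) (nat_lit 5) (nat_lit 13) (nat_lit 4) (nat_lit 297) (nat_lit 262) (nat_lit 221)) (XT.lf (nat_lit 0) (nat_lit 19610494316) (nat_lit 76) (nat_lit 597824908) (nat_lit 152) (nat_lit 9221099322) (nat_lit 11) (nat_lit 5) (nat_lit 12) (nat_lit 5) (nat_lit 13) (nat_lit 4) (nat_lit 298) (nat_lit 262) (nat_lit 220))))) (XT.nd (nat_lit 312) (nat_lit 152) (nat_lit 0) (XT.nd (nat_lit 156) (nat_lit 76) (nat_lit 0) (XT.nd (nat_lit 78) (nat_lit 0) (nat_lit 0) (XT.lf (nat_lit 0) (nat_lit 216323561) (nat_lit 76) (nat_lit 25949146195) (nat_lit 76) (nat_lit 5124099343) (nat_lit 10) (nat_lit 4) (nat_lit 11) (nat_lit 5) (nat_lit 11) (nat_lit 4) (nat_lit 299) (nat_lit 262) (nat_lit 219)) (XT.lf (nat_lit 0) (nat_lit 11537002626) (nat_lit 76) (nat_lit 21312548965) (nat_lit 76) (nat_lit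 428996515) (nat_lit 10) (nat_lit 4) (nat_lit 11) (nat_lit 5) (nat_lit 11) (nat_lit 4) (nat_lit 300) (nat_lit 262) (nat_lit 218))) (XT.nd (nat_lit 78) (nat_lit 0) (nat_lit 0) (XT.lf (nat_lit 0) (nat_lit 4377898043) (nat_lit 152) (nat_lit 11831696370) (nat_lit 76) (nat_lit 19210688591) (nat_lit 9) (nat_lit 5) (nat_lit 11) (nat_lit 5) (nat_lit 10) (nat_lit 4) (nat_lit 301) (nat_lit 262) (nat_lit 217)) (XT.lf (nat_lit 0) (nat_lit 9516890234) (nat_lit 152) (nat_lit 1192751732) (nat_lit 76) (nat_lit 27025201306) (nat_lit 9) (nat_lit 5) (nat_lit 11) (nat_lit 5) (nat_lit 10) (nat_lit 4) (nat_lit 302) (nat_lit 262) (nat_lit 216)))) (XT.nd (nat_lit 156) (nat_lit 76) (nat_lit 0) (XT.nd (nat_lit 78) (nat_lit 0) (nat_lit 0) (XT.lf (nat_lit 0) (nat_lit 10788327228) (nat_lit 76) (nat_lit 4511025790) (nat_lit 152) (nat_lit 24916660432) (nat_lit 8) (nat_lit 5) (nat_lit 9) (nat_lit 5) (nat_lit 10) (nat_lit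 4) (nat_lit 303) (nat_lit 262) (nat_lit 215)) (XT.lf (nat_lit 0) (nat_lit 21603634221) (nat_lit 152) (nat_lit 19199748494) (nat_lit 0) (nat_lit 2087587544) (nat_lit 8) (nat_lit 5) (nat_lit 10) (nat_lit 4) (nat_lit 8) (nat_lit 4) (nat_lit 304) (nat_lit 262) (nat_lit 214))) (XT.nd (nat_lit 78) (nat_lit 76) (nat_lit 0) (XT.lf (nat_lit 0) (nat_lit 28504658577) (nat_lit 152) (nat_lit 8316157986) (nat_lit 0) (nat_lit 8951743448) (nat_lit 8) (nat_lit 5) (nat_lit 10) (nat_lit 4) (nat_lit 8) (nat_lit 4) (nat_lit 305) (nat_lit 262) (nat_lit 213)) (XT.lf (nat_lit 0) (nat_lit 3574902006) (nat_lit 76) (nat_lit 32445905238) (nat_lit 76) (nat_lit 12858852655) (nat_lit 7) (nat_lit 4) (nat_lit 8) (nat_lit 5) (nat_lit 8) (nat_lit 4) (nat_lit 306) (nat_lit 262) (nat_lit 212))))))) (XT.nd (nat_lit 1170) (nat_lit 152) (nat_lit 0) (XT.nd (nat_lit 546) (nat_lit 76) (nat_lit 0) (XT.nd (nat_lit 234) (nat_lit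 76) (nat_lit 0) (XT.nd (nat_lit 78) (nat_lit 76) (nat_lit 0) (XT.lf (nat_lit 0) (nat_lit 16849209768) (nat_lit 76) (nat_lit 27494195569) (nat_lit 76) (nat_lit 7875534232) (nat_lit 7) (nat_lit 4) (nat_lit 8) (nat_lit 5) (nat_lit 8) (nat_lit 4) (nat_lit 307) (nat_lit 262) (nat_lit 211)) (XT.nd (nat_lit 78) (nat_lit 76) (nat_lit 0) (XT.lf (nat_lit 0) (nat_lit 31147513720) (nat_lit 76) (nat_lit 22163722588) (nat_lit 76) (nat_lit 2515793886) (nat_lit 7) (nat_lit 4) (nat_lit 8) (nat_lit 5) (nat_lit 8) (nat_lit 4) (nat_lit 308) (nat_lit 262) (nat_lit 210)) (XT.lf (nat_lit 0) (nat_lit 3089445101) (nat_lit 152) (nat_lit 13248982302) (nat_lit 76) (nat_lit 43380628548) (nat_lit 6) (nat_lit 5) (nat_lit 8) (nat_lit 5) (nat_lit 7) (nat_lit 4) (nat_lit 309) (nat_lit 262) (nat_lit 209)))) (XT.nd (nat_lit 156) (nat_lit 0) (nat_lit 0) (XT.nd (nat_lit 78) (nat_lit 76) (nat_lit 0) (XT.lf (nat_lit 0) (nat_lit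 8989068705) (nat_lit 152) (nat_lit 1002857254) (nat_lit 76) (nat_lit 53926757418) (nat_lit 6) (nat_lit 5) (nat_lit 8) (nat_lit 5) (nat_lit 7) (nat_lit 4) (nat_lit 310) (nat_lit 262) (nat_lit 208)) (XT.lf (nat_lit 0) (nat_lit 12833938797) (nat_lit 76) (nat_lit 2818605595) (nat_lit 152) (nat_lit 52778402631) (nat_lit 5) (nat_lit 5) (nat_lit 6) (nat_lit 5) (nat_lit 7) (nat_lit 4) (nat_lit 311) (nat_lit 262) (nat_lit 207))) (XT.nd (nat_lit 78) (nat_lit 0) (nat_lit 0) (XT.lf (nat_lit 0) (nat_lit 22979167440) (nat_lit 152) (nat_lit 45617749974) (nat_lit 0) (nat_lit 4696884174) (nat_lit 5) (nat_lit 5) (nat_lit 7) (nat_lit 4) (nat_lit 5) (nat_lit 4) (nat_lit 312) (nat_lit 262) (nat_lit 206)) (XT.lf (nat_lit 0) (nat_lit 30949764873) (nat_lit 152) (nat_lit 34942268112) (nat_lit 0) (nat_lit 12649038203) (nat_lit 5) (nat_lit 5) (nat_lit 7) (nat_lit 4) (nat_lit 5) (nat_lit 4) (nat_lit 313) (nat_lit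 262) (nat_lit 205))))) (XT.nd (nat_lit 312) (nat_lit 0) (nat_lit 0) (XT.nd (nat_lit 156) (nat_lit 76) (nat_lit 0) (XT.nd (nat_lit 78) (nat_lit 0) (nat_lit 0) (XT.lf (nat_lit 0) (nat_lit 39543782330) (nat_lit 152) (nat_lit 23439512992) (nat_lit 0) (nat_lit 21225978433) (nat_lit 5) (nat_lit 5) (nat_lit 7) (nat_lit 4) (nat_lit 5) (nat_lit 4) (nat_lit 314) (nat_lit 262) (nat_lit 204)) (XT.lf (nat_lit 0) (nat_lit 48812147321) (nat_lit 152) (nat_lit 11041320141) (nat_lit 0) (nat_lit 30478531178) (nat_lit 5) (nat_lit 5) (nat_lit 7) (nat_lit 4) (nat_lit 5) (nat_lit 4) (nat_lit 315) (nat_lit 262) (nat_lit 203))) (XT.nd (nat_lit 78) (nat_lit 0) (nat_lit 0) (XT.lf (nat_lit 0) (nat_lit 2448252731) (nat_lit 76) (nat_lit 56420411297) (nat_lit 76) (nat_lit 38072154185) (nat_lit 4) (nat_lit 4) (nat_lit 5) (nat_lit 5) (nat_lit 5) (nat_lit 4) (nat_lit 316) (nat_lit 262) (nat_lit 202)) (XT.lf (nat_lit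 0) (nat_lit 17622555105) (nat_lit 76) (nat_lit 52397203861) (nat_lit 76) (nat_lit 34035390296) (nat_lit 4) (nat_lit 4) (nat_lit 5) (nat_lit 5) (nat_lit 5) (nat_lit 4) (nat_lit 317) (nat_lit 262) (nat_lit 201)))) (XT.nd (nat_lit 156) (nat_lit 0) (nat_lit 0) (XT.nd (nat_lit 78) (nat_lit 0) (nat_lit 0) (XT.lf (nat_lit 0) (nat_lit 33990092419) (nat_lit 76) (nat_lit 48061893185) (nat_lit 76) (nat_lit 29687527349) (nat_lit 4) (nat_lit 4) (nat_lit 5) (nat_lit 5) (nat_lit 5) (nat_lit 4) (nat_lit 318) (nat_lit 262) (nat_lit 200)) (XT.lf (nat_lit 0) (nat_lit 51647857488) (nat_lit 76) (nat_lit 43388788538) (nat_lit 76) (nat_lit 25002800229) (nat_lit 4) (nat_lit 4) (nat_lit 5) (nat_lit 5) (nat_lit 5) (nat_lit 4) (nat_lit 319) (nat_lit 262) (nat_lit 199))) (XT.nd (nat_lit 78) (nat_lit 0) (nat_lit 0) (XT.lf (nat_lit 0) (nat_lit 70700488920) (nat_lit 76) (nat_lit 38350197450) (nat_lit 76) (nat_lit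 19953447591) (nat_lit 4) (nat_lit 4) (nat_lit 5) (nat_lit 5) (nat_lit 5) (nat_lit 4) (nat_lit 320) (nat_lit 262) (nat_lit 198)) (XT.lf (nat_lit 0) (nat_lit 91260891196) (nat_lit 76) (nat_lit 32916261602) (nat_lit 76) (nat_lit 14509547346) (nat_lit 4) (nat_lit 4) (nat_lit 5) (nat_lit 5) (nat_lit 5) (nat_lit 4) (nat_lit 321) (nat_lit 262) (nat_lit 197)))))) (XT.nd (nat_lit 546) (nat_lit 0) (nat_lit 0) (XT.nd (nat_lit 234) (nat_lit 76) (nat_lit 0) (XT.nd (nat_lit 78) (nat_lit 76) (nat_lit 0) (XT.lf (nat_lit 0) (nat_lit 113450903739) (nat_lit 76) (nat_lit 27054779893) (nat_lit 76) (nat_lit 8638839342) (nat_lit 4) (nat_lit 4) (nat_lit 5) (nat_lit 5) (nat_lit 5) (nat_lit 4) (nat_lit 322) (nat_lit 262) (nat_lit 196)) (XT.nd (nat_lit 78) (nat_lit 76) (nat_lit 0) (XT.lf (nat_lit 0) (nat_lit 137402022917) (nat_lit 76) (nat_lit 20731017616) (nat_lit 76) (nat_lit 2306534201) (nat_lit 4) (nat_lit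 4) (nat_lit 5) (nat_lit 5) (nat_lit 5) (nat_lit 4) (nat_lit 323) (nat_lit 262) (nat_lit 195)) (XT.lf (nat_lit 0) (nat_lit 4298539382) (nat_lit 152) (nat_lit 9491431558) (nat_lit 76) (nat_lit 158840112223) (nat_lit 3) (nat_lit 5) (nat_lit 5) (nat_lit 5) (nat_lit 4) (nat_lit 4) (nat_lit 324) (nat_lit 262) (nat_lit 194)))) (XT.nd (nat_lit 156) (nat_lit 0) (nat_lit 0) (XT.nd (nat_lit 78) (nat_lit 0) (nat_lit 0) (XT.lf (nat_lit 0) (nat_lit 5332802171) (nat_lit 76) (nat_lit 6096293874) (nat_lit 152) (nat_lit 174352213461) (nat_lit 2) (nat_lit 5) (nat_lit 3) (nat_lit 5) (nat_lit 4) (nat_lit 4) (nat_lit 325) (nat_lit 262) (nat_lit 193)) (XT.lf (nat_lit 0) (nat_lit 19443062519) (nat_lit 152) (nat_lit 178153568399) (nat_lit 0) (nat_lit 2362970662) (nat_lit 2) (nat_lit 5) (nat_lit 4) (nat_lit 4) (nat_lit 2) (nat_lit 4) (nat_lit 326) (nat_lit 262) (nat_lit 192))) (XT.nd (nat_lit 78) (nat_lit 0)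 (nat_lit 0) (XT.lf (nat_lit 0) (nat_lit 28250466031) (nat_lit 152) (nat_lit 175844949855) (nat_lit 0) (nat_lit 11164560043) (nat_lit 2) (nat_lit 5) (nat_lit 4) (nat_lit 4) (nat_lit 2) (nat_lit 4) (nat_lit 327) (nat_lit 262) (nat_lit 191)) (XT.lf (nat_lit 0) (nat_lit 37756882587) (nat_lit 152) (nat_lit 173362354988) (nat_lit 0) (nat_lit 20665593145) (nat_lit 2) (nat_lit 5) (nat_lit 4) (nat_lit 4) (nat_lit 2) (nat_lit 4) (nat_lit 328) (nat_lit 262) (nat_lit 190))))) (XT.nd (nat_lit 312) (nat_lit 0) (nat_lit 0) (XT.nd (nat_lit 156) (nat_lit 0) (nat_lit 0) (XT.nd (nat_lit 78) (nat_lit 0) (nat_lit 0) (XT.lf (nat_lit 0) (nat_lit 48018646507) (nat_lit 152) (nat_lit 170691072124) (nat_lit 0) (nat_lit 30922372386) (nat_lit 2) (nat_lit 5) (nat_lit 4) (nat_lit 4) (nat_lit 2) (nat_lit 4) (nat_lit 329) (nat_lit 262) (nat_lit 189)) (XT.lf (nat_lit 0) (nat_lit 59096568245) (nat_lit 152) (nat_lit 167815271438)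 (nat_lit 0) (nat_lit 41995678680) (nat_lit 2) (nat_lit 5) (nat_lit 4) (nat_lit 4) (nat_lit 2) (nat_lit 4) (nat_lit 330) (nat_lit 262) (nat_lit 188))) (XT.nd (nat_lit 78) (nat_lit 0) (nat_lit 0) (XT.lf (nat_lit 0) (nat_lit 71056294744) (nat_lit 152) (nat_lit 164717911149) (nat_lit 0) (nat_lit 53951131620) (nat_lit 2) (nat_lit 5) (nat_lit 4) (nat_lit 4) (nat_lit 2) (nat_lit 4) (nat_lit 331) (nat_lit 262) (nat_lit 187)) (XT.lf (nat_lit 0) (nat_lit 83968698458) (nat_lit 152) (nat_lit 161380636529) (nat_lit 0) (nat_lit 66859578334) (nat_lit 2) (nat_lit 5) (nat_lit 4) (nat_lit 4) (nat_lit 2) (nat_lit 4) (nat_lit 332) (nat_lit 262) (nat_lit 186)))) (XT.nd (nat_lit 156) (nat_lit 0) (nat_lit 0) (XT.nd (nat_lit 78) (nat_lit 0) (nat_lit 0) (XT.lf (nat_lit 0) (nat_lit 97910297334) (nat_lit 152) (nat_lit 157783671136) (nat_lit 0) (nat_lit 80797513322) (nat_lit 2) (nat_lit 5) (nat_lit 4) (nat_lit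 4) (nat_lit 2) (nat_lit 4) (nat_lit 333) (nat_lit 262) (nat_lit 185)) (XT.lf (nat_lit 0) (nat_lit 112963708255) (nat_lit 152) (nat_lit 153905699619) (nat_lit 0) (nat_lit 95847531753) (nat_lit 2) (nat_lit 5) (nat_lit 4) (nat_lit 4) (nat_lit 2) (nat_lit 4) (nat_lit 334) (nat_lit 262) (nat_lit 184))) (XT.nd (nat_lit 78) (nat_lit 0) (nat_lit 0) (XT.lf (nat_lit 0) (nat_lit 129218136619) (nat_lit 152) (nat_lit 149723741407) (nat_lit 0) (nat_lit 112098818923) (nat_lit 2) (nat_lit 5) (nat_lit 4) (nat_lit 4) (nat_lit 2) (nat_lit 4) (nat_lit 335) (nat_lit 262) (nat_lit 183)) (XT.lf (nat_lit 0) (nat_lit 146769904963) (nat_lit 152) (nat_lit 145213014525) (nat_lit 0) (nat_lit 129647678755) (nat_lit 2) (nat_lit 5) (nat_lit 4) (nat_lit 4) (nat_lit 2) (nat_lit 4) (nat_lit 336) (nat_lit 262) (nat_lit 182))))))))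
noncomputable def xc54 : XT := (XT.nd (nat_lit 2262) (nat_lit 0) (nat_lit 0) (XT.nd (nat_lit 1092) (nat_lit 76) (nat_lit 0) (XT.nd (nat_lit 546) (nat_lit 0) (nat_lit 0) (XT.nd (nat_lit 234) (nat_lit 0) (nat_lit 0) (XT.nd (nat_lit 78) (nat_lit 0) (nat_lit 0) (XT.lf (nat_lit 0) (nat_lit 165723023768) (nat_lit 152) (nat_lit 140346788739) (nat_lit 0) (nat_lit 148598104493) (nat_lit 2) (nat_lit 5) (nat_lit 4) (nat_lit 4) (nat_lit 2) (nat_lit 4) (nat_lit 337) (nat_lit 262) (nat_lit 181)) (XT.nd (nat_lit 78) (nat_lit 0) (nat_lit 0) (XT.lf (nat_lit 0) (nat_lit 186189807812) (nat_lit 152) (nat_lit 135096227156) (nat_lit 0) (nat_lit 169062394956) (nat_lit 2) (nat_lit 5) (nat_lit 4) (nat_lit 4) (nat_lit 2) (nat_lit 4) (nat_lit 338) (nat_lit 262) (nat_lit 180)) (XT.lf (nat_lit 0) (nat_lit 208291541740) (nat_lit 152) (nat_lit 129430215337) (nat_lit 0) (nat_lit 191161820013) (nat_lit 2) (nat_lit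 5) (nat_lit 4) (nat_lit 4) (nat_lit 2) (nat_lit 4) (nat_lit 339) (nat_lit 262) (nat_lit 179)))) (XT.nd (nat_lit 156) (nat_lit 0) (nat_lit 0) (XT.nd (nat_lit 78) (nat_lit 0) (nat_lit 0) (XT.lf (nat_lit 0) (nat_lit 232159198790) (nat_lit 152) (nat_lit 123315176916) (nat_lit 0) (nat_lit 215027339219) (nat_lit 2) (nat_lit 5) (nat_lit 4) (nat_lit 4) (nat_lit 2) (nat_lit 4) (nat_lit 340) (nat_lit 262) (nat_lit 178)) (XT.lf (nat_lit 0) (nat_lit 257934216931) (nat_lit 152) (nat_lit 116714874628) (nat_lit 0) (nat_lit 240800377876) (nat_lit 2) (nat_lit 5) (nat_lit 4) (nat_lit 4) (nat_lit 2) (nat_lit 4) (nat_lit 341) (nat_lit 262) (nat_lit 177))) (XT.nd (nat_lit 78) (nat_lit 0) (nat_lit 0) (XT.lf (nat_lit 0) (nat_lit 285769337011) (nat_lit 152) (nat_lit 109590195570) (nat_lit 0) (nat_lit 268633665099) (nat_lit 2) (nat_lit 5) (nat_lit 4) (nat_lit 4) (nat_lit 2) (nat_lit 4) (nat_lit 342) (nat_lit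 262) (nat_lit 176)) (XT.lf (nat_lit 0) (nat_lit 315829507888) (nat_lit 152) (nat_lit 101898919423) (nat_lit 0) (nat_lit 298692138887) (nat_lit 2) (nat_lit 5) (nat_lit 4) (nat_lit 4) (nat_lit 2) (nat_lit 4) (nat_lit 343) (nat_lit 262) (nat_lit 175))))) (XT.nd (nat_lit 234) (nat_lit 0) (nat_lit 0) (XT.nd (nat_lit 78) (nat_lit 0) (nat_lit 0) (XT.lf (nat_lit 0) (nat_lit 348292863910) (nat_lit 152) (nat_lit 93595468253) (nat_lit 0) (nat_lit 331153923530) (nat_lit 2) (nat_lit 5) (nat_lit 4) (nat_lit 4) (nat_lit 2) (nat_lit 4) (nat_lit 344) (nat_lit 262) (nat_lit 174)) (XT.nd (nat_lit 78) (nat_lit 0) (nat_lit 0) (XT.lf (nat_lit 0) (nat_lit 383351780520) (nat_lit 152) (nat_lit 84630636423) (nat_lit 0) (nat_lit 366211385159) (nat_lit 2) (nat_lit 5) (nat_lit 4) (nat_lit 4) (nat_lit 2) (nat_lit 4) (nat_lit 345) (nat_lit 262) (nat_lit 173)) (XT.lf (nat_lit 0) (nat_lit 421214014259) (nat_lit 152)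 (nat_lit 74951299006) (nat_lit 0) (nat_lit 404072271695) (nat_lit 2) (nat_lit 5) (nat_lit 4) (nat_lit 4) (nat_lit 2) (nat_lit 4) (nat_lit 346) (nat_lit 262) (nat_lit 172)))) (XT.nd (nat_lit 156) (nat_lit 0) (nat_lit 0) (XT.nd (nat_lit 78) (nat_lit 0) (nat_lit 0) (XT.lf (nat_lit 0) (nat_lit 462103933922) (nat_lit 152) (nat_lit 64500096963) (nat_lit 0) (nat_lit 444960943946) (nat_lit 2) (nat_lit 5) (nat_lit 4) (nat_lit 4) (nat_lit 2) (nat_lit 4) (nat_lit 347) (nat_lit 262) (nat_lit 171)) (XT.lf (nat_lit 0) (nat_lit 506263850142) (nat_lit 152) (nat_lit 53215097246) (nat_lit 0) (nat_lit 489119705156) (nat_lit 2) (nat_lit 5) (nat_lit 4) (nat_lit 4) (nat_lit 2) (nat_lit 4) (nat_lit 348) (nat_lit 262) (nat_lit 170))) (XT.nd (nat_lit 78) (nat_lit 0) (nat_lit 0) (XT.lf (nat_lit 0) (nat_lit 553955451312) (nat_lit 152) (nat_lit 41029425782) (nat_lit 0) (nat_lit 536810236872) (nat_lit 2) (nat_lit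 5) (nat_lit 4) (nat_lit 4) (nat_lit 2) (nat_lit 4) (nat_lit 349) (nat_lit 262) (nat_lit 169)) (XT.lf (nat_lit 0) (nat_lit 605461354329) (nat_lit 152) (nat_lit 27870871185) (nat_lit 0) (nat_lit 588315149653) (nat_lit 2) (nat_lit 5) (nat_lit 4) (nat_lit 4) (nat_lit 2) (nat_lit 4) (nat_lit 350) (nat_lit 262) (nat_lit 168)))))) (XT.nd (nat_lit 546) (nat_lit 0) (nat_lit 0) (XT.nd (nat_lit 234) (nat_lit 0) (nat_lit 0) (XT.nd (nat_lit 78) (nat_lit 76) (nat_lit 0) (XT.lf (nat_lit 0) (nat_lit 661086779357) (nat_lit 152) (nat_lit 13661456835) (nat_lit 0) (nat_lit 643939657797) (nat_lit 2) (nat_lit 5) (nat_lit 4) (nat_lit 4) (nat_lit 2) (nat_lit 4) (nat_lit 351) (nat_lit 262) (nat_lit 167)) (XT.nd (nat_lit 78) (nat_lit 0) (nat_lit 0) (XT.lf (nat_lit 0) (nat_lit 1771646117) (nat_lit 76) (nat_lit 719432320560) (nat_lit 76) (nat_lit 702284350033) (nat_lit 1) (nat_lit 4) (nat_lit 2) (nat_lit 5) (nat_lit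 2) (nat_lit 4) (nat_lit 352) (nat_lit 262) (nat_lit 166)) (XT.lf (nat_lit 0) (nat_lit 19214689775) (nat_lit 76) (nat_lit 767288513377) (nat_lit 76) (nat_lit 750139756769) (nat_lit 1) (nat_lit 4) (nat_lit 2) (nat_lit 5) (nat_lit 2) (nat_lit 4) (nat_lit 353) (nat_lit 262) (nat_lit 165)))) (XT.nd (nat_lit 156) (nat_lit 0) (nat_lit 0) (XT.nd (nat_lit 78) (nat_lit 0) (nat_lit 0) (XT.lf (nat_lit 0) (nat_lit 38051652215) (nat_lit 76) (nat_lit 818973935338) (nat_lit 76) (nat_lit 801824450878) (nat_lit 1) (nat_lit 4) (nat_lit 2) (nat_lit 5) (nat_lit 2) (nat_lit 4) (nat_lit 354) (nat_lit 262) (nat_lit 164)) (XT.lf (nat_lit 0) (nat_lit 58394159882) (nat_lit 76) (nat_lit 874794870424) (nat_lit 76) (nat_lit 857644712026) (nat_lit 1) (nat_lit 4) (nat_lit 2) (nat_lit 5) (nat_lit 2) (nat_lit 4) (nat_lit 355) (nat_lit 262) (nat_lit 163))) (XT.nd (nat_lit 78) (nat_lit 0) (nat_lit 0) (XT.lf (nat_lit 0)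 (nat_lit 80362760969) (nat_lit 76) (nat_lit 935082109363) (nat_lit 76) (nat_lit 917931326949) (nat_lit 1) (nat_lit 4) (nat_lit 2) (nat_lit 5) (nat_lit 2) (nat_lit 4) (nat_lit 356) (nat_lit 262) (nat_lit 162)) (XT.lf (nat_lit 0) (nat_lit 104087639778) (nat_lit 76) (nat_lit 1000192909866) (nat_lit 76) (nat_lit 983041549659) (nat_lit 1) (nat_lit 4) (nat_lit 2) (nat_lit 5) (nat_lit 2) (nat_lit 4) (nat_lit 357) (nat_lit 262) (nat_lit 161))))) (XT.nd (nat_lit 312) (nat_lit 0) (nat_lit 0) (XT.nd (nat_lit 156) (nat_lit 0) (nat_lit 0) (XT.nd (nat_lit 78) (nat_lit 0) (nat_lit 0) (XT.lf (nat_lit 0) (nat_lit 129709388185) (nat_lit 76) (nat_lit 1070513113713) (nat_lit 76) (nat_lit 1053361218514) (nat_lit 1) (nat_lit 4) (nat_lit 2) (nat_lit 5) (nat_lit 2) (nat_lit 4) (nat_lit 358) (nat_lit 262) (nat_lit 160)) (XT.lf (nat_lit 0) (nat_lit 157379838772) (nat_lit 76) (nat_lit 1146459433226) (nat_lit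 76) (nat_lit 1129307042662) (nat_lit 1) (nat_lit 4) (nat_lit 2) (nat_lit 5) (nat_lit 2) (nat_lit 4) (nat_lit 359) (nat_lit 262) (nat_lit 159))) (XT.nd (nat_lit 78) (nat_lit 0) (nat_lit 0) (XT.lf (nat_lit 0) (nat_lit 187262964580) (nat_lit 76) (nat_lit 1228481920666) (nat_lit 76) (nat_lit 1211329071431) (nat_lit 1) (nat_lit 4) (nat_lit 2) (nat_lit 5) (nat_lit 2) (nat_lit 4) (nat_lit 360) (nat_lit 262) (nat_lit 158)) (XT.lf (nat_lit 0) (nat_lit 219535850799) (nat_lit 76) (nat_lit 1317066635219) (nat_lit 76) (nat_lit 1299913361289) (nat_lit 1) (nat_lit 4) (nat_lit 2) (nat_lit 5) (nat_lit 2) (nat_lit 4) (nat_lit 361) (nat_lit 262) (nat_lit 157)))) (XT.nd (nat_lit 156) (nat_lit 0) (nat_lit 0) (XT.nd (nat_lit 78) (nat_lit 0) (nat_lit 0) (XT.lf (nat_lit 0) (nat_lit 254389744162) (nat_lit 76) (nat_lit 1412738523341) (nat_lit 76) (nat_lit 1395584856176) (nat_lit 1) (nat_lit 4) (nat_lit 2) (nat_lit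 5) (nat_lit 2) (nat_lit 4) (nat_lit 362) (nat_lit 262) (nat_lit 156)) (XT.lf (nat_lit 0) (nat_lit 292031186259) (nat_lit 76) (nat_lit 1516064529555) (nat_lit 76) (nat_lit 1498910498282) (nat_lit 1) (nat_lit 4) (nat_lit 2) (nat_lit 5) (nat_lit 2) (nat_lit 4) (nat_lit 363) (nat_lit 262) (nat_lit 155))) (XT.nd (nat_lit 78) (nat_lit 0) (nat_lit 0) (XT.lf (nat_lit 0) (nat_lit 332683237488) (nat_lit 76) (nat_lit 1627656956120) (nat_lit 76) (nat_lit 1610502587710) (nat_lit 1) (nat_lit 4) (nat_lit 2) (nat_lit 5) (nat_lit 2) (nat_lit 4) (nat_lit 364) (nat_lit 262) (nat_lit 154)) (XT.lf (nat_lit 0) (nat_lit 376586798893) (nat_lit 76) (nat_lit 1748177091489) (nat_lit 76) (nat_lit 1731022410916) (nat_lit 1) (nat_lit 4) (nat_lit 2) (nat_lit 5) (nat_lit 2) (nat_lit 4) (nat_lit 365) (nat_lit 262) (nat_lit 153))))))) (XT.nd (nat_lit 33696) (nat_lit 0) (nat_lit 1140) (XT.nd (nat_lit 33072) (nat_lit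 0) (nat_lit 2660) (XT.nd (nat_lit 32760) (nat_lit 0) (nat_lit 4104) (XT.nd (nat_lit 32604) (nat_lit 0) (nat_lit 4408) (XT.lf (nat_lit 0) (nat_lit 424002039727) (nat_lit 76) (nat_lit 1878339129057) (nat_lit 76) (nat_lit 1861184159444) (nat_lit 1) (nat_lit 4) (nat_lit 2) (nat_lit 5) (nat_lit 2) (nat_lit 4) (nat_lit 366) (nat_lit 262) (nat_lit 152)) (XT.nd (nat_lit 78) (nat_lit 0) (nat_lit 0) (XT.lf (nat_lit 0) (nat_lit 495494509) (nat_lit 0) (nat_lit 495494509) (nat_lit 228) (nat_lit 2362292818) (nat_lit 59) (nat_lit 5) (nat_lit 59) (nat_lit 3) (nat_lit 62) (nat_lit 3) (nat_lit 263) (nat_lit 263) (nat_lit 254)) (XT.lf (nat_lit 0) (nat_lit 4054271143) (nat_lit 228) (nat_lit 2606236026) (nat_lit 304) (nat_lit 144289866) (nat_lit 59) (nat_lit 5) (nat_lit 62) (nat_lit 3) (nat_lit 63) (nat_lit 5) (nat_lit 264) (nat_lit 263) (nat_lit 253)))) (XT.nd (nat_lit 156) (nat_lit 0) (nat_lit 0) (XT.nd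 (nat_lit 78) (nat_lit 304) (nat_lit 0) (XT.lf (nat_lit 76) (nat_lit 639193658) (nat_lit 0) (nat_lit 5497628199) (nat_lit 304) (nat_lit 787568590) (nat_lit 60) (nat_lit 5) (nat_lit 59) (nat_lit 5) (nat_lit 63) (nat_lit 5) (nat_lit 265) (nat_lit 263) (nat_lit 252)) (XT.lf (nat_lit 0) (nat_lit 1148289082) (nat_lit 304) (nat_lit 2916095372) (nat_lit 380) (nat_lit 2996910113) (nat_lit 55) (nat_lit 5) (nat_lit 59) (nat_lit 5) (nat_lit 60) (nat_lit 5) (nat_lit 266) (nat_lit 263) (nat_lit 251))) (XT.nd (nat_lit 78) (nat_lit 0) (nat_lit 0) (XT.lf (nat_lit 76) (nat_lit 615433088) (nat_lit 0) (nat_lit 2419359392) (nat_lit 380) (nat_lit 4186496849) (nat_lit 56) (nat_lit 5) (nat_lit 55) (nat_lit 5) (nat_lit 60) (nat_lit 5) (nat_lit 267) (nat_lit 263) (nat_lit 250)) (XT.lf (nat_lit 76) (nat_lit 4480866498) (nat_lit 0) (nat_lit 504925450) (nat_lit 380) (nat_lit 2415984289) (nat_lit 56) (nat_lit 5)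 (nat_lit 55) (nat_lit 5) (nat_lit 60) (nat_lit 5) (nat_lit 268) (nat_lit 263) (nat_lit 249))))) (XT.nd (nat_lit 312) (nat_lit 760) (nat_lit 0) (XT.nd (nat_lit 156) (nat_lit 380) (nat_lit 0) (XT.nd (nat_lit 78) (nat_lit 76) (nat_lit 0) (XT.lf (nat_lit 0) (nat_lit 948540377) (nat_lit 304) (nat_lit 6052029115) (nat_lit 380) (nat_lit 604237710) (nat_lit 52) (nat_lit 5) (nat_lit 56) (nat_lit 5) (nat_lit 57) (nat_lit 5) (nat_lit 269) (nat_lit 263) (nat_lit 248)) (XT.lf (nat_lit 0) (nat_lit 1231263895) (nat_lit 380) (nat_lit 2697306101) (nat_lit 76) (nat_lit 3897809013) (nat_lit 51) (nat_lit 5) (nat_lit 56) (nat_lit 5) (nat_lit 52) (nat_lit 5) (nat_lit 270) (nat_lit 263) (nat_lit 247))) (XT.nd (nat_lit 78) (nat_lit 0) (nat_lit 0) (XT.lf (nat_lit 0) (nat_lit 1522583542) (nat_lit 380) (nat_lit 1557419894) (nat_lit 456) (nat_lit 4993066495) (nat_lit 46) (nat_lit 5) (nat_lit 51) (nat_lit 5) (nat_lit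 52) (nat_lit 5) (nat_lit 271) (nat_lit 263) (nat_lit 246)) (XT.lf (nat_lit 0) (nat_lit 5046732783) (nat_lit 456) (nat_lit 2250840164) (nat_lit 76) (nat_lit 1044845850) (nat_lit 46) (nat_lit 5) (nat_lit 52) (nat_lit 5) (nat_lit 47) (nat_lit 5) (nat_lit 272) (nat_lit 263) (nat_lit 245)))) (XT.nd (nat_lit 156) (nat_lit 228) (nat_lit 0) (XT.nd (nat_lit 78) (nat_lit 76) (nat_lit 0) (XT.lf (nat_lit 0) (nat_lit 2354691865) (nat_lit 456) (nat_lit 4793092972) (nat_lit 532) (nat_lit 1487862655) (nat_lit 40) (nat_lit 5) (nat_lit 46) (nat_lit 5) (nat_lit 47) (nat_lit 5) (nat_lit 273) (nat_lit 263) (nat_lit 244)) (XT.lf (nat_lit 0) (nat_lit 387188276) (nat_lit 532) (nat_lit 1622609099) (nat_lit 76) (nat_lit 6946396535) (nat_lit 39) (nat_lit 5) (nat_lit 46) (nat_lit 5) (nat_lit 40) (nat_lit 5) (nat_lit 274) (nat_lit 263) (nat_lit 243))) (XT.nd (nat_lit 78) (nat_lit 0) (nat_lit 0) (XT.lf (nat_lit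 0) (nat_lit 2332833811) (nat_lit 304) (nat_lit 5897713671) (nat_lit 76) (nat_lit 1069056505) (nat_lit 36) (nat_lit 5) (nat_lit 40) (nat_lit 5) (nat_lit 37) (nat_lit 5) (nat_lit 275) (nat_lit 263) (nat_lit 242)) (XT.lf (nat_lit 0) (nat_lit 4428597196) (nat_lit 304) (nat_lit 915657786) (nat_lit 76) (nat_lit 4327035247) (nat_lit 36) (nat_lit 5) (nat_lit 40) (nat_lit 5) (nat_lit 37) (nat_lit 5) (nat_lit 276) (nat_lit 263) (nat_lit 241)))))) (XT.nd (nat_lit 546) (nat_lit 684) (nat_lit 0) (XT.nd (nat_lit 234) (nat_lit 304) (nat_lit 0) (XT.nd (nat_lit 78) (nat_lit 304) (nat_lit 0) (XT.lf (nat_lit 0) (nat_lit 4587021991) (nat_lit 228) (nat_lit 2119712399) (nat_lit 304) (nat_lit 3365133902) (nat_lit 33) (nat_lit 5) (nat_lit 36) (nat_lit 5) (nat_lit 37) (nat_lit 5) (nat_lit 277) (nat_lit 263) (nat_lit 240)) (XT.nd (nat_lit 78) (nat_lit 304) (nat_lit 0) (XT.lf (nat_lit 0) (nat_lit 9134214668)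 (nat_lit 304) (nat_lit 65872172) (nat_lit 76) (nat_lit 1307347595) (nat_lit 33) (nat_lit 5) (nat_lit 37) (nat_lit 5) (nat_lit 34) (nat_lit 5) (nat_lit 278) (nat_lit 263) (nat_lit 239)) (XT.lf (nat_lit 0) (nat_lit 854722931) (nat_lit 304) (nat_lit 5066472816) (nat_lit 76) (nat_lit 5046170528) (nat_lit 29) (nat_lit 5) (nat_lit 33) (nat_lit 5) (nat_lit 30) (nat_lit 5) (nat_lit 279) (nat_lit 263) (nat_lit 238)))) (XT.nd (nat_lit 156) (nat_lit 152) (nat_lit 0) (XT.nd (nat_lit 78) (nat_lit 0) (nat_lit 0) (XT.lf (nat_lit 0) (nat_lit 782578012) (nat_lit 152) (nat_lit 2341688697) (nat_lit 228) (nat_lit 8342213553) (nat_lit 27) (nat_lit 5) (nat_lit 29) (nat_lit 5) (nat_lit 30) (nat_lit 5) (nat_lit 280) (nat_lit 263) (nat_lit 237)) (XT.lf (nat_lit 0) (nat_lit 5674154995) (nat_lit 228) (nat_lit 4756002008) (nat_lit 76) (nat_lit 1567691157) (nat_lit 27) (nat_lit 5) (nat_lit 30) (nat_lit 5) (nat_lit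 28) (nat_lit 5) (nat_lit 281) (nat_lit 263) (nat_lit 236))) (XT.nd (nat_lit 78) (nat_lit 0) (nat_lit 0) (XT.lf (nat_lit 0) (nat_lit 1562552146) (nat_lit 152) (nat_lit 6889810654) (nat_lit 228) (nat_lit 4117626853) (nat_lit 25) (nat_lit 5) (nat_lit 27) (nat_lit 5) (nat_lit 28) (nat_lit 5) (nat_lit 282) (nat_lit 263) (nat_lit 235)) (XT.lf (nat_lit 0) (nat_lit 8558703412) (nat_lit 152) (nat_lit 2953208577) (nat_lit 228) (nat_lit 1671458545) (nat_lit 25) (nat_lit 5) (nat_lit 27) (nat_lit 5) (nat_lit 28) (nat_lit 5) (nat_lit 283) (nat_lit 263) (nat_lit 234))))) (XT.nd (nat_lit 312) (nat_lit 304) (nat_lit 0) (XT.nd (nat_lit 156) (nat_lit 152) (nat_lit 0) (XT.nd (nat_lit 78) (nat_lit 0) (nat_lit 0) (XT.lf (nat_lit 0) (nat_lit 941320178) (nat_lit 228) (nat_lit 11613934256) (nat_lit 76) (nat_lit 1287310613) (nat_lit 22) (nat_lit 5) (nat_lit 25) (nat_lit 5) (nat_lit 23) (nat_lit 5) (nat_lit 284)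 (nat_lit 263) (nat_lit 233)) (XT.lf (nat_lit 0) (nat_lit 3813800982) (nat_lit 228) (nat_lit 4871661674) (nat_lit 76) (nat_lit 5854435427) (nat_lit 22) (nat_lit 5) (nat_lit 25) (nat_lit 5) (nat_lit 23) (nat_lit 5) (nat_lit 285) (nat_lit 263) (nat_lit 232))) (XT.nd (nat_lit 78) (nat_lit 0) (nat_lit 0) (XT.lf (nat_lit 0) (nat_lit 2442278148) (nat_lit 152) (nat_lit 4471931839) (nat_lit 228) (nat_lit 8379100617) (nat_lit 20) (nat_lit 5) (nat_lit 22) (nat_lit 5) (nat_lit 23) (nat_lit 5) (nat_lit 286) (nat_lit 263) (nat_lit 231)) (XT.lf (nat_lit 0) (nat_lit 10342272093) (nat_lit 228) (nat_lit 5574998715) (nat_lit 76) (nat_lit 183488299) (nat_lit 20) (nat_lit 5) (nat_lit 23) (nat_lit 5) (nat_lit 21) (nat_lit 4) (nat_lit 287) (nat_lit 263) (nat_lit 230)))) (XT.nd (nat_lit 156) (nat_lit 152) (nat_lit 0) (XT.nd (nat_lit 78) (nat_lit 76) (nat_lit 0) (XT.lf (nat_lit 0) (nat_lit 2191698095) (nat_lit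 76) (nat_lit 11967179325) (nat_lit 152) (nat_lit 2804905002) (nat_lit 19) (nat_lit 5) (nat_lit 20) (nat_lit 5) (nat_lit 21) (nat_lit 4) (nat_lit 288) (nat_lit 263) (nat_lit 229)) (XT.lf (nat_lit 0) (nat_lit 468109189) (nat_lit 152) (nat_lit 7085786847) (nat_lit 76) (nat_lit 10333123922) (nat_lit 18) (nat_lit 5) (nat_lit 20) (nat_lit 5) (nat_lit 19) (nat_lit 5) (nat_lit 289) (nat_lit 263) (nat_lit 228))) (XT.nd (nat_lit 78) (nat_lit 0) (nat_lit 0) (XT.lf (nat_lit 0) (nat_lit 1119192764) (nat_lit 152) (nat_lit 2709163121) (nat_lit 228) (nat_lit 15051875384) (nat_lit 16) (nat_lit 5) (nat_lit 18) (nat_lit 5) (nat_lit 19) (nat_lit 5) (nat_lit 290) (nat_lit 263) (nat_lit 227)) (XT.lf (nat_lit 0) (nat_lit 7668027092) (nat_lit 228) (nat_lit 9700152847) (nat_lit 76) (nat_lit 2567961419) (nat_lit 16) (nat_lit 5) (nat_lit 19) (nat_lit 5) (nat_lit 17) (nat_lit 4) (nat_lit 291) (nat_lit 263) (nat_lit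 226))))))))
noncomputable def xc55 : XT := (XT.nd (nat_lit 2262) (nat_lit 152) (nat_lit 0) (XT.nd (nat_lit 1092) (nat_lit 304) (nat_lit 0) (XT.nd (nat_lit 546) (nat_lit 228) (nat_lit 0) (XT.nd (nat_lit 234) (nat_lit 304) (nat_lit 0) (XT.nd (nat_lit 78) (nat_lit 76) (nat_lit 0) (XT.lf (nat_lit 0) (nat_lit 11840011040) (nat_lit 228) (nat_lit 1139379195) (nat_lit 76) (nat_lit 8095206463) (nat_lit 16) (nat_lit 5) (nat_lit 19) (nat_lit 5) (nat_lit 17) (nat_lit 4) (nat_lit 292) (nat_lit 263) (nat_lit 225)) (XT.nd (nat_lit 78) (nat_lit 0) (nat_lit 0) (XT.lf (nat_lit 0) (nat_lit 8460391443) (nat_lit 76) (nat_lit 8046956336) (nat_lit 152) (nat_lit 5783930538) (nat_lit 15) (nat_lit 5) (nat_lit 16) (nat_lit 5) (nat_lit 17) (nat_lit 4) (nat_lit 293) (nat_lit 263) (nat_lit 224)) (XT.lf (nat_lit 0) (nat_lit 18825602350) (nat_lit 76) (nat_lit 2713225823) (nat_lit 152) (nat_lit 2067277402) (nat_lit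 15) (nat_lit 5) (nat_lit 16) (nat_lit 5) (nat_lit 17) (nat_lit 4) (nat_lit 294) (nat_lit 263) (nat_lit 223)))) (XT.nd (nat_lit 156) (nat_lit 76) (nat_lit 0) (XT.nd (nat_lit 78) (nat_lit 0) (nat_lit 0) (XT.lf (nat_lit 0) (nat_lit 2011585942) (nat_lit 228) (nat_lit 19952939464) (nat_lit 76) (nat_lit 3044928749) (nat_lit 12) (nat_lit 5) (nat_lit 15) (nat_lit 5) (nat_lit 13) (nat_lit 4) (nat_lit 295) (nat_lit 263) (nat_lit 222)) (XT.lf (nat_lit 0) (nat_lit 6471927959) (nat_lit 228) (nat_lit 10755024289) (nat_lit 76) (nat_lit 9280531104) (nat_lit 12) (nat_lit 5) (nat_lit 15) (nat_lit 5) (nat_lit 13) (nat_lit 4) (nat_lit 296) (nat_lit 263) (nat_lit 221))) (XT.nd (nat_lit 78) (nat_lit 76) (nat_lit 0) (XT.lf (nat_lit 0) (nat_lit 11254171831) (nat_lit 228) (nat_lit 881657239) (nat_lit 76) (nat_lit 15992372518) (nat_lit 12) (nat_lit 5) (nat_lit 15) (nat_lit 5) (nat_lit 13) (nat_lit 4) (nat_lit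 297) (nat_lit 263) (nat_lit 220)) (XT.lf (nat_lit 0) (nat_lit 10237807101) (nat_lit 76) (nat_lit 6395069186) (nat_lit 152) (nat_lit 13228639271) (nat_lit 11) (nat_lit 5) (nat_lit 12) (nat_lit 5) (nat_lit 13) (nat_lit 4) (nat_lit 298) (nat_lit 263) (nat_lit 219))))) (XT.nd (nat_lit 234) (nat_lit 76) (nat_lit 0) (XT.nd (nat_lit 78) (nat_lit 152) (nat_lit 0) (XT.lf (nat_lit 0) (nat_lit 22242475980) (nat_lit 76) (nat_lit 192253636) (nat_lit 152) (nat_lit 9299381978) (nat_lit 11) (nat_lit 5) (nat_lit 12) (nat_lit 5) (nat_lit 13) (nat_lit 4) (nat_lit 299) (nat_lit 263) (nat_lit 218)) (XT.nd (nat_lit 78) (nat_lit 76) (nat_lit 0) (XT.lf (nat_lit 0) (nat_lit 1307631625) (nat_lit 76) (nat_lit 27551580555) (nat_lit 76) (nat_lit 4884666461) (nat_lit 10) (nat_lit 4) (nat_lit 11) (nat_lit 5) (nat_lit 11) (nat_lit 4) (nat_lit 300) (nat_lit 263) (nat_lit 217)) (XT.lf (nat_lit 0) (nat_lit 131043283)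 (nat_lit 152) (nat_lit 22444503184) (nat_lit 76) (nat_lit 13319783059) (nat_lit 9) (nat_lit 5) (nat_lit 11) (nat_lit 5) (nat_lit 10) (nat_lit 4) (nat_lit 301) (nat_lit 263) (nat_lit 216)))) (XT.nd (nat_lit 156) (nat_lit 76) (nat_lit 0) (XT.nd (nat_lit 78) (nat_lit 0) (nat_lit 0) (XT.lf (nat_lit 0) (nat_lit 5257002632) (nat_lit 152) (nat_lit 11828951368) (nat_lit 76) (nat_lit 21124994376) (nat_lit 9) (nat_lit 5) (nat_lit 11) (nat_lit 5) (nat_lit 10) (nat_lit 4) (nat_lit 302) (nat_lit 263) (nat_lit 215)) (XT.lf (nat_lit 0) (nat_lit 10767938440) (nat_lit 152) (nat_lit 409208249) (nat_lit 76) (nat_lit 29536708797) (nat_lit 9) (nat_lit 5) (nat_lit 11) (nat_lit 5) (nat_lit 10) (nat_lit 4) (nat_lit 303) (nat_lit 263) (nat_lit 214))) (XT.nd (nat_lit 78) (nat_lit 0) (nat_lit 0) (XT.lf (nat_lit 0) (nat_lit 12508104784) (nat_lit 76) (nat_lit 4489223540) (nat_lit 152) (nat_lit 26397488954) (nat_lit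 8) (nat_lit 5) (nat_lit 9) (nat_lit 5) (nat_lit 10) (nat_lit 4) (nat_lit 304) (nat_lit 263) (nat_lit 213)) (XT.lf (nat_lit 0) (nat_lit 23779360729) (nat_lit 152) (nat_lit 19915371837) (nat_lit 0) (nat_lit 2591206486) (nat_lit 8) (nat_lit 5) (nat_lit 10) (nat_lit 4) (nat_lit 8) (nat_lit 4) (nat_lit 305) (nat_lit 263) (nat_lit 212)))))) (XT.nd (nat_lit 546) (nat_lit 76) (nat_lit 0) (XT.nd (nat_lit 234) (nat_lit 152) (nat_lit 0) (XT.nd (nat_lit 78) (nat_lit 76) (nat_lit 0) (XT.lf (nat_lit 0) (nat_lit 31199323643) (nat_lit 152) (nat_lit 8221861240) (nat_lit 0) (nat_lit 9979560645) (nat_lit 8) (nat_lit 5) (nat_lit 10) (nat_lit 4) (nat_lit 8) (nat_lit 4) (nat_lit 306) (nat_lit 263) (nat_lit 211)) (XT.nd (nat_lit 78) (nat_lit 0) (nat_lit 0) (XT.lf (nat_lit 0) (nat_lit 4601253441) (nat_lit 76) (nat_lit 34702628097) (nat_lit 76) (nat_lit 13453597734) (nat_lit 7) (nat_lit 4) (nat_lit 8) (nat_lit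 5) (nat_lit 8) (nat_lit 4) (nat_lit 307) (nat_lit 263) (nat_lit 210)) (XT.lf (nat_lit 0) (nat_lit 18882664396) (nat_lit 76) (nat_lit 29379889029) (nat_lit 76) (nat_lit 8103759254) (nat_lit 7) (nat_lit 4) (nat_lit 8) (nat_lit 5) (nat_lit 8) (nat_lit 4) (nat_lit 308) (nat_lit 263) (nat_lit 209)))) (XT.nd (nat_lit 156) (nat_lit 76) (nat_lit 0) (XT.nd (nat_lit 78) (nat_lit 76) (nat_lit 0) (XT.lf (nat_lit 0) (nat_lit 34274053565) (nat_lit 76) (nat_lit 23646225779) (nat_lit 76) (nat_lit 2345003956) (nat_lit 7) (nat_lit 4) (nat_lit 8) (nat_lit 5) (nat_lit 8) (nat_lit 4) (nat_lit 309) (nat_lit 263) (nat_lit 208)) (XT.lf (nat_lit 0) (nat_lit 3663861655) (nat_lit 152) (nat_lit 13703622957) (nat_lit 76) (nat_lit 47102591054) (nat_lit 6) (nat_lit 5) (nat_lit 8) (nat_lit 5) (nat_lit 7) (nat_lit 4) (nat_lit 310) (nat_lit 263) (nat_lit 207))) (XT.nd (nat_lit 78) (nat_lit 76) (nat_lit 0) (XT.lf (nat_lit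 0) (nat_lit 10011213595) (nat_lit 152) (nat_lit 522643308) (nat_lit 76) (nat_lit 58473779699) (nat_lit 6) (nat_lit 5) (nat_lit 8) (nat_lit 5) (nat_lit 7) (nat_lit 4) (nat_lit 311) (nat_lit 263) (nat_lit 206)) (XT.lf (nat_lit 0) (nat_lit 14406908009) (nat_lit 76) (nat_lit 2791550872) (nat_lit 152) (nat_lit 56683189350) (nat_lit 5) (nat_lit 5) (nat_lit 6) (nat_lit 5) (nat_lit 7) (nat_lit 4) (nat_lit 312) (nat_lit 263) (nat_lit 205))))) (XT.nd (nat_lit 312) (nat_lit 76) (nat_lit 0) (XT.nd (nat_lit 156) (nat_lit 0) (nat_lit 0) (XT.nd (nat_lit 78) (nat_lit 0) (nat_lit 0) (XT.lf (nat_lit 0) (nat_lit 25095079174) (nat_lit 152) (nat_lit 48744989423) (nat_lit 0) (nat_lit 5294773740) (nat_lit 5) (nat_lit 5) (nat_lit 7) (nat_lit 4) (nat_lit 5) (nat_lit 4) (nat_lit 313) (nat_lit 263) (nat_lit 204)) (XT.lf (nat_lit 0) (nat_lit 33682763044) (nat_lit 152) (nat_lit 37254149052) (nat_lit 0) (nat_lit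 13866645363) (nat_lit 5) (nat_lit 5) (nat_lit 7) (nat_lit 4) (nat_lit 5) (nat_lit 4) (nat_lit 314) (nat_lit 263) (nat_lit 203))) (XT.nd (nat_lit 78) (nat_lit 0) (nat_lit 0) (XT.lf (nat_lit 0) (nat_lit 42945263602) (nat_lit 152) (nat_lit 24866988375) (nat_lit 0) (nat_lit 23114504952) (nat_lit 5) (nat_lit 5) (nat_lit 7) (nat_lit 4) (nat_lit 5) (nat_lit 4) (nat_lit 315) (nat_lit 263) (nat_lit 202)) (XT.lf (nat_lit 0) (nat_lit 52937469742) (nat_lit 152) (nat_lit 11510101996) (nat_lit 0) (nat_lit 33093154639) (nat_lit 5) (nat_lit 5) (nat_lit 7) (nat_lit 4) (nat_lit 5) (nat_lit 4) (nat_lit 316) (nat_lit 263) (nat_lit 201)))) (XT.nd (nat_lit 156) (nat_lit 0) (nat_lit 0) (XT.nd (nat_lit 78) (nat_lit 0) (nat_lit 0) (XT.lf (nat_lit 0) (nat_lit 3048142433) (nat_lit 76) (nat_lit 60743760002) (nat_lit 76) (nat_lit 40886892628) (nat_lit 4) (nat_lit 4) (nat_lit 5) (nat_lit 5) (nat_lit 5) (nat_lit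 4) (nat_lit 317) (nat_lit 263) (nat_lit 200)) (XT.lf (nat_lit 0) (nat_lit 19406460887) (nat_lit 76) (nat_lit 56412791097) (nat_lit 76) (nat_lit 36544301250) (nat_lit 4) (nat_lit 4) (nat_lit 5) (nat_lit 5) (nat_lit 5) (nat_lit 4) (nat_lit 318) (nat_lit 263) (nat_lit 199))) (XT.nd (nat_lit 78) (nat_lit 0) (nat_lit 0) (XT.lf (nat_lit 0) (nat_lit 37055689974) (nat_lit 76) (nat_lit 51743706609) (nat_lit 76) (nat_lit 31864455212) (nat_lit 4) (nat_lit 4) (nat_lit 5) (nat_lit 5) (nat_lit 5) (nat_lit 4) (nat_lit 319) (nat_lit 263) (nat_lit 198)) (XT.lf (nat_lit 0) (nat_lit 56100417718) (nat_lit 76) (nat_lit 46708837889) (nat_lit 76) (nat_lit 26819622095) (nat_lit 4) (nat_lit 4) (nat_lit 5) (nat_lit 5) (nat_lit 5) (nat_lit 4) (nat_lit 320) (nat_lit 263) (nat_lit 197))))))) (XT.nd (nat_lit 1170) (nat_lit 0) (nat_lit 0) (XT.nd (nat_lit 546) (nat_lit 0) (nat_lit 0) (XT.nd (nat_lit 234) (nat_lit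 152) (nat_lit 0) (XT.nd (nat_lit 78) (nat_lit 0) (nat_lit 0) (XT.lf (nat_lit 0) (nat_lit 76653501765) (nat_lit 76) (nat_lit 41278348679) (nat_lit 76) (nat_lit 21379906591) (nat_lit 4) (nat_lit 4) (nat_lit 5) (nat_lit 5) (nat_lit 5) (nat_lit 4) (nat_lit 321) (nat_lit 263) (nat_lit 196)) (XT.nd (nat_lit 78) (nat_lit 0) (nat_lit 0) (XT.lf (nat_lit 0) (nat_lit 98836738170) (nat_lit 76) (nat_lit 35420058302) (nat_lit 76) (nat_lit 15513073349) (nat_lit 4) (nat_lit 4) (nat_lit 5) (nat_lit 5) (nat_lit 5) (nat_lit 4) (nat_lit 322) (nat_lit 263) (nat_lit 195)) (XT.lf (nat_lit 0) (nat_lit 122781583147) (nat_lit 76) (nat_lit 29099250962) (nat_lit 76) (nat_lit 9184355949) (nat_lit 4) (nat_lit 4) (nat_lit 5) (nat_lit 5) (nat_lit 5) (nat_lit 4) (nat_lit 323) (nat_lit 263) (nat_lit 194)))) (XT.nd (nat_lit 156) (nat_lit 76) (nat_lit 0) (XT.nd (nat_lit 78) (nat_lit 76) (nat_lit 0) (XT.lf (nat_lit 0)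 (nat_lit 148629932074) (nat_lit 76) (nat_lit 22278470023) (nat_lit 76) (nat_lit 2356250880) (nat_lit 4) (nat_lit 4) (nat_lit 5) (nat_lit 5) (nat_lit 5) (nat_lit 4) (nat_lit 324) (nat_lit 263) (nat_lit 193)) (XT.lf (nat_lit 0) (nat_lit 4760998933) (nat_lit 152) (nat_lit 10026122962) (nat_lit 76) (nat_lit 171643787271) (nat_lit 3) (nat_lit 5) (nat_lit 5) (nat_lit 5) (nat_lit 4) (nat_lit 4) (nat_lit 325) (nat_lit 263) (nat_lit 192))) (XT.nd (nat_lit 78) (nat_lit 0) (nat_lit 0) (XT.lf (nat_lit 0) (nat_lit 5978362804) (nat_lit 76) (nat_lit 6480119315) (nat_lit 152) (nat_lit 188176039941) (nat_lit 2) (nat_lit 5) (nat_lit 3) (nat_lit 5) (nat_lit 4) (nat_lit 4) (nat_lit 326) (nat_lit 263) (nat_lit 191)) (XT.lf (nat_lit 0) (nat_lit 21107356280) (nat_lit 152) (nat_lit 192196844245) (nat_lit 0) (nat_lit 2643380229) (nat_lit 2) (nat_lit 5) (nat_lit 4) (nat_lit 4) (nat_lit 2) (nat_lit 4) (nat_lit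 327) (nat_lit 263) (nat_lit 190))))) (XT.nd (nat_lit 312) (nat_lit 0) (nat_lit 0) (XT.nd (nat_lit 156) (nat_lit 0) (nat_lit 0) (XT.nd (nat_lit 78) (nat_lit 0) (nat_lit 0) (XT.lf (nat_lit 0) (nat_lit 30611289202) (nat_lit 152) (nat_lit 189719018412) (nat_lit 0) (nat_lit 12142328471) (nat_lit 2) (nat_lit 5) (nat_lit 4) (nat_lit 4) (nat_lit 2) (nat_lit 4) (nat_lit 328) (nat_lit 263) (nat_lit 189)) (XT.lf (nat_lit 0) (nat_lit 40870753460) (nat_lit 152) (nat_lit 187052151320) (nat_lit 0) (nat_lit 22397177286) (nat_lit 2) (nat_lit 5) (nat_lit 4) (nat_lit 4) (nat_lit 2) (nat_lit 4) (nat_lit 329) (nat_lit 263) (nat_lit 188))) (XT.nd (nat_lit 78) (nat_lit 0) (nat_lit 0) (XT.lf (nat_lit 0) (nat_lit 51946545882) (nat_lit 152) (nat_lit 184180439313) (nat_lit 0) (nat_lit 33468696148) (nat_lit 2) (nat_lit 5) (nat_lit 4) (nat_lit 4) (nat_lit 2) (nat_lit 4) (nat_lit 330) (nat_lit 263) (nat_lit 187))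 (XT.lf (nat_lit 0) (nat_lit 63904300792) (nat_lit 152) (nat_lit 181086864838) (nat_lit 0) (nat_lit 45422494059) (nat_lit 2) (nat_lit 5) (nat_lit 4) (nat_lit 4) (nat_lit 2) (nat_lit 4) (nat_lit 331) (nat_lit 263) (nat_lit 186)))) (XT.nd (nat_lit 156) (nat_lit 0) (nat_lit 0) (XT.nd (nat_lit 78) (nat_lit 0) (nat_lit 0) (XT.lf (nat_lit 0) (nat_lit 76814878960) (nat_lit 152) (nat_lit 177753095601) (nat_lit 0) (nat_lit 58329408339) (nat_lit 2) (nat_lit 5) (nat_lit 4) (nat_lit 4) (nat_lit 2) (nat_lit 4) (nat_lit 332) (nat_lit 263) (nat_lit 185)) (XT.lf (nat_lit 0) (nat_lit 90754787517) (nat_lit 152) (nat_lit 174159375933) (nat_lit 0) (nat_lit 72265924406) (nat_lit 2) (nat_lit 5) (nat_lit 4) (nat_lit 4) (nat_lit 2) (nat_lit 4) (nat_lit 333) (nat_lit 263) (nat_lit 184))) (XT.nd (nat_lit 78) (nat_lit 0) (nat_lit 0) (XT.lf (nat_lit 0) (nat_lit 105806633327) (nat_lit 152) (nat_lit 170284409717)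 (nat_lit 0) (nat_lit 87314629022) (nat_lit 2) (nat_lit 5) (nat_lit 4) (nat_lit 4) (nat_lit 2) (nat_lit 4) (nat_lit 334) (nat_lit 263) (nat_lit 183)) (XT.lf (nat_lit 0) (nat_lit 122059612513) (nat_lit 152) (nat_lit 166105234191) (nat_lit 0) (nat_lit 103564699696) (nat_lit 2) (nat_lit 5) (nat_lit 4) (nat_lit 4) (nat_lit 2) (nat_lit 4) (nat_lit 335) (nat_lit 263) (nat_lit 182)))))) (XT.nd (nat_lit 546) (nat_lit 0) (nat_lit 0) (XT.nd (nat_lit 234) (nat_lit 0) (nat_lit 0) (XT.nd (nat_lit 78) (nat_lit 0) (nat_lit 0) (XT.lf (nat_lit 0) (nat_lit 139610039028) (nat_lit 152) (nat_lit 161597083870) (nat_lit 0) (nat_lit 121112433143) (nat_lit 2) (nat_lit 5) (nat_lit 4) (nat_lit 4) (nat_lit 2) (nat_lit 4) (nat_lit 336) (nat_lit 263) (nat_lit 181)) (XT.nd (nat_lit 78) (nat_lit 0) (nat_lit 0) (XT.lf (nat_lit 0) (nat_lit 158561915397) (nat_lit 152) (nat_lit 156733243789) (nat_lit 0) (nat_lit 140061815932)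 (nat_lit 2) (nat_lit 5) (nat_lit 4) (nat_lit 4) (nat_lit 2) (nat_lit 4) (nat_lit 337) (nat_lit 263) (nat_lit 180)) (XT.lf (nat_lit 0) (nat_lit 179027549037) (nat_lit 152) (nat_lit 151484891192) (nat_lit 0) (nat_lit 160525140701) (nat_lit 2) (nat_lit 5) (nat_lit 4) (nat_lit 4) (nat_lit 2) (nat_lit 4) (nat_lit 338) (nat_lit 263) (nat_lit 179)))) (XT.nd (nat_lit 156) (nat_lit 0) (nat_lit 0) (XT.nd (nat_lit 78) (nat_lit 0) (nat_lit 0) (XT.lf (nat_lit 0) (nat_lit 201128217777) (nat_lit 152) (nat_lit 145820924730) (nat_lit 0) (nat_lit 182623671597) (nat_lit 2) (nat_lit 5) (nat_lit 4) (nat_lit 4) (nat_lit 2) (nat_lit 4) (nat_lit 339) (nat_lit 263) (nat_lit 178)) (XT.lf (nat_lit 0) (nat_lit 224994888542) (nat_lit 152) (nat_lit 139707780159) (nat_lit 0) (nat_lit 206488362877) (nat_lit 2) (nat_lit 5) (nat_lit 4) (nat_lit 4) (nat_lit 2) (nat_lit 4) (nat_lit 340) (nat_lit 263) (nat_lit 177))) (XT.nd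 (nat_lit 78) (nat_lit 0) (nat_lit 0) (XT.lf (nat_lit 0) (nat_lit 250768993455) (nat_lit 152) (nat_lit 133109231435) (nat_lit 0) (nat_lit 232260634934) (nat_lit 2) (nat_lit 5) (nat_lit 4) (nat_lit 4) (nat_lit 2) (nat_lit 4) (nat_lit 341) (nat_lit 263) (nat_lit 176)) (XT.lf (nat_lit 0) (nat_lit 278603267954) (nat_lit 152) (nat_lit 125986176047) (nat_lit 0) (nat_lit 260093212344) (nat_lit 2) (nat_lit 5) (nat_lit 4) (nat_lit 4) (nat_lit 2) (nat_lit 4) (nat_lit 342) (nat_lit 263) (nat_lit 175))))) (XT.nd (nat_lit 312) (nat_lit 0) (nat_lit 0) (XT.nd (nat_lit 156) (nat_lit 0) (nat_lit 0) (XT.nd (nat_lit 78) (nat_lit 0) (nat_lit 0) (XT.lf (nat_lit 0) (nat_lit 308662655887) (nat_lit 152) (nat_lit 118296403298) (nat_lit 0) (nat_lit 290151028897) (nat_lit 2) (nat_lit 5) (nat_lit 4) (nat_lit 4) (nat_lit 2) (nat_lit 4) (nat_lit 343) (nat_lit 263) (nat_lit 174)) (XT.lf (nat_lit 0) (nat_lit 341125286959)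 (nat_lit 152) (nat_lit 109994344164) (nat_lit 0) (nat_lit 322612204990) (nat_lit 2) (nat_lit 5) (nat_lit 4) (nat_lit 4) (nat_lit 2) (nat_lit 4) (nat_lit 344) (nat_lit 263) (nat_lit 173))) (XT.nd (nat_lit 78) (nat_lit 0) (nat_lit 0) (XT.lf (nat_lit 0) (nat_lit 376183532320) (nat_lit 152) (nat_lit 101030801257) (nat_lit 0) (nat_lit 357669103146) (nat_lit 2) (nat_lit 5) (nat_lit 4) (nat_lit 4) (nat_lit 2) (nat_lit 4) (nat_lit 345) (nat_lit 263) (nat_lit 172)) (XT.lf (nat_lit 0) (nat_lit 414045144532) (nat_lit 152) (nat_lit 91352657285) (nat_lit 0) (nat_lit 395529467947) (nat_lit 2) (nat_lit 5) (nat_lit 4) (nat_lit 4) (nat_lit 2) (nat_lit 4) (nat_lit 346) (nat_lit 263) (nat_lit 171)))) (XT.nd (nat_lit 156) (nat_lit 0) (nat_lit 0) (XT.nd (nat_lit 78) (nat_lit 0) (nat_lit 0) (XT.lf (nat_lit 0) (nat_lit 454934488706) (nat_lit 152) (nat_lit 80902560285) (nat_lit 0) (nat_lit 436417657111) (nat_lit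 2) (nat_lit 5) (nat_lit 4) (nat_lit 4) (nat_lit 2) (nat_lit 4) (nat_lit 347) (nat_lit 263) (nat_lit 170)) (XT.lf (nat_lit 0) (nat_lit 499093872067) (nat_lit 152) (nat_lit 69618583756) (nat_lit 0) (nat_lit 480575971018) (nat_lit 2) (nat_lit 5) (nat_lit 4) (nat_lit 4) (nat_lit 2) (nat_lit 4) (nat_lit 348) (nat_lit 263) (nat_lit 169))) (XT.nd (nat_lit 78) (nat_lit 0) (nat_lit 0) (XT.lf (nat_lit 0) (nat_lit 546784979849) (nat_lit 152) (nat_lit 57433859689) (nat_lit 0) (nat_lit 528266088564) (nat_lit 2) (nat_lit 5) (nat_lit 4) (nat_lit 4) (nat_lit 2) (nat_lit 4) (nat_lit 349) (nat_lit 263) (nat_lit 168)) (XT.lf (nat_lit 0) (nat_lit 598290426025) (nat_lit 152) (nat_lit 44276182311) (nat_lit 0) (nat_lit 579770617855) (nat_lit 2) (nat_lit 5) (nat_lit 4) (nat_lit 4) (nat_lit 2) (nat_lit 4) (nat_lit 350) (nat_lit 263) (nat_lit 167))))))))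
noncomputable def xc56 : XT := (XT.nd (nat_lit 34944) (nat_lit 0) (nat_lit 532) (XT.nd (nat_lit 1092) (nat_lit 0) (nat_lit 0) (XT.nd (nat_lit 546) (nat_lit 0) (nat_lit 0) (XT.nd (nat_lit 234) (nat_lit 0) (nat_lit 0) (XT.nd (nat_lit 78) (nat_lit 76) (nat_lit 0) (XT.lf (nat_lit 0) (nat_lit 653915428052) (nat_lit 152) (nat_lit 30067580200) (nat_lit 0) (nat_lit 635394770916) (nat_lit 2) (nat_lit 5) (nat_lit 4) (nat_lit 4) (nat_lit 2) (nat_lit 4) (nat_lit 351) (nat_lit 263) (nat_lit 166)) (XT.nd (nat_lit 78) (nat_lit 76) (nat_lit 0) (XT.lf (nat_lit 0) (nat_lit 713989615573) (nat_lit 152) (nat_lit 14723854235) (nat_lit 0) (nat_lit 695468172356) (nat_lit 2) (nat_lit 5) (nat_lit 4) (nat_lit 4) (nat_lit 2) (nat_lit 4) (nat_lit 352) (nat_lit 263) (nat_lit 165)) (XT.lf (nat_lit 0) (nat_lit 1943124317) (nat_lit 76) (nat_lit 776972591642) (nat_lit 76) (nat_lit 758450420573) (nat_lit 1) (nat_lit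 4) (nat_lit 2) (nat_lit 5) (nat_lit 2) (nat_lit 4) (nat_lit 353) (nat_lit 263) (nat_lit 164)))) (XT.nd (nat_lit 156) (nat_lit 0) (nat_lit 0) (XT.nd (nat_lit 78) (nat_lit 0) (nat_lit 0) (XT.lf (nat_lit 0) (nat_lit 20779408023) (nat_lit 76) (nat_lit 828658340223) (nat_lit 76) (nat_lit 810135495216) (nat_lit 1) (nat_lit 4) (nat_lit 2) (nat_lit 5) (nat_lit 2) (nat_lit 4) (nat_lit 354) (nat_lit 263) (nat_lit 163)) (XT.lf (nat_lit 0) (nat_lit 41121287231) (nat_lit 76) (nat_lit 884479577735) (nat_lit 76) (nat_lit 865956108712) (nat_lit 1) (nat_lit 4) (nat_lit 2) (nat_lit 5) (nat_lit 2) (nat_lit 4) (nat_lit 355) (nat_lit 263) (nat_lit 162))) (XT.nd (nat_lit 78) (nat_lit 0) (nat_lit 0) (XT.lf (nat_lit 0) (nat_lit 63089306412) (nat_lit 76) (nat_lit 944767096697) (nat_lit 76) (nat_lit 926243049881) (nat_lit 1) (nat_lit 4) (nat_lit 2) (nat_lit 5) (nat_lit 2) (nat_lit 4) (nat_lit 356) (nat_lit 263)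 (nat_lit 161)) (XT.lf (nat_lit 0) (nat_lit 86813646420) (nat_lit 76) (nat_lit 1009878156481) (nat_lit 76) (nat_lit 991353574672) (nat_lit 1) (nat_lit 4) (nat_lit 2) (nat_lit 5) (nat_lit 2) (nat_lit 4) (nat_lit 357) (nat_lit 263) (nat_lit 160))))) (XT.nd (nat_lit 234) (nat_lit 0) (nat_lit 0) (XT.nd (nat_lit 78) (nat_lit 0) (nat_lit 0) (XT.lf (nat_lit 0) (nat_lit 112434895936) (nat_lit 76) (nat_lit 1080198600404) (nat_lit 76) (nat_lit 1061673523231) (nat_lit 1) (nat_lit 4) (nat_lit 2) (nat_lit 5) (nat_lit 2) (nat_lit 4) (nat_lit 358) (nat_lit 263) (nat_lit 159)) (XT.nd (nat_lit 78) (nat_lit 0) (nat_lit 0) (XT.lf (nat_lit 0) (nat_lit 140104884588) (nat_lit 76) (nat_lit 1156145142208) (nat_lit 76) (nat_lit 1137619606364) (nat_lit 1) (nat_lit 4) (nat_lit 2) (nat_lit 5) (nat_lit 2) (nat_lit 4) (nat_lit 359) (nat_lit 263) (nat_lit 158)) (XT.lf (nat_lit 0) (nat_lit 169987582678) (nat_lit 76)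 (nat_lit 1238167835474) (nat_lit 76) (nat_lit 1219641874935) (nat_lit 1) (nat_lit 4) (nat_lit 2) (nat_lit 5) (nat_lit 2) (nat_lit 4) (nat_lit 360) (nat_lit 263) (nat_lit 157)))) (XT.nd (nat_lit 156) (nat_lit 0) (nat_lit 0) (XT.nd (nat_lit 78) (nat_lit 0) (nat_lit 0) (XT.lf (nat_lit 0) (nat_lit 202260072861) (nat_lit 76) (nat_lit 1326752740606) (nat_lit 76) (nat_lit 1308226386831) (nat_lit 1) (nat_lit 4) (nat_lit 2) (nat_lit 5) (nat_lit 2) (nat_lit 4) (nat_lit 361) (nat_lit 263) (nat_lit 156)) (XT.lf (nat_lit 0) (nat_lit 237113599524) (nat_lit 76) (nat_lit 1422424805191) (nat_lit 76) (nat_lit 1403898087309) (nat_lit 1) (nat_lit 4) (nat_lit 2) (nat_lit 5) (nat_lit 2) (nat_lit 4) (nat_lit 362) (nat_lit 263) (nat_lit 155))) (XT.nd (nat_lit 78) (nat_lit 0) (nat_lit 0) (XT.lf (nat_lit 0) (nat_lit 274754702085) (nat_lit 76) (nat_lit 1525750974796) (nat_lit 76) (nat_lit 1507223919777) (nat_lit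 1) (nat_lit 4) (nat_lit 2) (nat_lit 5) (nat_lit 2) (nat_lit 4) (nat_lit 363) (nat_lit 263) (nat_lit 154)) (XT.lf (nat_lit 0) (nat_lit 315406438928) (nat_lit 76) (nat_lit 1637343552649) (nat_lit 76) (nat_lit 1618816185467) (nat_lit 1) (nat_lit 4) (nat_lit 2) (nat_lit 5) (nat_lit 2) (nat_lit 4) (nat_lit 364) (nat_lit 263) (nat_lit 153)))))) (XT.nd (nat_lit 33228) (nat_lit 0) (nat_lit 2432) (XT.nd (nat_lit 32916) (nat_lit 0) (nat_lit 3724) (XT.nd (nat_lit 32760) (nat_lit 0) (nat_lit 4028) (XT.lf (nat_lit 0) (nat_lit 359309709236) (nat_lit 76) (nat_lit 1757863828100) (nat_lit 76) (nat_lit 1739336171877) (nat_lit 1) (nat_lit 4) (nat_lit 2) (nat_lit 5) (nat_lit 2) (nat_lit 4) (nat_lit 365) (nat_lit 263) (nat_lit 152)) (XT.nd (nat_lit 78) (nat_lit 380) (nat_lit 0) (XT.lf (nat_lit 0) (nat_lit 1505892517) (nat_lit 0) (nat_lit 1505892517) (nat_lit 228) (nat_lit 444104574) (nat_lit 59) (nat_lit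 5) (nat_lit 59) (nat_lit 3) (nat_lit 62) (nat_lit 3) (nat_lit 264) (nat_lit 264) (nat_lit 252)) (XT.lf (nat_lit 0) (nat_lit 880951688) (nat_lit 380) (nat_lit 728623409) (nat_lit 380) (nat_lit 5431369000) (nat_lit 54) (nat_lit 3) (nat_lit 59) (nat_lit 3) (nat_lit 59) (nat_lit 5) (nat_lit 265) (nat_lit 264) (nat_lit 251)))) (XT.nd (nat_lit 156) (nat_lit 380) (nat_lit 0) (XT.nd (nat_lit 78) (nat_lit 0) (nat_lit 0) (XT.lf (nat_lit 0) (nat_lit 2634932681) (nat_lit 304) (nat_lit 4476518711) (nat_lit 380) (nat_lit 76684175) (nat_lit 55) (nat_lit 5) (nat_lit 59) (nat_lit 5) (nat_lit 60) (nat_lit 5) (nat_lit 266) (nat_lit 264) (nat_lit 250)) (XT.lf (nat_lit 0) (nat_lit 4428075912) (nat_lit 304) (nat_lit 1028051989) (nat_lit 380) (nat_lit 1899845583) (nat_lit 55) (nat_lit 5) (nat_lit 59) (nat_lit 5) (nat_lit 60) (nat_lit 5) (nat_lit 267) (nat_lit 264) (nat_lit 249))) (XT.nd (nat_lit 78) (nat_lit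 380) (nat_lit 0) (XT.lf (nat_lit 76) (nat_lit 2732294165) (nat_lit 0) (nat_lit 3546789385) (nat_lit 380) (nat_lit 1265722800) (nat_lit 56) (nat_lit 5) (nat_lit 55) (nat_lit 5) (nat_lit 60) (nat_lit 5) (nat_lit 268) (nat_lit 264) (nat_lit 248)) (XT.lf (nat_lit 0) (nat_lit 384995100) (nat_lit 380) (nat_lit 1014502790) (nat_lit 456) (nat_lit 6358283186) (nat_lit 50) (nat_lit 5) (nat_lit 55) (nat_lit 5) (nat_lit 56) (nat_lit 5) (nat_lit 269) (nat_lit 264) (nat_lit 247))))) (XT.nd (nat_lit 312) (nat_lit 988) (nat_lit 0) (XT.nd (nat_lit 156) (nat_lit 380) (nat_lit 0) (XT.nd (nat_lit 78) (nat_lit 0) (nat_lit 0) (XT.lf (nat_lit 0) (nat_lit 2064119382) (nat_lit 380) (nat_lit 4904900487) (nat_lit 76) (nat_lit 1019537685) (nat_lit 51) (nat_lit 5) (nat_lit 56) (nat_lit 5) (nat_lit 52) (nat_lit 5) (nat_lit 270) (nat_lit 264) (nat_lit 246)) (XT.lf (nat_lit 0) (nat_lit 3814997950) (nat_lit 380) (nat_lit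 812930220) (nat_lit 76) (nat_lit 3615403953) (nat_lit 51) (nat_lit 5) (nat_lit 56) (nat_lit 5) (nat_lit 52) (nat_lit 5) (nat_lit 271) (nat_lit 264) (nat_lit 245))) (XT.nd (nat_lit 78) (nat_lit 0) (nat_lit 0) (XT.lf (nat_lit 0) (nat_lit 3691381978) (nat_lit 380) (nat_lit 1985393549) (nat_lit 456) (nat_lit 2844537503) (nat_lit 46) (nat_lit 5) (nat_lit 51) (nat_lit 5) (nat_lit 52) (nat_lit 5) (nat_lit 272) (nat_lit 264) (nat_lit 244)) (XT.lf (nat_lit 0) (nat_lit 7619985773) (nat_lit 456) (nat_lit 345823539) (nat_lit 76) (nat_lit 861578182) (nat_lit 46) (nat_lit 5) (nat_lit 52) (nat_lit 5) (nat_lit 47) (nat_lit 5) (nat_lit 273) (nat_lit 264) (nat_lit 243)))) (XT.nd (nat_lit 156) (nat_lit 228) (nat_lit 0) (XT.nd (nat_lit 78) (nat_lit 228) (nat_lit 0) (XT.lf (nat_lit 0) (nat_lit 592420889) (nat_lit 532) (nat_lit 4593311167) (nat_lit 76) (nat_lit 3966745395) (nat_lit 39) (nat_lit 5) (nat_lit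 46) (nat_lit 5) (nat_lit 40) (nat_lit 5) (nat_lit 274) (nat_lit 264) (nat_lit 242)) (XT.lf (nat_lit 0) (nat_lit 252310357) (nat_lit 228) (nat_lit 2133892650) (nat_lit 304) (nat_lit 7122006984) (nat_lit 36) (nat_lit 5) (nat_lit 39) (nat_lit 5) (nat_lit 40) (nat_lit 5) (nat_lit 275) (nat_lit 264) (nat_lit 241))) (XT.nd (nat_lit 78) (nat_lit 228) (nat_lit 0) (XT.lf (nat_lit 0) (nat_lit 4384682161) (nat_lit 304) (nat_lit 4274159156) (nat_lit 76) (nat_lit 1228998205) (nat_lit 36) (nat_lit 5) (nat_lit 40) (nat_lit 5) (nat_lit 37) (nat_lit 5) (nat_lit 276) (nat_lit 264) (nat_lit 240)) (XT.lf (nat_lit 0) (nat_lit 1001339546) (nat_lit 228) (nat_lit 5532684743) (nat_lit 304) (nat_lit 3764845556) (nat_lit 33) (nat_lit 5) (nat_lit 36) (nat_lit 5) (nat_lit 37) (nat_lit 5) (nat_lit 277) (nat_lit 264) (nat_lit 239))))))) (XT.nd (nat_lit 1092) (nat_lit 608) (nat_lit 0) (XT.nd (nat_lit 546) (nat_lit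 684) (nat_lit 0) (XT.nd (nat_lit 234) (nat_lit 304) (nat_lit 0) (XT.nd (nat_lit 78) (nat_lit 304) (nat_lit 0) (XT.lf (nat_lit 0) (nat_lit 6845024700) (nat_lit 228) (nat_lit 2042854945) (nat_lit 304) (nat_lit 1852583981) (nat_lit 33) (nat_lit 5) (nat_lit 36) (nat_lit 5) (nat_lit 37) (nat_lit 5) (nat_lit 278) (nat_lit 264) (nat_lit 238)) (XT.nd (nat_lit 78) (nat_lit 0) (nat_lit 0) (XT.lf (nat_lit 0) (nat_lit 210779987) (nat_lit 304) (nat_lit 9326100047) (nat_lit 76) (nat_lit 1679640416) (nat_lit 29) (nat_lit 5) (nat_lit 33) (nat_lit 5) (nat_lit 30) (nat_lit 5) (nat_lit 279) (nat_lit 264) (nat_lit 237)) (XT.lf (nat_lit 0) (nat_lit 2424504140) (nat_lit 304) (nat_lit 3563229015) (nat_lit 76) (nat_lit 5732476117) (nat_lit 29) (nat_lit 5) (nat_lit 33) (nat_lit 5) (nat_lit 30) (nat_lit 5) (nat_lit 280) (nat_lit 264) (nat_lit 236)))) (XT.nd (nat_lit 156) (nat_lit 152) (nat_lit 0) (XT.nd (nat_lit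 78) (nat_lit 0) (nat_lit 0) (XT.lf (nat_lit 0) (nat_lit 2705427864) (nat_lit 152) (nat_lit 2103707395) (nat_lit 228) (nat_lit 7455763658) (nat_lit 27) (nat_lit 5) (nat_lit 29) (nat_lit 5) (nat_lit 30) (nat_lit 5) (nat_lit 281) (nat_lit 264) (nat_lit 235)) (XT.lf (nat_lit 0) (nat_lit 7466194878) (nat_lit 228) (nat_lit 3313413180) (nat_lit 76) (nat_lit 2067217884) (nat_lit 27) (nat_lit 5) (nat_lit 30) (nat_lit 5) (nat_lit 28) (nat_lit 5) (nat_lit 282) (nat_lit 264) (nat_lit 234))) (XT.nd (nat_lit 78) (nat_lit 0) (nat_lit 0) (XT.lf (nat_lit 0) (nat_lit 3464471661) (nat_lit 152) (nat_lit 6945803431) (nat_lit 228) (nat_lit 3059255991) (nat_lit 25) (nat_lit 5) (nat_lit 27) (nat_lit 5) (nat_lit 28) (nat_lit 5) (nat_lit 283) (nat_lit 264) (nat_lit 233)) (XT.lf (nat_lit 0) (nat_lit 10888691669) (nat_lit 152) (nat_lit 2730954083) (nat_lit 228) (nat_lit 520192812) (nat_lit 25) (nat_lit 5) (nat_lit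 27) (nat_lit 5) (nat_lit 28) (nat_lit 5) (nat_lit 284) (nat_lit 264) (nat_lit 232))))) (XT.nd (nat_lit 234) (nat_lit 304) (nat_lit 0) (XT.nd (nat_lit 78) (nat_lit 152) (nat_lit 0) (XT.lf (nat_lit 0) (nat_lit 2199047222) (nat_lit 228) (nat_lit 10789384101) (nat_lit 76) (nat_lit 1864151018) (nat_lit 22) (nat_lit 5) (nat_lit 25) (nat_lit 5) (nat_lit 23) (nat_lit 5) (nat_lit 285) (nat_lit 264) (nat_lit 231)) (XT.nd (nat_lit 78) (nat_lit 152) (nat_lit 0) (XT.lf (nat_lit 0) (nat_lit 5213739718) (nat_lit 228) (nat_lit 3637630816) (nat_lit 76) (nat_lit 6761545405) (nat_lit 22) (nat_lit 5) (nat_lit 25) (nat_lit 5) (nat_lit 23) (nat_lit 5) (nat_lit 286) (nat_lit 264) (nat_lit 230)) (XT.lf (nat_lit 0) (nat_lit 4220316248) (nat_lit 152) (nat_lit 4298829243) (nat_lit 228) (nat_lit 7911090493) (nat_lit 20) (nat_lit 5) (nat_lit 22) (nat_lit 5) (nat_lit 23) (nat_lit 5) (nat_lit 287) (nat_lit 264) (nat_lit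 229)))) (XT.nd (nat_lit 156) (nat_lit 228) (nat_lit 0) (XT.nd (nat_lit 78) (nat_lit 76) (nat_lit 0) (XT.lf (nat_lit 0) (nat_lit 12155362965) (nat_lit 228) (nat_lit 4487268808) (nat_lit 76) (nat_lit 665113214) (nat_lit 20) (nat_lit 5) (nat_lit 23) (nat_lit 5) (nat_lit 21) (nat_lit 4) (nat_lit 288) (nat_lit 264) (nat_lit 228)) (XT.lf (nat_lit 0) (nat_lit 3861935145) (nat_lit 76) (nat_lit 12378298494) (nat_lit 152) (nat_lit 2002705879) (nat_lit 19) (nat_lit 5) (nat_lit 20) (nat_lit 5) (nat_lit 21) (nat_lit 4) (nat_lit 289) (nat_lit 264) (nat_lit 227))) (XT.nd (nat_lit 78) (nat_lit 152) (nat_lit 0) (XT.lf (nat_lit 0) (nat_lit 1408555385) (nat_lit 152) (nat_lit 6219170953) (nat_lit 76) (nat_lit 11616254603) (nat_lit 18) (nat_lit 5) (nat_lit 20) (nat_lit 5) (nat_lit 19) (nat_lit 5) (nat_lit 290) (nat_lit 264) (nat_lit 226)) (XT.lf (nat_lit 0) (nat_lit 2605916424) (nat_lit 152) (nat_lit 2398419103)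 (nat_lit 228) (nat_lit 15315106964) (nat_lit 16) (nat_lit 5) (nat_lit 18) (nat_lit 5) (nat_lit 19) (nat_lit 5) (nat_lit 291) (nat_lit 264) (nat_lit 225)))))) (XT.nd (nat_lit 546) (nat_lit 228) (nat_lit 0) (XT.nd (nat_lit 234) (nat_lit 304) (nat_lit 0) (XT.nd (nat_lit 78) (nat_lit 76) (nat_lit 0) (XT.lf (nat_lit 0) (nat_lit 9098503525) (nat_lit 228) (nat_lit 9128285739) (nat_lit 76) (nat_lit 3237371045) (nat_lit 16) (nat_lit 5) (nat_lit 19) (nat_lit 5) (nat_lit 17) (nat_lit 4) (nat_lit 292) (nat_lit 264) (nat_lit 224)) (XT.nd (nat_lit 78) (nat_lit 0) (nat_lit 0) (XT.lf (nat_lit 0) (nat_lit 18428772) (nat_lit 76) (nat_lit 13525739572) (nat_lit 152) (nat_lit 9154441783) (nat_lit 15) (nat_lit 5) (nat_lit 16) (nat_lit 5) (nat_lit 17) (nat_lit 4) (nat_lit 293) (nat_lit 264) (nat_lit 223)) (XT.lf (nat_lit 0) (nat_lit 10353663322) (nat_lit 76) (nat_lit 8204002898) (nat_lit 152) (nat_lit 5457241661)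 (nat_lit 15) (nat_lit 5) (nat_lit 16) (nat_lit 5) (nat_lit 17) (nat_lit 4) (nat_lit 294) (nat_lit 264) (nat_lit 222)))) (XT.nd (nat_lit 156) (nat_lit 76) (nat_lit 0) (XT.nd (nat_lit 78) (nat_lit 228) (nat_lit 0) (XT.lf (nat_lit 0) (nat_lit 21457984392) (nat_lit 76) (nat_lit 2479626533) (nat_lit 152) (nat_lit 1501730593) (nat_lit 15) (nat_lit 5) (nat_lit 16) (nat_lit 5) (nat_lit 17) (nat_lit 4) (nat_lit 295) (nat_lit 264) (nat_lit 221)) (XT.lf (nat_lit 0) (nat_lit 2853896009) (nat_lit 228) (nat_lit 20371157925) (nat_lit 76) (nat_lit 3729618479) (nat_lit 12) (nat_lit 5) (nat_lit 15) (nat_lit 5) (nat_lit 13) (nat_lit 4) (nat_lit 296) (nat_lit 264) (nat_lit 220))) (XT.nd (nat_lit 78) (nat_lit 76) (nat_lit 0) (XT.lf (nat_lit 0) (nat_lit 7620592558) (nat_lit 228) (nat_lit 10524670032) (nat_lit 76) (nat_lit 10431395287) (nat_lit 12) (nat_lit 5) (nat_lit 15) (nat_lit 5) (nat_lit 13) (nat_lit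 4) (nat_lit 297) (nat_lit 264) (nat_lit 219)) (XT.lf (nat_lit 0) (nat_lit 60811672) (nat_lit 76) (nat_lit 12679332689) (nat_lit 152) (nat_lit 17590581406) (nat_lit 11) (nat_lit 5) (nat_lit 12) (nat_lit 5) (nat_lit 13) (nat_lit 4) (nat_lit 298) (nat_lit 264) (nat_lit 218))))) (XT.nd (nat_lit 312) (nat_lit 76) (nat_lit 0) (XT.nd (nat_lit 156) (nat_lit 152) (nat_lit 0) (XT.nd (nat_lit 78) (nat_lit 0) (nat_lit 0) (XT.lf (nat_lit 0) (nat_lit 12041222521) (nat_lit 76) (nat_lit 6486862439) (nat_lit 152) (nat_lit 13676369959) (nat_lit 11) (nat_lit 5) (nat_lit 12) (nat_lit 5) (nat_lit 13) (nat_lit 4) (nat_lit 299) (nat_lit 264) (nat_lit 217)) (XT.lf (nat_lit 0) (nat_lit 24756620927) (nat_lit 152) (nat_lit 9301272641) (nat_lit 0) (nat_lit 172022735) (nat_lit 11) (nat_lit 5) (nat_lit 13) (nat_lit 4) (nat_lit 11) (nat_lit 4) (nat_lit 300) (nat_lit 264) (nat_lit 216))) (XT.nd (nat_lit 78) (nat_lit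 76) (nat_lit 0) (XT.lf (nat_lit 0) (nat_lit 2333025916) (nat_lit 76) (nat_lit 29349759352) (nat_lit 76) (nat_lit 4718717530) (nat_lit 10) (nat_lit 4) (nat_lit 11) (nat_lit 5) (nat_lit 11) (nat_lit 4) (nat_lit 301) (nat_lit 264) (nat_lit 215)) (XT.lf (nat_lit 0) (nat_lit 631223733) (nat_lit 152) (nat_lit 23361099817) (nat_lit 76) (nat_lit 14734857089) (nat_lit 9) (nat_lit 5) (nat_lit 11) (nat_lit 5) (nat_lit 10) (nat_lit 4) (nat_lit 302) (nat_lit 264) (nat_lit 214)))) (XT.nd (nat_lit 156) (nat_lit 0) (nat_lit 0) (XT.nd (nat_lit 78) (nat_lit 76) (nat_lit 0) (XT.lf (nat_lit 0) (nat_lit 6130985979) (nat_lit 152) (nat_lit 11961412272) (nat_lit 76) (nat_lit 23138597061) (nat_lit 9) (nat_lit 5) (nat_lit 11) (nat_lit 5) (nat_lit 10) (nat_lit 4) (nat_lit 303) (nat_lit 264) (nat_lit 213)) (XT.lf (nat_lit 0) (nat_lit 328034331) (nat_lit 76) (nat_lit 11729064655) (nat_lit 152) (nat_lit 31879132936)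 (nat_lit 8) (nat_lit 5) (nat_lit 9) (nat_lit 5) (nat_lit 10) (nat_lit 4) (nat_lit 304) (nat_lit 264) (nat_lit 212))) (XT.nd (nat_lit 78) (nat_lit 0) (nat_lit 0) (XT.lf (nat_lit 0) (nat_lit 14243245089) (nat_lit 76) (nat_lit 4520271306) (nat_lit 152) (nat_lit 28069898226) (nat_lit 8) (nat_lit 5) (nat_lit 9) (nat_lit 5) (nat_lit 10) (nat_lit 4) (nat_lit 305) (nat_lit 264) (nat_lit 211)) (XT.lf (nat_lit 0) (nat_lit 26065313643) (nat_lit 152) (nat_lit 20805278079) (nat_lit 0) (nat_lit 3087093487) (nat_lit 8) (nat_lit 5) (nat_lit 10) (nat_lit 4) (nat_lit 8) (nat_lit 4) (nat_lit 306) (nat_lit 264) (nat_lit 210))))))))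
noncomputable def xc57 : XT := (XT.nd (nat_lit 2262) (nat_lit 76) (nat_lit 0) (XT.nd (nat_lit 1092) (nat_lit 152) (nat_lit 0) (XT.nd (nat_lit 546) (nat_lit 76) (nat_lit 0) (XT.nd (nat_lit 234) (nat_lit 152) (nat_lit 0) (XT.nd (nat_lit 78) (nat_lit 76) (nat_lit 0) (XT.lf (nat_lit 0) (nat_lit 34050458475) (nat_lit 152) (nat_lit 8228384672) (nat_lit 0) (nat_lit 11045138906) (nat_lit 8) (nat_lit 5) (nat_lit 10) (nat_lit 4) (nat_lit 8) (nat_lit 4) (nat_lit 307) (nat_lit 264) (nat_lit 209)) (XT.nd (nat_lit 78) (nat_lit 0) (nat_lit 0) (XT.lf (nat_lit 0) (nat_lit 5604092463) (nat_lit 76) (nat_lit 37188243728) (nat_lit 76) (nat_lit 14157832111) (nat_lit 7) (nat_lit 4) (nat_lit 8) (nat_lit 5) (nat_lit 8) (nat_lit 4) (nat_lit 308) (nat_lit 264) (nat_lit 208)) (XT.lf (nat_lit 0) (nat_lit 20980998609) (nat_lit 76) (nat_lit 31461211062) (nat_lit 76) (nat_lit 8407566067) (nat_lit 7) (nat_lit 4) (nat_lit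 8) (nat_lit 5) (nat_lit 8) (nat_lit 4) (nat_lit 309) (nat_lit 264) (nat_lit 207)))) (XT.nd (nat_lit 156) (nat_lit 76) (nat_lit 0) (XT.nd (nat_lit 78) (nat_lit 76) (nat_lit 0) (XT.lf (nat_lit 0) (nat_lit 37560164018) (nat_lit 76) (nat_lit 25288785796) (nat_lit 76) (nat_lit 2213628414) (nat_lit 7) (nat_lit 4) (nat_lit 8) (nat_lit 5) (nat_lit 8) (nat_lit 4) (nat_lit 310) (nat_lit 264) (nat_lit 206)) (XT.lf (nat_lit 0) (nat_lit 4237544100) (nat_lit 152) (nat_lit 14280984528) (nat_lit 76) (nat_lit 51086429530) (nat_lit 6) (nat_lit 5) (nat_lit 8) (nat_lit 5) (nat_lit 7) (nat_lit 4) (nat_lit 311) (nat_lit 264) (nat_lit 205))) (XT.nd (nat_lit 78) (nat_lit 76) (nat_lit 0) (XT.lf (nat_lit 0) (nat_lit 11071900973) (nat_lit 152) (nat_lit 83965638) (nat_lit 76) (nat_lit 63351340585) (nat_lit 6) (nat_lit 5) (nat_lit 8) (nat_lit 5) (nat_lit 7) (nat_lit 4) (nat_lit 312) (nat_lit 264) (nat_lit 204))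 (XT.lf (nat_lit 0) (nat_lit 16027785503) (nat_lit 76) (nat_lit 2798359877) (nat_lit 152) (nat_lit 60945651860) (nat_lit 5) (nat_lit 5) (nat_lit 6) (nat_lit 5) (nat_lit 7) (nat_lit 4) (nat_lit 313) (nat_lit 264) (nat_lit 203))))) (XT.nd (nat_lit 234) (nat_lit 76) (nat_lit 0) (XT.nd (nat_lit 78) (nat_lit 0) (nat_lit 0) (XT.lf (nat_lit 0) (nat_lit 27340664195) (nat_lit 152) (nat_lit 52196902920) (nat_lit 0) (nat_lit 5908803884) (nat_lit 5) (nat_lit 5) (nat_lit 7) (nat_lit 4) (nat_lit 5) (nat_lit 4) (nat_lit 314) (nat_lit 264) (nat_lit 202)) (XT.nd (nat_lit 78) (nat_lit 0) (nat_lit 0) (XT.lf (nat_lit 0) (nat_lit 36597734723) (nat_lit 152) (nat_lit 39819957220) (nat_lit 0) (nat_lit 15152317959) (nat_lit 5) (nat_lit 5) (nat_lit 7) (nat_lit 4) (nat_lit 5) (nat_lit 4) (nat_lit 315) (nat_lit 264) (nat_lit 201)) (XT.lf (nat_lit 0) (nat_lit 46584913057) (nat_lit 152) (nat_lit 26472529153) (nat_lit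 0) (nat_lit 25126944022) (nat_lit 5) (nat_lit 5) (nat_lit 7) (nat_lit 4) (nat_lit 5) (nat_lit 4) (nat_lit 316) (nat_lit 264) (nat_lit 200)))) (XT.nd (nat_lit 156) (nat_lit 0) (nat_lit 0) (XT.nd (nat_lit 78) (nat_lit 76) (nat_lit 0) (XT.lf (nat_lit 0) (nat_lit 57361382475) (nat_lit 152) (nat_lit 12075522848) (nat_lit 0) (nat_lit 35891790967) (nat_lit 5) (nat_lit 5) (nat_lit 7) (nat_lit 4) (nat_lit 5) (nat_lit 4) (nat_lit 317) (nat_lit 264) (nat_lit 199)) (XT.lf (nat_lit 0) (nat_lit 3638383989) (nat_lit 76) (nat_lit 65440122772) (nat_lit 76) (nat_lit 43959769714) (nat_lit 4) (nat_lit 4) (nat_lit 5) (nat_lit 5) (nat_lit 5) (nat_lit 4) (nat_lit 318) (nat_lit 264) (nat_lit 198))) (XT.nd (nat_lit 78) (nat_lit 0) (nat_lit 0) (XT.lf (nat_lit 0) (nat_lit 21279709388) (nat_lit 76) (nat_lit 60774760653) (nat_lit 76) (nat_lit 39284443198) (nat_lit 4) (nat_lit 4) (nat_lit 5) (nat_lit 5) (nat_lit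 5) (nat_lit 4) (nat_lit 319) (nat_lit 264) (nat_lit 197)) (XT.lf (nat_lit 0) (nat_lit 40317118903) (nat_lit 76) (nat_lit 55743338571) (nat_lit 76) (nat_lit 34243794822) (nat_lit 4) (nat_lit 4) (nat_lit 5) (nat_lit 5) (nat_lit 5) (nat_lit 4) (nat_lit 320) (nat_lit 264) (nat_lit 196)))))) (XT.nd (nat_lit 546) (nat_lit 0) (nat_lit 0) (XT.nd (nat_lit 234) (nat_lit 152) (nat_lit 0) (XT.nd (nat_lit 78) (nat_lit 0) (nat_lit 0) (XT.lf (nat_lit 0) (nat_lit 60863426813) (nat_lit 76) (nat_lit 50316040692) (nat_lit 76) (nat_lit 28807954078) (nat_lit 4) (nat_lit 4) (nat_lit 5) (nat_lit 5) (nat_lit 5) (nat_lit 4) (nat_lit 321) (nat_lit 264) (nat_lit 195)) (XT.nd (nat_lit 78) (nat_lit 0) (nat_lit 0) (XT.lf (nat_lit 0) (nat_lit 83040389016) (nat_lit 76) (nat_lit 44460705251) (nat_lit 76) (nat_lit 22944708577) (nat_lit 4) (nat_lit 4) (nat_lit 5) (nat_lit 5) (nat_lit 5) (nat_lit 4) (nat_lit 322) (nat_lit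 264) (nat_lit 194)) (XT.lf (nat_lit 0) (nat_lit 106979424546) (nat_lit 76) (nat_lit 38142633963) (nat_lit 76) (nat_lit 16619313160) (nat_lit 4) (nat_lit 4) (nat_lit 5) (nat_lit 5) (nat_lit 5) (nat_lit 4) (nat_lit 323) (nat_lit 264) (nat_lit 193)))) (XT.nd (nat_lit 156) (nat_lit 152) (nat_lit 0) (XT.nd (nat_lit 78) (nat_lit 0) (nat_lit 0) (XT.lf (nat_lit 0) (nat_lit 132822394357) (nat_lit 76) (nat_lit 31324386407) (nat_lit 76) (nat_lit 9794284001) (nat_lit 4) (nat_lit 4) (nat_lit 5) (nat_lit 5) (nat_lit 5) (nat_lit 4) (nat_lit 324) (nat_lit 264) (nat_lit 192)) (XT.lf (nat_lit 0) (nat_lit 160722441972) (nat_lit 76) (nat_lit 23965558151) (nat_lit 76) (nat_lit 2429176485) (nat_lit 4) (nat_lit 4) (nat_lit 5) (nat_lit 5) (nat_lit 5) (nat_lit 4) (nat_lit 325) (nat_lit 264) (nat_lit 191))) (XT.nd (nat_lit 78) (nat_lit 76) (nat_lit 0) (XT.lf (nat_lit 0) (nat_lit 5243538998) (nat_lit 152) (nat_lit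 10635634678) (nat_lit 76) (nat_lit 185457994359) (nat_lit 3) (nat_lit 5) (nat_lit 5) (nat_lit 5) (nat_lit 4) (nat_lit 4) (nat_lit 326) (nat_lit 264) (nat_lit 190)) (XT.lf (nat_lit 0) (nat_lit 6644334554) (nat_lit 76) (nat_lit 6909470159) (nat_lit 152) (nat_lit 203123512542) (nat_lit 2) (nat_lit 5) (nat_lit 3) (nat_lit 5) (nat_lit 4) (nat_lit 4) (nat_lit 327) (nat_lit 264) (nat_lit 189))))) (XT.nd (nat_lit 312) (nat_lit 0) (nat_lit 0) (XT.nd (nat_lit 156) (nat_lit 0) (nat_lit 0) (XT.nd (nat_lit 78) (nat_lit 0) (nat_lit 0) (XT.lf (nat_lit 0) (nat_lit 22889265050) (nat_lit 152) (nat_lit 207393399718) (nat_lit 0) (nat_lit 2933187337) (nat_lit 2) (nat_lit 5) (nat_lit 4) (nat_lit 4) (nat_lit 2) (nat_lit 4) (nat_lit 328) (nat_lit 264) (nat_lit 188)) (XT.lf (nat_lit 0) (nat_lit 33146599992) (nat_lit 152) (nat_lit 204730621305) (nat_lit 0) (nat_lit 13186248720) (nat_lit 2) (nat_lit 5) (nat_lit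 4) (nat_lit 4) (nat_lit 2) (nat_lit 4) (nat_lit 329) (nat_lit 264) (nat_lit 187))) (XT.nd (nat_lit 78) (nat_lit 0) (nat_lit 0) (XT.lf (nat_lit 0) (nat_lit 44220420825) (nat_lit 152) (nat_lit 201862695111) (nat_lit 0) (nat_lit 24256112553) (nat_lit 2) (nat_lit 5) (nat_lit 4) (nat_lit 4) (nat_lit 2) (nat_lit 4) (nat_lit 330) (nat_lit 264) (nat_lit 186)) (XT.lf (nat_lit 0) (nat_lit 56176350189) (nat_lit 152) (nat_lit 198772626018) (nat_lit 0) (nat_lit 36208378030) (nat_lit 2) (nat_lit 5) (nat_lit 4) (nat_lit 4) (nat_lit 2) (nat_lit 4) (nat_lit 331) (nat_lit 264) (nat_lit 185)))) (XT.nd (nat_lit 156) (nat_lit 0) (nat_lit 0) (XT.nd (nat_lit 78) (nat_lit 0) (nat_lit 0) (XT.lf (nat_lit 0) (nat_lit 69085238038) (nat_lit 152) (nat_lit 195442102506) (nat_lit 0) (nat_lit 49113873389) (nat_lit 2) (nat_lit 5) (nat_lit 4) (nat_lit 4) (nat_lit 2) (nat_lit 4) (nat_lit 332) (nat_lit 264) (nat_lit 184))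 (XT.lf (nat_lit 0) (nat_lit 83023581483) (nat_lit 152) (nat_lit 191851388139) (nat_lit 0) (nat_lit 63049075640) (nat_lit 2) (nat_lit 5) (nat_lit 4) (nat_lit 4) (nat_lit 2) (nat_lit 4) (nat_lit 333) (nat_lit 264) (nat_lit 183))) (XT.nd (nat_lit 78) (nat_lit 0) (nat_lit 0) (XT.lf (nat_lit 0) (nat_lit 98073978116) (nat_lit 152) (nat_lit 187979204609) (nat_lit 0) (nat_lit 78096563761) (nat_lit 2) (nat_lit 5) (nat_lit 4) (nat_lit 4) (nat_lit 2) (nat_lit 4) (nat_lit 334) (nat_lit 264) (nat_lit 182)) (XT.lf (nat_lit 0) (nat_lit 114325615472) (nat_lit 152) (nat_lit 183802605644) (nat_lit 0) (nat_lit 94345508050) (nat_lit 2) (nat_lit 5) (nat_lit 4) (nat_lit 4) (nat_lit 2) (nat_lit 4) (nat_lit 335) (nat_lit 264) (nat_lit 181))))))) (XT.nd (nat_lit 1170) (nat_lit 76) (nat_lit 0) (XT.nd (nat_lit 546) (nat_lit 0) (nat_lit 0) (XT.nd (nat_lit 234) (nat_lit 0) (nat_lit 0) (XT.nd (nat_lit 78) (nat_lit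 0) (nat_lit 0) (XT.lf (nat_lit 0) (nat_lit 131874799551) (nat_lit 152) (nat_lit 179296841028) (nat_lit 0) (nat_lit 111892198548) (nat_lit 2) (nat_lit 5) (nat_lit 4) (nat_lit 4) (nat_lit 2) (nat_lit 4) (nat_lit 336) (nat_lit 264) (nat_lit 180)) (XT.nd (nat_lit 78) (nat_lit 0) (nat_lit 0) (XT.lf (nat_lit 0) (nat_lit 150825525517) (nat_lit 152) (nat_lit 174435209933) (nat_lit 0) (nat_lit 130840615643) (nat_lit 2) (nat_lit 5) (nat_lit 4) (nat_lit 4) (nat_lit 2) (nat_lit 4) (nat_lit 337) (nat_lit 264) (nat_lit 179)) (XT.lf (nat_lit 0) (nat_lit 171290093969) (nat_lit 152) (nat_lit 169188902693) (nat_lit 0) (nat_lit 151303046251) (nat_lit 2) (nat_lit 5) (nat_lit 4) (nat_lit 4) (nat_lit 2) (nat_lit 4) (nat_lit 338) (nat_lit 264) (nat_lit 178)))) (XT.nd (nat_lit 156) (nat_lit 0) (nat_lit 0) (XT.nd (nat_lit 78) (nat_lit 0) (nat_lit 0) (XT.lf (nat_lit 0) (nat_lit 193389776423) (nat_lit 152) (nat_lit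 163526830081) (nat_lit 0) (nat_lit 173400749220) (nat_lit 2) (nat_lit 5) (nat_lit 4) (nat_lit 4) (nat_lit 2) (nat_lit 4) (nat_lit 339) (nat_lit 264) (nat_lit 177)) (XT.lf (nat_lit 0) (nat_lit 217255533961) (nat_lit 152) (nat_lit 157415439074) (nat_lit 0) (nat_lit 197264673902) (nat_lit 2) (nat_lit 5) (nat_lit 4) (nat_lit 4) (nat_lit 2) (nat_lit 4) (nat_lit 340) (nat_lit 264) (nat_lit 176))) (XT.nd (nat_lit 78) (nat_lit 0) (nat_lit 0) (XT.lf (nat_lit 0) (nat_lit 243028793294) (nat_lit 152) (nat_lit 150818514020) (nat_lit 0) (nat_lit 223036236145) (nat_lit 2) (nat_lit 5) (nat_lit 4) (nat_lit 4) (nat_lit 2) (nat_lit 4) (nat_lit 341) (nat_lit 264) (nat_lit 175)) (XT.lf (nat_lit 0) (nat_lit 270862284847) (nat_lit 152) (nat_lit 143696962032) (nat_lit 0) (nat_lit 250868156320) (nat_lit 2) (nat_lit 5) (nat_lit 4) (nat_lit 4) (nat_lit 2) (nat_lit 4) (nat_lit 342) (nat_lit 264) (nat_lit 174)))))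 (XT.nd (nat_lit 312) (nat_lit 0) (nat_lit 0) (XT.nd (nat_lit 156) (nat_lit 0) (nat_lit 0) (XT.nd (nat_lit 78) (nat_lit 0) (nat_lit 0) (XT.lf (nat_lit 0) (nat_lit 300920947830) (nat_lit 152) (nat_lit 136008581319) (nat_lit 0) (nat_lit 280925364323) (nat_lit 2) (nat_lit 5) (nat_lit 4) (nat_lit 4) (nat_lit 2) (nat_lit 4) (nat_lit 343) (nat_lit 264) (nat_lit 173)) (XT.lf (nat_lit 0) (nat_lit 333382907654) (nat_lit 152) (nat_lit 127707811106) (nat_lit 0) (nat_lit 313385976942) (nat_lit 2) (nat_lit 5) (nat_lit 4) (nat_lit 4) (nat_lit 2) (nat_lit 4) (nat_lit 344) (nat_lit 264) (nat_lit 172))) (XT.nd (nat_lit 78) (nat_lit 0) (nat_lit 0) (XT.lf (nat_lit 0) (nat_lit 368440531487) (nat_lit 152) (nat_lit 118745461645) (nat_lit 0) (nat_lit 348442353364) (nat_lit 2) (nat_lit 5) (nat_lit 4) (nat_lit 4) (nat_lit 2) (nat_lit 4) (nat_lit 345) (nat_lit 264) (nat_lit 171)) (XT.lf (nat_lit 0) (nat_lit 406301568211)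 (nat_lit 152) (nat_lit 109068422717) (nat_lit 0) (nat_lit 386302235078) (nat_lit 2) (nat_lit 5) (nat_lit 4) (nat_lit 4) (nat_lit 2) (nat_lit 4) (nat_lit 346) (nat_lit 264) (nat_lit 170)))) (XT.nd (nat_lit 156) (nat_lit 0) (nat_lit 0) (XT.nd (nat_lit 78) (nat_lit 0) (nat_lit 0) (XT.lf (nat_lit 0) (nat_lit 447190379526) (nat_lit 152) (nat_lit 98619348905) (nat_lit 0) (nat_lit 427189976939) (nat_lit 2) (nat_lit 5) (nat_lit 4) (nat_lit 4) (nat_lit 2) (nat_lit 4) (nat_lit 347) (nat_lit 264) (nat_lit 169)) (XT.lf (nat_lit 0) (nat_lit 491349269499) (nat_lit 152) (nat_lit 87336319772) (nat_lit 0) (nat_lit 471347876676) (nat_lit 2) (nat_lit 5) (nat_lit 4) (nat_lit 4) (nat_lit 2) (nat_lit 4) (nat_lit 348) (nat_lit 264) (nat_lit 168))) (XT.nd (nat_lit 78) (nat_lit 0) (nat_lit 0) (XT.lf (nat_lit 0) (nat_lit 539039920440) (nat_lit 152) (nat_lit 75152472923) (nat_lit 0) (nat_lit 519037610733) (nat_lit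 2) (nat_lit 5) (nat_lit 4) (nat_lit 4) (nat_lit 2) (nat_lit 4) (nat_lit 349) (nat_lit 264) (nat_lit 167)) (XT.lf (nat_lit 0) (nat_lit 590544943614) (nat_lit 152) (nat_lit 61995607784) (nat_lit 0) (nat_lit 570541784940) (nat_lit 2) (nat_lit 5) (nat_lit 4) (nat_lit 4) (nat_lit 2) (nat_lit 4) (nat_lit 350) (nat_lit 264) (nat_lit 166)))))) (XT.nd (nat_lit 546) (nat_lit 0) (nat_lit 0) (XT.nd (nat_lit 234) (nat_lit 76) (nat_lit 0) (XT.nd (nat_lit 78) (nat_lit 0) (nat_lit 0) (XT.lf (nat_lit 0) (nat_lit 646169553974) (nat_lit 152) (nat_lit 47787757748) (nat_lit 0) (nat_lit 626165609219) (nat_lit 2) (nat_lit 5) (nat_lit 4) (nat_lit 4) (nat_lit 2) (nat_lit 4) (nat_lit 351) (nat_lit 264) (nat_lit 165)) (XT.nd (nat_lit 78) (nat_lit 0) (nat_lit 0) (XT.lf (nat_lit 0) (nat_lit 706243378841) (nat_lit 152) (nat_lit 32444728146) (nat_lit 0) (nat_lit 686238706233) (nat_lit 2) (nat_lit 5) (nat_lit 4) (nat_lit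 4) (nat_lit 2) (nat_lit 4) (nat_lit 352) (nat_lit 264) (nat_lit 164)) (XT.lf (nat_lit 0) (nat_lit 771122411249) (nat_lit 152) (nat_lit 15875597323) (nat_lit 0) (nat_lit 751117064704) (nat_lit 2) (nat_lit 5) (nat_lit 4) (nat_lit 4) (nat_lit 2) (nat_lit 4) (nat_lit 353) (nat_lit 264) (nat_lit 163)))) (XT.nd (nat_lit 156) (nat_lit 0) (nat_lit 0) (XT.nd (nat_lit 78) (nat_lit 0) (nat_lit 0) (XT.lf (nat_lit 0) (nat_lit 2124077102) (nat_lit 76) (nat_lit 839118126544) (nat_lit 76) (nat_lit 819112155982) (nat_lit 1) (nat_lit 4) (nat_lit 2) (nat_lit 5) (nat_lit 2) (nat_lit 4) (nat_lit 354) (nat_lit 264) (nat_lit 162)) (XT.lf (nat_lit 0) (nat_lit 22465374404) (nat_lit 76) (nat_lit 894939644079) (nat_lit 76) (nat_lit 874933095725) (nat_lit 1) (nat_lit 4) (nat_lit 2) (nat_lit 5) (nat_lit 2) (nat_lit 4) (nat_lit 355) (nat_lit 264) (nat_lit 161))) (XT.nd (nat_lit 78) (nat_lit 0) (nat_lit 0) (XT.lf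 (nat_lit 0) (nat_lit 44432854783) (nat_lit 76) (nat_lit 955227422323) (nat_lit 76) (nat_lit 935220338975) (nat_lit 1) (nat_lit 4) (nat_lit 2) (nat_lit 5) (nat_lit 2) (nat_lit 4) (nat_lit 356) (nat_lit 264) (nat_lit 160)) (XT.lf (nat_lit 0) (nat_lit 68156695901) (nat_lit 76) (nat_lit 1020338722182) (nat_lit 76) (nat_lit 1000331143470) (nat_lit 1) (nat_lit 4) (nat_lit 2) (nat_lit 5) (nat_lit 2) (nat_lit 4) (nat_lit 357) (nat_lit 264) (nat_lit 159))))) (XT.nd (nat_lit 312) (nat_lit 0) (nat_lit 0) (XT.nd (nat_lit 156) (nat_lit 0) (nat_lit 0) (XT.nd (nat_lit 78) (nat_lit 0) (nat_lit 0) (XT.lf (nat_lit 0) (nat_lit 93777483482) (nat_lit 76) (nat_lit 1090659388397) (nat_lit 76) (nat_lit 1070651351015) (nat_lit 1) (nat_lit 4) (nat_lit 2) (nat_lit 5) (nat_lit 2) (nat_lit 4) (nat_lit 358) (nat_lit 264) (nat_lit 158)) (XT.lf (nat_lit 0) (nat_lit 121447044415) (nat_lit 76) (nat_lit 1166606136027)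 (nat_lit 76) (nat_lit 1146597673950) (nat_lit 1) (nat_lit 4) (nat_lit 2) (nat_lit 5) (nat_lit 2) (nat_lit 4) (nat_lit 359) (nat_lit 264) (nat_lit 157))) (XT.nd (nat_lit 78) (nat_lit 0) (nat_lit 0) (XT.lf (nat_lit 0) (nat_lit 151329346469) (nat_lit 76) (nat_lit 1248629019872) (nat_lit 76) (nat_lit 1228620164559) (nat_lit 1) (nat_lit 4) (nat_lit 2) (nat_lit 5) (nat_lit 2) (nat_lit 4) (nat_lit 360) (nat_lit 264) (nat_lit 156)) (XT.lf (nat_lit 0) (nat_lit 183601469953) (nat_lit 76) (nat_lit 1337214101467) (nat_lit 76) (nat_lit 1317204882046) (nat_lit 1) (nat_lit 4) (nat_lit 2) (nat_lit 5) (nat_lit 2) (nat_lit 4) (nat_lit 361) (nat_lit 264) (nat_lit 155)))) (XT.nd (nat_lit 156) (nat_lit 0) (nat_lit 0) (XT.nd (nat_lit 78) (nat_lit 0) (nat_lit 0) (XT.lf (nat_lit 0) (nat_lit 218454657080) (nat_lit 76) (nat_lit 1432886329443) (nat_lit 76) (nat_lit 1412876772886) (nat_lit 1) (nat_lit 4) (nat_lit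 2) (nat_lit 5) (nat_lit 2) (nat_lit 4) (nat_lit 362) (nat_lit 264) (nat_lit 154)) (XT.lf (nat_lit 0) (nat_lit 256095445255) (nat_lit 76) (nat_lit 1536212650336) (nat_lit 76) (nat_lit 1516202781616) (nat_lit 1) (nat_lit 4) (nat_lit 2) (nat_lit 5) (nat_lit 2) (nat_lit 4) (nat_lit 363) (nat_lit 264) (nat_lit 153))) (XT.nd (nat_lit 78) (nat_lit 0) (nat_lit 0) (XT.lf (nat_lit 0) (nat_lit 296746891001) (nat_lit 76) (nat_lit 1647805368270) (nat_lit 76) (nat_lit 1627795210510) (nat_lit 1) (nat_lit 4) (nat_lit 2) (nat_lit 5) (nat_lit 2) (nat_lit 4) (nat_lit 364) (nat_lit 264) (nat_lit 152)) (XT.lf (nat_lit 0) (nat_lit 340649891773) (nat_lit 76) (nat_lit 1768325773426) (nat_lit 76) (nat_lit 1748315348036) (nat_lit 1) (nat_lit 4) (nat_lit 2) (nat_lit 5) (nat_lit 2) (nat_lit 4) (nat_lit 365) (nat_lit 264) (nat_lit 151))))))))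
noncomputable def xc58 : XT := (XT.nd (nat_lit 2262) (nat_lit 912) (nat_lit 0) (XT.nd (nat_lit 1092) (nat_lit 1292) (nat_lit 0) (XT.nd (nat_lit 546) (nat_lit 1292) (nat_lit 0) (XT.nd (nat_lit 234) (nat_lit 304) (nat_lit 0) (XT.nd (nat_lit 78) (nat_lit 0) (nat_lit 0) (XT.lf (nat_lit 0) (nat_lit 1260548864) (nat_lit 380) (nat_lit 1163618315) (nat_lit 380) (nat_lit 1163618315) (nat_lit 54) (nat_lit 3) (nat_lit 59) (nat_lit 3) (nat_lit 59) (nat_lit 5) (nat_lit 265) (nat_lit 265) (nat_lit 250)) (XT.nd (nat_lit 78) (nat_lit 0) (nat_lit 0) (XT.lf (nat_lit 76) (nat_lit 986204667) (nat_lit 0) (nat_lit 3167068480) (nat_lit 380) (nat_lit 3179608099) (nat_lit 55) (nat_lit 5) (nat_lit 54) (nat_lit 3) (nat_lit 59) (nat_lit 5) (nat_lit 266) (nat_lit 265) (nat_lit 249)) (XT.lf (nat_lit 76) (nat_lit 4610954519) (nat_lit 0) (nat_lit 1215793854) (nat_lit 380) (nat_lit 1683890842) (nat_lit 55) (nat_lit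 5) (nat_lit 54) (nat_lit 3) (nat_lit 59) (nat_lit 5) (nat_lit 267) (nat_lit 265) (nat_lit 248)))) (XT.nd (nat_lit 156) (nat_lit 0) (nat_lit 0) (XT.nd (nat_lit 78) (nat_lit 380) (nat_lit 0) (XT.lf (nat_lit 76) (nat_lit 745706541) (nat_lit 0) (nat_lit 6787680450) (nat_lit 380) (nat_lit 177955549) (nat_lit 56) (nat_lit 5) (nat_lit 55) (nat_lit 5) (nat_lit 60) (nat_lit 5) (nat_lit 268) (nat_lit 265) (nat_lit 247)) (XT.lf (nat_lit 0) (nat_lit 1353005198) (nat_lit 380) (nat_lit 3241186418) (nat_lit 456) (nat_lit 3333535345) (nat_lit 50) (nat_lit 5) (nat_lit 55) (nat_lit 5) (nat_lit 56) (nat_lit 5) (nat_lit 269) (nat_lit 265) (nat_lit 246))) (XT.nd (nat_lit 78) (nat_lit 0) (nat_lit 76) (XT.lf (nat_lit 76) (nat_lit 721397181) (nat_lit 0) (nat_lit 2166935958) (nat_lit 456) (nat_lit 5281928778) (nat_lit 51) (nat_lit 5) (nat_lit 50) (nat_lit 5) (nat_lit 56) (nat_lit 5) (nat_lit 270) (nat_lit 265)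 (nat_lit 245)) (XT.lf (nat_lit 0) (nat_lit 4530390546) (nat_lit 380) (nat_lit 3352699591) (nat_lit 76) (nat_lit 550887940) (nat_lit 51) (nat_lit 5) (nat_lit 56) (nat_lit 5) (nat_lit 52) (nat_lit 5) (nat_lit 271) (nat_lit 265) (nat_lit 244))))) (XT.nd (nat_lit 234) (nat_lit 456) (nat_lit 0) (XT.nd (nat_lit 78) (nat_lit 532) (nat_lit 0) (XT.lf (nat_lit 0) (nat_lit 971166033) (nat_lit 380) (nat_lit 5303074999) (nat_lit 456) (nat_lit 2447370544) (nat_lit 46) (nat_lit 5) (nat_lit 51) (nat_lit 5) (nat_lit 52) (nat_lit 5) (nat_lit 272) (nat_lit 265) (nat_lit 243)) (XT.nd (nat_lit 78) (nat_lit 532) (nat_lit 0) (XT.lf (nat_lit 0) (nat_lit 5741658030) (nat_lit 380) (nat_lit 2404324538) (nat_lit 456) (nat_lit 887623214) (nat_lit 46) (nat_lit 5) (nat_lit 51) (nat_lit 5) (nat_lit 52) (nat_lit 5) (nat_lit 273) (nat_lit 265) (nat_lit 242)) (XT.lf (nat_lit 0) (nat_lit 713507770) (nat_lit 532) (nat_lit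 7903778363) (nat_lit 76) (nat_lit 755583343) (nat_lit 39) (nat_lit 5) (nat_lit 46) (nat_lit 5) (nat_lit 40) (nat_lit 5) (nat_lit 274) (nat_lit 265) (nat_lit 241)))) (XT.nd (nat_lit 156) (nat_lit 228) (nat_lit 0) (XT.nd (nat_lit 78) (nat_lit 228) (nat_lit 0) (XT.lf (nat_lit 0) (nat_lit 2456454930) (nat_lit 532) (nat_lit 3116232912) (nat_lit 76) (nat_lit 4160141521) (nat_lit 39) (nat_lit 5) (nat_lit 46) (nat_lit 5) (nat_lit 40) (nat_lit 5) (nat_lit 275) (nat_lit 265) (nat_lit 240)) (XT.lf (nat_lit 0) (nat_lit 2070341039) (nat_lit 228) (nat_lit 2232070862) (nat_lit 304) (nat_lit 5822397421) (nat_lit 36) (nat_lit 5) (nat_lit 39) (nat_lit 5) (nat_lit 40) (nat_lit 5) (nat_lit 276) (nat_lit 265) (nat_lit 239))) (XT.nd (nat_lit 78) (nat_lit 228) (nat_lit 0) (XT.lf (nat_lit 0) (nat_lit 6334583658) (nat_lit 304) (nat_lit 2819648465) (nat_lit 76) (nat_lit 1391118798) (nat_lit 36) (nat_lit 5) (nat_lit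 40) (nat_lit 5) (nat_lit 37) (nat_lit 5) (nat_lit 277) (nat_lit 265) (nat_lit 238)) (XT.lf (nat_lit 0) (nat_lit 2832410553) (nat_lit 228) (nat_lit 5747119480) (nat_lit 304) (nat_lit 2416254836) (nat_lit 33) (nat_lit 5) (nat_lit 36) (nat_lit 5) (nat_lit 37) (nat_lit 5) (nat_lit 278) (nat_lit 265) (nat_lit 237)))))) (XT.nd (nat_lit 546) (nat_lit 608) (nat_lit 0) (XT.nd (nat_lit 234) (nat_lit 380) (nat_lit 0) (XT.nd (nat_lit 78) (nat_lit 304) (nat_lit 0) (XT.lf (nat_lit 0) (nat_lit 9013889494) (nat_lit 228) (nat_lit 1995005524) (nat_lit 304) (nat_lit 473218140) (nat_lit 33) (nat_lit 5) (nat_lit 36) (nat_lit 5) (nat_lit 37) (nat_lit 5) (nat_lit 279) (nat_lit 265) (nat_lit 236)) (XT.nd (nat_lit 78) (nat_lit 0) (nat_lit 0) (XT.lf (nat_lit 0) (nat_lit 1617830696) (nat_lit 304) (nat_lit 8305001359) (nat_lit 76) (nat_lit 2075689378) (nat_lit 29) (nat_lit 5) (nat_lit 33) (nat_lit 5) (nat_lit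 30) (nat_lit 5) (nat_lit 280) (nat_lit 265) (nat_lit 235)) (XT.lf (nat_lit 0) (nat_lit 3905675870) (nat_lit 304) (nat_lit 2212003362) (nat_lit 76) (nat_lit 6433368399) (nat_lit 29) (nat_lit 5) (nat_lit 33) (nat_lit 5) (nat_lit 30) (nat_lit 5) (nat_lit 281) (nat_lit 265) (nat_lit 234)))) (XT.nd (nat_lit 156) (nat_lit 228) (nat_lit 0) (XT.nd (nat_lit 78) (nat_lit 0) (nat_lit 0) (XT.lf (nat_lit 0) (nat_lit 4516721156) (nat_lit 152) (nat_lit 1907363728) (nat_lit 228) (nat_lit 6720068562) (nat_lit 27) (nat_lit 5) (nat_lit 29) (nat_lit 5) (nat_lit 30) (nat_lit 5) (nat_lit 282) (nat_lit 265) (nat_lit 233)) (XT.lf (nat_lit 0) (nat_lit 9210701961) (nat_lit 228) (nat_lit 2015498419) (nat_lit 76) (nat_lit 2553335571) (nat_lit 27) (nat_lit 5) (nat_lit 30) (nat_lit 5) (nat_lit 28) (nat_lit 5) (nat_lit 283) (nat_lit 265) (nat_lit 232))) (XT.nd (nat_lit 78) (nat_lit 76) (nat_lit 0) (XT.lf (nat_lit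 0) (nat_lit 5265047897) (nat_lit 152) (nat_lit 7076920316) (nat_lit 228) (nat_lit 2114197936) (nat_lit 25) (nat_lit 5) (nat_lit 27) (nat_lit 5) (nat_lit 28) (nat_lit 5) (nat_lit 284) (nat_lit 265) (nat_lit 231)) (XT.lf (nat_lit 0) (nat_lit 512851234) (nat_lit 228) (nat_lit 2029457479) (nat_lit 76) (nat_lit 12643486195) (nat_lit 24) (nat_lit 5) (nat_lit 27) (nat_lit 5) (nat_lit 25) (nat_lit 5) (nat_lit 285) (nat_lit 265) (nat_lit 230))))) (XT.nd (nat_lit 312) (nat_lit 304) (nat_lit 0) (XT.nd (nat_lit 156) (nat_lit 152) (nat_lit 0) (XT.nd (nat_lit 78) (nat_lit 0) (nat_lit 0) (XT.lf (nat_lit 0) (nat_lit 3388706795) (nat_lit 228) (nat_lit 10149049837) (nat_lit 76) (nat_lit 2419537863) (nat_lit 22) (nat_lit 5) (nat_lit 25) (nat_lit 5) (nat_lit 23) (nat_lit 5) (nat_lit 286) (nat_lit 265) (nat_lit 229)) (XT.lf (nat_lit 0) (nat_lit 6569483150) (nat_lit 228) (nat_lit 2536525547) (nat_lit 76)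 (nat_lit 7678630856) (nat_lit 22) (nat_lit 5) (nat_lit 25) (nat_lit 5) (nat_lit 23) (nat_lit 5) (nat_lit 287) (nat_lit 265) (nat_lit 228))) (XT.nd (nat_lit 78) (nat_lit 0) (nat_lit 0) (XT.lf (nat_lit 0) (nat_lit 5914813845) (nat_lit 152) (nat_lit 4187611146) (nat_lit 228) (nat_lit 7568036225) (nat_lit 20) (nat_lit 5) (nat_lit 22) (nat_lit 5) (nat_lit 23) (nat_lit 5) (nat_lit 288) (nat_lit 265) (nat_lit 227)) (XT.lf (nat_lit 0) (nat_lit 13972878683) (nat_lit 228) (nat_lit 3531324211) (nat_lit 76) (nat_lit 1118653075) (nat_lit 20) (nat_lit 5) (nat_lit 23) (nat_lit 5) (nat_lit 21) (nat_lit 4) (nat_lit 289) (nat_lit 265) (nat_lit 226)))) (XT.nd (nat_lit 156) (nat_lit 152) (nat_lit 0) (XT.nd (nat_lit 78) (nat_lit 76) (nat_lit 0) (XT.lf (nat_lit 0) (nat_lit 5452526790) (nat_lit 76) (nat_lit 12900236604) (nat_lit 152) (nat_lit 1282785583) (nat_lit 19) (nat_lit 5) (nat_lit 20) (nat_lit 5) (nat_lit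 21) (nat_lit 4) (nat_lit 290) (nat_lit 265) (nat_lit 225)) (XT.lf (nat_lit 0) (nat_lit 2295414594) (nat_lit 152) (nat_lit 5487727569) (nat_lit 76) (nat_lit 12936913655) (nat_lit 18) (nat_lit 5) (nat_lit 20) (nat_lit 5) (nat_lit 19) (nat_lit 5) (nat_lit 291) (nat_lit 265) (nat_lit 224))) (XT.nd (nat_lit 78) (nat_lit 0) (nat_lit 0) (XT.lf (nat_lit 0) (nat_lit 4012253455) (nat_lit 152) (nat_lit 2138066064) (nat_lit 228) (nat_lit 15733629607) (nat_lit 16) (nat_lit 5) (nat_lit 18) (nat_lit 5) (nat_lit 19) (nat_lit 5) (nat_lit 292) (nat_lit 265) (nat_lit 223)) (XT.lf (nat_lit 0) (nat_lit 10526859000) (nat_lit 228) (nat_lit 8702959319) (nat_lit 76) (nat_lit 3894142546) (nat_lit 16) (nat_lit 5) (nat_lit 19) (nat_lit 5) (nat_lit 17) (nat_lit 4) (nat_lit 293) (nat_lit 265) (nat_lit 222))))))) (XT.nd (nat_lit 1170) (nat_lit 304) (nat_lit 0) (XT.nd (nat_lit 546) (nat_lit 228) (nat_lit 0) (XT.nd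 (nat_lit 234) (nat_lit 304) (nat_lit 0) (XT.nd (nat_lit 78) (nat_lit 0) (nat_lit 0) (XT.lf (nat_lit 0) (nat_lit 1146236928) (nat_lit 76) (nat_lit 14157141382) (nat_lit 152) (nat_lit 9155868125) (nat_lit 15) (nat_lit 5) (nat_lit 16) (nat_lit 5) (nat_lit 17) (nat_lit 4) (nat_lit 294) (nat_lit 265) (nat_lit 221)) (XT.nd (nat_lit 78) (nat_lit 0) (nat_lit 0) (XT.lf (nat_lit 0) (nat_lit 12224858104) (nat_lit 76) (nat_lit 8443047800) (nat_lit 152) (nat_lit 5217034882) (nat_lit 15) (nat_lit 5) (nat_lit 16) (nat_lit 5) (nat_lit 17) (nat_lit 4) (nat_lit 295) (nat_lit 265) (nat_lit 220)) (XT.lf (nat_lit 0) (nat_lit 24140272881) (nat_lit 76) (nat_lit 2291630610) (nat_lit 152) (nat_lit 995215234) (nat_lit 15) (nat_lit 5) (nat_lit 16) (nat_lit 5) (nat_lit 17) (nat_lit 4) (nat_lit 296) (nat_lit 265) (nat_lit 219)))) (XT.nd (nat_lit 156) (nat_lit 76) (nat_lit 0) (XT.nd (nat_lit 78) (nat_lit 0) (nat_lit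 0) (XT.lf (nat_lit 0) (nat_lit 3666383951) (nat_lit 228) (nat_lit 20990891114) (nat_lit 76) (nat_lit 4406156193) (nat_lit 12) (nat_lit 5) (nat_lit 15) (nat_lit 5) (nat_lit 13) (nat_lit 4) (nat_lit 297) (nat_lit 265) (nat_lit 218)) (XT.lf (nat_lit 0) (nat_lit 8771143908) (nat_lit 228) (nat_lit 10431496000) (nat_lit 76) (nat_lit 11616062684) (nat_lit 12) (nat_lit 5) (nat_lit 15) (nat_lit 5) (nat_lit 13) (nat_lit 4) (nat_lit 298) (nat_lit 265) (nat_lit 217))) (XT.nd (nat_lit 78) (nat_lit 0) (nat_lit 0) (XT.lf (nat_lit 0) (nat_lit 977149616) (nat_lit 76) (nat_lit 13304964228) (nat_lit 152) (nat_lit 18432494165) (nat_lit 11) (nat_lit 5) (nat_lit 12) (nat_lit 5) (nat_lit 13) (nat_lit 4) (nat_lit 299) (nat_lit 265) (nat_lit 216)) (XT.lf (nat_lit 0) (nat_lit 13848476813) (nat_lit 76) (nat_lit 6645890068) (nat_lit 152) (nat_lit 14247022377) (nat_lit 11) (nat_lit 5) (nat_lit 12) (nat_lit 5) (nat_lit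 13) (nat_lit 4) (nat_lit 300) (nat_lit 265) (nat_lit 215))))) (XT.nd (nat_lit 312) (nat_lit 76) (nat_lit 0) (XT.nd (nat_lit 156) (nat_lit 76) (nat_lit 0) (XT.nd (nat_lit 78) (nat_lit 76) (nat_lit 0) (XT.lf (nat_lit 0) (nat_lit 27193346196) (nat_lit 152) (nat_lit 9235446278) (nat_lit 0) (nat_lit 502374037) (nat_lit 11) (nat_lit 5) (nat_lit 13) (nat_lit 4) (nat_lit 11) (nat_lit 4) (nat_lit 301) (nat_lit 265) (nat_lit 214)) (XT.lf (nat_lit 0) (nat_lit 3309091653) (nat_lit 76) (nat_lit 31349705424) (nat_lit 76) (nat_lit 4618915338) (nat_lit 10) (nat_lit 4) (nat_lit 11) (nat_lit 5) (nat_lit 11) (nat_lit 4) (nat_lit 302) (nat_lit 265) (nat_lit 213))) (XT.nd (nat_lit 78) (nat_lit 0) (nat_lit 0) (XT.lf (nat_lit 0) (nat_lit 1101557868) (nat_lit 152) (nat_lit 24476418168) (nat_lit 76) (nat_lit 16213278189) (nat_lit 9) (nat_lit 5) (nat_lit 11) (nat_lit 5) (nat_lit 10) (nat_lit 4) (nat_lit 303)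 (nat_lit 265) (nat_lit 212)) (XT.lf (nat_lit 0) (nat_lit 7010202114) (nat_lit 152) (nat_lit 12220575593) (nat_lit 76) (nat_lit 25267122357) (nat_lit 9) (nat_lit 5) (nat_lit 11) (nat_lit 5) (nat_lit 10) (nat_lit 4) (nat_lit 304) (nat_lit 265) (nat_lit 211)))) (XT.nd (nat_lit 156) (nat_lit 0) (nat_lit 0) (XT.nd (nat_lit 78) (nat_lit 0) (nat_lit 0) (XT.lf (nat_lit 0) (nat_lit 1034362190) (nat_lit 76) (nat_lit 12363602682) (nat_lit 152) (nat_lit 34022621123) (nat_lit 8) (nat_lit 5) (nat_lit 9) (nat_lit 5) (nat_lit 10) (nat_lit 4) (nat_lit 305) (nat_lit 265) (nat_lit 210)) (XT.lf (nat_lit 0) (nat_lit 16012413134) (nat_lit 76) (nat_lit 4600608617) (nat_lit 152) (nat_lit 29938784115) (nat_lit 8) (nat_lit 5) (nat_lit 9) (nat_lit 5) (nat_lit 10) (nat_lit 4) (nat_lit 306) (nat_lit 265) (nat_lit 209))) (XT.nd (nat_lit 78) (nat_lit 0) (nat_lit 0) (XT.lf (nat_lit 0) (nat_lit 28479417383) (nat_lit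 152) (nat_lit 21866713782) (nat_lit 0) (nat_lit 3581480789) (nat_lit 8) (nat_lit 5) (nat_lit 10) (nat_lit 4) (nat_lit 8) (nat_lit 4) (nat_lit 307) (nat_lit 265) (nat_lit 208)) (XT.lf (nat_lit 0) (nat_lit 37079012420) (nat_lit 152) (nat_lit 8328334571) (nat_lit 0) (nat_lit 12157842448) (nat_lit 8) (nat_lit 5) (nat_lit 10) (nat_lit 4) (nat_lit 8) (nat_lit 4) (nat_lit 308) (nat_lit 265) (nat_lit 207)))))) (XT.nd (nat_lit 546) (nat_lit 76) (nat_lit 0) (XT.nd (nat_lit 234) (nat_lit 152) (nat_lit 0) (XT.nd (nat_lit 78) (nat_lit 0) (nat_lit 0) (XT.lf (nat_lit 0) (nat_lit 6596606028) (nat_lit 76) (nat_lit 39914165181) (nat_lit 76) (nat_lit 14971482822) (nat_lit 7) (nat_lit 4) (nat_lit 8) (nat_lit 5) (nat_lit 8) (nat_lit 4) (nat_lit 309) (nat_lit 265) (nat_lit 206)) (XT.nd (nat_lit 78) (nat_lit 0) (nat_lit 0) (XT.lf (nat_lit 0) (nat_lit 23163354580) (nat_lit 76) (nat_lit 33747424572) (nat_lit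 76) (nat_lit 8784823336) (nat_lit 7) (nat_lit 4) (nat_lit 8) (nat_lit 5) (nat_lit 8) (nat_lit 4) (nat_lit 310) (nat_lit 265) (nat_lit 205)) (XT.lf (nat_lit 0) (nat_lit 41031529068) (nat_lit 76) (nat_lit 27098292941) (nat_lit 76) (nat_lit 2117248301) (nat_lit 7) (nat_lit 4) (nat_lit 8) (nat_lit 5) (nat_lit 8) (nat_lit 4) (nat_lit 311) (nat_lit 265) (nat_lit 204)))) (XT.nd (nat_lit 156) (nat_lit 0) (nat_lit 0) (XT.nd (nat_lit 78) (nat_lit 76) (nat_lit 0) (XT.lf (nat_lit 0) (nat_lit 4817094193) (nat_lit 152) (nat_lit 14978565943) (nat_lit 76) (nat_lit 55358212884) (nat_lit 6) (nat_lit 5) (nat_lit 8) (nat_lit 5) (nat_lit 7) (nat_lit 4) (nat_lit 312) (nat_lit 265) (nat_lit 203)) (XT.lf (nat_lit 0) (nat_lit 338176033) (nat_lit 76) (nat_lit 11850338460) (nat_lit 152) (nat_lit 68260579933) (nat_lit 5) (nat_lit 5) (nat_lit 6) (nat_lit 5) (nat_lit 7) (nat_lit 4) (nat_lit 313) (nat_lit 265) (nat_lit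 202))) (XT.nd (nat_lit 78) (nat_lit 0) (nat_lit 0) (XT.lf (nat_lit 0) (nat_lit 17711521420) (nat_lit 76) (nat_lit 2836601898) (nat_lit 152) (nat_lit 65587942695) (nat_lit 5) (nat_lit 5) (nat_lit 6) (nat_lit 5) (nat_lit 7) (nat_lit 4) (nat_lit 314) (nat_lit 265) (nat_lit 201)) (XT.lf (nat_lit 0) (nat_lit 29731945696) (nat_lit 152) (nat_lit 55988836861) (nat_lit 0) (nat_lit 6544786867) (nat_lit 5) (nat_lit 5) (nat_lit 7) (nat_lit 4) (nat_lit 5) (nat_lit 4) (nat_lit 315) (nat_lit 265) (nat_lit 200))))) (XT.nd (nat_lit 312) (nat_lit 0) (nat_lit 0) (XT.nd (nat_lit 156) (nat_lit 76) (nat_lit 0) (XT.nd (nat_lit 78) (nat_lit 0) (nat_lit 0) (XT.lf (nat_lit 0) (nat_lit 39714468654) (nat_lit 152) (nat_lit 42650166490) (nat_lit 0) (nat_lit 16515687352) (nat_lit 5) (nat_lit 5) (nat_lit 7) (nat_lit 4) (nat_lit 5) (nat_lit 4) (nat_lit 316) (nat_lit 265) (nat_lit 199)) (XT.lf (nat_lit 0) (nat_lit 50486627540)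 (nat_lit 152) (nat_lit 28261269163) (nat_lit 0) (nat_lit 27277084688) (nat_lit 5) (nat_lit 5) (nat_lit 7) (nat_lit 4) (nat_lit 5) (nat_lit 4) (nat_lit 317) (nat_lit 265) (nat_lit 198))) (XT.nd (nat_lit 78) (nat_lit 76) (nat_lit 0) (XT.lf (nat_lit 0) (nat_lit 62112257368) (nat_lit 152) (nat_lit 12736877341) (nat_lit 0) (nat_lit 38892750119) (nat_lit 5) (nat_lit 5) (nat_lit 7) (nat_lit 4) (nat_lit 5) (nat_lit 4) (nat_lit 318) (nat_lit 265) (nat_lit 197)) (XT.lf (nat_lit 0) (nat_lit 4226428440) (nat_lit 76) (nat_lit 70535468027) (nat_lit 76) (nat_lit 47306734484) (nat_lit 4) (nat_lit 4) (nat_lit 5) (nat_lit 5) (nat_lit 5) (nat_lit 4) (nat_lit 319) (nat_lit 265) (nat_lit 196)))) (XT.nd (nat_lit 156) (nat_lit 0) (nat_lit 0) (XT.nd (nat_lit 78) (nat_lit 0) (nat_lit 0) (XT.lf (nat_lit 0) (nat_lit 23257061817) (nat_lit 76) (nat_lit 65507237277) (nat_lit 76) (nat_lit 42269960869) (nat_lit 4)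 (nat_lit 4) (nat_lit 5) (nat_lit 5) (nat_lit 5) (nat_lit 4) (nat_lit 320) (nat_lit 265) (nat_lit 195)) (XT.lf (nat_lit 0) (nat_lit 43797095525) (nat_lit 76) (nat_lit 60082894334) (nat_lit 76) (nat_lit 36837707866) (nat_lit 4) (nat_lit 4) (nat_lit 5) (nat_lit 5) (nat_lit 5) (nat_lit 4) (nat_lit 321) (nat_lit 265) (nat_lit 194))) (XT.nd (nat_lit 78) (nat_lit 0) (nat_lit 0) (XT.lf (nat_lit 0) (nat_lit 65968248281) (nat_lit 76) (nat_lit 54230294945) (nat_lit 76) (nat_lit 30977784348) (nat_lit 4) (nat_lit 4) (nat_lit 5) (nat_lit 5) (nat_lit 5) (nat_lit 4) (nat_lit 322) (nat_lit 265) (nat_lit 193)) (XT.lf (nat_lit 0) (nat_lit 89901904695) (nat_lit 76) (nat_lit 47914757039) (nat_lit 76) (nat_lit 24655464840) (nat_lit 4) (nat_lit 4) (nat_lit 5) (nat_lit 5) (nat_lit 5) (nat_lit 4) (nat_lit 323) (nat_lit 265) (nat_lit 192))))))))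
noncomputable def xc59 : XT := (XT.nd (nat_lit 2262) (nat_lit 76) (nat_lit 0) (XT.nd (nat_lit 1092) (nat_lit 0) (nat_lit 0) (XT.nd (nat_lit 546) (nat_lit 0) (nat_lit 0) (XT.nd (nat_lit 234) (nat_lit 152) (nat_lit 0) (XT.nd (nat_lit 78) (nat_lit 0) (nat_lit 0) (XT.lf (nat_lit 0) (nat_lit 115739893842) (nat_lit 76) (nat_lit 41098855207) (nat_lit 76) (nat_lit 17833283747) (nat_lit 4) (nat_lit 4) (nat_lit 5) (nat_lit 5) (nat_lit 5) (nat_lit 4) (nat_lit 324) (nat_lit 265) (nat_lit 191)) (XT.nd (nat_lit 78) (nat_lit 0) (nat_lit 0) (XT.lf (nat_lit 0) (nat_lit 143635329731) (nat_lit 76) (nat_lit 33742198918) (nat_lit 76) (nat_lit 10470813327) (nat_lit 4) (nat_lit 4) (nat_lit 5) (nat_lit 5) (nat_lit 5) (nat_lit 4) (nat_lit 325) (nat_lit 265) (nat_lit 190)) (XT.lf (nat_lit 0) (nat_lit 173753518650) (nat_lit 76) (nat_lit 25801193172) (nat_lit 76) (nat_lit 2524424128) (nat_lit 4) (nat_lit 4) (nat_lit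 5) (nat_lit 5) (nat_lit 5) (nat_lit 4) (nat_lit 326) (nat_lit 265) (nat_lit 189)))) (XT.nd (nat_lit 156) (nat_lit 0) (nat_lit 0) (XT.nd (nat_lit 78) (nat_lit 76) (nat_lit 0) (XT.lf (nat_lit 0) (nat_lit 5750179312) (nat_lit 152) (nat_lit 11321380753) (nat_lit 76) (nat_lit 200365539349) (nat_lit 3) (nat_lit 5) (nat_lit 5) (nat_lit 5) (nat_lit 4) (nat_lit 4) (nat_lit 327) (nat_lit 265) (nat_lit 188)) (XT.lf (nat_lit 0) (nat_lit 7336806152) (nat_lit 76) (nat_lit 7385874289) (nat_lit 152) (nat_lit 219281992144) (nat_lit 2) (nat_lit 5) (nat_lit 3) (nat_lit 5) (nat_lit 4) (nat_lit 4) (nat_lit 328) (nat_lit 265) (nat_lit 187))) (XT.nd (nat_lit 78) (nat_lit 0) (nat_lit 0) (XT.lf (nat_lit 0) (nat_lit 24800413341) (nat_lit 152) (nat_lit 223831243380) (nat_lit 0) (nat_lit 3235003409) (nat_lit 2) (nat_lit 5) (nat_lit 4) (nat_lit 4) (nat_lit 2) (nat_lit 4) (nat_lit 329) (nat_lit 265) (nat_lit 186))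 (XT.lf (nat_lit 0) (nat_lit 35872408628) (nat_lit 152) (nat_lit 220966822569) (nat_lit 0) (nat_lit 14303334808) (nat_lit 2) (nat_lit 5) (nat_lit 4) (nat_lit 4) (nat_lit 2) (nat_lit 4) (nat_lit 330) (nat_lit 265) (nat_lit 185))))) (XT.nd (nat_lit 234) (nat_lit 0) (nat_lit 0) (XT.nd (nat_lit 78) (nat_lit 0) (nat_lit 0) (XT.lf (nat_lit 0) (nat_lit 47826647673) (nat_lit 152) (nat_lit 217879999202) (nat_lit 0) (nat_lit 26254181363) (nat_lit 2) (nat_lit 5) (nat_lit 4) (nat_lit 4) (nat_lit 2) (nat_lit 4) (nat_lit 331) (nat_lit 265) (nat_lit 184)) (XT.nd (nat_lit 78) (nat_lit 0) (nat_lit 0) (XT.lf (nat_lit 0) (nat_lit 60733970410) (nat_lit 152) (nat_lit 214552480990) (nat_lit 0) (nat_lit 39158362907) (nat_lit 2) (nat_lit 5) (nat_lit 4) (nat_lit 4) (nat_lit 2) (nat_lit 4) (nat_lit 332) (nat_lit 265) (nat_lit 183)) (XT.lf (nat_lit 0) (nat_lit 74670864679) (nat_lit 152) (nat_lit 210964549309)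 (nat_lit 0) (nat_lit 53092348662) (nat_lit 2) (nat_lit 5) (nat_lit 4) (nat_lit 4) (nat_lit 2) (nat_lit 4) (nat_lit 333) (nat_lit 265) (nat_lit 182)))) (XT.nd (nat_lit 156) (nat_lit 0) (nat_lit 0) (XT.nd (nat_lit 78) (nat_lit 0) (nat_lit 0) (XT.lf (nat_lit 0) (nat_lit 89719919481) (nat_lit 152) (nat_lit 207094942341) (nat_lit 0) (nat_lit 68138710398) (nat_lit 2) (nat_lit 5) (nat_lit 4) (nat_lit 4) (nat_lit 2) (nat_lit 4) (nat_lit 334) (nat_lit 265) (nat_lit 181)) (XT.lf (nat_lit 0) (nat_lit 105970314402) (nat_lit 152) (nat_lit 202920729080) (nat_lit 0) (nat_lit 84386611737) (nat_lit 2) (nat_lit 5) (nat_lit 4) (nat_lit 4) (nat_lit 2) (nat_lit 4) (nat_lit 335) (nat_lit 265) (nat_lit 180))) (XT.nd (nat_lit 78) (nat_lit 0) (nat_lit 0) (XT.lf (nat_lit 0) (nat_lit 123518348077) (nat_lit 152) (nat_lit 198417173450) (nat_lit 0) (nat_lit 101932336542) (nat_lit 2) (nat_lit 5) (nat_lit 4) (nat_lit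 4) (nat_lit 2) (nat_lit 4) (nat_lit 336) (nat_lit 265) (nat_lit 179)) (XT.lf (nat_lit 0) (nat_lit 142468008855) (nat_lit 152) (nat_lit 193557587712) (nat_lit 0) (nat_lit 120879859476) (nat_lit 2) (nat_lit 5) (nat_lit 4) (nat_lit 4) (nat_lit 2) (nat_lit 4) (nat_lit 337) (nat_lit 265) (nat_lit 178)))))) (XT.nd (nat_lit 546) (nat_lit 0) (nat_lit 0) (XT.nd (nat_lit 234) (nat_lit 0) (nat_lit 0) (XT.nd (nat_lit 78) (nat_lit 0) (nat_lit 0) (XT.lf (nat_lit 0) (nat_lit 162931591021) (nat_lit 152) (nat_lit 188313174322) (nat_lit 0) (nat_lit 141341462157) (nat_lit 2) (nat_lit 5) (nat_lit 4) (nat_lit 4) (nat_lit 2) (nat_lit 4) (nat_lit 338) (nat_lit 265) (nat_lit 177)) (XT.nd (nat_lit 78) (nat_lit 0) (nat_lit 0) (XT.lf (nat_lit 0) (nat_lit 185030360248) (nat_lit 152) (nat_lit 182652855274) (nat_lit 0) (nat_lit 163438398528) (nat_lit 2) (nat_lit 5) (nat_lit 4) (nat_lit 4) (nat_lit 2) (nat_lit 4)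 (nat_lit 339) (nat_lit 265) (nat_lit 176)) (XT.lf (nat_lit 0) (nat_lit 208895272205) (nat_lit 152) (nat_lit 176543087937) (nat_lit 0) (nat_lit 187301613396) (nat_lit 2) (nat_lit 5) (nat_lit 4) (nat_lit 4) (nat_lit 2) (nat_lit 4) (nat_lit 340) (nat_lit 265) (nat_lit 175)))) (XT.nd (nat_lit 156) (nat_lit 0) (nat_lit 0) (XT.nd (nat_lit 78) (nat_lit 0) (nat_lit 0) (XT.lf (nat_lit 0) (nat_lit 234667748593) (nat_lit 152) (nat_lit 169947666282) (nat_lit 0) (nat_lit 213072518405) (nat_lit 2) (nat_lit 5) (nat_lit 4) (nat_lit 4) (nat_lit 2) (nat_lit 4) (nat_lit 341) (nat_lit 265) (nat_lit 174)) (XT.lf (nat_lit 0) (nat_lit 262500515197) (nat_lit 152) (nat_lit 162827506329) (nat_lit 0) (nat_lit 240903830028) (nat_lit 2) (nat_lit 5) (nat_lit 4) (nat_lit 4) (nat_lit 2) (nat_lit 4) (nat_lit 342) (nat_lit 265) (nat_lit 173))) (XT.nd (nat_lit 78) (nat_lit 0) (nat_lit 0) (XT.lf (nat_lit 0) (nat_lit 292558506931)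 (nat_lit 152) (nat_lit 155140414538) (nat_lit 0) (nat_lit 270960474558) (nat_lit 2) (nat_lit 5) (nat_lit 4) (nat_lit 4) (nat_lit 2) (nat_lit 4) (nat_lit 343) (nat_lit 265) (nat_lit 172)) (XT.lf (nat_lit 0) (nat_lit 325019845228) (nat_lit 152) (nat_lit 146840837772) (nat_lit 0) (nat_lit 303420565443) (nat_lit 2) (nat_lit 5) (nat_lit 4) (nat_lit 4) (nat_lit 2) (nat_lit 4) (nat_lit 344) (nat_lit 265) (nat_lit 171))))) (XT.nd (nat_lit 312) (nat_lit 0) (nat_lit 0) (XT.nd (nat_lit 156) (nat_lit 0) (nat_lit 0) (XT.nd (nat_lit 78) (nat_lit 0) (nat_lit 0) (XT.lf (nat_lit 0) (nat_lit 360076893573) (nat_lit 152) (nat_lit 137879593354) (nat_lit 0) (nat_lit 338476458778) (nat_lit 2) (nat_lit 5) (nat_lit 4) (nat_lit 4) (nat_lit 2) (nat_lit 4) (nat_lit 345) (nat_lit 265) (nat_lit 170)) (XT.lf (nat_lit 0) (nat_lit 397937397438) (nat_lit 152) (nat_lit 128203577613) (nat_lit 0) (nat_lit 376335893189)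 (nat_lit 2) (nat_lit 5) (nat_lit 4) (nat_lit 4) (nat_lit 2) (nat_lit 4) (nat_lit 346) (nat_lit 265) (nat_lit 169))) (XT.nd (nat_lit 78) (nat_lit 0) (nat_lit 0) (XT.lf (nat_lit 0) (nat_lit 438825715364) (nat_lit 152) (nat_lit 117755451197) (nat_lit 0) (nat_lit 417223220880) (nat_lit 2) (nat_lit 5) (nat_lit 4) (nat_lit 4) (nat_lit 2) (nat_lit 4) (nat_lit 347) (nat_lit 265) (nat_lit 168)) (XT.lf (nat_lit 0) (nat_lit 482984148496) (nat_lit 152) (nat_lit 106473299283) (nat_lit 0) (nat_lit 461380737128) (nat_lit 2) (nat_lit 5) (nat_lit 4) (nat_lit 4) (nat_lit 2) (nat_lit 4) (nat_lit 348) (nat_lit 265) (nat_lit 167)))) (XT.nd (nat_lit 156) (nat_lit 0) (nat_lit 0) (XT.nd (nat_lit 78) (nat_lit 0) (nat_lit 0) (XT.lf (nat_lit 0) (nat_lit 530674376436) (nat_lit 152) (nat_lit 94290264674) (nat_lit 0) (nat_lit 509070116101) (nat_lit 2) (nat_lit 5) (nat_lit 4) (nat_lit 4) (nat_lit 2) (nat_lit 4) (nat_lit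 349) (nat_lit 265) (nat_lit 166)) (XT.lf (nat_lit 0) (nat_lit 582179007943) (nat_lit 152) (nat_lit 81134151609) (nat_lit 0) (nat_lit 560573961527) (nat_lit 2) (nat_lit 5) (nat_lit 4) (nat_lit 4) (nat_lit 2) (nat_lit 4) (nat_lit 350) (nat_lit 265) (nat_lit 165))) (XT.nd (nat_lit 78) (nat_lit 0) (nat_lit 0) (XT.lf (nat_lit 0) (nat_lit 637803255648) (nat_lit 152) (nat_lit 66926997937) (nat_lit 0) (nat_lit 616197481379) (nat_lit 2) (nat_lit 5) (nat_lit 4) (nat_lit 4) (nat_lit 2) (nat_lit 4) (nat_lit 351) (nat_lit 265) (nat_lit 164)) (XT.lf (nat_lit 0) (nat_lit 697876744722) (nat_lit 152) (nat_lit 51584613117) (nat_lit 0) (nat_lit 676270296516) (nat_lit 2) (nat_lit 5) (nat_lit 4) (nat_lit 4) (nat_lit 2) (nat_lit 4) (nat_lit 352) (nat_lit 265) (nat_lit 163))))))) (XT.nd (nat_lit 34008) (nat_lit 0) (nat_lit 2128) (XT.nd (nat_lit 546) (nat_lit 0) (nat_lit 0) (XT.nd (nat_lit 234) (nat_lit 0)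 (nat_lit 0) (XT.nd (nat_lit 78) (nat_lit 76) (nat_lit 0) (XT.lf (nat_lit 0) (nat_lit 762755466213) (nat_lit 152) (nat_lit 35016079315) (nat_lit 0) (nat_lit 741148393990) (nat_lit 2) (nat_lit 5) (nat_lit 4) (nat_lit 4) (nat_lit 2) (nat_lit 4) (nat_lit 353) (nat_lit 265) (nat_lit 162)) (XT.nd (nat_lit 78) (nat_lit 76) (nat_lit 0) (XT.lf (nat_lit 0) (nat_lit 832823886616) (nat_lit 152) (nat_lit 17123212624) (nat_lit 0) (nat_lit 811216236601) (nat_lit 2) (nat_lit 5) (nat_lit 4) (nat_lit 4) (nat_lit 2) (nat_lit 4) (nat_lit 354) (nat_lit 265) (nat_lit 161)) (XT.lf (nat_lit 0) (nat_lit 2315867844) (nat_lit 76) (nat_lit 906237055036) (nat_lit 76) (nat_lit 884628870028) (nat_lit 1) (nat_lit 4) (nat_lit 2) (nat_lit 5) (nat_lit 2) (nat_lit 4) (nat_lit 355) (nat_lit 265) (nat_lit 160)))) (XT.nd (nat_lit 156) (nat_lit 0) (nat_lit 0) (XT.nd (nat_lit 78) (nat_lit 0) (nat_lit 0) (XT.lf (nat_lit 0)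 (nat_lit 24282849332) (nat_lit 76) (nat_lit 966525073355) (nat_lit 76) (nat_lit 944916392982) (nat_lit 1) (nat_lit 4) (nat_lit 2) (nat_lit 5) (nat_lit 2) (nat_lit 4) (nat_lit 356) (nat_lit 265) (nat_lit 159)) (XT.lf (nat_lit 0) (nat_lit 48006228514) (nat_lit 76) (nat_lit 1031636595506) (nat_lit 76) (nat_lit 1010027456463) (nat_lit 1) (nat_lit 4) (nat_lit 2) (nat_lit 5) (nat_lit 2) (nat_lit 4) (nat_lit 357) (nat_lit 265) (nat_lit 158))) (XT.nd (nat_lit 78) (nat_lit 0) (nat_lit 0) (XT.lf (nat_lit 0) (nat_lit 73626588376) (nat_lit 76) (nat_lit 1101957467547) (nat_lit 76) (nat_lit 1080347903809) (nat_lit 1) (nat_lit 4) (nat_lit 2) (nat_lit 5) (nat_lit 2) (nat_lit 4) (nat_lit 358) (nat_lit 265) (nat_lit 157)) (XT.lf (nat_lit 0) (nat_lit 101295753274) (nat_lit 76) (nat_lit 1177904405756) (nat_lit 76) (nat_lit 1156294448782) (nat_lit 1) (nat_lit 4) (nat_lit 2) (nat_lit 5) (nat_lit 2) (nat_lit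 4) (nat_lit 359) (nat_lit 265) (nat_lit 156))))) (XT.nd (nat_lit 312) (nat_lit 0) (nat_lit 0) (XT.nd (nat_lit 156) (nat_lit 0) (nat_lit 0) (XT.nd (nat_lit 78) (nat_lit 0) (nat_lit 0) (XT.lf (nat_lit 0) (nat_lit 131177688629) (nat_lit 76) (nat_lit 1259927466064) (nat_lit 76) (nat_lit 1238317144982) (nat_lit 1) (nat_lit 4) (nat_lit 2) (nat_lit 5) (nat_lit 2) (nat_lit 4) (nat_lit 360) (nat_lit 265) (nat_lit 155)) (XT.lf (nat_lit 0) (nat_lit 163449472577) (nat_lit 76) (nat_lit 1348512711050) (nat_lit 76) (nat_lit 1326902052832) (nat_lit 1) (nat_lit 4) (nat_lit 2) (nat_lit 5) (nat_lit 2) (nat_lit 4) (nat_lit 361) (nat_lit 265) (nat_lit 154))) (XT.nd (nat_lit 78) (nat_lit 0) (nat_lit 0) (XT.lf (nat_lit 0) (nat_lit 198302345318) (nat_lit 76) (nat_lit 1444185090314) (nat_lit 76) (nat_lit 1422574119932) (nat_lit 1) (nat_lit 4) (nat_lit 2) (nat_lit 5) (nat_lit 2) (nat_lit 4) (nat_lit 362) (nat_lit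 265) (nat_lit 153)) (XT.lf (nat_lit 0) (nat_lit 235942842395) (nat_lit 76) (nat_lit 1547511551288) (nat_lit 76) (nat_lit 1525900291867) (nat_lit 1) (nat_lit 4) (nat_lit 2) (nat_lit 5) (nat_lit 2) (nat_lit 4) (nat_lit 363) (nat_lit 265) (nat_lit 152)))) (XT.nd (nat_lit 32994) (nat_lit 0) (nat_lit 4028) (XT.nd (nat_lit 78) (nat_lit 0) (nat_lit 0) (XT.lf (nat_lit 0) (nat_lit 276594018606) (nat_lit 76) (nat_lit 1659104398928) (nat_lit 76) (nat_lit 1637492871876) (nat_lit 1) (nat_lit 4) (nat_lit 2) (nat_lit 5) (nat_lit 2) (nat_lit 4) (nat_lit 364) (nat_lit 265) (nat_lit 151)) (XT.lf (nat_lit 0) (nat_lit 320496769809) (nat_lit 76) (nat_lit 1779624924181) (nat_lit 76) (nat_lit 1758013149324) (nat_lit 1) (nat_lit 4) (nat_lit 2) (nat_lit 5) (nat_lit 2) (nat_lit 4) (nat_lit 365) (nat_lit 265) (nat_lit 150))) (XT.nd (nat_lit 78) (nat_lit 0) (nat_lit 0) (XT.lf (nat_lit 0) (nat_lit 2832747902) (nat_lit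 380) (nat_lit 458659633) (nat_lit 380) (nat_lit 458659633) (nat_lit 54) (nat_lit 3) (nat_lit 59) (nat_lit 3) (nat_lit 59) (nat_lit 5) (nat_lit 266) (nat_lit 266) (nat_lit 248)) (XT.lf (nat_lit 76) (nat_lit 2620789835) (nat_lit 0) (nat_lit 4626891238) (nat_lit 380) (nat_lit 437835366) (nat_lit 55) (nat_lit 5) (nat_lit 54) (nat_lit 3) (nat_lit 59) (nat_lit 5) (nat_lit 267) (nat_lit 266) (nat_lit 247)))))) (XT.nd (nat_lit 546) (nat_lit 1216) (nat_lit 0) (XT.nd (nat_lit 234) (nat_lit 304) (nat_lit 0) (XT.nd (nat_lit 78) (nat_lit 0) (nat_lit 76) (XT.lf (nat_lit 0) (nat_lit 907799746) (nat_lit 380) (nat_lit 1497526835) (nat_lit 456) (nat_lit 5487662867) (nat_lit 49) (nat_lit 5) (nat_lit 54) (nat_lit 3) (nat_lit 55) (nat_lit 5) (nat_lit 268) (nat_lit 266) (nat_lit 246)) (XT.nd (nat_lit 78) (nat_lit 0) (nat_lit 0) (XT.lf (nat_lit 0) (nat_lit 2272611039) (nat_lit 380) (nat_lit 5737291672) (nat_lit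 456) (nat_lit 111963334) (nat_lit 50) (nat_lit 5) (nat_lit 55) (nat_lit 5) (nat_lit 56) (nat_lit 5) (nat_lit 269) (nat_lit 266) (nat_lit 245)) (XT.lf (nat_lit 0) (nat_lit 3734568587) (nat_lit 380) (nat_lit 1851432271) (nat_lit 456) (nat_lit 2784505671) (nat_lit 50) (nat_lit 5) (nat_lit 55) (nat_lit 5) (nat_lit 56) (nat_lit 5) (nat_lit 270) (nat_lit 266) (nat_lit 244)))) (XT.nd (nat_lit 156) (nat_lit 380) (nat_lit 0) (XT.nd (nat_lit 78) (nat_lit 0) (nat_lit 76) (XT.lf (nat_lit 76) (nat_lit 2386409939) (nat_lit 0) (nat_lit 2876574158) (nat_lit 456) (nat_lit 3380548371) (nat_lit 51) (nat_lit 5) (nat_lit 50) (nat_lit 5) (nat_lit 56) (nat_lit 5) (nat_lit 271) (nat_lit 266) (nat_lit 243)) (XT.lf (nat_lit 0) (nat_lit 6865679827) (nat_lit 380) (nat_lit 1953740547) (nat_lit 76) (nat_lit 123240217) (nat_lit 51) (nat_lit 5) (nat_lit 56) (nat_lit 5) (nat_lit 52) (nat_lit 5) (nat_lit 272) (nat_lit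 266) (nat_lit 242))) (XT.nd (nat_lit 78) (nat_lit 76) (nat_lit 0) (XT.lf (nat_lit 0) (nat_lit 2673827365) (nat_lit 380) (nat_lit 5968153874) (nat_lit 456) (nat_lit 620496030) (nat_lit 46) (nat_lit 5) (nat_lit 51) (nat_lit 5) (nat_lit 52) (nat_lit 5) (nat_lit 273) (nat_lit 266) (nat_lit 241)) (XT.lf (nat_lit 0) (nat_lit 868471919) (nat_lit 456) (nat_lit 1927446423) (nat_lit 76) (nat_lit 6813373238) (nat_lit 45) (nat_lit 5) (nat_lit 51) (nat_lit 5) (nat_lit 46) (nat_lit 5) (nat_lit 274) (nat_lit 266) (nat_lit 240))))) (XT.nd (nat_lit 312) (nat_lit 532) (nat_lit 0) (XT.nd (nat_lit 156) (nat_lit 228) (nat_lit 0) (XT.nd (nat_lit 78) (nat_lit 0) (nat_lit 0) (XT.lf (nat_lit 0) (nat_lit 2452662808) (nat_lit 532) (nat_lit 6828170310) (nat_lit 76) (nat_lit 701267506) (nat_lit 39) (nat_lit 5) (nat_lit 46) (nat_lit 5) (nat_lit 40) (nat_lit 5) (nat_lit 275) (nat_lit 266) (nat_lit 239)) (XT.lf (nat_lit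 0) (nat_lit 4210447636) (nat_lit 532) (nat_lit 1784133099) (nat_lit 76) (nat_lit 4386691264) (nat_lit 39) (nat_lit 5) (nat_lit 46) (nat_lit 5) (nat_lit 40) (nat_lit 5) (nat_lit 276) (nat_lit 266) (nat_lit 238))) (XT.nd (nat_lit 78) (nat_lit 0) (nat_lit 0) (XT.lf (nat_lit 0) (nat_lit 3777331365) (nat_lit 228) (nat_lit 2348451003) (nat_lit 304) (nat_lit 4685505640) (nat_lit 36) (nat_lit 5) (nat_lit 39) (nat_lit 5) (nat_lit 40) (nat_lit 5) (nat_lit 277) (nat_lit 266) (nat_lit 237)) (XT.lf (nat_lit 0) (nat_lit 8212343941) (nat_lit 304) (nat_lit 1505059657) (nat_lit 76) (nat_lit 1557107150) (nat_lit 36) (nat_lit 5) (nat_lit 40) (nat_lit 5) (nat_lit 37) (nat_lit 5) (nat_lit 278) (nat_lit 266) (nat_lit 236)))) (XT.nd (nat_lit 156) (nat_lit 228) (nat_lit 0) (XT.nd (nat_lit 78) (nat_lit 76) (nat_lit 0) (XT.lf (nat_lit 0) (nat_lit 4560172673) (nat_lit 228) (nat_lit 6011261430) (nat_lit 304) (nat_lit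 1195136187) (nat_lit 33) (nat_lit 5) (nat_lit 36) (nat_lit 5) (nat_lit 37) (nat_lit 5) (nat_lit 279) (nat_lit 266) (nat_lit 235)) (XT.lf (nat_lit 0) (nat_lit 758623875) (nat_lit 304) (nat_lit 1194103295) (nat_lit 76) (nat_lit 10345606208) (nat_lit 32) (nat_lit 5) (nat_lit 36) (nat_lit 5) (nat_lit 33) (nat_lit 5) (nat_lit 280) (nat_lit 266) (nat_lit 234))) (XT.nd (nat_lit 78) (nat_lit 0) (nat_lit 0) (XT.lf (nat_lit 0) (nat_lit 2939119557) (nat_lit 304) (nat_lit 7454323714) (nat_lit 76) (nat_lit 2466091003) (nat_lit 29) (nat_lit 5) (nat_lit 33) (nat_lit 5) (nat_lit 30) (nat_lit 5) (nat_lit 281) (nat_lit 266) (nat_lit 233)) (XT.lf (nat_lit 0) (nat_lit 5321706241) (nat_lit 304) (nat_lit 986113860) (nat_lit 76) (nat_lit 7155766089) (nat_lit 29) (nat_lit 5) (nat_lit 33) (nat_lit 5) (nat_lit 30) (nat_lit 5) (nat_lit 282) (nat_lit 266) (nat_lit 232))))))))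
noncomputable def xc60 : XT := (XT.nd (nat_lit 2262) (nat_lit 380) (nat_lit 0) (XT.nd (nat_lit 1092) (nat_lit 608) (nat_lit 0) (XT.nd (nat_lit 546) (nat_lit 380) (nat_lit 0) (XT.nd (nat_lit 234) (nat_lit 380) (nat_lit 0) (XT.nd (nat_lit 78) (nat_lit 152) (nat_lit 0) (XT.lf (nat_lit 0) (nat_lit 6245393436) (nat_lit 152) (nat_lit 1747332577) (nat_lit 228) (nat_lit 6115564831) (nat_lit 27) (nat_lit 5) (nat_lit 29) (nat_lit 5) (nat_lit 30) (nat_lit 5) (nat_lit 283) (nat_lit 266) (nat_lit 231)) (XT.nd (nat_lit 78) (nat_lit 152) (nat_lit 0) (XT.lf (nat_lit 0) (nat_lit 10931107065) (nat_lit 228) (nat_lit 836728162) (nat_lit 76) (nat_lit 3032585489) (nat_lit 27) (nat_lit 5) (nat_lit 30) (nat_lit 5) (nat_lit 28) (nat_lit 5) (nat_lit 284) (nat_lit 266) (nat_lit 230)) (XT.lf (nat_lit 0) (nat_lit 6992337552) (nat_lit 152) (nat_lit 7279092984) (nat_lit 228) (nat_lit 1263273299) (nat_lit 25) (nat_lit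 5) (nat_lit 27) (nat_lit 5) (nat_lit 28) (nat_lit 5) (nat_lit 285) (nat_lit 266) (nat_lit 229)))) (XT.nd (nat_lit 156) (nat_lit 152) (nat_lit 0) (XT.nd (nat_lit 78) (nat_lit 152) (nat_lit 0) (XT.lf (nat_lit 0) (nat_lit 1451132032) (nat_lit 228) (nat_lit 933009494) (nat_lit 76) (nat_lit 13942518638) (nat_lit 24) (nat_lit 5) (nat_lit 27) (nat_lit 5) (nat_lit 25) (nat_lit 5) (nat_lit 286) (nat_lit 266) (nat_lit 228)) (XT.lf (nat_lit 0) (nat_lit 4528918388) (nat_lit 228) (nat_lit 9671977774) (nat_lit 76) (nat_lit 2961398872) (nat_lit 22) (nat_lit 5) (nat_lit 25) (nat_lit 5) (nat_lit 23) (nat_lit 5) (nat_lit 287) (nat_lit 266) (nat_lit 227))) (XT.nd (nat_lit 78) (nat_lit 152) (nat_lit 0) (XT.lf (nat_lit 0) (nat_lit 7899777959) (nat_lit 228) (nat_lit 1545932730) (nat_lit 76) (nat_lit 8615419453) (nat_lit 22) (nat_lit 5) (nat_lit 25) (nat_lit 5) (nat_lit 23) (nat_lit 5) (nat_lit 288) (nat_lit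 266) (nat_lit 226)) (XT.lf (nat_lit 0) (nat_lit 7551298248) (nat_lit 152) (nat_lit 4132424191) (nat_lit 228) (nat_lit 7336766583) (nat_lit 20) (nat_lit 5) (nat_lit 22) (nat_lit 5) (nat_lit 23) (nat_lit 5) (nat_lit 289) (nat_lit 266) (nat_lit 225))))) (XT.nd (nat_lit 234) (nat_lit 228) (nat_lit 0) (XT.nd (nat_lit 78) (nat_lit 152) (nat_lit 0) (XT.lf (nat_lit 0) (nat_lit 15815234595) (nat_lit 228) (nat_lit 2686492956) (nat_lit 76) (nat_lit 1551364461) (nat_lit 20) (nat_lit 5) (nat_lit 23) (nat_lit 5) (nat_lit 21) (nat_lit 4) (nat_lit 290) (nat_lit 266) (nat_lit 224)) (XT.nd (nat_lit 78) (nat_lit 76) (nat_lit 0) (XT.lf (nat_lit 0) (nat_lit 6987525943) (nat_lit 76) (nat_lit 13530741670) (nat_lit 152) (nat_lit 630833013) (nat_lit 19) (nat_lit 5) (nat_lit 20) (nat_lit 5) (nat_lit 21) (nat_lit 4) (nat_lit 291) (nat_lit 266) (nat_lit 223)) (XT.lf (nat_lit 0) (nat_lit 3142777852) (nat_lit 152)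 (nat_lit 4873096032) (nat_lit 76) (nat_lit 14307393739) (nat_lit 18) (nat_lit 5) (nat_lit 20) (nat_lit 5) (nat_lit 19) (nat_lit 5) (nat_lit 292) (nat_lit 266) (nat_lit 222)))) (XT.nd (nat_lit 156) (nat_lit 76) (nat_lit 0) (XT.nd (nat_lit 78) (nat_lit 0) (nat_lit 0) (XT.lf (nat_lit 0) (nat_lit 5360208796) (nat_lit 152) (nat_lit 1921399958) (nat_lit 228) (nat_lit 16300716826) (nat_lit 16) (nat_lit 5) (nat_lit 18) (nat_lit 5) (nat_lit 19) (nat_lit 5) (nat_lit 293) (nat_lit 266) (nat_lit 221)) (XT.lf (nat_lit 0) (nat_lit 11969552296) (nat_lit 228) (nat_lit 8408464515) (nat_lit 76) (nat_lit 4546707744) (nat_lit 16) (nat_lit 5) (nat_lit 19) (nat_lit 5) (nat_lit 17) (nat_lit 4) (nat_lit 294) (nat_lit 266) (nat_lit 220))) (XT.nd (nat_lit 78) (nat_lit 0) (nat_lit 0) (XT.lf (nat_lit 0) (nat_lit 2203585621) (nat_lit 76) (nat_lit 14903346647) (nat_lit 152) (nat_lit 9261683768) (nat_lit 15) (nat_lit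 5) (nat_lit 16) (nat_lit 5) (nat_lit 17) (nat_lit 4) (nat_lit 295) (nat_lit 266) (nat_lit 219)) (XT.lf (nat_lit 0) (nat_lit 14096966881) (nat_lit 76) (nat_lit 8760745286) (nat_lit 152) (nat_lit 5054162666) (nat_lit 15) (nat_lit 5) (nat_lit 16) (nat_lit 5) (nat_lit 17) (nat_lit 4) (nat_lit 296) (nat_lit 266) (nat_lit 218)))))) (XT.nd (nat_lit 546) (nat_lit 228) (nat_lit 0) (XT.nd (nat_lit 234) (nat_lit 152) (nat_lit 0) (XT.nd (nat_lit 78) (nat_lit 228) (nat_lit 0) (XT.lf (nat_lit 0) (nat_lit 26899383719) (nat_lit 76) (nat_lit 2143714449) (nat_lit 152) (nat_lit 537577817) (nat_lit 15) (nat_lit 5) (nat_lit 16) (nat_lit 5) (nat_lit 17) (nat_lit 4) (nat_lit 297) (nat_lit 266) (nat_lit 217)) (XT.nd (nat_lit 78) (nat_lit 0) (nat_lit 0) (XT.lf (nat_lit 0) (nat_lit 4460531654) (nat_lit 228) (nat_lit 21804284964) (nat_lit 76) (nat_lit 5082866997) (nat_lit 12) (nat_lit 5) (nat_lit 15) (nat_lit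 5) (nat_lit 13) (nat_lit 4) (nat_lit 298) (nat_lit 266) (nat_lit 216)) (XT.lf (nat_lit 0) (nat_lit 9936573372) (nat_lit 228) (nat_lit 10464277311) (nat_lit 76) (nat_lit 12845549837) (nat_lit 12) (nat_lit 5) (nat_lit 15) (nat_lit 5) (nat_lit 13) (nat_lit 4) (nat_lit 299) (nat_lit 266) (nat_lit 215)))) (XT.nd (nat_lit 156) (nat_lit 76) (nat_lit 0) (XT.nd (nat_lit 78) (nat_lit 0) (nat_lit 0) (XT.lf (nat_lit 0) (nat_lit 1836762780) (nat_lit 76) (nat_lit 14036100842) (nat_lit 152) (nat_lit 19422411125) (nat_lit 11) (nat_lit 5) (nat_lit 12) (nat_lit 5) (nat_lit 13) (nat_lit 4) (nat_lit 300) (nat_lit 266) (nat_lit 214)) (XT.lf (nat_lit 0) (nat_lit 15679911621) (nat_lit 76) (nat_lit 6868986714) (nat_lit 152) (nat_lit 14938004007) (nat_lit 11) (nat_lit 5) (nat_lit 12) (nat_lit 5) (nat_lit 13) (nat_lit 4) (nat_lit 301) (nat_lit 266) (nat_lit 213))) (XT.nd (nat_lit 78) (nat_lit 76) (nat_lit 0)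 (XT.lf (nat_lit 0) (nat_lit 29759928085) (nat_lit 152) (nat_lit 9279899115) (nat_lit 0) (nat_lit 813988414) (nat_lit 11) (nat_lit 5) (nat_lit 13) (nat_lit 4) (nat_lit 11) (nat_lit 4) (nat_lit 302) (nat_lit 266) (nat_lit 212)) (XT.lf (nat_lit 0) (nat_lit 4250622538) (nat_lit 76) (nat_lit 33559298218) (nat_lit 76) (nat_lit 4579221094) (nat_lit 10) (nat_lit 4) (nat_lit 11) (nat_lit 5) (nat_lit 11) (nat_lit 4) (nat_lit 303) (nat_lit 266) (nat_lit 211))))) (XT.nd (nat_lit 312) (nat_lit 76) (nat_lit 0) (XT.nd (nat_lit 156) (nat_lit 76) (nat_lit 0) (XT.nd (nat_lit 78) (nat_lit 0) (nat_lit 0) (XT.lf (nat_lit 0) (nat_lit 1549624402) (nat_lit 152) (nat_lit 25788467121) (nat_lit 76) (nat_lit 17767227047) (nat_lit 9) (nat_lit 5) (nat_lit 11) (nat_lit 5) (nat_lit 10) (nat_lit 4) (nat_lit 304) (nat_lit 266) (nat_lit 210)) (XT.lf (nat_lit 0) (nat_lit 7904297824) (nat_lit 152) (nat_lit 12600013769)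 (nat_lit 76) (nat_lit 27526350110) (nat_lit 9) (nat_lit 5) (nat_lit 11) (nat_lit 5) (nat_lit 10) (nat_lit 4) (nat_lit 305) (nat_lit 266) (nat_lit 209))) (XT.nd (nat_lit 78) (nat_lit 0) (nat_lit 0) (XT.lf (nat_lit 0) (nat_lit 1700174534) (nat_lit 76) (nat_lit 13092242383) (nat_lit 152) (nat_lit 36395628989) (nat_lit 8) (nat_lit 5) (nat_lit 9) (nat_lit 5) (nat_lit 10) (nat_lit 4) (nat_lit 306) (nat_lit 266) (nat_lit 208)) (XT.lf (nat_lit 0) (nat_lit 17833279674) (nat_lit 76) (nat_lit 4727501276) (nat_lit 152) (nat_lit 32010922192) (nat_lit 8) (nat_lit 5) (nat_lit 9) (nat_lit 5) (nat_lit 10) (nat_lit 4) (nat_lit 307) (nat_lit 266) (nat_lit 207)))) (XT.nd (nat_lit 156) (nat_lit 76) (nat_lit 0) (XT.nd (nat_lit 78) (nat_lit 0) (nat_lit 0) (XT.lf (nat_lit 0) (nat_lit 31039731207) (nat_lit 152) (nat_lit 23099087112) (nat_lit 0) (nat_lit 4080121872) (nat_lit 8) (nat_lit 5) (nat_lit 10) (nat_lit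 4) (nat_lit 8) (nat_lit 4) (nat_lit 308) (nat_lit 266) (nat_lit 206)) (XT.lf (nat_lit 0) (nat_lit 40306407888) (nat_lit 152) (nat_lit 8515931177) (nat_lit 0) (nat_lit 13326879677) (nat_lit 8) (nat_lit 5) (nat_lit 10) (nat_lit 4) (nat_lit 8) (nat_lit 4) (nat_lit 309) (nat_lit 266) (nat_lit 205))) (XT.nd (nat_lit 78) (nat_lit 0) (nat_lit 0) (XT.lf (nat_lit 0) (nat_lit 7590886438) (nat_lit 76) (nat_lit 42893702678) (nat_lit 76) (nat_lit 15895731062) (nat_lit 7) (nat_lit 4) (nat_lit 8) (nat_lit 5) (nat_lit 8) (nat_lit 4) (nat_lit 310) (nat_lit 266) (nat_lit 204)) (XT.lf (nat_lit 0) (nat_lit 25448415472) (nat_lit 76) (nat_lit 36249444725) (nat_lit 76) (nat_lit 9234395882) (nat_lit 7) (nat_lit 4) (nat_lit 8) (nat_lit 5) (nat_lit 8) (nat_lit 4) (nat_lit 311) (nat_lit 266) (nat_lit 203))))))) (XT.nd (nat_lit 1092) (nat_lit 152) (nat_lit 0) (XT.nd (nat_lit 546) (nat_lit 76) (nat_lit 0) (XT.nd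 (nat_lit 234) (nat_lit 0) (nat_lit 0) (XT.nd (nat_lit 78) (nat_lit 152) (nat_lit 0) (XT.lf (nat_lit 0) (nat_lit 44714044472) (nat_lit 76) (nat_lit 29083032476) (nat_lit 76) (nat_lit 2052171387) (nat_lit 7) (nat_lit 4) (nat_lit 8) (nat_lit 5) (nat_lit 8) (nat_lit 4) (nat_lit 312) (nat_lit 266) (nat_lit 202)) (XT.nd (nat_lit 78) (nat_lit 76) (nat_lit 0) (XT.lf (nat_lit 0) (nat_lit 5408691637) (nat_lit 152) (nat_lit 15795423452) (nat_lit 76) (nat_lit 59945365278) (nat_lit 6) (nat_lit 5) (nat_lit 8) (nat_lit 5) (nat_lit 7) (nat_lit 4) (nat_lit 313) (nat_lit 266) (nat_lit 201)) (XT.lf (nat_lit 0) (nat_lit 737001483) (nat_lit 76) (nat_lit 12626488898) (nat_lit 152) (nat_lit 73505351036) (nat_lit 5) (nat_lit 5) (nat_lit 6) (nat_lit 5) (nat_lit 7) (nat_lit 4) (nat_lit 314) (nat_lit 266) (nat_lit 200)))) (XT.nd (nat_lit 156) (nat_lit 0) (nat_lit 0) (XT.nd (nat_lit 78) (nat_lit 0) (nat_lit 0)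 (XT.lf (nat_lit 0) (nat_lit 19472675881) (nat_lit 76) (nat_lit 2904385014) (nat_lit 152) (nat_lit 70634908396) (nat_lit 5) (nat_lit 5) (nat_lit 6) (nat_lit 5) (nat_lit 7) (nat_lit 4) (nat_lit 315) (nat_lit 266) (nat_lit 199)) (XT.lf (nat_lit 0) (nat_lit 32285422791) (nat_lit 152) (nat_lit 60138881488) (nat_lit 0) (nat_lit 7208354962) (nat_lit 5) (nat_lit 5) (nat_lit 7) (nat_lit 4) (nat_lit 5) (nat_lit 4) (nat_lit 316) (nat_lit 266) (nat_lit 198))) (XT.nd (nat_lit 78) (nat_lit 0) (nat_lit 0) (XT.lf (nat_lit 0) (nat_lit 43053590442) (nat_lit 152) (nat_lit 45757492474) (nat_lit 0) (nat_lit 17966558215) (nat_lit 5) (nat_lit 5) (nat_lit 7) (nat_lit 4) (nat_lit 5) (nat_lit 4) (nat_lit 317) (nat_lit 266) (nat_lit 197)) (XT.lf (nat_lit 0) (nat_lit 54675524683) (nat_lit 152) (nat_lit 30240052793) (nat_lit 0) (nat_lit 29579266162) (nat_lit 5) (nat_lit 5) (nat_lit 7) (nat_lit 4) (nat_lit 5) (nat_lit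 4) (nat_lit 318) (nat_lit 266) (nat_lit 196))))) (XT.nd (nat_lit 234) (nat_lit 0) (nat_lit 0) (XT.nd (nat_lit 78) (nat_lit 76) (nat_lit 0) (XT.lf (nat_lit 0) (nat_lit 67220096236) (nat_lit 152) (nat_lit 13494607247) (nat_lit 0) (nat_lit 42115294850) (nat_lit 5) (nat_lit 5) (nat_lit 7) (nat_lit 4) (nat_lit 5) (nat_lit 4) (nat_lit 319) (nat_lit 266) (nat_lit 195)) (XT.nd (nat_lit 78) (nat_lit 0) (nat_lit 0) (XT.lf (nat_lit 0) (nat_lit 4819149824) (nat_lit 76) (nat_lit 76058394147) (nat_lit 76) (nat_lit 50945682701) (nat_lit 4) (nat_lit 4) (nat_lit 5) (nat_lit 5) (nat_lit 5) (nat_lit 4) (nat_lit 320) (nat_lit 266) (nat_lit 194)) (XT.lf (nat_lit 0) (nat_lit 25353374085) (nat_lit 76) (nat_lit 70636787257) (nat_lit 76) (nat_lit 45516751681) (nat_lit 4) (nat_lit 4) (nat_lit 5) (nat_lit 5) (nat_lit 5) (nat_lit 4) (nat_lit 321) (nat_lit 266) (nat_lit 193)))) (XT.nd (nat_lit 156) (nat_lit 0)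 (nat_lit 0) (XT.nd (nat_lit 78) (nat_lit 0) (nat_lit 0) (XT.lf (nat_lit 0) (nat_lit 47519147725) (nat_lit 76) (nat_lit 64786721249) (nat_lit 76) (nat_lit 39659904073) (nat_lit 4) (nat_lit 4) (nat_lit 5) (nat_lit 5) (nat_lit 5) (nat_lit 4) (nat_lit 322) (nat_lit 266) (nat_lit 192)) (XT.lf (nat_lit 0) (nat_lit 71447823476) (nat_lit 76) (nat_lit 58473529067) (nat_lit 76) (nat_lit 33340432630) (nat_lit 4) (nat_lit 4) (nat_lit 5) (nat_lit 5) (nat_lit 5) (nat_lit 4) (nat_lit 323) (nat_lit 266) (nat_lit 191))) (XT.nd (nat_lit 78) (nat_lit 0) (nat_lit 0) (XT.lf (nat_lit 0) (nat_lit 97281200897) (nat_lit 76) (nat_lit 51659799201) (nat_lit 76) (nat_lit 26520888633) (nat_lit 4) (nat_lit 4) (nat_lit 5) (nat_lit 5) (nat_lit 5) (nat_lit 4) (nat_lit 324) (nat_lit 266) (nat_lit 190)) (XT.lf (nat_lit 0) (nat_lit 125172366670) (nat_lit 76) (nat_lit 44305153992) (nat_lit 76) (nat_lit 19160859970) (nat_lit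 4) (nat_lit 4) (nat_lit 5) (nat_lit 5) (nat_lit 5) (nat_lit 4) (nat_lit 325) (nat_lit 266) (nat_lit 189)))))) (XT.nd (nat_lit 546) (nat_lit 0) (nat_lit 0) (XT.nd (nat_lit 234) (nat_lit 76) (nat_lit 0) (XT.nd (nat_lit 78) (nat_lit 76) (nat_lit 0) (XT.lf (nat_lit 0) (nat_lit 155286601777) (nat_lit 76) (nat_lit 36366010358) (nat_lit 76) (nat_lit 11216731656) (nat_lit 4) (nat_lit 4) (nat_lit 5) (nat_lit 5) (nat_lit 5) (nat_lit 4) (nat_lit 326) (nat_lit 266) (nat_lit 188)) (XT.nd (nat_lit 78) (nat_lit 76) (nat_lit 0) (XT.lf (nat_lit 0) (nat_lit 187802360944) (nat_lit 76) (nat_lit 27795321521) (nat_lit 76) (nat_lit 2641427376) (nat_lit 4) (nat_lit 4) (nat_lit 5) (nat_lit 5) (nat_lit 5) (nat_lit 4) (nat_lit 327) (nat_lit 266) (nat_lit 187)) (XT.lf (nat_lit 0) (nat_lit 6284916903) (nat_lit 152) (nat_lit 12085540545) (nat_lit 76) (nat_lit 216455572484) (nat_lit 3) (nat_lit 5) (nat_lit 5) (nat_lit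 5) (nat_lit 4) (nat_lit 4) (nat_lit 328) (nat_lit 266) (nat_lit 186)))) (XT.nd (nat_lit 156) (nat_lit 0) (nat_lit 0) (XT.nd (nat_lit 78) (nat_lit 0) (nat_lit 0) (XT.lf (nat_lit 0) (nat_lit 8061717751) (nat_lit 76) (nat_lit 7911283428) (nat_lit 152) (nat_lit 236746189546) (nat_lit 2) (nat_lit 5) (nat_lit 3) (nat_lit 5) (nat_lit 4) (nat_lit 4) (nat_lit 329) (nat_lit 266) (nat_lit 185)) (XT.lf (nat_lit 0) (nat_lit 26853039591) (nat_lit 152) (nat_lit 241606031332) (nat_lit 0) (nat_lit 3551383487) (nat_lit 2) (nat_lit 5) (nat_lit 4) (nat_lit 4) (nat_lit 2) (nat_lit 4) (nat_lit 330) (nat_lit 266) (nat_lit 184))) (XT.nd (nat_lit 78) (nat_lit 0) (nat_lit 0) (XT.lf (nat_lit 0) (nat_lit 38805713524) (nat_lit 152) (nat_lit 238522213265) (nat_lit 0) (nat_lit 15500916227) (nat_lit 2) (nat_lit 5) (nat_lit 4) (nat_lit 4) (nat_lit 2) (nat_lit 4) (nat_lit 331) (nat_lit 266) (nat_lit 183)) (XT.lf (nat_lit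 0) (nat_lit 51711587085) (nat_lit 152) (nat_lit 235197477740) (nat_lit 0) (nat_lit 28403881274) (nat_lit 2) (nat_lit 5) (nat_lit 4) (nat_lit 4) (nat_lit 2) (nat_lit 4) (nat_lit 332) (nat_lit 266) (nat_lit 182))))) (XT.nd (nat_lit 312) (nat_lit 0) (nat_lit 0) (XT.nd (nat_lit 156) (nat_lit 0) (nat_lit 0) (XT.nd (nat_lit 78) (nat_lit 0) (nat_lit 0) (XT.lf (nat_lit 0) (nat_lit 65647139522) (nat_lit 152) (nat_lit 231612122620) (nat_lit 0) (nat_lit 42336740645) (nat_lit 2) (nat_lit 5) (nat_lit 4) (nat_lit 4) (nat_lit 2) (nat_lit 4) (nat_lit 333) (nat_lit 266) (nat_lit 181)) (XT.lf (nat_lit 0) (nat_lit 80694951889) (nat_lit 152) (nat_lit 227744901356) (nat_lit 0) (nat_lit 57382059431) (nat_lit 2) (nat_lit 5) (nat_lit 4) (nat_lit 4) (nat_lit 2) (nat_lit 4) (nat_lit 334) (nat_lit 266) (nat_lit 180))) (XT.nd (nat_lit 78) (nat_lit 0) (nat_lit 0) (XT.lf (nat_lit 0) (nat_lit 96944196407) (nat_lit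 152) (nat_lit 223572897082) (nat_lit 0) (nat_lit 73628995077) (nat_lit 2) (nat_lit 5) (nat_lit 4) (nat_lit 4) (nat_lit 2) (nat_lit 4) (nat_lit 335) (nat_lit 266) (nat_lit 179)) (XT.lf (nat_lit 0) (nat_lit 114491164894) (nat_lit 152) (nat_lit 219071386808) (nat_lit 0) (nat_lit 91173825721) (nat_lit 2) (nat_lit 5) (nat_lit 4) (nat_lit 4) (nat_lit 2) (nat_lit 4) (nat_lit 336) (nat_lit 266) (nat_lit 178)))) (XT.nd (nat_lit 156) (nat_lit 0) (nat_lit 0) (XT.nd (nat_lit 78) (nat_lit 0) (nat_lit 0) (XT.lf (nat_lit 0) (nat_lit 133439839386) (nat_lit 152) (nat_lit 214213694920) (nat_lit 0) (nat_lit 110120520728) (nat_lit 2) (nat_lit 5) (nat_lit 4) (nat_lit 4) (nat_lit 2) (nat_lit 4) (nat_lit 337) (nat_lit 266) (nat_lit 177)) (XT.lf (nat_lit 0) (nat_lit 153902508325) (nat_lit 152) (nat_lit 208971035094) (nat_lit 0) (nat_lit 130581356811) (nat_lit 2) (nat_lit 5) (nat_lit 4) (nat_lit 4) (nat_lit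 2) (nat_lit 4) (nat_lit 338) (nat_lit 266) (nat_lit 176))) (XT.nd (nat_lit 78) (nat_lit 0) (nat_lit 0) (XT.lf (nat_lit 0) (nat_lit 176000431971) (nat_lit 152) (nat_lit 203312339716) (nat_lit 0) (nat_lit 152677583368) (nat_lit 2) (nat_lit 5) (nat_lit 4) (nat_lit 4) (nat_lit 2) (nat_lit 4) (nat_lit 339) (nat_lit 266) (nat_lit 175)) (XT.lf (nat_lit 0) (nat_lit 199864560983) (nat_lit 152) (nat_lit 197204075778) (nat_lit 0) (nat_lit 176540141001) (nat_lit 2) (nat_lit 5) (nat_lit 4) (nat_lit 4) (nat_lit 2) (nat_lit 4) (nat_lit 340) (nat_lit 266) (nat_lit 174))))))))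
noncomputable def xc61 : XT := (XT.nd (nat_lit 35178) (nat_lit 0) (nat_lit 836) (XT.nd (nat_lit 1092) (nat_lit 76) (nat_lit 0) (XT.nd (nat_lit 546) (nat_lit 0) (nat_lit 0) (XT.nd (nat_lit 234) (nat_lit 0) (nat_lit 0) (XT.nd (nat_lit 78) (nat_lit 0) (nat_lit 0) (XT.lf (nat_lit 0) (nat_lit 225636312422) (nat_lit 152) (nat_lit 190610046159) (nat_lit 0) (nat_lit 202310437459) (nat_lit 2) (nat_lit 5) (nat_lit 4) (nat_lit 4) (nat_lit 2) (nat_lit 4) (nat_lit 341) (nat_lit 266) (nat_lit 173)) (XT.nd (nat_lit 78) (nat_lit 0) (nat_lit 0) (XT.lf (nat_lit 0) (nat_lit 253468407777) (nat_lit 152) (nat_lit 183491175128) (nat_lit 0) (nat_lit 230141185610) (nat_lit 2) (nat_lit 5) (nat_lit 4) (nat_lit 4) (nat_lit 2) (nat_lit 4) (nat_lit 342) (nat_lit 266) (nat_lit 172)) (XT.lf (nat_lit 0) (nat_lit 283525777984) (nat_lit 152) (nat_lit 175805276784) (nat_lit 0) (nat_lit 260197308406) (nat_lit 2) (nat_lit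 5) (nat_lit 4) (nat_lit 4) (nat_lit 2) (nat_lit 4) (nat_lit 343) (nat_lit 266) (nat_lit 171)))) (XT.nd (nat_lit 156) (nat_lit 0) (nat_lit 0) (XT.nd (nat_lit 78) (nat_lit 0) (nat_lit 0) (XT.lf (nat_lit 0) (nat_lit 315986540792) (nat_lit 152) (nat_lit 167506805061) (nat_lit 0) (nat_lit 292656916203) (nat_lit 2) (nat_lit 5) (nat_lit 4) (nat_lit 4) (nat_lit 2) (nat_lit 4) (nat_lit 344) (nat_lit 266) (nat_lit 170)) (XT.lf (nat_lit 0) (nat_lit 351043056278) (nat_lit 152) (nat_lit 158546583830) (nat_lit 0) (nat_lit 327712362235) (nat_lit 2) (nat_lit 5) (nat_lit 4) (nat_lit 4) (nat_lit 2) (nat_lit 4) (nat_lit 345) (nat_lit 266) (nat_lit 169))) (XT.nd (nat_lit 78) (nat_lit 0) (nat_lit 0) (XT.lf (nat_lit 0) (nat_lit 388903066754) (nat_lit 152) (nat_lit 148871515486) (nat_lit 0) (nat_lit 365571382477) (nat_lit 2) (nat_lit 5) (nat_lit 4) (nat_lit 4) (nat_lit 2) (nat_lit 4) (nat_lit 346) (nat_lit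 266) (nat_lit 168)) (XT.lf (nat_lit 0) (nat_lit 429790927840) (nat_lit 152) (nat_lit 138424266289) (nat_lit 0) (nat_lit 406458326678) (nat_lit 2) (nat_lit 5) (nat_lit 4) (nat_lit 4) (nat_lit 2) (nat_lit 4) (nat_lit 347) (nat_lit 266) (nat_lit 167))))) (XT.nd (nat_lit 234) (nat_lit 0) (nat_lit 0) (XT.nd (nat_lit 78) (nat_lit 0) (nat_lit 0) (XT.lf (nat_lit 0) (nat_lit 473948937971) (nat_lit 152) (nat_lit 127142926614) (nat_lit 0) (nat_lit 450615487841) (nat_lit 2) (nat_lit 5) (nat_lit 4) (nat_lit 4) (nat_lit 2) (nat_lit 4) (nat_lit 348) (nat_lit 266) (nat_lit 166)) (XT.nd (nat_lit 78) (nat_lit 0) (nat_lit 0) (XT.lf (nat_lit 0) (nat_lit 521638774243) (nat_lit 152) (nat_lit 114960644078) (nat_lit 0) (nat_lit 498304538033) (nat_lit 2) (nat_lit 5) (nat_lit 4) (nat_lit 4) (nat_lit 2) (nat_lit 4) (nat_lit 349) (nat_lit 266) (nat_lit 165)) (XT.lf (nat_lit 0) (nat_lit 573143043095) (nat_lit 152)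 (nat_lit 101805227378) (nat_lit 0) (nat_lit 549808079033) (nat_lit 2) (nat_lit 5) (nat_lit 4) (nat_lit 4) (nat_lit 2) (nat_lit 4) (nat_lit 350) (nat_lit 266) (nat_lit 164)))) (XT.nd (nat_lit 156) (nat_lit 0) (nat_lit 0) (XT.nd (nat_lit 78) (nat_lit 0) (nat_lit 0) (XT.lf (nat_lit 0) (nat_lit 628766955008) (nat_lit 152) (nat_lit 87598718487) (nat_lit 0) (nat_lit 605431317008) (nat_lit 2) (nat_lit 5) (nat_lit 4) (nat_lit 4) (nat_lit 2) (nat_lit 4) (nat_lit 351) (nat_lit 266) (nat_lit 163)) (XT.lf (nat_lit 0) (nat_lit 688840133164) (nat_lit 152) (nat_lit 72256930688) (nat_lit 0) (nat_lit 665503871148) (nat_lit 2) (nat_lit 5) (nat_lit 4) (nat_lit 4) (nat_lit 2) (nat_lit 4) (nat_lit 352) (nat_lit 266) (nat_lit 162))) (XT.nd (nat_lit 78) (nat_lit 0) (nat_lit 0) (XT.lf (nat_lit 0) (nat_lit 753718566767) (nat_lit 152) (nat_lit 55688949682) (nat_lit 0) (nat_lit 730381726958) (nat_lit 2) (nat_lit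 5) (nat_lit 4) (nat_lit 4) (nat_lit 2) (nat_lit 4) (nat_lit 353) (nat_lit 266) (nat_lit 161)) (XT.lf (nat_lit 0) (nat_lit 823786720609) (nat_lit 152) (nat_lit 37796594841) (nat_lit 0) (nat_lit 800449345807) (nat_lit 2) (nat_lit 5) (nat_lit 4) (nat_lit 4) (nat_lit 2) (nat_lit 4) (nat_lit 354) (nat_lit 266) (nat_lit 160)))))) (XT.nd (nat_lit 546) (nat_lit 0) (nat_lit 0) (XT.nd (nat_lit 234) (nat_lit 0) (nat_lit 0) (XT.nd (nat_lit 78) (nat_lit 76) (nat_lit 0) (XT.lf (nat_lit 0) (nat_lit 899459813379) (nat_lit 152) (nat_lit 18473837394) (nat_lit 0) (nat_lit 876121943212) (nat_lit 2) (nat_lit 5) (nat_lit 4) (nat_lit 4) (nat_lit 2) (nat_lit 4) (nat_lit 355) (nat_lit 266) (nat_lit 159)) (XT.nd (nat_lit 78) (nat_lit 0) (nat_lit 0) (XT.lf (nat_lit 0) (nat_lit 2519882619) (nat_lit 76) (nat_lit 978726998837) (nat_lit 76) (nat_lit 955388670000) (nat_lit 1) (nat_lit 4) (nat_lit 2) (nat_lit 5) (nat_lit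 2) (nat_lit 4) (nat_lit 356) (nat_lit 266) (nat_lit 158)) (XT.lf (nat_lit 0) (nat_lit 26242834082) (nat_lit 76) (nat_lit 1043838726814) (nat_lit 76) (nat_lit 1020499973282) (nat_lit 1) (nat_lit 4) (nat_lit 2) (nat_lit 5) (nat_lit 2) (nat_lit 4) (nat_lit 357) (nat_lit 266) (nat_lit 157)))) (XT.nd (nat_lit 156) (nat_lit 0) (nat_lit 0) (XT.nd (nat_lit 78) (nat_lit 0) (nat_lit 0) (XT.lf (nat_lit 0) (nat_lit 51862797910) (nat_lit 76) (nat_lit 1114159789434) (nat_lit 76) (nat_lit 1090820642666) (nat_lit 1) (nat_lit 4) (nat_lit 2) (nat_lit 5) (nat_lit 2) (nat_lit 4) (nat_lit 358) (nat_lit 266) (nat_lit 156)) (XT.lf (nat_lit 0) (nat_lit 79531596108) (nat_lit 76) (nat_lit 1190106904105) (nat_lit 76) (nat_lit 1166767393230) (nat_lit 1) (nat_lit 4) (nat_lit 2) (nat_lit 5) (nat_lit 2) (nat_lit 4) (nat_lit 359) (nat_lit 266) (nat_lit 155))) (XT.nd (nat_lit 78) (nat_lit 0) (nat_lit 0) (XT.lf (nat_lit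 0) (nat_lit 109413191927) (nat_lit 76) (nat_lit 1272130127804) (nat_lit 76) (nat_lit 1248790279792) (nat_lit 1) (nat_lit 4) (nat_lit 2) (nat_lit 5) (nat_lit 2) (nat_lit 4) (nat_lit 360) (nat_lit 266) (nat_lit 154)) (XT.lf (nat_lit 0) (nat_lit 141684661489) (nat_lit 76) (nat_lit 1360715524078) (nat_lit 76) (nat_lit 1337375363903) (nat_lit 1) (nat_lit 4) (nat_lit 2) (nat_lit 5) (nat_lit 2) (nat_lit 4) (nat_lit 361) (nat_lit 266) (nat_lit 153))))) (XT.nd (nat_lit 33228) (nat_lit 0) (nat_lit 3648) (XT.nd (nat_lit 156) (nat_lit 0) (nat_lit 0) (XT.nd (nat_lit 78) (nat_lit 0) (nat_lit 0) (XT.lf (nat_lit 0) (nat_lit 176537243132) (nat_lit 76) (nat_lit 1456388043424) (nat_lit 76) (nat_lit 1433047594208) (nat_lit 1) (nat_lit 4) (nat_lit 2) (nat_lit 5) (nat_lit 2) (nat_lit 4) (nat_lit 362) (nat_lit 266) (nat_lit 152)) (XT.lf (nat_lit 0) (nat_lit 214177470674) (nat_lit 76) (nat_lit 1559714634104)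 (nat_lit 76) (nat_lit 1536373917258) (nat_lit 1) (nat_lit 4) (nat_lit 2) (nat_lit 5) (nat_lit 2) (nat_lit 4) (nat_lit 363) (nat_lit 266) (nat_lit 151))) (XT.nd (nat_lit 78) (nat_lit 0) (nat_lit 0) (XT.lf (nat_lit 0) (nat_lit 254828397315) (nat_lit 76) (nat_lit 1671307601841) (nat_lit 76) (nat_lit 1647966637190) (nat_lit 1) (nat_lit 4) (nat_lit 2) (nat_lit 5) (nat_lit 2) (nat_lit 4) (nat_lit 364) (nat_lit 266) (nat_lit 150)) (XT.lf (nat_lit 0) (nat_lit 298730917435) (nat_lit 76) (nat_lit 1791828238295) (nat_lit 76) (nat_lit 1768487044195) (nat_lit 1) (nat_lit 4) (nat_lit 2) (nat_lit 5) (nat_lit 2) (nat_lit 4) (nat_lit 365) (nat_lit 266) (nat_lit 149)))) (XT.nd (nat_lit 156) (nat_lit 0) (nat_lit 0) (XT.nd (nat_lit 78) (nat_lit 0) (nat_lit 0) (XT.lf (nat_lit 0) (nat_lit 184064361) (nat_lit 0) (nat_lit 184064361) (nat_lit 380) (nat_lit 3573525152) (nat_lit 49) (nat_lit 5) (nat_lit 49) (nat_lit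 3) (nat_lit 54) (nat_lit 3) (nat_lit 267) (nat_lit 267) (nat_lit 246)) (XT.lf (nat_lit 0) (nat_lit 1991003409) (nat_lit 380) (nat_lit 3985944226) (nat_lit 456) (nat_lit 2118764446) (nat_lit 49) (nat_lit 5) (nat_lit 54) (nat_lit 3) (nat_lit 55) (nat_lit 5) (nat_lit 268) (nat_lit 267) (nat_lit 245))) (XT.nd (nat_lit 78) (nat_lit 0) (nat_lit 0) (XT.lf (nat_lit 0) (nat_lit 3239878470) (nat_lit 380) (nat_lit 253821427) (nat_lit 456) (nat_lit 4840399577) (nat_lit 49) (nat_lit 5) (nat_lit 54) (nat_lit 3) (nat_lit 55) (nat_lit 5) (nat_lit 269) (nat_lit 267) (nat_lit 244)) (XT.lf (nat_lit 76) (nat_lit 3907634878) (nat_lit 0) (nat_lit 667773696) (nat_lit 456) (nat_lit 4017664004) (nat_lit 50) (nat_lit 5) (nat_lit 49) (nat_lit 5) (nat_lit 55) (nat_lit 5) (nat_lit 270) (nat_lit 267) (nat_lit 243))))))) (XT.nd (nat_lit 1170) (nat_lit 988) (nat_lit 0) (XT.nd (nat_lit 546) (nat_lit 1064) (nat_lit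 0) (XT.nd (nat_lit 234) (nat_lit 836) (nat_lit 0) (XT.nd (nat_lit 78) (nat_lit 0) (nat_lit 0) (XT.lf (nat_lit 0) (nat_lit 5982342111) (nat_lit 380) (nat_lit 585753076) (nat_lit 456) (nat_lit 2307924132) (nat_lit 50) (nat_lit 5) (nat_lit 55) (nat_lit 5) (nat_lit 56) (nat_lit 5) (nat_lit 271) (nat_lit 267) (nat_lit 242)) (XT.nd (nat_lit 78) (nat_lit 0) (nat_lit 0) (XT.lf (nat_lit 76) (nat_lit 3955324263) (nat_lit 0) (nat_lit 3566476602) (nat_lit 456) (nat_lit 1658592799) (nat_lit 51) (nat_lit 5) (nat_lit 50) (nat_lit 5) (nat_lit 56) (nat_lit 5) (nat_lit 272) (nat_lit 267) (nat_lit 241)) (XT.lf (nat_lit 76) (nat_lit 8827600164) (nat_lit 0) (nat_lit 285610777) (nat_lit 456) (nat_lit 401964101) (nat_lit 51) (nat_lit 5) (nat_lit 50) (nat_lit 5) (nat_lit 56) (nat_lit 5) (nat_lit 273) (nat_lit 267) (nat_lit 240)))) (XT.nd (nat_lit 156) (nat_lit 456) (nat_lit 0) (XT.nd (nat_lit 78) (nat_lit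 0) (nat_lit 0) (XT.lf (nat_lit 0) (nat_lit 1010748561) (nat_lit 456) (nat_lit 5613697339) (nat_lit 76) (nat_lit 3242497527) (nat_lit 45) (nat_lit 5) (nat_lit 51) (nat_lit 5) (nat_lit 46) (nat_lit 5) (nat_lit 274) (nat_lit 267) (nat_lit 239)) (XT.lf (nat_lit 0) (nat_lit 2463284276) (nat_lit 456) (nat_lit 705783083) (nat_lit 76) (nat_lit 7081355170) (nat_lit 45) (nat_lit 5) (nat_lit 51) (nat_lit 5) (nat_lit 46) (nat_lit 5) (nat_lit 275) (nat_lit 267) (nat_lit 238))) (XT.nd (nat_lit 78) (nat_lit 0) (nat_lit 0) (XT.lf (nat_lit 0) (nat_lit 4090983529) (nat_lit 532) (nat_lit 5910166114) (nat_lit 76) (nat_lit 658978556) (nat_lit 39) (nat_lit 5) (nat_lit 46) (nat_lit 5) (nat_lit 40) (nat_lit 5) (nat_lit 276) (nat_lit 267) (nat_lit 237)) (XT.lf (nat_lit 0) (nat_lit 5882568351) (nat_lit 532) (nat_lit 571069468) (nat_lit 76) (nat_lit 4646524389) (nat_lit 39) (nat_lit 5) (nat_lit 46) (nat_lit 5)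 (nat_lit 40) (nat_lit 5) (nat_lit 277) (nat_lit 267) (nat_lit 236))))) (XT.nd (nat_lit 312) (nat_lit 532) (nat_lit 0) (XT.nd (nat_lit 156) (nat_lit 304) (nat_lit 0) (XT.nd (nat_lit 78) (nat_lit 0) (nat_lit 0) (XT.lf (nat_lit 0) (nat_lit 5400988247) (nat_lit 228) (nat_lit 2483013016) (nat_lit 304) (nat_lit 3686303246) (nat_lit 36) (nat_lit 5) (nat_lit 39) (nat_lit 5) (nat_lit 40) (nat_lit 5) (nat_lit 278) (nat_lit 267) (nat_lit 235)) (XT.lf (nat_lit 0) (nat_lit 10044737484) (nat_lit 304) (nat_lit 305024885) (nat_lit 76) (nat_lit 1728571169) (nat_lit 36) (nat_lit 5) (nat_lit 40) (nat_lit 5) (nat_lit 37) (nat_lit 5) (nat_lit 279) (nat_lit 267) (nat_lit 234))) (XT.nd (nat_lit 78) (nat_lit 76) (nat_lit 0) (XT.lf (nat_lit 0) (nat_lit 6211997182) (nat_lit 228) (nat_lit 6324443201) (nat_lit 304) (nat_lit 78110734) (nat_lit 33) (nat_lit 5) (nat_lit 36) (nat_lit 5) (nat_lit 37) (nat_lit 5) (nat_lit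 280) (nat_lit 267) (nat_lit 233)) (XT.lf (nat_lit 0) (nat_lit 1885957643) (nat_lit 304) (nat_lit 38528265) (nat_lit 76) (nat_lit 11269123484) (nat_lit 32) (nat_lit 5) (nat_lit 36) (nat_lit 5) (nat_lit 33) (nat_lit 5) (nat_lit 281) (nat_lit 267) (nat_lit 232)))) (XT.nd (nat_lit 156) (nat_lit 152) (nat_lit 0) (XT.nd (nat_lit 78) (nat_lit 152) (nat_lit 0) (XT.lf (nat_lit 0) (nat_lit 4196079031) (nat_lit 304) (nat_lit 6751734638) (nat_lit 76) (nat_lit 2855719225) (nat_lit 29) (nat_lit 5) (nat_lit 33) (nat_lit 5) (nat_lit 30) (nat_lit 5) (nat_lit 282) (nat_lit 267) (nat_lit 231)) (XT.lf (nat_lit 0) (nat_lit 144966405) (nat_lit 152) (nat_lit 6552101584) (nat_lit 228) (nat_lit 7764840881) (nat_lit 27) (nat_lit 5) (nat_lit 29) (nat_lit 5) (nat_lit 30) (nat_lit 5) (nat_lit 283) (nat_lit 267) (nat_lit 230))) (XT.nd (nat_lit 78) (nat_lit 152) (nat_lit 0) (XT.lf (nat_lit 0) (nat_lit 7917293933)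 (nat_lit 152) (nat_lit 1619097707) (nat_lit 228) (nat_lit 5625635449) (nat_lit 27) (nat_lit 5) (nat_lit 29) (nat_lit 5) (nat_lit 30) (nat_lit 5) (nat_lit 284) (nat_lit 267) (nat_lit 229)) (XT.lf (nat_lit 0) (nat_lit 258086837) (nat_lit 152) (nat_lit 12396950481) (nat_lit 228) (nat_lit 3259066148) (nat_lit 25) (nat_lit 5) (nat_lit 27) (nat_lit 5) (nat_lit 28) (nat_lit 5) (nat_lit 285) (nat_lit 267) (nat_lit 228)))))) (XT.nd (nat_lit 546) (nat_lit 532) (nat_lit 0) (XT.nd (nat_lit 234) (nat_lit 228) (nat_lit 0) (XT.nd (nat_lit 78) (nat_lit 228) (nat_lit 0) (XT.lf (nat_lit 0) (nat_lit 8671482635) (nat_lit 152) (nat_lit 7549365417) (nat_lit 228) (nat_lit 489797722) (nat_lit 25) (nat_lit 5) (nat_lit 27) (nat_lit 5) (nat_lit 28) (nat_lit 5) (nat_lit 286) (nat_lit 267) (nat_lit 227)) (XT.nd (nat_lit 78) (nat_lit 0) (nat_lit 0) (XT.lf (nat_lit 0) (nat_lit 75340626) (nat_lit 152) (nat_lit 2262943483)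 (nat_lit 228) (nat_lit 15230922265) (nat_lit 22) (nat_lit 5) (nat_lit 24) (nat_lit 5) (nat_lit 25) (nat_lit 5) (nat_lit 287) (nat_lit 267) (nat_lit 226)) (XT.lf (nat_lit 0) (nat_lit 5636357931) (nat_lit 228) (nat_lit 9340629643) (nat_lit 76) (nat_lit 3496920160) (nat_lit 22) (nat_lit 5) (nat_lit 25) (nat_lit 5) (nat_lit 23) (nat_lit 5) (nat_lit 288) (nat_lit 267) (nat_lit 225)))) (XT.nd (nat_lit 156) (nat_lit 76) (nat_lit 0) (XT.nd (nat_lit 78) (nat_lit 152) (nat_lit 0) (XT.lf (nat_lit 0) (nat_lit 9221691744) (nat_lit 228) (nat_lit 646360725) (nat_lit 76) (nat_lit 9581143175) (nat_lit 22) (nat_lit 5) (nat_lit 25) (nat_lit 5) (nat_lit 23) (nat_lit 5) (nat_lit 289) (nat_lit 267) (nat_lit 224)) (XT.lf (nat_lit 0) (nat_lit 9152743753) (nat_lit 152) (nat_lit 4128488079) (nat_lit 228) (nat_lit 7206361768) (nat_lit 20) (nat_lit 5) (nat_lit 22) (nat_lit 5) (nat_lit 23) (nat_lit 5) (nat_lit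 290) (nat_lit 267) (nat_lit 223))) (XT.nd (nat_lit 78) (nat_lit 76) (nat_lit 0) (XT.lf (nat_lit 0) (nat_lit 17701617302) (nat_lit 228) (nat_lit 1934902453) (nat_lit 76) (nat_lit 1969728710) (nat_lit 20) (nat_lit 5) (nat_lit 23) (nat_lit 5) (nat_lit 21) (nat_lit 4) (nat_lit 291) (nat_lit 267) (nat_lit 222)) (XT.lf (nat_lit 0) (nat_lit 8488569352) (nat_lit 76) (nat_lit 14268967583) (nat_lit 152) (nat_lit 34372857) (nat_lit 19) (nat_lit 5) (nat_lit 20) (nat_lit 5) (nat_lit 21) (nat_lit 4) (nat_lit 292) (nat_lit 267) (nat_lit 221))))) (XT.nd (nat_lit 312) (nat_lit 228) (nat_lit 0) (XT.nd (nat_lit 156) (nat_lit 76) (nat_lit 0) (XT.nd (nat_lit 78) (nat_lit 152) (nat_lit 0) (XT.lf (nat_lit 0) (nat_lit 3963241653) (nat_lit 152) (nat_lit 4359608888) (nat_lit 76) (nat_lit 15739645553) (nat_lit 18) (nat_lit 5) (nat_lit 20) (nat_lit 5) (nat_lit 19) (nat_lit 5) (nat_lit 293) (nat_lit 267) (nat_lit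 220)) (XT.lf (nat_lit 0) (nat_lit 6669491091) (nat_lit 152) (nat_lit 1742711928) (nat_lit 228) (nat_lit 17011835943) (nat_lit 16) (nat_lit 5) (nat_lit 18) (nat_lit 5) (nat_lit 19) (nat_lit 5) (nat_lit 294) (nat_lit 267) (nat_lit 219))) (XT.nd (nat_lit 78) (nat_lit 76) (nat_lit 0) (XT.lf (nat_lit 0) (nat_lit 13441986658) (nat_lit 228) (nat_lit 8231749059) (nat_lit 76) (nat_lit 5202825874) (nat_lit 16) (nat_lit 5) (nat_lit 19) (nat_lit 5) (nat_lit 17) (nat_lit 4) (nat_lit 295) (nat_lit 267) (nat_lit 218)) (XT.lf (nat_lit 0) (nat_lit 3207761478) (nat_lit 76) (nat_lit 15764367768) (nat_lit 152) (nat_lit 9465363833) (nat_lit 15) (nat_lit 5) (nat_lit 16) (nat_lit 5) (nat_lit 17) (nat_lit 4) (nat_lit 296) (nat_lit 267) (nat_lit 217)))) (XT.nd (nat_lit 156) (nat_lit 228) (nat_lit 0) (XT.nd (nat_lit 78) (nat_lit 0) (nat_lit 0) (XT.lf (nat_lit 0) (nat_lit 15991288127) (nat_lit 76) (nat_lit 9154895084)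 (nat_lit 152) (nat_lit 4961037683) (nat_lit 15) (nat_lit 5) (nat_lit 16) (nat_lit 5) (nat_lit 17) (nat_lit 4) (nat_lit 297) (nat_lit 267) (nat_lit 216)) (XT.lf (nat_lit 0) (nat_lit 29761115802) (nat_lit 76) (nat_lit 2031221027) (nat_lit 152) (nat_lit 119974787) (nat_lit 15) (nat_lit 5) (nat_lit 16) (nat_lit 5) (nat_lit 17) (nat_lit 4) (nat_lit 298) (nat_lit 267) (nat_lit 215))) (XT.nd (nat_lit 78) (nat_lit 0) (nat_lit 0) (XT.lf (nat_lit 0) (nat_lit 5246761178) (nat_lit 228) (nat_lit 22806277419) (nat_lit 76) (nat_lit 5767461300) (nat_lit 12) (nat_lit 5) (nat_lit 15) (nat_lit 5) (nat_lit 13) (nat_lit 4) (nat_lit 299) (nat_lit 267) (nat_lit 214)) (XT.lf (nat_lit 0) (nat_lit 11129079789) (nat_lit 228) (nat_lit 10614058068) (nat_lit 76) (nat_lit 14130568771) (nat_lit 12) (nat_lit 5) (nat_lit 15) (nat_lit 5) (nat_lit 13) (nat_lit 4) (nat_lit 300) (nat_lit 267) (nat_lit 213))))))))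
noncomputable def xc62 : XT := (XT.nd (nat_lit 2262) (nat_lit 152) (nat_lit 0) (XT.nd (nat_lit 1092) (nat_lit 228) (nat_lit 0) (XT.nd (nat_lit 546) (nat_lit 152) (nat_lit 0) (XT.nd (nat_lit 234) (nat_lit 228) (nat_lit 0) (XT.nd (nat_lit 78) (nat_lit 0) (nat_lit 0) (XT.lf (nat_lit 0) (nat_lit 2653663676) (nat_lit 76) (nat_lit 14873271724) (nat_lit 152) (nat_lit 20560666829) (nat_lit 11) (nat_lit 5) (nat_lit 12) (nat_lit 5) (nat_lit 13) (nat_lit 4) (nat_lit 301) (nat_lit 267) (nat_lit 212)) (XT.nd (nat_lit 78) (nat_lit 0) (nat_lit 0) (XT.lf (nat_lit 0) (nat_lit 17554637766) (nat_lit 76) (nat_lit 7153952702) (nat_lit 152) (nat_lit 15748287674) (nat_lit 11) (nat_lit 5) (nat_lit 12) (nat_lit 5) (nat_lit 13) (nat_lit 4) (nat_lit 302) (nat_lit 267) (nat_lit 211)) (XT.lf (nat_lit 0) (nat_lit 32476039712) (nat_lit 152) (nat_lit 9426969658) (nat_lit 0) (nat_lit 1111810209) (nat_lit 11) (nat_lit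 5) (nat_lit 13) (nat_lit 4) (nat_lit 11) (nat_lit 4) (nat_lit 303) (nat_lit 267) (nat_lit 210)))) (XT.nd (nat_lit 156) (nat_lit 76) (nat_lit 0) (XT.nd (nat_lit 78) (nat_lit 76) (nat_lit 0) (XT.lf (nat_lit 0) (nat_lit 5170922300) (nat_lit 76) (nat_lit 35988226198) (nat_lit 76) (nat_lit 4594729330) (nat_lit 10) (nat_lit 4) (nat_lit 11) (nat_lit 5) (nat_lit 11) (nat_lit 4) (nat_lit 304) (nat_lit 267) (nat_lit 209)) (XT.lf (nat_lit 0) (nat_lit 1982186522) (nat_lit 152) (nat_lit 27297648313) (nat_lit 76) (nat_lit 19408844067) (nat_lit 9) (nat_lit 5) (nat_lit 11) (nat_lit 5) (nat_lit 10) (nat_lit 4) (nat_lit 305) (nat_lit 267) (nat_lit 208))) (XT.nd (nat_lit 78) (nat_lit 76) (nat_lit 0) (XT.lf (nat_lit 0) (nat_lit 8822375138) (nat_lit 152) (nat_lit 13095148039) (nat_lit 76) (nat_lit 29932382986) (nat_lit 9) (nat_lit 5) (nat_lit 11) (nat_lit 5) (nat_lit 10) (nat_lit 4) (nat_lit 306) (nat_lit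 267) (nat_lit 207)) (XT.lf (nat_lit 0) (nat_lit 2336071357) (nat_lit 76) (nat_lit 13916329153) (nat_lit 152) (nat_lit 39008237963) (nat_lit 8) (nat_lit 5) (nat_lit 9) (nat_lit 5) (nat_lit 10) (nat_lit 4) (nat_lit 307) (nat_lit 267) (nat_lit 206))))) (XT.nd (nat_lit 234) (nat_lit 152) (nat_lit 0) (XT.nd (nat_lit 78) (nat_lit 0) (nat_lit 0) (XT.lf (nat_lit 0) (nat_lit 19722796549) (nat_lit 76) (nat_lit 4898948951) (nat_lit 152) (nat_lit 34294905834) (nat_lit 8) (nat_lit 5) (nat_lit 9) (nat_lit 5) (nat_lit 10) (nat_lit 4) (nat_lit 308) (nat_lit 267) (nat_lit 205)) (XT.nd (nat_lit 78) (nat_lit 0) (nat_lit 0) (XT.lf (nat_lit 0) (nat_lit 33764645328) (nat_lit 152) (nat_lit 24503800970) (nat_lit 0) (nat_lit 4588392578) (nat_lit 8) (nat_lit 5) (nat_lit 10) (nat_lit 4) (nat_lit 8) (nat_lit 4) (nat_lit 309) (nat_lit 267) (nat_lit 204)) (XT.lf (nat_lit 0) (nat_lit 43754749801) (nat_lit 152) (nat_lit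 8786823162) (nat_lit 0) (nat_lit 14561419825) (nat_lit 8) (nat_lit 5) (nat_lit 10) (nat_lit 4) (nat_lit 8) (nat_lit 4) (nat_lit 310) (nat_lit 267) (nat_lit 203)))) (XT.nd (nat_lit 156) (nat_lit 76) (nat_lit 0) (XT.nd (nat_lit 78) (nat_lit 0) (nat_lit 0) (XT.lf (nat_lit 0) (nat_lit 8598150433) (nat_lit 76) (nat_lit 46142074991) (nat_lit 76) (nat_lit 16932932768) (nat_lit 7) (nat_lit 4) (nat_lit 8) (nat_lit 5) (nat_lit 8) (nat_lit 4) (nat_lit 311) (nat_lit 267) (nat_lit 202)) (XT.lf (nat_lit 0) (nat_lit 27854652672) (nat_lit 76) (nat_lit 38979841135) (nat_lit 76) (nat_lit 9756057943) (nat_lit 7) (nat_lit 4) (nat_lit 8) (nat_lit 5) (nat_lit 8) (nat_lit 4) (nat_lit 312) (nat_lit 267) (nat_lit 201))) (XT.nd (nat_lit 78) (nat_lit 76) (nat_lit 0) (XT.lf (nat_lit 0) (nat_lit 48634097625) (nat_lit 76) (nat_lit 31252675845) (nat_lit 76) (nat_lit 2015336200) (nat_lit 7) (nat_lit 4) (nat_lit 8)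 (nat_lit 5) (nat_lit 8) (nat_lit 4) (nat_lit 313) (nat_lit 267) (nat_lit 200)) (XT.lf (nat_lit 0) (nat_lit 6018195874) (nat_lit 152) (nat_lit 16732044497) (nat_lit 76) (nat_lit 64876878728) (nat_lit 6) (nat_lit 5) (nat_lit 8) (nat_lit 5) (nat_lit 7) (nat_lit 4) (nat_lit 314) (nat_lit 267) (nat_lit 199)))))) (XT.nd (nat_lit 546) (nat_lit 76) (nat_lit 0) (XT.nd (nat_lit 234) (nat_lit 76) (nat_lit 0) (XT.nd (nat_lit 78) (nat_lit 0) (nat_lit 0) (XT.lf (nat_lit 0) (nat_lit 1114695627) (nat_lit 76) (nat_lit 13489251495) (nat_lit 152) (nat_lit 79200529384) (nat_lit 5) (nat_lit 5) (nat_lit 6) (nat_lit 5) (nat_lit 7) (nat_lit 4) (nat_lit 315) (nat_lit 267) (nat_lit 198)) (XT.nd (nat_lit 78) (nat_lit 0) (nat_lit 0) (XT.lf (nat_lit 0) (nat_lit 21325614049) (nat_lit 76) (nat_lit 3000294598) (nat_lit 152) (nat_lit 76114173535) (nat_lit 5) (nat_lit 5) (nat_lit 6) (nat_lit 5) (nat_lit 7) (nat_lit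 4) (nat_lit 316) (nat_lit 267) (nat_lit 197)) (XT.lf (nat_lit 0) (nat_lit 35018223554) (nat_lit 152) (nat_lit 64667874104) (nat_lit 0) (nat_lit 7905038058) (nat_lit 5) (nat_lit 5) (nat_lit 7) (nat_lit 4) (nat_lit 5) (nat_lit 4) (nat_lit 317) (nat_lit 267) (nat_lit 196)))) (XT.nd (nat_lit 156) (nat_lit 76) (nat_lit 0) (XT.nd (nat_lit 78) (nat_lit 0) (nat_lit 0) (XT.lf (nat_lit 0) (nat_lit 46636735955) (nat_lit 152) (nat_lit 49156871591) (nat_lit 0) (nat_lit 19515007594) (nat_lit 5) (nat_lit 5) (nat_lit 7) (nat_lit 4) (nat_lit 5) (nat_lit 4) (nat_lit 318) (nat_lit 267) (nat_lit 195)) (XT.lf (nat_lit 0) (nat_lit 59178139137) (nat_lit 152) (nat_lit 32417386386) (nat_lit 0) (nat_lit 32048500716) (nat_lit 5) (nat_lit 5) (nat_lit 7) (nat_lit 4) (nat_lit 5) (nat_lit 4) (nat_lit 319) (nat_lit 267) (nat_lit 194))) (XT.nd (nat_lit 78) (nat_lit 76) (nat_lit 0) (XT.lf (nat_lit 0) (nat_lit 72716752527)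 (nat_lit 152) (nat_lit 14350221540) (nat_lit 0) (nat_lit 45579789976) (nat_lit 5) (nat_lit 5) (nat_lit 7) (nat_lit 4) (nat_lit 5) (nat_lit 4) (nat_lit 320) (nat_lit 267) (nat_lit 193)) (XT.lf (nat_lit 0) (nat_lit 5422966368) (nat_lit 76) (nat_lit 82040261047) (nat_lit 76) (nat_lit 54896516894) (nat_lit 4) (nat_lit 4) (nat_lit 5) (nat_lit 5) (nat_lit 5) (nat_lit 4) (nat_lit 321) (nat_lit 267) (nat_lit 192))))) (XT.nd (nat_lit 312) (nat_lit 76) (nat_lit 0) (XT.nd (nat_lit 156) (nat_lit 0) (nat_lit 0) (XT.nd (nat_lit 78) (nat_lit 0) (nat_lit 0) (XT.lf (nat_lit 0) (nat_lit 27583759344) (nat_lit 76) (nat_lit 76192540763) (nat_lit 76) (nat_lit 49042517350) (nat_lit 4) (nat_lit 4) (nat_lit 5) (nat_lit 5) (nat_lit 5) (nat_lit 4) (nat_lit 322) (nat_lit 267) (nat_lit 191)) (XT.lf (nat_lit 0) (nat_lit 51507823369) (nat_lit 76) (nat_lit 69881520548) (nat_lit 76) (nat_lit 42725683004) (nat_lit 4)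 (nat_lit 4) (nat_lit 5) (nat_lit 5) (nat_lit 5) (nat_lit 4) (nat_lit 323) (nat_lit 267) (nat_lit 190))) (XT.nd (nat_lit 78) (nat_lit 0) (nat_lit 0) (XT.lf (nat_lit 0) (nat_lit 77336930674) (nat_lit 76) (nat_lit 63069801761) (nat_lit 76) (nat_lit 35908580764) (nat_lit 4) (nat_lit 4) (nat_lit 5) (nat_lit 5) (nat_lit 5) (nat_lit 4) (nat_lit 324) (nat_lit 267) (nat_lit 189)) (XT.lf (nat_lit 0) (nat_lit 105224142635) (nat_lit 76) (nat_lit 55717018664) (nat_lit 76) (nat_lit 28550812987) (nat_lit 4) (nat_lit 4) (nat_lit 5) (nat_lit 5) (nat_lit 5) (nat_lit 4) (nat_lit 325) (nat_lit 267) (nat_lit 188)))) (XT.nd (nat_lit 156) (nat_lit 76) (nat_lit 0) (XT.nd (nat_lit 78) (nat_lit 0) (nat_lit 0) (XT.lf (nat_lit 0) (nat_lit 135334716806) (nat_lit 76) (nat_lit 47779599206) (nat_lit 76) (nat_lit 20608778086) (nat_lit 4) (nat_lit 4) (nat_lit 5) (nat_lit 5) (nat_lit 5) (nat_lit 4) (nat_lit 326) (nat_lit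 267) (nat_lit 187)) (XT.lf (nat_lit 0) (nat_lit 167847086217) (nat_lit 76) (nat_lit 39210506830) (nat_lit 76) (nat_lit 12035412150) (nat_lit 4) (nat_lit 4) (nat_lit 5) (nat_lit 5) (nat_lit 5) (nat_lit 4) (nat_lit 327) (nat_lit 267) (nat_lit 186))) (XT.nd (nat_lit 78) (nat_lit 76) (nat_lit 0) (XT.lf (nat_lit 0) (nat_lit 202953916763) (nat_lit 76) (nat_lit 29958961727) (nat_lit 76) (nat_lit 2779910048) (nat_lit 4) (nat_lit 4) (nat_lit 5) (nat_lit 5) (nat_lit 5) (nat_lit 4) (nat_lit 328) (nat_lit 267) (nat_lit 185)) (XT.lf (nat_lit 0) (nat_lit 6851773394) (nat_lit 152) (nat_lit 12931026906) (nat_lit 76) (nat_lit 233824135898) (nat_lit 3) (nat_lit 5) (nat_lit 5) (nat_lit 5) (nat_lit 4) (nat_lit 4) (nat_lit 329) (nat_lit 267) (nat_lit 184))))))) (XT.nd (nat_lit 1170) (nat_lit 76) (nat_lit 0) (XT.nd (nat_lit 546) (nat_lit 0) (nat_lit 0) (XT.nd (nat_lit 234) (nat_lit 0) (nat_lit 0) (XT.nd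 (nat_lit 78) (nat_lit 0) (nat_lit 0) (XT.lf (nat_lit 0) (nat_lit 8824939728) (nat_lit 76) (nat_lit 8488064014) (nat_lit 152) (nat_lit 255618701951) (nat_lit 2) (nat_lit 5) (nat_lit 3) (nat_lit 5) (nat_lit 4) (nat_lit 4) (nat_lit 330) (nat_lit 267) (nat_lit 183)) (XT.nd (nat_lit 78) (nat_lit 0) (nat_lit 0) (XT.lf (nat_lit 0) (nat_lit 29060090356) (nat_lit 152) (nat_lit 260821592441) (nat_lit 0) (nat_lit 3884859568) (nat_lit 2) (nat_lit 5) (nat_lit 4) (nat_lit 4) (nat_lit 2) (nat_lit 4) (nat_lit 331) (nat_lit 267) (nat_lit 182)) (XT.lf (nat_lit 0) (nat_lit 41964622086) (nat_lit 152) (nat_lit 257499433477) (nat_lit 0) (nat_lit 16786698231) (nat_lit 2) (nat_lit 5) (nat_lit 4) (nat_lit 4) (nat_lit 2) (nat_lit 4) (nat_lit 332) (nat_lit 267) (nat_lit 181)))) (XT.nd (nat_lit 156) (nat_lit 0) (nat_lit 0) (XT.nd (nat_lit 78) (nat_lit 0) (nat_lit 0) (XT.lf (nat_lit 0) (nat_lit 55898932088) (nat_lit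 152) (nat_lit 253916464061) (nat_lit 0) (nat_lit 30718514652) (nat_lit 2) (nat_lit 5) (nat_lit 4) (nat_lit 4) (nat_lit 2) (nat_lit 4) (nat_lit 333) (nat_lit 267) (nat_lit 180)) (XT.lf (nat_lit 0) (nat_lit 70945594051) (nat_lit 152) (nat_lit 250051451783) (nat_lit 0) (nat_lit 45762867745) (nat_lit 2) (nat_lit 5) (nat_lit 4) (nat_lit 4) (nat_lit 2) (nat_lit 4) (nat_lit 334) (nat_lit 267) (nat_lit 179))) (XT.nd (nat_lit 78) (nat_lit 0) (nat_lit 0) (XT.lf (nat_lit 0) (nat_lit 87193773380) (nat_lit 152) (nat_lit 245881492866) (nat_lit 0) (nat_lit 62008909230) (nat_lit 2) (nat_lit 5) (nat_lit 4) (nat_lit 4) (nat_lit 2) (nat_lit 4) (nat_lit 335) (nat_lit 267) (nat_lit 178)) (XT.lf (nat_lit 0) (nat_lit 104739755582) (nat_lit 152) (nat_lit 241381876442) (nat_lit 0) (nat_lit 79552911947) (nat_lit 2) (nat_lit 5) (nat_lit 4) (nat_lit 4) (nat_lit 2) (nat_lit 4) (nat_lit 336) (nat_lit 267) (nat_lit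 177))))) (XT.nd (nat_lit 312) (nat_lit 0) (nat_lit 0) (XT.nd (nat_lit 156) (nat_lit 0) (nat_lit 0) (XT.nd (nat_lit 78) (nat_lit 0) (nat_lit 0) (XT.lf (nat_lit 0) (nat_lit 123687516847) (nat_lit 152) (nat_lit 236525938118) (nat_lit 0) (nat_lit 98498840356) (nat_lit 2) (nat_lit 5) (nat_lit 4) (nat_lit 4) (nat_lit 2) (nat_lit 4) (nat_lit 337) (nat_lit 267) (nat_lit 176)) (XT.lf (nat_lit 0) (nat_lit 144149340206) (nat_lit 152) (nat_lit 231284901962) (nat_lit 0) (nat_lit 118958966625) (nat_lit 2) (nat_lit 5) (nat_lit 4) (nat_lit 4) (nat_lit 2) (nat_lit 4) (nat_lit 338) (nat_lit 267) (nat_lit 175))) (XT.nd (nat_lit 78) (nat_lit 0) (nat_lit 0) (XT.lf (nat_lit 0) (nat_lit 166246480907) (nat_lit 152) (nat_lit 225627709984) (nat_lit 0) (nat_lit 141054535947) (nat_lit 2) (nat_lit 5) (nat_lit 4) (nat_lit 4) (nat_lit 2) (nat_lit 4) (nat_lit 339) (nat_lit 267) (nat_lit 174)) (XT.lf (nat_lit 0) (nat_lit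 190109884969) (nat_lit 152) (nat_lit 219520838081) (nat_lit 0) (nat_lit 164916485029) (nat_lit 2) (nat_lit 5) (nat_lit 4) (nat_lit 4) (nat_lit 2) (nat_lit 4) (nat_lit 340) (nat_lit 267) (nat_lit 173)))) (XT.nd (nat_lit 156) (nat_lit 0) (nat_lit 0) (XT.nd (nat_lit 78) (nat_lit 0) (nat_lit 0) (XT.lf (nat_lit 0) (nat_lit 215880965158) (nat_lit 152) (nat_lit 212928097384) (nat_lit 0) (nat_lit 190686218014) (nat_lit 2) (nat_lit 5) (nat_lit 4) (nat_lit 4) (nat_lit 2) (nat_lit 4) (nat_lit 341) (nat_lit 267) (nat_lit 172)) (XT.lf (nat_lit 0) (nat_lit 243712438986) (nat_lit 152) (nat_lit 205810419800) (nat_lit 0) (nat_lit 218516444431) (nat_lit 2) (nat_lit 5) (nat_lit 4) (nat_lit 4) (nat_lit 2) (nat_lit 4) (nat_lit 342) (nat_lit 267) (nat_lit 171))) (XT.nd (nat_lit 78) (nat_lit 0) (nat_lit 0) (XT.lf (nat_lit 0) (nat_lit 273769233705) (nat_lit 152) (nat_lit 198125626498) (nat_lit 0) (nat_lit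 248572084139) (nat_lit 2) (nat_lit 5) (nat_lit 4) (nat_lit 4) (nat_lit 2) (nat_lit 4) (nat_lit 343) (nat_lit 267) (nat_lit 170)) (XT.lf (nat_lit 0) (nat_lit 306229463654) (nat_lit 152) (nat_lit 189828177963) (nat_lit 0) (nat_lit 281031244634) (nat_lit 2) (nat_lit 5) (nat_lit 4) (nat_lit 4) (nat_lit 2) (nat_lit 4) (nat_lit 344) (nat_lit 267) (nat_lit 169)))))) (XT.nd (nat_lit 546) (nat_lit 76) (nat_lit 0) (XT.nd (nat_lit 234) (nat_lit 0) (nat_lit 0) (XT.nd (nat_lit 78) (nat_lit 0) (nat_lit 0) (XT.lf (nat_lit 0) (nat_lit 341285485751) (nat_lit 152) (nat_lit 180868904129) (nat_lit 0) (nat_lit 316086276496) (nat_lit 2) (nat_lit 5) (nat_lit 4) (nat_lit 4) (nat_lit 2) (nat_lit 4) (nat_lit 345) (nat_lit 267) (nat_lit 168)) (XT.nd (nat_lit 78) (nat_lit 0) (nat_lit 0) (XT.lf (nat_lit 0) (nat_lit 379145039387) (nat_lit 152) (nat_lit 171194713003) (nat_lit 0) (nat_lit 353944913247) (nat_lit 2)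 (nat_lit 5) (nat_lit 4) (nat_lit 4) (nat_lit 2) (nat_lit 4) (nat_lit 346) (nat_lit 267) (nat_lit 167)) (XT.lf (nat_lit 0) (nat_lit 420032477472) (nat_lit 152) (nat_lit 160748276045) (nat_lit 0) (nat_lit 394831502365) (nat_lit 2) (nat_lit 5) (nat_lit 4) (nat_lit 4) (nat_lit 2) (nat_lit 4) (nat_lit 347) (nat_lit 267) (nat_lit 166)))) (XT.nd (nat_lit 156) (nat_lit 0) (nat_lit 0) (XT.nd (nat_lit 78) (nat_lit 0) (nat_lit 0) (XT.lf (nat_lit 0) (nat_lit 464190095935) (nat_lit 152) (nat_lit 149467688444) (nat_lit 0) (nat_lit 438988334748) (nat_lit 2) (nat_lit 5) (nat_lit 4) (nat_lit 4) (nat_lit 2) (nat_lit 4) (nat_lit 348) (nat_lit 267) (nat_lit 165)) (XT.lf (nat_lit 0) (nat_lit 511879569553) (nat_lit 152) (nat_lit 137286102273) (nat_lit 0) (nat_lit 486677080513) (nat_lit 2) (nat_lit 5) (nat_lit 4) (nat_lit 4) (nat_lit 2) (nat_lit 4) (nat_lit 349) (nat_lit 267) (nat_lit 164))) (XT.nd (nat_lit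 78) (nat_lit 0) (nat_lit 0) (XT.lf (nat_lit 0) (nat_lit 563383502613) (nat_lit 152) (nat_lit 124131330354) (nat_lit 0) (nat_lit 538180339635) (nat_lit 2) (nat_lit 5) (nat_lit 4) (nat_lit 4) (nat_lit 2) (nat_lit 4) (nat_lit 350) (nat_lit 267) (nat_lit 163)) (XT.lf (nat_lit 0) (nat_lit 619007103608) (nat_lit 152) (nat_lit 109925418484) (nat_lit 0) (nat_lit 593803316614) (nat_lit 2) (nat_lit 5) (nat_lit 4) (nat_lit 4) (nat_lit 2) (nat_lit 4) (nat_lit 351) (nat_lit 267) (nat_lit 162))))) (XT.nd (nat_lit 312) (nat_lit 76) (nat_lit 0) (XT.nd (nat_lit 156) (nat_lit 0) (nat_lit 0) (XT.nd (nat_lit 78) (nat_lit 0) (nat_lit 0) (XT.lf (nat_lit 0) (nat_lit 679079993876) (nat_lit 152) (nat_lit 94584183482) (nat_lit 0) (nat_lit 653875629090) (nat_lit 2) (nat_lit 5) (nat_lit 4) (nat_lit 4) (nat_lit 2) (nat_lit 4) (nat_lit 352) (nat_lit 267) (nat_lit 161)) (XT.lf (nat_lit 0) (nat_lit 743958160917) (nat_lit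 152) (nat_lit 78016714324) (nat_lit 0) (nat_lit 718753261137) (nat_lit 2) (nat_lit 5) (nat_lit 4) (nat_lit 4) (nat_lit 2) (nat_lit 4) (nat_lit 353) (nat_lit 267) (nat_lit 160))) (XT.nd (nat_lit 78) (nat_lit 0) (nat_lit 0) (XT.lf (nat_lit 0) (nat_lit 814026067942) (nat_lit 152) (nat_lit 60124833417) (nat_lit 0) (nat_lit 788820672798) (nat_lit 2) (nat_lit 5) (nat_lit 4) (nat_lit 4) (nat_lit 2) (nat_lit 4) (nat_lit 354) (nat_lit 267) (nat_lit 159)) (XT.lf (nat_lit 0) (nat_lit 889698932177) (nat_lit 152) (nat_lit 40802514798) (nat_lit 0) (nat_lit 864493078363) (nat_lit 2) (nat_lit 5) (nat_lit 4) (nat_lit 4) (nat_lit 2) (nat_lit 4) (nat_lit 355) (nat_lit 267) (nat_lit 158)))) (XT.nd (nat_lit 156) (nat_lit 0) (nat_lit 0) (XT.nd (nat_lit 78) (nat_lit 76) (nat_lit 0) (XT.lf (nat_lit 0) (nat_lit 971425185411) (nat_lit 152) (nat_lit 19935255840) (nat_lit 0) (nat_lit 946218906902) (nat_lit 2)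 (nat_lit 5) (nat_lit 4) (nat_lit 4) (nat_lit 2) (nat_lit 4) (nat_lit 356) (nat_lit 267) (nat_lit 157)) (XT.lf (nat_lit 0) (nat_lit 2737544343) (nat_lit 76) (nat_lit 1057017425031) (nat_lit 76) (nat_lit 1031810753286) (nat_lit 1) (nat_lit 4) (nat_lit 2) (nat_lit 5) (nat_lit 2) (nat_lit 4) (nat_lit 357) (nat_lit 267) (nat_lit 156))) (XT.nd (nat_lit 78) (nat_lit 0) (nat_lit 0) (XT.lf (nat_lit 0) (nat_lit 28357141471) (nat_lit 76) (nat_lit 1127338664114) (nat_lit 76) (nat_lit 1102131628261) (nat_lit 1) (nat_lit 4) (nat_lit 2) (nat_lit 5) (nat_lit 2) (nat_lit 4) (nat_lit 358) (nat_lit 267) (nat_lit 155)) (XT.lf (nat_lit 0) (nat_lit 56025600133) (nat_lit 76) (nat_lit 1203285942176) (nat_lit 76) (nat_lit 1178078569187) (nat_lit 1) (nat_lit 4) (nat_lit 2) (nat_lit 5) (nat_lit 2) (nat_lit 4) (nat_lit 359) (nat_lit 267) (nat_lit 154))))))))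
noncomputable def xc63 : XT := (XT.nd (nat_lit 35256) (nat_lit 0) (nat_lit 304) (XT.nd (nat_lit 34086) (nat_lit 0) (nat_lit 1444) (XT.nd (nat_lit 33540) (nat_lit 0) (nat_lit 3268) (XT.nd (nat_lit 234) (nat_lit 0) (nat_lit 0) (XT.nd (nat_lit 78) (nat_lit 0) (nat_lit 0) (XT.lf (nat_lit 0) (nat_lit 85906881566) (nat_lit 76) (nat_lit 1285309317163) (nat_lit 76) (nat_lit 1260101632010) (nat_lit 1) (nat_lit 4) (nat_lit 2) (nat_lit 5) (nat_lit 2) (nat_lit 4) (nat_lit 360) (nat_lit 267) (nat_lit 153)) (XT.nd (nat_lit 78) (nat_lit 0) (nat_lit 0) (XT.lf (nat_lit 0) (nat_lit 118178060030) (nat_lit 76) (nat_lit 1373894853519) (nat_lit 76) (nat_lit 1348686879326) (nat_lit 1) (nat_lit 4) (nat_lit 2) (nat_lit 5) (nat_lit 2) (nat_lit 4) (nat_lit 361) (nat_lit 267) (nat_lit 152)) (XT.lf (nat_lit 0) (nat_lit 153030372138) (nat_lit 76) (nat_lit 1469567502570) (nat_lit 76) (nat_lit 1444359260747) (nat_lit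 1) (nat_lit 4) (nat_lit 2) (nat_lit 5) (nat_lit 2) (nat_lit 4) (nat_lit 362) (nat_lit 267) (nat_lit 151)))) (XT.nd (nat_lit 156) (nat_lit 0) (nat_lit 0) (XT.nd (nat_lit 78) (nat_lit 0) (nat_lit 0) (XT.lf (nat_lit 0) (nat_lit 190670350111) (nat_lit 76) (nat_lit 1572894213347) (nat_lit 76) (nat_lit 1547685723719) (nat_lit 1) (nat_lit 4) (nat_lit 2) (nat_lit 5) (nat_lit 2) (nat_lit 4) (nat_lit 363) (nat_lit 267) (nat_lit 150)) (XT.lf (nat_lit 0) (nat_lit 231321045669) (nat_lit 76) (nat_lit 1684487292285) (nat_lit 76) (nat_lit 1659278573207) (nat_lit 1) (nat_lit 4) (nat_lit 2) (nat_lit 5) (nat_lit 2) (nat_lit 4) (nat_lit 364) (nat_lit 267) (nat_lit 149))) (XT.nd (nat_lit 33072) (nat_lit 0) (nat_lit 3648) (XT.lf (nat_lit 0) (nat_lit 275223351824) (nat_lit 76) (nat_lit 1805008031704) (nat_lit 76) (nat_lit 1779799100173) (nat_lit 1) (nat_lit 4) (nat_lit 2) (nat_lit 5) (nat_lit 2) (nat_lit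 4) (nat_lit 365) (nat_lit 267) (nat_lit 148)) (XT.lf (nat_lit 0) (nat_lit 770528362) (nat_lit 0) (nat_lit 770528362) (nat_lit 380) (nat_lit 2619664868) (nat_lit 49) (nat_lit 5) (nat_lit 49) (nat_lit 3) (nat_lit 54) (nat_lit 3) (nat_lit 268) (nat_lit 268) (nat_lit 244))))) (XT.nd (nat_lit 234) (nat_lit 380) (nat_lit 0) (XT.nd (nat_lit 78) (nat_lit 0) (nat_lit 0) (XT.lf (nat_lit 0) (nat_lit 4242371408) (nat_lit 380) (nat_lit 3042312768) (nat_lit 456) (nat_lit 1282454195) (nat_lit 49) (nat_lit 5) (nat_lit 54) (nat_lit 3) (nat_lit 55) (nat_lit 5) (nat_lit 269) (nat_lit 268) (nat_lit 243)) (XT.nd (nat_lit 78) (nat_lit 0) (nat_lit 0) (XT.lf (nat_lit 76) (nat_lit 941982602) (nat_lit 0) (nat_lit 4516859114) (nat_lit 456) (nat_lit 3376996787) (nat_lit 50) (nat_lit 5) (nat_lit 49) (nat_lit 5) (nat_lit 55) (nat_lit 5) (nat_lit 270) (nat_lit 268) (nat_lit 242)) (XT.lf (nat_lit 76) (nat_lit 5359638996)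 (nat_lit 0) (nat_lit 1402832724) (nat_lit 456) (nat_lit 2364765070) (nat_lit 50) (nat_lit 5) (nat_lit 49) (nat_lit 5) (nat_lit 55) (nat_lit 5) (nat_lit 271) (nat_lit 268) (nat_lit 241)))) (XT.nd (nat_lit 156) (nat_lit 456) (nat_lit 0) (XT.nd (nat_lit 78) (nat_lit 0) (nat_lit 0) (XT.lf (nat_lit 76) (nat_lit 610001722) (nat_lit 0) (nat_lit 7536558563) (nat_lit 456) (nat_lit 1297653856) (nat_lit 51) (nat_lit 5) (nat_lit 50) (nat_lit 5) (nat_lit 56) (nat_lit 5) (nat_lit 272) (nat_lit 268) (nat_lit 240)) (XT.lf (nat_lit 76) (nat_lit 5453164409) (nat_lit 0) (nat_lit 4245978982) (nat_lit 456) (nat_lit 83118835) (nat_lit 51) (nat_lit 5) (nat_lit 50) (nat_lit 5) (nat_lit 56) (nat_lit 5) (nat_lit 273) (nat_lit 268) (nat_lit 239))) (XT.nd (nat_lit 78) (nat_lit 0) (nat_lit 76) (XT.lf (nat_lit 76) (nat_lit 469977151) (nat_lit 0) (nat_lit 631432412) (nat_lit 532) (nat_lit 9049123980) (nat_lit 45)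 (nat_lit 5) (nat_lit 44) (nat_lit 5) (nat_lit 51) (nat_lit 5) (nat_lit 274) (nat_lit 268) (nat_lit 238)) (XT.lf (nat_lit 0) (nat_lit 2503955301) (nat_lit 456) (nat_lit 4788849558) (nat_lit 76) (nat_lit 3245334435) (nat_lit 45) (nat_lit 5) (nat_lit 51) (nat_lit 5) (nat_lit 46) (nat_lit 5) (nat_lit 275) (nat_lit 268) (nat_lit 237)))))) (XT.nd (nat_lit 546) (nat_lit 684) (nat_lit 0) (XT.nd (nat_lit 234) (nat_lit 532) (nat_lit 0) (XT.nd (nat_lit 78) (nat_lit 228) (nat_lit 0) (XT.lf (nat_lit 0) (nat_lit 439307592) (nat_lit 456) (nat_lit 3539333353) (nat_lit 532) (nat_lit 6981563114) (nat_lit 39) (nat_lit 5) (nat_lit 45) (nat_lit 5) (nat_lit 46) (nat_lit 5) (nat_lit 276) (nat_lit 268) (nat_lit 236)) (XT.nd (nat_lit 78) (nat_lit 228) (nat_lit 0) (XT.lf (nat_lit 0) (nat_lit 5654637123) (nat_lit 532) (nat_lit 5127614331) (nat_lit 76) (nat_lit 627342973) (nat_lit 39) (nat_lit 5) (nat_lit 46)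 (nat_lit 5) (nat_lit 40) (nat_lit 5) (nat_lit 277) (nat_lit 268) (nat_lit 235)) (XT.lf (nat_lit 0) (nat_lit 574351425) (nat_lit 228) (nat_lit 6937427144) (nat_lit 304) (nat_lit 4379602648) (nat_lit 36) (nat_lit 5) (nat_lit 39) (nat_lit 5) (nat_lit 40) (nat_lit 5) (nat_lit 278) (nat_lit 268) (nat_lit 234)))) (XT.nd (nat_lit 156) (nat_lit 304) (nat_lit 0) (XT.nd (nat_lit 78) (nat_lit 228) (nat_lit 0) (XT.lf (nat_lit 0) (nat_lit 6966015157) (nat_lit 228) (nat_lit 2635945837) (nat_lit 304) (nat_lit 2803187233) (nat_lit 36) (nat_lit 5) (nat_lit 39) (nat_lit 5) (nat_lit 40) (nat_lit 5) (nat_lit 279) (nat_lit 268) (nat_lit 233)) (XT.lf (nat_lit 0) (nat_lit 844902658) (nat_lit 228) (nat_lit 11031454971) (nat_lit 304) (nat_lit 1082479419) (nat_lit 33) (nat_lit 5) (nat_lit 36) (nat_lit 5) (nat_lit 37) (nat_lit 5) (nat_lit 280) (nat_lit 268) (nat_lit 232))) (XT.nd (nat_lit 78) (nat_lit 228) (nat_lit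 0) (XT.lf (nat_lit 0) (nat_lit 907493617) (nat_lit 304) (nat_lit 5754300424) (nat_lit 76) (nat_lit 6880055087) (nat_lit 32) (nat_lit 5) (nat_lit 36) (nat_lit 5) (nat_lit 33) (nat_lit 5) (nat_lit 281) (nat_lit 268) (nat_lit 231)) (XT.lf (nat_lit 0) (nat_lit 1085299997) (nat_lit 228) (nat_lit 1892110935) (nat_lit 304) (nat_lit 11193646882) (nat_lit 29) (nat_lit 5) (nat_lit 32) (nat_lit 5) (nat_lit 33) (nat_lit 5) (nat_lit 282) (nat_lit 268) (nat_lit 230))))) (XT.nd (nat_lit 312) (nat_lit 380) (nat_lit 0) (XT.nd (nat_lit 156) (nat_lit 152) (nat_lit 0) (XT.nd (nat_lit 78) (nat_lit 152) (nat_lit 0) (XT.lf (nat_lit 0) (nat_lit 5407819802) (nat_lit 304) (nat_lit 6178246031) (nat_lit 76) (nat_lit 3249078120) (nat_lit 29) (nat_lit 5) (nat_lit 33) (nat_lit 5) (nat_lit 30) (nat_lit 5) (nat_lit 283) (nat_lit 268) (nat_lit 229)) (XT.lf (nat_lit 0) (nat_lit 1241997998) (nat_lit 152) (nat_lit 6828101678)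 (nat_lit 228) (nat_lit 7479385033) (nat_lit 27) (nat_lit 5) (nat_lit 29) (nat_lit 5) (nat_lit 30) (nat_lit 5) (nat_lit 284) (nat_lit 268) (nat_lit 228))) (XT.nd (nat_lit 78) (nat_lit 152) (nat_lit 0) (XT.lf (nat_lit 0) (nat_lit 9555709189) (nat_lit 152) (nat_lit 1518840308) (nat_lit 228) (nat_lit 5236201917) (nat_lit 27) (nat_lit 5) (nat_lit 29) (nat_lit 5) (nat_lit 30) (nat_lit 5) (nat_lit 285) (nat_lit 268) (nat_lit 227)) (XT.lf (nat_lit 0) (nat_lit 1315546820) (nat_lit 152) (nat_lit 13099766700) (nat_lit 228) (nat_lit 2710034550) (nat_lit 25) (nat_lit 5) (nat_lit 27) (nat_lit 5) (nat_lit 28) (nat_lit 5) (nat_lit 286) (nat_lit 268) (nat_lit 226)))) (XT.nd (nat_lit 156) (nat_lit 152) (nat_lit 0) (XT.nd (nat_lit 78) (nat_lit 152) (nat_lit 0) (XT.lf (nat_lit 0) (nat_lit 209748379) (nat_lit 228) (nat_lit 7670294508) (nat_lit 76) (nat_lit 10109730044) (nat_lit 24) (nat_lit 5) (nat_lit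 27) (nat_lit 5) (nat_lit 25) (nat_lit 5) (nat_lit 287) (nat_lit 268) (nat_lit 225)) (XT.lf (nat_lit 0) (nat_lit 1055349320) (nat_lit 152) (nat_lit 2152929314) (nat_lit 228) (nat_lit 15710199319) (nat_lit 22) (nat_lit 5) (nat_lit 24) (nat_lit 5) (nat_lit 25) (nat_lit 5) (nat_lit 288) (nat_lit 268) (nat_lit 224))) (XT.nd (nat_lit 78) (nat_lit 152) (nat_lit 0) (XT.lf (nat_lit 0) (nat_lit 6726092073) (nat_lit 228) (nat_lit 9140429437) (nat_lit 76) (nat_lit 4032683185) (nat_lit 22) (nat_lit 5) (nat_lit 25) (nat_lit 5) (nat_lit 23) (nat_lit 5) (nat_lit 289) (nat_lit 268) (nat_lit 223)) (XT.lf (nat_lit 0) (nat_lit 188635795) (nat_lit 152) (nat_lit 10366833083) (nat_lit 228) (nat_lit 10400581282) (nat_lit 20) (nat_lit 5) (nat_lit 22) (nat_lit 5) (nat_lit 23) (nat_lit 5) (nat_lit 290) (nat_lit 268) (nat_lit 222))))))) (XT.nd (nat_lit 1170) (nat_lit 380) (nat_lit 0) (XT.nd (nat_lit 546) (nat_lit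 380) (nat_lit 0) (XT.nd (nat_lit 234) (nat_lit 228) (nat_lit 0) (XT.nd (nat_lit 78) (nat_lit 152) (nat_lit 0) (XT.lf (nat_lit 0) (nat_lit 10740022963) (nat_lit 152) (nat_lit 4171961529) (nat_lit 228) (nat_lit 7167862014) (nat_lit 20) (nat_lit 5) (nat_lit 22) (nat_lit 5) (nat_lit 23) (nat_lit 5) (nat_lit 291) (nat_lit 268) (nat_lit 221)) (XT.nd (nat_lit 78) (nat_lit 152) (nat_lit 0) (XT.lf (nat_lit 0) (nat_lit 19650294644) (nat_lit 228) (nat_lit 1261068159) (nat_lit 76) (nat_lit 2379583320) (nat_lit 20) (nat_lit 5) (nat_lit 23) (nat_lit 5) (nat_lit 21) (nat_lit 4) (nat_lit 292) (nat_lit 268) (nat_lit 220)) (XT.lf (nat_lit 0) (nat_lit 491624686) (nat_lit 152) (nat_lit 14610293738) (nat_lit 76) (nat_lit 9470236928) (nat_lit 18) (nat_lit 5) (nat_lit 20) (nat_lit 5) (nat_lit 19) (nat_lit 5) (nat_lit 293) (nat_lit 268) (nat_lit 219)))) (XT.nd (nat_lit 156) (nat_lit 76) (nat_lit 0) (XT.nd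 (nat_lit 78) (nat_lit 152) (nat_lit 0) (XT.lf (nat_lit 0) (nat_lit 4768162417) (nat_lit 152) (nat_lit 3933913584) (nat_lit 76) (nat_lit 17245439553) (nat_lit 18) (nat_lit 5) (nat_lit 20) (nat_lit 5) (nat_lit 19) (nat_lit 5) (nat_lit 294) (nat_lit 268) (nat_lit 218)) (XT.lf (nat_lit 0) (nat_lit 7957907710) (nat_lit 152) (nat_lit 1597149435) (nat_lit 228) (nat_lit 17864433857) (nat_lit 16) (nat_lit 5) (nat_lit 18) (nat_lit 5) (nat_lit 19) (nat_lit 5) (nat_lit 295) (nat_lit 268) (nat_lit 217))) (XT.nd (nat_lit 78) (nat_lit 76) (nat_lit 0) (XT.lf (nat_lit 0) (nat_lit 14958763782) (nat_lit 228) (nat_lit 8162071719) (nat_lit 76) (nat_lit 5869721963) (nat_lit 16) (nat_lit 5) (nat_lit 19) (nat_lit 5) (nat_lit 17) (nat_lit 4) (nat_lit 296) (nat_lit 268) (nat_lit 216)) (XT.lf (nat_lit 0) (nat_lit 4174163781) (nat_lit 76) (nat_lit 16741526612) (nat_lit 152) (nat_lit 9761983685) (nat_lit 15) (nat_lit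 5) (nat_lit 16) (nat_lit 5) (nat_lit 17) (nat_lit 4) (nat_lit 297) (nat_lit 268) (nat_lit 215))))) (XT.nd (nat_lit 312) (nat_lit 152) (nat_lit 0) (XT.nd (nat_lit 156) (nat_lit 152) (nat_lit 0) (XT.nd (nat_lit 78) (nat_lit 76) (nat_lit 0) (XT.lf (nat_lit 0) (nat_lit 17927796163) (nat_lit 76) (nat_lit 9624332452) (nat_lit 152) (nat_lit 4931430646) (nat_lit 15) (nat_lit 5) (nat_lit 16) (nat_lit 5) (nat_lit 17) (nat_lit 4) (nat_lit 298) (nat_lit 268) (nat_lit 214)) (XT.lf (nat_lit 0) (nat_lit 252052773) (nat_lit 152) (nat_lit 1691298220) (nat_lit 76) (nat_lit 32491583858) (nat_lit 14) (nat_lit 5) (nat_lit 16) (nat_lit 5) (nat_lit 15) (nat_lit 5) (nat_lit 299) (nat_lit 268) (nat_lit 213))) (XT.nd (nat_lit 78) (nat_lit 0) (nat_lit 0) (XT.lf (nat_lit 0) (nat_lit 6034632209) (nat_lit 228) (nat_lit 23994333846) (nat_lit 76) (nat_lit 6467168340) (nat_lit 12) (nat_lit 5) (nat_lit 15) (nat_lit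 5) (nat_lit 13) (nat_lit 4) (nat_lit 300) (nat_lit 268) (nat_lit 212)) (XT.lf (nat_lit 0) (nat_lit 12360267410) (nat_lit 228) (nat_lit 10873881078) (nat_lit 76) (nat_lit 15481671806) (nat_lit 12) (nat_lit 5) (nat_lit 15) (nat_lit 5) (nat_lit 13) (nat_lit 4) (nat_lit 301) (nat_lit 268) (nat_lit 211)))) (XT.nd (nat_lit 156) (nat_lit 76) (nat_lit 0) (XT.nd (nat_lit 78) (nat_lit 0) (nat_lit 0) (XT.lf (nat_lit 0) (nat_lit 3440339377) (nat_lit 76) (nat_lit 15818177028) (nat_lit 152) (nat_lit 21849264015) (nat_lit 11) (nat_lit 5) (nat_lit 12) (nat_lit 5) (nat_lit 13) (nat_lit 4) (nat_lit 302) (nat_lit 268) (nat_lit 210)) (XT.lf (nat_lit 0) (nat_lit 19490844535) (nat_lit 76) (nat_lit 7499457405) (nat_lit 152) (nat_lit 16678283872) (nat_lit 11) (nat_lit 5) (nat_lit 12) (nat_lit 5) (nat_lit 13) (nat_lit 4) (nat_lit 303) (nat_lit 268) (nat_lit 209))) (XT.nd (nat_lit 78) (nat_lit 76) (nat_lit 0)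 (XT.lf (nat_lit 0) (nat_lit 35361603497) (nat_lit 152) (nat_lit 9670735095) (nat_lit 0) (nat_lit 1400260102) (nat_lit 11) (nat_lit 5) (nat_lit 13) (nat_lit 4) (nat_lit 11) (nat_lit 4) (nat_lit 304) (nat_lit 268) (nat_lit 208)) (XT.lf (nat_lit 0) (nat_lit 6082066899) (nat_lit 76) (nat_lit 38647963412) (nat_lit 76) (nat_lit 4661527969) (nat_lit 10) (nat_lit 4) (nat_lit 11) (nat_lit 5) (nat_lit 11) (nat_lit 4) (nat_lit 305) (nat_lit 268) (nat_lit 207)))))) (XT.nd (nat_lit 546) (nat_lit 152) (nat_lit 0) (XT.nd (nat_lit 234) (nat_lit 76) (nat_lit 0) (XT.nd (nat_lit 78) (nat_lit 76) (nat_lit 0) (XT.lf (nat_lit 0) (nat_lit 2405329489) (nat_lit 152) (nat_lit 29006583483) (nat_lit 76) (nat_lit 21150370914) (nat_lit 9) (nat_lit 5) (nat_lit 11) (nat_lit 5) (nat_lit 10) (nat_lit 4) (nat_lit 306) (nat_lit 268) (nat_lit 206)) (XT.nd (nat_lit 78) (nat_lit 76) (nat_lit 0) (XT.lf (nat_lit 0) (nat_lit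 9773135561) (nat_lit 152) (nat_lit 13703059239) (nat_lit 76) (nat_lit 32501806330) (nat_lit 9) (nat_lit 5) (nat_lit 11) (nat_lit 5) (nat_lit 10) (nat_lit 4) (nat_lit 307) (nat_lit 268) (nat_lit 205)) (XT.lf (nat_lit 0) (nat_lit 2951526048) (nat_lit 76) (nat_lit 14838198053) (nat_lit 152) (nat_lit 41872517247) (nat_lit 8) (nat_lit 5) (nat_lit 9) (nat_lit 5) (nat_lit 10) (nat_lit 4) (nat_lit 308) (nat_lit 268) (nat_lit 204)))) (XT.nd (nat_lit 156) (nat_lit 76) (nat_lit 0) (XT.nd (nat_lit 78) (nat_lit 0) (nat_lit 0) (XT.lf (nat_lit 0) (nat_lit 21697443404) (nat_lit 76) (nat_lit 5113607986) (nat_lit 152) (nat_lit 36801109640) (nat_lit 8) (nat_lit 5) (nat_lit 9) (nat_lit 5) (nat_lit 10) (nat_lit 4) (nat_lit 309) (nat_lit 268) (nat_lit 203)) (XT.lf (nat_lit 0) (nat_lit 36673066290) (nat_lit 152) (nat_lit 26084121242) (nat_lit 0) (nat_lit 5111380442) (nat_lit 8) (nat_lit 5) (nat_lit 10) (nat_lit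 4) (nat_lit 8) (nat_lit 4) (nat_lit 310) (nat_lit 268) (nat_lit 202))) (XT.nd (nat_lit 78) (nat_lit 76) (nat_lit 0) (XT.lf (nat_lit 0) (nat_lit 47447027318) (nat_lit 152) (nat_lit 9137932158) (nat_lit 0) (nat_lit 15870700502) (nat_lit 8) (nat_lit 5) (nat_lit 10) (nat_lit 4) (nat_lit 8) (nat_lit 4) (nat_lit 311) (nat_lit 268) (nat_lit 201)) (XT.lf (nat_lit 0) (nat_lit 9628932062) (nat_lit 76) (nat_lit 49676441761) (nat_lit 76) (nat_lit 18086558492) (nat_lit 7) (nat_lit 4) (nat_lit 8) (nat_lit 5) (nat_lit 8) (nat_lit 4) (nat_lit 312) (nat_lit 268) (nat_lit 200))))) (XT.nd (nat_lit 312) (nat_lit 0) (nat_lit 0) (XT.nd (nat_lit 156) (nat_lit 152) (nat_lit 0) (XT.nd (nat_lit 78) (nat_lit 0) (nat_lit 0) (XT.lf (nat_lit 0) (nat_lit 30400552288) (nat_lit 76) (nat_lit 41952858769) (nat_lit 76) (nat_lit 10350423229) (nat_lit 7) (nat_lit 4) (nat_lit 8) (nat_lit 5) (nat_lit 8) (nat_lit 4) (nat_lit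 313) (nat_lit 268) (nat_lit 199)) (XT.lf (nat_lit 0) (nat_lit 52818832289) (nat_lit 76) (nat_lit 33618288379) (nat_lit 76) (nat_lit 2004230365) (nat_lit 7) (nat_lit 4) (nat_lit 8) (nat_lit 5) (nat_lit 8) (nat_lit 4) (nat_lit 314) (nat_lit 268) (nat_lit 198))) (XT.nd (nat_lit 78) (nat_lit 76) (nat_lit 0) (XT.lf (nat_lit 0) (nat_lit 6651236682) (nat_lit 152) (nat_lit 17790247262) (nat_lit 76) (nat_lit 70183527850) (nat_lit 6) (nat_lit 5) (nat_lit 8) (nat_lit 5) (nat_lit 7) (nat_lit 4) (nat_lit 315) (nat_lit 268) (nat_lit 197)) (XT.lf (nat_lit 0) (nat_lit 1477134331) (nat_lit 76) (nat_lit 14442057155) (nat_lit 152) (nat_lit 85377749945) (nat_lit 5) (nat_lit 5) (nat_lit 6) (nat_lit 5) (nat_lit 7) (nat_lit 4) (nat_lit 316) (nat_lit 268) (nat_lit 196)))) (XT.nd (nat_lit 156) (nat_lit 0) (nat_lit 0) (XT.nd (nat_lit 78) (nat_lit 0) (nat_lit 0) (XT.lf (nat_lit 0) (nat_lit 23284684519) (nat_lit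 76) (nat_lit 3123341814) (nat_lit 152) (nat_lit 82056250206) (nat_lit 5) (nat_lit 5) (nat_lit 6) (nat_lit 5) (nat_lit 7) (nat_lit 4) (nat_lit 317) (nat_lit 268) (nat_lit 195)) (XT.lf (nat_lit 0) (nat_lit 37948253918) (nat_lit 152) (nat_lit 69599433402) (nat_lit 0) (nat_lit 8640334363) (nat_lit 5) (nat_lit 5) (nat_lit 7) (nat_lit 4) (nat_lit 5) (nat_lit 4) (nat_lit 318) (nat_lit 268) (nat_lit 194))) (XT.nd (nat_lit 78) (nat_lit 0) (nat_lit 0) (XT.lf (nat_lit 0) (nat_lit 50486723423) (nat_lit 152) (nat_lit 52865467031) (nat_lit 0) (nat_lit 21171479739) (nat_lit 5) (nat_lit 5) (nat_lit 7) (nat_lit 4) (nat_lit 5) (nat_lit 4) (nat_lit 319) (nat_lit 268) (nat_lit 193)) (XT.lf (nat_lit 0) (nat_lit 64022620446) (nat_lit 152) (nat_lit 34803412217) (nat_lit 0) (nat_lit 34700595160) (nat_lit 5) (nat_lit 5) (nat_lit 7) (nat_lit 4) (nat_lit 5) (nat_lit 4) (nat_lit 320) (nat_lit 268) (nat_lit 192))))))))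
noncomputable def xc64 : XT := (XT.nd (nat_lit 2262) (nat_lit 76) (nat_lit 0) (XT.nd (nat_lit 1092) (nat_lit 0) (nat_lit 0) (XT.nd (nat_lit 546) (nat_lit 152) (nat_lit 0) (XT.nd (nat_lit 234) (nat_lit 0) (nat_lit 0) (XT.nd (nat_lit 78) (nat_lit 76) (nat_lit 0) (XT.lf (nat_lit 0) (nat_lit 78636157708) (nat_lit 152) (nat_lit 15306234559) (nat_lit 0) (nat_lit 49307853161) (nat_lit 5) (nat_lit 5) (nat_lit 7) (nat_lit 4) (nat_lit 5) (nat_lit 4) (nat_lit 321) (nat_lit 268) (nat_lit 191)) (XT.nd (nat_lit 78) (nat_lit 0) (nat_lit 0) (XT.lf (nat_lit 0) (nat_lit 6043947504) (nat_lit 76) (nat_lit 88515343529) (nat_lit 76) (nat_lit 59181224852) (nat_lit 4) (nat_lit 4) (nat_lit 5) (nat_lit 5) (nat_lit 5) (nat_lit 4) (nat_lit 322) (nat_lit 268) (nat_lit 190)) (XT.lf (nat_lit 0) (nat_lit 29963741412) (nat_lit 76) (nat_lit 82206334393) (nat_lit 76) (nat_lit 52866832262) (nat_lit 4) (nat_lit 4) (nat_lit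 5) (nat_lit 5) (nat_lit 5) (nat_lit 4) (nat_lit 323) (nat_lit 268) (nat_lit 189)))) (XT.nd (nat_lit 156) (nat_lit 0) (nat_lit 0) (XT.nd (nat_lit 78) (nat_lit 0) (nat_lit 0) (XT.lf (nat_lit 0) (nat_lit 55788894905) (nat_lit 76) (nat_lit 75396477718) (nat_lit 76) (nat_lit 46051990908) (nat_lit 4) (nat_lit 4) (nat_lit 5) (nat_lit 5) (nat_lit 5) (nat_lit 4) (nat_lit 324) (nat_lit 268) (nat_lit 188)) (XT.lf (nat_lit 0) (nat_lit 83672445930) (nat_lit 76) (nat_lit 68045418797) (nat_lit 76) (nat_lit 38696316543) (nat_lit 4) (nat_lit 4) (nat_lit 5) (nat_lit 5) (nat_lit 5) (nat_lit 4) (nat_lit 325) (nat_lit 268) (nat_lit 187))) (XT.nd (nat_lit 78) (nat_lit 0) (nat_lit 0) (XT.lf (nat_lit 0) (nat_lit 113779630345) (nat_lit 76) (nat_lit 60109595800) (nat_lit 76) (nat_lit 30756219986) (nat_lit 4) (nat_lit 4) (nat_lit 5) (nat_lit 5) (nat_lit 5) (nat_lit 4) (nat_lit 326) (nat_lit 268) (nat_lit 186))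 (XT.lf (nat_lit 0) (nat_lit 146288861094) (nat_lit 76) (nat_lit 51541981628) (nat_lit 76) (nat_lit 22184648814) (nat_lit 4) (nat_lit 4) (nat_lit 5) (nat_lit 5) (nat_lit 5) (nat_lit 4) (nat_lit 327) (nat_lit 268) (nat_lit 185))))) (XT.nd (nat_lit 234) (nat_lit 76) (nat_lit 0) (XT.nd (nat_lit 78) (nat_lit 76) (nat_lit 0) (XT.lf (nat_lit 0) (nat_lit 181392785470) (nat_lit 76) (nat_lit 42291805233) (nat_lit 76) (nat_lit 12930808531) (nat_lit 4) (nat_lit 4) (nat_lit 5) (nat_lit 5) (nat_lit 5) (nat_lit 4) (nat_lit 328) (nat_lit 268) (nat_lit 184)) (XT.nd (nat_lit 78) (nat_lit 76) (nat_lit 0) (XT.lf (nat_lit 0) (nat_lit 219299426729) (nat_lit 76) (nat_lit 32304250755) (nat_lit 76) (nat_lit 2939861564) (nat_lit 4) (nat_lit 4) (nat_lit 5) (nat_lit 5) (nat_lit 5) (nat_lit 4) (nat_lit 329) (nat_lit 268) (nat_lit 183)) (XT.lf (nat_lit 0) (nat_lit 7454839082) (nat_lit 152) (nat_lit 13861465092)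 (nat_lit 76) (nat_lit 252574749225) (nat_lit 3) (nat_lit 5) (nat_lit 5) (nat_lit 5) (nat_lit 4) (nat_lit 4) (nat_lit 330) (nat_lit 268) (nat_lit 182)))) (XT.nd (nat_lit 156) (nat_lit 0) (nat_lit 0) (XT.nd (nat_lit 78) (nat_lit 0) (nat_lit 0) (XT.lf (nat_lit 0) (nat_lit 9632344849) (nat_lit 76) (nat_lit 9118993490) (nat_lit 152) (nat_lit 276010599720) (nat_lit 2) (nat_lit 5) (nat_lit 3) (nat_lit 5) (nat_lit 4) (nat_lit 4) (nat_lit 331) (nat_lit 268) (nat_lit 181)) (XT.lf (nat_lit 0) (nat_lit 31435315621) (nat_lit 152) (nat_lit 281590507938) (nat_lit 0) (nat_lit 4237971209) (nat_lit 2) (nat_lit 5) (nat_lit 4) (nat_lit 4) (nat_lit 2) (nat_lit 4) (nat_lit 332) (nat_lit 268) (nat_lit 180))) (XT.nd (nat_lit 78) (nat_lit 0) (nat_lit 0) (XT.lf (nat_lit 0) (nat_lit 45368475220) (nat_lit 152) (nat_lit 278009747509) (nat_lit 0) (nat_lit 18168821937) (nat_lit 2) (nat_lit 5) (nat_lit 4) (nat_lit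 4) (nat_lit 2) (nat_lit 4) (nat_lit 333) (nat_lit 268) (nat_lit 179)) (XT.lf (nat_lit 0) (nat_lit 60414071995) (nat_lit 152) (nat_lit 274146780588) (nat_lit 0) (nat_lit 33212280869) (nat_lit 2) (nat_lit 5) (nat_lit 4) (nat_lit 4) (nat_lit 2) (nat_lit 4) (nat_lit 334) (nat_lit 268) (nat_lit 178)))))) (XT.nd (nat_lit 546) (nat_lit 0) (nat_lit 0) (XT.nd (nat_lit 234) (nat_lit 0) (nat_lit 0) (XT.nd (nat_lit 78) (nat_lit 0) (nat_lit 0) (XT.lf (nat_lit 0) (nat_lit 76661265038) (nat_lit 152) (nat_lit 269978715520) (nat_lit 0) (nat_lit 49457494427) (nat_lit 2) (nat_lit 5) (nat_lit 4) (nat_lit 4) (nat_lit 2) (nat_lit 4) (nat_lit 335) (nat_lit 268) (nat_lit 177)) (XT.nd (nat_lit 78) (nat_lit 0) (nat_lit 0) (XT.lf (nat_lit 0) (nat_lit 94206334013) (nat_lit 152) (nat_lit 265480852660) (nat_lit 0) (nat_lit 67000730546) (nat_lit 2) (nat_lit 5) (nat_lit 4) (nat_lit 4) (nat_lit 2) (nat_lit 4) (nat_lit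 336) (nat_lit 268) (nat_lit 176)) (XT.lf (nat_lit 0) (nat_lit 113153249697) (nat_lit 152) (nat_lit 260626538007) (nat_lit 0) (nat_lit 85945949141) (nat_lit 2) (nat_lit 5) (nat_lit 4) (nat_lit 4) (nat_lit 2) (nat_lit 4) (nat_lit 337) (nat_lit 268) (nat_lit 175)))) (XT.nd (nat_lit 156) (nat_lit 0) (nat_lit 0) (XT.nd (nat_lit 78) (nat_lit 0) (nat_lit 0) (XT.lf (nat_lit 0) (nat_lit 133614290110) (nat_lit 152) (nat_lit 255387005250) (nat_lit 0) (nat_lit 106405418175) (nat_lit 2) (nat_lit 5) (nat_lit 4) (nat_lit 4) (nat_lit 2) (nat_lit 4) (nat_lit 338) (nat_lit 268) (nat_lit 174)) (XT.lf (nat_lit 0) (nat_lit 155710705862) (nat_lit 152) (nat_lit 249731205307) (nat_lit 0) (nat_lit 128500378946) (nat_lit 2) (nat_lit 5) (nat_lit 4) (nat_lit 4) (nat_lit 2) (nat_lit 4) (nat_lit 339) (nat_lit 268) (nat_lit 173))) (XT.nd (nat_lit 78) (nat_lit 0) (nat_lit 0) (XT.lf (nat_lit 0) (nat_lit 179573438675)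 (nat_lit 152) (nat_lit 243625622326) (nat_lit 0) (nat_lit 152361764555) (nat_lit 2) (nat_lit 5) (nat_lit 4) (nat_lit 4) (nat_lit 2) (nat_lit 4) (nat_lit 340) (nat_lit 268) (nat_lit 172)) (XT.lf (nat_lit 0) (nat_lit 205343897337) (nat_lit 152) (nat_lit 237034075076) (nat_lit 0) (nat_lit 178130975806) (nat_lit 2) (nat_lit 5) (nat_lit 4) (nat_lit 4) (nat_lit 2) (nat_lit 4) (nat_lit 341) (nat_lit 268) (nat_lit 171))))) (XT.nd (nat_lit 312) (nat_lit 0) (nat_lit 0) (XT.nd (nat_lit 156) (nat_lit 0) (nat_lit 0) (XT.nd (nat_lit 78) (nat_lit 0) (nat_lit 0) (XT.lf (nat_lit 0) (nat_lit 233174795677) (nat_lit 152) (nat_lit 229917502534) (nat_lit 0) (nat_lit 205960719136) (nat_lit 2) (nat_lit 5) (nat_lit 4) (nat_lit 4) (nat_lit 2) (nat_lit 4) (nat_lit 342) (nat_lit 268) (nat_lit 170)) (XT.lf (nat_lit 0) (nat_lit 263231057537) (nat_lit 152) (nat_lit 222233732420) (nat_lit 0) (nat_lit 236015911541)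 (nat_lit 2) (nat_lit 5) (nat_lit 4) (nat_lit 4) (nat_lit 2) (nat_lit 4) (nat_lit 343) (nat_lit 268) (nat_lit 169))) (XT.nd (nat_lit 78) (nat_lit 0) (nat_lit 0) (XT.lf (nat_lit 0) (nat_lit 295690794098) (nat_lit 152) (nat_lit 213937231281) (nat_lit 0) (nat_lit 268474657867) (nat_lit 2) (nat_lit 5) (nat_lit 4) (nat_lit 4) (nat_lit 2) (nat_lit 4) (nat_lit 344) (nat_lit 268) (nat_lit 168)) (XT.lf (nat_lit 0) (nat_lit 330746359354) (nat_lit 152) (nat_lit 204978834666) (nat_lit 0) (nat_lit 303529306238) (nat_lit 2) (nat_lit 5) (nat_lit 4) (nat_lit 4) (nat_lit 2) (nat_lit 4) (nat_lit 345) (nat_lit 268) (nat_lit 167)))) (XT.nd (nat_lit 156) (nat_lit 0) (nat_lit 0) (XT.nd (nat_lit 78) (nat_lit 0) (nat_lit 0) (XT.lf (nat_lit 0) (nat_lit 368605489989) (nat_lit 152) (nat_lit 195305455780) (nat_lit 0) (nat_lit 341387587906) (nat_lit 2) (nat_lit 5) (nat_lit 4) (nat_lit 4) (nat_lit 2) (nat_lit 4)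 (nat_lit 346) (nat_lit 268) (nat_lit 166)) (XT.lf (nat_lit 0) (nat_lit 409492536406) (nat_lit 152) (nat_lit 184859770895) (nat_lit 0) (nat_lit 382273848243) (nat_lit 2) (nat_lit 5) (nat_lit 4) (nat_lit 4) (nat_lit 2) (nat_lit 4) (nat_lit 347) (nat_lit 268) (nat_lit 165))) (XT.nd (nat_lit 78) (nat_lit 0) (nat_lit 0) (XT.lf (nat_lit 0) (nat_lit 453649792214) (nat_lit 152) (nat_lit 173579879659) (nat_lit 0) (nat_lit 426430376198) (nat_lit 2) (nat_lit 5) (nat_lit 4) (nat_lit 4) (nat_lit 2) (nat_lit 4) (nat_lit 348) (nat_lit 268) (nat_lit 164)) (XT.lf (nat_lit 0) (nat_lit 501338930040) (nat_lit 152) (nat_lit 161398938269) (nat_lit 0) (nat_lit 474118840087) (nat_lit 2) (nat_lit 5) (nat_lit 4) (nat_lit 4) (nat_lit 2) (nat_lit 4) (nat_lit 349) (nat_lit 268) (nat_lit 163))))))) (XT.nd (nat_lit 1092) (nat_lit 0) (nat_lit 0) (XT.nd (nat_lit 546) (nat_lit 76) (nat_lit 0) (XT.nd (nat_lit 234) (nat_lit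 0) (nat_lit 0) (XT.nd (nat_lit 78) (nat_lit 0) (nat_lit 0) (XT.lf (nat_lit 0) (nat_lit 552842552182) (nat_lit 152) (nat_lit 148244763371) (nat_lit 0) (nat_lit 525621838212) (nat_lit 2) (nat_lit 5) (nat_lit 4) (nat_lit 4) (nat_lit 2) (nat_lit 4) (nat_lit 350) (nat_lit 268) (nat_lit 162)) (XT.nd (nat_lit 78) (nat_lit 0) (nat_lit 0) (XT.lf (nat_lit 0) (nat_lit 608465865289) (nat_lit 152) (nat_lit 134039404298) (nat_lit 0) (nat_lit 581244573527) (nat_lit 2) (nat_lit 5) (nat_lit 4) (nat_lit 4) (nat_lit 2) (nat_lit 4) (nat_lit 351) (nat_lit 268) (nat_lit 161)) (XT.lf (nat_lit 0) (nat_lit 668538488996) (nat_lit 152) (nat_lit 118698681144) (nat_lit 0) (nat_lit 641316662240) (nat_lit 2) (nat_lit 5) (nat_lit 4) (nat_lit 4) (nat_lit 2) (nat_lit 4) (nat_lit 352) (nat_lit 268) (nat_lit 160)))) (XT.nd (nat_lit 156) (nat_lit 0) (nat_lit 0) (XT.nd (nat_lit 78) (nat_lit 0) (nat_lit 0) (XT.lf (nat_lit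 0) (nat_lit 733416409219) (nat_lit 152) (nat_lit 102131685920) (nat_lit 0) (nat_lit 706194087100) (nat_lit 2) (nat_lit 5) (nat_lit 4) (nat_lit 4) (nat_lit 2) (nat_lit 4) (nat_lit 353) (nat_lit 268) (nat_lit 159)) (XT.lf (nat_lit 0) (nat_lit 803484087710) (nat_lit 152) (nat_lit 84240243841) (nat_lit 0) (nat_lit 776261306920) (nat_lit 2) (nat_lit 5) (nat_lit 4) (nat_lit 4) (nat_lit 2) (nat_lit 4) (nat_lit 354) (nat_lit 268) (nat_lit 158))) (XT.nd (nat_lit 78) (nat_lit 0) (nat_lit 0) (XT.lf (nat_lit 0) (nat_lit 879156740339) (nat_lit 152) (nat_lit 64918331544) (nat_lit 0) (nat_lit 851933534854) (nat_lit 2) (nat_lit 5) (nat_lit 4) (nat_lit 4) (nat_lit 2) (nat_lit 4) (nat_lit 355) (nat_lit 268) (nat_lit 157)) (XT.lf (nat_lit 0) (nat_lit 960882797642) (nat_lit 152) (nat_lit 44051448810) (nat_lit 0) (nat_lit 933659198921) (nat_lit 2) (nat_lit 5) (nat_lit 4) (nat_lit 4) (nat_lit 2) (nat_lit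 4) (nat_lit 356) (nat_lit 268) (nat_lit 156))))) (XT.nd (nat_lit 234) (nat_lit 0) (nat_lit 0) (XT.nd (nat_lit 78) (nat_lit 76) (nat_lit 0) (XT.lf (nat_lit 0) (nat_lit 1049146562180) (nat_lit 152) (nat_lit 21515940037) (nat_lit 0) (nat_lit 1021922599352) (nat_lit 2) (nat_lit 5) (nat_lit 4) (nat_lit 4) (nat_lit 2) (nat_lit 4) (nat_lit 357) (nat_lit 268) (nat_lit 155)) (XT.nd (nat_lit 78) (nat_lit 0) (nat_lit 0) (XT.lf (nat_lit 0) (nat_lit 2970326281) (nat_lit 76) (nat_lit 1141572188621) (nat_lit 76) (nat_lit 1114347888656) (nat_lit 1) (nat_lit 4) (nat_lit 2) (nat_lit 5) (nat_lit 2) (nat_lit 4) (nat_lit 358) (nat_lit 268) (nat_lit 154)) (XT.lf (nat_lit 0) (nat_lit 30638470557) (nat_lit 76) (nat_lit 1217519617972) (nat_lit 76) (nat_lit 1190295005844) (nat_lit 1) (nat_lit 4) (nat_lit 2) (nat_lit 5) (nat_lit 2) (nat_lit 4) (nat_lit 359) (nat_lit 268) (nat_lit 153)))) (XT.nd (nat_lit 156)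 (nat_lit 0) (nat_lit 0) (XT.nd (nat_lit 78) (nat_lit 0) (nat_lit 0) (XT.lf (nat_lit 0) (nat_lit 60519460892) (nat_lit 76) (nat_lit 1299543133041) (nat_lit 76) (nat_lit 1272318231872) (nat_lit 1) (nat_lit 4) (nat_lit 2) (nat_lit 5) (nat_lit 2) (nat_lit 4) (nat_lit 360) (nat_lit 268) (nat_lit 152)) (XT.lf (nat_lit 0) (nat_lit 92790369821) (nat_lit 76) (nat_lit 1388128799101) (nat_lit 76) (nat_lit 1360903630303) (nat_lit 1) (nat_lit 4) (nat_lit 2) (nat_lit 5) (nat_lit 2) (nat_lit 4) (nat_lit 361) (nat_lit 268) (nat_lit 151))) (XT.nd (nat_lit 78) (nat_lit 0) (nat_lit 0) (XT.lf (nat_lit 0) (nat_lit 127642432360) (nat_lit 76) (nat_lit 1483801568250) (nat_lit 76) (nat_lit 1456576151646) (nat_lit 1) (nat_lit 4) (nat_lit 2) (nat_lit 5) (nat_lit 2) (nat_lit 4) (nat_lit 362) (nat_lit 268) (nat_lit 150)) (XT.lf (nat_lit 0) (nat_lit 165282179250) (nat_lit 76) (nat_lit 1587128390228) (nat_lit 76)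 (nat_lit 1559902744175) (nat_lit 1) (nat_lit 4) (nat_lit 2) (nat_lit 5) (nat_lit 2) (nat_lit 4) (nat_lit 363) (nat_lit 268) (nat_lit 149)))))) (XT.nd (nat_lit 33618) (nat_lit 0) (nat_lit 2432) (XT.nd (nat_lit 33306) (nat_lit 0) (nat_lit 3268) (XT.nd (nat_lit 78) (nat_lit 0) (nat_lit 0) (XT.lf (nat_lit 0) (nat_lit 205932660843) (nat_lit 76) (nat_lit 1698721572130) (nat_lit 76) (nat_lit 1671495713624) (nat_lit 1) (nat_lit 4) (nat_lit 2) (nat_lit 5) (nat_lit 2) (nat_lit 4) (nat_lit 364) (nat_lit 268) (nat_lit 148)) (XT.nd (nat_lit 33150) (nat_lit 0) (nat_lit 3648) (XT.lf (nat_lit 0) (nat_lit 249834768881) (nat_lit 76) (nat_lit 1819242406886) (nat_lit 76) (nat_lit 1792016351664) (nat_lit 1) (nat_lit 4) (nat_lit 2) (nat_lit 5) (nat_lit 2) (nat_lit 4) (nat_lit 365) (nat_lit 268) (nat_lit 147)) (XT.lf (nat_lit 0) (nat_lit 1322344544) (nat_lit 0) (nat_lit 1322344544) (nat_lit 380) (nat_lit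 1766358859) (nat_lit 49) (nat_lit 5) (nat_lit 49) (nat_lit 3) (nat_lit 54) (nat_lit 3) (nat_lit 269) (nat_lit 269) (nat_lit 242)))) (XT.nd (nat_lit 156) (nat_lit 380) (nat_lit 0) (XT.nd (nat_lit 78) (nat_lit 0) (nat_lit 0) (XT.lf (nat_lit 0) (nat_lit 6375389144) (nat_lit 380) (nat_lit 2203301531) (nat_lit 456) (nat_lit 522729365) (nat_lit 49) (nat_lit 5) (nat_lit 54) (nat_lit 3) (nat_lit 55) (nat_lit 5) (nat_lit 270) (nat_lit 269) (nat_lit 241)) (XT.lf (nat_lit 76) (nat_lit 2072335031) (nat_lit 0) (nat_lit 5509353337) (nat_lit 456) (nat_lit 1819089813) (nat_lit 50) (nat_lit 5) (nat_lit 49) (nat_lit 5) (nat_lit 55) (nat_lit 5) (nat_lit 271) (nat_lit 269) (nat_lit 240))) (XT.nd (nat_lit 78) (nat_lit 380) (nat_lit 0) (XT.lf (nat_lit 76) (nat_lit 6765256246) (nat_lit 0) (nat_lit 2099453318) (nat_lit 456) (nat_lit 861291907) (nat_lit 50) (nat_lit 5) (nat_lit 49) (nat_lit 5) (nat_lit 55)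 (nat_lit 5) (nat_lit 272) (nat_lit 269) (nat_lit 239)) (XT.lf (nat_lit 0) (nat_lit 171152178) (nat_lit 456) (nat_lit 8328636885) (nat_lit 532) (nat_lit 1576872120) (nat_lit 44) (nat_lit 5) (nat_lit 50) (nat_lit 5) (nat_lit 51) (nat_lit 5) (nat_lit 273) (nat_lit 269) (nat_lit 238))))) (XT.nd (nat_lit 312) (nat_lit 456) (nat_lit 0) (XT.nd (nat_lit 156) (nat_lit 380) (nat_lit 0) (XT.nd (nat_lit 78) (nat_lit 0) (nat_lit 0) (XT.lf (nat_lit 0) (nat_lit 1305936427) (nat_lit 456) (nat_lit 3581963717) (nat_lit 532) (nat_lit 5560646779) (nat_lit 44) (nat_lit 5) (nat_lit 50) (nat_lit 5) (nat_lit 51) (nat_lit 5) (nat_lit 274) (nat_lit 269) (nat_lit 237)) (XT.lf (nat_lit 76) (nat_lit 1571250394) (nat_lit 0) (nat_lit 932014637) (nat_lit 532) (nat_lit 8349423022) (nat_lit 45) (nat_lit 5) (nat_lit 44) (nat_lit 5) (nat_lit 51) (nat_lit 5) (nat_lit 275) (nat_lit 269) (nat_lit 236))) (XT.nd (nat_lit 78)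 (nat_lit 456) (nat_lit 0) (XT.lf (nat_lit 0) (nat_lit 3915131512) (nat_lit 456) (nat_lit 4079756246) (nat_lit 76) (nat_lit 3284999860) (nat_lit 45) (nat_lit 5) (nat_lit 51) (nat_lit 5) (nat_lit 46) (nat_lit 5) (nat_lit 276) (nat_lit 269) (nat_lit 235)) (XT.lf (nat_lit 0) (nat_lit 1539002810) (nat_lit 456) (nat_lit 3904698348) (nat_lit 532) (nat_lit 6297472122) (nat_lit 39) (nat_lit 5) (nat_lit 45) (nat_lit 5) (nat_lit 46) (nat_lit 5) (nat_lit 277) (nat_lit 269) (nat_lit 234)))) (XT.nd (nat_lit 156) (nat_lit 228) (nat_lit 0) (XT.nd (nat_lit 78) (nat_lit 228) (nat_lit 0) (XT.lf (nat_lit 0) (nat_lit 7167000300) (nat_lit 532) (nat_lit 4461550267) (nat_lit 76) (nat_lit 605210566) (nat_lit 39) (nat_lit 5) (nat_lit 46) (nat_lit 5) (nat_lit 40) (nat_lit 5) (nat_lit 278) (nat_lit 269) (nat_lit 233)) (XT.lf (nat_lit 0) (nat_lit 1669325326) (nat_lit 228) (nat_lit 7450098890) (nat_lit 304) (nat_lit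 3639211348) (nat_lit 36) (nat_lit 5) (nat_lit 39) (nat_lit 5) (nat_lit 40) (nat_lit 5) (nat_lit 279) (nat_lit 269) (nat_lit 232))) (XT.nd (nat_lit 78) (nat_lit 228) (nat_lit 0) (XT.lf (nat_lit 0) (nat_lit 8494616543) (nat_lit 228) (nat_lit 2807634073) (nat_lit 304) (nat_lit 2017479701) (nat_lit 36) (nat_lit 5) (nat_lit 39) (nat_lit 5) (nat_lit 40) (nat_lit 5) (nat_lit 280) (nat_lit 269) (nat_lit 231)) (XT.lf (nat_lit 0) (nat_lit 1934165455) (nat_lit 228) (nat_lit 11780830505) (nat_lit 304) (nat_lit 206447943) (nat_lit 33) (nat_lit 5) (nat_lit 36) (nat_lit 5) (nat_lit 37) (nat_lit 5) (nat_lit 281) (nat_lit 269) (nat_lit 230))))))))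
noncomputable def xc65 : XT := (XT.nd (nat_lit 2262) (nat_lit 456) (nat_lit 0) (XT.nd (nat_lit 1092) (nat_lit 760) (nat_lit 0) (XT.nd (nat_lit 546) (nat_lit 456) (nat_lit 0) (XT.nd (nat_lit 234) (nat_lit 380) (nat_lit 0) (XT.nd (nat_lit 78) (nat_lit 228) (nat_lit 0) (XT.lf (nat_lit 0) (nat_lit 1826829390) (nat_lit 304) (nat_lit 5221478327) (nat_lit 76) (nat_lit 7506563222) (nat_lit 32) (nat_lit 5) (nat_lit 36) (nat_lit 5) (nat_lit 33) (nat_lit 5) (nat_lit 282) (nat_lit 269) (nat_lit 229)) (XT.nd (nat_lit 78) (nat_lit 0) (nat_lit 0) (XT.lf (nat_lit 0) (nat_lit 2140146682) (nat_lit 228) (nat_lit 1882753171) (nat_lit 304) (nat_lit 11214863330) (nat_lit 29) (nat_lit 5) (nat_lit 32) (nat_lit 5) (nat_lit 33) (nat_lit 5) (nat_lit 283) (nat_lit 269) (nat_lit 228)) (XT.lf (nat_lit 0) (nat_lit 6591520873) (nat_lit 304) (nat_lit 5717749731) (nat_lit 76) (nat_lit 3650380704) (nat_lit 29) (nat_lit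 5) (nat_lit 33) (nat_lit 5) (nat_lit 30) (nat_lit 5) (nat_lit 284) (nat_lit 269) (nat_lit 227)))) (XT.nd (nat_lit 156) (nat_lit 228) (nat_lit 0) (XT.nd (nat_lit 78) (nat_lit 0) (nat_lit 0) (XT.lf (nat_lit 0) (nat_lit 2271942783) (nat_lit 152) (nat_lit 7161585723) (nat_lit 228) (nat_lit 7300435494) (nat_lit 27) (nat_lit 5) (nat_lit 29) (nat_lit 5) (nat_lit 30) (nat_lit 5) (nat_lit 285) (nat_lit 269) (nat_lit 226)) (XT.lf (nat_lit 0) (nat_lit 11181818651) (nat_lit 152) (nat_lit 1443343747) (nat_lit 228) (nat_lit 4935375532) (nat_lit 27) (nat_lit 5) (nat_lit 29) (nat_lit 5) (nat_lit 30) (nat_lit 5) (nat_lit 286) (nat_lit 269) (nat_lit 225))) (XT.nd (nat_lit 78) (nat_lit 76) (nat_lit 0) (XT.lf (nat_lit 0) (nat_lit 2309690630) (nat_lit 152) (nat_lit 13900028712) (nat_lit 228) (nat_lit 2232601297) (nat_lit 25) (nat_lit 5) (nat_lit 27) (nat_lit 5) (nat_lit 28) (nat_lit 5) (nat_lit 287) (nat_lit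 269) (nat_lit 224)) (XT.lf (nat_lit 0) (nat_lit 837183361) (nat_lit 228) (nat_lit 7427196821) (nat_lit 76) (nat_lit 11114212559) (nat_lit 24) (nat_lit 5) (nat_lit 27) (nat_lit 5) (nat_lit 25) (nat_lit 5) (nat_lit 288) (nat_lit 269) (nat_lit 223))))) (XT.nd (nat_lit 234) (nat_lit 152) (nat_lit 0) (XT.nd (nat_lit 78) (nat_lit 152) (nat_lit 0) (XT.lf (nat_lit 0) (nat_lit 1974809369) (nat_lit 152) (nat_lit 2075635498) (nat_lit 228) (nat_lit 16333273216) (nat_lit 22) (nat_lit 5) (nat_lit 24) (nat_lit 5) (nat_lit 25) (nat_lit 5) (nat_lit 289) (nat_lit 269) (nat_lit 222)) (XT.nd (nat_lit 78) (nat_lit 152) (nat_lit 0) (XT.lf (nat_lit 0) (nat_lit 7811869345) (nat_lit 228) (nat_lit 9059377632) (nat_lit 76) (nat_lit 4574784648) (nat_lit 22) (nat_lit 5) (nat_lit 25) (nat_lit 5) (nat_lit 23) (nat_lit 5) (nat_lit 290) (nat_lit 269) (nat_lit 221)) (XT.lf (nat_lit 0) (nat_lit 995448612) (nat_lit 152)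 (nat_lit 10930618992) (nat_lit 228) (nat_lit 10663175289) (nat_lit 20) (nat_lit 5) (nat_lit 22) (nat_lit 5) (nat_lit 23) (nat_lit 5) (nat_lit 291) (nat_lit 269) (nat_lit 220)))) (XT.nd (nat_lit 156) (nat_lit 152) (nat_lit 0) (XT.nd (nat_lit 78) (nat_lit 0) (nat_lit 0) (XT.lf (nat_lit 0) (nat_lit 12332300683) (nat_lit 152) (nat_lit 4259828880) (nat_lit 228) (nat_lit 7214020146) (nat_lit 20) (nat_lit 5) (nat_lit 22) (nat_lit 5) (nat_lit 23) (nat_lit 5) (nat_lit 292) (nat_lit 269) (nat_lit 219)) (XT.lf (nat_lit 0) (nat_lit 21678892254) (nat_lit 228) (nat_lit 651539954) (nat_lit 76) (nat_lit 2786236263) (nat_lit 20) (nat_lit 5) (nat_lit 23) (nat_lit 5) (nat_lit 21) (nat_lit 4) (nat_lit 293) (nat_lit 269) (nat_lit 218))) (XT.nd (nat_lit 78) (nat_lit 0) (nat_lit 0) (XT.lf (nat_lit 0) (nat_lit 982678208) (nat_lit 152) (nat_lit 15062020927) (nat_lit 76) (nat_lit 10456209915) (nat_lit 18) (nat_lit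 5) (nat_lit 20) (nat_lit 5) (nat_lit 19) (nat_lit 5) (nat_lit 294) (nat_lit 269) (nat_lit 217)) (XT.lf (nat_lit 0) (nat_lit 5567877954) (nat_lit 152) (nat_lit 3584648605) (nat_lit 76) (nat_lit 18836513636) (nat_lit 18) (nat_lit 5) (nat_lit 20) (nat_lit 5) (nat_lit 19) (nat_lit 5) (nat_lit 295) (nat_lit 269) (nat_lit 216)))))) (XT.nd (nat_lit 546) (nat_lit 304) (nat_lit 0) (XT.nd (nat_lit 234) (nat_lit 228) (nat_lit 0) (XT.nd (nat_lit 78) (nat_lit 76) (nat_lit 0) (XT.lf (nat_lit 0) (nat_lit 9241708821) (nat_lit 152) (nat_lit 1480597446) (nat_lit 228) (nat_lit 18857761267) (nat_lit 16) (nat_lit 5) (nat_lit 18) (nat_lit 5) (nat_lit 19) (nat_lit 5) (nat_lit 296) (nat_lit 269) (nat_lit 215)) (XT.nd (nat_lit 78) (nat_lit 76) (nat_lit 0) (XT.lf (nat_lit 0) (nat_lit 16533909836) (nat_lit 228) (nat_lit 8190708526) (nat_lit 76) (nat_lit 6554208859) (nat_lit 16) (nat_lit 5) (nat_lit 19) (nat_lit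 5) (nat_lit 17) (nat_lit 4) (nat_lit 297) (nat_lit 269) (nat_lit 214)) (XT.lf (nat_lit 0) (nat_lit 5116620018) (nat_lit 76) (nat_lit 17837372594) (nat_lit 152) (nat_lit 10148044184) (nat_lit 15) (nat_lit 5) (nat_lit 16) (nat_lit 5) (nat_lit 17) (nat_lit 4) (nat_lit 298) (nat_lit 269) (nat_lit 213)))) (XT.nd (nat_lit 156) (nat_lit 152) (nat_lit 0) (XT.nd (nat_lit 78) (nat_lit 76) (nat_lit 0) (XT.lf (nat_lit 0) (nat_lit 19925467203) (nat_lit 76) (nat_lit 10168838172) (nat_lit 152) (nat_lit 4960298621) (nat_lit 15) (nat_lit 5) (nat_lit 16) (nat_lit 5) (nat_lit 17) (nat_lit 4) (nat_lit 299) (nat_lit 269) (nat_lit 212)) (XT.lf (nat_lit 0) (nat_lit 593842328) (nat_lit 152) (nat_lit 1287441385) (nat_lit 76) (nat_lit 35282201934) (nat_lit 14) (nat_lit 5) (nat_lit 16) (nat_lit 5) (nat_lit 15) (nat_lit 5) (nat_lit 300) (nat_lit 269) (nat_lit 211))) (XT.nd (nat_lit 78) (nat_lit 0) (nat_lit 0)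 (XT.lf (nat_lit 0) (nat_lit 6833015042) (nat_lit 228) (nat_lit 25368230891) (nat_lit 76) (nat_lit 7188854338) (nat_lit 12) (nat_lit 5) (nat_lit 15) (nat_lit 5) (nat_lit 13) (nat_lit 4) (nat_lit 301) (nat_lit 269) (nat_lit 210)) (XT.lf (nat_lit 0) (nat_lit 13641322374) (nat_lit 228) (nat_lit 11238560395) (nat_lit 76) (nat_lit 16909383820) (nat_lit 12) (nat_lit 5) (nat_lit 15) (nat_lit 5) (nat_lit 13) (nat_lit 4) (nat_lit 302) (nat_lit 269) (nat_lit 209))))) (XT.nd (nat_lit 312) (nat_lit 152) (nat_lit 0) (XT.nd (nat_lit 156) (nat_lit 76) (nat_lit 0) (XT.nd (nat_lit 78) (nat_lit 0) (nat_lit 0) (XT.lf (nat_lit 0) (nat_lit 4208007033) (nat_lit 76) (nat_lit 16873620530) (nat_lit 152) (nat_lit 23291772900) (nat_lit 11) (nat_lit 5) (nat_lit 12) (nat_lit 5) (nat_lit 13) (nat_lit 4) (nat_lit 303) (nat_lit 269) (nat_lit 208)) (XT.lf (nat_lit 0) (nat_lit 21506075530) (nat_lit 76) (nat_lit 7904959682)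 (nat_lit 152) (nat_lit 17729738956) (nat_lit 11) (nat_lit 5) (nat_lit 12) (nat_lit 5) (nat_lit 13) (nat_lit 4) (nat_lit 304) (nat_lit 269) (nat_lit 207))) (XT.nd (nat_lit 78) (nat_lit 76) (nat_lit 0) (XT.lf (nat_lit 0) (nat_lit 38437000062) (nat_lit 152) (nat_lit 10006814911) (nat_lit 0) (nat_lit 1683324358) (nat_lit 11) (nat_lit 5) (nat_lit 13) (nat_lit 4) (nat_lit 11) (nat_lit 4) (nat_lit 305) (nat_lit 269) (nat_lit 206)) (XT.lf (nat_lit 0) (nat_lit 6995133293) (nat_lit 76) (nat_lit 41551768178) (nat_lit 76) (nat_lit 4776580087) (nat_lit 10) (nat_lit 4) (nat_lit 11) (nat_lit 5) (nat_lit 11) (nat_lit 4) (nat_lit 306) (nat_lit 269) (nat_lit 205)))) (XT.nd (nat_lit 156) (nat_lit 76) (nat_lit 0) (XT.nd (nat_lit 78) (nat_lit 0) (nat_lit 0) (XT.lf (nat_lit 0) (nat_lit 2824580303) (nat_lit 152) (nat_lit 30919979936) (nat_lit 76) (nat_lit 23004282721) (nat_lit 9) (nat_lit 5) (nat_lit 11)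 (nat_lit 5) (nat_lit 10) (nat_lit 4) (nat_lit 307) (nat_lit 269) (nat_lit 204)) (XT.lf (nat_lit 0) (nat_lit 10765009050) (nat_lit 152) (nat_lit 14422331546) (nat_lit 76) (nat_lit 35251841701) (nat_lit 9) (nat_lit 5) (nat_lit 11) (nat_lit 5) (nat_lit 10) (nat_lit 4) (nat_lit 308) (nat_lit 269) (nat_lit 203))) (XT.nd (nat_lit 78) (nat_lit 0) (nat_lit 0) (XT.lf (nat_lit 0) (nat_lit 3555076957) (nat_lit 76) (nat_lit 15861127155) (nat_lit 152) (nat_lit 45002514312) (nat_lit 8) (nat_lit 5) (nat_lit 9) (nat_lit 5) (nat_lit 10) (nat_lit 4) (nat_lit 309) (nat_lit 269) (nat_lit 202)) (XT.lf (nat_lit 0) (nat_lit 23773450752) (nat_lit 76) (nat_lit 5370727419) (nat_lit 152) (nat_lit 39541675897) (nat_lit 8) (nat_lit 5) (nat_lit 9) (nat_lit 5) (nat_lit 10) (nat_lit 4) (nat_lit 310) (nat_lit 269) (nat_lit 201))))))) (XT.nd (nat_lit 1170) (nat_lit 152) (nat_lit 0) (XT.nd (nat_lit 546) (nat_lit 76)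 (nat_lit 0) (XT.nd (nat_lit 234) (nat_lit 152) (nat_lit 0) (XT.nd (nat_lit 78) (nat_lit 76) (nat_lit 0) (XT.lf (nat_lit 0) (nat_lit 39784594493) (nat_lit 152) (nat_lit 27845076074) (nat_lit 0) (nat_lit 5653964110) (nat_lit 8) (nat_lit 5) (nat_lit 10) (nat_lit 4) (nat_lit 8) (nat_lit 4) (nat_lit 311) (nat_lit 269) (nat_lit 200)) (XT.nd (nat_lit 78) (nat_lit 76) (nat_lit 0) (XT.lf (nat_lit 0) (nat_lit 51407310708) (nat_lit 152) (nat_lit 9567323335) (nat_lit 0) (nat_lit 17264128053) (nat_lit 8) (nat_lit 5) (nat_lit 10) (nat_lit 4) (nat_lit 8) (nat_lit 4) (nat_lit 312) (nat_lit 269) (nat_lit 199)) (XT.lf (nat_lit 0) (nat_lit 10693253481) (nat_lit 76) (nat_lit 53515955568) (nat_lit 76) (nat_lit 19361150440) (nat_lit 7) (nat_lit 4) (nat_lit 8) (nat_lit 5) (nat_lit 8) (nat_lit 4) (nat_lit 313) (nat_lit 269) (nat_lit 198)))) (XT.nd (nat_lit 156) (nat_lit 152) (nat_lit 0) (XT.nd (nat_lit 78)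 (nat_lit 0) (nat_lit 0) (XT.lf (nat_lit 0) (nat_lit 33104825040) (nat_lit 76) (nat_lit 45184456421) (nat_lit 76) (nat_lit 11018889744) (nat_lit 7) (nat_lit 4) (nat_lit 8) (nat_lit 5) (nat_lit 8) (nat_lit 4) (nat_lit 314) (nat_lit 269) (nat_lit 197)) (XT.lf (nat_lit 0) (nat_lit 57296402362) (nat_lit 76) (nat_lit 36192352329) (nat_lit 76) (nat_lit 2016821254) (nat_lit 7) (nat_lit 4) (nat_lit 8) (nat_lit 5) (nat_lit 8) (nat_lit 4) (nat_lit 315) (nat_lit 269) (nat_lit 196))) (XT.nd (nat_lit 78) (nat_lit 76) (nat_lit 0) (XT.lf (nat_lit 0) (nat_lit 7313295441) (nat_lit 152) (nat_lit 18973102850) (nat_lit 76) (nat_lit 75898089042) (nat_lit 6) (nat_lit 5) (nat_lit 8) (nat_lit 5) (nat_lit 7) (nat_lit 4) (nat_lit 316) (nat_lit 269) (nat_lit 195)) (XT.lf (nat_lit 0) (nat_lit 1829584101) (nat_lit 76) (nat_lit 15489110290) (nat_lit 152) (nat_lit 92071805855) (nat_lit 5) (nat_lit 5) (nat_lit 6) (nat_lit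 5) (nat_lit 7) (nat_lit 4) (nat_lit 317) (nat_lit 269) (nat_lit 194))))) (XT.nd (nat_lit 312) (nat_lit 76) (nat_lit 0) (XT.nd (nat_lit 156) (nat_lit 0) (nat_lit 0) (XT.nd (nat_lit 78) (nat_lit 0) (nat_lit 0) (XT.lf (nat_lit 0) (nat_lit 25364384303) (nat_lit 76) (nat_lit 3272920791) (nat_lit 152) (nat_lit 88494672365) (nat_lit 5) (nat_lit 5) (nat_lit 6) (nat_lit 5) (nat_lit 7) (nat_lit 4) (nat_lit 318) (nat_lit 269) (nat_lit 193)) (XT.lf (nat_lit 0) (nat_lit 41094344409) (nat_lit 152) (nat_lit 74960022994) (nat_lit 0) (nat_lit 9419775498) (nat_lit 5) (nat_lit 5) (nat_lit 7) (nat_lit 4) (nat_lit 5) (nat_lit 4) (nat_lit 319) (nat_lit 269) (nat_lit 192))) (XT.nd (nat_lit 78) (nat_lit 0) (nat_lit 0) (XT.lf (nat_lit 0) (nat_lit 54627726277) (nat_lit 152) (nat_lit 56902699690) (nat_lit 0) (nat_lit 22946878105) (nat_lit 5) (nat_lit 5) (nat_lit 7) (nat_lit 4) (nat_lit 5) (nat_lit 4) (nat_lit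 320) (nat_lit 269) (nat_lit 191)) (XT.lf (nat_lit 0) (nat_lit 69238934692) (nat_lit 152) (nat_lit 37409903060) (nat_lit 0) (nat_lit 37552272391) (nat_lit 5) (nat_lit 5) (nat_lit 7) (nat_lit 4) (nat_lit 5) (nat_lit 4) (nat_lit 321) (nat_lit 269) (nat_lit 190)))) (XT.nd (nat_lit 156) (nat_lit 0) (nat_lit 0) (XT.nd (nat_lit 78) (nat_lit 76) (nat_lit 0) (XT.lf (nat_lit 0) (nat_lit 85014554594) (nat_lit 152) (nat_lit 16366120237) (nat_lit 0) (nat_lit 53322508838) (nat_lit 5) (nat_lit 5) (nat_lit 7) (nat_lit 4) (nat_lit 5) (nat_lit 4) (nat_lit 322) (nat_lit 269) (nat_lit 189)) (XT.lf (nat_lit 0) (nat_lit 6687908971) (nat_lit 76) (nat_lit 95521006538) (nat_lit 76) (nat_lit 63823976103) (nat_lit 4) (nat_lit 4) (nat_lit 5) (nat_lit 5) (nat_lit 5) (nat_lit 4) (nat_lit 323) (nat_lit 269) (nat_lit 188))) (XT.nd (nat_lit 78) (nat_lit 0) (nat_lit 0) (XT.lf (nat_lit 0) (nat_lit 32509401528) (nat_lit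 76) (nat_lit 88712874040) (nat_lit 76) (nat_lit 57011228161) (nat_lit 4) (nat_lit 4) (nat_lit 5) (nat_lit 5) (nat_lit 5) (nat_lit 4) (nat_lit 324) (nat_lit 269) (nat_lit 187)) (XT.lf (nat_lit 0) (nat_lit 60389562797) (nat_lit 76) (nat_lit 81363411579) (nat_lit 76) (nat_lit 49657492141) (nat_lit 4) (nat_lit 4) (nat_lit 5) (nat_lit 5) (nat_lit 5) (nat_lit 4) (nat_lit 325) (nat_lit 269) (nat_lit 186)))))) (XT.nd (nat_lit 546) (nat_lit 0) (nat_lit 0) (XT.nd (nat_lit 234) (nat_lit 152) (nat_lit 0) (XT.nd (nat_lit 78) (nat_lit 0) (nat_lit 0) (XT.lf (nat_lit 0) (nat_lit 90493608548) (nat_lit 76) (nat_lit 73429066786) (nat_lit 76) (nat_lit 41719190348) (nat_lit 4) (nat_lit 4) (nat_lit 5) (nat_lit 5) (nat_lit 5) (nat_lit 4) (nat_lit 326) (nat_lit 269) (nat_lit 185)) (XT.nd (nat_lit 78) (nat_lit 0) (nat_lit 0) (XT.lf (nat_lit 0) (nat_lit 122999933127) (nat_lit 76) (nat_lit 64862821321) (nat_lit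 76) (nat_lit 33149280995) (nat_lit 4) (nat_lit 4) (nat_lit 5) (nat_lit 5) (nat_lit 5) (nat_lit 4) (nat_lit 327) (nat_lit 269) (nat_lit 184)) (XT.lf (nat_lit 0) (nat_lit 158101166606) (nat_lit 76) (nat_lit 55613912247) (nat_lit 76) (nat_lit 23896979432) (nat_lit 4) (nat_lit 4) (nat_lit 5) (nat_lit 5) (nat_lit 5) (nat_lit 4) (nat_lit 328) (nat_lit 269) (nat_lit 183)))) (XT.nd (nat_lit 156) (nat_lit 152) (nat_lit 0) (XT.nd (nat_lit 78) (nat_lit 0) (nat_lit 0) (XT.lf (nat_lit 0) (nat_lit 196005316293) (nat_lit 76) (nat_lit 45627531215) (nat_lit 76) (nat_lit 13907457206) (nat_lit 4) (nat_lit 4) (nat_lit 5) (nat_lit 5) (nat_lit 5) (nat_lit 4) (nat_lit 329) (nat_lit 269) (nat_lit 182)) (XT.lf (nat_lit 0) (nat_lit 236936999373) (nat_lit 76) (nat_lit 34844499671) (nat_lit 76) (nat_lit 3121517149) (nat_lit 4) (nat_lit 4) (nat_lit 5) (nat_lit 5) (nat_lit 5) (nat_lit 4) (nat_lit 330) (nat_lit 269)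 (nat_lit 181))) (XT.nd (nat_lit 78) (nat_lit 76) (nat_lit 0) (XT.lf (nat_lit 0) (nat_lit 8098314529) (nat_lit 152) (nat_lit 14881181367) (nat_lit 76) (nat_lit 272819037167) (nat_lit 3) (nat_lit 5) (nat_lit 5) (nat_lit 5) (nat_lit 4) (nat_lit 4) (nat_lit 331) (nat_lit 269) (nat_lit 180)) (XT.lf (nat_lit 0) (nat_lit 10489875117) (nat_lit 76) (nat_lit 9807261559) (nat_lit 152) (nat_lit 298042066364) (nat_lit 2) (nat_lit 5) (nat_lit 3) (nat_lit 5) (nat_lit 4) (nat_lit 4) (nat_lit 332) (nat_lit 269) (nat_lit 179))))) (XT.nd (nat_lit 312) (nat_lit 0) (nat_lit 0) (XT.nd (nat_lit 156) (nat_lit 0) (nat_lit 0) (XT.nd (nat_lit 78) (nat_lit 0) (nat_lit 0) (XT.lf (nat_lit 0) (nat_lit 33993366210) (nat_lit 152) (nat_lit 304034747975) (nat_lit 0) (nat_lit 4613293950) (nat_lit 2) (nat_lit 5) (nat_lit 4) (nat_lit 4) (nat_lit 2) (nat_lit 4) (nat_lit 333) (nat_lit 269) (nat_lit 178)) (XT.lf (nat_lit 0)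 (nat_lit 49037976700) (nat_lit 152) (nat_lit 300173674903) (nat_lit 0) (nat_lit 19655924955) (nat_lit 2) (nat_lit 5) (nat_lit 4) (nat_lit 4) (nat_lit 2) (nat_lit 4) (nat_lit 334) (nat_lit 269) (nat_lit 177))) (XT.nd (nat_lit 78) (nat_lit 0) (nat_lit 0) (XT.lf (nat_lit 0) (nat_lit 65284256516) (nat_lit 152) (nat_lit 296007363400) (nat_lit 0) (nat_lit 35900371915) (nat_lit 2) (nat_lit 5) (nat_lit 4) (nat_lit 4) (nat_lit 2) (nat_lit 4) (nat_lit 335) (nat_lit 269) (nat_lit 176)) (XT.lf (nat_lit 0) (nat_lit 82828479910) (nat_lit 152) (nat_lit 291511124211) (nat_lit 0) (nat_lit 53442898220) (nat_lit 2) (nat_lit 5) (nat_lit 4) (nat_lit 4) (nat_lit 2) (nat_lit 4) (nat_lit 336) (nat_lit 269) (nat_lit 175)))) (XT.nd (nat_lit 156) (nat_lit 0) (nat_lit 0) (XT.nd (nat_lit 78) (nat_lit 0) (nat_lit 0) (XT.lf (nat_lit 0) (nat_lit 101774612649) (nat_lit 152) (nat_lit 286658312956) (nat_lit 0) (nat_lit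 72387459580) (nat_lit 2) (nat_lit 5) (nat_lit 4) (nat_lit 4) (nat_lit 2) (nat_lit 4) (nat_lit 337) (nat_lit 269) (nat_lit 174)) (XT.lf (nat_lit 0) (nat_lit 122234928113) (nat_lit 152) (nat_lit 281420172235) (nat_lit 0) (nat_lit 92846320063) (nat_lit 2) (nat_lit 5) (nat_lit 4) (nat_lit 4) (nat_lit 2) (nat_lit 4) (nat_lit 338) (nat_lit 269) (nat_lit 173))) (XT.nd (nat_lit 78) (nat_lit 0) (nat_lit 0) (XT.lf (nat_lit 0) (nat_lit 144330672616) (nat_lit 152) (nat_lit 275765661214) (nat_lit 0) (nat_lit 114940717362) (nat_lit 2) (nat_lit 5) (nat_lit 4) (nat_lit 4) (nat_lit 2) (nat_lit 4) (nat_lit 339) (nat_lit 269) (nat_lit 172)) (XT.lf (nat_lit 0) (nat_lit 168192783902) (nat_lit 152) (nat_lit 269661271679) (nat_lit 0) (nat_lit 138801581237) (nat_lit 2) (nat_lit 5) (nat_lit 4) (nat_lit 4) (nat_lit 2) (nat_lit 4) (nat_lit 340) (nat_lit 269) (nat_lit 171))))))))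
noncomputable def xc66 : XT := (XT.nd (nat_lit 35412) (nat_lit 0) (nat_lit 836) (XT.nd (nat_lit 1092) (nat_lit 76) (nat_lit 0) (XT.nd (nat_lit 546) (nat_lit 0) (nat_lit 0) (XT.nd (nat_lit 234) (nat_lit 0) (nat_lit 0) (XT.nd (nat_lit 78) (nat_lit 0) (nat_lit 0) (XT.lf (nat_lit 0) (nat_lit 193962667076) (nat_lit 152) (nat_lit 263070829472) (nat_lit 0) (nat_lit 164570309400) (nat_lit 2) (nat_lit 5) (nat_lit 4) (nat_lit 4) (nat_lit 2) (nat_lit 4) (nat_lit 341) (nat_lit 269) (nat_lit 170)) (XT.nd (nat_lit 78) (nat_lit 0) (nat_lit 0) (XT.lf (nat_lit 0) (nat_lit 221793032556) (nat_lit 152) (nat_lit 255955280118) (nat_lit 0) (nat_lit 192399605427) (nat_lit 2) (nat_lit 5) (nat_lit 4) (nat_lit 4) (nat_lit 2) (nat_lit 4) (nat_lit 342) (nat_lit 269) (nat_lit 169)) (XT.lf (nat_lit 0) (nat_lit 251848801027) (nat_lit 152) (nat_lit 248272457400) (nat_lit 0) (nat_lit 222454383663) (nat_lit 2) (nat_lit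 5) (nat_lit 4) (nat_lit 4) (nat_lit 2) (nat_lit 4) (nat_lit 343) (nat_lit 269) (nat_lit 168)))) (XT.nd (nat_lit 156) (nat_lit 0) (nat_lit 0) (XT.nd (nat_lit 78) (nat_lit 0) (nat_lit 0) (XT.lf (nat_lit 0) (nat_lit 284308080747) (nat_lit 152) (nat_lit 239976833480) (nat_lit 0) (nat_lit 254912746498) (nat_lit 2) (nat_lit 5) (nat_lit 4) (nat_lit 4) (nat_lit 2) (nat_lit 4) (nat_lit 344) (nat_lit 269) (nat_lit 167)) (XT.lf (nat_lit 0) (nat_lit 319363223003) (nat_lit 152) (nat_lit 231019249104) (nat_lit 0) (nat_lit 289967039786) (nat_lit 2) (nat_lit 5) (nat_lit 4) (nat_lit 4) (nat_lit 2) (nat_lit 4) (nat_lit 345) (nat_lit 269) (nat_lit 166))) (XT.nd (nat_lit 78) (nat_lit 0) (nat_lit 0) (XT.lf (nat_lit 0) (nat_lit 357221961970) (nat_lit 152) (nat_lit 221346622291) (nat_lit 0) (nat_lit 327824992673) (nat_lit 2) (nat_lit 5) (nat_lit 4) (nat_lit 4) (nat_lit 2) (nat_lit 4) (nat_lit 346) (nat_lit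 269) (nat_lit 165)) (XT.lf (nat_lit 0) (nat_lit 398108645732) (nat_lit 152) (nat_lit 210901633772) (nat_lit 0) (nat_lit 368710948583) (nat_lit 2) (nat_lit 5) (nat_lit 4) (nat_lit 4) (nat_lit 2) (nat_lit 4) (nat_lit 347) (nat_lit 269) (nat_lit 164))))) (XT.nd (nat_lit 234) (nat_lit 0) (nat_lit 0) (XT.nd (nat_lit 78) (nat_lit 0) (nat_lit 0) (XT.lf (nat_lit 0) (nat_lit 442265565748) (nat_lit 152) (nat_lit 199622387317) (nat_lit 0) (nat_lit 412867194661) (nat_lit 2) (nat_lit 5) (nat_lit 4) (nat_lit 4) (nat_lit 2) (nat_lit 4) (nat_lit 348) (nat_lit 269) (nat_lit 163)) (XT.nd (nat_lit 78) (nat_lit 0) (nat_lit 0) (XT.lf (nat_lit 0) (nat_lit 489954392656) (nat_lit 152) (nat_lit 187442042948) (nat_lit 0) (nat_lit 460555397553) (nat_lit 2) (nat_lit 5) (nat_lit 4) (nat_lit 4) (nat_lit 2) (nat_lit 4) (nat_lit 349) (nat_lit 269) (nat_lit 162)) (XT.lf (nat_lit 0) (nat_lit 541457726910) (nat_lit 152)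 (nat_lit 174288420846) (nat_lit 0) (nat_lit 512058154014) (nat_lit 2) (nat_lit 5) (nat_lit 4) (nat_lit 4) (nat_lit 2) (nat_lit 4) (nat_lit 350) (nat_lit 269) (nat_lit 161)))) (XT.nd (nat_lit 156) (nat_lit 0) (nat_lit 0) (XT.nd (nat_lit 78) (nat_lit 0) (nat_lit 0) (XT.lf (nat_lit 0) (nat_lit 597080773455) (nat_lit 152) (nat_lit 160083573622) (nat_lit 0) (nat_lit 567680665566) (nat_lit 2) (nat_lit 5) (nat_lit 4) (nat_lit 4) (nat_lit 2) (nat_lit 4) (nat_lit 351) (nat_lit 269) (nat_lit 160)) (XT.lf (nat_lit 0) (nat_lit 657153150345) (nat_lit 152) (nat_lit 144743324402) (nat_lit 0) (nat_lit 627752547092) (nat_lit 2) (nat_lit 5) (nat_lit 4) (nat_lit 4) (nat_lit 2) (nat_lit 4) (nat_lit 352) (nat_lit 269) (nat_lit 159))) (XT.nd (nat_lit 78) (nat_lit 0) (nat_lit 0) (XT.lf (nat_lit 0) (nat_lit 722030842034) (nat_lit 152) (nat_lit 128176768006) (nat_lit 0) (nat_lit 692629780111) (nat_lit 2) (nat_lit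 5) (nat_lit 4) (nat_lit 4) (nat_lit 2) (nat_lit 4) (nat_lit 353) (nat_lit 269) (nat_lit 158)) (XT.lf (nat_lit 0) (nat_lit 792098308919) (nat_lit 152) (nat_lit 110285732248) (nat_lit 0) (nat_lit 762696822300) (nat_lit 2) (nat_lit 5) (nat_lit 4) (nat_lit 4) (nat_lit 2) (nat_lit 4) (nat_lit 354) (nat_lit 269) (nat_lit 157)))))) (XT.nd (nat_lit 546) (nat_lit 0) (nat_lit 0) (XT.nd (nat_lit 234) (nat_lit 76) (nat_lit 0) (XT.nd (nat_lit 78) (nat_lit 0) (nat_lit 0) (XT.lf (nat_lit 0) (nat_lit 867770765617) (nat_lit 152) (nat_lit 90964196176) (nat_lit 0) (nat_lit 838368885763) (nat_lit 2) (nat_lit 5) (nat_lit 4) (nat_lit 4) (nat_lit 2) (nat_lit 4) (nat_lit 355) (nat_lit 269) (nat_lit 156)) (XT.nd (nat_lit 78) (nat_lit 0) (nat_lit 0) (XT.lf (nat_lit 0) (nat_lit 949496641502) (nat_lit 152) (nat_lit 70097661797) (nat_lit 0) (nat_lit 920094397540) (nat_lit 2) (nat_lit 5) (nat_lit 4) (nat_lit 4)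 (nat_lit 2) (nat_lit 4) (nat_lit 356) (nat_lit 269) (nat_lit 155)) (XT.lf (nat_lit 0) (nat_lit 1037760238061) (nat_lit 152) (nat_lit 47562475576) (nat_lit 0) (nat_lit 1008357656962) (nat_lit 2) (nat_lit 5) (nat_lit 4) (nat_lit 4) (nat_lit 2) (nat_lit 4) (nat_lit 357) (nat_lit 269) (nat_lit 154)))) (XT.nd (nat_lit 156) (nat_lit 0) (nat_lit 0) (XT.nd (nat_lit 78) (nat_lit 76) (nat_lit 0) (XT.lf (nat_lit 0) (nat_lit 1133084598828) (nat_lit 152) (nat_lit 23225095666) (nat_lit 0) (nat_lit 1103681705566) (nat_lit 2) (nat_lit 5) (nat_lit 4) (nat_lit 4) (nat_lit 2) (nat_lit 4) (nat_lit 358) (nat_lit 269) (nat_lit 153)) (XT.lf (nat_lit 0) (nat_lit 3219765132) (nat_lit 76) (nat_lit 1232892279201) (nat_lit 76) (nat_lit 1203489096899) (nat_lit 1) (nat_lit 4) (nat_lit 2) (nat_lit 5) (nat_lit 2) (nat_lit 4) (nat_lit 359) (nat_lit 269) (nat_lit 152))) (XT.nd (nat_lit 78) (nat_lit 0) (nat_lit 0) (XT.lf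 (nat_lit 0) (nat_lit 33100485932) (nat_lit 76) (nat_lit 1314915923975) (nat_lit 76) (nat_lit 1285512474043) (nat_lit 1) (nat_lit 4) (nat_lit 2) (nat_lit 5) (nat_lit 2) (nat_lit 4) (nat_lit 360) (nat_lit 269) (nat_lit 151)) (XT.lf (nat_lit 0) (nat_lit 65371145292) (nat_lit 76) (nat_lit 1403501710133) (nat_lit 76) (nat_lit 1374098012395) (nat_lit 1) (nat_lit 4) (nat_lit 2) (nat_lit 5) (nat_lit 2) (nat_lit 4) (nat_lit 361) (nat_lit 269) (nat_lit 150))))) (XT.nd (nat_lit 33462) (nat_lit 0) (nat_lit 3192) (XT.nd (nat_lit 156) (nat_lit 0) (nat_lit 0) (XT.nd (nat_lit 78) (nat_lit 0) (nat_lit 0) (XT.lf (nat_lit 0) (nat_lit 100222976748) (nat_lit 76) (nat_lit 1499174590483) (nat_lit 76) (nat_lit 1469770663295) (nat_lit 1) (nat_lit 4) (nat_lit 2) (nat_lit 5) (nat_lit 2) (nat_lit 4) (nat_lit 362) (nat_lit 269) (nat_lit 149)) (XT.lf (nat_lit 0) (nat_lit 137862509672) (nat_lit 76) (nat_lit 1602501515425)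 (nat_lit 76) (nat_lit 1573097375785) (nat_lit 1) (nat_lit 4) (nat_lit 2) (nat_lit 5) (nat_lit 2) (nat_lit 4) (nat_lit 363) (nat_lit 269) (nat_lit 148))) (XT.nd (nat_lit 78) (nat_lit 0) (nat_lit 0) (XT.lf (nat_lit 0) (nat_lit 178512793149) (nat_lit 76) (nat_lit 1714094792665) (nat_lit 76) (nat_lit 1684690456308) (nat_lit 1) (nat_lit 4) (nat_lit 2) (nat_lit 5) (nat_lit 2) (nat_lit 4) (nat_lit 364) (nat_lit 269) (nat_lit 147)) (XT.lf (nat_lit 0) (nat_lit 222414717746) (nat_lit 76) (nat_lit 1834615715695) (nat_lit 76) (nat_lit 1805211197195) (nat_lit 1) (nat_lit 4) (nat_lit 2) (nat_lit 5) (nat_lit 2) (nat_lit 4) (nat_lit 365) (nat_lit 269) (nat_lit 146)))) (XT.nd (nat_lit 156) (nat_lit 456) (nat_lit 0) (XT.nd (nat_lit 78) (nat_lit 0) (nat_lit 0) (XT.lf (nat_lit 0) (nat_lit 1848377233) (nat_lit 0) (nat_lit 1848377233) (nat_lit 380) (nat_lit 996419969) (nat_lit 49) (nat_lit 5) (nat_lit 49)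 (nat_lit 3) (nat_lit 54) (nat_lit 3) (nat_lit 270) (nat_lit 270) (nat_lit 240)) (XT.lf (nat_lit 0) (nat_lit 8243635438) (nat_lit 0) (nat_lit 183955915) (nat_lit 380) (nat_lit 1272053552) (nat_lit 49) (nat_lit 5) (nat_lit 49) (nat_lit 3) (nat_lit 54) (nat_lit 3) (nat_lit 271) (nat_lit 270) (nat_lit 239))) (XT.nd (nat_lit 78) (nat_lit 456) (nat_lit 0) (XT.lf (nat_lit 76) (nat_lit 3142608992) (nat_lit 0) (nat_lit 6491207137) (nat_lit 456) (nat_lit 397344435) (nat_lit 50) (nat_lit 5) (nat_lit 49) (nat_lit 5) (nat_lit 55) (nat_lit 5) (nat_lit 272) (nat_lit 270) (nat_lit 238)) (XT.lf (nat_lit 0) (nat_lit 494921357) (nat_lit 456) (nat_lit 2259979840) (nat_lit 532) (nat_lit 7635511471) (nat_lit 43) (nat_lit 5) (nat_lit 49) (nat_lit 5) (nat_lit 50) (nat_lit 5) (nat_lit 273) (nat_lit 270) (nat_lit 237))))))) (XT.nd (nat_lit 1170) (nat_lit 988) (nat_lit 0) (XT.nd (nat_lit 546) (nat_lit 836) (nat_lit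 0) (XT.nd (nat_lit 234) (nat_lit 608) (nat_lit 0) (XT.nd (nat_lit 78) (nat_lit 0) (nat_lit 0) (XT.lf (nat_lit 0) (nat_lit 1473005643) (nat_lit 456) (nat_lit 7984462100) (nat_lit 532) (nat_lit 1317484672) (nat_lit 44) (nat_lit 5) (nat_lit 50) (nat_lit 5) (nat_lit 51) (nat_lit 5) (nat_lit 274) (nat_lit 270) (nat_lit 236)) (XT.nd (nat_lit 78) (nat_lit 0) (nat_lit 0) (XT.lf (nat_lit 0) (nat_lit 2603153278) (nat_lit 456) (nat_lit 2932904393) (nat_lit 532) (nat_lit 5648519616) (nat_lit 44) (nat_lit 5) (nat_lit 50) (nat_lit 5) (nat_lit 51) (nat_lit 5) (nat_lit 275) (nat_lit 270) (nat_lit 235)) (XT.lf (nat_lit 76) (nat_lit 2608880356) (nat_lit 0) (nat_lit 1220968496) (nat_lit 532) (nat_lit 7796842847) (nat_lit 45) (nat_lit 5) (nat_lit 44) (nat_lit 5) (nat_lit 51) (nat_lit 5) (nat_lit 276) (nat_lit 270) (nat_lit 234)))) (XT.nd (nat_lit 156) (nat_lit 228) (nat_lit 0) (XT.nd (nat_lit 78) (nat_lit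 456) (nat_lit 0) (XT.lf (nat_lit 0) (nat_lit 5266459134) (nat_lit 456) (nat_lit 3469750192) (nat_lit 76) (nat_lit 3359218462) (nat_lit 45) (nat_lit 5) (nat_lit 51) (nat_lit 5) (nat_lit 46) (nat_lit 5) (nat_lit 277) (nat_lit 270) (nat_lit 233)) (XT.lf (nat_lit 0) (nat_lit 2574803600) (nat_lit 456) (nat_lit 4287563178) (nat_lit 532) (nat_lit 5735926922) (nat_lit 39) (nat_lit 5) (nat_lit 45) (nat_lit 5) (nat_lit 46) (nat_lit 5) (nat_lit 278) (nat_lit 270) (nat_lit 232))) (XT.nd (nat_lit 78) (nat_lit 228) (nat_lit 0) (XT.lf (nat_lit 0) (nat_lit 8649132793) (nat_lit 532) (nat_lit 3895743483) (nat_lit 76) (nat_lit 591624801) (nat_lit 39) (nat_lit 5) (nat_lit 46) (nat_lit 5) (nat_lit 40) (nat_lit 5) (nat_lit 279) (nat_lit 270) (nat_lit 231)) (XT.lf (nat_lit 0) (nat_lit 2702241884) (nat_lit 228) (nat_lit 8009822142) (nat_lit 304) (nat_lit 2995197783) (nat_lit 36) (nat_lit 5) (nat_lit 39) (nat_lit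 5) (nat_lit 40) (nat_lit 5) (nat_lit 280) (nat_lit 270) (nat_lit 230))))) (XT.nd (nat_lit 312) (nat_lit 304) (nat_lit 0) (XT.nd (nat_lit 156) (nat_lit 228) (nat_lit 0) (XT.nd (nat_lit 78) (nat_lit 304) (nat_lit 0) (XT.lf (nat_lit 0) (nat_lit 10006936359) (nat_lit 228) (nat_lit 2998647893) (nat_lit 304) (nat_lit 1312998010) (nat_lit 36) (nat_lit 5) (nat_lit 39) (nat_lit 5) (nat_lit 40) (nat_lit 5) (nat_lit 281) (nat_lit 270) (nat_lit 229)) (XT.lf (nat_lit 0) (nat_lit 572204849) (nat_lit 304) (nat_lit 12021300171) (nat_lit 76) (nat_lit 2376966601) (nat_lit 32) (nat_lit 5) (nat_lit 36) (nat_lit 5) (nat_lit 33) (nat_lit 5) (nat_lit 282) (nat_lit 270) (nat_lit 228))) (XT.nd (nat_lit 78) (nat_lit 228) (nat_lit 0) (XT.lf (nat_lit 0) (nat_lit 2698915628) (nat_lit 304) (nat_lit 4787716713) (nat_lit 76) (nat_lit 8172334960) (nat_lit 32) (nat_lit 5) (nat_lit 36) (nat_lit 5) (nat_lit 33) (nat_lit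 5) (nat_lit 283) (nat_lit 270) (nat_lit 227)) (XT.lf (nat_lit 0) (nat_lit 3141281843) (nat_lit 228) (nat_lit 1895576239) (nat_lit 304) (nat_lit 11362502241) (nat_lit 29) (nat_lit 5) (nat_lit 32) (nat_lit 5) (nat_lit 33) (nat_lit 5) (nat_lit 284) (nat_lit 270) (nat_lit 226)))) (XT.nd (nat_lit 156) (nat_lit 152) (nat_lit 0) (XT.nd (nat_lit 78) (nat_lit 152) (nat_lit 0) (XT.lf (nat_lit 0) (nat_lit 7762768715) (nat_lit 304) (nat_lit 5356620342) (nat_lit 76) (nat_lit 4063618580) (nat_lit 29) (nat_lit 5) (nat_lit 33) (nat_lit 5) (nat_lit 30) (nat_lit 5) (nat_lit 285) (nat_lit 270) (nat_lit 225)) (XT.lf (nat_lit 0) (nat_lit 3251524804) (nat_lit 152) (nat_lit 7552101668) (nat_lit 228) (nat_lit 7218060576) (nat_lit 27) (nat_lit 5) (nat_lit 29) (nat_lit 5) (nat_lit 30) (nat_lit 5) (nat_lit 286) (nat_lit 270) (nat_lit 224))) (XT.nd (nat_lit 78) (nat_lit 152) (nat_lit 0) (XT.lf (nat_lit 0) (nat_lit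 12815092475) (nat_lit 152) (nat_lit 1389912254) (nat_lit 228) (nat_lit 4713159502) (nat_lit 27) (nat_lit 5) (nat_lit 29) (nat_lit 5) (nat_lit 30) (nat_lit 5) (nat_lit 287) (nat_lit 270) (nat_lit 223)) (XT.lf (nat_lit 0) (nat_lit 3256554414) (nat_lit 152) (nat_lit 14799651616) (nat_lit 228) (nat_lit 1816013913) (nat_lit 25) (nat_lit 5) (nat_lit 27) (nat_lit 5) (nat_lit 28) (nat_lit 5) (nat_lit 288) (nat_lit 270) (nat_lit 222)))))) (XT.nd (nat_lit 546) (nat_lit 456) (nat_lit 0) (XT.nd (nat_lit 234) (nat_lit 304) (nat_lit 0) (XT.nd (nat_lit 78) (nat_lit 152) (nat_lit 0) (XT.lf (nat_lit 0) (nat_lit 1427696362) (nat_lit 228) (nat_lit 7286872182) (nat_lit 76) (nat_lit 12171134297) (nat_lit 24) (nat_lit 5) (nat_lit 27) (nat_lit 5) (nat_lit 25) (nat_lit 5) (nat_lit 289) (nat_lit 270) (nat_lit 221)) (XT.nd (nat_lit 78) (nat_lit 0) (nat_lit 0) (XT.lf (nat_lit 0) (nat_lit 2848699556) (nat_lit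 152) (nat_lit 2027756158) (nat_lit 228) (nat_lit 17096603412) (nat_lit 22) (nat_lit 5) (nat_lit 24) (nat_lit 5) (nat_lit 25) (nat_lit 5) (nat_lit 290) (nat_lit 270) (nat_lit 220)) (XT.lf (nat_lit 0) (nat_lit 8906374712) (nat_lit 228) (nat_lit 9087723385) (nat_lit 76) (nat_lit 5128941981) (nat_lit 22) (nat_lit 5) (nat_lit 25) (nat_lit 5) (nat_lit 23) (nat_lit 5) (nat_lit 291) (nat_lit 270) (nat_lit 219)))) (XT.nd (nat_lit 156) (nat_lit 152) (nat_lit 0) (XT.nd (nat_lit 78) (nat_lit 0) (nat_lit 0) (XT.lf (nat_lit 0) (nat_lit 1753858466) (nat_lit 152) (nat_lit 11577392982) (nat_lit 228) (nat_lit 11028015581) (nat_lit 20) (nat_lit 5) (nat_lit 22) (nat_lit 5) (nat_lit 23) (nat_lit 5) (nat_lit 292) (nat_lit 270) (nat_lit 218)) (XT.lf (nat_lit 0) (nat_lit 13947379150) (nat_lit 152) (nat_lit 4389804515) (nat_lit 228) (nat_lit 7339092007) (nat_lit 20) (nat_lit 5) (nat_lit 22) (nat_lit 5) (nat_lit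 23) (nat_lit 5) (nat_lit 293) (nat_lit 270) (nat_lit 217))) (XT.nd (nat_lit 78) (nat_lit 152) (nat_lit 0) (XT.lf (nat_lit 0) (nat_lit 23804642281) (nat_lit 228) (nat_lit 94597942) (nat_lit 76) (nat_lit 3194565786) (nat_lit 20) (nat_lit 5) (nat_lit 23) (nat_lit 5) (nat_lit 21) (nat_lit 4) (nat_lit 294) (nat_lit 270) (nat_lit 216)) (XT.lf (nat_lit 0) (nat_lit 1448572597) (nat_lit 152) (nat_lit 15652188096) (nat_lit 76) (nat_lit 11488483486) (nat_lit 18) (nat_lit 5) (nat_lit 20) (nat_lit 5) (nat_lit 19) (nat_lit 5) (nat_lit 295) (nat_lit 270) (nat_lit 215))))) (XT.nd (nat_lit 312) (nat_lit 228) (nat_lit 0) (XT.nd (nat_lit 156) (nat_lit 76) (nat_lit 0) (XT.nd (nat_lit 78) (nat_lit 152) (nat_lit 0) (XT.lf (nat_lit 0) (nat_lit 6371900906) (nat_lit 152) (nat_lit 3302166323) (nat_lit 76) (nat_lit 20524709521) (nat_lit 18) (nat_lit 5) (nat_lit 20) (nat_lit 5) (nat_lit 19) (nat_lit 5) (nat_lit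 296) (nat_lit 270) (nat_lit 214)) (XT.lf (nat_lit 0) (nat_lit 10535888199) (nat_lit 152) (nat_lit 1389576841) (nat_lit 228) (nat_lit 19992730506) (nat_lit 16) (nat_lit 5) (nat_lit 18) (nat_lit 5) (nat_lit 19) (nat_lit 5) (nat_lit 297) (nat_lit 270) (nat_lit 213))) (XT.nd (nat_lit 78) (nat_lit 76) (nat_lit 0) (XT.lf (nat_lit 0) (nat_lit 18181078172) (nat_lit 228) (nat_lit 8310703779) (nat_lit 76) (nat_lit 7262795515) (nat_lit 16) (nat_lit 5) (nat_lit 19) (nat_lit 5) (nat_lit 17) (nat_lit 4) (nat_lit 298) (nat_lit 270) (nat_lit 212)) (XT.lf (nat_lit 0) (nat_lit 6047660126) (nat_lit 76) (nat_lit 19055620849) (nat_lit 152) (nat_lit 10621326165) (nat_lit 15) (nat_lit 5) (nat_lit 16) (nat_lit 5) (nat_lit 17) (nat_lit 4) (nat_lit 299) (nat_lit 270) (nat_lit 211)))) (XT.nd (nat_lit 156) (nat_lit 152) (nat_lit 0) (XT.nd (nat_lit 78) (nat_lit 76) (nat_lit 0) (XT.lf (nat_lit 0) (nat_lit 22002569863)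 (nat_lit 76) (nat_lit 10789066010) (nat_lit 152) (nat_lit 5043639591) (nat_lit 15) (nat_lit 5) (nat_lit 16) (nat_lit 5) (nat_lit 17) (nat_lit 4) (nat_lit 300) (nat_lit 270) (nat_lit 210)) (XT.lf (nat_lit 0) (nat_lit 917091598) (nat_lit 152) (nat_lit 928193304) (nat_lit 76) (nat_lit 38268779603) (nat_lit 14) (nat_lit 5) (nat_lit 16) (nat_lit 5) (nat_lit 15) (nat_lit 5) (nat_lit 301) (nat_lit 270) (nat_lit 209))) (XT.nd (nat_lit 78) (nat_lit 0) (nat_lit 0) (XT.lf (nat_lit 0) (nat_lit 7650242886) (nat_lit 228) (nat_lit 26929882725) (nat_lit 76) (nat_lit 7939127749) (nat_lit 12) (nat_lit 5) (nat_lit 15) (nat_lit 5) (nat_lit 13) (nat_lit 4) (nat_lit 302) (nat_lit 270) (nat_lit 208)) (XT.lf (nat_lit 0) (nat_lit 14983171350) (nat_lit 228) (nat_lit 11704490932) (nat_lit 76) (nat_lit 18424324400) (nat_lit 12) (nat_lit 5) (nat_lit 15) (nat_lit 5) (nat_lit 13) (nat_lit 4) (nat_lit 303) (nat_lit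 270) (nat_lit 207))))))))
noncomputable def xc67 : XT := (XT.nd (nat_lit 2262) (nat_lit 152) (nat_lit 0) (XT.nd (nat_lit 1092) (nat_lit 228) (nat_lit 0) (XT.nd (nat_lit 546) (nat_lit 152) (nat_lit 0) (XT.nd (nat_lit 234) (nat_lit 228) (nat_lit 0) (XT.nd (nat_lit 78) (nat_lit 0) (nat_lit 0) (XT.lf (nat_lit 0) (nat_lit 4966835959) (nat_lit 76) (nat_lit 18043459881) (nat_lit 152) (nat_lit 24893255819) (nat_lit 11) (nat_lit 5) (nat_lit 12) (nat_lit 5) (nat_lit 13) (nat_lit 4) (nat_lit 304) (nat_lit 270) (nat_lit 206)) (XT.nd (nat_lit 78) (nat_lit 0) (nat_lit 0) (XT.lf (nat_lit 0) (nat_lit 23617476723) (nat_lit 76) (nat_lit 8370643223) (nat_lit 152) (nat_lit 18905656116) (nat_lit 11) (nat_lit 5) (nat_lit 12) (nat_lit 5) (nat_lit 13) (nat_lit 4) (nat_lit 305) (nat_lit 270) (nat_lit 205)) (XT.lf (nat_lit 0) (nat_lit 41723266895) (nat_lit 152) (nat_lit 10432206648) (nat_lit 0) (nat_lit 1964632493)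 (nat_lit 11) (nat_lit 5) (nat_lit 13) (nat_lit 4) (nat_lit 11) (nat_lit 4) (nat_lit 306) (nat_lit 270) (nat_lit 204)))) (XT.nd (nat_lit 156) (nat_lit 76) (nat_lit 0) (XT.nd (nat_lit 78) (nat_lit 76) (nat_lit 0) (XT.lf (nat_lit 0) (nat_lit 7920399857) (nat_lit 76) (nat_lit 44714702236) (nat_lit 76) (nat_lit 4937624430) (nat_lit 10) (nat_lit 4) (nat_lit 11) (nat_lit 5) (nat_lit 11) (nat_lit 4) (nat_lit 307) (nat_lit 270) (nat_lit 203)) (XT.lf (nat_lit 0) (nat_lit 3245012139) (nat_lit 152) (nat_lit 33044529783) (nat_lit 76) (nat_lit 24983413177) (nat_lit 9) (nat_lit 5) (nat_lit 11) (nat_lit 5) (nat_lit 10) (nat_lit 4) (nat_lit 308) (nat_lit 270) (nat_lit 202))) (XT.nd (nat_lit 78) (nat_lit 76) (nat_lit 0) (XT.lf (nat_lit 0) (nat_lit 11806270340) (nat_lit 152) (nat_lit 15252924971) (nat_lit 76) (nat_lit 38200496295) (nat_lit 9) (nat_lit 5) (nat_lit 11) (nat_lit 5) (nat_lit 10) (nat_lit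 4) (nat_lit 309) (nat_lit 270) (nat_lit 201)) (XT.lf (nat_lit 0) (nat_lit 4154494109) (nat_lit 76) (nat_lit 16989305100) (nat_lit 152) (nat_lit 48414268684) (nat_lit 8) (nat_lit 5) (nat_lit 9) (nat_lit 5) (nat_lit 10) (nat_lit 4) (nat_lit 310) (nat_lit 270) (nat_lit 200))))) (XT.nd (nat_lit 234) (nat_lit 152) (nat_lit 0) (XT.nd (nat_lit 78) (nat_lit 0) (nat_lit 0) (XT.lf (nat_lit 0) (nat_lit 25967003660) (nat_lit 76) (nat_lit 5670096513) (nat_lit 152) (nat_lit 42530522216) (nat_lit 8) (nat_lit 5) (nat_lit 9) (nat_lit 5) (nat_lit 10) (nat_lit 4) (nat_lit 311) (nat_lit 270) (nat_lit 199)) (XT.nd (nat_lit 78) (nat_lit 0) (nat_lit 0) (XT.lf (nat_lit 0) (nat_lit 43119696501) (nat_lit 152) (nat_lit 29793382720) (nat_lit 0) (nat_lit 6220884490) (nat_lit 8) (nat_lit 5) (nat_lit 10) (nat_lit 4) (nat_lit 8) (nat_lit 4) (nat_lit 312) (nat_lit 270) (nat_lit 198)) (XT.lf (nat_lit 0) (nat_lit 55660945980)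 (nat_lit 152) (nat_lit 10074098608) (nat_lit 0) (nat_lit 18751372419) (nat_lit 8) (nat_lit 5) (nat_lit 10) (nat_lit 4) (nat_lit 8) (nat_lit 4) (nat_lit 313) (nat_lit 270) (nat_lit 197)))) (XT.nd (nat_lit 156) (nat_lit 76) (nat_lit 0) (XT.nd (nat_lit 78) (nat_lit 0) (nat_lit 0) (XT.lf (nat_lit 0) (nat_lit 11800777249) (nat_lit 76) (nat_lit 57681832894) (nat_lit 76) (nat_lit 20762294935) (nat_lit 7) (nat_lit 4) (nat_lit 8) (nat_lit 5) (nat_lit 8) (nat_lit 4) (nat_lit 314) (nat_lit 270) (nat_lit 196)) (XT.lf (nat_lit 0) (nat_lit 35986603163) (nat_lit 76) (nat_lit 48692361897) (nat_lit 76) (nat_lit 11763597645) (nat_lit 7) (nat_lit 4) (nat_lit 8) (nat_lit 5) (nat_lit 8) (nat_lit 4) (nat_lit 315) (nat_lit 270) (nat_lit 195))) (XT.nd (nat_lit 78) (nat_lit 76) (nat_lit 0) (XT.lf (nat_lit 0) (nat_lit 62096218365) (nat_lit 76) (nat_lit 38988804369) (nat_lit 76) (nat_lit 2051497252) (nat_lit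 7) (nat_lit 4) (nat_lit 8) (nat_lit 5) (nat_lit 8) (nat_lit 4) (nat_lit 316) (nat_lit 270) (nat_lit 194)) (XT.lf (nat_lit 0) (nat_lit 8009778679) (nat_lit 152) (nat_lit 20284877524) (nat_lit 76) (nat_lit 82055566278) (nat_lit 6) (nat_lit 5) (nat_lit 8) (nat_lit 5) (nat_lit 7) (nat_lit 4) (nat_lit 317) (nat_lit 270) (nat_lit 193)))))) (XT.nd (nat_lit 546) (nat_lit 76) (nat_lit 0) (XT.nd (nat_lit 234) (nat_lit 76) (nat_lit 0) (XT.nd (nat_lit 78) (nat_lit 0) (nat_lit 0) (XT.lf (nat_lit 0) (nat_lit 2176807331) (nat_lit 76) (nat_lit 16635379513) (nat_lit 152) (nat_lit 99320811567) (nat_lit 5) (nat_lit 5) (nat_lit 6) (nat_lit 5) (nat_lit 7) (nat_lit 4) (nat_lit 318) (nat_lit 270) (nat_lit 192)) (XT.nd (nat_lit 78) (nat_lit 0) (nat_lit 0) (XT.lf (nat_lit 0) (nat_lit 27579513289) (nat_lit 76) (nat_lit 3448773343) (nat_lit 152) (nat_lit 95466154713) (nat_lit 5) (nat_lit 5) (nat_lit 6) (nat_lit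 5) (nat_lit 7) (nat_lit 4) (nat_lit 319) (nat_lit 270) (nat_lit 191)) (XT.lf (nat_lit 0) (nat_lit 44476396572) (nat_lit 152) (nat_lit 80779042699) (nat_lit 0) (nat_lit 10248987156) (nat_lit 5) (nat_lit 5) (nat_lit 7) (nat_lit 4) (nat_lit 5) (nat_lit 4) (nat_lit 320) (nat_lit 270) (nat_lit 190)))) (XT.nd (nat_lit 156) (nat_lit 76) (nat_lit 0) (XT.nd (nat_lit 78) (nat_lit 0) (nat_lit 0) (XT.lf (nat_lit 0) (nat_lit 59085448648) (nat_lit 152) (nat_lit 61290302578) (nat_lit 0) (nat_lit 24852655778) (nat_lit 5) (nat_lit 5) (nat_lit 7) (nat_lit 4) (nat_lit 5) (nat_lit 4) (nat_lit 321) (nat_lit 270) (nat_lit 189)) (XT.lf (nat_lit 0) (nat_lit 74859071939) (nat_lit 152) (nat_lit 40250275780) (nat_lit 0) (nat_lit 40621294389) (nat_lit 5) (nat_lit 5) (nat_lit 7) (nat_lit 4) (nat_lit 5) (nat_lit 4) (nat_lit 322) (nat_lit 270) (nat_lit 188))) (XT.nd (nat_lit 78) (nat_lit 76) (nat_lit 0) (XT.lf (nat_lit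 0) (nat_lit 91890739768) (nat_lit 152) (nat_lit 17534280666) (nat_lit 0) (nat_lit 57648346775) (nat_lit 5) (nat_lit 5) (nat_lit 7) (nat_lit 4) (nat_lit 5) (nat_lit 4) (nat_lit 323) (nat_lit 270) (nat_lit 187)) (XT.lf (nat_lit 0) (nat_lit 7360497987) (nat_lit 76) (nat_lit 103097902704) (nat_lit 76) (nat_lit 68851236151) (nat_lit 4) (nat_lit 4) (nat_lit 5) (nat_lit 5) (nat_lit 5) (nat_lit 4) (nat_lit 324) (nat_lit 270) (nat_lit 186))))) (XT.nd (nat_lit 312) (nat_lit 76) (nat_lit 0) (XT.nd (nat_lit 156) (nat_lit 0) (nat_lit 0) (XT.nd (nat_lit 78) (nat_lit 0) (nat_lit 0) (XT.lf (nat_lit 0) (nat_lit 35237520593) (nat_lit 76) (nat_lit 95749918448) (nat_lit 76) (nat_lit 61499294896) (nat_lit 4) (nat_lit 4) (nat_lit 5) (nat_lit 5) (nat_lit 5) (nat_lit 4) (nat_lit 325) (nat_lit 270) (nat_lit 185)) (XT.lf (nat_lit 0) (nat_lit 65338660175) (nat_lit 76) (nat_lit 87816942362) (nat_lit 76) (nat_lit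 53562654921) (nat_lit 4) (nat_lit 4) (nat_lit 5) (nat_lit 5) (nat_lit 5) (nat_lit 4) (nat_lit 326) (nat_lit 270) (nat_lit 184))) (XT.nd (nat_lit 78) (nat_lit 0) (nat_lit 0) (XT.lf (nat_lit 0) (nat_lit 97842293857) (nat_lit 76) (nat_lit 79251964218) (nat_lit 76) (nat_lit 44994284289) (nat_lit 4) (nat_lit 4) (nat_lit 5) (nat_lit 5) (nat_lit 5) (nat_lit 4) (nat_lit 327) (nat_lit 270) (nat_lit 183)) (XT.lf (nat_lit 0) (nat_lit 132941035764) (nat_lit 76) (nat_lit 70004228590) (nat_lit 76) (nat_lit 35743407467) (nat_lit 4) (nat_lit 4) (nat_lit 5) (nat_lit 5) (nat_lit 5) (nat_lit 4) (nat_lit 328) (nat_lit 270) (nat_lit 182)))) (XT.nd (nat_lit 156) (nat_lit 76) (nat_lit 0) (XT.nd (nat_lit 78) (nat_lit 0) (nat_lit 0) (XT.lf (nat_lit 0) (nat_lit 170842878440) (nat_lit 76) (nat_lit 60018934083) (nat_lit 76) (nat_lit 25755204447) (nat_lit 4) (nat_lit 4) (nat_lit 5) (nat_lit 5) (nat_lit 5) (nat_lit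 4) (nat_lit 329) (nat_lit 270) (nat_lit 181)) (XT.lf (nat_lit 0) (nat_lit 211772425398) (nat_lit 76) (nat_lit 49236908579) (nat_lit 76) (nat_lit 14970485876) (nat_lit 4) (nat_lit 4) (nat_lit 5) (nat_lit 5) (nat_lit 5) (nat_lit 4) (nat_lit 330) (nat_lit 270) (nat_lit 180))) (XT.nd (nat_lit 78) (nat_lit 76) (nat_lit 0) (XT.lf (nat_lit 0) (nat_lit 255972222102) (nat_lit 76) (nat_lit 37594258595) (nat_lit 76) (nat_lit 3325342311) (nat_lit 4) (nat_lit 4) (nat_lit 5) (nat_lit 5) (nat_lit 5) (nat_lit 4) (nat_lit 331) (nat_lit 270) (nat_lit 179)) (XT.lf (nat_lit 0) (nat_lit 8786550336) (nat_lit 152) (nat_lit 15995200455) (nat_lit 76) (nat_lit 294677403079) (nat_lit 3) (nat_lit 5) (nat_lit 5) (nat_lit 5) (nat_lit 4) (nat_lit 4) (nat_lit 332) (nat_lit 270) (nat_lit 178))))))) (XT.nd (nat_lit 1170) (nat_lit 76) (nat_lit 0) (XT.nd (nat_lit 546) (nat_lit 0) (nat_lit 0) (XT.nd (nat_lit 234) (nat_lit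 0) (nat_lit 0) (XT.nd (nat_lit 78) (nat_lit 0) (nat_lit 0) (XT.lf (nat_lit 0) (nat_lit 11403604461) (nat_lit 76) (nat_lit 10556476048) (nat_lit 152) (nat_lit 321843095140) (nat_lit 2) (nat_lit 5) (nat_lit 3) (nat_lit 5) (nat_lit 4) (nat_lit 4) (nat_lit 333) (nat_lit 270) (nat_lit 177)) (XT.nd (nat_lit 78) (nat_lit 0) (nat_lit 0) (XT.lf (nat_lit 0) (nat_lit 36749894269) (nat_lit 152) (nat_lit 328286368178) (nat_lit 0) (nat_lit 5013466043) (nat_lit 2) (nat_lit 5) (nat_lit 4) (nat_lit 4) (nat_lit 2) (nat_lit 4) (nat_lit 334) (nat_lit 270) (nat_lit 176)) (XT.lf (nat_lit 0) (nat_lit 52995328505) (nat_lit 152) (nat_lit 324121680345) (nat_lit 0) (nat_lit 21257203190) (nat_lit 2) (nat_lit 5) (nat_lit 4) (nat_lit 4) (nat_lit 2) (nat_lit 4) (nat_lit 335) (nat_lit 270) (nat_lit 175)))) (XT.nd (nat_lit 156) (nat_lit 0) (nat_lit 0) (XT.nd (nat_lit 78) (nat_lit 0) (nat_lit 0) (XT.lf (nat_lit 0) (nat_lit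 70538768953) (nat_lit 152) (nat_lit 319626944554) (nat_lit 0) (nat_lit 38799072259) (nat_lit 2) (nat_lit 5) (nat_lit 4) (nat_lit 4) (nat_lit 2) (nat_lit 4) (nat_lit 336) (nat_lit 270) (nat_lit 174)) (XT.lf (nat_lit 0) (nat_lit 89484176743) (nat_lit 152) (nat_lit 314775525335) (nat_lit 0) (nat_lit 57743025069) (nat_lit 2) (nat_lit 5) (nat_lit 4) (nat_lit 4) (nat_lit 2) (nat_lit 4) (nat_lit 337) (nat_lit 270) (nat_lit 173))) (XT.nd (nat_lit 78) (nat_lit 0) (nat_lit 0) (XT.lf (nat_lit 0) (nat_lit 109943820958) (nat_lit 152) (nat_lit 309538673536) (nat_lit 0) (nat_lit 78201322079) (nat_lit 2) (nat_lit 5) (nat_lit 4) (nat_lit 4) (nat_lit 2) (nat_lit 4) (nat_lit 338) (nat_lit 270) (nat_lit 172)) (XT.lf (nat_lit 0) (nat_lit 132038943933) (nat_lit 152) (nat_lit 303885355961) (nat_lit 0) (nat_lit 100295197643) (nat_lit 2) (nat_lit 5) (nat_lit 4) (nat_lit 4) (nat_lit 2) (nat_lit 4) (nat_lit 339)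 (nat_lit 270) (nat_lit 171))))) (XT.nd (nat_lit 312) (nat_lit 0) (nat_lit 0) (XT.nd (nat_lit 156) (nat_lit 0) (nat_lit 0) (XT.nd (nat_lit 78) (nat_lit 0) (nat_lit 0) (XT.lf (nat_lit 0) (nat_lit 155900479731) (nat_lit 152) (nat_lit 297782071470) (nat_lit 0) (nat_lit 124155578431) (nat_lit 2) (nat_lit 5) (nat_lit 4) (nat_lit 4) (nat_lit 2) (nat_lit 4) (nat_lit 340) (nat_lit 270) (nat_lit 170)) (XT.lf (nat_lit 0) (nat_lit 181669830046) (nat_lit 152) (nat_lit 291192652450) (nat_lit 0) (nat_lit 149923859292) (nat_lit 2) (nat_lit 5) (nat_lit 4) (nat_lit 4) (nat_lit 2) (nat_lit 4) (nat_lit 341) (nat_lit 270) (nat_lit 169))) (XT.nd (nat_lit 78) (nat_lit 0) (nat_lit 0) (XT.lf (nat_lit 0) (nat_lit 209499702138) (nat_lit 152) (nat_lit 284078050493) (nat_lit 0) (nat_lit 177752741149) (nat_lit 2) (nat_lit 5) (nat_lit 4) (nat_lit 4) (nat_lit 2) (nat_lit 4) (nat_lit 342) (nat_lit 270) (nat_lit 168))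 (XT.lf (nat_lit 0) (nat_lit 239555013768) (nat_lit 152) (nat_lit 276396104994) (nat_lit 0) (nat_lit 207807135895) (nat_lit 2) (nat_lit 5) (nat_lit 4) (nat_lit 4) (nat_lit 2) (nat_lit 4) (nat_lit 343) (nat_lit 270) (nat_lit 167)))) (XT.nd (nat_lit 156) (nat_lit 0) (nat_lit 0) (XT.nd (nat_lit 78) (nat_lit 0) (nat_lit 0) (XT.lf (nat_lit 0) (nat_lit 272013870487) (nat_lit 152) (nat_lit 268101293313) (nat_lit 0) (nat_lit 240265143646) (nat_lit 2) (nat_lit 5) (nat_lit 4) (nat_lit 4) (nat_lit 2) (nat_lit 4) (nat_lit 344) (nat_lit 270) (nat_lit 166)) (XT.lf (nat_lit 0) (nat_lit 307068621075) (nat_lit 152) (nat_lit 259144461011) (nat_lit 0) (nat_lit 275319108153) (nat_lit 2) (nat_lit 5) (nat_lit 4) (nat_lit 4) (nat_lit 2) (nat_lit 4) (nat_lit 345) (nat_lit 270) (nat_lit 165))) (XT.nd (nat_lit 78) (nat_lit 0) (nat_lit 0) (XT.lf (nat_lit 0) (nat_lit 344926997387) (nat_lit 152) (nat_lit 249472530562)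 (nat_lit 0) (nat_lit 313176756613) (nat_lit 2) (nat_lit 5) (nat_lit 4) (nat_lit 4) (nat_lit 2) (nat_lit 4) (nat_lit 346) (nat_lit 270) (nat_lit 164)) (XT.lf (nat_lit 0) (nat_lit 385813345357) (nat_lit 152) (nat_lit 239028186825) (nat_lit 0) (nat_lit 354062430646) (nat_lit 2) (nat_lit 5) (nat_lit 4) (nat_lit 4) (nat_lit 2) (nat_lit 4) (nat_lit 347) (nat_lit 270) (nat_lit 163)))))) (XT.nd (nat_lit 546) (nat_lit 76) (nat_lit 0) (XT.nd (nat_lit 234) (nat_lit 0) (nat_lit 0) (XT.nd (nat_lit 78) (nat_lit 0) (nat_lit 0) (XT.lf (nat_lit 0) (nat_lit 429969954455) (nat_lit 152) (nat_lit 227749537390) (nat_lit 0) (nat_lit 398218415728) (nat_lit 2) (nat_lit 5) (nat_lit 4) (nat_lit 4) (nat_lit 2) (nat_lit 4) (nat_lit 348) (nat_lit 270) (nat_lit 162)) (XT.nd (nat_lit 78) (nat_lit 0) (nat_lit 0) (XT.lf (nat_lit 0) (nat_lit 477658493476) (nat_lit 152) (nat_lit 215569745818) (nat_lit 0) (nat_lit 445906376955)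 (nat_lit 2) (nat_lit 5) (nat_lit 4) (nat_lit 4) (nat_lit 2) (nat_lit 4) (nat_lit 349) (nat_lit 270) (nat_lit 161)) (XT.lf (nat_lit 0) (nat_lit 529161561168) (nat_lit 152) (nat_lit 202416635565) (nat_lit 0) (nat_lit 497408909654) (nat_lit 2) (nat_lit 5) (nat_lit 4) (nat_lit 4) (nat_lit 2) (nat_lit 4) (nat_lit 350) (nat_lit 270) (nat_lit 160)))) (XT.nd (nat_lit 156) (nat_lit 0) (nat_lit 0) (XT.nd (nat_lit 78) (nat_lit 0) (nat_lit 0) (XT.lf (nat_lit 0) (nat_lit 584784360896) (nat_lit 152) (nat_lit 188212262274) (nat_lit 0) (nat_lit 553031214018) (nat_lit 2) (nat_lit 5) (nat_lit 4) (nat_lit 4) (nat_lit 2) (nat_lit 4) (nat_lit 351) (nat_lit 270) (nat_lit 159)) (XT.lf (nat_lit 0) (nat_lit 644856509251) (nat_lit 152) (nat_lit 172872451882) (nat_lit 0) (nat_lit 613102903703) (nat_lit 2) (nat_lit 5) (nat_lit 4) (nat_lit 4) (nat_lit 2) (nat_lit 4) (nat_lit 352) (nat_lit 270) (nat_lit 158))) (XT.nd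 (nat_lit 78) (nat_lit 0) (nat_lit 0) (XT.lf (nat_lit 0) (nat_lit 709733989335) (nat_lit 152) (nat_lit 156306301808) (nat_lit 0) (nat_lit 677979959092) (nat_lit 2) (nat_lit 5) (nat_lit 4) (nat_lit 4) (nat_lit 2) (nat_lit 4) (nat_lit 353) (nat_lit 270) (nat_lit 157)) (XT.lf (nat_lit 0) (nat_lit 779801260288) (nat_lit 152) (nat_lit 138415642274) (nat_lit 0) (nat_lit 748046836809) (nat_lit 2) (nat_lit 5) (nat_lit 4) (nat_lit 4) (nat_lit 2) (nat_lit 4) (nat_lit 354) (nat_lit 270) (nat_lit 156))))) (XT.nd (nat_lit 312) (nat_lit 76) (nat_lit 0) (XT.nd (nat_lit 156) (nat_lit 0) (nat_lit 0) (XT.nd (nat_lit 78) (nat_lit 0) (nat_lit 0) (XT.lf (nat_lit 0) (nat_lit 855473535569) (nat_lit 152) (nat_lit 119094454557) (nat_lit 0) (nat_lit 823718747982) (nat_lit 2) (nat_lit 5) (nat_lit 4) (nat_lit 4) (nat_lit 2) (nat_lit 4) (nat_lit 355) (nat_lit 270) (nat_lit 155)) (XT.lf (nat_lit 0) (nat_lit 937199243474)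 (nat_lit 152) (nat_lit 98228242730) (nat_lit 0) (nat_lit 905444118751) (nat_lit 2) (nat_lit 5) (nat_lit 4) (nat_lit 4) (nat_lit 2) (nat_lit 4) (nat_lit 356) (nat_lit 270) (nat_lit 154))) (XT.nd (nat_lit 78) (nat_lit 0) (nat_lit 0) (XT.lf (nat_lit 0) (nat_lit 1025462684496) (nat_lit 152) (nat_lit 75693355168) (nat_lit 0) (nat_lit 993707247610) (nat_lit 2) (nat_lit 5) (nat_lit 4) (nat_lit 4) (nat_lit 2) (nat_lit 4) (nat_lit 357) (nat_lit 270) (nat_lit 153)) (XT.lf (nat_lit 0) (nat_lit 1120786901248) (nat_lit 152) (nat_lit 51356251794) (nat_lit 0) (nat_lit 1089031175321) (nat_lit 2) (nat_lit 5) (nat_lit 4) (nat_lit 4) (nat_lit 2) (nat_lit 4) (nat_lit 358) (nat_lit 270) (nat_lit 152)))) (XT.nd (nat_lit 156) (nat_lit 0) (nat_lit 0) (XT.nd (nat_lit 78) (nat_lit 76) (nat_lit 0) (XT.lf (nat_lit 0) (nat_lit 1223736777977) (nat_lit 152) (nat_lit 25072712739) (nat_lit 0) (nat_lit 1191980784421)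 (nat_lit 2) (nat_lit 5) (nat_lit 4) (nat_lit 4) (nat_lit 2) (nat_lit 4) (nat_lit 359) (nat_lit 270) (nat_lit 151)) (XT.lf (nat_lit 0) (nat_lit 3487473871) (nat_lit 76) (nat_lit 1331518787987) (nat_lit 76) (nat_lit 1299762546625) (nat_lit 1) (nat_lit 4) (nat_lit 2) (nat_lit 5) (nat_lit 2) (nat_lit 4) (nat_lit 360) (nat_lit 270) (nat_lit 150))) (XT.nd (nat_lit 78) (nat_lit 0) (nat_lit 0) (XT.lf (nat_lit 0) (nat_lit 35757902147) (nat_lit 76) (nat_lit 1420104685346) (nat_lit 76) (nat_lit 1388348214534) (nat_lit 1) (nat_lit 4) (nat_lit 2) (nat_lit 5) (nat_lit 2) (nat_lit 4) (nat_lit 361) (nat_lit 270) (nat_lit 149)) (XT.lf (nat_lit 0) (nat_lit 70609519638) (nat_lit 76) (nat_lit 1515777668659) (nat_lit 76) (nat_lit 1484020985395) (nat_lit 1) (nat_lit 4) (nat_lit 2) (nat_lit 5) (nat_lit 2) (nat_lit 4) (nat_lit 362) (nat_lit 270) (nat_lit 148))))))))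
noncomputable def xc68 : XT := (XT.nd (nat_lit 35490) (nat_lit 0) (nat_lit 228) (XT.nd (nat_lit 34320) (nat_lit 0) (nat_lit 1292) (XT.nd (nat_lit 33774) (nat_lit 0) (nat_lit 2660) (XT.nd (nat_lit 33462) (nat_lit 0) (nat_lit 3116) (XT.nd (nat_lit 78) (nat_lit 0) (nat_lit 0) (XT.lf (nat_lit 0) (nat_lit 108248854446) (nat_lit 76) (nat_lit 1619104688939) (nat_lit 76) (nat_lit 1587347808959) (nat_lit 1) (nat_lit 4) (nat_lit 2) (nat_lit 5) (nat_lit 2) (nat_lit 4) (nat_lit 363) (nat_lit 270) (nat_lit 147)) (XT.nd (nat_lit 78) (nat_lit 0) (nat_lit 0) (XT.lf (nat_lit 0) (nat_lit 148898954482) (nat_lit 76) (nat_lit 1730698054454) (nat_lit 76) (nat_lit 1698940992329) (nat_lit 1) (nat_lit 4) (nat_lit 2) (nat_lit 5) (nat_lit 2) (nat_lit 4) (nat_lit 364) (nat_lit 270) (nat_lit 146)) (XT.lf (nat_lit 0) (nat_lit 192800709226) (nat_lit 76) (nat_lit 1851219059221) (nat_lit 76) (nat_lit 1819461828444)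 (nat_lit 1) (nat_lit 4) (nat_lit 2) (nat_lit 5) (nat_lit 2) (nat_lit 4) (nat_lit 365) (nat_lit 270) (nat_lit 145)))) (XT.nd (nat_lit 156) (nat_lit 0) (nat_lit 76) (XT.nd (nat_lit 78) (nat_lit 532) (nat_lit 0) (XT.lf (nat_lit 0) (nat_lit 2356539871) (nat_lit 0) (nat_lit 2356539871) (nat_lit 380) (nat_lit 294885626) (nat_lit 49) (nat_lit 5) (nat_lit 49) (nat_lit 3) (nat_lit 54) (nat_lit 3) (nat_lit 271) (nat_lit 271) (nat_lit 238)) (XT.lf (nat_lit 0) (nat_lit 69288974) (nat_lit 532) (nat_lit 794697188) (nat_lit 532) (nat_lit 9499151073) (nat_lit 42) (nat_lit 3) (nat_lit 49) (nat_lit 3) (nat_lit 49) (nat_lit 5) (nat_lit 272) (nat_lit 271) (nat_lit 237))) (XT.nd (nat_lit 78) (nat_lit 0) (nat_lit 0) (XT.lf (nat_lit 0) (nat_lit 868802044) (nat_lit 456) (nat_lit 6581857855) (nat_lit 532) (nat_lit 3276913033) (nat_lit 43) (nat_lit 5) (nat_lit 49) (nat_lit 5) (nat_lit 50) (nat_lit 5) (nat_lit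 273) (nat_lit 271) (nat_lit 236)) (XT.lf (nat_lit 0) (nat_lit 1716429060) (nat_lit 456) (nat_lit 1656095627) (nat_lit 532) (nat_lit 7750133839) (nat_lit 43) (nat_lit 5) (nat_lit 49) (nat_lit 5) (nat_lit 50) (nat_lit 5) (nat_lit 274) (nat_lit 271) (nat_lit 235))))) (XT.nd (nat_lit 234) (nat_lit 608) (nat_lit 0) (XT.nd (nat_lit 78) (nat_lit 0) (nat_lit 0) (XT.lf (nat_lit 0) (nat_lit 2695236777) (nat_lit 456) (nat_lit 7756907566) (nat_lit 532) (nat_lit 1092347422) (nat_lit 44) (nat_lit 5) (nat_lit 50) (nat_lit 5) (nat_lit 51) (nat_lit 5) (nat_lit 275) (nat_lit 271) (nat_lit 234)) (XT.nd (nat_lit 78) (nat_lit 0) (nat_lit 0) (XT.lf (nat_lit 0) (nat_lit 3833989505) (nat_lit 456) (nat_lit 2365396465) (nat_lit 532) (nat_lit 5794349312) (nat_lit 44) (nat_lit 5) (nat_lit 50) (nat_lit 5) (nat_lit 51) (nat_lit 5) (nat_lit 276) (nat_lit 271) (nat_lit 233)) (XT.lf (nat_lit 76) (nat_lit 3599423715)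 (nat_lit 0) (nat_lit 1502453150) (nat_lit 532) (nat_lit 7374179080) (nat_lit 45) (nat_lit 5) (nat_lit 44) (nat_lit 5) (nat_lit 51) (nat_lit 5) (nat_lit 277) (nat_lit 271) (nat_lit 232)))) (XT.nd (nat_lit 156) (nat_lit 228) (nat_lit 0) (XT.nd (nat_lit 78) (nat_lit 456) (nat_lit 0) (XT.lf (nat_lit 0) (nat_lit 6577793955) (nat_lit 456) (nat_lit 2944529665) (nat_lit 76) (nat_lit 3466277795) (nat_lit 45) (nat_lit 5) (nat_lit 51) (nat_lit 5) (nat_lit 46) (nat_lit 5) (nat_lit 278) (nat_lit 271) (nat_lit 231)) (XT.lf (nat_lit 0) (nat_lit 3563264367) (nat_lit 456) (nat_lit 4691001157) (nat_lit 532) (nat_lit 5281441190) (nat_lit 39) (nat_lit 5) (nat_lit 45) (nat_lit 5) (nat_lit 46) (nat_lit 5) (nat_lit 279) (nat_lit 271) (nat_lit 230))) (XT.nd (nat_lit 78) (nat_lit 228) (nat_lit 0) (XT.lf (nat_lit 0) (nat_lit 10120189333) (nat_lit 532) (nat_lit 3416310023) (nat_lit 76) (nat_lit 585797540) (nat_lit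 39) (nat_lit 5) (nat_lit 46) (nat_lit 5) (nat_lit 40) (nat_lit 5) (nat_lit 280) (nat_lit 271) (nat_lit 229)) (XT.lf (nat_lit 0) (nat_lit 3689486504) (nat_lit 228) (nat_lit 8619499667) (nat_lit 304) (nat_lit 2433072803) (nat_lit 36) (nat_lit 5) (nat_lit 39) (nat_lit 5) (nat_lit 40) (nat_lit 5) (nat_lit 281) (nat_lit 271) (nat_lit 228)))))) (XT.nd (nat_lit 546) (nat_lit 684) (nat_lit 0) (XT.nd (nat_lit 234) (nat_lit 380) (nat_lit 0) (XT.nd (nat_lit 78) (nat_lit 304) (nat_lit 0) (XT.lf (nat_lit 0) (nat_lit 11521440592) (nat_lit 228) (nat_lit 3209735793) (nat_lit 304) (nat_lit 675685255) (nat_lit 36) (nat_lit 5) (nat_lit 39) (nat_lit 5) (nat_lit 40) (nat_lit 5) (nat_lit 282) (nat_lit 271) (nat_lit 227)) (XT.nd (nat_lit 78) (nat_lit 0) (nat_lit 0) (XT.lf (nat_lit 0) (nat_lit 1290147799) (nat_lit 304) (nat_lit 12194596889) (nat_lit 76) (nat_lit 2627537522) (nat_lit 32) (nat_lit 5) (nat_lit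 36) (nat_lit 5) (nat_lit 33) (nat_lit 5) (nat_lit 283) (nat_lit 271) (nat_lit 226)) (XT.lf (nat_lit 0) (nat_lit 3537205325) (nat_lit 304) (nat_lit 4440727295) (nat_lit 76) (nat_lit 8882060268) (nat_lit 32) (nat_lit 5) (nat_lit 36) (nat_lit 5) (nat_lit 33) (nat_lit 5) (nat_lit 284) (nat_lit 271) (nat_lit 225)))) (XT.nd (nat_lit 156) (nat_lit 152) (nat_lit 0) (XT.nd (nat_lit 78) (nat_lit 0) (nat_lit 0) (XT.lf (nat_lit 0) (nat_lit 4104109963) (nat_lit 228) (nat_lit 1929083460) (nat_lit 304) (nat_lit 11628883973) (nat_lit 29) (nat_lit 5) (nat_lit 32) (nat_lit 5) (nat_lit 33) (nat_lit 5) (nat_lit 285) (nat_lit 271) (nat_lit 224)) (XT.lf (nat_lit 0) (nat_lit 8935853118) (nat_lit 304) (nat_lit 5083375820) (nat_lit 76) (nat_lit 4492623893) (nat_lit 29) (nat_lit 5) (nat_lit 33) (nat_lit 5) (nat_lit 30) (nat_lit 5) (nat_lit 286) (nat_lit 271) (nat_lit 223))) (XT.nd (nat_lit 78) (nat_lit 0) (nat_lit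 0) (XT.lf (nat_lit 0) (nat_lit 4195654504) (nat_lit 152) (nat_lit 7999881845) (nat_lit 228) (nat_lit 7224166466) (nat_lit 27) (nat_lit 5) (nat_lit 29) (nat_lit 5) (nat_lit 30) (nat_lit 5) (nat_lit 287) (nat_lit 271) (nat_lit 222)) (XT.lf (nat_lit 0) (nat_lit 14473640350) (nat_lit 152) (nat_lit 1356301570) (nat_lit 228) (nat_lit 4561194711) (nat_lit 27) (nat_lit 5) (nat_lit 29) (nat_lit 5) (nat_lit 30) (nat_lit 5) (nat_lit 288) (nat_lit 271) (nat_lit 221))))) (XT.nd (nat_lit 312) (nat_lit 304) (nat_lit 0) (XT.nd (nat_lit 156) (nat_lit 152) (nat_lit 0) (XT.nd (nat_lit 78) (nat_lit 76) (nat_lit 0) (XT.lf (nat_lit 0) (nat_lit 4170446851) (nat_lit 152) (nat_lit 15801542647) (nat_lit 228) (nat_lit 1451010829) (nat_lit 25) (nat_lit 5) (nat_lit 27) (nat_lit 5) (nat_lit 28) (nat_lit 5) (nat_lit 289) (nat_lit 271) (nat_lit 220)) (XT.lf (nat_lit 0) (nat_lit 1990761807) (nat_lit 228) (nat_lit 7240106264)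 (nat_lit 76) (nat_lit 13288673405) (nat_lit 24) (nat_lit 5) (nat_lit 27) (nat_lit 5) (nat_lit 25) (nat_lit 5) (nat_lit 290) (nat_lit 271) (nat_lit 219))) (XT.nd (nat_lit 78) (nat_lit 0) (nat_lit 0) (XT.lf (nat_lit 0) (nat_lit 3690369044) (nat_lit 152) (nat_lit 2006566003) (nat_lit 228) (nat_lit 17998512360) (nat_lit 22) (nat_lit 5) (nat_lit 24) (nat_lit 5) (nat_lit 25) (nat_lit 5) (nat_lit 291) (nat_lit 271) (nat_lit 218)) (XT.lf (nat_lit 0) (nat_lit 10021453120) (nat_lit 228) (nat_lit 9217686679) (nat_lit 76) (nat_lit 5700586695) (nat_lit 22) (nat_lit 5) (nat_lit 25) (nat_lit 5) (nat_lit 23) (nat_lit 5) (nat_lit 292) (nat_lit 271) (nat_lit 217)))) (XT.nd (nat_lit 156) (nat_lit 152) (nat_lit 0) (XT.nd (nat_lit 78) (nat_lit 0) (nat_lit 0) (XT.lf (nat_lit 0) (nat_lit 2476106414) (nat_lit 152) (nat_lit 12308389351) (nat_lit 228) (nat_lit 11491692244) (nat_lit 20) (nat_lit 5) (nat_lit 22)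 (nat_lit 5) (nat_lit 23) (nat_lit 5) (nat_lit 293) (nat_lit 271) (nat_lit 216)) (XT.lf (nat_lit 0) (nat_lit 15602002140) (nat_lit 152) (nat_lit 4560252701) (nat_lit 228) (nat_lit 7538659568) (nat_lit 20) (nat_lit 5) (nat_lit 22) (nat_lit 5) (nat_lit 23) (nat_lit 5) (nat_lit 294) (nat_lit 271) (nat_lit 215))) (XT.nd (nat_lit 78) (nat_lit 76) (nat_lit 0) (XT.lf (nat_lit 0) (nat_lit 442126422) (nat_lit 76) (nat_lit 25613115941) (nat_lit 152) (nat_lit 3177614648) (nat_lit 19) (nat_lit 5) (nat_lit 20) (nat_lit 5) (nat_lit 21) (nat_lit 4) (nat_lit 295) (nat_lit 271) (nat_lit 214)) (XT.lf (nat_lit 0) (nat_lit 1896488697) (nat_lit 152) (nat_lit 16377275948) (nat_lit 76) (nat_lit 12575409196) (nat_lit 18) (nat_lit 5) (nat_lit 20) (nat_lit 5) (nat_lit 19) (nat_lit 5) (nat_lit 296) (nat_lit 271) (nat_lit 213))))))) (XT.nd (nat_lit 1092) (nat_lit 380) (nat_lit 0) (XT.nd (nat_lit 546) (nat_lit 228)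 (nat_lit 0) (XT.nd (nat_lit 234) (nat_lit 304) (nat_lit 0) (XT.nd (nat_lit 78) (nat_lit 152) (nat_lit 0) (XT.lf (nat_lit 0) (nat_lit 7189088434) (nat_lit 152) (nat_lit 3078295929) (nat_lit 76) (nat_lit 22322100200) (nat_lit 18) (nat_lit 5) (nat_lit 20) (nat_lit 5) (nat_lit 19) (nat_lit 5) (nat_lit 297) (nat_lit 271) (nat_lit 212)) (XT.nd (nat_lit 78) (nat_lit 0) (nat_lit 0) (XT.lf (nat_lit 0) (nat_lit 11854447418) (nat_lit 152) (nat_lit 1321157597) (nat_lit 228) (nat_lit 21271802871) (nat_lit 16) (nat_lit 5) (nat_lit 18) (nat_lit 5) (nat_lit 19) (nat_lit 5) (nat_lit 298) (nat_lit 271) (nat_lit 211)) (XT.lf (nat_lit 0) (nat_lit 19913732762) (nat_lit 228) (nat_lit 8516659679) (nat_lit 76) (nat_lit 8001783789) (nat_lit 16) (nat_lit 5) (nat_lit 19) (nat_lit 5) (nat_lit 17) (nat_lit 4) (nat_lit 299) (nat_lit 271) (nat_lit 210)))) (XT.nd (nat_lit 156) (nat_lit 228) (nat_lit 0) (XT.nd (nat_lit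 78) (nat_lit 0) (nat_lit 0) (XT.lf (nat_lit 0) (nat_lit 6978755607) (nat_lit 76) (nat_lit 20401108281) (nat_lit 152) (nat_lit 11180770296) (nat_lit 15) (nat_lit 5) (nat_lit 16) (nat_lit 5) (nat_lit 17) (nat_lit 4) (nat_lit 300) (nat_lit 271) (nat_lit 209)) (XT.lf (nat_lit 0) (nat_lit 24176926073) (nat_lit 76) (nat_lit 11486485516) (nat_lit 152) (nat_lit 5178369681) (nat_lit 15) (nat_lit 5) (nat_lit 16) (nat_lit 5) (nat_lit 17) (nat_lit 4) (nat_lit 301) (nat_lit 271) (nat_lit 208))) (XT.nd (nat_lit 78) (nat_lit 152) (nat_lit 0) (XT.lf (nat_lit 0) (nat_lit 1226863147) (nat_lit 152) (nat_lit 606149564) (nat_lit 76) (nat_lit 41470886837) (nat_lit 14) (nat_lit 5) (nat_lit 16) (nat_lit 5) (nat_lit 15) (nat_lit 5) (nat_lit 302) (nat_lit 271) (nat_lit 207)) (XT.lf (nat_lit 0) (nat_lit 8494246748) (nat_lit 228) (nat_lit 28683204551) (nat_lit 76) (nat_lit 8724433779) (nat_lit 12) (nat_lit 5)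 (nat_lit 15) (nat_lit 5) (nat_lit 13) (nat_lit 4) (nat_lit 303) (nat_lit 271) (nat_lit 206))))) (XT.nd (nat_lit 234) (nat_lit 152) (nat_lit 0) (XT.nd (nat_lit 78) (nat_lit 76) (nat_lit 0) (XT.lf (nat_lit 0) (nat_lit 16396625457) (nat_lit 228) (nat_lit 12269490215) (nat_lit 76) (nat_lit 20037322027) (nat_lit 12) (nat_lit 5) (nat_lit 15) (nat_lit 5) (nat_lit 13) (nat_lit 4) (nat_lit 304) (nat_lit 271) (nat_lit 205)) (XT.nd (nat_lit 78) (nat_lit 0) (nat_lit 0) (XT.lf (nat_lit 0) (nat_lit 5726141309) (nat_lit 76) (nat_lit 19332572566) (nat_lit 152) (nat_lit 26660214472) (nat_lit 11) (nat_lit 5) (nat_lit 12) (nat_lit 5) (nat_lit 13) (nat_lit 4) (nat_lit 305) (nat_lit 271) (nat_lit 204)) (XT.lf (nat_lit 0) (nat_lit 25842021595) (nat_lit 76) (nat_lit 8897364955) (nat_lit 152) (nat_lit 20210236557) (nat_lit 11) (nat_lit 5) (nat_lit 12) (nat_lit 5) (nat_lit 13) (nat_lit 4) (nat_lit 306) (nat_lit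 271) (nat_lit 203)))) (XT.nd (nat_lit 156) (nat_lit 76) (nat_lit 0) (XT.nd (nat_lit 78) (nat_lit 76) (nat_lit 0) (XT.lf (nat_lit 0) (nat_lit 45242289794) (nat_lit 152) (nat_lit 10945149559) (nat_lit 0) (nat_lit 2247525133) (nat_lit 11) (nat_lit 5) (nat_lit 13) (nat_lit 4) (nat_lit 11) (nat_lit 4) (nat_lit 307) (nat_lit 271) (nat_lit 202)) (XT.lf (nat_lit 0) (nat_lit 8867522844) (nat_lit 76) (nat_lit 48153669056) (nat_lit 76) (nat_lit 5143092148) (nat_lit 10) (nat_lit 4) (nat_lit 11) (nat_lit 5) (nat_lit 11) (nat_lit 4) (nat_lit 308) (nat_lit 271) (nat_lit 201))) (XT.nd (nat_lit 78) (nat_lit 0) (nat_lit 0) (XT.lf (nat_lit 0) (nat_lit 3671335856) (nat_lit 152) (nat_lit 35388839296) (nat_lit 76) (nat_lit 27101074432) (nat_lit 9) (nat_lit 5) (nat_lit 11) (nat_lit 5) (nat_lit 10) (nat_lit 4) (nat_lit 309) (nat_lit 271) (nat_lit 200)) (XT.lf (nat_lit 0) (nat_lit 12905144880) (nat_lit 152)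 (nat_lit 16196072978) (nat_lit 76) (nat_lit 41366710259) (nat_lit 9) (nat_lit 5) (nat_lit 11) (nat_lit 5) (nat_lit 10) (nat_lit 4) (nat_lit 310) (nat_lit 271) (nat_lit 199)))))) (XT.nd (nat_lit 546) (nat_lit 228) (nat_lit 0) (XT.nd (nat_lit 234) (nat_lit 76) (nat_lit 0) (XT.nd (nat_lit 78) (nat_lit 0) (nat_lit 0) (XT.lf (nat_lit 0) (nat_lit 4756924793) (nat_lit 76) (nat_lit 18227811453) (nat_lit 152) (nat_lit 52125847445) (nat_lit 8) (nat_lit 5) (nat_lit 9) (nat_lit 5) (nat_lit 10) (nat_lit 4) (nat_lit 311) (nat_lit 271) (nat_lit 198)) (XT.nd (nat_lit 78) (nat_lit 0) (nat_lit 0) (XT.lf (nat_lit 0) (nat_lit 28294429837) (nat_lit 76) (nat_lit 6012002331) (nat_lit 152) (nat_lit 45783368870) (nat_lit 8) (nat_lit 5) (nat_lit 9) (nat_lit 5) (nat_lit 10) (nat_lit 4) (nat_lit 312) (nat_lit 271) (nat_lit 197)) (XT.lf (nat_lit 0) (nat_lit 46699874458) (nat_lit 152) (nat_lit 31937399084) (nat_lit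 0) (nat_lit 6816809065) (nat_lit 8) (nat_lit 5) (nat_lit 10) (nat_lit 4) (nat_lit 8) (nat_lit 4) (nat_lit 313) (nat_lit 271) (nat_lit 196)))) (XT.nd (nat_lit 156) (nat_lit 0) (nat_lit 0) (XT.nd (nat_lit 78) (nat_lit 76) (nat_lit 0) (XT.lf (nat_lit 0) (nat_lit 60234749655) (nat_lit 152) (nat_lit 10658309596) (nat_lit 0) (nat_lit 20342457968) (nat_lit 8) (nat_lit 5) (nat_lit 10) (nat_lit 4) (nat_lit 8) (nat_lit 4) (nat_lit 314) (nat_lit 271) (nat_lit 195)) (XT.lf (nat_lit 0) (nat_lit 12960943244) (nat_lit 76) (nat_lit 62197443380) (nat_lit 76) (nat_lit 22296608828) (nat_lit 7) (nat_lit 4) (nat_lit 8) (nat_lit 5) (nat_lit 8) (nat_lit 4) (nat_lit 315) (nat_lit 271) (nat_lit 194))) (XT.nd (nat_lit 78) (nat_lit 0) (nat_lit 0) (XT.lf (nat_lit 0) (nat_lit 39065627541) (nat_lit 76) (nat_lit 52496143307) (nat_lit 76) (nat_lit 12587398696) (nat_lit 7) (nat_lit 4) (nat_lit 8) (nat_lit 5) (nat_lit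 8) (nat_lit 4) (nat_lit 316) (nat_lit 271) (nat_lit 193)) (XT.lf (nat_lit 0) (nat_lit 67249190024) (nat_lit 76) (nat_lit 42023086921) (nat_lit 76) (nat_lit 2107018180) (nat_lit 7) (nat_lit 4) (nat_lit 8) (nat_lit 5) (nat_lit 8) (nat_lit 4) (nat_lit 317) (nat_lit 271) (nat_lit 192))))) (XT.nd (nat_lit 312) (nat_lit 76) (nat_lit 0) (XT.nd (nat_lit 156) (nat_lit 0) (nat_lit 0) (XT.nd (nat_lit 78) (nat_lit 76) (nat_lit 0) (XT.lf (nat_lit 0) (nat_lit 8746085324) (nat_lit 152) (nat_lit 21730992868) (nat_lit 76) (nat_lit 88693425600) (nat_lit 6) (nat_lit 5) (nat_lit 8) (nat_lit 5) (nat_lit 7) (nat_lit 4) (nat_lit 318) (nat_lit 271) (nat_lit 191)) (XT.lf (nat_lit 0) (nat_lit 2523153994) (nat_lit 76) (nat_lit 17886597735) (nat_lit 152) (nat_lit 107166391825) (nat_lit 5) (nat_lit 5) (nat_lit 6) (nat_lit 5) (nat_lit 7) (nat_lit 4) (nat_lit 319) (nat_lit 271) (nat_lit 190))) (XT.nd (nat_lit 78)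 (nat_lit 0) (nat_lit 0) (XT.lf (nat_lit 0) (nat_lit 29945320720) (nat_lit 76) (nat_lit 3650960267) (nat_lit 152) (nat_lit 103010776101) (nat_lit 5) (nat_lit 5) (nat_lit 6) (nat_lit 5) (nat_lit 7) (nat_lit 4) (nat_lit 320) (nat_lit 271) (nat_lit 189)) (XT.lf (nat_lit 0) (nat_lit 48115530769) (nat_lit 152) (nat_lit 87088946591) (nat_lit 0) (nat_lit 11133746336) (nat_lit 5) (nat_lit 5) (nat_lit 7) (nat_lit 4) (nat_lit 5) (nat_lit 4) (nat_lit 321) (nat_lit 271) (nat_lit 188)))) (XT.nd (nat_lit 156) (nat_lit 76) (nat_lit 0) (XT.nd (nat_lit 78) (nat_lit 0) (nat_lit 0) (XT.lf (nat_lit 0) (nat_lit 63887305346) (nat_lit 152) (nat_lit 66052397595) (nat_lit 0) (nat_lit 26900905470) (nat_lit 5) (nat_lit 5) (nat_lit 7) (nat_lit 4) (nat_lit 5) (nat_lit 4) (nat_lit 322) (nat_lit 271) (nat_lit 187)) (XT.lf (nat_lit 0) (nat_lit 80917261404) (nat_lit 152) (nat_lit 43339622667) (nat_lit 0) (nat_lit 43926587968)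 (nat_lit 5) (nat_lit 5) (nat_lit 7) (nat_lit 4) (nat_lit 5) (nat_lit 4) (nat_lit 323) (nat_lit 271) (nat_lit 186))) (XT.nd (nat_lit 78) (nat_lit 76) (nat_lit 0) (XT.lf (nat_lit 0) (nat_lit 99306317200) (nat_lit 152) (nat_lit 18816027587) (nat_lit 0) (nat_lit 62311686764) (nat_lit 5) (nat_lit 5) (nat_lit 7) (nat_lit 4) (nat_lit 5) (nat_lit 4) (nat_lit 324) (nat_lit 271) (nat_lit 185)) (XT.lf (nat_lit 0) (nat_lit 8067270181) (nat_lit 76) (nat_lit 111290192777) (nat_lit 76) (nat_lit 74291898453) (nat_lit 4) (nat_lit 4) (nat_lit 5) (nat_lit 5) (nat_lit 5) (nat_lit 4) (nat_lit 325) (nat_lit 271) (nat_lit 184))))))))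
noncomputable def xc69 : XT := (XT.nd (nat_lit 2262) (nat_lit 76) (nat_lit 0) (XT.nd (nat_lit 1092) (nat_lit 0) (nat_lit 0) (XT.nd (nat_lit 546) (nat_lit 152) (nat_lit 0) (XT.nd (nat_lit 234) (nat_lit 0) (nat_lit 0) (XT.nd (nat_lit 78) (nat_lit 0) (nat_lit 0) (XT.lf (nat_lit 0) (nat_lit 38165718866) (nat_lit 76) (nat_lit 103358484013) (nat_lit 76) (nat_lit 66356797200) (nat_lit 4) (nat_lit 4) (nat_lit 5) (nat_lit 5) (nat_lit 5) (nat_lit 4) (nat_lit 326) (nat_lit 271) (nat_lit 183)) (XT.nd (nat_lit 78) (nat_lit 0) (nat_lit 0) (XT.lf (nat_lit 0) (nat_lit 70666860975) (nat_lit 76) (nat_lit 94794679315) (nat_lit 76) (nat_lit 57789851308) (nat_lit 4) (nat_lit 4) (nat_lit 5) (nat_lit 5) (nat_lit 5) (nat_lit 4) (nat_lit 327) (nat_lit 271) (nat_lit 182)) (XT.lf (nat_lit 0) (nat_lit 105763295871) (nat_lit 76) (nat_lit 85548030211) (nat_lit 76) (nat_lit 48540293692) (nat_lit 4) (nat_lit 4) (nat_lit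 5) (nat_lit 5) (nat_lit 5) (nat_lit 4) (nat_lit 328) (nat_lit 271) (nat_lit 181)))) (XT.nd (nat_lit 156) (nat_lit 0) (nat_lit 0) (XT.nd (nat_lit 78) (nat_lit 0) (nat_lit 0) (XT.lf (nat_lit 0) (nat_lit 143663002426) (nat_lit 76) (nat_lit 75563741744) (nat_lit 76) (nat_lit 38553312157) (nat_lit 4) (nat_lit 4) (nat_lit 5) (nat_lit 5) (nat_lit 5) (nat_lit 4) (nat_lit 329) (nat_lit 271) (nat_lit 180)) (XT.lf (nat_lit 0) (nat_lit 184590571494) (nat_lit 76) (nat_lit 64782647759) (nat_lit 76) (nat_lit 27769724592) (nat_lit 4) (nat_lit 4) (nat_lit 5) (nat_lit 5) (nat_lit 5) (nat_lit 4) (nat_lit 330) (nat_lit 271) (nat_lit 179))) (XT.nd (nat_lit 78) (nat_lit 0) (nat_lit 0) (XT.lf (nat_lit 0) (nat_lit 228788536818) (nat_lit 76) (nat_lit 53140860293) (nat_lit 76) (nat_lit 16125628254) (nat_lit 4) (nat_lit 4) (nat_lit 5) (nat_lit 5) (nat_lit 5) (nat_lit 4) (nat_lit 331) (nat_lit 271) (nat_lit 178))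 (XT.lf (nat_lit 0) (nat_lit 276518812267) (nat_lit 76) (nat_lit 40569390975) (nat_lit 76) (nat_lit 3552021093) (nat_lit 4) (nat_lit 4) (nat_lit 5) (nat_lit 5) (nat_lit 5) (nat_lit 4) (nat_lit 332) (nat_lit 271) (nat_lit 177))))) (XT.nd (nat_lit 234) (nat_lit 0) (nat_lit 0) (XT.nd (nat_lit 78) (nat_lit 76) (nat_lit 0) (XT.lf (nat_lit 0) (nat_lit 9524085683) (nat_lit 152) (nat_lit 17209251144) (nat_lit 76) (nat_lit 318279752851) (nat_lit 3) (nat_lit 5) (nat_lit 5) (nat_lit 5) (nat_lit 4) (nat_lit 4) (nat_lit 333) (nat_lit 271) (nat_lit 176)) (XT.nd (nat_lit 78) (nat_lit 0) (nat_lit 0) (XT.lf (nat_lit 0) (nat_lit 12379798283) (nat_lit 76) (nat_lit 11370673113) (nat_lit 152) (nat_lit 347554245997) (nat_lit 2) (nat_lit 5) (nat_lit 3) (nat_lit 5) (nat_lit 4) (nat_lit 4) (nat_lit 334) (nat_lit 271) (nat_lit 175)) (XT.lf (nat_lit 0) (nat_lit 39721657726) (nat_lit 152) (nat_lit 354488269714)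 (nat_lit 0) (nat_lit 5441213918) (nat_lit 2) (nat_lit 5) (nat_lit 4) (nat_lit 4) (nat_lit 2) (nat_lit 4) (nat_lit 335) (nat_lit 271) (nat_lit 174)))) (XT.nd (nat_lit 156) (nat_lit 0) (nat_lit 0) (XT.nd (nat_lit 78) (nat_lit 0) (nat_lit 0) (XT.lf (nat_lit 0) (nat_lit 57264373225) (nat_lit 152) (nat_lit 349994925960) (nat_lit 0) (nat_lit 22982474437) (nat_lit 2) (nat_lit 5) (nat_lit 4) (nat_lit 4) (nat_lit 2) (nat_lit 4) (nat_lit 336) (nat_lit 271) (nat_lit 173)) (XT.lf (nat_lit 0) (nat_lit 76209109766) (nat_lit 152) (nat_lit 345144795663) (nat_lit 0) (nat_lit 41925863773) (nat_lit 2) (nat_lit 5) (nat_lit 4) (nat_lit 4) (nat_lit 2) (nat_lit 4) (nat_lit 337) (nat_lit 271) (nat_lit 172))) (XT.nd (nat_lit 78) (nat_lit 0) (nat_lit 0) (XT.lf (nat_lit 0) (nat_lit 96668132453) (nat_lit 152) (nat_lit 339909137310) (nat_lit 0) (nat_lit 62383639049) (nat_lit 2) (nat_lit 5) (nat_lit 4) (nat_lit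 4) (nat_lit 2) (nat_lit 4) (nat_lit 338) (nat_lit 271) (nat_lit 171)) (XT.lf (nat_lit 0) (nat_lit 118762679940) (nat_lit 152) (nat_lit 334256924778) (nat_lit 0) (nat_lit 84477031526) (nat_lit 2) (nat_lit 5) (nat_lit 4) (nat_lit 4) (nat_lit 2) (nat_lit 4) (nat_lit 339) (nat_lit 271) (nat_lit 170)))))) (XT.nd (nat_lit 546) (nat_lit 0) (nat_lit 0) (XT.nd (nat_lit 234) (nat_lit 0) (nat_lit 0) (XT.nd (nat_lit 78) (nat_lit 0) (nat_lit 0) (XT.lf (nat_lit 0) (nat_lit 142623682879) (nat_lit 152) (nat_lit 328154663475) (nat_lit 0) (nat_lit 108336965011) (nat_lit 2) (nat_lit 5) (nat_lit 4) (nat_lit 4) (nat_lit 2) (nat_lit 4) (nat_lit 340) (nat_lit 271) (nat_lit 169)) (XT.nd (nat_lit 78) (nat_lit 0) (nat_lit 0) (XT.lf (nat_lit 0) (nat_lit 168392539806) (nat_lit 152) (nat_lit 321566191851) (nat_lit 0) (nat_lit 134104831702) (nat_lit 2) (nat_lit 5) (nat_lit 4) (nat_lit 4) (nat_lit 2) (nat_lit 4)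 (nat_lit 341) (nat_lit 271) (nat_lit 168)) (XT.lf (nat_lit 0) (nat_lit 196221955057) (nat_lit 152) (nat_lit 314452467112) (nat_lit 0) (nat_lit 161933330069) (nat_lit 2) (nat_lit 5) (nat_lit 4) (nat_lit 4) (nat_lit 2) (nat_lit 4) (nat_lit 342) (nat_lit 271) (nat_lit 167)))) (XT.nd (nat_lit 156) (nat_lit 0) (nat_lit 0) (XT.nd (nat_lit 78) (nat_lit 0) (nat_lit 0) (XT.lf (nat_lit 0) (nat_lit 226276843686) (nat_lit 152) (nat_lit 306771333853) (nat_lit 0) (nat_lit 191987369731) (nat_lit 2) (nat_lit 5) (nat_lit 4) (nat_lit 4) (nat_lit 2) (nat_lit 4) (nat_lit 343) (nat_lit 271) (nat_lit 166)) (XT.lf (nat_lit 0) (nat_lit 258735308737) (nat_lit 152) (nat_lit 298477274246) (nat_lit 0) (nat_lit 224445048702) (nat_lit 2) (nat_lit 5) (nat_lit 4) (nat_lit 4) (nat_lit 2) (nat_lit 4) (nat_lit 344) (nat_lit 271) (nat_lit 165))) (XT.nd (nat_lit 78) (nat_lit 0) (nat_lit 0) (XT.lf (nat_lit 0) (nat_lit 293789696670)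 (nat_lit 152) (nat_lit 289521138308) (nat_lit 0) (nat_lit 259498708782) (nat_lit 2) (nat_lit 5) (nat_lit 4) (nat_lit 4) (nat_lit 2) (nat_lit 4) (nat_lit 345) (nat_lit 271) (nat_lit 164)) (XT.lf (nat_lit 0) (nat_lit 331647737191) (nat_lit 152) (nat_lit 279849852641) (nat_lit 0) (nat_lit 297356075365) (nat_lit 2) (nat_lit 5) (nat_lit 4) (nat_lit 4) (nat_lit 2) (nat_lit 4) (nat_lit 346) (nat_lit 271) (nat_lit 163))))) (XT.nd (nat_lit 312) (nat_lit 0) (nat_lit 0) (XT.nd (nat_lit 156) (nat_lit 0) (nat_lit 0) (XT.nd (nat_lit 78) (nat_lit 0) (nat_lit 0) (XT.lf (nat_lit 0) (nat_lit 372533774243) (nat_lit 152) (nat_lit 269406105924) (nat_lit 0) (nat_lit 338241488401) (nat_lit 2) (nat_lit 5) (nat_lit 4) (nat_lit 4) (nat_lit 2) (nat_lit 4) (nat_lit 347) (nat_lit 271) (nat_lit 162)) (XT.lf (nat_lit 0) (nat_lit 416690095453) (nat_lit 152) (nat_lit 258128009286) (nat_lit 0) (nat_lit 382397231819)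 (nat_lit 2) (nat_lit 5) (nat_lit 4) (nat_lit 4) (nat_lit 2) (nat_lit 4) (nat_lit 348) (nat_lit 271) (nat_lit 161))) (XT.nd (nat_lit 78) (nat_lit 0) (nat_lit 0) (XT.lf (nat_lit 0) (nat_lit 464378367911) (nat_lit 152) (nat_lit 245948729562) (nat_lit 0) (nat_lit 430084969283) (nat_lit 2) (nat_lit 5) (nat_lit 4) (nat_lit 4) (nat_lit 2) (nat_lit 4) (nat_lit 349) (nat_lit 271) (nat_lit 160)) (XT.lf (nat_lit 0) (nat_lit 515881188786) (nat_lit 152) (nat_lit 232796093243) (nat_lit 0) (nat_lit 481587294794) (nat_lit 2) (nat_lit 5) (nat_lit 4) (nat_lit 4) (nat_lit 2) (nat_lit 4) (nat_lit 350) (nat_lit 271) (nat_lit 159)))) (XT.nd (nat_lit 156) (nat_lit 0) (nat_lit 0) (XT.nd (nat_lit 78) (nat_lit 0) (nat_lit 0) (XT.lf (nat_lit 0) (nat_lit 571503759980) (nat_lit 152) (nat_lit 218592158780) (nat_lit 0) (nat_lit 537209407318) (nat_lit 2) (nat_lit 5) (nat_lit 4) (nat_lit 4) (nat_lit 2) (nat_lit 4)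 (nat_lit 351) (nat_lit 271) (nat_lit 158)) (XT.lf (nat_lit 0) (nat_lit 631575696730) (nat_lit 152) (nat_lit 203252754710) (nat_lit 0) (nat_lit 597280919372) (nat_lit 2) (nat_lit 5) (nat_lit 4) (nat_lit 4) (nat_lit 2) (nat_lit 4) (nat_lit 352) (nat_lit 271) (nat_lit 157))) (XT.nd (nat_lit 78) (nat_lit 0) (nat_lit 0) (XT.lf (nat_lit 0) (nat_lit 696452980882) (nat_lit 152) (nat_lit 186686980860) (nat_lit 0) (nat_lit 662157810289) (nat_lit 2) (nat_lit 5) (nat_lit 4) (nat_lit 4) (nat_lit 2) (nat_lit 4) (nat_lit 353) (nat_lit 271) (nat_lit 156)) (XT.lf (nat_lit 0) (nat_lit 766520070418) (nat_lit 152) (nat_lit 168796669682) (nat_lit 0) (nat_lit 732224535717) (nat_lit 2) (nat_lit 5) (nat_lit 4) (nat_lit 4) (nat_lit 2) (nat_lit 4) (nat_lit 354) (nat_lit 271) (nat_lit 155))))))) (XT.nd (nat_lit 34476) (nat_lit 0) (nat_lit 1824) (XT.nd (nat_lit 546) (nat_lit 0) (nat_lit 0) (XT.nd (nat_lit 234)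 (nat_lit 76) (nat_lit 0) (XT.nd (nat_lit 78) (nat_lit 0) (nat_lit 0) (XT.lf (nat_lit 0) (nat_lit 842192177719) (nat_lit 152) (nat_lit 149475804517) (nat_lit 0) (nat_lit 807896305881) (nat_lit 2) (nat_lit 5) (nat_lit 4) (nat_lit 4) (nat_lit 2) (nat_lit 4) (nat_lit 355) (nat_lit 271) (nat_lit 154)) (XT.nd (nat_lit 78) (nat_lit 0) (nat_lit 0) (XT.lf (nat_lit 0) (nat_lit 923917730088) (nat_lit 152) (nat_lit 128609891349) (nat_lit 0) (nat_lit 889621546087) (nat_lit 2) (nat_lit 5) (nat_lit 4) (nat_lit 4) (nat_lit 2) (nat_lit 4) (nat_lit 356) (nat_lit 271) (nat_lit 153)) (XT.lf (nat_lit 0) (nat_lit 1012181027094) (nat_lit 152) (nat_lit 106075280322) (nat_lit 0) (nat_lit 977884554053) (nat_lit 2) (nat_lit 5) (nat_lit 4) (nat_lit 4) (nat_lit 2) (nat_lit 4) (nat_lit 357) (nat_lit 271) (nat_lit 152)))) (XT.nd (nat_lit 156) (nat_lit 76) (nat_lit 0) (XT.nd (nat_lit 78) (nat_lit 0) (nat_lit 0) (XT.lf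 (nat_lit 0) (nat_lit 1107505110499) (nat_lit 152) (nat_lit 81738433000) (nat_lit 0) (nat_lit 1073208369828) (nat_lit 2) (nat_lit 5) (nat_lit 4) (nat_lit 4) (nat_lit 2) (nat_lit 4) (nat_lit 358) (nat_lit 271) (nat_lit 151)) (XT.lf (nat_lit 0) (nat_lit 1210454863758) (nat_lit 152) (nat_lit 55455131030) (nat_lit 0) (nat_lit 1176157875281) (nat_lit 2) (nat_lit 5) (nat_lit 4) (nat_lit 4) (nat_lit 2) (nat_lit 4) (nat_lit 359) (nat_lit 271) (nat_lit 150))) (XT.nd (nat_lit 78) (nat_lit 76) (nat_lit 0) (XT.lf (nat_lit 0) (nat_lit 1321640359484) (nat_lit 152) (nat_lit 27069621510) (nat_lit 0) (nat_lit 1287343141558) (nat_lit 2) (nat_lit 5) (nat_lit 4) (nat_lit 4) (nat_lit 2) (nat_lit 4) (nat_lit 360) (nat_lit 271) (nat_lit 149)) (XT.lf (nat_lit 0) (nat_lit 3775154503) (nat_lit 76) (nat_lit 1438036112741) (nat_lit 76) (nat_lit 1403738682362) (nat_lit 1) (nat_lit 4) (nat_lit 2) (nat_lit 5) (nat_lit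 2) (nat_lit 4) (nat_lit 361) (nat_lit 271) (nat_lit 148))))) (XT.nd (nat_lit 33618) (nat_lit 0) (nat_lit 3116) (XT.nd (nat_lit 156) (nat_lit 0) (nat_lit 0) (XT.nd (nat_lit 78) (nat_lit 0) (nat_lit 0) (XT.lf (nat_lit 0) (nat_lit 38626573878) (nat_lit 76) (nat_lit 1533709191392) (nat_lit 76) (nat_lit 1499411564297) (nat_lit 1) (nat_lit 4) (nat_lit 2) (nat_lit 5) (nat_lit 2) (nat_lit 4) (nat_lit 362) (nat_lit 271) (nat_lit 147)) (XT.lf (nat_lit 0) (nat_lit 76265725245) (nat_lit 76) (nat_lit 1637036299947) (nat_lit 76) (nat_lit 1602738490707) (nat_lit 1) (nat_lit 4) (nat_lit 2) (nat_lit 5) (nat_lit 2) (nat_lit 4) (nat_lit 363) (nat_lit 271) (nat_lit 146))) (XT.nd (nat_lit 78) (nat_lit 0) (nat_lit 0) (XT.lf (nat_lit 0) (nat_lit 116915655427) (nat_lit 76) (nat_lit 1748629747198) (nat_lit 76) (nat_lit 1714331769306) (nat_lit 1) (nat_lit 4) (nat_lit 2) (nat_lit 5) (nat_lit 2) (nat_lit 4) (nat_lit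 364) (nat_lit 271) (nat_lit 145)) (XT.lf (nat_lit 0) (nat_lit 160817252901) (nat_lit 76) (nat_lit 1869150827646) (nat_lit 76) (nat_lit 1834852693595) (nat_lit 1) (nat_lit 4) (nat_lit 2) (nat_lit 5) (nat_lit 2) (nat_lit 4) (nat_lit 365) (nat_lit 271) (nat_lit 144)))) (XT.nd (nat_lit 156) (nat_lit 0) (nat_lit 76) (XT.nd (nat_lit 78) (nat_lit 0) (nat_lit 0) (XT.lf (nat_lit 0) (nat_lit 333743376) (nat_lit 532) (nat_lit 2511087261) (nat_lit 532) (nat_lit 2511087261) (nat_lit 42) (nat_lit 3) (nat_lit 49) (nat_lit 3) (nat_lit 49) (nat_lit 5) (nat_lit 272) (nat_lit 272) (nat_lit 236)) (XT.lf (nat_lit 0) (nat_lit 1253143889) (nat_lit 532) (nat_lit 219767575) (nat_lit 532) (nat_lit 9620577771) (nat_lit 42) (nat_lit 3) (nat_lit 49) (nat_lit 3) (nat_lit 49) (nat_lit 5) (nat_lit 273) (nat_lit 272) (nat_lit 235))) (XT.nd (nat_lit 78) (nat_lit 0) (nat_lit 0) (XT.lf (nat_lit 0) (nat_lit 2032671017)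 (nat_lit 456) (nat_lit 6381848520) (nat_lit 532) (nat_lit 3079604455) (nat_lit 43) (nat_lit 5) (nat_lit 49) (nat_lit 5) (nat_lit 50) (nat_lit 5) (nat_lit 274) (nat_lit 272) (nat_lit 234)) (XT.lf (nat_lit 0) (nat_lit 2867044135) (nat_lit 456) (nat_lit 1115844423) (nat_lit 532) (nat_lit 7944717120) (nat_lit 43) (nat_lit 5) (nat_lit 49) (nat_lit 5) (nat_lit 50) (nat_lit 5) (nat_lit 275) (nat_lit 272) (nat_lit 233)))))) (XT.nd (nat_lit 546) (nat_lit 836) (nat_lit 0) (XT.nd (nat_lit 234) (nat_lit 608) (nat_lit 0) (XT.nd (nat_lit 78) (nat_lit 0) (nat_lit 0) (XT.lf (nat_lit 0) (nat_lit 3857692723) (nat_lit 456) (nat_lit 7634737690) (nat_lit 532) (nat_lit 896353852) (nat_lit 44) (nat_lit 5) (nat_lit 50) (nat_lit 5) (nat_lit 51) (nat_lit 5) (nat_lit 276) (nat_lit 272) (nat_lit 232)) (XT.nd (nat_lit 78) (nat_lit 0) (nat_lit 0) (XT.lf (nat_lit 0) (nat_lit 5017409595) (nat_lit 456) (nat_lit 1866922181)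 (nat_lit 532) (nat_lit 5995507105) (nat_lit 44) (nat_lit 5) (nat_lit 50) (nat_lit 5) (nat_lit 51) (nat_lit 5) (nat_lit 277) (nat_lit 272) (nat_lit 231)) (XT.lf (nat_lit 76) (nat_lit 4557673334) (nat_lit 0) (nat_lit 1780234428) (nat_lit 532) (nat_lit 7066984468) (nat_lit 45) (nat_lit 5) (nat_lit 44) (nat_lit 5) (nat_lit 51) (nat_lit 5) (nat_lit 278) (nat_lit 272) (nat_lit 230)))) (XT.nd (nat_lit 156) (nat_lit 228) (nat_lit 0) (XT.nd (nat_lit 78) (nat_lit 456) (nat_lit 0) (XT.lf (nat_lit 0) (nat_lit 7867064532) (nat_lit 456) (nat_lit 2491819967) (nat_lit 76) (nat_lit 3604967070) (nat_lit 45) (nat_lit 5) (nat_lit 51) (nat_lit 5) (nat_lit 46) (nat_lit 5) (nat_lit 279) (nat_lit 272) (nat_lit 229)) (XT.lf (nat_lit 0) (nat_lit 4519172977) (nat_lit 456) (nat_lit 5118092741) (nat_lit 532) (nat_lit 4920897598) (nat_lit 39) (nat_lit 5) (nat_lit 45) (nat_lit 5) (nat_lit 46) (nat_lit 5) (nat_lit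 280) (nat_lit 272) (nat_lit 228))) (XT.nd (nat_lit 78) (nat_lit 228) (nat_lit 0) (XT.lf (nat_lit 0) (nat_lit 11597779374) (nat_lit 532) (nat_lit 3011380137) (nat_lit 76) (nat_lit 587087574) (nat_lit 39) (nat_lit 5) (nat_lit 46) (nat_lit 5) (nat_lit 40) (nat_lit 5) (nat_lit 281) (nat_lit 272) (nat_lit 227)) (XT.lf (nat_lit 0) (nat_lit 4645709614) (nat_lit 228) (nat_lit 9282389334) (nat_lit 304) (nat_lit 1940355113) (nat_lit 36) (nat_lit 5) (nat_lit 39) (nat_lit 5) (nat_lit 40) (nat_lit 5) (nat_lit 282) (nat_lit 272) (nat_lit 226))))) (XT.nd (nat_lit 312) (nat_lit 304) (nat_lit 0) (XT.nd (nat_lit 156) (nat_lit 228) (nat_lit 0) (XT.nd (nat_lit 78) (nat_lit 304) (nat_lit 0) (XT.lf (nat_lit 0) (nat_lit 13055252310) (nat_lit 228) (nat_lit 3441819927) (nat_lit 304) (nat_lit 93292377) (nat_lit 36) (nat_lit 5) (nat_lit 39) (nat_lit 5) (nat_lit 40) (nat_lit 5) (nat_lit 283) (nat_lit 272) (nat_lit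 225)) (XT.lf (nat_lit 0) (nat_lit 1969634111) (nat_lit 304) (nat_lit 12494232459) (nat_lit 76) (nat_lit 2889535442) (nat_lit 32) (nat_lit 5) (nat_lit 36) (nat_lit 5) (nat_lit 33) (nat_lit 5) (nat_lit 284) (nat_lit 272) (nat_lit 224))) (XT.nd (nat_lit 78) (nat_lit 228) (nat_lit 0) (XT.lf (nat_lit 0) (nat_lit 4353769239) (nat_lit 304) (nat_lit 4170122348) (nat_lit 76) (nat_lit 9640583347) (nat_lit 32) (nat_lit 5) (nat_lit 36) (nat_lit 5) (nat_lit 33) (nat_lit 5) (nat_lit 285) (nat_lit 272) (nat_lit 223)) (XT.lf (nat_lit 0) (nat_lit 5042457254) (nat_lit 228) (nat_lit 1982125091) (nat_lit 304) (nat_lit 12008252950) (nat_lit 29) (nat_lit 5) (nat_lit 32) (nat_lit 5) (nat_lit 33) (nat_lit 5) (nat_lit 286) (nat_lit 272) (nat_lit 222)))) (XT.nd (nat_lit 156) (nat_lit 152) (nat_lit 0) (XT.nd (nat_lit 78) (nat_lit 152) (nat_lit 0) (XT.lf (nat_lit 0) (nat_lit 10124026327) (nat_lit 304) (nat_lit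 4888387664) (nat_lit 76) (nat_lit 4941124876) (nat_lit 29) (nat_lit 5) (nat_lit 33) (nat_lit 5) (nat_lit 30) (nat_lit 5) (nat_lit 287) (nat_lit 272) (nat_lit 221)) (XT.lf (nat_lit 0) (nat_lit 5117733232) (nat_lit 152) (nat_lit 8505794926) (nat_lit 228) (nat_lit 7312268718) (nat_lit 27) (nat_lit 5) (nat_lit 29) (nat_lit 5) (nat_lit 30) (nat_lit 5) (nat_lit 288) (nat_lit 272) (nat_lit 220))) (XT.nd (nat_lit 78) (nat_lit 152) (nat_lit 0) (XT.lf (nat_lit 0) (nat_lit 16174518955) (nat_lit 152) (nat_lit 1340659894) (nat_lit 228) (nat_lit 4472543005) (nat_lit 27) (nat_lit 5) (nat_lit 29) (nat_lit 5) (nat_lit 30) (nat_lit 5) (nat_lit 289) (nat_lit 272) (nat_lit 219)) (XT.lf (nat_lit 0) (nat_lit 5064240421) (nat_lit 152) (nat_lit 16909560865) (nat_lit 228) (nat_lit 1129605244) (nat_lit 25) (nat_lit 5) (nat_lit 27) (nat_lit 5) (nat_lit 28) (nat_lit 5) (nat_lit 290) (nat_lit 272) (nat_lit 218))))))))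
noncomputable def xc70 : XT := (XT.nd (nat_lit 2262) (nat_lit 304) (nat_lit 0) (XT.nd (nat_lit 1092) (nat_lit 456) (nat_lit 0) (XT.nd (nat_lit 546) (nat_lit 456) (nat_lit 0) (XT.nd (nat_lit 234) (nat_lit 304) (nat_lit 0) (XT.nd (nat_lit 78) (nat_lit 152) (nat_lit 0) (XT.lf (nat_lit 0) (nat_lit 2534839055) (nat_lit 228) (nat_lit 7279435056) (nat_lit 76) (nat_lit 14475094065) (nat_lit 24) (nat_lit 5) (nat_lit 27) (nat_lit 5) (nat_lit 25) (nat_lit 5) (nat_lit 291) (nat_lit 272) (nat_lit 217)) (XT.nd (nat_lit 78) (nat_lit 0) (nat_lit 0) (XT.lf (nat_lit 0) (nat_lit 4511810436) (nat_lit 152) (nat_lit 2009846214) (nat_lit 228) (nat_lit 19039028358) (nat_lit 22) (nat_lit 5) (nat_lit 24) (nat_lit 5) (nat_lit 25) (nat_lit 5) (nat_lit 292) (nat_lit 272) (nat_lit 216)) (XT.lf (nat_lit 0) (nat_lit 11168306914) (nat_lit 228) (nat_lit 9443223547) (nat_lit 76) (nat_lit 6294947551) (nat_lit 22) (nat_lit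 5) (nat_lit 25) (nat_lit 5) (nat_lit 23) (nat_lit 5) (nat_lit 293) (nat_lit 272) (nat_lit 215)))) (XT.nd (nat_lit 156) (nat_lit 152) (nat_lit 0) (XT.nd (nat_lit 78) (nat_lit 0) (nat_lit 0) (XT.lf (nat_lit 0) (nat_lit 3173114055) (nat_lit 152) (nat_lit 13125712189) (nat_lit 228) (nat_lit 12052175956) (nat_lit 20) (nat_lit 5) (nat_lit 22) (nat_lit 5) (nat_lit 23) (nat_lit 5) (nat_lit 294) (nat_lit 272) (nat_lit 214)) (XT.lf (nat_lit 0) (nat_lit 17312124467) (nat_lit 152) (nat_lit 4770120777) (nat_lit 228) (nat_lit 7809482271) (nat_lit 20) (nat_lit 5) (nat_lit 22) (nat_lit 5) (nat_lit 23) (nat_lit 5) (nat_lit 295) (nat_lit 272) (nat_lit 213))) (XT.nd (nat_lit 78) (nat_lit 76) (nat_lit 0) (XT.lf (nat_lit 0) (nat_lit 948751739) (nat_lit 76) (nat_lit 27489962803) (nat_lit 152) (nat_lit 3108199357) (nat_lit 19) (nat_lit 5) (nat_lit 20) (nat_lit 5) (nat_lit 21) (nat_lit 4) (nat_lit 296) (nat_lit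 272) (nat_lit 212)) (XT.lf (nat_lit 0) (nat_lit 2332870252) (nat_lit 152) (nat_lit 17235565710) (nat_lit 76) (nat_lit 13725343707) (nat_lit 18) (nat_lit 5) (nat_lit 20) (nat_lit 5) (nat_lit 19) (nat_lit 5) (nat_lit 297) (nat_lit 272) (nat_lit 211))))) (XT.nd (nat_lit 234) (nat_lit 304) (nat_lit 0) (XT.nd (nat_lit 78) (nat_lit 152) (nat_lit 0) (XT.lf (nat_lit 0) (nat_lit 8027791860) (nat_lit 152) (nat_lit 2906140794) (nat_lit 76) (nat_lit 24241110601) (nat_lit 18) (nat_lit 5) (nat_lit 20) (nat_lit 5) (nat_lit 19) (nat_lit 5) (nat_lit 298) (nat_lit 272) (nat_lit 210)) (XT.nd (nat_lit 78) (nat_lit 0) (nat_lit 0) (XT.lf (nat_lit 0) (nat_lit 13210629140) (nat_lit 152) (nat_lit 1272884676) (nat_lit 228) (nat_lit 22698901974) (nat_lit 16) (nat_lit 5) (nat_lit 18) (nat_lit 5) (nat_lit 19) (nat_lit 5) (nat_lit 299) (nat_lit 272) (nat_lit 209)) (XT.lf (nat_lit 0) (nat_lit 21745315897) (nat_lit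 228) (nat_lit 8804559324) (nat_lit 76) (nat_lit 8777355704) (nat_lit 16) (nat_lit 5) (nat_lit 19) (nat_lit 5) (nat_lit 17) (nat_lit 4) (nat_lit 300) (nat_lit 272) (nat_lit 208)))) (XT.nd (nat_lit 156) (nat_lit 228) (nat_lit 0) (XT.nd (nat_lit 78) (nat_lit 0) (nat_lit 0) (XT.lf (nat_lit 0) (nat_lit 7920528852) (nat_lit 76) (nat_lit 21879765670) (nat_lit 152) (nat_lit 11826379071) (nat_lit 15) (nat_lit 5) (nat_lit 16) (nat_lit 5) (nat_lit 17) (nat_lit 4) (nat_lit 301) (nat_lit 272) (nat_lit 207)) (XT.lf (nat_lit 0) (nat_lit 26466147564) (nat_lit 76) (nat_lit 12263338365) (nat_lit 152) (nat_lit 5362219952) (nat_lit 15) (nat_lit 5) (nat_lit 16) (nat_lit 5) (nat_lit 17) (nat_lit 4) (nat_lit 302) (nat_lit 272) (nat_lit 206))) (XT.nd (nat_lit 78) (nat_lit 152) (nat_lit 0) (XT.lf (nat_lit 0) (nat_lit 1527690715) (nat_lit 152) (nat_lit 314878836) (nat_lit 76) (nat_lit 44909103793) (nat_lit 14)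 (nat_lit 5) (nat_lit 16) (nat_lit 5) (nat_lit 15) (nat_lit 5) (nat_lit 303) (nat_lit 272) (nat_lit 205)) (XT.lf (nat_lit 0) (nat_lit 9372675746) (nat_lit 228) (nat_lit 30634009071) (nat_lit 76) (nat_lit 9551140032) (nat_lit 12) (nat_lit 5) (nat_lit 15) (nat_lit 5) (nat_lit 13) (nat_lit 4) (nat_lit 304) (nat_lit 272) (nat_lit 204)))))) (XT.nd (nat_lit 546) (nat_lit 228) (nat_lit 0) (XT.nd (nat_lit 234) (nat_lit 152) (nat_lit 0) (XT.nd (nat_lit 78) (nat_lit 76) (nat_lit 0) (XT.lf (nat_lit 0) (nat_lit 17892512214) (nat_lit 228) (nat_lit 12932668095) (nat_lit 76) (nat_lit 21759522189) (nat_lit 12) (nat_lit 5) (nat_lit 15) (nat_lit 5) (nat_lit 13) (nat_lit 4) (nat_lit 305) (nat_lit 272) (nat_lit 203)) (XT.nd (nat_lit 78) (nat_lit 0) (nat_lit 0) (XT.lf (nat_lit 0) (nat_lit 6494553664) (nat_lit 76) (nat_lit 20746836032) (nat_lit 152) (nat_lit 28600557512) (nat_lit 11) (nat_lit 5) (nat_lit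 12) (nat_lit 5) (nat_lit 13) (nat_lit 4) (nat_lit 306) (nat_lit 272) (nat_lit 202)) (XT.lf (nat_lit 0) (nat_lit 28196717629) (nat_lit 76) (nat_lit 9486614948) (nat_lit 152) (nat_lit 21648838706) (nat_lit 11) (nat_lit 5) (nat_lit 12) (nat_lit 5) (nat_lit 13) (nat_lit 4) (nat_lit 307) (nat_lit 272) (nat_lit 201)))) (XT.nd (nat_lit 156) (nat_lit 76) (nat_lit 0) (XT.nd (nat_lit 78) (nat_lit 76) (nat_lit 0) (XT.lf (nat_lit 0) (nat_lit 49016989805) (nat_lit 152) (nat_lit 11545012534) (nat_lit 0) (nat_lit 2535113528) (nat_lit 11) (nat_lit 5) (nat_lit 13) (nat_lit 4) (nat_lit 11) (nat_lit 4) (nat_lit 308) (nat_lit 272) (nat_lit 200)) (XT.lf (nat_lit 0) (nat_lit 9845692674) (nat_lit 76) (nat_lit 51887470332) (nat_lit 76) (nat_lit 5392037603) (nat_lit 10) (nat_lit 4) (nat_lit 11) (nat_lit 5) (nat_lit 11) (nat_lit 4) (nat_lit 309) (nat_lit 272) (nat_lit 199))) (XT.nd (nat_lit 78) (nat_lit 0) (nat_lit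 0) (XT.lf (nat_lit 0) (nat_lit 4107980607) (nat_lit 152) (nat_lit 37963385337) (nat_lit 76) (nat_lit 29371173591) (nat_lit 9) (nat_lit 5) (nat_lit 11) (nat_lit 5) (nat_lit 10) (nat_lit 4) (nat_lit 310) (nat_lit 272) (nat_lit 198)) (XT.lf (nat_lit 0) (nat_lit 14069906362) (nat_lit 152) (nat_lit 17254202240) (nat_lit 76) (nat_lit 44770503750) (nat_lit 9) (nat_lit 5) (nat_lit 11) (nat_lit 5) (nat_lit 10) (nat_lit 4) (nat_lit 311) (nat_lit 272) (nat_lit 197))))) (XT.nd (nat_lit 312) (nat_lit 152) (nat_lit 0) (XT.nd (nat_lit 156) (nat_lit 0) (nat_lit 0) (XT.nd (nat_lit 78) (nat_lit 0) (nat_lit 0) (XT.lf (nat_lit 0) (nat_lit 5369021263) (nat_lit 76) (nat_lit 19582608682) (nat_lit 152) (nat_lit 56157401238) (nat_lit 8) (nat_lit 5) (nat_lit 9) (nat_lit 5) (nat_lit 10) (nat_lit 4) (nat_lit 312) (nat_lit 272) (nat_lit 196)) (XT.lf (nat_lit 0) (nat_lit 30772375415) (nat_lit 76) (nat_lit 6397196140)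 (nat_lit 152) (nat_lit 49317784673) (nat_lit 8) (nat_lit 5) (nat_lit 9) (nat_lit 5) (nat_lit 10) (nat_lit 4) (nat_lit 313) (nat_lit 272) (nat_lit 195))) (XT.nd (nat_lit 78) (nat_lit 0) (nat_lit 0) (XT.lf (nat_lit 0) (nat_lit 50547834781) (nat_lit 152) (nat_lit 34287097585) (nat_lit 0) (nat_lit 7446390601) (nat_lit 8) (nat_lit 5) (nat_lit 10) (nat_lit 4) (nat_lit 8) (nat_lit 4) (nat_lit 314) (nat_lit 272) (nat_lit 194)) (XT.lf (nat_lit 0) (nat_lit 65157205893) (nat_lit 152) (nat_lit 11320887858) (nat_lit 0) (nat_lit 22047851653) (nat_lit 8) (nat_lit 5) (nat_lit 10) (nat_lit 4) (nat_lit 8) (nat_lit 4) (nat_lit 315) (nat_lit 272) (nat_lit 193)))) (XT.nd (nat_lit 156) (nat_lit 76) (nat_lit 0) (XT.nd (nat_lit 78) (nat_lit 0) (nat_lit 0) (XT.lf (nat_lit 0) (nat_lit 14183092893) (nat_lit 76) (nat_lit 67088417052) (nat_lit 76) (nat_lit 23971738681) (nat_lit 7) (nat_lit 4) (nat_lit 8) (nat_lit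 5) (nat_lit 8) (nat_lit 4) (nat_lit 316) (nat_lit 272) (nat_lit 192)) (XT.lf (nat_lit 0) (nat_lit 42362427920) (nat_lit 76) (nat_lit 56617296069) (nat_lit 76) (nat_lit 13493836098) (nat_lit 7) (nat_lit 4) (nat_lit 8) (nat_lit 5) (nat_lit 8) (nat_lit 4) (nat_lit 317) (nat_lit 272) (nat_lit 191))) (XT.nd (nat_lit 78) (nat_lit 76) (nat_lit 0) (XT.lf (nat_lit 0) (nat_lit 72787967981) (nat_lit 76) (nat_lit 45312212854) (nat_lit 76) (nat_lit 2182473622) (nat_lit 7) (nat_lit 4) (nat_lit 8) (nat_lit 5) (nat_lit 8) (nat_lit 4) (nat_lit 318) (nat_lit 272) (nat_lit 190)) (XT.lf (nat_lit 0) (nat_lit 9527668883) (nat_lit 152) (nat_lit 23318002083) (nat_lit 76) (nat_lit 95851840338) (nat_lit 6) (nat_lit 5) (nat_lit 8) (nat_lit 5) (nat_lit 7) (nat_lit 4) (nat_lit 319) (nat_lit 272) (nat_lit 189))))))) (XT.nd (nat_lit 1170) (nat_lit 76) (nat_lit 0) (XT.nd (nat_lit 546) (nat_lit 76) (nat_lit 0) (XT.nd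 (nat_lit 234) (nat_lit 76) (nat_lit 0) (XT.nd (nat_lit 78) (nat_lit 0) (nat_lit 0) (XT.lf (nat_lit 0) (nat_lit 2872641839) (nat_lit 76) (nat_lit 19249270975) (nat_lit 152) (nat_lit 115653896700) (nat_lit 5) (nat_lit 5) (nat_lit 6) (nat_lit 5) (nat_lit 7) (nat_lit 4) (nat_lit 320) (nat_lit 272) (nat_lit 188)) (XT.nd (nat_lit 78) (nat_lit 0) (nat_lit 0) (XT.lf (nat_lit 0) (nat_lit 32477645938) (nat_lit 76) (nat_lit 3879838405) (nat_lit 152) (nat_lit 111172187753) (nat_lit 5) (nat_lit 5) (nat_lit 6) (nat_lit 5) (nat_lit 7) (nat_lit 4) (nat_lit 321) (nat_lit 272) (nat_lit 187)) (XT.lf (nat_lit 0) (nat_lit 52034236941) (nat_lit 152) (nat_lit 93925387142) (nat_lit 0) (nat_lit 12080036070) (nat_lit 5) (nat_lit 5) (nat_lit 7) (nat_lit 4) (nat_lit 5) (nat_lit 4) (nat_lit 322) (nat_lit 272) (nat_lit 186)))) (XT.nd (nat_lit 156) (nat_lit 76) (nat_lit 0) (XT.nd (nat_lit 78) (nat_lit 0) (nat_lit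 0) (XT.lf (nat_lit 0) (nat_lit 69062608024) (nat_lit 152) (nat_lit 71215593869) (nat_lit 0) (nat_lit 29104450154) (nat_lit 5) (nat_lit 5) (nat_lit 7) (nat_lit 4) (nat_lit 5) (nat_lit 4) (nat_lit 323) (nat_lit 272) (nat_lit 185)) (XT.lf (nat_lit 0) (nat_lit 87450196251) (nat_lit 152) (nat_lit 46694759580) (nat_lit 0) (nat_lit 47488374493) (nat_lit 5) (nat_lit 5) (nat_lit 7) (nat_lit 4) (nat_lit 5) (nat_lit 4) (nat_lit 324) (nat_lit 272) (nat_lit 184))) (XT.nd (nat_lit 78) (nat_lit 76) (nat_lit 0) (XT.lf (nat_lit 0) (nat_lit 107305965108) (nat_lit 152) (nat_lit 20217575626) (nat_lit 0) (nat_lit 67340750861) (nat_lit 5) (nat_lit 5) (nat_lit 7) (nat_lit 4) (nat_lit 5) (nat_lit 4) (nat_lit 325) (nat_lit 272) (nat_lit 183)) (XT.lf (nat_lit 0) (nat_lit 8813759782) (nat_lit 76) (nat_lit 120145789763) (nat_lit 76) (nat_lit 80177434322) (nat_lit 4) (nat_lit 4) (nat_lit 5) (nat_lit 5) (nat_lit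 5) (nat_lit 4) (nat_lit 326) (nat_lit 272) (nat_lit 182))))) (XT.nd (nat_lit 312) (nat_lit 76) (nat_lit 0) (XT.nd (nat_lit 156) (nat_lit 0) (nat_lit 0) (XT.nd (nat_lit 78) (nat_lit 0) (nat_lit 0) (XT.lf (nat_lit 0) (nat_lit 41312594880) (nat_lit 76) (nat_lit 111583071589) (nat_lit 76) (nat_lit 71611807636) (nat_lit 4) (nat_lit 4) (nat_lit 5) (nat_lit 5) (nat_lit 5) (nat_lit 4) (nat_lit 327) (nat_lit 272) (nat_lit 181)) (XT.lf (nat_lit 0) (nat_lit 76406893655) (nat_lit 76) (nat_lit 102337428526) (nat_lit 76) (nat_lit 62363471505) (nat_lit 4) (nat_lit 4) (nat_lit 5) (nat_lit 5) (nat_lit 5) (nat_lit 4) (nat_lit 328) (nat_lit 272) (nat_lit 180))) (XT.nd (nat_lit 78) (nat_lit 0) (nat_lit 0) (XT.lf (nat_lit 0) (nat_lit 114304622320) (nat_lit 76) (nat_lit 92354071578) (nat_lit 76) (nat_lit 52377620977) (nat_lit 4) (nat_lit 4) (nat_lit 5) (nat_lit 5) (nat_lit 5) (nat_lit 4) (nat_lit 329) (nat_lit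 272) (nat_lit 179)) (XT.lf (nat_lit 0) (nat_lit 155230360008) (nat_lit 76) (nat_lit 81573840112) (nat_lit 76) (nat_lit 41595080639) (nat_lit 4) (nat_lit 4) (nat_lit 5) (nat_lit 5) (nat_lit 5) (nat_lit 4) (nat_lit 330) (nat_lit 272) (nat_lit 178)))) (XT.nd (nat_lit 156) (nat_lit 76) (nat_lit 0) (XT.nd (nat_lit 78) (nat_lit 0) (nat_lit 0) (XT.lf (nat_lit 0) (nat_lit 199426629610) (nat_lit 76) (nat_lit 69932851273) (nat_lit 76) (nat_lit 29951953956) (nat_lit 4) (nat_lit 4) (nat_lit 5) (nat_lit 5) (nat_lit 5) (nat_lit 4) (nat_lit 331) (nat_lit 272) (nat_lit 177)) (XT.lf (nat_lit 0) (nat_lit 247155334946) (nat_lit 76) (nat_lit 57362121425) (nat_lit 76) (nat_lit 17379244623) (nat_lit 4) (nat_lit 4) (nat_lit 5) (nat_lit 5) (nat_lit 5) (nat_lit 4) (nat_lit 332) (nat_lit 272) (nat_lit 176))) (XT.nd (nat_lit 78) (nat_lit 76) (nat_lit 0) (XT.lf (nat_lit 0) (nat_lit 298699312787) (nat_lit 76) (nat_lit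 43787157353) (nat_lit 76) (nat_lit 3802447695) (nat_lit 4) (nat_lit 4) (nat_lit 5) (nat_lit 5) (nat_lit 5) (nat_lit 4) (nat_lit 333) (nat_lit 272) (nat_lit 175)) (XT.lf (nat_lit 0) (nat_lit 10315686167) (nat_lit 152) (nat_lit 18529779518) (nat_lit 76) (nat_lit 343766273619) (nat_lit 3) (nat_lit 5) (nat_lit 5) (nat_lit 5) (nat_lit 4) (nat_lit 4) (nat_lit 334) (nat_lit 272) (nat_lit 174)))))) (XT.nd (nat_lit 546) (nat_lit 0) (nat_lit 0) (XT.nd (nat_lit 234) (nat_lit 0) (nat_lit 0) (XT.nd (nat_lit 78) (nat_lit 0) (nat_lit 0) (XT.lf (nat_lit 0) (nat_lit 13424970783) (nat_lit 76) (nat_lit 12254331576) (nat_lit 152) (nat_lit 375327467060) (nat_lit 2) (nat_lit 5) (nat_lit 3) (nat_lit 5) (nat_lit 4) (nat_lit 4) (nat_lit 335) (nat_lit 272) (nat_lit 173)) (XT.nd (nat_lit 78) (nat_lit 0) (nat_lit 0) (XT.lf (nat_lit 0) (nat_lit 42926629640) (nat_lit 152) (nat_lit 382795026836) (nat_lit 0) (nat_lit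 5899376764) (nat_lit 2) (nat_lit 5) (nat_lit 4) (nat_lit 4) (nat_lit 2) (nat_lit 4) (nat_lit 336) (nat_lit 272) (nat_lit 172)) (XT.lf (nat_lit 0) (nat_lit 61870744654) (nat_lit 152) (nat_lit 377946089985) (nat_lit 0) (nat_lit 24842244366) (nat_lit 2) (nat_lit 5) (nat_lit 4) (nat_lit 4) (nat_lit 2) (nat_lit 4) (nat_lit 337) (nat_lit 272) (nat_lit 171)))) (XT.nd (nat_lit 156) (nat_lit 0) (nat_lit 0) (XT.nd (nat_lit 78) (nat_lit 0) (nat_lit 0) (XT.lf (nat_lit 0) (nat_lit 82329191853) (nat_lit 152) (nat_lit 372711536675) (nat_lit 0) (nat_lit 45299536555) (nat_lit 2) (nat_lit 5) (nat_lit 4) (nat_lit 4) (nat_lit 2) (nat_lit 4) (nat_lit 338) (nat_lit 272) (nat_lit 170)) (XT.lf (nat_lit 0) (nat_lit 104423206481) (nat_lit 152) (nat_lit 367060347331) (nat_lit 0) (nat_lit 67392481729) (nat_lit 2) (nat_lit 5) (nat_lit 4) (nat_lit 4) (nat_lit 2) (nat_lit 4) (nat_lit 339) (nat_lit 272) (nat_lit 169)))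 (XT.nd (nat_lit 78) (nat_lit 0) (nat_lit 0) (XT.lf (nat_lit 0) (nat_lit 128283716032) (nat_lit 152) (nat_lit 360959033424) (nat_lit 0) (nat_lit 91252001045) (nat_lit 2) (nat_lit 5) (nat_lit 4) (nat_lit 4) (nat_lit 2) (nat_lit 4) (nat_lit 340) (nat_lit 272) (nat_lit 168)) (XT.lf (nat_lit 0) (nat_lit 154052116117) (nat_lit 152) (nat_lit 354371439019) (nat_lit 0) (nat_lit 117019484245) (nat_lit 2) (nat_lit 5) (nat_lit 4) (nat_lit 4) (nat_lit 2) (nat_lit 4) (nat_lit 341) (nat_lit 272) (nat_lit 167))))) (XT.nd (nat_lit 312) (nat_lit 0) (nat_lit 0) (XT.nd (nat_lit 156) (nat_lit 0) (nat_lit 0) (XT.nd (nat_lit 78) (nat_lit 0) (nat_lit 0) (XT.lf (nat_lit 0) (nat_lit 181881108367) (nat_lit 152) (nat_lit 347258526520) (nat_lit 0) (nat_lit 144847627529) (nat_lit 2) (nat_lit 5) (nat_lit 4) (nat_lit 4) (nat_lit 2) (nat_lit 4) (nat_lit 342) (nat_lit 272) (nat_lit 166)) (XT.lf (nat_lit 0) (nat_lit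 211935605329) (nat_lit 152) (nat_lit 339578145334) (nat_lit 0) (nat_lit 174901338410) (nat_lit 2) (nat_lit 5) (nat_lit 4) (nat_lit 4) (nat_lit 2) (nat_lit 4) (nat_lit 343) (nat_lit 272) (nat_lit 165))) (XT.nd (nat_lit 78) (nat_lit 0) (nat_lit 0) (XT.lf (nat_lit 0) (nat_lit 244393707725) (nat_lit 152) (nat_lit 331284782091) (nat_lit 0) (nat_lit 207358712954) (nat_lit 2) (nat_lit 5) (nat_lit 4) (nat_lit 4) (nat_lit 2) (nat_lit 4) (nat_lit 344) (nat_lit 272) (nat_lit 164)) (XT.lf (nat_lit 0) (nat_lit 279447759866) (nat_lit 152) (nat_lit 322329290935) (nat_lit 0) (nat_lit 242412091157) (nat_lit 2) (nat_lit 5) (nat_lit 4) (nat_lit 4) (nat_lit 2) (nat_lit 4) (nat_lit 345) (nat_lit 272) (nat_lit 163)))) (XT.nd (nat_lit 156) (nat_lit 0) (nat_lit 0) (XT.nd (nat_lit 78) (nat_lit 0) (nat_lit 0) (XT.lf (nat_lit 0) (nat_lit 317305489468) (nat_lit 152) (nat_lit 312658602289) (nat_lit 0) (nat_lit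 280269196743) (nat_lit 2) (nat_lit 5) (nat_lit 4) (nat_lit 4) (nat_lit 2) (nat_lit 4) (nat_lit 346) (nat_lit 272) (nat_lit 162)) (XT.lf (nat_lit 0) (nat_lit 358191238633) (nat_lit 152) (nat_lit 302215408368) (nat_lit 0) (nat_lit 321154368115) (nat_lit 2) (nat_lit 5) (nat_lit 4) (nat_lit 4) (nat_lit 2) (nat_lit 4) (nat_lit 347) (nat_lit 272) (nat_lit 161))) (XT.nd (nat_lit 78) (nat_lit 0) (nat_lit 0) (XT.lf (nat_lit 0) (nat_lit 402347293282) (nat_lit 152) (nat_lit 290937823579) (nat_lit 0) (nat_lit 365309887770) (nat_lit 2) (nat_lit 5) (nat_lit 4) (nat_lit 4) (nat_lit 2) (nat_lit 4) (nat_lit 348) (nat_lit 272) (nat_lit 160)) (XT.lf (nat_lit 0) (nat_lit 450035318922) (nat_lit 152) (nat_lit 278759017789) (nat_lit 0) (nat_lit 412997418047) (nat_lit 2) (nat_lit 5) (nat_lit 4) (nat_lit 4) (nat_lit 2) (nat_lit 4) (nat_lit 349) (nat_lit 272) (nat_lit 159))))))))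
noncomputable def xc71 : XT := (XT.nd (nat_lit 35724) (nat_lit 0) (nat_lit 532) (XT.nd (nat_lit 1092) (nat_lit 0) (nat_lit 0) (XT.nd (nat_lit 546) (nat_lit 76) (nat_lit 0) (XT.nd (nat_lit 234) (nat_lit 0) (nat_lit 0) (XT.nd (nat_lit 78) (nat_lit 0) (nat_lit 0) (XT.lf (nat_lit 0) (nat_lit 501537911263) (nat_lit 152) (nat_lit 265606820298) (nat_lit 0) (nat_lit 464499551717) (nat_lit 2) (nat_lit 5) (nat_lit 4) (nat_lit 4) (nat_lit 2) (nat_lit 4) (nat_lit 350) (nat_lit 272) (nat_lit 158)) (XT.nd (nat_lit 78) (nat_lit 0) (nat_lit 0) (XT.lf (nat_lit 0) (nat_lit 557160270852) (nat_lit 152) (nat_lit 251403292157) (nat_lit 0) (nat_lit 520121486610) (nat_lit 2) (nat_lit 5) (nat_lit 4) (nat_lit 4) (nat_lit 2) (nat_lit 4) (nat_lit 351) (nat_lit 272) (nat_lit 157)) (XT.lf (nat_lit 0) (nat_lit 617232011670) (nat_lit 152) (nat_lit 236064264311) (nat_lit 0) (nat_lit 580192834193) (nat_lit 2) (nat_lit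 5) (nat_lit 4) (nat_lit 4) (nat_lit 2) (nat_lit 4) (nat_lit 352) (nat_lit 272) (nat_lit 156)))) (XT.nd (nat_lit 156) (nat_lit 0) (nat_lit 0) (XT.nd (nat_lit 78) (nat_lit 0) (nat_lit 0) (XT.lf (nat_lit 0) (nat_lit 682109114404) (nat_lit 152) (nat_lit 219498838816) (nat_lit 0) (nat_lit 645069572820) (nat_lit 2) (nat_lit 5) (nat_lit 4) (nat_lit 4) (nat_lit 2) (nat_lit 4) (nat_lit 353) (nat_lit 272) (nat_lit 155)) (XT.lf (nat_lit 0) (nat_lit 752176035960) (nat_lit 152) (nat_lit 201608850190) (nat_lit 0) (nat_lit 715136157239) (nat_lit 2) (nat_lit 5) (nat_lit 4) (nat_lit 4) (nat_lit 2) (nat_lit 4) (nat_lit 354) (nat_lit 272) (nat_lit 154))) (XT.nd (nat_lit 78) (nat_lit 0) (nat_lit 0) (XT.lf (nat_lit 0) (nat_lit 827847987725) (nat_lit 152) (nat_lit 182288283683) (nat_lit 0) (nat_lit 790807796840) (nat_lit 2) (nat_lit 5) (nat_lit 4) (nat_lit 4) (nat_lit 2) (nat_lit 4) (nat_lit 355) (nat_lit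 272) (nat_lit 153)) (XT.lf (nat_lit 0) (nat_lit 909573396078) (nat_lit 152) (nat_lit 161422647051) (nat_lit 0) (nat_lit 872532916154) (nat_lit 2) (nat_lit 5) (nat_lit 4) (nat_lit 4) (nat_lit 2) (nat_lit 4) (nat_lit 356) (nat_lit 272) (nat_lit 152))))) (XT.nd (nat_lit 234) (nat_lit 76) (nat_lit 0) (XT.nd (nat_lit 78) (nat_lit 0) (nat_lit 0) (XT.lf (nat_lit 0) (nat_lit 997836559738) (nat_lit 152) (nat_lit 138888292076) (nat_lit 0) (nat_lit 960795812183) (nat_lit 2) (nat_lit 5) (nat_lit 4) (nat_lit 4) (nat_lit 2) (nat_lit 4) (nat_lit 357) (nat_lit 272) (nat_lit 151)) (XT.nd (nat_lit 78) (nat_lit 0) (nat_lit 0) (XT.lf (nat_lit 0) (nat_lit 1093160519672) (nat_lit 152) (nat_lit 114551681839) (nat_lit 0) (nat_lit 1056119524312) (nat_lit 2) (nat_lit 5) (nat_lit 4) (nat_lit 4) (nat_lit 2) (nat_lit 4) (nat_lit 358) (nat_lit 272) (nat_lit 150)) (XT.lf (nat_lit 0) (nat_lit 1196110158607) (nat_lit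 152) (nat_lit 88268599392) (nat_lit 0) (nat_lit 1159068933798) (nat_lit 2) (nat_lit 5) (nat_lit 4) (nat_lit 4) (nat_lit 2) (nat_lit 4) (nat_lit 359) (nat_lit 272) (nat_lit 149)))) (XT.nd (nat_lit 156) (nat_lit 76) (nat_lit 0) (XT.nd (nat_lit 78) (nat_lit 0) (nat_lit 0) (XT.lf (nat_lit 0) (nat_lit 1307295548478) (nat_lit 152) (nat_lit 59883293134) (nat_lit 0) (nat_lit 1270254111215) (nat_lit 2) (nat_lit 5) (nat_lit 4) (nat_lit 4) (nat_lit 2) (nat_lit 4) (nat_lit 360) (nat_lit 272) (nat_lit 148)) (XT.lf (nat_lit 0) (nat_lit 1427375565668) (nat_lit 152) (nat_lit 29227553843) (nat_lit 0) (nat_lit 1390333931689) (nat_lit 2) (nat_lit 5) (nat_lit 4) (nat_lit 4) (nat_lit 2) (nat_lit 4) (nat_lit 361) (nat_lit 272) (nat_lit 147))) (XT.nd (nat_lit 78) (nat_lit 0) (nat_lit 0) (XT.lf (nat_lit 0) (nat_lit 4084610899) (nat_lit 76) (nat_lit 1553075419555) (nat_lit 76) (nat_lit 1516033603432) (nat_lit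 1) (nat_lit 4) (nat_lit 2) (nat_lit 5) (nat_lit 2) (nat_lit 4) (nat_lit 362) (nat_lit 272) (nat_lit 146)) (XT.lf (nat_lit 0) (nat_lit 41723592413) (nat_lit 76) (nat_lit 1656402609846) (nat_lit 76) (nat_lit 1619360625071) (nat_lit 1) (nat_lit 4) (nat_lit 2) (nat_lit 5) (nat_lit 2) (nat_lit 4) (nat_lit 363) (nat_lit 272) (nat_lit 145)))))) (XT.nd (nat_lit 34008) (nat_lit 0) (nat_lit 2356) (XT.nd (nat_lit 33696) (nat_lit 0) (nat_lit 3192) (XT.nd (nat_lit 33540) (nat_lit 0) (nat_lit 3116) (XT.lf (nat_lit 0) (nat_lit 82373365325) (nat_lit 76) (nat_lit 1767996132779) (nat_lit 76) (nat_lit 1730953991844) (nat_lit 1) (nat_lit 4) (nat_lit 2) (nat_lit 5) (nat_lit 2) (nat_lit 4) (nat_lit 364) (nat_lit 272) (nat_lit 144)) (XT.nd (nat_lit 78) (nat_lit 0) (nat_lit 0) (XT.lf (nat_lit 0) (nat_lit 905957567) (nat_lit 532) (nat_lit 2416369895) (nat_lit 532) (nat_lit 2416369895) (nat_lit 42) (nat_lit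 3) (nat_lit 49) (nat_lit 3) (nat_lit 49) (nat_lit 5) (nat_lit 273) (nat_lit 273) (nat_lit 234)) (XT.lf (nat_lit 76) (nat_lit 326394025) (nat_lit 0) (nat_lit 2045063604) (nat_lit 532) (nat_lit 9524264295) (nat_lit 43) (nat_lit 5) (nat_lit 42) (nat_lit 3) (nat_lit 49) (nat_lit 5) (nat_lit 274) (nat_lit 273) (nat_lit 233)))) (XT.nd (nat_lit 156) (nat_lit 0) (nat_lit 76) (XT.nd (nat_lit 78) (nat_lit 0) (nat_lit 0) (XT.lf (nat_lit 0) (nat_lit 3133526134) (nat_lit 456) (nat_lit 6269490055) (nat_lit 532) (nat_lit 2932058528) (nat_lit 43) (nat_lit 5) (nat_lit 49) (nat_lit 5) (nat_lit 50) (nat_lit 5) (nat_lit 275) (nat_lit 273) (nat_lit 232)) (XT.lf (nat_lit 0) (nat_lit 3965149735) (nat_lit 456) (nat_lit 628346841) (nat_lit 532) (nat_lit 8215559041) (nat_lit 43) (nat_lit 5) (nat_lit 49) (nat_lit 5) (nat_lit 50) (nat_lit 5) (nat_lit 276) (nat_lit 273) (nat_lit 231))) (XT.nd (nat_lit 78) (nat_lit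 0) (nat_lit 0) (XT.lf (nat_lit 0) (nat_lit 4978068261) (nat_lit 456) (nat_lit 7608751890) (nat_lit 532) (nat_lit 725108315) (nat_lit 44) (nat_lit 5) (nat_lit 50) (nat_lit 5) (nat_lit 51) (nat_lit 5) (nat_lit 277) (nat_lit 273) (nat_lit 230)) (XT.lf (nat_lit 0) (nat_lit 6170432104) (nat_lit 456) (nat_lit 1426678904) (nat_lit 532) (nat_lit 6250190410) (nat_lit 44) (nat_lit 5) (nat_lit 50) (nat_lit 5) (nat_lit 51) (nat_lit 5) (nat_lit 278) (nat_lit 273) (nat_lit 229))))) (XT.nd (nat_lit 312) (nat_lit 532) (nat_lit 0) (XT.nd (nat_lit 156) (nat_lit 380) (nat_lit 0) (XT.nd (nat_lit 78) (nat_lit 0) (nat_lit 76) (XT.lf (nat_lit 76) (nat_lit 5496957745) (nat_lit 0) (nat_lit 2057756943) (nat_lit 532) (nat_lit 6863199759) (nat_lit 45) (nat_lit 5) (nat_lit 44) (nat_lit 5) (nat_lit 51) (nat_lit 5) (nat_lit 279) (nat_lit 273) (nat_lit 228)) (XT.lf (nat_lit 0) (nat_lit 9150619561) (nat_lit 456) (nat_lit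 2101083200) (nat_lit 76) (nat_lit 3774526173) (nat_lit 45) (nat_lit 5) (nat_lit 51) (nat_lit 5) (nat_lit 46) (nat_lit 5) (nat_lit 280) (nat_lit 273) (nat_lit 227))) (XT.nd (nat_lit 78) (nat_lit 0) (nat_lit 0) (XT.lf (nat_lit 0) (nat_lit 5455850387) (nat_lit 456) (nat_lit 5571960164) (nat_lit 532) (nat_lit 4643222624) (nat_lit 39) (nat_lit 5) (nat_lit 45) (nat_lit 5) (nat_lit 46) (nat_lit 5) (nat_lit 281) (nat_lit 273) (nat_lit 226)) (XT.lf (nat_lit 0) (nat_lit 13098282531) (nat_lit 532) (nat_lit 2670813621) (nat_lit 76) (nat_lit 594982418) (nat_lit 39) (nat_lit 5) (nat_lit 46) (nat_lit 5) (nat_lit 40) (nat_lit 5) (nat_lit 282) (nat_lit 273) (nat_lit 225)))) (XT.nd (nat_lit 156) (nat_lit 228) (nat_lit 0) (XT.nd (nat_lit 78) (nat_lit 76) (nat_lit 0) (XT.lf (nat_lit 0) (nat_lit 5584122375) (nat_lit 228) (nat_lit 10002114991) (nat_lit 304) (nat_lit 1506280098) (nat_lit 36) (nat_lit 5) (nat_lit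 39) (nat_lit 5) (nat_lit 40) (nat_lit 5) (nat_lit 283) (nat_lit 273) (nat_lit 224)) (XT.lf (nat_lit 0) (nat_lit 422640073) (nat_lit 304) (nat_lit 3261797970) (nat_lit 76) (nat_lit 14190250760) (nat_lit 35) (nat_lit 5) (nat_lit 39) (nat_lit 5) (nat_lit 36) (nat_lit 5) (nat_lit 284) (nat_lit 273) (nat_lit 223))) (XT.nd (nat_lit 78) (nat_lit 0) (nat_lit 0) (XT.lf (nat_lit 0) (nat_lit 2621267329) (nat_lit 304) (nat_lit 12914268157) (nat_lit 76) (nat_lit 3165104071) (nat_lit 32) (nat_lit 5) (nat_lit 36) (nat_lit 5) (nat_lit 33) (nat_lit 5) (nat_lit 285) (nat_lit 273) (nat_lit 222)) (XT.lf (nat_lit 0) (nat_lit 5159536046) (nat_lit 304) (nat_lit 3967155378) (nat_lit 76) (nat_lit 10452946491) (nat_lit 32) (nat_lit 5) (nat_lit 36) (nat_lit 5) (nat_lit 33) (nat_lit 5) (nat_lit 286) (nat_lit 273) (nat_lit 221))))))) (XT.nd (nat_lit 1170) (nat_lit 608) (nat_lit 0) (XT.nd (nat_lit 546) (nat_lit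 456) (nat_lit 0) (XT.nd (nat_lit 234) (nat_lit 380) (nat_lit 0) (XT.nd (nat_lit 78) (nat_lit 152) (nat_lit 0) (XT.lf (nat_lit 0) (nat_lit 5968846371) (nat_lit 228) (nat_lit 2053859497) (nat_lit 304) (nat_lit 12496569444) (nat_lit 29) (nat_lit 5) (nat_lit 32) (nat_lit 5) (nat_lit 33) (nat_lit 5) (nat_lit 287) (nat_lit 273) (nat_lit 220)) (XT.nd (nat_lit 78) (nat_lit 152) (nat_lit 0) (XT.lf (nat_lit 0) (nat_lit 11339731149) (nat_lit 304) (nat_lit 4763633727) (nat_lit 76) (nat_lit 5412796101) (nat_lit 29) (nat_lit 5) (nat_lit 33) (nat_lit 5) (nat_lit 30) (nat_lit 5) (nat_lit 288) (nat_lit 273) (nat_lit 219)) (XT.lf (nat_lit 0) (nat_lit 6029917981) (nat_lit 152) (nat_lit 9071308704) (nat_lit 228) (nat_lit 7477299027) (nat_lit 27) (nat_lit 5) (nat_lit 29) (nat_lit 5) (nat_lit 30) (nat_lit 5) (nat_lit 289) (nat_lit 273) (nat_lit 218)))) (XT.nd (nat_lit 156) (nat_lit 228) (nat_lit 0) (XT.nd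 (nat_lit 78) (nat_lit 152) (nat_lit 0) (XT.lf (nat_lit 0) (nat_lit 17934004630) (nat_lit 152) (nat_lit 1341477670) (nat_lit 228) (nat_lit 4441502752) (nat_lit 27) (nat_lit 5) (nat_lit 29) (nat_lit 5) (nat_lit 30) (nat_lit 5) (nat_lit 290) (nat_lit 273) (nat_lit 217)) (XT.lf (nat_lit 0) (nat_lit 5949624701) (nat_lit 152) (nat_lit 18128490692) (nat_lit 228) (nat_lit 844899545) (nat_lit 25) (nat_lit 5) (nat_lit 27) (nat_lit 5) (nat_lit 28) (nat_lit 5) (nat_lit 291) (nat_lit 273) (nat_lit 216))) (XT.nd (nat_lit 78) (nat_lit 152) (nat_lit 0) (XT.lf (nat_lit 0) (nat_lit 3067544135) (nat_lit 228) (nat_lit 7398930027) (nat_lit 76) (nat_lit 15738834432) (nat_lit 24) (nat_lit 5) (nat_lit 27) (nat_lit 5) (nat_lit 25) (nat_lit 5) (nat_lit 292) (nat_lit 273) (nat_lit 215)) (XT.lf (nat_lit 0) (nat_lit 5323897134) (nat_lit 152) (nat_lit 2035821610) (nat_lit 228) (nat_lit 20219759516) (nat_lit 22)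 (nat_lit 5) (nat_lit 24) (nat_lit 5) (nat_lit 25) (nat_lit 5) (nat_lit 293) (nat_lit 273) (nat_lit 214))))) (XT.nd (nat_lit 312) (nat_lit 228) (nat_lit 0) (XT.nd (nat_lit 156) (nat_lit 76) (nat_lit 0) (XT.nd (nat_lit 78) (nat_lit 152) (nat_lit 0) (XT.lf (nat_lit 0) (nat_lit 12357671282) (nat_lit 228) (nat_lit 9759828494) (nat_lit 76) (nat_lit 6917125248) (nat_lit 22) (nat_lit 5) (nat_lit 25) (nat_lit 5) (nat_lit 23) (nat_lit 5) (nat_lit 294) (nat_lit 273) (nat_lit 213)) (XT.lf (nat_lit 0) (nat_lit 3854705916) (nat_lit 152) (nat_lit 14032294961) (nat_lit 228) (nat_lit 12708692568) (nat_lit 20) (nat_lit 5) (nat_lit 22) (nat_lit 5) (nat_lit 23) (nat_lit 5) (nat_lit 295) (nat_lit 273) (nat_lit 212))) (XT.nd (nat_lit 78) (nat_lit 76) (nat_lit 0) (XT.lf (nat_lit 0) (nat_lit 19093152514) (nat_lit 152) (nat_lit 5018883955) (nat_lit 228) (nat_lit 8149372830) (nat_lit 20) (nat_lit 5) (nat_lit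 22) (nat_lit 5) (nat_lit 23) (nat_lit 5) (nat_lit 296) (nat_lit 273) (nat_lit 211)) (XT.lf (nat_lit 0) (nat_lit 1428677259) (nat_lit 76) (nat_lit 29541524013) (nat_lit 152) (nat_lit 3079399491) (nat_lit 19) (nat_lit 5) (nat_lit 20) (nat_lit 5) (nat_lit 21) (nat_lit 4) (nat_lit 297) (nat_lit 273) (nat_lit 210)))) (XT.nd (nat_lit 156) (nat_lit 152) (nat_lit 0) (XT.nd (nat_lit 78) (nat_lit 0) (nat_lit 0) (XT.lf (nat_lit 0) (nat_lit 2763552049) (nat_lit 152) (nat_lit 18226986143) (nat_lit 76) (nat_lit 14946743782) (nat_lit 18) (nat_lit 5) (nat_lit 20) (nat_lit 5) (nat_lit 19) (nat_lit 5) (nat_lit 298) (nat_lit 273) (nat_lit 209)) (XT.lf (nat_lit 0) (nat_lit 8895989447) (nat_lit 152) (nat_lit 2779905369) (nat_lit 76) (nat_lit 26294633318) (nat_lit 18) (nat_lit 5) (nat_lit 20) (nat_lit 5) (nat_lit 19) (nat_lit 5) (nat_lit 299) (nat_lit 273) (nat_lit 208))) (XT.nd (nat_lit 78) (nat_lit 0)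 (nat_lit 0) (XT.lf (nat_lit 0) (nat_lit 14617124471) (nat_lit 152) (nat_lit 1242714826) (nat_lit 228) (nat_lit 24279350203) (nat_lit 16) (nat_lit 5) (nat_lit 18) (nat_lit 5) (nat_lit 19) (nat_lit 5) (nat_lit 300) (nat_lit 273) (nat_lit 207)) (XT.lf (nat_lit 0) (nat_lit 23689403201) (nat_lit 228) (nat_lit 9171618575) (nat_lit 76) (nat_lit 9595652881) (nat_lit 16) (nat_lit 5) (nat_lit 19) (nat_lit 5) (nat_lit 17) (nat_lit 4) (nat_lit 301) (nat_lit 273) (nat_lit 206)))))) (XT.nd (nat_lit 546) (nat_lit 228) (nat_lit 0) (XT.nd (nat_lit 234) (nat_lit 228) (nat_lit 0) (XT.nd (nat_lit 78) (nat_lit 76) (nat_lit 0) (XT.lf (nat_lit 0) (nat_lit 8882937276) (nat_lit 76) (nat_lit 23498604338) (nat_lit 152) (nat_lit 12559138189) (nat_lit 15) (nat_lit 5) (nat_lit 16) (nat_lit 5) (nat_lit 17) (nat_lit 4) (nat_lit 302) (nat_lit 273) (nat_lit 205)) (XT.nd (nat_lit 78) (nat_lit 76) (nat_lit 0) (XT.lf (nat_lit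 0) (nat_lit 28887852439) (nat_lit 76) (nat_lit 13122606743) (nat_lit 152) (nat_lit 5593650133) (nat_lit 15) (nat_lit 5) (nat_lit 16) (nat_lit 5) (nat_lit 17) (nat_lit 4) (nat_lit 303) (nat_lit 273) (nat_lit 204)) (XT.lf (nat_lit 0) (nat_lit 1823670132) (nat_lit 152) (nat_lit 48777397) (nat_lit 76) (nat_lit 48605180870) (nat_lit 14) (nat_lit 5) (nat_lit 16) (nat_lit 5) (nat_lit 15) (nat_lit 5) (nat_lit 304) (nat_lit 273) (nat_lit 203)))) (XT.nd (nat_lit 156) (nat_lit 76) (nat_lit 0) (XT.nd (nat_lit 78) (nat_lit 0) (nat_lit 0) (XT.lf (nat_lit 0) (nat_lit 10293005288) (nat_lit 228) (nat_lit 32789932262) (nat_lit 76) (nat_lit 10425614938) (nat_lit 12) (nat_lit 5) (nat_lit 15) (nat_lit 5) (nat_lit 13) (nat_lit 4) (nat_lit 305) (nat_lit 273) (nat_lit 202)) (XT.lf (nat_lit 0) (nat_lit 19481797897) (nat_lit 228) (nat_lit 13694320863) (nat_lit 76) (nat_lit 23602491096) (nat_lit 12) (nat_lit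 5) (nat_lit 15) (nat_lit 5) (nat_lit 13) (nat_lit 4) (nat_lit 306) (nat_lit 273) (nat_lit 201))) (XT.nd (nat_lit 78) (nat_lit 0) (nat_lit 0) (XT.lf (nat_lit 0) (nat_lit 7280168240) (nat_lit 76) (nat_lit 22293120690) (nat_lit 152) (nat_lit 30723586579) (nat_lit 11) (nat_lit 5) (nat_lit 12) (nat_lit 5) (nat_lit 13) (nat_lit 4) (nat_lit 307) (nat_lit 273) (nat_lit 200)) (XT.lf (nat_lit 0) (nat_lit 30698797894) (nat_lit 76) (nat_lit 10140486528) (nat_lit 152) (nat_lit 23227953641) (nat_lit 11) (nat_lit 5) (nat_lit 12) (nat_lit 5) (nat_lit 13) (nat_lit 4) (nat_lit 308) (nat_lit 273) (nat_lit 199))))) (XT.nd (nat_lit 312) (nat_lit 76) (nat_lit 0) (XT.nd (nat_lit 156) (nat_lit 76) (nat_lit 0) (XT.nd (nat_lit 78) (nat_lit 76) (nat_lit 0) (XT.lf (nat_lit 0) (nat_lit 53071508135) (nat_lit 152) (nat_lit 12232203223) (nat_lit 0) (nat_lit 2830332063) (nat_lit 11) (nat_lit 5) (nat_lit 13) (nat_lit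 4) (nat_lit 11) (nat_lit 4) (nat_lit 309) (nat_lit 273) (nat_lit 198)) (XT.lf (nat_lit 0) (nat_lit 10863773330) (nat_lit 76) (nat_lit 55936879954) (nat_lit 76) (nat_lit 5684081409) (nat_lit 10) (nat_lit 4) (nat_lit 11) (nat_lit 5) (nat_lit 11) (nat_lit 4) (nat_lit 310) (nat_lit 273) (nat_lit 197))) (XT.nd (nat_lit 78) (nat_lit 0) (nat_lit 0) (XT.lf (nat_lit 0) (nat_lit 4559165251) (nat_lit 152) (nat_lit 40780496371) (nat_lit 76) (nat_lit 31808327358) (nat_lit 9) (nat_lit 5) (nat_lit 11) (nat_lit 5) (nat_lit 10) (nat_lit 4) (nat_lit 311) (nat_lit 273) (nat_lit 196)) (XT.lf (nat_lit 0) (nat_lit 15308967570) (nat_lit 152) (nat_lit 18430871944) (nat_lit 76) (nat_lit 48433125421) (nat_lit 9) (nat_lit 5) (nat_lit 11) (nat_lit 5) (nat_lit 10) (nat_lit 4) (nat_lit 312) (nat_lit 273) (nat_lit 195)))) (XT.nd (nat_lit 156) (nat_lit 0) (nat_lit 0) (XT.nd (nat_lit 78) (nat_lit 0) (nat_lit 0) (XT.lf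 (nat_lit 0) (nat_lit 5997053325) (nat_lit 76) (nat_lit 21060544804) (nat_lit 152) (nat_lit 60531239905) (nat_lit 8) (nat_lit 5) (nat_lit 9) (nat_lit 5) (nat_lit 10) (nat_lit 4) (nat_lit 313) (nat_lit 273) (nat_lit 194)) (XT.lf (nat_lit 0) (nat_lit 33417971339) (nat_lit 76) (nat_lit 6826867598) (nat_lit 152) (nat_lit 53153250565) (nat_lit 8) (nat_lit 5) (nat_lit 9) (nat_lit 5) (nat_lit 10) (nat_lit 4) (nat_lit 314) (nat_lit 273) (nat_lit 193))) (XT.nd (nat_lit 78) (nat_lit 0) (nat_lit 0) (XT.lf (nat_lit 0) (nat_lit 54687658106) (nat_lit 152) (nat_lit 36854059367) (nat_lit 0) (nat_lit 8114321337) (nat_lit 8) (nat_lit 5) (nat_lit 10) (nat_lit 4) (nat_lit 8) (nat_lit 4) (nat_lit 315) (nat_lit 273) (nat_lit 192)) (XT.lf (nat_lit 0) (nat_lit 70458668052) (nat_lit 152) (nat_lit 12063590345) (nat_lit 0) (nat_lit 23878549681) (nat_lit 8) (nat_lit 5) (nat_lit 10) (nat_lit 4) (nat_lit 8) (nat_lit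 4) (nat_lit 316) (nat_lit 273) (nat_lit 191))))))))
noncomputable def xc72 : XT := (XT.nd (nat_lit 2262) (nat_lit 76) (nat_lit 0) (XT.nd (nat_lit 1092) (nat_lit 152) (nat_lit 0) (XT.nd (nat_lit 546) (nat_lit 76) (nat_lit 0) (XT.nd (nat_lit 234) (nat_lit 152) (nat_lit 0) (XT.nd (nat_lit 78) (nat_lit 0) (nat_lit 0) (XT.lf (nat_lit 0) (nat_lit 15476583080) (nat_lit 76) (nat_lit 72382769395) (nat_lit 76) (nat_lit 25796371764) (nat_lit 7) (nat_lit 4) (nat_lit 8) (nat_lit 5) (nat_lit 8) (nat_lit 4) (nat_lit 317) (nat_lit 273) (nat_lit 190)) (XT.nd (nat_lit 78) (nat_lit 0) (nat_lit 0) (XT.lf (nat_lit 0) (nat_lit 45898498779) (nat_lit 76) (nat_lit 61079345477) (nat_lit 76) (nat_lit 14487133715) (nat_lit 7) (nat_lit 4) (nat_lit 8) (nat_lit 5) (nat_lit 8) (nat_lit 4) (nat_lit 318) (nat_lit 273) (nat_lit 189)) (XT.lf (nat_lit 0) (nat_lit 78747187480) (nat_lit 76) (nat_lit 48874843328) (nat_lit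 76) (nat_lit 2277248112) (nat_lit 7) (nat_lit 4) (nat_lit 8) (nat_lit 5) (nat_lit 8) (nat_lit 4) (nat_lit 319) (nat_lit 273) (nat_lit 188)))) (XT.nd (nat_lit 156) (nat_lit 0) (nat_lit 0) (XT.nd (nat_lit 78) (nat_lit 76) (nat_lit 0) (XT.lf (nat_lit 0) (nat_lit 10360095643) (nat_lit 152) (nat_lit 25053580955) (nat_lit 76) (nat_lit 103573949061) (nat_lit 6) (nat_lit 5) (nat_lit 8) (nat_lit 5) (nat_lit 7) (nat_lit 4) (nat_lit 320) (nat_lit 273) (nat_lit 187)) (XT.lf (nat_lit 0) (nat_lit 3229026853) (nat_lit 76) (nat_lit 20730695354) (nat_lit 152) (nat_lit 124832643217) (nat_lit 5) (nat_lit 5) (nat_lit 6) (nat_lit 5) (nat_lit 7) (nat_lit 4) (nat_lit 321) (nat_lit 273) (nat_lit 186))) (XT.nd (nat_lit 78) (nat_lit 0) (nat_lit 0) (XT.lf (nat_lit 0) (nat_lit 35193055452) (nat_lit 76) (nat_lit 4136042793) (nat_lit 152) (nat_lit 119997846830) (nat_lit 5) (nat_lit 5) (nat_lit 6) (nat_lit 5) (nat_lit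 7) (nat_lit 4) (nat_lit 322) (nat_lit 273) (nat_lit 185)) (XT.lf (nat_lit 0) (nat_lit 56256529831) (nat_lit 152) (nat_lit 101327385213) (nat_lit 0) (nat_lit 13094098444) (nat_lit 5) (nat_lit 5) (nat_lit 7) (nat_lit 4) (nat_lit 5) (nat_lit 4) (nat_lit 323) (nat_lit 273) (nat_lit 184))))) (XT.nd (nat_lit 234) (nat_lit 76) (nat_lit 0) (XT.nd (nat_lit 78) (nat_lit 0) (nat_lit 0) (XT.lf (nat_lit 0) (nat_lit 74642759199) (nat_lit 152) (nat_lit 76809107211) (nat_lit 0) (nat_lit 31476935323) (nat_lit 5) (nat_lit 5) (nat_lit 7) (nat_lit 4) (nat_lit 5) (nat_lit 4) (nat_lit 324) (nat_lit 273) (nat_lit 183)) (XT.nd (nat_lit 78) (nat_lit 0) (nat_lit 0) (XT.lf (nat_lit 0) (nat_lit 94497269852) (nat_lit 152) (nat_lit 50334290191) (nat_lit 0) (nat_lit 51328304782) (nat_lit 5) (nat_lit 5) (nat_lit 7) (nat_lit 4) (nat_lit 5) (nat_lit 4) (nat_lit 325) (nat_lit 273) (nat_lit 182)) (XT.lf (nat_lit 0) (nat_lit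 115937718151) (nat_lit 152) (nat_lit 21746046348) (nat_lit 0) (nat_lit 72765844568) (nat_lit 5) (nat_lit 5) (nat_lit 7) (nat_lit 4) (nat_lit 5) (nat_lit 4) (nat_lit 326) (nat_lit 273) (nat_lit 181)))) (XT.nd (nat_lit 156) (nat_lit 0) (nat_lit 0) (XT.nd (nat_lit 78) (nat_lit 0) (nat_lit 0) (XT.lf (nat_lit 0) (nat_lit 9605544366) (nat_lit 76) (nat_lit 129716627810) (nat_lit 76) (nat_lit 86542061161) (nat_lit 4) (nat_lit 4) (nat_lit 5) (nat_lit 5) (nat_lit 5) (nat_lit 4) (nat_lit 327) (nat_lit 273) (nat_lit 180)) (XT.lf (nat_lit 0) (nat_lit 44697865250) (nat_lit 76) (nat_lit 120471916267) (nat_lit 76) (nat_lit 77294856036) (nat_lit 4) (nat_lit 4) (nat_lit 5) (nat_lit 5) (nat_lit 5) (nat_lit 4) (nat_lit 328) (nat_lit 273) (nat_lit 179))) (XT.nd (nat_lit 78) (nat_lit 0) (nat_lit 0) (XT.lf (nat_lit 0) (nat_lit 82593762535) (nat_lit 76) (nat_lit 110489421837) (nat_lit 76) (nat_lit 67310052735)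 (nat_lit 4) (nat_lit 4) (nat_lit 5) (nat_lit 5) (nat_lit 5) (nat_lit 4) (nat_lit 329) (nat_lit 273) (nat_lit 178)) (XT.lf (nat_lit 0) (nat_lit 123517804502) (nat_lit 76) (nat_lit 99709988997) (nat_lit 76) (nat_lit 56528482052) (nat_lit 4) (nat_lit 4) (nat_lit 5) (nat_lit 5) (nat_lit 5) (nat_lit 4) (nat_lit 330) (nat_lit 273) (nat_lit 177)))))) (XT.nd (nat_lit 546) (nat_lit 0) (nat_lit 0) (XT.nd (nat_lit 234) (nat_lit 152) (nat_lit 0) (XT.nd (nat_lit 78) (nat_lit 0) (nat_lit 0) (XT.lf (nat_lit 0) (nat_lit 167712503991) (nat_lit 76) (nat_lit 88069739629) (nat_lit 76) (nat_lit 44886253198) (nat_lit 4) (nat_lit 4) (nat_lit 5) (nat_lit 5) (nat_lit 5) (nat_lit 4) (nat_lit 331) (nat_lit 273) (nat_lit 176)) (XT.nd (nat_lit 78) (nat_lit 0) (nat_lit 0) (XT.lf (nat_lit 0) (nat_lit 215439755518) (nat_lit 76) (nat_lit 75499694475) (nat_lit 76) (nat_lit 32314375188) (nat_lit 4) (nat_lit 4) (nat_lit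 5) (nat_lit 5) (nat_lit 5) (nat_lit 4) (nat_lit 332) (nat_lit 273) (nat_lit 175)) (XT.lf (nat_lit 0) (nat_lit 266982387240) (nat_lit 76) (nat_lit 61925364379) (nat_lit 76) (nat_lit 18738348003) (nat_lit 4) (nat_lit 4) (nat_lit 5) (nat_lit 5) (nat_lit 5) (nat_lit 4) (nat_lit 333) (nat_lit 273) (nat_lit 174)))) (XT.nd (nat_lit 156) (nat_lit 76) (nat_lit 0) (XT.nd (nat_lit 78) (nat_lit 76) (nat_lit 0) (XT.lf (nat_lit 0) (nat_lit 322645836975) (nat_lit 76) (nat_lit 47266308868) (nat_lit 76) (nat_lit 4077721113) (nat_lit 4) (nat_lit 4) (nat_lit 5) (nat_lit 5) (nat_lit 5) (nat_lit 4) (nat_lit 334) (nat_lit 273) (nat_lit 173)) (XT.lf (nat_lit 0) (nat_lit 11166381415) (nat_lit 152) (nat_lit 19963969391) (nat_lit 76) (nat_lit 371288272131) (nat_lit 3) (nat_lit 5) (nat_lit 5) (nat_lit 5) (nat_lit 4) (nat_lit 4) (nat_lit 335) (nat_lit 273) (nat_lit 172))) (XT.nd (nat_lit 78) (nat_lit 0) (nat_lit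 0) (XT.lf (nat_lit 0) (nat_lit 14545940870) (nat_lit 76) (nat_lit 13212391249) (nat_lit 152) (nat_lit 405326985228) (nat_lit 2) (nat_lit 5) (nat_lit 3) (nat_lit 5) (nat_lit 4) (nat_lit 4) (nat_lit 336) (nat_lit 273) (nat_lit 171)) (XT.lf (nat_lit 0) (nat_lit 46384113318) (nat_lit 152) (nat_lit 413373786342) (nat_lit 0) (nat_lit 6390930586) (nat_lit 2) (nat_lit 5) (nat_lit 4) (nat_lit 4) (nat_lit 2) (nat_lit 4) (nat_lit 337) (nat_lit 273) (nat_lit 170))))) (XT.nd (nat_lit 312) (nat_lit 0) (nat_lit 0) (XT.nd (nat_lit 156) (nat_lit 0) (nat_lit 0) (XT.nd (nat_lit 78) (nat_lit 0) (nat_lit 0) (XT.lf (nat_lit 0) (nat_lit 66842027658) (nat_lit 152) (nat_lit 408140256220) (nat_lit 0) (nat_lit 26847775472) (nat_lit 2) (nat_lit 5) (nat_lit 4) (nat_lit 4) (nat_lit 2) (nat_lit 4) (nat_lit 338) (nat_lit 273) (nat_lit 169)) (XT.lf (nat_lit 0) (nat_lit 88935548897) (nat_lit 152) (nat_lit 402490014272)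 (nat_lit 0) (nat_lit 48940306476) (nat_lit 2) (nat_lit 5) (nat_lit 4) (nat_lit 4) (nat_lit 2) (nat_lit 4) (nat_lit 339) (nat_lit 273) (nat_lit 168))) (XT.nd (nat_lit 78) (nat_lit 0) (nat_lit 0) (XT.lf (nat_lit 0) (nat_lit 112795601607) (nat_lit 152) (nat_lit 396389577584) (nat_lit 0) (nat_lit 72799442301) (nat_lit 2) (nat_lit 5) (nat_lit 4) (nat_lit 4) (nat_lit 2) (nat_lit 4) (nat_lit 340) (nat_lit 273) (nat_lit 167)) (XT.lf (nat_lit 0) (nat_lit 138563578691) (nat_lit 152) (nat_lit 389802795418) (nat_lit 0) (nat_lit 98566570419) (nat_lit 2) (nat_lit 5) (nat_lit 4) (nat_lit 4) (nat_lit 2) (nat_lit 4) (nat_lit 341) (nat_lit 273) (nat_lit 166)))) (XT.nd (nat_lit 156) (nat_lit 0) (nat_lit 0) (XT.nd (nat_lit 78) (nat_lit 0) (nat_lit 0) (XT.lf (nat_lit 0) (nat_lit 166392179274) (nat_lit 152) (nat_lit 382690634993) (nat_lit 0) (nat_lit 126394384921) (nat_lit 2) (nat_lit 5) (nat_lit 4) (nat_lit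 4) (nat_lit 2) (nat_lit 4) (nat_lit 342) (nat_lit 273) (nat_lit 165)) (XT.lf (nat_lit 0) (nat_lit 196446313581) (nat_lit 152) (nat_lit 375010950171) (nat_lit 0) (nat_lit 156447791375) (nat_lit 2) (nat_lit 5) (nat_lit 4) (nat_lit 4) (nat_lit 2) (nat_lit 4) (nat_lit 343) (nat_lit 273) (nat_lit 164))) (XT.nd (nat_lit 78) (nat_lit 0) (nat_lit 0) (XT.lf (nat_lit 0) (nat_lit 228904080185) (nat_lit 152) (nat_lit 366718231710) (nat_lit 0) (nat_lit 188904884042) (nat_lit 2) (nat_lit 5) (nat_lit 4) (nat_lit 4) (nat_lit 2) (nat_lit 4) (nat_lit 344) (nat_lit 273) (nat_lit 163)) (XT.lf (nat_lit 0) (nat_lit 263957821408) (nat_lit 152) (nat_lit 357763337575) (nat_lit 0) (nat_lit 223958001248) (nat_lit 2) (nat_lit 5) (nat_lit 4) (nat_lit 4) (nat_lit 2) (nat_lit 4) (nat_lit 345) (nat_lit 273) (nat_lit 162))))))) (XT.nd (nat_lit 1092) (nat_lit 76) (nat_lit 0) (XT.nd (nat_lit 546) (nat_lit 0) (nat_lit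 0) (XT.nd (nat_lit 234) (nat_lit 0) (nat_lit 0) (XT.nd (nat_lit 78) (nat_lit 0) (nat_lit 0) (XT.lf (nat_lit 0) (nat_lit 301815263123) (nat_lit 152) (nat_lit 348093201725) (nat_lit 0) (nat_lit 261814865171) (nat_lit 2) (nat_lit 5) (nat_lit 4) (nat_lit 4) (nat_lit 2) (nat_lit 4) (nat_lit 346) (nat_lit 273) (nat_lit 161)) (XT.nd (nat_lit 78) (nat_lit 0) (nat_lit 0) (XT.lf (nat_lit 0) (nat_lit 342700745725) (nat_lit 152) (nat_lit 337650519653) (nat_lit 0) (nat_lit 302699812780) (nat_lit 2) (nat_lit 5) (nat_lit 4) (nat_lit 4) (nat_lit 2) (nat_lit 4) (nat_lit 347) (nat_lit 273) (nat_lit 160)) (XT.lf (nat_lit 0) (nat_lit 386856553557) (nat_lit 152) (nat_lit 326373408798) (nat_lit 0) (nat_lit 346855125247) (nat_lit 2) (nat_lit 5) (nat_lit 4) (nat_lit 4) (nat_lit 2) (nat_lit 4) (nat_lit 348) (nat_lit 273) (nat_lit 159)))) (XT.nd (nat_lit 156) (nat_lit 0) (nat_lit 0) (XT.nd (nat_lit 78) (nat_lit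 0) (nat_lit 0) (XT.lf (nat_lit 0) (nat_lit 434544350663) (nat_lit 152) (nat_lit 314195041836) (nat_lit 0) (nat_lit 394542463683) (nat_lit 2) (nat_lit 5) (nat_lit 4) (nat_lit 4) (nat_lit 2) (nat_lit 4) (nat_lit 349) (nat_lit 273) (nat_lit 158)) (XT.lf (nat_lit 0) (nat_lit 486046731398) (nat_lit 152) (nat_lit 301043250666) (nat_lit 0) (nat_lit 446044419723) (nat_lit 2) (nat_lit 5) (nat_lit 4) (nat_lit 4) (nat_lit 2) (nat_lit 4) (nat_lit 350) (nat_lit 273) (nat_lit 157))) (XT.nd (nat_lit 78) (nat_lit 0) (nat_lit 0) (XT.lf (nat_lit 0) (nat_lit 541668895055) (nat_lit 152) (nat_lit 286840098749) (nat_lit 0) (nat_lit 501666190144) (nat_lit 2) (nat_lit 5) (nat_lit 4) (nat_lit 4) (nat_lit 2) (nat_lit 4) (nat_lit 351) (nat_lit 273) (nat_lit 156)) (XT.lf (nat_lit 0) (nat_lit 601740454456) (nat_lit 152) (nat_lit 271501419259) (nat_lit 0) (nat_lit 561737385437) (nat_lit 2) (nat_lit 5) (nat_lit 4)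 (nat_lit 4) (nat_lit 2) (nat_lit 4) (nat_lit 352) (nat_lit 273) (nat_lit 155))))) (XT.nd (nat_lit 234) (nat_lit 0) (nat_lit 0) (XT.nd (nat_lit 78) (nat_lit 0) (nat_lit 0) (XT.lf (nat_lit 0) (nat_lit 666617389211) (nat_lit 152) (nat_lit 254936316316) (nat_lit 0) (nat_lit 626613983056) (nat_lit 2) (nat_lit 5) (nat_lit 4) (nat_lit 4) (nat_lit 2) (nat_lit 4) (nat_lit 353) (nat_lit 273) (nat_lit 154)) (XT.nd (nat_lit 78) (nat_lit 0) (nat_lit 0) (XT.lf (nat_lit 0) (nat_lit 736684155230) (nat_lit 152) (nat_lit 237046626348) (nat_lit 0) (nat_lit 696680436912) (nat_lit 2) (nat_lit 5) (nat_lit 4) (nat_lit 4) (nat_lit 2) (nat_lit 4) (nat_lit 354) (nat_lit 273) (nat_lit 153)) (XT.lf (nat_lit 0) (nat_lit 812355962979) (nat_lit 152) (nat_lit 217726336378) (nat_lit 0) (nat_lit 772351955620) (nat_lit 2) (nat_lit 5) (nat_lit 4) (nat_lit 4) (nat_lit 2) (nat_lit 4) (nat_lit 355) (nat_lit 273) (nat_lit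 152)))) (XT.nd (nat_lit 156) (nat_lit 0) (nat_lit 0) (XT.nd (nat_lit 78) (nat_lit 0) (nat_lit 0) (XT.lf (nat_lit 0) (nat_lit 894081237986) (nat_lit 152) (nat_lit 196860955797) (nat_lit 0) (nat_lit 854076962997) (nat_lit 2) (nat_lit 5) (nat_lit 4) (nat_lit 4) (nat_lit 2) (nat_lit 4) (nat_lit 356) (nat_lit 273) (nat_lit 151)) (XT.lf (nat_lit 0) (nat_lit 982344278175) (nat_lit 152) (nat_lit 174326837907) (nat_lit 0) (nat_lit 942339755381) (nat_lit 2) (nat_lit 5) (nat_lit 4) (nat_lit 4) (nat_lit 2) (nat_lit 4) (nat_lit 357) (nat_lit 273) (nat_lit 150))) (XT.nd (nat_lit 78) (nat_lit 0) (nat_lit 0) (XT.lf (nat_lit 0) (nat_lit 1077668123785) (nat_lit 152) (nat_lit 149990447193) (nat_lit 0) (nat_lit 1037663371541) (nat_lit 2) (nat_lit 5) (nat_lit 4) (nat_lit 4) (nat_lit 2) (nat_lit 4) (nat_lit 358) (nat_lit 273) (nat_lit 149)) (XT.lf (nat_lit 0) (nat_lit 1180617656865) (nat_lit 152) (nat_lit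 123707568008) (nat_lit 0) (nat_lit 1140612692168) (nat_lit 2) (nat_lit 5) (nat_lit 4) (nat_lit 4) (nat_lit 2) (nat_lit 4) (nat_lit 359) (nat_lit 273) (nat_lit 148)))))) (XT.nd (nat_lit 34086) (nat_lit 0) (nat_lit 2888) (XT.nd (nat_lit 234) (nat_lit 76) (nat_lit 0) (XT.nd (nat_lit 78) (nat_lit 0) (nat_lit 0) (XT.lf (nat_lit 0) (nat_lit 1291802948721) (nat_lit 152) (nat_lit 95322449956) (nat_lit 0) (nat_lit 1251797787308) (nat_lit 2) (nat_lit 5) (nat_lit 4) (nat_lit 4) (nat_lit 2) (nat_lit 4) (nat_lit 360) (nat_lit 273) (nat_lit 147)) (XT.nd (nat_lit 78) (nat_lit 0) (nat_lit 0) (XT.lf (nat_lit 0) (nat_lit 1411882875157) (nat_lit 152) (nat_lit 64666884930) (nat_lit 0) (nat_lit 1371877531600) (nat_lit 2) (nat_lit 5) (nat_lit 4) (nat_lit 4) (nat_lit 2) (nat_lit 4) (nat_lit 361) (nat_lit 273) (nat_lit 146)) (XT.lf (nat_lit 0) (nat_lit 1541569020922) (nat_lit 152) (nat_lit 31559210323) (nat_lit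 0) (nat_lit 1501563508713) (nat_lit 2) (nat_lit 5) (nat_lit 4) (nat_lit 4) (nat_lit 2) (nat_lit 4) (nat_lit 362) (nat_lit 273) (nat_lit 145)))) (XT.nd (nat_lit 33696) (nat_lit 0) (nat_lit 3116) (XT.nd (nat_lit 78) (nat_lit 0) (nat_lit 0) (XT.lf (nat_lit 0) (nat_lit 4417761832) (nat_lit 76) (nat_lit 1677318381956) (nat_lit 76) (nat_lit 1637312713587) (nat_lit 1) (nat_lit 4) (nat_lit 2) (nat_lit 5) (nat_lit 2) (nat_lit 4) (nat_lit 363) (nat_lit 273) (nat_lit 144)) (XT.lf (nat_lit 0) (nat_lit 45067389122) (nat_lit 76) (nat_lit 1788911974964) (nat_lit 76) (nat_lit 1748906162003) (nat_lit 1) (nat_lit 4) (nat_lit 2) (nat_lit 5) (nat_lit 2) (nat_lit 4) (nat_lit 364) (nat_lit 273) (nat_lit 143))) (XT.nd (nat_lit 78) (nat_lit 0) (nat_lit 0) (XT.lf (nat_lit 0) (nat_lit 1446125119) (nat_lit 532) (nat_lit 2356246405) (nat_lit 532) (nat_lit 2356246405) (nat_lit 42) (nat_lit 3) (nat_lit 49) (nat_lit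 3) (nat_lit 49) (nat_lit 5) (nat_lit 274) (nat_lit 274) (nat_lit 232)) (XT.lf (nat_lit 76) (nat_lit 846539656) (nat_lit 0) (nat_lit 2592610462) (nat_lit 532) (nat_lit 9334732341) (nat_lit 43) (nat_lit 5) (nat_lit 42) (nat_lit 3) (nat_lit 49) (nat_lit 5) (nat_lit 275) (nat_lit 274) (nat_lit 231))))) (XT.nd (nat_lit 312) (nat_lit 304) (nat_lit 0) (XT.nd (nat_lit 156) (nat_lit 0) (nat_lit 76) (XT.nd (nat_lit 78) (nat_lit 0) (nat_lit 0) (XT.lf (nat_lit 0) (nat_lit 4188599030) (nat_lit 456) (nat_lit 6237007467) (nat_lit 532) (nat_lit 2828905203) (nat_lit 43) (nat_lit 5) (nat_lit 49) (nat_lit 5) (nat_lit 50) (nat_lit 5) (nat_lit 276) (nat_lit 274) (nat_lit 230)) (XT.lf (nat_lit 0) (nat_lit 5027168015) (nat_lit 456) (nat_lit 184131447) (nat_lit 532) (nat_lit 8560101906) (nat_lit 43) (nat_lit 5) (nat_lit 49) (nat_lit 5) (nat_lit 50) (nat_lit 5) (nat_lit 277) (nat_lit 274) (nat_lit 229))) (XT.nd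 (nat_lit 78) (nat_lit 0) (nat_lit 0) (XT.lf (nat_lit 0) (nat_lit 6072267186) (nat_lit 456) (nat_lit 7671528845) (nat_lit 532) (nat_lit 574823218) (nat_lit 44) (nat_lit 5) (nat_lit 50) (nat_lit 5) (nat_lit 51) (nat_lit 5) (nat_lit 278) (nat_lit 274) (nat_lit 228)) (XT.lf (nat_lit 0) (nat_lit 7308468027) (nat_lit 456) (nat_lit 1035328776) (nat_lit 532) (nat_lit 6557341048) (nat_lit 44) (nat_lit 5) (nat_lit 50) (nat_lit 5) (nat_lit 51) (nat_lit 5) (nat_lit 279) (nat_lit 274) (nat_lit 227)))) (XT.nd (nat_lit 156) (nat_lit 380) (nat_lit 0) (XT.nd (nat_lit 78) (nat_lit 0) (nat_lit 76) (XT.lf (nat_lit 76) (nat_lit 6429401731) (nat_lit 0) (nat_lit 2338207197) (nat_lit 532) (nat_lit 6752839189) (nat_lit 45) (nat_lit 5) (nat_lit 44) (nat_lit 5) (nat_lit 51) (nat_lit 5) (nat_lit 280) (nat_lit 274) (nat_lit 226)) (XT.lf (nat_lit 0) (nat_lit 10443531494) (nat_lit 456) (nat_lit 1763269337) (nat_lit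 76) (nat_lit 3974603612) (nat_lit 45) (nat_lit 5) (nat_lit 51) (nat_lit 5) (nat_lit 46) (nat_lit 5) (nat_lit 281) (nat_lit 274) (nat_lit 225))) (XT.nd (nat_lit 78) (nat_lit 0) (nat_lit 0) (XT.lf (nat_lit 0) (nat_lit 6385411328) (nat_lit 456) (nat_lit 6055799970) (nat_lit 532) (nat_lit 4439108776) (nat_lit 39) (nat_lit 5) (nat_lit 45) (nat_lit 5) (nat_lit 46) (nat_lit 5) (nat_lit 282) (nat_lit 274) (nat_lit 224)) (XT.lf (nat_lit 0) (nat_lit 14637126622) (nat_lit 532) (nat_lit 2385955968) (nat_lit 76) (nat_lit 609082930) (nat_lit 39) (nat_lit 5) (nat_lit 46) (nat_lit 5) (nat_lit 40) (nat_lit 5) (nat_lit 283) (nat_lit 274) (nat_lit 223))))))))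
noncomputable def xc73 : XT := (XT.nd (nat_lit 2262) (nat_lit 532) (nat_lit 0) (XT.nd (nat_lit 1092) (nat_lit 836) (nat_lit 0) (XT.nd (nat_lit 546) (nat_lit 532) (nat_lit 0) (XT.nd (nat_lit 234) (nat_lit 380) (nat_lit 0) (XT.nd (nat_lit 78) (nat_lit 304) (nat_lit 0) (XT.lf (nat_lit 0) (nat_lit 6516754079) (nat_lit 228) (nat_lit 10782680718) (nat_lit 304) (nat_lit 1121549803) (nat_lit 36) (nat_lit 5) (nat_lit 39) (nat_lit 5) (nat_lit 40) (nat_lit 5) (nat_lit 284) (nat_lit 274) (nat_lit 222)) (XT.nd (nat_lit 78) (nat_lit 228) (nat_lit 0) (XT.lf (nat_lit 0) (nat_lit 900857683) (nat_lit 304) (nat_lit 3048033181) (nat_lit 76) (nat_lit 15318822737) (nat_lit 35) (nat_lit 5) (nat_lit 39) (nat_lit 5) (nat_lit 36) (nat_lit 5) (nat_lit 285) (nat_lit 274) (nat_lit 221)) (XT.lf (nat_lit 0) (nat_lit 3254547667) (nat_lit 304) (nat_lit 13450579278) (nat_lit 76) (nat_lit 3456383208) (nat_lit 32) (nat_lit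 5) (nat_lit 36) (nat_lit 5) (nat_lit 33) (nat_lit 5) (nat_lit 286) (nat_lit 274) (nat_lit 220)))) (XT.nd (nat_lit 156) (nat_lit 152) (nat_lit 0) (XT.nd (nat_lit 78) (nat_lit 228) (nat_lit 0) (XT.lf (nat_lit 0) (nat_lit 5964501663) (nat_lit 304) (nat_lit 3824499723) (nat_lit 76) (nat_lit 11324432961) (nat_lit 32) (nat_lit 5) (nat_lit 36) (nat_lit 5) (nat_lit 33) (nat_lit 5) (nat_lit 287) (nat_lit 274) (nat_lit 219)) (XT.lf (nat_lit 0) (nat_lit 6894735885) (nat_lit 228) (nat_lit 2143720724) (nat_lit 304) (nat_lit 13091336373) (nat_lit 29) (nat_lit 5) (nat_lit 32) (nat_lit 5) (nat_lit 33) (nat_lit 5) (nat_lit 288) (nat_lit 274) (nat_lit 218))) (XT.nd (nat_lit 78) (nat_lit 152) (nat_lit 0) (XT.lf (nat_lit 0) (nat_lit 12594802915) (nat_lit 304) (nat_lit 4702487672) (nat_lit 76) (nat_lit 5911304386) (nat_lit 29) (nat_lit 5) (nat_lit 33) (nat_lit 5) (nat_lit 30) (nat_lit 5) (nat_lit 289) (nat_lit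 274) (nat_lit 217)) (XT.lf (nat_lit 0) (nat_lit 6943352306) (nat_lit 152) (nat_lit 9698462460) (nat_lit 228) (nat_lit 7715442492) (nat_lit 27) (nat_lit 5) (nat_lit 29) (nat_lit 5) (nat_lit 30) (nat_lit 5) (nat_lit 290) (nat_lit 274) (nat_lit 216))))) (XT.nd (nat_lit 234) (nat_lit 304) (nat_lit 0) (XT.nd (nat_lit 78) (nat_lit 228) (nat_lit 0) (XT.lf (nat_lit 0) (nat_lit 19767836932) (nat_lit 152) (nat_lit 1357545013) (nat_lit 228) (nat_lit 4463452179) (nat_lit 27) (nat_lit 5) (nat_lit 29) (nat_lit 5) (nat_lit 30) (nat_lit 5) (nat_lit 291) (nat_lit 274) (nat_lit 215)) (XT.nd (nat_lit 78) (nat_lit 76) (nat_lit 0) (XT.lf (nat_lit 0) (nat_lit 6837327399) (nat_lit 152) (nat_lit 19464027969) (nat_lit 228) (nat_lit 590925906) (nat_lit 25) (nat_lit 5) (nat_lit 27) (nat_lit 5) (nat_lit 28) (nat_lit 5) (nat_lit 292) (nat_lit 274) (nat_lit 214)) (XT.lf (nat_lit 0) (nat_lit 3595799137) (nat_lit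 228) (nat_lit 7594016726) (nat_lit 76) (nat_lit 17088590057) (nat_lit 24) (nat_lit 5) (nat_lit 27) (nat_lit 5) (nat_lit 25) (nat_lit 5) (nat_lit 293) (nat_lit 274) (nat_lit 213)))) (XT.nd (nat_lit 156) (nat_lit 152) (nat_lit 0) (XT.nd (nat_lit 78) (nat_lit 0) (nat_lit 0) (XT.lf (nat_lit 0) (nat_lit 6136590337) (nat_lit 152) (nat_lit 2083107519) (nat_lit 228) (nat_lit 21543795087) (nat_lit 22) (nat_lit 5) (nat_lit 24) (nat_lit 5) (nat_lit 25) (nat_lit 5) (nat_lit 294) (nat_lit 274) (nat_lit 212)) (XT.lf (nat_lit 0) (nat_lit 13599971383) (nat_lit 228) (nat_lit 10164369113) (nat_lit 76) (nat_lit 7572160128) (nat_lit 22) (nat_lit 5) (nat_lit 25) (nat_lit 5) (nat_lit 23) (nat_lit 5) (nat_lit 295) (nat_lit 274) (nat_lit 211))) (XT.nd (nat_lit 78) (nat_lit 0) (nat_lit 0) (XT.lf (nat_lit 0) (nat_lit 4529802843) (nat_lit 152) (nat_lit 15031872553) (nat_lit 228) (nat_lit 13461621286) (nat_lit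 20) (nat_lit 5) (nat_lit 22) (nat_lit 5) (nat_lit 23) (nat_lit 5) (nat_lit 296) (nat_lit 274) (nat_lit 210)) (XT.lf (nat_lit 0) (nat_lit 20960160690) (nat_lit 152) (nat_lit 5306500223) (nat_lit 228) (nat_lit 8557094242) (nat_lit 20) (nat_lit 5) (nat_lit 22) (nat_lit 5) (nat_lit 23) (nat_lit 5) (nat_lit 297) (nat_lit 274) (nat_lit 209)))))) (XT.nd (nat_lit 546) (nat_lit 456) (nat_lit 0) (XT.nd (nat_lit 234) (nat_lit 228) (nat_lit 0) (XT.nd (nat_lit 78) (nat_lit 76) (nat_lit 0) (XT.lf (nat_lit 0) (nat_lit 1889358083) (nat_lit 76) (nat_lit 31778272020) (nat_lit 152) (nat_lit 3087877810) (nat_lit 19) (nat_lit 5) (nat_lit 20) (nat_lit 5) (nat_lit 21) (nat_lit 4) (nat_lit 298) (nat_lit 274) (nat_lit 208)) (XT.nd (nat_lit 78) (nat_lit 0) (nat_lit 0) (XT.lf (nat_lit 0) (nat_lit 3193871619) (nat_lit 152) (nat_lit 19352990694) (nat_lit 76) (nat_lit 16248255386) (nat_lit 18) (nat_lit 5) (nat_lit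 20) (nat_lit 5) (nat_lit 19) (nat_lit 5) (nat_lit 299) (nat_lit 274) (nat_lit 207)) (XT.lf (nat_lit 0) (nat_lit 9801405089) (nat_lit 152) (nat_lit 2694747483) (nat_lit 76) (nat_lit 28496141114) (nat_lit 18) (nat_lit 5) (nat_lit 20) (nat_lit 5) (nat_lit 19) (nat_lit 5) (nat_lit 300) (nat_lit 274) (nat_lit 206)))) (XT.nd (nat_lit 156) (nat_lit 76) (nat_lit 0) (XT.nd (nat_lit 78) (nat_lit 0) (nat_lit 0) (XT.lf (nat_lit 0) (nat_lit 16086258661) (nat_lit 152) (nat_lit 1228962753) (nat_lit 228) (nat_lit 26019825853) (nat_lit 16) (nat_lit 5) (nat_lit 18) (nat_lit 5) (nat_lit 19) (nat_lit 5) (nat_lit 301) (nat_lit 274) (nat_lit 205)) (XT.lf (nat_lit 0) (nat_lit 25759848694) (nat_lit 228) (nat_lit 9616162966) (nat_lit 76) (nat_lit 10462849625) (nat_lit 16) (nat_lit 5) (nat_lit 19) (nat_lit 5) (nat_lit 17) (nat_lit 4) (nat_lit 302) (nat_lit 274) (nat_lit 204))) (XT.nd (nat_lit 78) (nat_lit 0)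 (nat_lit 0) (XT.lf (nat_lit 0) (nat_lit 9875436212) (nat_lit 76) (nat_lit 25265716119) (nat_lit 152) (nat_lit 13380954971) (nat_lit 15) (nat_lit 5) (nat_lit 16) (nat_lit 5) (nat_lit 17) (nat_lit 4) (nat_lit 303) (nat_lit 274) (nat_lit 203)) (XT.lf (nat_lit 0) (nat_lit 31459865776) (nat_lit 76) (nat_lit 14067992536) (nat_lit 152) (nat_lit 5871777076) (nat_lit 15) (nat_lit 5) (nat_lit 16) (nat_lit 5) (nat_lit 17) (nat_lit 4) (nat_lit 304) (nat_lit 274) (nat_lit 202))))) (XT.nd (nat_lit 312) (nat_lit 152) (nat_lit 0) (XT.nd (nat_lit 156) (nat_lit 76) (nat_lit 0) (XT.nd (nat_lit 78) (nat_lit 0) (nat_lit 0) (XT.lf (nat_lit 0) (nat_lit 207432758) (nat_lit 152) (nat_lit 1916094507) (nat_lit 228) (nat_lit 52379756259) (nat_lit 12) (nat_lit 5) (nat_lit 14) (nat_lit 5) (nat_lit 15) (nat_lit 5) (nat_lit 305) (nat_lit 274) (nat_lit 201)) (XT.lf (nat_lit 0) (nat_lit 11262635253) (nat_lit 228) (nat_lit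 35160385473) (nat_lit 76) (nat_lit 11354300367) (nat_lit 12) (nat_lit 5) (nat_lit 15) (nat_lit 5) (nat_lit 13) (nat_lit 4) (nat_lit 306) (nat_lit 274) (nat_lit 200))) (XT.nd (nat_lit 78) (nat_lit 76) (nat_lit 0) (XT.lf (nat_lit 0) (nat_lit 21175702416) (nat_lit 228) (nat_lit 14555846744) (nat_lit 76) (nat_lit 25578316527) (nat_lit 12) (nat_lit 5) (nat_lit 15) (nat_lit 5) (nat_lit 13) (nat_lit 4) (nat_lit 307) (nat_lit 274) (nat_lit 199)) (XT.lf (nat_lit 0) (nat_lit 8090676936) (nat_lit 76) (nat_lit 23979294775) (nat_lit 152) (nat_lit 33039999283) (nat_lit 11) (nat_lit 5) (nat_lit 12) (nat_lit 5) (nat_lit 13) (nat_lit 4) (nat_lit 308) (nat_lit 274) (nat_lit 198)))) (XT.nd (nat_lit 156) (nat_lit 152) (nat_lit 0) (XT.nd (nat_lit 78) (nat_lit 0) (nat_lit 0) (XT.lf (nat_lit 0) (nat_lit 33365901018) (nat_lit 76) (nat_lit 10861655478) (nat_lit 152) (nat_lit 24955195282) (nat_lit 11) (nat_lit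 5) (nat_lit 12) (nat_lit 5) (nat_lit 13) (nat_lit 4) (nat_lit 309) (nat_lit 274) (nat_lit 197)) (XT.lf (nat_lit 0) (nat_lit 57431391290) (nat_lit 152) (nat_lit 13008095742) (nat_lit 0) (nat_lit 3135984839) (nat_lit 11) (nat_lit 5) (nat_lit 13) (nat_lit 4) (nat_lit 11) (nat_lit 4) (nat_lit 310) (nat_lit 274) (nat_lit 196))) (XT.nd (nat_lit 78) (nat_lit 76) (nat_lit 0) (XT.lf (nat_lit 0) (nat_lit 11930427702) (nat_lit 76) (nat_lit 60324735011) (nat_lit 76) (nat_lit 6019364162) (nat_lit 10) (nat_lit 4) (nat_lit 11) (nat_lit 5) (nat_lit 11) (nat_lit 4) (nat_lit 311) (nat_lit 274) (nat_lit 195)) (XT.lf (nat_lit 0) (nat_lit 5028962082) (nat_lit 152) (nat_lit 43854356012) (nat_lit 76) (nat_lit 34427976297) (nat_lit 9) (nat_lit 5) (nat_lit 11) (nat_lit 5) (nat_lit 10) (nat_lit 4) (nat_lit 312) (nat_lit 274) (nat_lit 194))))))) (XT.nd (nat_lit 1170) (nat_lit 228) (nat_lit 0) (XT.nd (nat_lit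 546) (nat_lit 152) (nat_lit 0) (XT.nd (nat_lit 234) (nat_lit 76) (nat_lit 0) (XT.nd (nat_lit 78) (nat_lit 76) (nat_lit 0) (XT.lf (nat_lit 0) (nat_lit 16630966097) (nat_lit 152) (nat_lit 19730730524) (nat_lit 76) (nat_lit 52377203927) (nat_lit 9) (nat_lit 5) (nat_lit 11) (nat_lit 5) (nat_lit 10) (nat_lit 4) (nat_lit 313) (nat_lit 274) (nat_lit 193)) (XT.nd (nat_lit 78) (nat_lit 0) (nat_lit 0) (XT.lf (nat_lit 0) (nat_lit 6647008231) (nat_lit 76) (nat_lit 22669365950) (nat_lit 152) (nat_lit 65271927169) (nat_lit 8) (nat_lit 5) (nat_lit 9) (nat_lit 5) (nat_lit 10) (nat_lit 4) (nat_lit 314) (nat_lit 274) (nat_lit 192)) (XT.lf (nat_lit 0) (nat_lit 36248992971) (nat_lit 76) (nat_lit 7302625859) (nat_lit 152) (nat_lit 57311240307) (nat_lit 8) (nat_lit 5) (nat_lit 9) (nat_lit 5) (nat_lit 10) (nat_lit 4) (nat_lit 315) (nat_lit 274) (nat_lit 191)))) (XT.nd (nat_lit 156) (nat_lit 76) (nat_lit 0)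 (XT.nd (nat_lit 78) (nat_lit 0) (nat_lit 0) (XT.lf (nat_lit 0) (nat_lit 59144972318) (nat_lit 152) (nat_lit 39651487319) (nat_lit 0) (nat_lit 8825383615) (nat_lit 8) (nat_lit 5) (nat_lit 10) (nat_lit 4) (nat_lit 8) (nat_lit 4) (nat_lit 316) (nat_lit 274) (nat_lit 190)) (XT.lf (nat_lit 0) (nat_lit 76171566647) (nat_lit 152) (nat_lit 12888958316) (nat_lit 0) (nat_lit 25846163814) (nat_lit 8) (nat_lit 5) (nat_lit 10) (nat_lit 4) (nat_lit 8) (nat_lit 4) (nat_lit 317) (nat_lit 274) (nat_lit 189))) (XT.nd (nat_lit 78) (nat_lit 0) (nat_lit 0) (XT.lf (nat_lit 0) (nat_lit 16850891787) (nat_lit 76) (nat_lit 78111044393) (nat_lit 76) (nat_lit 27780258106) (nat_lit 7) (nat_lit 4) (nat_lit 8) (nat_lit 5) (nat_lit 8) (nat_lit 4) (nat_lit 318) (nat_lit 274) (nat_lit 188)) (XT.lf (nat_lit 0) (nat_lit 49696473181) (nat_lit 76) (nat_lit 65907964824) (nat_lit 76) (nat_lit 15572193858) (nat_lit 7) (nat_lit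 4) (nat_lit 8) (nat_lit 5) (nat_lit 8) (nat_lit 4) (nat_lit 319) (nat_lit 274) (nat_lit 187))))) (XT.nd (nat_lit 312) (nat_lit 0) (nat_lit 0) (XT.nd (nat_lit 156) (nat_lit 76) (nat_lit 0) (XT.nd (nat_lit 78) (nat_lit 76) (nat_lit 0) (XT.lf (nat_lit 0) (nat_lit 85163716646) (nat_lit 76) (nat_lit 52731378673) (nat_lit 76) (nat_lit 2390992263) (nat_lit 7) (nat_lit 4) (nat_lit 8) (nat_lit 5) (nat_lit 8) (nat_lit 4) (nat_lit 320) (nat_lit 274) (nat_lit 186)) (XT.lf (nat_lit 0) (nat_lit 11249099839) (nat_lit 152) (nat_lit 26946532303) (nat_lit 76) (nat_lit 111906128272) (nat_lit 6) (nat_lit 5) (nat_lit 8) (nat_lit 5) (nat_lit 7) (nat_lit 4) (nat_lit 321) (nat_lit 274) (nat_lit 185))) (XT.nd (nat_lit 78) (nat_lit 0) (nat_lit 0) (XT.lf (nat_lit 0) (nat_lit 3595865520) (nat_lit 76) (nat_lit 22338981830) (nat_lit 152) (nat_lit 134756184357) (nat_lit 5) (nat_lit 5) (nat_lit 6) (nat_lit 5) (nat_lit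 7) (nat_lit 4) (nat_lit 322) (nat_lit 274) (nat_lit 184)) (XT.lf (nat_lit 0) (nat_lit 38108978146) (nat_lit 76) (nat_lit 4420473297) (nat_lit 152) (nat_lit 129539276135) (nat_lit 5) (nat_lit 5) (nat_lit 6) (nat_lit 5) (nat_lit 7) (nat_lit 4) (nat_lit 323) (nat_lit 274) (nat_lit 183)))) (XT.nd (nat_lit 156) (nat_lit 0) (nat_lit 0) (XT.nd (nat_lit 78) (nat_lit 0) (nat_lit 0) (XT.lf (nat_lit 0) (nat_lit 60808110119) (nat_lit 152) (nat_lit 109337525875) (nat_lit 0) (nat_lit 14182486649) (nat_lit 5) (nat_lit 5) (nat_lit 7) (nat_lit 4) (nat_lit 5) (nat_lit 4) (nat_lit 324) (nat_lit 274) (nat_lit 182)) (XT.lf (nat_lit 0) (nat_lit 80661455769) (nat_lit 152) (nat_lit 82864900460) (nat_lit 0) (nat_lit 34032923787) (nat_lit 5) (nat_lit 5) (nat_lit 7) (nat_lit 4) (nat_lit 5) (nat_lit 4) (nat_lit 325) (nat_lit 274) (nat_lit 181))) (XT.nd (nat_lit 78) (nat_lit 0) (nat_lit 0) (XT.lf (nat_lit 0) (nat_lit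 102100825361) (nat_lit 152) (nat_lit 54278685880) (nat_lit 0) (nat_lit 55469600311) (nat_lit 5) (nat_lit 5) (nat_lit 7) (nat_lit 4) (nat_lit 5) (nat_lit 4) (nat_lit 326) (nat_lit 274) (nat_lit 180)) (XT.lf (nat_lit 0) (nat_lit 125253267011) (nat_lit 152) (nat_lit 23409482346) (nat_lit 0) (nat_lit 78619548381) (nat_lit 5) (nat_lit 5) (nat_lit 7) (nat_lit 4) (nat_lit 5) (nat_lit 4) (nat_lit 327) (nat_lit 274) (nat_lit 179)))))) (XT.nd (nat_lit 546) (nat_lit 152) (nat_lit 0) (XT.nd (nat_lit 234) (nat_lit 0) (nat_lit 0) (XT.nd (nat_lit 78) (nat_lit 0) (nat_lit 0) (XT.lf (nat_lit 0) (nat_lit 10448305303) (nat_lit 76) (nat_lit 140058957063) (nat_lit 76) (nat_lit 93422929562) (nat_lit 4) (nat_lit 4) (nat_lit 5) (nat_lit 5) (nat_lit 5) (nat_lit 4) (nat_lit 328) (nat_lit 274) (nat_lit 178)) (XT.nd (nat_lit 78) (nat_lit 0) (nat_lit 0) (XT.lf (nat_lit 0) (nat_lit 48342506866) (nat_lit 76) (nat_lit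 130077261261) (nat_lit 76) (nat_lit 83439095916) (nat_lit 4) (nat_lit 4) (nat_lit 5) (nat_lit 5) (nat_lit 5) (nat_lit 4) (nat_lit 329) (nat_lit 274) (nat_lit 177)) (XT.lf (nat_lit 0) (nat_lit 89264978720) (nat_lit 76) (nat_lit 119298567891) (nat_lit 76) (nat_lit 72658423062) (nat_lit 4) (nat_lit 4) (nat_lit 5) (nat_lit 5) (nat_lit 5) (nat_lit 4) (nat_lit 330) (nat_lit 274) (nat_lit 176)))) (XT.nd (nat_lit 156) (nat_lit 0) (nat_lit 0) (XT.nd (nat_lit 78) (nat_lit 0) (nat_lit 0) (XT.lf (nat_lit 0) (nat_lit 133458224401) (nat_lit 76) (nat_lit 107659003217) (nat_lit 76) (nat_lit 61017025531) (nat_lit 4) (nat_lit 4) (nat_lit 5) (nat_lit 5) (nat_lit 5) (nat_lit 4) (nat_lit 331) (nat_lit 274) (nat_lit 175)) (XT.lf (nat_lit 0) (nat_lit 181184129809) (nat_lit 76) (nat_lit 95089592040) (nat_lit 76) (nat_lit 48445917265) (nat_lit 4) (nat_lit 4) (nat_lit 5) (nat_lit 5) (nat_lit 5) (nat_lit 4) (nat_lit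 332) (nat_lit 274) (nat_lit 174))) (XT.nd (nat_lit 78) (nat_lit 0) (nat_lit 0) (XT.lf (nat_lit 0) (nat_lit 232725515125) (nat_lit 76) (nat_lit 81515848959) (nat_lit 76) (nat_lit 34870602805) (nat_lit 4) (nat_lit 4) (nat_lit 5) (nat_lit 5) (nat_lit 5) (nat_lit 4) (nat_lit 333) (nat_lit 274) (nat_lit 173)) (XT.lf (nat_lit 0) (nat_lit 288387810780) (nat_lit 76) (nat_lit 66857336980) (nat_lit 76) (nat_lit 20210635846) (nat_lit 4) (nat_lit 4) (nat_lit 5) (nat_lit 5) (nat_lit 5) (nat_lit 4) (nat_lit 334) (nat_lit 274) (nat_lit 172))))) (XT.nd (nat_lit 312) (nat_lit 0) (nat_lit 0) (XT.nd (nat_lit 156) (nat_lit 76) (nat_lit 0) (XT.nd (nat_lit 78) (nat_lit 76) (nat_lit 0) (XT.lf (nat_lit 0) (nat_lit 348500867415) (nat_lit 76) (nat_lit 51027190846) (nat_lit 76) (nat_lit 4379142508) (nat_lit 4) (nat_lit 4) (nat_lit 5) (nat_lit 5) (nat_lit 5) (nat_lit 4) (nat_lit 335) (nat_lit 274) (nat_lit 171))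 (XT.lf (nat_lit 0) (nat_lit 12081502931) (nat_lit 152) (nat_lit 21519769652) (nat_lit 76) (nat_lit 401009077920) (nat_lit 3) (nat_lit 5) (nat_lit 5) (nat_lit 5) (nat_lit 4) (nat_lit 4) (nat_lit 336) (nat_lit 274) (nat_lit 170))) (XT.nd (nat_lit 78) (nat_lit 0) (nat_lit 0) (XT.lf (nat_lit 0) (nat_lit 15749887423) (nat_lit 76) (nat_lit 14250275164) (nat_lit 152) (nat_lit 437730270934) (nat_lit 2) (nat_lit 5) (nat_lit 3) (nat_lit 5) (nat_lit 4) (nat_lit 4) (nat_lit 337) (nat_lit 274) (nat_lit 169)) (XT.lf (nat_lit 0) (nat_lit 50114864079) (nat_lit 152) (nat_lit 446405243912) (nat_lit 0) (nat_lit 6919012029) (nat_lit 2) (nat_lit 5) (nat_lit 4) (nat_lit 4) (nat_lit 2) (nat_lit 4) (nat_lit 338) (nat_lit 274) (nat_lit 168)))) (XT.nd (nat_lit 156) (nat_lit 0) (nat_lit 0) (XT.nd (nat_lit 78) (nat_lit 0) (nat_lit 0) (XT.lf (nat_lit 0) (nat_lit 72207928478) (nat_lit 152) (nat_lit 440755879184)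 (nat_lit 0) (nat_lit 29011159543) (nat_lit 2) (nat_lit 5) (nat_lit 4) (nat_lit 4) (nat_lit 2) (nat_lit 4) (nat_lit 339) (nat_lit 274) (nat_lit 167)) (XT.lf (nat_lit 0) (nat_lit 96067558186) (nat_lit 152) (nat_lit 434656254734) (nat_lit 0) (nat_lit 52869940285) (nat_lit 2) (nat_lit 5) (nat_lit 4) (nat_lit 4) (nat_lit 2) (nat_lit 4) (nat_lit 340) (nat_lit 274) (nat_lit 166))) (XT.nd (nat_lit 78) (nat_lit 0) (nat_lit 0) (XT.lf (nat_lit 0) (nat_lit 121835143603) (nat_lit 152) (nat_lit 428070224643) (nat_lit 0) (nat_lit 78636739621) (nat_lit 2) (nat_lit 5) (nat_lit 4) (nat_lit 4) (nat_lit 2) (nat_lit 4) (nat_lit 341) (nat_lit 274) (nat_lit 165)) (XT.lf (nat_lit 0) (nat_lit 149663381531) (nat_lit 152) (nat_lit 420958760581) (nat_lit 0) (nat_lit 106464249696) (nat_lit 2) (nat_lit 5) (nat_lit 4) (nat_lit 4) (nat_lit 2) (nat_lit 4) (nat_lit 342) (nat_lit 274) (nat_lit 164))))))))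
noncomputable def xc74 : XT := (XT.nd (nat_lit 35880) (nat_lit 0) (nat_lit 760) (XT.nd (nat_lit 1092) (nat_lit 76) (nat_lit 0) (XT.nd (nat_lit 546) (nat_lit 0) (nat_lit 0) (XT.nd (nat_lit 234) (nat_lit 0) (nat_lit 0) (XT.nd (nat_lit 78) (nat_lit 0) (nat_lit 0) (XT.lf (nat_lit 0) (nat_lit 179717180046) (nat_lit 152) (nat_lit 413279720542) (nat_lit 0) (nat_lit 136517374274) (nat_lit 2) (nat_lit 5) (nat_lit 4) (nat_lit 4) (nat_lit 2) (nat_lit 4) (nat_lit 343) (nat_lit 274) (nat_lit 163)) (XT.nd (nat_lit 78) (nat_lit 0) (nat_lit 0) (XT.lf (nat_lit 0) (nat_lit 212174635732) (nat_lit 152) (nat_lit 404987599101) (nat_lit 0) (nat_lit 168974205944) (nat_lit 2) (nat_lit 5) (nat_lit 4) (nat_lit 4) (nat_lit 2) (nat_lit 4) (nat_lit 344) (nat_lit 274) (nat_lit 162)) (XT.lf (nat_lit 0) (nat_lit 247228089068) (nat_lit 152) (nat_lit 396033257762) (nat_lit 0) (nat_lit 204027081486) (nat_lit 2) (nat_lit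 5) (nat_lit 4) (nat_lit 4) (nat_lit 2) (nat_lit 4) (nat_lit 345) (nat_lit 274) (nat_lit 161)))) (XT.nd (nat_lit 156) (nat_lit 0) (nat_lit 0) (XT.nd (nat_lit 78) (nat_lit 0) (nat_lit 0) (XT.lf (nat_lit 0) (nat_lit 285085264220) (nat_lit 152) (nat_lit 386363633762) (nat_lit 0) (nat_lit 241883721645) (nat_lit 2) (nat_lit 5) (nat_lit 4) (nat_lit 4) (nat_lit 2) (nat_lit 4) (nat_lit 346) (nat_lit 274) (nat_lit 160)) (XT.lf (nat_lit 0) (nat_lit 325970500006) (nat_lit 152) (nat_lit 375921425623) (nat_lit 0) (nat_lit 282768462067) (nat_lit 2) (nat_lit 5) (nat_lit 4) (nat_lit 4) (nat_lit 2) (nat_lit 4) (nat_lit 347) (nat_lit 274) (nat_lit 159))) (XT.nd (nat_lit 78) (nat_lit 0) (nat_lit 0) (XT.lf (nat_lit 0) (nat_lit 370126079303) (nat_lit 152) (nat_lit 364644753596) (nat_lit 0) (nat_lit 326923582693) (nat_lit 2) (nat_lit 5) (nat_lit 4) (nat_lit 4) (nat_lit 2) (nat_lit 4) (nat_lit 348) (nat_lit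 274) (nat_lit 158)) (XT.lf (nat_lit 0) (nat_lit 417813664803) (nat_lit 152) (nat_lit 352466792956) (nat_lit 0) (nat_lit 374610743499) (nat_lit 2) (nat_lit 5) (nat_lit 4) (nat_lit 4) (nat_lit 2) (nat_lit 4) (nat_lit 349) (nat_lit 274) (nat_lit 157))))) (XT.nd (nat_lit 234) (nat_lit 0) (nat_lit 0) (XT.nd (nat_lit 78) (nat_lit 0) (nat_lit 0) (XT.lf (nat_lit 0) (nat_lit 469315849607) (nat_lit 152) (nat_lit 339315378010) (nat_lit 0) (nat_lit 426112535067) (nat_lit 2) (nat_lit 5) (nat_lit 4) (nat_lit 4) (nat_lit 2) (nat_lit 4) (nat_lit 350) (nat_lit 274) (nat_lit 156)) (XT.nd (nat_lit 78) (nat_lit 0) (nat_lit 0) (XT.lf (nat_lit 0) (nat_lit 524937831846) (nat_lit 152) (nat_lit 325112574449) (nat_lit 0) (nat_lit 481734153199) (nat_lit 2) (nat_lit 5) (nat_lit 4) (nat_lit 4) (nat_lit 2) (nat_lit 4) (nat_lit 351) (nat_lit 274) (nat_lit 155)) (XT.lf (nat_lit 0) (nat_lit 585009223267) (nat_lit 152)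 (nat_lit 309774217510) (nat_lit 0) (nat_lit 541805207483) (nat_lit 2) (nat_lit 5) (nat_lit 4) (nat_lit 4) (nat_lit 2) (nat_lit 4) (nat_lit 352) (nat_lit 274) (nat_lit 154)))) (XT.nd (nat_lit 156) (nat_lit 0) (nat_lit 0) (XT.nd (nat_lit 78) (nat_lit 0) (nat_lit 0) (XT.lf (nat_lit 0) (nat_lit 649886002486) (nat_lit 152) (nat_lit 293209413226) (nat_lit 0) (nat_lit 606681674538) (nat_lit 2) (nat_lit 5) (nat_lit 4) (nat_lit 4) (nat_lit 2) (nat_lit 4) (nat_lit 353) (nat_lit 274) (nat_lit 153)) (XT.lf (nat_lit 0) (nat_lit 719952624490) (nat_lit 152) (nat_lit 275319999794) (nat_lit 0) (nat_lit 676748007502) (nat_lit 2) (nat_lit 5) (nat_lit 4) (nat_lit 4) (nat_lit 2) (nat_lit 4) (nat_lit 354) (nat_lit 274) (nat_lit 152))) (XT.nd (nat_lit 78) (nat_lit 0) (nat_lit 0) (XT.lf (nat_lit 0) (nat_lit 795624298892) (nat_lit 152) (nat_lit 255999965875) (nat_lit 0) (nat_lit 752419414274) (nat_lit 2) (nat_lit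 5) (nat_lit 4) (nat_lit 4) (nat_lit 2) (nat_lit 4) (nat_lit 355) (nat_lit 274) (nat_lit 151)) (XT.lf (nat_lit 0) (nat_lit 877349450428) (nat_lit 152) (nat_lit 235134822380) (nat_lit 0) (nat_lit 834144318005) (nat_lit 2) (nat_lit 5) (nat_lit 4) (nat_lit 4) (nat_lit 2) (nat_lit 4) (nat_lit 356) (nat_lit 274) (nat_lit 150)))))) (XT.nd (nat_lit 546) (nat_lit 76) (nat_lit 0) (XT.nd (nat_lit 234) (nat_lit 0) (nat_lit 0) (XT.nd (nat_lit 78) (nat_lit 0) (nat_lit 0) (XT.lf (nat_lit 0) (nat_lit 965612376293) (nat_lit 152) (nat_lit 212600924013) (nat_lit 0) (nat_lit 922407014420) (nat_lit 2) (nat_lit 5) (nat_lit 4) (nat_lit 4) (nat_lit 2) (nat_lit 4) (nat_lit 357) (nat_lit 274) (nat_lit 149)) (XT.nd (nat_lit 78) (nat_lit 0) (nat_lit 0) (XT.lf (nat_lit 0) (nat_lit 1060936116048) (nat_lit 152) (nat_lit 188264736561) (nat_lit 0) (nat_lit 1017730541722) (nat_lit 2) (nat_lit 5) (nat_lit 4) (nat_lit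 4) (nat_lit 2) (nat_lit 4) (nat_lit 358) (nat_lit 274) (nat_lit 148)) (XT.lf (nat_lit 0) (nat_lit 1163885551113) (nat_lit 152) (nat_lit 161982045582) (nat_lit 0) (nat_lit 1120679780071) (nat_lit 2) (nat_lit 5) (nat_lit 4) (nat_lit 4) (nat_lit 2) (nat_lit 4) (nat_lit 359) (nat_lit 274) (nat_lit 147)))) (XT.nd (nat_lit 156) (nat_lit 0) (nat_lit 0) (XT.nd (nat_lit 78) (nat_lit 0) (nat_lit 0) (XT.lf (nat_lit 0) (nat_lit 1275070752215) (nat_lit 152) (nat_lit 133597101794) (nat_lit 0) (nat_lit 1231864799029) (nat_lit 2) (nat_lit 5) (nat_lit 4) (nat_lit 4) (nat_lit 2) (nat_lit 4) (nat_lit 360) (nat_lit 274) (nat_lit 146)) (XT.lf (nat_lit 0) (nat_lit 1395150594619) (nat_lit 152) (nat_lit 102941698124) (nat_lit 0) (nat_lit 1351944472781) (nat_lit 2) (nat_lit 5) (nat_lit 4) (nat_lit 4) (nat_lit 2) (nat_lit 4) (nat_lit 361) (nat_lit 274) (nat_lit 145))) (XT.nd (nat_lit 78) (nat_lit 0) (nat_lit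 0) (XT.lf (nat_lit 0) (nat_lit 1524836662578) (nat_lit 152) (nat_lit 69834172920) (nat_lit 0) (nat_lit 1481630384580) (nat_lit 2) (nat_lit 5) (nat_lit 4) (nat_lit 4) (nat_lit 2) (nat_lit 4) (nat_lit 362) (nat_lit 274) (nat_lit 144)) (XT.lf (nat_lit 0) (nat_lit 1664897466122) (nat_lit 152) (nat_lit 34078333441) (nat_lit 0) (nat_lit 1621691043532) (nat_lit 2) (nat_lit 5) (nat_lit 4) (nat_lit 4) (nat_lit 2) (nat_lit 4) (nat_lit 363) (nat_lit 274) (nat_lit 143))))) (XT.nd (nat_lit 33930) (nat_lit 0) (nat_lit 3192) (XT.nd (nat_lit 33774) (nat_lit 0) (nat_lit 3116) (XT.nd (nat_lit 33696) (nat_lit 0) (nat_lit 3116) (XT.lf (nat_lit 0) (nat_lit 4776654367) (nat_lit 76) (nat_lit 1811501219485) (nat_lit 76) (nat_lit 1768294663013) (nat_lit 1) (nat_lit 4) (nat_lit 2) (nat_lit 5) (nat_lit 2) (nat_lit 4) (nat_lit 364) (nat_lit 274) (nat_lit 142)) (XT.lf (nat_lit 0) (nat_lit 1962784733) (nat_lit 532)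 (nat_lit 2327468099) (nat_lit 532) (nat_lit 2327468099) (nat_lit 42) (nat_lit 3) (nat_lit 49) (nat_lit 3) (nat_lit 49) (nat_lit 5) (nat_lit 275) (nat_lit 275) (nat_lit 230))) (XT.nd (nat_lit 78) (nat_lit 0) (nat_lit 76) (XT.lf (nat_lit 76) (nat_lit 1337817448) (nat_lit 0) (nat_lit 3129187483) (nat_lit 532) (nat_lit 9265776106) (nat_lit 43) (nat_lit 5) (nat_lit 42) (nat_lit 3) (nat_lit 49) (nat_lit 5) (nat_lit 276) (nat_lit 275) (nat_lit 229)) (XT.lf (nat_lit 0) (nat_lit 5213322416) (nat_lit 456) (nat_lit 6278113304) (nat_lit 532) (nat_lit 2765678861) (nat_lit 43) (nat_lit 5) (nat_lit 49) (nat_lit 5) (nat_lit 50) (nat_lit 5) (nat_lit 277) (nat_lit 275) (nat_lit 228)))) (XT.nd (nat_lit 156) (nat_lit 0) (nat_lit 76) (XT.nd (nat_lit 78) (nat_lit 0) (nat_lit 76) (XT.lf (nat_lit 76) (nat_lit 236929819) (nat_lit 0) (nat_lit 5836661161) (nat_lit 532) (nat_lit 8745586965) (nat_lit 44) (nat_lit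 5) (nat_lit 43) (nat_lit 5) (nat_lit 50) (nat_lit 5) (nat_lit 278) (nat_lit 275) (nat_lit 227)) (XT.lf (nat_lit 0) (nat_lit 7154716483) (nat_lit 456) (nat_lit 7817210004) (nat_lit 532) (nat_lit 442230747) (nat_lit 44) (nat_lit 5) (nat_lit 50) (nat_lit 5) (nat_lit 51) (nat_lit 5) (nat_lit 279) (nat_lit 275) (nat_lit 226))) (XT.nd (nat_lit 78) (nat_lit 0) (nat_lit 0) (XT.lf (nat_lit 0) (nat_lit 8445615768) (nat_lit 456) (nat_lit 684783644) (nat_lit 532) (nat_lit 6916578027) (nat_lit 44) (nat_lit 5) (nat_lit 50) (nat_lit 5) (nat_lit 51) (nat_lit 5) (nat_lit 280) (nat_lit 275) (nat_lit 225)) (XT.lf (nat_lit 76) (nat_lit 7366153875) (nat_lit 0) (nat_lit 2624569070) (nat_lit 532) (nat_lit 6727722915) (nat_lit 45) (nat_lit 5) (nat_lit 44) (nat_lit 5) (nat_lit 51) (nat_lit 5) (nat_lit 281) (nat_lit 275) (nat_lit 224))))))) (XT.nd (nat_lit 1170) (nat_lit 836) (nat_lit 0) (XT.nd (nat_lit 546)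 (nat_lit 760) (nat_lit 0) (XT.nd (nat_lit 234) (nat_lit 532) (nat_lit 0) (XT.nd (nat_lit 78) (nat_lit 456) (nat_lit 0) (XT.lf (nat_lit 0) (nat_lit 11759863094) (nat_lit 456) (nat_lit 1470602730) (nat_lit 76) (nat_lit 4205222231) (nat_lit 45) (nat_lit 5) (nat_lit 51) (nat_lit 5) (nat_lit 46) (nat_lit 5) (nat_lit 282) (nat_lit 275) (nat_lit 223)) (XT.nd (nat_lit 78) (nat_lit 0) (nat_lit 0) (XT.lf (nat_lit 0) (nat_lit 7318991929) (nat_lit 456) (nat_lit 6572913997) (nat_lit 532) (nat_lit 4300777551) (nat_lit 39) (nat_lit 5) (nat_lit 45) (nat_lit 5) (nat_lit 46) (nat_lit 5) (nat_lit 283) (nat_lit 275) (nat_lit 222)) (XT.lf (nat_lit 0) (nat_lit 16229034241) (nat_lit 532) (nat_lit 2149429546) (nat_lit 76) (nat_lit 629090359) (nat_lit 39) (nat_lit 5) (nat_lit 46) (nat_lit 5) (nat_lit 40) (nat_lit 5) (nat_lit 284) (nat_lit 275) (nat_lit 221)))) (XT.nd (nat_lit 156) (nat_lit 228) (nat_lit 0)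 (XT.nd (nat_lit 78) (nat_lit 76) (nat_lit 0) (XT.lf (nat_lit 0) (nat_lit 7454676978) (nat_lit 228) (nat_lit 11628488358) (nat_lit 304) (nat_lit 778118178) (nat_lit 36) (nat_lit 5) (nat_lit 39) (nat_lit 5) (nat_lit 40) (nat_lit 5) (nat_lit 285) (nat_lit 275) (nat_lit 220)) (XT.lf (nat_lit 0) (nat_lit 1353933160) (nat_lit 304) (nat_lit 2884889702) (nat_lit 76) (nat_lit 16538628895) (nat_lit 35) (nat_lit 5) (nat_lit 39) (nat_lit 5) (nat_lit 36) (nat_lit 5) (nat_lit 286) (nat_lit 275) (nat_lit 219))) (XT.nd (nat_lit 78) (nat_lit 0) (nat_lit 0) (XT.lf (nat_lit 0) (nat_lit 3878062159) (nat_lit 304) (nat_lit 14100673689) (nat_lit 76) (nat_lit 3765533449) (nat_lit 32) (nat_lit 5) (nat_lit 36) (nat_lit 5) (nat_lit 33) (nat_lit 5) (nat_lit 287) (nat_lit 275) (nat_lit 218)) (XT.lf (nat_lit 0) (nat_lit 6777912424) (nat_lit 304) (nat_lit 3736059765) (nat_lit 76) (nat_lit 12260609435) (nat_lit 32)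 (nat_lit 5) (nat_lit 36) (nat_lit 5) (nat_lit 33) (nat_lit 5) (nat_lit 288) (nat_lit 275) (nat_lit 217))))) (XT.nd (nat_lit 312) (nat_lit 380) (nat_lit 0) (XT.nd (nat_lit 156) (nat_lit 152) (nat_lit 0) (XT.nd (nat_lit 78) (nat_lit 0) (nat_lit 0) (XT.lf (nat_lit 0) (nat_lit 7830729883) (nat_lit 228) (nat_lit 2251391623) (nat_lit 304) (nat_lit 13791456531) (nat_lit 29) (nat_lit 5) (nat_lit 32) (nat_lit 5) (nat_lit 33) (nat_lit 5) (nat_lit 289) (nat_lit 275) (nat_lit 216)) (XT.lf (nat_lit 0) (nat_lit 13900649558) (nat_lit 304) (nat_lit 4699539949) (nat_lit 76) (nat_lit 6440351224) (nat_lit 29) (nat_lit 5) (nat_lit 33) (nat_lit 5) (nat_lit 30) (nat_lit 5) (nat_lit 290) (nat_lit 275) (nat_lit 215))) (XT.nd (nat_lit 78) (nat_lit 0) (nat_lit 0) (XT.lf (nat_lit 0) (nat_lit 7868368575) (nat_lit 152) (nat_lit 10389847909) (nat_lit 228) (nat_lit 8024001232) (nat_lit 27) (nat_lit 5) (nat_lit 29)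 (nat_lit 5) (nat_lit 30) (nat_lit 5) (nat_lit 291) (nat_lit 275) (nat_lit 214)) (XT.lf (nat_lit 0) (nat_lit 21691438040) (nat_lit 152) (nat_lit 1387915700) (nat_lit 228) (nat_lit 4534716631) (nat_lit 27) (nat_lit 5) (nat_lit 29) (nat_lit 5) (nat_lit 30) (nat_lit 5) (nat_lit 292) (nat_lit 275) (nat_lit 213)))) (XT.nd (nat_lit 156) (nat_lit 152) (nat_lit 0) (XT.nd (nat_lit 78) (nat_lit 76) (nat_lit 0) (XT.lf (nat_lit 0) (nat_lit 7737308037) (nat_lit 152) (nat_lit 20922777455) (nat_lit 228) (nat_lit 362509305) (nat_lit 25) (nat_lit 5) (nat_lit 27) (nat_lit 5) (nat_lit 28) (nat_lit 5) (nat_lit 293) (nat_lit 275) (nat_lit 212)) (XT.lf (nat_lit 0) (nat_lit 4125962614) (nat_lit 228) (nat_lit 7861322270) (nat_lit 76) (nat_lit 18533394057) (nat_lit 24) (nat_lit 5) (nat_lit 27) (nat_lit 5) (nat_lit 25) (nat_lit 5) (nat_lit 294) (nat_lit 275) (nat_lit 211))) (XT.nd (nat_lit 78) (nat_lit 0) (nat_lit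 0) (XT.lf (nat_lit 0) (nat_lit 6959120301) (nat_lit 152) (nat_lit 2150665055) (nat_lit 228) (nat_lit 23015631007) (nat_lit 22) (nat_lit 5) (nat_lit 24) (nat_lit 5) (nat_lit 25) (nat_lit 5) (nat_lit 295) (nat_lit 275) (nat_lit 210)) (XT.lf (nat_lit 0) (nat_lit 14905464291) (nat_lit 228) (nat_lit 10654948633) (nat_lit 76) (nat_lit 8265094169) (nat_lit 22) (nat_lit 5) (nat_lit 25) (nat_lit 5) (nat_lit 23) (nat_lit 5) (nat_lit 296) (nat_lit 275) (nat_lit 209)))))) (XT.nd (nat_lit 546) (nat_lit 380) (nat_lit 0) (XT.nd (nat_lit 234) (nat_lit 228) (nat_lit 0) (XT.nd (nat_lit 78) (nat_lit 76) (nat_lit 0) (XT.lf (nat_lit 0) (nat_lit 5206590751) (nat_lit 152) (nat_lit 16128964535) (nat_lit 228) (nat_lit 14312413568) (nat_lit 20) (nat_lit 5) (nat_lit 22) (nat_lit 5) (nat_lit 23) (nat_lit 5) (nat_lit 297) (nat_lit 275) (nat_lit 208)) (XT.nd (nat_lit 78) (nat_lit 76) (nat_lit 0) (XT.lf (nat_lit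 0) (nat_lit 22928088065) (nat_lit 152) (nat_lit 5633374109) (nat_lit 228) (nat_lit 9032275281) (nat_lit 20) (nat_lit 5) (nat_lit 22) (nat_lit 5) (nat_lit 23) (nat_lit 5) (nat_lit 298) (nat_lit 275) (nat_lit 207)) (XT.lf (nat_lit 0) (nat_lit 2337477445) (nat_lit 76) (nat_lit 34212017051) (nat_lit 152) (nat_lit 3130969728) (nat_lit 19) (nat_lit 5) (nat_lit 20) (nat_lit 5) (nat_lit 21) (nat_lit 4) (nat_lit 299) (nat_lit 275) (nat_lit 206)))) (XT.nd (nat_lit 156) (nat_lit 152) (nat_lit 0) (XT.nd (nat_lit 78) (nat_lit 0) (nat_lit 0) (XT.lf (nat_lit 0) (nat_lit 3628766984) (nat_lit 152) (nat_lit 20616461138) (nat_lit 76) (nat_lit 17638798345) (nat_lit 18) (nat_lit 5) (nat_lit 20) (nat_lit 5) (nat_lit 19) (nat_lit 5) (nat_lit 300) (nat_lit 275) (nat_lit 205)) (XT.lf (nat_lit 0) (nat_lit 10751615307) (nat_lit 152) (nat_lit 2646652456) (nat_lit 76) (nat_lit 30859797707) (nat_lit 18) (nat_lit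 5) (nat_lit 20) (nat_lit 5) (nat_lit 19) (nat_lit 5) (nat_lit 301) (nat_lit 275) (nat_lit 204))) (XT.nd (nat_lit 78) (nat_lit 0) (nat_lit 0) (XT.lf (nat_lit 0) (nat_lit 17630158867) (nat_lit 152) (nat_lit 1230255374) (nat_lit 228) (nat_lit 27928338904) (nat_lit 16) (nat_lit 5) (nat_lit 18) (nat_lit 5) (nat_lit 19) (nat_lit 5) (nat_lit 302) (nat_lit 275) (nat_lit 203)) (XT.lf (nat_lit 0) (nat_lit 27970922287) (nat_lit 228) (nat_lit 10137526395) (nat_lit 76) (nat_lit 11385220971) (nat_lit 16) (nat_lit 5) (nat_lit 19) (nat_lit 5) (nat_lit 17) (nat_lit 4) (nat_lit 303) (nat_lit 275) (nat_lit 202))))) (XT.nd (nat_lit 312) (nat_lit 76) (nat_lit 0) (XT.nd (nat_lit 156) (nat_lit 228) (nat_lit 0) (XT.nd (nat_lit 78) (nat_lit 0) (nat_lit 0) (XT.lf (nat_lit 0) (nat_lit 10907124018) (nat_lit 76) (nat_lit 27190285681) (nat_lit 152) (nat_lit 14294611862) (nat_lit 15) (nat_lit 5) (nat_lit 16) (nat_lit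 5) (nat_lit 17) (nat_lit 4) (nat_lit 304) (nat_lit 275) (nat_lit 201)) (XT.lf (nat_lit 0) (nat_lit 34200407732) (nat_lit 76) (nat_lit 15103906265) (nat_lit 152) (nat_lit 6196315996) (nat_lit 15) (nat_lit 5) (nat_lit 16) (nat_lit 5) (nat_lit 17) (nat_lit 4) (nat_lit 305) (nat_lit 275) (nat_lit 200))) (XT.nd (nat_lit 78) (nat_lit 0) (nat_lit 0) (XT.lf (nat_lit 0) (nat_lit 449410063) (nat_lit 152) (nat_lit 1977141688) (nat_lit 228) (nat_lit 56426138969) (nat_lit 12) (nat_lit 5) (nat_lit 14) (nat_lit 5) (nat_lit 15) (nat_lit 5) (nat_lit 306) (nat_lit 275) (nat_lit 199)) (XT.lf (nat_lit 0) (nat_lit 12288980043) (nat_lit 228) (nat_lit 37756531322) (nat_lit 76) (nat_lit 12343779714) (nat_lit 12) (nat_lit 5) (nat_lit 15) (nat_lit 5) (nat_lit 13) (nat_lit 4) (nat_lit 307) (nat_lit 275) (nat_lit 198)))) (XT.nd (nat_lit 156) (nat_lit 0) (nat_lit 0) (XT.nd (nat_lit 78) (nat_lit 76) (nat_lit 0)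 (XT.lf (nat_lit 0) (nat_lit 22985808581) (nat_lit 228) (nat_lit 15519680235) (nat_lit 76) (nat_lit 27699707142) (nat_lit 12) (nat_lit 5) (nat_lit 15) (nat_lit 5) (nat_lit 13) (nat_lit 4) (nat_lit 308) (nat_lit 275) (nat_lit 197)) (XT.lf (nat_lit 0) (nat_lit 8933485991) (nat_lit 76) (nat_lit 25814240234) (nat_lit 152) (nat_lit 35561907882) (nat_lit 11) (nat_lit 5) (nat_lit 12) (nat_lit 5) (nat_lit 13) (nat_lit 4) (nat_lit 309) (nat_lit 275) (nat_lit 196))) (XT.nd (nat_lit 78) (nat_lit 0) (nat_lit 0) (XT.lf (nat_lit 0) (nat_lit 36216242452) (nat_lit 76) (nat_lit 11653367432) (nat_lit 152) (nat_lit 26839304105) (nat_lit 11) (nat_lit 5) (nat_lit 12) (nat_lit 5) (nat_lit 13) (nat_lit 4) (nat_lit 310) (nat_lit 275) (nat_lit 195)) (XT.lf (nat_lit 0) (nat_lit 62123778541) (nat_lit 152) (nat_lit 13874974763) (nat_lit 0) (nat_lit 3454787332) (nat_lit 11) (nat_lit 5) (nat_lit 13) (nat_lit 4) (nat_lit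 11) (nat_lit 4) (nat_lit 311) (nat_lit 275) (nat_lit 194))))))))
noncomputable def xc75 : XT := (XT.nd (nat_lit 2262) (nat_lit 0) (nat_lit 0) (XT.nd (nat_lit 1092) (nat_lit 228) (nat_lit 0) (XT.nd (nat_lit 546) (nat_lit 228) (nat_lit 0) (XT.nd (nat_lit 234) (nat_lit 76) (nat_lit 0) (XT.nd (nat_lit 78) (nat_lit 76) (nat_lit 0) (XT.lf (nat_lit 0) (nat_lit 13054231350) (nat_lit 76) (nat_lit 65076043596) (nat_lit 76) (nat_lit 6398509522) (nat_lit 10) (nat_lit 4) (nat_lit 11) (nat_lit 5) (nat_lit 11) (nat_lit 4) (nat_lit 312) (nat_lit 275) (nat_lit 193)) (XT.nd (nat_lit 78) (nat_lit 0) (nat_lit 0) (XT.lf (nat_lit 0) (nat_lit 5521354160) (nat_lit 152) (nat_lit 47201027478) (nat_lit 76) (nat_lit 37246500024) (nat_lit 9) (nat_lit 5) (nat_lit 11) (nat_lit 5) (nat_lit 10) (nat_lit 4) (nat_lit 313) (nat_lit 275) (nat_lit 192)) (XT.lf (nat_lit 0) (nat_lit 18044846266) (nat_lit 152) (nat_lit 21159488027)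 (nat_lit 76) (nat_lit 56626903966) (nat_lit 9) (nat_lit 5) (nat_lit 11) (nat_lit 5) (nat_lit 10) (nat_lit 4) (nat_lit 314) (nat_lit 275) (nat_lit 191)))) (XT.nd (nat_lit 156) (nat_lit 0) (nat_lit 0) (XT.nd (nat_lit 78) (nat_lit 0) (nat_lit 0) (XT.lf (nat_lit 0) (nat_lit 7324679931) (nat_lit 76) (nat_lit 24417738239) (nat_lit 152) (nat_lit 70406394025) (nat_lit 8) (nat_lit 5) (nat_lit 9) (nat_lit 5) (nat_lit 10) (nat_lit 4) (nat_lit 315) (nat_lit 275) (nat_lit 190)) (XT.lf (nat_lit 0) (nat_lit 39284015225) (nat_lit 76) (nat_lit 7826486865) (nat_lit 152) (nat_lit 61815317941) (nat_lit 8) (nat_lit 5) (nat_lit 9) (nat_lit 5) (nat_lit 10) (nat_lit 4) (nat_lit 316) (nat_lit 275) (nat_lit 189))) (XT.nd (nat_lit 78) (nat_lit 0) (nat_lit 0) (XT.lf (nat_lit 0) (nat_lit 63947130427) (nat_lit 152) (nat_lit 42694236623) (nat_lit 0) (nat_lit 9584497784) (nat_lit 8) (nat_lit 5) (nat_lit 10) (nat_lit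 4) (nat_lit 8) (nat_lit 4) (nat_lit 317) (nat_lit 275) (nat_lit 188)) (XT.lf (nat_lit 0) (nat_lit 82330625612) (nat_lit 152) (nat_lit 13800288239) (nat_lit 0) (nat_lit 27963008289) (nat_lit 8) (nat_lit 5) (nat_lit 10) (nat_lit 4) (nat_lit 8) (nat_lit 4) (nat_lit 318) (nat_lit 275) (nat_lit 187))))) (XT.nd (nat_lit 234) (nat_lit 152) (nat_lit 0) (XT.nd (nat_lit 78) (nat_lit 0) (nat_lit 0) (XT.lf (nat_lit 0) (nat_lit 18315717297) (nat_lit 76) (nat_lit 84306475823) (nat_lit 76) (nat_lit 29934243056) (nat_lit 7) (nat_lit 4) (nat_lit 8) (nat_lit 5) (nat_lit 8) (nat_lit 4) (nat_lit 319) (nat_lit 275) (nat_lit 186)) (XT.nd (nat_lit 78) (nat_lit 0) (nat_lit 0) (XT.lf (nat_lit 0) (nat_lit 53780296746) (nat_lit 76) (nat_lit 71131109305) (nat_lit 76) (nat_lit 16754602979) (nat_lit 7) (nat_lit 4) (nat_lit 8) (nat_lit 5) (nat_lit 8) (nat_lit 4) (nat_lit 320) (nat_lit 275) (nat_lit 185)) (XT.lf (nat_lit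 0) (nat_lit 92076911857) (nat_lit 76) (nat_lit 56904062389) (nat_lit 76) (nat_lit 2523599063) (nat_lit 7) (nat_lit 4) (nat_lit 8) (nat_lit 5) (nat_lit 8) (nat_lit 4) (nat_lit 321) (nat_lit 275) (nat_lit 184)))) (XT.nd (nat_lit 156) (nat_lit 0) (nat_lit 0) (XT.nd (nat_lit 78) (nat_lit 76) (nat_lit 0) (XT.lf (nat_lit 0) (nat_lit 12200636661) (nat_lit 152) (nat_lit 29006802959) (nat_lit 76) (nat_lit 120898281845) (nat_lit 6) (nat_lit 5) (nat_lit 8) (nat_lit 5) (nat_lit 7) (nat_lit 4) (nat_lit 322) (nat_lit 275) (nat_lit 183)) (XT.lf (nat_lit 0) (nat_lit 3976570185) (nat_lit 76) (nat_lit 24083088414) (nat_lit 152) (nat_lit 145482606474) (nat_lit 5) (nat_lit 5) (nat_lit 6) (nat_lit 5) (nat_lit 7) (nat_lit 4) (nat_lit 323) (nat_lit 275) (nat_lit 182))) (XT.nd (nat_lit 78) (nat_lit 0) (nat_lit 0) (XT.lf (nat_lit 0) (nat_lit 41243840309) (nat_lit 76) (nat_lit 4734285270) (nat_lit 152) (nat_lit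 139852350974) (nat_lit 5) (nat_lit 5) (nat_lit 6) (nat_lit 5) (nat_lit 7) (nat_lit 4) (nat_lit 324) (nat_lit 275) (nat_lit 181)) (XT.lf (nat_lit 0) (nat_lit 65716532848) (nat_lit 152) (nat_lit 118002180418) (nat_lit 0) (nat_lit 15352116728) (nat_lit 5) (nat_lit 5) (nat_lit 7) (nat_lit 4) (nat_lit 5) (nat_lit 4) (nat_lit 325) (nat_lit 275) (nat_lit 180)))))) (XT.nd (nat_lit 546) (nat_lit 152) (nat_lit 0) (XT.nd (nat_lit 234) (nat_lit 76) (nat_lit 0) (XT.nd (nat_lit 78) (nat_lit 0) (nat_lit 0) (XT.lf (nat_lit 0) (nat_lit 87154903638) (nat_lit 152) (nat_lit 89417844787) (nat_lit 0) (nat_lit 36787993937) (nat_lit 5) (nat_lit 5) (nat_lit 7) (nat_lit 4) (nat_lit 5) (nat_lit 4) (nat_lit 326) (nat_lit 275) (nat_lit 179)) (XT.nd (nat_lit 78) (nat_lit 0) (nat_lit 0) (XT.lf (nat_lit 0) (nat_lit 110306420471) (nat_lit 152) (nat_lit 58550381019) (nat_lit 0) (nat_lit 59937201898) (nat_lit 5) (nat_lit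 5) (nat_lit 7) (nat_lit 4) (nat_lit 5) (nat_lit 4) (nat_lit 327) (nat_lit 275) (nat_lit 178)) (XT.lf (nat_lit 0) (nat_lit 135308277521) (nat_lit 152) (nat_lit 25216870812) (nat_lit 0) (nat_lit 84936921105) (nat_lit 5) (nat_lit 5) (nat_lit 7) (nat_lit 4) (nat_lit 5) (nat_lit 4) (nat_lit 328) (nat_lit 275) (nat_lit 177)))) (XT.nd (nat_lit 156) (nat_lit 0) (nat_lit 0) (XT.nd (nat_lit 78) (nat_lit 0) (nat_lit 0) (XT.lf (nat_lit 0) (nat_lit 11347884909) (nat_lit 76) (nat_lit 151233665936) (nat_lit 76) (nat_lit 100860330036) (nat_lit 4) (nat_lit 4) (nat_lit 5) (nat_lit 5) (nat_lit 5) (nat_lit 4) (nat_lit 329) (nat_lit 275) (nat_lit 176)) (XT.lf (nat_lit 0) (nat_lit 52268902954) (nat_lit 76) (nat_lit 140455657262) (nat_lit 76) (nat_lit 90080488504) (nat_lit 4) (nat_lit 4) (nat_lit 5) (nat_lit 5) (nat_lit 5) (nat_lit 4) (nat_lit 330) (nat_lit 275) (nat_lit 175))) (XT.nd (nat_lit 78) (nat_lit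 0) (nat_lit 0) (XT.lf (nat_lit 0) (nat_lit 96460802517) (nat_lit 76) (nat_lit 128816726564) (nat_lit 76) (nat_lit 78439860717) (nat_lit 4) (nat_lit 4) (nat_lit 5) (nat_lit 5) (nat_lit 5) (nat_lit 4) (nat_lit 331) (nat_lit 275) (nat_lit 174)) (XT.lf (nat_lit 0) (nat_lit 144185461519) (nat_lit 76) (nat_lit 116247902401) (nat_lit 76) (nat_lit 65869465176) (nat_lit 4) (nat_lit 4) (nat_lit 5) (nat_lit 5) (nat_lit 5) (nat_lit 4) (nat_lit 332) (nat_lit 275) (nat_lit 173))))) (XT.nd (nat_lit 312) (nat_lit 152) (nat_lit 0) (XT.nd (nat_lit 156) (nat_lit 0) (nat_lit 0) (XT.nd (nat_lit 78) (nat_lit 0) (nat_lit 0) (XT.lf (nat_lit 0) (nat_lit 195725692755) (nat_lit 76) (nat_lit 102674702853) (nat_lit 76) (nat_lit 52294810648) (nat_lit 4) (nat_lit 4) (nat_lit 5) (nat_lit 5) (nat_lit 5) (nat_lit 4) (nat_lit 333) (nat_lit 275) (nat_lit 172)) (XT.lf (nat_lit 0) (nat_lit 251386919817) (nat_lit 76) (nat_lit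 88016694145) (nat_lit 76) (nat_lit 37635454735) (nat_lit 4) (nat_lit 4) (nat_lit 5) (nat_lit 5) (nat_lit 5) (nat_lit 4) (nat_lit 334) (nat_lit 275) (nat_lit 171))) (XT.nd (nat_lit 78) (nat_lit 0) (nat_lit 0) (XT.lf (nat_lit 0) (nat_lit 311498987015) (nat_lit 76) (nat_lit 72187014003) (nat_lit 76) (nat_lit 21804527182) (nat_lit 4) (nat_lit 4) (nat_lit 5) (nat_lit 5) (nat_lit 5) (nat_lit 4) (nat_lit 335) (nat_lit 275) (nat_lit 170)) (XT.lf (nat_lit 0) (nat_lit 376418114005) (nat_lit 76) (nat_lit 55091856914) (nat_lit 76) (nat_lit 4708215082) (nat_lit 4) (nat_lit 4) (nat_lit 5) (nat_lit 5) (nat_lit 5) (nat_lit 4) (nat_lit 336) (nat_lit 275) (nat_lit 169)))) (XT.nd (nat_lit 156) (nat_lit 0) (nat_lit 0) (XT.nd (nat_lit 78) (nat_lit 76) (nat_lit 0) (XT.lf (nat_lit 0) (nat_lit 13066722585) (nat_lit 152) (nat_lit 23205928307) (nat_lit 76) (nat_lit 433105016789) (nat_lit 3) (nat_lit 5) (nat_lit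 5) (nat_lit 5) (nat_lit 4) (nat_lit 4) (nat_lit 337) (nat_lit 275) (nat_lit 168)) (XT.lf (nat_lit 0) (nat_lit 17044404551) (nat_lit 76) (nat_lit 15373915675) (nat_lit 152) (nat_lit 472729082602) (nat_lit 2) (nat_lit 5) (nat_lit 3) (nat_lit 5) (nat_lit 4) (nat_lit 4) (nat_lit 338) (nat_lit 275) (nat_lit 167))) (XT.nd (nat_lit 78) (nat_lit 0) (nat_lit 0) (XT.lf (nat_lit 0) (nat_lit 54141218583) (nat_lit 152) (nat_lit 482084702746) (nat_lit 0) (nat_lit 7486942282) (nat_lit 2) (nat_lit 5) (nat_lit 4) (nat_lit 4) (nat_lit 2) (nat_lit 4) (nat_lit 339) (nat_lit 275) (nat_lit 166)) (XT.lf (nat_lit 0) (nat_lit 78000456624) (nat_lit 152) (nat_lit 475985830370) (nat_lit 0) (nat_lit 31345394242) (nat_lit 2) (nat_lit 5) (nat_lit 4) (nat_lit 4) (nat_lit 2) (nat_lit 4) (nat_lit 340) (nat_lit 275) (nat_lit 165))))))) (XT.nd (nat_lit 1170) (nat_lit 0) (nat_lit 0) (XT.nd (nat_lit 546) (nat_lit 0) (nat_lit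 0) (XT.nd (nat_lit 234) (nat_lit 0) (nat_lit 0) (XT.nd (nat_lit 78) (nat_lit 0) (nat_lit 0) (XT.lf (nat_lit 0) (nat_lit 103767679386) (nat_lit 152) (nat_lit 469400496643) (nat_lit 0) (nat_lit 57111889151) (nat_lit 2) (nat_lit 5) (nat_lit 4) (nat_lit 4) (nat_lit 2) (nat_lit 4) (nat_lit 341) (nat_lit 275) (nat_lit 164)) (XT.nd (nat_lit 78) (nat_lit 0) (nat_lit 0) (XT.lf (nat_lit 0) (nat_lit 131595581522) (nat_lit 152) (nat_lit 462289677364) (nat_lit 0) (nat_lit 84939117350) (nat_lit 2) (nat_lit 5) (nat_lit 4) (nat_lit 4) (nat_lit 2) (nat_lit 4) (nat_lit 342) (nat_lit 275) (nat_lit 163)) (XT.lf (nat_lit 0) (nat_lit 161649069118) (nat_lit 152) (nat_lit 454611234345) (nat_lit 0) (nat_lit 114991980930) (nat_lit 2) (nat_lit 5) (nat_lit 4) (nat_lit 4) (nat_lit 2) (nat_lit 4) (nat_lit 343) (nat_lit 275) (nat_lit 162)))) (XT.nd (nat_lit 156) (nat_lit 0) (nat_lit 0) (XT.nd (nat_lit 78) (nat_lit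 0) (nat_lit 0) (XT.lf (nat_lit 0) (nat_lit 194106236917) (nat_lit 152) (nat_lit 446319665701) (nat_lit 0) (nat_lit 147448570936) (nat_lit 2) (nat_lit 5) (nat_lit 4) (nat_lit 4) (nat_lit 2) (nat_lit 4) (nat_lit 344) (nat_lit 275) (nat_lit 161)) (XT.lf (nat_lit 0) (nat_lit 229159423690) (nat_lit 152) (nat_lit 437365836210) (nat_lit 0) (nat_lit 182501222716) (nat_lit 2) (nat_lit 5) (nat_lit 4) (nat_lit 4) (nat_lit 2) (nat_lit 4) (nat_lit 345) (nat_lit 275) (nat_lit 160))) (XT.nd (nat_lit 78) (nat_lit 0) (nat_lit 0) (XT.lf (nat_lit 0) (nat_lit 267016352026) (nat_lit 152) (nat_lit 427696686143) (nat_lit 0) (nat_lit 220357655688) (nat_lit 2) (nat_lit 5) (nat_lit 4) (nat_lit 4) (nat_lit 2) (nat_lit 4) (nat_lit 346) (nat_lit 275) (nat_lit 159)) (XT.lf (nat_lit 0) (nat_lit 307901359277) (nat_lit 152) (nat_lit 417254916833) (nat_lit 0) (nat_lit 261242204268) (nat_lit 2) (nat_lit 5) (nat_lit 4)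 (nat_lit 4) (nat_lit 2) (nat_lit 4) (nat_lit 347) (nat_lit 275) (nat_lit 158))))) (XT.nd (nat_lit 312) (nat_lit 0) (nat_lit 0) (XT.nd (nat_lit 156) (nat_lit 0) (nat_lit 0) (XT.nd (nat_lit 78) (nat_lit 0) (nat_lit 0) (XT.lf (nat_lit 0) (nat_lit 352056726968) (nat_lit 152) (nat_lit 405978651127) (nat_lit 0) (nat_lit 305397147265) (nat_lit 2) (nat_lit 5) (nat_lit 4) (nat_lit 4) (nat_lit 2) (nat_lit 4) (nat_lit 348) (nat_lit 275) (nat_lit 157)) (XT.lf (nat_lit 0) (nat_lit 399744116538) (nat_lit 152) (nat_lit 393801066711) (nat_lit 0) (nat_lit 353084143598) (nat_lit 2) (nat_lit 5) (nat_lit 4) (nat_lit 4) (nat_lit 2) (nat_lit 4) (nat_lit 349) (nat_lit 275) (nat_lit 156))) (XT.nd (nat_lit 78) (nat_lit 0) (nat_lit 0) (XT.lf (nat_lit 0) (nat_lit 451246119924) (nat_lit 152) (nat_lit 380650000122) (nat_lit 0) (nat_lit 404585782877) (nat_lit 2) (nat_lit 5) (nat_lit 4) (nat_lit 4) (nat_lit 2) (nat_lit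 4) (nat_lit 350) (nat_lit 275) (nat_lit 155)) (XT.lf (nat_lit 0) (nat_lit 506867934183) (nat_lit 152) (nat_lit 366447519112) (nat_lit 0) (nat_lit 460207260000) (nat_lit 2) (nat_lit 5) (nat_lit 4) (nat_lit 4) (nat_lit 2) (nat_lit 4) (nat_lit 351) (nat_lit 275) (nat_lit 154)))) (XT.nd (nat_lit 156) (nat_lit 0) (nat_lit 0) (XT.nd (nat_lit 78) (nat_lit 0) (nat_lit 0) (XT.lf (nat_lit 0) (nat_lit 566939170068) (nat_lit 152) (nat_lit 351109460831) (nat_lit 0) (nat_lit 520278183721) (nat_lit 2) (nat_lit 5) (nat_lit 4) (nat_lit 4) (nat_lit 2) (nat_lit 4) (nat_lit 352) (nat_lit 275) (nat_lit 153)) (XT.lf (nat_lit 0) (nat_lit 631815805271) (nat_lit 152) (nat_lit 334544933083) (nat_lit 0) (nat_lit 585154529884) (nat_lit 2) (nat_lit 5) (nat_lit 4) (nat_lit 4) (nat_lit 2) (nat_lit 4) (nat_lit 353) (nat_lit 275) (nat_lit 152))) (XT.nd (nat_lit 78) (nat_lit 0) (nat_lit 0) (XT.lf (nat_lit 0) (nat_lit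 701882293928) (nat_lit 152) (nat_lit 316655775703) (nat_lit 0) (nat_lit 655220750911) (nat_lit 2) (nat_lit 5) (nat_lit 4) (nat_lit 4) (nat_lit 2) (nat_lit 4) (nat_lit 354) (nat_lit 275) (nat_lit 151)) (XT.lf (nat_lit 0) (nat_lit 777553844859) (nat_lit 152) (nat_lit 297335978869) (nat_lit 0) (nat_lit 730892054037) (nat_lit 2) (nat_lit 5) (nat_lit 4) (nat_lit 4) (nat_lit 2) (nat_lit 4) (nat_lit 355) (nat_lit 275) (nat_lit 150)))))) (XT.nd (nat_lit 546) (nat_lit 0) (nat_lit 0) (XT.nd (nat_lit 234) (nat_lit 0) (nat_lit 0) (XT.nd (nat_lit 78) (nat_lit 0) (nat_lit 0) (XT.lf (nat_lit 0) (nat_lit 859278882071) (nat_lit 152) (nat_lit 276471054897) (nat_lit 0) (nat_lit 812616861800) (nat_lit 2) (nat_lit 5) (nat_lit 4) (nat_lit 4) (nat_lit 2) (nat_lit 4) (nat_lit 356) (nat_lit 275) (nat_lit 149)) (XT.nd (nat_lit 78) (nat_lit 0) (nat_lit 0) (XT.lf (nat_lit 0) (nat_lit 947541702081) (nat_lit 152)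 (nat_lit 253937359792) (nat_lit 0) (nat_lit 900879469356) (nat_lit 2) (nat_lit 5) (nat_lit 4) (nat_lit 4) (nat_lit 2) (nat_lit 4) (nat_lit 357) (nat_lit 275) (nat_lit 148)) (XT.lf (nat_lit 0) (nat_lit 1042865343821) (nat_lit 152) (nat_lit 229601360547) (nat_lit 0) (nat_lit 996202914380) (nat_lit 2) (nat_lit 5) (nat_lit 4) (nat_lit 4) (nat_lit 2) (nat_lit 4) (nat_lit 358) (nat_lit 275) (nat_lit 147)))) (XT.nd (nat_lit 156) (nat_lit 0) (nat_lit 0) (XT.nd (nat_lit 78) (nat_lit 0) (nat_lit 0) (XT.lf (nat_lit 0) (nat_lit 1145814688133) (nat_lit 152) (nat_lit 203318843832) (nat_lit 0) (nat_lit 1099152076547) (nat_lit 2) (nat_lit 5) (nat_lit 4) (nat_lit 4) (nat_lit 2) (nat_lit 4) (nat_lit 359) (nat_lit 275) (nat_lit 146)) (XT.lf (nat_lit 0) (nat_lit 1256999805203) (nat_lit 152) (nat_lit 174934061400) (nat_lit 0) (nat_lit 1210337024965) (nat_lit 2) (nat_lit 5) (nat_lit 4) (nat_lit 4) (nat_lit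 2) (nat_lit 4) (nat_lit 360) (nat_lit 275) (nat_lit 145))) (XT.nd (nat_lit 78) (nat_lit 0) (nat_lit 0) (XT.lf (nat_lit 0) (nat_lit 1377079569800) (nat_lit 152) (nat_lit 144278807134) (nat_lit 0) (nat_lit 1330416633403) (nat_lit 2) (nat_lit 5) (nat_lit 4) (nat_lit 4) (nat_lit 2) (nat_lit 4) (nat_lit 361) (nat_lit 275) (nat_lit 144)) (XT.lf (nat_lit 0) (nat_lit 1506765565715) (nat_lit 152) (nat_lit 111171420267) (nat_lit 0) (nat_lit 1460102484726) (nat_lit 2) (nat_lit 5) (nat_lit 4) (nat_lit 4) (nat_lit 2) (nat_lit 4) (nat_lit 362) (nat_lit 275) (nat_lit 143))))) (XT.nd (nat_lit 34008) (nat_lit 0) (nat_lit 3116) (XT.nd (nat_lit 33852) (nat_lit 0) (nat_lit 3040) (XT.nd (nat_lit 78) (nat_lit 0) (nat_lit 0) (XT.lf (nat_lit 0) (nat_lit 1646826302552) (nat_lit 152) (nat_lit 75415708877) (nat_lit 0) (nat_lit 1600163087682) (nat_lit 2) (nat_lit 5) (nat_lit 4) (nat_lit 4) (nat_lit 2) (nat_lit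 4) (nat_lit 363) (nat_lit 275) (nat_lit 142)) (XT.lf (nat_lit 0) (nat_lit 1798091769864) (nat_lit 152) (nat_lit 36799787267) (nat_lit 0) (nat_lit 1751428431029) (nat_lit 2) (nat_lit 5) (nat_lit 4) (nat_lit 4) (nat_lit 2) (nat_lit 4) (nat_lit 364) (nat_lit 275) (nat_lit 141))) (XT.nd (nat_lit 78) (nat_lit 0) (nat_lit 0) (XT.lf (nat_lit 0) (nat_lit 2463574320) (nat_lit 532) (nat_lit 2327384666) (nat_lit 532) (nat_lit 2327384666) (nat_lit 42) (nat_lit 3) (nat_lit 49) (nat_lit 3) (nat_lit 49) (nat_lit 5) (nat_lit 276) (nat_lit 276) (nat_lit 228)) (XT.lf (nat_lit 76) (nat_lit 1807972661) (nat_lit 0) (nat_lit 3661731145) (nat_lit 532) (nat_lit 9307677063) (nat_lit 43) (nat_lit 5) (nat_lit 42) (nat_lit 3) (nat_lit 49) (nat_lit 5) (nat_lit 277) (nat_lit 276) (nat_lit 227)))) (XT.nd (nat_lit 156) (nat_lit 0) (nat_lit 76) (XT.nd (nat_lit 78) (nat_lit 0) (nat_lit 0) (XT.lf (nat_lit 0) (nat_lit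 6221639464) (nat_lit 456) (nat_lit 6387825708) (nat_lit 532) (nat_lit 2738700353) (nat_lit 43) (nat_lit 5) (nat_lit 49) (nat_lit 5) (nat_lit 50) (nat_lit 5) (nat_lit 278) (nat_lit 276) (nat_lit 226)) (XT.lf (nat_lit 76) (nat_lit 638483227) (nat_lit 0) (nat_lit 6477651412) (nat_lit 532) (nat_lit 8841991214) (nat_lit 44) (nat_lit 5) (nat_lit 43) (nat_lit 5) (nat_lit 50) (nat_lit 5) (nat_lit 279) (nat_lit 276) (nat_lit 225))) (XT.nd (nat_lit 78) (nat_lit 0) (nat_lit 0) (XT.lf (nat_lit 0) (nat_lit 8238640373) (nat_lit 456) (nat_lit 8041316958) (nat_lit 532) (nat_lit 324507073) (nat_lit 44) (nat_lit 5) (nat_lit 50) (nat_lit 5) (nat_lit 51) (nat_lit 5) (nat_lit 280) (nat_lit 276) (nat_lit 224)) (XT.lf (nat_lit 0) (nat_lit 9594919262) (nat_lit 456) (nat_lit 368020182) (nat_lit 532) (nat_lit 7328143035) (nat_lit 44) (nat_lit 5) (nat_lit 50) (nat_lit 5) (nat_lit 51) (nat_lit 5) (nat_lit 281)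 (nat_lit 276) (nat_lit 223))))))))
noncomputable def xc76 : XT := (XT.nd (nat_lit 2262) (nat_lit 684) (nat_lit 0) (XT.nd (nat_lit 1092) (nat_lit 988) (nat_lit 0) (XT.nd (nat_lit 546) (nat_lit 608) (nat_lit 0) (XT.nd (nat_lit 234) (nat_lit 532) (nat_lit 0) (XT.nd (nat_lit 78) (nat_lit 380) (nat_lit 0) (XT.lf (nat_lit 76) (nat_lit 8317586107) (nat_lit 0) (nat_lit 2919672882) (nat_lit 532) (nat_lit 6781249897) (nat_lit 45) (nat_lit 5) (nat_lit 44) (nat_lit 5) (nat_lit 51) (nat_lit 5) (nat_lit 282) (nat_lit 276) (nat_lit 222)) (XT.nd (nat_lit 78) (nat_lit 456) (nat_lit 0) (XT.lf (nat_lit 0) (nat_lit 13112902726) (nat_lit 456) (nat_lit 1216398965) (nat_lit 76) (nat_lit 4466751746) (nat_lit 45) (nat_lit 5) (nat_lit 51) (nat_lit 5) (nat_lit 46) (nat_lit 5) (nat_lit 283) (nat_lit 276) (nat_lit 221)) (XT.lf (nat_lit 0) (nat_lit 8266949293) (nat_lit 456) (nat_lit 7126739253) (nat_lit 532) (nat_lit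 4221777404) (nat_lit 39) (nat_lit 5) (nat_lit 45) (nat_lit 5) (nat_lit 46) (nat_lit 5) (nat_lit 284) (nat_lit 276) (nat_lit 220)))) (XT.nd (nat_lit 156) (nat_lit 304) (nat_lit 0) (XT.nd (nat_lit 78) (nat_lit 228) (nat_lit 0) (XT.lf (nat_lit 0) (nat_lit 17888243031) (nat_lit 532) (nat_lit 1954954812) (nat_lit 76) (nat_lit 654795498) (nat_lit 39) (nat_lit 5) (nat_lit 46) (nat_lit 5) (nat_lit 40) (nat_lit 5) (nat_lit 285) (nat_lit 276) (nat_lit 219)) (XT.lf (nat_lit 0) (nat_lit 8408203549) (nat_lit 228) (nat_lit 12544358290) (nat_lit 304) (nat_lit 469006513) (nat_lit 36) (nat_lit 5) (nat_lit 39) (nat_lit 5) (nat_lit 40) (nat_lit 5) (nat_lit 286) (nat_lit 276) (nat_lit 218))) (XT.nd (nat_lit 78) (nat_lit 228) (nat_lit 0) (XT.lf (nat_lit 0) (nat_lit 1788899787) (nat_lit 304) (nat_lit 2766755867) (nat_lit 76) (nat_lit 17856832667) (nat_lit 35) (nat_lit 5) (nat_lit 39) (nat_lit 5) (nat_lit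 36) (nat_lit 5) (nat_lit 287) (nat_lit 276) (nat_lit 217)) (XT.lf (nat_lit 0) (nat_lit 4499650306) (nat_lit 304) (nat_lit 14863542459) (nat_lit 76) (nat_lit 4094759307) (nat_lit 32) (nat_lit 5) (nat_lit 36) (nat_lit 5) (nat_lit 33) (nat_lit 5) (nat_lit 288) (nat_lit 276) (nat_lit 216))))) (XT.nd (nat_lit 234) (nat_lit 380) (nat_lit 0) (XT.nd (nat_lit 78) (nat_lit 228) (nat_lit 0) (XT.lf (nat_lit 0) (nat_lit 7608426136) (nat_lit 304) (nat_lit 3696810171) (nat_lit 76) (nat_lit 13267368544) (nat_lit 32) (nat_lit 5) (nat_lit 36) (nat_lit 5) (nat_lit 33) (nat_lit 5) (nat_lit 289) (nat_lit 276) (nat_lit 215)) (XT.nd (nat_lit 78) (nat_lit 0) (nat_lit 0) (XT.lf (nat_lit 0) (nat_lit 8786762285) (nat_lit 228) (nat_lit 2376781794) (nat_lit 304) (nat_lit 14597116374) (nat_lit 29) (nat_lit 5) (nat_lit 32) (nat_lit 5) (nat_lit 33) (nat_lit 5) (nat_lit 290) (nat_lit 276) (nat_lit 214)) (XT.lf (nat_lit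 0) (nat_lit 15268413466) (nat_lit 304) (nat_lit 4750445929) (nat_lit 76) (nat_lit 7003712457) (nat_lit 29) (nat_lit 5) (nat_lit 33) (nat_lit 5) (nat_lit 30) (nat_lit 5) (nat_lit 291) (nat_lit 276) (nat_lit 213)))) (XT.nd (nat_lit 156) (nat_lit 228) (nat_lit 0) (XT.nd (nat_lit 78) (nat_lit 0) (nat_lit 0) (XT.lf (nat_lit 0) (nat_lit 8814665981) (nat_lit 152) (nat_lit 11148597859) (nat_lit 228) (nat_lit 8401280847) (nat_lit 27) (nat_lit 5) (nat_lit 29) (nat_lit 5) (nat_lit 30) (nat_lit 5) (nat_lit 292) (nat_lit 276) (nat_lit 212)) (XT.lf (nat_lit 0) (nat_lit 23720112268) (nat_lit 152) (nat_lit 1431876842) (nat_lit 228) (nat_lit 4652456477) (nat_lit 27) (nat_lit 5) (nat_lit 29) (nat_lit 5) (nat_lit 30) (nat_lit 5) (nat_lit 293) (nat_lit 276) (nat_lit 211))) (XT.nd (nat_lit 78) (nat_lit 76) (nat_lit 0) (XT.lf (nat_lit 0) (nat_lit 8658928522) (nat_lit 152) (nat_lit 22512260872) (nat_lit 228)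 (nat_lit 155149732) (nat_lit 25) (nat_lit 5) (nat_lit 27) (nat_lit 5) (nat_lit 28) (nat_lit 5) (nat_lit 294) (nat_lit 276) (nat_lit 210)) (XT.lf (nat_lit 0) (nat_lit 4663943898) (nat_lit 228) (nat_lit 8198547843) (nat_lit 76) (nat_lit 20082695208) (nat_lit 24) (nat_lit 5) (nat_lit 27) (nat_lit 5) (nat_lit 25) (nat_lit 5) (nat_lit 295) (nat_lit 276) (nat_lit 209)))))) (XT.nd (nat_lit 546) (nat_lit 532) (nat_lit 0) (XT.nd (nat_lit 234) (nat_lit 152) (nat_lit 0) (XT.nd (nat_lit 78) (nat_lit 152) (nat_lit 0) (XT.lf (nat_lit 0) (nat_lit 7800145824) (nat_lit 152) (nat_lit 2237763641) (nat_lit 228) (nat_lit 24641117010) (nat_lit 22) (nat_lit 5) (nat_lit 24) (nat_lit 5) (nat_lit 25) (nat_lit 5) (nat_lit 296) (nat_lit 276) (nat_lit 208)) (XT.nd (nat_lit 78) (nat_lit 152) (nat_lit 0) (XT.lf (nat_lit 0) (nat_lit 16284368511) (nat_lit 228) (nat_lit 11230792731) (nat_lit 76) (nat_lit 9001028410)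 (nat_lit 22) (nat_lit 5) (nat_lit 25) (nat_lit 5) (nat_lit 23) (nat_lit 5) (nat_lit 297) (nat_lit 276) (nat_lit 207)) (XT.lf (nat_lit 0) (nat_lit 5892668492) (nat_lit 152) (nat_lit 17328868613) (nat_lit 228) (nat_lit 15263530264) (nat_lit 20) (nat_lit 5) (nat_lit 22) (nat_lit 5) (nat_lit 23) (nat_lit 5) (nat_lit 298) (nat_lit 276) (nat_lit 206)))) (XT.nd (nat_lit 156) (nat_lit 76) (nat_lit 0) (XT.nd (nat_lit 78) (nat_lit 76) (nat_lit 0) (XT.lf (nat_lit 0) (nat_lit 25011918888) (nat_lit 152) (nat_lit 6000328218) (nat_lit 228) (nat_lit 9575342128) (nat_lit 20) (nat_lit 5) (nat_lit 22) (nat_lit 5) (nat_lit 23) (nat_lit 5) (nat_lit 299) (nat_lit 276) (nat_lit 205)) (XT.lf (nat_lit 0) (nat_lit 2779080164) (nat_lit 76) (nat_lit 36855942809) (nat_lit 152) (nat_lit 3206603079) (nat_lit 19) (nat_lit 5) (nat_lit 20) (nat_lit 5) (nat_lit 21) (nat_lit 4) (nat_lit 300) (nat_lit 276) (nat_lit 204)))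 (XT.nd (nat_lit 78) (nat_lit 0) (nat_lit 0) (XT.lf (nat_lit 0) (nat_lit 4072862612) (nat_lit 152) (nat_lit 22021634672) (nat_lit 76) (nat_lit 19127647864) (nat_lit 18) (nat_lit 5) (nat_lit 20) (nat_lit 5) (nat_lit 19) (nat_lit 5) (nat_lit 301) (nat_lit 276) (nat_lit 203)) (XT.lf (nat_lit 0) (nat_lit 11754146633) (nat_lit 152) (nat_lit 2632325989) (nat_lit 76) (nat_lit 33400568238) (nat_lit 18) (nat_lit 5) (nat_lit 20) (nat_lit 5) (nat_lit 19) (nat_lit 5) (nat_lit 302) (nat_lit 276) (nat_lit 202))))) (XT.nd (nat_lit 312) (nat_lit 304) (nat_lit 0) (XT.nd (nat_lit 156) (nat_lit 76) (nat_lit 0) (XT.nd (nat_lit 78) (nat_lit 0) (nat_lit 0) (XT.lf (nat_lit 0) (nat_lit 19260907236) (nat_lit 152) (nat_lit 1245493020) (nat_lit 228) (nat_lit 30014223801) (nat_lit 16) (nat_lit 5) (nat_lit 18) (nat_lit 5) (nat_lit 19) (nat_lit 5) (nat_lit 303) (nat_lit 276) (nat_lit 201)) (XT.lf (nat_lit 0) (nat_lit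 30337441832) (nat_lit 228) (nat_lit 10735968828) (nat_lit 76) (nat_lit 12369206838) (nat_lit 16) (nat_lit 5) (nat_lit 19) (nat_lit 5) (nat_lit 17) (nat_lit 4) (nat_lit 304) (nat_lit 276) (nat_lit 200))) (XT.nd (nat_lit 78) (nat_lit 0) (nat_lit 0) (XT.lf (nat_lit 0) (nat_lit 11986872360) (nat_lit 76) (nat_lit 29282614392) (nat_lit 152) (nat_lit 15303733360) (nat_lit 15) (nat_lit 5) (nat_lit 16) (nat_lit 5) (nat_lit 17) (nat_lit 4) (nat_lit 305) (nat_lit 276) (nat_lit 199)) (XT.lf (nat_lit 0) (nat_lit 37128272221) (nat_lit 76) (nat_lit 16235464930) (nat_lit 152) (nat_lit 6567532895) (nat_lit 15) (nat_lit 5) (nat_lit 16) (nat_lit 5) (nat_lit 17) (nat_lit 4) (nat_lit 306) (nat_lit 276) (nat_lit 198)))) (XT.nd (nat_lit 156) (nat_lit 76) (nat_lit 0) (XT.nd (nat_lit 78) (nat_lit 0) (nat_lit 0) (XT.lf (nat_lit 0) (nat_lit 678592192) (nat_lit 152) (nat_lit 2056231764) (nat_lit 228) (nat_lit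 60816775190) (nat_lit 12) (nat_lit 5) (nat_lit 14) (nat_lit 5) (nat_lit 15) (nat_lit 5) (nat_lit 307) (nat_lit 276) (nat_lit 197)) (XT.lf (nat_lit 0) (nat_lit 13379552124) (nat_lit 228) (nat_lit 40591281376) (nat_lit 76) (nat_lit 13400842548) (nat_lit 12) (nat_lit 5) (nat_lit 15) (nat_lit 5) (nat_lit 13) (nat_lit 4) (nat_lit 308) (nat_lit 276) (nat_lit 196))) (XT.nd (nat_lit 78) (nat_lit 76) (nat_lit 0) (XT.lf (nat_lit 0) (nat_lit 24924167413) (nat_lit 228) (nat_lit 16589243124) (nat_lit 76) (nat_lit 29980091544) (nat_lit 12) (nat_lit 5) (nat_lit 15) (nat_lit 5) (nat_lit 13) (nat_lit 4) (nat_lit 309) (nat_lit 276) (nat_lit 195)) (XT.lf (nat_lit 0) (nat_lit 9815821678) (nat_lit 76) (nat_lit 27807879004) (nat_lit 152) (nat_lit 38302872735) (nat_lit 11) (nat_lit 5) (nat_lit 12) (nat_lit 5) (nat_lit 13) (nat_lit 4) (nat_lit 310) (nat_lit 276) (nat_lit 194))))))) (XT.nd (nat_lit 1092) (nat_lit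 228) (nat_lit 0) (XT.nd (nat_lit 546) (nat_lit 228) (nat_lit 0) (XT.nd (nat_lit 234) (nat_lit 152) (nat_lit 0) (XT.nd (nat_lit 78) (nat_lit 76) (nat_lit 0) (XT.lf (nat_lit 0) (nat_lit 39268779633) (nat_lit 76) (nat_lit 12519432708) (nat_lit 152) (nat_lit 28890163454) (nat_lit 11) (nat_lit 5) (nat_lit 12) (nat_lit 5) (nat_lit 13) (nat_lit 4) (nat_lit 311) (nat_lit 276) (nat_lit 193)) (XT.nd (nat_lit 78) (nat_lit 76) (nat_lit 0) (XT.lf (nat_lit 0) (nat_lit 67177593673) (nat_lit 152) (nat_lit 14835994145) (nat_lit 0) (nat_lit 3789403949) (nat_lit 11) (nat_lit 5) (nat_lit 13) (nat_lit 4) (nat_lit 11) (nat_lit 4) (nat_lit 312) (nat_lit 276) (nat_lit 192)) (XT.lf (nat_lit 0) (nat_lit 14243776847) (nat_lit 76) (nat_lit 70218109408) (nat_lit 76) (nat_lit 6822595555) (nat_lit 10) (nat_lit 4) (nat_lit 11) (nat_lit 5) (nat_lit 11) (nat_lit 4) (nat_lit 313) (nat_lit 276) (nat_lit 191)))) (XT.nd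 (nat_lit 156) (nat_lit 76) (nat_lit 0) (XT.nd (nat_lit 78) (nat_lit 0) (nat_lit 0) (XT.lf (nat_lit 0) (nat_lit 6040287383) (nat_lit 152) (nat_lit 50838497696) (nat_lit 76) (nat_lit 40281334586) (nat_lit 9) (nat_lit 5) (nat_lit 11) (nat_lit 5) (nat_lit 10) (nat_lit 4) (nat_lit 314) (nat_lit 276) (nat_lit 190)) (XT.lf (nat_lit 0) (nat_lit 19559938496) (nat_lit 152) (nat_lit 22723902643) (nat_lit 76) (nat_lit 61208088283) (nat_lit 9) (nat_lit 5) (nat_lit 11) (nat_lit 5) (nat_lit 10) (nat_lit 4) (nat_lit 315) (nat_lit 276) (nat_lit 189))) (XT.nd (nat_lit 78) (nat_lit 0) (nat_lit 0) (XT.lf (nat_lit 0) (nat_lit 8035749526) (nat_lit 76) (nat_lit 26315278537) (nat_lit 152) (nat_lit 75964070741) (nat_lit 8) (nat_lit 5) (nat_lit 9) (nat_lit 5) (nat_lit 10) (nat_lit 4) (nat_lit 316) (nat_lit 276) (nat_lit 188)) (XT.lf (nat_lit 0) (nat_lit 42542565333) (nat_lit 76) (nat_lit 8400866221) (nat_lit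 152) (nat_lit 66691251889) (nat_lit 8) (nat_lit 5) (nat_lit 9) (nat_lit 5) (nat_lit 10) (nat_lit 4) (nat_lit 317) (nat_lit 276) (nat_lit 187))))) (XT.nd (nat_lit 234) (nat_lit 152) (nat_lit 0) (XT.nd (nat_lit 78) (nat_lit 76) (nat_lit 0) (XT.lf (nat_lit 0) (nat_lit 69123394967) (nat_lit 152) (nat_lit 45998861902) (nat_lit 0) (nat_lit 10396768134) (nat_lit 8) (nat_lit 5) (nat_lit 10) (nat_lit 4) (nat_lit 8) (nat_lit 4) (nat_lit 318) (nat_lit 276) (nat_lit 186)) (XT.nd (nat_lit 78) (nat_lit 76) (nat_lit 0) (XT.lf (nat_lit 0) (nat_lit 88973088722) (nat_lit 152) (nat_lit 14801613473) (nat_lit 0) (nat_lit 30242188330) (nat_lit 8) (nat_lit 5) (nat_lit 10) (nat_lit 4) (nat_lit 8) (nat_lit 4) (nat_lit 319) (nat_lit 276) (nat_lit 185)) (XT.lf (nat_lit 0) (nat_lit 19881072560) (nat_lit 76) (nat_lit 91005167311) (nat_lit 76) (nat_lit 32270309919) (nat_lit 7) (nat_lit 4) (nat_lit 8) (nat_lit 5)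 (nat_lit 8) (nat_lit 4) (nat_lit 320) (nat_lit 276) (nat_lit 184)))) (XT.nd (nat_lit 156) (nat_lit 152) (nat_lit 0) (XT.nd (nat_lit 78) (nat_lit 0) (nat_lit 0) (XT.lf (nat_lit 0) (nat_lit 58175403708) (nat_lit 76) (nat_lit 76779166033) (nat_lit 76) (nat_lit 18040644753) (nat_lit 7) (nat_lit 4) (nat_lit 8) (nat_lit 5) (nat_lit 8) (nat_lit 4) (nat_lit 321) (nat_lit 276) (nat_lit 183)) (XT.lf (nat_lit 0) (nat_lit 99528882604) (nat_lit 76) (nat_lit 61417098475) (nat_lit 76) (nat_lit 2675184706) (nat_lit 7) (nat_lit 4) (nat_lit 8) (nat_lit 5) (nat_lit 8) (nat_lit 4) (nat_lit 322) (nat_lit 276) (nat_lit 182))) (XT.nd (nat_lit 78) (nat_lit 76) (nat_lit 0) (XT.lf (nat_lit 0) (nat_lit 13220933851) (nat_lit 152) (nat_lit 31245512552) (nat_lit 76) (nat_lit 130604149288) (nat_lit 6) (nat_lit 5) (nat_lit 8) (nat_lit 5) (nat_lit 7) (nat_lit 4) (nat_lit 323) (nat_lit 276) (nat_lit 181)) (XT.lf (nat_lit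 0) (nat_lit 4374458680) (nat_lit 76) (nat_lit 25972859663) (nat_lit 152) (nat_lit 157074856425) (nat_lit 5) (nat_lit 5) (nat_lit 6) (nat_lit 5) (nat_lit 7) (nat_lit 4) (nat_lit 324) (nat_lit 276) (nat_lit 180)))))) (XT.nd (nat_lit 546) (nat_lit 152) (nat_lit 0) (XT.nd (nat_lit 234) (nat_lit 76) (nat_lit 0) (XT.nd (nat_lit 78) (nat_lit 0) (nat_lit 0) (XT.lf (nat_lit 0) (nat_lit 44617202053) (nat_lit 76) (nat_lit 5078883810) (nat_lit 152) (nat_lit 150997614453) (nat_lit 5) (nat_lit 5) (nat_lit 6) (nat_lit 5) (nat_lit 7) (nat_lit 4) (nat_lit 325) (nat_lit 276) (nat_lit 179)) (XT.nd (nat_lit 78) (nat_lit 0) (nat_lit 0) (XT.lf (nat_lit 0) (nat_lit 71011384557) (nat_lit 152) (nat_lit 127371755120) (nat_lit 0) (nat_lit 16610319628) (nat_lit 5) (nat_lit 5) (nat_lit 7) (nat_lit 4) (nat_lit 5) (nat_lit 4) (nat_lit 326) (nat_lit 276) (nat_lit 178)) (XT.lf (nat_lit 0) (nat_lit 94162045078) (nat_lit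 152) (nat_lit 96505902248) (nat_lit 0) (nat_lit 39758842305) (nat_lit 5) (nat_lit 5) (nat_lit 7) (nat_lit 4) (nat_lit 5) (nat_lit 4) (nat_lit 327) (nat_lit 276) (nat_lit 177)))) (XT.nd (nat_lit 156) (nat_lit 76) (nat_lit 0) (XT.nd (nat_lit 78) (nat_lit 0) (nat_lit 0) (XT.lf (nat_lit 0) (nat_lit 119163109246) (nat_lit 152) (nat_lit 63173883610) (nat_lit 0) (nat_lit 64757926989) (nat_lit 5) (nat_lit 5) (nat_lit 7) (nat_lit 4) (nat_lit 5) (nat_lit 4) (nat_lit 328) (nat_lit 276) (nat_lit 176)) (XT.lf (nat_lit 0) (nat_lit 146162731517) (nat_lit 152) (nat_lit 27178176134) (nat_lit 0) (nat_lit 91755716403) (nat_lit 5) (nat_lit 5) (nat_lit 7) (nat_lit 4) (nat_lit 5) (nat_lit 4) (nat_lit 329) (nat_lit 276) (nat_lit 175))) (XT.nd (nat_lit 78) (nat_lit 0) (nat_lit 0) (XT.lf (nat_lit 0) (nat_lit 12310341201) (nat_lit 76) (nat_lit 163306632452) (nat_lit 76) (nat_lit 108897920249) (nat_lit 4) (nat_lit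 4) (nat_lit 5) (nat_lit 5) (nat_lit 5) (nat_lit 4) (nat_lit 330) (nat_lit 276) (nat_lit 174)) (XT.lf (nat_lit 0) (nat_lit 56500994356) (nat_lit 76) (nat_lit 151668288769) (nat_lit 76) (nat_lit 97258005187) (nat_lit 4) (nat_lit 4) (nat_lit 5) (nat_lit 5) (nat_lit 5) (nat_lit 4) (nat_lit 331) (nat_lit 276) (nat_lit 173))))) (XT.nd (nat_lit 312) (nat_lit 152) (nat_lit 0) (XT.nd (nat_lit 156) (nat_lit 0) (nat_lit 0) (XT.nd (nat_lit 78) (nat_lit 0) (nat_lit 0) (XT.lf (nat_lit 0) (nat_lit 104224499279) (nat_lit 76) (nat_lit 139100008139) (nat_lit 76) (nat_lit 84688269577) (nat_lit 4) (nat_lit 4) (nat_lit 5) (nat_lit 5) (nat_lit 5) (nat_lit 4) (nat_lit 332) (nat_lit 276) (nat_lit 172)) (XT.lf (nat_lit 0) (nat_lit 155763661922) (nat_lit 76) (nat_lit 125527311862) (nat_lit 76) (nat_lit 71114226096) (nat_lit 4) (nat_lit 4) (nat_lit 5) (nat_lit 5) (nat_lit 5) (nat_lit 4) (nat_lit 333) (nat_lit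 276) (nat_lit 171))) (XT.nd (nat_lit 78) (nat_lit 0) (nat_lit 0) (XT.lf (nat_lit 0) (nat_lit 211423899547) (nat_lit 76) (nat_lit 110869769146) (nat_lit 76) (nat_lit 56455435968) (nat_lit 4) (nat_lit 4) (nat_lit 5) (nat_lit 5) (nat_lit 5) (nat_lit 4) (nat_lit 334) (nat_lit 276) (nat_lit 170)) (XT.lf (nat_lit 0) (nat_lit 271535050599) (nat_lit 76) (nat_lit 95040520477) (nat_lit 76) (nat_lit 40625032288) (nat_lit 4) (nat_lit 4) (nat_lit 5) (nat_lit 5) (nat_lit 5) (nat_lit 4) (nat_lit 335) (nat_lit 276) (nat_lit 169)))) (XT.nd (nat_lit 156) (nat_lit 152) (nat_lit 0) (XT.nd (nat_lit 78) (nat_lit 0) (nat_lit 0) (XT.lf (nat_lit 0) (nat_lit 336453329306) (nat_lit 76) (nat_lit 77945762900) (nat_lit 76) (nat_lit 23529205258) (nat_lit 4) (nat_lit 4) (nat_lit 5) (nat_lit 5) (nat_lit 5) (nat_lit 4) (nat_lit 336) (nat_lit 276) (nat_lit 168)) (XT.lf (nat_lit 0) (nat_lit 406563436580) (nat_lit 76)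 (nat_lit 59484194150) (nat_lit 76) (nat_lit 5066646272) (nat_lit 4) (nat_lit 4) (nat_lit 5) (nat_lit 5) (nat_lit 5) (nat_lit 4) (nat_lit 337) (nat_lit 276) (nat_lit 167))) (XT.nd (nat_lit 78) (nat_lit 76) (nat_lit 0) (XT.lf (nat_lit 0) (nat_lit 14128092130) (nat_lit 152) (nat_lit 25032033129) (nat_lit 76) (nat_lit 467766460514) (nat_lit 3) (nat_lit 5) (nat_lit 5) (nat_lit 5) (nat_lit 4) (nat_lit 4) (nat_lit 338) (nat_lit 276) (nat_lit 166)) (XT.lf (nat_lit 0) (nat_lit 18437557511) (nat_lit 76) (nat_lit 16589784431) (nat_lit 152) (nat_lit 510530596790) (nat_lit 2) (nat_lit 5) (nat_lit 3) (nat_lit 5) (nat_lit 4) (nat_lit 4) (nat_lit 339) (nat_lit 276) (nat_lit 165))))))))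
noncomputable def xc77 : XT := (XT.nd (nat_lit 36036) (nat_lit 0) (nat_lit 760) (XT.nd (nat_lit 1092) (nat_lit 0) (nat_lit 0) (XT.nd (nat_lit 546) (nat_lit 0) (nat_lit 0) (XT.nd (nat_lit 234) (nat_lit 0) (nat_lit 0) (XT.nd (nat_lit 78) (nat_lit 0) (nat_lit 0) (XT.lf (nat_lit 0) (nat_lit 58487232614) (nat_lit 152) (nat_lit 520623220495) (nat_lit 0) (nat_lit 8098251308) (nat_lit 2) (nat_lit 5) (nat_lit 4) (nat_lit 4) (nat_lit 2) (nat_lit 4) (nat_lit 340) (nat_lit 276) (nat_lit 164)) (XT.nd (nat_lit 78) (nat_lit 0) (nat_lit 0) (XT.lf (nat_lit 0) (nat_lit 84254119584) (nat_lit 152) (nat_lit 514038531550) (nat_lit 0) (nat_lit 33864464341) (nat_lit 2) (nat_lit 5) (nat_lit 4) (nat_lit 4) (nat_lit 2) (nat_lit 4) (nat_lit 341) (nat_lit 276) (nat_lit 163)) (XT.lf (nat_lit 0) (nat_lit 112081710801) (nat_lit 152) (nat_lit 506928309291) (nat_lit 0) (nat_lit 61691431542) (nat_lit 2) (nat_lit 5) (nat_lit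 4) (nat_lit 4) (nat_lit 2) (nat_lit 4) (nat_lit 342) (nat_lit 276) (nat_lit 162)))) (XT.nd (nat_lit 156) (nat_lit 0) (nat_lit 0) (XT.nd (nat_lit 78) (nat_lit 0) (nat_lit 0) (XT.lf (nat_lit 0) (nat_lit 142134910511) (nat_lit 152) (nat_lit 499250419068) (nat_lit 0) (nat_lit 91744053459) (nat_lit 2) (nat_lit 5) (nat_lit 4) (nat_lit 4) (nat_lit 2) (nat_lit 4) (nat_lit 343) (nat_lit 276) (nat_lit 161)) (XT.lf (nat_lit 0) (nat_lit 174591811747) (nat_lit 152) (nat_lit 490959362273) (nat_lit 0) (nat_lit 124200419702) (nat_lit 2) (nat_lit 5) (nat_lit 4) (nat_lit 4) (nat_lit 2) (nat_lit 4) (nat_lit 344) (nat_lit 276) (nat_lit 160))) (XT.nd (nat_lit 78) (nat_lit 0) (nat_lit 0) (XT.lf (nat_lit 0) (nat_lit 209644751703) (nat_lit 152) (nat_lit 482006006717) (nat_lit 0) (nat_lit 159252864294) (nat_lit 2) (nat_lit 5) (nat_lit 4) (nat_lit 4) (nat_lit 2) (nat_lit 4) (nat_lit 345) (nat_lit 276) (nat_lit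 159)) (XT.lf (nat_lit 0) (nat_lit 247501451505) (nat_lit 152) (nat_lit 472337295478) (nat_lit 0) (nat_lit 197109105425) (nat_lit 2) (nat_lit 5) (nat_lit 4) (nat_lit 4) (nat_lit 2) (nat_lit 4) (nat_lit 346) (nat_lit 276) (nat_lit 158))))) (XT.nd (nat_lit 234) (nat_lit 0) (nat_lit 0) (XT.nd (nat_lit 78) (nat_lit 0) (nat_lit 0) (XT.lf (nat_lit 0) (nat_lit 288386247150) (nat_lit 152) (nat_lit 461895932489) (nat_lit 0) (nat_lit 237993476375) (nat_lit 2) (nat_lit 5) (nat_lit 4) (nat_lit 4) (nat_lit 2) (nat_lit 4) (nat_lit 347) (nat_lit 276) (nat_lit 157)) (XT.nd (nat_lit 78) (nat_lit 0) (nat_lit 0) (XT.lf (nat_lit 0) (nat_lit 332541418910) (nat_lit 152) (nat_lit 450620043007) (nat_lit 0) (nat_lit 282148254899) (nat_lit 2) (nat_lit 5) (nat_lit 4) (nat_lit 4) (nat_lit 2) (nat_lit 4) (nat_lit 348) (nat_lit 276) (nat_lit 156)) (XT.lf (nat_lit 0) (nat_lit 380228627062) (nat_lit 152) (nat_lit 438442806947)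 (nat_lit 0) (nat_lit 329835098944) (nat_lit 2) (nat_lit 5) (nat_lit 4) (nat_lit 4) (nat_lit 2) (nat_lit 4) (nat_lit 349) (nat_lit 276) (nat_lit 155)))) (XT.nd (nat_lit 156) (nat_lit 0) (nat_lit 0) (XT.nd (nat_lit 78) (nat_lit 0) (nat_lit 0) (XT.lf (nat_lit 0) (nat_lit 431730462468) (nat_lit 152) (nat_lit 425292062909) (nat_lit 0) (nat_lit 381336597214) (nat_lit 2) (nat_lit 5) (nat_lit 4) (nat_lit 4) (nat_lit 2) (nat_lit 4) (nat_lit 350) (nat_lit 276) (nat_lit 154)) (XT.lf (nat_lit 0) (nat_lit 487352121191) (nat_lit 152) (nat_lit 411089880558) (nat_lit 0) (nat_lit 436957943773) (nat_lit 2) (nat_lit 5) (nat_lit 4) (nat_lit 4) (nat_lit 2) (nat_lit 4) (nat_lit 351) (nat_lit 276) (nat_lit 153))) (XT.nd (nat_lit 78) (nat_lit 0) (nat_lit 0) (XT.lf (nat_lit 0) (nat_lit 547423213060) (nat_lit 152) (nat_lit 395752098813) (nat_lit 0) (nat_lit 497028746602) (nat_lit 2) (nat_lit 5) (nat_lit 4) (nat_lit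 4) (nat_lit 2) (nat_lit 4) (nat_lit 352) (nat_lit 276) (nat_lit 152)) (XT.lf (nat_lit 0) (nat_lit 612299714916) (nat_lit 152) (nat_lit 379187827117) (nat_lit 0) (nat_lit 561904980828) (nat_lit 2) (nat_lit 5) (nat_lit 4) (nat_lit 4) (nat_lit 2) (nat_lit 4) (nat_lit 353) (nat_lit 276) (nat_lit 151)))))) (XT.nd (nat_lit 546) (nat_lit 0) (nat_lit 0) (XT.nd (nat_lit 234) (nat_lit 0) (nat_lit 0) (XT.nd (nat_lit 78) (nat_lit 0) (nat_lit 0) (XT.lf (nat_lit 0) (nat_lit 682366080103) (nat_lit 152) (nat_lit 361298906822) (nat_lit 0) (nat_lit 631971098209) (nat_lit 2) (nat_lit 5) (nat_lit 4) (nat_lit 4) (nat_lit 2) (nat_lit 4) (nat_lit 354) (nat_lit 276) (nat_lit 150)) (XT.nd (nat_lit 78) (nat_lit 0) (nat_lit 0) (XT.lf (nat_lit 0) (nat_lit 758037516710) (nat_lit 152) (nat_lit 341979329511) (nat_lit 0) (nat_lit 707642305367) (nat_lit 2) (nat_lit 5) (nat_lit 4) (nat_lit 4) (nat_lit 2) (nat_lit 4)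 (nat_lit 355) (nat_lit 276) (nat_lit 149)) (XT.lf (nat_lit 0) (nat_lit 839762448067) (nat_lit 152) (nat_lit 321114608801) (nat_lit 0) (nat_lit 789367024271) (nat_lit 2) (nat_lit 5) (nat_lit 4) (nat_lit 4) (nat_lit 2) (nat_lit 4) (nat_lit 356) (nat_lit 276) (nat_lit 148)))) (XT.nd (nat_lit 156) (nat_lit 0) (nat_lit 0) (XT.nd (nat_lit 78) (nat_lit 0) (nat_lit 0) (XT.lf (nat_lit 0) (nat_lit 928025170062) (nat_lit 152) (nat_lit 298581101902) (nat_lit 0) (nat_lit 877629549550) (nat_lit 2) (nat_lit 5) (nat_lit 4) (nat_lit 4) (nat_lit 2) (nat_lit 4) (nat_lit 357) (nat_lit 276) (nat_lit 147)) (XT.lf (nat_lit 0) (nat_lit 1023348721048) (nat_lit 152) (nat_lit 274245276921) (nat_lit 0) (nat_lit 972952918392) (nat_lit 2) (nat_lit 5) (nat_lit 4) (nat_lit 4) (nat_lit 2) (nat_lit 4) (nat_lit 358) (nat_lit 276) (nat_lit 146))) (XT.nd (nat_lit 78) (nat_lit 0) (nat_lit 0) (XT.lf (nat_lit 0) (nat_lit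 1126297981328) (nat_lit 152) (nat_lit 247962921562) (nat_lit 0) (nat_lit 1075902010019) (nat_lit 2) (nat_lit 5) (nat_lit 4) (nat_lit 4) (nat_lit 2) (nat_lit 4) (nat_lit 359) (nat_lit 276) (nat_lit 145)) (XT.lf (nat_lit 0) (nat_lit 1237483020591) (nat_lit 152) (nat_lit 219578288534) (nat_lit 0) (nat_lit 1187086893123) (nat_lit 2) (nat_lit 5) (nat_lit 4) (nat_lit 4) (nat_lit 2) (nat_lit 4) (nat_lit 360) (nat_lit 276) (nat_lit 144))))) (XT.nd (nat_lit 34086) (nat_lit 0) (nat_lit 3040) (XT.nd (nat_lit 156) (nat_lit 0) (nat_lit 0) (XT.nd (nat_lit 78) (nat_lit 0) (nat_lit 0) (XT.lf (nat_lit 0) (nat_lit 1357562713145) (nat_lit 152) (nat_lit 188923172605) (nat_lit 0) (nat_lit 1307166441085) (nat_lit 2) (nat_lit 5) (nat_lit 4) (nat_lit 4) (nat_lit 2) (nat_lit 4) (nat_lit 361) (nat_lit 276) (nat_lit 143)) (XT.lf (nat_lit 0) (nat_lit 1487248642353) (nat_lit 152) (nat_lit 155815913827) (nat_lit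 0) (nat_lit 1436852236411) (nat_lit 2) (nat_lit 5) (nat_lit 4) (nat_lit 4) (nat_lit 2) (nat_lit 4) (nat_lit 362) (nat_lit 276) (nat_lit 142))) (XT.nd (nat_lit 78) (nat_lit 0) (nat_lit 0) (XT.lf (nat_lit 0) (nat_lit 1627309317425) (nat_lit 152) (nat_lit 120060321039) (nat_lit 0) (nat_lit 1576912787518) (nat_lit 2) (nat_lit 5) (nat_lit 4) (nat_lit 4) (nat_lit 2) (nat_lit 4) (nat_lit 363) (nat_lit 276) (nat_lit 141)) (XT.lf (nat_lit 0) (nat_lit 1778574727546) (nat_lit 152) (nat_lit 81444509245) (nat_lit 0) (nat_lit 1728178082858) (nat_lit 2) (nat_lit 5) (nat_lit 4) (nat_lit 4) (nat_lit 2) (nat_lit 4) (nat_lit 364) (nat_lit 276) (nat_lit 140)))) (XT.nd (nat_lit 156) (nat_lit 0) (nat_lit 76) (XT.nd (nat_lit 78) (nat_lit 0) (nat_lit 0) (XT.lf (nat_lit 0) (nat_lit 2955384895) (nat_lit 532) (nat_lit 2353869609) (nat_lit 532) (nat_lit 2353869609) (nat_lit 42) (nat_lit 3) (nat_lit 49) (nat_lit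 3) (nat_lit 49) (nat_lit 5) (nat_lit 277) (nat_lit 277) (nat_lit 226)) (XT.lf (nat_lit 76) (nat_lit 2263935764) (nat_lit 0) (nat_lit 4196618078) (nat_lit 532) (nat_lit 9452701782) (nat_lit 43) (nat_lit 5) (nat_lit 42) (nat_lit 3) (nat_lit 49) (nat_lit 5) (nat_lit 278) (nat_lit 277) (nat_lit 225))) (XT.nd (nat_lit 78) (nat_lit 0) (nat_lit 0) (XT.lf (nat_lit 0) (nat_lit 7226273275) (nat_lit 456) (nat_lit 6562314847) (nat_lit 532) (nat_lit 2744976751) (nat_lit 43) (nat_lit 5) (nat_lit 49) (nat_lit 5) (nat_lit 50) (nat_lit 5) (nat_lit 279) (nat_lit 277) (nat_lit 224)) (XT.lf (nat_lit 76) (nat_lit 1017578881) (nat_lit 0) (nat_lit 7145089655) (nat_lit 532) (nat_lit 9032167119) (nat_lit 44) (nat_lit 5) (nat_lit 43) (nat_lit 5) (nat_lit 50) (nat_lit 5) (nat_lit 280) (nat_lit 277) (nat_lit 223))))))) (XT.nd (nat_lit 1170) (nat_lit 912) (nat_lit 0) (XT.nd (nat_lit 546) (nat_lit 912) (nat_lit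 0) (XT.nd (nat_lit 234) (nat_lit 608) (nat_lit 0) (XT.nd (nat_lit 78) (nat_lit 0) (nat_lit 0) (XT.lf (nat_lit 0) (nat_lit 9336300338) (nat_lit 456) (nat_lit 8340598099) (nat_lit 532) (nat_lit 219207236) (nat_lit 44) (nat_lit 5) (nat_lit 50) (nat_lit 5) (nat_lit 51) (nat_lit 5) (nat_lit 281) (nat_lit 277) (nat_lit 222)) (XT.nd (nat_lit 78) (nat_lit 0) (nat_lit 0) (XT.lf (nat_lit 0) (nat_lit 10768594965) (nat_lit 456) (nat_lit 78920855) (nat_lit 532) (nat_lit 7792857068) (nat_lit 44) (nat_lit 5) (nat_lit 50) (nat_lit 5) (nat_lit 51) (nat_lit 5) (nat_lit 282) (nat_lit 277) (nat_lit 221)) (XT.lf (nat_lit 76) (nat_lit 9293469609) (nat_lit 0) (nat_lit 3226239070) (nat_lit 532) (nat_lit 6908205607) (nat_lit 45) (nat_lit 5) (nat_lit 44) (nat_lit 5) (nat_lit 51) (nat_lit 5) (nat_lit 283) (nat_lit 277) (nat_lit 220)))) (XT.nd (nat_lit 156) (nat_lit 228) (nat_lit 0) (XT.nd (nat_lit 78) (nat_lit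 456) (nat_lit 0) (XT.lf (nat_lit 0) (nat_lit 14515373373) (nat_lit 456) (nat_lit 994907741) (nat_lit 76) (nat_lit 4759887270) (nat_lit 45) (nat_lit 5) (nat_lit 51) (nat_lit 5) (nat_lit 46) (nat_lit 5) (nat_lit 284) (nat_lit 277) (nat_lit 219)) (XT.lf (nat_lit 0) (nat_lit 9239037412) (nat_lit 456) (nat_lit 7720877139) (nat_lit 532) (nat_lit 4196811819) (nat_lit 39) (nat_lit 5) (nat_lit 45) (nat_lit 5) (nat_lit 46) (nat_lit 5) (nat_lit 285) (nat_lit 277) (nat_lit 218))) (XT.nd (nat_lit 78) (nat_lit 228) (nat_lit 0) (XT.lf (nat_lit 0) (nat_lit 19628704095) (nat_lit 532) (nat_lit 1797197306) (nat_lit 76) (nat_lit 686069664) (nat_lit 39) (nat_lit 5) (nat_lit 46) (nat_lit 5) (nat_lit 40) (nat_lit 5) (nat_lit 286) (nat_lit 277) (nat_lit 217)) (XT.lf (nat_lit 0) (nat_lit 9387060460) (nat_lit 228) (nat_lit 13535553440) (nat_lit 304) (nat_lit 188144730) (nat_lit 36) (nat_lit 5) (nat_lit 39) (nat_lit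 5) (nat_lit 40) (nat_lit 5) (nat_lit 287) (nat_lit 277) (nat_lit 216))))) (XT.nd (nat_lit 312) (nat_lit 380) (nat_lit 0) (XT.nd (nat_lit 156) (nat_lit 228) (nat_lit 0) (XT.nd (nat_lit 78) (nat_lit 228) (nat_lit 0) (XT.lf (nat_lit 0) (nat_lit 2212063188) (nat_lit 304) (nat_lit 2688949379) (nat_lit 76) (nat_lit 19281189860) (nat_lit 35) (nat_lit 5) (nat_lit 39) (nat_lit 5) (nat_lit 36) (nat_lit 5) (nat_lit 288) (nat_lit 277) (nat_lit 215)) (XT.lf (nat_lit 0) (nat_lit 5126548920) (nat_lit 304) (nat_lit 15739538471) (nat_lit 76) (nat_lit 4446331121) (nat_lit 32) (nat_lit 5) (nat_lit 36) (nat_lit 5) (nat_lit 33) (nat_lit 5) (nat_lit 289) (nat_lit 277) (nat_lit 214))) (XT.nd (nat_lit 78) (nat_lit 228) (nat_lit 0) (XT.lf (nat_lit 0) (nat_lit 8464254476) (nat_lit 304) (nat_lit 3702659258) (nat_lit 76) (nat_lit 14350971980) (nat_lit 32) (nat_lit 5) (nat_lit 36) (nat_lit 5) (nat_lit 33) (nat_lit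 5) (nat_lit 290) (nat_lit 277) (nat_lit 213)) (XT.lf (nat_lit 0) (nat_lit 9772259862) (nat_lit 228) (nat_lit 2520009764) (nat_lit 304) (nat_lit 15509693057) (nat_lit 29) (nat_lit 5) (nat_lit 32) (nat_lit 5) (nat_lit 33) (nat_lit 5) (nat_lit 291) (nat_lit 277) (nat_lit 212)))) (XT.nd (nat_lit 156) (nat_lit 228) (nat_lit 0) (XT.nd (nat_lit 78) (nat_lit 152) (nat_lit 0) (XT.lf (nat_lit 0) (nat_lit 16709118318) (nat_lit 304) (nat_lit 4851797433) (nat_lit 76) (nat_lit 7605275857) (nat_lit 29) (nat_lit 5) (nat_lit 33) (nat_lit 5) (nat_lit 30) (nat_lit 5) (nat_lit 292) (nat_lit 277) (nat_lit 211)) (XT.lf (nat_lit 0) (nat_lit 9791468134) (nat_lit 152) (nat_lit 11978381878) (nat_lit 228) (nat_lit 8846496754) (nat_lit 27) (nat_lit 5) (nat_lit 29) (nat_lit 5) (nat_lit 30) (nat_lit 5) (nat_lit 293) (nat_lit 277) (nat_lit 210))) (XT.nd (nat_lit 78) (nat_lit 228) (nat_lit 0) (XT.lf (nat_lit 0) (nat_lit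 25869229466) (nat_lit 152) (nat_lit 1488923462) (nat_lit 228) (nat_lit 4814572847) (nat_lit 27) (nat_lit 5) (nat_lit 29) (nat_lit 5) (nat_lit 30) (nat_lit 5) (nat_lit 294) (nat_lit 277) (nat_lit 209)) (XT.lf (nat_lit 0) (nat_lit 33324362) (nat_lit 228) (nat_lit 24206699323) (nat_lit 76) (nat_lit 9576868749) (nat_lit 24) (nat_lit 5) (nat_lit 27) (nat_lit 5) (nat_lit 25) (nat_lit 5) (nat_lit 295) (nat_lit 277) (nat_lit 208)))))) (XT.nd (nat_lit 546) (nat_lit 456) (nat_lit 0) (XT.nd (nat_lit 234) (nat_lit 304) (nat_lit 0) (XT.nd (nat_lit 78) (nat_lit 152) (nat_lit 0) (XT.lf (nat_lit 0) (nat_lit 5215303816) (nat_lit 228) (nat_lit 8604362905) (nat_lit 76) (nat_lit 21746434989) (nat_lit 24) (nat_lit 5) (nat_lit 27) (nat_lit 5) (nat_lit 25) (nat_lit 5) (nat_lit 296) (nat_lit 277) (nat_lit 207)) (XT.nd (nat_lit 78) (nat_lit 0) (nat_lit 0) (XT.lf (nat_lit 0) (nat_lit 8667895401) (nat_lit 152)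 (nat_lit 2343949841) (nat_lit 228) (nat_lit 26427423107) (nat_lit 22) (nat_lit 5) (nat_lit 24) (nat_lit 5) (nat_lit 25) (nat_lit 5) (nat_lit 297) (nat_lit 277) (nat_lit 206)) (XT.lf (nat_lit 0) (nat_lit 17746983455) (nat_lit 228) (nat_lit 11892157563) (nat_lit 76) (nat_lit 9785176789) (nat_lit 22) (nat_lit 5) (nat_lit 25) (nat_lit 5) (nat_lit 23) (nat_lit 5) (nat_lit 298) (nat_lit 277) (nat_lit 205)))) (XT.nd (nat_lit 156) (nat_lit 152) (nat_lit 0) (XT.nd (nat_lit 78) (nat_lit 0) (nat_lit 0) (XT.lf (nat_lit 0) (nat_lit 6595178063) (nat_lit 152) (nat_lit 18637663454) (nat_lit 228) (nat_lit 16318394930) (nat_lit 20) (nat_lit 5) (nat_lit 22) (nat_lit 5) (nat_lit 23) (nat_lit 5) (nat_lit 299) (nat_lit 277) (nat_lit 204)) (XT.lf (nat_lit 0) (nat_lit 27226850261) (nat_lit 152) (nat_lit 6408581654) (nat_lit 228) (nat_lit 10187464169) (nat_lit 20) (nat_lit 5) (nat_lit 22) (nat_lit 5) (nat_lit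 23) (nat_lit 5) (nat_lit 300) (nat_lit 277) (nat_lit 203))) (XT.nd (nat_lit 78) (nat_lit 76) (nat_lit 0) (XT.lf (nat_lit 0) (nat_lit 3219688919) (nat_lit 76) (nat_lit 39724655197) (nat_lit 152) (nat_lit 3313230582) (nat_lit 19) (nat_lit 5) (nat_lit 20) (nat_lit 5) (nat_lit 21) (nat_lit 4) (nat_lit 301) (nat_lit 277) (nat_lit 202)) (XT.lf (nat_lit 0) (nat_lit 4530545419) (nat_lit 152) (nat_lit 23574051869) (nat_lit 76) (nat_lit 20724514059) (nat_lit 18) (nat_lit 5) (nat_lit 20) (nat_lit 5) (nat_lit 19) (nat_lit 5) (nat_lit 302) (nat_lit 277) (nat_lit 201))))) (XT.nd (nat_lit 312) (nat_lit 228) (nat_lit 0) (XT.nd (nat_lit 156) (nat_lit 76) (nat_lit 0) (XT.nd (nat_lit 78) (nat_lit 152) (nat_lit 0) (XT.lf (nat_lit 0) (nat_lit 12816565213) (nat_lit 152) (nat_lit 2649103200) (nat_lit 76) (nat_lit 36134330702) (nat_lit 18) (nat_lit 5) (nat_lit 20) (nat_lit 5) (nat_lit 19) (nat_lit 5) (nat_lit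 303) (nat_lit 277) (nat_lit 200)) (XT.lf (nat_lit 0) (nat_lit 20990682129) (nat_lit 152) (nat_lit 1273816632) (nat_lit 228) (nat_lit 32288147871) (nat_lit 16) (nat_lit 5) (nat_lit 18) (nat_lit 5) (nat_lit 19) (nat_lit 5) (nat_lit 304) (nat_lit 277) (nat_lit 199))) (XT.nd (nat_lit 78) (nat_lit 76) (nat_lit 0) (XT.lf (nat_lit 0) (nat_lit 32874901652) (nat_lit 228) (nat_lit 11412610671) (nat_lit 76) (nat_lit 13421473314) (nat_lit 16) (nat_lit 5) (nat_lit 19) (nat_lit 5) (nat_lit 17) (nat_lit 4) (nat_lit 305) (nat_lit 277) (nat_lit 198)) (XT.lf (nat_lit 0) (nat_lit 13123444251) (nat_lit 76) (nat_lit 31554155178) (nat_lit 152) (nat_lit 16412765010) (nat_lit 15) (nat_lit 5) (nat_lit 16) (nat_lit 5) (nat_lit 17) (nat_lit 4) (nat_lit 306) (nat_lit 277) (nat_lit 197)))) (XT.nd (nat_lit 156) (nat_lit 0) (nat_lit 0) (XT.nd (nat_lit 78) (nat_lit 228) (nat_lit 0) (XT.lf (nat_lit 0) (nat_lit 40262998908)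 (nat_lit 76) (nat_lit 17468498082) (nat_lit 152) (nat_lit 6986206805) (nat_lit 15) (nat_lit 5) (nat_lit 16) (nat_lit 5) (nat_lit 17) (nat_lit 4) (nat_lit 307) (nat_lit 277) (nat_lit 196)) (XT.lf (nat_lit 0) (nat_lit 898542568) (nat_lit 152) (nat_lit 2152930873) (nat_lit 228) (nat_lit 65576274531) (nat_lit 12) (nat_lit 5) (nat_lit 14) (nat_lit 5) (nat_lit 15) (nat_lit 5) (nat_lit 308) (nat_lit 277) (nat_lit 195))) (XT.nd (nat_lit 78) (nat_lit 0) (nat_lit 0) (XT.lf (nat_lit 0) (nat_lit 14542040504) (nat_lit 228) (nat_lit 43679313951) (nat_lit 76) (nat_lit 14532546832) (nat_lit 12) (nat_lit 5) (nat_lit 15) (nat_lit 5) (nat_lit 13) (nat_lit 4) (nat_lit 309) (nat_lit 277) (nat_lit 194)) (XT.lf (nat_lit 0) (nat_lit 27003401000) (nat_lit 228) (nat_lit 17768910412) (nat_lit 76) (nat_lit 32433718201) (nat_lit 12) (nat_lit 5) (nat_lit 15) (nat_lit 5) (nat_lit 13) (nat_lit 4) (nat_lit 310) (nat_lit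 277) (nat_lit 193))))))))
noncomputable def xc78 : XT := (XT.nd (nat_lit 2262) (nat_lit 76) (nat_lit 0) (XT.nd (nat_lit 1092) (nat_lit 228) (nat_lit 0) (XT.nd (nat_lit 546) (nat_lit 152) (nat_lit 0) (XT.nd (nat_lit 234) (nat_lit 228) (nat_lit 0) (XT.nd (nat_lit 78) (nat_lit 0) (nat_lit 0) (XT.lf (nat_lit 0) (nat_lit 10744826102) (nat_lit 76) (nat_lit 29971209215) (nat_lit 152) (nat_lit 41277949796) (nat_lit 11) (nat_lit 5) (nat_lit 12) (nat_lit 5) (nat_lit 13) (nat_lit 4) (nat_lit 311) (nat_lit 277) (nat_lit 192)) (XT.nd (nat_lit 78) (nat_lit 0) (nat_lit 0) (XT.lf (nat_lit 0) (nat_lit 42543373383) (nat_lit 76) (nat_lit 13464227963) (nat_lit 152) (nat_lit 31118827681) (nat_lit 11) (nat_lit 5) (nat_lit 12) (nat_lit 5) (nat_lit 13) (nat_lit 4) (nat_lit 312) (nat_lit 277) (nat_lit 191)) (XT.lf (nat_lit 0) (nat_lit 72623742910) (nat_lit 152) (nat_lit 15895148541) (nat_lit 0) (nat_lit 4142482217)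 (nat_lit 11) (nat_lit 5) (nat_lit 13) (nat_lit 4) (nat_lit 11) (nat_lit 4) (nat_lit 313) (nat_lit 277) (nat_lit 190)))) (XT.nd (nat_lit 156) (nat_lit 76) (nat_lit 0) (XT.nd (nat_lit 78) (nat_lit 76) (nat_lit 0) (XT.lf (nat_lit 0) (nat_lit 15507770583) (nat_lit 76) (nat_lit 75780673323) (nat_lit 76) (nat_lit 7293133369) (nat_lit 10) (nat_lit 4) (nat_lit 11) (nat_lit 5) (nat_lit 11) (nat_lit 4) (nat_lit 314) (nat_lit 277) (nat_lit 189)) (XT.lf (nat_lit 0) (nat_lit 6589718271) (nat_lit 152) (nat_lit 54786740080) (nat_lit 76) (nat_lit 43551093205) (nat_lit 9) (nat_lit 5) (nat_lit 11) (nat_lit 5) (nat_lit 10) (nat_lit 4) (nat_lit 315) (nat_lit 277) (nat_lit 188))) (XT.nd (nat_lit 78) (nat_lit 76) (nat_lit 0) (XT.lf (nat_lit 0) (nat_lit 21186037183) (nat_lit 152) (nat_lit 24431780195) (nat_lit 76) (nat_lit 66148487061) (nat_lit 9) (nat_lit 5) (nat_lit 11) (nat_lit 5) (nat_lit 10) (nat_lit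 4) (nat_lit 316) (nat_lit 277) (nat_lit 187)) (XT.lf (nat_lit 0) (nat_lit 8785858460) (nat_lit 76) (nat_lit 28372593788) (nat_lit 152) (nat_lit 81977037616) (nat_lit 8) (nat_lit 5) (nat_lit 9) (nat_lit 5) (nat_lit 10) (nat_lit 4) (nat_lit 317) (nat_lit 277) (nat_lit 186))))) (XT.nd (nat_lit 234) (nat_lit 152) (nat_lit 0) (XT.nd (nat_lit 78) (nat_lit 0) (nat_lit 0) (XT.lf (nat_lit 0) (nat_lit 46045275163) (nat_lit 76) (nat_lit 9028577156) (nat_lit 152) (nat_lit 71967145759) (nat_lit 8) (nat_lit 5) (nat_lit 9) (nat_lit 5) (nat_lit 10) (nat_lit 4) (nat_lit 318) (nat_lit 277) (nat_lit 185)) (XT.nd (nat_lit 78) (nat_lit 0) (nat_lit 0) (XT.lf (nat_lit 0) (nat_lit 74705130509) (nat_lit 152) (nat_lit 49583680276) (nat_lit 0) (nat_lit 11267527527) (nat_lit 8) (nat_lit 5) (nat_lit 10) (nat_lit 4) (nat_lit 8) (nat_lit 4) (nat_lit 319) (nat_lit 277) (nat_lit 184)) (XT.lf (nat_lit 0) (nat_lit 96138957991)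 (nat_lit 152) (nat_lit 15897695719) (nat_lit 0) (nat_lit 32697691120) (nat_lit 8) (nat_lit 5) (nat_lit 10) (nat_lit 4) (nat_lit 8) (nat_lit 4) (nat_lit 320) (nat_lit 277) (nat_lit 183)))) (XT.nd (nat_lit 156) (nat_lit 76) (nat_lit 0) (XT.nd (nat_lit 78) (nat_lit 0) (nat_lit 0) (XT.lf (nat_lit 0) (nat_lit 21557376163) (nat_lit 76) (nat_lit 98246291791) (nat_lit 76) (nat_lit 34801632431) (nat_lit 7) (nat_lit 4) (nat_lit 8) (nat_lit 5) (nat_lit 8) (nat_lit 4) (nat_lit 321) (nat_lit 277) (nat_lit 182)) (XT.lf (nat_lit 0) (nat_lit 62908896929) (nat_lit 76) (nat_lit 82885120700) (nat_lit 76) (nat_lit 19437320147) (nat_lit 7) (nat_lit 4) (nat_lit 8) (nat_lit 5) (nat_lit 8) (nat_lit 4) (nat_lit 322) (nat_lit 277) (nat_lit 181))) (XT.nd (nat_lit 78) (nat_lit 76) (nat_lit 0) (XT.lf (nat_lit 0) (nat_lit 107564768142) (nat_lit 76) (nat_lit 66296782450) (nat_lit 76) (nat_lit 2846073384) (nat_lit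 7) (nat_lit 4) (nat_lit 8) (nat_lit 5) (nat_lit 8) (nat_lit 4) (nat_lit 323) (nat_lit 277) (nat_lit 180)) (XT.lf (nat_lit 0) (nat_lit 14316542593) (nat_lit 152) (nat_lit 33674993539) (nat_lit 76) (nat_lit 141081634949) (nat_lit 6) (nat_lit 5) (nat_lit 8) (nat_lit 5) (nat_lit 7) (nat_lit 4) (nat_lit 324) (nat_lit 277) (nat_lit 179)))))) (XT.nd (nat_lit 546) (nat_lit 76) (nat_lit 0) (XT.nd (nat_lit 234) (nat_lit 76) (nat_lit 0) (XT.nd (nat_lit 78) (nat_lit 0) (nat_lit 0) (XT.lf (nat_lit 0) (nat_lit 4792799189) (nat_lit 76) (nat_lit 28019073360) (nat_lit 152) (nat_lit 169601099941) (nat_lit 5) (nat_lit 5) (nat_lit 6) (nat_lit 5) (nat_lit 7) (nat_lit 4) (nat_lit 325) (nat_lit 277) (nat_lit 178)) (XT.nd (nat_lit 78) (nat_lit 0) (nat_lit 0) (XT.lf (nat_lit 0) (nat_lit 48249896563) (nat_lit 76) (nat_lit 5455921296) (nat_lit 152) (nat_lit 163040622685) (nat_lit 5) (nat_lit 5) (nat_lit 6) (nat_lit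 5) (nat_lit 7) (nat_lit 4) (nat_lit 326) (nat_lit 277) (nat_lit 177)) (XT.lf (nat_lit 0) (nat_lit 76724470460) (nat_lit 152) (nat_lit 137500967640) (nat_lit 0) (nat_lit 17964894137) (nat_lit 5) (nat_lit 5) (nat_lit 7) (nat_lit 4) (nat_lit 5) (nat_lit 4) (nat_lit 327) (nat_lit 277) (nat_lit 176)))) (XT.nd (nat_lit 156) (nat_lit 76) (nat_lit 0) (XT.nd (nat_lit 78) (nat_lit 0) (nat_lit 0) (XT.lf (nat_lit 0) (nat_lit 101724800479) (nat_lit 152) (nat_lit 104170330085) (nat_lit 0) (nat_lit 42963391299) (nat_lit 5) (nat_lit 5) (nat_lit 7) (nat_lit 4) (nat_lit 5) (nat_lit 4) (nat_lit 328) (nat_lit 277) (nat_lit 175)) (XT.lf (nat_lit 0) (nat_lit 128723742981) (nat_lit 152) (nat_lit 68175901389) (nat_lit 0) (nat_lit 69960636712) (nat_lit 5) (nat_lit 5) (nat_lit 7) (nat_lit 4) (nat_lit 5) (nat_lit 4) (nat_lit 329) (nat_lit 277) (nat_lit 174))) (XT.nd (nat_lit 78) (nat_lit 76) (nat_lit 0) (XT.lf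 (nat_lit 0) (nat_lit 157881291700) (nat_lit 152) (nat_lit 29304381234) (nat_lit 0) (nat_lit 99116614053) (nat_lit 5) (nat_lit 5) (nat_lit 7) (nat_lit 4) (nat_lit 5) (nat_lit 4) (nat_lit 330) (nat_lit 277) (nat_lit 173)) (XT.lf (nat_lit 0) (nat_lit 13342001057) (nat_lit 76) (nat_lit 176349106499) (nat_lit 76) (nat_lit 117582973871) (nat_lit 4) (nat_lit 4) (nat_lit 5) (nat_lit 5) (nat_lit 5) (nat_lit 4) (nat_lit 331) (nat_lit 277) (nat_lit 172))))) (XT.nd (nat_lit 312) (nat_lit 76) (nat_lit 0) (XT.nd (nat_lit 156) (nat_lit 0) (nat_lit 0) (XT.nd (nat_lit 78) (nat_lit 0) (nat_lit 0) (XT.lf (nat_lit 0) (nat_lit 61064437387) (nat_lit 76) (nat_lit 163781329140) (nat_lit 76) (nat_lit 105013849308) (nat_lit 4) (nat_lit 4) (nat_lit 5) (nat_lit 5) (nat_lit 5) (nat_lit 4) (nat_lit 332) (nat_lit 277) (nat_lit 171)) (XT.lf (nat_lit 0) (nat_lit 112602610593) (nat_lit 76) (nat_lit 150209098854) (nat_lit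 76) (nat_lit 91440371611) (nat_lit 4) (nat_lit 4) (nat_lit 5) (nat_lit 5) (nat_lit 5) (nat_lit 4) (nat_lit 333) (nat_lit 277) (nat_lit 170))) (XT.nd (nat_lit 78) (nat_lit 0) (nat_lit 0) (XT.lf (nat_lit 0) (nat_lit 168261932073) (nat_lit 76) (nat_lit 135551987611) (nat_lit 76) (nat_lit 76782105357) (nat_lit 4) (nat_lit 4) (nat_lit 5) (nat_lit 5) (nat_lit 5) (nat_lit 4) (nat_lit 334) (nat_lit 277) (nat_lit 169)) (XT.lf (nat_lit 0) (nat_lit 228372234841) (nat_lit 76) (nat_lit 119723138455) (nat_lit 76) (nat_lit 60952186747) (nat_lit 4) (nat_lit 4) (nat_lit 5) (nat_lit 5) (nat_lit 5) (nat_lit 4) (nat_lit 335) (nat_lit 277) (nat_lit 168)))) (XT.nd (nat_lit 156) (nat_lit 76) (nat_lit 0) (XT.nd (nat_lit 78) (nat_lit 0) (nat_lit 0) (XT.lf (nat_lit 0) (nat_lit 293289728101) (nat_lit 76) (nat_lit 102628750798) (nat_lit 76) (nat_lit 43856808855) (nat_lit 4) (nat_lit 4) (nat_lit 5) (nat_lit 5)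 (nat_lit 5) (nat_lit 4) (nat_lit 336) (nat_lit 277) (nat_lit 167)) (XT.lf (nat_lit 0) (nat_lit 363399108108) (nat_lit 76) (nat_lit 84167524565) (nat_lit 76) (nat_lit 25394665737) (nat_lit 4) (nat_lit 4) (nat_lit 5) (nat_lit 5) (nat_lit 5) (nat_lit 4) (nat_lit 337) (nat_lit 277) (nat_lit 166))) (XT.nd (nat_lit 78) (nat_lit 76) (nat_lit 0) (XT.lf (nat_lit 0) (nat_lit 439115837855) (nat_lit 76) (nat_lit 64230059897) (nat_lit 76) (nat_lit 5456352103) (nat_lit 4) (nat_lit 4) (nat_lit 5) (nat_lit 5) (nat_lit 5) (nat_lit 4) (nat_lit 338) (nat_lit 277) (nat_lit 165)) (XT.lf (nat_lit 0) (nat_lit 15272084133) (nat_lit 152) (nat_lit 27008558878) (nat_lit 76) (nat_lit 505198959097) (nat_lit 3) (nat_lit 5) (nat_lit 5) (nat_lit 5) (nat_lit 4) (nat_lit 4) (nat_lit 339) (nat_lit 277) (nat_lit 164))))))) (XT.nd (nat_lit 1170) (nat_lit 0) (nat_lit 0) (XT.nd (nat_lit 546) (nat_lit 0) (nat_lit 0) (XT.nd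 (nat_lit 234) (nat_lit 0) (nat_lit 0) (XT.nd (nat_lit 78) (nat_lit 0) (nat_lit 0) (XT.lf (nat_lit 0) (nat_lit 19937939852) (nat_lit 76) (nat_lit 17904926292) (nat_lit 152) (nat_lit 551358630593) (nat_lit 2) (nat_lit 5) (nat_lit 3) (nat_lit 5) (nat_lit 4) (nat_lit 4) (nat_lit 340) (nat_lit 277) (nat_lit 163)) (XT.nd (nat_lit 78) (nat_lit 0) (nat_lit 0) (XT.lf (nat_lit 0) (nat_lit 63178828287) (nat_lit 152) (nat_lit 562248851052) (nat_lit 0) (nat_lit 8756702672) (nat_lit 2) (nat_lit 5) (nat_lit 4) (nat_lit 4) (nat_lit 2) (nat_lit 4) (nat_lit 341) (nat_lit 277) (nat_lit 162)) (XT.lf (nat_lit 0) (nat_lit 91006131618) (nat_lit 152) (nat_lit 555139181589) (nat_lit 0) (nat_lit 36583428209) (nat_lit 2) (nat_lit 5) (nat_lit 4) (nat_lit 4) (nat_lit 2) (nat_lit 4) (nat_lit 342) (nat_lit 277) (nat_lit 161)))) (XT.nd (nat_lit 156) (nat_lit 0) (nat_lit 0) (XT.nd (nat_lit 78) (nat_lit 0) (nat_lit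 0) (XT.lf (nat_lit 0) (nat_lit 121059064765) (nat_lit 152) (nat_lit 547461803215) (nat_lit 0) (nat_lit 66635826363) (nat_lit 2) (nat_lit 5) (nat_lit 4) (nat_lit 4) (nat_lit 2) (nat_lit 4) (nat_lit 343) (nat_lit 277) (nat_lit 160)) (XT.lf (nat_lit 0) (nat_lit 153515719184) (nat_lit 152) (nat_lit 539171220354) (nat_lit 0) (nat_lit 99091985418) (nat_lit 2) (nat_lit 5) (nat_lit 4) (nat_lit 4) (nat_lit 2) (nat_lit 4) (nat_lit 344) (nat_lit 277) (nat_lit 159))) (XT.nd (nat_lit 78) (nat_lit 0) (nat_lit 0) (XT.lf (nat_lit 0) (nat_lit 188568430606) (nat_lit 152) (nat_lit 530218303625) (nat_lit 0) (nat_lit 134144238169) (nat_lit 2) (nat_lit 5) (nat_lit 4) (nat_lit 4) (nat_lit 2) (nat_lit 4) (nat_lit 345) (nat_lit 277) (nat_lit 158)) (XT.lf (nat_lit 0) (nat_lit 226424918802) (nat_lit 152) (nat_lit 520549998708) (nat_lit 0) (nat_lit 172000301670) (nat_lit 2) (nat_lit 5) (nat_lit 4) (nat_lit 4)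 (nat_lit 2) (nat_lit 4) (nat_lit 346) (nat_lit 277) (nat_lit 157))))) (XT.nd (nat_lit 312) (nat_lit 0) (nat_lit 0) (XT.nd (nat_lit 156) (nat_lit 0) (nat_lit 0) (XT.nd (nat_lit 78) (nat_lit 0) (nat_lit 0) (XT.lf (nat_lit 0) (nat_lit 267309518516) (nat_lit 152) (nat_lit 510109011944) (nat_lit 0) (nat_lit 212884508148) (nat_lit 2) (nat_lit 5) (nat_lit 4) (nat_lit 4) (nat_lit 2) (nat_lit 4) (nat_lit 347) (nat_lit 277) (nat_lit 156)) (XT.lf (nat_lit 0) (nat_lit 311464508858) (nat_lit 152) (nat_lit 498833470818) (nat_lit 0) (nat_lit 257039134383) (nat_lit 2) (nat_lit 5) (nat_lit 4) (nat_lit 4) (nat_lit 2) (nat_lit 4) (nat_lit 348) (nat_lit 277) (nat_lit 155))) (XT.nd (nat_lit 78) (nat_lit 0) (nat_lit 0) (XT.lf (nat_lit 0) (nat_lit 359151549030) (nat_lit 152) (nat_lit 486656557309) (nat_lit 0) (nat_lit 304725837419) (nat_lit 2) (nat_lit 5) (nat_lit 4) (nat_lit 4) (nat_lit 2) (nat_lit 4) (nat_lit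 349) (nat_lit 277) (nat_lit 154)) (XT.lf (nat_lit 0) (nat_lit 410653228900) (nat_lit 152) (nat_lit 473506111929) (nat_lit 0) (nat_lit 356227205125) (nat_lit 2) (nat_lit 5) (nat_lit 4) (nat_lit 4) (nat_lit 2) (nat_lit 4) (nat_lit 350) (nat_lit 277) (nat_lit 153)))) (XT.nd (nat_lit 156) (nat_lit 0) (nat_lit 0) (XT.nd (nat_lit 78) (nat_lit 0) (nat_lit 0) (XT.lf (nat_lit 0) (nat_lit 466274743608) (nat_lit 152) (nat_lit 459304206114) (nat_lit 0) (nat_lit 411848430793) (nat_lit 2) (nat_lit 5) (nat_lit 4) (nat_lit 4) (nat_lit 2) (nat_lit 4) (nat_lit 351) (nat_lit 277) (nat_lit 152)) (XT.lf (nat_lit 0) (nat_lit 526345702130) (nat_lit 152) (nat_lit 443966680422) (nat_lit 0) (nat_lit 471919121684) (nat_lit 2) (nat_lit 5) (nat_lit 4) (nat_lit 4) (nat_lit 2) (nat_lit 4) (nat_lit 352) (nat_lit 277) (nat_lit 151))) (XT.nd (nat_lit 78) (nat_lit 0) (nat_lit 0) (XT.lf (nat_lit 0) (nat_lit 591222080515)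 (nat_lit 152) (nat_lit 427402645810) (nat_lit 0) (nat_lit 536795252265) (nat_lit 2) (nat_lit 5) (nat_lit 4) (nat_lit 4) (nat_lit 2) (nat_lit 4) (nat_lit 353) (nat_lit 277) (nat_lit 150)) (XT.lf (nat_lit 0) (nat_lit 661288331378) (nat_lit 152) (nat_lit 409513945038) (nat_lit 0) (nat_lit 606861273678) (nat_lit 2) (nat_lit 5) (nat_lit 4) (nat_lit 4) (nat_lit 2) (nat_lit 4) (nat_lit 354) (nat_lit 277) (nat_lit 149)))))) (XT.nd (nat_lit 546) (nat_lit 0) (nat_lit 0) (XT.nd (nat_lit 234) (nat_lit 0) (nat_lit 0) (XT.nd (nat_lit 78) (nat_lit 0) (nat_lit 0) (XT.lf (nat_lit 0) (nat_lit 736959662130) (nat_lit 152) (nat_lit 390194570990) (nat_lit 0) (nat_lit 682532391977) (nat_lit 2) (nat_lit 5) (nat_lit 4) (nat_lit 4) (nat_lit 2) (nat_lit 4) (nat_lit 355) (nat_lit 277) (nat_lit 148)) (XT.nd (nat_lit 78) (nat_lit 0) (nat_lit 0) (XT.lf (nat_lit 0) (nat_lit 818684495472) (nat_lit 152) (nat_lit 369330038485)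 (nat_lit 0) (nat_lit 764257028603) (nat_lit 2) (nat_lit 5) (nat_lit 4) (nat_lit 4) (nat_lit 2) (nat_lit 4) (nat_lit 356) (nat_lit 277) (nat_lit 147)) (XT.lf (nat_lit 0) (nat_lit 906947126713) (nat_lit 152) (nat_lit 346796705850) (nat_lit 0) (nat_lit 852519477700) (nat_lit 2) (nat_lit 5) (nat_lit 4) (nat_lit 4) (nat_lit 2) (nat_lit 4) (nat_lit 357) (nat_lit 277) (nat_lit 146)))) (XT.nd (nat_lit 156) (nat_lit 0) (nat_lit 0) (XT.nd (nat_lit 78) (nat_lit 0) (nat_lit 0) (XT.lf (nat_lit 0) (nat_lit 1002270593668) (nat_lit 152) (nat_lit 322461042225) (nat_lit 0) (nat_lit 947842776002) (nat_lit 2) (nat_lit 5) (nat_lit 4) (nat_lit 4) (nat_lit 2) (nat_lit 4) (nat_lit 358) (nat_lit 277) (nat_lit 145)) (XT.lf (nat_lit 0) (nat_lit 1105219776141) (nat_lit 152) (nat_lit 296178836270) (nat_lit 0) (nat_lit 1050791802315) (nat_lit 2) (nat_lit 5) (nat_lit 4) (nat_lit 4) (nat_lit 2) (nat_lit 4) (nat_lit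 359) (nat_lit 277) (nat_lit 144))) (XT.nd (nat_lit 78) (nat_lit 0) (nat_lit 0) (XT.lf (nat_lit 0) (nat_lit 1216404743360) (nat_lit 152) (nat_lit 267794341579) (nat_lit 0) (nat_lit 1161976624943) (nat_lit 2) (nat_lit 5) (nat_lit 4) (nat_lit 4) (nat_lit 2) (nat_lit 4) (nat_lit 360) (nat_lit 277) (nat_lit 143)) (XT.lf (nat_lit 0) (nat_lit 1336484369207) (nat_lit 152) (nat_lit 237139353739) (nat_lit 0) (nat_lit 1282056116909) (nat_lit 2) (nat_lit 5) (nat_lit 4) (nat_lit 4) (nat_lit 2) (nat_lit 4) (nat_lit 361) (nat_lit 277) (nat_lit 142))))) (XT.nd (nat_lit 34242) (nat_lit 0) (nat_lit 3116) (XT.nd (nat_lit 34086) (nat_lit 0) (nat_lit 3040) (XT.nd (nat_lit 78) (nat_lit 0) (nat_lit 0) (XT.lf (nat_lit 0) (nat_lit 1466170236649) (nat_lit 152) (nat_lit 204032213564) (nat_lit 0) (nat_lit 1411741860386) (nat_lit 2) (nat_lit 5) (nat_lit 4) (nat_lit 4) (nat_lit 2) (nat_lit 4) (nat_lit 362) (nat_lit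 277) (nat_lit 141)) (XT.lf (nat_lit 0) (nat_lit 1606230854531) (nat_lit 152) (nat_lit 168276730591) (nat_lit 0) (nat_lit 1551802363486) (nat_lit 2) (nat_lit 5) (nat_lit 4) (nat_lit 4) (nat_lit 2) (nat_lit 4) (nat_lit 363) (nat_lit 277) (nat_lit 140))) (XT.nd (nat_lit 78) (nat_lit 0) (nat_lit 0) (XT.lf (nat_lit 0) (nat_lit 3444494553) (nat_lit 532) (nat_lit 2405257170) (nat_lit 532) (nat_lit 2405257170) (nat_lit 42) (nat_lit 3) (nat_lit 49) (nat_lit 3) (nat_lit 49) (nat_lit 5) (nat_lit 278) (nat_lit 278) (nat_lit 224)) (XT.lf (nat_lit 76) (nat_lit 2711961882) (nat_lit 0) (nat_lit 4739779316) (nat_lit 532) (nat_lit 9694866615) (nat_lit 43) (nat_lit 5) (nat_lit 42) (nat_lit 3) (nat_lit 49) (nat_lit 5) (nat_lit 279) (nat_lit 278) (nat_lit 223)))) (XT.nd (nat_lit 156) (nat_lit 0) (nat_lit 76) (XT.nd (nat_lit 78) (nat_lit 0) (nat_lit 0) (XT.lf (nat_lit 0) (nat_lit 8238962460) (nat_lit 456)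 (nat_lit 6798773872) (nat_lit 532) (nat_lit 2782116360) (nat_lit 43) (nat_lit 5) (nat_lit 49) (nat_lit 5) (nat_lit 50) (nat_lit 5) (nat_lit 280) (nat_lit 278) (nat_lit 222)) (XT.lf (nat_lit 76) (nat_lit 1380206895) (nat_lit 0) (nat_lit 7844634182) (nat_lit 532) (nat_lit 9311339089) (nat_lit 44) (nat_lit 5) (nat_lit 43) (nat_lit 5) (nat_lit 50) (nat_lit 5) (nat_lit 281) (nat_lit 278) (nat_lit 221))) (XT.nd (nat_lit 78) (nat_lit 0) (nat_lit 0) (XT.lf (nat_lit 0) (nat_lit 10459206367) (nat_lit 456) (nat_lit 8712900630) (nat_lit 532) (nat_lit 124209177) (nat_lit 44) (nat_lit 5) (nat_lit 50) (nat_lit 5) (nat_lit 51) (nat_lit 5) (nat_lit 282) (nat_lit 278) (nat_lit 220)) (XT.lf (nat_lit 76) (nat_lit 197755522) (nat_lit 0) (nat_lit 11785233066) (nat_lit 532) (nat_lit 8119087396) (nat_lit 45) (nat_lit 5) (nat_lit 44) (nat_lit 5) (nat_lit 51) (nat_lit 5) (nat_lit 283) (nat_lit 278) (nat_lit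 219))))))))
noncomputable def xc79 : XT := (XT.nd (nat_lit 2262) (nat_lit 684) (nat_lit 0) (XT.nd (nat_lit 1092) (nat_lit 988) (nat_lit 0) (XT.nd (nat_lit 546) (nat_lit 608) (nat_lit 0) (XT.nd (nat_lit 234) (nat_lit 532) (nat_lit 0) (XT.nd (nat_lit 78) (nat_lit 380) (nat_lit 0) (XT.lf (nat_lit 76) (nat_lit 10303130832) (nat_lit 0) (nat_lit 3546917378) (nat_lit 532) (nat_lit 7104599811) (nat_lit 45) (nat_lit 5) (nat_lit 44) (nat_lit 5) (nat_lit 51) (nat_lit 5) (nat_lit 284) (nat_lit 278) (nat_lit 218)) (XT.nd (nat_lit 78) (nat_lit 456) (nat_lit 0) (XT.lf (nat_lit 0) (nat_lit 15979619729) (nat_lit 456) (nat_lit 801178051) (nat_lit 76) (nat_lit 5085633143) (nat_lit 45) (nat_lit 5) (nat_lit 51) (nat_lit 5) (nat_lit 46) (nat_lit 5) (nat_lit 285) (nat_lit 278) (nat_lit 217)) (XT.lf (nat_lit 0) (nat_lit 10244563162) (nat_lit 456) (nat_lit 8359122367) (nat_lit 532) (nat_lit 4221593307) (nat_lit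 39) (nat_lit 5) (nat_lit 45) (nat_lit 5) (nat_lit 46) (nat_lit 5) (nat_lit 286) (nat_lit 278) (nat_lit 216)))) (XT.nd (nat_lit 156) (nat_lit 228) (nat_lit 0) (XT.nd (nat_lit 78) (nat_lit 304) (nat_lit 0) (XT.lf (nat_lit 0) (nat_lit 21464262443) (nat_lit 532) (nat_lit 1671636765) (nat_lit 76) (nat_lit 722857267) (nat_lit 39) (nat_lit 5) (nat_lit 46) (nat_lit 5) (nat_lit 40) (nat_lit 5) (nat_lit 287) (nat_lit 278) (nat_lit 215)) (XT.lf (nat_lit 0) (nat_lit 66275261) (nat_lit 304) (nat_lit 14539719225) (nat_lit 76) (nat_lit 10332455637) (nat_lit 35) (nat_lit 5) (nat_lit 39) (nat_lit 5) (nat_lit 36) (nat_lit 5) (nat_lit 288) (nat_lit 278) (nat_lit 214))) (XT.nd (nat_lit 78) (nat_lit 228) (nat_lit 0) (XT.lf (nat_lit 0) (nat_lit 2629127196) (nat_lit 304) (nat_lit 2647595029) (nat_lit 76) (nat_lit 20820093296) (nat_lit 35) (nat_lit 5) (nat_lit 39) (nat_lit 5) (nat_lit 36) (nat_lit 5) (nat_lit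 289) (nat_lit 278) (nat_lit 213)) (XT.lf (nat_lit 0) (nat_lit 5765519362) (nat_lit 304) (nat_lit 16730279580) (nat_lit 76) (nat_lit 4822606085) (nat_lit 32) (nat_lit 5) (nat_lit 36) (nat_lit 5) (nat_lit 33) (nat_lit 5) (nat_lit 290) (nat_lit 278) (nat_lit 212))))) (XT.nd (nat_lit 234) (nat_lit 380) (nat_lit 0) (XT.nd (nat_lit 78) (nat_lit 228) (nat_lit 0) (XT.lf (nat_lit 0) (nat_lit 9353289767) (nat_lit 304) (nat_lit 3750333139) (nat_lit 76) (nat_lit 15518094623) (nat_lit 32) (nat_lit 5) (nat_lit 36) (nat_lit 5) (nat_lit 33) (nat_lit 5) (nat_lit 291) (nat_lit 278) (nat_lit 211)) (XT.nd (nat_lit 78) (nat_lit 0) (nat_lit 0) (XT.lf (nat_lit 0) (nat_lit 10796287388) (nat_lit 228) (nat_lit 2681388860) (nat_lit 304) (nat_lit 16531681956) (nat_lit 29) (nat_lit 5) (nat_lit 32) (nat_lit 5) (nat_lit 33) (nat_lit 5) (nat_lit 292) (nat_lit 278) (nat_lit 210)) (XT.lf (nat_lit 0) (nat_lit 18233803695)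 (nat_lit 304) (nat_lit 5001014470) (nat_lit 76) (nat_lit 8249077216) (nat_lit 29) (nat_lit 5) (nat_lit 33) (nat_lit 5) (nat_lit 30) (nat_lit 5) (nat_lit 293) (nat_lit 278) (nat_lit 209)))) (XT.nd (nat_lit 156) (nat_lit 228) (nat_lit 0) (XT.nd (nat_lit 78) (nat_lit 0) (nat_lit 0) (XT.lf (nat_lit 0) (nat_lit 10807663564) (nat_lit 152) (nat_lit 12883408422) (nat_lit 228) (nat_lit 9359697839) (nat_lit 27) (nat_lit 5) (nat_lit 29) (nat_lit 5) (nat_lit 30) (nat_lit 5) (nat_lit 294) (nat_lit 278) (nat_lit 208)) (XT.lf (nat_lit 0) (nat_lit 28154395582) (nat_lit 152) (nat_lit 1558737333) (nat_lit 228) (nat_lit 5019628808) (nat_lit 27) (nat_lit 5) (nat_lit 29) (nat_lit 5) (nat_lit 30) (nat_lit 5) (nat_lit 295) (nat_lit 278) (nat_lit 207))) (XT.nd (nat_lit 78) (nat_lit 0) (nat_lit 0) (XT.lf (nat_lit 0) (nat_lit 201031428) (nat_lit 228) (nat_lit 25911690115) (nat_lit 76) (nat_lit 10395910994) (nat_lit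 24) (nat_lit 5) (nat_lit 27) (nat_lit 5) (nat_lit 25) (nat_lit 5) (nat_lit 296) (nat_lit 278) (nat_lit 206)) (XT.lf (nat_lit 0) (nat_lit 5785343970) (nat_lit 228) (nat_lit 9078318277) (nat_lit 76) (nat_lit 23535124552) (nat_lit 24) (nat_lit 5) (nat_lit 27) (nat_lit 5) (nat_lit 25) (nat_lit 5) (nat_lit 297) (nat_lit 278) (nat_lit 205)))))) (XT.nd (nat_lit 546) (nat_lit 532) (nat_lit 0) (XT.nd (nat_lit 234) (nat_lit 152) (nat_lit 0) (XT.nd (nat_lit 78) (nat_lit 152) (nat_lit 0) (XT.lf (nat_lit 0) (nat_lit 9570293006) (nat_lit 152) (nat_lit 2469021648) (nat_lit 228) (nat_lit 28383023624) (nat_lit 22) (nat_lit 5) (nat_lit 24) (nat_lit 5) (nat_lit 25) (nat_lit 5) (nat_lit 298) (nat_lit 278) (nat_lit 204)) (XT.nd (nat_lit 78) (nat_lit 152) (nat_lit 0) (XT.lf (nat_lit 0) (nat_lit 19303800998) (nat_lit 228) (nat_lit 12640256345) (nat_lit 76) (nat_lit 10622917293) (nat_lit 22) (nat_lit 5) (nat_lit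 25) (nat_lit 5) (nat_lit 23) (nat_lit 5) (nat_lit 299) (nat_lit 278) (nat_lit 203)) (XT.lf (nat_lit 0) (nat_lit 7320919958) (nat_lit 152) (nat_lit 20062220214) (nat_lit 228) (nat_lit 17481361590) (nat_lit 20) (nat_lit 5) (nat_lit 22) (nat_lit 5) (nat_lit 23) (nat_lit 5) (nat_lit 300) (nat_lit 278) (nat_lit 202)))) (XT.nd (nat_lit 156) (nat_lit 76) (nat_lit 0) (XT.nd (nat_lit 78) (nat_lit 76) (nat_lit 0) (XT.lf (nat_lit 0) (nat_lit 29588449810) (nat_lit 152) (nat_lit 6859734559) (nat_lit 228) (nat_lit 10870512289) (nat_lit 20) (nat_lit 5) (nat_lit 22) (nat_lit 5) (nat_lit 23) (nat_lit 5) (nat_lit 301) (nat_lit 278) (nat_lit 201)) (XT.lf (nat_lit 0) (nat_lit 3664405958) (nat_lit 76) (nat_lit 42834243665) (nat_lit 152) (nat_lit 3449773302) (nat_lit 19) (nat_lit 5) (nat_lit 20) (nat_lit 5) (nat_lit 21) (nat_lit 4) (nat_lit 302) (nat_lit 278) (nat_lit 200))) (XT.nd (nat_lit 78) (nat_lit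 0) (nat_lit 0) (XT.lf (nat_lit 0) (nat_lit 5006032431) (nat_lit 152) (nat_lit 25280523363) (nat_lit 76) (nat_lit 22439620558) (nat_lit 18) (nat_lit 5) (nat_lit 20) (nat_lit 5) (nat_lit 19) (nat_lit 5) (nat_lit 303) (nat_lit 278) (nat_lit 199)) (XT.lf (nat_lit 0) (nat_lit 13946560225) (nat_lit 152) (nat_lit 2694871590) (nat_lit 76) (nat_lit 39077989543) (nat_lit 18) (nat_lit 5) (nat_lit 20) (nat_lit 5) (nat_lit 19) (nat_lit 5) (nat_lit 304) (nat_lit 278) (nat_lit 198))))) (XT.nd (nat_lit 312) (nat_lit 304) (nat_lit 0) (XT.nd (nat_lit 156) (nat_lit 76) (nat_lit 0) (XT.nd (nat_lit 78) (nat_lit 0) (nat_lit 0) (XT.lf (nat_lit 0) (nat_lit 22831889987) (nat_lit 152) (nat_lit 1314580133) (nat_lit 228) (nat_lit 34762134342) (nat_lit 16) (nat_lit 5) (nat_lit 18) (nat_lit 5) (nat_lit 19) (nat_lit 5) (nat_lit 305) (nat_lit 278) (nat_lit 197)) (XT.lf (nat_lit 0) (nat_lit 35599599266) (nat_lit 228)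 (nat_lit 12169381816) (nat_lit 76) (nat_lit 14548971983) (nat_lit 16) (nat_lit 5) (nat_lit 19) (nat_lit 5) (nat_lit 17) (nat_lit 4) (nat_lit 306) (nat_lit 278) (nat_lit 196))) (XT.nd (nat_lit 78) (nat_lit 0) (nat_lit 0) (XT.lf (nat_lit 0) (nat_lit 14325602115) (nat_lit 76) (nat_lit 34017557922) (nat_lit 152) (nat_lit 17626963320) (nat_lit 15) (nat_lit 5) (nat_lit 16) (nat_lit 5) (nat_lit 17) (nat_lit 4) (nat_lit 307) (nat_lit 278) (nat_lit 195)) (XT.lf (nat_lit 0) (nat_lit 43625040973) (nat_lit 76) (nat_lit 18809561568) (nat_lit 152) (nat_lit 7453600674) (nat_lit 15) (nat_lit 5) (nat_lit 16) (nat_lit 5) (nat_lit 17) (nat_lit 4) (nat_lit 308) (nat_lit 278) (nat_lit 194)))) (XT.nd (nat_lit 156) (nat_lit 76) (nat_lit 0) (XT.nd (nat_lit 78) (nat_lit 0) (nat_lit 0) (XT.lf (nat_lit 0) (nat_lit 1112455296) (nat_lit 152) (nat_lit 2267038257) (nat_lit 228) (nat_lit 70731633459) (nat_lit 12)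 (nat_lit 5) (nat_lit 14) (nat_lit 5) (nat_lit 15) (nat_lit 5) (nat_lit 309) (nat_lit 278) (nat_lit 193)) (XT.lf (nat_lit 0) (nat_lit 15784385405) (nat_lit 228) (nat_lit 47037110769) (nat_lit 76) (nat_lit 15746279591) (nat_lit 12) (nat_lit 5) (nat_lit 15) (nat_lit 5) (nat_lit 13) (nat_lit 4) (nat_lit 310) (nat_lit 278) (nat_lit 192))) (XT.nd (nat_lit 78) (nat_lit 76) (nat_lit 0) (XT.lf (nat_lit 0) (nat_lit 29236804248) (nat_lit 228) (nat_lit 19063989635) (nat_lit 76) (nat_lit 35075757336) (nat_lit 12) (nat_lit 5) (nat_lit 15) (nat_lit 5) (nat_lit 13) (nat_lit 4) (nat_lit 311) (nat_lit 278) (nat_lit 191)) (XT.lf (nat_lit 0) (nat_lit 11727644949) (nat_lit 76) (nat_lit 32316350988) (nat_lit 152) (nat_lit 44503751659) (nat_lit 11) (nat_lit 5) (nat_lit 12) (nat_lit 5) (nat_lit 13) (nat_lit 4) (nat_lit 312) (nat_lit 278) (nat_lit 190))))))) (XT.nd (nat_lit 1170) (nat_lit 228) (nat_lit 0) (XT.nd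 (nat_lit 546) (nat_lit 228) (nat_lit 0) (XT.nd (nat_lit 234) (nat_lit 152) (nat_lit 0) (XT.nd (nat_lit 78) (nat_lit 76) (nat_lit 0) (XT.lf (nat_lit 0) (nat_lit 46060947659) (nat_lit 76) (nat_lit 14492704197) (nat_lit 152) (nat_lit 33537561561) (nat_lit 11) (nat_lit 5) (nat_lit 12) (nat_lit 5) (nat_lit 13) (nat_lit 4) (nat_lit 313) (nat_lit 278) (nat_lit 189)) (XT.nd (nat_lit 78) (nat_lit 76) (nat_lit 0) (XT.lf (nat_lit 0) (nat_lit 78495320792) (nat_lit 152) (nat_lit 17057256706) (nat_lit 0) (nat_lit 4516684251) (nat_lit 11) (nat_lit 5) (nat_lit 13) (nat_lit 4) (nat_lit 11) (nat_lit 4) (nat_lit 314) (nat_lit 278) (nat_lit 188)) (XT.lf (nat_lit 0) (nat_lit 16855123701) (nat_lit 76) (nat_lit 81796072287) (nat_lit 76) (nat_lit 7812052292) (nat_lit 10) (nat_lit 4) (nat_lit 11) (nat_lit 5) (nat_lit 11) (nat_lit 4) (nat_lit 315) (nat_lit 278) (nat_lit 187)))) (XT.nd (nat_lit 156) (nat_lit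 76) (nat_lit 0) (XT.nd (nat_lit 78) (nat_lit 0) (nat_lit 0) (XT.lf (nat_lit 0) (nat_lit 7173658332) (nat_lit 152) (nat_lit 59067795342) (nat_lit 76) (nat_lit 47075691508) (nat_lit 9) (nat_lit 5) (nat_lit 11) (nat_lit 5) (nat_lit 10) (nat_lit 4) (nat_lit 316) (nat_lit 278) (nat_lit 186)) (XT.lf (nat_lit 0) (nat_lit 22933478121) (nat_lit 152) (nat_lit 26291985626) (nat_lit 76) (nat_lit 71477876069) (nat_lit 9) (nat_lit 5) (nat_lit 11) (nat_lit 5) (nat_lit 10) (nat_lit 4) (nat_lit 317) (nat_lit 278) (nat_lit 185))) (XT.nd (nat_lit 78) (nat_lit 0) (nat_lit 0) (XT.lf (nat_lit 0) (nat_lit 9580675844) (nat_lit 76) (nat_lit 30601328733) (nat_lit 152) (nat_lit 88480194809) (nat_lit 8) (nat_lit 5) (nat_lit 9) (nat_lit 5) (nat_lit 10) (nat_lit 4) (nat_lit 318) (nat_lit 278) (nat_lit 184)) (XT.lf (nat_lit 0) (nat_lit 49814034867) (nat_lit 76) (nat_lit 9712833182) (nat_lit 152) (nat_lit 77673586108)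 (nat_lit 8) (nat_lit 5) (nat_lit 9) (nat_lit 5) (nat_lit 10) (nat_lit 4) (nat_lit 319) (nat_lit 278) (nat_lit 183))))) (XT.nd (nat_lit 312) (nat_lit 152) (nat_lit 0) (XT.nd (nat_lit 156) (nat_lit 76) (nat_lit 0) (XT.nd (nat_lit 78) (nat_lit 0) (nat_lit 0) (XT.lf (nat_lit 0) (nat_lit 80726005924) (nat_lit 152) (nat_lit 53468849854) (nat_lit 0) (nat_lit 12202381326) (nat_lit 8) (nat_lit 5) (nat_lit 10) (nat_lit 4) (nat_lit 8) (nat_lit 4) (nat_lit 320) (nat_lit 278) (nat_lit 182)) (XT.lf (nat_lit 0) (nat_lit 103871245902) (nat_lit 152) (nat_lit 17094025410) (nat_lit 0) (nat_lit 35344480110) (nat_lit 8) (nat_lit 5) (nat_lit 10) (nat_lit 4) (nat_lit 8) (nat_lit 4) (nat_lit 321) (nat_lit 278) (nat_lit 181))) (XT.nd (nat_lit 78) (nat_lit 0) (nat_lit 0) (XT.lf (nat_lit 0) (nat_lit 23355541186) (nat_lit 76) (nat_lit 106072311231) (nat_lit 76) (nat_lit 37542636927) (nat_lit 7) (nat_lit 4) (nat_lit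 8) (nat_lit 5) (nat_lit 8) (nat_lit 4) (nat_lit 322) (nat_lit 278) (nat_lit 180)) (XT.lf (nat_lit 0) (nat_lit 68009733618) (nat_lit 76) (nat_lit 89484741557) (nat_lit 76) (nat_lit 20952374186) (nat_lit 7) (nat_lit 4) (nat_lit 8) (nat_lit 5) (nat_lit 8) (nat_lit 4) (nat_lit 323) (nat_lit 278) (nat_lit 179)))) (XT.nd (nat_lit 156) (nat_lit 76) (nat_lit 0) (XT.nd (nat_lit 78) (nat_lit 76) (nat_lit 0) (XT.lf (nat_lit 0) (nat_lit 116233028237) (nat_lit 76) (nat_lit 71571646529) (nat_lit 76) (nat_lit 3036785577) (nat_lit 7) (nat_lit 4) (nat_lit 8) (nat_lit 5) (nat_lit 8) (nat_lit 4) (nat_lit 324) (nat_lit 278) (nat_lit 178)) (XT.lf (nat_lit 0) (nat_lit 15494388320) (nat_lit 152) (nat_lit 36308842117) (nat_lit 76) (nat_lit 152393160358) (nat_lit 6) (nat_lit 5) (nat_lit 8) (nat_lit 5) (nat_lit 7) (nat_lit 4) (nat_lit 325) (nat_lit 278) (nat_lit 177))) (XT.nd (nat_lit 78) (nat_lit 0) (nat_lit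 0) (XT.lf (nat_lit 0) (nat_lit 5234851222) (nat_lit 76) (nat_lit 30233494397) (nat_lit 152) (nat_lit 183135113006) (nat_lit 5) (nat_lit 5) (nat_lit 6) (nat_lit 5) (nat_lit 7) (nat_lit 4) (nat_lit 326) (nat_lit 278) (nat_lit 176)) (XT.lf (nat_lit 0) (nat_lit 52164173564) (nat_lit 76) (nat_lit 5867297933) (nat_lit 152) (nat_lit 176052321638) (nat_lit 5) (nat_lit 5) (nat_lit 6) (nat_lit 5) (nat_lit 7) (nat_lit 4) (nat_lit 327) (nat_lit 278) (nat_lit 175)))))) (XT.nd (nat_lit 546) (nat_lit 152) (nat_lit 0) (XT.nd (nat_lit 234) (nat_lit 76) (nat_lit 0) (XT.nd (nat_lit 78) (nat_lit 0) (nat_lit 0) (XT.lf (nat_lit 0) (nat_lit 82890013092) (nat_lit 152) (nat_lit 148449152141) (nat_lit 0) (nat_lit 19424161233) (nat_lit 5) (nat_lit 5) (nat_lit 7) (nat_lit 4) (nat_lit 5) (nat_lit 4) (nat_lit 328) (nat_lit 278) (nat_lit 174)) (XT.nd (nat_lit 78) (nat_lit 0) (nat_lit 0) (XT.lf (nat_lit 0) (nat_lit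 109888326179) (nat_lit 152) (nat_lit 112455907501) (nat_lit 0) (nat_lit 46420902941) (nat_lit 5) (nat_lit 5) (nat_lit 7) (nat_lit 4) (nat_lit 5) (nat_lit 4) (nat_lit 329) (nat_lit 278) (nat_lit 173)) (XT.lf (nat_lit 0) (nat_lit 139045292107) (nat_lit 152) (nat_lit 73585483694) (nat_lit 0) (nat_lit 75576413888) (nat_lit 5) (nat_lit 5) (nat_lit 7) (nat_lit 4) (nat_lit 5) (nat_lit 4) (nat_lit 330) (nat_lit 278) (nat_lit 172)))) (XT.nd (nat_lit 156) (nat_lit 0) (nat_lit 0) (XT.nd (nat_lit 78) (nat_lit 76) (nat_lit 0) (XT.lf (nat_lit 0) (nat_lit 170533692895) (nat_lit 152) (nat_lit 31607537467) (nat_lit 0) (nat_lit 107063467472) (nat_lit 5) (nat_lit 5) (nat_lit 7) (nat_lit 4) (nat_lit 5) (nat_lit 4) (nat_lit 331) (nat_lit 278) (nat_lit 171)) (XT.lf (nat_lit 0) (nat_lit 14449512514) (nat_lit 76) (nat_lit 190438125083) (nat_lit 76) (nat_lit 126966652249) (nat_lit 4) (nat_lit 4) (nat_lit 5)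 (nat_lit 5) (nat_lit 5) (nat_lit 4) (nat_lit 332) (nat_lit 278) (nat_lit 170))) (XT.nd (nat_lit 78) (nat_lit 0) (nat_lit 0) (XT.lf (nat_lit 0) (nat_lit 65986769575) (nat_lit 76) (nat_lit 176866326271) (nat_lit 76) (nat_lit 113393698426) (nat_lit 4) (nat_lit 4) (nat_lit 5) (nat_lit 5) (nat_lit 5) (nat_lit 4) (nat_lit 333) (nat_lit 278) (nat_lit 169)) (XT.lf (nat_lit 0) (nat_lit 121645242771) (nat_lit 76) (nat_lit 162209614540) (nat_lit 76) (nat_lit 98735917242) (nat_lit 4) (nat_lit 4) (nat_lit 5) (nat_lit 5) (nat_lit 5) (nat_lit 4) (nat_lit 334) (nat_lit 278) (nat_lit 168))))) (XT.nd (nat_lit 312) (nat_lit 152) (nat_lit 0) (XT.nd (nat_lit 156) (nat_lit 0) (nat_lit 0) (XT.nd (nat_lit 78) (nat_lit 0) (nat_lit 0) (XT.lf (nat_lit 0) (nat_lit 181754760092) (nat_lit 76) (nat_lit 146381135303) (nat_lit 76) (nat_lit 82906447769) (nat_lit 4) (nat_lit 4) (nat_lit 5) (nat_lit 5) (nat_lit 5) (nat_lit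 4) (nat_lit 335) (nat_lit 278) (nat_lit 167)) (XT.lf (nat_lit 0) (nat_lit 246671526086) (nat_lit 76) (nat_lit 129287090164) (nat_lit 76) (nat_lit 65811485746) (nat_lit 4) (nat_lit 4) (nat_lit 5) (nat_lit 5) (nat_lit 5) (nat_lit 4) (nat_lit 336) (nat_lit 278) (nat_lit 166))) (XT.nd (nat_lit 78) (nat_lit 0) (nat_lit 0) (XT.lf (nat_lit 0) (nat_lit 316780232699) (nat_lit 76) (nat_lit 110826181077) (nat_lit 76) (nat_lit 47349727692) (nat_lit 4) (nat_lit 4) (nat_lit 5) (nat_lit 5) (nat_lit 5) (nat_lit 4) (nat_lit 337) (nat_lit 278) (nat_lit 165)) (XT.lf (nat_lit 0) (nat_lit 392496338932) (nat_lit 76) (nat_lit 90889010063) (nat_lit 76) (nat_lit 27411770597) (nat_lit 4) (nat_lit 4) (nat_lit 5) (nat_lit 5) (nat_lit 5) (nat_lit 4) (nat_lit 338) (nat_lit 278) (nat_lit 164)))) (XT.nd (nat_lit 156) (nat_lit 76) (nat_lit 0) (XT.nd (nat_lit 78) (nat_lit 76) (nat_lit 0) (XT.lf (nat_lit 0) (nat_lit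 474268532824) (nat_lit 76) (nat_lit 69357430923) (nat_lit 76) (nat_lit 5879463604) (nat_lit 4) (nat_lit 4) (nat_lit 5) (nat_lit 5) (nat_lit 5) (nat_lit 4) (nat_lit 339) (nat_lit 278) (nat_lit 163)) (XT.lf (nat_lit 0) (nat_lit 16505634670) (nat_lit 152) (nat_lit 29146921142) (nat_lit 76) (nat_lit 545624462365) (nat_lit 3) (nat_lit 5) (nat_lit 5) (nat_lit 5) (nat_lit 4) (nat_lit 4) (nat_lit 340) (nat_lit 278) (nat_lit 162))) (XT.nd (nat_lit 78) (nat_lit 0) (nat_lit 0) (XT.lf (nat_lit 0) (nat_lit 21554732361) (nat_lit 76) (nat_lit 19326997269) (nat_lit 152) (nat_lit 595454963410) (nat_lit 2) (nat_lit 5) (nat_lit 3) (nat_lit 5) (nat_lit 4) (nat_lit 4) (nat_lit 341) (nat_lit 278) (nat_lit 161)) (XT.lf (nat_lit 0) (nat_lit 68243951650) (nat_lit 152) (nat_lit 607207988317) (nat_lit 0) (nat_lit 9466319182) (nat_lit 2) (nat_lit 5) (nat_lit 4) (nat_lit 4) (nat_lit 2) (nat_lit 4) (nat_lit 342)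 (nat_lit 278) (nat_lit 160))))))))
noncomputable def xc80 : XT := (XT.nd (nat_lit 36270) (nat_lit 0) (nat_lit 684) (XT.nd (nat_lit 1092) (nat_lit 0) (nat_lit 0) (XT.nd (nat_lit 546) (nat_lit 0) (nat_lit 0) (XT.nd (nat_lit 234) (nat_lit 0) (nat_lit 0) (XT.nd (nat_lit 78) (nat_lit 0) (nat_lit 0) (XT.lf (nat_lit 0) (nat_lit 98296637980) (nat_lit 152) (nat_lit 599531083877) (nat_lit 0) (nat_lit 39518510148) (nat_lit 2) (nat_lit 5) (nat_lit 4) (nat_lit 4) (nat_lit 2) (nat_lit 4) (nat_lit 343) (nat_lit 278) (nat_lit 159)) (XT.nd (nat_lit 78) (nat_lit 0) (nat_lit 0) (XT.lf (nat_lit 0) (nat_lit 130753063865) (nat_lit 152) (nat_lit 591240939843) (nat_lit 0) (nat_lit 71974477363) (nat_lit 2) (nat_lit 5) (nat_lit 4) (nat_lit 4) (nat_lit 2) (nat_lit 4) (nat_lit 344) (nat_lit 278) (nat_lit 158)) (XT.lf (nat_lit 0) (nat_lit 165805563681) (nat_lit 152) (nat_lit 582288429436) (nat_lit 0) (nat_lit 107026552484)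 (nat_lit 2) (nat_lit 5) (nat_lit 4) (nat_lit 4) (nat_lit 2) (nat_lit 4) (nat_lit 345) (nat_lit 278) (nat_lit 157)))) (XT.nd (nat_lit 156) (nat_lit 0) (nat_lit 0) (XT.nd (nat_lit 78) (nat_lit 0) (nat_lit 0) (XT.lf (nat_lit 0) (nat_lit 203661855946) (nat_lit 152) (nat_lit 572620500743) (nat_lit 0) (nat_lit 144882451512) (nat_lit 2) (nat_lit 5) (nat_lit 4) (nat_lit 4) (nat_lit 2) (nat_lit 4) (nat_lit 346) (nat_lit 278) (nat_lit 156)) (XT.lf (nat_lit 0) (nat_lit 244546274242) (nat_lit 152) (nat_lit 562179862334) (nat_lit 0) (nat_lit 185766505701) (nat_lit 2) (nat_lit 5) (nat_lit 4) (nat_lit 4) (nat_lit 2) (nat_lit 4) (nat_lit 347) (nat_lit 278) (nat_lit 155))) (XT.nd (nat_lit 78) (nat_lit 0) (nat_lit 0) (XT.lf (nat_lit 0) (nat_lit 288701096605) (nat_lit 152) (nat_lit 550904643760) (nat_lit 0) (nat_lit 229920990928) (nat_lit 2) (nat_lit 5) (nat_lit 4) (nat_lit 4) (nat_lit 2) (nat_lit 4)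 (nat_lit 348) (nat_lit 278) (nat_lit 154)) (XT.lf (nat_lit 0) (nat_lit 336387981240) (nat_lit 152) (nat_lit 538728028910) (nat_lit 0) (nat_lit 277607563400) (nat_lit 2) (nat_lit 5) (nat_lit 4) (nat_lit 4) (nat_lit 2) (nat_lit 4) (nat_lit 349) (nat_lit 278) (nat_lit 153))))) (XT.nd (nat_lit 234) (nat_lit 0) (nat_lit 0) (XT.nd (nat_lit 78) (nat_lit 0) (nat_lit 0) (XT.lf (nat_lit 0) (nat_lit 387889517095) (nat_lit 152) (nat_lit 525577860066) (nat_lit 0) (nat_lit 329108810214) (nat_lit 2) (nat_lit 5) (nat_lit 4) (nat_lit 4) (nat_lit 2) (nat_lit 4) (nat_lit 350) (nat_lit 278) (nat_lit 152)) (XT.nd (nat_lit 78) (nat_lit 0) (nat_lit 0) (XT.lf (nat_lit 0) (nat_lit 443510898455) (nat_lit 152) (nat_lit 511376210303) (nat_lit 0) (nat_lit 384729923945) (nat_lit 2) (nat_lit 5) (nat_lit 4) (nat_lit 4) (nat_lit 2) (nat_lit 4) (nat_lit 351) (nat_lit 278) (nat_lit 151)) (XT.lf (nat_lit 0) (nat_lit 503581733507)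 (nat_lit 152) (nat_lit 496038921695) (nat_lit 0) (nat_lit 444800511191) (nat_lit 2) (nat_lit 5) (nat_lit 4) (nat_lit 4) (nat_lit 2) (nat_lit 4) (nat_lit 352) (nat_lit 278) (nat_lit 150)))) (XT.nd (nat_lit 156) (nat_lit 0) (nat_lit 0) (XT.nd (nat_lit 78) (nat_lit 0) (nat_lit 0) (XT.lf (nat_lit 0) (nat_lit 568457997568) (nat_lit 152) (nat_lit 479475106607) (nat_lit 0) (nat_lit 509676545803) (nat_lit 2) (nat_lit 5) (nat_lit 4) (nat_lit 4) (nat_lit 2) (nat_lit 4) (nat_lit 353) (nat_lit 278) (nat_lit 149)) (XT.lf (nat_lit 0) (nat_lit 638524142575) (nat_lit 152) (nat_lit 461586609097) (nat_lit 0) (nat_lit 579742478357) (nat_lit 2) (nat_lit 5) (nat_lit 4) (nat_lit 4) (nat_lit 2) (nat_lit 4) (nat_lit 354) (nat_lit 278) (nat_lit 148))) (XT.nd (nat_lit 78) (nat_lit 0) (nat_lit 0) (XT.lf (nat_lit 0) (nat_lit 714195375313) (nat_lit 152) (nat_lit 442267423254) (nat_lit 0) (nat_lit 655413514379)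 (nat_lit 2) (nat_lit 5) (nat_lit 4) (nat_lit 4) (nat_lit 2) (nat_lit 4) (nat_lit 355) (nat_lit 278) (nat_lit 147)) (XT.lf (nat_lit 0) (nat_lit 795920117901) (nat_lit 152) (nat_lit 421403065014) (nat_lit 0) (nat_lit 737138074822) (nat_lit 2) (nat_lit 5) (nat_lit 4) (nat_lit 4) (nat_lit 2) (nat_lit 4) (nat_lit 356) (nat_lit 278) (nat_lit 146)))))) (XT.nd (nat_lit 34554) (nat_lit 0) (nat_lit 3040) (XT.nd (nat_lit 234) (nat_lit 0) (nat_lit 0) (XT.nd (nat_lit 78) (nat_lit 0) (nat_lit 0) (XT.lf (nat_lit 0) (nat_lit 884182665111) (nat_lit 152) (nat_lit 398869893736) (nat_lit 0) (nat_lit 825400453380) (nat_lit 2) (nat_lit 5) (nat_lit 4) (nat_lit 4) (nat_lit 2) (nat_lit 4) (nat_lit 357) (nat_lit 278) (nat_lit 145)) (XT.nd (nat_lit 78) (nat_lit 0) (nat_lit 0) (XT.lf (nat_lit 0) (nat_lit 979506054259) (nat_lit 152) (nat_lit 374534379514) (nat_lit 0) (nat_lit 920723686368) (nat_lit 2) (nat_lit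 5) (nat_lit 4) (nat_lit 4) (nat_lit 2) (nat_lit 4) (nat_lit 358) (nat_lit 278) (nat_lit 144)) (XT.lf (nat_lit 0) (nat_lit 1082455164688) (nat_lit 152) (nat_lit 348252311896) (nat_lit 0) (nat_lit 1023672652205) (nat_lit 2) (nat_lit 5) (nat_lit 4) (nat_lit 4) (nat_lit 2) (nat_lit 4) (nat_lit 359) (nat_lit 278) (nat_lit 143)))) (XT.nd (nat_lit 156) (nat_lit 0) (nat_lit 0) (XT.nd (nat_lit 78) (nat_lit 0) (nat_lit 0) (XT.lf (nat_lit 0) (nat_lit 1193640065200) (nat_lit 152) (nat_lit 319867945295) (nat_lit 0) (nat_lit 1134857418836) (nat_lit 2) (nat_lit 5) (nat_lit 4) (nat_lit 4) (nat_lit 2) (nat_lit 4) (nat_lit 360) (nat_lit 278) (nat_lit 142)) (XT.lf (nat_lit 0) (nat_lit 1313719629282) (nat_lit 152) (nat_lit 289213076056) (nat_lit 0) (nat_lit 1254936858953) (nat_lit 2) (nat_lit 5) (nat_lit 4) (nat_lit 4) (nat_lit 2) (nat_lit 4) (nat_lit 361) (nat_lit 278) (nat_lit 141))) (XT.nd (nat_lit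 78) (nat_lit 0) (nat_lit 0) (XT.lf (nat_lit 0) (nat_lit 1443405439533) (nat_lit 152) (nat_lit 256106045697) (nat_lit 0) (nat_lit 1384622554423) (nat_lit 2) (nat_lit 5) (nat_lit 4) (nat_lit 4) (nat_lit 2) (nat_lit 4) (nat_lit 362) (nat_lit 278) (nat_lit 140)) (XT.lf (nat_lit 0) (nat_lit 1583466004460) (nat_lit 152) (nat_lit 220350664406) (nat_lit 0) (nat_lit 1524683013070) (nat_lit 2) (nat_lit 5) (nat_lit 4) (nat_lit 4) (nat_lit 2) (nat_lit 4) (nat_lit 363) (nat_lit 278) (nat_lit 139))))) (XT.nd (nat_lit 312) (nat_lit 0) (nat_lit 152) (XT.nd (nat_lit 156) (nat_lit 0) (nat_lit 76) (XT.nd (nat_lit 78) (nat_lit 0) (nat_lit 0) (XT.lf (nat_lit 0) (nat_lit 3936685518) (nat_lit 532) (nat_lit 2480289190) (nat_lit 532) (nat_lit 2480289190) (nat_lit 42) (nat_lit 3) (nat_lit 49) (nat_lit 3) (nat_lit 49) (nat_lit 5) (nat_lit 279) (nat_lit 279) (nat_lit 222)) (XT.lf (nat_lit 76) (nat_lit 3157752214)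 (nat_lit 0) (nat_lit 5296800990) (nat_lit 532) (nat_lit 10029739802) (nat_lit 43) (nat_lit 5) (nat_lit 42) (nat_lit 3) (nat_lit 49) (nat_lit 5) (nat_lit 280) (nat_lit 279) (nat_lit 221))) (XT.nd (nat_lit 78) (nat_lit 0) (nat_lit 0) (XT.lf (nat_lit 0) (nat_lit 9270668040) (nat_lit 456) (nat_lit 7095311101) (nat_lit 532) (nat_lit 2848256887) (nat_lit 43) (nat_lit 5) (nat_lit 49) (nat_lit 5) (nat_lit 50) (nat_lit 5) (nat_lit 281) (nat_lit 279) (nat_lit 220)) (XT.lf (nat_lit 76) (nat_lit 1731725731) (nat_lit 0) (nat_lit 8581890577) (nat_lit 532) (nat_lit 9676100983) (nat_lit 44) (nat_lit 5) (nat_lit 43) (nat_lit 5) (nat_lit 50) (nat_lit 5) (nat_lit 282) (nat_lit 279) (nat_lit 219)))) (XT.nd (nat_lit 156) (nat_lit 0) (nat_lit 0) (XT.nd (nat_lit 78) (nat_lit 0) (nat_lit 0) (XT.lf (nat_lit 0) (nat_lit 11618303988) (nat_lit 456) (nat_lit 9157064612) (nat_lit 532) (nat_lit 37665596) (nat_lit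 44) (nat_lit 5) (nat_lit 50) (nat_lit 5) (nat_lit 51) (nat_lit 5) (nat_lit 283) (nat_lit 279) (nat_lit 218)) (XT.lf (nat_lit 76) (nat_lit 460042310) (nat_lit 0) (nat_lit 12785995398) (nat_lit 532) (nat_lit 8438741939) (nat_lit 45) (nat_lit 5) (nat_lit 44) (nat_lit 5) (nat_lit 51) (nat_lit 5) (nat_lit 284) (nat_lit 279) (nat_lit 217))) (XT.nd (nat_lit 78) (nat_lit 0) (nat_lit 76) (XT.lf (nat_lit 76) (nat_lit 11355590878) (nat_lit 0) (nat_lit 3884322330) (nat_lit 532) (nat_lit 7367530343) (nat_lit 45) (nat_lit 5) (nat_lit 44) (nat_lit 5) (nat_lit 51) (nat_lit 5) (nat_lit 285) (nat_lit 279) (nat_lit 216)) (XT.lf (nat_lit 0) (nat_lit 17517777104) (nat_lit 456) (nat_lit 630942469) (nat_lit 76) (nat_lit 5445291485) (nat_lit 45) (nat_lit 5) (nat_lit 51) (nat_lit 5) (nat_lit 46) (nat_lit 5) (nat_lit 286) (nat_lit 279) (nat_lit 215))))))) (XT.nd (nat_lit 1092) (nat_lit 836) (nat_lit 0) (XT.nd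 (nat_lit 546) (nat_lit 532) (nat_lit 0) (XT.nd (nat_lit 234) (nat_lit 456) (nat_lit 0) (XT.nd (nat_lit 78) (nat_lit 304) (nat_lit 0) (XT.lf (nat_lit 0) (nat_lit 11292525640) (nat_lit 456) (nat_lit 9045491951) (nat_lit 532) (nat_lit 4292719728) (nat_lit 39) (nat_lit 5) (nat_lit 45) (nat_lit 5) (nat_lit 46) (nat_lit 5) (nat_lit 287) (nat_lit 279) (nat_lit 214)) (XT.nd (nat_lit 78) (nat_lit 304) (nat_lit 0) (XT.lf (nat_lit 0) (nat_lit 23408822867) (nat_lit 532) (nat_lit 1574455218) (nat_lit 76) (nat_lit 765169755) (nat_lit 39) (nat_lit 5) (nat_lit 46) (nat_lit 5) (nat_lit 40) (nat_lit 5) (nat_lit 288) (nat_lit 279) (nat_lit 213)) (XT.lf (nat_lit 0) (nat_lit 293891127) (nat_lit 304) (nat_lit 15465424263) (nat_lit 76) (nat_lit 11155726391) (nat_lit 35) (nat_lit 5) (nat_lit 39) (nat_lit 5) (nat_lit 36) (nat_lit 5) (nat_lit 289) (nat_lit 279) (nat_lit 212)))) (XT.nd (nat_lit 156) (nat_lit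 228) (nat_lit 0) (XT.nd (nat_lit 78) (nat_lit 228) (nat_lit 0) (XT.lf (nat_lit 0) (nat_lit 3045303524) (nat_lit 304) (nat_lit 2639520687) (nat_lit 76) (nat_lit 22482621411) (nat_lit 35) (nat_lit 5) (nat_lit 39) (nat_lit 5) (nat_lit 36) (nat_lit 5) (nat_lit 290) (nat_lit 279) (nat_lit 211)) (XT.lf (nat_lit 0) (nat_lit 6422959923) (nat_lit 304) (nat_lit 17838573372) (nat_lit 76) (nat_lit 5226048724) (nat_lit 32) (nat_lit 5) (nat_lit 36) (nat_lit 5) (nat_lit 33) (nat_lit 5) (nat_lit 291) (nat_lit 279) (nat_lit 210))) (XT.nd (nat_lit 78) (nat_lit 228) (nat_lit 0) (XT.lf (nat_lit 0) (nat_lit 10283218701) (nat_lit 304) (nat_lit 3837277777) (nat_lit 76) (nat_lit 16775870111) (nat_lit 32) (nat_lit 5) (nat_lit 36) (nat_lit 5) (nat_lit 33) (nat_lit 5) (nat_lit 292) (nat_lit 279) (nat_lit 209)) (XT.lf (nat_lit 0) (nat_lit 11867677911) (nat_lit 228) (nat_lit 2861416357) (nat_lit 304) (nat_lit 17666642314)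 (nat_lit 29) (nat_lit 5) (nat_lit 32) (nat_lit 5) (nat_lit 33) (nat_lit 5) (nat_lit 293) (nat_lit 279) (nat_lit 208))))) (XT.nd (nat_lit 234) (nat_lit 380) (nat_lit 0) (XT.nd (nat_lit 78) (nat_lit 152) (nat_lit 0) (XT.lf (nat_lit 0) (nat_lit 19853649890) (nat_lit 304) (nat_lit 5196254443) (nat_lit 76) (nat_lit 8939335433) (nat_lit 29) (nat_lit 5) (nat_lit 33) (nat_lit 5) (nat_lit 30) (nat_lit 5) (nat_lit 294) (nat_lit 279) (nat_lit 207)) (XT.nd (nat_lit 78) (nat_lit 0) (nat_lit 0) (XT.lf (nat_lit 0) (nat_lit 11871931981) (nat_lit 152) (nat_lit 13868432942) (nat_lit 228) (nat_lit 9941705271) (nat_lit 27) (nat_lit 5) (nat_lit 29) (nat_lit 5) (nat_lit 30) (nat_lit 5) (nat_lit 295) (nat_lit 279) (nat_lit 206)) (XT.lf (nat_lit 0) (nat_lit 30591613276) (nat_lit 152) (nat_lit 1641169510) (nat_lit 228) (nat_lit 5266783932) (nat_lit 27) (nat_lit 5) (nat_lit 29) (nat_lit 5) (nat_lit 30) (nat_lit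 5) (nat_lit 296) (nat_lit 279) (nat_lit 205)))) (XT.nd (nat_lit 156) (nat_lit 152) (nat_lit 0) (XT.nd (nat_lit 78) (nat_lit 0) (nat_lit 0) (XT.lf (nat_lit 0) (nat_lit 358610098) (nat_lit 228) (nat_lit 27786112676) (nat_lit 76) (nat_lit 11272930878) (nat_lit 24) (nat_lit 5) (nat_lit 27) (nat_lit 5) (nat_lit 25) (nat_lit 5) (nat_lit 297) (nat_lit 279) (nat_lit 204)) (XT.lf (nat_lit 0) (nat_lit 6379186446) (nat_lit 228) (nat_lit 9620775731) (nat_lit 76) (nat_lit 25459922483) (nat_lit 24) (nat_lit 5) (nat_lit 27) (nat_lit 5) (nat_lit 25) (nat_lit 5) (nat_lit 298) (nat_lit 279) (nat_lit 203))) (XT.nd (nat_lit 78) (nat_lit 0) (nat_lit 0) (XT.lf (nat_lit 0) (nat_lit 10515071087) (nat_lit 152) (nat_lit 2613007560) (nat_lit 228) (nat_lit 30517697293) (nat_lit 22) (nat_lit 5) (nat_lit 24) (nat_lit 5) (nat_lit 25) (nat_lit 5) (nat_lit 299) (nat_lit 279) (nat_lit 202)) (XT.lf (nat_lit 0) (nat_lit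 20965610966) (nat_lit 228) (nat_lit 13477202313) (nat_lit 76) (nat_lit 11519841178) (nat_lit 22) (nat_lit 5) (nat_lit 25) (nat_lit 5) (nat_lit 23) (nat_lit 5) (nat_lit 300) (nat_lit 279) (nat_lit 201)))))) (XT.nd (nat_lit 546) (nat_lit 380) (nat_lit 0) (XT.nd (nat_lit 234) (nat_lit 228) (nat_lit 0) (XT.nd (nat_lit 78) (nat_lit 76) (nat_lit 0) (XT.lf (nat_lit 0) (nat_lit 8076456080) (nat_lit 152) (nat_lit 21610222251) (nat_lit 228) (nat_lit 18757695505) (nat_lit 20) (nat_lit 5) (nat_lit 22) (nat_lit 5) (nat_lit 23) (nat_lit 5) (nat_lit 301) (nat_lit 279) (nat_lit 200)) (XT.nd (nat_lit 78) (nat_lit 76) (nat_lit 0) (XT.lf (nat_lit 0) (nat_lit 32112805912) (nat_lit 152) (nat_lit 7355758157) (nat_lit 228) (nat_lit 11627028261) (nat_lit 20) (nat_lit 5) (nat_lit 22) (nat_lit 5) (nat_lit 23) (nat_lit 5) (nat_lit 302) (nat_lit 279) (nat_lit 199)) (XT.lf (nat_lit 0) (nat_lit 4118002472) (nat_lit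 76) (nat_lit 46202354945) (nat_lit 152) (nat_lit 3615573645) (nat_lit 19) (nat_lit 5) (nat_lit 20) (nat_lit 5) (nat_lit 21) (nat_lit 4) (nat_lit 303) (nat_lit 279) (nat_lit 198)))) (XT.nd (nat_lit 156) (nat_lit 152) (nat_lit 0) (XT.nd (nat_lit 78) (nat_lit 0) (nat_lit 0) (XT.lf (nat_lit 0) (nat_lit 5503431503) (nat_lit 152) (nat_lit 27149113504) (nat_lit 76) (nat_lit 24283783151) (nat_lit 18) (nat_lit 5) (nat_lit 20) (nat_lit 5) (nat_lit 19) (nat_lit 5) (nat_lit 304) (nat_lit 279) (nat_lit 197)) (XT.lf (nat_lit 0) (nat_lit 15152022522) (nat_lit 152) (nat_lit 2768006014) (nat_lit 76) (nat_lit 42249592547) (nat_lit 18) (nat_lit 5) (nat_lit 20) (nat_lit 5) (nat_lit 19) (nat_lit 5) (nat_lit 305) (nat_lit 279) (nat_lit 196))) (XT.nd (nat_lit 78) (nat_lit 0) (nat_lit 0) (XT.lf (nat_lit 0) (nat_lit 24797290026) (nat_lit 152) (nat_lit 1367327280) (nat_lit 228) (nat_lit 37449599124) (nat_lit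 16) (nat_lit 5) (nat_lit 18) (nat_lit 5) (nat_lit 19) (nat_lit 5) (nat_lit 306) (nat_lit 279) (nat_lit 195)) (XT.lf (nat_lit 0) (nat_lit 38528761893) (nat_lit 228) (nat_lit 13008983708) (nat_lit 76) (nat_lit 15758998112) (nat_lit 16) (nat_lit 5) (nat_lit 19) (nat_lit 5) (nat_lit 17) (nat_lit 4) (nat_lit 307) (nat_lit 279) (nat_lit 194))))) (XT.nd (nat_lit 312) (nat_lit 76) (nat_lit 0) (XT.nd (nat_lit 156) (nat_lit 228) (nat_lit 0) (XT.nd (nat_lit 78) (nat_lit 0) (nat_lit 0) (XT.lf (nat_lit 0) (nat_lit 15602207832) (nat_lit 76) (nat_lit 36686725185) (nat_lit 152) (nat_lit 18952395686) (nat_lit 15) (nat_lit 5) (nat_lit 16) (nat_lit 5) (nat_lit 17) (nat_lit 4) (nat_lit 308) (nat_lit 279) (nat_lit 193)) (XT.lf (nat_lit 0) (nat_lit 47235930869) (nat_lit 76) (nat_lit 20265958558) (nat_lit 152) (nat_lit 7971439931) (nat_lit 15) (nat_lit 5) (nat_lit 16) (nat_lit 5) (nat_lit 17) (nat_lit 4)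 (nat_lit 309) (nat_lit 279) (nat_lit 192))) (XT.nd (nat_lit 78) (nat_lit 0) (nat_lit 0) (XT.lf (nat_lit 0) (nat_lit 1323218970) (nat_lit 152) (nat_lit 2398566710) (nat_lit 228) (nat_lit 76312366610) (nat_lit 12) (nat_lit 5) (nat_lit 14) (nat_lit 5) (nat_lit 15) (nat_lit 5) (nat_lit 310) (nat_lit 279) (nat_lit 191)) (XT.lf (nat_lit 0) (nat_lit 17114850281) (nat_lit 228) (nat_lit 50683011473) (nat_lit 76) (nat_lit 17049816846) (nat_lit 12) (nat_lit 5) (nat_lit 15) (nat_lit 5) (nat_lit 13) (nat_lit 4) (nat_lit 311) (nat_lit 279) (nat_lit 190)))) (XT.nd (nat_lit 156) (nat_lit 0) (nat_lit 0) (XT.nd (nat_lit 78) (nat_lit 76) (nat_lit 0) (XT.lf (nat_lit 0) (nat_lit 31638446777) (nat_lit 228) (nat_lit 20480712365) (nat_lit 76) (nat_lit 37922405781) (nat_lit 12) (nat_lit 5) (nat_lit 15) (nat_lit 5) (nat_lit 13) (nat_lit 4) (nat_lit 312) (nat_lit 279) (nat_lit 189)) (XT.lf (nat_lit 0) (nat_lit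 12771508773) (nat_lit 76) (nat_lit 34856601657) (nat_lit 152) (nat_lit 47998521853) (nat_lit 11) (nat_lit 5) (nat_lit 12) (nat_lit 5) (nat_lit 13) (nat_lit 4) (nat_lit 313) (nat_lit 279) (nat_lit 188))) (XT.nd (nat_lit 78) (nat_lit 0) (nat_lit 0) (XT.lf (nat_lit 0) (nat_lit 49843649609) (nat_lit 76) (nat_lit 15610400708) (nat_lit 152) (nat_lit 36159890617) (nat_lit 11) (nat_lit 5) (nat_lit 12) (nat_lit 5) (nat_lit 13) (nat_lit 4) (nat_lit 314) (nat_lit 279) (nat_lit 187)) (XT.lf (nat_lit 0) (nat_lit 84827825784) (nat_lit 152) (nat_lit 18327955455) (nat_lit 0) (nat_lit 4914716056) (nat_lit 11) (nat_lit 5) (nat_lit 13) (nat_lit 4) (nat_lit 11) (nat_lit 4) (nat_lit 315) (nat_lit 279) (nat_lit 186))))))))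
noncomputable def xc81 : XT := (XT.nd (nat_lit 2262) (nat_lit 0) (nat_lit 0) (XT.nd (nat_lit 1092) (nat_lit 228) (nat_lit 0) (XT.nd (nat_lit 546) (nat_lit 228) (nat_lit 0) (XT.nd (nat_lit 234) (nat_lit 76) (nat_lit 0) (XT.nd (nat_lit 78) (nat_lit 76) (nat_lit 0) (XT.lf (nat_lit 0) (nat_lit 18295038632) (nat_lit 76) (nat_lit 88299416075) (nat_lit 76) (nat_lit 8381690903) (nat_lit 10) (nat_lit 4) (nat_lit 11) (nat_lit 5) (nat_lit 11) (nat_lit 4) (nat_lit 316) (nat_lit 279) (nat_lit 185)) (XT.nd (nat_lit 78) (nat_lit 0) (nat_lit 0) (XT.lf (nat_lit 0) (nat_lit 7796215779) (nat_lit 152) (nat_lit 63705869910) (nat_lit 76) (nat_lit 50876478351) (nat_lit 9) (nat_lit 5) (nat_lit 11) (nat_lit 5) (nat_lit 10) (nat_lit 4) (nat_lit 317) (nat_lit 279) (nat_lit 184)) (XT.lf (nat_lit 0) (nat_lit 24813216352) (nat_lit 152) (nat_lit 28314465716) (nat_lit 76) (nat_lit 77228264971) (nat_lit 9) (nat_lit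 5) (nat_lit 11) (nat_lit 5) (nat_lit 10) (nat_lit 4) (nat_lit 318) (nat_lit 279) (nat_lit 183)))) (XT.nd (nat_lit 156) (nat_lit 0) (nat_lit 0) (XT.nd (nat_lit 78) (nat_lit 0) (nat_lit 0) (XT.lf (nat_lit 0) (nat_lit 10425961107) (nat_lit 76) (nat_lit 33014221934) (nat_lit 152) (nat_lit 95511451772) (nat_lit 8) (nat_lit 5) (nat_lit 9) (nat_lit 5) (nat_lit 10) (nat_lit 4) (nat_lit 319) (nat_lit 279) (nat_lit 182)) (XT.lf (nat_lit 0) (nat_lit 53872149505) (nat_lit 76) (nat_lit 10457255116) (nat_lit 152) (nat_lit 83843807606) (nat_lit 8) (nat_lit 5) (nat_lit 9) (nat_lit 5) (nat_lit 10) (nat_lit 4) (nat_lit 320) (nat_lit 279) (nat_lit 181))) (XT.nd (nat_lit 78) (nat_lit 0) (nat_lit 0) (XT.lf (nat_lit 0) (nat_lit 87222207945) (nat_lit 152) (nat_lit 57676463428) (nat_lit 0) (nat_lit 13207251184) (nat_lit 8) (nat_lit 5) (nat_lit 10) (nat_lit 4) (nat_lit 8) (nat_lit 4) (nat_lit 321) (nat_lit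 279) (nat_lit 180)) (XT.lf (nat_lit 0) (nat_lit 112216243303) (nat_lit 152) (nat_lit 18396830393) (nat_lit 0) (nat_lit 38198593475) (nat_lit 8) (nat_lit 5) (nat_lit 10) (nat_lit 4) (nat_lit 8) (nat_lit 4) (nat_lit 322) (nat_lit 279) (nat_lit 179))))) (XT.nd (nat_lit 234) (nat_lit 152) (nat_lit 0) (XT.nd (nat_lit 78) (nat_lit 0) (nat_lit 0) (XT.lf (nat_lit 0) (nat_lit 25287063124) (nat_lit 76) (nat_lit 114529217612) (nat_lit 76) (nat_lit 40509074203) (nat_lit 7) (nat_lit 4) (nat_lit 8) (nat_lit 5) (nat_lit 8) (nat_lit 4) (nat_lit 323) (nat_lit 279) (nat_lit 178)) (XT.nd (nat_lit 78) (nat_lit 0) (nat_lit 0) (XT.lf (nat_lit 0) (nat_lit 73508918459) (nat_lit 76) (nat_lit 96616781513) (nat_lit 76) (nat_lit 22594329233) (nat_lit 7) (nat_lit 4) (nat_lit 8) (nat_lit 5) (nat_lit 8) (nat_lit 4) (nat_lit 324) (nat_lit 279) (nat_lit 177)) (XT.lf (nat_lit 0) (nat_lit 125585750266) (nat_lit 76) (nat_lit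 77272619577) (nat_lit 76) (nat_lit 3248029453) (nat_lit 7) (nat_lit 4) (nat_lit 8) (nat_lit 5) (nat_lit 8) (nat_lit 4) (nat_lit 325) (nat_lit 279) (nat_lit 176)))) (XT.nd (nat_lit 156) (nat_lit 0) (nat_lit 0) (XT.nd (nat_lit 78) (nat_lit 76) (nat_lit 0) (XT.lf (nat_lit 0) (nat_lit 16761822033) (nat_lit 152) (nat_lit 39161979779) (nat_lit 76) (nat_lit 164606042040) (nat_lit 6) (nat_lit 5) (nat_lit 8) (nat_lit 5) (nat_lit 7) (nat_lit 4) (nat_lit 326) (nat_lit 279) (nat_lit 175)) (XT.lf (nat_lit 0) (nat_lit 5703903464) (nat_lit 76) (nat_lit 32628935924) (nat_lit 152) (nat_lit 197756708286) (nat_lit 5) (nat_lit 5) (nat_lit 6) (nat_lit 5) (nat_lit 7) (nat_lit 4) (nat_lit 327) (nat_lit 279) (nat_lit 174))) (XT.nd (nat_lit 78) (nat_lit 0) (nat_lit 0) (XT.lf (nat_lit 0) (nat_lit 56383848324) (nat_lit 76) (nat_lit 6315165078) (nat_lit 152) (nat_lit 190109457591) (nat_lit 5) (nat_lit 5) (nat_lit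 6) (nat_lit 5) (nat_lit 7) (nat_lit 4) (nat_lit 328) (nat_lit 279) (nat_lit 173)) (XT.lf (nat_lit 0) (nat_lit 89544863826) (nat_lit 152) (nat_lit 160280594506) (nat_lit 0) (nat_lit 20997020370) (nat_lit 5) (nat_lit 5) (nat_lit 7) (nat_lit 4) (nat_lit 5) (nat_lit 4) (nat_lit 329) (nat_lit 279) (nat_lit 172)))))) (XT.nd (nat_lit 546) (nat_lit 152) (nat_lit 0) (XT.nd (nat_lit 234) (nat_lit 76) (nat_lit 0) (XT.nd (nat_lit 78) (nat_lit 0) (nat_lit 0) (XT.lf (nat_lit 0) (nat_lit 118701290132) (nat_lit 152) (nat_lit 121411185836) (nat_lit 0) (nat_lit 50152099471) (nat_lit 5) (nat_lit 5) (nat_lit 7) (nat_lit 4) (nat_lit 5) (nat_lit 4) (nat_lit 330) (nat_lit 279) (nat_lit 171)) (XT.nd (nat_lit 78) (nat_lit 0) (nat_lit 0) (XT.lf (nat_lit 0) (nat_lit 150189191270) (nat_lit 152) (nat_lit 79434179551) (nat_lit 0) (nat_lit 81638753198) (nat_lit 5) (nat_lit 5) (nat_lit 7) (nat_lit 4) (nat_lit 5) (nat_lit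 4) (nat_lit 331) (nat_lit 279) (nat_lit 170)) (XT.lf (nat_lit 0) (nat_lit 184195162210) (nat_lit 152) (nat_lit 34100823022) (nat_lit 0) (nat_lit 115643569128) (nat_lit 5) (nat_lit 5) (nat_lit 7) (nat_lit 4) (nat_lit 5) (nat_lit 4) (nat_lit 332) (nat_lit 279) (nat_lit 169)))) (XT.nd (nat_lit 156) (nat_lit 0) (nat_lit 0) (XT.nd (nat_lit 78) (nat_lit 0) (nat_lit 0) (XT.lf (nat_lit 0) (nat_lit 15639896846) (nat_lit 76) (nat_lit 205656962867) (nat_lit 76) (nat_lit 137104300331) (nat_lit 4) (nat_lit 4) (nat_lit 5) (nat_lit 5) (nat_lit 5) (nat_lit 4) (nat_lit 333) (nat_lit 279) (nat_lit 168)) (XT.lf (nat_lit 0) (nat_lit 71297584595) (nat_lit 76) (nat_lit 191000621056) (nat_lit 76) (nat_lit 122446968284) (nat_lit 4) (nat_lit 4) (nat_lit 5) (nat_lit 5) (nat_lit 5) (nat_lit 4) (nat_lit 334) (nat_lit 279) (nat_lit 167))) (XT.nd (nat_lit 78) (nat_lit 0) (nat_lit 0) (XT.lf (nat_lit 0) (nat_lit 131406374650)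 (nat_lit 76) (nat_lit 175172484336) (nat_lit 76) (nat_lit 106617914680) (nat_lit 4) (nat_lit 4) (nat_lit 5) (nat_lit 5) (nat_lit 5) (nat_lit 4) (nat_lit 335) (nat_lit 279) (nat_lit 166)) (XT.lf (nat_lit 0) (nat_lit 196322467249) (nat_lit 76) (nat_lit 158078756343) (nat_lit 76) (nat_lit 89523337719) (nat_lit 4) (nat_lit 4) (nat_lit 5) (nat_lit 5) (nat_lit 5) (nat_lit 4) (nat_lit 336) (nat_lit 279) (nat_lit 165))))) (XT.nd (nat_lit 312) (nat_lit 152) (nat_lit 0) (XT.nd (nat_lit 156) (nat_lit 0) (nat_lit 0) (XT.nd (nat_lit 78) (nat_lit 0) (nat_lit 0) (XT.lf (nat_lit 0) (nat_lit 266430550348) (nat_lit 76) (nat_lit 139618140910) (nat_lit 76) (nat_lit 71061936206) (nat_lit 4) (nat_lit 4) (nat_lit 5) (nat_lit 5) (nat_lit 5) (nat_lit 4) (nat_lit 337) (nat_lit 279) (nat_lit 164)) (XT.lf (nat_lit 0) (nat_lit 342146079255) (nat_lit 76) (nat_lit 119681241797) (nat_lit 76) (nat_lit 51124309241)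 (nat_lit 4) (nat_lit 4) (nat_lit 5) (nat_lit 5) (nat_lit 5) (nat_lit 4) (nat_lit 338) (nat_lit 279) (nat_lit 163))) (XT.nd (nat_lit 78) (nat_lit 0) (nat_lit 0) (XT.lf (nat_lit 0) (nat_lit 423917738584) (nat_lit 76) (nat_lit 98149914418) (nat_lit 76) (nat_lit 29592307924) (nat_lit 4) (nat_lit 4) (nat_lit 5) (nat_lit 5) (nat_lit 5) (nat_lit 4) (nat_lit 339) (nat_lit 279) (nat_lit 162)) (XT.lf (nat_lit 0) (nat_lit 512230101133) (nat_lit 76) (nat_lit 74896565721) (nat_lit 76) (nat_lit 6338335211) (nat_lit 4) (nat_lit 4) (nat_lit 5) (nat_lit 5) (nat_lit 5) (nat_lit 4) (nat_lit 340) (nat_lit 279) (nat_lit 161)))) (XT.nd (nat_lit 156) (nat_lit 0) (nat_lit 0) (XT.nd (nat_lit 78) (nat_lit 76) (nat_lit 0) (XT.lf (nat_lit 0) (nat_lit 17836188158) (nat_lit 152) (nat_lit 31459536933) (nat_lit 76) (nat_lit 589282638268) (nat_lit 3) (nat_lit 5) (nat_lit 5) (nat_lit 5) (nat_lit 4) (nat_lit 4) (nat_lit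 341) (nat_lit 279) (nat_lit 160)) (XT.lf (nat_lit 0) (nat_lit 23297764346) (nat_lit 76) (nat_lit 20864306635) (nat_lit 152) (nat_lit 643080765806) (nat_lit 2) (nat_lit 5) (nat_lit 3) (nat_lit 5) (nat_lit 4) (nat_lit 4) (nat_lit 342) (nat_lit 279) (nat_lit 159))) (XT.nd (nat_lit 78) (nat_lit 0) (nat_lit 0) (XT.lf (nat_lit 0) (nat_lit 73712741701) (nat_lit 152) (nat_lit 655766819752) (nat_lit 0) (nat_lit 10231409608) (nat_lit 2) (nat_lit 5) (nat_lit 4) (nat_lit 4) (nat_lit 2) (nat_lit 4) (nat_lit 343) (nat_lit 279) (nat_lit 158)) (XT.lf (nat_lit 0) (nat_lit 106168955981) (nat_lit 152) (nat_lit 647477082041) (nat_lit 0) (nat_lit 42687199193) (nat_lit 2) (nat_lit 5) (nat_lit 4) (nat_lit 4) (nat_lit 2) (nat_lit 4) (nat_lit 344) (nat_lit 279) (nat_lit 157))))))) (XT.nd (nat_lit 1170) (nat_lit 0) (nat_lit 0) (XT.nd (nat_lit 546) (nat_lit 0) (nat_lit 0) (XT.nd (nat_lit 234) (nat_lit 0) (nat_lit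 0) (XT.nd (nat_lit 78) (nat_lit 0) (nat_lit 0) (XT.lf (nat_lit 0) (nat_lit 141221259865) (nat_lit 152) (nat_lit 638524947858) (nat_lit 0) (nat_lit 77739109842) (nat_lit 2) (nat_lit 5) (nat_lit 4) (nat_lit 4) (nat_lit 2) (nat_lit 4) (nat_lit 345) (nat_lit 279) (nat_lit 156)) (XT.nd (nat_lit 78) (nat_lit 0) (nat_lit 0) (XT.lf (nat_lit 0) (nat_lit 179077370712) (nat_lit 152) (nat_lit 628857367521) (nat_lit 0) (nat_lit 115594856581) (nat_lit 2) (nat_lit 5) (nat_lit 4) (nat_lit 4) (nat_lit 2) (nat_lit 4) (nat_lit 346) (nat_lit 279) (nat_lit 155)) (XT.lf (nat_lit 0) (nat_lit 219961621029) (nat_lit 152) (nat_lit 618417051663) (nat_lit 0) (nat_lit 156478769761) (nat_lit 2) (nat_lit 5) (nat_lit 4) (nat_lit 4) (nat_lit 2) (nat_lit 4) (nat_lit 347) (nat_lit 279) (nat_lit 154)))) (XT.nd (nat_lit 156) (nat_lit 0) (nat_lit 0) (XT.nd (nat_lit 78) (nat_lit 0) (nat_lit 0) (XT.lf (nat_lit 0) (nat_lit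 264116287855) (nat_lit 152) (nat_lit 607142131748) (nat_lit 0) (nat_lit 200633124424) (nat_lit 2) (nat_lit 5) (nat_lit 4) (nat_lit 4) (nat_lit 2) (nat_lit 4) (nat_lit 348) (nat_lit 279) (nat_lit 153)) (XT.lf (nat_lit 0) (nat_lit 311803028475) (nat_lit 152) (nat_lit 594965793433) (nat_lit 0) (nat_lit 248319576004) (nat_lit 2) (nat_lit 5) (nat_lit 4) (nat_lit 4) (nat_lit 2) (nat_lit 4) (nat_lit 349) (nat_lit 279) (nat_lit 152))) (XT.nd (nat_lit 78) (nat_lit 0) (nat_lit 0) (XT.lf (nat_lit 0) (nat_lit 363304430982) (nat_lit 152) (nat_lit 581815880642) (nat_lit 0) (nat_lit 299820710881) (nat_lit 2) (nat_lit 5) (nat_lit 4) (nat_lit 4) (nat_lit 2) (nat_lit 4) (nat_lit 350) (nat_lit 279) (nat_lit 151)) (XT.lf (nat_lit 0) (nat_lit 418925688873) (nat_lit 152) (nat_lit 567614467963) (nat_lit 0) (nat_lit 355441720966) (nat_lit 2) (nat_lit 5) (nat_lit 4) (nat_lit 4) (nat_lit 2) (nat_lit 4) (nat_lit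 351) (nat_lit 279) (nat_lit 150))))) (XT.nd (nat_lit 312) (nat_lit 0) (nat_lit 0) (XT.nd (nat_lit 156) (nat_lit 0) (nat_lit 0) (XT.nd (nat_lit 78) (nat_lit 0) (nat_lit 0) (XT.lf (nat_lit 0) (nat_lit 478996409600) (nat_lit 152) (nat_lit 552277398879) (nat_lit 0) (nat_lit 415512212244) (nat_lit 2) (nat_lit 5) (nat_lit 4) (nat_lit 4) (nat_lit 2) (nat_lit 4) (nat_lit 352) (nat_lit 279) (nat_lit 149)) (XT.lf (nat_lit 0) (nat_lit 543872567806) (nat_lit 152) (nat_lit 535713787053) (nat_lit 0) (nat_lit 480388157997) (nat_lit 2) (nat_lit 5) (nat_lit 4) (nat_lit 4) (nat_lit 2) (nat_lit 4) (nat_lit 353) (nat_lit 279) (nat_lit 148))) (XT.nd (nat_lit 78) (nat_lit 0) (nat_lit 0) (XT.lf (nat_lit 0) (nat_lit 613938614799) (nat_lit 152) (nat_lit 517825477749) (nat_lit 0) (nat_lit 550454008274) (nat_lit 2) (nat_lit 5) (nat_lit 4) (nat_lit 4) (nat_lit 2) (nat_lit 4) (nat_lit 354) (nat_lit 279) (nat_lit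 147)) (XT.lf (nat_lit 0) (nat_lit 689609756782) (nat_lit 152) (nat_lit 498506466170) (nat_lit 0) (nat_lit 626124968113) (nat_lit 2) (nat_lit 5) (nat_lit 4) (nat_lit 4) (nat_lit 2) (nat_lit 4) (nat_lit 355) (nat_lit 279) (nat_lit 146)))) (XT.nd (nat_lit 156) (nat_lit 0) (nat_lit 0) (XT.nd (nat_lit 78) (nat_lit 0) (nat_lit 0) (XT.lf (nat_lit 0) (nat_lit 771334415339) (nat_lit 152) (nat_lit 477642269286) (nat_lit 0) (nat_lit 707849458017) (nat_lit 2) (nat_lit 5) (nat_lit 4) (nat_lit 4) (nat_lit 2) (nat_lit 4) (nat_lit 356) (nat_lit 279) (nat_lit 145)) (XT.lf (nat_lit 0) (nat_lit 859596884742) (nat_lit 152) (nat_lit 455109247411) (nat_lit 0) (nat_lit 796111771260) (nat_lit 2) (nat_lit 5) (nat_lit 4) (nat_lit 4) (nat_lit 2) (nat_lit 4) (nat_lit 357) (nat_lit 279) (nat_lit 144))) (XT.nd (nat_lit 78) (nat_lit 0) (nat_lit 0) (XT.lf (nat_lit 0) (nat_lit 954920201846) (nat_lit 152) (nat_lit 430773871527)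 (nat_lit 0) (nat_lit 891434943772) (nat_lit 2) (nat_lit 5) (nat_lit 4) (nat_lit 4) (nat_lit 2) (nat_lit 4) (nat_lit 358) (nat_lit 279) (nat_lit 143)) (XT.lf (nat_lit 0) (nat_lit 1057869245568) (nat_lit 152) (nat_lit 404491931998) (nat_lit 0) (nat_lit 994383853613) (nat_lit 2) (nat_lit 5) (nat_lit 4) (nat_lit 4) (nat_lit 2) (nat_lit 4) (nat_lit 359) (nat_lit 279) (nat_lit 142)))))) (XT.nd (nat_lit 34632) (nat_lit 0) (nat_lit 2508) (XT.nd (nat_lit 234) (nat_lit 0) (nat_lit 0) (XT.nd (nat_lit 78) (nat_lit 0) (nat_lit 0) (XT.lf (nat_lit 0) (nat_lit 1169054084315) (nat_lit 152) (nat_lit 376107683998) (nat_lit 0) (nat_lit 1105568568396) (nat_lit 2) (nat_lit 5) (nat_lit 4) (nat_lit 4) (nat_lit 2) (nat_lit 4) (nat_lit 360) (nat_lit 279) (nat_lit 141)) (XT.nd (nat_lit 78) (nat_lit 0) (nat_lit 0) (XT.lf (nat_lit 0) (nat_lit 1289133591206) (nat_lit 152) (nat_lit 345452924576) (nat_lit 0) (nat_lit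 1225647960505) (nat_lit 2) (nat_lit 5) (nat_lit 4) (nat_lit 4) (nat_lit 2) (nat_lit 4) (nat_lit 361) (nat_lit 279) (nat_lit 140)) (XT.lf (nat_lit 0) (nat_lit 1418819348503) (nat_lit 152) (nat_lit 312345995898) (nat_lit 0) (nat_lit 1355333611523) (nat_lit 2) (nat_lit 5) (nat_lit 4) (nat_lit 4) (nat_lit 2) (nat_lit 4) (nat_lit 362) (nat_lit 279) (nat_lit 139)))) (XT.nd (nat_lit 34242) (nat_lit 0) (nat_lit 3040) (XT.nd (nat_lit 34164) (nat_lit 0) (nat_lit 3040) (XT.lf (nat_lit 0) (nat_lit 1558879864399) (nat_lit 152) (nat_lit 276590708757) (nat_lit 0) (nat_lit 1495394029011) (nat_lit 2) (nat_lit 5) (nat_lit 4) (nat_lit 4) (nat_lit 2) (nat_lit 4) (nat_lit 363) (nat_lit 279) (nat_lit 138)) (XT.lf (nat_lit 0) (nat_lit 4437346869) (nat_lit 532) (nat_lit 2578070562) (nat_lit 532) (nat_lit 2578070562) (nat_lit 42) (nat_lit 3) (nat_lit 49) (nat_lit 3) (nat_lit 49) (nat_lit 5) (nat_lit 280) (nat_lit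 280) (nat_lit 220))) (XT.nd (nat_lit 78) (nat_lit 0) (nat_lit 76) (XT.lf (nat_lit 76) (nat_lit 3606560133) (nat_lit 0) (nat_lit 5873013628) (nat_lit 532) (nat_lit 10454275928) (nat_lit 43) (nat_lit 5) (nat_lit 42) (nat_lit 3) (nat_lit 49) (nat_lit 5) (nat_lit 281) (nat_lit 280) (nat_lit 219)) (XT.lf (nat_lit 0) (nat_lit 10331756139) (nat_lit 456) (nat_lit 7450860645) (nat_lit 532) (nat_lit 2942004971) (nat_lit 43) (nat_lit 5) (nat_lit 49) (nat_lit 5) (nat_lit 50) (nat_lit 5) (nat_lit 282) (nat_lit 280) (nat_lit 218))))) (XT.nd (nat_lit 312) (nat_lit 608) (nat_lit 0) (XT.nd (nat_lit 156) (nat_lit 0) (nat_lit 76) (XT.nd (nat_lit 78) (nat_lit 0) (nat_lit 0) (XT.lf (nat_lit 76) (nat_lit 2076970137) (nat_lit 0) (nat_lit 9362479598) (nat_lit 532) (nat_lit 10124275797) (nat_lit 44) (nat_lit 5) (nat_lit 43) (nat_lit 5) (nat_lit 50) (nat_lit 5) (nat_lit 283) (nat_lit 280) (nat_lit 217)) (XT.lf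 (nat_lit 76) (nat_lit 12780954150) (nat_lit 0) (nat_lit 44251093) (nat_lit 532) (nat_lit 9629649315) (nat_lit 44) (nat_lit 5) (nat_lit 43) (nat_lit 5) (nat_lit 50) (nat_lit 5) (nat_lit 284) (nat_lit 280) (nat_lit 216))) (XT.nd (nat_lit 78) (nat_lit 0) (nat_lit 0) (XT.lf (nat_lit 76) (nat_lit 708150861) (nat_lit 0) (nat_lit 13858552403) (nat_lit 532) (nat_lit 8831028838) (nat_lit 45) (nat_lit 5) (nat_lit 44) (nat_lit 5) (nat_lit 51) (nat_lit 5) (nat_lit 285) (nat_lit 280) (nat_lit 215)) (XT.lf (nat_lit 76) (nat_lit 12459691080) (nat_lit 0) (nat_lit 4241065683) (nat_lit 532) (nat_lit 7695069385) (nat_lit 45) (nat_lit 5) (nat_lit 44) (nat_lit 5) (nat_lit 51) (nat_lit 5) (nat_lit 286) (nat_lit 280) (nat_lit 214)))) (XT.nd (nat_lit 156) (nat_lit 304) (nat_lit 0) (XT.nd (nat_lit 78) (nat_lit 456) (nat_lit 0) (XT.lf (nat_lit 0) (nat_lit 19141925436) (nat_lit 456) (nat_lit 480517810) (nat_lit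 76) (nat_lit 5840455005) (nat_lit 45) (nat_lit 5) (nat_lit 51) (nat_lit 5) (nat_lit 46) (nat_lit 5) (nat_lit 287) (nat_lit 280) (nat_lit 213)) (XT.lf (nat_lit 0) (nat_lit 12391741670) (nat_lit 456) (nat_lit 9784254587) (nat_lit 532) (nat_lit 4407569881) (nat_lit 39) (nat_lit 5) (nat_lit 45) (nat_lit 5) (nat_lit 46) (nat_lit 5) (nat_lit 288) (nat_lit 280) (nat_lit 212))) (XT.nd (nat_lit 78) (nat_lit 304) (nat_lit 0) (XT.lf (nat_lit 0) (nat_lit 25476504201) (nat_lit 532) (nat_lit 1502441395) (nat_lit 76) (nat_lit 813080786) (nat_lit 39) (nat_lit 5) (nat_lit 46) (nat_lit 5) (nat_lit 40) (nat_lit 5) (nat_lit 289) (nat_lit 280) (nat_lit 211)) (XT.lf (nat_lit 0) (nat_lit 508000707) (nat_lit 304) (nat_lit 16499063811) (nat_lit 76) (nat_lit 12045333253) (nat_lit 35) (nat_lit 5) (nat_lit 39) (nat_lit 5) (nat_lit 36) (nat_lit 5) (nat_lit 290) (nat_lit 280) (nat_lit 210))))))))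
noncomputable def xc82 : XT := (XT.nd (nat_lit 2262) (nat_lit 532) (nat_lit 0) (XT.nd (nat_lit 1092) (nat_lit 760) (nat_lit 0) (XT.nd (nat_lit 546) (nat_lit 608) (nat_lit 0) (XT.nd (nat_lit 234) (nat_lit 380) (nat_lit 0) (XT.nd (nat_lit 78) (nat_lit 228) (nat_lit 0) (XT.lf (nat_lit 0) (nat_lit 3465407704) (nat_lit 304) (nat_lit 2662169016) (nat_lit 76) (nat_lit 24278591078) (nat_lit 35) (nat_lit 5) (nat_lit 39) (nat_lit 5) (nat_lit 36) (nat_lit 5) (nat_lit 291) (nat_lit 280) (nat_lit 209)) (XT.nd (nat_lit 78) (nat_lit 0) (nat_lit 0) (XT.lf (nat_lit 0) (nat_lit 7105005746) (nat_lit 304) (nat_lit 19068361082) (nat_lit 76) (nat_lit 5659251064) (nat_lit 32) (nat_lit 5) (nat_lit 36) (nat_lit 5) (nat_lit 33) (nat_lit 5) (nat_lit 292) (nat_lit 280) (nat_lit 208)) (XT.lf (nat_lit 0) (nat_lit 11261625298) (nat_lit 304) (nat_lit 3961576517) (nat_lit 76) (nat_lit 18131938278) (nat_lit 32) (nat_lit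 5) (nat_lit 36) (nat_lit 5) (nat_lit 33) (nat_lit 5) (nat_lit 293) (nat_lit 280) (nat_lit 207)))) (XT.nd (nat_lit 156) (nat_lit 152) (nat_lit 0) (XT.nd (nat_lit 78) (nat_lit 0) (nat_lit 0) (XT.lf (nat_lit 0) (nat_lit 12995150727) (nat_lit 228) (nat_lit 3060765526) (nat_lit 304) (nat_lit 18919159057) (nat_lit 29) (nat_lit 5) (nat_lit 32) (nat_lit 5) (nat_lit 33) (nat_lit 5) (nat_lit 294) (nat_lit 280) (nat_lit 206)) (XT.lf (nat_lit 0) (nat_lit 21580095087) (nat_lit 304) (nat_lit 5436336499) (nat_lit 76) (nat_lit 9680487102) (nat_lit 29) (nat_lit 5) (nat_lit 33) (nat_lit 5) (nat_lit 30) (nat_lit 5) (nat_lit 295) (nat_lit 280) (nat_lit 205))) (XT.nd (nat_lit 78) (nat_lit 0) (nat_lit 0) (XT.lf (nat_lit 0) (nat_lit 12992858806) (nat_lit 152) (nat_lit 14938771643) (nat_lit 228) (nat_lit 10594064674) (nat_lit 27) (nat_lit 5) (nat_lit 29) (nat_lit 5) (nat_lit 30) (nat_lit 5) (nat_lit 296) (nat_lit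 280) (nat_lit 204)) (XT.lf (nat_lit 0) (nat_lit 33197435178) (nat_lit 152) (nat_lit 1736226095) (nat_lit 228) (nat_lit 5555740518) (nat_lit 27) (nat_lit 5) (nat_lit 29) (nat_lit 5) (nat_lit 30) (nat_lit 5) (nat_lit 297) (nat_lit 280) (nat_lit 203))))) (XT.nd (nat_lit 234) (nat_lit 228) (nat_lit 0) (XT.nd (nat_lit 78) (nat_lit 152) (nat_lit 0) (XT.lf (nat_lit 0) (nat_lit 508609054) (nat_lit 228) (nat_lit 29838809090) (nat_lit 76) (nat_lit 12213643095) (nat_lit 24) (nat_lit 5) (nat_lit 27) (nat_lit 5) (nat_lit 25) (nat_lit 5) (nat_lit 298) (nat_lit 280) (nat_lit 202)) (XT.nd (nat_lit 78) (nat_lit 152) (nat_lit 0) (XT.lf (nat_lit 0) (nat_lit 7001845573) (nat_lit 228) (nat_lit 10232852048) (nat_lit 76) (nat_lit 27532714195) (nat_lit 24) (nat_lit 5) (nat_lit 27) (nat_lit 5) (nat_lit 25) (nat_lit 5) (nat_lit 299) (nat_lit 280) (nat_lit 201)) (XT.lf (nat_lit 0) (nat_lit 11509873003) (nat_lit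 152) (nat_lit 2776149828) (nat_lit 228) (nat_lit 32842542242) (nat_lit 22) (nat_lit 5) (nat_lit 24) (nat_lit 5) (nat_lit 25) (nat_lit 5) (nat_lit 300) (nat_lit 280) (nat_lit 200)))) (XT.nd (nat_lit 156) (nat_lit 76) (nat_lit 0) (XT.nd (nat_lit 78) (nat_lit 152) (nat_lit 0) (XT.lf (nat_lit 0) (nat_lit 22743602202) (nat_lit 228) (nat_lit 14405966170) (nat_lit 76) (nat_lit 12481800987) (nat_lit 22) (nat_lit 5) (nat_lit 25) (nat_lit 5) (nat_lit 23) (nat_lit 5) (nat_lit 301) (nat_lit 280) (nat_lit 199)) (XT.lf (nat_lit 0) (nat_lit 8868202304) (nat_lit 152) (nat_lit 23290192655) (nat_lit 228) (nat_lit 20153565765) (nat_lit 20) (nat_lit 5) (nat_lit 22) (nat_lit 5) (nat_lit 23) (nat_lit 5) (nat_lit 302) (nat_lit 280) (nat_lit 198))) (XT.nd (nat_lit 78) (nat_lit 76) (nat_lit 0) (XT.lf (nat_lit 0) (nat_lit 34816672734) (nat_lit 152) (nat_lit 7898989758) (nat_lit 228) (nat_lit 12460204059) (nat_lit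 20) (nat_lit 5) (nat_lit 22) (nat_lit 5) (nat_lit 23) (nat_lit 5) (nat_lit 303) (nat_lit 280) (nat_lit 197)) (XT.lf (nat_lit 0) (nat_lit 4584997571) (nat_lit 76) (nat_lit 49848279098) (nat_lit 152) (nat_lit 3810356641) (nat_lit 19) (nat_lit 5) (nat_lit 20) (nat_lit 5) (nat_lit 21) (nat_lit 4) (nat_lit 304) (nat_lit 280) (nat_lit 196)))))) (XT.nd (nat_lit 546) (nat_lit 228) (nat_lit 0) (XT.nd (nat_lit 234) (nat_lit 304) (nat_lit 0) (XT.nd (nat_lit 78) (nat_lit 152) (nat_lit 0) (XT.lf (nat_lit 0) (nat_lit 6026796282) (nat_lit 152) (nat_lit 29189139526) (nat_lit 76) (nat_lit 26268489360) (nat_lit 18) (nat_lit 5) (nat_lit 20) (nat_lit 5) (nat_lit 19) (nat_lit 5) (nat_lit 305) (nat_lit 280) (nat_lit 195)) (XT.nd (nat_lit 78) (nat_lit 152) (nat_lit 0) (XT.lf (nat_lit 0) (nat_lit 16441119748) (nat_lit 152) (nat_lit 2867314033) (nat_lit 76) (nat_lit 45668452133) (nat_lit 18) (nat_lit 5) (nat_lit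 20) (nat_lit 5) (nat_lit 19) (nat_lit 5) (nat_lit 306) (nat_lit 280) (nat_lit 194)) (XT.lf (nat_lit 0) (nat_lit 26900113729) (nat_lit 152) (nat_lit 1431772392) (nat_lit 228) (nat_lit 40365400759) (nat_lit 16) (nat_lit 5) (nat_lit 18) (nat_lit 5) (nat_lit 19) (nat_lit 5) (nat_lit 307) (nat_lit 280) (nat_lit 193)))) (XT.nd (nat_lit 156) (nat_lit 228) (nat_lit 0) (XT.nd (nat_lit 78) (nat_lit 76) (nat_lit 0) (XT.lf (nat_lit 0) (nat_lit 41680674201) (nat_lit 228) (nat_lit 13934863025) (nat_lit 76) (nat_lit 17059248457) (nat_lit 16) (nat_lit 5) (nat_lit 19) (nat_lit 5) (nat_lit 17) (nat_lit 4) (nat_lit 308) (nat_lit 280) (nat_lit 192)) (XT.lf (nat_lit 0) (nat_lit 16962316513) (nat_lit 76) (nat_lit 39576878074) (nat_lit 152) (nat_lit 20395949567) (nat_lit 15) (nat_lit 5) (nat_lit 16) (nat_lit 5) (nat_lit 17) (nat_lit 4) (nat_lit 309) (nat_lit 280) (nat_lit 191))) (XT.nd (nat_lit 78) (nat_lit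 228) (nat_lit 0) (XT.lf (nat_lit 0) (nat_lit 51118446129) (nat_lit 76) (nat_lit 21845767533) (nat_lit 152) (nat_lit 8541897927) (nat_lit 15) (nat_lit 5) (nat_lit 16) (nat_lit 5) (nat_lit 17) (nat_lit 4) (nat_lit 310) (nat_lit 280) (nat_lit 190)) (XT.lf (nat_lit 0) (nat_lit 1533472279) (nat_lit 152) (nat_lit 2547726904) (nat_lit 228) (nat_lit 82350657099) (nat_lit 12) (nat_lit 5) (nat_lit 14) (nat_lit 5) (nat_lit 15) (nat_lit 5) (nat_lit 311) (nat_lit 280) (nat_lit 189))))) (XT.nd (nat_lit 312) (nat_lit 152) (nat_lit 0) (XT.nd (nat_lit 156) (nat_lit 76) (nat_lit 0) (XT.nd (nat_lit 78) (nat_lit 0) (nat_lit 0) (XT.lf (nat_lit 0) (nat_lit 18542092182) (nat_lit 228) (nat_lit 54637285316) (nat_lit 76) (nat_lit 18451383544) (nat_lit 12) (nat_lit 5) (nat_lit 15) (nat_lit 5) (nat_lit 13) (nat_lit 4) (nat_lit 312) (nat_lit 280) (nat_lit 188)) (XT.lf (nat_lit 0) (nat_lit 34223276110) (nat_lit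 228) (nat_lit 22026236876) (nat_lit 76) (nat_lit 40990995791) (nat_lit 12) (nat_lit 5) (nat_lit 15) (nat_lit 5) (nat_lit 13) (nat_lit 4) (nat_lit 313) (nat_lit 280) (nat_lit 187))) (XT.nd (nat_lit 78) (nat_lit 0) (nat_lit 0) (XT.lf (nat_lit 0) (nat_lit 13883809231) (nat_lit 76) (nat_lit 37606500322) (nat_lit 152) (nat_lit 51782222241) (nat_lit 11) (nat_lit 5) (nat_lit 12) (nat_lit 5) (nat_lit 13) (nat_lit 4) (nat_lit 314) (nat_lit 280) (nat_lit 186)) (XT.lf (nat_lit 0) (nat_lit 53915011723) (nat_lit 76) (nat_lit 16823464739) (nat_lit 152) (nat_lit 39000662088) (nat_lit 11) (nat_lit 5) (nat_lit 12) (nat_lit 5) (nat_lit 13) (nat_lit 4) (nat_lit 315) (nat_lit 280) (nat_lit 185)))) (XT.nd (nat_lit 156) (nat_lit 76) (nat_lit 0) (XT.nd (nat_lit 78) (nat_lit 76) (nat_lit 0) (XT.lf (nat_lit 0) (nat_lit 91659387348) (nat_lit 152) (nat_lit 19713703389) (nat_lit 0) (nat_lit 5339355158) (nat_lit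 11) (nat_lit 5) (nat_lit 13) (nat_lit 4) (nat_lit 11) (nat_lit 4) (nat_lit 316) (nat_lit 280) (nat_lit 184)) (XT.lf (nat_lit 0) (nat_lit 19837092540) (nat_lit 76) (nat_lit 95328782604) (nat_lit 76) (nat_lit 9004793415) (nat_lit 10) (nat_lit 4) (nat_lit 11) (nat_lit 5) (nat_lit 11) (nat_lit 4) (nat_lit 317) (nat_lit 280) (nat_lit 183))) (XT.nd (nat_lit 78) (nat_lit 0) (nat_lit 0) (XT.lf (nat_lit 0) (nat_lit 8461635247) (nat_lit 152) (nat_lit 68727451762) (nat_lit 76) (nat_lit 54976373300) (nat_lit 9) (nat_lit 5) (nat_lit 11) (nat_lit 5) (nat_lit 10) (nat_lit 4) (nat_lit 318) (nat_lit 280) (nat_lit 182)) (XT.lf (nat_lit 0) (nat_lit 26836905332) (nat_lit 152) (nat_lit 30510282474) (nat_lit 76) (nat_lit 83434097170) (nat_lit 9) (nat_lit 5) (nat_lit 11) (nat_lit 5) (nat_lit 10) (nat_lit 4) (nat_lit 319) (nat_lit 280) (nat_lit 181))))))) (XT.nd (nat_lit 1170) (nat_lit 152) (nat_lit 0) (XT.nd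 (nat_lit 546) (nat_lit 228) (nat_lit 0) (XT.nd (nat_lit 234) (nat_lit 76) (nat_lit 0) (XT.nd (nat_lit 78) (nat_lit 0) (nat_lit 0) (XT.lf (nat_lit 0) (nat_lit 11327623040) (nat_lit 76) (nat_lit 35625170132) (nat_lit 152) (nat_lit 103111936997) (nat_lit 8) (nat_lit 5) (nat_lit 9) (nat_lit 5) (nat_lit 10) (nat_lit 4) (nat_lit 320) (nat_lit 280) (nat_lit 180)) (XT.nd (nat_lit 78) (nat_lit 0) (nat_lit 0) (XT.lf (nat_lit 0) (nat_lit 58244500210) (nat_lit 76) (nat_lit 11265882233) (nat_lit 152) (nat_lit 90513876180) (nat_lit 8) (nat_lit 5) (nat_lit 9) (nat_lit 5) (nat_lit 10) (nat_lit 4) (nat_lit 321) (nat_lit 280) (nat_lit 179)) (XT.lf (nat_lit 0) (nat_lit 94232667664) (nat_lit 152) (nat_lit 62230657308) (nat_lit 0) (nat_lit 14288419201) (nat_lit 8) (nat_lit 5) (nat_lit 10) (nat_lit 4) (nat_lit 8) (nat_lit 4) (nat_lit 322) (nat_lit 280) (nat_lit 178)))) (XT.nd (nat_lit 156) (nat_lit 0) (nat_lit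 0) (XT.nd (nat_lit 78) (nat_lit 76) (nat_lit 0) (XT.lf (nat_lit 0) (nat_lit 121223804881) (nat_lit 152) (nat_lit 19813092385) (nat_lit 0) (nat_lit 41277247548) (nat_lit 8) (nat_lit 5) (nat_lit 10) (nat_lit 4) (nat_lit 8) (nat_lit 4) (nat_lit 323) (nat_lit 280) (nat_lit 177)) (XT.lf (nat_lit 0) (nat_lit 27364107944) (nat_lit 76) (nat_lit 123666796346) (nat_lit 76) (nat_lit 43718101169) (nat_lit 7) (nat_lit 4) (nat_lit 8) (nat_lit 5) (nat_lit 8) (nat_lit 4) (nat_lit 324) (nat_lit 280) (nat_lit 176))) (XT.nd (nat_lit 78) (nat_lit 0) (nat_lit 0) (XT.lf (nat_lit 0) (nat_lit 79439705797) (nat_lit 76) (nat_lit 104323199336) (nat_lit 76) (nat_lit 24372524674) (nat_lit 7) (nat_lit 4) (nat_lit 8) (nat_lit 5) (nat_lit 8) (nat_lit 4) (nat_lit 325) (nat_lit 280) (nat_lit 175)) (XT.lf (nat_lit 0) (nat_lit 135678974973) (nat_lit 76) (nat_lit 83433202570) (nat_lit 76) (nat_lit 3480695052) (nat_lit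 7) (nat_lit 4) (nat_lit 8) (nat_lit 5) (nat_lit 8) (nat_lit 4) (nat_lit 326) (nat_lit 280) (nat_lit 174))))) (XT.nd (nat_lit 312) (nat_lit 76) (nat_lit 0) (XT.nd (nat_lit 156) (nat_lit 0) (nat_lit 0) (XT.nd (nat_lit 78) (nat_lit 76) (nat_lit 0) (XT.lf (nat_lit 0) (nat_lit 18126672671) (nat_lit 152) (nat_lit 42250725450) (nat_lit 76) (nat_lit 177792897190) (nat_lit 6) (nat_lit 5) (nat_lit 8) (nat_lit 5) (nat_lit 7) (nat_lit 4) (nat_lit 327) (nat_lit 280) (nat_lit 173)) (XT.lf (nat_lit 0) (nat_lit 6203309144) (nat_lit 76) (nat_lit 35219327937) (nat_lit 152) (nat_lit 213552198858) (nat_lit 5) (nat_lit 5) (nat_lit 6) (nat_lit 5) (nat_lit 7) (nat_lit 4) (nat_lit 328) (nat_lit 280) (nat_lit 172))) (XT.nd (nat_lit 78) (nat_lit 0) (nat_lit 0) (XT.lf (nat_lit 0) (nat_lit 60934457488) (nat_lit 76) (nat_lit 6801931191) (nat_lit 152) (nat_lit 205295023373) (nat_lit 5) (nat_lit 5) (nat_lit 6) (nat_lit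 5) (nat_lit 7) (nat_lit 4) (nat_lit 329) (nat_lit 280) (nat_lit 171)) (XT.lf (nat_lit 0) (nat_lit 96728728727) (nat_lit 152) (nat_lit 173064899228) (nat_lit 0) (nat_lit 22693008198) (nat_lit 5) (nat_lit 5) (nat_lit 7) (nat_lit 4) (nat_lit 5) (nat_lit 4) (nat_lit 330) (nat_lit 280) (nat_lit 170)))) (XT.nd (nat_lit 156) (nat_lit 76) (nat_lit 0) (XT.nd (nat_lit 78) (nat_lit 0) (nat_lit 0) (XT.lf (nat_lit 0) (nat_lit 128216167226) (nat_lit 152) (nat_lit 131088763260) (nat_lit 0) (nat_lit 54179291687) (nat_lit 5) (nat_lit 5) (nat_lit 7) (nat_lit 4) (nat_lit 5) (nat_lit 4) (nat_lit 331) (nat_lit 280) (nat_lit 169)) (XT.lf (nat_lit 0) (nat_lit 162221709798) (nat_lit 152) (nat_lit 85756212579) (nat_lit 0) (nat_lit 88183764804) (nat_lit 5) (nat_lit 5) (nat_lit 7) (nat_lit 4) (nat_lit 5) (nat_lit 4) (nat_lit 332) (nat_lit 280) (nat_lit 168))) (XT.nd (nat_lit 78) (nat_lit 76) (nat_lit 0) (XT.lf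 (nat_lit 0) (nat_lit 198946870767) (nat_lit 152) (nat_lit 36798609849) (nat_lit 0) (nat_lit 124907935538) (nat_lit 5) (nat_lit 5) (nat_lit 7) (nat_lit 4) (nat_lit 5) (nat_lit 4) (nat_lit 333) (nat_lit 280) (nat_lit 167)) (XT.lf (nat_lit 0) (nat_lit 16920601051) (nat_lit 76) (nat_lit 222095620529) (nat_lit 76) (nat_lit 148055768416) (nat_lit 4) (nat_lit 4) (nat_lit 5) (nat_lit 5) (nat_lit 5) (nat_lit 4) (nat_lit 334) (nat_lit 280) (nat_lit 166)))))) (XT.nd (nat_lit 546) (nat_lit 152) (nat_lit 0) (XT.nd (nat_lit 234) (nat_lit 0) (nat_lit 0) (XT.nd (nat_lit 78) (nat_lit 0) (nat_lit 0) (XT.lf (nat_lit 0) (nat_lit 77028717712) (nat_lit 76) (nat_lit 206267800955) (nat_lit 76) (nat_lit 132227099875) (nat_lit 4) (nat_lit 4) (nat_lit 5) (nat_lit 5) (nat_lit 5) (nat_lit 4) (nat_lit 335) (nat_lit 280) (nat_lit 165)) (XT.nd (nat_lit 78) (nat_lit 0) (nat_lit 0) (XT.lf (nat_lit 0) (nat_lit 141944186797)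 (nat_lit 76) (nat_lit 189174366616) (nat_lit 76) (nat_lit 115132879455) (nat_lit 4) (nat_lit 4) (nat_lit 5) (nat_lit 5) (nat_lit 5) (nat_lit 4) (nat_lit 336) (nat_lit 280) (nat_lit 164)) (XT.lf (nat_lit 0) (nat_lit 212051692569) (nat_lit 76) (nat_lit 170714023084) (nat_lit 76) (nat_lit 96671808071) (nat_lit 4) (nat_lit 4) (nat_lit 5) (nat_lit 5) (nat_lit 5) (nat_lit 4) (nat_lit 337) (nat_lit 280) (nat_lit 163)))) (XT.nd (nat_lit 156) (nat_lit 0) (nat_lit 0) (XT.nd (nat_lit 78) (nat_lit 0) (nat_lit 0) (XT.lf (nat_lit 0) (nat_lit 287766686913) (nat_lit 76) (nat_lit 150777375732) (nat_lit 76) (nat_lit 76734486781) (nat_lit 4) (nat_lit 4) (nat_lit 5) (nat_lit 5) (nat_lit 5) (nat_lit 4) (nat_lit 338) (nat_lit 280) (nat_lit 162)) (XT.lf (nat_lit 0) (nat_lit 369537851278) (nat_lit 76) (nat_lit 129246281465) (nat_lit 76) (nat_lit 55202768498) (nat_lit 4) (nat_lit 4) (nat_lit 5) (nat_lit 5)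 (nat_lit 5) (nat_lit 4) (nat_lit 339) (nat_lit 280) (nat_lit 161))) (XT.nd (nat_lit 78) (nat_lit 0) (nat_lit 0) (XT.lf (nat_lit 0) (nat_lit 457849755525) (nat_lit 76) (nat_lit 105993148612) (nat_lit 76) (nat_lit 31949057852) (nat_lit 4) (nat_lit 4) (nat_lit 5) (nat_lit 5) (nat_lit 5) (nat_lit 4) (nat_lit 340) (nat_lit 280) (nat_lit 160)) (XT.lf (nat_lit 0) (nat_lit 553225729459) (nat_lit 76) (nat_lit 80880180831) (nat_lit 76) (nat_lit 6835555078) (nat_lit 4) (nat_lit 4) (nat_lit 5) (nat_lit 5) (nat_lit 5) (nat_lit 4) (nat_lit 341) (nat_lit 280) (nat_lit 159))))) (XT.nd (nat_lit 312) (nat_lit 0) (nat_lit 0) (XT.nd (nat_lit 156) (nat_lit 0) (nat_lit 0) (XT.nd (nat_lit 78) (nat_lit 76) (nat_lit 0) (XT.lf (nat_lit 0) (nat_lit 19271744660) (nat_lit 152) (nat_lit 33959892223) (nat_lit 76) (nat_lit 636432295723) (nat_lit 3) (nat_lit 5) (nat_lit 5) (nat_lit 5) (nat_lit 4) (nat_lit 4) (nat_lit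 342) (nat_lit 280) (nat_lit 158)) (XT.lf (nat_lit 0) (nat_lit 25177577775) (nat_lit 76) (nat_lit 22525863360) (nat_lit 152) (nat_lit 694518143843) (nat_lit 2) (nat_lit 5) (nat_lit 3) (nat_lit 5) (nat_lit 4) (nat_lit 4) (nat_lit 343) (nat_lit 280) (nat_lit 157))) (XT.nd (nat_lit 78) (nat_lit 0) (nat_lit 0) (XT.lf (nat_lit 0) (nat_lit 79617711928) (nat_lit 152) (nat_lit 708212898161) (nat_lit 0) (nat_lit 11056596666) (nat_lit 2) (nat_lit 5) (nat_lit 4) (nat_lit 4) (nat_lit 2) (nat_lit 4) (nat_lit 344) (nat_lit 280) (nat_lit 156)) (XT.lf (nat_lit 0) (nat_lit 114669834395) (nat_lit 152) (nat_lit 699261112334) (nat_lit 0) (nat_lit 46108355026) (nat_lit 2) (nat_lit 5) (nat_lit 4) (nat_lit 4) (nat_lit 2) (nat_lit 4) (nat_lit 345) (nat_lit 280) (nat_lit 155)))) (XT.nd (nat_lit 156) (nat_lit 0) (nat_lit 0) (XT.nd (nat_lit 78) (nat_lit 0) (nat_lit 0) (XT.lf (nat_lit 0) (nat_lit 152525777262)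 (nat_lit 152) (nat_lit 689593854548) (nat_lit 0) (nat_lit 83963960756) (nat_lit 2) (nat_lit 5) (nat_lit 4) (nat_lit 4) (nat_lit 2) (nat_lit 4) (nat_lit 346) (nat_lit 280) (nat_lit 154)) (XT.lf (nat_lit 0) (nat_lit 193409872042) (nat_lit 152) (nat_lit 679153837349) (nat_lit 0) (nat_lit 124847743373) (nat_lit 2) (nat_lit 5) (nat_lit 4) (nat_lit 4) (nat_lit 2) (nat_lit 4) (nat_lit 347) (nat_lit 280) (nat_lit 153))) (XT.nd (nat_lit 78) (nat_lit 0) (nat_lit 0) (XT.lf (nat_lit 0) (nat_lit 237564394853) (nat_lit 152) (nat_lit 667879193969) (nat_lit 0) (nat_lit 169001977144) (nat_lit 2) (nat_lit 5) (nat_lit 4) (nat_lit 4) (nat_lit 2) (nat_lit 4) (nat_lit 348) (nat_lit 280) (nat_lit 152)) (XT.lf (nat_lit 0) (nat_lit 285251002126) (nat_lit 152) (nat_lit 655703111707) (nat_lit 0) (nat_lit 216688316787) (nat_lit 2) (nat_lit 5) (nat_lit 4) (nat_lit 4) (nat_lit 2) (nat_lit 4) (nat_lit 349) (nat_lit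 280) (nat_lit 151))))))))
noncomputable def xc83 : XT := (XT.nd (nat_lit 36426) (nat_lit 0) (nat_lit 380) (XT.nd (nat_lit 35256) (nat_lit 0) (nat_lit 2052) (XT.nd (nat_lit 546) (nat_lit 0) (nat_lit 0) (XT.nd (nat_lit 234) (nat_lit 0) (nat_lit 0) (XT.nd (nat_lit 78) (nat_lit 0) (nat_lit 0) (XT.lf (nat_lit 0) (nat_lit 336752281163) (nat_lit 152) (nat_lit 642553436000) (nat_lit 0) (nat_lit 268189348019) (nat_lit 2) (nat_lit 5) (nat_lit 4) (nat_lit 4) (nat_lit 2) (nat_lit 4) (nat_lit 350) (nat_lit 280) (nat_lit 150)) (XT.nd (nat_lit 78) (nat_lit 0) (nat_lit 0) (XT.lf (nat_lit 0) (nat_lit 392373424730) (nat_lit 152) (nat_lit 628352242845) (nat_lit 0) (nat_lit 323810262135) (nat_lit 2) (nat_lit 5) (nat_lit 4) (nat_lit 4) (nat_lit 2) (nat_lit 4) (nat_lit 351) (nat_lit 280) (nat_lit 149)) (XT.lf (nat_lit 0) (nat_lit 452444039601) (nat_lit 152) (nat_lit 613015377022) (nat_lit 0) (nat_lit 383880664554)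 (nat_lit 2) (nat_lit 5) (nat_lit 4) (nat_lit 4) (nat_lit 2) (nat_lit 4) (nat_lit 352) (nat_lit 280) (nat_lit 148)))) (XT.nd (nat_lit 156) (nat_lit 0) (nat_lit 0) (XT.nd (nat_lit 78) (nat_lit 0) (nat_lit 0) (XT.lf (nat_lit 0) (nat_lit 517320099793) (nat_lit 152) (nat_lit 596451953402) (nat_lit 0) (nat_lit 448756528030) (nat_lit 2) (nat_lit 5) (nat_lit 4) (nat_lit 4) (nat_lit 2) (nat_lit 4) (nat_lit 353) (nat_lit 280) (nat_lit 147)) (XT.lf (nat_lit 0) (nat_lit 587386056032) (nat_lit 152) (nat_lit 578563818362) (nat_lit 0) (nat_lit 518822302124) (nat_lit 2) (nat_lit 5) (nat_lit 4) (nat_lit 4) (nat_lit 2) (nat_lit 4) (nat_lit 354) (nat_lit 280) (nat_lit 146))) (XT.nd (nat_lit 78) (nat_lit 0) (nat_lit 0) (XT.lf (nat_lit 0) (nat_lit 663057113984) (nat_lit 152) (nat_lit 559244968140) (nat_lit 0) (nat_lit 594493191424) (nat_lit 2) (nat_lit 5) (nat_lit 4) (nat_lit 4) (nat_lit 2) (nat_lit 4)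 (nat_lit 355) (nat_lit 280) (nat_lit 145)) (XT.lf (nat_lit 0) (nat_lit 744781694733) (nat_lit 152) (nat_lit 538380920660) (nat_lit 0) (nat_lit 676217616014) (nat_lit 2) (nat_lit 5) (nat_lit 4) (nat_lit 4) (nat_lit 2) (nat_lit 4) (nat_lit 356) (nat_lit 280) (nat_lit 144))))) (XT.nd (nat_lit 234) (nat_lit 0) (nat_lit 0) (XT.nd (nat_lit 78) (nat_lit 0) (nat_lit 0) (XT.lf (nat_lit 0) (nat_lit 833044092092) (nat_lit 152) (nat_lit 515848037122) (nat_lit 0) (nat_lit 764479868781) (nat_lit 2) (nat_lit 5) (nat_lit 4) (nat_lit 4) (nat_lit 2) (nat_lit 4) (nat_lit 357) (nat_lit 280) (nat_lit 143)) (XT.nd (nat_lit 78) (nat_lit 0) (nat_lit 0) (XT.lf (nat_lit 0) (nat_lit 928367342490) (nat_lit 152) (nat_lit 491512789327) (nat_lit 0) (nat_lit 859802985297) (nat_lit 2) (nat_lit 5) (nat_lit 4) (nat_lit 4) (nat_lit 2) (nat_lit 4) (nat_lit 358) (nat_lit 280) (nat_lit 142)) (XT.lf (nat_lit 0) (nat_lit 1031316324446)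 (nat_lit 152) (nat_lit 465230968400) (nat_lit 0) (nat_lit 962751843289) (nat_lit 2) (nat_lit 5) (nat_lit 4) (nat_lit 4) (nat_lit 2) (nat_lit 4) (nat_lit 359) (nat_lit 280) (nat_lit 141)))) (XT.nd (nat_lit 156) (nat_lit 0) (nat_lit 0) (XT.nd (nat_lit 78) (nat_lit 0) (nat_lit 0) (XT.lf (nat_lit 0) (nat_lit 1142501106003) (nat_lit 152) (nat_lit 436846830216) (nat_lit 0) (nat_lit 1073936510064) (nat_lit 2) (nat_lit 5) (nat_lit 4) (nat_lit 4) (nat_lit 2) (nat_lit 4) (nat_lit 360) (nat_lit 280) (nat_lit 140)) (XT.lf (nat_lit 0) (nat_lit 1262580559939) (nat_lit 152) (nat_lit 406192172476) (nat_lit 0) (nat_lit 1194015857721) (nat_lit 2) (nat_lit 5) (nat_lit 4) (nat_lit 4) (nat_lit 2) (nat_lit 4) (nat_lit 361) (nat_lit 280) (nat_lit 139))) (XT.nd (nat_lit 78) (nat_lit 0) (nat_lit 0) (XT.lf (nat_lit 0) (nat_lit 1392266268205) (nat_lit 152) (nat_lit 373085337947) (nat_lit 0) (nat_lit 1323701467580)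 (nat_lit 2) (nat_lit 5) (nat_lit 4) (nat_lit 4) (nat_lit 2) (nat_lit 4) (nat_lit 362) (nat_lit 280) (nat_lit 138)) (XT.lf (nat_lit 0) (nat_lit 1532326738701) (nat_lit 152) (nat_lit 337330137982) (nat_lit 0) (nat_lit 1463761846958) (nat_lit 2) (nat_lit 5) (nat_lit 4) (nat_lit 4) (nat_lit 2) (nat_lit 4) (nat_lit 363) (nat_lit 280) (nat_lit 137)))))) (XT.nd (nat_lit 546) (nat_lit 988) (nat_lit 0) (XT.nd (nat_lit 234) (nat_lit 0) (nat_lit 76) (XT.nd (nat_lit 78) (nat_lit 0) (nat_lit 0) (XT.lf (nat_lit 0) (nat_lit 4951565166) (nat_lit 532) (nat_lit 2698032116) (nat_lit 532) (nat_lit 2698032116) (nat_lit 42) (nat_lit 3) (nat_lit 49) (nat_lit 3) (nat_lit 49) (nat_lit 5) (nat_lit 281) (nat_lit 281) (nat_lit 218)) (XT.nd (nat_lit 78) (nat_lit 0) (nat_lit 76) (XT.lf (nat_lit 76) (nat_lit 4063284310) (nat_lit 0) (nat_lit 6473571933) (nat_lit 532) (nat_lit 10966678481) (nat_lit 43) (nat_lit 5)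 (nat_lit 42) (nat_lit 3) (nat_lit 49) (nat_lit 5) (nat_lit 282) (nat_lit 281) (nat_lit 217)) (XT.lf (nat_lit 0) (nat_lit 11432160361) (nat_lit 456) (nat_lit 7865109072) (nat_lit 532) (nat_lit 3062385544) (nat_lit 43) (nat_lit 5) (nat_lit 49) (nat_lit 5) (nat_lit 50) (nat_lit 5) (nat_lit 283) (nat_lit 281) (nat_lit 216)))) (XT.nd (nat_lit 156) (nat_lit 0) (nat_lit 76) (XT.nd (nat_lit 78) (nat_lit 0) (nat_lit 0) (XT.lf (nat_lit 76) (nat_lit 2420345124) (nat_lit 0) (nat_lit 10192100201) (nat_lit 532) (nat_lit 10654799766) (nat_lit 44) (nat_lit 5) (nat_lit 43) (nat_lit 5) (nat_lit 50) (nat_lit 5) (nat_lit 284) (nat_lit 281) (nat_lit 215)) (XT.lf (nat_lit 76) (nat_lit 13967520645) (nat_lit 0) (nat_lit 122441398) (nat_lit 532) (nat_lit 10141300803) (nat_lit 44) (nat_lit 5) (nat_lit 43) (nat_lit 5) (nat_lit 50) (nat_lit 5) (nat_lit 285) (nat_lit 281) (nat_lit 214))) (XT.nd (nat_lit 78) (nat_lit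 0) (nat_lit 0) (XT.lf (nat_lit 76) (nat_lit 945963052) (nat_lit 0) (nat_lit 15009826935) (nat_lit 532) (nat_lit 9295045047) (nat_lit 45) (nat_lit 5) (nat_lit 44) (nat_lit 5) (nat_lit 51) (nat_lit 5) (nat_lit 286) (nat_lit 281) (nat_lit 213)) (XT.lf (nat_lit 76) (nat_lit 13624207220) (nat_lit 0) (nat_lit 4619786438) (nat_lit 532) (nat_lit 8086169290) (nat_lit 45) (nat_lit 5) (nat_lit 44) (nat_lit 5) (nat_lit 51) (nat_lit 5) (nat_lit 287) (nat_lit 281) (nat_lit 212))))) (XT.nd (nat_lit 312) (nat_lit 456) (nat_lit 0) (XT.nd (nat_lit 156) (nat_lit 304) (nat_lit 0) (XT.nd (nat_lit 78) (nat_lit 456) (nat_lit 0) (XT.lf (nat_lit 0) (nat_lit 20864231257) (nat_lit 456) (nat_lit 346719818) (nat_lit 76) (nat_lit 6273003650) (nat_lit 45) (nat_lit 5) (nat_lit 51) (nat_lit 5) (nat_lit 46) (nat_lit 5) (nat_lit 288) (nat_lit 281) (nat_lit 211)) (XT.lf (nat_lit 0) (nat_lit 13550959930) (nat_lit 456)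 (nat_lit 10579960730) (nat_lit 532) (nat_lit 4564215746) (nat_lit 39) (nat_lit 5) (nat_lit 45) (nat_lit 5) (nat_lit 46) (nat_lit 5) (nat_lit 289) (nat_lit 281) (nat_lit 210))) (XT.nd (nat_lit 78) (nat_lit 304) (nat_lit 0) (XT.lf (nat_lit 0) (nat_lit 27681784605) (nat_lit 532) (nat_lit 1452909135) (nat_lit 76) (nat_lit 866722458) (nat_lit 39) (nat_lit 5) (nat_lit 46) (nat_lit 5) (nat_lit 40) (nat_lit 5) (nat_lit 290) (nat_lit 281) (nat_lit 209)) (XT.lf (nat_lit 0) (nat_lit 712048076) (nat_lit 304) (nat_lit 17644439539) (nat_lit 76) (nat_lit 13006515426) (nat_lit 35) (nat_lit 5) (nat_lit 39) (nat_lit 5) (nat_lit 36) (nat_lit 5) (nat_lit 291) (nat_lit 281) (nat_lit 208)))) (XT.nd (nat_lit 156) (nat_lit 228) (nat_lit 0) (XT.nd (nat_lit 78) (nat_lit 228) (nat_lit 0) (XT.lf (nat_lit 0) (nat_lit 3893943387) (nat_lit 304) (nat_lit 2713522744) (nat_lit 76) (nat_lit 26218614951) (nat_lit 35)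 (nat_lit 5) (nat_lit 39) (nat_lit 5) (nat_lit 36) (nat_lit 5) (nat_lit 292) (nat_lit 281) (nat_lit 207)) (XT.lf (nat_lit 0) (nat_lit 7817618337) (nat_lit 304) (nat_lit 20424678596) (nat_lit 76) (nat_lit 6124952778) (nat_lit 32) (nat_lit 5) (nat_lit 36) (nat_lit 5) (nat_lit 33) (nat_lit 5) (nat_lit 293) (nat_lit 281) (nat_lit 206))) (XT.nd (nat_lit 78) (nat_lit 228) (nat_lit 0) (XT.lf (nat_lit 0) (nat_lit 12296085073) (nat_lit 304) (nat_lit 4121880998) (nat_lit 76) (nat_lit 19594494847) (nat_lit 32) (nat_lit 5) (nat_lit 36) (nat_lit 5) (nat_lit 33) (nat_lit 5) (nat_lit 294) (nat_lit 281) (nat_lit 205)) (XT.lf (nat_lit 0) (nat_lit 14187419322) (nat_lit 228) (nat_lit 3280280283) (nat_lit 304) (nat_lit 20294819146) (nat_lit 29) (nat_lit 5) (nat_lit 32) (nat_lit 5) (nat_lit 33) (nat_lit 5) (nat_lit 295) (nat_lit 281) (nat_lit 204))))))) (XT.nd (nat_lit 1170) (nat_lit 608) (nat_lit 0) (XT.nd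 (nat_lit 546) (nat_lit 532) (nat_lit 0) (XT.nd (nat_lit 234) (nat_lit 380) (nat_lit 0) (XT.nd (nat_lit 78) (nat_lit 152) (nat_lit 0) (XT.lf (nat_lit 0) (nat_lit 23424946801) (nat_lit 304) (nat_lit 5720679033) (nat_lit 76) (nat_lit 10477221025) (nat_lit 29) (nat_lit 5) (nat_lit 33) (nat_lit 5) (nat_lit 30) (nat_lit 5) (nat_lit 296) (nat_lit 281) (nat_lit 203)) (XT.nd (nat_lit 78) (nat_lit 0) (nat_lit 0) (XT.lf (nat_lit 0) (nat_lit 14179040140) (nat_lit 152) (nat_lit 16100320619) (nat_lit 228) (nat_lit 11319010099) (nat_lit 27) (nat_lit 5) (nat_lit 29) (nat_lit 5) (nat_lit 30) (nat_lit 5) (nat_lit 297) (nat_lit 281) (nat_lit 202)) (XT.lf (nat_lit 0) (nat_lit 35989112056) (nat_lit 152) (nat_lit 1844056816) (nat_lit 228) (nat_lit 5886699993) (nat_lit 27) (nat_lit 5) (nat_lit 29) (nat_lit 5) (nat_lit 30) (nat_lit 5) (nat_lit 298) (nat_lit 281) (nat_lit 201)))) (XT.nd (nat_lit 156) (nat_lit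 152) (nat_lit 0) (XT.nd (nat_lit 78) (nat_lit 0) (nat_lit 0) (XT.lf (nat_lit 0) (nat_lit 653301677) (nat_lit 228) (nat_lit 32080001094) (nat_lit 76) (nat_lit 13224065944) (nat_lit 24) (nat_lit 5) (nat_lit 27) (nat_lit 5) (nat_lit 25) (nat_lit 5) (nat_lit 299) (nat_lit 281) (nat_lit 200)) (XT.lf (nat_lit 0) (nat_lit 7658293125) (nat_lit 228) (nat_lit 10916375839) (nat_lit 76) (nat_lit 29766193739) (nat_lit 24) (nat_lit 5) (nat_lit 27) (nat_lit 5) (nat_lit 25) (nat_lit 5) (nat_lit 300) (nat_lit 281) (nat_lit 199))) (XT.nd (nat_lit 78) (nat_lit 0) (nat_lit 0) (XT.lf (nat_lit 0) (nat_lit 12562346852) (nat_lit 152) (nat_lit 2958891389) (nat_lit 228) (nat_lit 35370004921) (nat_lit 22) (nat_lit 5) (nat_lit 24) (nat_lit 5) (nat_lit 25) (nat_lit 5) (nat_lit 301) (nat_lit 281) (nat_lit 198)) (XT.lf (nat_lit 0) (nat_lit 24649460714) (nat_lit 228) (nat_lit 15430346475) (nat_lit 76) (nat_lit 13514957990)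 (nat_lit 22) (nat_lit 5) (nat_lit 25) (nat_lit 5) (nat_lit 23) (nat_lit 5) (nat_lit 302) (nat_lit 281) (nat_lit 197))))) (XT.nd (nat_lit 312) (nat_lit 228) (nat_lit 0) (XT.nd (nat_lit 156) (nat_lit 152) (nat_lit 0) (XT.nd (nat_lit 78) (nat_lit 0) (nat_lit 0) (XT.lf (nat_lit 0) (nat_lit 9702512516) (nat_lit 152) (nat_lit 25111529315) (nat_lit 228) (nat_lit 21676048745) (nat_lit 20) (nat_lit 5) (nat_lit 22) (nat_lit 5) (nat_lit 23) (nat_lit 5) (nat_lit 303) (nat_lit 281) (nat_lit 196)) (XT.lf (nat_lit 0) (nat_lit 37717612134) (nat_lit 152) (nat_lit 8492132316) (nat_lit 228) (nat_lit 13373870123) (nat_lit 20) (nat_lit 5) (nat_lit 22) (nat_lit 5) (nat_lit 23) (nat_lit 5) (nat_lit 304) (nat_lit 281) (nat_lit 195))) (XT.nd (nat_lit 78) (nat_lit 76) (nat_lit 0) (XT.lf (nat_lit 0) (nat_lit 5069728534) (nat_lit 76) (nat_lit 53793047939) (nat_lit 152) (nat_lit 4034198465) (nat_lit 19) (nat_lit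 5) (nat_lit 20) (nat_lit 5) (nat_lit 21) (nat_lit 4) (nat_lit 305) (nat_lit 281) (nat_lit 194)) (XT.lf (nat_lit 0) (nat_lit 6580176488) (nat_lit 152) (nat_lit 31411185075) (nat_lit 76) (nat_lit 28405979789) (nat_lit 18) (nat_lit 5) (nat_lit 20) (nat_lit 5) (nat_lit 19) (nat_lit 5) (nat_lit 306) (nat_lit 281) (nat_lit 193)))) (XT.nd (nat_lit 156) (nat_lit 76) (nat_lit 0) (XT.nd (nat_lit 78) (nat_lit 152) (nat_lit 0) (XT.lf (nat_lit 0) (nat_lit 17822369054) (nat_lit 152) (nat_lit 2991990255) (nat_lit 76) (nat_lit 49355272081) (nat_lit 18) (nat_lit 5) (nat_lit 20) (nat_lit 5) (nat_lit 19) (nat_lit 5) (nat_lit 307) (nat_lit 281) (nat_lit 192)) (XT.lf (nat_lit 0) (nat_lit 29154180870) (nat_lit 152) (nat_lit 1507784459) (nat_lit 228) (nat_lit 43525903144) (nat_lit 16) (nat_lit 5) (nat_lit 18) (nat_lit 5) (nat_lit 19) (nat_lit 5) (nat_lit 308) (nat_lit 281) (nat_lit 191))) (XT.nd (nat_lit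 78) (nat_lit 76) (nat_lit 0) (XT.lf (nat_lit 0) (nat_lit 45074808655) (nat_lit 228) (nat_lit 14951195808) (nat_lit 76) (nat_lit 18457879362) (nat_lit 16) (nat_lit 5) (nat_lit 19) (nat_lit 5) (nat_lit 17) (nat_lit 4) (nat_lit 309) (nat_lit 281) (nat_lit 190)) (XT.lf (nat_lit 0) (nat_lit 18415265529) (nat_lit 76) (nat_lit 42704632293) (nat_lit 152) (nat_lit 21965350348) (nat_lit 15) (nat_lit 5) (nat_lit 16) (nat_lit 5) (nat_lit 17) (nat_lit 4) (nat_lit 310) (nat_lit 281) (nat_lit 189)))))) (XT.nd (nat_lit 546) (nat_lit 304) (nat_lit 0) (XT.nd (nat_lit 234) (nat_lit 76) (nat_lit 0) (XT.nd (nat_lit 78) (nat_lit 228) (nat_lit 0) (XT.lf (nat_lit 0) (nat_lit 55296777093) (nat_lit 76) (nat_lit 23557877059) (nat_lit 152) (nat_lit 9167587554) (nat_lit 15) (nat_lit 5) (nat_lit 16) (nat_lit 5) (nat_lit 17) (nat_lit 4) (nat_lit 311) (nat_lit 281) (nat_lit 188)) (XT.nd (nat_lit 78) (nat_lit 0) (nat_lit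 0) (XT.lf (nat_lit 0) (nat_lit 1745652626) (nat_lit 152) (nat_lit 2714915132) (nat_lit 228) (nat_lit 88881526163) (nat_lit 12) (nat_lit 5) (nat_lit 14) (nat_lit 5) (nat_lit 15) (nat_lit 5) (nat_lit 312) (nat_lit 281) (nat_lit 187)) (XT.lf (nat_lit 0) (nat_lit 20075231401) (nat_lit 228) (nat_lit 58922219551) (nat_lit 76) (nat_lit 19959714178) (nat_lit 12) (nat_lit 5) (nat_lit 15) (nat_lit 5) (nat_lit 13) (nat_lit 4) (nat_lit 313) (nat_lit 281) (nat_lit 186)))) (XT.nd (nat_lit 156) (nat_lit 0) (nat_lit 0) (XT.nd (nat_lit 78) (nat_lit 76) (nat_lit 0) (XT.lf (nat_lit 0) (nat_lit 37007223239) (nat_lit 228) (nat_lit 23708661206) (nat_lit 76) (nat_lit 44300108742) (nat_lit 12) (nat_lit 5) (nat_lit 15) (nat_lit 5) (nat_lit 13) (nat_lit 4) (nat_lit 314) (nat_lit 281) (nat_lit 185)) (XT.lf (nat_lit 0) (nat_lit 15072171511) (nat_lit 76) (nat_lit 40581901806) (nat_lit 152) (nat_lit 55876633559)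 (nat_lit 11) (nat_lit 5) (nat_lit 12) (nat_lit 5) (nat_lit 13) (nat_lit 4) (nat_lit 315) (nat_lit 281) (nat_lit 184))) (XT.nd (nat_lit 78) (nat_lit 0) (nat_lit 0) (XT.lf (nat_lit 0) (nat_lit 58300117792) (nat_lit 76) (nat_lit 18138676602) (nat_lit 152) (nat_lit 42076116480) (nat_lit 11) (nat_lit 5) (nat_lit 12) (nat_lit 5) (nat_lit 13) (nat_lit 4) (nat_lit 316) (nat_lit 281) (nat_lit 183)) (XT.lf (nat_lit 0) (nat_lit 99031006221) (nat_lit 152) (nat_lit 21221793744) (nat_lit 0) (nat_lit 5793477009) (nat_lit 11) (nat_lit 5) (nat_lit 13) (nat_lit 4) (nat_lit 11) (nat_lit 4) (nat_lit 317) (nat_lit 281) (nat_lit 182))))) (XT.nd (nat_lit 312) (nat_lit 76) (nat_lit 0) (XT.nd (nat_lit 156) (nat_lit 76) (nat_lit 0) (XT.nd (nat_lit 78) (nat_lit 76) (nat_lit 0) (XT.lf (nat_lit 0) (nat_lit 21491318875) (nat_lit 76) (nat_lit 102925432642) (nat_lit 76) (nat_lit 9684510941) (nat_lit 10) (nat_lit 4)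 (nat_lit 11) (nat_lit 5) (nat_lit 11) (nat_lit 4) (nat_lit 318) (nat_lit 281) (nat_lit 181)) (XT.lf (nat_lit 0) (nat_lit 9174336133) (nat_lit 152) (nat_lit 74161443737) (nat_lit 76) (nat_lit 59400011870) (nat_lit 9) (nat_lit 5) (nat_lit 11) (nat_lit 5) (nat_lit 10) (nat_lit 4) (nat_lit 319) (nat_lit 281) (nat_lit 180))) (XT.nd (nat_lit 78) (nat_lit 76) (nat_lit 0) (XT.lf (nat_lit 0) (nat_lit 29016978190) (nat_lit 152) (nat_lit 32891656769) (nat_lit 76) (nat_lit 90132462634) (nat_lit 9) (nat_lit 5) (nat_lit 11) (nat_lit 5) (nat_lit 10) (nat_lit 4) (nat_lit 320) (nat_lit 281) (nat_lit 179)) (XT.lf (nat_lit 0) (nat_lit 12291776166) (nat_lit 76) (nat_lit 38449301064) (nat_lit 152) (nat_lit 111326228961) (nat_lit 8) (nat_lit 5) (nat_lit 9) (nat_lit 5) (nat_lit 10) (nat_lit 4) (nat_lit 321) (nat_lit 281) (nat_lit 178)))) (XT.nd (nat_lit 156) (nat_lit 76) (nat_lit 0) (XT.nd (nat_lit 78) (nat_lit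 0) (nat_lit 0) (XT.lf (nat_lit 0) (nat_lit 62957711414) (nat_lit 76) (nat_lit 12143187368) (nat_lit 152) (nat_lit 97722890909) (nat_lit 8) (nat_lit 5) (nat_lit 9) (nat_lit 5) (nat_lit 10) (nat_lit 4) (nat_lit 322) (nat_lit 281) (nat_lit 177)) (XT.lf (nat_lit 0) (nat_lit 101799301553) (nat_lit 152) (nat_lit 67157735412) (nat_lit 0) (nat_lit 15452572917) (nat_lit 8) (nat_lit 5) (nat_lit 10) (nat_lit 4) (nat_lit 8) (nat_lit 4) (nat_lit 323) (nat_lit 281) (nat_lit 176))) (XT.nd (nat_lit 78) (nat_lit 76) (nat_lit 0) (XT.lf (nat_lit 0) (nat_lit 130947654157) (nat_lit 152) (nat_lit 21350570813) (nat_lit 0) (nat_lit 44598946037) (nat_lit 8) (nat_lit 5) (nat_lit 10) (nat_lit 4) (nat_lit 8) (nat_lit 4) (nat_lit 324) (nat_lit 281) (nat_lit 175)) (XT.lf (nat_lit 0) (nat_lit 29599601266) (nat_lit 76) (nat_lit 133538913482) (nat_lit 76) (nat_lit 47188372505) (nat_lit 7) (nat_lit 4) (nat_lit 8) (nat_lit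 5) (nat_lit 8) (nat_lit 4) (nat_lit 325) (nat_lit 281) (nat_lit 174))))))))
noncomputable def xc84 : XT := (XT.nd (nat_lit 2262) (nat_lit 0) (nat_lit 0) (XT.nd (nat_lit 1092) (nat_lit 152) (nat_lit 0) (XT.nd (nat_lit 546) (nat_lit 76) (nat_lit 0) (XT.nd (nat_lit 234) (nat_lit 76) (nat_lit 0) (XT.nd (nat_lit 78) (nat_lit 76) (nat_lit 0) (XT.lf (nat_lit 0) (nat_lit 85837812525) (nat_lit 76) (nat_lit 112649401049) (nat_lit 76) (nat_lit 26297162983) (nat_lit 7) (nat_lit 4) (nat_lit 8) (nat_lit 5) (nat_lit 8) (nat_lit 4) (nat_lit 326) (nat_lit 281) (nat_lit 173)) (XT.nd (nat_lit 78) (nat_lit 76) (nat_lit 0) (XT.lf (nat_lit 0) (nat_lit 146573043216) (nat_lit 76) (nat_lit 90089660411) (nat_lit 76) (nat_lit 3735850966) (nat_lit 7) (nat_lit 4) (nat_lit 8) (nat_lit 5) (nat_lit 8) (nat_lit 4) (nat_lit 327) (nat_lit 281) (nat_lit 172)) (XT.lf (nat_lit 0) (nat_lit 19597301063) (nat_lit 152) (nat_lit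 45592878212) (nat_lit 76) (nat_lit 192032079812) (nat_lit 6) (nat_lit 5) (nat_lit 8) (nat_lit 5) (nat_lit 7) (nat_lit 4) (nat_lit 328) (nat_lit 281) (nat_lit 171)))) (XT.nd (nat_lit 156) (nat_lit 0) (nat_lit 0) (XT.nd (nat_lit 78) (nat_lit 0) (nat_lit 0) (XT.lf (nat_lit 0) (nat_lit 6736519523) (nat_lit 76) (nat_lit 38019793530) (nat_lit 152) (nat_lit 230614901780) (nat_lit 5) (nat_lit 5) (nat_lit 6) (nat_lit 5) (nat_lit 7) (nat_lit 4) (nat_lit 329) (nat_lit 281) (nat_lit 170)) (XT.lf (nat_lit 0) (nat_lit 65843423020) (nat_lit 76) (nat_lit 7330270278) (nat_lit 152) (nat_lit 221698742849) (nat_lit 5) (nat_lit 5) (nat_lit 6) (nat_lit 5) (nat_lit 7) (nat_lit 4) (nat_lit 330) (nat_lit 281) (nat_lit 169))) (XT.nd (nat_lit 78) (nat_lit 0) (nat_lit 0) (XT.lf (nat_lit 0) (nat_lit 104484410251) (nat_lit 152) (nat_lit 186877389831) (nat_lit 0) (nat_lit 24522360204) (nat_lit 5) (nat_lit 5) (nat_lit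 7) (nat_lit 4) (nat_lit 5) (nat_lit 4) (nat_lit 331) (nat_lit 281) (nat_lit 168)) (XT.lf (nat_lit 0) (nat_lit 138489556184) (nat_lit 152) (nat_lit 141545585306) (nat_lit 0) (nat_lit 58526515902) (nat_lit 5) (nat_lit 5) (nat_lit 7) (nat_lit 4) (nat_lit 5) (nat_lit 4) (nat_lit 332) (nat_lit 281) (nat_lit 167))))) (XT.nd (nat_lit 234) (nat_lit 0) (nat_lit 0) (XT.nd (nat_lit 78) (nat_lit 76) (nat_lit 0) (XT.lf (nat_lit 0) (nat_lit 175214349896) (nat_lit 152) (nat_lit 92588673461) (nat_lit 0) (nat_lit 95250392729) (nat_lit 5) (nat_lit 5) (nat_lit 7) (nat_lit 4) (nat_lit 5) (nat_lit 4) (nat_lit 333) (nat_lit 281) (nat_lit 166)) (XT.nd (nat_lit 78) (nat_lit 76) (nat_lit 0) (XT.lf (nat_lit 0) (nat_lit 214876419794) (nat_lit 152) (nat_lit 39716539262) (nat_lit 0) (nat_lit 134911613660) (nat_lit 5) (nat_lit 5) (nat_lit 7) (nat_lit 4) (nat_lit 5) (nat_lit 4) (nat_lit 334) (nat_lit 281) (nat_lit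 165)) (XT.lf (nat_lit 0) (nat_lit 18299551310) (nat_lit 76) (nat_lit 239851353704) (nat_lit 76) (nat_lit 159885761489) (nat_lit 4) (nat_lit 4) (nat_lit 5) (nat_lit 5) (nat_lit 5) (nat_lit 4) (nat_lit 335) (nat_lit 281) (nat_lit 164)))) (XT.nd (nat_lit 156) (nat_lit 0) (nat_lit 0) (XT.nd (nat_lit 78) (nat_lit 0) (nat_lit 0) (XT.lf (nat_lit 0) (nat_lit 83214443069) (nat_lit 76) (nat_lit 222758191266) (nat_lit 76) (nat_lit 142791871199) (nat_lit 4) (nat_lit 4) (nat_lit 5) (nat_lit 5) (nat_lit 5) (nat_lit 4) (nat_lit 336) (nat_lit 281) (nat_lit 163)) (XT.lf (nat_lit 0) (nat_lit 153321414278) (nat_lit 76) (nat_lit 204298099495) (nat_lit 76) (nat_lit 124331105490) (nat_lit 4) (nat_lit 4) (nat_lit 5) (nat_lit 5) (nat_lit 5) (nat_lit 4) (nat_lit 337) (nat_lit 281) (nat_lit 162))) (XT.nd (nat_lit 78) (nat_lit 0) (nat_lit 0) (XT.lf (nat_lit 0) (nat_lit 229035913657) (nat_lit 76) (nat_lit 184361685255)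 (nat_lit 76) (nat_lit 104394067234) (nat_lit 4) (nat_lit 4) (nat_lit 5) (nat_lit 5) (nat_lit 5) (nat_lit 4) (nat_lit 338) (nat_lit 281) (nat_lit 161)) (XT.lf (nat_lit 0) (nat_lit 310806619721) (nat_lit 76) (nat_lit 162830806832) (nat_lit 76) (nat_lit 82862611018) (nat_lit 4) (nat_lit 4) (nat_lit 5) (nat_lit 5) (nat_lit 5) (nat_lit 4) (nat_lit 339) (nat_lit 281) (nat_lit 160)))))) (XT.nd (nat_lit 546) (nat_lit 0) (nat_lit 0) (XT.nd (nat_lit 234) (nat_lit 152) (nat_lit 0) (XT.nd (nat_lit 78) (nat_lit 0) (nat_lit 0) (XT.lf (nat_lit 0) (nat_lit 399118099615) (nat_lit 76) (nat_lit 139577873835) (nat_lit 76) (nat_lit 59609143028) (nat_lit 4) (nat_lit 4) (nat_lit 5) (nat_lit 5) (nat_lit 5) (nat_lit 4) (nat_lit 340) (nat_lit 281) (nat_lit 159)) (XT.nd (nat_lit 78) (nat_lit 0) (nat_lit 0) (XT.lf (nat_lit 0) (nat_lit 494493680630) (nat_lit 76) (nat_lit 114465091105) (nat_lit 76) (nat_lit 34495864935)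 (nat_lit 4) (nat_lit 4) (nat_lit 5) (nat_lit 5) (nat_lit 5) (nat_lit 4) (nat_lit 341) (nat_lit 281) (nat_lit 158)) (XT.lf (nat_lit 0) (nat_lit 597498551392) (nat_lit 76) (nat_lit 87343642153) (nat_lit 76) (nat_lit 7373957312) (nat_lit 4) (nat_lit 4) (nat_lit 5) (nat_lit 5) (nat_lit 5) (nat_lit 4) (nat_lit 342) (nat_lit 281) (nat_lit 157)))) (XT.nd (nat_lit 156) (nat_lit 0) (nat_lit 0) (XT.nd (nat_lit 78) (nat_lit 76) (nat_lit 0) (XT.lf (nat_lit 0) (nat_lit 20820910030) (nat_lit 152) (nat_lit 36662616673) (nat_lit 76) (nat_lit 687352920528) (nat_lit 3) (nat_lit 5) (nat_lit 5) (nat_lit 5) (nat_lit 4) (nat_lit 4) (nat_lit 343) (nat_lit 281) (nat_lit 156)) (XT.lf (nat_lit 0) (nat_lit 27205494800) (nat_lit 76) (nat_lit 24321427109) (nat_lit 152) (nat_lit 750071807947) (nat_lit 2) (nat_lit 5) (nat_lit 3) (nat_lit 5) (nat_lit 4) (nat_lit 4) (nat_lit 344) (nat_lit 281) (nat_lit 155))) (XT.nd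 (nat_lit 78) (nat_lit 0) (nat_lit 0) (XT.lf (nat_lit 0) (nat_lit 85993945490) (nat_lit 152) (nat_lit 764856840874) (nat_lit 0) (nat_lit 11946846527) (nat_lit 2) (nat_lit 5) (nat_lit 4) (nat_lit 4) (nat_lit 2) (nat_lit 4) (nat_lit 345) (nat_lit 281) (nat_lit 154)) (XT.lf (nat_lit 0) (nat_lit 123849732820) (nat_lit 152) (nat_lit 755189881747) (nat_lit 0) (nat_lit 49802321694) (nat_lit 2) (nat_lit 5) (nat_lit 4) (nat_lit 4) (nat_lit 2) (nat_lit 4) (nat_lit 346) (nat_lit 281) (nat_lit 153))))) (XT.nd (nat_lit 312) (nat_lit 0) (nat_lit 0) (XT.nd (nat_lit 156) (nat_lit 0) (nat_lit 0) (XT.nd (nat_lit 78) (nat_lit 0) (nat_lit 0) (XT.lf (nat_lit 0) (nat_lit 164733683585) (nat_lit 152) (nat_lit 744750141084) (nat_lit 0) (nat_lit 90685983419) (nat_lit 2) (nat_lit 5) (nat_lit 4) (nat_lit 4) (nat_lit 2) (nat_lit 4) (nat_lit 347) (nat_lit 281) (nat_lit 152)) (XT.lf (nat_lit 0) (nat_lit 208888073049)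 (nat_lit 152) (nat_lit 733475753756) (nat_lit 0) (nat_lit 134840105252) (nat_lit 2) (nat_lit 5) (nat_lit 4) (nat_lit 4) (nat_lit 2) (nat_lit 4) (nat_lit 348) (nat_lit 281) (nat_lit 151))) (XT.nd (nat_lit 78) (nat_lit 0) (nat_lit 0) (XT.lf (nat_lit 0) (nat_lit 256574556852) (nat_lit 152) (nat_lit 721299908579) (nat_lit 0) (nat_lit 182526341250) (nat_lit 2) (nat_lit 5) (nat_lit 4) (nat_lit 4) (nat_lit 2) (nat_lit 4) (nat_lit 349) (nat_lit 281) (nat_lit 150)) (XT.lf (nat_lit 0) (nat_lit 308075721565) (nat_lit 152) (nat_lit 708150452395) (nat_lit 0) (nat_lit 234027276514) (nat_lit 2) (nat_lit 5) (nat_lit 4) (nat_lit 4) (nat_lit 2) (nat_lit 4) (nat_lit 350) (nat_lit 281) (nat_lit 149)))) (XT.nd (nat_lit 156) (nat_lit 0) (nat_lit 0) (XT.nd (nat_lit 78) (nat_lit 0) (nat_lit 0) (XT.lf (nat_lit 0) (nat_lit 363696759275) (nat_lit 152) (nat_lit 693949462502) (nat_lit 0) (nat_lit 289648101771)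 (nat_lit 2) (nat_lit 5) (nat_lit 4) (nat_lit 4) (nat_lit 2) (nat_lit 4) (nat_lit 351) (nat_lit 281) (nat_lit 148)) (XT.lf (nat_lit 0) (nat_lit 423767276133) (nat_lit 152) (nat_lit 678612784885) (nat_lit 0) (nat_lit 349718421913) (nat_lit 2) (nat_lit 5) (nat_lit 4) (nat_lit 4) (nat_lit 2) (nat_lit 4) (nat_lit 352) (nat_lit 281) (nat_lit 147))) (XT.nd (nat_lit 78) (nat_lit 0) (nat_lit 0) (XT.lf (nat_lit 0) (nat_lit 488643245571) (nat_lit 152) (nat_lit 662049535529) (nat_lit 0) (nat_lit 414594209206) (nat_lit 2) (nat_lit 5) (nat_lit 4) (nat_lit 4) (nat_lit 2) (nat_lit 4) (nat_lit 353) (nat_lit 281) (nat_lit 146)) (XT.lf (nat_lit 0) (nat_lit 558709117778) (nat_lit 152) (nat_lit 644161561846) (nat_lit 0) (nat_lit 484659912761) (nat_lit 2) (nat_lit 5) (nat_lit 4) (nat_lit 4) (nat_lit 2) (nat_lit 4) (nat_lit 354) (nat_lit 281) (nat_lit 145))))))) (XT.nd (nat_lit 35334) (nat_lit 0) (nat_lit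 1672) (XT.nd (nat_lit 546) (nat_lit 0) (nat_lit 0) (XT.nd (nat_lit 234) (nat_lit 0) (nat_lit 0) (XT.nd (nat_lit 78) (nat_lit 0) (nat_lit 0) (XT.lf (nat_lit 0) (nat_lit 634380097923) (nat_lit 152) (nat_lit 624842861027) (nat_lit 0) (nat_lit 560330736746) (nat_lit 2) (nat_lit 5) (nat_lit 4) (nat_lit 4) (nat_lit 2) (nat_lit 4) (nat_lit 355) (nat_lit 281) (nat_lit 144)) (XT.nd (nat_lit 78) (nat_lit 0) (nat_lit 0) (XT.lf (nat_lit 0) (nat_lit 716104606629) (nat_lit 152) (nat_lit 603978951884) (nat_lit 0) (nat_lit 642055100860) (nat_lit 2) (nat_lit 5) (nat_lit 4) (nat_lit 4) (nat_lit 2) (nat_lit 4) (nat_lit 356) (nat_lit 281) (nat_lit 143)) (XT.lf (nat_lit 0) (nat_lit 804366937281) (nat_lit 152) (nat_lit 581446196435) (nat_lit 0) (nat_lit 730317297631) (nat_lit 2) (nat_lit 5) (nat_lit 4) (nat_lit 4) (nat_lit 2) (nat_lit 4) (nat_lit 357) (nat_lit 281) (nat_lit 142)))) (XT.nd (nat_lit 156) (nat_lit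 0) (nat_lit 0) (XT.nd (nat_lit 78) (nat_lit 0) (nat_lit 0) (XT.lf (nat_lit 0) (nat_lit 899690125912) (nat_lit 152) (nat_lit 557111067242) (nat_lit 0) (nat_lit 825640362298) (nat_lit 2) (nat_lit 5) (nat_lit 4) (nat_lit 4) (nat_lit 2) (nat_lit 4) (nat_lit 358) (nat_lit 281) (nat_lit 141)) (XT.lf (nat_lit 0) (nat_lit 1002639050678) (nat_lit 152) (nat_lit 530829356131) (nat_lit 0) (nat_lit 928589172282) (nat_lit 2) (nat_lit 5) (nat_lit 4) (nat_lit 4) (nat_lit 2) (nat_lit 4) (nat_lit 359) (nat_lit 281) (nat_lit 140))) (XT.nd (nat_lit 78) (nat_lit 0) (nat_lit 0) (XT.lf (nat_lit 0) (nat_lit 1113823779281) (nat_lit 152) (nat_lit 502445319629) (nat_lit 0) (nat_lit 1039773794605) (nat_lit 2) (nat_lit 5) (nat_lit 4) (nat_lit 4) (nat_lit 2) (nat_lit 4) (nat_lit 360) (nat_lit 281) (nat_lit 139)) (XT.lf (nat_lit 0) (nat_lit 1233903184186) (nat_lit 152) (nat_lit 471790756038) (nat_lit 0) (nat_lit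 1159853101103) (nat_lit 2) (nat_lit 5) (nat_lit 4) (nat_lit 4) (nat_lit 2) (nat_lit 4) (nat_lit 361) (nat_lit 281) (nat_lit 138))))) (XT.nd (nat_lit 34476) (nat_lit 0) (nat_lit 3040) (XT.nd (nat_lit 78) (nat_lit 0) (nat_lit 0) (XT.lf (nat_lit 0) (nat_lit 1363588847052) (nat_lit 152) (nat_lit 438684008686) (nat_lit 0) (nat_lit 1289538672852) (nat_lit 2) (nat_lit 5) (nat_lit 4) (nat_lit 4) (nat_lit 2) (nat_lit 4) (nat_lit 362) (nat_lit 281) (nat_lit 137)) (XT.nd (nat_lit 34320) (nat_lit 0) (nat_lit 3040) (XT.lf (nat_lit 0) (nat_lit 1503649275511) (nat_lit 152) (nat_lit 402928889439) (nat_lit 0) (nat_lit 1429599016943) (nat_lit 2) (nat_lit 5) (nat_lit 4) (nat_lit 4) (nat_lit 2) (nat_lit 4) (nat_lit 363) (nat_lit 281) (nat_lit 136)) (XT.lf (nat_lit 0) (nat_lit 5484204908) (nat_lit 532) (nat_lit 2839899985) (nat_lit 532) (nat_lit 2839899985) (nat_lit 42) (nat_lit 3) (nat_lit 49) (nat_lit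 3) (nat_lit 49) (nat_lit 5) (nat_lit 282) (nat_lit 282) (nat_lit 216)))) (XT.nd (nat_lit 156) (nat_lit 0) (nat_lit 76) (XT.nd (nat_lit 78) (nat_lit 0) (nat_lit 76) (XT.lf (nat_lit 76) (nat_lit 4532550902) (nat_lit 0) (nat_lit 7103526631) (nat_lit 532) (nat_lit 11566286832) (nat_lit 43) (nat_lit 5) (nat_lit 42) (nat_lit 3) (nat_lit 49) (nat_lit 5) (nat_lit 283) (nat_lit 282) (nat_lit 215)) (XT.lf (nat_lit 0) (nat_lit 12581527198) (nat_lit 456) (nat_lit 8338436089) (nat_lit 532) (nat_lit 3208799721) (nat_lit 43) (nat_lit 5) (nat_lit 49) (nat_lit 5) (nat_lit 50) (nat_lit 5) (nat_lit 284) (nat_lit 282) (nat_lit 214))) (XT.nd (nat_lit 78) (nat_lit 0) (nat_lit 0) (XT.lf (nat_lit 76) (nat_lit 2765908070) (nat_lit 0) (nat_lit 11076588788) (nat_lit 532) (nat_lit 11267627768) (nat_lit 44) (nat_lit 5) (nat_lit 43) (nat_lit 5) (nat_lit 50) (nat_lit 5) (nat_lit 285) (nat_lit 282) (nat_lit 213))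 (XT.lf (nat_lit 76) (nat_lit 15225603164) (nat_lit 0) (nat_lit 196237239) (nat_lit 532) (nat_lit 10730793775) (nat_lit 44) (nat_lit 5) (nat_lit 43) (nat_lit 5) (nat_lit 50) (nat_lit 5) (nat_lit 286) (nat_lit 282) (nat_lit 212)))))) (XT.nd (nat_lit 546) (nat_lit 836) (nat_lit 0) (XT.nd (nat_lit 234) (nat_lit 684) (nat_lit 0) (XT.nd (nat_lit 78) (nat_lit 0) (nat_lit 0) (XT.lf (nat_lit 76) (nat_lit 1176955702) (nat_lit 0) (nat_lit 16247127441) (nat_lit 532) (nat_lit 9830773053) (nat_lit 45) (nat_lit 5) (nat_lit 44) (nat_lit 5) (nat_lit 51) (nat_lit 5) (nat_lit 287) (nat_lit 282) (nat_lit 211)) (XT.nd (nat_lit 78) (nat_lit 0) (nat_lit 76) (XT.lf (nat_lit 76) (nat_lit 14857954543) (nat_lit 0) (nat_lit 5023178938) (nat_lit 532) (nat_lit 8540585427) (nat_lit 45) (nat_lit 5) (nat_lit 44) (nat_lit 5) (nat_lit 51) (nat_lit 5) (nat_lit 288) (nat_lit 282) (nat_lit 210)) (XT.lf (nat_lit 0) (nat_lit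 22697080136) (nat_lit 456) (nat_lit 226789864) (nat_lit 76) (nat_lit 6745104782) (nat_lit 45) (nat_lit 5) (nat_lit 51) (nat_lit 5) (nat_lit 46) (nat_lit 5) (nat_lit 289) (nat_lit 282) (nat_lit 209)))) (XT.nd (nat_lit 156) (nat_lit 304) (nat_lit 0) (XT.nd (nat_lit 78) (nat_lit 0) (nat_lit 0) (XT.lf (nat_lit 0) (nat_lit 14778965845) (nat_lit 456) (nat_lit 11437473651) (nat_lit 532) (nat_lit 4761349125) (nat_lit 39) (nat_lit 5) (nat_lit 45) (nat_lit 5) (nat_lit 46) (nat_lit 5) (nat_lit 290) (nat_lit 282) (nat_lit 208)) (XT.lf (nat_lit 0) (nat_lit 30039640190) (nat_lit 532) (nat_lit 1423627829) (nat_lit 76) (nat_lit 926282484) (nat_lit 39) (nat_lit 5) (nat_lit 46) (nat_lit 5) (nat_lit 40) (nat_lit 5) (nat_lit 291) (nat_lit 282) (nat_lit 207))) (XT.nd (nat_lit 78) (nat_lit 0) (nat_lit 0) (XT.lf (nat_lit 0) (nat_lit 909107355) (nat_lit 304) (nat_lit 18906346746) (nat_lit 76) (nat_lit 14044940907)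 (nat_lit 35) (nat_lit 5) (nat_lit 39) (nat_lit 5) (nat_lit 36) (nat_lit 5) (nat_lit 292) (nat_lit 282) (nat_lit 206)) (XT.lf (nat_lit 0) (nat_lit 4335176852) (nat_lit 304) (nat_lit 2792041641) (nat_lit 76) (nat_lit 28314163634) (nat_lit 35) (nat_lit 5) (nat_lit 39) (nat_lit 5) (nat_lit 36) (nat_lit 5) (nat_lit 293) (nat_lit 282) (nat_lit 205))))) (XT.nd (nat_lit 312) (nat_lit 380) (nat_lit 0) (XT.nd (nat_lit 156) (nat_lit 228) (nat_lit 0) (XT.nd (nat_lit 78) (nat_lit 0) (nat_lit 0) (XT.lf (nat_lit 0) (nat_lit 8566666462) (nat_lit 304) (nat_lit 21913632846) (nat_lit 76) (nat_lit 6626061507) (nat_lit 32) (nat_lit 5) (nat_lit 36) (nat_lit 5) (nat_lit 33) (nat_lit 5) (nat_lit 294) (nat_lit 282) (nat_lit 204)) (XT.lf (nat_lit 0) (nat_lit 13394252118) (nat_lit 304) (nat_lit 4317353665) (nat_lit 76) (nat_lit 21172343793) (nat_lit 32) (nat_lit 5) (nat_lit 36) (nat_lit 5) (nat_lit 33) (nat_lit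 5) (nat_lit 295) (nat_lit 282) (nat_lit 203))) (XT.nd (nat_lit 78) (nat_lit 0) (nat_lit 0) (XT.lf (nat_lit 0) (nat_lit 15453291242) (nat_lit 228) (nat_lit 3520972181) (nat_lit 304) (nat_lit 21800201114) (nat_lit 29) (nat_lit 5) (nat_lit 32) (nat_lit 5) (nat_lit 33) (nat_lit 5) (nat_lit 296) (nat_lit 282) (nat_lit 202)) (XT.lf (nat_lit 0) (nat_lit 25400489276) (nat_lit 304) (nat_lit 6049248663) (nat_lit 76) (nat_lit 11334513036) (nat_lit 29) (nat_lit 5) (nat_lit 33) (nat_lit 5) (nat_lit 30) (nat_lit 5) (nat_lit 297) (nat_lit 282) (nat_lit 201)))) (XT.nd (nat_lit 156) (nat_lit 228) (nat_lit 0) (XT.nd (nat_lit 78) (nat_lit 0) (nat_lit 0) (XT.lf (nat_lit 0) (nat_lit 15439180077) (nat_lit 152) (nat_lit 17359580188) (nat_lit 228) (nat_lit 12119438530) (nat_lit 27) (nat_lit 5) (nat_lit 29) (nat_lit 5) (nat_lit 30) (nat_lit 5) (nat_lit 298) (nat_lit 282) (nat_lit 200)) (XT.lf (nat_lit 0) (nat_lit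 38984737989) (nat_lit 152) (nat_lit 1964946102) (nat_lit 228) (nat_lit 6260328235) (nat_lit 27) (nat_lit 5) (nat_lit 29) (nat_lit 5) (nat_lit 30) (nat_lit 5) (nat_lit 299) (nat_lit 282) (nat_lit 199))) (XT.nd (nat_lit 78) (nat_lit 0) (nat_lit 0) (XT.lf (nat_lit 0) (nat_lit 794732391) (nat_lit 228) (nat_lit 34521304540) (nat_lit 76) (nat_lit 14310567524) (nat_lit 24) (nat_lit 5) (nat_lit 27) (nat_lit 5) (nat_lit 25) (nat_lit 5) (nat_lit 300) (nat_lit 282) (nat_lit 198)) (XT.lf (nat_lit 0) (nat_lit 8353518223) (nat_lit 228) (nat_lit 11673855683) (nat_lit 76) (nat_lit 32173948780) (nat_lit 24) (nat_lit 5) (nat_lit 27) (nat_lit 5) (nat_lit 25) (nat_lit 5) (nat_lit 301) (nat_lit 282) (nat_lit 197))))))))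
noncomputable def xc85 : XT := (XT.nd (nat_lit 2262) (nat_lit 228) (nat_lit 0) (XT.nd (nat_lit 1092) (nat_lit 532) (nat_lit 0) (XT.nd (nat_lit 546) (nat_lit 456) (nat_lit 0) (XT.nd (nat_lit 234) (nat_lit 152) (nat_lit 0) (XT.nd (nat_lit 78) (nat_lit 152) (nat_lit 0) (XT.lf (nat_lit 0) (nat_lit 13680232414) (nat_lit 152) (nat_lit 3161866053) (nat_lit 228) (nat_lit 38113922271) (nat_lit 22) (nat_lit 5) (nat_lit 24) (nat_lit 5) (nat_lit 25) (nat_lit 5) (nat_lit 302) (nat_lit 282) (nat_lit 196)) (XT.nd (nat_lit 78) (nat_lit 152) (nat_lit 0) (XT.lf (nat_lit 0) (nat_lit 26695466213) (nat_lit 228) (nat_lit 16554951671) (nat_lit 76) (nat_lit 14625829633) (nat_lit 22) (nat_lit 5) (nat_lit 25) (nat_lit 5) (nat_lit 23) (nat_lit 5) (nat_lit 303) (nat_lit 282) (nat_lit 195)) (XT.lf (nat_lit 0) (nat_lit 10585755722) (nat_lit 152) (nat_lit 27084547380) (nat_lit 228) (nat_lit 23333141663) (nat_lit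 20) (nat_lit 5) (nat_lit 22) (nat_lit 5) (nat_lit 23) (nat_lit 5) (nat_lit 304) (nat_lit 282) (nat_lit 194)))) (XT.nd (nat_lit 156) (nat_lit 76) (nat_lit 0) (XT.nd (nat_lit 78) (nat_lit 76) (nat_lit 0) (XT.lf (nat_lit 0) (nat_lit 40834134257) (nat_lit 152) (nat_lit 9138258197) (nat_lit 228) (nat_lit 14372491787) (nat_lit 20) (nat_lit 5) (nat_lit 22) (nat_lit 5) (nat_lit 23) (nat_lit 5) (nat_lit 305) (nat_lit 282) (nat_lit 193)) (XT.lf (nat_lit 0) (nat_lit 5576413776) (nat_lit 76) (nat_lit 58059546055) (nat_lit 152) (nat_lit 4287501294) (nat_lit 19) (nat_lit 5) (nat_lit 20) (nat_lit 5) (nat_lit 21) (nat_lit 4) (nat_lit 306) (nat_lit 282) (nat_lit 192))) (XT.nd (nat_lit 78) (nat_lit 0) (nat_lit 0) (XT.lf (nat_lit 0) (nat_lit 7167664428) (nat_lit 152) (nat_lit 33827127195) (nat_lit 76) (nat_lit 30709332040) (nat_lit 18) (nat_lit 5) (nat_lit 20) (nat_lit 5) (nat_lit 19) (nat_lit 5) (nat_lit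 307) (nat_lit 282) (nat_lit 191)) (XT.lf (nat_lit 0) (nat_lit 19304708412) (nat_lit 152) (nat_lit 3141578470) (nat_lit 76) (nat_lit 53332280763) (nat_lit 18) (nat_lit 5) (nat_lit 20) (nat_lit 5) (nat_lit 19) (nat_lit 5) (nat_lit 308) (nat_lit 282) (nat_lit 190))))) (XT.nd (nat_lit 234) (nat_lit 228) (nat_lit 0) (XT.nd (nat_lit 78) (nat_lit 76) (nat_lit 0) (XT.lf (nat_lit 0) (nat_lit 31574013661) (nat_lit 152) (nat_lit 1595374188) (nat_lit 228) (nat_lit 46949050776) (nat_lit 16) (nat_lit 5) (nat_lit 18) (nat_lit 5) (nat_lit 19) (nat_lit 5) (nat_lit 309) (nat_lit 282) (nat_lit 189)) (XT.nd (nat_lit 78) (nat_lit 76) (nat_lit 0) (XT.lf (nat_lit 0) (nat_lit 48731959773) (nat_lit 228) (nat_lit 16062881100) (nat_lit 76) (nat_lit 19963565806) (nat_lit 16) (nat_lit 5) (nat_lit 19) (nat_lit 5) (nat_lit 17) (nat_lit 4) (nat_lit 310) (nat_lit 282) (nat_lit 188)) (XT.lf (nat_lit 0) (nat_lit 19970760172)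 (nat_lit 76) (nat_lit 46088084472) (nat_lit 152) (nat_lit 23669187443) (nat_lit 15) (nat_lit 5) (nat_lit 16) (nat_lit 5) (nat_lit 17) (nat_lit 4) (nat_lit 311) (nat_lit 282) (nat_lit 187)))) (XT.nd (nat_lit 156) (nat_lit 0) (nat_lit 0) (XT.nd (nat_lit 78) (nat_lit 228) (nat_lit 0) (XT.lf (nat_lit 0) (nat_lit 59796698336) (nat_lit 76) (nat_lit 25412027219) (nat_lit 152) (nat_lit 9851558510) (nat_lit 15) (nat_lit 5) (nat_lit 16) (nat_lit 5) (nat_lit 17) (nat_lit 4) (nat_lit 312) (nat_lit 282) (nat_lit 186)) (XT.lf (nat_lit 0) (nat_lit 1962038860) (nat_lit 152) (nat_lit 2900704087) (nat_lit 228) (nat_lit 95943022618) (nat_lit 12) (nat_lit 5) (nat_lit 14) (nat_lit 5) (nat_lit 15) (nat_lit 5) (nat_lit 313) (nat_lit 282) (nat_lit 185))) (XT.nd (nat_lit 78) (nat_lit 0) (nat_lit 0) (XT.lf (nat_lit 0) (nat_lit 21723921247) (nat_lit 228) (nat_lit 63562224318) (nat_lit 76) (nat_lit 21584114727)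 (nat_lit 12) (nat_lit 5) (nat_lit 15) (nat_lit 5) (nat_lit 13) (nat_lit 4) (nat_lit 314) (nat_lit 282) (nat_lit 184)) (XT.lf (nat_lit 0) (nat_lit 40007311593) (nat_lit 228) (nat_lit 25537045957) (nat_lit 76) (nat_lit 47869694677) (nat_lit 12) (nat_lit 5) (nat_lit 15) (nat_lit 5) (nat_lit 13) (nat_lit 4) (nat_lit 315) (nat_lit 282) (nat_lit 183)))))) (XT.nd (nat_lit 546) (nat_lit 228) (nat_lit 0) (XT.nd (nat_lit 234) (nat_lit 228) (nat_lit 0) (XT.nd (nat_lit 78) (nat_lit 0) (nat_lit 0) (XT.lf (nat_lit 0) (nat_lit 16344524057) (nat_lit 76) (nat_lit 43800060139) (nat_lit 152) (nat_lit 60305469266) (nat_lit 11) (nat_lit 5) (nat_lit 12) (nat_lit 5) (nat_lit 13) (nat_lit 4) (nat_lit 316) (nat_lit 282) (nat_lit 182)) (XT.nd (nat_lit 78) (nat_lit 0) (nat_lit 0) (XT.lf (nat_lit 0) (nat_lit 63025774275) (nat_lit 76) (nat_lit 19563480164) (nat_lit 152) (nat_lit 45403969708) (nat_lit 11) (nat_lit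 5) (nat_lit 12) (nat_lit 5) (nat_lit 13) (nat_lit 4) (nat_lit 317) (nat_lit 282) (nat_lit 181)) (XT.lf (nat_lit 0) (nat_lit 106986809665) (nat_lit 152) (nat_lit 22860375792) (nat_lit 0) (nat_lit 6280080546) (nat_lit 11) (nat_lit 5) (nat_lit 13) (nat_lit 4) (nat_lit 11) (nat_lit 4) (nat_lit 318) (nat_lit 282) (nat_lit 180)))) (XT.nd (nat_lit 156) (nat_lit 76) (nat_lit 0) (XT.nd (nat_lit 78) (nat_lit 76) (nat_lit 0) (XT.lf (nat_lit 0) (nat_lit 23268288078) (nat_lit 76) (nat_lit 111134044954) (nat_lit 76) (nat_lit 10424407322) (nat_lit 10) (nat_lit 4) (nat_lit 11) (nat_lit 5) (nat_lit 11) (nat_lit 4) (nat_lit 319) (nat_lit 282) (nat_lit 179)) (XT.lf (nat_lit 0) (nat_lit 9938950090) (nat_lit 152) (nat_lit 80039314511) (nat_lit 76) (nat_lit 64173899570) (nat_lit 9) (nat_lit 5) (nat_lit 11) (nat_lit 5) (nat_lit 10) (nat_lit 4) (nat_lit 320) (nat_lit 282) (nat_lit 178))) (XT.nd (nat_lit 78)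 (nat_lit 76) (nat_lit 0) (XT.lf (nat_lit 0) (nat_lit 31366731878) (nat_lit 152) (nat_lit 35472021973) (nat_lit 76) (nat_lit 97363325154) (nat_lit 9) (nat_lit 5) (nat_lit 11) (nat_lit 5) (nat_lit 10) (nat_lit 4) (nat_lit 321) (nat_lit 282) (nat_lit 177)) (XT.lf (nat_lit 0) (nat_lit 13324795284) (nat_lit 76) (nat_lit 41503054924) (nat_lit 152) (nat_lit 120202609347) (nat_lit 8) (nat_lit 5) (nat_lit 9) (nat_lit 5) (nat_lit 10) (nat_lit 4) (nat_lit 322) (nat_lit 282) (nat_lit 176))))) (XT.nd (nat_lit 312) (nat_lit 152) (nat_lit 0) (XT.nd (nat_lit 156) (nat_lit 76) (nat_lit 0) (XT.nd (nat_lit 78) (nat_lit 0) (nat_lit 0) (XT.lf (nat_lit 0) (nat_lit 68040325573) (nat_lit 76) (nat_lit 13094095853) (nat_lit 152) (nat_lit 105513205579) (nat_lit 8) (nat_lit 5) (nat_lit 9) (nat_lit 5) (nat_lit 10) (nat_lit 4) (nat_lit 323) (nat_lit 282) (nat_lit 175)) (XT.lf (nat_lit 0) (nat_lit 109967268718) (nat_lit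 152) (nat_lit 72486308908) (nat_lit 0) (nat_lit 16706851608) (nat_lit 8) (nat_lit 5) (nat_lit 10) (nat_lit 4) (nat_lit 8) (nat_lit 4) (nat_lit 324) (nat_lit 282) (nat_lit 174))) (XT.nd (nat_lit 78) (nat_lit 76) (nat_lit 0) (XT.lf (nat_lit 0) (nat_lit 141445710046) (nat_lit 152) (nat_lit 23017833759) (nat_lit 0) (nat_lit 48183595846) (nat_lit 8) (nat_lit 5) (nat_lit 10) (nat_lit 4) (nat_lit 8) (nat_lit 4) (nat_lit 325) (nat_lit 282) (nat_lit 173)) (XT.lf (nat_lit 0) (nat_lit 32007319613) (nat_lit 76) (nat_lit 144203828195) (nat_lit 76) (nat_lit 50940142616) (nat_lit 7) (nat_lit 4) (nat_lit 8) (nat_lit 5) (nat_lit 8) (nat_lit 4) (nat_lit 326) (nat_lit 282) (nat_lit 172)))) (XT.nd (nat_lit 156) (nat_lit 152) (nat_lit 0) (XT.nd (nat_lit 78) (nat_lit 0) (nat_lit 0) (XT.lf (nat_lit 0) (nat_lit 92741643310) (nat_lit 76) (nat_lit 121644502795) (nat_lit 76) (nat_lit 28379362236) (nat_lit 7)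 (nat_lit 4) (nat_lit 8) (nat_lit 5) (nat_lit 8) (nat_lit 4) (nat_lit 327) (nat_lit 282) (nat_lit 171)) (XT.lf (nat_lit 0) (nat_lit 158332966102) (nat_lit 76) (nat_lit 97281231079) (nat_lit 76) (nat_lit 4014743316) (nat_lit 7) (nat_lit 4) (nat_lit 8) (nat_lit 5) (nat_lit 8) (nat_lit 4) (nat_lit 328) (nat_lit 282) (nat_lit 170))) (XT.nd (nat_lit 78) (nat_lit 76) (nat_lit 0) (XT.lf (nat_lit 0) (nat_lit 21182655946) (nat_lit 152) (nat_lit 49207810806) (nat_lit 76) (nat_lit 207408150009) (nat_lit 6) (nat_lit 5) (nat_lit 8) (nat_lit 5) (nat_lit 7) (nat_lit 4) (nat_lit 329) (nat_lit 282) (nat_lit 169)) (XT.lf (nat_lit 0) (nat_lit 7307116022) (nat_lit 76) (nat_lit 41046733115) (nat_lit 152) (nat_lit 249045684298) (nat_lit 5) (nat_lit 5) (nat_lit 6) (nat_lit 5) (nat_lit 7) (nat_lit 4) (nat_lit 330) (nat_lit 282) (nat_lit 168))))))) (XT.nd (nat_lit 1170) (nat_lit 0) (nat_lit 0) (XT.nd (nat_lit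 546) (nat_lit 152) (nat_lit 0) (XT.nd (nat_lit 234) (nat_lit 76) (nat_lit 0) (XT.nd (nat_lit 78) (nat_lit 0) (nat_lit 0) (XT.lf (nat_lit 0) (nat_lit 71140225507) (nat_lit 76) (nat_lit 7903132736) (nat_lit 152) (nat_lit 239417596328) (nat_lit 5) (nat_lit 5) (nat_lit 6) (nat_lit 5) (nat_lit 7) (nat_lit 4) (nat_lit 331) (nat_lit 282) (nat_lit 167)) (XT.nd (nat_lit 78) (nat_lit 0) (nat_lit 0) (XT.lf (nat_lit 0) (nat_lit 112858066386) (nat_lit 152) (nat_lit 201799544893) (nat_lit 0) (nat_lit 26496075762) (nat_lit 5) (nat_lit 5) (nat_lit 7) (nat_lit 4) (nat_lit 5) (nat_lit 4) (nat_lit 332) (nat_lit 282) (nat_lit 166)) (XT.lf (nat_lit 0) (nat_lit 149582520044) (nat_lit 152) (nat_lit 152843272756) (nat_lit 0) (nat_lit 63219680453) (nat_lit 5) (nat_lit 5) (nat_lit 7) (nat_lit 4) (nat_lit 5) (nat_lit 4) (nat_lit 333) (nat_lit 282) (nat_lit 165)))) (XT.nd (nat_lit 156) (nat_lit 76) (nat_lit 0)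 (XT.nd (nat_lit 78) (nat_lit 0) (nat_lit 0) (XT.lf (nat_lit 0) (nat_lit 189244275078) (nat_lit 152) (nat_lit 99971730880) (nat_lit 0) (nat_lit 102880649405) (nat_lit 5) (nat_lit 5) (nat_lit 7) (nat_lit 4) (nat_lit 5) (nat_lit 4) (nat_lit 334) (nat_lit 282) (nat_lit 164)) (XT.lf (nat_lit 0) (nat_lit 232078364109) (nat_lit 152) (nat_lit 42871606424) (nat_lit 0) (nat_lit 145714010584) (nat_lit 5) (nat_lit 5) (nat_lit 7) (nat_lit 4) (nat_lit 5) (nat_lit 4) (nat_lit 335) (nat_lit 282) (nat_lit 163))) (XT.nd (nat_lit 78) (nat_lit 0) (nat_lit 0) (XT.lf (nat_lit 0) (nat_lit 19785207952) (nat_lit 76) (nat_lit 259029245550) (nat_lit 76) (nat_lit 172664218088) (nat_lit 4) (nat_lit 4) (nat_lit 5) (nat_lit 5) (nat_lit 5) (nat_lit 4) (nat_lit 336) (nat_lit 282) (nat_lit 162)) (XT.lf (nat_lit 0) (nat_lit 89891684197) (nat_lit 76) (nat_lit 240569386891) (nat_lit 76) (nat_lit 154203735413) (nat_lit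 4) (nat_lit 4) (nat_lit 5) (nat_lit 5) (nat_lit 5) (nat_lit 4) (nat_lit 337) (nat_lit 282) (nat_lit 161))))) (XT.nd (nat_lit 312) (nat_lit 152) (nat_lit 0) (XT.nd (nat_lit 156) (nat_lit 0) (nat_lit 0) (XT.nd (nat_lit 78) (nat_lit 0) (nat_lit 0) (XT.lf (nat_lit 0) (nat_lit 165605725275) (nat_lit 76) (nat_lit 220633188495) (nat_lit 76) (nat_lit 134266959224) (nat_lit 4) (nat_lit 4) (nat_lit 5) (nat_lit 5) (nat_lit 5) (nat_lit 4) (nat_lit 338) (nat_lit 282) (nat_lit 160)) (XT.lf (nat_lit 0) (nat_lit 247376006985) (nat_lit 76) (nat_lit 199102509928) (nat_lit 76) (nat_lit 112735745663) (nat_lit 4) (nat_lit 4) (nat_lit 5) (nat_lit 5) (nat_lit 5) (nat_lit 4) (nat_lit 339) (nat_lit 282) (nat_lit 159))) (XT.nd (nat_lit 78) (nat_lit 0) (nat_lit 0) (XT.lf (nat_lit 0) (nat_lit 335687093961) (nat_lit 76) (nat_lit 175849761982) (nat_lit 76) (nat_lit 89482502354) (nat_lit 4) (nat_lit 4) (nat_lit 5)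 (nat_lit 5) (nat_lit 5) (nat_lit 4) (nat_lit 340) (nat_lit 282) (nat_lit 158)) (XT.lf (nat_lit 0) (nat_lit 431062311161) (nat_lit 76) (nat_lit 150737150597) (nat_lit 76) (nat_lit 64369432298) (nat_lit 4) (nat_lit 4) (nat_lit 5) (nat_lit 5) (nat_lit 5) (nat_lit 4) (nat_lit 341) (nat_lit 282) (nat_lit 157)))) (XT.nd (nat_lit 156) (nat_lit 152) (nat_lit 0) (XT.nd (nat_lit 78) (nat_lit 0) (nat_lit 0) (XT.lf (nat_lit 0) (nat_lit 534066845058) (nat_lit 76) (nat_lit 123615860297) (nat_lit 76) (nat_lit 37247717303) (nat_lit 4) (nat_lit 4) (nat_lit 5) (nat_lit 5) (nat_lit 5) (nat_lit 4) (nat_lit 342) (nat_lit 282) (nat_lit 156)) (XT.lf (nat_lit 0) (nat_lit 645311092890) (nat_lit 76) (nat_lit 94325172325) (nat_lit 76) (nat_lit 7956636095) (nat_lit 4) (nat_lit 4) (nat_lit 5) (nat_lit 5) (nat_lit 5) (nat_lit 4) (nat_lit 343) (nat_lit 282) (nat_lit 155))) (XT.nd (nat_lit 78) (nat_lit 76) (nat_lit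 0) (XT.lf (nat_lit 0) (nat_lit 22492949256) (nat_lit 152) (nat_lit 39583565884) (nat_lit 76) (nat_lit 742346333479) (nat_lit 3) (nat_lit 5) (nat_lit 5) (nat_lit 5) (nat_lit 4) (nat_lit 4) (nat_lit 344) (nat_lit 282) (nat_lit 154)) (XT.lf (nat_lit 0) (nat_lit 29393689187) (nat_lit 76) (nat_lit 26261564014) (nat_lit 152) (nat_lit 810070876139) (nat_lit 2) (nat_lit 5) (nat_lit 3) (nat_lit 5) (nat_lit 4) (nat_lit 4) (nat_lit 345) (nat_lit 282) (nat_lit 153)))))) (XT.nd (nat_lit 546) (nat_lit 0) (nat_lit 0) (XT.nd (nat_lit 234) (nat_lit 0) (nat_lit 0) (XT.nd (nat_lit 78) (nat_lit 0) (nat_lit 0) (XT.lf (nat_lit 0) (nat_lit 92879305271) (nat_lit 152) (nat_lit 826034166317) (nat_lit 0) (nat_lit 12907500051) (nat_lit 2) (nat_lit 5) (nat_lit 4) (nat_lit 4) (nat_lit 2) (nat_lit 4) (nat_lit 346) (nat_lit 282) (nat_lit 152)) (XT.nd (nat_lit 78) (nat_lit 0) (nat_lit 0) (XT.lf (nat_lit 0) (nat_lit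 133763122689) (nat_lit 152) (nat_lit 815594681706) (nat_lit 0) (nat_lit 53791049839) (nat_lit 2) (nat_lit 5) (nat_lit 4) (nat_lit 4) (nat_lit 2) (nat_lit 4) (nat_lit 347) (nat_lit 282) (nat_lit 151)) (XT.lf (nat_lit 0) (nat_lit 177917388682) (nat_lit 152) (nat_lit 804320531463) (nat_lit 0) (nat_lit 97945068027) (nat_lit 2) (nat_lit 5) (nat_lit 4) (nat_lit 4) (nat_lit 2) (nat_lit 4) (nat_lit 348) (nat_lit 282) (nat_lit 150)))) (XT.nd (nat_lit 156) (nat_lit 0) (nat_lit 0) (XT.nd (nat_lit 78) (nat_lit 0) (nat_lit 0) (XT.lf (nat_lit 0) (nat_lit 225603758161) (nat_lit 152) (nat_lit 792144905808) (nat_lit 0) (nat_lit 145631208056) (nat_lit 2) (nat_lit 5) (nat_lit 4) (nat_lit 4) (nat_lit 2) (nat_lit 4) (nat_lit 349) (nat_lit 282) (nat_lit 149)) (XT.lf (nat_lit 0) (nat_lit 277104817019) (nat_lit 152) (nat_lit 778995652887) (nat_lit 0) (nat_lit 197132054461) (nat_lit 2) (nat_lit 5) (nat_lit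 4) (nat_lit 4) (nat_lit 2) (nat_lit 4) (nat_lit 350) (nat_lit 282) (nat_lit 148))) (XT.nd (nat_lit 78) (nat_lit 0) (nat_lit 0) (XT.lf (nat_lit 0) (nat_lit 332725756715) (nat_lit 152) (nat_lit 764794851199) (nat_lit 0) (nat_lit 252752797441) (nat_lit 2) (nat_lit 5) (nat_lit 4) (nat_lit 4) (nat_lit 2) (nat_lit 4) (nat_lit 351) (nat_lit 282) (nat_lit 147)) (XT.lf (nat_lit 0) (nat_lit 392796182818) (nat_lit 152) (nat_lit 749458347847) (nat_lit 0) (nat_lit 312823041400) (nat_lit 2) (nat_lit 5) (nat_lit 4) (nat_lit 4) (nat_lit 2) (nat_lit 4) (nat_lit 352) (nat_lit 282) (nat_lit 146))))) (XT.nd (nat_lit 312) (nat_lit 0) (nat_lit 0) (XT.nd (nat_lit 156) (nat_lit 0) (nat_lit 0) (XT.nd (nat_lit 78) (nat_lit 0) (nat_lit 0) (XT.lf (nat_lit 0) (nat_lit 457672068224) (nat_lit 152) (nat_lit 732895259848) (nat_lit 0) (nat_lit 377698758154) (nat_lit 2) (nat_lit 5) (nat_lit 4) (nat_lit 4) (nat_lit 2)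 (nat_lit 4) (nat_lit 353) (nat_lit 282) (nat_lit 145)) (XT.lf (nat_lit 0) (nat_lit 527737862624) (nat_lit 152) (nat_lit 715007435568) (nat_lit 0) (nat_lit 447764396395) (nat_lit 2) (nat_lit 5) (nat_lit 4) (nat_lit 4) (nat_lit 2) (nat_lit 4) (nat_lit 354) (nat_lit 282) (nat_lit 144))) (XT.nd (nat_lit 78) (nat_lit 0) (nat_lit 0) (XT.lf (nat_lit 0) (nat_lit 603408770726) (nat_lit 152) (nat_lit 695688873086) (nat_lit 0) (nat_lit 523435159904) (nat_lit 2) (nat_lit 5) (nat_lit 4) (nat_lit 4) (nat_lit 2) (nat_lit 4) (nat_lit 355) (nat_lit 282) (nat_lit 143)) (XT.lf (nat_lit 0) (nat_lit 685133212725) (nat_lit 152) (nat_lit 674825092032) (nat_lit 0) (nat_lit 605159468022) (nat_lit 2) (nat_lit 5) (nat_lit 4) (nat_lit 4) (nat_lit 2) (nat_lit 4) (nat_lit 356) (nat_lit 282) (nat_lit 142)))) (XT.nd (nat_lit 156) (nat_lit 0) (nat_lit 0) (XT.nd (nat_lit 78) (nat_lit 0) (nat_lit 0) (XT.lf (nat_lit 0)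 (nat_lit 773395481611) (nat_lit 152) (nat_lit 652292455185) (nat_lit 0) (nat_lit 693421612944) (nat_lit 2) (nat_lit 5) (nat_lit 4) (nat_lit 4) (nat_lit 2) (nat_lit 4) (nat_lit 357) (nat_lit 282) (nat_lit 141)) (XT.lf (nat_lit 0) (nat_lit 868718613052) (nat_lit 152) (nat_lit 627957435808) (nat_lit 0) (nat_lit 788744629603) (nat_lit 2) (nat_lit 5) (nat_lit 4) (nat_lit 4) (nat_lit 2) (nat_lit 4) (nat_lit 358) (nat_lit 282) (nat_lit 140))) (XT.nd (nat_lit 78) (nat_lit 0) (nat_lit 0) (XT.lf (nat_lit 0) (nat_lit 971667484864) (nat_lit 152) (nat_lit 601675826379) (nat_lit 0) (nat_lit 891693395135) (nat_lit 2) (nat_lit 5) (nat_lit 4) (nat_lit 4) (nat_lit 2) (nat_lit 4) (nat_lit 359) (nat_lit 282) (nat_lit 139)) (XT.lf (nat_lit 0) (nat_lit 1082852164435) (nat_lit 152) (nat_lit 573291884027) (nat_lit 0) (nat_lit 1002877976299) (nat_lit 2) (nat_lit 5) (nat_lit 4) (nat_lit 4) (nat_lit 2) (nat_lit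 4) (nat_lit 360) (nat_lit 282) (nat_lit 138))))))))
noncomputable def xc86 : XT := (XT.nd (nat_lit 36582) (nat_lit 0) (nat_lit 152) (XT.nd (nat_lit 35412) (nat_lit 0) (nat_lit 1216) (XT.nd (nat_lit 34866) (nat_lit 0) (nat_lit 2508) (XT.nd (nat_lit 34554) (nat_lit 0) (nat_lit 3040) (XT.nd (nat_lit 78) (nat_lit 0) (nat_lit 0) (XT.lf (nat_lit 0) (nat_lit 1202931523940) (nat_lit 152) (nat_lit 542637407612) (nat_lit 0) (nat_lit 1122957244687) (nat_lit 2) (nat_lit 5) (nat_lit 4) (nat_lit 4) (nat_lit 2) (nat_lit 4) (nat_lit 361) (nat_lit 282) (nat_lit 137)) (XT.nd (nat_lit 78) (nat_lit 0) (nat_lit 0) (XT.lf (nat_lit 0) (nat_lit 1332617144770) (nat_lit 152) (nat_lit 509530740977) (nat_lit 0) (nat_lit 1252642781148) (nat_lit 2) (nat_lit 5) (nat_lit 4) (nat_lit 4) (nat_lit 2) (nat_lit 4) (nat_lit 362) (nat_lit 282) (nat_lit 136)) (XT.lf (nat_lit 0) (nat_lit 1472677534306) (nat_lit 152) (nat_lit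 473775696469) (nat_lit 0) (nat_lit 1392703092566) (nat_lit 2) (nat_lit 5) (nat_lit 4) (nat_lit 4) (nat_lit 2) (nat_lit 4) (nat_lit 363) (nat_lit 282) (nat_lit 135)))) (XT.nd (nat_lit 156) (nat_lit 0) (nat_lit 76) (XT.nd (nat_lit 78) (nat_lit 0) (nat_lit 0) (XT.lf (nat_lit 0) (nat_lit 6039980506) (nat_lit 532) (nat_lit 3003670601) (nat_lit 532) (nat_lit 3003670601) (nat_lit 42) (nat_lit 3) (nat_lit 49) (nat_lit 3) (nat_lit 49) (nat_lit 5) (nat_lit 283) (nat_lit 283) (nat_lit 214)) (XT.lf (nat_lit 76) (nat_lit 5018786530) (nat_lit 0) (nat_lit 7767889816) (nat_lit 532) (nat_lit 12253484560) (nat_lit 43) (nat_lit 5) (nat_lit 42) (nat_lit 3) (nat_lit 49) (nat_lit 5) (nat_lit 284) (nat_lit 283) (nat_lit 213))) (XT.nd (nat_lit 78) (nat_lit 0) (nat_lit 0) (XT.lf (nat_lit 0) (nat_lit 13789347392) (nat_lit 456) (nat_lit 8871867536) (nat_lit 532) (nat_lit 3380990095) (nat_lit 43) (nat_lit 5) (nat_lit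 49) (nat_lit 5) (nat_lit 50) (nat_lit 5) (nat_lit 285) (nat_lit 283) (nat_lit 212)) (XT.lf (nat_lit 76) (nat_lit 3117440777) (nat_lit 0) (nat_lit 12021975641) (nat_lit 532) (nat_lit 11963657349) (nat_lit 44) (nat_lit 5) (nat_lit 43) (nat_lit 5) (nat_lit 50) (nat_lit 5) (nat_lit 286) (nat_lit 283) (nat_lit 211))))) (XT.nd (nat_lit 234) (nat_lit 608) (nat_lit 0) (XT.nd (nat_lit 78) (nat_lit 0) (nat_lit 76) (XT.lf (nat_lit 76) (nat_lit 16564262585) (nat_lit 0) (nat_lit 266806356) (nat_lit 532) (nat_lit 11399090017) (nat_lit 44) (nat_lit 5) (nat_lit 43) (nat_lit 5) (nat_lit 50) (nat_lit 5) (nat_lit 287) (nat_lit 283) (nat_lit 210)) (XT.nd (nat_lit 78) (nat_lit 0) (nat_lit 0) (XT.lf (nat_lit 76) (nat_lit 1404270256) (nat_lit 0) (nat_lit 17578202808) (nat_lit 532) (nat_lit 10439015077) (nat_lit 45) (nat_lit 5) (nat_lit 44) (nat_lit 5) (nat_lit 51) (nat_lit 5) (nat_lit 288) (nat_lit 283) (nat_lit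 209)) (XT.lf (nat_lit 76) (nat_lit 16169885442) (nat_lit 0) (nat_lit 5454019523) (nat_lit 532) (nat_lit 9058813910) (nat_lit 45) (nat_lit 5) (nat_lit 44) (nat_lit 5) (nat_lit 51) (nat_lit 5) (nat_lit 289) (nat_lit 283) (nat_lit 208)))) (XT.nd (nat_lit 156) (nat_lit 304) (nat_lit 0) (XT.nd (nat_lit 78) (nat_lit 456) (nat_lit 0) (XT.lf (nat_lit 0) (nat_lit 24653201810) (nat_lit 456) (nat_lit 118331940) (nat_lit 76) (nat_lit 7259216629) (nat_lit 45) (nat_lit 5) (nat_lit 51) (nat_lit 5) (nat_lit 46) (nat_lit 5) (nat_lit 290) (nat_lit 283) (nat_lit 207)) (XT.lf (nat_lit 0) (nat_lit 16084679134) (nat_lit 456) (nat_lit 12362001775) (nat_lit 532) (nat_lit 4998220807) (nat_lit 39) (nat_lit 5) (nat_lit 45) (nat_lit 5) (nat_lit 46) (nat_lit 5) (nat_lit 291) (nat_lit 283) (nat_lit 206))) (XT.nd (nat_lit 78) (nat_lit 304) (nat_lit 0) (XT.lf (nat_lit 0) (nat_lit 32565679046) (nat_lit 532) (nat_lit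 1412763223) (nat_lit 76) (nat_lit 992002220) (nat_lit 39) (nat_lit 5) (nat_lit 46) (nat_lit 5) (nat_lit 40) (nat_lit 5) (nat_lit 292) (nat_lit 283) (nat_lit 205)) (XT.lf (nat_lit 0) (nat_lit 1101945196) (nat_lit 304) (nat_lit 20290555483) (nat_lit 76) (nat_lit 15166739409) (nat_lit 35) (nat_lit 5) (nat_lit 39) (nat_lit 5) (nat_lit 36) (nat_lit 5) (nat_lit 293) (nat_lit 283) (nat_lit 204)))))) (XT.nd (nat_lit 546) (nat_lit 684) (nat_lit 0) (XT.nd (nat_lit 234) (nat_lit 380) (nat_lit 0) (XT.nd (nat_lit 78) (nat_lit 228) (nat_lit 0) (XT.lf (nat_lit 0) (nat_lit 4793203271) (nat_lit 304) (nat_lit 2896609599) (nat_lit 76) (nat_lit 30577633049) (nat_lit 35) (nat_lit 5) (nat_lit 39) (nat_lit 5) (nat_lit 36) (nat_lit 5) (nat_lit 294) (nat_lit 283) (nat_lit 203)) (XT.nd (nat_lit 78) (nat_lit 0) (nat_lit 0) (XT.lf (nat_lit 0) (nat_lit 9358000000) (nat_lit 304) (nat_lit 23542392166) (nat_lit 76)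 (nat_lit 7165673611) (nat_lit 32) (nat_lit 5) (nat_lit 36) (nat_lit 5) (nat_lit 33) (nat_lit 5) (nat_lit 295) (nat_lit 283) (nat_lit 202)) (XT.lf (nat_lit 0) (nat_lit 14563940641) (nat_lit 304) (nat_lit 4547620377) (nat_lit 76) (nat_lit 22874952763) (nat_lit 32) (nat_lit 5) (nat_lit 36) (nat_lit 5) (nat_lit 33) (nat_lit 5) (nat_lit 296) (nat_lit 283) (nat_lit 201)))) (XT.nd (nat_lit 156) (nat_lit 152) (nat_lit 0) (XT.nd (nat_lit 78) (nat_lit 0) (nat_lit 0) (XT.lf (nat_lit 0) (nat_lit 16801761652) (nat_lit 228) (nat_lit 3784019533) (nat_lit 304) (nat_lit 23442876700) (nat_lit 29) (nat_lit 5) (nat_lit 32) (nat_lit 5) (nat_lit 33) (nat_lit 5) (nat_lit 297) (nat_lit 283) (nat_lit 200)) (XT.lf (nat_lit 0) (nat_lit 27519588372) (nat_lit 304) (nat_lit 6422519238) (nat_lit 76) (nat_lit 12257661536) (nat_lit 29) (nat_lit 5) (nat_lit 33) (nat_lit 5) (nat_lit 30) (nat_lit 5) (nat_lit 298) (nat_lit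 283) (nat_lit 199))) (XT.nd (nat_lit 78) (nat_lit 0) (nat_lit 0) (XT.lf (nat_lit 0) (nat_lit 16782182047) (nat_lit 152) (nat_lit 18723684326) (nat_lit 228) (nat_lit 12998893838) (nat_lit 27) (nat_lit 5) (nat_lit 29) (nat_lit 5) (nat_lit 30) (nat_lit 5) (nat_lit 299) (nat_lit 283) (nat_lit 198)) (XT.lf (nat_lit 0) (nat_lit 42203394402) (nat_lit 152) (nat_lit 2099306349) (nat_lit 228) (nat_lit 6677728777) (nat_lit 27) (nat_lit 5) (nat_lit 29) (nat_lit 5) (nat_lit 30) (nat_lit 5) (nat_lit 300) (nat_lit 283) (nat_lit 197))))) (XT.nd (nat_lit 312) (nat_lit 304) (nat_lit 0) (XT.nd (nat_lit 156) (nat_lit 152) (nat_lit 0) (XT.nd (nat_lit 78) (nat_lit 0) (nat_lit 0) (XT.lf (nat_lit 0) (nat_lit 934756953) (nat_lit 228) (nat_lit 37175758696) (nat_lit 76) (nat_lit 15479912501) (nat_lit 24) (nat_lit 5) (nat_lit 27) (nat_lit 5) (nat_lit 25) (nat_lit 5) (nat_lit 301) (nat_lit 283) (nat_lit 196)) (XT.lf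 (nat_lit 0) (nat_lit 9092582987) (nat_lit 228) (nat_lit 12508458390) (nat_lit 76) (nat_lit 34770549474) (nat_lit 24) (nat_lit 5) (nat_lit 27) (nat_lit 5) (nat_lit 25) (nat_lit 5) (nat_lit 302) (nat_lit 283) (nat_lit 195))) (XT.nd (nat_lit 78) (nat_lit 0) (nat_lit 0) (XT.lf (nat_lit 0) (nat_lit 14871442685) (nat_lit 152) (nat_lit 3385891599) (nat_lit 228) (nat_lit 41089576654) (nat_lit 22) (nat_lit 5) (nat_lit 24) (nat_lit 5) (nat_lit 25) (nat_lit 5) (nat_lit 303) (nat_lit 283) (nat_lit 194)) (XT.lf (nat_lit 0) (nat_lit 28894588285) (nat_lit 228) (nat_lit 17785192694) (nat_lit 76) (nat_lit 15821337536) (nat_lit 22) (nat_lit 5) (nat_lit 25) (nat_lit 5) (nat_lit 23) (nat_lit 5) (nat_lit 304) (nat_lit 283) (nat_lit 193)))) (XT.nd (nat_lit 156) (nat_lit 152) (nat_lit 0) (XT.nd (nat_lit 78) (nat_lit 0) (nat_lit 0) (XT.lf (nat_lit 0) (nat_lit 11524387617) (nat_lit 152) (nat_lit 29220529037)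 (nat_lit 228) (nat_lit 25133785639) (nat_lit 20) (nat_lit 5) (nat_lit 22) (nat_lit 5) (nat_lit 23) (nat_lit 5) (nat_lit 305) (nat_lit 283) (nat_lit 192)) (XT.lf (nat_lit 0) (nat_lit 44185838551) (nat_lit 152) (nat_lit 9840816878) (nat_lit 228) (nat_lit 15461173206) (nat_lit 20) (nat_lit 5) (nat_lit 22) (nat_lit 5) (nat_lit 23) (nat_lit 5) (nat_lit 306) (nat_lit 283) (nat_lit 191))) (XT.nd (nat_lit 78) (nat_lit 76) (nat_lit 0) (XT.lf (nat_lit 0) (nat_lit 6109209799) (nat_lit 76) (nat_lit 62672634741) (nat_lit 152) (nat_lit 4570973750) (nat_lit 19) (nat_lit 5) (nat_lit 20) (nat_lit 5) (nat_lit 21) (nat_lit 4) (nat_lit 307) (nat_lit 283) (nat_lit 190)) (XT.lf (nat_lit 0) (nat_lit 7793438539) (nat_lit 152) (nat_lit 36450176069) (nat_lit 76) (nat_lit 33192547968) (nat_lit 18) (nat_lit 5) (nat_lit 20) (nat_lit 5) (nat_lit 19) (nat_lit 5) (nat_lit 308) (nat_lit 283) (nat_lit 189))))))) (XT.nd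 (nat_lit 1170) (nat_lit 304) (nat_lit 0) (XT.nd (nat_lit 546) (nat_lit 304) (nat_lit 0) (XT.nd (nat_lit 234) (nat_lit 304) (nat_lit 0) (XT.nd (nat_lit 78) (nat_lit 152) (nat_lit 0) (XT.lf (nat_lit 0) (nat_lit 20897567453) (nat_lit 152) (nat_lit 3315940580) (nat_lit 76) (nat_lit 57623371896) (nat_lit 18) (nat_lit 5) (nat_lit 20) (nat_lit 5) (nat_lit 19) (nat_lit 5) (nat_lit 309) (nat_lit 283) (nat_lit 188)) (XT.nd (nat_lit 78) (nat_lit 0) (nat_lit 0) (XT.lf (nat_lit 0) (nat_lit 34174950462) (nat_lit 152) (nat_lit 1694683626) (nat_lit 228) (nat_lit 50654456474) (nat_lit 16) (nat_lit 5) (nat_lit 18) (nat_lit 5) (nat_lit 19) (nat_lit 5) (nat_lit 310) (nat_lit 283) (nat_lit 187)) (XT.lf (nat_lit 0) (nat_lit 52674383517) (nat_lit 228) (nat_lit 17275543299) (nat_lit 76) (nat_lit 21585561988) (nat_lit 16) (nat_lit 5) (nat_lit 19) (nat_lit 5) (nat_lit 17) (nat_lit 4) (nat_lit 311) (nat_lit 283)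 (nat_lit 186)))) (XT.nd (nat_lit 156) (nat_lit 228) (nat_lit 0) (XT.nd (nat_lit 78) (nat_lit 0) (nat_lit 0) (XT.lf (nat_lit 0) (nat_lit 21638957167) (nat_lit 76) (nat_lit 49746909004) (nat_lit 152) (nat_lit 25516948320) (nat_lit 15) (nat_lit 5) (nat_lit 16) (nat_lit 5) (nat_lit 17) (nat_lit 4) (nat_lit 312) (nat_lit 283) (nat_lit 185)) (XT.lf (nat_lit 0) (nat_lit 64645745481) (nat_lit 76) (nat_lit 27418857706) (nat_lit 152) (nat_lit 10597299747) (nat_lit 15) (nat_lit 5) (nat_lit 16) (nat_lit 5) (nat_lit 17) (nat_lit 4) (nat_lit 313) (nat_lit 283) (nat_lit 184))) (XT.nd (nat_lit 78) (nat_lit 0) (nat_lit 0) (XT.lf (nat_lit 0) (nat_lit 2184789026) (nat_lit 152) (nat_lit 3105836326) (nat_lit 228) (nat_lit 103576432845) (nat_lit 12) (nat_lit 5) (nat_lit 14) (nat_lit 5) (nat_lit 15) (nat_lit 5) (nat_lit 314) (nat_lit 283) (nat_lit 183)) (XT.lf (nat_lit 0) (nat_lit 23498418738) (nat_lit 228)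 (nat_lit 68583953981) (nat_lit 76) (nat_lit 23334526531) (nat_lit 12) (nat_lit 5) (nat_lit 15) (nat_lit 5) (nat_lit 13) (nat_lit 4) (nat_lit 315) (nat_lit 283) (nat_lit 182))))) (XT.nd (nat_lit 312) (nat_lit 228) (nat_lit 0) (XT.nd (nat_lit 156) (nat_lit 0) (nat_lit 0) (XT.nd (nat_lit 78) (nat_lit 76) (nat_lit 0) (XT.lf (nat_lit 0) (nat_lit 43241770401) (nat_lit 228) (nat_lit 27521446409) (nat_lit 76) (nat_lit 51721198608) (nat_lit 12) (nat_lit 5) (nat_lit 15) (nat_lit 5) (nat_lit 13) (nat_lit 4) (nat_lit 316) (nat_lit 283) (nat_lit 181)) (XT.lf (nat_lit 0) (nat_lit 17709166593) (nat_lit 76) (nat_lit 47279721833) (nat_lit 152) (nat_lit 65094503021) (nat_lit 11) (nat_lit 5) (nat_lit 12) (nat_lit 5) (nat_lit 13) (nat_lit 4) (nat_lit 317) (nat_lit 283) (nat_lit 180))) (XT.nd (nat_lit 78) (nat_lit 0) (nat_lit 0) (XT.lf (nat_lit 0) (nat_lit 68120688635) (nat_lit 76) (nat_lit 21106018654)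 (nat_lit 152) (nat_lit 49003506001) (nat_lit 11) (nat_lit 5) (nat_lit 12) (nat_lit 5) (nat_lit 13) (nat_lit 4) (nat_lit 318) (nat_lit 283) (nat_lit 179)) (XT.lf (nat_lit 0) (nat_lit 115574323494) (nat_lit 152) (nat_lit 24638484446) (nat_lit 0) (nat_lit 6802313272) (nat_lit 11) (nat_lit 5) (nat_lit 13) (nat_lit 4) (nat_lit 11) (nat_lit 4) (nat_lit 319) (nat_lit 283) (nat_lit 178)))) (XT.nd (nat_lit 156) (nat_lit 76) (nat_lit 0) (XT.nd (nat_lit 78) (nat_lit 76) (nat_lit 0) (XT.lf (nat_lit 0) (nat_lit 25179188447) (nat_lit 76) (nat_lit 120002973026) (nat_lit 76) (nat_lit 11228469222) (nat_lit 10) (nat_lit 4) (nat_lit 11) (nat_lit 5) (nat_lit 11) (nat_lit 4) (nat_lit 320) (nat_lit 283) (nat_lit 177)) (XT.lf (nat_lit 0) (nat_lit 10760358164) (nat_lit 152) (nat_lit 86395267693) (nat_lit 76) (nat_lit 69326575896) (nat_lit 9) (nat_lit 5) (nat_lit 11) (nat_lit 5) (nat_lit 10) (nat_lit 4) (nat_lit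 321) (nat_lit 283) (nat_lit 176))) (XT.nd (nat_lit 78) (nat_lit 76) (nat_lit 0) (XT.lf (nat_lit 0) (nat_lit 33900414934) (nat_lit 152) (nat_lit 38266087454) (nat_lit 76) (nat_lit 105169765574) (nat_lit 9) (nat_lit 5) (nat_lit 11) (nat_lit 5) (nat_lit 10) (nat_lit 4) (nat_lit 322) (nat_lit 283) (nat_lit 175)) (XT.lf (nat_lit 0) (nat_lit 14433368949) (nat_lit 76) (nat_lit 44804274777) (nat_lit 152) (nat_lit 129793339759) (nat_lit 8) (nat_lit 5) (nat_lit 9) (nat_lit 5) (nat_lit 10) (nat_lit 4) (nat_lit 323) (nat_lit 283) (nat_lit 174)))))) (XT.nd (nat_lit 546) (nat_lit 152) (nat_lit 0) (XT.nd (nat_lit 234) (nat_lit 152) (nat_lit 0) (XT.nd (nat_lit 78) (nat_lit 0) (nat_lit 0) (XT.lf (nat_lit 0) (nat_lit 73522986843) (nat_lit 76) (nat_lit 14124008205) (nat_lit 152) (nat_lit 113930670973) (nat_lit 8) (nat_lit 5) (nat_lit 9) (nat_lit 5) (nat_lit 10) (nat_lit 4) (nat_lit 324) (nat_lit 283)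 (nat_lit 173)) (XT.nd (nat_lit 78) (nat_lit 0) (nat_lit 0) (XT.lf (nat_lit 0) (nat_lit 118785246102) (nat_lit 152) (nat_lit 78247451844) (nat_lit 0) (nat_lit 18058894298) (nat_lit 8) (nat_lit 5) (nat_lit 10) (nat_lit 4) (nat_lit 8) (nat_lit 4) (nat_lit 325) (nat_lit 283) (nat_lit 172)) (XT.lf (nat_lit 0) (nat_lit 152780437115) (nat_lit 152) (nat_lit 24824295851) (nat_lit 0) (nat_lit 52052630330) (nat_lit 8) (nat_lit 5) (nat_lit 10) (nat_lit 4) (nat_lit 8) (nat_lit 4) (nat_lit 326) (nat_lit 283) (nat_lit 171)))) (XT.nd (nat_lit 156) (nat_lit 76) (nat_lit 0) (XT.nd (nat_lit 78) (nat_lit 0) (nat_lit 0) (XT.lf (nat_lit 0) (nat_lit 34601984610) (nat_lit 76) (nat_lit 155724532286) (nat_lit 76) (nat_lit 54995378298) (nat_lit 7) (nat_lit 4) (nat_lit 8) (nat_lit 5) (nat_lit 8) (nat_lit 4) (nat_lit 327) (nat_lit 283) (nat_lit 170)) (XT.lf (nat_lit 0) (nat_lit 100192529801) (nat_lit 76) (nat_lit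 131361616570) (nat_lit 76) (nat_lit 30631215170) (nat_lit 7) (nat_lit 4) (nat_lit 8) (nat_lit 5) (nat_lit 8) (nat_lit 4) (nat_lit 328) (nat_lit 283) (nat_lit 169))) (XT.nd (nat_lit 78) (nat_lit 76) (nat_lit 0) (XT.lf (nat_lit 0) (nat_lit 171028821007) (nat_lit 76) (nat_lit 105050353224) (nat_lit 76) (nat_lit 4318796814) (nat_lit 7) (nat_lit 4) (nat_lit 8) (nat_lit 5) (nat_lit 8) (nat_lit 4) (nat_lit 329) (nat_lit 283) (nat_lit 168)) (XT.lf (nat_lit 0) (nat_lit 22892332548) (nat_lit 152) (nat_lit 53116574163) (nat_lit 76) (nat_lit 224012379352) (nat_lit 6) (nat_lit 5) (nat_lit 8) (nat_lit 5) (nat_lit 7) (nat_lit 4) (nat_lit 330) (nat_lit 283) (nat_lit 167))))) (XT.nd (nat_lit 312) (nat_lit 76) (nat_lit 0) (XT.nd (nat_lit 156) (nat_lit 0) (nat_lit 0) (XT.nd (nat_lit 78) (nat_lit 0) (nat_lit 0) (XT.lf (nat_lit 0) (nat_lit 7918841457) (nat_lit 76) (nat_lit 44317916983) (nat_lit 152) (nat_lit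 268953555756) (nat_lit 5) (nat_lit 5) (nat_lit 6) (nat_lit 5) (nat_lit 7) (nat_lit 4) (nat_lit 331) (nat_lit 283) (nat_lit 166)) (XT.lf (nat_lit 0) (nat_lit 76856588134) (nat_lit 76) (nat_lit 8523758557) (nat_lit 152) (nat_lit 258556389881) (nat_lit 5) (nat_lit 5) (nat_lit 6) (nat_lit 5) (nat_lit 7) (nat_lit 4) (nat_lit 332) (nat_lit 283) (nat_lit 165))) (XT.nd (nat_lit 78) (nat_lit 0) (nat_lit 0) (XT.lf (nat_lit 0) (nat_lit 121899488887) (nat_lit 152) (nat_lit 217919472026) (nat_lit 0) (nat_lit 28625987080) (nat_lit 5) (nat_lit 5) (nat_lit 7) (nat_lit 4) (nat_lit 5) (nat_lit 4) (nat_lit 333) (nat_lit 283) (nat_lit 164)) (XT.lf (nat_lit 0) (nat_lit 161560952379) (nat_lit 152) (nat_lit 165048478597) (nat_lit 0) (nat_lit 68286722720) (nat_lit 5) (nat_lit 5) (nat_lit 7) (nat_lit 4) (nat_lit 5) (nat_lit 4) (nat_lit 334) (nat_lit 283) (nat_lit 163)))) (XT.nd (nat_lit 156) (nat_lit 76) (nat_lit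 0) (XT.nd (nat_lit 78) (nat_lit 0) (nat_lit 0) (XT.lf (nat_lit 0) (nat_lit 204394771465) (nat_lit 152) (nat_lit 107948861962) (nat_lit 0) (nat_lit 111119867868) (nat_lit 5) (nat_lit 5) (nat_lit 7) (nat_lit 4) (nat_lit 5) (nat_lit 4) (nat_lit 335) (nat_lit 283) (nat_lit 162)) (XT.lf (nat_lit 0) (nat_lit 250654776183) (nat_lit 152) (nat_lit 46282254022) (nat_lit 0) (nat_lit 157379248570) (nat_lit 5) (nat_lit 5) (nat_lit 7) (nat_lit 4) (nat_lit 5) (nat_lit 4) (nat_lit 336) (nat_lit 283) (nat_lit 161))) (XT.nd (nat_lit 78) (nat_lit 0) (nat_lit 0) (XT.lf (nat_lit 0) (nat_lit 21386622443) (nat_lit 76) (nat_lit 279742826235) (nat_lit 76) (nat_lit 186466720829) (nat_lit 4) (nat_lit 4) (nat_lit 5) (nat_lit 5) (nat_lit 5) (nat_lit 4) (nat_lit 337) (nat_lit 283) (nat_lit 160)) (XT.lf (nat_lit 0) (nat_lit 97100239168) (nat_lit 76) (nat_lit 259806827695) (nat_lit 76) (nat_lit 166530187296) (nat_lit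 4) (nat_lit 4) (nat_lit 5) (nat_lit 5) (nat_lit 5) (nat_lit 4) (nat_lit 338) (nat_lit 283) (nat_lit 159))))))))
noncomputable def xc87 : XT := (XT.nd (nat_lit 36660) (nat_lit 0) (nat_lit 760) (XT.nd (nat_lit 1092) (nat_lit 0) (nat_lit 0) (XT.nd (nat_lit 546) (nat_lit 76) (nat_lit 0) (XT.nd (nat_lit 234) (nat_lit 76) (nat_lit 0) (XT.nd (nat_lit 78) (nat_lit 0) (nat_lit 0) (XT.lf (nat_lit 0) (nat_lit 178870127959) (nat_lit 76) (nat_lit 238276334179) (nat_lit 76) (nat_lit 144999198416) (nat_lit 4) (nat_lit 4) (nat_lit 5) (nat_lit 5) (nat_lit 5) (nat_lit 4) (nat_lit 339) (nat_lit 283) (nat_lit 158)) (XT.nd (nat_lit 78) (nat_lit 0) (nat_lit 0) (XT.lf (nat_lit 0) (nat_lit 267180851121) (nat_lit 76) (nat_lit 215023757578) (nat_lit 76) (nat_lit 121746163144) (nat_lit 4) (nat_lit 4) (nat_lit 5) (nat_lit 5) (nat_lit 5) (nat_lit 4) (nat_lit 340) (nat_lit 283) (nat_lit 157)) (XT.lf (nat_lit 0)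 (nat_lit 362555731456) (nat_lit 76) (nat_lit 189911304844) (nat_lit 76) (nat_lit 96633285716) (nat_lit 4) (nat_lit 4) (nat_lit 5) (nat_lit 5) (nat_lit 5) (nat_lit 4) (nat_lit 341) (nat_lit 283) (nat_lit 156)))) (XT.nd (nat_lit 156) (nat_lit 76) (nat_lit 0) (XT.nd (nat_lit 78) (nat_lit 0) (nat_lit 0) (XT.lf (nat_lit 0) (nat_lit 465559953441) (nat_lit 76) (nat_lit 162790161444) (nat_lit 76) (nat_lit 69511749080) (nat_lit 4) (nat_lit 4) (nat_lit 5) (nat_lit 5) (nat_lit 5) (nat_lit 4) (nat_lit 342) (nat_lit 283) (nat_lit 155)) (XT.lf (nat_lit 0) (nat_lit 576803912466) (nat_lit 76) (nat_lit 133499609491) (nat_lit 76) (nat_lit 40220833019) (nat_lit 4) (nat_lit 4) (nat_lit 5) (nat_lit 5) (nat_lit 5) (nat_lit 4) (nat_lit 343) (nat_lit 283) (nat_lit 154))) (XT.nd (nat_lit 78) (nat_lit 76) (nat_lit 0) (XT.lf (nat_lit 0) (nat_lit 696946831991) (nat_lit 76) (nat_lit 101866075343) (nat_lit 76) (nat_lit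 8586961734) (nat_lit 4) (nat_lit 4) (nat_lit 5) (nat_lit 5) (nat_lit 5) (nat_lit 4) (nat_lit 344) (nat_lit 283) (nat_lit 153)) (XT.lf (nat_lit 0) (nat_lit 24297843379) (nat_lit 152) (nat_lit 42739911543) (nat_lit 76) (nat_lit 801738480581) (nat_lit 3) (nat_lit 5) (nat_lit 5) (nat_lit 5) (nat_lit 4) (nat_lit 4) (nat_lit 345) (nat_lit 283) (nat_lit 152))))) (XT.nd (nat_lit 234) (nat_lit 0) (nat_lit 0) (XT.nd (nat_lit 78) (nat_lit 0) (nat_lit 0) (XT.lf (nat_lit 0) (nat_lit 31755262172) (nat_lit 76) (nat_lit 28357707531) (nat_lit 152) (nat_lit 874870822256) (nat_lit 2) (nat_lit 5) (nat_lit 3) (nat_lit 5) (nat_lit 4) (nat_lit 4) (nat_lit 346) (nat_lit 283) (nat_lit 151)) (XT.nd (nat_lit 78) (nat_lit 0) (nat_lit 0) (XT.lf (nat_lit 0) (nat_lit 100314660103) (nat_lit 152) (nat_lit 892107278714) (nat_lit 0) (nat_lit 13944305990) (nat_lit 2) (nat_lit 5) (nat_lit 4) (nat_lit 4) (nat_lit 2) (nat_lit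 4) (nat_lit 347) (nat_lit 283) (nat_lit 150)) (XT.lf (nat_lit 0) (nat_lit 144468811772) (nat_lit 152) (nat_lit 880833347994) (nat_lit 0) (nat_lit 58098228210) (nat_lit 2) (nat_lit 5) (nat_lit 4) (nat_lit 4) (nat_lit 2) (nat_lit 4) (nat_lit 348) (nat_lit 283) (nat_lit 149)))) (XT.nd (nat_lit 156) (nat_lit 0) (nat_lit 0) (XT.nd (nat_lit 78) (nat_lit 0) (nat_lit 0) (XT.lf (nat_lit 0) (nat_lit 192155075396) (nat_lit 152) (nat_lit 868657925602) (nat_lit 0) (nat_lit 105784279380) (nat_lit 2) (nat_lit 5) (nat_lit 4) (nat_lit 4) (nat_lit 2) (nat_lit 4) (nat_lit 349) (nat_lit 283) (nat_lit 148)) (XT.lf (nat_lit 0) (nat_lit 243656036239) (nat_lit 152) (nat_lit 855508860886) (nat_lit 0) (nat_lit 157285043507) (nat_lit 2) (nat_lit 5) (nat_lit 4) (nat_lit 4) (nat_lit 2) (nat_lit 4) (nat_lit 350) (nat_lit 283) (nat_lit 147))) (XT.nd (nat_lit 78) (nat_lit 0) (nat_lit 0) (XT.lf (nat_lit 0) (nat_lit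 299276885181) (nat_lit 152) (nat_lit 841308233463) (nat_lit 0) (nat_lit 212905710305) (nat_lit 2) (nat_lit 5) (nat_lit 4) (nat_lit 4) (nat_lit 2) (nat_lit 4) (nat_lit 351) (nat_lit 283) (nat_lit 146)) (XT.lf (nat_lit 0) (nat_lit 359347227253) (nat_lit 152) (nat_lit 825971891467) (nat_lit 0) (nat_lit 272975883725) (nat_lit 2) (nat_lit 5) (nat_lit 4) (nat_lit 4) (nat_lit 2) (nat_lit 4) (nat_lit 352) (nat_lit 283) (nat_lit 145)))))) (XT.nd (nat_lit 546) (nat_lit 0) (nat_lit 0) (XT.nd (nat_lit 234) (nat_lit 0) (nat_lit 0) (XT.nd (nat_lit 78) (nat_lit 0) (nat_lit 0) (XT.lf (nat_lit 0) (nat_lit 424223034852) (nat_lit 152) (nat_lit 809408952871) (nat_lit 0) (nat_lit 337851535165) (nat_lit 2) (nat_lit 5) (nat_lit 4) (nat_lit 4) (nat_lit 2) (nat_lit 4) (nat_lit 353) (nat_lit 283) (nat_lit 144)) (XT.nd (nat_lit 78) (nat_lit 0) (nat_lit 0) (XT.lf (nat_lit 0) (nat_lit 494288757209) (nat_lit 152)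 (nat_lit 791521266928) (nat_lit 0) (nat_lit 407917112929) (nat_lit 2) (nat_lit 5) (nat_lit 4) (nat_lit 4) (nat_lit 2) (nat_lit 4) (nat_lit 354) (nat_lit 283) (nat_lit 143)) (XT.lf (nat_lit 0) (nat_lit 569959598603) (nat_lit 152) (nat_lit 772202832536) (nat_lit 0) (nat_lit 483587820442) (nat_lit 2) (nat_lit 5) (nat_lit 4) (nat_lit 4) (nat_lit 2) (nat_lit 4) (nat_lit 355) (nat_lit 283) (nat_lit 142)))) (XT.nd (nat_lit 156) (nat_lit 0) (nat_lit 0) (XT.nd (nat_lit 78) (nat_lit 0) (nat_lit 0) (XT.lf (nat_lit 0) (nat_lit 651683978836) (nat_lit 152) (nat_lit 751339170084) (nat_lit 0) (nat_lit 565312076711) (nat_lit 2) (nat_lit 5) (nat_lit 4) (nat_lit 4) (nat_lit 2) (nat_lit 4) (nat_lit 356) (nat_lit 283) (nat_lit 141)) (XT.lf (nat_lit 0) (nat_lit 739946190532) (nat_lit 152) (nat_lit 728806643053) (nat_lit 0) (nat_lit 653574173625) (nat_lit 2) (nat_lit 5) (nat_lit 4) (nat_lit 4) (nat_lit 2)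 (nat_lit 4) (nat_lit 357) (nat_lit 283) (nat_lit 140))) (XT.nd (nat_lit 78) (nat_lit 0) (nat_lit 0) (XT.lf (nat_lit 0) (nat_lit 835269269019) (nat_lit 152) (nat_lit 704471725357) (nat_lit 0) (nat_lit 748897145832) (nat_lit 2) (nat_lit 5) (nat_lit 4) (nat_lit 4) (nat_lit 2) (nat_lit 4) (nat_lit 358) (nat_lit 283) (nat_lit 139)) (XT.lf (nat_lit 0) (nat_lit 938218091799) (nat_lit 152) (nat_lit 678190210078) (nat_lit 0) (nat_lit 851845870206) (nat_lit 2) (nat_lit 5) (nat_lit 4) (nat_lit 4) (nat_lit 2) (nat_lit 4) (nat_lit 359) (nat_lit 283) (nat_lit 138))))) (XT.nd (nat_lit 34710) (nat_lit 0) (nat_lit 3040) (XT.nd (nat_lit 156) (nat_lit 0) (nat_lit 0) (XT.nd (nat_lit 78) (nat_lit 0) (nat_lit 0) (XT.lf (nat_lit 0) (nat_lit 1049402725971) (nat_lit 152) (nat_lit 649806354901) (nat_lit 0) (nat_lit 963030413259) (nat_lit 2) (nat_lit 5) (nat_lit 4) (nat_lit 4) (nat_lit 2) (nat_lit 4) (nat_lit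 360) (nat_lit 283) (nat_lit 137)) (XT.lf (nat_lit 0) (nat_lit 1169482043439) (nat_lit 152) (nat_lit 619151959204) (nat_lit 0) (nat_lit 1083109646360) (nat_lit 2) (nat_lit 5) (nat_lit 4) (nat_lit 4) (nat_lit 2) (nat_lit 4) (nat_lit 361) (nat_lit 283) (nat_lit 136))) (XT.nd (nat_lit 78) (nat_lit 0) (nat_lit 0) (XT.lf (nat_lit 0) (nat_lit 1299167625346) (nat_lit 152) (nat_lit 586045367309) (nat_lit 0) (nat_lit 1212795150148) (nat_lit 2) (nat_lit 5) (nat_lit 4) (nat_lit 4) (nat_lit 2) (nat_lit 4) (nat_lit 362) (nat_lit 283) (nat_lit 135)) (XT.lf (nat_lit 0) (nat_lit 1439227978842) (nat_lit 152) (nat_lit 550290392004) (nat_lit 0) (nat_lit 1352855431312) (nat_lit 2) (nat_lit 5) (nat_lit 4) (nat_lit 4) (nat_lit 2) (nat_lit 4) (nat_lit 363) (nat_lit 283) (nat_lit 134)))) (XT.nd (nat_lit 156) (nat_lit 0) (nat_lit 76) (XT.nd (nat_lit 78) (nat_lit 0) (nat_lit 0) (XT.lf (nat_lit 0) (nat_lit 6623521201)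 (nat_lit 532) (nat_lit 3189590636) (nat_lit 532) (nat_lit 3189590636) (nat_lit 42) (nat_lit 3) (nat_lit 49) (nat_lit 3) (nat_lit 49) (nat_lit 5) (nat_lit 284) (nat_lit 284) (nat_lit 212)) (XT.lf (nat_lit 76) (nat_lit 5526283585) (nat_lit 0) (nat_lit 8471695020) (nat_lit 532) (nat_lit 13029626477) (nat_lit 43) (nat_lit 5) (nat_lit 42) (nat_lit 3) (nat_lit 49) (nat_lit 5) (nat_lit 285) (nat_lit 284) (nat_lit 211))) (XT.nd (nat_lit 78) (nat_lit 0) (nat_lit 0) (XT.lf (nat_lit 0) (nat_lit 15065075789) (nat_lit 456) (nat_lit 9467039230) (nat_lit 532) (nat_lit 3579012510) (nat_lit 43) (nat_lit 5) (nat_lit 49) (nat_lit 5) (nat_lit 50) (nat_lit 5) (nat_lit 286) (nat_lit 284) (nat_lit 210)) (XT.lf (nat_lit 76) (nat_lit 3478513047) (nat_lit 0) (nat_lit 13034539376) (nat_lit 532) (nat_lit 12744669141) (nat_lit 44) (nat_lit 5) (nat_lit 43) (nat_lit 5) (nat_lit 50) (nat_lit 5) (nat_lit 287) (nat_lit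 284) (nat_lit 209))))))) (XT.nd (nat_lit 1170) (nat_lit 912) (nat_lit 0) (XT.nd (nat_lit 546) (nat_lit 836) (nat_lit 0) (XT.nd (nat_lit 234) (nat_lit 608) (nat_lit 0) (XT.nd (nat_lit 78) (nat_lit 0) (nat_lit 76) (XT.lf (nat_lit 76) (nat_lit 17992808229) (nat_lit 0) (nat_lit 335193165) (nat_lit 532) (nat_lit 12147979444) (nat_lit 44) (nat_lit 5) (nat_lit 43) (nat_lit 5) (nat_lit 50) (nat_lit 5) (nat_lit 288) (nat_lit 284) (nat_lit 208)) (XT.nd (nat_lit 78) (nat_lit 0) (nat_lit 0) (XT.lf (nat_lit 76) (nat_lit 1630773483) (nat_lit 0) (nat_lit 19011298171) (nat_lit 532) (nat_lit 11121341513) (nat_lit 45) (nat_lit 5) (nat_lit 44) (nat_lit 5) (nat_lit 51) (nat_lit 5) (nat_lit 289) (nat_lit 284) (nat_lit 207)) (XT.lf (nat_lit 76) (nat_lit 17569181468) (nat_lit 0) (nat_lit 5915192139) (nat_lit 532) (nat_lit 9642042383) (nat_lit 45) (nat_lit 5) (nat_lit 44) (nat_lit 5) (nat_lit 51) (nat_lit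 5) (nat_lit 290) (nat_lit 284) (nat_lit 206)))) (XT.nd (nat_lit 156) (nat_lit 304) (nat_lit 0) (XT.nd (nat_lit 78) (nat_lit 456) (nat_lit 0) (XT.lf (nat_lit 0) (nat_lit 26745789971) (nat_lit 456) (nat_lit 19258446) (nat_lit 76) (nat_lit 7818094789) (nat_lit 45) (nat_lit 5) (nat_lit 51) (nat_lit 5) (nat_lit 46) (nat_lit 5) (nat_lit 291) (nat_lit 284) (nat_lit 205)) (XT.lf (nat_lit 0) (nat_lit 17477245665) (nat_lit 456) (nat_lit 13359132555) (nat_lit 532) (nat_lit 5274590604) (nat_lit 39) (nat_lit 5) (nat_lit 45) (nat_lit 5) (nat_lit 46) (nat_lit 5) (nat_lit 292) (nat_lit 284) (nat_lit 204))) (XT.nd (nat_lit 78) (nat_lit 304) (nat_lit 0) (XT.lf (nat_lit 0) (nat_lit 35276272568) (nat_lit 532) (nat_lit 1418827121) (nat_lit 76) (nat_lit 1064175445) (nat_lit 39) (nat_lit 5) (nat_lit 46) (nat_lit 5) (nat_lit 40) (nat_lit 5) (nat_lit 293) (nat_lit 284) (nat_lit 203)) (XT.lf (nat_lit 0) (nat_lit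 1293075137) (nat_lit 304) (nat_lit 21803804206) (nat_lit 76) (nat_lit 16378538121) (nat_lit 35) (nat_lit 5) (nat_lit 39) (nat_lit 5) (nat_lit 36) (nat_lit 5) (nat_lit 294) (nat_lit 284) (nat_lit 202))))) (XT.nd (nat_lit 312) (nat_lit 380) (nat_lit 0) (XT.nd (nat_lit 156) (nat_lit 228) (nat_lit 0) (XT.nd (nat_lit 78) (nat_lit 228) (nat_lit 0) (XT.lf (nat_lit 0) (nat_lit 5272006130) (nat_lit 304) (nat_lit 3026490482) (nat_lit 76) (nat_lit 33022417358) (nat_lit 35) (nat_lit 5) (nat_lit 39) (nat_lit 5) (nat_lit 36) (nat_lit 5) (nat_lit 295) (nat_lit 284) (nat_lit 201)) (XT.lf (nat_lit 0) (nat_lit 10197518105) (nat_lit 304) (nat_lit 25319189482) (nat_lit 76) (nat_lit 7747095524) (nat_lit 32) (nat_lit 5) (nat_lit 36) (nat_lit 5) (nat_lit 33) (nat_lit 5) (nat_lit 296) (nat_lit 284) (nat_lit 200))) (XT.nd (nat_lit 78) (nat_lit 228) (nat_lit 0) (XT.lf (nat_lit 0) (nat_lit 15813202285) (nat_lit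 304) (nat_lit 4812731806) (nat_lit 76) (nat_lit 24712511970) (nat_lit 32) (nat_lit 5) (nat_lit 36) (nat_lit 5) (nat_lit 33) (nat_lit 5) (nat_lit 297) (nat_lit 284) (nat_lit 199)) (XT.lf (nat_lit 0) (nat_lit 18242102097) (nat_lit 228) (nat_lit 4070768511) (nat_lit 304) (nat_lit 25231423689) (nat_lit 29) (nat_lit 5) (nat_lit 32) (nat_lit 5) (nat_lit 33) (nat_lit 5) (nat_lit 298) (nat_lit 284) (nat_lit 198)))) (XT.nd (nat_lit 156) (nat_lit 228) (nat_lit 0) (XT.nd (nat_lit 78) (nat_lit 152) (nat_lit 0) (XT.lf (nat_lit 0) (nat_lit 29795795320) (nat_lit 304) (nat_lit 6841439674) (nat_lit 76) (nat_lit 13252324062) (nat_lit 29) (nat_lit 5) (nat_lit 33) (nat_lit 5) (nat_lit 30) (nat_lit 5) (nat_lit 299) (nat_lit 284) (nat_lit 197)) (XT.lf (nat_lit 0) (nat_lit 18217235660) (nat_lit 152) (nat_lit 20200435145) (nat_lit 228) (nat_lit 13961559310) (nat_lit 27) (nat_lit 5) (nat_lit 29) (nat_lit 5)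 (nat_lit 30) (nat_lit 5) (nat_lit 300) (nat_lit 284) (nat_lit 196))) (XT.nd (nat_lit 78) (nat_lit 228) (nat_lit 0) (XT.lf (nat_lit 0) (nat_lit 45665294704) (nat_lit 152) (nat_lit 2247673146) (nat_lit 228) (nat_lit 7140422973) (nat_lit 27) (nat_lit 5) (nat_lit 29) (nat_lit 5) (nat_lit 30) (nat_lit 5) (nat_lit 301) (nat_lit 284) (nat_lit 195)) (XT.lf (nat_lit 0) (nat_lit 1075077607) (nat_lit 228) (nat_lit 40057869626) (nat_lit 76) (nat_lit 16739309938) (nat_lit 24) (nat_lit 5) (nat_lit 27) (nat_lit 5) (nat_lit 25) (nat_lit 5) (nat_lit 302) (nat_lit 284) (nat_lit 194)))))) (XT.nd (nat_lit 546) (nat_lit 456) (nat_lit 0) (XT.nd (nat_lit 234) (nat_lit 304) (nat_lit 0) (XT.nd (nat_lit 78) (nat_lit 152) (nat_lit 0) (XT.lf (nat_lit 0) (nat_lit 9880674902) (nat_lit 228) (nat_lit 13423996389) (nat_lit 76) (nat_lit 37571641985) (nat_lit 24) (nat_lit 5) (nat_lit 27) (nat_lit 5) (nat_lit 25) (nat_lit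 5) (nat_lit 303) (nat_lit 284) (nat_lit 193)) (XT.nd (nat_lit 78) (nat_lit 0) (nat_lit 0) (XT.lf (nat_lit 0) (nat_lit 16144141362) (nat_lit 152) (nat_lit 3631965484) (nat_lit 228) (nat_lit 44313763192) (nat_lit 22) (nat_lit 5) (nat_lit 24) (nat_lit 5) (nat_lit 25) (nat_lit 5) (nat_lit 304) (nat_lit 284) (nat_lit 192)) (XT.lf (nat_lit 0) (nat_lit 31260583309) (nat_lit 228) (nat_lit 19127285278) (nat_lit 76) (nat_lit 17108856552) (nat_lit 22) (nat_lit 5) (nat_lit 25) (nat_lit 5) (nat_lit 23) (nat_lit 5) (nat_lit 305) (nat_lit 284) (nat_lit 191)))) (XT.nd (nat_lit 156) (nat_lit 152) (nat_lit 0) (XT.nd (nat_lit 78) (nat_lit 0) (nat_lit 0) (XT.lf (nat_lit 0) (nat_lit 12525017842) (nat_lit 152) (nat_lit 31531780642) (nat_lit 228) (nat_lit 27087897820) (nat_lit 20) (nat_lit 5) (nat_lit 22) (nat_lit 5) (nat_lit 23) (nat_lit 5) (nat_lit 306) (nat_lit 284) (nat_lit 190)) (XT.lf (nat_lit 0) (nat_lit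 47793556761) (nat_lit 152) (nat_lit 10603646379) (nat_lit 228) (nat_lit 16645668294) (nat_lit 20) (nat_lit 5) (nat_lit 22) (nat_lit 5) (nat_lit 23) (nat_lit 5) (nat_lit 307) (nat_lit 284) (nat_lit 189))) (XT.nd (nat_lit 78) (nat_lit 76) (nat_lit 0) (XT.lf (nat_lit 0) (nat_lit 6672263217) (nat_lit 76) (nat_lit 67659289313) (nat_lit 152) (nat_lit 4885616287) (nat_lit 19) (nat_lit 5) (nat_lit 20) (nat_lit 5) (nat_lit 21) (nat_lit 4) (nat_lit 308) (nat_lit 284) (nat_lit 188)) (XT.lf (nat_lit 0) (nat_lit 8461804703) (nat_lit 152) (nat_lit 39294927036) (nat_lit 76) (nat_lit 35870645021) (nat_lit 18) (nat_lit 5) (nat_lit 20) (nat_lit 5) (nat_lit 19) (nat_lit 5) (nat_lit 309) (nat_lit 284) (nat_lit 187))))) (XT.nd (nat_lit 312) (nat_lit 228) (nat_lit 0) (XT.nd (nat_lit 156) (nat_lit 76) (nat_lit 0) (XT.nd (nat_lit 78) (nat_lit 152) (nat_lit 0) (XT.lf (nat_lit 0) (nat_lit 22610938665) (nat_lit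 152) (nat_lit 3515231457) (nat_lit 76) (nat_lit 62254253883) (nat_lit 18) (nat_lit 5) (nat_lit 20) (nat_lit 5) (nat_lit 19) (nat_lit 5) (nat_lit 310) (nat_lit 284) (nat_lit 186)) (XT.lf (nat_lit 0) (nat_lit 36973260378) (nat_lit 152) (nat_lit 1805978054) (nat_lit 228) (nat_lit 54663501637) (nat_lit 16) (nat_lit 5) (nat_lit 18) (nat_lit 5) (nat_lit 19) (nat_lit 5) (nat_lit 311) (nat_lit 284) (nat_lit 185))) (XT.nd (nat_lit 78) (nat_lit 76) (nat_lit 0) (XT.lf (nat_lit 0) (nat_lit 56925943048) (nat_lit 228) (nat_lit 18595542619) (nat_lit 76) (nat_lit 23333764044) (nat_lit 16) (nat_lit 5) (nat_lit 19) (nat_lit 5) (nat_lit 17) (nat_lit 4) (nat_lit 312) (nat_lit 284) (nat_lit 184)) (XT.lf (nat_lit 0) (nat_lit 23430547146) (nat_lit 76) (nat_lit 53702465714) (nat_lit 152) (nat_lit 27519060256) (nat_lit 15) (nat_lit 5) (nat_lit 16) (nat_lit 5) (nat_lit 17) (nat_lit 4) (nat_lit 313) (nat_lit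 284) (nat_lit 183)))) (XT.nd (nat_lit 156) (nat_lit 0) (nat_lit 0) (XT.nd (nat_lit 78) (nat_lit 228) (nat_lit 0) (XT.lf (nat_lit 0) (nat_lit 69873399014) (nat_lit 76) (nat_lit 29589962610) (nat_lit 152) (nat_lit 11408746755) (nat_lit 15) (nat_lit 5) (nat_lit 16) (nat_lit 5) (nat_lit 17) (nat_lit 4) (nat_lit 314) (nat_lit 284) (nat_lit 182)) (XT.lf (nat_lit 0) (nat_lit 2415973946) (nat_lit 152) (nat_lit 3331220167) (nat_lit 228) (nat_lit 111826512166) (nat_lit 12) (nat_lit 5) (nat_lit 14) (nat_lit 5) (nat_lit 15) (nat_lit 5) (nat_lit 315) (nat_lit 284) (nat_lit 181))) (XT.nd (nat_lit 78) (nat_lit 0) (nat_lit 0) (XT.lf (nat_lit 0) (nat_lit 25409656941) (nat_lit 228) (nat_lit 74016445091) (nat_lit 76) (nat_lit 25221592688) (nat_lit 12) (nat_lit 5) (nat_lit 15) (nat_lit 5) (nat_lit 13) (nat_lit 4) (nat_lit 316) (nat_lit 284) (nat_lit 180)) (XT.lf (nat_lit 0) (nat_lit 46730153426) (nat_lit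 228) (nat_lit 29672953596) (nat_lit 76) (nat_lit 55877694528) (nat_lit 12) (nat_lit 5) (nat_lit 15) (nat_lit 5) (nat_lit 13) (nat_lit 4) (nat_lit 317) (nat_lit 284) (nat_lit 179))))))))
noncomputable def xc88 : XT := (XT.nd (nat_lit 2262) (nat_lit 76) (nat_lit 0) (XT.nd (nat_lit 1092) (nat_lit 228) (nat_lit 0) (XT.nd (nat_lit 546) (nat_lit 152) (nat_lit 0) (XT.nd (nat_lit 234) (nat_lit 228) (nat_lit 0) (XT.nd (nat_lit 78) (nat_lit 0) (nat_lit 0) (XT.lf (nat_lit 0) (nat_lit 19174837344) (nat_lit 76) (nat_lit 51041229280) (nat_lit 152) (nat_lit 70271710222) (nat_lit 11) (nat_lit 5) (nat_lit 12) (nat_lit 5) (nat_lit 13) (nat_lit 4) (nat_lit 318) (nat_lit 284) (nat_lit 178)) (XT.nd (nat_lit 78) (nat_lit 0) (nat_lit 0) (XT.lf (nat_lit 0) (nat_lit 73615656156) (nat_lit 76) (nat_lit 22775175795) (nat_lit 152) (nat_lit 52895681813) (nat_lit 11) (nat_lit 5) (nat_lit 12) (nat_lit 5) (nat_lit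 13) (nat_lit 4) (nat_lit 319) (nat_lit 284) (nat_lit 177)) (XT.lf (nat_lit 0) (nat_lit 124844762735) (nat_lit 152) (nat_lit 26566077769) (nat_lit 0) (nat_lit 7363496175) (nat_lit 11) (nat_lit 5) (nat_lit 13) (nat_lit 4) (nat_lit 11) (nat_lit 4) (nat_lit 320) (nat_lit 284) (nat_lit 176)))) (XT.nd (nat_lit 156) (nat_lit 76) (nat_lit 0) (XT.nd (nat_lit 78) (nat_lit 76) (nat_lit 0) (XT.lf (nat_lit 0) (nat_lit 27235908059) (nat_lit 76) (nat_lit 129584524719) (nat_lit 76) (nat_lit 12101120316) (nat_lit 10) (nat_lit 4) (nat_lit 11) (nat_lit 5) (nat_lit 11) (nat_lit 4) (nat_lit 321) (nat_lit 284) (nat_lit 175)) (XT.lf (nat_lit 0) (nat_lit 11643728026) (nat_lit 152) (nat_lit 93266429592) (nat_lit 76) (nat_lit 74888789382) (nat_lit 9) (nat_lit 5) (nat_lit 11) (nat_lit 5) (nat_lit 10) (nat_lit 4) (nat_lit 322) (nat_lit 284) (nat_lit 174))) (XT.nd (nat_lit 78) (nat_lit 76) (nat_lit 0) (XT.lf (nat_lit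 0) (nat_lit 36633319619) (nat_lit 152) (nat_lit 41289911935) (nat_lit 76) (nat_lit 113598242575) (nat_lit 9) (nat_lit 5) (nat_lit 11) (nat_lit 5) (nat_lit 10) (nat_lit 4) (nat_lit 323) (nat_lit 284) (nat_lit 173)) (XT.lf (nat_lit 0) (nat_lit 15624552562) (nat_lit 76) (nat_lit 48372306281) (nat_lit 152) (nat_lit 140154963373) (nat_lit 8) (nat_lit 5) (nat_lit 9) (nat_lit 5) (nat_lit 10) (nat_lit 4) (nat_lit 324) (nat_lit 284) (nat_lit 172))))) (XT.nd (nat_lit 234) (nat_lit 152) (nat_lit 0) (XT.nd (nat_lit 78) (nat_lit 0) (nat_lit 0) (XT.lf (nat_lit 0) (nat_lit 79438635139) (nat_lit 76) (nat_lit 15238826568) (nat_lit 152) (nat_lit 123024899127) (nat_lit 8) (nat_lit 5) (nat_lit 9) (nat_lit 5) (nat_lit 10) (nat_lit 4) (nat_lit 325) (nat_lit 284) (nat_lit 171)) (XT.nd (nat_lit 78) (nat_lit 0) (nat_lit 0) (XT.lf (nat_lit 0) (nat_lit 128305723443) (nat_lit 152) (nat_lit 84474873354) (nat_lit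 0) (nat_lit 19516889931) (nat_lit 8) (nat_lit 5) (nat_lit 10) (nat_lit 4) (nat_lit 8) (nat_lit 4) (nat_lit 326) (nat_lit 284) (nat_lit 170)) (XT.lf (nat_lit 0) (nat_lit 165019221763) (nat_lit 152) (nat_lit 26780263003) (nat_lit 0) (nat_lit 56229140840) (nat_lit 8) (nat_lit 5) (nat_lit 10) (nat_lit 4) (nat_lit 8) (nat_lit 4) (nat_lit 327) (nat_lit 284) (nat_lit 169)))) (XT.nd (nat_lit 156) (nat_lit 76) (nat_lit 0) (XT.nd (nat_lit 78) (nat_lit 0) (nat_lit 0) (XT.lf (nat_lit 0) (nat_lit 37399360996) (nat_lit 76) (nat_lit 168169118528) (nat_lit 76) (nat_lit 59377882594) (nat_lit 7) (nat_lit 4) (nat_lit 8) (nat_lit 5) (nat_lit 8) (nat_lit 4) (nat_lit 328) (nat_lit 284) (nat_lit 168)) (XT.lf (nat_lit 0) (nat_lit 108234985534) (nat_lit 76) (nat_lit 141858160394) (nat_lit 76) (nat_lit 33065855007) (nat_lit 7) (nat_lit 4) (nat_lit 8) (nat_lit 5) (nat_lit 8) (nat_lit 4) (nat_lit 329) (nat_lit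 284) (nat_lit 167))) (XT.nd (nat_lit 78) (nat_lit 76) (nat_lit 0) (XT.lf (nat_lit 0) (nat_lit 184736176085) (nat_lit 76) (nat_lit 113442913425) (nat_lit 76) (nat_lit 4649617803) (nat_lit 7) (nat_lit 4) (nat_lit 8) (nat_lit 5) (nat_lit 8) (nat_lit 4) (nat_lit 330) (nat_lit 284) (nat_lit 166)) (XT.lf (nat_lit 0) (nat_lit 24736634213) (nat_lit 152) (nat_lit 57342013343) (nat_lit 76) (nat_lit 241943295405) (nat_lit 6) (nat_lit 5) (nat_lit 8) (nat_lit 5) (nat_lit 7) (nat_lit 4) (nat_lit 331) (nat_lit 284) (nat_lit 165)))))) (XT.nd (nat_lit 546) (nat_lit 76) (nat_lit 0) (XT.nd (nat_lit 234) (nat_lit 76) (nat_lit 0) (XT.nd (nat_lit 78) (nat_lit 0) (nat_lit 0) (XT.lf (nat_lit 0) (nat_lit 8575630798) (nat_lit 76) (nat_lit 47852586640) (nat_lit 152) (nat_lit 290456308593) (nat_lit 5) (nat_lit 5) (nat_lit 6) (nat_lit 5) (nat_lit 7) (nat_lit 4) (nat_lit 332) (nat_lit 284) (nat_lit 164)) (XT.nd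 (nat_lit 78) (nat_lit 0) (nat_lit 0) (XT.lf (nat_lit 0) (nat_lit 83026672615) (nat_lit 76) (nat_lit 9195692851) (nat_lit 152) (nat_lit 279228371790) (nat_lit 5) (nat_lit 5) (nat_lit 6) (nat_lit 5) (nat_lit 7) (nat_lit 4) (nat_lit 333) (nat_lit 284) (nat_lit 163)) (XT.lf (nat_lit 0) (nat_lit 131662402379) (nat_lit 152) (nat_lit 235332422400) (nat_lit 0) (nat_lit 30924832557) (nat_lit 5) (nat_lit 5) (nat_lit 7) (nat_lit 4) (nat_lit 5) (nat_lit 4) (nat_lit 334) (nat_lit 284) (nat_lit 162)))) (XT.nd (nat_lit 156) (nat_lit 76) (nat_lit 0) (XT.nd (nat_lit 78) (nat_lit 0) (nat_lit 0) (XT.lf (nat_lit 0) (nat_lit 174495971515) (nat_lit 152) (nat_lit 178233275969) (nat_lit 0) (nat_lit 73757777677) (nat_lit 5) (nat_lit 5) (nat_lit 7) (nat_lit 4) (nat_lit 5) (nat_lit 4) (nat_lit 335) (nat_lit 284) (nat_lit 161)) (XT.lf (nat_lit 0) (nat_lit 220755744798) (nat_lit 152) (nat_lit 116567103405) (nat_lit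 0) (nat_lit 120016973168) (nat_lit 5) (nat_lit 5) (nat_lit 7) (nat_lit 4) (nat_lit 5) (nat_lit 4) (nat_lit 336) (nat_lit 284) (nat_lit 160))) (XT.nd (nat_lit 78) (nat_lit 76) (nat_lit 0) (XT.lf (nat_lit 0) (nat_lit 270715854218) (nat_lit 152) (nat_lit 49968475535) (nat_lit 0) (nat_lit 169976547594) (nat_lit 5) (nat_lit 5) (nat_lit 7) (nat_lit 4) (nat_lit 5) (nat_lit 4) (nat_lit 337) (nat_lit 284) (nat_lit 159)) (XT.lf (nat_lit 0) (nat_lit 23113496901) (nat_lit 76) (nat_lit 302114742938) (nat_lit 76) (nat_lit 201374940950) (nat_lit 4) (nat_lit 4) (nat_lit 5) (nat_lit 5) (nat_lit 5) (nat_lit 4) (nat_lit 338) (nat_lit 284) (nat_lit 158))))) (XT.nd (nat_lit 312) (nat_lit 76) (nat_lit 0) (XT.nd (nat_lit 156) (nat_lit 0) (nat_lit 0) (XT.nd (nat_lit 78) (nat_lit 0) (nat_lit 0) (XT.lf (nat_lit 0) (nat_lit 104883021878) (nat_lit 76) (nat_lit 280584420766) (nat_lit 76) (nat_lit 179844160107)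 (nat_lit 4) (nat_lit 4) (nat_lit 5) (nat_lit 5) (nat_lit 5) (nat_lit 4) (nat_lit 339) (nat_lit 284) (nat_lit 157)) (XT.lf (nat_lit 0) (nat_lit 193193408174) (nat_lit 76) (nat_lit 257332002817) (nat_lit 76) (nat_lit 156591317463) (nat_lit 4) (nat_lit 4) (nat_lit 5) (nat_lit 5) (nat_lit 5) (nat_lit 4) (nat_lit 340) (nat_lit 284) (nat_lit 156))) (XT.nd (nat_lit 78) (nat_lit 0) (nat_lit 0) (XT.lf (nat_lit 0) (nat_lit 288567976597) (nat_lit 76) (nat_lit 232219696984) (nat_lit 76) (nat_lit 131478618394) (nat_lit 4) (nat_lit 4) (nat_lit 5) (nat_lit 5) (nat_lit 5) (nat_lit 4) (nat_lit 341) (nat_lit 284) (nat_lit 155)) (XT.lf (nat_lit 0) (nat_lit 391571909775) (nat_lit 76) (nat_lit 205098689602) (nat_lit 76) (nat_lit 104357246905) (nat_lit 4) (nat_lit 4) (nat_lit 5) (nat_lit 5) (nat_lit 5) (nat_lit 4) (nat_lit 342) (nat_lit 284) (nat_lit 154)))) (XT.nd (nat_lit 156) (nat_lit 76) (nat_lit 0)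 (XT.nd (nat_lit 78) (nat_lit 0) (nat_lit 0) (XT.lf (nat_lit 0) (nat_lit 502815601386) (nat_lit 76) (nat_lit 175808263591) (nat_lit 76) (nat_lit 75066483758) (nat_lit 4) (nat_lit 4) (nat_lit 5) (nat_lit 5) (nat_lit 5) (nat_lit 4) (nat_lit 343) (nat_lit 284) (nat_lit 153)) (XT.lf (nat_lit 0) (nat_lit 622958273305) (nat_lit 76) (nat_lit 144174846057) (nat_lit 76) (nat_lit 43432754060) (nat_lit 4) (nat_lit 4) (nat_lit 5) (nat_lit 5) (nat_lit 5) (nat_lit 4) (nat_lit 344) (nat_lit 284) (nat_lit 152))) (XT.nd (nat_lit 78) (nat_lit 76) (nat_lit 0) (XT.lf (nat_lit 0) (nat_lit 752711882107) (nat_lit 76) (nat_lit 110010979710) (nat_lit 76) (nat_lit 9268598672) (nat_lit 4) (nat_lit 4) (nat_lit 5) (nat_lit 5) (nat_lit 5) (nat_lit 4) (nat_lit 345) (nat_lit 284) (nat_lit 151)) (XT.lf (nat_lit 0) (nat_lit 26246350361) (nat_lit 152) (nat_lit 46150239916) (nat_lit 76) (nat_lit 865881365975) (nat_lit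 3) (nat_lit 5) (nat_lit 5) (nat_lit 5) (nat_lit 4) (nat_lit 4) (nat_lit 346) (nat_lit 284) (nat_lit 150))))))) (XT.nd (nat_lit 1092) (nat_lit 0) (nat_lit 0) (XT.nd (nat_lit 546) (nat_lit 0) (nat_lit 0) (XT.nd (nat_lit 234) (nat_lit 0) (nat_lit 0) (XT.nd (nat_lit 78) (nat_lit 0) (nat_lit 0) (XT.lf (nat_lit 0) (nat_lit 34304323278) (nat_lit 76) (nat_lit 30622224679) (nat_lit 152) (nat_lit 944855580652) (nat_lit 2) (nat_lit 5) (nat_lit 3) (nat_lit 5) (nat_lit 4) (nat_lit 4) (nat_lit 347) (nat_lit 284) (nat_lit 149)) (XT.nd (nat_lit 78) (nat_lit 0) (nat_lit 0) (XT.lf (nat_lit 0) (nat_lit 108344128530) (nat_lit 152) (nat_lit 963467612633) (nat_lit 0) (nat_lit 15063456380) (nat_lit 2) (nat_lit 5) (nat_lit 4) (nat_lit 4) (nat_lit 2) (nat_lit 4) (nat_lit 348) (nat_lit 284) (nat_lit 148)) (XT.lf (nat_lit 0) (nat_lit 156030294139) (nat_lit 152) (nat_lit 951292378446) (nat_lit 0) (nat_lit 62749425273)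 (nat_lit 2) (nat_lit 5) (nat_lit 4) (nat_lit 4) (nat_lit 2) (nat_lit 4) (nat_lit 349) (nat_lit 284) (nat_lit 147)))) (XT.nd (nat_lit 156) (nat_lit 0) (nat_lit 0) (XT.nd (nat_lit 78) (nat_lit 0) (nat_lit 0) (XT.lf (nat_lit 0) (nat_lit 207531164228) (nat_lit 152) (nat_lit 938143487995) (nat_lit 0) (nat_lit 114250113218) (nat_lit 2) (nat_lit 5) (nat_lit 4) (nat_lit 4) (nat_lit 2) (nat_lit 4) (nat_lit 350) (nat_lit 284) (nat_lit 146)) (XT.lf (nat_lit 0) (nat_lit 263151929139) (nat_lit 152) (nat_lit 923943021928) (nat_lit 0) (nat_lit 169870709476) (nat_lit 2) (nat_lit 5) (nat_lit 4) (nat_lit 4) (nat_lit 2) (nat_lit 4) (nat_lit 351) (nat_lit 284) (nat_lit 145))) (XT.nd (nat_lit 78) (nat_lit 0) (nat_lit 0) (XT.lf (nat_lit 0) (nat_lit 323222193404) (nat_lit 152) (nat_lit 908606829336) (nat_lit 0) (nat_lit 229940817582) (nat_lit 2) (nat_lit 5) (nat_lit 4) (nat_lit 4) (nat_lit 2) (nat_lit 4)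 (nat_lit 352) (nat_lit 284) (nat_lit 144)) (XT.lf (nat_lit 0) (nat_lit 388097928959) (nat_lit 152) (nat_lit 892044029077) (nat_lit 0) (nat_lit 294816408545) (nat_lit 2) (nat_lit 5) (nat_lit 4) (nat_lit 4) (nat_lit 2) (nat_lit 4) (nat_lit 353) (nat_lit 284) (nat_lit 143))))) (XT.nd (nat_lit 234) (nat_lit 0) (nat_lit 0) (XT.nd (nat_lit 78) (nat_lit 0) (nat_lit 0) (XT.lf (nat_lit 0) (nat_lit 458163584609) (nat_lit 152) (nat_lit 874156471223) (nat_lit 0) (nat_lit 364881930313) (nat_lit 2) (nat_lit 5) (nat_lit 4) (nat_lit 4) (nat_lit 2) (nat_lit 4) (nat_lit 354) (nat_lit 284) (nat_lit 142)) (XT.nd (nat_lit 78) (nat_lit 0) (nat_lit 0) (XT.lf (nat_lit 0) (nat_lit 533834364238) (nat_lit 152) (nat_lit 854838155433) (nat_lit 0) (nat_lit 440552585978) (nat_lit 2) (nat_lit 5) (nat_lit 4) (nat_lit 4) (nat_lit 2) (nat_lit 4) (nat_lit 355) (nat_lit 284) (nat_lit 141)) (XT.lf (nat_lit 0) (nat_lit 615558687281)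 (nat_lit 152) (nat_lit 833974602797) (nat_lit 0) (nat_lit 522276794239) (nat_lit 2) (nat_lit 5) (nat_lit 4) (nat_lit 4) (nat_lit 2) (nat_lit 4) (nat_lit 356) (nat_lit 284) (nat_lit 140)))) (XT.nd (nat_lit 156) (nat_lit 0) (nat_lit 0) (XT.nd (nat_lit 78) (nat_lit 0) (nat_lit 0) (XT.lf (nat_lit 0) (nat_lit 703820846022) (nat_lit 152) (nat_lit 811442177448) (nat_lit 0) (nat_lit 610538846701) (nat_lit 2) (nat_lit 5) (nat_lit 4) (nat_lit 4) (nat_lit 2) (nat_lit 4) (nat_lit 357) (nat_lit 284) (nat_lit 139)) (XT.lf (nat_lit 0) (nat_lit 799143875478) (nat_lit 152) (nat_lit 787107353902) (nat_lit 0) (nat_lit 705861777749) (nat_lit 2) (nat_lit 5) (nat_lit 4) (nat_lit 4) (nat_lit 2) (nat_lit 4) (nat_lit 358) (nat_lit 284) (nat_lit 138))) (XT.nd (nat_lit 78) (nat_lit 0) (nat_lit 0) (XT.lf (nat_lit 0) (nat_lit 902092652858) (nat_lit 152) (nat_lit 760825925798) (nat_lit 0) (nat_lit 808810464012)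 (nat_lit 2) (nat_lit 5) (nat_lit 4) (nat_lit 4) (nat_lit 2) (nat_lit 4) (nat_lit 359) (nat_lit 284) (nat_lit 137)) (XT.lf (nat_lit 0) (nat_lit 1013277244993) (nat_lit 152) (nat_lit 732442151340) (nat_lit 0) (nat_lit 919994971779) (nat_lit 2) (nat_lit 5) (nat_lit 4) (nat_lit 4) (nat_lit 2) (nat_lit 4) (nat_lit 360) (nat_lit 284) (nat_lit 136)))))) (XT.nd (nat_lit 35100) (nat_lit 0) (nat_lit 2280) (XT.nd (nat_lit 34788) (nat_lit 0) (nat_lit 3040) (XT.nd (nat_lit 78) (nat_lit 0) (nat_lit 0) (XT.lf (nat_lit 0) (nat_lit 1133356523539) (nat_lit 152) (nat_lit 701787830382) (nat_lit 0) (nat_lit 1040074172206) (nat_lit 2) (nat_lit 5) (nat_lit 4) (nat_lit 4) (nat_lit 2) (nat_lit 4) (nat_lit 361) (nat_lit 284) (nat_lit 135)) (XT.nd (nat_lit 34632) (nat_lit 0) (nat_lit 3040) (XT.lf (nat_lit 0) (nat_lit 1263042069405) (nat_lit 152) (nat_lit 668681307689) (nat_lit 0) (nat_lit 1169759645741) (nat_lit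 2) (nat_lit 5) (nat_lit 4) (nat_lit 4) (nat_lit 2) (nat_lit 4) (nat_lit 362) (nat_lit 284) (nat_lit 134)) (XT.lf (nat_lit 0) (nat_lit 7239430207) (nat_lit 532) (nat_lit 3398141277) (nat_lit 532) (nat_lit 3398141277) (nat_lit 42) (nat_lit 3) (nat_lit 49) (nat_lit 3) (nat_lit 49) (nat_lit 5) (nat_lit 285) (nat_lit 285) (nat_lit 210)))) (XT.nd (nat_lit 156) (nat_lit 0) (nat_lit 76) (XT.nd (nat_lit 78) (nat_lit 0) (nat_lit 76) (XT.lf (nat_lit 76) (nat_lit 6059259156) (nat_lit 0) (nat_lit 9220053066) (nat_lit 532) (nat_lit 13896982152) (nat_lit 43) (nat_lit 5) (nat_lit 42) (nat_lit 3) (nat_lit 49) (nat_lit 5) (nat_lit 286) (nat_lit 285) (nat_lit 209)) (XT.lf (nat_lit 0) (nat_lit 16418241905) (nat_lit 456) (nat_lit 10126170450) (nat_lit 532) (nat_lit 3803213489) (nat_lit 43) (nat_lit 5) (nat_lit 49) (nat_lit 5) (nat_lit 50) (nat_lit 5) (nat_lit 287) (nat_lit 285) (nat_lit 208))) (XT.nd (nat_lit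 78) (nat_lit 0) (nat_lit 0) (XT.lf (nat_lit 76) (nat_lit 3852539125) (nat_lit 0) (nat_lit 14120860211) (nat_lit 532) (nat_lit 13613281770) (nat_lit 44) (nat_lit 5) (nat_lit 43) (nat_lit 5) (nat_lit 50) (nat_lit 5) (nat_lit 288) (nat_lit 285) (nat_lit 207)) (XT.lf (nat_lit 76) (nat_lit 19520885697) (nat_lit 0) (nat_lit 402339808) (nat_lit 532) (nat_lit 12980039186) (nat_lit 44) (nat_lit 5) (nat_lit 43) (nat_lit 5) (nat_lit 50) (nat_lit 5) (nat_lit 289) (nat_lit 285) (nat_lit 206))))) (XT.nd (nat_lit 312) (nat_lit 532) (nat_lit 0) (XT.nd (nat_lit 156) (nat_lit 380) (nat_lit 0) (XT.nd (nat_lit 78) (nat_lit 0) (nat_lit 0) (XT.lf (nat_lit 76) (nat_lit 1859110539) (nat_lit 0) (nat_lit 20555212260) (nat_lit 532) (nat_lit 11880051946) (nat_lit 45) (nat_lit 5) (nat_lit 44) (nat_lit 5) (nat_lit 51) (nat_lit 5) (nat_lit 290) (nat_lit 285) (nat_lit 205)) (XT.lf (nat_lit 76) (nat_lit 19065341150)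 (nat_lit 0) (nat_lit 6409713283) (nat_lit 532) (nat_lit 10292112359) (nat_lit 45) (nat_lit 5) (nat_lit 44) (nat_lit 5) (nat_lit 51) (nat_lit 5) (nat_lit 291) (nat_lit 285) (nat_lit 204))) (XT.nd (nat_lit 78) (nat_lit 0) (nat_lit 0) (XT.lf (nat_lit 0) (nat_lit 76061374) (nat_lit 456) (nat_lit 28914386381) (nat_lit 532) (nat_lit 8350569561) (nat_lit 39) (nat_lit 5) (nat_lit 45) (nat_lit 5) (nat_lit 46) (nat_lit 5) (nat_lit 292) (nat_lit 285) (nat_lit 203)) (XT.lf (nat_lit 0) (nat_lit 18966125078) (nat_lit 456) (nat_lit 14434868165) (nat_lit 532) (nat_lit 5590686909) (nat_lit 39) (nat_lit 5) (nat_lit 45) (nat_lit 5) (nat_lit 46) (nat_lit 5) (nat_lit 293) (nat_lit 285) (nat_lit 202)))) (XT.nd (nat_lit 156) (nat_lit 228) (nat_lit 0) (XT.nd (nat_lit 78) (nat_lit 304) (nat_lit 0) (XT.lf (nat_lit 0) (nat_lit 38188685757) (nat_lit 532) (nat_lit 1440634764) (nat_lit 76) (nat_lit 1143147826) (nat_lit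 39) (nat_lit 5) (nat_lit 46) (nat_lit 5) (nat_lit 40) (nat_lit 5) (nat_lit 294) (nat_lit 285) (nat_lit 201)) (XT.lf (nat_lit 0) (nat_lit 1484805034) (nat_lit 304) (nat_lit 23453804946) (nat_lit 76) (nat_lit 17687500490) (nat_lit 35) (nat_lit 5) (nat_lit 39) (nat_lit 5) (nat_lit 36) (nat_lit 5) (nat_lit 295) (nat_lit 285) (nat_lit 200))) (XT.nd (nat_lit 78) (nat_lit 228) (nat_lit 0) (XT.lf (nat_lit 0) (nat_lit 5775510960) (nat_lit 304) (nat_lit 3181291576) (nat_lit 76) (nat_lit 35662987895) (nat_lit 35) (nat_lit 5) (nat_lit 39) (nat_lit 5) (nat_lit 36) (nat_lit 5) (nat_lit 296) (nat_lit 285) (nat_lit 199)) (XT.lf (nat_lit 0) (nat_lit 11091232881) (nat_lit 304) (nat_lit 27253337417) (nat_lit 76) (nat_lit 8373865930) (nat_lit 32) (nat_lit 5) (nat_lit 36) (nat_lit 5) (nat_lit 33) (nat_lit 5) (nat_lit 297) (nat_lit 285) (nat_lit 198))))))))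
noncomputable def xc89 : XT := (XT.nd (nat_lit 2262) (nat_lit 456) (nat_lit 0) (XT.nd (nat_lit 1092) (nat_lit 760) (nat_lit 0) (XT.nd (nat_lit 546) (nat_lit 456) (nat_lit 0) (XT.nd (nat_lit 234) (nat_lit 380) (nat_lit 0) (XT.nd (nat_lit 78) (nat_lit 228) (nat_lit 0) (XT.lf (nat_lit 0) (nat_lit 17150400438) (nat_lit 304) (nat_lit 5113132551) (nat_lit 76) (nat_lit 26695996968) (nat_lit 32) (nat_lit 5) (nat_lit 36) (nat_lit 5) (nat_lit 33) (nat_lit 5) (nat_lit 298) (nat_lit 285) (nat_lit 197)) (XT.nd (nat_lit 78) (nat_lit 0) (nat_lit 0) (XT.lf (nat_lit 0) (nat_lit 19783945841) (nat_lit 228) (nat_lit 4382736075) (nat_lit 304) (nat_lit 27175449289) (nat_lit 29) (nat_lit 5) (nat_lit 32) (nat_lit 5) (nat_lit 33) (nat_lit 5) (nat_lit 299) (nat_lit 285) (nat_lit 196)) (XT.lf (nat_lit 0) (nat_lit 32243450611) (nat_lit 304) (nat_lit 7307409595) (nat_lit 76) (nat_lit 14324555257) (nat_lit 29) (nat_lit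 5) (nat_lit 33) (nat_lit 5) (nat_lit 30) (nat_lit 5) (nat_lit 300) (nat_lit 285) (nat_lit 195)))) (XT.nd (nat_lit 156) (nat_lit 228) (nat_lit 0) (XT.nd (nat_lit 78) (nat_lit 0) (nat_lit 0) (XT.lf (nat_lit 0) (nat_lit 19753900392) (nat_lit 152) (nat_lit 21798342447) (nat_lit 228) (nat_lit 15012258031) (nat_lit 27) (nat_lit 5) (nat_lit 29) (nat_lit 5) (nat_lit 30) (nat_lit 5) (nat_lit 301) (nat_lit 285) (nat_lit 194)) (XT.lf (nat_lit 0) (nat_lit 49391931131) (nat_lit 152) (nat_lit 2410702266) (nat_lit 228) (nat_lit 7650336418) (nat_lit 27) (nat_lit 5) (nat_lit 29) (nat_lit 5) (nat_lit 30) (nat_lit 5) (nat_lit 302) (nat_lit 285) (nat_lit 193))) (XT.nd (nat_lit 78) (nat_lit 0) (nat_lit 0) (XT.lf (nat_lit 0) (nat_lit 1217273886) (nat_lit 228) (nat_lit 43183667092) (nat_lit 76) (nat_lit 18096462652) (nat_lit 24) (nat_lit 5) (nat_lit 27) (nat_lit 5) (nat_lit 25) (nat_lit 5) (nat_lit 303) (nat_lit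 285) (nat_lit 192)) (XT.lf (nat_lit 0) (nat_lit 10723156737) (nat_lit 228) (nat_lit 14424923411) (nat_lit 76) (nat_lit 40594047342) (nat_lit 24) (nat_lit 5) (nat_lit 27) (nat_lit 5) (nat_lit 25) (nat_lit 5) (nat_lit 304) (nat_lit 285) (nat_lit 191))))) (XT.nd (nat_lit 234) (nat_lit 152) (nat_lit 0) (XT.nd (nat_lit 78) (nat_lit 152) (nat_lit 0) (XT.lf (nat_lit 0) (nat_lit 17506817444) (nat_lit 152) (nat_lit 3901262912) (nat_lit 228) (nat_lit 47804869396) (nat_lit 22) (nat_lit 5) (nat_lit 24) (nat_lit 5) (nat_lit 25) (nat_lit 5) (nat_lit 305) (nat_lit 285) (nat_lit 190)) (XT.nd (nat_lit 78) (nat_lit 152) (nat_lit 0) (XT.lf (nat_lit 0) (nat_lit 33808093179) (nat_lit 228) (nat_lit 20588261282) (nat_lit 76) (nat_lit 18496265362) (nat_lit 22) (nat_lit 5) (nat_lit 25) (nat_lit 5) (nat_lit 23) (nat_lit 5) (nat_lit 306) (nat_lit 285) (nat_lit 189)) (XT.lf (nat_lit 0) (nat_lit 13594474016) (nat_lit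 152) (nat_lit 34031697307) (nat_lit 228) (nat_lit 29206412267) (nat_lit 20) (nat_lit 5) (nat_lit 22) (nat_lit 5) (nat_lit 23) (nat_lit 5) (nat_lit 307) (nat_lit 285) (nat_lit 188)))) (XT.nd (nat_lit 156) (nat_lit 76) (nat_lit 0) (XT.nd (nat_lit 78) (nat_lit 76) (nat_lit 0) (XT.lf (nat_lit 0) (nat_lit 51679499400) (nat_lit 152) (nat_lit 11430988286) (nat_lit 228) (nat_lit 17932398259) (nat_lit 20) (nat_lit 5) (nat_lit 22) (nat_lit 5) (nat_lit 23) (nat_lit 5) (nat_lit 308) (nat_lit 285) (nat_lit 187)) (XT.lf (nat_lit 0) (nat_lit 7269758809) (nat_lit 76) (nat_lit 73048750389) (nat_lit 152) (nat_lit 5232710992) (nat_lit 19) (nat_lit 5) (nat_lit 20) (nat_lit 5) (nat_lit 21) (nat_lit 4) (nat_lit 309) (nat_lit 285) (nat_lit 186))) (XT.nd (nat_lit 78) (nat_lit 0) (nat_lit 0) (XT.lf (nat_lit 0) (nat_lit 9177235946) (nat_lit 152) (nat_lit 42377424561) (nat_lit 76) (nat_lit 38759752396) (nat_lit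 18) (nat_lit 5) (nat_lit 20) (nat_lit 5) (nat_lit 19) (nat_lit 5) (nat_lit 310) (nat_lit 285) (nat_lit 185)) (XT.lf (nat_lit 0) (nat_lit 24455449746) (nat_lit 152) (nat_lit 3739879013) (nat_lit 76) (nat_lit 67252608799) (nat_lit 18) (nat_lit 5) (nat_lit 20) (nat_lit 5) (nat_lit 19) (nat_lit 5) (nat_lit 311) (nat_lit 285) (nat_lit 184)))))) (XT.nd (nat_lit 546) (nat_lit 304) (nat_lit 0) (XT.nd (nat_lit 234) (nat_lit 228) (nat_lit 0) (XT.nd (nat_lit 78) (nat_lit 76) (nat_lit 0) (XT.lf (nat_lit 0) (nat_lit 39986259993) (nat_lit 152) (nat_lit 1929639888) (nat_lit 228) (nat_lit 58999449263) (nat_lit 16) (nat_lit 5) (nat_lit 18) (nat_lit 5) (nat_lit 19) (nat_lit 5) (nat_lit 312) (nat_lit 285) (nat_lit 183)) (XT.nd (nat_lit 78) (nat_lit 76) (nat_lit 0) (XT.lf (nat_lit 0) (nat_lit 61512262019) (nat_lit 228) (nat_lit 20029993176) (nat_lit 76) (nat_lit 25218775436) (nat_lit 16) (nat_lit 5) (nat_lit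 19) (nat_lit 5) (nat_lit 17) (nat_lit 4) (nat_lit 313) (nat_lit 285) (nat_lit 182)) (XT.lf (nat_lit 0) (nat_lit 25356837117) (nat_lit 76) (nat_lit 57977918793) (nat_lit 152) (nat_lit 29686939733) (nat_lit 15) (nat_lit 5) (nat_lit 16) (nat_lit 5) (nat_lit 17) (nat_lit 4) (nat_lit 314) (nat_lit 285) (nat_lit 181)))) (XT.nd (nat_lit 156) (nat_lit 0) (nat_lit 0) (XT.nd (nat_lit 78) (nat_lit 228) (nat_lit 0) (XT.lf (nat_lit 0) (nat_lit 75511276674) (nat_lit 76) (nat_lit 31937952046) (nat_lit 152) (nat_lit 12290293399) (nat_lit 15) (nat_lit 5) (nat_lit 16) (nat_lit 5) (nat_lit 17) (nat_lit 4) (nat_lit 315) (nat_lit 285) (nat_lit 180)) (XT.lf (nat_lit 0) (nat_lit 2657607312) (nat_lit 152) (nat_lit 3577927772) (nat_lit 228) (nat_lit 120741738671) (nat_lit 12) (nat_lit 5) (nat_lit 14) (nat_lit 5) (nat_lit 15) (nat_lit 5) (nat_lit 316) (nat_lit 285) (nat_lit 179))) (XT.nd (nat_lit 78) (nat_lit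 0) (nat_lit 0) (XT.lf (nat_lit 0) (nat_lit 27469319675) (nat_lit 228) (nat_lit 79891271323) (nat_lit 76) (nat_lit 27256727539) (nat_lit 12) (nat_lit 5) (nat_lit 15) (nat_lit 5) (nat_lit 13) (nat_lit 4) (nat_lit 317) (nat_lit 285) (nat_lit 178)) (XT.lf (nat_lit 0) (nat_lit 50493464013) (nat_lit 228) (nat_lit 32003744166) (nat_lit 76) (nat_lit 60364028088) (nat_lit 12) (nat_lit 5) (nat_lit 15) (nat_lit 5) (nat_lit 13) (nat_lit 4) (nat_lit 318) (nat_lit 285) (nat_lit 177))))) (XT.nd (nat_lit 312) (nat_lit 152) (nat_lit 0) (XT.nd (nat_lit 156) (nat_lit 76) (nat_lit 0) (XT.nd (nat_lit 78) (nat_lit 0) (nat_lit 0) (XT.lf (nat_lit 0) (nat_lit 20750780285) (nat_lit 76) (nat_lit 55106634705) (nat_lit 152) (nat_lit 75867424199) (nat_lit 11) (nat_lit 5) (nat_lit 12) (nat_lit 5) (nat_lit 13) (nat_lit 4) (nat_lit 319) (nat_lit 285) (nat_lit 176)) (XT.lf (nat_lit 0) (nat_lit 79543756753) (nat_lit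 76) (nat_lit 24580622342) (nat_lit 152) (nat_lit 57103241136) (nat_lit 11) (nat_lit 5) (nat_lit 12) (nat_lit 5) (nat_lit 13) (nat_lit 4) (nat_lit 320) (nat_lit 285) (nat_lit 175))) (XT.nd (nat_lit 78) (nat_lit 76) (nat_lit 0) (XT.lf (nat_lit 0) (nat_lit 134853342863) (nat_lit 152) (nat_lit 28654082241) (nat_lit 0) (nat_lit 7967148779) (nat_lit 11) (nat_lit 5) (nat_lit 13) (nat_lit 4) (nat_lit 11) (nat_lit 4) (nat_lit 321) (nat_lit 285) (nat_lit 174)) (XT.lf (nat_lit 0) (nat_lit 29451118612) (nat_lit 76) (nat_lit 139935266335) (nat_lit 76) (nat_lit 13047239395) (nat_lit 10) (nat_lit 4) (nat_lit 11) (nat_lit 5) (nat_lit 11) (nat_lit 4) (nat_lit 322) (nat_lit 285) (nat_lit 173)))) (XT.nd (nat_lit 156) (nat_lit 76) (nat_lit 0) (XT.nd (nat_lit 78) (nat_lit 0) (nat_lit 0) (XT.lf (nat_lit 0) (nat_lit 12594551722) (nat_lit 152) (nat_lit 100693056446) (nat_lit 76) (nat_lit 80893684898) (nat_lit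 9) (nat_lit 5) (nat_lit 11) (nat_lit 5) (nat_lit 10) (nat_lit 4) (nat_lit 323) (nat_lit 285) (nat_lit 172)) (XT.lf (nat_lit 0) (nat_lit 39581879127) (nat_lit 152) (nat_lit 44560986822) (nat_lit 76) (nat_lit 122698872689) (nat_lit 9) (nat_lit 5) (nat_lit 11) (nat_lit 5) (nat_lit 10) (nat_lit 4) (nat_lit 324) (nat_lit 285) (nat_lit 171))) (XT.nd (nat_lit 78) (nat_lit 0) (nat_lit 0) (XT.lf (nat_lit 0) (nat_lit 16905821719) (nat_lit 76) (nat_lit 52228107178) (nat_lit 152) (nat_lit 151348633106) (nat_lit 8) (nat_lit 5) (nat_lit 9) (nat_lit 5) (nat_lit 10) (nat_lit 4) (nat_lit 325) (nat_lit 285) (nat_lit 170)) (XT.lf (nat_lit 0) (nat_lit 85822712018) (nat_lit 76) (nat_lit 16444984910) (nat_lit 152) (nat_lit 132849550929) (nat_lit 8) (nat_lit 5) (nat_lit 9) (nat_lit 5) (nat_lit 10) (nat_lit 4) (nat_lit 326) (nat_lit 285) (nat_lit 169))))))) (XT.nd (nat_lit 1170) (nat_lit 152) (nat_lit 0) (XT.nd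 (nat_lit 546) (nat_lit 76) (nat_lit 0) (XT.nd (nat_lit 234) (nat_lit 152) (nat_lit 0) (XT.nd (nat_lit 78) (nat_lit 76) (nat_lit 0) (XT.lf (nat_lit 0) (nat_lit 138585319910) (nat_lit 152) (nat_lit 91205107189) (nat_lit 0) (nat_lit 21089630091) (nat_lit 8) (nat_lit 5) (nat_lit 10) (nat_lit 4) (nat_lit 8) (nat_lit 4) (nat_lit 327) (nat_lit 285) (nat_lit 168)) (XT.nd (nat_lit 78) (nat_lit 76) (nat_lit 0) (XT.lf (nat_lit 0) (nat_lit 178234776718) (nat_lit 152) (nat_lit 28896984012) (nat_lit 0) (nat_lit 60738017445) (nat_lit 8) (nat_lit 5) (nat_lit 10) (nat_lit 4) (nat_lit 8) (nat_lit 4) (nat_lit 328) (nat_lit 285) (nat_lit 167)) (XT.lf (nat_lit 0) (nat_lit 40416359273) (nat_lit 76) (nat_lit 181611179953) (nat_lit 76) (nat_lit 64113430446) (nat_lit 7) (nat_lit 4) (nat_lit 8) (nat_lit 5) (nat_lit 8) (nat_lit 4) (nat_lit 329) (nat_lit 285) (nat_lit 166)))) (XT.nd (nat_lit 156) (nat_lit 152)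 (nat_lit 0) (XT.nd (nat_lit 78) (nat_lit 0) (nat_lit 0) (XT.lf (nat_lit 0) (nat_lit 116916978263) (nat_lit 76) (nat_lit 153196194655) (nat_lit 76) (nat_lit 35697528262) (nat_lit 7) (nat_lit 4) (nat_lit 8) (nat_lit 5) (nat_lit 8) (nat_lit 4) (nat_lit 330) (nat_lit 285) (nat_lit 165)) (XT.lf (nat_lit 0) (nat_lit 199536545992) (nat_lit 76) (nat_lit 122508514489) (nat_lit 76) (nat_lit 5008999130) (nat_lit 7) (nat_lit 4) (nat_lit 8) (nat_lit 5) (nat_lit 8) (nat_lit 4) (nat_lit 331) (nat_lit 285) (nat_lit 164))) (XT.nd (nat_lit 78) (nat_lit 76) (nat_lit 0) (XT.lf (nat_lit 0) (nat_lit 26726637533) (nat_lit 152) (nat_lit 61908895371) (nat_lit 76) (nat_lit 261307268730) (nat_lit 6) (nat_lit 5) (nat_lit 8) (nat_lit 5) (nat_lit 7) (nat_lit 4) (nat_lit 332) (nat_lit 285) (nat_lit 163)) (XT.lf (nat_lit 0) (nat_lit 9281641845) (nat_lit 76) (nat_lit 51671565432) (nat_lit 152) (nat_lit 313681212094)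 (nat_lit 5) (nat_lit 5) (nat_lit 6) (nat_lit 5) (nat_lit 7) (nat_lit 4) (nat_lit 333) (nat_lit 285) (nat_lit 162))))) (XT.nd (nat_lit 312) (nat_lit 76) (nat_lit 0) (XT.nd (nat_lit 156) (nat_lit 0) (nat_lit 0) (XT.nd (nat_lit 78) (nat_lit 0) (nat_lit 0) (XT.lf (nat_lit 0) (nat_lit 89687288446) (nat_lit 76) (nat_lit 9922803705) (nat_lit 152) (nat_lit 301555899694) (nat_lit 5) (nat_lit 5) (nat_lit 6) (nat_lit 5) (nat_lit 7) (nat_lit 4) (nat_lit 334) (nat_lit 285) (nat_lit 161)) (XT.lf (nat_lit 0) (nat_lit 142204786185) (nat_lit 152) (nat_lit 254141348677) (nat_lit 0) (nat_lit 33406335031) (nat_lit 5) (nat_lit 5) (nat_lit 7) (nat_lit 4) (nat_lit 5) (nat_lit 4) (nat_lit 335) (nat_lit 285) (nat_lit 160))) (XT.nd (nat_lit 78) (nat_lit 0) (nat_lit 0) (XT.lf (nat_lit 0) (nat_lit 188464345177) (nat_lit 152) (nat_lit 192475579237) (nat_lit 0) (nat_lit 79665359030) (nat_lit 5) (nat_lit 5) (nat_lit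 7) (nat_lit 4) (nat_lit 5) (nat_lit 4) (nat_lit 336) (nat_lit 285) (nat_lit 159)) (XT.lf (nat_lit 0) (nat_lit 238424256179) (nat_lit 152) (nat_lit 125877324631) (nat_lit 0) (nat_lit 129624774668) (nat_lit 5) (nat_lit 5) (nat_lit 7) (nat_lit 4) (nat_lit 5) (nat_lit 4) (nat_lit 337) (nat_lit 285) (nat_lit 158)))) (XT.nd (nat_lit 156) (nat_lit 0) (nat_lit 0) (XT.nd (nat_lit 78) (nat_lit 76) (nat_lit 0) (XT.lf (nat_lit 0) (nat_lit 292380577923) (nat_lit 152) (nat_lit 53951928535) (nat_lit 0) (nat_lit 183580637741) (nat_lit 5) (nat_lit 5) (nat_lit 7) (nat_lit 4) (nat_lit 5) (nat_lit 4) (nat_lit 338) (nat_lit 285) (nat_lit 157)) (XT.lf (nat_lit 0) (nat_lit 24976246631) (nat_lit 76) (nat_lit 326277484276) (nat_lit 76) (nat_lit 217477119399) (nat_lit 4) (nat_lit 4) (nat_lit 5) (nat_lit 5) (nat_lit 5) (nat_lit 4) (nat_lit 339) (nat_lit 285) (nat_lit 156))) (XT.nd (nat_lit 78) (nat_lit 0) (nat_lit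 0) (XT.lf (nat_lit 0) (nat_lit 113286321015) (nat_lit 76) (nat_lit 303025213227) (nat_lit 76) (nat_lit 194224455114) (nat_lit 4) (nat_lit 4) (nat_lit 5) (nat_lit 5) (nat_lit 5) (nat_lit 4) (nat_lit 340) (nat_lit 285) (nat_lit 155)) (XT.lf (nat_lit 0) (nat_lit 208660600631) (nat_lit 76) (nat_lit 277913043412) (nat_lit 76) (nat_lit 169111921192) (nat_lit 4) (nat_lit 4) (nat_lit 5) (nat_lit 5) (nat_lit 5) (nat_lit 4) (nat_lit 341) (nat_lit 285) (nat_lit 154)))))) (XT.nd (nat_lit 546) (nat_lit 0) (nat_lit 0) (XT.nd (nat_lit 234) (nat_lit 152) (nat_lit 0) (XT.nd (nat_lit 78) (nat_lit 0) (nat_lit 0) (XT.lf (nat_lit 0) (nat_lit 311664266395) (nat_lit 76) (nat_lit 250792161974) (nat_lit 76) (nat_lit 141990702617) (nat_lit 4) (nat_lit 4) (nat_lit 5) (nat_lit 5) (nat_lit 5) (nat_lit 4) (nat_lit 342) (nat_lit 285) (nat_lit 153)) (XT.nd (nat_lit 78) (nat_lit 0) (nat_lit 0) (XT.lf (nat_lit 0) (nat_lit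 422907710399) (nat_lit 76) (nat_lit 221501852577) (nat_lit 76) (nat_lit 112700081057) (nat_lit 4) (nat_lit 4) (nat_lit 5) (nat_lit 5) (nat_lit 5) (nat_lit 4) (nat_lit 343) (nat_lit 285) (nat_lit 152)) (XT.lf (nat_lit 0) (nat_lit 543050153054) (nat_lit 76) (nat_lit 189868543019) (nat_lit 76) (nat_lit 81066482458) (nat_lit 4) (nat_lit 4) (nat_lit 5) (nat_lit 5) (nat_lit 5) (nat_lit 4) (nat_lit 344) (nat_lit 285) (nat_lit 151)))) (XT.nd (nat_lit 156) (nat_lit 152) (nat_lit 0) (XT.nd (nat_lit 78) (nat_lit 0) (nat_lit 0) (XT.lf (nat_lit 0) (nat_lit 672803549574) (nat_lit 76) (nat_lit 155704776649) (nat_lit 76) (nat_lit 46902448458) (nat_lit 4) (nat_lit 4) (nat_lit 5) (nat_lit 5) (nat_lit 5) (nat_lit 4) (nat_lit 345) (nat_lit 285) (nat_lit 150)) (XT.lf (nat_lit 0) (nat_lit 812936808977) (nat_lit 76) (nat_lit 118808101519) (nat_lit 76) (nat_lit 10005525523) (nat_lit 4) (nat_lit 4) (nat_lit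 5) (nat_lit 5) (nat_lit 5) (nat_lit 4) (nat_lit 346) (nat_lit 285) (nat_lit 149))) (XT.nd (nat_lit 78) (nat_lit 76) (nat_lit 0) (XT.lf (nat_lit 0) (nat_lit 28350070317) (nat_lit 152) (nat_lit 49834659185) (nat_lit 76) (nat_lit 935155139096) (nat_lit 3) (nat_lit 5) (nat_lit 5) (nat_lit 5) (nat_lit 4) (nat_lit 4) (nat_lit 347) (nat_lit 285) (nat_lit 148)) (XT.lf (nat_lit 0) (nat_lit 37056076660) (nat_lit 76) (nat_lit 33068488031) (nat_lit 152) (nat_lit 1020439819812) (nat_lit 2) (nat_lit 5) (nat_lit 3) (nat_lit 5) (nat_lit 4) (nat_lit 4) (nat_lit 348) (nat_lit 285) (nat_lit 147))))) (XT.nd (nat_lit 312) (nat_lit 0) (nat_lit 0) (XT.nd (nat_lit 156) (nat_lit 0) (nat_lit 0) (XT.nd (nat_lit 78) (nat_lit 0) (nat_lit 0) (XT.lf (nat_lit 0) (nat_lit 117015341614) (nat_lit 152) (nat_lit 1040537949989) (nat_lit 0) (nat_lit 16271624378) (nat_lit 2) (nat_lit 5) (nat_lit 4) (nat_lit 4) (nat_lit 2)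 (nat_lit 4) (nat_lit 349) (nat_lit 285) (nat_lit 146)) (XT.lf (nat_lit 0) (nat_lit 168516127671) (nat_lit 152) (nat_lit 1027389220894) (nat_lit 0) (nat_lit 67772241784) (nat_lit 2) (nat_lit 5) (nat_lit 4) (nat_lit 4) (nat_lit 2) (nat_lit 4) (nat_lit 350) (nat_lit 285) (nat_lit 145))) (XT.nd (nat_lit 78) (nat_lit 0) (nat_lit 0) (XT.lf (nat_lit 0) (nat_lit 224136814775) (nat_lit 152) (nat_lit 1013188904231) (nat_lit 0) (nat_lit 123392772728) (nat_lit 2) (nat_lit 5) (nat_lit 4) (nat_lit 4) (nat_lit 2) (nat_lit 4) (nat_lit 351) (nat_lit 285) (nat_lit 144)) (XT.lf (nat_lit 0) (nat_lit 284207006996) (nat_lit 152) (nat_lit 997852849975) (nat_lit 0) (nat_lit 183462820357) (nat_lit 2) (nat_lit 5) (nat_lit 4) (nat_lit 4) (nat_lit 2) (nat_lit 4) (nat_lit 352) (nat_lit 285) (nat_lit 143)))) (XT.nd (nat_lit 156) (nat_lit 0) (nat_lit 0) (XT.nd (nat_lit 78) (nat_lit 0) (nat_lit 0) (XT.lf (nat_lit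 0) (nat_lit 349082675845) (nat_lit 152) (nat_lit 981290177806) (nat_lit 0) (nat_lit 248338355324) (nat_lit 2) (nat_lit 5) (nat_lit 4) (nat_lit 4) (nat_lit 2) (nat_lit 4) (nat_lit 353) (nat_lit 285) (nat_lit 142)) (XT.lf (nat_lit 0) (nat_lit 419148269729) (nat_lit 152) (nat_lit 963402738554) (nat_lit 0) (nat_lit 318403825243) (nat_lit 2) (nat_lit 5) (nat_lit 4) (nat_lit 4) (nat_lit 2) (nat_lit 4) (nat_lit 354) (nat_lit 285) (nat_lit 141))) (XT.nd (nat_lit 78) (nat_lit 0) (nat_lit 0) (XT.lf (nat_lit 0) (nat_lit 494818992167) (nat_lit 152) (nat_lit 944084532579) (nat_lit 0) (nat_lit 394074432900) (nat_lit 2) (nat_lit 5) (nat_lit 4) (nat_lit 4) (nat_lit 2) (nat_lit 4) (nat_lit 355) (nat_lit 285) (nat_lit 140)) (XT.lf (nat_lit 0) (nat_lit 576543262256) (nat_lit 152) (nat_lit 923221081625) (nat_lit 0) (nat_lit 475798596709) (nat_lit 2) (nat_lit 5) (nat_lit 4) (nat_lit 4) (nat_lit 2) (nat_lit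 4) (nat_lit 356) (nat_lit 285) (nat_lit 139))))))))
noncomputable def xc90 : XT := (XT.nd (nat_lit 36894) (nat_lit 0) (nat_lit 228) (XT.nd (nat_lit 35724) (nat_lit 0) (nat_lit 1368) (XT.nd (nat_lit 35178) (nat_lit 0) (nat_lit 2812) (XT.nd (nat_lit 234) (nat_lit 0) (nat_lit 0) (XT.nd (nat_lit 78) (nat_lit 0) (nat_lit 0) (XT.lf (nat_lit 0) (nat_lit 664805371966) (nat_lit 152) (nat_lit 900688750426) (nat_lit 0) (nat_lit 564060608012) (nat_lit 2) (nat_lit 5) (nat_lit 4) (nat_lit 4) (nat_lit 2) (nat_lit 4) (nat_lit 357) (nat_lit 285) (nat_lit 138)) (XT.nd (nat_lit 78) (nat_lit 0) (nat_lit 0) (XT.lf (nat_lit 0) (nat_lit 760128356021) (nat_lit 152) (nat_lit 876354014056) (nat_lit 0) (nat_lit 659383500950) (nat_lit 2) (nat_lit 5) (nat_lit 4) (nat_lit 4) (nat_lit 2) (nat_lit 4) (nat_lit 358) (nat_lit 285) (nat_lit 137)) (XT.lf (nat_lit 0) (nat_lit 863077091365) (nat_lit 152) (nat_lit 850072666670)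 (nat_lit 0) (nat_lit 762332151926) (nat_lit 2) (nat_lit 5) (nat_lit 4) (nat_lit 4) (nat_lit 2) (nat_lit 4) (nat_lit 359) (nat_lit 285) (nat_lit 136)))) (XT.nd (nat_lit 156) (nat_lit 0) (nat_lit 0) (XT.nd (nat_lit 78) (nat_lit 0) (nat_lit 0) (XT.lf (nat_lit 0) (nat_lit 974261644577) (nat_lit 152) (nat_lit 821688966950) (nat_lit 0) (nat_lit 873516627019) (nat_lit 2) (nat_lit 5) (nat_lit 4) (nat_lit 4) (nat_lit 2) (nat_lit 4) (nat_lit 360) (nat_lit 285) (nat_lit 135)) (XT.lf (nat_lit 0) (nat_lit 1094340887083) (nat_lit 152) (nat_lit 791034715196) (nat_lit 0) (nat_lit 993595797193) (nat_lit 2) (nat_lit 5) (nat_lit 4) (nat_lit 4) (nat_lit 2) (nat_lit 4) (nat_lit 361) (nat_lit 285) (nat_lit 134))) (XT.nd (nat_lit 34710) (nat_lit 0) (nat_lit 3040) (XT.lf (nat_lit 0) (nat_lit 1224026399580) (nat_lit 152) (nat_lit 757928256580) (nat_lit 0) (nat_lit 1123281242716) (nat_lit 2) (nat_lit 5) (nat_lit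 4) (nat_lit 4) (nat_lit 2) (nat_lit 4) (nat_lit 362) (nat_lit 285) (nat_lit 133)) (XT.lf (nat_lit 0) (nat_lit 7892339176) (nat_lit 532) (nat_lit 3630026350) (nat_lit 532) (nat_lit 3630026350) (nat_lit 42) (nat_lit 3) (nat_lit 49) (nat_lit 3) (nat_lit 49) (nat_lit 5) (nat_lit 286) (nat_lit 286) (nat_lit 208))))) (XT.nd (nat_lit 234) (nat_lit 228) (nat_lit 0) (XT.nd (nat_lit 78) (nat_lit 0) (nat_lit 76) (XT.lf (nat_lit 76) (nat_lit 6621908740) (nat_lit 0) (nat_lit 10018204674) (nat_lit 532) (nat_lit 14858694047) (nat_lit 43) (nat_lit 5) (nat_lit 42) (nat_lit 3) (nat_lit 49) (nat_lit 5) (nat_lit 287) (nat_lit 286) (nat_lit 207)) (XT.nd (nat_lit 78) (nat_lit 0) (nat_lit 0) (XT.lf (nat_lit 0) (nat_lit 17858553154) (nat_lit 456) (nat_lit 10852046050) (nat_lit 532) (nat_lit 4054212662) (nat_lit 43) (nat_lit 5) (nat_lit 49) (nat_lit 5) (nat_lit 50) (nat_lit 5) (nat_lit 288) (nat_lit 286) (nat_lit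 206)) (XT.lf (nat_lit 76) (nat_lit 4242828190) (nat_lit 0) (nat_lit 15287872722) (nat_lit 532) (nat_lit 14572919670) (nat_lit 44) (nat_lit 5) (nat_lit 43) (nat_lit 5) (nat_lit 50) (nat_lit 5) (nat_lit 289) (nat_lit 286) (nat_lit 205)))) (XT.nd (nat_lit 156) (nat_lit 304) (nat_lit 0) (XT.nd (nat_lit 78) (nat_lit 0) (nat_lit 76) (XT.lf (nat_lit 76) (nat_lit 21158562048) (nat_lit 0) (nat_lit 469104487) (nat_lit 532) (nat_lit 13898604690) (nat_lit 44) (nat_lit 5) (nat_lit 43) (nat_lit 5) (nat_lit 50) (nat_lit 5) (nat_lit 290) (nat_lit 286) (nat_lit 204)) (XT.lf (nat_lit 76) (nat_lit 2091751571) (nat_lit 0) (nat_lit 22219356809) (nat_lit 532) (nat_lit 12718147385) (nat_lit 45) (nat_lit 5) (nat_lit 44) (nat_lit 5) (nat_lit 51) (nat_lit 5) (nat_lit 291) (nat_lit 286) (nat_lit 203))) (XT.nd (nat_lit 78) (nat_lit 380) (nat_lit 0) (XT.lf (nat_lit 76) (nat_lit 20668264913) (nat_lit 0) (nat_lit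 6940756613) (nat_lit 532) (nat_lit 11011491795) (nat_lit 45) (nat_lit 5) (nat_lit 44) (nat_lit 5) (nat_lit 51) (nat_lit 5) (nat_lit 292) (nat_lit 286) (nat_lit 202)) (XT.lf (nat_lit 0) (nat_lit 166127543) (nat_lit 456) (nat_lit 31234023407) (nat_lit 532) (nat_lit 8920586475) (nat_lit 39) (nat_lit 5) (nat_lit 45) (nat_lit 5) (nat_lit 46) (nat_lit 5) (nat_lit 293) (nat_lit 286) (nat_lit 201)))))) (XT.nd (nat_lit 546) (nat_lit 684) (nat_lit 0) (XT.nd (nat_lit 234) (nat_lit 456) (nat_lit 0) (XT.nd (nat_lit 78) (nat_lit 304) (nat_lit 0) (XT.lf (nat_lit 0) (nat_lit 20561175510) (nat_lit 456) (nat_lit 15595663281) (nat_lit 532) (nat_lit 5947174593) (nat_lit 39) (nat_lit 5) (nat_lit 45) (nat_lit 5) (nat_lit 46) (nat_lit 5) (nat_lit 294) (nat_lit 286) (nat_lit 200)) (XT.nd (nat_lit 78) (nat_lit 304) (nat_lit 0) (XT.lf (nat_lit 0) (nat_lit 41321208073) (nat_lit 532) (nat_lit 1477268839) (nat_lit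 76) (nat_lit 1229317027) (nat_lit 39) (nat_lit 5) (nat_lit 46) (nat_lit 5) (nat_lit 40) (nat_lit 5) (nat_lit 295) (nat_lit 286) (nat_lit 199)) (XT.lf (nat_lit 0) (nat_lit 1679278640) (nat_lit 304) (nat_lit 25249259207) (nat_lit 76) (nat_lit 19101368259) (nat_lit 35) (nat_lit 5) (nat_lit 39) (nat_lit 5) (nat_lit 36) (nat_lit 5) (nat_lit 296) (nat_lit 286) (nat_lit 198)))) (XT.nd (nat_lit 156) (nat_lit 228) (nat_lit 0) (XT.nd (nat_lit 78) (nat_lit 228) (nat_lit 0) (XT.lf (nat_lit 0) (nat_lit 6307634432) (nat_lit 304) (nat_lit 3360933666) (nat_lit 76) (nat_lit 38514978528) (nat_lit 35) (nat_lit 5) (nat_lit 39) (nat_lit 5) (nat_lit 36) (nat_lit 5) (nat_lit 297) (nat_lit 286) (nat_lit 197)) (XT.lf (nat_lit 0) (nat_lit 12045329631) (nat_lit 304) (nat_lit 29355254597) (nat_lit 76) (nat_lit 9049778946) (nat_lit 32) (nat_lit 5) (nat_lit 36) (nat_lit 5) (nat_lit 33) (nat_lit 5) (nat_lit 298)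 (nat_lit 286) (nat_lit 196))) (XT.nd (nat_lit 78) (nat_lit 228) (nat_lit 0) (XT.lf (nat_lit 0) (nat_lit 18584282584) (nat_lit 304) (nat_lit 5449637031) (nat_lit 76) (nat_lit 28837235746) (nat_lit 32) (nat_lit 5) (nat_lit 36) (nat_lit 5) (nat_lit 33) (nat_lit 5) (nat_lit 299) (nat_lit 286) (nat_lit 195)) (XT.lf (nat_lit 0) (nat_lit 21437371022) (nat_lit 228) (nat_lit 4721614635) (nat_lit 304) (nat_lit 29285623525) (nat_lit 29) (nat_lit 5) (nat_lit 32) (nat_lit 5) (nat_lit 33) (nat_lit 5) (nat_lit 300) (nat_lit 286) (nat_lit 194))))) (XT.nd (nat_lit 312) (nat_lit 304) (nat_lit 0) (XT.nd (nat_lit 156) (nat_lit 228) (nat_lit 0) (XT.nd (nat_lit 78) (nat_lit 152) (nat_lit 0) (XT.lf (nat_lit 0) (nat_lit 34877789199) (nat_lit 304) (nat_lit 7822261920) (nat_lit 76) (nat_lit 15480846556) (nat_lit 29) (nat_lit 5) (nat_lit 33) (nat_lit 5) (nat_lit 30) (nat_lit 5) (nat_lit 301) (nat_lit 286) (nat_lit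 193)) (XT.lf (nat_lit 0) (nat_lit 21402187286) (nat_lit 152) (nat_lit 23526668424) (nat_lit 228) (nat_lit 16156460532) (nat_lit 27) (nat_lit 5) (nat_lit 29) (nat_lit 5) (nat_lit 30) (nat_lit 5) (nat_lit 302) (nat_lit 286) (nat_lit 192))) (XT.nd (nat_lit 78) (nat_lit 228) (nat_lit 0) (XT.lf (nat_lit 0) (nat_lit 53406225309) (nat_lit 152) (nat_lit 2589168245) (nat_lit 228) (nat_lit 8209790979) (nat_lit 27) (nat_lit 5) (nat_lit 29) (nat_lit 5) (nat_lit 30) (nat_lit 5) (nat_lit 303) (nat_lit 286) (nat_lit 191)) (XT.lf (nat_lit 0) (nat_lit 1362829725) (nat_lit 228) (nat_lit 46570774636) (nat_lit 76) (nat_lit 19559618552) (nat_lit 24) (nat_lit 5) (nat_lit 27) (nat_lit 5) (nat_lit 25) (nat_lit 5) (nat_lit 304) (nat_lit 286) (nat_lit 190)))) (XT.nd (nat_lit 156) (nat_lit 152) (nat_lit 0) (XT.nd (nat_lit 78) (nat_lit 152) (nat_lit 0) (XT.lf (nat_lit 0) (nat_lit 11625614766) (nat_lit 228) (nat_lit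 15516337818) (nat_lit 76) (nat_lit 43855866397) (nat_lit 24) (nat_lit 5) (nat_lit 27) (nat_lit 5) (nat_lit 25) (nat_lit 5) (nat_lit 305) (nat_lit 286) (nat_lit 189)) (XT.lf (nat_lit 0) (nat_lit 18968358015) (nat_lit 152) (nat_lit 4195137084) (nat_lit 228) (nat_lit 51582967066) (nat_lit 22) (nat_lit 5) (nat_lit 24) (nat_lit 5) (nat_lit 25) (nat_lit 5) (nat_lit 306) (nat_lit 286) (nat_lit 188))) (XT.nd (nat_lit 78) (nat_lit 152) (nat_lit 0) (XT.lf (nat_lit 0) (nat_lit 36552746810) (nat_lit 228) (nat_lit 22175988494) (nat_lit 76) (nat_lit 19991999072) (nat_lit 22) (nat_lit 5) (nat_lit 25) (nat_lit 5) (nat_lit 23) (nat_lit 5) (nat_lit 307) (nat_lit 286) (nat_lit 187)) (XT.lf (nat_lit 0) (nat_lit 14739863509) (nat_lit 152) (nat_lit 36734835126) (nat_lit 228) (nat_lit 31501329417) (nat_lit 20) (nat_lit 5) (nat_lit 22) (nat_lit 5) (nat_lit 23) (nat_lit 5) (nat_lit 308) (nat_lit 286) (nat_lit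 186))))))) (XT.nd (nat_lit 1170) (nat_lit 380) (nat_lit 0) (XT.nd (nat_lit 546) (nat_lit 380) (nat_lit 0) (XT.nd (nat_lit 234) (nat_lit 228) (nat_lit 0) (XT.nd (nat_lit 78) (nat_lit 152) (nat_lit 0) (XT.lf (nat_lit 0) (nat_lit 55867407104) (nat_lit 152) (nat_lit 12327506270) (nat_lit 228) (nat_lit 19328475461) (nat_lit 20) (nat_lit 5) (nat_lit 22) (nat_lit 5) (nat_lit 23) (nat_lit 5) (nat_lit 309) (nat_lit 286) (nat_lit 185)) (XT.nd (nat_lit 78) (nat_lit 76) (nat_lit 0) (XT.lf (nat_lit 0) (nat_lit 7905964458) (nat_lit 76) (nat_lit 78872689797) (nat_lit 152) (nat_lit 5613815356) (nat_lit 19) (nat_lit 5) (nat_lit 20) (nat_lit 5) (nat_lit 21) (nat_lit 4) (nat_lit 310) (nat_lit 286) (nat_lit 184)) (XT.lf (nat_lit 0) (nat_lit 9944411106) (nat_lit 152) (nat_lit 45715238007) (nat_lit 76) (nat_lit 41877212778) (nat_lit 18) (nat_lit 5) (nat_lit 20) (nat_lit 5) (nat_lit 19) (nat_lit 5) (nat_lit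 311) (nat_lit 286) (nat_lit 183)))) (XT.nd (nat_lit 156) (nat_lit 76) (nat_lit 0) (XT.nd (nat_lit 78) (nat_lit 152) (nat_lit 0) (XT.lf (nat_lit 0) (nat_lit 26442437841) (nat_lit 152) (nat_lit 3990568853) (nat_lit 76) (nat_lit 72648262124) (nat_lit 18) (nat_lit 5) (nat_lit 20) (nat_lit 5) (nat_lit 19) (nat_lit 5) (nat_lit 312) (nat_lit 286) (nat_lit 182)) (XT.lf (nat_lit 0) (nat_lit 43232433413) (nat_lit 152) (nat_lit 2066164362) (nat_lit 228) (nat_lit 63687570066) (nat_lit 16) (nat_lit 5) (nat_lit 18) (nat_lit 5) (nat_lit 19) (nat_lit 5) (nat_lit 313) (nat_lit 286) (nat_lit 181))) (XT.nd (nat_lit 78) (nat_lit 76) (nat_lit 0) (XT.lf (nat_lit 0) (nat_lit 66460886608) (nat_lit 228) (nat_lit 21586788332) (nat_lit 76) (nat_lit 27251975575) (nat_lit 16) (nat_lit 5) (nat_lit 19) (nat_lit 5) (nat_lit 17) (nat_lit 4) (nat_lit 314) (nat_lit 286) (nat_lit 180)) (XT.lf (nat_lit 0) (nat_lit 27429833845)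 (nat_lit 76) (nat_lit 62598367506) (nat_lit 152) (nat_lit 32033049452) (nat_lit 15) (nat_lit 5) (nat_lit 16) (nat_lit 5) (nat_lit 17) (nat_lit 4) (nat_lit 315) (nat_lit 286) (nat_lit 179))))) (XT.nd (nat_lit 312) (nat_lit 152) (nat_lit 0) (XT.nd (nat_lit 156) (nat_lit 0) (nat_lit 0) (XT.nd (nat_lit 78) (nat_lit 228) (nat_lit 0) (XT.lf (nat_lit 0) (nat_lit 81593335992) (nat_lit 76) (nat_lit 34476520811) (nat_lit 152) (nat_lit 13246808112) (nat_lit 15) (nat_lit 5) (nat_lit 16) (nat_lit 5) (nat_lit 17) (nat_lit 4) (nat_lit 316) (nat_lit 286) (nat_lit 178)) (XT.lf (nat_lit 0) (nat_lit 2911672902) (nat_lit 152) (nat_lit 3847195252) (nat_lit 228) (nat_lit 130374590738) (nat_lit 12) (nat_lit 5) (nat_lit 14) (nat_lit 5) (nat_lit 15) (nat_lit 5) (nat_lit 317) (nat_lit 286) (nat_lit 177))) (XT.nd (nat_lit 78) (nat_lit 0) (nat_lit 0) (XT.lf (nat_lit 0) (nat_lit 29689919243) (nat_lit 228) (nat_lit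 86242715882) (nat_lit 76) (nat_lit 29452189814) (nat_lit 12) (nat_lit 5) (nat_lit 15) (nat_lit 5) (nat_lit 13) (nat_lit 4) (nat_lit 318) (nat_lit 286) (nat_lit 176)) (XT.lf (nat_lit 0) (nat_lit 54554287425) (nat_lit 228) (nat_lit 34527138933) (nat_lit 76) (nat_lit 65206968919) (nat_lit 12) (nat_lit 5) (nat_lit 15) (nat_lit 5) (nat_lit 13) (nat_lit 4) (nat_lit 319) (nat_lit 286) (nat_lit 175)))) (XT.nd (nat_lit 156) (nat_lit 76) (nat_lit 0) (XT.nd (nat_lit 78) (nat_lit 0) (nat_lit 0) (XT.lf (nat_lit 0) (nat_lit 22446813176) (nat_lit 76) (nat_lit 59499825188) (nat_lit 152) (nat_lit 81914507744) (nat_lit 11) (nat_lit 5) (nat_lit 12) (nat_lit 5) (nat_lit 13) (nat_lit 4) (nat_lit 320) (nat_lit 286) (nat_lit 174)) (XT.lf (nat_lit 0) (nat_lit 85940563282) (nat_lit 76) (nat_lit 26532868155) (nat_lit 152) (nat_lit 61650842657) (nat_lit 11) (nat_lit 5) (nat_lit 12) (nat_lit 5) (nat_lit 13) (nat_lit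 4) (nat_lit 321) (nat_lit 286) (nat_lit 173))) (XT.nd (nat_lit 78) (nat_lit 76) (nat_lit 0) (XT.lf (nat_lit 0) (nat_lit 145659613643) (nat_lit 152) (nat_lit 30914445729) (nat_lit 0) (nat_lit 8617014602) (nat_lit 11) (nat_lit 5) (nat_lit 13) (nat_lit 4) (nat_lit 11) (nat_lit 4) (nat_lit 322) (nat_lit 286) (nat_lit 172)) (XT.lf (nat_lit 0) (nat_lit 31838362000) (nat_lit 76) (nat_lit 151116352765) (nat_lit 76) (nat_lit 14072182345) (nat_lit 10) (nat_lit 4) (nat_lit 11) (nat_lit 5) (nat_lit 11) (nat_lit 4) (nat_lit 323) (nat_lit 286) (nat_lit 171)))))) (XT.nd (nat_lit 546) (nat_lit 152) (nat_lit 0) (XT.nd (nat_lit 234) (nat_lit 76) (nat_lit 0) (XT.nd (nat_lit 78) (nat_lit 76) (nat_lit 0) (XT.lf (nat_lit 0) (nat_lit 13618684322) (nat_lit 152) (nat_lit 108718762010) (nat_lit 76) (nat_lit 87377004420) (nat_lit 9) (nat_lit 5) (nat_lit 11) (nat_lit 5) (nat_lit 10) (nat_lit 4) (nat_lit 324) (nat_lit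 286) (nat_lit 170)) (XT.nd (nat_lit 78) (nat_lit 76) (nat_lit 0) (XT.lf (nat_lit 0) (nat_lit 42763770626) (nat_lit 152) (nat_lit 48098329701) (nat_lit 76) (nat_lit 132525731328) (nat_lit 9) (nat_lit 5) (nat_lit 11) (nat_lit 5) (nat_lit 10) (nat_lit 4) (nat_lit 325) (nat_lit 286) (nat_lit 169)) (XT.lf (nat_lit 0) (nat_lit 18285126408) (nat_lit 76) (nat_lit 56394367064) (nat_lit 152) (nat_lit 163440468081) (nat_lit 8) (nat_lit 5) (nat_lit 9) (nat_lit 5) (nat_lit 10) (nat_lit 4) (nat_lit 326) (nat_lit 286) (nat_lit 168)))) (XT.nd (nat_lit 156) (nat_lit 76) (nat_lit 0) (XT.nd (nat_lit 78) (nat_lit 0) (nat_lit 0) (XT.lf (nat_lit 0) (nat_lit 92713379860) (nat_lit 76) (nat_lit 17749483065) (nat_lit 152) (nat_lit 143462648640) (nat_lit 8) (nat_lit 5) (nat_lit 9) (nat_lit 5) (nat_lit 10) (nat_lit 4) (nat_lit 327) (nat_lit 286) (nat_lit 167)) (XT.lf (nat_lit 0) (nat_lit 149685124404) (nat_lit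 152) (nat_lit 98477719439) (nat_lit 0) (nat_lit 22786564700) (nat_lit 8) (nat_lit 5) (nat_lit 10) (nat_lit 4) (nat_lit 8) (nat_lit 4) (nat_lit 328) (nat_lit 286) (nat_lit 166))) (XT.nd (nat_lit 78) (nat_lit 76) (nat_lit 0) (XT.lf (nat_lit 0) (nat_lit 192505576357) (nat_lit 152) (nat_lit 31186709099) (nat_lit 0) (nat_lit 65606099769) (nat_lit 8) (nat_lit 5) (nat_lit 10) (nat_lit 4) (nat_lit 8) (nat_lit 4) (nat_lit 329) (nat_lit 286) (nat_lit 165)) (XT.lf (nat_lit 0) (nat_lit 43671143835) (nat_lit 76) (nat_lit 196130242339) (nat_lit 76) (nat_lit 69229916784) (nat_lit 7) (nat_lit 4) (nat_lit 8) (nat_lit 5) (nat_lit 8) (nat_lit 4) (nat_lit 330) (nat_lit 286) (nat_lit 164))))) (XT.nd (nat_lit 312) (nat_lit 0) (nat_lit 0) (XT.nd (nat_lit 156) (nat_lit 152) (nat_lit 0) (XT.nd (nat_lit 78) (nat_lit 0) (nat_lit 0) (XT.lf (nat_lit 0) (nat_lit 126290221544) (nat_lit 76) (nat_lit 165442786514)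 (nat_lit 76) (nat_lit 38541674878) (nat_lit 7) (nat_lit 4) (nat_lit 8) (nat_lit 5) (nat_lit 8) (nat_lit 4) (nat_lit 331) (nat_lit 286) (nat_lit 163)) (XT.lf (nat_lit 0) (nat_lit 215517881726) (nat_lit 76) (nat_lit 132300766284) (nat_lit 76) (nat_lit 5398926796) (nat_lit 7) (nat_lit 4) (nat_lit 8) (nat_lit 5) (nat_lit 8) (nat_lit 4) (nat_lit 332) (nat_lit 286) (nat_lit 162))) (XT.nd (nat_lit 78) (nat_lit 76) (nat_lit 0) (XT.lf (nat_lit 0) (nat_lit 28874261491) (nat_lit 152) (nat_lit 66844049524) (nat_lit 76) (nat_lit 282219145918) (nat_lit 6) (nat_lit 5) (nat_lit 8) (nat_lit 5) (nat_lit 7) (nat_lit 4) (nat_lit 333) (nat_lit 286) (nat_lit 161)) (XT.lf (nat_lit 0) (nat_lit 10041286176) (nat_lit 76) (nat_lit 55797379024) (nat_lit 152) (nat_lit 338765762914) (nat_lit 5) (nat_lit 5) (nat_lit 6) (nat_lit 5) (nat_lit 7) (nat_lit 4) (nat_lit 334) (nat_lit 286) (nat_lit 160)))) (XT.nd (nat_lit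 156) (nat_lit 0) (nat_lit 0) (XT.nd (nat_lit 78) (nat_lit 0) (nat_lit 0) (XT.lf (nat_lit 0) (nat_lit 96878116876) (nat_lit 76) (nat_lit 10709302407) (nat_lit 152) (nat_lit 325671162274) (nat_lit 5) (nat_lit 5) (nat_lit 6) (nat_lit 5) (nat_lit 7) (nat_lit 4) (nat_lit 335) (nat_lit 286) (nat_lit 159)) (XT.lf (nat_lit 0) (nat_lit 153589220877) (nat_lit 152) (nat_lit 274457509526) (nat_lit 0) (nat_lit 36085285481) (nat_lit 5) (nat_lit 5) (nat_lit 7) (nat_lit 4) (nat_lit 5) (nat_lit 4) (nat_lit 336) (nat_lit 286) (nat_lit 158))) (XT.nd (nat_lit 78) (nat_lit 0) (nat_lit 0) (XT.lf (nat_lit 0) (nat_lit 203548948159) (nat_lit 152) (nat_lit 207859600534) (nat_lit 0) (nat_lit 86044554092) (nat_lit 5) (nat_lit 5) (nat_lit 7) (nat_lit 4) (nat_lit 5) (nat_lit 4) (nat_lit 337) (nat_lit 286) (nat_lit 157)) (XT.lf (nat_lit 0) (nat_lit 257505099792) (nat_lit 152) (nat_lit 135934524451) (nat_lit 0) (nat_lit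 140000281030) (nat_lit 5) (nat_lit 5) (nat_lit 7) (nat_lit 4) (nat_lit 5) (nat_lit 4) (nat_lit 338) (nat_lit 286) (nat_lit 156))))))))
noncomputable def xc91 : XT := (XT.nd (nat_lit 36972) (nat_lit 0) (nat_lit 684) (XT.nd (nat_lit 1092) (nat_lit 0) (nat_lit 0) (XT.nd (nat_lit 546) (nat_lit 152) (nat_lit 0) (XT.nd (nat_lit 234) (nat_lit 0) (nat_lit 0) (XT.nd (nat_lit 78) (nat_lit 76) (nat_lit 0) (XT.lf (nat_lit 0) (nat_lit 315777415933) (nat_lit 152) (nat_lit 58256058604) (nat_lit 0) (nat_lit 198272203935) (nat_lit 5) (nat_lit 5) (nat_lit 7) (nat_lit 4) (nat_lit 5) (nat_lit 4) (nat_lit 339) (nat_lit 286) (nat_lit 155)) (XT.nd (nat_lit 78) (nat_lit 0) (nat_lit 0) (XT.lf (nat_lit 0) (nat_lit 26986066164) (nat_lit 76) (nat_lit 352374163388) (nat_lit 76) (nat_lit 234868587283) (nat_lit 4) (nat_lit 4) (nat_lit 5) (nat_lit 5) (nat_lit 5) (nat_lit 4) (nat_lit 340) (nat_lit 286) (nat_lit 154))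 (XT.lf (nat_lit 0) (nat_lit 122360078366) (nat_lit 76) (nat_lit 327262119517) (nat_lit 76) (nat_lit 209756206275) (nat_lit 4) (nat_lit 4) (nat_lit 5) (nat_lit 5) (nat_lit 5) (nat_lit 4) (nat_lit 341) (nat_lit 286) (nat_lit 153)))) (XT.nd (nat_lit 156) (nat_lit 0) (nat_lit 0) (XT.nd (nat_lit 78) (nat_lit 0) (nat_lit 0) (XT.lf (nat_lit 0) (nat_lit 225363496523) (nat_lit 76) (nat_lit 300141354692) (nat_lit 76) (nat_lit 182635129287) (nat_lit 4) (nat_lit 4) (nat_lit 5) (nat_lit 5) (nat_lit 5) (nat_lit 4) (nat_lit 342) (nat_lit 286) (nat_lit 152)) (XT.lf (nat_lit 0) (nat_lit 336606711264) (nat_lit 76) (nat_lit 270851153271) (nat_lit 76) (nat_lit 153344638826) (nat_lit 4) (nat_lit 4) (nat_lit 5) (nat_lit 5) (nat_lit 5) (nat_lit 4) (nat_lit 343) (nat_lit 286) (nat_lit 151))) (XT.nd (nat_lit 78) (nat_lit 0) (nat_lit 0) (XT.lf (nat_lit 0) (nat_lit 456748941636) (nat_lit 76) (nat_lit 239217943690)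 (nat_lit 76) (nat_lit 121711161615) (nat_lit 4) (nat_lit 4) (nat_lit 5) (nat_lit 5) (nat_lit 5) (nat_lit 4) (nat_lit 344) (nat_lit 286) (nat_lit 150)) (XT.lf (nat_lit 0) (nat_lit 586502141599) (nat_lit 76) (nat_lit 205054269893) (nat_lit 76) (nat_lit 87547240012) (nat_lit 4) (nat_lit 4) (nat_lit 5) (nat_lit 5) (nat_lit 5) (nat_lit 4) (nat_lit 345) (nat_lit 286) (nat_lit 149))))) (XT.nd (nat_lit 234) (nat_lit 76) (nat_lit 0) (XT.nd (nat_lit 78) (nat_lit 76) (nat_lit 0) (XT.lf (nat_lit 0) (nat_lit 726635219004) (nat_lit 76) (nat_lit 168157680478) (nat_lit 76) (nat_lit 50650421147) (nat_lit 4) (nat_lit 4) (nat_lit 5) (nat_lit 5) (nat_lit 5) (nat_lit 4) (nat_lit 346) (nat_lit 286) (nat_lit 148)) (XT.nd (nat_lit 78) (nat_lit 76) (nat_lit 0) (XT.lf (nat_lit 0) (nat_lit 877978592087) (nat_lit 76) (nat_lit 128309528989) (nat_lit 76) (nat_lit 10802057206) (nat_lit 4) (nat_lit 4) (nat_lit 5)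 (nat_lit 5) (nat_lit 5) (nat_lit 4) (nat_lit 347) (nat_lit 286) (nat_lit 147)) (XT.lf (nat_lit 0) (nat_lit 30621515523) (nat_lit 152) (nat_lit 53814916211) (nat_lit 76) (nat_lit 1009970348444) (nat_lit 3) (nat_lit 5) (nat_lit 5) (nat_lit 5) (nat_lit 4) (nat_lit 4) (nat_lit 348) (nat_lit 286) (nat_lit 146)))) (XT.nd (nat_lit 156) (nat_lit 0) (nat_lit 0) (XT.nd (nat_lit 78) (nat_lit 0) (nat_lit 0) (XT.lf (nat_lit 0) (nat_lit 40026913548) (nat_lit 76) (nat_lit 35710953851) (nat_lit 152) (nat_lit 1102071398323) (nat_lit 2) (nat_lit 5) (nat_lit 3) (nat_lit 5) (nat_lit 4) (nat_lit 4) (nat_lit 349) (nat_lit 286) (nat_lit 145)) (XT.lf (nat_lit 0) (nat_lit 126379726351) (nat_lit 152) (nat_lit 1123774923184) (nat_lit 0) (nat_lit 17576004781) (nat_lit 2) (nat_lit 5) (nat_lit 4) (nat_lit 4) (nat_lit 2) (nat_lit 4) (nat_lit 350) (nat_lit 286) (nat_lit 144))) (XT.nd (nat_lit 78) (nat_lit 0) (nat_lit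 0) (XT.lf (nat_lit 0) (nat_lit 182000341411) (nat_lit 152) (nat_lit 1109574744858) (nat_lit 0) (nat_lit 73196475249) (nat_lit 2) (nat_lit 5) (nat_lit 4) (nat_lit 4) (nat_lit 2) (nat_lit 4) (nat_lit 351) (nat_lit 286) (nat_lit 143)) (XT.lf (nat_lit 0) (nat_lit 242070466926) (nat_lit 152) (nat_lit 1094238818692) (nat_lit 0) (nat_lit 133266466881) (nat_lit 2) (nat_lit 5) (nat_lit 4) (nat_lit 4) (nat_lit 2) (nat_lit 4) (nat_lit 352) (nat_lit 286) (nat_lit 142)))))) (XT.nd (nat_lit 546) (nat_lit 0) (nat_lit 0) (XT.nd (nat_lit 234) (nat_lit 0) (nat_lit 0) (XT.nd (nat_lit 78) (nat_lit 0) (nat_lit 0) (XT.lf (nat_lit 0) (nat_lit 306946074008) (nat_lit 152) (nat_lit 1077676265124) (nat_lit 0) (nat_lit 198141950000) (nat_lit 2) (nat_lit 5) (nat_lit 4) (nat_lit 4) (nat_lit 2) (nat_lit 4) (nat_lit 353) (nat_lit 286) (nat_lit 141)) (XT.nd (nat_lit 78) (nat_lit 0) (nat_lit 0) (XT.lf (nat_lit 0) (nat_lit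 377011610702) (nat_lit 152) (nat_lit 1059788935688) (nat_lit 0) (nat_lit 268207371911) (nat_lit 2) (nat_lit 5) (nat_lit 4) (nat_lit 4) (nat_lit 2) (nat_lit 4) (nat_lit 354) (nat_lit 286) (nat_lit 140)) (XT.lf (nat_lit 0) (nat_lit 452682280186) (nat_lit 152) (nat_lit 1040470831395) (nat_lit 0) (nat_lit 343877935116) (nat_lit 2) (nat_lit 5) (nat_lit 4) (nat_lit 4) (nat_lit 2) (nat_lit 4) (nat_lit 355) (nat_lit 286) (nat_lit 139)))) (XT.nd (nat_lit 156) (nat_lit 0) (nat_lit 0) (XT.nd (nat_lit 78) (nat_lit 0) (nat_lit 0) (XT.lf (nat_lit 0) (nat_lit 534406501243) (nat_lit 152) (nat_lit 1019607474591) (nat_lit 0) (nat_lit 425602057766) (nat_lit 2) (nat_lit 5) (nat_lit 4) (nat_lit 4) (nat_lit 2) (nat_lit 4) (nat_lit 356) (nat_lit 286) (nat_lit 138)) (XT.lf (nat_lit 0) (nat_lit 622668565554) (nat_lit 152) (nat_lit 997075230567) (nat_lit 0) (nat_lit 513864030959) (nat_lit 2) (nat_lit 5) (nat_lit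 4) (nat_lit 4) (nat_lit 2) (nat_lit 4) (nat_lit 357) (nat_lit 286) (nat_lit 137))) (XT.nd (nat_lit 78) (nat_lit 0) (nat_lit 0) (XT.lf (nat_lit 0) (nat_lit 717991507573) (nat_lit 152) (nat_lit 972740574915) (nat_lit 0) (nat_lit 609186888610) (nat_lit 2) (nat_lit 5) (nat_lit 4) (nat_lit 4) (nat_lit 2) (nat_lit 4) (nat_lit 358) (nat_lit 286) (nat_lit 136)) (XT.lf (nat_lit 0) (nat_lit 820940203993) (nat_lit 152) (nat_lit 946459302269) (nat_lit 0) (nat_lit 712135506912) (nat_lit 2) (nat_lit 5) (nat_lit 4) (nat_lit 4) (nat_lit 2) (nat_lit 4) (nat_lit 359) (nat_lit 286) (nat_lit 135))))) (XT.nd (nat_lit 35022) (nat_lit 0) (nat_lit 3040) (XT.nd (nat_lit 156) (nat_lit 0) (nat_lit 0) (XT.nd (nat_lit 78) (nat_lit 0) (nat_lit 0) (XT.lf (nat_lit 0) (nat_lit 932124721165) (nat_lit 152) (nat_lit 918075671752) (nat_lit 0) (nat_lit 823319951752) (nat_lit 2) (nat_lit 5) (nat_lit 4) (nat_lit 4) (nat_lit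 2) (nat_lit 4) (nat_lit 360) (nat_lit 286) (nat_lit 134)) (XT.lf (nat_lit 0) (nat_lit 1052203930301) (nat_lit 152) (nat_lit 887421484074) (nat_lit 0) (nat_lit 943399093914) (nat_lit 2) (nat_lit 5) (nat_lit 4) (nat_lit 4) (nat_lit 2) (nat_lit 4) (nat_lit 361) (nat_lit 286) (nat_lit 133))) (XT.nd (nat_lit 34788) (nat_lit 0) (nat_lit 3040) (XT.lf (nat_lit 0) (nat_lit 1181889411900) (nat_lit 152) (nat_lit 854315084788) (nat_lit 0) (nat_lit 1073084513500) (nat_lit 2) (nat_lit 5) (nat_lit 4) (nat_lit 4) (nat_lit 2) (nat_lit 4) (nat_lit 362) (nat_lit 286) (nat_lit 132)) (XT.lf (nat_lit 0) (nat_lit 8586958951) (nat_lit 532) (nat_lit 3886163859) (nat_lit 532) (nat_lit 3886163859) (nat_lit 42) (nat_lit 3) (nat_lit 49) (nat_lit 3) (nat_lit 49) (nat_lit 5) (nat_lit 287) (nat_lit 287) (nat_lit 206)))) (XT.nd (nat_lit 156) (nat_lit 0) (nat_lit 76) (XT.nd (nat_lit 78) (nat_lit 0) (nat_lit 76) (XT.lf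 (nat_lit 76) (nat_lit 7218455722) (nat_lit 0) (nat_lit 10871570652) (nat_lit 532) (nat_lit 15918748730) (nat_lit 43) (nat_lit 5) (nat_lit 42) (nat_lit 3) (nat_lit 49) (nat_lit 5) (nat_lit 288) (nat_lit 287) (nat_lit 205)) (XT.lf (nat_lit 0) (nat_lit 19395992462) (nat_lit 456) (nat_lit 11648006341) (nat_lit 532) (nat_lit 4332889605) (nat_lit 43) (nat_lit 5) (nat_lit 49) (nat_lit 5) (nat_lit 50) (nat_lit 5) (nat_lit 289) (nat_lit 287) (nat_lit 204))) (XT.nd (nat_lit 78) (nat_lit 0) (nat_lit 0) (XT.lf (nat_lit 76) (nat_lit 4652629903) (nat_lit 0) (nat_lit 16542918739) (nat_lit 532) (nat_lit 15627792474) (nat_lit 44) (nat_lit 5) (nat_lit 43) (nat_lit 5) (nat_lit 50) (nat_lit 5) (nat_lit 290) (nat_lit 287) (nat_lit 203)) (XT.lf (nat_lit 76) (nat_lit 22916409473) (nat_lit 0) (nat_lit 536277474) (nat_lit 532) (nat_lit 14907751612) (nat_lit 44) (nat_lit 5) (nat_lit 43) (nat_lit 5) (nat_lit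 50) (nat_lit 5) (nat_lit 291) (nat_lit 287) (nat_lit 202))))))) (XT.nd (nat_lit 1170) (nat_lit 988) (nat_lit 0) (XT.nd (nat_lit 546) (nat_lit 836) (nat_lit 0) (XT.nd (nat_lit 234) (nat_lit 304) (nat_lit 0) (XT.nd (nat_lit 78) (nat_lit 380) (nat_lit 0) (XT.lf (nat_lit 76) (nat_lit 2331032874) (nat_lit 0) (nat_lit 24013818563) (nat_lit 532) (nat_lit 13639312552) (nat_lit 45) (nat_lit 5) (nat_lit 44) (nat_lit 5) (nat_lit 51) (nat_lit 5) (nat_lit 292) (nat_lit 287) (nat_lit 201)) (XT.nd (nat_lit 78) (nat_lit 380) (nat_lit 0) (XT.lf (nat_lit 76) (nat_lit 22388338307) (nat_lit 0) (nat_lit 7511677521) (nat_lit 532) (nat_lit 11803256858) (nat_lit 45) (nat_lit 5) (nat_lit 44) (nat_lit 5) (nat_lit 51) (nat_lit 5) (nat_lit 293) (nat_lit 287) (nat_lit 200)) (XT.lf (nat_lit 0) (nat_lit 251418140) (nat_lit 456) (nat_lit 33738306078) (nat_lit 532) (nat_lit 9550189625) (nat_lit 39) (nat_lit 5) (nat_lit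 45) (nat_lit 5) (nat_lit 46) (nat_lit 5) (nat_lit 294) (nat_lit 287) (nat_lit 199)))) (XT.nd (nat_lit 156) (nat_lit 304) (nat_lit 0) (XT.nd (nat_lit 78) (nat_lit 0) (nat_lit 0) (XT.lf (nat_lit 0) (nat_lit 22272736582) (nat_lit 456) (nat_lit 16848465231) (nat_lit 532) (nat_lit 6345130257) (nat_lit 39) (nat_lit 5) (nat_lit 45) (nat_lit 5) (nat_lit 46) (nat_lit 5) (nat_lit 295) (nat_lit 287) (nat_lit 198)) (XT.lf (nat_lit 0) (nat_lit 44693286282) (nat_lit 532) (nat_lit 1528049192) (nat_lit 76) (nat_lit 1323133390) (nat_lit 39) (nat_lit 5) (nat_lit 46) (nat_lit 5) (nat_lit 40) (nat_lit 5) (nat_lit 296) (nat_lit 287) (nat_lit 197))) (XT.nd (nat_lit 78) (nat_lit 0) (nat_lit 0) (XT.lf (nat_lit 0) (nat_lit 1878512224) (nat_lit 304) (nat_lit 27199883984) (nat_lit 76) (nat_lit 20628506981) (nat_lit 35) (nat_lit 5) (nat_lit 39) (nat_lit 5) (nat_lit 36) (nat_lit 5) (nat_lit 297) (nat_lit 287) (nat_lit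 196)) (XT.lf (nat_lit 0) (nat_lit 6872329717) (nat_lit 304) (nat_lit 3565626916) (nat_lit 76) (nat_lit 41595277978) (nat_lit 35) (nat_lit 5) (nat_lit 39) (nat_lit 5) (nat_lit 36) (nat_lit 5) (nat_lit 298) (nat_lit 287) (nat_lit 195))))) (XT.nd (nat_lit 312) (nat_lit 380) (nat_lit 0) (XT.nd (nat_lit 156) (nat_lit 228) (nat_lit 0) (XT.nd (nat_lit 78) (nat_lit 0) (nat_lit 0) (XT.lf (nat_lit 0) (nat_lit 13066224623) (nat_lit 304) (nat_lit 31636502627) (nat_lit 76) (nat_lit 9778908503) (nat_lit 32) (nat_lit 5) (nat_lit 36) (nat_lit 5) (nat_lit 33) (nat_lit 5) (nat_lit 299) (nat_lit 287) (nat_lit 194)) (XT.lf (nat_lit 0) (nat_lit 20124051692) (nat_lit 304) (nat_lit 5823411385) (nat_lit 76) (nat_lit 31148980569) (nat_lit 32) (nat_lit 5) (nat_lit 36) (nat_lit 5) (nat_lit 33) (nat_lit 5) (nat_lit 300) (nat_lit 287) (nat_lit 193))) (XT.nd (nat_lit 78) (nat_lit 0) (nat_lit 0) (XT.lf (nat_lit 0)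 (nat_lit 23212982714) (nat_lit 228) (nat_lit 5089278368) (nat_lit 304) (nat_lit 31573722287) (nat_lit 29) (nat_lit 5) (nat_lit 32) (nat_lit 5) (nat_lit 33) (nat_lit 5) (nat_lit 301) (nat_lit 287) (nat_lit 192)) (XT.lf (nat_lit 0) (nat_lit 37715048120) (nat_lit 304) (nat_lit 8388251684) (nat_lit 76) (nat_lit 16728167913) (nat_lit 29) (nat_lit 5) (nat_lit 33) (nat_lit 5) (nat_lit 30) (nat_lit 5) (nat_lit 302) (nat_lit 287) (nat_lit 191)))) (XT.nd (nat_lit 156) (nat_lit 228) (nat_lit 0) (XT.nd (nat_lit 78) (nat_lit 0) (nat_lit 0) (XT.lf (nat_lit 0) (nat_lit 23172639757) (nat_lit 152) (nat_lit 25395477637) (nat_lit 228) (nat_lit 17400299270) (nat_lit 27) (nat_lit 5) (nat_lit 29) (nat_lit 5) (nat_lit 30) (nat_lit 5) (nat_lit 303) (nat_lit 287) (nat_lit 190)) (XT.lf (nat_lit 0) (nat_lit 57732683971) (nat_lit 152) (nat_lit 2783964426) (nat_lit 228) (nat_lit 8821501938) (nat_lit 27) (nat_lit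 5) (nat_lit 29) (nat_lit 5) (nat_lit 30) (nat_lit 5) (nat_lit 304) (nat_lit 287) (nat_lit 189))) (XT.nd (nat_lit 78) (nat_lit 0) (nat_lit 0) (XT.lf (nat_lit 0) (nat_lit 1513157483) (nat_lit 228) (nat_lit 50238492657) (nat_lit 76) (nat_lit 21137624395) (nat_lit 24) (nat_lit 5) (nat_lit 27) (nat_lit 5) (nat_lit 25) (nat_lit 5) (nat_lit 305) (nat_lit 287) (nat_lit 188)) (XT.lf (nat_lit 0) (nat_lit 12593905965) (nat_lit 228) (nat_lit 16703993038) (nat_lit 76) (nat_lit 47376591596) (nat_lit 24) (nat_lit 5) (nat_lit 27) (nat_lit 5) (nat_lit 25) (nat_lit 5) (nat_lit 306) (nat_lit 287) (nat_lit 187)))))) (XT.nd (nat_lit 546) (nat_lit 532) (nat_lit 0) (XT.nd (nat_lit 234) (nat_lit 152) (nat_lit 0) (XT.nd (nat_lit 78) (nat_lit 152) (nat_lit 0) (XT.lf (nat_lit 0) (nat_lit 20538120188) (nat_lit 152) (nat_lit 4515121456) (nat_lit 228) (nat_lit 55669916604) (nat_lit 22) (nat_lit 5) (nat_lit 24) (nat_lit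 5) (nat_lit 25) (nat_lit 5) (nat_lit 307) (nat_lit 287) (nat_lit 186)) (XT.nd (nat_lit 78) (nat_lit 152) (nat_lit 0) (XT.lf (nat_lit 0) (nat_lit 39511265404) (nat_lit 228) (nat_lit 23899198497) (nat_lit 76) (nat_lit 21605104267) (nat_lit 22) (nat_lit 5) (nat_lit 25) (nat_lit 5) (nat_lit 23) (nat_lit 5) (nat_lit 308) (nat_lit 287) (nat_lit 185)) (XT.lf (nat_lit 0) (nat_lit 15968633842) (nat_lit 152) (nat_lit 39656991308) (nat_lit 228) (nat_lit 33985774049) (nat_lit 20) (nat_lit 5) (nat_lit 22) (nat_lit 5) (nat_lit 23) (nat_lit 5) (nat_lit 309) (nat_lit 287) (nat_lit 184)))) (XT.nd (nat_lit 156) (nat_lit 76) (nat_lit 0) (XT.nd (nat_lit 78) (nat_lit 76) (nat_lit 0) (XT.lf (nat_lit 0) (nat_lit 60382708239) (nat_lit 152) (nat_lit 13298308042) (nat_lit 228) (nat_lit 20841733386) (nat_lit 20) (nat_lit 5) (nat_lit 22) (nat_lit 5) (nat_lit 23) (nat_lit 5) (nat_lit 310) (nat_lit 287) (nat_lit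 183)) (XT.lf (nat_lit 0) (nat_lit 8585273699) (nat_lit 76) (nat_lit 85165391965) (nat_lit 152) (nat_lit 6030759648) (nat_lit 19) (nat_lit 5) (nat_lit 20) (nat_lit 5) (nat_lit 21) (nat_lit 4) (nat_lit 311) (nat_lit 287) (nat_lit 182))) (XT.nd (nat_lit 78) (nat_lit 0) (nat_lit 0) (XT.lf (nat_lit 0) (nat_lit 10768252991) (nat_lit 152) (nat_lit 49327549195) (nat_lit 76) (nat_lit 45241690375) (nat_lit 18) (nat_lit 5) (nat_lit 20) (nat_lit 5) (nat_lit 19) (nat_lit 5) (nat_lit 312) (nat_lit 287) (nat_lit 181)) (XT.lf (nat_lit 0) (nat_lit 28584026383) (nat_lit 152) (nat_lit 4268233016) (nat_lit 76) (nat_lit 78473364367) (nat_lit 18) (nat_lit 5) (nat_lit 20) (nat_lit 5) (nat_lit 19) (nat_lit 5) (nat_lit 313) (nat_lit 287) (nat_lit 180))))) (XT.nd (nat_lit 312) (nat_lit 304) (nat_lit 0) (XT.nd (nat_lit 156) (nat_lit 76) (nat_lit 0) (XT.nd (nat_lit 78) (nat_lit 0) (nat_lit 0) (XT.lf (nat_lit 0)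 (nat_lit 46731556739) (nat_lit 152) (nat_lit 2216156827) (nat_lit 228) (nat_lit 68755282171) (nat_lit 16) (nat_lit 5) (nat_lit 18) (nat_lit 5) (nat_lit 19) (nat_lit 5) (nat_lit 314) (nat_lit 287) (nat_lit 179)) (XT.lf (nat_lit 0) (nat_lit 71801457491) (nat_lit 228) (nat_lit 23274633064) (nat_lit 76) (nat_lit 29445592214) (nat_lit 16) (nat_lit 5) (nat_lit 19) (nat_lit 5) (nat_lit 17) (nat_lit 4) (nat_lit 315) (nat_lit 287) (nat_lit 178))) (XT.nd (nat_lit 78) (nat_lit 0) (nat_lit 0) (XT.lf (nat_lit 0) (nat_lit 29662329056) (nat_lit 76) (nat_lit 67590989316) (nat_lit 152) (nat_lit 34570963076) (nat_lit 15) (nat_lit 5) (nat_lit 16) (nat_lit 5) (nat_lit 17) (nat_lit 4) (nat_lit 316) (nat_lit 287) (nat_lit 177)) (XT.lf (nat_lit 0) (nat_lit 88156088523) (nat_lit 76) (nat_lit 37220524337) (nat_lit 152) (nat_lit 14283654306) (nat_lit 15) (nat_lit 5) (nat_lit 16) (nat_lit 5) (nat_lit 17) (nat_lit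 4) (nat_lit 317) (nat_lit 287) (nat_lit 176)))) (XT.nd (nat_lit 156) (nat_lit 76) (nat_lit 0) (XT.nd (nat_lit 78) (nat_lit 0) (nat_lit 0) (XT.lf (nat_lit 0) (nat_lit 3180149434) (nat_lit 152) (nat_lit 4140424625) (nat_lit 228) (nat_lit 140781849641) (nat_lit 12) (nat_lit 5) (nat_lit 14) (nat_lit 5) (nat_lit 15) (nat_lit 5) (nat_lit 318) (nat_lit 287) (nat_lit 175)) (XT.lf (nat_lit 0) (nat_lit 32084877866) (nat_lit 228) (nat_lit 93107962074) (nat_lit 76) (nat_lit 31821159985) (nat_lit 12) (nat_lit 5) (nat_lit 15) (nat_lit 5) (nat_lit 13) (nat_lit 4) (nat_lit 319) (nat_lit 287) (nat_lit 174))) (XT.nd (nat_lit 78) (nat_lit 76) (nat_lit 0) (XT.lf (nat_lit 0) (nat_lit 58936931423) (nat_lit 228) (nat_lit 37257670160) (nat_lit 76) (nat_lit 70435373642) (nat_lit 12) (nat_lit 5) (nat_lit 15) (nat_lit 5) (nat_lit 13) (nat_lit 4) (nat_lit 320) (nat_lit 287) (nat_lit 173)) (XT.lf (nat_lit 0) (nat_lit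 24273397108) (nat_lit 76) (nat_lit 64246659375) (nat_lit 152) (nat_lit 88448540799) (nat_lit 11) (nat_lit 5) (nat_lit 12) (nat_lit 5) (nat_lit 13) (nat_lit 4) (nat_lit 321) (nat_lit 287) (nat_lit 172))))))))
noncomputable def xc92 : XT := (XT.nd (nat_lit 2262) (nat_lit 0) (nat_lit 0) (XT.nd (nat_lit 1092) (nat_lit 228) (nat_lit 0) (XT.nd (nat_lit 546) (nat_lit 228) (nat_lit 0) (XT.nd (nat_lit 234) (nat_lit 152) (nat_lit 0) (XT.nd (nat_lit 78) (nat_lit 76) (nat_lit 0) (XT.lf (nat_lit 0) (nat_lit 92844362862) (nat_lit 76) (nat_lit 28643319988) (nat_lit 152) (nat_lit 66565199362) (nat_lit 11) (nat_lit 5) (nat_lit 12) (nat_lit 5) (nat_lit 13) (nat_lit 4) (nat_lit 322) (nat_lit 287) (nat_lit 171)) (XT.nd (nat_lit 78) (nat_lit 76) (nat_lit 0) (XT.lf (nat_lit 0) (nat_lit 157327817706) (nat_lit 152) (nat_lit 33360198188) (nat_lit 0) (nat_lit 9317087294) (nat_lit 11) (nat_lit 5) (nat_lit 13)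 (nat_lit 4) (nat_lit 11) (nat_lit 4) (nat_lit 323) (nat_lit 287) (nat_lit 170)) (XT.lf (nat_lit 0) (nat_lit 34412140407) (nat_lit 76) (nat_lit 163193885542) (nat_lit 76) (nat_lit 15181807925) (nat_lit 10) (nat_lit 4) (nat_lit 11) (nat_lit 5) (nat_lit 11) (nat_lit 4) (nat_lit 324) (nat_lit 287) (nat_lit 169)))) (XT.nd (nat_lit 156) (nat_lit 76) (nat_lit 0) (XT.nd (nat_lit 78) (nat_lit 0) (nat_lit 0) (XT.lf (nat_lit 0) (nat_lit 14722383853) (nat_lit 152) (nat_lit 117390766613) (nat_lit 76) (nat_lit 94377302573) (nat_lit 9) (nat_lit 5) (nat_lit 11) (nat_lit 5) (nat_lit 10) (nat_lit 4) (nat_lit 325) (nat_lit 287) (nat_lit 168)) (XT.lf (nat_lit 0) (nat_lit 46198024855) (nat_lit 152) (nat_lit 51922588339) (nat_lit 76) (nat_lit 143137176687) (nat_lit 9) (nat_lit 5) (nat_lit 11) (nat_lit 5) (nat_lit 10) (nat_lit 4) (nat_lit 326) (nat_lit 287) (nat_lit 167))) (XT.nd (nat_lit 78) (nat_lit 0)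 (nat_lit 0) (XT.lf (nat_lit 0) (nat_lit 19770946595) (nat_lit 76) (nat_lit 60895638062) (nat_lit 152) (nat_lit 176501940375) (nat_lit 8) (nat_lit 5) (nat_lit 9) (nat_lit 5) (nat_lit 10) (nat_lit 4) (nat_lit 327) (nat_lit 287) (nat_lit 166)) (XT.lf (nat_lit 0) (nat_lit 100151755873) (nat_lit 76) (nat_lit 19159924704) (nat_lit 152) (nat_lit 154926915019) (nat_lit 8) (nat_lit 5) (nat_lit 9) (nat_lit 5) (nat_lit 10) (nat_lit 4) (nat_lit 328) (nat_lit 287) (nat_lit 165))))) (XT.nd (nat_lit 234) (nat_lit 152) (nat_lit 0) (XT.nd (nat_lit 78) (nat_lit 76) (nat_lit 0) (XT.lf (nat_lit 0) (nat_lit 161671061673) (nat_lit 152) (nat_lit 106335535481) (nat_lit 0) (nat_lit 24617861106) (nat_lit 8) (nat_lit 5) (nat_lit 10) (nat_lit 4) (nat_lit 8) (nat_lit 4) (nat_lit 329) (nat_lit 287) (nat_lit 164)) (XT.nd (nat_lit 78) (nat_lit 76) (nat_lit 0) (XT.lf (nat_lit 0) (nat_lit 207916325536) (nat_lit 152)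 (nat_lit 33662755537) (nat_lit 0) (nat_lit 70862338889) (nat_lit 8) (nat_lit 5) (nat_lit 10) (nat_lit 4) (nat_lit 8) (nat_lit 4) (nat_lit 330) (nat_lit 287) (nat_lit 163)) (XT.lf (nat_lit 0) (nat_lit 47183247397) (nat_lit 76) (nat_lit 211812232363) (nat_lit 76) (nat_lit 74757517863) (nat_lit 7) (nat_lit 4) (nat_lit 8) (nat_lit 5) (nat_lit 8) (nat_lit 4) (nat_lit 331) (nat_lit 287) (nat_lit 162)))) (XT.nd (nat_lit 156) (nat_lit 152) (nat_lit 0) (XT.nd (nat_lit 78) (nat_lit 0) (nat_lit 0) (XT.lf (nat_lit 0) (nat_lit 136410487466) (nat_lit 76) (nat_lit 178670404468) (nat_lit 76) (nat_lit 41615016031) (nat_lit 7) (nat_lit 4) (nat_lit 8) (nat_lit 5) (nat_lit 8) (nat_lit 4) (nat_lit 332) (nat_lit 287) (nat_lit 161)) (XT.lf (nat_lit 0) (nat_lit 232775097634) (nat_lit 76) (nat_lit 142877600766) (nat_lit 76) (nat_lit 5821588312) (nat_lit 7) (nat_lit 4) (nat_lit 8) (nat_lit 5) (nat_lit 8) (nat_lit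 4) (nat_lit 333) (nat_lit 287) (nat_lit 160))) (XT.nd (nat_lit 78) (nat_lit 76) (nat_lit 0) (XT.lf (nat_lit 0) (nat_lit 31192341089) (nat_lit 152) (nat_lit 72176520780) (nat_lit 76) (nat_lit 304802932469) (nat_lit 6) (nat_lit 5) (nat_lit 8) (nat_lit 5) (nat_lit 7) (nat_lit 4) (nat_lit 334) (nat_lit 287) (nat_lit 159)) (XT.lf (nat_lit 0) (nat_lit 10859260694) (nat_lit 76) (nat_lit 60254386389) (nat_lit 152) (nat_lit 365858496729) (nat_lit 5) (nat_lit 5) (nat_lit 6) (nat_lit 5) (nat_lit 7) (nat_lit 4) (nat_lit 335) (nat_lit 287) (nat_lit 158)))))) (XT.nd (nat_lit 546) (nat_lit 152) (nat_lit 0) (XT.nd (nat_lit 234) (nat_lit 76) (nat_lit 0) (XT.nd (nat_lit 78) (nat_lit 0) (nat_lit 0) (XT.lf (nat_lit 0) (nat_lit 104641951064) (nat_lit 76) (nat_lit 11559766083) (nat_lit 152) (nat_lit 351716959684) (nat_lit 5) (nat_lit 5) (nat_lit 6) (nat_lit 5) (nat_lit 7) (nat_lit 4) (nat_lit 336) (nat_lit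 287) (nat_lit 157)) (XT.nd (nat_lit 78) (nat_lit 0) (nat_lit 0) (XT.lf (nat_lit 0) (nat_lit 165883261666) (nat_lit 152) (nat_lit 296401124137) (nat_lit 0) (nat_lit 38977632708) (nat_lit 5) (nat_lit 5) (nat_lit 7) (nat_lit 4) (nat_lit 5) (nat_lit 4) (nat_lit 337) (nat_lit 287) (nat_lit 156)) (XT.lf (nat_lit 0) (nat_lit 219839255788) (nat_lit 152) (nat_lit 224476344364) (nat_lit 0) (nat_lit 92933233594) (nat_lit 5) (nat_lit 5) (nat_lit 7) (nat_lit 4) (nat_lit 5) (nat_lit 4) (nat_lit 338) (nat_lit 287) (nat_lit 155)))) (XT.nd (nat_lit 156) (nat_lit 76) (nat_lit 0) (XT.nd (nat_lit 78) (nat_lit 0) (nat_lit 0) (XT.lf (nat_lit 0) (nat_lit 278111426086) (nat_lit 152) (nat_lit 146798152877) (nat_lit 0) (nat_lit 151205039785) (nat_lit 5) (nat_lit 5) (nat_lit 7) (nat_lit 4) (nat_lit 5) (nat_lit 4) (nat_lit 339) (nat_lit 287) (nat_lit 154)) (XT.lf (nat_lit 0) (nat_lit 341045089126) (nat_lit 152)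 (nat_lit 62906234468) (nat_lit 0) (nat_lit 214138365688) (nat_lit 5) (nat_lit 5) (nat_lit 7) (nat_lit 4) (nat_lit 5) (nat_lit 4) (nat_lit 340) (nat_lit 287) (nat_lit 153))) (XT.nd (nat_lit 78) (nat_lit 0) (nat_lit 0) (XT.lf (nat_lit 0) (nat_lit 29154999299) (nat_lit 76) (nat_lit 380559364266) (nat_lit 76) (nat_lit 253652328665) (nat_lit 4) (nat_lit 4) (nat_lit 5) (nat_lit 5) (nat_lit 5) (nat_lit 4) (nat_lit 341) (nat_lit 287) (nat_lit 152)) (XT.lf (nat_lit 0) (nat_lit 132158188192) (nat_lit 76) (nat_lit 353438707418) (nat_lit 76) (nat_lit 226531382776) (nat_lit 4) (nat_lit 4) (nat_lit 5) (nat_lit 5) (nat_lit 5) (nat_lit 4) (nat_lit 342) (nat_lit 287) (nat_lit 151))))) (XT.nd (nat_lit 312) (nat_lit 152) (nat_lit 0) (XT.nd (nat_lit 156) (nat_lit 0) (nat_lit 0) (XT.nd (nat_lit 78) (nat_lit 0) (nat_lit 0) (XT.lf (nat_lit 0) (nat_lit 243401190650) (nat_lit 76) (nat_lit 324148605975) (nat_lit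 76) (nat_lit 197241013703) (nat_lit 4) (nat_lit 4) (nat_lit 5) (nat_lit 5) (nat_lit 5) (nat_lit 4) (nat_lit 343) (nat_lit 287) (nat_lit 150)) (XT.lf (nat_lit 0) (nat_lit 363543224466) (nat_lit 76) (nat_lit 292515488966) (nat_lit 76) (nat_lit 165607648889) (nat_lit 4) (nat_lit 4) (nat_lit 5) (nat_lit 5) (nat_lit 5) (nat_lit 4) (nat_lit 344) (nat_lit 287) (nat_lit 149))) (XT.nd (nat_lit 78) (nat_lit 0) (nat_lit 0) (XT.lf (nat_lit 0) (nat_lit 493296242431) (nat_lit 76) (nat_lit 258351900882) (nat_lit 76) (nat_lit 131443831356) (nat_lit 4) (nat_lit 4) (nat_lit 5) (nat_lit 5) (nat_lit 5) (nat_lit 4) (nat_lit 345) (nat_lit 287) (nat_lit 148)) (XT.lf (nat_lit 0) (nat_lit 633429151319) (nat_lit 76) (nat_lit 221455390833) (nat_lit 76) (nat_lit 94547108853) (nat_lit 4) (nat_lit 4) (nat_lit 5) (nat_lit 5) (nat_lit 5) (nat_lit 4) (nat_lit 346) (nat_lit 287) (nat_lit 147)))) (XT.nd (nat_lit 156)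 (nat_lit 152) (nat_lit 0) (XT.nd (nat_lit 78) (nat_lit 0) (nat_lit 0) (XT.lf (nat_lit 0) (nat_lit 784772368369) (nat_lit 76) (nat_lit 181607312831) (nat_lit 76) (nat_lit 54698834136) (nat_lit 4) (nat_lit 4) (nat_lit 5) (nat_lit 5) (nat_lit 5) (nat_lit 4) (nat_lit 347) (nat_lit 287) (nat_lit 146)) (XT.lf (nat_lit 0) (nat_lit 948222742274) (nat_lit 76) (nat_lit 138571530119) (nat_lit 76) (nat_lit 11662869280) (nat_lit 4) (nat_lit 4) (nat_lit 5) (nat_lit 5) (nat_lit 5) (nat_lit 4) (nat_lit 348) (nat_lit 287) (nat_lit 145))) (XT.nd (nat_lit 78) (nat_lit 76) (nat_lit 0) (XT.lf (nat_lit 0) (nat_lit 33074185651) (nat_lit 152) (nat_lit 58114523337) (nat_lit 76) (nat_lit 1090770375342) (nat_lit 3) (nat_lit 5) (nat_lit 5) (nat_lit 5) (nat_lit 4) (nat_lit 4) (nat_lit 349) (nat_lit 287) (nat_lit 144)) (XT.lf (nat_lit 0) (nat_lit 43234511380) (nat_lit 76) (nat_lit 38565246807) (nat_lit 152) (nat_lit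 1190234017703) (nat_lit 2) (nat_lit 5) (nat_lit 3) (nat_lit 5) (nat_lit 4) (nat_lit 4) (nat_lit 350) (nat_lit 287) (nat_lit 143))))))) (XT.nd (nat_lit 35880) (nat_lit 0) (nat_lit 1900) (XT.nd (nat_lit 546) (nat_lit 0) (nat_lit 0) (XT.nd (nat_lit 234) (nat_lit 0) (nat_lit 0) (XT.nd (nat_lit 78) (nat_lit 0) (nat_lit 0) (XT.lf (nat_lit 0) (nat_lit 136492811428) (nat_lit 152) (nat_lit 1213671719161) (nat_lit 0) (nat_lit 18984357499) (nat_lit 2) (nat_lit 5) (nat_lit 4) (nat_lit 4) (nat_lit 2) (nat_lit 4) (nat_lit 351) (nat_lit 287) (nat_lit 142)) (XT.nd (nat_lit 78) (nat_lit 0) (nat_lit 0) (XT.lf (nat_lit 0) (nat_lit 196562875176) (nat_lit 152) (nat_lit 1198335911597) (nat_lit 0) (nat_lit 79054297283) (nat_lit 2) (nat_lit 5) (nat_lit 4) (nat_lit 4) (nat_lit 2) (nat_lit 4) (nat_lit 352) (nat_lit 287) (nat_lit 141)) (XT.lf (nat_lit 0) (nat_lit 261438425069) (nat_lit 152) (nat_lit 1181773467845)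 (nat_lit 0) (nat_lit 143929732393) (nat_lit 2) (nat_lit 5) (nat_lit 4) (nat_lit 4) (nat_lit 2) (nat_lit 4) (nat_lit 353) (nat_lit 287) (nat_lit 140)))) (XT.nd (nat_lit 156) (nat_lit 0) (nat_lit 0) (XT.nd (nat_lit 78) (nat_lit 0) (nat_lit 0) (XT.lf (nat_lit 0) (nat_lit 331503908808) (nat_lit 152) (nat_lit 1163886240091) (nat_lit 0) (nat_lit 213995109853) (nat_lit 2) (nat_lit 5) (nat_lit 4) (nat_lit 4) (nat_lit 2) (nat_lit 4) (nat_lit 354) (nat_lit 287) (nat_lit 139)) (XT.lf (nat_lit 0) (nat_lit 407174529261) (nat_lit 152) (nat_lit 1144568229948) (nat_lit 0) (nat_lit 289665631899) (nat_lit 2) (nat_lit 5) (nat_lit 4) (nat_lit 4) (nat_lit 2) (nat_lit 4) (nat_lit 355) (nat_lit 287) (nat_lit 138))) (XT.nd (nat_lit 78) (nat_lit 0) (nat_lit 0) (XT.lf (nat_lit 0) (nat_lit 488898704918) (nat_lit 152) (nat_lit 1123704960319) (nat_lit 0) (nat_lit 371389716439) (nat_lit 2) (nat_lit 5) (nat_lit 4)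 (nat_lit 4) (nat_lit 2) (nat_lit 4) (nat_lit 356) (nat_lit 287) (nat_lit 137)) (XT.lf (nat_lit 0) (nat_lit 577160727192) (nat_lit 152) (nat_lit 1101172797014) (nat_lit 0) (nat_lit 459651654344) (nat_lit 2) (nat_lit 5) (nat_lit 4) (nat_lit 4) (nat_lit 2) (nat_lit 4) (nat_lit 357) (nat_lit 287) (nat_lit 136))))) (XT.nd (nat_lit 234) (nat_lit 0) (nat_lit 0) (XT.nd (nat_lit 78) (nat_lit 0) (nat_lit 0) (XT.lf (nat_lit 0) (nat_lit 672483630288) (nat_lit 152) (nat_lit 1076838216101) (nat_lit 0) (nat_lit 554974479322) (nat_lit 2) (nat_lit 5) (nat_lit 4) (nat_lit 4) (nat_lit 2) (nat_lit 4) (nat_lit 358) (nat_lit 287) (nat_lit 135)) (XT.nd (nat_lit 78) (nat_lit 0) (nat_lit 0) (XT.lf (nat_lit 0) (nat_lit 775432290669) (nat_lit 152) (nat_lit 1050557012657) (nat_lit 0) (nat_lit 657923067371) (nat_lit 2) (nat_lit 5) (nat_lit 4) (nat_lit 4) (nat_lit 2) (nat_lit 4) (nat_lit 359) (nat_lit 287) (nat_lit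 134)) (XT.lf (nat_lit 0) (nat_lit 886616774471) (nat_lit 152) (nat_lit 1022173446217) (nat_lit 0) (nat_lit 769107484199) (nat_lit 2) (nat_lit 5) (nat_lit 4) (nat_lit 4) (nat_lit 2) (nat_lit 4) (nat_lit 360) (nat_lit 287) (nat_lit 133)))) (XT.nd (nat_lit 34944) (nat_lit 0) (nat_lit 3040) (XT.nd (nat_lit 78) (nat_lit 0) (nat_lit 0) (XT.lf (nat_lit 0) (nat_lit 1006695952709) (nat_lit 152) (nat_lit 991519317869) (nat_lit 0) (nat_lit 889186600424) (nat_lit 2) (nat_lit 5) (nat_lit 4) (nat_lit 4) (nat_lit 2) (nat_lit 4) (nat_lit 361) (nat_lit 287) (nat_lit 132)) (XT.lf (nat_lit 0) (nat_lit 1136381405698) (nat_lit 152) (nat_lit 958412973519) (nat_lit 0) (nat_lit 1018871995993) (nat_lit 2) (nat_lit 5) (nat_lit 4) (nat_lit 4) (nat_lit 2) (nat_lit 4) (nat_lit 362) (nat_lit 287) (nat_lit 131))) (XT.nd (nat_lit 78) (nat_lit 0) (nat_lit 0) (XT.lf (nat_lit 0) (nat_lit 9328127465) (nat_lit 532) (nat_lit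 4167680596) (nat_lit 532) (nat_lit 4167680596) (nat_lit 42) (nat_lit 3) (nat_lit 49) (nat_lit 3) (nat_lit 49) (nat_lit 5) (nat_lit 288) (nat_lit 288) (nat_lit 204)) (XT.lf (nat_lit 76) (nat_lit 7853197512) (nat_lit 0) (nat_lit 11785800424) (nat_lit 532) (nat_lit 17081959841) (nat_lit 43) (nat_lit 5) (nat_lit 42) (nat_lit 3) (nat_lit 49) (nat_lit 5) (nat_lit 289) (nat_lit 288) (nat_lit 203)))))) (XT.nd (nat_lit 546) (nat_lit 912) (nat_lit 0) (XT.nd (nat_lit 234) (nat_lit 304) (nat_lit 0) (XT.nd (nat_lit 78) (nat_lit 0) (nat_lit 0) (XT.lf (nat_lit 0) (nat_lit 21040911790) (nat_lit 456) (nat_lit 12517944077) (nat_lit 532) (nat_lit 4640374623) (nat_lit 43) (nat_lit 5) (nat_lit 49) (nat_lit 5) (nat_lit 50) (nat_lit 5) (nat_lit 290) (nat_lit 288) (nat_lit 202)) (XT.nd (nat_lit 78) (nat_lit 0) (nat_lit 0) (XT.lf (nat_lit 76) (nat_lit 5085175908) (nat_lit 0) (nat_lit 17893800968) (nat_lit 532)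 (nat_lit 16782884896) (nat_lit 44) (nat_lit 5) (nat_lit 43) (nat_lit 5) (nat_lit 50) (nat_lit 5) (nat_lit 291) (nat_lit 288) (nat_lit 201)) (XT.lf (nat_lit 76) (nat_lit 24805588538) (nat_lit 0) (nat_lit 604595163) (nat_lit 532) (nat_lit 16012287504) (nat_lit 44) (nat_lit 5) (nat_lit 43) (nat_lit 5) (nat_lit 50) (nat_lit 5) (nat_lit 292) (nat_lit 288) (nat_lit 200)))) (XT.nd (nat_lit 156) (nat_lit 380) (nat_lit 0) (XT.nd (nat_lit 78) (nat_lit 0) (nat_lit 0) (XT.lf (nat_lit 76) (nat_lit 2579193467) (nat_lit 0) (nat_lit 25949424400) (nat_lit 532) (nat_lit 14647907296) (nat_lit 45) (nat_lit 5) (nat_lit 44) (nat_lit 5) (nat_lit 51) (nat_lit 5) (nat_lit 293) (nat_lit 288) (nat_lit 199)) (XT.lf (nat_lit 76) (nat_lit 24236514597) (nat_lit 0) (nat_lit 8126037974) (nat_lit 532) (nat_lit 12671081980) (nat_lit 45) (nat_lit 5) (nat_lit 44) (nat_lit 5) (nat_lit 51) (nat_lit 5) (nat_lit 294) (nat_lit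 288) (nat_lit 198))) (XT.nd (nat_lit 78) (nat_lit 0) (nat_lit 0) (XT.lf (nat_lit 0) (nat_lit 333260324) (nat_lit 456) (nat_lit 36442138053) (nat_lit 532) (nat_lit 10242150811) (nat_lit 39) (nat_lit 5) (nat_lit 45) (nat_lit 5) (nat_lit 46) (nat_lit 5) (nat_lit 295) (nat_lit 288) (nat_lit 197)) (XT.lf (nat_lit 0) (nat_lit 24111711743) (nat_lit 456) (nat_lit 18200756791) (nat_lit 532) (nat_lit 6786024025) (nat_lit 39) (nat_lit 5) (nat_lit 45) (nat_lit 5) (nat_lit 46) (nat_lit 5) (nat_lit 296) (nat_lit 288) (nat_lit 196))))) (XT.nd (nat_lit 312) (nat_lit 380) (nat_lit 0) (XT.nd (nat_lit 156) (nat_lit 228) (nat_lit 0) (XT.nd (nat_lit 78) (nat_lit 304) (nat_lit 0) (XT.lf (nat_lit 0) (nat_lit 48325660676) (nat_lit 532) (nat_lit 1592507502) (nat_lit 76) (nat_lit 1425101174) (nat_lit 39) (nat_lit 5) (nat_lit 46) (nat_lit 5) (nat_lit 40) (nat_lit 5) (nat_lit 297) (nat_lit 288) (nat_lit 195))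 (XT.lf (nat_lit 0) (nat_lit 2084427025) (nat_lit 304) (nat_lit 29316447441) (nat_lit 76) (nat_lit 22277955287) (nat_lit 35) (nat_lit 5) (nat_lit 39) (nat_lit 5) (nat_lit 36) (nat_lit 5) (nat_lit 298) (nat_lit 288) (nat_lit 194))) (XT.nd (nat_lit 78) (nat_lit 228) (nat_lit 0) (XT.lf (nat_lit 0) (nat_lit 7473628894) (nat_lit 304) (nat_lit 3795851826) (nat_lit 76) (nat_lit 44922129612) (nat_lit 35) (nat_lit 5) (nat_lit 39) (nat_lit 5) (nat_lit 36) (nat_lit 5) (nat_lit 299) (nat_lit 288) (nat_lit 193)) (XT.lf (nat_lit 0) (nat_lit 14160621205) (nat_lit 304) (nat_lit 34109833385) (nat_lit 76) (nat_lit 10565634112) (nat_lit 32) (nat_lit 5) (nat_lit 36) (nat_lit 5) (nat_lit 33) (nat_lit 5) (nat_lit 300) (nat_lit 288) (nat_lit 192)))) (XT.nd (nat_lit 156) (nat_lit 152) (nat_lit 0) (XT.nd (nat_lit 78) (nat_lit 228) (nat_lit 0) (XT.lf (nat_lit 0) (nat_lit 21779437505) (nat_lit 304) (nat_lit 6235960729)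 (nat_lit 76) (nat_lit 33644985061) (nat_lit 32) (nat_lit 5) (nat_lit 36) (nat_lit 5) (nat_lit 33) (nat_lit 5) (nat_lit 301) (nat_lit 288) (nat_lit 191)) (XT.lf (nat_lit 0) (nat_lit 25121994935) (nat_lit 228) (nat_lit 5487791147) (nat_lit 304) (nat_lit 34052679808) (nat_lit 29) (nat_lit 5) (nat_lit 32) (nat_lit 5) (nat_lit 33) (nat_lit 5) (nat_lit 302) (nat_lit 288) (nat_lit 190))) (XT.nd (nat_lit 78) (nat_lit 152) (nat_lit 0) (XT.lf (nat_lit 0) (nat_lit 40772577573) (nat_lit 304) (nat_lit 9008050511) (nat_lit 76) (nat_lit 18074011910) (nat_lit 29) (nat_lit 5) (nat_lit 33) (nat_lit 5) (nat_lit 30) (nat_lit 5) (nat_lit 303) (nat_lit 288) (nat_lit 189)) (XT.lf (nat_lit 0) (nat_lit 25076414490) (nat_lit 152) (nat_lit 27415692442) (nat_lit 228) (nat_lit 18750589583) (nat_lit 27) (nat_lit 5) (nat_lit 29) (nat_lit 5) (nat_lit 30) (nat_lit 5) (nat_lit 304) (nat_lit 288) (nat_lit 188))))))))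
noncomputable def xc93 : XT := (XT.nd (nat_lit 2262) (nat_lit 380) (nat_lit 0) (XT.nd (nat_lit 1092) (nat_lit 608) (nat_lit 0) (XT.nd (nat_lit 546) (nat_lit 380) (nat_lit 0) (XT.nd (nat_lit 234) (nat_lit 304) (nat_lit 0) (XT.nd (nat_lit 78) (nat_lit 228) (nat_lit 0) (XT.lf (nat_lit 0) (nat_lit 62397561238) (nat_lit 152) (nat_lit 2996104353) (nat_lit 228) (nat_lit 9488579844) (nat_lit 27) (nat_lit 5) (nat_lit 29) (nat_lit 5) (nat_lit 30) (nat_lit 5) (nat_lit 305) (nat_lit 288) (nat_lit 187)) (XT.nd (nat_lit 78) (nat_lit 0) (nat_lit 0) (XT.lf (nat_lit 0) (nat_lit 1669619357) (nat_lit 228) (nat_lit 54207894472) (nat_lit 76) (nat_lit 22839982390) (nat_lit 24) (nat_lit 5) (nat_lit 27) (nat_lit 5) (nat_lit 25) (nat_lit 5) (nat_lit 306) (nat_lit 288) (nat_lit 186)) (XT.lf (nat_lit 0) (nat_lit 13634204808) (nat_lit 228) (nat_lit 17994314705) (nat_lit 76) (nat_lit 51177226371) (nat_lit 24) (nat_lit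 5) (nat_lit 27) (nat_lit 5) (nat_lit 25) (nat_lit 5) (nat_lit 307) (nat_lit 288) (nat_lit 185)))) (XT.nd (nat_lit 156) (nat_lit 152) (nat_lit 0) (XT.nd (nat_lit 78) (nat_lit 0) (nat_lit 0) (XT.lf (nat_lit 0) (nat_lit 22226003078) (nat_lit 152) (nat_lit 4862933885) (nat_lit 228) (nat_lit 60089484017) (nat_lit 22) (nat_lit 5) (nat_lit 24) (nat_lit 5) (nat_lit 25) (nat_lit 5) (nat_lit 308) (nat_lit 288) (nat_lit 184)) (XT.lf (nat_lit 0) (nat_lit 42701572370) (nat_lit 228) (nat_lit 25767522342) (nat_lit 76) (nat_lit 23345296960) (nat_lit 22) (nat_lit 5) (nat_lit 25) (nat_lit 5) (nat_lit 23) (nat_lit 5) (nat_lit 309) (nat_lit 288) (nat_lit 183))) (XT.nd (nat_lit 78) (nat_lit 0) (nat_lit 0) (XT.lf (nat_lit 0) (nat_lit 17288632482) (nat_lit 152) (nat_lit 42815292529) (nat_lit 228) (nat_lit 36674061794) (nat_lit 20) (nat_lit 5) (nat_lit 22) (nat_lit 5) (nat_lit 23) (nat_lit 5) (nat_lit 310)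 (nat_lit 288) (nat_lit 182)) (XT.lf (nat_lit 0) (nat_lit 65252684095) (nat_lit 152) (nat_lit 14348970756) (nat_lit 228) (nat_lit 22480762632) (nat_lit 20) (nat_lit 5) (nat_lit 22) (nat_lit 5) (nat_lit 23) (nat_lit 5) (nat_lit 311) (nat_lit 288) (nat_lit 181))))) (XT.nd (nat_lit 234) (nat_lit 228) (nat_lit 0) (XT.nd (nat_lit 78) (nat_lit 76) (nat_lit 0) (XT.lf (nat_lit 0) (nat_lit 9312246560) (nat_lit 76) (nat_lit 91963951668) (nat_lit 152) (nat_lit 6485647602) (nat_lit 19) (nat_lit 5) (nat_lit 20) (nat_lit 5) (nat_lit 21) (nat_lit 4) (nat_lit 312) (nat_lit 288) (nat_lit 180)) (XT.nd (nat_lit 78) (nat_lit 0) (nat_lit 0) (XT.lf (nat_lit 0) (nat_lit 11653966485) (nat_lit 152) (nat_lit 53235251885) (nat_lit 76) (nat_lit 48873286043) (nat_lit 18) (nat_lit 5) (nat_lit 20) (nat_lit 5) (nat_lit 19) (nat_lit 5) (nat_lit 313) (nat_lit 288) (nat_lit 179)) (XT.lf (nat_lit 0) (nat_lit 30893205211)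 (nat_lit 152) (nat_lit 4574042355) (nat_lit 76) (nat_lit 84762585773) (nat_lit 18) (nat_lit 5) (nat_lit 20) (nat_lit 5) (nat_lit 19) (nat_lit 5) (nat_lit 314) (nat_lit 288) (nat_lit 178)))) (XT.nd (nat_lit 156) (nat_lit 76) (nat_lit 0) (XT.nd (nat_lit 78) (nat_lit 0) (nat_lit 0) (XT.lf (nat_lit 0) (nat_lit 50504828066) (nat_lit 152) (nat_lit 2380331504) (nat_lit 228) (nat_lit 74232304967) (nat_lit 16) (nat_lit 5) (nat_lit 18) (nat_lit 5) (nat_lit 19) (nat_lit 5) (nat_lit 315) (nat_lit 288) (nat_lit 177)) (XT.lf (nat_lit 0) (nat_lit 77565892982) (nat_lit 228) (nat_lit 25103083189) (nat_lit 76) (nat_lit 31812778167) (nat_lit 16) (nat_lit 5) (nat_lit 19) (nat_lit 5) (nat_lit 17) (nat_lit 4) (nat_lit 316) (nat_lit 288) (nat_lit 176))) (XT.nd (nat_lit 78) (nat_lit 0) (nat_lit 0) (XT.lf (nat_lit 0) (nat_lit 32067987280) (nat_lit 76) (nat_lit 72985196110) (nat_lit 152) (nat_lit 37315437848)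 (nat_lit 15) (nat_lit 5) (nat_lit 16) (nat_lit 5) (nat_lit 17) (nat_lit 4) (nat_lit 317) (nat_lit 288) (nat_lit 175)) (XT.lf (nat_lit 0) (nat_lit 95238827364) (nat_lit 76) (nat_lit 40186062255) (nat_lit 152) (nat_lit 15406714915) (nat_lit 15) (nat_lit 5) (nat_lit 16) (nat_lit 5) (nat_lit 17) (nat_lit 4) (nat_lit 318) (nat_lit 288) (nat_lit 174)))))) (XT.nd (nat_lit 546) (nat_lit 228) (nat_lit 0) (XT.nd (nat_lit 234) (nat_lit 152) (nat_lit 0) (XT.nd (nat_lit 78) (nat_lit 0) (nat_lit 0) (XT.lf (nat_lit 0) (nat_lit 3465033525) (nat_lit 152) (nat_lit 4459187533) (nat_lit 228) (nat_lit 152024928857) (nat_lit 12) (nat_lit 5) (nat_lit 14) (nat_lit 5) (nat_lit 15) (nat_lit 5) (nat_lit 319) (nat_lit 288) (nat_lit 173)) (XT.nd (nat_lit 78) (nat_lit 0) (nat_lit 0) (XT.lf (nat_lit 0) (nat_lit 34668613469) (nat_lit 228) (nat_lit 100527302847) (nat_lit 76) (nat_lit 34377822422) (nat_lit 12) (nat_lit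 5) (nat_lit 15) (nat_lit 5) (nat_lit 13) (nat_lit 4) (nat_lit 320) (nat_lit 288) (nat_lit 172)) (XT.lf (nat_lit 0) (nat_lit 63667576098) (nat_lit 228) (nat_lit 40211157669) (nat_lit 76) (nat_lit 76080360606) (nat_lit 12) (nat_lit 5) (nat_lit 15) (nat_lit 5) (nat_lit 13) (nat_lit 4) (nat_lit 321) (nat_lit 288) (nat_lit 171)))) (XT.nd (nat_lit 156) (nat_lit 76) (nat_lit 0) (XT.nd (nat_lit 78) (nat_lit 0) (nat_lit 0) (XT.lf (nat_lit 0) (nat_lit 26241708244) (nat_lit 76) (nat_lit 69375116551) (nat_lit 152) (nat_lit 95508025259) (nat_lit 11) (nat_lit 5) (nat_lit 12) (nat_lit 5) (nat_lit 13) (nat_lit 4) (nat_lit 322) (nat_lit 288) (nat_lit 170)) (XT.lf (nat_lit 0) (nat_lit 100296392786) (nat_lit 76) (nat_lit 30924345241) (nat_lit 152) (nat_lit 71875231234) (nat_lit 11) (nat_lit 5) (nat_lit 12) (nat_lit 5) (nat_lit 13) (nat_lit 4) (nat_lit 323) (nat_lit 288) (nat_lit 169))) (XT.nd (nat_lit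 78) (nat_lit 76) (nat_lit 0) (XT.lf (nat_lit 0) (nat_lit 169927276124) (nat_lit 152) (nat_lit 36005520217) (nat_lit 0) (nat_lit 10071637682) (nat_lit 11) (nat_lit 5) (nat_lit 13) (nat_lit 4) (nat_lit 11) (nat_lit 4) (nat_lit 324) (nat_lit 288) (nat_lit 168)) (XT.lf (nat_lit 0) (nat_lit 37188010685) (nat_lit 76) (nat_lit 176239300841) (nat_lit 76) (nat_lit 16382507389) (nat_lit 10) (nat_lit 4) (nat_lit 11) (nat_lit 5) (nat_lit 11) (nat_lit 4) (nat_lit 325) (nat_lit 288) (nat_lit 167))))) (XT.nd (nat_lit 312) (nat_lit 76) (nat_lit 0) (XT.nd (nat_lit 156) (nat_lit 76) (nat_lit 0) (XT.nd (nat_lit 78) (nat_lit 0) (nat_lit 0) (XT.lf (nat_lit 0) (nat_lit 15912352875) (nat_lit 152) (nat_lit 126760168924) (nat_lit 76) (nat_lit 101936178309) (nat_lit 9) (nat_lit 5) (nat_lit 11) (nat_lit 5) (nat_lit 10) (nat_lit 4) (nat_lit 326) (nat_lit 288) (nat_lit 166)) (XT.lf (nat_lit 0) (nat_lit 49905143060)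 (nat_lit 152) (nat_lit 56056155575) (nat_lit 76) (nat_lit 154596198534) (nat_lit 9) (nat_lit 5) (nat_lit 11) (nat_lit 5) (nat_lit 10) (nat_lit 4) (nat_lit 327) (nat_lit 288) (nat_lit 165))) (XT.nd (nat_lit 78) (nat_lit 0) (nat_lit 0) (XT.lf (nat_lit 0) (nat_lit 21372349753) (nat_lit 76) (nat_lit 65758477063) (nat_lit 152) (nat_lit 190610294206) (nat_lit 8) (nat_lit 5) (nat_lit 9) (nat_lit 5) (nat_lit 10) (nat_lit 4) (nat_lit 328) (nat_lit 288) (nat_lit 164)) (XT.lf (nat_lit 0) (nat_lit 108182162482) (nat_lit 76) (nat_lit 20684559380) (nat_lit 152) (nat_lit 167310140999) (nat_lit 8) (nat_lit 5) (nat_lit 9) (nat_lit 5) (nat_lit 10) (nat_lit 4) (nat_lit 329) (nat_lit 288) (nat_lit 163)))) (XT.nd (nat_lit 156) (nat_lit 76) (nat_lit 0) (XT.nd (nat_lit 78) (nat_lit 0) (nat_lit 0) (XT.lf (nat_lit 0) (nat_lit 174614286487) (nat_lit 152) (nat_lit 114824887311) (nat_lit 0) (nat_lit 26594466975)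 (nat_lit 8) (nat_lit 5) (nat_lit 10) (nat_lit 4) (nat_lit 8) (nat_lit 4) (nat_lit 330) (nat_lit 288) (nat_lit 162)) (XT.lf (nat_lit 0) (nat_lit 224558464802) (nat_lit 152) (nat_lit 36339580601) (nat_lit 0) (nat_lit 76537971352) (nat_lit 8) (nat_lit 5) (nat_lit 10) (nat_lit 4) (nat_lit 8) (nat_lit 4) (nat_lit 331) (nat_lit 288) (nat_lit 161))) (XT.nd (nat_lit 78) (nat_lit 0) (nat_lit 0) (XT.lf (nat_lit 0) (nat_lit 50973692558) (nat_lit 76) (nat_lit 228749984131) (nat_lit 76) (nat_lit 80728866664) (nat_lit 7) (nat_lit 4) (nat_lit 8) (nat_lit 5) (nat_lit 8) (nat_lit 4) (nat_lit 332) (nat_lit 288) (nat_lit 160)) (XT.lf (nat_lit 0) (nat_lit 147337942546) (nat_lit 76) (nat_lit 192957345325) (nat_lit 76) (nat_lit 44935650066) (nat_lit 7) (nat_lit 4) (nat_lit 8) (nat_lit 5) (nat_lit 8) (nat_lit 4) (nat_lit 333) (nat_lit 288) (nat_lit 159))))))) (XT.nd (nat_lit 1170) (nat_lit 152) (nat_lit 0)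 (XT.nd (nat_lit 546) (nat_lit 76) (nat_lit 0) (XT.nd (nat_lit 234) (nat_lit 0) (nat_lit 0) (XT.nd (nat_lit 78) (nat_lit 152) (nat_lit 0) (XT.lf (nat_lit 0) (nat_lit 251410638854) (nat_lit 76) (nat_lit 154301612993) (nat_lit 76) (nat_lit 6279382741) (nat_lit 7) (nat_lit 4) (nat_lit 8) (nat_lit 5) (nat_lit 8) (nat_lit 4) (nat_lit 334) (nat_lit 288) (nat_lit 158)) (XT.nd (nat_lit 78) (nat_lit 76) (nat_lit 0) (XT.lf (nat_lit 0) (nat_lit 33694705981) (nat_lit 152) (nat_lit 77937737174) (nat_lit 76) (nat_lit 329192529617) (nat_lit 6) (nat_lit 5) (nat_lit 8) (nat_lit 5) (nat_lit 7) (nat_lit 4) (nat_lit 335) (nat_lit 288) (nat_lit 157)) (XT.lf (nat_lit 0) (nat_lit 11740580103) (nat_lit 76) (nat_lit 65068922007) (nat_lit 152) (nat_lit 395119865753) (nat_lit 5) (nat_lit 5) (nat_lit 6) (nat_lit 5) (nat_lit 7) (nat_lit 4) (nat_lit 336) (nat_lit 288) (nat_lit 156)))) (XT.nd (nat_lit 156) (nat_lit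 0) (nat_lit 0) (XT.nd (nat_lit 78) (nat_lit 0) (nat_lit 0) (XT.lf (nat_lit 0) (nat_lit 113024953958) (nat_lit 76) (nat_lit 12479162839) (nat_lit 152) (nat_lit 379847547278) (nat_lit 5) (nat_lit 5) (nat_lit 6) (nat_lit 5) (nat_lit 7) (nat_lit 4) (nat_lit 337) (nat_lit 288) (nat_lit 155)) (XT.lf (nat_lit 0) (nat_lit 179159840910) (nat_lit 152) (nat_lit 320102080538) (nat_lit 0) (nat_lit 42100579597) (nat_lit 5) (nat_lit 5) (nat_lit 7) (nat_lit 4) (nat_lit 5) (nat_lit 4) (nat_lit 338) (nat_lit 288) (nat_lit 154))) (XT.nd (nat_lit 78) (nat_lit 0) (nat_lit 0) (XT.lf (nat_lit 0) (nat_lit 237431876169) (nat_lit 152) (nat_lit 242424143088) (nat_lit 0) (nat_lit 100372277720) (nat_lit 5) (nat_lit 5) (nat_lit 7) (nat_lit 4) (nat_lit 5) (nat_lit 4) (nat_lit 339) (nat_lit 288) (nat_lit 153)) (XT.lf (nat_lit 0) (nat_lit 300365414171) (nat_lit 152) (nat_lit 158532459899) (nat_lit 0) (nat_lit 163305503559)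 (nat_lit 5) (nat_lit 5) (nat_lit 7) (nat_lit 4) (nat_lit 5) (nat_lit 4) (nat_lit 340) (nat_lit 288) (nat_lit 152))))) (XT.nd (nat_lit 312) (nat_lit 0) (nat_lit 0) (XT.nd (nat_lit 156) (nat_lit 0) (nat_lit 0) (XT.nd (nat_lit 78) (nat_lit 76) (nat_lit 0) (XT.lf (nat_lit 0) (nat_lit 368333394402) (nat_lit 152) (nat_lit 67929895070) (nat_lit 0) (nat_lit 231273194749) (nat_lit 5) (nat_lit 5) (nat_lit 7) (nat_lit 4) (nat_lit 5) (nat_lit 4) (nat_lit 341) (nat_lit 288) (nat_lit 151)) (XT.lf (nat_lit 0) (nat_lit 31496013648) (nat_lit 76) (nat_lit 411000056315) (nat_lit 76) (nat_lit 273939589032) (nat_lit 4) (nat_lit 4) (nat_lit 5) (nat_lit 5) (nat_lit 5) (nat_lit 4) (nat_lit 342) (nat_lit 288) (nat_lit 150))) (XT.nd (nat_lit 78) (nat_lit 0) (nat_lit 0) (XT.lf (nat_lit 0) (nat_lit 142738819549) (nat_lit 76) (nat_lit 381710047444) (nat_lit 76) (nat_lit 244649332355) (nat_lit 4) (nat_lit 4) (nat_lit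 5) (nat_lit 5) (nat_lit 5) (nat_lit 4) (nat_lit 343) (nat_lit 288) (nat_lit 149)) (XT.lf (nat_lit 0) (nat_lit 262880671366) (nat_lit 76) (nat_lit 350077016149) (nat_lit 76) (nat_lit 213016071612) (nat_lit 4) (nat_lit 4) (nat_lit 5) (nat_lit 5) (nat_lit 5) (nat_lit 4) (nat_lit 344) (nat_lit 288) (nat_lit 148)))) (XT.nd (nat_lit 156) (nat_lit 0) (nat_lit 0) (XT.nd (nat_lit 78) (nat_lit 0) (nat_lit 0) (XT.lf (nat_lit 0) (nat_lit 392633520815) (nat_lit 76) (nat_lit 315913507432) (nat_lit 76) (nat_lit 178852350441) (nat_lit 4) (nat_lit 4) (nat_lit 5) (nat_lit 5) (nat_lit 5) (nat_lit 4) (nat_lit 345) (nat_lit 288) (nat_lit 147)) (XT.lf (nat_lit 0) (nat_lit 532766273670) (nat_lit 76) (nat_lit 279017070869) (nat_lit 76) (nat_lit 141955717162) (nat_lit 4) (nat_lit 4) (nat_lit 5) (nat_lit 5) (nat_lit 5) (nat_lit 4) (nat_lit 346) (nat_lit 288) (nat_lit 146))) (XT.nd (nat_lit 78) (nat_lit 0) (nat_lit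 0) (XT.lf (nat_lit 0) (nat_lit 684109346244) (nat_lit 76) (nat_lit 239169060910) (nat_lit 76) (nat_lit 102107525059) (nat_lit 4) (nat_lit 4) (nat_lit 5) (nat_lit 5) (nat_lit 5) (nat_lit 4) (nat_lit 347) (nat_lit 288) (nat_lit 145)) (XT.lf (nat_lit 0) (nat_lit 847559586375) (nat_lit 76) (nat_lit 196133341201) (nat_lit 76) (nat_lit 59071636698) (nat_lit 4) (nat_lit 4) (nat_lit 5) (nat_lit 5) (nat_lit 5) (nat_lit 4) (nat_lit 348) (nat_lit 288) (nat_lit 144)))))) (XT.nd (nat_lit 546) (nat_lit 0) (nat_lit 0) (XT.nd (nat_lit 234) (nat_lit 0) (nat_lit 0) (XT.nd (nat_lit 78) (nat_lit 152) (nat_lit 0) (XT.lf (nat_lit 0) (nat_lit 1024085588078) (nat_lit 76) (nat_lit 149654885254) (nat_lit 76) (nat_lit 12593024591) (nat_lit 4) (nat_lit 4) (nat_lit 5) (nat_lit 5) (nat_lit 5) (nat_lit 4) (nat_lit 349) (nat_lit 288) (nat_lit 143)) (XT.nd (nat_lit 78) (nat_lit 76) (nat_lit 0) (XT.lf (nat_lit 0) (nat_lit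 35722648697) (nat_lit 152) (nat_lit 62758895963) (nat_lit 76) (nat_lit 1178034062145) (nat_lit 3) (nat_lit 5) (nat_lit 5) (nat_lit 5) (nat_lit 4) (nat_lit 4) (nat_lit 350) (nat_lit 288) (nat_lit 142)) (XT.lf (nat_lit 0) (nat_lit 46697940285) (nat_lit 76) (nat_lit 41648251744) (nat_lit 152) (nat_lit 1285450087812) (nat_lit 2) (nat_lit 5) (nat_lit 3) (nat_lit 5) (nat_lit 4) (nat_lit 4) (nat_lit 351) (nat_lit 288) (nat_lit 141)))) (XT.nd (nat_lit 156) (nat_lit 0) (nat_lit 0) (XT.nd (nat_lit 78) (nat_lit 0) (nat_lit 0) (XT.lf (nat_lit 0) (nat_lit 147414557131) (nat_lit 152) (nat_lit 1310761000352) (nat_lit 0) (nat_lit 20505054260) (nat_lit 2) (nat_lit 5) (nat_lit 4) (nat_lit 4) (nat_lit 2) (nat_lit 4) (nat_lit 352) (nat_lit 288) (nat_lit 140)) (XT.lf (nat_lit 0) (nat_lit 212290054070) (nat_lit 152) (nat_lit 1294198658282) (nat_lit 0) (nat_lit 85380444919) (nat_lit 2) (nat_lit 5) (nat_lit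 4) (nat_lit 4) (nat_lit 2) (nat_lit 4) (nat_lit 353) (nat_lit 288) (nat_lit 139))) (XT.nd (nat_lit 78) (nat_lit 0) (nat_lit 0) (XT.lf (nat_lit 0) (nat_lit 282355488777) (nat_lit 152) (nat_lit 1276311524678) (nat_lit 0) (nat_lit 155445781219) (nat_lit 2) (nat_lit 5) (nat_lit 4) (nat_lit 4) (nat_lit 2) (nat_lit 4) (nat_lit 354) (nat_lit 288) (nat_lit 138)) (XT.lf (nat_lit 0) (nat_lit 358026063830) (nat_lit 152) (nat_lit 1256993601711) (nat_lit 0) (nat_lit 231116265155) (nat_lit 2) (nat_lit 5) (nat_lit 4) (nat_lit 4) (nat_lit 2) (nat_lit 4) (nat_lit 355) (nat_lit 288) (nat_lit 137))))) (XT.nd (nat_lit 312) (nat_lit 0) (nat_lit 0) (XT.nd (nat_lit 156) (nat_lit 0) (nat_lit 0) (XT.nd (nat_lit 78) (nat_lit 0) (nat_lit 0) (XT.lf (nat_lit 0) (nat_lit 439750197451) (nat_lit 152) (nat_lit 1236130412800) (nat_lit 0) (nat_lit 312840314408) (nat_lit 2) (nat_lit 5) (nat_lit 4) (nat_lit 4) (nat_lit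 2) (nat_lit 4) (nat_lit 356) (nat_lit 288) (nat_lit 136)) (XT.lf (nat_lit 0) (nat_lit 528012180802) (nat_lit 152) (nat_lit 1213598324233) (nat_lit 0) (nat_lit 401102219640) (nat_lit 2) (nat_lit 5) (nat_lit 4) (nat_lit 4) (nat_lit 2) (nat_lit 4) (nat_lit 357) (nat_lit 288) (nat_lit 135))) (XT.nd (nat_lit 78) (nat_lit 0) (nat_lit 0) (XT.lf (nat_lit 0) (nat_lit 623335047858) (nat_lit 152) (nat_lit 1189263812523) (nat_lit 0) (nat_lit 496425014364) (nat_lit 2) (nat_lit 5) (nat_lit 4) (nat_lit 4) (nat_lit 2) (nat_lit 4) (nat_lit 358) (nat_lit 288) (nat_lit 134)) (XT.lf (nat_lit 0) (nat_lit 726283674869) (nat_lit 152) (nat_lit 1162982673156) (nat_lit 0) (nat_lit 599373574401) (nat_lit 2) (nat_lit 5) (nat_lit 4) (nat_lit 4) (nat_lit 2) (nat_lit 4) (nat_lit 359) (nat_lit 288) (nat_lit 133)))) (XT.nd (nat_lit 156) (nat_lit 0) (nat_lit 0) (XT.nd (nat_lit 78) (nat_lit 0) (nat_lit 0) (XT.lf (nat_lit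 0) (nat_lit 837468127773) (nat_lit 152) (nat_lit 1134599166047) (nat_lit 0) (nat_lit 710557965292) (nat_lit 2) (nat_lit 5) (nat_lit 4) (nat_lit 4) (nat_lit 2) (nat_lit 4) (nat_lit 360) (nat_lit 288) (nat_lit 132)) (XT.lf (nat_lit 0) (nat_lit 957547277401) (nat_lit 152) (nat_lit 1103945092634) (nat_lit 0) (nat_lit 830637057501) (nat_lit 2) (nat_lit 5) (nat_lit 4) (nat_lit 4) (nat_lit 2) (nat_lit 4) (nat_lit 361) (nat_lit 288) (nat_lit 131))) (XT.nd (nat_lit 34944) (nat_lit 0) (nat_lit 3040) (XT.lf (nat_lit 0) (nat_lit 1087232703900) (nat_lit 152) (nat_lit 1070838799150) (nat_lit 0) (nat_lit 960322430833) (nat_lit 2) (nat_lit 5) (nat_lit 4) (nat_lit 4) (nat_lit 2) (nat_lit 4) (nat_lit 362) (nat_lit 288) (nat_lit 130)) (XT.lf (nat_lit 0) (nat_lit 10120855541) (nat_lit 532) (nat_lit 4475909540) (nat_lit 532) (nat_lit 4475909540) (nat_lit 42) (nat_lit 3) (nat_lit 49) (nat_lit 3) (nat_lit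 49) (nat_lit 5) (nat_lit 289) (nat_lit 289) (nat_lit 202))))))))
noncomputable def xc94 : XT := (XT.nd (nat_lit 2262) (nat_lit 836) (nat_lit 0) (XT.nd (nat_lit 1092) (nat_lit 1064) (nat_lit 0) (XT.nd (nat_lit 546) (nat_lit 760) (nat_lit 0) (XT.nd (nat_lit 234) (nat_lit 228) (nat_lit 0) (XT.nd (nat_lit 78) (nat_lit 0) (nat_lit 76) (XT.lf (nat_lit 76) (nat_lit 8530549105) (nat_lit 0) (nat_lit 12766819567) (nat_lit 532) (nat_lit 18353961770) (nat_lit 43) (nat_lit 5) (nat_lit 42) (nat_lit 3) (nat_lit 49) (nat_lit 5) (nat_lit 290) (nat_lit 289) (nat_lit 201)) (XT.nd (nat_lit 78) (nat_lit 0) (nat_lit 0) (XT.lf (nat_lit 0) (nat_lit 22804122946) (nat_lit 456) (nat_lit 13466307955) (nat_lit 532) (nat_lit 4978043078) (nat_lit 43) (nat_lit 5) (nat_lit 49) (nat_lit 5) (nat_lit 50) (nat_lit 5) (nat_lit 291) (nat_lit 289) (nat_lit 200)) (XT.lf (nat_lit 76) (nat_lit 5543718044) (nat_lit 0) (nat_lit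 19348837907) (nat_lit 532) (nat_lit 18043956210) (nat_lit 44) (nat_lit 5) (nat_lit 43) (nat_lit 5) (nat_lit 50) (nat_lit 5) (nat_lit 292) (nat_lit 289) (nat_lit 199)))) (XT.nd (nat_lit 156) (nat_lit 304) (nat_lit 0) (XT.nd (nat_lit 78) (nat_lit 0) (nat_lit 76) (XT.lf (nat_lit 76) (nat_lit 26837931976) (nat_lit 0) (nat_lit 674752463) (nat_lit 532) (nat_lit 17217752469) (nat_lit 44) (nat_lit 5) (nat_lit 43) (nat_lit 5) (nat_lit 50) (nat_lit 5) (nat_lit 293) (nat_lit 289) (nat_lit 198)) (XT.lf (nat_lit 76) (nat_lit 2838407857) (nat_lit 0) (nat_lit 28037810066) (nat_lit 532) (nat_lit 15748966337) (nat_lit 45) (nat_lit 5) (nat_lit 44) (nat_lit 5) (nat_lit 51) (nat_lit 5) (nat_lit 294) (nat_lit 289) (nat_lit 197))) (XT.nd (nat_lit 78) (nat_lit 380) (nat_lit 0) (XT.lf (nat_lit 76) (nat_lit 26224397722) (nat_lit 0) (nat_lit 8787631859) (nat_lit 532) (nat_lit 13619237481) (nat_lit 45) (nat_lit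 5) (nat_lit 44) (nat_lit 5) (nat_lit 51) (nat_lit 5) (nat_lit 295) (nat_lit 289) (nat_lit 196)) (XT.lf (nat_lit 0) (nat_lit 412843589) (nat_lit 456) (nat_lit 39361596451) (nat_lit 532) (nat_lit 10999748198) (nat_lit 39) (nat_lit 5) (nat_lit 45) (nat_lit 5) (nat_lit 46) (nat_lit 5) (nat_lit 296) (nat_lit 289) (nat_lit 195))))) (XT.nd (nat_lit 234) (nat_lit 456) (nat_lit 0) (XT.nd (nat_lit 78) (nat_lit 304) (nat_lit 0) (XT.lf (nat_lit 0) (nat_lit 26089650940) (nat_lit 456) (nat_lit 19660601921) (nat_lit 532) (nat_lit 7271707171) (nat_lit 39) (nat_lit 5) (nat_lit 45) (nat_lit 5) (nat_lit 46) (nat_lit 5) (nat_lit 297) (nat_lit 289) (nat_lit 194)) (XT.nd (nat_lit 78) (nat_lit 304) (nat_lit 0) (XT.lf (nat_lit 0) (nat_lit 52240505960) (nat_lit 532) (nat_lit 1670366242) (nat_lit 76) (nat_lit 1535780318) (nat_lit 39) (nat_lit 5) (nat_lit 46) (nat_lit 5) (nat_lit 40) (nat_lit 5) (nat_lit 298)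 (nat_lit 289) (nat_lit 193)) (XT.lf (nat_lit 0) (nat_lit 2298878224) (nat_lit 304) (nat_lit 31610813937) (nat_lit 76) (nat_lit 24059478188) (nat_lit 35) (nat_lit 5) (nat_lit 39) (nat_lit 5) (nat_lit 36) (nat_lit 5) (nat_lit 299) (nat_lit 289) (nat_lit 192)))) (XT.nd (nat_lit 156) (nat_lit 228) (nat_lit 0) (XT.nd (nat_lit 78) (nat_lit 228) (nat_lit 0) (XT.lf (nat_lit 0) (nat_lit 8115683128) (nat_lit 304) (nat_lit 4052344695) (nat_lit 76) (nat_lit 48515239312) (nat_lit 35) (nat_lit 5) (nat_lit 39) (nat_lit 5) (nat_lit 36) (nat_lit 5) (nat_lit 300) (nat_lit 289) (nat_lit 191)) (XT.lf (nat_lit 0) (nat_lit 15335565048) (nat_lit 304) (nat_lit 36789246383) (nat_lit 76) (nat_lit 11414668217) (nat_lit 32) (nat_lit 5) (nat_lit 36) (nat_lit 5) (nat_lit 33) (nat_lit 5) (nat_lit 301) (nat_lit 289) (nat_lit 190))) (XT.nd (nat_lit 78) (nat_lit 228) (nat_lit 0) (XT.lf (nat_lit 0) (nat_lit 23560768567)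 (nat_lit 304) (nat_lit 6689121223) (nat_lit 76) (nat_lit 36340086991) (nat_lit 32) (nat_lit 5) (nat_lit 36) (nat_lit 5) (nat_lit 33) (nat_lit 5) (nat_lit 302) (nat_lit 289) (nat_lit 189)) (XT.lf (nat_lit 0) (nat_lit 27176313517) (nat_lit 228) (nat_lit 5919416041) (nat_lit 304) (nat_lit 36736650485) (nat_lit 29) (nat_lit 5) (nat_lit 32) (nat_lit 5) (nat_lit 33) (nat_lit 5) (nat_lit 303) (nat_lit 289) (nat_lit 188)))))) (XT.nd (nat_lit 546) (nat_lit 532) (nat_lit 0) (XT.nd (nat_lit 234) (nat_lit 380) (nat_lit 0) (XT.nd (nat_lit 78) (nat_lit 152) (nat_lit 0) (XT.lf (nat_lit 0) (nat_lit 44068956485) (nat_lit 304) (nat_lit 9684746243) (nat_lit 76) (nat_lit 19526440547) (nat_lit 29) (nat_lit 5) (nat_lit 33) (nat_lit 5) (nat_lit 30) (nat_lit 5) (nat_lit 304) (nat_lit 289) (nat_lit 187)) (XT.nd (nat_lit 78) (nat_lit 0) (nat_lit 0) (XT.lf (nat_lit 0) (nat_lit 27125363343) (nat_lit 152) (nat_lit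 29599154108) (nat_lit 228) (nat_lit 20214856889) (nat_lit 27) (nat_lit 5) (nat_lit 29) (nat_lit 5) (nat_lit 30) (nat_lit 5) (nat_lit 305) (nat_lit 289) (nat_lit 186)) (XT.lf (nat_lit 0) (nat_lit 67429028816) (nat_lit 152) (nat_lit 3226724433) (nat_lit 228) (nat_lit 10214536731) (nat_lit 27) (nat_lit 5) (nat_lit 29) (nat_lit 5) (nat_lit 30) (nat_lit 5) (nat_lit 306) (nat_lit 289) (nat_lit 185)))) (XT.nd (nat_lit 156) (nat_lit 152) (nat_lit 0) (XT.nd (nat_lit 78) (nat_lit 0) (nat_lit 0) (XT.lf (nat_lit 0) (nat_lit 1833546652) (nat_lit 228) (nat_lit 58501935497) (nat_lit 76) (nat_lit 24676910100) (nat_lit 24) (nat_lit 5) (nat_lit 27) (nat_lit 5) (nat_lit 25) (nat_lit 5) (nat_lit 307) (nat_lit 289) (nat_lit 184)) (XT.lf (nat_lit 0) (nat_lit 14753050218) (nat_lit 228) (nat_lit 19394424203) (nat_lit 76) (nat_lit 55280412924) (nat_lit 24) (nat_lit 5) (nat_lit 27) (nat_lit 5) (nat_lit 25) (nat_lit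 5) (nat_lit 308) (nat_lit 289) (nat_lit 183))) (XT.nd (nat_lit 78) (nat_lit 0) (nat_lit 0) (XT.lf (nat_lit 0) (nat_lit 24042520632) (nat_lit 152) (nat_lit 5240482582) (nat_lit 228) (nat_lit 64867471001) (nat_lit 22) (nat_lit 5) (nat_lit 24) (nat_lit 5) (nat_lit 25) (nat_lit 5) (nat_lit 309) (nat_lit 289) (nat_lit 182)) (XT.lf (nat_lit 0) (nat_lit 46142908837) (nat_lit 228) (nat_lit 27791533839) (nat_lit 76) (nat_lit 25223023900) (nat_lit 22) (nat_lit 5) (nat_lit 25) (nat_lit 5) (nat_lit 23) (nat_lit 5) (nat_lit 310) (nat_lit 289) (nat_lit 181))))) (XT.nd (nat_lit 312) (nat_lit 228) (nat_lit 0) (XT.nd (nat_lit 156) (nat_lit 152) (nat_lit 0) (XT.nd (nat_lit 78) (nat_lit 0) (nat_lit 0) (XT.lf (nat_lit 0) (nat_lit 18708166781) (nat_lit 152) (nat_lit 46228291923) (nat_lit 228) (nat_lit 39581774308) (nat_lit 20) (nat_lit 5) (nat_lit 22) (nat_lit 5) (nat_lit 23) (nat_lit 5) (nat_lit 311) (nat_lit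 289) (nat_lit 180)) (XT.lf (nat_lit 0) (nat_lit 70506642989) (nat_lit 152) (nat_lit 15485569890) (nat_lit 228) (nat_lit 24254952874) (nat_lit 20) (nat_lit 5) (nat_lit 22) (nat_lit 5) (nat_lit 23) (nat_lit 5) (nat_lit 312) (nat_lit 289) (nat_lit 179))) (XT.nd (nat_lit 78) (nat_lit 76) (nat_lit 0) (XT.lf (nat_lit 0) (nat_lit 10091649265) (nat_lit 76) (nat_lit 99308489224) (nat_lit 152) (nat_lit 6980860162) (nat_lit 19) (nat_lit 5) (nat_lit 20) (nat_lit 5) (nat_lit 21) (nat_lit 4) (nat_lit 313) (nat_lit 289) (nat_lit 178)) (XT.lf (nat_lit 0) (nat_lit 12607077060) (nat_lit 152) (nat_lit 57461063423) (nat_lit 76) (nat_lit 52793660275) (nat_lit 18) (nat_lit 5) (nat_lit 20) (nat_lit 5) (nat_lit 19) (nat_lit 5) (nat_lit 314) (nat_lit 289) (nat_lit 177)))) (XT.nd (nat_lit 156) (nat_lit 76) (nat_lit 0) (XT.nd (nat_lit 78) (nat_lit 152) (nat_lit 0) (XT.lf (nat_lit 0) (nat_lit 33383914643) (nat_lit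 152) (nat_lit 4909402214) (nat_lit 76) (nat_lit 91553325366) (nat_lit 18) (nat_lit 5) (nat_lit 20) (nat_lit 5) (nat_lit 19) (nat_lit 5) (nat_lit 315) (nat_lit 289) (nat_lit 176)) (XT.lf (nat_lit 0) (nat_lit 54575004081) (nat_lit 152) (nat_lit 2559511565) (nat_lit 228) (nat_lit 80150827828) (nat_lit 16) (nat_lit 5) (nat_lit 18) (nat_lit 5) (nat_lit 19) (nat_lit 5) (nat_lit 316) (nat_lit 289) (nat_lit 175))) (XT.nd (nat_lit 78) (nat_lit 76) (nat_lit 0) (XT.lf (nat_lit 0) (nat_lit 83788584595) (nat_lit 228) (nat_lit 27082591400) (nat_lit 76) (nat_lit 34367692888) (nat_lit 16) (nat_lit 5) (nat_lit 19) (nat_lit 5) (nat_lit 17) (nat_lit 4) (nat_lit 317) (nat_lit 289) (nat_lit 174)) (XT.lf (nat_lit 0) (nat_lit 34661437150) (nat_lit 76) (nat_lit 78812804365) (nat_lit 152) (nat_lit 40282495343) (nat_lit 15) (nat_lit 5) (nat_lit 16) (nat_lit 5) (nat_lit 17) (nat_lit 4) (nat_lit 318) (nat_lit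 289) (nat_lit 173))))))) (XT.nd (nat_lit 1170) (nat_lit 228) (nat_lit 0) (XT.nd (nat_lit 546) (nat_lit 304) (nat_lit 0) (XT.nd (nat_lit 234) (nat_lit 76) (nat_lit 0) (XT.nd (nat_lit 78) (nat_lit 228) (nat_lit 0) (XT.lf (nat_lit 0) (nat_lit 102883869560) (nat_lit 76) (nat_lit 43390569981) (nat_lit 152) (nat_lit 16622421060) (nat_lit 15) (nat_lit 5) (nat_lit 16) (nat_lit 5) (nat_lit 17) (nat_lit 4) (nat_lit 319) (nat_lit 289) (nat_lit 172)) (XT.nd (nat_lit 78) (nat_lit 0) (nat_lit 0) (XT.lf (nat_lit 0) (nat_lit 3768361153) (nat_lit 152) (nat_lit 4805230611) (nat_lit 228) (nat_lit 164170231846) (nat_lit 12) (nat_lit 5) (nat_lit 14) (nat_lit 5) (nat_lit 15) (nat_lit 5) (nat_lit 320) (nat_lit 289) (nat_lit 171)) (XT.lf (nat_lit 0) (nat_lit 37456630474) (nat_lit 228) (nat_lit 108544370311) (nat_lit 76) (nat_lit 37137452912) (nat_lit 12) (nat_lit 5) (nat_lit 15) (nat_lit 5) (nat_lit 13) (nat_lit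 4) (nat_lit 321) (nat_lit 289) (nat_lit 170)))) (XT.nd (nat_lit 156) (nat_lit 0) (nat_lit 0) (XT.nd (nat_lit 78) (nat_lit 76) (nat_lit 0) (XT.lf (nat_lit 0) (nat_lit 68774433970) (nat_lit 228) (nat_lit 43404794020) (nat_lit 76) (nat_lit 82175497506) (nat_lit 12) (nat_lit 5) (nat_lit 15) (nat_lit 5) (nat_lit 13) (nat_lit 4) (nat_lit 322) (nat_lit 289) (nat_lit 169)) (XT.lf (nat_lit 0) (nat_lit 28363712400) (nat_lit 76) (nat_lit 74915458889) (nat_lit 152) (nat_lit 103134607949) (nat_lit 11) (nat_lit 5) (nat_lit 12) (nat_lit 5) (nat_lit 13) (nat_lit 4) (nat_lit 323) (nat_lit 289) (nat_lit 168))) (XT.nd (nat_lit 78) (nat_lit 0) (nat_lit 0) (XT.lf (nat_lit 0) (nat_lit 108341092632) (nat_lit 76) (nat_lit 33389341947) (nat_lit 152) (nat_lit 77612231834) (nat_lit 11) (nat_lit 5) (nat_lit 12) (nat_lit 5) (nat_lit 13) (nat_lit 4) (nat_lit 324) (nat_lit 289) (nat_lit 167)) (XT.lf (nat_lit 0) (nat_lit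 183532803379) (nat_lit 152) (nat_lit 38865819665) (nat_lit 0) (nat_lit 10885241986) (nat_lit 11) (nat_lit 5) (nat_lit 13) (nat_lit 4) (nat_lit 11) (nat_lit 4) (nat_lit 325) (nat_lit 289) (nat_lit 166))))) (XT.nd (nat_lit 312) (nat_lit 76) (nat_lit 0) (XT.nd (nat_lit 156) (nat_lit 76) (nat_lit 0) (XT.nd (nat_lit 78) (nat_lit 76) (nat_lit 0) (XT.lf (nat_lit 0) (nat_lit 40182683781) (nat_lit 76) (nat_lit 190329789606) (nat_lit 76) (nat_lit 17681237978) (nat_lit 10) (nat_lit 4) (nat_lit 11) (nat_lit 5) (nat_lit 11) (nat_lit 4) (nat_lit 326) (nat_lit 289) (nat_lit 165)) (XT.lf (nat_lit 0) (nat_lit 17195782047) (nat_lit 152) (nat_lit 136882241854) (nat_lit 76) (nat_lit 110098524159) (nat_lit 9) (nat_lit 5) (nat_lit 11) (nat_lit 5) (nat_lit 10) (nat_lit 4) (nat_lit 327) (nat_lit 289) (nat_lit 164))) (XT.nd (nat_lit 78) (nat_lit 76) (nat_lit 0) (XT.lf (nat_lit 0) (nat_lit 53907222043) (nat_lit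 152) (nat_lit 60523295628) (nat_lit 76) (nat_lit 166970794033) (nat_lit 9) (nat_lit 5) (nat_lit 11) (nat_lit 5) (nat_lit 10) (nat_lit 4) (nat_lit 328) (nat_lit 289) (nat_lit 163)) (XT.lf (nat_lit 0) (nat_lit 23099050825) (nat_lit 76) (nat_lit 71011600321) (nat_lit 152) (nat_lit 205848999944) (nat_lit 8) (nat_lit 5) (nat_lit 9) (nat_lit 5) (nat_lit 10) (nat_lit 4) (nat_lit 329) (nat_lit 289) (nat_lit 162)))) (XT.nd (nat_lit 156) (nat_lit 76) (nat_lit 0) (XT.nd (nat_lit 78) (nat_lit 0) (nat_lit 0) (XT.lf (nat_lit 0) (nat_lit 116852395751) (nat_lit 76) (nat_lit 22332328846) (nat_lit 152) (nat_lit 180685583948) (nat_lit 8) (nat_lit 5) (nat_lit 9) (nat_lit 5) (nat_lit 10) (nat_lit 4) (nat_lit 330) (nat_lit 289) (nat_lit 161)) (XT.lf (nat_lit 0) (nat_lit 188591608316) (nat_lit 152) (nat_lit 123995882574) (nat_lit 0) (nat_lit 28728177436) (nat_lit 8) (nat_lit 5) (nat_lit 10) (nat_lit 4) (nat_lit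 8) (nat_lit 4) (nat_lit 331) (nat_lit 289) (nat_lit 160))) (XT.nd (nat_lit 78) (nat_lit 76) (nat_lit 0) (XT.lf (nat_lit 0) (nat_lit 242530715051) (nat_lit 152) (nat_lit 39232862123) (nat_lit 0) (nat_lit 82666706378) (nat_lit 8) (nat_lit 5) (nat_lit 10) (nat_lit 4) (nat_lit 8) (nat_lit 4) (nat_lit 332) (nat_lit 289) (nat_lit 159)) (XT.lf (nat_lit 0) (nat_lit 55065121372) (nat_lit 76) (nat_lit 247043787027) (nat_lit 76) (nat_lit 87179243361) (nat_lit 7) (nat_lit 4) (nat_lit 8) (nat_lit 5) (nat_lit 8) (nat_lit 4) (nat_lit 333) (nat_lit 289) (nat_lit 158)))))) (XT.nd (nat_lit 546) (nat_lit 76) (nat_lit 0) (XT.nd (nat_lit 234) (nat_lit 76) (nat_lit 0) (XT.nd (nat_lit 78) (nat_lit 76) (nat_lit 0) (XT.lf (nat_lit 0) (nat_lit 159137508885) (nat_lit 76) (nat_lit 208388196067) (nat_lit 76) (nat_lit 48523157038) (nat_lit 7) (nat_lit 4) (nat_lit 8) (nat_lit 5) (nat_lit 8) (nat_lit 4) (nat_lit 334)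 (nat_lit 289) (nat_lit 157)) (XT.nd (nat_lit 78) (nat_lit 76) (nat_lit 0) (XT.lf (nat_lit 0) (nat_lit 271535092680) (nat_lit 76) (nat_lit 166640430104) (nat_lit 76) (nat_lit 6774932403) (nat_lit 7) (nat_lit 4) (nat_lit 8) (nat_lit 5) (nat_lit 8) (nat_lit 4) (nat_lit 335) (nat_lit 289) (nat_lit 156)) (XT.lf (nat_lit 0) (nat_lit 36396264632) (nat_lit 152) (nat_lit 84161691960) (nat_lit 76) (nat_lit 355532529508) (nat_lit 6) (nat_lit 5) (nat_lit 8) (nat_lit 5) (nat_lit 7) (nat_lit 4) (nat_lit 336) (nat_lit 289) (nat_lit 155)))) (XT.nd (nat_lit 156) (nat_lit 0) (nat_lit 0) (XT.nd (nat_lit 78) (nat_lit 0) (nat_lit 0) (XT.lf (nat_lit 0) (nat_lit 12690610594) (nat_lit 76) (nat_lit 70269450091) (nat_lit 152) (nat_lit 426723187253) (nat_lit 5) (nat_lit 5) (nat_lit 6) (nat_lit 5) (nat_lit 7) (nat_lit 4) (nat_lit 337) (nat_lit 289) (nat_lit 154)) (XT.lf (nat_lit 0) (nat_lit 122076935536) (nat_lit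 76) (nat_lit 13472879499) (nat_lit 152) (nat_lit 410229547579) (nat_lit 5) (nat_lit 5) (nat_lit 6) (nat_lit 5) (nat_lit 7) (nat_lit 4) (nat_lit 338) (nat_lit 289) (nat_lit 153))) (XT.nd (nat_lit 78) (nat_lit 0) (nat_lit 0) (XT.lf (nat_lit 0) (nat_lit 193497702181) (nat_lit 152) (nat_lit 345700701772) (nat_lit 0) (nat_lit 45472686556) (nat_lit 5) (nat_lit 5) (nat_lit 7) (nat_lit 4) (nat_lit 5) (nat_lit 4) (nat_lit 339) (nat_lit 289) (nat_lit 152)) (XT.lf (nat_lit 0) (nat_lit 256431124409) (nat_lit 152) (nat_lit 261809236379) (nat_lit 0) (nat_lit 108405819743) (nat_lit 5) (nat_lit 5) (nat_lit 7) (nat_lit 4) (nat_lit 5) (nat_lit 4) (nat_lit 340) (nat_lit 289) (nat_lit 151))))) (XT.nd (nat_lit 312) (nat_lit 0) (nat_lit 0) (XT.nd (nat_lit 156) (nat_lit 76) (nat_lit 0) (XT.nd (nat_lit 78) (nat_lit 0) (nat_lit 0) (XT.lf (nat_lit 0) (nat_lit 324398997441) (nat_lit 152) (nat_lit 171206873213)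 (nat_lit 0) (nat_lit 176373425145) (nat_lit 5) (nat_lit 5) (nat_lit 7) (nat_lit 4) (nat_lit 5) (nat_lit 4) (nat_lit 341) (nat_lit 289) (nat_lit 150)) (XT.lf (nat_lit 0) (nat_lit 397804093858) (nat_lit 152) (nat_lit 73356709381) (nat_lit 0) (nat_lit 249778273757) (nat_lit 5) (nat_lit 5) (nat_lit 7) (nat_lit 4) (nat_lit 5) (nat_lit 4) (nat_lit 342) (nat_lit 289) (nat_lit 149))) (XT.nd (nat_lit 78) (nat_lit 0) (nat_lit 0) (XT.lf (nat_lit 0) (nat_lit 34023080204) (nat_lit 76) (nat_lit 443876582517) (nat_lit 76) (nat_lit 295850532967) (nat_lit 4) (nat_lit 4) (nat_lit 5) (nat_lit 5) (nat_lit 5) (nat_lit 4) (nat_lit 343) (nat_lit 289) (nat_lit 148)) (XT.lf (nat_lit 0) (nat_lit 154164763505) (nat_lit 76) (nat_lit 412243630588) (nat_lit 76) (nat_lit 264217368585) (nat_lit 4) (nat_lit 4) (nat_lit 5) (nat_lit 5) (nat_lit 5) (nat_lit 4) (nat_lit 344) (nat_lit 289) (nat_lit 147)))) (XT.nd (nat_lit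 156) (nat_lit 0) (nat_lit 0) (XT.nd (nat_lit 78) (nat_lit 0) (nat_lit 0) (XT.lf (nat_lit 0) (nat_lit 283917456920) (nat_lit 76) (nat_lit 378080195357) (nat_lit 76) (nat_lit 230053736638) (nat_lit 4) (nat_lit 4) (nat_lit 5) (nat_lit 5) (nat_lit 5) (nat_lit 4) (nat_lit 345) (nat_lit 289) (nat_lit 146)) (XT.lf (nat_lit 0) (nat_lit 424050065300) (nat_lit 76) (nat_lit 341183826837) (nat_lit 76) (nat_lit 193157185973) (nat_lit 4) (nat_lit 4) (nat_lit 5) (nat_lit 5) (nat_lit 5) (nat_lit 4) (nat_lit 346) (nat_lit 289) (nat_lit 145))) (XT.nd (nat_lit 78) (nat_lit 0) (nat_lit 0) (XT.lf (nat_lit 0) (nat_lit 575393004100) (nat_lit 76) (nat_lit 301335879881) (nat_lit 76) (nat_lit 153309070366) (nat_lit 4) (nat_lit 4) (nat_lit 5) (nat_lit 5) (nat_lit 5) (nat_lit 4) (nat_lit 347) (nat_lit 289) (nat_lit 144)) (XT.lf (nat_lit 0) (nat_lit 738843120366) (nat_lit 76) (nat_lit 258300218508) (nat_lit 76)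 (nat_lit 110273252833) (nat_lit 4) (nat_lit 4) (nat_lit 5) (nat_lit 5) (nat_lit 5) (nat_lit 4) (nat_lit 348) (nat_lit 289) (nat_lit 143))))))))
noncomputable def xc95 : XT := (XT.nd (nat_lit 37206) (nat_lit 0) (nat_lit 380) (XT.nd (nat_lit 36036) (nat_lit 0) (nat_lit 2052) (XT.nd (nat_lit 546) (nat_lit 0) (nat_lit 0) (XT.nd (nat_lit 234) (nat_lit 76) (nat_lit 0) (XT.nd (nat_lit 78) (nat_lit 76) (nat_lit 0) (XT.lf (nat_lit 0) (nat_lit 915369007380) (nat_lit 76) (nat_lit 211821816576) (nat_lit 76) (nat_lit 63794706309) (nat_lit 4) (nat_lit 4) (nat_lit 5) (nat_lit 5) (nat_lit 5) (nat_lit 4) (nat_lit 349) (nat_lit 289) (nat_lit 142)) (XT.nd (nat_lit 78) (nat_lit 76) (nat_lit 0) (XT.lf (nat_lit 0) (nat_lit 1106016744472) (nat_lit 76) (nat_lit 161625246518) (nat_lit 76) (nat_lit 13598002369) (nat_lit 4) (nat_lit 4) (nat_lit 5) (nat_lit 5) (nat_lit 5) (nat_lit 4) (nat_lit 350) (nat_lit 289)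 (nat_lit 141)) (XT.lf (nat_lit 0) (nat_lit 38582628112) (nat_lit 152) (nat_lit 67775501638) (nat_lit 76) (nat_lit 1272278550469) (nat_lit 3) (nat_lit 5) (nat_lit 5) (nat_lit 5) (nat_lit 4) (nat_lit 4) (nat_lit 351) (nat_lit 289) (nat_lit 140)))) (XT.nd (nat_lit 156) (nat_lit 0) (nat_lit 0) (XT.nd (nat_lit 78) (nat_lit 0) (nat_lit 0) (XT.lf (nat_lit 0) (nat_lit 50437777560) (nat_lit 76) (nat_lit 44978213043) (nat_lit 152) (nat_lit 1388283821768) (nat_lit 2) (nat_lit 5) (nat_lit 3) (nat_lit 5) (nat_lit 4) (nat_lit 4) (nat_lit 352) (nat_lit 289) (nat_lit 139)) (XT.lf (nat_lit 0) (nat_lit 159209711405) (nat_lit 152) (nat_lit 1415618059786) (nat_lit 0) (nat_lit 22147128835) (nat_lit 2) (nat_lit 5) (nat_lit 4) (nat_lit 4) (nat_lit 2) (nat_lit 4) (nat_lit 353) (nat_lit 289) (nat_lit 138))) (XT.nd (nat_lit 78) (nat_lit 0) (nat_lit 0) (XT.lf (nat_lit 0) (nat_lit 229275100713) (nat_lit 152) (nat_lit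 1397731013357) (nat_lit 0) (nat_lit 92212427026) (nat_lit 2) (nat_lit 5) (nat_lit 4) (nat_lit 4) (nat_lit 2) (nat_lit 4) (nat_lit 354) (nat_lit 289) (nat_lit 137)) (XT.lf (nat_lit 0) (nat_lit 304945633729) (nat_lit 152) (nat_lit 1378413171108) (nat_lit 0) (nat_lit 167882875674) (nat_lit 2) (nat_lit 5) (nat_lit 4) (nat_lit 4) (nat_lit 2) (nat_lit 4) (nat_lit 355) (nat_lit 289) (nat_lit 136))))) (XT.nd (nat_lit 234) (nat_lit 0) (nat_lit 0) (XT.nd (nat_lit 78) (nat_lit 0) (nat_lit 0) (XT.lf (nat_lit 0) (nat_lit 386669728427) (nat_lit 152) (nat_lit 1357550056936) (nat_lit 0) (nat_lit 249606892253) (nat_lit 2) (nat_lit 5) (nat_lit 4) (nat_lit 4) (nat_lit 2) (nat_lit 4) (nat_lit 356) (nat_lit 289) (nat_lit 135)) (XT.nd (nat_lit 78) (nat_lit 0) (nat_lit 0) (XT.lf (nat_lit 0) (nat_lit 474931675738) (nat_lit 152) (nat_lit 1335018037572) (nat_lit 0) (nat_lit 337868767232) (nat_lit 2) (nat_lit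 5) (nat_lit 4) (nat_lit 4) (nat_lit 2) (nat_lit 4) (nat_lit 357) (nat_lit 289) (nat_lit 134)) (XT.lf (nat_lit 0) (nat_lit 570254509424) (nat_lit 152) (nat_lit 1310683589939) (nat_lit 0) (nat_lit 433191533945) (nat_lit 2) (nat_lit 5) (nat_lit 4) (nat_lit 4) (nat_lit 2) (nat_lit 4) (nat_lit 358) (nat_lit 289) (nat_lit 133)))) (XT.nd (nat_lit 156) (nat_lit 0) (nat_lit 0) (XT.nd (nat_lit 78) (nat_lit 0) (nat_lit 0) (XT.lf (nat_lit 0) (nat_lit 673203105537) (nat_lit 152) (nat_lit 1284402509902) (nat_lit 0) (nat_lit 536140068044) (nat_lit 2) (nat_lit 5) (nat_lit 4) (nat_lit 4) (nat_lit 2) (nat_lit 4) (nat_lit 359) (nat_lit 289) (nat_lit 132)) (XT.lf (nat_lit 0) (nat_lit 784387529831) (nat_lit 152) (nat_lit 1256019057728) (nat_lit 0) (nat_lit 647324434919) (nat_lit 2) (nat_lit 5) (nat_lit 4) (nat_lit 4) (nat_lit 2) (nat_lit 4) (nat_lit 360) (nat_lit 289) (nat_lit 131))) (XT.nd (nat_lit 78)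 (nat_lit 0) (nat_lit 0) (XT.lf (nat_lit 0) (nat_lit 904466652969) (nat_lit 152) (nat_lit 1225365035182) (nat_lit 0) (nat_lit 767403504891) (nat_lit 2) (nat_lit 5) (nat_lit 4) (nat_lit 4) (nat_lit 2) (nat_lit 4) (nat_lit 361) (nat_lit 289) (nat_lit 130)) (XT.lf (nat_lit 0) (nat_lit 1034152054940) (nat_lit 152) (nat_lit 1192258788796) (nat_lit 0) (nat_lit 897088857634) (nat_lit 2) (nat_lit 5) (nat_lit 4) (nat_lit 4) (nat_lit 2) (nat_lit 4) (nat_lit 362) (nat_lit 289) (nat_lit 129)))))) (XT.nd (nat_lit 546) (nat_lit 988) (nat_lit 0) (XT.nd (nat_lit 234) (nat_lit 0) (nat_lit 76) (XT.nd (nat_lit 78) (nat_lit 0) (nat_lit 0) (XT.lf (nat_lit 0) (nat_lit 10970371275) (nat_lit 532) (nat_lit 4812389794) (nat_lit 532) (nat_lit 4812389794) (nat_lit 42) (nat_lit 3) (nat_lit 49) (nat_lit 3) (nat_lit 49) (nat_lit 5) (nat_lit 290) (nat_lit 290) (nat_lit 200)) (XT.nd (nat_lit 78) (nat_lit 0) (nat_lit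 76) (XT.lf (nat_lit 76) (nat_lit 9255084761) (nat_lit 0) (nat_lit 13820876988) (nat_lit 532) (nat_lit 19741213161) (nat_lit 43) (nat_lit 5) (nat_lit 42) (nat_lit 3) (nat_lit 49) (nat_lit 5) (nat_lit 291) (nat_lit 290) (nat_lit 199)) (XT.lf (nat_lit 0) (nat_lit 24696986914) (nat_lit 456) (nat_lit 14498112206) (nat_lit 532) (nat_lit 5347512935) (nat_lit 43) (nat_lit 5) (nat_lit 49) (nat_lit 5) (nat_lit 50) (nat_lit 5) (nat_lit 292) (nat_lit 290) (nat_lit 198)))) (XT.nd (nat_lit 156) (nat_lit 0) (nat_lit 76) (XT.nd (nat_lit 78) (nat_lit 0) (nat_lit 0) (XT.lf (nat_lit 76) (nat_lit 6031563964) (nat_lit 0) (nat_lit 20916920576) (nat_lit 532) (nat_lit 19417548600) (nat_lit 44) (nat_lit 5) (nat_lit 43) (nat_lit 5) (nat_lit 50) (nat_lit 5) (nat_lit 293) (nat_lit 290) (nat_lit 197)) (XT.lf (nat_lit 76) (nat_lit 29026029938) (nat_lit 0) (nat_lit 747413804) (nat_lit 532) (nat_lit 18530428124) (nat_lit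 44) (nat_lit 5) (nat_lit 43) (nat_lit 5) (nat_lit 50) (nat_lit 5) (nat_lit 294) (nat_lit 290) (nat_lit 196))) (XT.nd (nat_lit 78) (nat_lit 0) (nat_lit 0) (XT.lf (nat_lit 76) (nat_lit 3110815631) (nat_lit 0) (nat_lit 30291493063) (nat_lit 532) (nat_lit 16948206739) (nat_lit 45) (nat_lit 5) (nat_lit 44) (nat_lit 5) (nat_lit 51) (nat_lit 5) (nat_lit 295) (nat_lit 290) (nat_lit 195)) (XT.lf (nat_lit 76) (nat_lit 28364326525) (nat_lit 0) (nat_lit 9500511103) (nat_lit 532) (nat_lit 14652594159) (nat_lit 45) (nat_lit 5) (nat_lit 44) (nat_lit 5) (nat_lit 51) (nat_lit 5) (nat_lit 296) (nat_lit 290) (nat_lit 194))))) (XT.nd (nat_lit 312) (nat_lit 456) (nat_lit 0) (XT.nd (nat_lit 156) (nat_lit 304) (nat_lit 0) (XT.nd (nat_lit 78) (nat_lit 0) (nat_lit 0) (XT.lf (nat_lit 0) (nat_lit 491243537) (nat_lit 456) (nat_lit 42514028414) (nat_lit 532) (nat_lit 11826766224) (nat_lit 39) (nat_lit 5) (nat_lit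 45) (nat_lit 5) (nat_lit 46) (nat_lit 5) (nat_lit 297) (nat_lit 290) (nat_lit 193)) (XT.lf (nat_lit 0) (nat_lit 28218834554) (nat_lit 456) (nat_lit 21236694747) (nat_lit 532) (nat_lit 7804405014) (nat_lit 39) (nat_lit 5) (nat_lit 45) (nat_lit 5) (nat_lit 46) (nat_lit 5) (nat_lit 298) (nat_lit 290) (nat_lit 192))) (XT.nd (nat_lit 78) (nat_lit 304) (nat_lit 0) (XT.lf (nat_lit 0) (nat_lit 56461578082) (nat_lit 532) (nat_lit 1761521381) (nat_lit 76) (nat_lit 1655788705) (nat_lit 39) (nat_lit 5) (nat_lit 46) (nat_lit 5) (nat_lit 40) (nat_lit 5) (nat_lit 299) (nat_lit 290) (nat_lit 191)) (XT.lf (nat_lit 0) (nat_lit 2523681004) (nat_lit 304) (nat_lit 34095998240) (nat_lit 76) (nat_lit 25983624712) (nat_lit 35) (nat_lit 5) (nat_lit 39) (nat_lit 5) (nat_lit 36) (nat_lit 5) (nat_lit 300) (nat_lit 290) (nat_lit 190)))) (XT.nd (nat_lit 156) (nat_lit 228) (nat_lit 0) (XT.nd (nat_lit 78) (nat_lit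 228) (nat_lit 0) (XT.lf (nat_lit 0) (nat_lit 8802801224) (nat_lit 304) (nat_lit 4336087075) (nat_lit 76) (nat_lit 52395892040) (nat_lit 35) (nat_lit 5) (nat_lit 39) (nat_lit 5) (nat_lit 36) (nat_lit 5) (nat_lit 301) (nat_lit 290) (nat_lit 189)) (XT.lf (nat_lit 0) (nat_lit 16598499197) (nat_lit 304) (nat_lit 39690056127) (nat_lit 76) (nat_lit 12331085309) (nat_lit 32) (nat_lit 5) (nat_lit 36) (nat_lit 5) (nat_lit 33) (nat_lit 5) (nat_lit 302) (nat_lit 290) (nat_lit 188))) (XT.nd (nat_lit 78) (nat_lit 228) (nat_lit 0) (XT.lf (nat_lit 0) (nat_lit 25479045743) (nat_lit 304) (nat_lit 7185056508) (nat_lit 76) (nat_lit 39250297316) (nat_lit 32) (nat_lit 5) (nat_lit 36) (nat_lit 5) (nat_lit 33) (nat_lit 5) (nat_lit 303) (nat_lit 290) (nat_lit 187)) (XT.lf (nat_lit 0) (nat_lit 29388620748) (nat_lit 228) (nat_lit 6386626392) (nat_lit 304) (nat_lit 39641080031) (nat_lit 29) (nat_lit 5) (nat_lit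 32) (nat_lit 5) (nat_lit 33) (nat_lit 5) (nat_lit 304) (nat_lit 290) (nat_lit 186))))))) (XT.nd (nat_lit 1170) (nat_lit 608) (nat_lit 0) (XT.nd (nat_lit 546) (nat_lit 532) (nat_lit 0) (XT.nd (nat_lit 234) (nat_lit 380) (nat_lit 0) (XT.nd (nat_lit 78) (nat_lit 152) (nat_lit 0) (XT.lf (nat_lit 0) (nat_lit 47624113526) (nat_lit 304) (nat_lit 10421847352) (nat_lit 76) (nat_lit 21094135081) (nat_lit 29) (nat_lit 5) (nat_lit 33) (nat_lit 5) (nat_lit 30) (nat_lit 5) (nat_lit 305) (nat_lit 290) (nat_lit 185)) (XT.nd (nat_lit 78) (nat_lit 0) (nat_lit 0) (XT.lf (nat_lit 0) (nat_lit 29332117113) (nat_lit 152) (nat_lit 31958689892) (nat_lit 228) (nat_lit 21801369977) (nat_lit 27) (nat_lit 5) (nat_lit 29) (nat_lit 5) (nat_lit 30) (nat_lit 5) (nat_lit 306) (nat_lit 290) (nat_lit 184)) (XT.lf (nat_lit 0) (nat_lit 72857355476) (nat_lit 152) (nat_lit 3477087809) (nat_lit 228) (nat_lit 11003296463) (nat_lit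 27) (nat_lit 5) (nat_lit 29) (nat_lit 5) (nat_lit 30) (nat_lit 5) (nat_lit 307) (nat_lit 290) (nat_lit 183)))) (XT.nd (nat_lit 156) (nat_lit 152) (nat_lit 0) (XT.nd (nat_lit 78) (nat_lit 0) (nat_lit 0) (XT.lf (nat_lit 0) (nat_lit 2006257259) (nat_lit 228) (nat_lit 63145575820) (nat_lit 76) (nat_lit 26659404058) (nat_lit 24) (nat_lit 5) (nat_lit 27) (nat_lit 5) (nat_lit 25) (nat_lit 5) (nat_lit 308) (nat_lit 290) (nat_lit 182)) (XT.lf (nat_lit 0) (nat_lit 15957393193) (nat_lit 228) (nat_lit 20912168401) (nat_lit 76) (nat_lit 59710569246) (nat_lit 24) (nat_lit 5) (nat_lit 27) (nat_lit 5) (nat_lit 25) (nat_lit 5) (nat_lit 309) (nat_lit 290) (nat_lit 181))) (XT.nd (nat_lit 78) (nat_lit 0) (nat_lit 0) (XT.lf (nat_lit 0) (nat_lit 25998876078) (nat_lit 152) (nat_lit 5649873783) (nat_lit 228) (nat_lit 70031858617) (nat_lit 22) (nat_lit 5) (nat_lit 24) (nat_lit 5) (nat_lit 25) (nat_lit 5) (nat_lit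 310) (nat_lit 290) (nat_lit 180)) (XT.lf (nat_lit 0) (nat_lit 49855955637) (nat_lit 228) (nat_lit 29982800399) (nat_lit 76) (nat_lit 27249527662) (nat_lit 22) (nat_lit 5) (nat_lit 25) (nat_lit 5) (nat_lit 23) (nat_lit 5) (nat_lit 311) (nat_lit 290) (nat_lit 179))))) (XT.nd (nat_lit 312) (nat_lit 228) (nat_lit 0) (XT.nd (nat_lit 156) (nat_lit 152) (nat_lit 0) (XT.nd (nat_lit 78) (nat_lit 0) (nat_lit 0) (XT.lf (nat_lit 0) (nat_lit 20236064723) (nat_lit 152) (nat_lit 49916075159) (nat_lit 228) (nat_lit 42725843319) (nat_lit 20) (nat_lit 5) (nat_lit 22) (nat_lit 5) (nat_lit 23) (nat_lit 5) (nat_lit 312) (nat_lit 290) (nat_lit 178)) (XT.lf (nat_lit 0) (nat_lit 76176104613) (nat_lit 152) (nat_lit 16714711669) (nat_lit 228) (nat_lit 26174540832) (nat_lit 20) (nat_lit 5) (nat_lit 22) (nat_lit 5) (nat_lit 23) (nat_lit 5) (nat_lit 313) (nat_lit 290) (nat_lit 177))) (XT.nd (nat_lit 78) (nat_lit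 76) (nat_lit 0) (XT.lf (nat_lit 0) (nat_lit 10928493364) (nat_lit 76) (nat_lit 107242384259) (nat_lit 152) (nat_lit 7519062130) (nat_lit 19) (nat_lit 5) (nat_lit 20) (nat_lit 5) (nat_lit 21) (nat_lit 4) (nat_lit 314) (nat_lit 290) (nat_lit 176)) (XT.lf (nat_lit 0) (nat_lit 13633470091) (nat_lit 152) (nat_lit 62029648932) (nat_lit 76) (nat_lit 57026164885) (nat_lit 18) (nat_lit 5) (nat_lit 20) (nat_lit 5) (nat_lit 19) (nat_lit 5) (nat_lit 315) (nat_lit 290) (nat_lit 175)))) (XT.nd (nat_lit 156) (nat_lit 76) (nat_lit 0) (XT.nd (nat_lit 78) (nat_lit 152) (nat_lit 0) (XT.lf (nat_lit 0) (nat_lit 36071134172) (nat_lit 152) (nat_lit 5275951090) (nat_lit 76) (nat_lit 98885935643) (nat_lit 18) (nat_lit 5) (nat_lit 20) (nat_lit 5) (nat_lit 19) (nat_lit 5) (nat_lit 316) (nat_lit 290) (nat_lit 174)) (XT.lf (nat_lit 0) (nat_lit 58966544333) (nat_lit 152) (nat_lit 2754630464) (nat_lit 228) (nat_lit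 86545694519) (nat_lit 16) (nat_lit 5) (nat_lit 18) (nat_lit 5) (nat_lit 19) (nat_lit 5) (nat_lit 317) (nat_lit 290) (nat_lit 173))) (XT.nd (nat_lit 78) (nat_lit 76) (nat_lit 0) (XT.lf (nat_lit 0) (nat_lit 90506606354) (nat_lit 228) (nat_lit 29224560129) (nat_lit 76) (nat_lit 37125589516) (nat_lit 16) (nat_lit 5) (nat_lit 19) (nat_lit 5) (nat_lit 17) (nat_lit 4) (nat_lit 318) (nat_lit 290) (nat_lit 172)) (XT.lf (nat_lit 0) (nat_lit 37458366944) (nat_lit 76) (nat_lit 85108220146) (nat_lit 152) (nat_lit 43489510666) (nat_lit 15) (nat_lit 5) (nat_lit 16) (nat_lit 5) (nat_lit 17) (nat_lit 4) (nat_lit 319) (nat_lit 290) (nat_lit 171)))))) (XT.nd (nat_lit 546) (nat_lit 304) (nat_lit 0) (XT.nd (nat_lit 234) (nat_lit 76) (nat_lit 0) (XT.nd (nat_lit 78) (nat_lit 228) (nat_lit 0) (XT.lf (nat_lit 0) (nat_lit 111136815071) (nat_lit 76) (nat_lit 46852918757) (nat_lit 152) (nat_lit 17937784833) (nat_lit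 15) (nat_lit 5) (nat_lit 16) (nat_lit 5) (nat_lit 17) (nat_lit 4) (nat_lit 320) (nat_lit 290) (nat_lit 170)) (XT.nd (nat_lit 78) (nat_lit 0) (nat_lit 0) (XT.lf (nat_lit 0) (nat_lit 4092227975) (nat_lit 152) (nat_lit 5180482457) (nat_lit 228) (nat_lit 177289540277) (nat_lit 12) (nat_lit 5) (nat_lit 14) (nat_lit 5) (nat_lit 15) (nat_lit 5) (nat_lit 321) (nat_lit 290) (nat_lit 169)) (XT.lf (nat_lit 0) (nat_lit 40465616267) (nat_lit 228) (nat_lit 117206386360) (nat_lit 76) (nat_lit 40116512156) (nat_lit 12) (nat_lit 5) (nat_lit 15) (nat_lit 5) (nat_lit 13) (nat_lit 4) (nat_lit 322) (nat_lit 290) (nat_lit 168)))) (XT.nd (nat_lit 156) (nat_lit 0) (nat_lit 0) (XT.nd (nat_lit 78) (nat_lit 76) (nat_lit 0) (XT.lf (nat_lit 0) (nat_lit 74287921424) (nat_lit 228) (nat_lit 46857239045) (nat_lit 76) (nat_lit 88757003058) (nat_lit 12) (nat_lit 5) (nat_lit 15) (nat_lit 5) (nat_lit 13) (nat_lit 4) (nat_lit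 323) (nat_lit 290) (nat_lit 167)) (XT.lf (nat_lit 0) (nat_lit 30652243116) (nat_lit 76) (nat_lit 80900407717) (nat_lit 152) (nat_lit 111373322975) (nat_lit 11) (nat_lit 5) (nat_lit 12) (nat_lit 5) (nat_lit 13) (nat_lit 4) (nat_lit 324) (nat_lit 290) (nat_lit 166))) (XT.nd (nat_lit 78) (nat_lit 0) (nat_lit 0) (XT.lf (nat_lit 0) (nat_lit 117026374231) (nat_lit 76) (nat_lit 36052815337) (nat_lit 152) (nat_lit 83810049630) (nat_lit 11) (nat_lit 5) (nat_lit 12) (nat_lit 5) (nat_lit 13) (nat_lit 4) (nat_lit 325) (nat_lit 290) (nat_lit 165)) (XT.lf (nat_lit 0) (nat_lit 198225154300) (nat_lit 152) (nat_lit 41957816574) (nat_lit 0) (nat_lit 11762811422) (nat_lit 11) (nat_lit 5) (nat_lit 13) (nat_lit 4) (nat_lit 11) (nat_lit 4) (nat_lit 326) (nat_lit 290) (nat_lit 164))))) (XT.nd (nat_lit 312) (nat_lit 76) (nat_lit 0) (XT.nd (nat_lit 156) (nat_lit 76) (nat_lit 0) (XT.nd (nat_lit 78) (nat_lit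 76) (nat_lit 0) (XT.lf (nat_lit 0) (nat_lit 43414129966) (nat_lit 76) (nat_lit 205548752247) (nat_lit 76) (nat_lit 19085560402) (nat_lit 10) (nat_lit 4) (nat_lit 11) (nat_lit 5) (nat_lit 11) (nat_lit 4) (nat_lit 327) (nat_lit 290) (nat_lit 163)) (XT.lf (nat_lit 0) (nat_lit 18580396035) (nat_lit 152) (nat_lit 147816754172) (nat_lit 76) (nat_lit 118912794626) (nat_lit 9) (nat_lit 5) (nat_lit 11) (nat_lit 5) (nat_lit 10) (nat_lit 4) (nat_lit 328) (nat_lit 290) (nat_lit 162))) (XT.nd (nat_lit 78) (nat_lit 76) (nat_lit 0) (XT.lf (nat_lit 0) (nat_lit 58228088163) (nat_lit 152) (nat_lit 65350282398) (nat_lit 76) (nat_lit 180334372865) (nat_lit 9) (nat_lit 5) (nat_lit 11) (nat_lit 5) (nat_lit 10) (nat_lit 4) (nat_lit 329) (nat_lit 290) (nat_lit 161)) (XT.lf (nat_lit 0) (nat_lit 24961475141) (nat_lit 76) (nat_lit 76686051232) (nat_lit 152) (nat_lit 222308245559) (nat_lit 8) (nat_lit 5) (nat_lit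 9) (nat_lit 5) (nat_lit 10) (nat_lit 4) (nat_lit 330) (nat_lit 290) (nat_lit 160)))) (XT.nd (nat_lit 156) (nat_lit 76) (nat_lit 0) (XT.nd (nat_lit 78) (nat_lit 0) (nat_lit 0) (XT.lf (nat_lit 0) (nat_lit 126214013568) (nat_lit 76) (nat_lit 24112917825) (nat_lit 152) (nat_lit 195132398830) (nat_lit 8) (nat_lit 5) (nat_lit 9) (nat_lit 5) (nat_lit 10) (nat_lit 4) (nat_lit 331) (nat_lit 290) (nat_lit 159)) (XT.lf (nat_lit 0) (nat_lit 203685949078) (nat_lit 152) (nat_lit 133902696767) (nat_lit 0) (nat_lit 31031706926) (nat_lit 8) (nat_lit 5) (nat_lit 10) (nat_lit 4) (nat_lit 8) (nat_lit 4) (nat_lit 332) (nat_lit 290) (nat_lit 158))) (XT.nd (nat_lit 78) (nat_lit 76) (nat_lit 0) (XT.lf (nat_lit 0) (nat_lit 261939664937) (nat_lit 152) (nat_lit 42359587005) (nat_lit 0) (nat_lit 89284927420) (nat_lit 8) (nat_lit 5) (nat_lit 10) (nat_lit 4) (nat_lit 8) (nat_lit 4) (nat_lit 333) (nat_lit 290) (nat_lit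 157)) (XT.lf (nat_lit 0) (nat_lit 59481933800) (nat_lit 76) (nat_lit 266801978060) (nat_lit 76) (nat_lit 94146781873) (nat_lit 7) (nat_lit 4) (nat_lit 8) (nat_lit 5) (nat_lit 8) (nat_lit 4) (nat_lit 334) (nat_lit 290) (nat_lit 156))))))))
noncomputable def xc96 : XT := (XT.nd (nat_lit 37362) (nat_lit 0) (nat_lit 988) (XT.nd (nat_lit 1092) (nat_lit 152) (nat_lit 0) (XT.nd (nat_lit 546) (nat_lit 76) (nat_lit 0) (XT.nd (nat_lit 234) (nat_lit 76) (nat_lit 0) (XT.nd (nat_lit 78) (nat_lit 76) (nat_lit 0) (XT.lf (nat_lit 0) (nat_lit 171879252853) (nat_lit 76) (nat_lit 225054333300) (nat_lit 76) (nat_lit 52398712418) (nat_lit 7) (nat_lit 4) (nat_lit 8) (nat_lit 5) (nat_lit 8) (nat_lit 4) (nat_lit 335) (nat_lit 290) (nat_lit 155)) (XT.nd (nat_lit 78) (nat_lit 76) (nat_lit 0) (XT.lf (nat_lit 0) (nat_lit 293267847555) (nat_lit 76) (nat_lit 179967110389) (nat_lit 76) (nat_lit 7311096271) (nat_lit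 7) (nat_lit 4) (nat_lit 8) (nat_lit 5) (nat_lit 8) (nat_lit 4) (nat_lit 336) (nat_lit 290) (nat_lit 154)) (XT.lf (nat_lit 0) (nat_lit 39313094551) (nat_lit 152) (nat_lit 90885141558) (nat_lit 76) (nat_lit 383979073502) (nat_lit 6) (nat_lit 5) (nat_lit 8) (nat_lit 5) (nat_lit 7) (nat_lit 4) (nat_lit 337) (nat_lit 290) (nat_lit 153)))) (XT.nd (nat_lit 156) (nat_lit 0) (nat_lit 0) (XT.nd (nat_lit 78) (nat_lit 0) (nat_lit 0) (XT.lf (nat_lit 0) (nat_lit 13715105054) (nat_lit 76) (nat_lit 75886731684) (nat_lit 152) (nat_lit 460855668639) (nat_lit 5) (nat_lit 5) (nat_lit 6) (nat_lit 5) (nat_lit 7) (nat_lit 4) (nat_lit 338) (nat_lit 290) (nat_lit 152)) (XT.lf (nat_lit 0) (nat_lit 131851651131) (nat_lit 76) (nat_lit 14546752069) (nat_lit 152) (nat_lit 443042935835) (nat_lit 5) (nat_lit 5) (nat_lit 6) (nat_lit 5) (nat_lit 7) (nat_lit 4) (nat_lit 339) (nat_lit 290) (nat_lit 151))) (XT.nd (nat_lit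 78) (nat_lit 0) (nat_lit 0) (XT.lf (nat_lit 0) (nat_lit 208981868491) (nat_lit 152) (nat_lit 373348574437) (nat_lit 0) (nat_lit 49113982782) (nat_lit 5) (nat_lit 5) (nat_lit 7) (nat_lit 4) (nat_lit 5) (nat_lit 4) (nat_lit 340) (nat_lit 290) (nat_lit 150)) (XT.lf (nat_lit 0) (nat_lit 276949642265) (nat_lit 152) (nat_lit 282746397996) (nat_lit 0) (nat_lit 117081508750) (nat_lit 5) (nat_lit 5) (nat_lit 7) (nat_lit 4) (nat_lit 5) (nat_lit 4) (nat_lit 341) (nat_lit 290) (nat_lit 149))))) (XT.nd (nat_lit 234) (nat_lit 0) (nat_lit 0) (XT.nd (nat_lit 78) (nat_lit 76) (nat_lit 0) (XT.lf (nat_lit 0) (nat_lit 350354646776) (nat_lit 152) (nat_lit 184896407057) (nat_lit 0) (nat_lit 190486283812) (nat_lit 5) (nat_lit 5) (nat_lit 7) (nat_lit 4) (nat_lit 5) (nat_lit 4) (nat_lit 342) (nat_lit 290) (nat_lit 148)) (XT.nd (nat_lit 78) (nat_lit 76) (nat_lit 0) (XT.lf (nat_lit 0) (nat_lit 429631874644) (nat_lit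 152) (nat_lit 79218749824) (nat_lit 0) (nat_lit 269763299227) (nat_lit 5) (nat_lit 5) (nat_lit 7) (nat_lit 4) (nat_lit 5) (nat_lit 4) (nat_lit 343) (nat_lit 290) (nat_lit 147)) (XT.lf (nat_lit 0) (nat_lit 36751258465) (nat_lit 76) (nat_lit 479383727034) (nat_lit 76) (nat_lit 319514954901) (nat_lit 4) (nat_lit 4) (nat_lit 5) (nat_lit 5) (nat_lit 5) (nat_lit 4) (nat_lit 344) (nat_lit 290) (nat_lit 146)))) (XT.nd (nat_lit 156) (nat_lit 0) (nat_lit 0) (XT.nd (nat_lit 78) (nat_lit 0) (nat_lit 0) (XT.lf (nat_lit 0) (nat_lit 166503807405) (nat_lit 76) (nat_lit 445220359846) (nat_lit 76) (nat_lit 285351405569) (nat_lit 4) (nat_lit 4) (nat_lit 5) (nat_lit 5) (nat_lit 5) (nat_lit 4) (nat_lit 345) (nat_lit 290) (nat_lit 145)) (XT.lf (nat_lit 0) (nat_lit 306636282010) (nat_lit 76) (nat_lit 408324054329) (nat_lit 76) (nat_lit 248454931399) (nat_lit 4) (nat_lit 4) (nat_lit 5) (nat_lit 5) (nat_lit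 5) (nat_lit 4) (nat_lit 346) (nat_lit 290) (nat_lit 144))) (XT.nd (nat_lit 78) (nat_lit 0) (nat_lit 0) (XT.lf (nat_lit 0) (nat_lit 457979096946) (nat_lit 76) (nat_lit 368476165709) (nat_lit 76) (nat_lit 208606886620) (nat_lit 4) (nat_lit 4) (nat_lit 5) (nat_lit 5) (nat_lit 5) (nat_lit 4) (nat_lit 347) (nat_lit 290) (nat_lit 143)) (XT.lf (nat_lit 0) (nat_lit 621429098523) (nat_lit 76) (nat_lit 325440558351) (nat_lit 76) (nat_lit 165571134670) (nat_lit 4) (nat_lit 4) (nat_lit 5) (nat_lit 5) (nat_lit 5) (nat_lit 4) (nat_lit 348) (nat_lit 290) (nat_lit 142)))))) (XT.nd (nat_lit 546) (nat_lit 0) (nat_lit 0) (XT.nd (nat_lit 234) (nat_lit 152) (nat_lit 0) (XT.nd (nat_lit 78) (nat_lit 0) (nat_lit 0) (XT.lf (nat_lit 0) (nat_lit 797954879343) (nat_lit 76) (nat_lit 278962206433) (nat_lit 76) (nat_lit 119092648870) (nat_lit 4) (nat_lit 4) (nat_lit 5) (nat_lit 5) (nat_lit 5) (nat_lit 4) (nat_lit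 349) (nat_lit 290) (nat_lit 141)) (XT.nd (nat_lit 78) (nat_lit 0) (nat_lit 0) (XT.lf (nat_lit 0) (nat_lit 988602518107) (nat_lit 76) (nat_lit 228765682683) (nat_lit 76) (nat_lit 68896001157) (nat_lit 4) (nat_lit 4) (nat_lit 5) (nat_lit 5) (nat_lit 5) (nat_lit 4) (nat_lit 350) (nat_lit 290) (nat_lit 140)) (XT.lf (nat_lit 0) (nat_lit 1194501778600) (nat_lit 76) (nat_lit 174553526222) (nat_lit 76) (nat_lit 14683729913) (nat_lit 4) (nat_lit 4) (nat_lit 5) (nat_lit 5) (nat_lit 5) (nat_lit 4) (nat_lit 351) (nat_lit 290) (nat_lit 139)))) (XT.nd (nat_lit 156) (nat_lit 0) (nat_lit 0) (XT.nd (nat_lit 78) (nat_lit 76) (nat_lit 0) (XT.lf (nat_lit 0) (nat_lit 41671096660) (nat_lit 152) (nat_lit 73194021534) (nat_lit 76) (nat_lit 1374062346298) (nat_lit 3) (nat_lit 5) (nat_lit 5) (nat_lit 5) (nat_lit 4) (nat_lit 4) (nat_lit 352) (nat_lit 290) (nat_lit 138)) (XT.lf (nat_lit 0) (nat_lit 54476230880)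 (nat_lit 76) (nat_lit 48574842136) (nat_lit 152) (nat_lit 1499344578720) (nat_lit 2) (nat_lit 5) (nat_lit 3) (nat_lit 5) (nat_lit 4) (nat_lit 4) (nat_lit 353) (nat_lit 290) (nat_lit 137))) (XT.nd (nat_lit 78) (nat_lit 0) (nat_lit 0) (XT.lf (nat_lit 0) (nat_lit 171948194166) (nat_lit 152) (nat_lit 1528864229024) (nat_lit 0) (nat_lit 23920331099) (nat_lit 2) (nat_lit 5) (nat_lit 4) (nat_lit 4) (nat_lit 2) (nat_lit 4) (nat_lit 354) (nat_lit 290) (nat_lit 136)) (XT.lf (nat_lit 0) (nat_lit 247618688260) (nat_lit 152) (nat_lit 1509546461514) (nat_lit 0) (nat_lit 99590747074) (nat_lit 2) (nat_lit 5) (nat_lit 4) (nat_lit 4) (nat_lit 2) (nat_lit 4) (nat_lit 355) (nat_lit 290) (nat_lit 135))))) (XT.nd (nat_lit 312) (nat_lit 0) (nat_lit 0) (XT.nd (nat_lit 156) (nat_lit 0) (nat_lit 0) (XT.nd (nat_lit 78) (nat_lit 0) (nat_lit 0) (XT.lf (nat_lit 0) (nat_lit 329342746918) (nat_lit 152) (nat_lit 1488683416545)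 (nat_lit 0) (nat_lit 181314733400) (nat_lit 2) (nat_lit 5) (nat_lit 4) (nat_lit 4) (nat_lit 2) (nat_lit 4) (nat_lit 356) (nat_lit 290) (nat_lit 134)) (XT.lf (nat_lit 0) (nat_lit 417604660859) (nat_lit 152) (nat_lit 1466151461258) (nat_lit 0) (nat_lit 269576580367) (nat_lit 2) (nat_lit 5) (nat_lit 4) (nat_lit 4) (nat_lit 2) (nat_lit 4) (nat_lit 357) (nat_lit 290) (nat_lit 133))) (XT.nd (nat_lit 78) (nat_lit 0) (nat_lit 0) (XT.lf (nat_lit 0) (nat_lit 512927463647) (nat_lit 152) (nat_lit 1441817072955) (nat_lit 0) (nat_lit 364899321142) (nat_lit 2) (nat_lit 5) (nat_lit 4) (nat_lit 4) (nat_lit 2) (nat_lit 4) (nat_lit 358) (nat_lit 290) (nat_lit 132)) (XT.lf (nat_lit 0) (nat_lit 615876031151) (nat_lit 152) (nat_lit 1415536047854) (nat_lit 0) (nat_lit 467847831226) (nat_lit 2) (nat_lit 5) (nat_lit 4) (nat_lit 4) (nat_lit 2) (nat_lit 4) (nat_lit 359) (nat_lit 290) (nat_lit 131)))) (XT.nd (nat_lit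 35256) (nat_lit 0) (nat_lit 3040) (XT.nd (nat_lit 78) (nat_lit 0) (nat_lit 0) (XT.lf (nat_lit 0) (nat_lit 727060428955) (nat_lit 152) (nat_lit 1387152646546) (nat_lit 0) (nat_lit 579032175864) (nat_lit 2) (nat_lit 5) (nat_lit 4) (nat_lit 4) (nat_lit 2) (nat_lit 4) (nat_lit 360) (nat_lit 290) (nat_lit 130)) (XT.lf (nat_lit 0) (nat_lit 847139527565) (nat_lit 152) (nat_lit 1356498671098) (nat_lit 0) (nat_lit 699111225246) (nat_lit 2) (nat_lit 5) (nat_lit 4) (nat_lit 4) (nat_lit 2) (nat_lit 4) (nat_lit 361) (nat_lit 290) (nat_lit 129))) (XT.nd (nat_lit 78) (nat_lit 0) (nat_lit 0) (XT.lf (nat_lit 0) (nat_lit 11882163605) (nat_lit 532) (nat_lit 5178868880) (nat_lit 532) (nat_lit 5178868880) (nat_lit 42) (nat_lit 3) (nat_lit 49) (nat_lit 3) (nat_lit 49) (nat_lit 5) (nat_lit 291) (nat_lit 291) (nat_lit 198)) (XT.lf (nat_lit 76) (nat_lit 10031578415) (nat_lit 0) (nat_lit 14954592291) (nat_lit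 532) (nat_lit 21251009570) (nat_lit 43) (nat_lit 5) (nat_lit 42) (nat_lit 3) (nat_lit 49) (nat_lit 5) (nat_lit 292) (nat_lit 291) (nat_lit 197))))))) (XT.nd (nat_lit 1092) (nat_lit 1064) (nat_lit 0) (XT.nd (nat_lit 546) (nat_lit 760) (nat_lit 0) (XT.nd (nat_lit 234) (nat_lit 304) (nat_lit 0) (XT.nd (nat_lit 78) (nat_lit 0) (nat_lit 0) (XT.lf (nat_lit 0) (nat_lit 26731502840) (nat_lit 456) (nat_lit 15618951937) (nat_lit 532) (nat_lit 5750645254) (nat_lit 43) (nat_lit 5) (nat_lit 49) (nat_lit 5) (nat_lit 50) (nat_lit 5) (nat_lit 293) (nat_lit 291) (nat_lit 196)) (XT.nd (nat_lit 78) (nat_lit 0) (nat_lit 0) (XT.lf (nat_lit 76) (nat_lit 6552110751) (nat_lit 0) (nat_lit 22607571578) (nat_lit 532) (nat_lit 20911003836) (nat_lit 44) (nat_lit 5) (nat_lit 43) (nat_lit 5) (nat_lit 50) (nat_lit 5) (nat_lit 294) (nat_lit 291) (nat_lit 195)) (XT.lf (nat_lit 76) (nat_lit 31383317584) (nat_lit 0) (nat_lit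 823222979) (nat_lit 532) (nat_lit 19957354363) (nat_lit 44) (nat_lit 5) (nat_lit 43) (nat_lit 5) (nat_lit 50) (nat_lit 5) (nat_lit 295) (nat_lit 291) (nat_lit 194)))) (XT.nd (nat_lit 156) (nat_lit 380) (nat_lit 0) (XT.nd (nat_lit 78) (nat_lit 0) (nat_lit 0) (XT.lf (nat_lit 76) (nat_lit 3398548461) (nat_lit 0) (nat_lit 32723950189) (nat_lit 532) (nat_lit 18252042611) (nat_lit 45) (nat_lit 5) (nat_lit 44) (nat_lit 5) (nat_lit 51) (nat_lit 5) (nat_lit 296) (nat_lit 291) (nat_lit 193)) (XT.lf (nat_lit 76) (nat_lit 30669461147) (nat_lit 0) (nat_lit 10269012807) (nat_lit 532) (nat_lit 15776634408) (nat_lit 45) (nat_lit 5) (nat_lit 44) (nat_lit 5) (nat_lit 51) (nat_lit 5) (nat_lit 297) (nat_lit 291) (nat_lit 192))) (XT.nd (nat_lit 78) (nat_lit 0) (nat_lit 0) (XT.lf (nat_lit 0) (nat_lit 569442592) (nat_lit 456) (nat_lit 45918155013) (nat_lit 532) (nat_lit 12727501289) (nat_lit 39) (nat_lit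 5) (nat_lit 45) (nat_lit 5) (nat_lit 46) (nat_lit 5) (nat_lit 298) (nat_lit 291) (nat_lit 191)) (XT.lf (nat_lit 0) (nat_lit 30512359441) (nat_lit 456) (nat_lit 22938412111) (nat_lit 532) (nat_lit 8386714607) (nat_lit 39) (nat_lit 5) (nat_lit 45) (nat_lit 5) (nat_lit 46) (nat_lit 5) (nat_lit 299) (nat_lit 291) (nat_lit 190))))) (XT.nd (nat_lit 234) (nat_lit 456) (nat_lit 0) (XT.nd (nat_lit 78) (nat_lit 304) (nat_lit 0) (XT.lf (nat_lit 0) (nat_lit 61014368222) (nat_lit 532) (nat_lit 1866028345) (nat_lit 76) (nat_lit 1785804924) (nat_lit 39) (nat_lit 5) (nat_lit 46) (nat_lit 5) (nat_lit 40) (nat_lit 5) (nat_lit 300) (nat_lit 291) (nat_lit 189)) (XT.nd (nat_lit 78) (nat_lit 0) (nat_lit 0) (XT.lf (nat_lit 0) (nat_lit 2760634230) (nat_lit 304) (nat_lit 36786228843) (nat_lit 76) (nat_lit 28061790229) (nat_lit 35) (nat_lit 5) (nat_lit 39) (nat_lit 5) (nat_lit 36) (nat_lit 5) (nat_lit 301) (nat_lit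 291) (nat_lit 188)) (XT.lf (nat_lit 0) (nat_lit 9539487124) (nat_lit 304) (nat_lit 4648298804) (nat_lit 76) (nat_lit 56587077792) (nat_lit 35) (nat_lit 5) (nat_lit 39) (nat_lit 5) (nat_lit 36) (nat_lit 5) (nat_lit 302) (nat_lit 291) (nat_lit 187)))) (XT.nd (nat_lit 156) (nat_lit 228) (nat_lit 0) (XT.nd (nat_lit 78) (nat_lit 0) (nat_lit 0) (XT.lf (nat_lit 0) (nat_lit 17957319587) (nat_lit 304) (nat_lit 42828969494) (nat_lit 76) (nat_lit 13320353028) (nat_lit 32) (nat_lit 5) (nat_lit 36) (nat_lit 5) (nat_lit 33) (nat_lit 5) (nat_lit 303) (nat_lit 291) (nat_lit 186)) (XT.lf (nat_lit 0) (nat_lit 27546017971) (nat_lit 304) (nat_lit 7726258136) (nat_lit 76) (nat_lit 42392896003) (nat_lit 32) (nat_lit 5) (nat_lit 36) (nat_lit 5) (nat_lit 33) (nat_lit 5) (nat_lit 304) (nat_lit 291) (nat_lit 185))) (XT.nd (nat_lit 78) (nat_lit 0) (nat_lit 0) (XT.lf (nat_lit 0) (nat_lit 31772462595) (nat_lit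 228) (nat_lit 6892118460) (nat_lit 304) (nat_lit 42782786106) (nat_lit 29) (nat_lit 5) (nat_lit 32) (nat_lit 5) (nat_lit 33) (nat_lit 5) (nat_lit 305) (nat_lit 291) (nat_lit 184)) (XT.lf (nat_lit 0) (nat_lit 51459454579) (nat_lit 304) (nat_lit 11223291821) (nat_lit 76) (nat_lit 22786449230) (nat_lit 29) (nat_lit 5) (nat_lit 33) (nat_lit 5) (nat_lit 30) (nat_lit 5) (nat_lit 306) (nat_lit 291) (nat_lit 183)))))) (XT.nd (nat_lit 546) (nat_lit 380) (nat_lit 0) (XT.nd (nat_lit 234) (nat_lit 304) (nat_lit 0) (XT.nd (nat_lit 78) (nat_lit 228) (nat_lit 0) (XT.lf (nat_lit 0) (nat_lit 31710171996) (nat_lit 152) (nat_lit 34508186400) (nat_lit 228) (nat_lit 23519180310) (nat_lit 27) (nat_lit 5) (nat_lit 29) (nat_lit 5) (nat_lit 30) (nat_lit 5) (nat_lit 307) (nat_lit 291) (nat_lit 182)) (XT.nd (nat_lit 78) (nat_lit 228) (nat_lit 0) (XT.lf (nat_lit 0) (nat_lit 78715097168) (nat_lit 152) (nat_lit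 3748589386) (nat_lit 228) (nat_lit 11859209009) (nat_lit 27) (nat_lit 5) (nat_lit 29) (nat_lit 5) (nat_lit 30) (nat_lit 5) (nat_lit 308) (nat_lit 291) (nat_lit 181)) (XT.lf (nat_lit 0) (nat_lit 2189071690) (nat_lit 228) (nat_lit 68165916572) (nat_lit 76) (nat_lit 28799307576) (nat_lit 24) (nat_lit 5) (nat_lit 27) (nat_lit 5) (nat_lit 25) (nat_lit 5) (nat_lit 309) (nat_lit 291) (nat_lit 180)))) (XT.nd (nat_lit 156) (nat_lit 152) (nat_lit 0) (XT.nd (nat_lit 78) (nat_lit 152) (nat_lit 0) (XT.lf (nat_lit 0) (nat_lit 17254645621) (nat_lit 228) (nat_lit 22556155472) (nat_lit 76) (nat_lit 64494036260) (nat_lit 24) (nat_lit 5) (nat_lit 27) (nat_lit 5) (nat_lit 25) (nat_lit 5) (nat_lit 310) (nat_lit 291) (nat_lit 179)) (XT.lf (nat_lit 0) (nat_lit 28107038732) (nat_lit 152) (nat_lit 6093421122) (nat_lit 228) (nat_lit 75612965208) (nat_lit 22) (nat_lit 5) (nat_lit 24) (nat_lit 5) (nat_lit 25)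 (nat_lit 5) (nat_lit 311) (nat_lit 291) (nat_lit 178))) (XT.nd (nat_lit 78) (nat_lit 152) (nat_lit 0) (XT.lf (nat_lit 0) (nat_lit 53862962689) (nat_lit 228) (nat_lit 32353941452) (nat_lit 76) (nat_lit 29436916016) (nat_lit 22) (nat_lit 5) (nat_lit 25) (nat_lit 5) (nat_lit 23) (nat_lit 5) (nat_lit 312) (nat_lit 291) (nat_lit 177)) (XT.lf (nat_lit 0) (nat_lit 21881737108) (nat_lit 152) (nat_lit 53900376161) (nat_lit 228) (nat_lit 46124643866) (nat_lit 20) (nat_lit 5) (nat_lit 22) (nat_lit 5) (nat_lit 23) (nat_lit 5) (nat_lit 313) (nat_lit 291) (nat_lit 176))))) (XT.nd (nat_lit 312) (nat_lit 228) (nat_lit 0) (XT.nd (nat_lit 156) (nat_lit 76) (nat_lit 0) (XT.nd (nat_lit 78) (nat_lit 76) (nat_lit 0) (XT.lf (nat_lit 0) (nat_lit 82294995952) (nat_lit 152) (nat_lit 18043569148) (nat_lit 228) (nat_lit 28250664360) (nat_lit 20) (nat_lit 5) (nat_lit 22) (nat_lit 5) (nat_lit 23) (nat_lit 5) (nat_lit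 314) (nat_lit 291) (nat_lit 175)) (XT.lf (nat_lit 0) (nat_lit 11828074752) (nat_lit 76) (nat_lit 115812529369) (nat_lit 152) (nat_lit 8103211547) (nat_lit 19) (nat_lit 5) (nat_lit 20) (nat_lit 5) (nat_lit 21) (nat_lit 4) (nat_lit 315) (nat_lit 291) (nat_lit 174))) (XT.nd (nat_lit 78) (nat_lit 0) (nat_lit 0) (XT.lf (nat_lit 0) (nat_lit 14739431362) (nat_lit 152) (nat_lit 66967758531) (nat_lit 76) (nat_lit 61595984232) (nat_lit 18) (nat_lit 5) (nat_lit 20) (nat_lit 5) (nat_lit 19) (nat_lit 5) (nat_lit 316) (nat_lit 291) (nat_lit 173)) (XT.lf (nat_lit 0) (nat_lit 38970976447) (nat_lit 152) (nat_lit 5675562071) (nat_lit 76) (nat_lit 106803964342) (nat_lit 18) (nat_lit 5) (nat_lit 20) (nat_lit 5) (nat_lit 19) (nat_lit 5) (nat_lit 317) (nat_lit 291) (nat_lit 172)))) (XT.nd (nat_lit 156) (nat_lit 76) (nat_lit 0) (XT.nd (nat_lit 78) (nat_lit 0) (nat_lit 0) (XT.lf (nat_lit 0) (nat_lit 63705764250)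 (nat_lit 152) (nat_lit 2966734418) (nat_lit 228) (nat_lit 93454604252) (nat_lit 16) (nat_lit 5) (nat_lit 18) (nat_lit 5) (nat_lit 19) (nat_lit 5) (nat_lit 318) (nat_lit 291) (nat_lit 171)) (XT.lf (nat_lit 0) (nat_lit 97759939211) (nat_lit 228) (nat_lit 31541401326) (nat_lit 76) (nat_lit 40102907937) (nat_lit 16) (nat_lit 5) (nat_lit 19) (nat_lit 5) (nat_lit 17) (nat_lit 4) (nat_lit 319) (nat_lit 291) (nat_lit 170))) (XT.nd (nat_lit 78) (nat_lit 0) (nat_lit 0) (XT.lf (nat_lit 0) (nat_lit 40475625138) (nat_lit 76) (nat_lit 91908639959) (nat_lit 152) (nat_lit 46955310491) (nat_lit 15) (nat_lit 5) (nat_lit 16) (nat_lit 5) (nat_lit 17) (nat_lit 4) (nat_lit 320) (nat_lit 291) (nat_lit 169)) (XT.lf (nat_lit 0) (nat_lit 120046824017) (nat_lit 76) (nat_lit 50593524666) (nat_lit 152) (nat_lit 19360436297) (nat_lit 15) (nat_lit 5) (nat_lit 16) (nat_lit 5) (nat_lit 17) (nat_lit 4) (nat_lit 321)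 (nat_lit 291) (nat_lit 168))))))))
noncomputable def xc97 : XT := (XT.nd (nat_lit 2262) (nat_lit 152) (nat_lit 0) (XT.nd (nat_lit 1092) (nat_lit 228) (nat_lit 0) (XT.nd (nat_lit 546) (nat_lit 228) (nat_lit 0) (XT.nd (nat_lit 234) (nat_lit 152) (nat_lit 0) (XT.nd (nat_lit 78) (nat_lit 0) (nat_lit 0) (XT.lf (nat_lit 0) (nat_lit 4438808828) (nat_lit 152) (nat_lit 5587062169) (nat_lit 228) (nat_lit 191460434881) (nat_lit 12) (nat_lit 5) (nat_lit 14) (nat_lit 5) (nat_lit 15) (nat_lit 5) (nat_lit 322) (nat_lit 291) (nat_lit 167)) (XT.nd (nat_lit 78) (nat_lit 0) (nat_lit 0) (XT.lf (nat_lit 0) (nat_lit 43713544028) (nat_lit 228) (nat_lit 126564435698) (nat_lit 76) (nat_lit 43332745862) (nat_lit 12) (nat_lit 5) (nat_lit 15) (nat_lit 5) (nat_lit 13) (nat_lit 4) (nat_lit 323) (nat_lit 291) (nat_lit 166)) (XT.lf (nat_lit 0) (nat_lit 80240842601) (nat_lit 228) (nat_lit 50588724122) (nat_lit 76)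 (nat_lit 95863963981) (nat_lit 12) (nat_lit 5) (nat_lit 15) (nat_lit 5) (nat_lit 13) (nat_lit 4) (nat_lit 324) (nat_lit 291) (nat_lit 165)))) (XT.nd (nat_lit 156) (nat_lit 76) (nat_lit 0) (XT.nd (nat_lit 78) (nat_lit 0) (nat_lit 0) (XT.lf (nat_lit 0) (nat_lit 33121083852) (nat_lit 76) (nat_lit 87365334811) (nat_lit 152) (nat_lit 120272854785) (nat_lit 11) (nat_lit 5) (nat_lit 12) (nat_lit 5) (nat_lit 13) (nat_lit 4) (nat_lit 325) (nat_lit 291) (nat_lit 164)) (XT.lf (nat_lit 0) (nat_lit 126403911287) (nat_lit 76) (nat_lit 38930461375) (nat_lit 152) (nat_lit 90505285056) (nat_lit 11) (nat_lit 5) (nat_lit 12) (nat_lit 5) (nat_lit 13) (nat_lit 4) (nat_lit 326) (nat_lit 291) (nat_lit 163))) (XT.nd (nat_lit 78) (nat_lit 76) (nat_lit 0) (XT.lf (nat_lit 0) (nat_lit 214091505679) (nat_lit 152) (nat_lit 45299636805) (nat_lit 0) (nat_lit 12709623439) (nat_lit 11) (nat_lit 5) (nat_lit 13) (nat_lit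 4) (nat_lit 11) (nat_lit 4) (nat_lit 327) (nat_lit 291) (nat_lit 162)) (XT.lf (nat_lit 0) (nat_lit 46901690647) (nat_lit 76) (nat_lit 221986290521) (nat_lit 76) (nat_lit 20603680428) (nat_lit 10) (nat_lit 4) (nat_lit 11) (nat_lit 5) (nat_lit 11) (nat_lit 4) (nat_lit 328) (nat_lit 291) (nat_lit 161))))) (XT.nd (nat_lit 234) (nat_lit 76) (nat_lit 0) (XT.nd (nat_lit 78) (nat_lit 76) (nat_lit 0) (XT.lf (nat_lit 0) (nat_lit 20074502121) (nat_lit 152) (nat_lit 159628319617) (nat_lit 76) (nat_lit 128431295334) (nat_lit 9) (nat_lit 5) (nat_lit 11) (nat_lit 5) (nat_lit 10) (nat_lit 4) (nat_lit 329) (nat_lit 291) (nat_lit 160)) (XT.nd (nat_lit 78) (nat_lit 76) (nat_lit 0) (XT.lf (nat_lit 0) (nat_lit 62893441145) (nat_lit 152) (nat_lit 70565550463) (nat_lit 76) (nat_lit 194766194118) (nat_lit 9) (nat_lit 5) (nat_lit 11) (nat_lit 5) (nat_lit 10) (nat_lit 4) (nat_lit 330) (nat_lit 291) (nat_lit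 159)) (XT.lf (nat_lit 0) (nat_lit 26970824780) (nat_lit 76) (nat_lit 82815382248) (nat_lit 152) (nat_lit 240085468321) (nat_lit 8) (nat_lit 5) (nat_lit 9) (nat_lit 5) (nat_lit 10) (nat_lit 4) (nat_lit 331) (nat_lit 291) (nat_lit 158)))) (XT.nd (nat_lit 156) (nat_lit 76) (nat_lit 0) (XT.nd (nat_lit 78) (nat_lit 0) (nat_lit 0) (XT.lf (nat_lit 0) (nat_lit 136322645420) (nat_lit 76) (nat_lit 26036809508) (nat_lit 152) (nat_lit 210736104733) (nat_lit 8) (nat_lit 5) (nat_lit 9) (nat_lit 5) (nat_lit 10) (nat_lit 4) (nat_lit 332) (nat_lit 291) (nat_lit 157)) (XT.lf (nat_lit 0) (nat_lit 219986836747) (nat_lit 152) (nat_lit 144603890205) (nat_lit 0) (nat_lit 33518766195) (nat_lit 8) (nat_lit 5) (nat_lit 10) (nat_lit 4) (nat_lit 8) (nat_lit 4) (nat_lit 333) (nat_lit 291) (nat_lit 156))) (XT.nd (nat_lit 78) (nat_lit 76) (nat_lit 0) (XT.lf (nat_lit 0) (nat_lit 282900404560) (nat_lit 152) (nat_lit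 45738148130) (nat_lit 0) (nat_lit 96431909313) (nat_lit 8) (nat_lit 5) (nat_lit 10) (nat_lit 4) (nat_lit 8) (nat_lit 4) (nat_lit 334) (nat_lit 291) (nat_lit 155)) (XT.lf (nat_lit 0) (nat_lit 64250435964) (nat_lit 76) (nat_lit 288141582182) (nat_lit 76) (nat_lit 101672693698) (nat_lit 7) (nat_lit 4) (nat_lit 8) (nat_lit 5) (nat_lit 8) (nat_lit 4) (nat_lit 335) (nat_lit 291) (nat_lit 154)))))) (XT.nd (nat_lit 546) (nat_lit 76) (nat_lit 0) (XT.nd (nat_lit 234) (nat_lit 76) (nat_lit 0) (XT.nd (nat_lit 78) (nat_lit 76) (nat_lit 0) (XT.lf (nat_lit 0) (nat_lit 185638803692) (nat_lit 76) (nat_lit 243054463183) (nat_lit 76) (nat_lit 56585210592) (nat_lit 7) (nat_lit 4) (nat_lit 8) (nat_lit 5) (nat_lit 8) (nat_lit 4) (nat_lit 336) (nat_lit 291) (nat_lit 153)) (XT.nd (nat_lit 78) (nat_lit 76) (nat_lit 0) (XT.lf (nat_lit 0) (nat_lit 316737803703) (nat_lit 76) (nat_lit 194360574793) (nat_lit 76)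 (nat_lit 7890985066) (nat_lit 7) (nat_lit 4) (nat_lit 8) (nat_lit 5) (nat_lit 8) (nat_lit 4) (nat_lit 337) (nat_lit 291) (nat_lit 152)) (XT.lf (nat_lit 0) (nat_lit 42462539190) (nat_lit 152) (nat_lit 98147820374) (nat_lit 76) (nat_lit 414700778699) (nat_lit 6) (nat_lit 5) (nat_lit 8) (nat_lit 5) (nat_lit 7) (nat_lit 4) (nat_lit 338) (nat_lit 291) (nat_lit 151)))) (XT.nd (nat_lit 156) (nat_lit 0) (nat_lit 0) (XT.nd (nat_lit 78) (nat_lit 0) (nat_lit 0) (XT.lf (nat_lit 0) (nat_lit 14820240080) (nat_lit 76) (nat_lit 81954005598) (nat_lit 152) (nat_lit 497719515140) (nat_lit 5) (nat_lit 5) (nat_lit 6) (nat_lit 5) (nat_lit 7) (nat_lit 4) (nat_lit 339) (nat_lit 291) (nat_lit 150)) (XT.lf (nat_lit 0) (nat_lit 142407122686) (nat_lit 76) (nat_lit 15707099066) (nat_lit 152) (nat_lit 478482104970) (nat_lit 5) (nat_lit 5) (nat_lit 6) (nat_lit 5) (nat_lit 7) (nat_lit 4) (nat_lit 340) (nat_lit 291)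 (nat_lit 149))) (XT.nd (nat_lit 78) (nat_lit 0) (nat_lit 0) (XT.lf (nat_lit 0) (nat_lit 225704147510) (nat_lit 152) (nat_lit 403209444379) (nat_lit 0) (nat_lit 53046086060) (nat_lit 5) (nat_lit 5) (nat_lit 7) (nat_lit 4) (nat_lit 5) (nat_lit 4) (nat_lit 341) (nat_lit 291) (nat_lit 148)) (XT.lf (nat_lit 0) (nat_lit 299109066924) (nat_lit 152) (nat_lit 305359613527) (nat_lit 0) (nat_lit 126450793020) (nat_lit 5) (nat_lit 5) (nat_lit 7) (nat_lit 4) (nat_lit 5) (nat_lit 4) (nat_lit 342) (nat_lit 291) (nat_lit 147))))) (XT.nd (nat_lit 312) (nat_lit 0) (nat_lit 0) (XT.nd (nat_lit 156) (nat_lit 76) (nat_lit 0) (XT.nd (nat_lit 78) (nat_lit 0) (nat_lit 0) (XT.lf (nat_lit 0) (nat_lit 378386215997) (nat_lit 152) (nat_lit 199682104522) (nat_lit 0) (nat_lit 205727745378) (nat_lit 5) (nat_lit 5) (nat_lit 7) (nat_lit 4) (nat_lit 5) (nat_lit 4) (nat_lit 343) (nat_lit 291) (nat_lit 146)) (XT.lf (nat_lit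 0) (nat_lit 464005385245) (nat_lit 152) (nat_lit 85550680272) (nat_lit 0) (nat_lit 291346732481) (nat_lit 5) (nat_lit 5) (nat_lit 7) (nat_lit 4) (nat_lit 5) (nat_lit 4) (nat_lit 344) (nat_lit 291) (nat_lit 145))) (XT.nd (nat_lit 78) (nat_lit 0) (nat_lit 0) (XT.lf (nat_lit 0) (nat_lit 39696787678) (nat_lit 76) (nat_lit 517731868540) (nat_lit 76) (nat_lit 345073047124) (nat_lit 4) (nat_lit 4) (nat_lit 5) (nat_lit 5) (nat_lit 5) (nat_lit 4) (nat_lit 345) (nat_lit 291) (nat_lit 144)) (XT.lf (nat_lit 0) (nat_lit 179829138420) (nat_lit 76) (nat_lit 480835621359) (nat_lit 76) (nat_lit 308176643783) (nat_lit 4) (nat_lit 4) (nat_lit 5) (nat_lit 5) (nat_lit 5) (nat_lit 4) (nat_lit 346) (nat_lit 291) (nat_lit 143)))) (XT.nd (nat_lit 156) (nat_lit 0) (nat_lit 0) (XT.nd (nat_lit 78) (nat_lit 0) (nat_lit 0) (XT.lf (nat_lit 0) (nat_lit 331171838666) (nat_lit 76) (nat_lit 440987786754) (nat_lit 76)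 (nat_lit 268328664587) (nat_lit 4) (nat_lit 4) (nat_lit 5) (nat_lit 5) (nat_lit 5) (nat_lit 4) (nat_lit 347) (nat_lit 291) (nat_lit 142)) (XT.lf (nat_lit 0) (nat_lit 494621734049) (nat_lit 76) (nat_lit 397952229409) (nat_lit 76) (nat_lit 225292973360) (nat_lit 4) (nat_lit 4) (nat_lit 5) (nat_lit 5) (nat_lit 5) (nat_lit 4) (nat_lit 348) (nat_lit 291) (nat_lit 141))) (XT.nd (nat_lit 78) (nat_lit 0) (nat_lit 0) (XT.lf (nat_lit 0) (nat_lit 671147416541) (nat_lit 76) (nat_lit 351473923800) (nat_lit 76) (nat_lit 178814543787) (nat_lit 4) (nat_lit 4) (nat_lit 5) (nat_lit 5) (nat_lit 5) (nat_lit 4) (nat_lit 349) (nat_lit 291) (nat_lit 140)) (XT.lf (nat_lit 0) (nat_lit 861794964261) (nat_lit 76) (nat_lit 301277442930) (nat_lit 76) (nat_lit 128617948134) (nat_lit 4) (nat_lit 4) (nat_lit 5) (nat_lit 5) (nat_lit 5) (nat_lit 4) (nat_lit 350) (nat_lit 291) (nat_lit 139))))))) (XT.nd (nat_lit 36348)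 (nat_lit 0) (nat_lit 1672) (XT.nd (nat_lit 546) (nat_lit 0) (nat_lit 0) (XT.nd (nat_lit 234) (nat_lit 76) (nat_lit 0) (XT.nd (nat_lit 78) (nat_lit 76) (nat_lit 0) (XT.lf (nat_lit 0) (nat_lit 1067694140454) (nat_lit 76) (nat_lit 247065326171) (nat_lit 76) (nat_lit 74405725096) (nat_lit 4) (nat_lit 4) (nat_lit 5) (nat_lit 5) (nat_lit 5) (nat_lit 4) (nat_lit 351) (nat_lit 291) (nat_lit 138)) (XT.nd (nat_lit 78) (nat_lit 76) (nat_lit 0) (XT.lf (nat_lit 0) (nat_lit 1290065088387) (nat_lit 76) (nat_lit 188516316535) (nat_lit 76) (nat_lit 15856617053) (nat_lit 4) (nat_lit 4) (nat_lit 5) (nat_lit 5) (nat_lit 5) (nat_lit 4) (nat_lit 352) (nat_lit 291) (nat_lit 137)) (XT.lf (nat_lit 0) (nat_lit 45006377584) (nat_lit 152) (nat_lit 79046525223) (nat_lit 76) (nat_lit 1483988630119) (nat_lit 3) (nat_lit 5) (nat_lit 5) (nat_lit 5) (nat_lit 4) (nat_lit 4) (nat_lit 353) (nat_lit 291) (nat_lit 136))))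 (XT.nd (nat_lit 156) (nat_lit 0) (nat_lit 0) (XT.nd (nat_lit 78) (nat_lit 0) (nat_lit 0) (XT.lf (nat_lit 0) (nat_lit 58837270979) (nat_lit 76) (nat_lit 52459433802) (nat_lit 152) (nat_lit 1619290474244) (nat_lit 2) (nat_lit 5) (nat_lit 3) (nat_lit 5) (nat_lit 4) (nat_lit 4) (nat_lit 354) (nat_lit 291) (nat_lit 135)) (XT.lf (nat_lit 0) (nat_lit 185705512191) (nat_lit 152) (nat_lit 1651170559095) (nat_lit 0) (nat_lit 25835185259) (nat_lit 2) (nat_lit 5) (nat_lit 4) (nat_lit 4) (nat_lit 2) (nat_lit 4) (nat_lit 355) (nat_lit 291) (nat_lit 134))) (XT.nd (nat_lit 78) (nat_lit 0) (nat_lit 0) (XT.lf (nat_lit 0) (nat_lit 267429537479) (nat_lit 152) (nat_lit 1630307578202) (nat_lit 0) (nat_lit 107559143573) (nat_lit 2) (nat_lit 5) (nat_lit 4) (nat_lit 4) (nat_lit 2) (nat_lit 4) (nat_lit 356) (nat_lit 291) (nat_lit 133)) (XT.lf (nat_lit 0) (nat_lit 355691420522) (nat_lit 152) (nat_lit 1607775682246)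 (nat_lit 0) (nat_lit 195820964603) (nat_lit 2) (nat_lit 5) (nat_lit 4) (nat_lit 4) (nat_lit 2) (nat_lit 4) (nat_lit 357) (nat_lit 291) (nat_lit 132))))) (XT.nd (nat_lit 35490) (nat_lit 0) (nat_lit 3040) (XT.nd (nat_lit 156) (nat_lit 0) (nat_lit 0) (XT.nd (nat_lit 78) (nat_lit 0) (nat_lit 0) (XT.lf (nat_lit 0) (nat_lit 451014194700) (nat_lit 152) (nat_lit 1583441348878) (nat_lit 0) (nat_lit 291143681362) (nat_lit 2) (nat_lit 5) (nat_lit 4) (nat_lit 4) (nat_lit 2) (nat_lit 4) (nat_lit 358) (nat_lit 291) (nat_lit 131)) (XT.lf (nat_lit 0) (nat_lit 553962735714) (nat_lit 152) (nat_lit 1557160374643) (nat_lit 0) (nat_lit 394092169209) (nat_lit 2) (nat_lit 5) (nat_lit 4) (nat_lit 4) (nat_lit 2) (nat_lit 4) (nat_lit 359) (nat_lit 291) (nat_lit 130))) (XT.nd (nat_lit 78) (nat_lit 0) (nat_lit 0) (XT.lf (nat_lit 0) (nat_lit 665147108989) (nat_lit 152) (nat_lit 1528777020433) (nat_lit 0) (nat_lit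 505276493257) (nat_lit 2) (nat_lit 5) (nat_lit 4) (nat_lit 4) (nat_lit 2) (nat_lit 4) (nat_lit 360) (nat_lit 291) (nat_lit 129)) (XT.lf (nat_lit 0) (nat_lit 785226184888) (nat_lit 152) (nat_lit 1498123088595) (nat_lit 0) (nat_lit 625355523575) (nat_lit 2) (nat_lit 5) (nat_lit 4) (nat_lit 4) (nat_lit 2) (nat_lit 4) (nat_lit 361) (nat_lit 291) (nat_lit 128)))) (XT.nd (nat_lit 156) (nat_lit 0) (nat_lit 76) (XT.nd (nat_lit 78) (nat_lit 0) (nat_lit 0) (XT.lf (nat_lit 0) (nat_lit 12862025641) (nat_lit 532) (nat_lit 5577307251) (nat_lit 532) (nat_lit 5577307251) (nat_lit 42) (nat_lit 3) (nat_lit 49) (nat_lit 3) (nat_lit 49) (nat_lit 5) (nat_lit 292) (nat_lit 292) (nat_lit 196)) (XT.lf (nat_lit 76) (nat_lit 10865043365) (nat_lit 0) (nat_lit 16175003865) (nat_lit 532) (nat_lit 22891504736) (nat_lit 43) (nat_lit 5) (nat_lit 42) (nat_lit 3) (nat_lit 49) (nat_lit 5) (nat_lit 293) (nat_lit 292)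 (nat_lit 195))) (XT.nd (nat_lit 78) (nat_lit 0) (nat_lit 0) (XT.lf (nat_lit 0) (nat_lit 28920397701) (nat_lit 456) (nat_lit 16835023951) (nat_lit 532) (nat_lit 6189547428) (nat_lit 43) (nat_lit 5) (nat_lit 49) (nat_lit 5) (nat_lit 50) (nat_lit 5) (nat_lit 294) (nat_lit 292) (nat_lit 194)) (XT.lf (nat_lit 76) (nat_lit 7108877065) (nat_lit 0) (nat_lit 24431006999) (nat_lit 532) (nat_lit 22532487837) (nat_lit 44) (nat_lit 5) (nat_lit 43) (nat_lit 5) (nat_lit 50) (nat_lit 5) (nat_lit 295) (nat_lit 292) (nat_lit 193)))))) (XT.nd (nat_lit 546) (nat_lit 836) (nat_lit 0) (XT.nd (nat_lit 234) (nat_lit 608) (nat_lit 0) (XT.nd (nat_lit 78) (nat_lit 0) (nat_lit 76) (XT.lf (nat_lit 76) (nat_lit 33924165818) (nat_lit 0) (nat_lit 902812016) (nat_lit 532) (nat_lit 21506353540) (nat_lit 44) (nat_lit 5) (nat_lit 43) (nat_lit 5) (nat_lit 50) (nat_lit 5) (nat_lit 296) (nat_lit 292) (nat_lit 192)) (XT.nd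 (nat_lit 78) (nat_lit 0) (nat_lit 0) (XT.lf (nat_lit 76) (nat_lit 3703755022) (nat_lit 0) (nat_lit 35349700293) (nat_lit 532) (nat_lit 19667606683) (nat_lit 45) (nat_lit 5) (nat_lit 44) (nat_lit 5) (nat_lit 51) (nat_lit 5) (nat_lit 297) (nat_lit 292) (nat_lit 191)) (XT.lf (nat_lit 76) (nat_lit 33153872376) (nat_lit 0) (nat_lit 11097787618) (nat_lit 532) (nat_lit 16997469479) (nat_lit 45) (nat_lit 5) (nat_lit 44) (nat_lit 5) (nat_lit 51) (nat_lit 5) (nat_lit 298) (nat_lit 292) (nat_lit 190)))) (XT.nd (nat_lit 156) (nat_lit 304) (nat_lit 0) (XT.nd (nat_lit 78) (nat_lit 0) (nat_lit 0) (XT.lf (nat_lit 0) (nat_lit 648348113) (nat_lit 456) (nat_lit 49594183140) (nat_lit 532) (nat_lit 13706772866) (nat_lit 39) (nat_lit 5) (nat_lit 45) (nat_lit 5) (nat_lit 46) (nat_lit 5) (nat_lit 299) (nat_lit 292) (nat_lit 189)) (XT.lf (nat_lit 0) (nat_lit 32984227931) (nat_lit 456) (nat_lit 24775870011)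 (nat_lit 532) (nat_lit 9021606844) (nat_lit 39) (nat_lit 5) (nat_lit 45) (nat_lit 5) (nat_lit 46) (nat_lit 5) (nat_lit 300) (nat_lit 292) (nat_lit 188))) (XT.nd (nat_lit 78) (nat_lit 304) (nat_lit 0) (XT.lf (nat_lit 0) (nat_lit 65926265187) (nat_lit 532) (nat_lit 1984090837) (nat_lit 76) (nat_lit 1926571515) (nat_lit 39) (nat_lit 5) (nat_lit 46) (nat_lit 5) (nat_lit 40) (nat_lit 5) (nat_lit 301) (nat_lit 292) (nat_lit 187)) (XT.lf (nat_lit 0) (nat_lit 3011542192) (nat_lit 304) (nat_lit 39697020450) (nat_lit 76) (nat_lit 30306283807) (nat_lit 35) (nat_lit 5) (nat_lit 39) (nat_lit 5) (nat_lit 36) (nat_lit 5) (nat_lit 302) (nat_lit 292) (nat_lit 186))))) (XT.nd (nat_lit 312) (nat_lit 380) (nat_lit 0) (XT.nd (nat_lit 156) (nat_lit 228) (nat_lit 0) (XT.nd (nat_lit 78) (nat_lit 228) (nat_lit 0) (XT.lf (nat_lit 0) (nat_lit 10330476857) (nat_lit 304) (nat_lit 4990434281) (nat_lit 76) (nat_lit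 61113627682) (nat_lit 35) (nat_lit 5) (nat_lit 39) (nat_lit 5) (nat_lit 36) (nat_lit 5) (nat_lit 303) (nat_lit 292) (nat_lit 185)) (XT.lf (nat_lit 0) (nat_lit 19420431607) (nat_lit 304) (nat_lit 46224173264) (nat_lit 76) (nat_lit 14388365439) (nat_lit 32) (nat_lit 5) (nat_lit 36) (nat_lit 5) (nat_lit 33) (nat_lit 5) (nat_lit 304) (nat_lit 292) (nat_lit 184))) (XT.nd (nat_lit 78) (nat_lit 228) (nat_lit 0) (XT.lf (nat_lit 0) (nat_lit 29774260939) (nat_lit 304) (nat_lit 8315549723) (nat_lit 76) (nat_lit 45786535247) (nat_lit 32) (nat_lit 5) (nat_lit 36) (nat_lit 5) (nat_lit 33) (nat_lit 5) (nat_lit 305) (nat_lit 292) (nat_lit 183)) (XT.lf (nat_lit 0) (nat_lit 34342339323) (nat_lit 228) (nat_lit 7438825692) (nat_lit 304) (nat_lit 46180048632) (nat_lit 29) (nat_lit 5) (nat_lit 32) (nat_lit 5) (nat_lit 33) (nat_lit 5) (nat_lit 306) (nat_lit 292) (nat_lit 182)))) (XT.nd (nat_lit 156) (nat_lit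 228) (nat_lit 0) (XT.nd (nat_lit 78) (nat_lit 152) (nat_lit 0) (XT.lf (nat_lit 0) (nat_lit 55597997614) (nat_lit 304) (nat_lit 12093460277) (nat_lit 76) (nat_lit 24613466114) (nat_lit 29) (nat_lit 5) (nat_lit 33) (nat_lit 5) (nat_lit 30) (nat_lit 5) (nat_lit 307) (nat_lit 292) (nat_lit 181)) (XT.lf (nat_lit 0) (nat_lit 34273979509) (nat_lit 152) (nat_lit 37262669601) (nat_lit 228) (nat_lit 25378167354) (nat_lit 27) (nat_lit 5) (nat_lit 29) (nat_lit 5) (nat_lit 30) (nat_lit 5) (nat_lit 308) (nat_lit 292) (nat_lit 180))) (XT.nd (nat_lit 78) (nat_lit 228) (nat_lit 0) (XT.lf (nat_lit 0) (nat_lit 85037299157) (nat_lit 152) (nat_lit 4042761990) (nat_lit 228) (nat_lit 12787068525) (nat_lit 27) (nat_lit 5) (nat_lit 29) (nat_lit 5) (nat_lit 30) (nat_lit 5) (nat_lit 309) (nat_lit 292) (nat_lit 179)) (XT.lf (nat_lit 0) (nat_lit 2383327955) (nat_lit 228) (nat_lit 73592350638) (nat_lit 76) (nat_lit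 31109383177) (nat_lit 24) (nat_lit 5) (nat_lit 27) (nat_lit 5) (nat_lit 25) (nat_lit 5) (nat_lit 310) (nat_lit 292) (nat_lit 178))))))))
noncomputable def xc98 : XT := (XT.nd (nat_lit 2262) (nat_lit 304) (nat_lit 0) (XT.nd (nat_lit 1092) (nat_lit 456) (nat_lit 0) (XT.nd (nat_lit 546) (nat_lit 456) (nat_lit 0) (XT.nd (nat_lit 234) (nat_lit 304) (nat_lit 0) (XT.nd (nat_lit 78) (nat_lit 152) (nat_lit 0) (XT.lf (nat_lit 0) (nat_lit 18652730724) (nat_lit 228) (nat_lit 24335796743) (nat_lit 76) (nat_lit 69659236008) (nat_lit 24) (nat_lit 5) (nat_lit 27) (nat_lit 5) (nat_lit 25) (nat_lit 5) (nat_lit 311) (nat_lit 292) (nat_lit 177)) (XT.nd (nat_lit 78) (nat_lit 0) (nat_lit 0) (XT.lf (nat_lit 0) (nat_lit 30379823854) (nat_lit 152) (nat_lit 6573656675) (nat_lit 228) (nat_lit 81643619282) (nat_lit 22) (nat_lit 5) (nat_lit 24) (nat_lit 5) (nat_lit 25) (nat_lit 5) (nat_lit 312) (nat_lit 292) (nat_lit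 176)) (XT.lf (nat_lit 0) (nat_lit 58187886707) (nat_lit 228) (nat_lit 34918694543) (nat_lit 76) (nat_lit 31798236016) (nat_lit 22) (nat_lit 5) (nat_lit 25) (nat_lit 5) (nat_lit 23) (nat_lit 5) (nat_lit 313) (nat_lit 292) (nat_lit 175)))) (XT.nd (nat_lit 156) (nat_lit 152) (nat_lit 0) (XT.nd (nat_lit 78) (nat_lit 0) (nat_lit 0) (XT.lf (nat_lit 0) (nat_lit 23655241790) (nat_lit 152) (nat_lit 58204703055) (nat_lit 228) (nat_lit 49798097098) (nat_lit 20) (nat_lit 5) (nat_lit 22) (nat_lit 5) (nat_lit 23) (nat_lit 5) (nat_lit 314) (nat_lit 292) (nat_lit 174)) (XT.lf (nat_lit 0) (nat_lit 88899860178) (nat_lit 152) (nat_lit 19479922088) (nat_lit 228) (nat_lit 30495422808) (nat_lit 20) (nat_lit 5) (nat_lit 22) (nat_lit 5) (nat_lit 23) (nat_lit 5) (nat_lit 315) (nat_lit 292) (nat_lit 173))) (XT.nd (nat_lit 78) (nat_lit 76) (nat_lit 0) (XT.lf (nat_lit 0) (nat_lit 12796013049) (nat_lit 76) (nat_lit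 125069605081) (nat_lit 152) (nat_lit 8736571735) (nat_lit 19) (nat_lit 5) (nat_lit 20) (nat_lit 5) (nat_lit 21) (nat_lit 4) (nat_lit 316) (nat_lit 292) (nat_lit 172)) (XT.lf (nat_lit 0) (nat_lit 15931689150) (nat_lit 152) (nat_lit 72304378189) (nat_lit 76) (nat_lit 66530286903) (nat_lit 18) (nat_lit 5) (nat_lit 20) (nat_lit 5) (nat_lit 19) (nat_lit 5) (nat_lit 317) (nat_lit 292) (nat_lit 171))))) (XT.nd (nat_lit 234) (nat_lit 304) (nat_lit 0) (XT.nd (nat_lit 78) (nat_lit 152) (nat_lit 0) (XT.lf (nat_lit 0) (nat_lit 42100787228) (nat_lit 152) (nat_lit 6110346828) (nat_lit 76) (nat_lit 115354414761) (nat_lit 18) (nat_lit 5) (nat_lit 20) (nat_lit 5) (nat_lit 19) (nat_lit 5) (nat_lit 318) (nat_lit 292) (nat_lit 170)) (XT.nd (nat_lit 78) (nat_lit 0) (nat_lit 0) (XT.lf (nat_lit 0) (nat_lit 68820997998) (nat_lit 152) (nat_lit 3196985994) (nat_lit 228) (nat_lit 100918330420) (nat_lit 16) (nat_lit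 5) (nat_lit 18) (nat_lit 5) (nat_lit 19) (nat_lit 5) (nat_lit 319) (nat_lit 292) (nat_lit 169)) (XT.lf (nat_lit 0) (nat_lit 105591712013) (nat_lit 228) (nat_lit 34046603338) (nat_lit 76) (nat_lit 43317374505) (nat_lit 16) (nat_lit 5) (nat_lit 19) (nat_lit 5) (nat_lit 17) (nat_lit 4) (nat_lit 320) (nat_lit 292) (nat_lit 168)))) (XT.nd (nat_lit 156) (nat_lit 228) (nat_lit 0) (XT.nd (nat_lit 78) (nat_lit 0) (nat_lit 0) (XT.lf (nat_lit 0) (nat_lit 43731326760) (nat_lit 76) (nat_lit 99254268571) (nat_lit 152) (nat_lit 50700280401) (nat_lit 15) (nat_lit 5) (nat_lit 16) (nat_lit 5) (nat_lit 17) (nat_lit 4) (nat_lit 321) (nat_lit 292) (nat_lit 167)) (XT.lf (nat_lit 0) (nat_lit 129666914022) (nat_lit 76) (nat_lit 54634467209) (nat_lit 152) (nat_lit 20898664785) (nat_lit 15) (nat_lit 5) (nat_lit 16) (nat_lit 5) (nat_lit 17) (nat_lit 4) (nat_lit 322) (nat_lit 292) (nat_lit 166))) (XT.nd (nat_lit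 78) (nat_lit 0) (nat_lit 0) (XT.lf (nat_lit 0) (nat_lit 4810376681) (nat_lit 152) (nat_lit 6027289415) (nat_lit 228) (nat_lit 206766751309) (nat_lit 12) (nat_lit 5) (nat_lit 14) (nat_lit 5) (nat_lit 15) (nat_lit 5) (nat_lit 323) (nat_lit 292) (nat_lit 165)) (XT.lf (nat_lit 0) (nat_lit 47219782609) (nat_lit 228) (nat_lit 136673762733) (nat_lit 76) (nat_lit 46805292085) (nat_lit 12) (nat_lit 5) (nat_lit 15) (nat_lit 5) (nat_lit 13) (nat_lit 4) (nat_lit 324) (nat_lit 292) (nat_lit 164)))))) (XT.nd (nat_lit 546) (nat_lit 228) (nat_lit 0) (XT.nd (nat_lit 234) (nat_lit 152) (nat_lit 0) (XT.nd (nat_lit 78) (nat_lit 76) (nat_lit 0) (XT.lf (nat_lit 0) (nat_lit 86668586914) (nat_lit 228) (nat_lit 54621166662) (nat_lit 76) (nat_lit 103538568650) (nat_lit 12) (nat_lit 5) (nat_lit 15) (nat_lit 5) (nat_lit 13) (nat_lit 4) (nat_lit 325) (nat_lit 292) (nat_lit 163)) (XT.nd (nat_lit 78) (nat_lit 0)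 (nat_lit 0) (XT.lf (nat_lit 0) (nat_lit 35785054928) (nat_lit 76) (nat_lit 94348469754) (nat_lit 152) (nat_lit 129885823405) (nat_lit 11) (nat_lit 5) (nat_lit 12) (nat_lit 5) (nat_lit 13) (nat_lit 4) (nat_lit 326) (nat_lit 292) (nat_lit 162)) (XT.lf (nat_lit 0) (nat_lit 136529450456) (nat_lit 76) (nat_lit 42039257692) (nat_lit 152) (nat_lit 97737504376) (nat_lit 11) (nat_lit 5) (nat_lit 12) (nat_lit 5) (nat_lit 13) (nat_lit 4) (nat_lit 327) (nat_lit 292) (nat_lit 161)))) (XT.nd (nat_lit 156) (nat_lit 76) (nat_lit 0) (XT.nd (nat_lit 78) (nat_lit 76) (nat_lit 0) (XT.lf (nat_lit 0) (nat_lit 231225975512) (nat_lit 152) (nat_lit 48910914766) (nat_lit 0) (nat_lit 13731354822) (nat_lit 11) (nat_lit 5) (nat_lit 13) (nat_lit 4) (nat_lit 11) (nat_lit 4) (nat_lit 328) (nat_lit 292) (nat_lit 160)) (XT.lf (nat_lit 0) (nat_lit 50666197541) (nat_lit 76) (nat_lit 239739739454) (nat_lit 76) (nat_lit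 22244494748) (nat_lit 10) (nat_lit 4) (nat_lit 11) (nat_lit 5) (nat_lit 11) (nat_lit 4) (nat_lit 329) (nat_lit 292) (nat_lit 159))) (XT.nd (nat_lit 78) (nat_lit 0) (nat_lit 0) (XT.lf (nat_lit 0) (nat_lit 21687041855) (nat_lit 152) (nat_lit 172386775439) (nat_lit 76) (nat_lit 138710494724) (nat_lit 9) (nat_lit 5) (nat_lit 11) (nat_lit 5) (nat_lit 10) (nat_lit 4) (nat_lit 330) (nat_lit 292) (nat_lit 158)) (XT.lf (nat_lit 0) (nat_lit 67931008626) (nat_lit 152) (nat_lit 76199859550) (nat_lit 76) (nat_lit 210351837577) (nat_lit 9) (nat_lit 5) (nat_lit 11) (nat_lit 5) (nat_lit 10) (nat_lit 4) (nat_lit 331) (nat_lit 292) (nat_lit 157))))) (XT.nd (nat_lit 312) (nat_lit 152) (nat_lit 0) (XT.nd (nat_lit 156) (nat_lit 0) (nat_lit 0) (XT.nd (nat_lit 78) (nat_lit 0) (nat_lit 0) (XT.lf (nat_lit 0) (nat_lit 29139148879) (nat_lit 76) (nat_lit 89435851955) (nat_lit 152) (nat_lit 259285929857) (nat_lit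 8) (nat_lit 5) (nat_lit 9) (nat_lit 5) (nat_lit 10) (nat_lit 4) (nat_lit 332) (nat_lit 292) (nat_lit 156)) (XT.lf (nat_lit 0) (nat_lit 147238325680) (nat_lit 76) (nat_lit 28115346053) (nat_lit 152) (nat_lit 227589089474) (nat_lit 8) (nat_lit 5) (nat_lit 9) (nat_lit 5) (nat_lit 10) (nat_lit 4) (nat_lit 333) (nat_lit 292) (nat_lit 155))) (XT.nd (nat_lit 78) (nat_lit 0) (nat_lit 0) (XT.lf (nat_lit 0) (nat_lit 237590937788) (nat_lit 152) (nat_lit 156162751574) (nat_lit 0) (nat_lit 36204144989) (nat_lit 8) (nat_lit 5) (nat_lit 10) (nat_lit 4) (nat_lit 8) (nat_lit 4) (nat_lit 334) (nat_lit 292) (nat_lit 154)) (XT.lf (nat_lit 0) (nat_lit 305537209241) (nat_lit 152) (nat_lit 49388450121) (nat_lit 0) (nat_lit 104150052335) (nat_lit 8) (nat_lit 5) (nat_lit 10) (nat_lit 4) (nat_lit 8) (nat_lit 4) (nat_lit 335) (nat_lit 292) (nat_lit 153)))) (XT.nd (nat_lit 156) (nat_lit 76) (nat_lit 0) (XT.nd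 (nat_lit 78) (nat_lit 0) (nat_lit 0) (XT.lf (nat_lit 0) (nat_lit 69398999185) (nat_lit 76) (nat_lit 311189004330) (nat_lit 76) (nat_lit 109801510288) (nat_lit 7) (nat_lit 4) (nat_lit 8) (nat_lit 5) (nat_lit 8) (nat_lit 4) (nat_lit 336) (nat_lit 292) (nat_lit 152)) (XT.lf (nat_lit 0) (nat_lit 200497804603) (nat_lit 76) (nat_lit 262495205028) (nat_lit 76) (nat_lit 61107398823) (nat_lit 7) (nat_lit 4) (nat_lit 8) (nat_lit 5) (nat_lit 8) (nat_lit 4) (nat_lit 337) (nat_lit 292) (nat_lit 151))) (XT.nd (nat_lit 78) (nat_lit 76) (nat_lit 0) (XT.lf (nat_lit 0) (nat_lit 342084139680) (nat_lit 76) (nat_lit 209906073360) (nat_lit 76) (nat_lit 8517978115) (nat_lit 7) (nat_lit 4) (nat_lit 8) (nat_lit 5) (nat_lit 8) (nat_lit 4) (nat_lit 338) (nat_lit 292) (nat_lit 150)) (XT.lf (nat_lit 0) (nat_lit 45863312108) (nat_lit 152) (nat_lit 105992673689) (nat_lit 76) (nat_lit 447879738213) (nat_lit 6) (nat_lit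 5) (nat_lit 8) (nat_lit 5) (nat_lit 7) (nat_lit 4) (nat_lit 339) (nat_lit 292) (nat_lit 149))))))) (XT.nd (nat_lit 1170) (nat_lit 76) (nat_lit 0) (XT.nd (nat_lit 546) (nat_lit 76) (nat_lit 0) (XT.nd (nat_lit 234) (nat_lit 76) (nat_lit 0) (XT.nd (nat_lit 78) (nat_lit 0) (nat_lit 0) (XT.lf (nat_lit 0) (nat_lit 16012655088) (nat_lit 76) (nat_lit 88507184223) (nat_lit 152) (nat_lit 537533126599) (nat_lit 5) (nat_lit 5) (nat_lit 6) (nat_lit 5) (nat_lit 7) (nat_lit 4) (nat_lit 340) (nat_lit 292) (nat_lit 148)) (XT.nd (nat_lit 78) (nat_lit 0) (nat_lit 0) (XT.lf (nat_lit 0) (nat_lit 153805984909) (nat_lit 76) (nat_lit 16960757897) (nat_lit 152) (nat_lit 516757016190) (nat_lit 5) (nat_lit 5) (nat_lit 6) (nat_lit 5) (nat_lit 7) (nat_lit 4) (nat_lit 341) (nat_lit 292) (nat_lit 147)) (XT.lf (nat_lit 0) (nat_lit 243763676791) (nat_lit 152) (nat_lit 435460184829) (nat_lit 0) (nat_lit 57292331806)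 (nat_lit 5) (nat_lit 5) (nat_lit 7) (nat_lit 4) (nat_lit 5) (nat_lit 4) (nat_lit 342) (nat_lit 292) (nat_lit 146)))) (XT.nd (nat_lit 156) (nat_lit 76) (nat_lit 0) (XT.nd (nat_lit 78) (nat_lit 0) (nat_lit 0) (XT.lf (nat_lit 0) (nat_lit 323040752907) (nat_lit 152) (nat_lit 329782813072) (nat_lit 0) (nat_lit 136569225777) (nat_lit 5) (nat_lit 5) (nat_lit 7) (nat_lit 4) (nat_lit 5) (nat_lit 4) (nat_lit 343) (nat_lit 292) (nat_lit 145)) (XT.lf (nat_lit 0) (nat_lit 408659854600) (nat_lit 152) (nat_lit 215651515904) (nat_lit 0) (nat_lit 222188158819) (nat_lit 5) (nat_lit 5) (nat_lit 7) (nat_lit 4) (nat_lit 5) (nat_lit 4) (nat_lit 344) (nat_lit 292) (nat_lit 144))) (XT.nd (nat_lit 78) (nat_lit 76) (nat_lit 0) (XT.lf (nat_lit 0) (nat_lit 501128354327) (nat_lit 152) (nat_lit 92389959714) (nat_lit 0) (nat_lit 314656502386) (nat_lit 5) (nat_lit 5) (nat_lit 7) (nat_lit 4) (nat_lit 5) (nat_lit 4)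 (nat_lit 345) (nat_lit 292) (nat_lit 143)) (XT.lf (nat_lit 0) (nat_lit 42877184788) (nat_lit 76) (nat_lit 559148226102) (nat_lit 76) (nat_lit 372676229569) (nat_lit 4) (nat_lit 4) (nat_lit 5) (nat_lit 5) (nat_lit 5) (nat_lit 4) (nat_lit 346) (nat_lit 292) (nat_lit 142))))) (XT.nd (nat_lit 312) (nat_lit 76) (nat_lit 0) (XT.nd (nat_lit 156) (nat_lit 0) (nat_lit 0) (XT.nd (nat_lit 78) (nat_lit 0) (nat_lit 0) (XT.lf (nat_lit 0) (nat_lit 194219778840) (nat_lit 76) (nat_lit 519300441511) (nat_lit 76) (nat_lit 332828311096) (nat_lit 4) (nat_lit 4) (nat_lit 5) (nat_lit 5) (nat_lit 5) (nat_lit 4) (nat_lit 347) (nat_lit 292) (nat_lit 141)) (XT.lf (nat_lit 0) (nat_lit 357669575896) (nat_lit 76) (nat_lit 476264930475) (nat_lit 76) (nat_lit 289792676096) (nat_lit 4) (nat_lit 4) (nat_lit 5) (nat_lit 5) (nat_lit 5) (nat_lit 4) (nat_lit 348) (nat_lit 292) (nat_lit 140))) (XT.nd (nat_lit 78) (nat_lit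 0) (nat_lit 0) (XT.lf (nat_lit 0) (nat_lit 534195167344) (nat_lit 76) (nat_lit 429786667745) (nat_lit 76) (nat_lit 243314298584) (nat_lit 4) (nat_lit 4) (nat_lit 5) (nat_lit 5) (nat_lit 5) (nat_lit 4) (nat_lit 349) (nat_lit 292) (nat_lit 139)) (XT.lf (nat_lit 0) (nat_lit 724842630763) (nat_lit 76) (nat_lit 379590226577) (nat_lit 76) (nat_lit 193117751136) (nat_lit 4) (nat_lit 4) (nat_lit 5) (nat_lit 5) (nat_lit 5) (nat_lit 4) (nat_lit 350) (nat_lit 292) (nat_lit 138)))) (XT.nd (nat_lit 156) (nat_lit 76) (nat_lit 0) (XT.nd (nat_lit 78) (nat_lit 0) (nat_lit 0) (XT.lf (nat_lit 0) (nat_lit 930741728901) (nat_lit 76) (nat_lit 325378146579) (nat_lit 76) (nat_lit 138905572732) (nat_lit 4) (nat_lit 4) (nat_lit 5) (nat_lit 5) (nat_lit 5) (nat_lit 4) (nat_lit 351) (nat_lit 292) (nat_lit 137)) (XT.lf (nat_lit 0) (nat_lit 1153112604560) (nat_lit 76) (nat_lit 266829170982) (nat_lit 76) (nat_lit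 80356506018) (nat_lit 4) (nat_lit 4) (nat_lit 5) (nat_lit 5) (nat_lit 5) (nat_lit 4) (nat_lit 352) (nat_lit 292) (nat_lit 136))) (XT.nd (nat_lit 78) (nat_lit 76) (nat_lit 0) (XT.lf (nat_lit 0) (nat_lit 1393273011078) (nat_lit 76) (nat_lit 203596342893) (nat_lit 76) (nat_lit 17123593560) (nat_lit 4) (nat_lit 4) (nat_lit 5) (nat_lit 5) (nat_lit 5) (nat_lit 4) (nat_lit 353) (nat_lit 292) (nat_lit 135)) (XT.lf (nat_lit 0) (nat_lit 48608253696) (nat_lit 152) (nat_lit 85367659763) (nat_lit 76) (nat_lit 1602708831740) (nat_lit 3) (nat_lit 5) (nat_lit 5) (nat_lit 5) (nat_lit 4) (nat_lit 4) (nat_lit 354) (nat_lit 292) (nat_lit 134)))))) (XT.nd (nat_lit 35802) (nat_lit 0) (nat_lit 2812) (XT.nd (nat_lit 234) (nat_lit 0) (nat_lit 0) (XT.nd (nat_lit 78) (nat_lit 0) (nat_lit 0) (XT.lf (nat_lit 0) (nat_lit 63546774629) (nat_lit 76) (nat_lit 56654991915) (nat_lit 152) (nat_lit 1748832279764) (nat_lit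 2) (nat_lit 5) (nat_lit 3) (nat_lit 5) (nat_lit 4) (nat_lit 4) (nat_lit 355) (nat_lit 292) (nat_lit 133)) (XT.nd (nat_lit 78) (nat_lit 0) (nat_lit 0) (XT.lf (nat_lit 0) (nat_lit 200563207016) (nat_lit 152) (nat_lit 1783261796199) (nat_lit 0) (nat_lit 27903052611) (nat_lit 2) (nat_lit 5) (nat_lit 4) (nat_lit 4) (nat_lit 2) (nat_lit 4) (nat_lit 356) (nat_lit 292) (nat_lit 132)) (XT.lf (nat_lit 0) (nat_lit 288825061450) (nat_lit 152) (nat_lit 1760729955178) (nat_lit 0) (nat_lit 116164849625) (nat_lit 2) (nat_lit 5) (nat_lit 4) (nat_lit 4) (nat_lit 2) (nat_lit 4) (nat_lit 357) (nat_lit 292) (nat_lit 131)))) (XT.nd (nat_lit 156) (nat_lit 0) (nat_lit 0) (XT.nd (nat_lit 78) (nat_lit 0) (nat_lit 0) (XT.lf (nat_lit 0) (nat_lit 384147809138) (nat_lit 152) (nat_lit 1736395672677) (nat_lit 0) (nat_lit 211487544147) (nat_lit 2) (nat_lit 5) (nat_lit 4) (nat_lit 4) (nat_lit 2) (nat_lit 4) (nat_lit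 358) (nat_lit 292) (nat_lit 130)) (XT.lf (nat_lit 0) (nat_lit 487096325623) (nat_lit 152) (nat_lit 1710114745540) (nat_lit 0) (nat_lit 314436011404) (nat_lit 2) (nat_lit 5) (nat_lit 4) (nat_lit 4) (nat_lit 2) (nat_lit 4) (nat_lit 359) (nat_lit 292) (nat_lit 129))) (XT.nd (nat_lit 78) (nat_lit 0) (nat_lit 0) (XT.lf (nat_lit 0) (nat_lit 598280676188) (nat_lit 152) (nat_lit 1681731434940) (nat_lit 0) (nat_lit 425620316388) (nat_lit 2) (nat_lit 5) (nat_lit 4) (nat_lit 4) (nat_lit 2) (nat_lit 4) (nat_lit 360) (nat_lit 292) (nat_lit 128)) (XT.lf (nat_lit 0) (nat_lit 718359731058) (nat_lit 152) (nat_lit 1651077543480) (nat_lit 0) (nat_lit 545699329053) (nat_lit 2) (nat_lit 5) (nat_lit 4) (nat_lit 4) (nat_lit 2) (nat_lit 4) (nat_lit 361) (nat_lit 292) (nat_lit 127))))) (XT.nd (nat_lit 312) (nat_lit 228) (nat_lit 0) (XT.nd (nat_lit 156) (nat_lit 0) (nat_lit 76) (XT.nd (nat_lit 78) (nat_lit 0)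 (nat_lit 0) (XT.lf (nat_lit 0) (nat_lit 13916098244) (nat_lit 532) (nat_lit 6009884887) (nat_lit 532) (nat_lit 6009884887) (nat_lit 42) (nat_lit 3) (nat_lit 49) (nat_lit 3) (nat_lit 49) (nat_lit 5) (nat_lit 293) (nat_lit 293) (nat_lit 194)) (XT.lf (nat_lit 76) (nat_lit 11760771763) (nat_lit 0) (nat_lit 17489618193) (nat_lit 532) (nat_lit 24671740067) (nat_lit 43) (nat_lit 5) (nat_lit 42) (nat_lit 3) (nat_lit 49) (nat_lit 5) (nat_lit 294) (nat_lit 293) (nat_lit 193))) (XT.nd (nat_lit 78) (nat_lit 0) (nat_lit 0) (XT.lf (nat_lit 0) (nat_lit 31277217646) (nat_lit 456) (nat_lit 18153152906) (nat_lit 532) (nat_lit 6666578980) (nat_lit 43) (nat_lit 5) (nat_lit 49) (nat_lit 5) (nat_lit 50) (nat_lit 5) (nat_lit 295) (nat_lit 293) (nat_lit 192)) (XT.lf (nat_lit 76) (nat_lit 7705534293) (nat_lit 0) (nat_lit 26398201632) (nat_lit 532) (nat_lit 24291022816) (nat_lit 44) (nat_lit 5) (nat_lit 43)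 (nat_lit 5) (nat_lit 50) (nat_lit 5) (nat_lit 296) (nat_lit 293) (nat_lit 191)))) (XT.nd (nat_lit 156) (nat_lit 304) (nat_lit 0) (XT.nd (nat_lit 78) (nat_lit 0) (nat_lit 76) (XT.lf (nat_lit 76) (nat_lit 36663975994) (nat_lit 0) (nat_lit 986809268) (nat_lit 532) (nat_lit 23186061779) (nat_lit 44) (nat_lit 5) (nat_lit 43) (nat_lit 5) (nat_lit 50) (nat_lit 5) (nat_lit 297) (nat_lit 293) (nat_lit 190)) (XT.lf (nat_lit 76) (nat_lit 4028624255) (nat_lit 0) (nat_lit 38184392785) (nat_lit 532) (nat_lit 21202778475) (nat_lit 45) (nat_lit 5) (nat_lit 44) (nat_lit 5) (nat_lit 51) (nat_lit 5) (nat_lit 298) (nat_lit 293) (nat_lit 189))) (XT.nd (nat_lit 78) (nat_lit 380) (nat_lit 0) (XT.lf (nat_lit 76) (nat_lit 35832634788) (nat_lit 0) (nat_lit 11991829579) (nat_lit 532) (nat_lit 18321862645) (nat_lit 45) (nat_lit 5) (nat_lit 44) (nat_lit 5) (nat_lit 51) (nat_lit 5) (nat_lit 299) (nat_lit 293) (nat_lit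 188)) (XT.lf (nat_lit 0) (nat_lit 728808309) (nat_lit 456) (nat_lit 53563926061) (nat_lit 532) (nat_lit 14769939759) (nat_lit 39) (nat_lit 5) (nat_lit 45) (nat_lit 5) (nat_lit 46) (nat_lit 5) (nat_lit 300) (nat_lit 293) (nat_lit 187))))))))
noncomputable def xc99 : XT := (XT.nd (nat_lit 2262) (nat_lit 684) (nat_lit 0) (XT.nd (nat_lit 1092) (nat_lit 836) (nat_lit 0) (XT.nd (nat_lit 546) (nat_lit 532) (nat_lit 0) (XT.nd (nat_lit 234) (nat_lit 456) (nat_lit 0) (XT.nd (nat_lit 78) (nat_lit 304) (nat_lit 0) (XT.lf (nat_lit 0) (nat_lit 35649440561) (nat_lit 456) (nat_lit 26759984306) (nat_lit 532) (nat_lit 9712432673) (nat_lit 39) (nat_lit 5) (nat_lit 45) (nat_lit 5) (nat_lit 46) (nat_lit 5) (nat_lit 301) (nat_lit 293) (nat_lit 186)) (XT.nd (nat_lit 78) (nat_lit 304) (nat_lit 0) (XT.lf (nat_lit 0) (nat_lit 71226727434) (nat_lit 532) (nat_lit 2116052178) (nat_lit 76) (nat_lit 2078898708) (nat_lit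 39) (nat_lit 5) (nat_lit 46) (nat_lit 5) (nat_lit 40) (nat_lit 5) (nat_lit 302) (nat_lit 293) (nat_lit 185)) (XT.lf (nat_lit 0) (nat_lit 3278234793) (nat_lit 304) (nat_lit 42845255765) (nat_lit 76) (nat_lit 32730401018) (nat_lit 35) (nat_lit 5) (nat_lit 39) (nat_lit 5) (nat_lit 36) (nat_lit 5) (nat_lit 303) (nat_lit 293) (nat_lit 184)))) (XT.nd (nat_lit 156) (nat_lit 228) (nat_lit 0) (XT.nd (nat_lit 78) (nat_lit 228) (nat_lit 0) (XT.lf (nat_lit 0) (nat_lit 11180775399) (nat_lit 304) (nat_lit 5364181690) (nat_lit 76) (nat_lit 66002360958) (nat_lit 35) (nat_lit 5) (nat_lit 39) (nat_lit 5) (nat_lit 36) (nat_lit 5) (nat_lit 304) (nat_lit 293) (nat_lit 183)) (XT.lf (nat_lit 0) (nat_lit 20996808293) (nat_lit 304) (nat_lit 49895432066) (nat_lit 76) (nat_lit 15541478714) (nat_lit 32) (nat_lit 5) (nat_lit 36) (nat_lit 5) (nat_lit 33) (nat_lit 5) (nat_lit 305) (nat_lit 293) (nat_lit 182))) (XT.nd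 (nat_lit 78) (nat_lit 228) (nat_lit 0) (XT.lf (nat_lit 0) (nat_lit 32177259368) (nat_lit 304) (nat_lit 8956094572) (nat_lit 76) (nat_lit 49451350696) (nat_lit 32) (nat_lit 5) (nat_lit 36) (nat_lit 5) (nat_lit 33) (nat_lit 5) (nat_lit 306) (nat_lit 293) (nat_lit 181)) (XT.lf (nat_lit 0) (nat_lit 37113800303) (nat_lit 228) (nat_lit 8029934623) (nat_lit 304) (nat_lit 49852710100) (nat_lit 29) (nat_lit 5) (nat_lit 32) (nat_lit 5) (nat_lit 33) (nat_lit 5) (nat_lit 307) (nat_lit 293) (nat_lit 180))))) (XT.nd (nat_lit 234) (nat_lit 380) (nat_lit 0) (XT.nd (nat_lit 78) (nat_lit 152) (nat_lit 0) (XT.lf (nat_lit 0) (nat_lit 60064515981) (nat_lit 304) (nat_lit 13037193195) (nat_lit 76) (nat_lit 26586059303) (nat_lit 29) (nat_lit 5) (nat_lit 33) (nat_lit 5) (nat_lit 30) (nat_lit 5) (nat_lit 308) (nat_lit 293) (nat_lit 179)) (XT.nd (nat_lit 78) (nat_lit 0) (nat_lit 0) (XT.lf (nat_lit 0) (nat_lit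 37039040662) (nat_lit 152) (nat_lit 40238391922) (nat_lit 228) (nat_lit 27389089997) (nat_lit 27) (nat_lit 5) (nat_lit 29) (nat_lit 5) (nat_lit 30) (nat_lit 5) (nat_lit 309) (nat_lit 293) (nat_lit 178)) (XT.lf (nat_lit 0) (nat_lit 91861711601) (nat_lit 152) (nat_lit 4361283646) (nat_lit 228) (nat_lit 13792135169) (nat_lit 27) (nat_lit 5) (nat_lit 29) (nat_lit 5) (nat_lit 30) (nat_lit 5) (nat_lit 310) (nat_lit 293) (nat_lit 177)))) (XT.nd (nat_lit 156) (nat_lit 152) (nat_lit 0) (XT.nd (nat_lit 78) (nat_lit 0) (nat_lit 0) (XT.lf (nat_lit 0) (nat_lit 2590395537) (nat_lit 228) (nat_lit 79456728349) (nat_lit 76) (nat_lit 33603390171) (nat_lit 24) (nat_lit 5) (nat_lit 27) (nat_lit 5) (nat_lit 25) (nat_lit 5) (nat_lit 311) (nat_lit 293) (nat_lit 176)) (XT.lf (nat_lit 0) (nat_lit 20160135614) (nat_lit 228) (nat_lit 26261354613) (nat_lit 76) (nat_lit 75236841870) (nat_lit 24) (nat_lit 5) (nat_lit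 27) (nat_lit 5) (nat_lit 25) (nat_lit 5) (nat_lit 312) (nat_lit 293) (nat_lit 175))) (XT.nd (nat_lit 78) (nat_lit 0) (nat_lit 0) (XT.lf (nat_lit 0) (nat_lit 32830976244) (nat_lit 152) (nat_lit 7093343673) (nat_lit 228) (nat_lit 88159348242) (nat_lit 22) (nat_lit 5) (nat_lit 24) (nat_lit 5) (nat_lit 25) (nat_lit 5) (nat_lit 313) (nat_lit 293) (nat_lit 174)) (XT.lf (nat_lit 0) (nat_lit 62856538188) (nat_lit 228) (nat_lit 37691989296) (nat_lit 76) (nat_lit 34347553333) (nat_lit 22) (nat_lit 5) (nat_lit 25) (nat_lit 5) (nat_lit 23) (nat_lit 5) (nat_lit 314) (nat_lit 293) (nat_lit 173)))))) (XT.nd (nat_lit 546) (nat_lit 380) (nat_lit 0) (XT.nd (nat_lit 234) (nat_lit 228) (nat_lit 0) (XT.nd (nat_lit 78) (nat_lit 76) (nat_lit 0) (XT.lf (nat_lit 0) (nat_lit 25567350531) (nat_lit 152) (nat_lit 62854475048) (nat_lit 228) (nat_lit 53767783106) (nat_lit 20) (nat_lit 5) (nat_lit 22) (nat_lit 5)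 (nat_lit 23) (nat_lit 5) (nat_lit 315) (nat_lit 293) (nat_lit 172)) (XT.nd (nat_lit 78) (nat_lit 76) (nat_lit 0) (XT.lf (nat_lit 0) (nat_lit 96030079915) (nat_lit 152) (nat_lit 21032200807) (nat_lit 228) (nat_lit 32921943891) (nat_lit 20) (nat_lit 5) (nat_lit 22) (nat_lit 5) (nat_lit 23) (nat_lit 5) (nat_lit 316) (nat_lit 293) (nat_lit 171)) (XT.lf (nat_lit 0) (nat_lit 13838291758) (nat_lit 76) (nat_lit 135068377673) (nat_lit 152) (nat_lit 9422725924) (nat_lit 19) (nat_lit 5) (nat_lit 20) (nat_lit 5) (nat_lit 21) (nat_lit 4) (nat_lit 317) (nat_lit 293) (nat_lit 170)))) (XT.nd (nat_lit 156) (nat_lit 152) (nat_lit 0) (XT.nd (nat_lit 78) (nat_lit 0) (nat_lit 0) (XT.lf (nat_lit 0) (nat_lit 17217458231) (nat_lit 152) (nat_lit 78070894918) (nat_lit 76) (nat_lit 71858388811) (nat_lit 18) (nat_lit 5) (nat_lit 20) (nat_lit 5) (nat_lit 19) (nat_lit 5) (nat_lit 318) (nat_lit 293) (nat_lit 169))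 (XT.lf (nat_lit 0) (nat_lit 45479252011) (nat_lit 152) (nat_lit 6582662050) (nat_lit 76) (nat_lit 124588026233) (nat_lit 18) (nat_lit 5) (nat_lit 20) (nat_lit 5) (nat_lit 19) (nat_lit 5) (nat_lit 319) (nat_lit 293) (nat_lit 168))) (XT.nd (nat_lit 78) (nat_lit 0) (nat_lit 0) (XT.lf (nat_lit 0) (nat_lit 74342772324) (nat_lit 152) (nat_lit 3446668762) (nat_lit 228) (nat_lit 108980958230) (nat_lit 16) (nat_lit 5) (nat_lit 18) (nat_lit 5) (nat_lit 19) (nat_lit 5) (nat_lit 320) (nat_lit 293) (nat_lit 167)) (XT.lf (nat_lit 0) (nat_lit 114048460552) (nat_lit 228) (nat_lit 36754805118) (nat_lit 76) (nat_lit 46788109058) (nat_lit 16) (nat_lit 5) (nat_lit 19) (nat_lit 5) (nat_lit 17) (nat_lit 4) (nat_lit 321) (nat_lit 293) (nat_lit 166))))) (XT.nd (nat_lit 312) (nat_lit 76) (nat_lit 0) (XT.nd (nat_lit 156) (nat_lit 228) (nat_lit 0) (XT.nd (nat_lit 78) (nat_lit 0) (nat_lit 0) (XT.lf (nat_lit 0)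 (nat_lit 47244966312) (nat_lit 76) (nat_lit 107188555028) (nat_lit 152) (nat_lit 54746482078) (nat_lit 15) (nat_lit 5) (nat_lit 16) (nat_lit 5) (nat_lit 17) (nat_lit 4) (nat_lit 322) (nat_lit 293) (nat_lit 165)) (XT.lf (nat_lit 0) (nat_lit 140054279561) (nat_lit 76) (nat_lit 58999618079) (nat_lit 152) (nat_lit 22561464676) (nat_lit 15) (nat_lit 5) (nat_lit 16) (nat_lit 5) (nat_lit 17) (nat_lit 4) (nat_lit 323) (nat_lit 293) (nat_lit 164))) (XT.nd (nat_lit 78) (nat_lit 0) (nat_lit 0) (XT.lf (nat_lit 0) (nat_lit 5209321311) (nat_lit 152) (nat_lit 6503696054) (nat_lit 228) (nat_lit 223299073613) (nat_lit 12) (nat_lit 5) (nat_lit 14) (nat_lit 5) (nat_lit 15) (nat_lit 5) (nat_lit 324) (nat_lit 293) (nat_lit 163)) (XT.lf (nat_lit 0) (nat_lit 51005214204) (nat_lit 228) (nat_lit 147594093946) (nat_lit 76) (nat_lit 50554796516) (nat_lit 12) (nat_lit 5) (nat_lit 15) (nat_lit 5) (nat_lit 13) (nat_lit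 4) (nat_lit 325) (nat_lit 293) (nat_lit 162)))) (XT.nd (nat_lit 156) (nat_lit 0) (nat_lit 0) (XT.nd (nat_lit 78) (nat_lit 76) (nat_lit 0) (XT.lf (nat_lit 0) (nat_lit 93609341448) (nat_lit 228) (nat_lit 58978295360) (nat_lit 76) (nat_lit 111826358832) (nat_lit 12) (nat_lit 5) (nat_lit 15) (nat_lit 5) (nat_lit 13) (nat_lit 4) (nat_lit 326) (nat_lit 293) (nat_lit 161)) (XT.lf (nat_lit 0) (nat_lit 38660105865) (nat_lit 76) (nat_lit 101891124562) (nat_lit 152) (nat_lit 140269093458) (nat_lit 11) (nat_lit 5) (nat_lit 12) (nat_lit 5) (nat_lit 13) (nat_lit 4) (nat_lit 327) (nat_lit 293) (nat_lit 160))) (XT.nd (nat_lit 78) (nat_lit 0) (nat_lit 0) (XT.lf (nat_lit 0) (nat_lit 147463145884) (nat_lit 76) (nat_lit 45397562407) (nat_lit 152) (nat_lit 105549471561) (nat_lit 11) (nat_lit 5) (nat_lit 12) (nat_lit 5) (nat_lit 13) (nat_lit 4) (nat_lit 328) (nat_lit 293) (nat_lit 159)) (XT.lf (nat_lit 0)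 (nat_lit 249730182992) (nat_lit 152) (nat_lit 52812905760) (nat_lit 0) (nat_lit 14834116901) (nat_lit 11) (nat_lit 5) (nat_lit 13) (nat_lit 4) (nat_lit 11) (nat_lit 4) (nat_lit 329) (nat_lit 293) (nat_lit 158))))))) (XT.nd (nat_lit 1170) (nat_lit 228) (nat_lit 0) (XT.nd (nat_lit 546) (nat_lit 228) (nat_lit 0) (XT.nd (nat_lit 234) (nat_lit 76) (nat_lit 0) (XT.nd (nat_lit 78) (nat_lit 76) (nat_lit 0) (XT.lf (nat_lit 0) (nat_lit 54730100033) (nat_lit 76) (nat_lit 258914242420) (nat_lit 76) (nat_lit 24017641335) (nat_lit 10) (nat_lit 4) (nat_lit 11) (nat_lit 5) (nat_lit 11) (nat_lit 4) (nat_lit 330) (nat_lit 293) (nat_lit 157)) (XT.nd (nat_lit 78) (nat_lit 0) (nat_lit 0) (XT.lf (nat_lit 0) (nat_lit 23427646119) (nat_lit 152) (nat_lit 186167592520) (nat_lit 76) (nat_lit 149811360162) (nat_lit 9) (nat_lit 5) (nat_lit 11) (nat_lit 5) (nat_lit 10) (nat_lit 4) (nat_lit 331) (nat_lit 293) (nat_lit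 156)) (XT.lf (nat_lit 0) (nat_lit 73370712386) (nat_lit 152) (nat_lit 82286473356) (nat_lit 76) (nat_lit 227183712231) (nat_lit 9) (nat_lit 5) (nat_lit 11) (nat_lit 5) (nat_lit 10) (nat_lit 4) (nat_lit 332) (nat_lit 293) (nat_lit 155)))) (XT.nd (nat_lit 156) (nat_lit 0) (nat_lit 0) (XT.nd (nat_lit 78) (nat_lit 0) (nat_lit 0) (XT.lf (nat_lit 0) (nat_lit 31479418406) (nat_lit 76) (nat_lit 96586638430) (nat_lit 152) (nat_lit 280023337915) (nat_lit 8) (nat_lit 5) (nat_lit 9) (nat_lit 5) (nat_lit 10) (nat_lit 4) (nat_lit 333) (nat_lit 293) (nat_lit 154)) (XT.lf (nat_lit 0) (nat_lit 159025852491) (nat_lit 76) (nat_lit 30360794403) (nat_lit 152) (nat_lit 245791155214) (nat_lit 8) (nat_lit 5) (nat_lit 9) (nat_lit 5) (nat_lit 10) (nat_lit 4) (nat_lit 334) (nat_lit 293) (nat_lit 153))) (XT.nd (nat_lit 78) (nat_lit 0) (nat_lit 0) (XT.lf (nat_lit 0) (nat_lit 256602631621) (nat_lit 152) (nat_lit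 168647669978) (nat_lit 0) (nat_lit 39103800919) (nat_lit 8) (nat_lit 5) (nat_lit 10) (nat_lit 4) (nat_lit 8) (nat_lit 4) (nat_lit 335) (nat_lit 293) (nat_lit 152)) (XT.lf (nat_lit 0) (nat_lit 329984277471) (nat_lit 152) (nat_lit 53332024537) (nat_lit 0) (nat_lit 112485134606) (nat_lit 8) (nat_lit 5) (nat_lit 10) (nat_lit 4) (nat_lit 8) (nat_lit 4) (nat_lit 336) (nat_lit 293) (nat_lit 151))))) (XT.nd (nat_lit 312) (nat_lit 76) (nat_lit 0) (XT.nd (nat_lit 156) (nat_lit 76) (nat_lit 0) (XT.nd (nat_lit 78) (nat_lit 0) (nat_lit 0) (XT.lf (nat_lit 0) (nat_lit 74958230800) (nat_lit 76) (nat_lit 336080777260) (nat_lit 76) (nat_lit 118581345354) (nat_lit 7) (nat_lit 4) (nat_lit 8) (nat_lit 5) (nat_lit 8) (nat_lit 4) (nat_lit 337) (nat_lit 293) (nat_lit 150)) (XT.lf (nat_lit 0) (nat_lit 216544399045) (nat_lit 76) (nat_lit 283491721971) (nat_lit 76) (nat_lit 65992022435) (nat_lit 7) (nat_lit 4)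 (nat_lit 8) (nat_lit 5) (nat_lit 8) (nat_lit 4) (nat_lit 338) (nat_lit 293) (nat_lit 149))) (XT.nd (nat_lit 78) (nat_lit 76) (nat_lit 0) (XT.lf (nat_lit 0) (nat_lit 369457139442) (nat_lit 76) (nat_lit 226695689359) (nat_lit 76) (nat_lit 9195742018) (nat_lit 7) (nat_lit 4) (nat_lit 8) (nat_lit 5) (nat_lit 8) (nat_lit 4) (nat_lit 339) (nat_lit 293) (nat_lit 148)) (XT.lf (nat_lit 0) (nat_lit 49535609058) (nat_lit 152) (nat_lit 114466109948) (nat_lit 76) (nat_lit 483712601168) (nat_lit 6) (nat_lit 5) (nat_lit 8) (nat_lit 5) (nat_lit 7) (nat_lit 4) (nat_lit 340) (nat_lit 293) (nat_lit 147)))) (XT.nd (nat_lit 156) (nat_lit 0) (nat_lit 0) (XT.nd (nat_lit 78) (nat_lit 0) (nat_lit 0) (XT.lf (nat_lit 0) (nat_lit 17299493799) (nat_lit 76) (nat_lit 95585065355) (nat_lit 152) (nat_lit 580532390451) (nat_lit 5) (nat_lit 5) (nat_lit 6) (nat_lit 5) (nat_lit 7) (nat_lit 4) (nat_lit 341) (nat_lit 293)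 (nat_lit 146)) (XT.lf (nat_lit 0) (nat_lit 166115858428) (nat_lit 76) (nat_lit 18315124450) (nat_lit 152) (nat_lit 558094442045) (nat_lit 5) (nat_lit 5) (nat_lit 6) (nat_lit 5) (nat_lit 7) (nat_lit 4) (nat_lit 342) (nat_lit 293) (nat_lit 145))) (XT.nd (nat_lit 78) (nat_lit 0) (nat_lit 0) (XT.lf (nat_lit 0) (nat_lit 263267512257) (nat_lit 152) (nat_lit 470291842636) (nat_lit 0) (nat_lit 61877912161) (nat_lit 5) (nat_lit 5) (nat_lit 7) (nat_lit 4) (nat_lit 5) (nat_lit 4) (nat_lit 343) (nat_lit 293) (nat_lit 144)) (XT.lf (nat_lit 0) (nat_lit 348886551401) (nat_lit 152) (nat_lit 356160663137) (nat_lit 0) (nat_lit 147496795146) (nat_lit 5) (nat_lit 5) (nat_lit 7) (nat_lit 4) (nat_lit 5) (nat_lit 4) (nat_lit 344) (nat_lit 293) (nat_lit 143)))))) (XT.nd (nat_lit 546) (nat_lit 152) (nat_lit 0) (XT.nd (nat_lit 234) (nat_lit 0) (nat_lit 0) (XT.nd (nat_lit 78) (nat_lit 76) (nat_lit 0) (XT.lf (nat_lit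 0) (nat_lit 441354993211) (nat_lit 152) (nat_lit 232899215898) (nat_lit 0) (nat_lit 239965092364) (nat_lit 5) (nat_lit 5) (nat_lit 7) (nat_lit 4) (nat_lit 5) (nat_lit 4) (nat_lit 345) (nat_lit 293) (nat_lit 142)) (XT.nd (nat_lit 78) (nat_lit 76) (nat_lit 0) (XT.lf (nat_lit 0) (nat_lit 541220798823) (nat_lit 152) (nat_lit 99777062714) (nat_lit 0) (nat_lit 339830764094) (nat_lit 5) (nat_lit 5) (nat_lit 7) (nat_lit 4) (nat_lit 5) (nat_lit 4) (nat_lit 346) (nat_lit 293) (nat_lit 141)) (XT.lf (nat_lit 0) (nat_lit 46311349707) (nat_lit 76) (nat_lit 603878204971) (nat_lit 76) (nat_lit 402488046278) (nat_lit 4) (nat_lit 4) (nat_lit 5) (nat_lit 5) (nat_lit 5) (nat_lit 4) (nat_lit 347) (nat_lit 293) (nat_lit 140)))) (XT.nd (nat_lit 156) (nat_lit 0) (nat_lit 0) (XT.nd (nat_lit 78) (nat_lit 0) (nat_lit 0) (XT.lf (nat_lit 0) (nat_lit 209761055718) (nat_lit 76) (nat_lit 560842736814) (nat_lit 76)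 (nat_lit 359452463339) (nat_lit 4) (nat_lit 4) (nat_lit 5) (nat_lit 5) (nat_lit 5) (nat_lit 4) (nat_lit 348) (nat_lit 293) (nat_lit 139)) (XT.lf (nat_lit 0) (nat_lit 386286562866) (nat_lit 76) (nat_lit 514364513786) (nat_lit 76) (nat_lit 312974134031) (nat_lit 4) (nat_lit 4) (nat_lit 5) (nat_lit 5) (nat_lit 5) (nat_lit 4) (nat_lit 349) (nat_lit 293) (nat_lit 138))) (XT.nd (nat_lit 78) (nat_lit 0) (nat_lit 0) (XT.lf (nat_lit 0) (nat_lit 576933948230) (nat_lit 76) (nat_lit 464168109380) (nat_lit 76) (nat_lit 262777631218) (nat_lit 4) (nat_lit 4) (nat_lit 5) (nat_lit 5) (nat_lit 5) (nat_lit 4) (nat_lit 350) (nat_lit 293) (nat_lit 137)) (XT.lf (nat_lit 0) (nat_lit 782832974094) (nat_lit 76) (nat_lit 409956063421) (nat_lit 76) (nat_lit 208565494141) (nat_lit 4) (nat_lit 4) (nat_lit 5) (nat_lit 5) (nat_lit 5) (nat_lit 4) (nat_lit 351) (nat_lit 293) (nat_lit 136))))) (XT.nd (nat_lit 312) (nat_lit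 76) (nat_lit 0) (XT.nd (nat_lit 156) (nat_lit 76) (nat_lit 0) (XT.nd (nat_lit 78) (nat_lit 0) (nat_lit 0) (XT.lf (nat_lit 0) (nat_lit 1005203782833) (nat_lit 76) (nat_lit 351407119341) (nat_lit 76) (nat_lit 150016465693) (nat_lit 4) (nat_lit 4) (nat_lit 5) (nat_lit 5) (nat_lit 5) (nat_lit 4) (nat_lit 352) (nat_lit 293) (nat_lit 135)) (XT.lf (nat_lit 0) (nat_lit 1245364127387) (nat_lit 76) (nat_lit 288174320434) (nat_lit 76) (nat_lit 86783588668) (nat_lit 4) (nat_lit 4) (nat_lit 5) (nat_lit 5) (nat_lit 5) (nat_lit 4) (nat_lit 353) (nat_lit 293) (nat_lit 134))) (XT.nd (nat_lit 78) (nat_lit 76) (nat_lit 0) (XT.lf (nat_lit 0) (nat_lit 1504737180170) (nat_lit 76) (nat_lit 219882953818) (nat_lit 76) (nat_lit 18492149720) (nat_lit 4) (nat_lit 4) (nat_lit 5) (nat_lit 5) (nat_lit 5) (nat_lit 4) (nat_lit 354) (nat_lit 293) (nat_lit 133)) (XT.lf (nat_lit 0) (nat_lit 52498085034) (nat_lit 152)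 (nat_lit 92194854199) (nat_lit 76) (nat_lit 1730926490964) (nat_lit 3) (nat_lit 5) (nat_lit 5) (nat_lit 5) (nat_lit 4) (nat_lit 4) (nat_lit 355) (nat_lit 293) (nat_lit 132)))) (XT.nd (nat_lit 156) (nat_lit 0) (nat_lit 0) (XT.nd (nat_lit 78) (nat_lit 0) (nat_lit 0) (XT.lf (nat_lit 0) (nat_lit 68632678784) (nat_lit 76) (nat_lit 61186365383) (nat_lit 152) (nat_lit 1888737634077) (nat_lit 2) (nat_lit 5) (nat_lit 3) (nat_lit 5) (nat_lit 4) (nat_lit 4) (nat_lit 356) (nat_lit 293) (nat_lit 131)) (XT.lf (nat_lit 0) (nat_lit 216609338552) (nat_lit 152) (nat_lit 1925920675747) (nat_lit 0) (nat_lit 30136199196) (nat_lit 2) (nat_lit 5) (nat_lit 4) (nat_lit 4) (nat_lit 2) (nat_lit 4) (nat_lit 357) (nat_lit 293) (nat_lit 130))) (XT.nd (nat_lit 78) (nat_lit 0) (nat_lit 0) (XT.lf (nat_lit 0) (nat_lit 311932061712) (nat_lit 152) (nat_lit 1901586440344) (nat_lit 0) (nat_lit 125458873128) (nat_lit 2)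 (nat_lit 5) (nat_lit 4) (nat_lit 4) (nat_lit 2) (nat_lit 4) (nat_lit 358) (nat_lit 293) (nat_lit 129)) (XT.lf (nat_lit 0) (nat_lit 414880555486) (nat_lit 152) (nat_lit 1875305556816) (nat_lit 0) (nat_lit 228407321321) (nat_lit 2) (nat_lit 5) (nat_lit 4) (nat_lit 4) (nat_lit 2) (nat_lit 4) (nat_lit 359) (nat_lit 293) (nat_lit 128))))))))
noncomputable def xc100 : XT := (XT.nd (nat_lit 37596) (nat_lit 0) (nat_lit 152) (XT.nd (nat_lit 36426) (nat_lit 0) (nat_lit 1216) (XT.nd (nat_lit 35880) (nat_lit 0) (nat_lit 2508) (XT.nd (nat_lit 35568) (nat_lit 0) (nat_lit 3040) (XT.nd (nat_lit 78) (nat_lit 0) (nat_lit 0) (XT.lf (nat_lit 0) (nat_lit 526064885022) (nat_lit 152) (nat_lit 1846922286595) (nat_lit 0) (nat_lit 339591608652) (nat_lit 2) (nat_lit 5) (nat_lit 4) (nat_lit 4) (nat_lit 2) (nat_lit 4) (nat_lit 360) (nat_lit 293) (nat_lit 127)) (XT.nd (nat_lit 35412) (nat_lit 0) (nat_lit 3040) (XT.lf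 (nat_lit 0) (nat_lit 646143920421) (nat_lit 152) (nat_lit 1816268432524) (nat_lit 0) (nat_lit 459670604972) (nat_lit 2) (nat_lit 5) (nat_lit 4) (nat_lit 4) (nat_lit 2) (nat_lit 4) (nat_lit 361) (nat_lit 293) (nat_lit 126)) (XT.lf (nat_lit 0) (nat_lit 15050914354) (nat_lit 532) (nat_lit 6479009917) (nat_lit 532) (nat_lit 6479009917) (nat_lit 42) (nat_lit 3) (nat_lit 49) (nat_lit 3) (nat_lit 49) (nat_lit 5) (nat_lit 294) (nat_lit 294) (nat_lit 192)))) (XT.nd (nat_lit 156) (nat_lit 0) (nat_lit 76) (XT.nd (nat_lit 78) (nat_lit 0) (nat_lit 76) (XT.lf (nat_lit 76) (nat_lit 12724374355) (nat_lit 0) (nat_lit 18906460846) (nat_lit 532) (nat_lit 26601682078) (nat_lit 43) (nat_lit 5) (nat_lit 42) (nat_lit 3) (nat_lit 49) (nat_lit 5) (nat_lit 295) (nat_lit 294) (nat_lit 191)) (XT.lf (nat_lit 0) (nat_lit 33816421917) (nat_lit 456) (nat_lit 19580822697) (nat_lit 532) (nat_lit 7184359823) (nat_lit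 43) (nat_lit 5) (nat_lit 49) (nat_lit 5) (nat_lit 50) (nat_lit 5) (nat_lit 296) (nat_lit 294) (nat_lit 190))) (XT.nd (nat_lit 78) (nat_lit 0) (nat_lit 0) (XT.lf (nat_lit 76) (nat_lit 8345937139) (nat_lit 0) (nat_lit 28520958031) (nat_lit 532) (nat_lit 26196526822) (nat_lit 44) (nat_lit 5) (nat_lit 43) (nat_lit 5) (nat_lit 50) (nat_lit 5) (nat_lit 297) (nat_lit 294) (nat_lit 189)) (XT.lf (nat_lit 76) (nat_lit 39619279353) (nat_lit 0) (nat_lit 1075846850) (nat_lit 532) (nat_lit 25005967259) (nat_lit 44) (nat_lit 5) (nat_lit 43) (nat_lit 5) (nat_lit 50) (nat_lit 5) (nat_lit 298) (nat_lit 294) (nat_lit 188))))) (XT.nd (nat_lit 234) (nat_lit 304) (nat_lit 0) (XT.nd (nat_lit 78) (nat_lit 380) (nat_lit 0) (XT.lf (nat_lit 76) (nat_lit 4375407364) (nat_lit 0) (nat_lit 41244902496) (nat_lit 532) (nat_lit 22866218909) (nat_lit 45) (nat_lit 5) (nat_lit 44) (nat_lit 5) (nat_lit 51) (nat_lit 5) (nat_lit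 299) (nat_lit 294) (nat_lit 187)) (XT.nd (nat_lit 78) (nat_lit 380) (nat_lit 0) (XT.lf (nat_lit 76) (nat_lit 38721924430) (nat_lit 0) (nat_lit 12956507695) (nat_lit 532) (nat_lit 19757258098) (nat_lit 45) (nat_lit 5) (nat_lit 44) (nat_lit 5) (nat_lit 51) (nat_lit 5) (nat_lit 300) (nat_lit 294) (nat_lit 186)) (XT.lf (nat_lit 0) (nat_lit 811626303) (nat_lit 456) (nat_lit 57850933382) (nat_lit 532) (nat_lit 15922921311) (nat_lit 39) (nat_lit 5) (nat_lit 45) (nat_lit 5) (nat_lit 46) (nat_lit 5) (nat_lit 301) (nat_lit 294) (nat_lit 185)))) (XT.nd (nat_lit 156) (nat_lit 304) (nat_lit 0) (XT.nd (nat_lit 78) (nat_lit 0) (nat_lit 0) (XT.lf (nat_lit 0) (nat_lit 38524093332) (nat_lit 456) (nat_lit 28902536046) (nat_lit 532) (nat_lit 10462933186) (nat_lit 39) (nat_lit 5) (nat_lit 45) (nat_lit 5) (nat_lit 46) (nat_lit 5) (nat_lit 302) (nat_lit 294) (nat_lit 184)) (XT.lf (nat_lit 0) (nat_lit 76947465965)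 (nat_lit 532) (nat_lit 2262388886) (nat_lit 76) (nat_lit 2243668657) (nat_lit 39) (nat_lit 5) (nat_lit 46) (nat_lit 5) (nat_lit 40) (nat_lit 5) (nat_lit 303) (nat_lit 294) (nat_lit 183))) (XT.nd (nat_lit 78) (nat_lit 0) (nat_lit 0) (XT.lf (nat_lit 0) (nat_lit 3562586533) (nat_lit 304) (nat_lit 46249276842) (nat_lit 76) (nat_lit 35348502601) (nat_lit 35) (nat_lit 5) (nat_lit 39) (nat_lit 5) (nat_lit 36) (nat_lit 5) (nat_lit 304) (nat_lit 294) (nat_lit 182)) (XT.lf (nat_lit 0) (nat_lit 12095693873) (nat_lit 304) (nat_lit 5771464944) (nat_lit 76) (nat_lit 71282243817) (nat_lit 35) (nat_lit 5) (nat_lit 39) (nat_lit 5) (nat_lit 36) (nat_lit 5) (nat_lit 305) (nat_lit 294) (nat_lit 181)))))) (XT.nd (nat_lit 546) (nat_lit 456) (nat_lit 0) (XT.nd (nat_lit 234) (nat_lit 380) (nat_lit 0) (XT.nd (nat_lit 78) (nat_lit 228) (nat_lit 0) (XT.lf (nat_lit 0) (nat_lit 22696050691) (nat_lit 304) (nat_lit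 53864197067) (nat_lit 76) (nat_lit 16786549446) (nat_lit 32) (nat_lit 5) (nat_lit 36) (nat_lit 5) (nat_lit 33) (nat_lit 5) (nat_lit 306) (nat_lit 294) (nat_lit 180)) (XT.nd (nat_lit 78) (nat_lit 228) (nat_lit 0) (XT.lf (nat_lit 0) (nat_lit 34769493575) (nat_lit 304) (nat_lit 9651406616) (nat_lit 76) (nat_lit 53409081377) (nat_lit 32) (nat_lit 5) (nat_lit 36) (nat_lit 5) (nat_lit 33) (nat_lit 5) (nat_lit 307) (nat_lit 294) (nat_lit 179)) (XT.lf (nat_lit 0) (nat_lit 40103543760) (nat_lit 228) (nat_lit 8668902504) (nat_lit 304) (nat_lit 53822286284) (nat_lit 29) (nat_lit 5) (nat_lit 32) (nat_lit 5) (nat_lit 33) (nat_lit 5) (nat_lit 308) (nat_lit 294) (nat_lit 178)))) (XT.nd (nat_lit 156) (nat_lit 228) (nat_lit 0) (XT.nd (nat_lit 78) (nat_lit 152) (nat_lit 0) (XT.lf (nat_lit 0) (nat_lit 64885691111) (nat_lit 304) (nat_lit 14059812080) (nat_lit 76) (nat_lit 28715958364) (nat_lit 29) (nat_lit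 5) (nat_lit 33) (nat_lit 5) (nat_lit 30) (nat_lit 5) (nat_lit 309) (nat_lit 294) (nat_lit 177)) (XT.lf (nat_lit 0) (nat_lit 40022005129) (nat_lit 152) (nat_lit 43452926884) (nat_lit 228) (nat_lit 29563644199) (nat_lit 27) (nat_lit 5) (nat_lit 29) (nat_lit 5) (nat_lit 30) (nat_lit 5) (nat_lit 310) (nat_lit 294) (nat_lit 176))) (XT.nd (nat_lit 78) (nat_lit 228) (nat_lit 0) (XT.lf (nat_lit 0) (nat_lit 99229020024) (nat_lit 152) (nat_lit 4705985975) (nat_lit 228) (nat_lit 14880160614) (nat_lit 27) (nat_lit 5) (nat_lit 29) (nat_lit 5) (nat_lit 30) (nat_lit 5) (nat_lit 311) (nat_lit 294) (nat_lit 175)) (XT.lf (nat_lit 0) (nat_lit 2811688691) (nat_lit 228) (nat_lit 85793538960) (nat_lit 76) (nat_lit 36296167849) (nat_lit 24) (nat_lit 5) (nat_lit 27) (nat_lit 5) (nat_lit 25) (nat_lit 5) (nat_lit 312) (nat_lit 294) (nat_lit 174))))) (XT.nd (nat_lit 312) (nat_lit 152) (nat_lit 0) (XT.nd (nat_lit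 156) (nat_lit 152) (nat_lit 0) (XT.nd (nat_lit 78) (nat_lit 152) (nat_lit 0) (XT.lf (nat_lit 0) (nat_lit 21785966380) (nat_lit 228) (nat_lit 28343996632) (nat_lit 76) (nat_lit 81259961871) (nat_lit 24) (nat_lit 5) (nat_lit 27) (nat_lit 5) (nat_lit 25) (nat_lit 5) (nat_lit 313) (nat_lit 294) (nat_lit 173)) (XT.lf (nat_lit 0) (nat_lit 35475258253) (nat_lit 152) (nat_lit 7655490920) (nat_lit 228) (nat_lit 95198583942) (nat_lit 22) (nat_lit 5) (nat_lit 24) (nat_lit 5) (nat_lit 25) (nat_lit 5) (nat_lit 314) (nat_lit 294) (nat_lit 172))) (XT.nd (nat_lit 78) (nat_lit 152) (nat_lit 0) (XT.lf (nat_lit 0) (nat_lit 67896738665) (nat_lit 228) (nat_lit 40690029501) (nat_lit 76) (nat_lit 37100037328) (nat_lit 22) (nat_lit 5) (nat_lit 25) (nat_lit 5) (nat_lit 23) (nat_lit 5) (nat_lit 315) (nat_lit 294) (nat_lit 171)) (XT.lf (nat_lit 0) (nat_lit 27629619058) (nat_lit 152) (nat_lit 67877170970) (nat_lit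 228) (nat_lit 58057064328) (nat_lit 20) (nat_lit 5) (nat_lit 22) (nat_lit 5) (nat_lit 23) (nat_lit 5) (nat_lit 316) (nat_lit 294) (nat_lit 170)))) (XT.nd (nat_lit 156) (nat_lit 76) (nat_lit 0) (XT.nd (nat_lit 78) (nat_lit 76) (nat_lit 0) (XT.lf (nat_lit 0) (nat_lit 103728116387) (nat_lit 152) (nat_lit 22709534204) (nat_lit 228) (nat_lit 35544457341) (nat_lit 20) (nat_lit 5) (nat_lit 22) (nat_lit 5) (nat_lit 23) (nat_lit 5) (nat_lit 317) (nat_lit 294) (nat_lit 169)) (XT.lf (nat_lit 0) (nat_lit 14961299599) (nat_lit 76) (nat_lit 145868021571) (nat_lit 152) (nat_lit 10165594452) (nat_lit 19) (nat_lit 5) (nat_lit 20) (nat_lit 5) (nat_lit 21) (nat_lit 4) (nat_lit 318) (nat_lit 294) (nat_lit 168))) (XT.nd (nat_lit 78) (nat_lit 0) (nat_lit 0) (XT.lf (nat_lit 0) (nat_lit 18604486191) (nat_lit 152) (nat_lit 84301277137) (nat_lit 76) (nat_lit 77611928704) (nat_lit 18) (nat_lit 5) (nat_lit 20)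 (nat_lit 5) (nat_lit 19) (nat_lit 5) (nat_lit 319) (nat_lit 294) (nat_lit 167)) (XT.lf (nat_lit 0) (nat_lit 49126510043) (nat_lit 152) (nat_lit 7095118186) (nat_lit 76) (nat_lit 134559576470) (nat_lit 18) (nat_lit 5) (nat_lit 20) (nat_lit 5) (nat_lit 19) (nat_lit 5) (nat_lit 320) (nat_lit 294) (nat_lit 166))))))) (XT.nd (nat_lit 1092) (nat_lit 304) (nat_lit 0) (XT.nd (nat_lit 546) (nat_lit 304) (nat_lit 0) (XT.nd (nat_lit 234) (nat_lit 228) (nat_lit 0) (XT.nd (nat_lit 78) (nat_lit 76) (nat_lit 0) (XT.lf (nat_lit 0) (nat_lit 80303992537) (nat_lit 152) (nat_lit 3717192977) (nat_lit 228) (nat_lit 117690142515) (nat_lit 16) (nat_lit 5) (nat_lit 18) (nat_lit 5) (nat_lit 19) (nat_lit 5) (nat_lit 321) (nat_lit 294) (nat_lit 165)) (XT.nd (nat_lit 78) (nat_lit 76) (nat_lit 0) (XT.lf (nat_lit 0) (nat_lit 123180406307) (nat_lit 228) (nat_lit 39681878068) (nat_lit 76) (nat_lit 50535739910) (nat_lit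 16) (nat_lit 5) (nat_lit 19) (nat_lit 5) (nat_lit 17) (nat_lit 4) (nat_lit 322) (nat_lit 294) (nat_lit 164)) (XT.lf (nat_lit 0) (nat_lit 51037538078) (nat_lit 76) (nat_lit 115758448220) (nat_lit 152) (nat_lit 59117780929) (nat_lit 15) (nat_lit 5) (nat_lit 16) (nat_lit 5) (nat_lit 17) (nat_lit 4) (nat_lit 323) (nat_lit 294) (nat_lit 163)))) (XT.nd (nat_lit 156) (nat_lit 0) (nat_lit 0) (XT.nd (nat_lit 78) (nat_lit 228) (nat_lit 0) (XT.lf (nat_lit 0) (nat_lit 151270635316) (nat_lit 76) (nat_lit 63714780849) (nat_lit 152) (nat_lit 24358585818) (nat_lit 15) (nat_lit 5) (nat_lit 16) (nat_lit 5) (nat_lit 17) (nat_lit 4) (nat_lit 324) (nat_lit 294) (nat_lit 162)) (XT.lf (nat_lit 0) (nat_lit 5638167920) (nat_lit 152) (nat_lit 7019039308) (nat_lit 228) (nat_lit 241155268191) (nat_lit 12) (nat_lit 5) (nat_lit 14) (nat_lit 5) (nat_lit 15) (nat_lit 5) (nat_lit 325) (nat_lit 294) (nat_lit 161)))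 (XT.nd (nat_lit 78) (nat_lit 0) (nat_lit 0) (XT.lf (nat_lit 0) (nat_lit 55092360582) (nat_lit 228) (nat_lit 159389987540) (nat_lit 76) (nat_lit 54603536432) (nat_lit 12) (nat_lit 5) (nat_lit 15) (nat_lit 5) (nat_lit 13) (nat_lit 4) (nat_lit 326) (nat_lit 294) (nat_lit 160)) (XT.lf (nat_lit 0) (nat_lit 101104319543) (nat_lit 228) (nat_lit 63685786839) (nat_lit 76) (nat_lit 120776501051) (nat_lit 12) (nat_lit 5) (nat_lit 15) (nat_lit 5) (nat_lit 13) (nat_lit 4) (nat_lit 327) (nat_lit 294) (nat_lit 159))))) (XT.nd (nat_lit 234) (nat_lit 228) (nat_lit 0) (XT.nd (nat_lit 78) (nat_lit 0) (nat_lit 0) (XT.lf (nat_lit 0) (nat_lit 41763413771) (nat_lit 76) (nat_lit 110037936842) (nat_lit 152) (nat_lit 151484108744) (nat_lit 11) (nat_lit 5) (nat_lit 12) (nat_lit 5) (nat_lit 13) (nat_lit 4) (nat_lit 328) (nat_lit 294) (nat_lit 158)) (XT.nd (nat_lit 78) (nat_lit 0) (nat_lit 0) (XT.lf (nat_lit 0)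 (nat_lit 159269919256) (nat_lit 76) (nat_lit 49025221395) (nat_lit 152) (nat_lit 113987399479) (nat_lit 11) (nat_lit 5) (nat_lit 12) (nat_lit 5) (nat_lit 13) (nat_lit 4) (nat_lit 329) (nat_lit 294) (nat_lit 157)) (XT.lf (nat_lit 0) (nat_lit 269713852638) (nat_lit 152) (nat_lit 57028608499) (nat_lit 0) (nat_lit 16024493109) (nat_lit 11) (nat_lit 5) (nat_lit 13) (nat_lit 4) (nat_lit 11) (nat_lit 4) (nat_lit 330) (nat_lit 294) (nat_lit 156)))) (XT.nd (nat_lit 156) (nat_lit 76) (nat_lit 0) (XT.nd (nat_lit 78) (nat_lit 76) (nat_lit 0) (XT.lf (nat_lit 0) (nat_lit 59117601562) (nat_lit 76) (nat_lit 279623372734) (nat_lit 76) (nat_lit 25933554534) (nat_lit 10) (nat_lit 4) (nat_lit 11) (nat_lit 5) (nat_lit 11) (nat_lit 4) (nat_lit 331) (nat_lit 294) (nat_lit 155)) (XT.lf (nat_lit 0) (nat_lit 25306693985) (nat_lit 152) (nat_lit 201052319405) (nat_lit 76) (nat_lit 161799720500) (nat_lit 9) (nat_lit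 5) (nat_lit 11) (nat_lit 5) (nat_lit 10) (nat_lit 4) (nat_lit 332) (nat_lit 294) (nat_lit 154))) (XT.nd (nat_lit 78) (nat_lit 76) (nat_lit 0) (XT.lf (nat_lit 0) (nat_lit 79244847318) (nat_lit 152) (nat_lit 88861353709) (nat_lit 76) (nat_lit 245361605067) (nat_lit 9) (nat_lit 5) (nat_lit 11) (nat_lit 5) (nat_lit 10) (nat_lit 4) (nat_lit 333) (nat_lit 294) (nat_lit 153)) (XT.lf (nat_lit 0) (nat_lit 34005605913) (nat_lit 76) (nat_lit 104310070121) (nat_lit 152) (nat_lit 302420518450) (nat_lit 8) (nat_lit 5) (nat_lit 9) (nat_lit 5) (nat_lit 10) (nat_lit 4) (nat_lit 334) (nat_lit 294) (nat_lit 152)))))) (XT.nd (nat_lit 546) (nat_lit 152) (nat_lit 0) (XT.nd (nat_lit 234) (nat_lit 152) (nat_lit 0) (XT.nd (nat_lit 78) (nat_lit 0) (nat_lit 0) (XT.lf (nat_lit 0) (nat_lit 171755174426) (nat_lit 76) (nat_lit 32786417785) (nat_lit 152) (nat_lit 265450108281) (nat_lit 8) (nat_lit 5) (nat_lit 9) (nat_lit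 5) (nat_lit 10) (nat_lit 4) (nat_lit 335) (nat_lit 294) (nat_lit 151)) (XT.nd (nat_lit 78) (nat_lit 0) (nat_lit 0) (XT.lf (nat_lit 0) (nat_lit 277134630568) (nat_lit 152) (nat_lit 182132537656) (nat_lit 0) (nat_lit 42234955070) (nat_lit 8) (nat_lit 5) (nat_lit 10) (nat_lit 4) (nat_lit 8) (nat_lit 4) (nat_lit 336) (nat_lit 294) (nat_lit 150)) (XT.lf (nat_lit 0) (nat_lit 356386527463) (nat_lit 152) (nat_lit 57592155092) (nat_lit 0) (nat_lit 121486584335) (nat_lit 8) (nat_lit 5) (nat_lit 10) (nat_lit 4) (nat_lit 8) (nat_lit 4) (nat_lit 337) (nat_lit 294) (nat_lit 149)))) (XT.nd (nat_lit 156) (nat_lit 76) (nat_lit 0) (XT.nd (nat_lit 78) (nat_lit 0) (nat_lit 0) (XT.lf (nat_lit 0) (nat_lit 80961157852) (nat_lit 76) (nat_lit 362964369570) (nat_lit 76) (nat_lit 128064178637) (nat_lit 7) (nat_lit 4) (nat_lit 8) (nat_lit 5) (nat_lit 8) (nat_lit 4) (nat_lit 338) (nat_lit 294) (nat_lit 148)) (XT.lf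 (nat_lit 0) (nat_lit 233873755216) (nat_lit 76) (nat_lit 306168402441) (nat_lit 76) (nat_lit 71267982058) (nat_lit 7) (nat_lit 4) (nat_lit 8) (nat_lit 5) (nat_lit 8) (nat_lit 4) (nat_lit 339) (nat_lit 294) (nat_lit 147))) (XT.nd (nat_lit 78) (nat_lit 76) (nat_lit 0) (XT.lf (nat_lit 0) (nat_lit 399019084901) (nat_lit 76) (nat_lit 244828884057) (nat_lit 76) (nat_lit 9928251221) (nat_lit 7) (nat_lit 4) (nat_lit 8) (nat_lit 5) (nat_lit 8) (nat_lit 4) (nat_lit 340) (nat_lit 294) (nat_lit 146)) (XT.lf (nat_lit 0) (nat_lit 53501228686) (nat_lit 152) (nat_lit 123618273884) (nat_lit 76) (nat_lit 522411738804) (nat_lit 6) (nat_lit 5) (nat_lit 8) (nat_lit 5) (nat_lit 7) (nat_lit 4) (nat_lit 341) (nat_lit 294) (nat_lit 145))))) (XT.nd (nat_lit 312) (nat_lit 76) (nat_lit 0) (XT.nd (nat_lit 156) (nat_lit 0) (nat_lit 0) (XT.nd (nat_lit 78) (nat_lit 0) (nat_lit 0) (XT.lf (nat_lit 0) (nat_lit 18688448419)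 (nat_lit 76) (nat_lit 103229561251) (nat_lit 152) (nat_lit 626972078502) (nat_lit 5) (nat_lit 5) (nat_lit 6) (nat_lit 5) (nat_lit 7) (nat_lit 4) (nat_lit 342) (nat_lit 294) (nat_lit 144)) (XT.lf (nat_lit 0) (nat_lit 179409752211) (nat_lit 76) (nat_lit 19778196135) (nat_lit 152) (nat_lit 602739309273) (nat_lit 5) (nat_lit 5) (nat_lit 6) (nat_lit 5) (nat_lit 7) (nat_lit 4) (nat_lit 343) (nat_lit 294) (nat_lit 143))) (XT.nd (nat_lit 78) (nat_lit 0) (nat_lit 0) (XT.lf (nat_lit 0) (nat_lit 284331263481) (nat_lit 152) (nat_lit 507910768769) (nat_lit 0) (nat_lit 66830025973) (nat_lit 5) (nat_lit 5) (nat_lit 7) (nat_lit 4) (nat_lit 5) (nat_lit 4) (nat_lit 344) (nat_lit 294) (nat_lit 142)) (XT.lf (nat_lit 0) (nat_lit 376799651664) (nat_lit 152) (nat_lit 384649422412) (nat_lit 0) (nat_lit 159298280275) (nat_lit 5) (nat_lit 5) (nat_lit 7) (nat_lit 4) (nat_lit 5) (nat_lit 4) (nat_lit 345) (nat_lit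 294) (nat_lit 141)))) (XT.nd (nat_lit 156) (nat_lit 76) (nat_lit 0) (XT.nd (nat_lit 78) (nat_lit 0) (nat_lit 0) (XT.lf (nat_lit 0) (nat_lit 476665407623) (nat_lit 152) (nat_lit 251527362637) (nat_lit 0) (nat_lit 259163912269) (nat_lit 5) (nat_lit 5) (nat_lit 7) (nat_lit 4) (nat_lit 5) (nat_lit 4) (nat_lit 346) (nat_lit 294) (nat_lit 140)) (XT.lf (nat_lit 0) (nat_lit 584520328428) (nat_lit 152) (nat_lit 107755717978) (nat_lit 0) (nat_lit 367018718292) (nat_lit 5) (nat_lit 5) (nat_lit 7) (nat_lit 4) (nat_lit 5) (nat_lit 4) (nat_lit 347) (nat_lit 294) (nat_lit 139))) (XT.nd (nat_lit 78) (nat_lit 0) (nat_lit 0) (XT.lf (nat_lit 0) (nat_lit 50019678582) (nat_lit 76) (nat_lit 652186850241) (nat_lit 76) (nat_lit 434685133827) (nat_lit 4) (nat_lit 4) (nat_lit 5) (nat_lit 5) (nat_lit 5) (nat_lit 4) (nat_lit 348) (nat_lit 294) (nat_lit 138)) (XT.lf (nat_lit 0) (nat_lit 226545107675) (nat_lit 76)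 (nat_lit 605708663975) (nat_lit 76) (nat_lit 388206849153) (nat_lit 4) (nat_lit 4) (nat_lit 5) (nat_lit 5) (nat_lit 5) (nat_lit 4) (nat_lit 349) (nat_lit 294) (nat_lit 137))))))))
noncomputable def xc101 : XT := (XT.nd (nat_lit 37674) (nat_lit 0) (nat_lit 380) (XT.nd (nat_lit 36504) (nat_lit 0) (nat_lit 1900) (XT.nd (nat_lit 546) (nat_lit 76) (nat_lit 0) (XT.nd (nat_lit 234) (nat_lit 76) (nat_lit 0) (XT.nd (nat_lit 78) (nat_lit 0) (nat_lit 0) (XT.lf (nat_lit 0) (nat_lit 417192420765) (nat_lit 76) (nat_lit 555512293607) (nat_lit 76) (nat_lit 338010387668) (nat_lit 4) (nat_lit 4) (nat_lit 5) (nat_lit 5) (nat_lit 5) (nat_lit 4) (nat_lit 350) (nat_lit 294) (nat_lit 136)) (XT.nd (nat_lit 78) (nat_lit 0) (nat_lit 0) (XT.lf (nat_lit 0) (nat_lit 623091379708) (nat_lit 76) (nat_lit 501300279165) (nat_lit 76) (nat_lit 283798288858) (nat_lit 4) (nat_lit 4) (nat_lit 5) (nat_lit 5) (nat_lit 5) (nat_lit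 4) (nat_lit 351) (nat_lit 294) (nat_lit 135)) (XT.lf (nat_lit 0) (nat_lit 845462126484) (nat_lit 76) (nat_lit 442751364268) (nat_lit 76) (nat_lit 225249295842) (nat_lit 4) (nat_lit 4) (nat_lit 5) (nat_lit 5) (nat_lit 5) (nat_lit 4) (nat_lit 352) (nat_lit 294) (nat_lit 134)))) (XT.nd (nat_lit 156) (nat_lit 76) (nat_lit 0) (XT.nd (nat_lit 78) (nat_lit 0) (nat_lit 0) (XT.lf (nat_lit 0) (nat_lit 1085622413666) (nat_lit 76) (nat_lit 379518592382) (nat_lit 76) (nat_lit 162016451624) (nat_lit 4) (nat_lit 4) (nat_lit 5) (nat_lit 5) (nat_lit 5) (nat_lit 4) (nat_lit 353) (nat_lit 294) (nat_lit 133)) (XT.lf (nat_lit 0) (nat_lit 1344995413325) (nat_lit 76) (nat_lit 311227250785) (nat_lit 76) (nat_lit 93725043053) (nat_lit 4) (nat_lit 4) (nat_lit 5) (nat_lit 5) (nat_lit 5) (nat_lit 4) (nat_lit 354) (nat_lit 294) (nat_lit 132))) (XT.nd (nat_lit 78) (nat_lit 76) (nat_lit 0) (XT.lf (nat_lit 0) (nat_lit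 1625118150645) (nat_lit 76) (nat_lit 237472650047) (nat_lit 76) (nat_lit 19970380301) (nat_lit 4) (nat_lit 4) (nat_lit 5) (nat_lit 5) (nat_lit 5) (nat_lit 4) (nat_lit 355) (nat_lit 294) (nat_lit 131)) (XT.lf (nat_lit 0) (nat_lit 56698935818) (nat_lit 152) (nat_lit 99568540662) (nat_lit 76) (nat_lit 1869401427015) (nat_lit 3) (nat_lit 5) (nat_lit 5) (nat_lit 5) (nat_lit 4) (nat_lit 4) (nat_lit 356) (nat_lit 294) (nat_lit 130))))) (XT.nd (nat_lit 234) (nat_lit 0) (nat_lit 0) (XT.nd (nat_lit 78) (nat_lit 0) (nat_lit 0) (XT.lf (nat_lit 0) (nat_lit 74125146812) (nat_lit 76) (nat_lit 66080395083) (nat_lit 152) (nat_lit 2039835591933) (nat_lit 2) (nat_lit 5) (nat_lit 3) (nat_lit 5) (nat_lit 4) (nat_lit 4) (nat_lit 357) (nat_lit 294) (nat_lit 129)) (XT.nd (nat_lit 78) (nat_lit 0) (nat_lit 0) (XT.lf (nat_lit 0) (nat_lit 233939007254) (nat_lit 152) (nat_lit 2079992560132) (nat_lit 0) (nat_lit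 32547868773) (nat_lit 2) (nat_lit 5) (nat_lit 4) (nat_lit 4) (nat_lit 2) (nat_lit 4) (nat_lit 358) (nat_lit 294) (nat_lit 128)) (XT.lf (nat_lit 0) (nat_lit 336887479999) (nat_lit 152) (nat_lit 2053711716984) (nat_lit 0) (nat_lit 135496299313) (nat_lit 2) (nat_lit 5) (nat_lit 4) (nat_lit 4) (nat_lit 2) (nat_lit 4) (nat_lit 359) (nat_lit 294) (nat_lit 127)))) (XT.nd (nat_lit 35568) (nat_lit 0) (nat_lit 3040) (XT.nd (nat_lit 78) (nat_lit 0) (nat_lit 0) (XT.lf (nat_lit 0) (nat_lit 448071790064) (nat_lit 152) (nat_lit 2025328484151) (nat_lit 0) (nat_lit 246680570299) (nat_lit 2) (nat_lit 5) (nat_lit 4) (nat_lit 4) (nat_lit 2) (nat_lit 4) (nat_lit 360) (nat_lit 294) (nat_lit 126)) (XT.lf (nat_lit 0) (nat_lit 568150807434) (nat_lit 152) (nat_lit 1994674664698) (nat_lit 0) (nat_lit 366759551486) (nat_lit 2) (nat_lit 5) (nat_lit 4) (nat_lit 4) (nat_lit 2) (nat_lit 4) (nat_lit 361) (nat_lit 294)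 (nat_lit 125))) (XT.nd (nat_lit 78) (nat_lit 0) (nat_lit 0) (XT.lf (nat_lit 0) (nat_lit 16273444508) (nat_lit 532) (nat_lit 6987329200) (nat_lit 532) (nat_lit 6987329200) (nat_lit 42) (nat_lit 3) (nat_lit 49) (nat_lit 3) (nat_lit 49) (nat_lit 5) (nat_lit 295) (nat_lit 295) (nat_lit 190)) (XT.lf (nat_lit 76) (nat_lit 13761820918) (nat_lit 0) (nat_lit 20434129633) (nat_lit 532) (nat_lit 28692267609) (nat_lit 43) (nat_lit 5) (nat_lit 42) (nat_lit 3) (nat_lit 49) (nat_lit 5) (nat_lit 296) (nat_lit 295) (nat_lit 189)))))) (XT.nd (nat_lit 546) (nat_lit 912) (nat_lit 0) (XT.nd (nat_lit 234) (nat_lit 304) (nat_lit 0) (XT.nd (nat_lit 78) (nat_lit 0) (nat_lit 0) (XT.lf (nat_lit 0) (nat_lit 36553480235) (nat_lit 456) (nat_lit 21126213031) (nat_lit 532) (nat_lit 7745780870) (nat_lit 43) (nat_lit 5) (nat_lit 49) (nat_lit 5) (nat_lit 50) (nat_lit 5) (nat_lit 297) (nat_lit 295) (nat_lit 188)) (XT.nd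 (nat_lit 78) (nat_lit 0) (nat_lit 0) (XT.lf (nat_lit 76) (nat_lit 9034154035) (nat_lit 0) (nat_lit 30811979897) (nat_lit 532) (nat_lit 28259860577) (nat_lit 44) (nat_lit 5) (nat_lit 43) (nat_lit 5) (nat_lit 50) (nat_lit 5) (nat_lit 298) (nat_lit 295) (nat_lit 187)) (XT.lf (nat_lit 76) (nat_lit 42807842002) (nat_lit 0) (nat_lit 1170567583) (nat_lit 532) (nat_lit 26976455388) (nat_lit 44) (nat_lit 5) (nat_lit 43) (nat_lit 5) (nat_lit 50) (nat_lit 5) (nat_lit 299) (nat_lit 295) (nat_lit 186)))) (XT.nd (nat_lit 156) (nat_lit 380) (nat_lit 0) (XT.nd (nat_lit 78) (nat_lit 0) (nat_lit 0) (XT.lf (nat_lit 76) (nat_lit 4746438897) (nat_lit 0) (nat_lit 44549431501) (nat_lit 532) (nat_lit 24667411274) (nat_lit 45) (nat_lit 5) (nat_lit 44) (nat_lit 5) (nat_lit 51) (nat_lit 5) (nat_lit 300) (nat_lit 295) (nat_lit 185)) (XT.lf (nat_lit 76) (nat_lit 41839121851) (nat_lit 0) (nat_lit 13997599426) (nat_lit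 532) (nat_lit 21311815461) (nat_lit 45) (nat_lit 5) (nat_lit 44) (nat_lit 5) (nat_lit 51) (nat_lit 5) (nat_lit 301) (nat_lit 295) (nat_lit 184))) (XT.nd (nat_lit 78) (nat_lit 0) (nat_lit 0) (XT.lf (nat_lit 0) (nat_lit 897572636) (nat_lit 456) (nat_lit 62480631196) (nat_lit 532) (nat_lit 17172223442) (nat_lit 39) (nat_lit 5) (nat_lit 45) (nat_lit 5) (nat_lit 46) (nat_lit 5) (nat_lit 302) (nat_lit 295) (nat_lit 183)) (XT.lf (nat_lit 0) (nat_lit 41625480270) (nat_lit 456) (nat_lit 31216241841) (nat_lit 532) (nat_lit 11277253420) (nat_lit 39) (nat_lit 5) (nat_lit 45) (nat_lit 5) (nat_lit 46) (nat_lit 5) (nat_lit 303) (nat_lit 295) (nat_lit 182))))) (XT.nd (nat_lit 312) (nat_lit 380) (nat_lit 0) (XT.nd (nat_lit 156) (nat_lit 228) (nat_lit 0) (XT.nd (nat_lit 78) (nat_lit 304) (nat_lit 0) (XT.lf (nat_lit 0) (nat_lit 83122639388) (nat_lit 532) (nat_lit 2423706242) (nat_lit 76) (nat_lit 2421840177)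 (nat_lit 39) (nat_lit 5) (nat_lit 46) (nat_lit 5) (nat_lit 40) (nat_lit 5) (nat_lit 304) (nat_lit 295) (nat_lit 181)) (XT.lf (nat_lit 0) (nat_lit 3866534605) (nat_lit 304) (nat_lit 49928986322) (nat_lit 76) (nat_lit 38176099459) (nat_lit 35) (nat_lit 5) (nat_lit 39) (nat_lit 5) (nat_lit 36) (nat_lit 5) (nat_lit 305) (nat_lit 295) (nat_lit 180))) (XT.nd (nat_lit 78) (nat_lit 228) (nat_lit 0) (XT.lf (nat_lit 0) (nat_lit 13080887484) (nat_lit 304) (nat_lit 6214448188) (nat_lit 76) (nat_lit 76984560961) (nat_lit 35) (nat_lit 5) (nat_lit 39) (nat_lit 5) (nat_lit 36) (nat_lit 5) (nat_lit 306) (nat_lit 295) (nat_lit 179)) (XT.lf (nat_lit 0) (nat_lit 24528450911) (nat_lit 304) (nat_lit 58153725868) (nat_lit 76) (nat_lit 18130975832) (nat_lit 32) (nat_lit 5) (nat_lit 36) (nat_lit 5) (nat_lit 33) (nat_lit 5) (nat_lit 307) (nat_lit 295) (nat_lit 178)))) (XT.nd (nat_lit 156) (nat_lit 152) (nat_lit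 0) (XT.nd (nat_lit 78) (nat_lit 228) (nat_lit 0) (XT.lf (nat_lit 0) (nat_lit 37566530991) (nat_lit 304) (nat_lit 10405364548) (nat_lit 76) (nat_lit 57683199027) (nat_lit 32) (nat_lit 5) (nat_lit 36) (nat_lit 5) (nat_lit 33) (nat_lit 5) (nat_lit 308) (nat_lit 295) (nat_lit 177)) (XT.lf (nat_lit 0) (nat_lit 43329522248) (nat_lit 228) (nat_lit 9359476699) (nat_lit 304) (nat_lit 58112087857) (nat_lit 29) (nat_lit 5) (nat_lit 32) (nat_lit 5) (nat_lit 33) (nat_lit 5) (nat_lit 309) (nat_lit 295) (nat_lit 176))) (XT.nd (nat_lit 78) (nat_lit 152) (nat_lit 0) (XT.lf (nat_lit 0) (nat_lit 70090275697) (nat_lit 304) (nat_lit 15167144569) (nat_lit 76) (nat_lit 31015819325) (nat_lit 29) (nat_lit 5) (nat_lit 33) (nat_lit 5) (nat_lit 30) (nat_lit 5) (nat_lit 310) (nat_lit 295) (nat_lit 175)) (XT.lf (nat_lit 0) (nat_lit 43240776183) (nat_lit 152) (nat_lit 46925271810) (nat_lit 228) (nat_lit 31914527060)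 (nat_lit 27) (nat_lit 5) (nat_lit 29) (nat_lit 5) (nat_lit 30) (nat_lit 5) (nat_lit 311) (nat_lit 295) (nat_lit 174))))))) (XT.nd (nat_lit 1170) (nat_lit 380) (nat_lit 0) (XT.nd (nat_lit 546) (nat_lit 608) (nat_lit 0) (XT.nd (nat_lit 234) (nat_lit 304) (nat_lit 0) (XT.nd (nat_lit 78) (nat_lit 228) (nat_lit 0) (XT.lf (nat_lit 0) (nat_lit 107183092221) (nat_lit 152) (nat_lit 5078863719) (nat_lit 228) (nat_lit 16057417283) (nat_lit 27) (nat_lit 5) (nat_lit 29) (nat_lit 5) (nat_lit 30) (nat_lit 5) (nat_lit 312) (nat_lit 295) (nat_lit 173)) (XT.nd (nat_lit 78) (nat_lit 0) (nat_lit 0) (XT.lf (nat_lit 0) (nat_lit 3048679265) (nat_lit 228) (nat_lit 92640108790) (nat_lit 76) (nat_lit 39203724843) (nat_lit 24) (nat_lit 5) (nat_lit 27) (nat_lit 5) (nat_lit 25) (nat_lit 5) (nat_lit 313) (nat_lit 295) (nat_lit 172)) (XT.lf (nat_lit 0) (nat_lit 23540006171) (nat_lit 228) (nat_lit 30595855912) (nat_lit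 76) (nat_lit 87764336198) (nat_lit 24) (nat_lit 5) (nat_lit 27) (nat_lit 5) (nat_lit 25) (nat_lit 5) (nat_lit 314) (nat_lit 295) (nat_lit 171)))) (XT.nd (nat_lit 156) (nat_lit 152) (nat_lit 0) (XT.nd (nat_lit 78) (nat_lit 0) (nat_lit 0) (XT.lf (nat_lit 0) (nat_lit 38328542897) (nat_lit 152) (nat_lit 8263368939) (nat_lit 228) (nat_lit 102802886159) (nat_lit 22) (nat_lit 5) (nat_lit 24) (nat_lit 5) (nat_lit 25) (nat_lit 5) (nat_lit 315) (nat_lit 295) (nat_lit 170)) (XT.lf (nat_lit 0) (nat_lit 73338489265) (nat_lit 228) (nat_lit 43930383663) (nat_lit 76) (nat_lit 40072052427) (nat_lit 22) (nat_lit 5) (nat_lit 25) (nat_lit 5) (nat_lit 23) (nat_lit 5) (nat_lit 316) (nat_lit 295) (nat_lit 169))) (XT.nd (nat_lit 78) (nat_lit 0) (nat_lit 0) (XT.lf (nat_lit 0) (nat_lit 29854460877) (nat_lit 152) (nat_lit 73302490326) (nat_lit 228) (nat_lit 62691220157) (nat_lit 20) (nat_lit 5) (nat_lit 22) (nat_lit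 5) (nat_lit 23) (nat_lit 5) (nat_lit 317) (nat_lit 295) (nat_lit 168)) (XT.lf (nat_lit 0) (nat_lit 112039765971) (nat_lit 152) (nat_lit 24521802198) (nat_lit 228) (nat_lit 38378375672) (nat_lit 20) (nat_lit 5) (nat_lit 22) (nat_lit 5) (nat_lit 23) (nat_lit 5) (nat_lit 318) (nat_lit 295) (nat_lit 167))))) (XT.nd (nat_lit 312) (nat_lit 304) (nat_lit 0) (XT.nd (nat_lit 156) (nat_lit 152) (nat_lit 0) (XT.nd (nat_lit 78) (nat_lit 76) (nat_lit 0) (XT.lf (nat_lit 0) (nat_lit 16171873407) (nat_lit 76) (nat_lit 157532468171) (nat_lit 152) (nat_lit 10969454538) (nat_lit 19) (nat_lit 5) (nat_lit 20) (nat_lit 5) (nat_lit 21) (nat_lit 4) (nat_lit 319) (nat_lit 295) (nat_lit 166)) (XT.lf (nat_lit 0) (nat_lit 20101102374) (nat_lit 152) (nat_lit 91032271134) (nat_lit 76) (nat_lit 83825057202) (nat_lit 18) (nat_lit 5) (nat_lit 20) (nat_lit 5) (nat_lit 19) (nat_lit 5) (nat_lit 320) (nat_lit 295) (nat_lit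 165))) (XT.nd (nat_lit 78) (nat_lit 152) (nat_lit 0) (XT.lf (nat_lit 0) (nat_lit 53064276484) (nat_lit 152) (nat_lit 7650590443) (nat_lit 76) (nat_lit 145328207588) (nat_lit 18) (nat_lit 5) (nat_lit 20) (nat_lit 5) (nat_lit 19) (nat_lit 5) (nat_lit 321) (nat_lit 295) (nat_lit 164)) (XT.lf (nat_lit 0) (nat_lit 86740141867) (nat_lit 152) (nat_lit 4010102291) (nat_lit 228) (nat_lit 127097387203) (nat_lit 16) (nat_lit 5) (nat_lit 18) (nat_lit 5) (nat_lit 19) (nat_lit 5) (nat_lit 322) (nat_lit 295) (nat_lit 163)))) (XT.nd (nat_lit 156) (nat_lit 228) (nat_lit 0) (XT.nd (nat_lit 78) (nat_lit 76) (nat_lit 0) (XT.lf (nat_lit 0) (nat_lit 133041756603) (nat_lit 228) (nat_lit 42845015882) (nat_lit 76) (nat_lit 54582527538) (nat_lit 16) (nat_lit 5) (nat_lit 19) (nat_lit 5) (nat_lit 17) (nat_lit 4) (nat_lit 323) (nat_lit 295) (nat_lit 162)) (XT.lf (nat_lit 0) (nat_lit 55131664633) (nat_lit 76) (nat_lit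 125014673452) (nat_lit 152) (nat_lit 63839984856) (nat_lit 15) (nat_lit 5) (nat_lit 16) (nat_lit 5) (nat_lit 17) (nat_lit 4) (nat_lit 324) (nat_lit 295) (nat_lit 161))) (XT.nd (nat_lit 78) (nat_lit 228) (nat_lit 0) (XT.lf (nat_lit 0) (nat_lit 163382585687) (nat_lit 76) (nat_lit 68807842366) (nat_lit 152) (nat_lit 26300588842) (nat_lit 15) (nat_lit 5) (nat_lit 16) (nat_lit 5) (nat_lit 17) (nat_lit 4) (nat_lit 325) (nat_lit 295) (nat_lit 160)) (XT.lf (nat_lit 0) (nat_lit 6099595929) (nat_lit 152) (nat_lit 7576316542) (nat_lit 228) (nat_lit 260441061294) (nat_lit 12) (nat_lit 5) (nat_lit 14) (nat_lit 5) (nat_lit 15) (nat_lit 5) (nat_lit 326) (nat_lit 295) (nat_lit 159)))))) (XT.nd (nat_lit 546) (nat_lit 152) (nat_lit 0) (XT.nd (nat_lit 234) (nat_lit 152) (nat_lit 0) (XT.nd (nat_lit 78) (nat_lit 76) (nat_lit 0) (XT.lf (nat_lit 0) (nat_lit 59505518668) (nat_lit 228) (nat_lit 172131212331)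 (nat_lit 76) (nat_lit 58975554081) (nat_lit 12) (nat_lit 5) (nat_lit 15) (nat_lit 5) (nat_lit 13) (nat_lit 4) (nat_lit 327) (nat_lit 295) (nat_lit 158)) (XT.nd (nat_lit 78) (nat_lit 76) (nat_lit 0) (XT.lf (nat_lit 0) (nat_lit 109198006995) (nat_lit 228) (nat_lit 68771414405) (nat_lit 76) (nat_lit 130442079223) (nat_lit 12) (nat_lit 5) (nat_lit 15) (nat_lit 5) (nat_lit 13) (nat_lit 4) (nat_lit 328) (nat_lit 295) (nat_lit 157)) (XT.lf (nat_lit 0) (nat_lit 45113488447) (nat_lit 76) (nat_lit 118837132896) (nat_lit 152) (nat_lit 163597254290) (nat_lit 11) (nat_lit 5) (nat_lit 12) (nat_lit 5) (nat_lit 13) (nat_lit 4) (nat_lit 329) (nat_lit 295) (nat_lit 156)))) (XT.nd (nat_lit 156) (nat_lit 152) (nat_lit 0) (XT.nd (nat_lit 78) (nat_lit 0) (nat_lit 0) (XT.lf (nat_lit 0) (nat_lit 172019847587) (nat_lit 76) (nat_lit 52943684575) (nat_lit 152) (nat_lit 123101221851) (nat_lit 11) (nat_lit 5) (nat_lit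 12) (nat_lit 5) (nat_lit 13) (nat_lit 4) (nat_lit 330) (nat_lit 295) (nat_lit 155)) (XT.lf (nat_lit 0) (nat_lit 291295466171) (nat_lit 152) (nat_lit 61582898446) (nat_lit 0) (nat_lit 17309579150) (nat_lit 11) (nat_lit 5) (nat_lit 13) (nat_lit 4) (nat_lit 11) (nat_lit 4) (nat_lit 331) (nat_lit 295) (nat_lit 154))) (XT.nd (nat_lit 78) (nat_lit 76) (nat_lit 0) (XT.lf (nat_lit 0) (nat_lit 63854805920) (nat_lit 76) (nat_lit 301989805413) (nat_lit 76) (nat_lit 28003525155) (nat_lit 10) (nat_lit 4) (nat_lit 11) (nat_lit 5) (nat_lit 11) (nat_lit 4) (nat_lit 332) (nat_lit 295) (nat_lit 153)) (XT.lf (nat_lit 0) (nat_lit 27335375745) (nat_lit 152) (nat_lit 217129062813) (nat_lit 76) (nat_lit 174746657268) (nat_lit 9) (nat_lit 5) (nat_lit 11) (nat_lit 5) (nat_lit 10) (nat_lit 4) (nat_lit 333) (nat_lit 295) (nat_lit 152))))) (XT.nd (nat_lit 312) (nat_lit 76) (nat_lit 0) (XT.nd (nat_lit 156) (nat_lit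 0) (nat_lit 0) (XT.nd (nat_lit 78) (nat_lit 76) (nat_lit 0) (XT.lf (nat_lit 0) (nat_lit 85588274215) (nat_lit 152) (nat_lit 95963371132) (nat_lit 76) (nat_lit 264993273405) (nat_lit 9) (nat_lit 5) (nat_lit 11) (nat_lit 5) (nat_lit 10) (nat_lit 4) (nat_lit 334) (nat_lit 295) (nat_lit 151)) (XT.lf (nat_lit 0) (nat_lit 36732770807) (nat_lit 76) (nat_lit 112651875573) (nat_lit 152) (nat_lit 326610142009) (nat_lit 8) (nat_lit 5) (nat_lit 9) (nat_lit 5) (nat_lit 10) (nat_lit 4) (nat_lit 335) (nat_lit 295) (nat_lit 150))) (XT.nd (nat_lit 78) (nat_lit 0) (nat_lit 0) (XT.lf (nat_lit 0) (nat_lit 185501807289) (nat_lit 76) (nat_lit 35406553284) (nat_lit 152) (nat_lit 286682396651) (nat_lit 8) (nat_lit 5) (nat_lit 9) (nat_lit 5) (nat_lit 10) (nat_lit 4) (nat_lit 336) (nat_lit 295) (nat_lit 149)) (XT.lf (nat_lit 0) (nat_lit 299308648972) (nat_lit 152) (nat_lit 196697185661) (nat_lit 0) (nat_lit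 45616194958) (nat_lit 8) (nat_lit 5) (nat_lit 10) (nat_lit 4) (nat_lit 8) (nat_lit 4) (nat_lit 337) (nat_lit 295) (nat_lit 148)))) (XT.nd (nat_lit 156) (nat_lit 0) (nat_lit 0) (XT.nd (nat_lit 78) (nat_lit 76) (nat_lit 0) (XT.lf (nat_lit 0) (nat_lit 384900457028) (nat_lit 152) (nat_lit 62194013604) (nat_lit 0) (nat_lit 131207773565) (nat_lit 8) (nat_lit 5) (nat_lit 10) (nat_lit 4) (nat_lit 8) (nat_lit 4) (nat_lit 338) (nat_lit 295) (nat_lit 147)) (XT.lf (nat_lit 0) (nat_lit 87443424783) (nat_lit 76) (nat_lit 391999058685) (nat_lit 76) (nat_lit 138306162769) (nat_lit 7) (nat_lit 4) (nat_lit 8) (nat_lit 5) (nat_lit 8) (nat_lit 4) (nat_lit 339) (nat_lit 295) (nat_lit 146))) (XT.nd (nat_lit 78) (nat_lit 0) (nat_lit 0) (XT.lf (nat_lit 0) (nat_lit 252588631840) (nat_lit 76) (nat_lit 330659596441) (nat_lit 76) (nat_lit 76966503809) (nat_lit 7) (nat_lit 4) (nat_lit 8) (nat_lit 5) (nat_lit 8)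 (nat_lit 4) (nat_lit 340) (nat_lit 295) (nat_lit 145)) (XT.lf (nat_lit 0) (nat_lit 430945219291) (nat_lit 76) (nat_lit 264413085341) (nat_lit 76) (nat_lit 10719810565) (nat_lit 7) (nat_lit 4) (nat_lit 8) (nat_lit 5) (nat_lit 8) (nat_lit 4) (nat_lit 341) (nat_lit 295) (nat_lit 144))))))))
noncomputable def xc102 : XT := (XT.nd (nat_lit 37830) (nat_lit 0) (nat_lit 532) (XT.nd (nat_lit 1092) (nat_lit 152) (nat_lit 0) (XT.nd (nat_lit 546) (nat_lit 76) (nat_lit 0) (XT.nd (nat_lit 234) (nat_lit 0) (nat_lit 0) (XT.nd (nat_lit 78) (nat_lit 76) (nat_lit 0) (XT.lf (nat_lit 0) (nat_lit 57783702584) (nat_lit 152) (nat_lit 133503342053) (nat_lit 76) (nat_lit 564206503648) (nat_lit 6) (nat_lit 5) (nat_lit 8) (nat_lit 5) (nat_lit 7) (nat_lit 4) (nat_lit 342) (nat_lit 295) (nat_lit 143)) (XT.nd (nat_lit 78) (nat_lit 0) (nat_lit 0) (XT.lf (nat_lit 0) (nat_lit 20187806800) (nat_lit 76) (nat_lit 111485946270)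 (nat_lit 152) (nat_lit 677127355769) (nat_lit 5) (nat_lit 5) (nat_lit 6) (nat_lit 5) (nat_lit 7) (nat_lit 4) (nat_lit 343) (nat_lit 295) (nat_lit 142)) (XT.lf (nat_lit 0) (nat_lit 193766497672) (nat_lit 76) (nat_lit 21358618602) (nat_lit 152) (nat_lit 650956149373) (nat_lit 5) (nat_lit 5) (nat_lit 6) (nat_lit 5) (nat_lit 7) (nat_lit 4) (nat_lit 344) (nat_lit 295) (nat_lit 141)))) (XT.nd (nat_lit 156) (nat_lit 0) (nat_lit 0) (XT.nd (nat_lit 78) (nat_lit 0) (nat_lit 0) (XT.lf (nat_lit 0) (nat_lit 307079779514) (nat_lit 152) (nat_lit 548539839737) (nat_lit 0) (nat_lit 72178040567) (nat_lit 5) (nat_lit 5) (nat_lit 7) (nat_lit 4) (nat_lit 5) (nat_lit 4) (nat_lit 345) (nat_lit 295) (nat_lit 140)) (XT.lf (nat_lit 0) (nat_lit 406945489496) (nat_lit 152) (nat_lit 415417866452) (nat_lit 0) (nat_lit 172043635768) (nat_lit 5) (nat_lit 5) (nat_lit 7) (nat_lit 4) (nat_lit 5) (nat_lit 4) (nat_lit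 346) (nat_lit 295) (nat_lit 139))) (XT.nd (nat_lit 78) (nat_lit 0) (nat_lit 0) (XT.lf (nat_lit 0) (nat_lit 514800367731) (nat_lit 152) (nat_lit 271646301876) (nat_lit 0) (nat_lit 279898407724) (nat_lit 5) (nat_lit 5) (nat_lit 7) (nat_lit 4) (nat_lit 5) (nat_lit 4) (nat_lit 347) (nat_lit 295) (nat_lit 138)) (XT.lf (nat_lit 0) (nat_lit 631283554238) (nat_lit 152) (nat_lit 116373166369) (nat_lit 0) (nat_lit 396381495823) (nat_lit 5) (nat_lit 5) (nat_lit 7) (nat_lit 4) (nat_lit 5) (nat_lit 4) (nat_lit 348) (nat_lit 295) (nat_lit 137))))) (XT.nd (nat_lit 234) (nat_lit 0) (nat_lit 0) (XT.nd (nat_lit 78) (nat_lit 0) (nat_lit 0) (XT.lf (nat_lit 0) (nat_lit 54024185738) (nat_lit 76) (nat_lit 704360416979) (nat_lit 76) (nat_lit 469458267447) (nat_lit 4) (nat_lit 4) (nat_lit 5) (nat_lit 5) (nat_lit 5) (nat_lit 4) (nat_lit 349) (nat_lit 295) (nat_lit 136)) (XT.nd (nat_lit 78) (nat_lit 0) (nat_lit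 0) (XT.lf (nat_lit 0) (nat_lit 244671431908) (nat_lit 76) (nat_lit 654164078128) (nat_lit 76) (nat_lit 419261844228) (nat_lit 4) (nat_lit 4) (nat_lit 5) (nat_lit 5) (nat_lit 5) (nat_lit 4) (nat_lit 350) (nat_lit 295) (nat_lit 135)) (XT.lf (nat_lit 0) (nat_lit 450570328889) (nat_lit 76) (nat_lit 599952092869) (nat_lit 76) (nat_lit 365049780850) (nat_lit 4) (nat_lit 4) (nat_lit 5) (nat_lit 5) (nat_lit 5) (nat_lit 4) (nat_lit 351) (nat_lit 295) (nat_lit 134)))) (XT.nd (nat_lit 156) (nat_lit 0) (nat_lit 0) (XT.nd (nat_lit 78) (nat_lit 0) (nat_lit 0) (XT.lf (nat_lit 0) (nat_lit 672941018291) (nat_lit 76) (nat_lit 541403204992) (nat_lit 76) (nat_lit 306500820641) (nat_lit 4) (nat_lit 4) (nat_lit 5) (nat_lit 5) (nat_lit 5) (nat_lit 4) (nat_lit 352) (nat_lit 295) (nat_lit 133)) (XT.lf (nat_lit 0) (nat_lit 913101252349) (nat_lit 76) (nat_lit 478170458126) (nat_lit 76) (nat_lit 243268006801)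 (nat_lit 4) (nat_lit 4) (nat_lit 5) (nat_lit 5) (nat_lit 5) (nat_lit 4) (nat_lit 353) (nat_lit 295) (nat_lit 132))) (XT.nd (nat_lit 78) (nat_lit 0) (nat_lit 0) (XT.lf (nat_lit 0) (nat_lit 1172474202820) (nat_lit 76) (nat_lit 409879139695) (nat_lit 76) (nat_lit 174976626357) (nat_lit 4) (nat_lit 4) (nat_lit 5) (nat_lit 5) (nat_lit 5) (nat_lit 4) (nat_lit 354) (nat_lit 295) (nat_lit 131)) (XT.lf (nat_lit 0) (nat_lit 1452596894596) (nat_lit 76) (nat_lit 336124560406) (nat_lit 76) (nat_lit 101221989649) (nat_lit 4) (nat_lit 4) (nat_lit 5) (nat_lit 5) (nat_lit 5) (nat_lit 4) (nat_lit 355) (nat_lit 295) (nat_lit 130)))))) (XT.nd (nat_lit 36114) (nat_lit 0) (nat_lit 2812) (XT.nd (nat_lit 234) (nat_lit 0) (nat_lit 0) (XT.nd (nat_lit 78) (nat_lit 152) (nat_lit 0) (XT.lf (nat_lit 0) (nat_lit 1755129313998) (nat_lit 76) (nat_lit 256469656085) (nat_lit 76) (nat_lit 21567032162) (nat_lit 4) (nat_lit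 4) (nat_lit 5) (nat_lit 5) (nat_lit 5) (nat_lit 4) (nat_lit 356) (nat_lit 295) (nat_lit 129)) (XT.nd (nat_lit 78) (nat_lit 76) (nat_lit 0) (XT.lf (nat_lit 0) (nat_lit 61235711435) (nat_lit 152) (nat_lit 107532393365) (nat_lit 76) (nat_lit 2018954241428) (nat_lit 3) (nat_lit 5) (nat_lit 5) (nat_lit 5) (nat_lit 4) (nat_lit 4) (nat_lit 357) (nat_lit 295) (nat_lit 128)) (XT.lf (nat_lit 0) (nat_lit 80056747827) (nat_lit 76) (nat_lit 71366072634) (nat_lit 152) (nat_lit 2203021536620) (nat_lit 2) (nat_lit 5) (nat_lit 3) (nat_lit 5) (nat_lit 4) (nat_lit 4) (nat_lit 358) (nat_lit 295) (nat_lit 127)))) (XT.nd (nat_lit 35724) (nat_lit 0) (nat_lit 3040) (XT.nd (nat_lit 78) (nat_lit 0) (nat_lit 0) (XT.lf (nat_lit 0) (nat_lit 252654917972) (nat_lit 152) (nat_lit 2246390447731) (nat_lit 0) (nat_lit 35152361548) (nat_lit 2) (nat_lit 5) (nat_lit 4) (nat_lit 4) (nat_lit 2) (nat_lit 4) (nat_lit 359) (nat_lit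 295) (nat_lit 126)) (XT.lf (nat_lit 0) (nat_lit 363839210008) (nat_lit 152) (nat_lit 2218007249517) (nat_lit 0) (nat_lit 146336617400) (nat_lit 2) (nat_lit 5) (nat_lit 4) (nat_lit 4) (nat_lit 2) (nat_lit 4) (nat_lit 360) (nat_lit 295) (nat_lit 125))) (XT.nd (nat_lit 78) (nat_lit 0) (nat_lit 0) (XT.lf (nat_lit 0) (nat_lit 17591143975) (nat_lit 532) (nat_lit 7537740854) (nat_lit 532) (nat_lit 7537740854) (nat_lit 42) (nat_lit 3) (nat_lit 49) (nat_lit 3) (nat_lit 49) (nat_lit 5) (nat_lit 296) (nat_lit 296) (nat_lit 188)) (XT.lf (nat_lit 76) (nat_lit 14879481796) (nat_lit 0) (nat_lit 22081850332) (nat_lit 532) (nat_lit 30955456772) (nat_lit 43) (nat_lit 5) (nat_lit 42) (nat_lit 3) (nat_lit 49) (nat_lit 5) (nat_lit 297) (nat_lit 296) (nat_lit 187))))) (XT.nd (nat_lit 312) (nat_lit 304) (nat_lit 0) (XT.nd (nat_lit 156) (nat_lit 0) (nat_lit 0) (XT.nd (nat_lit 78) (nat_lit 0) (nat_lit 0) (XT.lf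 (nat_lit 0) (nat_lit 39504974501) (nat_lit 456) (nat_lit 22798241244) (nat_lit 532) (nat_lit 8354016951) (nat_lit 43) (nat_lit 5) (nat_lit 49) (nat_lit 5) (nat_lit 50) (nat_lit 5) (nat_lit 298) (nat_lit 296) (nat_lit 186)) (XT.lf (nat_lit 76) (nat_lit 9774497748) (nat_lit 0) (nat_lit 33284950311) (nat_lit 532) (nat_lit 30492881598) (nat_lit 44) (nat_lit 5) (nat_lit 43) (nat_lit 5) (nat_lit 50) (nat_lit 5) (nat_lit 299) (nat_lit 296) (nat_lit 185))) (XT.nd (nat_lit 78) (nat_lit 0) (nat_lit 76) (XT.lf (nat_lit 76) (nat_lit 46248776205) (nat_lit 0) (nat_lit 1271631529) (nat_lit 532) (nat_lit 29108860871) (nat_lit 44) (nat_lit 5) (nat_lit 43) (nat_lit 5) (nat_lit 50) (nat_lit 5) (nat_lit 300) (nat_lit 296) (nat_lit 184)) (XT.lf (nat_lit 76) (nat_lit 5144157218) (nat_lit 0) (nat_lit 48117618535) (nat_lit 532) (nat_lit 26616708542) (nat_lit 45) (nat_lit 5) (nat_lit 44) (nat_lit 5) (nat_lit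 51) (nat_lit 5) (nat_lit 301) (nat_lit 296) (nat_lit 183)))) (XT.nd (nat_lit 156) (nat_lit 0) (nat_lit 0) (XT.nd (nat_lit 78) (nat_lit 380) (nat_lit 0) (XT.lf (nat_lit 76) (nat_lit 45202921238) (nat_lit 0) (nat_lit 15121326375) (nat_lit 532) (nat_lit 22994449926) (nat_lit 45) (nat_lit 5) (nat_lit 44) (nat_lit 5) (nat_lit 51) (nat_lit 5) (nat_lit 302) (nat_lit 296) (nat_lit 182)) (XT.lf (nat_lit 0) (nat_lit 987396476) (nat_lit 456) (nat_lit 67480473277) (nat_lit 532) (nat_lit 18524969446) (nat_lit 39) (nat_lit 5) (nat_lit 45) (nat_lit 5) (nat_lit 46) (nat_lit 5) (nat_lit 303) (nat_lit 296) (nat_lit 181))) (XT.nd (nat_lit 78) (nat_lit 0) (nat_lit 0) (XT.lf (nat_lit 0) (nat_lit 44972202051) (nat_lit 456) (nat_lit 33714829693) (nat_lit 532) (nat_lit 12159959739) (nat_lit 39) (nat_lit 5) (nat_lit 45) (nat_lit 5) (nat_lit 46) (nat_lit 5) (nat_lit 304) (nat_lit 296) (nat_lit 180)) (XT.lf (nat_lit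 0) (nat_lit 89789062461) (nat_lit 532) (nat_lit 2600735668) (nat_lit 76) (nat_lit 2614454014) (nat_lit 39) (nat_lit 5) (nat_lit 46) (nat_lit 5) (nat_lit 40) (nat_lit 5) (nat_lit 305) (nat_lit 296) (nat_lit 179))))))) (XT.nd (nat_lit 1170) (nat_lit 760) (nat_lit 0) (XT.nd (nat_lit 546) (nat_lit 608) (nat_lit 0) (XT.nd (nat_lit 234) (nat_lit 380) (nat_lit 0) (XT.nd (nat_lit 78) (nat_lit 228) (nat_lit 0) (XT.lf (nat_lit 0) (nat_lit 4192096357) (nat_lit 304) (nat_lit 53905958977) (nat_lit 76) (nat_lit 41229944489) (nat_lit 35) (nat_lit 5) (nat_lit 39) (nat_lit 5) (nat_lit 36) (nat_lit 5) (nat_lit 306) (nat_lit 296) (nat_lit 178)) (XT.nd (nat_lit 78) (nat_lit 228) (nat_lit 0) (XT.lf (nat_lit 0) (nat_lit 14142394578) (nat_lit 304) (nat_lit 6695542699) (nat_lit 76) (nat_lit 83143100906) (nat_lit 35) (nat_lit 5) (nat_lit 39) (nat_lit 5) (nat_lit 36) (nat_lit 5) (nat_lit 307) (nat_lit 296) (nat_lit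 177)) (XT.lf (nat_lit 0) (nat_lit 26505058401) (nat_lit 304) (nat_lit 62789214125) (nat_lit 76) (nat_lit 19582741991) (nat_lit 32) (nat_lit 5) (nat_lit 36) (nat_lit 5) (nat_lit 33) (nat_lit 5) (nat_lit 308) (nat_lit 296) (nat_lit 176)))) (XT.nd (nat_lit 156) (nat_lit 152) (nat_lit 0) (XT.nd (nat_lit 78) (nat_lit 228) (nat_lit 0) (XT.lf (nat_lit 0) (nat_lit 40585123301) (nat_lit 304) (nat_lit 11222229071) (nat_lit 76) (nat_lit 62299047627) (nat_lit 32) (nat_lit 5) (nat_lit 36) (nat_lit 5) (nat_lit 33) (nat_lit 5) (nat_lit 309) (nat_lit 296) (nat_lit 175)) (XT.lf (nat_lit 0) (nat_lit 46811054628) (nat_lit 228) (nat_lit 10105715969) (nat_lit 304) (nat_lit 62747353470) (nat_lit 29) (nat_lit 5) (nat_lit 32) (nat_lit 5) (nat_lit 33) (nat_lit 5) (nat_lit 310) (nat_lit 296) (nat_lit 174))) (XT.nd (nat_lit 78) (nat_lit 152) (nat_lit 0) (XT.lf (nat_lit 0) (nat_lit 75709268413) (nat_lit 304) (nat_lit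 16365553447) (nat_lit 76) (nat_lit 33499300484) (nat_lit 29) (nat_lit 5) (nat_lit 33) (nat_lit 5) (nat_lit 30) (nat_lit 5) (nat_lit 311) (nat_lit 296) (nat_lit 173)) (XT.lf (nat_lit 0) (nat_lit 46714622162) (nat_lit 152) (nat_lit 50675959171) (nat_lit 228) (nat_lit 34455507576) (nat_lit 27) (nat_lit 5) (nat_lit 29) (nat_lit 5) (nat_lit 30) (nat_lit 5) (nat_lit 312) (nat_lit 296) (nat_lit 172))))) (XT.nd (nat_lit 312) (nat_lit 228) (nat_lit 0) (XT.nd (nat_lit 156) (nat_lit 152) (nat_lit 0) (XT.nd (nat_lit 78) (nat_lit 228) (nat_lit 0) (XT.lf (nat_lit 0) (nat_lit 115771243196) (nat_lit 152) (nat_lit 5482085425) (nat_lit 228) (nat_lit 17330731361) (nat_lit 27) (nat_lit 5) (nat_lit 29) (nat_lit 5) (nat_lit 30) (nat_lit 5) (nat_lit 313) (nat_lit 296) (nat_lit 171)) (XT.lf (nat_lit 0) (nat_lit 3302909237) (nat_lit 228) (nat_lit 100036817076) (nat_lit 76) (nat_lit 42343335217) (nat_lit 24)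 (nat_lit 5) (nat_lit 27) (nat_lit 5) (nat_lit 25) (nat_lit 5) (nat_lit 314) (nat_lit 296) (nat_lit 170))) (XT.nd (nat_lit 78) (nat_lit 152) (nat_lit 0) (XT.lf (nat_lit 0) (nat_lit 25432776693) (nat_lit 228) (nat_lit 33030098073) (nat_lit 76) (nat_lit 94788550118) (nat_lit 24) (nat_lit 5) (nat_lit 27) (nat_lit 5) (nat_lit 25) (nat_lit 5) (nat_lit 315) (nat_lit 296) (nat_lit 169)) (XT.lf (nat_lit 0) (nat_lit 41407912735) (nat_lit 152) (nat_lit 8920527914) (nat_lit 228) (nat_lit 111017185212) (nat_lit 22) (nat_lit 5) (nat_lit 24) (nat_lit 5) (nat_lit 25) (nat_lit 5) (nat_lit 316) (nat_lit 296) (nat_lit 168)))) (XT.nd (nat_lit 156) (nat_lit 76) (nat_lit 0) (XT.nd (nat_lit 78) (nat_lit 152) (nat_lit 0) (XT.lf (nat_lit 0) (nat_lit 79214151660) (nat_lit 228) (nat_lit 47432084419) (nat_lit 76) (nat_lit 43281256361) (nat_lit 22) (nat_lit 5) (nat_lit 25) (nat_lit 5) (nat_lit 23) (nat_lit 5) (nat_lit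 317) (nat_lit 296) (nat_lit 167)) (XT.lf (nat_lit 0) (nat_lit 32255225408) (nat_lit 152) (nat_lit 79162527754) (nat_lit 228) (nat_lit 67697593459) (nat_lit 20) (nat_lit 5) (nat_lit 22) (nat_lit 5) (nat_lit 23) (nat_lit 5) (nat_lit 318) (nat_lit 296) (nat_lit 166))) (XT.nd (nat_lit 78) (nat_lit 76) (nat_lit 0) (XT.lf (nat_lit 0) (nat_lit 121014435823) (nat_lit 152) (nat_lit 26479692856) (nat_lit 228) (nat_lit 41440382475) (nat_lit 20) (nat_lit 5) (nat_lit 22) (nat_lit 5) (nat_lit 23) (nat_lit 5) (nat_lit 319) (nat_lit 296) (nat_lit 165)) (XT.lf (nat_lit 0) (nat_lit 17477342963) (nat_lit 76) (nat_lit 170130783109) (nat_lit 152) (nat_lit 11838962658) (nat_lit 19) (nat_lit 5) (nat_lit 20) (nat_lit 5) (nat_lit 21) (nat_lit 4) (nat_lit 320) (nat_lit 296) (nat_lit 164)))))) (XT.nd (nat_lit 546) (nat_lit 228) (nat_lit 0) (XT.nd (nat_lit 234) (nat_lit 304) (nat_lit 0) (XT.nd (nat_lit 78) (nat_lit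 152) (nat_lit 0) (XT.lf (nat_lit 0) (nat_lit 21716269858) (nat_lit 152) (nat_lit 98303614678) (nat_lit 76) (nat_lit 90534640483) (nat_lit 18) (nat_lit 5) (nat_lit 20) (nat_lit 5) (nat_lit 19) (nat_lit 5) (nat_lit 321) (nat_lit 296) (nat_lit 163)) (XT.nd (nat_lit 78) (nat_lit 152) (nat_lit 0) (XT.lf (nat_lit 0) (nat_lit 57315973505) (nat_lit 152) (nat_lit 8252231987) (nat_lit 76) (nat_lit 156957777811) (nat_lit 18) (nat_lit 5) (nat_lit 20) (nat_lit 5) (nat_lit 19) (nat_lit 5) (nat_lit 322) (nat_lit 296) (nat_lit 162)) (XT.lf (nat_lit 0) (nat_lit 93689495473) (nat_lit 152) (nat_lit 4327081493) (nat_lit 228) (nat_lit 137258348008) (nat_lit 16) (nat_lit 5) (nat_lit 18) (nat_lit 5) (nat_lit 19) (nat_lit 5) (nat_lit 323) (nat_lit 296) (nat_lit 161)))) (XT.nd (nat_lit 156) (nat_lit 228) (nat_lit 0) (XT.nd (nat_lit 78) (nat_lit 76) (nat_lit 0) (XT.lf (nat_lit 0) (nat_lit 143691028022) (nat_lit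 228) (nat_lit 46262832832) (nat_lit 76) (nat_lit 58952497741) (nat_lit 16) (nat_lit 5) (nat_lit 19) (nat_lit 5) (nat_lit 17) (nat_lit 4) (nat_lit 324) (nat_lit 296) (nat_lit 160)) (XT.lf (nat_lit 0) (nat_lit 59551734420) (nat_lit 76) (nat_lit 135012031633) (nat_lit 152) (nat_lit 68940994902) (nat_lit 15) (nat_lit 5) (nat_lit 16) (nat_lit 5) (nat_lit 17) (nat_lit 4) (nat_lit 325) (nat_lit 296) (nat_lit 159))) (XT.nd (nat_lit 78) (nat_lit 228) (nat_lit 0) (XT.lf (nat_lit 0) (nat_lit 176462022742) (nat_lit 76) (nat_lit 74308936705) (nat_lit 152) (nat_lit 28398905633) (nat_lit 15) (nat_lit 5) (nat_lit 16) (nat_lit 5) (nat_lit 17) (nat_lit 4) (nat_lit 326) (nat_lit 296) (nat_lit 158)) (XT.lf (nat_lit 0) (nat_lit 6596458130) (nat_lit 152) (nat_lit 8178781681) (nat_lit 228) (nat_lit 281270663454) (nat_lit 12) (nat_lit 5) (nat_lit 14) (nat_lit 5) (nat_lit 15) (nat_lit 5) (nat_lit 327) (nat_lit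 296) (nat_lit 157))))) (XT.nd (nat_lit 312) (nat_lit 152) (nat_lit 0) (XT.nd (nat_lit 156) (nat_lit 76) (nat_lit 0) (XT.nd (nat_lit 78) (nat_lit 0) (nat_lit 0) (XT.lf (nat_lit 0) (nat_lit 64270906354) (nat_lit 228) (nat_lit 185893158039) (nat_lit 76) (nat_lit 63696800340) (nat_lit 12) (nat_lit 5) (nat_lit 15) (nat_lit 5) (nat_lit 13) (nat_lit 4) (nat_lit 328) (nat_lit 296) (nat_lit 156)) (XT.lf (nat_lit 0) (nat_lit 117938427363) (nat_lit 228) (nat_lit 74265209706) (nat_lit 76) (nat_lit 140880410313) (nat_lit 12) (nat_lit 5) (nat_lit 15) (nat_lit 5) (nat_lit 13) (nat_lit 4) (nat_lit 329) (nat_lit 296) (nat_lit 155))) (XT.nd (nat_lit 78) (nat_lit 0) (nat_lit 0) (XT.lf (nat_lit 0) (nat_lit 48730284922) (nat_lit 76) (nat_lit 128340812295) (nat_lit 152) (nat_lit 176680247979) (nat_lit 11) (nat_lit 5) (nat_lit 12) (nat_lit 5) (nat_lit 13) (nat_lit 4) (nat_lit 330) (nat_lit 296) (nat_lit 154))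 (XT.lf (nat_lit 0) (nat_lit 185788581135) (nat_lit 76) (nat_lit 57176131904) (nat_lit 152) (nat_lit 132944887512) (nat_lit 11) (nat_lit 5) (nat_lit 12) (nat_lit 5) (nat_lit 13) (nat_lit 4) (nat_lit 331) (nat_lit 296) (nat_lit 153)))) (XT.nd (nat_lit 156) (nat_lit 76) (nat_lit 0) (XT.nd (nat_lit 78) (nat_lit 76) (nat_lit 0) (XT.lf (nat_lit 0) (nat_lit 314602966051) (nat_lit 152) (nat_lit 66502672698) (nat_lit 0) (nat_lit 18697026030) (nat_lit 11) (nat_lit 5) (nat_lit 13) (nat_lit 4) (nat_lit 11) (nat_lit 4) (nat_lit 332) (nat_lit 296) (nat_lit 152)) (XT.lf (nat_lit 0) (nat_lit 68969874407) (nat_lit 76) (nat_lit 326146043052) (nat_lit 76) (nat_lit 30239765895) (nat_lit 10) (nat_lit 4) (nat_lit 11) (nat_lit 5) (nat_lit 11) (nat_lit 4) (nat_lit 333) (nat_lit 296) (nat_lit 151))) (XT.nd (nat_lit 78) (nat_lit 0) (nat_lit 0) (XT.lf (nat_lit 0) (nat_lit 29525760538) (nat_lit 152) (nat_lit 234493007400)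 (nat_lit 76) (nat_lit 188728926824) (nat_lit 9) (nat_lit 5) (nat_lit 11) (nat_lit 5) (nat_lit 10) (nat_lit 4) (nat_lit 334) (nat_lit 296) (nat_lit 150)) (XT.lf (nat_lit 0) (nat_lit 92438627573) (nat_lit 152) (nat_lit 103634533008) (nat_lit 76) (nat_lit 286195084328) (nat_lit 9) (nat_lit 5) (nat_lit 11) (nat_lit 5) (nat_lit 10) (nat_lit 4) (nat_lit 335) (nat_lit 296) (nat_lit 149))))))))
noncomputable def xc103 : XT := (XT.nd (nat_lit 37908) (nat_lit 0) (nat_lit 760) (XT.nd (nat_lit 1092) (nat_lit 228) (nat_lit 0) (XT.nd (nat_lit 546) (nat_lit 152) (nat_lit 0) (XT.nd (nat_lit 234) (nat_lit 76) (nat_lit 0) (XT.nd (nat_lit 78) (nat_lit 0) (nat_lit 0) (XT.lf (nat_lit 0) (nat_lit 39677150721) (nat_lit 76) (nat_lit 121661453467) (nat_lit 152) (nat_lit 352735508654) (nat_lit 8) (nat_lit 5) (nat_lit 9) (nat_lit 5) (nat_lit 10) (nat_lit 4) (nat_lit 336) (nat_lit 296) (nat_lit 148)) (XT.nd (nat_lit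 78) (nat_lit 0) (nat_lit 0) (XT.lf (nat_lit 0) (nat_lit 200347283584) (nat_lit 76) (nat_lit 38236695925) (nat_lit 152) (nat_lit 309613798831) (nat_lit 8) (nat_lit 5) (nat_lit 9) (nat_lit 5) (nat_lit 10) (nat_lit 4) (nat_lit 337) (nat_lit 296) (nat_lit 147)) (XT.lf (nat_lit 0) (nat_lit 323256125490) (nat_lit 152) (nat_lit 212427855055) (nat_lit 0) (nat_lit 49267585447) (nat_lit 8) (nat_lit 5) (nat_lit 10) (nat_lit 4) (nat_lit 8) (nat_lit 4) (nat_lit 338) (nat_lit 296) (nat_lit 146)))) (XT.nd (nat_lit 156) (nat_lit 0) (nat_lit 0) (XT.nd (nat_lit 78) (nat_lit 76) (nat_lit 0) (XT.lf (nat_lit 0) (nat_lit 415695071924) (nat_lit 152) (nat_lit 67164807416) (nat_lit 0) (nat_lit 141706335165) (nat_lit 8) (nat_lit 5) (nat_lit 10) (nat_lit 4) (nat_lit 8) (nat_lit 4) (nat_lit 339) (nat_lit 296) (nat_lit 145)) (XT.lf (nat_lit 0) (nat_lit 94443506365) (nat_lit 76) (nat_lit 423356873940) (nat_lit 76)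 (nat_lit 149367955036) (nat_lit 7) (nat_lit 4) (nat_lit 8) (nat_lit 5) (nat_lit 8) (nat_lit 4) (nat_lit 340) (nat_lit 296) (nat_lit 144))) (XT.nd (nat_lit 78) (nat_lit 0) (nat_lit 0) (XT.lf (nat_lit 0) (nat_lit 272799988683) (nat_lit 76) (nat_lit 357110410971) (nat_lit 76) (nat_lit 83121323416) (nat_lit 7) (nat_lit 4) (nat_lit 8) (nat_lit 5) (nat_lit 8) (nat_lit 4) (nat_lit 341) (nat_lit 296) (nat_lit 143)) (XT.lf (nat_lit 0) (nat_lit 465424787108) (nat_lit 76) (nat_lit 285564323664) (nat_lit 76) (nat_lit 11575079949) (nat_lit 7) (nat_lit 4) (nat_lit 8) (nat_lit 5) (nat_lit 8) (nat_lit 4) (nat_lit 342) (nat_lit 296) (nat_lit 142))))) (XT.nd (nat_lit 234) (nat_lit 0) (nat_lit 0) (XT.nd (nat_lit 78) (nat_lit 76) (nat_lit 0) (XT.lf (nat_lit 0) (nat_lit 62408435487) (nat_lit 152) (nat_lit 144179842492) (nat_lit 76) (nat_lit 609344589217) (nat_lit 6) (nat_lit 5) (nat_lit 8) (nat_lit 5) (nat_lit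 7) (nat_lit 4) (nat_lit 343) (nat_lit 296) (nat_lit 141)) (XT.nd (nat_lit 78) (nat_lit 0) (nat_lit 0) (XT.lf (nat_lit 0) (nat_lit 21806502904) (nat_lit 76) (nat_lit 120403124543) (nat_lit 152) (nat_lit 731295410302) (nat_lit 5) (nat_lit 5) (nat_lit 6) (nat_lit 5) (nat_lit 7) (nat_lit 4) (nat_lit 344) (nat_lit 296) (nat_lit 140)) (XT.lf (nat_lit 0) (nat_lit 209271217078) (nat_lit 76) (nat_lit 23065736397) (nat_lit 152) (nat_lit 703030665464) (nat_lit 5) (nat_lit 5) (nat_lit 6) (nat_lit 5) (nat_lit 7) (nat_lit 4) (nat_lit 345) (nat_lit 296) (nat_lit 139)))) (XT.nd (nat_lit 156) (nat_lit 0) (nat_lit 0) (XT.nd (nat_lit 78) (nat_lit 0) (nat_lit 0) (XT.lf (nat_lit 0) (nat_lit 331647889373) (nat_lit 152) (nat_lit 592419777144) (nat_lit 0) (nat_lit 77953666286) (nat_lit 5) (nat_lit 5) (nat_lit 7) (nat_lit 4) (nat_lit 5) (nat_lit 4) (nat_lit 346) (nat_lit 296) (nat_lit 138)) (XT.lf (nat_lit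 0) (nat_lit 439502728192) (nat_lit 152) (nat_lit 448648286720) (nat_lit 0) (nat_lit 185808406697) (nat_lit 5) (nat_lit 5) (nat_lit 7) (nat_lit 4) (nat_lit 5) (nat_lit 4) (nat_lit 347) (nat_lit 296) (nat_lit 137))) (XT.nd (nat_lit 78) (nat_lit 0) (nat_lit 0) (XT.lf (nat_lit 0) (nat_lit 555985878201) (nat_lit 152) (nat_lit 293375219871) (nat_lit 0) (nat_lit 302291465589) (nat_lit 5) (nat_lit 5) (nat_lit 7) (nat_lit 4) (nat_lit 5) (nat_lit 4) (nat_lit 348) (nat_lit 296) (nat_lit 136)) (XT.lf (nat_lit 0) (nat_lit 681787609921) (nat_lit 152) (nat_lit 125680439905) (nat_lit 0) (nat_lit 428093112941) (nat_lit 5) (nat_lit 5) (nat_lit 7) (nat_lit 4) (nat_lit 5) (nat_lit 4) (nat_lit 349) (nat_lit 296) (nat_lit 135)))))) (XT.nd (nat_lit 546) (nat_lit 152) (nat_lit 0) (XT.nd (nat_lit 234) (nat_lit 0) (nat_lit 0) (XT.nd (nat_lit 78) (nat_lit 0) (nat_lit 0) (XT.lf (nat_lit 0) (nat_lit 58348635060)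 (nat_lit 76) (nat_lit 760708066110) (nat_lit 76) (nat_lit 507013491012) (nat_lit 4) (nat_lit 4) (nat_lit 5) (nat_lit 5) (nat_lit 5) (nat_lit 4) (nat_lit 350) (nat_lit 296) (nat_lit 134)) (XT.nd (nat_lit 78) (nat_lit 0) (nat_lit 0) (XT.lf (nat_lit 0) (nat_lit 264247474667) (nat_lit 76) (nat_lit 706496107872) (nat_lit 76) (nat_lit 452801460441) (nat_lit 4) (nat_lit 4) (nat_lit 5) (nat_lit 5) (nat_lit 5) (nat_lit 4) (nat_lit 351) (nat_lit 296) (nat_lit 133)) (XT.lf (nat_lit 0) (nat_lit 486618110946) (nat_lit 76) (nat_lit 647947245015) (nat_lit 76) (nat_lit 394252530610) (nat_lit 4) (nat_lit 4) (nat_lit 5) (nat_lit 5) (nat_lit 5) (nat_lit 4) (nat_lit 352) (nat_lit 296) (nat_lit 132)))) (XT.nd (nat_lit 156) (nat_lit 0) (nat_lit 0) (XT.nd (nat_lit 78) (nat_lit 0) (nat_lit 0) (XT.lf (nat_lit 0) (nat_lit 726778295816) (nat_lit 76) (nat_lit 584714521314) (nat_lit 76) (nat_lit 331019744896) (nat_lit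 4) (nat_lit 4) (nat_lit 5) (nat_lit 5) (nat_lit 5) (nat_lit 4) (nat_lit 353) (nat_lit 296) (nat_lit 131)) (XT.lf (nat_lit 0) (nat_lit 986151200742) (nat_lit 76) (nat_lit 516423224334) (nat_lit 76) (nat_lit 262728390496) (nat_lit 4) (nat_lit 4) (nat_lit 5) (nat_lit 5) (nat_lit 5) (nat_lit 4) (nat_lit 354) (nat_lit 296) (nat_lit 130))) (XT.nd (nat_lit 78) (nat_lit 0) (nat_lit 0) (XT.lf (nat_lit 0) (nat_lit 1266273850347) (nat_lit 76) (nat_lit 442668664906) (nat_lit 76) (nat_lit 188973777902) (nat_lit 4) (nat_lit 4) (nat_lit 5) (nat_lit 5) (nat_lit 5) (nat_lit 4) (nat_lit 355) (nat_lit 296) (nat_lit 129)) (XT.lf (nat_lit 0) (nat_lit 1568806230702) (nat_lit 76) (nat_lit 363013778975) (nat_lit 76) (nat_lit 109318842743) (nat_lit 4) (nat_lit 4) (nat_lit 5) (nat_lit 5) (nat_lit 5) (nat_lit 4) (nat_lit 356) (nat_lit 296) (nat_lit 128))))) (XT.nd (nat_lit 35958) (nat_lit 0) (nat_lit 3040) (XT.nd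 (nat_lit 156) (nat_lit 76) (nat_lit 0) (XT.nd (nat_lit 78) (nat_lit 76) (nat_lit 0) (XT.lf (nat_lit 0) (nat_lit 1895541126283) (nat_lit 76) (nat_lit 276986537587) (nat_lit 76) (nat_lit 23291555774) (nat_lit 4) (nat_lit 4) (nat_lit 5) (nat_lit 5) (nat_lit 5) (nat_lit 4) (nat_lit 357) (nat_lit 296) (nat_lit 127)) (XT.lf (nat_lit 0) (nat_lit 66135306306) (nat_lit 152) (nat_lit 116133586900) (nat_lit 76) (nat_lit 2180471181096) (nat_lit 3) (nat_lit 5) (nat_lit 5) (nat_lit 5) (nat_lit 4) (nat_lit 4) (nat_lit 358) (nat_lit 296) (nat_lit 126))) (XT.nd (nat_lit 78) (nat_lit 0) (nat_lit 0) (XT.lf (nat_lit 0) (nat_lit 86462650196) (nat_lit 76) (nat_lit 77074711963) (nat_lit 152) (nat_lit 2379262485659) (nat_lit 2) (nat_lit 5) (nat_lit 3) (nat_lit 5) (nat_lit 4) (nat_lit 4) (nat_lit 359) (nat_lit 296) (nat_lit 125)) (XT.lf (nat_lit 0) (nat_lit 272867988826) (nat_lit 152) (nat_lit 2426100382786)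 (nat_lit 0) (nat_lit 37965119122) (nat_lit 2) (nat_lit 5) (nat_lit 4) (nat_lit 4) (nat_lit 2) (nat_lit 4) (nat_lit 360) (nat_lit 296) (nat_lit 124)))) (XT.nd (nat_lit 156) (nat_lit 0) (nat_lit 76) (XT.nd (nat_lit 78) (nat_lit 0) (nat_lit 0) (XT.lf (nat_lit 0) (nat_lit 19012001943) (nat_lit 532) (nat_lit 8133408714) (nat_lit 532) (nat_lit 8133408714) (nat_lit 42) (nat_lit 3) (nat_lit 49) (nat_lit 3) (nat_lit 49) (nat_lit 5) (nat_lit 297) (nat_lit 297) (nat_lit 186)) (XT.lf (nat_lit 76) (nat_lit 16084170933) (nat_lit 0) (nat_lit 23859535471) (nat_lit 532) (nat_lit 33404293652) (nat_lit 43) (nat_lit 5) (nat_lit 42) (nat_lit 3) (nat_lit 49) (nat_lit 5) (nat_lit 298) (nat_lit 297) (nat_lit 185))) (XT.nd (nat_lit 78) (nat_lit 0) (nat_lit 0) (XT.lf (nat_lit 0) (nat_lit 42688705663) (nat_lit 456) (nat_lit 24606609435) (nat_lit 532) (nat_lit 9012542021) (nat_lit 43) (nat_lit 5) (nat_lit 49)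 (nat_lit 5) (nat_lit 50) (nat_lit 5) (nat_lit 299) (nat_lit 297) (nat_lit 184)) (XT.lf (nat_lit 76) (nat_lit 10571556496) (nat_lit 0) (nat_lit 35954615354) (nat_lit 532) (nat_lit 32908505692) (nat_lit 44) (nat_lit 5) (nat_lit 43) (nat_lit 5) (nat_lit 50) (nat_lit 5) (nat_lit 300) (nat_lit 297) (nat_lit 183))))))) (XT.nd (nat_lit 1170) (nat_lit 912) (nat_lit 0) (XT.nd (nat_lit 546) (nat_lit 836) (nat_lit 0) (XT.nd (nat_lit 234) (nat_lit 608) (nat_lit 0) (XT.nd (nat_lit 78) (nat_lit 0) (nat_lit 76) (XT.lf (nat_lit 76) (nat_lit 49962658791) (nat_lit 0) (nat_lit 1379722253) (nat_lit 532) (nat_lit 31415526746) (nat_lit 44) (nat_lit 5) (nat_lit 43) (nat_lit 5) (nat_lit 50) (nat_lit 5) (nat_lit 301) (nat_lit 297) (nat_lit 182)) (XT.nd (nat_lit 78) (nat_lit 0) (nat_lit 0) (XT.lf (nat_lit 76) (nat_lit 5571124646) (nat_lit 0) (nat_lit 51970656717) (nat_lit 532) (nat_lit 28725387103) (nat_lit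 45) (nat_lit 5) (nat_lit 44) (nat_lit 5) (nat_lit 51) (nat_lit 5) (nat_lit 302) (nat_lit 297) (nat_lit 181)) (XT.lf (nat_lit 76) (nat_lit 48833446465) (nat_lit 0) (nat_lit 16334392391) (nat_lit 532) (nat_lit 24814878029) (nat_lit 45) (nat_lit 5) (nat_lit 44) (nat_lit 5) (nat_lit 51) (nat_lit 5) (nat_lit 303) (nat_lit 297) (nat_lit 180)))) (XT.nd (nat_lit 156) (nat_lit 304) (nat_lit 0) (XT.nd (nat_lit 78) (nat_lit 0) (nat_lit 0) (XT.lf (nat_lit 0) (nat_lit 1081835749) (nat_lit 456) (nat_lit 72880104198) (nat_lit 532) (nat_lit 19988935562) (nat_lit 39) (nat_lit 5) (nat_lit 45) (nat_lit 5) (nat_lit 46) (nat_lit 5) (nat_lit 304) (nat_lit 297) (nat_lit 179)) (XT.lf (nat_lit 0) (nat_lit 48584281507) (nat_lit 456) (nat_lit 36413120753) (nat_lit 532) (nat_lit 13116060740) (nat_lit 39) (nat_lit 5) (nat_lit 45) (nat_lit 5) (nat_lit 46) (nat_lit 5) (nat_lit 305) (nat_lit 297) (nat_lit 178))) (XT.nd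 (nat_lit 78) (nat_lit 304) (nat_lit 0) (XT.lf (nat_lit 0) (nat_lit 96986429503) (nat_lit 532) (nat_lit 2794333725) (nat_lit 76) (nat_lit 2822638646) (nat_lit 39) (nat_lit 5) (nat_lit 46) (nat_lit 5) (nat_lit 40) (nat_lit 5) (nat_lit 306) (nat_lit 297) (nat_lit 177)) (XT.lf (nat_lit 0) (nat_lit 4541386376) (nat_lit 304) (nat_lit 58203564080) (nat_lit 76) (nat_lit 44528131778) (nat_lit 35) (nat_lit 5) (nat_lit 39) (nat_lit 5) (nat_lit 36) (nat_lit 5) (nat_lit 307) (nat_lit 297) (nat_lit 176))))) (XT.nd (nat_lit 312) (nat_lit 380) (nat_lit 0) (XT.nd (nat_lit 156) (nat_lit 228) (nat_lit 0) (XT.nd (nat_lit 78) (nat_lit 228) (nat_lit 0) (XT.lf (nat_lit 0) (nat_lit 15286677172) (nat_lit 304) (nat_lit 7217416101) (nat_lit 76) (nat_lit 89794356136) (nat_lit 35) (nat_lit 5) (nat_lit 39) (nat_lit 5) (nat_lit 36) (nat_lit 5) (nat_lit 308) (nat_lit 297) (nat_lit 175)) (XT.lf (nat_lit 0) (nat_lit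 28637749953) (nat_lit 304) (nat_lit 67797939551) (nat_lit 76) (nat_lit 21150465682) (nat_lit 32) (nat_lit 5) (nat_lit 36) (nat_lit 5) (nat_lit 33) (nat_lit 5) (nat_lit 309) (nat_lit 297) (nat_lit 174))) (XT.nd (nat_lit 78) (nat_lit 228) (nat_lit 0) (XT.lf (nat_lit 0) (nat_lit 43843309906) (nat_lit 304) (nat_lit 12106663226) (nat_lit 76) (nat_lit 67283993966) (nat_lit 32) (nat_lit 5) (nat_lit 36) (nat_lit 5) (nat_lit 33) (nat_lit 5) (nat_lit 310) (nat_lit 297) (nat_lit 173)) (XT.lf (nat_lit 0) (nat_lit 50568945342) (nat_lit 228) (nat_lit 10912013725) (nat_lit 304) (nat_lit 67755394993) (nat_lit 29) (nat_lit 5) (nat_lit 32) (nat_lit 5) (nat_lit 33) (nat_lit 5) (nat_lit 311) (nat_lit 297) (nat_lit 172)))) (XT.nd (nat_lit 156) (nat_lit 228) (nat_lit 0) (XT.nd (nat_lit 78) (nat_lit 152) (nat_lit 0) (XT.lf (nat_lit 0) (nat_lit 81776101329) (nat_lit 304) (nat_lit 17661969630) (nat_lit 76)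 (nat_lit 36181144053) (nat_lit 29) (nat_lit 5) (nat_lit 33) (nat_lit 5) (nat_lit 30) (nat_lit 5) (nat_lit 312) (nat_lit 297) (nat_lit 171)) (XT.lf (nat_lit 0) (nat_lit 50464295266) (nat_lit 152) (nat_lit 54727177209) (nat_lit 228) (nat_lit 37201504382) (nat_lit 27) (nat_lit 5) (nat_lit 29) (nat_lit 5) (nat_lit 30) (nat_lit 5) (nat_lit 313) (nat_lit 297) (nat_lit 170))) (XT.nd (nat_lit 78) (nat_lit 228) (nat_lit 0) (XT.lf (nat_lit 0) (nat_lit 125044519810) (nat_lit 152) (nat_lit 5918005318) (nat_lit 228) (nat_lit 18707519685) (nat_lit 27) (nat_lit 5) (nat_lit 29) (nat_lit 5) (nat_lit 30) (nat_lit 5) (nat_lit 314) (nat_lit 297) (nat_lit 169)) (XT.lf (nat_lit 0) (nat_lit 3576003112) (nat_lit 228) (nat_lit 108027330671) (nat_lit 76) (nat_lit 45733641871) (nat_lit 24) (nat_lit 5) (nat_lit 27) (nat_lit 5) (nat_lit 25) (nat_lit 5) (nat_lit 315) (nat_lit 297) (nat_lit 168)))))) (XT.nd (nat_lit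 546) (nat_lit 456) (nat_lit 0) (XT.nd (nat_lit 234) (nat_lit 304) (nat_lit 0) (XT.nd (nat_lit 78) (nat_lit 152) (nat_lit 0) (XT.lf (nat_lit 0) (nat_lit 27475603584) (nat_lit 228) (nat_lit 35660995020) (nat_lit 76) (nat_lit 102374263606) (nat_lit 24) (nat_lit 5) (nat_lit 27) (nat_lit 5) (nat_lit 25) (nat_lit 5) (nat_lit 316) (nat_lit 297) (nat_lit 167)) (XT.nd (nat_lit 78) (nat_lit 0) (nat_lit 0) (XT.lf (nat_lit 0) (nat_lit 44731765237) (nat_lit 152) (nat_lit 9630817489) (nat_lit 228) (nat_lit 119890045077) (nat_lit 22) (nat_lit 5) (nat_lit 24) (nat_lit 5) (nat_lit 25) (nat_lit 5) (nat_lit 317) (nat_lit 297) (nat_lit 166)) (XT.lf (nat_lit 0) (nat_lit 85558642549) (nat_lit 228) (nat_lit 51215737303) (nat_lit 76) (nat_lit 46746705893) (nat_lit 22) (nat_lit 5) (nat_lit 25) (nat_lit 5) (nat_lit 23) (nat_lit 5) (nat_lit 318) (nat_lit 297) (nat_lit 165)))) (XT.nd (nat_lit 156) (nat_lit 152)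 (nat_lit 0) (XT.nd (nat_lit 78) (nat_lit 0) (nat_lit 0) (XT.lf (nat_lit 0) (nat_lit 34846281009) (nat_lit 152) (nat_lit 85491961902) (nat_lit 228) (nat_lit 73105749777) (nat_lit 20) (nat_lit 5) (nat_lit 22) (nat_lit 5) (nat_lit 23) (nat_lit 5) (nat_lit 319) (nat_lit 297) (nat_lit 164)) (XT.lf (nat_lit 0) (nat_lit 130705440290) (nat_lit 152) (nat_lit 28594764515) (nat_lit 228) (nat_lit 44748528667) (nat_lit 20) (nat_lit 5) (nat_lit 22) (nat_lit 5) (nat_lit 23) (nat_lit 5) (nat_lit 320) (nat_lit 297) (nat_lit 163))) (XT.nd (nat_lit 78) (nat_lit 76) (nat_lit 0) (XT.lf (nat_lit 0) (nat_lit 18885578140) (nat_lit 76) (nat_lit 183737574190) (nat_lit 152) (nat_lit 12779179600) (nat_lit 19) (nat_lit 5) (nat_lit 20) (nat_lit 5) (nat_lit 21) (nat_lit 4) (nat_lit 321) (nat_lit 297) (nat_lit 162)) (XT.lf (nat_lit 0) (nat_lit 23459640800) (nat_lit 152) (nat_lit 106158268953) (nat_lit 76) (nat_lit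 97780479884) (nat_lit 18) (nat_lit 5) (nat_lit 20) (nat_lit 5) (nat_lit 19) (nat_lit 5) (nat_lit 322) (nat_lit 297) (nat_lit 161))))) (XT.nd (nat_lit 312) (nat_lit 228) (nat_lit 0) (XT.nd (nat_lit 156) (nat_lit 76) (nat_lit 0) (XT.nd (nat_lit 78) (nat_lit 152) (nat_lit 0) (XT.lf (nat_lit 0) (nat_lit 61906871157) (nat_lit 152) (nat_lit 8903489343) (nat_lit 76) (nat_lit 169517240928) (nat_lit 18) (nat_lit 5) (nat_lit 20) (nat_lit 5) (nat_lit 19) (nat_lit 5) (nat_lit 323) (nat_lit 297) (nat_lit 160)) (XT.lf (nat_lit 0) (nat_lit 101193350461) (nat_lit 152) (nat_lit 4669965278) (nat_lit 228) (nat_lit 148233160077) (nat_lit 16) (nat_lit 5) (nat_lit 18) (nat_lit 5) (nat_lit 19) (nat_lit 5) (nat_lit 324) (nat_lit 297) (nat_lit 159))) (XT.nd (nat_lit 78) (nat_lit 76) (nat_lit 0) (XT.lf (nat_lit 0) (nat_lit 155191395046) (nat_lit 228) (nat_lit 49955470981) (nat_lit 76) (nat_lit 63671585078) (nat_lit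 16) (nat_lit 5) (nat_lit 19) (nat_lit 5) (nat_lit 17) (nat_lit 4) (nat_lit 325) (nat_lit 297) (nat_lit 158)) (XT.lf (nat_lit 0) (nat_lit 64324049285) (nat_lit 76) (nat_lit 145809722820) (nat_lit 152) (nat_lit 74450968646) (nat_lit 15) (nat_lit 5) (nat_lit 16) (nat_lit 5) (nat_lit 17) (nat_lit 4) (nat_lit 326) (nat_lit 297) (nat_lit 157)))) (XT.nd (nat_lit 156) (nat_lit 0) (nat_lit 0) (XT.nd (nat_lit 78) (nat_lit 228) (nat_lit 0) (XT.lf (nat_lit 0) (nat_lit 190586555034) (nat_lit 76) (nat_lit 80250622620) (nat_lit 152) (nat_lit 30665905261) (nat_lit 15) (nat_lit 5) (nat_lit 16) (nat_lit 5) (nat_lit 17) (nat_lit 4) (nat_lit 327) (nat_lit 297) (nat_lit 156)) (XT.lf (nat_lit 0) (nat_lit 7131800403) (nat_lit 152) (nat_lit 8829963344) (nat_lit 228) (nat_lit 303767444493) (nat_lit 12) (nat_lit 5) (nat_lit 14) (nat_lit 5) (nat_lit 15) (nat_lit 5) (nat_lit 328) (nat_lit 297) (nat_lit 155)))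 (XT.nd (nat_lit 78) (nat_lit 0) (nat_lit 0) (XT.lf (nat_lit 0) (nat_lit 69416819426) (nat_lit 228) (nat_lit 200757279338) (nat_lit 76) (nat_lit 68795289508) (nat_lit 12) (nat_lit 5) (nat_lit 15) (nat_lit 5) (nat_lit 13) (nat_lit 4) (nat_lit 329) (nat_lit 297) (nat_lit 154)) (XT.lf (nat_lit 0) (nat_lit 127377427999) (nat_lit 228) (nat_lit 80199638201) (nat_lit 76) (nat_lit 152153384936) (nat_lit 12) (nat_lit 5) (nat_lit 15) (nat_lit 5) (nat_lit 13) (nat_lit 4) (nat_lit 330) (nat_lit 297) (nat_lit 153))))))))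
noncomputable def xc104 : XT := (XT.nd (nat_lit 2262) (nat_lit 76) (nat_lit 0) (XT.nd (nat_lit 1092) (nat_lit 228) (nat_lit 0) (XT.nd (nat_lit 546) (nat_lit 152) (nat_lit 0) (XT.nd (nat_lit 234) (nat_lit 228) (nat_lit 0) (XT.nd (nat_lit 78) (nat_lit 0) (nat_lit 0) (XT.lf (nat_lit 0) (nat_lit 52635324142) (nat_lit 76) (nat_lit 138605255578) (nat_lit 152) (nat_lit 190810564033) (nat_lit 11) (nat_lit 5) (nat_lit 12) (nat_lit 5) (nat_lit 13) (nat_lit 4) (nat_lit 331) (nat_lit 297) (nat_lit 152)) (XT.nd (nat_lit 78) (nat_lit 0) (nat_lit 0) (XT.lf (nat_lit 0) (nat_lit 200657793946) (nat_lit 76) (nat_lit 61747609770) (nat_lit 152) (nat_lit 143576678712) (nat_lit 11) (nat_lit 5) (nat_lit 12) (nat_lit 5) (nat_lit 13) (nat_lit 4) (nat_lit 332) (nat_lit 297) (nat_lit 151)) (XT.lf (nat_lit 0) (nat_lit 339774514881) (nat_lit 152) (nat_lit 71817007206) (nat_lit 0) (nat_lit 20195086250) (nat_lit 11)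 (nat_lit 5) (nat_lit 13) (nat_lit 4) (nat_lit 11) (nat_lit 4) (nat_lit 333) (nat_lit 297) (nat_lit 150)))) (XT.nd (nat_lit 156) (nat_lit 76) (nat_lit 0) (XT.nd (nat_lit 78) (nat_lit 76) (nat_lit 0) (XT.lf (nat_lit 0) (nat_lit 74493194823) (nat_lit 76) (nat_lit 352235200096) (nat_lit 76) (nat_lit 32655482426) (nat_lit 10) (nat_lit 4) (nat_lit 11) (nat_lit 5) (nat_lit 11) (nat_lit 4) (nat_lit 334) (nat_lit 297) (nat_lit 149)) (XT.lf (nat_lit 0) (nat_lit 31890868993) (nat_lit 152) (nat_lit 253246977794) (nat_lit 76) (nat_lit 203829416017) (nat_lit 9) (nat_lit 5) (nat_lit 11) (nat_lit 5) (nat_lit 10) (nat_lit 4) (nat_lit 335) (nat_lit 297) (nat_lit 148))) (XT.nd (nat_lit 78) (nat_lit 76) (nat_lit 0) (XT.lf (nat_lit 0) (nat_lit 99836539641) (nat_lit 152) (nat_lit 111920230651) (nat_lit 76) (nat_lit 309092705006) (nat_lit 9) (nat_lit 5) (nat_lit 11) (nat_lit 5) (nat_lit 10) (nat_lit 4) (nat_lit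 336) (nat_lit 297) (nat_lit 147)) (XT.lf (nat_lit 0) (nat_lit 42856259549) (nat_lit 76) (nat_lit 131392164539) (nat_lit 152) (nat_lit 380951396058) (nat_lit 8) (nat_lit 5) (nat_lit 9) (nat_lit 5) (nat_lit 10) (nat_lit 4) (nat_lit 337) (nat_lit 297) (nat_lit 146))))) (XT.nd (nat_lit 234) (nat_lit 152) (nat_lit 0) (XT.nd (nat_lit 78) (nat_lit 0) (nat_lit 0) (XT.lf (nat_lit 0) (nat_lit 216379637354) (nat_lit 76) (nat_lit 41293589743) (nat_lit 152) (nat_lit 334380168211) (nat_lit 8) (nat_lit 5) (nat_lit 9) (nat_lit 5) (nat_lit 10) (nat_lit 4) (nat_lit 338) (nat_lit 297) (nat_lit 145)) (XT.nd (nat_lit 78) (nat_lit 0) (nat_lit 0) (XT.lf (nat_lit 0) (nat_lit 349119002874) (nat_lit 152) (nat_lit 229417706352) (nat_lit 0) (nat_lit 53210788315) (nat_lit 8) (nat_lit 5) (nat_lit 10) (nat_lit 4) (nat_lit 8) (nat_lit 4) (nat_lit 339) (nat_lit 297) (nat_lit 144)) (XT.lf (nat_lit 0) (nat_lit 448952888183)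 (nat_lit 152) (nat_lit 72533939131) (nat_lit 0) (nat_lit 153044504971) (nat_lit 8) (nat_lit 5) (nat_lit 10) (nat_lit 4) (nat_lit 8) (nat_lit 4) (nat_lit 340) (nat_lit 297) (nat_lit 143)))) (XT.nd (nat_lit 156) (nat_lit 76) (nat_lit 0) (XT.nd (nat_lit 78) (nat_lit 0) (nat_lit 0) (XT.lf (nat_lit 0) (nat_lit 102002937147) (nat_lit 76) (nat_lit 457223615350) (nat_lit 76) (nat_lit 161315075978) (nat_lit 7) (nat_lit 4) (nat_lit 8) (nat_lit 5) (nat_lit 8) (nat_lit 4) (nat_lit 341) (nat_lit 297) (nat_lit 142)) (XT.lf (nat_lit 0) (nat_lit 294627645438) (nat_lit 76) (nat_lit 385677569308) (nat_lit 76) (nat_lit 89768885344) (nat_lit 7) (nat_lit 4) (nat_lit 8) (nat_lit 5) (nat_lit 8) (nat_lit 4) (nat_lit 342) (nat_lit 297) (nat_lit 141))) (XT.nd (nat_lit 78) (nat_lit 76) (nat_lit 0) (XT.lf (nat_lit 0) (nat_lit 502662156800) (nat_lit 76) (nat_lit 308407919055) (nat_lit 76) (nat_lit 12499101210)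 (nat_lit 7) (nat_lit 4) (nat_lit 8) (nat_lit 5) (nat_lit 8) (nat_lit 4) (nat_lit 343) (nat_lit 297) (nat_lit 140)) (XT.lf (nat_lit 0) (nat_lit 67402856465) (nat_lit 152) (nat_lit 155711000361) (nat_lit 76) (nat_lit 658093498327) (nat_lit 6) (nat_lit 5) (nat_lit 8) (nat_lit 5) (nat_lit 7) (nat_lit 4) (nat_lit 344) (nat_lit 297) (nat_lit 139)))))) (XT.nd (nat_lit 546) (nat_lit 76) (nat_lit 0) (XT.nd (nat_lit 234) (nat_lit 76) (nat_lit 0) (XT.nd (nat_lit 78) (nat_lit 0) (nat_lit 0) (XT.lf (nat_lit 0) (nat_lit 23554170907) (nat_lit 76) (nat_lit 130033919235) (nat_lit 152) (nat_lit 789797213627) (nat_lit 5) (nat_lit 5) (nat_lit 6) (nat_lit 5) (nat_lit 7) (nat_lit 4) (nat_lit 345) (nat_lit 297) (nat_lit 138)) (XT.nd (nat_lit 78) (nat_lit 0) (nat_lit 0) (XT.lf (nat_lit 0) (nat_lit 226015829047) (nat_lit 76) (nat_lit 24909647836) (nat_lit 152) (nat_lit 759271424720) (nat_lit 5) (nat_lit 5)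 (nat_lit 6) (nat_lit 5) (nat_lit 7) (nat_lit 4) (nat_lit 346) (nat_lit 297) (nat_lit 137)) (XT.lf (nat_lit 0) (nat_lit 358181201575) (nat_lit 152) (nat_lit 639810573161) (nat_lit 0) (nat_lit 84191144836) (nat_lit 5) (nat_lit 5) (nat_lit 7) (nat_lit 4) (nat_lit 5) (nat_lit 4) (nat_lit 347) (nat_lit 297) (nat_lit 136)))) (XT.nd (nat_lit 156) (nat_lit 76) (nat_lit 0) (XT.nd (nat_lit 78) (nat_lit 0) (nat_lit 0) (XT.lf (nat_lit 0) (nat_lit 474664317791) (nat_lit 152) (nat_lit 484537569884) (nat_lit 0) (nat_lit 200674176684) (nat_lit 5) (nat_lit 5) (nat_lit 7) (nat_lit 4) (nat_lit 5) (nat_lit 4) (nat_lit 348) (nat_lit 297) (nat_lit 135)) (XT.lf (nat_lit 0) (nat_lit 600466018220) (nat_lit 152) (nat_lit 316842848782) (nat_lit 0) (nat_lit 326475798995) (nat_lit 5) (nat_lit 5) (nat_lit 7) (nat_lit 4) (nat_lit 5) (nat_lit 4) (nat_lit 349) (nat_lit 297) (nat_lit 134))) (XT.nd (nat_lit 78) (nat_lit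 76) (nat_lit 0) (XT.lf (nat_lit 0) (nat_lit 736331794421) (nat_lit 152) (nat_lit 135732663358) (nat_lit 0) (nat_lit 462341502864) (nat_lit 5) (nat_lit 5) (nat_lit 7) (nat_lit 4) (nat_lit 5) (nat_lit 4) (nat_lit 350) (nat_lit 297) (nat_lit 133)) (XT.lf (nat_lit 0) (nat_lit 63018681612) (nat_lit 76) (nat_lit 821563696116) (nat_lit 76) (nat_lit 547573337584) (nat_lit 4) (nat_lit 4) (nat_lit 5) (nat_lit 5) (nat_lit 5) (nat_lit 4) (nat_lit 351) (nat_lit 297) (nat_lit 132))))) (XT.nd (nat_lit 312) (nat_lit 76) (nat_lit 0) (XT.nd (nat_lit 156) (nat_lit 0) (nat_lit 0) (XT.nd (nat_lit 78) (nat_lit 0) (nat_lit 0) (XT.lf (nat_lit 0) (nat_lit 285389268702) (nat_lit 76) (nat_lit 763014856424) (nat_lit 76) (nat_lit 489024435880) (nat_lit 4) (nat_lit 4) (nat_lit 5) (nat_lit 5) (nat_lit 5) (nat_lit 4) (nat_lit 352) (nat_lit 297) (nat_lit 131)) (XT.lf (nat_lit 0) (nat_lit 525549408027) (nat_lit 76)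 (nat_lit 699782154174) (nat_lit 76) (nat_lit 425791676210) (nat_lit 4) (nat_lit 4) (nat_lit 5) (nat_lit 5) (nat_lit 5) (nat_lit 4) (nat_lit 353) (nat_lit 297) (nat_lit 130))) (XT.nd (nat_lit 78) (nat_lit 0) (nat_lit 0) (XT.lf (nat_lit 0) (nat_lit 784922270783) (nat_lit 76) (nat_lit 631490877055) (nat_lit 76) (nat_lit 357500345924) (nat_lit 4) (nat_lit 4) (nat_lit 5) (nat_lit 5) (nat_lit 5) (nat_lit 4) (nat_lit 354) (nat_lit 297) (nat_lit 129)) (XT.lf (nat_lit 0) (nat_lit 1065044881340) (nat_lit 76) (nat_lit 557736336017) (nat_lit 76) (nat_lit 283745755659) (nat_lit 4) (nat_lit 4) (nat_lit 5) (nat_lit 5) (nat_lit 5) (nat_lit 4) (nat_lit 355) (nat_lit 297) (nat_lit 128)))) (XT.nd (nat_lit 156) (nat_lit 76) (nat_lit 0) (XT.nd (nat_lit 78) (nat_lit 0) (nat_lit 0) (XT.lf (nat_lit 0) (nat_lit 1367577225540) (nat_lit 76) (nat_lit 478081467114) (nat_lit 76) (nat_lit 204090841174) (nat_lit 4)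 (nat_lit 4) (nat_lit 5) (nat_lit 5) (nat_lit 5) (nat_lit 4) (nat_lit 356) (nat_lit 297) (nat_lit 127)) (XT.lf (nat_lit 0) (nat_lit 1694312087644) (nat_lit 76) (nat_lit 392054241492) (nat_lit 76) (nat_lit 118063573348) (nat_lit 4) (nat_lit 4) (nat_lit 5) (nat_lit 5) (nat_lit 5) (nat_lit 4) (nat_lit 357) (nat_lit 297) (nat_lit 126))) (XT.nd (nat_lit 78) (nat_lit 76) (nat_lit 0) (XT.lf (nat_lit 0) (nat_lit 2047185674243) (nat_lit 76) (nat_lit 299144868186) (nat_lit 76) (nat_lit 25154160963) (nat_lit 4) (nat_lit 4) (nat_lit 5) (nat_lit 5) (nat_lit 5) (nat_lit 4) (nat_lit 358) (nat_lit 297) (nat_lit 125)) (XT.lf (nat_lit 0) (nat_lit 71426763489) (nat_lit 152) (nat_lit 125423075349) (nat_lit 76) (nat_lit 2354909390289) (nat_lit 3) (nat_lit 5) (nat_lit 5) (nat_lit 5) (nat_lit 4) (nat_lit 4) (nat_lit 359) (nat_lit 297) (nat_lit 124))))))) (XT.nd (nat_lit 36816) (nat_lit 0) (nat_lit 1064) (XT.nd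 (nat_lit 36270) (nat_lit 0) (nat_lit 2280) (XT.nd (nat_lit 35958) (nat_lit 0) (nat_lit 3116) (XT.nd (nat_lit 35802) (nat_lit 0) (nat_lit 3040) (XT.lf (nat_lit 0) (nat_lit 93380830373) (nat_lit 76) (nat_lit 83240134667) (nat_lit 152) (nat_lit 2569602821024) (nat_lit 2) (nat_lit 5) (nat_lit 3) (nat_lit 5) (nat_lit 4) (nat_lit 4) (nat_lit 360) (nat_lit 297) (nat_lit 123)) (XT.nd (nat_lit 78) (nat_lit 0) (nat_lit 0) (XT.lf (nat_lit 0) (nat_lit 20544593143) (nat_lit 532) (nat_lit 8777778763) (nat_lit 532) (nat_lit 8777778763) (nat_lit 42) (nat_lit 3) (nat_lit 49) (nat_lit 3) (nat_lit 49) (nat_lit 5) (nat_lit 298) (nat_lit 298) (nat_lit 184)) (XT.lf (nat_lit 76) (nat_lit 17383190782) (nat_lit 0) (nat_lit 25777846587) (nat_lit 532) (nat_lit 36052974883) (nat_lit 43) (nat_lit 5) (nat_lit 42) (nat_lit 3) (nat_lit 49) (nat_lit 5) (nat_lit 299) (nat_lit 298) (nat_lit 183)))) (XT.nd (nat_lit 156)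 (nat_lit 0) (nat_lit 0) (XT.nd (nat_lit 78) (nat_lit 0) (nat_lit 0) (XT.lf (nat_lit 0) (nat_lit 46123806576) (nat_lit 456) (nat_lit 26561857062) (nat_lit 532) (nat_lit 9725146646) (nat_lit 43) (nat_lit 5) (nat_lit 49) (nat_lit 5) (nat_lit 50) (nat_lit 5) (nat_lit 300) (nat_lit 298) (nat_lit 182)) (XT.lf (nat_lit 76) (nat_lit 11430225914) (nat_lit 0) (nat_lit 38836873658) (nat_lit 532) (nat_lit 35520775967) (nat_lit 44) (nat_lit 5) (nat_lit 43) (nat_lit 5) (nat_lit 50) (nat_lit 5) (nat_lit 301) (nat_lit 298) (nat_lit 181))) (XT.nd (nat_lit 78) (nat_lit 0) (nat_lit 76) (XT.lf (nat_lit 76) (nat_lit 53971657510) (nat_lit 0) (nat_lit 1495552881) (nat_lit 532) (nat_lit 33909870570) (nat_lit 44) (nat_lit 5) (nat_lit 43) (nat_lit 5) (nat_lit 50) (nat_lit 5) (nat_lit 302) (nat_lit 298) (nat_lit 180)) (XT.lf (nat_lit 76) (nat_lit 6030047515) (nat_lit 0) (nat_lit 56131420279) (nat_lit 532) (nat_lit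 31005707061) (nat_lit 45) (nat_lit 5) (nat_lit 44) (nat_lit 5) (nat_lit 51) (nat_lit 5) (nat_lit 303) (nat_lit 298) (nat_lit 179))))) (XT.nd (nat_lit 234) (nat_lit 532) (nat_lit 0) (XT.nd (nat_lit 78) (nat_lit 380) (nat_lit 0) (XT.lf (nat_lit 76) (nat_lit 52752374864) (nat_lit 0) (nat_lit 17644024360) (nat_lit 532) (nat_lit 26783669187) (nat_lit 45) (nat_lit 5) (nat_lit 44) (nat_lit 5) (nat_lit 51) (nat_lit 5) (nat_lit 304) (nat_lit 298) (nat_lit 178)) (XT.nd (nat_lit 78) (nat_lit 0) (nat_lit 0) (XT.lf (nat_lit 0) (nat_lit 1181626398) (nat_lit 456) (nat_lit 78711535390) (nat_lit 532) (nat_lit 21572591354) (nat_lit 39) (nat_lit 5) (nat_lit 45) (nat_lit 5) (nat_lit 46) (nat_lit 5) (nat_lit 305) (nat_lit 298) (nat_lit 177)) (XT.lf (nat_lit 0) (nat_lit 52483286796) (nat_lit 456) (nat_lit 39327117502) (nat_lit 532) (nat_lit 14151031661) (nat_lit 39) (nat_lit 5) (nat_lit 45) (nat_lit 5) (nat_lit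 46) (nat_lit 5) (nat_lit 306) (nat_lit 298) (nat_lit 176)))) (XT.nd (nat_lit 156) (nat_lit 228) (nat_lit 0) (XT.nd (nat_lit 78) (nat_lit 304) (nat_lit 0) (XT.lf (nat_lit 0) (nat_lit 104757554122) (nat_lit 532) (nat_lit 3005482621) (nat_lit 76) (nat_lit 3047616671) (nat_lit 39) (nat_lit 5) (nat_lit 46) (nat_lit 5) (nat_lit 40) (nat_lit 5) (nat_lit 307) (nat_lit 298) (nat_lit 175)) (XT.lf (nat_lit 0) (nat_lit 4916633423) (nat_lit 304) (nat_lit 62847099194) (nat_lit 76) (nat_lit 48090203762) (nat_lit 35) (nat_lit 5) (nat_lit 39) (nat_lit 5) (nat_lit 36) (nat_lit 5) (nat_lit 308) (nat_lit 298) (nat_lit 174))) (XT.nd (nat_lit 78) (nat_lit 228) (nat_lit 0) (XT.lf (nat_lit 0) (nat_lit 16520663325) (nat_lit 304) (nat_lit 7783003822) (nat_lit 76) (nat_lit 96977739295) (nat_lit 35) (nat_lit 5) (nat_lit 39) (nat_lit 5) (nat_lit 36) (nat_lit 5) (nat_lit 309) (nat_lit 298) (nat_lit 173)) (XT.lf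 (nat_lit 0) (nat_lit 30939303969) (nat_lit 304) (nat_lit 73209419001) (nat_lit 76) (nat_lit 22843449722) (nat_lit 32) (nat_lit 5) (nat_lit 36) (nat_lit 5) (nat_lit 33) (nat_lit 5) (nat_lit 310) (nat_lit 298) (nat_lit 172)))))) (XT.nd (nat_lit 546) (nat_lit 608) (nat_lit 0) (XT.nd (nat_lit 234) (nat_lit 380) (nat_lit 0) (XT.nd (nat_lit 78) (nat_lit 228) (nat_lit 0) (XT.lf (nat_lit 0) (nat_lit 47360528420) (nat_lit 304) (nat_lit 13063755808) (nat_lit 76) (nat_lit 72667590137) (nat_lit 32) (nat_lit 5) (nat_lit 36) (nat_lit 5) (nat_lit 33) (nat_lit 5) (nat_lit 311) (nat_lit 298) (nat_lit 171)) (XT.nd (nat_lit 78) (nat_lit 0) (nat_lit 0) (XT.lf (nat_lit 0) (nat_lit 54625611812) (nat_lit 228) (nat_lit 11783123381) (nat_lit 304) (nat_lit 73165755644) (nat_lit 29) (nat_lit 5) (nat_lit 32) (nat_lit 5) (nat_lit 33) (nat_lit 5) (nat_lit 312) (nat_lit 298) (nat_lit 170)) (XT.lf (nat_lit 0) (nat_lit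 88326841221) (nat_lit 304) (nat_lit 19063929179) (nat_lit 76) (nat_lit 39077264120) (nat_lit 29) (nat_lit 5) (nat_lit 33) (nat_lit 5) (nat_lit 30) (nat_lit 5) (nat_lit 313) (nat_lit 298) (nat_lit 169)))) (XT.nd (nat_lit 156) (nat_lit 228) (nat_lit 0) (XT.nd (nat_lit 78) (nat_lit 0) (nat_lit 0) (XT.lf (nat_lit 0) (nat_lit 54512158478) (nat_lit 152) (nat_lit 59102900514) (nat_lit 228) (nat_lit 40168670857) (nat_lit 27) (nat_lit 5) (nat_lit 29) (nat_lit 5) (nat_lit 30) (nat_lit 5) (nat_lit 314) (nat_lit 298) (nat_lit 168)) (XT.lf (nat_lit 0) (nat_lit 135058006941) (nat_lit 152) (nat_lit 6389176418) (nat_lit 228) (nat_lit 20195830634) (nat_lit 27) (nat_lit 5) (nat_lit 29) (nat_lit 5) (nat_lit 30) (nat_lit 5) (nat_lit 315) (nat_lit 298) (nat_lit 167))) (XT.nd (nat_lit 78) (nat_lit 0) (nat_lit 0) (XT.lf (nat_lit 0) (nat_lit 3869680358) (nat_lit 228) (nat_lit 116658858886) (nat_lit 76) (nat_lit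 49394767923) (nat_lit 24) (nat_lit 5) (nat_lit 27) (nat_lit 5) (nat_lit 25) (nat_lit 5) (nat_lit 316) (nat_lit 298) (nat_lit 166)) (XT.lf (nat_lit 0) (nat_lit 29680686127) (nat_lit 228) (nat_lit 38504005882) (nat_lit 76) (nat_lit 110566459048) (nat_lit 24) (nat_lit 5) (nat_lit 27) (nat_lit 5) (nat_lit 25) (nat_lit 5) (nat_lit 317) (nat_lit 298) (nat_lit 165))))) (XT.nd (nat_lit 312) (nat_lit 304) (nat_lit 0) (XT.nd (nat_lit 156) (nat_lit 152) (nat_lit 0) (XT.nd (nat_lit 78) (nat_lit 0) (nat_lit 0) (XT.lf (nat_lit 0) (nat_lit 48319925355) (nat_lit 152) (nat_lit 10398408524) (nat_lit 228) (nat_lit 129473948484) (nat_lit 22) (nat_lit 5) (nat_lit 24) (nat_lit 5) (nat_lit 25) (nat_lit 5) (nat_lit 318) (nat_lit 298) (nat_lit 164)) (XT.lf (nat_lit 0) (nat_lit 92409642901) (nat_lit 228) (nat_lit 55303639403) (nat_lit 76) (nat_lit 50488970676) (nat_lit 22) (nat_lit 5) (nat_lit 25) (nat_lit 5)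 (nat_lit 23) (nat_lit 5) (nat_lit 319) (nat_lit 298) (nat_lit 163))) (XT.nd (nat_lit 78) (nat_lit 0) (nat_lit 0) (XT.lf (nat_lit 0) (nat_lit 37643103491) (nat_lit 152) (nat_lit 92328259808) (nat_lit 228) (nat_lit 78947650124) (nat_lit 20) (nat_lit 5) (nat_lit 22) (nat_lit 5) (nat_lit 23) (nat_lit 5) (nat_lit 320) (nat_lit 298) (nat_lit 162)) (XT.lf (nat_lit 0) (nat_lit 141170319958) (nat_lit 152) (nat_lit 30879513226) (nat_lit 228) (nat_lit 48322337224) (nat_lit 20) (nat_lit 5) (nat_lit 22) (nat_lit 5) (nat_lit 23) (nat_lit 5) (nat_lit 321) (nat_lit 298) (nat_lit 161)))) (XT.nd (nat_lit 156) (nat_lit 152) (nat_lit 0) (XT.nd (nat_lit 78) (nat_lit 76) (nat_lit 0) (XT.lf (nat_lit 0) (nat_lit 20405038709) (nat_lit 76) (nat_lit 198433432349) (nat_lit 152) (nat_lit 13795598269) (nat_lit 19) (nat_lit 5) (nat_lit 20) (nat_lit 5) (nat_lit 21) (nat_lit 4) (nat_lit 322) (nat_lit 298) (nat_lit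 160)) (XT.lf (nat_lit 0) (nat_lit 25341615556) (nat_lit 152) (nat_lit 114642670096) (nat_lit 76) (nat_lit 105605548730) (nat_lit 18) (nat_lit 5) (nat_lit 20) (nat_lit 5) (nat_lit 19) (nat_lit 5) (nat_lit 323) (nat_lit 298) (nat_lit 159))) (XT.nd (nat_lit 78) (nat_lit 152) (nat_lit 0) (XT.lf (nat_lit 0) (nat_lit 66864238898) (nat_lit 152) (nat_lit 9608119996) (nat_lit 76) (nat_lit 183081055808) (nat_lit 18) (nat_lit 5) (nat_lit 20) (nat_lit 5) (nat_lit 19) (nat_lit 5) (nat_lit 324) (nat_lit 298) (nat_lit 158)) (XT.lf (nat_lit 0) (nat_lit 109296273358) (nat_lit 152) (nat_lit 5040748085) (nat_lit 228) (nat_lit 160086792503) (nat_lit 16) (nat_lit 5) (nat_lit 18) (nat_lit 5) (nat_lit 19) (nat_lit 5) (nat_lit 325) (nat_lit 298) (nat_lit 157))))))))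
noncomputable def xc105 : XT := (XT.nd (nat_lit 2262) (nat_lit 76) (nat_lit 0) (XT.nd (nat_lit 1092) (nat_lit 304) (nat_lit 0) (XT.nd (nat_lit 546) (nat_lit 228) (nat_lit 0) (XT.nd (nat_lit 234) (nat_lit 304) (nat_lit 0) (XT.nd (nat_lit 78) (nat_lit 76) (nat_lit 0) (XT.lf (nat_lit 0) (nat_lit 167611066032) (nat_lit 228) (nat_lit 53944716892) (nat_lit 76) (nat_lit 68767787465) (nat_lit 16) (nat_lit 5) (nat_lit 19) (nat_lit 5) (nat_lit 17) (nat_lit 4) (nat_lit 326) (nat_lit 298) (nat_lit 156)) (XT.nd (nat_lit 78) (nat_lit 0) (nat_lit 0) (XT.lf (nat_lit 0) (nat_lit 69476982925) (nat_lit 76) (nat_lit 157471695996) (nat_lit 152) (nat_lit 80402497228) (nat_lit 15) (nat_lit 5) (nat_lit 16) (nat_lit 5) (nat_lit 17) (nat_lit 4) (nat_lit 327) (nat_lit 298) (nat_lit 155)) (XT.lf (nat_lit 0) (nat_lit 205839969898) (nat_lit 76) (nat_lit 86668075532) (nat_lit 152) (nat_lit 33114965729) (nat_lit 15)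 (nat_lit 5) (nat_lit 16) (nat_lit 5) (nat_lit 17) (nat_lit 4) (nat_lit 328) (nat_lit 298) (nat_lit 154)))) (XT.nd (nat_lit 156) (nat_lit 76) (nat_lit 0) (XT.nd (nat_lit 78) (nat_lit 0) (nat_lit 0) (XT.lf (nat_lit 0) (nat_lit 7708882177) (nat_lit 152) (nat_lit 9533684768) (nat_lit 228) (nat_lit 328064663066) (nat_lit 12) (nat_lit 5) (nat_lit 14) (nat_lit 5) (nat_lit 15) (nat_lit 5) (nat_lit 329) (nat_lit 298) (nat_lit 153)) (XT.lf (nat_lit 0) (nat_lit 74973800580) (nat_lit 228) (nat_lit 216811576239) (nat_lit 76) (nat_lit 74301266185) (nat_lit 12) (nat_lit 5) (nat_lit 15) (nat_lit 5) (nat_lit 13) (nat_lit 4) (nat_lit 330) (nat_lit 298) (nat_lit 152))) (XT.nd (nat_lit 78) (nat_lit 76) (nat_lit 0) (XT.lf (nat_lit 0) (nat_lit 137570988535) (nat_lit 228) (nat_lit 86609789400) (nat_lit 76) (nat_lit 164327834912) (nat_lit 12) (nat_lit 5) (nat_lit 15) (nat_lit 5) (nat_lit 13) (nat_lit 4) (nat_lit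 331) (nat_lit 298) (nat_lit 151)) (XT.lf (nat_lit 0) (nat_lit 56851822592) (nat_lit 76) (nat_lit 149691256870) (nat_lit 152) (nat_lit 206071890821) (nat_lit 11) (nat_lit 5) (nat_lit 12) (nat_lit 5) (nat_lit 13) (nat_lit 4) (nat_lit 332) (nat_lit 298) (nat_lit 150))))) (XT.nd (nat_lit 234) (nat_lit 152) (nat_lit 0) (XT.nd (nat_lit 78) (nat_lit 76) (nat_lit 0) (XT.lf (nat_lit 0) (nat_lit 216715669794) (nat_lit 76) (nat_lit 66685178594) (nat_lit 152) (nat_lit 155059555292) (nat_lit 11) (nat_lit 5) (nat_lit 12) (nat_lit 5) (nat_lit 13) (nat_lit 4) (nat_lit 333) (nat_lit 298) (nat_lit 149)) (XT.nd (nat_lit 78) (nat_lit 76) (nat_lit 0) (XT.lf (nat_lit 0) (nat_lit 366959315188) (nat_lit 152) (nat_lit 77557327225) (nat_lit 0) (nat_lit 21812663434) (nat_lit 11) (nat_lit 5) (nat_lit 13) (nat_lit 4) (nat_lit 11) (nat_lit 4) (nat_lit 334) (nat_lit 298) (nat_lit 148)) (XT.lf (nat_lit 0) (nat_lit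 80457563358) (nat_lit 76) (nat_lit 380411850123) (nat_lit 76) (nat_lit 35264950563) (nat_lit 10) (nat_lit 4) (nat_lit 11) (nat_lit 5) (nat_lit 11) (nat_lit 4) (nat_lit 335) (nat_lit 298) (nat_lit 147)))) (XT.nd (nat_lit 156) (nat_lit 76) (nat_lit 0) (XT.nd (nat_lit 78) (nat_lit 0) (nat_lit 0) (XT.lf (nat_lit 0) (nat_lit 34444751348) (nat_lit 152) (nat_lit 273502046204) (nat_lit 76) (nat_lit 220137634050) (nat_lit 9) (nat_lit 5) (nat_lit 11) (nat_lit 5) (nat_lit 10) (nat_lit 4) (nat_lit 336) (nat_lit 298) (nat_lit 146)) (XT.lf (nat_lit 0) (nat_lit 107825882104) (nat_lit 152) (nat_lit 120869506684) (nat_lit 76) (nat_lit 333821848029) (nat_lit 9) (nat_lit 5) (nat_lit 11) (nat_lit 5) (nat_lit 10) (nat_lit 4) (nat_lit 337) (nat_lit 298) (nat_lit 145))) (XT.nd (nat_lit 78) (nat_lit 0) (nat_lit 0) (XT.lf (nat_lit 0) (nat_lit 46288992798) (nat_lit 76) (nat_lit 141901647094) (nat_lit 152) (nat_lit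 411424975773) (nat_lit 8) (nat_lit 5) (nat_lit 9) (nat_lit 5) (nat_lit 10) (nat_lit 4) (nat_lit 338) (nat_lit 298) (nat_lit 144)) (XT.lf (nat_lit 0) (nat_lit 233693927310) (nat_lit 76) (nat_lit 44595326359) (nat_lit 152) (nat_lit 361128237252) (nat_lit 8) (nat_lit 5) (nat_lit 9) (nat_lit 5) (nat_lit 10) (nat_lit 4) (nat_lit 339) (nat_lit 298) (nat_lit 143)))))) (XT.nd (nat_lit 546) (nat_lit 76) (nat_lit 0) (XT.nd (nat_lit 234) (nat_lit 152) (nat_lit 0) (XT.nd (nat_lit 78) (nat_lit 76) (nat_lit 0) (XT.lf (nat_lit 0) (nat_lit 377050569869) (nat_lit 152) (nat_lit 247767370195) (nat_lit 0) (nat_lit 57469191188) (nat_lit 8) (nat_lit 5) (nat_lit 10) (nat_lit 4) (nat_lit 8) (nat_lit 4) (nat_lit 340) (nat_lit 298) (nat_lit 142)) (XT.nd (nat_lit 78) (nat_lit 76) (nat_lit 0) (XT.lf (nat_lit 0) (nat_lit 484871014390) (nat_lit 152) (nat_lit 78333179572) (nat_lit 0) (nat_lit 165289491117) (nat_lit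 8) (nat_lit 5) (nat_lit 10) (nat_lit 4) (nat_lit 8) (nat_lit 4) (nat_lit 341) (nat_lit 298) (nat_lit 141)) (XT.lf (nat_lit 0) (nat_lit 110166558842) (nat_lit 76) (nat_lit 493799954076) (nat_lit 76) (nat_lit 174218296922) (nat_lit 7) (nat_lit 4) (nat_lit 8) (nat_lit 5) (nat_lit 8) (nat_lit 4) (nat_lit 342) (nat_lit 298) (nat_lit 140)))) (XT.nd (nat_lit 156) (nat_lit 152) (nat_lit 0) (XT.nd (nat_lit 78) (nat_lit 0) (nat_lit 0) (XT.lf (nat_lit 0) (nat_lit 318200992927) (nat_lit 76) (nat_lit 416530339203) (nat_lit 76) (nat_lit 96948558084) (nat_lit 7) (nat_lit 4) (nat_lit 8) (nat_lit 5) (nat_lit 8) (nat_lit 4) (nat_lit 343) (nat_lit 298) (nat_lit 139)) (XT.lf (nat_lit 0) (nat_lit 542878032912) (nat_lit 76) (nat_lit 333079223275) (nat_lit 76) (nat_lit 13497327374) (nat_lit 7) (nat_lit 4) (nat_lit 8) (nat_lit 5) (nat_lit 8) (nat_lit 4) (nat_lit 344) (nat_lit 298) (nat_lit 138))) (XT.nd (nat_lit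 78) (nat_lit 76) (nat_lit 0) (XT.lf (nat_lit 0) (nat_lit 72796582015) (nat_lit 152) (nat_lit 168165111587) (nat_lit 76) (nat_lit 710742128718) (nat_lit 6) (nat_lit 5) (nat_lit 8) (nat_lit 5) (nat_lit 7) (nat_lit 4) (nat_lit 345) (nat_lit 298) (nat_lit 137)) (XT.lf (nat_lit 0) (nat_lit 25441203286) (nat_lit 76) (nat_lit 140435385114) (nat_lit 152) (nat_lit 852979422216) (nat_lit 5) (nat_lit 5) (nat_lit 6) (nat_lit 5) (nat_lit 7) (nat_lit 4) (nat_lit 346) (nat_lit 298) (nat_lit 136))))) (XT.nd (nat_lit 312) (nat_lit 76) (nat_lit 0) (XT.nd (nat_lit 156) (nat_lit 0) (nat_lit 0) (XT.nd (nat_lit 78) (nat_lit 0) (nat_lit 0) (XT.lf (nat_lit 0) (nat_lit 244099594173) (nat_lit 76) (nat_lit 26901264421) (nat_lit 152) (nat_lit 820011686382) (nat_lit 5) (nat_lit 5) (nat_lit 6) (nat_lit 5) (nat_lit 7) (nat_lit 4) (nat_lit 347) (nat_lit 298) (nat_lit 135)) (XT.lf (nat_lit 0) (nat_lit 386836967464)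 (nat_lit 152) (nat_lit 690993030334) (nat_lit 0) (nat_lit 90927452582) (nat_lit 5) (nat_lit 5) (nat_lit 7) (nat_lit 4) (nat_lit 5) (nat_lit 4) (nat_lit 348) (nat_lit 298) (nat_lit 134))) (XT.nd (nat_lit 78) (nat_lit 0) (nat_lit 0) (XT.lf (nat_lit 0) (nat_lit 512638638921) (nat_lit 152) (nat_lit 523298363735) (nat_lit 0) (nat_lit 216729051707) (nat_lit 5) (nat_lit 5) (nat_lit 7) (nat_lit 4) (nat_lit 5) (nat_lit 4) (nat_lit 349) (nat_lit 298) (nat_lit 133)) (XT.lf (nat_lit 0) (nat_lit 648504388295) (nat_lit 152) (nat_lit 342188228777) (nat_lit 0) (nat_lit 352594734107) (nat_lit 5) (nat_lit 5) (nat_lit 7) (nat_lit 4) (nat_lit 5) (nat_lit 4) (nat_lit 350) (nat_lit 298) (nat_lit 132)))) (XT.nd (nat_lit 156) (nat_lit 0) (nat_lit 0) (XT.nd (nat_lit 78) (nat_lit 76) (nat_lit 0) (XT.lf (nat_lit 0) (nat_lit 795239345954) (nat_lit 152) (nat_lit 146589380216) (nat_lit 0) (nat_lit 499329629753)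 (nat_lit 5) (nat_lit 5) (nat_lit 7) (nat_lit 4) (nat_lit 5) (nat_lit 4) (nat_lit 351) (nat_lit 298) (nat_lit 131)) (XT.lf (nat_lit 0) (nat_lit 68062024346) (nat_lit 76) (nat_lit 887287921363) (nat_lit 76) (nat_lit 591378147742) (nat_lit 4) (nat_lit 4) (nat_lit 5) (nat_lit 5) (nat_lit 5) (nat_lit 4) (nat_lit 352) (nat_lit 298) (nat_lit 130))) (XT.nd (nat_lit 78) (nat_lit 0) (nat_lit 0) (XT.lf (nat_lit 0) (nat_lit 308222121500) (nat_lit 76) (nat_lit 824055238974) (nat_lit 76) (nat_lit 528145412187) (nat_lit 4) (nat_lit 4) (nat_lit 5) (nat_lit 5) (nat_lit 5) (nat_lit 4) (nat_lit 353) (nat_lit 298) (nat_lit 129)) (XT.lf (nat_lit 0) (nat_lit 567594945208) (nat_lit 76) (nat_lit 755763980244) (nat_lit 76) (nat_lit 459854104229) (nat_lit 4) (nat_lit 4) (nat_lit 5) (nat_lit 5) (nat_lit 5) (nat_lit 4) (nat_lit 354) (nat_lit 298) (nat_lit 128))))))) (XT.nd (nat_lit 36972) (nat_lit 0) (nat_lit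 1292) (XT.nd (nat_lit 36348) (nat_lit 0) (nat_lit 2736) (XT.nd (nat_lit 234) (nat_lit 76) (nat_lit 0) (XT.nd (nat_lit 78) (nat_lit 0) (nat_lit 0) (XT.lf (nat_lit 0) (nat_lit 847717519610) (nat_lit 76) (nat_lit 682009456234) (nat_lit 76) (nat_lit 386099534638) (nat_lit 4) (nat_lit 4) (nat_lit 5) (nat_lit 5) (nat_lit 5) (nat_lit 4) (nat_lit 355) (nat_lit 298) (nat_lit 127)) (XT.nd (nat_lit 78) (nat_lit 0) (nat_lit 0) (XT.lf (nat_lit 0) (nat_lit 1150249830333) (nat_lit 76) (nat_lit 602354603097) (nat_lit 76) (nat_lit 306444639296) (nat_lit 4) (nat_lit 4) (nat_lit 5) (nat_lit 5) (nat_lit 5) (nat_lit 4) (nat_lit 356) (nat_lit 298) (nat_lit 126)) (XT.lf (nat_lit 0) (nat_lit 1476984661440) (nat_lit 76) (nat_lit 516327392075) (nat_lit 76) (nat_lit 220417389194) (nat_lit 4) (nat_lit 4) (nat_lit 5) (nat_lit 5) (nat_lit 5) (nat_lit 4) (nat_lit 357) (nat_lit 298) (nat_lit 125)))) (XT.nd (nat_lit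 156) (nat_lit 76) (nat_lit 0) (XT.nd (nat_lit 78) (nat_lit 0) (nat_lit 0) (XT.lf (nat_lit 0) (nat_lit 1829858219338) (nat_lit 76) (nat_lit 423418032286) (nat_lit 76) (nat_lit 127507993222) (nat_lit 4) (nat_lit 4) (nat_lit 5) (nat_lit 5) (nat_lit 5) (nat_lit 4) (nat_lit 358) (nat_lit 298) (nat_lit 124)) (XT.lf (nat_lit 0) (nat_lit 2210961606592) (nat_lit 76) (nat_lit 323075949747) (nat_lit 76) (nat_lit 27165877179) (nat_lit 4) (nat_lit 4) (nat_lit 5) (nat_lit 5) (nat_lit 5) (nat_lit 4) (nat_lit 359) (nat_lit 298) (nat_lit 123))) (XT.nd (nat_lit 35880) (nat_lit 0) (nat_lit 2964) (XT.lf (nat_lit 0) (nat_lit 77141446988) (nat_lit 152) (nat_lit 135455893854) (nat_lit 76) (nat_lit 2543302582790) (nat_lit 3) (nat_lit 5) (nat_lit 5) (nat_lit 5) (nat_lit 4) (nat_lit 4) (nat_lit 360) (nat_lit 298) (nat_lit 122)) (XT.lf (nat_lit 0) (nat_lit 22198132340) (nat_lit 532) (nat_lit 9474597559) (nat_lit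 532) (nat_lit 9474597559) (nat_lit 42) (nat_lit 3) (nat_lit 49) (nat_lit 3) (nat_lit 49) (nat_lit 5) (nat_lit 299) (nat_lit 299) (nat_lit 182))))) (XT.nd (nat_lit 312) (nat_lit 228) (nat_lit 0) (XT.nd (nat_lit 156) (nat_lit 0) (nat_lit 76) (XT.nd (nat_lit 78) (nat_lit 0) (nat_lit 76) (XT.lf (nat_lit 76) (nat_lit 18784379459) (nat_lit 0) (nat_lit 27848260425) (nat_lit 532) (nat_lit 38916926298) (nat_lit 43) (nat_lit 5) (nat_lit 42) (nat_lit 3) (nat_lit 49) (nat_lit 5) (nat_lit 300) (nat_lit 299) (nat_lit 181)) (XT.lf (nat_lit 0) (nat_lit 49830861702) (nat_lit 456) (nat_lit 28675419199) (nat_lit 532) (nat_lit 10495957815) (nat_lit 43) (nat_lit 5) (nat_lit 49) (nat_lit 5) (nat_lit 50) (nat_lit 5) (nat_lit 301) (nat_lit 299) (nat_lit 180))) (XT.nd (nat_lit 78) (nat_lit 0) (nat_lit 0) (XT.lf (nat_lit 76) (nat_lit 12355742150) (nat_lit 0) (nat_lit 41948872484) (nat_lit 532) (nat_lit 38344939605)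 (nat_lit 44) (nat_lit 5) (nat_lit 43) (nat_lit 5) (nat_lit 50) (nat_lit 5) (nat_lit 302) (nat_lit 299) (nat_lit 179)) (XT.lf (nat_lit 76) (nat_lit 58299666188) (nat_lit 0) (nat_lit 1619872050) (nat_lit 532) (nat_lit 36606457957) (nat_lit 44) (nat_lit 5) (nat_lit 43) (nat_lit 5) (nat_lit 50) (nat_lit 5) (nat_lit 303) (nat_lit 299) (nat_lit 178)))) (XT.nd (nat_lit 156) (nat_lit 380) (nat_lit 0) (XT.nd (nat_lit 78) (nat_lit 0) (nat_lit 0) (XT.lf (nat_lit 76) (nat_lit 6523796392) (nat_lit 0) (nat_lit 60624601103) (nat_lit 532) (nat_lit 33470979290) (nat_lit 45) (nat_lit 5) (nat_lit 44) (nat_lit 5) (nat_lit 51) (nat_lit 5) (nat_lit 304) (nat_lit 299) (nat_lit 177)) (XT.lf (nat_lit 76) (nat_lit 56983069553) (nat_lit 0) (nat_lit 19058015941) (nat_lit 532) (nat_lit 28912303151) (nat_lit 45) (nat_lit 5) (nat_lit 44) (nat_lit 5) (nat_lit 51) (nat_lit 5) (nat_lit 305) (nat_lit 299) (nat_lit 176)))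 (XT.nd (nat_lit 78) (nat_lit 0) (nat_lit 0) (XT.lf (nat_lit 0) (nat_lit 1287510924) (nat_lit 456) (nat_lit 85009335156) (nat_lit 532) (nat_lit 23285145015) (nat_lit 39) (nat_lit 5) (nat_lit 45) (nat_lit 5) (nat_lit 46) (nat_lit 5) (nat_lit 306) (nat_lit 299) (nat_lit 175)) (XT.lf (nat_lit 0) (nat_lit 56692463086) (nat_lit 456) (nat_lit 42474098879) (nat_lit 532) (nat_lit 15270842299) (nat_lit 39) (nat_lit 5) (nat_lit 45) (nat_lit 5) (nat_lit 46) (nat_lit 5) (nat_lit 307) (nat_lit 299) (nat_lit 174)))))) (XT.nd (nat_lit 546) (nat_lit 684) (nat_lit 0) (XT.nd (nat_lit 234) (nat_lit 456) (nat_lit 0) (XT.nd (nat_lit 78) (nat_lit 304) (nat_lit 0) (XT.lf (nat_lit 0) (nat_lit 113148626780) (nat_lit 532) (nat_lit 3235292113) (nat_lit 76) (nat_lit 3290711785) (nat_lit 39) (nat_lit 5) (nat_lit 46) (nat_lit 5) (nat_lit 40) (nat_lit 5) (nat_lit 308) (nat_lit 299) (nat_lit 173)) (XT.nd (nat_lit 78)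 (nat_lit 0) (nat_lit 0) (XT.lf (nat_lit 0) (nat_lit 5320197411) (nat_lit 304) (nat_lit 67863936048) (nat_lit 76) (nat_lit 51937266978) (nat_lit 35) (nat_lit 5) (nat_lit 39) (nat_lit 5) (nat_lit 36) (nat_lit 5) (nat_lit 309) (nat_lit 299) (nat_lit 172)) (XT.lf (nat_lit 0) (nat_lit 17851791681) (nat_lit 304) (nat_lit 8395522757) (nat_lit 76) (nat_lit 104735816694) (nat_lit 35) (nat_lit 5) (nat_lit 39) (nat_lit 5) (nat_lit 36) (nat_lit 5) (nat_lit 310) (nat_lit 299) (nat_lit 171)))) (XT.nd (nat_lit 156) (nat_lit 228) (nat_lit 0) (XT.nd (nat_lit 78) (nat_lit 0) (nat_lit 0) (XT.lf (nat_lit 0) (nat_lit 33423479510) (nat_lit 304) (nat_lit 79055579488) (nat_lit 76) (nat_lit 24671737417) (nat_lit 32) (nat_lit 5) (nat_lit 36) (nat_lit 5) (nat_lit 33) (nat_lit 5) (nat_lit 311) (nat_lit 299) (nat_lit 170)) (XT.lf (nat_lit 0) (nat_lit 51157732938) (nat_lit 304) (nat_lit 14099047909) (nat_lit 76)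 (nat_lit 78481748937) (nat_lit 32) (nat_lit 5) (nat_lit 36) (nat_lit 5) (nat_lit 33) (nat_lit 5) (nat_lit 312) (nat_lit 299) (nat_lit 169))) (XT.nd (nat_lit 78) (nat_lit 0) (nat_lit 0) (XT.lf (nat_lit 0) (nat_lit 59005220808) (nat_lit 228) (nat_lit 12724185939) (nat_lit 304) (nat_lit 79010381880) (nat_lit 29) (nat_lit 5) (nat_lit 32) (nat_lit 5) (nat_lit 33) (nat_lit 5) (nat_lit 313) (nat_lit 299) (nat_lit 168)) (XT.lf (nat_lit 0) (nat_lit 95400406031) (nat_lit 304) (nat_lit 20579614483) (nat_lit 76) (nat_lit 42204841461) (nat_lit 29) (nat_lit 5) (nat_lit 33) (nat_lit 5) (nat_lit 30) (nat_lit 5) (nat_lit 314) (nat_lit 299) (nat_lit 167))))) (XT.nd (nat_lit 312) (nat_lit 304) (nat_lit 0) (XT.nd (nat_lit 156) (nat_lit 228) (nat_lit 0) (XT.nd (nat_lit 78) (nat_lit 0) (nat_lit 0) (XT.lf (nat_lit 0) (nat_lit 58882321477) (nat_lit 152) (nat_lit 63829031328) (nat_lit 228) (nat_lit 43374488021)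 (nat_lit 27) (nat_lit 5) (nat_lit 29) (nat_lit 5) (nat_lit 30) (nat_lit 5) (nat_lit 315) (nat_lit 299) (nat_lit 166)) (XT.lf (nat_lit 0) (nat_lit 145871157053) (nat_lit 152) (nat_lit 6898364951) (nat_lit 228) (nat_lit 21804389210) (nat_lit 27) (nat_lit 5) (nat_lit 29) (nat_lit 5) (nat_lit 30) (nat_lit 5) (nat_lit 316) (nat_lit 299) (nat_lit 165))) (XT.nd (nat_lit 78) (nat_lit 0) (nat_lit 0) (XT.lf (nat_lit 0) (nat_lit 4185767987) (nat_lit 228) (nat_lit 125982429874) (nat_lit 76) (nat_lit 53348436722) (nat_lit 24) (nat_lit 5) (nat_lit 27) (nat_lit 5) (nat_lit 25) (nat_lit 5) (nat_lit 317) (nat_lit 299) (nat_lit 164)) (XT.lf (nat_lit 0) (nat_lit 32061171758) (nat_lit 228) (nat_lit 41575865498) (nat_lit 76) (nat_lit 119413708517) (nat_lit 24) (nat_lit 5) (nat_lit 27) (nat_lit 5) (nat_lit 25) (nat_lit 5) (nat_lit 318) (nat_lit 299) (nat_lit 163)))) (XT.nd (nat_lit 156) (nat_lit 152) (nat_lit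 0) (XT.nd (nat_lit 78) (nat_lit 0) (nat_lit 0) (XT.lf (nat_lit 0) (nat_lit 52193766038) (nat_lit 152) (nat_lit 11227816902) (nat_lit 228) (nat_lit 139825605618) (nat_lit 22) (nat_lit 5) (nat_lit 24) (nat_lit 5) (nat_lit 25) (nat_lit 5) (nat_lit 319) (nat_lit 299) (nat_lit 162)) (XT.lf (nat_lit 0) (nat_lit 99807823239) (nat_lit 228) (nat_lit 59719908536) (nat_lit 76) (nat_lit 54530255950) (nat_lit 22) (nat_lit 5) (nat_lit 25) (nat_lit 5) (nat_lit 23) (nat_lit 5) (nat_lit 320) (nat_lit 299) (nat_lit 161))) (XT.nd (nat_lit 78) (nat_lit 0) (nat_lit 0) (XT.lf (nat_lit 0) (nat_lit 40662370700) (nat_lit 152) (nat_lit 99711897954) (nat_lit 228) (nat_lit 85257838305) (nat_lit 20) (nat_lit 5) (nat_lit 22) (nat_lit 5) (nat_lit 23) (nat_lit 5) (nat_lit 321) (nat_lit 299) (nat_lit 160)) (XT.lf (nat_lit 0) (nat_lit 152471185305) (nat_lit 152) (nat_lit 33347445914) (nat_lit 228) (nat_lit 52182916952)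 (nat_lit 20) (nat_lit 5) (nat_lit 22) (nat_lit 5) (nat_lit 23) (nat_lit 5) (nat_lit 322) (nat_lit 299) (nat_lit 159))))))))
noncomputable def xc106 : XT := (XT.nd (nat_lit 2262) (nat_lit 76) (nat_lit 0) (XT.nd (nat_lit 1092) (nat_lit 380) (nat_lit 0) (XT.nd (nat_lit 546) (nat_lit 380) (nat_lit 0) (XT.nd (nat_lit 234) (nat_lit 228) (nat_lit 0) (XT.nd (nat_lit 78) (nat_lit 76) (nat_lit 0) (XT.lf (nat_lit 0) (nat_lit 22044827194) (nat_lit 76) (nat_lit 214305408225) (nat_lit 152) (nat_lit 14894174372) (nat_lit 19) (nat_lit 5) (nat_lit 20) (nat_lit 5) (nat_lit 21) (nat_lit 4) (nat_lit 323) (nat_lit 299) (nat_lit 158)) (XT.nd (nat_lit 78) (nat_lit 0) (nat_lit 0) (XT.lf (nat_lit 0) (nat_lit 27373405957) (nat_lit 152) (nat_lit 123807001765) (nat_lit 76) (nat_lit 114056247819) (nat_lit 18) (nat_lit 5) (nat_lit 20) (nat_lit 5) (nat_lit 19) (nat_lit 5) (nat_lit 324) (nat_lit 299) (nat_lit 157))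 (XT.lf (nat_lit 0) (nat_lit 72217508709) (nat_lit 152) (nat_lit 10370212246) (nat_lit 76) (nat_lit 197729628413) (nat_lit 18) (nat_lit 5) (nat_lit 20) (nat_lit 5) (nat_lit 19) (nat_lit 5) (nat_lit 325) (nat_lit 299) (nat_lit 156)))) (XT.nd (nat_lit 156) (nat_lit 76) (nat_lit 0) (XT.nd (nat_lit 78) (nat_lit 0) (nat_lit 0) (XT.lf (nat_lit 0) (nat_lit 118046366569) (nat_lit 152) (nat_lit 5441595025) (nat_lit 228) (nat_lit 172889431736) (nat_lit 16) (nat_lit 5) (nat_lit 18) (nat_lit 5) (nat_lit 19) (nat_lit 5) (nat_lit 326) (nat_lit 299) (nat_lit 155)) (XT.lf (nat_lit 0) (nat_lit 181023688782) (nat_lit 228) (nat_lit 58254128462) (nat_lit 76) (nat_lit 74271332873) (nat_lit 16) (nat_lit 5) (nat_lit 19) (nat_lit 5) (nat_lit 17) (nat_lit 4) (nat_lit 327) (nat_lit 299) (nat_lit 154))) (XT.nd (nat_lit 78) (nat_lit 0) (nat_lit 0) (XT.lf (nat_lit 0) (nat_lit 75041151245) (nat_lit 76) (nat_lit 170067027141)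 (nat_lit 152) (nat_lit 86830797049) (nat_lit 15) (nat_lit 5) (nat_lit 16) (nat_lit 5) (nat_lit 17) (nat_lit 4) (nat_lit 328) (nat_lit 299) (nat_lit 153)) (XT.lf (nat_lit 0) (nat_lit 222312732014) (nat_lit 76) (nat_lit 93599295153) (nat_lit 152) (nat_lit 35760551916) (nat_lit 15) (nat_lit 5) (nat_lit 16) (nat_lit 5) (nat_lit 17) (nat_lit 4) (nat_lit 329) (nat_lit 299) (nat_lit 152))))) (XT.nd (nat_lit 234) (nat_lit 152) (nat_lit 0) (XT.nd (nat_lit 78) (nat_lit 0) (nat_lit 0) (XT.lf (nat_lit 0) (nat_lit 8331197812) (nat_lit 152) (nat_lit 10294085616) (nat_lit 228) (nat_lit 354306255018) (nat_lit 12) (nat_lit 5) (nat_lit 14) (nat_lit 5) (nat_lit 15) (nat_lit 5) (nat_lit 330) (nat_lit 299) (nat_lit 151)) (XT.nd (nat_lit 78) (nat_lit 0) (nat_lit 0) (XT.lf (nat_lit 0) (nat_lit 80974821567) (nat_lit 228) (nat_lit 234151113582) (nat_lit 76) (nat_lit 80247385241) (nat_lit 12) (nat_lit 5) (nat_lit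 15) (nat_lit 5) (nat_lit 13) (nat_lit 4) (nat_lit 331) (nat_lit 299) (nat_lit 150)) (XT.lf (nat_lit 0) (nat_lit 148579553674) (nat_lit 228) (nat_lit 93533582963) (nat_lit 76) (nat_lit 177475930002) (nat_lit 12) (nat_lit 5) (nat_lit 15) (nat_lit 5) (nat_lit 13) (nat_lit 4) (nat_lit 332) (nat_lit 299) (nat_lit 149)))) (XT.nd (nat_lit 156) (nat_lit 76) (nat_lit 0) (XT.nd (nat_lit 78) (nat_lit 0) (nat_lit 0) (XT.lf (nat_lit 0) (nat_lit 61404831670) (nat_lit 76) (nat_lit 161664483385) (nat_lit 152) (nat_lit 222554625683) (nat_lit 11) (nat_lit 5) (nat_lit 12) (nat_lit 5) (nat_lit 13) (nat_lit 4) (nat_lit 333) (nat_lit 299) (nat_lit 148)) (XT.lf (nat_lit 0) (nat_lit 234057426406) (nat_lit 76) (nat_lit 72018072479) (nat_lit 152) (nat_lit 167461526749) (nat_lit 11) (nat_lit 5) (nat_lit 12) (nat_lit 5) (nat_lit 13) (nat_lit 4) (nat_lit 334) (nat_lit 299) (nat_lit 147))) (XT.nd (nat_lit 78) (nat_lit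 76) (nat_lit 0) (XT.lf (nat_lit 0) (nat_lit 396318494488) (nat_lit 152) (nat_lit 83757591936) (nat_lit 0) (nat_lit 23559365708) (nat_lit 11) (nat_lit 5) (nat_lit 13) (nat_lit 4) (nat_lit 11) (nat_lit 4) (nat_lit 335) (nat_lit 299) (nat_lit 146)) (XT.lf (nat_lit 0) (nat_lit 86898380489) (nat_lit 76) (nat_lit 410842941153) (nat_lit 76) (nat_lit 38083599921) (nat_lit 10) (nat_lit 4) (nat_lit 11) (nat_lit 5) (nat_lit 11) (nat_lit 4) (nat_lit 336) (nat_lit 299) (nat_lit 145)))))) (XT.nd (nat_lit 546) (nat_lit 152) (nat_lit 0) (XT.nd (nat_lit 234) (nat_lit 76) (nat_lit 0) (XT.nd (nat_lit 78) (nat_lit 76) (nat_lit 0) (XT.lf (nat_lit 0) (nat_lit 37202571541) (nat_lit 152) (nat_lit 295378189142) (nat_lit 76) (nat_lit 237750243499) (nat_lit 9) (nat_lit 5) (nat_lit 11) (nat_lit 5) (nat_lit 10) (nat_lit 4) (nat_lit 337) (nat_lit 299) (nat_lit 144)) (XT.nd (nat_lit 78) (nat_lit 76) (nat_lit 0) (XT.lf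 (nat_lit 0) (nat_lit 116454026826) (nat_lit 152) (nat_lit 130535344294) (nat_lit 76) (nat_lit 360529076172) (nat_lit 9) (nat_lit 5) (nat_lit 11) (nat_lit 5) (nat_lit 10) (nat_lit 4) (nat_lit 338) (nat_lit 299) (nat_lit 143)) (XT.lf (nat_lit 0) (nat_lit 49995740895) (nat_lit 76) (nat_lit 153252157970) (nat_lit 152) (nat_lit 444336803080) (nat_lit 8) (nat_lit 5) (nat_lit 9) (nat_lit 5) (nat_lit 10) (nat_lit 4) (nat_lit 339) (nat_lit 299) (nat_lit 142)))) (XT.nd (nat_lit 156) (nat_lit 76) (nat_lit 0) (XT.nd (nat_lit 78) (nat_lit 0) (nat_lit 0) (XT.lf (nat_lit 0) (nat_lit 252392801377) (nat_lit 76) (nat_lit 48161451642) (nat_lit 152) (nat_lit 390016486273) (nat_lit 8) (nat_lit 5) (nat_lit 9) (nat_lit 5) (nat_lit 10) (nat_lit 4) (nat_lit 340) (nat_lit 299) (nat_lit 141)) (XT.lf (nat_lit 0) (nat_lit 407216370229) (nat_lit 152) (nat_lit 267585542506) (nat_lit 0) (nat_lit 62068046621) (nat_lit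 8) (nat_lit 5) (nat_lit 10) (nat_lit 4) (nat_lit 8) (nat_lit 4) (nat_lit 341) (nat_lit 299) (nat_lit 140))) (XT.nd (nat_lit 78) (nat_lit 76) (nat_lit 0) (XT.lf (nat_lit 0) (nat_lit 523662320329) (nat_lit 152) (nat_lit 84596854952) (nat_lit 0) (nat_lit 178513872756) (nat_lit 8) (nat_lit 5) (nat_lit 10) (nat_lit 4) (nat_lit 8) (nat_lit 4) (nat_lit 342) (nat_lit 299) (nat_lit 139)) (XT.lf (nat_lit 0) (nat_lit 118982787118) (nat_lit 76) (nat_lit 533302621097) (nat_lit 76) (nat_lit 188154058743) (nat_lit 7) (nat_lit 4) (nat_lit 8) (nat_lit 5) (nat_lit 8) (nat_lit 4) (nat_lit 343) (nat_lit 299) (nat_lit 138))))) (XT.nd (nat_lit 312) (nat_lit 0) (nat_lit 0) (XT.nd (nat_lit 156) (nat_lit 152) (nat_lit 0) (XT.nd (nat_lit 78) (nat_lit 0) (nat_lit 0) (XT.lf (nat_lit 0) (nat_lit 343659760851) (nat_lit 76) (nat_lit 449851535501) (nat_lit 76) (nat_lit 104702866867) (nat_lit 7) (nat_lit 4) (nat_lit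 8) (nat_lit 5) (nat_lit 8) (nat_lit 4) (nat_lit 344) (nat_lit 299) (nat_lit 137)) (XT.lf (nat_lit 0) (nat_lit 586310764888) (nat_lit 76) (nat_lit 359724421472) (nat_lit 76) (nat_lit 14575654431) (nat_lit 7) (nat_lit 4) (nat_lit 8) (nat_lit 5) (nat_lit 8) (nat_lit 4) (nat_lit 345) (nat_lit 299) (nat_lit 136))) (XT.nd (nat_lit 78) (nat_lit 76) (nat_lit 0) (XT.lf (nat_lit 0) (nat_lit 78621592041) (nat_lit 152) (nat_lit 181615946712) (nat_lit 76) (nat_lit 767602485406) (nat_lit 6) (nat_lit 5) (nat_lit 8) (nat_lit 5) (nat_lit 7) (nat_lit 4) (nat_lit 346) (nat_lit 299) (nat_lit 135)) (XT.lf (nat_lit 0) (nat_lit 27478813255) (nat_lit 76) (nat_lit 151669146255) (nat_lit 152) (nat_lit 921216431257) (nat_lit 5) (nat_lit 5) (nat_lit 6) (nat_lit 5) (nat_lit 7) (nat_lit 4) (nat_lit 347) (nat_lit 299) (nat_lit 134)))) (XT.nd (nat_lit 156) (nat_lit 0) (nat_lit 0) (XT.nd (nat_lit 78) (nat_lit 0) (nat_lit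 0) (XT.lf (nat_lit 0) (nat_lit 263629704027) (nat_lit 76) (nat_lit 29052375142) (nat_lit 152) (nat_lit 885611376166) (nat_lit 5) (nat_lit 5) (nat_lit 6) (nat_lit 5) (nat_lit 7) (nat_lit 4) (nat_lit 348) (nat_lit 299) (nat_lit 133)) (XT.lf (nat_lit 0) (nat_lit 417785013478) (nat_lit 152) (nat_lit 746270424854) (nat_lit 0) (nat_lit 98202519981) (nat_lit 5) (nat_lit 5) (nat_lit 7) (nat_lit 4) (nat_lit 5) (nat_lit 4) (nat_lit 349) (nat_lit 299) (nat_lit 132))) (XT.nd (nat_lit 78) (nat_lit 0) (nat_lit 0) (XT.lf (nat_lit 0) (nat_lit 553650738013) (nat_lit 152) (nat_lit 565160336624) (nat_lit 0) (nat_lit 234068182503) (nat_lit 5) (nat_lit 5) (nat_lit 7) (nat_lit 4) (nat_lit 5) (nat_lit 4) (nat_lit 350) (nat_lit 299) (nat_lit 131)) (XT.lf (nat_lit 0) (nat_lit 700385672673) (nat_lit 152) (nat_lit 369561531329) (nat_lit 0) (nat_lit 380803059743) (nat_lit 5) (nat_lit 5) (nat_lit 7) (nat_lit 4)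 (nat_lit 5) (nat_lit 4) (nat_lit 351) (nat_lit 299) (nat_lit 130))))))) (XT.nd (nat_lit 37050) (nat_lit 0) (nat_lit 1368) (XT.nd (nat_lit 546) (nat_lit 0) (nat_lit 0) (XT.nd (nat_lit 234) (nat_lit 0) (nat_lit 0) (XT.nd (nat_lit 78) (nat_lit 76) (nat_lit 0) (XT.lf (nat_lit 0) (nat_lit 858859357810) (nat_lit 152) (nat_lit 158314904938) (nat_lit 0) (nat_lit 539276691714) (nat_lit 5) (nat_lit 5) (nat_lit 7) (nat_lit 4) (nat_lit 5) (nat_lit 4) (nat_lit 352) (nat_lit 299) (nat_lit 129)) (XT.nd (nat_lit 78) (nat_lit 0) (nat_lit 0) (XT.lf (nat_lit 0) (nat_lit 73508570831) (nat_lit 76) (nat_lit 958270208808) (nat_lit 76) (nat_lit 638687493484) (nat_lit 4) (nat_lit 4) (nat_lit 5) (nat_lit 5) (nat_lit 5) (nat_lit 4) (nat_lit 353) (nat_lit 299) (nat_lit 128)) (XT.lf (nat_lit 0) (nat_lit 332881358384) (nat_lit 76) (nat_lit 889978967107) (nat_lit 76) (nat_lit 570396206201) (nat_lit 4) (nat_lit 4)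 (nat_lit 5) (nat_lit 5) (nat_lit 5) (nat_lit 4) (nat_lit 354) (nat_lit 299) (nat_lit 127)))) (XT.nd (nat_lit 156) (nat_lit 0) (nat_lit 0) (XT.nd (nat_lit 78) (nat_lit 0) (nat_lit 0) (XT.lf (nat_lit 0) (nat_lit 613003899310) (nat_lit 76) (nat_lit 816224458863) (nat_lit 76) (nat_lit 496641655752) (nat_lit 4) (nat_lit 4) (nat_lit 5) (nat_lit 5) (nat_lit 5) (nat_lit 4) (nat_lit 355) (nat_lit 299) (nat_lit 126)) (XT.lf (nat_lit 0) (nat_lit 915536179036) (nat_lit 76) (nat_lit 736569620325) (nat_lit 76) (nat_lit 416986778135) (nat_lit 4) (nat_lit 4) (nat_lit 5) (nat_lit 5) (nat_lit 5) (nat_lit 4) (nat_lit 356) (nat_lit 299) (nat_lit 125))) (XT.nd (nat_lit 78) (nat_lit 0) (nat_lit 0) (XT.lf (nat_lit 0) (nat_lit 1242270981443) (nat_lit 76) (nat_lit 650542422819) (nat_lit 76) (nat_lit 330959544446) (nat_lit 4) (nat_lit 4) (nat_lit 5) (nat_lit 5) (nat_lit 5) (nat_lit 4) (nat_lit 357) (nat_lit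 299) (nat_lit 124)) (XT.lf (nat_lit 0) (nat_lit 1595144512766) (nat_lit 76) (nat_lit 557633075546) (nat_lit 76) (nat_lit 238050163669) (nat_lit 4) (nat_lit 4) (nat_lit 5) (nat_lit 5) (nat_lit 5) (nat_lit 4) (nat_lit 358) (nat_lit 299) (nat_lit 123))))) (XT.nd (nat_lit 36192) (nat_lit 0) (nat_lit 2964) (XT.nd (nat_lit 36036) (nat_lit 0) (nat_lit 2888) (XT.nd (nat_lit 78) (nat_lit 0) (nat_lit 0) (XT.lf (nat_lit 0) (nat_lit 1976247875413) (nat_lit 76) (nat_lit 457291004596) (nat_lit 76) (nat_lit 137708061697) (nat_lit 4) (nat_lit 4) (nat_lit 5) (nat_lit 5) (nat_lit 5) (nat_lit 4) (nat_lit 359) (nat_lit 299) (nat_lit 122)) (XT.lf (nat_lit 0) (nat_lit 2387839459682) (nat_lit 76) (nat_lit 348921590289) (nat_lit 76) (nat_lit 29338618666) (nat_lit 4) (nat_lit 4) (nat_lit 5) (nat_lit 5) (nat_lit 5) (nat_lit 4) (nat_lit 360) (nat_lit 299) (nat_lit 121))) (XT.nd (nat_lit 78) (nat_lit 0) (nat_lit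 0) (XT.lf (nat_lit 0) (nat_lit 23982532092) (nat_lit 532) (nat_lit 10227932730) (nat_lit 532) (nat_lit 10227932730) (nat_lit 42) (nat_lit 3) (nat_lit 49) (nat_lit 3) (nat_lit 49) (nat_lit 5) (nat_lit 300) (nat_lit 300) (nat_lit 180)) (XT.lf (nat_lit 76) (nat_lit 20296160520) (nat_lit 0) (nat_lit 30083139529) (nat_lit 532) (nat_lit 42012887934) (nat_lit 43) (nat_lit 5) (nat_lit 42) (nat_lit 3) (nat_lit 49) (nat_lit 5) (nat_lit 301) (nat_lit 300) (nat_lit 179)))) (XT.nd (nat_lit 156) (nat_lit 0) (nat_lit 0) (XT.nd (nat_lit 78) (nat_lit 0) (nat_lit 0) (XT.lf (nat_lit 0) (nat_lit 53832034514) (nat_lit 456) (nat_lit 30959690709) (nat_lit 532) (nat_lit 11329461118) (nat_lit 43) (nat_lit 5) (nat_lit 49) (nat_lit 5) (nat_lit 50) (nat_lit 5) (nat_lit 302) (nat_lit 300) (nat_lit 178)) (XT.lf (nat_lit 76) (nat_lit 13353716408) (nat_lit 0) (nat_lit 45309110930) (nat_lit 532) (nat_lit 41397532681)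 (nat_lit 44) (nat_lit 5) (nat_lit 43) (nat_lit 5) (nat_lit 50) (nat_lit 5) (nat_lit 303) (nat_lit 300) (nat_lit 177))) (XT.nd (nat_lit 78) (nat_lit 0) (nat_lit 76) (XT.lf (nat_lit 76) (nat_lit 62972449563) (nat_lit 0) (nat_lit 1753469820) (nat_lit 532) (nat_lit 39521083768) (nat_lit 44) (nat_lit 5) (nat_lit 43) (nat_lit 5) (nat_lit 50) (nat_lit 5) (nat_lit 304) (nat_lit 300) (nat_lit 176)) (XT.lf (nat_lit 76) (nat_lit 7055426677) (nat_lit 0) (nat_lit 65476855887) (nat_lit 532) (nat_lit 36135639512) (nat_lit 45) (nat_lit 5) (nat_lit 44) (nat_lit 5) (nat_lit 51) (nat_lit 5) (nat_lit 305) (nat_lit 300) (nat_lit 175)))))) (XT.nd (nat_lit 546) (nat_lit 760) (nat_lit 0) (XT.nd (nat_lit 234) (nat_lit 532) (nat_lit 0) (XT.nd (nat_lit 78) (nat_lit 380) (nat_lit 0) (XT.lf (nat_lit 76) (nat_lit 61550721205) (nat_lit 0) (nat_lit 20584774527) (nat_lit 532) (nat_lit 31213233587) (nat_lit 45) (nat_lit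 5) (nat_lit 44) (nat_lit 5) (nat_lit 51) (nat_lit 5) (nat_lit 306) (nat_lit 300) (nat_lit 174)) (XT.nd (nat_lit 78) (nat_lit 0) (nat_lit 0) (XT.lf (nat_lit 0) (nat_lit 1400246379) (nat_lit 456) (nat_lit 91810833798) (nat_lit 532) (nat_lit 25136593751) (nat_lit 39) (nat_lit 5) (nat_lit 45) (nat_lit 5) (nat_lit 46) (nat_lit 5) (nat_lit 307) (nat_lit 300) (nat_lit 173)) (XT.lf (nat_lit 0) (nat_lit 61236873633) (nat_lit 456) (nat_lit 45872722928) (nat_lit 532) (nat_lit 16481988512) (nat_lit 39) (nat_lit 5) (nat_lit 45) (nat_lit 5) (nat_lit 46) (nat_lit 5) (nat_lit 308) (nat_lit 300) (nat_lit 172)))) (XT.nd (nat_lit 156) (nat_lit 228) (nat_lit 0) (XT.nd (nat_lit 78) (nat_lit 304) (nat_lit 0) (XT.lf (nat_lit 0) (nat_lit 122209491827) (nat_lit 532) (nat_lit 3485002727) (nat_lit 76) (nat_lit 3553356399) (nat_lit 39) (nat_lit 5) (nat_lit 46) (nat_lit 5) (nat_lit 40) (nat_lit 5) (nat_lit 309)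 (nat_lit 300) (nat_lit 171)) (XT.lf (nat_lit 0) (nat_lit 5754586621) (nat_lit 304) (nat_lit 73283679292) (nat_lit 76) (nat_lit 56092117091) (nat_lit 35) (nat_lit 5) (nat_lit 39) (nat_lit 5) (nat_lit 36) (nat_lit 5) (nat_lit 310) (nat_lit 300) (nat_lit 170))) (XT.nd (nat_lit 78) (nat_lit 228) (nat_lit 0) (XT.lf (nat_lit 0) (nat_lit 19288058550) (nat_lit 304) (nat_lit 9058487133) (nat_lit 76) (nat_lit 113114560505) (nat_lit 35) (nat_lit 5) (nat_lit 39) (nat_lit 5) (nat_lit 36) (nat_lit 5) (nat_lit 311) (nat_lit 300) (nat_lit 169)) (XT.lf (nat_lit 0) (nat_lit 36105100689) (nat_lit 304) (nat_lit 85370944029) (nat_lit 76) (nat_lit 26646172326) (nat_lit 32) (nat_lit 5) (nat_lit 36) (nat_lit 5) (nat_lit 33) (nat_lit 5) (nat_lit 312) (nat_lit 300) (nat_lit 168))))) (XT.nd (nat_lit 312) (nat_lit 380) (nat_lit 0) (XT.nd (nat_lit 156) (nat_lit 152) (nat_lit 0) (XT.nd (nat_lit 78) (nat_lit 228)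 (nat_lit 0) (XT.lf (nat_lit 0) (nat_lit 55257520849) (nat_lit 304) (nat_lit 15218562651) (nat_lit 76) (nat_lit 84760933219) (nat_lit 32) (nat_lit 5) (nat_lit 36) (nat_lit 5) (nat_lit 33) (nat_lit 5) (nat_lit 313) (nat_lit 300) (nat_lit 167)) (XT.lf (nat_lit 0) (nat_lit 63733834676) (nat_lit 228) (nat_lit 13740759949) (nat_lit 304) (nat_lit 85323809982) (nat_lit 29) (nat_lit 5) (nat_lit 32) (nat_lit 5) (nat_lit 33) (nat_lit 5) (nat_lit 314) (nat_lit 300) (nat_lit 166))) (XT.nd (nat_lit 78) (nat_lit 152) (nat_lit 0) (XT.lf (nat_lit 0) (nat_lit 103038797835) (nat_lit 304) (nat_lit 22217899767) (nat_lit 76) (nat_lit 45582425805) (nat_lit 29) (nat_lit 5) (nat_lit 33) (nat_lit 5) (nat_lit 30) (nat_lit 5) (nat_lit 315) (nat_lit 300) (nat_lit 165)) (XT.lf (nat_lit 0) (nat_lit 63600786415) (nat_lit 152) (nat_lit 68933552371) (nat_lit 228) (nat_lit 46837865697) (nat_lit 27) (nat_lit 5) (nat_lit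 29) (nat_lit 5) (nat_lit 30) (nat_lit 5) (nat_lit 316) (nat_lit 300) (nat_lit 164)))) (XT.nd (nat_lit 156) (nat_lit 152) (nat_lit 0) (XT.nd (nat_lit 78) (nat_lit 228) (nat_lit 0) (XT.lf (nat_lit 0) (nat_lit 157548145191) (nat_lit 152) (nat_lit 7448566125) (nat_lit 228) (nat_lit 23542646490) (nat_lit 27) (nat_lit 5) (nat_lit 29) (nat_lit 5) (nat_lit 30) (nat_lit 5) (nat_lit 317) (nat_lit 300) (nat_lit 163)) (XT.lf (nat_lit 0) (nat_lit 4526213445) (nat_lit 228) (nat_lit 136053190140) (nat_lit 76) (nat_lit 57618101238) (nat_lit 24) (nat_lit 5) (nat_lit 27) (nat_lit 5) (nat_lit 25) (nat_lit 5) (nat_lit 318) (nat_lit 300) (nat_lit 162))) (XT.nd (nat_lit 78) (nat_lit 152) (nat_lit 0) (XT.lf (nat_lit 0) (nat_lit 34631235887) (nat_lit 228) (nat_lit 44894680919) (nat_lit 76) (nat_lit 128968462216) (nat_lit 24) (nat_lit 5) (nat_lit 27) (nat_lit 5) (nat_lit 25) (nat_lit 5) (nat_lit 319) (nat_lit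 300) (nat_lit 161)) (XT.lf (nat_lit 0) (nat_lit 56376337499) (nat_lit 152) (nat_lit 12123929511) (nat_lit 228) (nat_lit 151006288204) (nat_lit 22) (nat_lit 5) (nat_lit 24) (nat_lit 5) (nat_lit 25) (nat_lit 5) (nat_lit 320) (nat_lit 300) (nat_lit 160))))))))
noncomputable def xc107 : XT := (XT.nd (nat_lit 2262) (nat_lit 76) (nat_lit 0) (XT.nd (nat_lit 1092) (nat_lit 456) (nat_lit 0) (XT.nd (nat_lit 546) (nat_lit 380) (nat_lit 0) (XT.nd (nat_lit 234) (nat_lit 304) (nat_lit 0) (XT.nd (nat_lit 78) (nat_lit 152) (nat_lit 0) (XT.lf (nat_lit 0) (nat_lit 107797086363) (nat_lit 228) (nat_lit 64490623630) (nat_lit 76) (nat_lit 58894534811) (nat_lit 22) (nat_lit 5) (nat_lit 25) (nat_lit 5) (nat_lit 23) (nat_lit 5) (nat_lit 321) (nat_lit 300) (nat_lit 159)) (XT.nd (nat_lit 78) (nat_lit 0) (nat_lit 0) (XT.lf (nat_lit 0) (nat_lit 43922063829) (nat_lit 152) (nat_lit 107686601300) (nat_lit 228) (nat_lit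 92073643841) (nat_lit 20) (nat_lit 5) (nat_lit 22) (nat_lit 5) (nat_lit 23) (nat_lit 5) (nat_lit 322) (nat_lit 300) (nat_lit 158)) (XT.lf (nat_lit 0) (nat_lit 164675087049) (nat_lit 152) (nat_lit 36013159652) (nat_lit 228) (nat_lit 56353085931) (nat_lit 20) (nat_lit 5) (nat_lit 22) (nat_lit 5) (nat_lit 23) (nat_lit 5) (nat_lit 323) (nat_lit 300) (nat_lit 157)))) (XT.nd (nat_lit 156) (nat_lit 152) (nat_lit 0) (XT.nd (nat_lit 78) (nat_lit 76) (nat_lit 0) (XT.lf (nat_lit 0) (nat_lit 23814745150) (nat_lit 76) (nat_lit 231447527173) (nat_lit 152) (nat_lit 16081360107) (nat_lit 19) (nat_lit 5) (nat_lit 20) (nat_lit 5) (nat_lit 21) (nat_lit 4) (nat_lit 324) (nat_lit 300) (nat_lit 156)) (XT.lf (nat_lit 0) (nat_lit 29567103156) (nat_lit 152) (nat_lit 133705490285) (nat_lit 76) (nat_lit 123182681108) (nat_lit 18) (nat_lit 5) (nat_lit 20) (nat_lit 5) (nat_lit 19) (nat_lit 5) (nat_lit 325) (nat_lit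 300) (nat_lit 155))) (XT.nd (nat_lit 78) (nat_lit 152) (nat_lit 0) (XT.lf (nat_lit 0) (nat_lit 77998450815) (nat_lit 152) (nat_lit 11194207354) (nat_lit 76) (nat_lit 213549788929) (nat_lit 18) (nat_lit 5) (nat_lit 20) (nat_lit 5) (nat_lit 19) (nat_lit 5) (nat_lit 326) (nat_lit 300) (nat_lit 154)) (XT.lf (nat_lit 0) (nat_lit 127495555440) (nat_lit 152) (nat_lit 5874853947) (nat_lit 228) (nat_lit 186716896146) (nat_lit 16) (nat_lit 5) (nat_lit 18) (nat_lit 5) (nat_lit 19) (nat_lit 5) (nat_lit 327) (nat_lit 300) (nat_lit 153))))) (XT.nd (nat_lit 234) (nat_lit 304) (nat_lit 0) (XT.nd (nat_lit 78) (nat_lit 76) (nat_lit 0) (XT.lf (nat_lit 0) (nat_lit 195508788160) (nat_lit 228) (nat_lit 62909172576) (nat_lit 76) (nat_lit 80214859129) (nat_lit 16) (nat_lit 5) (nat_lit 19) (nat_lit 5) (nat_lit 17) (nat_lit 4) (nat_lit 328) (nat_lit 300) (nat_lit 152)) (XT.nd (nat_lit 78) (nat_lit 0) (nat_lit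 0) (XT.lf (nat_lit 0) (nat_lit 81049595681) (nat_lit 76) (nat_lit 183670327812) (nat_lit 152) (nat_lit 93773917229) (nat_lit 15) (nat_lit 5) (nat_lit 16) (nat_lit 5) (nat_lit 17) (nat_lit 4) (nat_lit 329) (nat_lit 300) (nat_lit 151)) (XT.lf (nat_lit 0) (nat_lit 240102521257) (nat_lit 76) (nat_lit 101085329968) (nat_lit 152) (nat_lit 38618300157) (nat_lit 15) (nat_lit 5) (nat_lit 16) (nat_lit 5) (nat_lit 17) (nat_lit 4) (nat_lit 330) (nat_lit 300) (nat_lit 150)))) (XT.nd (nat_lit 156) (nat_lit 76) (nat_lit 0) (XT.nd (nat_lit 78) (nat_lit 0) (nat_lit 0) (XT.lf (nat_lit 0) (nat_lit 9002499073) (nat_lit 152) (nat_lit 11115645787) (nat_lit 228) (nat_lit 382647685210) (nat_lit 12) (nat_lit 5) (nat_lit 14) (nat_lit 5) (nat_lit 15) (nat_lit 5) (nat_lit 331) (nat_lit 300) (nat_lit 149)) (XT.lf (nat_lit 0) (nat_lit 87455479567) (nat_lit 228) (nat_lit 252878582679) (nat_lit 76) (nat_lit 86668905965)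 (nat_lit 12) (nat_lit 5) (nat_lit 15) (nat_lit 5) (nat_lit 13) (nat_lit 4) (nat_lit 332) (nat_lit 300) (nat_lit 148))) (XT.nd (nat_lit 78) (nat_lit 76) (nat_lit 0) (XT.lf (nat_lit 0) (nat_lit 160468392296) (nat_lit 228) (nat_lit 101011991831) (nat_lit 76) (nat_lit 191675606166) (nat_lit 12) (nat_lit 5) (nat_lit 15) (nat_lit 5) (nat_lit 13) (nat_lit 4) (nat_lit 333) (nat_lit 300) (nat_lit 147)) (XT.lf (nat_lit 0) (nat_lit 66321387675) (nat_lit 76) (nat_lit 174595863905) (nat_lit 152) (nat_lit 240356409657) (nat_lit 11) (nat_lit 5) (nat_lit 12) (nat_lit 5) (nat_lit 13) (nat_lit 4) (nat_lit 334) (nat_lit 300) (nat_lit 146)))))) (XT.nd (nat_lit 546) (nat_lit 228) (nat_lit 0) (XT.nd (nat_lit 234) (nat_lit 152) (nat_lit 0) (XT.nd (nat_lit 78) (nat_lit 76) (nat_lit 0) (XT.lf (nat_lit 0) (nat_lit 252785881139) (nat_lit 76) (nat_lit 77777871842) (nat_lit 152) (nat_lit 180856054370) (nat_lit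 11) (nat_lit 5) (nat_lit 12) (nat_lit 5) (nat_lit 13) (nat_lit 4) (nat_lit 335) (nat_lit 300) (nat_lit 145)) (XT.nd (nat_lit 78) (nat_lit 76) (nat_lit 0) (XT.lf (nat_lit 0) (nat_lit 428026060882) (nat_lit 152) (nat_lit 90454494330) (nat_lit 0) (nat_lit 25445563182) (nat_lit 11) (nat_lit 5) (nat_lit 13) (nat_lit 4) (nat_lit 11) (nat_lit 4) (nat_lit 336) (nat_lit 300) (nat_lit 144)) (XT.lf (nat_lit 0) (nat_lit 93853862093) (nat_lit 76) (nat_lit 443708784385) (nat_lit 76) (nat_lit 41128104540) (nat_lit 10) (nat_lit 4) (nat_lit 11) (nat_lit 5) (nat_lit 11) (nat_lit 4) (nat_lit 337) (nat_lit 300) (nat_lit 143)))) (XT.nd (nat_lit 156) (nat_lit 76) (nat_lit 0) (XT.nd (nat_lit 78) (nat_lit 0) (nat_lit 0) (XT.lf (nat_lit 0) (nat_lit 40180697776) (nat_lit 152) (nat_lit 319004997121) (nat_lit 76) (nat_lit 256771633627) (nat_lit 9) (nat_lit 5) (nat_lit 11) (nat_lit 5) (nat_lit 10) (nat_lit 4) (nat_lit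 338) (nat_lit 300) (nat_lit 142)) (XT.lf (nat_lit 0) (nat_lit 125772127224) (nat_lit 152) (nat_lit 140974980029) (nat_lit 76) (nat_lit 389372671385) (nat_lit 9) (nat_lit 5) (nat_lit 11) (nat_lit 5) (nat_lit 10) (nat_lit 4) (nat_lit 339) (nat_lit 300) (nat_lit 141))) (XT.nd (nat_lit 78) (nat_lit 0) (nat_lit 0) (XT.lf (nat_lit 0) (nat_lit 53998511169) (nat_lit 76) (nat_lit 165510940954) (nat_lit 152) (nat_lit 479881886253) (nat_lit 8) (nat_lit 5) (nat_lit 9) (nat_lit 5) (nat_lit 10) (nat_lit 4) (nat_lit 340) (nat_lit 300) (nat_lit 140)) (XT.lf (nat_lit 0) (nat_lit 272587106046) (nat_lit 76) (nat_lit 52013081057) (nat_lit 152) (nat_lit 421216081960) (nat_lit 8) (nat_lit 5) (nat_lit 9) (nat_lit 5) (nat_lit 10) (nat_lit 4) (nat_lit 341) (nat_lit 300) (nat_lit 139))))) (XT.nd (nat_lit 312) (nat_lit 152) (nat_lit 0) (XT.nd (nat_lit 156) (nat_lit 76) (nat_lit 0) (XT.nd (nat_lit 78) (nat_lit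 0) (nat_lit 0) (XT.lf (nat_lit 0) (nat_lit 439795184280) (nat_lit 152) (nat_lit 288989627586) (nat_lit 0) (nat_lit 67034622155) (nat_lit 8) (nat_lit 5) (nat_lit 10) (nat_lit 4) (nat_lit 8) (nat_lit 4) (nat_lit 342) (nat_lit 300) (nat_lit 138)) (XT.lf (nat_lit 0) (nat_lit 565556698948) (nat_lit 152) (nat_lit 91362049347) (nat_lit 0) (nat_lit 192796030544) (nat_lit 8) (nat_lit 5) (nat_lit 10) (nat_lit 4) (nat_lit 8) (nat_lit 4) (nat_lit 343) (nat_lit 300) (nat_lit 137))) (XT.nd (nat_lit 78) (nat_lit 0) (nat_lit 0) (XT.lf (nat_lit 0) (nat_lit 128503899430) (nat_lit 76) (nat_lit 575965691120) (nat_lit 76) (nat_lit 203204924309) (nat_lit 7) (nat_lit 4) (nat_lit 8) (nat_lit 5) (nat_lit 8) (nat_lit 4) (nat_lit 344) (nat_lit 300) (nat_lit 136)) (XT.lf (nat_lit 0) (nat_lit 371154846666) (nat_lit 76) (nat_lit 485838603096) (nat_lit 76) (nat_lit 113077745167) (nat_lit 7) (nat_lit 4) (nat_lit 8)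 (nat_lit 5) (nat_lit 8) (nat_lit 4) (nat_lit 345) (nat_lit 300) (nat_lit 135)))) (XT.nd (nat_lit 156) (nat_lit 76) (nat_lit 0) (XT.nd (nat_lit 78) (nat_lit 76) (nat_lit 0) (XT.lf (nat_lit 0) (nat_lit 633217760288) (nat_lit 76) (nat_lit 388501398111) (nat_lit 76) (nat_lit 15740455814) (nat_lit 7) (nat_lit 4) (nat_lit 8) (nat_lit 5) (nat_lit 8) (nat_lit 4) (nat_lit 346) (nat_lit 300) (nat_lit 134)) (XT.lf (nat_lit 0) (nat_lit 84912419768) (nat_lit 152) (nat_lit 196143187297) (nat_lit 76) (nat_lit 829011529909) (nat_lit 6) (nat_lit 5) (nat_lit 8) (nat_lit 5) (nat_lit 7) (nat_lit 4) (nat_lit 347) (nat_lit 300) (nat_lit 133))) (XT.nd (nat_lit 78) (nat_lit 0) (nat_lit 0) (XT.lf (nat_lit 0) (nat_lit 29679101944) (nat_lit 76) (nat_lit 163801760887) (nat_lit 152) (nat_lit 994912592862) (nat_lit 5) (nat_lit 5) (nat_lit 6) (nat_lit 5) (nat_lit 7) (nat_lit 4) (nat_lit 348) (nat_lit 300) (nat_lit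 132)) (XT.lf (nat_lit 0) (nat_lit 284721917043) (nat_lit 76) (nat_lit 31375716016) (nat_lit 152) (nat_lit 956459218764) (nat_lit 5) (nat_lit 5) (nat_lit 6) (nat_lit 5) (nat_lit 7) (nat_lit 4) (nat_lit 349) (nat_lit 300) (nat_lit 131))))))) (XT.nd (nat_lit 37206) (nat_lit 0) (nat_lit 1520) (XT.nd (nat_lit 546) (nat_lit 0) (nat_lit 0) (XT.nd (nat_lit 234) (nat_lit 76) (nat_lit 0) (XT.nd (nat_lit 78) (nat_lit 0) (nat_lit 0) (XT.lf (nat_lit 0) (nat_lit 451208747870) (nat_lit 152) (nat_lit 805970303092) (nat_lit 0) (nat_lit 106059468487) (nat_lit 5) (nat_lit 5) (nat_lit 7) (nat_lit 4) (nat_lit 5) (nat_lit 4) (nat_lit 350) (nat_lit 300) (nat_lit 130)) (XT.nd (nat_lit 78) (nat_lit 0) (nat_lit 0) (XT.lf (nat_lit 0) (nat_lit 597943661234) (nat_lit 152) (nat_lit 610371537859) (nat_lit 0) (nat_lit 252794328684) (nat_lit 5) (nat_lit 5) (nat_lit 7) (nat_lit 4) (nat_lit 5) (nat_lit 4) (nat_lit 351)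 (nat_lit 300) (nat_lit 129)) (XT.lf (nat_lit 0) (nat_lit 756417326653) (nat_lit 152) (nat_lit 399124948562) (nat_lit 0) (nat_lit 411267944875) (nat_lit 5) (nat_lit 5) (nat_lit 7) (nat_lit 4) (nat_lit 5) (nat_lit 4) (nat_lit 352) (nat_lit 300) (nat_lit 128)))) (XT.nd (nat_lit 156) (nat_lit 0) (nat_lit 0) (XT.nd (nat_lit 78) (nat_lit 76) (nat_lit 0) (XT.lf (nat_lit 0) (nat_lit 927568847329) (nat_lit 152) (nat_lit 170978703562) (nat_lit 0) (nat_lit 582419419970) (nat_lit 5) (nat_lit 5) (nat_lit 7) (nat_lit 4) (nat_lit 5) (nat_lit 4) (nat_lit 353) (nat_lit 300) (nat_lit 127)) (XT.lf (nat_lit 0) (nat_lit 79390614984) (nat_lit 76) (nat_lit 1034931185712) (nat_lit 76) (nat_lit 689781716148) (nat_lit 4) (nat_lit 4) (nat_lit 5) (nat_lit 5) (nat_lit 5) (nat_lit 4) (nat_lit 354) (nat_lit 300) (nat_lit 126))) (XT.nd (nat_lit 78) (nat_lit 0) (nat_lit 0) (XT.lf (nat_lit 0) (nat_lit 359513124913)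 (nat_lit 76) (nat_lit 961176692067) (nat_lit 76) (nat_lit 616027183424) (nat_lit 4) (nat_lit 4) (nat_lit 5) (nat_lit 5) (nat_lit 5) (nat_lit 4) (nat_lit 355) (nat_lit 300) (nat_lit 125)) (XT.lf (nat_lit 0) (nat_lit 662045375938) (nat_lit 76) (nat_lit 881521867046) (nat_lit 76) (nat_lit 536372322219) (nat_lit 4) (nat_lit 4) (nat_lit 5) (nat_lit 5) (nat_lit 5) (nat_lit 4) (nat_lit 356) (nat_lit 300) (nat_lit 124))))) (XT.nd (nat_lit 36348) (nat_lit 0) (nat_lit 2888) (XT.nd (nat_lit 156) (nat_lit 0) (nat_lit 0) (XT.nd (nat_lit 78) (nat_lit 0) (nat_lit 0) (XT.lf (nat_lit 0) (nat_lit 988780151769) (nat_lit 76) (nat_lit 795494682056) (nat_lit 76) (nat_lit 450345103725) (nat_lit 4) (nat_lit 4) (nat_lit 5) (nat_lit 5) (nat_lit 5) (nat_lit 4) (nat_lit 357) (nat_lit 300) (nat_lit 123)) (XT.lf (nat_lit 0) (nat_lit 1341653658486) (nat_lit 76) (nat_lit 702585346372) (nat_lit 76) (nat_lit 357435737019)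 (nat_lit 4) (nat_lit 4) (nat_lit 5) (nat_lit 5) (nat_lit 5) (nat_lit 4) (nat_lit 358) (nat_lit 300) (nat_lit 122))) (XT.nd (nat_lit 36114) (nat_lit 0) (nat_lit 2888) (XT.lf (nat_lit 0) (nat_lit 1722756998350) (nat_lit 76) (nat_lit 602243286152) (nat_lit 76) (nat_lit 257093648075) (nat_lit 4) (nat_lit 4) (nat_lit 5) (nat_lit 5) (nat_lit 5) (nat_lit 4) (nat_lit 359) (nat_lit 300) (nat_lit 121)) (XT.lf (nat_lit 0) (nat_lit 25908464190) (nat_lit 532) (nat_lit 11042195611) (nat_lit 532) (nat_lit 11042195611) (nat_lit 42) (nat_lit 3) (nat_lit 49) (nat_lit 3) (nat_lit 49) (nat_lit 5) (nat_lit 301) (nat_lit 301) (nat_lit 178)))) (XT.nd (nat_lit 156) (nat_lit 0) (nat_lit 76) (XT.nd (nat_lit 78) (nat_lit 0) (nat_lit 76) (XT.lf (nat_lit 76) (nat_lit 21927595736) (nat_lit 0) (nat_lit 32495807727) (nat_lit 532) (nat_lit 45359007730) (nat_lit 43) (nat_lit 5) (nat_lit 42) (nat_lit 3) (nat_lit 49)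 (nat_lit 5) (nat_lit 302) (nat_lit 301) (nat_lit 177)) (XT.lf (nat_lit 0) (nat_lit 58151203478) (nat_lit 456) (nat_lit 33428096602) (nat_lit 532) (nat_lit 12230525379) (nat_lit 43) (nat_lit 5) (nat_lit 49) (nat_lit 5) (nat_lit 50) (nat_lit 5) (nat_lit 303) (nat_lit 301) (nat_lit 176))) (XT.nd (nat_lit 78) (nat_lit 0) (nat_lit 0) (XT.lf (nat_lit 76) (nat_lit 14430171202) (nat_lit 0) (nat_lit 48937550921) (nat_lit 532) (nat_lit 44696473420) (nat_lit 44) (nat_lit 5) (nat_lit 43) (nat_lit 5) (nat_lit 50) (nat_lit 5) (nat_lit 304) (nat_lit 301) (nat_lit 175)) (XT.lf (nat_lit 76) (nat_lit 68017798751) (nat_lit 0) (nat_lit 1897183625) (nat_lit 532) (nat_lit 42670861325) (nat_lit 44) (nat_lit 5) (nat_lit 43) (nat_lit 5) (nat_lit 50) (nat_lit 5) (nat_lit 305) (nat_lit 301) (nat_lit 174)))))) (XT.nd (nat_lit 546) (nat_lit 836) (nat_lit 0) (XT.nd (nat_lit 234) (nat_lit 304) (nat_lit 0) (XT.nd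 (nat_lit 78) (nat_lit 380) (nat_lit 0) (XT.lf (nat_lit 76) (nat_lit 7628199781) (nat_lit 0) (nat_lit 70716964831) (nat_lit 532) (nat_lit 39015329732) (nat_lit 45) (nat_lit 5) (nat_lit 44) (nat_lit 5) (nat_lit 51) (nat_lit 5) (nat_lit 306) (nat_lit 301) (nat_lit 173)) (XT.nd (nat_lit 78) (nat_lit 380) (nat_lit 0) (XT.lf (nat_lit 76) (nat_lit 66482500169) (nat_lit 0) (nat_lit 22233371742) (nat_lit 532) (nat_lit 33699958070) (nat_lit 45) (nat_lit 5) (nat_lit 44) (nat_lit 5) (nat_lit 51) (nat_lit 5) (nat_lit 307) (nat_lit 301) (nat_lit 172)) (XT.lf (nat_lit 0) (nat_lit 1520611922) (nat_lit 456) (nat_lit 99156345075) (nat_lit 532) (nat_lit 27137779425) (nat_lit 39) (nat_lit 5) (nat_lit 45) (nat_lit 5) (nat_lit 46) (nat_lit 5) (nat_lit 308) (nat_lit 301) (nat_lit 171)))) (XT.nd (nat_lit 156) (nat_lit 304) (nat_lit 0) (XT.nd (nat_lit 78) (nat_lit 0) (nat_lit 0) (XT.lf (nat_lit 0) (nat_lit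 66143551147) (nat_lit 456) (nat_lit 49543137589) (nat_lit 532) (nat_lit 17791527383) (nat_lit 39) (nat_lit 5) (nat_lit 45) (nat_lit 5) (nat_lit 46) (nat_lit 5) (nat_lit 309) (nat_lit 301) (nat_lit 170)) (XT.lf (nat_lit 0) (nat_lit 131993945707) (nat_lit 532) (nat_lit 3755990227) (nat_lit 76) (nat_lit 3837099938) (nat_lit 39) (nat_lit 5) (nat_lit 46) (nat_lit 5) (nat_lit 40) (nat_lit 5) (nat_lit 310) (nat_lit 301) (nat_lit 169))) (XT.nd (nat_lit 78) (nat_lit 0) (nat_lit 0) (XT.lf (nat_lit 0) (nat_lit 6222475341) (nat_lit 304) (nat_lit 79138338965) (nat_lit 76) (nat_lit 60579373936) (nat_lit 35) (nat_lit 5) (nat_lit 39) (nat_lit 5) (nat_lit 36) (nat_lit 5) (nat_lit 311) (nat_lit 301) (nat_lit 168)) (XT.lf (nat_lit 0) (nat_lit 20838067856) (nat_lit 304) (nat_lit 9775726594) (nat_lit 76) (nat_lit 122163621159) (nat_lit 35) (nat_lit 5) (nat_lit 39) (nat_lit 5) (nat_lit 36) (nat_lit 5) (nat_lit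 312) (nat_lit 301) (nat_lit 167))))) (XT.nd (nat_lit 312) (nat_lit 380) (nat_lit 0) (XT.nd (nat_lit 156) (nat_lit 228) (nat_lit 0) (XT.nd (nat_lit 78) (nat_lit 0) (nat_lit 0) (XT.lf (nat_lit 0) (nat_lit 39000146963) (nat_lit 304) (nat_lit 92192833356) (nat_lit 76) (nat_lit 28778462748) (nat_lit 32) (nat_lit 5) (nat_lit 36) (nat_lit 5) (nat_lit 33) (nat_lit 5) (nat_lit 313) (nat_lit 301) (nat_lit 166)) (XT.lf (nat_lit 0) (nat_lit 59684269016) (nat_lit 304) (nat_lit 16428838222) (nat_lit 76) (nat_lit 91542360317) (nat_lit 32) (nat_lit 5) (nat_lit 36) (nat_lit 5) (nat_lit 33) (nat_lit 5) (nat_lit 314) (nat_lit 301) (nat_lit 165))) (XT.nd (nat_lit 78) (nat_lit 0) (nat_lit 0) (XT.lf (nat_lit 0) (nat_lit 68839568373) (nat_lit 228) (nat_lit 14838854023) (nat_lit 304) (nat_lit 92143368375) (nat_lit 29) (nat_lit 5) (nat_lit 32) (nat_lit 5) (nat_lit 33) (nat_lit 5) (nat_lit 315) (nat_lit 301)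 (nat_lit 164)) (XT.lf (nat_lit 0) (nat_lit 111287353754) (nat_lit 304) (nat_lit 23988401129) (nat_lit 76) (nat_lit 49230046127) (nat_lit 29) (nat_lit 5) (nat_lit 33) (nat_lit 5) (nat_lit 30) (nat_lit 5) (nat_lit 316) (nat_lit 301) (nat_lit 163)))) (XT.nd (nat_lit 156) (nat_lit 228) (nat_lit 0) (XT.nd (nat_lit 78) (nat_lit 0) (nat_lit 0) (XT.lf (nat_lit 0) (nat_lit 68695604488) (nat_lit 152) (nat_lit 74446692096) (nat_lit 228) (nat_lit 50579252493) (nat_lit 27) (nat_lit 5) (nat_lit 29) (nat_lit 5) (nat_lit 30) (nat_lit 5) (nat_lit 317) (nat_lit 301) (nat_lit 162)) (XT.lf (nat_lit 0) (nat_lit 170158251585) (nat_lit 152) (nat_lit 8043021355) (nat_lit 228) (nat_lit 25420833709) (nat_lit 27) (nat_lit 5) (nat_lit 29) (nat_lit 5) (nat_lit 30) (nat_lit 5) (nat_lit 318) (nat_lit 301) (nat_lit 161))) (XT.nd (nat_lit 78) (nat_lit 0) (nat_lit 0) (XT.lf (nat_lit 0) (nat_lit 4893097917) (nat_lit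 228) (nat_lit 146930728852) (nat_lit 76) (nat_lit 62229083613) (nat_lit 24) (nat_lit 5) (nat_lit 27) (nat_lit 5) (nat_lit 25) (nat_lit 5) (nat_lit 319) (nat_lit 301) (nat_lit 160)) (XT.lf (nat_lit 0) (nat_lit 37406167533) (nat_lit 228) (nat_lit 48480036412) (nat_lit 76) (nat_lit 139287359819) (nat_lit 24) (nat_lit 5) (nat_lit 27) (nat_lit 5) (nat_lit 25) (nat_lit 5) (nat_lit 320) (nat_lit 301) (nat_lit 159))))))))
noncomputable def xc108 : XT := (XT.nd (nat_lit 2262) (nat_lit 76) (nat_lit 0) (XT.nd (nat_lit 1092) (nat_lit 532) (nat_lit 0) (XT.nd (nat_lit 546) (nat_lit 456) (nat_lit 0) (XT.nd (nat_lit 234) (nat_lit 152) (nat_lit 0) (XT.nd (nat_lit 78) (nat_lit 152) (nat_lit 0) (XT.lf (nat_lit 0) (nat_lit 60892506037) (nat_lit 152) (nat_lit 13092032535) (nat_lit 228) (nat_lit 163082190896) (nat_lit 22) (nat_lit 5) (nat_lit 24) (nat_lit 5) (nat_lit 25) (nat_lit 5) (nat_lit 321) (nat_lit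 301) (nat_lit 158)) (XT.nd (nat_lit 78) (nat_lit 152) (nat_lit 0) (XT.lf (nat_lit 0) (nat_lit 116424828979) (nat_lit 228) (nat_lit 69643977096) (nat_lit 76) (nat_lit 63607690861) (nat_lit 22) (nat_lit 5) (nat_lit 25) (nat_lit 5) (nat_lit 23) (nat_lit 5) (nat_lit 322) (nat_lit 301) (nat_lit 157)) (XT.lf (nat_lit 0) (nat_lit 47441576083) (nat_lit 152) (nat_lit 116299601686) (nat_lit 228) (nat_lit 99435401666) (nat_lit 20) (nat_lit 5) (nat_lit 22) (nat_lit 5) (nat_lit 23) (nat_lit 5) (nat_lit 323) (nat_lit 301) (nat_lit 156)))) (XT.nd (nat_lit 156) (nat_lit 76) (nat_lit 0) (XT.nd (nat_lit 78) (nat_lit 76) (nat_lit 0) (XT.lf (nat_lit 0) (nat_lit 177854415446) (nat_lit 152) (nat_lit 38892427500) (nat_lit 228) (nat_lit 60857505321) (nat_lit 20) (nat_lit 5) (nat_lit 22) (nat_lit 5) (nat_lit 23) (nat_lit 5) (nat_lit 324) (nat_lit 301) (nat_lit 155)) (XT.lf (nat_lit 0) (nat_lit 25725353244)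 (nat_lit 76) (nat_lit 249961345714) (nat_lit 152) (nat_lit 17364141022) (nat_lit 19) (nat_lit 5) (nat_lit 20) (nat_lit 5) (nat_lit 21) (nat_lit 4) (nat_lit 325) (nat_lit 301) (nat_lit 154))) (XT.nd (nat_lit 78) (nat_lit 0) (nat_lit 0) (XT.lf (nat_lit 0) (nat_lit 31935750491) (nat_lit 152) (nat_lit 144396724072) (nat_lit 76) (nat_lit 133038953229) (nat_lit 18) (nat_lit 5) (nat_lit 20) (nat_lit 5) (nat_lit 19) (nat_lit 5) (nat_lit 326) (nat_lit 301) (nat_lit 153)) (XT.lf (nat_lit 0) (nat_lit 84241363069) (nat_lit 152) (nat_lit 12084924094) (nat_lit 76) (nat_lit 230635306889) (nat_lit 18) (nat_lit 5) (nat_lit 20) (nat_lit 5) (nat_lit 19) (nat_lit 5) (nat_lit 327) (nat_lit 301) (nat_lit 152))))) (XT.nd (nat_lit 234) (nat_lit 228) (nat_lit 0) (XT.nd (nat_lit 78) (nat_lit 76) (nat_lit 0) (XT.lf (nat_lit 0) (nat_lit 137699897702) (nat_lit 152) (nat_lit 6343068704) (nat_lit 228) (nat_lit 201651084147)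 (nat_lit 16) (nat_lit 5) (nat_lit 18) (nat_lit 5) (nat_lit 19) (nat_lit 5) (nat_lit 328) (nat_lit 301) (nat_lit 151)) (XT.nd (nat_lit 78) (nat_lit 76) (nat_lit 0) (XT.lf (nat_lit 0) (nat_lit 211152238363) (nat_lit 228) (nat_lit 67937374348) (nat_lit 76) (nat_lit 86633607895) (nat_lit 16) (nat_lit 5) (nat_lit 19) (nat_lit 5) (nat_lit 17) (nat_lit 4) (nat_lit 329) (nat_lit 301) (nat_lit 150)) (XT.lf (nat_lit 0) (nat_lit 87537980634) (nat_lit 76) (nat_lit 198362186632) (nat_lit 152) (nat_lit 101272964022) (nat_lit 15) (nat_lit 5) (nat_lit 16) (nat_lit 5) (nat_lit 17) (nat_lit 4) (nat_lit 330) (nat_lit 301) (nat_lit 149)))) (XT.nd (nat_lit 156) (nat_lit 0) (nat_lit 0) (XT.nd (nat_lit 78) (nat_lit 228) (nat_lit 0) (XT.lf (nat_lit 0) (nat_lit 259314813049) (nat_lit 76) (nat_lit 109170519880) (nat_lit 152) (nat_lit 41705109925) (nat_lit 15) (nat_lit 5) (nat_lit 16) (nat_lit 5) (nat_lit 17)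 (nat_lit 4) (nat_lit 331) (nat_lit 301) (nat_lit 148)) (XT.lf (nat_lit 0) (nat_lit 9726818885) (nat_lit 152) (nat_lit 12003211340) (nat_lit 228) (nat_lit 413256867817) (nat_lit 12) (nat_lit 5) (nat_lit 14) (nat_lit 5) (nat_lit 15) (nat_lit 5) (nat_lit 332) (nat_lit 301) (nat_lit 147))) (XT.nd (nat_lit 78) (nat_lit 0) (nat_lit 0) (XT.lf (nat_lit 0) (nat_lit 94454208976) (nat_lit 228) (nat_lit 273104908396) (nat_lit 76) (nat_lit 93603901557) (nat_lit 12) (nat_lit 5) (nat_lit 15) (nat_lit 5) (nat_lit 13) (nat_lit 4) (nat_lit 333) (nat_lit 301) (nat_lit 146)) (XT.lf (nat_lit 0) (nat_lit 173307985017) (nat_lit 228) (nat_lit 109089283681) (nat_lit 76) (nat_lit 207011027914) (nat_lit 12) (nat_lit 5) (nat_lit 15) (nat_lit 5) (nat_lit 13) (nat_lit 4) (nat_lit 334) (nat_lit 301) (nat_lit 145)))))) (XT.nd (nat_lit 546) (nat_lit 228) (nat_lit 0) (XT.nd (nat_lit 234) (nat_lit 228) (nat_lit 0) (XT.nd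 (nat_lit 78) (nat_lit 0) (nat_lit 0) (XT.lf (nat_lit 0) (nat_lit 71630673338) (nat_lit 76) (nat_lit 188562008541) (nat_lit 152) (nat_lit 259582705283) (nat_lit 11) (nat_lit 5) (nat_lit 12) (nat_lit 5) (nat_lit 13) (nat_lit 4) (nat_lit 335) (nat_lit 301) (nat_lit 144)) (XT.nd (nat_lit 78) (nat_lit 0) (nat_lit 0) (XT.lf (nat_lit 0) (nat_lit 273012061491) (nat_lit 76) (nat_lit 83998690036) (nat_lit 152) (nat_lit 195322485806) (nat_lit 11) (nat_lit 5) (nat_lit 12) (nat_lit 5) (nat_lit 13) (nat_lit 4) (nat_lit 336) (nat_lit 301) (nat_lit 143)) (XT.lf (nat_lit 0) (nat_lit 462269934878) (nat_lit 152) (nat_lit 97687677470) (nat_lit 0) (nat_lit 27482449849) (nat_lit 11) (nat_lit 5) (nat_lit 13) (nat_lit 4) (nat_lit 11) (nat_lit 4) (nat_lit 337) (nat_lit 301) (nat_lit 142)))) (XT.nd (nat_lit 156) (nat_lit 76) (nat_lit 0) (XT.nd (nat_lit 78) (nat_lit 76) (nat_lit 0) (XT.lf (nat_lit 0) (nat_lit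 101365267052) (nat_lit 76) (nat_lit 479204122200) (nat_lit 76) (nat_lit 44416481012) (nat_lit 10) (nat_lit 4) (nat_lit 11) (nat_lit 5) (nat_lit 11) (nat_lit 4) (nat_lit 338) (nat_lit 301) (nat_lit 141)) (XT.lf (nat_lit 0) (nat_lit 43396800128) (nat_lit 152) (nat_lit 344522441513) (nat_lit 76) (nat_lit 277314539427) (nat_lit 9) (nat_lit 5) (nat_lit 11) (nat_lit 5) (nat_lit 10) (nat_lit 4) (nat_lit 339) (nat_lit 301) (nat_lit 140))) (XT.nd (nat_lit 78) (nat_lit 76) (nat_lit 0) (XT.lf (nat_lit 0) (nat_lit 135835421966) (nat_lit 152) (nat_lit 152250241971) (nat_lit 76) (nat_lit 420523573160) (nat_lit 9) (nat_lit 5) (nat_lit 11) (nat_lit 5) (nat_lit 10) (nat_lit 4) (nat_lit 340) (nat_lit 301) (nat_lit 139)) (XT.lf (nat_lit 0) (nat_lit 58321059246) (nat_lit 76) (nat_lit 178750624826) (nat_lit 152) (nat_lit 518270841584) (nat_lit 8) (nat_lit 5) (nat_lit 9) (nat_lit 5) (nat_lit 10) (nat_lit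 4) (nat_lit 341) (nat_lit 301) (nat_lit 138))))) (XT.nd (nat_lit 312) (nat_lit 152) (nat_lit 0) (XT.nd (nat_lit 156) (nat_lit 76) (nat_lit 0) (XT.nd (nat_lit 78) (nat_lit 0) (nat_lit 0) (XT.lf (nat_lit 0) (nat_lit 294396544144) (nat_lit 76) (nat_lit 56173024390) (nat_lit 152) (nat_lit 454911891137) (nat_lit 8) (nat_lit 5) (nat_lit 9) (nat_lit 5) (nat_lit 10) (nat_lit 4) (nat_lit 342) (nat_lit 301) (nat_lit 137)) (XT.lf (nat_lit 0) (nat_lit 474980088831) (nat_lit 152) (nat_lit 312106432977) (nat_lit 0) (nat_lit 72398362268) (nat_lit 8) (nat_lit 5) (nat_lit 10) (nat_lit 4) (nat_lit 8) (nat_lit 4) (nat_lit 343) (nat_lit 301) (nat_lit 136))) (XT.nd (nat_lit 78) (nat_lit 76) (nat_lit 0) (XT.lf (nat_lit 0) (nat_lit 610802429131) (nat_lit 152) (nat_lit 98668823651) (nat_lit 0) (nat_lit 208220611451) (nat_lit 8) (nat_lit 5) (nat_lit 10) (nat_lit 4) (nat_lit 8) (nat_lit 4) (nat_lit 344) (nat_lit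 301) (nat_lit 135)) (XT.lf (nat_lit 0) (nat_lit 138786345594) (nat_lit 76) (nat_lit 622041969331) (nat_lit 76) (nat_lit 219460067283) (nat_lit 7) (nat_lit 4) (nat_lit 8) (nat_lit 5) (nat_lit 8) (nat_lit 4) (nat_lit 345) (nat_lit 301) (nat_lit 134)))) (XT.nd (nat_lit 156) (nat_lit 152) (nat_lit 0) (XT.nd (nat_lit 78) (nat_lit 0) (nat_lit 0) (XT.lf (nat_lit 0) (nat_lit 400849210520) (nat_lit 76) (nat_lit 524704786641) (nat_lit 76) (nat_lit 122122806474) (nat_lit 7) (nat_lit 4) (nat_lit 8) (nat_lit 5) (nat_lit 8) (nat_lit 4) (nat_lit 346) (nat_lit 301) (nat_lit 133)) (XT.lf (nat_lit 0) (nat_lit 683877010852) (nat_lit 76) (nat_lit 419580672272) (nat_lit 76) (nat_lit 16998619773) (nat_lit 7) (nat_lit 4) (nat_lit 8) (nat_lit 5) (nat_lit 8) (nat_lit 4) (nat_lit 347) (nat_lit 301) (nat_lit 132))) (XT.nd (nat_lit 78) (nat_lit 76) (nat_lit 0) (XT.lf (nat_lit 0) (nat_lit 91706356734) (nat_lit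 152) (nat_lit 211832897466) (nat_lit 76) (nat_lit 895333177328) (nat_lit 6) (nat_lit 5) (nat_lit 8) (nat_lit 5) (nat_lit 7) (nat_lit 4) (nat_lit 348) (nat_lit 301) (nat_lit 131)) (XT.lf (nat_lit 0) (nat_lit 32055130743) (nat_lit 76) (nat_lit 176905115520) (nat_lit 152) (nat_lit 1074504611870) (nat_lit 5) (nat_lit 5) (nat_lit 6) (nat_lit 5) (nat_lit 7) (nat_lit 4) (nat_lit 349) (nat_lit 301) (nat_lit 130))))))) (XT.nd (nat_lit 37206) (nat_lit 0) (nat_lit 1520) (XT.nd (nat_lit 546) (nat_lit 0) (nat_lit 0) (XT.nd (nat_lit 234) (nat_lit 76) (nat_lit 0) (XT.nd (nat_lit 78) (nat_lit 0) (nat_lit 0) (XT.lf (nat_lit 0) (nat_lit 307501245075) (nat_lit 76) (nat_lit 33885045299) (nat_lit 152) (nat_lit 1032975041060) (nat_lit 5) (nat_lit 5) (nat_lit 6) (nat_lit 5) (nat_lit 7) (nat_lit 4) (nat_lit 350) (nat_lit 301) (nat_lit 129)) (XT.nd (nat_lit 78) (nat_lit 0) (nat_lit 0) (XT.lf (nat_lit 0) (nat_lit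 487306247866) (nat_lit 152) (nat_lit 870446422066) (nat_lit 0) (nat_lit 114544866318) (nat_lit 5) (nat_lit 5) (nat_lit 7) (nat_lit 4) (nat_lit 5) (nat_lit 4) (nat_lit 351) (nat_lit 301) (nat_lit 128)) (XT.lf (nat_lit 0) (nat_lit 645779895027) (nat_lit 152) (nat_lit 659199867116) (nat_lit 0) (nat_lit 273018467898) (nat_lit 5) (nat_lit 5) (nat_lit 7) (nat_lit 4) (nat_lit 5) (nat_lit 4) (nat_lit 352) (nat_lit 301) (nat_lit 127)))) (XT.nd (nat_lit 156) (nat_lit 76) (nat_lit 0) (XT.nd (nat_lit 78) (nat_lit 0) (nat_lit 0) (XT.lf (nat_lit 0) (nat_lit 816931398798) (nat_lit 152) (nat_lit 431053653918) (nat_lit 0) (nat_lit 444169929464) (nat_lit 5) (nat_lit 5) (nat_lit 7) (nat_lit 4) (nat_lit 5) (nat_lit 4) (nat_lit 353) (nat_lit 301) (nat_lit 126)) (XT.lf (nat_lit 0) (nat_lit 1001774990313) (nat_lit 152) (nat_lit 184655804913) (nat_lit 0) (nat_lit 629013481900) (nat_lit 5) (nat_lit 5) (nat_lit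 7) (nat_lit 4) (nat_lit 5) (nat_lit 4) (nat_lit 354) (nat_lit 301) (nat_lit 125))) (XT.nd (nat_lit 78) (nat_lit 0) (nat_lit 0) (XT.lf (nat_lit 0) (nat_lit 85743028865) (nat_lit 76) (nat_lit 1117725132043) (nat_lit 76) (nat_lit 744963587446) (nat_lit 4) (nat_lit 4) (nat_lit 5) (nat_lit 5) (nat_lit 5) (nat_lit 4) (nat_lit 355) (nat_lit 301) (nat_lit 124)) (XT.lf (nat_lit 0) (nat_lit 388275253316) (nat_lit 76) (nat_lit 1038070319538) (nat_lit 76) (nat_lit 665308741437) (nat_lit 4) (nat_lit 4) (nat_lit 5) (nat_lit 5) (nat_lit 5) (nat_lit 4) (nat_lit 356) (nat_lit 301) (nat_lit 123))))) (XT.nd (nat_lit 36348) (nat_lit 0) (nat_lit 2888) (XT.nd (nat_lit 78) (nat_lit 0) (nat_lit 0) (XT.lf (nat_lit 0) (nat_lit 715010004541) (nat_lit 76) (nat_lit 952043146137) (nat_lit 76) (nat_lit 579281537014) (nat_lit 4) (nat_lit 4) (nat_lit 5) (nat_lit 5) (nat_lit 5) (nat_lit 4) (nat_lit 357) (nat_lit 301)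 (nat_lit 122)) (XT.nd (nat_lit 78) (nat_lit 0) (nat_lit 0) (XT.lf (nat_lit 0) (nat_lit 1067883488473) (nat_lit 76) (nat_lit 859133821183) (nat_lit 76) (nat_lit 486372183336) (nat_lit 4) (nat_lit 4) (nat_lit 5) (nat_lit 5) (nat_lit 5) (nat_lit 4) (nat_lit 358) (nat_lit 301) (nat_lit 121)) (XT.lf (nat_lit 0) (nat_lit 1448986807241) (nat_lit 76) (nat_lit 758791770899) (nat_lit 76) (nat_lit 386030106455) (nat_lit 4) (nat_lit 4) (nat_lit 5) (nat_lit 5) (nat_lit 5) (nat_lit 4) (nat_lit 359) (nat_lit 301) (nat_lit 120)))) (XT.nd (nat_lit 156) (nat_lit 0) (nat_lit 76) (XT.nd (nat_lit 78) (nat_lit 0) (nat_lit 0) (XT.lf (nat_lit 0) (nat_lit 27987425216) (nat_lit 532) (nat_lit 11922166135) (nat_lit 532) (nat_lit 11922166135) (nat_lit 42) (nat_lit 3) (nat_lit 49) (nat_lit 3) (nat_lit 49) (nat_lit 5) (nat_lit 302) (nat_lit 302) (nat_lit 176)) (XT.lf (nat_lit 76) (nat_lit 23688441232) (nat_lit 0)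 (nat_lit 35100630983) (nat_lit 532) (nat_lit 48974944365) (nat_lit 43) (nat_lit 5) (nat_lit 42) (nat_lit 3) (nat_lit 49) (nat_lit 5) (nat_lit 303) (nat_lit 302) (nat_lit 175))) (XT.nd (nat_lit 78) (nat_lit 0) (nat_lit 0) (XT.lf (nat_lit 0) (nat_lit 62814107544) (nat_lit 456) (nat_lit 36095168950) (nat_lit 532) (nat_lit 13204429834) (nat_lit 43) (nat_lit 5) (nat_lit 49) (nat_lit 5) (nat_lit 50) (nat_lit 5) (nat_lit 304) (nat_lit 302) (nat_lit 174)) (XT.lf (nat_lit 76) (nat_lit 15591578623) (nat_lit 0) (nat_lit 52855736679) (nat_lit 532) (nat_lit 48261164309) (nat_lit 44) (nat_lit 5) (nat_lit 43) (nat_lit 5) (nat_lit 50) (nat_lit 5) (nat_lit 305) (nat_lit 302) (nat_lit 173)))))) (XT.nd (nat_lit 546) (nat_lit 836) (nat_lit 0) (XT.nd (nat_lit 234) (nat_lit 608) (nat_lit 0) (XT.nd (nat_lit 78) (nat_lit 0) (nat_lit 76) (XT.lf (nat_lit 76) (nat_lit 73465698323) (nat_lit 0) (nat_lit 2051904319)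 (nat_lit 532) (nat_lit 46074320060) (nat_lit 44) (nat_lit 5) (nat_lit 43) (nat_lit 5) (nat_lit 50) (nat_lit 5) (nat_lit 306) (nat_lit 302) (nat_lit 172)) (XT.nd (nat_lit 78) (nat_lit 0) (nat_lit 0) (XT.lf (nat_lit 76) (nat_lit 8245605086) (nat_lit 0) (nat_lit 76376002808) (nat_lit 532) (nat_lit 42126987403) (nat_lit 45) (nat_lit 5) (nat_lit 44) (nat_lit 5) (nat_lit 51) (nat_lit 5) (nat_lit 307) (nat_lit 302) (nat_lit 171)) (XT.lf (nat_lit 76) (nat_lit 71807719926) (nat_lit 0) (nat_lit 24013597768) (nat_lit 532) (nat_lit 36387094801) (nat_lit 45) (nat_lit 5) (nat_lit 44) (nat_lit 5) (nat_lit 51) (nat_lit 5) (nat_lit 308) (nat_lit 302) (nat_lit 170)))) (XT.nd (nat_lit 156) (nat_lit 304) (nat_lit 0) (XT.nd (nat_lit 78) (nat_lit 0) (nat_lit 0) (XT.lf (nat_lit 0) (nat_lit 1649416083) (nat_lit 456) (nat_lit 107089405299) (nat_lit 532) (nat_lit 29300449734) (nat_lit 39) (nat_lit 5) (nat_lit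 45) (nat_lit 5) (nat_lit 46) (nat_lit 5) (nat_lit 309) (nat_lit 302) (nat_lit 169)) (XT.lf (nat_lit 0) (nat_lit 71441660431) (nat_lit 456) (nat_lit 53507100279) (nat_lit 532) (nat_lit 19207116199) (nat_lit 39) (nat_lit 5) (nat_lit 45) (nat_lit 5) (nat_lit 46) (nat_lit 5) (nat_lit 310) (nat_lit 302) (nat_lit 168))) (XT.nd (nat_lit 78) (nat_lit 304) (nat_lit 0) (XT.lf (nat_lit 0) (nat_lit 142560058186) (nat_lit 532) (nat_lit 4049771298) (nat_lit 76) (nat_lit 4143617853) (nat_lit 39) (nat_lit 5) (nat_lit 46) (nat_lit 5) (nat_lit 40) (nat_lit 5) (nat_lit 311) (nat_lit 302) (nat_lit 167)) (XT.lf (nat_lit 0) (nat_lit 6726722092) (nat_lit 304) (nat_lit 85462517647) (nat_lit 76) (nat_lit 65425627382) (nat_lit 35) (nat_lit 5) (nat_lit 39) (nat_lit 5) (nat_lit 36) (nat_lit 5) (nat_lit 312) (nat_lit 302) (nat_lit 166))))) (XT.nd (nat_lit 312) (nat_lit 380) (nat_lit 0) (XT.nd (nat_lit 156) (nat_lit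 228) (nat_lit 0) (XT.nd (nat_lit 78) (nat_lit 228) (nat_lit 0) (XT.lf (nat_lit 0) (nat_lit 22511084325) (nat_lit 304) (nat_lit 10551406540) (nat_lit 76) (nat_lit 131936621528) (nat_lit 35) (nat_lit 5) (nat_lit 39) (nat_lit 5) (nat_lit 36) (nat_lit 5) (nat_lit 313) (nat_lit 302) (nat_lit 165)) (XT.lf (nat_lit 0) (nat_lit 42125849923) (nat_lit 304) (nat_lit 99561584617) (nat_lit 76) (nat_lit 31081251287) (nat_lit 32) (nat_lit 5) (nat_lit 36) (nat_lit 5) (nat_lit 33) (nat_lit 5) (nat_lit 314) (nat_lit 302) (nat_lit 164))) (XT.nd (nat_lit 78) (nat_lit 228) (nat_lit 0) (XT.lf (nat_lit 0) (nat_lit 64464280170) (nat_lit 304) (nat_lit 17736964347) (nat_lit 76) (nat_lit 98866222771) (nat_lit 32) (nat_lit 5) (nat_lit 36) (nat_lit 5) (nat_lit 33) (nat_lit 5) (nat_lit 315) (nat_lit 302) (nat_lit 163)) (XT.lf (nat_lit 0) (nat_lit 74352758296) (nat_lit 228) (nat_lit 16024962068) (nat_lit 304) (nat_lit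 99509396825) (nat_lit 29) (nat_lit 5) (nat_lit 32) (nat_lit 5) (nat_lit 33) (nat_lit 5) (nat_lit 316) (nat_lit 302) (nat_lit 162)))) (XT.nd (nat_lit 156) (nat_lit 228) (nat_lit 0) (XT.nd (nat_lit 78) (nat_lit 152) (nat_lit 0) (XT.lf (nat_lit 0) (nat_lit 120195016345) (nat_lit 304) (nat_lit 25901531331) (nat_lit 76) (nat_lit 53169329668) (nat_lit 29) (nat_lit 5) (nat_lit 33) (nat_lit 5) (nat_lit 30) (nat_lit 5) (nat_lit 317) (nat_lit 302) (nat_lit 161)) (XT.lf (nat_lit 0) (nat_lit 74197044309) (nat_lit 152) (nat_lit 80401103334) (nat_lit 228) (nat_lit 54620755192) (nat_lit 27) (nat_lit 5) (nat_lit 29) (nat_lit 5) (nat_lit 30) (nat_lit 5) (nat_lit 318) (nat_lit 302) (nat_lit 160))) (XT.nd (nat_lit 78) (nat_lit 228) (nat_lit 0) (XT.lf (nat_lit 0) (nat_lit 183776274176) (nat_lit 152) (nat_lit 8685237018) (nat_lit 228) (nat_lit 27450021239) (nat_lit 27) (nat_lit 5) (nat_lit 29) (nat_lit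 5) (nat_lit 30) (nat_lit 5) (nat_lit 319) (nat_lit 302) (nat_lit 159)) (XT.lf (nat_lit 0) (nat_lit 5288650172) (nat_lit 228) (nat_lit 158679428845) (nat_lit 76) (nat_lit 67208725696) (nat_lit 24) (nat_lit 5) (nat_lit 27) (nat_lit 5) (nat_lit 25) (nat_lit 5) (nat_lit 320) (nat_lit 302) (nat_lit 158))))))))
noncomputable def xc109 : XT := (XT.nd (nat_lit 2262) (nat_lit 152) (nat_lit 0) (XT.nd (nat_lit 1092) (nat_lit 456) (nat_lit 0) (XT.nd (nat_lit 546) (nat_lit 456) (nat_lit 0) (XT.nd (nat_lit 234) (nat_lit 304) (nat_lit 0) (XT.nd (nat_lit 78) (nat_lit 152) (nat_lit 0) (XT.lf (nat_lit 0) (nat_lit 40402461325) (nat_lit 228) (nat_lit 52353107552) (nat_lit 76) (nat_lit 150431566562) (nat_lit 24) (nat_lit 5) (nat_lit 27) (nat_lit 5) (nat_lit 25) (nat_lit 5) (nat_lit 321) (nat_lit 302) (nat_lit 157)) (XT.nd (nat_lit 78) (nat_lit 0) (nat_lit 0) (XT.lf (nat_lit 0) (nat_lit 65769103312) (nat_lit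 152) (nat_lit 14137842209) (nat_lit 228) (nat_lit 176124822097) (nat_lit 22) (nat_lit 5) (nat_lit 24) (nat_lit 5) (nat_lit 25) (nat_lit 5) (nat_lit 322) (nat_lit 302) (nat_lit 156)) (XT.lf (nat_lit 0) (nat_lit 125742223825) (nat_lit 228) (nat_lit 75210440031) (nat_lit 76) (nat_lit 68697672098) (nat_lit 22) (nat_lit 5) (nat_lit 25) (nat_lit 5) (nat_lit 23) (nat_lit 5) (nat_lit 323) (nat_lit 302) (nat_lit 155)))) (XT.nd (nat_lit 156) (nat_lit 152) (nat_lit 0) (XT.nd (nat_lit 78) (nat_lit 0) (nat_lit 0) (XT.lf (nat_lit 0) (nat_lit 51241829422) (nat_lit 152) (nat_lit 125601917113) (nat_lit 228) (nat_lit 107386689832) (nat_lit 20) (nat_lit 5) (nat_lit 22) (nat_lit 5) (nat_lit 23) (nat_lit 5) (nat_lit 324) (nat_lit 302) (nat_lit 154)) (XT.lf (nat_lit 0) (nat_lit 192087330952) (nat_lit 152) (nat_lit 42002291415) (nat_lit 228) (nat_lit 65722824296) (nat_lit 20) (nat_lit 5) (nat_lit 22) (nat_lit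 5) (nat_lit 23) (nat_lit 5) (nat_lit 325) (nat_lit 302) (nat_lit 153))) (XT.nd (nat_lit 78) (nat_lit 76) (nat_lit 0) (XT.lf (nat_lit 0) (nat_lit 27788035551) (nat_lit 76) (nat_lit 269956552725) (nat_lit 152) (nat_lit 18750076235) (nat_lit 19) (nat_lit 5) (nat_lit 20) (nat_lit 5) (nat_lit 21) (nat_lit 4) (nat_lit 326) (nat_lit 302) (nat_lit 152)) (XT.lf (nat_lit 0) (nat_lit 34493421815) (nat_lit 152) (nat_lit 155943999175) (nat_lit 76) (nat_lit 143683490641) (nat_lit 18) (nat_lit 5) (nat_lit 20) (nat_lit 5) (nat_lit 19) (nat_lit 5) (nat_lit 327) (nat_lit 302) (nat_lit 151))))) (XT.nd (nat_lit 234) (nat_lit 304) (nat_lit 0) (XT.nd (nat_lit 78) (nat_lit 152) (nat_lit 0) (XT.lf (nat_lit 0) (nat_lit 90983275156) (nat_lit 152) (nat_lit 13047585778) (nat_lit 76) (nat_lit 249087447322) (nat_lit 18) (nat_lit 5) (nat_lit 20) (nat_lit 5) (nat_lit 19) (nat_lit 5) (nat_lit 328) (nat_lit 302) (nat_lit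 150)) (XT.nd (nat_lit 78) (nat_lit 0) (nat_lit 0) (XT.lf (nat_lit 0) (nat_lit 148719917148) (nat_lit 152) (nat_lit 6848993659) (nat_lit 228) (nat_lit 217780458523) (nat_lit 16) (nat_lit 5) (nat_lit 18) (nat_lit 5) (nat_lit 19) (nat_lit 5) (nat_lit 329) (nat_lit 302) (nat_lit 149)) (XT.lf (nat_lit 0) (nat_lit 228046772670) (nat_lit 228) (nat_lit 73368478808) (nat_lit 76) (nat_lit 93565634005) (nat_lit 16) (nat_lit 5) (nat_lit 19) (nat_lit 5) (nat_lit 17) (nat_lit 4) (nat_lit 330) (nat_lit 302) (nat_lit 148)))) (XT.nd (nat_lit 156) (nat_lit 228) (nat_lit 0) (XT.nd (nat_lit 78) (nat_lit 0) (nat_lit 0) (XT.lf (nat_lit 0) (nat_lit 94544806207) (nat_lit 76) (nat_lit 214229646297) (nat_lit 152) (nat_lit 109372343510) (nat_lit 15) (nat_lit 5) (nat_lit 16) (nat_lit 5) (nat_lit 17) (nat_lit 4) (nat_lit 331) (nat_lit 302) (nat_lit 147)) (XT.lf (nat_lit 0) (nat_lit 280063504687) (nat_lit 76) (nat_lit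 117902758447) (nat_lit 152) (nat_lit 45039243131) (nat_lit 15) (nat_lit 5) (nat_lit 16) (nat_lit 5) (nat_lit 17) (nat_lit 4) (nat_lit 332) (nat_lit 302) (nat_lit 146))) (XT.nd (nat_lit 78) (nat_lit 0) (nat_lit 0) (XT.lf (nat_lit 0) (nat_lit 10508496534) (nat_lit 152) (nat_lit 12962022680) (nat_lit 228) (nat_lit 446315160546) (nat_lit 12) (nat_lit 5) (nat_lit 14) (nat_lit 5) (nat_lit 15) (nat_lit 5) (nat_lit 333) (nat_lit 302) (nat_lit 145)) (XT.lf (nat_lit 0) (nat_lit 102012509896) (nat_lit 228) (nat_lit 294949905237) (nat_lit 76) (nat_lit 101093485213) (nat_lit 12) (nat_lit 5) (nat_lit 15) (nat_lit 5) (nat_lit 13) (nat_lit 4) (nat_lit 334) (nat_lit 302) (nat_lit 144)))))) (XT.nd (nat_lit 546) (nat_lit 228) (nat_lit 0) (XT.nd (nat_lit 234) (nat_lit 152) (nat_lit 0) (XT.nd (nat_lit 78) (nat_lit 76) (nat_lit 0) (XT.lf (nat_lit 0) (nat_lit 187174442523) (nat_lit 228) (nat_lit 117813282087)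 (nat_lit 76) (nat_lit 223573087491) (nat_lit 12) (nat_lit 5) (nat_lit 15) (nat_lit 5) (nat_lit 13) (nat_lit 4) (nat_lit 335) (nat_lit 302) (nat_lit 143)) (XT.nd (nat_lit 78) (nat_lit 0) (nat_lit 0) (XT.lf (nat_lit 0) (nat_lit 77364191891) (nat_lit 76) (nat_lit 203645662230) (nat_lit 152) (nat_lit 280347420859) (nat_lit 11) (nat_lit 5) (nat_lit 12) (nat_lit 5) (nat_lit 13) (nat_lit 4) (nat_lit 336) (nat_lit 302) (nat_lit 142)) (XT.lf (nat_lit 0) (nat_lit 294855864082) (nat_lit 76) (nat_lit 90717375060) (nat_lit 152) (nat_lit 210946524627) (nat_lit 11) (nat_lit 5) (nat_lit 12) (nat_lit 5) (nat_lit 13) (nat_lit 4) (nat_lit 337) (nat_lit 302) (nat_lit 141)))) (XT.nd (nat_lit 156) (nat_lit 76) (nat_lit 0) (XT.nd (nat_lit 78) (nat_lit 76) (nat_lit 0) (XT.lf (nat_lit 0) (nat_lit 499253063555) (nat_lit 152) (nat_lit 105499968411) (nat_lit 0) (nat_lit 29682110320) (nat_lit 11) (nat_lit 5) (nat_lit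 13) (nat_lit 4) (nat_lit 11) (nat_lit 4) (nat_lit 338) (nat_lit 302) (nat_lit 140)) (XT.lf (nat_lit 0) (nat_lit 109477142729) (nat_lit 76) (nat_lit 517539281764) (nat_lit 76) (nat_lit 47968194647) (nat_lit 10) (nat_lit 4) (nat_lit 11) (nat_lit 5) (nat_lit 11) (nat_lit 4) (nat_lit 339) (nat_lit 302) (nat_lit 139))) (XT.nd (nat_lit 78) (nat_lit 0) (nat_lit 0) (XT.lf (nat_lit 0) (nat_lit 46869955772) (nat_lit 152) (nat_lit 372081703074) (nat_lit 76) (nat_lit 299500710049) (nat_lit 9) (nat_lit 5) (nat_lit 11) (nat_lit 5) (nat_lit 10) (nat_lit 4) (nat_lit 340) (nat_lit 302) (nat_lit 138)) (XT.lf (nat_lit 0) (nat_lit 146703562792) (nat_lit 152) (nat_lit 164427915254) (nat_lit 76) (nat_lit 454166391854) (nat_lit 9) (nat_lit 5) (nat_lit 11) (nat_lit 5) (nat_lit 10) (nat_lit 4) (nat_lit 341) (nat_lit 302) (nat_lit 137))))) (XT.nd (nat_lit 312) (nat_lit 152) (nat_lit 0) (XT.nd (nat_lit 156) (nat_lit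 0) (nat_lit 0) (XT.nd (nat_lit 78) (nat_lit 0) (nat_lit 0) (XT.lf (nat_lit 0) (nat_lit 62989030666) (nat_lit 76) (nat_lit 193049653376) (nat_lit 152) (nat_lit 559731140966) (nat_lit 8) (nat_lit 5) (nat_lit 9) (nat_lit 5) (nat_lit 10) (nat_lit 4) (nat_lit 342) (nat_lit 302) (nat_lit 136)) (XT.lf (nat_lit 0) (nat_lit 317950384971) (nat_lit 76) (nat_lit 60665920567) (nat_lit 152) (nat_lit 491303575813) (nat_lit 8) (nat_lit 5) (nat_lit 9) (nat_lit 5) (nat_lit 10) (nat_lit 4) (nat_lit 343) (nat_lit 302) (nat_lit 135))) (XT.nd (nat_lit 78) (nat_lit 0) (nat_lit 0) (XT.lf (nat_lit 0) (nat_lit 512979601740) (nat_lit 152) (nat_lit 337072920167) (nat_lit 0) (nat_lit 78191063160) (nat_lit 8) (nat_lit 5) (nat_lit 10) (nat_lit 4) (nat_lit 8) (nat_lit 4) (nat_lit 344) (nat_lit 302) (nat_lit 134)) (XT.lf (nat_lit 0) (nat_lit 659667647354) (nat_lit 152) (nat_lit 106560452277) (nat_lit 0) (nat_lit 224879030655)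 (nat_lit 8) (nat_lit 5) (nat_lit 10) (nat_lit 4) (nat_lit 8) (nat_lit 4) (nat_lit 345) (nat_lit 302) (nat_lit 133)))) (XT.nd (nat_lit 156) (nat_lit 76) (nat_lit 0) (XT.nd (nat_lit 78) (nat_lit 0) (nat_lit 0) (XT.lf (nat_lit 0) (nat_lit 149891082982) (nat_lit 76) (nat_lit 671804489190) (nat_lit 76) (nat_lit 237015800159) (nat_lit 7) (nat_lit 4) (nat_lit 8) (nat_lit 5) (nat_lit 8) (nat_lit 4) (nat_lit 346) (nat_lit 302) (nat_lit 132)) (XT.lf (nat_lit 0) (nat_lit 432918841566) (nat_lit 76) (nat_lit 566680393935) (nat_lit 76) (nat_lit 131891637930) (nat_lit 7) (nat_lit 4) (nat_lit 8) (nat_lit 5) (nat_lit 8) (nat_lit 4) (nat_lit 347) (nat_lit 302) (nat_lit 131))) (XT.nd (nat_lit 78) (nat_lit 76) (nat_lit 0) (XT.lf (nat_lit 0) (nat_lit 738588740429) (nat_lit 76) (nat_lit 453146407872) (nat_lit 76) (nat_lit 18357589853) (nat_lit 7) (nat_lit 4) (nat_lit 8) (nat_lit 5) (nat_lit 8) (nat_lit 4)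 (nat_lit 348) (nat_lit 302) (nat_lit 130)) (XT.lf (nat_lit 0) (nat_lit 99043674072) (nat_lit 152) (nat_lit 228778033365) (nat_lit 76) (nat_lit 966960453107) (nat_lit 6) (nat_lit 5) (nat_lit 8) (nat_lit 5) (nat_lit 7) (nat_lit 4) (nat_lit 349) (nat_lit 302) (nat_lit 129))))))) (XT.nd (nat_lit 37362) (nat_lit 0) (nat_lit 1520) (XT.nd (nat_lit 546) (nat_lit 0) (nat_lit 0) (XT.nd (nat_lit 234) (nat_lit 76) (nat_lit 0) (XT.nd (nat_lit 78) (nat_lit 0) (nat_lit 0) (XT.lf (nat_lit 0) (nat_lit 34620999229) (nat_lit 76) (nat_lit 191056850690) (nat_lit 152) (nat_lit 1160464133407) (nat_lit 5) (nat_lit 5) (nat_lit 6) (nat_lit 5) (nat_lit 7) (nat_lit 4) (nat_lit 350) (nat_lit 302) (nat_lit 128)) (XT.nd (nat_lit 78) (nat_lit 0) (nat_lit 0) (XT.lf (nat_lit 0) (nat_lit 332102694706) (nat_lit 76) (nat_lit 36595224782) (nat_lit 152) (nat_lit 1115612259704) (nat_lit 5) (nat_lit 5) (nat_lit 6) (nat_lit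 5) (nat_lit 7) (nat_lit 4) (nat_lit 351) (nat_lit 302) (nat_lit 127)) (XT.lf (nat_lit 0) (nat_lit 526291433709) (nat_lit 152) (nat_lit 940080845303) (nat_lit 0) (nat_lit 123709004623) (nat_lit 5) (nat_lit 5) (nat_lit 7) (nat_lit 4) (nat_lit 5) (nat_lit 4) (nat_lit 352) (nat_lit 302) (nat_lit 126)))) (XT.nd (nat_lit 156) (nat_lit 76) (nat_lit 0) (XT.nd (nat_lit 78) (nat_lit 0) (nat_lit 0) (XT.lf (nat_lit 0) (nat_lit 697442921827) (nat_lit 152) (nat_lit 711934661551) (nat_lit 0) (nat_lit 294860453662) (nat_lit 5) (nat_lit 5) (nat_lit 7) (nat_lit 4) (nat_lit 5) (nat_lit 4) (nat_lit 353) (nat_lit 302) (nat_lit 125)) (XT.lf (nat_lit 0) (nat_lit 882286498848) (nat_lit 152) (nat_lit 465536839811) (nat_lit 0) (nat_lit 479703994499) (nat_lit 5) (nat_lit 5) (nat_lit 7) (nat_lit 4) (nat_lit 5) (nat_lit 4) (nat_lit 354) (nat_lit 302) (nat_lit 124))) (XT.nd (nat_lit 78) (nat_lit 76) (nat_lit 0)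 (XT.lf (nat_lit 0) (nat_lit 1081917534118) (nat_lit 152) (nat_lit 199427244843) (nat_lit 0) (nat_lit 679334996265) (nat_lit 5) (nat_lit 5) (nat_lit 7) (nat_lit 4) (nat_lit 5) (nat_lit 4) (nat_lit 355) (nat_lit 302) (nat_lit 123)) (XT.lf (nat_lit 0) (nat_lit 92603469702) (nat_lit 76) (nat_lit 1207142672334) (nat_lit 76) (nat_lit 804560103459) (nat_lit 4) (nat_lit 4) (nat_lit 5) (nat_lit 5) (nat_lit 5) (nat_lit 4) (nat_lit 356) (nat_lit 302) (nat_lit 122))))) (XT.nd (nat_lit 36504) (nat_lit 0) (nat_lit 2888) (XT.nd (nat_lit 156) (nat_lit 0) (nat_lit 0) (XT.nd (nat_lit 78) (nat_lit 0) (nat_lit 0) (XT.lf (nat_lit 0) (nat_lit 419338198144) (nat_lit 76) (nat_lit 1121115509663) (nat_lit 76) (nat_lit 718532912064) (nat_lit 4) (nat_lit 4) (nat_lit 5) (nat_lit 5) (nat_lit 5) (nat_lit 4) (nat_lit 357) (nat_lit 302) (nat_lit 121)) (XT.lf (nat_lit 0) (nat_lit 772211660980) (nat_lit 76) (nat_lit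 1028206194645) (nat_lit 76) (nat_lit 625623570450) (nat_lit 4) (nat_lit 4) (nat_lit 5) (nat_lit 5) (nat_lit 5) (nat_lit 4) (nat_lit 358) (nat_lit 302) (nat_lit 120))) (XT.nd (nat_lit 36270) (nat_lit 0) (nat_lit 2888) (XT.lf (nat_lit 0) (nat_lit 1153314960215) (nat_lit 76) (nat_lit 927864153560) (nat_lit 76) (nat_lit 525281504738) (nat_lit 4) (nat_lit 4) (nat_lit 5) (nat_lit 5) (nat_lit 5) (nat_lit 4) (nat_lit 359) (nat_lit 302) (nat_lit 119)) (XT.lf (nat_lit 0) (nat_lit 30231806657) (nat_lit 532) (nat_lit 12873020081) (nat_lit 532) (nat_lit 12873020081) (nat_lit 42) (nat_lit 3) (nat_lit 49) (nat_lit 3) (nat_lit 49) (nat_lit 5) (nat_lit 303) (nat_lit 303) (nat_lit 174)))) (XT.nd (nat_lit 156) (nat_lit 0) (nat_lit 76) (XT.nd (nat_lit 78) (nat_lit 0) (nat_lit 76) (XT.lf (nat_lit 76) (nat_lit 25589207407) (nat_lit 0) (nat_lit 37913104162) (nat_lit 532) (nat_lit 52881979709) (nat_lit 43)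 (nat_lit 5) (nat_lit 42) (nat_lit 3) (nat_lit 49) (nat_lit 5) (nat_lit 304) (nat_lit 303) (nat_lit 173)) (XT.lf (nat_lit 0) (nat_lit 67848502083) (nat_lit 456) (nat_lit 38976630734) (nat_lit 532) (nat_lit 14256893980) (nat_lit 43) (nat_lit 5) (nat_lit 49) (nat_lit 5) (nat_lit 50) (nat_lit 5) (nat_lit 305) (nat_lit 303) (nat_lit 172))) (XT.nd (nat_lit 78) (nat_lit 0) (nat_lit 0) (XT.lf (nat_lit 76) (nat_lit 16844900906) (nat_lit 0) (nat_lit 57086923395) (nat_lit 532) (nat_lit 52112603591) (nat_lit 44) (nat_lit 5) (nat_lit 43) (nat_lit 5) (nat_lit 50) (nat_lit 5) (nat_lit 306) (nat_lit 303) (nat_lit 171)) (XT.lf (nat_lit 76) (nat_lit 79348506034) (nat_lit 0) (nat_lit 2218582388) (nat_lit 532) (nat_lit 49751512088) (nat_lit 44) (nat_lit 5) (nat_lit 43) (nat_lit 5) (nat_lit 50) (nat_lit 5) (nat_lit 307) (nat_lit 303) (nat_lit 170)))))) (XT.nd (nat_lit 546) (nat_lit 836) (nat_lit 0) (XT.nd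 (nat_lit 234) (nat_lit 304) (nat_lit 0) (XT.nd (nat_lit 78) (nat_lit 380) (nat_lit 0) (XT.lf (nat_lit 76) (nat_lit 8911382884) (nat_lit 0) (nat_lit 82487524039) (nat_lit 532) (nat_lit 45488942770) (nat_lit 45) (nat_lit 5) (nat_lit 44) (nat_lit 5) (nat_lit 51) (nat_lit 5) (nat_lit 308) (nat_lit 303) (nat_lit 169)) (XT.nd (nat_lit 78) (nat_lit 380) (nat_lit 0) (XT.lf (nat_lit 76) (nat_lit 77558012882) (nat_lit 0) (nat_lit 25936019855) (nat_lit 532) (nat_lit 39290466436) (nat_lit 45) (nat_lit 5) (nat_lit 44) (nat_lit 5) (nat_lit 51) (nat_lit 5) (nat_lit 309) (nat_lit 303) (nat_lit 168)) (XT.lf (nat_lit 0) (nat_lit 1787503807) (nat_lit 456) (nat_lit 115657031503) (nat_lit 532) (nat_lit 31637325180) (nat_lit 39) (nat_lit 5) (nat_lit 45) (nat_lit 5) (nat_lit 46) (nat_lit 5) (nat_lit 310) (nat_lit 303) (nat_lit 167)))) (XT.nd (nat_lit 156) (nat_lit 304) (nat_lit 0) (XT.nd (nat_lit 78) (nat_lit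 0) (nat_lit 0) (XT.lf (nat_lit 0) (nat_lit 77162673300) (nat_lit 456) (nat_lit 57788106987) (nat_lit 532) (nat_lit 20737055372) (nat_lit 39) (nat_lit 5) (nat_lit 45) (nat_lit 5) (nat_lit 46) (nat_lit 5) (nat_lit 311) (nat_lit 303) (nat_lit 166)) (XT.lf (nat_lit 0) (nat_lit 153970518553) (nat_lit 532) (nat_lit 4368010420) (nat_lit 76) (nat_lit 4474721410) (nat_lit 39) (nat_lit 5) (nat_lit 46) (nat_lit 5) (nat_lit 40) (nat_lit 5) (nat_lit 312) (nat_lit 303) (nat_lit 165))) (XT.nd (nat_lit 78) (nat_lit 0) (nat_lit 0) (XT.lf (nat_lit 0) (nat_lit 7270388601) (nat_lit 304) (nat_lit 92293613336) (nat_lit 76) (nat_lit 70659594865) (nat_lit 35) (nat_lit 5) (nat_lit 39) (nat_lit 5) (nat_lit 36) (nat_lit 5) (nat_lit 313) (nat_lit 303) (nat_lit 164)) (XT.lf (nat_lit 0) (nat_lit 24317090275) (nat_lit 304) (nat_lit 11390050802) (nat_lit 76) (nat_lit 142491474670) (nat_lit 35) (nat_lit 5) (nat_lit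 39) (nat_lit 5) (nat_lit 36) (nat_lit 5) (nat_lit 314) (nat_lit 303) (nat_lit 163))))) (XT.nd (nat_lit 312) (nat_lit 380) (nat_lit 0) (XT.nd (nat_lit 156) (nat_lit 228) (nat_lit 0) (XT.nd (nat_lit 78) (nat_lit 0) (nat_lit 0) (XT.lf (nat_lit 0) (nat_lit 45500797206) (nat_lit 304) (nat_lit 107520788300) (nat_lit 76) (nat_lit 33568189935) (nat_lit 32) (nat_lit 5) (nat_lit 36) (nat_lit 5) (nat_lit 33) (nat_lit 5) (nat_lit 315) (nat_lit 303) (nat_lit 162)) (XT.lf (nat_lit 0) (nat_lit 69625940444) (nat_lit 304) (nat_lit 19150622341) (nat_lit 76) (nat_lit 106775926653) (nat_lit 32) (nat_lit 5) (nat_lit 36) (nat_lit 5) (nat_lit 33) (nat_lit 5) (nat_lit 316) (nat_lit 303) (nat_lit 161))) (XT.nd (nat_lit 78) (nat_lit 0) (nat_lit 0) (XT.lf (nat_lit 0) (nat_lit 80306143958) (nat_lit 228) (nat_lit 17306101458) (nat_lit 304) (nat_lit 107465483773) (nat_lit 29) (nat_lit 5) (nat_lit 32) (nat_lit 5)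 (nat_lit 33) (nat_lit 5) (nat_lit 317) (nat_lit 303) (nat_lit 160)) (XT.lf (nat_lit 0) (nat_lit 129814625104) (nat_lit 304) (nat_lit 27968559625) (nat_lit 76) (nat_lit 57423630371) (nat_lit 29) (nat_lit 5) (nat_lit 33) (nat_lit 5) (nat_lit 30) (nat_lit 5) (nat_lit 318) (nat_lit 303) (nat_lit 159)))) (XT.nd (nat_lit 156) (nat_lit 228) (nat_lit 0) (XT.nd (nat_lit 78) (nat_lit 0) (nat_lit 0) (XT.lf (nat_lit 0) (nat_lit 80137773098) (nat_lit 152) (nat_lit 86832056373) (nat_lit 228) (nat_lit 58986268231) (nat_lit 27) (nat_lit 5) (nat_lit 29) (nat_lit 5) (nat_lit 30) (nat_lit 5) (nat_lit 319) (nat_lit 303) (nat_lit 158)) (XT.lf (nat_lit 0) (nat_lit 198482973558) (nat_lit 152) (nat_lit 9379004842) (nat_lit 228) (nat_lit 29642182774) (nat_lit 27) (nat_lit 5) (nat_lit 29) (nat_lit 5) (nat_lit 30) (nat_lit 5) (nat_lit 320) (nat_lit 303) (nat_lit 157))) (XT.nd (nat_lit 78) (nat_lit 0) (nat_lit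 0) (XT.lf (nat_lit 0) (nat_lit 5715261065) (nat_lit 228) (nat_lit 171368846326) (nat_lit 76) (nat_lit 72586551490) (nat_lit 24) (nat_lit 5) (nat_lit 27) (nat_lit 5) (nat_lit 25) (nat_lit 5) (nat_lit 321) (nat_lit 303) (nat_lit 156)) (XT.lf (nat_lit 0) (nat_lit 43637916453) (nat_lit 228) (nat_lit 56536785020) (nat_lit 76) (nat_lit 162467136089) (nat_lit 24) (nat_lit 5) (nat_lit 27) (nat_lit 5) (nat_lit 25) (nat_lit 5) (nat_lit 322) (nat_lit 303) (nat_lit 155))))))))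
noncomputable def xc110 : XT := (XT.nd (nat_lit 2262) (nat_lit 76) (nat_lit 0) (XT.nd (nat_lit 1092) (nat_lit 532) (nat_lit 0) (XT.nd (nat_lit 546) (nat_lit 456) (nat_lit 0) (XT.nd (nat_lit 234) (nat_lit 152) (nat_lit 0) (XT.nd (nat_lit 78) (nat_lit 152) (nat_lit 0) (XT.lf (nat_lit 0) (nat_lit 71035086988) (nat_lit 152) (nat_lit 15267538199) (nat_lit 228) (nat_lit 190211426461) (nat_lit 22) (nat_lit 5) (nat_lit 24) (nat_lit 5) (nat_lit 25) (nat_lit 5) (nat_lit 323) (nat_lit 303) (nat_lit 154)) (XT.nd (nat_lit 78) (nat_lit 152) (nat_lit 0) (XT.lf (nat_lit 0) (nat_lit 135804523995) (nat_lit 228) (nat_lit 81222941186) (nat_lit 76) (nat_lit 74194656963) (nat_lit 22) (nat_lit 5) (nat_lit 25) (nat_lit 5) (nat_lit 23) (nat_lit 5) (nat_lit 324) (nat_lit 303) (nat_lit 153)) (XT.lf (nat_lit 0) (nat_lit 55345400101) (nat_lit 152) (nat_lit 135648653552) (nat_lit 228) (nat_lit 115974586639) (nat_lit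 20) (nat_lit 5) (nat_lit 22) (nat_lit 5) (nat_lit 23) (nat_lit 5) (nat_lit 325) (nat_lit 303) (nat_lit 152)))) (XT.nd (nat_lit 156) (nat_lit 76) (nat_lit 0) (XT.nd (nat_lit 78) (nat_lit 76) (nat_lit 0) (XT.lf (nat_lit 0) (nat_lit 207458228840) (nat_lit 152) (nat_lit 45361162756) (nat_lit 228) (nat_lit 70977836925) (nat_lit 20) (nat_lit 5) (nat_lit 22) (nat_lit 5) (nat_lit 23) (nat_lit 5) (nat_lit 326) (nat_lit 303) (nat_lit 151)) (XT.lf (nat_lit 0) (nat_lit 30015068491) (nat_lit 76) (nat_lit 291551618913) (nat_lit 152) (nat_lit 20247342221) (nat_lit 19) (nat_lit 5) (nat_lit 20) (nat_lit 5) (nat_lit 21) (nat_lit 4) (nat_lit 327) (nat_lit 303) (nat_lit 150))) (XT.nd (nat_lit 78) (nat_lit 0) (nat_lit 0) (XT.lf (nat_lit 0) (nat_lit 37255305784) (nat_lit 152) (nat_lit 168415692958) (nat_lit 76) (nat_lit 155179388302) (nat_lit 18) (nat_lit 5) (nat_lit 20) (nat_lit 5) (nat_lit 19) (nat_lit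 5) (nat_lit 328) (nat_lit 303) (nat_lit 149)) (XT.lf (nat_lit 0) (nat_lit 98264168857) (nat_lit 152) (nat_lit 14087849908) (nat_lit 76) (nat_lit 269015571265) (nat_lit 18) (nat_lit 5) (nat_lit 20) (nat_lit 5) (nat_lit 19) (nat_lit 5) (nat_lit 329) (nat_lit 303) (nat_lit 148))))) (XT.nd (nat_lit 234) (nat_lit 228) (nat_lit 0) (XT.nd (nat_lit 78) (nat_lit 76) (nat_lit 0) (XT.lf (nat_lit 0) (nat_lit 160620963562) (nat_lit 152) (nat_lit 7395609533) (nat_lit 228) (nat_lit 235200569797) (nat_lit 16) (nat_lit 5) (nat_lit 18) (nat_lit 5) (nat_lit 19) (nat_lit 5) (nat_lit 330) (nat_lit 303) (nat_lit 147)) (XT.nd (nat_lit 78) (nat_lit 76) (nat_lit 0) (XT.lf (nat_lit 0) (nat_lit 246292533721) (nat_lit 228) (nat_lit 79234625933) (nat_lit 76) (nat_lit 101052031399) (nat_lit 16) (nat_lit 5) (nat_lit 19) (nat_lit 5) (nat_lit 17) (nat_lit 4) (nat_lit 331) (nat_lit 303) (nat_lit 146)) (XT.lf (nat_lit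 0) (nat_lit 102111637549) (nat_lit 76) (nat_lit 231366718906) (nat_lit 152) (nat_lit 118120023965) (nat_lit 15) (nat_lit 5) (nat_lit 16) (nat_lit 5) (nat_lit 17) (nat_lit 4) (nat_lit 332) (nat_lit 303) (nat_lit 145)))) (XT.nd (nat_lit 156) (nat_lit 0) (nat_lit 0) (XT.nd (nat_lit 78) (nat_lit 228) (nat_lit 0) (XT.lf (nat_lit 0) (nat_lit 302471591401) (nat_lit 76) (nat_lit 127333776257) (nat_lit 152) (nat_lit 48640431632) (nat_lit 15) (nat_lit 5) (nat_lit 16) (nat_lit 5) (nat_lit 17) (nat_lit 4) (nat_lit 333) (nat_lit 303) (nat_lit 144)) (XT.lf (nat_lit 0) (nat_lit 11352204497) (nat_lit 152) (nat_lit 13997745154) (nat_lit 228) (nat_lit 482018438637) (nat_lit 12) (nat_lit 5) (nat_lit 14) (nat_lit 5) (nat_lit 15) (nat_lit 5) (nat_lit 334) (nat_lit 303) (nat_lit 143))) (XT.nd (nat_lit 78) (nat_lit 0) (nat_lit 0) (XT.lf (nat_lit 0) (nat_lit 110175194674) (nat_lit 228) (nat_lit 318542986278)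 (nat_lit 76) (nat_lit 109182054163) (nat_lit 12) (nat_lit 5) (nat_lit 15) (nat_lit 5) (nat_lit 13) (nat_lit 4) (nat_lit 335) (nat_lit 303) (nat_lit 142)) (XT.lf (nat_lit 0) (nat_lit 202149957172) (nat_lit 228) (nat_lit 127235648935) (nat_lit 76) (nat_lit 241459943873) (nat_lit 12) (nat_lit 5) (nat_lit 15) (nat_lit 5) (nat_lit 13) (nat_lit 4) (nat_lit 336) (nat_lit 303) (nat_lit 141)))))) (XT.nd (nat_lit 546) (nat_lit 228) (nat_lit 0) (XT.nd (nat_lit 234) (nat_lit 228) (nat_lit 0) (XT.nd (nat_lit 78) (nat_lit 0) (nat_lit 0) (XT.lf (nat_lit 0) (nat_lit 83555954716) (nat_lit 76) (nat_lit 219936194672) (nat_lit 152) (nat_lit 302773584858) (nat_lit 11) (nat_lit 5) (nat_lit 12) (nat_lit 5) (nat_lit 13) (nat_lit 4) (nat_lit 337) (nat_lit 303) (nat_lit 140)) (XT.nd (nat_lit 78) (nat_lit 0) (nat_lit 0) (XT.lf (nat_lit 0) (nat_lit 318446766054) (nat_lit 76) (nat_lit 97973727531) (nat_lit 152)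 (nat_lit 227820737644) (nat_lit 11) (nat_lit 5) (nat_lit 12) (nat_lit 5) (nat_lit 13) (nat_lit 4) (nat_lit 338) (nat_lit 303) (nat_lit 139)) (XT.lf (nat_lit 0) (nat_lit 539194623700) (nat_lit 152) (nat_lit 113937631130) (nat_lit 0) (nat_lit 32057591768) (nat_lit 11) (nat_lit 5) (nat_lit 13) (nat_lit 4) (nat_lit 11) (nat_lit 4) (nat_lit 339) (nat_lit 303) (nat_lit 138)))) (XT.nd (nat_lit 156) (nat_lit 76) (nat_lit 0) (XT.nd (nat_lit 78) (nat_lit 76) (nat_lit 0) (XT.lf (nat_lit 0) (nat_lit 118237589794) (nat_lit 76) (nat_lit 558941421037) (nat_lit 76) (nat_lit 51804274323) (nat_lit 10) (nat_lit 4) (nat_lit 11) (nat_lit 5) (nat_lit 11) (nat_lit 4) (nat_lit 340) (nat_lit 303) (nat_lit 137)) (XT.lf (nat_lit 0) (nat_lit 50620762482) (nat_lit 152) (nat_lit 401846067029) (nat_lit 76) (nat_lit 323461630594) (nat_lit 9) (nat_lit 5) (nat_lit 11) (nat_lit 5) (nat_lit 10) (nat_lit 4) (nat_lit 341)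 (nat_lit 303) (nat_lit 136))) (XT.nd (nat_lit 78) (nat_lit 76) (nat_lit 0) (XT.lf (nat_lit 0) (nat_lit 158440968415) (nat_lit 152) (nat_lit 177580137094) (nat_lit 76) (nat_lit 490500502962) (nat_lit 9) (nat_lit 5) (nat_lit 11) (nat_lit 5) (nat_lit 10) (nat_lit 4) (nat_lit 342) (nat_lit 303) (nat_lit 135)) (XT.lf (nat_lit 0) (nat_lit 68030113579) (nat_lit 76) (nat_lit 208492749929) (nat_lit 152) (nat_lit 604508459452) (nat_lit 8) (nat_lit 5) (nat_lit 9) (nat_lit 5) (nat_lit 10) (nat_lit 4) (nat_lit 343) (nat_lit 303) (nat_lit 134))))) (XT.nd (nat_lit 312) (nat_lit 152) (nat_lit 0) (XT.nd (nat_lit 156) (nat_lit 76) (nat_lit 0) (XT.nd (nat_lit 78) (nat_lit 0) (nat_lit 0) (XT.lf (nat_lit 0) (nat_lit 343388231009) (nat_lit 76) (nat_lit 65518383363) (nat_lit 152) (nat_lit 530606775960) (nat_lit 8) (nat_lit 5) (nat_lit 9) (nat_lit 5) (nat_lit 10) (nat_lit 4) (nat_lit 344) (nat_lit 303) (nat_lit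 133)) (XT.lf (nat_lit 0) (nat_lit 554018917928) (nat_lit 152) (nat_lit 364037015571) (nat_lit 0) (nat_lit 84447061442) (nat_lit 8) (nat_lit 5) (nat_lit 10) (nat_lit 4) (nat_lit 8) (nat_lit 4) (nat_lit 345) (nat_lit 303) (nat_lit 132))) (XT.nd (nat_lit 78) (nat_lit 76) (nat_lit 0) (XT.lf (nat_lit 0) (nat_lit 712441936964) (nat_lit 152) (nat_lit 115083679005) (nat_lit 0) (nat_lit 242870013505) (nat_lit 8) (nat_lit 5) (nat_lit 10) (nat_lit 4) (nat_lit 8) (nat_lit 4) (nat_lit 346) (nat_lit 303) (nat_lit 131)) (XT.lf (nat_lit 0) (nat_lit 161883938329) (nat_lit 76) (nat_lit 725548130143) (nat_lit 76) (nat_lit 255976144670) (nat_lit 7) (nat_lit 4) (nat_lit 8) (nat_lit 5) (nat_lit 8) (nat_lit 4) (nat_lit 347) (nat_lit 303) (nat_lit 130)))) (XT.nd (nat_lit 156) (nat_lit 152) (nat_lit 0) (XT.nd (nat_lit 78) (nat_lit 0) (nat_lit 0) (XT.lf (nat_lit 0) (nat_lit 467553801398) (nat_lit 76) (nat_lit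 612014160466) (nat_lit 76) (nat_lit 142442117574) (nat_lit 7) (nat_lit 4) (nat_lit 8) (nat_lit 5) (nat_lit 8) (nat_lit 4) (nat_lit 348) (nat_lit 303) (nat_lit 129)) (XT.lf (nat_lit 0) (nat_lit 797677184577) (nat_lit 76) (nat_lit 489397504776) (nat_lit 76) (nat_lit 19825408717) (nat_lit 7) (nat_lit 4) (nat_lit 8) (nat_lit 5) (nat_lit 8) (nat_lit 4) (nat_lit 349) (nat_lit 303) (nat_lit 128))) (XT.nd (nat_lit 78) (nat_lit 76) (nat_lit 0) (XT.lf (nat_lit 0) (nat_lit 106967861414) (nat_lit 152) (nat_lit 247078993543) (nat_lit 76) (nat_lit 1044317822272) (nat_lit 6) (nat_lit 5) (nat_lit 8) (nat_lit 5) (nat_lit 7) (nat_lit 4) (nat_lit 350) (nat_lit 303) (nat_lit 127)) (XT.lf (nat_lit 0) (nat_lit 37391929190) (nat_lit 76) (nat_lit 206340820837) (nat_lit 152) (nat_lit 1253300537561) (nat_lit 5) (nat_lit 5) (nat_lit 6) (nat_lit 5) (nat_lit 7) (nat_lit 4) (nat_lit 351) (nat_lit 303) (nat_lit 126)))))))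 (XT.nd (nat_lit 37518) (nat_lit 0) (nat_lit 1216) (XT.nd (nat_lit 36894) (nat_lit 0) (nat_lit 2660) (XT.nd (nat_lit 234) (nat_lit 76) (nat_lit 0) (XT.nd (nat_lit 78) (nat_lit 0) (nat_lit 0) (XT.lf (nat_lit 0) (nat_lit 358672067712) (nat_lit 76) (nat_lit 39522307665) (nat_lit 152) (nat_lit 1204860567777) (nat_lit 5) (nat_lit 5) (nat_lit 6) (nat_lit 5) (nat_lit 7) (nat_lit 4) (nat_lit 352) (nat_lit 303) (nat_lit 125)) (XT.nd (nat_lit 78) (nat_lit 0) (nat_lit 0) (XT.lf (nat_lit 0) (nat_lit 568395336552) (nat_lit 152) (nat_lit 1015286206506) (nat_lit 0) (nat_lit 133606195671) (nat_lit 5) (nat_lit 5) (nat_lit 7) (nat_lit 4) (nat_lit 5) (nat_lit 4) (nat_lit 353) (nat_lit 303) (nat_lit 124)) (XT.lf (nat_lit 0) (nat_lit 753238900153) (nat_lit 152) (nat_lit 768888410012) (nat_lit 0) (nat_lit 318449725768) (nat_lit 5) (nat_lit 5) (nat_lit 7) (nat_lit 4) (nat_lit 5) (nat_lit 4) (nat_lit 354) (nat_lit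 303) (nat_lit 123)))) (XT.nd (nat_lit 156) (nat_lit 76) (nat_lit 0) (XT.nd (nat_lit 78) (nat_lit 0) (nat_lit 0) (XT.lf (nat_lit 0) (nat_lit 952869922997) (nat_lit 152) (nat_lit 502778838419) (nat_lit 0) (nat_lit 518080717590) (nat_lit 5) (nat_lit 5) (nat_lit 7) (nat_lit 4) (nat_lit 5) (nat_lit 4) (nat_lit 355) (nat_lit 303) (nat_lit 122)) (XT.lf (nat_lit 0) (nat_lit 1168471403737) (nat_lit 152) (nat_lit 215380546118) (nat_lit 0) (nat_lit 733682169606) (nat_lit 5) (nat_lit 5) (nat_lit 7) (nat_lit 4) (nat_lit 5) (nat_lit 4) (nat_lit 356) (nat_lit 303) (nat_lit 121))) (XT.nd (nat_lit 78) (nat_lit 0) (nat_lit 0) (XT.lf (nat_lit 0) (nat_lit 100012603355) (nat_lit 76) (nat_lit 1303713682937) (nat_lit 76) (nat_lit 868924422210) (nat_lit 4) (nat_lit 4) (nat_lit 5) (nat_lit 5) (nat_lit 5) (nat_lit 4) (nat_lit 357) (nat_lit 303) (nat_lit 120)) (XT.lf (nat_lit 0) (nat_lit 452886046659) (nat_lit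 76) (nat_lit 1210804377119) (nat_lit 76) (nat_lit 776015091765) (nat_lit 4) (nat_lit 4) (nat_lit 5) (nat_lit 5) (nat_lit 5) (nat_lit 4) (nat_lit 358) (nat_lit 303) (nat_lit 119))))) (XT.nd (nat_lit 312) (nat_lit 228) (nat_lit 0) (XT.nd (nat_lit 156) (nat_lit 0) (nat_lit 76) (XT.nd (nat_lit 78) (nat_lit 0) (nat_lit 0) (XT.lf (nat_lit 0) (nat_lit 32654970037) (nat_lit 532) (nat_lit 13900358819) (nat_lit 532) (nat_lit 13900358819) (nat_lit 42) (nat_lit 3) (nat_lit 49) (nat_lit 3) (nat_lit 49) (nat_lit 5) (nat_lit 304) (nat_lit 304) (nat_lit 172)) (XT.lf (nat_lit 76) (nat_lit 27641223008) (nat_lit 0) (nat_lit 40949944248) (nat_lit 532) (nat_lit 57103141476) (nat_lit 43) (nat_lit 5) (nat_lit 42) (nat_lit 3) (nat_lit 49) (nat_lit 5) (nat_lit 305) (nat_lit 304) (nat_lit 171))) (XT.nd (nat_lit 78) (nat_lit 0) (nat_lit 0) (XT.lf (nat_lit 0) (nat_lit 73284326296) (nat_lit 456) (nat_lit 42089487074)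 (nat_lit 532) (nat_lit 15394110245) (nat_lit 43) (nat_lit 5) (nat_lit 49) (nat_lit 5) (nat_lit 50) (nat_lit 5) (nat_lit 306) (nat_lit 304) (nat_lit 170)) (XT.lf (nat_lit 76) (nat_lit 18197633575) (nat_lit 0) (nat_lit 61656215899) (nat_lit 532) (nat_lit 56273506715) (nat_lit 44) (nat_lit 5) (nat_lit 43) (nat_lit 5) (nat_lit 50) (nat_lit 5) (nat_lit 307) (nat_lit 304) (nat_lit 169)))) (XT.nd (nat_lit 156) (nat_lit 304) (nat_lit 0) (XT.nd (nat_lit 78) (nat_lit 0) (nat_lit 76) (XT.lf (nat_lit 76) (nat_lit 85701146328) (nat_lit 0) (nat_lit 2398234381) (nat_lit 532) (nat_lit 53724128274) (nat_lit 44) (nat_lit 5) (nat_lit 43) (nat_lit 5) (nat_lit 50) (nat_lit 5) (nat_lit 308) (nat_lit 304) (nat_lit 168)) (XT.lf (nat_lit 76) (nat_lit 9629548480) (nat_lit 0) (nat_lit 89087761392) (nat_lit 532) (nat_lit 49121024906) (nat_lit 45) (nat_lit 5) (nat_lit 44) (nat_lit 5) (nat_lit 51) (nat_lit 5) (nat_lit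 309) (nat_lit 304) (nat_lit 167))) (XT.nd (nat_lit 78) (nat_lit 380) (nat_lit 0) (XT.lf (nat_lit 76) (nat_lit 83767519622) (nat_lit 0) (nat_lit 28012045360) (nat_lit 532) (nat_lit 42427191450) (nat_lit 45) (nat_lit 5) (nat_lit 44) (nat_lit 5) (nat_lit 51) (nat_lit 5) (nat_lit 310) (nat_lit 304) (nat_lit 166)) (XT.lf (nat_lit 0) (nat_lit 1935763402) (nat_lit 456) (nat_lit 124910000213) (nat_lit 532) (nat_lit 34162172192) (nat_lit 39) (nat_lit 5) (nat_lit 45) (nat_lit 5) (nat_lit 46) (nat_lit 5) (nat_lit 311) (nat_lit 304) (nat_lit 165)))))) (XT.nd (nat_lit 546) (nat_lit 684) (nat_lit 0) (XT.nd (nat_lit 234) (nat_lit 456) (nat_lit 0) (XT.nd (nat_lit 78) (nat_lit 304) (nat_lit 0) (XT.lf (nat_lit 0) (nat_lit 83340556877) (nat_lit 456) (nat_lit 62411531648) (nat_lit 532) (nat_lit 22390335540) (nat_lit 39) (nat_lit 5) (nat_lit 45) (nat_lit 5) (nat_lit 46) (nat_lit 5) (nat_lit 312) (nat_lit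 304) (nat_lit 164)) (XT.nd (nat_lit 78) (nat_lit 304) (nat_lit 0) (XT.lf (nat_lit 0) (nat_lit 166293008899) (nat_lit 532) (nat_lit 4712527916) (nat_lit 76) (nat_lit 4832368301) (nat_lit 39) (nat_lit 5) (nat_lit 46) (nat_lit 5) (nat_lit 40) (nat_lit 5) (nat_lit 313) (nat_lit 304) (nat_lit 163)) (XT.lf (nat_lit 0) (nat_lit 7856759693) (nat_lit 304) (nat_lit 99672039198) (nat_lit 76) (nat_lit 76312291547) (nat_lit 35) (nat_lit 5) (nat_lit 39) (nat_lit 5) (nat_lit 36) (nat_lit 5) (nat_lit 314) (nat_lit 304) (nat_lit 162)))) (XT.nd (nat_lit 156) (nat_lit 228) (nat_lit 0) (XT.nd (nat_lit 78) (nat_lit 228) (nat_lit 0) (XT.lf (nat_lit 0) (nat_lit 26266846390) (nat_lit 304) (nat_lit 12296566713) (nat_lit 76) (nat_lit 153890726988) (nat_lit 35) (nat_lit 5) (nat_lit 39) (nat_lit 5) (nat_lit 36) (nat_lit 5) (nat_lit 315) (nat_lit 304) (nat_lit 161)) (XT.lf (nat_lit 0) (nat_lit 49145044187) (nat_lit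 304) (nat_lit 116117544740) (nat_lit 76) (nat_lit 36254021112) (nat_lit 32) (nat_lit 5) (nat_lit 36) (nat_lit 5) (nat_lit 33) (nat_lit 5) (nat_lit 316) (nat_lit 304) (nat_lit 160))) (XT.nd (nat_lit 78) (nat_lit 228) (nat_lit 0) (XT.lf (nat_lit 0) (nat_lit 75199889017) (nat_lit 304) (nat_lit 20678128958) (nat_lit 76) (nat_lit 115318348917) (nat_lit 32) (nat_lit 5) (nat_lit 36) (nat_lit 5) (nat_lit 33) (nat_lit 5) (nat_lit 317) (nat_lit 304) (nat_lit 159)) (XT.lf (nat_lit 0) (nat_lit 86735063628) (nat_lit 228) (nat_lit 18689854342) (nat_lit 304) (nat_lit 116058723162) (nat_lit 29) (nat_lit 5) (nat_lit 32) (nat_lit 5) (nat_lit 33) (nat_lit 5) (nat_lit 318) (nat_lit 304) (nat_lit 158))))) (XT.nd (nat_lit 312) (nat_lit 304) (nat_lit 0) (XT.nd (nat_lit 156) (nat_lit 228) (nat_lit 0) (XT.nd (nat_lit 78) (nat_lit 152) (nat_lit 0) (XT.lf (nat_lit 0) (nat_lit 140203230856) (nat_lit 304) (nat_lit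 30201676930) (nat_lit 76) (nat_lit 62018167517) (nat_lit 29) (nat_lit 5) (nat_lit 33) (nat_lit 5) (nat_lit 30) (nat_lit 5) (nat_lit 319) (nat_lit 304) (nat_lit 157)) (XT.lf (nat_lit 0) (nat_lit 86553051843) (nat_lit 152) (nat_lit 93777647608) (nat_lit 228) (nat_lit 63701613982) (nat_lit 27) (nat_lit 5) (nat_lit 29) (nat_lit 5) (nat_lit 30) (nat_lit 5) (nat_lit 320) (nat_lit 304) (nat_lit 156))) (XT.nd (nat_lit 78) (nat_lit 228) (nat_lit 0) (XT.lf (nat_lit 0) (nat_lit 214365553014) (nat_lit 152) (nat_lit 10128424050) (nat_lit 228) (nat_lit 32010265075) (nat_lit 27) (nat_lit 5) (nat_lit 29) (nat_lit 5) (nat_lit 30) (nat_lit 5) (nat_lit 321) (nat_lit 304) (nat_lit 155)) (XT.lf (nat_lit 0) (nat_lit 6175498822) (nat_lit 228) (nat_lit 185074121498) (nat_lit 76) (nat_lit 78394442463) (nat_lit 24) (nat_lit 5) (nat_lit 27) (nat_lit 5) (nat_lit 25) (nat_lit 5) (nat_lit 322) (nat_lit 304) (nat_lit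 154)))) (XT.nd (nat_lit 156) (nat_lit 152) (nat_lit 0) (XT.nd (nat_lit 78) (nat_lit 152) (nat_lit 0) (XT.lf (nat_lit 0) (nat_lit 47131743169) (nat_lit 228) (nat_lit 61055808809) (nat_lit 76) (nat_lit 175465402212) (nat_lit 24) (nat_lit 5) (nat_lit 27) (nat_lit 5) (nat_lit 25) (nat_lit 5) (nat_lit 323) (nat_lit 304) (nat_lit 153)) (XT.lf (nat_lit 0) (nat_lit 76721713744) (nat_lit 152) (nat_lit 16487799806) (nat_lit 228) (nat_lit 205425441568) (nat_lit 22) (nat_lit 5) (nat_lit 24) (nat_lit 5) (nat_lit 25) (nat_lit 5) (nat_lit 324) (nat_lit 304) (nat_lit 152))) (XT.nd (nat_lit 78) (nat_lit 152) (nat_lit 0) (XT.lf (nat_lit 0) (nat_lit 146671391284) (nat_lit 228) (nat_lit 87717060734) (nat_lit 76) (nat_lit 80131233547) (nat_lit 22) (nat_lit 5) (nat_lit 25) (nat_lit 5) (nat_lit 23) (nat_lit 5) (nat_lit 325) (nat_lit 304) (nat_lit 151)) (XT.lf (nat_lit 0) (nat_lit 59776653787) (nat_lit 152)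 (nat_lit 146499331047) (nat_lit 228) (nat_lit 125249948648) (nat_lit 20) (nat_lit 5) (nat_lit 22) (nat_lit 5) (nat_lit 23) (nat_lit 5) (nat_lit 326) (nat_lit 304) (nat_lit 150))))))))
noncomputable def xc111 : XT := (XT.nd (nat_lit 2262) (nat_lit 76) (nat_lit 0) (XT.nd (nat_lit 1092) (nat_lit 456) (nat_lit 0) (XT.nd (nat_lit 546) (nat_lit 304) (nat_lit 0) (XT.nd (nat_lit 234) (nat_lit 228) (nat_lit 0) (XT.nd (nat_lit 78) (nat_lit 152) (nat_lit 0) (XT.lf (nat_lit 0) (nat_lit 224058240553) (nat_lit 152) (nat_lit 48988930972) (nat_lit 228) (nat_lit 76653651915) (nat_lit 20) (nat_lit 5) (nat_lit 22) (nat_lit 5) (nat_lit 23) (nat_lit 5) (nat_lit 327) (nat_lit 304) (nat_lit 149)) (XT.nd (nat_lit 78) (nat_lit 76) (nat_lit 0) (XT.lf (nat_lit 0) (nat_lit 32419694834) (nat_lit 76) (nat_lit 314874498401) (nat_lit 152) (nat_lit 21864780393) (nat_lit 19) (nat_lit 5) (nat_lit 20) (nat_lit 5) (nat_lit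 21) (nat_lit 4) (nat_lit 328) (nat_lit 304) (nat_lit 148)) (XT.lf (nat_lit 0) (nat_lit 40237796625) (nat_lit 152) (nat_lit 181885668087) (nat_lit 76) (nat_lit 167594783956) (nat_lit 18) (nat_lit 5) (nat_lit 20) (nat_lit 5) (nat_lit 19) (nat_lit 5) (nat_lit 329) (nat_lit 304) (nat_lit 147)))) (XT.nd (nat_lit 156) (nat_lit 76) (nat_lit 0) (XT.nd (nat_lit 78) (nat_lit 152) (nat_lit 0) (XT.lf (nat_lit 0) (nat_lit 106127215679) (nat_lit 152) (nat_lit 15211840579) (nat_lit 76) (nat_lit 290537784179) (nat_lit 18) (nat_lit 5) (nat_lit 20) (nat_lit 5) (nat_lit 19) (nat_lit 5) (nat_lit 330) (nat_lit 304) (nat_lit 146)) (XT.lf (nat_lit 0) (nat_lit 173473601075) (nat_lit 152) (nat_lit 7986140652) (nat_lit 228) (nat_lit 254014621719) (nat_lit 16) (nat_lit 5) (nat_lit 18) (nat_lit 5) (nat_lit 19) (nat_lit 5) (nat_lit 331) (nat_lit 304) (nat_lit 145))) (XT.nd (nat_lit 78) (nat_lit 76) (nat_lit 0)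 (XT.lf (nat_lit 0) (nat_lit 265997667589) (nat_lit 228) (nat_lit 85570540057) (nat_lit 76) (nat_lit 109137176998) (nat_lit 16) (nat_lit 5) (nat_lit 19) (nat_lit 5) (nat_lit 17) (nat_lit 4) (nat_lit 332) (nat_lit 304) (nat_lit 144)) (XT.lf (nat_lit 0) (nat_lit 110283352201) (nat_lit 76) (nat_lit 249874942653) (nat_lit 152) (nat_lit 127567819447) (nat_lit 15) (nat_lit 5) (nat_lit 16) (nat_lit 5) (nat_lit 17) (nat_lit 4) (nat_lit 333) (nat_lit 304) (nat_lit 143))))) (XT.nd (nat_lit 234) (nat_lit 76) (nat_lit 0) (XT.nd (nat_lit 78) (nat_lit 228) (nat_lit 0) (XT.lf (nat_lit 0) (nat_lit 326671896164) (nat_lit 76) (nat_lit 137519447093) (nat_lit 152) (nat_lit 52529993538) (nat_lit 15) (nat_lit 5) (nat_lit 16) (nat_lit 5) (nat_lit 17) (nat_lit 4) (nat_lit 334) (nat_lit 304) (nat_lit 142)) (XT.nd (nat_lit 78) (nat_lit 0) (nat_lit 0) (XT.lf (nat_lit 0) (nat_lit 12262977084) (nat_lit 152) (nat_lit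 15116502231) (nat_lit 228) (nat_lit 520578254989) (nat_lit 12) (nat_lit 5) (nat_lit 14) (nat_lit 5) (nat_lit 15) (nat_lit 5) (nat_lit 335) (nat_lit 304) (nat_lit 141)) (XT.lf (nat_lit 0) (nat_lit 118990653994) (nat_lit 228) (nat_lit 344023929144) (nat_lit 76) (nat_lit 117917553110) (nat_lit 12) (nat_lit 5) (nat_lit 15) (nat_lit 5) (nat_lit 13) (nat_lit 4) (nat_lit 336) (nat_lit 304) (nat_lit 140)))) (XT.nd (nat_lit 156) (nat_lit 0) (nat_lit 0) (XT.nd (nat_lit 78) (nat_lit 76) (nat_lit 0) (XT.lf (nat_lit 0) (nat_lit 218323290548) (nat_lit 228) (nat_lit 137412189704) (nat_lit 76) (nat_lit 260777604766) (nat_lit 12) (nat_lit 5) (nat_lit 15) (nat_lit 5) (nat_lit 13) (nat_lit 4) (nat_lit 337) (nat_lit 304) (nat_lit 139)) (XT.lf (nat_lit 0) (nat_lit 90242683728) (nat_lit 76) (nat_lit 237530129567) (nat_lit 152) (nat_lit 326994074468) (nat_lit 11) (nat_lit 5) (nat_lit 12) (nat_lit 5) (nat_lit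 13) (nat_lit 4) (nat_lit 338) (nat_lit 304) (nat_lit 138))) (XT.nd (nat_lit 78) (nat_lit 0) (nat_lit 0) (XT.lf (nat_lit 0) (nat_lit 343924593112) (nat_lit 76) (nat_lit 105810736216) (nat_lit 152) (nat_lit 246045102972) (nat_lit 11) (nat_lit 5) (nat_lit 12) (nat_lit 5) (nat_lit 13) (nat_lit 4) (nat_lit 339) (nat_lit 304) (nat_lit 137)) (XT.lf (nat_lit 0) (nat_lit 582331321048) (nat_lit 152) (nat_lit 123050639945) (nat_lit 0) (nat_lit 34622981536) (nat_lit 11) (nat_lit 5) (nat_lit 13) (nat_lit 4) (nat_lit 11) (nat_lit 4) (nat_lit 340) (nat_lit 304) (nat_lit 136)))))) (XT.nd (nat_lit 546) (nat_lit 228) (nat_lit 0) (XT.nd (nat_lit 234) (nat_lit 76) (nat_lit 0) (XT.nd (nat_lit 78) (nat_lit 76) (nat_lit 0) (XT.lf (nat_lit 0) (nat_lit 127698547977) (nat_lit 76) (nat_lit 603655874579) (nat_lit 76) (nat_lit 55947436660) (nat_lit 10) (nat_lit 4) (nat_lit 11) (nat_lit 5) (nat_lit 11) (nat_lit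 4) (nat_lit 341) (nat_lit 304) (nat_lit 135)) (XT.nd (nat_lit 78) (nat_lit 0) (nat_lit 0) (XT.lf (nat_lit 0) (nat_lit 54671461074) (nat_lit 152) (nat_lit 433991890002) (nat_lit 76) (nat_lit 349339301560) (nat_lit 9) (nat_lit 5) (nat_lit 11) (nat_lit 5) (nat_lit 10) (nat_lit 4) (nat_lit 342) (nat_lit 304) (nat_lit 134)) (XT.lf (nat_lit 0) (nat_lit 171117206623) (nat_lit 152) (nat_lit 191784823628) (nat_lit 76) (nat_lit 529741228865) (nat_lit 9) (nat_lit 5) (nat_lit 11) (nat_lit 5) (nat_lit 10) (nat_lit 4) (nat_lit 343) (nat_lit 304) (nat_lit 133)))) (XT.nd (nat_lit 156) (nat_lit 0) (nat_lit 0) (XT.nd (nat_lit 78) (nat_lit 0) (nat_lit 0) (XT.lf (nat_lit 0) (nat_lit 73474203443) (nat_lit 76) (nat_lit 225171419136) (nat_lit 152) (nat_lit 652868130728) (nat_lit 8) (nat_lit 5) (nat_lit 9) (nat_lit 5) (nat_lit 10) (nat_lit 4) (nat_lit 344) (nat_lit 304) (nat_lit 132)) (XT.lf (nat_lit 0) (nat_lit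 370860845766) (nat_lit 76) (nat_lit 70759158859) (nat_lit 152) (nat_lit 573054387037) (nat_lit 8) (nat_lit 5) (nat_lit 9) (nat_lit 5) (nat_lit 10) (nat_lit 4) (nat_lit 345) (nat_lit 304) (nat_lit 131))) (XT.nd (nat_lit 78) (nat_lit 0) (nat_lit 0) (XT.lf (nat_lit 0) (nat_lit 598341244160) (nat_lit 152) (nat_lit 393158486582) (nat_lit 0) (nat_lit 91203437836) (nat_lit 8) (nat_lit 5) (nat_lit 10) (nat_lit 4) (nat_lit 8) (nat_lit 4) (nat_lit 346) (nat_lit 304) (nat_lit 130)) (XT.lf (nat_lit 0) (nat_lit 769438044512) (nat_lit 152) (nat_lit 124288993479) (nat_lit 0) (nat_lit 262300180769) (nat_lit 8) (nat_lit 5) (nat_lit 10) (nat_lit 4) (nat_lit 8) (nat_lit 4) (nat_lit 347) (nat_lit 304) (nat_lit 129))))) (XT.nd (nat_lit 312) (nat_lit 76) (nat_lit 0) (XT.nd (nat_lit 156) (nat_lit 76) (nat_lit 0) (XT.nd (nat_lit 78) (nat_lit 0) (nat_lit 0) (XT.lf (nat_lit 0) (nat_lit 174835998309) (nat_lit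 76) (nat_lit 783591364829) (nat_lit 76) (nat_lit 276453447920) (nat_lit 7) (nat_lit 4) (nat_lit 8) (nat_lit 5) (nat_lit 8) (nat_lit 4) (nat_lit 348) (nat_lit 304) (nat_lit 128)) (XT.lf (nat_lit 0) (nat_lit 504959350801) (nat_lit 76) (nat_lit 660974723188) (nat_lit 76) (nat_lit 153836757050) (nat_lit 7) (nat_lit 4) (nat_lit 8) (nat_lit 5) (nat_lit 8) (nat_lit 4) (nat_lit 349) (nat_lit 304) (nat_lit 127))) (XT.nd (nat_lit 78) (nat_lit 76) (nat_lit 0) (XT.lf (nat_lit 0) (nat_lit 861492512390) (nat_lit 76) (nat_lit 528548777273) (nat_lit 76) (nat_lit 21410765554) (nat_lit 7) (nat_lit 4) (nat_lit 8) (nat_lit 5) (nat_lit 8) (nat_lit 4) (nat_lit 350) (nat_lit 304) (nat_lit 126)) (XT.lf (nat_lit 0) (nat_lit 115525884820) (nat_lit 152) (nat_lit 266844213497) (nat_lit 76) (nat_lit 1127863704943) (nat_lit 6) (nat_lit 5) (nat_lit 8) (nat_lit 5) (nat_lit 7) (nat_lit 4) (nat_lit 351) (nat_lit 304)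 (nat_lit 125)))) (XT.nd (nat_lit 156) (nat_lit 0) (nat_lit 0) (XT.nd (nat_lit 78) (nat_lit 0) (nat_lit 0) (XT.lf (nat_lit 0) (nat_lit 40384355219) (nat_lit 76) (nat_lit 222847591041) (nat_lit 152) (nat_lit 1353563957692) (nat_lit 5) (nat_lit 5) (nat_lit 6) (nat_lit 5) (nat_lit 7) (nat_lit 4) (nat_lit 352) (nat_lit 304) (nat_lit 124)) (XT.lf (nat_lit 0) (nat_lit 387366825437) (nat_lit 76) (nat_lit 42683633516) (nat_lit 152) (nat_lit 1301248836465) (nat_lit 5) (nat_lit 5) (nat_lit 6) (nat_lit 5) (nat_lit 7) (nat_lit 4) (nat_lit 353) (nat_lit 304) (nat_lit 123))) (XT.nd (nat_lit 78) (nat_lit 0) (nat_lit 0) (XT.lf (nat_lit 0) (nat_lit 613867467716) (nat_lit 152) (nat_lit 1096508154449) (nat_lit 0) (nat_lit 144295094855) (nat_lit 5) (nat_lit 5) (nat_lit 7) (nat_lit 4) (nat_lit 5) (nat_lit 4) (nat_lit 354) (nat_lit 304) (nat_lit 122)) (XT.lf (nat_lit 0) (nat_lit 813498479055) (nat_lit 152)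 (nat_lit 830398604500) (nat_lit 0) (nat_lit 343926077469) (nat_lit 5) (nat_lit 5) (nat_lit 7) (nat_lit 4) (nat_lit 5) (nat_lit 4) (nat_lit 355) (nat_lit 304) (nat_lit 121))))))) (XT.nd (nat_lit 37596) (nat_lit 0) (nat_lit 1064) (XT.nd (nat_lit 36972) (nat_lit 0) (nat_lit 2356) (XT.nd (nat_lit 36660) (nat_lit 0) (nat_lit 2888) (XT.nd (nat_lit 78) (nat_lit 76) (nat_lit 0) (XT.lf (nat_lit 0) (nat_lit 1029099949141) (nat_lit 152) (nat_lit 543000332240) (nat_lit 0) (nat_lit 559527520960) (nat_lit 5) (nat_lit 5) (nat_lit 7) (nat_lit 4) (nat_lit 5) (nat_lit 4) (nat_lit 356) (nat_lit 304) (nat_lit 120)) (XT.nd (nat_lit 78) (nat_lit 76) (nat_lit 0) (XT.lf (nat_lit 0) (nat_lit 1261949516318) (nat_lit 152) (nat_lit 232610236796) (nat_lit 0) (nat_lit 792377063510) (nat_lit 5) (nat_lit 5) (nat_lit 7) (nat_lit 4) (nat_lit 5) (nat_lit 4) (nat_lit 357) (nat_lit 304) (nat_lit 119)) (XT.lf (nat_lit 0)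 (nat_lit 108014345571) (nat_lit 76) (nat_lit 1408010431908) (nat_lit 76) (nat_lit 938437956298) (nat_lit 4) (nat_lit 4) (nat_lit 5) (nat_lit 5) (nat_lit 5) (nat_lit 4) (nat_lit 358) (nat_lit 304) (nat_lit 118)))) (XT.nd (nat_lit 156) (nat_lit 0) (nat_lit 76) (XT.nd (nat_lit 78) (nat_lit 0) (nat_lit 0) (XT.lf (nat_lit 0) (nat_lit 35271327558) (nat_lit 532) (nat_lit 15010241719) (nat_lit 532) (nat_lit 15010241719) (nat_lit 42) (nat_lit 3) (nat_lit 49) (nat_lit 3) (nat_lit 49) (nat_lit 5) (nat_lit 305) (nat_lit 305) (nat_lit 170)) (XT.lf (nat_lit 76) (nat_lit 29856703813) (nat_lit 0) (nat_lit 44229190605) (nat_lit 532) (nat_lit 61663336716) (nat_lit 43) (nat_lit 5) (nat_lit 42) (nat_lit 3) (nat_lit 49) (nat_lit 5) (nat_lit 306) (nat_lit 305) (nat_lit 169))) (XT.nd (nat_lit 78) (nat_lit 0) (nat_lit 0) (XT.lf (nat_lit 0) (nat_lit 79153883139) (nat_lit 456) (nat_lit 45452124333) (nat_lit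 532) (nat_lit 16622779622) (nat_lit 43) (nat_lit 5) (nat_lit 49) (nat_lit 5) (nat_lit 50) (nat_lit 5) (nat_lit 307) (nat_lit 305) (nat_lit 168)) (XT.lf (nat_lit 76) (nat_lit 19657851494) (nat_lit 0) (nat_lit 66590718172) (nat_lit 532) (nat_lit 60768438381) (nat_lit 44) (nat_lit 5) (nat_lit 43) (nat_lit 5) (nat_lit 50) (nat_lit 5) (nat_lit 308) (nat_lit 305) (nat_lit 167))))) (XT.nd (nat_lit 312) (nat_lit 304) (nat_lit 0) (XT.nd (nat_lit 156) (nat_lit 304) (nat_lit 0) (XT.nd (nat_lit 78) (nat_lit 0) (nat_lit 76) (XT.lf (nat_lit 76) (nat_lit 92561318806) (nat_lit 0) (nat_lit 2591949613) (nat_lit 532) (nat_lit 58015624396) (nat_lit 44) (nat_lit 5) (nat_lit 43) (nat_lit 5) (nat_lit 50) (nat_lit 5) (nat_lit 309) (nat_lit 305) (nat_lit 166)) (XT.lf (nat_lit 76) (nat_lit 10404417644) (nat_lit 0) (nat_lit 96215841486) (nat_lit 532) (nat_lit 53044676989) (nat_lit 45) (nat_lit 5) (nat_lit 44)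 (nat_lit 5) (nat_lit 51) (nat_lit 5) (nat_lit 310) (nat_lit 305) (nat_lit 165))) (XT.nd (nat_lit 78) (nat_lit 380) (nat_lit 0) (XT.lf (nat_lit 76) (nat_lit 90473092752) (nat_lit 0) (nat_lit 30253989714) (nat_lit 532) (nat_lit 45815783516) (nat_lit 45) (nat_lit 5) (nat_lit 44) (nat_lit 5) (nat_lit 51) (nat_lit 5) (nat_lit 311) (nat_lit 305) (nat_lit 164)) (XT.lf (nat_lit 0) (nat_lit 2095133469) (nat_lit 456) (nat_lit 134903148473) (nat_lit 532) (nat_lit 36889882762) (nat_lit 39) (nat_lit 5) (nat_lit 45) (nat_lit 5) (nat_lit 46) (nat_lit 5) (nat_lit 312) (nat_lit 305) (nat_lit 163)))) (XT.nd (nat_lit 156) (nat_lit 304) (nat_lit 0) (XT.nd (nat_lit 78) (nat_lit 0) (nat_lit 0) (XT.lf (nat_lit 0) (nat_lit 90011976422) (nat_lit 456) (nat_lit 67404776626) (nat_lit 532) (nat_lit 24176689045) (nat_lit 39) (nat_lit 5) (nat_lit 45) (nat_lit 5) (nat_lit 46) (nat_lit 5) (nat_lit 313) (nat_lit 305)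 (nat_lit 162)) (XT.lf (nat_lit 0) (nat_lit 179600606729) (nat_lit 532) (nat_lit 5085309181) (nat_lit 76) (nat_lit 5218674138) (nat_lit 39) (nat_lit 5) (nat_lit 46) (nat_lit 5) (nat_lit 40) (nat_lit 5) (nat_lit 314) (nat_lit 305) (nat_lit 161))) (XT.nd (nat_lit 78) (nat_lit 0) (nat_lit 0) (XT.lf (nat_lit 0) (nat_lit 8489364258) (nat_lit 304) (nat_lit 107641461451) (nat_lit 76) (nat_lit 82417214078) (nat_lit 35) (nat_lit 5) (nat_lit 39) (nat_lit 5) (nat_lit 36) (nat_lit 5) (nat_lit 315) (nat_lit 305) (nat_lit 160)) (XT.lf (nat_lit 0) (nat_lit 28371956870) (nat_lit 304) (nat_lit 13276272714) (nat_lit 76) (nat_lit 166201928858) (nat_lit 35) (nat_lit 5) (nat_lit 39) (nat_lit 5) (nat_lit 36) (nat_lit 5) (nat_lit 316) (nat_lit 305) (nat_lit 159)))))) (XT.nd (nat_lit 546) (nat_lit 456) (nat_lit 0) (XT.nd (nat_lit 234) (nat_lit 380) (nat_lit 0) (XT.nd (nat_lit 78) (nat_lit 228) (nat_lit 0) (XT.lf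 (nat_lit 0) (nat_lit 53080234145) (nat_lit 304) (nat_lit 125402741680) (nat_lit 76) (nat_lit 39154665144) (nat_lit 32) (nat_lit 5) (nat_lit 36) (nat_lit 5) (nat_lit 33) (nat_lit 5) (nat_lit 317) (nat_lit 305) (nat_lit 158)) (XT.nd (nat_lit 78) (nat_lit 228) (nat_lit 0) (XT.lf (nat_lit 0) (nat_lit 81219200900) (nat_lit 304) (nat_lit 22328484239) (nat_lit 76) (nat_lit 124544115297) (nat_lit 32) (nat_lit 5) (nat_lit 36) (nat_lit 5) (nat_lit 33) (nat_lit 5) (nat_lit 318) (nat_lit 305) (nat_lit 157)) (XT.lf (nat_lit 0) (nat_lit 93677665146) (nat_lit 228) (nat_lit 20184412345) (nat_lit 304) (nat_lit 125339992249) (nat_lit 29) (nat_lit 5) (nat_lit 32) (nat_lit 5) (nat_lit 33) (nat_lit 5) (nat_lit 319) (nat_lit 305) (nat_lit 156)))) (XT.nd (nat_lit 156) (nat_lit 228) (nat_lit 0) (XT.nd (nat_lit 78) (nat_lit 152) (nat_lit 0) (XT.lf (nat_lit 0) (nat_lit 151422434920) (nat_lit 304) (nat_lit 32614066686)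 (nat_lit 76) (nat_lit 66980175373) (nat_lit 29) (nat_lit 5) (nat_lit 33) (nat_lit 5) (nat_lit 30) (nat_lit 5) (nat_lit 320) (nat_lit 305) (nat_lit 155)) (XT.lf (nat_lit 0) (nat_lit 93480945593) (nat_lit 152) (nat_lit 101279024991) (nat_lit 228) (nat_lit 68794694655) (nat_lit 27) (nat_lit 5) (nat_lit 29) (nat_lit 5) (nat_lit 30) (nat_lit 5) (nat_lit 321) (nat_lit 305) (nat_lit 154))) (XT.nd (nat_lit 78) (nat_lit 228) (nat_lit 0) (XT.lf (nat_lit 0) (nat_lit 231518176518) (nat_lit 152) (nat_lit 10937925357) (nat_lit 228) (nat_lit 34568263646) (nat_lit 27) (nat_lit 5) (nat_lit 29) (nat_lit 5) (nat_lit 30) (nat_lit 5) (nat_lit 322) (nat_lit 305) (nat_lit 153)) (XT.lf (nat_lit 0) (nat_lit 6672125209) (nat_lit 228) (nat_lit 199876422503) (nat_lit 76) (nat_lit 84666826782) (nat_lit 24) (nat_lit 5) (nat_lit 27) (nat_lit 5) (nat_lit 25) (nat_lit 5) (nat_lit 323) (nat_lit 305) (nat_lit 152)))))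 (XT.nd (nat_lit 312) (nat_lit 152) (nat_lit 0) (XT.nd (nat_lit 156) (nat_lit 152) (nat_lit 0) (XT.nd (nat_lit 78) (nat_lit 152) (nat_lit 0) (XT.lf (nat_lit 0) (nat_lit 50904677513) (nat_lit 228) (nat_lit 65936913592) (nat_lit 76) (nat_lit 189503401908) (nat_lit 24) (nat_lit 5) (nat_lit 27) (nat_lit 5) (nat_lit 25) (nat_lit 5) (nat_lit 324) (nat_lit 305) (nat_lit 151)) (XT.lf (nat_lit 0) (nat_lit 82862725704) (nat_lit 152) (nat_lit 17805845181) (nat_lit 228) (nat_lit 221856991460) (nat_lit 22) (nat_lit 5) (nat_lit 24) (nat_lit 5) (nat_lit 25) (nat_lit 5) (nat_lit 325) (nat_lit 305) (nat_lit 150))) (XT.nd (nat_lit 78) (nat_lit 152) (nat_lit 0) (XT.lf (nat_lit 0) (nat_lit 158407250538) (nat_lit 228) (nat_lit 94731239938) (nat_lit 76) (nat_lit 86542593023) (nat_lit 22) (nat_lit 5) (nat_lit 25) (nat_lit 5) (nat_lit 23) (nat_lit 5) (nat_lit 326) (nat_lit 305) (nat_lit 149)) (XT.lf (nat_lit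 0) (nat_lit 64561891095) (nat_lit 152) (nat_lit 158218236044) (nat_lit 228) (nat_lit 135267711240) (nat_lit 20) (nat_lit 5) (nat_lit 22) (nat_lit 5) (nat_lit 23) (nat_lit 5) (nat_lit 327) (nat_lit 305) (nat_lit 148)))) (XT.nd (nat_lit 156) (nat_lit 76) (nat_lit 0) (XT.nd (nat_lit 78) (nat_lit 76) (nat_lit 0) (XT.lf (nat_lit 0) (nat_lit 241985774802) (nat_lit 152) (nat_lit 52907081111) (nat_lit 228) (nat_lit 82783876198) (nat_lit 20) (nat_lit 5) (nat_lit 22) (nat_lit 5) (nat_lit 23) (nat_lit 5) (nat_lit 328) (nat_lit 305) (nat_lit 147)) (XT.lf (nat_lit 0) (nat_lit 35016203260) (nat_lit 76) (nat_lit 340063386578) (nat_lit 152) (nat_lit 23611948760) (nat_lit 19) (nat_lit 5) (nat_lit 20) (nat_lit 5) (nat_lit 21) (nat_lit 4) (nat_lit 329) (nat_lit 305) (nat_lit 146))) (XT.nd (nat_lit 78) (nat_lit 0) (nat_lit 0) (XT.lf (nat_lit 0) (nat_lit 43458591942) (nat_lit 152) (nat_lit 196433709198)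 (nat_lit 76) (nat_lit 181003262240) (nat_lit 18) (nat_lit 5) (nat_lit 20) (nat_lit 5) (nat_lit 19) (nat_lit 5) (nat_lit 330) (nat_lit 305) (nat_lit 145)) (XT.lf (nat_lit 0) (nat_lit 114619033291) (nat_lit 152) (nat_lit 16426183811) (nat_lit 76) (nat_lit 313781636143) (nat_lit 18) (nat_lit 5) (nat_lit 20) (nat_lit 5) (nat_lit 19) (nat_lit 5) (nat_lit 331) (nat_lit 305) (nat_lit 144))))))))
noncomputable def xc112 : XT := (XT.nd (nat_lit 38766) (nat_lit 0) (nat_lit 760) (XT.nd (nat_lit 1092) (nat_lit 228) (nat_lit 0) (XT.nd (nat_lit 546) (nat_lit 304) (nat_lit 0) (XT.nd (nat_lit 234) (nat_lit 228) (nat_lit 0) (XT.nd (nat_lit 78) (nat_lit 76) (nat_lit 0) (XT.lf (nat_lit 0) (nat_lit 187354027251) (nat_lit 152) (nat_lit 8624073706) (nat_lit 228) (nat_lit 274334082213) (nat_lit 16) (nat_lit 5) (nat_lit 18) (nat_lit 5) (nat_lit 19) (nat_lit 5) (nat_lit 332) (nat_lit 305) (nat_lit 143)) (XT.nd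 (nat_lit 78) (nat_lit 76) (nat_lit 0) (XT.lf (nat_lit 0) (nat_lit 287278965196) (nat_lit 228) (nat_lit 92413734745) (nat_lit 76) (nat_lit 117868993996) (nat_lit 16) (nat_lit 5) (nat_lit 19) (nat_lit 5) (nat_lit 17) (nat_lit 4) (nat_lit 333) (nat_lit 305) (nat_lit 142)) (XT.lf (nat_lit 0) (nat_lit 119108406906) (nat_lit 76) (nat_lit 269863983192) (nat_lit 152) (nat_lit 137771696277) (nat_lit 15) (nat_lit 5) (nat_lit 16) (nat_lit 5) (nat_lit 17) (nat_lit 4) (nat_lit 334) (nat_lit 305) (nat_lit 141)))) (XT.nd (nat_lit 156) (nat_lit 0) (nat_lit 0) (XT.nd (nat_lit 78) (nat_lit 228) (nat_lit 0) (XT.lf (nat_lit 0) (nat_lit 352807857606) (nat_lit 76) (nat_lit 148520118718) (nat_lit 152) (nat_lit 56730959015) (nat_lit 15) (nat_lit 5) (nat_lit 16) (nat_lit 5) (nat_lit 17) (nat_lit 4) (nat_lit 335) (nat_lit 305) (nat_lit 140)) (XT.lf (nat_lit 0) (nat_lit 13246241097) (nat_lit 152) (nat_lit 16324911457)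 (nat_lit 228) (nat_lit 562223093287) (nat_lit 12) (nat_lit 5) (nat_lit 14) (nat_lit 5) (nat_lit 15) (nat_lit 5) (nat_lit 336) (nat_lit 305) (nat_lit 139))) (XT.nd (nat_lit 78) (nat_lit 0) (nat_lit 0) (XT.lf (nat_lit 0) (nat_lit 128511144094) (nat_lit 228) (nat_lit 371543703526) (nat_lit 76) (nat_lit 127351758639) (nat_lit 12) (nat_lit 5) (nat_lit 15) (nat_lit 5) (nat_lit 13) (nat_lit 4) (nat_lit 337) (nat_lit 305) (nat_lit 138)) (XT.lf (nat_lit 0) (nat_lit 235790299884) (nat_lit 228) (nat_lit 148403183446) (nat_lit 76) (nat_lit 281640555073) (nat_lit 12) (nat_lit 5) (nat_lit 15) (nat_lit 5) (nat_lit 13) (nat_lit 4) (nat_lit 338) (nat_lit 305) (nat_lit 137))))) (XT.nd (nat_lit 234) (nat_lit 228) (nat_lit 0) (XT.nd (nat_lit 78) (nat_lit 0) (nat_lit 0) (XT.lf (nat_lit 0) (nat_lit 97464029698) (nat_lit 76) (nat_lit 256531716304) (nat_lit 152) (nat_lit 353152402570) (nat_lit 11) (nat_lit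 5) (nat_lit 12) (nat_lit 5) (nat_lit 13) (nat_lit 4) (nat_lit 339) (nat_lit 305) (nat_lit 136)) (XT.nd (nat_lit 78) (nat_lit 0) (nat_lit 0) (XT.lf (nat_lit 0) (nat_lit 371440348776) (nat_lit 76) (nat_lit 114274832495) (nat_lit 152) (nat_lit 265727602084) (nat_lit 11) (nat_lit 5) (nat_lit 12) (nat_lit 5) (nat_lit 13) (nat_lit 4) (nat_lit 340) (nat_lit 305) (nat_lit 135)) (XT.lf (nat_lit 0) (nat_lit 628918793340) (nat_lit 152) (nat_lit 132892975027) (nat_lit 0) (nat_lit 37393490863) (nat_lit 11) (nat_lit 5) (nat_lit 13) (nat_lit 4) (nat_lit 11) (nat_lit 4) (nat_lit 341) (nat_lit 305) (nat_lit 134)))) (XT.nd (nat_lit 156) (nat_lit 76) (nat_lit 0) (XT.nd (nat_lit 78) (nat_lit 76) (nat_lit 0) (XT.lf (nat_lit 0) (nat_lit 137916104483) (nat_lit 76) (nat_lit 651947607113) (nat_lit 76) (nat_lit 60422220268) (nat_lit 10) (nat_lit 4) (nat_lit 11) (nat_lit 5) (nat_lit 11) (nat_lit 4) (nat_lit 342)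 (nat_lit 305) (nat_lit 133)) (XT.lf (nat_lit 0) (nat_lit 59046067528) (nat_lit 152) (nat_lit 468709644504) (nat_lit 76) (nat_lit 377287080561) (nat_lit 9) (nat_lit 5) (nat_lit 11) (nat_lit 5) (nat_lit 10) (nat_lit 4) (nat_lit 343) (nat_lit 305) (nat_lit 132))) (XT.nd (nat_lit 78) (nat_lit 76) (nat_lit 0) (XT.lf (nat_lit 0) (nat_lit 184807406827) (nat_lit 152) (nat_lit 207126131093) (nat_lit 76) (nat_lit 572121115021) (nat_lit 9) (nat_lit 5) (nat_lit 11) (nat_lit 5) (nat_lit 10) (nat_lit 4) (nat_lit 344) (nat_lit 305) (nat_lit 131)) (XT.lf (nat_lit 0) (nat_lit 79353580714) (nat_lit 76) (nat_lit 243184488989) (nat_lit 152) (nat_lit 705096719150) (nat_lit 8) (nat_lit 5) (nat_lit 9) (nat_lit 5) (nat_lit 10) (nat_lit 4) (nat_lit 345) (nat_lit 305) (nat_lit 130)))))) (XT.nd (nat_lit 546) (nat_lit 76) (nat_lit 0) (XT.nd (nat_lit 234) (nat_lit 152) (nat_lit 0) (XT.nd (nat_lit 78) (nat_lit 0)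 (nat_lit 0) (XT.lf (nat_lit 0) (nat_lit 400531047683) (nat_lit 76) (nat_lit 76419295569) (nat_lit 152) (nat_lit 618897939818) (nat_lit 8) (nat_lit 5) (nat_lit 9) (nat_lit 5) (nat_lit 10) (nat_lit 4) (nat_lit 346) (nat_lit 305) (nat_lit 129)) (XT.nd (nat_lit 78) (nat_lit 0) (nat_lit 0) (XT.lf (nat_lit 0) (nat_lit 646209240536) (nat_lit 152) (nat_lit 424609887872) (nat_lit 0) (nat_lit 98500237108) (nat_lit 8) (nat_lit 5) (nat_lit 10) (nat_lit 4) (nat_lit 8) (nat_lit 4) (nat_lit 347) (nat_lit 305) (nat_lit 128)) (XT.lf (nat_lit 0) (nat_lit 830993733299) (nat_lit 152) (nat_lit 134230929961) (nat_lit 0) (nat_lit 283284680643) (nat_lit 8) (nat_lit 5) (nat_lit 10) (nat_lit 4) (nat_lit 8) (nat_lit 4) (nat_lit 348) (nat_lit 305) (nat_lit 127)))) (XT.nd (nat_lit 156) (nat_lit 76) (nat_lit 0) (XT.nd (nat_lit 78) (nat_lit 0) (nat_lit 0) (XT.lf (nat_lit 0) (nat_lit 188824031221) (nat_lit 76) (nat_lit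 846278146130) (nat_lit 76) (nat_lit 298569047892) (nat_lit 7) (nat_lit 4) (nat_lit 8) (nat_lit 5) (nat_lit 8) (nat_lit 4) (nat_lit 349) (nat_lit 305) (nat_lit 126)) (XT.lf (nat_lit 0) (nat_lit 545357166501) (nat_lit 76) (nat_lit 713852212260) (nat_lit 76) (nat_lit 166143071817) (nat_lit 7) (nat_lit 4) (nat_lit 8) (nat_lit 5) (nat_lit 8) (nat_lit 4) (nat_lit 350) (nat_lit 305) (nat_lit 125))) (XT.nd (nat_lit 78) (nat_lit 76) (nat_lit 0) (XT.lf (nat_lit 0) (nat_lit 930412901934) (nat_lit 76) (nat_lit 570832226878) (nat_lit 76) (nat_lit 23123047356) (nat_lit 7) (nat_lit 4) (nat_lit 8) (nat_lit 5) (nat_lit 8) (nat_lit 4) (nat_lit 351) (nat_lit 305) (nat_lit 124)) (XT.lf (nat_lit 0) (nat_lit 124768465287) (nat_lit 152) (nat_lit 288190807908) (nat_lit 76) (nat_lit 1218093193047) (nat_lit 6) (nat_lit 5) (nat_lit 8) (nat_lit 5) (nat_lit 7) (nat_lit 4) (nat_lit 352) (nat_lit 305) (nat_lit 123)))))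 (XT.nd (nat_lit 312) (nat_lit 0) (nat_lit 0) (XT.nd (nat_lit 156) (nat_lit 0) (nat_lit 0) (XT.nd (nat_lit 78) (nat_lit 0) (nat_lit 0) (XT.lf (nat_lit 0) (nat_lit 43616022441) (nat_lit 76) (nat_lit 240674973544) (nat_lit 152) (nat_lit 1461848540294) (nat_lit 5) (nat_lit 5) (nat_lit 6) (nat_lit 5) (nat_lit 7) (nat_lit 4) (nat_lit 353) (nat_lit 305) (nat_lit 122)) (XT.lf (nat_lit 0) (nat_lit 418357022217) (nat_lit 76) (nat_lit 46097930882) (nat_lit 152) (nat_lit 1405348248925) (nat_lit 5) (nat_lit 5) (nat_lit 6) (nat_lit 5) (nat_lit 7) (nat_lit 4) (nat_lit 354) (nat_lit 305) (nat_lit 121))) (XT.nd (nat_lit 78) (nat_lit 0) (nat_lit 0) (XT.lf (nat_lit 0) (nat_lit 662977297439) (nat_lit 152) (nat_lit 1184227993553) (nat_lit 0) (nat_lit 155839048406) (nat_lit 5) (nat_lit 5) (nat_lit 7) (nat_lit 4) (nat_lit 5) (nat_lit 4) (nat_lit 355) (nat_lit 305) (nat_lit 120)) (XT.lf (nat_lit 0) (nat_lit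 878578757661) (nat_lit 152) (nat_lit 896829739849) (nat_lit 0) (nat_lit 371440484002) (nat_lit 5) (nat_lit 5) (nat_lit 7) (nat_lit 4) (nat_lit 5) (nat_lit 4) (nat_lit 356) (nat_lit 305) (nat_lit 119)))) (XT.nd (nat_lit 36660) (nat_lit 0) (nat_lit 2812) (XT.nd (nat_lit 78) (nat_lit 0) (nat_lit 0) (XT.lf (nat_lit 0) (nat_lit 1111428315704) (nat_lit 152) (nat_lit 586439661587) (nat_lit 0) (nat_lit 604290019243) (nat_lit 5) (nat_lit 5) (nat_lit 7) (nat_lit 4) (nat_lit 5) (nat_lit 4) (nat_lit 357) (nat_lit 305) (nat_lit 118)) (XT.lf (nat_lit 0) (nat_lit 1362905820801) (nat_lit 152) (nat_lit 251218410154) (nat_lit 0) (nat_lit 855767503227) (nat_lit 5) (nat_lit 5) (nat_lit 7) (nat_lit 4) (nat_lit 5) (nat_lit 4) (nat_lit 358) (nat_lit 305) (nat_lit 117))) (XT.nd (nat_lit 78) (nat_lit 0) (nat_lit 0) (XT.lf (nat_lit 0) (nat_lit 38096428753) (nat_lit 532) (nat_lit 16209221373) (nat_lit 532) (nat_lit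 16209221373) (nat_lit 42) (nat_lit 3) (nat_lit 49) (nat_lit 3) (nat_lit 49) (nat_lit 5) (nat_lit 306) (nat_lit 306) (nat_lit 168)) (XT.lf (nat_lit 76) (nat_lit 32248826335) (nat_lit 0) (nat_lit 47770312905) (nat_lit 532) (nat_lit 66589496864) (nat_lit 43) (nat_lit 5) (nat_lit 42) (nat_lit 3) (nat_lit 49) (nat_lit 5) (nat_lit 307) (nat_lit 306) (nat_lit 167))))))) (XT.nd (nat_lit 1092) (nat_lit 1064) (nat_lit 0) (XT.nd (nat_lit 546) (nat_lit 760) (nat_lit 0) (XT.nd (nat_lit 234) (nat_lit 304) (nat_lit 0) (XT.nd (nat_lit 78) (nat_lit 0) (nat_lit 0) (XT.lf (nat_lit 0) (nat_lit 85492032901) (nat_lit 456) (nat_lit 49084417645) (nat_lit 532) (nat_lit 17950150481) (nat_lit 43) (nat_lit 5) (nat_lit 49) (nat_lit 5) (nat_lit 50) (nat_lit 5) (nat_lit 308) (nat_lit 306) (nat_lit 166)) (XT.nd (nat_lit 78) (nat_lit 0) (nat_lit 0) (XT.lf (nat_lit 76) (nat_lit 21234258106) (nat_lit 0) (nat_lit 71919694591)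 (nat_lit 532) (nat_lit 65623955914) (nat_lit 44) (nat_lit 5) (nat_lit 43) (nat_lit 5) (nat_lit 50) (nat_lit 5) (nat_lit 309) (nat_lit 306) (nat_lit 165)) (XT.lf (nat_lit 76) (nat_lit 99969722915) (nat_lit 0) (nat_lit 2800897217) (nat_lit 532) (nat_lit 62651358110) (nat_lit 44) (nat_lit 5) (nat_lit 43) (nat_lit 5) (nat_lit 50) (nat_lit 5) (nat_lit 310) (nat_lit 306) (nat_lit 164)))) (XT.nd (nat_lit 156) (nat_lit 380) (nat_lit 0) (XT.nd (nat_lit 78) (nat_lit 0) (nat_lit 0) (XT.lf (nat_lit 76) (nat_lit 11240633612) (nat_lit 0) (nat_lit 103914016884) (nat_lit 532) (nat_lit 57283081474) (nat_lit 45) (nat_lit 5) (nat_lit 44) (nat_lit 5) (nat_lit 51) (nat_lit 5) (nat_lit 311) (nat_lit 306) (nat_lit 163)) (XT.lf (nat_lit 76) (nat_lit 97714516613) (nat_lit 0) (nat_lit 32675149704) (nat_lit 532) (nat_lit 49476259462) (nat_lit 45) (nat_lit 5) (nat_lit 44) (nat_lit 5) (nat_lit 51) (nat_lit 5) (nat_lit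 312) (nat_lit 306) (nat_lit 162))) (XT.nd (nat_lit 78) (nat_lit 0) (nat_lit 0) (XT.lf (nat_lit 0) (nat_lit 2266609882) (nat_lit 456) (nat_lit 145695698913) (nat_lit 532) (nat_lit 39836561032) (nat_lit 39) (nat_lit 5) (nat_lit 45) (nat_lit 5) (nat_lit 46) (nat_lit 5) (nat_lit 313) (nat_lit 306) (nat_lit 161)) (XT.lf (nat_lit 0) (nat_lit 97216513921) (nat_lit 456) (nat_lit 72797435203) (nat_lit 532) (nat_lit 26106646066) (nat_lit 39) (nat_lit 5) (nat_lit 45) (nat_lit 5) (nat_lit 46) (nat_lit 5) (nat_lit 314) (nat_lit 306) (nat_lit 160))))) (XT.nd (nat_lit 234) (nat_lit 456) (nat_lit 0) (XT.nd (nat_lit 78) (nat_lit 304) (nat_lit 0) (XT.lf (nat_lit 0) (nat_lit 193972219325) (nat_lit 532) (nat_lit 5488515115) (nat_lit 76) (nat_lit 5635924905) (nat_lit 39) (nat_lit 5) (nat_lit 46) (nat_lit 5) (nat_lit 40) (nat_lit 5) (nat_lit 315) (nat_lit 306) (nat_lit 159)) (XT.nd (nat_lit 78) (nat_lit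 0) (nat_lit 0) (XT.lf (nat_lit 0) (nat_lit 9171997444) (nat_lit 304) (nat_lit 116249056760) (nat_lit 76) (nat_lit 89010539085) (nat_lit 35) (nat_lit 5) (nat_lit 39) (nat_lit 5) (nat_lit 36) (nat_lit 5) (nat_lit 316) (nat_lit 306) (nat_lit 158)) (XT.lf (nat_lit 0) (nat_lit 30644939387) (nat_lit 304) (nat_lit 14334928599) (nat_lit 76) (nat_lit 179498034908) (nat_lit 35) (nat_lit 5) (nat_lit 39) (nat_lit 5) (nat_lit 36) (nat_lit 5) (nat_lit 317) (nat_lit 306) (nat_lit 157)))) (XT.nd (nat_lit 156) (nat_lit 228) (nat_lit 0) (XT.nd (nat_lit 78) (nat_lit 0) (nat_lit 0) (XT.lf (nat_lit 0) (nat_lit 57329727656) (nat_lit 304) (nat_lit 135431354499) (nat_lit 76) (nat_lit 42287314714) (nat_lit 32) (nat_lit 5) (nat_lit 36) (nat_lit 5) (nat_lit 33) (nat_lit 5) (nat_lit 318) (nat_lit 306) (nat_lit 156)) (XT.lf (nat_lit 0) (nat_lit 87719583991) (nat_lit 304) (nat_lit 24111423612) (nat_lit 76) (nat_lit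 134507900408) (nat_lit 32) (nat_lit 5) (nat_lit 36) (nat_lit 5) (nat_lit 33) (nat_lit 5) (nat_lit 319) (nat_lit 306) (nat_lit 155))) (XT.nd (nat_lit 78) (nat_lit 0) (nat_lit 0) (XT.lf (nat_lit 0) (nat_lit 101175133183) (nat_lit 228) (nat_lit 21798624915) (nat_lit 304) (nat_lit 135364252015) (nat_lit 29) (nat_lit 5) (nat_lit 32) (nat_lit 5) (nat_lit 33) (nat_lit 5) (nat_lit 320) (nat_lit 306) (nat_lit 154)) (XT.lf (nat_lit 0) (nat_lit 163538755088) (nat_lit 304) (nat_lit 35219981804) (nat_lit 76) (nat_lit 72339064759) (nat_lit 29) (nat_lit 5) (nat_lit 33) (nat_lit 5) (nat_lit 30) (nat_lit 5) (nat_lit 321) (nat_lit 306) (nat_lit 153)))))) (XT.nd (nat_lit 546) (nat_lit 380) (nat_lit 0) (XT.nd (nat_lit 234) (nat_lit 304) (nat_lit 0) (XT.nd (nat_lit 78) (nat_lit 228) (nat_lit 0) (XT.lf (nat_lit 0) (nat_lit 100962550187) (nat_lit 152) (nat_lit 109380631604) (nat_lit 228) (nat_lit 74295656677)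 (nat_lit 27) (nat_lit 5) (nat_lit 29) (nat_lit 5) (nat_lit 30) (nat_lit 5) (nat_lit 322) (nat_lit 306) (nat_lit 152)) (XT.nd (nat_lit 78) (nat_lit 228) (nat_lit 0) (XT.lf (nat_lit 0) (nat_lit 250042527812) (nat_lit 152) (nat_lit 11812296991) (nat_lit 228) (nat_lit 37331304783) (nat_lit 27) (nat_lit 5) (nat_lit 29) (nat_lit 5) (nat_lit 30) (nat_lit 5) (nat_lit 323) (nat_lit 306) (nat_lit 151)) (XT.lf (nat_lit 0) (nat_lit 7208112717) (nat_lit 228) (nat_lit 215863425264) (nat_lit 76) (nat_lit 91440883591) (nat_lit 24) (nat_lit 5) (nat_lit 27) (nat_lit 5) (nat_lit 25) (nat_lit 5) (nat_lit 324) (nat_lit 306) (nat_lit 150)))) (XT.nd (nat_lit 156) (nat_lit 152) (nat_lit 0) (XT.nd (nat_lit 78) (nat_lit 152) (nat_lit 0) (XT.lf (nat_lit 0) (nat_lit 54979104946) (nat_lit 228) (nat_lit 71208986089) (nat_lit 76) (nat_lit 204664332085) (nat_lit 24) (nat_lit 5) (nat_lit 27) (nat_lit 5) (nat_lit 25)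 (nat_lit 5) (nat_lit 325) (nat_lit 306) (nat_lit 149)) (XT.lf (nat_lit 0) (nat_lit 89494551425) (nat_lit 152) (nat_lit 19229473796) (nat_lit 228) (nat_lit 239603419918) (nat_lit 22) (nat_lit 5) (nat_lit 24) (nat_lit 5) (nat_lit 25) (nat_lit 5) (nat_lit 326) (nat_lit 306) (nat_lit 148))) (XT.nd (nat_lit 78) (nat_lit 152) (nat_lit 0) (XT.lf (nat_lit 0) (nat_lit 171081672103) (nat_lit 228) (nat_lit 102307007948) (nat_lit 76) (nat_lit 93466738455) (nat_lit 22) (nat_lit 5) (nat_lit 25) (nat_lit 5) (nat_lit 23) (nat_lit 5) (nat_lit 327) (nat_lit 306) (nat_lit 147)) (XT.lf (nat_lit 0) (nat_lit 69729504424) (nat_lit 152) (nat_lit 170874802022) (nat_lit 228) (nat_lit 146087213445) (nat_lit 20) (nat_lit 5) (nat_lit 22) (nat_lit 5) (nat_lit 23) (nat_lit 5) (nat_lit 328) (nat_lit 306) (nat_lit 146))))) (XT.nd (nat_lit 312) (nat_lit 228) (nat_lit 0) (XT.nd (nat_lit 156) (nat_lit 76) (nat_lit 0)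 (XT.nd (nat_lit 78) (nat_lit 76) (nat_lit 0) (XT.lf (nat_lit 0) (nat_lit 261347101639) (nat_lit 152) (nat_lit 57138820834) (nat_lit 228) (nat_lit 89404813428) (nat_lit 20) (nat_lit 5) (nat_lit 22) (nat_lit 5) (nat_lit 23) (nat_lit 5) (nat_lit 329) (nat_lit 306) (nat_lit 145)) (XT.lf (nat_lit 0) (nat_lit 37820013958) (nat_lit 76) (nat_lit 367267538698) (nat_lit 152) (nat_lit 25499177925) (nat_lit 19) (nat_lit 5) (nat_lit 20) (nat_lit 5) (nat_lit 21) (nat_lit 4) (nat_lit 330) (nat_lit 306) (nat_lit 144))) (XT.nd (nat_lit 78) (nat_lit 0) (nat_lit 0) (XT.lf (nat_lit 0) (nat_lit 46936798147) (nat_lit 152) (nat_lit 212145994810) (nat_lit 76) (nat_lit 195484291023) (nat_lit 18) (nat_lit 5) (nat_lit 20) (nat_lit 5) (nat_lit 19) (nat_lit 5) (nat_lit 331) (nat_lit 306) (nat_lit 143)) (XT.lf (nat_lit 0) (nat_lit 123789962296) (nat_lit 152) (nat_lit 17738045994) (nat_lit 76) (nat_lit 338884877965)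 (nat_lit 18) (nat_lit 5) (nat_lit 20) (nat_lit 5) (nat_lit 19) (nat_lit 5) (nat_lit 332) (nat_lit 306) (nat_lit 142)))) (XT.nd (nat_lit 156) (nat_lit 76) (nat_lit 0) (XT.nd (nat_lit 78) (nat_lit 0) (nat_lit 0) (XT.lf (nat_lit 0) (nat_lit 202344525434) (nat_lit 152) (nat_lit 9313178101) (nat_lit 228) (nat_lit 296279343389) (nat_lit 16) (nat_lit 5) (nat_lit 18) (nat_lit 5) (nat_lit 19) (nat_lit 5) (nat_lit 333) (nat_lit 306) (nat_lit 141)) (XT.lf (nat_lit 0) (nat_lit 310262554873) (nat_lit 228) (nat_lit 99804734317) (nat_lit 76) (nat_lit 127299236114) (nat_lit 16) (nat_lit 5) (nat_lit 19) (nat_lit 5) (nat_lit 17) (nat_lit 4) (nat_lit 334) (nat_lit 306) (nat_lit 140))) (XT.nd (nat_lit 78) (nat_lit 0) (nat_lit 0) (XT.lf (nat_lit 0) (nat_lit 128639125522) (nat_lit 76) (nat_lit 291452283196) (nat_lit 152) (nat_lit 148792104195) (nat_lit 15) (nat_lit 5) (nat_lit 16) (nat_lit 5) (nat_lit 17)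 (nat_lit 4) (nat_lit 335) (nat_lit 306) (nat_lit 139)) (XT.lf (nat_lit 0) (nat_lit 381034380718) (nat_lit 76) (nat_lit 160400970206) (nat_lit 152) (nat_lit 61268206307) (nat_lit 15) (nat_lit 5) (nat_lit 16) (nat_lit 5) (nat_lit 17) (nat_lit 4) (nat_lit 336) (nat_lit 306) (nat_lit 138))))))))
noncomputable def xc113 : XT := (XT.nd (nat_lit 38844) (nat_lit 0) (nat_lit 456) (XT.nd (nat_lit 1092) (nat_lit 152) (nat_lit 0) (XT.nd (nat_lit 546) (nat_lit 228) (nat_lit 0) (XT.nd (nat_lit 234) (nat_lit 152) (nat_lit 0) (XT.nd (nat_lit 78) (nat_lit 0) (nat_lit 0) (XT.lf (nat_lit 0) (nat_lit 14307848690) (nat_lit 152) (nat_lit 17630123379) (nat_lit 228) (nat_lit 607199721527) (nat_lit 12) (nat_lit 5) (nat_lit 14) (nat_lit 5) (nat_lit 15) (nat_lit 5) (nat_lit 337) (nat_lit 306) (nat_lit 137)) (XT.nd (nat_lit 78) (nat_lit 0) (nat_lit 0) (XT.lf (nat_lit 0) (nat_lit 138793096818) (nat_lit 228) (nat_lit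 401265365147) (nat_lit 76) (nat_lit 137540586299) (nat_lit 12) (nat_lit 5) (nat_lit 15) (nat_lit 5) (nat_lit 13) (nat_lit 4) (nat_lit 338) (nat_lit 306) (nat_lit 136)) (XT.lf (nat_lit 0) (nat_lit 254654506465) (nat_lit 228) (nat_lit 160273739361) (nat_lit 76) (nat_lit 304172435562) (nat_lit 12) (nat_lit 5) (nat_lit 15) (nat_lit 5) (nat_lit 13) (nat_lit 4) (nat_lit 339) (nat_lit 306) (nat_lit 135)))) (XT.nd (nat_lit 156) (nat_lit 76) (nat_lit 0) (XT.nd (nat_lit 78) (nat_lit 0) (nat_lit 0) (XT.lf (nat_lit 0) (nat_lit 105262807828) (nat_lit 76) (nat_lit 277053547481) (nat_lit 152) (nat_lit 381403567808) (nat_lit 11) (nat_lit 5) (nat_lit 12) (nat_lit 5) (nat_lit 13) (nat_lit 4) (nat_lit 340) (nat_lit 306) (nat_lit 134)) (XT.lf (nat_lit 0) (nat_lit 401157109784) (nat_lit 76) (nat_lit 123416165272) (nat_lit 152) (nat_lit 286984859354) (nat_lit 11) (nat_lit 5) (nat_lit 12) (nat_lit 5) (nat_lit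 13) (nat_lit 4) (nat_lit 341) (nat_lit 306) (nat_lit 133))) (XT.nd (nat_lit 78) (nat_lit 76) (nat_lit 0) (XT.lf (nat_lit 0) (nat_lit 679233125519) (nat_lit 152) (nat_lit 143522941739) (nat_lit 0) (nat_lit 40385545239) (nat_lit 11) (nat_lit 5) (nat_lit 13) (nat_lit 4) (nat_lit 11) (nat_lit 4) (nat_lit 342) (nat_lit 306) (nat_lit 132)) (XT.lf (nat_lit 0) (nat_lit 148950826885) (nat_lit 76) (nat_lit 704102783453) (nat_lit 76) (nat_lit 65255130842) (nat_lit 10) (nat_lit 4) (nat_lit 11) (nat_lit 5) (nat_lit 11) (nat_lit 4) (nat_lit 343) (nat_lit 306) (nat_lit 131))))) (XT.nd (nat_lit 234) (nat_lit 76) (nat_lit 0) (XT.nd (nat_lit 78) (nat_lit 76) (nat_lit 0) (XT.lf (nat_lit 0) (nat_lit 63770515592) (nat_lit 152) (nat_lit 506205047152) (nat_lit 76) (nat_lit 407470591309) (nat_lit 9) (nat_lit 5) (nat_lit 11) (nat_lit 5) (nat_lit 10) (nat_lit 4) (nat_lit 344) (nat_lit 306) (nat_lit 130)) (XT.nd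 (nat_lit 78) (nat_lit 76) (nat_lit 0) (XT.lf (nat_lit 0) (nat_lit 199592705542) (nat_lit 152) (nat_lit 223694954070) (nat_lit 76) (nat_lit 617891308208) (nat_lit 9) (nat_lit 5) (nat_lit 11) (nat_lit 5) (nat_lit 10) (nat_lit 4) (nat_lit 345) (nat_lit 306) (nat_lit 129)) (XT.lf (nat_lit 0) (nat_lit 85703102594) (nat_lit 76) (nat_lit 262638696257) (nat_lit 152) (nat_lit 761503717624) (nat_lit 8) (nat_lit 5) (nat_lit 9) (nat_lit 5) (nat_lit 10) (nat_lit 4) (nat_lit 346) (nat_lit 306) (nat_lit 128)))) (XT.nd (nat_lit 156) (nat_lit 76) (nat_lit 0) (XT.nd (nat_lit 78) (nat_lit 0) (nat_lit 0) (XT.lf (nat_lit 0) (nat_lit 432574675407) (nat_lit 76) (nat_lit 82532328242) (nat_lit 152) (nat_lit 668409090691) (nat_lit 8) (nat_lit 5) (nat_lit 9) (nat_lit 5) (nat_lit 10) (nat_lit 4) (nat_lit 347) (nat_lit 306) (nat_lit 127)) (XT.lf (nat_lit 0) (nat_lit 697906577210) (nat_lit 152) (nat_lit 458577583535)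 (nat_lit 0) (nat_lit 106380705532) (nat_lit 8) (nat_lit 5) (nat_lit 10) (nat_lit 4) (nat_lit 8) (nat_lit 4) (nat_lit 348) (nat_lit 306) (nat_lit 126))) (XT.nd (nat_lit 78) (nat_lit 76) (nat_lit 0) (XT.lf (nat_lit 0) (nat_lit 897473785140) (nat_lit 152) (nat_lit 144968390129) (nat_lit 0) (nat_lit 305947871256) (nat_lit 8) (nat_lit 5) (nat_lit 10) (nat_lit 4) (nat_lit 8) (nat_lit 4) (nat_lit 349) (nat_lit 306) (nat_lit 125)) (XT.lf (nat_lit 0) (nat_lit 203930942271) (nat_lit 76) (nat_lit 913979945244) (nat_lit 76) (nat_lit 322453992282) (nat_lit 7) (nat_lit 4) (nat_lit 8) (nat_lit 5) (nat_lit 8) (nat_lit 4) (nat_lit 350) (nat_lit 306) (nat_lit 124)))))) (XT.nd (nat_lit 546) (nat_lit 0) (nat_lit 0) (XT.nd (nat_lit 234) (nat_lit 76) (nat_lit 0) (XT.nd (nat_lit 78) (nat_lit 76) (nat_lit 0) (XT.lf (nat_lit 0) (nat_lit 588986655148) (nat_lit 76) (nat_lit 770959970188) (nat_lit 76) (nat_lit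 179433981042) (nat_lit 7) (nat_lit 4) (nat_lit 8) (nat_lit 5) (nat_lit 8) (nat_lit 4) (nat_lit 351) (nat_lit 306) (nat_lit 123)) (XT.nd (nat_lit 78) (nat_lit 76) (nat_lit 0) (XT.lf (nat_lit 0) (nat_lit 1004846781613) (nat_lit 76) (nat_lit 616498417017) (nat_lit 76) (nat_lit 24972394367) (nat_lit 7) (nat_lit 4) (nat_lit 8) (nat_lit 5) (nat_lit 8) (nat_lit 4) (nat_lit 352) (nat_lit 306) (nat_lit 122)) (XT.lf (nat_lit 0) (nat_lit 134750379479) (nat_lit 152) (nat_lit 311245264354) (nat_lit 76) (nat_lit 1315540984319) (nat_lit 6) (nat_lit 5) (nat_lit 8) (nat_lit 5) (nat_lit 7) (nat_lit 4) (nat_lit 353) (nat_lit 306) (nat_lit 121)))) (XT.nd (nat_lit 156) (nat_lit 0) (nat_lit 0) (XT.nd (nat_lit 78) (nat_lit 0) (nat_lit 0) (XT.lf (nat_lit 0) (nat_lit 47106091963) (nat_lit 76) (nat_lit 259928607247) (nat_lit 152) (nat_lit 1578795965687) (nat_lit 5) (nat_lit 5) (nat_lit 6) (nat_lit 5) (nat_lit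 7) (nat_lit 4) (nat_lit 354) (nat_lit 306) (nat_lit 120)) (XT.lf (nat_lit 0) (nat_lit 451826313371) (nat_lit 76) (nat_lit 49785428149) (nat_lit 152) (nat_lit 1517775684922) (nat_lit 5) (nat_lit 5) (nat_lit 6) (nat_lit 5) (nat_lit 7) (nat_lit 4) (nat_lit 355) (nat_lit 306) (nat_lit 119))) (XT.nd (nat_lit 78) (nat_lit 0) (nat_lit 0) (XT.lf (nat_lit 0) (nat_lit 716015851865) (nat_lit 152) (nat_lit 1278965535805) (nat_lit 0) (nat_lit 168306468885) (nat_lit 5) (nat_lit 5) (nat_lit 7) (nat_lit 4) (nat_lit 5) (nat_lit 4) (nat_lit 356) (nat_lit 306) (nat_lit 118)) (XT.lf (nat_lit 0) (nat_lit 948865401452) (nat_lit 152) (nat_lit 968575473451) (nat_lit 0) (nat_lit 401155997359) (nat_lit 5) (nat_lit 5) (nat_lit 7) (nat_lit 4) (nat_lit 5) (nat_lit 4) (nat_lit 357) (nat_lit 306) (nat_lit 117))))) (XT.nd (nat_lit 36894) (nat_lit 0) (nat_lit 2888) (XT.nd (nat_lit 36738) (nat_lit 0) (nat_lit 2812)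 (XT.nd (nat_lit 36660) (nat_lit 0) (nat_lit 2812) (XT.lf (nat_lit 0) (nat_lit 1200342898718) (nat_lit 152) (nat_lit 633354236749) (nat_lit 0) (nat_lit 652633475076) (nat_lit 5) (nat_lit 5) (nat_lit 7) (nat_lit 4) (nat_lit 5) (nat_lit 4) (nat_lit 358) (nat_lit 306) (nat_lit 116)) (XT.lf (nat_lit 0) (nat_lit 41147053711) (nat_lit 532) (nat_lit 17504381852) (nat_lit 532) (nat_lit 17504381852) (nat_lit 42) (nat_lit 3) (nat_lit 49) (nat_lit 3) (nat_lit 49) (nat_lit 5) (nat_lit 307) (nat_lit 307) (nat_lit 166))) (XT.nd (nat_lit 78) (nat_lit 0) (nat_lit 76) (XT.lf (nat_lit 76) (nat_lit 34831807045) (nat_lit 0) (nat_lit 51594327385) (nat_lit 532) (nat_lit 71910735156) (nat_lit 43) (nat_lit 5) (nat_lit 42) (nat_lit 3) (nat_lit 49) (nat_lit 5) (nat_lit 308) (nat_lit 307) (nat_lit 165)) (XT.lf (nat_lit 0) (nat_lit 92336401630) (nat_lit 456) (nat_lit 53007847467) (nat_lit 532) (nat_lit 19384060743)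 (nat_lit 43) (nat_lit 5) (nat_lit 49) (nat_lit 5) (nat_lit 50) (nat_lit 5) (nat_lit 309) (nat_lit 307) (nat_lit 164)))) (XT.nd (nat_lit 156) (nat_lit 0) (nat_lit 76) (XT.nd (nat_lit 78) (nat_lit 0) (nat_lit 0) (XT.lf (nat_lit 76) (nat_lit 22936238203) (nat_lit 0) (nat_lit 77674743894) (nat_lit 532) (nat_lit 70868764760) (nat_lit 44) (nat_lit 5) (nat_lit 43) (nat_lit 5) (nat_lit 50) (nat_lit 5) (nat_lit 310) (nat_lit 307) (nat_lit 163)) (XT.lf (nat_lit 76) (nat_lit 107970300237) (nat_lit 0) (nat_lit 3026333564) (nat_lit 532) (nat_lit 67658737474) (nat_lit 44) (nat_lit 5) (nat_lit 43) (nat_lit 5) (nat_lit 50) (nat_lit 5) (nat_lit 311) (nat_lit 307) (nat_lit 162))) (XT.nd (nat_lit 78) (nat_lit 0) (nat_lit 0) (XT.lf (nat_lit 76) (nat_lit 12143195821) (nat_lit 0) (nat_lit 112227916765) (nat_lit 532) (nat_lit 61861295828) (nat_lit 45) (nat_lit 5) (nat_lit 44) (nat_lit 5) (nat_lit 51) (nat_lit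 5) (nat_lit 312) (nat_lit 307) (nat_lit 161)) (XT.lf (nat_lit 76) (nat_lit 105534744164) (nat_lit 0) (nat_lit 35289882543) (nat_lit 532) (nat_lit 53430256364) (nat_lit 45) (nat_lit 5) (nat_lit 44) (nat_lit 5) (nat_lit 51) (nat_lit 5) (nat_lit 313) (nat_lit 307) (nat_lit 160))))))) (XT.nd (nat_lit 1170) (nat_lit 836) (nat_lit 0) (XT.nd (nat_lit 546) (nat_lit 760) (nat_lit 0) (XT.nd (nat_lit 234) (nat_lit 532) (nat_lit 0) (XT.nd (nat_lit 78) (nat_lit 0) (nat_lit 0) (XT.lf (nat_lit 0) (nat_lit 2451252918) (nat_lit 456) (nat_lit 157351610795) (nat_lit 532) (nat_lit 43019617302) (nat_lit 39) (nat_lit 5) (nat_lit 45) (nat_lit 5) (nat_lit 46) (nat_lit 5) (nat_lit 314) (nat_lit 307) (nat_lit 159)) (XT.nd (nat_lit 78) (nat_lit 0) (nat_lit 0) (XT.lf (nat_lit 0) (nat_lit 104996903780) (nat_lit 456) (nat_lit 78621467027) (nat_lit 532) (nat_lit 28191595702) (nat_lit 39) (nat_lit 5) (nat_lit 45)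 (nat_lit 5) (nat_lit 46) (nat_lit 5) (nat_lit 315) (nat_lit 307) (nat_lit 158)) (XT.lf (nat_lit 0) (nat_lit 209493052476) (nat_lit 532) (nat_lit 5924493786) (nat_lit 76) (nat_lit 6086590424) (nat_lit 39) (nat_lit 5) (nat_lit 46) (nat_lit 5) (nat_lit 40) (nat_lit 5) (nat_lit 316) (nat_lit 307) (nat_lit 157)))) (XT.nd (nat_lit 156) (nat_lit 228) (nat_lit 0) (XT.nd (nat_lit 78) (nat_lit 0) (nat_lit 0) (XT.lf (nat_lit 0) (nat_lit 9908744246) (nat_lit 304) (nat_lit 125545790623) (nat_lit 76) (nat_lit 96131337528) (nat_lit 35) (nat_lit 5) (nat_lit 39) (nat_lit 5) (nat_lit 36) (nat_lit 5) (nat_lit 317) (nat_lit 307) (nat_lit 156)) (XT.lf (nat_lit 0) (nat_lit 33099300285) (nat_lit 304) (nat_lit 15478768555) (nat_lit 76) (nat_lit 193857836326) (nat_lit 35) (nat_lit 5) (nat_lit 39) (nat_lit 5) (nat_lit 36) (nat_lit 5) (nat_lit 318) (nat_lit 307) (nat_lit 155))) (XT.nd (nat_lit 78) (nat_lit 0)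 (nat_lit 0) (XT.lf (nat_lit 0) (nat_lit 61918741997) (nat_lit 304) (nat_lit 146262770854) (nat_lit 76) (nat_lit 45670536823) (nat_lit 32) (nat_lit 5) (nat_lit 36) (nat_lit 5) (nat_lit 33) (nat_lit 5) (nat_lit 319) (nat_lit 307) (nat_lit 154)) (XT.lf (nat_lit 0) (nat_lit 94739591569) (nat_lit 304) (nat_lit 26037474533) (nat_lit 76) (nat_lit 145268751822) (nat_lit 32) (nat_lit 5) (nat_lit 36) (nat_lit 5) (nat_lit 33) (nat_lit 5) (nat_lit 320) (nat_lit 307) (nat_lit 153))))) (XT.nd (nat_lit 312) (nat_lit 380) (nat_lit 0) (XT.nd (nat_lit 156) (nat_lit 152) (nat_lit 0) (XT.nd (nat_lit 78) (nat_lit 0) (nat_lit 0) (XT.lf (nat_lit 0) (nat_lit 109271934325) (nat_lit 228) (nat_lit 23542051587) (nat_lit 304) (nat_lit 146190871931) (nat_lit 29) (nat_lit 5) (nat_lit 32) (nat_lit 5) (nat_lit 33) (nat_lit 5) (nat_lit 321) (nat_lit 307) (nat_lit 152)) (XT.lf (nat_lit 0) (nat_lit 176624020596) (nat_lit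 304) (nat_lit 38034828104) (nat_lit 76) (nat_lit 78126597481) (nat_lit 29) (nat_lit 5) (nat_lit 33) (nat_lit 5) (nat_lit 30) (nat_lit 5) (nat_lit 322) (nat_lit 307) (nat_lit 151))) (XT.nd (nat_lit 78) (nat_lit 0) (nat_lit 0) (XT.lf (nat_lit 0) (nat_lit 109042236769) (nat_lit 152) (nat_lit 118130468805) (nat_lit 228) (nat_lit 80237068512) (nat_lit 27) (nat_lit 5) (nat_lit 29) (nat_lit 5) (nat_lit 30) (nat_lit 5) (nat_lit 323) (nat_lit 307) (nat_lit 150)) (XT.lf (nat_lit 0) (nat_lit 270048413895) (nat_lit 152) (nat_lit 12756712854) (nat_lit 228) (nat_lit 40315734445) (nat_lit 27) (nat_lit 5) (nat_lit 29) (nat_lit 5) (nat_lit 30) (nat_lit 5) (nat_lit 324) (nat_lit 307) (nat_lit 149)))) (XT.nd (nat_lit 156) (nat_lit 152) (nat_lit 0) (XT.nd (nat_lit 78) (nat_lit 0) (nat_lit 0) (XT.lf (nat_lit 0) (nat_lit 7786662875) (nat_lit 228) (nat_lit 233129832072) (nat_lit 76) (nat_lit 98756763560)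 (nat_lit 24) (nat_lit 5) (nat_lit 27) (nat_lit 5) (nat_lit 25) (nat_lit 5) (nat_lit 325) (nat_lit 307) (nat_lit 148)) (XT.lf (nat_lit 0) (nat_lit 59379193658) (nat_lit 228) (nat_lit 76903235333) (nat_lit 76) (nat_lit 221038042802) (nat_lit 24) (nat_lit 5) (nat_lit 27) (nat_lit 5) (nat_lit 25) (nat_lit 5) (nat_lit 326) (nat_lit 307) (nat_lit 147))) (XT.nd (nat_lit 78) (nat_lit 0) (nat_lit 0) (XT.lf (nat_lit 0) (nat_lit 96656522659) (nat_lit 152) (nat_lit 20767112393) (nat_lit 228) (nat_lit 258769866644) (nat_lit 22) (nat_lit 5) (nat_lit 24) (nat_lit 5) (nat_lit 25) (nat_lit 5) (nat_lit 327) (nat_lit 307) (nat_lit 146)) (XT.lf (nat_lit 0) (nat_lit 184769784679) (nat_lit 228) (nat_lit 110489227033) (nat_lit 76) (nat_lit 100944710239) (nat_lit 22) (nat_lit 5) (nat_lit 25) (nat_lit 5) (nat_lit 23) (nat_lit 5) (nat_lit 328) (nat_lit 307) (nat_lit 145)))))) (XT.nd (nat_lit 546) (nat_lit 380)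 (nat_lit 0) (XT.nd (nat_lit 234) (nat_lit 228) (nat_lit 0) (XT.nd (nat_lit 78) (nat_lit 76) (nat_lit 0) (XT.lf (nat_lit 0) (nat_lit 75310147049) (nat_lit 152) (nat_lit 184544020660) (nat_lit 228) (nat_lit 157772548978) (nat_lit 20) (nat_lit 5) (nat_lit 22) (nat_lit 5) (nat_lit 23) (nat_lit 5) (nat_lit 329) (nat_lit 307) (nat_lit 144)) (XT.nd (nat_lit 78) (nat_lit 76) (nat_lit 0) (XT.lf (nat_lit 0) (nat_lit 282256982984) (nat_lit 152) (nat_lit 61709217683) (nat_lit 228) (nat_lit 96555678555) (nat_lit 20) (nat_lit 5) (nat_lit 22) (nat_lit 5) (nat_lit 23) (nat_lit 5) (nat_lit 330) (nat_lit 307) (nat_lit 143)) (XT.lf (nat_lit 0) (nat_lit 40847770799) (nat_lit 76) (nat_lit 396648154066) (nat_lit 152) (nat_lit 27537631761) (nat_lit 19) (nat_lit 5) (nat_lit 20) (nat_lit 5) (nat_lit 21) (nat_lit 4) (nat_lit 331) (nat_lit 307) (nat_lit 142)))) (XT.nd (nat_lit 156) (nat_lit 152) (nat_lit 0) (XT.nd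 (nat_lit 78) (nat_lit 0) (nat_lit 0) (XT.lf (nat_lit 0) (nat_lit 50693044168) (nat_lit 152) (nat_lit 229115607244) (nat_lit 76) (nat_lit 211123692574) (nat_lit 18) (nat_lit 5) (nat_lit 20) (nat_lit 5) (nat_lit 19) (nat_lit 5) (nat_lit 332) (nat_lit 307) (nat_lit 141)) (XT.lf (nat_lit 0) (nat_lit 133694364992) (nat_lit 152) (nat_lit 19155175645) (nat_lit 76) (nat_lit 365996277710) (nat_lit 18) (nat_lit 5) (nat_lit 20) (nat_lit 5) (nat_lit 19) (nat_lit 5) (nat_lit 333) (nat_lit 307) (nat_lit 140))) (XT.nd (nat_lit 78) (nat_lit 0) (nat_lit 0) (XT.lf (nat_lit 0) (nat_lit 218533953041) (nat_lit 152) (nat_lit 10057528045) (nat_lit 228) (nat_lit 319980434515) (nat_lit 16) (nat_lit 5) (nat_lit 18) (nat_lit 5) (nat_lit 19) (nat_lit 5) (nat_lit 334) (nat_lit 307) (nat_lit 139)) (XT.lf (nat_lit 0) (nat_lit 335084650194) (nat_lit 228) (nat_lit 107787313329) (nat_lit 76) (nat_lit 137483794515) (nat_lit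 16) (nat_lit 5) (nat_lit 19) (nat_lit 5) (nat_lit 17) (nat_lit 4) (nat_lit 335) (nat_lit 307) (nat_lit 138))))) (XT.nd (nat_lit 312) (nat_lit 76) (nat_lit 0) (XT.nd (nat_lit 156) (nat_lit 228) (nat_lit 0) (XT.nd (nat_lit 78) (nat_lit 0) (nat_lit 0) (XT.lf (nat_lit 0) (nat_lit 138932009734) (nat_lit 76) (nat_lit 314767763991) (nat_lit 152) (nat_lit 160694334171) (nat_lit 15) (nat_lit 5) (nat_lit 16) (nat_lit 5) (nat_lit 17) (nat_lit 4) (nat_lit 336) (nat_lit 307) (nat_lit 137)) (XT.lf (nat_lit 0) (nat_lit 411518755407) (nat_lit 76) (nat_lit 173232397952) (nat_lit 152) (nat_lit 66168608775) (nat_lit 15) (nat_lit 5) (nat_lit 16) (nat_lit 5) (nat_lit 17) (nat_lit 4) (nat_lit 337) (nat_lit 307) (nat_lit 136))) (XT.nd (nat_lit 78) (nat_lit 0) (nat_lit 0) (XT.lf (nat_lit 0) (nat_lit 15454112649) (nat_lit 152) (nat_lit 19039863672) (nat_lit 228) (nat_lit 655774653963) (nat_lit 12) (nat_lit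 5) (nat_lit 14) (nat_lit 5) (nat_lit 15) (nat_lit 5) (nat_lit 338) (nat_lit 307) (nat_lit 135)) (XT.lf (nat_lit 0) (nat_lit 149897454369) (nat_lit 228) (nat_lit 433365021432) (nat_lit 76) (nat_lit 148544422168) (nat_lit 12) (nat_lit 5) (nat_lit 15) (nat_lit 5) (nat_lit 13) (nat_lit 4) (nat_lit 339) (nat_lit 307) (nat_lit 134)))) (XT.nd (nat_lit 156) (nat_lit 0) (nat_lit 0) (XT.nd (nat_lit 78) (nat_lit 76) (nat_lit 0) (XT.lf (nat_lit 0) (nat_lit 275027709394) (nat_lit 228) (nat_lit 173094182096) (nat_lit 76) (nat_lit 328506775745) (nat_lit 12) (nat_lit 5) (nat_lit 15) (nat_lit 5) (nat_lit 13) (nat_lit 4) (nat_lit 340) (nat_lit 307) (nat_lit 133)) (XT.lf (nat_lit 0) (nat_lit 113685251997) (nat_lit 76) (nat_lit 299217225888) (nat_lit 152) (nat_lit 411914972773) (nat_lit 11) (nat_lit 5) (nat_lit 12) (nat_lit 5) (nat_lit 13) (nat_lit 4) (nat_lit 341) (nat_lit 307) (nat_lit 132))) (XT.nd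 (nat_lit 78) (nat_lit 0) (nat_lit 0) (XT.lf (nat_lit 0) (nat_lit 433250992957) (nat_lit 76) (nat_lit 133288897947) (nat_lit 152) (nat_lit 309942832862) (nat_lit 11) (nat_lit 5) (nat_lit 12) (nat_lit 5) (nat_lit 13) (nat_lit 4) (nat_lit 342) (nat_lit 307) (nat_lit 131)) (XT.lf (nat_lit 0) (nat_lit 733572486046) (nat_lit 152) (nat_lit 155003515683) (nat_lit 0) (nat_lit 43616881920) (nat_lit 11) (nat_lit 5) (nat_lit 13) (nat_lit 4) (nat_lit 11) (nat_lit 4) (nat_lit 343) (nat_lit 307) (nat_lit 130))))))))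
noncomputable def xc114 : XT := (XT.nd (nat_lit 39000) (nat_lit 0) (nat_lit 152) (XT.nd (nat_lit 37830) (nat_lit 0) (nat_lit 1824) (XT.nd (nat_lit 546) (nat_lit 228) (nat_lit 0) (XT.nd (nat_lit 234) (nat_lit 76) (nat_lit 0) (XT.nd (nat_lit 78) (nat_lit 76) (nat_lit 0) (XT.lf (nat_lit 0) (nat_lit 160868122497) (nat_lit 76) (nat_lit 760430464095) (nat_lit 76) (nat_lit 70474797955) (nat_lit 10) (nat_lit 4) (nat_lit 11) (nat_lit 5) (nat_lit 11) (nat_lit 4) (nat_lit 344) (nat_lit 307) (nat_lit 129)) (XT.nd (nat_lit 78) (nat_lit 0) (nat_lit 0) (XT.lf (nat_lit 0) (nat_lit 68872810699) (nat_lit 152) (nat_lit 546700277303) (nat_lit 76) (nat_lit 440068705266) (nat_lit 9) (nat_lit 5) (nat_lit 11) (nat_lit 5) (nat_lit 10) (nat_lit 4) (nat_lit 345) (nat_lit 307) (nat_lit 128)) (XT.lf (nat_lit 0) (nat_lit 215560727411) (nat_lit 152) (nat_lit 241589463709) (nat_lit 76) (nat_lit 667323044950) (nat_lit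 9) (nat_lit 5) (nat_lit 11) (nat_lit 5) (nat_lit 10) (nat_lit 4) (nat_lit 346) (nat_lit 307) (nat_lit 127)))) (XT.nd (nat_lit 156) (nat_lit 0) (nat_lit 0) (XT.nd (nat_lit 78) (nat_lit 0) (nat_lit 0) (XT.lf (nat_lit 0) (nat_lit 92560409976) (nat_lit 76) (nat_lit 283649318835) (nat_lit 152) (nat_lit 822423381411) (nat_lit 8) (nat_lit 5) (nat_lit 9) (nat_lit 5) (nat_lit 10) (nat_lit 4) (nat_lit 347) (nat_lit 307) (nat_lit 126)) (XT.lf (nat_lit 0) (nat_lit 467181630157) (nat_lit 76) (nat_lit 89134476425) (nat_lit 152) (nat_lit 721881231258) (nat_lit 8) (nat_lit 5) (nat_lit 9) (nat_lit 5) (nat_lit 10) (nat_lit 4) (nat_lit 348) (nat_lit 307) (nat_lit 125))) (XT.nd (nat_lit 78) (nat_lit 0) (nat_lit 0) (XT.lf (nat_lit 0) (nat_lit 753739615588) (nat_lit 152) (nat_lit 495262851117) (nat_lit 0) (nat_lit 114891547310) (nat_lit 8) (nat_lit 5) (nat_lit 10) (nat_lit 4) (nat_lit 8) (nat_lit 4) (nat_lit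 349) (nat_lit 307) (nat_lit 124)) (XT.lf (nat_lit 0) (nat_lit 969272162211) (nat_lit 152) (nat_lit 156564991802) (nat_lit 0) (nat_lit 330424057749) (nat_lit 8) (nat_lit 5) (nat_lit 10) (nat_lit 4) (nat_lit 8) (nat_lit 4) (nat_lit 350) (nat_lit 307) (nat_lit 123))))) (XT.nd (nat_lit 234) (nat_lit 152) (nat_lit 0) (XT.nd (nat_lit 78) (nat_lit 0) (nat_lit 0) (XT.lf (nat_lit 0) (nat_lit 220246265177) (nat_lit 76) (nat_lit 987097952852) (nat_lit 76) (nat_lit 348249814886) (nat_lit 7) (nat_lit 4) (nat_lit 8) (nat_lit 5) (nat_lit 8) (nat_lit 4) (nat_lit 351) (nat_lit 307) (nat_lit 122)) (XT.nd (nat_lit 78) (nat_lit 0) (nat_lit 0) (XT.lf (nat_lit 0) (nat_lit 636106372304) (nat_lit 76) (nat_lit 832636408534) (nat_lit 76) (nat_lit 193788239546) (nat_lit 7) (nat_lit 4) (nat_lit 8) (nat_lit 5) (nat_lit 8) (nat_lit 4) (nat_lit 352) (nat_lit 307) (nat_lit 121)) (XT.lf (nat_lit 0) (nat_lit 1085235250757)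 (nat_lit 76) (nat_lit 665817957721) (nat_lit 76) (nat_lit 26969760009) (nat_lit 7) (nat_lit 4) (nat_lit 8) (nat_lit 5) (nat_lit 8) (nat_lit 4) (nat_lit 353) (nat_lit 307) (nat_lit 120)))) (XT.nd (nat_lit 156) (nat_lit 0) (nat_lit 0) (XT.nd (nat_lit 78) (nat_lit 76) (nat_lit 0) (XT.lf (nat_lit 0) (nat_lit 145530784468) (nat_lit 152) (nat_lit 336144192612) (nat_lit 76) (nat_lit 1420784550982) (nat_lit 6) (nat_lit 5) (nat_lit 8) (nat_lit 5) (nat_lit 7) (nat_lit 4) (nat_lit 354) (nat_lit 307) (nat_lit 119)) (XT.lf (nat_lit 0) (nat_lit 50875254668) (nat_lit 76) (nat_lit 280722583601) (nat_lit 152) (nat_lit 1705099250426) (nat_lit 5) (nat_lit 5) (nat_lit 6) (nat_lit 5) (nat_lit 7) (nat_lit 4) (nat_lit 355) (nat_lit 307) (nat_lit 118))) (XT.nd (nat_lit 78) (nat_lit 0) (nat_lit 0) (XT.lf (nat_lit 0) (nat_lit 487973043763) (nat_lit 76) (nat_lit 53767973303) (nat_lit 152) (nat_lit 1639197376275)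 (nat_lit 5) (nat_lit 5) (nat_lit 6) (nat_lit 5) (nat_lit 7) (nat_lit 4) (nat_lit 356) (nat_lit 307) (nat_lit 117)) (XT.lf (nat_lit 0) (nat_lit 773297437772) (nat_lit 152) (nat_lit 1381282180905) (nat_lit 0) (nat_lit 181771240689) (nat_lit 5) (nat_lit 5) (nat_lit 7) (nat_lit 4) (nat_lit 5) (nat_lit 4) (nat_lit 357) (nat_lit 307) (nat_lit 116)))))) (XT.nd (nat_lit 546) (nat_lit 988) (nat_lit 0) (XT.nd (nat_lit 234) (nat_lit 0) (nat_lit 76) (XT.nd (nat_lit 78) (nat_lit 0) (nat_lit 0) (XT.lf (nat_lit 0) (nat_lit 44441313428) (nat_lit 532) (nat_lit 18903380178) (nat_lit 532) (nat_lit 18903380178) (nat_lit 42) (nat_lit 3) (nat_lit 49) (nat_lit 3) (nat_lit 49) (nat_lit 5) (nat_lit 308) (nat_lit 308) (nat_lit 164)) (XT.nd (nat_lit 78) (nat_lit 0) (nat_lit 76) (XT.lf (nat_lit 76) (nat_lit 37620987585) (nat_lit 0) (nat_lit 55723922142) (nat_lit 532) (nat_lit 77658517272) (nat_lit 43) (nat_lit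 5) (nat_lit 42) (nat_lit 3) (nat_lit 49) (nat_lit 5) (nat_lit 309) (nat_lit 308) (nat_lit 163)) (XT.lf (nat_lit 0) (nat_lit 99727605682) (nat_lit 456) (nat_lit 57245625822) (nat_lit 532) (nat_lit 20932983669) (nat_lit 43) (nat_lit 5) (nat_lit 49) (nat_lit 5) (nat_lit 50) (nat_lit 5) (nat_lit 310) (nat_lit 308) (nat_lit 162)))) (XT.nd (nat_lit 156) (nat_lit 0) (nat_lit 76) (XT.nd (nat_lit 78) (nat_lit 0) (nat_lit 0) (XT.lf (nat_lit 76) (nat_lit 24773914563) (nat_lit 0) (nat_lit 83889986896) (nat_lit 532) (nat_lit 76533886973) (nat_lit 44) (nat_lit 5) (nat_lit 43) (nat_lit 5) (nat_lit 50) (nat_lit 5) (nat_lit 311) (nat_lit 308) (nat_lit 161)) (XT.lf (nat_lit 76) (nat_lit 116610495834) (nat_lit 0) (nat_lit 3269610148) (nat_lit 532) (nat_lit 73067381872) (nat_lit 44) (nat_lit 5) (nat_lit 43) (nat_lit 5) (nat_lit 50) (nat_lit 5) (nat_lit 312) (nat_lit 308) (nat_lit 160))) (XT.nd (nat_lit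 78) (nat_lit 0) (nat_lit 0) (XT.lf (nat_lit 76) (nat_lit 13117490581) (nat_lit 0) (nat_lit 121206817571) (nat_lit 532) (nat_lit 66806399629) (nat_lit 45) (nat_lit 5) (nat_lit 44) (nat_lit 5) (nat_lit 51) (nat_lit 5) (nat_lit 313) (nat_lit 308) (nat_lit 159)) (XT.lf (nat_lit 76) (nat_lit 113980152488) (nat_lit 0) (nat_lit 38113691169) (nat_lit 532) (nat_lit 57701158479) (nat_lit 45) (nat_lit 5) (nat_lit 44) (nat_lit 5) (nat_lit 51) (nat_lit 5) (nat_lit 314) (nat_lit 308) (nat_lit 158))))) (XT.nd (nat_lit 312) (nat_lit 456) (nat_lit 0) (XT.nd (nat_lit 156) (nat_lit 304) (nat_lit 0) (XT.nd (nat_lit 78) (nat_lit 0) (nat_lit 0) (XT.lf (nat_lit 0) (nat_lit 2650194582) (nat_lit 456) (nat_lit 169939959110) (nat_lit 532) (nat_lit 46457869974) (nat_lit 39) (nat_lit 5) (nat_lit 45) (nat_lit 5) (nat_lit 46) (nat_lit 5) (nat_lit 315) (nat_lit 308) (nat_lit 157)) (XT.lf (nat_lit 0) (nat_lit 113399287038)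 (nat_lit 456) (nat_lit 84911387586) (nat_lit 532) (nat_lit 30443852329) (nat_lit 39) (nat_lit 5) (nat_lit 45) (nat_lit 5) (nat_lit 46) (nat_lit 5) (nat_lit 316) (nat_lit 308) (nat_lit 156))) (XT.nd (nat_lit 78) (nat_lit 304) (nat_lit 0) (XT.lf (nat_lit 0) (nat_lit 226255116364) (nat_lit 532) (nat_lit 6395793363) (nat_lit 76) (nat_lit 6573338925) (nat_lit 39) (nat_lit 5) (nat_lit 46) (nat_lit 5) (nat_lit 40) (nat_lit 5) (nat_lit 317) (nat_lit 308) (nat_lit 155)) (XT.lf (nat_lit 0) (nat_lit 10704004662) (nat_lit 304) (nat_lit 135586718380) (nat_lit 76) (nat_lit 103821806221) (nat_lit 35) (nat_lit 5) (nat_lit 39) (nat_lit 5) (nat_lit 36) (nat_lit 5) (nat_lit 318) (nat_lit 308) (nat_lit 154)))) (XT.nd (nat_lit 156) (nat_lit 228) (nat_lit 0) (XT.nd (nat_lit 78) (nat_lit 228) (nat_lit 0) (XT.lf (nat_lit 0) (nat_lit 35749615490) (nat_lit 304) (nat_lit 16714537176) (nat_lit 76) (nat_lit 209366427761)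 (nat_lit 35) (nat_lit 5) (nat_lit 39) (nat_lit 5) (nat_lit 36) (nat_lit 5) (nat_lit 319) (nat_lit 308) (nat_lit 153)) (XT.lf (nat_lit 0) (nat_lit 66874501412) (nat_lit 304) (nat_lit 157961141626) (nat_lit 76) (nat_lit 49324382900) (nat_lit 32) (nat_lit 5) (nat_lit 36) (nat_lit 5) (nat_lit 33) (nat_lit 5) (nat_lit 320) (nat_lit 308) (nat_lit 152))) (XT.nd (nat_lit 78) (nat_lit 228) (nat_lit 0) (XT.lf (nat_lit 0) (nat_lit 102320851538) (nat_lit 304) (nat_lit 28118017962) (nat_lit 76) (nat_lit 156890440052) (nat_lit 32) (nat_lit 5) (nat_lit 36) (nat_lit 5) (nat_lit 33) (nat_lit 5) (nat_lit 321) (nat_lit 308) (nat_lit 151)) (XT.lf (nat_lit 0) (nat_lit 118016081465) (nat_lit 228) (nat_lit 25425018490) (nat_lit 304) (nat_lit 157883980982) (nat_lit 29) (nat_lit 5) (nat_lit 32) (nat_lit 5) (nat_lit 33) (nat_lit 5) (nat_lit 322) (nat_lit 308) (nat_lit 150))))))) (XT.nd (nat_lit 1170) (nat_lit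 608) (nat_lit 0) (XT.nd (nat_lit 546) (nat_lit 532) (nat_lit 0) (XT.nd (nat_lit 234) (nat_lit 380) (nat_lit 0) (XT.nd (nat_lit 78) (nat_lit 152) (nat_lit 0) (XT.lf (nat_lit 0) (nat_lit 190755798469) (nat_lit 304) (nat_lit 41075254746) (nat_lit 76) (nat_lit 84377074680) (nat_lit 29) (nat_lit 5) (nat_lit 33) (nat_lit 5) (nat_lit 30) (nat_lit 5) (nat_lit 323) (nat_lit 308) (nat_lit 149)) (XT.nd (nat_lit 78) (nat_lit 0) (nat_lit 0) (XT.lf (nat_lit 0) (nat_lit 117767915580) (nat_lit 152) (nat_lit 127580380479) (nat_lit 228) (nat_lit 86654112956) (nat_lit 27) (nat_lit 5) (nat_lit 29) (nat_lit 5) (nat_lit 30) (nat_lit 5) (nat_lit 324) (nat_lit 308) (nat_lit 148)) (XT.lf (nat_lit 0) (nat_lit 291654416515) (nat_lit 152) (nat_lit 13776763002) (nat_lit 228) (nat_lit 43539214462) (nat_lit 27) (nat_lit 5) (nat_lit 29) (nat_lit 5) (nat_lit 30) (nat_lit 5) (nat_lit 325) (nat_lit 308) (nat_lit 147))))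 (XT.nd (nat_lit 156) (nat_lit 152) (nat_lit 0) (XT.nd (nat_lit 78) (nat_lit 0) (nat_lit 0) (XT.lf (nat_lit 0) (nat_lit 8411225827) (nat_lit 228) (nat_lit 251777931931) (nat_lit 76) (nat_lit 106657827006) (nat_lit 24) (nat_lit 5) (nat_lit 27) (nat_lit 5) (nat_lit 25) (nat_lit 5) (nat_lit 326) (nat_lit 308) (nat_lit 146)) (XT.lf (nat_lit 0) (nat_lit 64131038337) (nat_lit 228) (nat_lit 83053376839) (nat_lit 76) (nat_lit 238721569894) (nat_lit 24) (nat_lit 5) (nat_lit 27) (nat_lit 5) (nat_lit 25) (nat_lit 5) (nat_lit 327) (nat_lit 308) (nat_lit 145))) (XT.nd (nat_lit 78) (nat_lit 0) (nat_lit 0) (XT.lf (nat_lit 0) (nat_lit 104391108190) (nat_lit 152) (nat_lit 22427864695) (nat_lit 228) (nat_lit 279469889731) (nat_lit 22) (nat_lit 5) (nat_lit 24) (nat_lit 5) (nat_lit 25) (nat_lit 5) (nat_lit 328) (nat_lit 308) (nat_lit 144)) (XT.lf (nat_lit 0) (nat_lit 199552721027) (nat_lit 228) (nat_lit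 119326357693) (nat_lit 76) (nat_lit 109020829503) (nat_lit 22) (nat_lit 5) (nat_lit 25) (nat_lit 5) (nat_lit 23) (nat_lit 5) (nat_lit 329) (nat_lit 308) (nat_lit 143))))) (XT.nd (nat_lit 312) (nat_lit 228) (nat_lit 0) (XT.nd (nat_lit 156) (nat_lit 152) (nat_lit 0) (XT.nd (nat_lit 78) (nat_lit 0) (nat_lit 0) (XT.lf (nat_lit 0) (nat_lit 81336915493) (nat_lit 152) (nat_lit 199306886000) (nat_lit 228) (nat_lit 170392945538) (nat_lit 20) (nat_lit 5) (nat_lit 22) (nat_lit 5) (nat_lit 23) (nat_lit 5) (nat_lit 330) (nat_lit 308) (nat_lit 142)) (XT.lf (nat_lit 0) (nat_lit 304839353364) (nat_lit 152) (nat_lit 66645347401) (nat_lit 228) (nat_lit 104278829731) (nat_lit 20) (nat_lit 5) (nat_lit 22) (nat_lit 5) (nat_lit 23) (nat_lit 5) (nat_lit 331) (nat_lit 308) (nat_lit 141))) (XT.nd (nat_lit 78) (nat_lit 76) (nat_lit 0) (XT.lf (nat_lit 0) (nat_lit 44117440650) (nat_lit 76) (nat_lit 428379331041)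 (nat_lit 152) (nat_lit 29739373099) (nat_lit 19) (nat_lit 5) (nat_lit 20) (nat_lit 5) (nat_lit 21) (nat_lit 4) (nat_lit 332) (nat_lit 308) (nat_lit 140)) (XT.lf (nat_lit 0) (nat_lit 54749604101) (nat_lit 152) (nat_lit 247443083576) (nat_lit 76) (nat_lit 228014152340) (nat_lit 18) (nat_lit 5) (nat_lit 20) (nat_lit 5) (nat_lit 19) (nat_lit 5) (nat_lit 333) (nat_lit 308) (nat_lit 139)))) (XT.nd (nat_lit 156) (nat_lit 76) (nat_lit 0) (XT.nd (nat_lit 78) (nat_lit 152) (nat_lit 0) (XT.lf (nat_lit 0) (nat_lit 144390947895) (nat_lit 152) (nat_lit 20685948726) (nat_lit 76) (nat_lit 395276502482) (nat_lit 18) (nat_lit 5) (nat_lit 20) (nat_lit 5) (nat_lit 19) (nat_lit 5) (nat_lit 334) (nat_lit 308) (nat_lit 138)) (XT.lf (nat_lit 0) (nat_lit 236018268711) (nat_lit 152) (nat_lit 10861526461) (nat_lit 228) (nat_lit 345577792162) (nat_lit 16) (nat_lit 5) (nat_lit 18) (nat_lit 5) (nat_lit 19) (nat_lit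 5) (nat_lit 335) (nat_lit 308) (nat_lit 137))) (XT.nd (nat_lit 78) (nat_lit 76) (nat_lit 0) (XT.lf (nat_lit 0) (nat_lit 361892357507) (nat_lit 228) (nat_lit 116408755415) (nat_lit 76) (nat_lit 148483029208) (nat_lit 16) (nat_lit 5) (nat_lit 19) (nat_lit 5) (nat_lit 17) (nat_lit 4) (nat_lit 336) (nat_lit 308) (nat_lit 136)) (XT.lf (nat_lit 0) (nat_lit 150048074431) (nat_lit 76) (nat_lit 339948583378) (nat_lit 152) (nat_lit 173548904944) (nat_lit 15) (nat_lit 5) (nat_lit 16) (nat_lit 5) (nat_lit 17) (nat_lit 4) (nat_lit 337) (nat_lit 308) (nat_lit 135)))))) (XT.nd (nat_lit 546) (nat_lit 304) (nat_lit 0) (XT.nd (nat_lit 234) (nat_lit 76) (nat_lit 0) (XT.nd (nat_lit 78) (nat_lit 228) (nat_lit 0) (XT.lf (nat_lit 0) (nat_lit 444441648357) (nat_lit 76) (nat_lit 187090432628) (nat_lit 152) (nat_lit 71461193810) (nat_lit 15) (nat_lit 5) (nat_lit 16) (nat_lit 5) (nat_lit 17) (nat_lit 4) (nat_lit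 338) (nat_lit 308) (nat_lit 134)) (XT.nd (nat_lit 78) (nat_lit 0) (nat_lit 0) (XT.lf (nat_lit 0) (nat_lit 16691844322) (nat_lit 152) (nat_lit 20562478711) (nat_lit 228) (nat_lit 708235730115) (nat_lit 12) (nat_lit 5) (nat_lit 14) (nat_lit 5) (nat_lit 15) (nat_lit 5) (nat_lit 339) (nat_lit 308) (nat_lit 133)) (XT.lf (nat_lit 0) (nat_lit 161890030730) (nat_lit 228) (nat_lit 468032874615) (nat_lit 76) (nat_lit 160428480885) (nat_lit 12) (nat_lit 5) (nat_lit 15) (nat_lit 5) (nat_lit 13) (nat_lit 4) (nat_lit 340) (nat_lit 308) (nat_lit 132)))) (XT.nd (nat_lit 156) (nat_lit 0) (nat_lit 0) (XT.nd (nat_lit 78) (nat_lit 76) (nat_lit 0) (XT.lf (nat_lit 0) (nat_lit 297030648379) (nat_lit 228) (nat_lit 186940468024) (nat_lit 76) (nat_lit 354787785344) (nat_lit 12) (nat_lit 5) (nat_lit 15) (nat_lit 5) (nat_lit 13) (nat_lit 4) (nat_lit 341) (nat_lit 308) (nat_lit 131)) (XT.lf (nat_lit 0) (nat_lit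 122781289186) (nat_lit 76) (nat_lit 323154084934) (nat_lit 152) (nat_lit 444867415742) (nat_lit 11) (nat_lit 5) (nat_lit 12) (nat_lit 5) (nat_lit 13) (nat_lit 4) (nat_lit 342) (nat_lit 308) (nat_lit 130))) (XT.nd (nat_lit 78) (nat_lit 0) (nat_lit 0) (XT.lf (nat_lit 0) (nat_lit 467912199273) (nat_lit 76) (nat_lit 143951529204) (nat_lit 152) (nat_lit 334737560554) (nat_lit 11) (nat_lit 5) (nat_lit 12) (nat_lit 5) (nat_lit 13) (nat_lit 4) (nat_lit 343) (nat_lit 308) (nat_lit 129)) (XT.lf (nat_lit 0) (nat_lit 792258894057) (nat_lit 152) (nat_lit 167402715495) (nat_lit 0) (nat_lit 47106655194) (nat_lit 11) (nat_lit 5) (nat_lit 13) (nat_lit 4) (nat_lit 11) (nat_lit 4) (nat_lit 344) (nat_lit 308) (nat_lit 128))))) (XT.nd (nat_lit 312) (nat_lit 76) (nat_lit 0) (XT.nd (nat_lit 156) (nat_lit 76) (nat_lit 0) (XT.nd (nat_lit 78) (nat_lit 76) (nat_lit 0) (XT.lf (nat_lit 0) (nat_lit 173738626361)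 (nat_lit 76) (nat_lit 821264436515) (nat_lit 76) (nat_lit 76112144485) (nat_lit 10) (nat_lit 4) (nat_lit 11) (nat_lit 5) (nat_lit 11) (nat_lit 4) (nat_lit 345) (nat_lit 308) (nat_lit 127)) (XT.lf (nat_lit 0) (nat_lit 74383196134) (nat_lit 152) (nat_lit 590435293297) (nat_lit 76) (nat_lit 475274601766) (nat_lit 9) (nat_lit 5) (nat_lit 11) (nat_lit 5) (nat_lit 10) (nat_lit 4) (nat_lit 346) (nat_lit 308) (nat_lit 126))) (XT.nd (nat_lit 78) (nat_lit 76) (nat_lit 0) (XT.lf (nat_lit 0) (nat_lit 232806104659) (nat_lit 152) (nat_lit 260915689148) (nat_lit 76) (nat_lit 720709258990) (nat_lit 9) (nat_lit 5) (nat_lit 11) (nat_lit 5) (nat_lit 10) (nat_lit 4) (nat_lit 347) (nat_lit 308) (nat_lit 125)) (XT.lf (nat_lit 0) (nat_lit 99966150846) (nat_lit 76) (nat_lit 306340858716) (nat_lit 152) (nat_lit 888216708695) (nat_lit 8) (nat_lit 5) (nat_lit 9) (nat_lit 5) (nat_lit 10) (nat_lit 4) (nat_lit 348)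 (nat_lit 308) (nat_lit 124)))) (XT.nd (nat_lit 156) (nat_lit 76) (nat_lit 0) (XT.nd (nat_lit 78) (nat_lit 0) (nat_lit 0) (XT.lf (nat_lit 0) (nat_lit 504557001377) (nat_lit 76) (nat_lit 96264858959) (nat_lit 152) (nat_lit 779631226769) (nat_lit 8) (nat_lit 5) (nat_lit 9) (nat_lit 5) (nat_lit 10) (nat_lit 4) (nat_lit 349) (nat_lit 308) (nat_lit 123)) (XT.lf (nat_lit 0) (nat_lit 814039223965) (nat_lit 152) (nat_lit 534883074079) (nat_lit 0) (nat_lit 124083201458) (nat_lit 8) (nat_lit 5) (nat_lit 10) (nat_lit 4) (nat_lit 8) (nat_lit 4) (nat_lit 350) (nat_lit 308) (nat_lit 122))) (XT.nd (nat_lit 78) (nat_lit 76) (nat_lit 0) (XT.lf (nat_lit 0) (nat_lit 1046814341789) (nat_lit 152) (nat_lit 169089445657) (nat_lit 0) (nat_lit 356858288261) (nat_lit 8) (nat_lit 5) (nat_lit 10) (nat_lit 4) (nat_lit 8) (nat_lit 4) (nat_lit 351) (nat_lit 308) (nat_lit 121)) (XT.lf (nat_lit 0) (nat_lit 237866693007)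 (nat_lit 76) (nat_lit 1066065456423) (nat_lit 76) (nat_lit 376109374170) (nat_lit 7) (nat_lit 4) (nat_lit 8) (nat_lit 5) (nat_lit 8) (nat_lit 4) (nat_lit 352) (nat_lit 308) (nat_lit 120))))))))
noncomputable def xc115 : XT := (XT.nd (nat_lit 39078) (nat_lit 0) (nat_lit 0) (XT.nd (nat_lit 37908) (nat_lit 0) (nat_lit 1140) (XT.nd (nat_lit 37362) (nat_lit 0) (nat_lit 2584) (XT.nd (nat_lit 234) (nat_lit 76) (nat_lit 0) (XT.nd (nat_lit 78) (nat_lit 76) (nat_lit 0) (XT.lf (nat_lit 0) (nat_lit 686995554880) (nat_lit 76) (nat_lit 899247013200) (nat_lit 76) (nat_lit 209290904352) (nat_lit 7) (nat_lit 4) (nat_lit 8) (nat_lit 5) (nat_lit 8) (nat_lit 4) (nat_lit 353) (nat_lit 308) (nat_lit 119)) (XT.nd (nat_lit 78) (nat_lit 76) (nat_lit 0) (XT.lf (nat_lit 0) (nat_lit 1172054693773) (nat_lit 76) (nat_lit 719083109138) (nat_lit 76) (nat_lit 29126975663) (nat_lit 7) (nat_lit 4) (nat_lit 8) (nat_lit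 5) (nat_lit 8) (nat_lit 4) (nat_lit 354) (nat_lit 308) (nat_lit 118)) (XT.lf (nat_lit 0) (nat_lit 157173568412) (nat_lit 152) (nat_lit 363035133979) (nat_lit 76) (nat_lit 1534447561904) (nat_lit 6) (nat_lit 5) (nat_lit 8) (nat_lit 5) (nat_lit 7) (nat_lit 4) (nat_lit 355) (nat_lit 308) (nat_lit 117)))) (XT.nd (nat_lit 36972) (nat_lit 0) (nat_lit 2812) (XT.nd (nat_lit 78) (nat_lit 0) (nat_lit 0) (XT.lf (nat_lit 0) (nat_lit 54945854044) (nat_lit 76) (nat_lit 303180122606) (nat_lit 152) (nat_lit 1841506853942) (nat_lit 5) (nat_lit 5) (nat_lit 6) (nat_lit 5) (nat_lit 7) (nat_lit 4) (nat_lit 356) (nat_lit 308) (nat_lit 116)) (XT.lf (nat_lit 0) (nat_lit 527011423378) (nat_lit 76) (nat_lit 58069163312) (nat_lit 152) (nat_lit 1770332854786) (nat_lit 5) (nat_lit 5) (nat_lit 6) (nat_lit 5) (nat_lit 7) (nat_lit 4) (nat_lit 357) (nat_lit 308) (nat_lit 115))) (XT.nd (nat_lit 78) (nat_lit 0) (nat_lit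 0) (XT.lf (nat_lit 0) (nat_lit 47998757922) (nat_lit 532) (nat_lit 20414491280) (nat_lit 532) (nat_lit 20414491280) (nat_lit 42) (nat_lit 3) (nat_lit 49) (nat_lit 3) (nat_lit 49) (nat_lit 5) (nat_lit 309) (nat_lit 309) (nat_lit 162)) (XT.lf (nat_lit 76) (nat_lit 40632926517) (nat_lit 0) (nat_lit 60183592228) (nat_lit 532) (nat_lit 83866846206) (nat_lit 43) (nat_lit 5) (nat_lit 42) (nat_lit 3) (nat_lit 49) (nat_lit 5) (nat_lit 310) (nat_lit 309) (nat_lit 161))))) (XT.nd (nat_lit 234) (nat_lit 304) (nat_lit 0) (XT.nd (nat_lit 78) (nat_lit 0) (nat_lit 0) (XT.lf (nat_lit 0) (nat_lit 107709493767) (nat_lit 456) (nat_lit 61822832950) (nat_lit 532) (nat_lit 22606077495) (nat_lit 43) (nat_lit 5) (nat_lit 49) (nat_lit 5) (nat_lit 50) (nat_lit 5) (nat_lit 311) (nat_lit 309) (nat_lit 160)) (XT.nd (nat_lit 78) (nat_lit 0) (nat_lit 0) (XT.lf (nat_lit 76) (nat_lit 26758208819) (nat_lit 0) (nat_lit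 90602269088) (nat_lit 532) (nat_lit 82652843672) (nat_lit 44) (nat_lit 5) (nat_lit 43) (nat_lit 5) (nat_lit 50) (nat_lit 5) (nat_lit 312) (nat_lit 309) (nat_lit 159)) (XT.lf (nat_lit 76) (nat_lit 125941540215) (nat_lit 0) (nat_lit 3532181959) (nat_lit 532) (nat_lit 78909296256) (nat_lit 44) (nat_lit 5) (nat_lit 43) (nat_lit 5) (nat_lit 50) (nat_lit 5) (nat_lit 313) (nat_lit 309) (nat_lit 158)))) (XT.nd (nat_lit 156) (nat_lit 380) (nat_lit 0) (XT.nd (nat_lit 78) (nat_lit 0) (nat_lit 0) (XT.lf (nat_lit 76) (nat_lit 14169323893) (nat_lit 0) (nat_lit 130903935220) (nat_lit 532) (nat_lit 72147653827) (nat_lit 45) (nat_lit 5) (nat_lit 44) (nat_lit 5) (nat_lit 51) (nat_lit 5) (nat_lit 314) (nat_lit 309) (nat_lit 157)) (XT.lf (nat_lit 76) (nat_lit 123100818452) (nat_lit 0) (nat_lit 41163316318) (nat_lit 532) (nat_lit 62314234702) (nat_lit 45) (nat_lit 5) (nat_lit 44) (nat_lit 5) (nat_lit 51)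 (nat_lit 5) (nat_lit 315) (nat_lit 309) (nat_lit 156))) (XT.nd (nat_lit 78) (nat_lit 0) (nat_lit 0) (XT.lf (nat_lit 0) (nat_lit 2864646218) (nat_lit 456) (nat_lit 183535343984) (nat_lit 532) (nat_lit 50171656026) (nat_lit 39) (nat_lit 5) (nat_lit 45) (nat_lit 5) (nat_lit 46) (nat_lit 5) (nat_lit 316) (nat_lit 309) (nat_lit 155)) (XT.lf (nat_lit 0) (nat_lit 122473485620) (nat_lit 456) (nat_lit 91704472801) (nat_lit 532) (nat_lit 32876727602) (nat_lit 39) (nat_lit 5) (nat_lit 45) (nat_lit 5) (nat_lit 46) (nat_lit 5) (nat_lit 317) (nat_lit 309) (nat_lit 154)))))) (XT.nd (nat_lit 546) (nat_lit 684) (nat_lit 0) (XT.nd (nat_lit 234) (nat_lit 456) (nat_lit 0) (XT.nd (nat_lit 78) (nat_lit 304) (nat_lit 0) (XT.lf (nat_lit 0) (nat_lit 244357771634) (nat_lit 532) (nat_lit 6905176374) (nat_lit 76) (nat_lit 7099052804) (nat_lit 39) (nat_lit 5) (nat_lit 46) (nat_lit 5) (nat_lit 40) (nat_lit 5) (nat_lit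 318) (nat_lit 309) (nat_lit 153)) (XT.nd (nat_lit 78) (nat_lit 0) (nat_lit 0) (XT.lf (nat_lit 0) (nat_lit 11562520574) (nat_lit 304) (nat_lit 146431310607) (nat_lit 76) (nat_lit 112127517874) (nat_lit 35) (nat_lit 5) (nat_lit 39) (nat_lit 5) (nat_lit 36) (nat_lit 5) (nat_lit 319) (nat_lit 309) (nat_lit 152)) (XT.lf (nat_lit 0) (nat_lit 38611617635) (nat_lit 304) (nat_lit 18049528628) (nat_lit 76) (nat_lit 226115711570) (nat_lit 35) (nat_lit 5) (nat_lit 39) (nat_lit 5) (nat_lit 36) (nat_lit 5) (nat_lit 320) (nat_lit 309) (nat_lit 151)))) (XT.nd (nat_lit 156) (nat_lit 228) (nat_lit 0) (XT.nd (nat_lit 78) (nat_lit 0) (nat_lit 0) (XT.lf (nat_lit 0) (nat_lit 72226399158) (nat_lit 304) (nat_lit 170595760240) (nat_lit 76) (nat_lit 53270507685) (nat_lit 32) (nat_lit 5) (nat_lit 36) (nat_lit 5) (nat_lit 33) (nat_lit 5) (nat_lit 321) (nat_lit 309) (nat_lit 150)) (XT.lf (nat_lit 0) (nat_lit 110508313766)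 (nat_lit 304) (nat_lit 30365355032) (nat_lit 76) (nat_lit 169441836509) (nat_lit 32) (nat_lit 5) (nat_lit 36) (nat_lit 5) (nat_lit 33) (nat_lit 5) (nat_lit 322) (nat_lit 309) (nat_lit 149))) (XT.nd (nat_lit 78) (nat_lit 0) (nat_lit 0) (XT.lf (nat_lit 0) (nat_lit 127459419074) (nat_lit 228) (nat_lit 27458679414) (nat_lit 304) (nat_lit 170512847005) (nat_lit 29) (nat_lit 5) (nat_lit 32) (nat_lit 5) (nat_lit 33) (nat_lit 5) (nat_lit 323) (nat_lit 309) (nat_lit 148)) (XT.lf (nat_lit 0) (nat_lit 206017853760) (nat_lit 304) (nat_lit 44359252144) (nat_lit 76) (nat_lit 91127540209) (nat_lit 29) (nat_lit 5) (nat_lit 33) (nat_lit 5) (nat_lit 30) (nat_lit 5) (nat_lit 324) (nat_lit 309) (nat_lit 147))))) (XT.nd (nat_lit 312) (nat_lit 304) (nat_lit 0) (XT.nd (nat_lit 156) (nat_lit 228) (nat_lit 0) (XT.nd (nat_lit 78) (nat_lit 0) (nat_lit 0) (XT.lf (nat_lit 0) (nat_lit 127191320593) (nat_lit 152)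 (nat_lit 137786360103) (nat_lit 228) (nat_lit 93584795012) (nat_lit 27) (nat_lit 5) (nat_lit 29) (nat_lit 5) (nat_lit 30) (nat_lit 5) (nat_lit 325) (nat_lit 309) (nat_lit 146)) (XT.lf (nat_lit 0) (nat_lit 314988595546) (nat_lit 152) (nat_lit 14878486622) (nat_lit 228) (nat_lit 47020826637) (nat_lit 27) (nat_lit 5) (nat_lit 29) (nat_lit 5) (nat_lit 30) (nat_lit 5) (nat_lit 326) (nat_lit 309) (nat_lit 145))) (XT.nd (nat_lit 78) (nat_lit 0) (nat_lit 0) (XT.lf (nat_lit 0) (nat_lit 9085521289) (nat_lit 228) (nat_lit 271918206004) (nat_lit 76) (nat_lit 115190901007) (nat_lit 24) (nat_lit 5) (nat_lit 27) (nat_lit 5) (nat_lit 25) (nat_lit 5) (nat_lit 327) (nat_lit 309) (nat_lit 144)) (XT.lf (nat_lit 0) (nat_lit 69262815289) (nat_lit 228) (nat_lit 89695831725) (nat_lit 76) (nat_lit 257819710153) (nat_lit 24) (nat_lit 5) (nat_lit 27) (nat_lit 5) (nat_lit 25) (nat_lit 5) (nat_lit 328) (nat_lit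 309) (nat_lit 143)))) (XT.nd (nat_lit 156) (nat_lit 152) (nat_lit 0) (XT.nd (nat_lit 78) (nat_lit 0) (nat_lit 0) (XT.lf (nat_lit 0) (nat_lit 112744166150) (nat_lit 152) (nat_lit 24221565159) (nat_lit 228) (nat_lit 301826138107) (nat_lit 22) (nat_lit 5) (nat_lit 24) (nat_lit 5) (nat_lit 25) (nat_lit 5) (nat_lit 329) (nat_lit 309) (nat_lit 142)) (XT.lf (nat_lit 0) (nat_lit 215518099180) (nat_lit 228) (nat_lit 128870745198) (nat_lit 76) (nat_lit 117742960922) (nat_lit 22) (nat_lit 5) (nat_lit 25) (nat_lit 5) (nat_lit 23) (nat_lit 5) (nat_lit 330) (nat_lit 309) (nat_lit 141))) (XT.nd (nat_lit 78) (nat_lit 0) (nat_lit 0) (XT.lf (nat_lit 0) (nat_lit 87845546270) (nat_lit 152) (nat_lit 215250874198) (nat_lit 228) (nat_lit 184023174599) (nat_lit 20) (nat_lit 5) (nat_lit 22) (nat_lit 5) (nat_lit 23) (nat_lit 5) (nat_lit 331) (nat_lit 309) (nat_lit 140)) (XT.lf (nat_lit 0) (nat_lit 329228054908)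 (nat_lit 152) (nat_lit 71976454190) (nat_lit 228) (nat_lit 112620018903) (nat_lit 20) (nat_lit 5) (nat_lit 22) (nat_lit 5) (nat_lit 23) (nat_lit 5) (nat_lit 332) (nat_lit 309) (nat_lit 139))))))) (XT.nd (nat_lit 1170) (nat_lit 304) (nat_lit 0) (XT.nd (nat_lit 546) (nat_lit 456) (nat_lit 0) (XT.nd (nat_lit 234) (nat_lit 228) (nat_lit 0) (XT.nd (nat_lit 78) (nat_lit 76) (nat_lit 0) (XT.lf (nat_lit 0) (nat_lit 47648420424) (nat_lit 76) (nat_lit 462649098521) (nat_lit 152) (nat_lit 32117434810) (nat_lit 19) (nat_lit 5) (nat_lit 20) (nat_lit 5) (nat_lit 21) (nat_lit 4) (nat_lit 333) (nat_lit 309) (nat_lit 138)) (XT.nd (nat_lit 78) (nat_lit 0) (nat_lit 0) (XT.lf (nat_lit 0) (nat_lit 59130529562) (nat_lit 152) (nat_lit 267237010845) (nat_lit 76) (nat_lit 246255768374) (nat_lit 18) (nat_lit 5) (nat_lit 20) (nat_lit 5) (nat_lit 19) (nat_lit 5) (nat_lit 334) (nat_lit 309) (nat_lit 137)) (XT.lf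 (nat_lit 0) (nat_lit 155943109961) (nat_lit 152) (nat_lit 22339417756) (nat_lit 76) (nat_lit 426899070687) (nat_lit 18) (nat_lit 5) (nat_lit 20) (nat_lit 5) (nat_lit 19) (nat_lit 5) (nat_lit 335) (nat_lit 309) (nat_lit 136)))) (XT.nd (nat_lit 156) (nat_lit 76) (nat_lit 0) (XT.nd (nat_lit 78) (nat_lit 0) (nat_lit 0) (XT.lf (nat_lit 0) (nat_lit 254901101459) (nat_lit 152) (nat_lit 11729930892) (nat_lit 228) (nat_lit 373223092084) (nat_lit 16) (nat_lit 5) (nat_lit 18) (nat_lit 5) (nat_lit 19) (nat_lit 5) (nat_lit 336) (nat_lit 309) (nat_lit 135)) (XT.lf (nat_lit 0) (nat_lit 390844547975) (nat_lit 228) (nat_lit 125720132991) (nat_lit 76) (nat_lit 160362126904) (nat_lit 16) (nat_lit 5) (nat_lit 19) (nat_lit 5) (nat_lit 17) (nat_lit 4) (nat_lit 337) (nat_lit 309) (nat_lit 134))) (XT.nd (nat_lit 78) (nat_lit 0) (nat_lit 0) (XT.lf (nat_lit 0) (nat_lit 162053209753) (nat_lit 76) (nat_lit 367143954160)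 (nat_lit 152) (nat_lit 187431980611) (nat_lit 15) (nat_lit 5) (nat_lit 16) (nat_lit 5) (nat_lit 17) (nat_lit 4) (nat_lit 338) (nat_lit 309) (nat_lit 133)) (XT.lf (nat_lit 0) (nat_lit 479998174084) (nat_lit 76) (nat_lit 202057189564) (nat_lit 152) (nat_lit 77177314565) (nat_lit 15) (nat_lit 5) (nat_lit 16) (nat_lit 5) (nat_lit 17) (nat_lit 4) (nat_lit 339) (nat_lit 309) (nat_lit 132))))) (XT.nd (nat_lit 312) (nat_lit 152) (nat_lit 0) (XT.nd (nat_lit 156) (nat_lit 76) (nat_lit 0) (XT.nd (nat_lit 78) (nat_lit 0) (nat_lit 0) (XT.lf (nat_lit 0) (nat_lit 18028394423) (nat_lit 152) (nat_lit 22206984849) (nat_lit 228) (nat_lit 764893820207) (nat_lit 12) (nat_lit 5) (nat_lit 14) (nat_lit 5) (nat_lit 15) (nat_lit 5) (nat_lit 340) (nat_lit 309) (nat_lit 131)) (XT.lf (nat_lit 0) (nat_lit 174841901922) (nat_lit 228) (nat_lit 505474348436) (nat_lit 76) (nat_lit 173263192262) (nat_lit 12) (nat_lit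 5) (nat_lit 15) (nat_lit 5) (nat_lit 13) (nat_lit 4) (nat_lit 341) (nat_lit 309) (nat_lit 130))) (XT.nd (nat_lit 78) (nat_lit 76) (nat_lit 0) (XT.lf (nat_lit 0) (nat_lit 320793719447) (nat_lit 228) (nat_lit 201894634958) (nat_lit 76) (nat_lit 383171209011) (nat_lit 12) (nat_lit 5) (nat_lit 15) (nat_lit 5) (nat_lit 13) (nat_lit 4) (nat_lit 342) (nat_lit 309) (nat_lit 129)) (XT.lf (nat_lit 0) (nat_lit 132604835726) (nat_lit 76) (nat_lit 349005966749) (nat_lit 152) (nat_lit 480456161838) (nat_lit 11) (nat_lit 5) (nat_lit 12) (nat_lit 5) (nat_lit 13) (nat_lit 4) (nat_lit 343) (nat_lit 309) (nat_lit 128)))) (XT.nd (nat_lit 156) (nat_lit 152) (nat_lit 0) (XT.nd (nat_lit 78) (nat_lit 0) (nat_lit 0) (XT.lf (nat_lit 0) (nat_lit 505346141331) (nat_lit 76) (nat_lit 155467239521) (nat_lit 152) (nat_lit 361515966172) (nat_lit 11) (nat_lit 5) (nat_lit 12) (nat_lit 5) (nat_lit 13) (nat_lit 4) (nat_lit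 344) (nat_lit 309) (nat_lit 127)) (XT.lf (nat_lit 0) (nat_lit 855640127810) (nat_lit 152) (nat_lit 180794005572) (nat_lit 0) (nat_lit 50875550024) (nat_lit 11) (nat_lit 5) (nat_lit 13) (nat_lit 4) (nat_lit 11) (nat_lit 4) (nat_lit 345) (nat_lit 309) (nat_lit 126))) (XT.nd (nat_lit 78) (nat_lit 76) (nat_lit 0) (XT.lf (nat_lit 0) (nat_lit 187638620160) (nat_lit 76) (nat_lit 886965193025) (nat_lit 76) (nat_lit 82200569657) (nat_lit 10) (nat_lit 4) (nat_lit 11) (nat_lit 5) (nat_lit 11) (nat_lit 4) (nat_lit 346) (nat_lit 309) (nat_lit 125)) (XT.lf (nat_lit 0) (nat_lit 80334332431) (nat_lit 152) (nat_lit 637669254114) (nat_lit 76) (nat_lit 513296912911) (nat_lit 9) (nat_lit 5) (nat_lit 11) (nat_lit 5) (nat_lit 10) (nat_lit 4) (nat_lit 347) (nat_lit 309) (nat_lit 124)))))) (XT.nd (nat_lit 546) (nat_lit 152) (nat_lit 0) (XT.nd (nat_lit 234) (nat_lit 76) (nat_lit 0) (XT.nd (nat_lit 78) (nat_lit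 76) (nat_lit 0) (XT.lf (nat_lit 0) (nat_lit 251431038037) (nat_lit 152) (nat_lit 281788145533) (nat_lit 76) (nat_lit 778366317305) (nat_lit 9) (nat_lit 5) (nat_lit 11) (nat_lit 5) (nat_lit 10) (nat_lit 4) (nat_lit 348) (nat_lit 309) (nat_lit 123)) (XT.nd (nat_lit 78) (nat_lit 0) (nat_lit 0) (XT.lf (nat_lit 0) (nat_lit 107964221440) (nat_lit 76) (nat_lit 330847779653) (nat_lit 152) (nat_lit 959273579659) (nat_lit 8) (nat_lit 5) (nat_lit 9) (nat_lit 5) (nat_lit 10) (nat_lit 4) (nat_lit 349) (nat_lit 309) (nat_lit 122)) (XT.lf (nat_lit 0) (nat_lit 544922282344) (nat_lit 76) (nat_lit 103965725676) (nat_lit 152) (nat_lit 842001293677) (nat_lit 8) (nat_lit 5) (nat_lit 9) (nat_lit 5) (nat_lit 10) (nat_lit 4) (nat_lit 350) (nat_lit 309) (nat_lit 121)))) (XT.nd (nat_lit 156) (nat_lit 76) (nat_lit 0) (XT.nd (nat_lit 78) (nat_lit 0) (nat_lit 0) (XT.lf (nat_lit 0) (nat_lit 879162738365) (nat_lit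 152) (nat_lit 577673029739) (nat_lit 0) (nat_lit 134010140808) (nat_lit 8) (nat_lit 5) (nat_lit 10) (nat_lit 4) (nat_lit 8) (nat_lit 4) (nat_lit 351) (nat_lit 309) (nat_lit 120)) (XT.lf (nat_lit 0) (nat_lit 1130559837727) (nat_lit 152) (nat_lit 182615962174) (nat_lit 0) (nat_lit 385407213575) (nat_lit 8) (nat_lit 5) (nat_lit 10) (nat_lit 4) (nat_lit 8) (nat_lit 4) (nat_lit 352) (nat_lit 309) (nat_lit 119))) (XT.nd (nat_lit 78) (nat_lit 0) (nat_lit 0) (XT.lf (nat_lit 0) (nat_lit 256896651403) (nat_lit 76) (nat_lit 1151350407737) (nat_lit 76) (nat_lit 406197758957) (nat_lit 7) (nat_lit 4) (nat_lit 8) (nat_lit 5) (nat_lit 8) (nat_lit 4) (nat_lit 353) (nat_lit 309) (nat_lit 118)) (XT.lf (nat_lit 0) (nat_lit 741955776081) (nat_lit 76) (nat_lit 971186510182) (nat_lit 76) (nat_lit 226033838601) (nat_lit 7) (nat_lit 4) (nat_lit 8) (nat_lit 5) (nat_lit 8) (nat_lit 4) (nat_lit 354) (nat_lit 309)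 (nat_lit 117))))) (XT.nd (nat_lit 37206) (nat_lit 0) (nat_lit 2812) (XT.nd (nat_lit 156) (nat_lit 76) (nat_lit 0) (XT.nd (nat_lit 78) (nat_lit 76) (nat_lit 0) (XT.lf (nat_lit 0) (nat_lit 1265819603359) (nat_lit 76) (nat_lit 776609513356) (nat_lit 76) (nat_lit 31456820662) (nat_lit 7) (nat_lit 4) (nat_lit 8) (nat_lit 5) (nat_lit 8) (nat_lit 4) (nat_lit 355) (nat_lit 309) (nat_lit 116)) (XT.lf (nat_lit 0) (nat_lit 169747729250) (nat_lit 152) (nat_lit 392077435403) (nat_lit 76) (nat_lit 1657203578484) (nat_lit 6) (nat_lit 5) (nat_lit 8) (nat_lit 5) (nat_lit 7) (nat_lit 4) (nat_lit 356) (nat_lit 309) (nat_lit 115))) (XT.nd (nat_lit 36972) (nat_lit 0) (nat_lit 2812) (XT.lf (nat_lit 0) (nat_lit 59342018769) (nat_lit 76) (nat_lit 327434302919) (nat_lit 152) (nat_lit 1988827113746) (nat_lit 5) (nat_lit 5) (nat_lit 6) (nat_lit 5) (nat_lit 7) (nat_lit 4) (nat_lit 357) (nat_lit 309) (nat_lit 114))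 (XT.lf (nat_lit 0) (nat_lit 51840492764) (nat_lit 532) (nat_lit 22046656659) (nat_lit 532) (nat_lit 22046656659) (nat_lit 42) (nat_lit 3) (nat_lit 49) (nat_lit 3) (nat_lit 49) (nat_lit 5) (nat_lit 310) (nat_lit 310) (nat_lit 160)))) (XT.nd (nat_lit 156) (nat_lit 0) (nat_lit 76) (XT.nd (nat_lit 78) (nat_lit 0) (nat_lit 76) (XT.lf (nat_lit 76) (nat_lit 43885498160) (nat_lit 0) (nat_lit 64999785364) (nat_lit 532) (nat_lit 90572462379) (nat_lit 43) (nat_lit 5) (nat_lit 42) (nat_lit 3) (nat_lit 49) (nat_lit 5) (nat_lit 311) (nat_lit 310) (nat_lit 159)) (XT.lf (nat_lit 0) (nat_lit 116329407958) (nat_lit 456) (nat_lit 66766565161) (nat_lit 532) (nat_lit 24413239219) (nat_lit 43) (nat_lit 5) (nat_lit 49) (nat_lit 5) (nat_lit 50) (nat_lit 5) (nat_lit 312) (nat_lit 310) (nat_lit 158))) (XT.nd (nat_lit 78) (nat_lit 0) (nat_lit 0) (XT.lf (nat_lit 76) (nat_lit 28900906927) (nat_lit 0) (nat_lit 97851379318)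 (nat_lit 532) (nat_lit 89261852494) (nat_lit 44) (nat_lit 5) (nat_lit 43) (nat_lit 5) (nat_lit 50) (nat_lit 5) (nat_lit 313) (nat_lit 310) (nat_lit 157)) (XT.lf (nat_lit 76) (nat_lit 136018753619) (nat_lit 0) (nat_lit 3815616427) (nat_lit 532) (nat_lit 85219059705) (nat_lit 44) (nat_lit 5) (nat_lit 43) (nat_lit 5) (nat_lit 50) (nat_lit 5) (nat_lit 314) (nat_lit 310) (nat_lit 156))))))))
noncomputable def xc116 : XT := (XT.nd (nat_lit 2262) (nat_lit 380) (nat_lit 0) (XT.nd (nat_lit 1092) (nat_lit 912) (nat_lit 0) (XT.nd (nat_lit 546) (nat_lit 836) (nat_lit 0) (XT.nd (nat_lit 234) (nat_lit 304) (nat_lit 0) (XT.nd (nat_lit 78) (nat_lit 380) (nat_lit 0) (XT.lf (nat_lit 76) (nat_lit 15304956623) (nat_lit 0) (nat_lit 141376740645) (nat_lit 532) (nat_lit 77916673119) (nat_lit 45) (nat_lit 5) (nat_lit 44) (nat_lit 5) (nat_lit 51) (nat_lit 5) (nat_lit 315) (nat_lit 310) (nat_lit 155)) (XT.nd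 (nat_lit 78) (nat_lit 380) (nat_lit 0) (XT.lf (nat_lit 76) (nat_lit 132950816168) (nat_lit 0) (nat_lit 44456835888) (nat_lit 532) (nat_lit 67296787353) (nat_lit 45) (nat_lit 5) (nat_lit 44) (nat_lit 5) (nat_lit 51) (nat_lit 5) (nat_lit 316) (nat_lit 310) (nat_lit 154)) (XT.lf (nat_lit 0) (nat_lit 3095906453) (nat_lit 456) (nat_lit 198218332807) (nat_lit 532) (nat_lit 54182950625) (nat_lit 39) (nat_lit 5) (nat_lit 45) (nat_lit 5) (nat_lit 46) (nat_lit 5) (nat_lit 317) (nat_lit 310) (nat_lit 153)))) (XT.nd (nat_lit 156) (nat_lit 304) (nat_lit 0) (XT.nd (nat_lit 78) (nat_lit 0) (nat_lit 0) (XT.lf (nat_lit 0) (nat_lit 132273298300) (nat_lit 456) (nat_lit 99040979980) (nat_lit 532) (nat_lit 35504608512) (nat_lit 39) (nat_lit 5) (nat_lit 45) (nat_lit 5) (nat_lit 46) (nat_lit 5) (nat_lit 318) (nat_lit 310) (nat_lit 152)) (XT.lf (nat_lit 0) (nat_lit 263908318914) (nat_lit 532) (nat_lit 7455635358)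 (nat_lit 76) (nat_lit 7666845654) (nat_lit 39) (nat_lit 5) (nat_lit 46) (nat_lit 5) (nat_lit 40) (nat_lit 5) (nat_lit 319) (nat_lit 310) (nat_lit 151))) (XT.nd (nat_lit 78) (nat_lit 0) (nat_lit 0) (XT.lf (nat_lit 0) (nat_lit 12489404541) (nat_lit 304) (nat_lit 158143804787) (nat_lit 76) (nat_lit 121097691146) (nat_lit 35) (nat_lit 5) (nat_lit 39) (nat_lit 5) (nat_lit 36) (nat_lit 5) (nat_lit 320) (nat_lit 310) (nat_lit 150)) (XT.lf (nat_lit 0) (nat_lit 41702289936) (nat_lit 304) (nat_lit 19491629188) (nat_lit 76) (nat_lit 244204942423) (nat_lit 35) (nat_lit 5) (nat_lit 39) (nat_lit 5) (nat_lit 36) (nat_lit 5) (nat_lit 321) (nat_lit 310) (nat_lit 149))))) (XT.nd (nat_lit 234) (nat_lit 380) (nat_lit 0) (XT.nd (nat_lit 78) (nat_lit 228) (nat_lit 0) (XT.lf (nat_lit 0) (nat_lit 78006172298) (nat_lit 304) (nat_lit 184241472571) (nat_lit 76) (nat_lit 57532297607) (nat_lit 32) (nat_lit 5) (nat_lit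 36) (nat_lit 5) (nat_lit 33) (nat_lit 5) (nat_lit 322) (nat_lit 310) (nat_lit 148)) (XT.nd (nat_lit 78) (nat_lit 228) (nat_lit 0) (XT.lf (nat_lit 0) (nat_lit 119350517022) (nat_lit 304) (nat_lit 32792779279) (nat_lit 76) (nat_lit 182997321677) (nat_lit 32) (nat_lit 5) (nat_lit 36) (nat_lit 5) (nat_lit 33) (nat_lit 5) (nat_lit 323) (nat_lit 310) (nat_lit 147)) (XT.lf (nat_lit 0) (nat_lit 137657931080) (nat_lit 228) (nat_lit 29655081796) (nat_lit 304) (nat_lit 184152286584) (nat_lit 29) (nat_lit 5) (nat_lit 32) (nat_lit 5) (nat_lit 33) (nat_lit 5) (nat_lit 324) (nat_lit 310) (nat_lit 146)))) (XT.nd (nat_lit 156) (nat_lit 228) (nat_lit 0) (XT.nd (nat_lit 78) (nat_lit 152) (nat_lit 0) (XT.lf (nat_lit 0) (nat_lit 222500646442) (nat_lit 304) (nat_lit 47906257935) (nat_lit 76) (nat_lit 98418000246) (nat_lit 29) (nat_lit 5) (nat_lit 33) (nat_lit 5) (nat_lit 30) (nat_lit 5) (nat_lit 325) (nat_lit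 310) (nat_lit 145)) (XT.lf (nat_lit 0) (nat_lit 137368316713) (nat_lit 152) (nat_lit 148808882410) (nat_lit 228) (nat_lit 101070166592) (nat_lit 27) (nat_lit 5) (nat_lit 29) (nat_lit 5) (nat_lit 30) (nat_lit 5) (nat_lit 326) (nat_lit 310) (nat_lit 144))) (XT.nd (nat_lit 78) (nat_lit 228) (nat_lit 0) (XT.lf (nat_lit 0) (nat_lit 340189248442) (nat_lit 152) (nat_lit 16068407681) (nat_lit 228) (nat_lit 50781185342) (nat_lit 27) (nat_lit 5) (nat_lit 29) (nat_lit 5) (nat_lit 30) (nat_lit 5) (nat_lit 327) (nat_lit 310) (nat_lit 143)) (XT.lf (nat_lit 0) (nat_lit 9813561033) (nat_lit 228) (nat_lit 293669981687) (nat_lit 76) (nat_lit 124406557038) (nat_lit 24) (nat_lit 5) (nat_lit 27) (nat_lit 5) (nat_lit 25) (nat_lit 5) (nat_lit 328) (nat_lit 310) (nat_lit 142)))))) (XT.nd (nat_lit 546) (nat_lit 456) (nat_lit 0) (XT.nd (nat_lit 234) (nat_lit 304) (nat_lit 0) (XT.nd (nat_lit 78) (nat_lit 152)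 (nat_lit 0) (XT.lf (nat_lit 0) (nat_lit 74804949810) (nat_lit 228) (nat_lit 96869941969) (nat_lit 76) (nat_lit 278445642475) (nat_lit 24) (nat_lit 5) (nat_lit 27) (nat_lit 5) (nat_lit 25) (nat_lit 5) (nat_lit 329) (nat_lit 310) (nat_lit 141)) (XT.nd (nat_lit 78) (nat_lit 0) (nat_lit 0) (XT.lf (nat_lit 0) (nat_lit 121765216336) (nat_lit 152) (nat_lit 26158837086) (nat_lit 228) (nat_lit 325971077919) (nat_lit 22) (nat_lit 5) (nat_lit 24) (nat_lit 5) (nat_lit 25) (nat_lit 5) (nat_lit 330) (nat_lit 310) (nat_lit 140)) (XT.lf (nat_lit 0) (nat_lit 232760542031) (nat_lit 228) (nat_lit 139178929240) (nat_lit 76) (nat_lit 127162796509) (nat_lit 22) (nat_lit 5) (nat_lit 25) (nat_lit 5) (nat_lit 23) (nat_lit 5) (nat_lit 331) (nat_lit 310) (nat_lit 139)))) (XT.nd (nat_lit 156) (nat_lit 152) (nat_lit 0) (XT.nd (nat_lit 78) (nat_lit 0) (nat_lit 0) (XT.lf (nat_lit 0) (nat_lit 94874628189) (nat_lit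 152) (nat_lit 232470461724) (nat_lit 228) (nat_lit 198743994116) (nat_lit 20) (nat_lit 5) (nat_lit 22) (nat_lit 5) (nat_lit 23) (nat_lit 5) (nat_lit 332) (nat_lit 310) (nat_lit 138)) (XT.lf (nat_lit 0) (nat_lit 355567630985) (nat_lit 152) (nat_lit 77734123850) (nat_lit 228) (nat_lit 121628662591) (nat_lit 20) (nat_lit 5) (nat_lit 22) (nat_lit 5) (nat_lit 23) (nat_lit 5) (nat_lit 333) (nat_lit 310) (nat_lit 137))) (XT.nd (nat_lit 78) (nat_lit 76) (nat_lit 0) (XT.lf (nat_lit 0) (nat_lit 51461652530) (nat_lit 76) (nat_lit 499660530000) (nat_lit 152) (nat_lit 34685896693) (nat_lit 19) (nat_lit 5) (nat_lit 20) (nat_lit 5) (nat_lit 21) (nat_lit 4) (nat_lit 334) (nat_lit 310) (nat_lit 136)) (XT.lf (nat_lit 0) (nat_lit 63861792514) (nat_lit 152) (nat_lit 288614669057) (nat_lit 76) (nat_lit 265956644665) (nat_lit 18) (nat_lit 5) (nat_lit 20) (nat_lit 5) (nat_lit 19) (nat_lit 5) (nat_lit 335)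 (nat_lit 310) (nat_lit 135))))) (XT.nd (nat_lit 312) (nat_lit 228) (nat_lit 0) (XT.nd (nat_lit 156) (nat_lit 76) (nat_lit 0) (XT.nd (nat_lit 78) (nat_lit 152) (nat_lit 0) (XT.lf (nat_lit 0) (nat_lit 168419318561) (nat_lit 152) (nat_lit 24125365014) (nat_lit 76) (nat_lit 461051380436) (nat_lit 18) (nat_lit 5) (nat_lit 20) (nat_lit 5) (nat_lit 19) (nat_lit 5) (nat_lit 336) (nat_lit 310) (nat_lit 134)) (XT.lf (nat_lit 0) (nat_lit 275294365202) (nat_lit 152) (nat_lit 12667881532) (nat_lit 228) (nat_lit 403080147740) (nat_lit 16) (nat_lit 5) (nat_lit 18) (nat_lit 5) (nat_lit 19) (nat_lit 5) (nat_lit 337) (nat_lit 310) (nat_lit 133))) (XT.nd (nat_lit 78) (nat_lit 76) (nat_lit 0) (XT.lf (nat_lit 0) (nat_lit 422112799285) (nat_lit 228) (nat_lit 135776609493) (nat_lit 76) (nat_lit 173191487454) (nat_lit 16) (nat_lit 5) (nat_lit 19) (nat_lit 5) (nat_lit 17) (nat_lit 4) (nat_lit 338) (nat_lit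 310) (nat_lit 132)) (XT.lf (nat_lit 0) (nat_lit 175018571957) (nat_lit 76) (nat_lit 396515028201) (nat_lit 152) (nat_lit 202425821700) (nat_lit 15) (nat_lit 5) (nat_lit 16) (nat_lit 5) (nat_lit 17) (nat_lit 4) (nat_lit 339) (nat_lit 310) (nat_lit 131)))) (XT.nd (nat_lit 156) (nat_lit 0) (nat_lit 0) (XT.nd (nat_lit 78) (nat_lit 228) (nat_lit 0) (XT.lf (nat_lit 0) (nat_lit 518399051552) (nat_lit 76) (nat_lit 218221355200) (nat_lit 152) (nat_lit 83350835508) (nat_lit 15) (nat_lit 5) (nat_lit 16) (nat_lit 5) (nat_lit 17) (nat_lit 4) (nat_lit 340) (nat_lit 310) (nat_lit 130)) (XT.lf (nat_lit 0) (nat_lit 19471696974) (nat_lit 152) (nat_lit 23983121690) (nat_lit 228) (nat_lit 826084667116) (nat_lit 12) (nat_lit 5) (nat_lit 14) (nat_lit 5) (nat_lit 15) (nat_lit 5) (nat_lit 341) (nat_lit 310) (nat_lit 129))) (XT.nd (nat_lit 78) (nat_lit 0) (nat_lit 0) (XT.lf (nat_lit 0) (nat_lit 188829827408)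 (nat_lit 228) (nat_lit 545911305101) (nat_lit 76) (nat_lit 187124618791) (nat_lit 12) (nat_lit 5) (nat_lit 15) (nat_lit 5) (nat_lit 13) (nat_lit 4) (nat_lit 342) (nat_lit 310) (nat_lit 128)) (XT.lf (nat_lit 0) (nat_lit 346457747866) (nat_lit 228) (nat_lit 218045287967) (nat_lit 76) (nat_lit 413825249388) (nat_lit 12) (nat_lit 5) (nat_lit 15) (nat_lit 5) (nat_lit 13) (nat_lit 4) (nat_lit 343) (nat_lit 310) (nat_lit 127))))))) (XT.nd (nat_lit 38142) (nat_lit 0) (nat_lit 1672) (XT.nd (nat_lit 546) (nat_lit 76) (nat_lit 0) (XT.nd (nat_lit 234) (nat_lit 228) (nat_lit 0) (XT.nd (nat_lit 78) (nat_lit 0) (nat_lit 0) (XT.lf (nat_lit 0) (nat_lit 143214117137) (nat_lit 76) (nat_lit 376926062590) (nat_lit 152) (nat_lit 518892099946) (nat_lit 11) (nat_lit 5) (nat_lit 12) (nat_lit 5) (nat_lit 13) (nat_lit 4) (nat_lit 344) (nat_lit 310) (nat_lit 126)) (XT.nd (nat_lit 78) (nat_lit 0) (nat_lit 0) (XT.lf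 (nat_lit 0) (nat_lit 545774660927) (nat_lit 76) (nat_lit 167904265443) (nat_lit 152) (nat_lit 390436729727) (nat_lit 11) (nat_lit 5) (nat_lit 12) (nat_lit 5) (nat_lit 13) (nat_lit 4) (nat_lit 345) (nat_lit 310) (nat_lit 125)) (XT.lf (nat_lit 0) (nat_lit 924091785762) (nat_lit 152) (nat_lit 195256731125) (nat_lit 0) (nat_lit 54945904739) (nat_lit 11) (nat_lit 5) (nat_lit 13) (nat_lit 4) (nat_lit 11) (nat_lit 4) (nat_lit 346) (nat_lit 310) (nat_lit 124)))) (XT.nd (nat_lit 156) (nat_lit 76) (nat_lit 0) (XT.nd (nat_lit 78) (nat_lit 76) (nat_lit 0) (XT.lf (nat_lit 0) (nat_lit 202650484542) (nat_lit 76) (nat_lit 957922066893) (nat_lit 76) (nat_lit 88776146791) (nat_lit 10) (nat_lit 4) (nat_lit 11) (nat_lit 5) (nat_lit 11) (nat_lit 4) (nat_lit 347) (nat_lit 310) (nat_lit 123)) (XT.lf (nat_lit 0) (nat_lit 86761491068) (nat_lit 152) (nat_lit 688682054863) (nat_lit 76) (nat_lit 554360960014)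 (nat_lit 9) (nat_lit 5) (nat_lit 11) (nat_lit 5) (nat_lit 10) (nat_lit 4) (nat_lit 348) (nat_lit 310) (nat_lit 122))) (XT.nd (nat_lit 78) (nat_lit 76) (nat_lit 0) (XT.lf (nat_lit 0) (nat_lit 271545902601) (nat_lit 152) (nat_lit 304330512379) (nat_lit 76) (nat_lit 840635894976) (nat_lit 9) (nat_lit 5) (nat_lit 11) (nat_lit 5) (nat_lit 10) (nat_lit 4) (nat_lit 349) (nat_lit 310) (nat_lit 121)) (XT.lf (nat_lit 0) (nat_lit 116602026615) (nat_lit 76) (nat_lit 357315303878) (nat_lit 152) (nat_lit 1036015066742) (nat_lit 8) (nat_lit 5) (nat_lit 9) (nat_lit 5) (nat_lit 10) (nat_lit 4) (nat_lit 350) (nat_lit 310) (nat_lit 120))))) (XT.nd (nat_lit 234) (nat_lit 76) (nat_lit 0) (XT.nd (nat_lit 78) (nat_lit 0) (nat_lit 0) (XT.lf (nat_lit 0) (nat_lit 588516682950) (nat_lit 76) (nat_lit 112282707667) (nat_lit 152) (nat_lit 909361027459) (nat_lit 8) (nat_lit 5) (nat_lit 9) (nat_lit 5) (nat_lit 10)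 (nat_lit 4) (nat_lit 351) (nat_lit 310) (nat_lit 119)) (XT.nd (nat_lit 78) (nat_lit 0) (nat_lit 0) (XT.lf (nat_lit 0) (nat_lit 949496080207) (nat_lit 152) (nat_lit 623886280325) (nat_lit 0) (nat_lit 144731194899) (nat_lit 8) (nat_lit 5) (nat_lit 10) (nat_lit 4) (nat_lit 8) (nat_lit 4) (nat_lit 352) (nat_lit 310) (nat_lit 118)) (XT.lf (nat_lit 0) (nat_lit 1221004923610) (nat_lit 152) (nat_lit 197224691192) (nat_lit 0) (nat_lit 416240015500) (nat_lit 8) (nat_lit 5) (nat_lit 10) (nat_lit 4) (nat_lit 8) (nat_lit 4) (nat_lit 353) (nat_lit 310) (nat_lit 117)))) (XT.nd (nat_lit 156) (nat_lit 0) (nat_lit 0) (XT.nd (nat_lit 78) (nat_lit 0) (nat_lit 0) (XT.lf (nat_lit 0) (nat_lit 277448917599) (nat_lit 76) (nat_lit 1243458195842) (nat_lit 76) (nat_lit 438693266620) (nat_lit 7) (nat_lit 4) (nat_lit 8) (nat_lit 5) (nat_lit 8) (nat_lit 4) (nat_lit 354) (nat_lit 310) (nat_lit 116)) (XT.lf (nat_lit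 0) (nat_lit 801312732690) (nat_lit 76) (nat_lit 1048881204596) (nat_lit 76) (nat_lit 244116255824) (nat_lit 7) (nat_lit 4) (nat_lit 8) (nat_lit 5) (nat_lit 8) (nat_lit 4) (nat_lit 355) (nat_lit 310) (nat_lit 115))) (XT.nd (nat_lit 37128) (nat_lit 0) (nat_lit 2660) (XT.lf (nat_lit 0) (nat_lit 1367085629518) (nat_lit 76) (nat_lit 838738064794) (nat_lit 76) (nat_lit 33973097922) (nat_lit 7) (nat_lit 4) (nat_lit 8) (nat_lit 5) (nat_lit 8) (nat_lit 4) (nat_lit 356) (nat_lit 310) (nat_lit 114)) (XT.lf (nat_lit 0) (nat_lit 55989304723) (nat_lit 532) (nat_lit 23809537063) (nat_lit 532) (nat_lit 23809537063) (nat_lit 42) (nat_lit 3) (nat_lit 49) (nat_lit 3) (nat_lit 49) (nat_lit 5) (nat_lit 311) (nat_lit 311) (nat_lit 158)))))) (XT.nd (nat_lit 546) (nat_lit 760) (nat_lit 0) (XT.nd (nat_lit 234) (nat_lit 228) (nat_lit 0) (XT.nd (nat_lit 78) (nat_lit 0) (nat_lit 76) (XT.lf (nat_lit 76) (nat_lit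 47397999125) (nat_lit 0) (nat_lit 70201059137) (nat_lit 532) (nat_lit 97815060190) (nat_lit 43) (nat_lit 5) (nat_lit 42) (nat_lit 3) (nat_lit 49) (nat_lit 5) (nat_lit 312) (nat_lit 311) (nat_lit 157)) (XT.nd (nat_lit 78) (nat_lit 0) (nat_lit 0) (XT.lf (nat_lit 0) (nat_lit 125638465233) (nat_lit 456) (nat_lit 72106094742) (nat_lit 532) (nat_lit 26365162833) (nat_lit 43) (nat_lit 5) (nat_lit 49) (nat_lit 5) (nat_lit 50) (nat_lit 5) (nat_lit 313) (nat_lit 311) (nat_lit 156)) (XT.lf (nat_lit 76) (nat_lit 31214729654) (nat_lit 0) (nat_lit 105680285877) (nat_lit 532) (nat_lit 96400041201) (nat_lit 44) (nat_lit 5) (nat_lit 43) (nat_lit 5) (nat_lit 50) (nat_lit 5) (nat_lit 314) (nat_lit 311) (nat_lit 155)))) (XT.nd (nat_lit 156) (nat_lit 304) (nat_lit 0) (XT.nd (nat_lit 78) (nat_lit 0) (nat_lit 76) (XT.lf (nat_lit 76) (nat_lit 146901874439) (nat_lit 0) (nat_lit 4121602976) (nat_lit 532) (nat_lit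 92034029396) (nat_lit 44) (nat_lit 5) (nat_lit 43) (nat_lit 5) (nat_lit 50) (nat_lit 5) (nat_lit 315) (nat_lit 311) (nat_lit 154)) (XT.lf (nat_lit 76) (nat_lit 16531142264) (nat_lit 0) (nat_lit 152687300512) (nat_lit 532) (nat_lit 84147612409) (nat_lit 45) (nat_lit 5) (nat_lit 44) (nat_lit 5) (nat_lit 51) (nat_lit 5) (nat_lit 316) (nat_lit 311) (nat_lit 153))) (XT.nd (nat_lit 78) (nat_lit 380) (nat_lit 0) (XT.lf (nat_lit 76) (nat_lit 143588538046) (nat_lit 0) (nat_lit 48013772219) (nat_lit 532) (nat_lit 72678313156) (nat_lit 45) (nat_lit 5) (nat_lit 44) (nat_lit 5) (nat_lit 51) (nat_lit 5) (nat_lit 317) (nat_lit 311) (nat_lit 152)) (XT.lf (nat_lit 0) (nat_lit 3345369552) (nat_lit 456) (nat_lit 214075937723) (nat_lit 532) (nat_lit 58515496584) (nat_lit 39) (nat_lit 5) (nat_lit 45) (nat_lit 5) (nat_lit 46) (nat_lit 5) (nat_lit 318) (nat_lit 311) (nat_lit 151))))) (XT.nd (nat_lit 312)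 (nat_lit 456) (nat_lit 0) (XT.nd (nat_lit 156) (nat_lit 304) (nat_lit 0) (XT.nd (nat_lit 78) (nat_lit 0) (nat_lit 0) (XT.lf (nat_lit 0) (nat_lit 142856820112) (nat_lit 456) (nat_lit 106964386427) (nat_lit 532) (nat_lit 38343041923) (nat_lit 39) (nat_lit 5) (nat_lit 45) (nat_lit 5) (nat_lit 46) (nat_lit 5) (nat_lit 319) (nat_lit 311) (nat_lit 150)) (XT.lf (nat_lit 0) (nat_lit 285022635276) (nat_lit 532) (nat_lit 8050409982) (nat_lit 76) (nat_lit 8280080675) (nat_lit 39) (nat_lit 5) (nat_lit 46) (nat_lit 5) (nat_lit 40) (nat_lit 5) (nat_lit 320) (nat_lit 311) (nat_lit 149))) (XT.nd (nat_lit 78) (nat_lit 0) (nat_lit 0) (XT.lf (nat_lit 0) (nat_lit 13490170692) (nat_lit 304) (nat_lit 170793585346) (nat_lit 76) (nat_lit 130785482296) (nat_lit 35) (nat_lit 5) (nat_lit 39) (nat_lit 5) (nat_lit 36) (nat_lit 5) (nat_lit 321) (nat_lit 311) (nat_lit 148)) (XT.lf (nat_lit 0) (nat_lit 45039967378)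 (nat_lit 304) (nat_lit 21049363390) (nat_lit 76) (nat_lit 263741315464) (nat_lit 35) (nat_lit 5) (nat_lit 39) (nat_lit 5) (nat_lit 36) (nat_lit 5) (nat_lit 322) (nat_lit 311) (nat_lit 147)))) (XT.nd (nat_lit 156) (nat_lit 228) (nat_lit 0) (XT.nd (nat_lit 78) (nat_lit 0) (nat_lit 0) (XT.lf (nat_lit 0) (nat_lit 84248090300) (nat_lit 304) (nat_lit 198979119863) (nat_lit 76) (nat_lit 62135009423) (nat_lit 32) (nat_lit 5) (nat_lit 36) (nat_lit 5) (nat_lit 33) (nat_lit 5) (nat_lit 323) (nat_lit 311) (nat_lit 146)) (XT.lf (nat_lit 0) (nat_lit 128899877105) (nat_lit 304) (nat_lit 35414654849) (nat_lit 76) (nat_lit 197637225936) (nat_lit 32) (nat_lit 5) (nat_lit 36) (nat_lit 5) (nat_lit 33) (nat_lit 5) (nat_lit 324) (nat_lit 311) (nat_lit 145))) (XT.nd (nat_lit 78) (nat_lit 0) (nat_lit 0) (XT.lf (nat_lit 0) (nat_lit 148672073180) (nat_lit 228) (nat_lit 32027238022) (nat_lit 304) (nat_lit 198883107900)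 (nat_lit 29) (nat_lit 5) (nat_lit 32) (nat_lit 5) (nat_lit 33) (nat_lit 5) (nat_lit 325) (nat_lit 311) (nat_lit 144)) (XT.lf (nat_lit 0) (nat_lit 240301867894) (nat_lit 304) (nat_lit 51737271618) (nat_lit 76) (nat_lit 106291660448) (nat_lit 29) (nat_lit 5) (nat_lit 33) (nat_lit 5) (nat_lit 30) (nat_lit 5) (nat_lit 326) (nat_lit 311) (nat_lit 143))))))))
noncomputable def xc117 : XT := (XT.nd (nat_lit 2262) (nat_lit 0) (nat_lit 0) (XT.nd (nat_lit 1092) (nat_lit 608) (nat_lit 0) (XT.nd (nat_lit 546) (nat_lit 380) (nat_lit 0) (XT.nd (nat_lit 234) (nat_lit 304) (nat_lit 0) (XT.nd (nat_lit 78) (nat_lit 228) (nat_lit 0) (XT.lf (nat_lit 0) (nat_lit 148359231358) (nat_lit 152) (nat_lit 160713261641) (nat_lit 228) (nat_lit 109154569340) (nat_lit 27) (nat_lit 5) (nat_lit 29) (nat_lit 5) (nat_lit 30) (nat_lit 5) (nat_lit 327) (nat_lit 311) (nat_lit 142)) (XT.nd (nat_lit 78) (nat_lit 228) (nat_lit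 0) (XT.lf (nat_lit 0) (nat_lit 367405730269) (nat_lit 152) (nat_lit 17353573478) (nat_lit 228) (nat_lit 54842559262) (nat_lit 27) (nat_lit 5) (nat_lit 29) (nat_lit 5) (nat_lit 30) (nat_lit 5) (nat_lit 328) (nat_lit 311) (nat_lit 141)) (XT.lf (nat_lit 0) (nat_lit 10599673043) (nat_lit 228) (nat_lit 317162139209) (nat_lit 76) (nat_lit 134359410777) (nat_lit 24) (nat_lit 5) (nat_lit 27) (nat_lit 5) (nat_lit 25) (nat_lit 5) (nat_lit 329) (nat_lit 311) (nat_lit 140)))) (XT.nd (nat_lit 156) (nat_lit 152) (nat_lit 0) (XT.nd (nat_lit 78) (nat_lit 152) (nat_lit 0) (XT.lf (nat_lit 0) (nat_lit 80790296839) (nat_lit 228) (nat_lit 104618203056) (nat_lit 76) (nat_lit 300721598666) (nat_lit 24) (nat_lit 5) (nat_lit 27) (nat_lit 5) (nat_lit 25) (nat_lit 5) (nat_lit 330) (nat_lit 311) (nat_lit 139)) (XT.lf (nat_lit 0) (nat_lit 131507734135) (nat_lit 152) (nat_lit 28251155434) (nat_lit 228) (nat_lit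 352047777153) (nat_lit 22) (nat_lit 5) (nat_lit 24) (nat_lit 5) (nat_lit 25) (nat_lit 5) (nat_lit 331) (nat_lit 311) (nat_lit 138))) (XT.nd (nat_lit 78) (nat_lit 152) (nat_lit 0) (XT.lf (nat_lit 0) (nat_lit 251382238375) (nat_lit 228) (nat_lit 150311978512) (nat_lit 76) (nat_lit 137336162062) (nat_lit 22) (nat_lit 5) (nat_lit 25) (nat_lit 5) (nat_lit 23) (nat_lit 5) (nat_lit 332) (nat_lit 311) (nat_lit 137)) (XT.lf (nat_lit 0) (nat_lit 102465831485) (nat_lit 152) (nat_lit 251067685073) (nat_lit 228) (nat_lit 214642626771) (nat_lit 20) (nat_lit 5) (nat_lit 22) (nat_lit 5) (nat_lit 23) (nat_lit 5) (nat_lit 333) (nat_lit 311) (nat_lit 136))))) (XT.nd (nat_lit 234) (nat_lit 228) (nat_lit 0) (XT.nd (nat_lit 78) (nat_lit 152) (nat_lit 0) (XT.lf (nat_lit 0) (nat_lit 384014183167) (nat_lit 152) (nat_lit 83952470806) (nat_lit 228) (nat_lit 131358134419) (nat_lit 20) (nat_lit 5) (nat_lit 22)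 (nat_lit 5) (nat_lit 23) (nat_lit 5) (nat_lit 334) (nat_lit 311) (nat_lit 135)) (XT.nd (nat_lit 78) (nat_lit 76) (nat_lit 0) (XT.lf (nat_lit 0) (nat_lit 55579749403) (nat_lit 76) (nat_lit 539632946815) (nat_lit 152) (nat_lit 37459968616) (nat_lit 19) (nat_lit 5) (nat_lit 20) (nat_lit 5) (nat_lit 21) (nat_lit 4) (nat_lit 335) (nat_lit 311) (nat_lit 134)) (XT.lf (nat_lit 0) (nat_lit 68971439437) (nat_lit 152) (nat_lit 311702725764) (nat_lit 76) (nat_lit 287233531880) (nat_lit 18) (nat_lit 5) (nat_lit 20) (nat_lit 5) (nat_lit 19) (nat_lit 5) (nat_lit 336) (nat_lit 311) (nat_lit 133)))) (XT.nd (nat_lit 156) (nat_lit 76) (nat_lit 0) (XT.nd (nat_lit 78) (nat_lit 152) (nat_lit 0) (XT.lf (nat_lit 0) (nat_lit 181893515455) (nat_lit 152) (nat_lit 26054360126) (nat_lit 76) (nat_lit 497935820169) (nat_lit 18) (nat_lit 5) (nat_lit 20) (nat_lit 5) (nat_lit 19) (nat_lit 5) (nat_lit 337) (nat_lit 311)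 (nat_lit 132)) (XT.lf (nat_lit 0) (nat_lit 297318922329) (nat_lit 152) (nat_lit 13680931541) (nat_lit 228) (nat_lit 435325880795) (nat_lit 16) (nat_lit 5) (nat_lit 18) (nat_lit 5) (nat_lit 19) (nat_lit 5) (nat_lit 338) (nat_lit 311) (nat_lit 131))) (XT.nd (nat_lit 78) (nat_lit 76) (nat_lit 0) (XT.lf (nat_lit 0) (nat_lit 455882412623) (nat_lit 228) (nat_lit 146637765913) (nat_lit 76) (nat_lit 187047141153) (nat_lit 16) (nat_lit 5) (nat_lit 19) (nat_lit 5) (nat_lit 17) (nat_lit 4) (nat_lit 339) (nat_lit 311) (nat_lit 130)) (XT.lf (nat_lit 0) (nat_lit 189021005438) (nat_lit 76) (nat_lit 428235851264) (nat_lit 152) (nat_lit 218619272415) (nat_lit 15) (nat_lit 5) (nat_lit 16) (nat_lit 5) (nat_lit 17) (nat_lit 4) (nat_lit 340) (nat_lit 311) (nat_lit 129)))))) (XT.nd (nat_lit 546) (nat_lit 304) (nat_lit 0) (XT.nd (nat_lit 234) (nat_lit 76) (nat_lit 0) (XT.nd (nat_lit 78) (nat_lit 228) (nat_lit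 0) (XT.lf (nat_lit 0) (nat_lit 559871853198) (nat_lit 76) (nat_lit 235678712511) (nat_lit 152) (nat_lit 90018332886) (nat_lit 15) (nat_lit 5) (nat_lit 16) (nat_lit 5) (nat_lit 17) (nat_lit 4) (nat_lit 341) (nat_lit 311) (nat_lit 128)) (XT.nd (nat_lit 78) (nat_lit 0) (nat_lit 0) (XT.lf (nat_lit 0) (nat_lit 21030316647) (nat_lit 152) (nat_lit 25901409673) (nat_lit 228) (nat_lit 892170875749) (nat_lit 12) (nat_lit 5) (nat_lit 14) (nat_lit 5) (nat_lit 15) (nat_lit 5) (nat_lit 342) (nat_lit 311) (nat_lit 127)) (XT.lf (nat_lit 0) (nat_lit 203936705140) (nat_lit 228) (nat_lit 589583359705) (nat_lit 76) (nat_lit 202094906494) (nat_lit 12) (nat_lit 5) (nat_lit 15) (nat_lit 5) (nat_lit 13) (nat_lit 4) (nat_lit 343) (nat_lit 311) (nat_lit 126)))) (XT.nd (nat_lit 156) (nat_lit 0) (nat_lit 0) (XT.nd (nat_lit 78) (nat_lit 76) (nat_lit 0) (XT.lf (nat_lit 0) (nat_lit 374174822824) (nat_lit 228) (nat_lit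 235488124150) (nat_lit 76) (nat_lit 446931563968) (nat_lit 12) (nat_lit 5) (nat_lit 15) (nat_lit 5) (nat_lit 13) (nat_lit 4) (nat_lit 344) (nat_lit 311) (nat_lit 125)) (XT.lf (nat_lit 0) (nat_lit 154672013443) (nat_lit 76) (nat_lit 407079820523) (nat_lit 152) (nat_lit 560402992256) (nat_lit 11) (nat_lit 5) (nat_lit 12) (nat_lit 5) (nat_lit 13) (nat_lit 4) (nat_lit 345) (nat_lit 311) (nat_lit 124))) (XT.nd (nat_lit 78) (nat_lit 0) (nat_lit 0) (XT.lf (nat_lit 0) (nat_lit 589437343926) (nat_lit 76) (nat_lit 181336303832) (nat_lit 152) (nat_lit 421671227656) (nat_lit 11) (nat_lit 5) (nat_lit 12) (nat_lit 5) (nat_lit 13) (nat_lit 4) (nat_lit 346) (nat_lit 311) (nat_lit 123)) (XT.lf (nat_lit 0) (nat_lit 998019512477) (nat_lit 152) (nat_lit 210876588122) (nat_lit 0) (nat_lit 59341843504) (nat_lit 11) (nat_lit 5) (nat_lit 13) (nat_lit 4) (nat_lit 11) (nat_lit 4) (nat_lit 347) (nat_lit 311)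 (nat_lit 122))))) (XT.nd (nat_lit 312) (nat_lit 76) (nat_lit 0) (XT.nd (nat_lit 156) (nat_lit 76) (nat_lit 0) (XT.nd (nat_lit 78) (nat_lit 76) (nat_lit 0) (XT.lf (nat_lit 0) (nat_lit 218863187545) (nat_lit 76) (nat_lit 1034555539400) (nat_lit 76) (nat_lit 95877836923) (nat_lit 10) (nat_lit 4) (nat_lit 11) (nat_lit 5) (nat_lit 11) (nat_lit 4) (nat_lit 348) (nat_lit 311) (nat_lit 121)) (XT.lf (nat_lit 0) (nat_lit 93702763614) (nat_lit 152) (nat_lit 743775985181) (nat_lit 76) (nat_lit 598710088933) (nat_lit 9) (nat_lit 5) (nat_lit 11) (nat_lit 5) (nat_lit 10) (nat_lit 4) (nat_lit 349) (nat_lit 311) (nat_lit 120))) (XT.nd (nat_lit 78) (nat_lit 76) (nat_lit 0) (XT.lf (nat_lit 0) (nat_lit 293269901902) (nat_lit 152) (nat_lit 328676366266) (nat_lit 76) (nat_lit 907887000017) (nat_lit 9) (nat_lit 5) (nat_lit 11) (nat_lit 5) (nat_lit 10) (nat_lit 4) (nat_lit 350) (nat_lit 311) (nat_lit 119))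 (XT.lf (nat_lit 0) (nat_lit 125930760984) (nat_lit 76) (nat_lit 385900272575) (nat_lit 152) (nat_lit 1118895929755) (nat_lit 8) (nat_lit 5) (nat_lit 9) (nat_lit 5) (nat_lit 10) (nat_lit 4) (nat_lit 351) (nat_lit 311) (nat_lit 118)))) (XT.nd (nat_lit 156) (nat_lit 76) (nat_lit 0) (XT.nd (nat_lit 78) (nat_lit 0) (nat_lit 0) (XT.lf (nat_lit 0) (nat_lit 635598547438) (nat_lit 76) (nat_lit 121265087602) (nat_lit 152) (nat_lit 982109592686) (nat_lit 8) (nat_lit 5) (nat_lit 9) (nat_lit 5) (nat_lit 10) (nat_lit 4) (nat_lit 352) (nat_lit 311) (nat_lit 117)) (XT.lf (nat_lit 0) (nat_lit 1025456043350) (nat_lit 152) (nat_lit 673796675384) (nat_lit 0) (nat_lit 156309898676) (nat_lit 8) (nat_lit 5) (nat_lit 10) (nat_lit 4) (nat_lit 8) (nat_lit 4) (nat_lit 353) (nat_lit 311) (nat_lit 116))) (XT.nd (nat_lit 78) (nat_lit 76) (nat_lit 0) (XT.lf (nat_lit 0) (nat_lit 1318685573727) (nat_lit 152) (nat_lit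 213002196703) (nat_lit 0) (nat_lit 449539409504) (nat_lit 8) (nat_lit 5) (nat_lit 10) (nat_lit 4) (nat_lit 8) (nat_lit 4) (nat_lit 354) (nat_lit 311) (nat_lit 115)) (XT.lf (nat_lit 0) (nat_lit 299645288898) (nat_lit 76) (nat_lit 1342934641879) (nat_lit 76) (nat_lit 473788459556) (nat_lit 7) (nat_lit 4) (nat_lit 8) (nat_lit 5) (nat_lit 8) (nat_lit 4) (nat_lit 355) (nat_lit 311) (nat_lit 114))))))) (XT.nd (nat_lit 38298) (nat_lit 0) (nat_lit 684) (XT.nd (nat_lit 37674) (nat_lit 0) (nat_lit 1900) (XT.nd (nat_lit 37362) (nat_lit 0) (nat_lit 2736) (XT.nd (nat_lit 37206) (nat_lit 0) (nat_lit 2660) (XT.lf (nat_lit 0) (nat_lit 865418175278) (nat_lit 76) (nat_lit 1132791506861) (nat_lit 76) (nat_lit 263645307777) (nat_lit 7) (nat_lit 4) (nat_lit 8) (nat_lit 5) (nat_lit 8) (nat_lit 4) (nat_lit 356) (nat_lit 311) (nat_lit 113)) (XT.nd (nat_lit 78) (nat_lit 0) (nat_lit 0) (XT.lf (nat_lit 0) (nat_lit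 60469797298) (nat_lit 532) (nat_lit 25713569465) (nat_lit 532) (nat_lit 25713569465) (nat_lit 42) (nat_lit 3) (nat_lit 49) (nat_lit 3) (nat_lit 49) (nat_lit 5) (nat_lit 312) (nat_lit 312) (nat_lit 156)) (XT.lf (nat_lit 76) (nat_lit 51191263192) (nat_lit 0) (nat_lit 75818250645) (nat_lit 532) (nat_lit 105637522225) (nat_lit 43) (nat_lit 5) (nat_lit 42) (nat_lit 3) (nat_lit 49) (nat_lit 5) (nat_lit 313) (nat_lit 312) (nat_lit 155)))) (XT.nd (nat_lit 156) (nat_lit 0) (nat_lit 0) (XT.nd (nat_lit 78) (nat_lit 0) (nat_lit 0) (XT.lf (nat_lit 0) (nat_lit 135691861243) (nat_lit 456) (nat_lit 77873042856) (nat_lit 532) (nat_lit 28473402331) (nat_lit 43) (nat_lit 5) (nat_lit 49) (nat_lit 5) (nat_lit 50) (nat_lit 5) (nat_lit 314) (nat_lit 312) (nat_lit 154)) (XT.lf (nat_lit 76) (nat_lit 33713408517) (nat_lit 0) (nat_lit 114135391372) (nat_lit 532) (nat_lit 104109678677) (nat_lit 44) (nat_lit 5)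 (nat_lit 43) (nat_lit 5) (nat_lit 50) (nat_lit 5) (nat_lit 315) (nat_lit 312) (nat_lit 153))) (XT.nd (nat_lit 78) (nat_lit 0) (nat_lit 76) (XT.lf (nat_lit 76) (nat_lit 158655413738) (nat_lit 0) (nat_lit 4451963274) (nat_lit 532) (nat_lit 99394561173) (nat_lit 44) (nat_lit 5) (nat_lit 43) (nat_lit 5) (nat_lit 50) (nat_lit 5) (nat_lit 316) (nat_lit 312) (nat_lit 152)) (XT.lf (nat_lit 76) (nat_lit 17855167520) (nat_lit 0) (nat_lit 164902645164) (nat_lit 532) (nat_lit 90877368452) (nat_lit 45) (nat_lit 5) (nat_lit 44) (nat_lit 5) (nat_lit 51) (nat_lit 5) (nat_lit 317) (nat_lit 312) (nat_lit 151))))) (XT.nd (nat_lit 312) (nat_lit 532) (nat_lit 0) (XT.nd (nat_lit 156) (nat_lit 0) (nat_lit 0) (XT.nd (nat_lit 78) (nat_lit 380) (nat_lit 0) (XT.lf (nat_lit 76) (nat_lit 155077041344) (nat_lit 0) (nat_lit 51855207895) (nat_lit 532) (nat_lit 78490677330) (nat_lit 45) (nat_lit 5) (nat_lit 44) (nat_lit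 5) (nat_lit 51) (nat_lit 5) (nat_lit 318) (nat_lit 312) (nat_lit 150)) (XT.lf (nat_lit 0) (nat_lit 3614534253) (nat_lit 456) (nat_lit 231202131304) (nat_lit 532) (nat_lit 63194944395) (nat_lit 39) (nat_lit 5) (nat_lit 45) (nat_lit 5) (nat_lit 46) (nat_lit 5) (nat_lit 319) (nat_lit 312) (nat_lit 149))) (XT.nd (nat_lit 78) (nat_lit 0) (nat_lit 0) (XT.lf (nat_lit 0) (nat_lit 154286787144) (nat_lit 456) (nat_lit 115521647121) (nat_lit 532) (nat_lit 41408826095) (nat_lit 39) (nat_lit 5) (nat_lit 45) (nat_lit 5) (nat_lit 46) (nat_lit 5) (nat_lit 320) (nat_lit 312) (nat_lit 148)) (XT.lf (nat_lit 0) (nat_lit 307825861434) (nat_lit 532) (nat_lit 8693005706) (nat_lit 76) (nat_lit 8942390565) (nat_lit 39) (nat_lit 5) (nat_lit 46) (nat_lit 5) (nat_lit 40) (nat_lit 5) (nat_lit 321) (nat_lit 312) (nat_lit 147)))) (XT.nd (nat_lit 156) (nat_lit 228) (nat_lit 0) (XT.nd (nat_lit 78) (nat_lit 0) (nat_lit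 0) (XT.lf (nat_lit 0) (nat_lit 14570767909) (nat_lit 304) (nat_lit 184455594272) (nat_lit 76) (nat_lit 141248300183) (nat_lit 35) (nat_lit 5) (nat_lit 39) (nat_lit 5) (nat_lit 36) (nat_lit 5) (nat_lit 322) (nat_lit 312) (nat_lit 146)) (XT.lf (nat_lit 0) (nat_lit 48644445844) (nat_lit 304) (nat_lit 22731944034) (nat_lit 76) (nat_lit 284840601537) (nat_lit 35) (nat_lit 5) (nat_lit 39) (nat_lit 5) (nat_lit 36) (nat_lit 5) (nat_lit 323) (nat_lit 312) (nat_lit 145))) (XT.nd (nat_lit 78) (nat_lit 0) (nat_lit 0) (XT.lf (nat_lit 0) (nat_lit 90989158561) (nat_lit 304) (nat_lit 214896017255) (nat_lit 76) (nat_lit 67105919922) (nat_lit 32) (nat_lit 5) (nat_lit 36) (nat_lit 5) (nat_lit 33) (nat_lit 5) (nat_lit 324) (nat_lit 312) (nat_lit 144)) (XT.lf (nat_lit 0) (nat_lit 139212997863) (nat_lit 304) (nat_lit 38246501129) (nat_lit 76) (nat_lit 213448305628) (nat_lit 32) (nat_lit 5) (nat_lit 36) (nat_lit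 5) (nat_lit 33) (nat_lit 5) (nat_lit 325) (nat_lit 312) (nat_lit 143)))))) (XT.nd (nat_lit 546) (nat_lit 456) (nat_lit 0) (XT.nd (nat_lit 234) (nat_lit 380) (nat_lit 0) (XT.nd (nat_lit 78) (nat_lit 152) (nat_lit 0) (XT.lf (nat_lit 0) (nat_lit 160567131571) (nat_lit 228) (nat_lit 34589202456) (nat_lit 304) (nat_lit 214792589171) (nat_lit 29) (nat_lit 5) (nat_lit 32) (nat_lit 5) (nat_lit 33) (nat_lit 5) (nat_lit 326) (nat_lit 312) (nat_lit 142)) (XT.nd (nat_lit 78) (nat_lit 152) (nat_lit 0) (XT.lf (nat_lit 0) (nat_lit 259527020186) (nat_lit 304) (nat_lit 55874978526) (nat_lit 76) (nat_lit 114795182054) (nat_lit 29) (nat_lit 5) (nat_lit 33) (nat_lit 5) (nat_lit 30) (nat_lit 5) (nat_lit 327) (nat_lit 312) (nat_lit 141)) (XT.lf (nat_lit 0) (nat_lit 160229212414) (nat_lit 152) (nat_lit 173570038483) (nat_lit 228) (nat_lit 117885897010) (nat_lit 27) (nat_lit 5) (nat_lit 29) (nat_lit 5) (nat_lit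 30) (nat_lit 5) (nat_lit 328) (nat_lit 312) (nat_lit 140)))) (XT.nd (nat_lit 156) (nat_lit 152) (nat_lit 0) (XT.nd (nat_lit 78) (nat_lit 228) (nat_lit 0) (XT.lf (nat_lit 0) (nat_lit 396799339198) (nat_lit 152) (nat_lit 18741596311) (nat_lit 228) (nat_lit 59229003006) (nat_lit 27) (nat_lit 5) (nat_lit 29) (nat_lit 5) (nat_lit 30) (nat_lit 5) (nat_lit 329) (nat_lit 312) (nat_lit 139)) (XT.lf (nat_lit 0) (nat_lit 11448527483) (nat_lit 228) (nat_lit 342533874909) (nat_lit 76) (nat_lit 145108445855) (nat_lit 24) (nat_lit 5) (nat_lit 27) (nat_lit 5) (nat_lit 25) (nat_lit 5) (nat_lit 330) (nat_lit 312) (nat_lit 138))) (XT.nd (nat_lit 78) (nat_lit 152) (nat_lit 0) (XT.lf (nat_lit 0) (nat_lit 87254335952) (nat_lit 228) (nat_lit 112986515378) (nat_lit 76) (nat_lit 324779587870) (nat_lit 24) (nat_lit 5) (nat_lit 27) (nat_lit 5) (nat_lit 25) (nat_lit 5) (nat_lit 331) (nat_lit 312) (nat_lit 137))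 (XT.lf (nat_lit 0) (nat_lit 142029467828) (nat_lit 152) (nat_lit 30510914691) (nat_lit 228) (nat_lit 380210753132) (nat_lit 22) (nat_lit 5) (nat_lit 24) (nat_lit 5) (nat_lit 25) (nat_lit 5) (nat_lit 332) (nat_lit 312) (nat_lit 136))))) (XT.nd (nat_lit 312) (nat_lit 228) (nat_lit 0) (XT.nd (nat_lit 156) (nat_lit 76) (nat_lit 0) (XT.nd (nat_lit 78) (nat_lit 152) (nat_lit 0) (XT.lf (nat_lit 0) (nat_lit 271493548738) (nat_lit 228) (nat_lit 162335852201) (nat_lit 76) (nat_lit 148323348093) (nat_lit 22) (nat_lit 5) (nat_lit 25) (nat_lit 5) (nat_lit 23) (nat_lit 5) (nat_lit 333) (nat_lit 312) (nat_lit 135)) (XT.lf (nat_lit 0) (nat_lit 110664155137) (nat_lit 152) (nat_lit 271152745294) (nat_lit 228) (nat_lit 231813276562) (nat_lit 20) (nat_lit 5) (nat_lit 22) (nat_lit 5) (nat_lit 23) (nat_lit 5) (nat_lit 334) (nat_lit 312) (nat_lit 134))) (XT.nd (nat_lit 78) (nat_lit 76) (nat_lit 0) (XT.lf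 (nat_lit 0) (nat_lit 414736296648) (nat_lit 152) (nat_lit 90668340151) (nat_lit 228) (nat_lit 141866081143) (nat_lit 20) (nat_lit 5) (nat_lit 22) (nat_lit 5) (nat_lit 23) (nat_lit 5) (nat_lit 335) (nat_lit 312) (nat_lit 133)) (XT.lf (nat_lit 0) (nat_lit 60027127873) (nat_lit 76) (nat_lit 582803217690) (nat_lit 152) (nat_lit 40456080395) (nat_lit 19) (nat_lit 5) (nat_lit 20) (nat_lit 5) (nat_lit 21) (nat_lit 4) (nat_lit 336) (nat_lit 312) (nat_lit 132)))) (XT.nd (nat_lit 156) (nat_lit 152) (nat_lit 0) (XT.nd (nat_lit 78) (nat_lit 0) (nat_lit 0) (XT.lf (nat_lit 0) (nat_lit 74489757748) (nat_lit 152) (nat_lit 336637986335) (nat_lit 76) (nat_lit 310212519337) (nat_lit 18) (nat_lit 5) (nat_lit 20) (nat_lit 5) (nat_lit 19) (nat_lit 5) (nat_lit 337) (nat_lit 312) (nat_lit 131)) (XT.lf (nat_lit 0) (nat_lit 196445555169) (nat_lit 152) (nat_lit 28137822370) (nat_lit 76) (nat_lit 537770968103)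 (nat_lit 18) (nat_lit 5) (nat_lit 20) (nat_lit 5) (nat_lit 19) (nat_lit 5) (nat_lit 338) (nat_lit 312) (nat_lit 130))) (XT.nd (nat_lit 78) (nat_lit 0) (nat_lit 0) (XT.lf (nat_lit 0) (nat_lit 321105300236) (nat_lit 152) (nat_lit 14775079835) (nat_lit 228) (nat_lit 470151369328) (nat_lit 16) (nat_lit 5) (nat_lit 18) (nat_lit 5) (nat_lit 19) (nat_lit 5) (nat_lit 339) (nat_lit 312) (nat_lit 129)) (XT.lf (nat_lit 0) (nat_lit 492353510945) (nat_lit 228) (nat_lit 158367953561) (nat_lit 76) (nat_lit 202011199399) (nat_lit 16) (nat_lit 5) (nat_lit 19) (nat_lit 5) (nat_lit 17) (nat_lit 4) (nat_lit 340) (nat_lit 312) (nat_lit 128))))))))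
noncomputable def xc118 : XT := (XT.nd (nat_lit 39546) (nat_lit 0) (nat_lit 0) (XT.nd (nat_lit 1092) (nat_lit 0) (nat_lit 0) (XT.nd (nat_lit 546) (nat_lit 228) (nat_lit 0) (XT.nd (nat_lit 234) (nat_lit 76) (nat_lit 0) (XT.nd (nat_lit 78) (nat_lit 228) (nat_lit 0) (XT.lf (nat_lit 0) (nat_lit 204143498393) (nat_lit 76) (nat_lit 462494394268) (nat_lit 152) (nat_lit 236108286927) (nat_lit 15) (nat_lit 5) (nat_lit 16) (nat_lit 5) (nat_lit 17) (nat_lit 4) (nat_lit 341) (nat_lit 312) (nat_lit 127)) (XT.nd (nat_lit 78) (nat_lit 228) (nat_lit 0) (XT.lf (nat_lit 0) (nat_lit 604662353787) (nat_lit 76) (nat_lit 254532708495) (nat_lit 152) (nat_lit 97219311293) (nat_lit 15) (nat_lit 5) (nat_lit 16) (nat_lit 5) (nat_lit 17) (nat_lit 4) (nat_lit 342) (nat_lit 312) (nat_lit 126)) (XT.lf (nat_lit 0) (nat_lit 22713499793) (nat_lit 152) (nat_lit 27973212303) (nat_lit 228) (nat_lit 963544061639) (nat_lit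 12) (nat_lit 5) (nat_lit 14) (nat_lit 5) (nat_lit 15) (nat_lit 5) (nat_lit 343) (nat_lit 312) (nat_lit 125)))) (XT.nd (nat_lit 156) (nat_lit 76) (nat_lit 0) (XT.nd (nat_lit 78) (nat_lit 0) (nat_lit 0) (XT.lf (nat_lit 0) (nat_lit 220252062967) (nat_lit 228) (nat_lit 636749299912) (nat_lit 76) (nat_lit 218262771819) (nat_lit 12) (nat_lit 5) (nat_lit 15) (nat_lit 5) (nat_lit 13) (nat_lit 4) (nat_lit 344) (nat_lit 312) (nat_lit 124)) (XT.lf (nat_lit 0) (nat_lit 404109198850) (nat_lit 228) (nat_lit 254326499481) (nat_lit 76) (nat_lit 482686341682) (nat_lit 12) (nat_lit 5) (nat_lit 15) (nat_lit 5) (nat_lit 13) (nat_lit 4) (nat_lit 345) (nat_lit 312) (nat_lit 123))) (XT.nd (nat_lit 78) (nat_lit 0) (nat_lit 0) (XT.lf (nat_lit 0) (nat_lit 167046432041) (nat_lit 76) (nat_lit 439645925752) (nat_lit 152) (nat_lit 605234823814) (nat_lit 11) (nat_lit 5) (nat_lit 12) (nat_lit 5) (nat_lit 13) (nat_lit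 4) (nat_lit 346) (nat_lit 312) (nat_lit 122)) (XT.lf (nat_lit 0) (nat_lit 636592940257) (nat_lit 76) (nat_lit 195842948497) (nat_lit 152) (nat_lit 455404548254) (nat_lit 11) (nat_lit 5) (nat_lit 12) (nat_lit 5) (nat_lit 13) (nat_lit 4) (nat_lit 347) (nat_lit 312) (nat_lit 121))))) (XT.nd (nat_lit 234) (nat_lit 76) (nat_lit 0) (XT.nd (nat_lit 78) (nat_lit 152) (nat_lit 0) (XT.lf (nat_lit 0) (nat_lit 1077861402567) (nat_lit 152) (nat_lit 227746130902) (nat_lit 0) (nat_lit 64089419367) (nat_lit 11) (nat_lit 5) (nat_lit 13) (nat_lit 4) (nat_lit 11) (nat_lit 4) (nat_lit 348) (nat_lit 312) (nat_lit 120)) (XT.nd (nat_lit 78) (nat_lit 76) (nat_lit 0) (XT.lf (nat_lit 0) (nat_lit 236372812026) (nat_lit 76) (nat_lit 1117319731485) (nat_lit 76) (nat_lit 103547719560) (nat_lit 10) (nat_lit 4) (nat_lit 11) (nat_lit 5) (nat_lit 11) (nat_lit 4) (nat_lit 349) (nat_lit 312) (nat_lit 119)) (XT.lf (nat_lit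 0) (nat_lit 101199287566) (nat_lit 152) (nat_lit 803277520381) (nat_lit 76) (nat_lit 646607112198) (nat_lit 9) (nat_lit 5) (nat_lit 11) (nat_lit 5) (nat_lit 10) (nat_lit 4) (nat_lit 350) (nat_lit 312) (nat_lit 118)))) (XT.nd (nat_lit 156) (nat_lit 0) (nat_lit 0) (XT.nd (nat_lit 78) (nat_lit 76) (nat_lit 0) (XT.lf (nat_lit 0) (nat_lit 316731774483) (nat_lit 152) (nat_lit 354969972222) (nat_lit 76) (nat_lit 980518160158) (nat_lit 9) (nat_lit 5) (nat_lit 11) (nat_lit 5) (nat_lit 10) (nat_lit 4) (nat_lit 351) (nat_lit 312) (nat_lit 117)) (XT.lf (nat_lit 0) (nat_lit 136005712465) (nat_lit 76) (nat_lit 416772075233) (nat_lit 152) (nat_lit 1208407310645) (nat_lit 8) (nat_lit 5) (nat_lit 9) (nat_lit 5) (nat_lit 10) (nat_lit 4) (nat_lit 352) (nat_lit 312) (nat_lit 116))) (XT.nd (nat_lit 78) (nat_lit 0) (nat_lit 0) (XT.lf (nat_lit 0) (nat_lit 686446885495) (nat_lit 76) (nat_lit 130966091695)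 (nat_lit 152) (nat_lit 1060678088351) (nat_lit 8) (nat_lit 5) (nat_lit 9) (nat_lit 5) (nat_lit 10) (nat_lit 4) (nat_lit 353) (nat_lit 312) (nat_lit 115)) (XT.lf (nat_lit 0) (nat_lit 1107492764066) (nat_lit 152) (nat_lit 727699974430) (nat_lit 0) (nat_lit 168814869055) (nat_lit 8) (nat_lit 5) (nat_lit 10) (nat_lit 4) (nat_lit 8) (nat_lit 4) (nat_lit 354) (nat_lit 312) (nat_lit 114)))))) (XT.nd (nat_lit 37830) (nat_lit 0) (nat_lit 1824) (XT.nd (nat_lit 37518) (nat_lit 0) (nat_lit 2660) (XT.nd (nat_lit 37362) (nat_lit 0) (nat_lit 2584) (XT.lf (nat_lit 0) (nat_lit 1424180639299) (nat_lit 152) (nat_lit 230041969675) (nat_lit 0) (nat_lit 485502727528) (nat_lit 8) (nat_lit 5) (nat_lit 10) (nat_lit 4) (nat_lit 8) (nat_lit 4) (nat_lit 355) (nat_lit 312) (nat_lit 113)) (XT.nd (nat_lit 78) (nat_lit 0) (nat_lit 0) (XT.lf (nat_lit 0) (nat_lit 65308536944) (nat_lit 532) (nat_lit 27770028682) (nat_lit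 532) (nat_lit 27770028682) (nat_lit 42) (nat_lit 3) (nat_lit 49) (nat_lit 3) (nat_lit 49) (nat_lit 5) (nat_lit 313) (nat_lit 313) (nat_lit 154)) (XT.lf (nat_lit 76) (nat_lit 55287785214) (nat_lit 0) (nat_lit 81884659579) (nat_lit 532) (nat_lit 114086172510) (nat_lit 43) (nat_lit 5) (nat_lit 42) (nat_lit 3) (nat_lit 49) (nat_lit 5) (nat_lit 314) (nat_lit 313) (nat_lit 153)))) (XT.nd (nat_lit 156) (nat_lit 0) (nat_lit 0) (XT.nd (nat_lit 78) (nat_lit 0) (nat_lit 0) (XT.lf (nat_lit 0) (nat_lit 146549198133) (nat_lit 456) (nat_lit 84101566442) (nat_lit 532) (nat_lit 30750439873) (nat_lit 43) (nat_lit 5) (nat_lit 49) (nat_lit 5) (nat_lit 50) (nat_lit 5) (nat_lit 315) (nat_lit 313) (nat_lit 152)) (XT.lf (nat_lit 76) (nat_lit 36411767628) (nat_lit 0) (nat_lit 123266807922) (nat_lit 532) (nat_lit 112436424662) (nat_lit 44) (nat_lit 5) (nat_lit 43) (nat_lit 5) (nat_lit 50) (nat_lit 5) (nat_lit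 316) (nat_lit 313) (nat_lit 151))) (XT.nd (nat_lit 78) (nat_lit 0) (nat_lit 76) (XT.lf (nat_lit 76) (nat_lit 171349037975) (nat_lit 0) (nat_lit 4808662225) (nat_lit 532) (nat_lit 107344248003) (nat_lit 44) (nat_lit 5) (nat_lit 43) (nat_lit 5) (nat_lit 50) (nat_lit 5) (nat_lit 317) (nat_lit 313) (nat_lit 150)) (XT.lf (nat_lit 76) (nat_lit 19284895971) (nat_lit 0) (nat_lit 178095165942) (nat_lit 532) (nat_lit 98145797856) (nat_lit 45) (nat_lit 5) (nat_lit 44) (nat_lit 5) (nat_lit 51) (nat_lit 5) (nat_lit 318) (nat_lit 313) (nat_lit 149))))) (XT.nd (nat_lit 312) (nat_lit 532) (nat_lit 0) (XT.nd (nat_lit 156) (nat_lit 0) (nat_lit 0) (XT.nd (nat_lit 78) (nat_lit 380) (nat_lit 0) (XT.lf (nat_lit 76) (nat_lit 167484422290) (nat_lit 0) (nat_lit 56003910791) (nat_lit 532) (nat_lit 84768301819) (nat_lit 45) (nat_lit 5) (nat_lit 44) (nat_lit 5) (nat_lit 51) (nat_lit 5) (nat_lit 319) (nat_lit 313)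 (nat_lit 148)) (XT.lf (nat_lit 0) (nat_lit 3905013126) (nat_lit 456) (nat_lit 249698403457) (nat_lit 532) (nat_lit 68249003667) (nat_lit 39) (nat_lit 5) (nat_lit 45) (nat_lit 5) (nat_lit 46) (nat_lit 5) (nat_lit 320) (nat_lit 313) (nat_lit 147))) (XT.nd (nat_lit 78) (nat_lit 0) (nat_lit 0) (XT.lf (nat_lit 0) (nat_lit 166630948757) (nat_lit 456) (nat_lit 124763473010) (nat_lit 532) (nat_lit 44720109702) (nat_lit 39) (nat_lit 5) (nat_lit 45) (nat_lit 5) (nat_lit 46) (nat_lit 5) (nat_lit 321) (nat_lit 313) (nat_lit 146)) (XT.lf (nat_lit 0) (nat_lit 332453143772) (nat_lit 532) (nat_lit 9387214102) (nat_lit 76) (nat_lit 9657699022) (nat_lit 39) (nat_lit 5) (nat_lit 46) (nat_lit 5) (nat_lit 40) (nat_lit 5) (nat_lit 322) (nat_lit 313) (nat_lit 145)))) (XT.nd (nat_lit 156) (nat_lit 228) (nat_lit 0) (XT.nd (nat_lit 78) (nat_lit 0) (nat_lit 0) (XT.lf (nat_lit 0) (nat_lit 15737615523) (nat_lit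 304) (nat_lit 199210774752) (nat_lit 76) (nat_lit 152548146453) (nat_lit 35) (nat_lit 5) (nat_lit 39) (nat_lit 5) (nat_lit 36) (nat_lit 5) (nat_lit 323) (nat_lit 313) (nat_lit 144)) (XT.lf (nat_lit 0) (nat_lit 52537099828) (nat_lit 304) (nat_lit 24549326351) (nat_lit 76) (nat_lit 307627833230) (nat_lit 35) (nat_lit 5) (nat_lit 39) (nat_lit 5) (nat_lit 36) (nat_lit 5) (nat_lit 324) (nat_lit 313) (nat_lit 143))) (XT.nd (nat_lit 78) (nat_lit 0) (nat_lit 0) (XT.lf (nat_lit 0) (nat_lit 98269338089) (nat_lit 304) (nat_lit 232086470758) (nat_lit 76) (nat_lit 72474487605) (nat_lit 32) (nat_lit 5) (nat_lit 36) (nat_lit 5) (nat_lit 33) (nat_lit 5) (nat_lit 325) (nat_lit 313) (nat_lit 142)) (XT.lf (nat_lit 0) (nat_lit 150351006991) (nat_lit 304) (nat_lit 41305084296) (nat_lit 76) (nat_lit 230524257197) (nat_lit 32) (nat_lit 5) (nat_lit 36) (nat_lit 5) (nat_lit 33) (nat_lit 5) (nat_lit 326) (nat_lit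 313) (nat_lit 141))))))) (XT.nd (nat_lit 1170) (nat_lit 608) (nat_lit 0) (XT.nd (nat_lit 546) (nat_lit 456) (nat_lit 0) (XT.nd (nat_lit 234) (nat_lit 380) (nat_lit 0) (XT.nd (nat_lit 78) (nat_lit 152) (nat_lit 0) (XT.lf (nat_lit 0) (nat_lit 173413610237) (nat_lit 228) (nat_lit 37356154661) (nat_lit 304) (nat_lit 231974995481) (nat_lit 29) (nat_lit 5) (nat_lit 32) (nat_lit 5) (nat_lit 33) (nat_lit 5) (nat_lit 327) (nat_lit 313) (nat_lit 140)) (XT.nd (nat_lit 78) (nat_lit 152) (nat_lit 0) (XT.lf (nat_lit 0) (nat_lit 280290041593) (nat_lit 304) (nat_lit 60343883854) (nat_lit 76) (nat_lit 123978958458) (nat_lit 29) (nat_lit 5) (nat_lit 33) (nat_lit 5) (nat_lit 30) (nat_lit 5) (nat_lit 328) (nat_lit 313) (nat_lit 139)) (XT.lf (nat_lit 0) (nat_lit 173048614692) (nat_lit 152) (nat_lit 187455398000) (nat_lit 228) (nat_lit 127315878959) (nat_lit 27) (nat_lit 5) (nat_lit 29) (nat_lit 5) (nat_lit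 30) (nat_lit 5) (nat_lit 329) (nat_lit 313) (nat_lit 138)))) (XT.nd (nat_lit 156) (nat_lit 152) (nat_lit 0) (XT.nd (nat_lit 78) (nat_lit 228) (nat_lit 0) (XT.lf (nat_lit 0) (nat_lit 428544272708) (nat_lit 152) (nat_lit 20240698496) (nat_lit 228) (nat_lit 63966499346) (nat_lit 27) (nat_lit 5) (nat_lit 29) (nat_lit 5) (nat_lit 30) (nat_lit 5) (nat_lit 330) (nat_lit 313) (nat_lit 137)) (XT.lf (nat_lit 0) (nat_lit 12365164651) (nat_lit 228) (nat_lit 369935525715) (nat_lit 76) (nat_lit 156717363478) (nat_lit 24) (nat_lit 5) (nat_lit 27) (nat_lit 5) (nat_lit 25) (nat_lit 5) (nat_lit 331) (nat_lit 313) (nat_lit 136))) (XT.nd (nat_lit 78) (nat_lit 152) (nat_lit 0) (XT.lf (nat_lit 0) (nat_lit 94235381874) (nat_lit 228) (nat_lit 122024455879) (nat_lit 76) (nat_lit 350762178931) (nat_lit 24) (nat_lit 5) (nat_lit 27) (nat_lit 5) (nat_lit 25) (nat_lit 5) (nat_lit 332) (nat_lit 313) (nat_lit 135))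 (XT.lf (nat_lit 0) (nat_lit 153392781155) (nat_lit 152) (nat_lit 32951502219) (nat_lit 228) (nat_lit 410626887908) (nat_lit 22) (nat_lit 5) (nat_lit 24) (nat_lit 5) (nat_lit 25) (nat_lit 5) (nat_lit 333) (nat_lit 313) (nat_lit 134))))) (XT.nd (nat_lit 312) (nat_lit 228) (nat_lit 0) (XT.nd (nat_lit 156) (nat_lit 76) (nat_lit 0) (XT.nd (nat_lit 78) (nat_lit 152) (nat_lit 0) (XT.lf (nat_lit 0) (nat_lit 293213659604) (nat_lit 228) (nat_lit 175321790515) (nat_lit 76) (nat_lit 160189467197) (nat_lit 22) (nat_lit 5) (nat_lit 25) (nat_lit 5) (nat_lit 23) (nat_lit 5) (nat_lit 334) (nat_lit 313) (nat_lit 133)) (XT.lf (nat_lit 0) (nat_lit 119518193869) (nat_lit 152) (nat_lit 292844660917) (nat_lit 228) (nat_lit 250357686807) (nat_lit 20) (nat_lit 5) (nat_lit 22) (nat_lit 5) (nat_lit 23) (nat_lit 5) (nat_lit 335) (nat_lit 313) (nat_lit 132))) (XT.nd (nat_lit 78) (nat_lit 76) (nat_lit 0) (XT.lf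 (nat_lit 0) (nat_lit 447916039566) (nat_lit 152) (nat_lit 97921525881) (nat_lit 228) (nat_lit 153214764042) (nat_lit 20) (nat_lit 5) (nat_lit 22) (nat_lit 5) (nat_lit 23) (nat_lit 5) (nat_lit 336) (nat_lit 313) (nat_lit 131)) (XT.lf (nat_lit 0) (nat_lit 64830154171) (nat_lit 76) (nat_lit 629427162287) (nat_lit 152) (nat_lit 43691978940) (nat_lit 19) (nat_lit 5) (nat_lit 20) (nat_lit 5) (nat_lit 21) (nat_lit 4) (nat_lit 337) (nat_lit 313) (nat_lit 130)))) (XT.nd (nat_lit 156) (nat_lit 152) (nat_lit 0) (XT.nd (nat_lit 78) (nat_lit 0) (nat_lit 0) (XT.lf (nat_lit 0) (nat_lit 80449455477) (nat_lit 152) (nat_lit 363568204348) (nat_lit 76) (nat_lit 335029782291) (nat_lit 18) (nat_lit 5) (nat_lit 20) (nat_lit 5) (nat_lit 19) (nat_lit 5) (nat_lit 338) (nat_lit 313) (nat_lit 129)) (XT.lf (nat_lit 0) (nat_lit 212161678387) (nat_lit 152) (nat_lit 30388088073) (nat_lit 76) (nat_lit 580792887595)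 (nat_lit 18) (nat_lit 5) (nat_lit 20) (nat_lit 5) (nat_lit 19) (nat_lit 5) (nat_lit 339) (nat_lit 313) (nat_lit 128))) (XT.nd (nat_lit 78) (nat_lit 0) (nat_lit 0) (XT.lf (nat_lit 0) (nat_lit 346794465099) (nat_lit 152) (nat_lit 15956806533) (nat_lit 228) (nat_lit 507762979962) (nat_lit 16) (nat_lit 5) (nat_lit 18) (nat_lit 5) (nat_lit 19) (nat_lit 5) (nat_lit 340) (nat_lit 313) (nat_lit 127)) (XT.lf (nat_lit 0) (nat_lit 531742225045) (nat_lit 228) (nat_lit 171036675148) (nat_lit 76) (nat_lit 218172341368) (nat_lit 16) (nat_lit 5) (nat_lit 19) (nat_lit 5) (nat_lit 17) (nat_lit 4) (nat_lit 341) (nat_lit 313) (nat_lit 126)))))) (XT.nd (nat_lit 546) (nat_lit 228) (nat_lit 0) (XT.nd (nat_lit 234) (nat_lit 76) (nat_lit 0) (XT.nd (nat_lit 78) (nat_lit 228) (nat_lit 0) (XT.lf (nat_lit 0) (nat_lit 220475674869) (nat_lit 76) (nat_lit 499493667091) (nat_lit 152) (nat_lit 254996497823) (nat_lit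 15) (nat_lit 5) (nat_lit 16) (nat_lit 5) (nat_lit 17) (nat_lit 4) (nat_lit 342) (nat_lit 313) (nat_lit 125)) (XT.nd (nat_lit 78) (nat_lit 228) (nat_lit 0) (XT.lf (nat_lit 0) (nat_lit 653035987095) (nat_lit 76) (nat_lit 274895067102) (nat_lit 152) (nat_lit 104996437624) (nat_lit 15) (nat_lit 5) (nat_lit 16) (nat_lit 5) (nat_lit 17) (nat_lit 4) (nat_lit 343) (nat_lit 313) (nat_lit 124)) (XT.lf (nat_lit 0) (nat_lit 24531229479) (nat_lit 152) (nat_lit 30210803389) (nat_lit 228) (nat_lit 1040627171472) (nat_lit 12) (nat_lit 5) (nat_lit 14) (nat_lit 5) (nat_lit 15) (nat_lit 5) (nat_lit 344) (nat_lit 313) (nat_lit 123)))) (XT.nd (nat_lit 156) (nat_lit 76) (nat_lit 0) (XT.nd (nat_lit 78) (nat_lit 0) (nat_lit 0) (XT.lf (nat_lit 0) (nat_lit 237872589301) (nat_lit 228) (nat_lit 687688619275) (nat_lit 76) (nat_lit 235724027450) (nat_lit 12) (nat_lit 5) (nat_lit 15) (nat_lit 5) (nat_lit 13) (nat_lit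 4) (nat_lit 345) (nat_lit 313) (nat_lit 122)) (XT.lf (nat_lit 0) (nat_lit 436438269292) (nat_lit 228) (nat_lit 274672041077) (nat_lit 76) (nat_lit 521301465578) (nat_lit 12) (nat_lit 5) (nat_lit 15) (nat_lit 5) (nat_lit 13) (nat_lit 4) (nat_lit 346) (nat_lit 313) (nat_lit 121))) (XT.nd (nat_lit 78) (nat_lit 0) (nat_lit 0) (XT.lf (nat_lit 0) (nat_lit 180410710324) (nat_lit 76) (nat_lit 474817359403) (nat_lit 152) (nat_lit 653653260076) (nat_lit 11) (nat_lit 5) (nat_lit 12) (nat_lit 5) (nat_lit 13) (nat_lit 4) (nat_lit 347) (nat_lit 313) (nat_lit 120)) (XT.lf (nat_lit 0) (nat_lit 687520897441) (nat_lit 76) (nat_lit 211510161776) (nat_lit 152) (nat_lit 491836588371) (nat_lit 11) (nat_lit 5) (nat_lit 12) (nat_lit 5) (nat_lit 13) (nat_lit 4) (nat_lit 348) (nat_lit 313) (nat_lit 119))))) (XT.nd (nat_lit 312) (nat_lit 76) (nat_lit 0) (XT.nd (nat_lit 156) (nat_lit 76) (nat_lit 0) (XT.nd (nat_lit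 78) (nat_lit 76) (nat_lit 0) (XT.lf (nat_lit 0) (nat_lit 1164090596917) (nat_lit 152) (nat_lit 245965320457) (nat_lit 0) (nat_lit 69216768718) (nat_lit 11) (nat_lit 5) (nat_lit 13) (nat_lit 4) (nat_lit 11) (nat_lit 4) (nat_lit 349) (nat_lit 313) (nat_lit 118)) (XT.lf (nat_lit 0) (nat_lit 255283125224) (nat_lit 76) (nat_lit 1206705094754) (nat_lit 76) (nat_lit 111831241929) (nat_lit 10) (nat_lit 4) (nat_lit 11) (nat_lit 5) (nat_lit 11) (nat_lit 4) (nat_lit 350) (nat_lit 313) (nat_lit 117))) (XT.nd (nat_lit 78) (nat_lit 0) (nat_lit 0) (XT.lf (nat_lit 0) (nat_lit 109295490228) (nat_lit 152) (nat_lit 867539255951) (nat_lit 76) (nat_lit 698335866488) (nat_lit 9) (nat_lit 5) (nat_lit 11) (nat_lit 5) (nat_lit 10) (nat_lit 4) (nat_lit 351) (nat_lit 313) (nat_lit 116)) (XT.lf (nat_lit 0) (nat_lit 342070556864) (nat_lit 152) (nat_lit 383367138461) (nat_lit 76) (nat_lit 1058959784557) (nat_lit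 9) (nat_lit 5) (nat_lit 11) (nat_lit 5) (nat_lit 10) (nat_lit 4) (nat_lit 352) (nat_lit 313) (nat_lit 115)))) (XT.nd (nat_lit 156) (nat_lit 0) (nat_lit 0) (XT.nd (nat_lit 78) (nat_lit 0) (nat_lit 0) (XT.lf (nat_lit 0) (nat_lit 146886590076) (nat_lit 76) (nat_lit 450113653368) (nat_lit 152) (nat_lit 1305079643876) (nat_lit 8) (nat_lit 5) (nat_lit 9) (nat_lit 5) (nat_lit 10) (nat_lit 4) (nat_lit 353) (nat_lit 313) (nat_lit 114)) (XT.lf (nat_lit 0) (nat_lit 741363025791) (nat_lit 76) (nat_lit 141443205065) (nat_lit 152) (nat_lit 1145532102438) (nat_lit 8) (nat_lit 5) (nat_lit 9) (nat_lit 5) (nat_lit 10) (nat_lit 4) (nat_lit 354) (nat_lit 313) (nat_lit 113))) (XT.nd (nat_lit 37440) (nat_lit 0) (nat_lit 2584) (XT.lf (nat_lit 0) (nat_lit 1196092388593) (nat_lit 152) (nat_lit 785915599454) (nat_lit 0) (nat_lit 182320211602) (nat_lit 8) (nat_lit 5) (nat_lit 10) (nat_lit 4) (nat_lit 8) (nat_lit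 4) (nat_lit 355) (nat_lit 313) (nat_lit 112)) (XT.lf (nat_lit 0) (nat_lit 70534210865) (nat_lit 532) (nat_lit 29991093990) (nat_lit 532) (nat_lit 29991093990) (nat_lit 42) (nat_lit 3) (nat_lit 49) (nat_lit 3) (nat_lit 49) (nat_lit 5) (nat_lit 314) (nat_lit 314) (nat_lit 152))))))))
noncomputable def xc119 : XT := (XT.nd (nat_lit 2262) (nat_lit 532) (nat_lit 0) (XT.nd (nat_lit 1092) (nat_lit 1064) (nat_lit 0) (XT.nd (nat_lit 546) (nat_lit 760) (nat_lit 0) (XT.nd (nat_lit 234) (nat_lit 228) (nat_lit 0) (XT.nd (nat_lit 78) (nat_lit 0) (nat_lit 76) (XT.lf (nat_lit 76) (nat_lit 59711854814) (nat_lit 0) (nat_lit 88436245859) (nat_lit 532) (nat_lit 123211050285) (nat_lit 43) (nat_lit 5) (nat_lit 42) (nat_lit 3) (nat_lit 49) (nat_lit 5) (nat_lit 315) (nat_lit 314) (nat_lit 151)) (XT.nd (nat_lit 78) (nat_lit 0) (nat_lit 0) (XT.lf (nat_lit 0) (nat_lit 158274838364) (nat_lit 456) (nat_lit 90828560204)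 (nat_lit 532) (nat_lit 33209759490) (nat_lit 43) (nat_lit 5) (nat_lit 49) (nat_lit 5) (nat_lit 50) (nat_lit 5) (nat_lit 316) (nat_lit 314) (nat_lit 150)) (XT.lf (nat_lit 76) (nat_lit 39325811944) (nat_lit 0) (nat_lit 133128654306) (nat_lit 532) (nat_lit 121429599687) (nat_lit 44) (nat_lit 5) (nat_lit 43) (nat_lit 5) (nat_lit 50) (nat_lit 5) (nat_lit 317) (nat_lit 314) (nat_lit 149)))) (XT.nd (nat_lit 156) (nat_lit 304) (nat_lit 0) (XT.nd (nat_lit 78) (nat_lit 0) (nat_lit 76) (XT.lf (nat_lit 76) (nat_lit 185057982222) (nat_lit 0) (nat_lit 5193819786) (nat_lit 532) (nat_lit 115930177706) (nat_lit 44) (nat_lit 5) (nat_lit 43) (nat_lit 5) (nat_lit 50) (nat_lit 5) (nat_lit 318) (nat_lit 314) (nat_lit 148)) (XT.lf (nat_lit 76) (nat_lit 20828815092) (nat_lit 0) (nat_lit 192343044277) (nat_lit 532) (nat_lit 105995952705) (nat_lit 45) (nat_lit 5) (nat_lit 44) (nat_lit 5) (nat_lit 51) (nat_lit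 5) (nat_lit 319) (nat_lit 314) (nat_lit 147))) (XT.nd (nat_lit 78) (nat_lit 380) (nat_lit 0) (XT.lf (nat_lit 76) (nat_lit 180884220002) (nat_lit 0) (nat_lit 60484469079) (nat_lit 532) (nat_lit 91548368762) (nat_lit 45) (nat_lit 5) (nat_lit 44) (nat_lit 5) (nat_lit 51) (nat_lit 5) (nat_lit 320) (nat_lit 314) (nat_lit 146)) (XT.lf (nat_lit 0) (nat_lit 4218542548) (nat_lit 456) (nat_lit 269674362881) (nat_lit 532) (nat_lit 73707606848) (nat_lit 39) (nat_lit 5) (nat_lit 45) (nat_lit 5) (nat_lit 46) (nat_lit 5) (nat_lit 321) (nat_lit 314) (nat_lit 145))))) (XT.nd (nat_lit 234) (nat_lit 456) (nat_lit 0) (XT.nd (nat_lit 78) (nat_lit 304) (nat_lit 0) (XT.lf (nat_lit 0) (nat_lit 179962469446) (nat_lit 456) (nat_lit 134744631543) (nat_lit 532) (nat_lit 48296498930) (nat_lit 39) (nat_lit 5) (nat_lit 45) (nat_lit 5) (nat_lit 46) (nat_lit 5) (nat_lit 322) (nat_lit 314) (nat_lit 144)) (XT.nd (nat_lit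 78) (nat_lit 304) (nat_lit 0) (XT.lf (nat_lit 0) (nat_lit 359050435589) (nat_lit 532) (nat_lit 10137134936) (nat_lit 76) (nat_lit 10430243967) (nat_lit 39) (nat_lit 5) (nat_lit 46) (nat_lit 5) (nat_lit 40) (nat_lit 5) (nat_lit 323) (nat_lit 314) (nat_lit 143)) (XT.lf (nat_lit 0) (nat_lit 16997641725) (nat_lit 304) (nat_lit 215146550430) (nat_lit 76) (nat_lit 164751982956) (nat_lit 35) (nat_lit 5) (nat_lit 39) (nat_lit 5) (nat_lit 36) (nat_lit 5) (nat_lit 324) (nat_lit 314) (nat_lit 142)))) (XT.nd (nat_lit 156) (nat_lit 228) (nat_lit 0) (XT.nd (nat_lit 78) (nat_lit 228) (nat_lit 0) (XT.lf (nat_lit 0) (nat_lit 56741009443) (nat_lit 304) (nat_lit 26512266624) (nat_lit 76) (nat_lit 332238045802) (nat_lit 35) (nat_lit 5) (nat_lit 39) (nat_lit 5) (nat_lit 36) (nat_lit 5) (nat_lit 325) (nat_lit 314) (nat_lit 141)) (XT.lf (nat_lit 0) (nat_lit 106131782635) (nat_lit 304) (nat_lit 250652335711)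 (nat_lit 76) (nat_lit 78272527280) (nat_lit 32) (nat_lit 5) (nat_lit 36) (nat_lit 5) (nat_lit 33) (nat_lit 5) (nat_lit 326) (nat_lit 314) (nat_lit 140))) (XT.nd (nat_lit 78) (nat_lit 228) (nat_lit 0) (XT.lf (nat_lit 0) (nat_lit 162379918568) (nat_lit 304) (nat_lit 44608516310) (nat_lit 76) (nat_lit 248966272464) (nat_lit 32) (nat_lit 5) (nat_lit 36) (nat_lit 5) (nat_lit 33) (nat_lit 5) (nat_lit 327) (nat_lit 314) (nat_lit 139)) (XT.lf (nat_lit 0) (nat_lit 187287649109) (nat_lit 228) (nat_lit 40344489291) (nat_lit 304) (nat_lit 250532137074) (nat_lit 29) (nat_lit 5) (nat_lit 32) (nat_lit 5) (nat_lit 33) (nat_lit 5) (nat_lit 328) (nat_lit 314) (nat_lit 138)))))) (XT.nd (nat_lit 546) (nat_lit 532) (nat_lit 0) (XT.nd (nat_lit 234) (nat_lit 380) (nat_lit 0) (XT.nd (nat_lit 78) (nat_lit 152) (nat_lit 0) (XT.lf (nat_lit 0) (nat_lit 302713982053) (nat_lit 304) (nat_lit 65170457530) (nat_lit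 76) (nat_lit 133897413887) (nat_lit 29) (nat_lit 5) (nat_lit 33) (nat_lit 5) (nat_lit 30) (nat_lit 5) (nat_lit 329) (nat_lit 314) (nat_lit 137)) (XT.nd (nat_lit 78) (nat_lit 0) (nat_lit 0) (XT.lf (nat_lit 0) (nat_lit 186893417177) (nat_lit 152) (nat_lit 202451621026) (nat_lit 228) (nat_lit 137500386405) (nat_lit 27) (nat_lit 5) (nat_lit 29) (nat_lit 5) (nat_lit 30) (nat_lit 5) (nat_lit 330) (nat_lit 314) (nat_lit 136)) (XT.lf (nat_lit 0) (nat_lit 462828660182) (nat_lit 152) (nat_lit 21859761029) (nat_lit 228) (nat_lit 69083112933) (nat_lit 27) (nat_lit 5) (nat_lit 29) (nat_lit 5) (nat_lit 30) (nat_lit 5) (nat_lit 331) (nat_lit 314) (nat_lit 135)))) (XT.nd (nat_lit 156) (nat_lit 152) (nat_lit 0) (XT.nd (nat_lit 78) (nat_lit 0) (nat_lit 0) (XT.lf (nat_lit 0) (nat_lit 13355025088) (nat_lit 228) (nat_lit 399529459690) (nat_lit 76) (nat_lit 169254959993) (nat_lit 24) (nat_lit 5) (nat_lit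 27) (nat_lit 5) (nat_lit 25) (nat_lit 5) (nat_lit 332) (nat_lit 314) (nat_lit 134)) (XT.lf (nat_lit 0) (nat_lit 101774811743) (nat_lit 228) (nat_lit 131785571532) (nat_lit 76) (nat_lit 378823345316) (nat_lit 24) (nat_lit 5) (nat_lit 27) (nat_lit 5) (nat_lit 25) (nat_lit 5) (nat_lit 333) (nat_lit 314) (nat_lit 133))) (XT.nd (nat_lit 78) (nat_lit 0) (nat_lit 0) (XT.lf (nat_lit 0) (nat_lit 165665023178) (nat_lit 152) (nat_lit 35587377501) (nat_lit 228) (nat_lit 443476416964) (nat_lit 22) (nat_lit 5) (nat_lit 24) (nat_lit 5) (nat_lit 25) (nat_lit 5) (nat_lit 334) (nat_lit 314) (nat_lit 132)) (XT.lf (nat_lit 0) (nat_lit 316671289895) (nat_lit 228) (nat_lit 189346736550) (nat_lit 76) (nat_lit 173004839985) (nat_lit 22) (nat_lit 5) (nat_lit 25) (nat_lit 5) (nat_lit 23) (nat_lit 5) (nat_lit 335) (nat_lit 314) (nat_lit 131))))) (XT.nd (nat_lit 312) (nat_lit 228) (nat_lit 0) (XT.nd (nat_lit 156)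 (nat_lit 152) (nat_lit 0) (XT.nd (nat_lit 78) (nat_lit 0) (nat_lit 0) (XT.lf (nat_lit 0) (nat_lit 129080426403) (nat_lit 152) (nat_lit 316271973160) (nat_lit 228) (nat_lit 270385742871) (nat_lit 20) (nat_lit 5) (nat_lit 22) (nat_lit 5) (nat_lit 23) (nat_lit 5) (nat_lit 336) (nat_lit 314) (nat_lit 130)) (XT.lf (nat_lit 0) (nat_lit 483750042198) (nat_lit 152) (nat_lit 105755006627) (nat_lit 228) (nat_lit 165471427683) (nat_lit 20) (nat_lit 5) (nat_lit 22) (nat_lit 5) (nat_lit 23) (nat_lit 5) (nat_lit 337) (nat_lit 314) (nat_lit 129))) (XT.nd (nat_lit 78) (nat_lit 76) (nat_lit 0) (XT.lf (nat_lit 0) (nat_lit 70017300445) (nat_lit 76) (nat_lit 679781067080) (nat_lit 152) (nat_lit 47186833237) (nat_lit 19) (nat_lit 5) (nat_lit 20) (nat_lit 5) (nat_lit 21) (nat_lit 4) (nat_lit 338) (nat_lit 314) (nat_lit 128)) (XT.lf (nat_lit 0) (nat_lit 86885855253) (nat_lit 152) (nat_lit 392652956912) (nat_lit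 76) (nat_lit 361832388989) (nat_lit 18) (nat_lit 5) (nat_lit 20) (nat_lit 5) (nat_lit 19) (nat_lit 5) (nat_lit 339) (nat_lit 314) (nat_lit 127)))) (XT.nd (nat_lit 156) (nat_lit 76) (nat_lit 0) (XT.nd (nat_lit 78) (nat_lit 152) (nat_lit 0) (XT.lf (nat_lit 0) (nat_lit 229135023156) (nat_lit 152) (nat_lit 32818483467) (nat_lit 76) (nat_lit 627256526116) (nat_lit 18) (nat_lit 5) (nat_lit 20) (nat_lit 5) (nat_lit 19) (nat_lit 5) (nat_lit 340) (nat_lit 314) (nat_lit 126)) (XT.lf (nat_lit 0) (nat_lit 374538657461) (nat_lit 152) (nat_lit 17233111267) (nat_lit 228) (nat_lit 548383590623) (nat_lit 16) (nat_lit 5) (nat_lit 18) (nat_lit 5) (nat_lit 19) (nat_lit 5) (nat_lit 341) (nat_lit 314) (nat_lit 125))) (XT.nd (nat_lit 78) (nat_lit 76) (nat_lit 0) (XT.lf (nat_lit 0) (nat_lit 574281974468) (nat_lit 228) (nat_lit 184718996420) (nat_lit 76) (nat_lit 235626339597) (nat_lit 16) (nat_lit 5) (nat_lit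 19) (nat_lit 5) (nat_lit 17) (nat_lit 4) (nat_lit 342) (nat_lit 314) (nat_lit 124)) (XT.lf (nat_lit 0) (nat_lit 238114326085) (nat_lit 76) (nat_lit 539452921502) (nat_lit 152) (nat_lit 275395830082) (nat_lit 15) (nat_lit 5) (nat_lit 16) (nat_lit 5) (nat_lit 17) (nat_lit 4) (nat_lit 343) (nat_lit 314) (nat_lit 123))))))) (XT.nd (nat_lit 38610) (nat_lit 0) (nat_lit 1444) (XT.nd (nat_lit 546) (nat_lit 228) (nat_lit 0) (XT.nd (nat_lit 234) (nat_lit 76) (nat_lit 0) (XT.nd (nat_lit 78) (nat_lit 228) (nat_lit 0) (XT.lf (nat_lit 0) (nat_lit 705279419050) (nat_lit 76) (nat_lit 296886451215) (nat_lit 152) (nat_lit 113395793775) (nat_lit 15) (nat_lit 5) (nat_lit 16) (nat_lit 5) (nat_lit 17) (nat_lit 4) (nat_lit 344) (nat_lit 314) (nat_lit 122)) (XT.nd (nat_lit 78) (nat_lit 0) (nat_lit 0) (XT.lf (nat_lit 0) (nat_lit 26494284854) (nat_lit 152) (nat_lit 32627439695) (nat_lit 228) (nat_lit 1123876989311)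 (nat_lit 12) (nat_lit 5) (nat_lit 14) (nat_lit 5) (nat_lit 15) (nat_lit 5) (nat_lit 345) (nat_lit 314) (nat_lit 121)) (XT.lf (nat_lit 0) (nat_lit 256902706198) (nat_lit 228) (nat_lit 742703173296) (nat_lit 76) (nat_lit 254582150166) (nat_lit 12) (nat_lit 5) (nat_lit 15) (nat_lit 5) (nat_lit 13) (nat_lit 4) (nat_lit 346) (nat_lit 314) (nat_lit 120)))) (XT.nd (nat_lit 156) (nat_lit 0) (nat_lit 0) (XT.nd (nat_lit 78) (nat_lit 76) (nat_lit 0) (XT.lf (nat_lit 0) (nat_lit 471353617644) (nat_lit 228) (nat_lit 296645308511) (nat_lit 76) (nat_lit 563005768491) (nat_lit 12) (nat_lit 5) (nat_lit 15) (nat_lit 5) (nat_lit 13) (nat_lit 4) (nat_lit 347) (nat_lit 314) (nat_lit 119)) (XT.lf (nat_lit 0) (nat_lit 194844050449) (nat_lit 76) (nat_lit 512802542043) (nat_lit 152) (nat_lit 705945221120) (nat_lit 11) (nat_lit 5) (nat_lit 12) (nat_lit 5) (nat_lit 13) (nat_lit 4) (nat_lit 348) (nat_lit 314) (nat_lit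 118))) (XT.nd (nat_lit 78) (nat_lit 0) (nat_lit 0) (XT.lf (nat_lit 0) (nat_lit 742523016735) (nat_lit 76) (nat_lit 228430783873) (nat_lit 152) (nat_lit 531183237883) (nat_lit 11) (nat_lit 5) (nat_lit 12) (nat_lit 5) (nat_lit 13) (nat_lit 4) (nat_lit 349) (nat_lit 314) (nat_lit 117)) (XT.lf (nat_lit 0) (nat_lit 1257218086563) (nat_lit 152) (nat_lit 265642116638) (nat_lit 0) (nat_lit 74754278083) (nat_lit 11) (nat_lit 5) (nat_lit 13) (nat_lit 4) (nat_lit 11) (nat_lit 4) (nat_lit 350) (nat_lit 314) (nat_lit 116))))) (XT.nd (nat_lit 312) (nat_lit 0) (nat_lit 0) (XT.nd (nat_lit 156) (nat_lit 76) (nat_lit 0) (XT.nd (nat_lit 78) (nat_lit 76) (nat_lit 0) (XT.lf (nat_lit 0) (nat_lit 275706193826) (nat_lit 76) (nat_lit 1303241317793) (nat_lit 76) (nat_lit 120777488200) (nat_lit 10) (nat_lit 4) (nat_lit 11) (nat_lit 5) (nat_lit 11) (nat_lit 4) (nat_lit 351) (nat_lit 314) (nat_lit 115)) (XT.lf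 (nat_lit 0) (nat_lit 118039352060) (nat_lit 152) (nat_lit 936941996855) (nat_lit 76) (nat_lit 754202894684) (nat_lit 9) (nat_lit 5) (nat_lit 11) (nat_lit 5) (nat_lit 10) (nat_lit 4) (nat_lit 352) (nat_lit 314) (nat_lit 114))) (XT.nd (nat_lit 78) (nat_lit 76) (nat_lit 0) (XT.lf (nat_lit 0) (nat_lit 369436407537) (nat_lit 152) (nat_lit 414036139564) (nat_lit 76) (nat_lit 1143676714430) (nat_lit 9) (nat_lit 5) (nat_lit 11) (nat_lit 5) (nat_lit 10) (nat_lit 4) (nat_lit 353) (nat_lit 314) (nat_lit 113)) (XT.lf (nat_lit 0) (nat_lit 158637877890) (nat_lit 76) (nat_lit 486122584558) (nat_lit 152) (nat_lit 1409485799663) (nat_lit 8) (nat_lit 5) (nat_lit 9) (nat_lit 5) (nat_lit 10) (nat_lit 4) (nat_lit 354) (nat_lit 314) (nat_lit 112)))) (XT.nd (nat_lit 37596) (nat_lit 0) (nat_lit 2584) (XT.nd (nat_lit 37518) (nat_lit 0) (nat_lit 2584) (XT.lf (nat_lit 0) (nat_lit 800672401750) (nat_lit 76) (nat_lit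 152758512322) (nat_lit 152) (nat_lit 1237174470888) (nat_lit 8) (nat_lit 5) (nat_lit 9) (nat_lit 5) (nat_lit 10) (nat_lit 4) (nat_lit 355) (nat_lit 314) (nat_lit 111)) (XT.lf (nat_lit 0) (nat_lit 76177797328) (nat_lit 532) (nat_lit 32389921131) (nat_lit 532) (nat_lit 32389921131) (nat_lit 42) (nat_lit 3) (nat_lit 49) (nat_lit 3) (nat_lit 49) (nat_lit 5) (nat_lit 315) (nat_lit 315) (nat_lit 150))) (XT.nd (nat_lit 78) (nat_lit 0) (nat_lit 76) (XT.lf (nat_lit 76) (nat_lit 64489700647) (nat_lit 0) (nat_lit 95511842985) (nat_lit 532) (nat_lit 133066205891) (nat_lit 43) (nat_lit 5) (nat_lit 42) (nat_lit 3) (nat_lit 49) (nat_lit 5) (nat_lit 316) (nat_lit 315) (nat_lit 149)) (XT.lf (nat_lit 0) (nat_lit 170938286666) (nat_lit 456) (nat_lit 98093874896) (nat_lit 532) (nat_lit 35865926761) (nat_lit 43) (nat_lit 5) (nat_lit 49) (nat_lit 5) (nat_lit 50) (nat_lit 5) (nat_lit 317) (nat_lit 315) (nat_lit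 148)))))) (XT.nd (nat_lit 546) (nat_lit 912) (nat_lit 0) (XT.nd (nat_lit 234) (nat_lit 304) (nat_lit 0) (XT.nd (nat_lit 78) (nat_lit 0) (nat_lit 0) (XT.lf (nat_lit 76) (nat_lit 42472822464) (nat_lit 0) (nat_lit 143779376819) (nat_lit 532) (nat_lit 131142476794) (nat_lit 44) (nat_lit 5) (nat_lit 43) (nat_lit 5) (nat_lit 50) (nat_lit 5) (nat_lit 318) (nat_lit 315) (nat_lit 147)) (XT.nd (nat_lit 78) (nat_lit 0) (nat_lit 76) (XT.lf (nat_lit 76) (nat_lit 199863496322) (nat_lit 0) (nat_lit 5609723674) (nat_lit 532) (nat_lit 125203211489) (nat_lit 44) (nat_lit 5) (nat_lit 43) (nat_lit 5) (nat_lit 50) (nat_lit 5) (nat_lit 319) (nat_lit 315) (nat_lit 146)) (XT.lf (nat_lit 76) (nat_lit 22496086901) (nat_lit 0) (nat_lit 207730715065) (nat_lit 532) (nat_lit 114474335215) (nat_lit 45) (nat_lit 5) (nat_lit 44) (nat_lit 5) (nat_lit 51) (nat_lit 5) (nat_lit 320) (nat_lit 315) (nat_lit 145)))) (XT.nd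 (nat_lit 156) (nat_lit 0) (nat_lit 0) (XT.nd (nat_lit 78) (nat_lit 380) (nat_lit 0) (XT.lf (nat_lit 76) (nat_lit 195355852603) (nat_lit 0) (nat_lit 65323437018) (nat_lit 532) (nat_lit 98871040387) (nat_lit 45) (nat_lit 5) (nat_lit 44) (nat_lit 5) (nat_lit 51) (nat_lit 5) (nat_lit 321) (nat_lit 315) (nat_lit 144)) (XT.lf (nat_lit 0) (nat_lit 4556993348) (nat_lit 456) (nat_lit 291248386626) (nat_lit 532) (nat_lit 79603086185) (nat_lit 39) (nat_lit 5) (nat_lit 45) (nat_lit 5) (nat_lit 46) (nat_lit 5) (nat_lit 322) (nat_lit 315) (nat_lit 143))) (XT.nd (nat_lit 78) (nat_lit 0) (nat_lit 0) (XT.lf (nat_lit 0) (nat_lit 194360362739) (nat_lit 456) (nat_lit 145524271247) (nat_lit 532) (nat_lit 52159173278) (nat_lit 39) (nat_lit 5) (nat_lit 45) (nat_lit 5) (nat_lit 46) (nat_lit 5) (nat_lit 323) (nat_lit 315) (nat_lit 142)) (XT.lf (nat_lit 0) (nat_lit 387775362338) (nat_lit 532) (nat_lit 10947200130)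 (nat_lit 76) (nat_lit 11264602632) (nat_lit 39) (nat_lit 5) (nat_lit 46) (nat_lit 5) (nat_lit 40) (nat_lit 5) (nat_lit 324) (nat_lit 315) (nat_lit 141))))) (XT.nd (nat_lit 312) (nat_lit 380) (nat_lit 0) (XT.nd (nat_lit 156) (nat_lit 228) (nat_lit 0) (XT.nd (nat_lit 78) (nat_lit 0) (nat_lit 0) (XT.lf (nat_lit 0) (nat_lit 18358324941) (nat_lit 304) (nat_lit 232357343136) (nat_lit 76) (nat_lit 177932128549) (nat_lit 35) (nat_lit 5) (nat_lit 39) (nat_lit 5) (nat_lit 36) (nat_lit 5) (nat_lit 325) (nat_lit 315) (nat_lit 140)) (XT.lf (nat_lit 0) (nat_lit 61281097494) (nat_lit 304) (nat_lit 28632385613) (nat_lit 76) (nat_lit 358817077390) (nat_lit 35) (nat_lit 5) (nat_lit 39) (nat_lit 5) (nat_lit 36) (nat_lit 5) (nat_lit 326) (nat_lit 315) (nat_lit 139))) (XT.nd (nat_lit 78) (nat_lit 0) (nat_lit 0) (XT.lf (nat_lit 0) (nat_lit 114623094707) (nat_lit 304) (nat_lit 270703620041) (nat_lit 76) (nat_lit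 84534398621) (nat_lit 32) (nat_lit 5) (nat_lit 36) (nat_lit 5) (nat_lit 33) (nat_lit 5) (nat_lit 327) (nat_lit 315) (nat_lit 138)) (XT.lf (nat_lit 0) (nat_lit 175371024517) (nat_lit 304) (nat_lit 48176361942) (nat_lit 76) (nat_lit 268883638297) (nat_lit 32) (nat_lit 5) (nat_lit 36) (nat_lit 5) (nat_lit 33) (nat_lit 5) (nat_lit 328) (nat_lit 315) (nat_lit 137)))) (XT.nd (nat_lit 156) (nat_lit 152) (nat_lit 0) (XT.nd (nat_lit 78) (nat_lit 0) (nat_lit 0) (XT.lf (nat_lit 0) (nat_lit 202271475554) (nat_lit 228) (nat_lit 43571913196) (nat_lit 304) (nat_lit 270573972404) (nat_lit 29) (nat_lit 5) (nat_lit 32) (nat_lit 5) (nat_lit 33) (nat_lit 5) (nat_lit 329) (nat_lit 315) (nat_lit 136)) (XT.lf (nat_lit 0) (nat_lit 326931732589) (nat_lit 304) (nat_lit 70383290779) (nat_lit 76) (nat_lit 144609325955) (nat_lit 29) (nat_lit 5) (nat_lit 33) (nat_lit 5) (nat_lit 30) (nat_lit 5) (nat_lit 330) (nat_lit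 315) (nat_lit 135))) (XT.nd (nat_lit 78) (nat_lit 0) (nat_lit 0) (XT.lf (nat_lit 0) (nat_lit 201845673567) (nat_lit 152) (nat_lit 218647571683) (nat_lit 228) (nat_lit 148499763279) (nat_lit 27) (nat_lit 5) (nat_lit 29) (nat_lit 5) (nat_lit 30) (nat_lit 5) (nat_lit 331) (nat_lit 315) (nat_lit 134)) (XT.lf (nat_lit 0) (nat_lit 499855678011) (nat_lit 152) (nat_lit 23608376148) (nat_lit 228) (nat_lit 74609156376) (nat_lit 27) (nat_lit 5) (nat_lit 29) (nat_lit 5) (nat_lit 30) (nat_lit 5) (nat_lit 332) (nat_lit 315) (nat_lit 133))))))))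
noncomputable def xc120 : XT := (XT.nd (nat_lit 39858) (nat_lit 0) (nat_lit 152) (XT.nd (nat_lit 1092) (nat_lit 228) (nat_lit 0) (XT.nd (nat_lit 546) (nat_lit 532) (nat_lit 0) (XT.nd (nat_lit 234) (nat_lit 228) (nat_lit 0) (XT.nd (nat_lit 78) (nat_lit 152) (nat_lit 0) (XT.lf (nat_lit 0) (nat_lit 14423982020) (nat_lit 228) (nat_lit 431491037930) (nat_lit 76) (nat_lit 182795534636) (nat_lit 24) (nat_lit 5) (nat_lit 27) (nat_lit 5) (nat_lit 25) (nat_lit 5) (nat_lit 333) (nat_lit 315) (nat_lit 132)) (XT.nd (nat_lit 78) (nat_lit 152) (nat_lit 0) (XT.lf (nat_lit 0) (nat_lit 109917310502) (nat_lit 228) (nat_lit 142327696390) (nat_lit 76) (nat_lit 409129377612) (nat_lit 24) (nat_lit 5) (nat_lit 27) (nat_lit 5) (nat_lit 25) (nat_lit 5) (nat_lit 334) (nat_lit 315) (nat_lit 131)) (XT.lf (nat_lit 0) (nat_lit 178918927647) (nat_lit 152) (nat_lit 38434157742) (nat_lit 228) (nat_lit 478953997076)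 (nat_lit 22) (nat_lit 5) (nat_lit 24) (nat_lit 5) (nat_lit 25) (nat_lit 5) (nat_lit 335) (nat_lit 315) (nat_lit 130)))) (XT.nd (nat_lit 156) (nat_lit 76) (nat_lit 0) (XT.nd (nat_lit 78) (nat_lit 152) (nat_lit 0) (XT.lf (nat_lit 0) (nat_lit 342005453925) (nat_lit 228) (nat_lit 204493791997) (nat_lit 76) (nat_lit 186845411865) (nat_lit 22) (nat_lit 5) (nat_lit 25) (nat_lit 5) (nat_lit 23) (nat_lit 5) (nat_lit 336) (nat_lit 315) (nat_lit 129)) (XT.lf (nat_lit 0) (nat_lit 139407526688) (nat_lit 152) (nat_lit 341573507564) (nat_lit 228) (nat_lit 292016123150) (nat_lit 20) (nat_lit 5) (nat_lit 22) (nat_lit 5) (nat_lit 23) (nat_lit 5) (nat_lit 337) (nat_lit 315) (nat_lit 128))) (XT.nd (nat_lit 78) (nat_lit 76) (nat_lit 0) (XT.lf (nat_lit 0) (nat_lit 522450662401) (nat_lit 152) (nat_lit 114215200260) (nat_lit 228) (nat_lit 178708698240) (nat_lit 20) (nat_lit 5) (nat_lit 22) (nat_lit 5) (nat_lit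 23) (nat_lit 5) (nat_lit 338) (nat_lit 315) (nat_lit 127)) (XT.lf (nat_lit 0) (nat_lit 75619313716) (nat_lit 76) (nat_lit 734163322516) (nat_lit 152) (nat_lit 50961347782) (nat_lit 19) (nat_lit 5) (nat_lit 20) (nat_lit 5) (nat_lit 21) (nat_lit 4) (nat_lit 339) (nat_lit 315) (nat_lit 126))))) (XT.nd (nat_lit 234) (nat_lit 304) (nat_lit 0) (XT.nd (nat_lit 78) (nat_lit 152) (nat_lit 0) (XT.lf (nat_lit 0) (nat_lit 93837103764) (nat_lit 152) (nat_lit 424064590083) (nat_lit 76) (nat_lit 390779172251) (nat_lit 18) (nat_lit 5) (nat_lit 20) (nat_lit 5) (nat_lit 19) (nat_lit 5) (nat_lit 340) (nat_lit 315) (nat_lit 125)) (XT.nd (nat_lit 78) (nat_lit 152) (nat_lit 0) (XT.lf (nat_lit 0) (nat_lit 247466176945) (nat_lit 152) (nat_lit 35443403458) (nat_lit 76) (nat_lit 677437226115) (nat_lit 18) (nat_lit 5) (nat_lit 20) (nat_lit 5) (nat_lit 19) (nat_lit 5) (nat_lit 341) (nat_lit 315) (nat_lit 124))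 (XT.lf (nat_lit 0) (nat_lit 404502294601) (nat_lit 152) (nat_lit 18611554589) (nat_lit 228) (nat_lit 592253911157) (nat_lit 16) (nat_lit 5) (nat_lit 18) (nat_lit 5) (nat_lit 19) (nat_lit 5) (nat_lit 342) (nat_lit 315) (nat_lit 123)))) (XT.nd (nat_lit 156) (nat_lit 228) (nat_lit 0) (XT.nd (nat_lit 78) (nat_lit 76) (nat_lit 0) (XT.lf (nat_lit 0) (nat_lit 620224850858) (nat_lit 228) (nat_lit 199495990809) (nat_lit 76) (nat_lit 254476627594) (nat_lit 16) (nat_lit 5) (nat_lit 19) (nat_lit 5) (nat_lit 17) (nat_lit 4) (nat_lit 343) (nat_lit 315) (nat_lit 122)) (XT.lf (nat_lit 0) (nat_lit 257163984198) (nat_lit 76) (nat_lit 582608950355) (nat_lit 152) (nat_lit 297427164212) (nat_lit 15) (nat_lit 5) (nat_lit 16) (nat_lit 5) (nat_lit 17) (nat_lit 4) (nat_lit 344) (nat_lit 315) (nat_lit 121))) (XT.nd (nat_lit 78) (nat_lit 228) (nat_lit 0) (XT.lf (nat_lit 0) (nat_lit 761702246672) (nat_lit 76)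 (nat_lit 320637177621) (nat_lit 152) (nat_lit 122467149614) (nat_lit 15) (nat_lit 5) (nat_lit 16) (nat_lit 5) (nat_lit 17) (nat_lit 4) (nat_lit 345) (nat_lit 315) (nat_lit 120)) (XT.lf (nat_lit 0) (nat_lit 28614305193) (nat_lit 152) (nat_lit 35237439428) (nat_lit 228) (nat_lit 1213786843347) (nat_lit 12) (nat_lit 5) (nat_lit 14) (nat_lit 5) (nat_lit 15) (nat_lit 5) (nat_lit 346) (nat_lit 315) (nat_lit 119)))))) (XT.nd (nat_lit 546) (nat_lit 0) (nat_lit 0) (XT.nd (nat_lit 234) (nat_lit 152) (nat_lit 0) (XT.nd (nat_lit 78) (nat_lit 76) (nat_lit 0) (XT.lf (nat_lit 0) (nat_lit 277455188257) (nat_lit 228) (nat_lit 802118968038) (nat_lit 76) (nat_lit 274948894093) (nat_lit 12) (nat_lit 5) (nat_lit 15) (nat_lit 5) (nat_lit 13) (nat_lit 4) (nat_lit 347) (nat_lit 315) (nat_lit 118)) (XT.nd (nat_lit 78) (nat_lit 76) (nat_lit 0) (XT.lf (nat_lit 0) (nat_lit 509062152947) (nat_lit 228) (nat_lit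 320376508079) (nat_lit 76) (nat_lit 608046389149) (nat_lit 12) (nat_lit 5) (nat_lit 15) (nat_lit 5) (nat_lit 13) (nat_lit 4) (nat_lit 348) (nat_lit 315) (nat_lit 117)) (XT.lf (nat_lit 0) (nat_lit 210431988836) (nat_lit 76) (nat_lit 553826568699) (nat_lit 152) (nat_lit 762420581812) (nat_lit 11) (nat_lit 5) (nat_lit 12) (nat_lit 5) (nat_lit 13) (nat_lit 4) (nat_lit 349) (nat_lit 315) (nat_lit 116)))) (XT.nd (nat_lit 156) (nat_lit 152) (nat_lit 0) (XT.nd (nat_lit 78) (nat_lit 0) (nat_lit 0) (XT.lf (nat_lit 0) (nat_lit 801925241732) (nat_lit 76) (nat_lit 246705082965) (nat_lit 152) (nat_lit 573677658953) (nat_lit 11) (nat_lit 5) (nat_lit 12) (nat_lit 5) (nat_lit 13) (nat_lit 4) (nat_lit 350) (nat_lit 315) (nat_lit 115)) (XT.lf (nat_lit 0) (nat_lit 1357795740872) (nat_lit 152) (nat_lit 286893117780) (nat_lit 0) (nat_lit 80734764250) (nat_lit 11) (nat_lit 5) (nat_lit 13) (nat_lit 4) (nat_lit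 11) (nat_lit 4) (nat_lit 351) (nat_lit 315) (nat_lit 114))) (XT.nd (nat_lit 78) (nat_lit 76) (nat_lit 0) (XT.lf (nat_lit 0) (nat_lit 297763048200) (nat_lit 76) (nat_lit 1407500465002) (nat_lit 76) (nat_lit 130439470278) (nat_lit 10) (nat_lit 4) (nat_lit 11) (nat_lit 5) (nat_lit 11) (nat_lit 4) (nat_lit 352) (nat_lit 315) (nat_lit 113)) (XT.lf (nat_lit 0) (nat_lit 127482691081) (nat_lit 152) (nat_lit 1011897014034) (nat_lit 76) (nat_lit 814539262471) (nat_lit 9) (nat_lit 5) (nat_lit 11) (nat_lit 5) (nat_lit 10) (nat_lit 4) (nat_lit 353) (nat_lit 315) (nat_lit 112))))) (XT.nd (nat_lit 37908) (nat_lit 0) (nat_lit 2584) (XT.nd (nat_lit 37752) (nat_lit 0) (nat_lit 2508) (XT.nd (nat_lit 37674) (nat_lit 0) (nat_lit 2508) (XT.lf (nat_lit 0) (nat_lit 398991496858) (nat_lit 152) (nat_lit 447158713536) (nat_lit 76) (nat_lit 1235170977706) (nat_lit 9) (nat_lit 5) (nat_lit 11) (nat_lit 5) (nat_lit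 10) (nat_lit 4) (nat_lit 354) (nat_lit 315) (nat_lit 111)) (XT.lf (nat_lit 0) (nat_lit 82272749503) (nat_lit 532) (nat_lit 34980720120) (nat_lit 532) (nat_lit 34980720120) (nat_lit 42) (nat_lit 3) (nat_lit 49) (nat_lit 3) (nat_lit 49) (nat_lit 5) (nat_lit 316) (nat_lit 316) (nat_lit 148))) (XT.nd (nat_lit 78) (nat_lit 0) (nat_lit 76) (XT.lf (nat_lit 76) (nat_lit 69649646115) (nat_lit 0) (nat_lit 103153388381) (nat_lit 532) (nat_lit 143710020523) (nat_lit 43) (nat_lit 5) (nat_lit 42) (nat_lit 3) (nat_lit 49) (nat_lit 5) (nat_lit 317) (nat_lit 316) (nat_lit 147)) (XT.lf (nat_lit 0) (nat_lit 184614602370) (nat_lit 456) (nat_lit 105940553163) (nat_lit 532) (nat_lit 38734674935) (nat_lit 43) (nat_lit 5) (nat_lit 49) (nat_lit 5) (nat_lit 50) (nat_lit 5) (nat_lit 318) (nat_lit 316) (nat_lit 146)))) (XT.nd (nat_lit 156) (nat_lit 0) (nat_lit 76) (XT.nd (nat_lit 78) (nat_lit 0) (nat_lit 0) (XT.lf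 (nat_lit 76) (nat_lit 45871458930) (nat_lit 0) (nat_lit 155282095766) (nat_lit 532) (nat_lit 141632596758) (nat_lit 44) (nat_lit 5) (nat_lit 43) (nat_lit 5) (nat_lit 50) (nat_lit 5) (nat_lit 319) (nat_lit 316) (nat_lit 145)) (XT.lf (nat_lit 76) (nat_lit 215853326647) (nat_lit 0) (nat_lit 6058843050) (nat_lit 532) (nat_lit 135218284910) (nat_lit 44) (nat_lit 5) (nat_lit 43) (nat_lit 5) (nat_lit 50) (nat_lit 5) (nat_lit 320) (nat_lit 316) (nat_lit 144))) (XT.nd (nat_lit 78) (nat_lit 0) (nat_lit 0) (XT.lf (nat_lit 76) (nat_lit 24296602558) (nat_lit 0) (nat_lit 224349367097) (nat_lit 532) (nat_lit 123631172888) (nat_lit 45) (nat_lit 5) (nat_lit 44) (nat_lit 5) (nat_lit 51) (nat_lit 5) (nat_lit 321) (nat_lit 316) (nat_lit 143)) (XT.lf (nat_lit 76) (nat_lit 210985088131) (nat_lit 0) (nat_lit 70549492375) (nat_lit 532) (nat_lit 106779696633) (nat_lit 45) (nat_lit 5) (nat_lit 44) (nat_lit 5)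 (nat_lit 51) (nat_lit 5) (nat_lit 322) (nat_lit 316) (nat_lit 142))))))) (XT.nd (nat_lit 1092) (nat_lit 836) (nat_lit 0) (XT.nd (nat_lit 546) (nat_lit 760) (nat_lit 0) (XT.nd (nat_lit 234) (nat_lit 532) (nat_lit 0) (XT.nd (nat_lit 78) (nat_lit 0) (nat_lit 0) (XT.lf (nat_lit 0) (nat_lit 4922382203) (nat_lit 456) (nat_lit 314548321612) (nat_lit 532) (nat_lit 85970364963) (nat_lit 39) (nat_lit 5) (nat_lit 45) (nat_lit 5) (nat_lit 46) (nat_lit 5) (nat_lit 323) (nat_lit 316) (nat_lit 141)) (XT.nd (nat_lit 78) (nat_lit 0) (nat_lit 0) (XT.lf (nat_lit 0) (nat_lit 209909959709) (nat_lit 456) (nat_lit 157166272258) (nat_lit 532) (nat_lit 56331010736) (nat_lit 39) (nat_lit 5) (nat_lit 45) (nat_lit 5) (nat_lit 46) (nat_lit 5) (nat_lit 324) (nat_lit 316) (nat_lit 140)) (XT.lf (nat_lit 0) (nat_lit 418798155987) (nat_lit 532) (nat_lit 11822199733) (nat_lit 76) (nat_lit 12165718673) (nat_lit 39) (nat_lit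 5) (nat_lit 46) (nat_lit 5) (nat_lit 40) (nat_lit 5) (nat_lit 325) (nat_lit 316) (nat_lit 139)))) (XT.nd (nat_lit 156) (nat_lit 228) (nat_lit 0) (XT.nd (nat_lit 78) (nat_lit 0) (nat_lit 0) (XT.lf (nat_lit 0) (nat_lit 19827738432) (nat_lit 304) (nat_lit 250945132123) (nat_lit 76) (nat_lit 192166687651) (nat_lit 35) (nat_lit 5) (nat_lit 39) (nat_lit 5) (nat_lit 36) (nat_lit 5) (nat_lit 326) (nat_lit 316) (nat_lit 138)) (XT.lf (nat_lit 0) (nat_lit 66184277419) (nat_lit 304) (nat_lit 30922237143) (nat_lit 76) (nat_lit 387522433227) (nat_lit 35) (nat_lit 5) (nat_lit 39) (nat_lit 5) (nat_lit 36) (nat_lit 5) (nat_lit 327) (nat_lit 316) (nat_lit 137))) (XT.nd (nat_lit 78) (nat_lit 0) (nat_lit 0) (XT.lf (nat_lit 0) (nat_lit 123793601972) (nat_lit 304) (nat_lit 292359135873) (nat_lit 76) (nat_lit 91297209802) (nat_lit 32) (nat_lit 5) (nat_lit 36) (nat_lit 5) (nat_lit 33) (nat_lit 5) (nat_lit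 328) (nat_lit 316) (nat_lit 136)) (XT.lf (nat_lit 0) (nat_lit 189401317301) (nat_lit 304) (nat_lit 52029754443) (nat_lit 76) (nat_lit 290394384260) (nat_lit 32) (nat_lit 5) (nat_lit 36) (nat_lit 5) (nat_lit 33) (nat_lit 5) (nat_lit 329) (nat_lit 316) (nat_lit 135))))) (XT.nd (nat_lit 234) (nat_lit 380) (nat_lit 0) (XT.nd (nat_lit 78) (nat_lit 152) (nat_lit 0) (XT.lf (nat_lit 0) (nat_lit 218453891916) (nat_lit 228) (nat_lit 47057550306) (nat_lit 304) (nat_lit 292219259508) (nat_lit 29) (nat_lit 5) (nat_lit 32) (nat_lit 5) (nat_lit 33) (nat_lit 5) (nat_lit 330) (nat_lit 316) (nat_lit 134)) (XT.nd (nat_lit 78) (nat_lit 152) (nat_lit 0) (XT.lf (nat_lit 0) (nat_lit 353086813011) (nat_lit 304) (nat_lit 76013265295) (nat_lit 76) (nat_lit 156178174018) (nat_lit 29) (nat_lit 5) (nat_lit 33) (nat_lit 5) (nat_lit 30) (nat_lit 5) (nat_lit 331) (nat_lit 316) (nat_lit 133)) (XT.lf (nat_lit 0) (nat_lit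 217993998762) (nat_lit 152) (nat_lit 236139223933) (nat_lit 228) (nat_lit 160379183609) (nat_lit 27) (nat_lit 5) (nat_lit 29) (nat_lit 5) (nat_lit 30) (nat_lit 5) (nat_lit 332) (nat_lit 316) (nat_lit 132)))) (XT.nd (nat_lit 156) (nat_lit 152) (nat_lit 0) (XT.nd (nat_lit 78) (nat_lit 228) (nat_lit 0) (XT.lf (nat_lit 0) (nat_lit 539844753835) (nat_lit 152) (nat_lit 25496904124) (nat_lit 228) (nat_lit 80577369689) (nat_lit 27) (nat_lit 5) (nat_lit 29) (nat_lit 5) (nat_lit 30) (nat_lit 5) (nat_lit 333) (nat_lit 316) (nat_lit 131)) (XT.lf (nat_lit 0) (nat_lit 15578376340) (nat_lit 228) (nat_lit 466009653497) (nat_lit 76) (nat_lit 197419329879) (nat_lit 24) (nat_lit 5) (nat_lit 27) (nat_lit 5) (nat_lit 25) (nat_lit 5) (nat_lit 334) (nat_lit 316) (nat_lit 130))) (XT.nd (nat_lit 78) (nat_lit 152) (nat_lit 0) (XT.lf (nat_lit 0) (nat_lit 118711135860) (nat_lit 228) (nat_lit 153713294076) (nat_lit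 76) (nat_lit 441859868999) (nat_lit 24) (nat_lit 5) (nat_lit 27) (nat_lit 5) (nat_lit 25) (nat_lit 5) (nat_lit 335) (nat_lit 316) (nat_lit 129)) (XT.lf (nat_lit 0) (nat_lit 193233044239) (nat_lit 152) (nat_lit 41508710356) (nat_lit 228) (nat_lit 517269859670) (nat_lit 22) (nat_lit 5) (nat_lit 24) (nat_lit 5) (nat_lit 25) (nat_lit 5) (nat_lit 336) (nat_lit 316) (nat_lit 128)))))) (XT.nd (nat_lit 546) (nat_lit 380) (nat_lit 0) (XT.nd (nat_lit 234) (nat_lit 304) (nat_lit 0) (XT.nd (nat_lit 78) (nat_lit 152) (nat_lit 0) (XT.lf (nat_lit 0) (nat_lit 369366285334) (nat_lit 228) (nat_lit 220852709386) (nat_lit 76) (nat_lit 201793203149) (nat_lit 22) (nat_lit 5) (nat_lit 25) (nat_lit 5) (nat_lit 23) (nat_lit 5) (nat_lit 337) (nat_lit 316) (nat_lit 127)) (XT.nd (nat_lit 78) (nat_lit 0) (nat_lit 0) (XT.lf (nat_lit 0) (nat_lit 150560699960) (nat_lit 152) (nat_lit 368899196597) (nat_lit 228) (nat_lit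 315377002208) (nat_lit 20) (nat_lit 5) (nat_lit 22) (nat_lit 5) (nat_lit 23) (nat_lit 5) (nat_lit 338) (nat_lit 316) (nat_lit 126)) (XT.lf (nat_lit 0) (nat_lit 564247244223) (nat_lit 152) (nat_lit 123352238900) (nat_lit 228) (nat_lit 193005013734) (nat_lit 20) (nat_lit 5) (nat_lit 22) (nat_lit 5) (nat_lit 23) (nat_lit 5) (nat_lit 339) (nat_lit 316) (nat_lit 125)))) (XT.nd (nat_lit 156) (nat_lit 152) (nat_lit 0) (XT.nd (nat_lit 78) (nat_lit 76) (nat_lit 0) (XT.lf (nat_lit 0) (nat_lit 81669398281) (nat_lit 76) (nat_lit 792896191189) (nat_lit 152) (nat_lit 55037885137) (nat_lit 19) (nat_lit 5) (nat_lit 20) (nat_lit 5) (nat_lit 21) (nat_lit 4) (nat_lit 340) (nat_lit 316) (nat_lit 124)) (XT.lf (nat_lit 0) (nat_lit 101344397932) (nat_lit 152) (nat_lit 457989239988) (nat_lit 76) (nat_lit 422041670762) (nat_lit 18) (nat_lit 5) (nat_lit 20) (nat_lit 5) (nat_lit 19) (nat_lit 5) (nat_lit 341)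 (nat_lit 316) (nat_lit 123))) (XT.nd (nat_lit 78) (nat_lit 152) (nat_lit 0) (XT.lf (nat_lit 0) (nat_lit 267263772828) (nat_lit 152) (nat_lit 38278396751) (nat_lit 76) (nat_lit 731632356733) (nat_lit 18) (nat_lit 5) (nat_lit 20) (nat_lit 5) (nat_lit 19) (nat_lit 5) (nat_lit 342) (nat_lit 316) (nat_lit 122)) (XT.lf (nat_lit 0) (nat_lit 436862945027) (nat_lit 152) (nat_lit 20100302704) (nat_lit 228) (nat_lit 639633909651) (nat_lit 16) (nat_lit 5) (nat_lit 18) (nat_lit 5) (nat_lit 19) (nat_lit 5) (nat_lit 343) (nat_lit 316) (nat_lit 121))))) (XT.nd (nat_lit 312) (nat_lit 76) (nat_lit 0) (XT.nd (nat_lit 156) (nat_lit 228) (nat_lit 0) (XT.nd (nat_lit 78) (nat_lit 76) (nat_lit 0) (XT.lf (nat_lit 0) (nat_lit 669843111931) (nat_lit 228) (nat_lit 215455219693) (nat_lit 76) (nat_lit 274834912834) (nat_lit 16) (nat_lit 5) (nat_lit 19) (nat_lit 5) (nat_lit 17) (nat_lit 4) (nat_lit 344) (nat_lit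 316) (nat_lit 120)) (XT.lf (nat_lit 0) (nat_lit 277737541913) (nat_lit 76) (nat_lit 629217490744) (nat_lit 152) (nat_lit 321221052475) (nat_lit 15) (nat_lit 5) (nat_lit 16) (nat_lit 5) (nat_lit 17) (nat_lit 4) (nat_lit 345) (nat_lit 316) (nat_lit 119))) (XT.nd (nat_lit 78) (nat_lit 228) (nat_lit 0) (XT.lf (nat_lit 0) (nat_lit 822638832868) (nat_lit 76) (nat_lit 346287989201) (nat_lit 152) (nat_lit 132264257811) (nat_lit 15) (nat_lit 5) (nat_lit 16) (nat_lit 5) (nat_lit 17) (nat_lit 4) (nat_lit 346) (nat_lit 316) (nat_lit 118)) (XT.lf (nat_lit 0) (nat_lit 30903859032) (nat_lit 152) (nat_lit 38056267021) (nat_lit 228) (nat_lit 1310889529232) (nat_lit 12) (nat_lit 5) (nat_lit 14) (nat_lit 5) (nat_lit 15) (nat_lit 5) (nat_lit 347) (nat_lit 316) (nat_lit 117)))) (XT.nd (nat_lit 156) (nat_lit 76) (nat_lit 0) (XT.nd (nat_lit 78) (nat_lit 0) (nat_lit 0) (XT.lf (nat_lit 0) (nat_lit 299651830996)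 (nat_lit 228) (nat_lit 866288091858) (nat_lit 76) (nat_lit 296944953008) (nat_lit 12) (nat_lit 5) (nat_lit 15) (nat_lit 5) (nat_lit 13) (nat_lit 4) (nat_lit 348) (nat_lit 316) (nat_lit 116)) (XT.lf (nat_lit 0) (nat_lit 549787335996) (nat_lit 228) (nat_lit 346006264260) (nat_lit 76) (nat_lit 656690236752) (nat_lit 12) (nat_lit 5) (nat_lit 15) (nat_lit 5) (nat_lit 13) (nat_lit 4) (nat_lit 349) (nat_lit 316) (nat_lit 115))) (XT.nd (nat_lit 78) (nat_lit 0) (nat_lit 0) (XT.lf (nat_lit 0) (nat_lit 227266903181) (nat_lit 76) (nat_lit 598132542696) (nat_lit 152) (nat_lit 823414008023) (nat_lit 11) (nat_lit 5) (nat_lit 12) (nat_lit 5) (nat_lit 13) (nat_lit 4) (nat_lit 350) (nat_lit 316) (nat_lit 114)) (XT.lf (nat_lit 0) (nat_lit 866079589995) (nat_lit 76) (nat_lit 266441349326) (nat_lit 152) (nat_lit 619571667656) (nat_lit 11) (nat_lit 5) (nat_lit 12) (nat_lit 5) (nat_lit 13) (nat_lit 4) (nat_lit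 351) (nat_lit 316) (nat_lit 113))))))))
noncomputable def xc121 : XT := (XT.nd (nat_lit 39936) (nat_lit 0) (nat_lit 152) (XT.nd (nat_lit 38766) (nat_lit 0) (nat_lit 684) (XT.nd (nat_lit 38220) (nat_lit 0) (nat_lit 1976) (XT.nd (nat_lit 37908) (nat_lit 0) (nat_lit 2508) (XT.nd (nat_lit 78) (nat_lit 152) (nat_lit 0) (XT.lf (nat_lit 0) (nat_lit 1466419577941) (nat_lit 152) (nat_lit 309844251540) (nat_lit 0) (nat_lit 87193668778) (nat_lit 11) (nat_lit 5) (nat_lit 13) (nat_lit 4) (nat_lit 11) (nat_lit 4) (nat_lit 352) (nat_lit 316) (nat_lit 112)) (XT.nd (nat_lit 78) (nat_lit 76) (nat_lit 0) (XT.lf (nat_lit 0) (nat_lit 321584399727) (nat_lit 76) (nat_lit 1520100366558) (nat_lit 76) (nat_lit 140874441877) (nat_lit 10) (nat_lit 4) (nat_lit 11) (nat_lit 5) (nat_lit 11) (nat_lit 4) (nat_lit 353) (nat_lit 316) (nat_lit 111)) (XT.lf (nat_lit 0) (nat_lit 137681469995) (nat_lit 152) (nat_lit 1092848481459)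 (nat_lit 76) (nat_lit 879702520248) (nat_lit 9) (nat_lit 5) (nat_lit 11) (nat_lit 5) (nat_lit 10) (nat_lit 4) (nat_lit 354) (nat_lit 316) (nat_lit 110)))) (XT.nd (nat_lit 156) (nat_lit 0) (nat_lit 76) (XT.nd (nat_lit 78) (nat_lit 0) (nat_lit 0) (XT.lf (nat_lit 0) (nat_lit 88855193940) (nat_lit 532) (nat_lit 37778839338) (nat_lit 532) (nat_lit 37778839338) (nat_lit 42) (nat_lit 3) (nat_lit 49) (nat_lit 3) (nat_lit 49) (nat_lit 5) (nat_lit 317) (nat_lit 317) (nat_lit 146)) (XT.lf (nat_lit 76) (nat_lit 75222277455) (nat_lit 0) (nat_lit 111406172103) (nat_lit 532) (nat_lit 155205551727) (nat_lit 43) (nat_lit 5) (nat_lit 42) (nat_lit 3) (nat_lit 49) (nat_lit 5) (nat_lit 318) (nat_lit 317) (nat_lit 145))) (XT.nd (nat_lit 78) (nat_lit 0) (nat_lit 0) (XT.lf (nat_lit 0) (nat_lit 199384844608) (nat_lit 456) (nat_lit 114415084346) (nat_lit 532) (nat_lit 41832997998) (nat_lit 43) (nat_lit 5) (nat_lit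 49) (nat_lit 5) (nat_lit 50) (nat_lit 5) (nat_lit 319) (nat_lit 317) (nat_lit 144)) (XT.lf (nat_lit 76) (nat_lit 49541870662) (nat_lit 0) (nat_lit 167704979614) (nat_lit 532) (nat_lit 152962108667) (nat_lit 44) (nat_lit 5) (nat_lit 43) (nat_lit 5) (nat_lit 50) (nat_lit 5) (nat_lit 320) (nat_lit 317) (nat_lit 143))))) (XT.nd (nat_lit 234) (nat_lit 608) (nat_lit 0) (XT.nd (nat_lit 78) (nat_lit 0) (nat_lit 76) (XT.lf (nat_lit 76) (nat_lit 233122236314) (nat_lit 0) (nat_lit 6543843260) (nat_lit 532) (nat_lit 146034733043) (nat_lit 44) (nat_lit 5) (nat_lit 43) (nat_lit 5) (nat_lit 50) (nat_lit 5) (nat_lit 321) (nat_lit 317) (nat_lit 142)) (XT.nd (nat_lit 78) (nat_lit 0) (nat_lit 0) (XT.lf (nat_lit 76) (nat_lit 26241041243) (nat_lit 0) (nat_lit 242297483497) (nat_lit 532) (nat_lit 133520715807) (nat_lit 45) (nat_lit 5) (nat_lit 44) (nat_lit 5) (nat_lit 51) (nat_lit 5) (nat_lit 322) (nat_lit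 317) (nat_lit 141)) (XT.lf (nat_lit 76) (nat_lit 227864553034) (nat_lit 0) (nat_lit 76193606424) (nat_lit 532) (nat_lit 115321191889) (nat_lit 45) (nat_lit 5) (nat_lit 44) (nat_lit 5) (nat_lit 51) (nat_lit 5) (nat_lit 323) (nat_lit 317) (nat_lit 140)))) (XT.nd (nat_lit 156) (nat_lit 304) (nat_lit 0) (XT.nd (nat_lit 78) (nat_lit 0) (nat_lit 0) (XT.lf (nat_lit 0) (nat_lit 5316883844) (nat_lit 456) (nat_lit 339712242259) (nat_lit 532) (nat_lit 92847164156) (nat_lit 39) (nat_lit 5) (nat_lit 45) (nat_lit 5) (nat_lit 46) (nat_lit 5) (nat_lit 324) (nat_lit 317) (nat_lit 139)) (XT.lf (nat_lit 0) (nat_lit 226703414879) (nat_lit 456) (nat_lit 169739624888) (nat_lit 532) (nat_lit 60836723073) (nat_lit 39) (nat_lit 5) (nat_lit 45) (nat_lit 5) (nat_lit 46) (nat_lit 5) (nat_lit 325) (nat_lit 317) (nat_lit 138))) (XT.nd (nat_lit 78) (nat_lit 304) (nat_lit 0) (XT.lf (nat_lit 0) (nat_lit 452302664041)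 (nat_lit 532) (nat_lit 12767310068) (nat_lit 76) (nat_lit 13138931439) (nat_lit 39) (nat_lit 5) (nat_lit 46) (nat_lit 5) (nat_lit 40) (nat_lit 5) (nat_lit 326) (nat_lit 317) (nat_lit 137)) (XT.lf (nat_lit 0) (nat_lit 21414598364) (nat_lit 304) (nat_lit 271020058138) (nat_lit 76) (nat_lit 207540013076) (nat_lit 35) (nat_lit 5) (nat_lit 39) (nat_lit 5) (nat_lit 36) (nat_lit 5) (nat_lit 327) (nat_lit 317) (nat_lit 136)))))) (XT.nd (nat_lit 546) (nat_lit 684) (nat_lit 0) (XT.nd (nat_lit 234) (nat_lit 380) (nat_lit 0) (XT.nd (nat_lit 78) (nat_lit 228) (nat_lit 0) (XT.lf (nat_lit 0) (nat_lit 71479612999) (nat_lit 304) (nat_lit 33395382268) (nat_lit 76) (nat_lit 418524219008) (nat_lit 35) (nat_lit 5) (nat_lit 39) (nat_lit 5) (nat_lit 36) (nat_lit 5) (nat_lit 328) (nat_lit 317) (nat_lit 135)) (XT.nd (nat_lit 78) (nat_lit 0) (nat_lit 0) (XT.lf (nat_lit 0) (nat_lit 133697655706) (nat_lit 304)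 (nat_lit 315747203359) (nat_lit 76) (nat_lit 98601037420) (nat_lit 32) (nat_lit 5) (nat_lit 36) (nat_lit 5) (nat_lit 33) (nat_lit 5) (nat_lit 329) (nat_lit 317) (nat_lit 134)) (XT.lf (nat_lit 0) (nat_lit 204553946367) (nat_lit 304) (nat_lit 56191520553) (nat_lit 76) (nat_lit 313625982069) (nat_lit 32) (nat_lit 5) (nat_lit 36) (nat_lit 5) (nat_lit 33) (nat_lit 5) (nat_lit 330) (nat_lit 317) (nat_lit 133)))) (XT.nd (nat_lit 156) (nat_lit 152) (nat_lit 0) (XT.nd (nat_lit 78) (nat_lit 0) (nat_lit 0) (XT.lf (nat_lit 0) (nat_lit 235930801963) (nat_lit 228) (nat_lit 50822054925) (nat_lit 304) (nat_lit 315596259555) (nat_lit 29) (nat_lit 5) (nat_lit 32) (nat_lit 5) (nat_lit 33) (nat_lit 5) (nat_lit 331) (nat_lit 317) (nat_lit 132)) (XT.lf (nat_lit 0) (nat_lit 381334222571) (nat_lit 304) (nat_lit 82093736030) (nat_lit 76) (nat_lit 168672515377) (nat_lit 29) (nat_lit 5) (nat_lit 33) (nat_lit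 5) (nat_lit 30) (nat_lit 5) (nat_lit 332) (nat_lit 317) (nat_lit 131))) (XT.nd (nat_lit 78) (nat_lit 0) (nat_lit 0) (XT.lf (nat_lit 0) (nat_lit 235434094203) (nat_lit 152) (nat_lit 255030230260) (nat_lit 228) (nat_lit 173209037560) (nat_lit 27) (nat_lit 5) (nat_lit 29) (nat_lit 5) (nat_lit 30) (nat_lit 5) (nat_lit 333) (nat_lit 317) (nat_lit 130)) (XT.lf (nat_lit 0) (nat_lit 583032867049) (nat_lit 152) (nat_lit 27536534613) (nat_lit 228) (nat_lit 87023114137) (nat_lit 27) (nat_lit 5) (nat_lit 29) (nat_lit 5) (nat_lit 30) (nat_lit 5) (nat_lit 334) (nat_lit 317) (nat_lit 129))))) (XT.nd (nat_lit 312) (nat_lit 304) (nat_lit 0) (XT.nd (nat_lit 156) (nat_lit 152) (nat_lit 0) (XT.nd (nat_lit 78) (nat_lit 0) (nat_lit 0) (XT.lf (nat_lit 0) (nat_lit 16825054334) (nat_lit 228) (nat_lit 503289853531) (nat_lit 76) (nat_lit 213213006989) (nat_lit 24) (nat_lit 5) (nat_lit 27) (nat_lit 5) (nat_lit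 25) (nat_lit 5) (nat_lit 335) (nat_lit 317) (nat_lit 128)) (XT.lf (nat_lit 0) (nat_lit 128208404401) (nat_lit 228) (nat_lit 166009827744) (nat_lit 76) (nat_lit 477208779556) (nat_lit 24) (nat_lit 5) (nat_lit 27) (nat_lit 5) (nat_lit 25) (nat_lit 5) (nat_lit 336) (nat_lit 317) (nat_lit 127))) (XT.nd (nat_lit 78) (nat_lit 0) (nat_lit 0) (XT.lf (nat_lit 0) (nat_lit 208692204221) (nat_lit 152) (nat_lit 44829252859) (nat_lit 228) (nat_lit 558651056492) (nat_lit 22) (nat_lit 5) (nat_lit 24) (nat_lit 5) (nat_lit 25) (nat_lit 5) (nat_lit 337) (nat_lit 317) (nat_lit 126)) (XT.lf (nat_lit 0) (nat_lit 398915926892) (nat_lit 228) (nat_lit 238520423762) (nat_lit 76) (nat_lit 217936795147) (nat_lit 22) (nat_lit 5) (nat_lit 25) (nat_lit 5) (nat_lit 23) (nat_lit 5) (nat_lit 338) (nat_lit 317) (nat_lit 125)))) (XT.nd (nat_lit 156) (nat_lit 152) (nat_lit 0) (XT.nd (nat_lit 78) (nat_lit 0) (nat_lit 0)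 (XT.lf (nat_lit 0) (nat_lit 162606045614) (nat_lit 152) (nat_lit 398410968084) (nat_lit 228) (nat_lit 340606810194) (nat_lit 20) (nat_lit 5) (nat_lit 22) (nat_lit 5) (nat_lit 23) (nat_lit 5) (nat_lit 339) (nat_lit 317) (nat_lit 124)) (XT.lf (nat_lit 0) (nat_lit 609387477147) (nat_lit 152) (nat_lit 133220265936) (nat_lit 228) (nat_lit 208445088731) (nat_lit 20) (nat_lit 5) (nat_lit 22) (nat_lit 5) (nat_lit 23) (nat_lit 5) (nat_lit 340) (nat_lit 317) (nat_lit 123))) (XT.nd (nat_lit 78) (nat_lit 76) (nat_lit 0) (XT.lf (nat_lit 0) (nat_lit 88203412651) (nat_lit 76) (nat_lit 856327717478) (nat_lit 152) (nat_lit 59440598331) (nat_lit 19) (nat_lit 5) (nat_lit 20) (nat_lit 5) (nat_lit 21) (nat_lit 4) (nat_lit 341) (nat_lit 317) (nat_lit 122)) (XT.lf (nat_lit 0) (nat_lit 109452229144) (nat_lit 152) (nat_lit 494627935683) (nat_lit 76) (nat_lit 455805145654) (nat_lit 18) (nat_lit 5) (nat_lit 20)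 (nat_lit 5) (nat_lit 19) (nat_lit 5) (nat_lit 342) (nat_lit 317) (nat_lit 121))))))) (XT.nd (nat_lit 39000) (nat_lit 0) (nat_lit 988) (XT.nd (nat_lit 546) (nat_lit 76) (nat_lit 0) (XT.nd (nat_lit 234) (nat_lit 304) (nat_lit 0) (XT.nd (nat_lit 78) (nat_lit 152) (nat_lit 0) (XT.lf (nat_lit 0) (nat_lit 288645133338) (nat_lit 152) (nat_lit 41340257840) (nat_lit 76) (nat_lit 790163076041) (nat_lit 18) (nat_lit 5) (nat_lit 20) (nat_lit 5) (nat_lit 19) (nat_lit 5) (nat_lit 343) (nat_lit 317) (nat_lit 120)) (XT.nd (nat_lit 78) (nat_lit 0) (nat_lit 0) (XT.lf (nat_lit 0) (nat_lit 471812380884) (nat_lit 152) (nat_lit 21708175813) (nat_lit 228) (nat_lit 690804352876) (nat_lit 16) (nat_lit 5) (nat_lit 18) (nat_lit 5) (nat_lit 19) (nat_lit 5) (nat_lit 344) (nat_lit 317) (nat_lit 119)) (XT.lf (nat_lit 0) (nat_lit 723430794943) (nat_lit 228) (nat_lit 232691251139) (nat_lit 76) (nat_lit 296821838775)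 (nat_lit 16) (nat_lit 5) (nat_lit 19) (nat_lit 5) (nat_lit 17) (nat_lit 4) (nat_lit 345) (nat_lit 317) (nat_lit 118)))) (XT.nd (nat_lit 156) (nat_lit 228) (nat_lit 0) (XT.nd (nat_lit 78) (nat_lit 0) (nat_lit 0) (XT.lf (nat_lit 0) (nat_lit 299956921620) (nat_lit 76) (nat_lit 679554739420) (nat_lit 152) (nat_lit 346918492440) (nat_lit 15) (nat_lit 5) (nat_lit 16) (nat_lit 5) (nat_lit 17) (nat_lit 4) (nat_lit 346) (nat_lit 317) (nat_lit 117)) (XT.lf (nat_lit 0) (nat_lit 888450287973) (nat_lit 76) (nat_lit 373990888908) (nat_lit 152) (nat_lit 142845172295) (nat_lit 15) (nat_lit 5) (nat_lit 16) (nat_lit 5) (nat_lit 17) (nat_lit 4) (nat_lit 347) (nat_lit 317) (nat_lit 116))) (XT.nd (nat_lit 78) (nat_lit 0) (nat_lit 0) (XT.lf (nat_lit 0) (nat_lit 33376518769) (nat_lit 152) (nat_lit 41100624726) (nat_lit 228) (nat_lit 1415760467306) (nat_lit 12) (nat_lit 5) (nat_lit 14) (nat_lit 5) (nat_lit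 15) (nat_lit 5) (nat_lit 348) (nat_lit 317) (nat_lit 115)) (XT.lf (nat_lit 0) (nat_lit 323624172673) (nat_lit 228) (nat_lit 935590801738) (nat_lit 76) (nat_lit 320700675610) (nat_lit 12) (nat_lit 5) (nat_lit 15) (nat_lit 5) (nat_lit 13) (nat_lit 4) (nat_lit 349) (nat_lit 317) (nat_lit 114))))) (XT.nd (nat_lit 38142) (nat_lit 0) (nat_lit 2356) (XT.nd (nat_lit 156) (nat_lit 0) (nat_lit 0) (XT.nd (nat_lit 78) (nat_lit 76) (nat_lit 0) (XT.lf (nat_lit 0) (nat_lit 593770503614) (nat_lit 228) (nat_lit 373686452929) (nat_lit 76) (nat_lit 709225572693) (nat_lit 12) (nat_lit 5) (nat_lit 15) (nat_lit 5) (nat_lit 13) (nat_lit 4) (nat_lit 350) (nat_lit 317) (nat_lit 113)) (XT.lf (nat_lit 0) (nat_lit 245448559996) (nat_lit 76) (nat_lit 645983016226) (nat_lit 152) (nat_lit 889286939764) (nat_lit 11) (nat_lit 5) (nat_lit 12) (nat_lit 5) (nat_lit 13) (nat_lit 4) (nat_lit 351) (nat_lit 317) (nat_lit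 112))) (XT.nd (nat_lit 78) (nat_lit 0) (nat_lit 0) (XT.lf (nat_lit 0) (nat_lit 935366239195) (nat_lit 76) (nat_lit 287756537008) (nat_lit 152) (nat_lit 669137226161) (nat_lit 11) (nat_lit 5) (nat_lit 12) (nat_lit 5) (nat_lit 13) (nat_lit 4) (nat_lit 352) (nat_lit 317) (nat_lit 111)) (XT.lf (nat_lit 0) (nat_lit 1583733296609) (nat_lit 152) (nat_lit 334631521033) (nat_lit 0) (nat_lit 94169268066) (nat_lit 11) (nat_lit 5) (nat_lit 13) (nat_lit 4) (nat_lit 11) (nat_lit 4) (nat_lit 353) (nat_lit 317) (nat_lit 110)))) (XT.nd (nat_lit 156) (nat_lit 0) (nat_lit 76) (XT.nd (nat_lit 78) (nat_lit 0) (nat_lit 0) (XT.lf (nat_lit 0) (nat_lit 95964144843) (nat_lit 532) (nat_lit 40800856368) (nat_lit 532) (nat_lit 40800856368) (nat_lit 42) (nat_lit 3) (nat_lit 49) (nat_lit 3) (nat_lit 49) (nat_lit 5) (nat_lit 318) (nat_lit 318) (nat_lit 144)) (XT.lf (nat_lit 76) (nat_lit 81240625195) (nat_lit 0) (nat_lit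 120319105387) (nat_lit 532) (nat_lit 167620906669) (nat_lit 43) (nat_lit 5) (nat_lit 42) (nat_lit 3) (nat_lit 49) (nat_lit 5) (nat_lit 319) (nat_lit 318) (nat_lit 143))) (XT.nd (nat_lit 78) (nat_lit 0) (nat_lit 0) (XT.lf (nat_lit 0) (nat_lit 215336553001) (nat_lit 456) (nat_lit 123567679751) (nat_lit 532) (nat_lit 45179251236) (nat_lit 43) (nat_lit 5) (nat_lit 49) (nat_lit 5) (nat_lit 50) (nat_lit 5) (nat_lit 320) (nat_lit 318) (nat_lit 142)) (XT.lf (nat_lit 76) (nat_lit 53505816181) (nat_lit 0) (nat_lit 181121649063) (nat_lit 532) (nat_lit 165198137860) (nat_lit 44) (nat_lit 5) (nat_lit 43) (nat_lit 5) (nat_lit 50) (nat_lit 5) (nat_lit 321) (nat_lit 318) (nat_lit 141)))))) (XT.nd (nat_lit 546) (nat_lit 836) (nat_lit 0) (XT.nd (nat_lit 234) (nat_lit 608) (nat_lit 0) (XT.nd (nat_lit 78) (nat_lit 0) (nat_lit 76) (XT.lf (nat_lit 76) (nat_lit 251772566947) (nat_lit 0) (nat_lit 7067601721)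 (nat_lit 532) (nat_lit 157716641779) (nat_lit 44) (nat_lit 5) (nat_lit 43) (nat_lit 5) (nat_lit 50) (nat_lit 5) (nat_lit 322) (nat_lit 318) (nat_lit 140)) (XT.nd (nat_lit 78) (nat_lit 0) (nat_lit 0) (XT.lf (nat_lit 76) (nat_lit 28340933665) (nat_lit 0) (nat_lit 261681425380) (nat_lit 532) (nat_lit 144201557817) (nat_lit 45) (nat_lit 5) (nat_lit 44) (nat_lit 5) (nat_lit 51) (nat_lit 5) (nat_lit 323) (nat_lit 318) (nat_lit 139)) (XT.lf (nat_lit 76) (nat_lit 246094281279) (nat_lit 0) (nat_lit 82289227534) (nat_lit 532) (nat_lit 124546132374) (nat_lit 45) (nat_lit 5) (nat_lit 44) (nat_lit 5) (nat_lit 51) (nat_lit 5) (nat_lit 324) (nat_lit 318) (nat_lit 138)))) (XT.nd (nat_lit 156) (nat_lit 304) (nat_lit 0) (XT.nd (nat_lit 78) (nat_lit 0) (nat_lit 0) (XT.lf (nat_lit 0) (nat_lit 5742844176) (nat_lit 456) (nat_lit 366889268723) (nat_lit 532) (nat_lit 100274225694) (nat_lit 39) (nat_lit 5)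 (nat_lit 45) (nat_lit 5) (nat_lit 46) (nat_lit 5) (nat_lit 325) (nat_lit 318) (nat_lit 137)) (XT.lf (nat_lit 0) (nat_lit 244840252536) (nat_lit 456) (nat_lit 183318838475) (nat_lit 532) (nat_lit 65703002035) (nat_lit 39) (nat_lit 5) (nat_lit 45) (nat_lit 5) (nat_lit 46) (nat_lit 5) (nat_lit 326) (nat_lit 318) (nat_lit 136))) (XT.nd (nat_lit 78) (nat_lit 304) (nat_lit 0) (XT.lf (nat_lit 0) (nat_lit 488487439214) (nat_lit 532) (nat_lit 13788124191) (nat_lit 76) (nat_lit 14190007607) (nat_lit 39) (nat_lit 5) (nat_lit 46) (nat_lit 5) (nat_lit 40) (nat_lit 5) (nat_lit 327) (nat_lit 318) (nat_lit 135)) (XT.lf (nat_lit 0) (nat_lit 23128315664) (nat_lit 304) (nat_lit 292701075894) (nat_lit 76) (nat_lit 224143205903) (nat_lit 35) (nat_lit 5) (nat_lit 39) (nat_lit 5) (nat_lit 36) (nat_lit 5) (nat_lit 328) (nat_lit 318) (nat_lit 134))))) (XT.nd (nat_lit 312) (nat_lit 380) (nat_lit 0) (XT.nd (nat_lit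 156) (nat_lit 228) (nat_lit 0) (XT.nd (nat_lit 78) (nat_lit 228) (nat_lit 0) (XT.lf (nat_lit 0) (nat_lit 77198490772) (nat_lit 304) (nat_lit 36066469428) (nat_lit 76) (nat_lit 452006148919) (nat_lit 35) (nat_lit 5) (nat_lit 39) (nat_lit 5) (nat_lit 36) (nat_lit 5) (nat_lit 329) (nat_lit 318) (nat_lit 133)) (XT.lf (nat_lit 0) (nat_lit 144393953053) (nat_lit 304) (nat_lit 341006410882) (nat_lit 76) (nat_lit 106489163995) (nat_lit 32) (nat_lit 5) (nat_lit 36) (nat_lit 5) (nat_lit 33) (nat_lit 5) (nat_lit 330) (nat_lit 318) (nat_lit 132))) (XT.nd (nat_lit 78) (nat_lit 228) (nat_lit 0) (XT.lf (nat_lit 0) (nat_lit 220918711050) (nat_lit 304) (nat_lit 60686315582) (nat_lit 76) (nat_lit 338716100988) (nat_lit 32) (nat_lit 5) (nat_lit 36) (nat_lit 5) (nat_lit 33) (nat_lit 5) (nat_lit 331) (nat_lit 318) (nat_lit 131)) (XT.lf (nat_lit 0) (nat_lit 254805779404) (nat_lit 228) (nat_lit 54887734096)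 (nat_lit 304) (nat_lit 340843496744) (nat_lit 29) (nat_lit 5) (nat_lit 32) (nat_lit 5) (nat_lit 33) (nat_lit 5) (nat_lit 332) (nat_lit 318) (nat_lit 130)))) (XT.nd (nat_lit 156) (nat_lit 228) (nat_lit 0) (XT.nd (nat_lit 78) (nat_lit 152) (nat_lit 0) (XT.lf (nat_lit 0) (nat_lit 411841358626) (nat_lit 304) (nat_lit 88660728663) (nat_lit 76) (nat_lit 182166391570) (nat_lit 29) (nat_lit 5) (nat_lit 33) (nat_lit 5) (nat_lit 30) (nat_lit 5) (nat_lit 333) (nat_lit 318) (nat_lit 129)) (XT.lf (nat_lit 0) (nat_lit 254269315172) (nat_lit 152) (nat_lit 275432535865) (nat_lit 228) (nat_lit 187065348409) (nat_lit 27) (nat_lit 5) (nat_lit 29) (nat_lit 5) (nat_lit 30) (nat_lit 5) (nat_lit 334) (nat_lit 318) (nat_lit 128))) (XT.nd (nat_lit 78) (nat_lit 228) (nat_lit 0) (XT.lf (nat_lit 0) (nat_lit 629675953296) (nat_lit 152) (nat_lit 29739352923) (nat_lit 228) (nat_lit 93984581642) (nat_lit 27) (nat_lit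 5) (nat_lit 29) (nat_lit 5) (nat_lit 30) (nat_lit 5) (nat_lit 335) (nat_lit 318) (nat_lit 127)) (XT.lf (nat_lit 0) (nat_lit 18171408377) (nat_lit 228) (nat_lit 543552551205) (nat_lit 76) (nat_lit 230270159620) (nat_lit 24) (nat_lit 5) (nat_lit 27) (nat_lit 5) (nat_lit 25) (nat_lit 5) (nat_lit 336) (nat_lit 318) (nat_lit 126))))))))
noncomputable def xc122 : XT := (XT.nd (nat_lit 40170) (nat_lit 0) (nat_lit 76) (XT.nd (nat_lit 1092) (nat_lit 76) (nat_lit 0) (XT.nd (nat_lit 546) (nat_lit 456) (nat_lit 0) (XT.nd (nat_lit 234) (nat_lit 304) (nat_lit 0) (XT.nd (nat_lit 78) (nat_lit 152) (nat_lit 0) (XT.lf (nat_lit 0) (nat_lit 138465400547) (nat_lit 228) (nat_lit 179290159696) (nat_lit 76) (nat_lit 515385585691) (nat_lit 24) (nat_lit 5) (nat_lit 27) (nat_lit 5) (nat_lit 25) (nat_lit 5) (nat_lit 337) (nat_lit 318) (nat_lit 125)) (XT.nd (nat_lit 78) (nat_lit 0) (nat_lit 0) (XT.lf (nat_lit 0)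 (nat_lit 225388023326) (nat_lit 152) (nat_lit 48415460778) (nat_lit 228) (nat_lit 603342804977) (nat_lit 22) (nat_lit 5) (nat_lit 24) (nat_lit 5) (nat_lit 25) (nat_lit 5) (nat_lit 338) (nat_lit 318) (nat_lit 124)) (XT.lf (nat_lit 0) (nat_lit 430829491450) (nat_lit 228) (nat_lit 257601626956) (nat_lit 76) (nat_lit 235371855139) (nat_lit 22) (nat_lit 5) (nat_lit 25) (nat_lit 5) (nat_lit 23) (nat_lit 5) (nat_lit 339) (nat_lit 318) (nat_lit 123)))) (XT.nd (nat_lit 156) (nat_lit 152) (nat_lit 0) (XT.nd (nat_lit 78) (nat_lit 0) (nat_lit 0) (XT.lf (nat_lit 0) (nat_lit 175614949065) (nat_lit 152) (nat_lit 430283704720) (nat_lit 228) (nat_lit 367855053064) (nat_lit 20) (nat_lit 5) (nat_lit 22) (nat_lit 5) (nat_lit 23) (nat_lit 5) (nat_lit 340) (nat_lit 318) (nat_lit 122)) (XT.lf (nat_lit 0) (nat_lit 658138864025) (nat_lit 152) (nat_lit 143877756831) (nat_lit 228) (nat_lit 225120416250) (nat_lit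 20) (nat_lit 5) (nat_lit 22) (nat_lit 5) (nat_lit 23) (nat_lit 5) (nat_lit 341) (nat_lit 318) (nat_lit 121))) (XT.nd (nat_lit 78) (nat_lit 76) (nat_lit 0) (XT.lf (nat_lit 0) (nat_lit 95260082188) (nat_lit 76) (nat_lit 924833789982) (nat_lit 152) (nat_lit 64195573892) (nat_lit 19) (nat_lit 5) (nat_lit 20) (nat_lit 5) (nat_lit 21) (nat_lit 4) (nat_lit 342) (nat_lit 318) (nat_lit 120)) (XT.lf (nat_lit 0) (nat_lit 118208646998) (nat_lit 152) (nat_lit 534197790305) (nat_lit 76) (nat_lit 492269678388) (nat_lit 18) (nat_lit 5) (nat_lit 20) (nat_lit 5) (nat_lit 19) (nat_lit 5) (nat_lit 343) (nat_lit 318) (nat_lit 119))))) (XT.nd (nat_lit 234) (nat_lit 304) (nat_lit 0) (XT.nd (nat_lit 78) (nat_lit 152) (nat_lit 0) (XT.lf (nat_lit 0) (nat_lit 311736965784) (nat_lit 152) (nat_lit 44647126400) (nat_lit 76) (nat_lit 853376234238) (nat_lit 18) (nat_lit 5) (nat_lit 20) (nat_lit 5) (nat_lit 19) (nat_lit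 5) (nat_lit 344) (nat_lit 318) (nat_lit 118)) (XT.nd (nat_lit 78) (nat_lit 0) (nat_lit 0) (XT.lf (nat_lit 0) (nat_lit 509557714509) (nat_lit 152) (nat_lit 23444700328) (nat_lit 228) (nat_lit 746068470014) (nat_lit 16) (nat_lit 5) (nat_lit 18) (nat_lit 5) (nat_lit 19) (nat_lit 5) (nat_lit 345) (nat_lit 318) (nat_lit 117)) (XT.lf (nat_lit 0) (nat_lit 781305459205) (nat_lit 228) (nat_lit 251306220186) (nat_lit 76) (nat_lit 320567699831) (nat_lit 16) (nat_lit 5) (nat_lit 19) (nat_lit 5) (nat_lit 17) (nat_lit 4) (nat_lit 346) (nat_lit 318) (nat_lit 116)))) (XT.nd (nat_lit 156) (nat_lit 228) (nat_lit 0) (XT.nd (nat_lit 78) (nat_lit 0) (nat_lit 0) (XT.lf (nat_lit 0) (nat_lit 323953798013) (nat_lit 76) (nat_lit 733918989473) (nat_lit 152) (nat_lit 374671762445) (nat_lit 15) (nat_lit 5) (nat_lit 16) (nat_lit 5) (nat_lit 17) (nat_lit 4) (nat_lit 347) (nat_lit 318) (nat_lit 115)) (XT.lf (nat_lit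 0) (nat_lit 959526609773) (nat_lit 76) (nat_lit 403910040483) (nat_lit 152) (nat_lit 154272592198) (nat_lit 15) (nat_lit 5) (nat_lit 16) (nat_lit 5) (nat_lit 17) (nat_lit 4) (nat_lit 348) (nat_lit 318) (nat_lit 114))) (XT.nd (nat_lit 78) (nat_lit 0) (nat_lit 0) (XT.lf (nat_lit 0) (nat_lit 36046941209) (nat_lit 152) (nat_lit 44388551542) (nat_lit 228) (nat_lit 1529021112420) (nat_lit 12) (nat_lit 5) (nat_lit 14) (nat_lit 5) (nat_lit 15) (nat_lit 5) (nat_lit 349) (nat_lit 318) (nat_lit 113)) (XT.lf (nat_lit 0) (nat_lit 349514273836) (nat_lit 228) (nat_lit 1010437776552) (nat_lit 76) (nat_lit 346356837994) (nat_lit 12) (nat_lit 5) (nat_lit 15) (nat_lit 5) (nat_lit 13) (nat_lit 4) (nat_lit 350) (nat_lit 318) (nat_lit 112)))))) (XT.nd (nat_lit 38454) (nat_lit 0) (nat_lit 1824) (XT.nd (nat_lit 38142) (nat_lit 0) (nat_lit 2356) (XT.nd (nat_lit 78) (nat_lit 76) (nat_lit 0) (XT.lf (nat_lit 0)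 (nat_lit 641272298856) (nat_lit 228) (nat_lit 403581101270) (nat_lit 76) (nat_lit 765963718818) (nat_lit 12) (nat_lit 5) (nat_lit 15) (nat_lit 5) (nat_lit 13) (nat_lit 4) (nat_lit 351) (nat_lit 318) (nat_lit 111)) (XT.nd (nat_lit 78) (nat_lit 0) (nat_lit 0) (XT.lf (nat_lit 0) (nat_lit 265084705907) (nat_lit 76) (nat_lit 697661546168) (nat_lit 152) (nat_lit 960429732993) (nat_lit 11) (nat_lit 5) (nat_lit 12) (nat_lit 5) (nat_lit 13) (nat_lit 4) (nat_lit 352) (nat_lit 318) (nat_lit 110)) (XT.lf (nat_lit 0) (nat_lit 1010195780101) (nat_lit 76) (nat_lit 310776956861) (nat_lit 152) (nat_lit 722668054298) (nat_lit 11) (nat_lit 5) (nat_lit 12) (nat_lit 5) (nat_lit 13) (nat_lit 4) (nat_lit 353) (nat_lit 318) (nat_lit 109)))) (XT.nd (nat_lit 156) (nat_lit 0) (nat_lit 76) (XT.nd (nat_lit 78) (nat_lit 0) (nat_lit 0) (XT.lf (nat_lit 0) (nat_lit 103641735439) (nat_lit 532) (nat_lit 44064676149)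 (nat_lit 532) (nat_lit 44064676149) (nat_lit 42) (nat_lit 3) (nat_lit 49) (nat_lit 3) (nat_lit 49) (nat_lit 5) (nat_lit 319) (nat_lit 319) (nat_lit 142)) (XT.lf (nat_lit 76) (nat_lit 87740360074) (nat_lit 0) (nat_lit 129945010633) (nat_lit 532) (nat_lit 181029645393) (nat_lit 43) (nat_lit 5) (nat_lit 42) (nat_lit 3) (nat_lit 49) (nat_lit 5) (nat_lit 320) (nat_lit 319) (nat_lit 141))) (XT.nd (nat_lit 78) (nat_lit 0) (nat_lit 0) (XT.lf (nat_lit 0) (nat_lit 232564266699) (nat_lit 456) (nat_lit 133452570003) (nat_lit 532) (nat_lit 48793259886) (nat_lit 43) (nat_lit 5) (nat_lit 49) (nat_lit 5) (nat_lit 50) (nat_lit 5) (nat_lit 321) (nat_lit 319) (nat_lit 140)) (XT.lf (nat_lit 76) (nat_lit 57786792334) (nat_lit 0) (nat_lit 195611613396) (nat_lit 532) (nat_lit 178413183420) (nat_lit 44) (nat_lit 5) (nat_lit 43) (nat_lit 5) (nat_lit 50) (nat_lit 5) (nat_lit 322) (nat_lit 319) (nat_lit 139)))))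 (XT.nd (nat_lit 312) (nat_lit 304) (nat_lit 0) (XT.nd (nat_lit 156) (nat_lit 304) (nat_lit 0) (XT.nd (nat_lit 78) (nat_lit 0) (nat_lit 76) (XT.lf (nat_lit 76) (nat_lit 271914845320) (nat_lit 0) (nat_lit 7633225050) (nat_lit 532) (nat_lit 170333227316) (nat_lit 44) (nat_lit 5) (nat_lit 43) (nat_lit 5) (nat_lit 50) (nat_lit 5) (nat_lit 323) (nat_lit 319) (nat_lit 138)) (XT.lf (nat_lit 76) (nat_lit 30608730582) (nat_lit 0) (nat_lit 282616062184) (nat_lit 532) (nat_lit 155736983493) (nat_lit 45) (nat_lit 5) (nat_lit 44) (nat_lit 5) (nat_lit 51) (nat_lit 5) (nat_lit 324) (nat_lit 319) (nat_lit 137))) (XT.nd (nat_lit 78) (nat_lit 380) (nat_lit 0) (XT.lf (nat_lit 76) (nat_lit 265782307322) (nat_lit 0) (nat_lit 88872479416) (nat_lit 532) (nat_lit 134509175789) (nat_lit 45) (nat_lit 5) (nat_lit 44) (nat_lit 5) (nat_lit 51) (nat_lit 5) (nat_lit 325) (nat_lit 319) (nat_lit 136)) (XT.lf (nat_lit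 0) (nat_lit 6202794364) (nat_lit 456) (nat_lit 396240450587) (nat_lit 532) (nat_lit 108295553672) (nat_lit 39) (nat_lit 5) (nat_lit 45) (nat_lit 5) (nat_lit 46) (nat_lit 5) (nat_lit 326) (nat_lit 319) (nat_lit 135)))) (XT.nd (nat_lit 156) (nat_lit 304) (nat_lit 0) (XT.nd (nat_lit 78) (nat_lit 0) (nat_lit 0) (XT.lf (nat_lit 0) (nat_lit 264427956679) (nat_lit 456) (nat_lit 197984382929) (nat_lit 532) (nat_lit 70958677311) (nat_lit 39) (nat_lit 5) (nat_lit 45) (nat_lit 5) (nat_lit 46) (nat_lit 5) (nat_lit 327) (nat_lit 319) (nat_lit 134)) (XT.lf (nat_lit 0) (nat_lit 527566916218) (nat_lit 532) (nat_lit 14890684858) (nat_lit 76) (nat_lit 15325175339) (nat_lit 39) (nat_lit 5) (nat_lit 46) (nat_lit 5) (nat_lit 40) (nat_lit 5) (nat_lit 328) (nat_lit 319) (nat_lit 133))) (XT.nd (nat_lit 78) (nat_lit 0) (nat_lit 0) (XT.lf (nat_lit 0) (nat_lit 24979051967) (nat_lit 304) (nat_lit 316116658798)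 (nat_lit 76) (nat_lit 242074655329) (nat_lit 35) (nat_lit 5) (nat_lit 39) (nat_lit 5) (nat_lit 36) (nat_lit 5) (nat_lit 329) (nat_lit 319) (nat_lit 132)) (XT.lf (nat_lit 0) (nat_lit 83374806190) (nat_lit 304) (nat_lit 38951321087) (nat_lit 76) (nat_lit 488166634308) (nat_lit 35) (nat_lit 5) (nat_lit 39) (nat_lit 5) (nat_lit 36) (nat_lit 5) (nat_lit 330) (nat_lit 319) (nat_lit 131))))))) (XT.nd (nat_lit 1170) (nat_lit 456) (nat_lit 0) (XT.nd (nat_lit 546) (nat_lit 456) (nat_lit 0) (XT.nd (nat_lit 234) (nat_lit 380) (nat_lit 0) (XT.nd (nat_lit 78) (nat_lit 228) (nat_lit 0) (XT.lf (nat_lit 0) (nat_lit 155945885013) (nat_lit 304) (nat_lit 368286436146) (nat_lit 76) (nat_lit 115008334479) (nat_lit 32) (nat_lit 5) (nat_lit 36) (nat_lit 5) (nat_lit 33) (nat_lit 5) (nat_lit 331) (nat_lit 319) (nat_lit 130)) (XT.nd (nat_lit 78) (nat_lit 228) (nat_lit 0) (XT.lf (nat_lit 0) (nat_lit 238592592856)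 (nat_lit 304) (nat_lit 65540769340) (nat_lit 76) (nat_lit 365813423664) (nat_lit 32) (nat_lit 5) (nat_lit 36) (nat_lit 5) (nat_lit 33) (nat_lit 5) (nat_lit 332) (nat_lit 319) (nat_lit 129)) (XT.lf (nat_lit 0) (nat_lit 275190681814) (nat_lit 228) (nat_lit 59278679758) (nat_lit 304) (nat_lit 368110579042) (nat_lit 29) (nat_lit 5) (nat_lit 32) (nat_lit 5) (nat_lit 33) (nat_lit 5) (nat_lit 333) (nat_lit 319) (nat_lit 128)))) (XT.nd (nat_lit 156) (nat_lit 228) (nat_lit 0) (XT.nd (nat_lit 78) (nat_lit 152) (nat_lit 0) (XT.lf (nat_lit 0) (nat_lit 444789008751) (nat_lit 304) (nat_lit 95753152929) (nat_lit 76) (nat_lit 196739767165) (nat_lit 29) (nat_lit 5) (nat_lit 33) (nat_lit 5) (nat_lit 30) (nat_lit 5) (nat_lit 334) (nat_lit 319) (nat_lit 127)) (XT.lf (nat_lit 0) (nat_lit 274611283425) (nat_lit 152) (nat_lit 297467042012) (nat_lit 228) (nat_lit 202030222925) (nat_lit 27) (nat_lit 5) (nat_lit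 29) (nat_lit 5) (nat_lit 30) (nat_lit 5) (nat_lit 335) (nat_lit 319) (nat_lit 126))) (XT.nd (nat_lit 78) (nat_lit 228) (nat_lit 0) (XT.lf (nat_lit 0) (nat_lit 680050421262) (nat_lit 152) (nat_lit 32118411600) (nat_lit 228) (nat_lit 101503020992) (nat_lit 27) (nat_lit 5) (nat_lit 29) (nat_lit 5) (nat_lit 30) (nat_lit 5) (nat_lit 336) (nat_lit 319) (nat_lit 125)) (XT.lf (nat_lit 0) (nat_lit 19625420856) (nat_lit 228) (nat_lit 587036334683) (nat_lit 76) (nat_lit 248691868473) (nat_lit 24) (nat_lit 5) (nat_lit 27) (nat_lit 5) (nat_lit 25) (nat_lit 5) (nat_lit 337) (nat_lit 319) (nat_lit 124))))) (XT.nd (nat_lit 312) (nat_lit 152) (nat_lit 0) (XT.nd (nat_lit 156) (nat_lit 152) (nat_lit 0) (XT.nd (nat_lit 78) (nat_lit 152) (nat_lit 0) (XT.lf (nat_lit 0) (nat_lit 149542910191) (nat_lit 228) (nat_lit 193632983011) (nat_lit 76) (nat_lit 556616521512) (nat_lit 24) (nat_lit 5) (nat_lit 27) (nat_lit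 5) (nat_lit 25) (nat_lit 5) (nat_lit 338) (nat_lit 319) (nat_lit 123)) (XT.lf (nat_lit 0) (nat_lit 243419444793) (nat_lit 152) (nat_lit 52288584206) (nat_lit 228) (nat_lit 651609941279) (nat_lit 22) (nat_lit 5) (nat_lit 24) (nat_lit 5) (nat_lit 25) (nat_lit 5) (nat_lit 339) (nat_lit 319) (nat_lit 122))) (XT.nd (nat_lit 78) (nat_lit 152) (nat_lit 0) (XT.lf (nat_lit 0) (nat_lit 465296099743) (nat_lit 228) (nat_lit 278209387852) (nat_lit 76) (nat_lit 254201703328) (nat_lit 22) (nat_lit 5) (nat_lit 25) (nat_lit 5) (nat_lit 23) (nat_lit 5) (nat_lit 340) (nat_lit 319) (nat_lit 121)) (XT.lf (nat_lit 0) (nat_lit 189664504903) (nat_lit 152) (nat_lit 464706280375) (nat_lit 228) (nat_lit 397283198439) (nat_lit 20) (nat_lit 5) (nat_lit 22) (nat_lit 5) (nat_lit 23) (nat_lit 5) (nat_lit 341) (nat_lit 319) (nat_lit 120)))) (XT.nd (nat_lit 156) (nat_lit 76) (nat_lit 0) (XT.nd (nat_lit 78) (nat_lit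 76) (nat_lit 0) (XT.lf (nat_lit 0) (nat_lit 710790306400) (nat_lit 152) (nat_lit 155387865597) (nat_lit 228) (nat_lit 243129809855) (nat_lit 20) (nat_lit 5) (nat_lit 22) (nat_lit 5) (nat_lit 23) (nat_lit 5) (nat_lit 342) (nat_lit 319) (nat_lit 119)) (XT.lf (nat_lit 0) (nat_lit 102881228719) (nat_lit 76) (nat_lit 998820368956) (nat_lit 152) (nat_lit 69330986346) (nat_lit 19) (nat_lit 5) (nat_lit 20) (nat_lit 5) (nat_lit 21) (nat_lit 4) (nat_lit 343) (nat_lit 319) (nat_lit 118))) (XT.nd (nat_lit 78) (nat_lit 0) (nat_lit 0) (XT.lf (nat_lit 0) (nat_lit 127665544109) (nat_lit 152) (nat_lit 576933287541) (nat_lit 76) (nat_lit 531651356468) (nat_lit 18) (nat_lit 5) (nat_lit 20) (nat_lit 5) (nat_lit 19) (nat_lit 5) (nat_lit 344) (nat_lit 319) (nat_lit 117)) (XT.lf (nat_lit 0) (nat_lit 336676113187) (nat_lit 152) (nat_lit 48218594671) (nat_lit 76) (nat_lit 921646429096) (nat_lit 18) (nat_lit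 5) (nat_lit 20) (nat_lit 5) (nat_lit 19) (nat_lit 5) (nat_lit 345) (nat_lit 319) (nat_lit 116)))))) (XT.nd (nat_lit 38610) (nat_lit 0) (nat_lit 2052) (XT.nd (nat_lit 234) (nat_lit 228) (nat_lit 0) (XT.nd (nat_lit 78) (nat_lit 76) (nat_lit 0) (XT.lf (nat_lit 0) (nat_lit 550322625869) (nat_lit 152) (nat_lit 25320165286) (nat_lit 228) (nat_lit 805753749490) (nat_lit 16) (nat_lit 5) (nat_lit 18) (nat_lit 5) (nat_lit 19) (nat_lit 5) (nat_lit 346) (nat_lit 319) (nat_lit 115)) (XT.nd (nat_lit 78) (nat_lit 76) (nat_lit 0) (XT.lf (nat_lit 0) (nat_lit 843810067980) (nat_lit 228) (nat_lit 271410433984) (nat_lit 76) (nat_lit 346213213514) (nat_lit 16) (nat_lit 5) (nat_lit 19) (nat_lit 5) (nat_lit 17) (nat_lit 4) (nat_lit 347) (nat_lit 319) (nat_lit 114)) (XT.lf (nat_lit 0) (nat_lit 349870378485) (nat_lit 76) (nat_lit 792632397948) (nat_lit 152) (nat_lit 404645323921) (nat_lit 15) (nat_lit 5) (nat_lit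 16) (nat_lit 5) (nat_lit 17) (nat_lit 4) (nat_lit 348) (nat_lit 319) (nat_lit 113)))) (XT.nd (nat_lit 156) (nat_lit 0) (nat_lit 0) (XT.nd (nat_lit 78) (nat_lit 228) (nat_lit 0) (XT.lf (nat_lit 0) (nat_lit 1036288994695) (nat_lit 76) (nat_lit 436222741238) (nat_lit 152) (nat_lit 166614233353) (nat_lit 15) (nat_lit 5) (nat_lit 16) (nat_lit 5) (nat_lit 17) (nat_lit 4) (nat_lit 349) (nat_lit 319) (nat_lit 112)) (XT.lf (nat_lit 0) (nat_lit 38930954512) (nat_lit 152) (nat_lit 47939530073) (nat_lit 228) (nat_lit 1651342636573) (nat_lit 12) (nat_lit 5) (nat_lit 14) (nat_lit 5) (nat_lit 15) (nat_lit 5) (nat_lit 350) (nat_lit 319) (nat_lit 111))) (XT.nd (nat_lit 78) (nat_lit 0) (nat_lit 0) (XT.lf (nat_lit 0) (nat_lit 377475559219) (nat_lit 228) (nat_lit 1091272550626) (nat_lit 76) (nat_lit 374065477912) (nat_lit 12) (nat_lit 5) (nat_lit 15) (nat_lit 5) (nat_lit 13) (nat_lit 4) (nat_lit 351) (nat_lit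 319) (nat_lit 110)) (XT.lf (nat_lit 0) (nat_lit 692574215613) (nat_lit 228) (nat_lit 435867359697) (nat_lit 76) (nat_lit 827240902323) (nat_lit 12) (nat_lit 5) (nat_lit 15) (nat_lit 5) (nat_lit 13) (nat_lit 4) (nat_lit 352) (nat_lit 319) (nat_lit 109))))) (XT.nd (nat_lit 312) (nat_lit 228) (nat_lit 0) (XT.nd (nat_lit 156) (nat_lit 0) (nat_lit 76) (XT.nd (nat_lit 78) (nat_lit 0) (nat_lit 0) (XT.lf (nat_lit 0) (nat_lit 111933467800) (nat_lit 532) (nat_lit 47589636997) (nat_lit 532) (nat_lit 47589636997) (nat_lit 42) (nat_lit 3) (nat_lit 49) (nat_lit 3) (nat_lit 49) (nat_lit 5) (nat_lit 320) (nat_lit 320) (nat_lit 140)) (XT.lf (nat_lit 76) (nat_lit 94760004571) (nat_lit 0) (nat_lit 140340934541) (nat_lit 532) (nat_lit 195511216433) (nat_lit 43) (nat_lit 5) (nat_lit 42) (nat_lit 3) (nat_lit 49) (nat_lit 5) (nat_lit 321) (nat_lit 320) (nat_lit 139))) (XT.nd (nat_lit 78) (nat_lit 0) (nat_lit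 0) (XT.lf (nat_lit 0) (nat_lit 251170084868) (nat_lit 456) (nat_lit 144128326248) (nat_lit 532) (nat_lit 52696436513) (nat_lit 43) (nat_lit 5) (nat_lit 49) (nat_lit 5) (nat_lit 50) (nat_lit 5) (nat_lit 322) (nat_lit 320) (nat_lit 138)) (XT.lf (nat_lit 76) (nat_lit 62410173700) (nat_lit 0) (nat_lit 211260741719) (nat_lit 532) (nat_lit 192685547533) (nat_lit 44) (nat_lit 5) (nat_lit 43) (nat_lit 5) (nat_lit 50) (nat_lit 5) (nat_lit 323) (nat_lit 320) (nat_lit 137)))) (XT.nd (nat_lit 156) (nat_lit 304) (nat_lit 0) (XT.nd (nat_lit 78) (nat_lit 0) (nat_lit 76) (XT.lf (nat_lit 76) (nat_lit 293668438482) (nat_lit 0) (nat_lit 8244067547) (nat_lit 532) (nat_lit 183959246094) (nat_lit 44) (nat_lit 5) (nat_lit 43) (nat_lit 5) (nat_lit 50) (nat_lit 5) (nat_lit 324) (nat_lit 320) (nat_lit 136)) (XT.lf (nat_lit 76) (nat_lit 33057876752) (nat_lit 0) (nat_lit 305225452418) (nat_lit 532) (nat_lit 168195342936)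 (nat_lit 45) (nat_lit 5) (nat_lit 44) (nat_lit 5) (nat_lit 51) (nat_lit 5) (nat_lit 325) (nat_lit 320) (nat_lit 135))) (XT.nd (nat_lit 78) (nat_lit 380) (nat_lit 0) (XT.lf (nat_lit 76) (nat_lit 287045306467) (nat_lit 0) (nat_lit 95982375232) (nat_lit 532) (nat_lit 145269355004) (nat_lit 45) (nat_lit 5) (nat_lit 44) (nat_lit 5) (nat_lit 51) (nat_lit 5) (nat_lit 326) (nat_lit 320) (nat_lit 134)) (XT.lf (nat_lit 0) (nat_lit 6699466005) (nat_lit 456) (nat_lit 427939721241) (nat_lit 532) (nat_lit 116958674922) (nat_lit 39) (nat_lit 5) (nat_lit 45) (nat_lit 5) (nat_lit 46) (nat_lit 5) (nat_lit 327) (nat_lit 320) (nat_lit 133))))))))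
noncomputable def xc123 : XT := (XT.nd (nat_lit 40404) (nat_lit 0) (nat_lit 228) (XT.nd (nat_lit 1092) (nat_lit 760) (nat_lit 0) (XT.nd (nat_lit 546) (nat_lit 532) (nat_lit 0) (XT.nd (nat_lit 234) (nat_lit 456) (nat_lit 0) (XT.nd (nat_lit 78) (nat_lit 304) (nat_lit 0) (XT.lf (nat_lit 0) (nat_lit 285582608113) (nat_lit 456) (nat_lit 213823165607) (nat_lit 532) (nat_lit 76634887196) (nat_lit 39) (nat_lit 5) (nat_lit 45) (nat_lit 5) (nat_lit 46) (nat_lit 5) (nat_lit 328) (nat_lit 320) (nat_lit 132)) (XT.nd (nat_lit 78) (nat_lit 304) (nat_lit 0) (XT.lf (nat_lit 0) (nat_lit 569772682638) (nat_lit 532) (nat_lit 16081520179) (nat_lit 76) (nat_lit 16551161181) (nat_lit 39) (nat_lit 5) (nat_lit 46) (nat_lit 5) (nat_lit 40) (nat_lit 5) (nat_lit 329) (nat_lit 320) (nat_lit 131)) (XT.lf (nat_lit 0) (nat_lit 26977779973) (nat_lit 304) (nat_lit 341405560117) (nat_lit 76) (nat_lit 261440621714) (nat_lit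 35) (nat_lit 5) (nat_lit 39) (nat_lit 5) (nat_lit 36) (nat_lit 5) (nat_lit 330) (nat_lit 320) (nat_lit 130)))) (XT.nd (nat_lit 156) (nat_lit 228) (nat_lit 0) (XT.nd (nat_lit 78) (nat_lit 228) (nat_lit 0) (XT.lf (nat_lit 0) (nat_lit 90045164619) (nat_lit 304) (nat_lit 42067027343) (nat_lit 76) (nat_lit 527219959459) (nat_lit 35) (nat_lit 5) (nat_lit 39) (nat_lit 5) (nat_lit 36) (nat_lit 5) (nat_lit 331) (nat_lit 320) (nat_lit 129)) (XT.lf (nat_lit 0) (nat_lit 168421912224) (nat_lit 304) (nat_lit 397748932993) (nat_lit 76) (nat_lit 124209033271) (nat_lit 32) (nat_lit 5) (nat_lit 36) (nat_lit 5) (nat_lit 33) (nat_lit 5) (nat_lit 332) (nat_lit 320) (nat_lit 128))) (XT.nd (nat_lit 78) (nat_lit 228) (nat_lit 0) (XT.lf (nat_lit 0) (nat_lit 257680330293) (nat_lit 304) (nat_lit 70783643809) (nat_lit 76) (nat_lit 395078527217) (nat_lit 32) (nat_lit 5) (nat_lit 36) (nat_lit 5) (nat_lit 33) (nat_lit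 5) (nat_lit 333) (nat_lit 320) (nat_lit 127)) (XT.lf (nat_lit 0) (nat_lit 297206313638) (nat_lit 228) (nat_lit 64020911497) (nat_lit 304) (nat_lit 397559084624) (nat_lit 29) (nat_lit 5) (nat_lit 32) (nat_lit 5) (nat_lit 33) (nat_lit 5) (nat_lit 334) (nat_lit 320) (nat_lit 126))))) (XT.nd (nat_lit 234) (nat_lit 380) (nat_lit 0) (XT.nd (nat_lit 78) (nat_lit 152) (nat_lit 0) (XT.lf (nat_lit 0) (nat_lit 480372422177) (nat_lit 304) (nat_lit 103413033055) (nat_lit 76) (nat_lit 212479003639) (nat_lit 29) (nat_lit 5) (nat_lit 33) (nat_lit 5) (nat_lit 30) (nat_lit 5) (nat_lit 335) (nat_lit 320) (nat_lit 125)) (XT.nd (nat_lit 78) (nat_lit 0) (nat_lit 0) (XT.lf (nat_lit 0) (nat_lit 296580548787) (nat_lit 152) (nat_lit 321264322450) (nat_lit 228) (nat_lit 218192337813) (nat_lit 27) (nat_lit 5) (nat_lit 29) (nat_lit 5) (nat_lit 30) (nat_lit 5) (nat_lit 336) (nat_lit 320) (nat_lit 124)) (XT.lf (nat_lit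 0) (nat_lit 734454790785) (nat_lit 152) (nat_lit 34687807747) (nat_lit 228) (nat_lit 109622982165) (nat_lit 27) (nat_lit 5) (nat_lit 29) (nat_lit 5) (nat_lit 30) (nat_lit 5) (nat_lit 337) (nat_lit 320) (nat_lit 123)))) (XT.nd (nat_lit 156) (nat_lit 152) (nat_lit 0) (XT.nd (nat_lit 78) (nat_lit 0) (nat_lit 0) (XT.lf (nat_lit 0) (nat_lit 21195711562) (nat_lit 228) (nat_lit 633998880846) (nat_lit 76) (nat_lit 268587300327) (nat_lit 24) (nat_lit 5) (nat_lit 27) (nat_lit 5) (nat_lit 25) (nat_lit 5) (nat_lit 338) (nat_lit 320) (nat_lit 122)) (XT.lf (nat_lit 0) (nat_lit 161506581004) (nat_lit 228) (nat_lit 209123287752) (nat_lit 76) (nat_lit 601145919507) (nat_lit 24) (nat_lit 5) (nat_lit 27) (nat_lit 5) (nat_lit 25) (nat_lit 5) (nat_lit 339) (nat_lit 320) (nat_lit 121))) (XT.nd (nat_lit 78) (nat_lit 0) (nat_lit 0) (XT.lf (nat_lit 0) (nat_lit 262893325824) (nat_lit 152) (nat_lit 56471573691)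 (nat_lit 228) (nat_lit 703738489586) (nat_lit 22) (nat_lit 5) (nat_lit 24) (nat_lit 5) (nat_lit 25) (nat_lit 5) (nat_lit 340) (nat_lit 320) (nat_lit 120)) (XT.lf (nat_lit 0) (nat_lit 502520001180) (nat_lit 228) (nat_lit 300465822298) (nat_lit 76) (nat_lit 274537925138) (nat_lit 22) (nat_lit 5) (nat_lit 25) (nat_lit 5) (nat_lit 23) (nat_lit 5) (nat_lit 341) (nat_lit 320) (nat_lit 119)))))) (XT.nd (nat_lit 546) (nat_lit 304) (nat_lit 0) (XT.nd (nat_lit 234) (nat_lit 228) (nat_lit 0) (XT.nd (nat_lit 78) (nat_lit 76) (nat_lit 0) (XT.lf (nat_lit 0) (nat_lit 204837973862) (nat_lit 152) (nat_lit 501882679305) (nat_lit 228) (nat_lit 429065632375) (nat_lit 20) (nat_lit 5) (nat_lit 22) (nat_lit 5) (nat_lit 23) (nat_lit 5) (nat_lit 342) (nat_lit 320) (nat_lit 118)) (XT.nd (nat_lit 78) (nat_lit 76) (nat_lit 0) (XT.lf (nat_lit 0) (nat_lit 767653816622) (nat_lit 152) (nat_lit 167818799012) (nat_lit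 228) (nat_lit 262579989144) (nat_lit 20) (nat_lit 5) (nat_lit 22) (nat_lit 5) (nat_lit 23) (nat_lit 5) (nat_lit 343) (nat_lit 320) (nat_lit 117)) (XT.lf (nat_lit 0) (nat_lit 111112018474) (nat_lit 76) (nat_lit 1078725891970) (nat_lit 152) (nat_lit 74877265101) (nat_lit 19) (nat_lit 5) (nat_lit 20) (nat_lit 5) (nat_lit 21) (nat_lit 4) (nat_lit 344) (nat_lit 320) (nat_lit 116)))) (XT.nd (nat_lit 156) (nat_lit 152) (nat_lit 0) (XT.nd (nat_lit 78) (nat_lit 0) (nat_lit 0) (XT.lf (nat_lit 0) (nat_lit 137878963693) (nat_lit 152) (nat_lit 623087671062) (nat_lit 76) (nat_lit 574183553984) (nat_lit 18) (nat_lit 5) (nat_lit 20) (nat_lit 5) (nat_lit 19) (nat_lit 5) (nat_lit 345) (nat_lit 320) (nat_lit 115)) (XT.lf (nat_lit 0) (nat_lit 363610365257) (nat_lit 152) (nat_lit 52075823465) (nat_lit 76) (nat_lit 995378225830) (nat_lit 18) (nat_lit 5) (nat_lit 20) (nat_lit 5) (nat_lit 19) (nat_lit 5) (nat_lit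 346) (nat_lit 320) (nat_lit 114))) (XT.nd (nat_lit 78) (nat_lit 0) (nat_lit 0) (XT.lf (nat_lit 0) (nat_lit 594348688167) (nat_lit 152) (nat_lit 27345683286) (nat_lit 228) (nat_lit 870213879589) (nat_lit 16) (nat_lit 5) (nat_lit 18) (nat_lit 5) (nat_lit 19) (nat_lit 5) (nat_lit 347) (nat_lit 320) (nat_lit 113)) (XT.lf (nat_lit 0) (nat_lit 911315020914) (nat_lit 228) (nat_lit 293123025376) (nat_lit 76) (nat_lit 373910354354) (nat_lit 16) (nat_lit 5) (nat_lit 19) (nat_lit 5) (nat_lit 17) (nat_lit 4) (nat_lit 348) (nat_lit 320) (nat_lit 112))))) (XT.nd (nat_lit 38454) (nat_lit 0) (nat_lit 2280) (XT.nd (nat_lit 156) (nat_lit 228) (nat_lit 0) (XT.nd (nat_lit 78) (nat_lit 0) (nat_lit 0) (XT.lf (nat_lit 0) (nat_lit 377860245931) (nat_lit 76) (nat_lit 856042894891) (nat_lit 152) (nat_lit 437016795927) (nat_lit 15) (nat_lit 5) (nat_lit 16) (nat_lit 5) (nat_lit 17) (nat_lit 4) (nat_lit 349) (nat_lit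 320) (nat_lit 111)) (XT.lf (nat_lit 0) (nat_lit 1119192333870) (nat_lit 76) (nat_lit 471120472673) (nat_lit 152) (nat_lit 179943229513) (nat_lit 15) (nat_lit 5) (nat_lit 16) (nat_lit 5) (nat_lit 17) (nat_lit 4) (nat_lit 350) (nat_lit 320) (nat_lit 110))) (XT.nd (nat_lit 78) (nat_lit 0) (nat_lit 0) (XT.lf (nat_lit 0) (nat_lit 42045652072) (nat_lit 152) (nat_lit 51774601951) (nat_lit 228) (nat_lit 1783449906174) (nat_lit 12) (nat_lit 5) (nat_lit 14) (nat_lit 5) (nat_lit 15) (nat_lit 5) (nat_lit 351) (nat_lit 320) (nat_lit 109)) (XT.lf (nat_lit 0) (nat_lit 407673726964) (nat_lit 228) (nat_lit 1178574142014) (nat_lit 76) (nat_lit 403990795775) (nat_lit 12) (nat_lit 5) (nat_lit 15) (nat_lit 5) (nat_lit 13) (nat_lit 4) (nat_lit 352) (nat_lit 320) (nat_lit 108)))) (XT.nd (nat_lit 156) (nat_lit 0) (nat_lit 76) (XT.nd (nat_lit 78) (nat_lit 0) (nat_lit 0) (XT.lf (nat_lit 0) (nat_lit 120888482609)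 (nat_lit 532) (nat_lit 51396625134) (nat_lit 532) (nat_lit 51396625134) (nat_lit 42) (nat_lit 3) (nat_lit 49) (nat_lit 3) (nat_lit 49) (nat_lit 5) (nat_lit 321) (nat_lit 321) (nat_lit 138)) (XT.lf (nat_lit 76) (nat_lit 102341161326) (nat_lit 0) (nat_lit 151568486274) (nat_lit 532) (nat_lit 211151427369) (nat_lit 43) (nat_lit 5) (nat_lit 42) (nat_lit 3) (nat_lit 49) (nat_lit 5) (nat_lit 322) (nat_lit 321) (nat_lit 137))) (XT.nd (nat_lit 78) (nat_lit 0) (nat_lit 0) (XT.lf (nat_lit 0) (nat_lit 271264271933) (nat_lit 456) (nat_lit 155658207099) (nat_lit 532) (nat_lit 56911907810) (nat_lit 43) (nat_lit 5) (nat_lit 49) (nat_lit 5) (nat_lit 50) (nat_lit 5) (nat_lit 323) (nat_lit 321) (nat_lit 136)) (XT.lf (nat_lit 76) (nat_lit 67403363093) (nat_lit 0) (nat_lit 228161771883) (nat_lit 532) (nat_lit 208099799292) (nat_lit 44) (nat_lit 5) (nat_lit 43) (nat_lit 5) (nat_lit 50) (nat_lit 5) (nat_lit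 324) (nat_lit 321) (nat_lit 135))))))) (XT.nd (nat_lit 1170) (nat_lit 684) (nat_lit 0) (XT.nd (nat_lit 546) (nat_lit 836) (nat_lit 0) (XT.nd (nat_lit 234) (nat_lit 608) (nat_lit 0) (XT.nd (nat_lit 78) (nat_lit 0) (nat_lit 76) (XT.lf (nat_lit 76) (nat_lit 317162261242) (nat_lit 0) (nat_lit 8903751123) (nat_lit 532) (nat_lit 198675437593) (nat_lit 44) (nat_lit 5) (nat_lit 43) (nat_lit 5) (nat_lit 50) (nat_lit 5) (nat_lit 325) (nat_lit 321) (nat_lit 134)) (XT.nd (nat_lit 78) (nat_lit 0) (nat_lit 0) (XT.lf (nat_lit 76) (nat_lit 35702890743) (nat_lit 0) (nat_lit 329643578854) (nat_lit 532) (nat_lit 181650456623) (nat_lit 45) (nat_lit 5) (nat_lit 44) (nat_lit 5) (nat_lit 51) (nat_lit 5) (nat_lit 326) (nat_lit 321) (nat_lit 133)) (XT.lf (nat_lit 76) (nat_lit 310009286401) (nat_lit 0) (nat_lit 103661048808) (nat_lit 532) (nat_lit 156890427711) (nat_lit 45) (nat_lit 5) (nat_lit 44) (nat_lit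 5) (nat_lit 51) (nat_lit 5) (nat_lit 327) (nat_lit 321) (nat_lit 132)))) (XT.nd (nat_lit 156) (nat_lit 304) (nat_lit 0) (XT.nd (nat_lit 78) (nat_lit 0) (nat_lit 0) (XT.lf (nat_lit 0) (nat_lit 7235807452) (nat_lit 456) (nat_lit 462174928611) (nat_lit 532) (nat_lit 126314920491) (nat_lit 39) (nat_lit 5) (nat_lit 45) (nat_lit 5) (nat_lit 46) (nat_lit 5) (nat_lit 328) (nat_lit 321) (nat_lit 131)) (XT.lf (nat_lit 0) (nat_lit 308429572471) (nat_lit 456) (nat_lit 230929046328) (nat_lit 532) (nat_lit 82765262964) (nat_lit 39) (nat_lit 5) (nat_lit 45) (nat_lit 5) (nat_lit 46) (nat_lit 5) (nat_lit 329) (nat_lit 321) (nat_lit 130))) (XT.nd (nat_lit 78) (nat_lit 304) (nat_lit 0) (XT.lf (nat_lit 0) (nat_lit 615354851436) (nat_lit 532) (nat_lit 17367682166) (nat_lit 76) (nat_lit 17875229910) (nat_lit 39) (nat_lit 5) (nat_lit 46) (nat_lit 5) (nat_lit 40) (nat_lit 5) (nat_lit 330) (nat_lit 321) (nat_lit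 129)) (XT.lf (nat_lit 0) (nat_lit 29136348605) (nat_lit 304) (nat_lit 368717635083) (nat_lit 76) (nat_lit 282355866272) (nat_lit 35) (nat_lit 5) (nat_lit 39) (nat_lit 5) (nat_lit 36) (nat_lit 5) (nat_lit 331) (nat_lit 321) (nat_lit 128))))) (XT.nd (nat_lit 312) (nat_lit 380) (nat_lit 0) (XT.nd (nat_lit 156) (nat_lit 228) (nat_lit 0) (XT.nd (nat_lit 78) (nat_lit 228) (nat_lit 0) (XT.lf (nat_lit 0) (nat_lit 97249098377) (nat_lit 304) (nat_lit 45432047083) (nat_lit 76) (nat_lit 569397551419) (nat_lit 35) (nat_lit 5) (nat_lit 39) (nat_lit 5) (nat_lit 36) (nat_lit 5) (nat_lit 332) (nat_lit 321) (nat_lit 127)) (XT.lf (nat_lit 0) (nat_lit 181895970765) (nat_lit 304) (nat_lit 429568489227) (nat_lit 76) (nat_lit 134145783396) (nat_lit 32) (nat_lit 5) (nat_lit 36) (nat_lit 5) (nat_lit 33) (nat_lit 5) (nat_lit 333) (nat_lit 321) (nat_lit 126))) (XT.nd (nat_lit 78) (nat_lit 228) (nat_lit 0) (XT.lf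 (nat_lit 0) (nat_lit 278295039645) (nat_lit 304) (nat_lit 76446003457) (nat_lit 76) (nat_lit 426684834824) (nat_lit 32) (nat_lit 5) (nat_lit 36) (nat_lit 5) (nat_lit 33) (nat_lit 5) (nat_lit 334) (nat_lit 321) (nat_lit 125)) (XT.lf (nat_lit 0) (nat_lit 320983142185) (nat_lit 228) (nat_lit 69142530711) (nat_lit 304) (nat_lit 429363519263) (nat_lit 29) (nat_lit 5) (nat_lit 32) (nat_lit 5) (nat_lit 33) (nat_lit 5) (nat_lit 335) (nat_lit 321) (nat_lit 124)))) (XT.nd (nat_lit 156) (nat_lit 228) (nat_lit 0) (XT.nd (nat_lit 78) (nat_lit 152) (nat_lit 0) (XT.lf (nat_lit 0) (nat_lit 518802466916) (nat_lit 304) (nat_lit 111685756676) (nat_lit 76) (nat_lit 229477371169) (nat_lit 29) (nat_lit 5) (nat_lit 33) (nat_lit 5) (nat_lit 30) (nat_lit 5) (nat_lit 336) (nat_lit 321) (nat_lit 123)) (XT.lf (nat_lit 0) (nat_lit 320307303636) (nat_lit 152) (nat_lit 346965397153) (nat_lit 228) (nat_lit 235647465110)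 (nat_lit 27) (nat_lit 5) (nat_lit 29) (nat_lit 5) (nat_lit 30) (nat_lit 5) (nat_lit 337) (nat_lit 321) (nat_lit 122))) (XT.nd (nat_lit 78) (nat_lit 228) (nat_lit 0) (XT.lf (nat_lit 0) (nat_lit 793211461961) (nat_lit 152) (nat_lit 37462766540) (nat_lit 228) (nat_lit 118392580250) (nat_lit 27) (nat_lit 5) (nat_lit 29) (nat_lit 5) (nat_lit 30) (nat_lit 5) (nat_lit 338) (nat_lit 321) (nat_lit 121)) (XT.lf (nat_lit 0) (nat_lit 22891588855) (nat_lit 228) (nat_lit 684718482147) (nat_lit 76) (nat_lit 290074354978) (nat_lit 24) (nat_lit 5) (nat_lit 27) (nat_lit 5) (nat_lit 25) (nat_lit 5) (nat_lit 339) (nat_lit 321) (nat_lit 120)))))) (XT.nd (nat_lit 546) (nat_lit 228) (nat_lit 0) (XT.nd (nat_lit 234) (nat_lit 304) (nat_lit 0) (XT.nd (nat_lit 78) (nat_lit 152) (nat_lit 0) (XT.lf (nat_lit 0) (nat_lit 174427311529) (nat_lit 228) (nat_lit 225852864507) (nat_lit 76) (nat_lit 649237658460) (nat_lit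 24) (nat_lit 5) (nat_lit 27) (nat_lit 5) (nat_lit 25) (nat_lit 5) (nat_lit 340) (nat_lit 321) (nat_lit 119)) (XT.nd (nat_lit 78) (nat_lit 0) (nat_lit 0) (XT.lf (nat_lit 0) (nat_lit 283925070908) (nat_lit 152) (nat_lit 60989216208) (nat_lit 228) (nat_lit 760037356994) (nat_lit 22) (nat_lit 5) (nat_lit 24) (nat_lit 5) (nat_lit 25) (nat_lit 5) (nat_lit 341) (nat_lit 321) (nat_lit 118)) (XT.lf (nat_lit 0) (nat_lit 542721784280) (nat_lit 228) (nat_lit 324502816664) (nat_lit 76) (nat_lit 296501032488) (nat_lit 22) (nat_lit 5) (nat_lit 25) (nat_lit 5) (nat_lit 23) (nat_lit 5) (nat_lit 342) (nat_lit 321) (nat_lit 117)))) (XT.nd (nat_lit 156) (nat_lit 152) (nat_lit 0) (XT.nd (nat_lit 78) (nat_lit 0) (nat_lit 0) (XT.lf (nat_lit 0) (nat_lit 221225276318) (nat_lit 152) (nat_lit 542033204914) (nat_lit 228) (nat_lit 463390692687) (nat_lit 20) (nat_lit 5) (nat_lit 22) (nat_lit 5) (nat_lit 23) (nat_lit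 5) (nat_lit 343) (nat_lit 321) (nat_lit 116)) (XT.lf (nat_lit 0) (nat_lit 829066366902) (nat_lit 152) (nat_lit 181244220771) (nat_lit 228) (nat_lit 283586212093) (nat_lit 20) (nat_lit 5) (nat_lit 22) (nat_lit 5) (nat_lit 23) (nat_lit 5) (nat_lit 344) (nat_lit 321) (nat_lit 115))) (XT.nd (nat_lit 78) (nat_lit 76) (nat_lit 0) (XT.lf (nat_lit 0) (nat_lit 120001229830) (nat_lit 76) (nat_lit 1165023872019) (nat_lit 152) (nat_lit 80867274711) (nat_lit 19) (nat_lit 5) (nat_lit 20) (nat_lit 5) (nat_lit 21) (nat_lit 4) (nat_lit 345) (nat_lit 321) (nat_lit 114)) (XT.lf (nat_lit 0) (nat_lit 148909431728) (nat_lit 152) (nat_lit 672934445136) (nat_lit 76) (nat_lit 620118314606) (nat_lit 18) (nat_lit 5) (nat_lit 20) (nat_lit 5) (nat_lit 19) (nat_lit 5) (nat_lit 346) (nat_lit 321) (nat_lit 113))))) (XT.nd (nat_lit 312) (nat_lit 0) (nat_lit 0) (XT.nd (nat_lit 156) (nat_lit 76) (nat_lit 0) (XT.nd (nat_lit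 78) (nat_lit 152) (nat_lit 0) (XT.lf (nat_lit 0) (nat_lit 392699334236) (nat_lit 152) (nat_lit 56241667480) (nat_lit 76) (nat_lit 1075008554547) (nat_lit 18) (nat_lit 5) (nat_lit 20) (nat_lit 5) (nat_lit 19) (nat_lit 5) (nat_lit 347) (nat_lit 321) (nat_lit 112)) (XT.lf (nat_lit 0) (nat_lit 641896799466) (nat_lit 152) (nat_lit 29533256310) (nat_lit 228) (nat_lit 939830844329) (nat_lit 16) (nat_lit 5) (nat_lit 18) (nat_lit 5) (nat_lit 19) (nat_lit 5) (nat_lit 348) (nat_lit 321) (nat_lit 111))) (XT.nd (nat_lit 78) (nat_lit 76) (nat_lit 0) (XT.lf (nat_lit 0) (nat_lit 984220349042) (nat_lit 228) (nat_lit 316572658792) (nat_lit 76) (nat_lit 403823254512) (nat_lit 16) (nat_lit 5) (nat_lit 19) (nat_lit 5) (nat_lit 17) (nat_lit 4) (nat_lit 349) (nat_lit 321) (nat_lit 110)) (XT.lf (nat_lit 0) (nat_lit 408089268938) (nat_lit 76) (nat_lit 924526245127) (nat_lit 152) (nat_lit 471978007650) (nat_lit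 15) (nat_lit 5) (nat_lit 16) (nat_lit 5) (nat_lit 17) (nat_lit 4) (nat_lit 350) (nat_lit 321) (nat_lit 109)))) (XT.nd (nat_lit 38454) (nat_lit 0) (nat_lit 2052) (XT.nd (nat_lit 38376) (nat_lit 0) (nat_lit 2052) (XT.lf (nat_lit 0) (nat_lit 1208727908850) (nat_lit 76) (nat_lit 508810035158) (nat_lit 152) (nat_lit 194338565697) (nat_lit 15) (nat_lit 5) (nat_lit 16) (nat_lit 5) (nat_lit 17) (nat_lit 4) (nat_lit 351) (nat_lit 321) (nat_lit 108)) (XT.lf (nat_lit 0) (nat_lit 130559850471) (nat_lit 532) (nat_lit 55508198404) (nat_lit 532) (nat_lit 55508198404) (nat_lit 42) (nat_lit 3) (nat_lit 49) (nat_lit 3) (nat_lit 49) (nat_lit 5) (nat_lit 322) (nat_lit 322) (nat_lit 136))) (XT.nd (nat_lit 78) (nat_lit 0) (nat_lit 76) (XT.lf (nat_lit 76) (nat_lit 110528759778) (nat_lit 0) (nat_lit 163694202633) (nat_lit 532) (nat_lit 228042953100) (nat_lit 43) (nat_lit 5) (nat_lit 42) (nat_lit 3) (nat_lit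 49) (nat_lit 5) (nat_lit 323) (nat_lit 322) (nat_lit 135)) (XT.lf (nat_lit 0) (nat_lit 292965911180) (nat_lit 456) (nat_lit 168110533377) (nat_lit 532) (nat_lit 61464651566) (nat_lit 43) (nat_lit 5) (nat_lit 49) (nat_lit 5) (nat_lit 50) (nat_lit 5) (nat_lit 324) (nat_lit 322) (nat_lit 134))))))))
noncomputable def xc124 : XT := (XT.nd (nat_lit 40794) (nat_lit 0) (nat_lit 0) (XT.nd (nat_lit 1092) (nat_lit 836) (nat_lit 0) (XT.nd (nat_lit 546) (nat_lit 912) (nat_lit 0) (XT.nd (nat_lit 234) (nat_lit 304) (nat_lit 0) (XT.nd (nat_lit 78) (nat_lit 0) (nat_lit 0) (XT.lf (nat_lit 76) (nat_lit 72795954068) (nat_lit 0) (nat_lit 246414860089) (nat_lit 532) (nat_lit 224747275653) (nat_lit 44) (nat_lit 5) (nat_lit 43) (nat_lit 5) (nat_lit 50) (nat_lit 5) (nat_lit 325) (nat_lit 322) (nat_lit 133)) (XT.nd (nat_lit 78) (nat_lit 0) (nat_lit 76) (XT.lf (nat_lit 76) (nat_lit 342535540223) (nat_lit 0)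 (nat_lit 9616186820) (nat_lit 532) (nat_lit 214569002616) (nat_lit 44) (nat_lit 5) (nat_lit 43) (nat_lit 5) (nat_lit 50) (nat_lit 5) (nat_lit 326) (nat_lit 322) (nat_lit 132)) (XT.lf (nat_lit 76) (nat_lit 38559451093) (nat_lit 0) (nat_lit 356015142530) (nat_lit 532) (nat_lit 196182052696) (nat_lit 45) (nat_lit 5) (nat_lit 44) (nat_lit 5) (nat_lit 51) (nat_lit 5) (nat_lit 327) (nat_lit 322) (nat_lit 131)))) (XT.nd (nat_lit 156) (nat_lit 0) (nat_lit 0) (XT.nd (nat_lit 78) (nat_lit 380) (nat_lit 0) (XT.lf (nat_lit 76) (nat_lit 334810334026) (nat_lit 0) (nat_lit 111954004350) (nat_lit 532) (nat_lit 169441254098) (nat_lit 45) (nat_lit 5) (nat_lit 44) (nat_lit 5) (nat_lit 51) (nat_lit 5) (nat_lit 328) (nat_lit 322) (nat_lit 130)) (XT.lf (nat_lit 0) (nat_lit 7815001409) (nat_lit 456) (nat_lit 499148948337) (nat_lit 532) (nat_lit 136419729677) (nat_lit 39) (nat_lit 5) (nat_lit 45) (nat_lit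 5) (nat_lit 46) (nat_lit 5) (nat_lit 329) (nat_lit 322) (nat_lit 129))) (XT.nd (nat_lit 78) (nat_lit 0) (nat_lit 0) (XT.lf (nat_lit 0) (nat_lit 333104243233) (nat_lit 456) (nat_lit 249403393588) (nat_lit 532) (nat_lit 89386128026) (nat_lit 39) (nat_lit 5) (nat_lit 45) (nat_lit 5) (nat_lit 46) (nat_lit 5) (nat_lit 330) (nat_lit 322) (nat_lit 128)) (XT.lf (nat_lit 0) (nat_lit 664583543209) (nat_lit 532) (nat_lit 18756788418) (nat_lit 76) (nat_lit 19305227585) (nat_lit 39) (nat_lit 5) (nat_lit 46) (nat_lit 5) (nat_lit 40) (nat_lit 5) (nat_lit 331) (nat_lit 322) (nat_lit 127))))) (XT.nd (nat_lit 234) (nat_lit 380) (nat_lit 0) (XT.nd (nat_lit 78) (nat_lit 228) (nat_lit 0) (XT.lf (nat_lit 0) (nat_lit 31467553335) (nat_lit 304) (nat_lit 398214728808) (nat_lit 76) (nat_lit 304944331133) (nat_lit 35) (nat_lit 5) (nat_lit 39) (nat_lit 5) (nat_lit 36) (nat_lit 5) (nat_lit 332) (nat_lit 322) (nat_lit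 126)) (XT.nd (nat_lit 78) (nat_lit 228) (nat_lit 0) (XT.lf (nat_lit 0) (nat_lit 105029301099) (nat_lit 304) (nat_lit 49066317256) (nat_lit 76) (nat_lit 614949351421) (nat_lit 35) (nat_lit 5) (nat_lit 39) (nat_lit 5) (nat_lit 36) (nat_lit 5) (nat_lit 333) (nat_lit 322) (nat_lit 125)) (XT.lf (nat_lit 0) (nat_lit 196447910397) (nat_lit 304) (nat_lit 463933661090) (nat_lit 76) (nat_lit 144877469614) (nat_lit 32) (nat_lit 5) (nat_lit 36) (nat_lit 5) (nat_lit 33) (nat_lit 5) (nat_lit 334) (nat_lit 322) (nat_lit 124)))) (XT.nd (nat_lit 156) (nat_lit 152) (nat_lit 0) (XT.nd (nat_lit 78) (nat_lit 228) (nat_lit 0) (XT.lf (nat_lit 0) (nat_lit 300558885383) (nat_lit 304) (nat_lit 82561399219) (nat_lit 76) (nat_lit 460819643412) (nat_lit 32) (nat_lit 5) (nat_lit 36) (nat_lit 5) (nat_lit 33) (nat_lit 5) (nat_lit 335) (nat_lit 322) (nat_lit 123)) (XT.lf (nat_lit 0) (nat_lit 346662070871) (nat_lit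 228) (nat_lit 74673887125) (nat_lit 304) (nat_lit 463712350349) (nat_lit 29) (nat_lit 5) (nat_lit 32) (nat_lit 5) (nat_lit 33) (nat_lit 5) (nat_lit 336) (nat_lit 322) (nat_lit 122))) (XT.nd (nat_lit 78) (nat_lit 152) (nat_lit 0) (XT.lf (nat_lit 0) (nat_lit 560306879431) (nat_lit 304) (nat_lit 120620343700) (nat_lit 76) (nat_lit 247835601363) (nat_lit 29) (nat_lit 5) (nat_lit 33) (nat_lit 5) (nat_lit 30) (nat_lit 5) (nat_lit 337) (nat_lit 322) (nat_lit 121)) (XT.lf (nat_lit 0) (nat_lit 345932154513) (nat_lit 152) (nat_lit 374722567975) (nat_lit 228) (nat_lit 254499039645) (nat_lit 27) (nat_lit 5) (nat_lit 29) (nat_lit 5) (nat_lit 30) (nat_lit 5) (nat_lit 338) (nat_lit 322) (nat_lit 120)))))) (XT.nd (nat_lit 546) (nat_lit 304) (nat_lit 0) (XT.nd (nat_lit 234) (nat_lit 304) (nat_lit 0) (XT.nd (nat_lit 78) (nat_lit 228) (nat_lit 0) (XT.lf (nat_lit 0) (nat_lit 856668625757) (nat_lit 152)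 (nat_lit 40459731427) (nat_lit 228) (nat_lit 127863780490) (nat_lit 27) (nat_lit 5) (nat_lit 29) (nat_lit 5) (nat_lit 30) (nat_lit 5) (nat_lit 339) (nat_lit 322) (nat_lit 119)) (XT.nd (nat_lit 78) (nat_lit 0) (nat_lit 0) (XT.lf (nat_lit 0) (nat_lit 24723104894) (nat_lit 228) (nat_lit 739495695658) (nat_lit 76) (nat_lit 313280363925) (nat_lit 24) (nat_lit 5) (nat_lit 27) (nat_lit 5) (nat_lit 25) (nat_lit 5) (nat_lit 340) (nat_lit 322) (nat_lit 118)) (XT.lf (nat_lit 0) (nat_lit 188381671387) (nat_lit 228) (nat_lit 243920848241) (nat_lit 76) (nat_lit 701176727201) (nat_lit 24) (nat_lit 5) (nat_lit 27) (nat_lit 5) (nat_lit 25) (nat_lit 5) (nat_lit 341) (nat_lit 322) (nat_lit 117)))) (XT.nd (nat_lit 156) (nat_lit 152) (nat_lit 0) (XT.nd (nat_lit 78) (nat_lit 0) (nat_lit 0) (XT.lf (nat_lit 0) (nat_lit 306639315794) (nat_lit 152) (nat_lit 65868282022) (nat_lit 228) (nat_lit 820840164004) (nat_lit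 22) (nat_lit 5) (nat_lit 24) (nat_lit 5) (nat_lit 25) (nat_lit 5) (nat_lit 342) (nat_lit 322) (nat_lit 116)) (XT.lf (nat_lit 0) (nat_lit 586139683920) (nat_lit 228) (nat_lit 350462809300) (nat_lit 76) (nat_lit 320221177964) (nat_lit 22) (nat_lit 5) (nat_lit 25) (nat_lit 5) (nat_lit 23) (nat_lit 5) (nat_lit 343) (nat_lit 322) (nat_lit 115))) (XT.nd (nat_lit 78) (nat_lit 0) (nat_lit 0) (XT.lf (nat_lit 0) (nat_lit 238923525229) (nat_lit 152) (nat_lit 585395785232) (nat_lit 228) (nat_lit 500461784970) (nat_lit 20) (nat_lit 5) (nat_lit 22) (nat_lit 5) (nat_lit 23) (nat_lit 5) (nat_lit 344) (nat_lit 322) (nat_lit 114)) (XT.lf (nat_lit 0) (nat_lit 895391886260) (nat_lit 152) (nat_lit 195743687992) (nat_lit 228) (nat_lit 306272958013) (nat_lit 20) (nat_lit 5) (nat_lit 22) (nat_lit 5) (nat_lit 23) (nat_lit 5) (nat_lit 345) (nat_lit 322) (nat_lit 113))))) (XT.nd (nat_lit 38844) (nat_lit 0) (nat_lit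 1976) (XT.nd (nat_lit 156) (nat_lit 152) (nat_lit 0) (XT.nd (nat_lit 78) (nat_lit 76) (nat_lit 0) (XT.lf (nat_lit 0) (nat_lit 129601542447) (nat_lit 76) (nat_lit 1258225703499) (nat_lit 152) (nat_lit 87336509570) (nat_lit 19) (nat_lit 5) (nat_lit 20) (nat_lit 5) (nat_lit 21) (nat_lit 4) (nat_lit 346) (nat_lit 322) (nat_lit 112)) (XT.lf (nat_lit 0) (nat_lit 160822315672) (nat_lit 152) (nat_lit 726768995319) (nat_lit 76) (nat_lit 669727845191) (nat_lit 18) (nat_lit 5) (nat_lit 20) (nat_lit 5) (nat_lit 19) (nat_lit 5) (nat_lit 347) (nat_lit 322) (nat_lit 111))) (XT.nd (nat_lit 156) (nat_lit 152) (nat_lit 0) (XT.lf (nat_lit 0) (nat_lit 424115400795) (nat_lit 152) (nat_lit 60740810667) (nat_lit 76) (nat_lit 1161009299482) (nat_lit 18) (nat_lit 5) (nat_lit 20) (nat_lit 5) (nat_lit 19) (nat_lit 5) (nat_lit 348) (nat_lit 322) (nat_lit 110)) (XT.lf (nat_lit 0) (nat_lit 1062958085379) (nat_lit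 228) (nat_lit 341898292643) (nat_lit 76) (nat_lit 436129176439) (nat_lit 16) (nat_lit 5) (nat_lit 19) (nat_lit 5) (nat_lit 17) (nat_lit 4) (nat_lit 350) (nat_lit 322) (nat_lit 108)))) (XT.nd (nat_lit 156) (nat_lit 0) (nat_lit 76) (XT.nd (nat_lit 78) (nat_lit 0) (nat_lit 0) (XT.lf (nat_lit 0) (nat_lit 141004886497) (nat_lit 532) (nat_lit 59948719896) (nat_lit 532) (nat_lit 59948719896) (nat_lit 42) (nat_lit 3) (nat_lit 49) (nat_lit 3) (nat_lit 49) (nat_lit 5) (nat_lit 323) (nat_lit 323) (nat_lit 134)) (XT.lf (nat_lit 76) (nat_lit 119371322516) (nat_lit 0) (nat_lit 176789942425) (nat_lit 532) (nat_lit 246285884840) (nat_lit 43) (nat_lit 5) (nat_lit 42) (nat_lit 3) (nat_lit 49) (nat_lit 5) (nat_lit 324) (nat_lit 323) (nat_lit 133))) (XT.nd (nat_lit 78) (nat_lit 0) (nat_lit 0) (XT.lf (nat_lit 0) (nat_lit 316403610595) (nat_lit 456) (nat_lit 181559092877) (nat_lit 532) (nat_lit 66381644620)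 (nat_lit 43) (nat_lit 5) (nat_lit 49) (nat_lit 5) (nat_lit 50) (nat_lit 5) (nat_lit 325) (nat_lit 323) (nat_lit 132)) (XT.lf (nat_lit 76) (nat_lit 78619906394) (nat_lit 0) (nat_lit 266128174459) (nat_lit 532) (nat_lit 242726622535) (nat_lit 44) (nat_lit 5) (nat_lit 43) (nat_lit 5) (nat_lit 50) (nat_lit 5) (nat_lit 326) (nat_lit 323) (nat_lit 131))))))) (XT.nd (nat_lit 1170) (nat_lit 608) (nat_lit 0) (XT.nd (nat_lit 546) (nat_lit 836) (nat_lit 0) (XT.nd (nat_lit 234) (nat_lit 608) (nat_lit 0) (XT.nd (nat_lit 78) (nat_lit 0) (nat_lit 76) (XT.lf (nat_lit 76) (nat_lit 369938638997) (nat_lit 0) (nat_lit 10385598027) (nat_lit 532) (nat_lit 231734119890) (nat_lit 44) (nat_lit 5) (nat_lit 43) (nat_lit 5) (nat_lit 50) (nat_lit 5) (nat_lit 327) (nat_lit 323) (nat_lit 130)) (XT.nd (nat_lit 78) (nat_lit 0) (nat_lit 0) (XT.lf (nat_lit 76) (nat_lit 41644489322) (nat_lit 0) (nat_lit 384496420263)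 (nat_lit 532) (nat_lit 211876239291) (nat_lit 45) (nat_lit 5) (nat_lit 44) (nat_lit 5) (nat_lit 51) (nat_lit 5) (nat_lit 328) (nat_lit 323) (nat_lit 129)) (XT.lf (nat_lit 76) (nat_lit 361595421991) (nat_lit 0) (nat_lit 120910386115) (nat_lit 532) (nat_lit 182996204778) (nat_lit 45) (nat_lit 5) (nat_lit 44) (nat_lit 5) (nat_lit 51) (nat_lit 5) (nat_lit 329) (nat_lit 323) (nat_lit 128)))) (XT.nd (nat_lit 156) (nat_lit 304) (nat_lit 0) (XT.nd (nat_lit 78) (nat_lit 0) (nat_lit 0) (XT.lf (nat_lit 0) (nat_lit 8440483896) (nat_lit 456) (nat_lit 539080886013) (nat_lit 532) (nat_lit 147332978446) (nat_lit 39) (nat_lit 5) (nat_lit 45) (nat_lit 5) (nat_lit 46) (nat_lit 5) (nat_lit 330) (nat_lit 323) (nat_lit 127)) (XT.lf (nat_lit 0) (nat_lit 359752844149) (nat_lit 456) (nat_lit 269355685268) (nat_lit 532) (nat_lit 96536713078) (nat_lit 39) (nat_lit 5) (nat_lit 45) (nat_lit 5) (nat_lit 46) (nat_lit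 5) (nat_lit 331) (nat_lit 323) (nat_lit 126))) (XT.nd (nat_lit 78) (nat_lit 304) (nat_lit 0) (XT.lf (nat_lit 0) (nat_lit 717750487003) (nat_lit 532) (nat_lit 20257067155) (nat_lit 76) (nat_lit 20849628030) (nat_lit 39) (nat_lit 5) (nat_lit 46) (nat_lit 5) (nat_lit 40) (nat_lit 5) (nat_lit 332) (nat_lit 323) (nat_lit 125)) (XT.lf (nat_lit 0) (nat_lit 33985212095) (nat_lit 304) (nat_lit 430071635267) (nat_lit 76) (nat_lit 329339873816) (nat_lit 35) (nat_lit 5) (nat_lit 39) (nat_lit 5) (nat_lit 36) (nat_lit 5) (nat_lit 333) (nat_lit 323) (nat_lit 124))))) (XT.nd (nat_lit 312) (nat_lit 380) (nat_lit 0) (XT.nd (nat_lit 156) (nat_lit 228) (nat_lit 0) (XT.nd (nat_lit 78) (nat_lit 228) (nat_lit 0) (XT.lf (nat_lit 0) (nat_lit 113431880829) (nat_lit 304) (nat_lit 52991370927) (nat_lit 76) (nat_lit 664145296010) (nat_lit 35) (nat_lit 5) (nat_lit 39) (nat_lit 5) (nat_lit 36) (nat_lit 5) (nat_lit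 334) (nat_lit 323) (nat_lit 123)) (XT.lf (nat_lit 0) (nat_lit 212163967828) (nat_lit 304) (nat_lit 501048090538) (nat_lit 76) (nat_lit 156467687369) (nat_lit 32) (nat_lit 5) (nat_lit 36) (nat_lit 5) (nat_lit 33) (nat_lit 5) (nat_lit 335) (nat_lit 323) (nat_lit 122))) (XT.nd (nat_lit 78) (nat_lit 228) (nat_lit 0) (XT.lf (nat_lit 0) (nat_lit 324603804175) (nat_lit 304) (nat_lit 89166067232) (nat_lit 76) (nat_lit 497685233576) (nat_lit 32) (nat_lit 5) (nat_lit 36) (nat_lit 5) (nat_lit 33) (nat_lit 5) (nat_lit 336) (nat_lit 323) (nat_lit 121)) (XT.lf (nat_lit 0) (nat_lit 374395274291) (nat_lit 228) (nat_lit 80647758620) (nat_lit 304) (nat_lit 500809123652) (nat_lit 29) (nat_lit 5) (nat_lit 32) (nat_lit 5) (nat_lit 33) (nat_lit 5) (nat_lit 337) (nat_lit 323) (nat_lit 120)))) (XT.nd (nat_lit 156) (nat_lit 228) (nat_lit 0) (XT.nd (nat_lit 78) (nat_lit 152) (nat_lit 0) (XT.lf (nat_lit 0) (nat_lit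 605131614252) (nat_lit 304) (nat_lit 130269736704) (nat_lit 76) (nat_lit 267662484195) (nat_lit 29) (nat_lit 5) (nat_lit 33) (nat_lit 5) (nat_lit 30) (nat_lit 5) (nat_lit 338) (nat_lit 323) (nat_lit 119)) (XT.lf (nat_lit 0) (nat_lit 373606955429) (nat_lit 152) (nat_lit 404700321157) (nat_lit 228) (nat_lit 274858771909) (nat_lit 27) (nat_lit 5) (nat_lit 29) (nat_lit 5) (nat_lit 30) (nat_lit 5) (nat_lit 339) (nat_lit 323) (nat_lit 118))) (XT.nd (nat_lit 78) (nat_lit 228) (nat_lit 0) (XT.lf (nat_lit 0) (nat_lit 925202327443) (nat_lit 152) (nat_lit 43696461557) (nat_lit 228) (nat_lit 138092706163) (nat_lit 27) (nat_lit 5) (nat_lit 29) (nat_lit 5) (nat_lit 30) (nat_lit 5) (nat_lit 340) (nat_lit 323) (nat_lit 117)) (XT.lf (nat_lit 0) (nat_lit 26701115263) (nat_lit 228) (nat_lit 798655124064) (nat_lit 76) (nat_lit 338342844950) (nat_lit 24) (nat_lit 5) (nat_lit 27) (nat_lit 5) (nat_lit 25)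 (nat_lit 5) (nat_lit 341) (nat_lit 323) (nat_lit 116)))))) (XT.nd (nat_lit 624) (nat_lit 152) (nat_lit 0) (XT.nd (nat_lit 234) (nat_lit 304) (nat_lit 0) (XT.nd (nat_lit 78) (nat_lit 152) (nat_lit 0) (XT.lf (nat_lit 0) (nat_lit 203452355077) (nat_lit 228) (nat_lit 263434305687) (nat_lit 76) (nat_lit 757270913443) (nat_lit 24) (nat_lit 5) (nat_lit 27) (nat_lit 5) (nat_lit 25) (nat_lit 5) (nat_lit 342) (nat_lit 323) (nat_lit 115)) (XT.nd (nat_lit 78) (nat_lit 0) (nat_lit 0) (XT.lf (nat_lit 0) (nat_lit 331170666144) (nat_lit 152) (nat_lit 71137683299) (nat_lit 228) (nat_lit 886507221475) (nat_lit 22) (nat_lit 5) (nat_lit 24) (nat_lit 5) (nat_lit 25) (nat_lit 5) (nat_lit 343) (nat_lit 323) (nat_lit 114)) (XT.lf (nat_lit 0) (nat_lit 633030993148) (nat_lit 228) (nat_lit 378499634544) (nat_lit 76) (nat_lit 345838926108) (nat_lit 22) (nat_lit 5) (nat_lit 25) (nat_lit 5) (nat_lit 23) (nat_lit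 5) (nat_lit 344) (nat_lit 323) (nat_lit 113)))) (XT.nd (nat_lit 156) (nat_lit 152) (nat_lit 0) (XT.nd (nat_lit 78) (nat_lit 0) (nat_lit 0) (XT.lf (nat_lit 0) (nat_lit 258037601697) (nat_lit 152) (nat_lit 632227382828) (nat_lit 228) (nat_lit 540498587908) (nat_lit 20) (nat_lit 5) (nat_lit 22) (nat_lit 5) (nat_lit 23) (nat_lit 5) (nat_lit 345) (nat_lit 323) (nat_lit 112)) (XT.lf (nat_lit 0) (nat_lit 967023417207) (nat_lit 152) (nat_lit 211403122640) (nat_lit 228) (nat_lit 330774665154) (nat_lit 20) (nat_lit 5) (nat_lit 22) (nat_lit 5) (nat_lit 23) (nat_lit 5) (nat_lit 346) (nat_lit 323) (nat_lit 111))) (XT.nd (nat_lit 78) (nat_lit 76) (nat_lit 0) (XT.lf (nat_lit 0) (nat_lit 139969849511) (nat_lit 76) (nat_lit 1358883692664) (nat_lit 152) (nat_lit 94323304206) (nat_lit 19) (nat_lit 5) (nat_lit 20) (nat_lit 5) (nat_lit 21) (nat_lit 4) (nat_lit 347) (nat_lit 323) (nat_lit 110)) (XT.lf (nat_lit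 0) (nat_lit 173688211871) (nat_lit 152) (nat_lit 784910338824) (nat_lit 76) (nat_lit 723306128891) (nat_lit 18) (nat_lit 5) (nat_lit 20) (nat_lit 5) (nat_lit 19) (nat_lit 5) (nat_lit 348) (nat_lit 323) (nat_lit 109))))) (XT.nd (nat_lit 38844) (nat_lit 0) (nat_lit 2052) (XT.nd (nat_lit 38688) (nat_lit 0) (nat_lit 1976) (XT.nd (nat_lit 38610) (nat_lit 0) (nat_lit 1976) (XT.lf (nat_lit 0) (nat_lit 748708786071) (nat_lit 152) (nat_lit 34447454562) (nat_lit 228) (nat_lit 1096218454944) (nat_lit 16) (nat_lit 5) (nat_lit 18) (nat_lit 5) (nat_lit 19) (nat_lit 5) (nat_lit 350) (nat_lit 323) (nat_lit 107)) (XT.lf (nat_lit 0) (nat_lit 152285490027) (nat_lit 532) (nat_lit 64744502278) (nat_lit 532) (nat_lit 64744502278) (nat_lit 42) (nat_lit 3) (nat_lit 49) (nat_lit 3) (nat_lit 49) (nat_lit 5) (nat_lit 324) (nat_lit 324) (nat_lit 132))) (XT.nd (nat_lit 78) (nat_lit 0) (nat_lit 76) (XT.lf (nat_lit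 76) (nat_lit 128921252903) (nat_lit 0) (nat_lit 190933312357) (nat_lit 532) (nat_lit 265988323092) (nat_lit 43) (nat_lit 5) (nat_lit 42) (nat_lit 3) (nat_lit 49) (nat_lit 5) (nat_lit 325) (nat_lit 324) (nat_lit 131)) (XT.lf (nat_lit 0) (nat_lit 341716265114) (nat_lit 456) (nat_lit 196083577535) (nat_lit 532) (nat_lit 71692022665) (nat_lit 43) (nat_lit 5) (nat_lit 49) (nat_lit 5) (nat_lit 50) (nat_lit 5) (nat_lit 326) (nat_lit 324) (nat_lit 130)))) (XT.nd (nat_lit 156) (nat_lit 0) (nat_lit 76) (XT.nd (nat_lit 78) (nat_lit 0) (nat_lit 0) (XT.lf (nat_lit 76) (nat_lit 84909735532) (nat_lit 0) (nat_lit 287418536065) (nat_lit 532) (nat_lit 262144379249) (nat_lit 44) (nat_lit 5) (nat_lit 43) (nat_lit 5) (nat_lit 50) (nat_lit 5) (nat_lit 327) (nat_lit 324) (nat_lit 129)) (XT.lf (nat_lit 76) (nat_lit 399533949215) (nat_lit 0) (nat_lit 11216545545) (nat_lit 532) (nat_lit 250272504030) (nat_lit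 44) (nat_lit 5) (nat_lit 43) (nat_lit 5) (nat_lit 50) (nat_lit 5) (nat_lit 328) (nat_lit 324) (nat_lit 128))) (XT.nd (nat_lit 78) (nat_lit 0) (nat_lit 0) (XT.lf (nat_lit 76) (nat_lit 44976290358) (nat_lit 0) (nat_lit 415256190753) (nat_lit 532) (nat_lit 228826014686) (nat_lit 45) (nat_lit 5) (nat_lit 44) (nat_lit 5) (nat_lit 51) (nat_lit 5) (nat_lit 329) (nat_lit 324) (nat_lit 127)) (XT.lf (nat_lit 76) (nat_lit 390523279723) (nat_lit 0) (nat_lit 130583269660) (nat_lit 532) (nat_lit 197635601392) (nat_lit 45) (nat_lit 5) (nat_lit 44) (nat_lit 5) (nat_lit 51) (nat_lit 5) (nat_lit 330) (nat_lit 324) (nat_lit 126))))))))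
noncomputable def xc125 : XT := (XT.nd (nat_lit 41028) (nat_lit 0) (nat_lit 152) (XT.nd (nat_lit 1092) (nat_lit 304) (nat_lit 0) (XT.nd (nat_lit 546) (nat_lit 760) (nat_lit 0) (XT.nd (nat_lit 234) (nat_lit 532) (nat_lit 0) (XT.nd (nat_lit 78) (nat_lit 0) (nat_lit 0) (XT.lf (nat_lit 0) (nat_lit 9115964698) (nat_lit 456) (nat_lit 582207375591) (nat_lit 532) (nat_lit 159119334137) (nat_lit 39) (nat_lit 5) (nat_lit 45) (nat_lit 5) (nat_lit 46) (nat_lit 5) (nat_lit 331) (nat_lit 324) (nat_lit 125)) (XT.nd (nat_lit 78) (nat_lit 0) (nat_lit 0) (XT.lf (nat_lit 0) (nat_lit 388533295838) (nat_lit 456) (nat_lit 290904157402) (nat_lit 532) (nat_lit 104259388472) (nat_lit 39) (nat_lit 5) (nat_lit 45) (nat_lit 5) (nat_lit 46) (nat_lit 5) (nat_lit 332) (nat_lit 324) (nat_lit 124)) (XT.lf (nat_lit 0) (nat_lit 775170749161) (nat_lit 532) (nat_lit 21877405901) (nat_lit 76) (nat_lit 22517583045) (nat_lit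 39) (nat_lit 5) (nat_lit 46) (nat_lit 5) (nat_lit 40) (nat_lit 5) (nat_lit 333) (nat_lit 324) (nat_lit 123)))) (XT.nd (nat_lit 156) (nat_lit 228) (nat_lit 0) (XT.nd (nat_lit 78) (nat_lit 0) (nat_lit 0) (XT.lf (nat_lit 0) (nat_lit 36704247249) (nat_lit 304) (nat_lit 464477133024) (nat_lit 76) (nat_lit 355687060458) (nat_lit 35) (nat_lit 5) (nat_lit 39) (nat_lit 5) (nat_lit 36) (nat_lit 5) (nat_lit 334) (nat_lit 324) (nat_lit 122)) (XT.lf (nat_lit 0) (nat_lit 122506633320) (nat_lit 304) (nat_lit 57230464801) (nat_lit 76) (nat_lit 717276916669) (nat_lit 35) (nat_lit 5) (nat_lit 39) (nat_lit 5) (nat_lit 36) (nat_lit 5) (nat_lit 335) (nat_lit 324) (nat_lit 121))) (XT.nd (nat_lit 78) (nat_lit 0) (nat_lit 0) (XT.lf (nat_lit 0) (nat_lit 229137277811) (nat_lit 304) (nat_lit 541131711924) (nat_lit 76) (nat_lit 168985119666) (nat_lit 32) (nat_lit 5) (nat_lit 36) (nat_lit 5) (nat_lit 33) (nat_lit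 5) (nat_lit 336) (nat_lit 324) (nat_lit 120)) (XT.lf (nat_lit 0) (nat_lit 350572286802) (nat_lit 304) (nat_lit 96299143484) (nat_lit 76) (nat_lit 537500068287) (nat_lit 32) (nat_lit 5) (nat_lit 36) (nat_lit 5) (nat_lit 33) (nat_lit 5) (nat_lit 337) (nat_lit 324) (nat_lit 119))))) (XT.nd (nat_lit 234) (nat_lit 380) (nat_lit 0) (XT.nd (nat_lit 78) (nat_lit 152) (nat_lit 0) (XT.lf (nat_lit 0) (nat_lit 404347100066) (nat_lit 228) (nat_lit 87099545466) (nat_lit 304) (nat_lit 540873669452) (nat_lit 29) (nat_lit 5) (nat_lit 32) (nat_lit 5) (nat_lit 33) (nat_lit 5) (nat_lit 338) (nat_lit 324) (nat_lit 118)) (XT.nd (nat_lit 78) (nat_lit 152) (nat_lit 0) (XT.lf (nat_lit 0) (nat_lit 653542301543) (nat_lit 304) (nat_lit 140691114602) (nat_lit 76) (nat_lit 289075512699) (nat_lit 29) (nat_lit 5) (nat_lit 33) (nat_lit 5) (nat_lit 30) (nat_lit 5) (nat_lit 339) (nat_lit 324) (nat_lit 117)) (XT.lf (nat_lit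 0) (nat_lit 403495707813) (nat_lit 152) (nat_lit 437076302049) (nat_lit 228) (nat_lit 296847309989) (nat_lit 27) (nat_lit 5) (nat_lit 29) (nat_lit 5) (nat_lit 30) (nat_lit 5) (nat_lit 340) (nat_lit 324) (nat_lit 116)))) (XT.nd (nat_lit 156) (nat_lit 152) (nat_lit 0) (XT.nd (nat_lit 78) (nat_lit 228) (nat_lit 0) (XT.lf (nat_lit 0) (nat_lit 999218695073) (nat_lit 152) (nat_lit 47192136999) (nat_lit 228) (nat_lit 149139971107) (nat_lit 27) (nat_lit 5) (nat_lit 29) (nat_lit 5) (nat_lit 30) (nat_lit 5) (nat_lit 341) (nat_lit 324) (nat_lit 115)) (XT.lf (nat_lit 0) (nat_lit 28837343354) (nat_lit 228) (nat_lit 862547339162) (nat_lit 76) (nat_lit 365410317051) (nat_lit 24) (nat_lit 5) (nat_lit 27) (nat_lit 5) (nat_lit 25) (nat_lit 5) (nat_lit 342) (nat_lit 324) (nat_lit 114))) (XT.nd (nat_lit 78) (nat_lit 152) (nat_lit 0) (XT.lf (nat_lit 0) (nat_lit 219728672066) (nat_lit 228) (nat_lit 284508869746)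 (nat_lit 76) (nat_lit 817852627727) (nat_lit 24) (nat_lit 5) (nat_lit 27) (nat_lit 5) (nat_lit 25) (nat_lit 5) (nat_lit 343) (nat_lit 324) (nat_lit 113)) (XT.lf (nat_lit 0) (nat_lit 357664495264) (nat_lit 152) (nat_lit 76828645421) (nat_lit 228) (nat_lit 957427665749) (nat_lit 22) (nat_lit 5) (nat_lit 24) (nat_lit 5) (nat_lit 25) (nat_lit 5) (nat_lit 344) (nat_lit 324) (nat_lit 112)))))) (XT.nd (nat_lit 39312) (nat_lit 0) (nat_lit 1292) (XT.nd (nat_lit 312) (nat_lit 152) (nat_lit 0) (XT.nd (nat_lit 78) (nat_lit 152) (nat_lit 0) (XT.lf (nat_lit 0) (nat_lit 683673587925) (nat_lit 228) (nat_lit 408779434268) (nat_lit 76) (nat_lit 373506086413) (nat_lit 22) (nat_lit 5) (nat_lit 25) (nat_lit 5) (nat_lit 23) (nat_lit 5) (nat_lit 345) (nat_lit 324) (nat_lit 111)) (XT.nd (nat_lit 78) (nat_lit 0) (nat_lit 0) (XT.lf (nat_lit 0) (nat_lit 278680776542) (nat_lit 152) (nat_lit 682805517536) (nat_lit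 228) (nat_lit 583738355034) (nat_lit 20) (nat_lit 5) (nat_lit 22) (nat_lit 5) (nat_lit 23) (nat_lit 5) (nat_lit 346) (nat_lit 324) (nat_lit 110)) (XT.lf (nat_lit 0) (nat_lit 1044385444944) (nat_lit 152) (nat_lit 228315320676) (nat_lit 228) (nat_lit 357236527341) (nat_lit 20) (nat_lit 5) (nat_lit 22) (nat_lit 5) (nat_lit 23) (nat_lit 5) (nat_lit 347) (nat_lit 324) (nat_lit 109)))) (XT.nd (nat_lit 38844) (nat_lit 0) (nat_lit 1824) (XT.nd (nat_lit 38766) (nat_lit 0) (nat_lit 1824) (XT.lf (nat_lit 0) (nat_lit 187583363938) (nat_lit 152) (nat_lit 847703014934) (nat_lit 76) (nat_lit 781170667286) (nat_lit 18) (nat_lit 5) (nat_lit 20) (nat_lit 5) (nat_lit 19) (nat_lit 5) (nat_lit 349) (nat_lit 324) (nat_lit 107)) (XT.lf (nat_lit 0) (nat_lit 164468511508) (nat_lit 532) (nat_lit 69923963687) (nat_lit 532) (nat_lit 69923963687) (nat_lit 42) (nat_lit 3) (nat_lit 49) (nat_lit 3) (nat_lit 49) (nat_lit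 5) (nat_lit 325) (nat_lit 325) (nat_lit 130))) (XT.nd (nat_lit 78) (nat_lit 0) (nat_lit 76) (XT.lf (nat_lit 76) (nat_lit 139235145681) (nat_lit 0) (nat_lit 206208126983) (nat_lit 532) (nat_lit 287267018111) (nat_lit 43) (nat_lit 5) (nat_lit 42) (nat_lit 3) (nat_lit 49) (nat_lit 5) (nat_lit 326) (nat_lit 325) (nat_lit 129)) (XT.lf (nat_lit 0) (nat_lit 369053879828) (nat_lit 456) (nat_lit 211770055600) (nat_lit 532) (nat_lit 77427252855) (nat_lit 43) (nat_lit 5) (nat_lit 49) (nat_lit 5) (nat_lit 50) (nat_lit 5) (nat_lit 327) (nat_lit 325) (nat_lit 128))))) (XT.nd (nat_lit 312) (nat_lit 608) (nat_lit 0) (XT.nd (nat_lit 156) (nat_lit 0) (nat_lit 76) (XT.nd (nat_lit 78) (nat_lit 0) (nat_lit 0) (XT.lf (nat_lit 76) (nat_lit 91702717244) (nat_lit 0) (nat_lit 310412111242) (nat_lit 532) (nat_lit 283115609726) (nat_lit 44) (nat_lit 5) (nat_lit 43) (nat_lit 5) (nat_lit 50) (nat_lit 5) (nat_lit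 328) (nat_lit 325) (nat_lit 127)) (XT.lf (nat_lit 76) (nat_lit 431496852994) (nat_lit 0) (nat_lit 12113954644) (nat_lit 532) (nat_lit 270294008183) (nat_lit 44) (nat_lit 5) (nat_lit 43) (nat_lit 5) (nat_lit 50) (nat_lit 5) (nat_lit 329) (nat_lit 325) (nat_lit 126))) (XT.nd (nat_lit 78) (nat_lit 0) (nat_lit 0) (XT.lf (nat_lit 76) (nat_lit 48574600970) (nat_lit 0) (nat_lit 448476734768) (nat_lit 532) (nat_lit 247131818298) (nat_lit 45) (nat_lit 5) (nat_lit 44) (nat_lit 5) (nat_lit 51) (nat_lit 5) (nat_lit 330) (nat_lit 325) (nat_lit 125)) (XT.lf (nat_lit 76) (nat_lit 421765334122) (nat_lit 0) (nat_lit 141029976377) (nat_lit 532) (nat_lit 213446192502) (nat_lit 45) (nat_lit 5) (nat_lit 44) (nat_lit 5) (nat_lit 51) (nat_lit 5) (nat_lit 331) (nat_lit 325) (nat_lit 124)))) (XT.nd (nat_lit 156) (nat_lit 304) (nat_lit 0) (XT.nd (nat_lit 78) (nat_lit 0) (nat_lit 0) (XT.lf (nat_lit 0) (nat_lit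 9845449427) (nat_lit 456) (nat_lit 628783981669) (nat_lit 532) (nat_lit 171848638598) (nat_lit 39) (nat_lit 5) (nat_lit 45) (nat_lit 5) (nat_lit 46) (nat_lit 5) (nat_lit 332) (nat_lit 325) (nat_lit 123)) (XT.lf (nat_lit 0) (nat_lit 419616151684) (nat_lit 456) (nat_lit 314176504837) (nat_lit 532) (nat_lit 112599915225) (nat_lit 39) (nat_lit 5) (nat_lit 45) (nat_lit 5) (nat_lit 46) (nat_lit 5) (nat_lit 333) (nat_lit 325) (nat_lit 122))) (XT.nd (nat_lit 78) (nat_lit 304) (nat_lit 0) (XT.lf (nat_lit 0) (nat_lit 837184600450) (nat_lit 532) (nat_lit 23627404078) (nat_lit 76) (nat_lit 24318976633) (nat_lit 39) (nat_lit 5) (nat_lit 46) (nat_lit 5) (nat_lit 40) (nat_lit 5) (nat_lit 334) (nat_lit 325) (nat_lit 121)) (XT.lf (nat_lit 0) (nat_lit 39640774089) (nat_lit 304) (nat_lit 501635103851) (nat_lit 76) (nat_lit 384142022496) (nat_lit 35) (nat_lit 5) (nat_lit 39) (nat_lit 5) (nat_lit 36) (nat_lit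 5) (nat_lit 335) (nat_lit 325) (nat_lit 120))))))) (XT.nd (nat_lit 40092) (nat_lit 0) (nat_lit 532) (XT.nd (nat_lit 546) (nat_lit 532) (nat_lit 0) (XT.nd (nat_lit 234) (nat_lit 380) (nat_lit 0) (XT.nd (nat_lit 78) (nat_lit 228) (nat_lit 0) (XT.lf (nat_lit 0) (nat_lit 132307337190) (nat_lit 304) (nat_lit 61808716971) (nat_lit 76) (nat_lit 774659067411) (nat_lit 35) (nat_lit 5) (nat_lit 39) (nat_lit 5) (nat_lit 36) (nat_lit 5) (nat_lit 336) (nat_lit 325) (nat_lit 119)) (XT.nd (nat_lit 78) (nat_lit 0) (nat_lit 0) (XT.lf (nat_lit 0) (nat_lit 247468425122) (nat_lit 304) (nat_lit 584422055243) (nat_lit 76) (nat_lit 182503944077) (nat_lit 32) (nat_lit 5) (nat_lit 36) (nat_lit 5) (nat_lit 33) (nat_lit 5) (nat_lit 337) (nat_lit 325) (nat_lit 118)) (XT.lf (nat_lit 0) (nat_lit 378618222604) (nat_lit 304) (nat_lit 104002895671) (nat_lit 76) (nat_lit 580500087489) (nat_lit 32) (nat_lit 5) (nat_lit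 36) (nat_lit 5) (nat_lit 33) (nat_lit 5) (nat_lit 338) (nat_lit 325) (nat_lit 117)))) (XT.nd (nat_lit 156) (nat_lit 152) (nat_lit 0) (XT.nd (nat_lit 78) (nat_lit 0) (nat_lit 0) (XT.lf (nat_lit 0) (nat_lit 436695042824) (nat_lit 228) (nat_lit 94067480088) (nat_lit 304) (nat_lit 584143405179) (nat_lit 29) (nat_lit 5) (nat_lit 32) (nat_lit 5) (nat_lit 33) (nat_lit 5) (nat_lit 339) (nat_lit 325) (nat_lit 116)) (XT.lf (nat_lit 0) (nat_lit 705825821255) (nat_lit 304) (nat_lit 151946231412) (nat_lit 76) (nat_lit 312201579237) (nat_lit 29) (nat_lit 5) (nat_lit 33) (nat_lit 5) (nat_lit 30) (nat_lit 5) (nat_lit 340) (nat_lit 325) (nat_lit 115))) (XT.nd (nat_lit 78) (nat_lit 0) (nat_lit 0) (XT.lf (nat_lit 0) (nat_lit 435775532432) (nat_lit 152) (nat_lit 472042367803) (nat_lit 228) (nat_lit 320594954465) (nat_lit 27) (nat_lit 5) (nat_lit 29) (nat_lit 5) (nat_lit 30) (nat_lit 5) (nat_lit 341) (nat_lit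 325) (nat_lit 114)) (XT.lf (nat_lit 0) (nat_lit 1079156346229) (nat_lit 152) (nat_lit 50967472395) (nat_lit 228) (nat_lit 161071038867) (nat_lit 27) (nat_lit 5) (nat_lit 29) (nat_lit 5) (nat_lit 30) (nat_lit 5) (nat_lit 342) (nat_lit 325) (nat_lit 113))))) (XT.nd (nat_lit 312) (nat_lit 152) (nat_lit 0) (XT.nd (nat_lit 156) (nat_lit 152) (nat_lit 0) (XT.nd (nat_lit 78) (nat_lit 0) (nat_lit 0) (XT.lf (nat_lit 0) (nat_lit 31144449880) (nat_lit 228) (nat_lit 931550959262) (nat_lit 76) (nat_lit 394643180571) (nat_lit 24) (nat_lit 5) (nat_lit 27) (nat_lit 5) (nat_lit 25) (nat_lit 5) (nat_lit 343) (nat_lit 325) (nat_lit 112)) (XT.lf (nat_lit 0) (nat_lit 237307076070) (nat_lit 228) (nat_lit 307269424665) (nat_lit 76) (nat_lit 883280873274) (nat_lit 24) (nat_lit 5) (nat_lit 27) (nat_lit 5) (nat_lit 25) (nat_lit 5) (nat_lit 344) (nat_lit 325) (nat_lit 111))) (XT.nd (nat_lit 78) (nat_lit 0) (nat_lit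 0) (XT.lf (nat_lit 0) (nat_lit 386277805630) (nat_lit 152) (nat_lit 82974892009) (nat_lit 228) (nat_lit 1034021764602) (nat_lit 22) (nat_lit 5) (nat_lit 24) (nat_lit 5) (nat_lit 25) (nat_lit 5) (nat_lit 345) (nat_lit 325) (nat_lit 110)) (XT.lf (nat_lit 0) (nat_lit 738367573831) (nat_lit 228) (nat_lit 441481642371) (nat_lit 76) (nat_lit 403386612949) (nat_lit 22) (nat_lit 5) (nat_lit 25) (nat_lit 5) (nat_lit 23) (nat_lit 5) (nat_lit 346) (nat_lit 325) (nat_lit 109)))) (XT.nd (nat_lit 39078) (nat_lit 0) (nat_lit 1672) (XT.nd (nat_lit 39000) (nat_lit 0) (nat_lit 1672) (XT.lf (nat_lit 0) (nat_lit 300975381592) (nat_lit 152) (nat_lit 737429910999) (nat_lit 228) (nat_lit 630437320636) (nat_lit 20) (nat_lit 5) (nat_lit 22) (nat_lit 5) (nat_lit 23) (nat_lit 5) (nat_lit 347) (nat_lit 325) (nat_lit 108)) (XT.lf (nat_lit 0) (nat_lit 177626148703) (nat_lit 532) (nat_lit 75517796100) (nat_lit 532)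 (nat_lit 75517796100) (nat_lit 42) (nat_lit 3) (nat_lit 49) (nat_lit 3) (nat_lit 49) (nat_lit 5) (nat_lit 326) (nat_lit 326) (nat_lit 128))) (XT.nd (nat_lit 78) (nat_lit 0) (nat_lit 76) (XT.lf (nat_lit 76) (nat_lit 150374122412) (nat_lit 0) (nat_lit 222704905433) (nat_lit 532) (nat_lit 310248061634) (nat_lit 43) (nat_lit 5) (nat_lit 42) (nat_lit 3) (nat_lit 49) (nat_lit 5) (nat_lit 327) (nat_lit 326) (nat_lit 127)) (XT.lf (nat_lit 0) (nat_lit 398578458994) (nat_lit 456) (nat_lit 228711481602) (nat_lit 532) (nat_lit 83621320238) (nat_lit 43) (nat_lit 5) (nat_lit 49) (nat_lit 5) (nat_lit 50) (nat_lit 5) (nat_lit 328) (nat_lit 326) (nat_lit 126)))))) (XT.nd (nat_lit 546) (nat_lit 912) (nat_lit 0) (XT.nd (nat_lit 234) (nat_lit 304) (nat_lit 0) (XT.nd (nat_lit 78) (nat_lit 0) (nat_lit 0) (XT.lf (nat_lit 76) (nat_lit 99039108551) (nat_lit 0) (nat_lit 335245159267) (nat_lit 532) (nat_lit 305764584273)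 (nat_lit 44) (nat_lit 5) (nat_lit 43) (nat_lit 5) (nat_lit 50) (nat_lit 5) (nat_lit 329) (nat_lit 326) (nat_lit 125)) (XT.nd (nat_lit 78) (nat_lit 0) (nat_lit 76) (XT.lf (nat_lit 76) (nat_lit 466016762278) (nat_lit 0) (nat_lit 13083144280) (nat_lit 532) (nat_lit 291917274920) (nat_lit 44) (nat_lit 5) (nat_lit 43) (nat_lit 5) (nat_lit 50) (nat_lit 5) (nat_lit 330) (nat_lit 326) (nat_lit 124)) (XT.lf (nat_lit 76) (nat_lit 52460746844) (nat_lit 0) (nat_lit 484354915349) (nat_lit 532) (nat_lit 266902125797) (nat_lit 45) (nat_lit 5) (nat_lit 44) (nat_lit 5) (nat_lit 51) (nat_lit 5) (nat_lit 331) (nat_lit 326) (nat_lit 123)))) (XT.nd (nat_lit 156) (nat_lit 0) (nat_lit 0) (XT.nd (nat_lit 78) (nat_lit 380) (nat_lit 0) (XT.lf (nat_lit 76) (nat_lit 455506725478) (nat_lit 0) (nat_lit 152312413190) (nat_lit 532) (nat_lit 230521667564) (nat_lit 45) (nat_lit 5) (nat_lit 44) (nat_lit 5) (nat_lit 51)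 (nat_lit 5) (nat_lit 332) (nat_lit 326) (nat_lit 122)) (XT.lf (nat_lit 0) (nat_lit 10633263325) (nat_lit 456) (nat_lit 679086713945) (nat_lit 532) (nat_lit 185596321978) (nat_lit 39) (nat_lit 5) (nat_lit 45) (nat_lit 5) (nat_lit 46) (nat_lit 5) (nat_lit 333) (nat_lit 326) (nat_lit 121))) (XT.nd (nat_lit 78) (nat_lit 0) (nat_lit 0) (XT.lf (nat_lit 0) (nat_lit 453185608582) (nat_lit 456) (nat_lit 339310637949) (nat_lit 532) (nat_lit 121607716122) (nat_lit 39) (nat_lit 5) (nat_lit 45) (nat_lit 5) (nat_lit 46) (nat_lit 5) (nat_lit 334) (nat_lit 326) (nat_lit 120)) (XT.lf (nat_lit 0) (nat_lit 904159532543) (nat_lit 532) (nat_lit 25517429828) (nat_lit 76) (nat_lit 26264483570) (nat_lit 39) (nat_lit 5) (nat_lit 46) (nat_lit 5) (nat_lit 40) (nat_lit 5) (nat_lit 335) (nat_lit 326) (nat_lit 119))))) (XT.nd (nat_lit 312) (nat_lit 380) (nat_lit 0) (XT.nd (nat_lit 156) (nat_lit 228) (nat_lit 0)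 (XT.nd (nat_lit 78) (nat_lit 0) (nat_lit 0) (XT.lf (nat_lit 0) (nat_lit 42812196390) (nat_lit 304) (nat_lit 541765740850) (nat_lit 76) (nat_lit 414873381897) (nat_lit 35) (nat_lit 5) (nat_lit 39) (nat_lit 5) (nat_lit 36) (nat_lit 5) (nat_lit 336) (nat_lit 326) (nat_lit 118)) (XT.lf (nat_lit 0) (nat_lit 142892072659) (nat_lit 304) (nat_lit 66753255710) (nat_lit 76) (nat_lit 836631790583) (nat_lit 35) (nat_lit 5) (nat_lit 39) (nat_lit 5) (nat_lit 36) (nat_lit 5) (nat_lit 337) (nat_lit 326) (nat_lit 117))) (XT.nd (nat_lit 78) (nat_lit 0) (nat_lit 0) (XT.lf (nat_lit 0) (nat_lit 267266040667) (nat_lit 304) (nat_lit 631175653651) (nat_lit 76) (nat_lit 197104272324) (nat_lit 32) (nat_lit 5) (nat_lit 36) (nat_lit 5) (nat_lit 33) (nat_lit 5) (nat_lit 338) (nat_lit 326) (nat_lit 116)) (XT.lf (nat_lit 0) (nat_lit 408907811463) (nat_lit 304) (nat_lit 112322973610) (nat_lit 76) (nat_lit 626940106267)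 (nat_lit 32) (nat_lit 5) (nat_lit 36) (nat_lit 5) (nat_lit 33) (nat_lit 5) (nat_lit 339) (nat_lit 326) (nat_lit 115)))) (XT.nd (nat_lit 156) (nat_lit 152) (nat_lit 0) (XT.nd (nat_lit 78) (nat_lit 0) (nat_lit 0) (XT.lf (nat_lit 0) (nat_lit 471630796073) (nat_lit 228) (nat_lit 101592853619) (nat_lit 304) (nat_lit 630874742280) (nat_lit 29) (nat_lit 5) (nat_lit 32) (nat_lit 5) (nat_lit 33) (nat_lit 5) (nat_lit 340) (nat_lit 326) (nat_lit 114)) (XT.lf (nat_lit 0) (nat_lit 762292003201) (nat_lit 304) (nat_lit 164101782156) (nat_lit 76) (nat_lit 337177727458) (nat_lit 29) (nat_lit 5) (nat_lit 33) (nat_lit 5) (nat_lit 30) (nat_lit 5) (nat_lit 341) (nat_lit 326) (nat_lit 113))) (XT.nd (nat_lit 78) (nat_lit 0) (nat_lit 0) (XT.lf (nat_lit 0) (nat_lit 470637719055) (nat_lit 152) (nat_lit 509805724298) (nat_lit 228) (nat_lit 346242430518) (nat_lit 27) (nat_lit 5) (nat_lit 29) (nat_lit 5) (nat_lit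 30) (nat_lit 5) (nat_lit 342) (nat_lit 326) (nat_lit 112)) (XT.lf (nat_lit 0) (nat_lit 1165488987287) (nat_lit 152) (nat_lit 55044839696) (nat_lit 228) (nat_lit 173956610584) (nat_lit 27) (nat_lit 5) (nat_lit 29) (nat_lit 5) (nat_lit 30) (nat_lit 5) (nat_lit 343) (nat_lit 326) (nat_lit 111))))))))
noncomputable def xc126 : XT := (XT.nd (nat_lit 80574) (nat_lit 0) (nat_lit 380) (XT.nd (nat_lit 40170) (nat_lit 0) (nat_lit 152) (XT.nd (nat_lit 39624) (nat_lit 0) (nat_lit 988) (XT.nd (nat_lit 39312) (nat_lit 0) (nat_lit 1520) (XT.nd (nat_lit 78) (nat_lit 152) (nat_lit 0) (XT.lf (nat_lit 0) (nat_lit 33636107944) (nat_lit 228) (nat_lit 1006074892799) (nat_lit 76) (nat_lit 426214667729) (nat_lit 24) (nat_lit 5) (nat_lit 27) (nat_lit 5) (nat_lit 25) (nat_lit 5) (nat_lit 344) (nat_lit 326) (nat_lit 110)) (XT.nd (nat_lit 78) (nat_lit 152) (nat_lit 0) (XT.lf (nat_lit 0) (nat_lit 256291736668)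 (nat_lit 228) (nat_lit 331850846042) (nat_lit 76) (nat_lit 953943373426) (nat_lit 24) (nat_lit 5) (nat_lit 27) (nat_lit 5) (nat_lit 25) (nat_lit 5) (nat_lit 345) (nat_lit 326) (nat_lit 109)) (XT.lf (nat_lit 0) (nat_lit 417180159320) (nat_lit 152) (nat_lit 89612844749) (nat_lit 228) (nat_lit 1116743407685) (nat_lit 22) (nat_lit 5) (nat_lit 24) (nat_lit 5) (nat_lit 25) (nat_lit 5) (nat_lit 346) (nat_lit 326) (nat_lit 108)))) (XT.nd (nat_lit 156) (nat_lit 0) (nat_lit 76) (XT.nd (nat_lit 78) (nat_lit 0) (nat_lit 0) (XT.lf (nat_lit 0) (nat_lit 191836374580) (nat_lit 532) (nat_lit 81559147186) (nat_lit 532) (nat_lit 81559147186) (nat_lit 42) (nat_lit 3) (nat_lit 49) (nat_lit 3) (nat_lit 49) (nat_lit 5) (nat_lit 327) (nat_lit 327) (nat_lit 126)) (XT.lf (nat_lit 76) (nat_lit 162404193732) (nat_lit 0) (nat_lit 240521407856) (nat_lit 532) (nat_lit 335067633994) (nat_lit 43) (nat_lit 5) (nat_lit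 42) (nat_lit 3) (nat_lit 49) (nat_lit 5) (nat_lit 328) (nat_lit 327) (nat_lit 125))) (XT.nd (nat_lit 78) (nat_lit 0) (nat_lit 0) (XT.lf (nat_lit 0) (nat_lit 430464966149) (nat_lit 456) (nat_lit 247008247143) (nat_lit 532) (nat_lit 90310929110) (nat_lit 43) (nat_lit 5) (nat_lit 49) (nat_lit 5) (nat_lit 50) (nat_lit 5) (nat_lit 329) (nat_lit 327) (nat_lit 124)) (XT.lf (nat_lit 76) (nat_lit 106962386350) (nat_lit 0) (nat_lit 362064839846) (nat_lit 532) (nat_lit 330225515907) (nat_lit 44) (nat_lit 5) (nat_lit 43) (nat_lit 5) (nat_lit 50) (nat_lit 5) (nat_lit 330) (nat_lit 327) (nat_lit 123))))) (XT.nd (nat_lit 234) (nat_lit 608) (nat_lit 0) (XT.nd (nat_lit 78) (nat_lit 0) (nat_lit 76) (XT.lf (nat_lit 76) (nat_lit 503298241330) (nat_lit 0) (nat_lit 14129858635) (nat_lit 532) (nat_lit 315270439220) (nat_lit 44) (nat_lit 5) (nat_lit 43) (nat_lit 5) (nat_lit 50) (nat_lit 5) (nat_lit 331) (nat_lit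 327) (nat_lit 122)) (XT.nd (nat_lit 78) (nat_lit 0) (nat_lit 0) (XT.lf (nat_lit 76) (nat_lit 56657759024) (nat_lit 0) (nat_lit 523103344414) (nat_lit 532) (nat_lit 288254091845) (nat_lit 45) (nat_lit 5) (nat_lit 44) (nat_lit 5) (nat_lit 51) (nat_lit 5) (nat_lit 332) (nat_lit 327) (nat_lit 121)) (XT.lf (nat_lit 76) (nat_lit 491947404658) (nat_lit 0) (nat_lit 164497439428) (nat_lit 532) (nat_lit 248963212065) (nat_lit 45) (nat_lit 5) (nat_lit 44) (nat_lit 5) (nat_lit 51) (nat_lit 5) (nat_lit 333) (nat_lit 327) (nat_lit 120)))) (XT.nd (nat_lit 156) (nat_lit 304) (nat_lit 0) (XT.nd (nat_lit 78) (nat_lit 0) (nat_lit 0) (XT.lf (nat_lit 0) (nat_lit 11484076948) (nat_lit 456) (nat_lit 733413662843) (nat_lit 532) (nat_lit 200443849661) (nat_lit 39) (nat_lit 5) (nat_lit 45) (nat_lit 5) (nat_lit 46) (nat_lit 5) (nat_lit 334) (nat_lit 327) (nat_lit 119)) (XT.lf (nat_lit 0) (nat_lit 489440598525)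 (nat_lit 456) (nat_lit 366455499894) (nat_lit 532) (nat_lit 131336168526) (nat_lit 39) (nat_lit 5) (nat_lit 45) (nat_lit 5) (nat_lit 46) (nat_lit 5) (nat_lit 335) (nat_lit 327) (nat_lit 118))) (XT.nd (nat_lit 78) (nat_lit 304) (nat_lit 0) (XT.lf (nat_lit 0) (nat_lit 976492435799) (nat_lit 532) (nat_lit 27558681401) (nat_lit 76) (nat_lit 28365632660) (nat_lit 39) (nat_lit 5) (nat_lit 46) (nat_lit 5) (nat_lit 40) (nat_lit 5) (nat_lit 336) (nat_lit 327) (nat_lit 117)) (XT.lf (nat_lit 0) (nat_lit 46237309596) (nat_lit 304) (nat_lit 585106853249) (nat_lit 76) (nat_lit 448063250392) (nat_lit 35) (nat_lit 5) (nat_lit 39) (nat_lit 5) (nat_lit 36) (nat_lit 5) (nat_lit 337) (nat_lit 327) (nat_lit 116)))))) (XT.nd (nat_lit 546) (nat_lit 228) (nat_lit 0) (XT.nd (nat_lit 234) (nat_lit 380) (nat_lit 0) (XT.nd (nat_lit 78) (nat_lit 228) (nat_lit 0) (XT.lf (nat_lit 0) (nat_lit 154323565782) (nat_lit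 304) (nat_lit 72093380176) (nat_lit 76) (nat_lit 903562331925) (nat_lit 35) (nat_lit 5) (nat_lit 39) (nat_lit 5) (nat_lit 36) (nat_lit 5) (nat_lit 338) (nat_lit 327) (nat_lit 115)) (XT.nd (nat_lit 78) (nat_lit 0) (nat_lit 0) (XT.lf (nat_lit 0) (nat_lit 288647445263) (nat_lit 304) (nat_lit 681669563615) (nat_lit 76) (nat_lit 212872625016) (nat_lit 32) (nat_lit 5) (nat_lit 36) (nat_lit 5) (nat_lit 33) (nat_lit 5) (nat_lit 339) (nat_lit 327) (nat_lit 114)) (XT.lf (nat_lit 0) (nat_lit 441620548736) (nat_lit 304) (nat_lit 121308679714) (nat_lit 76) (nat_lit 677095324866) (nat_lit 32) (nat_lit 5) (nat_lit 36) (nat_lit 5) (nat_lit 33) (nat_lit 5) (nat_lit 340) (nat_lit 327) (nat_lit 113)))) (XT.nd (nat_lit 156) (nat_lit 152) (nat_lit 0) (XT.nd (nat_lit 78) (nat_lit 0) (nat_lit 0) (XT.lf (nat_lit 0) (nat_lit 509361388208) (nat_lit 228) (nat_lit 109720260581) (nat_lit 304) (nat_lit 681344605653)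 (nat_lit 29) (nat_lit 5) (nat_lit 32) (nat_lit 5) (nat_lit 33) (nat_lit 5) (nat_lit 341) (nat_lit 327) (nat_lit 112)) (XT.lf (nat_lit 0) (nat_lit 823275463119) (nat_lit 304) (nat_lit 177229798040) (nat_lit 76) (nat_lit 364151964414) (nat_lit 29) (nat_lit 5) (nat_lit 33) (nat_lit 5) (nat_lit 30) (nat_lit 5) (nat_lit 342) (nat_lit 327) (nat_lit 111))) (XT.nd (nat_lit 78) (nat_lit 0) (nat_lit 0) (XT.lf (nat_lit 0) (nat_lit 508288860061) (nat_lit 152) (nat_lit 550590154010) (nat_lit 228) (nat_lit 373941721818) (nat_lit 27) (nat_lit 5) (nat_lit 29) (nat_lit 5) (nat_lit 30) (nat_lit 5) (nat_lit 343) (nat_lit 327) (nat_lit 110)) (XT.lf (nat_lit 0) (nat_lit 1258728220604) (nat_lit 152) (nat_lit 59448400731) (nat_lit 228) (nat_lit 187873043929) (nat_lit 27) (nat_lit 5) (nat_lit 29) (nat_lit 5) (nat_lit 30) (nat_lit 5) (nat_lit 344) (nat_lit 327) (nat_lit 109))))) (XT.nd (nat_lit 39546) (nat_lit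 0) (nat_lit 1444) (XT.nd (nat_lit 39390) (nat_lit 0) (nat_lit 1368) (XT.nd (nat_lit 39312) (nat_lit 0) (nat_lit 1368) (XT.lf (nat_lit 0) (nat_lit 36327084091) (nat_lit 228) (nat_lit 1086560761448) (nat_lit 76) (nat_lit 460311869193) (nat_lit 24) (nat_lit 5) (nat_lit 27) (nat_lit 5) (nat_lit 25) (nat_lit 5) (nat_lit 345) (nat_lit 327) (nat_lit 108)) (XT.lf (nat_lit 0) (nat_lit 207183399413) (nat_lit 532) (nat_lit 88083816717) (nat_lit 532) (nat_lit 88083816717) (nat_lit 42) (nat_lit 3) (nat_lit 49) (nat_lit 3) (nat_lit 49) (nat_lit 5) (nat_lit 328) (nat_lit 328) (nat_lit 124))) (XT.nd (nat_lit 78) (nat_lit 0) (nat_lit 76) (XT.lf (nat_lit 76) (nat_lit 175396650567) (nat_lit 0) (nat_lit 259763214782) (nat_lit 532) (nat_lit 361872811029) (nat_lit 43) (nat_lit 5) (nat_lit 42) (nat_lit 3) (nat_lit 49) (nat_lit 5) (nat_lit 329) (nat_lit 328) (nat_lit 123)) (XT.lf (nat_lit 0) (nat_lit 464902361002)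 (nat_lit 456) (nat_lit 266768775752) (nat_lit 532) (nat_lit 97535720495) (nat_lit 43) (nat_lit 5) (nat_lit 49) (nat_lit 5) (nat_lit 50) (nat_lit 5) (nat_lit 330) (nat_lit 328) (nat_lit 122)))) (XT.nd (nat_lit 156) (nat_lit 0) (nat_lit 76) (XT.nd (nat_lit 78) (nat_lit 0) (nat_lit 0) (XT.lf (nat_lit 76) (nat_lit 115519505100) (nat_lit 0) (nat_lit 391030085193) (nat_lit 532) (nat_lit 356643355611) (nat_lit 44) (nat_lit 5) (nat_lit 43) (nat_lit 5) (nat_lit 50) (nat_lit 5) (nat_lit 331) (nat_lit 328) (nat_lit 121)) (XT.lf (nat_lit 76) (nat_lit 543562219008) (nat_lit 0) (nat_lit 15260301177) (nat_lit 532) (nat_lit 340491887720) (nat_lit 44) (nat_lit 5) (nat_lit 43) (nat_lit 5) (nat_lit 50) (nat_lit 5) (nat_lit 332) (nat_lit 328) (nat_lit 120))) (XT.nd (nat_lit 78) (nat_lit 0) (nat_lit 0) (XT.lf (nat_lit 76) (nat_lit 61190510432) (nat_lit 0) (nat_lit 564951642691) (nat_lit 532) (nat_lit 311314244281)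 (nat_lit 45) (nat_lit 5) (nat_lit 44) (nat_lit 5) (nat_lit 51) (nat_lit 5) (nat_lit 333) (nat_lit 328) (nat_lit 119)) (XT.lf (nat_lit 76) (nat_lit 531303318036) (nat_lit 0) (nat_lit 177657263030) (nat_lit 532) (nat_lit 268880107075) (nat_lit 45) (nat_lit 5) (nat_lit 44) (nat_lit 5) (nat_lit 51) (nat_lit 5) (nat_lit 334) (nat_lit 328) (nat_lit 118))))))) (XT.nd (nat_lit 40482) (nat_lit 0) (nat_lit 152) (XT.nd (nat_lit 546) (nat_lit 380) (nat_lit 0) (XT.nd (nat_lit 234) (nat_lit 532) (nat_lit 0) (XT.nd (nat_lit 78) (nat_lit 0) (nat_lit 0) (XT.lf (nat_lit 0) (nat_lit 12402933898) (nat_lit 456) (nat_lit 792086765973) (nat_lit 532) (nat_lit 216479204962) (nat_lit 39) (nat_lit 5) (nat_lit 45) (nat_lit 5) (nat_lit 46) (nat_lit 5) (nat_lit 335) (nat_lit 328) (nat_lit 117)) (XT.nd (nat_lit 78) (nat_lit 0) (nat_lit 0) (XT.lf (nat_lit 0) (nat_lit 528595967513) (nat_lit 456) (nat_lit 395771949239)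 (nat_lit 532) (nat_lit 141842920646) (nat_lit 39) (nat_lit 5) (nat_lit 45) (nat_lit 5) (nat_lit 46) (nat_lit 5) (nat_lit 336) (nat_lit 328) (nat_lit 116)) (XT.lf (nat_lit 0) (nat_lit 1054611951250) (nat_lit 532) (nat_lit 29763253474) (nat_lit 76) (nat_lit 30634875045) (nat_lit 39) (nat_lit 5) (nat_lit 46) (nat_lit 5) (nat_lit 40) (nat_lit 5) (nat_lit 337) (nat_lit 328) (nat_lit 115)))) (XT.nd (nat_lit 156) (nat_lit 228) (nat_lit 0) (XT.nd (nat_lit 78) (nat_lit 0) (nat_lit 0) (XT.lf (nat_lit 0) (nat_lit 49936412243) (nat_lit 304) (nat_lit 631915275591) (nat_lit 76) (nat_lit 483908308660) (nat_lit 35) (nat_lit 5) (nat_lit 39) (nat_lit 5) (nat_lit 36) (nat_lit 5) (nat_lit 338) (nat_lit 328) (nat_lit 114)) (XT.lf (nat_lit 0) (nat_lit 166669560192) (nat_lit 304) (nat_lit 77860734000) (nat_lit 76) (nat_lit 975847316846) (nat_lit 35) (nat_lit 5) (nat_lit 39) (nat_lit 5) (nat_lit 36) (nat_lit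 5) (nat_lit 339) (nat_lit 328) (nat_lit 113))) (XT.nd (nat_lit 78) (nat_lit 0) (nat_lit 0) (XT.lf (nat_lit 0) (nat_lit 311739344917) (nat_lit 304) (nat_lit 736203006681) (nat_lit 76) (nat_lit 229902444368) (nat_lit 32) (nat_lit 5) (nat_lit 36) (nat_lit 5) (nat_lit 33) (nat_lit 5) (nat_lit 340) (nat_lit 328) (nat_lit 112)) (XT.lf (nat_lit 0) (nat_lit 476950288961) (nat_lit 304) (nat_lit 131013261107) (nat_lit 76) (nat_lit 731262959513) (nat_lit 32) (nat_lit 5) (nat_lit 36) (nat_lit 5) (nat_lit 33) (nat_lit 5) (nat_lit 341) (nat_lit 328) (nat_lit 111))))) (XT.nd (nat_lit 39624) (nat_lit 0) (nat_lit 1140) (XT.nd (nat_lit 156) (nat_lit 152) (nat_lit 0) (XT.nd (nat_lit 78) (nat_lit 0) (nat_lit 0) (XT.lf (nat_lit 0) (nat_lit 550110409389) (nat_lit 228) (nat_lit 118497863143) (nat_lit 304) (nat_lit 735852074646) (nat_lit 29) (nat_lit 5) (nat_lit 32) (nat_lit 5) (nat_lit 33) (nat_lit 5) (nat_lit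 342) (nat_lit 328) (nat_lit 110)) (XT.lf (nat_lit 0) (nat_lit 889137585612) (nat_lit 304) (nat_lit 191408073269) (nat_lit 76) (nat_lit 393284137650) (nat_lit 29) (nat_lit 5) (nat_lit 33) (nat_lit 5) (nat_lit 30) (nat_lit 5) (nat_lit 343) (nat_lit 328) (nat_lit 109))) (XT.nd (nat_lit 78) (nat_lit 0) (nat_lit 0) (XT.lf (nat_lit 0) (nat_lit 548952074731) (nat_lit 152) (nat_lit 594637342126) (nat_lit 228) (nat_lit 403856971137) (nat_lit 27) (nat_lit 5) (nat_lit 29) (nat_lit 5) (nat_lit 30) (nat_lit 5) (nat_lit 344) (nat_lit 328) (nat_lit 108)) (XT.lf (nat_lit 0) (nat_lit 1359426576276) (nat_lit 152) (nat_lit 64204250378) (nat_lit 228) (nat_lit 202902805566) (nat_lit 27) (nat_lit 5) (nat_lit 29) (nat_lit 5) (nat_lit 30) (nat_lit 5) (nat_lit 345) (nat_lit 328) (nat_lit 107)))) (XT.nd (nat_lit 156) (nat_lit 0) (nat_lit 76) (XT.nd (nat_lit 78) (nat_lit 0) (nat_lit 0) (XT.lf (nat_lit 0) (nat_lit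 223758169845) (nat_lit 532) (nat_lit 95130468690) (nat_lit 532) (nat_lit 95130468690) (nat_lit 42) (nat_lit 3) (nat_lit 49) (nat_lit 3) (nat_lit 49) (nat_lit 5) (nat_lit 329) (nat_lit 329) (nat_lit 122)) (XT.lf (nat_lit 76) (nat_lit 189428486639) (nat_lit 0) (nat_lit 280544352809) (nat_lit 532) (nat_lit 390822435564) (nat_lit 43) (nat_lit 5) (nat_lit 42) (nat_lit 3) (nat_lit 49) (nat_lit 5) (nat_lit 330) (nat_lit 329) (nat_lit 121))) (XT.nd (nat_lit 78) (nat_lit 0) (nat_lit 0) (XT.lf (nat_lit 0) (nat_lit 502094719259) (nat_lit 456) (nat_lit 288110165361) (nat_lit 532) (nat_lit 105338507022) (nat_lit 43) (nat_lit 5) (nat_lit 49) (nat_lit 5) (nat_lit 50) (nat_lit 5) (nat_lit 331) (nat_lit 329) (nat_lit 120)) (XT.lf (nat_lit 76) (nat_lit 124761175112) (nat_lit 0) (nat_lit 422312541871) (nat_lit 532) (nat_lit 385174651248) (nat_lit 44) (nat_lit 5) (nat_lit 43) (nat_lit 5) (nat_lit 50) (nat_lit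 5) (nat_lit 332) (nat_lit 329) (nat_lit 119)))))) (XT.nd (nat_lit 546) (nat_lit 456) (nat_lit 0) (XT.nd (nat_lit 234) (nat_lit 608) (nat_lit 0) (XT.nd (nat_lit 78) (nat_lit 0) (nat_lit 76) (XT.lf (nat_lit 76) (nat_lit 587047298014) (nat_lit 0) (nat_lit 16481171440) (nat_lit 532) (nat_lit 367731078727) (nat_lit 44) (nat_lit 5) (nat_lit 43) (nat_lit 5) (nat_lit 50) (nat_lit 5) (nat_lit 333) (nat_lit 329) (nat_lit 118)) (XT.nd (nat_lit 78) (nat_lit 0) (nat_lit 0) (XT.lf (nat_lit 76) (nat_lit 66085863309) (nat_lit 0) (nat_lit 610147800447) (nat_lit 532) (nat_lit 336219233865) (nat_lit 45) (nat_lit 5) (nat_lit 44) (nat_lit 5) (nat_lit 51) (nat_lit 5) (nat_lit 334) (nat_lit 329) (nat_lit 117)) (XT.lf (nat_lit 76) (nat_lit 573807687222) (nat_lit 0) (nat_lit 191869868462) (nat_lit 532) (nat_lit 290390376791) (nat_lit 45) (nat_lit 5) (nat_lit 44) (nat_lit 5) (nat_lit 51) (nat_lit 5) (nat_lit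 335) (nat_lit 329) (nat_lit 116)))) (XT.nd (nat_lit 156) (nat_lit 304) (nat_lit 0) (XT.nd (nat_lit 78) (nat_lit 0) (nat_lit 0) (XT.lf (nat_lit 0) (nat_lit 13395280745) (nat_lit 456) (nat_lit 855453715911) (nat_lit 532) (nat_lit 233797410468) (nat_lit 39) (nat_lit 5) (nat_lit 45) (nat_lit 5) (nat_lit 46) (nat_lit 5) (nat_lit 336) (nat_lit 329) (nat_lit 115)) (XT.lf (nat_lit 0) (nat_lit 570883748742) (nat_lit 456) (nat_lit 427433713197) (nat_lit 532) (nat_lit 153190233102) (nat_lit 39) (nat_lit 5) (nat_lit 45) (nat_lit 5) (nat_lit 46) (nat_lit 5) (nat_lit 337) (nat_lit 329) (nat_lit 114))) (XT.nd (nat_lit 78) (nat_lit 304) (nat_lit 0) (XT.lf (nat_lit 0) (nat_lit 1138981010733) (nat_lit 532) (nat_lit 32144208781) (nat_lit 76) (nat_lit 33085657995) (nat_lit 39) (nat_lit 5) (nat_lit 46) (nat_lit 5) (nat_lit 40) (nat_lit 5) (nat_lit 338) (nat_lit 329) (nat_lit 113)) (XT.lf (nat_lit 0) (nat_lit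 53931426286) (nat_lit 304) (nat_lit 682468389685) (nat_lit 76) (nat_lit 522620971841) (nat_lit 35) (nat_lit 5) (nat_lit 39) (nat_lit 5) (nat_lit 36) (nat_lit 5) (nat_lit 339) (nat_lit 329) (nat_lit 112))))) (XT.nd (nat_lit 312) (nat_lit 0) (nat_lit 0) (XT.nd (nat_lit 156) (nat_lit 228) (nat_lit 0) (XT.nd (nat_lit 78) (nat_lit 228) (nat_lit 0) (XT.lf (nat_lit 0) (nat_lit 180003218584) (nat_lit 304) (nat_lit 84089492763) (nat_lit 76) (nat_lit 1053915100794) (nat_lit 35) (nat_lit 5) (nat_lit 39) (nat_lit 5) (nat_lit 36) (nat_lit 5) (nat_lit 340) (nat_lit 329) (nat_lit 111)) (XT.lf (nat_lit 0) (nat_lit 336678581701) (nat_lit 304) (nat_lit 795099142601) (nat_lit 76) (nat_lit 248294647934) (nat_lit 32) (nat_lit 5) (nat_lit 36) (nat_lit 5) (nat_lit 33) (nat_lit 5) (nat_lit 341) (nat_lit 329) (nat_lit 110))) (XT.nd (nat_lit 78) (nat_lit 228) (nat_lit 0) (XT.lf (nat_lit 0) (nat_lit 515106394662)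 (nat_lit 304) (nat_lit 141494225129) (nat_lit 76) (nat_lit 789764003697) (nat_lit 32) (nat_lit 5) (nat_lit 36) (nat_lit 5) (nat_lit 33) (nat_lit 5) (nat_lit 342) (nat_lit 329) (nat_lit 109)) (XT.lf (nat_lit 0) (nat_lit 594119336553) (nat_lit 228) (nat_lit 127977676519) (nat_lit 304) (nat_lit 794720155348) (nat_lit 29) (nat_lit 5) (nat_lit 32) (nat_lit 5) (nat_lit 33) (nat_lit 5) (nat_lit 343) (nat_lit 329) (nat_lit 108)))) (XT.nd (nat_lit 39624) (nat_lit 0) (nat_lit 988) (XT.nd (nat_lit 39546) (nat_lit 0) (nat_lit 988) (XT.lf (nat_lit 0) (nat_lit 960268665715) (nat_lit 304) (nat_lit 206720626010) (nat_lit 76) (nat_lit 424746882451) (nat_lit 29) (nat_lit 5) (nat_lit 33) (nat_lit 5) (nat_lit 30) (nat_lit 5) (nat_lit 344) (nat_lit 329) (nat_lit 107)) (XT.lf (nat_lit 0) (nat_lit 241658907863) (nat_lit 532) (nat_lit 102740860434) (nat_lit 532) (nat_lit 102740860434) (nat_lit 42) (nat_lit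 3) (nat_lit 49) (nat_lit 3) (nat_lit 49) (nat_lit 5) (nat_lit 330) (nat_lit 330) (nat_lit 120))) (XT.nd (nat_lit 78) (nat_lit 0) (nat_lit 76) (XT.lf (nat_lit 76) (nat_lit 204582854756) (nat_lit 0) (nat_lit 302987970345) (nat_lit 532) (nat_lit 422088058643) (nat_lit 43) (nat_lit 5) (nat_lit 42) (nat_lit 3) (nat_lit 49) (nat_lit 5) (nat_lit 331) (nat_lit 330) (nat_lit 119)) (XT.lf (nat_lit 0) (nat_lit 542262442013) (nat_lit 456) (nat_lit 311158882182) (nat_lit 532) (nat_lit 113765526617) (nat_lit 43) (nat_lit 5) (nat_lit 49) (nat_lit 5) (nat_lit 50) (nat_lit 5) (nat_lit 332) (nat_lit 330) (nat_lit 118))))))))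
noncomputable def xc127 : XT := (XT.nd (nat_lit 81666) (nat_lit 0) (nat_lit 228) (XT.nd (nat_lit 40716) (nat_lit 0) (nat_lit 228) (XT.nd (nat_lit 546) (nat_lit 532) (nat_lit 0) (XT.nd (nat_lit 234) (nat_lit 304) (nat_lit 0) (XT.nd (nat_lit 78) (nat_lit 0) (nat_lit 0) (XT.lf (nat_lit 76) (nat_lit 134742163089) (nat_lit 0) (nat_lit 456097587970) (nat_lit 532) (nat_lit 415988475189) (nat_lit 44) (nat_lit 5) (nat_lit 43) (nat_lit 5) (nat_lit 50) (nat_lit 5) (nat_lit 333) (nat_lit 330) (nat_lit 117)) (XT.nd (nat_lit 78) (nat_lit 0) (nat_lit 76) (XT.lf (nat_lit 76) (nat_lit 634011168862) (nat_lit 0) (nat_lit 17799704738) (nat_lit 532) (nat_lit 397149427841) (nat_lit 44) (nat_lit 5) (nat_lit 43) (nat_lit 5) (nat_lit 50) (nat_lit 5) (nat_lit 334) (nat_lit 330) (nat_lit 116)) (XT.lf (nat_lit 76) (nat_lit 71372828432) (nat_lit 0) (nat_lit 658959647066) (nat_lit 532) (nat_lit 363116644009) (nat_lit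 45) (nat_lit 5) (nat_lit 44) (nat_lit 5) (nat_lit 51) (nat_lit 5) (nat_lit 335) (nat_lit 330) (nat_lit 115)))) (XT.nd (nat_lit 156) (nat_lit 0) (nat_lit 0) (XT.nd (nat_lit 78) (nat_lit 380) (nat_lit 0) (XT.lf (nat_lit 76) (nat_lit 619712391142) (nat_lit 0) (nat_lit 207219478849) (nat_lit 532) (nat_lit 313621487892) (nat_lit 45) (nat_lit 5) (nat_lit 44) (nat_lit 5) (nat_lit 51) (nat_lit 5) (nat_lit 336) (nat_lit 330) (nat_lit 114)) (XT.lf (nat_lit 0) (nat_lit 14466999341) (nat_lit 456) (nat_lit 923890020609) (nat_lit 532) (nat_lit 252501091088) (nat_lit 39) (nat_lit 5) (nat_lit 45) (nat_lit 5) (nat_lit 46) (nat_lit 5) (nat_lit 337) (nat_lit 330) (nat_lit 113))) (XT.nd (nat_lit 78) (nat_lit 0) (nat_lit 0) (XT.lf (nat_lit 0) (nat_lit 616554537657) (nat_lit 456) (nat_lit 461628417128) (nat_lit 532) (nat_lit 165445347845) (nat_lit 39) (nat_lit 5) (nat_lit 45) (nat_lit 5) (nat_lit 46) (nat_lit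 5) (nat_lit 338) (nat_lit 330) (nat_lit 112)) (XT.lf (nat_lit 0) (nat_lit 1230099580227) (nat_lit 532) (nat_lit 34715655487) (nat_lit 76) (nat_lit 35732504588) (nat_lit 39) (nat_lit 5) (nat_lit 46) (nat_lit 5) (nat_lit 40) (nat_lit 5) (nat_lit 339) (nat_lit 330) (nat_lit 111))))) (XT.nd (nat_lit 234) (nat_lit 0) (nat_lit 0) (XT.nd (nat_lit 78) (nat_lit 228) (nat_lit 0) (XT.lf (nat_lit 0) (nat_lit 58246027033) (nat_lit 304) (nat_lit 737065768307) (nat_lit 76) (nat_lit 564430648292) (nat_lit 35) (nat_lit 5) (nat_lit 39) (nat_lit 5) (nat_lit 36) (nat_lit 5) (nat_lit 340) (nat_lit 330) (nat_lit 110)) (XT.nd (nat_lit 78) (nat_lit 228) (nat_lit 0) (XT.lf (nat_lit 0) (nat_lit 194403556298) (nat_lit 304) (nat_lit 90816566486) (nat_lit 76) (nat_lit 1138228307657) (nat_lit 35) (nat_lit 5) (nat_lit 39) (nat_lit 5) (nat_lit 36) (nat_lit 5) (nat_lit 341) (nat_lit 330) (nat_lit 109)) (XT.lf (nat_lit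 0) (nat_lit 363612944705) (nat_lit 304) (nat_lit 858706984318) (nat_lit 76) (nat_lit 268158226641) (nat_lit 32) (nat_lit 5) (nat_lit 36) (nat_lit 5) (nat_lit 33) (nat_lit 5) (nat_lit 342) (nat_lit 330) (nat_lit 108)))) (XT.nd (nat_lit 39780) (nat_lit 0) (nat_lit 760) (XT.nd (nat_lit 39702) (nat_lit 0) (nat_lit 760) (XT.lf (nat_lit 0) (nat_lit 556314977038) (nat_lit 304) (nat_lit 152813680093) (nat_lit 76) (nat_lit 852945130357) (nat_lit 32) (nat_lit 5) (nat_lit 36) (nat_lit 5) (nat_lit 33) (nat_lit 5) (nat_lit 343) (nat_lit 330) (nat_lit 107)) (XT.lf (nat_lit 0) (nat_lit 260991692878) (nat_lit 532) (nat_lit 110960090045) (nat_lit 532) (nat_lit 110960090045) (nat_lit 42) (nat_lit 3) (nat_lit 49) (nat_lit 3) (nat_lit 49) (nat_lit 5) (nat_lit 331) (nat_lit 331) (nat_lit 118))) (XT.nd (nat_lit 78) (nat_lit 0) (nat_lit 76) (XT.lf (nat_lit 76) (nat_lit 220949559599) (nat_lit 0) (nat_lit 327227067396)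 (nat_lit 532) (nat_lit 455854956074) (nat_lit 43) (nat_lit 5) (nat_lit 42) (nat_lit 3) (nat_lit 49) (nat_lit 5) (nat_lit 332) (nat_lit 331) (nat_lit 117)) (XT.lf (nat_lit 0) (nat_lit 585643561871) (nat_lit 456) (nat_lit 336051510102) (nat_lit 532) (nat_lit 122866716478) (nat_lit 43) (nat_lit 5) (nat_lit 49) (nat_lit 5) (nat_lit 50) (nat_lit 5) (nat_lit 333) (nat_lit 331) (nat_lit 116)))))) (XT.nd (nat_lit 546) (nat_lit 304) (nat_lit 0) (XT.nd (nat_lit 234) (nat_lit 304) (nat_lit 0) (XT.nd (nat_lit 78) (nat_lit 0) (nat_lit 0) (XT.lf (nat_lit 76) (nat_lit 145521616698) (nat_lit 0) (nat_lit 492585431658) (nat_lit 532) (nat_lit 449267426183) (nat_lit 44) (nat_lit 5) (nat_lit 43) (nat_lit 5) (nat_lit 50) (nat_lit 5) (nat_lit 334) (nat_lit 331) (nat_lit 115)) (XT.nd (nat_lit 78) (nat_lit 0) (nat_lit 76) (XT.lf (nat_lit 76) (nat_lit 684732136966) (nat_lit 0) (nat_lit 19223715052) (nat_lit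 532) (nat_lit 428921264456) (nat_lit 44) (nat_lit 5) (nat_lit 43) (nat_lit 5) (nat_lit 50) (nat_lit 5) (nat_lit 335) (nat_lit 331) (nat_lit 114)) (XT.lf (nat_lit 76) (nat_lit 77082737061) (nat_lit 0) (nat_lit 711676438193) (nat_lit 532) (nat_lit 392165865306) (nat_lit 45) (nat_lit 5) (nat_lit 44) (nat_lit 5) (nat_lit 51) (nat_lit 5) (nat_lit 336) (nat_lit 331) (nat_lit 113)))) (XT.nd (nat_lit 156) (nat_lit 0) (nat_lit 0) (XT.nd (nat_lit 78) (nat_lit 380) (nat_lit 0) (XT.lf (nat_lit 76) (nat_lit 669289458688) (nat_lit 0) (nat_lit 223797055085) (nat_lit 532) (nat_lit 338711104865) (nat_lit 45) (nat_lit 5) (nat_lit 44) (nat_lit 5) (nat_lit 51) (nat_lit 5) (nat_lit 337) (nat_lit 331) (nat_lit 112)) (XT.lf (nat_lit 0) (nat_lit 15624441711) (nat_lit 456) (nat_lit 997801228623) (nat_lit 532) (nat_lit 272701082166) (nat_lit 39) (nat_lit 5) (nat_lit 45) (nat_lit 5) (nat_lit 46) (nat_lit 5) (nat_lit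 338) (nat_lit 331) (nat_lit 111))) (XT.nd (nat_lit 78) (nat_lit 0) (nat_lit 0) (XT.lf (nat_lit 0) (nat_lit 665878976987) (nat_lit 456) (nat_lit 498558696393) (nat_lit 532) (nat_lit 178680886590) (nat_lit 39) (nat_lit 5) (nat_lit 45) (nat_lit 5) (nat_lit 46) (nat_lit 5) (nat_lit 339) (nat_lit 331) (nat_lit 110)) (XT.lf (nat_lit 0) (nat_lit 1328507622635) (nat_lit 532) (nat_lit 37492830769) (nat_lit 76) (nat_lit 38591099770) (nat_lit 39) (nat_lit 5) (nat_lit 46) (nat_lit 5) (nat_lit 40) (nat_lit 5) (nat_lit 340) (nat_lit 331) (nat_lit 109))))) (XT.nd (nat_lit 40092) (nat_lit 0) (nat_lit 608) (XT.nd (nat_lit 39936) (nat_lit 0) (nat_lit 532) (XT.nd (nat_lit 78) (nat_lit 0) (nat_lit 0) (XT.lf (nat_lit 0) (nat_lit 62905783480) (nat_lit 304) (nat_lit 796030950422) (nat_lit 76) (nat_lit 609585099044) (nat_lit 35) (nat_lit 5) (nat_lit 39) (nat_lit 5) (nat_lit 36) (nat_lit 5) (nat_lit 341) (nat_lit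 331) (nat_lit 108)) (XT.lf (nat_lit 0) (nat_lit 209955909583) (nat_lit 304) (nat_lit 98081818334) (nat_lit 76) (nat_lit 1229286571241) (nat_lit 35) (nat_lit 5) (nat_lit 39) (nat_lit 5) (nat_lit 36) (nat_lit 5) (nat_lit 342) (nat_lit 331) (nat_lit 107))) (XT.nd (nat_lit 78) (nat_lit 0) (nat_lit 0) (XT.lf (nat_lit 0) (nat_lit 281871090367) (nat_lit 532) (nat_lit 119836863620) (nat_lit 532) (nat_lit 119836863620) (nat_lit 42) (nat_lit 3) (nat_lit 49) (nat_lit 3) (nat_lit 49) (nat_lit 5) (nat_lit 332) (nat_lit 332) (nat_lit 116)) (XT.lf (nat_lit 76) (nat_lit 238625589922) (nat_lit 0) (nat_lit 353405283734) (nat_lit 532) (nat_lit 492323226307) (nat_lit 43) (nat_lit 5) (nat_lit 42) (nat_lit 3) (nat_lit 49) (nat_lit 5) (nat_lit 333) (nat_lit 332) (nat_lit 115)))) (XT.nd (nat_lit 156) (nat_lit 0) (nat_lit 0) (XT.nd (nat_lit 78) (nat_lit 0) (nat_lit 0) (XT.lf (nat_lit 0) (nat_lit 632495153557)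 (nat_lit 456) (nat_lit 362935560047) (nat_lit 532) (nat_lit 132696008983) (nat_lit 43) (nat_lit 5) (nat_lit 49) (nat_lit 5) (nat_lit 50) (nat_lit 5) (nat_lit 334) (nat_lit 332) (nat_lit 114)) (XT.lf (nat_lit 76) (nat_lit 157163415103) (nat_lit 0) (nat_lit 531992297613) (nat_lit 532) (nat_lit 485208711376) (nat_lit 44) (nat_lit 5) (nat_lit 43) (nat_lit 5) (nat_lit 50) (nat_lit 5) (nat_lit 335) (nat_lit 332) (nat_lit 113))) (XT.nd (nat_lit 78) (nat_lit 0) (nat_lit 76) (XT.lf (nat_lit 76) (nat_lit 739510771876) (nat_lit 0) (nat_lit 20761641351) (nat_lit 532) (nat_lit 463234864778) (nat_lit 44) (nat_lit 5) (nat_lit 43) (nat_lit 5) (nat_lit 50) (nat_lit 5) (nat_lit 336) (nat_lit 332) (nat_lit 112)) (XT.lf (nat_lit 76) (nat_lit 83249426632) (nat_lit 0) (nat_lit 768610569847) (nat_lit 532) (nat_lit 423539040032) (nat_lit 45) (nat_lit 5) (nat_lit 44) (nat_lit 5) (nat_lit 51) (nat_lit 5) (nat_lit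 337) (nat_lit 332) (nat_lit 111))))))) (XT.nd (nat_lit 81042) (nat_lit 0) (nat_lit 532) (XT.nd (nat_lit 40404) (nat_lit 0) (nat_lit 304) (XT.nd (nat_lit 234) (nat_lit 304) (nat_lit 0) (XT.nd (nat_lit 78) (nat_lit 380) (nat_lit 0) (XT.lf (nat_lit 76) (nat_lit 722832680759) (nat_lit 0) (nat_lit 241700834861) (nat_lit 532) (nat_lit 365807905755) (nat_lit 45) (nat_lit 5) (nat_lit 44) (nat_lit 5) (nat_lit 51) (nat_lit 5) (nat_lit 338) (nat_lit 332) (nat_lit 110)) (XT.nd (nat_lit 78) (nat_lit 0) (nat_lit 0) (XT.lf (nat_lit 0) (nat_lit 16874467712) (nat_lit 456) (nat_lit 1077625332371) (nat_lit 532) (nat_lit 294517086256) (nat_lit 39) (nat_lit 5) (nat_lit 45) (nat_lit 5) (nat_lit 46) (nat_lit 5) (nat_lit 339) (nat_lit 332) (nat_lit 109)) (XT.lf (nat_lit 0) (nat_lit 719149360575) (nat_lit 456) (nat_lit 538443397158) (nat_lit 532) (nat_lit 192975281144) (nat_lit 39) (nat_lit 5) (nat_lit 45)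 (nat_lit 5) (nat_lit 46) (nat_lit 5) (nat_lit 340) (nat_lit 332) (nat_lit 108)))) (XT.nd (nat_lit 40014) (nat_lit 0) (nat_lit 532) (XT.nd (nat_lit 78) (nat_lit 304) (nat_lit 0) (XT.lf (nat_lit 0) (nat_lit 1434788297595) (nat_lit 532) (nat_lit 40492191081) (nat_lit 76) (nat_lit 41678383307) (nat_lit 39) (nat_lit 5) (nat_lit 46) (nat_lit 5) (nat_lit 40) (nat_lit 5) (nat_lit 341) (nat_lit 332) (nat_lit 107)) (XT.lf (nat_lit 0) (nat_lit 67938309845) (nat_lit 304) (nat_lit 859713358427) (nat_lit 76) (nat_lit 658351906015) (nat_lit 35) (nat_lit 5) (nat_lit 39) (nat_lit 5) (nat_lit 36) (nat_lit 5) (nat_lit 342) (nat_lit 332) (nat_lit 106))) (XT.nd (nat_lit 78) (nat_lit 0) (nat_lit 0) (XT.lf (nat_lit 0) (nat_lit 304420830801) (nat_lit 532) (nat_lit 129423783879) (nat_lit 532) (nat_lit 129423783879) (nat_lit 42) (nat_lit 3) (nat_lit 49) (nat_lit 3) (nat_lit 49) (nat_lit 5) (nat_lit 333) (nat_lit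 333) (nat_lit 114)) (XT.lf (nat_lit 76) (nat_lit 257715693318) (nat_lit 0) (nat_lit 381677750111) (nat_lit 532) (nat_lit 531708976170) (nat_lit 43) (nat_lit 5) (nat_lit 42) (nat_lit 3) (nat_lit 49) (nat_lit 5) (nat_lit 334) (nat_lit 333) (nat_lit 113))))) (XT.nd (nat_lit 312) (nat_lit 304) (nat_lit 0) (XT.nd (nat_lit 156) (nat_lit 0) (nat_lit 0) (XT.nd (nat_lit 78) (nat_lit 0) (nat_lit 0) (XT.lf (nat_lit 0) (nat_lit 683094857350) (nat_lit 456) (nat_lit 391970344097) (nat_lit 532) (nat_lit 143311651283) (nat_lit 43) (nat_lit 5) (nat_lit 49) (nat_lit 5) (nat_lit 50) (nat_lit 5) (nat_lit 335) (nat_lit 333) (nat_lit 112)) (XT.lf (nat_lit 76) (nat_lit 169736547526) (nat_lit 0) (nat_lit 574551708361) (nat_lit 532) (nat_lit 524025314921) (nat_lit 44) (nat_lit 5) (nat_lit 43) (nat_lit 5) (nat_lit 50) (nat_lit 5) (nat_lit 336) (nat_lit 333) (nat_lit 111))) (XT.nd (nat_lit 78) (nat_lit 0) (nat_lit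 76) (XT.lf (nat_lit 76) (nat_lit 798671688455) (nat_lit 0) (nat_lit 22422597603) (nat_lit 532) (nat_lit 500293567511) (nat_lit 44) (nat_lit 5) (nat_lit 43) (nat_lit 5) (nat_lit 50) (nat_lit 5) (nat_lit 337) (nat_lit 333) (nat_lit 110)) (XT.lf (nat_lit 76) (nat_lit 89909441296) (nat_lit 0) (nat_lit 830099429666) (nat_lit 532) (nat_lit 457422082216) (nat_lit 45) (nat_lit 5) (nat_lit 44) (nat_lit 5) (nat_lit 51) (nat_lit 5) (nat_lit 338) (nat_lit 333) (nat_lit 109)))) (XT.nd (nat_lit 156) (nat_lit 0) (nat_lit 0) (XT.nd (nat_lit 78) (nat_lit 380) (nat_lit 0) (XT.lf (nat_lit 76) (nat_lit 780659351268) (nat_lit 0) (nat_lit 261036914827) (nat_lit 532) (nat_lit 395072463199) (nat_lit 45) (nat_lit 5) (nat_lit 44) (nat_lit 5) (nat_lit 51) (nat_lit 5) (nat_lit 339) (nat_lit 333) (nat_lit 108)) (XT.lf (nat_lit 0) (nat_lit 18224485711) (nat_lit 456) (nat_lit 1163835363639) (nat_lit 532) (nat_lit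 318078382440) (nat_lit 39) (nat_lit 5) (nat_lit 45) (nat_lit 5) (nat_lit 46) (nat_lit 5) (nat_lit 340) (nat_lit 333) (nat_lit 107))) (XT.nd (nat_lit 40092) (nat_lit 0) (nat_lit 228) (XT.lf (nat_lit 0) (nat_lit 776681365517) (nat_lit 456) (nat_lit 581518873263) (nat_lit 532) (nat_lit 208413238157) (nat_lit 39) (nat_lit 5) (nat_lit 45) (nat_lit 5) (nat_lit 46) (nat_lit 5) (nat_lit 341) (nat_lit 333) (nat_lit 106)) (XT.lf (nat_lit 0) (nat_lit 328774542881) (nat_lit 532) (nat_lit 139777661871) (nat_lit 532) (nat_lit 139777661871) (nat_lit 42) (nat_lit 3) (nat_lit 49) (nat_lit 3) (nat_lit 49) (nat_lit 5) (nat_lit 334) (nat_lit 334) (nat_lit 112)))))) (XT.nd (nat_lit 40716) (nat_lit 0) (nat_lit 0) (XT.nd (nat_lit 234) (nat_lit 0) (nat_lit 0) (XT.nd (nat_lit 78) (nat_lit 0) (nat_lit 76) (XT.lf (nat_lit 76) (nat_lit 278332996968) (nat_lit 0) (nat_lit 412212007566) (nat_lit 532) (nat_lit 574245601464)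 (nat_lit 43) (nat_lit 5) (nat_lit 42) (nat_lit 3) (nat_lit 49) (nat_lit 5) (nat_lit 335) (nat_lit 334) (nat_lit 111)) (XT.nd (nat_lit 78) (nat_lit 0) (nat_lit 0) (XT.lf (nat_lit 0) (nat_lit 737742524393) (nat_lit 456) (nat_lit 423327919539) (nat_lit 532) (nat_lit 154776550447) (nat_lit 43) (nat_lit 5) (nat_lit 49) (nat_lit 5) (nat_lit 50) (nat_lit 5) (nat_lit 336) (nat_lit 334) (nat_lit 110)) (XT.lf (nat_lit 76) (nat_lit 183315522096) (nat_lit 0) (nat_lit 620515868126) (nat_lit 532) (nat_lit 565947260070) (nat_lit 44) (nat_lit 5) (nat_lit 43) (nat_lit 5) (nat_lit 50) (nat_lit 5) (nat_lit 337) (nat_lit 334) (nat_lit 109)))) (XT.nd (nat_lit 156) (nat_lit 76) (nat_lit 0) (XT.nd (nat_lit 78) (nat_lit 0) (nat_lit 76) (XT.lf (nat_lit 76) (nat_lit 862565470539) (nat_lit 0) (nat_lit 24216426796) (nat_lit 532) (nat_lit 540316978796) (nat_lit 44) (nat_lit 5) (nat_lit 43) (nat_lit 5) (nat_lit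 50) (nat_lit 5) (nat_lit 338) (nat_lit 334) (nat_lit 108)) (XT.lf (nat_lit 76) (nat_lit 97102248497) (nat_lit 0) (nat_lit 896507396240) (nat_lit 532) (nat_lit 494015779334) (nat_lit 45) (nat_lit 5) (nat_lit 44) (nat_lit 5) (nat_lit 51) (nat_lit 5) (nat_lit 339) (nat_lit 334) (nat_lit 107))) (XT.nd (nat_lit 40248) (nat_lit 152) (nat_lit 0) (XT.lf (nat_lit 76) (nat_lit 843112147423) (nat_lit 0) (nat_lit 281919879310) (nat_lit 532) (nat_lit 426678195940) (nat_lit 45) (nat_lit 5) (nat_lit 44) (nat_lit 5) (nat_lit 51) (nat_lit 5) (nat_lit 340) (nat_lit 334) (nat_lit 106)) (XT.lf (nat_lit 0) (nat_lit 355076545419) (nat_lit 532) (nat_lit 150959853629) (nat_lit 532) (nat_lit 150959853629) (nat_lit 42) (nat_lit 3) (nat_lit 49) (nat_lit 3) (nat_lit 49) (nat_lit 5) (nat_lit 335) (nat_lit 335) (nat_lit 110))))) (XT.nd (nat_lit 40638) (nat_lit 0) (nat_lit 0) (XT.nd (nat_lit 156) (nat_lit 0) (nat_lit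 76) (XT.nd (nat_lit 78) (nat_lit 0) (nat_lit 76) (XT.lf (nat_lit 76) (nat_lit 300599678035) (nat_lit 0) (nat_lit 445189000276) (nat_lit 532) (nat_lit 620185170021) (nat_lit 43) (nat_lit 5) (nat_lit 42) (nat_lit 3) (nat_lit 49) (nat_lit 5) (nat_lit 336) (nat_lit 335) (nat_lit 109)) (XT.lf (nat_lit 0) (nat_lit 796761993606) (nat_lit 456) (nat_lit 457194108446) (nat_lit 532) (nat_lit 167158646243) (nat_lit 43) (nat_lit 5) (nat_lit 49) (nat_lit 5) (nat_lit 50) (nat_lit 5) (nat_lit 337) (nat_lit 335) (nat_lit 108))) (XT.nd (nat_lit 78) (nat_lit 0) (nat_lit 0) (XT.lf (nat_lit 76) (nat_lit 197980807389) (nat_lit 0) (nat_lit 670157157377) (nat_lit 532) (nat_lit 611222972249) (nat_lit 44) (nat_lit 5) (nat_lit 43) (nat_lit 5) (nat_lit 50) (nat_lit 5) (nat_lit 338) (nat_lit 335) (nat_lit 107)) (XT.lf (nat_lit 76) (nat_lit 931570748483) (nat_lit 0) (nat_lit 26153759274) (nat_lit 532) (nat_lit 583542273557)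 (nat_lit 44) (nat_lit 5) (nat_lit 43) (nat_lit 5) (nat_lit 50) (nat_lit 5) (nat_lit 339) (nat_lit 335) (nat_lit 106)))) (XT.nd (nat_lit 156) (nat_lit 0) (nat_lit 0) (XT.nd (nat_lit 78) (nat_lit 0) (nat_lit 0) (XT.lf (nat_lit 0) (nat_lit 383482702581) (nat_lit 532) (nat_lit 163036623751) (nat_lit 532) (nat_lit 163036623751) (nat_lit 42) (nat_lit 3) (nat_lit 49) (nat_lit 3) (nat_lit 49) (nat_lit 5) (nat_lit 336) (nat_lit 336) (nat_lit 108)) (XT.lf (nat_lit 76) (nat_lit 324647687695) (nat_lit 0) (nat_lit 480804147823) (nat_lit 532) (nat_lit 669799915412) (nat_lit 43) (nat_lit 5) (nat_lit 42) (nat_lit 3) (nat_lit 49) (nat_lit 5) (nat_lit 337) (nat_lit 336) (nat_lit 107))) (XT.nd (nat_lit 40560) (nat_lit 76) (nat_lit 0) (XT.lf (nat_lit 0) (nat_lit 860503010761) (nat_lit 456) (nat_lit 493769598837) (nat_lit 532) (nat_lit 180531313732) (nat_lit 43) (nat_lit 5) (nat_lit 49) (nat_lit 5) (nat_lit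 50) (nat_lit 5) (nat_lit 338) (nat_lit 336) (nat_lit 106)) (XT.lf (nat_lit 0) (nat_lit 414161347532) (nat_lit 532) (nat_lit 176079538074) (nat_lit 532) (nat_lit 176079538074) (nat_lit 42) (nat_lit 3) (nat_lit 49) (nat_lit 3) (nat_lit 49) (nat_lit 5) (nat_lit 337) (nat_lit 337) (nat_lit 106))))))))

set_option maxRecDepth 10000000 in
noncomputable def Tp : PT := (PT.nd (nat_lit 5374668) (PT.nd (nat_lit 5090280) (PT.nd (nat_lit 4805970) pc0 pc1) (PT.nd (nat_lit 162630) pc2 pc3)) (PT.nd (nat_lit 162708) (PT.nd (nat_lit 120588) pc4 pc5) (PT.nd (nat_lit 120276) pc6 pc7)))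

set_option maxRecDepth 10000000 in
noncomputable def Tx : XT := (XT.nd (nat_lit 8400132) (nat_lit 0) (nat_lit 76) XT.nil (XT.nd (nat_lit 5321238) (nat_lit 0) (nat_lit 0) (XT.nd (nat_lit 2515890) (nat_lit 0) (nat_lit 0) (XT.nd (nat_lit 1744158) (nat_lit 0) (nat_lit 0) (XT.nd (nat_lit 1217580) (nat_lit 0) (nat_lit 0) (XT.nd (nat_lit 852384) (nat_lit 0) (nat_lit 0) (XT.nd (nat_lit 608010) (nat_lit 0) (nat_lit 0) (XT.nd (nat_lit 406146) (nat_lit 0) (nat_lit 0) (XT.nd (nat_lit 284076) (nat_lit 0) (nat_lit 0) xc0 xc1) (XT.nd (nat_lit 120666) (nat_lit 0) (nat_lit 0) xc2 xc3)) (XT.nd (nat_lit 122850) (nat_lit 0) (nat_lit 0) (XT.nd (nat_lit 80496) (nat_lit 0) (nat_lit 0) xc4 xc5) (XT.nd (nat_lit 79638) (nat_lit 0) (nat_lit 0) xc6 xc7))) (XT.nd (nat_lit 202410) (nat_lit 0) (nat_lit 0) (XT.nd (nat_lit 120042) (nat_lit 0) (nat_lit 0) (XT.nd (nat_lit 41652) (nat_lit 0) (nat_lit 0) xc8 xc9) (XT.nd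 (nat_lit 41262) (nat_lit 0) (nat_lit 0) xc10 xc11)) (XT.nd (nat_lit 81666) (nat_lit 0) (nat_lit 0) (XT.nd (nat_lit 40872) (nat_lit 0) (nat_lit 0) xc12 xc13) (XT.nd (nat_lit 40638) (nat_lit 0) (nat_lit 0) xc14 xc15)))) (XT.nd (nat_lit 283998) (nat_lit 0) (nat_lit 0) (XT.nd (nat_lit 160602) (nat_lit 0) (nat_lit 0) (XT.nd (nat_lit 80574) (nat_lit 0) (nat_lit 0) (XT.nd (nat_lit 40326) (nat_lit 0) (nat_lit 0) xc16 xc17) (XT.nd (nat_lit 40092) (nat_lit 0) (nat_lit 0) xc18 xc19)) (XT.nd (nat_lit 79326) (nat_lit 0) (nat_lit 0) (XT.nd (nat_lit 39702) (nat_lit 0) (nat_lit 0) xc20 xc21) (XT.nd (nat_lit 4602) (nat_lit 0) (nat_lit 0) xc22 xc23))) (XT.nd (nat_lit 121992) (nat_lit 0) (nat_lit 0) (XT.nd (nat_lit 78390) (nat_lit 0) (nat_lit 0) (XT.nd (nat_lit 39234) (nat_lit 0) (nat_lit 0) xc24 xc25) (XT.nd (nat_lit 4602) (nat_lit 0) (nat_lit 0) xc26 xc27)) (XT.nd (nat_lit 77454) (nat_lit 0) (nat_lit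 0) (XT.nd (nat_lit 38766) (nat_lit 0) (nat_lit 0) xc28 xc29) (XT.nd (nat_lit 4602) (nat_lit 0) (nat_lit 0) xc30 xc31))))) (XT.nd (nat_lit 404586) (nat_lit 0) (nat_lit 0) (XT.nd (nat_lit 204126) (nat_lit 0) (nat_lit 0) (XT.nd (nat_lit 119184) (nat_lit 0) (nat_lit 0) (XT.nd (nat_lit 42900) (nat_lit 0) (nat_lit 0) (XT.nd (nat_lit 38298) (nat_lit 0) (nat_lit 0) xc32 xc33) (XT.nd (nat_lit 38220) (nat_lit 0) (nat_lit 0) xc34 xc35)) (XT.nd (nat_lit 42510) (nat_lit 0) (nat_lit 0) (XT.nd (nat_lit 4524) (nat_lit 0) (nat_lit 0) xc36 xc37) (XT.nd (nat_lit 37830) (nat_lit 0) (nat_lit 76) xc38 xc39))) (XT.nd (nat_lit 117078) (nat_lit 0) (nat_lit 0) (XT.nd (nat_lit 42198) (nat_lit 0) (nat_lit 0) (XT.nd (nat_lit 37596) (nat_lit 0) (nat_lit 0) xc40 xc41) (XT.nd (nat_lit 37518) (nat_lit 0) (nat_lit 0) xc42 xc43)) (XT.nd (nat_lit 41730) (nat_lit 0) (nat_lit 0) (XT.nd (nat_lit 4524) (nat_lit 76) (nat_lit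 0) xc44 xc45) (XT.nd (nat_lit 4602) (nat_lit 0) (nat_lit 0) xc46 xc47)))) (XT.nd (nat_lit 166296) (nat_lit 0) (nat_lit 0) (XT.nd (nat_lit 82992) (nat_lit 0) (nat_lit 0) (XT.nd (nat_lit 41418) (nat_lit 0) (nat_lit 0) (XT.nd (nat_lit 4524) (nat_lit 0) (nat_lit 0) xc48 xc49) (XT.nd (nat_lit 36972) (nat_lit 0) (nat_lit 76) xc50 xc51)) (XT.nd (nat_lit 41574) (nat_lit 0) (nat_lit 0) (XT.nd (nat_lit 36972) (nat_lit 0) (nat_lit 76) xc52 xc53) (XT.nd (nat_lit 37128) (nat_lit 0) (nat_lit 76) xc54 xc55))) (XT.nd (nat_lit 116610) (nat_lit 0) (nat_lit 0) (XT.nd (nat_lit 74568) (nat_lit 0) (nat_lit 0) (XT.nd (nat_lit 37206) (nat_lit 0) (nat_lit 0) xc56 xc57) (XT.nd (nat_lit 4602) (nat_lit 228) (nat_lit 0) xc58 xc59)) (XT.nd (nat_lit 42042) (nat_lit 0) (nat_lit 0) (XT.nd (nat_lit 4524) (nat_lit 76) (nat_lit 0) xc60 xc61) (XT.nd (nat_lit 4602) (nat_lit 0) (nat_lit 0) xc62 xc63)))))) (XT.nd (nat_lit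 895128) (nat_lit 0) (nat_lit 76) (XT.nd (nat_lit 408096) (nat_lit 0) (nat_lit 76) (XT.nd (nat_lit 202878) (nat_lit 0) (nat_lit 0) (XT.nd (nat_lit 84552) (nat_lit 0) (nat_lit 0) (XT.nd (nat_lit 42198) (nat_lit 0) (nat_lit 0) (XT.nd (nat_lit 37596) (nat_lit 0) (nat_lit 76) xc64 xc65) (XT.nd (nat_lit 37752) (nat_lit 0) (nat_lit 0) xc66 xc67)) (XT.nd (nat_lit 75660) (nat_lit 0) (nat_lit 0) (XT.nd (nat_lit 37752) (nat_lit 0) (nat_lit 0) xc68 xc69) (XT.nd (nat_lit 4602) (nat_lit 76) (nat_lit 0) xc70 xc71))) (XT.nd (nat_lit 119184) (nat_lit 0) (nat_lit 76) (XT.nd (nat_lit 42666) (nat_lit 0) (nat_lit 0) (XT.nd (nat_lit 38064) (nat_lit 0) (nat_lit 76) xc72 xc73) (XT.nd (nat_lit 38220) (nat_lit 0) (nat_lit 76) xc74 xc75)) (XT.nd (nat_lit 42900) (nat_lit 0) (nat_lit 0) (XT.nd (nat_lit 4524) (nat_lit 0) (nat_lit 0) xc76 xc77) (XT.nd (nat_lit 38532) (nat_lit 0) (nat_lit 0) xc78 xc79)))) (XT.nd (nat_lit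 241878) (nat_lit 0) (nat_lit 0) (XT.nd (nat_lit 120588) (nat_lit 0) (nat_lit 0) (XT.nd (nat_lit 77220) (nat_lit 0) (nat_lit 0) (XT.nd (nat_lit 38532) (nat_lit 0) (nat_lit 0) xc80 xc81) (XT.nd (nat_lit 4602) (nat_lit 0) (nat_lit 0) xc82 xc83)) (XT.nd (nat_lit 43368) (nat_lit 0) (nat_lit 0) (XT.nd (nat_lit 38766) (nat_lit 0) (nat_lit 0) xc84 xc85) (XT.nd (nat_lit 38922) (nat_lit 0) (nat_lit 0) xc86 xc87))) (XT.nd (nat_lit 122226) (nat_lit 0) (nat_lit 0) (XT.nd (nat_lit 43680) (nat_lit 0) (nat_lit 0) (XT.nd (nat_lit 39078) (nat_lit 0) (nat_lit 0) xc88 xc89) (XT.nd (nat_lit 39234) (nat_lit 0) (nat_lit 0) xc90 xc91)) (XT.nd (nat_lit 78780) (nat_lit 0) (nat_lit 0) (XT.nd (nat_lit 39312) (nat_lit 0) (nat_lit 0) xc92 xc93) (XT.nd (nat_lit 4602) (nat_lit 152) (nat_lit 0) xc94 xc95))))) (XT.nd (nat_lit 609336) (nat_lit 0) (nat_lit 228) (XT.nd (nat_lit 284154) (nat_lit 0) (nat_lit 0) (XT.nd (nat_lit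 123864) (nat_lit 0) (nat_lit 0) (XT.nd (nat_lit 79404) (nat_lit 0) (nat_lit 0) (XT.nd (nat_lit 39624) (nat_lit 0) (nat_lit 0) xc96 xc97) (XT.nd (nat_lit 39858) (nat_lit 0) (nat_lit 0) xc98 xc99)) (XT.nd (nat_lit 79872) (nat_lit 0) (nat_lit 0) (XT.nd (nat_lit 39858) (nat_lit 0) (nat_lit 0) xc100 xc101) (XT.nd (nat_lit 40170) (nat_lit 0) (nat_lit 0) xc102 xc103))) (XT.nd (nat_lit 161772) (nat_lit 0) (nat_lit 152) (XT.nd (nat_lit 80652) (nat_lit 0) (nat_lit 152) (XT.nd (nat_lit 40248) (nat_lit 0) (nat_lit 76) xc104 xc105) (XT.nd (nat_lit 40482) (nat_lit 0) (nat_lit 0) xc106 xc107)) (XT.nd (nat_lit 81432) (nat_lit 0) (nat_lit 0) (XT.nd (nat_lit 40638) (nat_lit 0) (nat_lit 0) xc108 xc109) (XT.nd (nat_lit 40950) (nat_lit 0) (nat_lit 0) xc110 xc111)))) (XT.nd (nat_lit 406458) (nat_lit 0) (nat_lit 304) (XT.nd (nat_lit 201864) (nat_lit 0) (nat_lit 152) (XT.nd (nat_lit 82212) (nat_lit 0) (nat_lit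 0) (XT.nd (nat_lit 41028) (nat_lit 0) (nat_lit 0) xc112 xc113) (XT.nd (nat_lit 41340) (nat_lit 0) (nat_lit 0) xc114 xc115)) (XT.nd (nat_lit 83304) (nat_lit 0) (nat_lit 76) (XT.nd (nat_lit 41574) (nat_lit 0) (nat_lit 0) xc116 xc117) (XT.nd (nat_lit 79248) (nat_lit 0) (nat_lit 0) xc118 xc119))) (XT.nd (nat_lit 283842) (nat_lit 0) (nat_lit 532) (XT.nd (nat_lit 122226) (nat_lit 0) (nat_lit 152) (XT.nd (nat_lit 42120) (nat_lit 0) (nat_lit 0) xc120 xc121) (XT.nd (nat_lit 80574) (nat_lit 0) (nat_lit 76) xc122 xc123)) (XT.nd (nat_lit 164034) (nat_lit 0) (nat_lit 456) (XT.nd (nat_lit 81744) (nat_lit 0) (nat_lit 152) xc124 xc125) (XT.nd (nat_lit 161694) (nat_lit 0) (nat_lit 760) xc126 xc127))))))) XT.nil))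

set_option maxRecDepth 10000000 in
noncomputable def Te : XT := XT.nil

set_option maxRecDepth 10000000 in
noncomputable def Tz : ZL := (ZL.cons (nat_lit 76) (nat_lit 3) (nat_lit 102830438041974612283) (ZL.cons (nat_lit 152) (nat_lit 6) (nat_lit 198627594908951144256) (ZL.cons (nat_lit 228) (nat_lit 6) (nat_lit 192176780040336835856) (ZL.cons (nat_lit 304) (nat_lit 3) (nat_lit 95813118673922355828) (ZL.cons (nat_lit 380) (nat_lit 6) (nat_lit 185209899982233382782) (ZL.cons (nat_lit 456) (nat_lit 6) (nat_lit 179340560072172794198) (ZL.cons (nat_lit 532) (nat_lit 3) (nat_lit 89415399159932635897) (ZL.cons (nat_lit 608) (nat_lit 6) (nat_lit 173001672969307358530) (ZL.cons (nat_lit 684) (nat_lit 6) (nat_lit 167687980965519299798) (ZL.cons (nat_lit 760) (nat_lit 3) (nat_lit 83607989671506167304) (ZL.cons (nat_lit 836) (nat_lit 6) (nat_lit 161949193601428196370) (ZL.cons (nat_lit 912) (nat_lit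 6) (nat_lit 157170105162382593364) (ZL.cons (nat_lit 988) (nat_lit 3) (nat_lit 78366533311512146131) (ZL.cons (nat_lit 1064) (nat_lit 6) (nat_lit 152850393501792292390) (ZL.cons (nat_lit 1140) (nat_lit 6) (nat_lit 152008689648213342118) (ZL.cons (nat_lit 1216) (nat_lit 6) (nat_lit 147748066368996466234) (ZL.cons (nat_lit 1292) (nat_lit 3) (nat_lit 73671700527387908532) (ZL.cons (nat_lit 1368) (nat_lit 6) (nat_lit 143925948647422749786) (ZL.cons (nat_lit 1444) (nat_lit 6) (nat_lit 143146593227442240276) (ZL.cons (nat_lit 1520) (nat_lit 6) (nat_lit 139393396193902486856) (ZL.cons (nat_lit 1596) (nat_lit 3) (nat_lit 69509353044071313258) (ZL.cons (nat_lit 1672) (nat_lit 6) (nat_lit 136061568786550395298) (ZL.cons (nat_lit 1748) (nat_lit 6) (nat_lit 135339943397679553162) (ZL.cons (nat_lit 1824) (nat_lit 6) (nat_lit 133131366842972027286) (ZL.cons (nat_lit 1900) (nat_lit 6) (nat_lit 132088505080850276076)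 (ZL.cons (nat_lit 1976) (nat_lit 3) (nat_lit 65870784898869647140) (ZL.cons (nat_lit 2052) (nat_lit 6) (nat_lit 129245123355036547696) (ZL.cons (nat_lit 2128) (nat_lit 6) (nat_lit 128576951698674656826) (ZL.cons (nat_lit 2204) (nat_lit 6) (nat_lit 126792948550752064442) (ZL.cons (nat_lit 2280) (nat_lit 6) (nat_lit 125827335808046739248) (ZL.cons (nat_lit 2356) (nat_lit 3) (nat_lit 62753049717397915087) (ZL.cons (nat_lit 2432) (nat_lit 6) (nat_lit 124717449261749214560) (ZL.cons (nat_lit 2508) (nat_lit 6) (nat_lit 123476428105762931658) (ZL.cons (nat_lit 2584) (nat_lit 6) (nat_lit 122857750646168588260) (ZL.cons (nat_lit 2660) (nat_lit 6) (nat_lit 123006326232982055240) (ZL.cons (nat_lit 2736) (nat_lit 6) (nat_lit 121510297286920811494) (ZL.cons (nat_lit 2812) (nat_lit 6) (nat_lit 120616211414045510388) (ZL.cons (nat_lit 2888) (nat_lit 3) (nat_lit 60159385163851038032) (ZL.cons (nat_lit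 2964) (nat_lit 6) (nat_lit 119917292205927240270) (ZL.cons (nat_lit 3040) (nat_lit 6) (nat_lit 118768198542976978320) (ZL.cons (nat_lit 3116) (nat_lit 6) (nat_lit 118195349043352586288) (ZL.cons (nat_lit 3192) (nat_lit 3) (nat_lit 58559904887605864442) (ZL.cons (nat_lit 3268) (nat_lit 6) (nat_lit 117293363792249457920) (ZL.cons (nat_lit 3344) (nat_lit 6) (nat_lit 117815054311611757506) (ZL.cons (nat_lit 3420) (nat_lit 6) (nat_lit 118687972832672626450) (ZL.cons (nat_lit 3496) (nat_lit 6) (nat_lit 117302760845578882240) (ZL.cons (nat_lit 3572) (nat_lit 6) (nat_lit 116474903555879529364) (ZL.cons (nat_lit 3648) (nat_lit 3) (nat_lit 58099747571299285828) (ZL.cons (nat_lit 3724) (nat_lit 6) (nat_lit 115126097966333798438) (ZL.cons (nat_lit 3800) (nat_lit 6) (nat_lit 115487090321772274838) (ZL.cons (nat_lit 3876) (nat_lit 6) (nat_lit 116211214246607381574) (ZL.cons (nat_lit 3952) (nat_lit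 6) (nat_lit 115147238632764546438) (ZL.cons (nat_lit 4028) (nat_lit 6) (nat_lit 114616822429408627886) (ZL.cons (nat_lit 4104) (nat_lit 3) (nat_lit 56726811265353388533) (ZL.cons (nat_lit 4180) (nat_lit 6) (nat_lit 113641060869107524430) (ZL.cons (nat_lit 4256) (nat_lit 6) (nat_lit 114204486630018807980) (ZL.cons (nat_lit 4332) (nat_lit 6) (nat_lit 113437952102519407168) (ZL.cons (nat_lit 4408) (nat_lit 3) (nat_lit 56591472156222223162) (ZL.cons (nat_lit 4484) (nat_lit 6) (nat_lit 112266026519823937382) (ZL.cons (nat_lit 4560) (nat_lit 6) (nat_lit 112655898263697491896) (ZL.cons (nat_lit 4636) (nat_lit 6) (nat_lit 112164772149479048792) (ZL.cons (nat_lit 4712) (nat_lit 3) (nat_lit 55676919461111027703) (ZL.cons (nat_lit 4788) (nat_lit 6) (nat_lit 111556272327694862556) (ZL.cons (nat_lit 4864) (nat_lit 3) (nat_lit 55660077001775690148) (ZL.cons (nat_lit 4940) (nat_lit 6) (nat_lit 110899092520167941424)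 (ZL.cons (nat_lit 5016) (nat_lit 1) (nat_lit 18446744073709551617) ZL.nil))))))))))))))))))))))))))))))))))))))))))))))))))))))))))))))))))

noncomputable def vl : XL := ⟨(nat_lit 0), (nat_lit 76), (nat_lit 91679095), (nat_lit 152), (nat_lit 251695744), (nat_lit 152), (nat_lit 251695744), (nat_lit 1), (nat_lit 4), (nat_lit 2), (nat_lit 5), (nat_lit 2), (nat_lit 4), (nat_lit 0), (nat_lit 0), (nat_lit 0)⟩

noncomputable def cp0 : Nat := (nat_lit 26970075869970318788806120266951246656428734045660579792235310861730861416676230561882302449056140825558544515590077596821030236799273107503116720669333161955239655171686440611790739890325843125941410069256050081038883058652574426149046733404568564122951547616931032805063937035360509843094116796061895820462909921113762081254621000746360948875151670090505542284620228446074384711040817727506898001940209315800466059069849712788906174787954701182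531943998830488390034075112031742934129286635520736272381273951908158443078886051563790646920185673879967590025288423806131766573696096627219222604491501144489855016494541439418477690658225186139387149660970955909539686017263260885714615434099027457031599370293306304014303166868739554146496406995865917765962350777988953392724209181382932666473166636715611247929560593914864091359565732812913356993489396596183661814497693087702168680334485813522987934681140733735100572141020164254892606602599423027729528098787776491261308305815323044546185242715221375725025305776325305970730313429068403889098337228966322937242988505583173865817411334381541916571687327642498215527745082518117877165439241284874534933524667277615252563368689490831651337821932759129058746905372205793057380695808296915292222518551292439955001287028522265087520979331927300112272270563415510014899247790097755601120115209550267520037683680125832220227760579493474372379786543541416652077815970973163102976210906484458760712489908145983577432363919012518139110328150977717933381531283138805025970196245104195272704)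

noncomputable def cp1 : Nat := (nat_lit 3131292982885834982470729934583687507197996188965042984676598734248918209110480997883774575371423604560941432438419330218111221099876471032628068999812101016915773185561610350118074091598025314930734106754526440687601136349706742539009306887012263092003977351303203026893249733088140819810010371716894266954269321397554895682948196667689705811609528327182467160317096482495292496844264568629197801374743802216556074610542216539162774725709196220415414027908322385807495820341780638380854537303046803318154284484988114742587541418967807424904761519517134309861252077244154897839666071109105315193914665944698651235291358228045065658945164761194706138360037824291476543733662545395734830853730267819237613709642959205912524964517975236097529438740496803565714926406860434343522475599452444182115063372143314065733089737907408263835143258974880891651808604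6901399319631707328283855110071160941363134830667504035732251443683523537053417725282654198509471609338576377240322508732315959194916883160233626541036966612559344702919568238155310285905423591830084314858504001992110755929847557262833187743006093843677194064506566690642657261036337901828947751314796229487494215681733344763208959558928757730347682138743312917991545256681077762841568511919371135910499257609811404950964586195489053889312300466748319019294368042793554770249030077329311611954937570840490582217470853306723826509558898058995293925316468777867827783160503620678144258532860969788501960143246533479955100893498489194937633593496559562821665389903321124944478208)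

noncomputable def rc0 : Nat := (nat_lit 3131292982885834982470729934583687507197996188965042984676598734248918209110480997883774575371423604560941432438419330218111221099876471032628068999812101016915773185561610350118074091598025314930734106754526440687601136349706742539009306887012263092003977351303203026893249733088140819810010371716894266954269321397554895682948196667689705811609528327182467160317096482495292496844264568629197801374743802216556074610542216539162774725709196220415414027908322385807495820341780638380854537303046803318154284484988114742587541418967807424904761519517134309861252077244154897839666071109105315193914665944698651235291358228045065658945164761194706138360037824291476543733662545395734830853730267819237613709642959205912524964517975236097529438740496803565714926406860434343522475599452444182115063372143314065733089737907408263835143258974880891651808604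6901399319631707328283855110071160941363134830667504035732251443683523537053417725282654198509471609338576377240322508732315959194916883160233626541036966612559344702919568238155310285905423591830084314858504001992110755929847557262833187743006093843677194064506566690642657261036337901828947751314796229487494215681733344763208959558928757730347682138743312917991545256681077762841568511919371135910499257609811404950964586195489053889312300466748319019294368042793554770249030077329311611954937570840490582217470853306723826509558898058995293925316468777867827783160503620678144258532860969788501960143246533479955100893498489194937633593496559562821665389903321124944478208)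

end Vale.Agent.Lib.P154.PChain.BP.S2
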