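import Vale.Agent.Lib.P154.PChain.BP.R2_0

set_option linter.all false

namespace Vale.Agent.Lib.P154.PChain.BP.S3

open Vale.Agent.Lib.P154.Chain

noncomputable def pc0 : PT := (PT.nd (nat_lit 4602780) (PT.nd (nat_lit 4399980) (PT.nd (nat_lit 4318782) (PT.nd (nat_lit 4278144) (PT.nd (nat_lit 4278066) (PT.nd (nat_lit 4237506) PT.nil (PT.lf (nat_lit 76) (nat_lit 3) (nat_lit 1) (nat_lit 1) (nat_lit 143) (nat_lit 104) (nat_lit 143))) (PT.lf (nat_lit 152) (nat_lit 6) (nat_lit 2) (nat_lit 3) (nat_lit 142) (nat_lit 105) (nat_lit 143))) (PT.nd (nat_lit 40482) (PT.lf (nat_lit 152) (nat_lit 6) (nat_lit 2) (nat_lit 1) (nat_lit 143) (nat_lit 105) (nat_lit 142)) (PT.nd (nat_lit 78) (PT.lf (nat_lit 228) (nat_lit 6) (nat_lit 3) (nat_lit 3) (nat_lit 141) (nat_lit 106) (nat_lit 143)) (PT.lf (nat_lit 304) (nat_lit 3) (nat_lit 4) (nat_lit 1) (nat_lit 142) (nat_lit 106) (nat_lit 142))))) (PT.nd (nat_lit 40560)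 (PT.nd (nat_lit 40482) (PT.lf (nat_lit 228) (nat_lit 6) (nat_lit 3) (nat_lit 1) (nat_lit 143) (nat_lit 106) (nat_lit 141)) (PT.lf (nat_lit 380) (nat_lit 6) (nat_lit 5) (nat_lit 3) (nat_lit 141) (nat_lit 107) (nat_lit 142))) (PT.nd (nat_lit 40482) (PT.lf (nat_lit 380) (nat_lit 6) (nat_lit 5) (nat_lit 1) (nat_lit 142) (nat_lit 107) (nat_lit 141)) (PT.nd (nat_lit 78) (PT.lf (nat_lit 456) (nat_lit 6) (nat_lit 6) (nat_lit 3) (nat_lit 140) (nat_lit 108) (nat_lit 142)) (PT.lf (nat_lit 532) (nat_lit 3) (nat_lit 7) (nat_lit 1) (nat_lit 141) (nat_lit 108) (nat_lit 141)))))) (PT.nd (nat_lit 81198) (PT.nd (nat_lit 40560) (PT.nd (nat_lit 40482) (PT.lf (nat_lit 456) (nat_lit 6) (nat_lit 6) (nat_lit 1) (nat_lit 142) (nat_lit 108) (nat_lit 140)) (PT.lf (nat_lit 608) (nat_lit 6) (nat_lit 8) (nat_lit 3) (nat_lit 140) (nat_lit 109) (nat_lit 141))) (PT.nd (nat_lit 40482) (PT.lf (nat_lit 608) (nat_lit 6) (nat_lit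 8) (nat_lit 1) (nat_lit 141) (nat_lit 109) (nat_lit 140)) (PT.nd (nat_lit 78) (PT.lf (nat_lit 684) (nat_lit 6) (nat_lit 9) (nat_lit 3) (nat_lit 139) (nat_lit 110) (nat_lit 141)) (PT.lf (nat_lit 760) (nat_lit 3) (nat_lit 10) (nat_lit 1) (nat_lit 140) (nat_lit 110) (nat_lit 140))))) (PT.nd (nat_lit 81042) (PT.nd (nat_lit 40482) (PT.lf (nat_lit 684) (nat_lit 6) (nat_lit 9) (nat_lit 1) (nat_lit 141) (nat_lit 110) (nat_lit 139)) (PT.nd (nat_lit 78) (PT.lf (nat_lit 836) (nat_lit 6) (nat_lit 11) (nat_lit 3) (nat_lit 139) (nat_lit 111) (nat_lit 140)) (PT.lf (nat_lit 836) (nat_lit 6) (nat_lit 11) (nat_lit 1) (nat_lit 140) (nat_lit 111) (nat_lit 139)))) (PT.nd (nat_lit 78) (PT.lf (nat_lit 912) (nat_lit 6) (nat_lit 12) (nat_lit 3) (nat_lit 138) (nat_lit 112) (nat_lit 140)) (PT.nd (nat_lit 78) (PT.lf (nat_lit 988) (nat_lit 3) (nat_lit 13) (nat_lit 1) (nat_lit 139) (nat_lit 112) (nat_lit 139)) (PT.lf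 (nat_lit 912) (nat_lit 6) (nat_lit 12) (nat_lit 1) (nat_lit 140) (nat_lit 112) (nat_lit 138))))))) (PT.nd (nat_lit 81432) (PT.nd (nat_lit 40716) (PT.nd (nat_lit 156) (PT.nd (nat_lit 78) (PT.lf (nat_lit 1064) (nat_lit 6) (nat_lit 14) (nat_lit 3) (nat_lit 137) (nat_lit 113) (nat_lit 140)) (PT.lf (nat_lit 1140) (nat_lit 6) (nat_lit 15) (nat_lit 3) (nat_lit 138) (nat_lit 113) (nat_lit 139))) (PT.nd (nat_lit 78) (PT.lf (nat_lit 1140) (nat_lit 6) (nat_lit 15) (nat_lit 1) (nat_lit 139) (nat_lit 113) (nat_lit 138)) (PT.nd (nat_lit 40404) (PT.lf (nat_lit 1064) (nat_lit 6) (nat_lit 14) (nat_lit 1) (nat_lit 140) (nat_lit 113) (nat_lit 137)) (PT.lf (nat_lit 1216) (nat_lit 6) (nat_lit 16) (nat_lit 3) (nat_lit 137) (nat_lit 114) (nat_lit 139))))) (PT.nd (nat_lit 40482) (PT.nd (nat_lit 78) (PT.lf (nat_lit 1292) (nat_lit 3) (nat_lit 17) (nat_lit 1) (nat_lit 138) (nat_lit 114) (nat_lit 138)) (PT.lf (nat_lit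 1216) (nat_lit 6) (nat_lit 16) (nat_lit 1) (nat_lit 139) (nat_lit 114) (nat_lit 137))) (PT.nd (nat_lit 78) (PT.lf (nat_lit 1368) (nat_lit 6) (nat_lit 18) (nat_lit 3) (nat_lit 136) (nat_lit 115) (nat_lit 139)) (PT.nd (nat_lit 78) (PT.lf (nat_lit 1444) (nat_lit 6) (nat_lit 19) (nat_lit 3) (nat_lit 137) (nat_lit 115) (nat_lit 138)) (PT.lf (nat_lit 1444) (nat_lit 6) (nat_lit 19) (nat_lit 1) (nat_lit 138) (nat_lit 115) (nat_lit 137)))))) (PT.nd (nat_lit 81042) (PT.nd (nat_lit 40482) (PT.nd (nat_lit 40404) (PT.lf (nat_lit 1368) (nat_lit 6) (nat_lit 18) (nat_lit 1) (nat_lit 139) (nat_lit 115) (nat_lit 136)) (PT.lf (nat_lit 1520) (nat_lit 6) (nat_lit 20) (nat_lit 3) (nat_lit 136) (nat_lit 116) (nat_lit 138))) (PT.nd (nat_lit 78) (PT.lf (nat_lit 1596) (nat_lit 3) (nat_lit 21) (nat_lit 1) (nat_lit 137) (nat_lit 116) (nat_lit 137)) (PT.nd (nat_lit 40404) (PT.lf (nat_lit 1520) (nat_lit 6) (nat_lit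 20) (nat_lit 1) (nat_lit 138) (nat_lit 116) (nat_lit 136)) (PT.lf (nat_lit 1672) (nat_lit 6) (nat_lit 22) (nat_lit 3) (nat_lit 135) (nat_lit 117) (nat_lit 138))))) (PT.nd (nat_lit 40482) (PT.nd (nat_lit 78) (PT.lf (nat_lit 1748) (nat_lit 6) (nat_lit 23) (nat_lit 3) (nat_lit 136) (nat_lit 117) (nat_lit 137)) (PT.nd (nat_lit 78) (PT.lf (nat_lit 1748) (nat_lit 6) (nat_lit 23) (nat_lit 1) (nat_lit 137) (nat_lit 117) (nat_lit 136)) (PT.lf (nat_lit 1672) (nat_lit 6) (nat_lit 22) (nat_lit 1) (nat_lit 138) (nat_lit 117) (nat_lit 135)))) (PT.nd (nat_lit 78) (PT.lf (nat_lit 1824) (nat_lit 6) (nat_lit 24) (nat_lit 3) (nat_lit 134) (nat_lit 118) (nat_lit 138)) (PT.nd (nat_lit 78) (PT.lf (nat_lit 1900) (nat_lit 6) (nat_lit 25) (nat_lit 3) (nat_lit 135) (nat_lit 118) (nat_lit 137)) (PT.lf (nat_lit 1976) (nat_lit 3) (nat_lit 26) (nat_lit 1) (nat_lit 136) (nat_lit 118) (nat_lit 136))))))))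
noncomputable def pc1 : PT := (PT.nd (nat_lit 162396) (PT.nd (nat_lit 81276) (PT.nd (nat_lit 40638) (PT.nd (nat_lit 40404) (PT.nd (nat_lit 78) (PT.lf (nat_lit 1900) (nat_lit 6) (nat_lit 25) (nat_lit 1) (nat_lit 137) (nat_lit 118) (nat_lit 135)) (PT.lf (nat_lit 1824) (nat_lit 6) (nat_lit 24) (nat_lit 1) (nat_lit 138) (nat_lit 118) (nat_lit 134))) (PT.nd (nat_lit 78) (PT.lf (nat_lit 2052) (nat_lit 6) (nat_lit 27) (nat_lit 3) (nat_lit 134) (nat_lit 119) (nat_lit 137)) (PT.nd (nat_lit 78) (PT.lf (nat_lit 2128) (nat_lit 6) (nat_lit 28) (nat_lit 3) (nat_lit 135) (nat_lit 119) (nat_lit 136)) (PT.lf (nat_lit 2128) (nat_lit 6) (nat_lit 28) (nat_lit 1) (nat_lit 136) (nat_lit 119) (nat_lit 135))))) (PT.nd (nat_lit 40404) (PT.nd (nat_lit 40326) (PT.lf (nat_lit 2052) (nat_lit 6) (nat_lit 27) (nat_lit 1) (nat_lit 137) (nat_lit 119) (nat_lit 134)) (PT.lf (nat_lit 2204) (nat_lit 6) (nat_lit 29) (nat_lit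 3) (nat_lit 133) (nat_lit 120) (nat_lit 137))) (PT.nd (nat_lit 78) (PT.lf (nat_lit 2280) (nat_lit 6) (nat_lit 30) (nat_lit 3) (nat_lit 134) (nat_lit 120) (nat_lit 136)) (PT.nd (nat_lit 78) (PT.lf (nat_lit 2356) (nat_lit 3) (nat_lit 31) (nat_lit 1) (nat_lit 135) (nat_lit 120) (nat_lit 135)) (PT.lf (nat_lit 2280) (nat_lit 6) (nat_lit 30) (nat_lit 1) (nat_lit 136) (nat_lit 120) (nat_lit 134)))))) (PT.nd (nat_lit 40560) (PT.nd (nat_lit 40326) (PT.nd (nat_lit 40248) (PT.lf (nat_lit 2204) (nat_lit 6) (nat_lit 29) (nat_lit 1) (nat_lit 137) (nat_lit 120) (nat_lit 133)) (PT.lf (nat_lit 2432) (nat_lit 6) (nat_lit 32) (nat_lit 3) (nat_lit 132) (nat_lit 121) (nat_lit 137))) (PT.nd (nat_lit 78) (PT.lf (nat_lit 2508) (nat_lit 6) (nat_lit 33) (nat_lit 3) (nat_lit 133) (nat_lit 121) (nat_lit 136)) (PT.nd (nat_lit 78) (PT.lf (nat_lit 2584) (nat_lit 6) (nat_lit 34) (nat_lit 3) (nat_lit 134) (nat_lit 121)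 (nat_lit 135)) (PT.lf (nat_lit 2584) (nat_lit 6) (nat_lit 34) (nat_lit 1) (nat_lit 135) (nat_lit 121) (nat_lit 134))))) (PT.nd (nat_lit 40326) (PT.nd (nat_lit 78) (PT.lf (nat_lit 2508) (nat_lit 6) (nat_lit 33) (nat_lit 1) (nat_lit 136) (nat_lit 121) (nat_lit 133)) (PT.nd (nat_lit 40170) (PT.lf (nat_lit 2432) (nat_lit 6) (nat_lit 32) (nat_lit 1) (nat_lit 137) (nat_lit 121) (nat_lit 132)) (PT.lf (nat_lit 2660) (nat_lit 6) (nat_lit 35) (nat_lit 3) (nat_lit 131) (nat_lit 122) (nat_lit 137)))) (PT.nd (nat_lit 78) (PT.lf (nat_lit 2736) (nat_lit 6) (nat_lit 36) (nat_lit 3) (nat_lit 132) (nat_lit 122) (nat_lit 136)) (PT.nd (nat_lit 78) (PT.lf (nat_lit 2812) (nat_lit 6) (nat_lit 37) (nat_lit 3) (nat_lit 133) (nat_lit 122) (nat_lit 135)) (PT.lf (nat_lit 2888) (nat_lit 3) (nat_lit 38) (nat_lit 1) (nat_lit 134) (nat_lit 122) (nat_lit 134))))))) (PT.nd (nat_lit 81042) (PT.nd (nat_lit 40482) (PT.nd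 (nat_lit 156) (PT.nd (nat_lit 78) (PT.lf (nat_lit 2812) (nat_lit 6) (nat_lit 37) (nat_lit 1) (nat_lit 135) (nat_lit 122) (nat_lit 133)) (PT.lf (nat_lit 2736) (nat_lit 6) (nat_lit 36) (nat_lit 1) (nat_lit 136) (nat_lit 122) (nat_lit 132))) (PT.nd (nat_lit 40170) (PT.lf (nat_lit 2660) (nat_lit 6) (nat_lit 35) (nat_lit 1) (nat_lit 137) (nat_lit 122) (nat_lit 131)) (PT.nd (nat_lit 78) (PT.lf (nat_lit 2964) (nat_lit 6) (nat_lit 39) (nat_lit 3) (nat_lit 131) (nat_lit 123) (nat_lit 136)) (PT.lf (nat_lit 3040) (nat_lit 6) (nat_lit 40) (nat_lit 3) (nat_lit 132) (nat_lit 123) (nat_lit 135))))) (PT.nd (nat_lit 234) (PT.nd (nat_lit 78) (PT.lf (nat_lit 3116) (nat_lit 6) (nat_lit 41) (nat_lit 3) (nat_lit 133) (nat_lit 123) (nat_lit 134)) (PT.nd (nat_lit 78) (PT.lf (nat_lit 3116) (nat_lit 6) (nat_lit 41) (nat_lit 1) (nat_lit 134) (nat_lit 123) (nat_lit 133)) (PT.lf (nat_lit 3040) (nat_lit 6) (nat_lit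 40) (nat_lit 1) (nat_lit 135) (nat_lit 123) (nat_lit 132)))) (PT.nd (nat_lit 40170) (PT.lf (nat_lit 2964) (nat_lit 6) (nat_lit 39) (nat_lit 1) (nat_lit 136) (nat_lit 123) (nat_lit 131)) (PT.nd (nat_lit 78) (PT.lf (nat_lit 3420) (nat_lit 6) (nat_lit 45) (nat_lit 3) (nat_lit 130) (nat_lit 124) (nat_lit 136)) (PT.lf (nat_lit 3496) (nat_lit 6) (nat_lit 46) (nat_lit 3) (nat_lit 131) (nat_lit 124) (nat_lit 135)))))) (PT.nd (nat_lit 40404) (PT.nd (nat_lit 156) (PT.nd (nat_lit 78) (PT.lf (nat_lit 3572) (nat_lit 6) (nat_lit 47) (nat_lit 3) (nat_lit 132) (nat_lit 124) (nat_lit 134)) (PT.lf (nat_lit 3648) (nat_lit 3) (nat_lit 48) (nat_lit 1) (nat_lit 133) (nat_lit 124) (nat_lit 133))) (PT.nd (nat_lit 78) (PT.lf (nat_lit 3572) (nat_lit 6) (nat_lit 47) (nat_lit 1) (nat_lit 134) (nat_lit 124) (nat_lit 132)) (PT.nd (nat_lit 78) (PT.lf (nat_lit 3496) (nat_lit 6) (nat_lit 46) (nat_lit 1) (nat_lit 135)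 (nat_lit 124) (nat_lit 131)) (PT.lf (nat_lit 3420) (nat_lit 6) (nat_lit 45) (nat_lit 1) (nat_lit 136) (nat_lit 124) (nat_lit 130))))) (PT.nd (nat_lit 234) (PT.nd (nat_lit 78) (PT.lf (nat_lit 3344) (nat_lit 6) (nat_lit 44) (nat_lit 3) (nat_lit 129) (nat_lit 125) (nat_lit 136)) (PT.nd (nat_lit 78) (PT.lf (nat_lit 3876) (nat_lit 6) (nat_lit 51) (nat_lit 3) (nat_lit 130) (nat_lit 125) (nat_lit 135)) (PT.lf (nat_lit 3952) (nat_lit 6) (nat_lit 52) (nat_lit 3) (nat_lit 131) (nat_lit 125) (nat_lit 134)))) (PT.nd (nat_lit 78) (PT.lf (nat_lit 4028) (nat_lit 6) (nat_lit 53) (nat_lit 3) (nat_lit 132) (nat_lit 125) (nat_lit 133)) (PT.nd (nat_lit 78) (PT.lf (nat_lit 4028) (nat_lit 6) (nat_lit 53) (nat_lit 1) (nat_lit 133) (nat_lit 125) (nat_lit 132)) (PT.lf (nat_lit 3952) (nat_lit 6) (nat_lit 52) (nat_lit 1) (nat_lit 134) (nat_lit 125) (nat_lit 131))))))))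
noncomputable def pc2 : PT := (PT.nd (nat_lit 121212) (PT.nd (nat_lit 40716) (PT.nd (nat_lit 40326) (PT.nd (nat_lit 40092) (PT.nd (nat_lit 78) (PT.lf (nat_lit 3876) (nat_lit 6) (nat_lit 51) (nat_lit 1) (nat_lit 135) (nat_lit 125) (nat_lit 130)) (PT.lf (nat_lit 3344) (nat_lit 6) (nat_lit 44) (nat_lit 1) (nat_lit 136) (nat_lit 125) (nat_lit 129))) (PT.nd (nat_lit 78) (PT.lf (nat_lit 3268) (nat_lit 6) (nat_lit 43) (nat_lit 3) (nat_lit 128) (nat_lit 126) (nat_lit 136)) (PT.nd (nat_lit 78) (PT.lf (nat_lit 3800) (nat_lit 6) (nat_lit 50) (nat_lit 3) (nat_lit 129) (nat_lit 126) (nat_lit 135)) (PT.lf (nat_lit 4256) (nat_lit 6) (nat_lit 56) (nat_lit 3) (nat_lit 130) (nat_lit 126) (nat_lit 134))))) (PT.nd (nat_lit 156) (PT.nd (nat_lit 78) (PT.lf (nat_lit 4332) (nat_lit 6) (nat_lit 57) (nat_lit 3) (nat_lit 131) (nat_lit 126) (nat_lit 133)) (PT.lf (nat_lit 4408) (nat_lit 3) (nat_lit 58) (nat_lit 1)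 (nat_lit 132) (nat_lit 126) (nat_lit 132))) (PT.nd (nat_lit 78) (PT.lf (nat_lit 4332) (nat_lit 6) (nat_lit 57) (nat_lit 1) (nat_lit 133) (nat_lit 126) (nat_lit 131)) (PT.nd (nat_lit 78) (PT.lf (nat_lit 4256) (nat_lit 6) (nat_lit 56) (nat_lit 1) (nat_lit 134) (nat_lit 126) (nat_lit 130)) (PT.lf (nat_lit 3800) (nat_lit 6) (nat_lit 50) (nat_lit 1) (nat_lit 135) (nat_lit 126) (nat_lit 129)))))) (PT.nd (nat_lit 40248) (PT.nd (nat_lit 40014) (PT.nd (nat_lit 39936) (PT.lf (nat_lit 3268) (nat_lit 6) (nat_lit 43) (nat_lit 1) (nat_lit 136) (nat_lit 126) (nat_lit 128)) (PT.lf (nat_lit 3192) (nat_lit 3) (nat_lit 42) (nat_lit 3) (nat_lit 127) (nat_lit 127) (nat_lit 136))) (PT.nd (nat_lit 78) (PT.lf (nat_lit 3724) (nat_lit 6) (nat_lit 49) (nat_lit 3) (nat_lit 128) (nat_lit 127) (nat_lit 135)) (PT.nd (nat_lit 78) (PT.lf (nat_lit 4180) (nat_lit 6) (nat_lit 55) (nat_lit 3) (nat_lit 129) (nat_lit 127) (nat_lit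 134)) (PT.lf (nat_lit 4560) (nat_lit 6) (nat_lit 60) (nat_lit 3) (nat_lit 130) (nat_lit 127) (nat_lit 133))))) (PT.nd (nat_lit 234) (PT.nd (nat_lit 78) (PT.lf (nat_lit 4636) (nat_lit 6) (nat_lit 61) (nat_lit 3) (nat_lit 131) (nat_lit 127) (nat_lit 132)) (PT.nd (nat_lit 78) (PT.lf (nat_lit 4636) (nat_lit 6) (nat_lit 61) (nat_lit 1) (nat_lit 132) (nat_lit 127) (nat_lit 131)) (PT.lf (nat_lit 4560) (nat_lit 6) (nat_lit 60) (nat_lit 1) (nat_lit 133) (nat_lit 127) (nat_lit 130)))) (PT.nd (nat_lit 78) (PT.lf (nat_lit 4180) (nat_lit 6) (nat_lit 55) (nat_lit 1) (nat_lit 134) (nat_lit 127) (nat_lit 129)) (PT.nd (nat_lit 78) (PT.lf (nat_lit 3724) (nat_lit 6) (nat_lit 49) (nat_lit 1) (nat_lit 135) (nat_lit 127) (nat_lit 128)) (PT.lf (nat_lit 3192) (nat_lit 3) (nat_lit 42) (nat_lit 0) (nat_lit 136) (nat_lit 127) (nat_lit 127))))))) (PT.nd (nat_lit 40560) (PT.nd (nat_lit 390) (PT.nd (nat_lit 156) (PT.nd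 (nat_lit 78) (PT.lf (nat_lit 3268) (nat_lit 6) (nat_lit 43) (nat_lit 5) (nat_lit 126) (nat_lit 128) (nat_lit 136)) (PT.lf (nat_lit 3724) (nat_lit 6) (nat_lit 49) (nat_lit 5) (nat_lit 127) (nat_lit 128) (nat_lit 135))) (PT.nd (nat_lit 78) (PT.lf (nat_lit 4104) (nat_lit 3) (nat_lit 54) (nat_lit 3) (nat_lit 128) (nat_lit 128) (nat_lit 134)) (PT.nd (nat_lit 78) (PT.lf (nat_lit 4484) (nat_lit 6) (nat_lit 59) (nat_lit 3) (nat_lit 129) (nat_lit 128) (nat_lit 133)) (PT.lf (nat_lit 4788) (nat_lit 6) (nat_lit 63) (nat_lit 3) (nat_lit 130) (nat_lit 128) (nat_lit 132))))) (PT.nd (nat_lit 234) (PT.nd (nat_lit 78) (PT.lf (nat_lit 4864) (nat_lit 3) (nat_lit 64) (nat_lit 1) (nat_lit 131) (nat_lit 128) (nat_lit 131)) (PT.nd (nat_lit 78) (PT.lf (nat_lit 4788) (nat_lit 6) (nat_lit 63) (nat_lit 1) (nat_lit 132) (nat_lit 128) (nat_lit 130)) (PT.lf (nat_lit 4484) (nat_lit 6) (nat_lit 59) (nat_lit 1) (nat_lit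 133) (nat_lit 128) (nat_lit 129)))) (PT.nd (nat_lit 78) (PT.lf (nat_lit 4104) (nat_lit 3) (nat_lit 54) (nat_lit 0) (nat_lit 134) (nat_lit 128) (nat_lit 128)) (PT.nd (nat_lit 78) (PT.lf (nat_lit 3724) (nat_lit 6) (nat_lit 49) (nat_lit 0) (nat_lit 135) (nat_lit 128) (nat_lit 127)) (PT.lf (nat_lit 3268) (nat_lit 6) (nat_lit 43) (nat_lit 0) (nat_lit 136) (nat_lit 128) (nat_lit 126)))))) (PT.nd (nat_lit 390) (PT.nd (nat_lit 156) (PT.nd (nat_lit 78) (PT.lf (nat_lit 3344) (nat_lit 6) (nat_lit 44) (nat_lit 5) (nat_lit 125) (nat_lit 129) (nat_lit 136)) (PT.lf (nat_lit 3800) (nat_lit 6) (nat_lit 50) (nat_lit 5) (nat_lit 126) (nat_lit 129) (nat_lit 135))) (PT.nd (nat_lit 78) (PT.lf (nat_lit 4180) (nat_lit 6) (nat_lit 55) (nat_lit 5) (nat_lit 127) (nat_lit 129) (nat_lit 134)) (PT.nd (nat_lit 78) (PT.lf (nat_lit 4484) (nat_lit 6) (nat_lit 59) (nat_lit 5) (nat_lit 128) (nat_lit 129) (nat_lit 133)) (PT.lf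 (nat_lit 4712) (nat_lit 3) (nat_lit 62) (nat_lit 3) (nat_lit 129) (nat_lit 129) (nat_lit 132))))) (PT.nd (nat_lit 234) (PT.nd (nat_lit 78) (PT.lf (nat_lit 4940) (nat_lit 6) (nat_lit 65) (nat_lit 3) (nat_lit 130) (nat_lit 129) (nat_lit 131)) (PT.nd (nat_lit 78) (PT.lf (nat_lit 4940) (nat_lit 6) (nat_lit 65) (nat_lit 1) (nat_lit 131) (nat_lit 129) (nat_lit 130)) (PT.lf (nat_lit 4712) (nat_lit 3) (nat_lit 62) (nat_lit 0) (nat_lit 132) (nat_lit 129) (nat_lit 129)))) (PT.nd (nat_lit 78) (PT.lf (nat_lit 4484) (nat_lit 6) (nat_lit 59) (nat_lit 0) (nat_lit 133) (nat_lit 129) (nat_lit 128)) (PT.nd (nat_lit 78) (PT.lf (nat_lit 4180) (nat_lit 6) (nat_lit 55) (nat_lit 0) (nat_lit 134) (nat_lit 129) (nat_lit 127)) (PT.lf (nat_lit 3800) (nat_lit 6) (nat_lit 50) (nat_lit 0) (nat_lit 135) (nat_lit 129) (nat_lit 126))))))))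
noncomputable def pc3 : PT := (PT.nd (nat_lit 80730) (PT.nd (nat_lit 40404) (PT.nd (nat_lit 40014) (PT.nd (nat_lit 39780) (PT.nd (nat_lit 39702) (PT.lf (nat_lit 3344) (nat_lit 6) (nat_lit 44) (nat_lit 0) (nat_lit 136) (nat_lit 129) (nat_lit 125)) (PT.lf (nat_lit 3420) (nat_lit 6) (nat_lit 45) (nat_lit 5) (nat_lit 124) (nat_lit 130) (nat_lit 136))) (PT.nd (nat_lit 78) (PT.lf (nat_lit 3876) (nat_lit 6) (nat_lit 51) (nat_lit 5) (nat_lit 125) (nat_lit 130) (nat_lit 135)) (PT.nd (nat_lit 78) (PT.lf (nat_lit 4256) (nat_lit 6) (nat_lit 56) (nat_lit 5) (nat_lit 126) (nat_lit 130) (nat_lit 134)) (PT.lf (nat_lit 4560) (nat_lit 6) (nat_lit 60) (nat_lit 5) (nat_lit 127) (nat_lit 130) (nat_lit 133))))) (PT.nd (nat_lit 156) (PT.nd (nat_lit 78) (PT.lf (nat_lit 4788) (nat_lit 6) (nat_lit 63) (nat_lit 5) (nat_lit 128) (nat_lit 130) (nat_lit 132)) (PT.lf (nat_lit 4940) (nat_lit 6) (nat_lit 65) (nat_lit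 5) (nat_lit 129) (nat_lit 130) (nat_lit 131))) (PT.nd (nat_lit 78) (PT.lf (nat_lit 5016) (nat_lit 1) (nat_lit 66) (nat_lit 0) (nat_lit 130) (nat_lit 130) (nat_lit 130)) (PT.nd (nat_lit 78) (PT.lf (nat_lit 4940) (nat_lit 6) (nat_lit 65) (nat_lit 0) (nat_lit 131) (nat_lit 130) (nat_lit 129)) (PT.lf (nat_lit 4788) (nat_lit 6) (nat_lit 63) (nat_lit 0) (nat_lit 132) (nat_lit 130) (nat_lit 128)))))) (PT.nd (nat_lit 39858) (PT.nd (nat_lit 156) (PT.nd (nat_lit 78) (PT.lf (nat_lit 4560) (nat_lit 6) (nat_lit 60) (nat_lit 0) (nat_lit 133) (nat_lit 130) (nat_lit 127)) (PT.lf (nat_lit 4256) (nat_lit 6) (nat_lit 56) (nat_lit 0) (nat_lit 134) (nat_lit 130) (nat_lit 126))) (PT.nd (nat_lit 78) (PT.lf (nat_lit 3876) (nat_lit 6) (nat_lit 51) (nat_lit 0) (nat_lit 135) (nat_lit 130) (nat_lit 125)) (PT.nd (nat_lit 39546) (PT.lf (nat_lit 3420) (nat_lit 6) (nat_lit 45) (nat_lit 0) (nat_lit 136) (nat_lit 130)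 (nat_lit 124)) (PT.lf (nat_lit 2660) (nat_lit 6) (nat_lit 35) (nat_lit 5) (nat_lit 122) (nat_lit 131) (nat_lit 137))))) (PT.nd (nat_lit 234) (PT.nd (nat_lit 78) (PT.lf (nat_lit 2964) (nat_lit 6) (nat_lit 39) (nat_lit 5) (nat_lit 123) (nat_lit 131) (nat_lit 136)) (PT.nd (nat_lit 78) (PT.lf (nat_lit 3496) (nat_lit 6) (nat_lit 46) (nat_lit 5) (nat_lit 124) (nat_lit 131) (nat_lit 135)) (PT.lf (nat_lit 3952) (nat_lit 6) (nat_lit 52) (nat_lit 5) (nat_lit 125) (nat_lit 131) (nat_lit 134)))) (PT.nd (nat_lit 78) (PT.lf (nat_lit 4332) (nat_lit 6) (nat_lit 57) (nat_lit 5) (nat_lit 126) (nat_lit 131) (nat_lit 133)) (PT.nd (nat_lit 78) (PT.lf (nat_lit 4636) (nat_lit 6) (nat_lit 61) (nat_lit 5) (nat_lit 127) (nat_lit 131) (nat_lit 132)) (PT.lf (nat_lit 4864) (nat_lit 3) (nat_lit 64) (nat_lit 4) (nat_lit 128) (nat_lit 131) (nat_lit 131))))))) (PT.nd (nat_lit 40170) (PT.nd (nat_lit 390) (PT.nd (nat_lit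 156) (PT.nd (nat_lit 78) (PT.lf (nat_lit 4940) (nat_lit 6) (nat_lit 65) (nat_lit 4) (nat_lit 129) (nat_lit 131) (nat_lit 130)) (PT.lf (nat_lit 4940) (nat_lit 6) (nat_lit 65) (nat_lit 2) (nat_lit 130) (nat_lit 131) (nat_lit 129))) (PT.nd (nat_lit 78) (PT.lf (nat_lit 4864) (nat_lit 3) (nat_lit 64) (nat_lit 0) (nat_lit 131) (nat_lit 131) (nat_lit 128)) (PT.nd (nat_lit 78) (PT.lf (nat_lit 4636) (nat_lit 6) (nat_lit 61) (nat_lit 0) (nat_lit 132) (nat_lit 131) (nat_lit 127)) (PT.lf (nat_lit 4332) (nat_lit 6) (nat_lit 57) (nat_lit 0) (nat_lit 133) (nat_lit 131) (nat_lit 126))))) (PT.nd (nat_lit 234) (PT.nd (nat_lit 78) (PT.lf (nat_lit 3952) (nat_lit 6) (nat_lit 52) (nat_lit 0) (nat_lit 134) (nat_lit 131) (nat_lit 125)) (PT.nd (nat_lit 78) (PT.lf (nat_lit 3496) (nat_lit 6) (nat_lit 46) (nat_lit 0) (nat_lit 135) (nat_lit 131) (nat_lit 124)) (PT.lf (nat_lit 2964) (nat_lit 6) (nat_lit 39) (nat_lit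 0) (nat_lit 136) (nat_lit 131) (nat_lit 123)))) (PT.nd (nat_lit 39390) (PT.lf (nat_lit 2660) (nat_lit 6) (nat_lit 35) (nat_lit 0) (nat_lit 137) (nat_lit 131) (nat_lit 122)) (PT.nd (nat_lit 78) (PT.lf (nat_lit 2432) (nat_lit 6) (nat_lit 32) (nat_lit 5) (nat_lit 121) (nat_lit 132) (nat_lit 137)) (PT.lf (nat_lit 2736) (nat_lit 6) (nat_lit 36) (nat_lit 5) (nat_lit 122) (nat_lit 132) (nat_lit 136)))))) (PT.nd (nat_lit 390) (PT.nd (nat_lit 156) (PT.nd (nat_lit 78) (PT.lf (nat_lit 3040) (nat_lit 6) (nat_lit 40) (nat_lit 5) (nat_lit 123) (nat_lit 132) (nat_lit 135)) (PT.lf (nat_lit 3572) (nat_lit 6) (nat_lit 47) (nat_lit 5) (nat_lit 124) (nat_lit 132) (nat_lit 134))) (PT.nd (nat_lit 78) (PT.lf (nat_lit 4028) (nat_lit 6) (nat_lit 53) (nat_lit 5) (nat_lit 125) (nat_lit 132) (nat_lit 133)) (PT.nd (nat_lit 78) (PT.lf (nat_lit 4408) (nat_lit 3) (nat_lit 58) (nat_lit 4) (nat_lit 126) (nat_lit 132) (nat_lit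 132)) (PT.lf (nat_lit 4636) (nat_lit 6) (nat_lit 61) (nat_lit 4) (nat_lit 127) (nat_lit 132) (nat_lit 131))))) (PT.nd (nat_lit 234) (PT.nd (nat_lit 78) (PT.lf (nat_lit 4788) (nat_lit 6) (nat_lit 63) (nat_lit 4) (nat_lit 128) (nat_lit 132) (nat_lit 130)) (PT.nd (nat_lit 78) (PT.lf (nat_lit 4712) (nat_lit 3) (nat_lit 62) (nat_lit 2) (nat_lit 129) (nat_lit 132) (nat_lit 129)) (PT.lf (nat_lit 4788) (nat_lit 6) (nat_lit 63) (nat_lit 2) (nat_lit 130) (nat_lit 132) (nat_lit 128)))) (PT.nd (nat_lit 78) (PT.lf (nat_lit 4636) (nat_lit 6) (nat_lit 61) (nat_lit 2) (nat_lit 131) (nat_lit 132) (nat_lit 127)) (PT.nd (nat_lit 78) (PT.lf (nat_lit 4408) (nat_lit 3) (nat_lit 58) (nat_lit 0) (nat_lit 132) (nat_lit 132) (nat_lit 126)) (PT.lf (nat_lit 4028) (nat_lit 6) (nat_lit 53) (nat_lit 0) (nat_lit 133) (nat_lit 132) (nat_lit 125))))))))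
noncomputable def pc4 : PT := (PT.nd (nat_lit 40872) (PT.nd (nat_lit 40014) (PT.nd (nat_lit 39624) (PT.nd (nat_lit 156) (PT.nd (nat_lit 78) (PT.lf (nat_lit 3572) (nat_lit 6) (nat_lit 47) (nat_lit 0) (nat_lit 134) (nat_lit 132) (nat_lit 124)) (PT.lf (nat_lit 3040) (nat_lit 6) (nat_lit 40) (nat_lit 0) (nat_lit 135) (nat_lit 132) (nat_lit 123))) (PT.nd (nat_lit 78) (PT.lf (nat_lit 2736) (nat_lit 6) (nat_lit 36) (nat_lit 0) (nat_lit 136) (nat_lit 132) (nat_lit 122)) (PT.nd (nat_lit 39312) (PT.lf (nat_lit 2432) (nat_lit 6) (nat_lit 32) (nat_lit 0) (nat_lit 137) (nat_lit 132) (nat_lit 121)) (PT.lf (nat_lit 2204) (nat_lit 6) (nat_lit 29) (nat_lit 5) (nat_lit 120) (nat_lit 133) (nat_lit 137))))) (PT.nd (nat_lit 156) (PT.nd (nat_lit 78) (PT.lf (nat_lit 2508) (nat_lit 6) (nat_lit 33) (nat_lit 5) (nat_lit 121) (nat_lit 133) (nat_lit 136)) (PT.lf (nat_lit 2812) (nat_lit 6) (nat_lit 37) (nat_lit 5)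 (nat_lit 122) (nat_lit 133) (nat_lit 135))) (PT.nd (nat_lit 78) (PT.lf (nat_lit 3116) (nat_lit 6) (nat_lit 41) (nat_lit 5) (nat_lit 123) (nat_lit 133) (nat_lit 134)) (PT.nd (nat_lit 78) (PT.lf (nat_lit 3648) (nat_lit 3) (nat_lit 48) (nat_lit 4) (nat_lit 124) (nat_lit 133) (nat_lit 133)) (PT.lf (nat_lit 4028) (nat_lit 6) (nat_lit 53) (nat_lit 4) (nat_lit 125) (nat_lit 133) (nat_lit 132)))))) (PT.nd (nat_lit 390) (PT.nd (nat_lit 156) (PT.nd (nat_lit 78) (PT.lf (nat_lit 4332) (nat_lit 6) (nat_lit 57) (nat_lit 4) (nat_lit 126) (nat_lit 133) (nat_lit 131)) (PT.lf (nat_lit 4560) (nat_lit 6) (nat_lit 60) (nat_lit 4) (nat_lit 127) (nat_lit 133) (nat_lit 130))) (PT.nd (nat_lit 78) (PT.lf (nat_lit 4484) (nat_lit 6) (nat_lit 59) (nat_lit 4) (nat_lit 128) (nat_lit 133) (nat_lit 129)) (PT.nd (nat_lit 78) (PT.lf (nat_lit 4484) (nat_lit 6) (nat_lit 59) (nat_lit 2) (nat_lit 129) (nat_lit 133) (nat_lit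 128)) (PT.lf (nat_lit 4560) (nat_lit 6) (nat_lit 60) (nat_lit 2) (nat_lit 130) (nat_lit 133) (nat_lit 127))))) (PT.nd (nat_lit 234) (PT.nd (nat_lit 78) (PT.lf (nat_lit 4332) (nat_lit 6) (nat_lit 57) (nat_lit 2) (nat_lit 131) (nat_lit 133) (nat_lit 126)) (PT.nd (nat_lit 78) (PT.lf (nat_lit 4028) (nat_lit 6) (nat_lit 53) (nat_lit 2) (nat_lit 132) (nat_lit 133) (nat_lit 125)) (PT.lf (nat_lit 3648) (nat_lit 3) (nat_lit 48) (nat_lit 0) (nat_lit 133) (nat_lit 133) (nat_lit 124)))) (PT.nd (nat_lit 78) (PT.lf (nat_lit 3116) (nat_lit 6) (nat_lit 41) (nat_lit 0) (nat_lit 134) (nat_lit 133) (nat_lit 123)) (PT.nd (nat_lit 78) (PT.lf (nat_lit 2812) (nat_lit 6) (nat_lit 37) (nat_lit 0) (nat_lit 135) (nat_lit 133) (nat_lit 122)) (PT.lf (nat_lit 2508) (nat_lit 6) (nat_lit 33) (nat_lit 0) (nat_lit 136) (nat_lit 133) (nat_lit 121))))))) (PT.nd (nat_lit 39936) (PT.nd (nat_lit 39468) (PT.nd (nat_lit 39234)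 (PT.nd (nat_lit 39156) (PT.lf (nat_lit 2204) (nat_lit 6) (nat_lit 29) (nat_lit 0) (nat_lit 137) (nat_lit 133) (nat_lit 120)) (PT.lf (nat_lit 1824) (nat_lit 6) (nat_lit 24) (nat_lit 5) (nat_lit 118) (nat_lit 134) (nat_lit 138))) (PT.nd (nat_lit 78) (PT.lf (nat_lit 2052) (nat_lit 6) (nat_lit 27) (nat_lit 5) (nat_lit 119) (nat_lit 134) (nat_lit 137)) (PT.nd (nat_lit 78) (PT.lf (nat_lit 2280) (nat_lit 6) (nat_lit 30) (nat_lit 5) (nat_lit 120) (nat_lit 134) (nat_lit 136)) (PT.lf (nat_lit 2584) (nat_lit 6) (nat_lit 34) (nat_lit 5) (nat_lit 121) (nat_lit 134) (nat_lit 135))))) (PT.nd (nat_lit 234) (PT.nd (nat_lit 78) (PT.lf (nat_lit 2888) (nat_lit 3) (nat_lit 38) (nat_lit 4) (nat_lit 122) (nat_lit 134) (nat_lit 134)) (PT.nd (nat_lit 78) (PT.lf (nat_lit 3116) (nat_lit 6) (nat_lit 41) (nat_lit 4) (nat_lit 123) (nat_lit 134) (nat_lit 133)) (PT.lf (nat_lit 3572) (nat_lit 6) (nat_lit 47) (nat_lit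 4) (nat_lit 124) (nat_lit 134) (nat_lit 132)))) (PT.nd (nat_lit 78) (PT.lf (nat_lit 3952) (nat_lit 6) (nat_lit 52) (nat_lit 4) (nat_lit 125) (nat_lit 134) (nat_lit 131)) (PT.nd (nat_lit 78) (PT.lf (nat_lit 4256) (nat_lit 6) (nat_lit 56) (nat_lit 4) (nat_lit 126) (nat_lit 134) (nat_lit 130)) (PT.lf (nat_lit 4180) (nat_lit 6) (nat_lit 55) (nat_lit 4) (nat_lit 127) (nat_lit 134) (nat_lit 129)))))) (PT.nd (nat_lit 390) (PT.nd (nat_lit 156) (PT.nd (nat_lit 78) (PT.lf (nat_lit 4104) (nat_lit 3) (nat_lit 54) (nat_lit 2) (nat_lit 128) (nat_lit 134) (nat_lit 128)) (PT.lf (nat_lit 4180) (nat_lit 6) (nat_lit 55) (nat_lit 2) (nat_lit 129) (nat_lit 134) (nat_lit 127))) (PT.nd (nat_lit 78) (PT.lf (nat_lit 4256) (nat_lit 6) (nat_lit 56) (nat_lit 2) (nat_lit 130) (nat_lit 134) (nat_lit 126)) (PT.nd (nat_lit 78) (PT.lf (nat_lit 3952) (nat_lit 6) (nat_lit 52) (nat_lit 2) (nat_lit 131) (nat_lit 134) (nat_lit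 125)) (PT.lf (nat_lit 3572) (nat_lit 6) (nat_lit 47) (nat_lit 2) (nat_lit 132) (nat_lit 134) (nat_lit 124))))) (PT.nd (nat_lit 234) (PT.nd (nat_lit 78) (PT.lf (nat_lit 3116) (nat_lit 6) (nat_lit 41) (nat_lit 2) (nat_lit 133) (nat_lit 134) (nat_lit 123)) (PT.nd (nat_lit 78) (PT.lf (nat_lit 2888) (nat_lit 3) (nat_lit 38) (nat_lit 0) (nat_lit 134) (nat_lit 134) (nat_lit 122)) (PT.lf (nat_lit 2584) (nat_lit 6) (nat_lit 34) (nat_lit 0) (nat_lit 135) (nat_lit 134) (nat_lit 121)))) (PT.nd (nat_lit 78) (PT.lf (nat_lit 2280) (nat_lit 6) (nat_lit 30) (nat_lit 0) (nat_lit 136) (nat_lit 134) (nat_lit 120)) (PT.nd (nat_lit 78) (PT.lf (nat_lit 2052) (nat_lit 6) (nat_lit 27) (nat_lit 0) (nat_lit 137) (nat_lit 134) (nat_lit 119)) (PT.lf (nat_lit 1824) (nat_lit 6) (nat_lit 24) (nat_lit 0) (nat_lit 138) (nat_lit 134) (nat_lit 118))))))))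
noncomputable def pc5 : PT := (PT.nd (nat_lit 1638) (PT.nd (nat_lit 780) (PT.nd (nat_lit 390) (PT.nd (nat_lit 156) (PT.nd (nat_lit 78) (PT.lf (nat_lit 1672) (nat_lit 6) (nat_lit 22) (nat_lit 5) (nat_lit 117) (nat_lit 135) (nat_lit 138)) (PT.lf (nat_lit 1900) (nat_lit 6) (nat_lit 25) (nat_lit 5) (nat_lit 118) (nat_lit 135) (nat_lit 137))) (PT.nd (nat_lit 78) (PT.lf (nat_lit 2128) (nat_lit 6) (nat_lit 28) (nat_lit 5) (nat_lit 119) (nat_lit 135) (nat_lit 136)) (PT.nd (nat_lit 78) (PT.lf (nat_lit 2356) (nat_lit 3) (nat_lit 31) (nat_lit 4) (nat_lit 120) (nat_lit 135) (nat_lit 135)) (PT.lf (nat_lit 2584) (nat_lit 6) (nat_lit 34) (nat_lit 4) (nat_lit 121) (nat_lit 135) (nat_lit 134))))) (PT.nd (nat_lit 156) (PT.nd (nat_lit 78) (PT.lf (nat_lit 2812) (nat_lit 6) (nat_lit 37) (nat_lit 4) (nat_lit 122) (nat_lit 135) (nat_lit 133)) (PT.lf (nat_lit 3040) (nat_lit 6) (nat_lit 40) (nat_lit 4) (nat_lit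 123) (nat_lit 135) (nat_lit 132))) (PT.nd (nat_lit 78) (PT.lf (nat_lit 3496) (nat_lit 6) (nat_lit 46) (nat_lit 4) (nat_lit 124) (nat_lit 135) (nat_lit 131)) (PT.nd (nat_lit 78) (PT.lf (nat_lit 3876) (nat_lit 6) (nat_lit 51) (nat_lit 4) (nat_lit 125) (nat_lit 135) (nat_lit 130)) (PT.lf (nat_lit 3800) (nat_lit 6) (nat_lit 50) (nat_lit 4) (nat_lit 126) (nat_lit 135) (nat_lit 129)))))) (PT.nd (nat_lit 390) (PT.nd (nat_lit 156) (PT.nd (nat_lit 78) (PT.lf (nat_lit 3724) (nat_lit 6) (nat_lit 49) (nat_lit 4) (nat_lit 127) (nat_lit 135) (nat_lit 128)) (PT.lf (nat_lit 3724) (nat_lit 6) (nat_lit 49) (nat_lit 2) (nat_lit 128) (nat_lit 135) (nat_lit 127))) (PT.nd (nat_lit 78) (PT.lf (nat_lit 3800) (nat_lit 6) (nat_lit 50) (nat_lit 2) (nat_lit 129) (nat_lit 135) (nat_lit 126)) (PT.nd (nat_lit 78) (PT.lf (nat_lit 3876) (nat_lit 6) (nat_lit 51) (nat_lit 2) (nat_lit 130) (nat_lit 135) (nat_lit 125)) (PT.lf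 (nat_lit 3496) (nat_lit 6) (nat_lit 46) (nat_lit 2) (nat_lit 131) (nat_lit 135) (nat_lit 124))))) (PT.nd (nat_lit 234) (PT.nd (nat_lit 78) (PT.lf (nat_lit 3040) (nat_lit 6) (nat_lit 40) (nat_lit 2) (nat_lit 132) (nat_lit 135) (nat_lit 123)) (PT.nd (nat_lit 78) (PT.lf (nat_lit 2812) (nat_lit 6) (nat_lit 37) (nat_lit 2) (nat_lit 133) (nat_lit 135) (nat_lit 122)) (PT.lf (nat_lit 2584) (nat_lit 6) (nat_lit 34) (nat_lit 2) (nat_lit 134) (nat_lit 135) (nat_lit 121)))) (PT.nd (nat_lit 78) (PT.lf (nat_lit 2356) (nat_lit 3) (nat_lit 31) (nat_lit 0) (nat_lit 135) (nat_lit 135) (nat_lit 120)) (PT.nd (nat_lit 78) (PT.lf (nat_lit 2128) (nat_lit 6) (nat_lit 28) (nat_lit 0) (nat_lit 136) (nat_lit 135) (nat_lit 119)) (PT.lf (nat_lit 1900) (nat_lit 6) (nat_lit 25) (nat_lit 0) (nat_lit 137) (nat_lit 135) (nat_lit 118))))))) (PT.nd (nat_lit 39624) (PT.nd (nat_lit 39156) (PT.nd (nat_lit 38922) (PT.nd (nat_lit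 38844) (PT.lf (nat_lit 1672) (nat_lit 6) (nat_lit 22) (nat_lit 0) (nat_lit 138) (nat_lit 135) (nat_lit 117)) (PT.lf (nat_lit 1368) (nat_lit 6) (nat_lit 18) (nat_lit 5) (nat_lit 115) (nat_lit 136) (nat_lit 139))) (PT.nd (nat_lit 78) (PT.lf (nat_lit 1520) (nat_lit 6) (nat_lit 20) (nat_lit 5) (nat_lit 116) (nat_lit 136) (nat_lit 138)) (PT.nd (nat_lit 78) (PT.lf (nat_lit 1748) (nat_lit 6) (nat_lit 23) (nat_lit 5) (nat_lit 117) (nat_lit 136) (nat_lit 137)) (PT.lf (nat_lit 1976) (nat_lit 3) (nat_lit 26) (nat_lit 4) (nat_lit 118) (nat_lit 136) (nat_lit 136))))) (PT.nd (nat_lit 234) (PT.nd (nat_lit 78) (PT.lf (nat_lit 2128) (nat_lit 6) (nat_lit 28) (nat_lit 4) (nat_lit 119) (nat_lit 136) (nat_lit 135)) (PT.nd (nat_lit 78) (PT.lf (nat_lit 2280) (nat_lit 6) (nat_lit 30) (nat_lit 4) (nat_lit 120) (nat_lit 136) (nat_lit 134)) (PT.lf (nat_lit 2508) (nat_lit 6) (nat_lit 33) (nat_lit 4) (nat_lit 121)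 (nat_lit 136) (nat_lit 133)))) (PT.nd (nat_lit 78) (PT.lf (nat_lit 2736) (nat_lit 6) (nat_lit 36) (nat_lit 4) (nat_lit 122) (nat_lit 136) (nat_lit 132)) (PT.nd (nat_lit 78) (PT.lf (nat_lit 2964) (nat_lit 6) (nat_lit 39) (nat_lit 4) (nat_lit 123) (nat_lit 136) (nat_lit 131)) (PT.lf (nat_lit 3420) (nat_lit 6) (nat_lit 45) (nat_lit 4) (nat_lit 124) (nat_lit 136) (nat_lit 130)))))) (PT.nd (nat_lit 390) (PT.nd (nat_lit 156) (PT.nd (nat_lit 78) (PT.lf (nat_lit 3344) (nat_lit 6) (nat_lit 44) (nat_lit 4) (nat_lit 125) (nat_lit 136) (nat_lit 129)) (PT.lf (nat_lit 3268) (nat_lit 6) (nat_lit 43) (nat_lit 4) (nat_lit 126) (nat_lit 136) (nat_lit 128))) (PT.nd (nat_lit 78) (PT.lf (nat_lit 3192) (nat_lit 3) (nat_lit 42) (nat_lit 2) (nat_lit 127) (nat_lit 136) (nat_lit 127)) (PT.nd (nat_lit 78) (PT.lf (nat_lit 3268) (nat_lit 6) (nat_lit 43) (nat_lit 2) (nat_lit 128) (nat_lit 136) (nat_lit 126)) (PT.lf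 (nat_lit 3344) (nat_lit 6) (nat_lit 44) (nat_lit 2) (nat_lit 129) (nat_lit 136) (nat_lit 125))))) (PT.nd (nat_lit 234) (PT.nd (nat_lit 78) (PT.lf (nat_lit 3420) (nat_lit 6) (nat_lit 45) (nat_lit 2) (nat_lit 130) (nat_lit 136) (nat_lit 124)) (PT.nd (nat_lit 78) (PT.lf (nat_lit 2964) (nat_lit 6) (nat_lit 39) (nat_lit 2) (nat_lit 131) (nat_lit 136) (nat_lit 123)) (PT.lf (nat_lit 2736) (nat_lit 6) (nat_lit 36) (nat_lit 2) (nat_lit 132) (nat_lit 136) (nat_lit 122)))) (PT.nd (nat_lit 78) (PT.lf (nat_lit 2508) (nat_lit 6) (nat_lit 33) (nat_lit 2) (nat_lit 133) (nat_lit 136) (nat_lit 121)) (PT.nd (nat_lit 78) (PT.lf (nat_lit 2280) (nat_lit 6) (nat_lit 30) (nat_lit 2) (nat_lit 134) (nat_lit 136) (nat_lit 120)) (PT.lf (nat_lit 2128) (nat_lit 6) (nat_lit 28) (nat_lit 2) (nat_lit 135) (nat_lit 136) (nat_lit 119))))))))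
noncomputable def pc6 : PT := (PT.nd (nat_lit 40794) (PT.nd (nat_lit 39312) (PT.nd (nat_lit 38922) (PT.nd (nat_lit 156) (PT.nd (nat_lit 78) (PT.lf (nat_lit 1976) (nat_lit 3) (nat_lit 26) (nat_lit 0) (nat_lit 136) (nat_lit 136) (nat_lit 118)) (PT.lf (nat_lit 1748) (nat_lit 6) (nat_lit 23) (nat_lit 0) (nat_lit 137) (nat_lit 136) (nat_lit 117))) (PT.nd (nat_lit 78) (PT.lf (nat_lit 1520) (nat_lit 6) (nat_lit 20) (nat_lit 0) (nat_lit 138) (nat_lit 136) (nat_lit 116)) (PT.nd (nat_lit 38610) (PT.lf (nat_lit 1368) (nat_lit 6) (nat_lit 18) (nat_lit 0) (nat_lit 139) (nat_lit 136) (nat_lit 115)) (PT.lf (nat_lit 1064) (nat_lit 6) (nat_lit 14) (nat_lit 5) (nat_lit 113) (nat_lit 137) (nat_lit 140))))) (PT.nd (nat_lit 156) (PT.nd (nat_lit 78) (PT.lf (nat_lit 1216) (nat_lit 6) (nat_lit 16) (nat_lit 5) (nat_lit 114) (nat_lit 137) (nat_lit 139)) (PT.lf (nat_lit 1444) (nat_lit 6) (nat_lit 19) (nat_lit 5)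 (nat_lit 115) (nat_lit 137) (nat_lit 138))) (PT.nd (nat_lit 78) (PT.lf (nat_lit 1596) (nat_lit 3) (nat_lit 21) (nat_lit 4) (nat_lit 116) (nat_lit 137) (nat_lit 137)) (PT.nd (nat_lit 78) (PT.lf (nat_lit 1748) (nat_lit 6) (nat_lit 23) (nat_lit 4) (nat_lit 117) (nat_lit 137) (nat_lit 136)) (PT.lf (nat_lit 1900) (nat_lit 6) (nat_lit 25) (nat_lit 4) (nat_lit 118) (nat_lit 137) (nat_lit 135)))))) (PT.nd (nat_lit 1014) (PT.nd (nat_lit 156) (PT.nd (nat_lit 78) (PT.lf (nat_lit 2052) (nat_lit 6) (nat_lit 27) (nat_lit 4) (nat_lit 119) (nat_lit 137) (nat_lit 134)) (PT.lf (nat_lit 2204) (nat_lit 6) (nat_lit 29) (nat_lit 4) (nat_lit 120) (nat_lit 137) (nat_lit 133))) (PT.nd (nat_lit 78) (PT.lf (nat_lit 2432) (nat_lit 6) (nat_lit 32) (nat_lit 4) (nat_lit 121) (nat_lit 137) (nat_lit 132)) (PT.nd (nat_lit 702) (PT.lf (nat_lit 2660) (nat_lit 6) (nat_lit 35) (nat_lit 4) (nat_lit 122) (nat_lit 137) (nat_lit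 131)) (PT.lf (nat_lit 2660) (nat_lit 6) (nat_lit 35) (nat_lit 2) (nat_lit 131) (nat_lit 137) (nat_lit 122))))) (PT.nd (nat_lit 234) (PT.nd (nat_lit 78) (PT.lf (nat_lit 2432) (nat_lit 6) (nat_lit 32) (nat_lit 2) (nat_lit 132) (nat_lit 137) (nat_lit 121)) (PT.nd (nat_lit 78) (PT.lf (nat_lit 2204) (nat_lit 6) (nat_lit 29) (nat_lit 2) (nat_lit 133) (nat_lit 137) (nat_lit 120)) (PT.lf (nat_lit 2052) (nat_lit 6) (nat_lit 27) (nat_lit 2) (nat_lit 134) (nat_lit 137) (nat_lit 119)))) (PT.nd (nat_lit 78) (PT.lf (nat_lit 1900) (nat_lit 6) (nat_lit 25) (nat_lit 2) (nat_lit 135) (nat_lit 137) (nat_lit 118)) (PT.nd (nat_lit 78) (PT.lf (nat_lit 1748) (nat_lit 6) (nat_lit 23) (nat_lit 2) (nat_lit 136) (nat_lit 137) (nat_lit 117)) (PT.lf (nat_lit 1596) (nat_lit 3) (nat_lit 21) (nat_lit 0) (nat_lit 137) (nat_lit 137) (nat_lit 116))))))) (PT.nd (nat_lit 40404) (PT.nd (nat_lit 38766) (PT.nd (nat_lit 156)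 (PT.nd (nat_lit 78) (PT.lf (nat_lit 1444) (nat_lit 6) (nat_lit 19) (nat_lit 0) (nat_lit 138) (nat_lit 137) (nat_lit 115)) (PT.lf (nat_lit 1216) (nat_lit 6) (nat_lit 16) (nat_lit 0) (nat_lit 139) (nat_lit 137) (nat_lit 114))) (PT.nd (nat_lit 38454) (PT.lf (nat_lit 1064) (nat_lit 6) (nat_lit 14) (nat_lit 0) (nat_lit 140) (nat_lit 137) (nat_lit 113)) (PT.nd (nat_lit 78) (PT.lf (nat_lit 912) (nat_lit 6) (nat_lit 12) (nat_lit 5) (nat_lit 112) (nat_lit 138) (nat_lit 140)) (PT.lf (nat_lit 1140) (nat_lit 6) (nat_lit 15) (nat_lit 5) (nat_lit 113) (nat_lit 138) (nat_lit 139))))) (PT.nd (nat_lit 234) (PT.nd (nat_lit 78) (PT.lf (nat_lit 1292) (nat_lit 3) (nat_lit 17) (nat_lit 4) (nat_lit 114) (nat_lit 138) (nat_lit 138)) (PT.nd (nat_lit 78) (PT.lf (nat_lit 1444) (nat_lit 6) (nat_lit 19) (nat_lit 4) (nat_lit 115) (nat_lit 138) (nat_lit 137)) (PT.lf (nat_lit 1520) (nat_lit 6) (nat_lit 20) (nat_lit 4)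 (nat_lit 116) (nat_lit 138) (nat_lit 136)))) (PT.nd (nat_lit 78) (PT.lf (nat_lit 1672) (nat_lit 6) (nat_lit 22) (nat_lit 4) (nat_lit 117) (nat_lit 138) (nat_lit 135)) (PT.nd (nat_lit 1248) (PT.lf (nat_lit 1824) (nat_lit 6) (nat_lit 24) (nat_lit 4) (nat_lit 118) (nat_lit 138) (nat_lit 134)) (PT.lf (nat_lit 1824) (nat_lit 6) (nat_lit 24) (nat_lit 2) (nat_lit 134) (nat_lit 138) (nat_lit 118)))))) (PT.nd (nat_lit 390) (PT.nd (nat_lit 156) (PT.nd (nat_lit 78) (PT.lf (nat_lit 1672) (nat_lit 6) (nat_lit 22) (nat_lit 2) (nat_lit 135) (nat_lit 138) (nat_lit 117)) (PT.lf (nat_lit 1520) (nat_lit 6) (nat_lit 20) (nat_lit 2) (nat_lit 136) (nat_lit 138) (nat_lit 116))) (PT.nd (nat_lit 78) (PT.lf (nat_lit 1444) (nat_lit 6) (nat_lit 19) (nat_lit 2) (nat_lit 137) (nat_lit 138) (nat_lit 115)) (PT.nd (nat_lit 78) (PT.lf (nat_lit 1292) (nat_lit 3) (nat_lit 17) (nat_lit 0) (nat_lit 138) (nat_lit 138) (nat_lit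 114)) (PT.lf (nat_lit 1140) (nat_lit 6) (nat_lit 15) (nat_lit 0) (nat_lit 139) (nat_lit 138) (nat_lit 113))))) (PT.nd (nat_lit 38454) (PT.nd (nat_lit 38298) (PT.lf (nat_lit 912) (nat_lit 6) (nat_lit 12) (nat_lit 0) (nat_lit 140) (nat_lit 138) (nat_lit 112)) (PT.nd (nat_lit 78) (PT.lf (nat_lit 684) (nat_lit 6) (nat_lit 9) (nat_lit 5) (nat_lit 110) (nat_lit 139) (nat_lit 141)) (PT.lf (nat_lit 836) (nat_lit 6) (nat_lit 11) (nat_lit 5) (nat_lit 111) (nat_lit 139) (nat_lit 140)))) (PT.nd (nat_lit 78) (PT.lf (nat_lit 988) (nat_lit 3) (nat_lit 13) (nat_lit 4) (nat_lit 112) (nat_lit 139) (nat_lit 139)) (PT.nd (nat_lit 78) (PT.lf (nat_lit 1140) (nat_lit 6) (nat_lit 15) (nat_lit 4) (nat_lit 113) (nat_lit 139) (nat_lit 138)) (PT.lf (nat_lit 1216) (nat_lit 6) (nat_lit 16) (nat_lit 4) (nat_lit 114) (nat_lit 139) (nat_lit 137))))))))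
noncomputable def pc7 : PT := (PT.nd (nat_lit 80730) (PT.nd (nat_lit 40326) (PT.nd (nat_lit 1950) (PT.nd (nat_lit 1716) (PT.nd (nat_lit 1638) (PT.lf (nat_lit 1368) (nat_lit 6) (nat_lit 18) (nat_lit 4) (nat_lit 115) (nat_lit 139) (nat_lit 136)) (PT.lf (nat_lit 1368) (nat_lit 6) (nat_lit 18) (nat_lit 2) (nat_lit 136) (nat_lit 139) (nat_lit 115))) (PT.nd (nat_lit 78) (PT.lf (nat_lit 1216) (nat_lit 6) (nat_lit 16) (nat_lit 2) (nat_lit 137) (nat_lit 139) (nat_lit 114)) (PT.nd (nat_lit 78) (PT.lf (nat_lit 1140) (nat_lit 6) (nat_lit 15) (nat_lit 2) (nat_lit 138) (nat_lit 139) (nat_lit 113)) (PT.lf (nat_lit 988) (nat_lit 3) (nat_lit 13) (nat_lit 0) (nat_lit 139) (nat_lit 139) (nat_lit 112))))) (PT.nd (nat_lit 38142) (PT.nd (nat_lit 78) (PT.lf (nat_lit 836) (nat_lit 6) (nat_lit 11) (nat_lit 0) (nat_lit 140) (nat_lit 139) (nat_lit 111)) (PT.lf (nat_lit 684) (nat_lit 6) (nat_lit 9) (nat_lit 0) (nat_lit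 141) (nat_lit 139) (nat_lit 110))) (PT.nd (nat_lit 78) (PT.lf (nat_lit 456) (nat_lit 6) (nat_lit 6) (nat_lit 5) (nat_lit 108) (nat_lit 140) (nat_lit 142)) (PT.nd (nat_lit 78) (PT.lf (nat_lit 608) (nat_lit 6) (nat_lit 8) (nat_lit 5) (nat_lit 109) (nat_lit 140) (nat_lit 141)) (PT.lf (nat_lit 760) (nat_lit 3) (nat_lit 10) (nat_lit 4) (nat_lit 110) (nat_lit 140) (nat_lit 140)))))) (PT.nd (nat_lit 2184) (PT.nd (nat_lit 156) (PT.nd (nat_lit 78) (PT.lf (nat_lit 836) (nat_lit 6) (nat_lit 11) (nat_lit 4) (nat_lit 111) (nat_lit 140) (nat_lit 139)) (PT.lf (nat_lit 912) (nat_lit 6) (nat_lit 12) (nat_lit 4) (nat_lit 112) (nat_lit 140) (nat_lit 138))) (PT.nd (nat_lit 1872) (PT.lf (nat_lit 1064) (nat_lit 6) (nat_lit 14) (nat_lit 4) (nat_lit 113) (nat_lit 140) (nat_lit 137)) (PT.nd (nat_lit 78) (PT.lf (nat_lit 1064) (nat_lit 6) (nat_lit 14) (nat_lit 2) (nat_lit 137) (nat_lit 140) (nat_lit 113)) (PT.lf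 (nat_lit 912) (nat_lit 6) (nat_lit 12) (nat_lit 2) (nat_lit 138) (nat_lit 140) (nat_lit 112))))) (PT.nd (nat_lit 234) (PT.nd (nat_lit 78) (PT.lf (nat_lit 836) (nat_lit 6) (nat_lit 11) (nat_lit 2) (nat_lit 139) (nat_lit 140) (nat_lit 111)) (PT.nd (nat_lit 78) (PT.lf (nat_lit 760) (nat_lit 3) (nat_lit 10) (nat_lit 0) (nat_lit 140) (nat_lit 140) (nat_lit 110)) (PT.lf (nat_lit 608) (nat_lit 6) (nat_lit 8) (nat_lit 0) (nat_lit 141) (nat_lit 140) (nat_lit 109)))) (PT.nd (nat_lit 37830) (PT.lf (nat_lit 456) (nat_lit 6) (nat_lit 6) (nat_lit 0) (nat_lit 142) (nat_lit 140) (nat_lit 108)) (PT.nd (nat_lit 78) (PT.lf (nat_lit 228) (nat_lit 6) (nat_lit 3) (nat_lit 5) (nat_lit 106) (nat_lit 141) (nat_lit 143)) (PT.lf (nat_lit 380) (nat_lit 6) (nat_lit 5) (nat_lit 5) (nat_lit 107) (nat_lit 141) (nat_lit 142))))))) (PT.nd (nat_lit 40638) (PT.nd (nat_lit 2574) (PT.nd (nat_lit 156) (PT.nd (nat_lit 78) (PT.lf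 (nat_lit 532) (nat_lit 3) (nat_lit 7) (nat_lit 4) (nat_lit 108) (nat_lit 141) (nat_lit 141)) (PT.lf (nat_lit 608) (nat_lit 6) (nat_lit 8) (nat_lit 4) (nat_lit 109) (nat_lit 141) (nat_lit 140))) (PT.nd (nat_lit 2262) (PT.lf (nat_lit 684) (nat_lit 6) (nat_lit 9) (nat_lit 4) (nat_lit 110) (nat_lit 141) (nat_lit 139)) (PT.nd (nat_lit 78) (PT.lf (nat_lit 684) (nat_lit 6) (nat_lit 9) (nat_lit 2) (nat_lit 139) (nat_lit 141) (nat_lit 110)) (PT.lf (nat_lit 608) (nat_lit 6) (nat_lit 8) (nat_lit 2) (nat_lit 140) (nat_lit 141) (nat_lit 109))))) (PT.nd (nat_lit 37830) (PT.nd (nat_lit 78) (PT.lf (nat_lit 532) (nat_lit 3) (nat_lit 7) (nat_lit 0) (nat_lit 141) (nat_lit 141) (nat_lit 108)) (PT.nd (nat_lit 78) (PT.lf (nat_lit 380) (nat_lit 6) (nat_lit 5) (nat_lit 0) (nat_lit 142) (nat_lit 141) (nat_lit 107)) (PT.lf (nat_lit 228) (nat_lit 6) (nat_lit 3) (nat_lit 0) (nat_lit 143) (nat_lit 141) (nat_lit 106))))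 (PT.nd (nat_lit 78) (PT.lf (nat_lit 152) (nat_lit 6) (nat_lit 2) (nat_lit 5) (nat_lit 105) (nat_lit 142) (nat_lit 143)) (PT.nd (nat_lit 78) (PT.lf (nat_lit 304) (nat_lit 3) (nat_lit 4) (nat_lit 4) (nat_lit 106) (nat_lit 142) (nat_lit 142)) (PT.lf (nat_lit 380) (nat_lit 6) (nat_lit 5) (nat_lit 4) (nat_lit 107) (nat_lit 142) (nat_lit 141)))))) (PT.nd (nat_lit 40326) (PT.nd (nat_lit 2574) (PT.nd (nat_lit 2496) (PT.lf (nat_lit 456) (nat_lit 6) (nat_lit 6) (nat_lit 4) (nat_lit 108) (nat_lit 142) (nat_lit 140)) (PT.lf (nat_lit 456) (nat_lit 6) (nat_lit 6) (nat_lit 2) (nat_lit 140) (nat_lit 142) (nat_lit 108))) (PT.nd (nat_lit 78) (PT.lf (nat_lit 380) (nat_lit 6) (nat_lit 5) (nat_lit 2) (nat_lit 141) (nat_lit 142) (nat_lit 107)) (PT.nd (nat_lit 78) (PT.lf (nat_lit 304) (nat_lit 3) (nat_lit 4) (nat_lit 0) (nat_lit 142) (nat_lit 142) (nat_lit 106)) (PT.lf (nat_lit 152) (nat_lit 6) (nat_lit 2) (nat_lit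 0) (nat_lit 143) (nat_lit 142) (nat_lit 105))))) (PT.nd (nat_lit 2886) (PT.nd (nat_lit 78) (PT.lf (nat_lit 76) (nat_lit 3) (nat_lit 1) (nat_lit 4) (nat_lit 104) (nat_lit 143) (nat_lit 143)) (PT.nd (nat_lit 78) (PT.lf (nat_lit 152) (nat_lit 6) (nat_lit 2) (nat_lit 4) (nat_lit 105) (nat_lit 143) (nat_lit 142)) (PT.lf (nat_lit 228) (nat_lit 6) (nat_lit 3) (nat_lit 4) (nat_lit 106) (nat_lit 143) (nat_lit 141)))) (PT.nd (nat_lit 78) (PT.lf (nat_lit 228) (nat_lit 6) (nat_lit 3) (nat_lit 2) (nat_lit 141) (nat_lit 143) (nat_lit 106)) (PT.nd (nat_lit 78) (PT.lf (nat_lit 152) (nat_lit 6) (nat_lit 2) (nat_lit 2) (nat_lit 142) (nat_lit 143) (nat_lit 105)) (PT.lf (nat_lit 76) (nat_lit 3) (nat_lit 1) (nat_lit 0) (nat_lit 143) (nat_lit 143) (nat_lit 104))))))))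
noncomputable def xc0 : XT := (XT.nd (nat_lit 162318) (nat_lit 0) (nat_lit 0) (XT.nd (nat_lit 121524) (nat_lit 0) (nat_lit 0) (XT.nd (nat_lit 81042) (nat_lit 0) (nat_lit 0) (XT.nd (nat_lit 40560) (nat_lit 0) (nat_lit 0) (XT.nd (nat_lit 40482) (nat_lit 0) (nat_lit 0) (XT.lf (nat_lit 0) (nat_lit 405898992460) (nat_lit 76) (nat_lit 100457834683) (nat_lit 76) (nat_lit 100457834683) (nat_lit 1) (nat_lit 4) (nat_lit 2) (nat_lit 5) (nat_lit 2) (nat_lit 4) (nat_lit 350) (nat_lit 215) (nat_lit 215)) (XT.lf (nat_lit 0) (nat_lit 346018456178) (nat_lit 76) (nat_lit 87139961040) (nat_lit 76) (nat_lit 87139961040) (nat_lit 1) (nat_lit 4) (nat_lit 2) (nat_lit 5) (nat_lit 2) (nat_lit 4) (nat_lit 348) (nat_lit 216) (nat_lit 216))) (XT.nd (nat_lit 78) (nat_lit 0) (nat_lit 0) (XT.lf (nat_lit 0) (nat_lit 749641636522) (nat_lit 76) (nat_lit 187100955857) (nat_lit 76) (nat_lit 187042171300) (nat_lit 1) (nat_lit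 4) (nat_lit 2) (nat_lit 5) (nat_lit 2) (nat_lit 4) (nat_lit 349) (nat_lit 216) (nat_lit 215)) (XT.nd (nat_lit 40326) (nat_lit 0) (nat_lit 0) (XT.lf (nat_lit 0) (nat_lit 811745435197) (nat_lit 76) (nat_lit 200999251689) (nat_lit 76) (nat_lit 200886036985) (nat_lit 1) (nat_lit 4) (nat_lit 2) (nat_lit 5) (nat_lit 2) (nat_lit 4) (nat_lit 350) (nat_lit 216) (nat_lit 214)) (XT.lf (nat_lit 0) (nat_lit 294522587268) (nat_lit 76) (nat_lit 75803115726) (nat_lit 76) (nat_lit 75803115726) (nat_lit 1) (nat_lit 4) (nat_lit 2) (nat_lit 5) (nat_lit 2) (nat_lit 4) (nat_lit 346) (nat_lit 217) (nat_lit 217))))) (XT.nd (nat_lit 156) (nat_lit 0) (nat_lit 0) (XT.nd (nat_lit 78) (nat_lit 0) (nat_lit 0) (XT.lf (nat_lit 0) (nat_lit 638589901372) (nat_lit 76) (nat_lit 162523661182) (nat_lit 76) (nat_lit 162460173860) (nat_lit 1) (nat_lit 4) (nat_lit 2) (nat_lit 5) (nat_lit 2) (nat_lit 4) (nat_lit 347) (nat_lit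 217) (nat_lit 216)) (XT.lf (nat_lit 0) (nat_lit 691980158655) (nat_lit 76) (nat_lit 174370190989) (nat_lit 76) (nat_lit 174247919108) (nat_lit 1) (nat_lit 4) (nat_lit 2) (nat_lit 5) (nat_lit 2) (nat_lit 4) (nat_lit 348) (nat_lit 217) (nat_lit 215))) (XT.nd (nat_lit 78) (nat_lit 0) (nat_lit 0) (XT.lf (nat_lit 0) (nat_lit 749532333098) (nat_lit 76) (nat_lit 187216022531) (nat_lit 76) (nat_lit 187039320505) (nat_lit 1) (nat_lit 4) (nat_lit 2) (nat_lit 5) (nat_lit 2) (nat_lit 4) (nat_lit 349) (nat_lit 217) (nat_lit 214)) (XT.nd (nat_lit 40170) (nat_lit 0) (nat_lit 0) (XT.lf (nat_lit 0) (nat_lit 811587474623) (nat_lit 76) (nat_lit 201137279257) (nat_lit 76) (nat_lit 200910178947) (nat_lit 1) (nat_lit 4) (nat_lit 2) (nat_lit 5) (nat_lit 2) (nat_lit 4) (nat_lit 350) (nat_lit 217) (nat_lit 213)) (XT.lf (nat_lit 0) (nat_lit 250202582347) (nat_lit 76) (nat_lit 66171169686) (nat_lit 76) (nat_lit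 66171169686) (nat_lit 1) (nat_lit 4) (nat_lit 2) (nat_lit 5) (nat_lit 2) (nat_lit 4) (nat_lit 344) (nat_lit 218) (nat_lit 218)))))) (XT.nd (nat_lit 390) (nat_lit 0) (nat_lit 0) (XT.nd (nat_lit 156) (nat_lit 0) (nat_lit 0) (XT.nd (nat_lit 78) (nat_lit 0) (nat_lit 0) (XT.lf (nat_lit 0) (nat_lit 543052379771) (nat_lit 76) (nat_lit 141621772232) (nat_lit 76) (nat_lit 141553205923) (nat_lit 1) (nat_lit 4) (nat_lit 2) (nat_lit 5) (nat_lit 2) (nat_lit 4) (nat_lit 345) (nat_lit 218) (nat_lit 217)) (XT.lf (nat_lit 0) (nat_lit 588983880540) (nat_lit 76) (nat_lit 151703721875) (nat_lit 76) (nat_lit 151571668244) (nat_lit 1) (nat_lit 4) (nat_lit 2) (nat_lit 5) (nat_lit 2) (nat_lit 4) (nat_lit 346) (nat_lit 218) (nat_lit 216))) (XT.nd (nat_lit 78) (nat_lit 0) (nat_lit 0) (XT.lf (nat_lit 0) (nat_lit 638471853674) (nat_lit 76) (nat_lit 162647933190) (nat_lit 76) (nat_lit 162457095002) (nat_lit 1) (nat_lit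 4) (nat_lit 2) (nat_lit 5) (nat_lit 2) (nat_lit 4) (nat_lit 347) (nat_lit 218) (nat_lit 215)) (XT.nd (nat_lit 78) (nat_lit 0) (nat_lit 0) (XT.lf (nat_lit 0) (nat_lit 691809561235) (nat_lit 76) (nat_lit 174519260762) (nat_lit 76) (nat_lit 174273992427) (nat_lit 1) (nat_lit 4) (nat_lit 2) (nat_lit 5) (nat_lit 2) (nat_lit 4) (nat_lit 348) (nat_lit 218) (nat_lit 214)) (XT.lf (nat_lit 0) (nat_lit 749313078527) (nat_lit 76) (nat_lit 187388053199) (nat_lit 76) (nat_lit 187092386581) (nat_lit 1) (nat_lit 4) (nat_lit 2) (nat_lit 5) (nat_lit 2) (nat_lit 4) (nat_lit 349) (nat_lit 218) (nat_lit 213))))) (XT.nd (nat_lit 40170) (nat_lit 0) (nat_lit 0) (XT.nd (nat_lit 40014) (nat_lit 0) (nat_lit 0) (XT.lf (nat_lit 0) (nat_lit 811323167135) (nat_lit 76) (nat_lit 201330570011) (nat_lit 76) (nat_lit 200988238316) (nat_lit 1) (nat_lit 4) (nat_lit 2) (nat_lit 5) (nat_lit 2) (nat_lit 4) (nat_lit 350) (nat_lit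 218) (nat_lit 212)) (XT.nd (nat_lit 78) (nat_lit 0) (nat_lit 0) (XT.lf (nat_lit 0) (nat_lit 212021076398) (nat_lit 76) (nat_lit 58007905700) (nat_lit 76) (nat_lit 58007905700) (nat_lit 1) (nat_lit 4) (nat_lit 2) (nat_lit 5) (nat_lit 2) (nat_lit 4) (nat_lit 342) (nat_lit 219) (nat_lit 219)) (XT.lf (nat_lit 0) (nat_lit 460789511073) (nat_lit 76) (nat_lit 123884485679) (nat_lit 76) (nat_lit 123810434066) (nat_lit 1) (nat_lit 4) (nat_lit 2) (nat_lit 5) (nat_lit 2) (nat_lit 4) (nat_lit 343) (nat_lit 219) (nat_lit 218)))) (XT.nd (nat_lit 78) (nat_lit 0) (nat_lit 0) (XT.lf (nat_lit 0) (nat_lit 500338967177) (nat_lit 76) (nat_lit 132447629028) (nat_lit 76) (nat_lit 132305011107) (nat_lit 1) (nat_lit 4) (nat_lit 2) (nat_lit 5) (nat_lit 2) (nat_lit 4) (nat_lit 344) (nat_lit 219) (nat_lit 217)) (XT.nd (nat_lit 78) (nat_lit 0) (nat_lit 0) (XT.lf (nat_lit 0) (nat_lit 542924888257) (nat_lit 76) (nat_lit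 141755986000) (nat_lit 76) (nat_lit 141549880757) (nat_lit 1) (nat_lit 4) (nat_lit 2) (nat_lit 5) (nat_lit 2) (nat_lit 4) (nat_lit 345) (nat_lit 219) (nat_lit 216)) (XT.lf (nat_lit 0) (nat_lit 588799635326) (nat_lit 76) (nat_lit 151864717230) (nat_lit 76) (nat_lit 151599827429) (nat_lit 1) (nat_lit 4) (nat_lit 2) (nat_lit 5) (nat_lit 2) (nat_lit 4) (nat_lit 346) (nat_lit 219) (nat_lit 215))))))) (XT.nd (nat_lit 40560) (nat_lit 0) (nat_lit 0) (XT.nd (nat_lit 40170) (nat_lit 0) (nat_lit 0) (XT.nd (nat_lit 156) (nat_lit 0) (nat_lit 0) (XT.nd (nat_lit 78) (nat_lit 0) (nat_lit 0) (XT.lf (nat_lit 0) (nat_lit 638235058737) (nat_lit 76) (nat_lit 162833726310) (nat_lit 76) (nat_lit 162514406363) (nat_lit 1) (nat_lit 4) (nat_lit 2) (nat_lit 5) (nat_lit 2) (nat_lit 4) (nat_lit 347) (nat_lit 219) (nat_lit 214)) (XT.lf (nat_lit 0) (nat_lit 691524109148) (nat_lit 76) (nat_lit 174728014776) (nat_lit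 76) (nat_lit 174358296545) (nat_lit 1) (nat_lit 4) (nat_lit 2) (nat_lit 5) (nat_lit 2) (nat_lit 4) (nat_lit 348) (nat_lit 219) (nat_lit 213))) (XT.nd (nat_lit 78) (nat_lit 0) (nat_lit 0) (XT.lf (nat_lit 0) (nat_lit 748982573522) (nat_lit 76) (nat_lit 187618067300) (nat_lit 76) (nat_lit 187201683992) (nat_lit 1) (nat_lit 4) (nat_lit 2) (nat_lit 5) (nat_lit 2) (nat_lit 4) (nat_lit 349) (nat_lit 219) (nat_lit 212)) (XT.nd (nat_lit 39858) (nat_lit 0) (nat_lit 0) (XT.lf (nat_lit 0) (nat_lit 810950946465) (nat_lit 76) (nat_lit 201580269377) (nat_lit 76) (nat_lit 201120677665) (nat_lit 1) (nat_lit 4) (nat_lit 2) (nat_lit 5) (nat_lit 2) (nat_lit 4) (nat_lit 350) (nat_lit 219) (nat_lit 211)) (XT.lf (nat_lit 0) (nat_lit 179087604299) (nat_lit 76) (nat_lit 51111366037) (nat_lit 76) (nat_lit 51111366037) (nat_lit 1) (nat_lit 4) (nat_lit 2) (nat_lit 5) (nat_lit 2) (nat_lit 4) (nat_lit 340) (nat_lit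 220) (nat_lit 220))))) (XT.nd (nat_lit 156) (nat_lit 0) (nat_lit 0) (XT.nd (nat_lit 78) (nat_lit 0) (nat_lit 0) (XT.lf (nat_lit 0) (nat_lit 389879130223) (nat_lit 76) (nat_lit 108874952755) (nat_lit 76) (nat_lit 108794977013) (nat_lit 1) (nat_lit 4) (nat_lit 2) (nat_lit 5) (nat_lit 2) (nat_lit 4) (nat_lit 341) (nat_lit 220) (nat_lit 219)) (XT.lf (nat_lit 0) (nat_lit 423970659478) (nat_lit 76) (nat_lit 116129524229) (nat_lit 76) (nat_lit 115975496874) (nat_lit 1) (nat_lit 4) (nat_lit 2) (nat_lit 5) (nat_lit 2) (nat_lit 4) (nat_lit 342) (nat_lit 220) (nat_lit 218))) (XT.nd (nat_lit 78) (nat_lit 0) (nat_lit 0) (XT.lf (nat_lit 0) (nat_lit 460651820238) (nat_lit 76) (nat_lit 124029436550) (nat_lit 76) (nat_lit 123806842887) (nat_lit 1) (nat_lit 4) (nat_lit 2) (nat_lit 5) (nat_lit 2) (nat_lit 4) (nat_lit 343) (nat_lit 220) (nat_lit 217)) (XT.nd (nat_lit 78) (nat_lit 0) (nat_lit 0) (XT.lf (nat_lit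 0) (nat_lit 500139982346) (nat_lit 76) (nat_lit 132621504012) (nat_lit 76) (nat_lit 132335423026) (nat_lit 1) (nat_lit 4) (nat_lit 2) (nat_lit 5) (nat_lit 2) (nat_lit 4) (nat_lit 344) (nat_lit 220) (nat_lit 216)) (XT.lf (nat_lit 0) (nat_lit 542669149726) (nat_lit 76) (nat_lit 141956642570) (nat_lit 76) (nat_lit 141611777027) (nat_lit 1) (nat_lit 4) (nat_lit 2) (nat_lit 5) (nat_lit 2) (nat_lit 4) (nat_lit 345) (nat_lit 220) (nat_lit 215)))))) (XT.nd (nat_lit 40014) (nat_lit 0) (nat_lit 0) (XT.nd (nat_lit 156) (nat_lit 0) (nat_lit 0) (XT.nd (nat_lit 78) (nat_lit 0) (nat_lit 0) (XT.lf (nat_lit 0) (nat_lit 588491347072) (nat_lit 76) (nat_lit 152090171566) (nat_lit 76) (nat_lit 151690875877) (nat_lit 1) (nat_lit 4) (nat_lit 2) (nat_lit 5) (nat_lit 2) (nat_lit 4) (nat_lit 346) (nat_lit 220) (nat_lit 214)) (XT.lf (nat_lit 0) (nat_lit 637878113332) (nat_lit 76) (nat_lit 163082141540) (nat_lit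 76) (nat_lit 162632447567) (nat_lit 1) (nat_lit 4) (nat_lit 2) (nat_lit 5) (nat_lit 2) (nat_lit 4) (nat_lit 347) (nat_lit 220) (nat_lit 213))) (XT.nd (nat_lit 78) (nat_lit 0) (nat_lit 0) (XT.lf (nat_lit 0) (nat_lit 691122110825) (nat_lit 76) (nat_lit 174997690092) (nat_lit 76) (nat_lit 174501331042) (nat_lit 1) (nat_lit 4) (nat_lit 2) (nat_lit 5) (nat_lit 2) (nat_lit 4) (nat_lit 348) (nat_lit 220) (nat_lit 212)) (XT.nd (nat_lit 78) (nat_lit 0) (nat_lit 0) (XT.lf (nat_lit 0) (nat_lit 748538859535) (nat_lit 76) (nat_lit 187907427881) (nat_lit 76) (nat_lit 187367860427) (nat_lit 1) (nat_lit 4) (nat_lit 2) (nat_lit 5) (nat_lit 2) (nat_lit 4) (nat_lit 349) (nat_lit 220) (nat_lit 211)) (XT.lf (nat_lit 0) (nat_lit 810468606863) (nat_lit 76) (nat_lit 201887857057) (nat_lit 76) (nat_lit 201308281820) (nat_lit 1) (nat_lit 4) (nat_lit 2) (nat_lit 5) (nat_lit 2) (nat_lit 4) (nat_lit 350) (nat_lit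 220) (nat_lit 210))))) (XT.nd (nat_lit 234) (nat_lit 0) (nat_lit 0) (XT.nd (nat_lit 78) (nat_lit 0) (nat_lit 0) (XT.lf (nat_lit 0) (nat_lit 150637556564) (nat_lit 76) (nat_lit 45309009785) (nat_lit 76) (nat_lit 45309009785) (nat_lit 1) (nat_lit 4) (nat_lit 2) (nat_lit 5) (nat_lit 2) (nat_lit 4) (nat_lit 338) (nat_lit 221) (nat_lit 221)) (XT.nd (nat_lit 78) (nat_lit 0) (nat_lit 0) (XT.lf (nat_lit 0) (nat_lit 328671019510) (nat_lit 76) (nat_lit 96219815420) (nat_lit 76) (nat_lit 96133441619) (nat_lit 1) (nat_lit 4) (nat_lit 2) (nat_lit 5) (nat_lit 2) (nat_lit 4) (nat_lit 339) (nat_lit 221) (nat_lit 220)) (XT.lf (nat_lit 0) (nat_lit 358097995815) (nat_lit 76) (nat_lit 102345541928) (nat_lit 76) (nat_lit 102179192385) (nat_lit 1) (nat_lit 4) (nat_lit 2) (nat_lit 5) (nat_lit 2) (nat_lit 4) (nat_lit 340) (nat_lit 221) (nat_lit 219)))) (XT.nd (nat_lit 78) (nat_lit 0) (nat_lit 0) (XT.lf (nat_lit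 0) (nat_lit 389730424122) (nat_lit 76) (nat_lit 109031499695) (nat_lit 76) (nat_lit 108791098539) (nat_lit 1) (nat_lit 4) (nat_lit 2) (nat_lit 5) (nat_lit 2) (nat_lit 4) (nat_lit 341) (nat_lit 221) (nat_lit 218)) (XT.nd (nat_lit 78) (nat_lit 0) (nat_lit 0) (XT.lf (nat_lit 0) (nat_lit 423755755860) (nat_lit 76) (nat_lit 116317309211) (nat_lit 76) (nat_lit 116008341747) (nat_lit 1) (nat_lit 4) (nat_lit 2) (nat_lit 5) (nat_lit 2) (nat_lit 4) (nat_lit 342) (nat_lit 221) (nat_lit 217)) (XT.lf (nat_lit 0) (nat_lit 460375622624) (nat_lit 76) (nat_lit 124246145645) (nat_lit 76) (nat_lit 123873690859) (nat_lit 1) (nat_lit 4) (nat_lit 2) (nat_lit 5) (nat_lit 2) (nat_lit 4) (nat_lit 343) (nat_lit 221) (nat_lit 216))))))))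
noncomputable def xc1 : XT := (XT.nd (nat_lit 41106) (nat_lit 0) (nat_lit 0) (XT.nd (nat_lit 40248) (nat_lit 0) (nat_lit 0) (XT.nd (nat_lit 390) (nat_lit 0) (nat_lit 0) (XT.nd (nat_lit 156) (nat_lit 0) (nat_lit 0) (XT.nd (nat_lit 78) (nat_lit 0) (nat_lit 0) (XT.lf (nat_lit 0) (nat_lit 499807031031) (nat_lit 76) (nat_lit 132864994694) (nat_lit 76) (nat_lit 132433755350) (nat_lit 1) (nat_lit 4) (nat_lit 2) (nat_lit 5) (nat_lit 2) (nat_lit 4) (nat_lit 344) (nat_lit 221) (nat_lit 215)) (XT.lf (nat_lit 0) (nat_lit 542283648688) (nat_lit 76) (nat_lit 142224931018) (nat_lit 76) (nat_lit 141739261528) (nat_lit 1) (nat_lit 4) (nat_lit 2) (nat_lit 5) (nat_lit 2) (nat_lit 4) (nat_lit 345) (nat_lit 221) (nat_lit 214))) (XT.nd (nat_lit 78) (nat_lit 0) (nat_lit 0) (XT.lf (nat_lit 0) (nat_lit 588057188883) (nat_lit 76) (nat_lit 152381420907) (nat_lit 76) (nat_lit 151845353133) (nat_lit 1) (nat_lit 4)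 (nat_lit 2) (nat_lit 5) (nat_lit 2) (nat_lit 4) (nat_lit 346) (nat_lit 221) (nat_lit 213)) (XT.nd (nat_lit 78) (nat_lit 0) (nat_lit 0) (XT.lf (nat_lit 0) (nat_lit 637398902226) (nat_lit 76) (nat_lit 163394650968) (nat_lit 76) (nat_lit 162811918117) (nat_lit 1) (nat_lit 4) (nat_lit 2) (nat_lit 5) (nat_lit 2) (nat_lit 4) (nat_lit 347) (nat_lit 221) (nat_lit 212)) (XT.lf (nat_lit 0) (nat_lit 690601184054) (nat_lit 76) (nat_lit 175329884786) (nat_lit 76) (nat_lit 174703943530) (nat_lit 1) (nat_lit 4) (nat_lit 2) (nat_lit 5) (nat_lit 2) (nat_lit 4) (nat_lit 348) (nat_lit 221) (nat_lit 211))))) (XT.nd (nat_lit 39624) (nat_lit 0) (nat_lit 0) (XT.nd (nat_lit 78) (nat_lit 0) (nat_lit 0) (XT.lf (nat_lit 0) (nat_lit 747979307150) (nat_lit 76) (nat_lit 188257849673) (nat_lit 76) (nat_lit 187591900635) (nat_lit 1) (nat_lit 4) (nat_lit 2) (nat_lit 5) (nat_lit 2) (nat_lit 4) (nat_lit 349) (nat_lit 221)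 (nat_lit 210)) (XT.lf (nat_lit 0) (nat_lit 809873290020) (nat_lit 76) (nat_lit 202255155791) (nat_lit 76) (nat_lit 201552162510) (nat_lit 1) (nat_lit 4) (nat_lit 2) (nat_lit 5) (nat_lit 2) (nat_lit 4) (nat_lit 350) (nat_lit 221) (nat_lit 209))) (XT.nd (nat_lit 78) (nat_lit 0) (nat_lit 0) (XT.lf (nat_lit 0) (nat_lit 126014130294) (nat_lit 76) (nat_lit 40453564643) (nat_lit 76) (nat_lit 40453564643) (nat_lit 1) (nat_lit 4) (nat_lit 2) (nat_lit 5) (nat_lit 2) (nat_lit 4) (nat_lit 336) (nat_lit 222) (nat_lit 222)) (XT.nd (nat_lit 78) (nat_lit 0) (nat_lit 0) (XT.lf (nat_lit 0) (nat_lit 275747930554) (nat_lit 76) (nat_lit 85600242256) (nat_lit 76) (nat_lit 85506958551) (nat_lit 1) (nat_lit 4) (nat_lit 2) (nat_lit 5) (nat_lit 2) (nat_lit 4) (nat_lit 337) (nat_lit 222) (nat_lit 221)) (XT.lf (nat_lit 0) (nat_lit 301191723322) (nat_lit 76) (nat_lit 90750654213) (nat_lit 76) (nat_lit 90570996706)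 (nat_lit 1) (nat_lit 4) (nat_lit 2) (nat_lit 5) (nat_lit 2) (nat_lit 4) (nat_lit 338) (nat_lit 222) (nat_lit 220)))))) (XT.nd (nat_lit 390) (nat_lit 0) (nat_lit 0) (XT.nd (nat_lit 156) (nat_lit 0) (nat_lit 0) (XT.nd (nat_lit 78) (nat_lit 0) (nat_lit 0) (XT.lf (nat_lit 0) (nat_lit 328510416921) (nat_lit 76) (nat_lit 96388886115) (nat_lit 76) (nat_lit 96129252867) (nat_lit 1) (nat_lit 4) (nat_lit 2) (nat_lit 5) (nat_lit 2) (nat_lit 4) (nat_lit 339) (nat_lit 222) (nat_lit 219)) (XT.lf (nat_lit 0) (nat_lit 357865899908) (nat_lit 76) (nat_lit 102548349709) (nat_lit 76) (nat_lit 102214664848) (nat_lit 1) (nat_lit 4) (nat_lit 2) (nat_lit 5) (nat_lit 2) (nat_lit 4) (nat_lit 340) (nat_lit 222) (nat_lit 218))) (XT.nd (nat_lit 78) (nat_lit 0) (nat_lit 0) (XT.lf (nat_lit 0) (nat_lit 389432130699) (nat_lit 76) (nat_lit 109265545518) (nat_lit 76) (nat_lit 108863294349) (nat_lit 1) (nat_lit 4) (nat_lit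 2) (nat_lit 5) (nat_lit 2) (nat_lit 4) (nat_lit 341) (nat_lit 222) (nat_lit 217)) (XT.nd (nat_lit 78) (nat_lit 0) (nat_lit 0) (XT.lf (nat_lit 0) (nat_lit 423396168440) (nat_lit 76) (nat_lit 116580279148) (nat_lit 76) (nat_lit 116114540656) (nat_lit 1) (nat_lit 4) (nat_lit 2) (nat_lit 5) (nat_lit 2) (nat_lit 4) (nat_lit 342) (nat_lit 222) (nat_lit 216)) (XT.lf (nat_lit 0) (nat_lit 459959281503) (nat_lit 76) (nat_lit 124535897169) (nat_lit 76) (nat_lit 124011374119) (nat_lit 1) (nat_lit 4) (nat_lit 2) (nat_lit 5) (nat_lit 2) (nat_lit 4) (nat_lit 343) (nat_lit 222) (nat_lit 215))))) (XT.nd (nat_lit 234) (nat_lit 0) (nat_lit 0) (XT.nd (nat_lit 78) (nat_lit 0) (nat_lit 0) (XT.lf (nat_lit 0) (nat_lit 499338140188) (nat_lit 76) (nat_lit 133179543982) (nat_lit 76) (nat_lit 132600590787) (nat_lit 1) (nat_lit 4) (nat_lit 2) (nat_lit 5) (nat_lit 2) (nat_lit 4) (nat_lit 344) (nat_lit 222) (nat_lit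 214)) (XT.nd (nat_lit 78) (nat_lit 0) (nat_lit 0) (XT.lf (nat_lit 0) (nat_lit 541766100693) (nat_lit 76) (nat_lit 142562441200) (nat_lit 76) (nat_lit 141933089721) (nat_lit 1) (nat_lit 4) (nat_lit 2) (nat_lit 5) (nat_lit 2) (nat_lit 4) (nat_lit 345) (nat_lit 222) (nat_lit 213)) (XT.lf (nat_lit 0) (nat_lit 587494587971) (nat_lit 76) (nat_lit 152740191176) (nat_lit 76) (nat_lit 152064174620) (nat_lit 1) (nat_lit 4) (nat_lit 2) (nat_lit 5) (nat_lit 2) (nat_lit 4) (nat_lit 346) (nat_lit 222) (nat_lit 212)))) (XT.nd (nat_lit 78) (nat_lit 0) (nat_lit 0) (XT.lf (nat_lit 0) (nat_lit 636794585650) (nat_lit 76) (nat_lit 163773106502) (nat_lit 76) (nat_lit 163053881541) (nat_lit 1) (nat_lit 4) (nat_lit 2) (nat_lit 5) (nat_lit 2) (nat_lit 4) (nat_lit 347) (nat_lit 222) (nat_lit 211)) (XT.nd (nat_lit 78) (nat_lit 0) (nat_lit 0) (XT.lf (nat_lit 0) (nat_lit 689958241863) (nat_lit 76) (nat_lit 175726567418)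 (nat_lit 76) (nat_lit 174967334675) (nat_lit 1) (nat_lit 4) (nat_lit 2) (nat_lit 5) (nat_lit 2) (nat_lit 4) (nat_lit 348) (nat_lit 222) (nat_lit 210)) (XT.lf (nat_lit 0) (nat_lit 747300600500) (nat_lit 76) (nat_lit 188671409247) (nat_lit 76) (nat_lit 187875132261) (nat_lit 1) (nat_lit 4) (nat_lit 2) (nat_lit 5) (nat_lit 2) (nat_lit 4) (nat_lit 349) (nat_lit 222) (nat_lit 209))))))) (XT.nd (nat_lit 40092) (nat_lit 0) (nat_lit 0) (XT.nd (nat_lit 39702) (nat_lit 0) (nat_lit 0) (XT.nd (nat_lit 39468) (nat_lit 0) (nat_lit 0) (XT.nd (nat_lit 39390) (nat_lit 0) (nat_lit 0) (XT.lf (nat_lit 0) (nat_lit 809161468131) (nat_lit 76) (nat_lit 202684342164) (nat_lit 76) (nat_lit 201853764953) (nat_lit 1) (nat_lit 4) (nat_lit 2) (nat_lit 5) (nat_lit 2) (nat_lit 4) (nat_lit 350) (nat_lit 222) (nat_lit 208)) (XT.lf (nat_lit 0) (nat_lit 104652847484) (nat_lit 76) (nat_lit 36419474364) (nat_lit 76) (nat_lit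 36419474364) (nat_lit 1) (nat_lit 4) (nat_lit 2) (nat_lit 5) (nat_lit 2) (nat_lit 4) (nat_lit 334) (nat_lit 223) (nat_lit 223))) (XT.nd (nat_lit 78) (nat_lit 0) (nat_lit 0) (XT.lf (nat_lit 0) (nat_lit 229892152416) (nat_lit 76) (nat_lit 76744250665) (nat_lit 76) (nat_lit 76643504263) (nat_lit 1) (nat_lit 4) (nat_lit 2) (nat_lit 5) (nat_lit 2) (nat_lit 4) (nat_lit 335) (nat_lit 223) (nat_lit 222)) (XT.nd (nat_lit 78) (nat_lit 0) (nat_lit 0) (XT.lf (nat_lit 0) (nat_lit 251938199598) (nat_lit 76) (nat_lit 81050374700) (nat_lit 76) (nat_lit 80856344593) (nat_lit 1) (nat_lit 4) (nat_lit 2) (nat_lit 5) (nat_lit 2) (nat_lit 4) (nat_lit 336) (nat_lit 223) (nat_lit 221)) (XT.lf (nat_lit 0) (nat_lit 275574479758) (nat_lit 76) (nat_lit 85782838607) (nat_lit 76) (nat_lit 85502434698) (nat_lit 1) (nat_lit 4) (nat_lit 2) (nat_lit 5) (nat_lit 2) (nat_lit 4) (nat_lit 337) (nat_lit 223) (nat_lit 220)))))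 (XT.nd (nat_lit 156) (nat_lit 0) (nat_lit 0) (XT.nd (nat_lit 78) (nat_lit 0) (nat_lit 0) (XT.lf (nat_lit 0) (nat_lit 300941059742) (nat_lit 76) (nat_lit 90969686616) (nat_lit 76) (nat_lit 90609306966) (nat_lit 1) (nat_lit 4) (nat_lit 2) (nat_lit 5) (nat_lit 2) (nat_lit 4) (nat_lit 338) (nat_lit 223) (nat_lit 219)) (XT.lf (nat_lit 0) (nat_lit 328188260024) (nat_lit 76) (nat_lit 96641655605) (nat_lit 76) (nat_lit 96207224342) (nat_lit 1) (nat_lit 4) (nat_lit 2) (nat_lit 5) (nat_lit 2) (nat_lit 4) (nat_lit 339) (nat_lit 223) (nat_lit 218))) (XT.nd (nat_lit 78) (nat_lit 0) (nat_lit 0) (XT.lf (nat_lit 0) (nat_lit 357477545494) (nat_lit 76) (nat_lit 102832357241) (nat_lit 76) (nat_lit 102329359669) (nat_lit 1) (nat_lit 4) (nat_lit 2) (nat_lit 5) (nat_lit 2) (nat_lit 4) (nat_lit 340) (nat_lit 223) (nat_lit 217)) (XT.nd (nat_lit 78) (nat_lit 0) (nat_lit 0) (XT.lf (nat_lit 0) (nat_lit 388982482288)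 (nat_lit 76) (nat_lit 109578477163) (nat_lit 76) (nat_lit 109011992270) (nat_lit 1) (nat_lit 4) (nat_lit 2) (nat_lit 5) (nat_lit 2) (nat_lit 4) (nat_lit 341) (nat_lit 223) (nat_lit 216)) (XT.lf (nat_lit 0) (nat_lit 422889766329) (nat_lit 76) (nat_lit 116919992380) (nat_lit 76) (nat_lit 116294722929) (nat_lit 1) (nat_lit 4) (nat_lit 2) (nat_lit 5) (nat_lit 2) (nat_lit 4) (nat_lit 342) (nat_lit 223) (nat_lit 215)))))) (XT.nd (nat_lit 390) (nat_lit 0) (nat_lit 0) (XT.nd (nat_lit 156) (nat_lit 0) (nat_lit 0) (XT.nd (nat_lit 78) (nat_lit 0) (nat_lit 0) (XT.lf (nat_lit 0) (nat_lit 459400329669) (nat_lit 76) (nat_lit 124900408166) (nat_lit 76) (nat_lit 124220708568) (nat_lit 1) (nat_lit 4) (nat_lit 2) (nat_lit 5) (nat_lit 2) (nat_lit 4) (nat_lit 343) (nat_lit 223) (nat_lit 214)) (XT.lf (nat_lit 0) (nat_lit 498730531203) (nat_lit 76) (nat_lit 133567015873) (nat_lit 76) (nat_lit 132836917992) (nat_lit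 1) (nat_lit 4) (nat_lit 2) (nat_lit 5) (nat_lit 2) (nat_lit 4) (nat_lit 344) (nat_lit 223) (nat_lit 213))) (XT.nd (nat_lit 78) (nat_lit 0) (nat_lit 0) (XT.lf (nat_lit 0) (nat_lit 541113438791) (nat_lit 76) (nat_lit 142971173178) (nat_lit 76) (nat_lit 142194410220) (nat_lit 1) (nat_lit 4) (nat_lit 2) (nat_lit 5) (nat_lit 2) (nat_lit 4) (nat_lit 345) (nat_lit 223) (nat_lit 212)) (XT.nd (nat_lit 78) (nat_lit 0) (nat_lit 0) (XT.lf (nat_lit 0) (nat_lit 586800210405) (nat_lit 76) (nat_lit 153168608419) (nat_lit 76) (nat_lit 152348637056) (nat_lit 1) (nat_lit 4) (nat_lit 2) (nat_lit 5) (nat_lit 2) (nat_lit 4) (nat_lit 346) (nat_lit 223) (nat_lit 211)) (XT.lf (nat_lit 0) (nat_lit 636061582468) (nat_lit 76) (nat_lit 164219750843) (nat_lit 76) (nat_lit 163359771698) (nat_lit 1) (nat_lit 4) (nat_lit 2) (nat_lit 5) (nat_lit 2) (nat_lit 4) (nat_lit 347) (nat_lit 223) (nat_lit 210))))) (XT.nd (nat_lit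 39390) (nat_lit 0) (nat_lit 0) (XT.nd (nat_lit 78) (nat_lit 0) (nat_lit 0) (XT.lf (nat_lit 0) (nat_lit 689189474223) (nat_lit 76) (nat_lit 176190088701) (nat_lit 76) (nat_lit 175293065314) (nat_lit 1) (nat_lit 4) (nat_lit 2) (nat_lit 5) (nat_lit 2) (nat_lit 4) (nat_lit 348) (nat_lit 223) (nat_lit 209)) (XT.nd (nat_lit 78) (nat_lit 0) (nat_lit 0) (XT.lf (nat_lit 0) (nat_lit 746498717621) (nat_lit 76) (nat_lit 189150557329) (nat_lit 76) (nat_lit 188219233716) (nat_lit 1) (nat_lit 4) (nat_lit 2) (nat_lit 5) (nat_lit 2) (nat_lit 4) (nat_lit 349) (nat_lit 223) (nat_lit 208)) (XT.lf (nat_lit 0) (nat_lit 808328922993) (nat_lit 76) (nat_lit 203177959503) (nat_lit 76) (nat_lit 202214876423) (nat_lit 1) (nat_lit 4) (nat_lit 2) (nat_lit 5) (nat_lit 2) (nat_lit 4) (nat_lit 350) (nat_lit 223) (nat_lit 207)))) (XT.nd (nat_lit 78) (nat_lit 0) (nat_lit 0) (XT.lf (nat_lit 0) (nat_lit 86068273815) (nat_lit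 76) (nat_lit 33099857202) (nat_lit 76) (nat_lit 33099857202) (nat_lit 1) (nat_lit 4) (nat_lit 2) (nat_lit 5) (nat_lit 2) (nat_lit 4) (nat_lit 332) (nat_lit 224) (nat_lit 224)) (XT.nd (nat_lit 78) (nat_lit 0) (nat_lit 0) (XT.lf (nat_lit 0) (nat_lit 190056833437) (nat_lit 76) (nat_lit 69420132477) (nat_lit 76) (nat_lit 69311326363) (nat_lit 1) (nat_lit 4) (nat_lit 2) (nat_lit 5) (nat_lit 2) (nat_lit 4) (nat_lit 333) (nat_lit 224) (nat_lit 223)) (XT.lf (nat_lit 0) (nat_lit 209208429100) (nat_lit 76) (nat_lit 72993653776) (nat_lit 76) (nat_lit 72784101260) (nat_lit 1) (nat_lit 4) (nat_lit 2) (nat_lit 5) (nat_lit 2) (nat_lit 4) (nat_lit 334) (nat_lit 224) (nat_lit 222))))))))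
noncomputable def xc2 : XT := (XT.nd (nat_lit 40638) (nat_lit 0) (nat_lit 0) (XT.nd (nat_lit 780) (nat_lit 0) (nat_lit 0) (XT.nd (nat_lit 390) (nat_lit 0) (nat_lit 0) (XT.nd (nat_lit 156) (nat_lit 0) (nat_lit 0) (XT.nd (nat_lit 78) (nat_lit 0) (nat_lit 0) (XT.lf (nat_lit 0) (nat_lit 229704825556) (nat_lit 76) (nat_lit 76941454723) (nat_lit 76) (nat_lit 76638618502) (nat_lit 1) (nat_lit 4) (nat_lit 2) (nat_lit 5) (nat_lit 2) (nat_lit 4) (nat_lit 335) (nat_lit 224) (nat_lit 221)) (XT.lf (nat_lit 0) (nat_lit 251667482932) (nat_lit 76) (nat_lit 81286929695) (nat_lit 76) (nat_lit 80897719673) (nat_lit 1) (nat_lit 4) (nat_lit 2) (nat_lit 5) (nat_lit 2) (nat_lit 4) (nat_lit 336) (nat_lit 224) (nat_lit 220))) (XT.nd (nat_lit 78) (nat_lit 0) (nat_lit 0) (XT.lf (nat_lit 0) (nat_lit 275226550309) (nat_lit 76) (nat_lit 86055829655) (nat_lit 76) (nat_lit 85586643891) (nat_lit 1) (nat_lit 4) (nat_lit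 2) (nat_lit 5) (nat_lit 2) (nat_lit 4) (nat_lit 337) (nat_lit 224) (nat_lit 219)) (XT.nd (nat_lit 78) (nat_lit 0) (nat_lit 0) (XT.lf (nat_lit 0) (nat_lit 300521636975) (nat_lit 76) (nat_lit 91276414750) (nat_lit 76) (nat_lit 90733177373) (nat_lit 1) (nat_lit 4) (nat_lit 2) (nat_lit 5) (nat_lit 2) (nat_lit 4) (nat_lit 338) (nat_lit 224) (nat_lit 218)) (XT.lf (nat_lit 0) (nat_lit 327702639741) (nat_lit 76) (nat_lit 96979621781) (nat_lit 76) (nat_lit 96367818096) (nat_lit 1) (nat_lit 4) (nat_lit 2) (nat_lit 5) (nat_lit 2) (nat_lit 4) (nat_lit 339) (nat_lit 224) (nat_lit 217))))) (XT.nd (nat_lit 156) (nat_lit 0) (nat_lit 0) (XT.nd (nat_lit 78) (nat_lit 0) (nat_lit 0) (XT.lf (nat_lit 0) (nat_lit 356930631214) (nat_lit 76) (nat_lit 103199247531) (nat_lit 76) (nat_lit 102523956523) (nat_lit 1) (nat_lit 4) (nat_lit 2) (nat_lit 5) (nat_lit 2) (nat_lit 4) (nat_lit 340) (nat_lit 224) (nat_lit 216))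 (XT.lf (nat_lit 0) (nat_lit 388378814308) (nat_lit 76) (nat_lit 109972149040) (nat_lit 76) (nat_lit 109238073475) (nat_lit 1) (nat_lit 4) (nat_lit 2) (nat_lit 5) (nat_lit 2) (nat_lit 4) (nat_lit 341) (nat_lit 224) (nat_lit 215))) (XT.nd (nat_lit 78) (nat_lit 0) (nat_lit 0) (XT.lf (nat_lit 0) (nat_lit 422233548625) (nat_lit 76) (nat_lit 117338462022) (nat_lit 76) (nat_lit 116549956311) (nat_lit 1) (nat_lit 4) (nat_lit 2) (nat_lit 5) (nat_lit 2) (nat_lit 4) (nat_lit 342) (nat_lit 224) (nat_lit 214)) (XT.nd (nat_lit 78) (nat_lit 0) (nat_lit 0) (XT.lf (nat_lit 0) (nat_lit 458695454815) (nat_lit 76) (nat_lit 125341838701) (nat_lit 76) (nat_lit 124502934707) (nat_lit 1) (nat_lit 4) (nat_lit 2) (nat_lit 5) (nat_lit 2) (nat_lit 4) (nat_lit 343) (nat_lit 224) (nat_lit 213)) (XT.lf (nat_lit 0) (nat_lit 497980603431) (nat_lit 76) (nat_lit 134029706496) (nat_lit 76) (nat_lit 133144137424) (nat_lit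 1) (nat_lit 4) (nat_lit 2) (nat_lit 5) (nat_lit 2) (nat_lit 4) (nat_lit 344) (nat_lit 224) (nat_lit 212)))))) (XT.nd (nat_lit 390) (nat_lit 0) (nat_lit 0) (XT.nd (nat_lit 156) (nat_lit 0) (nat_lit 0) (XT.nd (nat_lit 78) (nat_lit 0) (nat_lit 0) (XT.lf (nat_lit 0) (nat_lit 540321795355) (nat_lit 76) (nat_lit 143453549066) (nat_lit 76) (nat_lit 142524771589) (nat_lit 1) (nat_lit 4) (nat_lit 2) (nat_lit 5) (nat_lit 2) (nat_lit 4) (nat_lit 345) (nat_lit 224) (nat_lit 211)) (XT.lf (nat_lit 0) (nat_lit 585969941354) (nat_lit 76) (nat_lit 153669211405) (nat_lit 76) (nat_lit 152700426146) (nat_lit 1) (nat_lit 4) (nat_lit 2) (nat_lit 5) (nat_lit 2) (nat_lit 4) (nat_lit 346) (nat_lit 224) (nat_lit 210))) (XT.nd (nat_lit 78) (nat_lit 0) (nat_lit 0) (XT.lf (nat_lit 0) (nat_lit 635195548959) (nat_lit 76) (nat_lit 164737230772) (nat_lit 76) (nat_lit 163731401270) (nat_lit 1) (nat_lit 4) (nat_lit 2) (nat_lit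 5) (nat_lit 2) (nat_lit 4) (nat_lit 347) (nat_lit 224) (nat_lit 209)) (XT.nd (nat_lit 78) (nat_lit 0) (nat_lit 0) (XT.lf (nat_lit 0) (nat_lit 688290325474) (nat_lit 76) (nat_lit 176723195428) (nat_lit 76) (nat_lit 175683065702) (nat_lit 1) (nat_lit 4) (nat_lit 2) (nat_lit 5) (nat_lit 2) (nat_lit 4) (nat_lit 348) (nat_lit 224) (nat_lit 208)) (XT.lf (nat_lit 0) (nat_lit 745568906614) (nat_lit 76) (nat_lit 189698133314) (nat_lit 76) (nat_lit 188626244120) (nat_lit 1) (nat_lit 4) (nat_lit 2) (nat_lit 5) (nat_lit 2) (nat_lit 4) (nat_lit 349) (nat_lit 224) (nat_lit 207))))) (XT.nd (nat_lit 39234) (nat_lit 0) (nat_lit 0) (XT.nd (nat_lit 39078) (nat_lit 0) (nat_lit 0) (XT.lf (nat_lit 0) (nat_lit 807370721005) (nat_lit 76) (nat_lit 203738932949) (nat_lit 76) (nat_lit 202637636841) (nat_lit 1) (nat_lit 4) (nat_lit 2) (nat_lit 5) (nat_lit 2) (nat_lit 4) (nat_lit 350) (nat_lit 224) (nat_lit 206))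 (XT.nd (nat_lit 78) (nat_lit 0) (nat_lit 0) (XT.lf (nat_lit 0) (nat_lit 69842623350) (nat_lit 76) (nat_lit 30403902781) (nat_lit 76) (nat_lit 30403902781) (nat_lit 1) (nat_lit 4) (nat_lit 2) (nat_lit 5) (nat_lit 2) (nat_lit 4) (nat_lit 330) (nat_lit 225) (nat_lit 225)) (XT.lf (nat_lit 0) (nat_lit 155341377392) (nat_lit 76) (nat_lit 63430826202) (nat_lit 76) (nat_lit 63313315599) (nat_lit 1) (nat_lit 4) (nat_lit 2) (nat_lit 5) (nat_lit 2) (nat_lit 4) (nat_lit 331) (nat_lit 225) (nat_lit 224)))) (XT.nd (nat_lit 78) (nat_lit 0) (nat_lit 0) (XT.lf (nat_lit 0) (nat_lit 172031500491) (nat_lit 76) (nat_lit 66366795855) (nat_lit 76) (nat_lit 66140479138) (nat_lit 1) (nat_lit 4) (nat_lit 2) (nat_lit 5) (nat_lit 2) (nat_lit 4) (nat_lit 332) (nat_lit 225) (nat_lit 223)) (XT.nd (nat_lit 78) (nat_lit 0) (nat_lit 0) (XT.lf (nat_lit 0) (nat_lit 189854520428) (nat_lit 76) (nat_lit 69633112860) (nat_lit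 76) (nat_lit 69306049742) (nat_lit 1) (nat_lit 4) (nat_lit 2) (nat_lit 5) (nat_lit 2) (nat_lit 4) (nat_lit 333) (nat_lit 225) (nat_lit 222)) (XT.lf (nat_lit 0) (nat_lit 208916055101) (nat_lit 76) (nat_lit 73249133171) (nat_lit 76) (nat_lit 72828786347) (nat_lit 1) (nat_lit 4) (nat_lit 2) (nat_lit 5) (nat_lit 2) (nat_lit 4) (nat_lit 334) (nat_lit 225) (nat_lit 221))))))) (XT.nd (nat_lit 780) (nat_lit 0) (nat_lit 0) (XT.nd (nat_lit 390) (nat_lit 0) (nat_lit 0) (XT.nd (nat_lit 156) (nat_lit 0) (nat_lit 0) (XT.nd (nat_lit 78) (nat_lit 0) (nat_lit 0) (XT.lf (nat_lit 0) (nat_lit 229329061751) (nat_lit 76) (nat_lit 77236285056) (nat_lit 76) (nat_lit 76729564430) (nat_lit 1) (nat_lit 4) (nat_lit 2) (nat_lit 5) (nat_lit 2) (nat_lit 4) (nat_lit 335) (nat_lit 225) (nat_lit 220)) (XT.lf (nat_lit 0) (nat_lit 251214506344) (nat_lit 76) (nat_lit 81618196080) (nat_lit 76) (nat_lit 81031499713) (nat_lit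 1) (nat_lit 4) (nat_lit 2) (nat_lit 5) (nat_lit 2) (nat_lit 4) (nat_lit 336) (nat_lit 225) (nat_lit 219))) (XT.nd (nat_lit 78) (nat_lit 0) (nat_lit 0) (XT.lf (nat_lit 0) (nat_lit 274702080403) (nat_lit 76) (nat_lit 86420833126) (nat_lit 76) (nat_lit 85760085146) (nat_lit 1) (nat_lit 4) (nat_lit 2) (nat_lit 5) (nat_lit 2) (nat_lit 4) (nat_lit 337) (nat_lit 225) (nat_lit 218)) (XT.nd (nat_lit 78) (nat_lit 0) (nat_lit 0) (XT.lf (nat_lit 0) (nat_lit 299930969553) (nat_lit 76) (nat_lit 91672656264) (nat_lit 76) (nat_lit 90943341976) (nat_lit 1) (nat_lit 4) (nat_lit 2) (nat_lit 5) (nat_lit 2) (nat_lit 4) (nat_lit 338) (nat_lit 225) (nat_lit 217)) (XT.lf (nat_lit 0) (nat_lit 327050678321) (nat_lit 76) (nat_lit 97404787408) (nat_lit 76) (nat_lit 96611985798) (nat_lit 1) (nat_lit 4) (nat_lit 2) (nat_lit 5) (nat_lit 2) (nat_lit 4) (nat_lit 339) (nat_lit 225) (nat_lit 216))))) (XT.nd (nat_lit 156)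 (nat_lit 0) (nat_lit 0) (XT.nd (nat_lit 78) (nat_lit 0) (nat_lit 0) (XT.lf (nat_lit 0) (nat_lit 356221916094) (nat_lit 76) (nat_lit 103651194744) (nat_lit 76) (nat_lit 102799608576) (nat_lit 1) (nat_lit 4) (nat_lit 2) (nat_lit 5) (nat_lit 2) (nat_lit 4) (nat_lit 340) (nat_lit 225) (nat_lit 215)) (XT.lf (nat_lit 0) (nat_lit 387617549465) (nat_lit 76) (nat_lit 110448894019) (nat_lit 76) (nat_lit 109542877704) (nat_lit 1) (nat_lit 4) (nat_lit 2) (nat_lit 5) (nat_lit 2) (nat_lit 4) (nat_lit 341) (nat_lit 225) (nat_lit 214))) (XT.nd (nat_lit 78) (nat_lit 0) (nat_lit 0) (XT.lf (nat_lit 0) (nat_lit 421423626632) (nat_lit 76) (nat_lit 117838167894) (nat_lit 76) (nat_lit 116881753297) (nat_lit 1) (nat_lit 4) (nat_lit 2) (nat_lit 5) (nat_lit 2) (nat_lit 4) (nat_lit 342) (nat_lit 225) (nat_lit 213)) (XT.nd (nat_lit 78) (nat_lit 0) (nat_lit 0) (XT.lf (nat_lit 0) (nat_lit 457840479904) (nat_lit 76)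 (nat_lit 125862804660) (nat_lit 76) (nat_lit 124859724985) (nat_lit 1) (nat_lit 4) (nat_lit 2) (nat_lit 5) (nat_lit 2) (nat_lit 4) (nat_lit 343) (nat_lit 225) (nat_lit 212)) (XT.lf (nat_lit 0) (nat_lit 497083912856) (nat_lit 76) (nat_lit 134570357720) (nat_lit 76) (nat_lit 133524069641) (nat_lit 1) (nat_lit 4) (nat_lit 2) (nat_lit 5) (nat_lit 2) (nat_lit 4) (nat_lit 344) (nat_lit 225) (nat_lit 211)))))) (XT.nd (nat_lit 390) (nat_lit 0) (nat_lit 0) (XT.nd (nat_lit 156) (nat_lit 0) (nat_lit 0) (XT.nd (nat_lit 78) (nat_lit 0) (nat_lit 0) (XT.lf (nat_lit 0) (nat_lit 539386479165) (nat_lit 76) (nat_lit 144012427388) (nat_lit 76) (nat_lit 142926131526) (nat_lit 1) (nat_lit 4) (nat_lit 2) (nat_lit 5) (nat_lit 2) (nat_lit 4) (nat_lit 345) (nat_lit 225) (nat_lit 210)) (XT.lf (nat_lit 0) (nat_lit 584998860705) (nat_lit 76) (nat_lit 154244966670) (nat_lit 76) (nat_lit 153121626565) (nat_lit 1) (nat_lit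 4) (nat_lit 2) (nat_lit 5) (nat_lit 2) (nat_lit 4) (nat_lit 346) (nat_lit 225) (nat_lit 209))) (XT.nd (nat_lit 78) (nat_lit 0) (nat_lit 0) (XT.lf (nat_lit 0) (nat_lit 634191353071) (nat_lit 76) (nat_lit 165328612835) (nat_lit 76) (nat_lit 164170972505) (nat_lit 1) (nat_lit 4) (nat_lit 2) (nat_lit 5) (nat_lit 2) (nat_lit 4) (nat_lit 347) (nat_lit 225) (nat_lit 208)) (XT.nd (nat_lit 78) (nat_lit 0) (nat_lit 0) (XT.lf (nat_lit 0) (nat_lit 687255467328) (nat_lit 76) (nat_lit 177329046749) (nat_lit 76) (nat_lit 176139646952) (nat_lit 1) (nat_lit 4) (nat_lit 2) (nat_lit 5) (nat_lit 2) (nat_lit 4) (nat_lit 348) (nat_lit 225) (nat_lit 207)) (XT.lf (nat_lit 0) (nat_lit 744505657487) (nat_lit 76) (nat_lit 190317382096) (nat_lit 76) (nat_lit 189098575384) (nat_lit 1) (nat_lit 4) (nat_lit 2) (nat_lit 5) (nat_lit 2) (nat_lit 4) (nat_lit 349) (nat_lit 225) (nat_lit 206))))) (XT.nd (nat_lit 39078) (nat_lit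 0) (nat_lit 0) (XT.nd (nat_lit 38922) (nat_lit 0) (nat_lit 0) (XT.lf (nat_lit 0) (nat_lit 806281183934) (nat_lit 76) (nat_lit 204370586788) (nat_lit 76) (nat_lit 203124551452) (nat_lit 1) (nat_lit 4) (nat_lit 2) (nat_lit 5) (nat_lit 2) (nat_lit 4) (nat_lit 350) (nat_lit 225) (nat_lit 205)) (XT.nd (nat_lit 78) (nat_lit 0) (nat_lit 0) (XT.lf (nat_lit 0) (nat_lit 55615979403) (nat_lit 76) (nat_lit 28254645219) (nat_lit 76) (nat_lit 28254645219) (nat_lit 1) (nat_lit 4) (nat_lit 2) (nat_lit 5) (nat_lit 2) (nat_lit 4) (nat_lit 328) (nat_lit 226) (nat_lit 226)) (XT.lf (nat_lit 0) (nat_lit 124970331343) (nat_lit 76) (nat_lit 58609101563) (nat_lit 76) (nat_lit 58482190112) (nat_lit 1) (nat_lit 4) (nat_lit 2) (nat_lit 5) (nat_lit 2) (nat_lit 4) (nat_lit 329) (nat_lit 226) (nat_lit 225)))) (XT.nd (nat_lit 78) (nat_lit 0) (nat_lit 0) (XT.lf (nat_lit 0) (nat_lit 139571795790) (nat_lit 76) (nat_lit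 60988253530) (nat_lit 76) (nat_lit 60743831476) (nat_lit 1) (nat_lit 4) (nat_lit 2) (nat_lit 5) (nat_lit 2) (nat_lit 4) (nat_lit 330) (nat_lit 226) (nat_lit 224)) (XT.nd (nat_lit 78) (nat_lit 0) (nat_lit 0) (XT.lf (nat_lit 0) (nat_lit 155122879343) (nat_lit 76) (nat_lit 63660845016) (nat_lit 76) (nat_lit 63307616848) (nat_lit 1) (nat_lit 4) (nat_lit 2) (nat_lit 5) (nat_lit 2) (nat_lit 4) (nat_lit 331) (nat_lit 226) (nat_lit 223)) (XT.lf (nat_lit 0) (nat_lit 171715736572) (nat_lit 76) (nat_lit 66642713602) (nat_lit 76) (nat_lit 66188739032) (nat_lit 1) (nat_lit 4) (nat_lit 2) (nat_lit 5) (nat_lit 2) (nat_lit 4) (nat_lit 332) (nat_lit 226) (nat_lit 222))))))))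
noncomputable def xc3 : XT := (XT.nd (nat_lit 40326) (nat_lit 0) (nat_lit 0) (XT.nd (nat_lit 780) (nat_lit 0) (nat_lit 0) (XT.nd (nat_lit 390) (nat_lit 0) (nat_lit 0) (XT.nd (nat_lit 156) (nat_lit 0) (nat_lit 0) (XT.nd (nat_lit 78) (nat_lit 0) (nat_lit 0) (XT.lf (nat_lit 0) (nat_lit 189448695519) (nat_lit 76) (nat_lit 69951529619) (nat_lit 76) (nat_lit 69404271344) (nat_lit 1) (nat_lit 4) (nat_lit 2) (nat_lit 5) (nat_lit 2) (nat_lit 4) (nat_lit 333) (nat_lit 226) (nat_lit 221)) (XT.lf (nat_lit 0) (nat_lit 208426840385) (nat_lit 76) (nat_lit 73606900867) (nat_lit 76) (nat_lit 72973268791) (nat_lit 1) (nat_lit 4) (nat_lit 2) (nat_lit 5) (nat_lit 2) (nat_lit 4) (nat_lit 334) (nat_lit 226) (nat_lit 220))) (XT.nd (nat_lit 78) (nat_lit 0) (nat_lit 0) (XT.lf (nat_lit 0) (nat_lit 228762634252) (nat_lit 76) (nat_lit 77630488804) (nat_lit 76) (nat_lit 76916880986) (nat_lit 1) (nat_lit 4) (nat_lit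 2) (nat_lit 5) (nat_lit 2) (nat_lit 4) (nat_lit 335) (nat_lit 226) (nat_lit 219)) (XT.nd (nat_lit 78) (nat_lit 0) (nat_lit 0) (XT.lf (nat_lit 0) (nat_lit 250576585527) (nat_lit 76) (nat_lit 82046136915) (nat_lit 76) (nat_lit 81258477484) (nat_lit 1) (nat_lit 4) (nat_lit 2) (nat_lit 5) (nat_lit 2) (nat_lit 4) (nat_lit 336) (nat_lit 226) (nat_lit 218)) (XT.lf (nat_lit 0) (nat_lit 273997962070) (nat_lit 76) (nat_lit 86880012003) (nat_lit 76) (nat_lit 86023786264) (nat_lit 1) (nat_lit 4) (nat_lit 2) (nat_lit 5) (nat_lit 2) (nat_lit 4) (nat_lit 337) (nat_lit 226) (nat_lit 217))))) (XT.nd (nat_lit 156) (nat_lit 0) (nat_lit 0) (XT.nd (nat_lit 78) (nat_lit 0) (nat_lit 0) (XT.lf (nat_lit 0) (nat_lit 299165557223) (nat_lit 76) (nat_lit 92160759254) (nat_lit 76) (nat_lit 91241046192) (nat_lit 1) (nat_lit 4) (nat_lit 2) (nat_lit 5) (nat_lit 2) (nat_lit 4) (nat_lit 338) (nat_lit 226) (nat_lit 216))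 (XT.lf (nat_lit 0) (nat_lit 326228512291) (nat_lit 76) (nat_lit 97919671985) (nat_lit 76) (nat_lit 96941174366) (nat_lit 1) (nat_lit 4) (nat_lit 2) (nat_lit 5) (nat_lit 2) (nat_lit 4) (nat_lit 339) (nat_lit 226) (nat_lit 215))) (XT.nd (nat_lit 78) (nat_lit 0) (nat_lit 0) (XT.lf (nat_lit 0) (nat_lit 355347200341) (nat_lit 76) (nat_lit 104190877086) (nat_lit 76) (nat_lit 103157949321) (nat_lit 1) (nat_lit 4) (nat_lit 2) (nat_lit 5) (nat_lit 2) (nat_lit 4) (nat_lit 340) (nat_lit 226) (nat_lit 214)) (XT.nd (nat_lit 78) (nat_lit 0) (nat_lit 0) (XT.lf (nat_lit 0) (nat_lit 386694176561) (nat_lit 76) (nat_lit 111011537254) (nat_lit 76) (nat_lit 109928211206) (nat_lit 1) (nat_lit 4) (nat_lit 2) (nat_lit 5) (nat_lit 2) (nat_lit 4) (nat_lit 341) (nat_lit 226) (nat_lit 213)) (XT.lf (nat_lit 0) (nat_lit 420455200810) (nat_lit 76) (nat_lit 118422071217) (nat_lit 76) (nat_lit 117292080091) (nat_lit 1)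 (nat_lit 4) (nat_lit 2) (nat_lit 5) (nat_lit 2) (nat_lit 4) (nat_lit 342) (nat_lit 226) (nat_lit 212)))))) (XT.nd (nat_lit 390) (nat_lit 0) (nat_lit 0) (XT.nd (nat_lit 156) (nat_lit 0) (nat_lit 0) (XT.nd (nat_lit 78) (nat_lit 0) (nat_lit 0) (XT.lf (nat_lit 0) (nat_lit 456830338418) (nat_lit 76) (nat_lit 126466393249) (nat_lit 76) (nat_lit 125293193718) (nat_lit 1) (nat_lit 4) (nat_lit 2) (nat_lit 5) (nat_lit 2) (nat_lit 4) (nat_lit 343) (nat_lit 226) (nat_lit 211)) (XT.lf (nat_lit 0) (nat_lit 496035145755) (nat_lit 76) (nat_lit 135192173406) (nat_lit 76) (nat_lit 133978966093) (nat_lit 1) (nat_lit 4) (nat_lit 2) (nat_lit 5) (nat_lit 2) (nat_lit 4) (nat_lit 344) (nat_lit 226) (nat_lit 210))) (XT.nd (nat_lit 78) (nat_lit 0) (nat_lit 0) (XT.lf (nat_lit 0) (nat_lit 538301947606) (nat_lit 76) (nat_lit 144651120017) (nat_lit 76) (nat_lit 143400868461) (nat_lit 1) (nat_lit 4) (nat_lit 2) (nat_lit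 5) (nat_lit 2) (nat_lit 4) (nat_lit 345) (nat_lit 226) (nat_lit 209)) (XT.nd (nat_lit 78) (nat_lit 0) (nat_lit 0) (XT.lf (nat_lit 0) (nat_lit 583881213907) (nat_lit 76) (nat_lit 154899286097) (nat_lit 76) (nat_lit 153614734316) (nat_lit 1) (nat_lit 4) (nat_lit 2) (nat_lit 5) (nat_lit 2) (nat_lit 4) (nat_lit 346) (nat_lit 226) (nat_lit 208)) (XT.lf (nat_lit 0) (nat_lit 633043044014) (nat_lit 76) (nat_lit 165997401520) (nat_lit 76) (nat_lit 164681090271) (nat_lit 1) (nat_lit 4) (nat_lit 2) (nat_lit 5) (nat_lit 2) (nat_lit 4) (nat_lit 347) (nat_lit 226) (nat_lit 207))))) (XT.nd (nat_lit 38922) (nat_lit 0) (nat_lit 0) (XT.nd (nat_lit 78) (nat_lit 0) (nat_lit 0) (XT.lf (nat_lit 0) (nat_lit 686078767291) (nat_lit 76) (nat_lit 178011232895) (nat_lit 76) (nat_lit 176665514732) (nat_lit 1) (nat_lit 4) (nat_lit 2) (nat_lit 5) (nat_lit 2) (nat_lit 4) (nat_lit 348) (nat_lit 226) (nat_lit 206)) (XT.nd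 (nat_lit 78) (nat_lit 0) (nat_lit 0) (XT.lf (nat_lit 0) (nat_lit 743302669505) (nat_lit 76) (nat_lit 191011973298) (nat_lit 76) (nat_lit 189639026511) (nat_lit 1) (nat_lit 4) (nat_lit 2) (nat_lit 5) (nat_lit 2) (nat_lit 4) (nat_lit 349) (nat_lit 226) (nat_lit 205)) (XT.lf (nat_lit 0) (nat_lit 805053855263) (nat_lit 76) (nat_lit 205076664153) (nat_lit 76) (nat_lit 203678505677) (nat_lit 1) (nat_lit 4) (nat_lit 2) (nat_lit 5) (nat_lit 2) (nat_lit 4) (nat_lit 350) (nat_lit 226) (nat_lit 204)))) (XT.nd (nat_lit 78) (nat_lit 0) (nat_lit 0) (XT.lf (nat_lit 0) (nat_lit 43077900231) (nat_lit 76) (nat_lit 26587059203) (nat_lit 76) (nat_lit 26587059203) (nat_lit 1) (nat_lit 4) (nat_lit 2) (nat_lit 5) (nat_lit 2) (nat_lit 4) (nat_lit 326) (nat_lit 227) (nat_lit 227)) (XT.nd (nat_lit 78) (nat_lit 0) (nat_lit 0) (XT.lf (nat_lit 0) (nat_lit 98275265600) (nat_lit 76) (nat_lit 54813441199) (nat_lit 76)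 (nat_lit 54676376831) (nat_lit 1) (nat_lit 4) (nat_lit 2) (nat_lit 5) (nat_lit 2) (nat_lit 4) (nat_lit 327) (nat_lit 227) (nat_lit 226)) (XT.lf (nat_lit 0) (nat_lit 111109431822) (nat_lit 76) (nat_lit 56704174243) (nat_lit 76) (nat_lit 56440198424) (nat_lit 1) (nat_lit 4) (nat_lit 2) (nat_lit 5) (nat_lit 2) (nat_lit 4) (nat_lit 328) (nat_lit 227) (nat_lit 225))))))) (XT.nd (nat_lit 858) (nat_lit 0) (nat_lit 0) (XT.nd (nat_lit 390) (nat_lit 0) (nat_lit 0) (XT.nd (nat_lit 156) (nat_lit 0) (nat_lit 0) (XT.nd (nat_lit 78) (nat_lit 0) (nat_lit 0) (XT.lf (nat_lit 0) (nat_lit 124734353449) (nat_lit 76) (nat_lit 58857521883) (nat_lit 76) (nat_lit 58476035461) (nat_lit 1) (nat_lit 4) (nat_lit 2) (nat_lit 5) (nat_lit 2) (nat_lit 4) (nat_lit 329) (nat_lit 227) (nat_lit 224)) (XT.lf (nat_lit 0) (nat_lit 139230770757) (nat_lit 76) (nat_lit 61286244696) (nat_lit 76) (nat_lit 60795952161) (nat_lit 1)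 (nat_lit 4) (nat_lit 2) (nat_lit 5) (nat_lit 2) (nat_lit 4) (nat_lit 330) (nat_lit 227) (nat_lit 223))) (XT.nd (nat_lit 78) (nat_lit 0) (nat_lit 0) (XT.lf (nat_lit 0) (nat_lit 154684588441) (nat_lit 76) (nat_lit 64004735116) (nat_lit 76) (nat_lit 63413696179) (nat_lit 1) (nat_lit 4) (nat_lit 2) (nat_lit 5) (nat_lit 2) (nat_lit 4) (nat_lit 331) (nat_lit 227) (nat_lit 222)) (XT.nd (nat_lit 78) (nat_lit 0) (nat_lit 0) (XT.lf (nat_lit 0) (nat_lit 171187384679) (nat_lit 76) (nat_lit 67029102713) (nat_lit 76) (nat_lit 66344780071) (nat_lit 1) (nat_lit 4) (nat_lit 2) (nat_lit 5) (nat_lit 2) (nat_lit 4) (nat_lit 332) (nat_lit 227) (nat_lit 221)) (XT.lf (nat_lit 0) (nat_lit 188836953820) (nat_lit 76) (nat_lit 70377269668) (nat_lit 76) (nat_lit 69606573224) (nat_lit 1) (nat_lit 4) (nat_lit 2) (nat_lit 5) (nat_lit 2) (nat_lit 4) (nat_lit 333) (nat_lit 227) (nat_lit 220))))) (XT.nd (nat_lit 234) (nat_lit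 0) (nat_lit 0) (XT.nd (nat_lit 78) (nat_lit 0) (nat_lit 0) (XT.lf (nat_lit 0) (nat_lit 207737885904) (nat_lit 76) (nat_lit 74069076968) (nat_lit 76) (nat_lit 73218404783) (nat_lit 1) (nat_lit 4) (nat_lit 2) (nat_lit 5) (nat_lit 2) (nat_lit 4) (nat_lit 334) (nat_lit 227) (nat_lit 219)) (XT.nd (nat_lit 78) (nat_lit 0) (nat_lit 0) (XT.lf (nat_lit 0) (nat_lit 228002186453) (nat_lit 76) (nat_lit 78126401991) (nat_lit 76) (nat_lit 77201678193) (nat_lit 1) (nat_lit 4) (nat_lit 2) (nat_lit 5) (nat_lit 2) (nat_lit 4) (nat_lit 335) (nat_lit 227) (nat_lit 218)) (XT.lf (nat_lit 0) (nat_lit 249749940211) (nat_lit 76) (nat_lit 82573288145) (nat_lit 76) (nat_lit 81579998038) (nat_lit 1) (nat_lit 4) (nat_lit 2) (nat_lit 5) (nat_lit 2) (nat_lit 4) (nat_lit 336) (nat_lit 227) (nat_lit 217)))) (XT.nd (nat_lit 78) (nat_lit 0) (nat_lit 0) (XT.lf (nat_lit 0) (nat_lit 273110022758) (nat_lit 76) (nat_lit 87436087346)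 (nat_lit 76) (nat_lit 86379309917) (nat_lit 1) (nat_lit 4) (nat_lit 2) (nat_lit 5) (nat_lit 2) (nat_lit 4) (nat_lit 337) (nat_lit 227) (nat_lit 216)) (XT.nd (nat_lit 78) (nat_lit 0) (nat_lit 0) (XT.lf (nat_lit 0) (nat_lit 298220864210) (nat_lit 76) (nat_lit 92743616183) (nat_lit 76) (nat_lit 91628054197) (nat_lit 1) (nat_lit 4) (nat_lit 2) (nat_lit 5) (nat_lit 2) (nat_lit 4) (nat_lit 338) (nat_lit 227) (nat_lit 215)) (XT.lf (nat_lit 0) (nat_lit 325231269555) (nat_lit 76) (nat_lit 98527326680) (nat_lit 76) (nat_lit 97357334547) (nat_lit 1) (nat_lit 4) (nat_lit 2) (nat_lit 5) (nat_lit 2) (nat_lit 4) (nat_lit 339) (nat_lit 227) (nat_lit 214)))))) (XT.nd (nat_lit 390) (nat_lit 0) (nat_lit 0) (XT.nd (nat_lit 156) (nat_lit 0) (nat_lit 0) (XT.nd (nat_lit 78) (nat_lit 0) (nat_lit 0) (XT.lf (nat_lit 0) (nat_lit 354301300454) (nat_lit 76) (nat_lit 104821492675) (nat_lit 76) (nat_lit 103601102258)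 (nat_lit 1) (nat_lit 4) (nat_lit 2) (nat_lit 5) (nat_lit 2) (nat_lit 4) (nat_lit 340) (nat_lit 227) (nat_lit 213)) (XT.lf (nat_lit 0) (nat_lit 385603223756) (nat_lit 76) (nat_lit 111663412930) (nat_lit 76) (nat_lit 110396357436) (nat_lit 1) (nat_lit 4) (nat_lit 2) (nat_lit 5) (nat_lit 2) (nat_lit 4) (nat_lit 341) (nat_lit 227) (nat_lit 212))) (XT.nd (nat_lit 78) (nat_lit 0) (nat_lit 0) (XT.lf (nat_lit 0) (nat_lit 419322532342) (nat_lit 76) (nat_lit 119093632158) (nat_lit 76) (nat_lit 117783368260) (nat_lit 1) (nat_lit 4) (nat_lit 2) (nat_lit 5) (nat_lit 2) (nat_lit 4) (nat_lit 342) (nat_lit 227) (nat_lit 211)) (XT.nd (nat_lit 78) (nat_lit 0) (nat_lit 0) (XT.lf (nat_lit 0) (nat_lit 455659044334) (nat_lit 76) (nat_lit 127156181287) (nat_lit 76) (nat_lit 125805909607) (nat_lit 1) (nat_lit 4) (nat_lit 2) (nat_lit 5) (nat_lit 2) (nat_lit 4) (nat_lit 343) (nat_lit 227) (nat_lit 210)) (XT.lf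 (nat_lit 0) (nat_lit 494828087213) (nat_lit 76) (nat_lit 135898838387) (nat_lit 76) (nat_lit 134511522464) (nat_lit 1) (nat_lit 4) (nat_lit 2) (nat_lit 5) (nat_lit 2) (nat_lit 4) (nat_lit 344) (nat_lit 227) (nat_lit 209))))) (XT.nd (nat_lit 234) (nat_lit 0) (nat_lit 0) (XT.nd (nat_lit 78) (nat_lit 0) (nat_lit 0) (XT.lf (nat_lit 0) (nat_lit 537061773824) (nat_lit 76) (nat_lit 145373411796) (nat_lit 76) (nat_lit 143951795648) (nat_lit 1) (nat_lit 4) (nat_lit 2) (nat_lit 5) (nat_lit 2) (nat_lit 4) (nat_lit 345) (nat_lit 227) (nat_lit 208)) (XT.nd (nat_lit 78) (nat_lit 0) (nat_lit 0) (XT.lf (nat_lit 0) (nat_lit 582610377867) (nat_lit 76) (nat_lit 155636047134) (nat_lit 76) (nat_lit 154182671519) (nat_lit 1) (nat_lit 4) (nat_lit 2) (nat_lit 5) (nat_lit 2) (nat_lit 4) (nat_lit 346) (nat_lit 227) (nat_lit 207)) (XT.lf (nat_lit 0) (nat_lit 631743816994) (nat_lit 76) (nat_lit 166747560018) (nat_lit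 76) (nat_lit 165264777488) (nat_lit 1) (nat_lit 4) (nat_lit 2) (nat_lit 5) (nat_lit 2) (nat_lit 4) (nat_lit 347) (nat_lit 227) (nat_lit 206)))) (XT.nd (nat_lit 78) (nat_lit 0) (nat_lit 0) (XT.lf (nat_lit 0) (nat_lit 684753252326) (nat_lit 76) (nat_lit 178773796450) (nat_lit 76) (nat_lit 177263785296) (nat_lit 1) (nat_lit 4) (nat_lit 2) (nat_lit 5) (nat_lit 2) (nat_lit 4) (nat_lit 348) (nat_lit 227) (nat_lit 205)) (XT.nd (nat_lit 78) (nat_lit 0) (nat_lit 0) (XT.lf (nat_lit 0) (nat_lit 741952813851) (nat_lit 76) (nat_lit 191786023016) (nat_lit 76) (nat_lit 190250800173) (nat_lit 1) (nat_lit 4) (nat_lit 2) (nat_lit 5) (nat_lit 2) (nat_lit 4) (nat_lit 349) (nat_lit 227) (nat_lit 204)) (XT.lf (nat_lit 0) (nat_lit 803681461934) (nat_lit 76) (nat_lit 205861349208) (nat_lit 76) (nat_lit 204302782208) (nat_lit 1) (nat_lit 4) (nat_lit 2) (nat_lit 5) (nat_lit 2) (nat_lit 4) (nat_lit 350) (nat_lit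 227) (nat_lit 203))))))))
noncomputable def xc4 : XT := (XT.nd (nat_lit 1638) (nat_lit 0) (nat_lit 0) (XT.nd (nat_lit 780) (nat_lit 0) (nat_lit 0) (XT.nd (nat_lit 390) (nat_lit 0) (nat_lit 0) (XT.nd (nat_lit 156) (nat_lit 0) (nat_lit 0) (XT.nd (nat_lit 78) (nat_lit 0) (nat_lit 0) (XT.lf (nat_lit 0) (nat_lit 31960211191) (nat_lit 76) (nat_lit 25346433374) (nat_lit 76) (nat_lit 25346433374) (nat_lit 1) (nat_lit 4) (nat_lit 2) (nat_lit 5) (nat_lit 2) (nat_lit 4) (nat_lit 324) (nat_lit 228) (nat_lit 228)) (XT.lf (nat_lit 0) (nat_lit 74679217360) (nat_lit 76) (nat_lit 51924520875) (nat_lit 76) (nat_lit 51776491359) (nat_lit 1) (nat_lit 4) (nat_lit 2) (nat_lit 5) (nat_lit 2) (nat_lit 4) (nat_lit 325) (nat_lit 228) (nat_lit 227))) (XT.nd (nat_lit 78) (nat_lit 0) (nat_lit 0) (XT.lf (nat_lit 0) (nat_lit 86023471321) (nat_lit 76) (nat_lit 53384592914) (nat_lit 76) (nat_lit 53099499030) (nat_lit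 1) (nat_lit 4) (nat_lit 2) (nat_lit 5) (nat_lit 2) (nat_lit 4) (nat_lit 326) (nat_lit 228) (nat_lit 226)) (XT.nd (nat_lit 78) (nat_lit 0) (nat_lit 0) (XT.lf (nat_lit 0) (nat_lit 98020409475) (nat_lit 76) (nat_lit 55081735143) (nat_lit 76) (nat_lit 54669729808) (nat_lit 1) (nat_lit 4) (nat_lit 2) (nat_lit 5) (nat_lit 2) (nat_lit 4) (nat_lit 327) (nat_lit 228) (nat_lit 225)) (XT.lf (nat_lit 0) (nat_lit 110741124787) (nat_lit 76) (nat_lit 57026004703) (nat_lit 76) (nat_lit 56496488765) (nat_lit 1) (nat_lit 4) (nat_lit 2) (nat_lit 5) (nat_lit 2) (nat_lit 4) (nat_lit 328) (nat_lit 228) (nat_lit 224))))) (XT.nd (nat_lit 156) (nat_lit 0) (nat_lit 0) (XT.nd (nat_lit 78) (nat_lit 0) (nat_lit 0) (XT.lf (nat_lit 0) (nat_lit 124260999275) (nat_lit 76) (nat_lit 59228923190) (nat_lit 76) (nat_lit 58590601138) (nat_lit 1) (nat_lit 4) (nat_lit 2) (nat_lit 5) (nat_lit 2) (nat_lit 4) (nat_lit 329) (nat_lit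 228) (nat_lit 223)) (XT.lf (nat_lit 0) (nat_lit 138660150713) (nat_lit 76) (nat_lit 61703544937) (nat_lit 76) (nat_lit 60964476483) (nat_lit 1) (nat_lit 4) (nat_lit 2) (nat_lit 5) (nat_lit 2) (nat_lit 4) (nat_lit 330) (nat_lit 228) (nat_lit 222))) (XT.nd (nat_lit 78) (nat_lit 0) (nat_lit 0) (XT.lf (nat_lit 0) (nat_lit 154023907407) (nat_lit 76) (nat_lit 64464534368) (nat_lit 76) (nat_lit 63632182209) (nat_lit 1) (nat_lit 4) (nat_lit 2) (nat_lit 5) (nat_lit 2) (nat_lit 4) (nat_lit 331) (nat_lit 228) (nat_lit 221)) (XT.nd (nat_lit 78) (nat_lit 0) (nat_lit 0) (XT.lf (nat_lit 0) (nat_lit 170443313839) (nat_lit 76) (nat_lit 67528252903) (nat_lit 76) (nat_lit 66609526942) (nat_lit 1) (nat_lit 4) (nat_lit 2) (nat_lit 5) (nat_lit 2) (nat_lit 4) (nat_lit 332) (nat_lit 228) (nat_lit 220)) (XT.lf (nat_lit 0) (nat_lit 188015670197) (nat_lit 76) (nat_lit 70912855910) (nat_lit 76) (nat_lit 69914154208)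 (nat_lit 1) (nat_lit 4) (nat_lit 2) (nat_lit 5) (nat_lit 2) (nat_lit 4) (nat_lit 333) (nat_lit 228) (nat_lit 219)))))) (XT.nd (nat_lit 390) (nat_lit 0) (nat_lit 0) (XT.nd (nat_lit 156) (nat_lit 0) (nat_lit 0) (XT.nd (nat_lit 78) (nat_lit 0) (nat_lit 0) (XT.lf (nat_lit 0) (nat_lit 206845108963) (nat_lit 76) (nat_lit 74638400296) (nat_lit 76) (nat_lit 73565646981) (nat_lit 1) (nat_lit 4) (nat_lit 2) (nat_lit 5) (nat_lit 2) (nat_lit 4) (nat_lit 334) (nat_lit 228) (nat_lit 218)) (XT.lf (nat_lit 0) (nat_lit 227043211995) (nat_lit 76) (nat_lit 78726963362) (nat_lit 76) (nat_lit 77585643738) (nat_lit 1) (nat_lit 4) (nat_lit 2) (nat_lit 5) (nat_lit 2) (nat_lit 4) (nat_lit 335) (nat_lit 228) (nat_lit 217))) (XT.nd (nat_lit 78) (nat_lit 0) (nat_lit 0) (XT.lf (nat_lit 0) (nat_lit 248729671757) (nat_lit 76) (nat_lit 83202773628) (nat_lit 76) (nat_lit 81997966683) (nat_lit 1) (nat_lit 4) (nat_lit 2)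 (nat_lit 5) (nat_lit 2) (nat_lit 4) (nat_lit 336) (nat_lit 228) (nat_lit 216)) (XT.nd (nat_lit 78) (nat_lit 0) (nat_lit 0) (XT.lf (nat_lit 0) (nat_lit 272033000602) (nat_lit 76) (nat_lit 88092354416) (nat_lit 76) (nat_lit 86828762913) (nat_lit 1) (nat_lit 4) (nat_lit 2) (nat_lit 5) (nat_lit 2) (nat_lit 4) (nat_lit 337) (nat_lit 228) (nat_lit 215)) (XT.lf (nat_lit 0) (nat_lit 297091292332) (nat_lit 76) (nat_lit 93424681019) (nat_lit 76) (nat_lit 92106659370) (nat_lit 1) (nat_lit 4) (nat_lit 2) (nat_lit 5) (nat_lit 2) (nat_lit 4) (nat_lit 338) (nat_lit 228) (nat_lit 214))))) (XT.nd (nat_lit 234) (nat_lit 0) (nat_lit 0) (XT.nd (nat_lit 78) (nat_lit 0) (nat_lit 0) (XT.lf (nat_lit 0) (nat_lit 324053040526) (nat_lit 76) (nat_lit 99231352409) (nat_lit 76) (nat_lit 97862932476) (nat_lit 1) (nat_lit 4) (nat_lit 2) (nat_lit 5) (nat_lit 2) (nat_lit 4) (nat_lit 339) (nat_lit 228) (nat_lit 213)) (XT.nd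 (nat_lit 78) (nat_lit 0) (nat_lit 0) (XT.lf (nat_lit 0) (nat_lit 353078018508) (nat_lit 76) (nat_lit 105546778491) (nat_lit 76) (nat_lit 104131693481) (nat_lit 1) (nat_lit 4) (nat_lit 2) (nat_lit 5) (nat_lit 2) (nat_lit 4) (nat_lit 340) (nat_lit 228) (nat_lit 212)) (XT.lf (nat_lit 0) (nat_lit 384338226146) (nat_lit 76) (nat_lit 112408384012) (nat_lit 76) (nat_lit 110950090597) (nat_lit 1) (nat_lit 4) (nat_lit 2) (nat_lit 5) (nat_lit 2) (nat_lit 4) (nat_lit 341) (nat_lit 228) (nat_lit 211)))) (XT.nd (nat_lit 78) (nat_lit 0) (nat_lit 0) (XT.lf (nat_lit 0) (nat_lit 418018909116) (nat_lit 76) (nat_lit 119856830337) (nat_lit 76) (nat_lit 118358529140) (nat_lit 1) (nat_lit 4) (nat_lit 2) (nat_lit 5) (nat_lit 2) (nat_lit 4) (nat_lit 342) (nat_lit 228) (nat_lit 210)) (XT.nd (nat_lit 78) (nat_lit 0) (nat_lit 0) (XT.lf (nat_lit 0) (nat_lit 454319656650) (nat_lit 76) (nat_lit 127936256409) (nat_lit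 76) (nat_lit 126400910969) (nat_lit 1) (nat_lit 4) (nat_lit 2) (nat_lit 5) (nat_lit 2) (nat_lit 4) (nat_lit 343) (nat_lit 228) (nat_lit 209)) (XT.lf (nat_lit 0) (nat_lit 493455584290) (nat_lit 76) (nat_lit 136694540308) (nat_lit 76) (nat_lit 135124894643) (nat_lit 1) (nat_lit 4) (nat_lit 2) (nat_lit 5) (nat_lit 2) (nat_lit 4) (nat_lit 344) (nat_lit 228) (nat_lit 208))))))) (XT.nd (nat_lit 39156) (nat_lit 0) (nat_lit 0) (XT.nd (nat_lit 390) (nat_lit 0) (nat_lit 0) (XT.nd (nat_lit 156) (nat_lit 0) (nat_lit 0) (XT.nd (nat_lit 78) (nat_lit 0) (nat_lit 0) (XT.lf (nat_lit 0) (nat_lit 535658608643) (nat_lit 76) (nat_lit 146183582975) (nat_lit 76) (nat_lit 144582177842) (nat_lit 1) (nat_lit 4) (nat_lit 2) (nat_lit 5) (nat_lit 2) (nat_lit 4) (nat_lit 345) (nat_lit 228) (nat_lit 207)) (XT.lf (nat_lit 0) (nat_lit 581178821705) (nat_lit 76) (nat_lit 156459615773) (nat_lit 76) (nat_lit 154828803727)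 (nat_lit 1) (nat_lit 4) (nat_lit 2) (nat_lit 5) (nat_lit 2) (nat_lit 4) (nat_lit 346) (nat_lit 228) (nat_lit 206))) (XT.nd (nat_lit 78) (nat_lit 0) (nat_lit 0) (XT.lf (nat_lit 0) (nat_lit 630285972887) (nat_lit 76) (nat_lit 167583533714) (nat_lit 76) (nat_lit 165925493043) (nat_lit 1) (nat_lit 4) (nat_lit 2) (nat_lit 5) (nat_lit 2) (nat_lit 4) (nat_lit 347) (nat_lit 228) (nat_lit 205)) (XT.nd (nat_lit 78) (nat_lit 0) (nat_lit 0) (XT.lf (nat_lit 0) (nat_lit 683271067530) (nat_lit 76) (nat_lit 179621256309) (nat_lit 76) (nat_lit 177938003949) (nat_lit 1) (nat_lit 4) (nat_lit 2) (nat_lit 5) (nat_lit 2) (nat_lit 4) (nat_lit 348) (nat_lit 228) (nat_lit 204)) (XT.lf (nat_lit 0) (nat_lit 740448091380) (nat_lit 76) (nat_lit 192644118212) (nat_lit 76) (nat_lit 190937521695) (nat_lit 1) (nat_lit 4) (nat_lit 2) (nat_lit 5) (nat_lit 2) (nat_lit 4) (nat_lit 349) (nat_lit 228) (nat_lit 203))))) (XT.nd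 (nat_lit 38532) (nat_lit 0) (nat_lit 0) (XT.nd (nat_lit 38454) (nat_lit 0) (nat_lit 0) (XT.lf (nat_lit 0) (nat_lit 802155871244) (nat_lit 76) (nat_lit 206729291937) (nat_lit 76) (nat_lit 205001080460) (nat_lit 1) (nat_lit 4) (nat_lit 2) (nat_lit 5) (nat_lit 2) (nat_lit 4) (nat_lit 350) (nat_lit 228) (nat_lit 202)) (XT.lf (nat_lit 0) (nat_lit 22030813186) (nat_lit 76) (nat_lit 24486981923) (nat_lit 76) (nat_lit 24486981923) (nat_lit 1) (nat_lit 4) (nat_lit 2) (nat_lit 5) (nat_lit 2) (nat_lit 4) (nat_lit 322) (nat_lit 229) (nat_lit 229))) (XT.nd (nat_lit 78) (nat_lit 0) (nat_lit 0) (XT.lf (nat_lit 0) (nat_lit 53683330565) (nat_lit 76) (nat_lit 49842203723) (nat_lit 76) (nat_lit 49682331844) (nat_lit 1) (nat_lit 4) (nat_lit 2) (nat_lit 5) (nat_lit 2) (nat_lit 4) (nat_lit 323) (nat_lit 229) (nat_lit 228)) (XT.nd (nat_lit 78) (nat_lit 0) (nat_lit 0) (XT.lf (nat_lit 0) (nat_lit 63777506909)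 (nat_lit 76) (nat_lit 50920179218) (nat_lit 76) (nat_lit 50612277823) (nat_lit 1) (nat_lit 4) (nat_lit 2) (nat_lit 5) (nat_lit 2) (nat_lit 4) (nat_lit 324) (nat_lit 229) (nat_lit 227)) (XT.lf (nat_lit 0) (nat_lit 74403972745) (nat_lit 76) (nat_lit 52214278336) (nat_lit 76) (nat_lit 51769312574) (nat_lit 1) (nat_lit 4) (nat_lit 2) (nat_lit 5) (nat_lit 2) (nat_lit 4) (nat_lit 325) (nat_lit 229) (nat_lit 226)))))) (XT.nd (nat_lit 390) (nat_lit 0) (nat_lit 0) (XT.nd (nat_lit 156) (nat_lit 0) (nat_lit 0) (XT.nd (nat_lit 78) (nat_lit 0) (nat_lit 0) (XT.lf (nat_lit 0) (nat_lit 85625699723) (nat_lit 76) (nat_lit 53732169811) (nat_lit 76) (nat_lit 53160292597) (nat_lit 1) (nat_lit 4) (nat_lit 2) (nat_lit 5) (nat_lit 2) (nat_lit 4) (nat_lit 326) (nat_lit 229) (nat_lit 225)) (XT.lf (nat_lit 0) (nat_lit 97509186967) (nat_lit 76) (nat_lit 55482848555) (nat_lit 76) (nat_lit 54793460739) (nat_lit 1)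 (nat_lit 4) (nat_lit 2) (nat_lit 5) (nat_lit 2) (nat_lit 4) (nat_lit 327) (nat_lit 229) (nat_lit 224))) (XT.nd (nat_lit 78) (nat_lit 0) (nat_lit 0) (XT.lf (nat_lit 0) (nat_lit 110124855140) (nat_lit 76) (nat_lit 57476688963) (nat_lit 76) (nat_lit 56678495032) (nat_lit 1) (nat_lit 4) (nat_lit 2) (nat_lit 5) (nat_lit 2) (nat_lit 4) (nat_lit 328) (nat_lit 229) (nat_lit 223)) (XT.nd (nat_lit 78) (nat_lit 0) (nat_lit 0) (XT.lf (nat_lit 0) (nat_lit 123547463758) (nat_lit 76) (nat_lit 59725506383) (nat_lit 76) (nat_lit 58826566051) (nat_lit 1) (nat_lit 4) (nat_lit 2) (nat_lit 5) (nat_lit 2) (nat_lit 4) (nat_lit 329) (nat_lit 229) (nat_lit 222)) (XT.lf (nat_lit 0) (nat_lit 137856554206) (nat_lit 76) (nat_lit 62242627141) (nat_lit 76) (nat_lit 61250403104) (nat_lit 1) (nat_lit 4) (nat_lit 2) (nat_lit 5) (nat_lit 2) (nat_lit 4) (nat_lit 330) (nat_lit 229) (nat_lit 221))))) (XT.nd (nat_lit 234) (nat_lit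 0) (nat_lit 0) (XT.nd (nat_lit 78) (nat_lit 0) (nat_lit 0) (XT.lf (nat_lit 0) (nat_lit 153136921093) (nat_lit 76) (nat_lit 65042967510) (nat_lit 76) (nat_lit 63964369671) (nat_lit 1) (nat_lit 4) (nat_lit 2) (nat_lit 5) (nat_lit 2) (nat_lit 4) (nat_lit 331) (nat_lit 229) (nat_lit 220)) (XT.nd (nat_lit 78) (nat_lit 0) (nat_lit 0) (XT.lf (nat_lit 0) (nat_lit 169479114743) (nat_lit 76) (nat_lit 68143122097) (nat_lit 76) (nat_lit 66984548517) (nat_lit 1) (nat_lit 4) (nat_lit 2) (nat_lit 5) (nat_lit 2) (nat_lit 4) (nat_lit 332) (nat_lit 229) (nat_lit 219)) (XT.lf (nat_lit 0) (nat_lit 186979977783) (nat_lit 76) (nat_lit 71561462190) (nat_lit 76) (nat_lit 70328836997) (nat_lit 1) (nat_lit 4) (nat_lit 2) (nat_lit 5) (nat_lit 2) (nat_lit 4) (nat_lit 333) (nat_lit 229) (nat_lit 218)))) (XT.nd (nat_lit 78) (nat_lit 0) (nat_lit 0) (XT.lf (nat_lit 0) (nat_lit 205743219032) (nat_lit 76) (nat_lit 75318244619)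 (nat_lit 76) (nat_lit 74017053117) (nat_lit 1) (nat_lit 4) (nat_lit 2) (nat_lit 5) (nat_lit 2) (nat_lit 4) (nat_lit 334) (nat_lit 229) (nat_lit 217)) (XT.nd (nat_lit 78) (nat_lit 0) (nat_lit 0) (XT.lf (nat_lit 0) (nat_lit 225880028068) (nat_lit 76) (nat_lit 79435731798) (nat_lit 76) (nat_lit 78071052974) (nat_lit 1) (nat_lit 4) (nat_lit 2) (nat_lit 5) (nat_lit 2) (nat_lit 4) (nat_lit 335) (nat_lit 229) (nat_lit 216)) (XT.lf (nat_lit 0) (nat_lit 247509734129) (nat_lit 76) (nat_lit 83938323651) (nat_lit 76) (nat_lit 82514860269) (nat_lit 1) (nat_lit 4) (nat_lit 2) (nat_lit 5) (nat_lit 2) (nat_lit 4) (nat_lit 336) (nat_lit 229) (nat_lit 215))))))))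
noncomputable def xc5 : XT := (XT.nd (nat_lit 39858) (nat_lit 0) (nat_lit 0) (XT.nd (nat_lit 780) (nat_lit 0) (nat_lit 0) (XT.nd (nat_lit 390) (nat_lit 0) (nat_lit 0) (XT.nd (nat_lit 156) (nat_lit 0) (nat_lit 0) (XT.nd (nat_lit 78) (nat_lit 0) (nat_lit 0) (XT.lf (nat_lit 0) (nat_lit 270760513251) (nat_lit 76) (nat_lit 88852702204) (nat_lit 76) (nat_lit 87374808677) (nat_lit 1) (nat_lit 4) (nat_lit 2) (nat_lit 5) (nat_lit 2) (nat_lit 4) (nat_lit 337) (nat_lit 229) (nat_lit 214)) (XT.lf (nat_lit 0) (nat_lit 295770147830) (nat_lit 76) (nat_lit 94207989701) (nat_lit 76) (nat_lit 92679697890) (nat_lit 1) (nat_lit 4) (nat_lit 2) (nat_lit 5) (nat_lit 2) (nat_lit 4) (nat_lit 338) (nat_lit 229) (nat_lit 213))) (XT.nd (nat_lit 78) (nat_lit 0) (nat_lit 0) (XT.lf (nat_lit 0) (nat_lit 322686843107) (nat_lit 76) (nat_lit 100035921177) (nat_lit 76) (nat_lit 98460964289) (nat_lit 1) (nat_lit 4) (nat_lit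 2) (nat_lit 5) (nat_lit 2) (nat_lit 4) (nat_lit 339) (nat_lit 229) (nat_lit 212)) (XT.nd (nat_lit 78) (nat_lit 0) (nat_lit 0) (XT.lf (nat_lit 0) (nat_lit 351670105424) (nat_lit 76) (nat_lit 106371032525) (nat_lit 76) (nat_lit 104752867232) (nat_lit 1) (nat_lit 4) (nat_lit 2) (nat_lit 5) (nat_lit 2) (nat_lit 4) (nat_lit 340) (nat_lit 229) (nat_lit 211)) (XT.lf (nat_lit 0) (nat_lit 382891687447) (nat_lit 76) (nat_lit 113250865143) (nat_lit 76) (nat_lit 111592692068) (nat_lit 1) (nat_lit 4) (nat_lit 2) (nat_lit 5) (nat_lit 2) (nat_lit 4) (nat_lit 341) (nat_lit 229) (nat_lit 210))))) (XT.nd (nat_lit 156) (nat_lit 0) (nat_lit 0) (XT.nd (nat_lit 78) (nat_lit 0) (nat_lit 0) (XT.lf (nat_lit 0) (nat_lit 416536605959) (nat_lit 76) (nat_lit 120716188411) (nat_lit 76) (nat_lit 119020971093) (nat_lit 1) (nat_lit 4) (nat_lit 2) (nat_lit 5) (nat_lit 2) (nat_lit 4) (nat_lit 342) (nat_lit 229) (nat_lit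 209)) (XT.lf (nat_lit 0) (nat_lit 452804238254) (nat_lit 76) (nat_lit 128811241282) (nat_lit 76) (nat_lit 127081723739) (nat_lit 1) (nat_lit 4) (nat_lit 2) (nat_lit 5) (nat_lit 2) (nat_lit 4) (nat_lit 343) (nat_lit 229) (nat_lit 208))) (XT.nd (nat_lit 78) (nat_lit 0) (nat_lit 0) (XT.lf (nat_lit 0) (nat_lit 491909503635) (nat_lit 76) (nat_lit 137583994438) (nat_lit 76) (nat_lit 135822717428) (nat_lit 1) (nat_lit 4) (nat_lit 2) (nat_lit 5) (nat_lit 2) (nat_lit 4) (nat_lit 344) (nat_lit 229) (nat_lit 207)) (XT.nd (nat_lit 78) (nat_lit 0) (nat_lit 0) (XT.lf (nat_lit 0) (nat_lit 534084137008) (nat_lit 76) (nat_lit 147086434566) (nat_lit 76) (nat_lit 145295750641) (nat_lit 1) (nat_lit 4) (nat_lit 2) (nat_lit 5) (nat_lit 2) (nat_lit 4) (nat_lit 345) (nat_lit 229) (nat_lit 206)) (XT.lf (nat_lit 0) (nat_lit 579578062125) (nat_lit 76) (nat_lit 157374872421) (nat_lit 76) (nat_lit 155556959872) (nat_lit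 1) (nat_lit 4) (nat_lit 2) (nat_lit 5) (nat_lit 2) (nat_lit 4) (nat_lit 346) (nat_lit 229) (nat_lit 205)))))) (XT.nd (nat_lit 38610) (nat_lit 0) (nat_lit 0) (XT.nd (nat_lit 156) (nat_lit 0) (nat_lit 0) (XT.nd (nat_lit 78) (nat_lit 0) (nat_lit 0) (XT.lf (nat_lit 0) (nat_lit 628660872618) (nat_lit 76) (nat_lit 168510276525) (nat_lit 76) (nat_lit 166667152287) (nat_lit 1) (nat_lit 4) (nat_lit 2) (nat_lit 5) (nat_lit 2) (nat_lit 4) (nat_lit 347) (nat_lit 229) (nat_lit 204)) (XT.lf (nat_lit 0) (nat_lit 681623429586) (nat_lit 76) (nat_lit 180558634457) (nat_lit 76) (nat_lit 178692166062) (nat_lit 1) (nat_lit 4) (nat_lit 2) (nat_lit 5) (nat_lit 2) (nat_lit 4) (nat_lit 348) (nat_lit 229) (nat_lit 203))) (XT.nd (nat_lit 78) (nat_lit 0) (nat_lit 0) (XT.lf (nat_lit 0) (nat_lit 738779585218) (nat_lit 76) (nat_lit 193591343893) (nat_lit 76) (nat_lit 191703260538) (nat_lit 1) (nat_lit 4) (nat_lit 2)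 (nat_lit 5) (nat_lit 2) (nat_lit 4) (nat_lit 349) (nat_lit 229) (nat_lit 202)) (XT.nd (nat_lit 38298) (nat_lit 0) (nat_lit 0) (XT.lf (nat_lit 0) (nat_lit 800468042658) (nat_lit 76) (nat_lit 207685635706) (nat_lit 76) (nat_lit 205777538499) (nat_lit 1) (nat_lit 4) (nat_lit 2) (nat_lit 5) (nat_lit 2) (nat_lit 4) (nat_lit 350) (nat_lit 229) (nat_lit 201)) (XT.lf (nat_lit 0) (nat_lit 13088361489) (nat_lit 76) (nat_lit 23970660880) (nat_lit 76) (nat_lit 23970660880) (nat_lit 1) (nat_lit 4) (nat_lit 2) (nat_lit 5) (nat_lit 2) (nat_lit 4) (nat_lit 320) (nat_lit 230) (nat_lit 230))))) (XT.nd (nat_lit 234) (nat_lit 0) (nat_lit 0) (XT.nd (nat_lit 78) (nat_lit 0) (nat_lit 0) (XT.lf (nat_lit 0) (nat_lit 34855376826) (nat_lit 76) (nat_lit 48482976091) (nat_lit 76) (nat_lit 48310314463) (nat_lit 1) (nat_lit 4) (nat_lit 2) (nat_lit 5) (nat_lit 2) (nat_lit 4) (nat_lit 321) (nat_lit 230) (nat_lit 229))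 (XT.nd (nat_lit 78) (nat_lit 0) (nat_lit 0) (XT.lf (nat_lit 0) (nat_lit 43907277662) (nat_lit 76) (nat_lit 49219461312) (nat_lit 76) (nat_lit 48886927806) (nat_lit 1) (nat_lit 4) (nat_lit 2) (nat_lit 5) (nat_lit 2) (nat_lit 4) (nat_lit 322) (nat_lit 230) (nat_lit 228)) (XT.lf (nat_lit 0) (nat_lit 53386066381) (nat_lit 76) (nat_lit 50155141780) (nat_lit 76) (nat_lit 49674578757) (nat_lit 1) (nat_lit 4) (nat_lit 2) (nat_lit 5) (nat_lit 2) (nat_lit 4) (nat_lit 323) (nat_lit 230) (nat_lit 227)))) (XT.nd (nat_lit 78) (nat_lit 0) (nat_lit 0) (XT.lf (nat_lit 0) (nat_lit 63347913583) (nat_lit 76) (nat_lit 51295562267) (nat_lit 76) (nat_lit 50677934876) (nat_lit 1) (nat_lit 4) (nat_lit 2) (nat_lit 5) (nat_lit 2) (nat_lit 4) (nat_lit 324) (nat_lit 230) (nat_lit 226)) (XT.nd (nat_lit 78) (nat_lit 0) (nat_lit 0) (XT.lf (nat_lit 0) (nat_lit 73851852436) (nat_lit 76) (nat_lit 52647480821) (nat_lit 76)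 (nat_lit 51902941979) (nat_lit 1) (nat_lit 4) (nat_lit 2) (nat_lit 5) (nat_lit 2) (nat_lit 4) (nat_lit 325) (nat_lit 230) (nat_lit 225)) (XT.lf (nat_lit 0) (nat_lit 84960128504) (nat_lit 76) (nat_lit 54218908811) (nat_lit 76) (nat_lit 53356859366) (nat_lit 1) (nat_lit 4) (nat_lit 2) (nat_lit 5) (nat_lit 2) (nat_lit 4) (nat_lit 326) (nat_lit 230) (nat_lit 224))))))) (XT.nd (nat_lit 780) (nat_lit 0) (nat_lit 0) (XT.nd (nat_lit 390) (nat_lit 0) (nat_lit 0) (XT.nd (nat_lit 156) (nat_lit 0) (nat_lit 0) (XT.nd (nat_lit 78) (nat_lit 0) (nat_lit 0) (XT.lf (nat_lit 0) (nat_lit 96738568608) (nat_lit 76) (nat_lit 56019158403) (nat_lit 76) (nat_lit 55048302845) (nat_lit 1) (nat_lit 4) (nat_lit 2) (nat_lit 5) (nat_lit 2) (nat_lit 4) (nat_lit 327) (nat_lit 230) (nat_lit 223)) (XT.lf (nat_lit 0) (nat_lit 109256970912) (nat_lit 76) (nat_lit 58058897743) (nat_lit 76) (nat_lit 56987295783) (nat_lit 1) (nat_lit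 4) (nat_lit 2) (nat_lit 5) (nat_lit 2) (nat_lit 4) (nat_lit 328) (nat_lit 230) (nat_lit 222))) (XT.nd (nat_lit 78) (nat_lit 0) (nat_lit 0) (XT.lf (nat_lit 0) (nat_lit 122589518540) (nat_lit 76) (nat_lit 60350214175) (nat_lit 76) (nat_lit 59185328510) (nat_lit 1) (nat_lit 4) (nat_lit 2) (nat_lit 5) (nat_lit 2) (nat_lit 4) (nat_lit 329) (nat_lit 230) (nat_lit 221)) (XT.nd (nat_lit 78) (nat_lit 0) (nat_lit 0) (XT.lf (nat_lit 0) (nat_lit 136815219182) (nat_lit 76) (nat_lit 62906685871) (nat_lit 76) (nat_lit 61655426404) (nat_lit 1) (nat_lit 4) (nat_lit 2) (nat_lit 5) (nat_lit 2) (nat_lit 4) (nat_lit 330) (nat_lit 230) (nat_lit 220)) (XT.lf (nat_lit 0) (nat_lit 152018373286) (nat_lit 76) (nat_lit 65743462292) (nat_lit 76) (nat_lit 64412227083) (nat_lit 1) (nat_lit 4) (nat_lit 2) (nat_lit 5) (nat_lit 2) (nat_lit 4) (nat_lit 331) (nat_lit 230) (nat_lit 219))))) (XT.nd (nat_lit 156) (nat_lit 0)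 (nat_lit 0) (XT.nd (nat_lit 78) (nat_lit 0) (nat_lit 0) (XT.lf (nat_lit 0) (nat_lit 168289073617) (nat_lit 76) (nat_lit 68877353965) (nat_lit 76) (nat_lit 67472067144) (nat_lit 1) (nat_lit 4) (nat_lit 2) (nat_lit 5) (nat_lit 2) (nat_lit 4) (nat_lit 332) (nat_lit 230) (nat_lit 218)) (XT.lf (nat_lit 0) (nat_lit 185723739141) (nat_lit 76) (nat_lit 72326932101) (nat_lit 76) (nat_lit 70853078971) (nat_lit 1) (nat_lit 4) (nat_lit 2) (nat_lit 5) (nat_lit 2) (nat_lit 4) (nat_lit 333) (nat_lit 230) (nat_lit 217))) (XT.nd (nat_lit 78) (nat_lit 0) (nat_lit 0) (XT.lf (nat_lit 0) (nat_lit 204425686393) (nat_lit 76) (nat_lit 76112638643) (nat_lit 76) (nat_lit 74575298191) (nat_lit 1) (nat_lit 4) (nat_lit 2) (nat_lit 5) (nat_lit 2) (nat_lit 4) (nat_lit 334) (nat_lit 230) (nat_lit 216)) (XT.nd (nat_lit 78) (nat_lit 0) (nat_lit 0) (XT.lf (nat_lit 0) (nat_lit 224505741728) (nat_lit 76) (nat_lit 80256907408)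 (nat_lit 76) (nat_lit 78660782399) (nat_lit 1) (nat_lit 4) (nat_lit 2) (nat_lit 5) (nat_lit 2) (nat_lit 4) (nat_lit 335) (nat_lit 230) (nat_lit 215)) (XT.lf (nat_lit 0) (nat_lit 246082898067) (nat_lit 76) (nat_lit 84784297027) (nat_lit 76) (nat_lit 83133741871) (nat_lit 1) (nat_lit 4) (nat_lit 2) (nat_lit 5) (nat_lit 2) (nat_lit 4) (nat_lit 336) (nat_lit 230) (nat_lit 214)))))) (XT.nd (nat_lit 390) (nat_lit 0) (nat_lit 0) (XT.nd (nat_lit 156) (nat_lit 0) (nat_lit 0) (XT.nd (nat_lit 78) (nat_lit 0) (nat_lit 0) (XT.lf (nat_lit 0) (nat_lit 269285020039) (nat_lit 76) (nat_lit 89721636474) (nat_lit 76) (nat_lit 88020683035) (nat_lit 1) (nat_lit 4) (nat_lit 2) (nat_lit 5) (nat_lit 2) (nat_lit 4) (nat_lit 337) (nat_lit 230) (nat_lit 213)) (XT.lf (nat_lit 0) (nat_lit 294249601700) (nat_lit 76) (nat_lit 95098184057) (nat_lit 76) (nat_lit 93350565541) (nat_lit 1) (nat_lit 4) (nat_lit 2) (nat_lit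 5) (nat_lit 2) (nat_lit 4) (nat_lit 338) (nat_lit 230) (nat_lit 212))) (XT.nd (nat_lit 78) (nat_lit 0) (nat_lit 0) (XT.lf (nat_lit 0) (nat_lit 321124581312) (nat_lit 76) (nat_lit 100945800800) (nat_lit 76) (nat_lit 99154973878) (nat_lit 1) (nat_lit 4) (nat_lit 2) (nat_lit 5) (nat_lit 2) (nat_lit 4) (nat_lit 339) (nat_lit 230) (nat_lit 211)) (XT.nd (nat_lit 78) (nat_lit 0) (nat_lit 0) (XT.lf (nat_lit 0) (nat_lit 350069218015) (nat_lit 76) (nat_lit 107299139245) (nat_lit 76) (nat_lit 105468304541) (nat_lit 1) (nat_lit 4) (nat_lit 2) (nat_lit 5) (nat_lit 2) (nat_lit 4) (nat_lit 340) (nat_lit 230) (nat_lit 210)) (XT.lf (nat_lit 0) (nat_lit 381255035580) (nat_lit 76) (nat_lit 114195848806) (nat_lit 76) (nat_lit 112327969859) (nat_lit 1) (nat_lit 4) (nat_lit 2) (nat_lit 5) (nat_lit 2) (nat_lit 4) (nat_lit 341) (nat_lit 230) (nat_lit 209))))) (XT.nd (nat_lit 234) (nat_lit 0) (nat_lit 0) (XT.nd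 (nat_lit 78) (nat_lit 0) (nat_lit 0) (XT.lf (nat_lit 0) (nat_lit 414866838852) (nat_lit 76) (nat_lit 121676798872) (nat_lit 76) (nat_lit 119774619701) (nat_lit 1) (nat_lit 4) (nat_lit 2) (nat_lit 5) (nat_lit 2) (nat_lit 4) (nat_lit 342) (nat_lit 230) (nat_lit 208)) (XT.nd (nat_lit 78) (nat_lit 0) (nat_lit 0) (XT.lf (nat_lit 0) (nat_lit 451103808888) (nat_lit 76) (nat_lit 129786321000) (nat_lit 76) (nat_lit 127852382362) (nat_lit 1) (nat_lit 4) (nat_lit 2) (nat_lit 5) (nat_lit 2) (nat_lit 4) (nat_lit 343) (nat_lit 230) (nat_lit 207)) (XT.lf (nat_lit 0) (nat_lit 490180683289) (nat_lit 76) (nat_lit 138572471618) (nat_lit 76) (nat_lit 136609126065) (nat_lit 1) (nat_lit 4) (nat_lit 2) (nat_lit 5) (nat_lit 2) (nat_lit 4) (nat_lit 344) (nat_lit 230) (nat_lit 206)))) (XT.nd (nat_lit 78) (nat_lit 0) (nat_lit 0) (XT.lf (nat_lit 0) (nat_lit 532329028717) (nat_lit 76) (nat_lit 148087316802) (nat_lit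 76) (nat_lit 146096742625) (nat_lit 1) (nat_lit 4) (nat_lit 2) (nat_lit 5) (nat_lit 2) (nat_lit 4) (nat_lit 345) (nat_lit 230) (nat_lit 205)) (XT.nd (nat_lit 78) (nat_lit 0) (nat_lit 0) (XT.lf (nat_lit 0) (nat_lit 577798613145) (nat_lit 76) (nat_lit 158387240821) (nat_lit 76) (nat_lit 156371454954) (nat_lit 1) (nat_lit 4) (nat_lit 2) (nat_lit 5) (nat_lit 2) (nat_lit 4) (nat_lit 346) (nat_lit 230) (nat_lit 204)) (XT.lf (nat_lit 0) (nat_lit 626858885963) (nat_lit 76) (nat_lit 169533280261) (nat_lit 76) (nat_lit 167494150238) (nat_lit 1) (nat_lit 4) (nat_lit 2) (nat_lit 5) (nat_lit 2) (nat_lit 4) (nat_lit 347) (nat_lit 230) (nat_lit 203))))))))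
noncomputable def xc6 : XT := (XT.nd (nat_lit 39702) (nat_lit 0) (nat_lit 0) (XT.nd (nat_lit 38844) (nat_lit 0) (nat_lit 0) (XT.nd (nat_lit 38454) (nat_lit 0) (nat_lit 0) (XT.nd (nat_lit 156) (nat_lit 0) (nat_lit 0) (XT.nd (nat_lit 78) (nat_lit 0) (nat_lit 0) (XT.lf (nat_lit 0) (nat_lit 679800574713) (nat_lit 76) (nat_lit 181591485726) (nat_lit 76) (nat_lit 179530740743) (nat_lit 1) (nat_lit 4) (nat_lit 2) (nat_lit 5) (nat_lit 2) (nat_lit 4) (nat_lit 348) (nat_lit 230) (nat_lit 202)) (XT.lf (nat_lit 0) (nat_lit 736937407920) (nat_lit 76) (nat_lit 194633313250) (nat_lit 76) (nat_lit 192552554415) (nat_lit 1) (nat_lit 4) (nat_lit 2) (nat_lit 5) (nat_lit 2) (nat_lit 4) (nat_lit 349) (nat_lit 230) (nat_lit 201))) (XT.nd (nat_lit 38142) (nat_lit 0) (nat_lit 0) (XT.lf (nat_lit 0) (nat_lit 798607974227) (nat_lit 76) (nat_lit 208736047735) (nat_lit 76) (nat_lit 206636757556) (nat_lit 1) (nat_lit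 4) (nat_lit 2) (nat_lit 5) (nat_lit 2) (nat_lit 4) (nat_lit 350) (nat_lit 230) (nat_lit 200)) (XT.nd (nat_lit 78) (nat_lit 0) (nat_lit 0) (XT.lf (nat_lit 0) (nat_lit 4957689708) (nat_lit 76) (nat_lit 23766160461) (nat_lit 76) (nat_lit 23766160461) (nat_lit 1) (nat_lit 4) (nat_lit 2) (nat_lit 5) (nat_lit 2) (nat_lit 4) (nat_lit 318) (nat_lit 231) (nat_lit 231)) (XT.lf (nat_lit 0) (nat_lit 17819887060) (nat_lit 76) (nat_lit 47777763073) (nat_lit 76) (nat_lit 47591288515) (nat_lit 1) (nat_lit 4) (nat_lit 2) (nat_lit 5) (nat_lit 2) (nat_lit 4) (nat_lit 319) (nat_lit 231) (nat_lit 230))))) (XT.nd (nat_lit 156) (nat_lit 0) (nat_lit 0) (XT.nd (nat_lit 78) (nat_lit 0) (nat_lit 0) (XT.lf (nat_lit 0) (nat_lit 26010026371) (nat_lit 76) (nat_lit 48206459024) (nat_lit 76) (nat_lit 47847322837) (nat_lit 1) (nat_lit 4) (nat_lit 2) (nat_lit 5) (nat_lit 2) (nat_lit 4) (nat_lit 320) (nat_lit 231) (nat_lit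 229)) (XT.lf (nat_lit 0) (nat_lit 34534331507) (nat_lit 76) (nat_lit 48820949193) (nat_lit 76) (nat_lit 48301941128) (nat_lit 1) (nat_lit 4) (nat_lit 2) (nat_lit 5) (nat_lit 2) (nat_lit 4) (nat_lit 321) (nat_lit 231) (nat_lit 228))) (XT.nd (nat_lit 78) (nat_lit 0) (nat_lit 0) (XT.lf (nat_lit 0) (nat_lit 43443316870) (nat_lit 76) (nat_lit 49624875005) (nat_lit 76) (nat_lit 48957837423) (nat_lit 1) (nat_lit 4) (nat_lit 2) (nat_lit 5) (nat_lit 2) (nat_lit 4) (nat_lit 322) (nat_lit 231) (nat_lit 227)) (XT.nd (nat_lit 78) (nat_lit 0) (nat_lit 0) (XT.lf (nat_lit 0) (nat_lit 52789776448) (nat_lit 76) (nat_lit 50623000464) (nat_lit 76) (nat_lit 49818898515) (nat_lit 1) (nat_lit 4) (nat_lit 2) (nat_lit 5) (nat_lit 2) (nat_lit 4) (nat_lit 323) (nat_lit 231) (nat_lit 226)) (XT.lf (nat_lit 0) (nat_lit 62629096666) (nat_lit 76) (nat_lit 51821240387) (nat_lit 76) (nat_lit 50890226987) (nat_lit 1) (nat_lit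 4) (nat_lit 2) (nat_lit 5) (nat_lit 2) (nat_lit 4) (nat_lit 324) (nat_lit 231) (nat_lit 225)))))) (XT.nd (nat_lit 390) (nat_lit 0) (nat_lit 0) (XT.nd (nat_lit 156) (nat_lit 0) (nat_lit 0) (XT.nd (nat_lit 78) (nat_lit 0) (nat_lit 0) (XT.lf (nat_lit 0) (nat_lit 73019584609) (nat_lit 76) (nat_lit 53226695457) (nat_lit 76) (nat_lit 52178171453) (nat_lit 1) (nat_lit 4) (nat_lit 2) (nat_lit 5) (nat_lit 2) (nat_lit 4) (nat_lit 325) (nat_lit 231) (nat_lit 224)) (XT.lf (nat_lit 0) (nat_lit 84022813538) (nat_lit 76) (nat_lit 54847694294) (nat_lit 76) (nat_lit 53690364177) (nat_lit 1) (nat_lit 4) (nat_lit 2) (nat_lit 5) (nat_lit 2) (nat_lit 4) (nat_lit 326) (nat_lit 231) (nat_lit 223))) (XT.nd (nat_lit 78) (nat_lit 0) (nat_lit 0) (XT.lf (nat_lit 0) (nat_lit 95703987773) (nat_lit 76) (nat_lit 56693842819) (nat_lit 76) (nat_lit 55435766301) (nat_lit 1) (nat_lit 4) (nat_lit 2) (nat_lit 5) (nat_lit 2)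 (nat_lit 4) (nat_lit 327) (nat_lit 231) (nat_lit 222)) (XT.nd (nat_lit 78) (nat_lit 0) (nat_lit 0) (XT.lf (nat_lit 0) (nat_lit 108132329086) (nat_lit 76) (nat_lit 58776081172) (nat_lit 76) (nat_lit 57424720947) (nat_lit 1) (nat_lit 4) (nat_lit 2) (nat_lit 5) (nat_lit 2) (nat_lit 4) (nat_lit 328) (nat_lit 231) (nat_lit 221)) (XT.lf (nat_lit 0) (nat_lit 121381486908) (nat_lit 76) (nat_lit 61106748541) (nat_lit 76) (nat_lit 59669014515) (nat_lit 1) (nat_lit 4) (nat_lit 2) (nat_lit 5) (nat_lit 2) (nat_lit 4) (nat_lit 329) (nat_lit 231) (nat_lit 220))))) (XT.nd (nat_lit 234) (nat_lit 0) (nat_lit 0) (XT.nd (nat_lit 78) (nat_lit 0) (nat_lit 0) (XT.lf (nat_lit 0) (nat_lit 135529974767) (nat_lit 76) (nat_lit 63699656289) (nat_lit 76) (nat_lit 62181946522) (nat_lit 1) (nat_lit 4) (nat_lit 2) (nat_lit 5) (nat_lit 2) (nat_lit 4) (nat_lit 330) (nat_lit 231) (nat_lit 219)) (XT.nd (nat_lit 78) (nat_lit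 0) (nat_lit 0) (XT.lf (nat_lit 0) (nat_lit 150661635553) (nat_lit 76) (nat_lit 66570169796) (nat_lit 76) (nat_lit 64978408416) (nat_lit 1) (nat_lit 4) (nat_lit 2) (nat_lit 5) (nat_lit 2) (nat_lit 4) (nat_lit 331) (nat_lit 231) (nat_lit 218)) (XT.lf (nat_lit 0) (nat_lit 166866138368) (nat_lit 76) (nat_lit 69735299511) (nat_lit 76) (nat_lit 68074971823) (nat_lit 1) (nat_lit 4) (nat_lit 2) (nat_lit 5) (nat_lit 2) (nat_lit 4) (nat_lit 332) (nat_lit 231) (nat_lit 217)))) (XT.nd (nat_lit 78) (nat_lit 0) (nat_lit 0) (XT.lf (nat_lit 0) (nat_lit 184239509895) (nat_lit 76) (nat_lit 73213801760) (nat_lit 76) (nat_lit 71489986750) (nat_lit 1) (nat_lit 4) (nat_lit 2) (nat_lit 5) (nat_lit 2) (nat_lit 4) (nat_lit 333) (nat_lit 231) (nat_lit 216)) (XT.nd (nat_lit 78) (nat_lit 0) (nat_lit 0) (XT.lf (nat_lit 0) (nat_lit 202884703446) (nat_lit 76) (nat_lit 77026289889) (nat_lit 76) (nat_lit 75243690321)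 (nat_lit 1) (nat_lit 4) (nat_lit 2) (nat_lit 5) (nat_lit 2) (nat_lit 4) (nat_lit 334) (nat_lit 231) (nat_lit 215)) (XT.lf (nat_lit 0) (nat_lit 222912209059) (nat_lit 76) (nat_lit 81195356420) (nat_lit 76) (nat_lit 79358326705) (nat_lit 1) (nat_lit 4) (nat_lit 2) (nat_lit 5) (nat_lit 2) (nat_lit 4) (nat_lit 335) (nat_lit 231) (nat_lit 214))))))) (XT.nd (nat_lit 780) (nat_lit 0) (nat_lit 0) (XT.nd (nat_lit 390) (nat_lit 0) (nat_lit 0) (XT.nd (nat_lit 156) (nat_lit 0) (nat_lit 0) (XT.nd (nat_lit 78) (nat_lit 0) (nat_lit 0) (XT.lf (nat_lit 0) (nat_lit 244440708246) (nat_lit 76) (nat_lit 85745706932) (nat_lit 76) (nat_lit 83858278934) (nat_lit 1) (nat_lit 4) (nat_lit 2) (nat_lit 5) (nat_lit 2) (nat_lit 4) (nat_lit 336) (nat_lit 231) (nat_lit 213)) (XT.lf (nat_lit 0) (nat_lit 267597777301) (nat_lit 76) (nat_lit 90704306466) (nat_lit 76) (nat_lit 88770213391) (nat_lit 1) (nat_lit 4) (nat_lit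 2) (nat_lit 5) (nat_lit 2) (nat_lit 4) (nat_lit 337) (nat_lit 231) (nat_lit 212))) (XT.nd (nat_lit 78) (nat_lit 0) (nat_lit 0) (XT.lf (nat_lit 0) (nat_lit 292520643298) (nat_lit 76) (nat_lit 96100539315) (nat_lit 76) (nat_lit 94123237835) (nat_lit 1) (nat_lit 4) (nat_lit 2) (nat_lit 5) (nat_lit 2) (nat_lit 4) (nat_lit 338) (nat_lit 231) (nat_lit 211)) (XT.nd (nat_lit 78) (nat_lit 0) (nat_lit 0) (XT.lf (nat_lit 0) (nat_lit 319356997295) (nat_lit 76) (nat_lit 101966383155) (nat_lit 76) (nat_lit 99949073893) (nat_lit 1) (nat_lit 4) (nat_lit 2) (nat_lit 5) (nat_lit 2) (nat_lit 4) (nat_lit 339) (nat_lit 231) (nat_lit 210)) (XT.lf (nat_lit 0) (nat_lit 348265869539) (nat_lit 76) (nat_lit 108336598542) (nat_lit 76) (nat_lit 106282245037) (nat_lit 1) (nat_lit 4) (nat_lit 2) (nat_lit 5) (nat_lit 2) (nat_lit 4) (nat_lit 340) (nat_lit 231) (nat_lit 209))))) (XT.nd (nat_lit 156) (nat_lit 0) (nat_lit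 0) (XT.nd (nat_lit 78) (nat_lit 0) (nat_lit 0) (XT.lf (nat_lit 0) (nat_lit 379418571865) (nat_lit 76) (nat_lit 115248934902) (nat_lit 76) (nat_lit 113160281172) (nat_lit 1) (nat_lit 4) (nat_lit 2) (nat_lit 5) (nat_lit 2) (nat_lit 4) (nat_lit 341) (nat_lit 231) (nat_lit 208)) (XT.lf (nat_lit 0) (nat_lit 412999712878) (nat_lit 76) (nat_lit 122744354226) (nat_lit 76) (nat_lit 120623941029) (nat_lit 1) (nat_lit 4) (nat_lit 2) (nat_lit 5) (nat_lit 2) (nat_lit 4) (nat_lit 342) (nat_lit 231) (nat_lit 207))) (XT.nd (nat_lit 78) (nat_lit 0) (nat_lit 0) (XT.lf (nat_lit 0) (nat_lit 449208291935) (nat_lit 76) (nat_lit 130867273815) (nat_lit 76) (nat_lit 128717453704) (nat_lit 1) (nat_lit 4) (nat_lit 2) (nat_lit 5) (nat_lit 2) (nat_lit 4) (nat_lit 343) (nat_lit 231) (nat_lit 206)) (XT.nd (nat_lit 78) (nat_lit 0) (nat_lit 0) (XT.lf (nat_lit 0) (nat_lit 488258878391) (nat_lit 76) (nat_lit 139665829489)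 (nat_lit 76) (nat_lit 137488780753) (nat_lit 1) (nat_lit 4) (nat_lit 2) (nat_lit 5) (nat_lit 2) (nat_lit 4) (nat_lit 344) (nat_lit 231) (nat_lit 205)) (XT.lf (nat_lit 0) (nat_lit 530382883129) (nat_lit 76) (nat_lit 149192160837) (nat_lit 76) (nat_lit 146989900412) (nat_lit 1) (nat_lit 4) (nat_lit 2) (nat_lit 5) (nat_lit 2) (nat_lit 4) (nat_lit 345) (nat_lit 231) (nat_lit 204)))))) (XT.nd (nat_lit 38298) (nat_lit 0) (nat_lit 0) (XT.nd (nat_lit 156) (nat_lit 0) (nat_lit 0) (XT.nd (nat_lit 78) (nat_lit 0) (nat_lit 0) (XT.lf (nat_lit 0) (nat_lit 575829929882) (nat_lit 76) (nat_lit 159502720192) (nat_lit 76) (nat_lit 157277115610) (nat_lit 1) (nat_lit 4) (nat_lit 2) (nat_lit 5) (nat_lit 2) (nat_lit 4) (nat_lit 346) (nat_lit 231) (nat_lit 203)) (XT.lf (nat_lit 0) (nat_lit 624869334482) (nat_lit 76) (nat_lit 170658607166) (nat_lit 76) (nat_lit 168411387624) (nat_lit 1) (nat_lit 4) (nat_lit 2)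 (nat_lit 5) (nat_lit 2) (nat_lit 4) (nat_lit 347) (nat_lit 231) (nat_lit 202))) (XT.nd (nat_lit 78) (nat_lit 0) (nat_lit 0) (XT.lf (nat_lit 0) (nat_lit 677791700808) (nat_lit 76) (nat_lit 182725930718) (nat_lit 76) (nat_lit 180458697325) (nat_lit 1) (nat_lit 4) (nat_lit 2) (nat_lit 5) (nat_lit 2) (nat_lit 4) (nat_lit 348) (nat_lit 231) (nat_lit 201)) (XT.nd (nat_lit 78) (nat_lit 0) (nat_lit 0) (XT.lf (nat_lit 0) (nat_lit 734910642882) (nat_lit 76) (nat_lit 195776200915) (nat_lit 76) (nat_lit 193490436177) (nat_lit 1) (nat_lit 4) (nat_lit 2) (nat_lit 5) (nat_lit 2) (nat_lit 4) (nat_lit 349) (nat_lit 231) (nat_lit 200)) (XT.lf (nat_lit 0) (nat_lit 796564643325) (nat_lit 76) (nat_lit 209886752690) (nat_lit 76) (nat_lit 207583829300) (nat_lit 1) (nat_lit 4) (nat_lit 2) (nat_lit 5) (nat_lit 2) (nat_lit 4) (nat_lit 350) (nat_lit 231) (nat_lit 199))))) (XT.nd (nat_lit 234) (nat_lit 0) (nat_lit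 0) (XT.nd (nat_lit 78) (nat_lit 76) (nat_lit 0) (XT.lf (nat_lit 0) (nat_lit 21373172993) (nat_lit 152) (nat_lit 2433660686) (nat_lit 0) (nat_lit 21373172993) (nat_lit 2) (nat_lit 5) (nat_lit 4) (nat_lit 4) (nat_lit 2) (nat_lit 4) (nat_lit 316) (nat_lit 232) (nat_lit 232)) (XT.nd (nat_lit 78) (nat_lit 0) (nat_lit 0) (XT.lf (nat_lit 0) (nat_lit 2249661914) (nat_lit 76) (nat_lit 47670070620) (nat_lit 76) (nat_lit 47468678097) (nat_lit 1) (nat_lit 4) (nat_lit 2) (nat_lit 5) (nat_lit 2) (nat_lit 4) (nat_lit 317) (nat_lit 232) (nat_lit 231)) (XT.lf (nat_lit 0) (nat_lit 9735347081) (nat_lit 76) (nat_lit 47818669167) (nat_lit 76) (nat_lit 47430802085) (nat_lit 1) (nat_lit 4) (nat_lit 2) (nat_lit 5) (nat_lit 2) (nat_lit 4) (nat_lit 318) (nat_lit 232) (nat_lit 230)))) (XT.nd (nat_lit 78) (nat_lit 0) (nat_lit 0) (XT.lf (nat_lit 0) (nat_lit 17473158116) (nat_lit 76) (nat_lit 48142774023) (nat_lit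 76) (nat_lit 47582245313) (nat_lit 1) (nat_lit 4) (nat_lit 2) (nat_lit 5) (nat_lit 2) (nat_lit 4) (nat_lit 319) (nat_lit 232) (nat_lit 229)) (XT.nd (nat_lit 78) (nat_lit 0) (nat_lit 0) (XT.lf (nat_lit 0) (nat_lit 25508948715) (nat_lit 76) (nat_lit 48644305811) (nat_lit 76) (nat_lit 47923905223) (nat_lit 1) (nat_lit 4) (nat_lit 2) (nat_lit 5) (nat_lit 2) (nat_lit 4) (nat_lit 320) (nat_lit 232) (nat_lit 228)) (XT.lf (nat_lit 0) (nat_lit 33890338379) (nat_lit 76) (nat_lit 49326236572) (nat_lit 76) (nat_lit 48457806467) (nat_lit 1) (nat_lit 4) (nat_lit 2) (nat_lit 5) (nat_lit 2) (nat_lit 4) (nat_lit 321) (nat_lit 232) (nat_lit 227))))))))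
noncomputable def xc7 : XT := (XT.nd (nat_lit 1638) (nat_lit 0) (nat_lit 0) (XT.nd (nat_lit 780) (nat_lit 0) (nat_lit 0) (XT.nd (nat_lit 390) (nat_lit 0) (nat_lit 0) (XT.nd (nat_lit 156) (nat_lit 0) (nat_lit 0) (XT.nd (nat_lit 78) (nat_lit 0) (nat_lit 0) (XT.lf (nat_lit 0) (nat_lit 42666994600) (nat_lit 76) (nat_lit 50192607375) (nat_lit 76) (nat_lit 49187112903) (nat_lit 1) (nat_lit 4) (nat_lit 2) (nat_lit 5) (nat_lit 2) (nat_lit 4) (nat_lit 322) (nat_lit 232) (nat_lit 226)) (XT.lf (nat_lit 0) (nat_lit 51890927194) (nat_lit 76) (nat_lit 51248552270) (nat_lit 76) (nat_lit 50116146347) (nat_lit 1) (nat_lit 4) (nat_lit 2) (nat_lit 5) (nat_lit 2) (nat_lit 4) (nat_lit 323) (nat_lit 232) (nat_lit 225))) (XT.nd (nat_lit 78) (nat_lit 0) (nat_lit 0) (XT.lf (nat_lit 0) (nat_lit 61616796503) (nat_lit 76) (nat_lit 52500328709) (nat_lit 76) (nat_lit 51250412183) (nat_lit 1) (nat_lit 4) (nat_lit 2)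 (nat_lit 5) (nat_lit 2) (nat_lit 4) (nat_lit 324) (nat_lit 232) (nat_lit 224)) (XT.nd (nat_lit 78) (nat_lit 0) (nat_lit 0) (XT.lf (nat_lit 0) (nat_lit 71902237307) (nat_lit 76) (nat_lit 53955354626) (nat_lit 76) (nat_lit 52596631986) (nat_lit 1) (nat_lit 4) (nat_lit 2) (nat_lit 5) (nat_lit 2) (nat_lit 4) (nat_lit 325) (nat_lit 232) (nat_lit 223)) (XT.lf (nat_lit 0) (nat_lit 82808200366) (nat_lit 76) (nat_lit 55622252397) (nat_lit 76) (nat_lit 54162783355) (nat_lit 1) (nat_lit 4) (nat_lit 2) (nat_lit 5) (nat_lit 2) (nat_lit 4) (nat_lit 326) (nat_lit 232) (nat_lit 222))))) (XT.nd (nat_lit 156) (nat_lit 0) (nat_lit 0) (XT.nd (nat_lit 78) (nat_lit 0) (nat_lit 0) (XT.lf (nat_lit 0) (nat_lit 94399313610) (nat_lit 76) (nat_lit 57510899934) (nat_lit 76) (nat_lit 55958147187) (nat_lit 1) (nat_lit 4) (nat_lit 2) (nat_lit 5) (nat_lit 2) (nat_lit 4) (nat_lit 327) (nat_lit 232) (nat_lit 221)) (XT.lf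 (nat_lit 0) (nat_lit 106744265117) (nat_lit 76) (nat_lit 59632489223) (nat_lit 76) (nat_lit 57993362674) (nat_lit 1) (nat_lit 4) (nat_lit 2) (nat_lit 5) (nat_lit 2) (nat_lit 4) (nat_lit 328) (nat_lit 232) (nat_lit 220))) (XT.nd (nat_lit 78) (nat_lit 0) (nat_lit 0) (XT.lf (nat_lit 0) (nat_lit 119916210156) (nat_lit 76) (nat_lit 61999592645) (nat_lit 76) (nat_lit 60280490354) (nat_lit 1) (nat_lit 4) (nat_lit 2) (nat_lit 5) (nat_lit 2) (nat_lit 4) (nat_lit 329) (nat_lit 232) (nat_lit 219)) (XT.nd (nat_lit 78) (nat_lit 0) (nat_lit 0) (XT.lf (nat_lit 0) (nat_lit 133993204697) (nat_lit 76) (nat_lit 64626237479) (nat_lit 76) (nat_lit 62833083576) (nat_lit 1) (nat_lit 4) (nat_lit 2) (nat_lit 5) (nat_lit 2) (nat_lit 4) (nat_lit 330) (nat_lit 232) (nat_lit 218)) (XT.lf (nat_lit 0) (nat_lit 149058667967) (nat_lit 76) (nat_lit 67527989028) (nat_lit 76) (nat_lit 65666268817) (nat_lit 1) (nat_lit 4)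 (nat_lit 2) (nat_lit 5) (nat_lit 2) (nat_lit 4) (nat_lit 331) (nat_lit 232) (nat_lit 217)))))) (XT.nd (nat_lit 390) (nat_lit 0) (nat_lit 0) (XT.nd (nat_lit 156) (nat_lit 0) (nat_lit 0) (XT.nd (nat_lit 78) (nat_lit 0) (nat_lit 0) (XT.lf (nat_lit 0) (nat_lit 165201876785) (nat_lit 76) (nat_lit 70722042857) (nat_lit 76) (nat_lit 68796835323) (nat_lit 1) (nat_lit 4) (nat_lit 2) (nat_lit 5) (nat_lit 2) (nat_lit 4) (nat_lit 332) (nat_lit 232) (nat_lit 216)) (XT.lf (nat_lit 0) (nat_lit 182518494611) (nat_lit 76) (nat_lit 74227326693) (nat_lit 76) (nat_lit 72243334601) (nat_lit 1) (nat_lit 4) (nat_lit 2) (nat_lit 5) (nat_lit 2) (nat_lit 4) (nat_lit 333) (nat_lit 232) (nat_lit 215))) (XT.nd (nat_lit 78) (nat_lit 0) (nat_lit 0) (XT.lf (nat_lit 0) (nat_lit 201111138440) (nat_lit 76) (nat_lit 78064612587) (nat_lit 76) (nat_lit 76026190349) (nat_lit 1) (nat_lit 4) (nat_lit 2) (nat_lit 5) (nat_lit 2)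 (nat_lit 4) (nat_lit 334) (nat_lit 232) (nat_lit 214)) (XT.nd (nat_lit 78) (nat_lit 0) (nat_lit 0) (XT.lf (nat_lit 0) (nat_lit 221089986902) (nat_lit 76) (nat_lit 82256640011) (nat_lit 76) (nat_lit 80167819490) (nat_lit 1) (nat_lit 4) (nat_lit 2) (nat_lit 5) (nat_lit 2) (nat_lit 4) (nat_lit 335) (nat_lit 232) (nat_lit 213)) (XT.lf (nat_lit 0) (nat_lit 242573433172) (nat_lit 76) (nat_lit 86828250610) (nat_lit 76) (nat_lit 84692765012) (nat_lit 1) (nat_lit 4) (nat_lit 2) (nat_lit 5) (nat_lit 2) (nat_lit 4) (nat_lit 336) (nat_lit 232) (nat_lit 212))))) (XT.nd (nat_lit 234) (nat_lit 0) (nat_lit 0) (XT.nd (nat_lit 78) (nat_lit 0) (nat_lit 0) (XT.lf (nat_lit 0) (nat_lit 265688786562) (nat_lit 76) (nat_lit 91806535410) (nat_lit 76) (nat_lit 89627841406) (nat_lit 1) (nat_lit 4) (nat_lit 2) (nat_lit 5) (nat_lit 2) (nat_lit 4) (nat_lit 337) (nat_lit 232) (nat_lit 211)) (XT.nd (nat_lit 78) (nat_lit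 0) (nat_lit 0) (XT.lf (nat_lit 0) (nat_lit 290573026944) (nat_lit 76) (nat_lit 97220995356) (nat_lit 76) (nat_lit 95002293571) (nat_lit 1) (nat_lit 4) (nat_lit 2) (nat_lit 5) (nat_lit 2) (nat_lit 4) (nat_lit 338) (nat_lit 232) (nat_lit 210)) (XT.lf (nat_lit 0) (nat_lit 317373616483) (nat_lit 76) (nat_lit 103103716139) (nat_lit 76) (nat_lit 100847970111) (nat_lit 1) (nat_lit 4) (nat_lit 2) (nat_lit 5) (nat_lit 2) (nat_lit 4) (nat_lit 339) (nat_lit 232) (nat_lit 209)))) (XT.nd (nat_lit 78) (nat_lit 0) (nat_lit 0) (XT.lf (nat_lit 0) (nat_lit 346249373487) (nat_lit 76) (nat_lit 109489558325) (nat_lit 76) (nat_lit 107199512072) (nat_lit 1) (nat_lit 4) (nat_lit 2) (nat_lit 5) (nat_lit 2) (nat_lit 4) (nat_lit 340) (nat_lit 232) (nat_lit 208)) (XT.nd (nat_lit 78) (nat_lit 0) (nat_lit 0) (XT.lf (nat_lit 0) (nat_lit 377371413555) (nat_lit 76) (nat_lit 116416363942) (nat_lit 76) (nat_lit 114094558221)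 (nat_lit 1) (nat_lit 4) (nat_lit 2) (nat_lit 5) (nat_lit 2) (nat_lit 4) (nat_lit 341) (nat_lit 232) (nat_lit 207)) (XT.lf (nat_lit 0) (nat_lit 410924163588) (nat_lit 76) (nat_lit 123925180727) (nat_lit 76) (nat_lit 121573968093) (nat_lit 1) (nat_lit 4) (nat_lit 2) (nat_lit 5) (nat_lit 2) (nat_lit 4) (nat_lit 342) (nat_lit 232) (nat_lit 206))))))) (XT.nd (nat_lit 38610) (nat_lit 0) (nat_lit 0) (XT.nd (nat_lit 390) (nat_lit 0) (nat_lit 0) (XT.nd (nat_lit 156) (nat_lit 0) (nat_lit 0) (XT.nd (nat_lit 78) (nat_lit 0) (nat_lit 0) (XT.lf (nat_lit 0) (nat_lit 447106454700) (nat_lit 76) (nat_lit 132060505373) (nat_lit 76) (nat_lit 129682064114) (nat_lit 1) (nat_lit 4) (nat_lit 2) (nat_lit 5) (nat_lit 2) (nat_lit 4) (nat_lit 343) (nat_lit 232) (nat_lit 205)) (XT.lf (nat_lit 0) (nat_lit 486132700467) (nat_lit 76) (nat_lit 140870547210) (nat_lit 76) (nat_lit 138466894262) (nat_lit 1) (nat_lit 4) (nat_lit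 2) (nat_lit 5) (nat_lit 2) (nat_lit 4) (nat_lit 344) (nat_lit 232) (nat_lit 204))) (XT.nd (nat_lit 78) (nat_lit 0) (nat_lit 0) (XT.lf (nat_lit 0) (nat_lit 528234167530) (nat_lit 76) (nat_lit 150407513894) (nat_lit 76) (nat_lit 147980516789) (nat_lit 1) (nat_lit 4) (nat_lit 2) (nat_lit 5) (nat_lit 2) (nat_lit 4) (nat_lit 345) (nat_lit 232) (nat_lit 203)) (XT.nd (nat_lit 78) (nat_lit 0) (nat_lit 0) (XT.lf (nat_lit 0) (nat_lit 573660346065) (nat_lit 76) (nat_lit 160727920783) (nat_lit 76) (nat_lit 158279308718) (nat_lit 1) (nat_lit 4) (nat_lit 2) (nat_lit 5) (nat_lit 2) (nat_lit 4) (nat_lit 346) (nat_lit 232) (nat_lit 202)) (XT.lf (nat_lit 0) (nat_lit 622680428240) (nat_lit 76) (nat_lit 171892925844) (nat_lit 76) (nat_lit 169424299927) (nat_lit 1) (nat_lit 4) (nat_lit 2) (nat_lit 5) (nat_lit 2) (nat_lit 4) (nat_lit 347) (nat_lit 232) (nat_lit 201))))) (XT.nd (nat_lit 37986) (nat_lit 0) (nat_lit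 76) (XT.nd (nat_lit 78) (nat_lit 0) (nat_lit 0) (XT.lf (nat_lit 0) (nat_lit 675584903433) (nat_lit 76) (nat_lit 183968692069) (nat_lit 76) (nat_lit 181481534809) (nat_lit 1) (nat_lit 4) (nat_lit 2) (nat_lit 5) (nat_lit 2) (nat_lit 4) (nat_lit 348) (nat_lit 232) (nat_lit 200)) (XT.nd (nat_lit 78) (nat_lit 0) (nat_lit 0) (XT.lf (nat_lit 0) (nat_lit 732687279643) (nat_lit 76) (nat_lit 197026779556) (nat_lit 76) (nat_lit 194522463643) (nat_lit 1) (nat_lit 4) (nat_lit 2) (nat_lit 5) (nat_lit 2) (nat_lit 4) (nat_lit 349) (nat_lit 232) (nat_lit 199)) (XT.lf (nat_lit 0) (nat_lit 794325941322) (nat_lit 76) (nat_lit 211144569562) (nat_lit 76) (nat_lit 208624366008) (nat_lit 1) (nat_lit 4) (nat_lit 2) (nat_lit 5) (nat_lit 2) (nat_lit 4) (nat_lit 350) (nat_lit 232) (nat_lit 198)))) (XT.nd (nat_lit 78) (nat_lit 0) (nat_lit 0) (XT.lf (nat_lit 0) (nat_lit 14882590030) (nat_lit 152) (nat_lit 9158355578)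 (nat_lit 0) (nat_lit 14882590030) (nat_lit 2) (nat_lit 5) (nat_lit 4) (nat_lit 4) (nat_lit 2) (nat_lit 4) (nat_lit 314) (nat_lit 233) (nat_lit 233)) (XT.nd (nat_lit 78) (nat_lit 0) (nat_lit 0) (XT.lf (nat_lit 0) (nat_lit 36162434236) (nat_lit 152) (nat_lit 11752933022) (nat_lit 0) (nat_lit 35944930311) (nat_lit 2) (nat_lit 5) (nat_lit 4) (nat_lit 4) (nat_lit 2) (nat_lit 4) (nat_lit 315) (nat_lit 233) (nat_lit 232)) (XT.lf (nat_lit 0) (nat_lit 42864202841) (nat_lit 152) (nat_lit 5055533163) (nat_lit 0) (nat_lit 42445306392) (nat_lit 2) (nat_lit 5) (nat_lit 4) (nat_lit 4) (nat_lit 2) (nat_lit 4) (nat_lit 316) (nat_lit 233) (nat_lit 231)))))) (XT.nd (nat_lit 390) (nat_lit 0) (nat_lit 0) (XT.nd (nat_lit 156) (nat_lit 0) (nat_lit 0) (XT.nd (nat_lit 78) (nat_lit 0) (nat_lit 0) (XT.lf (nat_lit 0) (nat_lit 1875194655) (nat_lit 76) (nat_lit 48064282446) (nat_lit 76) (nat_lit 47458911439) (nat_lit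 1) (nat_lit 4) (nat_lit 2) (nat_lit 5) (nat_lit 2) (nat_lit 4) (nat_lit 317) (nat_lit 233) (nat_lit 230)) (XT.lf (nat_lit 0) (nat_lit 9194183213) (nat_lit 76) (nat_lit 48291543697) (nat_lit 76) (nat_lit 47513511062) (nat_lit 1) (nat_lit 4) (nat_lit 2) (nat_lit 5) (nat_lit 2) (nat_lit 4) (nat_lit 318) (nat_lit 233) (nat_lit 229))) (XT.nd (nat_lit 78) (nat_lit 0) (nat_lit 0) (XT.lf (nat_lit 0) (nat_lit 16777645537) (nat_lit 76) (nat_lit 48688484392) (nat_lit 76) (nat_lit 47750579879) (nat_lit 1) (nat_lit 4) (nat_lit 2) (nat_lit 5) (nat_lit 2) (nat_lit 4) (nat_lit 319) (nat_lit 233) (nat_lit 228)) (XT.nd (nat_lit 78) (nat_lit 0) (nat_lit 0) (XT.lf (nat_lit 0) (nat_lit 24670520664) (nat_lit 76) (nat_lit 49257456771) (nat_lit 76) (nat_lit 48171522741) (nat_lit 1) (nat_lit 4) (nat_lit 2) (nat_lit 5) (nat_lit 2) (nat_lit 4) (nat_lit 320) (nat_lit 233) (nat_lit 227)) (XT.lf (nat_lit 0) (nat_lit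 32919581185) (nat_lit 76) (nat_lit 50001832523) (nat_lit 76) (nat_lit 48778834125) (nat_lit 1) (nat_lit 4) (nat_lit 2) (nat_lit 5) (nat_lit 2) (nat_lit 4) (nat_lit 321) (nat_lit 233) (nat_lit 226))))) (XT.nd (nat_lit 234) (nat_lit 0) (nat_lit 0) (XT.nd (nat_lit 78) (nat_lit 0) (nat_lit 0) (XT.lf (nat_lit 0) (nat_lit 41573710424) (nat_lit 76) (nat_lit 50926022762) (nat_lit 76) (nat_lit 49576112914) (nat_lit 1) (nat_lit 4) (nat_lit 2) (nat_lit 5) (nat_lit 2) (nat_lit 4) (nat_lit 322) (nat_lit 233) (nat_lit 225)) (XT.nd (nat_lit 78) (nat_lit 0) (nat_lit 0) (XT.lf (nat_lit 0) (nat_lit 50684192108) (nat_lit 76) (nat_lit 52035504173) (nat_lit 76) (nat_lit 50568083722) (nat_lit 1) (nat_lit 4) (nat_lit 2) (nat_lit 5) (nat_lit 2) (nat_lit 4) (nat_lit 323) (nat_lit 233) (nat_lit 224)) (XT.lf (nat_lit 0) (nat_lit 60305014277) (nat_lit 76) (nat_lit 53336851460) (nat_lit 76) (nat_lit 51760624894) (nat_lit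 1) (nat_lit 4) (nat_lit 2) (nat_lit 5) (nat_lit 2) (nat_lit 4) (nat_lit 324) (nat_lit 233) (nat_lit 223)))) (XT.nd (nat_lit 78) (nat_lit 0) (nat_lit 0) (XT.lf (nat_lit 0) (nat_lit 70493189211) (nat_lit 76) (nat_lit 54837776309) (nat_lit 76) (nat_lit 53160803342) (nat_lit 1) (nat_lit 4) (nat_lit 2) (nat_lit 5) (nat_lit 2) (nat_lit 4) (nat_lit 325) (nat_lit 233) (nat_lit 222)) (XT.nd (nat_lit 78) (nat_lit 0) (nat_lit 0) (XT.lf (nat_lit 0) (nat_lit 81309091280) (nat_lit 76) (nat_lit 56547173092) (nat_lit 76) (nat_lit 54776916420) (nat_lit 1) (nat_lit 4) (nat_lit 2) (nat_lit 5) (nat_lit 2) (nat_lit 4) (nat_lit 326) (nat_lit 233) (nat_lit 221)) (XT.lf (nat_lit 0) (nat_lit 92816814718) (nat_lit 76) (nat_lit 58475171566) (nat_lit 76) (nat_lit 56618541093) (nat_lit 1) (nat_lit 4) (nat_lit 2) (nat_lit 5) (nat_lit 2) (nat_lit 4) (nat_lit 327) (nat_lit 233) (nat_lit 220))))))))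
noncomputable def xc8 : XT := (XT.nd (nat_lit 1638) (nat_lit 0) (nat_lit 0) (XT.nd (nat_lit 780) (nat_lit 0) (nat_lit 0) (XT.nd (nat_lit 390) (nat_lit 0) (nat_lit 0) (XT.nd (nat_lit 156) (nat_lit 0) (nat_lit 0) (XT.nd (nat_lit 78) (nat_lit 0) (nat_lit 0) (XT.lf (nat_lit 0) (nat_lit 105084553442) (nat_lit 76) (nat_lit 60633196908) (nat_lit 76) (nat_lit 58696590692) (nat_lit 1) (nat_lit 4) (nat_lit 2) (nat_lit 5) (nat_lit 2) (nat_lit 4) (nat_lit 328) (nat_lit 233) (nat_lit 219)) (XT.lf (nat_lit 0) (nat_lit 118185005163) (nat_lit 76) (nat_lit 63034037416) (nat_lit 76) (nat_lit 61023379587) (nat_lit 1) (nat_lit 4) (nat_lit 2) (nat_lit 5) (nat_lit 2) (nat_lit 4) (nat_lit 329) (nat_lit 233) (nat_lit 218))) (XT.nd (nat_lit 78) (nat_lit 0) (nat_lit 0) (XT.lf (nat_lit 0) (nat_lit 132195802188) (nat_lit 76) (nat_lit 65691920292) (nat_lit 76) (nat_lit 63612696156) (nat_lit 1) (nat_lit 4) (nat_lit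 2) (nat_lit 5) (nat_lit 2) (nat_lit 4) (nat_lit 330) (nat_lit 233) (nat_lit 217)) (XT.nd (nat_lit 78) (nat_lit 0) (nat_lit 0) (XT.lf (nat_lit 0) (nat_lit 147199971461) (nat_lit 76) (nat_lit 68622595955) (nat_lit 76) (nat_lit 66479884496) (nat_lit 1) (nat_lit 4) (nat_lit 2) (nat_lit 5) (nat_lit 2) (nat_lit 4) (nat_lit 331) (nat_lit 233) (nat_lit 216)) (XT.lf (nat_lit 0) (nat_lit 163286426578) (nat_lit 76) (nat_lit 71843431371) (nat_lit 76) (nat_lit 69641935354) (nat_lit 1) (nat_lit 4) (nat_lit 2) (nat_lit 5) (nat_lit 2) (nat_lit 4) (nat_lit 332) (nat_lit 233) (nat_lit 215))))) (XT.nd (nat_lit 156) (nat_lit 0) (nat_lit 0) (XT.nd (nat_lit 78) (nat_lit 0) (nat_lit 0) (XT.lf (nat_lit 0) (nat_lit 180550494682) (nat_lit 76) (nat_lit 75373512971) (nat_lit 76) (nat_lit 73117586809) (nat_lit 1) (nat_lit 4) (nat_lit 2) (nat_lit 5) (nat_lit 2) (nat_lit 4) (nat_lit 333) (nat_lit 233) (nat_lit 214))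 (XT.lf (nat_lit 0) (nat_lit 199094481360) (nat_lit 76) (nat_lit 79233759759) (nat_lit 76) (nat_lit 76927435313) (nat_lit 1) (nat_lit 4) (nat_lit 2) (nat_lit 5) (nat_lit 2) (nat_lit 4) (nat_lit 334) (nat_lit 233) (nat_lit 213))) (XT.nd (nat_lit 78) (nat_lit 0) (nat_lit 0) (XT.lf (nat_lit 0) (nat_lit 219028276904) (nat_lit 76) (nat_lit 83447047270) (nat_lit 76) (nat_lit 81094057747) (nat_lit 1) (nat_lit 4) (nat_lit 2) (nat_lit 5) (nat_lit 2) (nat_lit 4) (nat_lit 335) (nat_lit 233) (nat_lit 212)) (XT.nd (nat_lit 78) (nat_lit 0) (nat_lit 0) (XT.lf (nat_lit 0) (nat_lit 240470007510) (nat_lit 76) (nat_lit 88038343135) (nat_lit 76) (nat_lit 85642145207) (nat_lit 1) (nat_lit 4) (nat_lit 2) (nat_lit 5) (nat_lit 2) (nat_lit 4) (nat_lit 336) (nat_lit 233) (nat_lit 211)) (XT.lf (nat_lit 0) (nat_lit 263546735285) (nat_lit 76) (nat_lit 93034855032) (nat_lit 76) (nat_lit 90598649322) (nat_lit 1) (nat_lit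 4) (nat_lit 2) (nat_lit 5) (nat_lit 2) (nat_lit 4) (nat_lit 337) (nat_lit 233) (nat_lit 210)))))) (XT.nd (nat_lit 390) (nat_lit 0) (nat_lit 0) (XT.nd (nat_lit 156) (nat_lit 0) (nat_lit 0) (XT.nd (nat_lit 78) (nat_lit 0) (nat_lit 0) (XT.lf (nat_lit 0) (nat_lit 288395211208) (nat_lit 76) (nat_lit 98466191921) (nat_lit 76) (nat_lit 95992941968) (nat_lit 1) (nat_lit 4) (nat_lit 2) (nat_lit 5) (nat_lit 2) (nat_lit 4) (nat_lit 338) (nat_lit 233) (nat_lit 209)) (XT.lf (nat_lit 0) (nat_lit 315162685508) (nat_lit 76) (nat_lit 104364539502) (nat_lit 76) (nat_lit 101856989324) (nat_lit 1) (nat_lit 4) (nat_lit 2) (nat_lit 5) (nat_lit 2) (nat_lit 4) (nat_lit 339) (nat_lit 233) (nat_lit 208))) (XT.nd (nat_lit 78) (nat_lit 0) (nat_lit 0) (XT.lf (nat_lit 0) (nat_lit 344007780254) (nat_lit 76) (nat_lit 110764850946) (nat_lit 76) (nat_lit 108225541300) (nat_lit 1) (nat_lit 4) (nat_lit 2) (nat_lit 5) (nat_lit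 2) (nat_lit 4) (nat_lit 340) (nat_lit 233) (nat_lit 207)) (XT.nd (nat_lit 78) (nat_lit 0) (nat_lit 0) (XT.lf (nat_lit 0) (nat_lit 375101429341) (nat_lit 76) (nat_lit 117705054024) (nat_lit 76) (nat_lit 115136337464) (nat_lit 1) (nat_lit 4) (nat_lit 2) (nat_lit 5) (nat_lit 2) (nat_lit 4) (nat_lit 341) (nat_lit 233) (nat_lit 206)) (XT.lf (nat_lit 0) (nat_lit 408627891430) (nat_lit 76) (nat_lit 125226275866) (nat_lit 76) (nat_lit 122630330682) (nat_lit 1) (nat_lit 4) (nat_lit 2) (nat_lit 5) (nat_lit 2) (nat_lit 4) (nat_lit 342) (nat_lit 233) (nat_lit 205))))) (XT.nd (nat_lit 234) (nat_lit 0) (nat_lit 0) (XT.nd (nat_lit 78) (nat_lit 0) (nat_lit 0) (XT.lf (nat_lit 0) (nat_lit 444785841852) (nat_lit 76) (nat_lit 133373086675) (nat_lit 76) (nat_lit 130751929802) (nat_lit 1) (nat_lit 4) (nat_lit 2) (nat_lit 5) (nat_lit 2) (nat_lit 4) (nat_lit 343) (nat_lit 233) (nat_lit 204)) (XT.nd (nat_lit 78)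 (nat_lit 0) (nat_lit 0) (XT.lf (nat_lit 0) (nat_lit 483789549944) (nat_lit 76) (nat_lit 142193763849) (nat_lit 76) (nat_lit 139549262819) (nat_lit 1) (nat_lit 4) (nat_lit 2) (nat_lit 5) (nat_lit 2) (nat_lit 4) (nat_lit 344) (nat_lit 233) (nat_lit 203)) (XT.lf (nat_lit 0) (nat_lit 525870148789) (nat_lit 76) (nat_lit 151740578067) (nat_lit 76) (nat_lit 149074462077) (nat_lit 1) (nat_lit 4) (nat_lit 2) (nat_lit 5) (nat_lit 2) (nat_lit 4) (nat_lit 345) (nat_lit 233) (nat_lit 202)))) (XT.nd (nat_lit 78) (nat_lit 0) (nat_lit 0) (XT.lf (nat_lit 0) (nat_lit 571277004900) (nat_lit 76) (nat_lit 162070103042) (nat_lit 76) (nat_lit 159383973201) (nat_lit 1) (nat_lit 4) (nat_lit 2) (nat_lit 5) (nat_lit 2) (nat_lit 4) (nat_lit 346) (nat_lit 233) (nat_lit 201)) (XT.nd (nat_lit 78) (nat_lit 0) (nat_lit 0) (XT.lf (nat_lit 0) (nat_lit 620279195942) (nat_lit 76) (nat_lit 173243550776) (nat_lit 76) (nat_lit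 170538889590) (nat_lit 1) (nat_lit 4) (nat_lit 2) (nat_lit 5) (nat_lit 2) (nat_lit 4) (nat_lit 347) (nat_lit 233) (nat_lit 200)) (XT.lf (nat_lit 0) (nat_lit 673167105270) (nat_lit 76) (nat_lit 185327134291) (nat_lit 76) (nat_lit 182605314453) (nat_lit 1) (nat_lit 4) (nat_lit 2) (nat_lit 5) (nat_lit 2) (nat_lit 4) (nat_lit 348) (nat_lit 233) (nat_lit 199))))))) (XT.nd (nat_lit 38376) (nat_lit 0) (nat_lit 0) (XT.nd (nat_lit 37986) (nat_lit 0) (nat_lit 0) (XT.nd (nat_lit 37752) (nat_lit 0) (nat_lit 76) (XT.nd (nat_lit 78) (nat_lit 0) (nat_lit 0) (XT.lf (nat_lit 0) (nat_lit 730254142717) (nat_lit 76) (nat_lit 198392460009) (nat_lit 76) (nat_lit 195654752530) (nat_lit 1) (nat_lit 4) (nat_lit 2) (nat_lit 5) (nat_lit 2) (nat_lit 4) (nat_lit 349) (nat_lit 233) (nat_lit 198)) (XT.lf (nat_lit 0) (nat_lit 791878601838) (nat_lit 76) (nat_lit 212516952081) (nat_lit 76) (nat_lit 209764533824) (nat_lit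 1) (nat_lit 4) (nat_lit 2) (nat_lit 5) (nat_lit 2) (nat_lit 4) (nat_lit 350) (nat_lit 233) (nat_lit 197))) (XT.nd (nat_lit 78) (nat_lit 0) (nat_lit 0) (XT.lf (nat_lit 0) (nat_lit 9042644419) (nat_lit 152) (nat_lit 15489448268) (nat_lit 0) (nat_lit 9042644419) (nat_lit 2) (nat_lit 5) (nat_lit 4) (nat_lit 4) (nat_lit 2) (nat_lit 4) (nat_lit 312) (nat_lit 234) (nat_lit 234)) (XT.nd (nat_lit 78) (nat_lit 0) (nat_lit 0) (XT.lf (nat_lit 0) (nat_lit 23869434897) (nat_lit 152) (nat_lit 24785764031) (nat_lit 0) (nat_lit 23634530658) (nat_lit 2) (nat_lit 5) (nat_lit 4) (nat_lit 4) (nat_lit 2) (nat_lit 4) (nat_lit 313) (nat_lit 234) (nat_lit 233)) (XT.lf (nat_lit 0) (nat_lit 29892465464) (nat_lit 152) (nat_lit 18519979892) (nat_lit 0) (nat_lit 29440057300) (nat_lit 2) (nat_lit 5) (nat_lit 4) (nat_lit 4) (nat_lit 2) (nat_lit 4) (nat_lit 314) (nat_lit 234) (nat_lit 232))))) (XT.nd (nat_lit 156) (nat_lit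 76) (nat_lit 0) (XT.nd (nat_lit 78) (nat_lit 0) (nat_lit 0) (XT.lf (nat_lit 0) (nat_lit 36190072570) (nat_lit 152) (nat_lit 12144413549) (nat_lit 0) (nat_lit 35536271882) (nat_lit 2) (nat_lit 5) (nat_lit 4) (nat_lit 4) (nat_lit 2) (nat_lit 4) (nat_lit 315) (nat_lit 234) (nat_lit 231)) (XT.lf (nat_lit 0) (nat_lit 42799575368) (nat_lit 152) (nat_lit 5621283867) (nat_lit 0) (nat_lit 41959300122) (nat_lit 2) (nat_lit 5) (nat_lit 4) (nat_lit 4) (nat_lit 2) (nat_lit 4) (nat_lit 316) (nat_lit 234) (nat_lit 230))) (XT.nd (nat_lit 78) (nat_lit 0) (nat_lit 0) (XT.lf (nat_lit 0) (nat_lit 1124041070) (nat_lit 76) (nat_lit 48653649645) (nat_lit 76) (nat_lit 47640712770) (nat_lit 1) (nat_lit 4) (nat_lit 2) (nat_lit 5) (nat_lit 2) (nat_lit 4) (nat_lit 317) (nat_lit 234) (nat_lit 229)) (XT.nd (nat_lit 78) (nat_lit 0) (nat_lit 0) (XT.lf (nat_lit 0) (nat_lit 8288680917) (nat_lit 76) (nat_lit 48953746734)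 (nat_lit 76) (nat_lit 47780937982) (nat_lit 1) (nat_lit 4) (nat_lit 2) (nat_lit 5) (nat_lit 2) (nat_lit 4) (nat_lit 318) (nat_lit 234) (nat_lit 228)) (XT.lf (nat_lit 0) (nat_lit 15729227768) (nat_lit 76) (nat_lit 49418128019) (nat_lit 76) (nat_lit 48097289750) (nat_lit 1) (nat_lit 4) (nat_lit 2) (nat_lit 5) (nat_lit 2) (nat_lit 4) (nat_lit 319) (nat_lit 234) (nat_lit 227)))))) (XT.nd (nat_lit 390) (nat_lit 0) (nat_lit 0) (XT.nd (nat_lit 156) (nat_lit 0) (nat_lit 0) (XT.nd (nat_lit 78) (nat_lit 0) (nat_lit 0) (XT.lf (nat_lit 0) (nat_lit 23489773753) (nat_lit 76) (nat_lit 50049545390) (nat_lit 76) (nat_lit 48591642754) (nat_lit 1) (nat_lit 4) (nat_lit 2) (nat_lit 5) (nat_lit 2) (nat_lit 4) (nat_lit 320) (nat_lit 234) (nat_lit 226)) (XT.lf (nat_lit 0) (nat_lit 31616307291) (nat_lit 76) (nat_lit 50851740578) (nat_lit 76) (nat_lit 49266926490) (nat_lit 1) (nat_lit 4) (nat_lit 2) (nat_lit 5)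 (nat_lit 2) (nat_lit 4) (nat_lit 321) (nat_lit 234) (nat_lit 225))) (XT.nd (nat_lit 78) (nat_lit 0) (nat_lit 0) (XT.lf (nat_lit 0) (nat_lit 40156985619) (nat_lit 76) (nat_lit 51829467333) (nat_lit 76) (nat_lit 50127142643) (nat_lit 1) (nat_lit 4) (nat_lit 2) (nat_lit 5) (nat_lit 2) (nat_lit 4) (nat_lit 322) (nat_lit 234) (nat_lit 224)) (XT.nd (nat_lit 78) (nat_lit 0) (nat_lit 0) (XT.lf (nat_lit 0) (nat_lit 49162420164) (nat_lit 76) (nat_lit 52988519591) (nat_lit 76) (nat_lit 51177388787) (nat_lit 1) (nat_lit 4) (nat_lit 2) (nat_lit 5) (nat_lit 2) (nat_lit 4) (nat_lit 323) (nat_lit 234) (nat_lit 223)) (XT.lf (nat_lit 0) (nat_lit 58685976464) (nat_lit 76) (nat_lit 54335765811) (nat_lit 76) (nat_lit 52423888605) (nat_lit 1) (nat_lit 4) (nat_lit 2) (nat_lit 5) (nat_lit 2) (nat_lit 4) (nat_lit 324) (nat_lit 234) (nat_lit 222))))) (XT.nd (nat_lit 234) (nat_lit 0) (nat_lit 0) (XT.nd (nat_lit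 78) (nat_lit 0) (nat_lit 0) (XT.lf (nat_lit 0) (nat_lit 68784090408) (nat_lit 76) (nat_lit 55879189672) (nat_lit 76) (nat_lit 53874028761) (nat_lit 1) (nat_lit 4) (nat_lit 2) (nat_lit 5) (nat_lit 2) (nat_lit 4) (nat_lit 325) (nat_lit 234) (nat_lit 221)) (XT.nd (nat_lit 78) (nat_lit 0) (nat_lit 0) (XT.lf (nat_lit 0) (nat_lit 79516602671) (nat_lit 76) (nat_lit 57627937392) (nat_lit 76) (nat_lit 55536402679) (nat_lit 1) (nat_lit 4) (nat_lit 2) (nat_lit 5) (nat_lit 2) (nat_lit 4) (nat_lit 326) (nat_lit 234) (nat_lit 220)) (XT.lf (nat_lit 0) (nat_lit 90947113326) (nat_lit 76) (nat_lit 59592371919) (nat_lit 76) (nat_lit 57420861464) (nat_lit 1) (nat_lit 4) (nat_lit 2) (nat_lit 5) (nat_lit 2) (nat_lit 4) (nat_lit 327) (nat_lit 234) (nat_lit 219)))) (XT.nd (nat_lit 78) (nat_lit 0) (nat_lit 0) (XT.lf (nat_lit 0) (nat_lit 103143358732) (nat_lit 76) (nat_lit 61784134346) (nat_lit 76) (nat_lit 59538572279)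 (nat_lit 1) (nat_lit 4) (nat_lit 2) (nat_lit 5) (nat_lit 2) (nat_lit 4) (nat_lit 328) (nat_lit 234) (nat_lit 218)) (XT.nd (nat_lit 78) (nat_lit 0) (nat_lit 0) (XT.lf (nat_lit 0) (nat_lit 116177612937) (nat_lit 76) (nat_lit 64216212897) (nat_lit 76) (nat_lit 61902084521) (nat_lit 1) (nat_lit 4) (nat_lit 2) (nat_lit 5) (nat_lit 2) (nat_lit 4) (nat_lit 329) (nat_lit 234) (nat_lit 217)) (XT.lf (nat_lit 0) (nat_lit 130127115964) (nat_lit 76) (nat_lit 66903019887) (nat_lit 76) (nat_lit 64525404189) (nat_lit 1) (nat_lit 4) (nat_lit 2) (nat_lit 5) (nat_lit 2) (nat_lit 4) (nat_lit 330) (nat_lit 234) (nat_lit 216))))))))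
noncomputable def xc9 : XT := (XT.nd (nat_lit 39078) (nat_lit 0) (nat_lit 0) (XT.nd (nat_lit 780) (nat_lit 0) (nat_lit 0) (XT.nd (nat_lit 390) (nat_lit 0) (nat_lit 0) (XT.nd (nat_lit 156) (nat_lit 0) (nat_lit 0) (XT.nd (nat_lit 78) (nat_lit 0) (nat_lit 0) (XT.lf (nat_lit 0) (nat_lit 145074531537) (nat_lit 76) (nat_lit 69860477136) (nat_lit 76) (nat_lit 67424076880) (nat_lit 1) (nat_lit 4) (nat_lit 2) (nat_lit 5) (nat_lit 2) (nat_lit 4) (nat_lit 331) (nat_lit 234) (nat_lit 215)) (XT.lf (nat_lit 0) (nat_lit 161108436931) (nat_lit 76) (nat_lit 73106110317) (nat_lit 76) (nat_lit 70615279915) (nat_lit 1) (nat_lit 4) (nat_lit 2) (nat_lit 5) (nat_lit 2) (nat_lit 4) (nat_lit 332) (nat_lit 234) (nat_lit 214))) (XT.nd (nat_lit 78) (nat_lit 0) (nat_lit 0) (XT.lf (nat_lit 0) (nat_lit 178323847884) (nat_lit 76) (nat_lit 76659152811) (nat_lit 76) (nat_lit 74117924126) (nat_lit 1) (nat_lit 4) (nat_lit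 2) (nat_lit 5) (nat_lit 2) (nat_lit 4) (nat_lit 333) (nat_lit 234) (nat_lit 213)) (XT.nd (nat_lit 78) (nat_lit 0) (nat_lit 0) (XT.lf (nat_lit 0) (nat_lit 196822781645) (nat_lit 76) (nat_lit 80540659686) (nat_lit 76) (nat_lit 77952765923) (nat_lit 1) (nat_lit 4) (nat_lit 2) (nat_lit 5) (nat_lit 2) (nat_lit 4) (nat_lit 334) (nat_lit 234) (nat_lit 212)) (XT.lf (nat_lit 0) (nat_lit 216714861524) (nat_lit 76) (nat_lit 84773632463) (nat_lit 76) (nat_lit 82142530295) (nat_lit 1) (nat_lit 4) (nat_lit 2) (nat_lit 5) (nat_lit 2) (nat_lit 4) (nat_lit 335) (nat_lit 234) (nat_lit 211))))) (XT.nd (nat_lit 156) (nat_lit 0) (nat_lit 0) (XT.nd (nat_lit 78) (nat_lit 0) (nat_lit 0) (XT.lf (nat_lit 0) (nat_lit 238117966515) (nat_lit 76) (nat_lit 89383155425) (nat_lit 76) (nat_lit 86712045475) (nat_lit 1) (nat_lit 4) (nat_lit 2) (nat_lit 5) (nat_lit 2) (nat_lit 4) (nat_lit 336) (nat_lit 234) (nat_lit 210))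 (XT.lf (nat_lit 0) (nat_lit 261158929832) (nat_lit 76) (nat_lit 94396544265) (nat_lit 76) (nat_lit 91688390072) (nat_lit 1) (nat_lit 4) (nat_lit 2) (nat_lit 5) (nat_lit 2) (nat_lit 4) (nat_lit 337) (nat_lit 234) (nat_lit 209))) (XT.nd (nat_lit 78) (nat_lit 0) (nat_lit 0) (XT.lf (nat_lit 0) (nat_lit 285974290516) (nat_lit 76) (nat_lit 99843507952) (nat_lit 76) (nat_lit 97101053535) (nat_lit 1) (nat_lit 4) (nat_lit 2) (nat_lit 5) (nat_lit 2) (nat_lit 4) (nat_lit 338) (nat_lit 234) (nat_lit 208)) (XT.nd (nat_lit 78) (nat_lit 0) (nat_lit 0) (XT.lf (nat_lit 0) (nat_lit 312711102557) (nat_lit 76) (nat_lit 105756324791) (nat_lit 76) (nat_lit 102982110906) (nat_lit 1) (nat_lit 4) (nat_lit 2) (nat_lit 5) (nat_lit 2) (nat_lit 4) (nat_lit 339) (nat_lit 234) (nat_lit 207)) (XT.lf (nat_lit 0) (nat_lit 341527806323) (nat_lit 76) (nat_lit 112170033696) (nat_lit 76) (nat_lit 109366412897) (nat_lit 1)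 (nat_lit 4) (nat_lit 2) (nat_lit 5) (nat_lit 2) (nat_lit 4) (nat_lit 340) (nat_lit 234) (nat_lit 206)))))) (XT.nd (nat_lit 390) (nat_lit 0) (nat_lit 0) (XT.nd (nat_lit 156) (nat_lit 0) (nat_lit 0) (XT.nd (nat_lit 78) (nat_lit 0) (nat_lit 0) (XT.lf (nat_lit 0) (nat_lit 372595167466) (nat_lit 76) (nat_lit 119122641830) (nat_lit 76) (nat_lit 116291792407) (nat_lit 1) (nat_lit 4) (nat_lit 2) (nat_lit 5) (nat_lit 2) (nat_lit 4) (nat_lit 341) (nat_lit 234) (nat_lit 205)) (XT.lf (nat_lit 0) (nat_lit 406097288865) (nat_lit 76) (nat_lit 126655349836) (nat_lit 76) (nat_lit 123799288723) (nat_lit 1) (nat_lit 4) (nat_lit 2) (nat_lit 5) (nat_lit 2) (nat_lit 4) (nat_lit 342) (nat_lit 234) (nat_lit 204))) (XT.nd (nat_lit 78) (nat_lit 0) (nat_lit 0) (XT.lf (nat_lit 0) (nat_lit 442232701612) (nat_lit 76) (nat_lit 134812795981) (nat_lit 76) (nat_lit 131933390712) (nat_lit 1) (nat_lit 4) (nat_lit 2) (nat_lit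 5) (nat_lit 2) (nat_lit 4) (nat_lit 343) (nat_lit 234) (nat_lit 203)) (XT.nd (nat_lit 78) (nat_lit 0) (nat_lit 0) (XT.lf (nat_lit 0) (nat_lit 481215541486) (nat_lit 76) (nat_lit 143643320689) (nat_lit 76) (nat_lit 140742300460) (nat_lit 1) (nat_lit 4) (nat_lit 2) (nat_lit 5) (nat_lit 2) (nat_lit 4) (nat_lit 344) (nat_lit 234) (nat_lit 202)) (XT.lf (nat_lit 0) (nat_lit 523276817907) (nat_lit 76) (nat_lit 153199252993) (nat_lit 76) (nat_lit 150278218912) (nat_lit 1) (nat_lit 4) (nat_lit 2) (nat_lit 5) (nat_lit 2) (nat_lit 4) (nat_lit 345) (nat_lit 234) (nat_lit 201))))) (XT.nd (nat_lit 234) (nat_lit 0) (nat_lit 0) (XT.nd (nat_lit 78) (nat_lit 0) (nat_lit 0) (XT.lf (nat_lit 0) (nat_lit 568665782884) (nat_lit 76) (nat_lit 163537220642) (nat_lit 76) (nat_lit 160597655217) (nat_lit 1) (nat_lit 4) (nat_lit 2) (nat_lit 5) (nat_lit 2) (nat_lit 4) (nat_lit 346) (nat_lit 234) (nat_lit 200)) (XT.nd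 (nat_lit 78) (nat_lit 0) (nat_lit 0) (XT.lf (nat_lit 0) (nat_lit 617651408062) (nat_lit 76) (nat_lit 174718485666) (nat_lit 76) (nat_lit 171761761589) (nat_lit 1) (nat_lit 4) (nat_lit 2) (nat_lit 5) (nat_lit 2) (nat_lit 4) (nat_lit 347) (nat_lit 234) (nat_lit 199)) (XT.lf (nat_lit 0) (nat_lit 670523978627) (nat_lit 76) (nat_lit 186809307412) (nat_lit 76) (nat_lit 183836695694) (nat_lit 1) (nat_lit 4) (nat_lit 2) (nat_lit 5) (nat_lit 2) (nat_lit 4) (nat_lit 348) (nat_lit 234) (nat_lit 198)))) (XT.nd (nat_lit 78) (nat_lit 0) (nat_lit 0) (XT.lf (nat_lit 0) (nat_lit 727596813516) (nat_lit 76) (nat_lit 199881335196) (nat_lit 76) (nat_lit 196894012699) (nat_lit 1) (nat_lit 4) (nat_lit 2) (nat_lit 5) (nat_lit 2) (nat_lit 4) (nat_lit 349) (nat_lit 234) (nat_lit 197)) (XT.nd (nat_lit 37518) (nat_lit 0) (nat_lit 76) (XT.lf (nat_lit 0) (nat_lit 789208122119) (nat_lit 76) (nat_lit 214012032885) (nat_lit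 76) (nat_lit 211011089297) (nat_lit 1) (nat_lit 4) (nat_lit 2) (nat_lit 5) (nat_lit 2) (nat_lit 4) (nat_lit 350) (nat_lit 234) (nat_lit 196)) (XT.lf (nat_lit 0) (nat_lit 3738490117) (nat_lit 152) (nat_lit 21528350567) (nat_lit 0) (nat_lit 3738490117) (nat_lit 2) (nat_lit 5) (nat_lit 4) (nat_lit 4) (nat_lit 2) (nat_lit 4) (nat_lit 310) (nat_lit 235) (nat_lit 235))))))) (XT.nd (nat_lit 780) (nat_lit 0) (nat_lit 0) (XT.nd (nat_lit 390) (nat_lit 76) (nat_lit 0) (XT.nd (nat_lit 156) (nat_lit 0) (nat_lit 0) (XT.nd (nat_lit 78) (nat_lit 0) (nat_lit 0) (XT.lf (nat_lit 0) (nat_lit 12759447441) (nat_lit 152) (nat_lit 37136077456) (nat_lit 0) (nat_lit 12505750863) (nat_lit 2) (nat_lit 5) (nat_lit 4) (nat_lit 4) (nat_lit 2) (nat_lit 4) (nat_lit 311) (nat_lit 235) (nat_lit 234)) (XT.lf (nat_lit 0) (nat_lit 18222757073) (nat_lit 152) (nat_lit 31198426771) (nat_lit 0) (nat_lit 17734156256) (nat_lit 2)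 (nat_lit 5) (nat_lit 4) (nat_lit 4) (nat_lit 2) (nat_lit 4) (nat_lit 312) (nat_lit 235) (nat_lit 233))) (XT.nd (nat_lit 78) (nat_lit 0) (nat_lit 0) (XT.lf (nat_lit 0) (nat_lit 23899284297) (nat_lit 152) (nat_lit 25208562999) (nat_lit 0) (nat_lit 23193179555) (nat_lit 2) (nat_lit 5) (nat_lit 4) (nat_lit 4) (nat_lit 2) (nat_lit 4) (nat_lit 313) (nat_lit 235) (nat_lit 232)) (XT.nd (nat_lit 78) (nat_lit 0) (nat_lit 0) (XT.lf (nat_lit 0) (nat_lit 29822667794) (nat_lit 152) (nat_lit 19130990652) (nat_lit 0) (nat_lit 28915170528) (nat_lit 2) (nat_lit 5) (nat_lit 4) (nat_lit 4) (nat_lit 2) (nat_lit 4) (nat_lit 314) (nat_lit 235) (nat_lit 231)) (XT.lf (nat_lit 0) (nat_lit 36028009094) (nat_lit 152) (nat_lit 12929694486) (nat_lit 0) (nat_lit 34934037270) (nat_lit 2) (nat_lit 5) (nat_lit 4) (nat_lit 4) (nat_lit 2) (nat_lit 4) (nat_lit 315) (nat_lit 235) (nat_lit 230))))) (XT.nd (nat_lit 156) (nat_lit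 76) (nat_lit 0) (XT.nd (nat_lit 78) (nat_lit 0) (nat_lit 0) (XT.lf (nat_lit 0) (nat_lit 42552080591) (nat_lit 152) (nat_lit 6567926080) (nat_lit 0) (nat_lit 41285447138) (nat_lit 2) (nat_lit 5) (nat_lit 4) (nat_lit 4) (nat_lit 2) (nat_lit 4) (nat_lit 316) (nat_lit 235) (nat_lit 229)) (XT.lf (nat_lit 0) (nat_lit 49433543449) (nat_lit 152) (nat_lit 7986064) (nat_lit 0) (nat_lit 48007038119) (nat_lit 2) (nat_lit 5) (nat_lit 4) (nat_lit 4) (nat_lit 2) (nat_lit 4) (nat_lit 317) (nat_lit 235) (nat_lit 228))) (XT.nd (nat_lit 78) (nat_lit 0) (nat_lit 0) (XT.lf (nat_lit 0) (nat_lit 7013474254) (nat_lit 76) (nat_lit 49809202442) (nat_lit 76) (nat_lit 48234667595) (nat_lit 1) (nat_lit 4) (nat_lit 2) (nat_lit 5) (nat_lit 2) (nat_lit 4) (nat_lit 318) (nat_lit 235) (nat_lit 227)) (XT.nd (nat_lit 78) (nat_lit 0) (nat_lit 0) (XT.lf (nat_lit 0) (nat_lit 14321691963) (nat_lit 76) (nat_lit 50336028719) (nat_lit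 76) (nat_lit 48624429505) (nat_lit 1) (nat_lit 4) (nat_lit 2) (nat_lit 5) (nat_lit 2) (nat_lit 4) (nat_lit 319) (nat_lit 235) (nat_lit 226)) (XT.lf (nat_lit 0) (nat_lit 21959710965) (nat_lit 76) (nat_lit 51025265526) (nat_lit 76) (nat_lit 49186754860) (nat_lit 1) (nat_lit 4) (nat_lit 2) (nat_lit 5) (nat_lit 2) (nat_lit 4) (nat_lit 320) (nat_lit 235) (nat_lit 225)))))) (XT.nd (nat_lit 390) (nat_lit 0) (nat_lit 0) (XT.nd (nat_lit 156) (nat_lit 0) (nat_lit 0) (XT.nd (nat_lit 78) (nat_lit 0) (nat_lit 0) (XT.lf (nat_lit 0) (nat_lit 29972793593) (nat_lit 76) (nat_lit 51880997230) (nat_lit 76) (nat_lit 49924975961) (nat_lit 1) (nat_lit 4) (nat_lit 2) (nat_lit 5) (nat_lit 2) (nat_lit 4) (nat_lit 321) (nat_lit 235) (nat_lit 224)) (XT.lf (nat_lit 0) (nat_lit 38408424782) (nat_lit 76) (nat_lit 52908294832) (nat_lit 76) (nat_lit 50843467449) (nat_lit 1) (nat_lit 4) (nat_lit 2) (nat_lit 5) (nat_lit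 2) (nat_lit 4) (nat_lit 322) (nat_lit 235) (nat_lit 223))) (XT.nd (nat_lit 78) (nat_lit 0) (nat_lit 0) (XT.lf (nat_lit 0) (nat_lit 47316593457) (nat_lit 76) (nat_lit 54113246023) (nat_lit 76) (nat_lit 51947672239) (nat_lit 1) (nat_lit 4) (nat_lit 2) (nat_lit 5) (nat_lit 2) (nat_lit 4) (nat_lit 323) (nat_lit 235) (nat_lit 222)) (XT.nd (nat_lit 78) (nat_lit 0) (nat_lit 0) (XT.lf (nat_lit 0) (nat_lit 56750088766) (nat_lit 76) (nat_lit 55502991255) (nat_lit 76) (nat_lit 53244133765) (nat_lit 1) (nat_lit 4) (nat_lit 2) (nat_lit 5) (nat_lit 2) (nat_lit 4) (nat_lit 324) (nat_lit 235) (nat_lit 221)) (XT.lf (nat_lit 0) (nat_lit 66764812904) (nat_lit 76) (nat_lit 57085766053) (nat_lit 76) (nat_lit 54740534762) (nat_lit 1) (nat_lit 4) (nat_lit 2) (nat_lit 5) (nat_lit 2) (nat_lit 4) (nat_lit 325) (nat_lit 235) (nat_lit 220))))) (XT.nd (nat_lit 234) (nat_lit 0) (nat_lit 0) (XT.nd (nat_lit 78) (nat_lit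 0) (nat_lit 0) (XT.lf (nat_lit 0) (nat_lit 77420112384) (nat_lit 76) (nat_lit 58870949826) (nat_lit 76) (nat_lit 56445742793) (nat_lit 1) (nat_lit 4) (nat_lit 2) (nat_lit 5) (nat_lit 2) (nat_lit 4) (nat_lit 326) (nat_lit 235) (nat_lit 219)) (XT.nd (nat_lit 78) (nat_lit 0) (nat_lit 0) (XT.lf (nat_lit 0) (nat_lit 88779129721) (nat_lit 76) (nat_lit 60869121438) (nat_lit 76) (nat_lit 58369862793) (nat_lit 1) (nat_lit 4) (nat_lit 2) (nat_lit 5) (nat_lit 2) (nat_lit 4) (nat_lit 327) (nat_lit 235) (nat_lit 218)) (XT.lf (nat_lit 0) (nat_lit 100909177611) (nat_lit 76) (nat_lit 63092121908) (nat_lit 76) (nat_lit 60524296955) (nat_lit 1) (nat_lit 4) (nat_lit 2) (nat_lit 5) (nat_lit 2) (nat_lit 4) (nat_lit 328) (nat_lit 235) (nat_lit 217)))) (XT.nd (nat_lit 78) (nat_lit 0) (nat_lit 0) (XT.lf (nat_lit 0) (nat_lit 113882137819) (nat_lit 76) (nat_lit 65553124572) (nat_lit 76) (nat_lit 62921812296) (nat_lit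 1) (nat_lit 4) (nat_lit 2) (nat_lit 5) (nat_lit 2) (nat_lit 4) (nat_lit 329) (nat_lit 235) (nat_lit 216)) (XT.nd (nat_lit 78) (nat_lit 0) (nat_lit 0) (XT.lf (nat_lit 0) (nat_lit 127774887146) (nat_lit 76) (nat_lit 68266713149) (nat_lit 76) (nat_lit 65576616315) (nat_lit 1) (nat_lit 4) (nat_lit 2) (nat_lit 5) (nat_lit 2) (nat_lit 4) (nat_lit 330) (nat_lit 235) (nat_lit 215)) (XT.lf (nat_lit 0) (nat_lit 142669752995) (nat_lit 76) (nat_lit 71248968163) (nat_lit 76) (nat_lit 68504441183) (nat_lit 1) (nat_lit 4) (nat_lit 2) (nat_lit 5) (nat_lit 2) (nat_lit 4) (nat_lit 331) (nat_lit 235) (nat_lit 214))))))))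
noncomputable def xc10 : XT := (XT.nd (nat_lit 38922) (nat_lit 0) (nat_lit 0) (XT.nd (nat_lit 780) (nat_lit 0) (nat_lit 0) (XT.nd (nat_lit 390) (nat_lit 0) (nat_lit 0) (XT.nd (nat_lit 156) (nat_lit 0) (nat_lit 0) (XT.nd (nat_lit 78) (nat_lit 0) (nat_lit 0) (XT.lf (nat_lit 0) (nat_lit 158655001239) (nat_lit 76) (nat_lit 74517562238) (nat_lit 76) (nat_lit 71722636974) (nat_lit 1) (nat_lit 4) (nat_lit 2) (nat_lit 5) (nat_lit 2) (nat_lit 4) (nat_lit 332) (nat_lit 235) (nat_lit 213)) (XT.lf (nat_lit 0) (nat_lit 175825359274) (nat_lit 76) (nat_lit 78091864819) (nat_lit 76) (nat_lit 75250274478) (nat_lit 1) (nat_lit 4) (nat_lit 2) (nat_lit 5) (nat_lit 2) (nat_lit 4) (nat_lit 333) (nat_lit 235) (nat_lit 212))) (XT.nd (nat_lit 78) (nat_lit 0) (nat_lit 0) (XT.lf (nat_lit 0) (nat_lit 194282577371) (nat_lit 76) (nat_lit 81993056959) (nat_lit 76) (nat_lit 79108258214) (nat_lit 1) (nat_lit 4) (nat_lit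 2) (nat_lit 5) (nat_lit 2) (nat_lit 4) (nat_lit 334) (nat_lit 235) (nat_lit 211)) (XT.nd (nat_lit 78) (nat_lit 0) (nat_lit 0) (XT.lf (nat_lit 0) (nat_lit 214136031635) (nat_lit 76) (nat_lit 86244256834) (nat_lit 76) (nat_lit 83319450306) (nat_lit 1) (nat_lit 4) (nat_lit 2) (nat_lit 5) (nat_lit 2) (nat_lit 4) (nat_lit 335) (nat_lit 235) (nat_lit 210)) (XT.lf (nat_lit 0) (nat_lit 235503372168) (nat_lit 76) (nat_lit 90870656738) (nat_lit 76) (nat_lit 87908805968) (nat_lit 1) (nat_lit 4) (nat_lit 2) (nat_lit 5) (nat_lit 2) (nat_lit 4) (nat_lit 336) (nat_lit 235) (nat_lit 209))))) (XT.nd (nat_lit 156) (nat_lit 0) (nat_lit 0) (XT.nd (nat_lit 78) (nat_lit 0) (nat_lit 0) (XT.lf (nat_lit 0) (nat_lit 258511220245) (nat_lit 76) (nat_lit 95899672376) (nat_lit 76) (nat_lit 92903521381) (nat_lit 1) (nat_lit 4) (nat_lit 2) (nat_lit 5) (nat_lit 2) (nat_lit 4) (nat_lit 337) (nat_lit 235) (nat_lit 208))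 (XT.lf (nat_lit 0) (nat_lit 283295918671) (nat_lit 76) (nat_lit 101361105322) (nat_lit 76) (nat_lit 98333194859) (nat_lit 1) (nat_lit 4) (nat_lit 2) (nat_lit 5) (nat_lit 2) (nat_lit 4) (nat_lit 338) (nat_lit 235) (nat_lit 207))) (XT.nd (nat_lit 78) (nat_lit 0) (nat_lit 0) (XT.lf (nat_lit 0) (nat_lit 310004339732) (nat_lit 76) (nat_lit 107287319622) (nat_lit 76) (nat_lit 104230002244) (nat_lit 1) (nat_lit 4) (nat_lit 2) (nat_lit 5) (nat_lit 2) (nat_lit 4) (nat_lit 339) (nat_lit 235) (nat_lit 206)) (XT.nd (nat_lit 78) (nat_lit 0) (nat_lit 0) (XT.lf (nat_lit 0) (nat_lit 338794755553) (nat_lit 76) (nat_lit 113713433583) (nat_lit 76) (nat_lit 110628887581) (nat_lit 1) (nat_lit 4) (nat_lit 2) (nat_lit 5) (nat_lit 2) (nat_lit 4) (nat_lit 340) (nat_lit 235) (nat_lit 205)) (XT.lf (nat_lit 0) (nat_lit 369837776006) (nat_lit 76) (nat_lit 120677527881) (nat_lit 76) (nat_lit 117567770190) (nat_lit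 1) (nat_lit 4) (nat_lit 2) (nat_lit 5) (nat_lit 2) (nat_lit 4) (nat_lit 341) (nat_lit 235) (nat_lit 204)))))) (XT.nd (nat_lit 390) (nat_lit 0) (nat_lit 0) (XT.nd (nat_lit 156) (nat_lit 0) (nat_lit 0) (XT.nd (nat_lit 78) (nat_lit 0) (nat_lit 0) (XT.lf (nat_lit 0) (nat_lit 403317359731) (nat_lit 76) (nat_lit 128220871223) (nat_lit 76) (nat_lit 125087769375) (nat_lit 1) (nat_lit 4) (nat_lit 2) (nat_lit 5) (nat_lit 2) (nat_lit 4) (nat_lit 342) (nat_lit 235) (nat_lit 203)) (XT.lf (nat_lit 0) (nat_lit 439431904260) (nat_lit 76) (nat_lit 136388164902) (nat_lit 76) (nat_lit 133233448095) (nat_lit 1) (nat_lit 4) (nat_lit 2) (nat_lit 5) (nat_lit 2) (nat_lit 4) (nat_lit 343) (nat_lit 235) (nat_lit 202))) (XT.nd (nat_lit 78) (nat_lit 0) (nat_lit 0) (XT.lf (nat_lit 0) (nat_lit 478395421709) (nat_lit 76) (nat_lit 145227807696) (nat_lit 76) (nat_lit 142053077037) (nat_lit 1) (nat_lit 4) (nat_lit 2) (nat_lit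 5) (nat_lit 2) (nat_lit 4) (nat_lit 344) (nat_lit 235) (nat_lit 201)) (XT.nd (nat_lit 78) (nat_lit 0) (nat_lit 0) (XT.lf (nat_lit 0) (nat_lit 520438806997) (nat_lit 76) (nat_lit 154792182674) (nat_lit 76) (nat_lit 151598920671) (nat_lit 1) (nat_lit 4) (nat_lit 2) (nat_lit 5) (nat_lit 2) (nat_lit 4) (nat_lit 345) (nat_lit 235) (nat_lit 200)) (XT.lf (nat_lit 0) (nat_lit 565811206110) (nat_lit 76) (nat_lit 165137967613) (nat_lit 76) (nat_lit 161927546957) (nat_lit 1) (nat_lit 4) (nat_lit 2) (nat_lit 5) (nat_lit 2) (nat_lit 4) (nat_lit 346) (nat_lit 235) (nat_lit 199))))) (XT.nd (nat_lit 234) (nat_lit 0) (nat_lit 0) (XT.nd (nat_lit 78) (nat_lit 0) (nat_lit 0) (XT.lf (nat_lit 0) (nat_lit 614781492525) (nat_lit 76) (nat_lit 176326470868) (nat_lit 76) (nat_lit 173100162571) (nat_lit 1) (nat_lit 4) (nat_lit 2) (nat_lit 5) (nat_lit 2) (nat_lit 4) (nat_lit 347) (nat_lit 235) (nat_lit 198)) (XT.nd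 (nat_lit 78) (nat_lit 0) (nat_lit 0) (XT.lf (nat_lit 0) (nat_lit 667639860531) (nat_lit 76) (nat_lit 188423994680) (nat_lit 76) (nat_lit 185182975605) (nat_lit 1) (nat_lit 4) (nat_lit 2) (nat_lit 5) (nat_lit 2) (nat_lit 4) (nat_lit 348) (nat_lit 235) (nat_lit 197)) (XT.lf (nat_lit 0) (nat_lit 724699544902) (nat_lit 76) (nat_lit 201502228080) (nat_lit 76) (nat_lit 198247587914) (nat_lit 1) (nat_lit 4) (nat_lit 2) (nat_lit 5) (nat_lit 2) (nat_lit 4) (nat_lit 349) (nat_lit 235) (nat_lit 196)))) (XT.nd (nat_lit 37362) (nat_lit 0) (nat_lit 76) (XT.lf (nat_lit 0) (nat_lit 786298677101) (nat_lit 76) (nat_lit 215638671711) (nat_lit 76) (nat_lit 212371419423) (nat_lit 1) (nat_lit 4) (nat_lit 2) (nat_lit 5) (nat_lit 2) (nat_lit 4) (nat_lit 350) (nat_lit 235) (nat_lit 195)) (XT.nd (nat_lit 78) (nat_lit 152) (nat_lit 0) (XT.lf (nat_lit 0) (nat_lit 22878136127) (nat_lit 76) (nat_lit 1111869504) (nat_lit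 76) (nat_lit 1111869504) (nat_lit 4) (nat_lit 4) (nat_lit 5) (nat_lit 5) (nat_lit 5) (nat_lit 4) (nat_lit 308) (nat_lit 236) (nat_lit 236)) (XT.lf (nat_lit 0) (nat_lit 2618044245) (nat_lit 152) (nat_lit 48995382980) (nat_lit 0) (nat_lit 2344051941) (nat_lit 2) (nat_lit 5) (nat_lit 4) (nat_lit 4) (nat_lit 2) (nat_lit 4) (nat_lit 309) (nat_lit 236) (nat_lit 235))))))) (XT.nd (nat_lit 780) (nat_lit 0) (nat_lit 0) (XT.nd (nat_lit 390) (nat_lit 76) (nat_lit 0) (XT.nd (nat_lit 156) (nat_lit 0) (nat_lit 0) (XT.nd (nat_lit 78) (nat_lit 0) (nat_lit 0) (XT.lf (nat_lit 0) (nat_lit 7625445928) (nat_lit 152) (nat_lit 43293793786) (nat_lit 0) (nat_lit 7097757046) (nat_lit 2) (nat_lit 5) (nat_lit 4) (nat_lit 4) (nat_lit 2) (nat_lit 4) (nat_lit 310) (nat_lit 236) (nat_lit 234)) (XT.lf (nat_lit 0) (nat_lit 12791684793) (nat_lit 152) (nat_lit 37592700342) (nat_lit 0) (nat_lit 12029091672) (nat_lit 2) (nat_lit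 5) (nat_lit 4) (nat_lit 4) (nat_lit 2) (nat_lit 4) (nat_lit 311) (nat_lit 236) (nat_lit 233))) (XT.nd (nat_lit 78) (nat_lit 0) (nat_lit 0) (XT.lf (nat_lit 0) (nat_lit 18147375590) (nat_lit 152) (nat_lit 31858318392) (nat_lit 0) (nat_lit 17167278543) (nat_lit 2) (nat_lit 5) (nat_lit 4) (nat_lit 4) (nat_lit 2) (nat_lit 4) (nat_lit 312) (nat_lit 236) (nat_lit 232)) (XT.nd (nat_lit 78) (nat_lit 0) (nat_lit 0) (XT.lf (nat_lit 0) (nat_lit 23724255744) (nat_lit 152) (nat_lit 26056666412) (nat_lit 0) (nat_lit 22542766173) (nat_lit 2) (nat_lit 5) (nat_lit 4) (nat_lit 4) (nat_lit 2) (nat_lit 4) (nat_lit 313) (nat_lit 236) (nat_lit 231)) (XT.lf (nat_lit 0) (nat_lit 29555373434) (nat_lit 152) (nat_lit 20153364242) (nat_lit 0) (nat_lit 28187409305) (nat_lit 2) (nat_lit 5) (nat_lit 4) (nat_lit 4) (nat_lit 2) (nat_lit 4) (nat_lit 314) (nat_lit 236) (nat_lit 230))))) (XT.nd (nat_lit 156) (nat_lit 76)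 (nat_lit 0) (XT.nd (nat_lit 78) (nat_lit 0) (nat_lit 0) (XT.lf (nat_lit 0) (nat_lit 35675283433) (nat_lit 152) (nat_lit 14113429351) (nat_lit 0) (nat_lit 34134657676) (nat_lit 2) (nat_lit 5) (nat_lit 4) (nat_lit 4) (nat_lit 2) (nat_lit 4) (nat_lit 315) (nat_lit 236) (nat_lit 229)) (XT.lf (nat_lit 0) (nat_lit 42120251873) (nat_lit 152) (nat_lit 7901069533) (nat_lit 0) (nat_lit 40419754238) (nat_lit 2) (nat_lit 5) (nat_lit 4) (nat_lit 4) (nat_lit 2) (nat_lit 4) (nat_lit 316) (nat_lit 236) (nat_lit 228))) (XT.nd (nat_lit 78) (nat_lit 76) (nat_lit 0) (XT.lf (nat_lit 0) (nat_lit 48928471160) (nat_lit 152) (nat_lit 1479470803) (nat_lit 0) (nat_lit 47079944008) (nat_lit 2) (nat_lit 5) (nat_lit 4) (nat_lit 4) (nat_lit 2) (nat_lit 4) (nat_lit 317) (nat_lit 236) (nat_lit 227)) (XT.nd (nat_lit 78) (nat_lit 0) (nat_lit 0) (XT.lf (nat_lit 0) (nat_lit 5361006442) (nat_lit 76) (nat_lit 50862980189) (nat_lit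 76) (nat_lit 48877388670) (nat_lit 1) (nat_lit 4) (nat_lit 2) (nat_lit 5) (nat_lit 2) (nat_lit 4) (nat_lit 318) (nat_lit 236) (nat_lit 226)) (XT.lf (nat_lit 0) (nat_lit 12546697169) (nat_lit 76) (nat_lit 51447625903) (nat_lit 76) (nat_lit 49335122932) (nat_lit 1) (nat_lit 4) (nat_lit 2) (nat_lit 5) (nat_lit 2) (nat_lit 4) (nat_lit 319) (nat_lit 236) (nat_lit 225)))))) (XT.nd (nat_lit 390) (nat_lit 0) (nat_lit 0) (XT.nd (nat_lit 156) (nat_lit 0) (nat_lit 0) (XT.nd (nat_lit 78) (nat_lit 0) (nat_lit 0) (XT.lf (nat_lit 0) (nat_lit 20071265260) (nat_lit 76) (nat_lit 52190399225) (nat_lit 76) (nat_lit 49960385652) (nat_lit 1) (nat_lit 4) (nat_lit 2) (nat_lit 5) (nat_lit 2) (nat_lit 4) (nat_lit 320) (nat_lit 236) (nat_lit 224)) (XT.lf (nat_lit 0) (nat_lit 27979300749) (nat_lit 76) (nat_lit 53095701776) (nat_lit 76) (nat_lit 50756882089) (nat_lit 1) (nat_lit 4) (nat_lit 2) (nat_lit 5) (nat_lit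 2) (nat_lit 4) (nat_lit 321) (nat_lit 236) (nat_lit 223))) (XT.nd (nat_lit 78) (nat_lit 0) (nat_lit 0) (XT.lf (nat_lit 0) (nat_lit 36317666068) (nat_lit 76) (nat_lit 54168898312) (nat_lit 76) (nat_lit 51729332223) (nat_lit 1) (nat_lit 4) (nat_lit 2) (nat_lit 5) (nat_lit 2) (nat_lit 4) (nat_lit 322) (nat_lit 236) (nat_lit 222)) (XT.nd (nat_lit 78) (nat_lit 0) (nat_lit 0) (XT.lf (nat_lit 0) (nat_lit 45135773753) (nat_lit 76) (nat_lit 55416348515) (nat_lit 76) (nat_lit 52883498720) (nat_lit 1) (nat_lit 4) (nat_lit 2) (nat_lit 5) (nat_lit 2) (nat_lit 4) (nat_lit 323) (nat_lit 236) (nat_lit 221)) (XT.lf (nat_lit 0) (nat_lit 54485879256) (nat_lit 76) (nat_lit 56845444683) (nat_lit 76) (nat_lit 54226221087) (nat_lit 1) (nat_lit 4) (nat_lit 2) (nat_lit 5) (nat_lit 2) (nat_lit 4) (nat_lit 324) (nat_lit 236) (nat_lit 220))))) (XT.nd (nat_lit 234) (nat_lit 0) (nat_lit 0) (XT.nd (nat_lit 78) (nat_lit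 0) (nat_lit 0) (XT.lf (nat_lit 0) (nat_lit 64423390611) (nat_lit 76) (nat_lit 58464655534) (nat_lit 76) (nat_lit 55765456197) (nat_lit 1) (nat_lit 4) (nat_lit 2) (nat_lit 5) (nat_lit 2) (nat_lit 4) (nat_lit 325) (nat_lit 236) (nat_lit 219)) (XT.nd (nat_lit 78) (nat_lit 0) (nat_lit 0) (XT.lf (nat_lit 0) (nat_lit 75007196773) (nat_lit 76) (nat_lit 60283576392) (nat_lit 76) (nat_lit 57510325442) (nat_lit 1) (nat_lit 4) (nat_lit 2) (nat_lit 5) (nat_lit 2) (nat_lit 4) (nat_lit 326) (nat_lit 236) (nat_lit 218)) (XT.lf (nat_lit 0) (nat_lit 86300016594) (nat_lit 76) (nat_lit 62312986048) (nat_lit 76) (nat_lit 59471168789) (nat_lit 1) (nat_lit 4) (nat_lit 2) (nat_lit 5) (nat_lit 2) (nat_lit 4) (nat_lit 327) (nat_lit 236) (nat_lit 217)))) (XT.nd (nat_lit 78) (nat_lit 0) (nat_lit 0) (XT.lf (nat_lit 0) (nat_lit 98368770487) (nat_lit 76) (nat_lit 64564910631) (nat_lit 76) (nat_lit 61659606051) (nat_lit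 1) (nat_lit 4) (nat_lit 2) (nat_lit 5) (nat_lit 2) (nat_lit 4) (nat_lit 328) (nat_lit 236) (nat_lit 216)) (XT.nd (nat_lit 78) (nat_lit 0) (nat_lit 0) (XT.lf (nat_lit 0) (nat_lit 111284976994) (nat_lit 76) (nat_lit 67052694881) (nat_lit 76) (nat_lit 64088605743) (nat_lit 1) (nat_lit 4) (nat_lit 2) (nat_lit 5) (nat_lit 2) (nat_lit 4) (nat_lit 329) (nat_lit 236) (nat_lit 215)) (XT.lf (nat_lit 0) (nat_lit 125125176598) (nat_lit 76) (nat_lit 69791081223) (nat_lit 76) (nat_lit 66772561939) (nat_lit 1) (nat_lit 4) (nat_lit 2) (nat_lit 5) (nat_lit 2) (nat_lit 4) (nat_lit 330) (nat_lit 236) (nat_lit 214))))))))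
noncomputable def xc11 : XT := (XT.nd (nat_lit 38766) (nat_lit 0) (nat_lit 0) (XT.nd (nat_lit 780) (nat_lit 0) (nat_lit 0) (XT.nd (nat_lit 390) (nat_lit 0) (nat_lit 0) (XT.nd (nat_lit 156) (nat_lit 0) (nat_lit 0) (XT.nd (nat_lit 78) (nat_lit 0) (nat_lit 0) (XT.lf (nat_lit 0) (nat_lit 139971385297) (nat_lit 76) (nat_lit 72796297131) (nat_lit 76) (nat_lit 69727379563) (nat_lit 1) (nat_lit 4) (nat_lit 2) (nat_lit 5) (nat_lit 2) (nat_lit 4) (nat_lit 331) (nat_lit 236) (nat_lit 213)) (XT.lf (nat_lit 0) (nat_lit 155911580623) (nat_lit 76) (nat_lit 76086151293) (nat_lit 76) (nat_lit 72970568648) (nat_lit 1) (nat_lit 4) (nat_lit 2) (nat_lit 5) (nat_lit 2) (nat_lit 4) (nat_lit 332) (nat_lit 236) (nat_lit 212))) (XT.nd (nat_lit 78) (nat_lit 0) (nat_lit 0) (XT.lf (nat_lit 0) (nat_lit 173040222994) (nat_lit 76) (nat_lit 79680139140) (nat_lit 76) (nat_lit 76521348090) (nat_lit 1) (nat_lit 4) (nat_lit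 2) (nat_lit 5) (nat_lit 2) (nat_lit 4) (nat_lit 333) (nat_lit 236) (nat_lit 211)) (XT.nd (nat_lit 78) (nat_lit 0) (nat_lit 0) (XT.lf (nat_lit 0) (nat_lit 191458815475) (nat_lit 76) (nat_lit 83599558378) (nat_lit 76) (nat_lit 80400759545) (nat_lit 1) (nat_lit 4) (nat_lit 2) (nat_lit 5) (nat_lit 2) (nat_lit 4) (nat_lit 334) (nat_lit 236) (nat_lit 210)) (XT.lf (nat_lit 0) (nat_lit 211276505282) (nat_lit 76) (nat_lit 87867635195) (nat_lit 76) (nat_lit 84631792119) (nat_lit 1) (nat_lit 4) (nat_lit 2) (nat_lit 5) (nat_lit 2) (nat_lit 4) (nat_lit 335) (nat_lit 236) (nat_lit 209))))) (XT.nd (nat_lit 156) (nat_lit 0) (nat_lit 0) (XT.nd (nat_lit 78) (nat_lit 0) (nat_lit 0) (XT.lf (nat_lit 0) (nat_lit 232610730575) (nat_lit 76) (nat_lit 92509661898) (nat_lit 76) (nat_lit 89239518598) (nat_lit 1) (nat_lit 4) (nat_lit 2) (nat_lit 5) (nat_lit 2) (nat_lit 4) (nat_lit 336) (nat_lit 236) (nat_lit 208))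 (XT.lf (nat_lit 0) (nat_lit 255587916394) (nat_lit 76) (nat_lit 97553146794) (nat_lit 76) (nat_lit 94251244026) (nat_lit 1) (nat_lit 4) (nat_lit 2) (nat_lit 5) (nat_lit 2) (nat_lit 4) (nat_lit 337) (nat_lit 236) (nat_lit 207))) (XT.nd (nat_lit 78) (nat_lit 0) (nat_lit 0) (XT.lf (nat_lit 0) (nat_lit 280344223839) (nat_lit 76) (nat_lit 103027977200) (nat_lit 76) (nat_lit 99696667518) (nat_lit 1) (nat_lit 4) (nat_lit 2) (nat_lit 5) (nat_lit 2) (nat_lit 4) (nat_lit 338) (nat_lit 236) (nat_lit 206)) (XT.nd (nat_lit 78) (nat_lit 0) (nat_lit 0) (XT.lf (nat_lit 0) (nat_lit 307026356956) (nat_lit 76) (nat_lit 108966596556) (nat_lit 76) (nat_lit 105608058250) (nat_lit 1) (nat_lit 4) (nat_lit 2) (nat_lit 5) (nat_lit 2) (nat_lit 4) (nat_lit 339) (nat_lit 236) (nat_lit 205)) (XT.lf (nat_lit 0) (nat_lit 335792432088) (nat_lit 76) (nat_lit 115404196681) (nat_lit 76) (nat_lit 112020446686) (nat_lit 1)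 (nat_lit 4) (nat_lit 2) (nat_lit 5) (nat_lit 2) (nat_lit 4) (nat_lit 340) (nat_lit 236) (nat_lit 204)))))) (XT.nd (nat_lit 390) (nat_lit 0) (nat_lit 0) (XT.nd (nat_lit 156) (nat_lit 0) (nat_lit 0) (XT.nd (nat_lit 78) (nat_lit 0) (nat_lit 0) (XT.lf (nat_lit 0) (nat_lit 366812914865) (nat_lit 76) (nat_lit 122378926316) (nat_lit 76) (nat_lit 118971832164) (nat_lit 1) (nat_lit 4) (nat_lit 2) (nat_lit 5) (nat_lit 2) (nat_lit 4) (nat_lit 341) (nat_lit 236) (nat_lit 203)) (XT.lf (nat_lit 0) (nat_lit 400271630372) (nat_lit 76) (nat_lit 129932117191) (nat_lit 76) (nat_lit 126503408079) (nat_lit 1) (nat_lit 4) (nat_lit 2) (nat_lit 5) (nat_lit 2) (nat_lit 4) (nat_lit 342) (nat_lit 236) (nat_lit 202))) (XT.nd (nat_lit 78) (nat_lit 0) (nat_lit 0) (XT.lf (nat_lit 0) (nat_lit 436366852477) (nat_lit 76) (nat_lit 138108528957) (nat_lit 76) (nat_lit 134659805994) (nat_lit 1) (nat_lit 4) (nat_lit 2) (nat_lit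 5) (nat_lit 2) (nat_lit 4) (nat_lit 343) (nat_lit 236) (nat_lit 201)) (XT.nd (nat_lit 78) (nat_lit 0) (nat_lit 0) (XT.lf (nat_lit 0) (nat_lit 475312478792) (nat_lit 76) (nat_lit 146956614425) (nat_lit 76) (nat_lit 143489360117) (nat_lit 1) (nat_lit 4) (nat_lit 2) (nat_lit 5) (nat_lit 2) (nat_lit 4) (nat_lit 344) (nat_lit 236) (nat_lit 200)) (XT.lf (nat_lit 0) (nat_lit 517339298216) (nat_lit 76) (nat_lit 156528806692) (nat_lit 76) (nat_lit 153044393732) (nat_lit 1) (nat_lit 4) (nat_lit 2) (nat_lit 5) (nat_lit 2) (nat_lit 4) (nat_lit 345) (nat_lit 236) (nat_lit 199))))) (XT.nd (nat_lit 234) (nat_lit 0) (nat_lit 0) (XT.nd (nat_lit 78) (nat_lit 0) (nat_lit 0) (XT.lf (nat_lit 0) (nat_lit 562696358566) (nat_lit 76) (nat_lit 166881829862) (nat_lit 76) (nat_lit 163381529261) (nat_lit 1) (nat_lit 4) (nat_lit 2) (nat_lit 5) (nat_lit 2) (nat_lit 4) (nat_lit 346) (nat_lit 236) (nat_lit 198)) (XT.nd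 (nat_lit 78) (nat_lit 0) (nat_lit 0) (XT.lf (nat_lit 0) (nat_lit 611652442422) (nat_lit 76) (nat_lit 178077035183) (nat_lit 76) (nat_lit 174562023804) (nat_lit 1) (nat_lit 4) (nat_lit 2) (nat_lit 5) (nat_lit 2) (nat_lit 4) (nat_lit 347) (nat_lit 236) (nat_lit 197)) (XT.lf (nat_lit 0) (nat_lit 664497659912) (nat_lit 76) (nat_lit 190180764612) (nat_lit 76) (nat_lit 186652132142) (nat_lit 1) (nat_lit 4) (nat_lit 2) (nat_lit 5) (nat_lit 2) (nat_lit 4) (nat_lit 348) (nat_lit 236) (nat_lit 196)))) (XT.nd (nat_lit 78) (nat_lit 0) (nat_lit 0) (XT.lf (nat_lit 0) (nat_lit 721545167878) (nat_lit 76) (nat_lit 203264743954) (nat_lit 76) (nat_lit 199723499362) (nat_lit 1) (nat_lit 4) (nat_lit 2) (nat_lit 5) (nat_lit 2) (nat_lit 4) (nat_lit 349) (nat_lit 236) (nat_lit 195)) (XT.nd (nat_lit 37206) (nat_lit 0) (nat_lit 228) (XT.lf (nat_lit 0) (nat_lit 783133025628) (nat_lit 76) (nat_lit 217406507900) (nat_lit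 76) (nat_lit 213853585418) (nat_lit 1) (nat_lit 4) (nat_lit 2) (nat_lit 5) (nat_lit 2) (nat_lit 4) (nat_lit 350) (nat_lit 236) (nat_lit 194)) (XT.lf (nat_lit 0) (nat_lit 10643546542) (nat_lit 76) (nat_lit 5559801184) (nat_lit 76) (nat_lit 5559801184) (nat_lit 4) (nat_lit 4) (nat_lit 5) (nat_lit 5) (nat_lit 5) (nat_lit 4) (nat_lit 306) (nat_lit 237) (nat_lit 237))))))) (XT.nd (nat_lit 858) (nat_lit 76) (nat_lit 0) (XT.nd (nat_lit 390) (nat_lit 0) (nat_lit 0) (XT.nd (nat_lit 156) (nat_lit 152) (nat_lit 0) (XT.nd (nat_lit 78) (nat_lit 0) (nat_lit 0) (XT.lf (nat_lit 0) (nat_lit 33175087291) (nat_lit 76) (nat_lit 6934441332) (nat_lit 76) (nat_lit 6623734059) (nat_lit 4) (nat_lit 4) (nat_lit 5) (nat_lit 5) (nat_lit 5) (nat_lit 4) (nat_lit 307) (nat_lit 237) (nat_lit 236)) (XT.lf (nat_lit 0) (nat_lit 45517523386) (nat_lit 76) (nat_lit 2645537828) (nat_lit 76) (nat_lit 2047138635) (nat_lit 4)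 (nat_lit 4) (nat_lit 5) (nat_lit 5) (nat_lit 5) (nat_lit 4) (nat_lit 308) (nat_lit 237) (nat_lit 235))) (XT.nd (nat_lit 78) (nat_lit 0) (nat_lit 0) (XT.lf (nat_lit 0) (nat_lit 2652860585) (nat_lit 152) (nat_lit 49488535697) (nat_lit 0) (nat_lit 1829260014) (nat_lit 2) (nat_lit 5) (nat_lit 4) (nat_lit 4) (nat_lit 2) (nat_lit 4) (nat_lit 309) (nat_lit 237) (nat_lit 234)) (XT.nd (nat_lit 78) (nat_lit 0) (nat_lit 0) (XT.lf (nat_lit 0) (nat_lit 7544033926) (nat_lit 152) (nat_lit 44006476737) (nat_lit 0) (nat_lit 6485529115) (nat_lit 2) (nat_lit 5) (nat_lit 4) (nat_lit 4) (nat_lit 2) (nat_lit 4) (nat_lit 310) (nat_lit 237) (nat_lit 233)) (XT.lf (nat_lit 0) (nat_lit 12602653955) (nat_lit 152) (nat_lit 38508652028) (nat_lit 0) (nat_lit 11326645220) (nat_lit 2) (nat_lit 5) (nat_lit 4) (nat_lit 4) (nat_lit 2) (nat_lit 4) (nat_lit 311) (nat_lit 237) (nat_lit 232))))) (XT.nd (nat_lit 234) (nat_lit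 0) (nat_lit 0) (XT.nd (nat_lit 78) (nat_lit 0) (nat_lit 0) (XT.lf (nat_lit 0) (nat_lit 17858697681) (nat_lit 152) (nat_lit 32962481869) (nat_lit 0) (nat_lit 16381296422) (nat_lit 2) (nat_lit 5) (nat_lit 4) (nat_lit 4) (nat_lit 2) (nat_lit 4) (nat_lit 312) (nat_lit 237) (nat_lit 231)) (XT.nd (nat_lit 78) (nat_lit 0) (nat_lit 0) (XT.lf (nat_lit 0) (nat_lit 23343312030) (nat_lit 152) (nat_lit 27335100066) (nat_lit 0) (nat_lit 21679436212) (nat_lit 2) (nat_lit 5) (nat_lit 4) (nat_lit 4) (nat_lit 2) (nat_lit 4) (nat_lit 313) (nat_lit 237) (nat_lit 230)) (XT.lf (nat_lit 0) (nat_lit 29088998419) (nat_lit 152) (nat_lit 21593159172) (nat_lit 0) (nat_lit 27252460973) (nat_lit 2) (nat_lit 5) (nat_lit 4) (nat_lit 4) (nat_lit 2) (nat_lit 4) (nat_lit 314) (nat_lit 237) (nat_lit 229)))) (XT.nd (nat_lit 78) (nat_lit 0) (nat_lit 0) (XT.lf (nat_lit 0) (nat_lit 35129805360) (nat_lit 152) (nat_lit 15702632869)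 (nat_lit 0) (nat_lit 33133396037) (nat_lit 2) (nat_lit 5) (nat_lit 4) (nat_lit 4) (nat_lit 2) (nat_lit 4) (nat_lit 315) (nat_lit 237) (nat_lit 228)) (XT.nd (nat_lit 78) (nat_lit 0) (nat_lit 0) (XT.lf (nat_lit 0) (nat_lit 41501530229) (nat_lit 152) (nat_lit 9628614337) (nat_lit 0) (nat_lit 39357091389) (nat_lit 2) (nat_lit 5) (nat_lit 4) (nat_lit 4) (nat_lit 2) (nat_lit 4) (nat_lit 316) (nat_lit 237) (nat_lit 227)) (XT.lf (nat_lit 0) (nat_lit 48241931395) (nat_lit 152) (nat_lit 3335109389) (nat_lit 0) (nat_lit 45960428187) (nat_lit 2) (nat_lit 5) (nat_lit 4) (nat_lit 4) (nat_lit 2) (nat_lit 4) (nat_lit 317) (nat_lit 237) (nat_lit 226)))))) (XT.nd (nat_lit 390) (nat_lit 0) (nat_lit 0) (XT.nd (nat_lit 156) (nat_lit 0) (nat_lit 0) (XT.nd (nat_lit 78) (nat_lit 0) (nat_lit 0) (XT.lf (nat_lit 0) (nat_lit 3321485081) (nat_lit 76) (nat_lit 52121324584) (nat_lit 76) (nat_lit 49712909925) (nat_lit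 1) (nat_lit 4) (nat_lit 2) (nat_lit 5) (nat_lit 2) (nat_lit 4) (nat_lit 318) (nat_lit 237) (nat_lit 225)) (XT.lf (nat_lit 0) (nat_lit 10393724897) (nat_lit 76) (nat_lit 52759506813) (nat_lit 76) (nat_lit 50233581551) (nat_lit 1) (nat_lit 4) (nat_lit 2) (nat_lit 5) (nat_lit 2) (nat_lit 4) (nat_lit 319) (nat_lit 237) (nat_lit 224))) (XT.nd (nat_lit 78) (nat_lit 0) (nat_lit 0) (XT.lf (nat_lit 0) (nat_lit 17813245849) (nat_lit 76) (nat_lit 53551850983) (nat_lit 76) (nat_lit 50917119607) (nat_lit 1) (nat_lit 4) (nat_lit 2) (nat_lit 5) (nat_lit 2) (nat_lit 4) (nat_lit 320) (nat_lit 237) (nat_lit 223)) (XT.nd (nat_lit 78) (nat_lit 0) (nat_lit 0) (XT.lf (nat_lit 0) (nat_lit 25624015468) (nat_lit 76) (nat_lit 54503052467) (nat_lit 76) (nat_lit 51767574689) (nat_lit 1) (nat_lit 4) (nat_lit 2) (nat_lit 5) (nat_lit 2) (nat_lit 4) (nat_lit 321) (nat_lit 237) (nat_lit 222)) (XT.lf (nat_lit 0) (nat_lit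 33872319797) (nat_lit 76) (nat_lit 55618748014) (nat_lit 76) (nat_lit 52789986531) (nat_lit 1) (nat_lit 4) (nat_lit 2) (nat_lit 5) (nat_lit 2) (nat_lit 4) (nat_lit 322) (nat_lit 237) (nat_lit 221))))) (XT.nd (nat_lit 234) (nat_lit 0) (nat_lit 0) (XT.nd (nat_lit 78) (nat_lit 0) (nat_lit 0) (XT.lf (nat_lit 0) (nat_lit 42607037676) (nat_lit 76) (nat_lit 56905549154) (nat_lit 76) (nat_lit 53990413870) (nat_lit 1) (nat_lit 4) (nat_lit 2) (nat_lit 5) (nat_lit 2) (nat_lit 4) (nat_lit 323) (nat_lit 237) (nat_lit 220)) (XT.nd (nat_lit 78) (nat_lit 0) (nat_lit 0) (XT.lf (nat_lit 0) (nat_lit 51879930397) (nat_lit 76) (nat_lit 58371081375) (nat_lit 76) (nat_lit 55375970349) (nat_lit 1) (nat_lit 4) (nat_lit 2) (nat_lit 5) (nat_lit 2) (nat_lit 4) (nat_lit 324) (nat_lit 237) (nat_lit 219)) (XT.lf (nat_lit 0) (nat_lit 61745948434) (nat_lit 76) (nat_lit 60024029312) (nat_lit 76) (nat_lit 56954866674) (nat_lit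 1) (nat_lit 4) (nat_lit 2) (nat_lit 5) (nat_lit 2) (nat_lit 4) (nat_lit 325) (nat_lit 237) (nat_lit 218)))) (XT.nd (nat_lit 78) (nat_lit 0) (nat_lit 0) (XT.lf (nat_lit 0) (nat_lit 72263557079) (nat_lit 76) (nat_lit 61874188213) (nat_lit 76) (nat_lit 58736459266) (nat_lit 1) (nat_lit 4) (nat_lit 2) (nat_lit 5) (nat_lit 2) (nat_lit 4) (nat_lit 326) (nat_lit 237) (nat_lit 217)) (XT.nd (nat_lit 78) (nat_lit 0) (nat_lit 0) (XT.lf (nat_lit 0) (nat_lit 83495082903) (nat_lit 76) (nat_lit 63932521982) (nat_lit 76) (nat_lit 60731305712) (nat_lit 1) (nat_lit 4) (nat_lit 2) (nat_lit 5) (nat_lit 2) (nat_lit 4) (nat_lit 327) (nat_lit 237) (nat_lit 216)) (XT.lf (nat_lit 0) (nat_lit 95507083095) (nat_lit 76) (nat_lit 66211228152) (nat_lit 76) (nat_lit 62951227324) (nat_lit 1) (nat_lit 4) (nat_lit 2) (nat_lit 5) (nat_lit 2) (nat_lit 4) (nat_lit 328) (nat_lit 237) (nat_lit 215))))))))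
noncomputable def xc12 : XT := (XT.nd (nat_lit 1638) (nat_lit 0) (nat_lit 0) (XT.nd (nat_lit 780) (nat_lit 0) (nat_lit 0) (XT.nd (nat_lit 390) (nat_lit 0) (nat_lit 0) (XT.nd (nat_lit 156) (nat_lit 0) (nat_lit 0) (XT.nd (nat_lit 78) (nat_lit 0) (nat_lit 0) (XT.lf (nat_lit 0) (nat_lit 108370739880) (nat_lit 76) (nat_lit 68723810167) (nat_lit 76) (nat_lit 65409379194) (nat_lit 1) (nat_lit 4) (nat_lit 2) (nat_lit 5) (nat_lit 2) (nat_lit 4) (nat_lit 329) (nat_lit 237) (nat_lit 214)) (XT.lf (nat_lit 0) (nat_lit 122162282333) (nat_lit 76) (nat_lit 71485157403) (nat_lit 76) (nat_lit 68120328146) (nat_lit 1) (nat_lit 4) (nat_lit 2) (nat_lit 5) (nat_lit 2) (nat_lit 4) (nat_lit 330) (nat_lit 237) (nat_lit 213))) (XT.nd (nat_lit 78) (nat_lit 0) (nat_lit 0) (XT.lf (nat_lit 0) (nat_lit 136963438114) (nat_lit 76) (nat_lit 74511633398) (nat_lit 76) (nat_lit 71100139064) (nat_lit 1) (nat_lit 4) (nat_lit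 2) (nat_lit 5) (nat_lit 2) (nat_lit 4) (nat_lit 331) (nat_lit 237) (nat_lit 212)) (XT.nd (nat_lit 78) (nat_lit 0) (nat_lit 0) (XT.lf (nat_lit 0) (nat_lit 152861917776) (nat_lit 76) (nat_lit 77821172825) (nat_lit 76) (nat_lit 74366470086) (nat_lit 1) (nat_lit 4) (nat_lit 2) (nat_lit 5) (nat_lit 2) (nat_lit 4) (nat_lit 332) (nat_lit 237) (nat_lit 211)) (XT.lf (nat_lit 0) (nat_lit 169951934532) (nat_lit 76) (nat_lit 81433387769) (nat_lit 76) (nat_lit 77938677248) (nat_lit 1) (nat_lit 4) (nat_lit 2) (nat_lit 5) (nat_lit 2) (nat_lit 4) (nat_lit 333) (nat_lit 237) (nat_lit 210))))) (XT.nd (nat_lit 156) (nat_lit 0) (nat_lit 0) (XT.nd (nat_lit 78) (nat_lit 0) (nat_lit 0) (XT.lf (nat_lit 0) (nat_lit 188334762555) (nat_lit 76) (nat_lit 85369683950) (nat_lit 76) (nat_lit 81837929186) (nat_lit 1) (nat_lit 4) (nat_lit 2) (nat_lit 5) (nat_lit 2) (nat_lit 4) (nat_lit 334) (nat_lit 237) (nat_lit 209))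 (XT.lf (nat_lit 0) (nat_lit 208119337122) (nat_lit 76) (nat_lit 89653387565) (nat_lit 76) (nat_lit 86087332576) (nat_lit 1) (nat_lit 4) (nat_lit 2) (nat_lit 5) (nat_lit 2) (nat_lit 4) (nat_lit 335) (nat_lit 237) (nat_lit 208))) (XT.nd (nat_lit 78) (nat_lit 0) (nat_lit 0) (XT.lf (nat_lit 0) (nat_lit 229422900157) (nat_lit 76) (nat_lit 94309883526) (nat_lit 76) (nat_lit 90712069070) (nat_lit 1) (nat_lit 4) (nat_lit 2) (nat_lit 5) (nat_lit 2) (nat_lit 4) (nat_lit 336) (nat_lit 237) (nat_lit 207)) (XT.nd (nat_lit 78) (nat_lit 0) (nat_lit 0) (XT.lf (nat_lit 0) (nat_lit 252371694996) (nat_lit 76) (nat_lit 99366765883) (nat_lit 76) (nat_lit 95739544513) (nat_lit 1) (nat_lit 4) (nat_lit 2) (nat_lit 5) (nat_lit 2) (nat_lit 4) (nat_lit 337) (nat_lit 237) (nat_lit 206)) (XT.lf (nat_lit 0) (nat_lit 277101714497) (nat_lit 76) (nat_lit 104854001346) (nat_lit 76) (nat_lit 101199551351) (nat_lit 1) (nat_lit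 4) (nat_lit 2) (nat_lit 5) (nat_lit 2) (nat_lit 4) (nat_lit 338) (nat_lit 237) (nat_lit 205)))))) (XT.nd (nat_lit 390) (nat_lit 0) (nat_lit 0) (XT.nd (nat_lit 156) (nat_lit 0) (nat_lit 0) (XT.nd (nat_lit 78) (nat_lit 0) (nat_lit 0) (XT.lf (nat_lit 0) (nat_lit 303759506924) (nat_lit 76) (nat_lit 110804106866) (nat_lit 76) (nat_lit 107124445182) (nat_lit 1) (nat_lit 4) (nat_lit 2) (nat_lit 5) (nat_lit 2) (nat_lit 4) (nat_lit 339) (nat_lit 237) (nat_lit 204)) (XT.lf (nat_lit 0) (nat_lit 332503044380) (nat_lit 76) (nat_lit 117252342327) (nat_lit 76) (nat_lit 113549336486) (nat_lit 1) (nat_lit 4) (nat_lit 2) (nat_lit 5) (nat_lit 2) (nat_lit 4) (nat_lit 340) (nat_lit 237) (nat_lit 203))) (XT.nd (nat_lit 78) (nat_lit 0) (nat_lit 0) (XT.lf (nat_lit 0) (nat_lit 363502658940) (nat_lit 76) (nat_lit 124236919495) (nat_lit 76) (nat_lit 120512298694) (nat_lit 1) (nat_lit 4) (nat_lit 2) (nat_lit 5) (nat_lit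 2) (nat_lit 4) (nat_lit 341) (nat_lit 237) (nat_lit 202)) (XT.nd (nat_lit 78) (nat_lit 0) (nat_lit 0) (XT.lf (nat_lit 0) (nat_lit 396942052022) (nat_lit 76) (nat_lit 131799228457) (nat_lit 76) (nat_lit 128054593805) (nat_lit 1) (nat_lit 4) (nat_lit 2) (nat_lit 5) (nat_lit 2) (nat_lit 4) (nat_lit 342) (nat_lit 237) (nat_lit 201)) (XT.lf (nat_lit 0) (nat_lit 433019382994) (nat_lit 76) (nat_lit 139984082897) (nat_lit 76) (nat_lit 136220916900) (nat_lit 1) (nat_lit 4) (nat_lit 2) (nat_lit 5) (nat_lit 2) (nat_lit 4) (nat_lit 343) (nat_lit 237) (nat_lit 200))))) (XT.nd (nat_lit 234) (nat_lit 0) (nat_lit 0) (XT.nd (nat_lit 78) (nat_lit 0) (nat_lit 0) (XT.lf (nat_lit 0) (nat_lit 471948443445) (nat_lit 76) (nat_lit 148839985654) (nat_lit 76) (nat_lit 145059661005) (nat_lit 1) (nat_lit 4) (nat_lit 2) (nat_lit 5) (nat_lit 2) (nat_lit 4) (nat_lit 344) (nat_lit 237) (nat_lit 199)) (XT.nd (nat_lit 78)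 (nat_lit 0) (nat_lit 0) (XT.lf (nat_lit 0) (nat_lit 513959924106) (nat_lit 76) (nat_lit 158419416152) (nat_lit 76) (nat_lit 154623203863) (nat_lit 1) (nat_lit 4) (nat_lit 2) (nat_lit 5) (nat_lit 2) (nat_lit 4) (nat_lit 345) (nat_lit 237) (nat_lit 198)) (XT.lf (nat_lit 0) (nat_lit 559302781897) (nat_lit 76) (nat_lit 168779141388) (nat_lit 76) (nat_lit 164968218320) (nat_lit 1) (nat_lit 4) (nat_lit 2) (nat_lit 5) (nat_lit 2) (nat_lit 4) (nat_lit 346) (nat_lit 237) (nat_lit 197)))) (XT.nd (nat_lit 78) (nat_lit 0) (nat_lit 0) (XT.lf (nat_lit 0) (nat_lit 608245715236) (nat_lit 76) (nat_lit 179980552326) (nat_lit 76) (nat_lit 176156008167) (nat_lit 1) (nat_lit 4) (nat_lit 2) (nat_lit 5) (nat_lit 2) (nat_lit 4) (nat_lit 347) (nat_lit 237) (nat_lit 196)) (XT.nd (nat_lit 78) (nat_lit 0) (nat_lit 0) (XT.lf (nat_lit 0) (nat_lit 661078756321) (nat_lit 76) (nat_lit 192090027696) (nat_lit 76) (nat_lit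 188252871416) (nat_lit 1) (nat_lit 4) (nat_lit 2) (nat_lit 5) (nat_lit 2) (nat_lit 4) (nat_lit 348) (nat_lit 237) (nat_lit 195)) (XT.lf (nat_lit 0) (nat_lit 718114989839) (nat_lit 76) (nat_lit 205179327354) (nat_lit 76) (nat_lit 201330493183) (nat_lit 1) (nat_lit 4) (nat_lit 2) (nat_lit 5) (nat_lit 2) (nat_lit 4) (nat_lit 349) (nat_lit 237) (nat_lit 194))))))) (XT.nd (nat_lit 37752) (nat_lit 0) (nat_lit 0) (XT.nd (nat_lit 37362) (nat_lit 0) (nat_lit 76) (XT.nd (nat_lit 37128) (nat_lit 0) (nat_lit 228) (XT.nd (nat_lit 37050) (nat_lit 0) (nat_lit 304) (XT.lf (nat_lit 0) (nat_lit 779692408284) (nat_lit 76) (nat_lit 219326017519) (nat_lit 76) (nat_lit 215466370487) (nat_lit 1) (nat_lit 4) (nat_lit 2) (nat_lit 5) (nat_lit 2) (nat_lit 4) (nat_lit 350) (nat_lit 237) (nat_lit 193)) (XT.lf (nat_lit 0) (nat_lit 9187201139) (nat_lit 152) (nat_lit 545274245) (nat_lit 0) (nat_lit 9187201139) (nat_lit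 5) (nat_lit 5) (nat_lit 7) (nat_lit 4) (nat_lit 5) (nat_lit 4) (nat_lit 304) (nat_lit 238) (nat_lit 238))) (XT.nd (nat_lit 78) (nat_lit 0) (nat_lit 0) (XT.lf (nat_lit 0) (nat_lit 9783093394) (nat_lit 76) (nat_lit 15561385750) (nat_lit 76) (nat_lit 15225821895) (nat_lit 4) (nat_lit 4) (nat_lit 5) (nat_lit 5) (nat_lit 5) (nat_lit 4) (nat_lit 305) (nat_lit 238) (nat_lit 237)) (XT.nd (nat_lit 78) (nat_lit 0) (nat_lit 0) (XT.lf (nat_lit 0) (nat_lit 21029244306) (nat_lit 76) (nat_lit 11575145095) (nat_lit 76) (nat_lit 10928873966) (nat_lit 4) (nat_lit 4) (nat_lit 5) (nat_lit 5) (nat_lit 5) (nat_lit 4) (nat_lit 306) (nat_lit 238) (nat_lit 236)) (XT.lf (nat_lit 0) (nat_lit 32678489643) (nat_lit 76) (nat_lit 7501075604) (nat_lit 76) (nat_lit 6567112555) (nat_lit 4) (nat_lit 4) (nat_lit 5) (nat_lit 5) (nat_lit 5) (nat_lit 4) (nat_lit 307) (nat_lit 238) (nat_lit 235))))) (XT.nd (nat_lit 156) (nat_lit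 0) (nat_lit 0) (XT.nd (nat_lit 78) (nat_lit 152) (nat_lit 0) (XT.lf (nat_lit 0) (nat_lit 44799861971) (nat_lit 76) (nat_lit 3315034643) (nat_lit 76) (nat_lit 2114690188) (nat_lit 4) (nat_lit 4) (nat_lit 5) (nat_lit 5) (nat_lit 5) (nat_lit 4) (nat_lit 308) (nat_lit 238) (nat_lit 234)) (XT.lf (nat_lit 0) (nat_lit 2448707280) (nat_lit 152) (nat_lit 50477763517) (nat_lit 0) (nat_lit 1070617846) (nat_lit 2) (nat_lit 5) (nat_lit 4) (nat_lit 4) (nat_lit 2) (nat_lit 4) (nat_lit 309) (nat_lit 238) (nat_lit 233))) (XT.nd (nat_lit 78) (nat_lit 0) (nat_lit 0) (XT.lf (nat_lit 0) (nat_lit 7232261785) (nat_lit 152) (nat_lit 45198973292) (nat_lit 0) (nat_lit 5636668425) (nat_lit 2) (nat_lit 5) (nat_lit 4) (nat_lit 4) (nat_lit 2) (nat_lit 4) (nat_lit 310) (nat_lit 238) (nat_lit 232)) (XT.nd (nat_lit 78) (nat_lit 0) (nat_lit 0) (XT.lf (nat_lit 0) (nat_lit 12191234744) (nat_lit 152) (nat_lit 39889360374)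 (nat_lit 0) (nat_lit 10394248861) (nat_lit 2) (nat_lit 5) (nat_lit 4) (nat_lit 4) (nat_lit 2) (nat_lit 4) (nat_lit 311) (nat_lit 238) (nat_lit 231)) (XT.lf (nat_lit 0) (nat_lit 17355012665) (nat_lit 152) (nat_lit 34517460393) (nat_lit 0) (nat_lit 15371552223) (nat_lit 2) (nat_lit 5) (nat_lit 4) (nat_lit 4) (nat_lit 2) (nat_lit 4) (nat_lit 312) (nat_lit 238) (nat_lit 230)))))) (XT.nd (nat_lit 390) (nat_lit 76) (nat_lit 0) (XT.nd (nat_lit 156) (nat_lit 0) (nat_lit 0) (XT.nd (nat_lit 78) (nat_lit 0) (nat_lit 0) (XT.lf (nat_lit 0) (nat_lit 22754195712) (nat_lit 152) (nat_lit 29051439865) (nat_lit 0) (nat_lit 20598073642) (nat_lit 2) (nat_lit 5) (nat_lit 4) (nat_lit 4) (nat_lit 2) (nat_lit 4) (nat_lit 313) (nat_lit 238) (nat_lit 229)) (XT.lf (nat_lit 0) (nat_lit 28420779044) (nat_lit 152) (nat_lit 23458907559) (nat_lit 0) (nat_lit 26104785096) (nat_lit 2) (nat_lit 5) (nat_lit 4) (nat_lit 4)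 (nat_lit 2) (nat_lit 4) (nat_lit 314) (nat_lit 238) (nat_lit 228))) (XT.nd (nat_lit 78) (nat_lit 0) (nat_lit 0) (XT.lf (nat_lit 0) (nat_lit 34388342414) (nat_lit 152) (nat_lit 17706722542) (nat_lit 0) (nat_lit 31924318950) (nat_lit 2) (nat_lit 5) (nat_lit 4) (nat_lit 4) (nat_lit 2) (nat_lit 4) (nat_lit 315) (nat_lit 238) (nat_lit 227)) (XT.nd (nat_lit 78) (nat_lit 0) (nat_lit 0) (XT.lf (nat_lit 0) (nat_lit 40692249161) (nat_lit 152) (nat_lit 11760797792) (nat_lit 0) (nat_lit 38091161330) (nat_lit 2) (nat_lit 5) (nat_lit 4) (nat_lit 4) (nat_lit 2) (nat_lit 4) (nat_lit 316) (nat_lit 238) (nat_lit 226)) (XT.lf (nat_lit 0) (nat_lit 47369855770) (nat_lit 152) (nat_lit 5585898200) (nat_lit 0) (nat_lit 44641856487) (nat_lit 2) (nat_lit 5) (nat_lit 4) (nat_lit 4) (nat_lit 2) (nat_lit 4) (nat_lit 317) (nat_lit 238) (nat_lit 225))))) (XT.nd (nat_lit 234) (nat_lit 0) (nat_lit 0) (XT.nd (nat_lit 78)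 (nat_lit 0) (nat_lit 0) (XT.lf (nat_lit 0) (nat_lit 882824117) (nat_lit 76) (nat_lit 53591692483) (nat_lit 76) (nat_lit 50746182597) (nat_lit 1) (nat_lit 4) (nat_lit 2) (nat_lit 5) (nat_lit 2) (nat_lit 4) (nat_lit 318) (nat_lit 238) (nat_lit 224)) (XT.nd (nat_lit 78) (nat_lit 0) (nat_lit 0) (XT.lf (nat_lit 0) (nat_lit 7850016794) (nat_lit 76) (nat_lit 54279445559) (nat_lit 76) (nat_lit 51325129559) (nat_lit 1) (nat_lit 4) (nat_lit 2) (nat_lit 5) (nat_lit 2) (nat_lit 4) (nat_lit 319) (nat_lit 238) (nat_lit 223)) (XT.lf (nat_lit 0) (nat_lit 15172271877) (nat_lit 76) (nat_lit 55117688662) (nat_lit 76) (nat_lit 52062626260) (nat_lit 1) (nat_lit 4) (nat_lit 2) (nat_lit 5) (nat_lit 2) (nat_lit 4) (nat_lit 320) (nat_lit 238) (nat_lit 222)))) (XT.nd (nat_lit 78) (nat_lit 0) (nat_lit 0) (XT.lf (nat_lit 0) (nat_lit 22892980506) (nat_lit 76) (nat_lit 56111389157) (nat_lit 76) (nat_lit 52963043050)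 (nat_lit 1) (nat_lit 4) (nat_lit 2) (nat_lit 5) (nat_lit 2) (nat_lit 4) (nat_lit 321) (nat_lit 238) (nat_lit 221)) (XT.nd (nat_lit 78) (nat_lit 0) (nat_lit 0) (XT.lf (nat_lit 0) (nat_lit 31057895029) (nat_lit 76) (nat_lit 57266435642) (nat_lit 76) (nat_lit 54031715734) (nat_lit 1) (nat_lit 4) (nat_lit 2) (nat_lit 5) (nat_lit 2) (nat_lit 4) (nat_lit 322) (nat_lit 238) (nat_lit 220)) (XT.lf (nat_lit 0) (nat_lit 39715400125) (nat_lit 76) (nat_lit 58589672835) (nat_lit 76) (nat_lit 55274977185) (nat_lit 1) (nat_lit 4) (nat_lit 2) (nat_lit 5) (nat_lit 2) (nat_lit 4) (nat_lit 323) (nat_lit 238) (nat_lit 219))))))))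
noncomputable def xc13 : XT := (XT.nd (nat_lit 1638) (nat_lit 0) (nat_lit 0) (XT.nd (nat_lit 780) (nat_lit 0) (nat_lit 0) (XT.nd (nat_lit 390) (nat_lit 0) (nat_lit 0) (XT.nd (nat_lit 156) (nat_lit 0) (nat_lit 0) (XT.nd (nat_lit 78) (nat_lit 0) (nat_lit 0) (XT.lf (nat_lit 0) (nat_lit 48916799527) (nat_lit 76) (nat_lit 60088942141) (nat_lit 76) (nat_lit 56700194879) (nat_lit 1) (nat_lit 4) (nat_lit 2) (nat_lit 5) (nat_lit 2) (nat_lit 4) (nat_lit 324) (nat_lit 238) (nat_lit 218)) (XT.lf (nat_lit 0) (nat_lit 58716620047) (nat_lit 76) (nat_lit 61773128121) (nat_lit 76) (nat_lit 58315814550) (nat_lit 1) (nat_lit 4) (nat_lit 2) (nat_lit 5) (nat_lit 2) (nat_lit 4) (nat_lit 325) (nat_lit 238) (nat_lit 217))) (XT.nd (nat_lit 78) (nat_lit 0) (nat_lit 0) (XT.lf (nat_lit 0) (nat_lit 69172934696) (nat_lit 76) (nat_lit 63652211135) (nat_lit 76) (nat_lit 60131410242) (nat_lit 1) (nat_lit 4) (nat_lit 2)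 (nat_lit 5) (nat_lit 2) (nat_lit 4) (nat_lit 326) (nat_lit 238) (nat_lit 216)) (XT.nd (nat_lit 78) (nat_lit 0) (nat_lit 0) (XT.lf (nat_lit 0) (nat_lit 80347706819) (nat_lit 76) (nat_lit 65737326490) (nat_lit 76) (nat_lit 62157741039) (nat_lit 1) (nat_lit 4) (nat_lit 2) (nat_lit 5) (nat_lit 2) (nat_lit 4) (nat_lit 327) (nat_lit 238) (nat_lit 215)) (XT.lf (nat_lit 0) (nat_lit 92307157289) (nat_lit 76) (nat_lit 68040830426) (nat_lit 76) (nat_lit 64406814828) (nat_lit 1) (nat_lit 4) (nat_lit 2) (nat_lit 5) (nat_lit 2) (nat_lit 4) (nat_lit 328) (nat_lit 238) (nat_lit 214))))) (XT.nd (nat_lit 156) (nat_lit 0) (nat_lit 0) (XT.nd (nat_lit 78) (nat_lit 0) (nat_lit 0) (XT.lf (nat_lit 0) (nat_lit 105122156922) (nat_lit 76) (nat_lit 70576373335) (nat_lit 76) (nat_lit 66891959454) (nat_lit 1) (nat_lit 4) (nat_lit 2) (nat_lit 5) (nat_lit 2) (nat_lit 4) (nat_lit 329) (nat_lit 238) (nat_lit 213)) (XT.lf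 (nat_lit 0) (nat_lit 118868646458) (nat_lit 76) (nat_lit 73358980657) (nat_lit 76) (nat_lit 69627901699) (nat_lit 1) (nat_lit 4) (nat_lit 2) (nat_lit 5) (nat_lit 2) (nat_lit 4) (nat_lit 330) (nat_lit 238) (nat_lit 212))) (XT.nd (nat_lit 78) (nat_lit 0) (nat_lit 0) (XT.lf (nat_lit 0) (nat_lit 133628086575) (nat_lit 76) (nat_lit 76405141918) (nat_lit 76) (nat_lit 72630854555) (nat_lit 1) (nat_lit 4) (nat_lit 2) (nat_lit 5) (nat_lit 2) (nat_lit 4) (nat_lit 331) (nat_lit 238) (nat_lit 211)) (XT.nd (nat_lit 78) (nat_lit 0) (nat_lit 0) (XT.lf (nat_lit 0) (nat_lit 149487940623) (nat_lit 76) (nat_lit 79732908443) (nat_lit 76) (nat_lit 75918613298) (nat_lit 1) (nat_lit 4) (nat_lit 2) (nat_lit 5) (nat_lit 2) (nat_lit 4) (nat_lit 332) (nat_lit 238) (nat_lit 210)) (XT.lf (nat_lit 0) (nat_lit 166542192920) (nat_lit 76) (nat_lit 83362000330) (nat_lit 76) (nat_lit 79510660942) (nat_lit 1) (nat_lit 4)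 (nat_lit 2) (nat_lit 5) (nat_lit 2) (nat_lit 4) (nat_lit 333) (nat_lit 238) (nat_lit 209)))))) (XT.nd (nat_lit 390) (nat_lit 0) (nat_lit 0) (XT.nd (nat_lit 156) (nat_lit 0) (nat_lit 0) (XT.nd (nat_lit 78) (nat_lit 0) (nat_lit 0) (XT.lf (nat_lit 0) (nat_lit 184891905704) (nat_lit 76) (nat_lit 87313923308) (nat_lit 76) (nat_lit 83428283696) (nat_lit 1) (nat_lit 4) (nat_lit 2) (nat_lit 5) (nat_lit 2) (nat_lit 4) (nat_lit 334) (nat_lit 238) (nat_lit 208)) (XT.lf (nat_lit 0) (nat_lit 204645818012) (nat_lit 76) (nat_lit 91612096182) (nat_lit 76) (nat_lit 87694697102) (nat_lit 1) (nat_lit 4) (nat_lit 2) (nat_lit 5) (nat_lit 2) (nat_lit 4) (nat_lit 335) (nat_lit 238) (nat_lit 207))) (XT.nd (nat_lit 78) (nat_lit 0) (nat_lit 0) (XT.lf (nat_lit 0) (nat_lit 225920990067) (nat_lit 76) (nat_lit 96281989604) (nat_lit 76) (nat_lit 92335183609) (nat_lit 1) (nat_lit 4) (nat_lit 2) (nat_lit 5) (nat_lit 2)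 (nat_lit 4) (nat_lit 336) (nat_lit 238) (nat_lit 206)) (XT.nd (nat_lit 78) (nat_lit 0) (nat_lit 0) (XT.lf (nat_lit 0) (nat_lit 248843496961) (nat_lit 76) (nat_lit 101351277017) (nat_lit 76) (nat_lit 97377242398) (nat_lit 1) (nat_lit 4) (nat_lit 2) (nat_lit 5) (nat_lit 2) (nat_lit 4) (nat_lit 337) (nat_lit 238) (nat_lit 205)) (XT.lf (nat_lit 0) (nat_lit 273549175772) (nat_lit 76) (nat_lit 106849998643) (nat_lit 76) (nat_lit 102850752335) (nat_lit 1) (nat_lit 4) (nat_lit 2) (nat_lit 5) (nat_lit 2) (nat_lit 4) (nat_lit 338) (nat_lit 238) (nat_lit 204))))) (XT.nd (nat_lit 234) (nat_lit 0) (nat_lit 0) (XT.nd (nat_lit 78) (nat_lit 0) (nat_lit 0) (XT.lf (nat_lit 0) (nat_lit 300184430524) (nat_lit 76) (nat_lit 112810739500) (nat_lit 76) (nat_lit 108788149035) (nat_lit 1) (nat_lit 4) (nat_lit 2) (nat_lit 5) (nat_lit 2) (nat_lit 4) (nat_lit 339) (nat_lit 238) (nat_lit 203)) (XT.nd (nat_lit 78) (nat_lit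 0) (nat_lit 0) (XT.lf (nat_lit 0) (nat_lit 328907099762) (nat_lit 76) (nat_lit 119268822495) (nat_lit 76) (nat_lit 115224617070) (nat_lit 1) (nat_lit 4) (nat_lit 2) (nat_lit 5) (nat_lit 2) (nat_lit 4) (nat_lit 340) (nat_lit 238) (nat_lit 202)) (XT.lf (nat_lit 0) (nat_lit 359887391898) (nat_lit 76) (nat_lit 126262517750) (nat_lit 76) (nat_lit 122198298473) (nat_lit 1) (nat_lit 4) (nat_lit 2) (nat_lit 5) (nat_lit 2) (nat_lit 4) (nat_lit 341) (nat_lit 238) (nat_lit 201)))) (XT.nd (nat_lit 78) (nat_lit 0) (nat_lit 0) (XT.lf (nat_lit 0) (nat_lit 393308893847) (nat_lit 76) (nat_lit 133833269385) (nat_lit 76) (nat_lit 129750518764) (nat_lit 1) (nat_lit 4) (nat_lit 2) (nat_lit 5) (nat_lit 2) (nat_lit 4) (nat_lit 342) (nat_lit 238) (nat_lit 200)) (XT.nd (nat_lit 78) (nat_lit 0) (nat_lit 0) (XT.lf (nat_lit 0) (nat_lit 429369658954) (nat_lit 76) (nat_lit 142025941114) (nat_lit 76) (nat_lit 137926031841)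 (nat_lit 1) (nat_lit 4) (nat_lit 2) (nat_lit 5) (nat_lit 2) (nat_lit 4) (nat_lit 343) (nat_lit 238) (nat_lit 199)) (XT.lf (nat_lit 0) (nat_lit 468283380643) (nat_lit 76) (nat_lit 150889082102) (nat_lit 76) (nat_lit 146773285189) (nat_lit 1) (nat_lit 4) (nat_lit 2) (nat_lit 5) (nat_lit 2) (nat_lit 4) (nat_lit 344) (nat_lit 238) (nat_lit 198))))))) (XT.nd (nat_lit 37596) (nat_lit 0) (nat_lit 76) (XT.nd (nat_lit 390) (nat_lit 0) (nat_lit 0) (XT.nd (nat_lit 156) (nat_lit 0) (nat_lit 0) (XT.nd (nat_lit 78) (nat_lit 0) (nat_lit 0) (XT.lf (nat_lit 0) (nat_lit 510280658745) (nat_lit 76) (nat_lit 160475214667) (nat_lit 76) (nat_lit 156344706975) (nat_lit 1) (nat_lit 4) (nat_lit 2) (nat_lit 5) (nat_lit 2) (nat_lit 4) (nat_lit 345) (nat_lit 238) (nat_lit 197)) (XT.lf (nat_lit 0) (nat_lit 555610366019) (nat_lit 76) (nat_lit 170841145520) (nat_lit 76) (nat_lit 166697016736) (nat_lit 1) (nat_lit 4)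 (nat_lit 2) (nat_lit 5) (nat_lit 2) (nat_lit 4) (nat_lit 346) (nat_lit 238) (nat_lit 196))) (XT.nd (nat_lit 78) (nat_lit 0) (nat_lit 0) (XT.lf (nat_lit 0) (nat_lit 604541122954) (nat_lit 76) (nat_lit 182048302399) (nat_lit 76) (nat_lit 177891561494) (nat_lit 1) (nat_lit 4) (nat_lit 2) (nat_lit 5) (nat_lit 2) (nat_lit 4) (nat_lit 347) (nat_lit 238) (nat_lit 195)) (XT.nd (nat_lit 78) (nat_lit 0) (nat_lit 0) (XT.lf (nat_lit 0) (nat_lit 657362889589) (nat_lit 76) (nat_lit 194163098085) (nat_lit 76) (nat_lit 189994679290) (nat_lit 1) (nat_lit 4) (nat_lit 2) (nat_lit 5) (nat_lit 2) (nat_lit 4) (nat_lit 348) (nat_lit 238) (nat_lit 194)) (XT.lf (nat_lit 0) (nat_lit 714388683802) (nat_lit 76) (nat_lit 207257323962) (nat_lit 76) (nat_lit 203078092305) (nat_lit 1) (nat_lit 4) (nat_lit 2) (nat_lit 5) (nat_lit 2) (nat_lit 4) (nat_lit 349) (nat_lit 238) (nat_lit 193))))) (XT.nd (nat_lit 36972) (nat_lit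 0) (nat_lit 228) (XT.nd (nat_lit 36894) (nat_lit 0) (nat_lit 304) (XT.lf (nat_lit 0) (nat_lit 775956436226) (nat_lit 76) (nat_lit 221408575440) (nat_lit 76) (nat_lit 217219331875) (nat_lit 1) (nat_lit 4) (nat_lit 2) (nat_lit 5) (nat_lit 2) (nat_lit 4) (nat_lit 350) (nat_lit 238) (nat_lit 192)) (XT.lf (nat_lit 0) (nat_lit 2949487956) (nat_lit 152) (nat_lit 10596090763) (nat_lit 0) (nat_lit 2949487956) (nat_lit 5) (nat_lit 5) (nat_lit 7) (nat_lit 4) (nat_lit 5) (nat_lit 4) (nat_lit 302) (nat_lit 239) (nat_lit 239))) (XT.nd (nat_lit 78) (nat_lit 76) (nat_lit 0) (XT.lf (nat_lit 0) (nat_lit 12146067819) (nat_lit 152) (nat_lit 11387969113) (nat_lit 0) (nat_lit 11783658855) (nat_lit 5) (nat_lit 5) (nat_lit 7) (nat_lit 4) (nat_lit 5) (nat_lit 4) (nat_lit 303) (nat_lit 239) (nat_lit 238)) (XT.nd (nat_lit 78) (nat_lit 76) (nat_lit 0) (XT.lf (nat_lit 0) (nat_lit 18592259542) (nat_lit 152) (nat_lit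 1360112179) (nat_lit 0) (nat_lit 17894286723) (nat_lit 5) (nat_lit 5) (nat_lit 7) (nat_lit 4) (nat_lit 5) (nat_lit 4) (nat_lit 304) (nat_lit 239) (nat_lit 237)) (XT.lf (nat_lit 0) (nat_lit 9246767934) (nat_lit 76) (nat_lit 16173350763) (nat_lit 76) (nat_lit 15164670671) (nat_lit 4) (nat_lit 4) (nat_lit 5) (nat_lit 5) (nat_lit 5) (nat_lit 4) (nat_lit 305) (nat_lit 239) (nat_lit 236)))))) (XT.nd (nat_lit 390) (nat_lit 0) (nat_lit 0) (XT.nd (nat_lit 156) (nat_lit 152) (nat_lit 0) (XT.nd (nat_lit 78) (nat_lit 0) (nat_lit 0) (XT.lf (nat_lit 0) (nat_lit 20254169977) (nat_lit 76) (nat_lit 12298201655) (nat_lit 76) (nat_lit 11001829643) (nat_lit 4) (nat_lit 4) (nat_lit 5) (nat_lit 5) (nat_lit 5) (nat_lit 4) (nat_lit 306) (nat_lit 239) (nat_lit 235)) (XT.lf (nat_lit 0) (nat_lit 31682351547) (nat_lit 76) (nat_lit 8326994707) (nat_lit 76) (nat_lit 6764241288) (nat_lit 4) (nat_lit 4) (nat_lit 5) (nat_lit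 5) (nat_lit 5) (nat_lit 4) (nat_lit 307) (nat_lit 239) (nat_lit 234))) (XT.nd (nat_lit 78) (nat_lit 152) (nat_lit 0) (XT.lf (nat_lit 0) (nat_lit 43599035200) (nat_lit 76) (nat_lit 4236196841) (nat_lit 76) (nat_lit 2426793971) (nat_lit 4) (nat_lit 4) (nat_lit 5) (nat_lit 5) (nat_lit 5) (nat_lit 4) (nat_lit 308) (nat_lit 239) (nat_lit 233)) (XT.nd (nat_lit 78) (nat_lit 0) (nat_lit 0) (XT.lf (nat_lit 0) (nat_lit 2004374532) (nat_lit 152) (nat_lit 51968928532) (nat_lit 0) (nat_lit 63629779) (nat_lit 2) (nat_lit 5) (nat_lit 4) (nat_lit 4) (nat_lit 2) (nat_lit 4) (nat_lit 309) (nat_lit 239) (nat_lit 232)) (XT.lf (nat_lit 0) (nat_lit 6688281967) (nat_lit 152) (nat_lit 46878350098) (nat_lit 0) (nat_lit 4546144690) (nat_lit 2) (nat_lit 5) (nat_lit 4) (nat_lit 4) (nat_lit 2) (nat_lit 4) (nat_lit 310) (nat_lit 239) (nat_lit 231))))) (XT.nd (nat_lit 234) (nat_lit 0) (nat_lit 0) (XT.nd (nat_lit 78)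 (nat_lit 0) (nat_lit 0) (XT.lf (nat_lit 0) (nat_lit 11554989121) (nat_lit 152) (nat_lit 41743007358) (nat_lit 0) (nat_lit 9226377285) (nat_lit 2) (nat_lit 5) (nat_lit 4) (nat_lit 4) (nat_lit 2) (nat_lit 4) (nat_lit 311) (nat_lit 239) (nat_lit 230)) (XT.nd (nat_lit 78) (nat_lit 0) (nat_lit 0) (XT.lf (nat_lit 0) (nat_lit 16633335740) (nat_lit 152) (nat_lit 36532468651) (nat_lit 0) (nat_lit 14132062276) (nat_lit 2) (nat_lit 5) (nat_lit 4) (nat_lit 4) (nat_lit 2) (nat_lit 4) (nat_lit 312) (nat_lit 239) (nat_lit 229)) (XT.lf (nat_lit 0) (nat_lit 21953415729) (nat_lit 152) (nat_lit 31215856712) (nat_lit 0) (nat_lit 19292270388) (nat_lit 2) (nat_lit 5) (nat_lit 4) (nat_lit 4) (nat_lit 2) (nat_lit 4) (nat_lit 313) (nat_lit 239) (nat_lit 228)))) (XT.nd (nat_lit 78) (nat_lit 0) (nat_lit 0) (XT.lf (nat_lit 0) (nat_lit 27546755490) (nat_lit 152) (nat_lit 25761665692) (nat_lit 0) (nat_lit 24737580632)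 (nat_lit 2) (nat_lit 5) (nat_lit 4) (nat_lit 4) (nat_lit 2) (nat_lit 4) (nat_lit 314) (nat_lit 239) (nat_lit 227)) (XT.nd (nat_lit 78) (nat_lit 0) (nat_lit 0) (XT.lf (nat_lit 0) (nat_lit 33446500739) (nat_lit 152) (nat_lit 20137574458) (nat_lit 0) (nat_lit 30500261514) (nat_lit 2) (nat_lit 5) (nat_lit 4) (nat_lit 4) (nat_lit 2) (nat_lit 4) (nat_lit 315) (nat_lit 239) (nat_lit 226)) (XT.lf (nat_lit 0) (nat_lit 39687612930) (nat_lit 152) (nat_lit 14310255062) (nat_lit 0) (nat_lit 36614462253) (nat_lit 2) (nat_lit 5) (nat_lit 4) (nat_lit 4) (nat_lit 2) (nat_lit 4) (nat_lit 316) (nat_lit 239) (nat_lit 225))))))))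
noncomputable def xc14 : XT := (XT.nd (nat_lit 1638) (nat_lit 0) (nat_lit 0) (XT.nd (nat_lit 780) (nat_lit 0) (nat_lit 0) (XT.nd (nat_lit 390) (nat_lit 0) (nat_lit 0) (XT.nd (nat_lit 156) (nat_lit 76) (nat_lit 0) (XT.nd (nat_lit 78) (nat_lit 0) (nat_lit 0) (XT.lf (nat_lit 0) (nat_lit 46307076430) (nat_lit 152) (nat_lit 8245175242) (nat_lit 0) (nat_lit 43116415150) (nat_lit 2) (nat_lit 5) (nat_lit 4) (nat_lit 4) (nat_lit 2) (nat_lit 4) (nat_lit 317) (nat_lit 239) (nat_lit 224)) (XT.lf (nat_lit 0) (nat_lit 53344117690) (nat_lit 152) (nat_lit 1906393784) (nat_lit 0) (nat_lit 50044650297) (nat_lit 2) (nat_lit 5) (nat_lit 4) (nat_lit 4) (nat_lit 2) (nat_lit 4) (nat_lit 318) (nat_lit 239) (nat_lit 223))) (XT.nd (nat_lit 78) (nat_lit 0) (nat_lit 0) (XT.lf (nat_lit 0) (nat_lit 4900499035) (nat_lit 76) (nat_lit 56016449185) (nat_lit 76) (nat_lit 52616235389) (nat_lit 1) (nat_lit 4) (nat_lit 2)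 (nat_lit 5) (nat_lit 2) (nat_lit 4) (nat_lit 319) (nat_lit 239) (nat_lit 222)) (XT.nd (nat_lit 78) (nat_lit 0) (nat_lit 0) (XT.lf (nat_lit 0) (nat_lit 12132693127) (nat_lit 76) (nat_lit 56897191300) (nat_lit 76) (nat_lit 53403693799) (nat_lit 1) (nat_lit 4) (nat_lit 2) (nat_lit 5) (nat_lit 2) (nat_lit 4) (nat_lit 320) (nat_lit 239) (nat_lit 221)) (XT.lf (nat_lit 0) (nat_lit 19770011950) (nat_lit 76) (nat_lit 57930242732) (nat_lit 76) (nat_lit 54350371430) (nat_lit 1) (nat_lit 4) (nat_lit 2) (nat_lit 5) (nat_lit 2) (nat_lit 4) (nat_lit 321) (nat_lit 239) (nat_lit 220))))) (XT.nd (nat_lit 156) (nat_lit 0) (nat_lit 0) (XT.nd (nat_lit 78) (nat_lit 0) (nat_lit 0) (XT.lf (nat_lit 0) (nat_lit 27857713690) (nat_lit 76) (nat_lit 59121725269) (nat_lit 76) (nat_lit 55461878225) (nat_lit 1) (nat_lit 4) (nat_lit 2) (nat_lit 5) (nat_lit 2) (nat_lit 4) (nat_lit 322) (nat_lit 239) (nat_lit 219)) (XT.lf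 (nat_lit 0) (nat_lit 36443725468) (nat_lit 76) (nat_lit 60478699548) (nat_lit 76) (nat_lit 56744800891) (nat_lit 1) (nat_lit 4) (nat_lit 2) (nat_lit 5) (nat_lit 2) (nat_lit 4) (nat_lit 323) (nat_lit 239) (nat_lit 218))) (XT.nd (nat_lit 78) (nat_lit 0) (nat_lit 0) (XT.lf (nat_lit 0) (nat_lit 45578927354) (nat_lit 76) (nat_lit 62009206897) (nat_lit 76) (nat_lit 58206741933) (nat_lit 1) (nat_lit 4) (nat_lit 2) (nat_lit 5) (nat_lit 2) (nat_lit 4) (nat_lit 324) (nat_lit 239) (nat_lit 217)) (XT.nd (nat_lit 78) (nat_lit 0) (nat_lit 0) (XT.lf (nat_lit 0) (nat_lit 55317453877) (nat_lit 76) (nat_lit 63722316991) (nat_lit 76) (nat_lit 59856364703) (nat_lit 1) (nat_lit 4) (nat_lit 2) (nat_lit 5) (nat_lit 2) (nat_lit 4) (nat_lit 325) (nat_lit 239) (nat_lit 216)) (XT.lf (nat_lit 0) (nat_lit 65717014825) (nat_lit 76) (nat_lit 65628181591) (nat_lit 76) (nat_lit 61703444746) (nat_lit 1) (nat_lit 4) (nat_lit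 2) (nat_lit 5) (nat_lit 2) (nat_lit 4) (nat_lit 326) (nat_lit 239) (nat_lit 215)))))) (XT.nd (nat_lit 390) (nat_lit 0) (nat_lit 0) (XT.nd (nat_lit 156) (nat_lit 0) (nat_lit 0) (XT.nd (nat_lit 78) (nat_lit 0) (nat_lit 0) (XT.lf (nat_lit 0) (nat_lit 76839237226) (nat_lit 76) (nat_lit 67738094712) (nat_lit 76) (nat_lit 63758927720) (nat_lit 1) (nat_lit 4) (nat_lit 2) (nat_lit 5) (nat_lit 2) (nat_lit 4) (nat_lit 327) (nat_lit 239) (nat_lit 214)) (XT.lf (nat_lit 0) (nat_lit 88750030544) (nat_lit 76) (nat_lit 70064559541) (nat_lit 76) (nat_lit 66034994266) (nat_lit 1) (nat_lit 4) (nat_lit 2) (nat_lit 5) (nat_lit 2) (nat_lit 4) (nat_lit 328) (nat_lit 239) (nat_lit 213))) (XT.nd (nat_lit 78) (nat_lit 0) (nat_lit 0) (XT.lf (nat_lit 0) (nat_lit 101519977260) (nat_lit 76) (nat_lit 72621362537) (nat_lit 76) (nat_lit 68545132185) (nat_lit 1) (nat_lit 4) (nat_lit 2) (nat_lit 5) (nat_lit 2) (nat_lit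 4) (nat_lit 329) (nat_lit 239) (nat_lit 212)) (XT.nd (nat_lit 78) (nat_lit 0) (nat_lit 0) (XT.lf (nat_lit 0) (nat_lit 115224751132) (nat_lit 76) (nat_lit 75423655125) (nat_lit 76) (nat_lit 71304216368) (nat_lit 1) (nat_lit 4) (nat_lit 2) (nat_lit 5) (nat_lit 2) (nat_lit 4) (nat_lit 330) (nat_lit 239) (nat_lit 211)) (XT.lf (nat_lit 0) (nat_lit 129945565634) (nat_lit 76) (nat_lit 78488043483) (nat_lit 76) (nat_lit 74328596944) (nat_lit 1) (nat_lit 4) (nat_lit 2) (nat_lit 5) (nat_lit 2) (nat_lit 4) (nat_lit 331) (nat_lit 239) (nat_lit 210))))) (XT.nd (nat_lit 234) (nat_lit 0) (nat_lit 0) (XT.nd (nat_lit 78) (nat_lit 0) (nat_lit 0) (XT.lf (nat_lit 0) (nat_lit 145769655223) (nat_lit 76) (nat_lit 81832686950) (nat_lit 76) (nat_lit 77636196168) (nat_lit 1) (nat_lit 4) (nat_lit 2) (nat_lit 5) (nat_lit 2) (nat_lit 4) (nat_lit 332) (nat_lit 239) (nat_lit 209)) (XT.nd (nat_lit 78) (nat_lit 0) (nat_lit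 0) (XT.lf (nat_lit 0) (nat_lit 162790792281) (nat_lit 76) (nat_lit 85477405636) (nat_lit 76) (nat_lit 81246614629) (nat_lit 1) (nat_lit 4) (nat_lit 2) (nat_lit 5) (nat_lit 2) (nat_lit 4) (nat_lit 333) (nat_lit 239) (nat_lit 208)) (XT.lf (nat_lit 0) (nat_lit 181109842806) (nat_lit 76) (nat_lit 89443797872) (nat_lit 76) (nat_lit 85181247398) (nat_lit 1) (nat_lit 4) (nat_lit 2) (nat_lit 5) (nat_lit 2) (nat_lit 4) (nat_lit 334) (nat_lit 239) (nat_lit 207)))) (XT.nd (nat_lit 78) (nat_lit 0) (nat_lit 0) (XT.lf (nat_lit 0) (nat_lit 200835364135) (nat_lit 76) (nat_lit 93755368207) (nat_lit 76) (nat_lit 89463410818) (nat_lit 1) (nat_lit 4) (nat_lit 2) (nat_lit 5) (nat_lit 2) (nat_lit 4) (nat_lit 335) (nat_lit 239) (nat_lit 206)) (XT.nd (nat_lit 78) (nat_lit 0) (nat_lit 0) (XT.lf (nat_lit 0) (nat_lit 222084248244) (nat_lit 76) (nat_lit 98437666685) (nat_lit 76) (nat_lit 94118480672) (nat_lit 1)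 (nat_lit 4) (nat_lit 2) (nat_lit 5) (nat_lit 2) (nat_lit 4) (nat_lit 336) (nat_lit 239) (nat_lit 205)) (XT.lf (nat_lit 0) (nat_lit 244982414449) (nat_lit 76) (nat_lit 103518440262) (nat_lit 76) (nat_lit 99174042560) (nat_lit 1) (nat_lit 4) (nat_lit 2) (nat_lit 5) (nat_lit 2) (nat_lit 4) (nat_lit 337) (nat_lit 239) (nat_lit 204))))))) (XT.nd (nat_lit 780) (nat_lit 0) (nat_lit 0) (XT.nd (nat_lit 390) (nat_lit 0) (nat_lit 0) (XT.nd (nat_lit 156) (nat_lit 0) (nat_lit 0) (XT.nd (nat_lit 78) (nat_lit 0) (nat_lit 0) (XT.lf (nat_lit 0) (nat_lit 269665555585) (nat_lit 76) (nat_lit 109027797224) (nat_lit 76) (nat_lit 104660055366) (nat_lit 1) (nat_lit 4) (nat_lit 2) (nat_lit 5) (nat_lit 2) (nat_lit 4) (nat_lit 338) (nat_lit 239) (nat_lit 203)) (XT.lf (nat_lit 0) (nat_lit 296279942119) (nat_lit 76) (nat_lit 114998385614) (nat_lit 76) (nat_lit 110609028796) (nat_lit 1) (nat_lit 4) (nat_lit 2) (nat_lit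 5) (nat_lit 2) (nat_lit 4) (nat_lit 339) (nat_lit 239) (nat_lit 202))) (XT.nd (nat_lit 78) (nat_lit 0) (nat_lit 0) (XT.lf (nat_lit 0) (nat_lit 324983288933) (nat_lit 76) (nat_lit 121465586696) (nat_lit 76) (nat_lit 117056216026) (nat_lit 1) (nat_lit 4) (nat_lit 2) (nat_lit 5) (nat_lit 2) (nat_lit 4) (nat_lit 340) (nat_lit 239) (nat_lit 201)) (XT.nd (nat_lit 78) (nat_lit 0) (nat_lit 0) (XT.lf (nat_lit 0) (nat_lit 355945689936) (nat_lit 76) (nat_lit 128467724624) (nat_lit 76) (nat_lit 124039822610) (nat_lit 1) (nat_lit 4) (nat_lit 2) (nat_lit 5) (nat_lit 2) (nat_lit 4) (nat_lit 341) (nat_lit 239) (nat_lit 200)) (XT.lf (nat_lit 0) (nat_lit 389350626020) (nat_lit 76) (nat_lit 136046293549) (nat_lit 76) (nat_lit 131601232883) (nat_lit 1) (nat_lit 4) (nat_lit 2) (nat_lit 5) (nat_lit 2) (nat_lit 4) (nat_lit 342) (nat_lit 239) (nat_lit 199))))) (XT.nd (nat_lit 156) (nat_lit 0) (nat_lit 0) (XT.nd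 (nat_lit 78) (nat_lit 0) (nat_lit 0) (XT.lf (nat_lit 0) (nat_lit 425396052364) (nat_lit 76) (nat_lit 144246203510) (nat_lit 76) (nat_lit 139785255202) (nat_lit 1) (nat_lit 4) (nat_lit 2) (nat_lit 5) (nat_lit 2) (nat_lit 4) (nat_lit 343) (nat_lit 239) (nat_lit 198)) (XT.lf (nat_lit 0) (nat_lit 464295571494) (nat_lit 76) (nat_lit 153116046564) (nat_lit 76) (nat_lit 148640387478) (nat_lit 1) (nat_lit 4) (nat_lit 2) (nat_lit 5) (nat_lit 2) (nat_lit 4) (nat_lit 344) (nat_lit 239) (nat_lit 197))) (XT.nd (nat_lit 78) (nat_lit 0) (nat_lit 0) (XT.lf (nat_lit 0) (nat_lit 506279699079) (nat_lit 76) (nat_lit 162708384746) (nat_lit 76) (nat_lit 158219104568) (nat_lit 1) (nat_lit 4) (nat_lit 2) (nat_lit 5) (nat_lit 2) (nat_lit 4) (nat_lit 345) (nat_lit 239) (nat_lit 196)) (XT.nd (nat_lit 78) (nat_lit 0) (nat_lit 0) (XT.lf (nat_lit 0) (nat_lit 551597229949) (nat_lit 76) (nat_lit 173080061540) (nat_lit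 76) (nat_lit 168578169241) (nat_lit 1) (nat_lit 4) (nat_lit 2) (nat_lit 5) (nat_lit 2) (nat_lit 4) (nat_lit 346) (nat_lit 239) (nat_lit 195)) (XT.lf (nat_lit 0) (nat_lit 600516712435) (nat_lit 76) (nat_lit 184292538735) (nat_lit 76) (nat_lit 179778968546) (nat_lit 1) (nat_lit 4) (nat_lit 2) (nat_lit 5) (nat_lit 2) (nat_lit 4) (nat_lit 347) (nat_lit 239) (nat_lit 194)))))) (XT.nd (nat_lit 37050) (nat_lit 0) (nat_lit 228) (XT.nd (nat_lit 156) (nat_lit 0) (nat_lit 0) (XT.nd (nat_lit 78) (nat_lit 0) (nat_lit 0) (XT.lf (nat_lit 0) (nat_lit 653328039766) (nat_lit 76) (nat_lit 196412260640) (nat_lit 76) (nat_lit 191887877590) (nat_lit 1) (nat_lit 4) (nat_lit 2) (nat_lit 5) (nat_lit 2) (nat_lit 4) (nat_lit 348) (nat_lit 239) (nat_lit 193)) (XT.lf (nat_lit 0) (nat_lit 710344167956) (nat_lit 76) (nat_lit 209511047830) (nat_lit 76) (nat_lit 204976652871) (nat_lit 1) (nat_lit 4) (nat_lit 2) (nat_lit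 5) (nat_lit 2) (nat_lit 4) (nat_lit 349) (nat_lit 239) (nat_lit 192))) (XT.nd (nat_lit 36738) (nat_lit 0) (nat_lit 304) (XT.lf (nat_lit 0) (nat_lit 771902970358) (nat_lit 76) (nat_lit 223666522747) (nat_lit 76) (nat_lit 219122857502) (nat_lit 1) (nat_lit 4) (nat_lit 2) (nat_lit 5) (nat_lit 2) (nat_lit 4) (nat_lit 350) (nat_lit 239) (nat_lit 191)) (XT.nd (nat_lit 78) (nat_lit 152) (nat_lit 0) (XT.lf (nat_lit 0) (nat_lit 8934580959) (nat_lit 76) (nat_lit 2747469716) (nat_lit 76) (nat_lit 2747469716) (nat_lit 7) (nat_lit 4) (nat_lit 8) (nat_lit 5) (nat_lit 8) (nat_lit 4) (nat_lit 300) (nat_lit 240) (nat_lit 240)) (XT.lf (nat_lit 0) (nat_lit 16179110) (nat_lit 76) (nat_lit 192187169) (nat_lit 152) (nat_lit 30641661864) (nat_lit 5) (nat_lit 5) (nat_lit 6) (nat_lit 5) (nat_lit 7) (nat_lit 4) (nat_lit 301) (nat_lit 240) (nat_lit 239))))) (XT.nd (nat_lit 234) (nat_lit 76) (nat_lit 0) (XT.nd (nat_lit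 78) (nat_lit 0) (nat_lit 0) (XT.lf (nat_lit 0) (nat_lit 6134261757) (nat_lit 152) (nat_lit 21483310309) (nat_lit 0) (nat_lit 5380451113) (nat_lit 5) (nat_lit 5) (nat_lit 7) (nat_lit 4) (nat_lit 5) (nat_lit 4) (nat_lit 302) (nat_lit 240) (nat_lit 238)) (XT.nd (nat_lit 78) (nat_lit 0) (nat_lit 0) (XT.lf (nat_lit 0) (nat_lit 12236801964) (nat_lit 152) (nat_lit 11948661585) (nat_lit 0) (nat_lit 11147427465) (nat_lit 5) (nat_lit 5) (nat_lit 7) (nat_lit 4) (nat_lit 5) (nat_lit 4) (nat_lit 303) (nat_lit 240) (nat_lit 237)) (XT.lf (nat_lit 0) (nat_lit 18549149521) (nat_lit 152) (nat_lit 2170400658) (nat_lit 0) (nat_lit 17149067748) (nat_lit 5) (nat_lit 5) (nat_lit 7) (nat_lit 4) (nat_lit 5) (nat_lit 4) (nat_lit 304) (nat_lit 240) (nat_lit 236)))) (XT.nd (nat_lit 78) (nat_lit 0) (nat_lit 0) (XT.lf (nat_lit 0) (nat_lit 8170938790) (nat_lit 76) (nat_lit 17065343395) (nat_lit 76) (nat_lit 15377569702)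 (nat_lit 4) (nat_lit 4) (nat_lit 5) (nat_lit 5) (nat_lit 5) (nat_lit 4) (nat_lit 305) (nat_lit 240) (nat_lit 235)) (XT.nd (nat_lit 78) (nat_lit 0) (nat_lit 0) (XT.lf (nat_lit 0) (nat_lit 18957277065) (nat_lit 76) (nat_lit 13293056829) (nat_lit 76) (nat_lit 11338901729) (nat_lit 4) (nat_lit 4) (nat_lit 5) (nat_lit 5) (nat_lit 5) (nat_lit 4) (nat_lit 306) (nat_lit 240) (nat_lit 234)) (XT.lf (nat_lit 0) (nat_lit 30180769961) (nat_lit 76) (nat_lit 9417092976) (nat_lit 76) (nat_lit 7216288426) (nat_lit 4) (nat_lit 4) (nat_lit 5) (nat_lit 5) (nat_lit 5) (nat_lit 4) (nat_lit 307) (nat_lit 240) (nat_lit 233))))))))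
noncomputable def xc15 : XT := (XT.nd (nat_lit 1638) (nat_lit 0) (nat_lit 0) (XT.nd (nat_lit 780) (nat_lit 76) (nat_lit 0) (XT.nd (nat_lit 390) (nat_lit 0) (nat_lit 0) (XT.nd (nat_lit 156) (nat_lit 0) (nat_lit 0) (XT.nd (nat_lit 78) (nat_lit 152) (nat_lit 0) (XT.lf (nat_lit 0) (nat_lit 41907927064) (nat_lit 76) (nat_lit 5414483162) (nat_lit 76) (nat_lit 2985299490) (nat_lit 4) (nat_lit 4) (nat_lit 5) (nat_lit 5) (nat_lit 5) (nat_lit 4) (nat_lit 308) (nat_lit 240) (nat_lit 232)) (XT.lf (nat_lit 0) (nat_lit 99274589) (nat_lit 76) (nat_lit 1237271952) (nat_lit 152) (nat_lit 52752912604) (nat_lit 2) (nat_lit 5) (nat_lit 3) (nat_lit 5) (nat_lit 4) (nat_lit 4) (nat_lit 309) (nat_lit 240) (nat_lit 231))) (XT.nd (nat_lit 78) (nat_lit 0) (nat_lit 0) (XT.lf (nat_lit 0) (nat_lit 5908870888) (nat_lit 152) (nat_lit 49054559017) (nat_lit 0) (nat_lit 3207495547) (nat_lit 2) (nat_lit 5) (nat_lit 4) (nat_lit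 4) (nat_lit 2) (nat_lit 4) (nat_lit 310) (nat_lit 240) (nat_lit 230)) (XT.nd (nat_lit 78) (nat_lit 0) (nat_lit 0) (XT.lf (nat_lit 0) (nat_lit 10690146740) (nat_lit 152) (nat_lit 44080577552) (nat_lit 0) (nat_lit 7816109771) (nat_lit 2) (nat_lit 5) (nat_lit 4) (nat_lit 4) (nat_lit 2) (nat_lit 4) (nat_lit 311) (nat_lit 240) (nat_lit 229)) (XT.lf (nat_lit 0) (nat_lit 15689390302) (nat_lit 152) (nat_lit 39019447434) (nat_lit 0) (nat_lit 12655481455) (nat_lit 2) (nat_lit 5) (nat_lit 4) (nat_lit 4) (nat_lit 2) (nat_lit 4) (nat_lit 312) (nat_lit 240) (nat_lit 228))))) (XT.nd (nat_lit 156) (nat_lit 0) (nat_lit 0) (XT.nd (nat_lit 78) (nat_lit 0) (nat_lit 0) (XT.lf (nat_lit 0) (nat_lit 20936226721) (nat_lit 152) (nat_lit 33841176781) (nat_lit 0) (nat_lit 17754288357) (nat_lit 2) (nat_lit 5) (nat_lit 4) (nat_lit 4) (nat_lit 2) (nat_lit 4) (nat_lit 313) (nat_lit 240) (nat_lit 227)) (XT.lf (nat_lit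 0) (nat_lit 26461748360) (nat_lit 152) (nat_lit 28515079543) (nat_lit 0) (nat_lit 23142745629) (nat_lit 2) (nat_lit 5) (nat_lit 4) (nat_lit 4) (nat_lit 2) (nat_lit 4) (nat_lit 314) (nat_lit 240) (nat_lit 226))) (XT.nd (nat_lit 78) (nat_lit 0) (nat_lit 0) (XT.lf (nat_lit 0) (nat_lit 32298699052) (nat_lit 152) (nat_lit 23009593663) (nat_lit 0) (nat_lit 28852784870) (nat_lit 2) (nat_lit 5) (nat_lit 4) (nat_lit 4) (nat_lit 2) (nat_lit 4) (nat_lit 315) (nat_lit 240) (nat_lit 225)) (XT.nd (nat_lit 78) (nat_lit 0) (nat_lit 0) (XT.lf (nat_lit 0) (nat_lit 38481668134) (nat_lit 152) (nat_lit 17292094040) (nat_lit 0) (nat_lit 34918243349) (nat_lit 2) (nat_lit 5) (nat_lit 4) (nat_lit 4) (nat_lit 2) (nat_lit 4) (nat_lit 316) (nat_lit 240) (nat_lit 224)) (XT.lf (nat_lit 0) (nat_lit 45047295423) (nat_lit 152) (nat_lit 11328699195) (nat_lit 0) (nat_lit 41375064524) (nat_lit 2) (nat_lit 5) (nat_lit 4)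 (nat_lit 4) (nat_lit 2) (nat_lit 4) (nat_lit 317) (nat_lit 240) (nat_lit 223)))))) (XT.nd (nat_lit 390) (nat_lit 0) (nat_lit 0) (XT.nd (nat_lit 156) (nat_lit 0) (nat_lit 0) (XT.nd (nat_lit 78) (nat_lit 76) (nat_lit 0) (XT.lf (nat_lit 0) (nat_lit 52034488339) (nat_lit 152) (nat_lit 5084070491) (nat_lit 0) (nat_lit 48261511038) (nat_lit 2) (nat_lit 5) (nat_lit 4) (nat_lit 4) (nat_lit 2) (nat_lit 4) (nat_lit 318) (nat_lit 240) (nat_lit 222)) (XT.lf (nat_lit 0) (nat_lit 1527692994) (nat_lit 76) (nat_lit 57980811046) (nat_lit 76) (nat_lit 54114550039) (nat_lit 1) (nat_lit 4) (nat_lit 2) (nat_lit 5) (nat_lit 2) (nat_lit 4) (nat_lit 319) (nat_lit 240) (nat_lit 221))) (XT.nd (nat_lit 78) (nat_lit 0) (nat_lit 0) (XT.lf (nat_lit 0) (nat_lit 8676497280) (nat_lit 76) (nat_lit 58900904097) (nat_lit 76) (nat_lit 54948269290) (nat_lit 1) (nat_lit 4) (nat_lit 2) (nat_lit 5) (nat_lit 2) (nat_lit 4) (nat_lit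 320) (nat_lit 240) (nat_lit 220)) (XT.nd (nat_lit 78) (nat_lit 0) (nat_lit 0) (XT.lf (nat_lit 0) (nat_lit 16236603320) (nat_lit 76) (nat_lit 59970391583) (nat_lit 76) (nat_lit 55937781034) (nat_lit 1) (nat_lit 4) (nat_lit 2) (nat_lit 5) (nat_lit 2) (nat_lit 4) (nat_lit 321) (nat_lit 240) (nat_lit 219)) (XT.lf (nat_lit 0) (nat_lit 24252811742) (nat_lit 76) (nat_lit 61195611206) (nat_lit 76) (nat_lit 57088949044) (nat_lit 1) (nat_lit 4) (nat_lit 2) (nat_lit 5) (nat_lit 2) (nat_lit 4) (nat_lit 322) (nat_lit 240) (nat_lit 218))))) (XT.nd (nat_lit 234) (nat_lit 0) (nat_lit 0) (XT.nd (nat_lit 78) (nat_lit 0) (nat_lit 0) (XT.lf (nat_lit 0) (nat_lit 32772626004) (nat_lit 76) (nat_lit 62583823527) (nat_lit 76) (nat_lit 58408595057) (nat_lit 1) (nat_lit 4) (nat_lit 2) (nat_lit 5) (nat_lit 2) (nat_lit 4) (nat_lit 323) (nat_lit 240) (nat_lit 217)) (XT.nd (nat_lit 78) (nat_lit 0) (nat_lit 0) (XT.lf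 (nat_lit 0) (nat_lit 41846533893) (nat_lit 76) (nat_lit 64143254990) (nat_lit 76) (nat_lit 59904539197) (nat_lit 1) (nat_lit 4) (nat_lit 2) (nat_lit 5) (nat_lit 2) (nat_lit 4) (nat_lit 324) (nat_lit 240) (nat_lit 216)) (XT.lf (nat_lit 0) (nat_lit 51528306716) (nat_lit 76) (nat_lit 65883146670) (nat_lit 76) (nat_lit 61585646319) (nat_lit 1) (nat_lit 4) (nat_lit 2) (nat_lit 5) (nat_lit 2) (nat_lit 4) (nat_lit 325) (nat_lit 240) (nat_lit 215)))) (XT.nd (nat_lit 78) (nat_lit 0) (nat_lit 0) (XT.lf (nat_lit 0) (nat_lit 61875317941) (nat_lit 76) (nat_lit 67813809035) (nat_lit 76) (nat_lit 63461878539) (nat_lit 1) (nat_lit 4) (nat_lit 2) (nat_lit 5) (nat_lit 2) (nat_lit 4) (nat_lit 326) (nat_lit 240) (nat_lit 214)) (XT.nd (nat_lit 78) (nat_lit 0) (nat_lit 0) (XT.lf (nat_lit 0) (nat_lit 72948883191) (nat_lit 76) (nat_lit 69946683049) (nat_lit 76) (nat_lit 65544354270) (nat_lit 1) (nat_lit 4) (nat_lit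 2) (nat_lit 5) (nat_lit 2) (nat_lit 4) (nat_lit 327) (nat_lit 240) (nat_lit 213)) (XT.lf (nat_lit 0) (nat_lit 84814623592) (nat_lit 76) (nat_lit 72294407965) (nat_lit 76) (nat_lit 67845414108) (nat_lit 1) (nat_lit 4) (nat_lit 2) (nat_lit 5) (nat_lit 2) (nat_lit 4) (nat_lit 328) (nat_lit 240) (nat_lit 212))))))) (XT.nd (nat_lit 858) (nat_lit 0) (nat_lit 0) (XT.nd (nat_lit 390) (nat_lit 0) (nat_lit 0) (XT.nd (nat_lit 156) (nat_lit 0) (nat_lit 0) (XT.nd (nat_lit 78) (nat_lit 0) (nat_lit 0) (XT.lf (nat_lit 0) (nat_lit 97542854644) (nat_lit 76) (nat_lit 74870896227) (nat_lit 76) (nat_lit 70378693965) (nat_lit 1) (nat_lit 4) (nat_lit 2) (nat_lit 5) (nat_lit 2) (nat_lit 4) (nat_lit 329) (nat_lit 240) (nat_lit 211)) (XT.lf (nat_lit 0) (nat_lit 111209002900) (nat_lit 76) (nat_lit 77691415913) (nat_lit 76) (nat_lit 73159205868) (nat_lit 1) (nat_lit 4) (nat_lit 2) (nat_lit 5) (nat_lit 2) (nat_lit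 4) (nat_lit 330) (nat_lit 240) (nat_lit 210))) (XT.nd (nat_lit 78) (nat_lit 0) (nat_lit 0) (XT.lf (nat_lit 0) (nat_lit 125894052944) (nat_lit 76) (nat_lit 80772681213) (nat_lit 76) (nat_lit 76203426926) (nat_lit 1) (nat_lit 4) (nat_lit 2) (nat_lit 5) (nat_lit 2) (nat_lit 4) (nat_lit 331) (nat_lit 240) (nat_lit 209)) (XT.nd (nat_lit 78) (nat_lit 0) (nat_lit 0) (XT.lf (nat_lit 0) (nat_lit 141685027294) (nat_lit 76) (nat_lit 84132951479) (nat_lit 76) (nat_lit 79529396967) (nat_lit 1) (nat_lit 4) (nat_lit 2) (nat_lit 5) (nat_lit 2) (nat_lit 4) (nat_lit 332) (nat_lit 240) (nat_lit 208)) (XT.lf (nat_lit 0) (nat_lit 158675502093) (nat_lit 76) (nat_lit 87792139422) (nat_lit 76) (nat_lit 83156825443) (nat_lit 1) (nat_lit 4) (nat_lit 2) (nat_lit 5) (nat_lit 2) (nat_lit 4) (nat_lit 333) (nat_lit 240) (nat_lit 207))))) (XT.nd (nat_lit 234) (nat_lit 0) (nat_lit 0) (XT.nd (nat_lit 78) (nat_lit 0) (nat_lit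 0) (XT.lf (nat_lit 0) (nat_lit 176966161638) (nat_lit 76) (nat_lit 91771929120) (nat_lit 76) (nat_lit 87107208226) (nat_lit 1) (nat_lit 4) (nat_lit 2) (nat_lit 5) (nat_lit 2) (nat_lit 4) (nat_lit 334) (nat_lit 240) (nat_lit 206)) (XT.nd (nat_lit 78) (nat_lit 0) (nat_lit 0) (XT.lf (nat_lit 0) (nat_lit 196665395022) (nat_lit 76) (nat_lit 96095904511) (nat_lit 76) (nat_lit 91403954993) (nat_lit 1) (nat_lit 4) (nat_lit 2) (nat_lit 5) (nat_lit 2) (nat_lit 4) (nat_lit 335) (nat_lit 240) (nat_lit 205)) (XT.lf (nat_lit 0) (nat_lit 217889938442) (nat_lit 76) (nat_lit 100789689153) (nat_lit 76) (nat_lit 96072527945) (nat_lit 1) (nat_lit 4) (nat_lit 2) (nat_lit 5) (nat_lit 2) (nat_lit 4) (nat_lit 336) (nat_lit 240) (nat_lit 204)))) (XT.nd (nat_lit 78) (nat_lit 0) (nat_lit 0) (XT.lf (nat_lit 0) (nat_lit 240765566972) (nat_lit 76) (nat_lit 105881098066) (nat_lit 76) (nat_lit 101140592702) (nat_lit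 1) (nat_lit 4) (nat_lit 2) (nat_lit 5) (nat_lit 2) (nat_lit 4) (nat_lit 337) (nat_lit 240) (nat_lit 203)) (XT.nd (nat_lit 78) (nat_lit 0) (nat_lit 0) (XT.lf (nat_lit 0) (nat_lit 265427839890) (nat_lit 76) (nat_lit 111400302562) (nat_lit 76) (nat_lit 106638182238) (nat_lit 1) (nat_lit 4) (nat_lit 2) (nat_lit 5) (nat_lit 2) (nat_lit 4) (nat_lit 338) (nat_lit 240) (nat_lit 202)) (XT.lf (nat_lit 0) (nat_lit 292022904000) (nat_lit 76) (nat_lit 117380009039) (nat_lit 76) (nat_lit 112597874863) (nat_lit 1) (nat_lit 4) (nat_lit 2) (nat_lit 5) (nat_lit 2) (nat_lit 4) (nat_lit 339) (nat_lit 240) (nat_lit 201)))))) (XT.nd (nat_lit 390) (nat_lit 0) (nat_lit 0) (XT.nd (nat_lit 156) (nat_lit 0) (nat_lit 0) (XT.nd (nat_lit 78) (nat_lit 0) (nat_lit 0) (XT.lf (nat_lit 0) (nat_lit 320708359681) (nat_lit 76) (nat_lit 123855652794) (nat_lit 76) (nat_lit 119054987274) (nat_lit 1) (nat_lit 4) (nat_lit 2) (nat_lit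 5) (nat_lit 2) (nat_lit 4) (nat_lit 340) (nat_lit 240) (nat_lit 200)) (XT.lf (nat_lit 0) (nat_lit 351654194819) (nat_lit 76) (nat_lit 130865608012) (nat_lit 76) (nat_lit 126047783840) (nat_lit 1) (nat_lit 4) (nat_lit 2) (nat_lit 5) (nat_lit 2) (nat_lit 4) (nat_lit 341) (nat_lit 240) (nat_lit 199))) (XT.nd (nat_lit 78) (nat_lit 0) (nat_lit 0) (XT.lf (nat_lit 0) (nat_lit 385043792140) (nat_lit 76) (nat_lit 138451415168) (nat_lit 76) (nat_lit 133617703355) (nat_lit 1) (nat_lit 4) (nat_lit 2) (nat_lit 5) (nat_lit 2) (nat_lit 4) (nat_lit 342) (nat_lit 240) (nat_lit 198)) (XT.nd (nat_lit 78) (nat_lit 0) (nat_lit 0) (XT.lf (nat_lit 0) (nat_lit 421075015926) (nat_lit 76) (nat_lit 146658027194) (nat_lit 76) (nat_lit 141809604603) (nat_lit 1) (nat_lit 4) (nat_lit 2) (nat_lit 5) (nat_lit 2) (nat_lit 4) (nat_lit 343) (nat_lit 240) (nat_lit 197)) (XT.lf (nat_lit 0) (nat_lit 459961384539) (nat_lit 76)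 (nat_lit 155534075866) (nat_lit 76) (nat_lit 150672032183) (nat_lit 1) (nat_lit 4) (nat_lit 2) (nat_lit 5) (nat_lit 2) (nat_lit 4) (nat_lit 344) (nat_lit 240) (nat_lit 196))))) (XT.nd (nat_lit 234) (nat_lit 0) (nat_lit 0) (XT.nd (nat_lit 78) (nat_lit 0) (nat_lit 0) (XT.lf (nat_lit 0) (nat_lit 501933335719) (nat_lit 76) (nat_lit 165132159988) (nat_lit 76) (nat_lit 160257504184) (nat_lit 1) (nat_lit 4) (nat_lit 2) (nat_lit 5) (nat_lit 2) (nat_lit 4) (nat_lit 345) (nat_lit 240) (nat_lit 195)) (XT.nd (nat_lit 78) (nat_lit 0) (nat_lit 0) (XT.lf (nat_lit 0) (nat_lit 547239592140) (nat_lit 76) (nat_lit 175509157098) (nat_lit 76) (nat_lit 170622823404) (nat_lit 1) (nat_lit 4) (nat_lit 2) (nat_lit 5) (nat_lit 2) (nat_lit 4) (nat_lit 346) (nat_lit 240) (nat_lit 194)) (XT.lf (nat_lit 0) (nat_lit 596148635321) (nat_lit 76) (nat_lit 186726560512) (nat_lit 76) (nat_lit 181829413956) (nat_lit 1) (nat_lit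 4) (nat_lit 2) (nat_lit 5) (nat_lit 2) (nat_lit 4) (nat_lit 347) (nat_lit 240) (nat_lit 193)))) (XT.nd (nat_lit 78) (nat_lit 0) (nat_lit 0) (XT.lf (nat_lit 0) (nat_lit 648950296629) (nat_lit 76) (nat_lit 198850843731) (nat_lit 76) (nat_lit 193943685267) (nat_lit 1) (nat_lit 4) (nat_lit 2) (nat_lit 5) (nat_lit 2) (nat_lit 4) (nat_lit 348) (nat_lit 240) (nat_lit 192)) (XT.nd (nat_lit 78) (nat_lit 0) (nat_lit 0) (XT.lf (nat_lit 0) (nat_lit 705957474799) (nat_lit 76) (nat_lit 211953854359) (nat_lit 76) (nat_lit 207037425609) (nat_lit 1) (nat_lit 4) (nat_lit 2) (nat_lit 5) (nat_lit 2) (nat_lit 4) (nat_lit 349) (nat_lit 240) (nat_lit 191)) (XT.lf (nat_lit 0) (nat_lit 767507990144) (nat_lit 76) (nat_lit 226113239867) (nat_lit 76) (nat_lit 221188227519) (nat_lit 1) (nat_lit 4) (nat_lit 2) (nat_lit 5) (nat_lit 2) (nat_lit 4) (nat_lit 350) (nat_lit 240) (nat_lit 190))))))))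
noncomputable def xc16 : XT := (XT.nd (nat_lit 1638) (nat_lit 76) (nat_lit 0) (XT.nd (nat_lit 780) (nat_lit 152) (nat_lit 0) (XT.nd (nat_lit 390) (nat_lit 76) (nat_lit 0) (XT.nd (nat_lit 156) (nat_lit 152) (nat_lit 0) (XT.nd (nat_lit 78) (nat_lit 76) (nat_lit 0) (XT.lf (nat_lit 0) (nat_lit 4715568530) (nat_lit 152) (nat_lit 3239310774) (nat_lit 0) (nat_lit 4715568530) (nat_lit 8) (nat_lit 5) (nat_lit 10) (nat_lit 4) (nat_lit 8) (nat_lit 4) (nat_lit 298) (nat_lit 241) (nat_lit 241)) (XT.lf (nat_lit 0) (nat_lit 5267913462) (nat_lit 76) (nat_lit 11103393081) (nat_lit 76) (nat_lit 10659543576) (nat_lit 7) (nat_lit 4) (nat_lit 8) (nat_lit 5) (nat_lit 8) (nat_lit 4) (nat_lit 299) (nat_lit 241) (nat_lit 240))) (XT.nd (nat_lit 78) (nat_lit 152) (nat_lit 0) (XT.lf (nat_lit 0) (nat_lit 17576237066) (nat_lit 76) (nat_lit 6072832183) (nat_lit 76) (nat_lit 5218010912) (nat_lit 7) (nat_lit 4) (nat_lit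 8) (nat_lit 5) (nat_lit 8) (nat_lit 4) (nat_lit 300) (nat_lit 241) (nat_lit 239)) (XT.nd (nat_lit 78) (nat_lit 76) (nat_lit 0) (XT.lf (nat_lit 0) (nat_lit 326569060) (nat_lit 152) (nat_lit 565884107) (nat_lit 76) (nat_lit 29972975324) (nat_lit 6) (nat_lit 5) (nat_lit 8) (nat_lit 5) (nat_lit 7) (nat_lit 4) (nat_lit 301) (nat_lit 241) (nat_lit 238)) (XT.lf (nat_lit 0) (nat_lit 6087702934) (nat_lit 152) (nat_lit 22358421866) (nat_lit 0) (nat_lit 4575614620) (nat_lit 5) (nat_lit 5) (nat_lit 7) (nat_lit 4) (nat_lit 5) (nat_lit 4) (nat_lit 302) (nat_lit 241) (nat_lit 237))))) (XT.nd (nat_lit 156) (nat_lit 76) (nat_lit 0) (XT.nd (nat_lit 78) (nat_lit 0) (nat_lit 0) (XT.lf (nat_lit 0) (nat_lit 12056398974) (nat_lit 152) (nat_lit 13073369149) (nat_lit 0) (nat_lit 10233603387) (nat_lit 5) (nat_lit 5) (nat_lit 7) (nat_lit 4) (nat_lit 5) (nat_lit 4) (nat_lit 303) (nat_lit 241) (nat_lit 236)) (XT.lf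 (nat_lit 0) (nat_lit 18244816747) (nat_lit 152) (nat_lit 3526215637) (nat_lit 0) (nat_lit 16134329240) (nat_lit 5) (nat_lit 5) (nat_lit 7) (nat_lit 4) (nat_lit 5) (nat_lit 4) (nat_lit 304) (nat_lit 241) (nat_lit 235))) (XT.nd (nat_lit 78) (nat_lit 0) (nat_lit 0) (XT.lf (nat_lit 0) (nat_lit 6549230677) (nat_lit 76) (nat_lit 18242649526) (nat_lit 76) (nat_lit 15865780611) (nat_lit 4) (nat_lit 4) (nat_lit 5) (nat_lit 5) (nat_lit 5) (nat_lit 4) (nat_lit 305) (nat_lit 241) (nat_lit 234)) (XT.nd (nat_lit 78) (nat_lit 0) (nat_lit 0) (XT.lf (nat_lit 0) (nat_lit 17130880278) (nat_lit 76) (nat_lit 14565606055) (nat_lit 76) (nat_lit 11942087690) (nat_lit 4) (nat_lit 4) (nat_lit 5) (nat_lit 5) (nat_lit 5) (nat_lit 4) (nat_lit 306) (nat_lit 241) (nat_lit 233)) (XT.lf (nat_lit 0) (nat_lit 28164846624) (nat_lit 76) (nat_lit 10777830254) (nat_lit 76) (nat_lit 7925932767) (nat_lit 4) (nat_lit 4) (nat_lit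 5) (nat_lit 5) (nat_lit 5) (nat_lit 4) (nat_lit 307) (nat_lit 241) (nat_lit 232)))))) (XT.nd (nat_lit 390) (nat_lit 0) (nat_lit 0) (XT.nd (nat_lit 156) (nat_lit 76) (nat_lit 0) (XT.nd (nat_lit 78) (nat_lit 76) (nat_lit 0) (XT.lf (nat_lit 0) (nat_lit 39716516181) (nat_lit 76) (nat_lit 6856876043) (nat_lit 76) (nat_lit 3793516407) (nat_lit 4) (nat_lit 4) (nat_lit 5) (nat_lit 5) (nat_lit 5) (nat_lit 4) (nat_lit 308) (nat_lit 241) (nat_lit 231)) (XT.lf (nat_lit 0) (nat_lit 464297995) (nat_lit 152) (nat_lit 2307347031) (nat_lit 76) (nat_lit 51382182181) (nat_lit 3) (nat_lit 5) (nat_lit 5) (nat_lit 5) (nat_lit 4) (nat_lit 4) (nat_lit 309) (nat_lit 241) (nat_lit 230))) (XT.nd (nat_lit 78) (nat_lit 0) (nat_lit 0) (XT.lf (nat_lit 0) (nat_lit 4889409815) (nat_lit 152) (nat_lit 51740496103) (nat_lit 0) (nat_lit 1612788260) (nat_lit 2) (nat_lit 5) (nat_lit 4) (nat_lit 4) (nat_lit 2) (nat_lit 4) (nat_lit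 310) (nat_lit 241) (nat_lit 229)) (XT.nd (nat_lit 78) (nat_lit 0) (nat_lit 0) (XT.lf (nat_lit 0) (nat_lit 9591582611) (nat_lit 152) (nat_lit 46915923226) (nat_lit 0) (nat_lit 6155089178) (nat_lit 2) (nat_lit 5) (nat_lit 4) (nat_lit 4) (nat_lit 2) (nat_lit 4) (nat_lit 311) (nat_lit 241) (nat_lit 228)) (XT.lf (nat_lit 0) (nat_lit 14517582601) (nat_lit 152) (nat_lit 41993134394) (nat_lit 0) (nat_lit 10933059652) (nat_lit 2) (nat_lit 5) (nat_lit 4) (nat_lit 4) (nat_lit 2) (nat_lit 4) (nat_lit 312) (nat_lit 241) (nat_lit 227))))) (XT.nd (nat_lit 234) (nat_lit 0) (nat_lit 0) (XT.nd (nat_lit 78) (nat_lit 0) (nat_lit 0) (XT.lf (nat_lit 0) (nat_lit 19696600898) (nat_lit 152) (nat_lit 36942957523) (nat_lit 0) (nat_lit 15975013581) (nat_lit 2) (nat_lit 5) (nat_lit 4) (nat_lit 4) (nat_lit 2) (nat_lit 4) (nat_lit 313) (nat_lit 241) (nat_lit 226)) (XT.nd (nat_lit 78) (nat_lit 0) (nat_lit 0) (XT.lf (nat_lit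 0) (nat_lit 25159327981) (nat_lit 152) (nat_lit 31735465639) (nat_lit 0) (nat_lit 21310829212) (nat_lit 2) (nat_lit 5) (nat_lit 4) (nat_lit 4) (nat_lit 2) (nat_lit 4) (nat_lit 314) (nat_lit 241) (nat_lit 225)) (XT.lf (nat_lit 0) (nat_lit 30938135564) (nat_lit 152) (nat_lit 26339799532) (nat_lit 0) (nat_lit 26972126193) (nat_lit 2) (nat_lit 5) (nat_lit 4) (nat_lit 4) (nat_lit 2) (nat_lit 4) (nat_lit 315) (nat_lit 241) (nat_lit 224)))) (XT.nd (nat_lit 78) (nat_lit 0) (nat_lit 0) (XT.lf (nat_lit 0) (nat_lit 37067268435) (nat_lit 152) (nat_lit 20723984884) (nat_lit 0) (nat_lit 32992452950) (nat_lit 2) (nat_lit 5) (nat_lit 4) (nat_lit 4) (nat_lit 2) (nat_lit 4) (nat_lit 316) (nat_lit 241) (nat_lit 223)) (XT.nd (nat_lit 78) (nat_lit 0) (nat_lit 0) (XT.lf (nat_lit 0) (nat_lit 43583047380) (nat_lit 152) (nat_lit 14854742793) (nat_lit 0) (nat_lit 39407485493) (nat_lit 2) (nat_lit 5) (nat_lit 4)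 (nat_lit 4) (nat_lit 2) (nat_lit 4) (nat_lit 317) (nat_lit 241) (nat_lit 222)) (XT.lf (nat_lit 0) (nat_lit 50524084422) (nat_lit 152) (nat_lit 8697292565) (nat_lit 0) (nat_lit 46255238830) (nat_lit 2) (nat_lit 5) (nat_lit 4) (nat_lit 4) (nat_lit 2) (nat_lit 4) (nat_lit 318) (nat_lit 241) (nat_lit 221))))))) (XT.nd (nat_lit 780) (nat_lit 0) (nat_lit 0) (XT.nd (nat_lit 390) (nat_lit 0) (nat_lit 0) (XT.nd (nat_lit 156) (nat_lit 0) (nat_lit 0) (XT.nd (nat_lit 78) (nat_lit 76) (nat_lit 0) (XT.lf (nat_lit 0) (nat_lit 57931511634) (nat_lit 152) (nat_lit 2215145607) (nat_lit 0) (nat_lit 53576292241) (nat_lit 2) (nat_lit 5) (nat_lit 4) (nat_lit 4) (nat_lit 2) (nat_lit 4) (nat_lit 319) (nat_lit 241) (nat_lit 220)) (XT.lf (nat_lit 0) (nat_lit 4783203177) (nat_lit 76) (nat_lit 61140700909) (nat_lit 76) (nat_lit 56705505774) (nat_lit 1) (nat_lit 4) (nat_lit 2) (nat_lit 5) (nat_lit 2) (nat_lit 4) (nat_lit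 320) (nat_lit 241) (nat_lit 219))) (XT.nd (nat_lit 78) (nat_lit 0) (nat_lit 0) (XT.lf (nat_lit 0) (nat_lit 12271815899) (nat_lit 76) (nat_lit 62243925480) (nat_lit 76) (nat_lit 57734678732) (nat_lit 1) (nat_lit 4) (nat_lit 2) (nat_lit 5) (nat_lit 2) (nat_lit 4) (nat_lit 321) (nat_lit 241) (nat_lit 218)) (XT.nd (nat_lit 78) (nat_lit 0) (nat_lit 0) (XT.lf (nat_lit 0) (nat_lit 20221826805) (nat_lit 76) (nat_lit 63500383146) (nat_lit 76) (nat_lit 58922570089) (nat_lit 1) (nat_lit 4) (nat_lit 2) (nat_lit 5) (nat_lit 2) (nat_lit 4) (nat_lit 322) (nat_lit 241) (nat_lit 217)) (XT.lf (nat_lit 0) (nat_lit 28680347070) (nat_lit 76) (nat_lit 64917519580) (nat_lit 76) (nat_lit 60276219202) (nat_lit 1) (nat_lit 4) (nat_lit 2) (nat_lit 5) (nat_lit 2) (nat_lit 4) (nat_lit 323) (nat_lit 241) (nat_lit 216))))) (XT.nd (nat_lit 156) (nat_lit 0) (nat_lit 0) (XT.nd (nat_lit 78) (nat_lit 0) (nat_lit 0) (XT.lf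 (nat_lit 0) (nat_lit 37697501258) (nat_lit 76) (nat_lit 66503732629) (nat_lit 76) (nat_lit 61803647693) (nat_lit 1) (nat_lit 4) (nat_lit 2) (nat_lit 5) (nat_lit 2) (nat_lit 4) (nat_lit 324) (nat_lit 241) (nat_lit 215)) (XT.lf (nat_lit 0) (nat_lit 47326724358) (nat_lit 76) (nat_lit 68268422074) (nat_lit 76) (nat_lit 63513906992) (nat_lit 1) (nat_lit 4) (nat_lit 2) (nat_lit 5) (nat_lit 2) (nat_lit 4) (nat_lit 325) (nat_lit 241) (nat_lit 214))) (XT.nd (nat_lit 78) (nat_lit 0) (nat_lit 0) (XT.lf (nat_lit 0) (nat_lit 57625078433) (nat_lit 76) (nat_lit 70222045334) (nat_lit 76) (nat_lit 65417131968) (nat_lit 1) (nat_lit 4) (nat_lit 2) (nat_lit 5) (nat_lit 2) (nat_lit 4) (nat_lit 326) (nat_lit 241) (nat_lit 213)) (XT.nd (nat_lit 78) (nat_lit 0) (nat_lit 0) (XT.lf (nat_lit 0) (nat_lit 68653590765) (nat_lit 76) (nat_lit 72376179435) (nat_lit 76) (nat_lit 67524600992) (nat_lit 1) (nat_lit 4) (nat_lit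 2) (nat_lit 5) (nat_lit 2) (nat_lit 4) (nat_lit 327) (nat_lit 241) (nat_lit 212)) (XT.lf (nat_lit 0) (nat_lit 80477615502) (nat_lit 76) (nat_lit 74743589616) (nat_lit 76) (nat_lit 69848802769) (nat_lit 1) (nat_lit 4) (nat_lit 2) (nat_lit 5) (nat_lit 2) (nat_lit 4) (nat_lit 328) (nat_lit 241) (nat_lit 211)))))) (XT.nd (nat_lit 390) (nat_lit 0) (nat_lit 0) (XT.nd (nat_lit 156) (nat_lit 0) (nat_lit 0) (XT.nd (nat_lit 78) (nat_lit 0) (nat_lit 0) (XT.lf (nat_lit 0) (nat_lit 93167220939) (nat_lit 76) (nat_lit 77338304976) (nat_lit 76) (nat_lit 72403510346) (nat_lit 1) (nat_lit 4) (nat_lit 2) (nat_lit 5) (nat_lit 2) (nat_lit 4) (nat_lit 329) (nat_lit 241) (nat_lit 210)) (XT.lf (nat_lit 0) (nat_lit 106797604737) (nat_lit 76) (nat_lit 80175701604) (nat_lit 76) (nat_lit 75203862731) (nat_lit 1) (nat_lit 4) (nat_lit 2) (nat_lit 5) (nat_lit 2) (nat_lit 4) (nat_lit 330) (nat_lit 241) (nat_lit 209)))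 (XT.nd (nat_lit 78) (nat_lit 0) (nat_lit 0) (XT.lf (nat_lit 0) (nat_lit 121449539541) (nat_lit 76) (nat_lit 83272593703) (nat_lit 76) (nat_lit 78266454605) (nat_lit 1) (nat_lit 4) (nat_lit 2) (nat_lit 5) (nat_lit 2) (nat_lit 4) (nat_lit 331) (nat_lit 241) (nat_lit 208)) (XT.nd (nat_lit 78) (nat_lit 0) (nat_lit 0) (XT.lf (nat_lit 0) (nat_lit 137209851632) (nat_lit 76) (nat_lit 86647333227) (nat_lit 76) (nat_lit 81609434661) (nat_lit 1) (nat_lit 4) (nat_lit 2) (nat_lit 5) (nat_lit 2) (nat_lit 4) (nat_lit 332) (nat_lit 241) (nat_lit 207)) (XT.lf (nat_lit 0) (nat_lit 154171935452) (nat_lit 76) (nat_lit 90319918631) (nat_lit 76) (nat_lit 85252613151) (nat_lit 1) (nat_lit 4) (nat_lit 2) (nat_lit 5) (nat_lit 2) (nat_lit 4) (nat_lit 333) (nat_lit 241) (nat_lit 206))))) (XT.nd (nat_lit 234) (nat_lit 0) (nat_lit 0) (XT.nd (nat_lit 78) (nat_lit 0) (nat_lit 0) (XT.lf (nat_lit 0) (nat_lit 172436307052)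 (nat_lit 76) (nat_lit 94312113385) (nat_lit 76) (nat_lit 89217579281) (nat_lit 1) (nat_lit 4) (nat_lit 2) (nat_lit 5) (nat_lit 2) (nat_lit 4) (nat_lit 334) (nat_lit 241) (nat_lit 205)) (XT.nd (nat_lit 78) (nat_lit 0) (nat_lit 0) (XT.lf (nat_lit 0) (nat_lit 192111199746) (nat_lit 76) (nat_lit 98647574939) (nat_lit 76) (nat_lit 93527829146) (nat_lit 1) (nat_lit 4) (nat_lit 2) (nat_lit 5) (nat_lit 2) (nat_lit 4) (nat_lit 335) (nat_lit 241) (nat_lit 204)) (XT.lf (nat_lit 0) (nat_lit 213313205491) (nat_lit 76) (nat_lit 103351994918) (nat_lit 76) (nat_lit 98208904968) (nat_lit 1) (nat_lit 4) (nat_lit 2) (nat_lit 5) (nat_lit 2) (nat_lit 4) (nat_lit 336) (nat_lit 241) (nat_lit 203)))) (XT.nd (nat_lit 78) (nat_lit 0) (nat_lit 0) (XT.lf (nat_lit 0) (nat_lit 236167965803) (nat_lit 76) (nat_lit 108453251364) (nat_lit 76) (nat_lit 103288546455) (nat_lit 1) (nat_lit 4) (nat_lit 2) (nat_lit 5) (nat_lit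 2) (nat_lit 4) (nat_lit 337) (nat_lit 241) (nat_lit 202)) (XT.nd (nat_lit 78) (nat_lit 0) (nat_lit 0) (XT.lf (nat_lit 0) (nat_lit 260810916297) (nat_lit 76) (nat_lit 113981573948) (nat_lit 76) (nat_lit 108796855186) (nat_lit 1) (nat_lit 4) (nat_lit 2) (nat_lit 5) (nat_lit 2) (nat_lit 4) (nat_lit 338) (nat_lit 241) (nat_lit 201)) (XT.lf (nat_lit 0) (nat_lit 287388089273) (nat_lit 76) (nat_lit 119969723098) (nat_lit 76) (nat_lit 114766472992) (nat_lit 1) (nat_lit 4) (nat_lit 2) (nat_lit 5) (nat_lit 2) (nat_lit 4) (nat_lit 339) (nat_lit 241) (nat_lit 200))))))))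
noncomputable def xc17 : XT := (XT.nd (nat_lit 37986) (nat_lit 0) (nat_lit 0) (XT.nd (nat_lit 780) (nat_lit 0) (nat_lit 0) (XT.nd (nat_lit 390) (nat_lit 0) (nat_lit 0) (XT.nd (nat_lit 156) (nat_lit 0) (nat_lit 0) (XT.nd (nat_lit 78) (nat_lit 0) (nat_lit 0) (XT.lf (nat_lit 0) (nat_lit 316056979090) (nat_lit 76) (nat_lit 126453184142) (nat_lit 76) (nat_lit 121232775384) (nat_lit 1) (nat_lit 4) (nat_lit 2) (nat_lit 5) (nat_lit 2) (nat_lit 4) (nat_lit 340) (nat_lit 241) (nat_lit 199)) (XT.lf (nat_lit 0) (nat_lit 346987475465) (nat_lit 76) (nat_lit 133470377591) (nat_lit 76) (nat_lit 128234081193) (nat_lit 1) (nat_lit 4) (nat_lit 2) (nat_lit 5) (nat_lit 2) (nat_lit 4) (nat_lit 341) (nat_lit 241) (nat_lit 198))) (XT.nd (nat_lit 78) (nat_lit 0) (nat_lit 0) (XT.lf (nat_lit 0) (nat_lit 380362870228) (nat_lit 76) (nat_lit 141062886814) (nat_lit 76) (nat_lit 135811879637) (nat_lit 1) (nat_lit 4)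 (nat_lit 2) (nat_lit 5) (nat_lit 2) (nat_lit 4) (nat_lit 342) (nat_lit 241) (nat_lit 197)) (XT.nd (nat_lit 78) (nat_lit 0) (nat_lit 0) (XT.lf (nat_lit 0) (nat_lit 416380943496) (nat_lit 76) (nat_lit 149275704457) (nat_lit 76) (nat_lit 144011076188) (nat_lit 1) (nat_lit 4) (nat_lit 2) (nat_lit 5) (nat_lit 2) (nat_lit 4) (nat_lit 343) (nat_lit 241) (nat_lit 196)) (XT.lf (nat_lit 0) (nat_lit 455255135705) (nat_lit 76) (nat_lit 158157499069) (nat_lit 76) (nat_lit 152880258679) (nat_lit 1) (nat_lit 4) (nat_lit 2) (nat_lit 5) (nat_lit 2) (nat_lit 4) (nat_lit 344) (nat_lit 241) (nat_lit 195))))) (XT.nd (nat_lit 156) (nat_lit 0) (nat_lit 0) (XT.nd (nat_lit 78) (nat_lit 0) (nat_lit 0) (XT.lf (nat_lit 0) (nat_lit 497215812436) (nat_lit 76) (nat_lit 167760903508) (nat_lit 76) (nat_lit 162471985228) (nat_lit 1) (nat_lit 4) (nat_lit 2) (nat_lit 5) (nat_lit 2) (nat_lit 4) (nat_lit 345) (nat_lit 241)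 (nat_lit 194)) (XT.lf (nat_lit 0) (nat_lit 542511629552) (nat_lit 76) (nat_lit 178142826837) (nat_lit 76) (nat_lit 172843095695) (nat_lit 1) (nat_lit 4) (nat_lit 2) (nat_lit 5) (nat_lit 2) (nat_lit 4) (nat_lit 346) (nat_lit 241) (nat_lit 193))) (XT.nd (nat_lit 78) (nat_lit 0) (nat_lit 0) (XT.lf (nat_lit 0) (nat_lit 591411006711) (nat_lit 76) (nat_lit 189364791564) (nat_lit 76) (nat_lit 184055048514) (nat_lit 1) (nat_lit 4) (nat_lit 2) (nat_lit 5) (nat_lit 2) (nat_lit 4) (nat_lit 347) (nat_lit 241) (nat_lit 192)) (XT.nd (nat_lit 78) (nat_lit 0) (nat_lit 0) (XT.lf (nat_lit 0) (nat_lit 644203717998) (nat_lit 76) (nat_lit 201493298221) (nat_lit 76) (nat_lit 196174284885) (nat_lit 1) (nat_lit 4) (nat_lit 2) (nat_lit 5) (nat_lit 2) (nat_lit 4) (nat_lit 348) (nat_lit 241) (nat_lit 191)) (XT.lf (nat_lit 0) (nat_lit 701202609111) (nat_lit 76) (nat_lit 214600219440) (nat_lit 76) (nat_lit 209272622507)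 (nat_lit 1) (nat_lit 4) (nat_lit 2) (nat_lit 5) (nat_lit 2) (nat_lit 4) (nat_lit 349) (nat_lit 241) (nat_lit 190)))))) (XT.nd (nat_lit 36738) (nat_lit 0) (nat_lit 228) (XT.nd (nat_lit 36504) (nat_lit 0) (nat_lit 456) (XT.nd (nat_lit 36426) (nat_lit 0) (nat_lit 684) (XT.lf (nat_lit 0) (nat_lit 762745451256) (nat_lit 76) (nat_lit 228763225866) (nat_lit 76) (nat_lit 223427681157) (nat_lit 1) (nat_lit 4) (nat_lit 2) (nat_lit 5) (nat_lit 2) (nat_lit 4) (nat_lit 350) (nat_lit 241) (nat_lit 189)) (XT.lf (nat_lit 0) (nat_lit 8121202408) (nat_lit 76) (nat_lit 1526868021) (nat_lit 76) (nat_lit 1526868021) (nat_lit 10) (nat_lit 4) (nat_lit 11) (nat_lit 5) (nat_lit 11) (nat_lit 4) (nat_lit 296) (nat_lit 242) (nat_lit 242))) (XT.nd (nat_lit 78) (nat_lit 76) (nat_lit 0) (XT.lf (nat_lit 0) (nat_lit 3239605082) (nat_lit 152) (nat_lit 17788708880) (nat_lit 0) (nat_lit 2760247616) (nat_lit 8) (nat_lit 5)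 (nat_lit 10) (nat_lit 4) (nat_lit 8) (nat_lit 4) (nat_lit 297) (nat_lit 242) (nat_lit 241)) (XT.nd (nat_lit 78) (nat_lit 76) (nat_lit 0) (XT.lf (nat_lit 0) (nat_lit 9743841638) (nat_lit 152) (nat_lit 6784854931) (nat_lit 0) (nat_lit 8820634666) (nat_lit 8) (nat_lit 5) (nat_lit 10) (nat_lit 4) (nat_lit 8) (nat_lit 4) (nat_lit 298) (nat_lit 242) (nat_lit 240)) (XT.lf (nat_lit 0) (nat_lit 4658629768) (nat_lit 76) (nat_lit 11861560497) (nat_lit 76) (nat_lit 10527381760) (nat_lit 7) (nat_lit 4) (nat_lit 8) (nat_lit 5) (nat_lit 8) (nat_lit 4) (nat_lit 299) (nat_lit 242) (nat_lit 239))))) (XT.nd (nat_lit 234) (nat_lit 76) (nat_lit 0) (XT.nd (nat_lit 78) (nat_lit 152) (nat_lit 0) (XT.lf (nat_lit 0) (nat_lit 16695726657) (nat_lit 76) (nat_lit 6955113714) (nat_lit 76) (nat_lit 5240405566) (nat_lit 7) (nat_lit 4) (nat_lit 8) (nat_lit 5) (nat_lit 8) (nat_lit 4) (nat_lit 300) (nat_lit 242) (nat_lit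 238)) (XT.nd (nat_lit 78) (nat_lit 76) (nat_lit 0) (XT.lf (nat_lit 0) (nat_lit 166363679) (nat_lit 152) (nat_lit 1726004653) (nat_lit 76) (nat_lit 29004247604) (nat_lit 6) (nat_lit 5) (nat_lit 8) (nat_lit 5) (nat_lit 7) (nat_lit 4) (nat_lit 301) (nat_lit 242) (nat_lit 237)) (XT.lf (nat_lit 0) (nat_lit 5759023539) (nat_lit 152) (nat_lit 23822702043) (nat_lit 0) (nat_lit 3479697031) (nat_lit 5) (nat_lit 5) (nat_lit 7) (nat_lit 4) (nat_lit 5) (nat_lit 4) (nat_lit 302) (nat_lit 242) (nat_lit 236)))) (XT.nd (nat_lit 78) (nat_lit 76) (nat_lit 0) (XT.lf (nat_lit 0) (nat_lit 11603789795) (nat_lit 152) (nat_lit 14768756741) (nat_lit 0) (nat_lit 9036771367) (nat_lit 5) (nat_lit 5) (nat_lit 7) (nat_lit 4) (nat_lit 5) (nat_lit 4) (nat_lit 303) (nat_lit 242) (nat_lit 235)) (XT.nd (nat_lit 78) (nat_lit 76) (nat_lit 0) (XT.lf (nat_lit 0) (nat_lit 17677457768) (nat_lit 152) (nat_lit 5435591575) (nat_lit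 0) (nat_lit 14844057933) (nat_lit 5) (nat_lit 5) (nat_lit 7) (nat_lit 4) (nat_lit 5) (nat_lit 4) (nat_lit 304) (nat_lit 242) (nat_lit 234)) (XT.lf (nat_lit 0) (nat_lit 4372033473) (nat_lit 76) (nat_lit 19712245786) (nat_lit 76) (nat_lit 16632196500) (nat_lit 4) (nat_lit 4) (nat_lit 5) (nat_lit 5) (nat_lit 5) (nat_lit 4) (nat_lit 305) (nat_lit 242) (nat_lit 233))))))) (XT.nd (nat_lit 780) (nat_lit 76) (nat_lit 0) (XT.nd (nat_lit 390) (nat_lit 0) (nat_lit 0) (XT.nd (nat_lit 156) (nat_lit 152) (nat_lit 0) (XT.nd (nat_lit 78) (nat_lit 0) (nat_lit 0) (XT.lf (nat_lit 0) (nat_lit 14764156525) (nat_lit 76) (nat_lit 16123390367) (nat_lit 76) (nat_lit 12814961960) (nat_lit 4) (nat_lit 4) (nat_lit 5) (nat_lit 5) (nat_lit 5) (nat_lit 4) (nat_lit 306) (nat_lit 242) (nat_lit 232)) (XT.lf (nat_lit 0) (nat_lit 25622635324) (nat_lit 76) (nat_lit 12417270169) (nat_lit 76) (nat_lit 8897379612) (nat_lit 4)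 (nat_lit 4) (nat_lit 5) (nat_lit 5) (nat_lit 5) (nat_lit 4) (nat_lit 307) (nat_lit 242) (nat_lit 231))) (XT.nd (nat_lit 78) (nat_lit 152) (nat_lit 0) (XT.lf (nat_lit 0) (nat_lit 37011816413) (nat_lit 76) (nat_lit 8571922997) (nat_lit 76) (nat_lit 4856234154) (nat_lit 4) (nat_lit 4) (nat_lit 5) (nat_lit 5) (nat_lit 5) (nat_lit 4) (nat_lit 308) (nat_lit 242) (nat_lit 230)) (XT.nd (nat_lit 78) (nat_lit 152) (nat_lit 0) (XT.lf (nat_lit 0) (nat_lit 48999191234) (nat_lit 76) (nat_lit 4564561611) (nat_lit 76) (nat_lit 667578058) (nat_lit 4) (nat_lit 4) (nat_lit 5) (nat_lit 5) (nat_lit 5) (nat_lit 4) (nat_lit 309) (nat_lit 242) (nat_lit 229)) (XT.lf (nat_lit 0) (nat_lit 3372239911) (nat_lit 76) (nat_lit 255608350) (nat_lit 152) (nat_lit 54700460431) (nat_lit 2) (nat_lit 5) (nat_lit 3) (nat_lit 5) (nat_lit 4) (nat_lit 4) (nat_lit 310) (nat_lit 242) (nat_lit 228))))) (XT.nd (nat_lit 156) (nat_lit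 0) (nat_lit 0) (XT.nd (nat_lit 78) (nat_lit 0) (nat_lit 0) (XT.lf (nat_lit 0) (nat_lit 8252786722) (nat_lit 152) (nat_lit 50265846428) (nat_lit 0) (nat_lit 4233472420) (nat_lit 2) (nat_lit 5) (nat_lit 4) (nat_lit 4) (nat_lit 2) (nat_lit 4) (nat_lit 311) (nat_lit 242) (nat_lit 227)) (XT.lf (nat_lit 0) (nat_lit 13110968591) (nat_lit 152) (nat_lit 45471151378) (nat_lit 0) (nat_lit 8954589922) (nat_lit 2) (nat_lit 5) (nat_lit 4) (nat_lit 4) (nat_lit 2) (nat_lit 4) (nat_lit 312) (nat_lit 242) (nat_lit 226))) (XT.nd (nat_lit 78) (nat_lit 0) (nat_lit 0) (XT.lf (nat_lit 0) (nat_lit 18227192332) (nat_lit 152) (nat_lit 40539579861) (nat_lit 0) (nat_lit 13943902211) (nat_lit 2) (nat_lit 5) (nat_lit 4) (nat_lit 4) (nat_lit 2) (nat_lit 4) (nat_lit 313) (nat_lit 242) (nat_lit 225)) (XT.nd (nat_lit 78) (nat_lit 0) (nat_lit 0) (XT.lf (nat_lit 0) (nat_lit 23631776306) (nat_lit 152) (nat_lit 35441907751)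 (nat_lit 0) (nat_lit 19230975582) (nat_lit 2) (nat_lit 5) (nat_lit 4) (nat_lit 4) (nat_lit 2) (nat_lit 4) (nat_lit 314) (nat_lit 242) (nat_lit 224)) (XT.lf (nat_lit 0) (nat_lit 29356747678) (nat_lit 152) (nat_lit 30147926618) (nat_lit 0) (nat_lit 24847140840) (nat_lit 2) (nat_lit 5) (nat_lit 4) (nat_lit 4) (nat_lit 2) (nat_lit 4) (nat_lit 315) (nat_lit 242) (nat_lit 223)))))) (XT.nd (nat_lit 390) (nat_lit 0) (nat_lit 0) (XT.nd (nat_lit 156) (nat_lit 76) (nat_lit 0) (XT.nd (nat_lit 78) (nat_lit 0) (nat_lit 0) (XT.lf (nat_lit 0) (nat_lit 35436032205) (nat_lit 152) (nat_lit 24626264725) (nat_lit 0) (nat_lit 30825678965) (nat_lit 2) (nat_lit 5) (nat_lit 4) (nat_lit 4) (nat_lit 2) (nat_lit 4) (nat_lit 316) (nat_lit 242) (nat_lit 222)) (XT.lf (nat_lit 0) (nat_lit 41905655275) (nat_lit 152) (nat_lit 18844201110) (nat_lit 0) (nat_lit 37202018331) (nat_lit 2) (nat_lit 5) (nat_lit 4) (nat_lit 4)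 (nat_lit 2) (nat_lit 4) (nat_lit 317) (nat_lit 242) (nat_lit 221))) (XT.nd (nat_lit 78) (nat_lit 76) (nat_lit 0) (XT.lf (nat_lit 0) (nat_lit 48803955398) (nat_lit 152) (nat_lit 12767471693) (nat_lit 0) (nat_lit 44013944652) (nat_lit 2) (nat_lit 5) (nat_lit 4) (nat_lit 4) (nat_lit 2) (nat_lit 4) (nat_lit 318) (nat_lit 242) (nat_lit 220)) (XT.nd (nat_lit 78) (nat_lit 76) (nat_lit 0) (XT.lf (nat_lit 0) (nat_lit 56171811387) (nat_lit 152) (nat_lit 6360066227) (nat_lit 0) (nat_lit 51301824899) (nat_lit 2) (nat_lit 5) (nat_lit 4) (nat_lit 4) (nat_lit 2) (nat_lit 4) (nat_lit 319) (nat_lit 242) (nat_lit 219)) (XT.lf (nat_lit 0) (nat_lit 429739445) (nat_lit 76) (nat_lit 63629854604) (nat_lit 76) (nat_lit 58685816503) (nat_lit 1) (nat_lit 4) (nat_lit 2) (nat_lit 5) (nat_lit 2) (nat_lit 4) (nat_lit 320) (nat_lit 242) (nat_lit 218))))) (XT.nd (nat_lit 234) (nat_lit 0) (nat_lit 0) (XT.nd (nat_lit 78)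 (nat_lit 0) (nat_lit 0) (XT.lf (nat_lit 0) (nat_lit 7852154651) (nat_lit 76) (nat_lit 64764317218) (nat_lit 76) (nat_lit 59751712809) (nat_lit 1) (nat_lit 4) (nat_lit 2) (nat_lit 5) (nat_lit 2) (nat_lit 4) (nat_lit 321) (nat_lit 242) (nat_lit 217)) (XT.nd (nat_lit 78) (nat_lit 0) (nat_lit 0) (XT.lf (nat_lit 0) (nat_lit 15740871559) (nat_lit 76) (nat_lit 66049698996) (nat_lit 76) (nat_lit 60973607265) (nat_lit 1) (nat_lit 4) (nat_lit 2) (nat_lit 5) (nat_lit 2) (nat_lit 4) (nat_lit 322) (nat_lit 242) (nat_lit 216)) (XT.lf (nat_lit 0) (nat_lit 24142638123) (nat_lit 76) (nat_lit 67493617017) (nat_lit 76) (nat_lit 62358740729) (nat_lit 1) (nat_lit 4) (nat_lit 2) (nat_lit 5) (nat_lit 2) (nat_lit 4) (nat_lit 323) (nat_lit 242) (nat_lit 215)))) (XT.nd (nat_lit 78) (nat_lit 0) (nat_lit 0) (XT.lf (nat_lit 0) (nat_lit 33107242589) (nat_lit 76) (nat_lit 69104627832) (nat_lit 76) (nat_lit 63915321397)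 (nat_lit 1) (nat_lit 4) (nat_lit 2) (nat_lit 5) (nat_lit 2) (nat_lit 4) (nat_lit 324) (nat_lit 242) (nat_lit 214)) (XT.nd (nat_lit 78) (nat_lit 0) (nat_lit 0) (XT.lf (nat_lit 0) (nat_lit 42687808538) (nat_lit 76) (nat_lit 70892278171) (nat_lit 76) (nat_lit 65652573452) (nat_lit 1) (nat_lit 4) (nat_lit 2) (nat_lit 5) (nat_lit 2) (nat_lit 4) (nat_lit 325) (nat_lit 242) (nat_lit 213)) (XT.lf (nat_lit 0) (nat_lit 52941109695) (nat_lit 76) (nat_lit 72867161517) (nat_lit 76) (nat_lit 67580791721) (nat_lit 1) (nat_lit 4) (nat_lit 2) (nat_lit 5) (nat_lit 2) (nat_lit 4) (nat_lit 326) (nat_lit 242) (nat_lit 212))))))))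
noncomputable def xc18 : XT := (XT.nd (nat_lit 1638) (nat_lit 0) (nat_lit 0) (XT.nd (nat_lit 780) (nat_lit 0) (nat_lit 0) (XT.nd (nat_lit 390) (nat_lit 0) (nat_lit 0) (XT.nd (nat_lit 156) (nat_lit 0) (nat_lit 0) (XT.nd (nat_lit 78) (nat_lit 0) (nat_lit 0) (XT.lf (nat_lit 0) (nat_lit 63927906363) (nat_lit 76) (nat_lit 75040980884) (nat_lit 76) (nat_lit 69711402683) (nat_lit 1) (nat_lit 4) (nat_lit 2) (nat_lit 5) (nat_lit 2) (nat_lit 4) (nat_lit 327) (nat_lit 242) (nat_lit 211)) (XT.lf (nat_lit 0) (nat_lit 75713305485) (nat_lit 76) (nat_lit 77426618163) (nat_lit 76) (nat_lit 72057032180) (nat_lit 1) (nat_lit 4) (nat_lit 2) (nat_lit 5) (nat_lit 2) (nat_lit 4) (nat_lit 328) (nat_lit 242) (nat_lit 210))) (XT.nd (nat_lit 78) (nat_lit 0) (nat_lit 0) (XT.lf (nat_lit 0) (nat_lit 88367146464) (nat_lit 76) (nat_lit 80038210465) (nat_lit 76) (nat_lit 74631580239) (nat_lit 1) (nat_lit 4) (nat_lit 2)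 (nat_lit 5) (nat_lit 2) (nat_lit 4) (nat_lit 329) (nat_lit 242) (nat_lit 209)) (XT.nd (nat_lit 78) (nat_lit 0) (nat_lit 0) (XT.lf (nat_lit 0) (nat_lit 101964415023) (nat_lit 76) (nat_lit 82891233891) (nat_lit 76) (nat_lit 77450303441) (nat_lit 1) (nat_lit 4) (nat_lit 2) (nat_lit 5) (nat_lit 2) (nat_lit 4) (nat_lit 330) (nat_lit 242) (nat_lit 208)) (XT.lf (nat_lit 0) (nat_lit 116585687568) (nat_lit 76) (nat_lit 86002595248) (nat_lit 76) (nat_lit 80529905330) (nat_lit 1) (nat_lit 4) (nat_lit 2) (nat_lit 5) (nat_lit 2) (nat_lit 4) (nat_lit 331) (nat_lit 242) (nat_lit 207))))) (XT.nd (nat_lit 156) (nat_lit 0) (nat_lit 0) (XT.nd (nat_lit 78) (nat_lit 0) (nat_lit 0) (XT.lf (nat_lit 0) (nat_lit 132317608679) (nat_lit 76) (nat_lit 89390732233) (nat_lit 76) (nat_lit 83888635401) (nat_lit 1) (nat_lit 4) (nat_lit 2) (nat_lit 5) (nat_lit 2) (nat_lit 4) (nat_lit 332) (nat_lit 242) (nat_lit 206)) (XT.lf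 (nat_lit 0) (nat_lit 149253404554) (nat_lit 76) (nat_lit 93075722694) (nat_lit 76) (nat_lit 87546397237) (nat_lit 1) (nat_lit 4) (nat_lit 2) (nat_lit 5) (nat_lit 2) (nat_lit 4) (nat_lit 333) (nat_lit 242) (nat_lit 205))) (XT.nd (nat_lit 78) (nat_lit 0) (nat_lit 0) (XT.lf (nat_lit 0) (nat_lit 167493435465) (nat_lit 76) (nat_lit 97079403611) (nat_lit 76) (nat_lit 91524866465) (nat_lit 1) (nat_lit 4) (nat_lit 2) (nat_lit 5) (nat_lit 2) (nat_lit 4) (nat_lit 334) (nat_lit 242) (nat_lit 204)) (XT.nd (nat_lit 78) (nat_lit 0) (nat_lit 0) (XT.lf (nat_lit 0) (nat_lit 187145790484) (nat_lit 76) (nat_lit 101425500502) (nat_lit 76) (nat_lit 95847619199) (nat_lit 1) (nat_lit 4) (nat_lit 2) (nat_lit 5) (nat_lit 2) (nat_lit 4) (nat_lit 335) (nat_lit 242) (nat_lit 203)) (XT.lf (nat_lit 0) (nat_lit 208326928011) (nat_lit 76) (nat_lit 106139768014) (nat_lit 76) (nat_lit 100540271751) (nat_lit 1) (nat_lit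 4) (nat_lit 2) (nat_lit 5) (nat_lit 2) (nat_lit 4) (nat_lit 336) (nat_lit 242) (nat_lit 202)))))) (XT.nd (nat_lit 390) (nat_lit 0) (nat_lit 0) (XT.nd (nat_lit 156) (nat_lit 0) (nat_lit 0) (XT.nd (nat_lit 78) (nat_lit 0) (nat_lit 0) (XT.lf (nat_lit 0) (nat_lit 231162365898) (nat_lit 76) (nat_lit 111250142548) (nat_lit 76) (nat_lit 105630632433) (nat_lit 1) (nat_lit 4) (nat_lit 2) (nat_lit 5) (nat_lit 2) (nat_lit 4) (nat_lit 337) (nat_lit 242) (nat_lit 201)) (XT.lf (nat_lit 0) (nat_lit 255787425259) (nat_lit 76) (nat_lit 116786907804) (nat_lit 76) (nat_lit 111148866345) (nat_lit 1) (nat_lit 4) (nat_lit 2) (nat_lit 5) (nat_lit 2) (nat_lit 4) (nat_lit 338) (nat_lit 242) (nat_lit 200))) (XT.nd (nat_lit 78) (nat_lit 0) (nat_lit 0) (XT.lf (nat_lit 0) (nat_lit 282348032371) (nat_lit 76) (nat_lit 122782874243) (nat_lit 76) (nat_lit 117127674133) (nat_lit 1) (nat_lit 4) (nat_lit 2) (nat_lit 5) (nat_lit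 2) (nat_lit 4) (nat_lit 339) (nat_lit 242) (nat_lit 199)) (XT.nd (nat_lit 78) (nat_lit 0) (nat_lit 0) (XT.lf (nat_lit 0) (nat_lit 311001583425) (nat_lit 76) (nat_lit 129273573519) (nat_lit 76) (nat_lit 123602485768) (nat_lit 1) (nat_lit 4) (nat_lit 2) (nat_lit 5) (nat_lit 2) (nat_lit 4) (nat_lit 340) (nat_lit 242) (nat_lit 198)) (XT.lf (nat_lit 0) (nat_lit 341917877241) (nat_lit 76) (nat_lit 136297469034) (nat_lit 76) (nat_lit 130611670505) (nat_lit 1) (nat_lit 4) (nat_lit 2) (nat_lit 5) (nat_lit 2) (nat_lit 4) (nat_lit 341) (nat_lit 242) (nat_lit 197))))) (XT.nd (nat_lit 234) (nat_lit 0) (nat_lit 0) (XT.nd (nat_lit 78) (nat_lit 0) (nat_lit 0) (XT.lf (nat_lit 0) (nat_lit 375280121487) (nat_lit 76) (nat_lit 143896183874) (nat_lit 76) (nat_lit 138196764253) (nat_lit 1) (nat_lit 4) (nat_lit 2) (nat_lit 5) (nat_lit 2) (nat_lit 4) (nat_lit 342) (nat_lit 242) (nat_lit 196)) (XT.nd (nat_lit 78)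 (nat_lit 0) (nat_lit 0) (XT.lf (nat_lit 0) (nat_lit 411286018351) (nat_lit 76) (nat_lit 152114747458) (nat_lit 76) (nat_lit 146402715716) (nat_lit 1) (nat_lit 4) (nat_lit 2) (nat_lit 5) (nat_lit 2) (nat_lit 4) (nat_lit 343) (nat_lit 242) (nat_lit 195)) (XT.lf (nat_lit 0) (nat_lit 450148936110) (nat_lit 76) (nat_lit 161001862386) (nat_lit 76) (nat_lit 155278152754) (nat_lit 1) (nat_lit 4) (nat_lit 2) (nat_lit 5) (nat_lit 2) (nat_lit 4) (nat_lit 344) (nat_lit 242) (nat_lit 194)))) (XT.nd (nat_lit 78) (nat_lit 0) (nat_lit 0) (XT.lf (nat_lit 0) (nat_lit 492099173537) (nat_lit 76) (nat_lit 170610193044) (nat_lit 76) (nat_lit 164875670550) (nat_lit 1) (nat_lit 4) (nat_lit 2) (nat_lit 5) (nat_lit 2) (nat_lit 4) (nat_lit 345) (nat_lit 242) (nat_lit 193)) (XT.nd (nat_lit 78) (nat_lit 0) (nat_lit 0) (XT.lf (nat_lit 0) (nat_lit 537385324630) (nat_lit 76) (nat_lit 180996677686) (nat_lit 76) (nat_lit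 175252143283) (nat_lit 1) (nat_lit 4) (nat_lit 2) (nat_lit 5) (nat_lit 2) (nat_lit 4) (nat_lit 346) (nat_lit 242) (nat_lit 192)) (XT.lf (nat_lit 0) (nat_lit 586275751768) (nat_lit 76) (nat_lit 192222865852) (nat_lit 76) (nat_lit 186469061163) (nat_lit 1) (nat_lit 4) (nat_lit 2) (nat_lit 5) (nat_lit 2) (nat_lit 4) (nat_lit 347) (nat_lit 242) (nat_lit 191))))))) (XT.nd (nat_lit 36972) (nat_lit 0) (nat_lit 76) (XT.nd (nat_lit 36582) (nat_lit 0) (nat_lit 456) (XT.nd (nat_lit 156) (nat_lit 0) (nat_lit 0) (XT.nd (nat_lit 78) (nat_lit 0) (nat_lit 0) (XT.lf (nat_lit 0) (nat_lit 639060175999) (nat_lit 76) (nat_lit 204355283100) (nat_lit 76) (nat_lit 198592894814) (nat_lit 1) (nat_lit 4) (nat_lit 2) (nat_lit 5) (nat_lit 2) (nat_lit 4) (nat_lit 348) (nat_lit 242) (nat_lit 190)) (XT.lf (nat_lit 0) (nat_lit 696051393912) (nat_lit 76) (nat_lit 217465825237) (nat_lit 76) (nat_lit 211695489175) (nat_lit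 1) (nat_lit 4) (nat_lit 2) (nat_lit 5) (nat_lit 2) (nat_lit 4) (nat_lit 349) (nat_lit 242) (nat_lit 189))) (XT.nd (nat_lit 36270) (nat_lit 0) (nat_lit 684) (XT.lf (nat_lit 0) (nat_lit 757587131242) (nat_lit 76) (nat_lit 231632184365) (nat_lit 76) (nat_lit 225854489251) (nat_lit 1) (nat_lit 4) (nat_lit 2) (nat_lit 5) (nat_lit 2) (nat_lit 4) (nat_lit 350) (nat_lit 242) (nat_lit 188)) (XT.nd (nat_lit 78) (nat_lit 76) (nat_lit 0) (XT.lf (nat_lit 0) (nat_lit 2721970770) (nat_lit 152) (nat_lit 4456461090) (nat_lit 0) (nat_lit 2721970770) (nat_lit 11) (nat_lit 5) (nat_lit 13) (nat_lit 4) (nat_lit 11) (nat_lit 4) (nat_lit 294) (nat_lit 243) (nat_lit 243)) (XT.lf (nat_lit 0) (nat_lit 3187801863) (nat_lit 76) (nat_lit 9190687327) (nat_lit 76) (nat_lit 8647095960) (nat_lit 10) (nat_lit 4) (nat_lit 11) (nat_lit 5) (nat_lit 11) (nat_lit 4) (nat_lit 295) (nat_lit 243) (nat_lit 242))))) (XT.nd (nat_lit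 156) (nat_lit 76) (nat_lit 0) (XT.nd (nat_lit 78) (nat_lit 152) (nat_lit 0) (XT.lf (nat_lit 0) (nat_lit 15934574638) (nat_lit 76) (nat_lit 3735411494) (nat_lit 76) (nat_lit 2688494788) (nat_lit 10) (nat_lit 4) (nat_lit 11) (nat_lit 5) (nat_lit 11) (nat_lit 4) (nat_lit 296) (nat_lit 243) (nat_lit 241)) (XT.lf (nat_lit 0) (nat_lit 3410673138) (nat_lit 152) (nat_lit 18425674315) (nat_lit 0) (nat_lit 1969760102) (nat_lit 8) (nat_lit 5) (nat_lit 10) (nat_lit 4) (nat_lit 8) (nat_lit 4) (nat_lit 297) (nat_lit 243) (nat_lit 240))) (XT.nd (nat_lit 78) (nat_lit 76) (nat_lit 0) (XT.lf (nat_lit 0) (nat_lit 9760601463) (nat_lit 152) (nat_lit 7705369795) (nat_lit 0) (nat_lit 7908716663) (nat_lit 8) (nat_lit 5) (nat_lit 10) (nat_lit 4) (nat_lit 8) (nat_lit 4) (nat_lit 298) (nat_lit 243) (nat_lit 239)) (XT.nd (nat_lit 78) (nat_lit 0) (nat_lit 0) (XT.lf (nat_lit 0) (nat_lit 3436451810) (nat_lit 76) (nat_lit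 12938538667) (nat_lit 76) (nat_lit 10706124455) (nat_lit 7) (nat_lit 4) (nat_lit 8) (nat_lit 5) (nat_lit 8) (nat_lit 4) (nat_lit 299) (nat_lit 243) (nat_lit 238)) (XT.lf (nat_lit 0) (nat_lit 15222412851) (nat_lit 76) (nat_lit 8147012361) (nat_lit 76) (nat_lit 5562256101) (nat_lit 7) (nat_lit 4) (nat_lit 8) (nat_lit 5) (nat_lit 8) (nat_lit 4) (nat_lit 300) (nat_lit 243) (nat_lit 237)))))) (XT.nd (nat_lit 390) (nat_lit 152) (nat_lit 0) (XT.nd (nat_lit 156) (nat_lit 76) (nat_lit 0) (XT.nd (nat_lit 78) (nat_lit 152) (nat_lit 0) (XT.lf (nat_lit 0) (nat_lit 27467581735) (nat_lit 76) (nat_lit 3193492278) (nat_lit 76) (nat_lit 282493381) (nat_lit 7) (nat_lit 4) (nat_lit 8) (nat_lit 5) (nat_lit 8) (nat_lit 4) (nat_lit 301) (nat_lit 243) (nat_lit 236)) (XT.lf (nat_lit 0) (nat_lit 5146275842) (nat_lit 152) (nat_lit 25884828057) (nat_lit 0) (nat_lit 2086204020) (nat_lit 5) (nat_lit 5) (nat_lit 7)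 (nat_lit 4) (nat_lit 5) (nat_lit 4) (nat_lit 302) (nat_lit 243) (nat_lit 235))) (XT.nd (nat_lit 78) (nat_lit 76) (nat_lit 0) (XT.lf (nat_lit 0) (nat_lit 10876292298) (nat_lit 152) (nat_lit 17044871101) (nat_lit 0) (nat_lit 7549839069) (nat_lit 5) (nat_lit 5) (nat_lit 7) (nat_lit 4) (nat_lit 5) (nat_lit 4) (nat_lit 303) (nat_lit 243) (nat_lit 234)) (XT.nd (nat_lit 78) (nat_lit 76) (nat_lit 0) (XT.lf (nat_lit 0) (nat_lit 16843710457) (nat_lit 152) (nat_lit 7909843293) (nat_lit 0) (nat_lit 13270607777) (nat_lit 5) (nat_lit 5) (nat_lit 7) (nat_lit 4) (nat_lit 5) (nat_lit 4) (nat_lit 304) (nat_lit 243) (nat_lit 233)) (XT.lf (nat_lit 0) (nat_lit 1626445270) (nat_lit 76) (nat_lit 21482840894) (nat_lit 76) (nat_lit 17681359092) (nat_lit 4) (nat_lit 4) (nat_lit 5) (nat_lit 5) (nat_lit 5) (nat_lit 4) (nat_lit 305) (nat_lit 243) (nat_lit 232))))) (XT.nd (nat_lit 234) (nat_lit 152) (nat_lit 0) (XT.nd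 (nat_lit 78) (nat_lit 0) (nat_lit 0) (XT.lf (nat_lit 0) (nat_lit 11843080775) (nat_lit 76) (nat_lit 17975641078) (nat_lit 76) (nat_lit 13962697127) (nat_lit 4) (nat_lit 4) (nat_lit 5) (nat_lit 5) (nat_lit 5) (nat_lit 4) (nat_lit 306) (nat_lit 243) (nat_lit 231)) (XT.nd (nat_lit 78) (nat_lit 0) (nat_lit 0) (XT.lf (nat_lit 0) (nat_lit 22539071106) (nat_lit 76) (nat_lit 14345127919) (nat_lit 76) (nat_lit 10136385682) (nat_lit 4) (nat_lit 4) (nat_lit 5) (nat_lit 5) (nat_lit 5) (nat_lit 4) (nat_lit 307) (nat_lit 243) (nat_lit 230)) (XT.lf (nat_lit 0) (nat_lit 33777799909) (nat_lit 76) (nat_lit 10569787266) (nat_lit 76) (nat_lit 6179750319) (nat_lit 4) (nat_lit 4) (nat_lit 5) (nat_lit 5) (nat_lit 5) (nat_lit 4) (nat_lit 308) (nat_lit 243) (nat_lit 229)))) (XT.nd (nat_lit 78) (nat_lit 152) (nat_lit 0) (XT.lf (nat_lit 0) (nat_lit 45625867058) (nat_lit 76) (nat_lit 6627246730) (nat_lit 76) (nat_lit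 2069344311) (nat_lit 4) (nat_lit 4) (nat_lit 5) (nat_lit 5) (nat_lit 5) (nat_lit 4) (nat_lit 309) (nat_lit 243) (nat_lit 228)) (XT.nd (nat_lit 78) (nat_lit 76) (nat_lit 0) (XT.lf (nat_lit 0) (nat_lit 2148162355) (nat_lit 152) (nat_lit 309600583) (nat_lit 76) (nat_lit 55968940798) (nat_lit 3) (nat_lit 5) (nat_lit 5) (nat_lit 5) (nat_lit 4) (nat_lit 4) (nat_lit 310) (nat_lit 243) (nat_lit 227)) (XT.lf (nat_lit 0) (nat_lit 6665825470) (nat_lit 152) (nat_lit 54150198554) (nat_lit 0) (nat_lit 2039872140) (nat_lit 2) (nat_lit 5) (nat_lit 4) (nat_lit 4) (nat_lit 2) (nat_lit 4) (nat_lit 311) (nat_lit 243) (nat_lit 226))))))))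
noncomputable def xc19 : XT := (XT.nd (nat_lit 1638) (nat_lit 0) (nat_lit 0) (XT.nd (nat_lit 780) (nat_lit 0) (nat_lit 0) (XT.nd (nat_lit 390) (nat_lit 76) (nat_lit 0) (XT.nd (nat_lit 156) (nat_lit 0) (nat_lit 0) (XT.nd (nat_lit 78) (nat_lit 0) (nat_lit 0) (XT.lf (nat_lit 0) (nat_lit 11461212782) (nat_lit 152) (nat_lit 49474108858) (nat_lit 0) (nat_lit 6708348001) (nat_lit 2) (nat_lit 5) (nat_lit 4) (nat_lit 4) (nat_lit 2) (nat_lit 4) (nat_lit 312) (nat_lit 243) (nat_lit 225)) (XT.lf (nat_lit 0) (nat_lit 16519293414) (nat_lit 152) (nat_lit 44652357114) (nat_lit 0) (nat_lit 11648918030) (nat_lit 2) (nat_lit 5) (nat_lit 4) (nat_lit 4) (nat_lit 2) (nat_lit 4) (nat_lit 313) (nat_lit 243) (nat_lit 224))) (XT.nd (nat_lit 78) (nat_lit 0) (nat_lit 0) (XT.lf (nat_lit 0) (nat_lit 21870041177) (nat_lit 152) (nat_lit 39656369978) (nat_lit 0) (nat_lit 16890859678) (nat_lit 2) (nat_lit 5) (nat_lit 4)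 (nat_lit 4) (nat_lit 2) (nat_lit 4) (nat_lit 314) (nat_lit 243) (nat_lit 223)) (XT.nd (nat_lit 78) (nat_lit 0) (nat_lit 0) (XT.lf (nat_lit 0) (nat_lit 27545164205) (nat_lit 152) (nat_lit 34456541600) (nat_lit 0) (nat_lit 22465236305) (nat_lit 2) (nat_lit 5) (nat_lit 4) (nat_lit 4) (nat_lit 2) (nat_lit 4) (nat_lit 315) (nat_lit 243) (nat_lit 222)) (XT.lf (nat_lit 0) (nat_lit 33578292858) (nat_lit 152) (nat_lit 29022058183) (nat_lit 0) (nat_lit 28405081252) (nat_lit 2) (nat_lit 5) (nat_lit 4) (nat_lit 4) (nat_lit 2) (nat_lit 4) (nat_lit 316) (nat_lit 243) (nat_lit 221))))) (XT.nd (nat_lit 156) (nat_lit 76) (nat_lit 0) (XT.nd (nat_lit 78) (nat_lit 0) (nat_lit 0) (XT.lf (nat_lit 0) (nat_lit 40005179009) (nat_lit 152) (nat_lit 23320715379) (nat_lit 0) (nat_lit 34745593602) (nat_lit 2) (nat_lit 5) (nat_lit 4) (nat_lit 4) (nat_lit 2) (nat_lit 4) (nat_lit 317) (nat_lit 243) (nat_lit 220)) (XT.lf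 (nat_lit 0) (nat_lit 46863907908) (nat_lit 152) (nat_lit 17318727455) (nat_lit 0) (nat_lit 41524346760) (nat_lit 2) (nat_lit 5) (nat_lit 4) (nat_lit 4) (nat_lit 2) (nat_lit 4) (nat_lit 318) (nat_lit 243) (nat_lit 219))) (XT.nd (nat_lit 78) (nat_lit 76) (nat_lit 0) (XT.lf (nat_lit 0) (nat_lit 54195123877) (nat_lit 152) (nat_lit 10980527073) (nat_lit 0) (nat_lit 48781511115) (nat_lit 2) (nat_lit 5) (nat_lit 4) (nat_lit 4) (nat_lit 2) (nat_lit 4) (nat_lit 319) (nat_lit 243) (nat_lit 218)) (XT.nd (nat_lit 78) (nat_lit 76) (nat_lit 0) (XT.lf (nat_lit 0) (nat_lit 62042271156) (nat_lit 152) (nat_lit 4268554529) (nat_lit 0) (nat_lit 56560092087) (nat_lit 2) (nat_lit 5) (nat_lit 4) (nat_lit 4) (nat_lit 2) (nat_lit 4) (nat_lit 320) (nat_lit 243) (nat_lit 217)) (XT.lf (nat_lit 0) (nat_lit 2951428989) (nat_lit 76) (nat_lit 67546502450) (nat_lit 76) (nat_lit 62000836058) (nat_lit 1) (nat_lit 4) (nat_lit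 2) (nat_lit 5) (nat_lit 2) (nat_lit 4) (nat_lit 321) (nat_lit 243) (nat_lit 216)))))) (XT.nd (nat_lit 390) (nat_lit 0) (nat_lit 0) (XT.nd (nat_lit 156) (nat_lit 0) (nat_lit 0) (XT.nd (nat_lit 78) (nat_lit 0) (nat_lit 0) (XT.lf (nat_lit 0) (nat_lit 10783392197) (nat_lit 76) (nat_lit 68858665815) (nat_lit 76) (nat_lit 63254214865) (nat_lit 1) (nat_lit 4) (nat_lit 2) (nat_lit 5) (nat_lit 2) (nat_lit 4) (nat_lit 322) (nat_lit 243) (nat_lit 215)) (XT.lf (nat_lit 0) (nat_lit 19132609038) (nat_lit 76) (nat_lit 70327381602) (nat_lit 76) (nat_lit 64668500506) (nat_lit 1) (nat_lit 4) (nat_lit 2) (nat_lit 5) (nat_lit 2) (nat_lit 4) (nat_lit 323) (nat_lit 243) (nat_lit 214))) (XT.nd (nat_lit 78) (nat_lit 0) (nat_lit 0) (XT.lf (nat_lit 0) (nat_lit 28048556353) (nat_lit 76) (nat_lit 71961353310) (nat_lit 76) (nat_lit 66252073930) (nat_lit 1) (nat_lit 4) (nat_lit 2) (nat_lit 5) (nat_lit 2) (nat_lit 4)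 (nat_lit 324) (nat_lit 243) (nat_lit 213)) (XT.nd (nat_lit 78) (nat_lit 0) (nat_lit 0) (XT.lf (nat_lit 0) (nat_lit 37584069385) (nat_lit 76) (nat_lit 73770263735) (nat_lit 76) (nat_lit 68014319279) (nat_lit 1) (nat_lit 4) (nat_lit 2) (nat_lit 5) (nat_lit 2) (nat_lit 4) (nat_lit 325) (nat_lit 243) (nat_lit 212)) (XT.lf (nat_lit 0) (nat_lit 47795654877) (nat_lit 76) (nat_lit 75764832347) (nat_lit 76) (nat_lit 69965679486) (nat_lit 1) (nat_lit 4) (nat_lit 2) (nat_lit 5) (nat_lit 2) (nat_lit 4) (nat_lit 326) (nat_lit 243) (nat_lit 211))))) (XT.nd (nat_lit 234) (nat_lit 0) (nat_lit 0) (XT.nd (nat_lit 78) (nat_lit 0) (nat_lit 0) (XT.lf (nat_lit 0) (nat_lit 58743825930) (nat_lit 76) (nat_lit 77956878812) (nat_lit 76) (nat_lit 72117718168) (nat_lit 1) (nat_lit 4) (nat_lit 2) (nat_lit 5) (nat_lit 2) (nat_lit 4) (nat_lit 327) (nat_lit 243) (nat_lit 210)) (XT.nd (nat_lit 78) (nat_lit 0) (nat_lit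 0) (XT.lf (nat_lit 0) (nat_lit 70493460594) (nat_lit 76) (nat_lit 80359393033) (nat_lit 76) (nat_lit 74483188147) (nat_lit 1) (nat_lit 4) (nat_lit 2) (nat_lit 5) (nat_lit 2) (nat_lit 4) (nat_lit 328) (nat_lit 243) (nat_lit 209)) (XT.lf (nat_lit 0) (nat_lit 83114186333) (nat_lit 76) (nat_lit 82986612133) (nat_lit 76) (nat_lit 77076107022) (nat_lit 1) (nat_lit 4) (nat_lit 2) (nat_lit 5) (nat_lit 2) (nat_lit 4) (nat_lit 329) (nat_lit 243) (nat_lit 208)))) (XT.nd (nat_lit 78) (nat_lit 0) (nat_lit 0) (XT.lf (nat_lit 0) (nat_lit 96680792633) (nat_lit 76) (nat_lit 85854104818) (nat_lit 76) (nat_lit 79911840239) (nat_lit 1) (nat_lit 4) (nat_lit 2) (nat_lit 5) (nat_lit 2) (nat_lit 4) (nat_lit 330) (nat_lit 243) (nat_lit 207)) (XT.nd (nat_lit 78) (nat_lit 0) (nat_lit 0) (XT.lf (nat_lit 0) (nat_lit 111273674199) (nat_lit 76) (nat_lit 88978863636) (nat_lit 76) (nat_lit 83007192143) (nat_lit 1) (nat_lit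 4) (nat_lit 2) (nat_lit 5) (nat_lit 2) (nat_lit 4) (nat_lit 331) (nat_lit 243) (nat_lit 206)) (XT.lf (nat_lit 0) (nat_lit 126979307365) (nat_lit 76) (nat_lit 92379405677) (nat_lit 76) (nat_lit 86380505559) (nat_lit 1) (nat_lit 4) (nat_lit 2) (nat_lit 5) (nat_lit 2) (nat_lit 4) (nat_lit 332) (nat_lit 243) (nat_lit 205))))))) (XT.nd (nat_lit 858) (nat_lit 0) (nat_lit 0) (XT.nd (nat_lit 390) (nat_lit 0) (nat_lit 0) (XT.nd (nat_lit 156) (nat_lit 0) (nat_lit 0) (XT.nd (nat_lit 78) (nat_lit 0) (nat_lit 0) (XT.lf (nat_lit 0) (nat_lit 143890762551) (nat_lit 76) (nat_lit 96075882301) (nat_lit 76) (nat_lit 90051770494) (nat_lit 1) (nat_lit 4) (nat_lit 2) (nat_lit 5) (nat_lit 2) (nat_lit 4) (nat_lit 333) (nat_lit 243) (nat_lit 204)) (XT.lf (nat_lit 0) (nat_lit 162108255786) (nat_lit 76) (nat_lit 100090198555) (nat_lit 76) (nat_lit 94042742592) (nat_lit 1) (nat_lit 4) (nat_lit 2) (nat_lit 5) (nat_lit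 2) (nat_lit 4) (nat_lit 334) (nat_lit 243) (nat_lit 203))) (XT.nd (nat_lit 78) (nat_lit 0) (nat_lit 0) (XT.lf (nat_lit 0) (nat_lit 181739742587) (nat_lit 76) (nat_lit 104446142979) (nat_lit 76) (nat_lit 98377072056) (nat_lit 1) (nat_lit 4) (nat_lit 2) (nat_lit 5) (nat_lit 2) (nat_lit 4) (nat_lit 335) (nat_lit 243) (nat_lit 202)) (XT.nd (nat_lit 78) (nat_lit 0) (nat_lit 0) (XT.lf (nat_lit 0) (nat_lit 202901557690) (nat_lit 76) (nat_lit 109169528578) (nat_lit 76) (nat_lit 103080443803) (nat_lit 1) (nat_lit 4) (nat_lit 2) (nat_lit 5) (nat_lit 2) (nat_lit 4) (nat_lit 336) (nat_lit 243) (nat_lit 201)) (XT.lf (nat_lit 0) (nat_lit 225719104444) (nat_lit 76) (nat_lit 114288345785) (nat_lit 76) (nat_lit 108180729666) (nat_lit 1) (nat_lit 4) (nat_lit 2) (nat_lit 5) (nat_lit 2) (nat_lit 4) (nat_lit 337) (nat_lit 243) (nat_lit 200))))) (XT.nd (nat_lit 234) (nat_lit 0) (nat_lit 0) (XT.nd (nat_lit 78)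 (nat_lit 0) (nat_lit 0) (XT.lf (nat_lit 0) (nat_lit 250327597941) (nat_lit 76) (nat_lit 119832928331) (nat_lit 76) (nat_lit 113708153560) (nat_lit 1) (nat_lit 4) (nat_lit 2) (nat_lit 5) (nat_lit 2) (nat_lit 4) (nat_lit 338) (nat_lit 243) (nat_lit 199)) (XT.nd (nat_lit 78) (nat_lit 0) (nat_lit 0) (XT.lf (nat_lit 0) (nat_lit 276872866290) (nat_lit 76) (nat_lit 125836133002) (nat_lit 76) (nat_lit 119695470590) (nat_lit 1) (nat_lit 4) (nat_lit 2) (nat_lit 5) (nat_lit 2) (nat_lit 4) (nat_lit 339) (nat_lit 243) (nat_lit 198)) (XT.lf (nat_lit 0) (nat_lit 305512214785) (nat_lit 76) (nat_lit 132333534344) (nat_lit 76) (nat_lit 126178161153) (nat_lit 1) (nat_lit 4) (nat_lit 2) (nat_lit 5) (nat_lit 2) (nat_lit 4) (nat_lit 340) (nat_lit 243) (nat_lit 197)))) (XT.nd (nat_lit 78) (nat_lit 0) (nat_lit 0) (XT.lf (nat_lit 0) (nat_lit 336415358084) (nat_lit 76) (nat_lit 139363635476) (nat_lit 76) (nat_lit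 133194641194) (nat_lit 1) (nat_lit 4) (nat_lit 2) (nat_lit 5) (nat_lit 2) (nat_lit 4) (nat_lit 341) (nat_lit 243) (nat_lit 196)) (XT.nd (nat_lit 78) (nat_lit 0) (nat_lit 0) (XT.lf (nat_lit 0) (nat_lit 369765425925) (nat_lit 76) (nat_lit 146968096256) (nat_lit 76) (nat_lit 140786489853) (nat_lit 1) (nat_lit 4) (nat_lit 2) (nat_lit 5) (nat_lit 2) (nat_lit 4) (nat_lit 342) (nat_lit 243) (nat_lit 195)) (XT.lf (nat_lit 0) (nat_lit 405760048340) (nat_lit 76) (nat_lit 155191980157) (nat_lit 76) (nat_lit 148998695863) (nat_lit 1) (nat_lit 4) (nat_lit 2) (nat_lit 5) (nat_lit 2) (nat_lit 4) (nat_lit 343) (nat_lit 243) (nat_lit 194)))))) (XT.nd (nat_lit 390) (nat_lit 0) (nat_lit 0) (XT.nd (nat_lit 156) (nat_lit 0) (nat_lit 0) (XT.nd (nat_lit 78) (nat_lit 0) (nat_lit 0) (XT.lf (nat_lit 0) (nat_lit 444612526795) (nat_lit 76) (nat_lit 164084021304) (nat_lit 76) (nat_lit 157879924149) (nat_lit 1) (nat_lit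 4) (nat_lit 2) (nat_lit 5) (nat_lit 2) (nat_lit 4) (nat_lit 344) (nat_lit 243) (nat_lit 193)) (XT.lf (nat_lit 0) (nat_lit 486553098199) (nat_lit 76) (nat_lit 173696913275) (nat_lit 76) (nat_lit 167482804211) (nat_lit 1) (nat_lit 4) (nat_lit 2) (nat_lit 5) (nat_lit 2) (nat_lit 4) (nat_lit 345) (nat_lit 243) (nat_lit 192))) (XT.nd (nat_lit 78) (nat_lit 0) (nat_lit 0) (XT.lf (nat_lit 0) (nat_lit 531830299272) (nat_lit 76) (nat_lit 184087621356) (nat_lit 76) (nat_lit 177864242006) (nat_lit 1) (nat_lit 4) (nat_lit 2) (nat_lit 5) (nat_lit 2) (nat_lit 4) (nat_lit 346) (nat_lit 243) (nat_lit 191)) (XT.nd (nat_lit 78) (nat_lit 0) (nat_lit 0) (XT.lf (nat_lit 0) (nat_lit 580712439353) (nat_lit 76) (nat_lit 195317720112) (nat_lit 76) (nat_lit 189085757165) (nat_lit 1) (nat_lit 4) (nat_lit 2) (nat_lit 5) (nat_lit 2) (nat_lit 4) (nat_lit 347) (nat_lit 243) (nat_lit 190)) (XT.lf (nat_lit 0) (nat_lit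 633489190383) (nat_lit 76) (nat_lit 207453758278) (nat_lit 76) (nat_lit 201213847555) (nat_lit 1) (nat_lit 4) (nat_lit 2) (nat_lit 5) (nat_lit 2) (nat_lit 4) (nat_lit 348) (nat_lit 243) (nat_lit 189))))) (XT.nd (nat_lit 36270) (nat_lit 0) (nat_lit 684) (XT.nd (nat_lit 78) (nat_lit 0) (nat_lit 0) (XT.lf (nat_lit 0) (nat_lit 690473303481) (nat_lit 76) (nat_lit 220567653117) (nat_lit 76) (nat_lit 214320383342) (nat_lit 1) (nat_lit 4) (nat_lit 2) (nat_lit 5) (nat_lit 2) (nat_lit 4) (nat_lit 349) (nat_lit 243) (nat_lit 188)) (XT.nd (nat_lit 36114) (nat_lit 0) (nat_lit 912) (XT.lf (nat_lit 0) (nat_lit 752002462278) (nat_lit 76) (nat_lit 234737116598) (nat_lit 76) (nat_lit 228483032886) (nat_lit 1) (nat_lit 4) (nat_lit 2) (nat_lit 5) (nat_lit 2) (nat_lit 4) (nat_lit 350) (nat_lit 243) (nat_lit 187)) (XT.lf (nat_lit 0) (nat_lit 1845288482) (nat_lit 76) (nat_lit 3485477404) (nat_lit 76) (nat_lit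 3485477404) (nat_lit 13) (nat_lit 4) (nat_lit 14) (nat_lit 5) (nat_lit 14) (nat_lit 4) (nat_lit 292) (nat_lit 244) (nat_lit 244)))) (XT.nd (nat_lit 78) (nat_lit 228) (nat_lit 0) (XT.lf (nat_lit 0) (nat_lit 16749604389) (nat_lit 76) (nat_lit 1272791559) (nat_lit 76) (nat_lit 656358949) (nat_lit 13) (nat_lit 4) (nat_lit 14) (nat_lit 5) (nat_lit 14) (nat_lit 4) (nat_lit 293) (nat_lit 244) (nat_lit 243)) (XT.nd (nat_lit 78) (nat_lit 76) (nat_lit 0) (XT.lf (nat_lit 0) (nat_lit 5852885014) (nat_lit 152) (nat_lit 9234738086) (nat_lit 0) (nat_lit 4722214971) (nat_lit 11) (nat_lit 5) (nat_lit 13) (nat_lit 4) (nat_lit 11) (nat_lit 4) (nat_lit 294) (nat_lit 244) (nat_lit 242)) (XT.lf (nat_lit 0) (nat_lit 2547515093) (nat_lit 76) (nat_lit 10064980899) (nat_lit 76) (nat_lit 8430985516) (nat_lit 10) (nat_lit 4) (nat_lit 11) (nat_lit 5) (nat_lit 11) (nat_lit 4) (nat_lit 295) (nat_lit 244) (nat_lit 241))))))))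
noncomputable def xc20 : XT := (XT.nd (nat_lit 1638) (nat_lit 76) (nat_lit 0) (XT.nd (nat_lit 780) (nat_lit 228) (nat_lit 0) (XT.nd (nat_lit 390) (nat_lit 152) (nat_lit 0) (XT.nd (nat_lit 156) (nat_lit 76) (nat_lit 0) (XT.nd (nat_lit 78) (nat_lit 152) (nat_lit 0) (XT.lf (nat_lit 0) (nat_lit 15009259925) (nat_lit 76) (nat_lit 4737560700) (nat_lit 76) (nat_lit 2637523336) (nat_lit 10) (nat_lit 4) (nat_lit 11) (nat_lit 5) (nat_lit 11) (nat_lit 4) (nat_lit 296) (nat_lit 244) (nat_lit 240)) (XT.lf (nat_lit 0) (nat_lit 3274465520) (nat_lit 152) (nat_lit 19703379796) (nat_lit 0) (nat_lit 863458171) (nat_lit 8) (nat_lit 5) (nat_lit 10) (nat_lit 4) (nat_lit 8) (nat_lit 4) (nat_lit 297) (nat_lit 244) (nat_lit 239))) (XT.nd (nat_lit 78) (nat_lit 76) (nat_lit 0) (XT.lf (nat_lit 0) (nat_lit 9481515854) (nat_lit 152) (nat_lit 9245621043) (nat_lit 0) (nat_lit 6689979093) (nat_lit 8) (nat_lit 5) (nat_lit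 10) (nat_lit 4) (nat_lit 8) (nat_lit 4) (nat_lit 298) (nat_lit 244) (nat_lit 238)) (XT.nd (nat_lit 78) (nat_lit 0) (nat_lit 0) (XT.lf (nat_lit 0) (nat_lit 1594137052) (nat_lit 76) (nat_lit 14340709683) (nat_lit 76) (nat_lit 11196830874) (nat_lit 7) (nat_lit 4) (nat_lit 8) (nat_lit 5) (nat_lit 8) (nat_lit 4) (nat_lit 299) (nat_lit 244) (nat_lit 237)) (XT.lf (nat_lit 0) (nat_lit 13147564901) (nat_lit 76) (nat_lit 9655591227) (nat_lit 76) (nat_lit 6185469781) (nat_lit 7) (nat_lit 4) (nat_lit 8) (nat_lit 5) (nat_lit 8) (nat_lit 4) (nat_lit 300) (nat_lit 244) (nat_lit 236))))) (XT.nd (nat_lit 156) (nat_lit 0) (nat_lit 0) (XT.nd (nat_lit 78) (nat_lit 152) (nat_lit 0) (XT.lf (nat_lit 0) (nat_lit 25177425274) (nat_lit 76) (nat_lit 4800596931) (nat_lit 76) (nat_lit 1028398969) (nat_lit 7) (nat_lit 4) (nat_lit 8) (nat_lit 5) (nat_lit 8) (nat_lit 4) (nat_lit 301) (nat_lit 244) (nat_lit 235)) (XT.lf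 (nat_lit 0) (nat_lit 4245828745) (nat_lit 152) (nat_lit 28557019912) (nat_lit 0) (nat_lit 386877851) (nat_lit 5) (nat_lit 5) (nat_lit 7) (nat_lit 4) (nat_lit 5) (nat_lit 4) (nat_lit 302) (nat_lit 244) (nat_lit 234))) (XT.nd (nat_lit 78) (nat_lit 0) (nat_lit 0) (XT.lf (nat_lit 0) (nat_lit 9869595387) (nat_lit 152) (nat_lit 19915200314) (nat_lit 0) (nat_lit 5763995042) (nat_lit 5) (nat_lit 5) (nat_lit 7) (nat_lit 4) (nat_lit 5) (nat_lit 4) (nat_lit 303) (nat_lit 244) (nat_lit 233)) (XT.nd (nat_lit 78) (nat_lit 0) (nat_lit 0) (XT.lf (nat_lit 0) (nat_lit 15738634087) (nat_lit 152) (nat_lit 10963633023) (nat_lit 0) (nat_lit 11404654621) (nat_lit 5) (nat_lit 5) (nat_lit 7) (nat_lit 4) (nat_lit 5) (nat_lit 4) (nat_lit 304) (nat_lit 244) (nat_lit 232)) (XT.lf (nat_lit 0) (nat_lit 21887724335) (nat_lit 152) (nat_lit 1649271714) (nat_lit 0) (nat_lit 17342282719) (nat_lit 5) (nat_lit 5) (nat_lit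 7) (nat_lit 4) (nat_lit 5) (nat_lit 4) (nat_lit 305) (nat_lit 244) (nat_lit 231)))))) (XT.nd (nat_lit 390) (nat_lit 76) (nat_lit 0) (XT.nd (nat_lit 156) (nat_lit 76) (nat_lit 0) (XT.nd (nat_lit 78) (nat_lit 0) (nat_lit 0) (XT.lf (nat_lit 0) (nat_lit 8350342950) (nat_lit 76) (nat_lit 20133334488) (nat_lit 76) (nat_lit 15392094585) (nat_lit 4) (nat_lit 4) (nat_lit 5) (nat_lit 5) (nat_lit 5) (nat_lit 4) (nat_lit 306) (nat_lit 244) (nat_lit 230)) (XT.lf (nat_lit 0) (nat_lit 18895880995) (nat_lit 76) (nat_lit 16572827848) (nat_lit 76) (nat_lit 11650293236) (nat_lit 4) (nat_lit 4) (nat_lit 5) (nat_lit 5) (nat_lit 5) (nat_lit 4) (nat_lit 307) (nat_lit 244) (nat_lit 229))) (XT.nd (nat_lit 78) (nat_lit 76) (nat_lit 0) (XT.lf (nat_lit 0) (nat_lit 29995302126) (nat_lit 76) (nat_lit 12862308045) (nat_lit 76) (nat_lit 7771907961) (nat_lit 4) (nat_lit 4) (nat_lit 5) (nat_lit 5) (nat_lit 5) (nat_lit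 4) (nat_lit 308) (nat_lit 244) (nat_lit 228)) (XT.nd (nat_lit 78) (nat_lit 76) (nat_lit 0) (XT.lf (nat_lit 0) (nat_lit 41714380690) (nat_lit 76) (nat_lit 8979786815) (nat_lit 76) (nat_lit 3733955738) (nat_lit 4) (nat_lit 4) (nat_lit 5) (nat_lit 5) (nat_lit 5) (nat_lit 4) (nat_lit 309) (nat_lit 244) (nat_lit 227)) (XT.lf (nat_lit 0) (nat_lit 471889249) (nat_lit 152) (nat_lit 4422375701) (nat_lit 76) (nat_lit 53642682157) (nat_lit 3) (nat_lit 5) (nat_lit 5) (nat_lit 5) (nat_lit 4) (nat_lit 4) (nat_lit 310) (nat_lit 244) (nat_lit 226))))) (XT.nd (nat_lit 234) (nat_lit 0) (nat_lit 0) (XT.nd (nat_lit 78) (nat_lit 0) (nat_lit 0) (XT.lf (nat_lit 0) (nat_lit 4375154085) (nat_lit 76) (nat_lit 453216534) (nat_lit 152) (nat_lit 58145857432) (nat_lit 2) (nat_lit 5) (nat_lit 3) (nat_lit 5) (nat_lit 4) (nat_lit 4) (nat_lit 311) (nat_lit 244) (nat_lit 225)) (XT.nd (nat_lit 78) (nat_lit 0) (nat_lit 0)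 (XT.lf (nat_lit 0) (nat_lit 9558538843) (nat_lit 152) (nat_lit 54025728064) (nat_lit 0) (nat_lit 4181022825) (nat_lit 2) (nat_lit 5) (nat_lit 4) (nat_lit 4) (nat_lit 2) (nat_lit 4) (nat_lit 312) (nat_lit 244) (nat_lit 224)) (XT.lf (nat_lit 0) (nat_lit 14562783264) (nat_lit 152) (nat_lit 49305661295) (nat_lit 0) (nat_lit 9076461132) (nat_lit 2) (nat_lit 5) (nat_lit 4) (nat_lit 4) (nat_lit 2) (nat_lit 4) (nat_lit 313) (nat_lit 244) (nat_lit 223)))) (XT.nd (nat_lit 78) (nat_lit 0) (nat_lit 0) (XT.lf (nat_lit 0) (nat_lit 19863682683) (nat_lit 152) (nat_lit 44403826913) (nat_lit 0) (nat_lit 14276614149) (nat_lit 2) (nat_lit 5) (nat_lit 4) (nat_lit 4) (nat_lit 2) (nat_lit 4) (nat_lit 314) (nat_lit 244) (nat_lit 222)) (XT.nd (nat_lit 78) (nat_lit 0) (nat_lit 0) (XT.lf (nat_lit 0) (nat_lit 25492649837) (nat_lit 152) (nat_lit 39291177011) (nat_lit 0) (nat_lit 19812297598) (nat_lit 2) (nat_lit 5)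 (nat_lit 4) (nat_lit 4) (nat_lit 2) (nat_lit 4) (nat_lit 315) (nat_lit 244) (nat_lit 221)) (XT.lf (nat_lit 0) (nat_lit 31483041569) (nat_lit 152) (nat_lit 33937414405) (nat_lit 0) (nat_lit 25716315529) (nat_lit 2) (nat_lit 5) (nat_lit 4) (nat_lit 4) (nat_lit 2) (nat_lit 4) (nat_lit 316) (nat_lit 244) (nat_lit 220))))))) (XT.nd (nat_lit 780) (nat_lit 0) (nat_lit 0) (XT.nd (nat_lit 390) (nat_lit 76) (nat_lit 0) (XT.nd (nat_lit 156) (nat_lit 0) (nat_lit 0) (XT.nd (nat_lit 78) (nat_lit 0) (nat_lit 0) (XT.lf (nat_lit 0) (nat_lit 37870356497) (nat_lit 152) (nat_lit 28310813094) (nat_lit 0) (nat_lit 32023654715) (nat_lit 2) (nat_lit 5) (nat_lit 4) (nat_lit 4) (nat_lit 2) (nat_lit 4) (nat_lit 317) (nat_lit 244) (nat_lit 219)) (XT.lf (nat_lit 0) (nat_lit 44692445376) (nat_lit 152) (nat_lit 22378030254) (nat_lit 0) (nat_lit 38771691981) (nat_lit 2) (nat_lit 5) (nat_lit 4) (nat_lit 4) (nat_lit 2)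 (nat_lit 4) (nat_lit 318) (nat_lit 244) (nat_lit 218))) (XT.nd (nat_lit 78) (nat_lit 0) (nat_lit 0) (XT.lf (nat_lit 0) (nat_lit 51989735399) (nat_lit 152) (nat_lit 16103908655) (nat_lit 0) (nat_lit 46000415696) (nat_lit 2) (nat_lit 5) (nat_lit 4) (nat_lit 4) (nat_lit 2) (nat_lit 4) (nat_lit 319) (nat_lit 244) (nat_lit 217)) (XT.nd (nat_lit 78) (nat_lit 0) (nat_lit 0) (XT.lf (nat_lit 0) (nat_lit 59805469767) (nat_lit 152) (nat_lit 9451268317) (nat_lit 0) (nat_lit 53752662741) (nat_lit 2) (nat_lit 5) (nat_lit 4) (nat_lit 4) (nat_lit 2) (nat_lit 4) (nat_lit 320) (nat_lit 244) (nat_lit 216)) (XT.lf (nat_lit 0) (nat_lit 68185963942) (nat_lit 152) (nat_lit 2380686186) (nat_lit 0) (nat_lit 62074372358) (nat_lit 2) (nat_lit 5) (nat_lit 4) (nat_lit 4) (nat_lit 2) (nat_lit 4) (nat_lit 321) (nat_lit 244) (nat_lit 215))))) (XT.nd (nat_lit 156) (nat_lit 0) (nat_lit 0) (XT.nd (nat_lit 78) (nat_lit 0)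 (nat_lit 0) (XT.lf (nat_lit 0) (nat_lit 5320011061) (nat_lit 76) (nat_lit 71943929331) (nat_lit 76) (nat_lit 65777907602) (nat_lit 1) (nat_lit 4) (nat_lit 2) (nat_lit 5) (nat_lit 2) (nat_lit 4) (nat_lit 322) (nat_lit 244) (nat_lit 214)) (XT.lf (nat_lit 0) (nat_lit 13620570752) (nat_lit 76) (nat_lit 73435606011) (nat_lit 76) (nat_lit 67219185998) (nat_lit 1) (nat_lit 4) (nat_lit 2) (nat_lit 5) (nat_lit 2) (nat_lit 4) (nat_lit 323) (nat_lit 244) (nat_lit 213))) (XT.nd (nat_lit 78) (nat_lit 0) (nat_lit 0) (XT.lf (nat_lit 0) (nat_lit 22491465149) (nat_lit 76) (nat_lit 75090837806) (nat_lit 76) (nat_lit 68827752716) (nat_lit 1) (nat_lit 4) (nat_lit 2) (nat_lit 5) (nat_lit 2) (nat_lit 4) (nat_lit 324) (nat_lit 244) (nat_lit 212)) (XT.nd (nat_lit 78) (nat_lit 0) (nat_lit 0) (XT.lf (nat_lit 0) (nat_lit 31985262517) (nat_lit 76) (nat_lit 76919433498) (nat_lit 76) (nat_lit 70613140002) (nat_lit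 1) (nat_lit 4) (nat_lit 2) (nat_lit 5) (nat_lit 2) (nat_lit 4) (nat_lit 325) (nat_lit 244) (nat_lit 211)) (XT.lf (nat_lit 0) (nat_lit 42158222395) (nat_lit 76) (nat_lit 78932229207) (nat_lit 76) (nat_lit 72585927930) (nat_lit 1) (nat_lit 4) (nat_lit 2) (nat_lit 5) (nat_lit 2) (nat_lit 4) (nat_lit 326) (nat_lit 244) (nat_lit 210)))))) (XT.nd (nat_lit 390) (nat_lit 0) (nat_lit 0) (XT.nd (nat_lit 156) (nat_lit 0) (nat_lit 0) (XT.nd (nat_lit 78) (nat_lit 0) (nat_lit 0) (XT.lf (nat_lit 0) (nat_lit 53070628989) (nat_lit 76) (nat_lit 81141152614) (nat_lit 76) (nat_lit 74757807094) (nat_lit 1) (nat_lit 4) (nat_lit 2) (nat_lit 5) (nat_lit 2) (nat_lit 4) (nat_lit 327) (nat_lit 244) (nat_lit 209)) (XT.lf (nat_lit 0) (nat_lit 64787148413) (nat_lit 76) (nat_lit 83559293634) (nat_lit 76) (nat_lit 77141647889) (nat_lit 1) (nat_lit 4) (nat_lit 2) (nat_lit 5) (nat_lit 2) (nat_lit 4) (nat_lit 328) (nat_lit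 244) (nat_lit 208))) (XT.nd (nat_lit 78) (nat_lit 0) (nat_lit 0) (XT.lf (nat_lit 0) (nat_lit 77377211894) (nat_lit 76) (nat_lit 86200981992) (nat_lit 76) (nat_lit 79751576779) (nat_lit 1) (nat_lit 4) (nat_lit 2) (nat_lit 5) (nat_lit 2) (nat_lit 4) (nat_lit 329) (nat_lit 244) (nat_lit 207)) (XT.nd (nat_lit 78) (nat_lit 0) (nat_lit 0) (XT.lf (nat_lit 0) (nat_lit 90915427214) (nat_lit 76) (nat_lit 89081872137) (nat_lit 76) (nat_lit 82603060011) (nat_lit 1) (nat_lit 4) (nat_lit 2) (nat_lit 5) (nat_lit 2) (nat_lit 4) (nat_lit 330) (nat_lit 244) (nat_lit 206)) (XT.lf (nat_lit 0) (nat_lit 105482020835) (nat_lit 76) (nat_lit 92219036012) (nat_lit 76) (nat_lit 85712995261) (nat_lit 1) (nat_lit 4) (nat_lit 2) (nat_lit 5) (nat_lit 2) (nat_lit 4) (nat_lit 331) (nat_lit 244) (nat_lit 205))))) (XT.nd (nat_lit 234) (nat_lit 0) (nat_lit 0) (XT.nd (nat_lit 78) (nat_lit 0) (nat_lit 0) (XT.lf (nat_lit 0)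 (nat_lit 121163313312) (nat_lit 76) (nat_lit 95631064216) (nat_lit 76) (nat_lit 89099811776) (nat_lit 1) (nat_lit 4) (nat_lit 2) (nat_lit 5) (nat_lit 2) (nat_lit 4) (nat_lit 332) (nat_lit 244) (nat_lit 204)) (XT.nd (nat_lit 78) (nat_lit 0) (nat_lit 0) (XT.lf (nat_lit 0) (nat_lit 138052230822) (nat_lit 76) (nat_lit 99338176177) (nat_lit 76) (nat_lit 92783579580) (nat_lit 1) (nat_lit 4) (nat_lit 2) (nat_lit 5) (nat_lit 2) (nat_lit 4) (nat_lit 333) (nat_lit 244) (nat_lit 203)) (XT.lf (nat_lit 0) (nat_lit 156248855840) (nat_lit 76) (nat_lit 103362339965) (nat_lit 76) (nat_lit 96786128408) (nat_lit 1) (nat_lit 4) (nat_lit 2) (nat_lit 5) (nat_lit 2) (nat_lit 4) (nat_lit 334) (nat_lit 244) (nat_lit 202)))) (XT.nd (nat_lit 78) (nat_lit 0) (nat_lit 0) (XT.lf (nat_lit 0) (nat_lit 175861020217) (nat_lit 76) (nat_lit 107727402476) (nat_lit 76) (nat_lit 101131177067) (nat_lit 1) (nat_lit 4) (nat_lit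 2) (nat_lit 5) (nat_lit 2) (nat_lit 4) (nat_lit 335) (nat_lit 244) (nat_lit 201)) (XT.nd (nat_lit 78) (nat_lit 0) (nat_lit 0) (XT.lf (nat_lit 0) (nat_lit 197004944186) (nat_lit 76) (nat_lit 112459230748) (nat_lit 76) (nat_lit 105844473995) (nat_lit 1) (nat_lit 4) (nat_lit 2) (nat_lit 5) (nat_lit 2) (nat_lit 4) (nat_lit 336) (nat_lit 244) (nat_lit 200)) (XT.lf (nat_lit 0) (nat_lit 219805925076) (nat_lit 76) (nat_lit 117585865245) (nat_lit 76) (nat_lit 110953949839) (nat_lit 1) (nat_lit 4) (nat_lit 2) (nat_lit 5) (nat_lit 2) (nat_lit 4) (nat_lit 337) (nat_lit 244) (nat_lit 199))))))))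
noncomputable def xc21 : XT := (XT.nd (nat_lit 37518) (nat_lit 0) (nat_lit 76) (XT.nd (nat_lit 780) (nat_lit 0) (nat_lit 0) (XT.nd (nat_lit 390) (nat_lit 0) (nat_lit 0) (XT.nd (nat_lit 156) (nat_lit 0) (nat_lit 0) (XT.nd (nat_lit 78) (nat_lit 0) (nat_lit 0) (XT.lf (nat_lit 0) (nat_lit 244399079809) (nat_lit 76) (nat_lit 123137686022) (nat_lit 76) (nat_lit 116489882976) (nat_lit 1) (nat_lit 4) (nat_lit 2) (nat_lit 5) (nat_lit 2) (nat_lit 4) (nat_lit 338) (nat_lit 244) (nat_lit 198)) (XT.lf (nat_lit 0) (nat_lit 270930145600) (nat_lit 76) (nat_lit 129147592759) (nat_lit 76) (nat_lit 122485078934) (nat_lit 1) (nat_lit 4) (nat_lit 2) (nat_lit 5) (nat_lit 2) (nat_lit 4) (nat_lit 339) (nat_lit 244) (nat_lit 197))) (XT.nd (nat_lit 78) (nat_lit 0) (nat_lit 0) (XT.lf (nat_lit 0) (nat_lit 299556343578) (nat_lit 76) (nat_lit 135651199717) (nat_lit 76) (nat_lit 128975064802) (nat_lit 1) (nat_lit 4)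 (nat_lit 2) (nat_lit 5) (nat_lit 2) (nat_lit 4) (nat_lit 340) (nat_lit 244) (nat_lit 196)) (XT.nd (nat_lit 78) (nat_lit 0) (nat_lit 0) (XT.lf (nat_lit 0) (nat_lit 330447310472) (nat_lit 76) (nat_lit 142687046791) (nat_lit 76) (nat_lit 135998299754) (nat_lit 1) (nat_lit 4) (nat_lit 2) (nat_lit 5) (nat_lit 2) (nat_lit 4) (nat_lit 341) (nat_lit 244) (nat_lit 195)) (XT.lf (nat_lit 0) (nat_lit 363786103865) (nat_lit 76) (nat_lit 150296827887) (nat_lit 76) (nat_lit 143596402960) (nat_lit 1) (nat_lit 4) (nat_lit 2) (nat_lit 5) (nat_lit 2) (nat_lit 4) (nat_lit 342) (nat_lit 244) (nat_lit 194))))) (XT.nd (nat_lit 156) (nat_lit 0) (nat_lit 0) (XT.nd (nat_lit 78) (nat_lit 0) (nat_lit 0) (XT.lf (nat_lit 0) (nat_lit 399770286975) (nat_lit 76) (nat_lit 158525638006) (nat_lit 76) (nat_lit 151814400217) (nat_lit 1) (nat_lit 4) (nat_lit 2) (nat_lit 5) (nat_lit 2) (nat_lit 4) (nat_lit 343) (nat_lit 244)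 (nat_lit 193)) (XT.lf (nat_lit 0) (nat_lit 438613099407) (nat_lit 76) (nat_lit 167422240467) (nat_lit 76) (nat_lit 160700990769) (nat_lit 1) (nat_lit 4) (nat_lit 2) (nat_lit 5) (nat_lit 2) (nat_lit 4) (nat_lit 344) (nat_lit 244) (nat_lit 192))) (XT.nd (nat_lit 78) (nat_lit 0) (nat_lit 0) (XT.lf (nat_lit 0) (nat_lit 480544720790) (nat_lit 76) (nat_lit 177039355876) (nat_lit 76) (nat_lit 170308835893) (nat_lit 1) (nat_lit 4) (nat_lit 2) (nat_lit 5) (nat_lit 2) (nat_lit 4) (nat_lit 345) (nat_lit 244) (nat_lit 191)) (XT.nd (nat_lit 78) (nat_lit 0) (nat_lit 0) (XT.lf (nat_lit 0) (nat_lit 525813634806) (nat_lit 76) (nat_lit 187433974548) (nat_lit 76) (nat_lit 180694870967) (nat_lit 1) (nat_lit 4) (nat_lit 2) (nat_lit 5) (nat_lit 2) (nat_lit 4) (nat_lit 346) (nat_lit 244) (nat_lit 190)) (XT.lf (nat_lit 0) (nat_lit 574688101687) (nat_lit 76) (nat_lit 198667694223) (nat_lit 76) (nat_lit 191920642865)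 (nat_lit 1) (nat_lit 4) (nat_lit 2) (nat_lit 5) (nat_lit 2) (nat_lit 4) (nat_lit 347) (nat_lit 244) (nat_lit 189)))))) (XT.nd (nat_lit 36270) (nat_lit 0) (nat_lit 532) (XT.nd (nat_lit 156) (nat_lit 0) (nat_lit 0) (XT.nd (nat_lit 78) (nat_lit 0) (nat_lit 0) (XT.lf (nat_lit 0) (nat_lit 627457747902) (nat_lit 76) (nat_lit 210807085090) (nat_lit 76) (nat_lit 204052674681) (nat_lit 1) (nat_lit 4) (nat_lit 2) (nat_lit 5) (nat_lit 2) (nat_lit 4) (nat_lit 348) (nat_lit 244) (nat_lit 188)) (XT.lf (nat_lit 0) (nat_lit 684435282467) (nat_lit 76) (nat_lit 223924084282) (nat_lit 76) (nat_lit 217162859937) (nat_lit 1) (nat_lit 4) (nat_lit 2) (nat_lit 5) (nat_lit 2) (nat_lit 4) (nat_lit 349) (nat_lit 244) (nat_lit 187))) (XT.nd (nat_lit 35958) (nat_lit 0) (nat_lit 988) (XT.lf (nat_lit 0) (nat_lit 745958350031) (nat_lit 76) (nat_lit 238096422164) (nat_lit 76) (nat_lit 231328888618) (nat_lit 1) (nat_lit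 4) (nat_lit 2) (nat_lit 5) (nat_lit 2) (nat_lit 4) (nat_lit 350) (nat_lit 244) (nat_lit 186)) (XT.nd (nat_lit 78) (nat_lit 152) (nat_lit 0) (XT.lf (nat_lit 0) (nat_lit 5606051033) (nat_lit 152) (nat_lit 1143560048) (nat_lit 152) (nat_lit 1143560048) (nat_lit 16) (nat_lit 4) (nat_lit 18) (nat_lit 5) (nat_lit 18) (nat_lit 4) (nat_lit 290) (nat_lit 245) (nat_lit 245)) (XT.lf (nat_lit 0) (nat_lit 4302773319) (nat_lit 152) (nat_lit 8734640027) (nat_lit 0) (nat_lit 3637026100) (nat_lit 14) (nat_lit 5) (nat_lit 16) (nat_lit 4) (nat_lit 14) (nat_lit 4) (nat_lit 291) (nat_lit 245) (nat_lit 244))))) (XT.nd (nat_lit 234) (nat_lit 228) (nat_lit 0) (XT.nd (nat_lit 78) (nat_lit 152) (nat_lit 0) (XT.lf (nat_lit 0) (nat_lit 3367443261) (nat_lit 76) (nat_lit 7778223354) (nat_lit 76) (nat_lit 6496043525) (nat_lit 13) (nat_lit 4) (nat_lit 14) (nat_lit 5) (nat_lit 14) (nat_lit 4) (nat_lit 292) (nat_lit 245)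 (nat_lit 243)) (XT.nd (nat_lit 78) (nat_lit 152) (nat_lit 0) (XT.lf (nat_lit 0) (nat_lit 16127272813) (nat_lit 76) (nat_lit 2211098371) (nat_lit 76) (nat_lit 358147607) (nat_lit 13) (nat_lit 4) (nat_lit 14) (nat_lit 5) (nat_lit 14) (nat_lit 4) (nat_lit 293) (nat_lit 245) (nat_lit 242)) (XT.lf (nat_lit 0) (nat_lit 5951468762) (nat_lit 152) (nat_lit 10202092859) (nat_lit 0) (nat_lit 3683428409) (nat_lit 11) (nat_lit 5) (nat_lit 13) (nat_lit 4) (nat_lit 11) (nat_lit 4) (nat_lit 294) (nat_lit 245) (nat_lit 241)))) (XT.nd (nat_lit 78) (nat_lit 152) (nat_lit 0) (XT.lf (nat_lit 0) (nat_lit 1263147260) (nat_lit 76) (nat_lit 11275157674) (nat_lit 76) (nat_lit 8541075340) (nat_lit 10) (nat_lit 4) (nat_lit 11) (nat_lit 5) (nat_lit 11) (nat_lit 4) (nat_lit 295) (nat_lit 245) (nat_lit 240)) (XT.nd (nat_lit 78) (nat_lit 152) (nat_lit 0) (XT.lf (nat_lit 0) (nat_lit 13460977330) (nat_lit 76) (nat_lit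 6066122321) (nat_lit 76) (nat_lit 2900519634) (nat_lit 10) (nat_lit 4) (nat_lit 11) (nat_lit 5) (nat_lit 11) (nat_lit 4) (nat_lit 296) (nat_lit 245) (nat_lit 239)) (XT.lf (nat_lit 0) (nat_lit 2255388856) (nat_lit 76) (nat_lit 583902570) (nat_lit 152) (nat_lit 21054610695) (nat_lit 8) (nat_lit 5) (nat_lit 9) (nat_lit 5) (nat_lit 10) (nat_lit 4) (nat_lit 297) (nat_lit 245) (nat_lit 238))))))) (XT.nd (nat_lit 780) (nat_lit 152) (nat_lit 0) (XT.nd (nat_lit 390) (nat_lit 76) (nat_lit 0) (XT.nd (nat_lit 156) (nat_lit 228) (nat_lit 0) (XT.nd (nat_lit 78) (nat_lit 0) (nat_lit 0) (XT.lf (nat_lit 0) (nat_lit 8904930970) (nat_lit 152) (nat_lit 11414736089) (nat_lit 0) (nat_lit 5157199809) (nat_lit 8) (nat_lit 5) (nat_lit 10) (nat_lit 4) (nat_lit 8) (nat_lit 4) (nat_lit 298) (nat_lit 245) (nat_lit 237)) (XT.lf (nat_lit 0) (nat_lit 15210878057) (nat_lit 152) (nat_lit 851091012) (nat_lit 0) (nat_lit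 11136904258) (nat_lit 8) (nat_lit 5) (nat_lit 10) (nat_lit 4) (nat_lit 8) (nat_lit 4) (nat_lit 299) (nat_lit 245) (nat_lit 236))) (XT.nd (nat_lit 78) (nat_lit 152) (nat_lit 0) (XT.lf (nat_lit 0) (nat_lit 10458887411) (nat_lit 76) (nat_lit 11489790038) (nat_lit 76) (nat_lit 7113739724) (nat_lit 7) (nat_lit 4) (nat_lit 8) (nat_lit 5) (nat_lit 8) (nat_lit 4) (nat_lit 300) (nat_lit 245) (nat_lit 235)) (XT.nd (nat_lit 78) (nat_lit 152) (nat_lit 0) (XT.lf (nat_lit 0) (nat_lit 22289388051) (nat_lit 76) (nat_lit 6726023322) (nat_lit 76) (nat_lit 2070272531) (nat_lit 7) (nat_lit 4) (nat_lit 8) (nat_lit 5) (nat_lit 8) (nat_lit 4) (nat_lit 301) (nat_lit 245) (nat_lit 234)) (XT.lf (nat_lit 0) (nat_lit 1396417788) (nat_lit 76) (nat_lit 1682192213) (nat_lit 152) (nat_lit 30199184342) (nat_lit 5) (nat_lit 5) (nat_lit 6) (nat_lit 5) (nat_lit 7) (nat_lit 4) (nat_lit 302) (nat_lit 245) (nat_lit 233)))))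 (XT.nd (nat_lit 156) (nat_lit 76) (nat_lit 0) (XT.nd (nat_lit 78) (nat_lit 0) (nat_lit 0) (XT.lf (nat_lit 0) (nat_lit 8577733450) (nat_lit 152) (nat_lit 23396753739) (nat_lit 0) (nat_lit 3668656505) (nat_lit 5) (nat_lit 5) (nat_lit 7) (nat_lit 4) (nat_lit 5) (nat_lit 4) (nat_lit 303) (nat_lit 245) (nat_lit 232)) (XT.lf (nat_lit 0) (nat_lit 14355680060) (nat_lit 152) (nat_lit 14615057297) (nat_lit 0) (nat_lit 9235140965) (nat_lit 5) (nat_lit 5) (nat_lit 7) (nat_lit 4) (nat_lit 5) (nat_lit 4) (nat_lit 304) (nat_lit 245) (nat_lit 231))) (XT.nd (nat_lit 78) (nat_lit 76) (nat_lit 0) (XT.lf (nat_lit 0) (nat_lit 20420425779) (nat_lit 152) (nat_lit 5457983811) (nat_lit 0) (nat_lit 15104088398) (nat_lit 5) (nat_lit 5) (nat_lit 7) (nat_lit 4) (nat_lit 5) (nat_lit 4) (nat_lit 305) (nat_lit 245) (nat_lit 230)) (XT.nd (nat_lit 78) (nat_lit 0) (nat_lit 0) (XT.lf (nat_lit 0) (nat_lit 4265245345) (nat_lit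 76) (nat_lit 22609256929) (nat_lit 76) (nat_lit 17111624838) (nat_lit 4) (nat_lit 4) (nat_lit 5) (nat_lit 5) (nat_lit 5) (nat_lit 4) (nat_lit 306) (nat_lit 245) (nat_lit 229)) (XT.lf (nat_lit 0) (nat_lit 14671475718) (nat_lit 76) (nat_lit 19113571140) (nat_lit 76) (nat_lit 13448073577) (nat_lit 4) (nat_lit 4) (nat_lit 5) (nat_lit 5) (nat_lit 5) (nat_lit 4) (nat_lit 307) (nat_lit 245) (nat_lit 228)))))) (XT.nd (nat_lit 390) (nat_lit 0) (nat_lit 0) (XT.nd (nat_lit 156) (nat_lit 152) (nat_lit 0) (XT.nd (nat_lit 78) (nat_lit 0) (nat_lit 0) (XT.lf (nat_lit 0) (nat_lit 25641908264) (nat_lit 76) (nat_lit 15463070643) (nat_lit 76) (nat_lit 9642142088) (nat_lit 4) (nat_lit 4) (nat_lit 5) (nat_lit 5) (nat_lit 5) (nat_lit 4) (nat_lit 308) (nat_lit 245) (nat_lit 227)) (XT.lf (nat_lit 0) (nat_lit 37241552953) (nat_lit 76) (nat_lit 11636122844) (nat_lit 76) (nat_lit 5671276703) (nat_lit 4) (nat_lit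 4) (nat_lit 5) (nat_lit 5) (nat_lit 5) (nat_lit 4) (nat_lit 309) (nat_lit 245) (nat_lit 226))) (XT.nd (nat_lit 78) (nat_lit 152) (nat_lit 0) (XT.lf (nat_lit 0) (nat_lit 49539148420) (nat_lit 76) (nat_lit 7610049533) (nat_lit 76) (nat_lit 1511946368) (nat_lit 4) (nat_lit 4) (nat_lit 5) (nat_lit 5) (nat_lit 5) (nat_lit 4) (nat_lit 310) (nat_lit 245) (nat_lit 225)) (XT.nd (nat_lit 78) (nat_lit 76) (nat_lit 0) (XT.lf (nat_lit 0) (nat_lit 2768943037) (nat_lit 152) (nat_lit 545156071) (nat_lit 76) (nat_lit 59791732877) (nat_lit 3) (nat_lit 5) (nat_lit 5) (nat_lit 5) (nat_lit 4) (nat_lit 4) (nat_lit 311) (nat_lit 245) (nat_lit 224)) (XT.lf (nat_lit 0) (nat_lit 7391671670) (nat_lit 152) (nat_lit 59152981554) (nat_lit 0) (nat_lit 1357637653) (nat_lit 2) (nat_lit 5) (nat_lit 4) (nat_lit 4) (nat_lit 2) (nat_lit 4) (nat_lit 312) (nat_lit 245) (nat_lit 223))))) (XT.nd (nat_lit 234) (nat_lit 0) (nat_lit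 0) (XT.nd (nat_lit 78) (nat_lit 0) (nat_lit 0) (XT.lf (nat_lit 0) (nat_lit 12346067746) (nat_lit 152) (nat_lit 54527067539) (nat_lit 0) (nat_lit 6211287328) (nat_lit 2) (nat_lit 5) (nat_lit 4) (nat_lit 4) (nat_lit 2) (nat_lit 4) (nat_lit 313) (nat_lit 245) (nat_lit 222)) (XT.nd (nat_lit 78) (nat_lit 0) (nat_lit 0) (XT.lf (nat_lit 0) (nat_lit 17600811291) (nat_lit 152) (nat_lit 49712411633) (nat_lit 0) (nat_lit 11372747167) (nat_lit 2) (nat_lit 5) (nat_lit 4) (nat_lit 4) (nat_lit 2) (nat_lit 4) (nat_lit 314) (nat_lit 245) (nat_lit 221)) (XT.lf (nat_lit 0) (nat_lit 23187041525) (nat_lit 152) (nat_lit 44680482543) (nat_lit 0) (nat_lit 16872603600) (nat_lit 2) (nat_lit 5) (nat_lit 4) (nat_lit 4) (nat_lit 2) (nat_lit 4) (nat_lit 315) (nat_lit 245) (nat_lit 220)))) (XT.nd (nat_lit 78) (nat_lit 0) (nat_lit 0) (XT.lf (nat_lit 0) (nat_lit 29137862035) (nat_lit 152) (nat_lit 39401461429) (nat_lit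 0) (nat_lit 22743448368) (nat_lit 2) (nat_lit 5) (nat_lit 4) (nat_lit 4) (nat_lit 2) (nat_lit 4) (nat_lit 316) (nat_lit 245) (nat_lit 219)) (XT.nd (nat_lit 78) (nat_lit 0) (nat_lit 0) (XT.lf (nat_lit 0) (nat_lit 35488536942) (nat_lit 152) (nat_lit 33844065202) (nat_lit 0) (nat_lit 29020071662) (nat_lit 2) (nat_lit 5) (nat_lit 4) (nat_lit 4) (nat_lit 2) (nat_lit 4) (nat_lit 317) (nat_lit 245) (nat_lit 218)) (XT.lf (nat_lit 0) (nat_lit 42276699876) (nat_lit 152) (nat_lit 27975361145) (nat_lit 0) (nat_lit 35739668288) (nat_lit 2) (nat_lit 5) (nat_lit 4) (nat_lit 4) (nat_lit 2) (nat_lit 4) (nat_lit 318) (nat_lit 245) (nat_lit 217))))))))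
noncomputable def xc22 : XT := (XT.nd (nat_lit 1638) (nat_lit 0) (nat_lit 0) (XT.nd (nat_lit 780) (nat_lit 0) (nat_lit 0) (XT.nd (nat_lit 390) (nat_lit 0) (nat_lit 0) (XT.nd (nat_lit 156) (nat_lit 76) (nat_lit 0) (XT.nd (nat_lit 78) (nat_lit 0) (nat_lit 0) (XT.lf (nat_lit 0) (nat_lit 49542576986) (nat_lit 152) (nat_lit 21760571753) (nat_lit 0) (nat_lit 42942058076) (nat_lit 2) (nat_lit 5) (nat_lit 4) (nat_lit 4) (nat_lit 2) (nat_lit 4) (nat_lit 319) (nat_lit 245) (nat_lit 216)) (XT.lf (nat_lit 0) (nat_lit 57329225324) (nat_lit 152) (nat_lit 15162868642) (nat_lit 0) (nat_lit 50669921856) (nat_lit 2) (nat_lit 5) (nat_lit 4) (nat_lit 4) (nat_lit 2) (nat_lit 4) (nat_lit 320) (nat_lit 245) (nat_lit 215))) (XT.nd (nat_lit 78) (nat_lit 76) (nat_lit 0) (XT.lf (nat_lit 0) (nat_lit 65682787989) (nat_lit 152) (nat_lit 8143154315) (nat_lit 0) (nat_lit 58969054375) (nat_lit 2) (nat_lit 5) (nat_lit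 4) (nat_lit 4) (nat_lit 2) (nat_lit 4) (nat_lit 321) (nat_lit 245) (nat_lit 214)) (XT.nd (nat_lit 78) (nat_lit 76) (nat_lit 0) (XT.lf (nat_lit 0) (nat_lit 74652767577) (nat_lit 152) (nat_lit 659830462) (nat_lit 0) (nat_lit 67888635679) (nat_lit 2) (nat_lit 5) (nat_lit 4) (nat_lit 4) (nat_lit 2) (nat_lit 4) (nat_lit 322) (nat_lit 245) (nat_lit 213)) (XT.lf (nat_lit 0) (nat_lit 7573859335) (nat_lit 76) (nat_lit 76836709354) (nat_lit 76) (nat_lit 70025912380) (nat_lit 1) (nat_lit 4) (nat_lit 2) (nat_lit 5) (nat_lit 2) (nat_lit 4) (nat_lit 323) (nat_lit 245) (nat_lit 212))))) (XT.nd (nat_lit 156) (nat_lit 0) (nat_lit 0) (XT.nd (nat_lit 78) (nat_lit 0) (nat_lit 0) (XT.lf (nat_lit 0) (nat_lit 16403038068) (nat_lit 76) (nat_lit 78511626415) (nat_lit 76) (nat_lit 71657621036) (nat_lit 1) (nat_lit 4) (nat_lit 2) (nat_lit 5) (nat_lit 2) (nat_lit 4) (nat_lit 324) (nat_lit 245) (nat_lit 211)) (XT.lf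 (nat_lit 0) (nat_lit 25858209820) (nat_lit 76) (nat_lit 80358449204) (nat_lit 76) (nat_lit 73464436042) (nat_lit 1) (nat_lit 4) (nat_lit 2) (nat_lit 5) (nat_lit 2) (nat_lit 4) (nat_lit 325) (nat_lit 245) (nat_lit 210))) (XT.nd (nat_lit 78) (nat_lit 0) (nat_lit 0) (XT.lf (nat_lit 0) (nat_lit 35995405240) (nat_lit 76) (nat_lit 82388121856) (nat_lit 76) (nat_lit 75457064451) (nat_lit 1) (nat_lit 4) (nat_lit 2) (nat_lit 5) (nat_lit 2) (nat_lit 4) (nat_lit 326) (nat_lit 245) (nat_lit 209)) (XT.nd (nat_lit 78) (nat_lit 0) (nat_lit 0) (XT.lf (nat_lit 0) (nat_lit 46874696595) (nat_lit 76) (nat_lit 84612672061) (nat_lit 76) (nat_lit 77647314432) (nat_lit 1) (nat_lit 4) (nat_lit 2) (nat_lit 5) (nat_lit 2) (nat_lit 4) (nat_lit 327) (nat_lit 245) (nat_lit 208)) (XT.lf (nat_lit 0) (nat_lit 58560553761) (nat_lit 76) (nat_lit 87045282339) (nat_lit 76) (nat_lit 80048165242) (nat_lit 1) (nat_lit 4) (nat_lit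 2) (nat_lit 5) (nat_lit 2) (nat_lit 4) (nat_lit 328) (nat_lit 245) (nat_lit 207)))))) (XT.nd (nat_lit 390) (nat_lit 0) (nat_lit 0) (XT.nd (nat_lit 156) (nat_lit 0) (nat_lit 0) (XT.nd (nat_lit 78) (nat_lit 0) (nat_lit 0) (XT.lf (nat_lit 0) (nat_lit 71122226261) (nat_lit 76) (nat_lit 89700368158) (nat_lit 76) (nat_lit 82673844147) (nat_lit 1) (nat_lit 4) (nat_lit 2) (nat_lit 5) (nat_lit 2) (nat_lit 4) (nat_lit 329) (nat_lit 245) (nat_lit 206)) (XT.lf (nat_lit 0) (nat_lit 84634153637) (nat_lit 76) (nat_lit 92593663360) (nat_lit 76) (nat_lit 85539910724) (nat_lit 1) (nat_lit 4) (nat_lit 2) (nat_lit 5) (nat_lit 2) (nat_lit 4) (nat_lit 330) (nat_lit 245) (nat_lit 205))) (XT.nd (nat_lit 78) (nat_lit 0) (nat_lit 0) (XT.lf (nat_lit 0) (nat_lit 99176406568) (nat_lit 76) (nat_lit 95742313398) (nat_lit 76) (nat_lit 88663349073) (nat_lit 1) (nat_lit 4) (nat_lit 2) (nat_lit 5) (nat_lit 2) (nat_lit 4)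 (nat_lit 331) (nat_lit 245) (nat_lit 204)) (XT.nd (nat_lit 78) (nat_lit 0) (nat_lit 0) (XT.lf (nat_lit 0) (nat_lit 114835161370) (nat_lit 76) (nat_lit 99164976939) (nat_lit 76) (nat_lit 92062668457) (nat_lit 1) (nat_lit 4) (nat_lit 2) (nat_lit 5) (nat_lit 2) (nat_lit 4) (nat_lit 332) (nat_lit 245) (nat_lit 203)) (XT.lf (nat_lit 0) (nat_lit 131703210662) (nat_lit 76) (nat_lit 102881936433) (nat_lit 76) (nat_lit 95758012992) (nat_lit 1) (nat_lit 4) (nat_lit 2) (nat_lit 5) (nat_lit 2) (nat_lit 4) (nat_lit 333) (nat_lit 245) (nat_lit 202))))) (XT.nd (nat_lit 234) (nat_lit 0) (nat_lit 0) (XT.nd (nat_lit 78) (nat_lit 0) (nat_lit 0) (XT.lf (nat_lit 0) (nat_lit 149880513255) (nat_lit 76) (nat_lit 106915218308) (nat_lit 76) (nat_lit 99771281015) (nat_lit 1) (nat_lit 4) (nat_lit 2) (nat_lit 5) (nat_lit 2) (nat_lit 4) (nat_lit 334) (nat_lit 245) (nat_lit 201)) (XT.nd (nat_lit 78) (nat_lit 0) (nat_lit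 0) (XT.lf (nat_lit 0) (nat_lit 169474786499) (nat_lit 76) (nat_lit 111288723492) (nat_lit 76) (nat_lit 104126254855) (nat_lit 1) (nat_lit 4) (nat_lit 2) (nat_lit 5) (nat_lit 2) (nat_lit 4) (nat_lit 335) (nat_lit 245) (nat_lit 200)) (XT.lf (nat_lit 0) (nat_lit 190602144604) (nat_lit 76) (nat_lit 116028369054) (nat_lit 76) (nat_lit 108848741764) (nat_lit 1) (nat_lit 4) (nat_lit 2) (nat_lit 5) (nat_lit 2) (nat_lit 4) (nat_lit 336) (nat_lit 245) (nat_lit 199)))) (XT.nd (nat_lit 78) (nat_lit 0) (nat_lit 0) (XT.lf (nat_lit 0) (nat_lit 213387786731) (nat_lit 76) (nat_lit 121162241782) (nat_lit 76) (nat_lit 113966726851) (nat_lit 1) (nat_lit 4) (nat_lit 2) (nat_lit 5) (nat_lit 2) (nat_lit 4) (nat_lit 337) (nat_lit 245) (nat_lit 198)) (XT.nd (nat_lit 78) (nat_lit 0) (nat_lit 0) (XT.lf (nat_lit 0) (nat_lit 237966738906) (nat_lit 76) (nat_lit 126720764625) (nat_lit 76) (nat_lit 119510538916) (nat_lit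 1) (nat_lit 4) (nat_lit 2) (nat_lit 5) (nat_lit 2) (nat_lit 4) (nat_lit 338) (nat_lit 245) (nat_lit 197)) (XT.lf (nat_lit 0) (nat_lit 264484654179) (nat_lit 76) (nat_lit 132736876979) (nat_lit 76) (nat_lit 125513030179) (nat_lit 1) (nat_lit 4) (nat_lit 2) (nat_lit 5) (nat_lit 2) (nat_lit 4) (nat_lit 339) (nat_lit 245) (nat_lit 196))))))) (XT.nd (nat_lit 36582) (nat_lit 0) (nat_lit 532) (XT.nd (nat_lit 390) (nat_lit 0) (nat_lit 0) (XT.nd (nat_lit 156) (nat_lit 0) (nat_lit 0) (XT.nd (nat_lit 78) (nat_lit 0) (nat_lit 0) (XT.lf (nat_lit 0) (nat_lit 293098675752) (nat_lit 76) (nat_lit 139246229879) (nat_lit 76) (nat_lit 132009770957) (nat_lit 1) (nat_lit 4) (nat_lit 2) (nat_lit 5) (nat_lit 2) (nat_lit 4) (nat_lit 340) (nat_lit 245) (nat_lit 195)) (XT.lf (nat_lit 0) (nat_lit 323978368198) (nat_lit 76) (nat_lit 146287397268) (nat_lit 76) (nat_lit 139039260456) (nat_lit 1) (nat_lit 4) (nat_lit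 2) (nat_lit 5) (nat_lit 2) (nat_lit 4) (nat_lit 341) (nat_lit 245) (nat_lit 194))) (XT.nd (nat_lit 78) (nat_lit 0) (nat_lit 0) (XT.lf (nat_lit 0) (nat_lit 357306722286) (nat_lit 76) (nat_lit 153902104583) (nat_lit 76) (nat_lit 146643154910) (nat_lit 1) (nat_lit 4) (nat_lit 2) (nat_lit 5) (nat_lit 2) (nat_lit 4) (nat_lit 342) (nat_lit 245) (nat_lit 193)) (XT.nd (nat_lit 78) (nat_lit 0) (nat_lit 0) (XT.lf (nat_lit 0) (nat_lit 393281239374) (nat_lit 76) (nat_lit 162135476016) (nat_lit 76) (nat_lit 154866514434) (nat_lit 1) (nat_lit 4) (nat_lit 2) (nat_lit 5) (nat_lit 2) (nat_lit 4) (nat_lit 343) (nat_lit 245) (nat_lit 192)) (XT.lf (nat_lit 0) (nat_lit 432115101785) (nat_lit 76) (nat_lit 171036301915) (nat_lit 76) (nat_lit 163758070047) (nat_lit 1) (nat_lit 4) (nat_lit 2) (nat_lit 5) (nat_lit 2) (nat_lit 4) (nat_lit 344) (nat_lit 245) (nat_lit 191))))) (XT.nd (nat_lit 156) (nat_lit 0) (nat_lit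 0) (XT.nd (nat_lit 78) (nat_lit 0) (nat_lit 0) (XT.lf (nat_lit 0) (nat_lit 474038436111) (nat_lit 76) (nat_lit 180657327915) (nat_lit 76) (nat_lit 173370512450) (nat_lit 1) (nat_lit 4) (nat_lit 2) (nat_lit 5) (nat_lit 2) (nat_lit 4) (nat_lit 345) (nat_lit 245) (nat_lit 190)) (XT.lf (nat_lit 0) (nat_lit 519299676927) (nat_lit 76) (nat_lit 191055567505) (nat_lit 76) (nat_lit 183760804263) (nat_lit 1) (nat_lit 4) (nat_lit 2) (nat_lit 5) (nat_lit 2) (nat_lit 4) (nat_lit 346) (nat_lit 245) (nat_lit 189))) (XT.nd (nat_lit 78) (nat_lit 0) (nat_lit 0) (XT.lf (nat_lit 0) (nat_lit 568167038992) (nat_lit 76) (nat_lit 202292639881) (nat_lit 76) (nat_lit 194990517588) (nat_lit 1) (nat_lit 4) (nat_lit 2) (nat_lit 5) (nat_lit 2) (nat_lit 4) (nat_lit 347) (nat_lit 245) (nat_lit 188)) (XT.nd (nat_lit 78) (nat_lit 0) (nat_lit 0) (XT.lf (nat_lit 0) (nat_lit 620930106675) (nat_lit 76) (nat_lit 214435135102)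 (nat_lit 76) (nat_lit 207126198872) (nat_lit 1) (nat_lit 4) (nat_lit 2) (nat_lit 5) (nat_lit 2) (nat_lit 4) (nat_lit 348) (nat_lit 245) (nat_lit 187)) (XT.lf (nat_lit 0) (nat_lit 677901550006) (nat_lit 76) (nat_lit 227555008695) (nat_lit 76) (nat_lit 220239763264) (nat_lit 1) (nat_lit 4) (nat_lit 2) (nat_lit 5) (nat_lit 2) (nat_lit 4) (nat_lit 349) (nat_lit 245) (nat_lit 186)))))) (XT.nd (nat_lit 390) (nat_lit 380) (nat_lit 0) (XT.nd (nat_lit 156) (nat_lit 380) (nat_lit 0) (XT.nd (nat_lit 78) (nat_lit 0) (nat_lit 0) (XT.lf (nat_lit 0) (nat_lit 175230469) (nat_lit 152) (nat_lit 6755856464) (nat_lit 0) (nat_lit 175230469) (nat_lit 18) (nat_lit 5) (nat_lit 20) (nat_lit 4) (nat_lit 18) (nat_lit 4) (nat_lit 288) (nat_lit 246) (nat_lit 246)) (XT.lf (nat_lit 0) (nat_lit 7041806840) (nat_lit 152) (nat_lit 1640141138) (nat_lit 0) (nat_lit 6286849494) (nat_lit 18) (nat_lit 5) (nat_lit 20) (nat_lit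 4) (nat_lit 18) (nat_lit 4) (nat_lit 289) (nat_lit 246) (nat_lit 245))) (XT.nd (nat_lit 78) (nat_lit 228) (nat_lit 0) (XT.lf (nat_lit 0) (nat_lit 10898441089) (nat_lit 152) (nat_lit 3175532737) (nat_lit 152) (nat_lit 1721540812) (nat_lit 16) (nat_lit 4) (nat_lit 18) (nat_lit 5) (nat_lit 18) (nat_lit 4) (nat_lit 290) (nat_lit 246) (nat_lit 244)) (XT.nd (nat_lit 78) (nat_lit 76) (nat_lit 0) (XT.lf (nat_lit 0) (nat_lit 4654520221) (nat_lit 152) (nat_lit 9385246152) (nat_lit 0) (nat_lit 2653333396) (nat_lit 14) (nat_lit 5) (nat_lit 16) (nat_lit 4) (nat_lit 14) (nat_lit 4) (nat_lit 291) (nat_lit 246) (nat_lit 243)) (XT.lf (nat_lit 0) (nat_lit 2396127285) (nat_lit 76) (nat_lit 8922632976) (nat_lit 76) (nat_lit 6350675216) (nat_lit 13) (nat_lit 4) (nat_lit 14) (nat_lit 5) (nat_lit 14) (nat_lit 4) (nat_lit 292) (nat_lit 246) (nat_lit 242))))) (XT.nd (nat_lit 234) (nat_lit 228) (nat_lit 0) (XT.nd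 (nat_lit 78) (nat_lit 152) (nat_lit 0) (XT.lf (nat_lit 0) (nat_lit 14878921770) (nat_lit 76) (nat_lit 3476839720) (nat_lit 76) (nat_lit 376390353) (nat_lit 13) (nat_lit 4) (nat_lit 14) (nat_lit 5) (nat_lit 14) (nat_lit 4) (nat_lit 293) (nat_lit 246) (nat_lit 241)) (XT.nd (nat_lit 78) (nat_lit 0) (nat_lit 0) (XT.lf (nat_lit 0) (nat_lit 5740276984) (nat_lit 152) (nat_lit 11820718972) (nat_lit 0) (nat_lit 2321426082) (nat_lit 11) (nat_lit 5) (nat_lit 13) (nat_lit 4) (nat_lit 11) (nat_lit 4) (nat_lit 294) (nat_lit 246) (nat_lit 240)) (XT.lf (nat_lit 0) (nat_lit 12165982421) (nat_lit 152) (nat_lit 651375294) (nat_lit 0) (nat_lit 8315611166) (nat_lit 11) (nat_lit 5) (nat_lit 13) (nat_lit 4) (nat_lit 11) (nat_lit 4) (nat_lit 295) (nat_lit 246) (nat_lit 239)))) (XT.nd (nat_lit 78) (nat_lit 152) (nat_lit 0) (XT.lf (nat_lit 0) (nat_lit 11280551846) (nat_lit 76) (nat_lit 7728969316) (nat_lit 76)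 (nat_lit 3479042179) (nat_lit 10) (nat_lit 4) (nat_lit 11) (nat_lit 5) (nat_lit 11) (nat_lit 4) (nat_lit 296) (nat_lit 246) (nat_lit 238)) (XT.nd (nat_lit 78) (nat_lit 76) (nat_lit 0) (XT.lf (nat_lit 0) (nat_lit 2117175403) (nat_lit 152) (nat_lit 279676710) (nat_lit 76) (nat_lit 21566632876) (nat_lit 9) (nat_lit 5) (nat_lit 11) (nat_lit 5) (nat_lit 10) (nat_lit 4) (nat_lit 297) (nat_lit 246) (nat_lit 237)) (XT.lf (nat_lit 0) (nat_lit 8027430011) (nat_lit 152) (nat_lit 14225568950) (nat_lit 0) (nat_lit 3301295672) (nat_lit 8) (nat_lit 5) (nat_lit 10) (nat_lit 4) (nat_lit 8) (nat_lit 4) (nat_lit 298) (nat_lit 246) (nat_lit 236))))))))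
noncomputable def xc23 : XT := (XT.nd (nat_lit 1638) (nat_lit 76) (nat_lit 0) (XT.nd (nat_lit 780) (nat_lit 152) (nat_lit 0) (XT.nd (nat_lit 390) (nat_lit 76) (nat_lit 0) (XT.nd (nat_lit 156) (nat_lit 152) (nat_lit 0) (XT.nd (nat_lit 78) (nat_lit 76) (nat_lit 0) (XT.lf (nat_lit 0) (nat_lit 14219955942) (nat_lit 152) (nat_lit 3870341168) (nat_lit 0) (nat_lit 9191745087) (nat_lit 8) (nat_lit 5) (nat_lit 10) (nat_lit 4) (nat_lit 8) (nat_lit 4) (nat_lit 299) (nat_lit 246) (nat_lit 235)) (XT.lf (nat_lit 0) (nat_lit 7140447478) (nat_lit 76) (nat_lit 13660478121) (nat_lit 76) (nat_lit 8352566789) (nat_lit 7) (nat_lit 4) (nat_lit 8) (nat_lit 5) (nat_lit 8) (nat_lit 4) (nat_lit 300) (nat_lit 246) (nat_lit 234))) (XT.nd (nat_lit 78) (nat_lit 152) (nat_lit 0) (XT.lf (nat_lit 0) (nat_lit 18786355772) (nat_lit 76) (nat_lit 8981181387) (nat_lit 76) (nat_lit 3414288131) (nat_lit 7) (nat_lit 4) (nat_lit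 8) (nat_lit 5) (nat_lit 8) (nat_lit 4) (nat_lit 301) (nat_lit 246) (nat_lit 233)) (XT.nd (nat_lit 78) (nat_lit 76) (nat_lit 0) (XT.lf (nat_lit 0) (nat_lit 1661529812) (nat_lit 152) (nat_lit 2400555217) (nat_lit 76) (nat_lit 29318756923) (nat_lit 6) (nat_lit 5) (nat_lit 8) (nat_lit 5) (nat_lit 7) (nat_lit 4) (nat_lit 302) (nat_lit 246) (nat_lit 232)) (XT.lf (nat_lit 0) (nat_lit 6993051010) (nat_lit 152) (nat_lit 27510162804) (nat_lit 0) (nat_lit 1251406638) (nat_lit 5) (nat_lit 5) (nat_lit 7) (nat_lit 4) (nat_lit 5) (nat_lit 4) (nat_lit 303) (nat_lit 246) (nat_lit 231))))) (XT.nd (nat_lit 156) (nat_lit 76) (nat_lit 0) (XT.nd (nat_lit 78) (nat_lit 0) (nat_lit 0) (XT.lf (nat_lit 0) (nat_lit 12686653091) (nat_lit 152) (nat_lit 18885754184) (nat_lit 0) (nat_lit 6749210433) (nat_lit 5) (nat_lit 5) (nat_lit 7) (nat_lit 4) (nat_lit 5) (nat_lit 4) (nat_lit 304) (nat_lit 246) (nat_lit 230)) (XT.lf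 (nat_lit 0) (nat_lit 18673302025) (nat_lit 152) (nat_lit 9874317571) (nat_lit 0) (nat_lit 12554564657) (nat_lit 5) (nat_lit 5) (nat_lit 7) (nat_lit 4) (nat_lit 5) (nat_lit 4) (nat_lit 305) (nat_lit 246) (nat_lit 229))) (XT.nd (nat_lit 78) (nat_lit 76) (nat_lit 0) (XT.lf (nat_lit 0) (nat_lit 24988474249) (nat_lit 152) (nat_lit 422451859) (nat_lit 0) (nat_lit 18701871409) (nat_lit 5) (nat_lit 5) (nat_lit 7) (nat_lit 4) (nat_lit 5) (nat_lit 4) (nat_lit 306) (nat_lit 246) (nat_lit 228)) (XT.nd (nat_lit 78) (nat_lit 0) (nat_lit 0) (XT.lf (nat_lit 0) (nat_lit 9840821762) (nat_lit 76) (nat_lit 21982414051) (nat_lit 76) (nat_lit 15540380219) (nat_lit 4) (nat_lit 4) (nat_lit 5) (nat_lit 5) (nat_lit 5) (nat_lit 4) (nat_lit 307) (nat_lit 246) (nat_lit 227)) (XT.lf (nat_lit 0) (nat_lit 20691820432) (nat_lit 76) (nat_lit 18387486986) (nat_lit 76) (nat_lit 11801535568) (nat_lit 4) (nat_lit 4) (nat_lit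 5) (nat_lit 5) (nat_lit 5) (nat_lit 4) (nat_lit 308) (nat_lit 246) (nat_lit 226)))))) (XT.nd (nat_lit 390) (nat_lit 0) (nat_lit 0) (XT.nd (nat_lit 156) (nat_lit 152) (nat_lit 0) (XT.nd (nat_lit 78) (nat_lit 0) (nat_lit 0) (XT.lf (nat_lit 0) (nat_lit 32180878199) (nat_lit 76) (nat_lit 14611996068) (nat_lit 76) (nat_lit 7892787626) (nat_lit 4) (nat_lit 4) (nat_lit 5) (nat_lit 5) (nat_lit 5) (nat_lit 4) (nat_lit 309) (nat_lit 246) (nat_lit 225)) (XT.lf (nat_lit 0) (nat_lit 44376078369) (nat_lit 76) (nat_lit 10633568017) (nat_lit 76) (nat_lit 3790973442) (nat_lit 4) (nat_lit 4) (nat_lit 5) (nat_lit 5) (nat_lit 5) (nat_lit 4) (nat_lit 310) (nat_lit 246) (nat_lit 224))) (XT.nd (nat_lit 78) (nat_lit 76) (nat_lit 0) (XT.lf (nat_lit 0) (nat_lit 511307882) (nat_lit 152) (nat_lit 5908659835) (nat_lit 76) (nat_lit 56829721664) (nat_lit 3) (nat_lit 5) (nat_lit 5) (nat_lit 5) (nat_lit 4) (nat_lit 4)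 (nat_lit 311) (nat_lit 246) (nat_lit 223)) (XT.nd (nat_lit 78) (nat_lit 0) (nat_lit 0) (XT.lf (nat_lit 0) (nat_lit 3139111467) (nat_lit 76) (nat_lit 1837345207) (nat_lit 152) (nat_lit 63077593952) (nat_lit 2) (nat_lit 5) (nat_lit 3) (nat_lit 5) (nat_lit 4) (nat_lit 4) (nat_lit 312) (nat_lit 246) (nat_lit 222)) (XT.lf (nat_lit 0) (nat_lit 9856010769) (nat_lit 152) (nat_lit 60347517513) (nat_lit 0) (nat_lit 3036417810) (nat_lit 2) (nat_lit 5) (nat_lit 4) (nat_lit 4) (nat_lit 2) (nat_lit 4) (nat_lit 313) (nat_lit 246) (nat_lit 221))))) (XT.nd (nat_lit 234) (nat_lit 0) (nat_lit 0) (XT.nd (nat_lit 78) (nat_lit 0) (nat_lit 0) (XT.lf (nat_lit 0) (nat_lit 15068017393) (nat_lit 152) (nat_lit 55613582419) (nat_lit 0) (nat_lit 8162050633) (nat_lit 2) (nat_lit 5) (nat_lit 4) (nat_lit 4) (nat_lit 2) (nat_lit 4) (nat_lit 314) (nat_lit 246) (nat_lit 220)) (XT.nd (nat_lit 78) (nat_lit 0) (nat_lit 0) (XT.lf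 (nat_lit 0) (nat_lit 20614676405) (nat_lit 152) (nat_lit 50656394820) (nat_lit 0) (nat_lit 13628733903) (nat_lit 2) (nat_lit 5) (nat_lit 4) (nat_lit 4) (nat_lit 2) (nat_lit 4) (nat_lit 315) (nat_lit 246) (nat_lit 219)) (XT.lf (nat_lit 0) (nat_lit 26528856894) (nat_lit 152) (nat_lit 45446578791) (nat_lit 0) (nat_lit 19468862779) (nat_lit 2) (nat_lit 5) (nat_lit 4) (nat_lit 4) (nat_lit 2) (nat_lit 4) (nat_lit 316) (nat_lit 246) (nat_lit 218)))) (XT.nd (nat_lit 78) (nat_lit 0) (nat_lit 0) (XT.lf (nat_lit 0) (nat_lit 32845605856) (nat_lit 152) (nat_lit 39953261347) (nat_lit 0) (nat_lit 25717045433) (nat_lit 2) (nat_lit 5) (nat_lit 4) (nat_lit 4) (nat_lit 2) (nat_lit 4) (nat_lit 317) (nat_lit 246) (nat_lit 217)) (XT.nd (nat_lit 78) (nat_lit 0) (nat_lit 0) (XT.lf (nat_lit 0) (nat_lit 39602355877) (nat_lit 152) (nat_lit 34143889496) (nat_lit 0) (nat_lit 32410308132) (nat_lit 2) (nat_lit 5) (nat_lit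 4) (nat_lit 4) (nat_lit 2) (nat_lit 4) (nat_lit 318) (nat_lit 246) (nat_lit 216)) (XT.lf (nat_lit 0) (nat_lit 46839146958) (nat_lit 152) (nat_lit 27984037331) (nat_lit 0) (nat_lit 39588314655) (nat_lit 2) (nat_lit 5) (nat_lit 4) (nat_lit 4) (nat_lit 2) (nat_lit 4) (nat_lit 319) (nat_lit 246) (nat_lit 215))))))) (XT.nd (nat_lit 858) (nat_lit 0) (nat_lit 0) (XT.nd (nat_lit 390) (nat_lit 0) (nat_lit 0) (XT.nd (nat_lit 156) (nat_lit 76) (nat_lit 0) (XT.nd (nat_lit 78) (nat_lit 0) (nat_lit 0) (XT.lf (nat_lit 0) (nat_lit 54598863787) (nat_lit 152) (nat_lit 21437202025) (nat_lit 0) (nat_lit 47293601337) (nat_lit 2) (nat_lit 5) (nat_lit 4) (nat_lit 4) (nat_lit 2) (nat_lit 4) (nat_lit 320) (nat_lit 246) (nat_lit 214)) (XT.lf (nat_lit 0) (nat_lit 62927489870) (nat_lit 152) (nat_lit 14464587515) (nat_lit 0) (nat_lit 55571829137) (nat_lit 2) (nat_lit 5) (nat_lit 4) (nat_lit 4) (nat_lit 2) (nat_lit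 4) (nat_lit 321) (nat_lit 246) (nat_lit 213))) (XT.nd (nat_lit 78) (nat_lit 76) (nat_lit 0) (XT.lf (nat_lit 0) (nat_lit 71874380028) (nat_lit 152) (nat_lit 7024874606) (nat_lit 0) (nat_lit 64472054218) (nat_lit 2) (nat_lit 5) (nat_lit 4) (nat_lit 4) (nat_lit 2) (nat_lit 4) (nat_lit 322) (nat_lit 246) (nat_lit 212)) (XT.nd (nat_lit 78) (nat_lit 0) (nat_lit 0) (XT.lf (nat_lit 0) (nat_lit 956642423) (nat_lit 76) (nat_lit 80550846318) (nat_lit 76) (nat_lit 73105312103) (nat_lit 1) (nat_lit 4) (nat_lit 2) (nat_lit 5) (nat_lit 2) (nat_lit 4) (nat_lit 323) (nat_lit 246) (nat_lit 211)) (XT.lf (nat_lit 0) (nat_lit 9747195541) (nat_lit 76) (nat_lit 82243990476) (nat_lit 76) (nat_lit 74758448479) (nat_lit 1) (nat_lit 4) (nat_lit 2) (nat_lit 5) (nat_lit 2) (nat_lit 4) (nat_lit 324) (nat_lit 246) (nat_lit 210))))) (XT.nd (nat_lit 234) (nat_lit 0) (nat_lit 0) (XT.nd (nat_lit 78) (nat_lit 0) (nat_lit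 0) (XT.lf (nat_lit 0) (nat_lit 19166602835) (nat_lit 76) (nat_lit 84107690207) (nat_lit 76) (nat_lit 76585103967) (nat_lit 1) (nat_lit 4) (nat_lit 2) (nat_lit 5) (nat_lit 2) (nat_lit 4) (nat_lit 325) (nat_lit 246) (nat_lit 209)) (XT.nd (nat_lit 78) (nat_lit 0) (nat_lit 0) (XT.lf (nat_lit 0) (nat_lit 29270683015) (nat_lit 76) (nat_lit 86152989658) (nat_lit 76) (nat_lit 78596103193) (nat_lit 1) (nat_lit 4) (nat_lit 2) (nat_lit 5) (nat_lit 2) (nat_lit 4) (nat_lit 326) (nat_lit 246) (nat_lit 208)) (XT.lf (nat_lit 0) (nat_lit 40119312111) (nat_lit 76) (nat_lit 88392009121) (nat_lit 76) (nat_lit 80803363189) (nat_lit 1) (nat_lit 4) (nat_lit 2) (nat_lit 5) (nat_lit 2) (nat_lit 4) (nat_lit 327) (nat_lit 246) (nat_lit 207)))) (XT.nd (nat_lit 78) (nat_lit 0) (nat_lit 0) (XT.lf (nat_lit 0) (nat_lit 51776778297) (nat_lit 76) (nat_lit 90838016860) (nat_lit 76) (nat_lit 83219964013) (nat_lit 1) (nat_lit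 4) (nat_lit 2) (nat_lit 5) (nat_lit 2) (nat_lit 4) (nat_lit 328) (nat_lit 246) (nat_lit 206)) (XT.nd (nat_lit 78) (nat_lit 0) (nat_lit 0) (XT.lf (nat_lit 0) (nat_lit 64312162853) (nat_lit 76) (nat_lit 93505507735) (nat_lit 76) (nat_lit 85860226264) (nat_lit 1) (nat_lit 4) (nat_lit 2) (nat_lit 5) (nat_lit 2) (nat_lit 4) (nat_lit 329) (nat_lit 246) (nat_lit 205)) (XT.lf (nat_lit 0) (nat_lit 77799749539) (nat_lit 76) (nat_lit 96410289100) (nat_lit 76) (nat_lit 88739795940) (nat_lit 1) (nat_lit 4) (nat_lit 2) (nat_lit 5) (nat_lit 2) (nat_lit 4) (nat_lit 330) (nat_lit 246) (nat_lit 204)))))) (XT.nd (nat_lit 390) (nat_lit 0) (nat_lit 0) (XT.nd (nat_lit 156) (nat_lit 0) (nat_lit 0) (XT.nd (nat_lit 78) (nat_lit 0) (nat_lit 0) (XT.lf (nat_lit 0) (nat_lit 92319464795) (nat_lit 76) (nat_lit 99569574475) (nat_lit 76) (nat_lit 91875737158) (nat_lit 1) (nat_lit 4) (nat_lit 2) (nat_lit 5) (nat_lit 2)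 (nat_lit 4) (nat_lit 331) (nat_lit 246) (nat_lit 203)) (XT.lf (nat_lit 0) (nat_lit 107957351379) (nat_lit 76) (nat_lit 103002085550) (nat_lit 76) (nat_lit 95286633273) (nat_lit 1) (nat_lit 4) (nat_lit 2) (nat_lit 5) (nat_lit 2) (nat_lit 4) (nat_lit 332) (nat_lit 246) (nat_lit 202))) (XT.nd (nat_lit 78) (nat_lit 0) (nat_lit 0) (XT.lf (nat_lit 0) (nat_lit 124806078247) (nat_lit 76) (nat_lit 106728163131) (nat_lit 76) (nat_lit 98992697002) (nat_lit 1) (nat_lit 4) (nat_lit 2) (nat_lit 5) (nat_lit 2) (nat_lit 4) (nat_lit 333) (nat_lit 246) (nat_lit 201)) (XT.nd (nat_lit 78) (nat_lit 0) (nat_lit 0) (XT.lf (nat_lit 0) (nat_lit 142965489707) (nat_lit 76) (nat_lit 110769887678) (nat_lit 76) (nat_lit 103015890205) (nat_lit 1) (nat_lit 4) (nat_lit 2) (nat_lit 5) (nat_lit 2) (nat_lit 4) (nat_lit 334) (nat_lit 246) (nat_lit 200)) (XT.lf (nat_lit 0) (nat_lit 162543197086) (nat_lit 76) (nat_lit 115151210152)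 (nat_lit 76) (nat_lit 107380054028) (nat_lit 1) (nat_lit 4) (nat_lit 2) (nat_lit 5) (nat_lit 2) (nat_lit 4) (nat_lit 335) (nat_lit 246) (nat_lit 199))))) (XT.nd (nat_lit 234) (nat_lit 0) (nat_lit 0) (XT.nd (nat_lit 78) (nat_lit 0) (nat_lit 0) (XT.lf (nat_lit 0) (nat_lit 183655216429) (nat_lit 76) (nat_lit 119898093945) (nat_lit 76) (nat_lit 112111050180) (nat_lit 1) (nat_lit 4) (nat_lit 2) (nat_lit 5) (nat_lit 2) (nat_lit 4) (nat_lit 336) (nat_lit 246) (nat_lit 198)) (XT.nd (nat_lit 78) (nat_lit 0) (nat_lit 0) (XT.lf (nat_lit 0) (nat_lit 206426655997) (nat_lit 76) (nat_lit 125038668739) (nat_lit 76) (nat_lit 117236914195) (nat_lit 1) (nat_lit 4) (nat_lit 2) (nat_lit 5) (nat_lit 2) (nat_lit 4) (nat_lit 337) (nat_lit 246) (nat_lit 197)) (XT.lf (nat_lit 0) (nat_lit 230992457654) (nat_lit 76) (nat_lit 130603397199) (nat_lit 76) (nat_lit 122788021564) (nat_lit 1) (nat_lit 4) (nat_lit 2) (nat_lit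 5) (nat_lit 2) (nat_lit 4) (nat_lit 338) (nat_lit 246) (nat_lit 196)))) (XT.nd (nat_lit 78) (nat_lit 0) (nat_lit 0) (XT.lf (nat_lit 0) (nat_lit 257498196523) (nat_lit 76) (nat_lit 136625255494) (nat_lit 76) (nat_lit 128797267737) (nat_lit 1) (nat_lit 4) (nat_lit 2) (nat_lit 5) (nat_lit 2) (nat_lit 4) (nat_lit 339) (nat_lit 246) (nat_lit 195)) (XT.nd (nat_lit 78) (nat_lit 0) (nat_lit 0) (XT.lf (nat_lit 0) (nat_lit 286100943647) (nat_lit 76) (nat_lit 143139928710) (nat_lit 76) (nat_lit 135300263063) (nat_lit 1) (nat_lit 4) (nat_lit 2) (nat_lit 5) (nat_lit 2) (nat_lit 4) (nat_lit 340) (nat_lit 246) (nat_lit 194)) (XT.lf (nat_lit 0) (nat_lit 316970196788) (nat_lit 76) (nat_lit 150186022318) (nat_lit 76) (nat_lit 142335543810) (nat_lit 1) (nat_lit 4) (nat_lit 2) (nat_lit 5) (nat_lit 2) (nat_lit 4) (nat_lit 341) (nat_lit 246) (nat_lit 193))))))))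
noncomputable def xc24 : XT := (XT.nd (nat_lit 37284) (nat_lit 0) (nat_lit 76) (XT.nd (nat_lit 36426) (nat_lit 0) (nat_lit 532) (XT.nd (nat_lit 390) (nat_lit 0) (nat_lit 0) (XT.nd (nat_lit 156) (nat_lit 0) (nat_lit 0) (XT.nd (nat_lit 78) (nat_lit 0) (nat_lit 0) (XT.lf (nat_lit 0) (nat_lit 350288884854) (nat_lit 76) (nat_lit 157805290947) (nat_lit 76) (nat_lit 149944800530) (nat_lit 1) (nat_lit 4) (nat_lit 2) (nat_lit 5) (nat_lit 2) (nat_lit 4) (nat_lit 342) (nat_lit 246) (nat_lit 192)) (XT.lf (nat_lit 0) (nat_lit 386254451920) (nat_lit 76) (nat_lit 166042885818) (nat_lit 76) (nat_lit 158173125115) (nat_lit 1) (nat_lit 4) (nat_lit 2) (nat_lit 5) (nat_lit 2) (nat_lit 4) (nat_lit 343) (nat_lit 246) (nat_lit 191))) (XT.nd (nat_lit 78) (nat_lit 0) (nat_lit 0) (XT.lf (nat_lit 0) (nat_lit 425080027275) (nat_lit 76) (nat_lit 174947622308) (nat_lit 76) (nat_lit 167069278007) (nat_lit 1) (nat_lit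 4) (nat_lit 2) (nat_lit 5) (nat_lit 2) (nat_lit 4) (nat_lit 344) (nat_lit 246) (nat_lit 190)) (XT.nd (nat_lit 78) (nat_lit 0) (nat_lit 0) (XT.lf (nat_lit 0) (nat_lit 466995688401) (nat_lit 76) (nat_lit 184572269226) (nat_lit 76) (nat_lit 176685977150) (nat_lit 1) (nat_lit 4) (nat_lit 2) (nat_lit 5) (nat_lit 2) (nat_lit 4) (nat_lit 345) (nat_lit 246) (nat_lit 189)) (XT.lf (nat_lit 0) (nat_lit 512249824402) (nat_lit 76) (nat_lit 194973861518) (nat_lit 76) (nat_lit 187080210389) (nat_lit 1) (nat_lit 4) (nat_lit 2) (nat_lit 5) (nat_lit 2) (nat_lit 4) (nat_lit 346) (nat_lit 246) (nat_lit 188))))) (XT.nd (nat_lit 156) (nat_lit 0) (nat_lit 0) (XT.nd (nat_lit 78) (nat_lit 0) (nat_lit 0) (XT.lf (nat_lit 0) (nat_lit 561110607935) (nat_lit 76) (nat_lit 206214038247) (nat_lit 76) (nat_lit 198313573182) (nat_lit 1) (nat_lit 4) (nat_lit 2) (nat_lit 5) (nat_lit 2) (nat_lit 4) (nat_lit 347) (nat_lit 246)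 (nat_lit 187)) (XT.lf (nat_lit 0) (nat_lit 613867584384) (nat_lit 76) (nat_lit 218359407869) (nat_lit 76) (nat_lit 210452633603) (nat_lit 1) (nat_lit 4) (nat_lit 2) (nat_lit 5) (nat_lit 2) (nat_lit 4) (nat_lit 348) (nat_lit 246) (nat_lit 186))) (XT.nd (nat_lit 35724) (nat_lit 0) (nat_lit 1444) (XT.lf (nat_lit 0) (nat_lit 670833387683) (nat_lit 76) (nat_lit 231481942945) (nat_lit 76) (nat_lit 223569326827) (nat_lit 1) (nat_lit 4) (nat_lit 2) (nat_lit 5) (nat_lit 2) (nat_lit 4) (nat_lit 349) (nat_lit 246) (nat_lit 185)) (XT.nd (nat_lit 78) (nat_lit 152) (nat_lit 0) (XT.lf (nat_lit 0) (nat_lit 779937386) (nat_lit 152) (nat_lit 4872640435) (nat_lit 0) (nat_lit 779937386) (nat_lit 22) (nat_lit 5) (nat_lit 24) (nat_lit 4) (nat_lit 22) (nat_lit 4) (nat_lit 286) (nat_lit 247) (nat_lit 247)) (XT.lf (nat_lit 0) (nat_lit 2095560813) (nat_lit 152) (nat_lit 6136671569) (nat_lit 152) (nat_lit 5280549938)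 (nat_lit 20) (nat_lit 4) (nat_lit 22) (nat_lit 5) (nat_lit 22) (nat_lit 4) (nat_lit 287) (nat_lit 247) (nat_lit 246)))))) (XT.nd (nat_lit 390) (nat_lit 380) (nat_lit 0) (XT.nd (nat_lit 156) (nat_lit 380) (nat_lit 0) (XT.nd (nat_lit 78) (nat_lit 0) (nat_lit 0) (XT.lf (nat_lit 0) (nat_lit 372595196) (nat_lit 76) (nat_lit 613464335) (nat_lit 152) (nat_lit 13235738107) (nat_lit 18) (nat_lit 5) (nat_lit 19) (nat_lit 5) (nat_lit 20) (nat_lit 4) (nat_lit 288) (nat_lit 247) (nat_lit 245)) (XT.lf (nat_lit 0) (nat_lit 7492518980) (nat_lit 152) (nat_lit 2271674621) (nat_lit 0) (nat_lit 5223173120) (nat_lit 18) (nat_lit 5) (nat_lit 20) (nat_lit 4) (nat_lit 18) (nat_lit 4) (nat_lit 289) (nat_lit 247) (nat_lit 244))) (XT.nd (nat_lit 78) (nat_lit 228) (nat_lit 0) (XT.lf (nat_lit 0) (nat_lit 9955599428) (nat_lit 152) (nat_lit 4392043401) (nat_lit 152) (nat_lit 1475443301) (nat_lit 16) (nat_lit 4) (nat_lit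 18) (nat_lit 5) (nat_lit 18) (nat_lit 4) (nat_lit 290) (nat_lit 247) (nat_lit 243)) (XT.nd (nat_lit 78) (nat_lit 76) (nat_lit 0) (XT.lf (nat_lit 0) (nat_lit 4694351230) (nat_lit 152) (nat_lit 10690313847) (nat_lit 0) (nat_lit 1345865914) (nat_lit 14) (nat_lit 5) (nat_lit 16) (nat_lit 4) (nat_lit 14) (nat_lit 4) (nat_lit 291) (nat_lit 247) (nat_lit 242)) (XT.lf (nat_lit 0) (nat_lit 770873091) (nat_lit 76) (nat_lit 10410965361) (nat_lit 76) (nat_lit 6533988438) (nat_lit 13) (nat_lit 4) (nat_lit 14) (nat_lit 5) (nat_lit 14) (nat_lit 4) (nat_lit 292) (nat_lit 247) (nat_lit 241))))) (XT.nd (nat_lit 234) (nat_lit 228) (nat_lit 0) (XT.nd (nat_lit 78) (nat_lit 152) (nat_lit 0) (XT.lf (nat_lit 0) (nat_lit 12997153624) (nat_lit 76) (nat_lit 5077516297) (nat_lit 76) (nat_lit 711195294) (nat_lit 13) (nat_lit 4) (nat_lit 14) (nat_lit 5) (nat_lit 14) (nat_lit 4) (nat_lit 293) (nat_lit 247) (nat_lit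 240)) (XT.nd (nat_lit 78) (nat_lit 0) (nat_lit 0) (XT.lf (nat_lit 0) (nat_lit 5218058173) (nat_lit 152) (nat_lit 14100208283) (nat_lit 0) (nat_lit 628136865) (nat_lit 11) (nat_lit 5) (nat_lit 13) (nat_lit 4) (nat_lit 11) (nat_lit 4) (nat_lit 294) (nat_lit 247) (nat_lit 239)) (XT.lf (nat_lit 0) (nat_lit 11512828919) (nat_lit 152) (nat_lit 3167408902) (nat_lit 0) (nat_lit 6523351728) (nat_lit 11) (nat_lit 5) (nat_lit 13) (nat_lit 4) (nat_lit 11) (nat_lit 4) (nat_lit 295) (nat_lit 247) (nat_lit 238)))) (XT.nd (nat_lit 78) (nat_lit 152) (nat_lit 0) (XT.lf (nat_lit 0) (nat_lit 8455062433) (nat_lit 76) (nat_lit 9735955593) (nat_lit 76) (nat_lit 4376519252) (nat_lit 10) (nat_lit 4) (nat_lit 11) (nat_lit 5) (nat_lit 11) (nat_lit 4) (nat_lit 296) (nat_lit 247) (nat_lit 237)) (XT.nd (nat_lit 78) (nat_lit 76) (nat_lit 0) (XT.lf (nat_lit 0) (nat_lit 1130926097) (nat_lit 152) (nat_lit 3383592610) (nat_lit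 76) (nat_lit 19534591332) (nat_lit 9) (nat_lit 5) (nat_lit 11) (nat_lit 5) (nat_lit 10) (nat_lit 4) (nat_lit 297) (nat_lit 247) (nat_lit 236)) (XT.lf (nat_lit 0) (nat_lit 6843812971) (nat_lit 152) (nat_lit 17694776412) (nat_lit 0) (nat_lit 1111268732) (nat_lit 8) (nat_lit 5) (nat_lit 10) (nat_lit 4) (nat_lit 8) (nat_lit 4) (nat_lit 298) (nat_lit 247) (nat_lit 235))))))) (XT.nd (nat_lit 780) (nat_lit 152) (nat_lit 0) (XT.nd (nat_lit 390) (nat_lit 76) (nat_lit 0) (XT.nd (nat_lit 156) (nat_lit 152) (nat_lit 0) (XT.nd (nat_lit 78) (nat_lit 76) (nat_lit 0) (XT.lf (nat_lit 0) (nat_lit 12931319314) (nat_lit 152) (nat_lit 7532527606) (nat_lit 0) (nat_lit 6919074597) (nat_lit 8) (nat_lit 5) (nat_lit 10) (nat_lit 4) (nat_lit 8) (nat_lit 4) (nat_lit 299) (nat_lit 247) (nat_lit 234)) (XT.lf (nat_lit 0) (nat_lit 3172580272) (nat_lit 76) (nat_lit 16180518812) (nat_lit 76) (nat_lit 9909292172) (nat_lit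 7) (nat_lit 4) (nat_lit 8) (nat_lit 5) (nat_lit 8) (nat_lit 4) (nat_lit 300) (nat_lit 247) (nat_lit 233))) (XT.nd (nat_lit 78) (nat_lit 152) (nat_lit 0) (XT.lf (nat_lit 0) (nat_lit 14647569728) (nat_lit 76) (nat_lit 11579435024) (nat_lit 76) (nat_lit 5068410306) (nat_lit 7) (nat_lit 4) (nat_lit 8) (nat_lit 5) (nat_lit 8) (nat_lit 4) (nat_lit 301) (nat_lit 247) (nat_lit 232)) (XT.nd (nat_lit 78) (nat_lit 152) (nat_lit 0) (XT.lf (nat_lit 0) (nat_lit 26711381320) (nat_lit 76) (nat_lit 6760896873) (nat_lit 76) (nat_lit 27836898) (nat_lit 7) (nat_lit 4) (nat_lit 8) (nat_lit 5) (nat_lit 8) (nat_lit 4) (nat_lit 302) (nat_lit 247) (nat_lit 231)) (XT.lf (nat_lit 0) (nat_lit 3578639918) (nat_lit 76) (nat_lit 1551744517) (nat_lit 152) (nat_lit 30752285828) (nat_lit 5) (nat_lit 5) (nat_lit 6) (nat_lit 5) (nat_lit 7) (nat_lit 4) (nat_lit 303) (nat_lit 247) (nat_lit 230))))) (XT.nd (nat_lit 156) (nat_lit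 76) (nat_lit 0) (XT.nd (nat_lit 78) (nat_lit 0) (nat_lit 0) (XT.lf (nat_lit 0) (nat_lit 10721662651) (nat_lit 152) (nat_lit 23801031518) (nat_lit 0) (nat_lit 3932131584) (nat_lit 5) (nat_lit 5) (nat_lit 7) (nat_lit 4) (nat_lit 5) (nat_lit 4) (nat_lit 304) (nat_lit 247) (nat_lit 229)) (XT.lf (nat_lit 0) (nat_lit 16635999746) (nat_lit 152) (nat_lit 14924443862) (nat_lit 0) (nat_lit 9678603207) (nat_lit 5) (nat_lit 5) (nat_lit 7) (nat_lit 4) (nat_lit 5) (nat_lit 4) (nat_lit 305) (nat_lit 247) (nat_lit 228))) (XT.nd (nat_lit 78) (nat_lit 76) (nat_lit 0) (XT.lf (nat_lit 0) (nat_lit 22884216564) (nat_lit 152) (nat_lit 5597438295) (nat_lit 0) (nat_lit 15771389032) (nat_lit 5) (nat_lit 5) (nat_lit 7) (nat_lit 4) (nat_lit 5) (nat_lit 4) (nat_lit 306) (nat_lit 247) (nat_lit 227)) (XT.nd (nat_lit 78) (nat_lit 0) (nat_lit 0) (XT.lf (nat_lit 0) (nat_lit 4375293028) (nat_lit 76) (nat_lit 25196357133)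 (nat_lit 76) (nat_lit 17939612015) (nat_lit 4) (nat_lit 4) (nat_lit 5) (nat_lit 5) (nat_lit 5) (nat_lit 4) (nat_lit 307) (nat_lit 247) (nat_lit 226)) (XT.lf (nat_lit 0) (nat_lit 15115704777) (nat_lit 76) (nat_lit 21652886948) (nat_lit 76) (nat_lit 14262884807) (nat_lit 4) (nat_lit 4) (nat_lit 5) (nat_lit 5) (nat_lit 5) (nat_lit 4) (nat_lit 308) (nat_lit 247) (nat_lit 225)))))) (XT.nd (nat_lit 390) (nat_lit 0) (nat_lit 0) (XT.nd (nat_lit 156) (nat_lit 152) (nat_lit 0) (XT.nd (nat_lit 78) (nat_lit 0) (nat_lit 0) (XT.lf (nat_lit 0) (nat_lit 26502367247) (nat_lit 76) (nat_lit 17925041290) (nat_lit 76) (nat_lit 10411653016) (nat_lit 4) (nat_lit 4) (nat_lit 5) (nat_lit 5) (nat_lit 5) (nat_lit 4) (nat_lit 309) (nat_lit 247) (nat_lit 224)) (XT.lf (nat_lit 0) (nat_lit 38602756955) (nat_lit 76) (nat_lit 13990729221) (nat_lit 76) (nat_lit 6363094527) (nat_lit 4) (nat_lit 4) (nat_lit 5) (nat_lit 5)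 (nat_lit 5) (nat_lit 4) (nat_lit 310) (nat_lit 247) (nat_lit 223))) (XT.nd (nat_lit 78) (nat_lit 152) (nat_lit 0) (XT.lf (nat_lit 0) (nat_lit 51488579916) (nat_lit 76) (nat_lit 9826636299) (nat_lit 76) (nat_lit 2093217883) (nat_lit 4) (nat_lit 4) (nat_lit 5) (nat_lit 5) (nat_lit 5) (nat_lit 4) (nat_lit 311) (nat_lit 247) (nat_lit 222)) (XT.nd (nat_lit 78) (nat_lit 76) (nat_lit 0) (XT.lf (nat_lit 0) (nat_lit 2345719797) (nat_lit 152) (nat_lit 3022640720) (nat_lit 76) (nat_lit 62850750864) (nat_lit 3) (nat_lit 5) (nat_lit 5) (nat_lit 5) (nat_lit 4) (nat_lit 4) (nat_lit 312) (nat_lit 247) (nat_lit 221)) (XT.lf (nat_lit 0) (nat_lit 6602986759) (nat_lit 76) (nat_lit 482401316) (nat_lit 152) (nat_lit 66326633092) (nat_lit 2) (nat_lit 5) (nat_lit 3) (nat_lit 5) (nat_lit 4) (nat_lit 4) (nat_lit 313) (nat_lit 247) (nat_lit 220))))) (XT.nd (nat_lit 234) (nat_lit 0) (nat_lit 0) (XT.nd (nat_lit 78)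 (nat_lit 0) (nat_lit 0) (XT.lf (nat_lit 0) (nat_lit 12250291841) (nat_lit 152) (nat_lit 62142309170) (nat_lit 0) (nat_lit 4625498197) (nat_lit 2) (nat_lit 5) (nat_lit 4) (nat_lit 4) (nat_lit 2) (nat_lit 4) (nat_lit 314) (nat_lit 247) (nat_lit 219)) (XT.nd (nat_lit 78) (nat_lit 0) (nat_lit 0) (XT.lf (nat_lit 0) (nat_lit 17760310832) (nat_lit 152) (nat_lit 57254326657) (nat_lit 0) (nat_lit 10061465575) (nat_lit 2) (nat_lit 5) (nat_lit 4) (nat_lit 4) (nat_lit 2) (nat_lit 4) (nat_lit 315) (nat_lit 247) (nat_lit 218)) (XT.lf (nat_lit 0) (nat_lit 23640565376) (nat_lit 152) (nat_lit 52108589410) (nat_lit 0) (nat_lit 15873153811) (nat_lit 2) (nat_lit 5) (nat_lit 4) (nat_lit 4) (nat_lit 2) (nat_lit 4) (nat_lit 316) (nat_lit 247) (nat_lit 217)))) (XT.nd (nat_lit 78) (nat_lit 0) (nat_lit 0) (XT.lf (nat_lit 0) (nat_lit 29925901425) (nat_lit 152) (nat_lit 46674604172) (nat_lit 0) (nat_lit 22095002538)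 (nat_lit 2) (nat_lit 5) (nat_lit 4) (nat_lit 4) (nat_lit 2) (nat_lit 4) (nat_lit 317) (nat_lit 247) (nat_lit 216)) (XT.nd (nat_lit 78) (nat_lit 0) (nat_lit 0) (XT.lf (nat_lit 0) (nat_lit 36653565417) (nat_lit 152) (nat_lit 40920169549) (nat_lit 0) (nat_lit 28763881972) (nat_lit 2) (nat_lit 5) (nat_lit 4) (nat_lit 4) (nat_lit 2) (nat_lit 4) (nat_lit 318) (nat_lit 247) (nat_lit 215)) (XT.lf (nat_lit 0) (nat_lit 43863424989) (nat_lit 152) (nat_lit 34811185188) (nat_lit 0) (nat_lit 35919311397) (nat_lit 2) (nat_lit 5) (nat_lit 4) (nat_lit 4) (nat_lit 2) (nat_lit 4) (nat_lit 319) (nat_lit 247) (nat_lit 214))))))))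
noncomputable def xc25 : XT := (XT.nd (nat_lit 1638) (nat_lit 0) (nat_lit 0) (XT.nd (nat_lit 780) (nat_lit 0) (nat_lit 0) (XT.nd (nat_lit 390) (nat_lit 0) (nat_lit 0) (XT.nd (nat_lit 156) (nat_lit 76) (nat_lit 0) (XT.nd (nat_lit 78) (nat_lit 0) (nat_lit 0) (XT.lf (nat_lit 0) (nat_lit 51598205235) (nat_lit 152) (nat_lit 28311449699) (nat_lit 0) (nat_lit 43603693360) (nat_lit 2) (nat_lit 5) (nat_lit 4) (nat_lit 4) (nat_lit 2) (nat_lit 4) (nat_lit 320) (nat_lit 247) (nat_lit 213)) (XT.lf (nat_lit 0) (nat_lit 59903741889) (nat_lit 152) (nat_lit 21382446132) (nat_lit 0) (nat_lit 51862564937) (nat_lit 2) (nat_lit 5) (nat_lit 4) (nat_lit 4) (nat_lit 2) (nat_lit 4) (nat_lit 321) (nat_lit 247) (nat_lit 212))) (XT.nd (nat_lit 78) (nat_lit 76) (nat_lit 0) (XT.lf (nat_lit 0) (nat_lit 68829252948) (nat_lit 152) (nat_lit 13983113725) (nat_lit 0) (nat_lit 60744867591) (nat_lit 2) (nat_lit 5) (nat_lit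 4) (nat_lit 4) (nat_lit 2) (nat_lit 4) (nat_lit 322) (nat_lit 247) (nat_lit 211)) (XT.nd (nat_lit 78) (nat_lit 76) (nat_lit 0) (XT.lf (nat_lit 0) (nat_lit 78427630328) (nat_lit 152) (nat_lit 6069604582) (nat_lit 0) (nat_lit 70303237188) (nat_lit 2) (nat_lit 5) (nat_lit 4) (nat_lit 4) (nat_lit 2) (nat_lit 4) (nat_lit 323) (nat_lit 247) (nat_lit 210)) (XT.lf (nat_lit 0) (nat_lit 2484495538) (nat_lit 76) (nat_lit 86310047702) (nat_lit 76) (nat_lit 78148610320) (nat_lit 1) (nat_lit 4) (nat_lit 2) (nat_lit 5) (nat_lit 2) (nat_lit 4) (nat_lit 324) (nat_lit 247) (nat_lit 209))))) (XT.nd (nat_lit 156) (nat_lit 0) (nat_lit 0) (XT.nd (nat_lit 78) (nat_lit 0) (nat_lit 0) (XT.lf (nat_lit 0) (nat_lit 11870787593) (nat_lit 76) (nat_lit 88189374231) (nat_lit 76) (nat_lit 79993636625) (nat_lit 1) (nat_lit 4) (nat_lit 2) (nat_lit 5) (nat_lit 2) (nat_lit 4) (nat_lit 325) (nat_lit 247) (nat_lit 208)) (XT.lf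 (nat_lit 0) (nat_lit 21944205514) (nat_lit 76) (nat_lit 90249142940) (nat_lit 76) (nat_lit 82021645866) (nat_lit 1) (nat_lit 4) (nat_lit 2) (nat_lit 5) (nat_lit 2) (nat_lit 4) (nat_lit 326) (nat_lit 247) (nat_lit 207))) (XT.nd (nat_lit 78) (nat_lit 0) (nat_lit 0) (XT.lf (nat_lit 0) (nat_lit 32764443631) (nat_lit 76) (nat_lit 92501559864) (nat_lit 76) (nat_lit 84244655875) (nat_lit 1) (nat_lit 4) (nat_lit 2) (nat_lit 5) (nat_lit 2) (nat_lit 4) (nat_lit 327) (nat_lit 247) (nat_lit 206)) (XT.nd (nat_lit 78) (nat_lit 0) (nat_lit 0) (XT.lf (nat_lit 0) (nat_lit 44395621872) (nat_lit 76) (nat_lit 94959972659) (nat_lit 76) (nat_lit 86675840046) (nat_lit 1) (nat_lit 4) (nat_lit 2) (nat_lit 5) (nat_lit 2) (nat_lit 4) (nat_lit 328) (nat_lit 247) (nat_lit 205)) (XT.lf (nat_lit 0) (nat_lit 56906665738) (nat_lit 76) (nat_lit 97638949698) (nat_lit 76) (nat_lit 89329605396) (nat_lit 1) (nat_lit 4) (nat_lit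 2) (nat_lit 5) (nat_lit 2) (nat_lit 4) (nat_lit 329) (nat_lit 247) (nat_lit 204)))))) (XT.nd (nat_lit 390) (nat_lit 0) (nat_lit 0) (XT.nd (nat_lit 156) (nat_lit 0) (nat_lit 0) (XT.nd (nat_lit 78) (nat_lit 0) (nat_lit 0) (XT.lf (nat_lit 0) (nat_lit 70371714749) (nat_lit 76) (nat_lit 100554366400) (nat_lit 76) (nat_lit 92221677941) (nat_lit 1) (nat_lit 4) (nat_lit 2) (nat_lit 5) (nat_lit 2) (nat_lit 4) (nat_lit 330) (nat_lit 247) (nat_lit 203)) (XT.lf (nat_lit 0) (nat_lit 84870561787) (nat_lit 76) (nat_lit 103723499308) (nat_lit 76) (nat_lit 95369195889) (nat_lit 1) (nat_lit 4) (nat_lit 2) (nat_lit 5) (nat_lit 2) (nat_lit 4) (nat_lit 331) (nat_lit 247) (nat_lit 202))) (XT.nd (nat_lit 78) (nat_lit 0) (nat_lit 0) (XT.lf (nat_lit 0) (nat_lit 100489125946) (nat_lit 76) (nat_lit 107165128470) (nat_lit 76) (nat_lit 98790811199) (nat_lit 1) (nat_lit 4) (nat_lit 2) (nat_lit 5) (nat_lit 2) (nat_lit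 4) (nat_lit 332) (nat_lit 247) (nat_lit 201)) (XT.nd (nat_lit 78) (nat_lit 0) (nat_lit 0) (XT.lf (nat_lit 0) (nat_lit 117319961681) (nat_lit 76) (nat_lit 110899648724) (nat_lit 76) (nat_lit 102506800109) (nat_lit 1) (nat_lit 4) (nat_lit 2) (nat_lit 5) (nat_lit 2) (nat_lit 4) (nat_lit 333) (nat_lit 247) (nat_lit 200)) (XT.lf (nat_lit 0) (nat_lit 135462807277) (nat_lit 76) (nat_lit 114949190561) (nat_lit 76) (nat_lit 106539183294) (nat_lit 1) (nat_lit 4) (nat_lit 2) (nat_lit 5) (nat_lit 2) (nat_lit 4) (nat_lit 334) (nat_lit 247) (nat_lit 199))))) (XT.nd (nat_lit 234) (nat_lit 0) (nat_lit 0) (XT.nd (nat_lit 78) (nat_lit 0) (nat_lit 0) (XT.lf (nat_lit 0) (nat_lit 155025175893) (nat_lit 76) (nat_lit 119337751266) (nat_lit 76) (nat_lit 110911856359) (nat_lit 1) (nat_lit 4) (nat_lit 2) (nat_lit 5) (nat_lit 2) (nat_lit 4) (nat_lit 335) (nat_lit 247) (nat_lit 198)) (XT.nd (nat_lit 78) (nat_lit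 0) (nat_lit 0) (XT.lf (nat_lit 0) (nat_lit 176122992677) (nat_lit 76) (nat_lit 124091337125) (nat_lit 76) (nat_lit 115650731439) (nat_lit 1) (nat_lit 4) (nat_lit 2) (nat_lit 5) (nat_lit 2) (nat_lit 4) (nat_lit 336) (nat_lit 247) (nat_lit 197)) (XT.lf (nat_lit 0) (nat_lit 198881281728) (nat_lit 76) (nat_lit 129238117536) (nat_lit 76) (nat_lit 120783890759) (nat_lit 1) (nat_lit 4) (nat_lit 2) (nat_lit 5) (nat_lit 2) (nat_lit 4) (nat_lit 337) (nat_lit 247) (nat_lit 196)))) (XT.nd (nat_lit 78) (nat_lit 0) (nat_lit 0) (XT.lf (nat_lit 0) (nat_lit 223434906981) (nat_lit 76) (nat_lit 134808591937) (nat_lit 76) (nat_lit 126341753039) (nat_lit 1) (nat_lit 4) (nat_lit 2) (nat_lit 5) (nat_lit 2) (nat_lit 4) (nat_lit 338) (nat_lit 247) (nat_lit 195)) (XT.nd (nat_lit 78) (nat_lit 0) (nat_lit 0) (XT.lf (nat_lit 0) (nat_lit 249929371401) (nat_lit 76) (nat_lit 140835770549) (nat_lit 76) (nat_lit 132357253759)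 (nat_lit 1) (nat_lit 4) (nat_lit 2) (nat_lit 5) (nat_lit 2) (nat_lit 4) (nat_lit 339) (nat_lit 247) (nat_lit 194)) (XT.lf (nat_lit 0) (nat_lit 278521679221) (nat_lit 76) (nat_lit 147355369983) (nat_lit 76) (nat_lit 138866040333) (nat_lit 1) (nat_lit 4) (nat_lit 2) (nat_lit 5) (nat_lit 2) (nat_lit 4) (nat_lit 340) (nat_lit 247) (nat_lit 193))))))) (XT.nd (nat_lit 36270) (nat_lit 0) (nat_lit 760) (XT.nd (nat_lit 390) (nat_lit 0) (nat_lit 0) (XT.nd (nat_lit 156) (nat_lit 0) (nat_lit 0) (XT.nd (nat_lit 78) (nat_lit 0) (nat_lit 0) (XT.lf (nat_lit 0) (nat_lit 309381266339) (nat_lit 76) (nat_lit 154406024905) (nat_lit 76) (nat_lit 145906683346) (nat_lit 1) (nat_lit 4) (nat_lit 2) (nat_lit 5) (nat_lit 2) (nat_lit 4) (nat_lit 341) (nat_lit 247) (nat_lit 192)) (XT.lf (nat_lit 0) (nat_lit 342691004383) (nat_lit 76) (nat_lit 162029516972) (nat_lit 76) (nat_lit 153520905127) (nat_lit 1) (nat_lit 4)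 (nat_lit 2) (nat_lit 5) (nat_lit 2) (nat_lit 4) (nat_lit 342) (nat_lit 247) (nat_lit 191))) (XT.nd (nat_lit 78) (nat_lit 0) (nat_lit 0) (XT.lf (nat_lit 0) (nat_lit 378648284394) (nat_lit 76) (nat_lit 170271022434) (nat_lit 76) (nat_lit 161753826991) (nat_lit 1) (nat_lit 4) (nat_lit 2) (nat_lit 5) (nat_lit 2) (nat_lit 4) (nat_lit 343) (nat_lit 247) (nat_lit 190)) (XT.nd (nat_lit 78) (nat_lit 0) (nat_lit 0) (XT.lf (nat_lit 0) (nat_lit 417466186548) (nat_lit 76) (nat_lit 179179379842) (nat_lit 76) (nat_lit 170654236623) (nat_lit 1) (nat_lit 4) (nat_lit 2) (nat_lit 5) (nat_lit 2) (nat_lit 4) (nat_lit 344) (nat_lit 247) (nat_lit 189)) (XT.lf (nat_lit 0) (nat_lit 459374742859) (nat_lit 76) (nat_lit 188807379462) (nat_lit 76) (nat_lit 180274877191) (nat_lit 1) (nat_lit 4) (nat_lit 2) (nat_lit 5) (nat_lit 2) (nat_lit 4) (nat_lit 345) (nat_lit 247) (nat_lit 188))))) (XT.nd (nat_lit 156) (nat_lit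 0) (nat_lit 0) (XT.nd (nat_lit 78) (nat_lit 0) (nat_lit 0) (XT.lf (nat_lit 0) (nat_lit 504622300327) (nat_lit 76) (nat_lit 199212076106) (nat_lit 76) (nat_lit 190672759899) (nat_lit 1) (nat_lit 4) (nat_lit 2) (nat_lit 5) (nat_lit 2) (nat_lit 4) (nat_lit 346) (nat_lit 247) (nat_lit 187)) (XT.lf (nat_lit 0) (nat_lit 553476992626) (nat_lit 76) (nat_lit 210455127237) (nat_lit 76) (nat_lit 201909501829) (nat_lit 1) (nat_lit 4) (nat_lit 2) (nat_lit 5) (nat_lit 2) (nat_lit 4) (nat_lit 347) (nat_lit 247) (nat_lit 186))) (XT.nd (nat_lit 78) (nat_lit 0) (nat_lit 0) (XT.lf (nat_lit 0) (nat_lit 606228329043) (nat_lit 76) (nat_lit 222603158342) (nat_lit 76) (nat_lit 214051691081) (nat_lit 1) (nat_lit 4) (nat_lit 2) (nat_lit 5) (nat_lit 2) (nat_lit 4) (nat_lit 348) (nat_lit 247) (nat_lit 185)) (XT.nd (nat_lit 35568) (nat_lit 0) (nat_lit 1900) (XT.lf (nat_lit 0) (nat_lit 663188910091) (nat_lit 76) (nat_lit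 235728157753) (nat_lit 76) (nat_lit 227171281370) (nat_lit 1) (nat_lit 4) (nat_lit 2) (nat_lit 5) (nat_lit 2) (nat_lit 4) (nat_lit 349) (nat_lit 247) (nat_lit 184)) (XT.lf (nat_lit 0) (nat_lit 887121104) (nat_lit 228) (nat_lit 4082479148) (nat_lit 0) (nat_lit 887121104) (nat_lit 26) (nat_lit 5) (nat_lit 29) (nat_lit 4) (nat_lit 26) (nat_lit 4) (nat_lit 284) (nat_lit 248) (nat_lit 248)))))) (XT.nd (nat_lit 390) (nat_lit 532) (nat_lit 0) (XT.nd (nat_lit 156) (nat_lit 304) (nat_lit 0) (XT.nd (nat_lit 78) (nat_lit 152) (nat_lit 0) (XT.lf (nat_lit 0) (nat_lit 3436186753) (nat_lit 152) (nat_lit 4901392797) (nat_lit 152) (nat_lit 3930550868) (nat_lit 24) (nat_lit 4) (nat_lit 26) (nat_lit 5) (nat_lit 26) (nat_lit 4) (nat_lit 285) (nat_lit 248) (nat_lit 247)) (XT.lf (nat_lit 0) (nat_lit 2296145337) (nat_lit 152) (nat_lit 10063088292) (nat_lit 0) (nat_lit 515412346) (nat_lit 22) (nat_lit 5) (nat_lit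 24) (nat_lit 4) (nat_lit 22) (nat_lit 4) (nat_lit 286) (nat_lit 248) (nat_lit 246))) (XT.nd (nat_lit 78) (nat_lit 152) (nat_lit 0) (XT.lf (nat_lit 0) (nat_lit 1463249346) (nat_lit 152) (nat_lit 7320991822) (nat_lit 152) (nat_lit 4747553617) (nat_lit 20) (nat_lit 4) (nat_lit 22) (nat_lit 5) (nat_lit 22) (nat_lit 4) (nat_lit 287) (nat_lit 248) (nat_lit 245)) (XT.nd (nat_lit 78) (nat_lit 76) (nat_lit 0) (XT.lf (nat_lit 0) (nat_lit 1327428980) (nat_lit 228) (nat_lit 586195104) (nat_lit 76) (nat_lit 12335660419) (nat_lit 19) (nat_lit 5) (nat_lit 22) (nat_lit 5) (nat_lit 20) (nat_lit 4) (nat_lit 288) (nat_lit 248) (nat_lit 244)) (XT.lf (nat_lit 0) (nat_lit 7641656799) (nat_lit 152) (nat_lit 3538484006) (nat_lit 0) (nat_lit 3844474450) (nat_lit 18) (nat_lit 5) (nat_lit 20) (nat_lit 4) (nat_lit 18) (nat_lit 4) (nat_lit 289) (nat_lit 248) (nat_lit 243))))) (XT.nd (nat_lit 234) (nat_lit 228) (nat_lit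 0) (XT.nd (nat_lit 78) (nat_lit 152) (nat_lit 0) (XT.lf (nat_lit 0) (nat_lit 8377989872) (nat_lit 152) (nat_lit 5943861040) (nat_lit 152) (nat_lit 1547369210) (nat_lit 16) (nat_lit 4) (nat_lit 18) (nat_lit 5) (nat_lit 18) (nat_lit 4) (nat_lit 290) (nat_lit 248) (nat_lit 242)) (XT.nd (nat_lit 78) (nat_lit 0) (nat_lit 0) (XT.lf (nat_lit 0) (nat_lit 4124413884) (nat_lit 76) (nat_lit 302816311) (nat_lit 152) (nat_lit 12359488345) (nat_lit 14) (nat_lit 5) (nat_lit 15) (nat_lit 5) (nat_lit 16) (nat_lit 4) (nat_lit 291) (nat_lit 248) (nat_lit 241)) (XT.lf (nat_lit 0) (nat_lit 10757789259) (nat_lit 152) (nat_lit 1469366563) (nat_lit 0) (nat_lit 5552818496) (nat_lit 14) (nat_lit 5) (nat_lit 16) (nat_lit 4) (nat_lit 14) (nat_lit 4) (nat_lit 292) (nat_lit 248) (nat_lit 240)))) (XT.nd (nat_lit 78) (nat_lit 152) (nat_lit 0) (XT.lf (nat_lit 0) (nat_lit 10470817157) (nat_lit 76) (nat_lit 7022613593)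 (nat_lit 76) (nat_lit 1364546459) (nat_lit 13) (nat_lit 4) (nat_lit 14) (nat_lit 5) (nat_lit 14) (nat_lit 4) (nat_lit 293) (nat_lit 248) (nat_lit 239)) (XT.nd (nat_lit 78) (nat_lit 0) (nat_lit 0) (XT.lf (nat_lit 0) (nat_lit 2951424840) (nat_lit 76) (nat_lit 1452977915) (nat_lit 152) (nat_lit 15623776019) (nat_lit 11) (nat_lit 5) (nat_lit 12) (nat_lit 5) (nat_lit 13) (nat_lit 4) (nat_lit 294) (nat_lit 248) (nat_lit 238)) (XT.lf (nat_lit 0) (nat_lit 10555252619) (nat_lit 152) (nat_lit 6340291995) (nat_lit 0) (nat_lit 4397102221) (nat_lit 11) (nat_lit 5) (nat_lit 13) (nat_lit 4) (nat_lit 11) (nat_lit 4) (nat_lit 295) (nat_lit 248) (nat_lit 237))))))))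
noncomputable def xc26 : XT := (XT.nd (nat_lit 1638) (nat_lit 76) (nat_lit 0) (XT.nd (nat_lit 780) (nat_lit 228) (nat_lit 0) (XT.nd (nat_lit 390) (nat_lit 228) (nat_lit 0) (XT.nd (nat_lit 156) (nat_lit 152) (nat_lit 0) (XT.nd (nat_lit 78) (nat_lit 0) (nat_lit 0) (XT.lf (nat_lit 0) (nat_lit 4967765450) (nat_lit 76) (nat_lit 12098974404) (nat_lit 76) (nat_lit 5598269237) (nat_lit 10) (nat_lit 4) (nat_lit 11) (nat_lit 5) (nat_lit 11) (nat_lit 4) (nat_lit 296) (nat_lit 248) (nat_lit 236)) (XT.lf (nat_lit 0) (nat_lit 17003387999) (nat_lit 76) (nat_lit 6983706695) (nat_lit 76) (nat_lit 165821186) (nat_lit 10) (nat_lit 4) (nat_lit 11) (nat_lit 5) (nat_lit 11) (nat_lit 4) (nat_lit 297) (nat_lit 248) (nat_lit 235))) (XT.nd (nat_lit 78) (nat_lit 0) (nat_lit 0) (XT.lf (nat_lit 0) (nat_lit 3897059267) (nat_lit 76) (nat_lit 1473004282) (nat_lit 152) (nat_lit 20392910184) (nat_lit 8) (nat_lit 5) (nat_lit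 9) (nat_lit 5) (nat_lit 10) (nat_lit 4) (nat_lit 298) (nat_lit 248) (nat_lit 234)) (XT.nd (nat_lit 78) (nat_lit 0) (nat_lit 0) (XT.lf (nat_lit 0) (nat_lit 11337331807) (nat_lit 152) (nat_lit 11859352173) (nat_lit 0) (nat_lit 4305425112) (nat_lit 8) (nat_lit 5) (nat_lit 10) (nat_lit 4) (nat_lit 8) (nat_lit 4) (nat_lit 299) (nat_lit 248) (nat_lit 233)) (XT.lf (nat_lit 0) (nat_lit 17619541339) (nat_lit 152) (nat_lit 1421235044) (nat_lit 0) (nat_lit 10347836566) (nat_lit 8) (nat_lit 5) (nat_lit 10) (nat_lit 4) (nat_lit 8) (nat_lit 4) (nat_lit 300) (nat_lit 248) (nat_lit 232))))) (XT.nd (nat_lit 156) (nat_lit 152) (nat_lit 0) (XT.nd (nat_lit 78) (nat_lit 0) (nat_lit 0) (XT.lf (nat_lit 0) (nat_lit 9848503779) (nat_lit 76) (nat_lit 14536181292) (nat_lit 76) (nat_lit 7042441263) (nat_lit 7) (nat_lit 4) (nat_lit 8) (nat_lit 5) (nat_lit 8) (nat_lit 4) (nat_lit 301) (nat_lit 248) (nat_lit 231)) (XT.lf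 (nat_lit 0) (nat_lit 21765780015) (nat_lit 76) (nat_lit 9784698136) (nat_lit 76) (nat_lit 2085369906) (nat_lit 7) (nat_lit 4) (nat_lit 8) (nat_lit 5) (nat_lit 8) (nat_lit 4) (nat_lit 302) (nat_lit 248) (nat_lit 230))) (XT.nd (nat_lit 78) (nat_lit 76) (nat_lit 0) (XT.lf (nat_lit 0) (nat_lit 3007990639) (nat_lit 152) (nat_lit 1723306863) (nat_lit 76) (nat_lit 31295289694) (nat_lit 6) (nat_lit 5) (nat_lit 8) (nat_lit 5) (nat_lit 7) (nat_lit 4) (nat_lit 303) (nat_lit 248) (nat_lit 229)) (XT.nd (nat_lit 78) (nat_lit 0) (nat_lit 0) (XT.lf (nat_lit 0) (nat_lit 8449064351) (nat_lit 152) (nat_lit 29390016869) (nat_lit 0) (nat_lit 767210617) (nat_lit 5) (nat_lit 5) (nat_lit 7) (nat_lit 4) (nat_lit 5) (nat_lit 4) (nat_lit 304) (nat_lit 248) (nat_lit 228)) (XT.lf (nat_lit 0) (nat_lit 14296446040) (nat_lit 152) (nat_lit 20638289358) (nat_lit 0) (nat_lit 6459161313) (nat_lit 5) (nat_lit 5) (nat_lit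 7) (nat_lit 4) (nat_lit 5) (nat_lit 4) (nat_lit 305) (nat_lit 248) (nat_lit 227)))))) (XT.nd (nat_lit 390) (nat_lit 152) (nat_lit 0) (XT.nd (nat_lit 156) (nat_lit 76) (nat_lit 0) (XT.nd (nat_lit 78) (nat_lit 0) (nat_lit 0) (XT.lf (nat_lit 0) (nat_lit 20482667112) (nat_lit 152) (nat_lit 11426895036) (nat_lit 0) (nat_lit 12501464800) (nat_lit 5) (nat_lit 5) (nat_lit 7) (nat_lit 4) (nat_lit 5) (nat_lit 4) (nat_lit 306) (nat_lit 248) (nat_lit 226)) (XT.lf (nat_lit 0) (nat_lit 27044386654) (nat_lit 152) (nat_lit 1701247862) (nat_lit 0) (nat_lit 18929927318) (nat_lit 5) (nat_lit 5) (nat_lit 7) (nat_lit 4) (nat_lit 5) (nat_lit 4) (nat_lit 307) (nat_lit 248) (nat_lit 225))) (XT.nd (nat_lit 78) (nat_lit 0) (nat_lit 0) (XT.lf (nat_lit 0) (nat_lit 8880517650) (nat_lit 76) (nat_lit 25278621049) (nat_lit 76) (nat_lit 17040775579) (nat_lit 4) (nat_lit 4) (nat_lit 5) (nat_lit 5) (nat_lit 5) (nat_lit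 4) (nat_lit 308) (nat_lit 248) (nat_lit 224)) (XT.nd (nat_lit 78) (nat_lit 0) (nat_lit 0) (XT.lf (nat_lit 0) (nat_lit 20172369659) (nat_lit 76) (nat_lit 21594891372) (nat_lit 76) (nat_lit 13242799483) (nat_lit 4) (nat_lit 4) (nat_lit 5) (nat_lit 5) (nat_lit 5) (nat_lit 4) (nat_lit 309) (nat_lit 248) (nat_lit 223)) (XT.lf (nat_lit 0) (nat_lit 32184971904) (nat_lit 76) (nat_lit 17701427434) (nat_lit 76) (nat_lit 9243551823) (nat_lit 4) (nat_lit 4) (nat_lit 5) (nat_lit 5) (nat_lit 5) (nat_lit 4) (nat_lit 310) (nat_lit 248) (nat_lit 222))))) (XT.nd (nat_lit 234) (nat_lit 76) (nat_lit 0) (XT.nd (nat_lit 78) (nat_lit 76) (nat_lit 0) (XT.lf (nat_lit 0) (nat_lit 44989510176) (nat_lit 76) (nat_lit 13575156856) (nat_lit 76) (nat_lit 5019333354) (nat_lit 4) (nat_lit 4) (nat_lit 5) (nat_lit 5) (nat_lit 5) (nat_lit 4) (nat_lit 311) (nat_lit 248) (nat_lit 221)) (XT.nd (nat_lit 78) (nat_lit 76) (nat_lit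 0) (XT.lf (nat_lit 0) (nat_lit 58661863221) (nat_lit 76) (nat_lit 9191627663) (nat_lit 76) (nat_lit 545111671) (nat_lit 4) (nat_lit 4) (nat_lit 5) (nat_lit 5) (nat_lit 5) (nat_lit 4) (nat_lit 312) (nat_lit 248) (nat_lit 220)) (XT.lf (nat_lit 0) (nat_lit 4071020800) (nat_lit 152) (nat_lit 384897879) (nat_lit 76) (nat_lit 69143086881) (nat_lit 3) (nat_lit 5) (nat_lit 5) (nat_lit 5) (nat_lit 4) (nat_lit 4) (nat_lit 313) (nat_lit 248) (nat_lit 219)))) (XT.nd (nat_lit 78) (nat_lit 0) (nat_lit 0) (XT.lf (nat_lit 0) (nat_lit 9130937002) (nat_lit 152) (nat_lit 69337280639) (nat_lit 0) (nat_lit 742132511) (nat_lit 2) (nat_lit 5) (nat_lit 4) (nat_lit 4) (nat_lit 2) (nat_lit 4) (nat_lit 314) (nat_lit 248) (nat_lit 218)) (XT.nd (nat_lit 78) (nat_lit 0) (nat_lit 0) (XT.lf (nat_lit 0) (nat_lit 14607030047) (nat_lit 152) (nat_lit 64513376908) (nat_lit 0) (nat_lit 6149659249) (nat_lit 2) (nat_lit 5) (nat_lit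 4) (nat_lit 4) (nat_lit 2) (nat_lit 4) (nat_lit 315) (nat_lit 248) (nat_lit 217)) (XT.lf (nat_lit 0) (nat_lit 20455871679) (nat_lit 152) (nat_lit 59426971867) (nat_lit 0) (nat_lit 11935013558) (nat_lit 2) (nat_lit 5) (nat_lit 4) (nat_lit 4) (nat_lit 2) (nat_lit 4) (nat_lit 316) (nat_lit 248) (nat_lit 216))))))) (XT.nd (nat_lit 780) (nat_lit 0) (nat_lit 0) (XT.nd (nat_lit 390) (nat_lit 76) (nat_lit 0) (XT.nd (nat_lit 156) (nat_lit 0) (nat_lit 0) (XT.nd (nat_lit 78) (nat_lit 0) (nat_lit 0) (XT.lf (nat_lit 0) (nat_lit 26712121698) (nat_lit 152) (nat_lit 54047923857) (nat_lit 0) (nat_lit 18132479020) (nat_lit 2) (nat_lit 5) (nat_lit 4) (nat_lit 4) (nat_lit 2) (nat_lit 4) (nat_lit 317) (nat_lit 248) (nat_lit 215)) (XT.lf (nat_lit 0) (nat_lit 33412854181) (nat_lit 152) (nat_lit 48344357038) (nat_lit 0) (nat_lit 24778781356) (nat_lit 2) (nat_lit 5) (nat_lit 4) (nat_lit 4) (nat_lit 2) (nat_lit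 4) (nat_lit 318) (nat_lit 248) (nat_lit 214))) (XT.nd (nat_lit 78) (nat_lit 0) (nat_lit 0) (XT.lf (nat_lit 0) (nat_lit 40597777170) (nat_lit 152) (nat_lit 42282472495) (nat_lit 0) (nat_lit 31913306062) (nat_lit 2) (nat_lit 5) (nat_lit 4) (nat_lit 4) (nat_lit 2) (nat_lit 4) (nat_lit 319) (nat_lit 248) (nat_lit 213)) (XT.nd (nat_lit 78) (nat_lit 0) (nat_lit 0) (XT.lf (nat_lit 0) (nat_lit 48309467988) (nat_lit 152) (nat_lit 35826347949) (nat_lit 0) (nat_lit 39578331802) (nat_lit 2) (nat_lit 5) (nat_lit 4) (nat_lit 4) (nat_lit 2) (nat_lit 4) (nat_lit 320) (nat_lit 248) (nat_lit 212)) (XT.lf (nat_lit 0) (nat_lit 56593625542) (nat_lit 152) (nat_lit 28937724884) (nat_lit 0) (nat_lit 47819280952) (nat_lit 2) (nat_lit 5) (nat_lit 4) (nat_lit 4) (nat_lit 2) (nat_lit 4) (nat_lit 321) (nat_lit 248) (nat_lit 211))))) (XT.nd (nat_lit 156) (nat_lit 76) (nat_lit 0) (XT.nd (nat_lit 78) (nat_lit 0) (nat_lit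 0) (XT.lf (nat_lit 0) (nat_lit 65499341137) (nat_lit 152) (nat_lit 21575781831) (nat_lit 0) (nat_lit 56684988765) (nat_lit 2) (nat_lit 5) (nat_lit 4) (nat_lit 4) (nat_lit 2) (nat_lit 4) (nat_lit 322) (nat_lit 248) (nat_lit 210)) (XT.lf (nat_lit 0) (nat_lit 75079389384) (nat_lit 152) (nat_lit 13696892461) (nat_lit 0) (nat_lit 66227992769) (nat_lit 2) (nat_lit 5) (nat_lit 4) (nat_lit 4) (nat_lit 2) (nat_lit 4) (nat_lit 323) (nat_lit 248) (nat_lit 209))) (XT.nd (nat_lit 78) (nat_lit 76) (nat_lit 0) (XT.lf (nat_lit 0) (nat_lit 85390540940) (nat_lit 152) (nat_lit 5254367058) (nat_lit 0) (nat_lit 76504844099) (nat_lit 2) (nat_lit 5) (nat_lit 4) (nat_lit 4) (nat_lit 2) (nat_lit 4) (nat_lit 324) (nat_lit 248) (nat_lit 208)) (XT.nd (nat_lit 78) (nat_lit 0) (nat_lit 0) (XT.lf (nat_lit 0) (nat_lit 3927529633) (nat_lit 76) (nat_lit 92627689034) (nat_lit 76) (nat_lit 83710232726) (nat_lit 1) (nat_lit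 4) (nat_lit 2) (nat_lit 5) (nat_lit 2) (nat_lit 4) (nat_lit 325) (nat_lit 248) (nat_lit 207)) (XT.lf (nat_lit 0) (nat_lit 13972556575) (nat_lit 76) (nat_lit 94700855203) (nat_lit 76) (nat_lit 85753991981) (nat_lit 1) (nat_lit 4) (nat_lit 2) (nat_lit 5) (nat_lit 2) (nat_lit 4) (nat_lit 326) (nat_lit 248) (nat_lit 206)))))) (XT.nd (nat_lit 390) (nat_lit 0) (nat_lit 0) (XT.nd (nat_lit 156) (nat_lit 0) (nat_lit 0) (XT.nd (nat_lit 78) (nat_lit 0) (nat_lit 0) (XT.lf (nat_lit 0) (nat_lit 24766506747) (nat_lit 76) (nat_lit 96965677184) (nat_lit 76) (nat_lit 87991585338) (nat_lit 1) (nat_lit 4) (nat_lit 2) (nat_lit 5) (nat_lit 2) (nat_lit 4) (nat_lit 327) (nat_lit 248) (nat_lit 205)) (XT.lf (nat_lit 0) (nat_lit 36373344298) (nat_lit 76) (nat_lit 99435576143) (nat_lit 76) (nat_lit 90436272607) (nat_lit 1) (nat_lit 4) (nat_lit 2) (nat_lit 5) (nat_lit 2) (nat_lit 4) (nat_lit 328) (nat_lit 248) (nat_lit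 204))) (XT.nd (nat_lit 78) (nat_lit 0) (nat_lit 0) (XT.lf (nat_lit 0) (nat_lit 48861850489) (nat_lit 76) (nat_lit 102125188518) (nat_lit 76) (nat_lit 93102540826) (nat_lit 1) (nat_lit 4) (nat_lit 2) (nat_lit 5) (nat_lit 2) (nat_lit 4) (nat_lit 329) (nat_lit 248) (nat_lit 203)) (XT.nd (nat_lit 78) (nat_lit 0) (nat_lit 0) (XT.lf (nat_lit 0) (nat_lit 62306031282) (nat_lit 76) (nat_lit 105050452754) (nat_lit 76) (nat_lit 96006190101) (nat_lit 1) (nat_lit 4) (nat_lit 2) (nat_lit 5) (nat_lit 2) (nat_lit 4) (nat_lit 330) (nat_lit 248) (nat_lit 202)) (XT.lf (nat_lit 0) (nat_lit 76785555896) (nat_lit 76) (nat_lit 108228703749) (nat_lit 76) (nat_lit 99164427245) (nat_lit 1) (nat_lit 4) (nat_lit 2) (nat_lit 5) (nat_lit 2) (nat_lit 4) (nat_lit 331) (nat_lit 248) (nat_lit 201))))) (XT.nd (nat_lit 234) (nat_lit 0) (nat_lit 0) (XT.nd (nat_lit 78) (nat_lit 0) (nat_lit 0) (XT.lf (nat_lit 0) (nat_lit 92386228922)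 (nat_lit 76) (nat_lit 111678775583) (nat_lit 76) (nat_lit 102595967735) (nat_lit 1) (nat_lit 4) (nat_lit 2) (nat_lit 5) (nat_lit 2) (nat_lit 4) (nat_lit 332) (nat_lit 248) (nat_lit 200)) (XT.nd (nat_lit 78) (nat_lit 0) (nat_lit 0) (XT.lf (nat_lit 0) (nat_lit 109200498793) (nat_lit 76) (nat_lit 115421113127) (nat_lit 76) (nat_lit 106321146627) (nat_lit 1) (nat_lit 4) (nat_lit 2) (nat_lit 5) (nat_lit 2) (nat_lit 4) (nat_lit 333) (nat_lit 248) (nat_lit 199)) (XT.lf (nat_lit 0) (nat_lit 127328005625) (nat_lit 76) (nat_lit 119477893196) (nat_lit 76) (nat_lit 110362039055) (nat_lit 1) (nat_lit 4) (nat_lit 2) (nat_lit 5) (nat_lit 2) (nat_lit 4) (nat_lit 334) (nat_lit 248) (nat_lit 198)))) (XT.nd (nat_lit 78) (nat_lit 0) (nat_lit 0) (XT.lf (nat_lit 0) (nat_lit 146876171683) (nat_lit 76) (nat_lit 123873155967) (nat_lit 76) (nat_lit 114742591047) (nat_lit 1) (nat_lit 4) (nat_lit 2) (nat_lit 5) (nat_lit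 2) (nat_lit 4) (nat_lit 335) (nat_lit 248) (nat_lit 197)) (XT.nd (nat_lit 78) (nat_lit 0) (nat_lit 0) (XT.lf (nat_lit 0) (nat_lit 167960837950) (nat_lit 76) (nat_lit 128632947443) (nat_lit 76) (nat_lit 119488761432) (nat_lit 1) (nat_lit 4) (nat_lit 2) (nat_lit 5) (nat_lit 2) (nat_lit 4) (nat_lit 336) (nat_lit 248) (nat_lit 196)) (XT.lf (nat_lit 0) (nat_lit 190706950596) (nat_lit 76) (nat_lit 133785473795) (nat_lit 76) (nat_lit 124628675662) (nat_lit 1) (nat_lit 4) (nat_lit 2) (nat_lit 5) (nat_lit 2) (nat_lit 4) (nat_lit 337) (nat_lit 248) (nat_lit 195))))))))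
noncomputable def xc27 : XT := (XT.nd (nat_lit 36972) (nat_lit 0) (nat_lit 228) (XT.nd (nat_lit 780) (nat_lit 0) (nat_lit 0) (XT.nd (nat_lit 390) (nat_lit 0) (nat_lit 0) (XT.nd (nat_lit 156) (nat_lit 0) (nat_lit 0) (XT.nd (nat_lit 78) (nat_lit 0) (nat_lit 0) (XT.lf (nat_lit 0) (nat_lit 215249301400) (nat_lit 76) (nat_lit 139361268512) (nat_lit 76) (nat_lit 130192792490) (nat_lit 1) (nat_lit 4) (nat_lit 2) (nat_lit 5) (nat_lit 2) (nat_lit 4) (nat_lit 338) (nat_lit 248) (nat_lit 194)) (XT.lf (nat_lit 0) (nat_lit 241733326515) (nat_lit 76) (nat_lit 145393373342) (nat_lit 76) (nat_lit 136214084458) (nat_lit 1) (nat_lit 4) (nat_lit 2) (nat_lit 5) (nat_lit 2) (nat_lit 4) (nat_lit 339) (nat_lit 248) (nat_lit 193))) (XT.nd (nat_lit 78) (nat_lit 0) (nat_lit 0) (XT.lf (nat_lit 0) (nat_lit 270315968313) (nat_lit 76) (nat_lit 151917534090) (nat_lit 76) (nat_lit 142728233297) (nat_lit 1) (nat_lit 4)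 (nat_lit 2) (nat_lit 5) (nat_lit 2) (nat_lit 4) (nat_lit 340) (nat_lit 248) (nat_lit 192)) (XT.nd (nat_lit 78) (nat_lit 0) (nat_lit 0) (XT.lf (nat_lit 0) (nat_lit 301166605410) (nat_lit 76) (nat_lit 158972412450) (nat_lit 76) (nat_lit 149773841372) (nat_lit 1) (nat_lit 4) (nat_lit 2) (nat_lit 5) (nat_lit 2) (nat_lit 4) (nat_lit 341) (nat_lit 248) (nat_lit 191)) (XT.lf (nat_lit 0) (nat_lit 334468056398) (nat_lit 76) (nat_lit 166599815108) (nat_lit 76) (nat_lit 157392660432) (nat_lit 1) (nat_lit 4) (nat_lit 2) (nat_lit 5) (nat_lit 2) (nat_lit 4) (nat_lit 342) (nat_lit 248) (nat_lit 190))))) (XT.nd (nat_lit 156) (nat_lit 0) (nat_lit 0) (XT.nd (nat_lit 78) (nat_lit 0) (nat_lit 0) (XT.lf (nat_lit 0) (nat_lit 370417663208) (nat_lit 76) (nat_lit 174844941488) (nat_lit 76) (nat_lit 165629839036) (nat_lit 1) (nat_lit 4) (nat_lit 2) (nat_lit 5) (nat_lit 2) (nat_lit 4) (nat_lit 343) (nat_lit 248)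 (nat_lit 189)) (XT.lf (nat_lit 0) (nat_lit 409228460547) (nat_lit 76) (nat_lit 183756651598) (nat_lit 76) (nat_lit 174534190094) (nat_lit 1) (nat_lit 4) (nat_lit 2) (nat_lit 5) (nat_lit 2) (nat_lit 4) (nat_lit 344) (nat_lit 248) (nat_lit 188))) (XT.nd (nat_lit 78) (nat_lit 0) (nat_lit 0) (XT.lf (nat_lit 0) (nat_lit 451130438325) (nat_lit 76) (nat_lit 193387755571) (nat_lit 76) (nat_lit 184158480130) (nat_lit 1) (nat_lit 4) (nat_lit 2) (nat_lit 5) (nat_lit 2) (nat_lit 4) (nat_lit 345) (nat_lit 248) (nat_lit 187)) (XT.nd (nat_lit 78) (nat_lit 0) (nat_lit 0) (XT.lf (nat_lit 0) (nat_lit 496371904559) (nat_lit 76) (nat_lit 203795326617) (nat_lit 76) (nat_lit 194559741975) (nat_lit 1) (nat_lit 4) (nat_lit 2) (nat_lit 5) (nat_lit 2) (nat_lit 4) (nat_lit 346) (nat_lit 248) (nat_lit 186)) (XT.lf (nat_lit 0) (nat_lit 545220956827) (nat_lit 76) (nat_lit 215041039230) (nat_lit 76) (nat_lit 205799612736)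 (nat_lit 1) (nat_lit 4) (nat_lit 2) (nat_lit 5) (nat_lit 2) (nat_lit 4) (nat_lit 347) (nat_lit 248) (nat_lit 185)))))) (XT.nd (nat_lit 35724) (nat_lit 0) (nat_lit 1140) (XT.nd (nat_lit 35490) (nat_lit 0) (nat_lit 1900) (XT.nd (nat_lit 78) (nat_lit 0) (nat_lit 0) (XT.lf (nat_lit 0) (nat_lit 597967070993) (nat_lit 76) (nat_lit 227191534670) (nat_lit 76) (nat_lit 217944699054) (nat_lit 1) (nat_lit 4) (nat_lit 2) (nat_lit 5) (nat_lit 2) (nat_lit 4) (nat_lit 348) (nat_lit 248) (nat_lit 184)) (XT.lf (nat_lit 0) (nat_lit 654922816623) (nat_lit 76) (nat_lit 240318815875) (nat_lit 76) (nat_lit 231066971811) (nat_lit 1) (nat_lit 4) (nat_lit 2) (nat_lit 5) (nat_lit 2) (nat_lit 4) (nat_lit 349) (nat_lit 248) (nat_lit 183))) (XT.nd (nat_lit 78) (nat_lit 380) (nat_lit 0) (XT.lf (nat_lit 0) (nat_lit 674930375) (nat_lit 228) (nat_lit 4014063155) (nat_lit 0) (nat_lit 674930375) (nat_lit 31) (nat_lit 5)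 (nat_lit 34) (nat_lit 4) (nat_lit 31) (nat_lit 4) (nat_lit 282) (nat_lit 249) (nat_lit 249)) (XT.nd (nat_lit 78) (nat_lit 228) (nat_lit 0) (XT.lf (nat_lit 0) (nat_lit 3153762228) (nat_lit 152) (nat_lit 4575082011) (nat_lit 152) (nat_lit 3474147264) (nat_lit 29) (nat_lit 4) (nat_lit 31) (nat_lit 5) (nat_lit 31) (nat_lit 4) (nat_lit 283) (nat_lit 249) (nat_lit 248)) (XT.lf (nat_lit 0) (nat_lit 2634998106) (nat_lit 228) (nat_lit 8472410505) (nat_lit 0) (nat_lit 615646893) (nat_lit 26) (nat_lit 5) (nat_lit 29) (nat_lit 4) (nat_lit 26) (nat_lit 4) (nat_lit 284) (nat_lit 249) (nat_lit 247))))) (XT.nd (nat_lit 234) (nat_lit 304) (nat_lit 0) (XT.nd (nat_lit 78) (nat_lit 304) (nat_lit 0) (XT.lf (nat_lit 0) (nat_lit 2824478074) (nat_lit 152) (nat_lit 6190461159) (nat_lit 152) (nat_lit 3272182235) (nat_lit 24) (nat_lit 4) (nat_lit 26) (nat_lit 5) (nat_lit 26) (nat_lit 4) (nat_lit 285) (nat_lit 249)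 (nat_lit 246)) (XT.nd (nat_lit 78) (nat_lit 152) (nat_lit 0) (XT.lf (nat_lit 0) (nat_lit 1870871863) (nat_lit 76) (nat_lit 871318995) (nat_lit 152) (nat_lit 10160678593) (nat_lit 22) (nat_lit 5) (nat_lit 23) (nat_lit 5) (nat_lit 24) (nat_lit 4) (nat_lit 286) (nat_lit 249) (nat_lit 245)) (XT.lf (nat_lit 0) (nat_lit 194879381) (nat_lit 152) (nat_lit 8840528892) (nat_lit 152) (nat_lit 4534524109) (nat_lit 20) (nat_lit 4) (nat_lit 22) (nat_lit 5) (nat_lit 22) (nat_lit 4) (nat_lit 287) (nat_lit 249) (nat_lit 244)))) (XT.nd (nat_lit 78) (nat_lit 228) (nat_lit 0) (XT.lf (nat_lit 0) (nat_lit 1377389837) (nat_lit 228) (nat_lit 2161972569) (nat_lit 76) (nat_lit 10755856002) (nat_lit 19) (nat_lit 5) (nat_lit 22) (nat_lit 5) (nat_lit 20) (nat_lit 4) (nat_lit 288) (nat_lit 249) (nat_lit 243)) (XT.nd (nat_lit 78) (nat_lit 152) (nat_lit 0) (XT.lf (nat_lit 0) (nat_lit 7490104077) (nat_lit 152) (nat_lit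 5448076313) (nat_lit 0) (nat_lit 2142583419) (nat_lit 18) (nat_lit 5) (nat_lit 20) (nat_lit 4) (nat_lit 18) (nat_lit 4) (nat_lit 289) (nat_lit 249) (nat_lit 242)) (XT.lf (nat_lit 0) (nat_lit 6156263623) (nat_lit 152) (nat_lit 7840181611) (nat_lit 152) (nat_lit 1937744766) (nat_lit 16) (nat_lit 4) (nat_lit 18) (nat_lit 5) (nat_lit 18) (nat_lit 4) (nat_lit 290) (nat_lit 249) (nat_lit 241))))))) (XT.nd (nat_lit 858) (nat_lit 228) (nat_lit 0) (XT.nd (nat_lit 390) (nat_lit 304) (nat_lit 0) (XT.nd (nat_lit 156) (nat_lit 228) (nat_lit 0) (XT.nd (nat_lit 78) (nat_lit 0) (nat_lit 0) (XT.lf (nat_lit 0) (nat_lit 1525512670) (nat_lit 76) (nat_lit 2348516988) (nat_lit 152) (nat_lit 12986842946) (nat_lit 14) (nat_lit 5) (nat_lit 15) (nat_lit 5) (nat_lit 16) (nat_lit 4) (nat_lit 291) (nat_lit 249) (nat_lit 240)) (XT.lf (nat_lit 0) (nat_lit 10042867325) (nat_lit 152) (nat_lit 4340393741) (nat_lit 0) (nat_lit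 3479058450) (nat_lit 14) (nat_lit 5) (nat_lit 16) (nat_lit 4) (nat_lit 14) (nat_lit 4) (nat_lit 292) (nat_lit 249) (nat_lit 239))) (XT.nd (nat_lit 78) (nat_lit 152) (nat_lit 0) (XT.lf (nat_lit 0) (nat_lit 7284941485) (nat_lit 76) (nat_lit 9323658109) (nat_lit 76) (nat_lit 2340315558) (nat_lit 13) (nat_lit 4) (nat_lit 14) (nat_lit 5) (nat_lit 14) (nat_lit 4) (nat_lit 293) (nat_lit 249) (nat_lit 238)) (XT.nd (nat_lit 78) (nat_lit 76) (nat_lit 0) (XT.lf (nat_lit 0) (nat_lit 3297374378) (nat_lit 152) (nat_lit 612182183) (nat_lit 76) (nat_lit 16218532169) (nat_lit 12) (nat_lit 5) (nat_lit 14) (nat_lit 5) (nat_lit 13) (nat_lit 4) (nat_lit 294) (nat_lit 249) (nat_lit 237)) (XT.lf (nat_lit 0) (nat_lit 9287578997) (nat_lit 152) (nat_lit 10188826841) (nat_lit 0) (nat_lit 1924262647) (nat_lit 11) (nat_lit 5) (nat_lit 13) (nat_lit 4) (nat_lit 11) (nat_lit 4) (nat_lit 295) (nat_lit 249) (nat_lit 236)))))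 (XT.nd (nat_lit 234) (nat_lit 152) (nat_lit 0) (XT.nd (nat_lit 78) (nat_lit 76) (nat_lit 0) (XT.lf (nat_lit 0) (nat_lit 797995433) (nat_lit 76) (nat_lit 14832028823) (nat_lit 76) (nat_lit 7151532133) (nat_lit 10) (nat_lit 4) (nat_lit 11) (nat_lit 5) (nat_lit 11) (nat_lit 4) (nat_lit 296) (nat_lit 249) (nat_lit 235)) (XT.nd (nat_lit 78) (nat_lit 76) (nat_lit 0) (XT.lf (nat_lit 0) (nat_lit 12654002029) (nat_lit 76) (nat_lit 9797331851) (nat_lit 76) (nat_lit 1823149659) (nat_lit 10) (nat_lit 4) (nat_lit 11) (nat_lit 5) (nat_lit 11) (nat_lit 4) (nat_lit 297) (nat_lit 249) (nat_lit 234)) (XT.lf (nat_lit 0) (nat_lit 3611662932) (nat_lit 152) (nat_lit 842204200) (nat_lit 76) (nat_lit 21439733942) (nat_lit 9) (nat_lit 5) (nat_lit 11) (nat_lit 5) (nat_lit 10) (nat_lit 4) (nat_lit 298) (nat_lit 249) (nat_lit 233)))) (XT.nd (nat_lit 78) (nat_lit 76) (nat_lit 0) (XT.lf (nat_lit 0) (nat_lit 9428547570)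 (nat_lit 152) (nat_lit 16876455310) (nat_lit 0) (nat_lit 1335308339) (nat_lit 8) (nat_lit 5) (nat_lit 10) (nat_lit 4) (nat_lit 8) (nat_lit 4) (nat_lit 299) (nat_lit 249) (nat_lit 232)) (XT.nd (nat_lit 78) (nat_lit 76) (nat_lit 0) (XT.lf (nat_lit 0) (nat_lit 15627389167) (nat_lit 152) (nat_lit 6591531115) (nat_lit 0) (nat_lit 7312114678) (nat_lit 8) (nat_lit 5) (nat_lit 10) (nat_lit 4) (nat_lit 8) (nat_lit 4) (nat_lit 300) (nat_lit 249) (nat_lit 231)) (XT.lf (nat_lit 0) (nat_lit 4360719015) (nat_lit 76) (nat_lit 17868941652) (nat_lit 76) (nat_lit 9348078962) (nat_lit 7) (nat_lit 4) (nat_lit 8) (nat_lit 5) (nat_lit 8) (nat_lit 4) (nat_lit 301) (nat_lit 249) (nat_lit 230)))))) (XT.nd (nat_lit 390) (nat_lit 76) (nat_lit 0) (XT.nd (nat_lit 156) (nat_lit 76) (nat_lit 0) (XT.nd (nat_lit 78) (nat_lit 76) (nat_lit 0) (XT.lf (nat_lit 0) (nat_lit 16142314367) (nat_lit 76) (nat_lit 13179546453) (nat_lit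 76) (nat_lit 4468324319) (nat_lit 7) (nat_lit 4) (nat_lit 8) (nat_lit 5) (nat_lit 8) (nat_lit 4) (nat_lit 302) (nat_lit 249) (nat_lit 229)) (XT.lf (nat_lit 0) (nat_lit 632007412) (nat_lit 152) (nat_lit 7591865683) (nat_lit 76) (nat_lit 27962415250) (nat_lit 6) (nat_lit 5) (nat_lit 8) (nat_lit 5) (nat_lit 7) (nat_lit 4) (nat_lit 303) (nat_lit 249) (nat_lit 228))) (XT.nd (nat_lit 78) (nat_lit 0) (nat_lit 0) (XT.lf (nat_lit 0) (nat_lit 3044268502) (nat_lit 76) (nat_lit 2855708046) (nat_lit 152) (nat_lit 32874707709) (nat_lit 5) (nat_lit 5) (nat_lit 6) (nat_lit 5) (nat_lit 7) (nat_lit 4) (nat_lit 304) (nat_lit 249) (nat_lit 227)) (XT.nd (nat_lit 78) (nat_lit 0) (nat_lit 0) (XT.lf (nat_lit 0) (nat_lit 11640776885) (nat_lit 152) (nat_lit 27049713883) (nat_lit 0) (nat_lit 2877160802) (nat_lit 5) (nat_lit 5) (nat_lit 7) (nat_lit 4) (nat_lit 5) (nat_lit 4) (nat_lit 305) (nat_lit 249) (nat_lit 226))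 (XT.lf (nat_lit 0) (nat_lit 17769594488) (nat_lit 152) (nat_lit 17945367011) (nat_lit 0) (nat_lit 8872721382) (nat_lit 5) (nat_lit 5) (nat_lit 7) (nat_lit 4) (nat_lit 5) (nat_lit 4) (nat_lit 306) (nat_lit 249) (nat_lit 225))))) (XT.nd (nat_lit 234) (nat_lit 0) (nat_lit 0) (XT.nd (nat_lit 78) (nat_lit 76) (nat_lit 0) (XT.lf (nat_lit 0) (nat_lit 24278162671) (nat_lit 152) (nat_lit 8318837846) (nat_lit 0) (nat_lit 15257903431) (nat_lit 5) (nat_lit 5) (nat_lit 7) (nat_lit 4) (nat_lit 5) (nat_lit 4) (nat_lit 307) (nat_lit 249) (nat_lit 224)) (XT.nd (nat_lit 78) (nat_lit 0) (nat_lit 0) (XT.lf (nat_lit 0) (nat_lit 1949309795) (nat_lit 76) (nat_lit 29286175119) (nat_lit 76) (nat_lit 20151669459) (nat_lit 4) (nat_lit 4) (nat_lit 5) (nat_lit 5) (nat_lit 5) (nat_lit 4) (nat_lit 308) (nat_lit 249) (nat_lit 223)) (XT.lf (nat_lit 0) (nat_lit 13153374340) (nat_lit 76) (nat_lit 25643293573) (nat_lit 76)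 (nat_lit 16403004192) (nat_lit 4) (nat_lit 4) (nat_lit 5) (nat_lit 5) (nat_lit 5) (nat_lit 4) (nat_lit 309) (nat_lit 249) (nat_lit 222)))) (XT.nd (nat_lit 78) (nat_lit 0) (nat_lit 0) (XT.lf (nat_lit 0) (nat_lit 25084691896) (nat_lit 76) (nat_lit 21787651979) (nat_lit 76) (nat_lit 12449414707) (nat_lit 4) (nat_lit 4) (nat_lit 5) (nat_lit 5) (nat_lit 5) (nat_lit 4) (nat_lit 310) (nat_lit 249) (nat_lit 221)) (XT.nd (nat_lit 78) (nat_lit 0) (nat_lit 0) (XT.lf (nat_lit 0) (nat_lit 37813966568) (nat_lit 76) (nat_lit 17696402089) (nat_lit 76) (nat_lit 8267472326) (nat_lit 4) (nat_lit 4) (nat_lit 5) (nat_lit 5) (nat_lit 5) (nat_lit 4) (nat_lit 311) (nat_lit 249) (nat_lit 220)) (XT.lf (nat_lit 0) (nat_lit 51416631094) (nat_lit 76) (nat_lit 13345299460) (nat_lit 76) (nat_lit 3832395168) (nat_lit 4) (nat_lit 4) (nat_lit 5) (nat_lit 5) (nat_lit 5) (nat_lit 4) (nat_lit 312) (nat_lit 249) (nat_lit 219))))))))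
noncomputable def xc28 : XT := (XT.nd (nat_lit 1638) (nat_lit 0) (nat_lit 0) (XT.nd (nat_lit 780) (nat_lit 76) (nat_lit 0) (XT.nd (nat_lit 390) (nat_lit 0) (nat_lit 0) (XT.nd (nat_lit 156) (nat_lit 0) (nat_lit 0) (XT.nd (nat_lit 78) (nat_lit 76) (nat_lit 0) (XT.lf (nat_lit 0) (nat_lit 853866038) (nat_lit 152) (nat_lit 7840233107) (nat_lit 76) (nat_lit 65104967183) (nat_lit 3) (nat_lit 5) (nat_lit 5) (nat_lit 5) (nat_lit 4) (nat_lit 4) (nat_lit 313) (nat_lit 249) (nat_lit 218)) (XT.lf (nat_lit 0) (nat_lit 2120947365) (nat_lit 76) (nat_lit 3627150426) (nat_lit 152) (nat_lit 73670613249) (nat_lit 2) (nat_lit 5) (nat_lit 3) (nat_lit 5) (nat_lit 4) (nat_lit 4) (nat_lit 314) (nat_lit 249) (nat_lit 217))) (XT.nd (nat_lit 78) (nat_lit 0) (nat_lit 0) (XT.lf (nat_lit 0) (nat_lit 11136147942) (nat_lit 152) (nat_lit 72476562168) (nat_lit 0) (nat_lit 1870133849) (nat_lit 2) (nat_lit 5) (nat_lit 4)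 (nat_lit 4) (nat_lit 2) (nat_lit 4) (nat_lit 315) (nat_lit 249) (nat_lit 216)) (XT.nd (nat_lit 78) (nat_lit 0) (nat_lit 0) (XT.lf (nat_lit 0) (nat_lit 16955903543) (nat_lit 152) (nat_lit 67445094355) (nat_lit 0) (nat_lit 7631104893) (nat_lit 2) (nat_lit 5) (nat_lit 4) (nat_lit 4) (nat_lit 2) (nat_lit 4) (nat_lit 316) (nat_lit 249) (nat_lit 215)) (XT.lf (nat_lit 0) (nat_lit 23185222054) (nat_lit 152) (nat_lit 62116914149) (nat_lit 0) (nat_lit 13805993257) (nat_lit 2) (nat_lit 5) (nat_lit 4) (nat_lit 4) (nat_lit 2) (nat_lit 4) (nat_lit 317) (nat_lit 249) (nat_lit 214))))) (XT.nd (nat_lit 156) (nat_lit 0) (nat_lit 0) (XT.nd (nat_lit 78) (nat_lit 0) (nat_lit 0) (XT.lf (nat_lit 0) (nat_lit 29861017954) (nat_lit 152) (nat_lit 56460447147) (nat_lit 0) (nat_lit 20431390874) (nat_lit 2) (nat_lit 5) (nat_lit 4) (nat_lit 4) (nat_lit 2) (nat_lit 4) (nat_lit 318) (nat_lit 249) (nat_lit 213)) (XT.lf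 (nat_lit 0) (nat_lit 37022851515) (nat_lit 152) (nat_lit 50442173547) (nat_lit 0) (nat_lit 27546559357) (nat_lit 2) (nat_lit 5) (nat_lit 4) (nat_lit 4) (nat_lit 2) (nat_lit 4) (nat_lit 319) (nat_lit 249) (nat_lit 212))) (XT.nd (nat_lit 78) (nat_lit 0) (nat_lit 0) (XT.lf (nat_lit 0) (nat_lit 44713163232) (nat_lit 152) (nat_lit 44026429503) (nat_lit 0) (nat_lit 35193662670) (nat_lit 2) (nat_lit 5) (nat_lit 4) (nat_lit 4) (nat_lit 2) (nat_lit 4) (nat_lit 320) (nat_lit 249) (nat_lit 211)) (XT.nd (nat_lit 78) (nat_lit 0) (nat_lit 0) (XT.lf (nat_lit 0) (nat_lit 52977525323) (nat_lit 152) (nat_lit 37175195793) (nat_lit 0) (nat_lit 43418016979) (nat_lit 2) (nat_lit 5) (nat_lit 4) (nat_lit 4) (nat_lit 2) (nat_lit 4) (nat_lit 321) (nat_lit 249) (nat_lit 210)) (XT.lf (nat_lit 0) (nat_lit 61864911786) (nat_lit 152) (nat_lit 29847872513) (nat_lit 0) (nat_lit 52268359199) (nat_lit 2) (nat_lit 5) (nat_lit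 4) (nat_lit 4) (nat_lit 2) (nat_lit 4) (nat_lit 322) (nat_lit 249) (nat_lit 209)))))) (XT.nd (nat_lit 390) (nat_lit 0) (nat_lit 0) (XT.nd (nat_lit 156) (nat_lit 76) (nat_lit 0) (XT.nd (nat_lit 78) (nat_lit 0) (nat_lit 0) (XT.lf (nat_lit 0) (nat_lit 71427988614) (nat_lit 152) (nat_lit 22001038487) (nat_lit 0) (nat_lit 61797135802) (nat_lit 2) (nat_lit 5) (nat_lit 4) (nat_lit 4) (nat_lit 2) (nat_lit 4) (nat_lit 323) (nat_lit 249) (nat_lit 208)) (XT.lf (nat_lit 0) (nat_lit 81723425893) (nat_lit 152) (nat_lit 13588193958) (nat_lit 0) (nat_lit 72060813613) (nat_lit 2) (nat_lit 5) (nat_lit 4) (nat_lit 4) (nat_lit 2) (nat_lit 4) (nat_lit 324) (nat_lit 249) (nat_lit 207))) (XT.nd (nat_lit 78) (nat_lit 76) (nat_lit 0) (XT.lf (nat_lit 0) (nat_lit 92812233620) (nat_lit 152) (nat_lit 4559485034) (nat_lit 0) (nat_lit 83120214426) (nat_lit 2) (nat_lit 5) (nat_lit 4) (nat_lit 4) (nat_lit 2) (nat_lit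 4) (nat_lit 325) (nat_lit 249) (nat_lit 206)) (XT.nd (nat_lit 78) (nat_lit 0) (nat_lit 0) (XT.lf (nat_lit 0) (nat_lit 5308496795) (nat_lit 76) (nat_lit 99534506966) (nat_lit 76) (nat_lit 89815259147) (nat_lit 1) (nat_lit 4) (nat_lit 2) (nat_lit 5) (nat_lit 2) (nat_lit 4) (nat_lit 326) (nat_lit 249) (nat_lit 205)) (XT.lf (nat_lit 0) (nat_lit 16078106278) (nat_lit 76) (nat_lit 101810815109) (nat_lit 76) (nat_lit 92066355602) (nat_lit 1) (nat_lit 4) (nat_lit 2) (nat_lit 5) (nat_lit 2) (nat_lit 4) (nat_lit 327) (nat_lit 249) (nat_lit 204))))) (XT.nd (nat_lit 234) (nat_lit 0) (nat_lit 0) (XT.nd (nat_lit 78) (nat_lit 0) (nat_lit 0) (XT.lf (nat_lit 0) (nat_lit 27662406154) (nat_lit 76) (nat_lit 104291349405) (nat_lit 76) (nat_lit 94523545740) (nat_lit 1) (nat_lit 4) (nat_lit 2) (nat_lit 5) (nat_lit 2) (nat_lit 4) (nat_lit 328) (nat_lit 249) (nat_lit 203)) (XT.nd (nat_lit 78) (nat_lit 0) (nat_lit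 0) (XT.lf (nat_lit 0) (nat_lit 40130044127) (nat_lit 76) (nat_lit 106990809314) (nat_lit 76) (nat_lit 97201390689) (nat_lit 1) (nat_lit 4) (nat_lit 2) (nat_lit 5) (nat_lit 2) (nat_lit 4) (nat_lit 329) (nat_lit 249) (nat_lit 202)) (XT.lf (nat_lit 0) (nat_lit 53554902496) (nat_lit 76) (nat_lit 109925191636) (nat_lit 76) (nat_lit 100115759160) (nat_lit 1) (nat_lit 4) (nat_lit 2) (nat_lit 5) (nat_lit 2) (nat_lit 4) (nat_lit 330) (nat_lit 249) (nat_lit 201)))) (XT.nd (nat_lit 78) (nat_lit 0) (nat_lit 0) (XT.lf (nat_lit 0) (nat_lit 68016535977) (nat_lit 76) (nat_lit 113111885304) (nat_lit 76) (nat_lit 103283921484) (nat_lit 1) (nat_lit 4) (nat_lit 2) (nat_lit 5) (nat_lit 2) (nat_lit 4) (nat_lit 331) (nat_lit 249) (nat_lit 200)) (XT.nd (nat_lit 78) (nat_lit 0) (nat_lit 0) (XT.lf (nat_lit 0) (nat_lit 83600643138) (nat_lit 76) (nat_lit 116569774428) (nat_lit 76) (nat_lit 106724651956) (nat_lit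 1) (nat_lit 4) (nat_lit 2) (nat_lit 5) (nat_lit 2) (nat_lit 4) (nat_lit 332) (nat_lit 249) (nat_lit 199)) (XT.lf (nat_lit 0) (nat_lit 100399574246) (nat_lit 76) (nat_lit 120319350204) (nat_lit 76) (nat_lit 110458340090) (nat_lit 1) (nat_lit 4) (nat_lit 2) (nat_lit 5) (nat_lit 2) (nat_lit 4) (nat_lit 333) (nat_lit 249) (nat_lit 198))))))) (XT.nd (nat_lit 780) (nat_lit 0) (nat_lit 0) (XT.nd (nat_lit 390) (nat_lit 0) (nat_lit 0) (XT.nd (nat_lit 156) (nat_lit 0) (nat_lit 0) (XT.nd (nat_lit 78) (nat_lit 0) (nat_lit 0) (XT.lf (nat_lit 0) (nat_lit 118512878520) (nat_lit 76) (nat_lit 124382832338) (nat_lit 76) (nat_lit 114507111447) (nat_lit 1) (nat_lit 4) (nat_lit 2) (nat_lit 5) (nat_lit 2) (nat_lit 4) (nat_lit 334) (nat_lit 249) (nat_lit 197)) (XT.lf (nat_lit 0) (nat_lit 138047894061) (nat_lit 76) (nat_lit 128784300726) (nat_lit 76) (nat_lit 118894958743) (nat_lit 1) (nat_lit 4) (nat_lit 2)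 (nat_lit 5) (nat_lit 2) (nat_lit 4) (nat_lit 335) (nat_lit 249) (nat_lit 196))) (XT.nd (nat_lit 78) (nat_lit 0) (nat_lit 0) (XT.lf (nat_lit 0) (nat_lit 159120383922) (nat_lit 76) (nat_lit 133549838143) (nat_lit 76) (nat_lit 123647884039) (nat_lit 1) (nat_lit 4) (nat_lit 2) (nat_lit 5) (nat_lit 2) (nat_lit 4) (nat_lit 336) (nat_lit 249) (nat_lit 195)) (XT.nd (nat_lit 78) (nat_lit 0) (nat_lit 0) (XT.lf (nat_lit 0) (nat_lit 181855222120) (nat_lit 76) (nat_lit 138707684811) (nat_lit 76) (nat_lit 128794052817) (nat_lit 1) (nat_lit 4) (nat_lit 2) (nat_lit 5) (nat_lit 2) (nat_lit 4) (nat_lit 337) (nat_lit 249) (nat_lit 194)) (XT.lf (nat_lit 0) (nat_lit 206387133619) (nat_lit 76) (nat_lit 144288405748) (nat_lit 76) (nat_lit 134363960892) (nat_lit 1) (nat_lit 4) (nat_lit 2) (nat_lit 5) (nat_lit 2) (nat_lit 4) (nat_lit 338) (nat_lit 249) (nat_lit 193))))) (XT.nd (nat_lit 156) (nat_lit 0) (nat_lit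 0) (XT.nd (nat_lit 78) (nat_lit 0) (nat_lit 0) (XT.lf (nat_lit 0) (nat_lit 232861492712) (nat_lit 76) (nat_lit 150325071891) (nat_lit 76) (nat_lit 140390615126) (nat_lit 1) (nat_lit 4) (nat_lit 2) (nat_lit 5) (nat_lit 2) (nat_lit 4) (nat_lit 339) (nat_lit 249) (nat_lit 192)) (XT.lf (nat_lit 0) (nat_lit 261435184488) (nat_lit 76) (nat_lit 156853456077) (nat_lit 76) (nat_lit 146909729027) (nat_lit 1) (nat_lit 4) (nat_lit 2) (nat_lit 5) (nat_lit 2) (nat_lit 4) (nat_lit 340) (nat_lit 249) (nat_lit 191))) (XT.nd (nat_lit 78) (nat_lit 0) (nat_lit 0) (XT.lf (nat_lit 0) (nat_lit 292277534529) (nat_lit 76) (nat_lit 163912245028) (nat_lit 76) (nat_lit 153959934380) (nat_lit 1) (nat_lit 4) (nat_lit 2) (nat_lit 5) (nat_lit 2) (nat_lit 4) (nat_lit 341) (nat_lit 249) (nat_lit 190)) (XT.nd (nat_lit 78) (nat_lit 0) (nat_lit 0) (XT.lf (nat_lit 0) (nat_lit 325571312317) (nat_lit 76) (nat_lit 171543268604)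 (nat_lit 76) (nat_lit 161583010180) (nat_lit 1) (nat_lit 4) (nat_lit 2) (nat_lit 5) (nat_lit 2) (nat_lit 4) (nat_lit 342) (nat_lit 249) (nat_lit 189)) (XT.lf (nat_lit 0) (nat_lit 361513814311) (nat_lit 76) (nat_lit 179791747686) (nat_lit 76) (nat_lit 169824130210) (nat_lit 1) (nat_lit 4) (nat_lit 2) (nat_lit 5) (nat_lit 2) (nat_lit 4) (nat_lit 343) (nat_lit 249) (nat_lit 188)))))) (XT.nd (nat_lit 390) (nat_lit 0) (nat_lit 0) (XT.nd (nat_lit 156) (nat_lit 0) (nat_lit 0) (XT.nd (nat_lit 78) (nat_lit 0) (nat_lit 0) (XT.lf (nat_lit 0) (nat_lit 400318033118) (nat_lit 76) (nat_lit 188706562149) (nat_lit 76) (nat_lit 178732130736) (nat_lit 1) (nat_lit 4) (nat_lit 2) (nat_lit 5) (nat_lit 2) (nat_lit 4) (nat_lit 344) (nat_lit 249) (nat_lit 187)) (XT.lf (nat_lit 0) (nat_lit 442213919662) (nat_lit 76) (nat_lit 198340540523) (nat_lit 76) (nat_lit 188359799910) (nat_lit 1) (nat_lit 4) (nat_lit 2) (nat_lit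 5) (nat_lit 2) (nat_lit 4) (nat_lit 345) (nat_lit 249) (nat_lit 186))) (XT.nd (nat_lit 78) (nat_lit 0) (nat_lit 0) (XT.lf (nat_lit 0) (nat_lit 487449745865) (nat_lit 76) (nat_lit 208750773052) (nat_lit 76) (nat_lit 198764190585) (nat_lit 1) (nat_lit 4) (nat_lit 2) (nat_lit 5) (nat_lit 2) (nat_lit 4) (nat_lit 346) (nat_lit 249) (nat_lit 185)) (XT.nd (nat_lit 78) (nat_lit 0) (nat_lit 0) (XT.lf (nat_lit 0) (nat_lit 536293575881) (nat_lit 76) (nat_lit 219998950001) (nat_lit 76) (nat_lit 210006958412) (nat_lit 1) (nat_lit 4) (nat_lit 2) (nat_lit 5) (nat_lit 2) (nat_lit 4) (nat_lit 347) (nat_lit 249) (nat_lit 184)) (XT.lf (nat_lit 0) (nat_lit 589034854629) (nat_lit 76) (nat_lit 232151727234) (nat_lit 76) (nat_lit 222154727198) (nat_lit 1) (nat_lit 4) (nat_lit 2) (nat_lit 5) (nat_lit 2) (nat_lit 4) (nat_lit 348) (nat_lit 249) (nat_lit 183))))) (XT.nd (nat_lit 35412) (nat_lit 0) (nat_lit 1900)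 (XT.nd (nat_lit 35256) (nat_lit 0) (nat_lit 2508) (XT.lf (nat_lit 0) (nat_lit 645986123021) (nat_lit 76) (nat_lit 245281121208) (nat_lit 76) (nat_lit 235279483722) (nat_lit 1) (nat_lit 4) (nat_lit 2) (nat_lit 5) (nat_lit 2) (nat_lit 4) (nat_lit 349) (nat_lit 249) (nat_lit 182)) (XT.nd (nat_lit 78) (nat_lit 228) (nat_lit 0) (XT.lf (nat_lit 0) (nat_lit 277898130) (nat_lit 228) (nat_lit 4386264582) (nat_lit 0) (nat_lit 277898130) (nat_lit 37) (nat_lit 5) (nat_lit 40) (nat_lit 4) (nat_lit 37) (nat_lit 4) (nat_lit 280) (nat_lit 250) (nat_lit 250)) (XT.lf (nat_lit 0) (nat_lit 1873022096) (nat_lit 228) (nat_lit 4833072787) (nat_lit 228) (nat_lit 3584612783) (nat_lit 34) (nat_lit 4) (nat_lit 37) (nat_lit 5) (nat_lit 37) (nat_lit 4) (nat_lit 281) (nat_lit 250) (nat_lit 249)))) (XT.nd (nat_lit 78) (nat_lit 380) (nat_lit 0) (XT.lf (nat_lit 0) (nat_lit 2351255971) (nat_lit 228) (nat_lit 8324916147)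 (nat_lit 0) (nat_lit 61311697) (nat_lit 31) (nat_lit 5) (nat_lit 34) (nat_lit 4) (nat_lit 31) (nat_lit 4) (nat_lit 282) (nat_lit 250) (nat_lit 248)) (XT.nd (nat_lit 78) (nat_lit 228) (nat_lit 0) (XT.lf (nat_lit 0) (nat_lit 2563267467) (nat_lit 152) (nat_lit 5984035766) (nat_lit 152) (nat_lit 2674707466) (nat_lit 29) (nat_lit 4) (nat_lit 31) (nat_lit 5) (nat_lit 31) (nat_lit 4) (nat_lit 283) (nat_lit 250) (nat_lit 247)) (XT.lf (nat_lit 0) (nat_lit 2341006349) (nat_lit 152) (nat_lit 875680844) (nat_lit 228) (nat_lit 8534580061) (nat_lit 26) (nat_lit 5) (nat_lit 28) (nat_lit 5) (nat_lit 29) (nat_lit 4) (nat_lit 284) (nat_lit 250) (nat_lit 246))))))))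
noncomputable def xc29 : XT := (XT.nd (nat_lit 1638) (nat_lit 304) (nat_lit 0) (XT.nd (nat_lit 780) (nat_lit 532) (nat_lit 0) (XT.nd (nat_lit 390) (nat_lit 456) (nat_lit 0) (XT.nd (nat_lit 156) (nat_lit 304) (nat_lit 0) (XT.nd (nat_lit 78) (nat_lit 152) (nat_lit 0) (XT.lf (nat_lit 0) (nat_lit 1597435775) (nat_lit 152) (nat_lit 7805394878) (nat_lit 152) (nat_lit 2922385454) (nat_lit 24) (nat_lit 4) (nat_lit 26) (nat_lit 5) (nat_lit 26) (nat_lit 4) (nat_lit 285) (nat_lit 250) (nat_lit 245)) (XT.lf (nat_lit 0) (nat_lit 292296884) (nat_lit 76) (nat_lit 2608186985) (nat_lit 152) (nat_lit 10049392761) (nat_lit 22) (nat_lit 5) (nat_lit 23) (nat_lit 5) (nat_lit 24) (nat_lit 4) (nat_lit 286) (nat_lit 250) (nat_lit 244))) (XT.nd (nat_lit 78) (nat_lit 304) (nat_lit 0) (XT.lf (nat_lit 0) (nat_lit 9014030298) (nat_lit 152) (nat_lit 1662108533) (nat_lit 0) (nat_lit 2949941871) (nat_lit 22) (nat_lit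 5) (nat_lit 24) (nat_lit 4) (nat_lit 22) (nat_lit 4) (nat_lit 287) (nat_lit 250) (nat_lit 243)) (XT.nd (nat_lit 78) (nat_lit 76) (nat_lit 0) (XT.lf (nat_lit 0) (nat_lit 1130420912) (nat_lit 228) (nat_lit 4376000512) (nat_lit 76) (nat_lit 8853740991) (nat_lit 19) (nat_lit 5) (nat_lit 22) (nat_lit 5) (nat_lit 20) (nat_lit 4) (nat_lit 288) (nat_lit 250) (nat_lit 242)) (XT.lf (nat_lit 0) (nat_lit 7036962725) (nat_lit 152) (nat_lit 8011767644) (nat_lit 0) (nat_lit 107414745) (nat_lit 18) (nat_lit 5) (nat_lit 20) (nat_lit 4) (nat_lit 18) (nat_lit 4) (nat_lit 289) (nat_lit 250) (nat_lit 241))))) (XT.nd (nat_lit 156) (nat_lit 228) (nat_lit 0) (XT.nd (nat_lit 78) (nat_lit 76) (nat_lit 0) (XT.lf (nat_lit 0) (nat_lit 3277254897) (nat_lit 152) (nat_lit 10092242569) (nat_lit 152) (nat_lit 2648883304) (nat_lit 16) (nat_lit 4) (nat_lit 18) (nat_lit 5) (nat_lit 18) (nat_lit 4) (nat_lit 290) (nat_lit 250)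 (nat_lit 240)) (XT.lf (nat_lit 0) (nat_lit 3037072145) (nat_lit 228) (nat_lit 1693112554) (nat_lit 76) (nat_lit 12222967877) (nat_lit 15) (nat_lit 5) (nat_lit 18) (nat_lit 5) (nat_lit 16) (nat_lit 4) (nat_lit 291) (nat_lit 250) (nat_lit 239))) (XT.nd (nat_lit 78) (nat_lit 152) (nat_lit 0) (XT.lf (nat_lit 0) (nat_lit 9020800587) (nat_lit 152) (nat_lit 7883894691) (nat_lit 0) (nat_lit 1059256955) (nat_lit 14) (nat_lit 5) (nat_lit 16) (nat_lit 4) (nat_lit 14) (nat_lit 4) (nat_lit 292) (nat_lit 250) (nat_lit 238)) (XT.nd (nat_lit 78) (nat_lit 76) (nat_lit 0) (XT.lf (nat_lit 0) (nat_lit 3420647346) (nat_lit 76) (nat_lit 11994285666) (nat_lit 76) (nat_lit 3644284926) (nat_lit 13) (nat_lit 4) (nat_lit 14) (nat_lit 5) (nat_lit 14) (nat_lit 4) (nat_lit 293) (nat_lit 250) (nat_lit 237)) (XT.lf (nat_lit 0) (nat_lit 1927353163) (nat_lit 152) (nat_lit 4758609262) (nat_lit 76) (nat_lit 13558915805)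 (nat_lit 12) (nat_lit 5) (nat_lit 14) (nat_lit 5) (nat_lit 13) (nat_lit 4) (nat_lit 294) (nat_lit 250) (nat_lit 236)))))) (XT.nd (nat_lit 390) (nat_lit 228) (nat_lit 0) (XT.nd (nat_lit 156) (nat_lit 228) (nat_lit 0) (XT.nd (nat_lit 78) (nat_lit 0) (nat_lit 0) (XT.lf (nat_lit 0) (nat_lit 6777066799) (nat_lit 76) (nat_lit 939903642) (nat_lit 152) (nat_lit 13810590461) (nat_lit 11) (nat_lit 5) (nat_lit 12) (nat_lit 5) (nat_lit 13) (nat_lit 4) (nat_lit 295) (nat_lit 250) (nat_lit 235)) (XT.lf (nat_lit 0) (nat_lit 13936041319) (nat_lit 152) (nat_lit 3948405256) (nat_lit 0) (nat_lit 5030239051) (nat_lit 11) (nat_lit 5) (nat_lit 13) (nat_lit 4) (nat_lit 11) (nat_lit 4) (nat_lit 296) (nat_lit 250) (nat_lit 234))) (XT.nd (nat_lit 78) (nat_lit 152) (nat_lit 0) (XT.lf (nat_lit 0) (nat_lit 7610738163) (nat_lit 76) (nat_lit 12991220291) (nat_lit 76) (nat_lit 3813487002) (nat_lit 10) (nat_lit 4) (nat_lit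 11) (nat_lit 5) (nat_lit 11) (nat_lit 4) (nat_lit 297) (nat_lit 250) (nat_lit 233)) (XT.nd (nat_lit 78) (nat_lit 76) (nat_lit 0) (XT.lf (nat_lit 0) (nat_lit 1598664934) (nat_lit 152) (nat_lit 6152258153) (nat_lit 76) (nat_lit 18289567440) (nat_lit 9) (nat_lit 5) (nat_lit 11) (nat_lit 5) (nat_lit 10) (nat_lit 4) (nat_lit 298) (nat_lit 250) (nat_lit 232)) (XT.lf (nat_lit 0) (nat_lit 5150757580) (nat_lit 76) (nat_lit 2075298941) (nat_lit 152) (nat_lit 20570670291) (nat_lit 8) (nat_lit 5) (nat_lit 9) (nat_lit 5) (nat_lit 10) (nat_lit 4) (nat_lit 299) (nat_lit 250) (nat_lit 231))))) (XT.nd (nat_lit 234) (nat_lit 152) (nat_lit 0) (XT.nd (nat_lit 78) (nat_lit 76) (nat_lit 0) (XT.lf (nat_lit 0) (nat_lit 13315304353) (nat_lit 152) (nat_lit 12470489113) (nat_lit 0) (nat_lit 3907184447) (nat_lit 8) (nat_lit 5) (nat_lit 10) (nat_lit 4) (nat_lit 8) (nat_lit 4) (nat_lit 300) (nat_lit 250) (nat_lit 230))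 (XT.nd (nat_lit 78) (nat_lit 76) (nat_lit 0) (XT.lf (nat_lit 0) (nat_lit 19778018241) (nat_lit 152) (nat_lit 1789147473) (nat_lit 0) (nat_lit 10179538891) (nat_lit 8) (nat_lit 5) (nat_lit 10) (nat_lit 4) (nat_lit 8) (nat_lit 4) (nat_lit 301) (nat_lit 250) (nat_lit 229)) (XT.lf (nat_lit 0) (nat_lit 9807660134) (nat_lit 76) (nat_lit 16965559444) (nat_lit 76) (nat_lit 7190821349) (nat_lit 7) (nat_lit 4) (nat_lit 8) (nat_lit 5) (nat_lit 8) (nat_lit 4) (nat_lit 302) (nat_lit 250) (nat_lit 228)))) (XT.nd (nat_lit 78) (nat_lit 152) (nat_lit 0) (XT.lf (nat_lit 0) (nat_lit 22154147292) (nat_lit 76) (nat_lit 12073819855) (nat_lit 76) (nat_lit 2135879217) (nat_lit 7) (nat_lit 4) (nat_lit 8) (nat_lit 5) (nat_lit 8) (nat_lit 4) (nat_lit 303) (nat_lit 250) (nat_lit 227)) (XT.nd (nat_lit 78) (nat_lit 76) (nat_lit 0) (XT.lf (nat_lit 0) (nat_lit 3093509760) (nat_lit 152) (nat_lit 3747359094) (nat_lit 76)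 (nat_lit 32118421229) (nat_lit 6) (nat_lit 5) (nat_lit 8) (nat_lit 5) (nat_lit 7) (nat_lit 4) (nat_lit 304) (nat_lit 250) (nat_lit 226)) (XT.lf (nat_lit 0) (nat_lit 7546193596) (nat_lit 76) (nat_lit 1124619854) (nat_lit 152) (nat_lit 33089649679) (nat_lit 5) (nat_lit 5) (nat_lit 6) (nat_lit 5) (nat_lit 7) (nat_lit 4) (nat_lit 305) (nat_lit 250) (nat_lit 225))))))) (XT.nd (nat_lit 858) (nat_lit 76) (nat_lit 0) (XT.nd (nat_lit 390) (nat_lit 152) (nat_lit 0) (XT.nd (nat_lit 156) (nat_lit 76) (nat_lit 0) (XT.nd (nat_lit 78) (nat_lit 0) (nat_lit 0) (XT.lf (nat_lit 0) (nat_lit 14728921226) (nat_lit 152) (nat_lit 25191482202) (nat_lit 0) (nat_lit 4863655114) (nat_lit 5) (nat_lit 5) (nat_lit 7) (nat_lit 4) (nat_lit 5) (nat_lit 4) (nat_lit 306) (nat_lit 250) (nat_lit 224)) (XT.lf (nat_lit 0) (nat_lit 21188275186) (nat_lit 152) (nat_lit 15656728971) (nat_lit 0) (nat_lit 11208762654) (nat_lit 5)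 (nat_lit 5) (nat_lit 7) (nat_lit 4) (nat_lit 5) (nat_lit 4) (nat_lit 307) (nat_lit 250) (nat_lit 223))) (XT.nd (nat_lit 78) (nat_lit 76) (nat_lit 0) (XT.lf (nat_lit 0) (nat_lit 28069594517) (nat_lit 152) (nat_lit 5535949133) (nat_lit 0) (nat_lit 17984298263) (nat_lit 5) (nat_lit 5) (nat_lit 7) (nat_lit 4) (nat_lit 5) (nat_lit 4) (nat_lit 308) (nat_lit 250) (nat_lit 222)) (XT.nd (nat_lit 78) (nat_lit 0) (nat_lit 0) (XT.lf (nat_lit 0) (nat_lit 5403787243) (nat_lit 76) (nat_lit 30094238425) (nat_lit 76) (nat_lit 19910994281) (nat_lit 4) (nat_lit 4) (nat_lit 5) (nat_lit 5) (nat_lit 5) (nat_lit 4) (nat_lit 309) (nat_lit 250) (nat_lit 221)) (XT.lf (nat_lit 0) (nat_lit 17259841199) (nat_lit 76) (nat_lit 26273617519) (nat_lit 76) (nat_lit 15999680884) (nat_lit 4) (nat_lit 4) (nat_lit 5) (nat_lit 5) (nat_lit 5) (nat_lit 4) (nat_lit 310) (nat_lit 250) (nat_lit 220))))) (XT.nd (nat_lit 234) (nat_lit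 152) (nat_lit 0) (XT.nd (nat_lit 78) (nat_lit 0) (nat_lit 0) (XT.lf (nat_lit 0) (nat_lit 29919427351) (nat_lit 76) (nat_lit 22214794193) (nat_lit 76) (nat_lit 11856883028) (nat_lit 4) (nat_lit 4) (nat_lit 5) (nat_lit 5) (nat_lit 5) (nat_lit 4) (nat_lit 311) (nat_lit 250) (nat_lit 219)) (XT.nd (nat_lit 78) (nat_lit 0) (nat_lit 0) (XT.lf (nat_lit 0) (nat_lit 43457565471) (nat_lit 76) (nat_lit 17893716160) (nat_lit 76) (nat_lit 7458050802) (nat_lit 4) (nat_lit 4) (nat_lit 5) (nat_lit 5) (nat_lit 5) (nat_lit 4) (nat_lit 312) (nat_lit 250) (nat_lit 218)) (XT.lf (nat_lit 0) (nat_lit 57954481560) (nat_lit 76) (nat_lit 13284777031) (nat_lit 76) (nat_lit 2777117049) (nat_lit 4) (nat_lit 4) (nat_lit 5) (nat_lit 5) (nat_lit 5) (nat_lit 4) (nat_lit 313) (nat_lit 250) (nat_lit 217)))) (XT.nd (nat_lit 78) (nat_lit 76) (nat_lit 0) (XT.lf (nat_lit 0) (nat_lit 2142806242) (nat_lit 152) (nat_lit 6181568872)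 (nat_lit 76) (nat_lit 71316987567) (nat_lit 3) (nat_lit 5) (nat_lit 5) (nat_lit 5) (nat_lit 4) (nat_lit 4) (nat_lit 314) (nat_lit 250) (nat_lit 216)) (XT.nd (nat_lit 78) (nat_lit 0) (nat_lit 0) (XT.lf (nat_lit 0) (nat_lit 4477164354) (nat_lit 76) (nat_lit 2895133114) (nat_lit 152) (nat_lit 78341139710) (nat_lit 2) (nat_lit 5) (nat_lit 3) (nat_lit 5) (nat_lit 4) (nat_lit 4) (nat_lit 315) (nat_lit 250) (nat_lit 215)) (XT.lf (nat_lit 0) (nat_lit 13119920419) (nat_lit 152) (nat_lit 76210471673) (nat_lit 0) (nat_lit 2935923172) (nat_lit 2) (nat_lit 5) (nat_lit 4) (nat_lit 4) (nat_lit 2) (nat_lit 4) (nat_lit 316) (nat_lit 250) (nat_lit 214)))))) (XT.nd (nat_lit 390) (nat_lit 76) (nat_lit 0) (XT.nd (nat_lit 156) (nat_lit 0) (nat_lit 0) (XT.nd (nat_lit 78) (nat_lit 0) (nat_lit 0) (XT.lf (nat_lit 0) (nat_lit 19324302347) (nat_lit 152) (nat_lit 70929391285) (nat_lit 0) (nat_lit 9089906817) (nat_lit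 2) (nat_lit 5) (nat_lit 4) (nat_lit 4) (nat_lit 2) (nat_lit 4) (nat_lit 317) (nat_lit 250) (nat_lit 213)) (XT.lf (nat_lit 0) (nat_lit 25977008818) (nat_lit 152) (nat_lit 65316535226) (nat_lit 0) (nat_lit 15695948211) (nat_lit 2) (nat_lit 5) (nat_lit 4) (nat_lit 4) (nat_lit 2) (nat_lit 4) (nat_lit 318) (nat_lit 250) (nat_lit 212))) (XT.nd (nat_lit 78) (nat_lit 0) (nat_lit 0) (XT.lf (nat_lit 0) (nat_lit 33117463279) (nat_lit 152) (nat_lit 59338642128) (nat_lit 0) (nat_lit 22793194267) (nat_lit 2) (nat_lit 5) (nat_lit 4) (nat_lit 4) (nat_lit 2) (nat_lit 4) (nat_lit 319) (nat_lit 250) (nat_lit 211)) (XT.nd (nat_lit 78) (nat_lit 0) (nat_lit 0) (XT.lf (nat_lit 0) (nat_lit 40787979533) (nat_lit 152) (nat_lit 52960287439) (nat_lit 0) (nat_lit 30423702739) (nat_lit 2) (nat_lit 5) (nat_lit 4) (nat_lit 4) (nat_lit 2) (nat_lit 4) (nat_lit 320) (nat_lit 250) (nat_lit 210)) (XT.lf (nat_lit 0) (nat_lit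 49034012492) (nat_lit 152) (nat_lit 46143673501) (nat_lit 0) (nat_lit 38632691454) (nat_lit 2) (nat_lit 5) (nat_lit 4) (nat_lit 4) (nat_lit 2) (nat_lit 4) (nat_lit 321) (nat_lit 250) (nat_lit 209))))) (XT.nd (nat_lit 234) (nat_lit 76) (nat_lit 0) (XT.nd (nat_lit 78) (nat_lit 0) (nat_lit 0) (XT.lf (nat_lit 0) (nat_lit 57904427535) (nat_lit 152) (nat_lit 38848405565) (nat_lit 0) (nat_lit 47468806273) (nat_lit 2) (nat_lit 5) (nat_lit 4) (nat_lit 4) (nat_lit 2) (nat_lit 4) (nat_lit 322) (nat_lit 250) (nat_lit 208)) (XT.nd (nat_lit 78) (nat_lit 0) (nat_lit 0) (XT.lf (nat_lit 0) (nat_lit 67451790086) (nat_lit 152) (nat_lit 31031252414) (nat_lit 0) (nat_lit 56984409357) (nat_lit 2) (nat_lit 5) (nat_lit 4) (nat_lit 4) (nat_lit 2) (nat_lit 4) (nat_lit 323) (nat_lit 250) (nat_lit 207)) (XT.lf (nat_lit 0) (nat_lit 77732677108) (nat_lit 152) (nat_lit 22645890177) (nat_lit 0) (nat_lit 67235889465)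 (nat_lit 2) (nat_lit 5) (nat_lit 4) (nat_lit 4) (nat_lit 2) (nat_lit 4) (nat_lit 324) (nat_lit 250) (nat_lit 206)))) (XT.nd (nat_lit 78) (nat_lit 76) (nat_lit 0) (XT.lf (nat_lit 0) (nat_lit 88808012376) (nat_lit 152) (nat_lit 13642627819) (nat_lit 0) (nat_lit 78283996108) (nat_lit 2) (nat_lit 5) (nat_lit 4) (nat_lit 4) (nat_lit 2) (nat_lit 4) (nat_lit 325) (nat_lit 250) (nat_lit 205)) (XT.nd (nat_lit 78) (nat_lit 76) (nat_lit 0) (XT.lf (nat_lit 0) (nat_lit 100743427506) (nat_lit 152) (nat_lit 3968112674) (nat_lit 0) (nat_lit 90194199548) (nat_lit 2) (nat_lit 5) (nat_lit 4) (nat_lit 4) (nat_lit 2) (nat_lit 4) (nat_lit 326) (nat_lit 250) (nat_lit 204)) (XT.lf (nat_lit 0) (nat_lit 6647755407) (nat_lit 76) (nat_lit 107065685569) (nat_lit 76) (nat_lit 96493113455) (nat_lit 1) (nat_lit 4) (nat_lit 2) (nat_lit 5) (nat_lit 2) (nat_lit 4) (nat_lit 327) (nat_lit 250) (nat_lit 203))))))))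
noncomputable def xc30 : XT := (XT.nd (nat_lit 1638) (nat_lit 0) (nat_lit 0) (XT.nd (nat_lit 780) (nat_lit 0) (nat_lit 0) (XT.nd (nat_lit 390) (nat_lit 0) (nat_lit 0) (XT.nd (nat_lit 156) (nat_lit 0) (nat_lit 0) (XT.nd (nat_lit 78) (nat_lit 0) (nat_lit 0) (XT.lf (nat_lit 0) (nat_lit 18211187065) (nat_lit 76) (nat_lit 109556067398) (nat_lit 76) (nat_lit 98961880324) (nat_lit 1) (nat_lit 4) (nat_lit 2) (nat_lit 5) (nat_lit 2) (nat_lit 4) (nat_lit 328) (nat_lit 250) (nat_lit 202)) (XT.lf (nat_lit 0) (nat_lit 30659502614) (nat_lit 76) (nat_lit 112264645394) (nat_lit 76) (nat_lit 101650444468) (nat_lit 1) (nat_lit 4) (nat_lit 2) (nat_lit 5) (nat_lit 2) (nat_lit 4) (nat_lit 329) (nat_lit 250) (nat_lit 201))) (XT.nd (nat_lit 78) (nat_lit 0) (nat_lit 0) (XT.lf (nat_lit 0) (nat_lit 44066469849) (nat_lit 76) (nat_lit 115207470389) (nat_lit 76) (nat_lit 104574738119) (nat_lit 1) (nat_lit 4) (nat_lit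 2) (nat_lit 5) (nat_lit 2) (nat_lit 4) (nat_lit 330) (nat_lit 250) (nat_lit 200)) (XT.nd (nat_lit 78) (nat_lit 0) (nat_lit 0) (XT.lf (nat_lit 0) (nat_lit 58511537466) (nat_lit 76) (nat_lit 118401981347) (nat_lit 76) (nat_lit 107752090425) (nat_lit 1) (nat_lit 4) (nat_lit 2) (nat_lit 5) (nat_lit 2) (nat_lit 4) (nat_lit 331) (nat_lit 250) (nat_lit 199)) (XT.lf (nat_lit 0) (nat_lit 74080305865) (nat_lit 76) (nat_lit 121867108702) (nat_lit 76) (nat_lit 111201330139) (nat_lit 1) (nat_lit 4) (nat_lit 2) (nat_lit 5) (nat_lit 2) (nat_lit 4) (nat_lit 332) (nat_lit 250) (nat_lit 198))))) (XT.nd (nat_lit 156) (nat_lit 0) (nat_lit 0) (XT.nd (nat_lit 78) (nat_lit 0) (nat_lit 0) (XT.lf (nat_lit 0) (nat_lit 90865034413) (nat_lit 76) (nat_lit 125623386544) (nat_lit 76) (nat_lit 114942897202) (nat_lit 1) (nat_lit 4) (nat_lit 2) (nat_lit 5) (nat_lit 2) (nat_lit 4) (nat_lit 333) (nat_lit 250) (nat_lit 197))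 (XT.lf (nat_lit 0) (nat_lit 108965188170) (nat_lit 76) (nat_lit 129693074295) (nat_lit 76) (nat_lit 118998963862) (nat_lit 1) (nat_lit 4) (nat_lit 2) (nat_lit 5) (nat_lit 2) (nat_lit 4) (nat_lit 334) (nat_lit 250) (nat_lit 196))) (XT.nd (nat_lit 78) (nat_lit 0) (nat_lit 0) (XT.lf (nat_lit 0) (nat_lit 128488027306) (nat_lit 76) (nat_lit 134100288624) (nat_lit 76) (nat_lit 123393566070) (nat_lit 1) (nat_lit 4) (nat_lit 2) (nat_lit 5) (nat_lit 2) (nat_lit 4) (nat_lit 335) (nat_lit 250) (nat_lit 195)) (XT.nd (nat_lit 78) (nat_lit 0) (nat_lit 0) (XT.lf (nat_lit 0) (nat_lit 149549242719) (nat_lit 76) (nat_lit 138871146358) (nat_lit 76) (nat_lit 128152745913) (nat_lit 1) (nat_lit 4) (nat_lit 2) (nat_lit 5) (nat_lit 2) (nat_lit 4) (nat_lit 336) (nat_lit 250) (nat_lit 194)) (XT.lf (nat_lit 0) (nat_lit 172273641612) (nat_lit 76) (nat_lit 144033919244) (nat_lit 76) (nat_lit 133304705938) (nat_lit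 1) (nat_lit 4) (nat_lit 2) (nat_lit 5) (nat_lit 2) (nat_lit 4) (nat_lit 337) (nat_lit 250) (nat_lit 193)))))) (XT.nd (nat_lit 390) (nat_lit 0) (nat_lit 0) (XT.nd (nat_lit 156) (nat_lit 0) (nat_lit 0) (XT.nd (nat_lit 78) (nat_lit 0) (nat_lit 0) (XT.lf (nat_lit 0) (nat_lit 196795887089) (nat_lit 76) (nat_lit 149619201494) (nat_lit 76) (nat_lit 138879976279) (nat_lit 1) (nat_lit 4) (nat_lit 2) (nat_lit 5) (nat_lit 2) (nat_lit 4) (nat_lit 338) (nat_lit 250) (nat_lit 192)) (XT.lf (nat_lit 0) (nat_lit 223261296161) (nat_lit 76) (nat_lit 155660091075) (nat_lit 76) (nat_lit 144911595575) (nat_lit 1) (nat_lit 4) (nat_lit 2) (nat_lit 5) (nat_lit 2) (nat_lit 4) (nat_lit 339) (nat_lit 250) (nat_lit 191))) (XT.nd (nat_lit 78) (nat_lit 0) (nat_lit 0) (XT.lf (nat_lit 0) (nat_lit 251826700881) (nat_lit 76) (nat_lit 162192385853) (nat_lit 76) (nat_lit 151435306755) (nat_lit 1) (nat_lit 4) (nat_lit 2) (nat_lit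 5) (nat_lit 2) (nat_lit 4) (nat_lit 340) (nat_lit 250) (nat_lit 190)) (XT.nd (nat_lit 78) (nat_lit 0) (nat_lit 0) (XT.lf (nat_lit 0) (nat_lit 282661377721) (nat_lit 76) (nat_lit 169254795722) (nat_lit 76) (nat_lit 158489768848) (nat_lit 1) (nat_lit 4) (nat_lit 2) (nat_lit 5) (nat_lit 2) (nat_lit 4) (nat_lit 341) (nat_lit 250) (nat_lit 189)) (XT.lf (nat_lit 0) (nat_lit 315948050693) (nat_lit 76) (nat_lit 176889172000) (nat_lit 76) (nat_lit 166116786074) (nat_lit 1) (nat_lit 4) (nat_lit 2) (nat_lit 5) (nat_lit 2) (nat_lit 4) (nat_lit 342) (nat_lit 250) (nat_lit 188))))) (XT.nd (nat_lit 234) (nat_lit 0) (nat_lit 0) (XT.nd (nat_lit 78) (nat_lit 0) (nat_lit 0) (XT.lf (nat_lit 0) (nat_lit 351883974155) (nat_lit 76) (nat_lit 185140755434) (nat_lit 76) (nat_lit 174361555572) (nat_lit 1) (nat_lit 4) (nat_lit 2) (nat_lit 5) (nat_lit 2) (nat_lit 4) (nat_lit 343) (nat_lit 250) (nat_lit 187)) (XT.nd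 (nat_lit 78) (nat_lit 0) (nat_lit 0) (XT.lf (nat_lit 0) (nat_lit 390682101728) (nat_lit 76) (nat_lit 194058444298) (nat_lit 76) (nat_lit 183272935235) (nat_lit 1) (nat_lit 4) (nat_lit 2) (nat_lit 5) (nat_lit 2) (nat_lit 4) (nat_lit 344) (nat_lit 250) (nat_lit 186)) (XT.lf (nat_lit 0) (nat_lit 432572348241) (nat_lit 76) (nat_lit 203695084156) (nat_lit 76) (nat_lit 192903733240) (nat_lit 1) (nat_lit 4) (nat_lit 2) (nat_lit 5) (nat_lit 2) (nat_lit 4) (nat_lit 345) (nat_lit 250) (nat_lit 185)))) (XT.nd (nat_lit 78) (nat_lit 0) (nat_lit 0) (XT.lf (nat_lit 0) (nat_lit 477802952192) (nat_lit 76) (nat_lit 214107781020) (nat_lit 76) (nat_lit 203311020981) (nat_lit 1) (nat_lit 4) (nat_lit 2) (nat_lit 5) (nat_lit 2) (nat_lit 4) (nat_lit 346) (nat_lit 250) (nat_lit 184)) (XT.nd (nat_lit 78) (nat_lit 0) (nat_lit 0) (XT.lf (nat_lit 0) (nat_lit 526641946791) (nat_lit 76) (nat_lit 225358239761) (nat_lit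 76) (nat_lit 214556471275) (nat_lit 1) (nat_lit 4) (nat_lit 2) (nat_lit 5) (nat_lit 2) (nat_lit 4) (nat_lit 347) (nat_lit 250) (nat_lit 183)) (XT.lf (nat_lit 0) (nat_lit 579378748300) (nat_lit 76) (nat_lit 237513129765) (nat_lit 76) (nat_lit 226706723828) (nat_lit 1) (nat_lit 4) (nat_lit 2) (nat_lit 5) (nat_lit 2) (nat_lit 4) (nat_lit 348) (nat_lit 250) (nat_lit 182))))))) (XT.nd (nat_lit 35802) (nat_lit 0) (nat_lit 684) (XT.nd (nat_lit 35412) (nat_lit 0) (nat_lit 1672) (XT.nd (nat_lit 35178) (nat_lit 0) (nat_lit 2508) (XT.nd (nat_lit 35100) (nat_lit 0) (nat_lit 3496) (XT.lf (nat_lit 0) (nat_lit 636325871100) (nat_lit 76) (nat_lit 250644480009) (nat_lit 76) (nat_lit 239833780136) (nat_lit 1) (nat_lit 4) (nat_lit 2) (nat_lit 5) (nat_lit 2) (nat_lit 4) (nat_lit 349) (nat_lit 250) (nat_lit 181)) (XT.lf (nat_lit 0) (nat_lit 4182208408) (nat_lit 228) (nat_lit 199296883) (nat_lit 228) (nat_lit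 199296883) (nat_lit 47) (nat_lit 4) (nat_lit 50) (nat_lit 5) (nat_lit 50) (nat_lit 4) (nat_lit 278) (nat_lit 251) (nat_lit 251))) (XT.nd (nat_lit 78) (nat_lit 456) (nat_lit 0) (XT.lf (nat_lit 0) (nat_lit 65270485) (nat_lit 228) (nat_lit 5430163437) (nat_lit 228) (nat_lit 4014409793) (nat_lit 40) (nat_lit 4) (nat_lit 43) (nat_lit 5) (nat_lit 43) (nat_lit 4) (nat_lit 279) (nat_lit 251) (nat_lit 250)) (XT.nd (nat_lit 78) (nat_lit 228) (nat_lit 0) (XT.lf (nat_lit 0) (nat_lit 820609564) (nat_lit 152) (nat_lit 909754441) (nat_lit 228) (nat_lit 8162735632) (nat_lit 37) (nat_lit 5) (nat_lit 39) (nat_lit 5) (nat_lit 40) (nat_lit 4) (nat_lit 280) (nat_lit 251) (nat_lit 249)) (XT.lf (nat_lit 0) (nat_lit 1304478144) (nat_lit 228) (nat_lit 6379055143) (nat_lit 228) (nat_lit 2626276850) (nat_lit 34) (nat_lit 4) (nat_lit 37) (nat_lit 5) (nat_lit 37) (nat_lit 4) (nat_lit 281) (nat_lit 251) (nat_lit 248)))))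 (XT.nd (nat_lit 156) (nat_lit 456) (nat_lit 0) (XT.nd (nat_lit 78) (nat_lit 152) (nat_lit 0) (XT.lf (nat_lit 0) (nat_lit 1523628254) (nat_lit 152) (nat_lit 1572352122) (nat_lit 228) (nat_lit 7669241113) (nat_lit 31) (nat_lit 5) (nat_lit 33) (nat_lit 5) (nat_lit 34) (nat_lit 4) (nat_lit 282) (nat_lit 251) (nat_lit 247)) (XT.lf (nat_lit 0) (nat_lit 1378778716) (nat_lit 152) (nat_lit 7709357883) (nat_lit 152) (nat_lit 2172025196) (nat_lit 29) (nat_lit 4) (nat_lit 31) (nat_lit 5) (nat_lit 31) (nat_lit 4) (nat_lit 283) (nat_lit 251) (nat_lit 246))) (XT.nd (nat_lit 78) (nat_lit 228) (nat_lit 0) (XT.lf (nat_lit 0) (nat_lit 812885045) (nat_lit 152) (nat_lit 2711102871) (nat_lit 228) (nat_lit 8274195655) (nat_lit 26) (nat_lit 5) (nat_lit 28) (nat_lit 5) (nat_lit 29) (nat_lit 4) (nat_lit 284) (nat_lit 251) (nat_lit 245)) (XT.nd (nat_lit 78) (nat_lit 228) (nat_lit 0) (XT.lf (nat_lit 0) (nat_lit 9507490155)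 (nat_lit 228) (nat_lit 244139161) (nat_lit 0) (nat_lit 2630813879) (nat_lit 26) (nat_lit 5) (nat_lit 29) (nat_lit 4) (nat_lit 26) (nat_lit 4) (nat_lit 285) (nat_lit 251) (nat_lit 244)) (XT.lf (nat_lit 0) (nat_lit 2793700711) (nat_lit 228) (nat_lit 1863187618) (nat_lit 76) (nat_lit 8357970825) (nat_lit 23) (nat_lit 5) (nat_lit 26) (nat_lit 5) (nat_lit 24) (nat_lit 4) (nat_lit 286) (nat_lit 251) (nat_lit 243)))))) (XT.nd (nat_lit 390) (nat_lit 380) (nat_lit 0) (XT.nd (nat_lit 156) (nat_lit 304) (nat_lit 0) (XT.nd (nat_lit 78) (nat_lit 228) (nat_lit 0) (XT.lf (nat_lit 0) (nat_lit 8706281004) (nat_lit 152) (nat_lit 4146802854) (nat_lit 0) (nat_lit 848173595) (nat_lit 22) (nat_lit 5) (nat_lit 24) (nat_lit 4) (nat_lit 22) (nat_lit 4) (nat_lit 287) (nat_lit 251) (nat_lit 242)) (XT.lf (nat_lit 0) (nat_lit 585058685) (nat_lit 228) (nat_lit 7241399099) (nat_lit 76) (nat_lit 6618043595) (nat_lit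 19) (nat_lit 5) (nat_lit 22) (nat_lit 5) (nat_lit 20) (nat_lit 4) (nat_lit 288) (nat_lit 251) (nat_lit 241))) (XT.nd (nat_lit 78) (nat_lit 228) (nat_lit 0) (XT.lf (nat_lit 0) (nat_lit 3967959722) (nat_lit 76) (nat_lit 2348250510) (nat_lit 152) (nat_lit 8933162505) (nat_lit 18) (nat_lit 5) (nat_lit 19) (nat_lit 5) (nat_lit 20) (nat_lit 4) (nat_lit 289) (nat_lit 251) (nat_lit 240)) (XT.nd (nat_lit 78) (nat_lit 228) (nat_lit 0) (XT.lf (nat_lit 0) (nat_lit 12441603012) (nat_lit 152) (nat_lit 267260266) (nat_lit 0) (nat_lit 3413212533) (nat_lit 18) (nat_lit 5) (nat_lit 20) (nat_lit 4) (nat_lit 18) (nat_lit 4) (nat_lit 290) (nat_lit 251) (nat_lit 239)) (XT.lf (nat_lit 0) (nat_lit 1918597974) (nat_lit 228) (nat_lit 5535774991) (nat_lit 76) (nat_lit 9609372333) (nat_lit 15) (nat_lit 5) (nat_lit 18) (nat_lit 5) (nat_lit 16) (nat_lit 4) (nat_lit 291) (nat_lit 251) (nat_lit 238))))) (XT.nd (nat_lit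 234) (nat_lit 152) (nat_lit 0) (XT.nd (nat_lit 78) (nat_lit 152) (nat_lit 0) (XT.lf (nat_lit 0) (nat_lit 5935462093) (nat_lit 76) (nat_lit 1777827123) (nat_lit 152) (nat_lit 10370797676) (nat_lit 14) (nat_lit 5) (nat_lit 15) (nat_lit 5) (nat_lit 16) (nat_lit 4) (nat_lit 292) (nat_lit 251) (nat_lit 237)) (XT.nd (nat_lit 78) (nat_lit 152) (nat_lit 0) (XT.lf (nat_lit 0) (nat_lit 13923233532) (nat_lit 152) (nat_lit 1108318757) (nat_lit 0) (nat_lit 4157093118) (nat_lit 14) (nat_lit 5) (nat_lit 16) (nat_lit 4) (nat_lit 14) (nat_lit 4) (nat_lit 293) (nat_lit 251) (nat_lit 236)) (XT.lf (nat_lit 0) (nat_lit 240140453) (nat_lit 152) (nat_lit 9606891843) (nat_lit 76) (nat_lit 10534511066) (nat_lit 12) (nat_lit 5) (nat_lit 14) (nat_lit 5) (nat_lit 13) (nat_lit 4) (nat_lit 294) (nat_lit 251) (nat_lit 235)))) (XT.nd (nat_lit 78) (nat_lit 76) (nat_lit 0) (XT.lf (nat_lit 0) (nat_lit 1598259136) (nat_lit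 76) (nat_lit 4258232905) (nat_lit 152) (nat_lit 15816465378) (nat_lit 11) (nat_lit 5) (nat_lit 12) (nat_lit 5) (nat_lit 13) (nat_lit 4) (nat_lit 295) (nat_lit 251) (nat_lit 234)) (XT.nd (nat_lit 78) (nat_lit 76) (nat_lit 0) (XT.lf (nat_lit 0) (nat_lit 11934642550) (nat_lit 152) (nat_lit 9381789090) (nat_lit 0) (nat_lit 1750759578) (nat_lit 11) (nat_lit 5) (nat_lit 13) (nat_lit 4) (nat_lit 11) (nat_lit 4) (nat_lit 296) (nat_lit 251) (nat_lit 233)) (XT.lf (nat_lit 0) (nat_lit 1843710392) (nat_lit 76) (nat_lit 16584298761) (nat_lit 76) (nat_lit 6148627808) (nat_lit 10) (nat_lit 4) (nat_lit 11) (nat_lit 5) (nat_lit 11) (nat_lit 4) (nat_lit 297) (nat_lit 251) (nat_lit 232))))))))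
noncomputable def xc31 : XT := (XT.nd (nat_lit 1638) (nat_lit 76) (nat_lit 0) (XT.nd (nat_lit 780) (nat_lit 228) (nat_lit 0) (XT.nd (nat_lit 390) (nat_lit 152) (nat_lit 0) (XT.nd (nat_lit 156) (nat_lit 152) (nat_lit 0) (XT.nd (nat_lit 78) (nat_lit 76) (nat_lit 0) (XT.lf (nat_lit 0) (nat_lit 14005693834) (nat_lit 76) (nat_lit 11435035371) (nat_lit 76) (nat_lit 766227398) (nat_lit 10) (nat_lit 4) (nat_lit 11) (nat_lit 5) (nat_lit 11) (nat_lit 4) (nat_lit 298) (nat_lit 251) (nat_lit 231)) (XT.lf (nat_lit 0) (nat_lit 4731227383) (nat_lit 152) (nat_lit 1185659447) (nat_lit 76) (nat_lit 22054674922) (nat_lit 9) (nat_lit 5) (nat_lit 11) (nat_lit 5) (nat_lit 10) (nat_lit 4) (nat_lit 299) (nat_lit 251) (nat_lit 230))) (XT.nd (nat_lit 78) (nat_lit 76) (nat_lit 0) (XT.lf (nat_lit 0) (nat_lit 10669585654) (nat_lit 152) (nat_lit 19092947309) (nat_lit 0) (nat_lit 112868510) (nat_lit 8) (nat_lit 5) (nat_lit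 10) (nat_lit 4) (nat_lit 8) (nat_lit 4) (nat_lit 300) (nat_lit 251) (nat_lit 229)) (XT.nd (nat_lit 78) (nat_lit 76) (nat_lit 0) (XT.lf (nat_lit 0) (nat_lit 17066119387) (nat_lit 152) (nat_lit 8533215158) (nat_lit 0) (nat_lit 6333143498) (nat_lit 8) (nat_lit 5) (nat_lit 10) (nat_lit 4) (nat_lit 8) (nat_lit 4) (nat_lit 301) (nat_lit 251) (nat_lit 228)) (XT.lf (nat_lit 0) (nat_lit 2724278625) (nat_lit 76) (nat_lit 21165172742) (nat_lit 76) (nat_lit 10268994311) (nat_lit 7) (nat_lit 4) (nat_lit 8) (nat_lit 5) (nat_lit 8) (nat_lit 4) (nat_lit 302) (nat_lit 251) (nat_lit 227))))) (XT.nd (nat_lit 156) (nat_lit 152) (nat_lit 0) (XT.nd (nat_lit 78) (nat_lit 0) (nat_lit 0) (XT.lf (nat_lit 0) (nat_lit 14963057923) (nat_lit 76) (nat_lit 16322720576) (nat_lit 76) (nat_lit 5275428680) (nat_lit 7) (nat_lit 4) (nat_lit 8) (nat_lit 5) (nat_lit 8) (nat_lit 4) (nat_lit 303) (nat_lit 251) (nat_lit 226)) (XT.lf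 (nat_lit 0) (nat_lit 27973502203) (nat_lit 76) (nat_lit 11187796162) (nat_lit 76) (nat_lit 584391) (nat_lit 7) (nat_lit 4) (nat_lit 8) (nat_lit 5) (nat_lit 8) (nat_lit 4) (nat_lit 304) (nat_lit 251) (nat_lit 225))) (XT.nd (nat_lit 78) (nat_lit 76) (nat_lit 0) (XT.lf (nat_lit 0) (nat_lit 5407984500) (nat_lit 152) (nat_lit 230398985) (nat_lit 76) (nat_lit 36333139061) (nat_lit 6) (nat_lit 5) (nat_lit 8) (nat_lit 5) (nat_lit 7) (nat_lit 4) (nat_lit 305) (nat_lit 251) (nat_lit 224)) (XT.nd (nat_lit 78) (nat_lit 0) (nat_lit 0) (XT.lf (nat_lit 0) (nat_lit 11342628520) (nat_lit 152) (nat_lit 33208180551) (nat_lit 0) (nat_lit 450508567) (nat_lit 5) (nat_lit 5) (nat_lit 7) (nat_lit 4) (nat_lit 5) (nat_lit 4) (nat_lit 306) (nat_lit 251) (nat_lit 223)) (XT.lf (nat_lit 0) (nat_lit 17756413756) (nat_lit 152) (nat_lit 23758405037) (nat_lit 0) (nat_lit 6758510081) (nat_lit 5) (nat_lit 5) (nat_lit 7)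 (nat_lit 4) (nat_lit 5) (nat_lit 4) (nat_lit 307) (nat_lit 251) (nat_lit 222)))))) (XT.nd (nat_lit 390) (nat_lit 152) (nat_lit 0) (XT.nd (nat_lit 156) (nat_lit 76) (nat_lit 0) (XT.nd (nat_lit 78) (nat_lit 0) (nat_lit 0) (XT.lf (nat_lit 0) (nat_lit 24595539824) (nat_lit 152) (nat_lit 13716308269) (nat_lit 0) (nat_lit 13499688257) (nat_lit 5) (nat_lit 5) (nat_lit 7) (nat_lit 4) (nat_lit 5) (nat_lit 4) (nat_lit 308) (nat_lit 251) (nat_lit 221)) (XT.lf (nat_lit 0) (nat_lit 31900534877) (nat_lit 152) (nat_lit 3022381527) (nat_lit 0) (nat_lit 20713990819) (nat_lit 5) (nat_lit 5) (nat_lit 7) (nat_lit 4) (nat_lit 5) (nat_lit 4) (nat_lit 309) (nat_lit 251) (nat_lit 220))) (XT.nd (nat_lit 78) (nat_lit 0) (nat_lit 0) (XT.lf (nat_lit 0) (nat_lit 8664050326) (nat_lit 76) (nat_lit 31185907555) (nat_lit 76) (nat_lit 19915388968) (nat_lit 4) (nat_lit 4) (nat_lit 5) (nat_lit 5) (nat_lit 5) (nat_lit 4)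 (nat_lit 310) (nat_lit 251) (nat_lit 219)) (XT.nd (nat_lit 78) (nat_lit 0) (nat_lit 0) (XT.lf (nat_lit 0) (nat_lit 21259110072) (nat_lit 76) (nat_lit 27157108824) (nat_lit 76) (nat_lit 15808836044) (nat_lit 4) (nat_lit 4) (nat_lit 5) (nat_lit 5) (nat_lit 5) (nat_lit 4) (nat_lit 311) (nat_lit 251) (nat_lit 218)) (XT.lf (nat_lit 0) (nat_lit 34737501518) (nat_lit 76) (nat_lit 22863831343) (nat_lit 76) (nat_lit 11443563939) (nat_lit 4) (nat_lit 4) (nat_lit 5) (nat_lit 5) (nat_lit 5) (nat_lit 4) (nat_lit 312) (nat_lit 251) (nat_lit 217))))) (XT.nd (nat_lit 234) (nat_lit 76) (nat_lit 0) (XT.nd (nat_lit 78) (nat_lit 76) (nat_lit 0) (XT.lf (nat_lit 0) (nat_lit 49179096615) (nat_lit 76) (nat_lit 18280633466) (nat_lit 76) (nat_lit 6793704373) (nat_lit 4) (nat_lit 4) (nat_lit 5) (nat_lit 5) (nat_lit 5) (nat_lit 4) (nat_lit 313) (nat_lit 251) (nat_lit 216)) (XT.nd (nat_lit 78) (nat_lit 76) (nat_lit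 0) (XT.lf (nat_lit 0) (nat_lit 64669475183) (nat_lit 76) (nat_lit 13380355502) (nat_lit 76) (nat_lit 1831702624) (nat_lit 4) (nat_lit 4) (nat_lit 5) (nat_lit 5) (nat_lit 5) (nat_lit 4) (nat_lit 314) (nat_lit 251) (nat_lit 215)) (XT.lf (nat_lit 0) (nat_lit 3360725016) (nat_lit 152) (nat_lit 4716318247) (nat_lit 76) (nat_lit 77882791540) (nat_lit 3) (nat_lit 5) (nat_lit 5) (nat_lit 5) (nat_lit 4) (nat_lit 4) (nat_lit 315) (nat_lit 251) (nat_lit 214)))) (XT.nd (nat_lit 78) (nat_lit 0) (nat_lit 0) (XT.lf (nat_lit 0) (nat_lit 6709944154) (nat_lit 76) (nat_lit 2250381154) (nat_lit 152) (nat_lit 83559800401) (nat_lit 2) (nat_lit 5) (nat_lit 3) (nat_lit 5) (nat_lit 4) (nat_lit 4) (nat_lit 316) (nat_lit 251) (nat_lit 213)) (XT.nd (nat_lit 78) (nat_lit 0) (nat_lit 0) (XT.lf (nat_lit 0) (nat_lit 15106483052) (nat_lit 152) (nat_lit 80537577353) (nat_lit 0) (nat_lit 3956272519) (nat_lit 2) (nat_lit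 5) (nat_lit 4) (nat_lit 4) (nat_lit 2) (nat_lit 4) (nat_lit 317) (nat_lit 251) (nat_lit 212)) (XT.lf (nat_lit 0) (nat_lit 21737810423) (nat_lit 152) (nat_lit 74965101797) (nat_lit 0) (nat_lit 10544391485) (nat_lit 2) (nat_lit 5) (nat_lit 4) (nat_lit 4) (nat_lit 2) (nat_lit 4) (nat_lit 318) (nat_lit 251) (nat_lit 211))))))) (XT.nd (nat_lit 858) (nat_lit 0) (nat_lit 0) (XT.nd (nat_lit 390) (nat_lit 76) (nat_lit 0) (XT.nd (nat_lit 156) (nat_lit 0) (nat_lit 0) (XT.nd (nat_lit 78) (nat_lit 0) (nat_lit 0) (XT.lf (nat_lit 0) (nat_lit 28858469421) (nat_lit 152) (nat_lit 69024598053) (nat_lit 0) (nat_lit 17625042700) (nat_lit 2) (nat_lit 5) (nat_lit 4) (nat_lit 4) (nat_lit 2) (nat_lit 4) (nat_lit 319) (nat_lit 251) (nat_lit 210)) (XT.lf (nat_lit 0) (nat_lit 36510656542) (nat_lit 152) (nat_lit 62680863136) (nat_lit 0) (nat_lit 25240185579) (nat_lit 2) (nat_lit 5) (nat_lit 4) (nat_lit 4) (nat_lit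 2) (nat_lit 4) (nat_lit 320) (nat_lit 251) (nat_lit 209))) (XT.nd (nat_lit 78) (nat_lit 0) (nat_lit 0) (XT.lf (nat_lit 0) (nat_lit 44739718082) (nat_lit 152) (nat_lit 55896304543) (nat_lit 0) (nat_lit 33434946894) (nat_lit 2) (nat_lit 5) (nat_lit 4) (nat_lit 4) (nat_lit 2) (nat_lit 4) (nat_lit 321) (nat_lit 251) (nat_lit 208)) (XT.nd (nat_lit 78) (nat_lit 0) (nat_lit 0) (XT.lf (nat_lit 0) (nat_lit 53594418848) (nat_lit 152) (nat_lit 48630717482) (nat_lit 0) (nat_lit 42257888193) (nat_lit 2) (nat_lit 5) (nat_lit 4) (nat_lit 4) (nat_lit 2) (nat_lit 4) (nat_lit 322) (nat_lit 251) (nat_lit 207)) (XT.lf (nat_lit 0) (nat_lit 63127231143) (nat_lit 152) (nat_lit 40841046622) (nat_lit 0) (nat_lit 51761293573) (nat_lit 2) (nat_lit 5) (nat_lit 4) (nat_lit 4) (nat_lit 2) (nat_lit 4) (nat_lit 323) (nat_lit 251) (nat_lit 206))))) (XT.nd (nat_lit 234) (nat_lit 76) (nat_lit 0) (XT.nd (nat_lit 78) (nat_lit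 0) (nat_lit 0) (XT.lf (nat_lit 0) (nat_lit 73394645705) (nat_lit 152) (nat_lit 32481130951) (nat_lit 0) (nat_lit 62001479511) (nat_lit 2) (nat_lit 5) (nat_lit 4) (nat_lit 4) (nat_lit 2) (nat_lit 4) (nat_lit 324) (nat_lit 251) (nat_lit 205)) (XT.nd (nat_lit 78) (nat_lit 0) (nat_lit 0) (XT.lf (nat_lit 0) (nat_lit 84457506473) (nat_lit 152) (nat_lit 23501430229) (nat_lit 0) (nat_lit 73039128590) (nat_lit 2) (nat_lit 5) (nat_lit 4) (nat_lit 4) (nat_lit 2) (nat_lit 4) (nat_lit 325) (nat_lit 251) (nat_lit 204)) (XT.lf (nat_lit 0) (nat_lit 96381371140) (nat_lit 152) (nat_lit 13848731412) (nat_lit 0) (nat_lit 84939649101) (nat_lit 2) (nat_lit 5) (nat_lit 4) (nat_lit 4) (nat_lit 2) (nat_lit 4) (nat_lit 326) (nat_lit 251) (nat_lit 203)))) (XT.nd (nat_lit 78) (nat_lit 76) (nat_lit 0) (XT.lf (nat_lit 0) (nat_lit 109236899645) (nat_lit 152) (nat_lit 3465833325) (nat_lit 0) (nat_lit 97773562646) (nat_lit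 2) (nat_lit 5) (nat_lit 4) (nat_lit 4) (nat_lit 2) (nat_lit 4) (nat_lit 327) (nat_lit 251) (nat_lit 202)) (XT.nd (nat_lit 78) (nat_lit 0) (nat_lit 0) (XT.lf (nat_lit 0) (nat_lit 7963679807) (nat_lit 76) (nat_lit 115260928451) (nat_lit 76) (nat_lit 103777577599) (nat_lit 1) (nat_lit 4) (nat_lit 2) (nat_lit 5) (nat_lit 2) (nat_lit 4) (nat_lit 328) (nat_lit 251) (nat_lit 201)) (XT.lf (nat_lit 0) (nat_lit 20394104222) (nat_lit 76) (nat_lit 117977949120) (nat_lit 76) (nat_lit 106476066924) (nat_lit 1) (nat_lit 4) (nat_lit 2) (nat_lit 5) (nat_lit 2) (nat_lit 4) (nat_lit 329) (nat_lit 251) (nat_lit 200)))))) (XT.nd (nat_lit 390) (nat_lit 0) (nat_lit 0) (XT.nd (nat_lit 156) (nat_lit 0) (nat_lit 0) (XT.nd (nat_lit 78) (nat_lit 0) (nat_lit 0) (XT.lf (nat_lit 0) (nat_lit 33784505593) (nat_lit 76) (nat_lit 120928591405) (nat_lit 76) (nat_lit 109409550557) (nat_lit 1) (nat_lit 4) (nat_lit 2) (nat_lit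 5) (nat_lit 2) (nat_lit 4) (nat_lit 330) (nat_lit 251) (nat_lit 199)) (XT.lf (nat_lit 0) (nat_lit 48214234447) (nat_lit 76) (nat_lit 124130340594) (nat_lit 76) (nat_lit 112595412105) (nat_lit 1) (nat_lit 4) (nat_lit 2) (nat_lit 5) (nat_lit 2) (nat_lit 4) (nat_lit 331) (nat_lit 251) (nat_lit 198))) (XT.nd (nat_lit 78) (nat_lit 0) (nat_lit 0) (XT.lf (nat_lit 0) (nat_lit 63768800287) (nat_lit 76) (nat_lit 127602170016) (nat_lit 76) (nat_lit 116052530748) (nat_lit 1) (nat_lit 4) (nat_lit 2) (nat_lit 5) (nat_lit 2) (nat_lit 4) (nat_lit 332) (nat_lit 251) (nat_lit 197)) (XT.nd (nat_lit 78) (nat_lit 0) (nat_lit 0) (XT.lf (nat_lit 0) (nat_lit 80540378319) (nat_lit 76) (nat_lit 131364653474) (nat_lit 76) (nat_lit 119801393115) (nat_lit 1) (nat_lit 4) (nat_lit 2) (nat_lit 5) (nat_lit 2) (nat_lit 4) (nat_lit 333) (nat_lit 251) (nat_lit 196)) (XT.lf (nat_lit 0) (nat_lit 98628355671) (nat_lit 76) (nat_lit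 135440087166) (nat_lit 76) (nat_lit 123864214686) (nat_lit 1) (nat_lit 4) (nat_lit 2) (nat_lit 5) (nat_lit 2) (nat_lit 4) (nat_lit 334) (nat_lit 251) (nat_lit 195))))) (XT.nd (nat_lit 234) (nat_lit 0) (nat_lit 0) (XT.nd (nat_lit 78) (nat_lit 0) (nat_lit 0) (XT.lf (nat_lit 0) (nat_lit 118139920358) (nat_lit 76) (nat_lit 139852621812) (nat_lit 76) (nat_lit 128265071442) (nat_lit 1) (nat_lit 4) (nat_lit 2) (nat_lit 5) (nat_lit 2) (nat_lit 4) (nat_lit 335) (nat_lit 251) (nat_lit 194)) (XT.nd (nat_lit 78) (nat_lit 0) (nat_lit 0) (XT.lf (nat_lit 0) (nat_lit 139190696467) (nat_lit 76) (nat_lit 144628405764) (nat_lit 76) (nat_lit 133030042532) (nat_lit 1) (nat_lit 4) (nat_lit 2) (nat_lit 5) (nat_lit 2) (nat_lit 4) (nat_lit 336) (nat_lit 251) (nat_lit 193)) (XT.lf (nat_lit 0) (nat_lit 161905429337) (nat_lit 76) (nat_lit 149795739964) (nat_lit 76) (nat_lit 138187364824) (nat_lit 1) (nat_lit 4) (nat_lit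 2) (nat_lit 5) (nat_lit 2) (nat_lit 4) (nat_lit 337) (nat_lit 251) (nat_lit 192)))) (XT.nd (nat_lit 78) (nat_lit 0) (nat_lit 0) (XT.lf (nat_lit 0) (nat_lit 186418724793) (nat_lit 76) (nat_lit 155385245652) (nat_lit 76) (nat_lit 143767600226) (nat_lit 1) (nat_lit 4) (nat_lit 2) (nat_lit 5) (nat_lit 2) (nat_lit 4) (nat_lit 338) (nat_lit 251) (nat_lit 191)) (XT.nd (nat_lit 78) (nat_lit 0) (nat_lit 0) (XT.lf (nat_lit 0) (nat_lit 212875846808) (nat_lit 76) (nat_lit 161430045825) (nat_lit 76) (nat_lit 149803816801) (nat_lit 1) (nat_lit 4) (nat_lit 2) (nat_lit 5) (nat_lit 2) (nat_lit 4) (nat_lit 339) (nat_lit 251) (nat_lit 190)) (XT.lf (nat_lit 0) (nat_lit 241433578327) (nat_lit 76) (nat_lit 167965961520) (nat_lit 76) (nat_lit 156331784720) (nat_lit 1) (nat_lit 4) (nat_lit 2) (nat_lit 5) (nat_lit 2) (nat_lit 4) (nat_lit 340) (nat_lit 251) (nat_lit 189))))))))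
noncomputable def xc32 : XT := (XT.nd (nat_lit 36504) (nat_lit 0) (nat_lit 304) (XT.nd (nat_lit 35646) (nat_lit 0) (nat_lit 1596) (XT.nd (nat_lit 390) (nat_lit 0) (nat_lit 0) (XT.nd (nat_lit 156) (nat_lit 0) (nat_lit 0) (XT.nd (nat_lit 78) (nat_lit 0) (nat_lit 0) (XT.lf (nat_lit 0) (nat_lit 272261150353) (nat_lit 76) (nat_lit 175031724090) (nat_lit 76) (nat_lit 163390188239) (nat_lit 1) (nat_lit 4) (nat_lit 2) (nat_lit 5) (nat_lit 2) (nat_lit 4) (nat_lit 341) (nat_lit 251) (nat_lit 188)) (XT.lf (nat_lit 0) (nat_lit 305541244792) (nat_lit 76) (nat_lit 182669204721) (nat_lit 76) (nat_lit 171020854933) (nat_lit 1) (nat_lit 4) (nat_lit 2) (nat_lit 5) (nat_lit 2) (nat_lit 4) (nat_lit 342) (nat_lit 251) (nat_lit 187))) (XT.nd (nat_lit 78) (nat_lit 0) (nat_lit 0) (XT.lf (nat_lit 0) (nat_lit 341471077020) (nat_lit 76) (nat_lit 190923662557) (nat_lit 76) (nat_lit 179269003568) (nat_lit 1) (nat_lit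 4) (nat_lit 2) (nat_lit 5) (nat_lit 2) (nat_lit 4) (nat_lit 343) (nat_lit 251) (nat_lit 186)) (XT.nd (nat_lit 78) (nat_lit 0) (nat_lit 0) (XT.lf (nat_lit 0) (nat_lit 380263564561) (nat_lit 76) (nat_lit 199844012904) (nat_lit 76) (nat_lit 188183512062) (nat_lit 1) (nat_lit 4) (nat_lit 2) (nat_lit 5) (nat_lit 2) (nat_lit 4) (nat_lit 344) (nat_lit 251) (nat_lit 185)) (XT.lf (nat_lit 0) (nat_lit 422148588823) (nat_lit 76) (nat_lit 209483117097) (nat_lit 76) (nat_lit 197817207133) (nat_lit 1) (nat_lit 4) (nat_lit 2) (nat_lit 5) (nat_lit 2) (nat_lit 4) (nat_lit 345) (nat_lit 251) (nat_lit 184))))) (XT.nd (nat_lit 156) (nat_lit 0) (nat_lit 0) (XT.nd (nat_lit 78) (nat_lit 0) (nat_lit 0) (XT.lf (nat_lit 0) (nat_lit 467374357357) (nat_lit 76) (nat_lit 219898095754) (nat_lit 76) (nat_lit 208227177342) (nat_lit 1) (nat_lit 4) (nat_lit 2) (nat_lit 5) (nat_lit 2) (nat_lit 4) (nat_lit 346) (nat_lit 251)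 (nat_lit 183)) (XT.lf (nat_lit 0) (nat_lit 516208874716) (nat_lit 76) (nat_lit 231150667266) (nat_lit 76) (nat_lit 219475111403) (nat_lit 1) (nat_lit 4) (nat_lit 2) (nat_lit 5) (nat_lit 2) (nat_lit 4) (nat_lit 347) (nat_lit 251) (nat_lit 182))) (XT.nd (nat_lit 78) (nat_lit 0) (nat_lit 0) (XT.lf (nat_lit 0) (nat_lit 568941530634) (nat_lit 76) (nat_lit 243307513539) (nat_lit 76) (nat_lit 231627663740) (nat_lit 1) (nat_lit 4) (nat_lit 2) (nat_lit 5) (nat_lit 2) (nat_lit 4) (nat_lit 348) (nat_lit 251) (nat_lit 181)) (XT.nd (nat_lit 34944) (nat_lit 0) (nat_lit 4028) (XT.lf (nat_lit 0) (nat_lit 625884814924) (nat_lit 76) (nat_lit 256440675143) (nat_lit 76) (nat_lit 244756849478) (nat_lit 1) (nat_lit 4) (nat_lit 2) (nat_lit 5) (nat_lit 2) (nat_lit 4) (nat_lit 349) (nat_lit 251) (nat_lit 180)) (XT.lf (nat_lit 0) (nat_lit 2914307880) (nat_lit 304) (nat_lit 678902438) (nat_lit 304) (nat_lit 678902438)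 (nat_lit 54) (nat_lit 4) (nat_lit 58) (nat_lit 5) (nat_lit 58) (nat_lit 4) (nat_lit 276) (nat_lit 252) (nat_lit 252)))))) (XT.nd (nat_lit 390) (nat_lit 912) (nat_lit 0) (XT.nd (nat_lit 156) (nat_lit 912) (nat_lit 0) (XT.nd (nat_lit 78) (nat_lit 304) (nat_lit 0) (XT.lf (nat_lit 0) (nat_lit 4297033382) (nat_lit 304) (nat_lit 1853079575) (nat_lit 0) (nat_lit 2691568750) (nat_lit 50) (nat_lit 5) (nat_lit 54) (nat_lit 4) (nat_lit 50) (nat_lit 4) (nat_lit 277) (nat_lit 252) (nat_lit 251)) (XT.lf (nat_lit 0) (nat_lit 984727714) (nat_lit 304) (nat_lit 1073314144) (nat_lit 76) (nat_lit 7112124440) (nat_lit 46) (nat_lit 5) (nat_lit 50) (nat_lit 5) (nat_lit 47) (nat_lit 4) (nat_lit 278) (nat_lit 252) (nat_lit 250))) (XT.nd (nat_lit 78) (nat_lit 684) (nat_lit 0) (XT.lf (nat_lit 0) (nat_lit 6659649815) (nat_lit 304) (nat_lit 465066835) (nat_lit 0) (nat_lit 2403999232) (nat_lit 43) (nat_lit 5) (nat_lit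 47) (nat_lit 4) (nat_lit 43) (nat_lit 4) (nat_lit 279) (nat_lit 252) (nat_lit 249)) (XT.nd (nat_lit 78) (nat_lit 380) (nat_lit 0) (XT.lf (nat_lit 0) (nat_lit 2649892714) (nat_lit 304) (nat_lit 37151077) (nat_lit 76) (nat_lit 7233759808) (nat_lit 39) (nat_lit 5) (nat_lit 43) (nat_lit 5) (nat_lit 40) (nat_lit 4) (nat_lit 280) (nat_lit 252) (nat_lit 248)) (XT.lf (nat_lit 0) (nat_lit 164021091) (nat_lit 228) (nat_lit 8231721228) (nat_lit 228) (nat_lit 1952385961) (nat_lit 34) (nat_lit 4) (nat_lit 37) (nat_lit 5) (nat_lit 37) (nat_lit 4) (nat_lit 281) (nat_lit 252) (nat_lit 247))))) (XT.nd (nat_lit 234) (nat_lit 456) (nat_lit 0) (XT.nd (nat_lit 78) (nat_lit 228) (nat_lit 0) (XT.lf (nat_lit 0) (nat_lit 47374832) (nat_lit 152) (nat_lit 3522272924) (nat_lit 228) (nat_lit 7242517419) (nat_lit 31) (nat_lit 5) (nat_lit 33) (nat_lit 5) (nat_lit 34) (nat_lit 4) (nat_lit 282) (nat_lit 252) (nat_lit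 246)) (XT.nd (nat_lit 78) (nat_lit 228) (nat_lit 0) (XT.lf (nat_lit 0) (nat_lit 9360899365) (nat_lit 228) (nat_lit 393705534) (nat_lit 0) (nat_lit 1562748468) (nat_lit 31) (nat_lit 5) (nat_lit 34) (nat_lit 4) (nat_lit 31) (nat_lit 4) (nat_lit 283) (nat_lit 252) (nat_lit 245)) (XT.lf (nat_lit 0) (nat_lit 3569593218) (nat_lit 228) (nat_lit 1289704705) (nat_lit 76) (nat_lit 7004240961) (nat_lit 28) (nat_lit 5) (nat_lit 31) (nat_lit 5) (nat_lit 29) (nat_lit 4) (nat_lit 284) (nat_lit 252) (nat_lit 244)))) (XT.nd (nat_lit 78) (nat_lit 304) (nat_lit 0) (XT.lf (nat_lit 0) (nat_lit 9360409067) (nat_lit 228) (nat_lit 2647873968) (nat_lit 0) (nat_lit 449315264) (nat_lit 26) (nat_lit 5) (nat_lit 29) (nat_lit 4) (nat_lit 26) (nat_lit 4) (nat_lit 285) (nat_lit 252) (nat_lit 243)) (XT.nd (nat_lit 78) (nat_lit 76) (nat_lit 0) (XT.lf (nat_lit 0) (nat_lit 2405716806) (nat_lit 228) (nat_lit 4640113052) (nat_lit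 76) (nat_lit 6053146838) (nat_lit 23) (nat_lit 5) (nat_lit 26) (nat_lit 5) (nat_lit 24) (nat_lit 4) (nat_lit 286) (nat_lit 252) (nat_lit 242)) (XT.lf (nat_lit 0) (nat_lit 6488944094) (nat_lit 76) (nat_lit 1644017708) (nat_lit 152) (nat_lit 5661815067) (nat_lit 22) (nat_lit 5) (nat_lit 23) (nat_lit 5) (nat_lit 24) (nat_lit 4) (nat_lit 287) (nat_lit 252) (nat_lit 241))))))) (XT.nd (nat_lit 780) (nat_lit 456) (nat_lit 0) (XT.nd (nat_lit 390) (nat_lit 228) (nat_lit 0) (XT.nd (nat_lit 156) (nat_lit 304) (nat_lit 0) (XT.nd (nat_lit 78) (nat_lit 152) (nat_lit 0) (XT.lf (nat_lit 0) (nat_lit 3769150729) (nat_lit 152) (nat_lit 10508783964) (nat_lit 152) (nat_lit 270589161) (nat_lit 20) (nat_lit 4) (nat_lit 22) (nat_lit 5) (nat_lit 22) (nat_lit 4) (nat_lit 288) (nat_lit 252) (nat_lit 240)) (XT.lf (nat_lit 0) (nat_lit 115428578) (nat_lit 76) (nat_lit 5178796851) (nat_lit 152) (nat_lit 10068241209)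 (nat_lit 18) (nat_lit 5) (nat_lit 19) (nat_lit 5) (nat_lit 20) (nat_lit 4) (nat_lit 289) (nat_lit 252) (nat_lit 239))) (XT.nd (nat_lit 78) (nat_lit 304) (nat_lit 0) (XT.lf (nat_lit 0) (nat_lit 11264951321) (nat_lit 152) (nat_lit 4380025829) (nat_lit 0) (nat_lit 598028054) (nat_lit 18) (nat_lit 5) (nat_lit 20) (nat_lit 4) (nat_lit 18) (nat_lit 4) (nat_lit 290) (nat_lit 252) (nat_lit 238)) (XT.nd (nat_lit 78) (nat_lit 76) (nat_lit 0) (XT.lf (nat_lit 0) (nat_lit 488161621) (nat_lit 228) (nat_lit 10074071905) (nat_lit 76) (nat_lit 6632263485) (nat_lit 15) (nat_lit 5) (nat_lit 18) (nat_lit 5) (nat_lit 16) (nat_lit 4) (nat_lit 291) (nat_lit 252) (nat_lit 237)) (XT.lf (nat_lit 0) (nat_lit 1068575006) (nat_lit 76) (nat_lit 5039251758) (nat_lit 152) (nat_lit 12115846550) (nat_lit 14) (nat_lit 5) (nat_lit 15) (nat_lit 5) (nat_lit 16) (nat_lit 4) (nat_lit 292) (nat_lit 252) (nat_lit 236))))) (XT.nd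 (nat_lit 156) (nat_lit 152) (nat_lit 0) (XT.nd (nat_lit 78) (nat_lit 76) (nat_lit 0) (XT.lf (nat_lit 0) (nat_lit 12171457255) (nat_lit 152) (nat_lit 6232863751) (nat_lit 0) (nat_lit 931303741) (nat_lit 14) (nat_lit 5) (nat_lit 16) (nat_lit 4) (nat_lit 14) (nat_lit 4) (nat_lit 293) (nat_lit 252) (nat_lit 235)) (XT.lf (nat_lit 0) (nat_lit 5323085518) (nat_lit 76) (nat_lit 13381450454) (nat_lit 76) (nat_lit 1832927165) (nat_lit 13) (nat_lit 4) (nat_lit 14) (nat_lit 5) (nat_lit 14) (nat_lit 4) (nat_lit 294) (nat_lit 252) (nat_lit 234))) (XT.nd (nat_lit 78) (nat_lit 76) (nat_lit 0) (XT.lf (nat_lit 0) (nat_lit 3731571431) (nat_lit 152) (nat_lit 4184329425) (nat_lit 76) (nat_lit 13919996156) (nat_lit 12) (nat_lit 5) (nat_lit 14) (nat_lit 5) (nat_lit 13) (nat_lit 4) (nat_lit 295) (nat_lit 252) (nat_lit 233)) (XT.nd (nat_lit 78) (nat_lit 0) (nat_lit 0) (XT.lf (nat_lit 0) (nat_lit 7648175373) (nat_lit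 76) (nat_lit 1984314194) (nat_lit 152) (nat_lit 13606561249) (nat_lit 11) (nat_lit 5) (nat_lit 12) (nat_lit 5) (nat_lit 13) (nat_lit 4) (nat_lit 296) (nat_lit 252) (nat_lit 232)) (XT.lf (nat_lit 0) (nat_lit 15989690845) (nat_lit 152) (nat_lit 4531426826) (nat_lit 0) (nat_lit 4234241215) (nat_lit 11) (nat_lit 5) (nat_lit 13) (nat_lit 4) (nat_lit 11) (nat_lit 4) (nat_lit 297) (nat_lit 252) (nat_lit 231)))))) (XT.nd (nat_lit 390) (nat_lit 228) (nat_lit 0) (XT.nd (nat_lit 156) (nat_lit 76) (nat_lit 0) (XT.nd (nat_lit 78) (nat_lit 76) (nat_lit 0) (XT.lf (nat_lit 0) (nat_lit 7348704092) (nat_lit 76) (nat_lit 15507818084) (nat_lit 76) (nat_lit 3536500844) (nat_lit 10) (nat_lit 4) (nat_lit 11) (nat_lit 5) (nat_lit 11) (nat_lit 4) (nat_lit 298) (nat_lit 252) (nat_lit 230)) (XT.lf (nat_lit 0) (nat_lit 1981061557) (nat_lit 152) (nat_lit 8110018465) (nat_lit 76) (nat_lit 18072182797) (nat_lit 9) (nat_lit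 5) (nat_lit 11) (nat_lit 5) (nat_lit 10) (nat_lit 4) (nat_lit 299) (nat_lit 252) (nat_lit 229))) (XT.nd (nat_lit 78) (nat_lit 0) (nat_lit 0) (XT.lf (nat_lit 0) (nat_lit 3511914447) (nat_lit 76) (nat_lit 4228661547) (nat_lit 152) (nat_lit 22335509609) (nat_lit 8) (nat_lit 5) (nat_lit 9) (nat_lit 5) (nat_lit 10) (nat_lit 4) (nat_lit 300) (nat_lit 252) (nat_lit 228)) (XT.nd (nat_lit 78) (nat_lit 0) (nat_lit 0) (XT.lf (nat_lit 0) (nat_lit 14009810549) (nat_lit 152) (nat_lit 16051019126) (nat_lit 0) (nat_lit 2078735301) (nat_lit 8) (nat_lit 5) (nat_lit 10) (nat_lit 4) (nat_lit 8) (nat_lit 4) (nat_lit 301) (nat_lit 252) (nat_lit 227)) (XT.lf (nat_lit 0) (nat_lit 20733870089) (nat_lit 152) (nat_lit 4984979808) (nat_lit 0) (nat_lit 8651681376) (nat_lit 8) (nat_lit 5) (nat_lit 10) (nat_lit 4) (nat_lit 8) (nat_lit 4) (nat_lit 302) (nat_lit 252) (nat_lit 226))))) (XT.nd (nat_lit 234) (nat_lit 76)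 (nat_lit 0) (XT.nd (nat_lit 78) (nat_lit 76) (nat_lit 0) (XT.lf (nat_lit 0) (nat_lit 6989244043) (nat_lit 76) (nat_lit 21006457279) (nat_lit 76) (nat_lit 8784348692) (nat_lit 7) (nat_lit 4) (nat_lit 8) (nat_lit 5) (nat_lit 8) (nat_lit 4) (nat_lit 303) (nat_lit 252) (nat_lit 225)) (XT.nd (nat_lit 78) (nat_lit 76) (nat_lit 0) (XT.lf (nat_lit 0) (nat_lit 19907346193) (nat_lit 76) (nat_lit 15913788887) (nat_lit 76) (nat_lit 3562124859) (nat_lit 7) (nat_lit 4) (nat_lit 8) (nat_lit 5) (nat_lit 8) (nat_lit 4) (nat_lit 304) (nat_lit 252) (nat_lit 224)) (XT.lf (nat_lit 0) (nat_lit 1913272353) (nat_lit 152) (nat_lit 8549414443) (nat_lit 76) (nat_lit 31735377867) (nat_lit 6) (nat_lit 5) (nat_lit 8) (nat_lit 5) (nat_lit 7) (nat_lit 4) (nat_lit 305) (nat_lit 252) (nat_lit 223)))) (XT.nd (nat_lit 78) (nat_lit 0) (nat_lit 0) (XT.lf (nat_lit 0) (nat_lit 3123383830) (nat_lit 76) (nat_lit 4538118368) (nat_lit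 152) (nat_lit 37575702796) (nat_lit 5) (nat_lit 5) (nat_lit 6) (nat_lit 5) (nat_lit 7) (nat_lit 4) (nat_lit 306) (nat_lit 252) (nat_lit 222)) (XT.nd (nat_lit 78) (nat_lit 0) (nat_lit 0) (XT.lf (nat_lit 0) (nat_lit 13962241425) (nat_lit 152) (nat_lit 32671875975) (nat_lit 0) (nat_lit 1880773842) (nat_lit 5) (nat_lit 5) (nat_lit 7) (nat_lit 4) (nat_lit 5) (nat_lit 4) (nat_lit 307) (nat_lit 252) (nat_lit 221)) (XT.lf (nat_lit 0) (nat_lit 20762299655) (nat_lit 152) (nat_lit 22702633903) (nat_lit 0) (nat_lit 8590139582) (nat_lit 5) (nat_lit 5) (nat_lit 7) (nat_lit 4) (nat_lit 5) (nat_lit 4) (nat_lit 308) (nat_lit 252) (nat_lit 220))))))))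
noncomputable def xc33 : XT := (XT.nd (nat_lit 1638) (nat_lit 0) (nat_lit 0) (XT.nd (nat_lit 780) (nat_lit 76) (nat_lit 0) (XT.nd (nat_lit 390) (nat_lit 152) (nat_lit 0) (XT.nd (nat_lit 156) (nat_lit 76) (nat_lit 0) (XT.nd (nat_lit 78) (nat_lit 0) (nat_lit 0) (XT.lf (nat_lit 0) (nat_lit 28031120786) (nat_lit 152) (nat_lit 12076165212) (nat_lit 0) (nat_lit 15774986184) (nat_lit 5) (nat_lit 5) (nat_lit 7) (nat_lit 4) (nat_lit 5) (nat_lit 4) (nat_lit 309) (nat_lit 252) (nat_lit 219)) (XT.lf (nat_lit 0) (nat_lit 35811779312) (nat_lit 152) (nat_lit 729498235) (nat_lit 0) (nat_lit 23477890516) (nat_lit 5) (nat_lit 5) (nat_lit 7) (nat_lit 4) (nat_lit 5) (nat_lit 4) (nat_lit 310) (nat_lit 252) (nat_lit 218))) (XT.nd (nat_lit 78) (nat_lit 0) (nat_lit 0) (XT.lf (nat_lit 0) (nat_lit 11781694331) (nat_lit 76) (nat_lit 32552633774) (nat_lit 76) (nat_lit 20146750354) (nat_lit 4) (nat_lit 4) (nat_lit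 5) (nat_lit 5) (nat_lit 5) (nat_lit 4) (nat_lit 311) (nat_lit 252) (nat_lit 217)) (XT.nd (nat_lit 78) (nat_lit 0) (nat_lit 0) (XT.lf (nat_lit 0) (nat_lit 25204764784) (nat_lit 76) (nat_lit 28285097544) (nat_lit 76) (nat_lit 15812552436) (nat_lit 4) (nat_lit 4) (nat_lit 5) (nat_lit 5) (nat_lit 5) (nat_lit 4) (nat_lit 312) (nat_lit 252) (nat_lit 216)) (XT.lf (nat_lit 0) (nat_lit 39595136738) (nat_lit 76) (nat_lit 23725734159) (nat_lit 76) (nat_lit 11191465265) (nat_lit 4) (nat_lit 4) (nat_lit 5) (nat_lit 5) (nat_lit 5) (nat_lit 4) (nat_lit 313) (nat_lit 252) (nat_lit 215))))) (XT.nd (nat_lit 156) (nat_lit 152) (nat_lit 0) (XT.nd (nat_lit 78) (nat_lit 0) (nat_lit 0) (XT.lf (nat_lit 0) (nat_lit 55038086472) (nat_lit 76) (nat_lit 18847525169) (nat_lit 76) (nat_lit 6256104622) (nat_lit 4) (nat_lit 4) (nat_lit 5) (nat_lit 5) (nat_lit 5) (nat_lit 4) (nat_lit 314) (nat_lit 252) (nat_lit 214)) (XT.lf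 (nat_lit 0) (nat_lit 71625127761) (nat_lit 76) (nat_lit 13621562670) (nat_lit 76) (nat_lit 977223926) (nat_lit 4) (nat_lit 4) (nat_lit 5) (nat_lit 5) (nat_lit 5) (nat_lit 4) (nat_lit 315) (nat_lit 252) (nat_lit 213))) (XT.nd (nat_lit 78) (nat_lit 76) (nat_lit 0) (XT.lf (nat_lit 0) (nat_lit 4526783184) (nat_lit 152) (nat_lit 3413431547) (nat_lit 76) (nat_lit 84851107736) (nat_lit 3) (nat_lit 5) (nat_lit 5) (nat_lit 5) (nat_lit 4) (nat_lit 4) (nat_lit 316) (nat_lit 252) (nat_lit 212)) (XT.nd (nat_lit 78) (nat_lit 0) (nat_lit 0) (XT.lf (nat_lit 0) (nat_lit 8853912742) (nat_lit 76) (nat_lit 1679071961) (nat_lit 152) (nat_lit 89345552809) (nat_lit 2) (nat_lit 5) (nat_lit 3) (nat_lit 5) (nat_lit 4) (nat_lit 4) (nat_lit 317) (nat_lit 252) (nat_lit 211)) (XT.lf (nat_lit 0) (nat_lit 17118301593) (nat_lit 152) (nat_lit 85463323549) (nat_lit 0) (nat_lit 4946192953) (nat_lit 2) (nat_lit 5) (nat_lit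 4) (nat_lit 4) (nat_lit 2) (nat_lit 4) (nat_lit 318) (nat_lit 252) (nat_lit 210)))))) (XT.nd (nat_lit 390) (nat_lit 76) (nat_lit 0) (XT.nd (nat_lit 156) (nat_lit 0) (nat_lit 0) (XT.nd (nat_lit 78) (nat_lit 0) (nat_lit 0) (XT.lf (nat_lit 0) (nat_lit 24220631458) (nat_lit 152) (nat_lit 79557439578) (nat_lit 0) (nat_lit 12011478575) (nat_lit 2) (nat_lit 5) (nat_lit 4) (nat_lit 4) (nat_lit 2) (nat_lit 4) (nat_lit 319) (nat_lit 252) (nat_lit 209)) (XT.lf (nat_lit 0) (nat_lit 31855847160) (nat_lit 152) (nat_lit 73245760006) (nat_lit 0) (nat_lit 19612394052) (nat_lit 2) (nat_lit 5) (nat_lit 4) (nat_lit 4) (nat_lit 2) (nat_lit 4) (nat_lit 320) (nat_lit 252) (nat_lit 208))) (XT.nd (nat_lit 78) (nat_lit 0) (nat_lit 0) (XT.lf (nat_lit 0) (nat_lit 40069194423) (nat_lit 152) (nat_lit 66490882287) (nat_lit 0) (nat_lit 27793981848) (nat_lit 2) (nat_lit 5) (nat_lit 4) (nat_lit 4) (nat_lit 2) (nat_lit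 4) (nat_lit 321) (nat_lit 252) (nat_lit 207)) (XT.nd (nat_lit 78) (nat_lit 0) (nat_lit 0) (XT.lf (nat_lit 0) (nat_lit 48909344933) (nat_lit 152) (nat_lit 59252777518) (nat_lit 0) (nat_lit 36604725444) (nat_lit 2) (nat_lit 5) (nat_lit 4) (nat_lit 4) (nat_lit 2) (nat_lit 4) (nat_lit 322) (nat_lit 252) (nat_lit 206)) (XT.lf (nat_lit 0) (nat_lit 58428684768) (nat_lit 152) (nat_lit 51488553224) (nat_lit 0) (nat_lit 46096836654) (nat_lit 2) (nat_lit 5) (nat_lit 4) (nat_lit 4) (nat_lit 2) (nat_lit 4) (nat_lit 323) (nat_lit 252) (nat_lit 205))))) (XT.nd (nat_lit 234) (nat_lit 76) (nat_lit 0) (XT.nd (nat_lit 78) (nat_lit 0) (nat_lit 0) (XT.lf (nat_lit 0) (nat_lit 68683624831) (nat_lit 152) (nat_lit 43152199189) (nat_lit 0) (nat_lit 56326565028) (nat_lit 2) (nat_lit 5) (nat_lit 4) (nat_lit 4) (nat_lit 2) (nat_lit 4) (nat_lit 324) (nat_lit 252) (nat_lit 204)) (XT.nd (nat_lit 78) (nat_lit 0) (nat_lit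 0) (XT.lf (nat_lit 0) (nat_lit 79734935136) (nat_lit 152) (nat_lit 34194314795) (nat_lit 0) (nat_lit 67354531176) (nat_lit 2) (nat_lit 5) (nat_lit 4) (nat_lit 4) (nat_lit 2) (nat_lit 4) (nat_lit 325) (nat_lit 252) (nat_lit 203)) (XT.lf (nat_lit 0) (nat_lit 91648104931) (nat_lit 152) (nat_lit 24561816284) (nat_lit 0) (nat_lit 79246086011) (nat_lit 2) (nat_lit 5) (nat_lit 4) (nat_lit 4) (nat_lit 2) (nat_lit 4) (nat_lit 326) (nat_lit 252) (nat_lit 202)))) (XT.nd (nat_lit 78) (nat_lit 76) (nat_lit 0) (XT.lf (nat_lit 0) (nat_lit 104493730775) (nat_lit 152) (nat_lit 14197622182) (nat_lit 0) (nat_lit 92071698004) (nat_lit 2) (nat_lit 5) (nat_lit 4) (nat_lit 4) (nat_lit 2) (nat_lit 4) (nat_lit 327) (nat_lit 252) (nat_lit 201)) (XT.nd (nat_lit 78) (nat_lit 76) (nat_lit 0) (XT.lf (nat_lit 0) (nat_lit 118347934898) (nat_lit 152) (nat_lit 3040315043) (nat_lit 0) (nat_lit 105907370783) (nat_lit 2)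 (nat_lit 5) (nat_lit 4) (nat_lit 4) (nat_lit 2) (nat_lit 4) (nat_lit 328) (nat_lit 252) (nat_lit 200)) (XT.lf (nat_lit 0) (nat_lit 9273016962) (nat_lit 76) (nat_lit 124164577107) (nat_lit 76) (nat_lit 111706854339) (nat_lit 1) (nat_lit 4) (nat_lit 2) (nat_lit 5) (nat_lit 2) (nat_lit 4) (nat_lit 329) (nat_lit 252) (nat_lit 199))))))) (XT.nd (nat_lit 780) (nat_lit 0) (nat_lit 0) (XT.nd (nat_lit 390) (nat_lit 0) (nat_lit 0) (XT.nd (nat_lit 156) (nat_lit 0) (nat_lit 0) (XT.nd (nat_lit 78) (nat_lit 0) (nat_lit 0) (XT.lf (nat_lit 0) (nat_lit 22648079570) (nat_lit 76) (nat_lit 127122457623) (nat_lit 76) (nat_lit 114648847215) (nat_lit 1) (nat_lit 4) (nat_lit 2) (nat_lit 5) (nat_lit 2) (nat_lit 4) (nat_lit 330) (nat_lit 252) (nat_lit 198)) (XT.lf (nat_lit 0) (nat_lit 37063605865) (nat_lit 76) (nat_lit 130330908878) (nat_lit 76) (nat_lit 117842587691) (nat_lit 1) (nat_lit 4) (nat_lit 2) (nat_lit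 5) (nat_lit 2) (nat_lit 4) (nat_lit 331) (nat_lit 252) (nat_lit 197))) (XT.nd (nat_lit 78) (nat_lit 0) (nat_lit 0) (XT.lf (nat_lit 0) (nat_lit 52605021188) (nat_lit 76) (nat_lit 133808943917) (nat_lit 76) (nat_lit 121307001638) (nat_lit 1) (nat_lit 4) (nat_lit 2) (nat_lit 5) (nat_lit 2) (nat_lit 4) (nat_lit 332) (nat_lit 252) (nat_lit 196)) (XT.nd (nat_lit 78) (nat_lit 0) (nat_lit 0) (XT.lf (nat_lit 0) (nat_lit 69364422815) (nat_lit 76) (nat_lit 137577173316) (nat_lit 76) (nat_lit 125062618916) (nat_lit 1) (nat_lit 4) (nat_lit 2) (nat_lit 5) (nat_lit 2) (nat_lit 4) (nat_lit 333) (nat_lit 252) (nat_lit 195)) (XT.lf (nat_lit 0) (nat_lit 87441125718) (nat_lit 76) (nat_lit 141657927325) (nat_lit 76) (nat_lit 129131695035) (nat_lit 1) (nat_lit 4) (nat_lit 2) (nat_lit 5) (nat_lit 2) (nat_lit 4) (nat_lit 334) (nat_lit 252) (nat_lit 194))))) (XT.nd (nat_lit 156) (nat_lit 0) (nat_lit 0) (XT.nd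 (nat_lit 78) (nat_lit 0) (nat_lit 0) (XT.lf (nat_lit 0) (nat_lit 106942251101) (nat_lit 76) (nat_lit 146075388189) (nat_lit 76) (nat_lit 133538343037) (nat_lit 1) (nat_lit 4) (nat_lit 2) (nat_lit 5) (nat_lit 2) (nat_lit 4) (nat_lit 335) (nat_lit 252) (nat_lit 193)) (XT.lf (nat_lit 0) (nat_lit 127983361187) (nat_lit 76) (nat_lit 150855733454) (nat_lit 76) (nat_lit 138308676394) (nat_lit 1) (nat_lit 4) (nat_lit 2) (nat_lit 5) (nat_lit 2) (nat_lit 4) (nat_lit 336) (nat_lit 252) (nat_lit 192))) (XT.nd (nat_lit 78) (nat_lit 0) (nat_lit 0) (XT.lf (nat_lit 0) (nat_lit 150689144036) (nat_lit 76) (nat_lit 156027291093) (nat_lit 76) (nat_lit 143470963747) (nat_lit 1) (nat_lit 4) (nat_lit 2) (nat_lit 5) (nat_lit 2) (nat_lit 4) (nat_lit 337) (nat_lit 252) (nat_lit 191)) (XT.nd (nat_lit 78) (nat_lit 0) (nat_lit 0) (XT.lf (nat_lit 0) (nat_lit 175194152435) (nat_lit 76) (nat_lit 161620707372) (nat_lit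 76) (nat_lit 149055796428) (nat_lit 1) (nat_lit 4) (nat_lit 2) (nat_lit 5) (nat_lit 2) (nat_lit 4) (nat_lit 338) (nat_lit 252) (nat_lit 190)) (XT.lf (nat_lit 0) (nat_lit 201643601250) (nat_lit 76) (nat_lit 167669128462) (nat_lit 76) (nat_lit 155096269743) (nat_lit 1) (nat_lit 4) (nat_lit 2) (nat_lit 5) (nat_lit 2) (nat_lit 4) (nat_lit 339) (nat_lit 252) (nat_lit 189)))))) (XT.nd (nat_lit 390) (nat_lit 0) (nat_lit 0) (XT.nd (nat_lit 156) (nat_lit 0) (nat_lit 0) (XT.nd (nat_lit 78) (nat_lit 0) (nat_lit 0) (XT.lf (nat_lit 0) (nat_lit 230194227954) (nat_lit 76) (nat_lit 174208396859) (nat_lit 76) (nat_lit 161628179088) (nat_lit 1) (nat_lit 4) (nat_lit 2) (nat_lit 5) (nat_lit 2) (nat_lit 4) (nat_lit 340) (nat_lit 252) (nat_lit 188)) (XT.lf (nat_lit 0) (nat_lit 261015221447) (nat_lit 76) (nat_lit 181277263783) (nat_lit 76) (nat_lit 168690232075) (nat_lit 1) (nat_lit 4) (nat_lit 2) (nat_lit 5)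 (nat_lit 2) (nat_lit 4) (nat_lit 341) (nat_lit 252) (nat_lit 187))) (XT.nd (nat_lit 78) (nat_lit 0) (nat_lit 0) (XT.lf (nat_lit 0) (nat_lit 294289224652) (nat_lit 76) (nat_lit 188917618815) (nat_lit 76) (nat_lit 176324277906) (nat_lit 1) (nat_lit 4) (nat_lit 2) (nat_lit 5) (nat_lit 2) (nat_lit 4) (nat_lit 342) (nat_lit 252) (nat_lit 186)) (XT.nd (nat_lit 78) (nat_lit 0) (nat_lit 0) (XT.lf (nat_lit 0) (nat_lit 330213416849) (nat_lit 76) (nat_lit 197174738134) (nat_lit 76) (nat_lit 184575555372) (nat_lit 1) (nat_lit 4) (nat_lit 2) (nat_lit 5) (nat_lit 2) (nat_lit 4) (nat_lit 343) (nat_lit 252) (nat_lit 185)) (XT.lf (nat_lit 0) (nat_lit 369000682139) (nat_lit 76) (nat_lit 206097552817) (nat_lit 76) (nat_lit 193492960932) (nat_lit 1) (nat_lit 4) (nat_lit 2) (nat_lit 5) (nat_lit 2) (nat_lit 4) (nat_lit 344) (nat_lit 252) (nat_lit 184))))) (XT.nd (nat_lit 234) (nat_lit 0) (nat_lit 0) (XT.nd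 (nat_lit 78) (nat_lit 0) (nat_lit 0) (XT.lf (nat_lit 0) (nat_lit 410880870983) (nat_lit 76) (nat_lit 215738938802) (nat_lit 76) (nat_lit 203129338471) (nat_lit 1) (nat_lit 4) (nat_lit 2) (nat_lit 5) (nat_lit 2) (nat_lit 4) (nat_lit 345) (nat_lit 252) (nat_lit 183)) (XT.nd (nat_lit 78) (nat_lit 0) (nat_lit 0) (XT.lf (nat_lit 0) (nat_lit 456102162278) (nat_lit 76) (nat_lit 226156030229) (nat_lit 76) (nat_lit 213541792447) (nat_lit 1) (nat_lit 4) (nat_lit 2) (nat_lit 5) (nat_lit 2) (nat_lit 4) (nat_lit 346) (nat_lit 252) (nat_lit 182)) (XT.lf (nat_lit 0) (nat_lit 504932534046) (nat_lit 76) (nat_lit 237410558010) (nat_lit 76) (nat_lit 224792026292) (nat_lit 1) (nat_lit 4) (nat_lit 2) (nat_lit 5) (nat_lit 2) (nat_lit 4) (nat_lit 347) (nat_lit 252) (nat_lit 181)))) (XT.nd (nat_lit 78) (nat_lit 0) (nat_lit 0) (XT.lf (nat_lit 0) (nat_lit 557661351453) (nat_lit 76) (nat_lit 249569215644) (nat_lit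 76) (nat_lit 236946708059) (nat_lit 1) (nat_lit 4) (nat_lit 2) (nat_lit 5) (nat_lit 2) (nat_lit 4) (nat_lit 348) (nat_lit 252) (nat_lit 180)) (XT.nd (nat_lit 34788) (nat_lit 0) (nat_lit 4636) (XT.lf (nat_lit 0) (nat_lit 614601081567) (nat_lit 76) (nat_lit 262704054434) (nat_lit 76) (nat_lit 250077865491) (nat_lit 1) (nat_lit 4) (nat_lit 2) (nat_lit 5) (nat_lit 2) (nat_lit 4) (nat_lit 349) (nat_lit 252) (nat_lit 179)) (XT.lf (nat_lit 0) (nat_lit 1793660879) (nat_lit 304) (nat_lit 1108587332) (nat_lit 304) (nat_lit 1108587332) (nat_lit 62) (nat_lit 4) (nat_lit 66) (nat_lit 5) (nat_lit 66) (nat_lit 4) (nat_lit 274) (nat_lit 253) (nat_lit 253))))))))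
noncomputable def xc34 : XT := (XT.nd (nat_lit 1638) (nat_lit 608) (nat_lit 0) (XT.nd (nat_lit 780) (nat_lit 1216) (nat_lit 0) (XT.nd (nat_lit 390) (nat_lit 1140) (nat_lit 0) (XT.nd (nat_lit 156) (nat_lit 760) (nat_lit 0) (XT.nd (nat_lit 78) (nat_lit 380) (nat_lit 0) (XT.lf (nat_lit 0) (nat_lit 3209061860) (nat_lit 304) (nat_lit 3676410886) (nat_lit 0) (nat_lit 1388464967) (nat_lit 58) (nat_lit 5) (nat_lit 62) (nat_lit 4) (nat_lit 58) (nat_lit 4) (nat_lit 275) (nat_lit 253) (nat_lit 252)) (XT.lf (nat_lit 0) (nat_lit 262521085) (nat_lit 380) (nat_lit 2968166531) (nat_lit 76) (nat_lit 5322821842) (nat_lit 53) (nat_lit 5) (nat_lit 58) (nat_lit 5) (nat_lit 54) (nat_lit 4) (nat_lit 276) (nat_lit 253) (nat_lit 251))) (XT.nd (nat_lit 78) (nat_lit 532) (nat_lit 0) (XT.lf (nat_lit 0) (nat_lit 5664209426) (nat_lit 304) (nat_lit 2358223892) (nat_lit 0) (nat_lit 838301664) (nat_lit 50) (nat_lit 5)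 (nat_lit 54) (nat_lit 4) (nat_lit 50) (nat_lit 4) (nat_lit 277) (nat_lit 253) (nat_lit 250)) (XT.nd (nat_lit 78) (nat_lit 228) (nat_lit 0) (XT.lf (nat_lit 0) (nat_lit 2111499094) (nat_lit 304) (nat_lit 1873761771) (nat_lit 76) (nat_lit 5212120434) (nat_lit 46) (nat_lit 5) (nat_lit 50) (nat_lit 5) (nat_lit 47) (nat_lit 4) (nat_lit 278) (nat_lit 253) (nat_lit 249)) (XT.lf (nat_lit 0) (nat_lit 7581271161) (nat_lit 304) (nat_lit 1524693713) (nat_lit 0) (nat_lit 460504968) (nat_lit 43) (nat_lit 5) (nat_lit 47) (nat_lit 4) (nat_lit 43) (nat_lit 4) (nat_lit 279) (nat_lit 253) (nat_lit 248))))) (XT.nd (nat_lit 156) (nat_lit 684) (nat_lit 0) (XT.nd (nat_lit 78) (nat_lit 152) (nat_lit 0) (XT.lf (nat_lit 0) (nat_lit 3331876926) (nat_lit 304) (nat_lit 1414289381) (nat_lit 76) (nat_lit 5220629161) (nat_lit 39) (nat_lit 5) (nat_lit 43) (nat_lit 5) (nat_lit 40) (nat_lit 4) (nat_lit 280) (nat_lit 253)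 (nat_lit 247)) (XT.lf (nat_lit 0) (nat_lit 8871222062) (nat_lit 228) (nat_lit 1505334180) (nat_lit 0) (nat_lit 28118945) (nat_lit 37) (nat_lit 5) (nat_lit 40) (nat_lit 4) (nat_lit 37) (nat_lit 4) (nat_lit 281) (nat_lit 253) (nat_lit 246))) (XT.nd (nat_lit 78) (nat_lit 380) (nat_lit 0) (XT.lf (nat_lit 0) (nat_lit 3805674918) (nat_lit 304) (nat_lit 1959124906) (nat_lit 76) (nat_lit 5112262738) (nat_lit 33) (nat_lit 5) (nat_lit 37) (nat_lit 5) (nat_lit 34) (nat_lit 4) (nat_lit 282) (nat_lit 253) (nat_lit 245)) (XT.nd (nat_lit 78) (nat_lit 228) (nat_lit 0) (XT.lf (nat_lit 0) (nat_lit 8666530764) (nat_lit 152) (nat_lit 736869311) (nat_lit 228) (nat_lit 1988714648) (nat_lit 31) (nat_lit 5) (nat_lit 33) (nat_lit 5) (nat_lit 34) (nat_lit 4) (nat_lit 283) (nat_lit 253) (nat_lit 244)) (XT.lf (nat_lit 0) (nat_lit 3355373129) (nat_lit 228) (nat_lit 3975943146) (nat_lit 76) (nat_lit 4616324219) (nat_lit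 28) (nat_lit 5) (nat_lit 31) (nat_lit 5) (nat_lit 29) (nat_lit 4) (nat_lit 284) (nat_lit 253) (nat_lit 243)))))) (XT.nd (nat_lit 390) (nat_lit 532) (nat_lit 0) (XT.nd (nat_lit 156) (nat_lit 304) (nat_lit 0) (XT.nd (nat_lit 78) (nat_lit 228) (nat_lit 0) (XT.lf (nat_lit 0) (nat_lit 6838302733) (nat_lit 152) (nat_lit 2130739429) (nat_lit 228) (nat_lit 3581668303) (nat_lit 26) (nat_lit 5) (nat_lit 28) (nat_lit 5) (nat_lit 29) (nat_lit 4) (nat_lit 285) (nat_lit 253) (nat_lit 242)) (XT.lf (nat_lit 0) (nat_lit 1729669418) (nat_lit 228) (nat_lit 8064290598) (nat_lit 76) (nat_lit 3408995894) (nat_lit 23) (nat_lit 5) (nat_lit 26) (nat_lit 5) (nat_lit 24) (nat_lit 4) (nat_lit 286) (nat_lit 253) (nat_lit 241))) (XT.nd (nat_lit 78) (nat_lit 228) (nat_lit 0) (XT.lf (nat_lit 0) (nat_lit 2756055547) (nat_lit 76) (nat_lit 4528161718) (nat_lit 152) (nat_lit 6623298777) (nat_lit 22) (nat_lit 5) (nat_lit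 23) (nat_lit 5) (nat_lit 24) (nat_lit 4) (nat_lit 287) (nat_lit 253) (nat_lit 240)) (XT.nd (nat_lit 78) (nat_lit 228) (nat_lit 0) (XT.lf (nat_lit 0) (nat_lit 13215418534) (nat_lit 152) (nat_lit 337521359) (nat_lit 0) (nat_lit 1119127550) (nat_lit 22) (nat_lit 5) (nat_lit 24) (nat_lit 4) (nat_lit 22) (nat_lit 4) (nat_lit 288) (nat_lit 253) (nat_lit 239)) (XT.lf (nat_lit 0) (nat_lit 4032450318) (nat_lit 228) (nat_lit 4292303709) (nat_lit 76) (nat_lit 7167968067) (nat_lit 19) (nat_lit 5) (nat_lit 22) (nat_lit 5) (nat_lit 20) (nat_lit 4) (nat_lit 289) (nat_lit 253) (nat_lit 238))))) (XT.nd (nat_lit 234) (nat_lit 228) (nat_lit 0) (XT.nd (nat_lit 78) (nat_lit 228) (nat_lit 0) (XT.lf (nat_lit 0) (nat_lit 7150320984) (nat_lit 76) (nat_lit 2672811604) (nat_lit 152) (nat_lit 6559224832) (nat_lit 18) (nat_lit 5) (nat_lit 19) (nat_lit 5) (nat_lit 20) (nat_lit 4) (nat_lit 290) (nat_lit 253) (nat_lit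 237)) (XT.nd (nat_lit 78) (nat_lit 76) (nat_lit 0) (XT.lf (nat_lit 0) (nat_lit 1989900967) (nat_lit 152) (nat_lit 14050798669) (nat_lit 152) (nat_lit 1304464585) (nat_lit 16) (nat_lit 4) (nat_lit 18) (nat_lit 5) (nat_lit 18) (nat_lit 4) (nat_lit 291) (nat_lit 253) (nat_lit 236)) (XT.lf (nat_lit 0) (nat_lit 4248564090) (nat_lit 228) (nat_lit 4386469024) (nat_lit 76) (nat_lit 9745822328) (nat_lit 15) (nat_lit 5) (nat_lit 18) (nat_lit 5) (nat_lit 16) (nat_lit 4) (nat_lit 292) (nat_lit 253) (nat_lit 235)))) (XT.nd (nat_lit 78) (nat_lit 152) (nat_lit 0) (XT.lf (nat_lit 0) (nat_lit 7365388799) (nat_lit 76) (nat_lit 2773734359) (nat_lit 152) (nat_lit 9362408795) (nat_lit 14) (nat_lit 5) (nat_lit 15) (nat_lit 5) (nat_lit 16) (nat_lit 4) (nat_lit 293) (nat_lit 253) (nat_lit 234)) (XT.nd (nat_lit 78) (nat_lit 152) (nat_lit 0) (XT.lf (nat_lit 0) (nat_lit 16464002979) (nat_lit 152) (nat_lit 852143039)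 (nat_lit 0) (nat_lit 3397700479) (nat_lit 14) (nat_lit 5) (nat_lit 16) (nat_lit 4) (nat_lit 14) (nat_lit 4) (nat_lit 294) (nat_lit 253) (nat_lit 233)) (XT.lf (nat_lit 0) (nat_lit 1298815266) (nat_lit 152) (nat_lit 10668108583) (nat_lit 76) (nat_lit 10051961461) (nat_lit 12) (nat_lit 5) (nat_lit 14) (nat_lit 5) (nat_lit 13) (nat_lit 4) (nat_lit 295) (nat_lit 253) (nat_lit 232))))))) (XT.nd (nat_lit 780) (nat_lit 228) (nat_lit 0) (XT.nd (nat_lit 390) (nat_lit 152) (nat_lit 0) (XT.nd (nat_lit 156) (nat_lit 152) (nat_lit 0) (XT.nd (nat_lit 78) (nat_lit 0) (nat_lit 0) (XT.lf (nat_lit 0) (nat_lit 814887893) (nat_lit 76) (nat_lit 6204800713) (nat_lit 152) (nat_lit 16411406809) (nat_lit 11) (nat_lit 5) (nat_lit 12) (nat_lit 5) (nat_lit 13) (nat_lit 4) (nat_lit 296) (nat_lit 253) (nat_lit 231)) (XT.lf (nat_lit 0) (nat_lit 13240256322) (nat_lit 152) (nat_lit 11618662806) (nat_lit 0) (nat_lit 95366091)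 (nat_lit 11) (nat_lit 5) (nat_lit 13) (nat_lit 4) (nat_lit 11) (nat_lit 4) (nat_lit 297) (nat_lit 253) (nat_lit 230))) (XT.nd (nat_lit 78) (nat_lit 152) (nat_lit 0) (XT.lf (nat_lit 0) (nat_lit 19926853845) (nat_lit 152) (nat_lit 92067352) (nat_lit 0) (nat_lit 6582086196) (nat_lit 11) (nat_lit 5) (nat_lit 13) (nat_lit 4) (nat_lit 11) (nat_lit 4) (nat_lit 298) (nat_lit 253) (nat_lit 229)) (XT.nd (nat_lit 78) (nat_lit 76) (nat_lit 0) (XT.lf (nat_lit 0) (nat_lit 12529790465) (nat_lit 76) (nat_lit 14688065807) (nat_lit 76) (nat_lit 1158226476) (nat_lit 10) (nat_lit 4) (nat_lit 11) (nat_lit 5) (nat_lit 11) (nat_lit 4) (nat_lit 299) (nat_lit 253) (nat_lit 228)) (XT.lf (nat_lit 0) (nat_lit 4524749809) (nat_lit 152) (nat_lit 4425464891) (nat_lit 76) (nat_lit 21345313266) (nat_lit 9) (nat_lit 5) (nat_lit 11) (nat_lit 5) (nat_lit 10) (nat_lit 4) (nat_lit 300) (nat_lit 253) (nat_lit 227))))) (XT.nd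 (nat_lit 156) (nat_lit 76) (nat_lit 0) (XT.nd (nat_lit 78) (nat_lit 0) (nat_lit 0) (XT.lf (nat_lit 0) (nat_lit 7937900324) (nat_lit 76) (nat_lit 2695158925) (nat_lit 152) (nat_lit 21734029386) (nat_lit 8) (nat_lit 5) (nat_lit 9) (nat_lit 5) (nat_lit 10) (nat_lit 4) (nat_lit 301) (nat_lit 253) (nat_lit 226)) (XT.lf (nat_lit 0) (nat_lit 17262503866) (nat_lit 152) (nat_lit 13417607543) (nat_lit 0) (nat_lit 3922706716) (nat_lit 8) (nat_lit 5) (nat_lit 10) (nat_lit 4) (nat_lit 8) (nat_lit 4) (nat_lit 302) (nat_lit 253) (nat_lit 225))) (XT.nd (nat_lit 78) (nat_lit 76) (nat_lit 0) (XT.lf (nat_lit 0) (nat_lit 24366569023) (nat_lit 152) (nat_lit 1756469755) (nat_lit 0) (nat_lit 10897216433) (nat_lit 8) (nat_lit 5) (nat_lit 10) (nat_lit 4) (nat_lit 8) (nat_lit 4) (nat_lit 303) (nat_lit 253) (nat_lit 224)) (XT.nd (nat_lit 78) (nat_lit 0) (nat_lit 0) (XT.lf (nat_lit 0) (nat_lit 11018053600) (nat_lit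 76) (nat_lit 21099242996) (nat_lit 76) (nat_lit 7509931666) (nat_lit 7) (nat_lit 4) (nat_lit 8) (nat_lit 5) (nat_lit 8) (nat_lit 4) (nat_lit 304) (nat_lit 253) (nat_lit 223)) (XT.lf (nat_lit 0) (nat_lit 24712591328) (nat_lit 76) (nat_lit 15716770826) (nat_lit 76) (nat_lit 2016386588) (nat_lit 7) (nat_lit 4) (nat_lit 8) (nat_lit 5) (nat_lit 8) (nat_lit 4) (nat_lit 305) (nat_lit 253) (nat_lit 222)))))) (XT.nd (nat_lit 390) (nat_lit 76) (nat_lit 0) (XT.nd (nat_lit 156) (nat_lit 0) (nat_lit 0) (XT.nd (nat_lit 78) (nat_lit 76) (nat_lit 0) (XT.lf (nat_lit 0) (nat_lit 3707180588) (nat_lit 152) (nat_lit 6203509315) (nat_lit 76) (nat_lit 35580255934) (nat_lit 6) (nat_lit 5) (nat_lit 8) (nat_lit 5) (nat_lit 7) (nat_lit 4) (nat_lit 306) (nat_lit 253) (nat_lit 221)) (XT.lf (nat_lit 0) (nat_lit 6271438870) (nat_lit 76) (nat_lit 3567534548) (nat_lit 152) (nat_lit 38938127019) (nat_lit 5) (nat_lit 5)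 (nat_lit 6) (nat_lit 5) (nat_lit 7) (nat_lit 4) (nat_lit 307) (nat_lit 253) (nat_lit 220))) (XT.nd (nat_lit 78) (nat_lit 0) (nat_lit 0) (XT.lf (nat_lit 0) (nat_lit 16547158515) (nat_lit 152) (nat_lit 32548178334) (nat_lit 0) (nat_lit 3226558615) (nat_lit 5) (nat_lit 5) (nat_lit 7) (nat_lit 4) (nat_lit 5) (nat_lit 4) (nat_lit 308) (nat_lit 253) (nat_lit 219)) (XT.nd (nat_lit 78) (nat_lit 0) (nat_lit 0) (XT.lf (nat_lit 0) (nat_lit 23782485273) (nat_lit 152) (nat_lit 21984170801) (nat_lit 0) (nat_lit 10384131180) (nat_lit 5) (nat_lit 5) (nat_lit 7) (nat_lit 4) (nat_lit 5) (nat_lit 4) (nat_lit 309) (nat_lit 253) (nat_lit 218)) (XT.lf (nat_lit 0) (nat_lit 31532130490) (nat_lit 152) (nat_lit 10695338231) (nat_lit 0) (nat_lit 18061781774) (nat_lit 5) (nat_lit 5) (nat_lit 7) (nat_lit 4) (nat_lit 5) (nat_lit 4) (nat_lit 310) (nat_lit 253) (nat_lit 217))))) (XT.nd (nat_lit 234) (nat_lit 0) (nat_lit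 0) (XT.nd (nat_lit 78) (nat_lit 0) (nat_lit 0) (XT.lf (nat_lit 0) (nat_lit 1431017665) (nat_lit 76) (nat_lit 38433342522) (nat_lit 76) (nat_lit 24896332117) (nat_lit 4) (nat_lit 4) (nat_lit 5) (nat_lit 5) (nat_lit 5) (nat_lit 4) (nat_lit 311) (nat_lit 253) (nat_lit 216)) (XT.nd (nat_lit 78) (nat_lit 0) (nat_lit 0) (XT.lf (nat_lit 0) (nat_lit 14802864976) (nat_lit 76) (nat_lit 34189640784) (nat_lit 76) (nat_lit 20590906593) (nat_lit 4) (nat_lit 4) (nat_lit 5) (nat_lit 5) (nat_lit 5) (nat_lit 4) (nat_lit 312) (nat_lit 253) (nat_lit 215)) (XT.lf (nat_lit 0) (nat_lit 29145808095) (nat_lit 76) (nat_lit 29652346373) (nat_lit 76) (nat_lit 15996460529) (nat_lit 4) (nat_lit 4) (nat_lit 5) (nat_lit 5) (nat_lit 5) (nat_lit 4) (nat_lit 313) (nat_lit 253) (nat_lit 214)))) (XT.nd (nat_lit 78) (nat_lit 0) (nat_lit 0) (XT.lf (nat_lit 0) (nat_lit 44544842241) (nat_lit 76) (nat_lit 24794571620) (nat_lit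 76) (nat_lit 11085767578) (nat_lit 4) (nat_lit 4) (nat_lit 5) (nat_lit 5) (nat_lit 5) (nat_lit 4) (nat_lit 314) (nat_lit 253) (nat_lit 213)) (XT.nd (nat_lit 78) (nat_lit 0) (nat_lit 0) (XT.lf (nat_lit 0) (nat_lit 61091220948) (nat_lit 76) (nat_lit 19587529709) (nat_lit 76) (nat_lit 5829727336) (nat_lit 4) (nat_lit 4) (nat_lit 5) (nat_lit 5) (nat_lit 5) (nat_lit 4) (nat_lit 315) (nat_lit 253) (nat_lit 212)) (XT.lf (nat_lit 0) (nat_lit 78882996832) (nat_lit 76) (nat_lit 14000364097) (nat_lit 76) (nat_lit 197192899) (nat_lit 4) (nat_lit 4) (nat_lit 5) (nat_lit 5) (nat_lit 5) (nat_lit 4) (nat_lit 316) (nat_lit 253) (nat_lit 211))))))))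
noncomputable def xc35 : XT := (XT.nd (nat_lit 1638) (nat_lit 0) (nat_lit 0) (XT.nd (nat_lit 780) (nat_lit 76) (nat_lit 0) (XT.nd (nat_lit 390) (nat_lit 0) (nat_lit 0) (XT.nd (nat_lit 156) (nat_lit 0) (nat_lit 0) (XT.nd (nat_lit 78) (nat_lit 76) (nat_lit 0) (XT.lf (nat_lit 0) (nat_lit 5658130371) (nat_lit 152) (nat_lit 2246012107) (nat_lit 76) (nat_lit 92271649092) (nat_lit 3) (nat_lit 5) (nat_lit 5) (nat_lit 5) (nat_lit 4) (nat_lit 4) (nat_lit 317) (nat_lit 253) (nat_lit 210)) (XT.lf (nat_lit 0) (nat_lit 10940117613) (nat_lit 76) (nat_lit 1169245038) (nat_lit 152) (nat_lit 95722422322) (nat_lit 2) (nat_lit 5) (nat_lit 3) (nat_lit 5) (nat_lit 4) (nat_lit 4) (nat_lit 318) (nat_lit 253) (nat_lit 209))) (XT.nd (nat_lit 78) (nat_lit 0) (nat_lit 0) (XT.lf (nat_lit 0) (nat_lit 19176465906) (nat_lit 152) (nat_lit 90999583542) (nat_lit 0) (nat_lit 5919236325) (nat_lit 2) (nat_lit 5) (nat_lit 4)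 (nat_lit 4) (nat_lit 2) (nat_lit 4) (nat_lit 319) (nat_lit 253) (nat_lit 208)) (XT.nd (nat_lit 78) (nat_lit 0) (nat_lit 0) (XT.lf (nat_lit 0) (nat_lit 26795967332) (nat_lit 152) (nat_lit 84717584845) (nat_lit 0) (nat_lit 13506978283) (nat_lit 2) (nat_lit 5) (nat_lit 4) (nat_lit 4) (nat_lit 2) (nat_lit 4) (nat_lit 320) (nat_lit 253) (nat_lit 207)) (XT.lf (nat_lit 0) (nat_lit 34994764338) (nat_lit 152) (nat_lit 77990189418) (nat_lit 0) (nat_lit 21676368375) (nat_lit 2) (nat_lit 5) (nat_lit 4) (nat_lit 4) (nat_lit 2) (nat_lit 4) (nat_lit 321) (nat_lit 253) (nat_lit 206))))) (XT.nd (nat_lit 156) (nat_lit 0) (nat_lit 0) (XT.nd (nat_lit 78) (nat_lit 0) (nat_lit 0) (XT.lf (nat_lit 0) (nat_lit 43821442389) (nat_lit 152) (nat_lit 70777531214) (nat_lit 0) (nat_lit 30475817801) (nat_lit 2) (nat_lit 5) (nat_lit 4) (nat_lit 4) (nat_lit 2) (nat_lit 4) (nat_lit 322) (nat_lit 253) (nat_lit 205)) (XT.lf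 (nat_lit 0) (nat_lit 53328307724) (nat_lit 152) (nat_lit 63036868556) (nat_lit 0) (nat_lit 39957471448) (nat_lit 2) (nat_lit 5) (nat_lit 4) (nat_lit 4) (nat_lit 2) (nat_lit 4) (nat_lit 323) (nat_lit 253) (nat_lit 204))) (XT.nd (nat_lit 78) (nat_lit 0) (nat_lit 0) (XT.lf (nat_lit 0) (nat_lit 63571697324) (nat_lit 152) (nat_lit 54722330850) (nat_lit 0) (nat_lit 50177516891) (nat_lit 2) (nat_lit 5) (nat_lit 4) (nat_lit 4) (nat_lit 2) (nat_lit 4) (nat_lit 324) (nat_lit 253) (nat_lit 203)) (XT.nd (nat_lit 78) (nat_lit 0) (nat_lit 0) (XT.lf (nat_lit 0) (nat_lit 74612312757) (nat_lit 152) (nat_lit 45784646761) (nat_lit 0) (nat_lit 61196517363) (nat_lit 2) (nat_lit 5) (nat_lit 4) (nat_lit 4) (nat_lit 2) (nat_lit 4) (nat_lit 325) (nat_lit 253) (nat_lit 202)) (XT.lf (nat_lit 0) (nat_lit 86515579891) (nat_lit 152) (nat_lit 36170852235) (nat_lit 0) (nat_lit 73079770646) (nat_lit 2) (nat_lit 5) (nat_lit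 4) (nat_lit 4) (nat_lit 2) (nat_lit 4) (nat_lit 326) (nat_lit 253) (nat_lit 201)))))) (XT.nd (nat_lit 390) (nat_lit 0) (nat_lit 0) (XT.nd (nat_lit 156) (nat_lit 76) (nat_lit 0) (XT.nd (nat_lit 78) (nat_lit 0) (nat_lit 0) (XT.lf (nat_lit 0) (nat_lit 99352036606) (nat_lit 152) (nat_lit 25823976639) (nat_lit 0) (nat_lit 85897696017) (nat_lit 2) (nat_lit 5) (nat_lit 4) (nat_lit 4) (nat_lit 2) (nat_lit 4) (nat_lit 327) (nat_lit 253) (nat_lit 200)) (XT.lf (nat_lit 0) (nat_lit 113197750794) (nat_lit 152) (nat_lit 14682705153) (nat_lit 0) (nat_lit 99726251553) (nat_lit 2) (nat_lit 5) (nat_lit 4) (nat_lit 4) (nat_lit 2) (nat_lit 4) (nat_lit 328) (nat_lit 253) (nat_lit 199))) (XT.nd (nat_lit 78) (nat_lit 76) (nat_lit 0) (XT.lf (nat_lit 0) (nat_lit 128134771132) (nat_lit 152) (nat_lit 2681015428) (nat_lit 0) (nat_lit 114647384250) (nat_lit 2) (nat_lit 5) (nat_lit 4) (nat_lit 4) (nat_lit 2) (nat_lit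 4) (nat_lit 329) (nat_lit 253) (nat_lit 198)) (XT.nd (nat_lit 78) (nat_lit 0) (nat_lit 0) (XT.lf (nat_lit 0) (nat_lit 10591198143) (nat_lit 76) (nat_lit 133825773436) (nat_lit 76) (nat_lit 120323675776) (nat_lit 1) (nat_lit 4) (nat_lit 2) (nat_lit 5) (nat_lit 2) (nat_lit 4) (nat_lit 330) (nat_lit 253) (nat_lit 197)) (XT.lf (nat_lit 0) (nat_lit 24993573920) (nat_lit 76) (nat_lit 137040430308) (nat_lit 76) (nat_lit 123524711556) (nat_lit 1) (nat_lit 4) (nat_lit 2) (nat_lit 5) (nat_lit 2) (nat_lit 4) (nat_lit 331) (nat_lit 253) (nat_lit 196))))) (XT.nd (nat_lit 234) (nat_lit 0) (nat_lit 0) (XT.nd (nat_lit 78) (nat_lit 0) (nat_lit 0) (XT.lf (nat_lit 0) (nat_lit 40522812839) (nat_lit 76) (nat_lit 140524211288) (nat_lit 76) (nat_lit 126995880414) (nat_lit 1) (nat_lit 4) (nat_lit 2) (nat_lit 5) (nat_lit 2) (nat_lit 4) (nat_lit 332) (nat_lit 253) (nat_lit 195)) (XT.nd (nat_lit 78) (nat_lit 0)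 (nat_lit 0) (XT.lf (nat_lit 0) (nat_lit 57270940017) (nat_lit 76) (nat_lit 144297761003) (nat_lit 76) (nat_lit 130757752240) (nat_lit 1) (nat_lit 4) (nat_lit 2) (nat_lit 5) (nat_lit 2) (nat_lit 4) (nat_lit 333) (nat_lit 253) (nat_lit 194)) (XT.lf (nat_lit 0) (nat_lit 75337203616) (nat_lit 76) (nat_lit 148383441231) (nat_lit 76) (nat_lit 134832619606) (nat_lit 1) (nat_lit 4) (nat_lit 2) (nat_lit 5) (nat_lit 2) (nat_lit 4) (nat_lit 334) (nat_lit 253) (nat_lit 193)))) (XT.nd (nat_lit 78) (nat_lit 0) (nat_lit 0) (XT.lf (nat_lit 0) (nat_lit 94828662976) (nat_lit 76) (nat_lit 152805463408) (nat_lit 76) (nat_lit 139244629875) (nat_lit 1) (nat_lit 4) (nat_lit 2) (nat_lit 5) (nat_lit 2) (nat_lit 4) (nat_lit 335) (nat_lit 253) (nat_lit 192)) (XT.nd (nat_lit 78) (nat_lit 0) (nat_lit 0) (XT.lf (nat_lit 0) (nat_lit 115860823040) (nat_lit 76) (nat_lit 157590032112) (nat_lit 76) (nat_lit 144019928293)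 (nat_lit 1) (nat_lit 4) (nat_lit 2) (nat_lit 5) (nat_lit 2) (nat_lit 4) (nat_lit 336) (nat_lit 253) (nat_lit 191)) (XT.lf (nat_lit 0) (nat_lit 138558318833) (nat_lit 76) (nat_lit 162765500342) (nat_lit 76) (nat_lit 149186812924) (nat_lit 1) (nat_lit 4) (nat_lit 2) (nat_lit 5) (nat_lit 2) (nat_lit 4) (nat_lit 337) (nat_lit 253) (nat_lit 190))))))) (XT.nd (nat_lit 858) (nat_lit 0) (nat_lit 0) (XT.nd (nat_lit 390) (nat_lit 0) (nat_lit 0) (XT.nd (nat_lit 156) (nat_lit 0) (nat_lit 0) (XT.nd (nat_lit 78) (nat_lit 0) (nat_lit 0) (XT.lf (nat_lit 0) (nat_lit 163055654032) (nat_lit 76) (nat_lit 168362537539) (nat_lit 76) (nat_lit 154775902345) (nat_lit 1) (nat_lit 4) (nat_lit 2) (nat_lit 5) (nat_lit 2) (nat_lit 4) (nat_lit 338) (nat_lit 253) (nat_lit 189)) (XT.lf (nat_lit 0) (nat_lit 189497998032) (nat_lit 76) (nat_lit 174414311331) (nat_lit 76) (nat_lit 160820317086) (nat_lit 1) (nat_lit 4) (nat_lit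 2) (nat_lit 5) (nat_lit 2) (nat_lit 4) (nat_lit 339) (nat_lit 253) (nat_lit 188))) (XT.nd (nat_lit 78) (nat_lit 0) (nat_lit 0) (XT.lf (nat_lit 0) (nat_lit 218042046203) (nat_lit 76) (nat_lit 180956684081) (nat_lit 76) (nat_lit 167355875899) (nat_lit 1) (nat_lit 4) (nat_lit 2) (nat_lit 5) (nat_lit 2) (nat_lit 4) (nat_lit 340) (nat_lit 253) (nat_lit 187)) (XT.nd (nat_lit 78) (nat_lit 0) (nat_lit 0) (XT.lf (nat_lit 0) (nat_lit 248856948462) (nat_lit 76) (nat_lit 188028425406) (nat_lit 76) (nat_lit 174421308024) (nat_lit 1) (nat_lit 4) (nat_lit 2) (nat_lit 5) (nat_lit 2) (nat_lit 4) (nat_lit 341) (nat_lit 253) (nat_lit 186)) (XT.lf (nat_lit 0) (nat_lit 282125311636) (nat_lit 76) (nat_lit 195671441921) (nat_lit 76) (nat_lit 182058482686) (nat_lit 1) (nat_lit 4) (nat_lit 2) (nat_lit 5) (nat_lit 2) (nat_lit 4) (nat_lit 342) (nat_lit 253) (nat_lit 185))))) (XT.nd (nat_lit 234) (nat_lit 0) (nat_lit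 0) (XT.nd (nat_lit 78) (nat_lit 0) (nat_lit 0) (XT.lf (nat_lit 0) (nat_lit 318044281582) (nat_lit 76) (nat_lit 203931025575) (nat_lit 76) (nat_lit 190312657218) (nat_lit 1) (nat_lit 4) (nat_lit 2) (nat_lit 5) (nat_lit 2) (nat_lit 4) (nat_lit 343) (nat_lit 253) (nat_lit 184)) (XT.nd (nat_lit 78) (nat_lit 0) (nat_lit 0) (XT.lf (nat_lit 0) (nat_lit 356826711454) (nat_lit 76) (nat_lit 212856122050) (nat_lit 76) (nat_lit 199232745245) (nat_lit 1) (nat_lit 4) (nat_lit 2) (nat_lit 5) (nat_lit 2) (nat_lit 4) (nat_lit 344) (nat_lit 253) (nat_lit 183)) (XT.lf (nat_lit 0) (nat_lit 398702423059) (nat_lit 76) (nat_lit 222499620806) (nat_lit 76) (nat_lit 208871606551) (nat_lit 1) (nat_lit 4) (nat_lit 2) (nat_lit 5) (nat_lit 2) (nat_lit 4) (nat_lit 345) (nat_lit 253) (nat_lit 182)))) (XT.nd (nat_lit 78) (nat_lit 0) (nat_lit 0) (XT.lf (nat_lit 0) (nat_lit 443919568762) (nat_lit 76) (nat_lit 232918668503)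 (nat_lit 76) (nat_lit 219286360311) (nat_lit 1) (nat_lit 4) (nat_lit 2) (nat_lit 5) (nat_lit 2) (nat_lit 4) (nat_lit 346) (nat_lit 253) (nat_lit 181)) (XT.nd (nat_lit 78) (nat_lit 0) (nat_lit 0) (XT.lf (nat_lit 0) (nat_lit 492746102020) (nat_lit 76) (nat_lit 244175007644) (nat_lit 76) (nat_lit 230538723586) (nat_lit 1) (nat_lit 4) (nat_lit 2) (nat_lit 5) (nat_lit 2) (nat_lit 4) (nat_lit 347) (nat_lit 253) (nat_lit 180)) (XT.lf (nat_lit 0) (nat_lit 545471365251) (nat_lit 76) (nat_lit 256335342463) (nat_lit 76) (nat_lit 242695377047) (nat_lit 1) (nat_lit 4) (nat_lit 2) (nat_lit 5) (nat_lit 2) (nat_lit 4) (nat_lit 348) (nat_lit 253) (nat_lit 179)))))) (XT.nd (nat_lit 34944) (nat_lit 0) (nat_lit 2736) (XT.nd (nat_lit 34710) (nat_lit 0) (nat_lit 4332) (XT.nd (nat_lit 34632) (nat_lit 0) (nat_lit 5320) (XT.lf (nat_lit 0) (nat_lit 602407804460) (nat_lit 76) (nat_lit 269471734202) (nat_lit 76)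 (nat_lit 255828360121) (nat_lit 1) (nat_lit 4) (nat_lit 2) (nat_lit 5) (nat_lit 2) (nat_lit 4) (nat_lit 349) (nat_lit 253) (nat_lit 178)) (XT.lf (nat_lit 0) (nat_lit 901985870) (nat_lit 380) (nat_lit 1445097345) (nat_lit 380) (nat_lit 1445097345) (nat_lit 71) (nat_lit 4) (nat_lit 76) (nat_lit 5) (nat_lit 76) (nat_lit 4) (nat_lit 272) (nat_lit 254) (nat_lit 254))) (XT.nd (nat_lit 78) (nat_lit 608) (nat_lit 0) (XT.lf (nat_lit 0) (nat_lit 2325044841) (nat_lit 380) (nat_lit 5210290165) (nat_lit 0) (nat_lit 260487965) (nat_lit 66) (nat_lit 5) (nat_lit 71) (nat_lit 4) (nat_lit 66) (nat_lit 4) (nat_lit 273) (nat_lit 254) (nat_lit 253)) (XT.nd (nat_lit 78) (nat_lit 304) (nat_lit 0) (XT.lf (nat_lit 0) (nat_lit 3361239678) (nat_lit 304) (nat_lit 4323145844) (nat_lit 304) (nat_lit 346962230) (nat_lit 62) (nat_lit 4) (nat_lit 66) (nat_lit 5) (nat_lit 66) (nat_lit 4) (nat_lit 274) (nat_lit 254) (nat_lit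 252)) (XT.lf (nat_lit 0) (nat_lit 4124711880) (nat_lit 228) (nat_lit 690371169) (nat_lit 304) (nat_lit 3477678899) (nat_lit 58) (nat_lit 5) (nat_lit 61) (nat_lit 5) (nat_lit 62) (nat_lit 4) (nat_lit 275) (nat_lit 254) (nat_lit 251))))) (XT.nd (nat_lit 234) (nat_lit 684) (nat_lit 0) (XT.nd (nat_lit 78) (nat_lit 532) (nat_lit 0) (XT.lf (nat_lit 0) (nat_lit 1608358524) (nat_lit 380) (nat_lit 3736312819) (nat_lit 76) (nat_lit 3236295992) (nat_lit 53) (nat_lit 5) (nat_lit 58) (nat_lit 5) (nat_lit 54) (nat_lit 4) (nat_lit 276) (nat_lit 254) (nat_lit 250)) (XT.nd (nat_lit 78) (nat_lit 304) (nat_lit 0) (XT.lf (nat_lit 0) (nat_lit 5505876890) (nat_lit 228) (nat_lit 1315866131) (nat_lit 304) (nat_lit 2076184200) (nat_lit 50) (nat_lit 5) (nat_lit 53) (nat_lit 5) (nat_lit 54) (nat_lit 4) (nat_lit 277) (nat_lit 254) (nat_lit 249)) (XT.lf (nat_lit 0) (nat_lit 3001155025) (nat_lit 304) (nat_lit 3197050646)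 (nat_lit 76) (nat_lit 3045516116) (nat_lit 46) (nat_lit 5) (nat_lit 50) (nat_lit 5) (nat_lit 47) (nat_lit 4) (nat_lit 278) (nat_lit 254) (nat_lit 248)))) (XT.nd (nat_lit 78) (nat_lit 456) (nat_lit 0) (XT.lf (nat_lit 0) (nat_lit 6471538803) (nat_lit 228) (nat_lit 1821642506) (nat_lit 304) (nat_lit 1328776917) (nat_lit 43) (nat_lit 5) (nat_lit 46) (nat_lit 5) (nat_lit 47) (nat_lit 4) (nat_lit 279) (nat_lit 254) (nat_lit 247)) (XT.nd (nat_lit 78) (nat_lit 152) (nat_lit 0) (XT.lf (nat_lit 0) (nat_lit 3767546013) (nat_lit 304) (nat_lit 3345230800) (nat_lit 76) (nat_lit 2919211579) (nat_lit 39) (nat_lit 5) (nat_lit 43) (nat_lit 5) (nat_lit 40) (nat_lit 4) (nat_lit 280) (nat_lit 254) (nat_lit 246)) (XT.lf (nat_lit 0) (nat_lit 6701014605) (nat_lit 152) (nat_lit 2437157528) (nat_lit 228) (nat_lit 1340344717) (nat_lit 37) (nat_lit 5) (nat_lit 39) (nat_lit 5) (nat_lit 40) (nat_lit 4) (nat_lit 281)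 (nat_lit 254) (nat_lit 245))))))))
noncomputable def xc36 : XT := (XT.nd (nat_lit 1638) (nat_lit 456) (nat_lit 0) (XT.nd (nat_lit 780) (nat_lit 760) (nat_lit 0) (XT.nd (nat_lit 390) (nat_lit 380) (nat_lit 0) (XT.nd (nat_lit 156) (nat_lit 608) (nat_lit 0) (XT.nd (nat_lit 78) (nat_lit 152) (nat_lit 0) (XT.lf (nat_lit 0) (nat_lit 3783895780) (nat_lit 304) (nat_lit 4551969092) (nat_lit 76) (nat_lit 2625511594) (nat_lit 33) (nat_lit 5) (nat_lit 37) (nat_lit 5) (nat_lit 34) (nat_lit 4) (nat_lit 282) (nat_lit 254) (nat_lit 244)) (XT.lf (nat_lit 0) (nat_lit 5791376072) (nat_lit 152) (nat_lit 3421830312) (nat_lit 228) (nat_lit 2271816715) (nat_lit 31) (nat_lit 5) (nat_lit 33) (nat_lit 5) (nat_lit 34) (nat_lit 4) (nat_lit 283) (nat_lit 254) (nat_lit 243))) (XT.nd (nat_lit 78) (nat_lit 380) (nat_lit 0) (XT.lf (nat_lit 0) (nat_lit 2867366785) (nat_lit 228) (nat_lit 7287766125) (nat_lit 76) (nat_lit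 1896488442) (nat_lit 28) (nat_lit 5) (nat_lit 31) (nat_lit 5) (nat_lit 29) (nat_lit 4) (nat_lit 284) (nat_lit 254) (nat_lit 242)) (XT.nd (nat_lit 78) (nat_lit 228) (nat_lit 0) (XT.lf (nat_lit 0) (nat_lit 3228111712) (nat_lit 152) (nat_lit 5082310043) (nat_lit 228) (nat_lit 4352942137) (nat_lit 26) (nat_lit 5) (nat_lit 28) (nat_lit 5) (nat_lit 29) (nat_lit 4) (nat_lit 285) (nat_lit 254) (nat_lit 241)) (XT.lf (nat_lit 0) (nat_lit 761552340) (nat_lit 228) (nat_lit 12156011678) (nat_lit 76) (nat_lit 409848949) (nat_lit 23) (nat_lit 5) (nat_lit 26) (nat_lit 5) (nat_lit 24) (nat_lit 4) (nat_lit 286) (nat_lit 254) (nat_lit 240))))) (XT.nd (nat_lit 156) (nat_lit 304) (nat_lit 0) (XT.nd (nat_lit 78) (nat_lit 76) (nat_lit 0) (XT.lf (nat_lit 0) (nat_lit 6167129419) (nat_lit 228) (nat_lit 1599094351) (nat_lit 76) (nat_lit 6273313703) (nat_lit 23) (nat_lit 5) (nat_lit 26) (nat_lit 5) (nat_lit 24) (nat_lit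 4) (nat_lit 287) (nat_lit 254) (nat_lit 239)) (XT.lf (nat_lit 0) (nat_lit 9777872796) (nat_lit 76) (nat_lit 2175905316) (nat_lit 152) (nat_lit 2857645645) (nat_lit 22) (nat_lit 5) (nat_lit 23) (nat_lit 5) (nat_lit 24) (nat_lit 4) (nat_lit 288) (nat_lit 254) (nat_lit 238))) (XT.nd (nat_lit 78) (nat_lit 76) (nat_lit 0) (XT.lf (nat_lit 0) (nat_lit 2466873914) (nat_lit 228) (nat_lit 9397251327) (nat_lit 76) (nat_lit 3779612438) (nat_lit 19) (nat_lit 5) (nat_lit 22) (nat_lit 5) (nat_lit 20) (nat_lit 4) (nat_lit 289) (nat_lit 254) (nat_lit 237)) (XT.nd (nat_lit 78) (nat_lit 0) (nat_lit 0) (XT.lf (nat_lit 0) (nat_lit 1716274213) (nat_lit 76) (nat_lit 6365270678) (nat_lit 152) (nat_lit 8460716254) (nat_lit 18) (nat_lit 5) (nat_lit 19) (nat_lit 5) (nat_lit 20) (nat_lit 4) (nat_lit 290) (nat_lit 254) (nat_lit 236)) (XT.lf (nat_lit 0) (nat_lit 13745716108) (nat_lit 76) (nat_lit 382959411) (nat_lit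 152) (nat_lit 3384995335) (nat_lit 18) (nat_lit 5) (nat_lit 19) (nat_lit 5) (nat_lit 20) (nat_lit 4) (nat_lit 291) (nat_lit 254) (nat_lit 235)))))) (XT.nd (nat_lit 390) (nat_lit 304) (nat_lit 0) (XT.nd (nat_lit 156) (nat_lit 152) (nat_lit 0) (XT.nd (nat_lit 78) (nat_lit 76) (nat_lit 0) (XT.lf (nat_lit 0) (nat_lit 2081963359) (nat_lit 228) (nat_lit 10549162147) (nat_lit 76) (nat_lit 5927565219) (nat_lit 15) (nat_lit 5) (nat_lit 18) (nat_lit 5) (nat_lit 16) (nat_lit 4) (nat_lit 292) (nat_lit 254) (nat_lit 234)) (XT.lf (nat_lit 0) (nat_lit 857203496) (nat_lit 76) (nat_lit 6935086493) (nat_lit 152) (nat_lit 11896155076) (nat_lit 14) (nat_lit 5) (nat_lit 15) (nat_lit 5) (nat_lit 16) (nat_lit 4) (nat_lit 293) (nat_lit 254) (nat_lit 233))) (XT.nd (nat_lit 78) (nat_lit 152) (nat_lit 0) (XT.lf (nat_lit 0) (nat_lit 13279832345) (nat_lit 76) (nat_lit 707689400) (nat_lit 152) (nat_lit 6919781574)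 (nat_lit 14) (nat_lit 5) (nat_lit 15) (nat_lit 5) (nat_lit 16) (nat_lit 4) (nat_lit 294) (nat_lit 254) (nat_lit 232)) (XT.nd (nat_lit 78) (nat_lit 76) (nat_lit 0) (XT.lf (nat_lit 0) (nat_lit 4256515424) (nat_lit 76) (nat_lit 16436424990) (nat_lit 76) (nat_lit 1530119468) (nat_lit 13) (nat_lit 4) (nat_lit 14) (nat_lit 5) (nat_lit 14) (nat_lit 4) (nat_lit 295) (nat_lit 254) (nat_lit 231)) (XT.lf (nat_lit 0) (nat_lit 4159080467) (nat_lit 152) (nat_lit 6606851555) (nat_lit 76) (nat_lit 12874614832) (nat_lit 12) (nat_lit 5) (nat_lit 14) (nat_lit 5) (nat_lit 13) (nat_lit 4) (nat_lit 296) (nat_lit 254) (nat_lit 230))))) (XT.nd (nat_lit 234) (nat_lit 152) (nat_lit 0) (XT.nd (nat_lit 78) (nat_lit 76) (nat_lit 0) (XT.lf (nat_lit 0) (nat_lit 5581197519) (nat_lit 76) (nat_lit 4625648978) (nat_lit 152) (nat_lit 14965576594) (nat_lit 11) (nat_lit 5) (nat_lit 12) (nat_lit 5) (nat_lit 13) (nat_lit 4)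 (nat_lit 297) (nat_lit 254) (nat_lit 229)) (XT.nd (nat_lit 78) (nat_lit 76) (nat_lit 0) (XT.lf (nat_lit 0) (nat_lit 16760576580) (nat_lit 152) (nat_lit 8101976552) (nat_lit 0) (nat_lit 1963278419) (nat_lit 11) (nat_lit 5) (nat_lit 13) (nat_lit 4) (nat_lit 11) (nat_lit 4) (nat_lit 298) (nat_lit 254) (nat_lit 228)) (XT.lf (nat_lit 0) (nat_lit 4150233309) (nat_lit 76) (nat_lit 19714361682) (nat_lit 76) (nat_lit 4745700853) (nat_lit 10) (nat_lit 4) (nat_lit 11) (nat_lit 5) (nat_lit 11) (nat_lit 4) (nat_lit 299) (nat_lit 254) (nat_lit 227)))) (XT.nd (nat_lit 78) (nat_lit 76) (nat_lit 0) (XT.lf (nat_lit 0) (nat_lit 997673123) (nat_lit 152) (nat_lit 13082100064) (nat_lit 76) (nat_lit 16455524636) (nat_lit 9) (nat_lit 5) (nat_lit 11) (nat_lit 5) (nat_lit 10) (nat_lit 4) (nat_lit 300) (nat_lit 254) (nat_lit 226)) (XT.nd (nat_lit 78) (nat_lit 76) (nat_lit 0) (XT.lf (nat_lit 0) (nat_lit 6931657200)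 (nat_lit 152) (nat_lit 1064348574) (nat_lit 76) (nat_lit 24619601432) (nat_lit 9) (nat_lit 5) (nat_lit 11) (nat_lit 5) (nat_lit 10) (nat_lit 4) (nat_lit 301) (nat_lit 254) (nat_lit 225)) (XT.lf (nat_lit 0) (nat_lit 12126629814) (nat_lit 76) (nat_lit 1306008655) (nat_lit 152) (nat_lit 21425151436) (nat_lit 8) (nat_lit 5) (nat_lit 9) (nat_lit 5) (nat_lit 10) (nat_lit 4) (nat_lit 302) (nat_lit 254) (nat_lit 224))))))) (XT.nd (nat_lit 780) (nat_lit 152) (nat_lit 0) (XT.nd (nat_lit 390) (nat_lit 152) (nat_lit 0) (XT.nd (nat_lit 156) (nat_lit 76) (nat_lit 0) (XT.nd (nat_lit 78) (nat_lit 76) (nat_lit 0) (XT.lf (nat_lit 0) (nat_lit 20471272070) (nat_lit 152) (nat_lit 11132397222) (nat_lit 0) (nat_lit 5674857093) (nat_lit 8) (nat_lit 5) (nat_lit 10) (nat_lit 4) (nat_lit 8) (nat_lit 4) (nat_lit 303) (nat_lit 254) (nat_lit 223)) (XT.lf (nat_lit 0) (nat_lit 1252947134) (nat_lit 76) (nat_lit 26774887107)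 (nat_lit 76) (nat_lit 11867399222) (nat_lit 7) (nat_lit 4) (nat_lit 8) (nat_lit 5) (nat_lit 8) (nat_lit 4) (nat_lit 304) (nat_lit 254) (nat_lit 222))) (XT.nd (nat_lit 78) (nat_lit 76) (nat_lit 0) (XT.lf (nat_lit 0) (nat_lit 14874180702) (nat_lit 76) (nat_lit 21425959129) (nat_lit 76) (nat_lit 6415625958) (nat_lit 7) (nat_lit 4) (nat_lit 8) (nat_lit 5) (nat_lit 8) (nat_lit 4) (nat_lit 305) (nat_lit 254) (nat_lit 221)) (XT.nd (nat_lit 78) (nat_lit 76) (nat_lit 0) (XT.lf (nat_lit 0) (nat_lit 29443934572) (nat_lit 76) (nat_lit 15713720541) (nat_lit 76) (nat_lit 608160255) (nat_lit 7) (nat_lit 4) (nat_lit 8) (nat_lit 5) (nat_lit 8) (nat_lit 4) (nat_lit 306) (nat_lit 254) (nat_lit 220)) (XT.lf (nat_lit 0) (nat_lit 5410516393) (nat_lit 152) (nat_lit 4102174935) (nat_lit 76) (nat_lit 39546401922) (nat_lit 6) (nat_lit 5) (nat_lit 8) (nat_lit 5) (nat_lit 7) (nat_lit 4) (nat_lit 307) (nat_lit 254)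 (nat_lit 219))))) (XT.nd (nat_lit 156) (nat_lit 76) (nat_lit 0) (XT.nd (nat_lit 78) (nat_lit 0) (nat_lit 0) (XT.lf (nat_lit 0) (nat_lit 9257879918) (nat_lit 76) (nat_lit 2709561721) (nat_lit 152) (nat_lit 40644027660) (nat_lit 5) (nat_lit 5) (nat_lit 6) (nat_lit 5) (nat_lit 7) (nat_lit 4) (nat_lit 308) (nat_lit 254) (nat_lit 218)) (XT.lf (nat_lit 0) (nat_lit 19129451238) (nat_lit 152) (nat_lit 32805112403) (nat_lit 0) (nat_lit 4509480000) (nat_lit 5) (nat_lit 5) (nat_lit 7) (nat_lit 4) (nat_lit 5) (nat_lit 4) (nat_lit 309) (nat_lit 254) (nat_lit 217))) (XT.nd (nat_lit 78) (nat_lit 76) (nat_lit 0) (XT.lf (nat_lit 0) (nat_lit 26850380429) (nat_lit 152) (nat_lit 21569830208) (nat_lit 0) (nat_lit 12163747503) (nat_lit 5) (nat_lit 5) (nat_lit 7) (nat_lit 4) (nat_lit 5) (nat_lit 4) (nat_lit 310) (nat_lit 254) (nat_lit 216)) (XT.nd (nat_lit 78) (nat_lit 76) (nat_lit 0) (XT.lf (nat_lit 0) (nat_lit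 35133679017) (nat_lit 152) (nat_lit 9538859495) (nat_lit 0) (nat_lit 20385322306) (nat_lit 5) (nat_lit 5) (nat_lit 7) (nat_lit 4) (nat_lit 5) (nat_lit 4) (nat_lit 311) (nat_lit 254) (nat_lit 215)) (XT.lf (nat_lit 0) (nat_lit 3470161206) (nat_lit 76) (nat_lit 40612450950) (nat_lit 76) (nat_lit 25806942585) (nat_lit 4) (nat_lit 4) (nat_lit 5) (nat_lit 5) (nat_lit 5) (nat_lit 4) (nat_lit 312) (nat_lit 254) (nat_lit 214)))))) (XT.nd (nat_lit 390) (nat_lit 76) (nat_lit 0) (XT.nd (nat_lit 156) (nat_lit 76) (nat_lit 0) (XT.nd (nat_lit 78) (nat_lit 0) (nat_lit 0) (XT.lf (nat_lit 0) (nat_lit 17769188737) (nat_lit 76) (nat_lit 36095590775) (nat_lit 76) (nat_lit 21237164212) (nat_lit 4) (nat_lit 4) (nat_lit 5) (nat_lit 5) (nat_lit 5) (nat_lit 4) (nat_lit 313) (nat_lit 254) (nat_lit 213)) (XT.lf (nat_lit 0) (nat_lit 33127560301) (nat_lit 76) (nat_lit 31256736609) (nat_lit 76) (nat_lit 16349311716)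 (nat_lit 4) (nat_lit 4) (nat_lit 5) (nat_lit 5) (nat_lit 5) (nat_lit 4) (nat_lit 314) (nat_lit 254) (nat_lit 212))) (XT.nd (nat_lit 78) (nat_lit 76) (nat_lit 0) (XT.lf (nat_lit 0) (nat_lit 49636288470) (nat_lit 76) (nat_lit 26067213762) (nat_lit 76) (nat_lit 11114420043) (nat_lit 4) (nat_lit 4) (nat_lit 5) (nat_lit 5) (nat_lit 5) (nat_lit 4) (nat_lit 315) (nat_lit 254) (nat_lit 211)) (XT.nd (nat_lit 78) (nat_lit 76) (nat_lit 0) (XT.lf (nat_lit 0) (nat_lit 67393202745) (nat_lit 76) (nat_lit 20496269505) (nat_lit 76) (nat_lit 5501467615) (nat_lit 4) (nat_lit 4) (nat_lit 5) (nat_lit 5) (nat_lit 5) (nat_lit 4) (nat_lit 316) (nat_lit 254) (nat_lit 210)) (XT.lf (nat_lit 0) (nat_lit 506074403) (nat_lit 152) (nat_lit 13996245817) (nat_lit 76) (nat_lit 85988884265) (nat_lit 3) (nat_lit 5) (nat_lit 5) (nat_lit 5) (nat_lit 4) (nat_lit 4) (nat_lit 317) (nat_lit 254) (nat_lit 209))))) (XT.nd (nat_lit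 234) (nat_lit 0) (nat_lit 0) (XT.nd (nat_lit 78) (nat_lit 76) (nat_lit 0) (XT.lf (nat_lit 0) (nat_lit 6770249707) (nat_lit 152) (nat_lit 1190701680) (nat_lit 76) (nat_lit 100195607303) (nat_lit 3) (nat_lit 5) (nat_lit 5) (nat_lit 5) (nat_lit 4) (nat_lit 4) (nat_lit 318) (nat_lit 254) (nat_lit 208)) (XT.nd (nat_lit 78) (nat_lit 0) (nat_lit 0) (XT.lf (nat_lit 0) (nat_lit 12996647197) (nat_lit 76) (nat_lit 710527543) (nat_lit 152) (nat_lit 102719401025) (nat_lit 2) (nat_lit 5) (nat_lit 3) (nat_lit 5) (nat_lit 4) (nat_lit 4) (nat_lit 319) (nat_lit 254) (nat_lit 207)) (XT.lf (nat_lit 0) (nat_lit 21301032584) (nat_lit 152) (nat_lit 97164318837) (nat_lit 0) (nat_lit 6887758029) (nat_lit 2) (nat_lit 5) (nat_lit 4) (nat_lit 4) (nat_lit 2) (nat_lit 4) (nat_lit 320) (nat_lit 254) (nat_lit 206)))) (XT.nd (nat_lit 78) (nat_lit 0) (nat_lit 0) (XT.lf (nat_lit 0) (nat_lit 29486357130) (nat_lit 152) (nat_lit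 90462369976) (nat_lit 0) (nat_lit 15045853952) (nat_lit 2) (nat_lit 5) (nat_lit 4) (nat_lit 4) (nat_lit 2) (nat_lit 4) (nat_lit 321) (nat_lit 254) (nat_lit 205)) (XT.nd (nat_lit 78) (nat_lit 0) (nat_lit 0) (XT.lf (nat_lit 0) (nat_lit 38300560681) (nat_lit 152) (nat_lit 83273273408) (nat_lit 0) (nat_lit 23834845813) (nat_lit 2) (nat_lit 5) (nat_lit 4) (nat_lit 4) (nat_lit 2) (nat_lit 4) (nat_lit 322) (nat_lit 254) (nat_lit 204)) (XT.lf (nat_lit 0) (nat_lit 47795875554) (nat_lit 152) (nat_lit 75554427079) (nat_lit 0) (nat_lit 33306816529) (nat_lit 2) (nat_lit 5) (nat_lit 4) (nat_lit 4) (nat_lit 2) (nat_lit 4) (nat_lit 323) (nat_lit 254) (nat_lit 203))))))))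
noncomputable def xc37 : XT := (XT.nd (nat_lit 1638) (nat_lit 0) (nat_lit 0) (XT.nd (nat_lit 780) (nat_lit 0) (nat_lit 0) (XT.nd (nat_lit 390) (nat_lit 76) (nat_lit 0) (XT.nd (nat_lit 156) (nat_lit 0) (nat_lit 0) (XT.nd (nat_lit 78) (nat_lit 0) (nat_lit 0) (XT.lf (nat_lit 0) (nat_lit 58028570281) (nat_lit 152) (nat_lit 67260089678) (nat_lit 0) (nat_lit 43517896297) (nat_lit 2) (nat_lit 5) (nat_lit 4) (nat_lit 4) (nat_lit 2) (nat_lit 4) (nat_lit 324) (nat_lit 254) (nat_lit 202)) (XT.lf (nat_lit 0) (nat_lit 69059283054) (nat_lit 152) (nat_lit 58341109575) (nat_lit 0) (nat_lit 54528595217) (nat_lit 2) (nat_lit 5) (nat_lit 4) (nat_lit 4) (nat_lit 2) (nat_lit 4) (nat_lit 325) (nat_lit 254) (nat_lit 201))) (XT.nd (nat_lit 78) (nat_lit 0) (nat_lit 0) (XT.lf (nat_lit 0) (nat_lit 80953381058) (nat_lit 152) (nat_lit 48744633554) (nat_lit 0) (nat_lit 66404161878) (nat_lit 2) (nat_lit 5) (nat_lit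 4) (nat_lit 4) (nat_lit 2) (nat_lit 4) (nat_lit 326) (nat_lit 254) (nat_lit 200)) (XT.nd (nat_lit 78) (nat_lit 0) (nat_lit 0) (XT.lf (nat_lit 0) (nat_lit 93781347839) (nat_lit 152) (nat_lit 38413793611) (nat_lit 0) (nat_lit 79214970006) (nat_lit 2) (nat_lit 5) (nat_lit 4) (nat_lit 4) (nat_lit 2) (nat_lit 4) (nat_lit 327) (nat_lit 254) (nat_lit 199)) (XT.lf (nat_lit 0) (nat_lit 107619200976) (nat_lit 152) (nat_lit 27287369952) (nat_lit 0) (nat_lit 93036935503) (nat_lit 2) (nat_lit 5) (nat_lit 4) (nat_lit 4) (nat_lit 2) (nat_lit 4) (nat_lit 328) (nat_lit 254) (nat_lit 198))))) (XT.nd (nat_lit 156) (nat_lit 76) (nat_lit 0) (XT.nd (nat_lit 78) (nat_lit 0) (nat_lit 0) (XT.lf (nat_lit 0) (nat_lit 122548942563) (nat_lit 152) (nat_lit 15299428215) (nat_lit 0) (nat_lit 107951966311) (nat_lit 2) (nat_lit 5) (nat_lit 4) (nat_lit 4) (nat_lit 2) (nat_lit 4) (nat_lit 329) (nat_lit 254) (nat_lit 197))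 (XT.lf (nat_lit 0) (nat_lit 138659045142) (nat_lit 152) (nat_lit 2378928746) (nat_lit 0) (nat_lit 124048447799) (nat_lit 2) (nat_lit 5) (nat_lit 4) (nat_lit 4) (nat_lit 2) (nat_lit 4) (nat_lit 330) (nat_lit 254) (nat_lit 196))) (XT.nd (nat_lit 78) (nat_lit 0) (nat_lit 0) (XT.lf (nat_lit 0) (nat_lit 11932612499) (nat_lit 76) (nat_lit 144298665010) (nat_lit 76) (nat_lit 129675455546) (nat_lit 1) (nat_lit 4) (nat_lit 2) (nat_lit 5) (nat_lit 2) (nat_lit 4) (nat_lit 331) (nat_lit 254) (nat_lit 195)) (XT.nd (nat_lit 78) (nat_lit 0) (nat_lit 0) (XT.lf (nat_lit 0) (nat_lit 27450576968) (nat_lit 76) (nat_lit 147787766306) (nat_lit 76) (nat_lit 133152878951) (nat_lit 1) (nat_lit 4) (nat_lit 2) (nat_lit 5) (nat_lit 2) (nat_lit 4) (nat_lit 332) (nat_lit 254) (nat_lit 194)) (XT.lf (nat_lit 0) (nat_lit 44188264842) (nat_lit 76) (nat_lit 151566242240) (nat_lit 76) (nat_lit 136920542024) (nat_lit 1) (nat_lit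 4) (nat_lit 2) (nat_lit 5) (nat_lit 2) (nat_lit 4) (nat_lit 333) (nat_lit 254) (nat_lit 193)))))) (XT.nd (nat_lit 390) (nat_lit 0) (nat_lit 0) (XT.nd (nat_lit 156) (nat_lit 0) (nat_lit 0) (XT.nd (nat_lit 78) (nat_lit 0) (nat_lit 0) (XT.lf (nat_lit 0) (nat_lit 62244862418) (nat_lit 76) (nat_lit 155656483781) (nat_lit 76) (nat_lit 141000771656) (nat_lit 1) (nat_lit 4) (nat_lit 2) (nat_lit 5) (nat_lit 2) (nat_lit 4) (nat_lit 334) (nat_lit 254) (nat_lit 192)) (XT.lf (nat_lit 0) (nat_lit 81727371757) (nat_lit 76) (nat_lit 160082729397) (nat_lit 76) (nat_lit 145417746986) (nat_lit 1) (nat_lit 4) (nat_lit 2) (nat_lit 5) (nat_lit 2) (nat_lit 4) (nat_lit 335) (nat_lit 254) (nat_lit 191))) (XT.nd (nat_lit 78) (nat_lit 0) (nat_lit 0) (XT.lf (nat_lit 0) (nat_lit 102751244765) (nat_lit 76) (nat_lit 164871208692) (nat_lit 76) (nat_lit 150197642683) (nat_lit 1) (nat_lit 4) (nat_lit 2) (nat_lit 5) (nat_lit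 2) (nat_lit 4) (nat_lit 336) (nat_lit 254) (nat_lit 190)) (XT.nd (nat_lit 78) (nat_lit 0) (nat_lit 0) (XT.lf (nat_lit 0) (nat_lit 125441067357) (nat_lit 76) (nat_lit 170050297839) (nat_lit 76) (nat_lit 155368784055) (nat_lit 1) (nat_lit 4) (nat_lit 2) (nat_lit 5) (nat_lit 2) (nat_lit 4) (nat_lit 337) (nat_lit 254) (nat_lit 189)) (XT.lf (nat_lit 0) (nat_lit 149931297741) (nat_lit 76) (nat_lit 175650687738) (nat_lit 76) (nat_lit 160961814902) (nat_lit 1) (nat_lit 4) (nat_lit 2) (nat_lit 5) (nat_lit 2) (nat_lit 4) (nat_lit 338) (nat_lit 254) (nat_lit 188))))) (XT.nd (nat_lit 234) (nat_lit 0) (nat_lit 0) (XT.nd (nat_lit 78) (nat_lit 0) (nat_lit 0) (XT.lf (nat_lit 0) (nat_lit 176367063208) (nat_lit 76) (nat_lit 181705565883) (nat_lit 76) (nat_lit 167009879110) (nat_lit 1) (nat_lit 4) (nat_lit 2) (nat_lit 5) (nat_lit 2) (nat_lit 4) (nat_lit 339) (nat_lit 254) (nat_lit 187)) (XT.nd (nat_lit 78)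 (nat_lit 0) (nat_lit 0) (XT.lf (nat_lit 0) (nat_lit 204905020146) (nat_lit 76) (nat_lit 188250813035) (nat_lit 76) (nat_lit 173548817061) (nat_lit 1) (nat_lit 4) (nat_lit 2) (nat_lit 5) (nat_lit 2) (nat_lit 4) (nat_lit 340) (nat_lit 254) (nat_lit 186)) (XT.lf (nat_lit 0) (nat_lit 235714282373) (nat_lit 76) (nat_lit 195325215843) (nat_lit 76) (nat_lit 180617378016) (nat_lit 1) (nat_lit 4) (nat_lit 2) (nat_lit 5) (nat_lit 2) (nat_lit 4) (nat_lit 341) (nat_lit 254) (nat_lit 185)))) (XT.nd (nat_lit 78) (nat_lit 0) (nat_lit 0) (XT.lf (nat_lit 0) (nat_lit 268977423296) (nat_lit 76) (nat_lit 202970696693) (nat_lit 76) (nat_lit 188257449744) (nat_lit 1) (nat_lit 4) (nat_lit 2) (nat_lit 5) (nat_lit 2) (nat_lit 4) (nat_lit 342) (nat_lit 254) (nat_lit 184)) (XT.nd (nat_lit 78) (nat_lit 0) (nat_lit 0) (XT.lf (nat_lit 0) (nat_lit 304891557824) (nat_lit 76) (nat_lit 211232562140) (nat_lit 76) (nat_lit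 196514306744) (nat_lit 1) (nat_lit 4) (nat_lit 2) (nat_lit 5) (nat_lit 2) (nat_lit 4) (nat_lit 343) (nat_lit 254) (nat_lit 183)) (XT.lf (nat_lit 0) (nat_lit 343669510457) (nat_lit 76) (nat_lit 220159771386) (nat_lit 76) (nat_lit 205436878539) (nat_lit 1) (nat_lit 4) (nat_lit 2) (nat_lit 5) (nat_lit 2) (nat_lit 4) (nat_lit 344) (nat_lit 254) (nat_lit 182))))))) (XT.nd (nat_lit 35178) (nat_lit 0) (nat_lit 2052) (XT.nd (nat_lit 34788) (nat_lit 0) (nat_lit 4560) (XT.nd (nat_lit 156) (nat_lit 0) (nat_lit 0) (XT.nd (nat_lit 78) (nat_lit 0) (nat_lit 0) (XT.lf (nat_lit 0) (nat_lit 385541076471) (nat_lit 76) (nat_lit 229805226411) (nat_lit 76) (nat_lit 215078039628) (nat_lit 1) (nat_lit 4) (nat_lit 2) (nat_lit 5) (nat_lit 2) (nat_lit 4) (nat_lit 345) (nat_lit 254) (nat_lit 181)) (XT.lf (nat_lit 0) (nat_lit 430754383664) (nat_lit 76) (nat_lit 240226085468) (nat_lit 76) (nat_lit 225494922818) (nat_lit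 1) (nat_lit 4) (nat_lit 2) (nat_lit 5) (nat_lit 2) (nat_lit 4) (nat_lit 346) (nat_lit 254) (nat_lit 180))) (XT.nd (nat_lit 78) (nat_lit 0) (nat_lit 0) (XT.lf (nat_lit 0) (nat_lit 479577362745) (nat_lit 76) (nat_lit 251484101795) (nat_lit 76) (nat_lit 236749257787) (nat_lit 1) (nat_lit 4) (nat_lit 2) (nat_lit 5) (nat_lit 2) (nat_lit 4) (nat_lit 347) (nat_lit 254) (nat_lit 179)) (XT.nd (nat_lit 78) (nat_lit 0) (nat_lit 0) (XT.lf (nat_lit 0) (nat_lit 532299335072) (nat_lit 76) (nat_lit 263645989563) (nat_lit 76) (nat_lit 248907736890) (nat_lit 1) (nat_lit 4) (nat_lit 2) (nat_lit 5) (nat_lit 2) (nat_lit 4) (nat_lit 348) (nat_lit 254) (nat_lit 178)) (XT.lf (nat_lit 0) (nat_lit 589232727147) (nat_lit 76) (nat_lit 276783819219) (nat_lit 76) (nat_lit 262042410375) (nat_lit 1) (nat_lit 4) (nat_lit 2) (nat_lit 5) (nat_lit 2) (nat_lit 4) (nat_lit 349) (nat_lit 254) (nat_lit 177))))) (XT.nd (nat_lit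 156) (nat_lit 1140) (nat_lit 0) (XT.nd (nat_lit 78) (nat_lit 532) (nat_lit 0) (XT.lf (nat_lit 0) (nat_lit 302421688) (nat_lit 684) (nat_lit 1654987843) (nat_lit 684) (nat_lit 1654987843) (nat_lit 83) (nat_lit 4) (nat_lit 92) (nat_lit 5) (nat_lit 92) (nat_lit 4) (nat_lit 270) (nat_lit 255) (nat_lit 255)) (XT.lf (nat_lit 0) (nat_lit 1084123267) (nat_lit 456) (nat_lit 643872410) (nat_lit 532) (nat_lit 5670286241) (nat_lit 76) (nat_lit 5) (nat_lit 82) (nat_lit 5) (nat_lit 83) (nat_lit 4) (nat_lit 271) (nat_lit 255) (nat_lit 254))) (XT.nd (nat_lit 78) (nat_lit 760) (nat_lit 0) (XT.lf (nat_lit 0) (nat_lit 1591429081) (nat_lit 380) (nat_lit 5255914233) (nat_lit 380) (nat_lit 746922014) (nat_lit 71) (nat_lit 4) (nat_lit 76) (nat_lit 5) (nat_lit 76) (nat_lit 4) (nat_lit 272) (nat_lit 255) (nat_lit 253)) (XT.nd (nat_lit 78) (nat_lit 380) (nat_lit 0) (XT.lf (nat_lit 0) (nat_lit 2115749838) (nat_lit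 304) (nat_lit 2094957542) (nat_lit 380) (nat_lit 3603240548) (nat_lit 66) (nat_lit 5) (nat_lit 70) (nat_lit 5) (nat_lit 71) (nat_lit 4) (nat_lit 273) (nat_lit 255) (nat_lit 252)) (XT.lf (nat_lit 0) (nat_lit 1257011715) (nat_lit 380) (nat_lit 5399055782) (nat_lit 76) (nat_lit 1403353873) (nat_lit 61) (nat_lit 5) (nat_lit 66) (nat_lit 5) (nat_lit 62) (nat_lit 4) (nat_lit 274) (nat_lit 255) (nat_lit 251)))))) (XT.nd (nat_lit 390) (nat_lit 1140) (nat_lit 0) (XT.nd (nat_lit 156) (nat_lit 760) (nat_lit 0) (XT.nd (nat_lit 78) (nat_lit 380) (nat_lit 0) (XT.lf (nat_lit 0) (nat_lit 3159944814) (nat_lit 228) (nat_lit 3071658319) (nat_lit 304) (nat_lit 2098140965) (nat_lit 58) (nat_lit 5) (nat_lit 61) (nat_lit 5) (nat_lit 62) (nat_lit 4) (nat_lit 275) (nat_lit 255) (nat_lit 250)) (XT.lf (nat_lit 0) (nat_lit 2731141005) (nat_lit 380) (nat_lit 5003401460) (nat_lit 76) (nat_lit 893279350) (nat_lit 53)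 (nat_lit 5) (nat_lit 58) (nat_lit 5) (nat_lit 54) (nat_lit 4) (nat_lit 276) (nat_lit 255) (nat_lit 249))) (XT.nd (nat_lit 78) (nat_lit 532) (nat_lit 0) (XT.lf (nat_lit 0) (nat_lit 3995701308) (nat_lit 228) (nat_lit 3778023031) (nat_lit 304) (nat_lit 1179892952) (nat_lit 50) (nat_lit 5) (nat_lit 53) (nat_lit 5) (nat_lit 54) (nat_lit 4) (nat_lit 277) (nat_lit 255) (nat_lit 248)) (XT.nd (nat_lit 78) (nat_lit 228) (nat_lit 0) (XT.lf (nat_lit 0) (nat_lit 3658967543) (nat_lit 304) (nat_lit 5051022480) (nat_lit 76) (nat_lit 599472350) (nat_lit 46) (nat_lit 5) (nat_lit 50) (nat_lit 5) (nat_lit 47) (nat_lit 4) (nat_lit 278) (nat_lit 255) (nat_lit 247)) (XT.lf (nat_lit 0) (nat_lit 4360902011) (nat_lit 228) (nat_lit 4422249309) (nat_lit 304) (nat_lit 913180921) (nat_lit 43) (nat_lit 5) (nat_lit 46) (nat_lit 5) (nat_lit 47) (nat_lit 4) (nat_lit 279) (nat_lit 255) (nat_lit 246))))) (XT.nd (nat_lit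 234) (nat_lit 380) (nat_lit 0) (XT.nd (nat_lit 78) (nat_lit 456) (nat_lit 0) (XT.lf (nat_lit 0) (nat_lit 3959481719) (nat_lit 304) (nat_lit 5841417947) (nat_lit 76) (nat_lit 315869030) (nat_lit 39) (nat_lit 5) (nat_lit 43) (nat_lit 5) (nat_lit 40) (nat_lit 4) (nat_lit 280) (nat_lit 255) (nat_lit 245)) (XT.nd (nat_lit 78) (nat_lit 304) (nat_lit 0) (XT.lf (nat_lit 0) (nat_lit 3933388952) (nat_lit 152) (nat_lit 5229493667) (nat_lit 228) (nat_lit 1408972824) (nat_lit 37) (nat_lit 5) (nat_lit 39) (nat_lit 5) (nat_lit 40) (nat_lit 4) (nat_lit 281) (nat_lit 255) (nat_lit 244)) (XT.lf (nat_lit 0) (nat_lit 3314457246) (nat_lit 228) (nat_lit 191981751) (nat_lit 304) (nat_lit 7559054641) (nat_lit 33) (nat_lit 5) (nat_lit 36) (nat_lit 5) (nat_lit 37) (nat_lit 5) (nat_lit 282) (nat_lit 255) (nat_lit 243)))) (XT.nd (nat_lit 78) (nat_lit 228) (nat_lit 0) (XT.lf (nat_lit 0) (nat_lit 2307611707) (nat_lit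 152) (nat_lit 6456373893) (nat_lit 228) (nat_lit 2833903748) (nat_lit 31) (nat_lit 5) (nat_lit 33) (nat_lit 5) (nat_lit 34) (nat_lit 4) (nat_lit 283) (nat_lit 255) (nat_lit 242)) (XT.nd (nat_lit 78) (nat_lit 0) (nat_lit 0) (XT.lf (nat_lit 0) (nat_lit 911460429) (nat_lit 152) (nat_lit 1210115156) (nat_lit 228) (nat_lit 10053577392) (nat_lit 28) (nat_lit 5) (nat_lit 30) (nat_lit 5) (nat_lit 31) (nat_lit 5) (nat_lit 284) (nat_lit 255) (nat_lit 241)) (XT.lf (nat_lit 0) (nat_lit 7389551411) (nat_lit 228) (nat_lit 1001518363) (nat_lit 76) (nat_lit 4404711057) (nat_lit 28) (nat_lit 5) (nat_lit 31) (nat_lit 5) (nat_lit 29) (nat_lit 4) (nat_lit 285) (nat_lit 255) (nat_lit 240))))))))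
noncomputable def xc38 : XT := (XT.nd (nat_lit 1638) (nat_lit 380) (nat_lit 0) (XT.nd (nat_lit 780) (nat_lit 532) (nat_lit 0) (XT.nd (nat_lit 390) (nat_lit 380) (nat_lit 0) (XT.nd (nat_lit 156) (nat_lit 304) (nat_lit 0) (XT.nd (nat_lit 78) (nat_lit 228) (nat_lit 0) (XT.lf (nat_lit 0) (nat_lit 10057099639) (nat_lit 152) (nat_lit 2995553954) (nat_lit 228) (nat_lit 414973890) (nat_lit 26) (nat_lit 5) (nat_lit 28) (nat_lit 5) (nat_lit 29) (nat_lit 4) (nat_lit 286) (nat_lit 255) (nat_lit 239)) (XT.lf (nat_lit 0) (nat_lit 4803112127) (nat_lit 228) (nat_lit 6544844932) (nat_lit 76) (nat_lit 2842264770) (nat_lit 23) (nat_lit 5) (nat_lit 26) (nat_lit 5) (nat_lit 24) (nat_lit 4) (nat_lit 287) (nat_lit 255) (nat_lit 238))) (XT.nd (nat_lit 78) (nat_lit 228) (nat_lit 0) (XT.lf (nat_lit 0) (nat_lit 4513405332) (nat_lit 76) (nat_lit 5903335050) (nat_lit 152) (nat_lit 4554118063) (nat_lit 22) (nat_lit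 5) (nat_lit 23) (nat_lit 5) (nat_lit 24) (nat_lit 4) (nat_lit 288) (nat_lit 255) (nat_lit 237)) (XT.nd (nat_lit 78) (nat_lit 0) (nat_lit 0) (XT.lf (nat_lit 0) (nat_lit 583082635) (nat_lit 152) (nat_lit 3386804) (nat_lit 228) (nat_lit 15230026325) (nat_lit 19) (nat_lit 5) (nat_lit 21) (nat_lit 5) (nat_lit 22) (nat_lit 5) (nat_lit 289) (nat_lit 255) (nat_lit 236)) (XT.lf (nat_lit 0) (nat_lit 6089874473) (nat_lit 228) (nat_lit 4318447427) (nat_lit 76) (nat_lit 6312341716) (nat_lit 19) (nat_lit 5) (nat_lit 22) (nat_lit 5) (nat_lit 20) (nat_lit 4) (nat_lit 290) (nat_lit 255) (nat_lit 235))))) (XT.nd (nat_lit 156) (nat_lit 152) (nat_lit 0) (XT.nd (nat_lit 78) (nat_lit 152) (nat_lit 0) (XT.lf (nat_lit 0) (nat_lit 7430770081) (nat_lit 76) (nat_lit 4556272776) (nat_lit 152) (nat_lit 5712603662) (nat_lit 18) (nat_lit 5) (nat_lit 19) (nat_lit 5) (nat_lit 20) (nat_lit 4) (nat_lit 291) (nat_lit 255)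 (nat_lit 234)) (XT.lf (nat_lit 0) (nat_lit 1261703804) (nat_lit 152) (nat_lit 17061588833) (nat_lit 152) (nat_lit 435434620) (nat_lit 16) (nat_lit 4) (nat_lit 18) (nat_lit 5) (nat_lit 18) (nat_lit 4) (nat_lit 292) (nat_lit 255) (nat_lit 233))) (XT.nd (nat_lit 78) (nat_lit 76) (nat_lit 0) (XT.lf (nat_lit 0) (nat_lit 5202647672) (nat_lit 228) (nat_lit 6238322732) (nat_lit 76) (nat_lit 8452221464) (nat_lit 15) (nat_lit 5) (nat_lit 18) (nat_lit 5) (nat_lit 16) (nat_lit 4) (nat_lit 293) (nat_lit 255) (nat_lit 232)) (XT.nd (nat_lit 78) (nat_lit 0) (nat_lit 0) (XT.lf (nat_lit 0) (nat_lit 5856532037) (nat_lit 76) (nat_lit 5371427017) (nat_lit 152) (nat_lit 9892643849) (nat_lit 14) (nat_lit 5) (nat_lit 15) (nat_lit 5) (nat_lit 16) (nat_lit 4) (nat_lit 294) (nat_lit 255) (nat_lit 231)) (XT.lf (nat_lit 0) (nat_lit 17729184126) (nat_lit 152) (nat_lit 3558518280) (nat_lit 0) (nat_lit 1158919300) (nat_lit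 14) (nat_lit 5) (nat_lit 16) (nat_lit 4) (nat_lit 14) (nat_lit 4) (nat_lit 295) (nat_lit 255) (nat_lit 230)))))) (XT.nd (nat_lit 390) (nat_lit 228) (nat_lit 0) (XT.nd (nat_lit 156) (nat_lit 152) (nat_lit 0) (XT.nd (nat_lit 78) (nat_lit 0) (nat_lit 0) (XT.lf (nat_lit 0) (nat_lit 952547389) (nat_lit 152) (nat_lit 14827413966) (nat_lit 76) (nat_lit 8092743272) (nat_lit 12) (nat_lit 5) (nat_lit 14) (nat_lit 5) (nat_lit 13) (nat_lit 4) (nat_lit 296) (nat_lit 255) (nat_lit 229)) (XT.lf (nat_lit 0) (nat_lit 6854941317) (nat_lit 152) (nat_lit 2921831680) (nat_lit 76) (nat_lit 15635119387) (nat_lit 12) (nat_lit 5) (nat_lit 14) (nat_lit 5) (nat_lit 13) (nat_lit 4) (nat_lit 297) (nat_lit 255) (nat_lit 228))) (XT.nd (nat_lit 78) (nat_lit 76) (nat_lit 0) (XT.lf (nat_lit 0) (nat_lit 10058144789) (nat_lit 76) (nat_lit 3216263489) (nat_lit 152) (nat_lit 13797645458) (nat_lit 11) (nat_lit 5) (nat_lit 12)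 (nat_lit 5) (nat_lit 13) (nat_lit 4) (nat_lit 298) (nat_lit 255) (nat_lit 227)) (XT.nd (nat_lit 78) (nat_lit 76) (nat_lit 0) (XT.lf (nat_lit 0) (nat_lit 20211419065) (nat_lit 152) (nat_lit 4938252579) (nat_lit 0) (nat_lit 3715233561) (nat_lit 11) (nat_lit 5) (nat_lit 13) (nat_lit 4) (nat_lit 11) (nat_lit 4) (nat_lit 299) (nat_lit 255) (nat_lit 226)) (XT.lf (nat_lit 0) (nat_lit 8128474321) (nat_lit 76) (nat_lit 19655916351) (nat_lit 76) (nat_lit 3012814979) (nat_lit 10) (nat_lit 4) (nat_lit 11) (nat_lit 5) (nat_lit 11) (nat_lit 4) (nat_lit 300) (nat_lit 255) (nat_lit 225))))) (XT.nd (nat_lit 234) (nat_lit 76) (nat_lit 0) (XT.nd (nat_lit 78) (nat_lit 76) (nat_lit 0) (XT.lf (nat_lit 0) (nat_lit 2970938276) (nat_lit 152) (nat_lit 10688711118) (nat_lit 76) (nat_lit 19222580593) (nat_lit 9) (nat_lit 5) (nat_lit 11) (nat_lit 5) (nat_lit 10) (nat_lit 4) (nat_lit 301) (nat_lit 255) (nat_lit 224))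 (XT.nd (nat_lit 78) (nat_lit 0) (nat_lit 0) (XT.lf (nat_lit 0) (nat_lit 2102956609) (nat_lit 76) (nat_lit 7169261864) (nat_lit 152) (nat_lit 25862207082) (nat_lit 8) (nat_lit 5) (nat_lit 9) (nat_lit 5) (nat_lit 10) (nat_lit 4) (nat_lit 302) (nat_lit 255) (nat_lit 223)) (XT.lf (nat_lit 0) (nat_lit 16143482991) (nat_lit 76) (nat_lit 34663743) (nat_lit 152) (nat_lit 21383676324) (nat_lit 8) (nat_lit 5) (nat_lit 9) (nat_lit 5) (nat_lit 10) (nat_lit 4) (nat_lit 303) (nat_lit 255) (nat_lit 222)))) (XT.nd (nat_lit 78) (nat_lit 76) (nat_lit 0) (XT.lf (nat_lit 0) (nat_lit 23675990207) (nat_lit 152) (nat_lit 9143514614) (nat_lit 0) (nat_lit 7361985098) (nat_lit 8) (nat_lit 5) (nat_lit 10) (nat_lit 4) (nat_lit 8) (nat_lit 4) (nat_lit 304) (nat_lit 255) (nat_lit 221)) (XT.nd (nat_lit 78) (nat_lit 0) (nat_lit 0) (XT.lf (nat_lit 0) (nat_lit 4107518844) (nat_lit 76) (nat_lit 27656486124) (nat_lit 76)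 (nat_lit 11247253899) (nat_lit 7) (nat_lit 4) (nat_lit 8) (nat_lit 5) (nat_lit 8) (nat_lit 4) (nat_lit 305) (nat_lit 255) (nat_lit 220)) (XT.lf (nat_lit 0) (nat_lit 18614426212) (nat_lit 76) (nat_lit 21973006274) (nat_lit 76) (nat_lit 5475600794) (nat_lit 7) (nat_lit 4) (nat_lit 8) (nat_lit 5) (nat_lit 8) (nat_lit 4) (nat_lit 306) (nat_lit 255) (nat_lit 219))))))) (XT.nd (nat_lit 780) (nat_lit 152) (nat_lit 0) (XT.nd (nat_lit 390) (nat_lit 76) (nat_lit 0) (XT.nd (nat_lit 156) (nat_lit 76) (nat_lit 0) (XT.nd (nat_lit 78) (nat_lit 0) (nat_lit 0) (XT.lf (nat_lit 0) (nat_lit 666765856) (nat_lit 152) (nat_lit 15212177377) (nat_lit 76) (nat_lit 33482790603) (nat_lit 6) (nat_lit 5) (nat_lit 8) (nat_lit 5) (nat_lit 7) (nat_lit 4) (nat_lit 307) (nat_lit 255) (nat_lit 218)) (XT.lf (nat_lit 0) (nat_lit 7049428827) (nat_lit 152) (nat_lit 2203312642) (nat_lit 76) (nat_lit 43670098226) (nat_lit 6) (nat_lit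 5) (nat_lit 8) (nat_lit 5) (nat_lit 7) (nat_lit 4) (nat_lit 308) (nat_lit 255) (nat_lit 217))) (XT.nd (nat_lit 78) (nat_lit 0) (nat_lit 0) (XT.lf (nat_lit 0) (nat_lit 12128762316) (nat_lit 76) (nat_lit 1946066379) (nat_lit 152) (nat_lit 42687431285) (nat_lit 5) (nat_lit 5) (nat_lit 6) (nat_lit 5) (nat_lit 7) (nat_lit 4) (nat_lit 309) (nat_lit 255) (nat_lit 216)) (XT.nd (nat_lit 78) (nat_lit 0) (nat_lit 0) (XT.lf (nat_lit 0) (nat_lit 21738785425) (nat_lit 152) (nat_lit 33417415601) (nat_lit 0) (nat_lit 5748836390) (nat_lit 5) (nat_lit 5) (nat_lit 7) (nat_lit 4) (nat_lit 5) (nat_lit 4) (nat_lit 310) (nat_lit 255) (nat_lit 215)) (XT.lf (nat_lit 0) (nat_lit 29997464649) (nat_lit 152) (nat_lit 21432355704) (nat_lit 0) (nat_lit 13950363961) (nat_lit 5) (nat_lit 5) (nat_lit 7) (nat_lit 4) (nat_lit 5) (nat_lit 4) (nat_lit 311) (nat_lit 255) (nat_lit 214))))) (XT.nd (nat_lit 156) (nat_lit 0) (nat_lit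 0) (XT.nd (nat_lit 78) (nat_lit 76) (nat_lit 0) (XT.lf (nat_lit 0) (nat_lit 38869423140) (nat_lit 152) (nat_lit 8576911847) (nat_lit 0) (nat_lit 22769404254) (nat_lit 5) (nat_lit 5) (nat_lit 7) (nat_lit 4) (nat_lit 5) (nat_lit 4) (nat_lit 312) (nat_lit 255) (nat_lit 213)) (XT.lf (nat_lit 0) (nat_lit 5397861661) (nat_lit 76) (nat_lit 43093649553) (nat_lit 76) (nat_lit 26944632336) (nat_lit 4) (nat_lit 4) (nat_lit 5) (nat_lit 5) (nat_lit 5) (nat_lit 4) (nat_lit 313) (nat_lit 255) (nat_lit 212))) (XT.nd (nat_lit 78) (nat_lit 0) (nat_lit 0) (XT.lf (nat_lit 0) (nat_lit 20718582687) (nat_lit 76) (nat_lit 38272314450) (nat_lit 76) (nat_lit 22077928409) (nat_lit 4) (nat_lit 4) (nat_lit 5) (nat_lit 5) (nat_lit 5) (nat_lit 4) (nat_lit 314) (nat_lit 255) (nat_lit 211)) (XT.nd (nat_lit 78) (nat_lit 0) (nat_lit 0) (XT.lf (nat_lit 0) (nat_lit 37192449246) (nat_lit 76) (nat_lit 33099012958) (nat_lit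 76) (nat_lit 16862618745) (nat_lit 4) (nat_lit 4) (nat_lit 5) (nat_lit 5) (nat_lit 5) (nat_lit 4) (nat_lit 315) (nat_lit 255) (nat_lit 210)) (XT.lf (nat_lit 0) (nat_lit 54917084252) (nat_lit 76) (nat_lit 27543088474) (nat_lit 76) (nat_lit 11267797806) (nat_lit 4) (nat_lit 4) (nat_lit 5) (nat_lit 5) (nat_lit 5) (nat_lit 4) (nat_lit 316) (nat_lit 255) (nat_lit 209)))))) (XT.nd (nat_lit 390) (nat_lit 0) (nat_lit 0) (XT.nd (nat_lit 156) (nat_lit 76) (nat_lit 0) (XT.nd (nat_lit 78) (nat_lit 76) (nat_lit 0) (XT.lf (nat_lit 0) (nat_lit 73997522580) (nat_lit 76) (nat_lit 21571617001) (nat_lit 76) (nat_lit 5260311097) (nat_lit 4) (nat_lit 4) (nat_lit 5) (nat_lit 5) (nat_lit 5) (nat_lit 4) (nat_lit 317) (nat_lit 255) (nat_lit 208)) (XT.lf (nat_lit 0) (nat_lit 1157179713) (nat_lit 152) (nat_lit 13972434931) (nat_lit 76) (nat_lit 93370056380) (nat_lit 3) (nat_lit 5) (nat_lit 5) (nat_lit 5) (nat_lit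 4) (nat_lit 4) (nat_lit 318) (nat_lit 255) (nat_lit 207))) (XT.nd (nat_lit 78) (nat_lit 76) (nat_lit 0) (XT.lf (nat_lit 0) (nat_lit 7877257978) (nat_lit 152) (nat_lit 227151748) (nat_lit 76) (nat_lit 108676127530) (nat_lit 3) (nat_lit 5) (nat_lit 5) (nat_lit 5) (nat_lit 4) (nat_lit 4) (nat_lit 319) (nat_lit 255) (nat_lit 206)) (XT.nd (nat_lit 78) (nat_lit 0) (nat_lit 0) (XT.lf (nat_lit 0) (nat_lit 15049170618) (nat_lit 76) (nat_lit 293898298) (nat_lit 152) (nat_lit 110370410684) (nat_lit 2) (nat_lit 5) (nat_lit 3) (nat_lit 5) (nat_lit 4) (nat_lit 4) (nat_lit 320) (nat_lit 255) (nat_lit 205)) (XT.lf (nat_lit 0) (nat_lit 23511330387) (nat_lit 152) (nat_lit 103981333181) (nat_lit 0) (nat_lit 7863146640) (nat_lit 2) (nat_lit 5) (nat_lit 4) (nat_lit 4) (nat_lit 2) (nat_lit 4) (nat_lit 321) (nat_lit 255) (nat_lit 204))))) (XT.nd (nat_lit 234) (nat_lit 0) (nat_lit 0) (XT.nd (nat_lit 78) (nat_lit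 0) (nat_lit 0) (XT.lf (nat_lit 0) (nat_lit 32313983475) (nat_lit 152) (nat_lit 96814052942) (nat_lit 0) (nat_lit 16642455572) (nat_lit 2) (nat_lit 5) (nat_lit 4) (nat_lit 4) (nat_lit 2) (nat_lit 4) (nat_lit 322) (nat_lit 255) (nat_lit 203)) (XT.nd (nat_lit 78) (nat_lit 0) (nat_lit 0) (XT.lf (nat_lit 0) (nat_lit 41798603475) (nat_lit 152) (nat_lit 89115406918) (nat_lit 0) (nat_lit 26105460612) (nat_lit 2) (nat_lit 5) (nat_lit 4) (nat_lit 4) (nat_lit 2) (nat_lit 4) (nat_lit 323) (nat_lit 255) (nat_lit 202)) (XT.lf (nat_lit 0) (nat_lit 52021395542) (nat_lit 152) (nat_lit 80839773502) (nat_lit 0) (nat_lit 36308238827) (nat_lit 2) (nat_lit 5) (nat_lit 4) (nat_lit 4) (nat_lit 2) (nat_lit 4) (nat_lit 324) (nat_lit 255) (nat_lit 201)))) (XT.nd (nat_lit 78) (nat_lit 0) (nat_lit 0) (XT.lf (nat_lit 0) (nat_lit 63042939185) (nat_lit 152) (nat_lit 71938111904) (nat_lit 0) (nat_lit 47311251126) (nat_lit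 2) (nat_lit 5) (nat_lit 4) (nat_lit 4) (nat_lit 2) (nat_lit 4) (nat_lit 325) (nat_lit 255) (nat_lit 200)) (XT.nd (nat_lit 78) (nat_lit 0) (nat_lit 0) (XT.lf (nat_lit 0) (nat_lit 74928547255) (nat_lit 152) (nat_lit 62357671537) (nat_lit 0) (nat_lit 59179700544) (nat_lit 2) (nat_lit 5) (nat_lit 4) (nat_lit 4) (nat_lit 2) (nat_lit 4) (nat_lit 326) (nat_lit 255) (nat_lit 199)) (XT.lf (nat_lit 0) (nat_lit 87748652984) (nat_lit 152) (nat_lit 52041679420) (nat_lit 0) (nat_lit 71983918632) (nat_lit 2) (nat_lit 5) (nat_lit 4) (nat_lit 4) (nat_lit 2) (nat_lit 4) (nat_lit 327) (nat_lit 255) (nat_lit 198))))))))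
noncomputable def xc39 : XT := (XT.nd (nat_lit 1638) (nat_lit 0) (nat_lit 0) (XT.nd (nat_lit 780) (nat_lit 0) (nat_lit 0) (XT.nd (nat_lit 390) (nat_lit 0) (nat_lit 0) (XT.nd (nat_lit 156) (nat_lit 76) (nat_lit 0) (XT.nd (nat_lit 78) (nat_lit 0) (nat_lit 0) (XT.lf (nat_lit 0) (nat_lit 101579227371) (nat_lit 152) (nat_lit 40929003749) (nat_lit 0) (nat_lit 85799782240) (nat_lit 2) (nat_lit 5) (nat_lit 4) (nat_lit 4) (nat_lit 2) (nat_lit 4) (nat_lit 328) (nat_lit 255) (nat_lit 197)) (XT.lf (nat_lit 0) (nat_lit 116502229374) (nat_lit 152) (nat_lit 28953791631) (nat_lit 0) (nat_lit 100709163152) (nat_lit 2) (nat_lit 5) (nat_lit 4) (nat_lit 4) (nat_lit 2) (nat_lit 4) (nat_lit 329) (nat_lit 255) (nat_lit 196))) (XT.nd (nat_lit 78) (nat_lit 76) (nat_lit 0) (XT.lf (nat_lit 0) (nat_lit 132606091597) (nat_lit 152) (nat_lit 16045078846) (nat_lit 0) (nat_lit 116800413254) (nat_lit 2) (nat_lit 5) (nat_lit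 4) (nat_lit 4) (nat_lit 2) (nat_lit 4) (nat_lit 330) (nat_lit 255) (nat_lit 195)) (XT.nd (nat_lit 78) (nat_lit 76) (nat_lit 0) (XT.lf (nat_lit 0) (nat_lit 149986244335) (nat_lit 152) (nat_lit 2126369317) (nat_lit 0) (nat_lit 134168888102) (nat_lit 2) (nat_lit 5) (nat_lit 4) (nat_lit 4) (nat_lit 2) (nat_lit 4) (nat_lit 331) (nat_lit 255) (nat_lit 194)) (XT.lf (nat_lit 0) (nat_lit 13310848474) (nat_lit 76) (nat_lit 155642652261) (nat_lit 76) (nat_lit 139814483166) (nat_lit 1) (nat_lit 4) (nat_lit 2) (nat_lit 5) (nat_lit 2) (nat_lit 4) (nat_lit 332) (nat_lit 255) (nat_lit 193))))) (XT.nd (nat_lit 156) (nat_lit 0) (nat_lit 0) (XT.nd (nat_lit 78) (nat_lit 0) (nat_lit 0) (XT.lf (nat_lit 0) (nat_lit 30038870325) (nat_lit 76) (nat_lit 159425689508) (nat_lit 76) (nat_lit 143587508504) (nat_lit 1) (nat_lit 4) (nat_lit 2) (nat_lit 5) (nat_lit 2) (nat_lit 4) (nat_lit 333) (nat_lit 255) (nat_lit 192))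 (XT.lf (nat_lit 0) (nat_lit 48086517881) (nat_lit 76) (nat_lit 163520154487) (nat_lit 76) (nat_lit 147672703198) (nat_lit 1) (nat_lit 4) (nat_lit 2) (nat_lit 5) (nat_lit 2) (nat_lit 4) (nat_lit 334) (nat_lit 255) (nat_lit 191))) (XT.nd (nat_lit 78) (nat_lit 0) (nat_lit 0) (XT.lf (nat_lit 0) (nat_lit 67560740163) (nat_lit 76) (nat_lit 167950310695) (nat_lit 76) (nat_lit 152094275807) (nat_lit 1) (nat_lit 4) (nat_lit 2) (nat_lit 5) (nat_lit 2) (nat_lit 4) (nat_lit 335) (nat_lit 255) (nat_lit 190)) (XT.nd (nat_lit 78) (nat_lit 0) (nat_lit 0) (XT.lf (nat_lit 0) (nat_lit 88576939971) (nat_lit 76) (nat_lit 172742410907) (nat_lit 76) (nat_lit 156878428244) (nat_lit 1) (nat_lit 4) (nat_lit 2) (nat_lit 5) (nat_lit 2) (nat_lit 4) (nat_lit 336) (nat_lit 255) (nat_lit 189)) (XT.lf (nat_lit 0) (nat_lit 111259657748) (nat_lit 76) (nat_lit 177924852756) (nat_lit 76) (nat_lit 162053511041) (nat_lit 1)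 (nat_lit 4) (nat_lit 2) (nat_lit 5) (nat_lit 2) (nat_lit 4) (nat_lit 337) (nat_lit 255) (nat_lit 188)))))) (XT.nd (nat_lit 390) (nat_lit 0) (nat_lit 0) (XT.nd (nat_lit 156) (nat_lit 0) (nat_lit 0) (XT.nd (nat_lit 78) (nat_lit 0) (nat_lit 0) (XT.lf (nat_lit 0) (nat_lit 135743309599) (nat_lit 76) (nat_lit 183528347008) (nat_lit 76) (nat_lit 167650191356) (nat_lit 1) (nat_lit 4) (nat_lit 2) (nat_lit 5) (nat_lit 2) (nat_lit 4) (nat_lit 338) (nat_lit 255) (nat_lit 187)) (XT.lf (nat_lit 0) (nat_lit 162172983832) (nat_lit 76) (nat_lit 189586099555) (nat_lit 76) (nat_lit 173701634702) (nat_lit 1) (nat_lit 4) (nat_lit 2) (nat_lit 5) (nat_lit 2) (nat_lit 4) (nat_lit 339) (nat_lit 255) (nat_lit 186))) (XT.nd (nat_lit 78) (nat_lit 0) (nat_lit 0) (XT.lf (nat_lit 0) (nat_lit 190705300739) (nat_lit 76) (nat_lit 196134008189) (nat_lit 76) (nat_lit 180243701484) (nat_lit 1) (nat_lit 4) (nat_lit 2) (nat_lit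 5) (nat_lit 2) (nat_lit 4) (nat_lit 340) (nat_lit 255) (nat_lit 185)) (XT.nd (nat_lit 78) (nat_lit 0) (nat_lit 0) (XT.lf (nat_lit 0) (nat_lit 221509340715) (nat_lit 76) (nat_lit 203210875333) (nat_lit 76) (nat_lit 187315159505) (nat_lit 1) (nat_lit 4) (nat_lit 2) (nat_lit 5) (nat_lit 2) (nat_lit 4) (nat_lit 341) (nat_lit 255) (nat_lit 184)) (XT.lf (nat_lit 0) (nat_lit 254767646220) (nat_lit 76) (nat_lit 210858637975) (nat_lit 76) (nat_lit 194957913701) (nat_lit 1) (nat_lit 4) (nat_lit 2) (nat_lit 5) (nat_lit 2) (nat_lit 4) (nat_lit 342) (nat_lit 255) (nat_lit 183))))) (XT.nd (nat_lit 234) (nat_lit 0) (nat_lit 0) (XT.nd (nat_lit 78) (nat_lit 0) (nat_lit 0) (XT.lf (nat_lit 0) (nat_lit 290677303509) (nat_lit 76) (nat_lit 219122616193) (nat_lit 76) (nat_lit 203217254467) (nat_lit 1) (nat_lit 4) (nat_lit 2) (nat_lit 5) (nat_lit 2) (nat_lit 4) (nat_lit 343) (nat_lit 255) (nat_lit 182)) (XT.nd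 (nat_lit 78) (nat_lit 0) (nat_lit 0) (XT.lf (nat_lit 0) (nat_lit 329451110550) (nat_lit 76) (nat_lit 228051781708) (nat_lit 76) (nat_lit 212142126046) (nat_lit 1) (nat_lit 4) (nat_lit 2) (nat_lit 5) (nat_lit 2) (nat_lit 4) (nat_lit 344) (nat_lit 255) (nat_lit 181)) (XT.lf (nat_lit 0) (nat_lit 371318838054) (nat_lit 76) (nat_lit 237699048093) (nat_lit 76) (nat_lit 221785416565) (nat_lit 1) (nat_lit 4) (nat_lit 2) (nat_lit 5) (nat_lit 2) (nat_lit 4) (nat_lit 345) (nat_lit 255) (nat_lit 180)))) (XT.nd (nat_lit 78) (nat_lit 0) (nat_lit 0) (XT.lf (nat_lit 0) (nat_lit 416528591070) (nat_lit 76) (nat_lit 248121584336) (nat_lit 76) (nat_lit 232204271449) (nat_lit 1) (nat_lit 4) (nat_lit 2) (nat_lit 5) (nat_lit 2) (nat_lit 4) (nat_lit 346) (nat_lit 255) (nat_lit 179)) (XT.nd (nat_lit 78) (nat_lit 0) (nat_lit 0) (XT.lf (nat_lit 0) (nat_lit 465348279247) (nat_lit 76) (nat_lit 259381153612) (nat_lit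 76) (nat_lit 243460432061) (nat_lit 1) (nat_lit 4) (nat_lit 2) (nat_lit 5) (nat_lit 2) (nat_lit 4) (nat_lit 347) (nat_lit 255) (nat_lit 178)) (XT.lf (nat_lit 0) (nat_lit 518067204440) (nat_lit 76) (nat_lit 271544479297) (nat_lit 76) (nat_lit 255620601574) (nat_lit 1) (nat_lit 4) (nat_lit 2) (nat_lit 5) (nat_lit 2) (nat_lit 4) (nat_lit 348) (nat_lit 255) (nat_lit 177))))))) (XT.nd (nat_lit 35100) (nat_lit 0) (nat_lit 1672) (XT.nd (nat_lit 34632) (nat_lit 0) (nat_lit 3724) (XT.nd (nat_lit 34398) (nat_lit 0) (nat_lit 5700) (XT.nd (nat_lit 34320) (nat_lit 0) (nat_lit 7600) (XT.lf (nat_lit 0) (nat_lit 574997775096) (nat_lit 76) (nat_lit 284683640357) (nat_lit 76) (nat_lit 268756840253) (nat_lit 1) (nat_lit 4) (nat_lit 2) (nat_lit 5) (nat_lit 2) (nat_lit 4) (nat_lit 349) (nat_lit 255) (nat_lit 176)) (XT.lf (nat_lit 0) (nat_lit 45227226) (nat_lit 532) (nat_lit 1711695752) (nat_lit 532) (nat_lit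 1711695752) (nat_lit 101) (nat_lit 4) (nat_lit 108) (nat_lit 5) (nat_lit 108) (nat_lit 4) (nat_lit 268) (nat_lit 256) (nat_lit 256))) (XT.nd (nat_lit 78) (nat_lit 1216) (nat_lit 0) (XT.lf (nat_lit 0) (nat_lit 215699181) (nat_lit 608) (nat_lit 1249361769) (nat_lit 684) (nat_lit 5610158530) (nat_lit 92) (nat_lit 5) (nat_lit 100) (nat_lit 5) (nat_lit 101) (nat_lit 4) (nat_lit 269) (nat_lit 256) (nat_lit 255)) (XT.nd (nat_lit 78) (nat_lit 532) (nat_lit 0) (XT.lf (nat_lit 0) (nat_lit 406759840) (nat_lit 684) (nat_lit 5970708072) (nat_lit 684) (nat_lit 857510896) (nat_lit 83) (nat_lit 4) (nat_lit 92) (nat_lit 5) (nat_lit 92) (nat_lit 4) (nat_lit 270) (nat_lit 256) (nat_lit 254)) (XT.lf (nat_lit 0) (nat_lit 633220649) (nat_lit 456) (nat_lit 3280238756) (nat_lit 532) (nat_lit 3503020096) (nat_lit 76) (nat_lit 5) (nat_lit 82) (nat_lit 5) (nat_lit 83) (nat_lit 4) (nat_lit 271) (nat_lit 256) (nat_lit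 253))))) (XT.nd (nat_lit 234) (nat_lit 836) (nat_lit 0) (XT.nd (nat_lit 78) (nat_lit 684) (nat_lit 0) (XT.lf (nat_lit 0) (nat_lit 929438832) (nat_lit 380) (nat_lit 222663479) (nat_lit 456) (nat_lit 6470834194) (nat_lit 70) (nat_lit 5) (nat_lit 75) (nat_lit 5) (nat_lit 76) (nat_lit 5) (nat_lit 272) (nat_lit 256) (nat_lit 252)) (XT.nd (nat_lit 78) (nat_lit 380) (nat_lit 0) (XT.lf (nat_lit 0) (nat_lit 1199515150) (nat_lit 304) (nat_lit 4704263160) (nat_lit 380) (nat_lit 1947770521) (nat_lit 66) (nat_lit 5) (nat_lit 70) (nat_lit 5) (nat_lit 71) (nat_lit 4) (nat_lit 273) (nat_lit 256) (nat_lit 251)) (XT.lf (nat_lit 0) (nat_lit 1480454881) (nat_lit 304) (nat_lit 1179800060) (nat_lit 380) (nat_lit 5445799017) (nat_lit 61) (nat_lit 5) (nat_lit 65) (nat_lit 5) (nat_lit 66) (nat_lit 5) (nat_lit 274) (nat_lit 256) (nat_lit 250)))) (XT.nd (nat_lit 78) (nat_lit 608) (nat_lit 0) (XT.lf (nat_lit 0) (nat_lit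 1721022816) (nat_lit 228) (nat_lit 5723598893) (nat_lit 304) (nat_lit 941601339) (nat_lit 58) (nat_lit 5) (nat_lit 61) (nat_lit 5) (nat_lit 62) (nat_lit 4) (nat_lit 275) (nat_lit 256) (nat_lit 249)) (XT.nd (nat_lit 78) (nat_lit 228) (nat_lit 0) (XT.lf (nat_lit 0) (nat_lit 1888278491) (nat_lit 304) (nat_lit 1776987316) (nat_lit 380) (nat_lit 5027697563) (nat_lit 53) (nat_lit 5) (nat_lit 57) (nat_lit 5) (nat_lit 58) (nat_lit 5) (nat_lit 276) (nat_lit 256) (nat_lit 248)) (XT.lf (nat_lit 0) (nat_lit 1977232199) (nat_lit 228) (nat_lit 6535041554) (nat_lit 304) (nat_lit 516537500) (nat_lit 50) (nat_lit 5) (nat_lit 53) (nat_lit 5) (nat_lit 54) (nat_lit 4) (nat_lit 277) (nat_lit 256) (nat_lit 247)))))) (XT.nd (nat_lit 390) (nat_lit 988) (nat_lit 0) (XT.nd (nat_lit 156) (nat_lit 532) (nat_lit 0) (XT.nd (nat_lit 78) (nat_lit 228) (nat_lit 0) (XT.lf (nat_lit 0) (nat_lit 1912078355) (nat_lit 228)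 (nat_lit 2211280730) (nat_lit 304) (nat_lit 5269907332) (nat_lit 46) (nat_lit 5) (nat_lit 49) (nat_lit 5) (nat_lit 50) (nat_lit 5) (nat_lit 278) (nat_lit 256) (nat_lit 246)) (XT.lf (nat_lit 0) (nat_lit 1705157149) (nat_lit 228) (nat_lit 7341500071) (nat_lit 304) (nat_lit 743746775) (nat_lit 43) (nat_lit 5) (nat_lit 46) (nat_lit 5) (nat_lit 47) (nat_lit 4) (nat_lit 279) (nat_lit 256) (nat_lit 245))) (XT.nd (nat_lit 78) (nat_lit 228) (nat_lit 0) (XT.lf (nat_lit 0) (nat_lit 1259881757) (nat_lit 228) (nat_lit 2690952999) (nat_lit 304) (nat_lit 6268703361) (nat_lit 39) (nat_lit 5) (nat_lit 42) (nat_lit 5) (nat_lit 43) (nat_lit 5) (nat_lit 280) (nat_lit 256) (nat_lit 244)) (XT.nd (nat_lit 78) (nat_lit 76) (nat_lit 0) (XT.lf (nat_lit 0) (nat_lit 580539511) (nat_lit 152) (nat_lit 8364506908) (nat_lit 228) (nat_lit 1740220340) (nat_lit 37) (nat_lit 5) (nat_lit 39) (nat_lit 5) (nat_lit 40) (nat_lit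 4) (nat_lit 281) (nat_lit 256) (nat_lit 243)) (XT.lf (nat_lit 0) (nat_lit 3023246261) (nat_lit 228) (nat_lit 418493658) (nat_lit 76) (nat_lit 7745711858) (nat_lit 36) (nat_lit 5) (nat_lit 39) (nat_lit 5) (nat_lit 37) (nat_lit 5) (nat_lit 282) (nat_lit 256) (nat_lit 242))))) (XT.nd (nat_lit 234) (nat_lit 380) (nat_lit 0) (XT.nd (nat_lit 78) (nat_lit 380) (nat_lit 0) (XT.lf (nat_lit 0) (nat_lit 8081263133) (nat_lit 304) (nat_lit 1747622566) (nat_lit 76) (nat_lit 1901087232) (nat_lit 33) (nat_lit 5) (nat_lit 37) (nat_lit 5) (nat_lit 34) (nat_lit 4) (nat_lit 283) (nat_lit 256) (nat_lit 241)) (XT.nd (nat_lit 78) (nat_lit 152) (nat_lit 0) (XT.lf (nat_lit 0) (nat_lit 1187692666) (nat_lit 228) (nat_lit 3510604119) (nat_lit 76) (nat_lit 7616964989) (nat_lit 30) (nat_lit 5) (nat_lit 33) (nat_lit 5) (nat_lit 31) (nat_lit 5) (nat_lit 284) (nat_lit 256) (nat_lit 240)) (XT.lf (nat_lit 0) (nat_lit 6245707327)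 (nat_lit 228) (nat_lit 5783948893) (nat_lit 76) (nat_lit 916853093) (nat_lit 28) (nat_lit 5) (nat_lit 31) (nat_lit 5) (nat_lit 29) (nat_lit 4) (nat_lit 285) (nat_lit 256) (nat_lit 239)))) (XT.nd (nat_lit 78) (nat_lit 228) (nat_lit 0) (XT.lf (nat_lit 0) (nat_lit 4966613852) (nat_lit 152) (nat_lit 6772024476) (nat_lit 228) (nat_lit 1888338814) (nat_lit 26) (nat_lit 5) (nat_lit 28) (nat_lit 5) (nat_lit 29) (nat_lit 4) (nat_lit 286) (nat_lit 256) (nat_lit 238)) (XT.nd (nat_lit 78) (nat_lit 0) (nat_lit 0) (XT.lf (nat_lit 0) (nat_lit 2147349623) (nat_lit 152) (nat_lit 1009463501) (nat_lit 228) (nat_lit 11205012390) (nat_lit 23) (nat_lit 5) (nat_lit 25) (nat_lit 5) (nat_lit 26) (nat_lit 5) (nat_lit 287) (nat_lit 256) (nat_lit 237)) (XT.lf (nat_lit 0) (nat_lit 8600114526) (nat_lit 228) (nat_lit 1424015791) (nat_lit 76) (nat_lit 5126940109) (nat_lit 23) (nat_lit 5) (nat_lit 26) (nat_lit 5) (nat_lit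 24) (nat_lit 4) (nat_lit 288) (nat_lit 256) (nat_lit 236))))))))
noncomputable def xc40 : XT := (XT.nd (nat_lit 1638) (nat_lit 304) (nat_lit 0) (XT.nd (nat_lit 780) (nat_lit 380) (nat_lit 0) (XT.nd (nat_lit 390) (nat_lit 304) (nat_lit 0) (XT.nd (nat_lit 156) (nat_lit 304) (nat_lit 0) (XT.nd (nat_lit 78) (nat_lit 228) (nat_lit 0) (XT.lf (nat_lit 0) (nat_lit 10273595021) (nat_lit 76) (nat_lit 4220736822) (nat_lit 152) (nat_lit 1508527594) (nat_lit 22) (nat_lit 5) (nat_lit 23) (nat_lit 5) (nat_lit 24) (nat_lit 4) (nat_lit 289) (nat_lit 256) (nat_lit 235)) (XT.lf (nat_lit 0) (nat_lit 3805228633) (nat_lit 228) (nat_lit 11053340178) (nat_lit 76) (nat_lit 2061607732) (nat_lit 19) (nat_lit 5) (nat_lit 22) (nat_lit 5) (nat_lit 20) (nat_lit 4) (nat_lit 290) (nat_lit 256) (nat_lit 234))) (XT.nd (nat_lit 78) (nat_lit 228) (nat_lit 0) (XT.lf (nat_lit 0) (nat_lit 345934868) (nat_lit 76) (nat_lit 9173473859)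 (nat_lit 152) (nat_lit 8388969652) (nat_lit 18) (nat_lit 5) (nat_lit 19) (nat_lit 5) (nat_lit 20) (nat_lit 4) (nat_lit 291) (nat_lit 256) (nat_lit 233)) (XT.nd (nat_lit 78) (nat_lit 228) (nat_lit 0) (XT.lf (nat_lit 0) (nat_lit 12806776552) (nat_lit 76) (nat_lit 2933274978) (nat_lit 152) (nat_lit 3233252307) (nat_lit 18) (nat_lit 5) (nat_lit 19) (nat_lit 5) (nat_lit 20) (nat_lit 4) (nat_lit 292) (nat_lit 256) (nat_lit 232)) (XT.lf (nat_lit 0) (nat_lit 2280085170) (nat_lit 228) (nat_lit 14116505711) (nat_lit 76) (nat_lit 3724133042) (nat_lit 15) (nat_lit 5) (nat_lit 18) (nat_lit 5) (nat_lit 16) (nat_lit 4) (nat_lit 293) (nat_lit 256) (nat_lit 231))))) (XT.nd (nat_lit 156) (nat_lit 228) (nat_lit 0) (XT.nd (nat_lit 78) (nat_lit 76) (nat_lit 0) (XT.lf (nat_lit 0) (nat_lit 8151547453) (nat_lit 228) (nat_lit 2318002073) (nat_lit 76) (nat_lit 10886330447) (nat_lit 15) (nat_lit 5) (nat_lit 18)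 (nat_lit 5) (nat_lit 16) (nat_lit 4) (nat_lit 294) (nat_lit 256) (nat_lit 230)) (XT.lf (nat_lit 0) (nat_lit 10552379927) (nat_lit 76) (nat_lit 3984897698) (nat_lit 152) (nat_lit 8150444560) (nat_lit 14) (nat_lit 5) (nat_lit 15) (nat_lit 5) (nat_lit 16) (nat_lit 4) (nat_lit 295) (nat_lit 256) (nat_lit 229))) (XT.nd (nat_lit 78) (nat_lit 152) (nat_lit 0) (XT.lf (nat_lit 0) (nat_lit 163417323) (nat_lit 76) (nat_lit 21245392284) (nat_lit 76) (nat_lit 2718648725) (nat_lit 13) (nat_lit 4) (nat_lit 14) (nat_lit 5) (nat_lit 14) (nat_lit 4) (nat_lit 296) (nat_lit 256) (nat_lit 228)) (XT.nd (nat_lit 78) (nat_lit 76) (nat_lit 0) (XT.lf (nat_lit 0) (nat_lit 3216838599) (nat_lit 152) (nat_lit 12112155232) (nat_lit 76) (nat_lit 10342510298) (nat_lit 12) (nat_lit 5) (nat_lit 14) (nat_lit 5) (nat_lit 13) (nat_lit 4) (nat_lit 297) (nat_lit 256) (nat_lit 227)) (XT.lf (nat_lit 0) (nat_lit 471983626) (nat_lit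 76) (nat_lit 8964728852) (nat_lit 152) (nat_lit 17904969450) (nat_lit 11) (nat_lit 5) (nat_lit 12) (nat_lit 5) (nat_lit 13) (nat_lit 4) (nat_lit 298) (nat_lit 256) (nat_lit 226)))))) (XT.nd (nat_lit 390) (nat_lit 152) (nat_lit 0) (XT.nd (nat_lit 156) (nat_lit 228) (nat_lit 0) (XT.nd (nat_lit 78) (nat_lit 0) (nat_lit 0) (XT.lf (nat_lit 0) (nat_lit 14318258880) (nat_lit 76) (nat_lit 1947983801) (nat_lit 152) (nat_lit 12873698810) (nat_lit 11) (nat_lit 5) (nat_lit 12) (nat_lit 5) (nat_lit 13) (nat_lit 4) (nat_lit 299) (nat_lit 256) (nat_lit 225)) (XT.lf (nat_lit 0) (nat_lit 23637314378) (nat_lit 152) (nat_lit 2065238284) (nat_lit 0) (nat_lit 5379815816) (nat_lit 11) (nat_lit 5) (nat_lit 13) (nat_lit 4) (nat_lit 11) (nat_lit 4) (nat_lit 300) (nat_lit 256) (nat_lit 224))) (XT.nd (nat_lit 78) (nat_lit 152) (nat_lit 0) (XT.lf (nat_lit 0) (nat_lit 11904800232) (nat_lit 76) (nat_lit 19826131201)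 (nat_lit 76) (nat_lit 1442675961) (nat_lit 10) (nat_lit 4) (nat_lit 11) (nat_lit 5) (nat_lit 11) (nat_lit 4) (nat_lit 301) (nat_lit 256) (nat_lit 223)) (XT.nd (nat_lit 78) (nat_lit 76) (nat_lit 0) (XT.lf (nat_lit 0) (nat_lit 4831942644) (nat_lit 152) (nat_lit 8594599372) (nat_lit 76) (nat_lit 22004054724) (nat_lit 9) (nat_lit 5) (nat_lit 11) (nat_lit 5) (nat_lit 10) (nat_lit 4) (nat_lit 302) (nat_lit 256) (nat_lit 222)) (XT.lf (nat_lit 0) (nat_lit 5092232759) (nat_lit 76) (nat_lit 6468890217) (nat_lit 152) (nat_lit 26305732512) (nat_lit 8) (nat_lit 5) (nat_lit 9) (nat_lit 5) (nat_lit 10) (nat_lit 4) (nat_lit 303) (nat_lit 256) (nat_lit 221))))) (XT.nd (nat_lit 234) (nat_lit 76) (nat_lit 0) (XT.nd (nat_lit 78) (nat_lit 76) (nat_lit 0) (XT.lf (nat_lit 0) (nat_lit 18922755063) (nat_lit 152) (nat_lit 20465042792) (nat_lit 0) (nat_lit 1105557145) (nat_lit 8) (nat_lit 5) (nat_lit 10) (nat_lit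 4) (nat_lit 8) (nat_lit 4) (nat_lit 304) (nat_lit 256) (nat_lit 220)) (XT.nd (nat_lit 78) (nat_lit 76) (nat_lit 0) (XT.lf (nat_lit 0) (nat_lit 26913533390) (nat_lit 152) (nat_lit 7406310610) (nat_lit 0) (nat_lit 9008162216) (nat_lit 8) (nat_lit 5) (nat_lit 10) (nat_lit 4) (nat_lit 8) (nat_lit 4) (nat_lit 305) (nat_lit 256) (nat_lit 219)) (XT.lf (nat_lit 0) (nat_lit 6797519476) (nat_lit 76) (nat_lit 28788422066) (nat_lit 76) (nat_lit 10801408988) (nat_lit 7) (nat_lit 4) (nat_lit 8) (nat_lit 5) (nat_lit 8) (nat_lit 4) (nat_lit 306) (nat_lit 256) (nat_lit 218)))) (XT.nd (nat_lit 78) (nat_lit 76) (nat_lit 0) (XT.lf (nat_lit 0) (nat_lit 22290060980) (nat_lit 76) (nat_lit 22730307009) (nat_lit 76) (nat_lit 4667699577) (nat_lit 7) (nat_lit 4) (nat_lit 8) (nat_lit 5) (nat_lit 8) (nat_lit 4) (nat_lit 307) (nat_lit 256) (nat_lit 217)) (XT.nd (nat_lit 78) (nat_lit 0) (nat_lit 0) (XT.lf (nat_lit 0)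 (nat_lit 1836839646) (nat_lit 152) (nat_lit 14367080930) (nat_lit 76) (nat_lit 37050288065) (nat_lit 6) (nat_lit 5) (nat_lit 8) (nat_lit 5) (nat_lit 7) (nat_lit 4) (nat_lit 308) (nat_lit 256) (nat_lit 216)) (XT.lf (nat_lit 0) (nat_lit 8647394726) (nat_lit 152) (nat_lit 470252989) (nat_lit 76) (nat_lit 47986737763) (nat_lit 6) (nat_lit 5) (nat_lit 8) (nat_lit 5) (nat_lit 7) (nat_lit 4) (nat_lit 309) (nat_lit 256) (nat_lit 215))))))) (XT.nd (nat_lit 780) (nat_lit 76) (nat_lit 0) (XT.nd (nat_lit 390) (nat_lit 76) (nat_lit 0) (XT.nd (nat_lit 156) (nat_lit 76) (nat_lit 0) (XT.nd (nat_lit 78) (nat_lit 0) (nat_lit 0) (XT.lf (nat_lit 0) (nat_lit 14925411042) (nat_lit 76) (nat_lit 1261336498) (nat_lit 152) (nat_lit 45066658823) (nat_lit 5) (nat_lit 5) (nat_lit 6) (nat_lit 5) (nat_lit 7) (nat_lit 4) (nat_lit 310) (nat_lit 256) (nat_lit 214)) (XT.lf (nat_lit 0) (nat_lit 24402938059) (nat_lit 152)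 (nat_lit 34365752442) (nat_lit 0) (nat_lit 6961999466) (nat_lit 5) (nat_lit 5) (nat_lit 7) (nat_lit 4) (nat_lit 5) (nat_lit 4) (nat_lit 311) (nat_lit 256) (nat_lit 213))) (XT.nd (nat_lit 78) (nat_lit 76) (nat_lit 0) (XT.lf (nat_lit 0) (nat_lit 33253789414) (nat_lit 152) (nat_lit 21549669709) (nat_lit 0) (nat_lit 15763852489) (nat_lit 5) (nat_lit 5) (nat_lit 7) (nat_lit 4) (nat_lit 5) (nat_lit 4) (nat_lit 312) (nat_lit 256) (nat_lit 212)) (XT.nd (nat_lit 78) (nat_lit 76) (nat_lit 0) (XT.lf (nat_lit 0) (nat_lit 42772058096) (nat_lit 152) (nat_lit 7784106969) (nat_lit 0) (nat_lit 25236752346) (nat_lit 5) (nat_lit 5) (nat_lit 7) (nat_lit 4) (nat_lit 5) (nat_lit 4) (nat_lit 313) (nat_lit 256) (nat_lit 211)) (XT.lf (nat_lit 0) (nat_lit 7244374715) (nat_lit 76) (nat_lit 45882878936) (nat_lit 76) (nat_lit 28305565015) (nat_lit 4) (nat_lit 4) (nat_lit 5) (nat_lit 5) (nat_lit 5) (nat_lit 4) (nat_lit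 314) (nat_lit 256) (nat_lit 210))))) (XT.nd (nat_lit 156) (nat_lit 76) (nat_lit 0) (XT.nd (nat_lit 78) (nat_lit 0) (nat_lit 0) (XT.lf (nat_lit 0) (nat_lit 23685962006) (nat_lit 76) (nat_lit 40724597217) (nat_lit 76) (nat_lit 23108386841) (nat_lit 4) (nat_lit 4) (nat_lit 5) (nat_lit 5) (nat_lit 5) (nat_lit 4) (nat_lit 315) (nat_lit 256) (nat_lit 209)) (XT.lf (nat_lit 0) (nat_lit 41380708801) (nat_lit 76) (nat_lit 35182579930) (nat_lit 76) (nat_lit 17530354318) (nat_lit 4) (nat_lit 4) (nat_lit 5) (nat_lit 5) (nat_lit 5) (nat_lit 4) (nat_lit 316) (nat_lit 256) (nat_lit 208))) (XT.nd (nat_lit 78) (nat_lit 76) (nat_lit 0) (XT.lf (nat_lit 0) (nat_lit 60433472859) (nat_lit 76) (nat_lit 29223985492) (nat_lit 76) (nat_lit 11538412439) (nat_lit 4) (nat_lit 4) (nat_lit 5) (nat_lit 5) (nat_lit 5) (nat_lit 4) (nat_lit 317) (nat_lit 256) (nat_lit 207)) (XT.nd (nat_lit 78) (nat_lit 76) (nat_lit 0) (XT.lf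 (nat_lit 0) (nat_lit 80957159447) (nat_lit 76) (nat_lit 22813503714) (nat_lit 76) (nat_lit 5097053401) (nat_lit 4) (nat_lit 4) (nat_lit 5) (nat_lit 5) (nat_lit 5) (nat_lit 4) (nat_lit 318) (nat_lit 256) (nat_lit 206)) (XT.lf (nat_lit 0) (nat_lit 1773261770) (nat_lit 152) (nat_lit 14109853738) (nat_lit 76) (nat_lit 101270097596) (nat_lit 3) (nat_lit 5) (nat_lit 5) (nat_lit 5) (nat_lit 4) (nat_lit 4) (nat_lit 319) (nat_lit 256) (nat_lit 205)))))) (XT.nd (nat_lit 390) (nat_lit 0) (nat_lit 0) (XT.nd (nat_lit 156) (nat_lit 0) (nat_lit 0) (XT.nd (nat_lit 78) (nat_lit 0) (nat_lit 0) (XT.lf (nat_lit 0) (nat_lit 684334637) (nat_lit 76) (nat_lit 8318517694) (nat_lit 152) (nat_lit 117095119982) (nat_lit 2) (nat_lit 5) (nat_lit 3) (nat_lit 5) (nat_lit 4) (nat_lit 4) (nat_lit 320) (nat_lit 256) (nat_lit 204)) (XT.lf (nat_lit 0) (nat_lit 17034276541) (nat_lit 152) (nat_lit 118627191407) (nat_lit 0)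 (nat_lit 85682249) (nat_lit 2) (nat_lit 5) (nat_lit 4) (nat_lit 4) (nat_lit 2) (nat_lit 4) (nat_lit 321) (nat_lit 256) (nat_lit 203))) (XT.nd (nat_lit 78) (nat_lit 0) (nat_lit 0) (XT.lf (nat_lit 0) (nat_lit 25826234757) (nat_lit 152) (nat_lit 111480111473) (nat_lit 0) (nat_lit 8856025505) (nat_lit 2) (nat_lit 5) (nat_lit 4) (nat_lit 4) (nat_lit 2) (nat_lit 4) (nat_lit 322) (nat_lit 256) (nat_lit 202)) (XT.nd (nat_lit 78) (nat_lit 0) (nat_lit 0) (XT.lf (nat_lit 0) (nat_lit 35300952097) (nat_lit 152) (nat_lit 103800169434) (nat_lit 0) (nat_lit 18310728993) (nat_lit 2) (nat_lit 5) (nat_lit 4) (nat_lit 4) (nat_lit 2) (nat_lit 4) (nat_lit 323) (nat_lit 256) (nat_lit 201)) (XT.lf (nat_lit 0) (nat_lit 45514575034) (nat_lit 152) (nat_lit 95541854524) (nat_lit 0) (nat_lit 28505820586) (nat_lit 2) (nat_lit 5) (nat_lit 4) (nat_lit 4) (nat_lit 2) (nat_lit 4) (nat_lit 324) (nat_lit 256) (nat_lit 200)))))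 (XT.nd (nat_lit 234) (nat_lit 0) (nat_lit 0) (XT.nd (nat_lit 78) (nat_lit 0) (nat_lit 0) (XT.lf (nat_lit 0) (nat_lit 56527628742) (nat_lit 152) (nat_lit 86656228579) (nat_lit 0) (nat_lit 39501715642) (nat_lit 2) (nat_lit 5) (nat_lit 4) (nat_lit 4) (nat_lit 2) (nat_lit 4) (nat_lit 325) (nat_lit 256) (nat_lit 199)) (XT.nd (nat_lit 78) (nat_lit 0) (nat_lit 0) (XT.lf (nat_lit 0) (nat_lit 68405375761) (nat_lit 152) (nat_lit 77090636038) (nat_lit 0) (nat_lit 51363575020) (nat_lit 2) (nat_lit 5) (nat_lit 4) (nat_lit 4) (nat_lit 2) (nat_lit 4) (nat_lit 326) (nat_lit 256) (nat_lit 198)) (XT.lf (nat_lit 0) (nat_lit 81218202740) (nat_lit 152) (nat_lit 66788391910) (nat_lit 0) (nat_lit 64161691221) (nat_lit 2) (nat_lit 5) (nat_lit 4) (nat_lit 4) (nat_lit 2) (nat_lit 4) (nat_lit 327) (nat_lit 256) (nat_lit 197)))) (XT.nd (nat_lit 78) (nat_lit 0) (nat_lit 0) (XT.lf (nat_lit 0) (nat_lit 95042037543)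 (nat_lit 152) (nat_lit 55688445857) (nat_lit 0) (nat_lit 77971904932) (nat_lit 2) (nat_lit 5) (nat_lit 4) (nat_lit 4) (nat_lit 2) (nat_lit 4) (nat_lit 328) (nat_lit 256) (nat_lit 196)) (XT.nd (nat_lit 78) (nat_lit 0) (nat_lit 0) (XT.lf (nat_lit 0) (nat_lit 109958799190) (nat_lit 152) (nat_lit 43725020423) (nat_lit 0) (nat_lit 92876054458) (nat_lit 2) (nat_lit 5) (nat_lit 4) (nat_lit 4) (nat_lit 2) (nat_lit 4) (nat_lit 329) (nat_lit 256) (nat_lit 195)) (XT.lf (nat_lit 0) (nat_lit 126056883306) (nat_lit 152) (nat_lit 30827221233) (nat_lit 0) (nat_lit 108962460684) (nat_lit 2) (nat_lit 5) (nat_lit 4) (nat_lit 4) (nat_lit 2) (nat_lit 4) (nat_lit 330) (nat_lit 256) (nat_lit 194))))))))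
noncomputable def xc41 : XT := (XT.nd (nat_lit 35724) (nat_lit 0) (nat_lit 1672) (XT.nd (nat_lit 780) (nat_lit 0) (nat_lit 0) (XT.nd (nat_lit 390) (nat_lit 0) (nat_lit 0) (XT.nd (nat_lit 156) (nat_lit 76) (nat_lit 0) (XT.nd (nat_lit 78) (nat_lit 0) (nat_lit 0) (XT.lf (nat_lit 0) (nat_lit 143431685946) (nat_lit 152) (nat_lit 16918616886) (nat_lit 0) (nat_lit 126326450462) (nat_lit 2) (nat_lit 5) (nat_lit 4) (nat_lit 4) (nat_lit 2) (nat_lit 4) (nat_lit 331) (nat_lit 256) (nat_lit 193)) (XT.lf (nat_lit 0) (nat_lit 162186168902) (nat_lit 152) (nat_lit 1916786023) (nat_lit 0) (nat_lit 145070921509) (nat_lit 2) (nat_lit 5) (nat_lit 4) (nat_lit 4) (nat_lit 2) (nat_lit 4) (nat_lit 332) (nat_lit 256) (nat_lit 192))) (XT.nd (nat_lit 78) (nat_lit 0) (nat_lit 0) (XT.lf (nat_lit 0) (nat_lit 14738908204) (nat_lit 76) (nat_lit 167922677309) (nat_lit 76) (nat_lit 150798159631) (nat_lit 1) (nat_lit 4)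 (nat_lit 2) (nat_lit 5) (nat_lit 2) (nat_lit 4) (nat_lit 333) (nat_lit 256) (nat_lit 191)) (XT.nd (nat_lit 78) (nat_lit 0) (nat_lit 0) (XT.lf (nat_lit 0) (nat_lit 32778268703) (nat_lit 76) (nat_lit 172021052880) (nat_lit 76) (nat_lit 154887951604) (nat_lit 1) (nat_lit 4) (nat_lit 2) (nat_lit 5) (nat_lit 2) (nat_lit 4) (nat_lit 334) (nat_lit 256) (nat_lit 190)) (XT.lf (nat_lit 0) (nat_lit 52244817785) (nat_lit 76) (nat_lit 176454830005) (nat_lit 76) (nat_lit 159313780953) (nat_lit 1) (nat_lit 4) (nat_lit 2) (nat_lit 5) (nat_lit 2) (nat_lit 4) (nat_lit 335) (nat_lit 256) (nat_lit 189))))) (XT.nd (nat_lit 156) (nat_lit 0) (nat_lit 0) (XT.nd (nat_lit 78) (nat_lit 0) (nat_lit 0) (XT.lf (nat_lit 0) (nat_lit 73253912778) (nat_lit 76) (nat_lit 181250282919) (nat_lit 76) (nat_lit 164101874815) (nat_lit 1) (nat_lit 4) (nat_lit 2) (nat_lit 5) (nat_lit 2) (nat_lit 4) (nat_lit 336) (nat_lit 256) (nat_lit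 188)) (XT.lf (nat_lit 0) (nat_lit 95930052022) (nat_lit 76) (nat_lit 186435829122) (nat_lit 76) (nat_lit 169280607081) (nat_lit 1) (nat_lit 4) (nat_lit 2) (nat_lit 5) (nat_lit 2) (nat_lit 4) (nat_lit 337) (nat_lit 256) (nat_lit 187))) (XT.nd (nat_lit 78) (nat_lit 0) (nat_lit 0) (XT.lf (nat_lit 0) (nat_lit 120407612640) (nat_lit 76) (nat_lit 192042197775) (nat_lit 76) (nat_lit 174880666533) (nat_lit 1) (nat_lit 4) (nat_lit 2) (nat_lit 5) (nat_lit 2) (nat_lit 4) (nat_lit 338) (nat_lit 256) (nat_lit 186)) (XT.nd (nat_lit 78) (nat_lit 0) (nat_lit 0) (XT.lf (nat_lit 0) (nat_lit 146831646841) (nat_lit 76) (nat_lit 198102611804) (nat_lit 76) (nat_lit 180935238710) (nat_lit 1) (nat_lit 4) (nat_lit 2) (nat_lit 5) (nat_lit 2) (nat_lit 4) (nat_lit 339) (nat_lit 256) (nat_lit 185)) (XT.lf (nat_lit 0) (nat_lit 175358741496) (nat_lit 76) (nat_lit 204652984774) (nat_lit 76) (nat_lit 187480202557) (nat_lit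 1) (nat_lit 4) (nat_lit 2) (nat_lit 5) (nat_lit 2) (nat_lit 4) (nat_lit 340) (nat_lit 256) (nat_lit 184)))))) (XT.nd (nat_lit 390) (nat_lit 0) (nat_lit 0) (XT.nd (nat_lit 156) (nat_lit 0) (nat_lit 0) (XT.nd (nat_lit 78) (nat_lit 0) (nat_lit 0) (XT.lf (nat_lit 0) (nat_lit 206157946054) (nat_lit 76) (nat_lit 211732133710) (nat_lit 76) (nat_lit 194554343046) (nat_lit 1) (nat_lit 4) (nat_lit 2) (nat_lit 5) (nat_lit 2) (nat_lit 4) (nat_lit 341) (nat_lit 256) (nat_lit 183)) (XT.lf (nat_lit 0) (nat_lit 239411774321) (nat_lit 76) (nat_lit 219382009123) (nat_lit 76) (nat_lit 202199581009) (nat_lit 1) (nat_lit 4) (nat_lit 2) (nat_lit 5) (nat_lit 2) (nat_lit 4) (nat_lit 342) (nat_lit 256) (nat_lit 182))) (XT.nd (nat_lit 78) (nat_lit 0) (nat_lit 0) (XT.lf (nat_lit 0) (nat_lit 275317286018) (nat_lit 76) (nat_lit 227647943610) (nat_lit 76) (nat_lit 210461221559) (nat_lit 1) (nat_lit 4) (nat_lit 2) (nat_lit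 5) (nat_lit 2) (nat_lit 4) (nat_lit 343) (nat_lit 256) (nat_lit 181)) (XT.nd (nat_lit 78) (nat_lit 0) (nat_lit 0) (XT.lf (nat_lit 0) (nat_lit 314087254549) (nat_lit 76) (nat_lit 236578920485) (nat_lit 76) (nat_lit 219388222568) (nat_lit 1) (nat_lit 4) (nat_lit 2) (nat_lit 5) (nat_lit 2) (nat_lit 4) (nat_lit 344) (nat_lit 256) (nat_lit 180)) (XT.lf (nat_lit 0) (nat_lit 355951427876) (nat_lit 76) (nat_lit 246227864056) (nat_lit 76) (nat_lit 229033484781) (nat_lit 1) (nat_lit 4) (nat_lit 2) (nat_lit 5) (nat_lit 2) (nat_lit 4) (nat_lit 345) (nat_lit 256) (nat_lit 179))))) (XT.nd (nat_lit 234) (nat_lit 0) (nat_lit 0) (XT.nd (nat_lit 78) (nat_lit 0) (nat_lit 0) (XT.lf (nat_lit 0) (nat_lit 401157889988) (nat_lit 76) (nat_lit 256651953248) (nat_lit 76) (nat_lit 239454165308) (nat_lit 1) (nat_lit 4) (nat_lit 2) (nat_lit 5) (nat_lit 2) (nat_lit 4) (nat_lit 346) (nat_lit 256) (nat_lit 178)) (XT.nd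 (nat_lit 78) (nat_lit 0) (nat_lit 0) (XT.lf (nat_lit 0) (nat_lit 449974531032) (nat_lit 76) (nat_lit 267912960441) (nat_lit 76) (nat_lit 250712016330) (nat_lit 1) (nat_lit 4) (nat_lit 2) (nat_lit 5) (nat_lit 2) (nat_lit 4) (nat_lit 347) (nat_lit 256) (nat_lit 177)) (XT.lf (nat_lit 0) (nat_lit 502690634805) (nat_lit 76) (nat_lit 280077617530) (nat_lit 76) (nat_lit 262873751038) (nat_lit 1) (nat_lit 4) (nat_lit 2) (nat_lit 5) (nat_lit 2) (nat_lit 4) (nat_lit 348) (nat_lit 256) (nat_lit 176)))) (XT.nd (nat_lit 34164) (nat_lit 0) (nat_lit 8132) (XT.lf (nat_lit 0) (nat_lit 559618593035) (nat_lit 76) (nat_lit 293218011371) (nat_lit 76) (nat_lit 276011438970) (nat_lit 1) (nat_lit 4) (nat_lit 2) (nat_lit 5) (nat_lit 2) (nat_lit 4) (nat_lit 349) (nat_lit 256) (nat_lit 175)) (XT.nd (nat_lit 78) (nat_lit 532) (nat_lit 0) (XT.lf (nat_lit 0) (nat_lit 172260824) (nat_lit 380) (nat_lit 1593240186) (nat_lit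 380) (nat_lit 1593240186) (nat_lit 115) (nat_lit 4) (nat_lit 120) (nat_lit 5) (nat_lit 120) (nat_lit 4) (nat_lit 266) (nat_lit 257) (nat_lit 257)) (XT.lf (nat_lit 0) (nat_lit 75781645) (nat_lit 456) (nat_lit 1503245655) (nat_lit 532) (nat_lit 5242872764) (nat_lit 108) (nat_lit 5) (nat_lit 114) (nat_lit 5) (nat_lit 115) (nat_lit 4) (nat_lit 267) (nat_lit 257) (nat_lit 256))))))) (XT.nd (nat_lit 780) (nat_lit 2280) (nat_lit 0) (XT.nd (nat_lit 390) (nat_lit 1672) (nat_lit 0) (XT.nd (nat_lit 156) (nat_lit 1900) (nat_lit 0) (XT.nd (nat_lit 78) (nat_lit 608) (nat_lit 0) (XT.lf (nat_lit 0) (nat_lit 6328446614) (nat_lit 532) (nat_lit 89160707) (nat_lit 0) (nat_lit 530081016) (nat_lit 108) (nat_lit 5) (nat_lit 115) (nat_lit 4) (nat_lit 108) (nat_lit 4) (nat_lit 268) (nat_lit 257) (nat_lit 255)) (XT.lf (nat_lit 0) (nat_lit 3988157840) (nat_lit 608) (nat_lit 203823291) (nat_lit 76) (nat_lit 2901635356)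 (nat_lit 100) (nat_lit 5) (nat_lit 108) (nat_lit 5) (nat_lit 101) (nat_lit 4) (nat_lit 269) (nat_lit 257) (nat_lit 254))) (XT.nd (nat_lit 78) (nat_lit 1216) (nat_lit 0) (XT.lf (nat_lit 0) (nat_lit 1385380909) (nat_lit 684) (nat_lit 230566789) (nat_lit 76) (nat_lit 5647099316) (nat_lit 91) (nat_lit 5) (nat_lit 100) (nat_lit 5) (nat_lit 92) (nat_lit 5) (nat_lit 270) (nat_lit 257) (nat_lit 253)) (XT.nd (nat_lit 78) (nat_lit 532) (nat_lit 0) (XT.lf (nat_lit 0) (nat_lit 5921984884) (nat_lit 760) (nat_lit 224194245) (nat_lit 76) (nat_lit 1308510642) (nat_lit 82) (nat_lit 5) (nat_lit 92) (nat_lit 5) (nat_lit 83) (nat_lit 4) (nat_lit 271) (nat_lit 257) (nat_lit 252)) (XT.lf (nat_lit 0) (nat_lit 2879953122) (nat_lit 532) (nat_lit 208175441) (nat_lit 76) (nat_lit 4580860646) (nat_lit 75) (nat_lit 5) (nat_lit 82) (nat_lit 5) (nat_lit 76) (nat_lit 5) (nat_lit 272) (nat_lit 257) (nat_lit 251))))) (XT.nd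 (nat_lit 156) (nat_lit 912) (nat_lit 0) (XT.nd (nat_lit 78) (nat_lit 380) (nat_lit 0) (XT.lf (nat_lit 0) (nat_lit 7412652679) (nat_lit 456) (nat_lit 158934222) (nat_lit 76) (nat_lit 337343493) (nat_lit 70) (nat_lit 5) (nat_lit 76) (nat_lit 5) (nat_lit 71) (nat_lit 4) (nat_lit 273) (nat_lit 257) (nat_lit 250)) (XT.lf (nat_lit 0) (nat_lit 3893447394) (nat_lit 380) (nat_lit 182494331) (nat_lit 76) (nat_lit 4095288008) (nat_lit 65) (nat_lit 5) (nat_lit 70) (nat_lit 5) (nat_lit 66) (nat_lit 5) (nat_lit 274) (nat_lit 257) (nat_lit 249))) (XT.nd (nat_lit 78) (nat_lit 532) (nat_lit 0) (XT.lf (nat_lit 0) (nat_lit 5232230) (nat_lit 380) (nat_lit 197410812) (nat_lit 76) (nat_lit 8259571382) (nat_lit 60) (nat_lit 5) (nat_lit 65) (nat_lit 5) (nat_lit 61) (nat_lit 5) (nat_lit 275) (nat_lit 257) (nat_lit 248)) (XT.nd (nat_lit 78) (nat_lit 304) (nat_lit 0) (XT.lf (nat_lit 0) (nat_lit 4413073117) (nat_lit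 304) (nat_lit 353051608) (nat_lit 76) (nat_lit 4010813064) (nat_lit 57) (nat_lit 5) (nat_lit 61) (nat_lit 5) (nat_lit 58) (nat_lit 5) (nat_lit 276) (nat_lit 257) (nat_lit 247)) (XT.lf (nat_lit 0) (nat_lit 8572027090) (nat_lit 304) (nat_lit 486096551) (nat_lit 380) (nat_lit 65013270) (nat_lit 53) (nat_lit 5) (nat_lit 57) (nat_lit 5) (nat_lit 58) (nat_lit 5) (nat_lit 277) (nat_lit 257) (nat_lit 246)))))) (XT.nd (nat_lit 390) (nat_lit 988) (nat_lit 0) (XT.nd (nat_lit 156) (nat_lit 760) (nat_lit 0) (XT.nd (nat_lit 78) (nat_lit 228) (nat_lit 0) (XT.lf (nat_lit 0) (nat_lit 4392407032) (nat_lit 304) (nat_lit 953723373) (nat_lit 76) (nat_lit 4149733856) (nat_lit 49) (nat_lit 5) (nat_lit 53) (nat_lit 5) (nat_lit 50) (nat_lit 5) (nat_lit 278) (nat_lit 257) (nat_lit 245)) (XT.lf (nat_lit 0) (nat_lit 8429173759) (nat_lit 228) (nat_lit 690464567) (nat_lit 304) (nat_lit 783373736) (nat_lit 46) (nat_lit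 5) (nat_lit 49) (nat_lit 5) (nat_lit 50) (nat_lit 5) (nat_lit 279) (nat_lit 257) (nat_lit 244))) (XT.nd (nat_lit 78) (nat_lit 456) (nat_lit 0) (XT.lf (nat_lit 0) (nat_lit 3746382920) (nat_lit 304) (nat_lit 2269132679) (nat_lit 76) (nat_lit 4325148611) (nat_lit 42) (nat_lit 5) (nat_lit 46) (nat_lit 5) (nat_lit 43) (nat_lit 5) (nat_lit 280) (nat_lit 257) (nat_lit 243)) (XT.nd (nat_lit 78) (nat_lit 228) (nat_lit 0) (XT.lf (nat_lit 0) (nat_lit 7530739066) (nat_lit 228) (nat_lit 1021309815) (nat_lit 304) (nat_lit 2263940176) (nat_lit 39) (nat_lit 5) (nat_lit 42) (nat_lit 5) (nat_lit 43) (nat_lit 5) (nat_lit 281) (nat_lit 257) (nat_lit 242)) (XT.lf (nat_lit 0) (nat_lit 2343894773) (nat_lit 228) (nat_lit 4654787786) (nat_lit 76) (nat_lit 4328669008) (nat_lit 36) (nat_lit 5) (nat_lit 39) (nat_lit 5) (nat_lit 37) (nat_lit 5) (nat_lit 282) (nat_lit 257) (nat_lit 241))))) (XT.nd (nat_lit 234) (nat_lit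 380) (nat_lit 0) (XT.nd (nat_lit 78) (nat_lit 380) (nat_lit 0) (XT.lf (nat_lit 0) (nat_lit 5491353290) (nat_lit 228) (nat_lit 1714283447) (nat_lit 304) (nat_lit 4674187655) (nat_lit 33) (nat_lit 5) (nat_lit 36) (nat_lit 5) (nat_lit 37) (nat_lit 5) (nat_lit 283) (nat_lit 257) (nat_lit 240)) (XT.nd (nat_lit 78) (nat_lit 228) (nat_lit 0) (XT.lf (nat_lit 0) (nat_lit 3913633888) (nat_lit 152) (nat_lit 8559686258) (nat_lit 228) (nat_lit 2590423) (nat_lit 31) (nat_lit 5) (nat_lit 33) (nat_lit 5) (nat_lit 34) (nat_lit 4) (nat_lit 284) (nat_lit 257) (nat_lit 239)) (XT.lf (nat_lit 0) (nat_lit 1818102147) (nat_lit 152) (nat_lit 3051247679) (nat_lit 228) (nat_lit 8247230789) (nat_lit 28) (nat_lit 5) (nat_lit 30) (nat_lit 5) (nat_lit 31) (nat_lit 5) (nat_lit 285) (nat_lit 257) (nat_lit 238)))) (XT.nd (nat_lit 78) (nat_lit 380) (nat_lit 0) (XT.lf (nat_lit 0) (nat_lit 10153123213) (nat_lit 228) (nat_lit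 793617559) (nat_lit 76) (nat_lit 2860869826) (nat_lit 28) (nat_lit 5) (nat_lit 31) (nat_lit 5) (nat_lit 29) (nat_lit 4) (nat_lit 286) (nat_lit 257) (nat_lit 237)) (XT.nd (nat_lit 78) (nat_lit 152) (nat_lit 0) (XT.lf (nat_lit 0) (nat_lit 1319492328) (nat_lit 228) (nat_lit 3992653475) (nat_lit 76) (nat_lit 9238168848) (nat_lit 25) (nat_lit 5) (nat_lit 28) (nat_lit 5) (nat_lit 26) (nat_lit 5) (nat_lit 287) (nat_lit 257) (nat_lit 236)) (XT.lf (nat_lit 0) (nat_lit 6552293655) (nat_lit 228) (nat_lit 7948300772) (nat_lit 76) (nat_lit 849575282) (nat_lit 23) (nat_lit 5) (nat_lit 26) (nat_lit 5) (nat_lit 24) (nat_lit 4) (nat_lit 288) (nat_lit 257) (nat_lit 235))))))))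
noncomputable def xc42 : XT := (XT.nd (nat_lit 1638) (nat_lit 304) (nat_lit 0) (XT.nd (nat_lit 780) (nat_lit 456) (nat_lit 0) (XT.nd (nat_lit 390) (nat_lit 456) (nat_lit 0) (XT.nd (nat_lit 156) (nat_lit 228) (nat_lit 0) (XT.nd (nat_lit 78) (nat_lit 76) (nat_lit 0) (XT.lf (nat_lit 0) (nat_lit 3410394450) (nat_lit 76) (nat_lit 8856861051) (nat_lit 152) (nat_lit 3943744828) (nat_lit 22) (nat_lit 5) (nat_lit 23) (nat_lit 5) (nat_lit 24) (nat_lit 4) (nat_lit 289) (nat_lit 257) (nat_lit 234)) (XT.lf (nat_lit 0) (nat_lit 1252822930) (nat_lit 152) (nat_lit 1436906230) (nat_lit 76) (nat_lit 14450315355) (nat_lit 21) (nat_lit 5) (nat_lit 23) (nat_lit 5) (nat_lit 22) (nat_lit 5) (nat_lit 290) (nat_lit 257) (nat_lit 233))) (XT.nd (nat_lit 78) (nat_lit 76) (nat_lit 0) (XT.lf (nat_lit 0) (nat_lit 6829038853) (nat_lit 228) (nat_lit 7309101824) (nat_lit 76) (nat_lit 3997068252) (nat_lit 19) (nat_lit 5)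 (nat_lit 22) (nat_lit 5) (nat_lit 20) (nat_lit 4) (nat_lit 291) (nat_lit 257) (nat_lit 232)) (XT.nd (nat_lit 78) (nat_lit 0) (nat_lit 0) (XT.lf (nat_lit 0) (nat_lit 4800966013) (nat_lit 76) (nat_lit 8067074342) (nat_lit 152) (nat_lit 6341235699) (nat_lit 18) (nat_lit 5) (nat_lit 19) (nat_lit 5) (nat_lit 20) (nat_lit 4) (nat_lit 292) (nat_lit 257) (nat_lit 231)) (XT.lf (nat_lit 0) (nat_lit 17930722710) (nat_lit 76) (nat_lit 1463976396) (nat_lit 152) (nat_lit 974457375) (nat_lit 18) (nat_lit 5) (nat_lit 19) (nat_lit 5) (nat_lit 20) (nat_lit 4) (nat_lit 293) (nat_lit 257) (nat_lit 230))))) (XT.nd (nat_lit 156) (nat_lit 152) (nat_lit 0) (XT.nd (nat_lit 78) (nat_lit 76) (nat_lit 0) (XT.lf (nat_lit 0) (nat_lit 4807573435) (nat_lit 228) (nat_lit 11153801652) (nat_lit 76) (nat_lit 5649777820) (nat_lit 15) (nat_lit 5) (nat_lit 18) (nat_lit 5) (nat_lit 16) (nat_lit 4) (nat_lit 294) (nat_lit 257)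 (nat_lit 229)) (XT.lf (nat_lit 0) (nat_lit 1327972771) (nat_lit 76) (nat_lit 9667803568) (nat_lit 152) (nat_lit 11957140205) (nat_lit 14) (nat_lit 5) (nat_lit 15) (nat_lit 5) (nat_lit 16) (nat_lit 4) (nat_lit 295) (nat_lit 257) (nat_lit 228))) (XT.nd (nat_lit 78) (nat_lit 152) (nat_lit 0) (XT.lf (nat_lit 0) (nat_lit 15020820429) (nat_lit 76) (nat_lit 2746553471) (nat_lit 152) (nat_lit 6630317234) (nat_lit 14) (nat_lit 5) (nat_lit 15) (nat_lit 5) (nat_lit 16) (nat_lit 4) (nat_lit 296) (nat_lit 257) (nat_lit 227)) (XT.nd (nat_lit 78) (nat_lit 76) (nat_lit 0) (XT.lf (nat_lit 0) (nat_lit 3720464136) (nat_lit 76) (nat_lit 21392886525) (nat_lit 76) (nat_lit 843144817) (nat_lit 13) (nat_lit 4) (nat_lit 14) (nat_lit 5) (nat_lit 14) (nat_lit 4) (nat_lit 297) (nat_lit 257) (nat_lit 226)) (XT.lf (nat_lit 0) (nat_lit 5350117974) (nat_lit 152) (nat_lit 9736261523) (nat_lit 76) (nat_lit 12543665891)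 (nat_lit 12) (nat_lit 5) (nat_lit 14) (nat_lit 5) (nat_lit 13) (nat_lit 4) (nat_lit 298) (nat_lit 257) (nat_lit 225)))))) (XT.nd (nat_lit 390) (nat_lit 228) (nat_lit 0) (XT.nd (nat_lit 156) (nat_lit 152) (nat_lit 0) (XT.nd (nat_lit 78) (nat_lit 0) (nat_lit 0) (XT.lf (nat_lit 0) (nat_lit 3709244639) (nat_lit 76) (nat_lit 8269332376) (nat_lit 152) (nat_lit 17459813039) (nat_lit 11) (nat_lit 5) (nat_lit 12) (nat_lit 5) (nat_lit 13) (nat_lit 4) (nat_lit 299) (nat_lit 257) (nat_lit 224)) (XT.lf (nat_lit 0) (nat_lit 18426221741) (nat_lit 76) (nat_lit 795882890) (nat_lit 152) (nat_lit 12165118820) (nat_lit 11) (nat_lit 5) (nat_lit 12) (nat_lit 5) (nat_lit 13) (nat_lit 4) (nat_lit 300) (nat_lit 257) (nat_lit 223))) (XT.nd (nat_lit 78) (nat_lit 76) (nat_lit 0) (XT.lf (nat_lit 0) (nat_lit 590282516) (nat_lit 76) (nat_lit 26498143289) (nat_lit 76) (nat_lit 6401428399) (nat_lit 10) (nat_lit 4) (nat_lit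 11) (nat_lit 5) (nat_lit 11) (nat_lit 4) (nat_lit 301) (nat_lit 257) (nat_lit 222)) (XT.nd (nat_lit 78) (nat_lit 76) (nat_lit 0) (XT.lf (nat_lit 0) (nat_lit 15537266526) (nat_lit 76) (nat_lit 20210011084) (nat_lit 76) (nat_lit 5308645) (nat_lit 10) (nat_lit 4) (nat_lit 11) (nat_lit 5) (nat_lit 11) (nat_lit 4) (nat_lit 302) (nat_lit 257) (nat_lit 221)) (XT.lf (nat_lit 0) (nat_lit 6610241288) (nat_lit 152) (nat_lit 6753696270) (nat_lit 76) (nat_lit 24830623687) (nat_lit 9) (nat_lit 5) (nat_lit 11) (nat_lit 5) (nat_lit 10) (nat_lit 4) (nat_lit 303) (nat_lit 257) (nat_lit 220))))) (XT.nd (nat_lit 234) (nat_lit 152) (nat_lit 0) (XT.nd (nat_lit 78) (nat_lit 0) (nat_lit 0) (XT.lf (nat_lit 0) (nat_lit 7918198161) (nat_lit 76) (nat_lit 5894226711) (nat_lit 152) (nat_lit 27016628754) (nat_lit 8) (nat_lit 5) (nat_lit 9) (nat_lit 5) (nat_lit 10) (nat_lit 4) (nat_lit 304) (nat_lit 257) (nat_lit 219))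 (XT.nd (nat_lit 78) (nat_lit 0) (nat_lit 0) (XT.lf (nat_lit 0) (nat_lit 21680523586) (nat_lit 152) (nat_lit 19816426610) (nat_lit 0) (nat_lit 2172907560) (nat_lit 8) (nat_lit 5) (nat_lit 10) (nat_lit 4) (nat_lit 8) (nat_lit 4) (nat_lit 305) (nat_lit 257) (nat_lit 218)) (XT.lf (nat_lit 0) (nat_lit 30218419874) (nat_lit 152) (nat_lit 5882315824) (nat_lit 0) (nat_lit 10635209493) (nat_lit 8) (nat_lit 5) (nat_lit 10) (nat_lit 4) (nat_lit 8) (nat_lit 4) (nat_lit 306) (nat_lit 257) (nat_lit 217)))) (XT.nd (nat_lit 78) (nat_lit 76) (nat_lit 0) (XT.lf (nat_lit 0) (nat_lit 9365840173) (nat_lit 76) (nat_lit 30165070121) (nat_lit 76) (nat_lit 10511864966) (nat_lit 7) (nat_lit 4) (nat_lit 8) (nat_lit 5) (nat_lit 8) (nat_lit 4) (nat_lit 307) (nat_lit 257) (nat_lit 216)) (XT.nd (nat_lit 78) (nat_lit 76) (nat_lit 0) (XT.lf (nat_lit 0) (nat_lit 25947820617) (nat_lit 76) (nat_lit 23690929986) (nat_lit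 76) (nat_lit 3972914857) (nat_lit 7) (nat_lit 4) (nat_lit 8) (nat_lit 5) (nat_lit 8) (nat_lit 4) (nat_lit 308) (nat_lit 257) (nat_lit 215)) (XT.lf (nat_lit 0) (nat_lit 2941204959) (nat_lit 152) (nat_lit 13748554197) (nat_lit 76) (nat_lit 40776377479) (nat_lit 6) (nat_lit 5) (nat_lit 8) (nat_lit 5) (nat_lit 7) (nat_lit 4) (nat_lit 309) (nat_lit 257) (nat_lit 214))))))) (XT.nd (nat_lit 780) (nat_lit 152) (nat_lit 0) (XT.nd (nat_lit 390) (nat_lit 76) (nat_lit 0) (XT.nd (nat_lit 156) (nat_lit 0) (nat_lit 0) (XT.nd (nat_lit 78) (nat_lit 0) (nat_lit 0) (XT.lf (nat_lit 0) (nat_lit 1166396910) (nat_lit 76) (nat_lit 9077498398) (nat_lit 152) (nat_lit 51383107606) (nat_lit 5) (nat_lit 5) (nat_lit 6) (nat_lit 5) (nat_lit 7) (nat_lit 4) (nat_lit 310) (nat_lit 257) (nat_lit 213)) (XT.lf (nat_lit 0) (nat_lit 17685242743) (nat_lit 76) (nat_lit 641722848) (nat_lit 152) (nat_lit 47783988301) (nat_lit 5)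 (nat_lit 5) (nat_lit 6) (nat_lit 5) (nat_lit 7) (nat_lit 4) (nat_lit 311) (nat_lit 257) (nat_lit 212))) (XT.nd (nat_lit 78) (nat_lit 0) (nat_lit 0) (XT.lf (nat_lit 0) (nat_lit 27148254209) (nat_lit 152) (nat_lit 35636054811) (nat_lit 0) (nat_lit 8164755174) (nat_lit 5) (nat_lit 5) (nat_lit 7) (nat_lit 4) (nat_lit 5) (nat_lit 4) (nat_lit 312) (nat_lit 257) (nat_lit 211)) (XT.nd (nat_lit 78) (nat_lit 0) (nat_lit 0) (XT.lf (nat_lit 0) (nat_lit 36648426924) (nat_lit 152) (nat_lit 21904237892) (nat_lit 0) (nat_lit 17622919717) (nat_lit 5) (nat_lit 5) (nat_lit 7) (nat_lit 4) (nat_lit 5) (nat_lit 4) (nat_lit 313) (nat_lit 257) (nat_lit 210)) (XT.lf (nat_lit 0) (nat_lit 46873761963) (nat_lit 152) (nat_lit 7138867570) (nat_lit 0) (nat_lit 27809358301) (nat_lit 5) (nat_lit 5) (nat_lit 7) (nat_lit 4) (nat_lit 5) (nat_lit 4) (nat_lit 314) (nat_lit 257) (nat_lit 209))))) (XT.nd (nat_lit 156) (nat_lit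 0) (nat_lit 0) (XT.nd (nat_lit 78) (nat_lit 0) (nat_lit 0) (XT.lf (nat_lit 0) (nat_lit 9036788307) (nat_lit 76) (nat_lit 48989155187) (nat_lit 76) (nat_lit 29888736290) (nat_lit 4) (nat_lit 4) (nat_lit 5) (nat_lit 5) (nat_lit 5) (nat_lit 4) (nat_lit 315) (nat_lit 257) (nat_lit 208)) (XT.lf (nat_lit 0) (nat_lit 26703860833) (nat_lit 76) (nat_lit 43460014935) (nat_lit 76) (nat_lit 24326248597) (nat_lit 4) (nat_lit 4) (nat_lit 5) (nat_lit 5) (nat_lit 5) (nat_lit 4) (nat_lit 316) (nat_lit 257) (nat_lit 207))) (XT.nd (nat_lit 78) (nat_lit 0) (nat_lit 0) (XT.lf (nat_lit 0) (nat_lit 45731000566) (nat_lit 76) (nat_lit 37513343677) (nat_lit 76) (nat_lit 18348700079) (nat_lit 4) (nat_lit 4) (nat_lit 5) (nat_lit 5) (nat_lit 5) (nat_lit 4) (nat_lit 317) (nat_lit 257) (nat_lit 206)) (XT.nd (nat_lit 78) (nat_lit 0) (nat_lit 0) (XT.lf (nat_lit 0) (nat_lit 66230960929) (nat_lit 76) (nat_lit 31113901880)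 (nat_lit 76) (nat_lit 11920668226) (nat_lit 4) (nat_lit 4) (nat_lit 5) (nat_lit 5) (nat_lit 5) (nat_lit 4) (nat_lit 318) (nat_lit 257) (nat_lit 205)) (XT.lf (nat_lit 0) (nat_lit 88325223168) (nat_lit 76) (nat_lit 24223766926) (nat_lit 76) (nat_lit 5004060999) (nat_lit 4) (nat_lit 4) (nat_lit 5) (nat_lit 5) (nat_lit 5) (nat_lit 4) (nat_lit 319) (nat_lit 257) (nat_lit 204)))))) (XT.nd (nat_lit 390) (nat_lit 0) (nat_lit 0) (XT.nd (nat_lit 156) (nat_lit 0) (nat_lit 0) (XT.nd (nat_lit 78) (nat_lit 76) (nat_lit 0) (XT.lf (nat_lit 0) (nat_lit 2363946169) (nat_lit 152) (nat_lit 14398127644) (nat_lit 76) (nat_lit 109740735502) (nat_lit 3) (nat_lit 5) (nat_lit 5) (nat_lit 5) (nat_lit 4) (nat_lit 4) (nat_lit 320) (nat_lit 257) (nat_lit 203)) (XT.lf (nat_lit 0) (nat_lit 1543068069) (nat_lit 76) (nat_lit 8608142208) (nat_lit 152) (nat_lit 126012989940) (nat_lit 2) (nat_lit 5) (nat_lit 3) (nat_lit 5)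 (nat_lit 4) (nat_lit 4) (nat_lit 321) (nat_lit 257) (nat_lit 202))) (XT.nd (nat_lit 78) (nat_lit 0) (nat_lit 0) (XT.lf (nat_lit 0) (nat_lit 18798868608) (nat_lit 152) (nat_lit 127358358976) (nat_lit 0) (nat_lit 429413804) (nat_lit 2) (nat_lit 5) (nat_lit 4) (nat_lit 4) (nat_lit 2) (nat_lit 4) (nat_lit 322) (nat_lit 257) (nat_lit 201)) (XT.nd (nat_lit 78) (nat_lit 0) (nat_lit 0) (XT.lf (nat_lit 0) (nat_lit 28264416819) (nat_lit 152) (nat_lit 119695735443) (nat_lit 0) (nat_lit 9876430671) (nat_lit 2) (nat_lit 5) (nat_lit 4) (nat_lit 4) (nat_lit 2) (nat_lit 4) (nat_lit 323) (nat_lit 257) (nat_lit 200)) (XT.lf (nat_lit 0) (nat_lit 38469549821) (nat_lit 152) (nat_lit 111453456185) (nat_lit 0) (nat_lit 20064405021) (nat_lit 2) (nat_lit 5) (nat_lit 4) (nat_lit 4) (nat_lit 2) (nat_lit 4) (nat_lit 324) (nat_lit 257) (nat_lit 199))))) (XT.nd (nat_lit 234) (nat_lit 0) (nat_lit 0) (XT.nd (nat_lit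 78) (nat_lit 0) (nat_lit 0) (XT.lf (nat_lit 0) (nat_lit 49474742479) (nat_lit 152) (nat_lit 102582678067) (nat_lit 0) (nat_lit 31053710037) (nat_lit 2) (nat_lit 5) (nat_lit 4) (nat_lit 4) (nat_lit 2) (nat_lit 4) (nat_lit 325) (nat_lit 257) (nat_lit 198)) (XT.nd (nat_lit 78) (nat_lit 0) (nat_lit 0) (XT.lf (nat_lit 0) (nat_lit 61345210747) (nat_lit 152) (nat_lit 93030833515) (nat_lit 0) (nat_lit 42909467527) (nat_lit 2) (nat_lit 5) (nat_lit 4) (nat_lit 4) (nat_lit 2) (nat_lit 4) (nat_lit 326) (nat_lit 257) (nat_lit 197)) (XT.lf (nat_lit 0) (nat_lit 74151298142) (nat_lit 152) (nat_lit 82741319005) (nat_lit 0) (nat_lit 55701933831) (nat_lit 2) (nat_lit 5) (nat_lit 4) (nat_lit 4) (nat_lit 2) (nat_lit 4) (nat_lit 327) (nat_lit 257) (nat_lit 196)))) (XT.nd (nat_lit 78) (nat_lit 0) (nat_lit 0) (XT.lf (nat_lit 0) (nat_lit 87968892589) (nat_lit 152) (nat_lit 71653159636) (nat_lit 0) (nat_lit 69506916156)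 (nat_lit 2) (nat_lit 5) (nat_lit 4) (nat_lit 4) (nat_lit 2) (nat_lit 4) (nat_lit 328) (nat_lit 257) (nat_lit 195)) (XT.nd (nat_lit 78) (nat_lit 0) (nat_lit 0) (XT.lf (nat_lit 0) (nat_lit 102879876129) (nat_lit 152) (nat_lit 59700647798) (nat_lit 0) (nat_lit 84406221806) (nat_lit 2) (nat_lit 5) (nat_lit 4) (nat_lit 4) (nat_lit 2) (nat_lit 4) (nat_lit 329) (nat_lit 257) (nat_lit 194)) (XT.lf (nat_lit 0) (nat_lit 118972610146) (nat_lit 152) (nat_lit 46812953790) (nat_lit 0) (nat_lit 100488142962) (nat_lit 2) (nat_lit 5) (nat_lit 4) (nat_lit 4) (nat_lit 2) (nat_lit 4) (nat_lit 330) (nat_lit 257) (nat_lit 193))))))))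
noncomputable def xc43 : XT := (XT.nd (nat_lit 35568) (nat_lit 0) (nat_lit 1900) (XT.nd (nat_lit 780) (nat_lit 0) (nat_lit 0) (XT.nd (nat_lit 390) (nat_lit 0) (nat_lit 0) (XT.nd (nat_lit 156) (nat_lit 76) (nat_lit 0) (XT.nd (nat_lit 78) (nat_lit 0) (nat_lit 0) (XT.lf (nat_lit 0) (nat_lit 136342458990) (nat_lit 152) (nat_lit 32913706092) (nat_lit 0) (nat_lit 117847979897) (nat_lit 2) (nat_lit 5) (nat_lit 4) (nat_lit 4) (nat_lit 2) (nat_lit 4) (nat_lit 331) (nat_lit 257) (nat_lit 192)) (XT.lf (nat_lit 0) (nat_lit 155092355098) (nat_lit 152) (nat_lit 17920538793) (nat_lit 0) (nat_lit 136588605720) (nat_lit 2) (nat_lit 5) (nat_lit 4) (nat_lit 4) (nat_lit 2) (nat_lit 4) (nat_lit 332) (nat_lit 257) (nat_lit 191))) (XT.nd (nat_lit 78) (nat_lit 76) (nat_lit 0) (XT.lf (nat_lit 0) (nat_lit 175333408967) (nat_lit 152) (nat_lit 1744603493) (nat_lit 0) (nat_lit 156821075990) (nat_lit 2) (nat_lit 5)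 (nat_lit 4) (nat_lit 4) (nat_lit 2) (nat_lit 4) (nat_lit 333) (nat_lit 257) (nat_lit 190)) (XT.nd (nat_lit 78) (nat_lit 0) (nat_lit 0) (XT.lf (nat_lit 0) (nat_lit 16229399334) (nat_lit 76) (nat_lit 181209554653) (nat_lit 76) (nat_lit 162689273900) (nat_lit 1) (nat_lit 4) (nat_lit 2) (nat_lit 5) (nat_lit 2) (nat_lit 4) (nat_lit 334) (nat_lit 257) (nat_lit 189)) (XT.lf (nat_lit 0) (nat_lit 35688843601) (nat_lit 76) (nat_lit 185646684479) (nat_lit 76) (nat_lit 167119044675) (nat_lit 1) (nat_lit 4) (nat_lit 2) (nat_lit 5) (nat_lit 2) (nat_lit 4) (nat_lit 335) (nat_lit 257) (nat_lit 188))))) (XT.nd (nat_lit 156) (nat_lit 0) (nat_lit 0) (XT.nd (nat_lit 78) (nat_lit 0) (nat_lit 0) (XT.lf (nat_lit 0) (nat_lit 56691360061) (nat_lit 76) (nat_lit 190445241747) (nat_lit 76) (nat_lit 171910788006) (nat_lit 1) (nat_lit 4) (nat_lit 2) (nat_lit 5) (nat_lit 2) (nat_lit 4) (nat_lit 336) (nat_lit 257) (nat_lit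 187)) (XT.lf (nat_lit 0) (nat_lit 79361408072) (nat_lit 76) (nat_lit 195633662351) (nat_lit 76) (nat_lit 177092899409) (nat_lit 1) (nat_lit 4) (nat_lit 2) (nat_lit 5) (nat_lit 2) (nat_lit 4) (nat_lit 337) (nat_lit 257) (nat_lit 186))) (XT.nd (nat_lit 78) (nat_lit 0) (nat_lit 0) (XT.lf (nat_lit 0) (nat_lit 103833328658) (nat_lit 76) (nat_lit 201242692486) (nat_lit 76) (nat_lit 182696087692) (nat_lit 1) (nat_lit 4) (nat_lit 2) (nat_lit 5) (nat_lit 2) (nat_lit 4) (nat_lit 338) (nat_lit 257) (nat_lit 185)) (XT.nd (nat_lit 78) (nat_lit 0) (nat_lit 0) (XT.lf (nat_lit 0) (nat_lit 130252140608) (nat_lit 76) (nat_lit 207305570851) (nat_lit 76) (nat_lit 188753556935) (nat_lit 1) (nat_lit 4) (nat_lit 2) (nat_lit 5) (nat_lit 2) (nat_lit 4) (nat_lit 339) (nat_lit 257) (nat_lit 184)) (XT.lf (nat_lit 0) (nat_lit 158774399845) (nat_lit 76) (nat_lit 213858225614) (nat_lit 76) (nat_lit 195301203250) (nat_lit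 1) (nat_lit 4) (nat_lit 2) (nat_lit 5) (nat_lit 2) (nat_lit 4) (nat_lit 340) (nat_lit 257) (nat_lit 183)))))) (XT.nd (nat_lit 390) (nat_lit 0) (nat_lit 0) (XT.nd (nat_lit 156) (nat_lit 0) (nat_lit 0) (XT.nd (nat_lit 78) (nat_lit 0) (nat_lit 0) (XT.lf (nat_lit 0) (nat_lit 189569127165) (nat_lit 76) (nat_lit 220939487320) (nat_lit 76) (nat_lit 202377827505) (nat_lit 1) (nat_lit 4) (nat_lit 2) (nat_lit 5) (nat_lit 2) (nat_lit 4) (nat_lit 341) (nat_lit 257) (nat_lit 182)) (XT.lf (nat_lit 0) (nat_lit 222818809839) (nat_lit 76) (nat_lit 228591319003) (nat_lit 76) (nat_lit 210025365252) (nat_lit 1) (nat_lit 4) (nat_lit 2) (nat_lit 5) (nat_lit 2) (nat_lit 4) (nat_lit 342) (nat_lit 257) (nat_lit 181))) (XT.nd (nat_lit 78) (nat_lit 0) (nat_lit 0) (XT.lf (nat_lit 0) (nat_lit 258720483026) (nat_lit 76) (nat_lit 236859064850) (nat_lit 76) (nat_lit 218289135233) (nat_lit 1) (nat_lit 4) (nat_lit 2) (nat_lit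 5) (nat_lit 2) (nat_lit 4) (nat_lit 343) (nat_lit 257) (nat_lit 180)) (XT.nd (nat_lit 78) (nat_lit 0) (nat_lit 0) (XT.lf (nat_lit 0) (nat_lit 297486897381) (nat_lit 76) (nat_lit 245791718911) (nat_lit 76) (nat_lit 227218107935) (nat_lit 1) (nat_lit 4) (nat_lit 2) (nat_lit 5) (nat_lit 2) (nat_lit 4) (nat_lit 344) (nat_lit 257) (nat_lit 179)) (XT.lf (nat_lit 0) (nat_lit 339347779803) (nat_lit 76) (nat_lit 255442215431) (nat_lit 76) (nat_lit 236865195791) (nat_lit 1) (nat_lit 4) (nat_lit 2) (nat_lit 5) (nat_lit 2) (nat_lit 4) (nat_lit 345) (nat_lit 257) (nat_lit 178))))) (XT.nd (nat_lit 234) (nat_lit 0) (nat_lit 0) (XT.nd (nat_lit 78) (nat_lit 0) (nat_lit 0) (XT.lf (nat_lit 0) (nat_lit 384551194782) (nat_lit 76) (nat_lit 265867742539) (nat_lit 76) (nat_lit 247287566728) (nat_lit 1) (nat_lit 4) (nat_lit 2) (nat_lit 5) (nat_lit 2) (nat_lit 4) (nat_lit 346) (nat_lit 257) (nat_lit 177)) (XT.nd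 (nat_lit 78) (nat_lit 0) (nat_lit 0) (XT.lf (nat_lit 0) (nat_lit 433365014406) (nat_lit 76) (nat_lit 277130081136) (nat_lit 76) (nat_lit 258546982944) (nat_lit 1) (nat_lit 4) (nat_lit 2) (nat_lit 5) (nat_lit 2) (nat_lit 4) (nat_lit 347) (nat_lit 257) (nat_lit 176)) (XT.lf (nat_lit 0) (nat_lit 486078505753) (nat_lit 76) (nat_lit 289295971006) (nat_lit 76) (nat_lit 270710166906) (nat_lit 1) (nat_lit 4) (nat_lit 2) (nat_lit 5) (nat_lit 2) (nat_lit 4) (nat_lit 348) (nat_lit 257) (nat_lit 175)))) (XT.nd (nat_lit 34008) (nat_lit 0) (nat_lit 9044) (XT.lf (nat_lit 0) (nat_lit 543004045071) (nat_lit 76) (nat_lit 302437506312) (nat_lit 76) (nat_lit 283849196741) (nat_lit 1) (nat_lit 4) (nat_lit 2) (nat_lit 5) (nat_lit 2) (nat_lit 4) (nat_lit 349) (nat_lit 257) (nat_lit 174)) (XT.nd (nat_lit 78) (nat_lit 380) (nat_lit 0) (XT.lf (nat_lit 0) (nat_lit 720533328) (nat_lit 228) (nat_lit 1280401180) (nat_lit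 228) (nat_lit 1280401180) (nat_lit 125) (nat_lit 4) (nat_lit 128) (nat_lit 5) (nat_lit 128) (nat_lit 4) (nat_lit 264) (nat_lit 258) (nat_lit 258)) (XT.lf (nat_lit 0) (nat_lit 742436344) (nat_lit 304) (nat_lit 1368424496) (nat_lit 380) (nat_lit 4523948814) (nat_lit 120) (nat_lit 5) (nat_lit 124) (nat_lit 5) (nat_lit 125) (nat_lit 4) (nat_lit 265) (nat_lit 258) (nat_lit 257))))))) (XT.nd (nat_lit 858) (nat_lit 2356) (nat_lit 0) (XT.nd (nat_lit 390) (nat_lit 2584) (nat_lit 0) (XT.nd (nat_lit 156) (nat_lit 1748) (nat_lit 0) (XT.nd (nat_lit 78) (nat_lit 0) (nat_lit 0) (XT.lf (nat_lit 0) (nat_lit 12407937) (nat_lit 456) (nat_lit 6549910315) (nat_lit 76) (nat_lit 166081967) (nat_lit 114) (nat_lit 5) (nat_lit 120) (nat_lit 5) (nat_lit 115) (nat_lit 4) (nat_lit 266) (nat_lit 258) (nat_lit 256)) (XT.lf (nat_lit 0) (nat_lit 4482200738) (nat_lit 456) (nat_lit 313894629) (nat_lit 76) (nat_lit 2044567824)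 (nat_lit 114) (nat_lit 5) (nat_lit 120) (nat_lit 5) (nat_lit 115) (nat_lit 4) (nat_lit 267) (nat_lit 258) (nat_lit 255))) (XT.nd (nat_lit 78) (nat_lit 1216) (nat_lit 0) (XT.lf (nat_lit 0) (nat_lit 1994612433) (nat_lit 532) (nat_lit 695059982) (nat_lit 76) (nat_lit 4285483632) (nat_lit 107) (nat_lit 5) (nat_lit 114) (nat_lit 5) (nat_lit 108) (nat_lit 5) (nat_lit 268) (nat_lit 258) (nat_lit 254)) (XT.nd (nat_lit 78) (nat_lit 684) (nat_lit 0) (XT.lf (nat_lit 0) (nat_lit 6140764254) (nat_lit 532) (nat_lit 220280810) (nat_lit 608) (nat_lit 771140903) (nat_lit 100) (nat_lit 5) (nat_lit 107) (nat_lit 5) (nat_lit 108) (nat_lit 5) (nat_lit 269) (nat_lit 258) (nat_lit 253)) (XT.lf (nat_lit 0) (nat_lit 3463200104) (nat_lit 684) (nat_lit 1277826805) (nat_lit 76) (nat_lit 2568322053) (nat_lit 91) (nat_lit 5) (nat_lit 100) (nat_lit 5) (nat_lit 92) (nat_lit 5) (nat_lit 270) (nat_lit 258) (nat_lit 252)))))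 (XT.nd (nat_lit 234) (nat_lit 912) (nat_lit 0) (XT.nd (nat_lit 78) (nat_lit 912) (nat_lit 0) (XT.lf (nat_lit 0) (nat_lit 285665820) (nat_lit 760) (nat_lit 1499534998) (nat_lit 76) (nat_lit 5725671019) (nat_lit 81) (nat_lit 5) (nat_lit 91) (nat_lit 5) (nat_lit 82) (nat_lit 5) (nat_lit 271) (nat_lit 258) (nat_lit 251)) (XT.nd (nat_lit 78) (nat_lit 456) (nat_lit 0) (XT.lf (nat_lit 0) (nat_lit 4451214836) (nat_lit 532) (nat_lit 1739675830) (nat_lit 76) (nat_lit 1543366799) (nat_lit 75) (nat_lit 5) (nat_lit 82) (nat_lit 5) (nat_lit 76) (nat_lit 5) (nat_lit 272) (nat_lit 258) (nat_lit 250)) (XT.lf (nat_lit 0) (nat_lit 803494189) (nat_lit 456) (nat_lit 1976538256) (nat_lit 76) (nat_lit 5202408328) (nat_lit 69) (nat_lit 5) (nat_lit 75) (nat_lit 5) (nat_lit 70) (nat_lit 5) (nat_lit 273) (nat_lit 258) (nat_lit 249)))) (XT.nd (nat_lit 78) (nat_lit 608) (nat_lit 0) (XT.lf (nat_lit 0) (nat_lit 4968834438)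 (nat_lit 380) (nat_lit 2258046877) (nat_lit 76) (nat_lit 1028206732) (nat_lit 65) (nat_lit 5) (nat_lit 70) (nat_lit 5) (nat_lit 66) (nat_lit 5) (nat_lit 274) (nat_lit 258) (nat_lit 248)) (XT.nd (nat_lit 78) (nat_lit 228) (nat_lit 0) (XT.lf (nat_lit 0) (nat_lit 800977132) (nat_lit 380) (nat_lit 2598727310) (nat_lit 76) (nat_lit 5154070344) (nat_lit 60) (nat_lit 5) (nat_lit 65) (nat_lit 5) (nat_lit 61) (nat_lit 5) (nat_lit 275) (nat_lit 258) (nat_lit 247)) (XT.lf (nat_lit 0) (nat_lit 4996381763) (nat_lit 304) (nat_lit 3032543807) (nat_lit 76) (nat_lit 850447762) (nat_lit 57) (nat_lit 5) (nat_lit 61) (nat_lit 5) (nat_lit 58) (nat_lit 5) (nat_lit 276) (nat_lit 258) (nat_lit 246)))))) (XT.nd (nat_lit 390) (nat_lit 988) (nat_lit 0) (XT.nd (nat_lit 156) (nat_lit 760) (nat_lit 0) (XT.nd (nat_lit 78) (nat_lit 228) (nat_lit 0) (XT.lf (nat_lit 0) (nat_lit 240129064) (nat_lit 380) (nat_lit 3582778449)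 (nat_lit 76) (nat_lit 5410684766) (nat_lit 52) (nat_lit 5) (nat_lit 57) (nat_lit 5) (nat_lit 53) (nat_lit 5) (nat_lit 277) (nat_lit 258) (nat_lit 245)) (XT.lf (nat_lit 0) (nat_lit 4481127757) (nat_lit 304) (nat_lit 4298459073) (nat_lit 76) (nat_lit 837605964) (nat_lit 49) (nat_lit 5) (nat_lit 53) (nat_lit 5) (nat_lit 50) (nat_lit 5) (nat_lit 278) (nat_lit 258) (nat_lit 244))) (XT.nd (nat_lit 78) (nat_lit 532) (nat_lit 0) (XT.lf (nat_lit 0) (nat_lit 4828633764) (nat_lit 228) (nat_lit 4219303059) (nat_lit 304) (nat_lit 984616436) (nat_lit 46) (nat_lit 5) (nat_lit 49) (nat_lit 5) (nat_lit 50) (nat_lit 5) (nat_lit 279) (nat_lit 258) (nat_lit 243)) (XT.nd (nat_lit 78) (nat_lit 228) (nat_lit 0) (XT.lf (nat_lit 0) (nat_lit 3332113673) (nat_lit 304) (nat_lit 6343053772) (nat_lit 76) (nat_lit 806337360) (nat_lit 42) (nat_lit 5) (nat_lit 46) (nat_lit 5) (nat_lit 43) (nat_lit 5) (nat_lit 280) (nat_lit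 258) (nat_lit 242)) (XT.lf (nat_lit 0) (nat_lit 3181331494) (nat_lit 228) (nat_lit 4792964253) (nat_lit 304) (nat_lit 2990864505) (nat_lit 39) (nat_lit 5) (nat_lit 42) (nat_lit 5) (nat_lit 43) (nat_lit 5) (nat_lit 281) (nat_lit 258) (nat_lit 241))))) (XT.nd (nat_lit 234) (nat_lit 532) (nat_lit 0) (XT.nd (nat_lit 78) (nat_lit 228) (nat_lit 0) (XT.lf (nat_lit 0) (nat_lit 1412610781) (nat_lit 228) (nat_lit 9525612432) (nat_lit 76) (nat_lit 550386230) (nat_lit 36) (nat_lit 5) (nat_lit 39) (nat_lit 5) (nat_lit 37) (nat_lit 5) (nat_lit 282) (nat_lit 258) (nat_lit 240)) (XT.nd (nat_lit 78) (nat_lit 0) (nat_lit 0) (XT.lf (nat_lit 0) (nat_lit 323525548) (nat_lit 228) (nat_lit 5782186910) (nat_lit 304) (nat_lit 5943929532) (nat_lit 33) (nat_lit 5) (nat_lit 36) (nat_lit 5) (nat_lit 37) (nat_lit 5) (nat_lit 283) (nat_lit 258) (nat_lit 239)) (XT.lf (nat_lit 0) (nat_lit 11038918338) (nat_lit 228) (nat_lit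 127789249) (nat_lit 304) (nat_lit 1489473244) (nat_lit 33) (nat_lit 5) (nat_lit 36) (nat_lit 5) (nat_lit 37) (nat_lit 5) (nat_lit 284) (nat_lit 258) (nat_lit 238)))) (XT.nd (nat_lit 78) (nat_lit 304) (nat_lit 0) (XT.lf (nat_lit 0) (nat_lit 3291973437) (nat_lit 228) (nat_lit 4107063310) (nat_lit 76) (nat_lit 5905983280) (nat_lit 30) (nat_lit 5) (nat_lit 33) (nat_lit 5) (nat_lit 31) (nat_lit 5) (nat_lit 285) (nat_lit 258) (nat_lit 237)) (XT.nd (nat_lit 78) (nat_lit 152) (nat_lit 0) (XT.lf (nat_lit 0) (nat_lit 6880317412) (nat_lit 152) (nat_lit 1505975981) (nat_lit 228) (nat_lit 5619325841) (nat_lit 28) (nat_lit 5) (nat_lit 30) (nat_lit 5) (nat_lit 31) (nat_lit 5) (nat_lit 286) (nat_lit 258) (nat_lit 236)) (XT.lf (nat_lit 0) (nat_lit 3944242520) (nat_lit 152) (nat_lit 10004315566) (nat_lit 228) (nat_lit 810874283) (nat_lit 26) (nat_lit 5) (nat_lit 28) (nat_lit 5) (nat_lit 29) (nat_lit 4)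 (nat_lit 287) (nat_lit 258) (nat_lit 235))))))))
noncomputable def xc44 : XT := (XT.nd (nat_lit 1638) (nat_lit 380) (nat_lit 0) (XT.nd (nat_lit 780) (nat_lit 532) (nat_lit 0) (XT.nd (nat_lit 390) (nat_lit 380) (nat_lit 0) (XT.nd (nat_lit 156) (nat_lit 304) (nat_lit 0) (XT.nd (nat_lit 78) (nat_lit 0) (nat_lit 0) (XT.lf (nat_lit 0) (nat_lit 264912798) (nat_lit 152) (nat_lit 3988027111) (nat_lit 228) (nat_lit 11316806365) (nat_lit 23) (nat_lit 5) (nat_lit 25) (nat_lit 5) (nat_lit 26) (nat_lit 5) (nat_lit 288) (nat_lit 258) (nat_lit 234)) (XT.lf (nat_lit 0) (nat_lit 9785630850) (nat_lit 228) (nat_lit 4103444847) (nat_lit 76) (nat_lit 2550687736) (nat_lit 23) (nat_lit 5) (nat_lit 26) (nat_lit 5) (nat_lit 24) (nat_lit 4) (nat_lit 289) (nat_lit 258) (nat_lit 233))) (XT.nd (nat_lit 78) (nat_lit 228) (nat_lit 0) (XT.lf (nat_lit 0) (nat_lit 7969219363) (nat_lit 76) (nat_lit 7854808597) (nat_lit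 152) (nat_lit 1552340047) (nat_lit 22) (nat_lit 5) (nat_lit 23) (nat_lit 5) (nat_lit 24) (nat_lit 4) (nat_lit 290) (nat_lit 258) (nat_lit 232)) (XT.nd (nat_lit 78) (nat_lit 0) (nat_lit 0) (XT.lf (nat_lit 0) (nat_lit 2581930410) (nat_lit 152) (nat_lit 1237602229) (nat_lit 228) (nat_lit 14565972595) (nat_lit 19) (nat_lit 5) (nat_lit 21) (nat_lit 5) (nat_lit 22) (nat_lit 5) (nat_lit 291) (nat_lit 258) (nat_lit 231)) (XT.lf (nat_lit 0) (nat_lit 9706802230) (nat_lit 228) (nat_lit 3925632467) (nat_lit 76) (nat_lit 5834779444) (nat_lit 19) (nat_lit 5) (nat_lit 22) (nat_lit 5) (nat_lit 20) (nat_lit 4) (nat_lit 292) (nat_lit 258) (nat_lit 230))))) (XT.nd (nat_lit 156) (nat_lit 76) (nat_lit 0) (XT.nd (nat_lit 78) (nat_lit 228) (nat_lit 0) (XT.lf (nat_lit 0) (nat_lit 8980787770) (nat_lit 76) (nat_lit 7134699012) (nat_lit 152) (nat_lit 4517557595) (nat_lit 18) (nat_lit 5) (nat_lit 19) (nat_lit 5)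 (nat_lit 20) (nat_lit 4) (nat_lit 293) (nat_lit 258) (nat_lit 229)) (XT.lf (nat_lit 0) (nat_lit 1000428882) (nat_lit 152) (nat_lit 85693006) (nat_lit 228) (nat_lit 20806317495) (nat_lit 15) (nat_lit 5) (nat_lit 17) (nat_lit 5) (nat_lit 18) (nat_lit 5) (nat_lit 294) (nat_lit 258) (nat_lit 228))) (XT.nd (nat_lit 78) (nat_lit 76) (nat_lit 0) (XT.lf (nat_lit 0) (nat_lit 7202708674) (nat_lit 228) (nat_lit 8537854313) (nat_lit 76) (nat_lit 7497262561) (nat_lit 15) (nat_lit 5) (nat_lit 18) (nat_lit 5) (nat_lit 16) (nat_lit 4) (nat_lit 295) (nat_lit 258) (nat_lit 227)) (XT.nd (nat_lit 78) (nat_lit 0) (nat_lit 0) (XT.lf (nat_lit 0) (nat_lit 4789997730) (nat_lit 76) (nat_lit 8999435221) (nat_lit 152) (nat_lit 10902449484) (nat_lit 14) (nat_lit 5) (nat_lit 15) (nat_lit 5) (nat_lit 16) (nat_lit 4) (nat_lit 296) (nat_lit 258) (nat_lit 226)) (XT.lf (nat_lit 0) (nat_lit 19329696376) (nat_lit 76) (nat_lit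 1631284571) (nat_lit 152) (nat_lit 5298463041) (nat_lit 14) (nat_lit 5) (nat_lit 15) (nat_lit 5) (nat_lit 16) (nat_lit 4) (nat_lit 297) (nat_lit 258) (nat_lit 225)))))) (XT.nd (nat_lit 390) (nat_lit 228) (nat_lit 0) (XT.nd (nat_lit 156) (nat_lit 152) (nat_lit 0) (XT.nd (nat_lit 78) (nat_lit 0) (nat_lit 0) (XT.lf (nat_lit 0) (nat_lit 855522708) (nat_lit 152) (nat_lit 20903598621) (nat_lit 76) (nat_lit 6186475865) (nat_lit 12) (nat_lit 5) (nat_lit 14) (nat_lit 5) (nat_lit 13) (nat_lit 4) (nat_lit 298) (nat_lit 258) (nat_lit 224)) (XT.lf (nat_lit 0) (nat_lit 7386436985) (nat_lit 152) (nat_lit 7647478864) (nat_lit 76) (nat_lit 14724932456) (nat_lit 12) (nat_lit 5) (nat_lit 14) (nat_lit 5) (nat_lit 13) (nat_lit 4) (nat_lit 299) (nat_lit 258) (nat_lit 223))) (XT.nd (nat_lit 78) (nat_lit 76) (nat_lit 0) (XT.lf (nat_lit 0) (nat_lit 6749041756) (nat_lit 76) (nat_lit 7719823766) (nat_lit 152) (nat_lit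 17246898179) (nat_lit 11) (nat_lit 5) (nat_lit 12) (nat_lit 5) (nat_lit 13) (nat_lit 4) (nat_lit 300) (nat_lit 258) (nat_lit 222)) (XT.nd (nat_lit 78) (nat_lit 76) (nat_lit 0) (XT.lf (nat_lit 0) (nat_lit 22182481030) (nat_lit 152) (nat_lit 11390158903) (nat_lit 0) (nat_lit 253414845) (nat_lit 11) (nat_lit 5) (nat_lit 13) (nat_lit 4) (nat_lit 11) (nat_lit 4) (nat_lit 301) (nat_lit 258) (nat_lit 221)) (XT.lf (nat_lit 0) (nat_lit 3119062779) (nat_lit 76) (nat_lit 27504836778) (nat_lit 76) (nat_lit 5475782122) (nat_lit 10) (nat_lit 4) (nat_lit 11) (nat_lit 5) (nat_lit 11) (nat_lit 4) (nat_lit 302) (nat_lit 258) (nat_lit 220))))) (XT.nd (nat_lit 234) (nat_lit 76) (nat_lit 0) (XT.nd (nat_lit 78) (nat_lit 76) (nat_lit 0) (XT.lf (nat_lit 0) (nat_lit 1283101306) (nat_lit 152) (nat_lit 19491278895) (nat_lit 76) (nat_lit 17773155176) (nat_lit 9) (nat_lit 5) (nat_lit 11) (nat_lit 5) (nat_lit 10) (nat_lit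 4) (nat_lit 303) (nat_lit 258) (nat_lit 219)) (XT.nd (nat_lit 78) (nat_lit 76) (nat_lit 0) (XT.lf (nat_lit 0) (nat_lit 8332256092) (nat_lit 152) (nat_lit 5126235583) (nat_lit 76) (nat_lit 27731206456) (nat_lit 9) (nat_lit 5) (nat_lit 11) (nat_lit 5) (nat_lit 10) (nat_lit 4) (nat_lit 304) (nat_lit 258) (nat_lit 218)) (XT.lf (nat_lit 0) (nat_lit 10625202352) (nat_lit 76) (nat_lit 5429401060) (nat_lit 152) (nat_lit 27983203946) (nat_lit 8) (nat_lit 5) (nat_lit 9) (nat_lit 5) (nat_lit 10) (nat_lit 4) (nat_lit 305) (nat_lit 258) (nat_lit 217)))) (XT.nd (nat_lit 78) (nat_lit 76) (nat_lit 0) (XT.lf (nat_lit 0) (nat_lit 24481450485) (nat_lit 152) (nat_lit 19442018855) (nat_lit 0) (nat_lit 3185994145) (nat_lit 8) (nat_lit 5) (nat_lit 10) (nat_lit 4) (nat_lit 8) (nat_lit 4) (nat_lit 306) (nat_lit 258) (nat_lit 216)) (XT.nd (nat_lit 78) (nat_lit 76) (nat_lit 0) (XT.lf (nat_lit 0) (nat_lit 33623379586)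 (nat_lit 152) (nat_lit 4538343790) (nat_lit 0) (nat_lit 12263113272) (nat_lit 8) (nat_lit 5) (nat_lit 10) (nat_lit 4) (nat_lit 8) (nat_lit 4) (nat_lit 307) (nat_lit 258) (nat_lit 215)) (XT.lf (nat_lit 0) (nat_lit 11850806238) (nat_lit 76) (nat_lit 31784015005) (nat_lit 76) (nat_lit 10363739454) (nat_lit 7) (nat_lit 4) (nat_lit 8) (nat_lit 5) (nat_lit 8) (nat_lit 4) (nat_lit 308) (nat_lit 258) (nat_lit 214))))))) (XT.nd (nat_lit 780) (nat_lit 152) (nat_lit 0) (XT.nd (nat_lit 390) (nat_lit 76) (nat_lit 0) (XT.nd (nat_lit 156) (nat_lit 76) (nat_lit 0) (XT.nd (nat_lit 78) (nat_lit 76) (nat_lit 0) (XT.lf (nat_lit 0) (nat_lit 29630774832) (nat_lit 76) (nat_lit 24850777788) (nat_lit 76) (nat_lit 3374938130) (nat_lit 7) (nat_lit 4) (nat_lit 8) (nat_lit 5) (nat_lit 8) (nat_lit 4) (nat_lit 309) (nat_lit 258) (nat_lit 213)) (XT.lf (nat_lit 0) (nat_lit 3997333096) (nat_lit 152) (nat_lit 13332755056)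 (nat_lit 76) (nat_lit 44691836760) (nat_lit 6) (nat_lit 5) (nat_lit 8) (nat_lit 5) (nat_lit 7) (nat_lit 4) (nat_lit 310) (nat_lit 258) (nat_lit 212))) (XT.nd (nat_lit 78) (nat_lit 0) (nat_lit 0) (XT.lf (nat_lit 0) (nat_lit 2709522383) (nat_lit 76) (nat_lit 9136549594) (nat_lit 152) (nat_lit 54671531004) (nat_lit 5) (nat_lit 5) (nat_lit 6) (nat_lit 5) (nat_lit 7) (nat_lit 4) (nat_lit 311) (nat_lit 258) (nat_lit 211)) (XT.nd (nat_lit 78) (nat_lit 0) (nat_lit 0) (XT.lf (nat_lit 0) (nat_lit 20442482273) (nat_lit 76) (nat_lit 75330421) (nat_lit 152) (nat_lit 50845387726) (nat_lit 5) (nat_lit 5) (nat_lit 6) (nat_lit 5) (nat_lit 7) (nat_lit 4) (nat_lit 312) (nat_lit 258) (nat_lit 210)) (XT.lf (nat_lit 0) (nat_lit 30000053765) (nat_lit 152) (nat_lit 37218971239) (nat_lit 0) (nat_lit 9371601356) (nat_lit 5) (nat_lit 5) (nat_lit 7) (nat_lit 4) (nat_lit 5) (nat_lit 4) (nat_lit 313) (nat_lit 258)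 (nat_lit 209))))) (XT.nd (nat_lit 156) (nat_lit 76) (nat_lit 0) (XT.nd (nat_lit 78) (nat_lit 0) (nat_lit 0) (XT.lf (nat_lit 0) (nat_lit 40209874429) (nat_lit 152) (nat_lit 22482532518) (nat_lit 0) (nat_lit 19545406783) (nat_lit 5) (nat_lit 5) (nat_lit 7) (nat_lit 4) (nat_lit 5) (nat_lit 4) (nat_lit 314) (nat_lit 258) (nat_lit 208)) (XT.lf (nat_lit 0) (nat_lit 51206601208) (nat_lit 152) (nat_lit 6622898822) (nat_lit 0) (nat_lit 30508786121) (nat_lit 5) (nat_lit 5) (nat_lit 7) (nat_lit 4) (nat_lit 5) (nat_lit 4) (nat_lit 315) (nat_lit 258) (nat_lit 207))) (XT.nd (nat_lit 78) (nat_lit 0) (nat_lit 0) (XT.lf (nat_lit 0) (nat_lit 10799566433) (nat_lit 76) (nat_lit 52424444954) (nat_lit 76) (nat_lit 31695752608) (nat_lit 4) (nat_lit 4) (nat_lit 5) (nat_lit 5) (nat_lit 5) (nat_lit 4) (nat_lit 316) (nat_lit 258) (nat_lit 206)) (XT.nd (nat_lit 78) (nat_lit 0) (nat_lit 0) (XT.lf (nat_lit 0) (nat_lit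 29802979941) (nat_lit 76) (nat_lit 46488813678) (nat_lit 76) (nat_lit 25731531276) (nat_lit 4) (nat_lit 4) (nat_lit 5) (nat_lit 5) (nat_lit 5) (nat_lit 4) (nat_lit 317) (nat_lit 258) (nat_lit 205)) (XT.lf (nat_lit 0) (nat_lit 50280971576) (nat_lit 76) (nat_lit 40099594086) (nat_lit 76) (nat_lit 19315839411) (nat_lit 4) (nat_lit 4) (nat_lit 5) (nat_lit 5) (nat_lit 5) (nat_lit 4) (nat_lit 318) (nat_lit 258) (nat_lit 204)))))) (XT.nd (nat_lit 390) (nat_lit 0) (nat_lit 0) (XT.nd (nat_lit 156) (nat_lit 152) (nat_lit 0) (XT.nd (nat_lit 78) (nat_lit 0) (nat_lit 0) (XT.lf (nat_lit 0) (nat_lit 72354892400) (nat_lit 76) (nat_lit 33218924137) (nat_lit 76) (nat_lit 12410658097) (nat_lit 4) (nat_lit 4) (nat_lit 5) (nat_lit 5) (nat_lit 5) (nat_lit 4) (nat_lit 319) (nat_lit 258) (nat_lit 203)) (XT.lf (nat_lit 0) (nat_lit 96155550833) (nat_lit 76) (nat_lit 25806029490) (nat_lit 76) (nat_lit 4975067743)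 (nat_lit 4) (nat_lit 4) (nat_lit 5) (nat_lit 5) (nat_lit 5) (nat_lit 4) (nat_lit 320) (nat_lit 258) (nat_lit 202))) (XT.nd (nat_lit 78) (nat_lit 76) (nat_lit 0) (XT.lf (nat_lit 0) (nat_lit 2937855635) (nat_lit 152) (nat_lit 14829372238) (nat_lit 76) (nat_lit 118836378170) (nat_lit 3) (nat_lit 5) (nat_lit 5) (nat_lit 5) (nat_lit 4) (nat_lit 4) (nat_lit 321) (nat_lit 258) (nat_lit 201)) (XT.nd (nat_lit 78) (nat_lit 0) (nat_lit 0) (XT.lf (nat_lit 0) (nat_lit 2355802490) (nat_lit 76) (nat_lit 8974556872) (nat_lit 152) (nat_lit 135708449882) (nat_lit 2) (nat_lit 5) (nat_lit 3) (nat_lit 5) (nat_lit 4) (nat_lit 4) (nat_lit 322) (nat_lit 258) (nat_lit 200)) (XT.lf (nat_lit 0) (nat_lit 20647299654) (nat_lit 152) (nat_lit 136896300890) (nat_lit 0) (nat_lit 752584617) (nat_lit 2) (nat_lit 5) (nat_lit 4) (nat_lit 4) (nat_lit 2) (nat_lit 4) (nat_lit 323) (nat_lit 258) (nat_lit 199))))) (XT.nd (nat_lit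 234) (nat_lit 0) (nat_lit 0) (XT.nd (nat_lit 78) (nat_lit 0) (nat_lit 0) (XT.lf (nat_lit 0) (nat_lit 30844571606) (nat_lit 152) (nat_lit 128668869460) (nat_lit 0) (nat_lit 10933968928) (nat_lit 2) (nat_lit 5) (nat_lit 4) (nat_lit 4) (nat_lit 2) (nat_lit 4) (nat_lit 324) (nat_lit 258) (nat_lit 198)) (XT.nd (nat_lit 78) (nat_lit 0) (nat_lit 0) (XT.lf (nat_lit 0) (nat_lit 41842485512) (nat_lit 152) (nat_lit 119811839330) (nat_lit 0) (nat_lit 21917172056) (nat_lit 2) (nat_lit 5) (nat_lit 4) (nat_lit 4) (nat_lit 2) (nat_lit 4) (nat_lit 325) (nat_lit 258) (nat_lit 197)) (XT.lf (nat_lit 0) (nat_lit 53706214196) (nat_lit 152) (nat_lit 110272724396) (nat_lit 0) (nat_lit 33767279649) (nat_lit 2) (nat_lit 5) (nat_lit 4) (nat_lit 4) (nat_lit 2) (nat_lit 4) (nat_lit 326) (nat_lit 258) (nat_lit 196)))) (XT.nd (nat_lit 78) (nat_lit 0) (nat_lit 0) (XT.lf (nat_lit 0) (nat_lit 66506061236) (nat_lit 152)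 (nat_lit 99994996570) (nat_lit 0) (nat_lit 46554514567) (nat_lit 2) (nat_lit 5) (nat_lit 4) (nat_lit 4) (nat_lit 2) (nat_lit 4) (nat_lit 327) (nat_lit 258) (nat_lit 195)) (XT.nd (nat_lit 78) (nat_lit 0) (nat_lit 0) (XT.lf (nat_lit 0) (nat_lit 80317877575) (nat_lit 152) (nat_lit 88917750797) (nat_lit 0) (nat_lit 60354653017) (nat_lit 2) (nat_lit 5) (nat_lit 4) (nat_lit 4) (nat_lit 2) (nat_lit 4) (nat_lit 328) (nat_lit 258) (nat_lit 194)) (XT.lf (nat_lit 0) (nat_lit 95223511016) (nat_lit 152) (nat_lit 76975344140) (nat_lit 0) (nat_lit 75249473596) (nat_lit 2) (nat_lit 5) (nat_lit 4) (nat_lit 4) (nat_lit 2) (nat_lit 4) (nat_lit 329) (nat_lit 258) (nat_lit 193))))))))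
noncomputable def xc45 : XT := (XT.nd (nat_lit 35490) (nat_lit 0) (nat_lit 2204) (XT.nd (nat_lit 780) (nat_lit 0) (nat_lit 0) (XT.nd (nat_lit 390) (nat_lit 76) (nat_lit 0) (XT.nd (nat_lit 156) (nat_lit 0) (nat_lit 0) (XT.nd (nat_lit 78) (nat_lit 0) (nat_lit 0) (XT.lf (nat_lit 0) (nat_lit 111311291238) (nat_lit 152) (nat_lit 64097006782) (nat_lit 0) (nat_lit 91327241910) (nat_lit 2) (nat_lit 5) (nat_lit 4) (nat_lit 4) (nat_lit 2) (nat_lit 4) (nat_lit 330) (nat_lit 258) (nat_lit 192)) (XT.lf (nat_lit 0) (nat_lit 128676553235) (nat_lit 152) (nat_lit 50206422648) (nat_lit 0) (nat_lit 108683233620) (nat_lit 2) (nat_lit 5) (nat_lit 4) (nat_lit 4) (nat_lit 2) (nat_lit 4) (nat_lit 331) (nat_lit 258) (nat_lit 191))) (XT.nd (nat_lit 78) (nat_lit 0) (nat_lit 0) (XT.lf (nat_lit 0) (nat_lit 147422202262) (nat_lit 152) (nat_lit 35221277168) (nat_lit 0) (nat_lit 127420299050) (nat_lit 2) (nat_lit 5)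 (nat_lit 4) (nat_lit 4) (nat_lit 2) (nat_lit 4) (nat_lit 332) (nat_lit 258) (nat_lit 190)) (XT.nd (nat_lit 78) (nat_lit 0) (nat_lit 0) (XT.lf (nat_lit 0) (nat_lit 167659323648) (nat_lit 152) (nat_lit 19052769478) (nat_lit 0) (nat_lit 147649472659) (nat_lit 2) (nat_lit 5) (nat_lit 4) (nat_lit 4) (nat_lit 2) (nat_lit 4) (nat_lit 333) (nat_lit 258) (nat_lit 189)) (XT.lf (nat_lit 0) (nat_lit 189507841074) (nat_lit 152) (nat_lit 1605086200) (nat_lit 0) (nat_lit 169490631034) (nat_lit 2) (nat_lit 5) (nat_lit 4) (nat_lit 4) (nat_lit 2) (nat_lit 4) (nat_lit 334) (nat_lit 258) (nat_lit 188))))) (XT.nd (nat_lit 156) (nat_lit 0) (nat_lit 0) (XT.nd (nat_lit 78) (nat_lit 0) (nat_lit 0) (XT.lf (nat_lit 0) (nat_lit 17794708134) (nat_lit 76) (nat_lit 195580344367) (nat_lit 76) (nat_lit 175556320390) (nat_lit 1) (nat_lit 4) (nat_lit 2) (nat_lit 5) (nat_lit 2) (nat_lit 4) (nat_lit 335) (nat_lit 258) (nat_lit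 187)) (XT.lf (nat_lit 0) (nat_lit 38791133361) (nat_lit 76) (nat_lit 200381776035) (nat_lit 76) (nat_lit 180351442858) (nat_lit 1) (nat_lit 4) (nat_lit 2) (nat_lit 5) (nat_lit 2) (nat_lit 4) (nat_lit 336) (nat_lit 258) (nat_lit 186))) (XT.nd (nat_lit 78) (nat_lit 0) (nat_lit 0) (XT.lf (nat_lit 0) (nat_lit 61455541340) (nat_lit 76) (nat_lit 205572858122) (nat_lit 76) (nat_lit 185536683092) (nat_lit 1) (nat_lit 4) (nat_lit 2) (nat_lit 5) (nat_lit 2) (nat_lit 4) (nat_lit 337) (nat_lit 258) (nat_lit 185)) (XT.nd (nat_lit 78) (nat_lit 0) (nat_lit 0) (XT.lf (nat_lit 0) (nat_lit 85922239674) (nat_lit 76) (nat_lit 211184352593) (nat_lit 76) (nat_lit 191142768440) (nat_lit 1) (nat_lit 4) (nat_lit 2) (nat_lit 5) (nat_lit 2) (nat_lit 4) (nat_lit 338) (nat_lit 258) (nat_lit 184)) (XT.lf (nat_lit 0) (nat_lit 112336216207) (nat_lit 76) (nat_lit 217249512751) (nat_lit 76) (nat_lit 197202920151) (nat_lit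 1) (nat_lit 4) (nat_lit 2) (nat_lit 5) (nat_lit 2) (nat_lit 4) (nat_lit 339) (nat_lit 258) (nat_lit 183)))))) (XT.nd (nat_lit 390) (nat_lit 0) (nat_lit 0) (XT.nd (nat_lit 156) (nat_lit 0) (nat_lit 0) (XT.nd (nat_lit 78) (nat_lit 0) (nat_lit 0) (XT.lf (nat_lit 0) (nat_lit 140853998205) (nat_lit 76) (nat_lit 223804280284) (nat_lit 76) (nat_lit 203753050233) (nat_lit 1) (nat_lit 4) (nat_lit 2) (nat_lit 5) (nat_lit 2) (nat_lit 4) (nat_lit 340) (nat_lit 258) (nat_lit 182)) (XT.lf (nat_lit 0) (nat_lit 171644579933) (nat_lit 76) (nat_lit 230887498259) (nat_lit 76) (nat_lit 210831974273) (nat_lit 1) (nat_lit 4) (nat_lit 2) (nat_lit 5) (nat_lit 2) (nat_lit 4) (nat_lit 341) (nat_lit 258) (nat_lit 181))) (XT.nd (nat_lit 78) (nat_lit 0) (nat_lit 0) (XT.lf (nat_lit 0) (nat_lit 204890424098) (nat_lit 76) (nat_lit 238541141303) (nat_lit 76) (nat_lit 218481641449) (nat_lit 1) (nat_lit 4) (nat_lit 2) (nat_lit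 5) (nat_lit 2) (nat_lit 4) (nat_lit 342) (nat_lit 258) (nat_lit 180)) (XT.nd (nat_lit 78) (nat_lit 0) (nat_lit 0) (XT.lf (nat_lit 0) (nat_lit 240788543108) (nat_lit 76) (nat_lit 246810564335) (nat_lit 76) (nat_lit 226747383124) (nat_lit 1) (nat_lit 4) (nat_lit 2) (nat_lit 5) (nat_lit 2) (nat_lit 4) (nat_lit 343) (nat_lit 258) (nat_lit 179)) (XT.lf (nat_lit 0) (nat_lit 279551666558) (nat_lit 76) (nat_lit 255744771345) (nat_lit 76) (nat_lit 235678181469) (nat_lit 1) (nat_lit 4) (nat_lit 2) (nat_lit 5) (nat_lit 2) (nat_lit 4) (nat_lit 344) (nat_lit 258) (nat_lit 178))))) (XT.nd (nat_lit 234) (nat_lit 0) (nat_lit 0) (XT.nd (nat_lit 78) (nat_lit 0) (nat_lit 0) (XT.lf (nat_lit 0) (nat_lit 321409501847) (nat_lit 76) (nat_lit 265396705782) (nat_lit 76) (nat_lit 245326959735) (nat_lit 1) (nat_lit 4) (nat_lit 2) (nat_lit 5) (nat_lit 2) (nat_lit 4) (nat_lit 345) (nat_lit 258) (nat_lit 177)) (XT.nd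 (nat_lit 78) (nat_lit 0) (nat_lit 0) (XT.lf (nat_lit 0) (nat_lit 366610095406) (nat_lit 76) (nat_lit 275823564294) (nat_lit 76) (nat_lit 255750895866) (nat_lit 1) (nat_lit 4) (nat_lit 2) (nat_lit 5) (nat_lit 2) (nat_lit 4) (nat_lit 346) (nat_lit 258) (nat_lit 176)) (XT.lf (nat_lit 0) (nat_lit 415421302604) (nat_lit 76) (nat_lit 287087135673) (nat_lit 76) (nat_lit 267011761336) (nat_lit 1) (nat_lit 4) (nat_lit 2) (nat_lit 5) (nat_lit 2) (nat_lit 4) (nat_lit 347) (nat_lit 258) (nat_lit 175)))) (XT.nd (nat_lit 33930) (nat_lit 0) (nat_lit 9652) (XT.lf (nat_lit 0) (nat_lit 468132375039) (nat_lit 76) (nat_lit 299254167007) (nat_lit 76) (nat_lit 279176287200) (nat_lit 1) (nat_lit 4) (nat_lit 2) (nat_lit 5) (nat_lit 2) (nat_lit 4) (nat_lit 348) (nat_lit 258) (nat_lit 174)) (XT.nd (nat_lit 78) (nat_lit 228) (nat_lit 0) (XT.lf (nat_lit 0) (nat_lit 1725064796) (nat_lit 76) (nat_lit 755258763) (nat_lit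 76) (nat_lit 755258763) (nat_lit 131) (nat_lit 4) (nat_lit 132) (nat_lit 5) (nat_lit 132) (nat_lit 4) (nat_lit 262) (nat_lit 259) (nat_lit 259)) (XT.lf (nat_lit 0) (nat_lit 2287043998) (nat_lit 152) (nat_lit 811609358) (nat_lit 228) (nat_lit 3413059098) (nat_lit 128) (nat_lit 5) (nat_lit 130) (nat_lit 5) (nat_lit 131) (nat_lit 4) (nat_lit 263) (nat_lit 259) (nat_lit 258))))))) (XT.nd (nat_lit 858) (nat_lit 2660) (nat_lit 0) (XT.nd (nat_lit 390) (nat_lit 3192) (nat_lit 0) (XT.nd (nat_lit 156) (nat_lit 988) (nat_lit 0) (XT.nd (nat_lit 78) (nat_lit 304) (nat_lit 0) (XT.lf (nat_lit 0) (nat_lit 1053057703) (nat_lit 304) (nat_lit 5297674737) (nat_lit 76) (nat_lit 222497364) (nat_lit 124) (nat_lit 5) (nat_lit 128) (nat_lit 5) (nat_lit 125) (nat_lit 4) (nat_lit 264) (nat_lit 259) (nat_lit 257)) (XT.lf (nat_lit 0) (nat_lit 370399214) (nat_lit 304) (nat_lit 5066736289) (nat_lit 380) (nat_lit 1217247739)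 (nat_lit 120) (nat_lit 5) (nat_lit 124) (nat_lit 5) (nat_lit 125) (nat_lit 4) (nat_lit 265) (nat_lit 259) (nat_lit 256))) (XT.nd (nat_lit 78) (nat_lit 912) (nat_lit 0) (XT.lf (nat_lit 0) (nat_lit 3016873464) (nat_lit 380) (nat_lit 412512791) (nat_lit 76) (nat_lit 3326472649) (nat_lit 119) (nat_lit 5) (nat_lit 124) (nat_lit 5) (nat_lit 120) (nat_lit 5) (nat_lit 266) (nat_lit 259) (nat_lit 255)) (XT.nd (nat_lit 78) (nat_lit 456) (nat_lit 0) (XT.lf (nat_lit 0) (nat_lit 378764259) (nat_lit 456) (nat_lit 1070166578) (nat_lit 76) (nat_lit 5430277354) (nat_lit 113) (nat_lit 5) (nat_lit 119) (nat_lit 5) (nat_lit 114) (nat_lit 5) (nat_lit 267) (nat_lit 259) (nat_lit 254)) (XT.lf (nat_lit 0) (nat_lit 4450758898) (nat_lit 532) (nat_lit 1677858869) (nat_lit 76) (nat_lit 894049713) (nat_lit 107) (nat_lit 5) (nat_lit 114) (nat_lit 5) (nat_lit 108) (nat_lit 5) (nat_lit 268) (nat_lit 259) (nat_lit 253)))))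 (XT.nd (nat_lit 234) (nat_lit 1216) (nat_lit 0) (XT.nd (nat_lit 78) (nat_lit 1368) (nat_lit 0) (XT.lf (nat_lit 0) (nat_lit 1405718555) (nat_lit 608) (nat_lit 2228107854) (nat_lit 76) (nat_lit 3554026414) (nat_lit 99) (nat_lit 5) (nat_lit 107) (nat_lit 5) (nat_lit 100) (nat_lit 5) (nat_lit 269) (nat_lit 259) (nat_lit 252)) (XT.nd (nat_lit 78) (nat_lit 760) (nat_lit 0) (XT.lf (nat_lit 0) (nat_lit 4643644551) (nat_lit 608) (nat_lit 756800205) (nat_lit 684) (nat_lit 1975146715) (nat_lit 91) (nat_lit 5) (nat_lit 99) (nat_lit 5) (nat_lit 100) (nat_lit 5) (nat_lit 270) (nat_lit 259) (nat_lit 251)) (XT.lf (nat_lit 0) (nat_lit 1914313516) (nat_lit 760) (nat_lit 3234538373) (nat_lit 76) (nat_lit 2436305450) (nat_lit 81) (nat_lit 5) (nat_lit 91) (nat_lit 5) (nat_lit 82) (nat_lit 5) (nat_lit 271) (nat_lit 259) (nat_lit 250)))) (XT.nd (nat_lit 78) (nat_lit 760) (nat_lit 0) (XT.lf (nat_lit 0) (nat_lit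 4086420195) (nat_lit 456) (nat_lit 1802407932) (nat_lit 532) (nat_lit 1929618447) (nat_lit 75) (nat_lit 5) (nat_lit 81) (nat_lit 5) (nat_lit 82) (nat_lit 5) (nat_lit 272) (nat_lit 259) (nat_lit 249)) (XT.nd (nat_lit 78) (nat_lit 304) (nat_lit 0) (XT.lf (nat_lit 0) (nat_lit 1920143076) (nat_lit 456) (nat_lit 4260369120) (nat_lit 76) (nat_lit 1895044318) (nat_lit 69) (nat_lit 5) (nat_lit 75) (nat_lit 5) (nat_lit 70) (nat_lit 5) (nat_lit 273) (nat_lit 259) (nat_lit 248)) (XT.lf (nat_lit 0) (nat_lit 3514168102) (nat_lit 304) (nat_lit 2392865928) (nat_lit 380) (nat_lit 2450379542) (nat_lit 65) (nat_lit 5) (nat_lit 69) (nat_lit 5) (nat_lit 70) (nat_lit 5) (nat_lit 274) (nat_lit 259) (nat_lit 247)))))) (XT.nd (nat_lit 390) (nat_lit 1216) (nat_lit 0) (XT.nd (nat_lit 156) (nat_lit 836) (nat_lit 0) (XT.nd (nat_lit 78) (nat_lit 228) (nat_lit 0) (XT.lf (nat_lit 0) (nat_lit 1409966449) (nat_lit 380)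 (nat_lit 5493889566) (nat_lit 76) (nat_lit 1761851725) (nat_lit 60) (nat_lit 5) (nat_lit 65) (nat_lit 5) (nat_lit 61) (nat_lit 5) (nat_lit 275) (nat_lit 259) (nat_lit 246)) (XT.lf (nat_lit 0) (nat_lit 2731579812) (nat_lit 228) (nat_lit 2699737729) (nat_lit 304) (nat_lit 3568926023) (nat_lit 57) (nat_lit 5) (nat_lit 60) (nat_lit 5) (nat_lit 61) (nat_lit 5) (nat_lit 276) (nat_lit 259) (nat_lit 245))) (XT.nd (nat_lit 78) (nat_lit 456) (nat_lit 0) (XT.lf (nat_lit 0) (nat_lit 339223751) (nat_lit 380) (nat_lit 7153127968) (nat_lit 76) (nat_lit 1872318439) (nat_lit 52) (nat_lit 5) (nat_lit 57) (nat_lit 5) (nat_lit 53) (nat_lit 5) (nat_lit 277) (nat_lit 259) (nat_lit 244)) (XT.nd (nat_lit 78) (nat_lit 228) (nat_lit 0) (XT.lf (nat_lit 0) (nat_lit 1508830761) (nat_lit 228) (nat_lit 2896587193) (nat_lit 304) (nat_lit 5351784499) (nat_lit 49) (nat_lit 5) (nat_lit 52) (nat_lit 5) (nat_lit 53) (nat_lit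 5) (nat_lit 278) (nat_lit 259) (nat_lit 243)) (XT.lf (nat_lit 0) (nat_lit 660382579) (nat_lit 228) (nat_lit 8105053900) (nat_lit 304) (nat_lit 1417643333) (nat_lit 46) (nat_lit 5) (nat_lit 49) (nat_lit 5) (nat_lit 50) (nat_lit 5) (nat_lit 279) (nat_lit 259) (nat_lit 242))))) (XT.nd (nat_lit 234) (nat_lit 608) (nat_lit 0) (XT.nd (nat_lit 78) (nat_lit 532) (nat_lit 0) (XT.lf (nat_lit 0) (nat_lit 2742174386) (nat_lit 304) (nat_lit 420529090) (nat_lit 76) (nat_lit 7478360923) (nat_lit 45) (nat_lit 5) (nat_lit 49) (nat_lit 5) (nat_lit 46) (nat_lit 5) (nat_lit 280) (nat_lit 259) (nat_lit 241)) (XT.nd (nat_lit 78) (nat_lit 304) (nat_lit 0) (XT.lf (nat_lit 0) (nat_lit 7189916742) (nat_lit 304) (nat_lit 1729968155) (nat_lit 76) (nat_lit 2214701756) (nat_lit 42) (nat_lit 5) (nat_lit 46) (nat_lit 5) (nat_lit 43) (nat_lit 5) (nat_lit 281) (nat_lit 259) (nat_lit 240)) (XT.lf (nat_lit 0) (nat_lit 335971635)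 (nat_lit 304) (nat_lit 3338430104) (nat_lit 76) (nat_lit 7992174465) (nat_lit 38) (nat_lit 5) (nat_lit 42) (nat_lit 5) (nat_lit 39) (nat_lit 5) (nat_lit 282) (nat_lit 259) (nat_lit 239)))) (XT.nd (nat_lit 78) (nat_lit 456) (nat_lit 0) (XT.lf (nat_lit 0) (nat_lit 4830485350) (nat_lit 228) (nat_lit 5342900760) (nat_lit 76) (nat_lit 2064270287) (nat_lit 36) (nat_lit 5) (nat_lit 39) (nat_lit 5) (nat_lit 37) (nat_lit 5) (nat_lit 283) (nat_lit 259) (nat_lit 238)) (XT.nd (nat_lit 78) (nat_lit 228) (nat_lit 0) (XT.lf (nat_lit 0) (nat_lit 5079274986) (nat_lit 228) (nat_lit 4648801794) (nat_lit 304) (nat_lit 3124398132) (nat_lit 33) (nat_lit 5) (nat_lit 36) (nat_lit 5) (nat_lit 37) (nat_lit 5) (nat_lit 284) (nat_lit 259) (nat_lit 237)) (XT.lf (nat_lit 0) (nat_lit 1462697944) (nat_lit 228) (nat_lit 10687347627) (nat_lit 76) (nat_lit 1364975298) (nat_lit 30) (nat_lit 5) (nat_lit 33) (nat_lit 5) (nat_lit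 31) (nat_lit 5) (nat_lit 285) (nat_lit 259) (nat_lit 236))))))))
noncomputable def xc46 : XT := (XT.nd (nat_lit 1638) (nat_lit 456) (nat_lit 0) (XT.nd (nat_lit 780) (nat_lit 532) (nat_lit 0) (XT.nd (nat_lit 390) (nat_lit 608) (nat_lit 0) (XT.nd (nat_lit 156) (nat_lit 380) (nat_lit 0) (XT.nd (nat_lit 78) (nat_lit 152) (nat_lit 0) (XT.lf (nat_lit 0) (nat_lit 6379989707) (nat_lit 228) (nat_lit 28776671) (nat_lit 76) (nat_lit 7815794506) (nat_lit 30) (nat_lit 5) (nat_lit 33) (nat_lit 5) (nat_lit 31) (nat_lit 5) (nat_lit 286) (nat_lit 259) (nat_lit 235)) (XT.lf (nat_lit 0) (nat_lit 11646078104) (nat_lit 152) (nat_lit 92356397) (nat_lit 228) (nat_lit 3250213291) (nat_lit 28) (nat_lit 5) (nat_lit 30) (nat_lit 5) (nat_lit 31) (nat_lit 5) (nat_lit 287) (nat_lit 259) (nat_lit 234))) (XT.nd (nat_lit 78) (nat_lit 152) (nat_lit 0) (XT.lf (nat_lit 0) (nat_lit 1766870393) (nat_lit 228) (nat_lit 7436639913)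 (nat_lit 76) (nat_lit 6603668861) (nat_lit 25) (nat_lit 5) (nat_lit 28) (nat_lit 5) (nat_lit 26) (nat_lit 5) (nat_lit 288) (nat_lit 259) (nat_lit 233)) (XT.nd (nat_lit 78) (nat_lit 0) (nat_lit 0) (XT.lf (nat_lit 0) (nat_lit 4332363469) (nat_lit 152) (nat_lit 2744897402) (nat_lit 228) (nat_lit 9611118069) (nat_lit 23) (nat_lit 5) (nat_lit 25) (nat_lit 5) (nat_lit 26) (nat_lit 5) (nat_lit 289) (nat_lit 259) (nat_lit 232)) (XT.lf (nat_lit 0) (nat_lit 12891143958) (nat_lit 228) (nat_lit 590225248) (nat_lit 76) (nat_lit 4154902590) (nat_lit 23) (nat_lit 5) (nat_lit 26) (nat_lit 5) (nat_lit 24) (nat_lit 4) (nat_lit 290) (nat_lit 259) (nat_lit 231))))) (XT.nd (nat_lit 156) (nat_lit 304) (nat_lit 0) (XT.nd (nat_lit 78) (nat_lit 152) (nat_lit 0) (XT.lf (nat_lit 0) (nat_lit 623588299) (nat_lit 152) (nat_lit 6382479283) (nat_lit 76) (nat_lit 11647156330) (nat_lit 21) (nat_lit 5) (nat_lit 23) (nat_lit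 5) (nat_lit 22) (nat_lit 5) (nat_lit 291) (nat_lit 259) (nat_lit 230)) (XT.lf (nat_lit 0) (nat_lit 6262968006) (nat_lit 228) (nat_lit 13372735628) (nat_lit 76) (nat_lit 111674780) (nat_lit 19) (nat_lit 5) (nat_lit 22) (nat_lit 5) (nat_lit 20) (nat_lit 4) (nat_lit 292) (nat_lit 259) (nat_lit 229))) (XT.nd (nat_lit 78) (nat_lit 304) (nat_lit 0) (XT.lf (nat_lit 0) (nat_lit 12482180658) (nat_lit 228) (nat_lit 837593298) (nat_lit 76) (nat_lit 7602955603) (nat_lit 19) (nat_lit 5) (nat_lit 22) (nat_lit 5) (nat_lit 20) (nat_lit 4) (nat_lit 293) (nat_lit 259) (nat_lit 228)) (XT.nd (nat_lit 78) (nat_lit 228) (nat_lit 0) (XT.lf (nat_lit 0) (nat_lit 12953489883) (nat_lit 76) (nat_lit 6352816088) (nat_lit 152) (nat_lit 2880525166) (nat_lit 18) (nat_lit 5) (nat_lit 19) (nat_lit 5) (nat_lit 20) (nat_lit 4) (nat_lit 294) (nat_lit 259) (nat_lit 227)) (XT.lf (nat_lit 0) (nat_lit 3033167962) (nat_lit 228)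 (nat_lit 19313545409) (nat_lit 76) (nat_lit 1202545640) (nat_lit 15) (nat_lit 5) (nat_lit 18) (nat_lit 5) (nat_lit 16) (nat_lit 4) (nat_lit 295) (nat_lit 259) (nat_lit 226)))))) (XT.nd (nat_lit 390) (nat_lit 304) (nat_lit 0) (XT.nd (nat_lit 156) (nat_lit 152) (nat_lit 0) (XT.nd (nat_lit 78) (nat_lit 76) (nat_lit 0) (XT.lf (nat_lit 0) (nat_lit 9502630241) (nat_lit 228) (nat_lit 6213122481) (nat_lit 76) (nat_lit 9293462047) (nat_lit 15) (nat_lit 5) (nat_lit 18) (nat_lit 5) (nat_lit 16) (nat_lit 4) (nat_lit 296) (nat_lit 259) (nat_lit 225)) (XT.lf (nat_lit 0) (nat_lit 8050244134) (nat_lit 76) (nat_lit 8483285244) (nat_lit 152) (nat_lit 10050312507) (nat_lit 14) (nat_lit 5) (nat_lit 15) (nat_lit 5) (nat_lit 16) (nat_lit 4) (nat_lit 297) (nat_lit 259) (nat_lit 224))) (XT.nd (nat_lit 78) (nat_lit 152) (nat_lit 0) (XT.lf (nat_lit 0) (nat_lit 23540004110) (nat_lit 76) (nat_lit 617245860) (nat_lit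 152) (nat_lit 4125735514) (nat_lit 14) (nat_lit 5) (nat_lit 15) (nat_lit 5) (nat_lit 16) (nat_lit 4) (nat_lit 298) (nat_lit 259) (nat_lit 223)) (XT.nd (nat_lit 78) (nat_lit 0) (nat_lit 0) (XT.lf (nat_lit 0) (nat_lit 2413140056) (nat_lit 152) (nat_lit 19920623937) (nat_lit 76) (nat_lit 7771924762) (nat_lit 12) (nat_lit 5) (nat_lit 14) (nat_lit 5) (nat_lit 13) (nat_lit 4) (nat_lit 299) (nat_lit 259) (nat_lit 222)) (XT.lf (nat_lit 0) (nat_lit 9356218177) (nat_lit 152) (nat_lit 5800700716) (nat_lit 76) (nat_lit 16912677819) (nat_lit 12) (nat_lit 5) (nat_lit 14) (nat_lit 5) (nat_lit 13) (nat_lit 4) (nat_lit 300) (nat_lit 259) (nat_lit 221))))) (XT.nd (nat_lit 234) (nat_lit 152) (nat_lit 0) (XT.nd (nat_lit 78) (nat_lit 76) (nat_lit 0) (XT.lf (nat_lit 0) (nat_lit 9640694818) (nat_lit 76) (nat_lit 7299125032) (nat_lit 152) (nat_lit 17246591817) (nat_lit 11) (nat_lit 5) (nat_lit 12) (nat_lit 5)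 (nat_lit 13) (nat_lit 4) (nat_lit 301) (nat_lit 259) (nat_lit 220)) (XT.nd (nat_lit 78) (nat_lit 76) (nat_lit 0) (XT.lf (nat_lit 0) (nat_lit 25188242121) (nat_lit 152) (nat_lit 10077175024) (nat_lit 0) (nat_lit 1204292703) (nat_lit 11) (nat_lit 5) (nat_lit 13) (nat_lit 4) (nat_lit 11) (nat_lit 4) (nat_lit 302) (nat_lit 259) (nat_lit 219)) (XT.lf (nat_lit 0) (nat_lit 5496123520) (nat_lit 76) (nat_lit 28750870175) (nat_lit 76) (nat_lit 4681196759) (nat_lit 10) (nat_lit 4) (nat_lit 11) (nat_lit 5) (nat_lit 11) (nat_lit 4) (nat_lit 303) (nat_lit 259) (nat_lit 218)))) (XT.nd (nat_lit 78) (nat_lit 76) (nat_lit 0) (XT.lf (nat_lit 0) (nat_lit 2490560060) (nat_lit 152) (nat_lit 19043399365) (nat_lit 76) (nat_lit 20041426918) (nat_lit 9) (nat_lit 5) (nat_lit 11) (nat_lit 5) (nat_lit 10) (nat_lit 4) (nat_lit 304) (nat_lit 259) (nat_lit 217)) (XT.nd (nat_lit 78) (nat_lit 76) (nat_lit 0) (XT.lf (nat_lit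 0) (nat_lit 10021809402) (nat_lit 152) (nat_lit 3677832725) (nat_lit 76) (nat_lit 30733424573) (nat_lit 9) (nat_lit 5) (nat_lit 11) (nat_lit 5) (nat_lit 10) (nat_lit 4) (nat_lit 305) (nat_lit 259) (nat_lit 216)) (XT.lf (nat_lit 0) (nat_lit 13252952026) (nat_lit 76) (nat_lit 5060972120) (nat_lit 152) (nat_lit 29197550325) (nat_lit 8) (nat_lit 5) (nat_lit 9) (nat_lit 5) (nat_lit 10) (nat_lit 4) (nat_lit 306) (nat_lit 259) (nat_lit 215))))))) (XT.nd (nat_lit 780) (nat_lit 228) (nat_lit 0) (XT.nd (nat_lit 390) (nat_lit 76) (nat_lit 0) (XT.nd (nat_lit 156) (nat_lit 152) (nat_lit 0) (XT.nd (nat_lit 78) (nat_lit 0) (nat_lit 0) (XT.lf (nat_lit 0) (nat_lit 27354305525) (nat_lit 152) (nat_lit 19317234716) (nat_lit 0) (nat_lit 4160398695) (nat_lit 8) (nat_lit 5) (nat_lit 10) (nat_lit 4) (nat_lit 8) (nat_lit 4) (nat_lit 307) (nat_lit 259) (nat_lit 214)) (XT.lf (nat_lit 0) (nat_lit 37159860140) (nat_lit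 152) (nat_lit 3345720879) (nat_lit 0) (nat_lit 13910389202) (nat_lit 8) (nat_lit 5) (nat_lit 10) (nat_lit 4) (nat_lit 8) (nat_lit 4) (nat_lit 308) (nat_lit 259) (nat_lit 213))) (XT.nd (nat_lit 78) (nat_lit 76) (nat_lit 0) (XT.lf (nat_lit 0) (nat_lit 14286952742) (nat_lit 76) (nat_lit 33645785652) (nat_lit 76) (nat_lit 10344866466) (nat_lit 7) (nat_lit 4) (nat_lit 8) (nat_lit 5) (nat_lit 8) (nat_lit 4) (nat_lit 309) (nat_lit 259) (nat_lit 212)) (XT.nd (nat_lit 78) (nat_lit 76) (nat_lit 0) (XT.lf (nat_lit 0) (nat_lit 33379090527) (nat_lit 76) (nat_lit 26208330239) (nat_lit 76) (nat_lit 2859773787) (nat_lit 7) (nat_lit 4) (nat_lit 8) (nat_lit 5) (nat_lit 8) (nat_lit 4) (nat_lit 310) (nat_lit 259) (nat_lit 211)) (XT.lf (nat_lit 0) (nat_lit 5020850660) (nat_lit 152) (nat_lit 13099921177) (nat_lit 76) (nat_lit 48827325232) (nat_lit 6) (nat_lit 5) (nat_lit 8) (nat_lit 5) (nat_lit 7) (nat_lit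 4) (nat_lit 311) (nat_lit 259) (nat_lit 210))))) (XT.nd (nat_lit 156) (nat_lit 0) (nat_lit 0) (XT.nd (nat_lit 78) (nat_lit 0) (nat_lit 0) (XT.lf (nat_lit 0) (nat_lit 4169265758) (nat_lit 76) (nat_lit 9295501104) (nat_lit 152) (nat_lit 58340327892) (nat_lit 5) (nat_lit 5) (nat_lit 6) (nat_lit 5) (nat_lit 7) (nat_lit 4) (nat_lit 312) (nat_lit 259) (nat_lit 209)) (XT.lf (nat_lit 0) (nat_lit 22787540853) (nat_lit 152) (nat_lit 53819060985) (nat_lit 0) (nat_lit 433900560) (nat_lit 5) (nat_lit 5) (nat_lit 7) (nat_lit 4) (nat_lit 5) (nat_lit 4) (nat_lit 313) (nat_lit 259) (nat_lit 208))) (XT.nd (nat_lit 78) (nat_lit 0) (nat_lit 0) (XT.lf (nat_lit 0) (nat_lit 32982996354) (nat_lit 152) (nat_lit 39109410785) (nat_lit 0) (nat_lit 10596008620) (nat_lit 5) (nat_lit 5) (nat_lit 7) (nat_lit 4) (nat_lit 5) (nat_lit 4) (nat_lit 314) (nat_lit 259) (nat_lit 207)) (XT.nd (nat_lit 78) (nat_lit 0) (nat_lit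 0) (XT.lf (nat_lit 0) (nat_lit 43966422057) (nat_lit 152) (nat_lit 23274581275) (nat_lit 0) (nat_lit 21548557063) (nat_lit 5) (nat_lit 5) (nat_lit 7) (nat_lit 4) (nat_lit 5) (nat_lit 4) (nat_lit 315) (nat_lit 259) (nat_lit 206)) (XT.lf (nat_lit 0) (nat_lit 55802904928) (nat_lit 152) (nat_lit 6220736427) (nat_lit 0) (nat_lit 33356449879) (nat_lit 5) (nat_lit 5) (nat_lit 7) (nat_lit 4) (nat_lit 5) (nat_lit 4) (nat_lit 316) (nat_lit 259) (nat_lit 205)))))) (XT.nd (nat_lit 390) (nat_lit 152) (nat_lit 0) (XT.nd (nat_lit 156) (nat_lit 0) (nat_lit 0) (XT.nd (nat_lit 78) (nat_lit 0) (nat_lit 0) (XT.lf (nat_lit 0) (nat_lit 12555022712) (nat_lit 76) (nat_lit 56203583466) (nat_lit 76) (nat_lit 33730656143) (nat_lit 4) (nat_lit 4) (nat_lit 5) (nat_lit 5) (nat_lit 5) (nat_lit 4) (nat_lit 317) (nat_lit 259) (nat_lit 204)) (XT.lf (nat_lit 0) (nat_lit 33012672933) (nat_lit 76) (nat_lit 49823828879) (nat_lit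 76) (nat_lit 27326390192) (nat_lit 4) (nat_lit 4) (nat_lit 5) (nat_lit 5) (nat_lit 5) (nat_lit 4) (nat_lit 318) (nat_lit 259) (nat_lit 203))) (XT.nd (nat_lit 78) (nat_lit 0) (nat_lit 0) (XT.lf (nat_lit 0) (nat_lit 55067759114) (nat_lit 76) (nat_lit 42951922823) (nat_lit 76) (nat_lit 20431788428) (nat_lit 4) (nat_lit 4) (nat_lit 5) (nat_lit 5) (nat_lit 5) (nat_lit 4) (nat_lit 319) (nat_lit 259) (nat_lit 202)) (XT.nd (nat_lit 78) (nat_lit 0) (nat_lit 0) (XT.lf (nat_lit 0) (nat_lit 78850978063) (nat_lit 76) (nat_lit 35547142892) (nat_lit 76) (nat_lit 13005993953) (nat_lit 4) (nat_lit 4) (nat_lit 5) (nat_lit 5) (nat_lit 5) (nat_lit 4) (nat_lit 320) (nat_lit 259) (nat_lit 201)) (XT.lf (nat_lit 0) (nat_lit 104503267372) (nat_lit 76) (nat_lit 27565608909) (nat_lit 76) (nat_lit 5005002058) (nat_lit 4) (nat_lit 4) (nat_lit 5) (nat_lit 5) (nat_lit 5) (nat_lit 4) (nat_lit 321) (nat_lit 259) (nat_lit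 200))))) (XT.nd (nat_lit 234) (nat_lit 0) (nat_lit 0) (XT.nd (nat_lit 78) (nat_lit 76) (nat_lit 0) (XT.lf (nat_lit 0) (nat_lit 3502782725) (nat_lit 152) (nat_lit 15397918848) (nat_lit 76) (nat_lit 128614536563) (nat_lit 3) (nat_lit 5) (nat_lit 5) (nat_lit 5) (nat_lit 4) (nat_lit 4) (nat_lit 322) (nat_lit 259) (nat_lit 199)) (XT.nd (nat_lit 78) (nat_lit 0) (nat_lit 0) (XT.lf (nat_lit 0) (nat_lit 3135220886) (nat_lit 76) (nat_lit 9416255379) (nat_lit 152) (nat_lit 146234553810) (nat_lit 2) (nat_lit 5) (nat_lit 3) (nat_lit 5) (nat_lit 4) (nat_lit 4) (nat_lit 323) (nat_lit 259) (nat_lit 198)) (XT.lf (nat_lit 0) (nat_lit 22594455331) (nat_lit 152) (nat_lit 147290111611) (nat_lit 0) (nat_lit 1060406021) (nat_lit 2) (nat_lit 5) (nat_lit 4) (nat_lit 4) (nat_lit 2) (nat_lit 4) (nat_lit 324) (nat_lit 259) (nat_lit 197)))) (XT.nd (nat_lit 78) (nat_lit 0) (nat_lit 0) (XT.lf (nat_lit 0) (nat_lit 33585629654)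 (nat_lit 152) (nat_lit 138445811100) (nat_lit 0) (nat_lit 12037959252) (nat_lit 2) (nat_lit 5) (nat_lit 4) (nat_lit 4) (nat_lit 2) (nat_lit 4) (nat_lit 325) (nat_lit 259) (nat_lit 196)) (XT.nd (nat_lit 78) (nat_lit 0) (nat_lit 0) (XT.lf (nat_lit 0) (nat_lit 45443117982) (nat_lit 152) (nat_lit 128918482850) (nat_lit 0) (nat_lit 23882835459) (nat_lit 2) (nat_lit 5) (nat_lit 4) (nat_lit 4) (nat_lit 2) (nat_lit 4) (nat_lit 326) (nat_lit 259) (nat_lit 195)) (XT.lf (nat_lit 0) (nat_lit 58237186914) (nat_lit 152) (nat_lit 118651668619) (nat_lit 0) (nat_lit 36665226501) (nat_lit 2) (nat_lit 5) (nat_lit 4) (nat_lit 4) (nat_lit 2) (nat_lit 4) (nat_lit 327) (nat_lit 259) (nat_lit 194))))))))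
noncomputable def xc47 : XT := (XT.nd (nat_lit 35334) (nat_lit 0) (nat_lit 3116) (XT.nd (nat_lit 780) (nat_lit 0) (nat_lit 0) (XT.nd (nat_lit 390) (nat_lit 76) (nat_lit 0) (XT.nd (nat_lit 156) (nat_lit 0) (nat_lit 0) (XT.nd (nat_lit 78) (nat_lit 0) (nat_lit 0) (XT.lf (nat_lit 0) (nat_lit 72043653155) (nat_lit 152) (nat_lit 107584528028) (nat_lit 0) (nat_lit 50460879880) (nat_lit 2) (nat_lit 5) (nat_lit 4) (nat_lit 4) (nat_lit 2) (nat_lit 4) (nat_lit 328) (nat_lit 259) (nat_lit 193)) (XT.lf (nat_lit 0) (nat_lit 86944332801) (nat_lit 152) (nat_lit 95651478021) (nat_lit 0) (nat_lit 65351547617) (nat_lit 2) (nat_lit 5) (nat_lit 4) (nat_lit 4) (nat_lit 2) (nat_lit 4) (nat_lit 329) (nat_lit 259) (nat_lit 192))) (XT.nd (nat_lit 78) (nat_lit 0) (nat_lit 0) (XT.lf (nat_lit 0) (nat_lit 103027526175) (nat_lit 152) (nat_lit 82781804227) (nat_lit 0) (nat_lit 81425470706) (nat_lit 2) (nat_lit 5) (nat_lit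 4) (nat_lit 4) (nat_lit 2) (nat_lit 4) (nat_lit 330) (nat_lit 259) (nat_lit 191)) (XT.nd (nat_lit 78) (nat_lit 0) (nat_lit 0) (XT.lf (nat_lit 0) (nat_lit 120388541090) (nat_lit 152) (nat_lit 68899241913) (nat_lit 0) (nat_lit 98777902023) (nat_lit 2) (nat_lit 5) (nat_lit 4) (nat_lit 4) (nat_lit 2) (nat_lit 4) (nat_lit 331) (nat_lit 259) (nat_lit 190)) (XT.lf (nat_lit 0) (nat_lit 139130257635) (nat_lit 152) (nat_lit 53921524042) (nat_lit 0) (nat_lit 117511670792) (nat_lit 2) (nat_lit 5) (nat_lit 4) (nat_lit 4) (nat_lit 2) (nat_lit 4) (nat_lit 332) (nat_lit 259) (nat_lit 189))))) (XT.nd (nat_lit 156) (nat_lit 76) (nat_lit 0) (XT.nd (nat_lit 78) (nat_lit 0) (nat_lit 0) (XT.lf (nat_lit 0) (nat_lit 159363737833) (nat_lit 152) (nat_lit 37759893769) (nat_lit 0) (nat_lit 137737791938) (nat_lit 2) (nat_lit 5) (nat_lit 4) (nat_lit 4) (nat_lit 2) (nat_lit 4) (nat_lit 333) (nat_lit 259) (nat_lit 188))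 (XT.lf (nat_lit 0) (nat_lit 181208883790) (nat_lit 152) (nat_lit 20318578470) (nat_lit 0) (nat_lit 159576123958) (nat_lit 2) (nat_lit 5) (nat_lit 4) (nat_lit 4) (nat_lit 2) (nat_lit 4) (nat_lit 334) (nat_lit 259) (nat_lit 187))) (XT.nd (nat_lit 78) (nat_lit 76) (nat_lit 0) (XT.lf (nat_lit 0) (nat_lit 204795148222) (nat_lit 152) (nat_lit 1494222201) (nat_lit 0) (nat_lit 183156079189) (nat_lit 2) (nat_lit 5) (nat_lit 4) (nat_lit 4) (nat_lit 2) (nat_lit 4) (nat_lit 335) (nat_lit 259) (nat_lit 186)) (XT.nd (nat_lit 78) (nat_lit 0) (nat_lit 0) (XT.lf (nat_lit 0) (nat_lit 19447157259) (nat_lit 76) (nat_lit 211118768951) (nat_lit 76) (nat_lit 189473858066) (nat_lit 1) (nat_lit 4) (nat_lit 2) (nat_lit 5) (nat_lit 2) (nat_lit 4) (nat_lit 336) (nat_lit 259) (nat_lit 185)) (XT.lf (nat_lit 0) (nat_lit 42106342986) (nat_lit 76) (nat_lit 216312315373) (nat_lit 76) (nat_lit 194661995365) (nat_lit 1)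 (nat_lit 4) (nat_lit 2) (nat_lit 5) (nat_lit 2) (nat_lit 4) (nat_lit 337) (nat_lit 259) (nat_lit 184)))))) (XT.nd (nat_lit 390) (nat_lit 0) (nat_lit 0) (XT.nd (nat_lit 156) (nat_lit 0) (nat_lit 0) (XT.nd (nat_lit 78) (nat_lit 0) (nat_lit 0) (XT.lf (nat_lit 0) (nat_lit 66568205903) (nat_lit 76) (nat_lit 221926091637) (nat_lit 76) (nat_lit 200270763182) (nat_lit 1) (nat_lit 4) (nat_lit 2) (nat_lit 5) (nat_lit 2) (nat_lit 4) (nat_lit 338) (nat_lit 259) (nat_lit 183)) (XT.lf (nat_lit 0) (nat_lit 92977705197) (nat_lit 76) (nat_lit 227993364565) (nat_lit 76) (nat_lit 206333398659) (nat_lit 1) (nat_lit 4) (nat_lit 2) (nat_lit 5) (nat_lit 2) (nat_lit 4) (nat_lit 339) (nat_lit 259) (nat_lit 182))) (XT.nd (nat_lit 78) (nat_lit 0) (nat_lit 0) (XT.lf (nat_lit 0) (nat_lit 121491341604) (nat_lit 76) (nat_lit 234550088367) (nat_lit 76) (nat_lit 212885828526) (nat_lit 1) (nat_lit 4) (nat_lit 2) (nat_lit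 5) (nat_lit 2) (nat_lit 4) (nat_lit 340) (nat_lit 259) (nat_lit 181)) (XT.nd (nat_lit 78) (nat_lit 0) (nat_lit 0) (XT.lf (nat_lit 0) (nat_lit 152278084822) (nat_lit 76) (nat_lit 241635117703) (nat_lit 76) (nat_lit 219966881995) (nat_lit 1) (nat_lit 4) (nat_lit 2) (nat_lit 5) (nat_lit 2) (nat_lit 4) (nat_lit 341) (nat_lit 259) (nat_lit 180)) (XT.lf (nat_lit 0) (nat_lit 185520374809) (nat_lit 76) (nat_lit 249290437932) (nat_lit 76) (nat_lit 227618520866) (nat_lit 1) (nat_lit 4) (nat_lit 2) (nat_lit 5) (nat_lit 2) (nat_lit 4) (nat_lit 342) (nat_lit 259) (nat_lit 179))))) (XT.nd (nat_lit 234) (nat_lit 0) (nat_lit 0) (XT.nd (nat_lit 78) (nat_lit 0) (nat_lit 0) (XT.lf (nat_lit 0) (nat_lit 221415202916) (nat_lit 76) (nat_lit 257561413914) (nat_lit 76) (nat_lit 235886088183) (nat_lit 1) (nat_lit 4) (nat_lit 2) (nat_lit 5) (nat_lit 2) (nat_lit 4) (nat_lit 343) (nat_lit 259) (nat_lit 178)) (XT.nd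 (nat_lit 78) (nat_lit 0) (nat_lit 0) (XT.lf (nat_lit 0) (nat_lit 260175279233) (nat_lit 76) (nat_lit 266497058841) (nat_lit 76) (nat_lit 244818576938) (nat_lit 1) (nat_lit 4) (nat_lit 2) (nat_lit 5) (nat_lit 2) (nat_lit 4) (nat_lit 344) (nat_lit 259) (nat_lit 177)) (XT.lf (nat_lit 0) (nat_lit 302030293102) (nat_lit 76) (nat_lit 276150324681) (nat_lit 76) (nat_lit 254468920398) (nat_lit 1) (nat_lit 4) (nat_lit 2) (nat_lit 5) (nat_lit 2) (nat_lit 4) (nat_lit 345) (nat_lit 259) (nat_lit 176)))) (XT.nd (nat_lit 78) (nat_lit 0) (nat_lit 0) (XT.lf (nat_lit 0) (nat_lit 347228274235) (nat_lit 76) (nat_lit 286578415975) (nat_lit 76) (nat_lit 264894305784) (nat_lit 1) (nat_lit 4) (nat_lit 2) (nat_lit 5) (nat_lit 2) (nat_lit 4) (nat_lit 346) (nat_lit 259) (nat_lit 175)) (XT.nd (nat_lit 78) (nat_lit 0) (nat_lit 0) (XT.lf (nat_lit 0) (nat_lit 396037062520) (nat_lit 76) (nat_lit 297843128817) (nat_lit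 76) (nat_lit 276156513156) (nat_lit 1) (nat_lit 4) (nat_lit 2) (nat_lit 5) (nat_lit 2) (nat_lit 4) (nat_lit 347) (nat_lit 259) (nat_lit 174)) (XT.lf (nat_lit 0) (nat_lit 448745895221) (nat_lit 76) (nat_lit 310011217063) (nat_lit 76) (nat_lit 288322281521) (nat_lit 1) (nat_lit 4) (nat_lit 2) (nat_lit 5) (nat_lit 2) (nat_lit 4) (nat_lit 348) (nat_lit 259) (nat_lit 173))))))) (XT.nd (nat_lit 858) (nat_lit 3724) (nat_lit 0) (XT.nd (nat_lit 390) (nat_lit 2508) (nat_lit 0) (XT.nd (nat_lit 156) (nat_lit 608) (nat_lit 0) (XT.nd (nat_lit 78) (nat_lit 76) (nat_lit 0) (XT.lf (nat_lit 0) (nat_lit 0) (nat_lit 0) (nat_lit 0) (nat_lit 0) (nat_lit 1073741823) (nat_lit 1) (nat_lit 0) (nat_lit 1) (nat_lit 0) (nat_lit 133) (nat_lit 0) (nat_lit 260) (nat_lit 260) (nat_lit 260)) (XT.lf (nat_lit 0) (nat_lit 4583301202) (nat_lit 76) (nat_lit 1675194753) (nat_lit 0) (nat_lit 192890188) (nat_lit 132) (nat_lit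 5) (nat_lit 133) (nat_lit 0) (nat_lit 132) (nat_lit 4) (nat_lit 261) (nat_lit 260) (nat_lit 259))) (XT.nd (nat_lit 78) (nat_lit 456) (nat_lit 0) (XT.lf (nat_lit 0) (nat_lit 2562605444) (nat_lit 152) (nat_lit 3202265235) (nat_lit 76) (nat_lit 716199245) (nat_lit 130) (nat_lit 5) (nat_lit 132) (nat_lit 5) (nat_lit 131) (nat_lit 4) (nat_lit 262) (nat_lit 260) (nat_lit 258)) (XT.nd (nat_lit 78) (nat_lit 228) (nat_lit 0) (XT.lf (nat_lit 0) (nat_lit 365606180) (nat_lit 228) (nat_lit 4592742180) (nat_lit 76) (nat_lit 1573315466) (nat_lit 127) (nat_lit 5) (nat_lit 130) (nat_lit 5) (nat_lit 128) (nat_lit 5) (nat_lit 263) (nat_lit 260) (nat_lit 257)) (XT.lf (nat_lit 0) (nat_lit 711800965) (nat_lit 228) (nat_lit 3799410857) (nat_lit 304) (nat_lit 2090601620) (nat_lit 124) (nat_lit 5) (nat_lit 127) (nat_lit 5) (nat_lit 128) (nat_lit 5) (nat_lit 264) (nat_lit 260) (nat_lit 256))))) (XT.nd (nat_lit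 234) (nat_lit 1672) (nat_lit 0) (XT.nd (nat_lit 78) (nat_lit 760) (nat_lit 0) (XT.lf (nat_lit 0) (nat_lit 1923639214) (nat_lit 304) (nat_lit 375308075) (nat_lit 76) (nat_lit 4393832750) (nat_lit 123) (nat_lit 5) (nat_lit 127) (nat_lit 5) (nat_lit 124) (nat_lit 5) (nat_lit 265) (nat_lit 260) (nat_lit 255)) (XT.nd (nat_lit 78) (nat_lit 456) (nat_lit 0) (XT.lf (nat_lit 0) (nat_lit 5471312408) (nat_lit 304) (nat_lit 435491117) (nat_lit 380) (nat_lit 897700346) (nat_lit 119) (nat_lit 5) (nat_lit 123) (nat_lit 5) (nat_lit 124) (nat_lit 5) (nat_lit 266) (nat_lit 260) (nat_lit 254)) (XT.lf (nat_lit 0) (nat_lit 2938305665) (nat_lit 456) (nat_lit 2242330274) (nat_lit 76) (nat_lit 1755067248) (nat_lit 113) (nat_lit 5) (nat_lit 119) (nat_lit 5) (nat_lit 114) (nat_lit 5) (nat_lit 267) (nat_lit 260) (nat_lit 253)))) (XT.nd (nat_lit 78) (nat_lit 1216) (nat_lit 0) (XT.lf (nat_lit 0) (nat_lit 4020529192)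 (nat_lit 456) (nat_lit 2798038390) (nat_lit 532) (nat_lit 270670241) (nat_lit 107) (nat_lit 5) (nat_lit 113) (nat_lit 5) (nat_lit 114) (nat_lit 5) (nat_lit 268) (nat_lit 260) (nat_lit 252)) (XT.nd (nat_lit 78) (nat_lit 608) (nat_lit 0) (XT.lf (nat_lit 0) (nat_lit 3402370938) (nat_lit 532) (nat_lit 13495442) (nat_lit 608) (nat_lit 3848063135) (nat_lit 99) (nat_lit 5) (nat_lit 106) (nat_lit 5) (nat_lit 107) (nat_lit 5) (nat_lit 269) (nat_lit 260) (nat_lit 251)) (XT.lf (nat_lit 0) (nat_lit 2825514221) (nat_lit 608) (nat_lit 4416517491) (nat_lit 684) (nat_lit 218463534) (nat_lit 91) (nat_lit 5) (nat_lit 99) (nat_lit 5) (nat_lit 100) (nat_lit 5) (nat_lit 270) (nat_lit 260) (nat_lit 250)))))) (XT.nd (nat_lit 390) (nat_lit 1672) (nat_lit 0) (XT.nd (nat_lit 156) (nat_lit 836) (nat_lit 0) (XT.nd (nat_lit 78) (nat_lit 456) (nat_lit 0) (XT.lf (nat_lit 0) (nat_lit 2267447867) (nat_lit 684) (nat_lit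 1140858714) (nat_lit 760) (nat_lit 4271058347) (nat_lit 81) (nat_lit 5) (nat_lit 90) (nat_lit 5) (nat_lit 91) (nat_lit 5) (nat_lit 271) (nat_lit 260) (nat_lit 249)) (XT.lf (nat_lit 0) (nat_lit 1724033035) (nat_lit 456) (nat_lit 5478220856) (nat_lit 532) (nat_lit 719754458) (nat_lit 75) (nat_lit 5) (nat_lit 81) (nat_lit 5) (nat_lit 82) (nat_lit 5) (nat_lit 272) (nat_lit 260) (nat_lit 248))) (XT.nd (nat_lit 78) (nat_lit 380) (nat_lit 0) (XT.lf (nat_lit 0) (nat_lit 1150159283) (nat_lit 380) (nat_lit 1747768163) (nat_lit 456) (nat_lit 5290201514) (nat_lit 69) (nat_lit 5) (nat_lit 74) (nat_lit 5) (nat_lit 75) (nat_lit 5) (nat_lit 273) (nat_lit 260) (nat_lit 247)) (XT.nd (nat_lit 78) (nat_lit 76) (nat_lit 0) (XT.lf (nat_lit 0) (nat_lit 542415834) (nat_lit 304) (nat_lit 6154987220) (nat_lit 380) (nat_lit 1782219769) (nat_lit 65) (nat_lit 5) (nat_lit 69) (nat_lit 5) (nat_lit 70) (nat_lit 5) (nat_lit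 274) (nat_lit 260) (nat_lit 246)) (XT.lf (nat_lit 0) (nat_lit 1869148949) (nat_lit 380) (nat_lit 129889943) (nat_lit 76) (nat_lit 6797970707) (nat_lit 64) (nat_lit 5) (nat_lit 69) (nat_lit 5) (nat_lit 65) (nat_lit 5) (nat_lit 275) (nat_lit 260) (nat_lit 245))))) (XT.nd (nat_lit 234) (nat_lit 760) (nat_lit 0) (XT.nd (nat_lit 78) (nat_lit 608) (nat_lit 0) (XT.lf (nat_lit 0) (nat_lit 5711295823) (nat_lit 380) (nat_lit 886384347) (nat_lit 76) (nat_lit 2543042686) (nat_lit 60) (nat_lit 5) (nat_lit 65) (nat_lit 5) (nat_lit 61) (nat_lit 5) (nat_lit 276) (nat_lit 260) (nat_lit 244)) (XT.nd (nat_lit 78) (nat_lit 304) (nat_lit 0) (XT.lf (nat_lit 0) (nat_lit 295284623) (nat_lit 304) (nat_lit 1741396159) (nat_lit 76) (nat_lit 7477499988) (nat_lit 56) (nat_lit 5) (nat_lit 60) (nat_lit 5) (nat_lit 57) (nat_lit 5) (nat_lit 277) (nat_lit 260) (nat_lit 243)) (XT.lf (nat_lit 0) (nat_lit 4183511178) (nat_lit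 380) (nat_lit 2790249058) (nat_lit 76) (nat_lit 2942028577) (nat_lit 52) (nat_lit 5) (nat_lit 57) (nat_lit 5) (nat_lit 53) (nat_lit 5) (nat_lit 278) (nat_lit 260) (nat_lit 242)))) (XT.nd (nat_lit 78) (nat_lit 532) (nat_lit 0) (XT.lf (nat_lit 0) (nat_lit 6350191671) (nat_lit 228) (nat_lit 2015760075) (nat_lit 304) (nat_lit 1984757550) (nat_lit 49) (nat_lit 5) (nat_lit 52) (nat_lit 5) (nat_lit 53) (nat_lit 5) (nat_lit 279) (nat_lit 260) (nat_lit 241)) (XT.nd (nat_lit 78) (nat_lit 228) (nat_lit 0) (XT.lf (nat_lit 0) (nat_lit 2010101434) (nat_lit 304) (nat_lit 5461440868) (nat_lit 76) (nat_lit 3346894612) (nat_lit 45) (nat_lit 5) (nat_lit 49) (nat_lit 5) (nat_lit 46) (nat_lit 5) (nat_lit 280) (nat_lit 260) (nat_lit 240)) (XT.lf (nat_lit 0) (nat_lit 4121413714) (nat_lit 228) (nat_lit 2137956365) (nat_lit 304) (nat_lit 5062646867) (nat_lit 42) (nat_lit 5) (nat_lit 45) (nat_lit 5) (nat_lit 46)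 (nat_lit 5) (nat_lit 281) (nat_lit 260) (nat_lit 239))))))))
noncomputable def xc48 : XT := (XT.nd (nat_lit 1638) (nat_lit 608) (nat_lit 0) (XT.nd (nat_lit 780) (nat_lit 836) (nat_lit 0) (XT.nd (nat_lit 390) (nat_lit 608) (nat_lit 0) (XT.nd (nat_lit 156) (nat_lit 456) (nat_lit 0) (XT.nd (nat_lit 78) (nat_lit 228) (nat_lit 0) (XT.lf (nat_lit 0) (nat_lit 2605041055) (nat_lit 228) (nat_lit 8279645317) (nat_lit 304) (nat_lit 979649956) (nat_lit 39) (nat_lit 5) (nat_lit 42) (nat_lit 5) (nat_lit 43) (nat_lit 5) (nat_lit 282) (nat_lit 260) (nat_lit 238)) (XT.lf (nat_lit 0) (nat_lit 719365984) (nat_lit 152) (nat_lit 2623439711) (nat_lit 228) (nat_lit 9103655719) (nat_lit 36) (nat_lit 5) (nat_lit 38) (nat_lit 5) (nat_lit 39) (nat_lit 5) (nat_lit 283) (nat_lit 260) (nat_lit 237))) (XT.nd (nat_lit 78) (nat_lit 456) (nat_lit 0) (XT.lf (nat_lit 0) (nat_lit 8050313845) (nat_lit 228) (nat_lit 1530997544)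 (nat_lit 76) (nat_lit 3489574083) (nat_lit 36) (nat_lit 5) (nat_lit 39) (nat_lit 5) (nat_lit 37) (nat_lit 5) (nat_lit 284) (nat_lit 260) (nat_lit 236)) (XT.nd (nat_lit 78) (nat_lit 228) (nat_lit 0) (XT.lf (nat_lit 0) (nat_lit 9540715917) (nat_lit 228) (nat_lit 3652427415) (nat_lit 304) (nat_lit 549379336) (nat_lit 33) (nat_lit 5) (nat_lit 36) (nat_lit 5) (nat_lit 37) (nat_lit 5) (nat_lit 285) (nat_lit 260) (nat_lit 235)) (XT.lf (nat_lit 0) (nat_lit 4195138220) (nat_lit 228) (nat_lit 7461917192) (nat_lit 76) (nat_lit 2805036806) (nat_lit 30) (nat_lit 5) (nat_lit 33) (nat_lit 5) (nat_lit 31) (nat_lit 5) (nat_lit 286) (nat_lit 260) (nat_lit 234))))) (XT.nd (nat_lit 156) (nat_lit 304) (nat_lit 0) (XT.nd (nat_lit 78) (nat_lit 152) (nat_lit 0) (XT.lf (nat_lit 0) (nat_lit 3870981829) (nat_lit 152) (nat_lit 5501533225) (nat_lit 228) (nat_lit 5862794116) (nat_lit 28) (nat_lit 5) (nat_lit 30) (nat_lit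 5) (nat_lit 31) (nat_lit 5) (nat_lit 287) (nat_lit 260) (nat_lit 233)) (XT.lf (nat_lit 0) (nat_lit 106234529) (nat_lit 152) (nat_lit 14890639773) (nat_lit 228) (nat_lit 1072017177) (nat_lit 26) (nat_lit 5) (nat_lit 28) (nat_lit 5) (nat_lit 29) (nat_lit 4) (nat_lit 288) (nat_lit 260) (nat_lit 232))) (XT.nd (nat_lit 78) (nat_lit 228) (nat_lit 0) (XT.lf (nat_lit 0) (nat_lit 4149805532) (nat_lit 228) (nat_lit 4404948761) (nat_lit 76) (nat_lit 8402380351) (nat_lit 25) (nat_lit 5) (nat_lit 28) (nat_lit 5) (nat_lit 26) (nat_lit 5) (nat_lit 289) (nat_lit 260) (nat_lit 231)) (XT.nd (nat_lit 78) (nat_lit 76) (nat_lit 0) (XT.lf (nat_lit 0) (nat_lit 8147966304) (nat_lit 152) (nat_lit 1625178599) (nat_lit 228) (nat_lit 8141467729) (nat_lit 23) (nat_lit 5) (nat_lit 25) (nat_lit 5) (nat_lit 26) (nat_lit 5) (nat_lit 290) (nat_lit 260) (nat_lit 230)) (XT.lf (nat_lit 0) (nat_lit 2743839689) (nat_lit 76)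 (nat_lit 13212743659) (nat_lit 152) (nat_lit 2986705516) (nat_lit 22) (nat_lit 5) (nat_lit 23) (nat_lit 5) (nat_lit 24) (nat_lit 4) (nat_lit 291) (nat_lit 260) (nat_lit 229)))))) (XT.nd (nat_lit 390) (nat_lit 304) (nat_lit 0) (XT.nd (nat_lit 156) (nat_lit 304) (nat_lit 0) (XT.nd (nat_lit 78) (nat_lit 152) (nat_lit 0) (XT.lf (nat_lit 0) (nat_lit 2599449479) (nat_lit 152) (nat_lit 3677143156) (nat_lit 76) (nat_lit 13770670483) (nat_lit 21) (nat_lit 5) (nat_lit 23) (nat_lit 5) (nat_lit 22) (nat_lit 5) (nat_lit 292) (nat_lit 260) (nat_lit 228)) (XT.lf (nat_lit 0) (nat_lit 8614777899) (nat_lit 228) (nat_lit 11292471361) (nat_lit 76) (nat_lit 1325603024) (nat_lit 19) (nat_lit 5) (nat_lit 22) (nat_lit 5) (nat_lit 20) (nat_lit 4) (nat_lit 293) (nat_lit 260) (nat_lit 227))) (XT.nd (nat_lit 78) (nat_lit 228) (nat_lit 0) (XT.lf (nat_lit 0) (nat_lit 2078673394) (nat_lit 76) (nat_lit 13148213830) (nat_lit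 152) (nat_lit 7280708002) (nat_lit 18) (nat_lit 5) (nat_lit 19) (nat_lit 5) (nat_lit 20) (nat_lit 4) (nat_lit 294) (nat_lit 260) (nat_lit 226)) (XT.nd (nat_lit 78) (nat_lit 228) (nat_lit 0) (XT.lf (nat_lit 0) (nat_lit 16779754576) (nat_lit 76) (nat_lit 5701354436) (nat_lit 152) (nat_lit 1397629528) (nat_lit 18) (nat_lit 5) (nat_lit 19) (nat_lit 5) (nat_lit 20) (nat_lit 4) (nat_lit 295) (nat_lit 260) (nat_lit 225)) (XT.lf (nat_lit 0) (nat_lit 4871844430) (nat_lit 228) (nat_lit 18073665914) (nat_lit 76) (nat_lit 2406544181) (nat_lit 15) (nat_lit 5) (nat_lit 18) (nat_lit 5) (nat_lit 16) (nat_lit 4) (nat_lit 296) (nat_lit 260) (nat_lit 224))))) (XT.nd (nat_lit 234) (nat_lit 228) (nat_lit 0) (XT.nd (nat_lit 78) (nat_lit 76) (nat_lit 0) (XT.lf (nat_lit 0) (nat_lit 11740639764) (nat_lit 228) (nat_lit 4131502717) (nat_lit 76) (nat_lit 11062675019) (nat_lit 15) (nat_lit 5) (nat_lit 18) (nat_lit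 5) (nat_lit 16) (nat_lit 4) (nat_lit 297) (nat_lit 260) (nat_lit 223)) (XT.nd (nat_lit 78) (nat_lit 0) (nat_lit 0) (XT.lf (nat_lit 0) (nat_lit 11160867391) (nat_lit 76) (nat_lit 8102187438) (nat_lit 152) (nat_lit 9375999942) (nat_lit 14) (nat_lit 5) (nat_lit 15) (nat_lit 5) (nat_lit 16) (nat_lit 4) (nat_lit 298) (nat_lit 260) (nat_lit 222)) (XT.lf (nat_lit 0) (nat_lit 27397374791) (nat_lit 152) (nat_lit 2777241290) (nat_lit 0) (nat_lit 304564046) (nat_lit 14) (nat_lit 5) (nat_lit 16) (nat_lit 4) (nat_lit 14) (nat_lit 4) (nat_lit 299) (nat_lit 260) (nat_lit 221)))) (XT.nd (nat_lit 78) (nat_lit 76) (nat_lit 0) (XT.lf (nat_lit 0) (nat_lit 3882919253) (nat_lit 152) (nat_lit 19237814169) (nat_lit 76) (nat_lit 9328633156) (nat_lit 12) (nat_lit 5) (nat_lit 14) (nat_lit 5) (nat_lit 13) (nat_lit 4) (nat_lit 300) (nat_lit 260) (nat_lit 220)) (XT.nd (nat_lit 78) (nat_lit 76) (nat_lit 0) (XT.lf (nat_lit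 0) (nat_lit 11286871180) (nat_lit 152) (nat_lit 4156923733) (nat_lit 76) (nat_lit 19131390575) (nat_lit 12) (nat_lit 5) (nat_lit 14) (nat_lit 5) (nat_lit 13) (nat_lit 4) (nat_lit 301) (nat_lit 260) (nat_lit 219)) (XT.lf (nat_lit 0) (nat_lit 12428179588) (nat_lit 76) (nat_lit 6992893309) (nat_lit 152) (nat_lit 17443141679) (nat_lit 11) (nat_lit 5) (nat_lit 12) (nat_lit 5) (nat_lit 13) (nat_lit 4) (nat_lit 302) (nat_lit 260) (nat_lit 218))))))) (XT.nd (nat_lit 780) (nat_lit 228) (nat_lit 0) (XT.nd (nat_lit 390) (nat_lit 152) (nat_lit 0) (XT.nd (nat_lit 156) (nat_lit 152) (nat_lit 0) (XT.nd (nat_lit 78) (nat_lit 76) (nat_lit 0) (XT.lf (nat_lit 0) (nat_lit 28258824990) (nat_lit 152) (nat_lit 8976458943) (nat_lit 0) (nat_lit 2098479629) (nat_lit 11) (nat_lit 5) (nat_lit 13) (nat_lit 4) (nat_lit 11) (nat_lit 4) (nat_lit 303) (nat_lit 260) (nat_lit 217)) (XT.lf (nat_lit 0) (nat_lit 7759832364)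 (nat_lit 76) (nat_lit 30232735447) (nat_lit 76) (nat_lit 3998895575) (nat_lit 10) (nat_lit 4) (nat_lit 11) (nat_lit 5) (nat_lit 11) (nat_lit 4) (nat_lit 304) (nat_lit 260) (nat_lit 216))) (XT.nd (nat_lit 78) (nat_lit 76) (nat_lit 0) (XT.lf (nat_lit 0) (nat_lit 3637001923) (nat_lit 152) (nat_lit 18846036402) (nat_lit 76) (nat_lit 22370409219) (nat_lit 9) (nat_lit 5) (nat_lit 11) (nat_lit 5) (nat_lit 10) (nat_lit 4) (nat_lit 305) (nat_lit 260) (nat_lit 215)) (XT.nd (nat_lit 78) (nat_lit 76) (nat_lit 0) (XT.lf (nat_lit 0) (nat_lit 11700588468) (nat_lit 152) (nat_lit 2378693683) (nat_lit 76) (nat_lit 33864013490) (nat_lit 9) (nat_lit 5) (nat_lit 11) (nat_lit 5) (nat_lit 10) (nat_lit 4) (nat_lit 306) (nat_lit 260) (nat_lit 214)) (XT.lf (nat_lit 0) (nat_lit 15837308118) (nat_lit 76) (nat_lit 4777594552) (nat_lit 152) (nat_lit 30655173680) (nat_lit 8) (nat_lit 5) (nat_lit 9) (nat_lit 5) (nat_lit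 10) (nat_lit 4) (nat_lit 307) (nat_lit 260) (nat_lit 213))))) (XT.nd (nat_lit 156) (nat_lit 152) (nat_lit 0) (XT.nd (nat_lit 78) (nat_lit 0) (nat_lit 0) (XT.lf (nat_lit 0) (nat_lit 30326548288) (nat_lit 152) (nat_lit 19422159406) (nat_lit 0) (nat_lit 5110107320) (nat_lit 8) (nat_lit 5) (nat_lit 10) (nat_lit 4) (nat_lit 8) (nat_lit 4) (nat_lit 308) (nat_lit 260) (nat_lit 212)) (XT.lf (nat_lit 0) (nat_lit 40858480730) (nat_lit 152) (nat_lit 2279624764) (nat_lit 0) (nat_lit 15594402495) (nat_lit 8) (nat_lit 5) (nat_lit 10) (nat_lit 4) (nat_lit 8) (nat_lit 4) (nat_lit 309) (nat_lit 260) (nat_lit 211))) (XT.nd (nat_lit 78) (nat_lit 76) (nat_lit 0) (XT.lf (nat_lit 0) (nat_lit 16705699432) (nat_lit 76) (nat_lit 35753643159) (nat_lit 76) (nat_lit 10445456345) (nat_lit 7) (nat_lit 4) (nat_lit 8) (nat_lit 5) (nat_lit 8) (nat_lit 4) (nat_lit 310) (nat_lit 260) (nat_lit 210)) (XT.nd (nat_lit 78) (nat_lit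 76) (nat_lit 0) (XT.lf (nat_lit 0) (nat_lit 37230705242) (nat_lit 76) (nat_lit 27764436154) (nat_lit 76) (nat_lit 2415408062) (nat_lit 7) (nat_lit 4) (nat_lit 8) (nat_lit 5) (nat_lit 8) (nat_lit 4) (nat_lit 311) (nat_lit 260) (nat_lit 209)) (XT.lf (nat_lit 0) (nat_lit 6025854546) (nat_lit 152) (nat_lit 13033842269) (nat_lit 76) (nat_lit 53213742330) (nat_lit 6) (nat_lit 5) (nat_lit 8) (nat_lit 5) (nat_lit 7) (nat_lit 4) (nat_lit 312) (nat_lit 260) (nat_lit 208)))))) (XT.nd (nat_lit 390) (nat_lit 152) (nat_lit 0) (XT.nd (nat_lit 156) (nat_lit 0) (nat_lit 0) (XT.nd (nat_lit 78) (nat_lit 0) (nat_lit 0) (XT.lf (nat_lit 0) (nat_lit 5568463384) (nat_lit 76) (nat_lit 9548766999) (nat_lit 152) (nat_lit 62403194047) (nat_lit 5) (nat_lit 5) (nat_lit 6) (nat_lit 5) (nat_lit 7) (nat_lit 4) (nat_lit 313) (nat_lit 260) (nat_lit 207)) (XT.lf (nat_lit 0) (nat_lit 25150301795) (nat_lit 152) (nat_lit 57118032019)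 (nat_lit 0) (nat_lit 908130342) (nat_lit 5) (nat_lit 5) (nat_lit 7) (nat_lit 4) (nat_lit 5) (nat_lit 4) (nat_lit 314) (nat_lit 260) (nat_lit 206))) (XT.nd (nat_lit 78) (nat_lit 0) (nat_lit 0) (XT.lf (nat_lit 0) (nat_lit 36121411687) (nat_lit 152) (nat_lit 41306169347) (nat_lit 0) (nat_lit 11850650178) (nat_lit 5) (nat_lit 5) (nat_lit 7) (nat_lit 4) (nat_lit 5) (nat_lit 4) (nat_lit 315) (nat_lit 260) (nat_lit 205)) (XT.nd (nat_lit 78) (nat_lit 0) (nat_lit 0) (XT.lf (nat_lit 0) (nat_lit 47946491029) (nat_lit 152) (nat_lit 24273590090) (nat_lit 0) (nat_lit 23649257246) (nat_lit 5) (nat_lit 5) (nat_lit 7) (nat_lit 4) (nat_lit 5) (nat_lit 4) (nat_lit 316) (nat_lit 260) (nat_lit 204)) (XT.lf (nat_lit 0) (nat_lit 60695614366) (nat_lit 152) (nat_lit 5919360447) (nat_lit 0) (nat_lit 36373869219) (nat_lit 5) (nat_lit 5) (nat_lit 7) (nat_lit 4) (nat_lit 5) (nat_lit 4) (nat_lit 317) (nat_lit 260)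 (nat_lit 203))))) (XT.nd (nat_lit 234) (nat_lit 76) (nat_lit 0) (XT.nd (nat_lit 78) (nat_lit 0) (nat_lit 0) (XT.lf (nat_lit 0) (nat_lit 14323734341) (nat_lit 76) (nat_lit 60344231353) (nat_lit 76) (nat_lit 35999790498) (nat_lit 4) (nat_lit 4) (nat_lit 5) (nat_lit 5) (nat_lit 5) (nat_lit 4) (nat_lit 318) (nat_lit 260) (nat_lit 202)) (XT.nd (nat_lit 78) (nat_lit 0) (nat_lit 0) (XT.lf (nat_lit 0) (nat_lit 36361381038) (nat_lit 76) (nat_lit 53480440013) (nat_lit 76) (nat_lit 29114984614) (nat_lit 4) (nat_lit 4) (nat_lit 5) (nat_lit 5) (nat_lit 5) (nat_lit 4) (nat_lit 319) (nat_lit 260) (nat_lit 201)) (XT.lf (nat_lit 0) (nat_lit 60128452316) (nat_lit 76) (nat_lit 46083173708) (nat_lit 76) (nat_lit 21698260398) (nat_lit 4) (nat_lit 4) (nat_lit 5) (nat_lit 5) (nat_lit 5) (nat_lit 4) (nat_lit 320) (nat_lit 260) (nat_lit 200)))) (XT.nd (nat_lit 78) (nat_lit 76) (nat_lit 0) (XT.lf (nat_lit 0) (nat_lit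 85765790078) (nat_lit 76) (nat_lit 38108596786) (nat_lit 76) (nat_lit 13705666891) (nat_lit 4) (nat_lit 4) (nat_lit 5) (nat_lit 5) (nat_lit 5) (nat_lit 4) (nat_lit 321) (nat_lit 260) (nat_lit 199)) (XT.nd (nat_lit 78) (nat_lit 76) (nat_lit 0) (XT.lf (nat_lit 0) (nat_lit 113425319290) (nat_lit 76) (nat_lit 29509452494) (nat_lit 76) (nat_lit 5089840576) (nat_lit 4) (nat_lit 4) (nat_lit 5) (nat_lit 5) (nat_lit 5) (nat_lit 4) (nat_lit 322) (nat_lit 260) (nat_lit 198)) (XT.lf (nat_lit 0) (nat_lit 4065840254) (nat_lit 152) (nat_lit 16100085714) (nat_lit 76) (nat_lit 139136251047) (nat_lit 3) (nat_lit 5) (nat_lit 5) (nat_lit 5) (nat_lit 4) (nat_lit 4) (nat_lit 323) (nat_lit 260) (nat_lit 197))))))))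
noncomputable def xc49 : XT := (XT.nd (nat_lit 1638) (nat_lit 0) (nat_lit 0) (XT.nd (nat_lit 780) (nat_lit 76) (nat_lit 0) (XT.nd (nat_lit 390) (nat_lit 0) (nat_lit 0) (XT.nd (nat_lit 156) (nat_lit 0) (nat_lit 0) (XT.nd (nat_lit 78) (nat_lit 0) (nat_lit 0) (XT.lf (nat_lit 0) (nat_lit 3892686531) (nat_lit 76) (nat_lit 9932702206) (nat_lit 152) (nat_lit 157649905853) (nat_lit 2) (nat_lit 5) (nat_lit 3) (nat_lit 5) (nat_lit 4) (nat_lit 4) (nat_lit 324) (nat_lit 260) (nat_lit 196)) (XT.lf (nat_lit 0) (nat_lit 24655245387) (nat_lit 152) (nat_lit 158595016914) (nat_lit 0) (nat_lit 1357528140) (nat_lit 2) (nat_lit 5) (nat_lit 4) (nat_lit 4) (nat_lit 2) (nat_lit 4) (nat_lit 325) (nat_lit 260) (nat_lit 195))) (XT.nd (nat_lit 78) (nat_lit 0) (nat_lit 0) (XT.lf (nat_lit 0) (nat_lit 36506955608) (nat_lit 152) (nat_lit 149078602260) (nat_lit 0) (nat_lit 13197560471) (nat_lit 2) (nat_lit 5) (nat_lit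 4) (nat_lit 4) (nat_lit 2) (nat_lit 4) (nat_lit 326) (nat_lit 260) (nat_lit 194)) (XT.nd (nat_lit 78) (nat_lit 0) (nat_lit 0) (XT.lf (nat_lit 0) (nat_lit 49295674442) (nat_lit 152) (nat_lit 138821893211) (nat_lit 0) (nat_lit 25975466443) (nat_lit 2) (nat_lit 5) (nat_lit 4) (nat_lit 4) (nat_lit 2) (nat_lit 4) (nat_lit 327) (nat_lit 260) (nat_lit 193)) (XT.lf (nat_lit 0) (nat_lit 63097186887) (nat_lit 152) (nat_lit 127764109269) (nat_lit 0) (nat_lit 39766966980) (nat_lit 2) (nat_lit 5) (nat_lit 4) (nat_lit 4) (nat_lit 2) (nat_lit 4) (nat_lit 328) (nat_lit 260) (nat_lit 192))))) (XT.nd (nat_lit 156) (nat_lit 0) (nat_lit 0) (XT.nd (nat_lit 78) (nat_lit 0) (nat_lit 0) (XT.lf (nat_lit 0) (nat_lit 77993279685) (nat_lit 152) (nat_lit 115839722826) (nat_lit 0) (nat_lit 54653789492) (nat_lit 2) (nat_lit 5) (nat_lit 4) (nat_lit 4) (nat_lit 2) (nat_lit 4) (nat_lit 329) (nat_lit 260) (nat_lit 191))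 (XT.lf (nat_lit 0) (nat_lit 94072225978) (nat_lit 152) (nat_lit 102978070851) (nat_lit 0) (nat_lit 70724152187) (nat_lit 2) (nat_lit 5) (nat_lit 4) (nat_lit 4) (nat_lit 2) (nat_lit 4) (nat_lit 330) (nat_lit 260) (nat_lit 190))) (XT.nd (nat_lit 78) (nat_lit 0) (nat_lit 0) (XT.lf (nat_lit 0) (nat_lit 111429308411) (nat_lit 152) (nat_lit 89102936147) (nat_lit 0) (nat_lit 88073286844) (nat_lit 2) (nat_lit 5) (nat_lit 4) (nat_lit 4) (nat_lit 2) (nat_lit 4) (nat_lit 331) (nat_lit 260) (nat_lit 189)) (XT.nd (nat_lit 78) (nat_lit 0) (nat_lit 0) (XT.lf (nat_lit 0) (nat_lit 130167383768) (nat_lit 152) (nat_lit 74132095694) (nat_lit 0) (nat_lit 106804003149) (nat_lit 2) (nat_lit 5) (nat_lit 4) (nat_lit 4) (nat_lit 2) (nat_lit 4) (nat_lit 332) (nat_lit 260) (nat_lit 188)) (XT.lf (nat_lit 0) (nat_lit 150397492496) (nat_lit 152) (nat_lit 57976833399) (nat_lit 0) (nat_lit 127027297941) (nat_lit 2) (nat_lit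 5) (nat_lit 4) (nat_lit 4) (nat_lit 2) (nat_lit 4) (nat_lit 333) (nat_lit 260) (nat_lit 187)))))) (XT.nd (nat_lit 390) (nat_lit 0) (nat_lit 0) (XT.nd (nat_lit 156) (nat_lit 76) (nat_lit 0) (XT.nd (nat_lit 78) (nat_lit 0) (nat_lit 0) (XT.lf (nat_lit 0) (nat_lit 172239516721) (nat_lit 152) (nat_lit 40541414376) (nat_lit 0) (nat_lit 148863012965) (nat_lit 2) (nat_lit 5) (nat_lit 4) (nat_lit 4) (nat_lit 2) (nat_lit 4) (nat_lit 334) (nat_lit 260) (nat_lit 186)) (XT.lf (nat_lit 0) (nat_lit 195822890661) (nat_lit 152) (nat_lit 21722517622) (nat_lit 0) (nat_lit 172440545053) (nat_lit 2) (nat_lit 5) (nat_lit 4) (nat_lit 4) (nat_lit 2) (nat_lit 4) (nat_lit 335) (nat_lit 260) (nat_lit 185))) (XT.nd (nat_lit 78) (nat_lit 76) (nat_lit 0) (XT.lf (nat_lit 0) (nat_lit 221287367643) (nat_lit 152) (nat_lit 1408623750) (nat_lit 0) (nat_lit 197899612911) (nat_lit 2) (nat_lit 5) (nat_lit 4) (nat_lit 4) (nat_lit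 2) (nat_lit 4) (nat_lit 336) (nat_lit 260) (nat_lit 184)) (XT.nd (nat_lit 78) (nat_lit 0) (nat_lit 0) (XT.lf (nat_lit 0) (nat_lit 21199151096) (nat_lit 76) (nat_lit 227915675332) (nat_lit 76) (nat_lit 204522912154) (nat_lit 1) (nat_lit 4) (nat_lit 2) (nat_lit 5) (nat_lit 2) (nat_lit 4) (nat_lit 337) (nat_lit 260) (nat_lit 183)) (XT.lf (nat_lit 0) (nat_lit 45656536774) (nat_lit 76) (nat_lit 233531564367) (nat_lit 76) (nat_lit 210134163738) (nat_lit 1) (nat_lit 4) (nat_lit 2) (nat_lit 5) (nat_lit 2) (nat_lit 4) (nat_lit 338) (nat_lit 260) (nat_lit 182))))) (XT.nd (nat_lit 234) (nat_lit 0) (nat_lit 0) (XT.nd (nat_lit 78) (nat_lit 0) (nat_lit 0) (XT.lf (nat_lit 0) (nat_lit 72061890476) (nat_lit 76) (nat_lit 239600793564) (nat_lit 76) (nat_lit 216199098999) (nat_lit 1) (nat_lit 4) (nat_lit 2) (nat_lit 5) (nat_lit 2) (nat_lit 4) (nat_lit 339) (nat_lit 260) (nat_lit 181)) (XT.nd (nat_lit 78)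 (nat_lit 0) (nat_lit 0) (XT.lf (nat_lit 0) (nat_lit 100571688373) (nat_lit 76) (nat_lit 246159328727) (nat_lit 76) (nat_lit 222753658295) (nat_lit 1) (nat_lit 4) (nat_lit 2) (nat_lit 5) (nat_lit 2) (nat_lit 4) (nat_lit 340) (nat_lit 260) (nat_lit 180)) (XT.lf (nat_lit 0) (nat_lit 131354877414) (nat_lit 76) (nat_lit 253246035249) (nat_lit 76) (nat_lit 229836683459) (nat_lit 1) (nat_lit 4) (nat_lit 2) (nat_lit 5) (nat_lit 2) (nat_lit 4) (nat_lit 341) (nat_lit 260) (nat_lit 179)))) (XT.nd (nat_lit 78) (nat_lit 0) (nat_lit 0) (XT.lf (nat_lit 0) (nat_lit 164593876497) (nat_lit 76) (nat_lit 260902908427) (nat_lit 76) (nat_lit 237490147972) (nat_lit 1) (nat_lit 4) (nat_lit 2) (nat_lit 5) (nat_lit 2) (nat_lit 4) (nat_lit 342) (nat_lit 260) (nat_lit 178)) (XT.nd (nat_lit 78) (nat_lit 0) (nat_lit 0) (XT.lf (nat_lit 0) (nat_lit 200485657470) (nat_lit 76) (nat_lit 269175322325) (nat_lit 76) (nat_lit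 245759405699) (nat_lit 1) (nat_lit 4) (nat_lit 2) (nat_lit 5) (nat_lit 2) (nat_lit 4) (nat_lit 343) (nat_lit 260) (nat_lit 177)) (XT.lf (nat_lit 0) (nat_lit 239242912367) (nat_lit 76) (nat_lit 278112298656) (nat_lit 76) (nat_lit 254693459649) (nat_lit 1) (nat_lit 4) (nat_lit 2) (nat_lit 5) (nat_lit 2) (nat_lit 4) (nat_lit 344) (nat_lit 260) (nat_lit 176))))))) (XT.nd (nat_lit 34554) (nat_lit 0) (nat_lit 4180) (XT.nd (nat_lit 34164) (nat_lit 0) (nat_lit 8892) (XT.nd (nat_lit 156) (nat_lit 0) (nat_lit 0) (XT.nd (nat_lit 78) (nat_lit 0) (nat_lit 0) (XT.lf (nat_lit 0) (nat_lit 281095313811) (nat_lit 76) (nat_lit 287766797278) (nat_lit 76) (nat_lit 264345252363) (nat_lit 1) (nat_lit 4) (nat_lit 2) (nat_lit 5) (nat_lit 2) (nat_lit 4) (nat_lit 345) (nat_lit 260) (nat_lit 175)) (XT.lf (nat_lit 0) (nat_lit 326290876031) (nat_lit 76) (nat_lit 298196030036) (nat_lit 76) (nat_lit 274771979650) (nat_lit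 1) (nat_lit 4) (nat_lit 2) (nat_lit 5) (nat_lit 2) (nat_lit 4) (nat_lit 346) (nat_lit 260) (nat_lit 174))) (XT.nd (nat_lit 78) (nat_lit 0) (nat_lit 0) (XT.lf (nat_lit 0) (nat_lit 375097424582) (nat_lit 76) (nat_lit 309461799789) (nat_lit 76) (nat_lit 286035429524) (nat_lit 1) (nat_lit 4) (nat_lit 2) (nat_lit 5) (nat_lit 2) (nat_lit 4) (nat_lit 347) (nat_lit 260) (nat_lit 173)) (XT.nd (nat_lit 33852) (nat_lit 0) (nat_lit 9728) (XT.lf (nat_lit 0) (nat_lit 427804183455) (nat_lit 76) (nat_lit 321630866657) (nat_lit 76) (nat_lit 298202348355) (nat_lit 1) (nat_lit 4) (nat_lit 2) (nat_lit 5) (nat_lit 2) (nat_lit 4) (nat_lit 348) (nat_lit 260) (nat_lit 172)) (XT.lf (nat_lit 0) (nat_lit 1194253726) (nat_lit 228) (nat_lit 1020539202) (nat_lit 228) (nat_lit 1020539202) (nat_lit 129) (nat_lit 3) (nat_lit 132) (nat_lit 3) (nat_lit 132) (nat_lit 5) (nat_lit 261) (nat_lit 261) (nat_lit 258))))) (XT.nd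 (nat_lit 156) (nat_lit 608) (nat_lit 0) (XT.nd (nat_lit 78) (nat_lit 0) (nat_lit 0) (XT.lf (nat_lit 0) (nat_lit 22931292) (nat_lit 228) (nat_lit 3745109615) (nat_lit 304) (nat_lit 2742899557) (nat_lit 126) (nat_lit 5) (nat_lit 129) (nat_lit 3) (nat_lit 130) (nat_lit 5) (nat_lit 262) (nat_lit 261) (nat_lit 257)) (XT.lf (nat_lit 76) (nat_lit 1213500626) (nat_lit 0) (nat_lit 2744382047) (nat_lit 304) (nat_lit 2612511019) (nat_lit 127) (nat_lit 5) (nat_lit 126) (nat_lit 5) (nat_lit 130) (nat_lit 5) (nat_lit 263) (nat_lit 261) (nat_lit 256))) (XT.nd (nat_lit 78) (nat_lit 304) (nat_lit 0) (XT.lf (nat_lit 0) (nat_lit 1195852321) (nat_lit 304) (nat_lit 192073612) (nat_lit 380) (nat_lit 5263135223) (nat_lit 122) (nat_lit 5) (nat_lit 126) (nat_lit 5) (nat_lit 127) (nat_lit 5) (nat_lit 264) (nat_lit 261) (nat_lit 255)) (XT.nd (nat_lit 78) (nat_lit 380) (nat_lit 0) (XT.lf (nat_lit 0) (nat_lit 4942702582)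 (nat_lit 304) (nat_lit 1465627707) (nat_lit 76) (nat_lit 342687903) (nat_lit 123) (nat_lit 5) (nat_lit 127) (nat_lit 5) (nat_lit 124) (nat_lit 5) (nat_lit 265) (nat_lit 261) (nat_lit 254)) (XT.lf (nat_lit 0) (nat_lit 1811548796) (nat_lit 380) (nat_lit 2671240547) (nat_lit 76) (nat_lit 2388147092) (nat_lit 118) (nat_lit 5) (nat_lit 123) (nat_lit 5) (nat_lit 119) (nat_lit 5) (nat_lit 266) (nat_lit 261) (nat_lit 253)))))) (XT.nd (nat_lit 390) (nat_lit 2584) (nat_lit 0) (XT.nd (nat_lit 156) (nat_lit 1216) (nat_lit 0) (XT.nd (nat_lit 78) (nat_lit 532) (nat_lit 0) (XT.lf (nat_lit 0) (nat_lit 3210930305) (nat_lit 380) (nat_lit 2200726642) (nat_lit 456) (nat_lit 1600625026) (nat_lit 113) (nat_lit 5) (nat_lit 118) (nat_lit 5) (nat_lit 119) (nat_lit 5) (nat_lit 267) (nat_lit 261) (nat_lit 252)) (XT.lf (nat_lit 0) (nat_lit 1848621097) (nat_lit 532) (nat_lit 4879893029) (nat_lit 76) (nat_lit 446545356)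 (nat_lit 106) (nat_lit 5) (nat_lit 113) (nat_lit 5) (nat_lit 107) (nat_lit 5) (nat_lit 268) (nat_lit 261) (nat_lit 251))) (XT.nd (nat_lit 78) (nat_lit 684) (nat_lit 0) (XT.lf (nat_lit 0) (nat_lit 1407983345) (nat_lit 532) (nat_lit 3948933100) (nat_lit 608) (nat_lit 2001501379) (nat_lit 99) (nat_lit 5) (nat_lit 106) (nat_lit 5) (nat_lit 107) (nat_lit 5) (nat_lit 269) (nat_lit 261) (nat_lit 250)) (XT.nd (nat_lit 78) (nat_lit 0) (nat_lit 0) (XT.lf (nat_lit 0) (nat_lit 574194373) (nat_lit 608) (nat_lit 784351675) (nat_lit 684) (nat_lit 6206390578) (nat_lit 90) (nat_lit 5) (nat_lit 98) (nat_lit 5) (nat_lit 99) (nat_lit 5) (nat_lit 270) (nat_lit 261) (nat_lit 249)) (XT.lf (nat_lit 0) (nat_lit 4806601166) (nat_lit 684) (nat_lit 268694453) (nat_lit 76) (nat_lit 2717252108) (nat_lit 90) (nat_lit 5) (nat_lit 99) (nat_lit 5) (nat_lit 91) (nat_lit 5) (nat_lit 271) (nat_lit 261) (nat_lit 248))))) (XT.nd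 (nat_lit 234) (nat_lit 988) (nat_lit 0) (XT.nd (nat_lit 78) (nat_lit 836) (nat_lit 0) (XT.lf (nat_lit 0) (nat_lit 357047650) (nat_lit 760) (nat_lit 1074057437) (nat_lit 76) (nat_lit 6613442776) (nat_lit 80) (nat_lit 5) (nat_lit 90) (nat_lit 5) (nat_lit 81) (nat_lit 5) (nat_lit 272) (nat_lit 261) (nat_lit 247)) (XT.nd (nat_lit 78) (nat_lit 380) (nat_lit 0) (XT.lf (nat_lit 0) (nat_lit 3782042468) (nat_lit 532) (nat_lit 1948900481) (nat_lit 76) (nat_lit 2587912217) (nat_lit 74) (nat_lit 5) (nat_lit 81) (nat_lit 5) (nat_lit 75) (nat_lit 5) (nat_lit 273) (nat_lit 261) (nat_lit 246)) (XT.lf (nat_lit 0) (nat_lit 5769267811) (nat_lit 380) (nat_lit 1629783479) (nat_lit 456) (nat_lit 1220667408) (nat_lit 69) (nat_lit 5) (nat_lit 74) (nat_lit 5) (nat_lit 75) (nat_lit 5) (nat_lit 274) (nat_lit 261) (nat_lit 245)))) (XT.nd (nat_lit 78) (nat_lit 608) (nat_lit 0) (XT.lf (nat_lit 0) (nat_lit 2239453750)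 (nat_lit 380) (nat_lit 3857412356) (nat_lit 76) (nat_lit 2848681940) (nat_lit 64) (nat_lit 5) (nat_lit 69) (nat_lit 5) (nat_lit 65) (nat_lit 5) (nat_lit 275) (nat_lit 261) (nat_lit 244)) (XT.nd (nat_lit 78) (nat_lit 304) (nat_lit 0) (XT.lf (nat_lit 0) (nat_lit 4336208035) (nat_lit 304) (nat_lit 1548919083) (nat_lit 380) (nat_lit 3414158992) (nat_lit 60) (nat_lit 5) (nat_lit 64) (nat_lit 5) (nat_lit 65) (nat_lit 5) (nat_lit 276) (nat_lit 261) (nat_lit 243)) (XT.lf (nat_lit 0) (nat_lit 127179360) (nat_lit 304) (nat_lit 6203081807) (nat_lit 76) (nat_lit 3351792536) (nat_lit 56) (nat_lit 5) (nat_lit 60) (nat_lit 5) (nat_lit 57) (nat_lit 5) (nat_lit 277) (nat_lit 261) (nat_lit 242))))))))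
noncomputable def xc50 : XT := (XT.nd (nat_lit 1638) (nat_lit 836) (nat_lit 0) (XT.nd (nat_lit 780) (nat_lit 1140) (nat_lit 0) (XT.nd (nat_lit 390) (nat_lit 912) (nat_lit 0) (XT.nd (nat_lit 156) (nat_lit 532) (nat_lit 0) (XT.nd (nat_lit 78) (nat_lit 228) (nat_lit 0) (XT.lf (nat_lit 0) (nat_lit 2457712599) (nat_lit 304) (nat_lit 1351520085) (nat_lit 380) (nat_lit 6284901949) (nat_lit 52) (nat_lit 5) (nat_lit 56) (nat_lit 5) (nat_lit 57) (nat_lit 5) (nat_lit 278) (nat_lit 261) (nat_lit 241)) (XT.lf (nat_lit 0) (nat_lit 1257868464) (nat_lit 228) (nat_lit 6552552932) (nat_lit 304) (nat_lit 2727848375) (nat_lit 49) (nat_lit 5) (nat_lit 52) (nat_lit 5) (nat_lit 53) (nat_lit 5) (nat_lit 279) (nat_lit 261) (nat_lit 240))) (XT.nd (nat_lit 78) (nat_lit 456) (nat_lit 0) (XT.lf (nat_lit 0) (nat_lit 1074674571) (nat_lit 304) (nat_lit 130310362) (nat_lit 76) (nat_lit 9812532615) (nat_lit 48) (nat_lit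 5) (nat_lit 52) (nat_lit 5) (nat_lit 49) (nat_lit 5) (nat_lit 280) (nat_lit 261) (nat_lit 239)) (XT.nd (nat_lit 78) (nat_lit 228) (nat_lit 0) (XT.lf (nat_lit 0) (nat_lit 5164867812) (nat_lit 304) (nat_lit 1783843032) (nat_lit 76) (nat_lit 4580464668) (nat_lit 45) (nat_lit 5) (nat_lit 49) (nat_lit 5) (nat_lit 46) (nat_lit 5) (nat_lit 281) (nat_lit 261) (nat_lit 238)) (XT.lf (nat_lit 0) (nat_lit 8386828191) (nat_lit 228) (nat_lit 1206922400) (nat_lit 304) (nat_lit 2487680941) (nat_lit 42) (nat_lit 5) (nat_lit 45) (nat_lit 5) (nat_lit 46) (nat_lit 5) (nat_lit 282) (nat_lit 261) (nat_lit 237))))) (XT.nd (nat_lit 156) (nat_lit 456) (nat_lit 0) (XT.nd (nat_lit 78) (nat_lit 152) (nat_lit 0) (XT.lf (nat_lit 0) (nat_lit 1724660810) (nat_lit 304) (nat_lit 6000329196) (nat_lit 76) (nat_lit 4947764236) (nat_lit 38) (nat_lit 5) (nat_lit 42) (nat_lit 5) (nat_lit 39) (nat_lit 5) (nat_lit 283) (nat_lit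 261) (nat_lit 236)) (XT.lf (nat_lit 0) (nat_lit 4587001647) (nat_lit 152) (nat_lit 1627917827) (nat_lit 228) (nat_lit 7093215170) (nat_lit 36) (nat_lit 5) (nat_lit 38) (nat_lit 5) (nat_lit 39) (nat_lit 5) (nat_lit 284) (nat_lit 261) (nat_lit 235))) (XT.nd (nat_lit 78) (nat_lit 228) (nat_lit 0) (XT.lf (nat_lit 0) (nat_lit 2046572456) (nat_lit 228) (nat_lit 9108894182) (nat_lit 304) (nat_lit 2834506235) (nat_lit 33) (nat_lit 5) (nat_lit 36) (nat_lit 5) (nat_lit 37) (nat_lit 5) (nat_lit 285) (nat_lit 261) (nat_lit 234)) (XT.nd (nat_lit 78) (nat_lit 152) (nat_lit 0) (XT.lf (nat_lit 0) (nat_lit 1770099823) (nat_lit 304) (nat_lit 971465993) (nat_lit 76) (nat_lit 11980489605) (nat_lit 32) (nat_lit 5) (nat_lit 36) (nat_lit 5) (nat_lit 33) (nat_lit 5) (nat_lit 286) (nat_lit 261) (nat_lit 233)) (XT.lf (nat_lit 0) (nat_lit 6773054181) (nat_lit 228) (nat_lit 4560569604) (nat_lit 76) (nat_lit 4170440680)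 (nat_lit 30) (nat_lit 5) (nat_lit 33) (nat_lit 5) (nat_lit 31) (nat_lit 5) (nat_lit 287) (nat_lit 261) (nat_lit 232)))))) (XT.nd (nat_lit 390) (nat_lit 532) (nat_lit 0) (XT.nd (nat_lit 156) (nat_lit 228) (nat_lit 0) (XT.nd (nat_lit 78) (nat_lit 228) (nat_lit 0) (XT.lf (nat_lit 0) (nat_lit 7526929443) (nat_lit 152) (nat_lit 4723839699) (nat_lit 228) (nat_lit 4094275558) (nat_lit 28) (nat_lit 5) (nat_lit 30) (nat_lit 5) (nat_lit 31) (nat_lit 5) (nat_lit 288) (nat_lit 261) (nat_lit 231)) (XT.lf (nat_lit 0) (nat_lit 954819728) (nat_lit 228) (nat_lit 13863609686) (nat_lit 76) (nat_lit 2430748621) (nat_lit 25) (nat_lit 5) (nat_lit 28) (nat_lit 5) (nat_lit 26) (nat_lit 5) (nat_lit 289) (nat_lit 261) (nat_lit 230))) (XT.nd (nat_lit 78) (nat_lit 228) (nat_lit 0) (XT.lf (nat_lit 0) (nat_lit 6403588249) (nat_lit 228) (nat_lit 1648100538) (nat_lit 76) (nat_lit 10163749433) (nat_lit 25) (nat_lit 5)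 (nat_lit 28) (nat_lit 5) (nat_lit 26) (nat_lit 5) (nat_lit 290) (nat_lit 261) (nat_lit 229)) (XT.nd (nat_lit 78) (nat_lit 76) (nat_lit 0) (XT.lf (nat_lit 0) (nat_lit 11773923772) (nat_lit 152) (nat_lit 606949922) (nat_lit 228) (nat_lit 6873598088) (nat_lit 23) (nat_lit 5) (nat_lit 25) (nat_lit 5) (nat_lit 26) (nat_lit 5) (nat_lit 291) (nat_lit 261) (nat_lit 228)) (XT.lf (nat_lit 0) (nat_lit 5880321925) (nat_lit 76) (nat_lit 13105556625) (nat_lit 152) (nat_lit 1383368329) (nat_lit 22) (nat_lit 5) (nat_lit 23) (nat_lit 5) (nat_lit 24) (nat_lit 4) (nat_lit 292) (nat_lit 261) (nat_lit 227))))) (XT.nd (nat_lit 234) (nat_lit 228) (nat_lit 0) (XT.nd (nat_lit 78) (nat_lit 228) (nat_lit 0) (XT.lf (nat_lit 0) (nat_lit 4458617814) (nat_lit 152) (nat_lit 1214169145) (nat_lit 76) (nat_lit 15894050498) (nat_lit 21) (nat_lit 5) (nat_lit 23) (nat_lit 5) (nat_lit 22) (nat_lit 5) (nat_lit 293) (nat_lit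 261) (nat_lit 226)) (XT.nd (nat_lit 78) (nat_lit 76) (nat_lit 0) (XT.lf (nat_lit 0) (nat_lit 10890699203) (nat_lit 228) (nat_lit 9495180527) (nat_lit 76) (nat_lit 2464739625) (nat_lit 19) (nat_lit 5) (nat_lit 22) (nat_lit 5) (nat_lit 20) (nat_lit 4) (nat_lit 294) (nat_lit 261) (nat_lit 225)) (XT.lf (nat_lit 0) (nat_lit 4828287176) (nat_lit 76) (nat_lit 13126286734) (nat_lit 152) (nat_lit 6276740891) (nat_lit 18) (nat_lit 5) (nat_lit 19) (nat_lit 5) (nat_lit 20) (nat_lit 4) (nat_lit 295) (nat_lit 261) (nat_lit 224)))) (XT.nd (nat_lit 78) (nat_lit 228) (nat_lit 0) (XT.lf (nat_lit 0) (nat_lit 20514097823) (nat_lit 76) (nat_lit 5163218159) (nat_lit 152) (nat_lit 40529010) (nat_lit 18) (nat_lit 5) (nat_lit 19) (nat_lit 5) (nat_lit 20) (nat_lit 4) (nat_lit 296) (nat_lit 261) (nat_lit 223)) (XT.nd (nat_lit 78) (nat_lit 0) (nat_lit 0) (XT.lf (nat_lit 0) (nat_lit 6629924487) (nat_lit 228) (nat_lit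 17131902185) (nat_lit 76) (nat_lit 3548823279) (nat_lit 15) (nat_lit 5) (nat_lit 18) (nat_lit 5) (nat_lit 16) (nat_lit 4) (nat_lit 297) (nat_lit 261) (nat_lit 222)) (XT.lf (nat_lit 0) (nat_lit 13946865484) (nat_lit 228) (nat_lit 2251229414) (nat_lit 76) (nat_lit 12827092320) (nat_lit 15) (nat_lit 5) (nat_lit 18) (nat_lit 5) (nat_lit 16) (nat_lit 4) (nat_lit 298) (nat_lit 261) (nat_lit 221))))))) (XT.nd (nat_lit 780) (nat_lit 304) (nat_lit 0) (XT.nd (nat_lit 390) (nat_lit 228) (nat_lit 0) (XT.nd (nat_lit 156) (nat_lit 228) (nat_lit 0) (XT.nd (nat_lit 78) (nat_lit 0) (nat_lit 0) (XT.lf (nat_lit 0) (nat_lit 14168451910) (nat_lit 76) (nat_lit 7841788508) (nat_lit 152) (nat_lit 8858643754) (nat_lit 14) (nat_lit 5) (nat_lit 15) (nat_lit 5) (nat_lit 16) (nat_lit 4) (nat_lit 299) (nat_lit 261) (nat_lit 220)) (XT.lf (nat_lit 0) (nat_lit 30719096801) (nat_lit 152) (nat_lit 997731034) (nat_lit 0)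 (nat_lit 1143275360) (nat_lit 14) (nat_lit 5) (nat_lit 16) (nat_lit 4) (nat_lit 14) (nat_lit 4) (nat_lit 300) (nat_lit 261) (nat_lit 219))) (XT.nd (nat_lit 78) (nat_lit 76) (nat_lit 0) (XT.lf (nat_lit 0) (nat_lit 5288141265) (nat_lit 152) (nat_lit 18825142044) (nat_lit 76) (nat_lit 10876496522) (nat_lit 12) (nat_lit 5) (nat_lit 14) (nat_lit 5) (nat_lit 13) (nat_lit 4) (nat_lit 301) (nat_lit 261) (nat_lit 218)) (XT.nd (nat_lit 78) (nat_lit 76) (nat_lit 0) (XT.lf (nat_lit 0) (nat_lit 13203328719) (nat_lit 152) (nat_lit 2682350540) (nat_lit 76) (nat_lit 21404098778) (nat_lit 12) (nat_lit 5) (nat_lit 14) (nat_lit 5) (nat_lit 13) (nat_lit 4) (nat_lit 302) (nat_lit 261) (nat_lit 217)) (XT.lf (nat_lit 0) (nat_lit 15151025505) (nat_lit 76) (nat_lit 6789154571) (nat_lit 152) (nat_lit 17824209026) (nat_lit 11) (nat_lit 5) (nat_lit 12) (nat_lit 5) (nat_lit 13) (nat_lit 4) (nat_lit 303) (nat_lit 261)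 (nat_lit 216))))) (XT.nd (nat_lit 156) (nat_lit 152) (nat_lit 0) (XT.nd (nat_lit 78) (nat_lit 76) (nat_lit 0) (XT.lf (nat_lit 0) (nat_lit 31424472260) (nat_lit 152) (nat_lit 8059724765) (nat_lit 0) (nat_lit 2950380213) (nat_lit 11) (nat_lit 5) (nat_lit 13) (nat_lit 4) (nat_lit 11) (nat_lit 4) (nat_lit 304) (nat_lit 261) (nat_lit 215)) (XT.lf (nat_lit 0) (nat_lit 9944421219) (nat_lit 76) (nat_lit 31949875938) (nat_lit 76) (nat_lit 3412774193) (nat_lit 10) (nat_lit 4) (nat_lit 11) (nat_lit 5) (nat_lit 11) (nat_lit 4) (nat_lit 305) (nat_lit 261) (nat_lit 214))) (XT.nd (nat_lit 78) (nat_lit 76) (nat_lit 0) (XT.lf (nat_lit 0) (nat_lit 4740030886) (nat_lit 152) (nat_lit 18878380741) (nat_lit 76) (nat_lit 24782185431) (nat_lit 9) (nat_lit 5) (nat_lit 11) (nat_lit 5) (nat_lit 10) (nat_lit 4) (nat_lit 306) (nat_lit 261) (nat_lit 213)) (XT.nd (nat_lit 78) (nat_lit 76) (nat_lit 0) (XT.lf (nat_lit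 0) (nat_lit 13388551109) (nat_lit 152) (nat_lit 1202934943) (nat_lit 76) (nat_lit 37149193342) (nat_lit 9) (nat_lit 5) (nat_lit 11) (nat_lit 5) (nat_lit 10) (nat_lit 4) (nat_lit 307) (nat_lit 261) (nat_lit 212)) (XT.lf (nat_lit 0) (nat_lit 18410979950) (nat_lit 76) (nat_lit 4569734097) (nat_lit 152) (nat_lit 32354689193) (nat_lit 8) (nat_lit 5) (nat_lit 9) (nat_lit 5) (nat_lit 10) (nat_lit 4) (nat_lit 308) (nat_lit 261) (nat_lit 211)))))) (XT.nd (nat_lit 390) (nat_lit 152) (nat_lit 0) (XT.nd (nat_lit 156) (nat_lit 152) (nat_lit 0) (XT.nd (nat_lit 78) (nat_lit 0) (nat_lit 0) (XT.lf (nat_lit 0) (nat_lit 33424738613) (nat_lit 152) (nat_lit 19740974950) (nat_lit 0) (nat_lit 6047788274) (nat_lit 8) (nat_lit 5) (nat_lit 10) (nat_lit 4) (nat_lit 8) (nat_lit 4) (nat_lit 309) (nat_lit 261) (nat_lit 210)) (XT.lf (nat_lit 0) (nat_lit 44749442949) (nat_lit 152) (nat_lit 1318515849) (nat_lit 0) (nat_lit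 17331651332) (nat_lit 8) (nat_lit 5) (nat_lit 10) (nat_lit 4) (nat_lit 8) (nat_lit 4) (nat_lit 310) (nat_lit 261) (nat_lit 209))) (XT.nd (nat_lit 78) (nat_lit 76) (nat_lit 0) (XT.lf (nat_lit 0) (nat_lit 19135940084) (nat_lit 76) (nat_lit 38113415627) (nat_lit 76) (nat_lit 10657808012) (nat_lit 7) (nat_lit 4) (nat_lit 8) (nat_lit 5) (nat_lit 8) (nat_lit 4) (nat_lit 311) (nat_lit 261) (nat_lit 208)) (XT.nd (nat_lit 78) (nat_lit 76) (nat_lit 0) (XT.lf (nat_lit 0) (nat_lit 41221925270) (nat_lit 76) (nat_lit 29522147542) (nat_lit 76) (nat_lit 2031525114) (nat_lit 7) (nat_lit 4) (nat_lit 8) (nat_lit 5) (nat_lit 8) (nat_lit 4) (nat_lit 312) (nat_lit 261) (nat_lit 207)) (XT.lf (nat_lit 0) (nat_lit 7025186142) (nat_lit 152) (nat_lit 13121411959) (nat_lit 76) (nat_lit 57882562463) (nat_lit 6) (nat_lit 5) (nat_lit 8) (nat_lit 5) (nat_lit 7) (nat_lit 4) (nat_lit 313) (nat_lit 261) (nat_lit 206)))))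 (XT.nd (nat_lit 234) (nat_lit 76) (nat_lit 0) (XT.nd (nat_lit 78) (nat_lit 0) (nat_lit 0) (XT.lf (nat_lit 0) (nat_lit 6927569025) (nat_lit 76) (nat_lit 9892251528) (nat_lit 152) (nat_lit 66877308217) (nat_lit 5) (nat_lit 5) (nat_lit 6) (nat_lit 5) (nat_lit 7) (nat_lit 4) (nat_lit 314) (nat_lit 261) (nat_lit 205)) (XT.nd (nat_lit 78) (nat_lit 0) (nat_lit 0) (XT.lf (nat_lit 0) (nat_lit 27625081146) (nat_lit 152) (nat_lit 60824516895) (nat_lit 0) (nat_lit 1357596387) (nat_lit 5) (nat_lit 5) (nat_lit 7) (nat_lit 4) (nat_lit 5) (nat_lit 4) (nat_lit 315) (nat_lit 261) (nat_lit 204)) (XT.lf (nat_lit 0) (nat_lit 39439601665) (nat_lit 152) (nat_lit 43811628000) (nat_lit 0) (nat_lit 13147605542) (nat_lit 5) (nat_lit 5) (nat_lit 7) (nat_lit 4) (nat_lit 5) (nat_lit 4) (nat_lit 316) (nat_lit 261) (nat_lit 203)))) (XT.nd (nat_lit 78) (nat_lit 76) (nat_lit 0) (XT.lf (nat_lit 0) (nat_lit 52178948315)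 (nat_lit 152) (nat_lit 25475630173) (nat_lit 0) (nat_lit 25864256484) (nat_lit 5) (nat_lit 5) (nat_lit 7) (nat_lit 4) (nat_lit 5) (nat_lit 4) (nat_lit 317) (nat_lit 261) (nat_lit 202)) (XT.nd (nat_lit 78) (nat_lit 76) (nat_lit 0) (XT.lf (nat_lit 0) (nat_lit 65918613519) (nat_lit 152) (nat_lit 5707865648) (nat_lit 0) (nat_lit 39582907144) (nat_lit 5) (nat_lit 5) (nat_lit 7) (nat_lit 4) (nat_lit 5) (nat_lit 4) (nat_lit 318) (nat_lit 261) (nat_lit 201)) (XT.lf (nat_lit 0) (nat_lit 16124905561) (nat_lit 76) (nat_lit 64866866921) (nat_lit 76) (nat_lit 38511702634) (nat_lit 4) (nat_lit 4) (nat_lit 5) (nat_lit 5) (nat_lit 5) (nat_lit 4) (nat_lit 319) (nat_lit 261) (nat_lit 200))))))))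
noncomputable def xc51 : XT := (XT.nd (nat_lit 1638) (nat_lit 0) (nat_lit 0) (XT.nd (nat_lit 780) (nat_lit 76) (nat_lit 0) (XT.nd (nat_lit 390) (nat_lit 76) (nat_lit 0) (XT.nd (nat_lit 156) (nat_lit 76) (nat_lit 0) (XT.nd (nat_lit 78) (nat_lit 0) (nat_lit 0) (XT.lf (nat_lit 0) (nat_lit 39877025292) (nat_lit 76) (nat_lit 57476557677) (nat_lit 76) (nat_lit 31103376805) (nat_lit 4) (nat_lit 4) (nat_lit 5) (nat_lit 5) (nat_lit 5) (nat_lit 4) (nat_lit 320) (nat_lit 261) (nat_lit 199)) (XT.lf (nat_lit 0) (nat_lit 65500519030) (nat_lit 76) (nat_lit 49508422478) (nat_lit 76) (nat_lit 23118559583) (nat_lit 4) (nat_lit 4) (nat_lit 5) (nat_lit 5) (nat_lit 5) (nat_lit 4) (nat_lit 321) (nat_lit 261) (nat_lit 198))) (XT.nd (nat_lit 78) (nat_lit 76) (nat_lit 0) (XT.lf (nat_lit 0) (nat_lit 93147229700) (nat_lit 76) (nat_lit 40915242744) (nat_lit 76) (nat_lit 14509933532) (nat_lit 4) (nat_lit 4) (nat_lit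 5) (nat_lit 5) (nat_lit 5) (nat_lit 4) (nat_lit 322) (nat_lit 261) (nat_lit 197)) (XT.nd (nat_lit 78) (nat_lit 76) (nat_lit 0) (XT.lf (nat_lit 0) (nat_lit 122980989662) (nat_lit 76) (nat_lit 31646095930) (nat_lit 76) (nat_lit 5226484572) (nat_lit 4) (nat_lit 4) (nat_lit 5) (nat_lit 5) (nat_lit 5) (nat_lit 4) (nat_lit 323) (nat_lit 261) (nat_lit 196)) (XT.lf (nat_lit 0) (nat_lit 4633592822) (nat_lit 152) (nat_lit 16933988798) (nat_lit 76) (nat_lit 150466526610) (nat_lit 3) (nat_lit 5) (nat_lit 5) (nat_lit 5) (nat_lit 4) (nat_lit 4) (nat_lit 324) (nat_lit 261) (nat_lit 195))))) (XT.nd (nat_lit 156) (nat_lit 0) (nat_lit 0) (XT.nd (nat_lit 78) (nat_lit 0) (nat_lit 0) (XT.lf (nat_lit 0) (nat_lit 4638470431) (nat_lit 76) (nat_lit 10524254593) (nat_lit 152) (nat_lit 170018917987) (nat_lit 2) (nat_lit 5) (nat_lit 3) (nat_lit 5) (nat_lit 4) (nat_lit 4) (nat_lit 325) (nat_lit 261) (nat_lit 194))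 (XT.lf (nat_lit 0) (nat_lit 26844772039) (nat_lit 152) (nat_lit 170872550000) (nat_lit 0) (nat_lit 1648134539) (nat_lit 2) (nat_lit 5) (nat_lit 4) (nat_lit 4) (nat_lit 2) (nat_lit 4) (nat_lit 326) (nat_lit 261) (nat_lit 193))) (XT.nd (nat_lit 78) (nat_lit 0) (nat_lit 0) (XT.lf (nat_lit 0) (nat_lit 39628537076) (nat_lit 152) (nat_lit 160625197600) (nat_lit 0) (nat_lit 14421887668) (nat_lit 2) (nat_lit 5) (nat_lit 4) (nat_lit 4) (nat_lit 2) (nat_lit 4) (nat_lit 327) (nat_lit 261) (nat_lit 192)) (XT.nd (nat_lit 78) (nat_lit 0) (nat_lit 0) (XT.lf (nat_lit 0) (nat_lit 53425462674) (nat_lit 152) (nat_lit 149576077223) (nat_lit 0) (nat_lit 28209542980) (nat_lit 2) (nat_lit 5) (nat_lit 4) (nat_lit 4) (nat_lit 2) (nat_lit 4) (nat_lit 328) (nat_lit 261) (nat_lit 191)) (XT.lf (nat_lit 0) (nat_lit 68317308391) (nat_lit 152) (nat_lit 137659712599) (nat_lit 0) (nat_lit 43092805099) (nat_lit 2) (nat_lit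 5) (nat_lit 4) (nat_lit 4) (nat_lit 2) (nat_lit 4) (nat_lit 329) (nat_lit 261) (nat_lit 190)))))) (XT.nd (nat_lit 390) (nat_lit 76) (nat_lit 0) (XT.nd (nat_lit 156) (nat_lit 0) (nat_lit 0) (XT.nd (nat_lit 78) (nat_lit 0) (nat_lit 0) (XT.lf (nat_lit 0) (nat_lit 84392322201) (nat_lit 152) (nat_lit 124805488234) (nat_lit 0) (nat_lit 59159871133) (nat_lit 2) (nat_lit 5) (nat_lit 4) (nat_lit 4) (nat_lit 2) (nat_lit 4) (nat_lit 330) (nat_lit 261) (nat_lit 189)) (XT.lf (nat_lit 0) (nat_lit 101745763446) (nat_lit 152) (nat_lit 110937230947) (nat_lit 0) (nat_lit 76505953327) (nat_lit 2) (nat_lit 5) (nat_lit 4) (nat_lit 4) (nat_lit 2) (nat_lit 4) (nat_lit 331) (nat_lit 261) (nat_lit 188))) (XT.nd (nat_lit 78) (nat_lit 0) (nat_lit 0) (XT.lf (nat_lit 0) (nat_lit 120480467334) (nat_lit 152) (nat_lit 95972758472) (nat_lit 0) (nat_lit 95233843277) (nat_lit 2) (nat_lit 5) (nat_lit 4) (nat_lit 4) (nat_lit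 2) (nat_lit 4) (nat_lit 332) (nat_lit 261) (nat_lit 187)) (XT.nd (nat_lit 78) (nat_lit 0) (nat_lit 0) (XT.lf (nat_lit 0) (nat_lit 140707454331) (nat_lit 152) (nat_lit 79823392454) (nat_lit 0) (nat_lit 115454521073) (nat_lit 2) (nat_lit 5) (nat_lit 4) (nat_lit 4) (nat_lit 2) (nat_lit 4) (nat_lit 333) (nat_lit 261) (nat_lit 186)) (XT.lf (nat_lit 0) (nat_lit 162546588064) (nat_lit 152) (nat_lit 62393432946) (nat_lit 0) (nat_lit 137287812954) (nat_lit 2) (nat_lit 5) (nat_lit 4) (nat_lit 4) (nat_lit 2) (nat_lit 4) (nat_lit 334) (nat_lit 261) (nat_lit 185))))) (XT.nd (nat_lit 234) (nat_lit 76) (nat_lit 0) (XT.nd (nat_lit 78) (nat_lit 0) (nat_lit 0) (XT.lf (nat_lit 0) (nat_lit 186127285622) (nat_lit 152) (nat_lit 43579591299) (nat_lit 0) (nat_lit 160863101390) (nat_lit 2) (nat_lit 5) (nat_lit 4) (nat_lit 4) (nat_lit 2) (nat_lit 4) (nat_lit 335) (nat_lit 261) (nat_lit 184)) (XT.nd (nat_lit 78)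 (nat_lit 0) (nat_lit 0) (XT.lf (nat_lit 0) (nat_lit 211589284472) (nat_lit 152) (nat_lit 23270378081) (nat_lit 0) (nat_lit 186320091793) (nat_lit 2) (nat_lit 5) (nat_lit 4) (nat_lit 4) (nat_lit 2) (nat_lit 4) (nat_lit 336) (nat_lit 261) (nat_lit 183)) (XT.lf (nat_lit 0) (nat_lit 239083470534) (nat_lit 152) (nat_lit 1345442399) (nat_lit 0) (nat_lit 213809640403) (nat_lit 2) (nat_lit 5) (nat_lit 4) (nat_lit 4) (nat_lit 2) (nat_lit 4) (nat_lit 337) (nat_lit 261) (nat_lit 182)))) (XT.nd (nat_lit 78) (nat_lit 0) (nat_lit 0) (XT.lf (nat_lit 0) (nat_lit 23063311284) (nat_lit 76) (nat_lit 246069543956) (nat_lit 76) (nat_lit 220791419889) (nat_lit 1) (nat_lit 4) (nat_lit 2) (nat_lit 5) (nat_lit 2) (nat_lit 4) (nat_lit 338) (nat_lit 261) (nat_lit 181)) (XT.nd (nat_lit 78) (nat_lit 0) (nat_lit 0) (XT.lf (nat_lit 0) (nat_lit 49464826476) (nat_lit 76) (nat_lit 252140584513) (nat_lit 76) (nat_lit 226858484580)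 (nat_lit 1) (nat_lit 4) (nat_lit 2) (nat_lit 5) (nat_lit 2) (nat_lit 4) (nat_lit 339) (nat_lit 261) (nat_lit 180)) (XT.lf (nat_lit 0) (nat_lit 77971070196) (nat_lit 76) (nat_lit 258700796861) (nat_lit 76) (nat_lit 233415015570) (nat_lit 1) (nat_lit 4) (nat_lit 2) (nat_lit 5) (nat_lit 2) (nat_lit 4) (nat_lit 340) (nat_lit 261) (nat_lit 179))))))) (XT.nd (nat_lit 34710) (nat_lit 0) (nat_lit 4788) (XT.nd (nat_lit 390) (nat_lit 0) (nat_lit 0) (XT.nd (nat_lit 156) (nat_lit 0) (nat_lit 0) (XT.nd (nat_lit 78) (nat_lit 0) (nat_lit 0) (XT.lf (nat_lit 0) (nat_lit 108750968333) (nat_lit 76) (nat_lit 265789056333) (nat_lit 76) (nat_lit 240499866377) (nat_lit 1) (nat_lit 4) (nat_lit 2) (nat_lit 5) (nat_lit 2) (nat_lit 4) (nat_lit 341) (nat_lit 261) (nat_lit 178)) (XT.lf (nat_lit 0) (nat_lit 141986920283) (nat_lit 76) (nat_lit 273447367427) (nat_lit 76) (nat_lit 248155021300) (nat_lit 1) (nat_lit 4)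 (nat_lit 2) (nat_lit 5) (nat_lit 2) (nat_lit 4) (nat_lit 342) (nat_lit 261) (nat_lit 177))) (XT.nd (nat_lit 78) (nat_lit 0) (nat_lit 0) (XT.lf (nat_lit 0) (nat_lit 177875879836) (nat_lit 76) (nat_lit 281721112729) (nat_lit 76) (nat_lit 256425844222) (nat_lit 1) (nat_lit 4) (nat_lit 2) (nat_lit 5) (nat_lit 2) (nat_lit 4) (nat_lit 343) (nat_lit 261) (nat_lit 176)) (XT.nd (nat_lit 78) (nat_lit 0) (nat_lit 0) (XT.lf (nat_lit 0) (nat_lit 216630522307) (nat_lit 76) (nat_lit 290659321841) (nat_lit 76) (nat_lit 265361347425) (nat_lit 1) (nat_lit 4) (nat_lit 2) (nat_lit 5) (nat_lit 2) (nat_lit 4) (nat_lit 344) (nat_lit 261) (nat_lit 175)) (XT.lf (nat_lit 0) (nat_lit 258480504838) (nat_lit 76) (nat_lit 300314961928) (nat_lit 76) (nat_lit 275014482041) (nat_lit 1) (nat_lit 4) (nat_lit 2) (nat_lit 5) (nat_lit 2) (nat_lit 4) (nat_lit 345) (nat_lit 261) (nat_lit 174))))) (XT.nd (nat_lit 34086) (nat_lit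 0) (nat_lit 9120) (XT.nd (nat_lit 78) (nat_lit 0) (nat_lit 0) (XT.lf (nat_lit 0) (nat_lit 303673827324) (nat_lit 76) (nat_lit 310745251597) (nat_lit 76) (nat_lit 285442451830) (nat_lit 1) (nat_lit 4) (nat_lit 2) (nat_lit 5) (nat_lit 2) (nat_lit 4) (nat_lit 346) (nat_lit 261) (nat_lit 173)) (XT.nd (nat_lit 78) (nat_lit 0) (nat_lit 0) (XT.lf (nat_lit 0) (nat_lit 352478302047) (nat_lit 76) (nat_lit 322011999972) (nat_lit 76) (nat_lit 296707052169) (nat_lit 1) (nat_lit 4) (nat_lit 2) (nat_lit 5) (nat_lit 2) (nat_lit 4) (nat_lit 347) (nat_lit 261) (nat_lit 172)) (XT.lf (nat_lit 0) (nat_lit 405183140709) (nat_lit 76) (nat_lit 334181972971) (nat_lit 76) (nat_lit 308875036244) (nat_lit 1) (nat_lit 4) (nat_lit 2) (nat_lit 5) (nat_lit 2) (nat_lit 4) (nat_lit 348) (nat_lit 261) (nat_lit 171)))) (XT.nd (nat_lit 78) (nat_lit 380) (nat_lit 0) (XT.lf (nat_lit 0) (nat_lit 943452530) (nat_lit 0) (nat_lit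 943452530) (nat_lit 228) (nat_lit 1393065312) (nat_lit 126) (nat_lit 5) (nat_lit 126) (nat_lit 3) (nat_lit 129) (nat_lit 3) (nat_lit 262) (nat_lit 262) (nat_lit 256)) (XT.nd (nat_lit 78) (nat_lit 0) (nat_lit 76) (XT.lf (nat_lit 76) (nat_lit 152949616) (nat_lit 0) (nat_lit 678465179) (nat_lit 380) (nat_lit 5798929498) (nat_lit 122) (nat_lit 5) (nat_lit 121) (nat_lit 3) (nat_lit 126) (nat_lit 5) (nat_lit 263) (nat_lit 262) (nat_lit 255)) (XT.lf (nat_lit 0) (nat_lit 4370562120) (nat_lit 304) (nat_lit 1448558057) (nat_lit 380) (nat_lit 899730652) (nat_lit 122) (nat_lit 5) (nat_lit 126) (nat_lit 5) (nat_lit 127) (nat_lit 5) (nat_lit 264) (nat_lit 262) (nat_lit 254)))))) (XT.nd (nat_lit 390) (nat_lit 3192) (nat_lit 0) (XT.nd (nat_lit 156) (nat_lit 836) (nat_lit 0) (XT.nd (nat_lit 78) (nat_lit 0) (nat_lit 0) (XT.lf (nat_lit 0) (nat_lit 1063983309) (nat_lit 380) (nat_lit 2954018901) (nat_lit 456)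 (nat_lit 2809972609) (nat_lit 117) (nat_lit 5) (nat_lit 122) (nat_lit 5) (nat_lit 123) (nat_lit 5) (nat_lit 265) (nat_lit 262) (nat_lit 253)) (XT.lf (nat_lit 76) (nat_lit 2564992539) (nat_lit 0) (nat_lit 1847440207) (nat_lit 456) (nat_lit 2545214261) (nat_lit 118) (nat_lit 5) (nat_lit 117) (nat_lit 5) (nat_lit 123) (nat_lit 5) (nat_lit 266) (nat_lit 262) (nat_lit 252))) (XT.nd (nat_lit 78) (nat_lit 456) (nat_lit 0) (XT.lf (nat_lit 0) (nat_lit 679006142) (nat_lit 456) (nat_lit 5764926359) (nat_lit 76) (nat_lit 665043003) (nat_lit 112) (nat_lit 5) (nat_lit 118) (nat_lit 5) (nat_lit 113) (nat_lit 5) (nat_lit 267) (nat_lit 262) (nat_lit 251)) (XT.nd (nat_lit 78) (nat_lit 0) (nat_lit 0) (XT.lf (nat_lit 0) (nat_lit 141108187) (nat_lit 456) (nat_lit 3757704133) (nat_lit 532) (nat_lit 3381000718) (nat_lit 106) (nat_lit 5) (nat_lit 112) (nat_lit 5) (nat_lit 113) (nat_lit 5) (nat_lit 268) (nat_lit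 262) (nat_lit 250)) (XT.lf (nat_lit 0) (nat_lit 6518827948) (nat_lit 456) (nat_lit 690219797) (nat_lit 532) (nat_lit 264396112) (nat_lit 106) (nat_lit 5) (nat_lit 112) (nat_lit 5) (nat_lit 113) (nat_lit 5) (nat_lit 269) (nat_lit 262) (nat_lit 249))))) (XT.nd (nat_lit 234) (nat_lit 1216) (nat_lit 0) (XT.nd (nat_lit 78) (nat_lit 1368) (nat_lit 0) (XT.lf (nat_lit 0) (nat_lit 2882077263) (nat_lit 608) (nat_lit 2076595771) (nat_lit 76) (nat_lit 2728158184) (nat_lit 98) (nat_lit 5) (nat_lit 106) (nat_lit 5) (nat_lit 99) (nat_lit 5) (nat_lit 270) (nat_lit 262) (nat_lit 248)) (XT.nd (nat_lit 78) (nat_lit 760) (nat_lit 0) (XT.lf (nat_lit 0) (nat_lit 4748680910) (nat_lit 608) (nat_lit 1389037968) (nat_lit 684) (nat_lit 1786645802) (nat_lit 90) (nat_lit 5) (nat_lit 98) (nat_lit 5) (nat_lit 99) (nat_lit 5) (nat_lit 271) (nat_lit 262) (nat_lit 247)) (XT.lf (nat_lit 0) (nat_lit 1338592435) (nat_lit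 760) (nat_lit 4314809087) (nat_lit 76) (nat_lit 2531261652) (nat_lit 80) (nat_lit 5) (nat_lit 90) (nat_lit 5) (nat_lit 81) (nat_lit 5) (nat_lit 272) (nat_lit 262) (nat_lit 246)))) (XT.nd (nat_lit 78) (nat_lit 760) (nat_lit 0) (XT.lf (nat_lit 0) (nat_lit 2963322271) (nat_lit 456) (nat_lit 1602774848) (nat_lit 532) (nat_lit 3902994193) (nat_lit 74) (nat_lit 5) (nat_lit 80) (nat_lit 5) (nat_lit 81) (nat_lit 5) (nat_lit 273) (nat_lit 262) (nat_lit 245)) (XT.nd (nat_lit 78) (nat_lit 380) (nat_lit 0) (XT.lf (nat_lit 0) (nat_lit 2017348229) (nat_lit 380) (nat_lit 5986355018) (nat_lit 456) (nat_lit 775449819) (nat_lit 69) (nat_lit 5) (nat_lit 74) (nat_lit 5) (nat_lit 75) (nat_lit 5) (nat_lit 274) (nat_lit 262) (nat_lit 244)) (XT.lf (nat_lit 0) (nat_lit 986364396) (nat_lit 304) (nat_lit 1481436444) (nat_lit 380) (nat_lit 6647166188) (nat_lit 64) (nat_lit 5) (nat_lit 68) (nat_lit 5) (nat_lit 69)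 (nat_lit 5) (nat_lit 275) (nat_lit 262) (nat_lit 243))))))))
noncomputable def xc52 : XT := (XT.nd (nat_lit 1638) (nat_lit 988) (nat_lit 0) (XT.nd (nat_lit 780) (nat_lit 1368) (nat_lit 0) (XT.nd (nat_lit 390) (nat_lit 912) (nat_lit 0) (XT.nd (nat_lit 156) (nat_lit 912) (nat_lit 0) (XT.nd (nat_lit 78) (nat_lit 304) (nat_lit 0) (XT.lf (nat_lit 0) (nat_lit 5935967360) (nat_lit 380) (nat_lit 149613272) (nat_lit 76) (nat_lit 3392186036) (nat_lit 64) (nat_lit 5) (nat_lit 69) (nat_lit 5) (nat_lit 65) (nat_lit 5) (nat_lit 276) (nat_lit 262) (nat_lit 242)) (XT.lf (nat_lit 0) (nat_lit 8524949245) (nat_lit 304) (nat_lit 1147782327) (nat_lit 380) (nat_lit 197660161) (nat_lit 60) (nat_lit 5) (nat_lit 64) (nat_lit 5) (nat_lit 65) (nat_lit 5) (nat_lit 277) (nat_lit 262) (nat_lit 241))) (XT.nd (nat_lit 78) (nat_lit 608) (nat_lit 0) (XT.lf (nat_lit 0) (nat_lit 3333606959) (nat_lit 304) (nat_lit 2755107703)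 (nat_lit 76) (nat_lit 4201919994) (nat_lit 56) (nat_lit 5) (nat_lit 60) (nat_lit 5) (nat_lit 57) (nat_lit 5) (nat_lit 278) (nat_lit 262) (nat_lit 240)) (XT.nd (nat_lit 78) (nat_lit 304) (nat_lit 0) (XT.lf (nat_lit 0) (nat_lit 6427139232) (nat_lit 304) (nat_lit 705229949) (nat_lit 380) (nat_lit 3612662735) (nat_lit 52) (nat_lit 5) (nat_lit 56) (nat_lit 5) (nat_lit 57) (nat_lit 5) (nat_lit 279) (nat_lit 262) (nat_lit 239)) (XT.lf (nat_lit 0) (nat_lit 64518554) (nat_lit 304) (nat_lit 6127964650) (nat_lit 76) (nat_lit 5040294434) (nat_lit 48) (nat_lit 5) (nat_lit 52) (nat_lit 5) (nat_lit 49) (nat_lit 5) (nat_lit 280) (nat_lit 262) (nat_lit 238))))) (XT.nd (nat_lit 156) (nat_lit 456) (nat_lit 0) (XT.nd (nat_lit 78) (nat_lit 228) (nat_lit 0) (XT.lf (nat_lit 0) (nat_lit 3536216425) (nat_lit 228) (nat_lit 379921954) (nat_lit 304) (nat_lit 7840340857) (nat_lit 45) (nat_lit 5) (nat_lit 48) (nat_lit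 5) (nat_lit 49) (nat_lit 5) (nat_lit 281) (nat_lit 262) (nat_lit 237)) (XT.lf (nat_lit 0) (nat_lit 1653917010) (nat_lit 228) (nat_lit 6516799152) (nat_lit 304) (nat_lit 4146840792) (nat_lit 42) (nat_lit 5) (nat_lit 45) (nat_lit 5) (nat_lit 46) (nat_lit 5) (nat_lit 282) (nat_lit 262) (nat_lit 236))) (XT.nd (nat_lit 78) (nat_lit 456) (nat_lit 0) (XT.lf (nat_lit 0) (nat_lit 12432004025) (nat_lit 228) (nat_lit 358628392) (nat_lit 304) (nat_lit 131844872) (nat_lit 42) (nat_lit 5) (nat_lit 45) (nat_lit 5) (nat_lit 46) (nat_lit 5) (nat_lit 283) (nat_lit 262) (nat_lit 235)) (XT.nd (nat_lit 78) (nat_lit 152) (nat_lit 0) (XT.lf (nat_lit 0) (nat_lit 4219303303) (nat_lit 304) (nat_lit 3065411249) (nat_lit 76) (nat_lit 6280499497) (nat_lit 38) (nat_lit 5) (nat_lit 42) (nat_lit 5) (nat_lit 39) (nat_lit 5) (nat_lit 284) (nat_lit 262) (nat_lit 234)) (XT.lf (nat_lit 0) (nat_lit 8220496746) (nat_lit 152)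 (nat_lit 724717559) (nat_lit 228) (nat_lit 5312650258) (nat_lit 36) (nat_lit 5) (nat_lit 38) (nat_lit 5) (nat_lit 39) (nat_lit 5) (nat_lit 285) (nat_lit 262) (nat_lit 233)))))) (XT.nd (nat_lit 390) (nat_lit 532) (nat_lit 0) (XT.nd (nat_lit 156) (nat_lit 380) (nat_lit 0) (XT.nd (nat_lit 78) (nat_lit 228) (nat_lit 0) (XT.lf (nat_lit 0) (nat_lit 5429366525) (nat_lit 228) (nat_lit 8751422110) (nat_lit 304) (nat_lit 818713955) (nat_lit 33) (nat_lit 5) (nat_lit 36) (nat_lit 5) (nat_lit 37) (nat_lit 5) (nat_lit 286) (nat_lit 262) (nat_lit 232)) (XT.lf (nat_lit 0) (nat_lit 2066708616) (nat_lit 152) (nat_lit 1887245089) (nat_lit 228) (nat_lit 11841087295) (nat_lit 30) (nat_lit 5) (nat_lit 32) (nat_lit 5) (nat_lit 33) (nat_lit 5) (nat_lit 287) (nat_lit 262) (nat_lit 231))) (XT.nd (nat_lit 78) (nat_lit 380) (nat_lit 0) (XT.lf (nat_lit 0) (nat_lit 9237313557) (nat_lit 228) (nat_lit 1926185950) (nat_lit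 76) (nat_lit 5482300326) (nat_lit 30) (nat_lit 5) (nat_lit 33) (nat_lit 5) (nat_lit 31) (nat_lit 5) (nat_lit 288) (nat_lit 262) (nat_lit 230)) (XT.nd (nat_lit 78) (nat_lit 228) (nat_lit 0) (XT.lf (nat_lit 0) (nat_lit 10997970173) (nat_lit 152) (nat_lit 4057665783) (nat_lit 228) (nat_lit 2503485910) (nat_lit 28) (nat_lit 5) (nat_lit 30) (nat_lit 5) (nat_lit 31) (nat_lit 5) (nat_lit 289) (nat_lit 262) (nat_lit 229)) (XT.lf (nat_lit 0) (nat_lit 2810648153) (nat_lit 228) (nat_lit 12093768717) (nat_lit 76) (nat_lit 3633707265) (nat_lit 25) (nat_lit 5) (nat_lit 28) (nat_lit 5) (nat_lit 26) (nat_lit 5) (nat_lit 290) (nat_lit 262) (nat_lit 228))))) (XT.nd (nat_lit 234) (nat_lit 228) (nat_lit 0) (XT.nd (nat_lit 78) (nat_lit 152) (nat_lit 0) (XT.lf (nat_lit 0) (nat_lit 915013245) (nat_lit 152) (nat_lit 7662780251) (nat_lit 228) (nat_lit 11009917205) (nat_lit 23) (nat_lit 5) (nat_lit 25) (nat_lit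 5) (nat_lit 26) (nat_lit 5) (nat_lit 291) (nat_lit 262) (nat_lit 227)) (XT.nd (nat_lit 78) (nat_lit 152) (nat_lit 0) (XT.lf (nat_lit 0) (nat_lit 14941874470) (nat_lit 228) (nat_lit 5454300491) (nat_lit 76) (nat_lit 318399623) (nat_lit 23) (nat_lit 5) (nat_lit 26) (nat_lit 5) (nat_lit 24) (nat_lit 4) (nat_lit 292) (nat_lit 262) (nat_lit 226)) (XT.lf (nat_lit 0) (nat_lit 82681092) (nat_lit 152) (nat_lit 13071800367) (nat_lit 76) (nat_lit 8767502300) (nat_lit 21) (nat_lit 5) (nat_lit 23) (nat_lit 5) (nat_lit 22) (nat_lit 5) (nat_lit 293) (nat_lit 262) (nat_lit 225)))) (XT.nd (nat_lit 78) (nat_lit 76) (nat_lit 0) (XT.lf (nat_lit 0) (nat_lit 1087305736) (nat_lit 152) (nat_lit 5160625864) (nat_lit 228) (nat_lit 16971210378) (nat_lit 19) (nat_lit 5) (nat_lit 21) (nat_lit 5) (nat_lit 22) (nat_lit 5) (nat_lit 294) (nat_lit 262) (nat_lit 224)) (XT.nd (nat_lit 78) (nat_lit 76) (nat_lit 0) (XT.lf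 (nat_lit 0) (nat_lit 13122328143) (nat_lit 228) (nat_lit 7939389839) (nat_lit 76) (nat_lit 3547625550) (nat_lit 19) (nat_lit 5) (nat_lit 22) (nat_lit 5) (nat_lit 20) (nat_lit 4) (nat_lit 295) (nat_lit 262) (nat_lit 223)) (XT.lf (nat_lit 0) (nat_lit 7429330595) (nat_lit 76) (nat_lit 13255792791) (nat_lit 152) (nat_lit 5418777494) (nat_lit 18) (nat_lit 5) (nat_lit 19) (nat_lit 5) (nat_lit 20) (nat_lit 4) (nat_lit 296) (nat_lit 262) (nat_lit 222))))))) (XT.nd (nat_lit 780) (nat_lit 380) (nat_lit 0) (XT.nd (nat_lit 390) (nat_lit 228) (nat_lit 0) (XT.nd (nat_lit 156) (nat_lit 152) (nat_lit 0) (XT.nd (nat_lit 78) (nat_lit 152) (nat_lit 0) (XT.lf (nat_lit 0) (nat_lit 1176676743) (nat_lit 152) (nat_lit 3527266758) (nat_lit 76) (nat_lit 23009343949) (nat_lit 17) (nat_lit 5) (nat_lit 19) (nat_lit 5) (nat_lit 18) (nat_lit 5) (nat_lit 297) (nat_lit 262) (nat_lit 221)) (XT.lf (nat_lit 0) (nat_lit 8333443019)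 (nat_lit 228) (nat_lit 16455423323) (nat_lit 76) (nat_lit 4646991456) (nat_lit 15) (nat_lit 5) (nat_lit 18) (nat_lit 5) (nat_lit 16) (nat_lit 4) (nat_lit 298) (nat_lit 262) (nat_lit 220))) (XT.nd (nat_lit 78) (nat_lit 152) (nat_lit 0) (XT.lf (nat_lit 0) (nat_lit 16148841180) (nat_lit 228) (nat_lit 535928658) (nat_lit 76) (nat_lit 14607206293) (nat_lit 15) (nat_lit 5) (nat_lit 18) (nat_lit 5) (nat_lit 16) (nat_lit 4) (nat_lit 299) (nat_lit 262) (nat_lit 219)) (XT.nd (nat_lit 78) (nat_lit 76) (nat_lit 0) (XT.lf (nat_lit 0) (nat_lit 17114955437) (nat_lit 76) (nat_lit 7690175891) (nat_lit 152) (nat_lit 8480713011) (nat_lit 14) (nat_lit 5) (nat_lit 15) (nat_lit 5) (nat_lit 16) (nat_lit 4) (nat_lit 300) (nat_lit 262) (nat_lit 218)) (XT.lf (nat_lit 0) (nat_lit 659690876) (nat_lit 76) (nat_lit 33495967883) (nat_lit 76) (nat_lit 1283516738) (nat_lit 13) (nat_lit 4) (nat_lit 14) (nat_lit 5) (nat_lit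 14) (nat_lit 4) (nat_lit 301) (nat_lit 262) (nat_lit 217))))) (XT.nd (nat_lit 156) (nat_lit 152) (nat_lit 0) (XT.nd (nat_lit 78) (nat_lit 0) (nat_lit 0) (XT.lf (nat_lit 0) (nat_lit 6649625755) (nat_lit 152) (nat_lit 18657887581) (nat_lit 76) (nat_lit 12433835649) (nat_lit 12) (nat_lit 5) (nat_lit 14) (nat_lit 5) (nat_lit 13) (nat_lit 4) (nat_lit 302) (nat_lit 262) (nat_lit 216)) (XT.lf (nat_lit 0) (nat_lit 15128514635) (nat_lit 152) (nat_lit 1347618375) (nat_lit 76) (nat_lit 23752740944) (nat_lit 12) (nat_lit 5) (nat_lit 14) (nat_lit 5) (nat_lit 13) (nat_lit 4) (nat_lit 303) (nat_lit 262) (nat_lit 215))) (XT.nd (nat_lit 78) (nat_lit 76) (nat_lit 0) (XT.lf (nat_lit 0) (nat_lit 17845096186) (nat_lit 76) (nat_lit 6677991495) (nat_lit 152) (nat_lit 18380474977) (nat_lit 11) (nat_lit 5) (nat_lit 12) (nat_lit 5) (nat_lit 13) (nat_lit 4) (nat_lit 304) (nat_lit 262) (nat_lit 214)) (XT.nd (nat_lit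 78) (nat_lit 76) (nat_lit 0) (XT.lf (nat_lit 0) (nat_lit 34714271323) (nat_lit 152) (nat_lit 7302881610) (nat_lit 0) (nat_lit 3772849428) (nat_lit 11) (nat_lit 5) (nat_lit 13) (nat_lit 4) (nat_lit 11) (nat_lit 4) (nat_lit 305) (nat_lit 262) (nat_lit 213)) (XT.lf (nat_lit 0) (nat_lit 12080683307) (nat_lit 76) (nat_lit 33904461396) (nat_lit 76) (nat_lit 2909018840) (nat_lit 10) (nat_lit 4) (nat_lit 11) (nat_lit 5) (nat_lit 11) (nat_lit 4) (nat_lit 306) (nat_lit 262) (nat_lit 212)))))) (XT.nd (nat_lit 390) (nat_lit 228) (nat_lit 0) (XT.nd (nat_lit 156) (nat_lit 76) (nat_lit 0) (XT.nd (nat_lit 78) (nat_lit 0) (nat_lit 0) (XT.lf (nat_lit 0) (nat_lit 5815451471) (nat_lit 152) (nat_lit 19123786168) (nat_lit 76) (nat_lit 27298148018) (nat_lit 9) (nat_lit 5) (nat_lit 11) (nat_lit 5) (nat_lit 10) (nat_lit 4) (nat_lit 307) (nat_lit 262) (nat_lit 211)) (XT.lf (nat_lit 0) (nat_lit 15104281600) (nat_lit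 152) (nat_lit 127998413) (nat_lit 76) (nat_lit 40615006358) (nat_lit 9) (nat_lit 5) (nat_lit 11) (nat_lit 5) (nat_lit 10) (nat_lit 4) (nat_lit 308) (nat_lit 262) (nat_lit 210))) (XT.nd (nat_lit 78) (nat_lit 0) (nat_lit 0) (XT.lf (nat_lit 0) (nat_lit 21004131993) (nat_lit 76) (nat_lit 4429424606) (nat_lit 152) (nat_lit 34297575318) (nat_lit 8) (nat_lit 5) (nat_lit 9) (nat_lit 5) (nat_lit 10) (nat_lit 4) (nat_lit 309) (nat_lit 262) (nat_lit 209)) (XT.nd (nat_lit 78) (nat_lit 0) (nat_lit 0) (XT.lf (nat_lit 0) (nat_lit 36674906370) (nat_lit 152) (nat_lit 20261476190) (nat_lit 0) (nat_lit 6985034148) (nat_lit 8) (nat_lit 5) (nat_lit 10) (nat_lit 4) (nat_lit 8) (nat_lit 4) (nat_lit 310) (nat_lit 262) (nat_lit 208)) (XT.lf (nat_lit 0) (nat_lit 48862906411) (nat_lit 152) (nat_lit 443648269) (nat_lit 0) (nat_lit 19138019376) (nat_lit 8) (nat_lit 5) (nat_lit 10) (nat_lit 4) (nat_lit 8) (nat_lit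 4) (nat_lit 311) (nat_lit 262) (nat_lit 207))))) (XT.nd (nat_lit 234) (nat_lit 76) (nat_lit 0) (XT.nd (nat_lit 78) (nat_lit 76) (nat_lit 0) (XT.lf (nat_lit 0) (nat_lit 21604559373) (nat_lit 76) (nat_lit 40733374521) (nat_lit 76) (nat_lit 10976066363) (nat_lit 7) (nat_lit 4) (nat_lit 8) (nat_lit 5) (nat_lit 8) (nat_lit 4) (nat_lit 312) (nat_lit 262) (nat_lit 206)) (XT.nd (nat_lit 78) (nat_lit 76) (nat_lit 0) (XT.lf (nat_lit 0) (nat_lit 45387960849) (nat_lit 76) (nat_lit 31486591237) (nat_lit 76) (nat_lit 1699263521) (nat_lit 7) (nat_lit 4) (nat_lit 8) (nat_lit 5) (nat_lit 8) (nat_lit 4) (nat_lit 313) (nat_lit 262) (nat_lit 205)) (XT.lf (nat_lit 0) (nat_lit 8030670882) (nat_lit 152) (nat_lit 13352248295) (nat_lit 76) (nat_lit 62866151640) (nat_lit 6) (nat_lit 5) (nat_lit 8) (nat_lit 5) (nat_lit 7) (nat_lit 4) (nat_lit 314) (nat_lit 262) (nat_lit 204)))) (XT.nd (nat_lit 78) (nat_lit 0) (nat_lit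 0) (XT.lf (nat_lit 0) (nat_lit 8265063788) (nat_lit 76) (nat_lit 10323191979) (nat_lit 152) (nat_lit 71783270177) (nat_lit 5) (nat_lit 5) (nat_lit 6) (nat_lit 5) (nat_lit 7) (nat_lit 4) (nat_lit 315) (nat_lit 262) (nat_lit 203)) (XT.nd (nat_lit 78) (nat_lit 0) (nat_lit 0) (XT.lf (nat_lit 0) (nat_lit 30231825642) (nat_lit 152) (nat_lit 64950631121) (nat_lit 0) (nat_lit 1789262756) (nat_lit 5) (nat_lit 5) (nat_lit 7) (nat_lit 4) (nat_lit 5) (nat_lit 4) (nat_lit 316) (nat_lit 262) (nat_lit 202)) (XT.lf (nat_lit 0) (nat_lit 42962119802) (nat_lit 152) (nat_lit 46631514606) (nat_lit 0) (nat_lit 14498542372) (nat_lit 5) (nat_lit 5) (nat_lit 7) (nat_lit 4) (nat_lit 5) (nat_lit 4) (nat_lit 317) (nat_lit 262) (nat_lit 201))))))))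
noncomputable def xc53 : XT := (XT.nd (nat_lit 1638) (nat_lit 76) (nat_lit 0) (XT.nd (nat_lit 780) (nat_lit 0) (nat_lit 0) (XT.nd (nat_lit 390) (nat_lit 152) (nat_lit 0) (XT.nd (nat_lit 156) (nat_lit 76) (nat_lit 0) (XT.nd (nat_lit 78) (nat_lit 0) (nat_lit 0) (XT.lf (nat_lit 0) (nat_lit 56693403072) (nat_lit 152) (nat_lit 26879380926) (nat_lit 0) (nat_lit 28210367731) (nat_lit 5) (nat_lit 5) (nat_lit 7) (nat_lit 4) (nat_lit 5) (nat_lit 4) (nat_lit 318) (nat_lit 262) (nat_lit 200)) (XT.lf (nat_lit 0) (nat_lit 71507046019) (nat_lit 152) (nat_lit 5577180399) (nat_lit 0) (nat_lit 43005994093) (nat_lit 5) (nat_lit 5) (nat_lit 7) (nat_lit 4) (nat_lit 5) (nat_lit 4) (nat_lit 319) (nat_lit 262) (nat_lit 199))) (XT.nd (nat_lit 78) (nat_lit 0) (nat_lit 0) (XT.lf (nat_lit 0) (nat_lit 17976688534) (nat_lit 76) (nat_lit 69794811147) (nat_lit 76) (nat_lit 41277077198) (nat_lit 4) (nat_lit 4) (nat_lit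 5) (nat_lit 5) (nat_lit 5) (nat_lit 4) (nat_lit 320) (nat_lit 262) (nat_lit 198)) (XT.nd (nat_lit 78) (nat_lit 0) (nat_lit 0) (XT.lf (nat_lit 0) (nat_lit 43587363731) (nat_lit 76) (nat_lit 61832640506) (nat_lit 76) (nat_lit 33299460240) (nat_lit 4) (nat_lit 4) (nat_lit 5) (nat_lit 5) (nat_lit 5) (nat_lit 4) (nat_lit 321) (nat_lit 262) (nat_lit 197)) (XT.lf (nat_lit 0) (nat_lit 71222205381) (nat_lit 76) (nat_lit 53244983512) (nat_lit 76) (nat_lit 24697501100) (nat_lit 4) (nat_lit 4) (nat_lit 5) (nat_lit 5) (nat_lit 5) (nat_lit 4) (nat_lit 322) (nat_lit 262) (nat_lit 196))))) (XT.nd (nat_lit 156) (nat_lit 152) (nat_lit 0) (XT.nd (nat_lit 78) (nat_lit 0) (nat_lit 0) (XT.lf (nat_lit 0) (nat_lit 101044975510) (nat_lit 76) (nat_lit 43980950346) (nat_lit 76) (nat_lit 15420225206) (nat_lit 4) (nat_lit 4) (nat_lit 5) (nat_lit 5) (nat_lit 5) (nat_lit 4) (nat_lit 323) (nat_lit 262) (nat_lit 195))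 (XT.lf (nat_lit 0) (nat_lit 133232401645) (nat_lit 76) (nat_lit 33985643032) (nat_lit 76) (nat_lit 5412656108) (nat_lit 4) (nat_lit 4) (nat_lit 5) (nat_lit 5) (nat_lit 5) (nat_lit 4) (nat_lit 324) (nat_lit 262) (nat_lit 194))) (XT.nd (nat_lit 78) (nat_lit 76) (nat_lit 0) (XT.lf (nat_lit 0) (nat_lit 5212172350) (nat_lit 152) (nat_lit 17899387109) (nat_lit 76) (nat_lit 162674781077) (nat_lit 3) (nat_lit 5) (nat_lit 5) (nat_lit 5) (nat_lit 4) (nat_lit 4) (nat_lit 325) (nat_lit 262) (nat_lit 193)) (XT.nd (nat_lit 78) (nat_lit 0) (nat_lit 0) (XT.lf (nat_lit 0) (nat_lit 5381949451) (nat_lit 76) (nat_lit 11192100492) (nat_lit 152) (nat_lit 183412114953) (nat_lit 2) (nat_lit 5) (nat_lit 3) (nat_lit 5) (nat_lit 4) (nat_lit 4) (nat_lit 326) (nat_lit 262) (nat_lit 192)) (XT.lf (nat_lit 0) (nat_lit 29178488079) (nat_lit 152) (nat_lit 184190786555) (nat_lit 0) (nat_lit 1936024523) (nat_lit 2) (nat_lit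 5) (nat_lit 4) (nat_lit 4) (nat_lit 2) (nat_lit 4) (nat_lit 327) (nat_lit 262) (nat_lit 191)))))) (XT.nd (nat_lit 390) (nat_lit 0) (nat_lit 0) (XT.nd (nat_lit 156) (nat_lit 0) (nat_lit 0) (XT.nd (nat_lit 78) (nat_lit 0) (nat_lit 0) (XT.lf (nat_lit 0) (nat_lit 42971166595) (nat_lit 152) (nat_lit 173149687997) (nat_lit 0) (nat_lit 15720119442) (nat_lit 2) (nat_lit 5) (nat_lit 4) (nat_lit 4) (nat_lit 2) (nat_lit 4) (nat_lit 328) (nat_lit 262) (nat_lit 190)) (XT.lf (nat_lit 0) (nat_lit 57859079830) (nat_lit 152) (nat_lit 161240750983) (nat_lit 0) (nat_lit 30600084900) (nat_lit 2) (nat_lit 5) (nat_lit 4) (nat_lit 4) (nat_lit 2) (nat_lit 4) (nat_lit 329) (nat_lit 262) (nat_lit 189))) (XT.nd (nat_lit 78) (nat_lit 0) (nat_lit 0) (XT.lf (nat_lit 0) (nat_lit 73930452452) (nat_lit 152) (nat_lit 148393404035) (nat_lit 0) (nat_lit 46664098472) (nat_lit 2) (nat_lit 5) (nat_lit 4) (nat_lit 4) (nat_lit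 2) (nat_lit 4) (nat_lit 330) (nat_lit 262) (nat_lit 188)) (XT.nd (nat_lit 78) (nat_lit 0) (nat_lit 0) (XT.lf (nat_lit 0) (nat_lit 91280522228) (nat_lit 152) (nat_lit 134531514726) (nat_lit 0) (nat_lit 64007354310) (nat_lit 2) (nat_lit 5) (nat_lit 4) (nat_lit 4) (nat_lit 2) (nat_lit 4) (nat_lit 331) (nat_lit 262) (nat_lit 187)) (XT.lf (nat_lit 0) (nat_lit 110012104384) (nat_lit 152) (nat_lit 119572938528) (nat_lit 0) (nat_lit 82732627265) (nat_lit 2) (nat_lit 5) (nat_lit 4) (nat_lit 4) (nat_lit 2) (nat_lit 4) (nat_lit 332) (nat_lit 262) (nat_lit 186))))) (XT.nd (nat_lit 234) (nat_lit 0) (nat_lit 0) (XT.nd (nat_lit 78) (nat_lit 0) (nat_lit 0) (XT.lf (nat_lit 0) (nat_lit 130236200888) (nat_lit 152) (nat_lit 103429032025) (nat_lit 0) (nat_lit 102950881917) (nat_lit 2) (nat_lit 5) (nat_lit 4) (nat_lit 4) (nat_lit 2) (nat_lit 4) (nat_lit 333) (nat_lit 262) (nat_lit 185)) (XT.nd (nat_lit 78)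 (nat_lit 0) (nat_lit 0) (XT.lf (nat_lit 0) (nat_lit 152072658240) (nat_lit 152) (nat_lit 86004127623) (nat_lit 0) (nat_lit 124781930146) (nat_lit 2) (nat_lit 5) (nat_lit 4) (nat_lit 4) (nat_lit 2) (nat_lit 4) (nat_lit 334) (nat_lit 262) (nat_lit 184)) (XT.lf (nat_lit 0) (nat_lit 175650877667) (nat_lit 152) (nat_lit 67194966631) (nat_lit 0) (nat_lit 148355141126) (nat_lit 2) (nat_lit 5) (nat_lit 4) (nat_lit 4) (nat_lit 2) (nat_lit 4) (nat_lit 335) (nat_lit 262) (nat_lit 183)))) (XT.nd (nat_lit 78) (nat_lit 0) (nat_lit 0) (XT.lf (nat_lit 0) (nat_lit 201110581952) (nat_lit 152) (nat_lit 46890087352) (nat_lit 0) (nat_lit 173810207960) (nat_lit 2) (nat_lit 5) (nat_lit 4) (nat_lit 4) (nat_lit 2) (nat_lit 4) (nat_lit 336) (nat_lit 262) (nat_lit 182)) (XT.nd (nat_lit 78) (nat_lit 0) (nat_lit 0) (XT.lf (nat_lit 0) (nat_lit 228602643415) (nat_lit 152) (nat_lit 24969164577) (nat_lit 0) (nat_lit 201297975488)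 (nat_lit 2) (nat_lit 5) (nat_lit 4) (nat_lit 4) (nat_lit 2) (nat_lit 4) (nat_lit 337) (nat_lit 262) (nat_lit 181)) (XT.lf (nat_lit 0) (nat_lit 258289977978) (nat_lit 152) (nat_lit 1302296541) (nat_lit 0) (nat_lit 230981334183) (nat_lit 2) (nat_lit 5) (nat_lit 4) (nat_lit 4) (nat_lit 2) (nat_lit 4) (nat_lit 338) (nat_lit 262) (nat_lit 180))))))) (XT.nd (nat_lit 34710) (nat_lit 0) (nat_lit 6004) (XT.nd (nat_lit 390) (nat_lit 0) (nat_lit 0) (XT.nd (nat_lit 156) (nat_lit 0) (nat_lit 0) (XT.nd (nat_lit 78) (nat_lit 0) (nat_lit 0) (XT.lf (nat_lit 0) (nat_lit 25052604668) (nat_lit 76) (nat_lit 265687047284) (nat_lit 76) (nat_lit 238374722132) (nat_lit 1) (nat_lit 4) (nat_lit 2) (nat_lit 5) (nat_lit 2) (nat_lit 4) (nat_lit 339) (nat_lit 262) (nat_lit 179)) (XT.lf (nat_lit 0) (nat_lit 53555557484) (nat_lit 76) (nat_lit 272248812582) (nat_lit 76) (nat_lit 244933078764) (nat_lit 1) (nat_lit 4) (nat_lit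 2) (nat_lit 5) (nat_lit 2) (nat_lit 4) (nat_lit 340) (nat_lit 262) (nat_lit 178))) (XT.nd (nat_lit 78) (nat_lit 0) (nat_lit 0) (XT.lf (nat_lit 0) (nat_lit 84332408488) (nat_lit 76) (nat_lit 279338509969) (nat_lit 76) (nat_lit 252019619981) (nat_lit 1) (nat_lit 4) (nat_lit 2) (nat_lit 5) (nat_lit 2) (nat_lit 4) (nat_lit 341) (nat_lit 262) (nat_lit 177)) (XT.nd (nat_lit 78) (nat_lit 0) (nat_lit 0) (XT.lf (nat_lit 0) (nat_lit 117565539018) (nat_lit 76) (nat_lit 286998152467) (nat_lit 76) (nat_lit 259676340098) (nat_lit 1) (nat_lit 4) (nat_lit 2) (nat_lit 5) (nat_lit 2) (nat_lit 4) (nat_lit 342) (nat_lit 262) (nat_lit 176)) (XT.lf (nat_lit 0) (nat_lit 153451886145) (nat_lit 76) (nat_lit 295273130551) (nat_lit 76) (nat_lit 267948612274) (nat_lit 1) (nat_lit 4) (nat_lit 2) (nat_lit 5) (nat_lit 2) (nat_lit 4) (nat_lit 343) (nat_lit 262) (nat_lit 175))))) (XT.nd (nat_lit 156) (nat_lit 0) (nat_lit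 0) (XT.nd (nat_lit 78) (nat_lit 0) (nat_lit 0) (XT.lf (nat_lit 0) (nat_lit 192204109704) (nat_lit 76) (nat_lit 304212481127) (nat_lit 76) (nat_lit 276885457380) (nat_lit 1) (nat_lit 4) (nat_lit 2) (nat_lit 5) (nat_lit 2) (nat_lit 4) (nat_lit 344) (nat_lit 262) (nat_lit 174)) (XT.lf (nat_lit 0) (nat_lit 234051852500) (nat_lit 76) (nat_lit 313869178125) (nat_lit 76) (nat_lit 286539834498) (nat_lit 1) (nat_lit 4) (nat_lit 2) (nat_lit 5) (nat_lit 2) (nat_lit 4) (nat_lit 345) (nat_lit 262) (nat_lit 173))) (XT.nd (nat_lit 78) (nat_lit 0) (nat_lit 0) (XT.lf (nat_lit 0) (nat_lit 279243101158) (nat_lit 76) (nat_lit 324300446416) (nat_lit 76) (nat_lit 296968954751) (nat_lit 1) (nat_lit 4) (nat_lit 2) (nat_lit 5) (nat_lit 2) (nat_lit 4) (nat_lit 346) (nat_lit 262) (nat_lit 172)) (XT.nd (nat_lit 78) (nat_lit 0) (nat_lit 0) (XT.lf (nat_lit 0) (nat_lit 328045655671) (nat_lit 76) (nat_lit 335568100923)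 (nat_lit 76) (nat_lit 308234620335) (nat_lit 1) (nat_lit 4) (nat_lit 2) (nat_lit 5) (nat_lit 2) (nat_lit 4) (nat_lit 347) (nat_lit 262) (nat_lit 171)) (XT.lf (nat_lit 0) (nat_lit 380748716360) (nat_lit 76) (nat_lit 347738912931) (nat_lit 76) (nat_lit 320403590748) (nat_lit 1) (nat_lit 4) (nat_lit 2) (nat_lit 5) (nat_lit 2) (nat_lit 4) (nat_lit 348) (nat_lit 262) (nat_lit 170)))))) (XT.nd (nat_lit 390) (nat_lit 2356) (nat_lit 0) (XT.nd (nat_lit 156) (nat_lit 380) (nat_lit 0) (XT.nd (nat_lit 78) (nat_lit 380) (nat_lit 0) (XT.lf (nat_lit 0) (nat_lit 2090110874) (nat_lit 380) (nat_lit 631981977) (nat_lit 380) (nat_lit 631981977) (nat_lit 121) (nat_lit 3) (nat_lit 126) (nat_lit 3) (nat_lit 126) (nat_lit 5) (nat_lit 263) (nat_lit 263) (nat_lit 254)) (XT.lf (nat_lit 0) (nat_lit 691281242) (nat_lit 380) (nat_lit 3079504108) (nat_lit 456) (nat_lit 3035773297) (nat_lit 116) (nat_lit 5) (nat_lit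 121) (nat_lit 3) (nat_lit 122) (nat_lit 5) (nat_lit 264) (nat_lit 263) (nat_lit 253))) (XT.nd (nat_lit 78) (nat_lit 380) (nat_lit 0) (XT.lf (nat_lit 76) (nat_lit 2093554659) (nat_lit 0) (nat_lit 1721625592) (nat_lit 456) (nat_lit 3109818585) (nat_lit 117) (nat_lit 5) (nat_lit 116) (nat_lit 5) (nat_lit 122) (nat_lit 5) (nat_lit 265) (nat_lit 263) (nat_lit 252)) (XT.nd (nat_lit 78) (nat_lit 456) (nat_lit 0) (XT.lf (nat_lit 76) (nat_lit 558283629) (nat_lit 0) (nat_lit 6404096349) (nat_lit 456) (nat_lit 102806043) (nat_lit 118) (nat_lit 5) (nat_lit 117) (nat_lit 5) (nat_lit 123) (nat_lit 5) (nat_lit 266) (nat_lit 263) (nat_lit 251)) (XT.lf (nat_lit 0) (nat_lit 2874938612) (nat_lit 456) (nat_lit 933297227) (nat_lit 532) (nat_lit 3415186247) (nat_lit 111) (nat_lit 5) (nat_lit 117) (nat_lit 5) (nat_lit 118) (nat_lit 5) (nat_lit 267) (nat_lit 263) (nat_lit 250))))) (XT.nd (nat_lit 234) (nat_lit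 1368) (nat_lit 0) (XT.nd (nat_lit 78) (nat_lit 988) (nat_lit 0) (XT.lf (nat_lit 76) (nat_lit 5067843282) (nat_lit 0) (nat_lit 835900638) (nat_lit 532) (nat_lit 1500435224) (nat_lit 112) (nat_lit 5) (nat_lit 111) (nat_lit 5) (nat_lit 118) (nat_lit 5) (nat_lit 268) (nat_lit 263) (nat_lit 249)) (XT.nd (nat_lit 78) (nat_lit 532) (nat_lit 0) (XT.lf (nat_lit 0) (nat_lit 1391693195) (nat_lit 532) (nat_lit 3743460840) (nat_lit 76) (nat_lit 2470357537) (nat_lit 105) (nat_lit 5) (nat_lit 112) (nat_lit 5) (nat_lit 106) (nat_lit 5) (nat_lit 269) (nat_lit 263) (nat_lit 248)) (XT.lf (nat_lit 0) (nat_lit 2678967211) (nat_lit 532) (nat_lit 1647842877) (nat_lit 608) (nat_lit 3502328840) (nat_lit 98) (nat_lit 5) (nat_lit 105) (nat_lit 5) (nat_lit 106) (nat_lit 5) (nat_lit 270) (nat_lit 263) (nat_lit 247)))) (XT.nd (nat_lit 78) (nat_lit 760) (nat_lit 0) (XT.lf (nat_lit 0) (nat_lit 1505854397) (nat_lit 608)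 (nat_lit 5895143075) (nat_lit 684) (nat_lit 675026969) (nat_lit 90) (nat_lit 5) (nat_lit 98) (nat_lit 5) (nat_lit 99) (nat_lit 5) (nat_lit 271) (nat_lit 263) (nat_lit 246)) (XT.nd (nat_lit 78) (nat_lit 0) (nat_lit 0) (XT.lf (nat_lit 0) (nat_lit 294272352) (nat_lit 684) (nat_lit 1922497233) (nat_lit 760) (nat_lit 6128825052) (nat_lit 80) (nat_lit 5) (nat_lit 89) (nat_lit 5) (nat_lit 90) (nat_lit 5) (nat_lit 272) (nat_lit 263) (nat_lit 245)) (XT.lf (nat_lit 0) (nat_lit 5273661212) (nat_lit 760) (nat_lit 929938734) (nat_lit 76) (nat_lit 2435181567) (nat_lit 80) (nat_lit 5) (nat_lit 90) (nat_lit 5) (nat_lit 81) (nat_lit 5) (nat_lit 273) (nat_lit 263) (nat_lit 244))))))))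
noncomputable def xc54 : XT := (XT.nd (nat_lit 1638) (nat_lit 1140) (nat_lit 0) (XT.nd (nat_lit 780) (nat_lit 1596) (nat_lit 0) (XT.nd (nat_lit 390) (nat_lit 1064) (nat_lit 0) (XT.nd (nat_lit 156) (nat_lit 912) (nat_lit 0) (XT.nd (nat_lit 78) (nat_lit 456) (nat_lit 0) (XT.lf (nat_lit 0) (nat_lit 6768339484) (nat_lit 456) (nat_lit 1763178332) (nat_lit 532) (nat_lit 426524114) (nat_lit 74) (nat_lit 5) (nat_lit 80) (nat_lit 5) (nat_lit 81) (nat_lit 5) (nat_lit 274) (nat_lit 263) (nat_lit 243)) (XT.lf (nat_lit 0) (nat_lit 2641658999) (nat_lit 456) (nat_lit 3574211822) (nat_lit 76) (nat_lit 3086093906) (nat_lit 68) (nat_lit 5) (nat_lit 74) (nat_lit 5) (nat_lit 69) (nat_lit 5) (nat_lit 275) (nat_lit 263) (nat_lit 242))) (XT.nd (nat_lit 78) (nat_lit 608) (nat_lit 0) (XT.lf (nat_lit 0) (nat_lit 4619266002) (nat_lit 304) (nat_lit 1298057824) (nat_lit 380) (nat_lit 3757238065) (nat_lit 64) (nat_lit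 5) (nat_lit 68) (nat_lit 5) (nat_lit 69) (nat_lit 5) (nat_lit 276) (nat_lit 263) (nat_lit 241)) (XT.nd (nat_lit 78) (nat_lit 304) (nat_lit 0) (XT.lf (nat_lit 0) (nat_lit 3390338512) (nat_lit 304) (nat_lit 6089005889) (nat_lit 380) (nat_lit 596739404) (nat_lit 60) (nat_lit 5) (nat_lit 64) (nat_lit 5) (nat_lit 65) (nat_lit 5) (nat_lit 277) (nat_lit 263) (nat_lit 240)) (XT.lf (nat_lit 0) (nat_lit 2009813875) (nat_lit 228) (nat_lit 710964866) (nat_lit 304) (nat_lit 7787326421) (nat_lit 56) (nat_lit 5) (nat_lit 59) (nat_lit 5) (nat_lit 60) (nat_lit 5) (nat_lit 278) (nat_lit 263) (nat_lit 239))))) (XT.nd (nat_lit 156) (nat_lit 760) (nat_lit 0) (XT.nd (nat_lit 78) (nat_lit 0) (nat_lit 0) (XT.lf (nat_lit 0) (nat_lit 419441918) (nat_lit 304) (nat_lit 5927674252) (nat_lit 380) (nat_lit 4624137862) (nat_lit 52) (nat_lit 5) (nat_lit 56) (nat_lit 5) (nat_lit 57) (nat_lit 5) (nat_lit 279) (nat_lit 263)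 (nat_lit 238)) (XT.lf (nat_lit 0) (nat_lit 10175886524) (nat_lit 304) (nat_lit 114861870) (nat_lit 380) (nat_lit 1179598106) (nat_lit 52) (nat_lit 5) (nat_lit 56) (nat_lit 5) (nat_lit 57) (nat_lit 5) (nat_lit 280) (nat_lit 263) (nat_lit 237))) (XT.nd (nat_lit 78) (nat_lit 456) (nat_lit 0) (XT.lf (nat_lit 0) (nat_lit 2569938922) (nat_lit 304) (nat_lit 3318414223) (nat_lit 76) (nat_lit 6113714109) (nat_lit 48) (nat_lit 5) (nat_lit 52) (nat_lit 5) (nat_lit 49) (nat_lit 5) (nat_lit 281) (nat_lit 263) (nat_lit 236)) (XT.nd (nat_lit 78) (nat_lit 228) (nat_lit 0) (XT.lf (nat_lit 0) (nat_lit 6599723870) (nat_lit 304) (nat_lit 5605244499) (nat_lit 76) (nat_lit 369514808) (nat_lit 45) (nat_lit 5) (nat_lit 49) (nat_lit 5) (nat_lit 46) (nat_lit 5) (nat_lit 282) (nat_lit 263) (nat_lit 235)) (XT.lf (nat_lit 0) (nat_lit 4910517018) (nat_lit 228) (nat_lit 6163284010) (nat_lit 304) (nat_lit 2112985700)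 (nat_lit 42) (nat_lit 5) (nat_lit 45) (nat_lit 5) (nat_lit 46) (nat_lit 5) (nat_lit 283) (nat_lit 263) (nat_lit 234)))))) (XT.nd (nat_lit 390) (nat_lit 684) (nat_lit 0) (XT.nd (nat_lit 156) (nat_lit 608) (nat_lit 0) (XT.nd (nat_lit 78) (nat_lit 0) (nat_lit 0) (XT.lf (nat_lit 0) (nat_lit 2029535573) (nat_lit 304) (nat_lit 11333532644) (nat_lit 76) (nat_lit 481684093) (nat_lit 38) (nat_lit 5) (nat_lit 42) (nat_lit 5) (nat_lit 39) (nat_lit 5) (nat_lit 284) (nat_lit 263) (nat_lit 233)) (XT.lf (nat_lit 0) (nat_lit 6577311925) (nat_lit 304) (nat_lit 382879845) (nat_lit 76) (nat_lit 7586192304) (nat_lit 38) (nat_lit 5) (nat_lit 42) (nat_lit 5) (nat_lit 39) (nat_lit 5) (nat_lit 285) (nat_lit 263) (nat_lit 232))) (XT.nd (nat_lit 78) (nat_lit 456) (nat_lit 0) (XT.lf (nat_lit 0) (nat_lit 11576968786) (nat_lit 228) (nat_lit 3622916825) (nat_lit 76) (nat_lit 100001362) (nat_lit 36) (nat_lit 5) (nat_lit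 39) (nat_lit 5) (nat_lit 37) (nat_lit 5) (nat_lit 286) (nat_lit 263) (nat_lit 231)) (XT.nd (nat_lit 78) (nat_lit 152) (nat_lit 0) (XT.lf (nat_lit 0) (nat_lit 1005180669) (nat_lit 304) (nat_lit 7498104617) (nat_lit 76) (nat_lit 7601344152) (nat_lit 32) (nat_lit 5) (nat_lit 36) (nat_lit 5) (nat_lit 33) (nat_lit 5) (nat_lit 287) (nat_lit 263) (nat_lit 230)) (XT.lf (nat_lit 0) (nat_lit 4933162098) (nat_lit 152) (nat_lit 1102512744) (nat_lit 228) (nat_lit 10932413050) (nat_lit 30) (nat_lit 5) (nat_lit 32) (nat_lit 5) (nat_lit 33) (nat_lit 5) (nat_lit 288) (nat_lit 263) (nat_lit 229))))) (XT.nd (nat_lit 234) (nat_lit 304) (nat_lit 0) (XT.nd (nat_lit 78) (nat_lit 228) (nat_lit 0) (XT.lf (nat_lit 0) (nat_lit 507311967) (nat_lit 152) (nat_lit 11125068280) (nat_lit 228) (nat_lit 6260162692) (nat_lit 28) (nat_lit 5) (nat_lit 30) (nat_lit 5) (nat_lit 31) (nat_lit 5) (nat_lit 289) (nat_lit 263) (nat_lit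 228)) (XT.nd (nat_lit 78) (nat_lit 228) (nat_lit 0) (XT.lf (nat_lit 0) (nat_lit 14337415447) (nat_lit 152) (nat_lit 3487147795) (nat_lit 228) (nat_lit 1059104552) (nat_lit 28) (nat_lit 5) (nat_lit 30) (nat_lit 5) (nat_lit 31) (nat_lit 5) (nat_lit 290) (nat_lit 263) (nat_lit 227)) (XT.lf (nat_lit 0) (nat_lit 4561085437) (nat_lit 228) (nat_lit 10593051984) (nat_lit 76) (nat_lit 4789028977) (nat_lit 25) (nat_lit 5) (nat_lit 28) (nat_lit 5) (nat_lit 26) (nat_lit 5) (nat_lit 291) (nat_lit 263) (nat_lit 226)))) (XT.nd (nat_lit 78) (nat_lit 152) (nat_lit 0) (XT.lf (nat_lit 0) (nat_lit 3349166779) (nat_lit 152) (nat_lit 7364290384) (nat_lit 228) (nat_lit 10367198018) (nat_lit 23) (nat_lit 5) (nat_lit 25) (nat_lit 5) (nat_lit 26) (nat_lit 5) (nat_lit 292) (nat_lit 263) (nat_lit 225)) (XT.nd (nat_lit 78) (nat_lit 152) (nat_lit 0) (XT.lf (nat_lit 0) (nat_lit 17492475769) (nat_lit 228) (nat_lit 3649168985)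 (nat_lit 76) (nat_lit 1160851408) (nat_lit 23) (nat_lit 5) (nat_lit 26) (nat_lit 5) (nat_lit 24) (nat_lit 4) (nat_lit 293) (nat_lit 263) (nat_lit 224)) (XT.lf (nat_lit 0) (nat_lit 1400081201) (nat_lit 152) (nat_lit 11928833434) (nat_lit 76) (nat_lit 10279981823) (nat_lit 21) (nat_lit 5) (nat_lit 23) (nat_lit 5) (nat_lit 22) (nat_lit 5) (nat_lit 294) (nat_lit 263) (nat_lit 223))))))) (XT.nd (nat_lit 780) (nat_lit 456) (nat_lit 0) (XT.nd (nat_lit 390) (nat_lit 228) (nat_lit 0) (XT.nd (nat_lit 156) (nat_lit 304) (nat_lit 0) (XT.nd (nat_lit 78) (nat_lit 0) (nat_lit 0) (XT.lf (nat_lit 0) (nat_lit 3267882446) (nat_lit 152) (nat_lit 4726260914) (nat_lit 228) (nat_lit 17019001188) (nat_lit 19) (nat_lit 5) (nat_lit 21) (nat_lit 5) (nat_lit 22) (nat_lit 5) (nat_lit 295) (nat_lit 263) (nat_lit 222)) (XT.lf (nat_lit 0) (nat_lit 15338414981) (nat_lit 228) (nat_lit 6589454324) (nat_lit 76) (nat_lit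 4590786379) (nat_lit 19) (nat_lit 5) (nat_lit 22) (nat_lit 5) (nat_lit 20) (nat_lit 4) (nat_lit 296) (nat_lit 263) (nat_lit 221))) (XT.nd (nat_lit 78) (nat_lit 228) (nat_lit 0) (XT.lf (nat_lit 0) (nat_lit 9922494296) (nat_lit 76) (nat_lit 13526992770) (nat_lit 152) (nat_lit 4686210878) (nat_lit 18) (nat_lit 5) (nat_lit 19) (nat_lit 5) (nat_lit 20) (nat_lit 4) (nat_lit 297) (nat_lit 263) (nat_lit 220)) (XT.nd (nat_lit 78) (nat_lit 152) (nat_lit 0) (XT.lf (nat_lit 0) (nat_lit 2315947301) (nat_lit 152) (nat_lit 2015812304) (nat_lit 76) (nat_lit 25545419279) (nat_lit 17) (nat_lit 5) (nat_lit 19) (nat_lit 5) (nat_lit 18) (nat_lit 5) (nat_lit 298) (nat_lit 263) (nat_lit 219)) (XT.lf (nat_lit 0) (nat_lit 10005883699) (nat_lit 228) (nat_lit 16016858014) (nat_lit 76) (nat_lit 5716849465) (nat_lit 15) (nat_lit 5) (nat_lit 18) (nat_lit 5) (nat_lit 16) (nat_lit 4) (nat_lit 299) (nat_lit 263) (nat_lit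 218))))) (XT.nd (nat_lit 156) (nat_lit 152) (nat_lit 0) (XT.nd (nat_lit 78) (nat_lit 0) (nat_lit 0) (XT.lf (nat_lit 0) (nat_lit 1080788258) (nat_lit 76) (nat_lit 17308098459) (nat_lit 152) (nat_lit 15358256350) (nat_lit 14) (nat_lit 5) (nat_lit 15) (nat_lit 5) (nat_lit 16) (nat_lit 4) (nat_lit 300) (nat_lit 263) (nat_lit 217)) (XT.lf (nat_lit 0) (nat_lit 20038530621) (nat_lit 76) (nat_lit 7637561004) (nat_lit 152) (nat_lit 8227566620) (nat_lit 14) (nat_lit 5) (nat_lit 15) (nat_lit 5) (nat_lit 16) (nat_lit 4) (nat_lit 301) (nat_lit 263) (nat_lit 216))) (XT.nd (nat_lit 78) (nat_lit 76) (nat_lit 0) (XT.lf (nat_lit 0) (nat_lit 2232415603) (nat_lit 76) (nat_lit 35509960298) (nat_lit 76) (nat_lit 488548051) (nat_lit 13) (nat_lit 4) (nat_lit 14) (nat_lit 5) (nat_lit 14) (nat_lit 4) (nat_lit 302) (nat_lit 263) (nat_lit 215)) (XT.nd (nat_lit 78) (nat_lit 0) (nat_lit 0) (XT.lf (nat_lit 0) (nat_lit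 7986151019) (nat_lit 152) (nat_lit 18715962839) (nat_lit 76) (nat_lit 14017722374) (nat_lit 12) (nat_lit 5) (nat_lit 14) (nat_lit 5) (nat_lit 13) (nat_lit 4) (nat_lit 303) (nat_lit 263) (nat_lit 214)) (XT.lf (nat_lit 0) (nat_lit 17083754328) (nat_lit 152) (nat_lit 127135485) (nat_lit 76) (nat_lit 26198497140) (nat_lit 12) (nat_lit 5) (nat_lit 14) (nat_lit 5) (nat_lit 13) (nat_lit 4) (nat_lit 304) (nat_lit 263) (nat_lit 213)))))) (XT.nd (nat_lit 390) (nat_lit 152) (nat_lit 0) (XT.nd (nat_lit 156) (nat_lit 228) (nat_lit 0) (XT.nd (nat_lit 78) (nat_lit 0) (nat_lit 0) (XT.lf (nat_lit 0) (nat_lit 20543270274) (nat_lit 76) (nat_lit 6651277932) (nat_lit 152) (nat_lit 19105310463) (nat_lit 11) (nat_lit 5) (nat_lit 12) (nat_lit 5) (nat_lit 13) (nat_lit 4) (nat_lit 305) (nat_lit 263) (nat_lit 212)) (XT.lf (nat_lit 0) (nat_lit 38156571878) (nat_lit 152) (nat_lit 6685447928) (nat_lit 0) (nat_lit 4577454129)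 (nat_lit 11) (nat_lit 5) (nat_lit 13) (nat_lit 4) (nat_lit 11) (nat_lit 4) (nat_lit 306) (nat_lit 263) (nat_lit 211))) (XT.nd (nat_lit 78) (nat_lit 152) (nat_lit 0) (XT.lf (nat_lit 0) (nat_lit 14196579321) (nat_lit 76) (nat_lit 36101210782) (nat_lit 76) (nat_lit 2475779024) (nat_lit 10) (nat_lit 4) (nat_lit 11) (nat_lit 5) (nat_lit 11) (nat_lit 4) (nat_lit 307) (nat_lit 263) (nat_lit 210)) (XT.nd (nat_lit 78) (nat_lit 76) (nat_lit 0) (XT.lf (nat_lit 0) (nat_lit 6877582406) (nat_lit 152) (nat_lit 19569271167) (nat_lit 76) (nat_lit 29939293885) (nat_lit 9) (nat_lit 5) (nat_lit 11) (nat_lit 5) (nat_lit 10) (nat_lit 4) (nat_lit 308) (nat_lit 263) (nat_lit 209)) (XT.lf (nat_lit 0) (nat_lit 894481345) (nat_lit 76) (nat_lit 15984788529) (nat_lit 152) (nat_lit 43407111276) (nat_lit 8) (nat_lit 5) (nat_lit 9) (nat_lit 5) (nat_lit 10) (nat_lit 4) (nat_lit 309) (nat_lit 263) (nat_lit 208))))) (XT.nd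 (nat_lit 234) (nat_lit 76) (nat_lit 0) (XT.nd (nat_lit 78) (nat_lit 76) (nat_lit 0) (XT.lf (nat_lit 0) (nat_lit 23644916640) (nat_lit 76) (nat_lit 4350060965) (nat_lit 152) (nat_lit 36487978557) (nat_lit 8) (nat_lit 5) (nat_lit 9) (nat_lit 5) (nat_lit 10) (nat_lit 4) (nat_lit 310) (nat_lit 263) (nat_lit 207)) (XT.nd (nat_lit 78) (nat_lit 76) (nat_lit 0) (XT.lf (nat_lit 0) (nat_lit 40102887792) (nat_lit 152) (nat_lit 20974663870) (nat_lit 0) (nat_lit 7932573858) (nat_lit 8) (nat_lit 5) (nat_lit 10) (nat_lit 4) (nat_lit 8) (nat_lit 4) (nat_lit 311) (nat_lit 263) (nat_lit 206)) (XT.lf (nat_lit 0) (nat_lit 373298889) (nat_lit 76) (nat_lit 52861865417) (nat_lit 76) (nat_lit 20661531925) (nat_lit 7) (nat_lit 4) (nat_lit 8) (nat_lit 5) (nat_lit 8) (nat_lit 4) (nat_lit 312) (nat_lit 263) (nat_lit 205)))) (XT.nd (nat_lit 78) (nat_lit 76) (nat_lit 0) (XT.lf (nat_lit 0) (nat_lit 24136888527) (nat_lit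 76) (nat_lit 43624148087) (nat_lit 76) (nat_lit 11396018707) (nat_lit 7) (nat_lit 4) (nat_lit 8) (nat_lit 5) (nat_lit 8) (nat_lit 4) (nat_lit 313) (nat_lit 263) (nat_lit 204)) (XT.nd (nat_lit 78) (nat_lit 76) (nat_lit 0) (XT.lf (nat_lit 0) (nat_lit 49763409203) (nat_lit 76) (nat_lit 33664873725) (nat_lit 76) (nat_lit 1411007413) (nat_lit 7) (nat_lit 4) (nat_lit 8) (nat_lit 5) (nat_lit 8) (nat_lit 4) (nat_lit 314) (nat_lit 263) (nat_lit 203)) (XT.lf (nat_lit 0) (nat_lit 9053328469) (nat_lit 152) (nat_lit 13718373442) (nat_lit 76) (nat_lit 68198070812) (nat_lit 6) (nat_lit 5) (nat_lit 8) (nat_lit 5) (nat_lit 7) (nat_lit 4) (nat_lit 315) (nat_lit 263) (nat_lit 202))))))))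
noncomputable def xc55 : XT := (XT.nd (nat_lit 1638) (nat_lit 76) (nat_lit 0) (XT.nd (nat_lit 780) (nat_lit 152) (nat_lit 0) (XT.nd (nat_lit 390) (nat_lit 76) (nat_lit 0) (XT.nd (nat_lit 156) (nat_lit 0) (nat_lit 0) (XT.nd (nat_lit 78) (nat_lit 0) (nat_lit 0) (XT.lf (nat_lit 0) (nat_lit 9597813165) (nat_lit 76) (nat_lit 10840028416) (nat_lit 152) (nat_lit 77145082428) (nat_lit 5) (nat_lit 5) (nat_lit 6) (nat_lit 5) (nat_lit 7) (nat_lit 4) (nat_lit 316) (nat_lit 263) (nat_lit 201)) (XT.lf (nat_lit 0) (nat_lit 32990510585) (nat_lit 152) (nat_lit 69512381950) (nat_lit 0) (nat_lit 2209374505) (nat_lit 5) (nat_lit 5) (nat_lit 7) (nat_lit 4) (nat_lit 5) (nat_lit 4) (nat_lit 317) (nat_lit 263) (nat_lit 200))) (XT.nd (nat_lit 78) (nat_lit 0) (nat_lit 0) (XT.lf (nat_lit 0) (nat_lit 46714032805) (nat_lit 152) (nat_lit 49774721274) (nat_lit 0) (nat_lit 15914880140) (nat_lit 5) (nat_lit 5) (nat_lit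 7) (nat_lit 4) (nat_lit 5) (nat_lit 4) (nat_lit 318) (nat_lit 263) (nat_lit 199)) (XT.nd (nat_lit 78) (nat_lit 0) (nat_lit 0) (XT.lf (nat_lit 0) (nat_lit 61520489594) (nat_lit 152) (nat_lit 28485921677) (nat_lit 0) (nat_lit 30704654907) (nat_lit 5) (nat_lit 5) (nat_lit 7) (nat_lit 4) (nat_lit 5) (nat_lit 4) (nat_lit 319) (nat_lit 263) (nat_lit 198)) (XT.lf (nat_lit 0) (nat_lit 77497622920) (nat_lit 152) (nat_lit 5519827310) (nat_lit 0) (nat_lit 46666341915) (nat_lit 5) (nat_lit 5) (nat_lit 7) (nat_lit 4) (nat_lit 5) (nat_lit 4) (nat_lit 320) (nat_lit 263) (nat_lit 197))))) (XT.nd (nat_lit 156) (nat_lit 0) (nat_lit 0) (XT.nd (nat_lit 78) (nat_lit 0) (nat_lit 0) (XT.lf (nat_lit 0) (nat_lit 19896468446) (nat_lit 76) (nat_lit 75154283275) (nat_lit 76) (nat_lit 44308700124) (nat_lit 4) (nat_lit 4) (nat_lit 5) (nat_lit 5) (nat_lit 5) (nat_lit 4) (nat_lit 321) (nat_lit 263) (nat_lit 196)) (XT.lf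 (nat_lit 0) (nat_lit 47520320263) (nat_lit 76) (nat_lit 66571739929) (nat_lit 76) (nat_lit 35712914050) (nat_lit 4) (nat_lit 4) (nat_lit 5) (nat_lit 5) (nat_lit 5) (nat_lit 4) (nat_lit 322) (nat_lit 263) (nat_lit 195))) (XT.nd (nat_lit 78) (nat_lit 0) (nat_lit 0) (XT.lf (nat_lit 0) (nat_lit 77332914621) (nat_lit 76) (nat_lit 57312441621) (nat_lit 76) (nat_lit 26441353958) (nat_lit 4) (nat_lit 4) (nat_lit 5) (nat_lit 5) (nat_lit 5) (nat_lit 4) (nat_lit 323) (nat_lit 263) (nat_lit 194)) (XT.nd (nat_lit 78) (nat_lit 0) (nat_lit 0) (XT.lf (nat_lit 0) (nat_lit 109510918745) (nat_lit 76) (nat_lit 47321518436) (nat_lit 76) (nat_lit 16439077268) (nat_lit 4) (nat_lit 4) (nat_lit 5) (nat_lit 5) (nat_lit 5) (nat_lit 4) (nat_lit 324) (nat_lit 263) (nat_lit 193)) (XT.lf (nat_lit 0) (nat_lit 144245017104) (nat_lit 76) (nat_lit 36539764903) (nat_lit 76) (nat_lit 5646811231) (nat_lit 4) (nat_lit 4) (nat_lit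 5) (nat_lit 5) (nat_lit 5) (nat_lit 4) (nat_lit 325) (nat_lit 263) (nat_lit 192)))))) (XT.nd (nat_lit 390) (nat_lit 0) (nat_lit 0) (XT.nd (nat_lit 156) (nat_lit 0) (nat_lit 0) (XT.nd (nat_lit 78) (nat_lit 76) (nat_lit 0) (XT.lf (nat_lit 0) (nat_lit 5807380108) (nat_lit 152) (nat_lit 18997558248) (nat_lit 76) (nat_lit 175835310492) (nat_lit 3) (nat_lit 5) (nat_lit 5) (nat_lit 5) (nat_lit 4) (nat_lit 4) (nat_lit 326) (nat_lit 263) (nat_lit 191)) (XT.lf (nat_lit 0) (nat_lit 6131779572) (nat_lit 76) (nat_lit 11938210584) (nat_lit 152) (nat_lit 197906486350) (nat_lit 2) (nat_lit 5) (nat_lit 3) (nat_lit 5) (nat_lit 4) (nat_lit 4) (nat_lit 327) (nat_lit 263) (nat_lit 190))) (XT.nd (nat_lit 78) (nat_lit 0) (nat_lit 0) (XT.lf (nat_lit 0) (nat_lit 31672347267) (nat_lit 152) (nat_lit 198624637062) (nat_lit 0) (nat_lit 2224684967) (nat_lit 2) (nat_lit 5) (nat_lit 4) (nat_lit 4) (nat_lit 2) (nat_lit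 4) (nat_lit 328) (nat_lit 263) (nat_lit 189)) (XT.nd (nat_lit 78) (nat_lit 0) (nat_lit 0) (XT.lf (nat_lit 0) (nat_lit 46556619313) (nat_lit 152) (nat_lit 186722577465) (nat_lit 0) (nat_lit 17101597962) (nat_lit 2) (nat_lit 5) (nat_lit 4) (nat_lit 4) (nat_lit 2) (nat_lit 4) (nat_lit 329) (nat_lit 263) (nat_lit 188)) (XT.lf (nat_lit 0) (nat_lit 62624620466) (nat_lit 152) (nat_lit 173881598495) (nat_lit 0) (nat_lit 33162785178) (nat_lit 2) (nat_lit 5) (nat_lit 4) (nat_lit 4) (nat_lit 2) (nat_lit 4) (nat_lit 330) (nat_lit 263) (nat_lit 187))))) (XT.nd (nat_lit 234) (nat_lit 0) (nat_lit 0) (XT.nd (nat_lit 78) (nat_lit 0) (nat_lit 0) (XT.lf (nat_lit 0) (nat_lit 79971568510) (nat_lit 152) (nat_lit 160025605463) (nat_lit 0) (nat_lit 50503424021) (nat_lit 2) (nat_lit 5) (nat_lit 4) (nat_lit 4) (nat_lit 2) (nat_lit 4) (nat_lit 331) (nat_lit 263) (nat_lit 186)) (XT.nd (nat_lit 78) (nat_lit 0) (nat_lit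 0) (XT.lf (nat_lit 0) (nat_lit 98700260174) (nat_lit 152) (nat_lit 145072488779) (nat_lit 0) (nat_lit 69226273833) (nat_lit 2) (nat_lit 5) (nat_lit 4) (nat_lit 4) (nat_lit 2) (nat_lit 4) (nat_lit 332) (nat_lit 263) (nat_lit 185)) (XT.lf (nat_lit 0) (nat_lit 118921680297) (nat_lit 152) (nat_lit 128933637383) (nat_lit 0) (nat_lit 89442284833) (nat_lit 2) (nat_lit 5) (nat_lit 4) (nat_lit 4) (nat_lit 2) (nat_lit 4) (nat_lit 333) (nat_lit 263) (nat_lit 184)))) (XT.nd (nat_lit 78) (nat_lit 0) (nat_lit 0) (XT.lf (nat_lit 0) (nat_lit 140755659518) (nat_lit 152) (nat_lit 111513413636) (nat_lit 0) (nat_lit 111271255607) (nat_lit 2) (nat_lit 5) (nat_lit 4) (nat_lit 4) (nat_lit 2) (nat_lit 4) (nat_lit 334) (nat_lit 263) (nat_lit 183)) (XT.nd (nat_lit 78) (nat_lit 0) (nat_lit 0) (XT.lf (nat_lit 0) (nat_lit 164331584379) (nat_lit 152) (nat_lit 92708586582) (nat_lit 0) (nat_lit 134842543017) (nat_lit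 2) (nat_lit 5) (nat_lit 4) (nat_lit 4) (nat_lit 2) (nat_lit 4) (nat_lit 335) (nat_lit 263) (nat_lit 182)) (XT.lf (nat_lit 0) (nat_lit 189789164066) (nat_lit 152) (nat_lit 72407720210) (nat_lit 0) (nat_lit 160295828768) (nat_lit 2) (nat_lit 5) (nat_lit 4) (nat_lit 4) (nat_lit 2) (nat_lit 4) (nat_lit 336) (nat_lit 263) (nat_lit 181))))))) (XT.nd (nat_lit 858) (nat_lit 0) (nat_lit 0) (XT.nd (nat_lit 390) (nat_lit 0) (nat_lit 0) (XT.nd (nat_lit 156) (nat_lit 76) (nat_lit 0) (XT.nd (nat_lit 78) (nat_lit 0) (nat_lit 0) (XT.lf (nat_lit 0) (nat_lit 217279258309) (nat_lit 152) (nat_lit 50490513089) (nat_lit 0) (nat_lit 187781947144) (nat_lit 2) (nat_lit 5) (nat_lit 4) (nat_lit 4) (nat_lit 2) (nat_lit 4) (nat_lit 337) (nat_lit 263) (nat_lit 180)) (XT.lf (nat_lit 0) (nat_lit 246964771371) (nat_lit 152) (nat_lit 26827085474) (nat_lit 0) (nat_lit 217463778848) (nat_lit 2) (nat_lit 5) (nat_lit 4) (nat_lit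 4) (nat_lit 2) (nat_lit 4) (nat_lit 338) (nat_lit 263) (nat_lit 179))) (XT.nd (nat_lit 78) (nat_lit 76) (nat_lit 0) (XT.lf (nat_lit 0) (nat_lit 279021617403) (nat_lit 152) (nat_lit 1277209644) (nat_lit 0) (nat_lit 249517216216) (nat_lit 2) (nat_lit 5) (nat_lit 4) (nat_lit 4) (nat_lit 2) (nat_lit 4) (nat_lit 339) (nat_lit 263) (nat_lit 178)) (XT.nd (nat_lit 78) (nat_lit 0) (nat_lit 0) (XT.lf (nat_lit 0) (nat_lit 27180465718) (nat_lit 76) (nat_lit 286883660425) (nat_lit 76) (nat_lit 257376103067) (nat_lit 1) (nat_lit 4) (nat_lit 2) (nat_lit 5) (nat_lit 2) (nat_lit 4) (nat_lit 340) (nat_lit 263) (nat_lit 177)) (XT.lf (nat_lit 0) (nat_lit 57954495302) (nat_lit 76) (nat_lit 293974689217) (nat_lit 76) (nat_lit 264464209477) (nat_lit 1) (nat_lit 4) (nat_lit 2) (nat_lit 5) (nat_lit 2) (nat_lit 4) (nat_lit 341) (nat_lit 263) (nat_lit 176))))) (XT.nd (nat_lit 234) (nat_lit 0) (nat_lit 0) (XT.nd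 (nat_lit 78) (nat_lit 0) (nat_lit 0) (XT.lf (nat_lit 0) (nat_lit 91185013406) (nat_lit 76) (nat_lit 301635564496) (nat_lit 76) (nat_lit 272122378849) (nat_lit 1) (nat_lit 4) (nat_lit 2) (nat_lit 5) (nat_lit 2) (nat_lit 4) (nat_lit 342) (nat_lit 263) (nat_lit 175)) (XT.nd (nat_lit 78) (nat_lit 0) (nat_lit 0) (XT.lf (nat_lit 0) (nat_lit 127068941620) (nat_lit 76) (nat_lit 309911684044) (nat_lit 76) (nat_lit 280395992927) (nat_lit 1) (nat_lit 4) (nat_lit 2) (nat_lit 5) (nat_lit 2) (nat_lit 4) (nat_lit 343) (nat_lit 263) (nat_lit 174)) (XT.lf (nat_lit 0) (nat_lit 165818925445) (nat_lit 76) (nat_lit 318852091532) (nat_lit 76) (nat_lit 289334080534) (nat_lit 1) (nat_lit 4) (nat_lit 2) (nat_lit 5) (nat_lit 2) (nat_lit 4) (nat_lit 344) (nat_lit 263) (nat_lit 173)))) (XT.nd (nat_lit 78) (nat_lit 0) (nat_lit 0) (XT.lf (nat_lit 0) (nat_lit 207664594414) (nat_lit 76) (nat_lit 328509767151) (nat_lit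 76) (nat_lit 298989608117) (nat_lit 1) (nat_lit 4) (nat_lit 2) (nat_lit 5) (nat_lit 2) (nat_lit 4) (nat_lit 345) (nat_lit 263) (nat_lit 172)) (XT.nd (nat_lit 78) (nat_lit 0) (nat_lit 0) (XT.lf (nat_lit 0) (nat_lit 252853922861) (nat_lit 76) (nat_lit 338941941573) (nat_lit 76) (nat_lit 309419793615) (nat_lit 1) (nat_lit 4) (nat_lit 2) (nat_lit 5) (nat_lit 2) (nat_lit 4) (nat_lit 346) (nat_lit 263) (nat_lit 171)) (XT.lf (nat_lit 0) (nat_lit 301654699400) (nat_lit 76) (nat_lit 350210435090) (nat_lit 76) (nat_lit 320686445537) (nat_lit 1) (nat_lit 4) (nat_lit 2) (nat_lit 5) (nat_lit 2) (nat_lit 4) (nat_lit 347) (nat_lit 263) (nat_lit 170)))))) (XT.nd (nat_lit 34398) (nat_lit 0) (nat_lit 6004) (XT.nd (nat_lit 34164) (nat_lit 0) (nat_lit 8284) (XT.nd (nat_lit 34086) (nat_lit 0) (nat_lit 8740) (XT.lf (nat_lit 0) (nat_lit 354356113818) (nat_lit 76) (nat_lit 362382023960) (nat_lit 76) (nat_lit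 332856329226) (nat_lit 1) (nat_lit 4) (nat_lit 2) (nat_lit 5) (nat_lit 2) (nat_lit 4) (nat_lit 348) (nat_lit 263) (nat_lit 169)) (XT.lf (nat_lit 0) (nat_lit 904119036) (nat_lit 0) (nat_lit 904119036) (nat_lit 380) (nat_lit 1648831020) (nat_lit 116) (nat_lit 5) (nat_lit 116) (nat_lit 3) (nat_lit 121) (nat_lit 3) (nat_lit 264) (nat_lit 264) (nat_lit 252))) (XT.nd (nat_lit 78) (nat_lit 456) (nat_lit 0) (XT.lf (nat_lit 0) (nat_lit 6536771485) (nat_lit 380) (nat_lit 52286249) (nat_lit 456) (nat_lit 454153334) (nat_lit 116) (nat_lit 5) (nat_lit 121) (nat_lit 3) (nat_lit 122) (nat_lit 5) (nat_lit 265) (nat_lit 264) (nat_lit 251)) (XT.nd (nat_lit 78) (nat_lit 0) (nat_lit 0) (XT.lf (nat_lit 0) (nat_lit 2264215591) (nat_lit 456) (nat_lit 1835655502) (nat_lit 532) (nat_lit 3089790323) (nat_lit 110) (nat_lit 5) (nat_lit 116) (nat_lit 5) (nat_lit 117) (nat_lit 5) (nat_lit 266) (nat_lit 264) (nat_lit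 250)) (XT.lf (nat_lit 76) (nat_lit 3801983703) (nat_lit 0) (nat_lit 1235561727) (nat_lit 532) (nat_lit 2320697497) (nat_lit 111) (nat_lit 5) (nat_lit 110) (nat_lit 5) (nat_lit 117) (nat_lit 5) (nat_lit 267) (nat_lit 264) (nat_lit 249))))) (XT.nd (nat_lit 234) (nat_lit 1824) (nat_lit 0) (XT.nd (nat_lit 78) (nat_lit 0) (nat_lit 0) (XT.lf (nat_lit 0) (nat_lit 327673487) (nat_lit 532) (nat_lit 5257756619) (nat_lit 608) (nat_lit 1962623967) (nat_lit 104) (nat_lit 5) (nat_lit 111) (nat_lit 5) (nat_lit 112) (nat_lit 5) (nat_lit 268) (nat_lit 264) (nat_lit 248)) (XT.nd (nat_lit 78) (nat_lit 0) (nat_lit 76) (XT.lf (nat_lit 76) (nat_lit 778885592) (nat_lit 0) (nat_lit 2192676292) (nat_lit 608) (nat_lit 4786965838) (nat_lit 105) (nat_lit 5) (nat_lit 104) (nat_lit 5) (nat_lit 112) (nat_lit 5) (nat_lit 269) (nat_lit 264) (nat_lit 247)) (XT.lf (nat_lit 0) (nat_lit 5726540124) (nat_lit 532) (nat_lit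 691316863) (nat_lit 76) (nat_lit 1573584363) (nat_lit 105) (nat_lit 5) (nat_lit 112) (nat_lit 5) (nat_lit 106) (nat_lit 5) (nat_lit 270) (nat_lit 264) (nat_lit 246)))) (XT.nd (nat_lit 78) (nat_lit 1292) (nat_lit 0) (XT.lf (nat_lit 0) (nat_lit 374351491) (nat_lit 608) (nat_lit 2153728352) (nat_lit 76) (nat_lit 5718556758) (nat_lit 97) (nat_lit 5) (nat_lit 105) (nat_lit 5) (nat_lit 98) (nat_lit 5) (nat_lit 271) (nat_lit 264) (nat_lit 245)) (XT.nd (nat_lit 78) (nat_lit 684) (nat_lit 0) (XT.lf (nat_lit 0) (nat_lit 3072076680) (nat_lit 684) (nat_lit 3672858719) (nat_lit 76) (nat_lit 1779595846) (nat_lit 89) (nat_lit 5) (nat_lit 98) (nat_lit 5) (nat_lit 90) (nat_lit 5) (nat_lit 272) (nat_lit 264) (nat_lit 244)) (XT.lf (nat_lit 0) (nat_lit 3581095391) (nat_lit 684) (nat_lit 2361902062) (nat_lit 760) (nat_lit 2884230399) (nat_lit 80) (nat_lit 5) (nat_lit 89) (nat_lit 5) (nat_lit 90) (nat_lit 5)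 (nat_lit 273) (nat_lit 264) (nat_lit 243))))))))
noncomputable def xc56 : XT := (XT.nd (nat_lit 1638) (nat_lit 1216) (nat_lit 0) (XT.nd (nat_lit 780) (nat_lit 1672) (nat_lit 0) (XT.nd (nat_lit 390) (nat_lit 1064) (nat_lit 0) (XT.nd (nat_lit 156) (nat_lit 684) (nat_lit 0) (XT.nd (nat_lit 78) (nat_lit 456) (nat_lit 0) (XT.lf (nat_lit 0) (nat_lit 2266117086) (nat_lit 456) (nat_lit 6746694503) (nat_lit 532) (nat_lit 143274348) (nat_lit 74) (nat_lit 5) (nat_lit 80) (nat_lit 5) (nat_lit 81) (nat_lit 5) (nat_lit 274) (nat_lit 264) (nat_lit 242)) (XT.lf (nat_lit 0) (nat_lit 839072656) (nat_lit 380) (nat_lit 1872370020) (nat_lit 456) (nat_lit 6798737397) (nat_lit 68) (nat_lit 5) (nat_lit 73) (nat_lit 5) (nat_lit 74) (nat_lit 5) (nat_lit 275) (nat_lit 264) (nat_lit 241))) (XT.nd (nat_lit 78) (nat_lit 684) (nat_lit 0) (XT.lf (nat_lit 0) (nat_lit 5812816846) (nat_lit 456) (nat_lit 674739045) (nat_lit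 76) (nat_lit 3404095544) (nat_lit 68) (nat_lit 5) (nat_lit 74) (nat_lit 5) (nat_lit 69) (nat_lit 5) (nat_lit 276) (nat_lit 264) (nat_lit 240)) (XT.nd (nat_lit 78) (nat_lit 380) (nat_lit 0) (XT.lf (nat_lit 0) (nat_lit 8035782981) (nat_lit 304) (nat_lit 1143077403) (nat_lit 380) (nat_lit 1124259654) (nat_lit 64) (nat_lit 5) (nat_lit 68) (nat_lit 5) (nat_lit 69) (nat_lit 5) (nat_lit 277) (nat_lit 264) (nat_lit 239)) (XT.lf (nat_lit 0) (nat_lit 2057667690) (nat_lit 380) (nat_lit 4066809229) (nat_lit 76) (nat_lit 4618830386) (nat_lit 59) (nat_lit 5) (nat_lit 64) (nat_lit 5) (nat_lit 60) (nat_lit 5) (nat_lit 278) (nat_lit 264) (nat_lit 238))))) (XT.nd (nat_lit 156) (nat_lit 532) (nat_lit 0) (XT.nd (nat_lit 78) (nat_lit 304) (nat_lit 0) (XT.lf (nat_lit 0) (nat_lit 5177709727) (nat_lit 228) (nat_lit 290568618) (nat_lit 304) (nat_lit 5749084879) (nat_lit 56) (nat_lit 5) (nat_lit 59) (nat_lit 5)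 (nat_lit 60) (nat_lit 5) (nat_lit 279) (nat_lit 264) (nat_lit 237)) (XT.lf (nat_lit 0) (nat_lit 3447975191) (nat_lit 304) (nat_lit 5803011827) (nat_lit 380) (nat_lit 2473626624) (nat_lit 52) (nat_lit 5) (nat_lit 56) (nat_lit 5) (nat_lit 57) (nat_lit 5) (nat_lit 280) (nat_lit 264) (nat_lit 236))) (XT.nd (nat_lit 78) (nat_lit 228) (nat_lit 0) (XT.lf (nat_lit 0) (nat_lit 1057008344) (nat_lit 304) (nat_lit 10755787681) (nat_lit 76) (nat_lit 457663056) (nat_lit 48) (nat_lit 5) (nat_lit 52) (nat_lit 5) (nat_lit 49) (nat_lit 5) (nat_lit 281) (nat_lit 264) (nat_lit 235)) (XT.nd (nat_lit 78) (nat_lit 228) (nat_lit 0) (XT.lf (nat_lit 0) (nat_lit 4919103037) (nat_lit 304) (nat_lit 754851353) (nat_lit 76) (nat_lit 7177396388) (nat_lit 48) (nat_lit 5) (nat_lit 52) (nat_lit 5) (nat_lit 49) (nat_lit 5) (nat_lit 282) (nat_lit 264) (nat_lit 234)) (XT.lf (nat_lit 0) (nat_lit 9165339466) (nat_lit 304) (nat_lit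 3253395575) (nat_lit 76) (nat_lit 1056395826) (nat_lit 45) (nat_lit 5) (nat_lit 49) (nat_lit 5) (nat_lit 46) (nat_lit 5) (nat_lit 283) (nat_lit 264) (nat_lit 233)))))) (XT.nd (nat_lit 390) (nat_lit 684) (nat_lit 0) (XT.nd (nat_lit 156) (nat_lit 456) (nat_lit 0) (XT.nd (nat_lit 78) (nat_lit 304) (nat_lit 0) (XT.lf (nat_lit 0) (nat_lit 7981930608) (nat_lit 228) (nat_lit 5906296084) (nat_lit 304) (nat_lit 253901822) (nat_lit 42) (nat_lit 5) (nat_lit 45) (nat_lit 5) (nat_lit 46) (nat_lit 5) (nat_lit 284) (nat_lit 264) (nat_lit 232)) (XT.lf (nat_lit 0) (nat_lit 4062698751) (nat_lit 304) (nat_lit 9529322383) (nat_lit 76) (nat_lit 1263971457) (nat_lit 38) (nat_lit 5) (nat_lit 42) (nat_lit 5) (nat_lit 39) (nat_lit 5) (nat_lit 285) (nat_lit 264) (nat_lit 231))) (XT.nd (nat_lit 78) (nat_lit 304) (nat_lit 0) (XT.lf (nat_lit 0) (nat_lit 2165898023) (nat_lit 152) (nat_lit 6703637124) (nat_lit 228)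 (nat_lit 6749665252) (nat_lit 36) (nat_lit 5) (nat_lit 38) (nat_lit 5) (nat_lit 39) (nat_lit 5) (nat_lit 286) (nat_lit 264) (nat_lit 230)) (XT.nd (nat_lit 78) (nat_lit 304) (nat_lit 0) (XT.lf (nat_lit 0) (nat_lit 14156381945) (nat_lit 228) (nat_lit 1439138755) (nat_lit 76) (nat_lit 843293995) (nat_lit 36) (nat_lit 5) (nat_lit 39) (nat_lit 5) (nat_lit 37) (nat_lit 5) (nat_lit 287) (nat_lit 264) (nat_lit 229)) (XT.lf (nat_lit 0) (nat_lit 2681181084) (nat_lit 304) (nat_lit 5676967629) (nat_lit 76) (nat_lit 8952954981) (nat_lit 32) (nat_lit 5) (nat_lit 36) (nat_lit 5) (nat_lit 33) (nat_lit 5) (nat_lit 288) (nat_lit 264) (nat_lit 228))))) (XT.nd (nat_lit 234) (nat_lit 304) (nat_lit 0) (XT.nd (nat_lit 78) (nat_lit 228) (nat_lit 0) (XT.lf (nat_lit 0) (nat_lit 7643587350) (nat_lit 152) (nat_lit 388491584) (nat_lit 228) (nat_lit 10215818484) (nat_lit 30) (nat_lit 5) (nat_lit 32) (nat_lit 5) (nat_lit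 33) (nat_lit 5) (nat_lit 289) (nat_lit 264) (nat_lit 227)) (XT.nd (nat_lit 78) (nat_lit 76) (nat_lit 0) (XT.lf (nat_lit 0) (nat_lit 2825311424) (nat_lit 152) (nat_lit 11186248510) (nat_lit 228) (nat_lit 5238142160) (nat_lit 28) (nat_lit 5) (nat_lit 30) (nat_lit 5) (nat_lit 31) (nat_lit 5) (nat_lit 290) (nat_lit 264) (nat_lit 226)) (XT.lf (nat_lit 0) (nat_lit 257678142) (nat_lit 228) (nat_lit 2736646802) (nat_lit 76) (nat_lit 17331083766) (nat_lit 27) (nat_lit 5) (nat_lit 30) (nat_lit 5) (nat_lit 28) (nat_lit 5) (nat_lit 291) (nat_lit 264) (nat_lit 225)))) (XT.nd (nat_lit 78) (nat_lit 152) (nat_lit 0) (XT.lf (nat_lit 0) (nat_lit 6233915886) (nat_lit 228) (nat_lit 9324396836) (nat_lit 76) (nat_lit 5913427986) (nat_lit 25) (nat_lit 5) (nat_lit 28) (nat_lit 5) (nat_lit 26) (nat_lit 5) (nat_lit 292) (nat_lit 264) (nat_lit 224)) (XT.nd (nat_lit 78) (nat_lit 0) (nat_lit 0) (XT.lf (nat_lit 0)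 (nat_lit 5641236330) (nat_lit 152) (nat_lit 7171958747) (nat_lit 228) (nat_lit 9890407395) (nat_lit 23) (nat_lit 5) (nat_lit 25) (nat_lit 5) (nat_lit 26) (nat_lit 5) (nat_lit 293) (nat_lit 264) (nat_lit 223)) (XT.lf (nat_lit 0) (nat_lit 20053783417) (nat_lit 228) (nat_lit 2019398505) (nat_lit 76) (nat_lit 1954148032) (nat_lit 23) (nat_lit 5) (nat_lit 26) (nat_lit 5) (nat_lit 24) (nat_lit 4) (nat_lit 294) (nat_lit 264) (nat_lit 222))))))) (XT.nd (nat_lit 780) (nat_lit 380) (nat_lit 0) (XT.nd (nat_lit 390) (nat_lit 380) (nat_lit 0) (XT.nd (nat_lit 156) (nat_lit 152) (nat_lit 0) (XT.nd (nat_lit 78) (nat_lit 152) (nat_lit 0) (XT.lf (nat_lit 0) (nat_lit 2635875095) (nat_lit 152) (nat_lit 11006673235) (nat_lit 76) (nat_lit 11797750173) (nat_lit 21) (nat_lit 5) (nat_lit 23) (nat_lit 5) (nat_lit 22) (nat_lit 5) (nat_lit 295) (nat_lit 264) (nat_lit 221)) (XT.lf (nat_lit 0) (nat_lit 5324230953)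 (nat_lit 152) (nat_lit 4378011462) (nat_lit 228) (nat_lit 17257488001) (nat_lit 19) (nat_lit 5) (nat_lit 21) (nat_lit 5) (nat_lit 22) (nat_lit 5) (nat_lit 296) (nat_lit 264) (nat_lit 220))) (XT.nd (nat_lit 78) (nat_lit 152) (nat_lit 0) (XT.lf (nat_lit 0) (nat_lit 17565402948) (nat_lit 228) (nat_lit 5414718778) (nat_lit 76) (nat_lit 5609070195) (nat_lit 19) (nat_lit 5) (nat_lit 22) (nat_lit 5) (nat_lit 20) (nat_lit 4) (nat_lit 297) (nat_lit 264) (nat_lit 219)) (XT.nd (nat_lit 78) (nat_lit 76) (nat_lit 0) (XT.lf (nat_lit 0) (nat_lit 12344223583) (nat_lit 76) (nat_lit 13932486002) (nat_lit 152) (nat_lit 4061391684) (nat_lit 18) (nat_lit 5) (nat_lit 19) (nat_lit 5) (nat_lit 20) (nat_lit 4) (nat_lit 298) (nat_lit 264) (nat_lit 218)) (XT.lf (nat_lit 0) (nat_lit 3397259109) (nat_lit 152) (nat_lit 639323691) (nat_lit 76) (nat_lit 28185184349) (nat_lit 17) (nat_lit 5) (nat_lit 19) (nat_lit 5) (nat_lit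 18) (nat_lit 5) (nat_lit 299) (nat_lit 264) (nat_lit 217))))) (XT.nd (nat_lit 156) (nat_lit 152) (nat_lit 0) (XT.nd (nat_lit 78) (nat_lit 76) (nat_lit 0) (XT.lf (nat_lit 0) (nat_lit 11668635977) (nat_lit 228) (nat_lit 15793577732) (nat_lit 76) (nat_lit 6772704531) (nat_lit 15) (nat_lit 5) (nat_lit 18) (nat_lit 5) (nat_lit 16) (nat_lit 4) (nat_lit 300) (nat_lit 264) (nat_lit 216)) (XT.lf (nat_lit 0) (nat_lit 2606490902) (nat_lit 76) (nat_lit 18074386189) (nat_lit 152) (nat_lit 15724321088) (nat_lit 14) (nat_lit 5) (nat_lit 15) (nat_lit 5) (nat_lit 16) (nat_lit 4) (nat_lit 301) (nat_lit 264) (nat_lit 215))) (XT.nd (nat_lit 78) (nat_lit 152) (nat_lit 0) (XT.lf (nat_lit 0) (nat_lit 22974242314) (nat_lit 76) (nat_lit 7676010193) (nat_lit 152) (nat_lit 8087072162) (nat_lit 14) (nat_lit 5) (nat_lit 15) (nat_lit 5) (nat_lit 16) (nat_lit 4) (nat_lit 302) (nat_lit 264) (nat_lit 214)) (XT.nd (nat_lit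 78) (nat_lit 0) (nat_lit 0) (XT.lf (nat_lit 0) (nat_lit 234214141) (nat_lit 152) (nat_lit 37541858845) (nat_lit 76) (nat_lit 3475939855) (nat_lit 12) (nat_lit 5) (nat_lit 14) (nat_lit 5) (nat_lit 13) (nat_lit 4) (nat_lit 303) (nat_lit 264) (nat_lit 213)) (XT.lf (nat_lit 0) (nat_lit 9314819509) (nat_lit 152) (nat_lit 18983339533) (nat_lit 76) (nat_lit 15644266942) (nat_lit 12) (nat_lit 5) (nat_lit 14) (nat_lit 5) (nat_lit 13) (nat_lit 4) (nat_lit 304) (nat_lit 264) (nat_lit 212)))))) (XT.nd (nat_lit 390) (nat_lit 152) (nat_lit 0) (XT.nd (nat_lit 156) (nat_lit 152) (nat_lit 0) (XT.nd (nat_lit 78) (nat_lit 0) (nat_lit 0) (XT.lf (nat_lit 0) (nat_lit 1034604072) (nat_lit 76) (nat_lit 18070685530) (nat_lit 152) (nat_lit 27743635887) (nat_lit 11) (nat_lit 5) (nat_lit 12) (nat_lit 5) (nat_lit 13) (nat_lit 4) (nat_lit 305) (nat_lit 264) (nat_lit 211)) (XT.lf (nat_lit 0) (nat_lit 23276037789) (nat_lit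 76) (nat_lit 6702453485) (nat_lit 152) (nat_lit 19994501321) (nat_lit 11) (nat_lit 5) (nat_lit 12) (nat_lit 5) (nat_lit 13) (nat_lit 4) (nat_lit 306) (nat_lit 264) (nat_lit 210))) (XT.nd (nat_lit 78) (nat_lit 152) (nat_lit 0) (XT.lf (nat_lit 0) (nat_lit 41779364132) (nat_lit 152) (nat_lit 6190050384) (nat_lit 0) (nat_lit 5374700482) (nat_lit 11) (nat_lit 5) (nat_lit 13) (nat_lit 4) (nat_lit 11) (nat_lit 4) (nat_lit 307) (nat_lit 264) (nat_lit 209)) (XT.nd (nat_lit 78) (nat_lit 76) (nat_lit 0) (XT.lf (nat_lit 0) (nat_lit 16317766357) (nat_lit 76) (nat_lit 38547257298) (nat_lit 76) (nat_lit 2102886850) (nat_lit 10) (nat_lit 4) (nat_lit 11) (nat_lit 5) (nat_lit 11) (nat_lit 4) (nat_lit 308) (nat_lit 264) (nat_lit 208)) (XT.lf (nat_lit 0) (nat_lit 7939530096) (nat_lit 152) (nat_lit 20205099302) (nat_lit 76) (nat_lit 32726493317) (nat_lit 9) (nat_lit 5) (nat_lit 11) (nat_lit 5) (nat_lit 10)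 (nat_lit 4) (nat_lit 309) (nat_lit 264) (nat_lit 207))))) (XT.nd (nat_lit 234) (nat_lit 76) (nat_lit 0) (XT.nd (nat_lit 78) (nat_lit 0) (nat_lit 0) (XT.lf (nat_lit 0) (nat_lit 1855349193) (nat_lit 76) (nat_lit 16861981232) (nat_lit 152) (nat_lit 46367270190) (nat_lit 8) (nat_lit 5) (nat_lit 9) (nat_lit 5) (nat_lit 10) (nat_lit 4) (nat_lit 310) (nat_lit 264) (nat_lit 206)) (XT.nd (nat_lit 78) (nat_lit 0) (nat_lit 0) (XT.lf (nat_lit 0) (nat_lit 26359944545) (nat_lit 76) (nat_lit 4326222899) (nat_lit 152) (nat_lit 38932563150) (nat_lit 8) (nat_lit 5) (nat_lit 9) (nat_lit 5) (nat_lit 10) (nat_lit 4) (nat_lit 311) (nat_lit 264) (nat_lit 205)) (XT.lf (nat_lit 0) (nat_lit 43734634687) (nat_lit 152) (nat_lit 21874404457) (nat_lit 0) (nat_lit 8900459070) (nat_lit 8) (nat_lit 5) (nat_lit 10) (nat_lit 4) (nat_lit 8) (nat_lit 4) (nat_lit 312) (nat_lit 264) (nat_lit 204)))) (XT.nd (nat_lit 78) (nat_lit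 0) (nat_lit 0) (XT.lf (nat_lit 0) (nat_lit 1147574287) (nat_lit 76) (nat_lit 56750169839) (nat_lit 76) (nat_lit 21890257289) (nat_lit 7) (nat_lit 4) (nat_lit 8) (nat_lit 5) (nat_lit 8) (nat_lit 4) (nat_lit 313) (nat_lit 264) (nat_lit 203)) (XT.nd (nat_lit 78) (nat_lit 0) (nat_lit 0) (XT.lf (nat_lit 0) (nat_lit 26757109504) (nat_lit 76) (nat_lit 46798668072) (nat_lit 76) (nat_lit 11914925028) (nat_lit 7) (nat_lit 4) (nat_lit 8) (nat_lit 5) (nat_lit 8) (nat_lit 4) (nat_lit 314) (nat_lit 264) (nat_lit 202)) (XT.lf (nat_lit 0) (nat_lit 54382694805) (nat_lit 76) (nat_lit 36066015603) (nat_lit 76) (nat_lit 1160207288) (nat_lit 7) (nat_lit 4) (nat_lit 8) (nat_lit 5) (nat_lit 8) (nat_lit 4) (nat_lit 315) (nat_lit 264) (nat_lit 201))))))))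
noncomputable def xc57 : XT := (XT.nd (nat_lit 1638) (nat_lit 76) (nat_lit 0) (XT.nd (nat_lit 780) (nat_lit 152) (nat_lit 0) (XT.nd (nat_lit 390) (nat_lit 76) (nat_lit 0) (XT.nd (nat_lit 156) (nat_lit 0) (nat_lit 0) (XT.nd (nat_lit 78) (nat_lit 76) (nat_lit 0) (XT.lf (nat_lit 0) (nat_lit 10103558324) (nat_lit 152) (nat_lit 14213944555) (nat_lit 76) (nat_lit 73913370386) (nat_lit 6) (nat_lit 5) (nat_lit 8) (nat_lit 5) (nat_lit 7) (nat_lit 4) (nat_lit 316) (nat_lit 264) (nat_lit 200)) (XT.lf (nat_lit 0) (nat_lit 10941379194) (nat_lit 76) (nat_lit 11442296771) (nat_lit 152) (nat_lit 82990172078) (nat_lit 5) (nat_lit 5) (nat_lit 6) (nat_lit 5) (nat_lit 7) (nat_lit 4) (nat_lit 317) (nat_lit 264) (nat_lit 199))) (XT.nd (nat_lit 78) (nat_lit 0) (nat_lit 0) (XT.lf (nat_lit 0) (nat_lit 35921365708) (nat_lit 152) (nat_lit 74529562783) (nat_lit 0) (nat_lit 2623582223) (nat_lit 5) (nat_lit 5) (nat_lit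 7) (nat_lit 4) (nat_lit 5) (nat_lit 4) (nat_lit 318) (nat_lit 264) (nat_lit 198)) (XT.nd (nat_lit 78) (nat_lit 0) (nat_lit 0) (XT.lf (nat_lit 0) (nat_lit 50721168648) (nat_lit 152) (nat_lit 53253171454) (nat_lit 0) (nat_lit 17407938845) (nat_lit 5) (nat_lit 5) (nat_lit 7) (nat_lit 4) (nat_lit 5) (nat_lit 4) (nat_lit 319) (nat_lit 264) (nat_lit 197)) (XT.lf (nat_lit 0) (nat_lit 66692141002) (nat_lit 152) (nat_lit 30298566225) (nat_lit 0) (nat_lit 33364609053) (nat_lit 5) (nat_lit 5) (nat_lit 7) (nat_lit 4) (nat_lit 5) (nat_lit 4) (nat_lit 320) (nat_lit 264) (nat_lit 196))))) (XT.nd (nat_lit 156) (nat_lit 0) (nat_lit 0) (XT.nd (nat_lit 78) (nat_lit 76) (nat_lit 0) (XT.lf (nat_lit 0) (nat_lit 83928925568) (nat_lit 152) (nat_lit 5529719804) (nat_lit 0) (nat_lit 50588150892) (nat_lit 5) (nat_lit 5) (nat_lit 7) (nat_lit 4) (nat_lit 5) (nat_lit 4) (nat_lit 321) (nat_lit 264) (nat_lit 195)) (XT.lf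 (nat_lit 0) (nat_lit 21901118731) (nat_lit 76) (nat_lit 80974485365) (nat_lit 76) (nat_lit 47621448904) (nat_lit 4) (nat_lit 4) (nat_lit 5) (nat_lit 5) (nat_lit 5) (nat_lit 4) (nat_lit 322) (nat_lit 264) (nat_lit 194))) (XT.nd (nat_lit 78) (nat_lit 0) (nat_lit 0) (XT.lf (nat_lit 0) (nat_lit 51704291078) (nat_lit 76) (nat_lit 71719571186) (nat_lit 76) (nat_lit 38355181220) (nat_lit 4) (nat_lit 4) (nat_lit 5) (nat_lit 5) (nat_lit 5) (nat_lit 4) (nat_lit 323) (nat_lit 264) (nat_lit 193)) (XT.nd (nat_lit 78) (nat_lit 0) (nat_lit 0) (XT.lf (nat_lit 0) (nat_lit 83873571118) (nat_lit 76) (nat_lit 61732707379) (nat_lit 76) (nat_lit 28357804909) (nat_lit 4) (nat_lit 4) (nat_lit 5) (nat_lit 5) (nat_lit 5) (nat_lit 4) (nat_lit 324) (nat_lit 264) (nat_lit 192)) (XT.lf (nat_lit 0) (nat_lit 118599591622) (nat_lit 76) (nat_lit 50954712530) (nat_lit 76) (nat_lit 17570076260) (nat_lit 4) (nat_lit 4) (nat_lit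 5) (nat_lit 5) (nat_lit 5) (nat_lit 4) (nat_lit 325) (nat_lit 264) (nat_lit 191)))))) (XT.nd (nat_lit 390) (nat_lit 0) (nat_lit 0) (XT.nd (nat_lit 156) (nat_lit 76) (nat_lit 0) (XT.nd (nat_lit 78) (nat_lit 76) (nat_lit 0) (XT.lf (nat_lit 0) (nat_lit 156088136415) (nat_lit 76) (nat_lit 39321717039) (nat_lit 76) (nat_lit 5928067991) (nat_lit 4) (nat_lit 4) (nat_lit 5) (nat_lit 5) (nat_lit 5) (nat_lit 4) (nat_lit 326) (nat_lit 264) (nat_lit 190)) (XT.lf (nat_lit 0) (nat_lit 6424777418) (nat_lit 152) (nat_lit 20231200503) (nat_lit 76) (nat_lit 190027775703) (nat_lit 3) (nat_lit 5) (nat_lit 5) (nat_lit 5) (nat_lit 4) (nat_lit 4) (nat_lit 327) (nat_lit 264) (nat_lit 189))) (XT.nd (nat_lit 78) (nat_lit 0) (nat_lit 0) (XT.lf (nat_lit 0) (nat_lit 6896048074) (nat_lit 76) (nat_lit 12765302799) (nat_lit 152) (nat_lit 213585886431) (nat_lit 2) (nat_lit 5) (nat_lit 3) (nat_lit 5) (nat_lit 4) (nat_lit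 4) (nat_lit 328) (nat_lit 264) (nat_lit 188)) (XT.nd (nat_lit 78) (nat_lit 0) (nat_lit 0) (XT.lf (nat_lit 0) (nat_lit 34342949298) (nat_lit 152) (nat_lit 214256195460) (nat_lit 0) (nat_lit 2517353251) (nat_lit 2) (nat_lit 5) (nat_lit 4) (nat_lit 4) (nat_lit 2) (nat_lit 4) (nat_lit 329) (nat_lit 264) (nat_lit 187)) (XT.lf (nat_lit 0) (nat_lit 50407828720) (nat_lit 152) (nat_lit 201421112767) (nat_lit 0) (nat_lit 18575923471) (nat_lit 2) (nat_lit 5) (nat_lit 4) (nat_lit 4) (nat_lit 2) (nat_lit 4) (nat_lit 330) (nat_lit 264) (nat_lit 186))))) (XT.nd (nat_lit 234) (nat_lit 0) (nat_lit 0) (XT.nd (nat_lit 78) (nat_lit 0) (nat_lit 0) (XT.lf (nat_lit 0) (nat_lit 67751886272) (nat_lit 152) (nat_lit 187570579250) (nat_lit 0) (nat_lit 35914139170) (nat_lit 2) (nat_lit 5) (nat_lit 4) (nat_lit 4) (nat_lit 2) (nat_lit 4) (nat_lit 331) (nat_lit 264) (nat_lit 185)) (XT.nd (nat_lit 78) (nat_lit 0) (nat_lit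 0) (XT.lf (nat_lit 0) (nat_lit 86477901554) (nat_lit 152) (nat_lit 172622517673) (nat_lit 0) (nat_lit 54634745330) (nat_lit 2) (nat_lit 5) (nat_lit 4) (nat_lit 4) (nat_lit 2) (nat_lit 4) (nat_lit 332) (nat_lit 264) (nat_lit 184)) (XT.lf (nat_lit 0) (nat_lit 106696843546) (nat_lit 152) (nat_lit 156488346931) (nat_lit 0) (nat_lit 74848678875) (nat_lit 2) (nat_lit 5) (nat_lit 4) (nat_lit 4) (nat_lit 2) (nat_lit 4) (nat_lit 333) (nat_lit 264) (nat_lit 183)))) (XT.nd (nat_lit 78) (nat_lit 0) (nat_lit 0) (XT.lf (nat_lit 0) (nat_lit 128528528201) (nat_lit 152) (nat_lit 139072457123) (nat_lit 0) (nat_lit 96675726079) (nat_lit 2) (nat_lit 5) (nat_lit 4) (nat_lit 4) (nat_lit 2) (nat_lit 4) (nat_lit 334) (nat_lit 264) (nat_lit 182)) (XT.nd (nat_lit 78) (nat_lit 0) (nat_lit 0) (XT.lf (nat_lit 0) (nat_lit 152102328464) (nat_lit 152) (nat_lit 120271642976) (nat_lit 0) (nat_lit 120245232407) (nat_lit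 2) (nat_lit 5) (nat_lit 4) (nat_lit 4) (nat_lit 2) (nat_lit 4) (nat_lit 335) (nat_lit 264) (nat_lit 181)) (XT.lf (nat_lit 0) (nat_lit 177557940931) (nat_lit 152) (nat_lit 99974492258) (nat_lit 0) (nat_lit 145696869006) (nat_lit 2) (nat_lit 5) (nat_lit 4) (nat_lit 4) (nat_lit 2) (nat_lit 4) (nat_lit 336) (nat_lit 264) (nat_lit 180))))))) (XT.nd (nat_lit 780) (nat_lit 0) (nat_lit 0) (XT.nd (nat_lit 390) (nat_lit 0) (nat_lit 0) (XT.nd (nat_lit 156) (nat_lit 76) (nat_lit 0) (XT.nd (nat_lit 78) (nat_lit 0) (nat_lit 0) (XT.lf (nat_lit 0) (nat_lit 205046213673) (nat_lit 152) (nat_lit 78060725558) (nat_lit 0) (nat_lit 173181460391) (nat_lit 2) (nat_lit 5) (nat_lit 4) (nat_lit 4) (nat_lit 2) (nat_lit 4) (nat_lit 337) (nat_lit 264) (nat_lit 179)) (XT.lf (nat_lit 0) (nat_lit 234730040161) (nat_lit 152) (nat_lit 54400483517) (nat_lit 0) (nat_lit 202861878214) (nat_lit 2) (nat_lit 5) (nat_lit 4) (nat_lit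 4) (nat_lit 2) (nat_lit 4) (nat_lit 338) (nat_lit 264) (nat_lit 178))) (XT.nd (nat_lit 78) (nat_lit 76) (nat_lit 0) (XT.lf (nat_lit 0) (nat_lit 266785324550) (nat_lit 152) (nat_lit 28853557294) (nat_lit 0) (nat_lit 234914006432) (nat_lit 2) (nat_lit 5) (nat_lit 4) (nat_lit 4) (nat_lit 2) (nat_lit 4) (nat_lit 339) (nat_lit 264) (nat_lit 177)) (XT.nd (nat_lit 78) (nat_lit 76) (nat_lit 0) (XT.lf (nat_lit 0) (nat_lit 301402024082) (nat_lit 152) (nat_lit 1268557695) (nat_lit 0) (nat_lit 269527783583) (nat_lit 2) (nat_lit 5) (nat_lit 4) (nat_lit 4) (nat_lit 2) (nat_lit 4) (nat_lit 340) (nat_lit 264) (nat_lit 176)) (XT.lf (nat_lit 0) (nat_lit 29460915215) (nat_lit 76) (nat_lit 309784326989) (nat_lit 76) (nat_lit 277907380582) (nat_lit 1) (nat_lit 4) (nat_lit 2) (nat_lit 5) (nat_lit 2) (nat_lit 4) (nat_lit 341) (nat_lit 264) (nat_lit 175))))) (XT.nd (nat_lit 156) (nat_lit 0) (nat_lit 0) (XT.nd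 (nat_lit 78) (nat_lit 0) (nat_lit 0) (XT.lf (nat_lit 0) (nat_lit 62689014407) (nat_lit 76) (nat_lit 317446343733) (nat_lit 76) (nat_lit 285566891856) (nat_lit 1) (nat_lit 4) (nat_lit 2) (nat_lit 5) (nat_lit 2) (nat_lit 4) (nat_lit 342) (nat_lit 264) (nat_lit 174)) (XT.lf (nat_lit 0) (nat_lit 98570702887) (nat_lit 76) (nat_lit 325723520193) (nat_lit 76) (nat_lit 293841748435) (nat_lit 1) (nat_lit 4) (nat_lit 2) (nat_lit 5) (nat_lit 2) (nat_lit 4) (nat_lit 343) (nat_lit 264) (nat_lit 173))) (XT.nd (nat_lit 78) (nat_lit 0) (nat_lit 0) (XT.lf (nat_lit 0) (nat_lit 137318612884) (nat_lit 76) (nat_lit 334664906302) (nat_lit 76) (nat_lit 302780986507) (nat_lit 1) (nat_lit 4) (nat_lit 2) (nat_lit 5) (nat_lit 2) (nat_lit 4) (nat_lit 344) (nat_lit 264) (nat_lit 172)) (XT.nd (nat_lit 78) (nat_lit 0) (nat_lit 0) (XT.lf (nat_lit 0) (nat_lit 179162361641) (nat_lit 76) (nat_lit 344323488053) (nat_lit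 76) (nat_lit 312437579335) (nat_lit 1) (nat_lit 4) (nat_lit 2) (nat_lit 5) (nat_lit 2) (nat_lit 4) (nat_lit 345) (nat_lit 264) (nat_lit 171)) (XT.lf (nat_lit 0) (nat_lit 224349912116) (nat_lit 76) (nat_lit 354756501485) (nat_lit 76) (nat_lit 322868751171) (nat_lit 1) (nat_lit 4) (nat_lit 2) (nat_lit 5) (nat_lit 2) (nat_lit 4) (nat_lit 346) (nat_lit 264) (nat_lit 170)))))) (XT.nd (nat_lit 34476) (nat_lit 0) (nat_lit 6688) (XT.nd (nat_lit 34242) (nat_lit 0) (nat_lit 8208) (XT.nd (nat_lit 78) (nat_lit 0) (nat_lit 0) (XT.lf (nat_lit 0) (nat_lit 273149042383) (nat_lit 76) (nat_lit 366025771863) (nat_lit 76) (nat_lit 334136316369) (nat_lit 1) (nat_lit 4) (nat_lit 2) (nat_lit 5) (nat_lit 2) (nat_lit 4) (nat_lit 347) (nat_lit 264) (nat_lit 169)) (XT.lf (nat_lit 0) (nat_lit 325848932475) (nat_lit 76) (nat_lit 378198080049) (nat_lit 76) (nat_lit 346307045684) (nat_lit 1) (nat_lit 4) (nat_lit 2)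 (nat_lit 5) (nat_lit 2) (nat_lit 4) (nat_lit 348) (nat_lit 264) (nat_lit 168))) (XT.nd (nat_lit 78) (nat_lit 0) (nat_lit 0) (XT.lf (nat_lit 0) (nat_lit 1030510455) (nat_lit 532) (nat_lit 1279352554) (nat_lit 532) (nat_lit 1279352554) (nat_lit 109) (nat_lit 3) (nat_lit 116) (nat_lit 3) (nat_lit 116) (nat_lit 5) (nat_lit 265) (nat_lit 265) (nat_lit 250)) (XT.nd (nat_lit 78) (nat_lit 0) (nat_lit 76) (XT.lf (nat_lit 76) (nat_lit 2732821417) (nat_lit 0) (nat_lit 1872825010) (nat_lit 532) (nat_lit 2729700206) (nat_lit 110) (nat_lit 5) (nat_lit 109) (nat_lit 3) (nat_lit 116) (nat_lit 5) (nat_lit 266) (nat_lit 265) (nat_lit 249)) (XT.lf (nat_lit 76) (nat_lit 901159006) (nat_lit 0) (nat_lit 6286764271) (nat_lit 532) (nat_lit 325899627) (nat_lit 111) (nat_lit 5) (nat_lit 110) (nat_lit 5) (nat_lit 117) (nat_lit 5) (nat_lit 267) (nat_lit 265) (nat_lit 248))))) (XT.nd (nat_lit 234) (nat_lit 1064) (nat_lit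 0) (XT.nd (nat_lit 78) (nat_lit 0) (nat_lit 76) (XT.lf (nat_lit 0) (nat_lit 2079658428) (nat_lit 532) (nat_lit 909647435) (nat_lit 608) (nat_lit 4722021000) (nat_lit 103) (nat_lit 5) (nat_lit 110) (nat_lit 5) (nat_lit 111) (nat_lit 5) (nat_lit 268) (nat_lit 265) (nat_lit 247)) (XT.nd (nat_lit 78) (nat_lit 0) (nat_lit 0) (XT.lf (nat_lit 0) (nat_lit 4546485680) (nat_lit 532) (nat_lit 2667359516) (nat_lit 608) (nat_lit 717087713) (nat_lit 104) (nat_lit 5) (nat_lit 111) (nat_lit 5) (nat_lit 112) (nat_lit 5) (nat_lit 269) (nat_lit 265) (nat_lit 246)) (XT.lf (nat_lit 76) (nat_lit 3721358914) (nat_lit 0) (nat_lit 3414930805) (nat_lit 608) (nat_lit 1036074176) (nat_lit 105) (nat_lit 5) (nat_lit 104) (nat_lit 5) (nat_lit 112) (nat_lit 5) (nat_lit 270) (nat_lit 265) (nat_lit 245)))) (XT.nd (nat_lit 78) (nat_lit 608) (nat_lit 0) (XT.lf (nat_lit 0) (nat_lit 1356811424) (nat_lit 608) (nat_lit 6262982272)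 (nat_lit 76) (nat_lit 817386111) (nat_lit 97) (nat_lit 5) (nat_lit 105) (nat_lit 5) (nat_lit 98) (nat_lit 5) (nat_lit 271) (nat_lit 265) (nat_lit 244)) (XT.nd (nat_lit 78) (nat_lit 0) (nat_lit 0) (XT.lf (nat_lit 0) (nat_lit 563583448) (nat_lit 608) (nat_lit 3309565460) (nat_lit 684) (nat_lit 4851206115) (nat_lit 89) (nat_lit 5) (nat_lit 97) (nat_lit 5) (nat_lit 98) (nat_lit 5) (nat_lit 272) (nat_lit 265) (nat_lit 243)) (XT.lf (nat_lit 0) (nat_lit 6556673680) (nat_lit 684) (nat_lit 1041839387) (nat_lit 76) (nat_lit 1438103909) (nat_lit 89) (nat_lit 5) (nat_lit 98) (nat_lit 5) (nat_lit 90) (nat_lit 5) (nat_lit 273) (nat_lit 265) (nat_lit 242))))))))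
noncomputable def xc58 : XT := (XT.nd (nat_lit 1638) (nat_lit 1216) (nat_lit 0) (XT.nd (nat_lit 780) (nat_lit 1672) (nat_lit 0) (XT.nd (nat_lit 390) (nat_lit 1064) (nat_lit 0) (XT.nd (nat_lit 156) (nat_lit 1064) (nat_lit 0) (XT.nd (nat_lit 78) (nat_lit 456) (nat_lit 0) (XT.lf (nat_lit 0) (nat_lit 84318540) (nat_lit 760) (nat_lit 2709968008) (nat_lit 76) (nat_lit 6579574204) (nat_lit 79) (nat_lit 5) (nat_lit 89) (nat_lit 5) (nat_lit 80) (nat_lit 5) (nat_lit 274) (nat_lit 265) (nat_lit 241)) (XT.lf (nat_lit 0) (nat_lit 2761554097) (nat_lit 532) (nat_lit 4503654420) (nat_lit 76) (nat_lit 2471438981) (nat_lit 73) (nat_lit 5) (nat_lit 80) (nat_lit 5) (nat_lit 74) (nat_lit 5) (nat_lit 275) (nat_lit 265) (nat_lit 240))) (XT.nd (nat_lit 78) (nat_lit 684) (nat_lit 0) (XT.lf (nat_lit 0) (nat_lit 3713738843) (nat_lit 380) (nat_lit 1954136031) (nat_lit 456) (nat_lit 4460144494) (nat_lit 68) (nat_lit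 5) (nat_lit 73) (nat_lit 5) (nat_lit 74) (nat_lit 5) (nat_lit 276) (nat_lit 265) (nat_lit 239)) (XT.nd (nat_lit 78) (nat_lit 380) (nat_lit 0) (XT.lf (nat_lit 0) (nat_lit 2068460911) (nat_lit 304) (nat_lit 6779248737) (nat_lit 380) (nat_lit 1701225647) (nat_lit 64) (nat_lit 5) (nat_lit 68) (nat_lit 5) (nat_lit 69) (nat_lit 5) (nat_lit 277) (nat_lit 265) (nat_lit 238)) (XT.lf (nat_lit 0) (nat_lit 276778105) (nat_lit 304) (nat_lit 986760042) (nat_lit 380) (nat_lit 9737937033) (nat_lit 59) (nat_lit 5) (nat_lit 63) (nat_lit 5) (nat_lit 64) (nat_lit 5) (nat_lit 278) (nat_lit 265) (nat_lit 237))))) (XT.nd (nat_lit 156) (nat_lit 836) (nat_lit 0) (XT.nd (nat_lit 78) (nat_lit 228) (nat_lit 0) (XT.lf (nat_lit 0) (nat_lit 4521251363) (nat_lit 380) (nat_lit 1696909135) (nat_lit 76) (nat_lit 5265127244) (nat_lit 59) (nat_lit 5) (nat_lit 64) (nat_lit 5) (nat_lit 60) (nat_lit 5) (nat_lit 279) (nat_lit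 265) (nat_lit 236)) (XT.lf (nat_lit 0) (nat_lit 8076157352) (nat_lit 304) (nat_lit 3833555962) (nat_lit 76) (nat_lit 92318471) (nat_lit 56) (nat_lit 5) (nat_lit 60) (nat_lit 5) (nat_lit 57) (nat_lit 5) (nat_lit 280) (nat_lit 265) (nat_lit 235))) (XT.nd (nat_lit 78) (nat_lit 532) (nat_lit 0) (XT.lf (nat_lit 0) (nat_lit 6291524043) (nat_lit 304) (nat_lit 5753812817) (nat_lit 380) (nat_lit 510643754) (nat_lit 52) (nat_lit 5) (nat_lit 56) (nat_lit 5) (nat_lit 57) (nat_lit 5) (nat_lit 281) (nat_lit 265) (nat_lit 234)) (XT.nd (nat_lit 78) (nat_lit 228) (nat_lit 0) (XT.lf (nat_lit 0) (nat_lit 3126355124) (nat_lit 304) (nat_lit 8996772911) (nat_lit 76) (nat_lit 1026299388) (nat_lit 48) (nat_lit 5) (nat_lit 52) (nat_lit 5) (nat_lit 49) (nat_lit 5) (nat_lit 282) (nat_lit 265) (nat_lit 233)) (XT.lf (nat_lit 0) (nat_lit 1663443512) (nat_lit 228) (nat_lit 5512923702) (nat_lit 304) (nat_lit 6606729757)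 (nat_lit 45) (nat_lit 5) (nat_lit 48) (nat_lit 5) (nat_lit 49) (nat_lit 5) (nat_lit 283) (nat_lit 265) (nat_lit 232)))))) (XT.nd (nat_lit 390) (nat_lit 760) (nat_lit 0) (XT.nd (nat_lit 156) (nat_lit 608) (nat_lit 0) (XT.nd (nat_lit 78) (nat_lit 304) (nat_lit 0) (XT.lf (nat_lit 0) (nat_lit 11645512514) (nat_lit 304) (nat_lit 1112888343) (nat_lit 76) (nat_lit 1704453303) (nat_lit 45) (nat_lit 5) (nat_lit 49) (nat_lit 5) (nat_lit 46) (nat_lit 5) (nat_lit 284) (nat_lit 265) (nat_lit 231)) (XT.lf (nat_lit 0) (nat_lit 1417698856) (nat_lit 304) (nat_lit 4294043961) (nat_lit 76) (nat_lit 9475220738) (nat_lit 41) (nat_lit 5) (nat_lit 45) (nat_lit 5) (nat_lit 42) (nat_lit 5) (nat_lit 285) (nat_lit 265) (nat_lit 230))) (XT.nd (nat_lit 78) (nat_lit 380) (nat_lit 0) (XT.lf (nat_lit 0) (nat_lit 5991624401) (nat_lit 304) (nat_lit 7967514475) (nat_lit 76) (nat_lit 2002737182) (nat_lit 38) (nat_lit 5)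 (nat_lit 42) (nat_lit 5) (nat_lit 39) (nat_lit 5) (nat_lit 286) (nat_lit 265) (nat_lit 229)) (XT.nd (nat_lit 78) (nat_lit 228) (nat_lit 0) (XT.lf (nat_lit 0) (nat_lit 4562318675) (nat_lit 152) (nat_lit 6536590486) (nat_lit 228) (nat_lit 5691614067) (nat_lit 36) (nat_lit 5) (nat_lit 38) (nat_lit 5) (nat_lit 39) (nat_lit 5) (nat_lit 287) (nat_lit 265) (nat_lit 228)) (XT.lf (nat_lit 0) (nat_lit 585182739) (nat_lit 228) (nat_lit 16130246357) (nat_lit 304) (nat_lit 965105943) (nat_lit 33) (nat_lit 5) (nat_lit 36) (nat_lit 5) (nat_lit 37) (nat_lit 5) (nat_lit 288) (nat_lit 265) (nat_lit 227))))) (XT.nd (nat_lit 234) (nat_lit 380) (nat_lit 0) (XT.nd (nat_lit 78) (nat_lit 304) (nat_lit 0) (XT.lf (nat_lit 0) (nat_lit 4263633356) (nat_lit 304) (nat_lit 4055520309) (nat_lit 76) (nat_lit 10306625619) (nat_lit 32) (nat_lit 5) (nat_lit 36) (nat_lit 5) (nat_lit 33) (nat_lit 5) (nat_lit 289) (nat_lit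 265) (nat_lit 226)) (XT.nd (nat_lit 78) (nat_lit 152) (nat_lit 0) (XT.lf (nat_lit 0) (nat_lit 9976457946) (nat_lit 228) (nat_lit 9404879183) (nat_lit 76) (nat_lit 259621062) (nat_lit 30) (nat_lit 5) (nat_lit 33) (nat_lit 5) (nat_lit 31) (nat_lit 5) (nat_lit 290) (nat_lit 265) (nat_lit 225)) (XT.lf (nat_lit 0) (nat_lit 5003852199) (nat_lit 152) (nat_lit 11370564344) (nat_lit 228) (nat_lit 4351609217) (nat_lit 28) (nat_lit 5) (nat_lit 30) (nat_lit 5) (nat_lit 31) (nat_lit 5) (nat_lit 291) (nat_lit 265) (nat_lit 224)))) (XT.nd (nat_lit 78) (nat_lit 304) (nat_lit 0) (XT.lf (nat_lit 0) (nat_lit 1448475231) (nat_lit 228) (nat_lit 1107629904) (nat_lit 76) (nat_lit 19335455073) (nat_lit 27) (nat_lit 5) (nat_lit 30) (nat_lit 5) (nat_lit 28) (nat_lit 5) (nat_lit 292) (nat_lit 265) (nat_lit 223)) (XT.nd (nat_lit 78) (nat_lit 152) (nat_lit 0) (XT.lf (nat_lit 0) (nat_lit 7853979991) (nat_lit 228) (nat_lit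 8256134501) (nat_lit 76) (nat_lit 7022027508) (nat_lit 25) (nat_lit 5) (nat_lit 28) (nat_lit 5) (nat_lit 26) (nat_lit 5) (nat_lit 293) (nat_lit 265) (nat_lit 222)) (XT.lf (nat_lit 0) (nat_lit 7827905785) (nat_lit 152) (nat_lit 7075726705) (nat_lit 228) (nat_lit 9561812772) (nat_lit 23) (nat_lit 5) (nat_lit 25) (nat_lit 5) (nat_lit 26) (nat_lit 5) (nat_lit 294) (nat_lit 265) (nat_lit 221))))))) (XT.nd (nat_lit 780) (nat_lit 380) (nat_lit 0) (XT.nd (nat_lit 390) (nat_lit 456) (nat_lit 0) (XT.nd (nat_lit 156) (nat_lit 228) (nat_lit 0) (XT.nd (nat_lit 78) (nat_lit 152) (nat_lit 0) (XT.lf (nat_lit 0) (nat_lit 22654236285) (nat_lit 228) (nat_lit 533398945) (nat_lit 76) (nat_lit 2710984428) (nat_lit 23) (nat_lit 5) (nat_lit 26) (nat_lit 5) (nat_lit 24) (nat_lit 4) (nat_lit 295) (nat_lit 265) (nat_lit 220)) (XT.lf (nat_lit 0) (nat_lit 3810211665) (nat_lit 152) (nat_lit 10278439197) (nat_lit 76)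 (nat_lit 13337737715) (nat_lit 21) (nat_lit 5) (nat_lit 23) (nat_lit 5) (nat_lit 22) (nat_lit 5) (nat_lit 296) (nat_lit 265) (nat_lit 219))) (XT.nd (nat_lit 78) (nat_lit 76) (nat_lit 0) (XT.lf (nat_lit 0) (nat_lit 7289022233) (nat_lit 152) (nat_lit 4105524049) (nat_lit 228) (nat_lit 17675267011) (nat_lit 19) (nat_lit 5) (nat_lit 21) (nat_lit 5) (nat_lit 22) (nat_lit 5) (nat_lit 297) (nat_lit 265) (nat_lit 218)) (XT.nd (nat_lit 78) (nat_lit 76) (nat_lit 0) (XT.lf (nat_lit 0) (nat_lit 19827900932) (nat_lit 228) (nat_lit 4388798294) (nat_lit 76) (nat_lit 6615941306) (nat_lit 19) (nat_lit 5) (nat_lit 22) (nat_lit 5) (nat_lit 20) (nat_lit 4) (nat_lit 298) (nat_lit 265) (nat_lit 217)) (XT.lf (nat_lit 0) (nat_lit 14727448836) (nat_lit 76) (nat_lit 14466952688) (nat_lit 152) (nat_lit 3529207629) (nat_lit 18) (nat_lit 5) (nat_lit 19) (nat_lit 5) (nat_lit 20) (nat_lit 4) (nat_lit 299) (nat_lit 265)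 (nat_lit 216))))) (XT.nd (nat_lit 156) (nat_lit 228) (nat_lit 0) (XT.nd (nat_lit 78) (nat_lit 0) (nat_lit 0) (XT.lf (nat_lit 0) (nat_lit 648667684) (nat_lit 152) (nat_lit 3798706142) (nat_lit 228) (nat_lit 30312545634) (nat_lit 15) (nat_lit 5) (nat_lit 17) (nat_lit 5) (nat_lit 18) (nat_lit 5) (nat_lit 300) (nat_lit 265) (nat_lit 215)) (XT.lf (nat_lit 0) (nat_lit 13341394330) (nat_lit 228) (nat_lit 15767087166) (nat_lit 76) (nat_lit 7827644272) (nat_lit 15) (nat_lit 5) (nat_lit 18) (nat_lit 5) (nat_lit 16) (nat_lit 4) (nat_lit 301) (nat_lit 265) (nat_lit 214))) (XT.nd (nat_lit 78) (nat_lit 152) (nat_lit 0) (XT.lf (nat_lit 0) (nat_lit 4048926140) (nat_lit 76) (nat_lit 18990192925) (nat_lit 152) (nat_lit 16242729935) (nat_lit 14) (nat_lit 5) (nat_lit 15) (nat_lit 5) (nat_lit 16) (nat_lit 4) (nat_lit 302) (nat_lit 265) (nat_lit 213)) (XT.nd (nat_lit 78) (nat_lit 152) (nat_lit 0) (XT.lf (nat_lit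 0) (nat_lit 25954696483) (nat_lit 76) (nat_lit 7799216787) (nat_lit 152) (nat_lit 8049281602) (nat_lit 14) (nat_lit 5) (nat_lit 15) (nat_lit 5) (nat_lit 16) (nat_lit 4) (nat_lit 303) (nat_lit 265) (nat_lit 212)) (XT.lf (nat_lit 0) (nat_lit 891633132) (nat_lit 152) (nat_lit 39406410948) (nat_lit 76) (nat_lit 4221725022) (nat_lit 12) (nat_lit 5) (nat_lit 14) (nat_lit 5) (nat_lit 13) (nat_lit 4) (nat_lit 304) (nat_lit 265) (nat_lit 211)))))) (XT.nd (nat_lit 390) (nat_lit 228) (nat_lit 0) (XT.nd (nat_lit 156) (nat_lit 76) (nat_lit 0) (XT.nd (nat_lit 78) (nat_lit 76) (nat_lit 0) (XT.lf (nat_lit 0) (nat_lit 10651377162) (nat_lit 152) (nat_lit 19447565394) (nat_lit 76) (nat_lit 17328873093) (nat_lit 12) (nat_lit 5) (nat_lit 14) (nat_lit 5) (nat_lit 13) (nat_lit 4) (nat_lit 305) (nat_lit 265) (nat_lit 210)) (XT.lf (nat_lit 0) (nat_lit 2125988965) (nat_lit 76) (nat_lit 19071037889) (nat_lit 152)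 (nat_lit 29371243444) (nat_lit 11) (nat_lit 5) (nat_lit 12) (nat_lit 5) (nat_lit 13) (nat_lit 4) (nat_lit 306) (nat_lit 265) (nat_lit 209))) (XT.nd (nat_lit 78) (nat_lit 76) (nat_lit 0) (XT.lf (nat_lit 0) (nat_lit 26072025040) (nat_lit 76) (nat_lit 6826332649) (nat_lit 152) (nat_lit 21046021321) (nat_lit 11) (nat_lit 5) (nat_lit 12) (nat_lit 5) (nat_lit 13) (nat_lit 4) (nat_lit 307) (nat_lit 265) (nat_lit 208)) (XT.nd (nat_lit 78) (nat_lit 76) (nat_lit 0) (XT.lf (nat_lit 0) (nat_lit 45610624874) (nat_lit 152) (nat_lit 5801995347) (nat_lit 0) (nat_lit 6174232439) (nat_lit 11) (nat_lit 5) (nat_lit 13) (nat_lit 4) (nat_lit 11) (nat_lit 4) (nat_lit 308) (nat_lit 265) (nat_lit 207)) (XT.lf (nat_lit 0) (nat_lit 18468061371) (nat_lit 76) (nat_lit 41252050958) (nat_lit 76) (nat_lit 1781616345) (nat_lit 10) (nat_lit 4) (nat_lit 11) (nat_lit 5) (nat_lit 11) (nat_lit 4) (nat_lit 309) (nat_lit 265)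 (nat_lit 206))))) (XT.nd (nat_lit 234) (nat_lit 76) (nat_lit 0) (XT.nd (nat_lit 78) (nat_lit 76) (nat_lit 0) (XT.lf (nat_lit 0) (nat_lit 9013428014) (nat_lit 152) (nat_lit 21024427721) (nat_lit 76) (nat_lit 35680737543) (nat_lit 9) (nat_lit 5) (nat_lit 11) (nat_lit 5) (nat_lit 10) (nat_lit 4) (nat_lit 310) (nat_lit 265) (nat_lit 205)) (XT.nd (nat_lit 78) (nat_lit 0) (nat_lit 0) (XT.lf (nat_lit 0) (nat_lit 2766216549) (nat_lit 76) (nat_lit 17866640709) (nat_lit 152) (nat_lit 49637342832) (nat_lit 8) (nat_lit 5) (nat_lit 9) (nat_lit 5) (nat_lit 10) (nat_lit 4) (nat_lit 311) (nat_lit 265) (nat_lit 204)) (XT.lf (nat_lit 0) (nat_lit 29174702535) (nat_lit 76) (nat_lit 4353525340) (nat_lit 152) (nat_lit 41640400633) (nat_lit 8) (nat_lit 5) (nat_lit 9) (nat_lit 5) (nat_lit 10) (nat_lit 4) (nat_lit 312) (nat_lit 265) (nat_lit 203)))) (XT.nd (nat_lit 78) (nat_lit 76) (nat_lit 0) (XT.lf (nat_lit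 0) (nat_lit 47596502060) (nat_lit 152) (nat_lit 22957147860) (nat_lit 0) (nat_lit 9898229080) (nat_lit 8) (nat_lit 5) (nat_lit 10) (nat_lit 4) (nat_lit 8) (nat_lit 4) (nat_lit 313) (nat_lit 265) (nat_lit 202)) (XT.nd (nat_lit 78) (nat_lit 0) (nat_lit 0) (XT.lf (nat_lit 0) (nat_lit 1877593095) (nat_lit 76) (nat_lit 60998135406) (nat_lit 76) (nat_lit 23277797154) (nat_lit 7) (nat_lit 4) (nat_lit 8) (nat_lit 5) (nat_lit 8) (nat_lit 4) (nat_lit 314) (nat_lit 265) (nat_lit 201)) (XT.lf (nat_lit 0) (nat_lit 29488616103) (nat_lit 76) (nat_lit 50272146684) (nat_lit 76) (nat_lit 12531377625) (nat_lit 7) (nat_lit 4) (nat_lit 8) (nat_lit 5) (nat_lit 8) (nat_lit 4) (nat_lit 315) (nat_lit 265) (nat_lit 200))))))))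
noncomputable def xc59 : XT := (XT.nd (nat_lit 1638) (nat_lit 76) (nat_lit 0) (XT.nd (nat_lit 780) (nat_lit 152) (nat_lit 0) (XT.nd (nat_lit 390) (nat_lit 76) (nat_lit 0) (XT.nd (nat_lit 156) (nat_lit 76) (nat_lit 0) (XT.nd (nat_lit 78) (nat_lit 76) (nat_lit 0) (XT.lf (nat_lit 0) (nat_lit 59280475054) (nat_lit 76) (nat_lit 38700912746) (nat_lit 76) (nat_lit 941226273) (nat_lit 7) (nat_lit 4) (nat_lit 8) (nat_lit 5) (nat_lit 8) (nat_lit 4) (nat_lit 316) (nat_lit 265) (nat_lit 199)) (XT.lf (nat_lit 0) (nat_lit 11191304219) (nat_lit 152) (nat_lit 14835028945) (nat_lit 76) (nat_lit 80048879926) (nat_lit 6) (nat_lit 5) (nat_lit 8) (nat_lit 5) (nat_lit 7) (nat_lit 4) (nat_lit 317) (nat_lit 265) (nat_lit 198))) (XT.nd (nat_lit 78) (nat_lit 0) (nat_lit 0) (XT.lf (nat_lit 0) (nat_lit 12310294619) (nat_lit 76) (nat_lit 12130542380) (nat_lit 152) (nat_lit 89349450193) (nat_lit 5) (nat_lit 5) (nat_lit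 6) (nat_lit 5) (nat_lit 7) (nat_lit 4) (nat_lit 318) (nat_lit 265) (nat_lit 197)) (XT.nd (nat_lit 78) (nat_lit 0) (nat_lit 0) (XT.lf (nat_lit 0) (nat_lit 39045087205) (nat_lit 152) (nat_lit 80025698619) (nat_lit 0) (nat_lit 3037050554) (nat_lit 5) (nat_lit 5) (nat_lit 7) (nat_lit 4) (nat_lit 5) (nat_lit 4) (nat_lit 319) (nat_lit 265) (nat_lit 196)) (XT.lf (nat_lit 0) (nat_lit 55010354955) (nat_lit 152) (nat_lit 57081731479) (nat_lit 0) (nat_lit 18989075577) (nat_lit 5) (nat_lit 5) (nat_lit 7) (nat_lit 4) (nat_lit 5) (nat_lit 4) (nat_lit 320) (nat_lit 265) (nat_lit 195))))) (XT.nd (nat_lit 156) (nat_lit 76) (nat_lit 0) (XT.nd (nat_lit 78) (nat_lit 0) (nat_lit 0) (XT.lf (nat_lit 0) (nat_lit 72241857480) (nat_lit 152) (nat_lit 32322735142) (nat_lit 0) (nat_lit 36208316318) (nat_lit 5) (nat_lit 5) (nat_lit 7) (nat_lit 4) (nat_lit 5) (nat_lit 4) (nat_lit 321) (nat_lit 265) (nat_lit 194)) (XT.lf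 (nat_lit 0) (nat_lit 90841707390) (nat_lit 152) (nat_lit 5601989628) (nat_lit 0) (nat_lit 54796812723) (nat_lit 5) (nat_lit 5) (nat_lit 7) (nat_lit 4) (nat_lit 5) (nat_lit 4) (nat_lit 322) (nat_lit 265) (nat_lit 193))) (XT.nd (nat_lit 78) (nat_lit 0) (nat_lit 0) (XT.lf (nat_lit 0) (nat_lit 24007231558) (nat_lit 76) (nat_lit 87287714622) (nat_lit 76) (nat_lit 51232307451) (nat_lit 4) (nat_lit 4) (nat_lit 5) (nat_lit 5) (nat_lit 5) (nat_lit 4) (nat_lit 323) (nat_lit 265) (nat_lit 192)) (XT.nd (nat_lit 78) (nat_lit 0) (nat_lit 0) (XT.lf (nat_lit 0) (nat_lit 56168433742) (nat_lit 76) (nat_lit 77304609499) (nat_lit 76) (nat_lit 41239468528) (nat_lit 4) (nat_lit 4) (nat_lit 5) (nat_lit 5) (nat_lit 5) (nat_lit 4) (nat_lit 324) (nat_lit 265) (nat_lit 191)) (XT.lf (nat_lit 0) (nat_lit 90886974750) (nat_lit 76) (nat_lit 66530094913) (nat_lit 76) (nat_lit 30455941163) (nat_lit 4) (nat_lit 4) (nat_lit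 5) (nat_lit 5) (nat_lit 5) (nat_lit 4) (nat_lit 325) (nat_lit 265) (nat_lit 190)))))) (XT.nd (nat_lit 390) (nat_lit 0) (nat_lit 0) (XT.nd (nat_lit 156) (nat_lit 152) (nat_lit 0) (XT.nd (nat_lit 78) (nat_lit 0) (nat_lit 0) (XT.lf (nat_lit 0) (nat_lit 128368594084) (nat_lit 76) (nat_lit 54900321887) (nat_lit 76) (nat_lit 18817822973) (nat_lit 4) (nat_lit 4) (nat_lit 5) (nat_lit 5) (nat_lit 5) (nat_lit 4) (nat_lit 326) (nat_lit 265) (nat_lit 189)) (XT.lf (nat_lit 0) (nat_lit 168835405043) (nat_lit 76) (nat_lit 42346373249) (nat_lit 76) (nat_lit 6256147331) (nat_lit 4) (nat_lit 4) (nat_lit 5) (nat_lit 5) (nat_lit 5) (nat_lit 4) (nat_lit 327) (nat_lit 265) (nat_lit 188))) (XT.nd (nat_lit 78) (nat_lit 76) (nat_lit 0) (XT.lf (nat_lit 0) (nat_lit 7069766901) (nat_lit 152) (nat_lit 21604358404) (nat_lit 76) (nat_lit 205337714127) (nat_lit 3) (nat_lit 5) (nat_lit 5) (nat_lit 5) (nat_lit 4) (nat_lit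 4) (nat_lit 328) (nat_lit 265) (nat_lit 187)) (XT.nd (nat_lit 78) (nat_lit 0) (nat_lit 0) (XT.lf (nat_lit 0) (nat_lit 7682407962) (nat_lit 76) (nat_lit 13676817976) (nat_lit 152) (nat_lit 230541482631) (nat_lit 2) (nat_lit 5) (nat_lit 3) (nat_lit 5) (nat_lit 4) (nat_lit 4) (nat_lit 329) (nat_lit 265) (nat_lit 186)) (XT.lf (nat_lit 0) (nat_lit 37207681410) (nat_lit 152) (nat_lit 231175143972) (nat_lit 0) (nat_lit 2817072688) (nat_lit 2) (nat_lit 5) (nat_lit 4) (nat_lit 4) (nat_lit 2) (nat_lit 4) (nat_lit 330) (nat_lit 265) (nat_lit 185))))) (XT.nd (nat_lit 234) (nat_lit 0) (nat_lit 0) (XT.nd (nat_lit 78) (nat_lit 0) (nat_lit 0) (XT.lf (nat_lit 0) (nat_lit 54549062580) (nat_lit 152) (nat_lit 217329665561) (nat_lit 0) (nat_lit 20153044736) (nat_lit 2) (nat_lit 5) (nat_lit 4) (nat_lit 4) (nat_lit 2) (nat_lit 4) (nat_lit 331) (nat_lit 265) (nat_lit 184)) (XT.nd (nat_lit 78) (nat_lit 0) (nat_lit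 0) (XT.lf (nat_lit 0) (nat_lit 73272599732) (nat_lit 152) (nat_lit 202386284639) (nat_lit 0) (nat_lit 38871573440) (nat_lit 2) (nat_lit 5) (nat_lit 4) (nat_lit 4) (nat_lit 2) (nat_lit 4) (nat_lit 332) (nat_lit 265) (nat_lit 183)) (XT.lf (nat_lit 0) (nat_lit 93489247158) (nat_lit 152) (nat_lit 186256447836) (nat_lit 0) (nat_lit 59083583416) (nat_lit 2) (nat_lit 5) (nat_lit 4) (nat_lit 4) (nat_lit 2) (nat_lit 4) (nat_lit 333) (nat_lit 265) (nat_lit 182)))) (XT.nd (nat_lit 78) (nat_lit 0) (nat_lit 0) (XT.lf (nat_lit 0) (nat_lit 115318807215) (nat_lit 152) (nat_lit 168844570934) (nat_lit 0) (nat_lit 80908849537) (nat_lit 2) (nat_lit 5) (nat_lit 4) (nat_lit 4) (nat_lit 2) (nat_lit 4) (nat_lit 334) (nat_lit 265) (nat_lit 181)) (XT.nd (nat_lit 78) (nat_lit 0) (nat_lit 0) (XT.lf (nat_lit 0) (nat_lit 138890640258) (nat_lit 152) (nat_lit 150047472442) (nat_lit 0) (nat_lit 104476706713) (nat_lit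 2) (nat_lit 5) (nat_lit 4) (nat_lit 4) (nat_lit 2) (nat_lit 4) (nat_lit 335) (nat_lit 265) (nat_lit 180)) (XT.lf (nat_lit 0) (nat_lit 164344431224) (nat_lit 152) (nat_lit 129753762145) (nat_lit 0) (nat_lit 129926816321) (nat_lit 2) (nat_lit 5) (nat_lit 4) (nat_lit 4) (nat_lit 2) (nat_lit 4) (nat_lit 336) (nat_lit 265) (nat_lit 179))))))) (XT.nd (nat_lit 858) (nat_lit 0) (nat_lit 0) (XT.nd (nat_lit 390) (nat_lit 76) (nat_lit 0) (XT.nd (nat_lit 156) (nat_lit 0) (nat_lit 0) (XT.nd (nat_lit 78) (nat_lit 0) (nat_lit 0) (XT.lf (nat_lit 0) (nat_lit 191831017392) (nat_lit 152) (nat_lit 107843181019) (nat_lit 0) (nat_lit 157409993824) (nat_lit 2) (nat_lit 5) (nat_lit 4) (nat_lit 4) (nat_lit 2) (nat_lit 4) (nat_lit 337) (nat_lit 265) (nat_lit 178)) (XT.lf (nat_lit 0) (nat_lit 221513282237) (nat_lit 152) (nat_lit 84185888584) (nat_lit 0) (nat_lit 187089102498) (nat_lit 2) (nat_lit 5) (nat_lit 4)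 (nat_lit 4) (nat_lit 2) (nat_lit 4) (nat_lit 338) (nat_lit 265) (nat_lit 177))) (XT.nd (nat_lit 78) (nat_lit 0) (nat_lit 0) (XT.lf (nat_lit 0) (nat_lit 253567120661) (nat_lit 152) (nat_lit 58641693478) (nat_lit 0) (nat_lit 219140018541) (nat_lit 2) (nat_lit 5) (nat_lit 4) (nat_lit 4) (nat_lit 2) (nat_lit 4) (nat_lit 339) (nat_lit 265) (nat_lit 176)) (XT.nd (nat_lit 78) (nat_lit 0) (nat_lit 0) (XT.lf (nat_lit 0) (nat_lit 288182481336) (nat_lit 152) (nat_lit 31059222691) (nat_lit 0) (nat_lit 253752673308) (nat_lit 2) (nat_lit 5) (nat_lit 4) (nat_lit 4) (nat_lit 2) (nat_lit 4) (nat_lit 340) (nat_lit 265) (nat_lit 175)) (XT.lf (nat_lit 0) (nat_lit 325564492325) (nat_lit 152) (nat_lit 1275024546) (nat_lit 0) (nat_lit 291132178827) (nat_lit 2) (nat_lit 5) (nat_lit 4) (nat_lit 4) (nat_lit 2) (nat_lit 4) (nat_lit 341) (nat_lit 265) (nat_lit 174))))) (XT.nd (nat_lit 234) (nat_lit 0) (nat_lit 0)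 (XT.nd (nat_lit 78) (nat_lit 0) (nat_lit 0) (XT.lf (nat_lit 0) (nat_lit 31908676840) (nat_lit 76) (nat_lit 334524183685) (nat_lit 76) (nat_lit 300089550307) (nat_lit 1) (nat_lit 4) (nat_lit 2) (nat_lit 5) (nat_lit 2) (nat_lit 4) (nat_lit 342) (nat_lit 265) (nat_lit 173)) (XT.nd (nat_lit 78) (nat_lit 0) (nat_lit 0) (XT.lf (nat_lit 0) (nat_lit 67788291493) (nat_lit 76) (nat_lit 342802338766) (nat_lit 76) (nat_lit 308365557351) (nat_lit 1) (nat_lit 4) (nat_lit 2) (nat_lit 5) (nat_lit 2) (nat_lit 4) (nat_lit 343) (nat_lit 265) (nat_lit 172)) (XT.lf (nat_lit 0) (nat_lit 106534281279) (nat_lit 76) (nat_lit 351744631006) (nat_lit 76) (nat_lit 317305860668) (nat_lit 1) (nat_lit 4) (nat_lit 2) (nat_lit 5) (nat_lit 2) (nat_lit 4) (nat_lit 344) (nat_lit 265) (nat_lit 171)))) (XT.nd (nat_lit 78) (nat_lit 0) (nat_lit 0) (XT.lf (nat_lit 0) (nat_lit 148376252063) (nat_lit 76) (nat_lit 361404051767) (nat_lit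 76) (nat_lit 326963439833) (nat_lit 1) (nat_lit 4) (nat_lit 2) (nat_lit 5) (nat_lit 2) (nat_lit 4) (nat_lit 345) (nat_lit 265) (nat_lit 170)) (XT.nd (nat_lit 78) (nat_lit 0) (nat_lit 0) (XT.lf (nat_lit 0) (nat_lit 193562156266) (nat_lit 76) (nat_lit 371837842061) (nat_lit 76) (nat_lit 337395524946) (nat_lit 1) (nat_lit 4) (nat_lit 2) (nat_lit 5) (nat_lit 2) (nat_lit 4) (nat_lit 346) (nat_lit 265) (nat_lit 169)) (XT.lf (nat_lit 0) (nat_lit 242359762208) (nat_lit 76) (nat_lit 383107831755) (nat_lit 76) (nat_lit 348663935769) (nat_lit 1) (nat_lit 4) (nat_lit 2) (nat_lit 5) (nat_lit 2) (nat_lit 4) (nat_lit 347) (nat_lit 265) (nat_lit 168)))))) (XT.nd (nat_lit 34554) (nat_lit 0) (nat_lit 5928) (XT.nd (nat_lit 34320) (nat_lit 0) (nat_lit 7676) (XT.nd (nat_lit 34242) (nat_lit 0) (nat_lit 8208) (XT.lf (nat_lit 0) (nat_lit 295058240888) (nat_lit 76) (nat_lit 395280805975) (nat_lit 76) (nat_lit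 360835448071) (nat_lit 1) (nat_lit 4) (nat_lit 2) (nat_lit 5) (nat_lit 2) (nat_lit 4) (nat_lit 348) (nat_lit 265) (nat_lit 167)) (XT.lf (nat_lit 0) (nat_lit 3474279512) (nat_lit 532) (nat_lit 138532717) (nat_lit 532) (nat_lit 138532717) (nat_lit 109) (nat_lit 3) (nat_lit 116) (nat_lit 3) (nat_lit 116) (nat_lit 5) (nat_lit 266) (nat_lit 266) (nat_lit 248))) (XT.nd (nat_lit 78) (nat_lit 0) (nat_lit 0) (XT.lf (nat_lit 0) (nat_lit 1640979897) (nat_lit 532) (nat_lit 2385559078) (nat_lit 608) (nat_lit 3660959392) (nat_lit 102) (nat_lit 5) (nat_lit 109) (nat_lit 3) (nat_lit 110) (nat_lit 5) (nat_lit 267) (nat_lit 266) (nat_lit 247)) (XT.nd (nat_lit 78) (nat_lit 0) (nat_lit 76) (XT.lf (nat_lit 76) (nat_lit 3430164461) (nat_lit 0) (nat_lit 407522133) (nat_lit 608) (nat_lit 4057261687) (nat_lit 103) (nat_lit 5) (nat_lit 102) (nat_lit 5) (nat_lit 110) (nat_lit 5) (nat_lit 268) (nat_lit 266) (nat_lit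 246)) (XT.lf (nat_lit 76) (nat_lit 1546485834) (nat_lit 0) (nat_lit 4586681303) (nat_lit 608) (nat_lit 1990213173) (nat_lit 104) (nat_lit 5) (nat_lit 103) (nat_lit 5) (nat_lit 111) (nat_lit 5) (nat_lit 269) (nat_lit 266) (nat_lit 245))))) (XT.nd (nat_lit 234) (nat_lit 1216) (nat_lit 0) (XT.nd (nat_lit 78) (nat_lit 0) (nat_lit 76) (XT.lf (nat_lit 0) (nat_lit 131613277) (nat_lit 608) (nat_lit 308312035) (nat_lit 684) (nat_lit 7935588635) (nat_lit 95) (nat_lit 5) (nat_lit 103) (nat_lit 5) (nat_lit 104) (nat_lit 5) (nat_lit 270) (nat_lit 266) (nat_lit 244)) (XT.nd (nat_lit 78) (nat_lit 0) (nat_lit 76) (XT.lf (nat_lit 0) (nat_lit 2347529139) (nat_lit 608) (nat_lit 2198336510) (nat_lit 684) (nat_lit 4101057044) (nat_lit 96) (nat_lit 5) (nat_lit 104) (nat_lit 5) (nat_lit 105) (nat_lit 5) (nat_lit 271) (nat_lit 266) (nat_lit 243)) (XT.lf (nat_lit 0) (nat_lit 4669106507) (nat_lit 608) (nat_lit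 4105158002) (nat_lit 76) (nat_lit 169766952) (nat_lit 97) (nat_lit 5) (nat_lit 105) (nat_lit 5) (nat_lit 98) (nat_lit 5) (nat_lit 272) (nat_lit 266) (nat_lit 242)))) (XT.nd (nat_lit 78) (nat_lit 760) (nat_lit 0) (XT.lf (nat_lit 0) (nat_lit 3151982037) (nat_lit 608) (nat_lit 4037162352) (nat_lit 684) (nat_lit 2075504429) (nat_lit 89) (nat_lit 5) (nat_lit 97) (nat_lit 5) (nat_lit 98) (nat_lit 5) (nat_lit 273) (nat_lit 266) (nat_lit 241)) (XT.nd (nat_lit 78) (nat_lit 0) (nat_lit 0) (XT.lf (nat_lit 0) (nat_lit 258928861) (nat_lit 760) (nat_lit 8188858241) (nat_lit 76) (nat_lit 1164793634) (nat_lit 79) (nat_lit 5) (nat_lit 89) (nat_lit 5) (nat_lit 80) (nat_lit 5) (nat_lit 274) (nat_lit 266) (nat_lit 240)) (XT.lf (nat_lit 0) (nat_lit 2748461928) (nat_lit 760) (nat_lit 434291462) (nat_lit 76) (nat_lit 6802147054) (nat_lit 79) (nat_lit 5) (nat_lit 89) (nat_lit 5) (nat_lit 80) (nat_lit 5) (nat_lit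 275) (nat_lit 266) (nat_lit 239))))))))
noncomputable def xc60 : XT := (XT.nd (nat_lit 1638) (nat_lit 1140) (nat_lit 0) (XT.nd (nat_lit 780) (nat_lit 1520) (nat_lit 0) (XT.nd (nat_lit 390) (nat_lit 1064) (nat_lit 0) (XT.nd (nat_lit 156) (nat_lit 912) (nat_lit 0) (XT.nd (nat_lit 78) (nat_lit 380) (nat_lit 0) (XT.lf (nat_lit 0) (nat_lit 5478481396) (nat_lit 532) (nat_lit 2347574969) (nat_lit 76) (nat_lit 2559167901) (nat_lit 73) (nat_lit 5) (nat_lit 80) (nat_lit 5) (nat_lit 74) (nat_lit 5) (nat_lit 276) (nat_lit 266) (nat_lit 238)) (XT.lf (nat_lit 0) (nat_lit 6417851302) (nat_lit 380) (nat_lit 2052147647) (nat_lit 456) (nat_lit 2345683853) (nat_lit 68) (nat_lit 5) (nat_lit 73) (nat_lit 5) (nat_lit 74) (nat_lit 5) (nat_lit 277) (nat_lit 266) (nat_lit 237))) (XT.nd (nat_lit 78) (nat_lit 532) (nat_lit 0) (XT.lf (nat_lit 0) (nat_lit 475700000) (nat_lit 380) (nat_lit 6632368759) (nat_lit 76)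 (nat_lit 4168969121) (nat_lit 63) (nat_lit 5) (nat_lit 68) (nat_lit 5) (nat_lit 64) (nat_lit 5) (nat_lit 278) (nat_lit 266) (nat_lit 236)) (XT.nd (nat_lit 78) (nat_lit 228) (nat_lit 0) (XT.lf (nat_lit 0) (nat_lit 2688224301) (nat_lit 304) (nat_lit 800939394) (nat_lit 380) (nat_lit 8282002713) (nat_lit 59) (nat_lit 5) (nat_lit 63) (nat_lit 5) (nat_lit 64) (nat_lit 5) (nat_lit 279) (nat_lit 266) (nat_lit 235)) (XT.lf (nat_lit 0) (nat_lit 493883514) (nat_lit 228) (nat_lit 6367775312) (nat_lit 304) (nat_lit 5437467992) (nat_lit 56) (nat_lit 5) (nat_lit 59) (nat_lit 5) (nat_lit 60) (nat_lit 5) (nat_lit 280) (nat_lit 266) (nat_lit 234))))) (XT.nd (nat_lit 156) (nat_lit 684) (nat_lit 0) (XT.nd (nat_lit 78) (nat_lit 380) (nat_lit 0) (XT.lf (nat_lit 0) (nat_lit 10587233012) (nat_lit 304) (nat_lit 1838825574) (nat_lit 76) (nat_lit 439286055) (nat_lit 56) (nat_lit 5) (nat_lit 60) (nat_lit 5) (nat_lit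 57) (nat_lit 5) (nat_lit 281) (nat_lit 266) (nat_lit 233)) (XT.lf (nat_lit 0) (nat_lit 1259461566) (nat_lit 380) (nat_lit 4493134678) (nat_lit 76) (nat_lit 7715452989) (nat_lit 51) (nat_lit 5) (nat_lit 56) (nat_lit 5) (nat_lit 52) (nat_lit 5) (nat_lit 282) (nat_lit 266) (nat_lit 232))) (XT.nd (nat_lit 78) (nat_lit 456) (nat_lit 0) (XT.lf (nat_lit 0) (nat_lit 5078097718) (nat_lit 304) (nat_lit 7470734750) (nat_lit 76) (nat_lit 1564527557) (nat_lit 48) (nat_lit 5) (nat_lit 52) (nat_lit 5) (nat_lit 49) (nat_lit 5) (nat_lit 283) (nat_lit 266) (nat_lit 231)) (XT.nd (nat_lit 78) (nat_lit 228) (nat_lit 0) (XT.lf (nat_lit 0) (nat_lit 3944700125) (nat_lit 228) (nat_lit 5414902802) (nat_lit 304) (nat_lit 5442963372) (nat_lit 45) (nat_lit 5) (nat_lit 48) (nat_lit 5) (nat_lit 49) (nat_lit 5) (nat_lit 284) (nat_lit 266) (nat_lit 230)) (XT.lf (nat_lit 0) (nat_lit 884676700) (nat_lit 228) (nat_lit 13204013627)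 (nat_lit 304) (nat_lit 1453094850) (nat_lit 42) (nat_lit 5) (nat_lit 45) (nat_lit 5) (nat_lit 46) (nat_lit 5) (nat_lit 285) (nat_lit 266) (nat_lit 229)))))) (XT.nd (nat_lit 390) (nat_lit 760) (nat_lit 0) (XT.nd (nat_lit 156) (nat_lit 456) (nat_lit 0) (XT.nd (nat_lit 78) (nat_lit 228) (nat_lit 0) (XT.lf (nat_lit 0) (nat_lit 2974132824) (nat_lit 304) (nat_lit 2618801592) (nat_lit 76) (nat_lit 10734612679) (nat_lit 41) (nat_lit 5) (nat_lit 45) (nat_lit 5) (nat_lit 42) (nat_lit 5) (nat_lit 286) (nat_lit 266) (nat_lit 228)) (XT.lf (nat_lit 0) (nat_lit 7846048446) (nat_lit 304) (nat_lit 6612328444) (nat_lit 76) (nat_lit 2709636548) (nat_lit 38) (nat_lit 5) (nat_lit 42) (nat_lit 5) (nat_lit 39) (nat_lit 5) (nat_lit 287) (nat_lit 266) (nat_lit 227))) (XT.nd (nat_lit 78) (nat_lit 304) (nat_lit 0) (XT.lf (nat_lit 0) (nat_lit 6833295948) (nat_lit 152) (nat_lit 6456519091) (nat_lit 228) (nat_lit 4776894835)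 (nat_lit 36) (nat_lit 5) (nat_lit 38) (nat_lit 5) (nat_lit 39) (nat_lit 5) (nat_lit 288) (nat_lit 266) (nat_lit 226)) (XT.nd (nat_lit 78) (nat_lit 0) (nat_lit 0) (XT.lf (nat_lit 0) (nat_lit 257673731) (nat_lit 304) (nat_lit 16524850804) (nat_lit 76) (nat_lit 2248255217) (nat_lit 32) (nat_lit 5) (nat_lit 36) (nat_lit 5) (nat_lit 33) (nat_lit 5) (nat_lit 289) (nat_lit 266) (nat_lit 225)) (XT.lf (nat_lit 0) (nat_lit 5777527339) (nat_lit 304) (nat_lit 2600465422) (nat_lit 76) (nat_lit 11677652788) (nat_lit 32) (nat_lit 5) (nat_lit 36) (nat_lit 5) (nat_lit 33) (nat_lit 5) (nat_lit 290) (nat_lit 266) (nat_lit 224))))) (XT.nd (nat_lit 234) (nat_lit 228) (nat_lit 0) (XT.nd (nat_lit 78) (nat_lit 380) (nat_lit 0) (XT.lf (nat_lit 0) (nat_lit 11896285294) (nat_lit 228) (nat_lit 8407248074) (nat_lit 76) (nat_lit 851175283) (nat_lit 30) (nat_lit 5) (nat_lit 33) (nat_lit 5) (nat_lit 31) (nat_lit 5) (nat_lit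 291) (nat_lit 266) (nat_lit 223)) (XT.nd (nat_lit 78) (nat_lit 228) (nat_lit 0) (XT.lf (nat_lit 0) (nat_lit 7078128019) (nat_lit 152) (nat_lit 11670998203) (nat_lit 228) (nat_lit 3580409836) (nat_lit 28) (nat_lit 5) (nat_lit 30) (nat_lit 5) (nat_lit 31) (nat_lit 5) (nat_lit 292) (nat_lit 266) (nat_lit 222)) (XT.lf (nat_lit 0) (nat_lit 400909417) (nat_lit 152) (nat_lit 2172946326) (nat_lit 228) (nat_lit 21017377840) (nat_lit 25) (nat_lit 5) (nat_lit 27) (nat_lit 5) (nat_lit 28) (nat_lit 5) (nat_lit 293) (nat_lit 266) (nat_lit 221)))) (XT.nd (nat_lit 78) (nat_lit 228) (nat_lit 0) (XT.lf (nat_lit 0) (nat_lit 9443675993) (nat_lit 228) (nat_lit 7361229100) (nat_lit 76) (nat_lit 8128650205) (nat_lit 25) (nat_lit 5) (nat_lit 28) (nat_lit 5) (nat_lit 26) (nat_lit 5) (nat_lit 294) (nat_lit 266) (nat_lit 220)) (XT.nd (nat_lit 78) (nat_lit 76) (nat_lit 0) (XT.lf (nat_lit 0) (nat_lit 9941938788) (nat_lit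 152) (nat_lit 7067377484) (nat_lit 228) (nat_lit 9366686449) (nat_lit 23) (nat_lit 5) (nat_lit 25) (nat_lit 5) (nat_lit 26) (nat_lit 5) (nat_lit 295) (nat_lit 266) (nat_lit 219)) (XT.lf (nat_lit 0) (nat_lit 864095395) (nat_lit 76) (nat_lit 24470008975) (nat_lit 152) (nat_lit 2592094603) (nat_lit 22) (nat_lit 5) (nat_lit 23) (nat_lit 5) (nat_lit 24) (nat_lit 4) (nat_lit 296) (nat_lit 266) (nat_lit 218))))))) (XT.nd (nat_lit 780) (nat_lit 380) (nat_lit 0) (XT.nd (nat_lit 390) (nat_lit 228) (nat_lit 0) (XT.nd (nat_lit 156) (nat_lit 304) (nat_lit 0) (XT.nd (nat_lit 78) (nat_lit 152) (nat_lit 0) (XT.lf (nat_lit 0) (nat_lit 4941045884) (nat_lit 152) (nat_lit 9721455162) (nat_lit 76) (nat_lit 14915874297) (nat_lit 21) (nat_lit 5) (nat_lit 23) (nat_lit 5) (nat_lit 22) (nat_lit 5) (nat_lit 297) (nat_lit 266) (nat_lit 217)) (XT.lf (nat_lit 0) (nat_lit 9191462260) (nat_lit 152) (nat_lit 3900076800)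 (nat_lit 228) (nat_lit 18263825384) (nat_lit 19) (nat_lit 5) (nat_lit 21) (nat_lit 5) (nat_lit 22) (nat_lit 5) (nat_lit 298) (nat_lit 266) (nat_lit 216))) (XT.nd (nat_lit 78) (nat_lit 304) (nat_lit 0) (XT.lf (nat_lit 0) (nat_lit 22149100212) (nat_lit 228) (nat_lit 3488960811) (nat_lit 76) (nat_lit 7623736411) (nat_lit 19) (nat_lit 5) (nat_lit 22) (nat_lit 5) (nat_lit 20) (nat_lit 4) (nat_lit 299) (nat_lit 266) (nat_lit 215)) (XT.nd (nat_lit 78) (nat_lit 228) (nat_lit 0) (XT.lf (nat_lit 0) (nat_lit 17102221703) (nat_lit 76) (nat_lit 15126939053) (nat_lit 152) (nat_lit 3076723088) (nat_lit 18) (nat_lit 5) (nat_lit 19) (nat_lit 5) (nat_lit 20) (nat_lit 4) (nat_lit 300) (nat_lit 266) (nat_lit 214)) (XT.lf (nat_lit 0) (nat_lit 1868228549) (nat_lit 152) (nat_lit 3611778971) (nat_lit 228) (nat_lit 32026286865) (nat_lit 15) (nat_lit 5) (nat_lit 17) (nat_lit 5) (nat_lit 18) (nat_lit 5) (nat_lit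 301) (nat_lit 266) (nat_lit 213))))) (XT.nd (nat_lit 156) (nat_lit 152) (nat_lit 0) (XT.nd (nat_lit 78) (nat_lit 76) (nat_lit 0) (XT.lf (nat_lit 0) (nat_lit 15042508582) (nat_lit 228) (nat_lit 15922506964) (nat_lit 76) (nat_lit 8893776406) (nat_lit 15) (nat_lit 5) (nat_lit 18) (nat_lit 5) (nat_lit 16) (nat_lit 4) (nat_lit 302) (nat_lit 266) (nat_lit 212)) (XT.lf (nat_lit 0) (nat_lit 5430724290) (nat_lit 76) (nat_lit 20054895191) (nat_lit 152) (nat_lit 16908114687) (nat_lit 14) (nat_lit 5) (nat_lit 15) (nat_lit 5) (nat_lit 16) (nat_lit 4) (nat_lit 303) (nat_lit 266) (nat_lit 211))) (XT.nd (nat_lit 78) (nat_lit 152) (nat_lit 0) (XT.lf (nat_lit 0) (nat_lit 29010594478) (nat_lit 76) (nat_lit 8002308605) (nat_lit 152) (nat_lit 8106155943) (nat_lit 14) (nat_lit 5) (nat_lit 15) (nat_lit 5) (nat_lit 16) (nat_lit 4) (nat_lit 304) (nat_lit 266) (nat_lit 210)) (XT.nd (nat_lit 78) (nat_lit 0) (nat_lit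 0) (XT.lf (nat_lit 0) (nat_lit 1510530535) (nat_lit 152) (nat_lit 41582589286) (nat_lit 76) (nat_lit 4960448946) (nat_lit 12) (nat_lit 5) (nat_lit 14) (nat_lit 5) (nat_lit 13) (nat_lit 4) (nat_lit 305) (nat_lit 266) (nat_lit 209)) (XT.lf (nat_lit 0) (nat_lit 12010493588) (nat_lit 152) (nat_lit 20099357165) (nat_lit 76) (nat_lit 19086466202) (nat_lit 12) (nat_lit 5) (nat_lit 14) (nat_lit 5) (nat_lit 13) (nat_lit 4) (nat_lit 306) (nat_lit 266) (nat_lit 208)))))) (XT.nd (nat_lit 390) (nat_lit 152) (nat_lit 0) (XT.nd (nat_lit 156) (nat_lit 152) (nat_lit 0) (XT.nd (nat_lit 78) (nat_lit 0) (nat_lit 0) (XT.lf (nat_lit 0) (nat_lit 3160794220) (nat_lit 76) (nat_lit 20214945814) (nat_lit 152) (nat_lit 31213498377) (nat_lit 11) (nat_lit 5) (nat_lit 12) (nat_lit 5) (nat_lit 13) (nat_lit 4) (nat_lit 307) (nat_lit 266) (nat_lit 207)) (XT.lf (nat_lit 0) (nat_lit 28958459394) (nat_lit 76) (nat_lit 7018943793)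 (nat_lit 152) (nat_lit 22259846969) (nat_lit 11) (nat_lit 5) (nat_lit 12) (nat_lit 5) (nat_lit 13) (nat_lit 4) (nat_lit 308) (nat_lit 266) (nat_lit 206))) (XT.nd (nat_lit 78) (nat_lit 152) (nat_lit 0) (XT.lf (nat_lit 0) (nat_lit 49678637768) (nat_lit 152) (nat_lit 5508902687) (nat_lit 0) (nat_lit 6985005669) (nat_lit 11) (nat_lit 5) (nat_lit 13) (nat_lit 4) (nat_lit 11) (nat_lit 4) (nat_lit 309) (nat_lit 266) (nat_lit 205)) (XT.nd (nat_lit 78) (nat_lit 76) (nat_lit 0) (XT.lf (nat_lit 0) (nat_lit 20669849307) (nat_lit 76) (nat_lit 44227294833) (nat_lit 76) (nat_lit 1504477053) (nat_lit 10) (nat_lit 4) (nat_lit 11) (nat_lit 5) (nat_lit 11) (nat_lit 4) (nat_lit 310) (nat_lit 266) (nat_lit 204)) (XT.lf (nat_lit 0) (nat_lit 10110647239) (nat_lit 152) (nat_lit 22023014719) (nat_lit 76) (nat_lit 38823369353) (nat_lit 9) (nat_lit 5) (nat_lit 11) (nat_lit 5) (nat_lit 10) (nat_lit 4) (nat_lit 311)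 (nat_lit 266) (nat_lit 203))))) (XT.nd (nat_lit 234) (nat_lit 76) (nat_lit 0) (XT.nd (nat_lit 78) (nat_lit 0) (nat_lit 0) (XT.lf (nat_lit 0) (nat_lit 3641182787) (nat_lit 76) (nat_lit 19000791049) (nat_lit 152) (nat_lit 53231693621) (nat_lit 8) (nat_lit 5) (nat_lit 9) (nat_lit 5) (nat_lit 10) (nat_lit 4) (nat_lit 312) (nat_lit 266) (nat_lit 202)) (XT.nd (nat_lit 78) (nat_lit 0) (nat_lit 0) (XT.lf (nat_lit 0) (nat_lit 32113927732) (nat_lit 76) (nat_lit 4428491704) (nat_lit 152) (nat_lit 44622895056) (nat_lit 8) (nat_lit 5) (nat_lit 9) (nat_lit 5) (nat_lit 10) (nat_lit 4) (nat_lit 313) (nat_lit 266) (nat_lit 201)) (XT.lf (nat_lit 0) (nat_lit 51715519033) (nat_lit 152) (nat_lit 24221695552) (nat_lit 0) (nat_lit 10935057643) (nat_lit 8) (nat_lit 5) (nat_lit 10) (nat_lit 4) (nat_lit 8) (nat_lit 4) (nat_lit 314) (nat_lit 266) (nat_lit 200)))) (XT.nd (nat_lit 78) (nat_lit 0) (nat_lit 0) (XT.lf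 (nat_lit 0) (nat_lit 2574965207) (nat_lit 76) (nat_lit 65627602133) (nat_lit 76) (nat_lit 24828223329) (nat_lit 7) (nat_lit 4) (nat_lit 8) (nat_lit 5) (nat_lit 8) (nat_lit 4) (nat_lit 315) (nat_lit 266) (nat_lit 199)) (XT.nd (nat_lit 78) (nat_lit 0) (nat_lit 0) (XT.lf (nat_lit 0) (nat_lit 32354339340) (nat_lit 76) (nat_lit 54062081284) (nat_lit 76) (nat_lit 13245186356) (nat_lit 7) (nat_lit 4) (nat_lit 8) (nat_lit 5) (nat_lit 8) (nat_lit 4) (nat_lit 316) (nat_lit 266) (nat_lit 198)) (XT.lf (nat_lit 0) (nat_lit 64492018567) (nat_lit 76) (nat_lit 41582321752) (nat_lit 76) (nat_lit 749208191) (nat_lit 7) (nat_lit 4) (nat_lit 8) (nat_lit 5) (nat_lit 8) (nat_lit 4) (nat_lit 317) (nat_lit 266) (nat_lit 197))))))))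
noncomputable def xc61 : XT := (XT.nd (nat_lit 1638) (nat_lit 76) (nat_lit 0) (XT.nd (nat_lit 780) (nat_lit 152) (nat_lit 0) (XT.nd (nat_lit 390) (nat_lit 76) (nat_lit 0) (XT.nd (nat_lit 156) (nat_lit 0) (nat_lit 0) (XT.nd (nat_lit 78) (nat_lit 76) (nat_lit 0) (XT.lf (nat_lit 0) (nat_lit 12326201518) (nat_lit 152) (nat_lit 15579417702) (nat_lit 76) (nat_lit 86643496689) (nat_lit 6) (nat_lit 5) (nat_lit 8) (nat_lit 5) (nat_lit 7) (nat_lit 4) (nat_lit 318) (nat_lit 266) (nat_lit 196)) (XT.lf (nat_lit 0) (nat_lit 13718304993) (nat_lit 76) (nat_lit 12906251431) (nat_lit 152) (nat_lit 96257406507) (nat_lit 5) (nat_lit 5) (nat_lit 6) (nat_lit 5) (nat_lit 7) (nat_lit 4) (nat_lit 319) (nat_lit 266) (nat_lit 195))) (XT.nd (nat_lit 78) (nat_lit 0) (nat_lit 0) (XT.lf (nat_lit 0) (nat_lit 42383039380) (nat_lit 152) (nat_lit 86028038128) (nat_lit 0) (nat_lit 3454553139) (nat_lit 5) (nat_lit 5) (nat_lit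 7) (nat_lit 4) (nat_lit 5) (nat_lit 4) (nat_lit 320) (nat_lit 266) (nat_lit 194)) (XT.nd (nat_lit 78) (nat_lit 0) (nat_lit 0) (XT.lf (nat_lit 0) (nat_lit 59609651127) (nat_lit 152) (nat_lit 61278162238) (nat_lit 0) (nat_lit 20669811383) (nat_lit 5) (nat_lit 5) (nat_lit 7) (nat_lit 4) (nat_lit 5) (nat_lit 4) (nat_lit 321) (nat_lit 266) (nat_lit 193)) (XT.lf (nat_lit 0) (nat_lit 78204972539) (nat_lit 152) (nat_lit 34565861583) (nat_lit 0) (nat_lit 39254620290) (nat_lit 5) (nat_lit 5) (nat_lit 7) (nat_lit 4) (nat_lit 5) (nat_lit 4) (nat_lit 322) (nat_lit 266) (nat_lit 192))))) (XT.nd (nat_lit 156) (nat_lit 0) (nat_lit 0) (XT.nd (nat_lit 78) (nat_lit 76) (nat_lit 0) (XT.lf (nat_lit 0) (nat_lit 98279198111) (nat_lit 152) (nat_lit 5732841048) (nat_lit 0) (nat_lit 59319112061) (nat_lit 5) (nat_lit 5) (nat_lit 7) (nat_lit 4) (nat_lit 5) (nat_lit 4) (nat_lit 323) (nat_lit 266) (nat_lit 191)) (XT.lf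 (nat_lit 0) (nat_lit 26231328024) (nat_lit 76) (nat_lit 94129502736) (nat_lit 76) (nat_lit 55160403909) (nat_lit 4) (nat_lit 4) (nat_lit 5) (nat_lit 5) (nat_lit 5) (nat_lit 4) (nat_lit 324) (nat_lit 266) (nat_lit 190))) (XT.nd (nat_lit 78) (nat_lit 0) (nat_lit 0) (XT.lf (nat_lit 0) (nat_lit 60942943573) (nat_lit 76) (nat_lit 83358210614) (nat_lit 76) (nat_lit 44380766622) (nat_lit 4) (nat_lit 4) (nat_lit 5) (nat_lit 5) (nat_lit 5) (nat_lit 4) (nat_lit 325) (nat_lit 266) (nat_lit 189)) (XT.nd (nat_lit 78) (nat_lit 0) (nat_lit 0) (XT.lf (nat_lit 0) (nat_lit 98418150445) (nat_lit 76) (nat_lit 71731421353) (nat_lit 76) (nat_lit 32746250357) (nat_lit 4) (nat_lit 4) (nat_lit 5) (nat_lit 5) (nat_lit 5) (nat_lit 4) (nat_lit 326) (nat_lit 266) (nat_lit 188)) (XT.lf (nat_lit 0) (nat_lit 138879023939) (nat_lit 76) (nat_lit 59180235459) (nat_lit 76) (nat_lit 20187909830) (nat_lit 4) (nat_lit 4) (nat_lit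 5) (nat_lit 5) (nat_lit 5) (nat_lit 4) (nat_lit 327) (nat_lit 266) (nat_lit 187)))))) (XT.nd (nat_lit 390) (nat_lit 0) (nat_lit 0) (XT.nd (nat_lit 156) (nat_lit 76) (nat_lit 0) (XT.nd (nat_lit 78) (nat_lit 76) (nat_lit 0) (XT.lf (nat_lit 0) (nat_lit 182565332194) (nat_lit 76) (nat_lit 45630275536) (nat_lit 76) (nat_lit 6631325246) (nat_lit 4) (nat_lit 4) (nat_lit 5) (nat_lit 5) (nat_lit 5) (nat_lit 4) (nat_lit 328) (nat_lit 266) (nat_lit 186)) (XT.lf (nat_lit 0) (nat_lit 7747665887) (nat_lit 152) (nat_lit 23122369166) (nat_lit 76) (nat_lit 221857080681) (nat_lit 3) (nat_lit 5) (nat_lit 5) (nat_lit 5) (nat_lit 4) (nat_lit 4) (nat_lit 329) (nat_lit 266) (nat_lit 185))) (XT.nd (nat_lit 78) (nat_lit 0) (nat_lit 0) (XT.lf (nat_lit 0) (nat_lit 8498197480) (nat_lit 76) (nat_lit 14676905590) (nat_lit 152) (nat_lit 248872254333) (nat_lit 2) (nat_lit 5) (nat_lit 3) (nat_lit 5) (nat_lit 4) (nat_lit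 4) (nat_lit 330) (nat_lit 266) (nat_lit 184)) (XT.nd (nat_lit 78) (nat_lit 0) (nat_lit 0) (XT.lf (nat_lit 0) (nat_lit 40284858481) (nat_lit 152) (nat_lit 249479214539) (nat_lit 0) (nat_lit 3126741640) (nat_lit 2) (nat_lit 5) (nat_lit 4) (nat_lit 4) (nat_lit 2) (nat_lit 4) (nat_lit 331) (nat_lit 266) (nat_lit 183)) (XT.lf (nat_lit 0) (nat_lit 59006101067) (nat_lit 152) (nat_lit 234540167555) (nat_lit 0) (nat_lit 21843346774) (nat_lit 2) (nat_lit 5) (nat_lit 4) (nat_lit 4) (nat_lit 2) (nat_lit 4) (nat_lit 332) (nat_lit 266) (nat_lit 182))))) (XT.nd (nat_lit 234) (nat_lit 0) (nat_lit 0) (XT.nd (nat_lit 78) (nat_lit 0) (nat_lit 0) (XT.lf (nat_lit 0) (nat_lit 79220623895) (nat_lit 152) (nat_lit 218414343659) (nat_lit 0) (nat_lit 42053575667) (nat_lit 2) (nat_lit 5) (nat_lit 4) (nat_lit 4) (nat_lit 2) (nat_lit 4) (nat_lit 333) (nat_lit 266) (nat_lit 181)) (XT.nd (nat_lit 78) (nat_lit 0) (nat_lit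 0) (XT.lf (nat_lit 0) (nat_lit 101048216732) (nat_lit 152) (nat_lit 201006182412) (nat_lit 0) (nat_lit 63877192636) (nat_lit 2) (nat_lit 5) (nat_lit 4) (nat_lit 4) (nat_lit 2) (nat_lit 4) (nat_lit 334) (nat_lit 266) (nat_lit 180)) (XT.lf (nat_lit 0) (nat_lit 124618228275) (nat_lit 152) (nat_lit 182212524340) (nat_lit 0) (nat_lit 87443522821) (nat_lit 2) (nat_lit 5) (nat_lit 4) (nat_lit 4) (nat_lit 2) (nat_lit 4) (nat_lit 335) (nat_lit 266) (nat_lit 179)))) (XT.nd (nat_lit 78) (nat_lit 0) (nat_lit 0) (XT.lf (nat_lit 0) (nat_lit 150070332666) (nat_lit 152) (nat_lit 161921999618) (nat_lit 0) (nat_lit 112892218548) (nat_lit 2) (nat_lit 5) (nat_lit 4) (nat_lit 4) (nat_lit 2) (nat_lit 4) (nat_lit 336) (nat_lit 266) (nat_lit 178)) (XT.nd (nat_lit 78) (nat_lit 0) (nat_lit 0) (XT.lf (nat_lit 0) (nat_lit 177555357192) (nat_lit 152) (nat_lit 140014368098) (nat_lit 0) (nat_lit 140374086902) (nat_lit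 2) (nat_lit 5) (nat_lit 4) (nat_lit 4) (nat_lit 2) (nat_lit 4) (nat_lit 337) (nat_lit 266) (nat_lit 177)) (XT.lf (nat_lit 0) (nat_lit 207236176071) (nat_lit 152) (nat_lit 116359806780) (nat_lit 0) (nat_lit 170051983401) (nat_lit 2) (nat_lit 5) (nat_lit 4) (nat_lit 4) (nat_lit 2) (nat_lit 4) (nat_lit 338) (nat_lit 266) (nat_lit 176))))))) (XT.nd (nat_lit 35100) (nat_lit 0) (nat_lit 5092) (XT.nd (nat_lit 390) (nat_lit 0) (nat_lit 0) (XT.nd (nat_lit 156) (nat_lit 76) (nat_lit 0) (XT.nd (nat_lit 78) (nat_lit 0) (nat_lit 0) (XT.lf (nat_lit 0) (nat_lit 239288675637) (nat_lit 152) (nat_lit 90818140486) (nat_lit 0) (nat_lit 202101777059) (nat_lit 2) (nat_lit 5) (nat_lit 4) (nat_lit 4) (nat_lit 2) (nat_lit 4) (nat_lit 339) (nat_lit 266) (nat_lit 175)) (XT.lf (nat_lit 0) (nat_lit 273902796630) (nat_lit 152) (nat_lit 63238011192) (nat_lit 0) (nat_lit 236713392581) (nat_lit 2) (nat_lit 5) (nat_lit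 4) (nat_lit 4) (nat_lit 2) (nat_lit 4) (nat_lit 340) (nat_lit 266) (nat_lit 174))) (XT.nd (nat_lit 78) (nat_lit 76) (nat_lit 0) (XT.lf (nat_lit 0) (nat_lit 311283659765) (nat_lit 152) (nat_lit 33455981095) (nat_lit 0) (nat_lit 274091935836) (nat_lit 2) (nat_lit 5) (nat_lit 4) (nat_lit 4) (nat_lit 2) (nat_lit 4) (nat_lit 341) (nat_lit 266) (nat_lit 173)) (XT.nd (nat_lit 78) (nat_lit 76) (nat_lit 0) (XT.lf (nat_lit 0) (nat_lit 351652781268) (nat_lit 152) (nat_lit 1295564092) (nat_lit 0) (nat_lit 314458909303) (nat_lit 2) (nat_lit 5) (nat_lit 4) (nat_lit 4) (nat_lit 2) (nat_lit 4) (nat_lit 342) (nat_lit 266) (nat_lit 172)) (XT.lf (nat_lit 0) (nat_lit 34539293148) (nat_lit 76) (nat_lit 361249347578) (nat_lit 76) (nat_lit 324053486689) (nat_lit 1) (nat_lit 4) (nat_lit 2) (nat_lit 5) (nat_lit 2) (nat_lit 4) (nat_lit 343) (nat_lit 266) (nat_lit 171))))) (XT.nd (nat_lit 234) (nat_lit 0) (nat_lit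 0) (XT.nd (nat_lit 78) (nat_lit 0) (nat_lit 0) (XT.lf (nat_lit 0) (nat_lit 73283504961) (nat_lit 76) (nat_lit 370192478829) (nat_lit 76) (nat_lit 332994776344) (nat_lit 1) (nat_lit 4) (nat_lit 2) (nat_lit 5) (nat_lit 2) (nat_lit 4) (nat_lit 344) (nat_lit 266) (nat_lit 170)) (XT.nd (nat_lit 78) (nat_lit 0) (nat_lit 0) (XT.lf (nat_lit 0) (nat_lit 115123829474) (nat_lit 76) (nat_lit 379852676451) (nat_lit 76) (nat_lit 342653268785) (nat_lit 1) (nat_lit 4) (nat_lit 2) (nat_lit 5) (nat_lit 2) (nat_lit 4) (nat_lit 345) (nat_lit 266) (nat_lit 169)) (XT.lf (nat_lit 0) (nat_lit 160308209352) (nat_lit 76) (nat_lit 390287186061) (nat_lit 76) (nat_lit 353086199524) (nat_lit 1) (nat_lit 4) (nat_lit 2) (nat_lit 5) (nat_lit 2) (nat_lit 4) (nat_lit 346) (nat_lit 266) (nat_lit 168)))) (XT.nd (nat_lit 78) (nat_lit 0) (nat_lit 0) (XT.lf (nat_lit 0) (nat_lit 209104403882) (nat_lit 76) (nat_lit 401557841789)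 (nat_lit 76) (nat_lit 364355393334) (nat_lit 1) (nat_lit 4) (nat_lit 2) (nat_lit 5) (nat_lit 2) (nat_lit 4) (nat_lit 347) (nat_lit 266) (nat_lit 167)) (XT.nd (nat_lit 34320) (nat_lit 0) (nat_lit 7676) (XT.lf (nat_lit 0) (nat_lit 261801575698) (nat_lit 76) (nat_lit 413731432706) (nat_lit 76) (nat_lit 376527630623) (nat_lit 1) (nat_lit 4) (nat_lit 2) (nat_lit 5) (nat_lit 2) (nat_lit 4) (nat_lit 348) (nat_lit 266) (nat_lit 166)) (XT.lf (nat_lit 0) (nat_lit 901423454) (nat_lit 0) (nat_lit 901423454) (nat_lit 532) (nat_lit 2138546423) (nat_lit 102) (nat_lit 5) (nat_lit 102) (nat_lit 3) (nat_lit 109) (nat_lit 3) (nat_lit 267) (nat_lit 267) (nat_lit 246)))))) (XT.nd (nat_lit 390) (nat_lit 2052) (nat_lit 0) (XT.nd (nat_lit 156) (nat_lit 532) (nat_lit 0) (XT.nd (nat_lit 78) (nat_lit 0) (nat_lit 0) (XT.lf (nat_lit 0) (nat_lit 5625738458) (nat_lit 532) (nat_lit 399500149) (nat_lit 608) (nat_lit 2074089719)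 (nat_lit 102) (nat_lit 5) (nat_lit 109) (nat_lit 3) (nat_lit 110) (nat_lit 5) (nat_lit 268) (nat_lit 267) (nat_lit 245)) (XT.lf (nat_lit 76) (nat_lit 5786875694) (nat_lit 0) (nat_lit 1958373531) (nat_lit 608) (nat_lit 591549107) (nat_lit 103) (nat_lit 5) (nat_lit 102) (nat_lit 5) (nat_lit 110) (nat_lit 5) (nat_lit 269) (nat_lit 267) (nat_lit 244))) (XT.nd (nat_lit 78) (nat_lit 0) (nat_lit 0) (XT.lf (nat_lit 0) (nat_lit 1329108427) (nat_lit 608) (nat_lit 4752198237) (nat_lit 684) (nat_lit 2514564787) (nat_lit 95) (nat_lit 5) (nat_lit 103) (nat_lit 5) (nat_lit 104) (nat_lit 5) (nat_lit 270) (nat_lit 267) (nat_lit 243)) (XT.nd (nat_lit 78) (nat_lit 0) (nat_lit 76) (XT.lf (nat_lit 76) (nat_lit 1872595882) (nat_lit 0) (nat_lit 1455952800) (nat_lit 684) (nat_lit 5549750840) (nat_lit 96) (nat_lit 5) (nat_lit 95) (nat_lit 5) (nat_lit 104) (nat_lit 5) (nat_lit 271) (nat_lit 267) (nat_lit 242))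 (XT.lf (nat_lit 0) (nat_lit 5476582788) (nat_lit 608) (nat_lit 152599549) (nat_lit 684) (nat_lit 3555084175) (nat_lit 96) (nat_lit 5) (nat_lit 104) (nat_lit 5) (nat_lit 105) (nat_lit 5) (nat_lit 272) (nat_lit 267) (nat_lit 241))))) (XT.nd (nat_lit 234) (nat_lit 836) (nat_lit 0) (XT.nd (nat_lit 78) (nat_lit 1292) (nat_lit 0) (XT.lf (nat_lit 76) (nat_lit 7354144111) (nat_lit 0) (nat_lit 442092610) (nat_lit 684) (nat_lit 1718833996) (nat_lit 97) (nat_lit 5) (nat_lit 96) (nat_lit 5) (nat_lit 105) (nat_lit 5) (nat_lit 273) (nat_lit 267) (nat_lit 240)) (XT.nd (nat_lit 78) (nat_lit 684) (nat_lit 0) (XT.lf (nat_lit 0) (nat_lit 455830400) (nat_lit 684) (nat_lit 4293388777) (nat_lit 76) (nat_lit 5121070526) (nat_lit 88) (nat_lit 5) (nat_lit 97) (nat_lit 5) (nat_lit 89) (nat_lit 5) (nat_lit 274) (nat_lit 267) (nat_lit 239)) (XT.lf (nat_lit 0) (nat_lit 2740196785) (nat_lit 760) (nat_lit 6536120617)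 (nat_lit 76) (nat_lit 976687230) (nat_lit 79) (nat_lit 5) (nat_lit 89) (nat_lit 5) (nat_lit 80) (nat_lit 5) (nat_lit 275) (nat_lit 267) (nat_lit 238)))) (XT.nd (nat_lit 78) (nat_lit 380) (nat_lit 0) (XT.lf (nat_lit 0) (nat_lit 1723006908) (nat_lit 456) (nat_lit 3550523325) (nat_lit 532) (nat_lit 5389759270) (nat_lit 73) (nat_lit 5) (nat_lit 79) (nat_lit 5) (nat_lit 80) (nat_lit 5) (nat_lit 276) (nat_lit 267) (nat_lit 237)) (XT.nd (nat_lit 78) (nat_lit 380) (nat_lit 0) (XT.lf (nat_lit 0) (nat_lit 8056680151) (nat_lit 532) (nat_lit 377997732) (nat_lit 76) (nat_lit 2669605896) (nat_lit 73) (nat_lit 5) (nat_lit 80) (nat_lit 5) (nat_lit 74) (nat_lit 5) (nat_lit 277) (nat_lit 267) (nat_lit 236)) (XT.lf (nat_lit 0) (nat_lit 8994905395) (nat_lit 380) (nat_lit 2166320089) (nat_lit 456) (nat_lit 414620969) (nat_lit 68) (nat_lit 5) (nat_lit 73) (nat_lit 5) (nat_lit 74) (nat_lit 5) (nat_lit 278) (nat_lit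 267) (nat_lit 235))))))))
noncomputable def xc62 : XT := (XT.nd (nat_lit 1638) (nat_lit 1064) (nat_lit 0) (XT.nd (nat_lit 780) (nat_lit 1444) (nat_lit 0) (XT.nd (nat_lit 390) (nat_lit 988) (nat_lit 0) (XT.nd (nat_lit 156) (nat_lit 608) (nat_lit 0) (XT.nd (nat_lit 78) (nat_lit 304) (nat_lit 0) (XT.lf (nat_lit 0) (nat_lit 2446384487) (nat_lit 380) (nat_lit 5021447796) (nat_lit 76) (nat_lit 4610848627) (nat_lit 63) (nat_lit 5) (nat_lit 68) (nat_lit 5) (nat_lit 64) (nat_lit 5) (nat_lit 279) (nat_lit 267) (nat_lit 234)) (XT.lf (nat_lit 0) (nat_lit 4951725274) (nat_lit 304) (nat_lit 638024275) (nat_lit 380) (nat_lit 7028437002) (nat_lit 59) (nat_lit 5) (nat_lit 63) (nat_lit 5) (nat_lit 64) (nat_lit 5) (nat_lit 280) (nat_lit 267) (nat_lit 233))) (XT.nd (nat_lit 78) (nat_lit 380) (nat_lit 0) (XT.lf (nat_lit 0) (nat_lit 2579983238) (nat_lit 228) (nat_lit 6552373056) (nat_lit 304) (nat_lit 4061278606)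 (nat_lit 56) (nat_lit 5) (nat_lit 59) (nat_lit 5) (nat_lit 60) (nat_lit 5) (nat_lit 281) (nat_lit 267) (nat_lit 232)) (XT.nd (nat_lit 78) (nat_lit 380) (nat_lit 0) (XT.lf (nat_lit 0) (nat_lit 13033134040) (nat_lit 304) (nat_lit 12839314) (nat_lit 76) (nat_lit 765565862) (nat_lit 56) (nat_lit 5) (nat_lit 60) (nat_lit 5) (nat_lit 57) (nat_lit 5) (nat_lit 282) (nat_lit 267) (nat_lit 231)) (XT.lf (nat_lit 0) (nat_lit 2897688938) (nat_lit 380) (nat_lit 2911683504) (nat_lit 76) (nat_lit 8656525094) (nat_lit 51) (nat_lit 5) (nat_lit 56) (nat_lit 5) (nat_lit 52) (nat_lit 5) (nat_lit 283) (nat_lit 267) (nat_lit 230))))) (XT.nd (nat_lit 156) (nat_lit 532) (nat_lit 0) (XT.nd (nat_lit 78) (nat_lit 228) (nat_lit 0) (XT.lf (nat_lit 0) (nat_lit 6943222580) (nat_lit 304) (nat_lit 6142999159) (nat_lit 76) (nat_lit 2080742760) (nat_lit 48) (nat_lit 5) (nat_lit 52) (nat_lit 5) (nat_lit 49) (nat_lit 5) (nat_lit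 284) (nat_lit 267) (nat_lit 229)) (XT.lf (nat_lit 0) (nat_lit 6101995212) (nat_lit 228) (nat_lit 5385942423) (nat_lit 304) (nat_lit 4427521871) (nat_lit 45) (nat_lit 5) (nat_lit 48) (nat_lit 5) (nat_lit 49) (nat_lit 5) (nat_lit 285) (nat_lit 267) (nat_lit 228))) (XT.nd (nat_lit 78) (nat_lit 304) (nat_lit 0) (XT.lf (nat_lit 0) (nat_lit 2778442086) (nat_lit 228) (nat_lit 13749862850) (nat_lit 304) (nat_lit 189036185) (nat_lit 42) (nat_lit 5) (nat_lit 45) (nat_lit 5) (nat_lit 46) (nat_lit 5) (nat_lit 286) (nat_lit 267) (nat_lit 227)) (XT.nd (nat_lit 78) (nat_lit 228) (nat_lit 0) (XT.lf (nat_lit 0) (nat_lit 4449218852) (nat_lit 304) (nat_lit 1097539357) (nat_lit 76) (nat_lit 12023229328) (nat_lit 41) (nat_lit 5) (nat_lit 45) (nat_lit 5) (nat_lit 42) (nat_lit 5) (nat_lit 287) (nat_lit 267) (nat_lit 226)) (XT.lf (nat_lit 0) (nat_lit 9652653869) (nat_lit 304) (nat_lit 5432992369) (nat_lit 76)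 (nat_lit 3395097793) (nat_lit 38) (nat_lit 5) (nat_lit 42) (nat_lit 5) (nat_lit 39) (nat_lit 5) (nat_lit 288) (nat_lit 267) (nat_lit 225)))))) (XT.nd (nat_lit 390) (nat_lit 684) (nat_lit 0) (XT.nd (nat_lit 156) (nat_lit 304) (nat_lit 0) (XT.nd (nat_lit 78) (nat_lit 304) (nat_lit 0) (XT.lf (nat_lit 0) (nat_lit 9014040367) (nat_lit 152) (nat_lit 6456066480) (nat_lit 228) (nat_lit 3984450778) (nat_lit 36) (nat_lit 5) (nat_lit 38) (nat_lit 5) (nat_lit 39) (nat_lit 5) (nat_lit 289) (nat_lit 267) (nat_lit 224)) (XT.lf (nat_lit 0) (nat_lit 1364216624) (nat_lit 304) (nat_lit 16199156913) (nat_lit 76) (nat_lit 2934131485) (nat_lit 32) (nat_lit 5) (nat_lit 36) (nat_lit 5) (nat_lit 33) (nat_lit 5) (nat_lit 290) (nat_lit 267) (nat_lit 223))) (XT.nd (nat_lit 78) (nat_lit 304) (nat_lit 0) (XT.lf (nat_lit 0) (nat_lit 7245219336) (nat_lit 304) (nat_lit 1282871216) (nat_lit 76) (nat_lit 13080398206) (nat_lit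 32) (nat_lit 5) (nat_lit 36) (nat_lit 5) (nat_lit 33) (nat_lit 5) (nat_lit 291) (nat_lit 267) (nat_lit 222)) (XT.nd (nat_lit 78) (nat_lit 152) (nat_lit 0) (XT.lf (nat_lit 0) (nat_lit 13809674256) (nat_lit 228) (nat_lit 7579466600) (nat_lit 76) (nat_lit 1408625047) (nat_lit 30) (nat_lit 5) (nat_lit 33) (nat_lit 5) (nat_lit 31) (nat_lit 5) (nat_lit 292) (nat_lit 267) (nat_lit 221)) (XT.lf (nat_lit 0) (nat_lit 9079535707) (nat_lit 152) (nat_lit 12082377572) (nat_lit 228) (nat_lit 2907199175) (nat_lit 28) (nat_lit 5) (nat_lit 30) (nat_lit 5) (nat_lit 31) (nat_lit 5) (nat_lit 293) (nat_lit 267) (nat_lit 220))))) (XT.nd (nat_lit 234) (nat_lit 304) (nat_lit 0) (XT.nd (nat_lit 78) (nat_lit 152) (nat_lit 0) (XT.lf (nat_lit 0) (nat_lit 1836191036) (nat_lit 152) (nat_lit 1825600509) (nat_lit 228) (nat_lit 21771630855) (nat_lit 25) (nat_lit 5) (nat_lit 27) (nat_lit 5) (nat_lit 28) (nat_lit 5) (nat_lit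 294) (nat_lit 267) (nat_lit 219)) (XT.nd (nat_lit 78) (nat_lit 152) (nat_lit 0) (XT.lf (nat_lit 0) (nat_lit 11023396411) (nat_lit 228) (nat_lit 6616625918) (nat_lit 76) (nat_lit 9246072277) (nat_lit 25) (nat_lit 5) (nat_lit 28) (nat_lit 5) (nat_lit 26) (nat_lit 5) (nat_lit 295) (nat_lit 267) (nat_lit 218)) (XT.lf (nat_lit 0) (nat_lit 12012843051) (nat_lit 152) (nat_lit 7140305957) (nat_lit 228) (nat_lit 9292914932) (nat_lit 23) (nat_lit 5) (nat_lit 25) (nat_lit 5) (nat_lit 26) (nat_lit 5) (nat_lit 296) (nat_lit 267) (nat_lit 217)))) (XT.nd (nat_lit 78) (nat_lit 228) (nat_lit 0) (XT.lf (nat_lit 0) (nat_lit 2184263632) (nat_lit 76) (nat_lit 25928301468) (nat_lit 152) (nat_lit 2009342590) (nat_lit 22) (nat_lit 5) (nat_lit 23) (nat_lit 5) (nat_lit 24) (nat_lit 4) (nat_lit 297) (nat_lit 267) (nat_lit 216)) (XT.nd (nat_lit 78) (nat_lit 152) (nat_lit 0) (XT.lf (nat_lit 0) (nat_lit 6044506240)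 (nat_lit 152) (nat_lit 9316679145) (nat_lit 76) (nat_lit 16547345171) (nat_lit 21) (nat_lit 5) (nat_lit 23) (nat_lit 5) (nat_lit 22) (nat_lit 5) (nat_lit 298) (nat_lit 267) (nat_lit 215)) (XT.lf (nat_lit 0) (nat_lit 11057881991) (nat_lit 152) (nat_lit 3754359031) (nat_lit 228) (nat_lit 19017229951) (nat_lit 19) (nat_lit 5) (nat_lit 21) (nat_lit 5) (nat_lit 22) (nat_lit 5) (nat_lit 299) (nat_lit 267) (nat_lit 214))))))) (XT.nd (nat_lit 780) (nat_lit 456) (nat_lit 0) (XT.nd (nat_lit 390) (nat_lit 228) (nat_lit 0) (XT.nd (nat_lit 156) (nat_lit 304) (nat_lit 0) (XT.nd (nat_lit 78) (nat_lit 76) (nat_lit 0) (XT.lf (nat_lit 0) (nat_lit 24551144146) (nat_lit 228) (nat_lit 2695597098) (nat_lit 76) (nat_lit 8643888926) (nat_lit 19) (nat_lit 5) (nat_lit 22) (nat_lit 5) (nat_lit 20) (nat_lit 4) (nat_lit 300) (nat_lit 267) (nat_lit 213)) (XT.lf (nat_lit 0) (nat_lit 19496271319) (nat_lit 76) (nat_lit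 15910679697) (nat_lit 152) (nat_lit 2692870237) (nat_lit 18) (nat_lit 5) (nat_lit 19) (nat_lit 5) (nat_lit 20) (nat_lit 4) (nat_lit 301) (nat_lit 267) (nat_lit 212))) (XT.nd (nat_lit 78) (nat_lit 76) (nat_lit 0) (XT.lf (nat_lit 0) (nat_lit 3018773467) (nat_lit 152) (nat_lit 3479919109) (nat_lit 228) (nat_lit 33978596930) (nat_lit 15) (nat_lit 5) (nat_lit 17) (nat_lit 5) (nat_lit 18) (nat_lit 5) (nat_lit 302) (nat_lit 267) (nat_lit 211)) (XT.nd (nat_lit 78) (nat_lit 76) (nat_lit 0) (XT.lf (nat_lit 0) (nat_lit 16789292931) (nat_lit 228) (nat_lit 16248136075) (nat_lit 76) (nat_lit 9982439521) (nat_lit 15) (nat_lit 5) (nat_lit 18) (nat_lit 5) (nat_lit 16) (nat_lit 4) (nat_lit 303) (nat_lit 267) (nat_lit 210)) (XT.lf (nat_lit 0) (nat_lit 6772147304) (nat_lit 76) (nat_lit 21269615024) (nat_lit 152) (nat_lit 17717182208) (nat_lit 14) (nat_lit 5) (nat_lit 15) (nat_lit 5) (nat_lit 16) (nat_lit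 4) (nat_lit 304) (nat_lit 267) (nat_lit 209))))) (XT.nd (nat_lit 156) (nat_lit 76) (nat_lit 0) (XT.nd (nat_lit 78) (nat_lit 152) (nat_lit 0) (XT.lf (nat_lit 0) (nat_lit 32171224509) (nat_lit 76) (nat_lit 8281686087) (nat_lit 152) (nat_lit 8251332072) (nat_lit 14) (nat_lit 5) (nat_lit 15) (nat_lit 5) (nat_lit 16) (nat_lit 4) (nat_lit 305) (nat_lit 267) (nat_lit 208)) (XT.lf (nat_lit 0) (nat_lit 2100823211) (nat_lit 152) (nat_lit 44072146928) (nat_lit 76) (nat_lit 5701065659) (nat_lit 12) (nat_lit 5) (nat_lit 14) (nat_lit 5) (nat_lit 13) (nat_lit 4) (nat_lit 306) (nat_lit 267) (nat_lit 207))) (XT.nd (nat_lit 78) (nat_lit 76) (nat_lit 0) (XT.lf (nat_lit 0) (nat_lit 13406009217) (nat_lit 152) (nat_lit 20932259904) (nat_lit 76) (nat_lit 20931699051) (nat_lit 12) (nat_lit 5) (nat_lit 14) (nat_lit 5) (nat_lit 13) (nat_lit 4) (nat_lit 307) (nat_lit 267) (nat_lit 206)) (XT.nd (nat_lit 78) (nat_lit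 0) (nat_lit 0) (XT.lf (nat_lit 0) (nat_lit 4155021045) (nat_lit 76) (nat_lit 21504830861) (nat_lit 152) (nat_lit 33275526343) (nat_lit 11) (nat_lit 5) (nat_lit 12) (nat_lit 5) (nat_lit 13) (nat_lit 4) (nat_lit 308) (nat_lit 267) (nat_lit 205)) (XT.lf (nat_lit 0) (nat_lit 31961583633) (nat_lit 76) (nat_lit 7277393908) (nat_lit 152) (nat_lit 23637808889) (nat_lit 11) (nat_lit 5) (nat_lit 12) (nat_lit 5) (nat_lit 13) (nat_lit 4) (nat_lit 309) (nat_lit 267) (nat_lit 204)))))) (XT.nd (nat_lit 390) (nat_lit 228) (nat_lit 0) (XT.nd (nat_lit 156) (nat_lit 152) (nat_lit 0) (XT.nd (nat_lit 78) (nat_lit 76) (nat_lit 0) (XT.lf (nat_lit 0) (nat_lit 54012293419) (nat_lit 152) (nat_lit 5300393118) (nat_lit 0) (nat_lit 7815440755) (nat_lit 11) (nat_lit 5) (nat_lit 13) (nat_lit 4) (nat_lit 11) (nat_lit 4) (nat_lit 310) (nat_lit 267) (nat_lit 203)) (XT.lf (nat_lit 0) (nat_lit 22944444648) (nat_lit 76) (nat_lit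 47486911718) (nat_lit 76) (nat_lit 1265037036) (nat_lit 10) (nat_lit 4) (nat_lit 11) (nat_lit 5) (nat_lit 11) (nat_lit 4) (nat_lit 311) (nat_lit 267) (nat_lit 202))) (XT.nd (nat_lit 78) (nat_lit 76) (nat_lit 0) (XT.lf (nat_lit 0) (nat_lit 11241982715) (nat_lit 152) (nat_lit 23198978650) (nat_lit 76) (nat_lit 42176300635) (nat_lit 9) (nat_lit 5) (nat_lit 11) (nat_lit 5) (nat_lit 10) (nat_lit 4) (nat_lit 312) (nat_lit 267) (nat_lit 201)) (XT.nd (nat_lit 78) (nat_lit 0) (nat_lit 0) (XT.lf (nat_lit 0) (nat_lit 4492893145) (nat_lit 76) (nat_lit 20267784274) (nat_lit 152) (nat_lit 57167323900) (nat_lit 8) (nat_lit 5) (nat_lit 9) (nat_lit 5) (nat_lit 10) (nat_lit 4) (nat_lit 313) (nat_lit 267) (nat_lit 200)) (XT.lf (nat_lit 0) (nat_lit 35201945409) (nat_lit 76) (nat_lit 4548446911) (nat_lit 152) (nat_lit 47893740355) (nat_lit 8) (nat_lit 5) (nat_lit 9) (nat_lit 5) (nat_lit 10) (nat_lit 4) (nat_lit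 314) (nat_lit 267) (nat_lit 199))))) (XT.nd (nat_lit 234) (nat_lit 152) (nat_lit 0) (XT.nd (nat_lit 78) (nat_lit 76) (nat_lit 0) (XT.lf (nat_lit 0) (nat_lit 56119647395) (nat_lit 152) (nat_lit 25669012697) (nat_lit 0) (nat_lit 12019884748) (nat_lit 8) (nat_lit 5) (nat_lit 10) (nat_lit 4) (nat_lit 8) (nat_lit 4) (nat_lit 315) (nat_lit 267) (nat_lit 198)) (XT.nd (nat_lit 78) (nat_lit 0) (nat_lit 0) (XT.lf (nat_lit 0) (nat_lit 3250067932) (nat_lit 76) (nat_lit 70663146290) (nat_lit 76) (nat_lit 26547165011) (nat_lit 7) (nat_lit 4) (nat_lit 8) (nat_lit 5) (nat_lit 8) (nat_lit 4) (nat_lit 316) (nat_lit 267) (nat_lit 197)) (XT.lf (nat_lit 0) (nat_lit 35377043439) (nat_lit 76) (nat_lit 58188284811) (nat_lit 76) (nat_lit 14057286278) (nat_lit 7) (nat_lit 4) (nat_lit 8) (nat_lit 5) (nat_lit 8) (nat_lit 4) (nat_lit 317) (nat_lit 267) (nat_lit 196)))) (XT.nd (nat_lit 78) (nat_lit 152) (nat_lit 0)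 (XT.lf (nat_lit 0) (nat_lit 70053562415) (nat_lit 76) (nat_lit 44724867700) (nat_lit 76) (nat_lit 579964303) (nat_lit 7) (nat_lit 4) (nat_lit 8) (nat_lit 5) (nat_lit 8) (nat_lit 4) (nat_lit 318) (nat_lit 267) (nat_lit 195)) (XT.nd (nat_lit 78) (nat_lit 76) (nat_lit 0) (XT.lf (nat_lit 0) (nat_lit 13517709985) (nat_lit 152) (nat_lit 16446472800) (nat_lit 76) (nat_lit 93738476398) (nat_lit 6) (nat_lit 5) (nat_lit 8) (nat_lit 5) (nat_lit 7) (nat_lit 4) (nat_lit 319) (nat_lit 267) (nat_lit 194)) (XT.lf (nat_lit 0) (nat_lit 15178583868) (nat_lit 76) (nat_lit 13771798238) (nat_lit 152) (nat_lit 103752237967) (nat_lit 5) (nat_lit 5) (nat_lit 6) (nat_lit 5) (nat_lit 7) (nat_lit 4) (nat_lit 320) (nat_lit 267) (nat_lit 193))))))))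
noncomputable def xc63 : XT := (XT.nd (nat_lit 1638) (nat_lit 76) (nat_lit 0) (XT.nd (nat_lit 780) (nat_lit 76) (nat_lit 0) (XT.nd (nat_lit 390) (nat_lit 76) (nat_lit 0) (XT.nd (nat_lit 156) (nat_lit 76) (nat_lit 0) (XT.nd (nat_lit 78) (nat_lit 0) (nat_lit 0) (XT.lf (nat_lit 0) (nat_lit 45957448990) (nat_lit 152) (nat_lit 92567588808) (nat_lit 0) (nat_lit 3880556057) (nat_lit 5) (nat_lit 5) (nat_lit 7) (nat_lit 4) (nat_lit 5) (nat_lit 4) (nat_lit 321) (nat_lit 267) (nat_lit 192)) (XT.lf (nat_lit 0) (nat_lit 64548577347) (nat_lit 152) (nat_lit 65863107467) (nat_lit 0) (nat_lit 22461950614) (nat_lit 5) (nat_lit 5) (nat_lit 7) (nat_lit 4) (nat_lit 5) (nat_lit 4) (nat_lit 322) (nat_lit 267) (nat_lit 191))) (XT.nd (nat_lit 78) (nat_lit 76) (nat_lit 0) (XT.lf (nat_lit 0) (nat_lit 84618920462) (nat_lit 152) (nat_lit 37037327037) (nat_lit 0) (nat_lit 42523280951) (nat_lit 5) (nat_lit 5) (nat_lit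 7) (nat_lit 4) (nat_lit 5) (nat_lit 4) (nat_lit 323) (nat_lit 267) (nat_lit 190)) (XT.nd (nat_lit 78) (nat_lit 76) (nat_lit 0) (XT.lf (nat_lit 0) (nat_lit 106287413700) (nat_lit 152) (nat_lit 5919428079) (nat_lit 0) (nat_lit 64183429024) (nat_lit 5) (nat_lit 5) (nat_lit 7) (nat_lit 4) (nat_lit 5) (nat_lit 4) (nat_lit 324) (nat_lit 267) (nat_lit 189)) (XT.lf (nat_lit 0) (nat_lit 28590051981) (nat_lit 76) (nat_lit 101538781802) (nat_lit 76) (nat_lit 59427070122) (nat_lit 4) (nat_lit 4) (nat_lit 5) (nat_lit 5) (nat_lit 5) (nat_lit 4) (nat_lit 325) (nat_lit 267) (nat_lit 188))))) (XT.nd (nat_lit 156) (nat_lit 76) (nat_lit 0) (XT.nd (nat_lit 78) (nat_lit 0) (nat_lit 0) (XT.lf (nat_lit 0) (nat_lit 66059321387) (nat_lit 76) (nat_lit 89914755285) (nat_lit 76) (nat_lit 47795888971) (nat_lit 4) (nat_lit 4) (nat_lit 5) (nat_lit 5) (nat_lit 5) (nat_lit 4) (nat_lit 326) (nat_lit 267) (nat_lit 187))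 (XT.lf (nat_lit 0) (nat_lit 106514697229) (nat_lit 76) (nat_lit 77366127488) (nat_lit 76) (nat_lit 35240636514) (nat_lit 4) (nat_lit 4) (nat_lit 5) (nat_lit 5) (nat_lit 5) (nat_lit 4) (nat_lit 327) (nat_lit 267) (nat_lit 186))) (XT.nd (nat_lit 78) (nat_lit 76) (nat_lit 0) (XT.lf (nat_lit 0) (nat_lit 150195915065) (nat_lit 76) (nat_lit 63818536173) (nat_lit 76) (nat_lit 21686911254) (nat_lit 4) (nat_lit 4) (nat_lit 5) (nat_lit 5) (nat_lit 5) (nat_lit 4) (nat_lit 328) (nat_lit 267) (nat_lit 185)) (XT.nd (nat_lit 78) (nat_lit 76) (nat_lit 0) (XT.lf (nat_lit 0) (nat_lit 197361826558) (nat_lit 76) (nat_lit 49191699317) (nat_lit 76) (nat_lit 7054394818) (nat_lit 4) (nat_lit 4) (nat_lit 5) (nat_lit 5) (nat_lit 5) (nat_lit 4) (nat_lit 329) (nat_lit 267) (nat_lit 184)) (XT.lf (nat_lit 0) (nat_lit 8463773426) (nat_lit 152) (nat_lit 24791827843) (nat_lit 76) (nat_lit 239684821881) (nat_lit 3) (nat_lit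 5) (nat_lit 5) (nat_lit 5) (nat_lit 4) (nat_lit 4) (nat_lit 330) (nat_lit 267) (nat_lit 183)))))) (XT.nd (nat_lit 390) (nat_lit 0) (nat_lit 0) (XT.nd (nat_lit 156) (nat_lit 0) (nat_lit 0) (XT.nd (nat_lit 78) (nat_lit 0) (nat_lit 0) (XT.lf (nat_lit 0) (nat_lit 9350547176) (nat_lit 76) (nat_lit 15770418612) (nat_lit 152) (nat_lit 268685543846) (nat_lit 2) (nat_lit 5) (nat_lit 3) (nat_lit 5) (nat_lit 4) (nat_lit 4) (nat_lit 331) (nat_lit 267) (nat_lit 182)) (XT.lf (nat_lit 0) (nat_lit 43593863345) (nat_lit 152) (nat_lit 269274707951) (nat_lit 0) (nat_lit 3449157322) (nat_lit 2) (nat_lit 5) (nat_lit 4) (nat_lit 4) (nat_lit 2) (nat_lit 4) (nat_lit 332) (nat_lit 267) (nat_lit 181))) (XT.nd (nat_lit 78) (nat_lit 0) (nat_lit 0) (XT.lf (nat_lit 0) (nat_lit 63806418953) (nat_lit 152) (nat_lit 253152599709) (nat_lit 0) (nat_lit 23657737063) (nat_lit 2) (nat_lit 5) (nat_lit 4) (nat_lit 4) (nat_lit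 2) (nat_lit 4) (nat_lit 333) (nat_lit 267) (nat_lit 180)) (XT.nd (nat_lit 78) (nat_lit 0) (nat_lit 0) (XT.lf (nat_lit 0) (nat_lit 85632190289) (nat_lit 152) (nat_lit 235747878883) (nat_lit 0) (nat_lit 45479827042) (nat_lit 2) (nat_lit 5) (nat_lit 4) (nat_lit 4) (nat_lit 2) (nat_lit 4) (nat_lit 334) (nat_lit 267) (nat_lit 179)) (XT.lf (nat_lit 0) (nat_lit 109200515258) (nat_lit 152) (nat_lit 216957406385) (nat_lit 0) (nat_lit 69044743345) (nat_lit 2) (nat_lit 5) (nat_lit 4) (nat_lit 4) (nat_lit 2) (nat_lit 4) (nat_lit 335) (nat_lit 267) (nat_lit 178))))) (XT.nd (nat_lit 234) (nat_lit 0) (nat_lit 0) (XT.nd (nat_lit 78) (nat_lit 0) (nat_lit 0) (XT.lf (nat_lit 0) (nat_lit 134651058006) (nat_lit 152) (nat_lit 196669831269) (nat_lit 0) (nat_lit 94492129923) (nat_lit 2) (nat_lit 5) (nat_lit 4) (nat_lit 4) (nat_lit 2) (nat_lit 4) (nat_lit 336) (nat_lit 267) (nat_lit 177)) (XT.nd (nat_lit 78) (nat_lit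 0) (nat_lit 0) (XT.lf (nat_lit 0) (nat_lit 162134636566) (nat_lit 152) (nat_lit 174764930866) (nat_lit 0) (nat_lit 121972786102) (nat_lit 2) (nat_lit 5) (nat_lit 4) (nat_lit 4) (nat_lit 2) (nat_lit 4) (nat_lit 337) (nat_lit 267) (nat_lit 176)) (XT.lf (nat_lit 0) (nat_lit 191814116588) (nat_lit 152) (nat_lit 151112898360) (nat_lit 0) (nat_lit 151649560216) (nat_lit 2) (nat_lit 5) (nat_lit 4) (nat_lit 4) (nat_lit 2) (nat_lit 4) (nat_lit 338) (nat_lit 267) (nat_lit 175)))) (XT.nd (nat_lit 78) (nat_lit 0) (nat_lit 0) (XT.lf (nat_lit 0) (nat_lit 223865376472) (nat_lit 152) (nat_lit 125573573558) (nat_lit 0) (nat_lit 183698314629) (nat_lit 2) (nat_lit 5) (nat_lit 4) (nat_lit 4) (nat_lit 2) (nat_lit 4) (nat_lit 339) (nat_lit 267) (nat_lit 174)) (XT.nd (nat_lit 78) (nat_lit 0) (nat_lit 0) (XT.lf (nat_lit 0) (nat_lit 258478349611) (nat_lit 152) (nat_lit 97995612313) (nat_lit 0) (nat_lit 218308967888)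 (nat_lit 2) (nat_lit 5) (nat_lit 4) (nat_lit 4) (nat_lit 2) (nat_lit 4) (nat_lit 340) (nat_lit 267) (nat_lit 173)) (XT.lf (nat_lit 0) (nat_lit 295858149918) (nat_lit 152) (nat_lit 68215589669) (nat_lit 0) (nat_lit 255686620158) (nat_lit 2) (nat_lit 5) (nat_lit 4) (nat_lit 4) (nat_lit 2) (nat_lit 4) (nat_lit 341) (nat_lit 267) (nat_lit 172))))))) (XT.nd (nat_lit 35178) (nat_lit 0) (nat_lit 4180) (XT.nd (nat_lit 390) (nat_lit 0) (nat_lit 0) (XT.nd (nat_lit 156) (nat_lit 76) (nat_lit 0) (XT.nd (nat_lit 78) (nat_lit 0) (nat_lit 0) (XT.lf (nat_lit 0) (nat_lit 336226287321) (nat_lit 152) (nat_lit 36057031418) (nat_lit 0) (nat_lit 296052768638) (nat_lit 2) (nat_lit 5) (nat_lit 4) (nat_lit 4) (nat_lit 2) (nat_lit 4) (nat_lit 342) (nat_lit 267) (nat_lit 171)) (XT.lf (nat_lit 0) (nat_lit 379821980414) (nat_lit 152) (nat_lit 1329368326) (nat_lit 0) (nat_lit 339646620135) (nat_lit 2) (nat_lit 5) (nat_lit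 4) (nat_lit 4) (nat_lit 2) (nat_lit 4) (nat_lit 343) (nat_lit 267) (nat_lit 170))) (XT.nd (nat_lit 78) (nat_lit 0) (nat_lit 0) (XT.lf (nat_lit 0) (nat_lit 37369242294) (nat_lit 76) (nat_lit 390117770348) (nat_lit 76) (nat_lit 349940704889) (nat_lit 1) (nat_lit 4) (nat_lit 2) (nat_lit 5) (nat_lit 2) (nat_lit 4) (nat_lit 344) (nat_lit 267) (nat_lit 169)) (XT.nd (nat_lit 78) (nat_lit 0) (nat_lit 0) (XT.lf (nat_lit 0) (nat_lit 79208042482) (nat_lit 76) (nat_lit 399778687287) (nat_lit 76) (nat_lit 359600042956) (nat_lit 1) (nat_lit 4) (nat_lit 2) (nat_lit 5) (nat_lit 2) (nat_lit 4) (nat_lit 345) (nat_lit 267) (nat_lit 168)) (XT.lf (nat_lit 0) (nat_lit 124391010947) (nat_lit 76) (nat_lit 410213862930) (nat_lit 76) (nat_lit 370033756681) (nat_lit 1) (nat_lit 4) (nat_lit 2) (nat_lit 5) (nat_lit 2) (nat_lit 4) (nat_lit 346) (nat_lit 267) (nat_lit 167))))) (XT.nd (nat_lit 34554) (nat_lit 0) (nat_lit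 7068) (XT.nd (nat_lit 78) (nat_lit 0) (nat_lit 0) (XT.lf (nat_lit 0) (nat_lit 173185898613) (nat_lit 76) (nat_lit 421485135356) (nat_lit 76) (nat_lit 381303675479) (nat_lit 1) (nat_lit 4) (nat_lit 2) (nat_lit 5) (nat_lit 2) (nat_lit 4) (nat_lit 347) (nat_lit 267) (nat_lit 166)) (XT.nd (nat_lit 34398) (nat_lit 0) (nat_lit 7676) (XT.lf (nat_lit 0) (nat_lit 225881860371) (nat_lit 76) (nat_lit 433659297289) (nat_lit 76) (nat_lit 393476584053) (nat_lit 1) (nat_lit 4) (nat_lit 2) (nat_lit 5) (nat_lit 2) (nat_lit 4) (nat_lit 348) (nat_lit 267) (nat_lit 165)) (XT.lf (nat_lit 0) (nat_lit 1872564798) (nat_lit 0) (nat_lit 1872564798) (nat_lit 532) (nat_lit 416813241) (nat_lit 102) (nat_lit 5) (nat_lit 102) (nat_lit 3) (nat_lit 109) (nat_lit 3) (nat_lit 268) (nat_lit 268) (nat_lit 244)))) (XT.nd (nat_lit 78) (nat_lit 0) (nat_lit 0) (XT.lf (nat_lit 0) (nat_lit 804157895) (nat_lit 608) (nat_lit 7102574677)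 (nat_lit 684) (nat_lit 664550892) (nat_lit 94) (nat_lit 5) (nat_lit 102) (nat_lit 5) (nat_lit 103) (nat_lit 5) (nat_lit 269) (nat_lit 268) (nat_lit 243)) (XT.nd (nat_lit 78) (nat_lit 0) (nat_lit 76) (XT.lf (nat_lit 0) (nat_lit 2527134263) (nat_lit 608) (nat_lit 846765253) (nat_lit 684) (nat_lit 5465128220) (nat_lit 94) (nat_lit 5) (nat_lit 102) (nat_lit 5) (nat_lit 103) (nat_lit 5) (nat_lit 270) (nat_lit 268) (nat_lit 242)) (XT.lf (nat_lit 0) (nat_lit 4358742540) (nat_lit 608) (nat_lit 3145672135) (nat_lit 684) (nat_lit 1625613791) (nat_lit 95) (nat_lit 5) (nat_lit 103) (nat_lit 5) (nat_lit 104) (nat_lit 5) (nat_lit 271) (nat_lit 268) (nat_lit 241)))))) (XT.nd (nat_lit 390) (nat_lit 1748) (nat_lit 0) (XT.nd (nat_lit 156) (nat_lit 1216) (nat_lit 0) (XT.nd (nat_lit 78) (nat_lit 0) (nat_lit 76) (XT.lf (nat_lit 76) (nat_lit 3922765867) (nat_lit 0) (nat_lit 2408500986) (nat_lit 684) (nat_lit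 3113671741) (nat_lit 96) (nat_lit 5) (nat_lit 95) (nat_lit 5) (nat_lit 104) (nat_lit 5) (nat_lit 272) (nat_lit 268) (nat_lit 240)) (XT.lf (nat_lit 76) (nat_lit 1797387356) (nat_lit 0) (nat_lit 6667033244) (nat_lit 684) (nat_lit 1320802438) (nat_lit 97) (nat_lit 5) (nat_lit 96) (nat_lit 5) (nat_lit 105) (nat_lit 5) (nat_lit 273) (nat_lit 268) (nat_lit 239))) (XT.nd (nat_lit 78) (nat_lit 608) (nat_lit 0) (XT.lf (nat_lit 0) (nat_lit 610767407) (nat_lit 684) (nat_lit 397761213) (nat_lit 760) (nat_lit 9143257324) (nat_lit 87) (nat_lit 5) (nat_lit 96) (nat_lit 5) (nat_lit 97) (nat_lit 5) (nat_lit 274) (nat_lit 268) (nat_lit 238)) (XT.nd (nat_lit 78) (nat_lit 684) (nat_lit 0) (XT.lf (nat_lit 0) (nat_lit 2743352861) (nat_lit 684) (nat_lit 2687876211) (nat_lit 76) (nat_lit 5110987597) (nat_lit 88) (nat_lit 5) (nat_lit 97) (nat_lit 5) (nat_lit 89) (nat_lit 5) (nat_lit 275) (nat_lit 268) (nat_lit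 237)) (XT.lf (nat_lit 0) (nat_lit 5068940662) (nat_lit 760) (nat_lit 5080404057) (nat_lit 76) (nat_lit 813661462) (nat_lit 79) (nat_lit 5) (nat_lit 89) (nat_lit 5) (nat_lit 80) (nat_lit 5) (nat_lit 276) (nat_lit 268) (nat_lit 236))))) (XT.nd (nat_lit 234) (nat_lit 836) (nat_lit 0) (XT.nd (nat_lit 78) (nat_lit 456) (nat_lit 0) (XT.lf (nat_lit 0) (nat_lit 3753465856) (nat_lit 456) (nat_lit 3924762663) (nat_lit 532) (nat_lit 3734573706) (nat_lit 73) (nat_lit 5) (nat_lit 79) (nat_lit 5) (nat_lit 80) (nat_lit 5) (nat_lit 277) (nat_lit 268) (nat_lit 235)) (XT.nd (nat_lit 78) (nat_lit 76) (nat_lit 0) (XT.lf (nat_lit 0) (nat_lit 1489029075) (nat_lit 380) (nat_lit 9070070101) (nat_lit 456) (nat_lit 1336550071) (nat_lit 68) (nat_lit 5) (nat_lit 73) (nat_lit 5) (nat_lit 74) (nat_lit 5) (nat_lit 278) (nat_lit 268) (nat_lit 234)) (XT.lf (nat_lit 0) (nat_lit 1324862265) (nat_lit 456) (nat_lit 949459846)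 (nat_lit 76) (nat_lit 10136425047) (nat_lit 67) (nat_lit 5) (nat_lit 73) (nat_lit 5) (nat_lit 68) (nat_lit 5) (nat_lit 279) (nat_lit 268) (nat_lit 233)))) (XT.nd (nat_lit 78) (nat_lit 532) (nat_lit 0) (XT.lf (nat_lit 0) (nat_lit 4299012673) (nat_lit 380) (nat_lit 3587163566) (nat_lit 76) (nat_lit 5072619447) (nat_lit 63) (nat_lit 5) (nat_lit 68) (nat_lit 5) (nat_lit 64) (nat_lit 5) (nat_lit 280) (nat_lit 268) (nat_lit 232)) (XT.nd (nat_lit 78) (nat_lit 228) (nat_lit 0) (XT.lf (nat_lit 0) (nat_lit 7104073025) (nat_lit 304) (nat_lit 494458646) (nat_lit 380) (nat_lit 5947942819) (nat_lit 59) (nat_lit 5) (nat_lit 63) (nat_lit 5) (nat_lit 64) (nat_lit 5) (nat_lit 281) (nat_lit 268) (nat_lit 231)) (XT.lf (nat_lit 0) (nat_lit 4541002132) (nat_lit 228) (nat_lit 6798078434) (nat_lit 304) (nat_lit 2833380118) (nat_lit 56) (nat_lit 5) (nat_lit 59) (nat_lit 5) (nat_lit 60) (nat_lit 5) (nat_lit 282)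 (nat_lit 268) (nat_lit 230))))))))
noncomputable def xc64 : XT := (XT.nd (nat_lit 1638) (nat_lit 760) (nat_lit 0) (XT.nd (nat_lit 780) (nat_lit 1292) (nat_lit 0) (XT.nd (nat_lit 390) (nat_lit 684) (nat_lit 0) (XT.nd (nat_lit 156) (nat_lit 760) (nat_lit 0) (XT.nd (nat_lit 78) (nat_lit 0) (nat_lit 0) (XT.lf (nat_lit 0) (nat_lit 609585769) (nat_lit 380) (nat_lit 13120538052) (nat_lit 76) (nat_lit 1113306502) (nat_lit 51) (nat_lit 5) (nat_lit 56) (nat_lit 5) (nat_lit 52) (nat_lit 5) (nat_lit 283) (nat_lit 268) (nat_lit 229)) (XT.lf (nat_lit 0) (nat_lit 4447637152) (nat_lit 380) (nat_lit 1480607598) (nat_lit 76) (nat_lit 9626684161) (nat_lit 51) (nat_lit 5) (nat_lit 56) (nat_lit 5) (nat_lit 52) (nat_lit 5) (nat_lit 284) (nat_lit 268) (nat_lit 228))) (XT.nd (nat_lit 78) (nat_lit 532) (nat_lit 0) (XT.lf (nat_lit 0) (nat_lit 8749432310) (nat_lit 304) (nat_lit 4983723754) (nat_lit 76) (nat_lit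 2582467098) (nat_lit 48) (nat_lit 5) (nat_lit 52) (nat_lit 5) (nat_lit 49) (nat_lit 5) (nat_lit 285) (nat_lit 268) (nat_lit 227)) (XT.nd (nat_lit 78) (nat_lit 304) (nat_lit 0) (XT.lf (nat_lit 0) (nat_lit 8169132090) (nat_lit 228) (nat_lit 5420596449) (nat_lit 304) (nat_lit 3537829098) (nat_lit 45) (nat_lit 5) (nat_lit 48) (nat_lit 5) (nat_lit 49) (nat_lit 5) (nat_lit 286) (nat_lit 268) (nat_lit 226)) (XT.lf (nat_lit 0) (nat_lit 947889546) (nat_lit 304) (nat_lit 13448262015) (nat_lit 76) (nat_lit 3599696107) (nat_lit 41) (nat_lit 5) (nat_lit 45) (nat_lit 5) (nat_lit 42) (nat_lit 5) (nat_lit 287) (nat_lit 268) (nat_lit 225))))) (XT.nd (nat_lit 156) (nat_lit 456) (nat_lit 0) (XT.nd (nat_lit 78) (nat_lit 0) (nat_lit 0) (XT.lf (nat_lit 0) (nat_lit 308380797) (nat_lit 228) (nat_lit 5562251603) (nat_lit 304) (nat_lit 13050046629) (nat_lit 38) (nat_lit 5) (nat_lit 41) (nat_lit 5) (nat_lit 42)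 (nat_lit 5) (nat_lit 288) (nat_lit 268) (nat_lit 224)) (XT.lf (nat_lit 0) (nat_lit 11435601387) (nat_lit 304) (nat_lit 4403020689) (nat_lit 76) (nat_lit 4068532024) (nat_lit 38) (nat_lit 5) (nat_lit 42) (nat_lit 5) (nat_lit 39) (nat_lit 5) (nat_lit 289) (nat_lit 268) (nat_lit 223))) (XT.nd (nat_lit 78) (nat_lit 304) (nat_lit 0) (XT.lf (nat_lit 0) (nat_lit 11136124453) (nat_lit 152) (nat_lit 6529329801) (nat_lit 228) (nat_lit 3296180398) (nat_lit 36) (nat_lit 5) (nat_lit 38) (nat_lit 5) (nat_lit 39) (nat_lit 5) (nat_lit 290) (nat_lit 268) (nat_lit 222)) (XT.nd (nat_lit 78) (nat_lit 0) (nat_lit 0) (XT.lf (nat_lit 0) (nat_lit 2404363037) (nat_lit 304) (nat_lit 16082467763) (nat_lit 76) (nat_lit 3602689037) (nat_lit 32) (nat_lit 5) (nat_lit 36) (nat_lit 5) (nat_lit 33) (nat_lit 5) (nat_lit 291) (nat_lit 268) (nat_lit 221)) (XT.lf (nat_lit 0) (nat_lit 8686882331) (nat_lit 304) (nat_lit 77517855)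 (nat_lit 76) (nat_lit 14528521759) (nat_lit 32) (nat_lit 5) (nat_lit 36) (nat_lit 5) (nat_lit 33) (nat_lit 5) (nat_lit 292) (nat_lit 268) (nat_lit 220)))))) (XT.nd (nat_lit 390) (nat_lit 608) (nat_lit 0) (XT.nd (nat_lit 156) (nat_lit 380) (nat_lit 0) (XT.nd (nat_lit 78) (nat_lit 152) (nat_lit 0) (XT.lf (nat_lit 0) (nat_lit 15738939057) (nat_lit 228) (nat_lit 6899505923) (nat_lit 76) (nat_lit 1940858725) (nat_lit 30) (nat_lit 5) (nat_lit 33) (nat_lit 5) (nat_lit 31) (nat_lit 5) (nat_lit 293) (nat_lit 268) (nat_lit 219)) (XT.lf (nat_lit 0) (nat_lit 11036314755) (nat_lit 152) (nat_lit 12601179294) (nat_lit 228) (nat_lit 2317035527) (nat_lit 28) (nat_lit 5) (nat_lit 30) (nat_lit 5) (nat_lit 31) (nat_lit 5) (nat_lit 294) (nat_lit 268) (nat_lit 218))) (XT.nd (nat_lit 78) (nat_lit 152) (nat_lit 0) (XT.lf (nat_lit 0) (nat_lit 3186111752) (nat_lit 152) (nat_lit 1524819397) (nat_lit 228) (nat_lit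 22718490600) (nat_lit 25) (nat_lit 5) (nat_lit 27) (nat_lit 5) (nat_lit 28) (nat_lit 5) (nat_lit 295) (nat_lit 268) (nat_lit 217)) (XT.nd (nat_lit 78) (nat_lit 152) (nat_lit 0) (XT.lf (nat_lit 0) (nat_lit 12611909361) (nat_lit 228) (nat_lit 6002693380) (nat_lit 76) (nat_lit 10386246790) (nat_lit 25) (nat_lit 5) (nat_lit 28) (nat_lit 5) (nat_lit 26) (nat_lit 5) (nat_lit 296) (nat_lit 268) (nat_lit 216)) (XT.lf (nat_lit 0) (nat_lit 14067448306) (nat_lit 152) (nat_lit 7289323878) (nat_lit 228) (nat_lit 9330667028) (nat_lit 23) (nat_lit 5) (nat_lit 25) (nat_lit 5) (nat_lit 26) (nat_lit 5) (nat_lit 297) (nat_lit 268) (nat_lit 215))))) (XT.nd (nat_lit 234) (nat_lit 304) (nat_lit 0) (XT.nd (nat_lit 78) (nat_lit 228) (nat_lit 0) (XT.lf (nat_lit 0) (nat_lit 3431570399) (nat_lit 76) (nat_lit 27574489262) (nat_lit 152) (nat_lit 1492689808) (nat_lit 22) (nat_lit 5) (nat_lit 23) (nat_lit 5) (nat_lit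 24) (nat_lit 4) (nat_lit 298) (nat_lit 268) (nat_lit 214)) (XT.nd (nat_lit 78) (nat_lit 152) (nat_lit 0) (XT.lf (nat_lit 0) (nat_lit 7135214103) (nat_lit 152) (nat_lit 9048216811) (nat_lit 76) (nat_lit 18246819453) (nat_lit 21) (nat_lit 5) (nat_lit 23) (nat_lit 5) (nat_lit 22) (nat_lit 5) (nat_lit 299) (nat_lit 268) (nat_lit 213)) (XT.lf (nat_lit 0) (nat_lit 12912250848) (nat_lit 152) (nat_lit 3662283274) (nat_lit 228) (nat_lit 19931868408) (nat_lit 19) (nat_lit 5) (nat_lit 21) (nat_lit 5) (nat_lit 22) (nat_lit 5) (nat_lit 300) (nat_lit 268) (nat_lit 212)))) (XT.nd (nat_lit 78) (nat_lit 304) (nat_lit 0) (XT.lf (nat_lit 0) (nat_lit 27055458515) (nat_lit 228) (nat_lit 1991765632) (nat_lit 76) (nat_lit 9687126378) (nat_lit 19) (nat_lit 5) (nat_lit 22) (nat_lit 5) (nat_lit 20) (nat_lit 4) (nat_lit 301) (nat_lit 268) (nat_lit 211)) (XT.nd (nat_lit 78) (nat_lit 228) (nat_lit 0) (XT.lf (nat_lit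 0) (nat_lit 21935492811) (nat_lit 76) (nat_lit 16817952385) (nat_lit 152) (nat_lit 2368184373) (nat_lit 18) (nat_lit 5) (nat_lit 19) (nat_lit 5) (nat_lit 20) (nat_lit 4) (nat_lit 302) (nat_lit 268) (nat_lit 210)) (XT.lf (nat_lit 0) (nat_lit 4118545779) (nat_lit 152) (nat_lit 3397542594) (nat_lit 228) (nat_lit 36174085573) (nat_lit 15) (nat_lit 5) (nat_lit 17) (nat_lit 5) (nat_lit 18) (nat_lit 5) (nat_lit 303) (nat_lit 268) (nat_lit 209))))))) (XT.nd (nat_lit 780) (nat_lit 304) (nat_lit 0) (XT.nd (nat_lit 390) (nat_lit 228) (nat_lit 0) (XT.nd (nat_lit 156) (nat_lit 152) (nat_lit 0) (XT.nd (nat_lit 78) (nat_lit 76) (nat_lit 0) (XT.lf (nat_lit 0) (nat_lit 18598300275) (nat_lit 228) (nat_lit 16735082771) (nat_lit 76) (nat_lit 11104389451) (nat_lit 15) (nat_lit 5) (nat_lit 18) (nat_lit 5) (nat_lit 16) (nat_lit 4) (nat_lit 304) (nat_lit 268) (nat_lit 208)) (XT.lf (nat_lit 0) (nat_lit 8091495452)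 (nat_lit 76) (nat_lit 22637103479) (nat_lit 152) (nat_lit 18668523130) (nat_lit 14) (nat_lit 5) (nat_lit 15) (nat_lit 5) (nat_lit 16) (nat_lit 4) (nat_lit 305) (nat_lit 268) (nat_lit 207))) (XT.nd (nat_lit 78) (nat_lit 152) (nat_lit 0) (XT.lf (nat_lit 0) (nat_lit 35464900585) (nat_lit 76) (nat_lit 8634886949) (nat_lit 152) (nat_lit 8479925994) (nat_lit 14) (nat_lit 5) (nat_lit 15) (nat_lit 5) (nat_lit 16) (nat_lit 4) (nat_lit 306) (nat_lit 268) (nat_lit 206)) (XT.nd (nat_lit 78) (nat_lit 0) (nat_lit 0) (XT.lf (nat_lit 0) (nat_lit 2671366977) (nat_lit 152) (nat_lit 46880283650) (nat_lit 76) (nat_lit 6451887535) (nat_lit 12) (nat_lit 5) (nat_lit 14) (nat_lit 5) (nat_lit 13) (nat_lit 4) (nat_lit 307) (nat_lit 268) (nat_lit 205)) (XT.lf (nat_lit 0) (nat_lit 14851154685) (nat_lit 152) (nat_lit 21942363815) (nat_lit 76) (nat_lit 22879139256) (nat_lit 12) (nat_lit 5) (nat_lit 14) (nat_lit 5)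 (nat_lit 13) (nat_lit 4) (nat_lit 308) (nat_lit 268) (nat_lit 204))))) (XT.nd (nat_lit 156) (nat_lit 152) (nat_lit 0) (XT.nd (nat_lit 78) (nat_lit 0) (nat_lit 0) (XT.lf (nat_lit 0) (nat_lit 5123022254) (nat_lit 76) (nat_lit 22944601230) (nat_lit 152) (nat_lit 35564581563) (nat_lit 11) (nat_lit 5) (nat_lit 12) (nat_lit 5) (nat_lit 13) (nat_lit 4) (nat_lit 309) (nat_lit 268) (nat_lit 203)) (XT.lf (nat_lit 0) (nat_lit 35107028403) (nat_lit 76) (nat_lit 7599755699) (nat_lit 152) (nat_lit 25183475372) (nat_lit 11) (nat_lit 5) (nat_lit 12) (nat_lit 5) (nat_lit 13) (nat_lit 4) (nat_lit 310) (nat_lit 268) (nat_lit 202))) (XT.nd (nat_lit 78) (nat_lit 152) (nat_lit 0) (XT.lf (nat_lit 0) (nat_lit 58641374140) (nat_lit 152) (nat_lit 5167821530) (nat_lit 0) (nat_lit 8673558931) (nat_lit 11) (nat_lit 5) (nat_lit 13) (nat_lit 4) (nat_lit 11) (nat_lit 4) (nat_lit 311) (nat_lit 268) (nat_lit 201)) (XT.nd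 (nat_lit 78) (nat_lit 76) (nat_lit 0) (XT.lf (nat_lit 0) (nat_lit 25312413967) (nat_lit 76) (nat_lit 51047038607) (nat_lit 76) (nat_lit 1057771051) (nat_lit 10) (nat_lit 4) (nat_lit 11) (nat_lit 5) (nat_lit 11) (nat_lit 4) (nat_lit 312) (nat_lit 268) (nat_lit 200)) (XT.lf (nat_lit 0) (nat_lit 12417819124) (nat_lit 152) (nat_lit 24552601635) (nat_lit 76) (nat_lit 45762220300) (nat_lit 9) (nat_lit 5) (nat_lit 11) (nat_lit 5) (nat_lit 10) (nat_lit 4) (nat_lit 313) (nat_lit 268) (nat_lit 199)))))) (XT.nd (nat_lit 390) (nat_lit 152) (nat_lit 0) (XT.nd (nat_lit 156) (nat_lit 76) (nat_lit 0) (XT.nd (nat_lit 78) (nat_lit 0) (nat_lit 0) (XT.lf (nat_lit 0) (nat_lit 5332790761) (nat_lit 76) (nat_lit 21672240229) (nat_lit 152) (nat_lit 61463870639) (nat_lit 8) (nat_lit 5) (nat_lit 9) (nat_lit 5) (nat_lit 10) (nat_lit 4) (nat_lit 314) (nat_lit 268) (nat_lit 198)) (XT.lf (nat_lit 0) (nat_lit 38462977121)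 (nat_lit 76) (nat_lit 4711427492) (nat_lit 152) (nat_lit 51468907016) (nat_lit 8) (nat_lit 5) (nat_lit 9) (nat_lit 5) (nat_lit 10) (nat_lit 4) (nat_lit 315) (nat_lit 268) (nat_lit 197))) (XT.nd (nat_lit 78) (nat_lit 76) (nat_lit 0) (XT.lf (nat_lit 0) (nat_lit 60838031634) (nat_lit 152) (nat_lit 27302078896) (nat_lit 0) (nat_lit 13161535965) (nat_lit 8) (nat_lit 5) (nat_lit 10) (nat_lit 4) (nat_lit 8) (nat_lit 4) (nat_lit 316) (nat_lit 268) (nat_lit 196)) (XT.nd (nat_lit 78) (nat_lit 0) (nat_lit 0) (XT.lf (nat_lit 0) (nat_lit 3912255730) (nat_lit 76) (nat_lit 76132158202) (nat_lit 76) (nat_lit 28441757669) (nat_lit 7) (nat_lit 4) (nat_lit 8) (nat_lit 5) (nat_lit 8) (nat_lit 4) (nat_lit 317) (nat_lit 268) (nat_lit 195)) (XT.lf (nat_lit 0) (nat_lit 38579597992) (nat_lit 76) (nat_lit 62672940381) (nat_lit 76) (nat_lit 14969664975) (nat_lit 7) (nat_lit 4) (nat_lit 8) (nat_lit 5) (nat_lit 8)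 (nat_lit 4) (nat_lit 318) (nat_lit 268) (nat_lit 194))))) (XT.nd (nat_lit 234) (nat_lit 0) (nat_lit 0) (XT.nd (nat_lit 78) (nat_lit 152) (nat_lit 0) (XT.lf (nat_lit 0) (nat_lit 76002653961) (nat_lit 76) (nat_lit 48145072658) (nat_lit 76) (nat_lit 429876072) (nat_lit 7) (nat_lit 4) (nat_lit 8) (nat_lit 5) (nat_lit 8) (nat_lit 4) (nat_lit 319) (nat_lit 268) (nat_lit 193)) (XT.nd (nat_lit 78) (nat_lit 76) (nat_lit 0) (XT.lf (nat_lit 0) (nat_lit 14775234762) (nat_lit 152) (nat_lit 17437003451) (nat_lit 76) (nat_lit 101377729384) (nat_lit 6) (nat_lit 5) (nat_lit 8) (nat_lit 5) (nat_lit 7) (nat_lit 4) (nat_lit 320) (nat_lit 268) (nat_lit 192)) (XT.lf (nat_lit 0) (nat_lit 16703925512) (nat_lit 76) (nat_lit 14730406544) (nat_lit 152) (nat_lit 111876010059) (nat_lit 5) (nat_lit 5) (nat_lit 6) (nat_lit 5) (nat_lit 7) (nat_lit 4) (nat_lit 321) (nat_lit 268) (nat_lit 191)))) (XT.nd (nat_lit 78) (nat_lit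 0) (nat_lit 0) (XT.lf (nat_lit 0) (nat_lit 49791595029) (nat_lit 152) (nat_lit 99679192440) (nat_lit 0) (nat_lit 4319291579) (nat_lit 5) (nat_lit 5) (nat_lit 7) (nat_lit 4) (nat_lit 5) (nat_lit 4) (nat_lit 322) (nat_lit 268) (nat_lit 190)) (XT.nd (nat_lit 78) (nat_lit 0) (nat_lit 0) (XT.lf (nat_lit 0) (nat_lit 69858343276) (nat_lit 152) (nat_lit 70860115812) (nat_lit 0) (nat_lit 24377694661) (nat_lit 5) (nat_lit 5) (nat_lit 7) (nat_lit 4) (nat_lit 5) (nat_lit 4) (nat_lit 323) (nat_lit 268) (nat_lit 189)) (XT.lf (nat_lit 0) (nat_lit 91523507932) (nat_lit 152) (nat_lit 39748424077) (nat_lit 0) (nat_lit 46035132314) (nat_lit 5) (nat_lit 5) (nat_lit 7) (nat_lit 4) (nat_lit 5) (nat_lit 4) (nat_lit 324) (nat_lit 268) (nat_lit 188))))))))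
noncomputable def xc65 : XT := (XT.nd (nat_lit 1638) (nat_lit 0) (nat_lit 0) (XT.nd (nat_lit 780) (nat_lit 76) (nat_lit 0) (XT.nd (nat_lit 390) (nat_lit 152) (nat_lit 0) (XT.nd (nat_lit 156) (nat_lit 0) (nat_lit 0) (XT.nd (nat_lit 78) (nat_lit 76) (nat_lit 0) (XT.lf (nat_lit 0) (nat_lit 114915475161) (nat_lit 152) (nat_lit 6159751657) (nat_lit 0) (nat_lit 69419944908) (nat_lit 5) (nat_lit 5) (nat_lit 7) (nat_lit 4) (nat_lit 5) (nat_lit 4) (nat_lit 325) (nat_lit 268) (nat_lit 187)) (XT.lf (nat_lit 0) (nat_lit 31100350888) (nat_lit 76) (nat_lit 109558076773) (nat_lit 76) (nat_lit 64055921860) (nat_lit 4) (nat_lit 4) (nat_lit 5) (nat_lit 5) (nat_lit 5) (nat_lit 4) (nat_lit 326) (nat_lit 268) (nat_lit 186))) (XT.nd (nat_lit 78) (nat_lit 0) (nat_lit 0) (XT.lf (nat_lit 0) (nat_lit 71550636310) (nat_lit 76) (nat_lit 97011817585) (nat_lit 76) (nat_lit 51503528726) (nat_lit 4) (nat_lit 4) (nat_lit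 5) (nat_lit 5) (nat_lit 5) (nat_lit 4) (nat_lit 327) (nat_lit 268) (nat_lit 185)) (XT.nd (nat_lit 78) (nat_lit 0) (nat_lit 0) (XT.lf (nat_lit 0) (nat_lit 115227140795) (nat_lit 76) (nat_lit 83466419426) (nat_lit 76) (nat_lit 37952450988) (nat_lit 4) (nat_lit 4) (nat_lit 5) (nat_lit 5) (nat_lit 5) (nat_lit 4) (nat_lit 328) (nat_lit 268) (nat_lit 184)) (XT.lf (nat_lit 0) (nat_lit 162388688074) (nat_lit 76) (nat_lit 68841613269) (nat_lit 76) (nat_lit 23322385962) (nat_lit 4) (nat_lit 4) (nat_lit 5) (nat_lit 5) (nat_lit 5) (nat_lit 4) (nat_lit 329) (nat_lit 268) (nat_lit 183))))) (XT.nd (nat_lit 156) (nat_lit 76) (nat_lit 0) (XT.nd (nat_lit 78) (nat_lit 76) (nat_lit 0) (XT.lf (nat_lit 0) (nat_lit 213314753983) (nat_lit 76) (nat_lit 53050733598) (nat_lit 76) (nat_lit 7526636967) (nat_lit 4) (nat_lit 4) (nat_lit 5) (nat_lit 5) (nat_lit 5) (nat_lit 4) (nat_lit 330) (nat_lit 268) (nat_lit 182))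 (XT.lf (nat_lit 0) (nat_lit 9223432114) (nat_lit 152) (nat_lit 26620569427) (nat_lit 76) (nat_lit 258927487215) (nat_lit 3) (nat_lit 5) (nat_lit 5) (nat_lit 5) (nat_lit 4) (nat_lit 4) (nat_lit 331) (nat_lit 268) (nat_lit 181))) (XT.nd (nat_lit 78) (nat_lit 0) (nat_lit 0) (XT.lf (nat_lit 0) (nat_lit 10246476664) (nat_lit 76) (nat_lit 16962916792) (nat_lit 152) (nat_lit 290097662016) (nat_lit 2) (nat_lit 5) (nat_lit 3) (nat_lit 5) (nat_lit 4) (nat_lit 4) (nat_lit 332) (nat_lit 268) (nat_lit 180)) (XT.nd (nat_lit 78) (nat_lit 0) (nat_lit 0) (XT.lf (nat_lit 0) (nat_lit 47155288895) (nat_lit 152) (nat_lit 290677072318) (nat_lit 0) (nat_lit 3787055229) (nat_lit 2) (nat_lit 5) (nat_lit 4) (nat_lit 4) (nat_lit 2) (nat_lit 4) (nat_lit 333) (nat_lit 268) (nat_lit 179)) (XT.lf (nat_lit 0) (nat_lit 68979373657) (nat_lit 152) (nat_lit 273275537066) (nat_lit 0) (nat_lit 25607731326) (nat_lit 2) (nat_lit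 5) (nat_lit 4) (nat_lit 4) (nat_lit 2) (nat_lit 4) (nat_lit 334) (nat_lit 268) (nat_lit 178)))))) (XT.nd (nat_lit 390) (nat_lit 76) (nat_lit 0) (XT.nd (nat_lit 156) (nat_lit 0) (nat_lit 0) (XT.nd (nat_lit 78) (nat_lit 0) (nat_lit 0) (XT.lf (nat_lit 0) (nat_lit 92546136982) (nat_lit 152) (nat_lit 254488014175) (nat_lit 0) (nat_lit 49171338481) (nat_lit 2) (nat_lit 5) (nat_lit 4) (nat_lit 4) (nat_lit 2) (nat_lit 4) (nat_lit 335) (nat_lit 268) (nat_lit 177)) (XT.lf (nat_lit 0) (nat_lit 117995233765) (nat_lit 152) (nat_lit 234203170176) (nat_lit 0) (nat_lit 74617512883) (nat_lit 2) (nat_lit 5) (nat_lit 4) (nat_lit 4) (nat_lit 2) (nat_lit 4) (nat_lit 336) (nat_lit 268) (nat_lit 176))) (XT.nd (nat_lit 78) (nat_lit 0) (nat_lit 0) (XT.lf (nat_lit 0) (nat_lit 145477473468) (nat_lit 152) (nat_lit 212300798585) (nat_lit 0) (nat_lit 102097046678) (nat_lit 2) (nat_lit 5) (nat_lit 4) (nat_lit 4) (nat_lit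 2) (nat_lit 4) (nat_lit 337) (nat_lit 268) (nat_lit 175)) (XT.nd (nat_lit 78) (nat_lit 0) (nat_lit 0) (XT.lf (nat_lit 0) (nat_lit 175155713808) (nat_lit 152) (nat_lit 188651107571) (nat_lit 0) (nat_lit 131772781547) (nat_lit 2) (nat_lit 5) (nat_lit 4) (nat_lit 4) (nat_lit 2) (nat_lit 4) (nat_lit 338) (nat_lit 268) (nat_lit 174)) (XT.lf (nat_lit 0) (nat_lit 207205825837) (nat_lit 152) (nat_lit 163113950818) (nat_lit 0) (nat_lit 163820573697) (nat_lit 2) (nat_lit 5) (nat_lit 4) (nat_lit 4) (nat_lit 2) (nat_lit 4) (nat_lit 339) (nat_lit 268) (nat_lit 173))))) (XT.nd (nat_lit 234) (nat_lit 76) (nat_lit 0) (XT.nd (nat_lit 78) (nat_lit 0) (nat_lit 0) (XT.lf (nat_lit 0) (nat_lit 241817736148) (nat_lit 152) (nat_lit 135537997025) (nat_lit 0) (nat_lit 198430335970) (nat_lit 2) (nat_lit 5) (nat_lit 4) (nat_lit 4) (nat_lit 2) (nat_lit 4) (nat_lit 340) (nat_lit 268) (nat_lit 172)) (XT.nd (nat_lit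 78) (nat_lit 0) (nat_lit 0) (XT.lf (nat_lit 0) (nat_lit 279196552355) (nat_lit 152) (nat_lit 105759833133) (nat_lit 0) (nat_lit 235807163254) (nat_lit 2) (nat_lit 5) (nat_lit 4) (nat_lit 4) (nat_lit 2) (nat_lit 4) (nat_lit 341) (nat_lit 268) (nat_lit 171)) (XT.lf (nat_lit 0) (nat_lit 319563778555) (nat_lit 152) (nat_lit 73602995949) (nat_lit 0) (nat_lit 276172547858) (nat_lit 2) (nat_lit 5) (nat_lit 4) (nat_lit 4) (nat_lit 2) (nat_lit 4) (nat_lit 342) (nat_lit 268) (nat_lit 170)))) (XT.nd (nat_lit 78) (nat_lit 76) (nat_lit 0) (XT.lf (nat_lit 0) (nat_lit 363158627940) (nat_lit 152) (nat_lit 38876926437) (nat_lit 0) (nat_lit 319765692063) (nat_lit 2) (nat_lit 5) (nat_lit 4) (nat_lit 4) (nat_lit 2) (nat_lit 4) (nat_lit 343) (nat_lit 268) (nat_lit 169)) (XT.nd (nat_lit 78) (nat_lit 76) (nat_lit 0) (XT.lf (nat_lit 0) (nat_lit 410239440359) (nat_lit 152) (nat_lit 1375840483) (nat_lit 0) (nat_lit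 366844925610) (nat_lit 2) (nat_lit 5) (nat_lit 4) (nat_lit 4) (nat_lit 2) (nat_lit 4) (nat_lit 344) (nat_lit 268) (nat_lit 168)) (XT.lf (nat_lit 0) (nat_lit 40416056792) (nat_lit 76) (nat_lit 421300164339) (nat_lit 76) (nat_lit 377904187672) (nat_lit 1) (nat_lit 4) (nat_lit 2) (nat_lit 5) (nat_lit 2) (nat_lit 4) (nat_lit 345) (nat_lit 268) (nat_lit 167))))))) (XT.nd (nat_lit 35178) (nat_lit 0) (nat_lit 3572) (XT.nd (nat_lit 34788) (nat_lit 0) (nat_lit 6536) (XT.nd (nat_lit 156) (nat_lit 0) (nat_lit 0) (XT.nd (nat_lit 78) (nat_lit 0) (nat_lit 0) (XT.lf (nat_lit 0) (nat_lit 85597718393) (nat_lit 76) (nat_lit 431735956680) (nat_lit 76) (nat_lit 388338626385) (nat_lit 1) (nat_lit 4) (nat_lit 2) (nat_lit 5) (nat_lit 2) (nat_lit 4) (nat_lit 346) (nat_lit 268) (nat_lit 166)) (XT.lf (nat_lit 0) (nat_lit 134391396001) (nat_lit 76) (nat_lit 443007800122) (nat_lit 76) (nat_lit 399609216468) (nat_lit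 1) (nat_lit 4) (nat_lit 2) (nat_lit 5) (nat_lit 2) (nat_lit 4) (nat_lit 347) (nat_lit 268) (nat_lit 165))) (XT.nd (nat_lit 34476) (nat_lit 0) (nat_lit 6992) (XT.lf (nat_lit 0) (nat_lit 187086237335) (nat_lit 76) (nat_lit 455182490774) (nat_lit 76) (nat_lit 411782746603) (nat_lit 1) (nat_lit 4) (nat_lit 2) (nat_lit 5) (nat_lit 2) (nat_lit 4) (nat_lit 348) (nat_lit 268) (nat_lit 164)) (XT.nd (nat_lit 78) (nat_lit 0) (nat_lit 0) (XT.lf (nat_lit 0) (nat_lit 1135095712) (nat_lit 684) (nat_lit 1638822022) (nat_lit 684) (nat_lit 1638822022) (nat_lit 93) (nat_lit 3) (nat_lit 102) (nat_lit 3) (nat_lit 102) (nat_lit 5) (nat_lit 269) (nat_lit 269) (nat_lit 242)) (XT.lf (nat_lit 76) (nat_lit 3179863556) (nat_lit 0) (nat_lit 610716947) (nat_lit 684) (nat_lit 5312953709) (nat_lit 94) (nat_lit 5) (nat_lit 93) (nat_lit 3) (nat_lit 102) (nat_lit 5) (nat_lit 270) (nat_lit 269) (nat_lit 241))))) (XT.nd (nat_lit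 156) (nat_lit 532) (nat_lit 0) (XT.nd (nat_lit 78) (nat_lit 0) (nat_lit 76) (XT.lf (nat_lit 76) (nat_lit 735559158) (nat_lit 0) (nat_lit 4702040146) (nat_lit 684) (nat_lit 3966332760) (nat_lit 95) (nat_lit 5) (nat_lit 94) (nat_lit 5) (nat_lit 103) (nat_lit 5) (nat_lit 271) (nat_lit 269) (nat_lit 240)) (XT.lf (nat_lit 0) (nat_lit 7213705180) (nat_lit 608) (nat_lit 1694049190) (nat_lit 684) (nat_lit 821063975) (nat_lit 95) (nat_lit 5) (nat_lit 103) (nat_lit 5) (nat_lit 104) (nat_lit 5) (nat_lit 272) (nat_lit 269) (nat_lit 239))) (XT.nd (nat_lit 78) (nat_lit 608) (nat_lit 0) (XT.lf (nat_lit 76) (nat_lit 5865841522) (nat_lit 0) (nat_lit 3317978015) (nat_lit 684) (nat_lit 893578953) (nat_lit 96) (nat_lit 5) (nat_lit 95) (nat_lit 5) (nat_lit 104) (nat_lit 5) (nat_lit 273) (nat_lit 269) (nat_lit 238)) (XT.nd (nat_lit 78) (nat_lit 0) (nat_lit 0) (XT.lf (nat_lit 0) (nat_lit 848535158) (nat_lit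 684) (nat_lit 6838798025) (nat_lit 760) (nat_lit 2765210548) (nat_lit 87) (nat_lit 5) (nat_lit 96) (nat_lit 5) (nat_lit 97) (nat_lit 5) (nat_lit 274) (nat_lit 269) (nat_lit 237)) (XT.lf (nat_lit 76) (nat_lit 1245268106) (nat_lit 0) (nat_lit 1498012032) (nat_lit 760) (nat_lit 8111703699) (nat_lit 88) (nat_lit 5) (nat_lit 87) (nat_lit 5) (nat_lit 97) (nat_lit 5) (nat_lit 275) (nat_lit 269) (nat_lit 236)))))) (XT.nd (nat_lit 390) (nat_lit 1140) (nat_lit 0) (XT.nd (nat_lit 156) (nat_lit 1216) (nat_lit 0) (XT.nd (nat_lit 78) (nat_lit 684) (nat_lit 0) (XT.lf (nat_lit 0) (nat_lit 4892738810) (nat_lit 684) (nat_lit 1231966949) (nat_lit 76) (nat_lit 5159982713) (nat_lit 88) (nat_lit 5) (nat_lit 97) (nat_lit 5) (nat_lit 89) (nat_lit 5) (nat_lit 276) (nat_lit 269) (nat_lit 235)) (XT.lf (nat_lit 0) (nat_lit 7283036276) (nat_lit 760) (nat_lit 3790500467) (nat_lit 76) (nat_lit 671997908) (nat_lit 79)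 (nat_lit 5) (nat_lit 89) (nat_lit 5) (nat_lit 80) (nat_lit 5) (nat_lit 277) (nat_lit 269) (nat_lit 234))) (XT.nd (nat_lit 78) (nat_lit 760) (nat_lit 0) (XT.lf (nat_lit 0) (nat_lit 5676358347) (nat_lit 456) (nat_lit 4316073471) (nat_lit 532) (nat_lit 2244616775) (nat_lit 73) (nat_lit 5) (nat_lit 79) (nat_lit 5) (nat_lit 80) (nat_lit 5) (nat_lit 278) (nat_lit 269) (nat_lit 233)) (XT.nd (nat_lit 78) (nat_lit 304) (nat_lit 0) (XT.lf (nat_lit 0) (nat_lit 230800936) (nat_lit 456) (nat_lit 9521274935) (nat_lit 76) (nat_lit 3011614581) (nat_lit 67) (nat_lit 5) (nat_lit 73) (nat_lit 5) (nat_lit 68) (nat_lit 5) (nat_lit 279) (nat_lit 269) (nat_lit 232)) (XT.lf (nat_lit 0) (nat_lit 562339306) (nat_lit 304) (nat_lit 2384768326) (nat_lit 380) (nat_lit 10377599603) (nat_lit 63) (nat_lit 5) (nat_lit 67) (nat_lit 5) (nat_lit 68) (nat_lit 5) (nat_lit 280) (nat_lit 269) (nat_lit 231))))) (XT.nd (nat_lit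 234) (nat_lit 608) (nat_lit 0) (XT.nd (nat_lit 78) (nat_lit 532) (nat_lit 0) (XT.lf (nat_lit 0) (nat_lit 6063473319) (nat_lit 380) (nat_lit 2300062530) (nat_lit 76) (nat_lit 5558078290) (nat_lit 63) (nat_lit 5) (nat_lit 68) (nat_lit 5) (nat_lit 64) (nat_lit 5) (nat_lit 281) (nat_lit 269) (nat_lit 230)) (XT.nd (nat_lit 78) (nat_lit 228) (nat_lit 0) (XT.lf (nat_lit 0) (nat_lit 9178065645) (nat_lit 304) (nat_lit 367170712) (nat_lit 380) (nat_lit 5015368486) (nat_lit 59) (nat_lit 5) (nat_lit 63) (nat_lit 5) (nat_lit 64) (nat_lit 5) (nat_lit 282) (nat_lit 269) (nat_lit 229)) (XT.lf (nat_lit 0) (nat_lit 6408586345) (nat_lit 228) (nat_lit 7103169165) (nat_lit 304) (nat_lit 1728774142) (nat_lit 56) (nat_lit 5) (nat_lit 59) (nat_lit 5) (nat_lit 60) (nat_lit 5) (nat_lit 283) (nat_lit 269) (nat_lit 228)))) (XT.nd (nat_lit 78) (nat_lit 228) (nat_lit 0) (XT.lf (nat_lit 0) (nat_lit 1878846241) (nat_lit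 380) (nat_lit 12629430554) (nat_lit 76) (nat_lit 1459442374) (nat_lit 51) (nat_lit 5) (nat_lit 56) (nat_lit 5) (nat_lit 52) (nat_lit 5) (nat_lit 284) (nat_lit 269) (nat_lit 227)) (XT.nd (nat_lit 78) (nat_lit 228) (nat_lit 0) (XT.lf (nat_lit 0) (nat_lit 5933534800) (nat_lit 380) (nat_lit 172435333) (nat_lit 76) (nat_lit 10634847922) (nat_lit 51) (nat_lit 5) (nat_lit 56) (nat_lit 5) (nat_lit 52) (nat_lit 5) (nat_lit 285) (nat_lit 269) (nat_lit 226)) (XT.lf (nat_lit 0) (nat_lit 10521705074) (nat_lit 304) (nat_lit 3967199314) (nat_lit 76) (nat_lit 3076500094) (nat_lit 48) (nat_lit 5) (nat_lit 52) (nat_lit 5) (nat_lit 49) (nat_lit 5) (nat_lit 286) (nat_lit 269) (nat_lit 225))))))))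
noncomputable def xc66 : XT := (XT.nd (nat_lit 1638) (nat_lit 760) (nat_lit 0) (XT.nd (nat_lit 780) (nat_lit 836) (nat_lit 0) (XT.nd (nat_lit 390) (nat_lit 836) (nat_lit 0) (XT.nd (nat_lit 156) (nat_lit 380) (nat_lit 0) (XT.nd (nat_lit 78) (nat_lit 304) (nat_lit 0) (XT.lf (nat_lit 0) (nat_lit 10176381160) (nat_lit 228) (nat_lit 5514548205) (nat_lit 304) (nat_lit 2754416363) (nat_lit 45) (nat_lit 5) (nat_lit 48) (nat_lit 5) (nat_lit 49) (nat_lit 5) (nat_lit 287) (nat_lit 269) (nat_lit 224)) (XT.lf (nat_lit 0) (nat_lit 2005814554) (nat_lit 304) (nat_lit 13150184836) (nat_lit 76) (nat_lit 4228898707) (nat_lit 41) (nat_lit 5) (nat_lit 45) (nat_lit 5) (nat_lit 42) (nat_lit 5) (nat_lit 288) (nat_lit 269) (nat_lit 223))) (XT.nd (nat_lit 78) (nat_lit 152) (nat_lit 0) (XT.lf (nat_lit 0) (nat_lit 1647279724) (nat_lit 228) (nat_lit 5622868210) (nat_lit 304) (nat_lit 13116291529) (nat_lit 38) (nat_lit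 5) (nat_lit 41) (nat_lit 5) (nat_lit 42) (nat_lit 5) (nat_lit 289) (nat_lit 269) (nat_lit 222)) (XT.nd (nat_lit 78) (nat_lit 152) (nat_lit 0) (XT.lf (nat_lit 0) (nat_lit 13216992029) (nat_lit 304) (nat_lit 3499594419) (nat_lit 76) (nat_lit 4738515964) (nat_lit 38) (nat_lit 5) (nat_lit 42) (nat_lit 5) (nat_lit 39) (nat_lit 5) (nat_lit 290) (nat_lit 269) (nat_lit 221)) (XT.lf (nat_lit 0) (nat_lit 13228112537) (nat_lit 152) (nat_lit 6671684761) (nat_lit 228) (nat_lit 2696511967) (nat_lit 36) (nat_lit 5) (nat_lit 38) (nat_lit 5) (nat_lit 39) (nat_lit 5) (nat_lit 291) (nat_lit 269) (nat_lit 220))))) (XT.nd (nat_lit 156) (nat_lit 380) (nat_lit 0) (XT.nd (nat_lit 78) (nat_lit 152) (nat_lit 0) (XT.lf (nat_lit 0) (nat_lit 3394902309) (nat_lit 304) (nat_lit 16157969760) (nat_lit 76) (nat_lit 4262840916) (nat_lit 32) (nat_lit 5) (nat_lit 36) (nat_lit 5) (nat_lit 33) (nat_lit 5) (nat_lit 292) (nat_lit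 269) (nat_lit 219)) (XT.lf (nat_lit 0) (nat_lit 1071975271) (nat_lit 152) (nat_lit 9065659211) (nat_lit 228) (nat_lit 14979950652) (nat_lit 30) (nat_lit 5) (nat_lit 32) (nat_lit 5) (nat_lit 33) (nat_lit 5) (nat_lit 293) (nat_lit 269) (nat_lit 218))) (XT.nd (nat_lit 78) (nat_lit 380) (nat_lit 0) (XT.lf (nat_lit 0) (nat_lit 17704922202) (nat_lit 228) (nat_lit 6348656037) (nat_lit 76) (nat_lit 2455818501) (nat_lit 30) (nat_lit 5) (nat_lit 33) (nat_lit 5) (nat_lit 31) (nat_lit 5) (nat_lit 294) (nat_lit 269) (nat_lit 217)) (XT.nd (nat_lit 78) (nat_lit 228) (nat_lit 0) (XT.lf (nat_lit 0) (nat_lit 12974103501) (nat_lit 152) (nat_lit 13225367187) (nat_lit 228) (nat_lit 1797031787) (nat_lit 28) (nat_lit 5) (nat_lit 30) (nat_lit 5) (nat_lit 31) (nat_lit 5) (nat_lit 295) (nat_lit 269) (nat_lit 216)) (XT.lf (nat_lit 0) (nat_lit 4472401098) (nat_lit 152) (nat_lit 1263720970) (nat_lit 228) (nat_lit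 23854496320) (nat_lit 25) (nat_lit 5) (nat_lit 27) (nat_lit 5) (nat_lit 28) (nat_lit 5) (nat_lit 296) (nat_lit 269) (nat_lit 215)))))) (XT.nd (nat_lit 390) (nat_lit 380) (nat_lit 0) (XT.nd (nat_lit 156) (nat_lit 304) (nat_lit 0) (XT.nd (nat_lit 78) (nat_lit 152) (nat_lit 0) (XT.lf (nat_lit 0) (nat_lit 14226693075) (nat_lit 228) (nat_lit 5502745431) (nat_lit 76) (nat_lit 11560501069) (nat_lit 25) (nat_lit 5) (nat_lit 28) (nat_lit 5) (nat_lit 26) (nat_lit 5) (nat_lit 297) (nat_lit 269) (nat_lit 214)) (XT.lf (nat_lit 0) (nat_lit 16130410882) (nat_lit 152) (nat_lit 7510495718) (nat_lit 228) (nat_lit 9472112590) (nat_lit 23) (nat_lit 5) (nat_lit 25) (nat_lit 5) (nat_lit 26) (nat_lit 5) (nat_lit 298) (nat_lit 269) (nat_lit 213))) (XT.nd (nat_lit 78) (nat_lit 228) (nat_lit 0) (XT.lf (nat_lit 0) (nat_lit 4625648222) (nat_lit 76) (nat_lit 29413441952) (nat_lit 152) (nat_lit 1031343513) (nat_lit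 22) (nat_lit 5) (nat_lit 23) (nat_lit 5) (nat_lit 24) (nat_lit 4) (nat_lit 299) (nat_lit 269) (nat_lit 212)) (XT.nd (nat_lit 78) (nat_lit 152) (nat_lit 0) (XT.lf (nat_lit 0) (nat_lit 8226562237) (nat_lit 152) (nat_lit 8902906919) (nat_lit 76) (nat_lit 20028655774) (nat_lit 21) (nat_lit 5) (nat_lit 23) (nat_lit 5) (nat_lit 22) (nat_lit 5) (nat_lit 300) (nat_lit 269) (nat_lit 211)) (XT.lf (nat_lit 0) (nat_lit 14776625204) (nat_lit 152) (nat_lit 3618825195) (nat_lit 228) (nat_lit 21006236177) (nat_lit 19) (nat_lit 5) (nat_lit 21) (nat_lit 5) (nat_lit 22) (nat_lit 5) (nat_lit 301) (nat_lit 269) (nat_lit 210))))) (XT.nd (nat_lit 234) (nat_lit 76) (nat_lit 0) (XT.nd (nat_lit 78) (nat_lit 304) (nat_lit 0) (XT.lf (nat_lit 0) (nat_lit 29683049205) (nat_lit 228) (nat_lit 1362801641) (nat_lit 76) (nat_lit 10763645133) (nat_lit 19) (nat_lit 5) (nat_lit 22) (nat_lit 5) (nat_lit 20) (nat_lit 4) (nat_lit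 302) (nat_lit 269) (nat_lit 209)) (XT.nd (nat_lit 78) (nat_lit 228) (nat_lit 0) (XT.lf (nat_lit 0) (nat_lit 24444378693) (nat_lit 76) (nat_lit 17849961203) (nat_lit 152) (nat_lit 2094577152) (nat_lit 18) (nat_lit 5) (nat_lit 19) (nat_lit 5) (nat_lit 20) (nat_lit 4) (nat_lit 303) (nat_lit 269) (nat_lit 208)) (XT.lf (nat_lit 0) (nat_lit 5183858003) (nat_lit 152) (nat_lit 3360043838) (nat_lit 228) (nat_lit 38619796445) (nat_lit 15) (nat_lit 5) (nat_lit 17) (nat_lit 5) (nat_lit 18) (nat_lit 5) (nat_lit 304) (nat_lit 269) (nat_lit 207)))) (XT.nd (nat_lit 78) (nat_lit 76) (nat_lit 0) (XT.lf (nat_lit 0) (nat_lit 20485567511) (nat_lit 228) (nat_lit 17376955074) (nat_lit 76) (nat_lit 12269965202) (nat_lit 15) (nat_lit 5) (nat_lit 18) (nat_lit 5) (nat_lit 16) (nat_lit 4) (nat_lit 305) (nat_lit 269) (nat_lit 206)) (XT.nd (nat_lit 78) (nat_lit 0) (nat_lit 0) (XT.lf (nat_lit 0) (nat_lit 9405461491)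 (nat_lit 76) (nat_lit 24161651364) (nat_lit 152) (nat_lit 19762456236) (nat_lit 14) (nat_lit 5) (nat_lit 15) (nat_lit 5) (nat_lit 16) (nat_lit 4) (nat_lit 306) (nat_lit 269) (nat_lit 205)) (XT.lf (nat_lit 0) (nat_lit 38919357819) (nat_lit 76) (nat_lit 9060473837) (nat_lit 152) (nat_lit 8788367534) (nat_lit 14) (nat_lit 5) (nat_lit 15) (nat_lit 5) (nat_lit 16) (nat_lit 4) (nat_lit 307) (nat_lit 269) (nat_lit 204))))))) (XT.nd (nat_lit 780) (nat_lit 304) (nat_lit 0) (XT.nd (nat_lit 390) (nat_lit 228) (nat_lit 0) (XT.nd (nat_lit 156) (nat_lit 76) (nat_lit 0) (XT.nd (nat_lit 78) (nat_lit 0) (nat_lit 0) (XT.lf (nat_lit 0) (nat_lit 3230136271) (nat_lit 152) (nat_lit 50015449971) (nat_lit 76) (nat_lit 7220727687) (nat_lit 12) (nat_lit 5) (nat_lit 14) (nat_lit 5) (nat_lit 13) (nat_lit 4) (nat_lit 308) (nat_lit 269) (nat_lit 203)) (XT.lf (nat_lit 0) (nat_lit 16358747001) (nat_lit 152) (nat_lit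 23128071095) (nat_lit 76) (nat_lit 24943441831) (nat_lit 12) (nat_lit 5) (nat_lit 14) (nat_lit 5) (nat_lit 13) (nat_lit 4) (nat_lit 309) (nat_lit 269) (nat_lit 202))) (XT.nd (nat_lit 78) (nat_lit 0) (nat_lit 0) (XT.lf (nat_lit 0) (nat_lit 6077788182) (nat_lit 76) (nat_lit 24539586252) (nat_lit 152) (nat_lit 38089971950) (nat_lit 11) (nat_lit 5) (nat_lit 12) (nat_lit 5) (nat_lit 13) (nat_lit 4) (nat_lit 310) (nat_lit 269) (nat_lit 201)) (XT.nd (nat_lit 78) (nat_lit 0) (nat_lit 0) (XT.lf (nat_lit 0) (nat_lit 38420150071) (nat_lit 76) (nat_lit 7984974048) (nat_lit 152) (nat_lit 26902064385) (nat_lit 11) (nat_lit 5) (nat_lit 12) (nat_lit 5) (nat_lit 13) (nat_lit 4) (nat_lit 311) (nat_lit 269) (nat_lit 200)) (XT.lf (nat_lit 0) (nat_lit 63596827802) (nat_lit 152) (nat_lit 5104049861) (nat_lit 0) (nat_lit 9567103209) (nat_lit 11) (nat_lit 5) (nat_lit 13) (nat_lit 4) (nat_lit 11) (nat_lit 4) (nat_lit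 312) (nat_lit 269) (nat_lit 199))))) (XT.nd (nat_lit 156) (nat_lit 76) (nat_lit 0) (XT.nd (nat_lit 78) (nat_lit 76) (nat_lit 0) (XT.lf (nat_lit 0) (nat_lit 27793866059) (nat_lit 76) (nat_lit 54926046854) (nat_lit 76) (nat_lit 877930330) (nat_lit 10) (nat_lit 4) (nat_lit 11) (nat_lit 5) (nat_lit 11) (nat_lit 4) (nat_lit 313) (nat_lit 269) (nat_lit 198)) (XT.lf (nat_lit 0) (nat_lit 13648279799) (nat_lit 152) (nat_lit 26086172500) (nat_lit 76) (nat_lit 49604795674) (nat_lit 9) (nat_lit 5) (nat_lit 11) (nat_lit 5) (nat_lit 10) (nat_lit 4) (nat_lit 314) (nat_lit 269) (nat_lit 197))) (XT.nd (nat_lit 78) (nat_lit 0) (nat_lit 0) (XT.lf (nat_lit 0) (nat_lit 6171336318) (nat_lit 76) (nat_lit 23220005399) (nat_lit 152) (nat_lit 66143635321) (nat_lit 8) (nat_lit 5) (nat_lit 9) (nat_lit 5) (nat_lit 10) (nat_lit 4) (nat_lit 315) (nat_lit 269) (nat_lit 196)) (XT.nd (nat_lit 78) (nat_lit 0) (nat_lit 0)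 (XT.lf (nat_lit 0) (nat_lit 41921424823) (nat_lit 76) (nat_lit 4916106461) (nat_lit 152) (nat_lit 55366655717) (nat_lit 8) (nat_lit 5) (nat_lit 9) (nat_lit 5) (nat_lit 10) (nat_lit 4) (nat_lit 316) (nat_lit 269) (nat_lit 195)) (XT.lf (nat_lit 0) (nat_lit 65901243958) (nat_lit 152) (nat_lit 29125772971) (nat_lit 0) (nat_lit 14368831645) (nat_lit 8) (nat_lit 5) (nat_lit 10) (nat_lit 4) (nat_lit 8) (nat_lit 4) (nat_lit 317) (nat_lit 269) (nat_lit 194)))))) (XT.nd (nat_lit 390) (nat_lit 76) (nat_lit 0) (XT.nd (nat_lit 156) (nat_lit 152) (nat_lit 0) (XT.nd (nat_lit 78) (nat_lit 0) (nat_lit 0) (XT.lf (nat_lit 0) (nat_lit 4570042742) (nat_lit 76) (nat_lit 82064946400) (nat_lit 76) (nat_lit 30520612907) (nat_lit 7) (nat_lit 4) (nat_lit 8) (nat_lit 5) (nat_lit 8) (nat_lit 4) (nat_lit 318) (nat_lit 269) (nat_lit 193)) (XT.lf (nat_lit 0) (nat_lit 41985231158) (nat_lit 76) (nat_lit 67540678891) (nat_lit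 76) (nat_lit 15985307269) (nat_lit 7) (nat_lit 4) (nat_lit 8) (nat_lit 5) (nat_lit 8) (nat_lit 4) (nat_lit 319) (nat_lit 269) (nat_lit 192))) (XT.nd (nat_lit 78) (nat_lit 152) (nat_lit 0) (XT.lf (nat_lit 0) (nat_lit 82378482322) (nat_lit 76) (nat_lit 51861403729) (nat_lit 76) (nat_lit 295811617) (nat_lit 7) (nat_lit 4) (nat_lit 8) (nat_lit 5) (nat_lit 8) (nat_lit 4) (nat_lit 320) (nat_lit 269) (nat_lit 191)) (XT.nd (nat_lit 78) (nat_lit 76) (nat_lit 0) (XT.lf (nat_lit 0) (nat_lit 16108237750) (nat_lit 152) (nat_lit 18553168140) (nat_lit 76) (nat_lit 109608125097) (nat_lit 6) (nat_lit 5) (nat_lit 8) (nat_lit 5) (nat_lit 7) (nat_lit 4) (nat_lit 321) (nat_lit 269) (nat_lit 190)) (XT.lf (nat_lit 0) (nat_lit 18306919024) (nat_lit 76) (nat_lit 15786123402) (nat_lit 152) (nat_lit 120674850342) (nat_lit 5) (nat_lit 5) (nat_lit 6) (nat_lit 5) (nat_lit 7) (nat_lit 4) (nat_lit 322) (nat_lit 269)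 (nat_lit 189))))) (XT.nd (nat_lit 234) (nat_lit 76) (nat_lit 0) (XT.nd (nat_lit 78) (nat_lit 0) (nat_lit 0) (XT.lf (nat_lit 0) (nat_lit 53909996465) (nat_lit 152) (nat_lit 107401638713) (nat_lit 0) (nat_lit 4774823792) (nat_lit 5) (nat_lit 5) (nat_lit 7) (nat_lit 4) (nat_lit 5) (nat_lit 4) (nat_lit 323) (nat_lit 269) (nat_lit 188)) (XT.nd (nat_lit 78) (nat_lit 0) (nat_lit 0) (XT.lf (nat_lit 0) (nat_lit 75572079102) (nat_lit 152) (nat_lit 76295694408) (nat_lit 0) (nat_lit 26429751796) (nat_lit 5) (nat_lit 5) (nat_lit 7) (nat_lit 4) (nat_lit 5) (nat_lit 4) (nat_lit 324) (nat_lit 269) (nat_lit 187)) (XT.lf (nat_lit 0) (nat_lit 98961192608) (nat_lit 152) (nat_lit 42712343681) (nat_lit 0) (nat_lit 49812240641) (nat_lit 5) (nat_lit 5) (nat_lit 7) (nat_lit 4) (nat_lit 5) (nat_lit 4) (nat_lit 325) (nat_lit 269) (nat_lit 186)))) (XT.nd (nat_lit 78) (nat_lit 76) (nat_lit 0) (XT.lf (nat_lit 0) (nat_lit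 124215939138) (nat_lit 152) (nat_lit 6452574083) (nat_lit 0) (nat_lit 75060853226) (nat_lit 5) (nat_lit 5) (nat_lit 7) (nat_lit 4) (nat_lit 5) (nat_lit 4) (nat_lit 326) (nat_lit 269) (nat_lit 185)) (XT.nd (nat_lit 78) (nat_lit 0) (nat_lit 0) (XT.lf (nat_lit 0) (nat_lit 33779646747) (nat_lit 76) (nat_lit 118233724653) (nat_lit 76) (nat_lit 69072959162) (nat_lit 4) (nat_lit 4) (nat_lit 5) (nat_lit 5) (nat_lit 5) (nat_lit 4) (nat_lit 327) (nat_lit 269) (nat_lit 184)) (XT.lf (nat_lit 0) (nat_lit 77451787019) (nat_lit 76) (nat_lit 104690357194) (nat_lit 76) (nat_lit 55524332833) (nat_lit 4) (nat_lit 4) (nat_lit 5) (nat_lit 5) (nat_lit 5) (nat_lit 4) (nat_lit 328) (nat_lit 269) (nat_lit 183))))))))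
noncomputable def xc67 : XT := (XT.nd (nat_lit 36192) (nat_lit 0) (nat_lit 2356) (XT.nd (nat_lit 780) (nat_lit 76) (nat_lit 0) (XT.nd (nat_lit 390) (nat_lit 0) (nat_lit 0) (XT.nd (nat_lit 156) (nat_lit 152) (nat_lit 0) (XT.nd (nat_lit 78) (nat_lit 0) (nat_lit 0) (XT.lf (nat_lit 0) (nat_lit 124609293359) (nat_lit 76) (nat_lit 90067431315) (nat_lit 76) (nat_lit 40896537631) (nat_lit 4) (nat_lit 4) (nat_lit 5) (nat_lit 5) (nat_lit 5) (nat_lit 4) (nat_lit 329) (nat_lit 269) (nat_lit 182)) (XT.lf (nat_lit 0) (nat_lit 175531617658) (nat_lit 76) (nat_lit 74278292641) (nat_lit 76) (nat_lit 25102890324) (nat_lit 4) (nat_lit 4) (nat_lit 5) (nat_lit 5) (nat_lit 5) (nat_lit 4) (nat_lit 330) (nat_lit 269) (nat_lit 181))) (XT.nd (nat_lit 78) (nat_lit 152) (nat_lit 0) (XT.lf (nat_lit 0) (nat_lit 230520521836) (nat_lit 76) (nat_lit 57229375906) (nat_lit 76) (nat_lit 8049798929) (nat_lit 4) (nat_lit 4)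 (nat_lit 5) (nat_lit 5) (nat_lit 5) (nat_lit 4) (nat_lit 331) (nat_lit 269) (nat_lit 180)) (XT.nd (nat_lit 78) (nat_lit 76) (nat_lit 0) (XT.lf (nat_lit 0) (nat_lit 10032085845) (nat_lit 152) (nat_lit 28617666419) (nat_lit 76) (nat_lit 279699881994) (nat_lit 3) (nat_lit 5) (nat_lit 5) (nat_lit 5) (nat_lit 4) (nat_lit 4) (nat_lit 332) (nat_lit 269) (nat_lit 179)) (XT.lf (nat_lit 0) (nat_lit 11192982961) (nat_lit 76) (nat_lit 18260677751) (nat_lit 152) (nat_lit 313234551334) (nat_lit 2) (nat_lit 5) (nat_lit 3) (nat_lit 5) (nat_lit 4) (nat_lit 4) (nat_lit 333) (nat_lit 269) (nat_lit 178))))) (XT.nd (nat_lit 156) (nat_lit 0) (nat_lit 0) (XT.nd (nat_lit 78) (nat_lit 0) (nat_lit 0) (XT.lf (nat_lit 0) (nat_lit 50991083476) (nat_lit 152) (nat_lit 313811543085) (nat_lit 0) (nat_lit 4143144924) (nat_lit 2) (nat_lit 5) (nat_lit 4) (nat_lit 4) (nat_lit 2) (nat_lit 4) (nat_lit 334) (nat_lit 269) (nat_lit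 177)) (XT.lf (nat_lit 0) (nat_lit 74556400836) (nat_lit 152) (nat_lit 295026751311) (nat_lit 0) (nat_lit 27705539903) (nat_lit 2) (nat_lit 5) (nat_lit 4) (nat_lit 4) (nat_lit 2) (nat_lit 4) (nat_lit 335) (nat_lit 269) (nat_lit 176))) (XT.nd (nat_lit 78) (nat_lit 0) (nat_lit 0) (XT.lf (nat_lit 0) (nat_lit 100004158762) (nat_lit 152) (nat_lit 274744436123) (nat_lit 0) (nat_lit 53150591920) (nat_lit 2) (nat_lit 5) (nat_lit 4) (nat_lit 4) (nat_lit 2) (nat_lit 4) (nat_lit 336) (nat_lit 269) (nat_lit 175)) (XT.nd (nat_lit 78) (nat_lit 0) (nat_lit 0) (XT.lf (nat_lit 0) (nat_lit 127485158782) (nat_lit 152) (nat_lit 252844406025) (nat_lit 0) (nat_lit 80629086470) (nat_lit 2) (nat_lit 5) (nat_lit 4) (nat_lit 4) (nat_lit 2) (nat_lit 4) (nat_lit 337) (nat_lit 269) (nat_lit 174)) (XT.lf (nat_lit 0) (nat_lit 157162251268) (nat_lit 152) (nat_lit 229196883060) (nat_lit 0) (nat_lit 110303859076) (nat_lit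 2) (nat_lit 5) (nat_lit 4) (nat_lit 4) (nat_lit 2) (nat_lit 4) (nat_lit 338) (nat_lit 269) (nat_lit 173)))))) (XT.nd (nat_lit 390) (nat_lit 76) (nat_lit 0) (XT.nd (nat_lit 156) (nat_lit 0) (nat_lit 0) (XT.nd (nat_lit 78) (nat_lit 0) (nat_lit 0) (XT.lf (nat_lit 0) (nat_lit 189211300470) (nat_lit 152) (nat_lit 203661733759) (nat_lit 0) (nat_lit 142350760241) (nat_lit 2) (nat_lit 5) (nat_lit 4) (nat_lit 4) (nat_lit 2) (nat_lit 4) (nat_lit 339) (nat_lit 269) (nat_lit 172)) (XT.lf (nat_lit 0) (nat_lit 223822226680) (nat_lit 152) (nat_lit 176087638718) (nat_lit 0) (nat_lit 176959697528) (nat_lit 2) (nat_lit 5) (nat_lit 4) (nat_lit 4) (nat_lit 2) (nat_lit 4) (nat_lit 340) (nat_lit 269) (nat_lit 171))) (XT.nd (nat_lit 78) (nat_lit 0) (nat_lit 0) (XT.lf (nat_lit 0) (nat_lit 261200131684) (nat_lit 152) (nat_lit 146311195893) (nat_lit 0) (nat_lit 214335760936) (nat_lit 2) (nat_lit 5) (nat_lit 4)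 (nat_lit 4) (nat_lit 2) (nat_lit 4) (nat_lit 341) (nat_lit 269) (nat_lit 170)) (XT.nd (nat_lit 78) (nat_lit 0) (nat_lit 0) (XT.lf (nat_lit 0) (nat_lit 301566514177) (nat_lit 152) (nat_lit 114155952290) (nat_lit 0) (nat_lit 254700438248) (nat_lit 2) (nat_lit 5) (nat_lit 4) (nat_lit 4) (nat_lit 2) (nat_lit 4) (nat_lit 342) (nat_lit 269) (nat_lit 169)) (XT.lf (nat_lit 0) (nat_lit 345160582352) (nat_lit 152) (nat_lit 79431358316) (nat_lit 0) (nat_lit 298292927551) (nat_lit 2) (nat_lit 5) (nat_lit 4) (nat_lit 4) (nat_lit 2) (nat_lit 4) (nat_lit 343) (nat_lit 269) (nat_lit 168))))) (XT.nd (nat_lit 234) (nat_lit 0) (nat_lit 0) (XT.nd (nat_lit 78) (nat_lit 76) (nat_lit 0) (XT.lf (nat_lit 0) (nat_lit 392240671428) (nat_lit 152) (nat_lit 41931638599) (nat_lit 0) (nat_lit 345371554710) (nat_lit 2) (nat_lit 5) (nat_lit 4) (nat_lit 4) (nat_lit 2) (nat_lit 4) (nat_lit 344) (nat_lit 269) (nat_lit 167))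 (XT.nd (nat_lit 78) (nat_lit 76) (nat_lit 0) (XT.lf (nat_lit 0) (nat_lit 443085774525) (nat_lit 152) (nat_lit 1434572580) (nat_lit 0) (nat_lit 396215304179) (nat_lit 2) (nat_lit 5) (nat_lit 4) (nat_lit 4) (nat_lit 2) (nat_lit 4) (nat_lit 345) (nat_lit 269) (nat_lit 166)) (XT.lf (nat_lit 0) (nat_lit 43698445514) (nat_lit 76) (nat_lit 454981005644) (nat_lit 76) (nat_lit 408109281939) (nat_lit 1) (nat_lit 4) (nat_lit 2) (nat_lit 5) (nat_lit 2) (nat_lit 4) (nat_lit 346) (nat_lit 269) (nat_lit 165)))) (XT.nd (nat_lit 34632) (nat_lit 0) (nat_lit 6992) (XT.lf (nat_lit 0) (nat_lit 92491002697) (nat_lit 76) (nat_lit 466253377805) (nat_lit 76) (nat_lit 419380493582) (nat_lit 1) (nat_lit 4) (nat_lit 2) (nat_lit 5) (nat_lit 2) (nat_lit 4) (nat_lit 347) (nat_lit 269) (nat_lit 164)) (XT.nd (nat_lit 78) (nat_lit 0) (nat_lit 0) (XT.lf (nat_lit 0) (nat_lit 2572650743) (nat_lit 684) (nat_lit 1061184619)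 (nat_lit 684) (nat_lit 1061184619) (nat_lit 93) (nat_lit 3) (nat_lit 102) (nat_lit 3) (nat_lit 102) (nat_lit 5) (nat_lit 270) (nat_lit 270) (nat_lit 240)) (XT.lf (nat_lit 76) (nat_lit 4790136743) (nat_lit 0) (nat_lit 1818835970) (nat_lit 684) (nat_lit 3090787712) (nat_lit 94) (nat_lit 5) (nat_lit 93) (nat_lit 3) (nat_lit 102) (nat_lit 5) (nat_lit 271) (nat_lit 270) (nat_lit 239))))))) (XT.nd (nat_lit 858) (nat_lit 2356) (nat_lit 0) (XT.nd (nat_lit 390) (nat_lit 1748) (nat_lit 0) (XT.nd (nat_lit 156) (nat_lit 608) (nat_lit 0) (XT.nd (nat_lit 78) (nat_lit 0) (nat_lit 76) (XT.lf (nat_lit 76) (nat_lit 2234993180) (nat_lit 0) (nat_lit 5972185747) (nat_lit 684) (nat_lit 1826506492) (nat_lit 95) (nat_lit 5) (nat_lit 94) (nat_lit 5) (nat_lit 103) (nat_lit 5) (nat_lit 272) (nat_lit 270) (nat_lit 238)) (XT.lf (nat_lit 0) (nat_lit 9939518361) (nat_lit 608) (nat_lit 369287876) (nat_lit 684) (nat_lit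 85481158) (nat_lit 95) (nat_lit 5) (nat_lit 103) (nat_lit 5) (nat_lit 104) (nat_lit 5) (nat_lit 273) (nat_lit 270) (nat_lit 237))) (XT.nd (nat_lit 78) (nat_lit 0) (nat_lit 76) (XT.lf (nat_lit 0) (nat_lit 1114997347) (nat_lit 684) (nat_lit 3064073740) (nat_lit 760) (nat_lit 6598051509) (nat_lit 86) (nat_lit 5) (nat_lit 95) (nat_lit 5) (nat_lit 96) (nat_lit 5) (nat_lit 274) (nat_lit 270) (nat_lit 236)) (XT.nd (nat_lit 78) (nat_lit 0) (nat_lit 0) (XT.lf (nat_lit 0) (nat_lit 2827722799) (nat_lit 684) (nat_lit 5872018662) (nat_lit 760) (nat_lit 2489030883) (nat_lit 87) (nat_lit 5) (nat_lit 96) (nat_lit 5) (nat_lit 97) (nat_lit 5) (nat_lit 275) (nat_lit 270) (nat_lit 235)) (XT.lf (nat_lit 76) (nat_lit 2792981241) (nat_lit 0) (nat_lit 1962096771) (nat_lit 760) (nat_lit 6874604755) (nat_lit 88) (nat_lit 5) (nat_lit 87) (nat_lit 5) (nat_lit 97) (nat_lit 5) (nat_lit 276) (nat_lit 270) (nat_lit 234)))))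 (XT.nd (nat_lit 234) (nat_lit 760) (nat_lit 0) (XT.nd (nat_lit 78) (nat_lit 456) (nat_lit 0) (XT.lf (nat_lit 0) (nat_lit 105410673) (nat_lit 684) (nat_lit 6834986378) (nat_lit 760) (nat_lit 5160473981) (nat_lit 79) (nat_lit 5) (nat_lit 88) (nat_lit 5) (nat_lit 89) (nat_lit 5) (nat_lit 277) (nat_lit 270) (nat_lit 233)) (XT.nd (nat_lit 78) (nat_lit 456) (nat_lit 0) (XT.lf (nat_lit 0) (nat_lit 9416245332) (nat_lit 760) (nat_lit 2639405873) (nat_lit 76) (nat_lit 548497393) (nat_lit 79) (nat_lit 5) (nat_lit 89) (nat_lit 5) (nat_lit 80) (nat_lit 5) (nat_lit 278) (nat_lit 270) (nat_lit 232)) (XT.lf (nat_lit 0) (nat_lit 7521598036) (nat_lit 456) (nat_lit 4727657183) (nat_lit 532) (nat_lit 890644598) (nat_lit 73) (nat_lit 5) (nat_lit 79) (nat_lit 5) (nat_lit 80) (nat_lit 5) (nat_lit 279) (nat_lit 270) (nat_lit 231)))) (XT.nd (nat_lit 78) (nat_lit 304) (nat_lit 0) (XT.lf (nat_lit 0) (nat_lit 1645076764)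 (nat_lit 456) (nat_lit 8829497699) (nat_lit 76) (nat_lit 3237562420) (nat_lit 67) (nat_lit 5) (nat_lit 73) (nat_lit 5) (nat_lit 68) (nat_lit 5) (nat_lit 280) (nat_lit 270) (nat_lit 230)) (XT.nd (nat_lit 78) (nat_lit 0) (nat_lit 0) (XT.lf (nat_lit 0) (nat_lit 1997639246) (nat_lit 304) (nat_lit 2499361965) (nat_lit 380) (nat_lit 9825329855) (nat_lit 63) (nat_lit 5) (nat_lit 67) (nat_lit 5) (nat_lit 68) (nat_lit 5) (nat_lit 281) (nat_lit 270) (nat_lit 229)) (XT.lf (nat_lit 0) (nat_lit 7766434957) (nat_lit 380) (nat_lit 1134552683) (nat_lit 76) (nat_lit 6071010980) (nat_lit 63) (nat_lit 5) (nat_lit 68) (nat_lit 5) (nat_lit 64) (nat_lit 5) (nat_lit 282) (nat_lit 270) (nat_lit 228)))))) (XT.nd (nat_lit 390) (nat_lit 1216) (nat_lit 0) (XT.nd (nat_lit 156) (nat_lit 608) (nat_lit 0) (XT.nd (nat_lit 78) (nat_lit 228) (nat_lit 0) (XT.lf (nat_lit 0) (nat_lit 11203177475) (nat_lit 304) (nat_lit 253501995)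 (nat_lit 380) (nat_lit 4209113604) (nat_lit 59) (nat_lit 5) (nat_lit 63) (nat_lit 5) (nat_lit 64) (nat_lit 5) (nat_lit 283) (nat_lit 270) (nat_lit 227)) (XT.lf (nat_lit 0) (nat_lit 8210971506) (nat_lit 228) (nat_lit 7466728301) (nat_lit 304) (nat_lit 725721147) (nat_lit 56) (nat_lit 5) (nat_lit 59) (nat_lit 5) (nat_lit 60) (nat_lit 5) (nat_lit 284) (nat_lit 270) (nat_lit 226))) (XT.nd (nat_lit 78) (nat_lit 228) (nat_lit 0) (XT.lf (nat_lit 0) (nat_lit 3075530492) (nat_lit 380) (nat_lit 12318839745) (nat_lit 76) (nat_lit 1796595012) (nat_lit 51) (nat_lit 5) (nat_lit 56) (nat_lit 5) (nat_lit 52) (nat_lit 5) (nat_lit 285) (nat_lit 270) (nat_lit 225)) (XT.nd (nat_lit 78) (nat_lit 0) (nat_lit 0) (XT.lf (nat_lit 0) (nat_lit 1071150811) (nat_lit 228) (nat_lit 6322657616) (nat_lit 304) (nat_lit 10635280137) (nat_lit 48) (nat_lit 5) (nat_lit 51) (nat_lit 5) (nat_lit 52) (nat_lit 5) (nat_lit 286)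 (nat_lit 270) (nat_lit 224)) (XT.lf (nat_lit 0) (nat_lit 12282781482) (nat_lit 304) (nat_lit 3071250207) (nat_lit 76) (nat_lit 3569049824) (nat_lit 48) (nat_lit 5) (nat_lit 52) (nat_lit 5) (nat_lit 49) (nat_lit 5) (nat_lit 287) (nat_lit 270) (nat_lit 223))))) (XT.nd (nat_lit 234) (nat_lit 456) (nat_lit 0) (XT.nd (nat_lit 78) (nat_lit 532) (nat_lit 0) (XT.lf (nat_lit 0) (nat_lit 12151087077) (nat_lit 228) (nat_lit 5664477527) (nat_lit 304) (nat_lit 2060470064) (nat_lit 45) (nat_lit 5) (nat_lit 48) (nat_lit 5) (nat_lit 49) (nat_lit 5) (nat_lit 288) (nat_lit 270) (nat_lit 222)) (XT.nd (nat_lit 78) (nat_lit 228) (nat_lit 0) (XT.lf (nat_lit 0) (nat_lit 3008266897) (nat_lit 304) (nat_lit 13024269118) (nat_lit 76) (nat_lit 4859757681) (nat_lit 41) (nat_lit 5) (nat_lit 45) (nat_lit 5) (nat_lit 42) (nat_lit 5) (nat_lit 289) (nat_lit 270) (nat_lit 221)) (XT.lf (nat_lit 0) (nat_lit 2905801183) (nat_lit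 228) (nat_lit 5743167899) (nat_lit 304) (nat_lit 13327324249) (nat_lit 38) (nat_lit 5) (nat_lit 41) (nat_lit 5) (nat_lit 42) (nat_lit 5) (nat_lit 290) (nat_lit 270) (nat_lit 220)))) (XT.nd (nat_lit 78) (nat_lit 456) (nat_lit 0) (XT.lf (nat_lit 0) (nat_lit 15017271943) (nat_lit 304) (nat_lit 2703029114) (nat_lit 76) (nat_lit 5412951647) (nat_lit 38) (nat_lit 5) (nat_lit 42) (nat_lit 5) (nat_lit 39) (nat_lit 5) (nat_lit 291) (nat_lit 270) (nat_lit 219)) (XT.nd (nat_lit 78) (nat_lit 304) (nat_lit 0) (XT.lf (nat_lit 0) (nat_lit 15316109592) (nat_lit 152) (nat_lit 6879638142) (nat_lit 228) (nat_lit 2172038426) (nat_lit 36) (nat_lit 5) (nat_lit 38) (nat_lit 5) (nat_lit 39) (nat_lit 5) (nat_lit 292) (nat_lit 270) (nat_lit 218)) (XT.lf (nat_lit 0) (nat_lit 4350813964) (nat_lit 304) (nat_lit 16412288218) (nat_lit 76) (nat_lit 4922744009) (nat_lit 32) (nat_lit 5) (nat_lit 36) (nat_lit 5) (nat_lit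 33) (nat_lit 5) (nat_lit 293) (nat_lit 270) (nat_lit 217))))))))
noncomputable def xc68 : XT := (XT.nd (nat_lit 1638) (nat_lit 608) (nat_lit 0) (XT.nd (nat_lit 780) (nat_lit 684) (nat_lit 0) (XT.nd (nat_lit 390) (nat_lit 456) (nat_lit 0) (XT.nd (nat_lit 156) (nat_lit 380) (nat_lit 0) (XT.nd (nat_lit 78) (nat_lit 0) (nat_lit 0) (XT.lf (nat_lit 0) (nat_lit 2150928332) (nat_lit 152) (nat_lit 9446852605) (nat_lit 228) (nat_lit 15495913612) (nat_lit 30) (nat_lit 5) (nat_lit 32) (nat_lit 5) (nat_lit 33) (nat_lit 5) (nat_lit 294) (nat_lit 270) (nat_lit 216)) (XT.lf (nat_lit 0) (nat_lit 19727341374) (nat_lit 228) (nat_lit 5911066387) (nat_lit 76) (nat_lit 2960661107) (nat_lit 30) (nat_lit 5) (nat_lit 33) (nat_lit 5) (nat_lit 31) (nat_lit 5) (nat_lit 295) (nat_lit 270) (nat_lit 215))) (XT.nd (nat_lit 78) (nat_lit 228) (nat_lit 0) (XT.lf (nat_lit 0) (nat_lit 14916424413) (nat_lit 152) (nat_lit 13954258658)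 (nat_lit 228) (nat_lit 1336056176) (nat_lit 28) (nat_lit 5) (nat_lit 30) (nat_lit 5) (nat_lit 31) (nat_lit 5) (nat_lit 296) (nat_lit 270) (nat_lit 214)) (XT.nd (nat_lit 78) (nat_lit 0) (nat_lit 0) (XT.lf (nat_lit 0) (nat_lit 5714452793) (nat_lit 152) (nat_lit 1036385882) (nat_lit 228) (nat_lit 25178602315) (nat_lit 25) (nat_lit 5) (nat_lit 27) (nat_lit 5) (nat_lit 28) (nat_lit 5) (nat_lit 297) (nat_lit 270) (nat_lit 213)) (XT.lf (nat_lit 0) (nat_lit 15884230925) (nat_lit 228) (nat_lit 5102632917) (nat_lit 76) (nat_lit 12779712327) (nat_lit 25) (nat_lit 5) (nat_lit 28) (nat_lit 5) (nat_lit 26) (nat_lit 5) (nat_lit 298) (nat_lit 270) (nat_lit 212))))) (XT.nd (nat_lit 156) (nat_lit 228) (nat_lit 0) (XT.nd (nat_lit 78) (nat_lit 76) (nat_lit 0) (XT.lf (nat_lit 0) (nat_lit 18224656090) (nat_lit 152) (nat_lit 7801000953) (nat_lit 228) (nat_lit 9711184923) (nat_lit 23) (nat_lit 5) (nat_lit 25)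 (nat_lit 5) (nat_lit 26) (nat_lit 5) (nat_lit 299) (nat_lit 270) (nat_lit 211)) (XT.lf (nat_lit 0) (nat_lit 5784067871) (nat_lit 76) (nat_lit 31451868431) (nat_lit 152) (nat_lit 615941632) (nat_lit 22) (nat_lit 5) (nat_lit 23) (nat_lit 5) (nat_lit 24) (nat_lit 4) (nat_lit 300) (nat_lit 270) (nat_lit 210))) (XT.nd (nat_lit 78) (nat_lit 152) (nat_lit 0) (XT.lf (nat_lit 0) (nat_lit 9330958653) (nat_lit 152) (nat_lit 8869968660) (nat_lit 76) (nat_lit 21907089152) (nat_lit 21) (nat_lit 5) (nat_lit 23) (nat_lit 5) (nat_lit 22) (nat_lit 5) (nat_lit 301) (nat_lit 270) (nat_lit 209)) (XT.nd (nat_lit 78) (nat_lit 0) (nat_lit 0) (XT.lf (nat_lit 0) (nat_lit 16671541818) (nat_lit 152) (nat_lit 3619887504) (nat_lit 228) (nat_lit 22240763104) (nat_lit 19) (nat_lit 5) (nat_lit 21) (nat_lit 5) (nat_lit 22) (nat_lit 5) (nat_lit 302) (nat_lit 270) (nat_lit 208)) (XT.lf (nat_lit 0) (nat_lit 32454773054) (nat_lit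 228) (nat_lit 795981086) (nat_lit 76) (nat_lit 11883266102) (nat_lit 19) (nat_lit 5) (nat_lit 22) (nat_lit 5) (nat_lit 20) (nat_lit 4) (nat_lit 303) (nat_lit 270) (nat_lit 207)))))) (XT.nd (nat_lit 390) (nat_lit 304) (nat_lit 0) (XT.nd (nat_lit 156) (nat_lit 76) (nat_lit 0) (XT.nd (nat_lit 78) (nat_lit 228) (nat_lit 0) (XT.lf (nat_lit 0) (nat_lit 27046402288) (nat_lit 76) (nat_lit 19009244645) (nat_lit 152) (nat_lit 1865142321) (nat_lit 18) (nat_lit 5) (nat_lit 19) (nat_lit 5) (nat_lit 20) (nat_lit 4) (nat_lit 304) (nat_lit 270) (nat_lit 206)) (XT.lf (nat_lit 0) (nat_lit 6229421034) (nat_lit 152) (nat_lit 3363670592) (nat_lit 228) (nat_lit 41325107206) (nat_lit 15) (nat_lit 5) (nat_lit 17) (nat_lit 5) (nat_lit 18) (nat_lit 5) (nat_lit 305) (nat_lit 270) (nat_lit 205))) (XT.nd (nat_lit 78) (nat_lit 76) (nat_lit 0) (XT.lf (nat_lit 0) (nat_lit 22466836792) (nat_lit 228) (nat_lit 18169602634)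 (nat_lit 76) (nat_lit 13489237826) (nat_lit 15) (nat_lit 5) (nat_lit 18) (nat_lit 5) (nat_lit 16) (nat_lit 4) (nat_lit 306) (nat_lit 270) (nat_lit 204)) (XT.nd (nat_lit 78) (nat_lit 0) (nat_lit 0) (XT.lf (nat_lit 0) (nat_lit 10729440251) (nat_lit 76) (nat_lit 25849024151) (nat_lit 152) (nat_lit 21000904087) (nat_lit 14) (nat_lit 5) (nat_lit 15) (nat_lit 5) (nat_lit 16) (nat_lit 4) (nat_lit 307) (nat_lit 270) (nat_lit 203)) (XT.lf (nat_lit 0) (nat_lit 42562111853) (nat_lit 76) (nat_lit 9557942002) (nat_lit 152) (nat_lit 9174262262) (nat_lit 14) (nat_lit 5) (nat_lit 15) (nat_lit 5) (nat_lit 16) (nat_lit 4) (nat_lit 308) (nat_lit 270) (nat_lit 202))))) (XT.nd (nat_lit 234) (nat_lit 76) (nat_lit 0) (XT.nd (nat_lit 78) (nat_lit 76) (nat_lit 0) (XT.lf (nat_lit 0) (nat_lit 3784380452) (nat_lit 152) (nat_lit 53489202796) (nat_lit 76) (nat_lit 8015026119) (nat_lit 12) (nat_lit 5) (nat_lit 14) (nat_lit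 5) (nat_lit 13) (nat_lit 4) (nat_lit 309) (nat_lit 270) (nat_lit 201)) (XT.nd (nat_lit 78) (nat_lit 76) (nat_lit 0) (XT.lf (nat_lit 0) (nat_lit 17941366463) (nat_lit 152) (nat_lit 24489906438) (nat_lit 76) (nat_lit 27139509970) (nat_lit 12) (nat_lit 5) (nat_lit 14) (nat_lit 5) (nat_lit 13) (nat_lit 4) (nat_lit 310) (nat_lit 270) (nat_lit 200)) (XT.lf (nat_lit 0) (nat_lit 7031195862) (nat_lit 76) (nat_lit 26296491942) (nat_lit 152) (nat_lit 40863013210) (nat_lit 11) (nat_lit 5) (nat_lit 12) (nat_lit 5) (nat_lit 13) (nat_lit 4) (nat_lit 311) (nat_lit 270) (nat_lit 199)))) (XT.nd (nat_lit 78) (nat_lit 76) (nat_lit 0) (XT.lf (nat_lit 0) (nat_lit 41926340434) (nat_lit 76) (nat_lit 8432789369) (nat_lit 152) (nat_lit 28800380928) (nat_lit 11) (nat_lit 5) (nat_lit 12) (nat_lit 5) (nat_lit 13) (nat_lit 4) (nat_lit 312) (nat_lit 270) (nat_lit 198)) (XT.nd (nat_lit 78) (nat_lit 76) (nat_lit 0) (XT.lf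 (nat_lit 0) (nat_lit 68911034701) (nat_lit 152) (nat_lit 5103254001) (nat_lit 0) (nat_lit 10503647361) (nat_lit 11) (nat_lit 5) (nat_lit 13) (nat_lit 4) (nat_lit 11) (nat_lit 4) (nat_lit 313) (nat_lit 270) (nat_lit 197)) (XT.lf (nat_lit 0) (nat_lit 30408715343) (nat_lit 76) (nat_lit 59144586327) (nat_lit 76) (nat_lit 721430871) (nat_lit 10) (nat_lit 4) (nat_lit 11) (nat_lit 5) (nat_lit 11) (nat_lit 4) (nat_lit 314) (nat_lit 270) (nat_lit 196))))))) (XT.nd (nat_lit 780) (nat_lit 228) (nat_lit 0) (XT.nd (nat_lit 390) (nat_lit 152) (nat_lit 0) (XT.nd (nat_lit 156) (nat_lit 76) (nat_lit 0) (XT.nd (nat_lit 78) (nat_lit 76) (nat_lit 0) (XT.lf (nat_lit 0) (nat_lit 14943361613) (nat_lit 152) (nat_lit 27803864254) (nat_lit 76) (nat_lit 53728870128) (nat_lit 9) (nat_lit 5) (nat_lit 11) (nat_lit 5) (nat_lit 10) (nat_lit 4) (nat_lit 315) (nat_lit 270) (nat_lit 195)) (XT.lf (nat_lit 0) (nat_lit 7018200198)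 (nat_lit 76) (nat_lit 24918128767) (nat_lit 152) (nat_lit 71231641091) (nat_lit 8) (nat_lit 5) (nat_lit 9) (nat_lit 5) (nat_lit 10) (nat_lit 4) (nat_lit 316) (nat_lit 270) (nat_lit 194))) (XT.nd (nat_lit 78) (nat_lit 76) (nat_lit 0) (XT.lf (nat_lit 0) (nat_lit 45602136008) (nat_lit 76) (nat_lit 5161731029) (nat_lit 152) (nat_lit 59607576086) (nat_lit 8) (nat_lit 5) (nat_lit 9) (nat_lit 5) (nat_lit 10) (nat_lit 4) (nat_lit 317) (nat_lit 270) (nat_lit 193)) (XT.nd (nat_lit 78) (nat_lit 76) (nat_lit 0) (XT.lf (nat_lit 0) (nat_lit 71341527455) (nat_lit 152) (nat_lit 31146787966) (nat_lit 0) (nat_lit 15650687974) (nat_lit 8) (nat_lit 5) (nat_lit 10) (nat_lit 4) (nat_lit 8) (nat_lit 4) (nat_lit 318) (nat_lit 270) (nat_lit 192)) (XT.lf (nat_lit 0) (nat_lit 5231262204) (nat_lit 76) (nat_lit 88494867370) (nat_lit 76) (nat_lit 32793807399) (nat_lit 7) (nat_lit 4) (nat_lit 8) (nat_lit 5) (nat_lit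 8) (nat_lit 4) (nat_lit 319) (nat_lit 270) (nat_lit 191))))) (XT.nd (nat_lit 156) (nat_lit 152) (nat_lit 0) (XT.nd (nat_lit 78) (nat_lit 0) (nat_lit 0) (XT.lf (nat_lit 0) (nat_lit 45617768209) (nat_lit 76) (nat_lit 72818678813) (nat_lit 76) (nat_lit 17108155425) (nat_lit 7) (nat_lit 4) (nat_lit 8) (nat_lit 5) (nat_lit 8) (nat_lit 4) (nat_lit 320) (nat_lit 270) (nat_lit 190)) (XT.lf (nat_lit 0) (nat_lit 89222204017) (nat_lit 76) (nat_lit 55894339741) (nat_lit 76) (nat_lit 175053930) (nat_lit 7) (nat_lit 4) (nat_lit 8) (nat_lit 5) (nat_lit 8) (nat_lit 4) (nat_lit 321) (nat_lit 270) (nat_lit 189))) (XT.nd (nat_lit 78) (nat_lit 76) (nat_lit 0) (XT.lf (nat_lit 0) (nat_lit 17526341391) (nat_lit 152) (nat_lit 19798399311) (nat_lit 76) (nat_lit 118479807822) (nat_lit 6) (nat_lit 5) (nat_lit 8) (nat_lit 5) (nat_lit 7) (nat_lit 4) (nat_lit 322) (nat_lit 270) (nat_lit 188)) (XT.nd (nat_lit 78) (nat_lit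 0) (nat_lit 0) (XT.lf (nat_lit 0) (nat_lit 20000107209) (nat_lit 76) (nat_lit 16943804371) (nat_lit 152) (nat_lit 130199173999) (nat_lit 5) (nat_lit 5) (nat_lit 6) (nat_lit 5) (nat_lit 7) (nat_lit 4) (nat_lit 323) (nat_lit 270) (nat_lit 187)) (XT.lf (nat_lit 0) (nat_lit 58338600224) (nat_lit 152) (nat_lit 115777815487) (nat_lit 0) (nat_lit 5251107439) (nat_lit 5) (nat_lit 5) (nat_lit 7) (nat_lit 4) (nat_lit 5) (nat_lit 4) (nat_lit 324) (nat_lit 270) (nat_lit 186)))))) (XT.nd (nat_lit 390) (nat_lit 152) (nat_lit 0) (XT.nd (nat_lit 156) (nat_lit 76) (nat_lit 0) (XT.nd (nat_lit 78) (nat_lit 0) (nat_lit 0) (XT.lf (nat_lit 0) (nat_lit 81725071395) (nat_lit 152) (nat_lit 82199392254) (nat_lit 0) (nat_lit 28631444664) (nat_lit 5) (nat_lit 5) (nat_lit 7) (nat_lit 4) (nat_lit 5) (nat_lit 4) (nat_lit 325) (nat_lit 270) (nat_lit 185)) (XT.lf (nat_lit 0) (nat_lit 106977371317) (nat_lit 152) (nat_lit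 45944185150) (nat_lit 0) (nat_lit 53878065008) (nat_lit 5) (nat_lit 5) (nat_lit 7) (nat_lit 4) (nat_lit 5) (nat_lit 4) (nat_lit 326) (nat_lit 270) (nat_lit 184))) (XT.nd (nat_lit 78) (nat_lit 76) (nat_lit 0) (XT.lf (nat_lit 0) (nat_lit 134245143251) (nat_lit 152) (nat_lit 6797348505) (nat_lit 0) (nat_lit 81140578072) (nat_lit 5) (nat_lit 5) (nat_lit 7) (nat_lit 4) (nat_lit 5) (nat_lit 4) (nat_lit 327) (nat_lit 270) (nat_lit 183)) (XT.nd (nat_lit 78) (nat_lit 0) (nat_lit 0) (XT.lf (nat_lit 0) (nat_lit 36645999787) (nat_lit 76) (nat_lit 127616120960) (nat_lit 76) (nat_lit 74506686458) (nat_lit 4) (nat_lit 4) (nat_lit 5) (nat_lit 5) (nat_lit 5) (nat_lit 4) (nat_lit 328) (nat_lit 270) (nat_lit 182)) (XT.lf (nat_lit 0) (nat_lit 83799764517) (nat_lit 76) (nat_lit 112994936079) (nat_lit 76) (nat_lit 59880992944) (nat_lit 4) (nat_lit 4) (nat_lit 5) (nat_lit 5) (nat_lit 5) (nat_lit 4) (nat_lit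 329) (nat_lit 270) (nat_lit 181))))) (XT.nd (nat_lit 234) (nat_lit 152) (nat_lit 0) (XT.nd (nat_lit 78) (nat_lit 0) (nat_lit 0) (XT.lf (nat_lit 0) (nat_lit 134718624362) (nat_lit 76) (nat_lit 97207409441) (nat_lit 76) (nat_lit 44089291646) (nat_lit 4) (nat_lit 4) (nat_lit 5) (nat_lit 5) (nat_lit 5) (nat_lit 4) (nat_lit 330) (nat_lit 270) (nat_lit 180)) (XT.nd (nat_lit 78) (nat_lit 0) (nat_lit 0) (XT.lf (nat_lit 0) (nat_lit 189704320713) (nat_lit 76) (nat_lit 80159985331) (nat_lit 76) (nat_lit 27038002110) (nat_lit 4) (nat_lit 4) (nat_lit 5) (nat_lit 5) (nat_lit 5) (nat_lit 4) (nat_lit 331) (nat_lit 270) (nat_lit 179)) (XT.lf (nat_lit 0) (nat_lit 249082694734) (nat_lit 76) (nat_lit 61751641977) (nat_lit 76) (nat_lit 8626079658) (nat_lit 4) (nat_lit 4) (nat_lit 5) (nat_lit 5) (nat_lit 5) (nat_lit 4) (nat_lit 332) (nat_lit 270) (nat_lit 178)))) (XT.nd (nat_lit 78) (nat_lit 76) (nat_lit 0)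 (XT.lf (nat_lit 0) (nat_lit 10895334436) (nat_lit 152) (nat_lit 30793440704) (nat_lit 76) (nat_lit 302125766074) (nat_lit 3) (nat_lit 5) (nat_lit 5) (nat_lit 5) (nat_lit 4) (nat_lit 4) (nat_lit 333) (nat_lit 270) (nat_lit 177)) (XT.nd (nat_lit 78) (nat_lit 0) (nat_lit 0) (XT.lf (nat_lit 0) (nat_lit 12197122012) (nat_lit 76) (nat_lit 19670715456) (nat_lit 152) (nat_lit 338232509848) (nat_lit 2) (nat_lit 5) (nat_lit 3) (nat_lit 5) (nat_lit 4) (nat_lit 4) (nat_lit 334) (nat_lit 270) (nat_lit 176)) (XT.lf (nat_lit 0) (nat_lit 55124700976) (nat_lit 152) (nat_lit 338813847346) (nat_lit 0) (nat_lit 4520142879) (nat_lit 2) (nat_lit 5) (nat_lit 4) (nat_lit 4) (nat_lit 2) (nat_lit 4) (nat_lit 335) (nat_lit 270) (nat_lit 175))))))))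
noncomputable def xc69 : XT := (XT.nd (nat_lit 36270) (nat_lit 0) (nat_lit 1672) (XT.nd (nat_lit 780) (nat_lit 76) (nat_lit 0) (XT.nd (nat_lit 390) (nat_lit 0) (nat_lit 0) (XT.nd (nat_lit 156) (nat_lit 0) (nat_lit 0) (XT.nd (nat_lit 78) (nat_lit 0) (nat_lit 0) (XT.lf (nat_lit 0) (nat_lit 80571219219) (nat_lit 152) (nat_lit 318533873651) (nat_lit 0) (nat_lit 29964155652) (nat_lit 2) (nat_lit 5) (nat_lit 4) (nat_lit 4) (nat_lit 2) (nat_lit 4) (nat_lit 336) (nat_lit 270) (nat_lit 174)) (XT.lf (nat_lit 0) (nat_lit 108051071385) (nat_lit 152) (nat_lit 296636011602) (nat_lit 0) (nat_lit 57441687938) (nat_lit 2) (nat_lit 5) (nat_lit 4) (nat_lit 4) (nat_lit 2) (nat_lit 4) (nat_lit 337) (nat_lit 270) (nat_lit 173))) (XT.nd (nat_lit 78) (nat_lit 0) (nat_lit 0) (XT.lf (nat_lit 0) (nat_lit 137727101043) (nat_lit 152) (nat_lit 272990496089) (nat_lit 0) (nat_lit 87115569558) (nat_lit 2) (nat_lit 5)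 (nat_lit 4) (nat_lit 4) (nat_lit 2) (nat_lit 4) (nat_lit 338) (nat_lit 270) (nat_lit 172)) (XT.nd (nat_lit 78) (nat_lit 0) (nat_lit 0) (XT.lf (nat_lit 0) (nat_lit 169775166145) (nat_lit 152) (nat_lit 247457205540) (nat_lit 0) (nat_lit 119161645737) (nat_lit 2) (nat_lit 5) (nat_lit 4) (nat_lit 4) (nat_lit 2) (nat_lit 4) (nat_lit 339) (nat_lit 270) (nat_lit 171)) (XT.lf (nat_lit 0) (nat_lit 204385181151) (nat_lit 152) (nat_lit 219884831566) (nat_lit 0) (nat_lit 153769819148) (nat_lit 2) (nat_lit 5) (nat_lit 4) (nat_lit 4) (nat_lit 2) (nat_lit 4) (nat_lit 340) (nat_lit 270) (nat_lit 170))))) (XT.nd (nat_lit 156) (nat_lit 0) (nat_lit 0) (XT.nd (nat_lit 78) (nat_lit 0) (nat_lit 0) (XT.lf (nat_lit 0) (nat_lit 241762242448) (nat_lit 152) (nat_lit 190109982322) (nat_lit 0) (nat_lit 191145175263) (nat_lit 2) (nat_lit 5) (nat_lit 4) (nat_lit 4) (nat_lit 2) (nat_lit 4) (nat_lit 341) (nat_lit 270)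 (nat_lit 169)) (XT.lf (nat_lit 0) (nat_lit 282127843731) (nat_lit 152) (nat_lit 157956214255) (nat_lit 0) (nat_lit 231509197675) (nat_lit 2) (nat_lit 5) (nat_lit 4) (nat_lit 4) (nat_lit 2) (nat_lit 4) (nat_lit 342) (nat_lit 270) (nat_lit 168))) (XT.nd (nat_lit 78) (nat_lit 0) (nat_lit 0) (XT.lf (nat_lit 0) (nat_lit 325721188563) (nat_lit 152) (nat_lit 123232986520) (nat_lit 0) (nat_lit 275101080589) (nat_lit 2) (nat_lit 5) (nat_lit 4) (nat_lit 4) (nat_lit 2) (nat_lit 4) (nat_lit 343) (nat_lit 270) (nat_lit 167)) (XT.nd (nat_lit 78) (nat_lit 0) (nat_lit 0) (XT.lf (nat_lit 0) (nat_lit 372800607877) (nat_lit 152) (nat_lit 85734531839) (nat_lit 0) (nat_lit 322179146276) (nat_lit 2) (nat_lit 5) (nat_lit 4) (nat_lit 4) (nat_lit 2) (nat_lit 4) (nat_lit 344) (nat_lit 270) (nat_lit 166)) (XT.lf (nat_lit 0) (nat_lit 423645090825) (nat_lit 152) (nat_lit 45238637149) (nat_lit 0) (nat_lit 373022375864)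 (nat_lit 2) (nat_lit 5) (nat_lit 4) (nat_lit 4) (nat_lit 2) (nat_lit 4) (nat_lit 345) (nat_lit 270) (nat_lit 165)))))) (XT.nd (nat_lit 35022) (nat_lit 0) (nat_lit 5928) (XT.nd (nat_lit 34788) (nat_lit 0) (nat_lit 6384) (XT.nd (nat_lit 78) (nat_lit 76) (nat_lit 0) (XT.lf (nat_lit 0) (nat_lit 478555938045) (nat_lit 152) (nat_lit 1505326777) (nat_lit 0) (nat_lit 427932062567) (nat_lit 2) (nat_lit 5) (nat_lit 4) (nat_lit 4) (nat_lit 2) (nat_lit 4) (nat_lit 346) (nat_lit 270) (nat_lit 164)) (XT.lf (nat_lit 0) (nat_lit 47236420074) (nat_lit 76) (nat_lit 491359619975) (nat_lit 76) (nat_lit 440734669944) (nat_lit 1) (nat_lit 4) (nat_lit 2) (nat_lit 5) (nat_lit 2) (nat_lit 4) (nat_lit 347) (nat_lit 270) (nat_lit 163))) (XT.nd (nat_lit 78) (nat_lit 608) (nat_lit 0) (XT.lf (nat_lit 0) (nat_lit 3933081607) (nat_lit 684) (nat_lit 538446359) (nat_lit 684) (nat_lit 538446359) (nat_lit 93) (nat_lit 3)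 (nat_lit 102) (nat_lit 3) (nat_lit 102) (nat_lit 5) (nat_lit 271) (nat_lit 271) (nat_lit 238)) (XT.nd (nat_lit 78) (nat_lit 608) (nat_lit 0) (XT.lf (nat_lit 76) (nat_lit 6335799759) (nat_lit 0) (nat_lit 2958222878) (nat_lit 684) (nat_lit 1068501437) (nat_lit 94) (nat_lit 5) (nat_lit 93) (nat_lit 3) (nat_lit 102) (nat_lit 5) (nat_lit 272) (nat_lit 271) (nat_lit 237)) (XT.lf (nat_lit 0) (nat_lit 129680574) (nat_lit 684) (nat_lit 7084529636) (nat_lit 760) (nat_lit 3516988979) (nat_lit 85) (nat_lit 5) (nat_lit 94) (nat_lit 5) (nat_lit 95) (nat_lit 5) (nat_lit 273) (nat_lit 271) (nat_lit 236))))) (XT.nd (nat_lit 234) (nat_lit 456) (nat_lit 0) (XT.nd (nat_lit 78) (nat_lit 0) (nat_lit 76) (XT.lf (nat_lit 76) (nat_lit 847915035) (nat_lit 0) (nat_lit 576500669) (nat_lit 760) (nat_lit 9702396131) (nat_lit 86) (nat_lit 5) (nat_lit 85) (nat_lit 5) (nat_lit 95) (nat_lit 5) (nat_lit 274) (nat_lit 271)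 (nat_lit 235)) (XT.nd (nat_lit 78) (nat_lit 0) (nat_lit 76) (XT.lf (nat_lit 0) (nat_lit 2961033985) (nat_lit 684) (nat_lit 2049477064) (nat_lit 760) (nat_lit 6536856509) (nat_lit 86) (nat_lit 5) (nat_lit 95) (nat_lit 5) (nat_lit 96) (nat_lit 5) (nat_lit 275) (nat_lit 271) (nat_lit 234)) (XT.lf (nat_lit 0) (nat_lit 4692576449) (nat_lit 684) (nat_lit 5043869314) (nat_lit 760) (nat_lit 2261716018) (nat_lit 87) (nat_lit 5) (nat_lit 96) (nat_lit 5) (nat_lit 97) (nat_lit 5) (nat_lit 276) (nat_lit 271) (nat_lit 233)))) (XT.nd (nat_lit 78) (nat_lit 608) (nat_lit 0) (XT.lf (nat_lit 76) (nat_lit 4257924957) (nat_lit 0) (nat_lit 2414198066) (nat_lit 760) (nat_lit 5807601908) (nat_lit 88) (nat_lit 5) (nat_lit 87) (nat_lit 5) (nat_lit 97) (nat_lit 5) (nat_lit 277) (nat_lit 271) (nat_lit 232)) (XT.nd (nat_lit 78) (nat_lit 0) (nat_lit 0) (XT.lf (nat_lit 0) (nat_lit 1382643357) (nat_lit 684) (nat_lit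 7551342118) (nat_lit 760) (nat_lit 4059796187) (nat_lit 79) (nat_lit 5) (nat_lit 88) (nat_lit 5) (nat_lit 89) (nat_lit 5) (nat_lit 278) (nat_lit 271) (nat_lit 231)) (XT.lf (nat_lit 0) (nat_lit 11498905516) (nat_lit 760) (nat_lit 1603700806) (nat_lit 76) (nat_lit 440405007) (nat_lit 79) (nat_lit 5) (nat_lit 89) (nat_lit 5) (nat_lit 80) (nat_lit 5) (nat_lit 279) (nat_lit 271) (nat_lit 230))))))) (XT.nd (nat_lit 780) (nat_lit 1672) (nat_lit 0) (XT.nd (nat_lit 390) (nat_lit 1064) (nat_lit 0) (XT.nd (nat_lit 156) (nat_lit 608) (nat_lit 0) (XT.nd (nat_lit 78) (nat_lit 380) (nat_lit 0) (XT.lf (nat_lit 0) (nat_lit 341574513) (nat_lit 532) (nat_lit 4815350222) (nat_lit 76) (nat_lit 8968637263) (nat_lit 72) (nat_lit 5) (nat_lit 79) (nat_lit 5) (nat_lit 73) (nat_lit 5) (nat_lit 280) (nat_lit 271) (nat_lit 229)) (XT.lf (nat_lit 0) (nat_lit 2973366506) (nat_lit 456) (nat_lit 8289733345) (nat_lit 76)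 (nat_lit 3483723340) (nat_lit 67) (nat_lit 5) (nat_lit 73) (nat_lit 5) (nat_lit 68) (nat_lit 5) (nat_lit 281) (nat_lit 271) (nat_lit 228))) (XT.nd (nat_lit 78) (nat_lit 304) (nat_lit 0) (XT.lf (nat_lit 0) (nat_lit 3349419517) (nat_lit 304) (nat_lit 2633992141) (nat_lit 380) (nat_lit 9426104430) (nat_lit 63) (nat_lit 5) (nat_lit 67) (nat_lit 5) (nat_lit 68) (nat_lit 5) (nat_lit 282) (nat_lit 271) (nat_lit 227)) (XT.nd (nat_lit 78) (nat_lit 304) (nat_lit 0) (XT.lf (nat_lit 0) (nat_lit 9431888790) (nat_lit 380) (nat_lit 68325429) (nat_lit 76) (nat_lit 6615236463) (nat_lit 63) (nat_lit 5) (nat_lit 68) (nat_lit 5) (nat_lit 64) (nat_lit 5) (nat_lit 283) (nat_lit 271) (nat_lit 226)) (XT.lf (nat_lit 0) (nat_lit 13206141703) (nat_lit 304) (nat_lit 151146374) (nat_lit 380) (nat_lit 3510619474) (nat_lit 59) (nat_lit 5) (nat_lit 63) (nat_lit 5) (nat_lit 64) (nat_lit 5) (nat_lit 284) (nat_lit 271)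 (nat_lit 225))))) (XT.nd (nat_lit 156) (nat_lit 456) (nat_lit 0) (XT.nd (nat_lit 78) (nat_lit 304) (nat_lit 0) (XT.lf (nat_lit 0) (nat_lit 188515860) (nat_lit 304) (nat_lit 7696865646) (nat_lit 76) (nat_lit 9781849138) (nat_lit 55) (nat_lit 5) (nat_lit 59) (nat_lit 5) (nat_lit 56) (nat_lit 5) (nat_lit 285) (nat_lit 271) (nat_lit 224)) (XT.lf (nat_lit 0) (nat_lit 4218672170) (nat_lit 380) (nat_lit 12171849280) (nat_lit 76) (nat_lit 2129277731) (nat_lit 51) (nat_lit 5) (nat_lit 56) (nat_lit 5) (nat_lit 52) (nat_lit 5) (nat_lit 286) (nat_lit 271) (nat_lit 223))) (XT.nd (nat_lit 78) (nat_lit 228) (nat_lit 0) (XT.lf (nat_lit 0) (nat_lit 2240123553) (nat_lit 228) (nat_lit 6592750038) (nat_lit 304) (nat_lit 10594693360) (nat_lit 48) (nat_lit 5) (nat_lit 51) (nat_lit 5) (nat_lit 52) (nat_lit 5) (nat_lit 287) (nat_lit 271) (nat_lit 222)) (XT.nd (nat_lit 78) (nat_lit 228) (nat_lit 0) (XT.lf (nat_lit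 0) (nat_lit 14053589874) (nat_lit 304) (nat_lit 2276719554) (nat_lit 76) (nat_lit 4065847577) (nat_lit 48) (nat_lit 5) (nat_lit 52) (nat_lit 5) (nat_lit 49) (nat_lit 5) (nat_lit 288) (nat_lit 271) (nat_lit 221)) (XT.lf (nat_lit 0) (nat_lit 14118197554) (nat_lit 228) (nat_lit 5867949058) (nat_lit 304) (nat_lit 1441443122) (nat_lit 45) (nat_lit 5) (nat_lit 48) (nat_lit 5) (nat_lit 49) (nat_lit 5) (nat_lit 289) (nat_lit 271) (nat_lit 220)))))) (XT.nd (nat_lit 390) (nat_lit 684) (nat_lit 0) (XT.nd (nat_lit 156) (nat_lit 456) (nat_lit 0) (XT.nd (nat_lit 78) (nat_lit 228) (nat_lit 0) (XT.lf (nat_lit 0) (nat_lit 3970796543) (nat_lit 304) (nat_lit 13056325098) (nat_lit 76) (nat_lit 5499350262) (nat_lit 41) (nat_lit 5) (nat_lit 45) (nat_lit 5) (nat_lit 42) (nat_lit 5) (nat_lit 290) (nat_lit 271) (nat_lit 219)) (XT.lf (nat_lit 0) (nat_lit 4104262431) (nat_lit 228) (nat_lit 5920102668) (nat_lit 304)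 (nat_lit 13674828260) (nat_lit 38) (nat_lit 5) (nat_lit 41) (nat_lit 5) (nat_lit 42) (nat_lit 5) (nat_lit 291) (nat_lit 271) (nat_lit 218))) (XT.nd (nat_lit 78) (nat_lit 456) (nat_lit 0) (XT.lf (nat_lit 0) (nat_lit 16855588327) (nat_lit 304) (nat_lit 1996318033) (nat_lit 76) (nat_lit 6099206576) (nat_lit 38) (nat_lit 5) (nat_lit 42) (nat_lit 5) (nat_lit 39) (nat_lit 5) (nat_lit 292) (nat_lit 271) (nat_lit 217)) (XT.nd (nat_lit 78) (nat_lit 304) (nat_lit 0) (XT.lf (nat_lit 0) (nat_lit 17424241340) (nat_lit 152) (nat_lit 7150704152) (nat_lit 228) (nat_lit 1711204022) (nat_lit 36) (nat_lit 5) (nat_lit 38) (nat_lit 5) (nat_lit 39) (nat_lit 5) (nat_lit 293) (nat_lit 271) (nat_lit 216)) (XT.lf (nat_lit 0) (nat_lit 5285572727) (nat_lit 304) (nat_lit 16835079984) (nat_lit 76) (nat_lit 5589948149) (nat_lit 32) (nat_lit 5) (nat_lit 36) (nat_lit 5) (nat_lit 33) (nat_lit 5) (nat_lit 294) (nat_lit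 271) (nat_lit 215))))) (XT.nd (nat_lit 234) (nat_lit 380) (nat_lit 0) (XT.nd (nat_lit 78) (nat_lit 152) (nat_lit 0) (XT.lf (nat_lit 0) (nat_lit 3174507261) (nat_lit 152) (nat_lit 9907625383) (nat_lit 228) (nat_lit 16150510319) (nat_lit 30) (nat_lit 5) (nat_lit 32) (nat_lit 5) (nat_lit 33) (nat_lit 5) (nat_lit 295) (nat_lit 271) (nat_lit 214)) (XT.nd (nat_lit 78) (nat_lit 152) (nat_lit 0) (XT.lf (nat_lit 0) (nat_lit 21825097781) (nat_lit 228) (nat_lit 5573353161) (nat_lit 76) (nat_lit 3461897676) (nat_lit 30) (nat_lit 5) (nat_lit 33) (nat_lit 5) (nat_lit 31) (nat_lit 5) (nat_lit 296) (nat_lit 271) (nat_lit 213)) (XT.lf (nat_lit 0) (nat_lit 16885109279) (nat_lit 152) (nat_lit 14788416649) (nat_lit 228) (nat_lit 924475175) (nat_lit 28) (nat_lit 5) (nat_lit 30) (nat_lit 5) (nat_lit 31) (nat_lit 5) (nat_lit 297) (nat_lit 271) (nat_lit 212)))) (XT.nd (nat_lit 78) (nat_lit 152) (nat_lit 0) (XT.lf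 (nat_lit 0) (nat_lit 6929719105) (nat_lit 152) (nat_lit 837718592) (nat_lit 228) (nat_lit 26691987113) (nat_lit 25) (nat_lit 5) (nat_lit 27) (nat_lit 5) (nat_lit 28) (nat_lit 5) (nat_lit 298) (nat_lit 271) (nat_lit 211)) (XT.nd (nat_lit 78) (nat_lit 152) (nat_lit 0) (XT.lf (nat_lit 0) (nat_lit 17600273244) (nat_lit 228) (nat_lit 4790394177) (nat_lit 76) (nat_lit 14054465147) (nat_lit 25) (nat_lit 5) (nat_lit 28) (nat_lit 5) (nat_lit 26) (nat_lit 5) (nat_lit 299) (nat_lit 271) (nat_lit 210)) (XT.lf (nat_lit 0) (nat_lit 20371768099) (nat_lit 152) (nat_lit 8159019282) (nat_lit 228) (nat_lit 10043380922) (nat_lit 23) (nat_lit 5) (nat_lit 25) (nat_lit 5) (nat_lit 26) (nat_lit 5) (nat_lit 300) (nat_lit 271) (nat_lit 209))))))))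
noncomputable def xc70 : XT := (XT.nd (nat_lit 1638) (nat_lit 380) (nat_lit 0) (XT.nd (nat_lit 780) (nat_lit 380) (nat_lit 0) (XT.nd (nat_lit 390) (nat_lit 456) (nat_lit 0) (XT.nd (nat_lit 156) (nat_lit 228) (nat_lit 0) (XT.nd (nat_lit 78) (nat_lit 76) (nat_lit 0) (XT.lf (nat_lit 0) (nat_lit 6922691613) (nat_lit 76) (nat_lit 33698257208) (nat_lit 152) (nat_lit 238339938) (nat_lit 22) (nat_lit 5) (nat_lit 23) (nat_lit 5) (nat_lit 24) (nat_lit 4) (nat_lit 301) (nat_lit 271) (nat_lit 208)) (XT.lf (nat_lit 0) (nat_lit 10460041173) (nat_lit 152) (nat_lit 8940702286) (nat_lit 76) (nat_lit 23896402612) (nat_lit 21) (nat_lit 5) (nat_lit 23) (nat_lit 5) (nat_lit 22) (nat_lit 5) (nat_lit 302) (nat_lit 271) (nat_lit 207))) (XT.nd (nat_lit 78) (nat_lit 76) (nat_lit 0) (XT.lf (nat_lit 0) (nat_lit 18616364785) (nat_lit 152) (nat_lit 3662184516) (nat_lit 228) (nat_lit 23637675071) (nat_lit 19) (nat_lit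 5) (nat_lit 21) (nat_lit 5) (nat_lit 22) (nat_lit 5) (nat_lit 303) (nat_lit 271) (nat_lit 206)) (XT.nd (nat_lit 78) (nat_lit 76) (nat_lit 0) (XT.lf (nat_lit 0) (nat_lit 35391586922) (nat_lit 228) (nat_lit 280231687) (nat_lit 76) (nat_lit 13055574646) (nat_lit 19) (nat_lit 5) (nat_lit 22) (nat_lit 5) (nat_lit 20) (nat_lit 4) (nat_lit 304) (nat_lit 271) (nat_lit 205)) (XT.lf (nat_lit 0) (nat_lit 29764361127) (nat_lit 76) (nat_lit 20299605741) (nat_lit 152) (nat_lit 1673989335) (nat_lit 18) (nat_lit 5) (nat_lit 19) (nat_lit 5) (nat_lit 20) (nat_lit 4) (nat_lit 305) (nat_lit 271) (nat_lit 204))))) (XT.nd (nat_lit 156) (nat_lit 228) (nat_lit 0) (XT.nd (nat_lit 78) (nat_lit 0) (nat_lit 0) (XT.lf (nat_lit 0) (nat_lit 7268630676) (nat_lit 152) (nat_lit 3405417916) (nat_lit 228) (nat_lit 44301663661) (nat_lit 15) (nat_lit 5) (nat_lit 17) (nat_lit 5) (nat_lit 18) (nat_lit 5) (nat_lit 306) (nat_lit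 271) (nat_lit 203)) (XT.lf (nat_lit 0) (nat_lit 24557757021) (nat_lit 228) (nat_lit 19110903315) (nat_lit 76) (nat_lit 14772145206) (nat_lit 15) (nat_lit 5) (nat_lit 18) (nat_lit 5) (nat_lit 16) (nat_lit 4) (nat_lit 307) (nat_lit 271) (nat_lit 202))) (XT.nd (nat_lit 78) (nat_lit 152) (nat_lit 0) (XT.lf (nat_lit 0) (nat_lit 12077800478) (nat_lit 76) (nat_lit 27706418544) (nat_lit 152) (nat_lit 22387296160) (nat_lit 14) (nat_lit 5) (nat_lit 15) (nat_lit 5) (nat_lit 16) (nat_lit 4) (nat_lit 308) (nat_lit 271) (nat_lit 201)) (XT.nd (nat_lit 78) (nat_lit 152) (nat_lit 0) (XT.lf (nat_lit 0) (nat_lit 46420789141) (nat_lit 76) (nat_lit 10127644455) (nat_lit 152) (nat_lit 9636277081) (nat_lit 14) (nat_lit 5) (nat_lit 15) (nat_lit 5) (nat_lit 16) (nat_lit 4) (nat_lit 309) (nat_lit 271) (nat_lit 200)) (XT.lf (nat_lit 0) (nat_lit 4340760242) (nat_lit 152) (nat_lit 57316107220) (nat_lit 76) (nat_lit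 8841962277) (nat_lit 12) (nat_lit 5) (nat_lit 14) (nat_lit 5) (nat_lit 13) (nat_lit 4) (nat_lit 310) (nat_lit 271) (nat_lit 199)))))) (XT.nd (nat_lit 390) (nat_lit 228) (nat_lit 0) (XT.nd (nat_lit 156) (nat_lit 76) (nat_lit 0) (XT.nd (nat_lit 78) (nat_lit 76) (nat_lit 0) (XT.lf (nat_lit 0) (nat_lit 19611517774) (nat_lit 152) (nat_lit 26030365805) (nat_lit 76) (nat_lit 29482646757) (nat_lit 12) (nat_lit 5) (nat_lit 14) (nat_lit 5) (nat_lit 13) (nat_lit 4) (nat_lit 311) (nat_lit 271) (nat_lit 198)) (XT.lf (nat_lit 0) (nat_lit 7994227047) (nat_lit 76) (nat_lit 28223375554) (nat_lit 152) (nat_lit 43897009259) (nat_lit 11) (nat_lit 5) (nat_lit 12) (nat_lit 5) (nat_lit 13) (nat_lit 4) (nat_lit 312) (nat_lit 271) (nat_lit 197))) (XT.nd (nat_lit 78) (nat_lit 76) (nat_lit 0) (XT.lf (nat_lit 0) (nat_lit 45651313887) (nat_lit 76) (nat_lit 8943675720) (nat_lit 152) (nat_lit 30886777136) (nat_lit 11)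 (nat_lit 5) (nat_lit 12) (nat_lit 5) (nat_lit 13) (nat_lit 4) (nat_lit 313) (nat_lit 271) (nat_lit 196)) (XT.nd (nat_lit 78) (nat_lit 76) (nat_lit 0) (XT.lf (nat_lit 0) (nat_lit 74618071004) (nat_lit 152) (nat_lit 5160759993) (nat_lit 0) (nat_lit 11490694889) (nat_lit 11) (nat_lit 5) (nat_lit 13) (nat_lit 4) (nat_lit 11) (nat_lit 4) (nat_lit 314) (nat_lit 271) (nat_lit 195)) (XT.lf (nat_lit 0) (nat_lit 33176923543) (nat_lit 76) (nat_lit 63725652312) (nat_lit 76) (nat_lit 584757579) (nat_lit 10) (nat_lit 4) (nat_lit 11) (nat_lit 5) (nat_lit 11) (nat_lit 4) (nat_lit 315) (nat_lit 271) (nat_lit 194))))) (XT.nd (nat_lit 234) (nat_lit 76) (nat_lit 0) (XT.nd (nat_lit 78) (nat_lit 76) (nat_lit 0) (XT.lf (nat_lit 0) (nat_lit 16313058450) (nat_lit 152) (nat_lit 29711642148) (nat_lit 76) (nat_lit 58160659506) (nat_lit 9) (nat_lit 5) (nat_lit 11) (nat_lit 5) (nat_lit 10) (nat_lit 4) (nat_lit 316)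 (nat_lit 271) (nat_lit 193)) (XT.nd (nat_lit 78) (nat_lit 0) (nat_lit 0) (XT.lf (nat_lit 0) (nat_lit 7882431397) (nat_lit 76) (nat_lit 26774853189) (nat_lit 152) (nat_lit 76755716740) (nat_lit 8) (nat_lit 5) (nat_lit 9) (nat_lit 5) (nat_lit 10) (nat_lit 4) (nat_lit 317) (nat_lit 271) (nat_lit 192)) (XT.lf (nat_lit 0) (nat_lit 49530654281) (nat_lit 76) (nat_lit 5448071476) (nat_lit 152) (nat_lit 64214649175) (nat_lit 8) (nat_lit 5) (nat_lit 9) (nat_lit 5) (nat_lit 10) (nat_lit 4) (nat_lit 318) (nat_lit 271) (nat_lit 191)))) (XT.nd (nat_lit 78) (nat_lit 76) (nat_lit 0) (XT.lf (nat_lit 0) (nat_lit 77193040306) (nat_lit 152) (nat_lit 33373573148) (nat_lit 0) (nat_lit 17016211630) (nat_lit 8) (nat_lit 5) (nat_lit 10) (nat_lit 4) (nat_lit 8) (nat_lit 4) (nat_lit 319) (nat_lit 271) (nat_lit 190)) (XT.nd (nat_lit 78) (nat_lit 0) (nat_lit 0) (XT.lf (nat_lit 0) (nat_lit 5903206290) (nat_lit 76)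 (nat_lit 95458480473) (nat_lit 76) (nat_lit 35272889374) (nat_lit 7) (nat_lit 4) (nat_lit 8) (nat_lit 5) (nat_lit 8) (nat_lit 4) (nat_lit 320) (nat_lit 271) (nat_lit 189)) (XT.lf (nat_lit 0) (nat_lit 49501859212) (nat_lit 76) (nat_lit 78536787667) (nat_lit 76) (nat_lit 18343083213) (nat_lit 7) (nat_lit 4) (nat_lit 8) (nat_lit 5) (nat_lit 8) (nat_lit 4) (nat_lit 321) (nat_lit 271) (nat_lit 188))))))) (XT.nd (nat_lit 780) (nat_lit 152) (nat_lit 0) (XT.nd (nat_lit 390) (nat_lit 76) (nat_lit 0) (XT.nd (nat_lit 156) (nat_lit 76) (nat_lit 0) (XT.nd (nat_lit 78) (nat_lit 76) (nat_lit 0) (XT.lf (nat_lit 0) (nat_lit 96577266955) (nat_lit 76) (nat_lit 60266455947) (nat_lit 76) (nat_lit 65239128) (nat_lit 7) (nat_lit 4) (nat_lit 8) (nat_lit 5) (nat_lit 8) (nat_lit 4) (nat_lit 322) (nat_lit 271) (nat_lit 187)) (XT.lf (nat_lit 0) (nat_lit 19039426602) (nat_lit 152) (nat_lit 21177348177) (nat_lit 76)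 (nat_lit 128046526396) (nat_lit 6) (nat_lit 5) (nat_lit 8) (nat_lit 5) (nat_lit 7) (nat_lit 4) (nat_lit 323) (nat_lit 271) (nat_lit 186))) (XT.nd (nat_lit 78) (nat_lit 0) (nat_lit 0) (XT.lf (nat_lit 0) (nat_lit 21796133158) (nat_lit 76) (nat_lit 18209109043) (nat_lit 152) (nat_lit 140503941620) (nat_lit 5) (nat_lit 5) (nat_lit 6) (nat_lit 5) (nat_lit 7) (nat_lit 4) (nat_lit 324) (nat_lit 271) (nat_lit 185)) (XT.nd (nat_lit 78) (nat_lit 0) (nat_lit 0) (XT.lf (nat_lit 0) (nat_lit 63104971542) (nat_lit 152) (nat_lit 124854894701) (nat_lit 0) (nat_lit 5752041149) (nat_lit 5) (nat_lit 5) (nat_lit 7) (nat_lit 4) (nat_lit 5) (nat_lit 4) (nat_lit 325) (nat_lit 271) (nat_lit 184)) (XT.lf (nat_lit 0) (nat_lit 88355006088) (nat_lit 152) (nat_lit 88603912130) (nat_lit 0) (nat_lit 30996816826) (nat_lit 5) (nat_lit 5) (nat_lit 7) (nat_lit 4) (nat_lit 5) (nat_lit 4) (nat_lit 326) (nat_lit 271) (nat_lit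 183))))) (XT.nd (nat_lit 156) (nat_lit 76) (nat_lit 0) (XT.nd (nat_lit 78) (nat_lit 0) (nat_lit 0) (XT.lf (nat_lit 0) (nat_lit 115620680450) (nat_lit 152) (nat_lit 49460987088) (nat_lit 0) (nat_lit 58257621865) (nat_lit 5) (nat_lit 5) (nat_lit 7) (nat_lit 4) (nat_lit 5) (nat_lit 4) (nat_lit 327) (nat_lit 271) (nat_lit 182)) (XT.lf (nat_lit 0) (nat_lit 145063568995) (nat_lit 152) (nat_lit 7194161502) (nat_lit 0) (nat_lit 87696001777) (nat_lit 5) (nat_lit 5) (nat_lit 7) (nat_lit 4) (nat_lit 5) (nat_lit 4) (nat_lit 328) (nat_lit 271) (nat_lit 181))) (XT.nd (nat_lit 78) (nat_lit 0) (nat_lit 0) (XT.lf (nat_lit 0) (nat_lit 39718267304) (nat_lit 76) (nat_lit 137759994258) (nat_lit 76) (nat_lit 80388252379) (nat_lit 4) (nat_lit 4) (nat_lit 5) (nat_lit 5) (nat_lit 5) (nat_lit 4) (nat_lit 329) (nat_lit 271) (nat_lit 180)) (XT.nd (nat_lit 78) (nat_lit 0) (nat_lit 0) (XT.lf (nat_lit 0) (nat_lit 90633919322)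 (nat_lit 76) (nat_lit 121973960244) (nat_lit 76) (nat_lit 64598352940) (nat_lit 4) (nat_lit 4) (nat_lit 5) (nat_lit 5) (nat_lit 5) (nat_lit 4) (nat_lit 330) (nat_lit 271) (nat_lit 179)) (XT.lf (nat_lit 0) (nat_lit 145616645462) (nat_lit 76) (nat_lit 104927918194) (nat_lit 76) (nat_lit 47548731792) (nat_lit 4) (nat_lit 4) (nat_lit 5) (nat_lit 5) (nat_lit 5) (nat_lit 4) (nat_lit 331) (nat_lit 271) (nat_lit 178)))))) (XT.nd (nat_lit 390) (nat_lit 0) (nat_lit 0) (XT.nd (nat_lit 156) (nat_lit 152) (nat_lit 0) (XT.nd (nat_lit 78) (nat_lit 0) (nat_lit 0) (XT.lf (nat_lit 0) (nat_lit 204992269288) (nat_lit 76) (nat_lit 86520854526) (nat_lit 76) (nat_lit 29138354144) (nat_lit 4) (nat_lit 4) (nat_lit 5) (nat_lit 5) (nat_lit 5) (nat_lit 4) (nat_lit 332) (nat_lit 271) (nat_lit 177)) (XT.lf (nat_lit 0) (nat_lit 269112646347) (nat_lit 76) (nat_lit 66643690344) (nat_lit 76) (nat_lit 9258121462) (nat_lit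 4) (nat_lit 4) (nat_lit 5) (nat_lit 5) (nat_lit 5) (nat_lit 4) (nat_lit 333) (nat_lit 271) (nat_lit 176))) (XT.nd (nat_lit 78) (nat_lit 76) (nat_lit 0) (XT.lf (nat_lit 0) (nat_lit 11818985988) (nat_lit 152) (nat_lit 33159488810) (nat_lit 76) (nat_lit 326338603011) (nat_lit 3) (nat_lit 5) (nat_lit 5) (nat_lit 5) (nat_lit 4) (nat_lit 4) (nat_lit 334) (nat_lit 271) (nat_lit 175)) (XT.nd (nat_lit 78) (nat_lit 0) (nat_lit 0) (XT.lf (nat_lit 0) (nat_lit 13266084859) (nat_lit 76) (nat_lit 21200805720) (nat_lit 152) (nat_lit 365238979641) (nat_lit 2) (nat_lit 5) (nat_lit 3) (nat_lit 5) (nat_lit 4) (nat_lit 4) (nat_lit 335) (nat_lit 271) (nat_lit 174)) (XT.lf (nat_lit 0) (nat_lit 59581256976) (nat_lit 152) (nat_lit 365830975722) (nat_lit 0) (nat_lit 4920802973) (nat_lit 2) (nat_lit 5) (nat_lit 4) (nat_lit 4) (nat_lit 2) (nat_lit 4) (nat_lit 336) (nat_lit 271) (nat_lit 173))))) (XT.nd (nat_lit 234)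 (nat_lit 0) (nat_lit 0) (XT.nd (nat_lit 78) (nat_lit 0) (nat_lit 0) (XT.lf (nat_lit 0) (nat_lit 87060046314) (nat_lit 152) (nat_lit 343935121125) (nat_lit 0) (nat_lit 32397444274) (nat_lit 2) (nat_lit 5) (nat_lit 4) (nat_lit 4) (nat_lit 2) (nat_lit 4) (nat_lit 337) (nat_lit 271) (nat_lit 172)) (XT.nd (nat_lit 78) (nat_lit 0) (nat_lit 0) (XT.lf (nat_lit 0) (nat_lit 116735091872) (nat_lit 152) (nat_lit 320291464365) (nat_lit 0) (nat_lit 62070500908) (nat_lit 2) (nat_lit 5) (nat_lit 4) (nat_lit 4) (nat_lit 2) (nat_lit 4) (nat_lit 338) (nat_lit 271) (nat_lit 171)) (XT.lf (nat_lit 0) (nat_lit 148782245770) (nat_lit 152) (nat_lit 294759894883) (nat_lit 0) (nat_lit 94115813211) (nat_lit 2) (nat_lit 5) (nat_lit 4) (nat_lit 4) (nat_lit 2) (nat_lit 4) (nat_lit 339) (nat_lit 271) (nat_lit 170)))) (XT.nd (nat_lit 78) (nat_lit 0) (nat_lit 0) (XT.lf (nat_lit 0) (nat_lit 183391417070) (nat_lit 152) (nat_lit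 267189114489) (nat_lit 0) (nat_lit 128723279329) (nat_lit 2) (nat_lit 5) (nat_lit 4) (nat_lit 4) (nat_lit 2) (nat_lit 4) (nat_lit 340) (nat_lit 271) (nat_lit 169)) (XT.nd (nat_lit 78) (nat_lit 0) (nat_lit 0) (XT.lf (nat_lit 0) (nat_lit 220767697156) (nat_lit 152) (nat_lit 237415740782) (nat_lit 0) (nat_lit 166097980544) (nat_lit 2) (nat_lit 5) (nat_lit 4) (nat_lit 4) (nat_lit 2) (nat_lit 4) (nat_lit 341) (nat_lit 271) (nat_lit 168)) (XT.lf (nat_lit 0) (nat_lit 261132575096) (nat_lit 152) (nat_lit 205263338954) (nat_lit 0) (nat_lit 206461396566) (nat_lit 2) (nat_lit 5) (nat_lit 4) (nat_lit 4) (nat_lit 2) (nat_lit 4) (nat_lit 342) (nat_lit 271) (nat_lit 167))))))))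
noncomputable def xc71 : XT := (XT.nd (nat_lit 36348) (nat_lit 0) (nat_lit 912) (XT.nd (nat_lit 35490) (nat_lit 0) (nat_lit 3724) (XT.nd (nat_lit 35100) (nat_lit 0) (nat_lit 6232) (XT.nd (nat_lit 156) (nat_lit 0) (nat_lit 0) (XT.nd (nat_lit 78) (nat_lit 0) (nat_lit 0) (XT.lf (nat_lit 0) (nat_lit 304725250166) (nat_lit 152) (nat_lit 170541376254) (nat_lit 0) (nat_lit 250052718009) (nat_lit 2) (nat_lit 5) (nat_lit 4) (nat_lit 4) (nat_lit 2) (nat_lit 4) (nat_lit 343) (nat_lit 271) (nat_lit 166)) (XT.lf (nat_lit 0) (nat_lit 351804049331) (nat_lit 152) (nat_lit 133044092903) (nat_lit 0) (nat_lit 297130263814) (nat_lit 2) (nat_lit 5) (nat_lit 4) (nat_lit 4) (nat_lit 2) (nat_lit 4) (nat_lit 344) (nat_lit 271) (nat_lit 165))) (XT.nd (nat_lit 78) (nat_lit 0) (nat_lit 0) (XT.lf (nat_lit 0) (nat_lit 402647958065) (nat_lit 152) (nat_lit 92549282777) (nat_lit 0) (nat_lit 347973012032) (nat_lit 2) (nat_lit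 5) (nat_lit 4) (nat_lit 4) (nat_lit 2) (nat_lit 4) (nat_lit 345) (nat_lit 271) (nat_lit 164)) (XT.nd (nat_lit 78) (nat_lit 0) (nat_lit 0) (XT.lf (nat_lit 0) (nat_lit 457558273607) (nat_lit 152) (nat_lit 48816976630) (nat_lit 0) (nat_lit 402882253020) (nat_lit 2) (nat_lit 5) (nat_lit 4) (nat_lit 4) (nat_lit 2) (nat_lit 4) (nat_lit 346) (nat_lit 271) (nat_lit 163)) (XT.lf (nat_lit 0) (nat_lit 516860390419) (nat_lit 152) (nat_lit 1588020057) (nat_lit 0) (nat_lit 462183374875) (nat_lit 2) (nat_lit 5) (nat_lit 4) (nat_lit 4) (nat_lit 2) (nat_lit 4) (nat_lit 347) (nat_lit 271) (nat_lit 162))))) (XT.nd (nat_lit 156) (nat_lit 0) (nat_lit 76) (XT.nd (nat_lit 78) (nat_lit 684) (nat_lit 0) (XT.lf (nat_lit 0) (nat_lit 5237627660) (nat_lit 684) (nat_lit 60574684) (nat_lit 684) (nat_lit 60574684) (nat_lit 93) (nat_lit 3) (nat_lit 102) (nat_lit 3) (nat_lit 102) (nat_lit 5) (nat_lit 272) (nat_lit 272)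 (nat_lit 236)) (XT.lf (nat_lit 0) (nat_lit 766448898) (nat_lit 684) (nat_lit 3267543559) (nat_lit 760) (nat_lit 7059849950) (nat_lit 84) (nat_lit 5) (nat_lit 93) (nat_lit 3) (nat_lit 94) (nat_lit 5) (nat_lit 273) (nat_lit 272) (nat_lit 235))) (XT.nd (nat_lit 78) (nat_lit 0) (nat_lit 0) (XT.lf (nat_lit 0) (nat_lit 1888315654) (nat_lit 684) (nat_lit 6530527478) (nat_lit 760) (nat_lit 3079355957) (nat_lit 85) (nat_lit 5) (nat_lit 94) (nat_lit 5) (nat_lit 95) (nat_lit 5) (nat_lit 274) (nat_lit 272) (nat_lit 234)) (XT.nd (nat_lit 78) (nat_lit 0) (nat_lit 76) (XT.lf (nat_lit 76) (nat_lit 1987805707) (nat_lit 0) (nat_lit 1186060921) (nat_lit 760) (nat_lit 8757534711) (nat_lit 86) (nat_lit 5) (nat_lit 85) (nat_lit 5) (nat_lit 95) (nat_lit 5) (nat_lit 275) (nat_lit 272) (nat_lit 233)) (XT.lf (nat_lit 0) (nat_lit 4704121136) (nat_lit 684) (nat_lit 1133426162) (nat_lit 760) (nat_lit 6554798924) (nat_lit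 86) (nat_lit 5) (nat_lit 95) (nat_lit 5) (nat_lit 96) (nat_lit 5) (nat_lit 276) (nat_lit 272) (nat_lit 232)))))) (XT.nd (nat_lit 390) (nat_lit 1596) (nat_lit 0) (XT.nd (nat_lit 156) (nat_lit 1140) (nat_lit 0) (XT.nd (nat_lit 78) (nat_lit 0) (nat_lit 0) (XT.lf (nat_lit 0) (nat_lit 6472848672) (nat_lit 684) (nat_lit 4334629509) (nat_lit 760) (nat_lit 2077052016) (nat_lit 87) (nat_lit 5) (nat_lit 96) (nat_lit 5) (nat_lit 97) (nat_lit 5) (nat_lit 277) (nat_lit 272) (nat_lit 231)) (XT.lf (nat_lit 76) (nat_lit 5662949573) (nat_lit 0) (nat_lit 2860363363) (nat_lit 760) (nat_lit 4885917857) (nat_lit 88) (nat_lit 5) (nat_lit 87) (nat_lit 5) (nat_lit 97) (nat_lit 5) (nat_lit 278) (nat_lit 272) (nat_lit 230))) (XT.nd (nat_lit 78) (nat_lit 532) (nat_lit 0) (XT.lf (nat_lit 0) (nat_lit 2581046174) (nat_lit 684) (nat_lit 8300817139) (nat_lit 760) (nat_lit 3086984107) (nat_lit 79) (nat_lit 5) (nat_lit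 88) (nat_lit 5) (nat_lit 89) (nat_lit 5) (nat_lit 279) (nat_lit 272) (nat_lit 229)) (XT.nd (nat_lit 78) (nat_lit 532) (nat_lit 0) (XT.lf (nat_lit 0) (nat_lit 13558530369) (nat_lit 760) (nat_lit 663017500) (nat_lit 76) (nat_lit 345345760) (nat_lit 79) (nat_lit 5) (nat_lit 89) (nat_lit 5) (nat_lit 80) (nat_lit 5) (nat_lit 280) (nat_lit 272) (nat_lit 228)) (XT.lf (nat_lit 0) (nat_lit 1460021870) (nat_lit 532) (nat_lit 4139709063) (nat_lit 76) (nat_lit 9599051009) (nat_lit 72) (nat_lit 5) (nat_lit 79) (nat_lit 5) (nat_lit 73) (nat_lit 5) (nat_lit 281) (nat_lit 272) (nat_lit 227))))) (XT.nd (nat_lit 234) (nat_lit 608) (nat_lit 0) (XT.nd (nat_lit 78) (nat_lit 608) (nat_lit 0) (XT.lf (nat_lit 0) (nat_lit 4237199134) (nat_lit 456) (nat_lit 7884561387) (nat_lit 76) (nat_lit 3751409484) (nat_lit 67) (nat_lit 5) (nat_lit 73) (nat_lit 5) (nat_lit 68) (nat_lit 5) (nat_lit 282) (nat_lit 272) (nat_lit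 226)) (XT.nd (nat_lit 78) (nat_lit 304) (nat_lit 0) (XT.lf (nat_lit 0) (nat_lit 4639294488) (nat_lit 304) (nat_lit 2788711185) (nat_lit 380) (nat_lit 9164030392) (nat_lit 63) (nat_lit 5) (nat_lit 67) (nat_lit 5) (nat_lit 68) (nat_lit 5) (nat_lit 283) (nat_lit 272) (nat_lit 225)) (XT.lf (nat_lit 0) (nat_lit 948500166) (nat_lit 304) (nat_lit 10147929403) (nat_lit 380) (nat_lit 6260956521) (nat_lit 59) (nat_lit 5) (nat_lit 63) (nat_lit 5) (nat_lit 64) (nat_lit 5) (nat_lit 284) (nat_lit 272) (nat_lit 224)))) (XT.nd (nat_lit 78) (nat_lit 608) (nat_lit 0) (XT.lf (nat_lit 0) (nat_lit 15211458511) (nat_lit 304) (nat_lit 58097669) (nat_lit 380) (nat_lit 2903931980) (nat_lit 59) (nat_lit 5) (nat_lit 63) (nat_lit 5) (nat_lit 64) (nat_lit 5) (nat_lit 285) (nat_lit 272) (nat_lit 223)) (XT.nd (nat_lit 78) (nat_lit 304) (nat_lit 0) (XT.lf (nat_lit 0) (nat_lit 1015676074) (nat_lit 304) (nat_lit 7336326509)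 (nat_lit 76) (nat_lit 10686531890) (nat_lit 55) (nat_lit 5) (nat_lit 59) (nat_lit 5) (nat_lit 56) (nat_lit 5) (nat_lit 286) (nat_lit 272) (nat_lit 222)) (XT.lf (nat_lit 0) (nat_lit 5325283946) (nat_lit 380) (nat_lit 12174663027) (nat_lit 76) (nat_lit 2461618507) (nat_lit 51) (nat_lit 5) (nat_lit 56) (nat_lit 5) (nat_lit 52) (nat_lit 5) (nat_lit 287) (nat_lit 272) (nat_lit 221))))))) (XT.nd (nat_lit 858) (nat_lit 1064) (nat_lit 0) (XT.nd (nat_lit 390) (nat_lit 760) (nat_lit 0) (XT.nd (nat_lit 156) (nat_lit 760) (nat_lit 0) (XT.nd (nat_lit 78) (nat_lit 0) (nat_lit 0) (XT.lf (nat_lit 0) (nat_lit 3348072016) (nat_lit 228) (nat_lit 6918077974) (nat_lit 304) (nat_lit 10678029127) (nat_lit 48) (nat_lit 5) (nat_lit 51) (nat_lit 5) (nat_lit 52) (nat_lit 5) (nat_lit 288) (nat_lit 272) (nat_lit 220)) (XT.lf (nat_lit 0) (nat_lit 15853619411) (nat_lit 304) (nat_lit 1567026984) (nat_lit 76) (nat_lit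 4572248586) (nat_lit 48) (nat_lit 5) (nat_lit 52) (nat_lit 5) (nat_lit 49) (nat_lit 5) (nat_lit 289) (nat_lit 272) (nat_lit 219))) (XT.nd (nat_lit 78) (nat_lit 532) (nat_lit 0) (XT.lf (nat_lit 0) (nat_lit 16100725642) (nat_lit 228) (nat_lit 6123318906) (nat_lit 304) (nat_lit 884721066) (nat_lit 45) (nat_lit 5) (nat_lit 48) (nat_lit 5) (nat_lit 49) (nat_lit 5) (nat_lit 290) (nat_lit 272) (nat_lit 218)) (XT.nd (nat_lit 78) (nat_lit 228) (nat_lit 0) (XT.lf (nat_lit 0) (nat_lit 4907345978) (nat_lit 304) (nat_lit 13235017021) (nat_lit 76) (nat_lit 6154329118) (nat_lit 41) (nat_lit 5) (nat_lit 45) (nat_lit 5) (nat_lit 42) (nat_lit 5) (nat_lit 291) (nat_lit 272) (nat_lit 217)) (XT.lf (nat_lit 0) (nat_lit 5260790286) (nat_lit 228) (nat_lit 6151496665) (nat_lit 304) (nat_lit 14152660604) (nat_lit 38) (nat_lit 5) (nat_lit 41) (nat_lit 5) (nat_lit 42) (nat_lit 5) (nat_lit 292) (nat_lit 272) (nat_lit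 216))))) (XT.nd (nat_lit 234) (nat_lit 304) (nat_lit 0) (XT.nd (nat_lit 78) (nat_lit 456) (nat_lit 0) (XT.lf (nat_lit 0) (nat_lit 18750104177) (nat_lit 304) (nat_lit 1364739687) (nat_lit 76) (nat_lit 6804237407) (nat_lit 38) (nat_lit 5) (nat_lit 42) (nat_lit 5) (nat_lit 39) (nat_lit 5) (nat_lit 293) (nat_lit 272) (nat_lit 215)) (XT.nd (nat_lit 78) (nat_lit 304) (nat_lit 0) (XT.lf (nat_lit 0) (nat_lit 19575076206) (nat_lit 152) (nat_lit 7483301430) (nat_lit 228) (nat_lit 1304035291) (nat_lit 36) (nat_lit 5) (nat_lit 38) (nat_lit 5) (nat_lit 39) (nat_lit 5) (nat_lit 294) (nat_lit 272) (nat_lit 214)) (XT.lf (nat_lit 0) (nat_lit 6211413784) (nat_lit 304) (nat_lit 17418690831) (nat_lit 76) (nat_lit 6271527248) (nat_lit 32) (nat_lit 5) (nat_lit 36) (nat_lit 5) (nat_lit 33) (nat_lit 5) (nat_lit 295) (nat_lit 272) (nat_lit 213)))) (XT.nd (nat_lit 78) (nat_lit 152) (nat_lit 0) (XT.lf (nat_lit 0)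 (nat_lit 4158495845) (nat_lit 152) (nat_lit 10447341526) (nat_lit 228) (nat_lit 16940942450) (nat_lit 30) (nat_lit 5) (nat_lit 32) (nat_lit 5) (nat_lit 33) (nat_lit 5) (nat_lit 296) (nat_lit 272) (nat_lit 212)) (XT.nd (nat_lit 78) (nat_lit 152) (nat_lit 0) (XT.lf (nat_lit 0) (nat_lit 24016552361) (nat_lit 228) (nat_lit 5324263820) (nat_lit 76) (nat_lit 3965515882) (nat_lit 30) (nat_lit 5) (nat_lit 33) (nat_lit 5) (nat_lit 31) (nat_lit 5) (nat_lit 297) (nat_lit 272) (nat_lit 211)) (XT.lf (nat_lit 0) (nat_lit 18900673604) (nat_lit 152) (nat_lit 15729563797) (nat_lit 228) (nat_lit 553932593) (nat_lit 28) (nat_lit 5) (nat_lit 30) (nat_lit 5) (nat_lit 31) (nat_lit 5) (nat_lit 298) (nat_lit 272) (nat_lit 210)))))) (XT.nd (nat_lit 390) (nat_lit 532) (nat_lit 0) (XT.nd (nat_lit 156) (nat_lit 304) (nat_lit 0) (XT.nd (nat_lit 78) (nat_lit 0) (nat_lit 0) (XT.lf (nat_lit 0) (nat_lit 8134053842) (nat_lit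 152) (nat_lit 663328192) (nat_lit 228) (nat_lit 28397902163) (nat_lit 25) (nat_lit 5) (nat_lit 27) (nat_lit 5) (nat_lit 28) (nat_lit 5) (nat_lit 299) (nat_lit 272) (nat_lit 209)) (XT.lf (nat_lit 0) (nat_lit 19390071377) (nat_lit 228) (nat_lit 4555956495) (nat_lit 76) (nat_lit 15395193958) (nat_lit 25) (nat_lit 5) (nat_lit 28) (nat_lit 5) (nat_lit 26) (nat_lit 5) (nat_lit 300) (nat_lit 272) (nat_lit 208))) (XT.nd (nat_lit 78) (nat_lit 152) (nat_lit 0) (XT.lf (nat_lit 0) (nat_lit 22592335611) (nat_lit 152) (nat_lit 8583635760) (nat_lit 228) (nat_lit 10465593856) (nat_lit 23) (nat_lit 5) (nat_lit 25) (nat_lit 5) (nat_lit 26) (nat_lit 5) (nat_lit 301) (nat_lit 272) (nat_lit 207)) (XT.nd (nat_lit 78) (nat_lit 0) (nat_lit 0) (XT.lf (nat_lit 0) (nat_lit 105096157) (nat_lit 152) (nat_lit 36055965455) (nat_lit 76) (nat_lit 7949104791) (nat_lit 21) (nat_lit 5) (nat_lit 23) (nat_lit 5) (nat_lit 22)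 (nat_lit 5) (nat_lit 302) (nat_lit 272) (nat_lit 206)) (XT.lf (nat_lit 0) (nat_lit 11624867296) (nat_lit 152) (nat_lit 9108235676) (nat_lit 76) (nat_lit 26011086639) (nat_lit 21) (nat_lit 5) (nat_lit 23) (nat_lit 5) (nat_lit 22) (nat_lit 5) (nat_lit 303) (nat_lit 272) (nat_lit 205))))) (XT.nd (nat_lit 234) (nat_lit 304) (nat_lit 0) (XT.nd (nat_lit 78) (nat_lit 76) (nat_lit 0) (XT.lf (nat_lit 0) (nat_lit 20629593396) (nat_lit 152) (nat_lit 3743144541) (nat_lit 228) (nat_lit 25200886367) (nat_lit 19) (nat_lit 5) (nat_lit 21) (nat_lit 5) (nat_lit 22) (nat_lit 5) (nat_lit 304) (nat_lit 272) (nat_lit 204)) (XT.nd (nat_lit 78) (nat_lit 0) (nat_lit 0) (XT.lf (nat_lit 0) (nat_lit 200534142) (nat_lit 76) (nat_lit 38317376223) (nat_lit 152) (nat_lit 14092644172) (nat_lit 18) (nat_lit 5) (nat_lit 19) (nat_lit 5) (nat_lit 20) (nat_lit 4) (nat_lit 305) (nat_lit 272) (nat_lit 203)) (XT.lf (nat_lit 0)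 (nat_lit 32620687191) (nat_lit 76) (nat_lit 21726061789) (nat_lit 152) (nat_lit 1516100893) (nat_lit 18) (nat_lit 5) (nat_lit 19) (nat_lit 5) (nat_lit 20) (nat_lit 4) (nat_lit 306) (nat_lit 272) (nat_lit 202)))) (XT.nd (nat_lit 78) (nat_lit 76) (nat_lit 0) (XT.lf (nat_lit 0) (nat_lit 8313817940) (nat_lit 152) (nat_lit 3482938520) (nat_lit 228) (nat_lit 47563344661) (nat_lit 15) (nat_lit 5) (nat_lit 17) (nat_lit 5) (nat_lit 18) (nat_lit 5) (nat_lit 307) (nat_lit 272) (nat_lit 201)) (XT.nd (nat_lit 78) (nat_lit 76) (nat_lit 0) (XT.lf (nat_lit 0) (nat_lit 26774069357) (nat_lit 228) (nat_lit 20200588740) (nat_lit 76) (nat_lit 16128615342) (nat_lit 15) (nat_lit 5) (nat_lit 18) (nat_lit 5) (nat_lit 16) (nat_lit 4) (nat_lit 308) (nat_lit 272) (nat_lit 200)) (XT.lf (nat_lit 0) (nat_lit 13464124831) (nat_lit 76) (nat_lit 29742438595) (nat_lit 152) (nat_lit 23926496370) (nat_lit 14) (nat_lit 5)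 (nat_lit 15) (nat_lit 5) (nat_lit 16) (nat_lit 4) (nat_lit 309) (nat_lit 272) (nat_lit 199))))))))
noncomputable def xc72 : XT := (XT.nd (nat_lit 1638) (nat_lit 152) (nat_lit 0) (XT.nd (nat_lit 780) (nat_lit 304) (nat_lit 0) (XT.nd (nat_lit 390) (nat_lit 228) (nat_lit 0) (XT.nd (nat_lit 156) (nat_lit 76) (nat_lit 0) (XT.nd (nat_lit 78) (nat_lit 152) (nat_lit 0) (XT.lf (nat_lit 0) (nat_lit 50523434045) (nat_lit 76) (nat_lit 10770732463) (nat_lit 152) (nat_lit 10174046394) (nat_lit 14) (nat_lit 5) (nat_lit 15) (nat_lit 5) (nat_lit 16) (nat_lit 4) (nat_lit 310) (nat_lit 272) (nat_lit 198)) (XT.lf (nat_lit 0) (nat_lit 4905467352) (nat_lit 152) (nat_lit 61513679920) (nat_lit 76) (nat_lit 9708556285) (nat_lit 12) (nat_lit 5) (nat_lit 14) (nat_lit 5) (nat_lit 13) (nat_lit 4) (nat_lit 311) (nat_lit 272) (nat_lit 197))) (XT.nd (nat_lit 78) (nat_lit 76) (nat_lit 0) (XT.lf (nat_lit 0) (nat_lit 21381778355)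 (nat_lit 152) (nat_lit 27753798886) (nat_lit 76) (nat_lit 31988700189) (nat_lit 12) (nat_lit 5) (nat_lit 14) (nat_lit 5) (nat_lit 13) (nat_lit 4) (nat_lit 312) (nat_lit 272) (nat_lit 196)) (XT.nd (nat_lit 78) (nat_lit 0) (nat_lit 0) (XT.lf (nat_lit 0) (nat_lit 8977159858) (nat_lit 76) (nat_lit 30329637451) (nat_lit 152) (nat_lit 47207256791) (nat_lit 11) (nat_lit 5) (nat_lit 12) (nat_lit 5) (nat_lit 13) (nat_lit 4) (nat_lit 313) (nat_lit 272) (nat_lit 195)) (XT.lf (nat_lit 0) (nat_lit 49621377005) (nat_lit 76) (nat_lit 9518791863) (nat_lit 152) (nat_lit 33171133002) (nat_lit 11) (nat_lit 5) (nat_lit 12) (nat_lit 5) (nat_lit 13) (nat_lit 4) (nat_lit 314) (nat_lit 272) (nat_lit 194))))) (XT.nd (nat_lit 156) (nat_lit 152) (nat_lit 0) (XT.nd (nat_lit 78) (nat_lit 76) (nat_lit 0) (XT.lf (nat_lit 0) (nat_lit 80753972041) (nat_lit 152) (nat_lit 5272905490) (nat_lit 0) (nat_lit 12535769873) (nat_lit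 11) (nat_lit 5) (nat_lit 13) (nat_lit 4) (nat_lit 11) (nat_lit 4) (nat_lit 315) (nat_lit 272) (nat_lit 193)) (XT.lf (nat_lit 0) (nat_lit 36118724009) (nat_lit 76) (nat_lit 68694674214) (nat_lit 76) (nat_lit 464882010) (nat_lit 10) (nat_lit 4) (nat_lit 11) (nat_lit 5) (nat_lit 11) (nat_lit 4) (nat_lit 316) (nat_lit 272) (nat_lit 192))) (XT.nd (nat_lit 78) (nat_lit 76) (nat_lit 0) (XT.lf (nat_lit 0) (nat_lit 17767475474) (nat_lit 152) (nat_lit 31817198995) (nat_lit 76) (nat_lit 62927949652) (nat_lit 9) (nat_lit 5) (nat_lit 11) (nat_lit 5) (nat_lit 10) (nat_lit 4) (nat_lit 317) (nat_lit 272) (nat_lit 191)) (XT.nd (nat_lit 78) (nat_lit 0) (nat_lit 0) (XT.lf (nat_lit 0) (nat_lit 8772606828) (nat_lit 76) (nat_lit 28799621041) (nat_lit 152) (nat_lit 82746606489) (nat_lit 8) (nat_lit 5) (nat_lit 9) (nat_lit 5) (nat_lit 10) (nat_lit 4) (nat_lit 318) (nat_lit 272) (nat_lit 190)) (XT.lf (nat_lit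 0) (nat_lit 53733459326) (nat_lit 76) (nat_lit 5775379783) (nat_lit 152) (nat_lit 69213332599) (nat_lit 8) (nat_lit 5) (nat_lit 9) (nat_lit 5) (nat_lit 10) (nat_lit 4) (nat_lit 319) (nat_lit 272) (nat_lit 189)))))) (XT.nd (nat_lit 390) (nat_lit 152) (nat_lit 0) (XT.nd (nat_lit 156) (nat_lit 76) (nat_lit 0) (XT.nd (nat_lit 78) (nat_lit 76) (nat_lit 0) (XT.lf (nat_lit 0) (nat_lit 83492103776) (nat_lit 152) (nat_lit 35816300345) (nat_lit 0) (nat_lit 18474789612) (nat_lit 8) (nat_lit 5) (nat_lit 10) (nat_lit 4) (nat_lit 8) (nat_lit 4) (nat_lit 320) (nat_lit 272) (nat_lit 188)) (XT.lf (nat_lit 0) (nat_lit 6592749410) (nat_lit 76) (nat_lit 102995727938) (nat_lit 76) (nat_lit 37970901408) (nat_lit 7) (nat_lit 4) (nat_lit 8) (nat_lit 5) (nat_lit 8) (nat_lit 4) (nat_lit 321) (nat_lit 272) (nat_lit 187))) (XT.nd (nat_lit 78) (nat_lit 76) (nat_lit 0) (XT.lf (nat_lit 0) (nat_lit 53663199260) (nat_lit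 76) (nat_lit 84727664964) (nat_lit 76) (nat_lit 19695882541) (nat_lit 7) (nat_lit 4) (nat_lit 8) (nat_lit 5) (nat_lit 8) (nat_lit 4) (nat_lit 322) (nat_lit 272) (nat_lit 186)) (XT.nd (nat_lit 78) (nat_lit 0) (nat_lit 0) (XT.lf (nat_lit 0) (nat_lit 34554159) (nat_lit 152) (nat_lit 64967387039) (nat_lit 76) (nat_lit 104454597213) (nat_lit 6) (nat_lit 5) (nat_lit 8) (nat_lit 5) (nat_lit 7) (nat_lit 4) (nat_lit 323) (nat_lit 272) (nat_lit 185)) (XT.lf (nat_lit 0) (nat_lit 20657726391) (nat_lit 152) (nat_lit 22695847520) (nat_lit 76) (nat_lit 138365980630) (nat_lit 6) (nat_lit 5) (nat_lit 8) (nat_lit 5) (nat_lit 7) (nat_lit 4) (nat_lit 324) (nat_lit 272) (nat_lit 184))))) (XT.nd (nat_lit 234) (nat_lit 76) (nat_lit 0) (XT.nd (nat_lit 78) (nat_lit 0) (nat_lit 0) (XT.lf (nat_lit 0) (nat_lit 23707877113) (nat_lit 76) (nat_lit 19588506081) (nat_lit 152) (nat_lit 151648949766) (nat_lit 5) (nat_lit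 5) (nat_lit 6) (nat_lit 5) (nat_lit 7) (nat_lit 4) (nat_lit 325) (nat_lit 272) (nat_lit 183)) (XT.nd (nat_lit 78) (nat_lit 0) (nat_lit 0) (XT.lf (nat_lit 0) (nat_lit 68238488693) (nat_lit 152) (nat_lit 134684553403) (nat_lit 0) (nat_lit 6281516097) (nat_lit 5) (nat_lit 5) (nat_lit 7) (nat_lit 4) (nat_lit 5) (nat_lit 4) (nat_lit 326) (nat_lit 272) (nat_lit 182)) (XT.lf (nat_lit 0) (nat_lit 95502220860) (nat_lit 152) (nat_lit 95545250217) (nat_lit 0) (nat_lit 33540739631) (nat_lit 5) (nat_lit 5) (nat_lit 7) (nat_lit 4) (nat_lit 5) (nat_lit 4) (nat_lit 327) (nat_lit 272) (nat_lit 181)))) (XT.nd (nat_lit 78) (nat_lit 76) (nat_lit 0) (XT.lf (nat_lit 0) (nat_lit 124943311076) (nat_lit 152) (nat_lit 53281778200) (nat_lit 0) (nat_lit 62977655187) (nat_lit 5) (nat_lit 5) (nat_lit 7) (nat_lit 4) (nat_lit 5) (nat_lit 4) (nat_lit 328) (nat_lit 272) (nat_lit 180)) (XT.nd (nat_lit 78) (nat_lit 76) (nat_lit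 0) (XT.lf (nat_lit 0) (nat_lit 156736225061) (nat_lit 152) (nat_lit 7643687149) (nat_lit 0) (nat_lit 94766703746) (nat_lit 5) (nat_lit 5) (nat_lit 7) (nat_lit 4) (nat_lit 5) (nat_lit 4) (nat_lit 329) (nat_lit 272) (nat_lit 179)) (XT.lf (nat_lit 0) (nat_lit 43016259840) (nat_lit 76) (nat_lit 148724709797) (nat_lit 76) (nat_lit 86751609384) (nat_lit 4) (nat_lit 4) (nat_lit 5) (nat_lit 5) (nat_lit 5) (nat_lit 4) (nat_lit 330) (nat_lit 272) (nat_lit 178))))))) (XT.nd (nat_lit 780) (nat_lit 0) (nat_lit 0) (XT.nd (nat_lit 390) (nat_lit 76) (nat_lit 0) (XT.nd (nat_lit 156) (nat_lit 76) (nat_lit 0) (XT.nd (nat_lit 78) (nat_lit 0) (nat_lit 0) (XT.lf (nat_lit 0) (nat_lit 97996235785) (nat_lit 76) (nat_lit 131679947433) (nat_lit 76) (nat_lit 69703533040) (nat_lit 4) (nat_lit 4) (nat_lit 5) (nat_lit 5) (nat_lit 5) (nat_lit 4) (nat_lit 331) (nat_lit 272) (nat_lit 177)) (XT.lf (nat_lit 0) (nat_lit 157369313134)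 (nat_lit 76) (nat_lit 113274068658) (nat_lit 76) (nat_lit 51294585766) (nat_lit 4) (nat_lit 4) (nat_lit 5) (nat_lit 5) (nat_lit 5) (nat_lit 4) (nat_lit 332) (nat_lit 272) (nat_lit 176))) (XT.nd (nat_lit 78) (nat_lit 76) (nat_lit 0) (XT.lf (nat_lit 0) (nat_lit 221487332344) (nat_lit 76) (nat_lit 93398001600) (nat_lit 76) (nat_lit 31415677504) (nat_lit 4) (nat_lit 4) (nat_lit 5) (nat_lit 5) (nat_lit 5) (nat_lit 4) (nat_lit 333) (nat_lit 272) (nat_lit 175)) (XT.nd (nat_lit 78) (nat_lit 76) (nat_lit 0) (XT.lf (nat_lit 0) (nat_lit 290730252049) (nat_lit 76) (nat_lit 71933962156) (nat_lit 76) (nat_lit 9949007316) (nat_lit 4) (nat_lit 4) (nat_lit 5) (nat_lit 5) (nat_lit 5) (nat_lit 4) (nat_lit 334) (nat_lit 272) (nat_lit 174)) (XT.lf (nat_lit 0) (nat_lit 12809107744) (nat_lit 152) (nat_lit 35728719836) (nat_lit 76) (nat_lit 352482364479) (nat_lit 3) (nat_lit 5) (nat_lit 5) (nat_lit 5) (nat_lit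 4) (nat_lit 4) (nat_lit 335) (nat_lit 272) (nat_lit 173))))) (XT.nd (nat_lit 156) (nat_lit 0) (nat_lit 0) (XT.nd (nat_lit 78) (nat_lit 0) (nat_lit 0) (XT.lf (nat_lit 0) (nat_lit 14407269697) (nat_lit 76) (nat_lit 22859518521) (nat_lit 152) (nat_lit 394413404086) (nat_lit 2) (nat_lit 5) (nat_lit 3) (nat_lit 5) (nat_lit 4) (nat_lit 4) (nat_lit 336) (nat_lit 272) (nat_lit 172)) (XT.lf (nat_lit 0) (nat_lit 64387692310) (nat_lit 152) (nat_lit 395022025615) (nat_lit 0) (nat_lit 5347945146) (nat_lit 2) (nat_lit 5) (nat_lit 4) (nat_lit 4) (nat_lit 2) (nat_lit 4) (nat_lit 337) (nat_lit 272) (nat_lit 171))) (XT.nd (nat_lit 78) (nat_lit 0) (nat_lit 0) (XT.lf (nat_lit 0) (nat_lit 94061826663) (nat_lit 152) (nat_lit 371380089922) (nat_lit 0) (nat_lit 35020237904) (nat_lit 2) (nat_lit 5) (nat_lit 4) (nat_lit 4) (nat_lit 2) (nat_lit 4) (nat_lit 338) (nat_lit 272) (nat_lit 170)) (XT.nd (nat_lit 78) (nat_lit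 0) (nat_lit 0) (XT.lf (nat_lit 0) (nat_lit 126108136855) (nat_lit 152) (nat_lit 345850114020) (nat_lit 0) (nat_lit 67064842914) (nat_lit 2) (nat_lit 5) (nat_lit 4) (nat_lit 4) (nat_lit 2) (nat_lit 4) (nat_lit 339) (nat_lit 272) (nat_lit 169)) (XT.lf (nat_lit 0) (nat_lit 160716526944) (nat_lit 152) (nat_lit 318280809164) (nat_lit 0) (nat_lit 101671654132) (nat_lit 2) (nat_lit 5) (nat_lit 4) (nat_lit 4) (nat_lit 2) (nat_lit 4) (nat_lit 340) (nat_lit 272) (nat_lit 168)))))) (XT.nd (nat_lit 390) (nat_lit 0) (nat_lit 0) (XT.nd (nat_lit 156) (nat_lit 0) (nat_lit 0) (XT.nd (nat_lit 78) (nat_lit 0) (nat_lit 0) (XT.lf (nat_lit 0) (nat_lit 198092083687) (nat_lit 152) (nat_lit 288508801695) (nat_lit 0) (nat_lit 139045748958) (nat_lit 2) (nat_lit 5) (nat_lit 4) (nat_lit 4) (nat_lit 2) (nat_lit 4) (nat_lit 341) (nat_lit 272) (nat_lit 167)) (XT.lf (nat_lit 0) (nat_lit 238456291865) (nat_lit 152) (nat_lit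 256357664903) (nat_lit 0) (nat_lit 179408603508) (nat_lit 2) (nat_lit 5) (nat_lit 4) (nat_lit 4) (nat_lit 2) (nat_lit 4) (nat_lit 342) (nat_lit 272) (nat_lit 166))) (XT.nd (nat_lit 78) (nat_lit 0) (nat_lit 0) (XT.lf (nat_lit 0) (nat_lit 282048346786) (nat_lit 152) (nat_lit 221636873532) (nat_lit 0) (nat_lit 222999405070) (nat_lit 2) (nat_lit 5) (nat_lit 4) (nat_lit 4) (nat_lit 2) (nat_lit 4) (nat_lit 343) (nat_lit 272) (nat_lit 165)) (XT.nd (nat_lit 78) (nat_lit 0) (nat_lit 0) (XT.lf (nat_lit 0) (nat_lit 329126571738) (nat_lit 152) (nat_lit 184140674745) (nat_lit 0) (nat_lit 270076469503) (nat_lit 2) (nat_lit 5) (nat_lit 4) (nat_lit 4) (nat_lit 2) (nat_lit 4) (nat_lit 344) (nat_lit 272) (nat_lit 164)) (XT.lf (nat_lit 0) (nat_lit 379969948794) (nat_lit 152) (nat_lit 143646868845) (nat_lit 0) (nat_lit 320918772006) (nat_lit 2) (nat_lit 5) (nat_lit 4) (nat_lit 4) (nat_lit 2) (nat_lit 4) (nat_lit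 345) (nat_lit 272) (nat_lit 163))))) (XT.nd (nat_lit 35022) (nat_lit 0) (nat_lit 6232) (XT.nd (nat_lit 78) (nat_lit 0) (nat_lit 0) (XT.lf (nat_lit 0) (nat_lit 434879772041) (nat_lit 152) (nat_lit 99915492537) (nat_lit 0) (nat_lit 375827600297) (nat_lit 2) (nat_lit 5) (nat_lit 4) (nat_lit 4) (nat_lit 2) (nat_lit 4) (nat_lit 346) (nat_lit 272) (nat_lit 162)) (XT.nd (nat_lit 34866) (nat_lit 0) (nat_lit 6232) (XT.lf (nat_lit 0) (nat_lit 494181433024) (nat_lit 152) (nat_lit 52687396926) (nat_lit 0) (nat_lit 435128340024) (nat_lit 2) (nat_lit 5) (nat_lit 4) (nat_lit 4) (nat_lit 2) (nat_lit 4) (nat_lit 347) (nat_lit 272) (nat_lit 161)) (XT.lf (nat_lit 0) (nat_lit 375059244) (nat_lit 0) (nat_lit 375059244) (nat_lit 684) (nat_lit 4991582735) (nat_lit 84) (nat_lit 5) (nat_lit 84) (nat_lit 3) (nat_lit 93) (nat_lit 3) (nat_lit 273) (nat_lit 273) (nat_lit 234)))) (XT.nd (nat_lit 78) (nat_lit 0) (nat_lit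 76) (XT.lf (nat_lit 0) (nat_lit 2442558906) (nat_lit 684) (nat_lit 2617337121) (nat_lit 760) (nat_lit 6836933509) (nat_lit 84) (nat_lit 5) (nat_lit 93) (nat_lit 3) (nat_lit 94) (nat_lit 5) (nat_lit 274) (nat_lit 273) (nat_lit 233)) (XT.nd (nat_lit 78) (nat_lit 0) (nat_lit 0) (XT.lf (nat_lit 0) (nat_lit 3538232615) (nat_lit 684) (nat_lit 6092094736) (nat_lit 760) (nat_lit 2709284560) (nat_lit 85) (nat_lit 5) (nat_lit 94) (nat_lit 5) (nat_lit 95) (nat_lit 5) (nat_lit 275) (nat_lit 273) (nat_lit 232)) (XT.lf (nat_lit 76) (nat_lit 3065946649) (nat_lit 0) (nat_lit 1764004950) (nat_lit 760) (nat_lit 7982611845) (nat_lit 86) (nat_lit 5) (nat_lit 85) (nat_lit 5) (nat_lit 95) (nat_lit 5) (nat_lit 276) (nat_lit 273) (nat_lit 231))))))))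
noncomputable def xc73 : XT := (XT.nd (nat_lit 1638) (nat_lit 1596) (nat_lit 0) (XT.nd (nat_lit 780) (nat_lit 2204) (nat_lit 0) (XT.nd (nat_lit 390) (nat_lit 1064) (nat_lit 0) (XT.nd (nat_lit 156) (nat_lit 988) (nat_lit 0) (XT.nd (nat_lit 78) (nat_lit 0) (nat_lit 76) (XT.lf (nat_lit 0) (nat_lit 6371778358) (nat_lit 684) (nat_lit 298166556) (nat_lit 760) (nat_lit 6646221500) (nat_lit 86) (nat_lit 5) (nat_lit 95) (nat_lit 5) (nat_lit 96) (nat_lit 5) (nat_lit 277) (nat_lit 273) (nat_lit 230)) (XT.lf (nat_lit 0) (nat_lit 8195122816) (nat_lit 684) (nat_lit 3727396656) (nat_lit 760) (nat_lit 1929772005) (nat_lit 87) (nat_lit 5) (nat_lit 96) (nat_lit 5) (nat_lit 97) (nat_lit 5) (nat_lit 278) (nat_lit 273) (nat_lit 229))) (XT.nd (nat_lit 78) (nat_lit 1064) (nat_lit 0) (XT.lf (nat_lit 76) (nat_lit 7028528936) (nat_lit 0) (nat_lit 3306124405) (nat_lit 760) (nat_lit 4088269162) (nat_lit 88) (nat_lit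 5) (nat_lit 87) (nat_lit 5) (nat_lit 97) (nat_lit 5) (nat_lit 279) (nat_lit 273) (nat_lit 228)) (XT.nd (nat_lit 78) (nat_lit 456) (nat_lit 0) (XT.lf (nat_lit 0) (nat_lit 3720135620) (nat_lit 684) (nat_lit 9089511842) (nat_lit 760) (nat_lit 2221463604) (nat_lit 79) (nat_lit 5) (nat_lit 88) (nat_lit 5) (nat_lit 89) (nat_lit 5) (nat_lit 280) (nat_lit 273) (nat_lit 227)) (XT.lf (nat_lit 0) (nat_lit 207045355) (nat_lit 456) (nat_lit 15416519696) (nat_lit 532) (nat_lit 57456536) (nat_lit 73) (nat_lit 5) (nat_lit 79) (nat_lit 5) (nat_lit 80) (nat_lit 5) (nat_lit 281) (nat_lit 273) (nat_lit 226))))) (XT.nd (nat_lit 156) (nat_lit 608) (nat_lit 0) (XT.nd (nat_lit 78) (nat_lit 380) (nat_lit 0) (XT.lf (nat_lit 0) (nat_lit 2512284350) (nat_lit 532) (nat_lit 3561361460) (nat_lit 76) (nat_lit 10292320396) (nat_lit 72) (nat_lit 5) (nat_lit 79) (nat_lit 5) (nat_lit 73) (nat_lit 5) (nat_lit 282) (nat_lit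 273) (nat_lit 225)) (XT.lf (nat_lit 0) (nat_lit 5455773236) (nat_lit 456) (nat_lit 7599387833) (nat_lit 76) (nat_lit 4042081465) (nat_lit 67) (nat_lit 5) (nat_lit 73) (nat_lit 5) (nat_lit 68) (nat_lit 5) (nat_lit 283) (nat_lit 273) (nat_lit 224))) (XT.nd (nat_lit 78) (nat_lit 304) (nat_lit 0) (XT.lf (nat_lit 0) (nat_lit 5886570943) (nat_lit 304) (nat_lit 2963796825) (nat_lit 380) (nat_lit 9025957356) (nat_lit 63) (nat_lit 5) (nat_lit 67) (nat_lit 5) (nat_lit 68) (nat_lit 5) (nat_lit 284) (nat_lit 273) (nat_lit 223)) (XT.nd (nat_lit 78) (nat_lit 0) (nat_lit 0) (XT.lf (nat_lit 0) (nat_lit 1902922283) (nat_lit 304) (nat_lit 10862411518) (nat_lit 380) (nat_lit 5940039475) (nat_lit 59) (nat_lit 5) (nat_lit 63) (nat_lit 5) (nat_lit 64) (nat_lit 5) (nat_lit 285) (nat_lit 273) (nat_lit 222)) (XT.lf (nat_lit 0) (nat_lit 17214872346) (nat_lit 380) (nat_lit 2348358812) (nat_lit 76) (nat_lit 26518650)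 (nat_lit 59) (nat_lit 5) (nat_lit 64) (nat_lit 5) (nat_lit 60) (nat_lit 5) (nat_lit 286) (nat_lit 273) (nat_lit 221)))))) (XT.nd (nat_lit 390) (nat_lit 1140) (nat_lit 0) (XT.nd (nat_lit 156) (nat_lit 456) (nat_lit 0) (XT.nd (nat_lit 78) (nat_lit 304) (nat_lit 0) (XT.lf (nat_lit 0) (nat_lit 1793156966) (nat_lit 304) (nat_lit 7086222696) (nat_lit 76) (nat_lit 11646165365) (nat_lit 55) (nat_lit 5) (nat_lit 59) (nat_lit 5) (nat_lit 56) (nat_lit 5) (nat_lit 287) (nat_lit 273) (nat_lit 220)) (XT.lf (nat_lit 0) (nat_lit 6410701383) (nat_lit 380) (nat_lit 12316216492) (nat_lit 76) (nat_lit 2797435639) (nat_lit 51) (nat_lit 5) (nat_lit 56) (nat_lit 5) (nat_lit 52) (nat_lit 5) (nat_lit 288) (nat_lit 273) (nat_lit 219))) (XT.nd (nat_lit 78) (nat_lit 228) (nat_lit 0) (XT.lf (nat_lit 0) (nat_lit 4412161414) (nat_lit 228) (nat_lit 7298262838) (nat_lit 304) (nat_lit 10877059093) (nat_lit 48) (nat_lit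 5) (nat_lit 51) (nat_lit 5) (nat_lit 52) (nat_lit 5) (nat_lit 289) (nat_lit 273) (nat_lit 218)) (XT.nd (nat_lit 78) (nat_lit 228) (nat_lit 0) (XT.lf (nat_lit 0) (nat_lit 17701249110) (nat_lit 304) (nat_lit 927788548) (nat_lit 76) (nat_lit 5093320999) (nat_lit 48) (nat_lit 5) (nat_lit 52) (nat_lit 5) (nat_lit 49) (nat_lit 5) (nat_lit 290) (nat_lit 273) (nat_lit 217)) (XT.lf (nat_lit 0) (nat_lit 18120155679) (nat_lit 228) (nat_lit 6429657261) (nat_lit 304) (nat_lit 379334908) (nat_lit 45) (nat_lit 5) (nat_lit 48) (nat_lit 5) (nat_lit 49) (nat_lit 5) (nat_lit 291) (nat_lit 273) (nat_lit 216))))) (XT.nd (nat_lit 234) (nat_lit 608) (nat_lit 0) (XT.nd (nat_lit 78) (nat_lit 228) (nat_lit 0) (XT.lf (nat_lit 0) (nat_lit 5830528402) (nat_lit 304) (nat_lit 13551522356) (nat_lit 76) (nat_lit 6831029730) (nat_lit 41) (nat_lit 5) (nat_lit 45) (nat_lit 5) (nat_lit 42) (nat_lit 5) (nat_lit 292) (nat_lit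 273) (nat_lit 215)) (XT.nd (nat_lit 78) (nat_lit 0) (nat_lit 0) (XT.lf (nat_lit 0) (nat_lit 6391690255) (nat_lit 228) (nat_lit 6435956747) (nat_lit 304) (nat_lit 14756620780) (nat_lit 38) (nat_lit 5) (nat_lit 41) (nat_lit 5) (nat_lit 42) (nat_lit 5) (nat_lit 293) (nat_lit 273) (nat_lit 214)) (XT.lf (nat_lit 0) (nat_lit 20718278478) (nat_lit 304) (nat_lit 795520552) (nat_lit 76) (nat_lit 7534699774) (nat_lit 38) (nat_lit 5) (nat_lit 42) (nat_lit 5) (nat_lit 39) (nat_lit 5) (nat_lit 294) (nat_lit 273) (nat_lit 213)))) (XT.nd (nat_lit 78) (nat_lit 456) (nat_lit 0) (XT.lf (nat_lit 0) (nat_lit 21789998249) (nat_lit 152) (nat_lit 7876668002) (nat_lit 228) (nat_lit 941910024) (nat_lit 36) (nat_lit 5) (nat_lit 38) (nat_lit 5) (nat_lit 39) (nat_lit 5) (nat_lit 295) (nat_lit 273) (nat_lit 212)) (XT.nd (nat_lit 78) (nat_lit 152) (nat_lit 0) (XT.lf (nat_lit 0) (nat_lit 7139564232) (nat_lit 304) (nat_lit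 18157868923) (nat_lit 76) (nat_lit 6974195284) (nat_lit 32) (nat_lit 5) (nat_lit 36) (nat_lit 5) (nat_lit 33) (nat_lit 5) (nat_lit 296) (nat_lit 273) (nat_lit 211)) (XT.lf (nat_lit 0) (nat_lit 5117056860) (nat_lit 152) (nat_lit 11066313100) (nat_lit 228) (nat_lit 17866169239) (nat_lit 30) (nat_lit 5) (nat_lit 32) (nat_lit 5) (nat_lit 33) (nat_lit 5) (nat_lit 297) (nat_lit 273) (nat_lit 210))))))) (XT.nd (nat_lit 780) (nat_lit 684) (nat_lit 0) (XT.nd (nat_lit 390) (nat_lit 380) (nat_lit 0) (XT.nd (nat_lit 156) (nat_lit 380) (nat_lit 0) (XT.nd (nat_lit 78) (nat_lit 152) (nat_lit 0) (XT.lf (nat_lit 0) (nat_lit 26319775347) (nat_lit 228) (nat_lit 5154390803) (nat_lit 76) (nat_lit 4477087051) (nat_lit 30) (nat_lit 5) (nat_lit 33) (nat_lit 5) (nat_lit 31) (nat_lit 5) (nat_lit 298) (nat_lit 273) (nat_lit 209)) (XT.lf (nat_lit 0) (nat_lit 20982648260) (nat_lit 152) (nat_lit 16780516191) (nat_lit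 228) (nat_lit 217159584) (nat_lit 28) (nat_lit 5) (nat_lit 30) (nat_lit 5) (nat_lit 31) (nat_lit 5) (nat_lit 299) (nat_lit 273) (nat_lit 208))) (XT.nd (nat_lit 78) (nat_lit 152) (nat_lit 0) (XT.lf (nat_lit 0) (nat_lit 9342011696) (nat_lit 152) (nat_lit 509426094) (nat_lit 228) (nat_lit 30301555393) (nat_lit 25) (nat_lit 5) (nat_lit 27) (nat_lit 5) (nat_lit 28) (nat_lit 5) (nat_lit 300) (nat_lit 273) (nat_lit 207)) (XT.nd (nat_lit 78) (nat_lit 152) (nat_lit 0) (XT.lf (nat_lit 0) (nat_lit 21268588707) (nat_lit 228) (nat_lit 4390881218) (nat_lit 76) (nat_lit 16812313247) (nat_lit 25) (nat_lit 5) (nat_lit 28) (nat_lit 5) (nat_lit 26) (nat_lit 5) (nat_lit 301) (nat_lit 273) (nat_lit 206)) (XT.lf (nat_lit 0) (nat_lit 24906260581) (nat_lit 152) (nat_lit 9074763294) (nat_lit 228) (nat_lit 10975974475) (nat_lit 23) (nat_lit 5) (nat_lit 25) (nat_lit 5) (nat_lit 26) (nat_lit 5) (nat_lit 302) (nat_lit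 273) (nat_lit 205))))) (XT.nd (nat_lit 156) (nat_lit 228) (nat_lit 0) (XT.nd (nat_lit 78) (nat_lit 0) (nat_lit 0) (XT.lf (nat_lit 0) (nat_lit 417228692) (nat_lit 152) (nat_lit 38433291957) (nat_lit 76) (nat_lit 8772970042) (nat_lit 21) (nat_lit 5) (nat_lit 23) (nat_lit 5) (nat_lit 22) (nat_lit 5) (nat_lit 303) (nat_lit 273) (nat_lit 204)) (XT.lf (nat_lit 0) (nat_lit 12836083385) (nat_lit 152) (nat_lit 9367310516) (nat_lit 76) (nat_lit 28265989188) (nat_lit 21) (nat_lit 5) (nat_lit 23) (nat_lit 5) (nat_lit 22) (nat_lit 5) (nat_lit 304) (nat_lit 273) (nat_lit 203))) (XT.nd (nat_lit 78) (nat_lit 76) (nat_lit 0) (XT.lf (nat_lit 0) (nat_lit 22729137332) (nat_lit 152) (nat_lit 3860827641) (nat_lit 228) (nat_lit 26935919288) (nat_lit 19) (nat_lit 5) (nat_lit 21) (nat_lit 5) (nat_lit 22) (nat_lit 5) (nat_lit 305) (nat_lit 273) (nat_lit 202)) (XT.nd (nat_lit 78) (nat_lit 0) (nat_lit 0) (XT.lf (nat_lit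 0) (nat_lit 656555738) (nat_lit 76) (nat_lit 41199884459) (nat_lit 152) (nat_lit 14949863494) (nat_lit 18) (nat_lit 5) (nat_lit 19) (nat_lit 5) (nat_lit 20) (nat_lit 4) (nat_lit 306) (nat_lit 273) (nat_lit 201)) (XT.lf (nat_lit 0) (nat_lit 35637730004) (nat_lit 76) (nat_lit 23294811675) (nat_lit 152) (nat_lit 1387210990) (nat_lit 18) (nat_lit 5) (nat_lit 19) (nat_lit 5) (nat_lit 20) (nat_lit 4) (nat_lit 307) (nat_lit 273) (nat_lit 200)))))) (XT.nd (nat_lit 390) (nat_lit 228) (nat_lit 0) (XT.nd (nat_lit 156) (nat_lit 228) (nat_lit 0) (XT.nd (nat_lit 78) (nat_lit 0) (nat_lit 0) (XT.lf (nat_lit 0) (nat_lit 9376468651) (nat_lit 152) (nat_lit 3594467266) (nat_lit 228) (nat_lit 51126255090) (nat_lit 15) (nat_lit 5) (nat_lit 17) (nat_lit 5) (nat_lit 18) (nat_lit 5) (nat_lit 308) (nat_lit 273) (nat_lit 199)) (XT.lf (nat_lit 0) (nat_lit 29131780034) (nat_lit 228) (nat_lit 21440103913) (nat_lit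 76) (nat_lit 17568680393) (nat_lit 15) (nat_lit 5) (nat_lit 18) (nat_lit 5) (nat_lit 16) (nat_lit 4) (nat_lit 309) (nat_lit 273) (nat_lit 198))) (XT.nd (nat_lit 78) (nat_lit 152) (nat_lit 0) (XT.lf (nat_lit 0) (nat_lit 14901423126) (nat_lit 76) (nat_lit 31967089656) (nat_lit 152) (nat_lit 25624752325) (nat_lit 14) (nat_lit 5) (nat_lit 15) (nat_lit 5) (nat_lit 16) (nat_lit 4) (nat_lit 310) (nat_lit 273) (nat_lit 197)) (XT.nd (nat_lit 78) (nat_lit 152) (nat_lit 0) (XT.lf (nat_lit 0) (nat_lit 54898797943) (nat_lit 76) (nat_lit 11489109554) (nat_lit 152) (nat_lit 10788096259) (nat_lit 14) (nat_lit 5) (nat_lit 15) (nat_lit 5) (nat_lit 16) (nat_lit 4) (nat_lit 311) (nat_lit 273) (nat_lit 196)) (XT.lf (nat_lit 0) (nat_lit 5484329887) (nat_lit 152) (nat_lit 66102370440) (nat_lit 76) (nat_lit 10621760873) (nat_lit 12) (nat_lit 5) (nat_lit 14) (nat_lit 5) (nat_lit 13) (nat_lit 4) (nat_lit 312) (nat_lit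 273) (nat_lit 195))))) (XT.nd (nat_lit 234) (nat_lit 152) (nat_lit 0) (XT.nd (nat_lit 78) (nat_lit 76) (nat_lit 0) (XT.lf (nat_lit 0) (nat_lit 23264936500) (nat_lit 152) (nat_lit 29666321432) (nat_lit 76) (nat_lit 34674203690) (nat_lit 12) (nat_lit 5) (nat_lit 14) (nat_lit 5) (nat_lit 13) (nat_lit 4) (nat_lit 313) (nat_lit 273) (nat_lit 194)) (XT.nd (nat_lit 78) (nat_lit 0) (nat_lit 0) (XT.lf (nat_lit 0) (nat_lit 9989738208) (nat_lit 76) (nat_lit 32626028897) (nat_lit 152) (nat_lit 50811072237) (nat_lit 11) (nat_lit 5) (nat_lit 12) (nat_lit 5) (nat_lit 13) (nat_lit 4) (nat_lit 314) (nat_lit 273) (nat_lit 193)) (XT.lf (nat_lit 0) (nat_lit 53863684907) (nat_lit 76) (nat_lit 10159943777) (nat_lit 152) (nat_lit 35664855959) (nat_lit 11) (nat_lit 5) (nat_lit 12) (nat_lit 5) (nat_lit 13) (nat_lit 4) (nat_lit 315) (nat_lit 273) (nat_lit 192)))) (XT.nd (nat_lit 78) (nat_lit 152) (nat_lit 0) (XT.lf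 (nat_lit 0) (nat_lit 87356998443) (nat_lit 152) (nat_lit 5436923026) (nat_lit 0) (nat_lit 13646501313) (nat_lit 11) (nat_lit 5) (nat_lit 13) (nat_lit 4) (nat_lit 11) (nat_lit 4) (nat_lit 316) (nat_lit 273) (nat_lit 191)) (XT.nd (nat_lit 78) (nat_lit 76) (nat_lit 0) (XT.lf (nat_lit 0) (nat_lit 39254832510) (nat_lit 76) (nat_lit 74079625481) (nat_lit 76) (nat_lit 359191763) (nat_lit 10) (nat_lit 4) (nat_lit 11) (nat_lit 5) (nat_lit 11) (nat_lit 4) (nat_lit 317) (nat_lit 273) (nat_lit 190)) (XT.lf (nat_lit 0) (nat_lit 19316936225) (nat_lit 152) (nat_lit 34129914999) (nat_lit 76) (nat_lit 68060297238) (nat_lit 9) (nat_lit 5) (nat_lit 11) (nat_lit 5) (nat_lit 10) (nat_lit 4) (nat_lit 318) (nat_lit 273) (nat_lit 189))))))))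
noncomputable def xc74 : XT := (XT.nd (nat_lit 1638) (nat_lit 0) (nat_lit 0) (XT.nd (nat_lit 780) (nat_lit 228) (nat_lit 0) (XT.nd (nat_lit 390) (nat_lit 152) (nat_lit 0) (XT.nd (nat_lit 156) (nat_lit 76) (nat_lit 0) (XT.nd (nat_lit 78) (nat_lit 0) (nat_lit 0) (XT.lf (nat_lit 0) (nat_lit 9696964174) (nat_lit 76) (nat_lit 31003093122) (nat_lit 152) (nat_lit 89238104906) (nat_lit 8) (nat_lit 5) (nat_lit 9) (nat_lit 5) (nat_lit 10) (nat_lit 4) (nat_lit 319) (nat_lit 273) (nat_lit 188)) (XT.lf (nat_lit 0) (nat_lit 58238199775) (nat_lit 76) (nat_lit 6144356830) (nat_lit 152) (nat_lit 74631667631) (nat_lit 8) (nat_lit 5) (nat_lit 9) (nat_lit 5) (nat_lit 10) (nat_lit 4) (nat_lit 320) (nat_lit 273) (nat_lit 187))) (XT.nd (nat_lit 78) (nat_lit 76) (nat_lit 0) (XT.lf (nat_lit 0) (nat_lit 90277456514) (nat_lit 152) (nat_lit 38486852439) (nat_lit 0) (nat_lit 20036175603) (nat_lit 8) (nat_lit 5) (nat_lit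 10) (nat_lit 4) (nat_lit 8) (nat_lit 4) (nat_lit 321) (nat_lit 273) (nat_lit 186)) (XT.nd (nat_lit 78) (nat_lit 0) (nat_lit 0) (XT.lf (nat_lit 0) (nat_lit 7306457615) (nat_lit 76) (nat_lit 111150140139) (nat_lit 76) (nat_lit 40902418586) (nat_lit 7) (nat_lit 4) (nat_lit 8) (nat_lit 5) (nat_lit 8) (nat_lit 4) (nat_lit 322) (nat_lit 273) (nat_lit 185)) (XT.lf (nat_lit 0) (nat_lit 58128744323) (nat_lit 76) (nat_lit 91426946649) (nat_lit 76) (nat_lit 21173261538) (nat_lit 7) (nat_lit 4) (nat_lit 8) (nat_lit 5) (nat_lit 8) (nat_lit 4) (nat_lit 323) (nat_lit 273) (nat_lit 184))))) (XT.nd (nat_lit 156) (nat_lit 76) (nat_lit 0) (XT.nd (nat_lit 78) (nat_lit 0) (nat_lit 0) (XT.lf (nat_lit 0) (nat_lit 125416326) (nat_lit 152) (nat_lit 70002103455) (nat_lit 76) (nat_lit 112881087326) (nat_lit 6) (nat_lit 5) (nat_lit 8) (nat_lit 5) (nat_lit 7) (nat_lit 4) (nat_lit 324) (nat_lit 273) (nat_lit 183))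 (XT.lf (nat_lit 0) (nat_lit 22391916571) (nat_lit 152) (nat_lit 24360890741) (nat_lit 76) (nat_lit 149500187170) (nat_lit 6) (nat_lit 5) (nat_lit 8) (nat_lit 5) (nat_lit 7) (nat_lit 4) (nat_lit 325) (nat_lit 273) (nat_lit 182))) (XT.nd (nat_lit 78) (nat_lit 0) (nat_lit 0) (XT.lf (nat_lit 0) (nat_lit 25748585902) (nat_lit 76) (nat_lit 21089287112) (nat_lit 152) (nat_lit 163699155199) (nat_lit 5) (nat_lit 5) (nat_lit 6) (nat_lit 5) (nat_lit 7) (nat_lit 4) (nat_lit 326) (nat_lit 273) (nat_lit 181)) (XT.nd (nat_lit 78) (nat_lit 0) (nat_lit 0) (XT.lf (nat_lit 0) (nat_lit 73770543978) (nat_lit 152) (nat_lit 145323229820) (nat_lit 0) (nat_lit 6843460958) (nat_lit 5) (nat_lit 5) (nat_lit 7) (nat_lit 4) (nat_lit 5) (nat_lit 4) (nat_lit 327) (nat_lit 273) (nat_lit 180)) (XT.lf (nat_lit 0) (nat_lit 103209969075) (nat_lit 152) (nat_lit 103062862961) (nat_lit 0) (nat_lit 36279020629) (nat_lit 5) (nat_lit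 5) (nat_lit 7) (nat_lit 4) (nat_lit 5) (nat_lit 4) (nat_lit 328) (nat_lit 273) (nat_lit 179)))))) (XT.nd (nat_lit 390) (nat_lit 152) (nat_lit 0) (XT.nd (nat_lit 156) (nat_lit 76) (nat_lit 0) (XT.nd (nat_lit 78) (nat_lit 0) (nat_lit 0) (XT.lf (nat_lit 0) (nat_lit 135001341282) (nat_lit 152) (nat_lit 57427647055) (nat_lit 0) (nat_lit 68066813738) (nat_lit 5) (nat_lit 5) (nat_lit 7) (nat_lit 4) (nat_lit 5) (nat_lit 4) (nat_lit 329) (nat_lit 273) (nat_lit 178)) (XT.lf (nat_lit 0) (nat_lit 169333053918) (nat_lit 152) (nat_lit 8147151194) (nat_lit 0) (nat_lit 102395212394) (nat_lit 5) (nat_lit 5) (nat_lit 7) (nat_lit 4) (nat_lit 5) (nat_lit 4) (nat_lit 330) (nat_lit 273) (nat_lit 177))) (XT.nd (nat_lit 78) (nat_lit 0) (nat_lit 0) (XT.lf (nat_lit 0) (nat_lit 46560896661) (nat_lit 76) (nat_lit 160574603589) (nat_lit 76) (nat_lit 93633693566) (nat_lit 4) (nat_lit 4) (nat_lit 5) (nat_lit 5) (nat_lit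 5) (nat_lit 4) (nat_lit 331) (nat_lit 273) (nat_lit 176)) (XT.nd (nat_lit 78) (nat_lit 0) (nat_lit 0) (XT.lf (nat_lit 0) (nat_lit 105931616161) (nat_lit 76) (nat_lit 142169821939) (nat_lit 76) (nat_lit 75226070712) (nat_lit 4) (nat_lit 4) (nat_lit 5) (nat_lit 5) (nat_lit 5) (nat_lit 4) (nat_lit 332) (nat_lit 273) (nat_lit 175)) (XT.lf (nat_lit 0) (nat_lit 170047452178) (nat_lit 76) (nat_lit 122294770736) (nat_lit 76) (nat_lit 55348388765) (nat_lit 4) (nat_lit 4) (nat_lit 5) (nat_lit 5) (nat_lit 5) (nat_lit 4) (nat_lit 333) (nat_lit 273) (nat_lit 174))))) (XT.nd (nat_lit 234) (nat_lit 76) (nat_lit 0) (XT.nd (nat_lit 78) (nat_lit 76) (nat_lit 0) (XT.lf (nat_lit 0) (nat_lit 239288350408) (nat_lit 76) (nat_lit 100831671899) (nat_lit 76) (nat_lit 33882854054) (nat_lit 4) (nat_lit 4) (nat_lit 5) (nat_lit 5) (nat_lit 5) (nat_lit 4) (nat_lit 334) (nat_lit 273) (nat_lit 173)) (XT.nd (nat_lit 78)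 (nat_lit 76) (nat_lit 0) (XT.lf (nat_lit 0) (nat_lit 314064627283) (nat_lit 76) (nat_lit 77653336694) (nat_lit 76) (nat_lit 10702263410) (nat_lit 4) (nat_lit 4) (nat_lit 5) (nat_lit 5) (nat_lit 5) (nat_lit 4) (nat_lit 335) (nat_lit 273) (nat_lit 172)) (XT.lf (nat_lit 0) (nat_lit 13872076143) (nat_lit 152) (nat_lit 38515405559) (nat_lit 76) (nat_lit 380712395018) (nat_lit 3) (nat_lit 5) (nat_lit 5) (nat_lit 5) (nat_lit 4) (nat_lit 4) (nat_lit 336) (nat_lit 273) (nat_lit 171)))) (XT.nd (nat_lit 78) (nat_lit 0) (nat_lit 0) (XT.lf (nat_lit 0) (nat_lit 15628350973) (nat_lit 76) (nat_lit 24656256978) (nat_lit 152) (nat_lit 425928158576) (nat_lit 2) (nat_lit 5) (nat_lit 3) (nat_lit 5) (nat_lit 4) (nat_lit 4) (nat_lit 337) (nat_lit 273) (nat_lit 170)) (XT.nd (nat_lit 78) (nat_lit 0) (nat_lit 0) (XT.lf (nat_lit 0) (nat_lit 69572945328) (nat_lit 152) (nat_lit 426559120171) (nat_lit 0) (nat_lit 5804482691)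 (nat_lit 2) (nat_lit 5) (nat_lit 4) (nat_lit 4) (nat_lit 2) (nat_lit 4) (nat_lit 338) (nat_lit 273) (nat_lit 169)) (XT.lf (nat_lit 0) (nat_lit 101618474309) (nat_lit 152) (nat_lit 401030619806) (nat_lit 0) (nat_lit 37848432801) (nat_lit 2) (nat_lit 5) (nat_lit 4) (nat_lit 4) (nat_lit 2) (nat_lit 4) (nat_lit 339) (nat_lit 273) (nat_lit 168))))))) (XT.nd (nat_lit 35646) (nat_lit 0) (nat_lit 4332) (XT.nd (nat_lit 390) (nat_lit 0) (nat_lit 0) (XT.nd (nat_lit 156) (nat_lit 0) (nat_lit 0) (XT.nd (nat_lit 78) (nat_lit 0) (nat_lit 0) (XT.lf (nat_lit 0) (nat_lit 136226141055) (nat_lit 152) (nat_lit 373462681189) (nat_lit 0) (nat_lit 72454637629) (nat_lit 2) (nat_lit 5) (nat_lit 4) (nat_lit 4) (nat_lit 2) (nat_lit 4) (nat_lit 340) (nat_lit 273) (nat_lit 167)) (XT.lf (nat_lit 0) (nat_lit 173601028037) (nat_lit 152) (nat_lit 343691938756) (nat_lit 0) (nat_lit 109828170983) (nat_lit 2) (nat_lit 5)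 (nat_lit 4) (nat_lit 4) (nat_lit 2) (nat_lit 4) (nat_lit 341) (nat_lit 273) (nat_lit 166))) (XT.nd (nat_lit 78) (nat_lit 0) (nat_lit 0) (XT.lf (nat_lit 0) (nat_lit 213964616065) (nat_lit 152) (nat_lit 311541973293) (nat_lit 0) (nat_lit 150190505652) (nat_lit 2) (nat_lit 5) (nat_lit 4) (nat_lit 4) (nat_lit 2) (nat_lit 4) (nat_lit 342) (nat_lit 273) (nat_lit 165)) (XT.nd (nat_lit 78) (nat_lit 0) (nat_lit 0) (XT.lf (nat_lit 0) (nat_lit 257556096773) (nat_lit 152) (nat_lit 276822266486) (nat_lit 0) (nat_lit 193780825842) (nat_lit 2) (nat_lit 5) (nat_lit 4) (nat_lit 4) (nat_lit 2) (nat_lit 4) (nat_lit 343) (nat_lit 273) (nat_lit 164)) (XT.lf (nat_lit 0) (nat_lit 304633790046) (nat_lit 152) (nat_lit 239327071924) (nat_lit 0) (nat_lit 240857444562) (nat_lit 2) (nat_lit 5) (nat_lit 4) (nat_lit 4) (nat_lit 2) (nat_lit 4) (nat_lit 344) (nat_lit 273) (nat_lit 163))))) (XT.nd (nat_lit 156) (nat_lit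 0) (nat_lit 0) (XT.nd (nat_lit 78) (nat_lit 0) (nat_lit 0) (XT.lf (nat_lit 0) (nat_lit 355476674807) (nat_lit 152) (nat_lit 198834195863) (nat_lit 0) (nat_lit 291699334366) (nat_lit 2) (nat_lit 5) (nat_lit 4) (nat_lit 4) (nat_lit 2) (nat_lit 4) (nat_lit 345) (nat_lit 273) (nat_lit 162)) (XT.lf (nat_lit 0) (nat_lit 410386042225) (nat_lit 152) (nat_lit 155103680517) (nat_lit 0) (nat_lit 346607780528) (nat_lit 2) (nat_lit 5) (nat_lit 4) (nat_lit 4) (nat_lit 2) (nat_lit 4) (nat_lit 346) (nat_lit 273) (nat_lit 161))) (XT.nd (nat_lit 34944) (nat_lit 0) (nat_lit 6232) (XT.lf (nat_lit 0) (nat_lit 469687281145) (nat_lit 152) (nat_lit 107876382093) (nat_lit 0) (nat_lit 405908166433) (nat_lit 2) (nat_lit 5) (nat_lit 4) (nat_lit 4) (nat_lit 2) (nat_lit 4) (nat_lit 347) (nat_lit 273) (nat_lit 160)) (XT.nd (nat_lit 78) (nat_lit 0) (nat_lit 0) (XT.lf (nat_lit 0) (nat_lit 781799865) (nat_lit 0) (nat_lit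 781799865) (nat_lit 684) (nat_lit 4598013745) (nat_lit 84) (nat_lit 5) (nat_lit 84) (nat_lit 3) (nat_lit 93) (nat_lit 3) (nat_lit 274) (nat_lit 274) (nat_lit 232)) (XT.lf (nat_lit 0) (nat_lit 4022389284) (nat_lit 684) (nat_lit 2045165514) (nat_lit 760) (nat_lit 6708558596) (nat_lit 84) (nat_lit 5) (nat_lit 93) (nat_lit 3) (nat_lit 94) (nat_lit 5) (nat_lit 275) (nat_lit 274) (nat_lit 231)))))) (XT.nd (nat_lit 390) (nat_lit 1976) (nat_lit 0) (XT.nd (nat_lit 156) (nat_lit 0) (nat_lit 76) (XT.nd (nat_lit 78) (nat_lit 0) (nat_lit 0) (XT.lf (nat_lit 0) (nat_lit 5106314980) (nat_lit 684) (nat_lit 5755666928) (nat_lit 760) (nat_lit 2397546638) (nat_lit 85) (nat_lit 5) (nat_lit 94) (nat_lit 5) (nat_lit 95) (nat_lit 5) (nat_lit 276) (nat_lit 274) (nat_lit 230)) (XT.lf (nat_lit 76) (nat_lit 4099216624) (nat_lit 0) (nat_lit 2319270712) (nat_lit 760) (nat_lit 7356195378) (nat_lit 86) (nat_lit 5) (nat_lit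 85) (nat_lit 5) (nat_lit 95) (nat_lit 5) (nat_lit 277) (nat_lit 274) (nat_lit 229))) (XT.nd (nat_lit 78) (nat_lit 0) (nat_lit 76) (XT.lf (nat_lit 76) (nat_lit 487419492) (nat_lit 0) (nat_lit 7508816340) (nat_lit 760) (nat_lit 6326915149) (nat_lit 87) (nat_lit 5) (nat_lit 86) (nat_lit 5) (nat_lit 96) (nat_lit 5) (nat_lit 278) (nat_lit 274) (nat_lit 228)) (XT.nd (nat_lit 78) (nat_lit 0) (nat_lit 0) (XT.lf (nat_lit 0) (nat_lit 9883351168) (nat_lit 684) (nat_lit 3207684398) (nat_lit 760) (nat_lit 1815425909) (nat_lit 87) (nat_lit 5) (nat_lit 96) (nat_lit 5) (nat_lit 97) (nat_lit 5) (nat_lit 279) (nat_lit 274) (nat_lit 227)) (XT.lf (nat_lit 76) (nat_lit 8373170130) (nat_lit 0) (nat_lit 3756598558) (nat_lit 760) (nat_lit 3396364540) (nat_lit 88) (nat_lit 5) (nat_lit 87) (nat_lit 5) (nat_lit 97) (nat_lit 5) (nat_lit 280) (nat_lit 274) (nat_lit 226))))) (XT.nd (nat_lit 234) (nat_lit 988) (nat_lit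 0) (XT.nd (nat_lit 78) (nat_lit 532) (nat_lit 0) (XT.lf (nat_lit 0) (nat_lit 4817305585) (nat_lit 684) (nat_lit 9923522353) (nat_lit 760) (nat_lit 1445409061) (nat_lit 79) (nat_lit 5) (nat_lit 88) (nat_lit 5) (nat_lit 89) (nat_lit 5) (nat_lit 281) (nat_lit 274) (nat_lit 225)) (XT.nd (nat_lit 78) (nat_lit 0) (nat_lit 0) (XT.lf (nat_lit 0) (nat_lit 806100368) (nat_lit 532) (nat_lit 15868773353) (nat_lit 76) (nat_lit 215568504) (nat_lit 72) (nat_lit 5) (nat_lit 79) (nat_lit 5) (nat_lit 73) (nat_lit 5) (nat_lit 282) (nat_lit 274) (nat_lit 224)) (XT.lf (nat_lit 0) (nat_lit 3515273897) (nat_lit 532) (nat_lit 3066499862) (nat_lit 76) (nat_lit 11051701660) (nat_lit 72) (nat_lit 5) (nat_lit 79) (nat_lit 5) (nat_lit 73) (nat_lit 5) (nat_lit 283) (nat_lit 274) (nat_lit 223)))) (XT.nd (nat_lit 78) (nat_lit 608) (nat_lit 0) (XT.lf (nat_lit 0) (nat_lit 6646348754) (nat_lit 456) (nat_lit 7422069256)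 (nat_lit 76) (nat_lit 4357354037) (nat_lit 67) (nat_lit 5) (nat_lit 73) (nat_lit 5) (nat_lit 68) (nat_lit 5) (nat_lit 284) (nat_lit 274) (nat_lit 222)) (XT.nd (nat_lit 78) (nat_lit 304) (nat_lit 0) (XT.lf (nat_lit 0) (nat_lit 7108639361) (nat_lit 304) (nat_lit 3159738659) (nat_lit 380) (nat_lit 9001124251) (nat_lit 63) (nat_lit 5) (nat_lit 67) (nat_lit 5) (nat_lit 68) (nat_lit 5) (nat_lit 285) (nat_lit 274) (nat_lit 221)) (XT.lf (nat_lit 0) (nat_lit 2808364316) (nat_lit 304) (nat_lit 11647940588) (nat_lit 380) (nat_lit 5710687106) (nat_lit 59) (nat_lit 5) (nat_lit 63) (nat_lit 5) (nat_lit 64) (nat_lit 5) (nat_lit 286) (nat_lit 274) (nat_lit 220))))))))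
noncomputable def xc75 : XT := (XT.nd (nat_lit 1638) (nat_lit 988) (nat_lit 0) (XT.nd (nat_lit 780) (nat_lit 1368) (nat_lit 0) (XT.nd (nat_lit 390) (nat_lit 912) (nat_lit 0) (XT.nd (nat_lit 156) (nat_lit 532) (nat_lit 0) (XT.nd (nat_lit 78) (nat_lit 304) (nat_lit 0) (XT.lf (nat_lit 0) (nat_lit 19213402414) (nat_lit 380) (nat_lit 1807786523) (nat_lit 76) (nat_lit 103448000) (nat_lit 59) (nat_lit 5) (nat_lit 64) (nat_lit 5) (nat_lit 60) (nat_lit 5) (nat_lit 287) (nat_lit 274) (nat_lit 219)) (XT.lf (nat_lit 0) (nat_lit 2533511791) (nat_lit 304) (nat_lit 6935519401) (nat_lit 76) (nat_lit 12667631334) (nat_lit 55) (nat_lit 5) (nat_lit 59) (nat_lit 5) (nat_lit 56) (nat_lit 5) (nat_lit 288) (nat_lit 274) (nat_lit 218))) (XT.nd (nat_lit 78) (nat_lit 228) (nat_lit 0) (XT.lf (nat_lit 0) (nat_lit 7488882186) (nat_lit 380) (nat_lit 12587848194) (nat_lit 76) (nat_lit 3140304266) (nat_lit 51) (nat_lit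 5) (nat_lit 56) (nat_lit 5) (nat_lit 52) (nat_lit 5) (nat_lit 289) (nat_lit 274) (nat_lit 217)) (XT.nd (nat_lit 78) (nat_lit 0) (nat_lit 0) (XT.lf (nat_lit 0) (nat_lit 5447784907) (nat_lit 228) (nat_lit 7733580163) (nat_lit 304) (nat_lit 11185484825) (nat_lit 48) (nat_lit 5) (nat_lit 51) (nat_lit 5) (nat_lit 52) (nat_lit 5) (nat_lit 290) (nat_lit 274) (nat_lit 216)) (XT.lf (nat_lit 0) (nat_lit 19614039837) (nat_lit 304) (nat_lit 346489859) (nat_lit 76) (nat_lit 5633924990) (nat_lit 48) (nat_lit 5) (nat_lit 52) (nat_lit 5) (nat_lit 49) (nat_lit 5) (nat_lit 291) (nat_lit 274) (nat_lit 215))))) (XT.nd (nat_lit 156) (nat_lit 380) (nat_lit 0) (XT.nd (nat_lit 78) (nat_lit 228) (nat_lit 0) (XT.lf (nat_lit 0) (nat_lit 81588251) (nat_lit 304) (nat_lit 6703714897) (nat_lit 76) (nat_lit 20113831740) (nat_lit 44) (nat_lit 5) (nat_lit 48) (nat_lit 5) (nat_lit 45) (nat_lit 5) (nat_lit 292) (nat_lit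 274) (nat_lit 214)) (XT.lf (nat_lit 0) (nat_lit 6751870148) (nat_lit 304) (nat_lit 13999244945) (nat_lit 76) (nat_lit 7535566192) (nat_lit 41) (nat_lit 5) (nat_lit 45) (nat_lit 5) (nat_lit 42) (nat_lit 5) (nat_lit 293) (nat_lit 274) (nat_lit 213))) (XT.nd (nat_lit 78) (nat_lit 152) (nat_lit 0) (XT.lf (nat_lit 0) (nat_lit 7511767542) (nat_lit 228) (nat_lit 6772798607) (nat_lit 304) (nat_lit 15484258919) (nat_lit 38) (nat_lit 5) (nat_lit 41) (nat_lit 5) (nat_lit 42) (nat_lit 5) (nat_lit 294) (nat_lit 274) (nat_lit 212)) (XT.nd (nat_lit 78) (nat_lit 152) (nat_lit 0) (XT.lf (nat_lit 0) (nat_lit 22777117614) (nat_lit 304) (nat_lit 277544990) (nat_lit 76) (nat_lit 8297046551) (nat_lit 38) (nat_lit 5) (nat_lit 42) (nat_lit 5) (nat_lit 39) (nat_lit 5) (nat_lit 295) (nat_lit 274) (nat_lit 211)) (XT.lf (nat_lit 0) (nat_lit 24089538940) (nat_lit 152) (nat_lit 8330791889) (nat_lit 228) (nat_lit 617358770)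 (nat_lit 36) (nat_lit 5) (nat_lit 38) (nat_lit 5) (nat_lit 39) (nat_lit 5) (nat_lit 296) (nat_lit 274) (nat_lit 210)))))) (XT.nd (nat_lit 390) (nat_lit 532) (nat_lit 0) (XT.nd (nat_lit 156) (nat_lit 380) (nat_lit 0) (XT.nd (nat_lit 78) (nat_lit 152) (nat_lit 0) (XT.lf (nat_lit 0) (nat_lit 8080445887) (nat_lit 304) (nat_lit 19049526923) (nat_lit 76) (nat_lit 7704409591) (nat_lit 32) (nat_lit 5) (nat_lit 36) (nat_lit 5) (nat_lit 33) (nat_lit 5) (nat_lit 297) (nat_lit 274) (nat_lit 209)) (XT.lf (nat_lit 0) (nat_lit 6063013785) (nat_lit 152) (nat_lit 11765733591) (nat_lit 228) (nat_lit 18926765412) (nat_lit 30) (nat_lit 5) (nat_lit 32) (nat_lit 5) (nat_lit 33) (nat_lit 5) (nat_lit 298) (nat_lit 274) (nat_lit 208))) (XT.nd (nat_lit 78) (nat_lit 380) (nat_lit 0) (XT.lf (nat_lit 0) (nat_lit 28752774039) (nat_lit 228) (nat_lit 5055927489) (nat_lit 76) (nat_lit 5001860580) (nat_lit 30) (nat_lit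 5) (nat_lit 33) (nat_lit 5) (nat_lit 31) (nat_lit 5) (nat_lit 299) (nat_lit 274) (nat_lit 207)) (XT.nd (nat_lit 78) (nat_lit 152) (nat_lit 0) (XT.lf (nat_lit 0) (nat_lit 89238236) (nat_lit 228) (nat_lit 17854384989) (nat_lit 76) (nat_lit 23059125790) (nat_lit 27) (nat_lit 5) (nat_lit 30) (nat_lit 5) (nat_lit 28) (nat_lit 5) (nat_lit 300) (nat_lit 274) (nat_lit 206)) (XT.lf (nat_lit 0) (nat_lit 10567110584) (nat_lit 152) (nat_lit 372738177) (nat_lit 228) (nat_lit 32410025724) (nat_lit 25) (nat_lit 5) (nat_lit 27) (nat_lit 5) (nat_lit 28) (nat_lit 5) (nat_lit 301) (nat_lit 274) (nat_lit 205))))) (XT.nd (nat_lit 234) (nat_lit 228) (nat_lit 0) (XT.nd (nat_lit 78) (nat_lit 304) (nat_lit 0) (XT.lf (nat_lit 0) (nat_lit 23250692761) (nat_lit 228) (nat_lit 4288146403) (nat_lit 76) (nat_lit 18316337892) (nat_lit 25) (nat_lit 5) (nat_lit 28) (nat_lit 5) (nat_lit 26) (nat_lit 5) (nat_lit 302) (nat_lit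 274) (nat_lit 204)) (XT.nd (nat_lit 78) (nat_lit 152) (nat_lit 0) (XT.lf (nat_lit 0) (nat_lit 27333036223) (nat_lit 152) (nat_lit 9633080325) (nat_lit 228) (nat_lit 11573816760) (nat_lit 23) (nat_lit 5) (nat_lit 25) (nat_lit 5) (nat_lit 26) (nat_lit 5) (nat_lit 303) (nat_lit 274) (nat_lit 203)) (XT.lf (nat_lit 0) (nat_lit 711002085) (nat_lit 152) (nat_lit 41073155301) (nat_lit 76) (nat_lit 9635933218) (nat_lit 21) (nat_lit 5) (nat_lit 23) (nat_lit 5) (nat_lit 22) (nat_lit 5) (nat_lit 304) (nat_lit 274) (nat_lit 202)))) (XT.nd (nat_lit 78) (nat_lit 228) (nat_lit 0) (XT.lf (nat_lit 0) (nat_lit 14104076628) (nat_lit 152) (nat_lit 9714102753) (nat_lit 76) (nat_lit 30676458668) (nat_lit 21) (nat_lit 5) (nat_lit 23) (nat_lit 5) (nat_lit 22) (nat_lit 5) (nat_lit 305) (nat_lit 274) (nat_lit 201)) (XT.nd (nat_lit 78) (nat_lit 76) (nat_lit 0) (XT.lf (nat_lit 0) (nat_lit 24932564739) (nat_lit 152)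 (nat_lit 4013856692) (nat_lit 228) (nat_lit 28849848053) (nat_lit 19) (nat_lit 5) (nat_lit 21) (nat_lit 5) (nat_lit 22) (nat_lit 5) (nat_lit 306) (nat_lit 274) (nat_lit 200)) (XT.lf (nat_lit 0) (nat_lit 1086291158) (nat_lit 76) (nat_lit 44339083496) (nat_lit 152) (nat_lit 15914206301) (nat_lit 18) (nat_lit 5) (nat_lit 19) (nat_lit 5) (nat_lit 20) (nat_lit 4) (nat_lit 307) (nat_lit 274) (nat_lit 199))))))) (XT.nd (nat_lit 858) (nat_lit 380) (nat_lit 0) (XT.nd (nat_lit 390) (nat_lit 304) (nat_lit 0) (XT.nd (nat_lit 156) (nat_lit 76) (nat_lit 0) (XT.nd (nat_lit 78) (nat_lit 228) (nat_lit 0) (XT.lf (nat_lit 0) (nat_lit 38838017813) (nat_lit 76) (nat_lit 25013219091) (nat_lit 152) (nat_lit 1283700580) (nat_lit 18) (nat_lit 5) (nat_lit 19) (nat_lit 5) (nat_lit 20) (nat_lit 4) (nat_lit 308) (nat_lit 274) (nat_lit 198)) (XT.lf (nat_lit 0) (nat_lit 10467417141) (nat_lit 152) (nat_lit 3738757899)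 (nat_lit 228) (nat_lit 55008744777) (nat_lit 15) (nat_lit 5) (nat_lit 17) (nat_lit 5) (nat_lit 18) (nat_lit 5) (nat_lit 309) (nat_lit 274) (nat_lit 197))) (XT.nd (nat_lit 78) (nat_lit 76) (nat_lit 0) (XT.lf (nat_lit 0) (nat_lit 31647323405) (nat_lit 228) (nat_lit 22832496787) (nat_lit 76) (nat_lit 19102583452) (nat_lit 15) (nat_lit 5) (nat_lit 18) (nat_lit 5) (nat_lit 16) (nat_lit 4) (nat_lit 310) (nat_lit 274) (nat_lit 196)) (XT.nd (nat_lit 78) (nat_lit 0) (nat_lit 0) (XT.lf (nat_lit 0) (nat_lit 16402323249) (nat_lit 76) (nat_lit 34391788768) (nat_lit 152) (nat_lit 27489664135) (nat_lit 14) (nat_lit 5) (nat_lit 15) (nat_lit 5) (nat_lit 16) (nat_lit 4) (nat_lit 311) (nat_lit 274) (nat_lit 195)) (XT.lf (nat_lit 0) (nat_lit 59576614994) (nat_lit 76) (nat_lit 12285397521) (nat_lit 152) (nat_lit 11479784352) (nat_lit 14) (nat_lit 5) (nat_lit 15) (nat_lit 5) (nat_lit 16) (nat_lit 4) (nat_lit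 312) (nat_lit 274) (nat_lit 194))))) (XT.nd (nat_lit 234) (nat_lit 76) (nat_lit 0) (XT.nd (nat_lit 78) (nat_lit 76) (nat_lit 0) (XT.lf (nat_lit 0) (nat_lit 6082905793) (nat_lit 152) (nat_lit 71105577330) (nat_lit 76) (nat_lit 11588545711) (nat_lit 12) (nat_lit 5) (nat_lit 14) (nat_lit 5) (nat_lit 13) (nat_lit 4) (nat_lit 313) (nat_lit 274) (nat_lit 193)) (XT.nd (nat_lit 78) (nat_lit 76) (nat_lit 0) (XT.lf (nat_lit 0) (nat_lit 25274121712) (nat_lit 152) (nat_lit 31775754235) (nat_lit 76) (nat_lit 37556514030) (nat_lit 12) (nat_lit 5) (nat_lit 14) (nat_lit 5) (nat_lit 13) (nat_lit 4) (nat_lit 314) (nat_lit 274) (nat_lit 192)) (XT.lf (nat_lit 0) (nat_lit 11041322581) (nat_lit 76) (nat_lit 35124674695) (nat_lit 152) (nat_lit 54727839791) (nat_lit 11) (nat_lit 5) (nat_lit 12) (nat_lit 5) (nat_lit 13) (nat_lit 4) (nat_lit 315) (nat_lit 274) (nat_lit 191)))) (XT.nd (nat_lit 78) (nat_lit 76) (nat_lit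 0) (XT.lf (nat_lit 0) (nat_lit 58406488326) (nat_lit 76) (nat_lit 10869557322) (nat_lit 152) (nat_lit 38380897932) (nat_lit 11) (nat_lit 5) (nat_lit 12) (nat_lit 5) (nat_lit 13) (nat_lit 4) (nat_lit 316) (nat_lit 274) (nat_lit 190)) (XT.nd (nat_lit 78) (nat_lit 76) (nat_lit 0) (XT.lf (nat_lit 0) (nat_lit 94467907975) (nat_lit 152) (nat_lit 5650842144) (nat_lit 0) (nat_lit 14830702428) (nat_lit 11) (nat_lit 5) (nat_lit 13) (nat_lit 4) (nat_lit 11) (nat_lit 4) (nat_lit 317) (nat_lit 274) (nat_lit 189)) (XT.lf (nat_lit 0) (nat_lit 42606647936) (nat_lit 76) (nat_lit 79911154410) (nat_lit 76) (nat_lit 265429841) (nat_lit 10) (nat_lit 4) (nat_lit 11) (nat_lit 5) (nat_lit 11) (nat_lit 4) (nat_lit 318) (nat_lit 274) (nat_lit 188)))))) (XT.nd (nat_lit 390) (nat_lit 152) (nat_lit 0) (XT.nd (nat_lit 156) (nat_lit 76) (nat_lit 0) (XT.nd (nat_lit 78) (nat_lit 76) (nat_lit 0) (XT.lf (nat_lit 0) (nat_lit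 20972084258) (nat_lit 152) (nat_lit 36660839822) (nat_lit 76) (nat_lit 73589235912) (nat_lit 9) (nat_lit 5) (nat_lit 11) (nat_lit 5) (nat_lit 10) (nat_lit 4) (nat_lit 319) (nat_lit 274) (nat_lit 187)) (XT.lf (nat_lit 0) (nat_lit 10663521032) (nat_lit 76) (nat_lit 33397180076) (nat_lit 152) (nat_lit 96267216654) (nat_lit 8) (nat_lit 5) (nat_lit 9) (nat_lit 5) (nat_lit 10) (nat_lit 4) (nat_lit 320) (nat_lit 274) (nat_lit 186))) (XT.nd (nat_lit 78) (nat_lit 76) (nat_lit 0) (XT.lf (nat_lit 0) (nat_lit 63073922169) (nat_lit 76) (nat_lit 6556127140) (nat_lit 152) (nat_lit 80500407852) (nat_lit 8) (nat_lit 5) (nat_lit 9) (nat_lit 5) (nat_lit 10) (nat_lit 4) (nat_lit 321) (nat_lit 274) (nat_lit 185)) (XT.nd (nat_lit 78) (nat_lit 76) (nat_lit 0) (XT.lf (nat_lit 0) (nat_lit 97590517606) (nat_lit 152) (nat_lit 41398832242) (nat_lit 0) (nat_lit 21710574128) (nat_lit 8) (nat_lit 5) (nat_lit 10) (nat_lit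 4) (nat_lit 8) (nat_lit 4) (nat_lit 322) (nat_lit 274) (nat_lit 184)) (XT.lf (nat_lit 0) (nat_lit 8050686374) (nat_lit 76) (nat_lit 119969066617) (nat_lit 76) (nat_lit 44083601326) (nat_lit 7) (nat_lit 4) (nat_lit 8) (nat_lit 5) (nat_lit 8) (nat_lit 4) (nat_lit 323) (nat_lit 274) (nat_lit 183))))) (XT.nd (nat_lit 234) (nat_lit 76) (nat_lit 0) (XT.nd (nat_lit 78) (nat_lit 76) (nat_lit 0) (XT.lf (nat_lit 0) (nat_lit 62926925489) (nat_lit 76) (nat_lit 98673431331) (nat_lit 76) (nat_lit 22782853251) (nat_lit 7) (nat_lit 4) (nat_lit 8) (nat_lit 5) (nat_lit 8) (nat_lit 4) (nat_lit 324) (nat_lit 274) (nat_lit 182)) (XT.nd (nat_lit 78) (nat_lit 0) (nat_lit 0) (XT.lf (nat_lit 0) (nat_lit 210979325) (nat_lit 152) (nat_lit 75462804526) (nat_lit 76) (nat_lit 121971692913) (nat_lit 6) (nat_lit 5) (nat_lit 8) (nat_lit 5) (nat_lit 7) (nat_lit 4) (nat_lit 325) (nat_lit 274) (nat_lit 181)) (XT.lf (nat_lit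 0) (nat_lit 24253204798) (nat_lit 152) (nat_lit 26180625699) (nat_lit 76) (nat_lit 161515867515) (nat_lit 6) (nat_lit 5) (nat_lit 8) (nat_lit 5) (nat_lit 7) (nat_lit 4) (nat_lit 326) (nat_lit 274) (nat_lit 180)))) (XT.nd (nat_lit 78) (nat_lit 0) (nat_lit 0) (XT.lf (nat_lit 0) (nat_lit 27931996968) (nat_lit 76) (nat_lit 22719588984) (nat_lit 152) (nat_lit 176725033990) (nat_lit 5) (nat_lit 5) (nat_lit 6) (nat_lit 5) (nat_lit 7) (nat_lit 4) (nat_lit 327) (nat_lit 274) (nat_lit 179)) (XT.nd (nat_lit 78) (nat_lit 0) (nat_lit 0) (XT.lf (nat_lit 0) (nat_lit 79734752816) (nat_lit 152) (nat_lit 156832414804) (nat_lit 0) (nat_lit 7441883971) (nat_lit 5) (nat_lit 5) (nat_lit 7) (nat_lit 4) (nat_lit 5) (nat_lit 4) (nat_lit 328) (nat_lit 274) (nat_lit 178)) (XT.lf (nat_lit 0) (nat_lit 111524697453) (nat_lit 152) (nat_lit 111199861070) (nat_lit 0) (nat_lit 39228514627) (nat_lit 5) (nat_lit 5) (nat_lit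 7) (nat_lit 4) (nat_lit 5) (nat_lit 4) (nat_lit 329) (nat_lit 274) (nat_lit 177))))))))
noncomputable def xc76 : XT := (XT.nd (nat_lit 36582) (nat_lit 0) (nat_lit 2280) (XT.nd (nat_lit 780) (nat_lit 0) (nat_lit 0) (XT.nd (nat_lit 390) (nat_lit 152) (nat_lit 0) (XT.nd (nat_lit 156) (nat_lit 76) (nat_lit 0) (XT.nd (nat_lit 78) (nat_lit 0) (nat_lit 0) (XT.lf (nat_lit 0) (nat_lit 145855088263) (nat_lit 152) (nat_lit 61921830183) (nat_lit 0) (nat_lit 73555836938) (nat_lit 5) (nat_lit 5) (nat_lit 7) (nat_lit 4) (nat_lit 5) (nat_lit 4) (nat_lit 330) (nat_lit 274) (nat_lit 176)) (XT.lf (nat_lit 0) (nat_lit 182929364600) (nat_lit 152) (nat_lit 8706304182) (nat_lit 0) (nat_lit 110627272071) (nat_lit 5) (nat_lit 5) (nat_lit 7) (nat_lit 4) (nat_lit 5) (nat_lit 4) (nat_lit 331) (nat_lit 274) (nat_lit 175))) (XT.nd (nat_lit 78) (nat_lit 0) (nat_lit 0) (XT.lf (nat_lit 0) (nat_lit 50374362389) (nat_lit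 76) (nat_lit 173379348461) (nat_lit 76) (nat_lit 101074625188) (nat_lit 4) (nat_lit 4) (nat_lit 5) (nat_lit 5) (nat_lit 5) (nat_lit 4) (nat_lit 332) (nat_lit 274) (nat_lit 174)) (XT.nd (nat_lit 78) (nat_lit 0) (nat_lit 0) (XT.lf (nat_lit 0) (nat_lit 114488176930) (nat_lit 76) (nat_lit 153505237865) (nat_lit 76) (nat_lit 81198078718) (nat_lit 4) (nat_lit 4) (nat_lit 5) (nat_lit 5) (nat_lit 5) (nat_lit 4) (nat_lit 333) (nat_lit 274) (nat_lit 173)) (XT.lf (nat_lit 0) (nat_lit 183727203423) (nat_lit 76) (nat_lit 132043009960) (nat_lit 76) (nat_lit 59733595375) (nat_lit 4) (nat_lit 4) (nat_lit 5) (nat_lit 5) (nat_lit 5) (nat_lit 4) (nat_lit 334) (nat_lit 274) (nat_lit 172))))) (XT.nd (nat_lit 156) (nat_lit 152) (nat_lit 0) (XT.nd (nat_lit 78) (nat_lit 0) (nat_lit 0) (XT.lf (nat_lit 0) (nat_lit 258501747209) (nat_lit 76) (nat_lit 108865481174) (nat_lit 76) (nat_lit 36553978219) (nat_lit 4) (nat_lit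 4) (nat_lit 5) (nat_lit 5) (nat_lit 5) (nat_lit 4) (nat_lit 335) (nat_lit 274) (nat_lit 171)) (XT.lf (nat_lit 0) (nat_lit 339254916697) (nat_lit 76) (nat_lit 83835303188) (nat_lit 76) (nat_lit 11521866558) (nat_lit 4) (nat_lit 4) (nat_lit 5) (nat_lit 5) (nat_lit 5) (nat_lit 4) (nat_lit 336) (nat_lit 274) (nat_lit 170))) (XT.nd (nat_lit 78) (nat_lit 76) (nat_lit 0) (XT.lf (nat_lit 0) (nat_lit 15014626681) (nat_lit 152) (nat_lit 41535242373) (nat_lit 76) (nat_lit 411196342536) (nat_lit 3) (nat_lit 5) (nat_lit 5) (nat_lit 5) (nat_lit 4) (nat_lit 4) (nat_lit 337) (nat_lit 274) (nat_lit 169)) (XT.nd (nat_lit 78) (nat_lit 0) (nat_lit 0) (XT.lf (nat_lit 0) (nat_lit 16937346502) (nat_lit 76) (nat_lit 26601302954) (nat_lit 152) (nat_lit 459969559892) (nat_lit 2) (nat_lit 5) (nat_lit 3) (nat_lit 5) (nat_lit 4) (nat_lit 4) (nat_lit 338) (nat_lit 274) (nat_lit 168)) (XT.lf (nat_lit 0) (nat_lit 75168134206)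 (nat_lit 152) (nat_lit 460628407831) (nat_lit 0) (nat_lit 6293448588) (nat_lit 2) (nat_lit 5) (nat_lit 4) (nat_lit 4) (nat_lit 2) (nat_lit 4) (nat_lit 339) (nat_lit 274) (nat_lit 167)))))) (XT.nd (nat_lit 390) (nat_lit 0) (nat_lit 0) (XT.nd (nat_lit 156) (nat_lit 0) (nat_lit 0) (XT.nd (nat_lit 78) (nat_lit 0) (nat_lit 0) (XT.lf (nat_lit 0) (nat_lit 109775131191) (nat_lit 152) (nat_lit 433061734249) (nat_lit 0) (nat_lit 40899091945) (nat_lit 2) (nat_lit 5) (nat_lit 4) (nat_lit 4) (nat_lit 2) (nat_lit 4) (nat_lit 340) (nat_lit 274) (nat_lit 166)) (XT.lf (nat_lit 0) (nat_lit 147149398022) (nat_lit 152) (nat_lit 403292163145) (nat_lit 0) (nat_lit 78272105418) (nat_lit 2) (nat_lit 5) (nat_lit 4) (nat_lit 4) (nat_lit 2) (nat_lit 4) (nat_lit 341) (nat_lit 274) (nat_lit 165))) (XT.nd (nat_lit 78) (nat_lit 0) (nat_lit 0) (XT.lf (nat_lit 0) (nat_lit 187512411838) (nat_lit 152) (nat_lit 371143282246)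 (nat_lit 0) (nat_lit 118633958715) (nat_lit 2) (nat_lit 5) (nat_lit 4) (nat_lit 4) (nat_lit 2) (nat_lit 4) (nat_lit 342) (nat_lit 274) (nat_lit 164)) (XT.nd (nat_lit 78) (nat_lit 0) (nat_lit 0) (XT.lf (nat_lit 0) (nat_lit 231103360867) (nat_lit 152) (nat_lit 336424579665) (nat_lit 0) (nat_lit 162223833191) (nat_lit 2) (nat_lit 5) (nat_lit 4) (nat_lit 4) (nat_lit 2) (nat_lit 4) (nat_lit 343) (nat_lit 274) (nat_lit 163)) (XT.lf (nat_lit 0) (nat_lit 278180561845) (nat_lit 152) (nat_lit 298930314943) (nat_lit 0) (nat_lit 209300039212) (nat_lit 2) (nat_lit 5) (nat_lit 4) (nat_lit 4) (nat_lit 2) (nat_lit 4) (nat_lit 344) (nat_lit 274) (nat_lit 162))))) (XT.nd (nat_lit 35178) (nat_lit 0) (nat_lit 6232) (XT.nd (nat_lit 78) (nat_lit 0) (nat_lit 0) (XT.lf (nat_lit 0) (nat_lit 329022990777) (nat_lit 152) (nat_lit 258438299844) (nat_lit 0) (nat_lit 260141546888) (nat_lit 2) (nat_lit 5) (nat_lit 4)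 (nat_lit 4) (nat_lit 2) (nat_lit 4) (nat_lit 345) (nat_lit 274) (nat_lit 161)) (XT.nd (nat_lit 78) (nat_lit 0) (nat_lit 0) (XT.lf (nat_lit 0) (nat_lit 383931936132) (nat_lit 152) (nat_lit 214708581685) (nat_lit 0) (nat_lit 315049639228) (nat_lit 2) (nat_lit 5) (nat_lit 4) (nat_lit 4) (nat_lit 2) (nat_lit 4) (nat_lit 346) (nat_lit 274) (nat_lit 160)) (XT.lf (nat_lit 0) (nat_lit 443232784252) (nat_lit 152) (nat_lit 167482021397) (nat_lit 0) (nat_lit 374349697519) (nat_lit 2) (nat_lit 5) (nat_lit 4) (nat_lit 4) (nat_lit 2) (nat_lit 4) (nat_lit 347) (nat_lit 274) (nat_lit 159)))) (XT.nd (nat_lit 78) (nat_lit 0) (nat_lit 0) (XT.lf (nat_lit 0) (nat_lit 1167334150) (nat_lit 0) (nat_lit 1167334150) (nat_lit 684) (nat_lit 4286074658) (nat_lit 84) (nat_lit 5) (nat_lit 84) (nat_lit 3) (nat_lit 93) (nat_lit 3) (nat_lit 275) (nat_lit 275) (nat_lit 230)) (XT.nd (nat_lit 78) (nat_lit 0) (nat_lit 76)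 (XT.lf (nat_lit 0) (nat_lit 5531102294) (nat_lit 684) (nat_lit 1538718247) (nat_lit 760) (nat_lit 6666257007) (nat_lit 84) (nat_lit 5) (nat_lit 93) (nat_lit 3) (nat_lit 94) (nat_lit 5) (nat_lit 276) (nat_lit 275) (nat_lit 229)) (XT.lf (nat_lit 0) (nat_lit 6616520930) (nat_lit 684) (nat_lit 5509848517) (nat_lit 760) (nat_lit 2136263361) (nat_lit 85) (nat_lit 5) (nat_lit 94) (nat_lit 5) (nat_lit 95) (nat_lit 5) (nat_lit 277) (nat_lit 275) (nat_lit 228))))))) (XT.nd (nat_lit 780) (nat_lit 2052) (nat_lit 0) (XT.nd (nat_lit 390) (nat_lit 1520) (nat_lit 0) (XT.nd (nat_lit 156) (nat_lit 456) (nat_lit 0) (XT.nd (nat_lit 78) (nat_lit 0) (nat_lit 76) (XT.lf (nat_lit 76) (nat_lit 5102732009) (nat_lit 0) (nat_lit 2859875269) (nat_lit 760) (nat_lit 6860135612) (nat_lit 86) (nat_lit 5) (nat_lit 85) (nat_lit 5) (nat_lit 95) (nat_lit 5) (nat_lit 278) (nat_lit 275) (nat_lit 227)) (XT.lf (nat_lit 76) (nat_lit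 1229505305) (nat_lit 0) (nat_lit 8366570920) (nat_lit 760) (nat_lit 5822713839) (nat_lit 87) (nat_lit 5) (nat_lit 86) (nat_lit 5) (nat_lit 96) (nat_lit 5) (nat_lit 279) (nat_lit 275) (nat_lit 226))) (XT.nd (nat_lit 78) (nat_lit 608) (nat_lit 0) (XT.lf (nat_lit 0) (nat_lit 11559323212) (nat_lit 684) (nat_lit 2763078307) (nat_lit 760) (nat_lit 1730269158) (nat_lit 87) (nat_lit 5) (nat_lit 96) (nat_lit 5) (nat_lit 97) (nat_lit 5) (nat_lit 280) (nat_lit 275) (nat_lit 225)) (XT.nd (nat_lit 78) (nat_lit 608) (nat_lit 0) (XT.lf (nat_lit 76) (nat_lit 9713770380) (nat_lit 0) (nat_lit 4216577918) (nat_lit 760) (nat_lit 2794474462) (nat_lit 88) (nat_lit 5) (nat_lit 87) (nat_lit 5) (nat_lit 97) (nat_lit 5) (nat_lit 281) (nat_lit 275) (nat_lit 224)) (XT.lf (nat_lit 0) (nat_lit 5888183100) (nat_lit 684) (nat_lit 10809010420) (nat_lit 760) (nat_lit 743336341) (nat_lit 79) (nat_lit 5) (nat_lit 88) (nat_lit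 5) (nat_lit 89) (nat_lit 5) (nat_lit 282) (nat_lit 275) (nat_lit 223))))) (XT.nd (nat_lit 156) (nat_lit 988) (nat_lit 0) (XT.nd (nat_lit 78) (nat_lit 0) (nat_lit 0) (XT.lf (nat_lit 0) (nat_lit 1613187286) (nat_lit 532) (nat_lit 16416265485) (nat_lit 76) (nat_lit 173550681) (nat_lit 72) (nat_lit 5) (nat_lit 79) (nat_lit 5) (nat_lit 73) (nat_lit 5) (nat_lit 283) (nat_lit 275) (nat_lit 222)) (XT.lf (nat_lit 0) (nat_lit 4484087371) (nat_lit 532) (nat_lit 2643292317) (nat_lit 76) (nat_lit 11880964364) (nat_lit 72) (nat_lit 5) (nat_lit 79) (nat_lit 5) (nat_lit 73) (nat_lit 5) (nat_lit 284) (nat_lit 275) (nat_lit 221))) (XT.nd (nat_lit 78) (nat_lit 608) (nat_lit 0) (XT.lf (nat_lit 0) (nat_lit 7824587569) (nat_lit 456) (nat_lit 7342592682) (nat_lit 76) (nat_lit 4699003106) (nat_lit 67) (nat_lit 5) (nat_lit 73) (nat_lit 5) (nat_lit 68) (nat_lit 5) (nat_lit 285) (nat_lit 275) (nat_lit 220)) (XT.nd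 (nat_lit 78) (nat_lit 304) (nat_lit 0) (XT.lf (nat_lit 0) (nat_lit 8321314344) (nat_lit 304) (nat_lit 3377228046) (nat_lit 380) (nat_lit 9080859516) (nat_lit 63) (nat_lit 5) (nat_lit 67) (nat_lit 5) (nat_lit 68) (nat_lit 5) (nat_lit 286) (nat_lit 275) (nat_lit 219)) (XT.lf (nat_lit 0) (nat_lit 3678788134) (nat_lit 304) (nat_lit 12508219036) (nat_lit 380) (nat_lit 5563499270) (nat_lit 59) (nat_lit 5) (nat_lit 63) (nat_lit 5) (nat_lit 64) (nat_lit 5) (nat_lit 287) (nat_lit 275) (nat_lit 218)))))) (XT.nd (nat_lit 390) (nat_lit 988) (nat_lit 0) (XT.nd (nat_lit 156) (nat_lit 760) (nat_lit 0) (XT.nd (nat_lit 78) (nat_lit 304) (nat_lit 0) (XT.lf (nat_lit 0) (nat_lit 21283173751) (nat_lit 380) (nat_lit 1327888701) (nat_lit 76) (nat_lit 175859521) (nat_lit 59) (nat_lit 5) (nat_lit 64) (nat_lit 5) (nat_lit 60) (nat_lit 5) (nat_lit 288) (nat_lit 275) (nat_lit 217)) (XT.lf (nat_lit 0) (nat_lit 3247940221)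 (nat_lit 304) (nat_lit 6875133664) (nat_lit 76) (nat_lit 13758007496) (nat_lit 55) (nat_lit 5) (nat_lit 59) (nat_lit 5) (nat_lit 56) (nat_lit 5) (nat_lit 289) (nat_lit 275) (nat_lit 216))) (XT.nd (nat_lit 78) (nat_lit 456) (nat_lit 0) (XT.lf (nat_lit 0) (nat_lit 8572667566) (nat_lit 380) (nat_lit 12983022810) (nat_lit 76) (nat_lit 3493615178) (nat_lit 51) (nat_lit 5) (nat_lit 56) (nat_lit 5) (nat_lit 52) (nat_lit 5) (nat_lit 290) (nat_lit 275) (nat_lit 215)) (XT.nd (nat_lit 78) (nat_lit 228) (nat_lit 0) (XT.lf (nat_lit 0) (nat_lit 6468870543) (nat_lit 228) (nat_lit 8224914294) (nat_lit 304) (nat_lit 11598722964) (nat_lit 48) (nat_lit 5) (nat_lit 51) (nat_lit 5) (nat_lit 52) (nat_lit 5) (nat_lit 291) (nat_lit 275) (nat_lit 214)) (XT.lf (nat_lit 0) (nat_lit 194004572) (nat_lit 228) (nat_lit 21418019709) (nat_lit 304) (nat_lit 6007808015) (nat_lit 45) (nat_lit 5) (nat_lit 48) (nat_lit 5)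 (nat_lit 49) (nat_lit 5) (nat_lit 292) (nat_lit 275) (nat_lit 213))))) (XT.nd (nat_lit 234) (nat_lit 456) (nat_lit 0) (XT.nd (nat_lit 78) (nat_lit 456) (nat_lit 0) (XT.lf (nat_lit 0) (nat_lit 498058367) (nat_lit 304) (nat_lit 6688228510) (nat_lit 76) (nat_lit 21843632882) (nat_lit 44) (nat_lit 5) (nat_lit 48) (nat_lit 5) (nat_lit 45) (nat_lit 5) (nat_lit 293) (nat_lit 275) (nat_lit 212)) (XT.nd (nat_lit 78) (nat_lit 228) (nat_lit 0) (XT.lf (nat_lit 0) (nat_lit 7682022738) (nat_lit 304) (nat_lit 14573574801) (nat_lit 76) (nat_lit 8273917388) (nat_lit 41) (nat_lit 5) (nat_lit 45) (nat_lit 5) (nat_lit 42) (nat_lit 5) (nat_lit 294) (nat_lit 275) (nat_lit 211)) (XT.lf (nat_lit 0) (nat_lit 8634607150) (nat_lit 228) (nat_lit 7161986453) (nat_lit 304) (nat_lit 16334718149) (nat_lit 38) (nat_lit 5) (nat_lit 41) (nat_lit 5) (nat_lit 42) (nat_lit 5) (nat_lit 295) (nat_lit 275) (nat_lit 210)))) (XT.nd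 (nat_lit 78) (nat_lit 304) (nat_lit 0) (XT.lf (nat_lit 0) (nat_lit 205470767) (nat_lit 152) (nat_lit 24741140192) (nat_lit 228) (nat_lit 8895353720) (nat_lit 36) (nat_lit 5) (nat_lit 38) (nat_lit 5) (nat_lit 39) (nat_lit 5) (nat_lit 296) (nat_lit 275) (nat_lit 209)) (XT.nd (nat_lit 78) (nat_lit 304) (nat_lit 0) (XT.lf (nat_lit 0) (nat_lit 26493674647) (nat_lit 152) (nat_lit 8846355417) (nat_lit 228) (nat_lit 323894200) (nat_lit 36) (nat_lit 5) (nat_lit 38) (nat_lit 5) (nat_lit 39) (nat_lit 5) (nat_lit 297) (nat_lit 275) (nat_lit 208)) (XT.lf (nat_lit 0) (nat_lit 9043853880) (nat_lit 304) (nat_lit 20092546420) (nat_lit 76) (nat_lit 8468463561) (nat_lit 32) (nat_lit 5) (nat_lit 36) (nat_lit 5) (nat_lit 33) (nat_lit 5) (nat_lit 298) (nat_lit 275) (nat_lit 207))))))))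
noncomputable def xc77 : XT := (XT.nd (nat_lit 1638) (nat_lit 608) (nat_lit 0) (XT.nd (nat_lit 780) (nat_lit 608) (nat_lit 0) (XT.nd (nat_lit 390) (nat_lit 532) (nat_lit 0) (XT.nd (nat_lit 156) (nat_lit 380) (nat_lit 0) (XT.nd (nat_lit 78) (nat_lit 0) (nat_lit 0) (XT.lf (nat_lit 0) (nat_lit 7008096362) (nat_lit 152) (nat_lit 12547626231) (nat_lit 228) (nat_lit 20124808081) (nat_lit 30) (nat_lit 5) (nat_lit 32) (nat_lit 5) (nat_lit 33) (nat_lit 5) (nat_lit 299) (nat_lit 275) (nat_lit 206)) (XT.lf (nat_lit 0) (nat_lit 31333702979) (nat_lit 228) (nat_lit 5022460521) (nat_lit 76) (nat_lit 5544847703) (nat_lit 30) (nat_lit 5) (nat_lit 33) (nat_lit 5) (nat_lit 31) (nat_lit 5) (nat_lit 300) (nat_lit 275) (nat_lit 205))) (XT.nd (nat_lit 78) (nat_lit 152) (nat_lit 0) (XT.lf (nat_lit 0) (nat_lit 367522776) (nat_lit 228) (nat_lit 18854543794) (nat_lit 76) (nat_lit 25047027171) (nat_lit 27) (nat_lit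 5) (nat_lit 30) (nat_lit 5) (nat_lit 28) (nat_lit 5) (nat_lit 301) (nat_lit 275) (nat_lit 204)) (XT.nd (nat_lit 78) (nat_lit 0) (nat_lit 0) (XT.lf (nat_lit 0) (nat_lit 11822062722) (nat_lit 152) (nat_lit 250429313) (nat_lit 228) (nat_lit 34732205268) (nat_lit 25) (nat_lit 5) (nat_lit 27) (nat_lit 5) (nat_lit 28) (nat_lit 5) (nat_lit 302) (nat_lit 275) (nat_lit 203)) (XT.lf (nat_lit 0) (nat_lit 25351331993) (nat_lit 228) (nat_lit 4241961736) (nat_lit 76) (nat_lit 19917995734) (nat_lit 25) (nat_lit 5) (nat_lit 28) (nat_lit 5) (nat_lit 26) (nat_lit 5) (nat_lit 303) (nat_lit 275) (nat_lit 202))))) (XT.nd (nat_lit 156) (nat_lit 228) (nat_lit 0) (XT.nd (nat_lit 78) (nat_lit 152) (nat_lit 0) (XT.lf (nat_lit 0) (nat_lit 29891999761) (nat_lit 152) (nat_lit 10259981868) (nat_lit 228) (nat_lit 12259465179) (nat_lit 23) (nat_lit 5) (nat_lit 25) (nat_lit 5) (nat_lit 26) (nat_lit 5) (nat_lit 304) (nat_lit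 275) (nat_lit 201)) (XT.lf (nat_lit 0) (nat_lit 991129077) (nat_lit 152) (nat_lit 43986236795) (nat_lit 76) (nat_lit 10544947084) (nat_lit 21) (nat_lit 5) (nat_lit 23) (nat_lit 5) (nat_lit 22) (nat_lit 5) (nat_lit 305) (nat_lit 275) (nat_lit 200))) (XT.nd (nat_lit 78) (nat_lit 228) (nat_lit 0) (XT.lf (nat_lit 0) (nat_lit 15439112782) (nat_lit 152) (nat_lit 10146072705) (nat_lit 76) (nat_lit 33258482036) (nat_lit 21) (nat_lit 5) (nat_lit 23) (nat_lit 5) (nat_lit 22) (nat_lit 5) (nat_lit 306) (nat_lit 275) (nat_lit 199)) (XT.nd (nat_lit 78) (nat_lit 76) (nat_lit 0) (XT.lf (nat_lit 0) (nat_lit 27257328029) (nat_lit 152) (nat_lit 4201359981) (nat_lit 228) (nat_lit 30951264586) (nat_lit 19) (nat_lit 5) (nat_lit 21) (nat_lit 5) (nat_lit 22) (nat_lit 5) (nat_lit 307) (nat_lit 275) (nat_lit 198)) (XT.lf (nat_lit 0) (nat_lit 1496592051) (nat_lit 76) (nat_lit 47751786548) (nat_lit 152) (nat_lit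 16988743463) (nat_lit 18) (nat_lit 5) (nat_lit 19) (nat_lit 5) (nat_lit 20) (nat_lit 4) (nat_lit 308) (nat_lit 275) (nat_lit 197)))))) (XT.nd (nat_lit 390) (nat_lit 304) (nat_lit 0) (XT.nd (nat_lit 156) (nat_lit 76) (nat_lit 0) (XT.nd (nat_lit 78) (nat_lit 228) (nat_lit 0) (XT.lf (nat_lit 0) (nat_lit 42244501461) (nat_lit 76) (nat_lit 26889810296) (nat_lit 152) (nat_lit 1202508346) (nat_lit 18) (nat_lit 5) (nat_lit 19) (nat_lit 5) (nat_lit 20) (nat_lit 4) (nat_lit 309) (nat_lit 275) (nat_lit 196)) (XT.lf (nat_lit 0) (nat_lit 11597018158) (nat_lit 152) (nat_lit 3915030386) (nat_lit 228) (nat_lit 59231451629) (nat_lit 15) (nat_lit 5) (nat_lit 17) (nat_lit 5) (nat_lit 18) (nat_lit 5) (nat_lit 310) (nat_lit 275) (nat_lit 195))) (XT.nd (nat_lit 78) (nat_lit 76) (nat_lit 0) (XT.lf (nat_lit 0) (nat_lit 34337717789) (nat_lit 228) (nat_lit 24382334324) (nat_lit 76) (nat_lit 20740879829) (nat_lit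 15) (nat_lit 5) (nat_lit 18) (nat_lit 5) (nat_lit 16) (nat_lit 4) (nat_lit 311) (nat_lit 275) (nat_lit 194)) (XT.nd (nat_lit 78) (nat_lit 0) (nat_lit 0) (XT.lf (nat_lit 0) (nat_lit 17979243567) (nat_lit 76) (nat_lit 37029390391) (nat_lit 152) (nat_lit 29530170963) (nat_lit 14) (nat_lit 5) (nat_lit 15) (nat_lit 5) (nat_lit 16) (nat_lit 4) (nat_lit 312) (nat_lit 275) (nat_lit 193)) (XT.lf (nat_lit 0) (nat_lit 64587868692) (nat_lit 76) (nat_lit 13162913139) (nat_lit 152) (nat_lit 12251253856) (nat_lit 14) (nat_lit 5) (nat_lit 15) (nat_lit 5) (nat_lit 16) (nat_lit 4) (nat_lit 313) (nat_lit 275) (nat_lit 192))))) (XT.nd (nat_lit 234) (nat_lit 76) (nat_lit 0) (XT.nd (nat_lit 78) (nat_lit 76) (nat_lit 0) (XT.lf (nat_lit 0) (nat_lit 6706566305) (nat_lit 152) (nat_lit 76549696746) (nat_lit 76) (nat_lit 12615975706) (nat_lit 12) (nat_lit 5) (nat_lit 14) (nat_lit 5) (nat_lit 13) (nat_lit 4) (nat_lit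 314) (nat_lit 275) (nat_lit 191)) (XT.nd (nat_lit 78) (nat_lit 76) (nat_lit 0) (XT.lf (nat_lit 0) (nat_lit 27422929271) (nat_lit 152) (nat_lit 34091586083) (nat_lit 76) (nat_lit 40653948428) (nat_lit 12) (nat_lit 5) (nat_lit 14) (nat_lit 5) (nat_lit 13) (nat_lit 4) (nat_lit 315) (nat_lit 275) (nat_lit 190)) (XT.lf (nat_lit 0) (nat_lit 12141025264) (nat_lit 76) (nat_lit 37839109821) (nat_lit 152) (nat_lit 58979079471) (nat_lit 11) (nat_lit 5) (nat_lit 12) (nat_lit 5) (nat_lit 13) (nat_lit 4) (nat_lit 316) (nat_lit 275) (nat_lit 189)))) (XT.nd (nat_lit 78) (nat_lit 76) (nat_lit 0) (XT.lf (nat_lit 0) (nat_lit 63279374870) (nat_lit 76) (nat_lit 11650660010) (nat_lit 152) (nat_lit 41333788744) (nat_lit 11) (nat_lit 5) (nat_lit 12) (nat_lit 5) (nat_lit 13) (nat_lit 4) (nat_lit 317) (nat_lit 275) (nat_lit 188)) (XT.nd (nat_lit 78) (nat_lit 76) (nat_lit 0) (XT.lf (nat_lit 0) (nat_lit 102130235722)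 (nat_lit 152) (nat_lit 5913407866) (nat_lit 0) (nat_lit 16096446182) (nat_lit 11) (nat_lit 5) (nat_lit 13) (nat_lit 4) (nat_lit 11) (nat_lit 4) (nat_lit 318) (nat_lit 275) (nat_lit 187)) (XT.lf (nat_lit 0) (nat_lit 46196445910) (nat_lit 76) (nat_lit 86222735798) (nat_lit 76) (nat_lit 181642569) (nat_lit 10) (nat_lit 4) (nat_lit 11) (nat_lit 5) (nat_lit 11) (nat_lit 4) (nat_lit 319) (nat_lit 275) (nat_lit 186))))))) (XT.nd (nat_lit 780) (nat_lit 228) (nat_lit 0) (XT.nd (nat_lit 390) (nat_lit 152) (nat_lit 0) (XT.nd (nat_lit 156) (nat_lit 76) (nat_lit 0) (XT.nd (nat_lit 78) (nat_lit 76) (nat_lit 0) (XT.lf (nat_lit 0) (nat_lit 22743980916) (nat_lit 152) (nat_lit 39422695024) (nat_lit 76) (nat_lit 79548489750) (nat_lit 9) (nat_lit 5) (nat_lit 11) (nat_lit 5) (nat_lit 10) (nat_lit 4) (nat_lit 320) (nat_lit 275) (nat_lit 185)) (XT.lf (nat_lit 0) (nat_lit 11680182726) (nat_lit 76) (nat_lit 35995085744)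 (nat_lit 152) (nat_lit 103874341034) (nat_lit 8) (nat_lit 5) (nat_lit 9) (nat_lit 5) (nat_lit 10) (nat_lit 4) (nat_lit 321) (nat_lit 275) (nat_lit 184))) (XT.nd (nat_lit 78) (nat_lit 76) (nat_lit 0) (XT.lf (nat_lit 0) (nat_lit 68271298916) (nat_lit 76) (nat_lit 7012220332) (nat_lit 152) (nat_lit 86853169228) (nat_lit 8) (nat_lit 5) (nat_lit 9) (nat_lit 5) (nat_lit 10) (nat_lit 4) (nat_lit 322) (nat_lit 275) (nat_lit 183)) (XT.nd (nat_lit 78) (nat_lit 76) (nat_lit 0) (XT.lf (nat_lit 0) (nat_lit 105475660739) (nat_lit 152) (nat_lit 44567590336) (nat_lit 0) (nat_lit 23508723622) (nat_lit 8) (nat_lit 5) (nat_lit 10) (nat_lit 4) (nat_lit 8) (nat_lit 4) (nat_lit 323) (nat_lit 275) (nat_lit 182)) (XT.lf (nat_lit 0) (nat_lit 8831668710) (nat_lit 76) (nat_lit 129503933567) (nat_lit 76) (nat_lit 47532262386) (nat_lit 7) (nat_lit 4) (nat_lit 8) (nat_lit 5) (nat_lit 8) (nat_lit 4) (nat_lit 324) (nat_lit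 275) (nat_lit 181))))) (XT.nd (nat_lit 156) (nat_lit 76) (nat_lit 0) (XT.nd (nat_lit 78) (nat_lit 76) (nat_lit 0) (XT.lf (nat_lit 0) (nat_lit 68087864182) (nat_lit 76) (nat_lit 106509288820) (nat_lit 76) (nat_lit 24533234246) (nat_lit 7) (nat_lit 4) (nat_lit 8) (nat_lit 5) (nat_lit 8) (nat_lit 4) (nat_lit 325) (nat_lit 275) (nat_lit 180)) (XT.lf (nat_lit 0) (nat_lit 292612209) (nat_lit 152) (nat_lit 81380258240) (nat_lit 76) (nat_lit 131780970356) (nat_lit 6) (nat_lit 5) (nat_lit 8) (nat_lit 5) (nat_lit 7) (nat_lit 4) (nat_lit 326) (nat_lit 275) (nat_lit 179))) (XT.nd (nat_lit 78) (nat_lit 76) (nat_lit 0) (XT.lf (nat_lit 0) (nat_lit 26253419088) (nat_lit 152) (nat_lit 28164362192) (nat_lit 76) (nat_lit 174484860999) (nat_lit 6) (nat_lit 5) (nat_lit 8) (nat_lit 5) (nat_lit 7) (nat_lit 4) (nat_lit 327) (nat_lit 275) (nat_lit 178)) (XT.nd (nat_lit 78) (nat_lit 0) (nat_lit 0) (XT.lf (nat_lit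 0) (nat_lit 30272458813) (nat_lit 76) (nat_lit 24488424023) (nat_lit 152) (nat_lit 190802977017) (nat_lit 5) (nat_lit 5) (nat_lit 6) (nat_lit 5) (nat_lit 7) (nat_lit 4) (nat_lit 328) (nat_lit 275) (nat_lit 177)) (XT.lf (nat_lit 0) (nat_lit 86167172720) (nat_lit 152) (nat_lit 169278979353) (nat_lit 0) (nat_lit 8080912789) (nat_lit 5) (nat_lit 5) (nat_lit 7) (nat_lit 4) (nat_lit 5) (nat_lit 4) (nat_lit 329) (nat_lit 275) (nat_lit 176)))))) (XT.nd (nat_lit 390) (nat_lit 152) (nat_lit 0) (XT.nd (nat_lit 156) (nat_lit 76) (nat_lit 0) (XT.nd (nat_lit 78) (nat_lit 0) (nat_lit 0) (XT.lf (nat_lit 0) (nat_lit 120496339617) (nat_lit 152) (nat_lit 120003230848) (nat_lit 0) (nat_lit 42407238483) (nat_lit 5) (nat_lit 5) (nat_lit 7) (nat_lit 4) (nat_lit 5) (nat_lit 4) (nat_lit 330) (nat_lit 275) (nat_lit 175)) (XT.lf (nat_lit 0) (nat_lit 157569482702) (nat_lit 152) (nat_lit 66789818165) (nat_lit 0) (nat_lit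 79477750824) (nat_lit 5) (nat_lit 5) (nat_lit 7) (nat_lit 4) (nat_lit 5) (nat_lit 4) (nat_lit 331) (nat_lit 275) (nat_lit 174))) (XT.nd (nat_lit 78) (nat_lit 76) (nat_lit 0) (XT.lf (nat_lit 0) (nat_lit 197606294674) (nat_lit 152) (nat_lit 9323402560) (nat_lit 0) (nat_lit 119512126921) (nat_lit 5) (nat_lit 5) (nat_lit 7) (nat_lit 4) (nat_lit 5) (nat_lit 4) (nat_lit 332) (nat_lit 275) (nat_lit 173)) (XT.nd (nat_lit 78) (nat_lit 0) (nat_lit 0) (XT.lf (nat_lit 0) (nat_lit 54480266450) (nat_lit 76) (nat_lit 187214353904) (nat_lit 76) (nat_lit 109117930712) (nat_lit 4) (nat_lit 4) (nat_lit 5) (nat_lit 5) (nat_lit 5) (nat_lit 4) (nat_lit 333) (nat_lit 275) (nat_lit 172)) (XT.lf (nat_lit 0) (nat_lit 123717559853) (nat_lit 76) (nat_lit 165752932418) (nat_lit 76) (nat_lit 87654420857) (nat_lit 4) (nat_lit 4) (nat_lit 5) (nat_lit 5) (nat_lit 5) (nat_lit 4) (nat_lit 334) (nat_lit 275) (nat_lit 171)))))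 (XT.nd (nat_lit 234) (nat_lit 152) (nat_lit 0) (XT.nd (nat_lit 78) (nat_lit 0) (nat_lit 0) (XT.lf (nat_lit 0) (nat_lit 198490498927) (nat_lit 76) (nat_lit 142576150316) (nat_lit 76) (nat_lit 64475705080) (nat_lit 4) (nat_lit 4) (nat_lit 5) (nat_lit 5) (nat_lit 5) (nat_lit 4) (nat_lit 335) (nat_lit 275) (nat_lit 170)) (XT.nd (nat_lit 78) (nat_lit 0) (nat_lit 0) (XT.lf (nat_lit 0) (nat_lit 279242182570) (nat_lit 76) (nat_lit 117546663704) (nat_lit 76) (nat_lit 39444428028) (nat_lit 4) (nat_lit 4) (nat_lit 5) (nat_lit 5) (nat_lit 5) (nat_lit 4) (nat_lit 336) (nat_lit 275) (nat_lit 169)) (XT.lf (nat_lit 0) (nat_lit 366451139276) (nat_lit 76) (nat_lit 90516149699) (nat_lit 76) (nat_lit 12412256208) (nat_lit 4) (nat_lit 4) (nat_lit 5) (nat_lit 5) (nat_lit 5) (nat_lit 4) (nat_lit 337) (nat_lit 275) (nat_lit 168)))) (XT.nd (nat_lit 78) (nat_lit 76) (nat_lit 0) (XT.lf (nat_lit 0) (nat_lit 16243904194)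 (nat_lit 152) (nat_lit 44805424905) (nat_lit 76) (nat_lit 444115160293) (nat_lit 3) (nat_lit 5) (nat_lit 5) (nat_lit 5) (nat_lit 4) (nat_lit 4) (nat_lit 338) (nat_lit 275) (nat_lit 167)) (XT.nd (nat_lit 78) (nat_lit 0) (nat_lit 0) (XT.lf (nat_lit 0) (nat_lit 18342683547) (nat_lit 76) (nat_lit 28705869311) (nat_lit 152) (nat_lit 496738959929) (nat_lit 2) (nat_lit 5) (nat_lit 3) (nat_lit 5) (nat_lit 4) (nat_lit 4) (nat_lit 339) (nat_lit 275) (nat_lit 166)) (XT.lf (nat_lit 0) (nat_lit 81206750625) (nat_lit 152) (nat_lit 497431147919) (nat_lit 0) (nat_lit 6818021253) (nat_lit 2) (nat_lit 5) (nat_lit 4) (nat_lit 4) (nat_lit 2) (nat_lit 4) (nat_lit 340) (nat_lit 275) (nat_lit 165))))))))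
noncomputable def xc78 : XT := (XT.nd (nat_lit 36660) (nat_lit 0) (nat_lit 1216) (XT.nd (nat_lit 35802) (nat_lit 0) (nat_lit 4332) (XT.nd (nat_lit 390) (nat_lit 0) (nat_lit 0) (XT.nd (nat_lit 156) (nat_lit 0) (nat_lit 0) (XT.nd (nat_lit 78) (nat_lit 0) (nat_lit 0) (XT.lf (nat_lit 0) (nat_lit 118580443244) (nat_lit 152) (nat_lit 467662661379) (nat_lit 0) (nat_lit 44190553354) (nat_lit 2) (nat_lit 5) (nat_lit 4) (nat_lit 4) (nat_lit 2) (nat_lit 4) (nat_lit 341) (nat_lit 275) (nat_lit 164)) (XT.lf (nat_lit 0) (nat_lit 158942925381) (nat_lit 152) (nat_lit 435514784706) (nat_lit 0) (nat_lit 84551960938) (nat_lit 2) (nat_lit 5) (nat_lit 4) (nat_lit 4) (nat_lit 2) (nat_lit 4) (nat_lit 342) (nat_lit 275) (nat_lit 163))) (XT.nd (nat_lit 78) (nat_lit 0) (nat_lit 0) (XT.lf (nat_lit 0) (nat_lit 202533382115) (nat_lit 152) (nat_lit 400797011964) (nat_lit 0) (nat_lit 128141422715) (nat_lit 2) (nat_lit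 5) (nat_lit 4) (nat_lit 4) (nat_lit 2) (nat_lit 4) (nat_lit 343) (nat_lit 275) (nat_lit 162)) (XT.nd (nat_lit 78) (nat_lit 0) (nat_lit 0) (XT.lf (nat_lit 0) (nat_lit 249610127264) (nat_lit 152) (nat_lit 363303608204) (nat_lit 0) (nat_lit 175217246608) (nat_lit 2) (nat_lit 5) (nat_lit 4) (nat_lit 4) (nat_lit 2) (nat_lit 4) (nat_lit 344) (nat_lit 275) (nat_lit 161)) (XT.lf (nat_lit 0) (nat_lit 300452134133) (nat_lit 152) (nat_lit 322812390291) (nat_lit 0) (nat_lit 226058400462) (nat_lit 2) (nat_lit 5) (nat_lit 4) (nat_lit 4) (nat_lit 2) (nat_lit 4) (nat_lit 345) (nat_lit 275) (nat_lit 160))))) (XT.nd (nat_lit 35178) (nat_lit 0) (nat_lit 6232) (XT.nd (nat_lit 78) (nat_lit 0) (nat_lit 0) (XT.lf (nat_lit 0) (nat_lit 355360688688) (nat_lit 152) (nat_lit 279083410269) (nat_lit 0) (nat_lit 280966165188) (nat_lit 2) (nat_lit 5) (nat_lit 4) (nat_lit 4) (nat_lit 2) (nat_lit 4) (nat_lit 346) (nat_lit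 275) (nat_lit 159)) (XT.lf (nat_lit 0) (nat_lit 414661174957) (nat_lit 152) (nat_lit 231857533440) (nat_lit 0) (nat_lit 340265920134) (nat_lit 2) (nat_lit 5) (nat_lit 4) (nat_lit 4) (nat_lit 2) (nat_lit 4) (nat_lit 347) (nat_lit 275) (nat_lit 158))) (XT.nd (nat_lit 78) (nat_lit 0) (nat_lit 0) (XT.lf (nat_lit 0) (nat_lit 1537633002) (nat_lit 0) (nat_lit 1537633002) (nat_lit 684) (nat_lit 4046158687) (nat_lit 84) (nat_lit 5) (nat_lit 84) (nat_lit 3) (nat_lit 93) (nat_lit 3) (nat_lit 276) (nat_lit 276) (nat_lit 228)) (XT.nd (nat_lit 78) (nat_lit 0) (nat_lit 76) (XT.lf (nat_lit 0) (nat_lit 6991184671) (nat_lit 684) (nat_lit 1087346822) (nat_lit 760) (nat_lit 6703170157) (nat_lit 84) (nat_lit 5) (nat_lit 93) (nat_lit 3) (nat_lit 94) (nat_lit 5) (nat_lit 277) (nat_lit 276) (nat_lit 227)) (XT.lf (nat_lit 0) (nat_lit 8090373427) (nat_lit 684) (nat_lit 5345122197) (nat_lit 760) (nat_lit 1918715348)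 (nat_lit 85) (nat_lit 5) (nat_lit 94) (nat_lit 5) (nat_lit 95) (nat_lit 5) (nat_lit 278) (nat_lit 276) (nat_lit 226)))))) (XT.nd (nat_lit 390) (nat_lit 1520) (nat_lit 0) (XT.nd (nat_lit 156) (nat_lit 456) (nat_lit 0) (XT.nd (nat_lit 78) (nat_lit 0) (nat_lit 76) (XT.lf (nat_lit 76) (nat_lit 6090149863) (nat_lit 0) (nat_lit 3393074498) (nat_lit 760) (nat_lit 6479115017) (nat_lit 86) (nat_lit 5) (nat_lit 85) (nat_lit 5) (nat_lit 95) (nat_lit 5) (nat_lit 279) (nat_lit 276) (nat_lit 225)) (XT.lf (nat_lit 76) (nat_lit 1930654013) (nat_lit 0) (nat_lit 9256274913) (nat_lit 760) (nat_lit 5422314792) (nat_lit 87) (nat_lit 5) (nat_lit 86) (nat_lit 5) (nat_lit 96) (nat_lit 5) (nat_lit 280) (nat_lit 276) (nat_lit 224))) (XT.nd (nat_lit 78) (nat_lit 608) (nat_lit 0) (XT.lf (nat_lit 0) (nat_lit 13243074513) (nat_lit 684) (nat_lit 2382940722) (nat_lit 760) (nat_lit 1671167693) (nat_lit 87) (nat_lit 5)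 (nat_lit 96) (nat_lit 5) (nat_lit 97) (nat_lit 5) (nat_lit 281) (nat_lit 276) (nat_lit 223)) (XT.nd (nat_lit 78) (nat_lit 608) (nat_lit 0) (XT.lf (nat_lit 76) (nat_lit 11065929143) (nat_lit 0) (nat_lit 4690608092) (nat_lit 760) (nat_lit 2269061876) (nat_lit 88) (nat_lit 5) (nat_lit 87) (nat_lit 5) (nat_lit 97) (nat_lit 5) (nat_lit 282) (nat_lit 276) (nat_lit 222)) (XT.lf (nat_lit 0) (nat_lit 6946937567) (nat_lit 684) (nat_lit 11752268873) (nat_lit 760) (nat_lit 101752626) (nat_lit 79) (nat_lit 5) (nat_lit 88) (nat_lit 5) (nat_lit 89) (nat_lit 5) (nat_lit 283) (nat_lit 276) (nat_lit 221))))) (XT.nd (nat_lit 234) (nat_lit 608) (nat_lit 0) (XT.nd (nat_lit 78) (nat_lit 380) (nat_lit 0) (XT.lf (nat_lit 0) (nat_lit 2378901123) (nat_lit 532) (nat_lit 17110559749) (nat_lit 76) (nat_lit 136626005) (nat_lit 72) (nat_lit 5) (nat_lit 79) (nat_lit 5) (nat_lit 73) (nat_lit 5) (nat_lit 284) (nat_lit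 276) (nat_lit 220)) (XT.nd (nat_lit 78) (nat_lit 380) (nat_lit 0) (XT.lf (nat_lit 0) (nat_lit 5432313300) (nat_lit 532) (nat_lit 2281601096) (nat_lit 76) (nat_lit 12784396393) (nat_lit 72) (nat_lit 5) (nat_lit 79) (nat_lit 5) (nat_lit 73) (nat_lit 5) (nat_lit 285) (nat_lit 276) (nat_lit 219)) (XT.lf (nat_lit 0) (nat_lit 9004850626) (nat_lit 456) (nat_lit 7352803495) (nat_lit 76) (nat_lit 5068974063) (nat_lit 67) (nat_lit 5) (nat_lit 73) (nat_lit 5) (nat_lit 68) (nat_lit 5) (nat_lit 286) (nat_lit 276) (nat_lit 218)))) (XT.nd (nat_lit 78) (nat_lit 304) (nat_lit 0) (XT.lf (nat_lit 0) (nat_lit 9539131831) (nat_lit 304) (nat_lit 3617151056) (nat_lit 380) (nat_lit 9258327355) (nat_lit 63) (nat_lit 5) (nat_lit 67) (nat_lit 5) (nat_lit 68) (nat_lit 5) (nat_lit 287) (nat_lit 276) (nat_lit 217)) (XT.nd (nat_lit 78) (nat_lit 0) (nat_lit 0) (XT.lf (nat_lit 0) (nat_lit 4526721734) (nat_lit 304) (nat_lit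 13447528136) (nat_lit 380) (nat_lit 5490709866) (nat_lit 59) (nat_lit 5) (nat_lit 63) (nat_lit 5) (nat_lit 64) (nat_lit 5) (nat_lit 288) (nat_lit 276) (nat_lit 216)) (XT.lf (nat_lit 0) (nat_lit 23442531306) (nat_lit 380) (nat_lit 898693921) (nat_lit 76) (nat_lit 244914292) (nat_lit 59) (nat_lit 5) (nat_lit 64) (nat_lit 5) (nat_lit 60) (nat_lit 5) (nat_lit 289) (nat_lit 276) (nat_lit 215))))))) (XT.nd (nat_lit 780) (nat_lit 1064) (nat_lit 0) (XT.nd (nat_lit 390) (nat_lit 912) (nat_lit 0) (XT.nd (nat_lit 156) (nat_lit 532) (nat_lit 0) (XT.nd (nat_lit 78) (nat_lit 304) (nat_lit 0) (XT.lf (nat_lit 0) (nat_lit 3946516425) (nat_lit 304) (nat_lit 6897686119) (nat_lit 76) (nat_lit 14924633740) (nat_lit 55) (nat_lit 5) (nat_lit 59) (nat_lit 5) (nat_lit 56) (nat_lit 5) (nat_lit 290) (nat_lit 276) (nat_lit 214)) (XT.lf (nat_lit 0) (nat_lit 9674011497) (nat_lit 380) (nat_lit 13497099100) (nat_lit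 76) (nat_lit 3860627172) (nat_lit 51) (nat_lit 5) (nat_lit 56) (nat_lit 5) (nat_lit 52) (nat_lit 5) (nat_lit 291) (nat_lit 276) (nat_lit 213))) (XT.nd (nat_lit 78) (nat_lit 304) (nat_lit 0) (XT.lf (nat_lit 0) (nat_lit 7488148742) (nat_lit 228) (nat_lit 8773723382) (nat_lit 304) (nat_lit 12113725870) (nat_lit 48) (nat_lit 5) (nat_lit 51) (nat_lit 5) (nat_lit 52) (nat_lit 5) (nat_lit 292) (nat_lit 276) (nat_lit 212)) (XT.nd (nat_lit 78) (nat_lit 76) (nat_lit 0) (XT.lf (nat_lit 0) (nat_lit 707284421) (nat_lit 228) (nat_lit 23006555786) (nat_lit 304) (nat_lit 6096305226) (nat_lit 45) (nat_lit 5) (nat_lit 48) (nat_lit 5) (nat_lit 49) (nat_lit 5) (nat_lit 293) (nat_lit 276) (nat_lit 211)) (XT.lf (nat_lit 0) (nat_lit 889363132) (nat_lit 304) (nat_lit 6750221308) (nat_lit 76) (nat_lit 23694599681) (nat_lit 44) (nat_lit 5) (nat_lit 48) (nat_lit 5) (nat_lit 45) (nat_lit 5) (nat_lit 294) (nat_lit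 276) (nat_lit 210))))) (XT.nd (nat_lit 156) (nat_lit 456) (nat_lit 0) (XT.nd (nat_lit 78) (nat_lit 228) (nat_lit 0) (XT.lf (nat_lit 0) (nat_lit 8630949250) (nat_lit 304) (nat_lit 15271688375) (nat_lit 76) (nat_lit 9052005249) (nat_lit 41) (nat_lit 5) (nat_lit 45) (nat_lit 5) (nat_lit 42) (nat_lit 5) (nat_lit 295) (nat_lit 276) (nat_lit 209)) (XT.lf (nat_lit 0) (nat_lit 9772819313) (nat_lit 228) (nat_lit 7604084565) (nat_lit 304) (nat_lit 17308606811) (nat_lit 38) (nat_lit 5) (nat_lit 41) (nat_lit 5) (nat_lit 42) (nat_lit 5) (nat_lit 296) (nat_lit 276) (nat_lit 208))) (XT.nd (nat_lit 78) (nat_lit 304) (nat_lit 0) (XT.lf (nat_lit 0) (nat_lit 663549717) (nat_lit 152) (nat_lit 26580709349) (nat_lit 228) (nat_lit 9289525284) (nat_lit 36) (nat_lit 5) (nat_lit 38) (nat_lit 5) (nat_lit 39) (nat_lit 5) (nat_lit 297) (nat_lit 276) (nat_lit 207)) (XT.nd (nat_lit 78) (nat_lit 304) (nat_lit 0) (XT.lf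 (nat_lit 0) (nat_lit 29022095739) (nat_lit 152) (nat_lit 9424691574) (nat_lit 228) (nat_lit 55864317) (nat_lit 36) (nat_lit 5) (nat_lit 38) (nat_lit 5) (nat_lit 39) (nat_lit 5) (nat_lit 298) (nat_lit 276) (nat_lit 206)) (XT.lf (nat_lit 0) (nat_lit 10039114867) (nat_lit 304) (nat_lit 21287619325) (nat_lit 76) (nat_lit 9272570622) (nat_lit 32) (nat_lit 5) (nat_lit 36) (nat_lit 5) (nat_lit 33) (nat_lit 5) (nat_lit 299) (nat_lit 276) (nat_lit 205)))))) (XT.nd (nat_lit 390) (nat_lit 532) (nat_lit 0) (XT.nd (nat_lit 156) (nat_lit 380) (nat_lit 0) (XT.nd (nat_lit 78) (nat_lit 0) (nat_lit 0) (XT.lf (nat_lit 0) (nat_lit 7963155486) (nat_lit 152) (nat_lit 13414805631) (nat_lit 228) (nat_lit 21463789157) (nat_lit 30) (nat_lit 5) (nat_lit 32) (nat_lit 5) (nat_lit 33) (nat_lit 5) (nat_lit 300) (nat_lit 276) (nat_lit 204)) (XT.lf (nat_lit 0) (nat_lit 34081060240) (nat_lit 228) (nat_lit 5048793399) (nat_lit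 76) (nat_lit 6110896318) (nat_lit 30) (nat_lit 5) (nat_lit 33) (nat_lit 5) (nat_lit 31) (nat_lit 5) (nat_lit 301) (nat_lit 276) (nat_lit 203))) (XT.nd (nat_lit 78) (nat_lit 152) (nat_lit 0) (XT.lf (nat_lit 0) (nat_lit 629388145) (nat_lit 228) (nat_lit 19995801678) (nat_lit 76) (nat_lit 27173535673) (nat_lit 27) (nat_lit 5) (nat_lit 30) (nat_lit 5) (nat_lit 28) (nat_lit 5) (nat_lit 302) (nat_lit 276) (nat_lit 202)) (XT.nd (nat_lit 78) (nat_lit 0) (nat_lit 0) (XT.lf (nat_lit 0) (nat_lit 13118979396) (nat_lit 152) (nat_lit 140038488) (nat_lit 228) (nat_lit 37278766502) (nat_lit 25) (nat_lit 5) (nat_lit 27) (nat_lit 5) (nat_lit 28) (nat_lit 5) (nat_lit 303) (nat_lit 276) (nat_lit 201)) (XT.lf (nat_lit 0) (nat_lit 27585700394) (nat_lit 228) (nat_lit 4247611217) (nat_lit 76) (nat_lit 21628334235) (nat_lit 25) (nat_lit 5) (nat_lit 28) (nat_lit 5) (nat_lit 26) (nat_lit 5) (nat_lit 304) (nat_lit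 276) (nat_lit 200))))) (XT.nd (nat_lit 234) (nat_lit 228) (nat_lit 0) (XT.nd (nat_lit 78) (nat_lit 152) (nat_lit 0) (XT.lf (nat_lit 0) (nat_lit 32602564681) (nat_lit 152) (nat_lit 10957542348) (nat_lit 228) (nat_lit 13034240808) (nat_lit 23) (nat_lit 5) (nat_lit 25) (nat_lit 5) (nat_lit 26) (nat_lit 5) (nat_lit 305) (nat_lit 276) (nat_lit 199)) (XT.nd (nat_lit 78) (nat_lit 0) (nat_lit 0) (XT.lf (nat_lit 0) (nat_lit 1261817574) (nat_lit 152) (nat_lit 47185544749) (nat_lit 76) (nat_lit 11506974956) (nat_lit 21) (nat_lit 5) (nat_lit 23) (nat_lit 5) (nat_lit 22) (nat_lit 5) (nat_lit 306) (nat_lit 276) (nat_lit 198)) (XT.lf (nat_lit 0) (nat_lit 16851462333) (nat_lit 152) (nat_lit 10661840939) (nat_lit 76) (nat_lit 36028819956) (nat_lit 21) (nat_lit 5) (nat_lit 23) (nat_lit 5) (nat_lit 22) (nat_lit 5) (nat_lit 307) (nat_lit 276) (nat_lit 197)))) (XT.nd (nat_lit 78) (nat_lit 76) (nat_lit 0) (XT.lf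 (nat_lit 0) (nat_lit 29720971636) (nat_lit 152) (nat_lit 4422923814) (nat_lit 228) (nat_lit 33250264149) (nat_lit 19) (nat_lit 5) (nat_lit 21) (nat_lit 5) (nat_lit 22) (nat_lit 5) (nat_lit 308) (nat_lit 276) (nat_lit 196)) (XT.nd (nat_lit 78) (nat_lit 0) (nat_lit 0) (XT.lf (nat_lit 0) (nat_lit 1893580733) (nat_lit 76) (nat_lit 51456682877) (nat_lit 152) (nat_lit 18177576014) (nat_lit 18) (nat_lit 5) (nat_lit 19) (nat_lit 5) (nat_lit 20) (nat_lit 4) (nat_lit 309) (nat_lit 276) (nat_lit 195)) (XT.lf (nat_lit 0) (nat_lit 45880785019) (nat_lit 76) (nat_lit 28934285310) (nat_lit 152) (nat_lit 1141054453) (nat_lit 18) (nat_lit 5) (nat_lit 19) (nat_lit 5) (nat_lit 20) (nat_lit 4) (nat_lit 310) (nat_lit 276) (nat_lit 194))))))))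
noncomputable def xc79 : XT := (XT.nd (nat_lit 1638) (nat_lit 228) (nat_lit 0) (XT.nd (nat_lit 780) (nat_lit 380) (nat_lit 0) (XT.nd (nat_lit 390) (nat_lit 152) (nat_lit 0) (XT.nd (nat_lit 156) (nat_lit 228) (nat_lit 0) (XT.nd (nat_lit 78) (nat_lit 0) (nat_lit 0) (XT.lf (nat_lit 0) (nat_lit 12775300569) (nat_lit 152) (nat_lit 4122927480) (nat_lit 228) (nat_lit 63817367682) (nat_lit 15) (nat_lit 5) (nat_lit 17) (nat_lit 5) (nat_lit 18) (nat_lit 5) (nat_lit 311) (nat_lit 276) (nat_lit 193)) (XT.lf (nat_lit 0) (nat_lit 37220716446) (nat_lit 228) (nat_lit 26095642086) (nat_lit 76) (nat_lit 22494534390) (nat_lit 15) (nat_lit 5) (nat_lit 18) (nat_lit 5) (nat_lit 16) (nat_lit 4) (nat_lit 312) (nat_lit 276) (nat_lit 192))) (XT.nd (nat_lit 78) (nat_lit 152) (nat_lit 0) (XT.lf (nat_lit 0) (nat_lit 19644550181) (nat_lit 76) (nat_lit 39894226637) (nat_lit 152) (nat_lit 31756553858) (nat_lit 14) (nat_lit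 5) (nat_lit 15) (nat_lit 5) (nat_lit 16) (nat_lit 4) (nat_lit 313) (nat_lit 276) (nat_lit 191)) (XT.nd (nat_lit 78) (nat_lit 152) (nat_lit 0) (XT.lf (nat_lit 0) (nat_lit 69965052936) (nat_lit 76) (nat_lit 14125654537) (nat_lit 152) (nat_lit 13105399738) (nat_lit 14) (nat_lit 5) (nat_lit 15) (nat_lit 5) (nat_lit 16) (nat_lit 4) (nat_lit 314) (nat_lit 276) (nat_lit 190)) (XT.lf (nat_lit 0) (nat_lit 7360571075) (nat_lit 152) (nat_lit 82464201661) (nat_lit 76) (nat_lit 13711284573) (nat_lit 12) (nat_lit 5) (nat_lit 14) (nat_lit 5) (nat_lit 13) (nat_lit 4) (nat_lit 315) (nat_lit 276) (nat_lit 189))))) (XT.nd (nat_lit 156) (nat_lit 76) (nat_lit 0) (XT.nd (nat_lit 78) (nat_lit 76) (nat_lit 0) (XT.lf (nat_lit 0) (nat_lit 29725540895) (nat_lit 152) (nat_lit 36624958502) (nat_lit 76) (nat_lit 43985922460) (nat_lit 12) (nat_lit 5) (nat_lit 14) (nat_lit 5) (nat_lit 13) (nat_lit 4) (nat_lit 316) (nat_lit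 276) (nat_lit 188)) (XT.lf (nat_lit 0) (nat_lit 13297832728) (nat_lit 76) (nat_lit 40784329442) (nat_lit 152) (nat_lit 63588534511) (nat_lit 11) (nat_lit 5) (nat_lit 12) (nat_lit 5) (nat_lit 13) (nat_lit 4) (nat_lit 317) (nat_lit 276) (nat_lit 187))) (XT.nd (nat_lit 78) (nat_lit 76) (nat_lit 0) (XT.lf (nat_lit 0) (nat_lit 68513507677) (nat_lit 76) (nat_lit 12506870991) (nat_lit 152) (nat_lit 44539685069) (nat_lit 11) (nat_lit 5) (nat_lit 12) (nat_lit 5) (nat_lit 13) (nat_lit 4) (nat_lit 318) (nat_lit 276) (nat_lit 186)) (XT.nd (nat_lit 78) (nat_lit 76) (nat_lit 0) (XT.lf (nat_lit 0) (nat_lit 110390585230) (nat_lit 152) (nat_lit 6224013374) (nat_lit 0) (nat_lit 17452138179) (nat_lit 11) (nat_lit 5) (nat_lit 13) (nat_lit 4) (nat_lit 11) (nat_lit 4) (nat_lit 319) (nat_lit 276) (nat_lit 185)) (XT.lf (nat_lit 0) (nat_lit 50047568080) (nat_lit 76) (nat_lit 93050843615) (nat_lit 76) (nat_lit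 106134829) (nat_lit 10) (nat_lit 4) (nat_lit 11) (nat_lit 5) (nat_lit 11) (nat_lit 4) (nat_lit 320) (nat_lit 276) (nat_lit 184)))))) (XT.nd (nat_lit 390) (nat_lit 152) (nat_lit 0) (XT.nd (nat_lit 156) (nat_lit 76) (nat_lit 0) (XT.nd (nat_lit 78) (nat_lit 76) (nat_lit 0) (XT.lf (nat_lit 0) (nat_lit 24644200622) (nat_lit 152) (nat_lit 42429895414) (nat_lit 76) (nat_lit 85974195889) (nat_lit 9) (nat_lit 5) (nat_lit 11) (nat_lit 5) (nat_lit 10) (nat_lit 4) (nat_lit 321) (nat_lit 276) (nat_lit 183)) (XT.lf (nat_lit 0) (nat_lit 12754840838) (nat_lit 76) (nat_lit 38811362067) (nat_lit 152) (nat_lit 112103481601) (nat_lit 8) (nat_lit 5) (nat_lit 9) (nat_lit 5) (nat_lit 10) (nat_lit 4) (nat_lit 322) (nat_lit 276) (nat_lit 182))) (XT.nd (nat_lit 78) (nat_lit 76) (nat_lit 0) (XT.lf (nat_lit 0) (nat_lit 73862857916) (nat_lit 76) (nat_lit 7514558573) (nat_lit 152) (nat_lit 93726601733) (nat_lit 8)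 (nat_lit 5) (nat_lit 9) (nat_lit 5) (nat_lit 10) (nat_lit 4) (nat_lit 323) (nat_lit 276) (nat_lit 181)) (XT.nd (nat_lit 78) (nat_lit 76) (nat_lit 0) (XT.lf (nat_lit 0) (nat_lit 113980501770) (nat_lit 152) (nat_lit 48010270810) (nat_lit 0) (nat_lit 25441979437) (nat_lit 8) (nat_lit 5) (nat_lit 10) (nat_lit 4) (nat_lit 8) (nat_lit 4) (nat_lit 324) (nat_lit 276) (nat_lit 180)) (XT.lf (nat_lit 0) (nat_lit 9655595405) (nat_lit 76) (nat_lit 139810528792) (nat_lit 76) (nat_lit 51267947762) (nat_lit 7) (nat_lit 4) (nat_lit 8) (nat_lit 5) (nat_lit 8) (nat_lit 4) (nat_lit 325) (nat_lit 276) (nat_lit 179))))) (XT.nd (nat_lit 234) (nat_lit 76) (nat_lit 0) (XT.nd (nat_lit 78) (nat_lit 76) (nat_lit 0) (XT.lf (nat_lit 0) (nat_lit 73643590723) (nat_lit 76) (nat_lit 114980291684) (nat_lit 76) (nat_lit 26433952601) (nat_lit 7) (nat_lit 4) (nat_lit 8) (nat_lit 5) (nat_lit 8) (nat_lit 4) (nat_lit 326) (nat_lit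 276) (nat_lit 178)) (XT.nd (nat_lit 78) (nat_lit 0) (nat_lit 0) (XT.lf (nat_lit 0) (nat_lit 371537766) (nat_lit 152) (nat_lit 87788166340) (nat_lit 76) (nat_lit 142367636951) (nat_lit 6) (nat_lit 5) (nat_lit 8) (nat_lit 5) (nat_lit 7) (nat_lit 4) (nat_lit 327) (nat_lit 276) (nat_lit 177)) (XT.lf (nat_lit 0) (nat_lit 28405096855) (nat_lit 152) (nat_lit 30322592131) (nat_lit 76) (nat_lit 188484565589) (nat_lit 6) (nat_lit 5) (nat_lit 8) (nat_lit 5) (nat_lit 7) (nat_lit 4) (nat_lit 328) (nat_lit 276) (nat_lit 176)))) (XT.nd (nat_lit 78) (nat_lit 0) (nat_lit 0) (XT.lf (nat_lit 0) (nat_lit 32785049488) (nat_lit 76) (nat_lit 26405718042) (nat_lit 152) (nat_lit 206015723673) (nat_lit 5) (nat_lit 5) (nat_lit 6) (nat_lit 5) (nat_lit 7) (nat_lit 4) (nat_lit 329) (nat_lit 276) (nat_lit 175)) (XT.nd (nat_lit 78) (nat_lit 0) (nat_lit 0) (XT.lf (nat_lit 0) (nat_lit 93106533915) (nat_lit 152) (nat_lit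 182735539268) (nat_lit 0) (nat_lit 8764832743) (nat_lit 5) (nat_lit 5) (nat_lit 7) (nat_lit 4) (nat_lit 5) (nat_lit 4) (nat_lit 330) (nat_lit 276) (nat_lit 174)) (XT.lf (nat_lit 0) (nat_lit 130178627692) (nat_lit 152) (nat_lit 129524083360) (nat_lit 0) (nat_lit 45834490646) (nat_lit 5) (nat_lit 5) (nat_lit 7) (nat_lit 4) (nat_lit 5) (nat_lit 4) (nat_lit 331) (nat_lit 276) (nat_lit 173))))))) (XT.nd (nat_lit 858) (nat_lit 0) (nat_lit 0) (XT.nd (nat_lit 390) (nat_lit 152) (nat_lit 0) (XT.nd (nat_lit 156) (nat_lit 76) (nat_lit 0) (XT.nd (nat_lit 78) (nat_lit 0) (nat_lit 0) (XT.lf (nat_lit 0) (nat_lit 170214468083) (nat_lit 152) (nat_lit 72059479584) (nat_lit 0) (nat_lit 85868075597) (nat_lit 5) (nat_lit 5) (nat_lit 7) (nat_lit 4) (nat_lit 5) (nat_lit 4) (nat_lit 332) (nat_lit 276) (nat_lit 172)) (XT.lf (nat_lit 0) (nat_lit 213451304511) (nat_lit 152) (nat_lit 10001196956) (nat_lit 0) (nat_lit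 129102823656) (nat_lit 5) (nat_lit 5) (nat_lit 7) (nat_lit 4) (nat_lit 5) (nat_lit 4) (nat_lit 333) (nat_lit 276) (nat_lit 171))) (XT.nd (nat_lit 78) (nat_lit 0) (nat_lit 0) (XT.lf (nat_lit 0) (nat_lit 58903806996) (nat_lit 76) (nat_lit 202161201775) (nat_lit 76) (nat_lit 117810787245) (nat_lit 4) (nat_lit 4) (nat_lit 5) (nat_lit 5) (nat_lit 5) (nat_lit 4) (nat_lit 334) (nat_lit 276) (nat_lit 170)) (XT.nd (nat_lit 78) (nat_lit 0) (nat_lit 0) (XT.lf (nat_lit 0) (nat_lit 133675260225) (nat_lit 76) (nat_lit 178985111047) (nat_lit 76) (nat_lit 94632906077) (nat_lit 4) (nat_lit 4) (nat_lit 5) (nat_lit 5) (nat_lit 5) (nat_lit 4) (nat_lit 335) (nat_lit 276) (nat_lit 169)) (XT.lf (nat_lit 0) (nat_lit 214425568086) (nat_lit 76) (nat_lit 153956264597) (nat_lit 76) (nat_lit 69602401812) (nat_lit 4) (nat_lit 4) (nat_lit 5) (nat_lit 5) (nat_lit 5) (nat_lit 4) (nat_lit 336) (nat_lit 276) (nat_lit 168)))))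 (XT.nd (nat_lit 234) (nat_lit 76) (nat_lit 0) (XT.nd (nat_lit 78) (nat_lit 76) (nat_lit 0) (XT.lf (nat_lit 0) (nat_lit 301633250920) (nat_lit 76) (nat_lit 126926343334) (nat_lit 76) (nat_lit 42570945535) (nat_lit 4) (nat_lit 4) (nat_lit 5) (nat_lit 5) (nat_lit 5) (nat_lit 4) (nat_lit 337) (nat_lit 276) (nat_lit 167)) (XT.nd (nat_lit 78) (nat_lit 76) (nat_lit 0) (XT.lf (nat_lit 0) (nat_lit 395815094997) (nat_lit 76) (nat_lit 97735169947) (nat_lit 76) (nat_lit 13378350839) (nat_lit 4) (nat_lit 4) (nat_lit 5) (nat_lit 5) (nat_lit 5) (nat_lit 4) (nat_lit 338) (nat_lit 276) (nat_lit 166)) (XT.lf (nat_lit 0) (nat_lit 17567514077) (nat_lit 152) (nat_lit 48344731275) (nat_lit 76) (nat_lit 479664186519) (nat_lit 3) (nat_lit 5) (nat_lit 5) (nat_lit 5) (nat_lit 4) (nat_lit 4) (nat_lit 339) (nat_lit 276) (nat_lit 165)))) (XT.nd (nat_lit 78) (nat_lit 0) (nat_lit 0) (XT.lf (nat_lit 0) (nat_lit 19853264661)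 (nat_lit 76) (nat_lit 30982158918) (nat_lit 152) (nat_lit 536453929986) (nat_lit 2) (nat_lit 5) (nat_lit 3) (nat_lit 5) (nat_lit 4) (nat_lit 4) (nat_lit 340) (nat_lit 276) (nat_lit 164)) (XT.nd (nat_lit 78) (nat_lit 0) (nat_lit 0) (XT.lf (nat_lit 0) (nat_lit 87724866192) (nat_lit 152) (nat_lit 537184888262) (nat_lit 0) (nat_lit 7381550040) (nat_lit 2) (nat_lit 5) (nat_lit 4) (nat_lit 4) (nat_lit 2) (nat_lit 4) (nat_lit 341) (nat_lit 276) (nat_lit 163)) (XT.lf (nat_lit 0) (nat_lit 128086856034) (nat_lit 152) (nat_lit 505037941428) (nat_lit 0) (nat_lit 47742544925) (nat_lit 2) (nat_lit 5) (nat_lit 4) (nat_lit 4) (nat_lit 2) (nat_lit 4) (nat_lit 342) (nat_lit 276) (nat_lit 162)))))) (XT.nd (nat_lit 35490) (nat_lit 0) (nat_lit 6232) (XT.nd (nat_lit 156) (nat_lit 0) (nat_lit 0) (XT.nd (nat_lit 78) (nat_lit 0) (nat_lit 0) (XT.lf (nat_lit 0) (nat_lit 171676856939) (nat_lit 152) (nat_lit 470321029648)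 (nat_lit 0) (nat_lit 91331624574) (nat_lit 2) (nat_lit 5) (nat_lit 4) (nat_lit 4) (nat_lit 2) (nat_lit 4) (nat_lit 343) (nat_lit 276) (nat_lit 161)) (XT.lf (nat_lit 0) (nat_lit 218753180025) (nat_lit 152) (nat_lit 432828423075) (nat_lit 0) (nat_lit 138407094645) (nat_lit 2) (nat_lit 5) (nat_lit 4) (nat_lit 4) (nat_lit 2) (nat_lit 4) (nat_lit 344) (nat_lit 276) (nat_lit 160))) (XT.nd (nat_lit 78) (nat_lit 0) (nat_lit 0) (XT.lf (nat_lit 0) (nat_lit 269594796094) (nat_lit 152) (nat_lit 392337943298) (nat_lit 0) (nat_lit 189247920885) (nat_lit 2) (nat_lit 5) (nat_lit 4) (nat_lit 4) (nat_lit 2) (nat_lit 4) (nat_lit 345) (nat_lit 276) (nat_lit 159)) (XT.nd (nat_lit 78) (nat_lit 0) (nat_lit 0) (XT.lf (nat_lit 0) (nat_lit 324502988798) (nat_lit 152) (nat_lit 348609646735) (nat_lit 0) (nat_lit 244155382266) (nat_lit 2) (nat_lit 5) (nat_lit 4) (nat_lit 4) (nat_lit 2) (nat_lit 4) (nat_lit 346) (nat_lit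 276) (nat_lit 158)) (XT.lf (nat_lit 0) (nat_lit 383803140019) (nat_lit 152) (nat_lit 301384402739) (nat_lit 0) (nat_lit 303454856336) (nat_lit 2) (nat_lit 5) (nat_lit 4) (nat_lit 4) (nat_lit 2) (nat_lit 4) (nat_lit 347) (nat_lit 276) (nat_lit 157))))) (XT.nd (nat_lit 234) (nat_lit 0) (nat_lit 76) (XT.nd (nat_lit 78) (nat_lit 0) (nat_lit 0) (XT.lf (nat_lit 0) (nat_lit 1898051152) (nat_lit 0) (nat_lit 1898051152) (nat_lit 684) (nat_lit 3870192652) (nat_lit 84) (nat_lit 5) (nat_lit 84) (nat_lit 3) (nat_lit 93) (nat_lit 3) (nat_lit 277) (nat_lit 277) (nat_lit 226)) (XT.nd (nat_lit 78) (nat_lit 0) (nat_lit 76) (XT.lf (nat_lit 0) (nat_lit 8422902450) (nat_lit 684) (nat_lit 681820091) (nat_lit 760) (nat_lit 6813851572) (nat_lit 84) (nat_lit 5) (nat_lit 93) (nat_lit 3) (nat_lit 94) (nat_lit 5) (nat_lit 278) (nat_lit 277) (nat_lit 225)) (XT.lf (nat_lit 0) (nat_lit 9547386242) (nat_lit 684) (nat_lit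 5253601141) (nat_lit 760) (nat_lit 1739180099) (nat_lit 85) (nat_lit 5) (nat_lit 94) (nat_lit 5) (nat_lit 95) (nat_lit 5) (nat_lit 279) (nat_lit 277) (nat_lit 224)))) (XT.nd (nat_lit 78) (nat_lit 0) (nat_lit 76) (XT.lf (nat_lit 76) (nat_lit 7073931890) (nat_lit 0) (nat_lit 3925502289) (nat_lit 760) (nat_lit 6200263625) (nat_lit 86) (nat_lit 5) (nat_lit 85) (nat_lit 5) (nat_lit 95) (nat_lit 5) (nat_lit 280) (nat_lit 277) (nat_lit 223)) (XT.nd (nat_lit 78) (nat_lit 0) (nat_lit 76) (XT.lf (nat_lit 76) (nat_lit 2601900130) (nat_lit 0) (nat_lit 10185715794) (nat_lit 760) (nat_lit 5113459240) (nat_lit 87) (nat_lit 5) (nat_lit 86) (nat_lit 5) (nat_lit 96) (nat_lit 5) (nat_lit 281) (nat_lit 277) (nat_lit 222)) (XT.lf (nat_lit 0) (nat_lit 14953245306) (nat_lit 684) (nat_lit 2058157728) (nat_lit 760) (nat_lit 1635516975) (nat_lit 87) (nat_lit 5) (nat_lit 96) (nat_lit 5) (nat_lit 97) (nat_lit 5)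 (nat_lit 282) (nat_lit 277) (nat_lit 221))))))))
noncomputable def xc80 : XT := (XT.nd (nat_lit 1638) (nat_lit 1444) (nat_lit 0) (XT.nd (nat_lit 780) (nat_lit 1824) (nat_lit 0) (XT.nd (nat_lit 390) (nat_lit 1216) (nat_lit 0) (XT.nd (nat_lit 156) (nat_lit 836) (nat_lit 0) (XT.nd (nat_lit 78) (nat_lit 684) (nat_lit 0) (XT.lf (nat_lit 76) (nat_lit 12444222277) (nat_lit 0) (nat_lit 5183058333) (nat_lit 760) (nat_lit 1808465305) (nat_lit 88) (nat_lit 5) (nat_lit 87) (nat_lit 5) (nat_lit 97) (nat_lit 5) (nat_lit 283) (nat_lit 277) (nat_lit 220)) (XT.lf (nat_lit 0) (nat_lit 475425367) (nat_lit 760) (nat_lit 12276306807) (nat_lit 76) (nat_lit 7523073516) (nat_lit 78) (nat_lit 5) (nat_lit 88) (nat_lit 5) (nat_lit 79) (nat_lit 5) (nat_lit 284) (nat_lit 277) (nat_lit 219))) (XT.nd (nat_lit 78) (nat_lit 380) (nat_lit 0) (XT.lf (nat_lit 0) (nat_lit 3115045564) (nat_lit 532) (nat_lit 17948705819) (nat_lit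 76) (nat_lit 103995789) (nat_lit 72) (nat_lit 5) (nat_lit 79) (nat_lit 5) (nat_lit 73) (nat_lit 5) (nat_lit 285) (nat_lit 277) (nat_lit 218)) (XT.nd (nat_lit 78) (nat_lit 380) (nat_lit 0) (XT.lf (nat_lit 0) (nat_lit 6372298690) (nat_lit 532) (nat_lit 1972741490) (nat_lit 76) (nat_lit 13766814496) (nat_lit 72) (nat_lit 5) (nat_lit 79) (nat_lit 5) (nat_lit 73) (nat_lit 5) (nat_lit 286) (nat_lit 277) (nat_lit 217)) (XT.lf (nat_lit 0) (nat_lit 10200458199) (nat_lit 456) (nat_lit 7446174722) (nat_lit 76) (nat_lit 5469391430) (nat_lit 67) (nat_lit 5) (nat_lit 73) (nat_lit 5) (nat_lit 68) (nat_lit 5) (nat_lit 287) (nat_lit 277) (nat_lit 216))))) (XT.nd (nat_lit 156) (nat_lit 608) (nat_lit 0) (XT.nd (nat_lit 78) (nat_lit 304) (nat_lit 0) (XT.lf (nat_lit 0) (nat_lit 10775609720) (nat_lit 304) (nat_lit 3880584154) (nat_lit 380) (nat_lit 9528313740) (nat_lit 63) (nat_lit 5) (nat_lit 67) (nat_lit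 5) (nat_lit 68) (nat_lit 5) (nat_lit 288) (nat_lit 277) (nat_lit 215)) (XT.lf (nat_lit 0) (nat_lit 5363508435) (nat_lit 304) (nat_lit 14470734003) (nat_lit 380) (nat_lit 5485977162) (nat_lit 59) (nat_lit 5) (nat_lit 63) (nat_lit 5) (nat_lit 64) (nat_lit 5) (nat_lit 289) (nat_lit 277) (nat_lit 214))) (XT.nd (nat_lit 78) (nat_lit 608) (nat_lit 0) (XT.lf (nat_lit 0) (nat_lit 25709483584) (nat_lit 380) (nat_lit 511548045) (nat_lit 76) (nat_lit 311649076) (nat_lit 59) (nat_lit 5) (nat_lit 64) (nat_lit 5) (nat_lit 60) (nat_lit 5) (nat_lit 290) (nat_lit 277) (nat_lit 213)) (XT.nd (nat_lit 78) (nat_lit 304) (nat_lit 0) (XT.lf (nat_lit 0) (nat_lit 4638387418) (nat_lit 304) (nat_lit 6997290585) (nat_lit 76) (nat_lit 16175176493) (nat_lit 55) (nat_lit 5) (nat_lit 59) (nat_lit 5) (nat_lit 56) (nat_lit 5) (nat_lit 291) (nat_lit 277) (nat_lit 212)) (XT.lf (nat_lit 0) (nat_lit 10804182867) (nat_lit 380)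 (nat_lit 14127136632) (nat_lit 76) (nat_lit 4244514023) (nat_lit 51) (nat_lit 5) (nat_lit 56) (nat_lit 5) (nat_lit 52) (nat_lit 5) (nat_lit 292) (nat_lit 277) (nat_lit 211)))))) (XT.nd (nat_lit 390) (nat_lit 836) (nat_lit 0) (XT.nd (nat_lit 156) (nat_lit 532) (nat_lit 0) (XT.nd (nat_lit 78) (nat_lit 228) (nat_lit 0) (XT.lf (nat_lit 0) (nat_lit 8517386302) (nat_lit 228) (nat_lit 9382013523) (nat_lit 304) (nat_lit 12728833086) (nat_lit 48) (nat_lit 5) (nat_lit 51) (nat_lit 5) (nat_lit 52) (nat_lit 5) (nat_lit 293) (nat_lit 277) (nat_lit 210)) (XT.lf (nat_lit 0) (nat_lit 1190615704) (nat_lit 228) (nat_lit 24739993916) (nat_lit 304) (nat_lit 6247823576) (nat_lit 45) (nat_lit 5) (nat_lit 48) (nat_lit 5) (nat_lit 49) (nat_lit 5) (nat_lit 294) (nat_lit 277) (nat_lit 209))) (XT.nd (nat_lit 78) (nat_lit 456) (nat_lit 0) (XT.lf (nat_lit 0) (nat_lit 1261832567) (nat_lit 304) (nat_lit 6884661610)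 (nat_lit 76) (nat_lit 25678881792) (nat_lit 44) (nat_lit 5) (nat_lit 48) (nat_lit 5) (nat_lit 45) (nat_lit 5) (nat_lit 295) (nat_lit 277) (nat_lit 208)) (XT.nd (nat_lit 78) (nat_lit 228) (nat_lit 0) (XT.lf (nat_lit 0) (nat_lit 9608089022) (nat_lit 304) (nat_lit 16092383999) (nat_lit 76) (nat_lit 9875766552) (nat_lit 41) (nat_lit 5) (nat_lit 45) (nat_lit 5) (nat_lit 42) (nat_lit 5) (nat_lit 296) (nat_lit 277) (nat_lit 207)) (XT.lf (nat_lit 0) (nat_lit 10938255619) (nat_lit 228) (nat_lit 8100219282) (nat_lit 304) (nat_lit 18407896874) (nat_lit 38) (nat_lit 5) (nat_lit 41) (nat_lit 5) (nat_lit 42) (nat_lit 5) (nat_lit 297) (nat_lit 277) (nat_lit 206))))) (XT.nd (nat_lit 234) (nat_lit 380) (nat_lit 0) (XT.nd (nat_lit 78) (nat_lit 304) (nat_lit 0) (XT.lf (nat_lit 0) (nat_lit 1095269916) (nat_lit 152) (nat_lit 28587376953) (nat_lit 228) (nat_lit 9760519326) (nat_lit 36) (nat_lit 5) (nat_lit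 38) (nat_lit 5) (nat_lit 39) (nat_lit 5) (nat_lit 298) (nat_lit 277) (nat_lit 205)) (XT.nd (nat_lit 78) (nat_lit 228) (nat_lit 0) (XT.lf (nat_lit 0) (nat_lit 185539164) (nat_lit 228) (nat_lit 9879069666) (nat_lit 76) (nat_lit 31505771132) (nat_lit 35) (nat_lit 5) (nat_lit 38) (nat_lit 5) (nat_lit 36) (nat_lit 5) (nat_lit 299) (nat_lit 277) (nat_lit 204)) (XT.lf (nat_lit 0) (nat_lit 11075228176) (nat_lit 304) (nat_lit 22637121661) (nat_lit 76) (nat_lit 10122941065) (nat_lit 32) (nat_lit 5) (nat_lit 36) (nat_lit 5) (nat_lit 33) (nat_lit 5) (nat_lit 300) (nat_lit 277) (nat_lit 203)))) (XT.nd (nat_lit 78) (nat_lit 228) (nat_lit 0) (XT.lf (nat_lit 0) (nat_lit 8938352142) (nat_lit 152) (nat_lit 14370851280) (nat_lit 228) (nat_lit 22948550409) (nat_lit 30) (nat_lit 5) (nat_lit 32) (nat_lit 5) (nat_lit 33) (nat_lit 5) (nat_lit 301) (nat_lit 277) (nat_lit 202)) (XT.nd (nat_lit 78) (nat_lit 228)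 (nat_lit 0) (XT.lf (nat_lit 0) (nat_lit 37013873096) (nat_lit 228) (nat_lit 5130797039) (nat_lit 76) (nat_lit 6704758421) (nat_lit 30) (nat_lit 5) (nat_lit 33) (nat_lit 5) (nat_lit 31) (nat_lit 5) (nat_lit 302) (nat_lit 277) (nat_lit 201)) (XT.lf (nat_lit 0) (nat_lit 879039219) (nat_lit 228) (nat_lit 21280731914) (nat_lit 76) (nat_lit 29452653719) (nat_lit 27) (nat_lit 5) (nat_lit 30) (nat_lit 5) (nat_lit 28) (nat_lit 5) (nat_lit 303) (nat_lit 277) (nat_lit 200))))))) (XT.nd (nat_lit 780) (nat_lit 532) (nat_lit 0) (XT.nd (nat_lit 390) (nat_lit 456) (nat_lit 0) (XT.nd (nat_lit 156) (nat_lit 304) (nat_lit 0) (XT.nd (nat_lit 78) (nat_lit 0) (nat_lit 0) (XT.lf (nat_lit 0) (nat_lit 14469553695) (nat_lit 152) (nat_lit 39423005) (nat_lit 228) (nat_lit 40062152196) (nat_lit 25) (nat_lit 5) (nat_lit 27) (nat_lit 5) (nat_lit 28) (nat_lit 5) (nat_lit 304) (nat_lit 277) (nat_lit 199)) (XT.lf (nat_lit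 0) (nat_lit 29969392709) (nat_lit 228) (nat_lit 4301319756) (nat_lit 76) (nat_lit 23458822890) (nat_lit 25) (nat_lit 5) (nat_lit 28) (nat_lit 5) (nat_lit 26) (nat_lit 5) (nat_lit 305) (nat_lit 277) (nat_lit 198))) (XT.nd (nat_lit 78) (nat_lit 152) (nat_lit 0) (XT.lf (nat_lit 0) (nat_lit 35484436641) (nat_lit 152) (nat_lit 11728488956) (nat_lit 228) (nat_lit 13900384062) (nat_lit 23) (nat_lit 5) (nat_lit 25) (nat_lit 5) (nat_lit 26) (nat_lit 5) (nat_lit 306) (nat_lit 277) (nat_lit 197)) (XT.nd (nat_lit 78) (nat_lit 0) (nat_lit 0) (XT.lf (nat_lit 0) (nat_lit 1526856061) (nat_lit 152) (nat_lit 50686390568) (nat_lit 76) (nat_lit 12529069395) (nat_lit 21) (nat_lit 5) (nat_lit 23) (nat_lit 5) (nat_lit 22) (nat_lit 5) (nat_lit 307) (nat_lit 277) (nat_lit 196)) (XT.lf (nat_lit 0) (nat_lit 18351517358) (nat_lit 152) (nat_lit 11261086583) (nat_lit 76) (nat_lit 39005140777) (nat_lit 21) (nat_lit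 5) (nat_lit 23) (nat_lit 5) (nat_lit 22) (nat_lit 5) (nat_lit 308) (nat_lit 277) (nat_lit 195))))) (XT.nd (nat_lit 156) (nat_lit 228) (nat_lit 0) (XT.nd (nat_lit 78) (nat_lit 76) (nat_lit 0) (XT.lf (nat_lit 0) (nat_lit 32341325434) (nat_lit 152) (nat_lit 4678553874) (nat_lit 228) (nat_lit 35758449200) (nat_lit 19) (nat_lit 5) (nat_lit 21) (nat_lit 5) (nat_lit 22) (nat_lit 5) (nat_lit 309) (nat_lit 277) (nat_lit 194)) (XT.lf (nat_lit 0) (nat_lit 2282774082) (nat_lit 76) (nat_lit 55474412128) (nat_lit 152) (nat_lit 19485805650) (nat_lit 18) (nat_lit 5) (nat_lit 19) (nat_lit 5) (nat_lit 20) (nat_lit 4) (nat_lit 310) (nat_lit 277) (nat_lit 193))) (XT.nd (nat_lit 78) (nat_lit 228) (nat_lit 0) (XT.lf (nat_lit 0) (nat_lit 49771346794) (nat_lit 76) (nat_lit 31157541673) (nat_lit 152) (nat_lit 1097175435) (nat_lit 18) (nat_lit 5) (nat_lit 19) (nat_lit 5) (nat_lit 20) (nat_lit 4) (nat_lit 311) (nat_lit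 277) (nat_lit 192)) (XT.nd (nat_lit 78) (nat_lit 0) (nat_lit 0) (XT.lf (nat_lit 0) (nat_lit 14012105958) (nat_lit 152) (nat_lit 4362479325) (nat_lit 228) (nat_lit 68791927127) (nat_lit 15) (nat_lit 5) (nat_lit 17) (nat_lit 5) (nat_lit 18) (nat_lit 5) (nat_lit 312) (nat_lit 277) (nat_lit 191)) (XT.lf (nat_lit 0) (nat_lit 40314955753) (nat_lit 228) (nat_lit 27979864968) (nat_lit 76) (nat_lit 24375016358) (nat_lit 15) (nat_lit 5) (nat_lit 18) (nat_lit 5) (nat_lit 16) (nat_lit 4) (nat_lit 313) (nat_lit 277) (nat_lit 190)))))) (XT.nd (nat_lit 390) (nat_lit 228) (nat_lit 0) (XT.nd (nat_lit 156) (nat_lit 228) (nat_lit 0) (XT.nd (nat_lit 78) (nat_lit 0) (nat_lit 0) (XT.lf (nat_lit 0) (nat_lit 21410701926) (nat_lit 76) (nat_lit 43002161385) (nat_lit 152) (nat_lit 34180453697) (nat_lit 14) (nat_lit 5) (nat_lit 15) (nat_lit 5) (nat_lit 16) (nat_lit 4) (nat_lit 314) (nat_lit 277) (nat_lit 189)) (XT.lf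 (nat_lit 0) (nat_lit 75742430995) (nat_lit 76) (nat_lit 15178296360) (nat_lit 152) (nat_lit 14045846097) (nat_lit 14) (nat_lit 5) (nat_lit 15) (nat_lit 5) (nat_lit 16) (nat_lit 4) (nat_lit 315) (nat_lit 277) (nat_lit 188))) (XT.nd (nat_lit 78) (nat_lit 76) (nat_lit 0) (XT.lf (nat_lit 0) (nat_lit 8050136467) (nat_lit 152) (nat_lit 88881750324) (nat_lit 76) (nat_lit 14881944892) (nat_lit 12) (nat_lit 5) (nat_lit 14) (nat_lit 5) (nat_lit 13) (nat_lit 4) (nat_lit 316) (nat_lit 277) (nat_lit 187)) (XT.nd (nat_lit 78) (nat_lit 76) (nat_lit 0) (XT.lf (nat_lit 0) (nat_lit 32196843154) (nat_lit 152) (nat_lit 39388670488) (nat_lit 76) (nat_lit 47573090288) (nat_lit 12) (nat_lit 5) (nat_lit 14) (nat_lit 5) (nat_lit 13) (nat_lit 4) (nat_lit 317) (nat_lit 277) (nat_lit 186)) (XT.lf (nat_lit 0) (nat_lit 14520717510) (nat_lit 76) (nat_lit 43976851891) (nat_lit 152) (nat_lit 68582277666) (nat_lit 11)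 (nat_lit 5) (nat_lit 12) (nat_lit 5) (nat_lit 13) (nat_lit 4) (nat_lit 318) (nat_lit 277) (nat_lit 185))))) (XT.nd (nat_lit 234) (nat_lit 152) (nat_lit 0) (XT.nd (nat_lit 78) (nat_lit 76) (nat_lit 0) (XT.lf (nat_lit 0) (nat_lit 74141864370) (nat_lit 76) (nat_lit 13442398535) (nat_lit 152) (nat_lit 48016434313) (nat_lit 11) (nat_lit 5) (nat_lit 12) (nat_lit 5) (nat_lit 13) (nat_lit 4) (nat_lit 319) (nat_lit 277) (nat_lit 184)) (XT.nd (nat_lit 78) (nat_lit 76) (nat_lit 0) (XT.lf (nat_lit 0) (nat_lit 119298933085) (nat_lit 152) (nat_lit 6582645075) (nat_lit 0) (nat_lit 18906587957) (nat_lit 11) (nat_lit 5) (nat_lit 13) (nat_lit 4) (nat_lit 11) (nat_lit 4) (nat_lit 320) (nat_lit 277) (nat_lit 183)) (XT.lf (nat_lit 0) (nat_lit 54184609550) (nat_lit 76) (nat_lit 100435145118) (nat_lit 76) (nat_lit 37431560) (nat_lit 10) (nat_lit 4) (nat_lit 11) (nat_lit 5) (nat_lit 11) (nat_lit 4) (nat_lit 321)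 (nat_lit 277) (nat_lit 182)))) (XT.nd (nat_lit 78) (nat_lit 76) (nat_lit 0) (XT.lf (nat_lit 0) (nat_lit 26684924970) (nat_lit 152) (nat_lit 45698588134) (nat_lit 76) (nat_lit 92905138212) (nat_lit 9) (nat_lit 5) (nat_lit 11) (nat_lit 5) (nat_lit 10) (nat_lit 4) (nat_lit 322) (nat_lit 277) (nat_lit 181)) (XT.nd (nat_lit 78) (nat_lit 0) (nat_lit 0) (XT.lf (nat_lit 0) (nat_lit 13895464296) (nat_lit 76) (nat_lit 41861975305) (nat_lit 152) (nat_lit 121002481395) (nat_lit 8) (nat_lit 5) (nat_lit 9) (nat_lit 5) (nat_lit 10) (nat_lit 4) (nat_lit 323) (nat_lit 277) (nat_lit 180)) (XT.lf (nat_lit 0) (nat_lit 79883216356) (nat_lit 76) (nat_lit 8065449437) (nat_lit 152) (nat_lit 101160582896) (nat_lit 8) (nat_lit 5) (nat_lit 9) (nat_lit 5) (nat_lit 10) (nat_lit 4) (nat_lit 324) (nat_lit 277) (nat_lit 179))))))))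
noncomputable def xc81 : XT := (XT.nd (nat_lit 1638) (nat_lit 0) (nat_lit 0) (XT.nd (nat_lit 780) (nat_lit 228) (nat_lit 0) (XT.nd (nat_lit 390) (nat_lit 76) (nat_lit 0) (XT.nd (nat_lit 156) (nat_lit 76) (nat_lit 0) (XT.nd (nat_lit 78) (nat_lit 76) (nat_lit 0) (XT.lf (nat_lit 0) (nat_lit 123156202004) (nat_lit 152) (nat_lit 51745874065) (nat_lit 0) (nat_lit 27522397742) (nat_lit 8) (nat_lit 5) (nat_lit 10) (nat_lit 4) (nat_lit 8) (nat_lit 4) (nat_lit 325) (nat_lit 277) (nat_lit 178)) (XT.lf (nat_lit 0) (nat_lit 10528688783) (nat_lit 76) (nat_lit 150949315316) (nat_lit 76) (nat_lit 55312031375) (nat_lit 7) (nat_lit 4) (nat_lit 8) (nat_lit 5) (nat_lit 8) (nat_lit 4) (nat_lit 326) (nat_lit 277) (nat_lit 177))) (XT.nd (nat_lit 78) (nat_lit 76) (nat_lit 0) (XT.lf (nat_lit 0) (nat_lit 79628268486) (nat_lit 76) (nat_lit 124136070779) (nat_lit 76) (nat_lit 28495564913) (nat_lit 7) (nat_lit 4)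 (nat_lit 8) (nat_lit 5) (nat_lit 8) (nat_lit 4) (nat_lit 327) (nat_lit 277) (nat_lit 176)) (XT.nd (nat_lit 78) (nat_lit 0) (nat_lit 0) (XT.lf (nat_lit 0) (nat_lit 448857306) (nat_lit 152) (nat_lit 94723331652) (nat_lit 76) (nat_lit 153794932824) (nat_lit 6) (nat_lit 5) (nat_lit 8) (nat_lit 5) (nat_lit 7) (nat_lit 4) (nat_lit 328) (nat_lit 277) (nat_lit 175)) (XT.lf (nat_lit 0) (nat_lit 30721575454) (nat_lit 152) (nat_lit 32667021728) (nat_lit 76) (nat_lit 203598409462) (nat_lit 6) (nat_lit 5) (nat_lit 8) (nat_lit 5) (nat_lit 7) (nat_lit 4) (nat_lit 329) (nat_lit 277) (nat_lit 174))))) (XT.nd (nat_lit 156) (nat_lit 0) (nat_lit 0) (XT.nd (nat_lit 78) (nat_lit 0) (nat_lit 0) (XT.lf (nat_lit 0) (nat_lit 35485694643) (nat_lit 76) (nat_lit 28482355952) (nat_lit 152) (nat_lit 222452835900) (nat_lit 5) (nat_lit 5) (nat_lit 6) (nat_lit 5) (nat_lit 7) (nat_lit 4) (nat_lit 330) (nat_lit 277) (nat_lit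 173)) (XT.lf (nat_lit 0) (nat_lit 100594483393) (nat_lit 152) (nat_lit 197280858376) (nat_lit 0) (nat_lit 9498124070) (nat_lit 5) (nat_lit 5) (nat_lit 7) (nat_lit 4) (nat_lit 5) (nat_lit 4) (nat_lit 331) (nat_lit 277) (nat_lit 172))) (XT.nd (nat_lit 78) (nat_lit 0) (nat_lit 0) (XT.lf (nat_lit 0) (nat_lit 140629424171) (nat_lit 152) (nat_lit 139817932220) (nat_lit 0) (nat_lit 49530976479) (nat_lit 5) (nat_lit 5) (nat_lit 7) (nat_lit 4) (nat_lit 5) (nat_lit 4) (nat_lit 332) (nat_lit 277) (nat_lit 171)) (XT.nd (nat_lit 78) (nat_lit 0) (nat_lit 0) (XT.lf (nat_lit 0) (nat_lit 183865427625) (nat_lit 152) (nat_lit 77761202943) (nat_lit 0) (nat_lit 92765046257) (nat_lit 5) (nat_lit 5) (nat_lit 7) (nat_lit 4) (nat_lit 5) (nat_lit 4) (nat_lit 333) (nat_lit 277) (nat_lit 170)) (XT.lf (nat_lit 0) (nat_lit 230558707109) (nat_lit 152) (nat_lit 10742926964) (nat_lit 0) (nat_lit 139456535301) (nat_lit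 5) (nat_lit 5) (nat_lit 7) (nat_lit 4) (nat_lit 5) (nat_lit 4) (nat_lit 334) (nat_lit 277) (nat_lit 169)))))) (XT.nd (nat_lit 390) (nat_lit 152) (nat_lit 0) (XT.nd (nat_lit 156) (nat_lit 0) (nat_lit 0) (XT.nd (nat_lit 78) (nat_lit 0) (nat_lit 0) (XT.lf (nat_lit 0) (nat_lit 63671940800) (nat_lit 76) (nat_lit 218308120173) (nat_lit 76) (nat_lit 127204290550) (nat_lit 4) (nat_lit 4) (nat_lit 5) (nat_lit 5) (nat_lit 5) (nat_lit 4) (nat_lit 335) (nat_lit 277) (nat_lit 168)) (XT.lf (nat_lit 0) (nat_lit 144420974788) (nat_lit 76) (nat_lit 193279866464) (nat_lit 76) (nat_lit 102174501828) (nat_lit 4) (nat_lit 4) (nat_lit 5) (nat_lit 5) (nat_lit 5) (nat_lit 4) (nat_lit 336) (nat_lit 277) (nat_lit 167))) (XT.nd (nat_lit 78) (nat_lit 0) (nat_lit 0) (XT.lf (nat_lit 0) (nat_lit 231627478111) (nat_lit 76) (nat_lit 166250494036) (nat_lit 76) (nat_lit 75143708090) (nat_lit 4) (nat_lit 4) (nat_lit 5) (nat_lit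 5) (nat_lit 5) (nat_lit 4) (nat_lit 337) (nat_lit 277) (nat_lit 166)) (XT.nd (nat_lit 78) (nat_lit 0) (nat_lit 0) (XT.lf (nat_lit 0) (nat_lit 325808230048) (nat_lit 76) (nat_lit 137059828830) (nat_lit 76) (nat_lit 45951726857) (nat_lit 4) (nat_lit 4) (nat_lit 5) (nat_lit 5) (nat_lit 5) (nat_lit 4) (nat_lit 338) (nat_lit 277) (nat_lit 165)) (XT.lf (nat_lit 0) (nat_lit 427521338758) (nat_lit 76) (nat_lit 105534889125) (nat_lit 76) (nat_lit 14425568609) (nat_lit 4) (nat_lit 4) (nat_lit 5) (nat_lit 5) (nat_lit 5) (nat_lit 4) (nat_lit 339) (nat_lit 277) (nat_lit 164))))) (XT.nd (nat_lit 234) (nat_lit 0) (nat_lit 0) (XT.nd (nat_lit 78) (nat_lit 76) (nat_lit 0) (XT.lf (nat_lit 0) (nat_lit 18993574966) (nat_lit 152) (nat_lit 52173620115) (nat_lit 76) (nat_lit 518054308241) (nat_lit 3) (nat_lit 5) (nat_lit 5) (nat_lit 5) (nat_lit 4) (nat_lit 4) (nat_lit 340) (nat_lit 277) (nat_lit 163)) (XT.nd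 (nat_lit 78) (nat_lit 0) (nat_lit 0) (XT.lf (nat_lit 0) (nat_lit 21478534090) (nat_lit 76) (nat_lit 33443430588) (nat_lit 152) (nat_lit 579349542449) (nat_lit 2) (nat_lit 5) (nat_lit 3) (nat_lit 5) (nat_lit 4) (nat_lit 4) (nat_lit 341) (nat_lit 277) (nat_lit 162)) (XT.lf (nat_lit 0) (nat_lit 94761353015) (nat_lit 152) (nat_lit 580124741489) (nat_lit 0) (nat_lit 7987580805) (nat_lit 2) (nat_lit 5) (nat_lit 4) (nat_lit 4) (nat_lit 2) (nat_lit 4) (nat_lit 342) (nat_lit 277) (nat_lit 161)))) (XT.nd (nat_lit 78) (nat_lit 0) (nat_lit 0) (XT.lf (nat_lit 0) (nat_lit 138350931857) (nat_lit 152) (nat_lit 545408626896) (nat_lit 0) (nat_lit 51576306632) (nat_lit 2) (nat_lit 5) (nat_lit 4) (nat_lit 4) (nat_lit 2) (nat_lit 4) (nat_lit 343) (nat_lit 277) (nat_lit 160)) (XT.nd (nat_lit 78) (nat_lit 0) (nat_lit 0) (XT.lf (nat_lit 0) (nat_lit 185426864143) (nat_lit 152) (nat_lit 507916758458) (nat_lit 0)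 (nat_lit 98651449089) (nat_lit 2) (nat_lit 5) (nat_lit 4) (nat_lit 4) (nat_lit 2) (nat_lit 4) (nat_lit 344) (nat_lit 277) (nat_lit 159)) (XT.lf (nat_lit 0) (nat_lit 236268118361) (nat_lit 152) (nat_lit 467426962141) (nat_lit 0) (nat_lit 149491971984) (nat_lit 2) (nat_lit 5) (nat_lit 4) (nat_lit 4) (nat_lit 2) (nat_lit 4) (nat_lit 345) (nat_lit 277) (nat_lit 158))))))) (XT.nd (nat_lit 36036) (nat_lit 0) (nat_lit 2964) (XT.nd (nat_lit 35646) (nat_lit 0) (nat_lit 5320) (XT.nd (nat_lit 35412) (nat_lit 0) (nat_lit 6232) (XT.nd (nat_lit 35334) (nat_lit 0) (nat_lit 6232) (XT.lf (nat_lit 0) (nat_lit 291175976017) (nat_lit 152) (nat_lit 423699298410) (nat_lit 0) (nat_lit 204399152489) (nat_lit 2) (nat_lit 5) (nat_lit 4) (nat_lit 4) (nat_lit 2) (nat_lit 4) (nat_lit 346) (nat_lit 277) (nat_lit 157)) (XT.lf (nat_lit 0) (nat_lit 2253433918) (nat_lit 0) (nat_lit 2253433918) (nat_lit 684) (nat_lit 3751431238)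 (nat_lit 84) (nat_lit 5) (nat_lit 84) (nat_lit 3) (nat_lit 93) (nat_lit 3) (nat_lit 278) (nat_lit 278) (nat_lit 224))) (XT.nd (nat_lit 78) (nat_lit 0) (nat_lit 76) (XT.lf (nat_lit 0) (nat_lit 9844696756) (nat_lit 684) (nat_lit 314113918) (nat_lit 760) (nat_lit 6994100132) (nat_lit 84) (nat_lit 5) (nat_lit 93) (nat_lit 3) (nat_lit 94) (nat_lit 5) (nat_lit 279) (nat_lit 278) (nat_lit 223)) (XT.nd (nat_lit 78) (nat_lit 0) (nat_lit 0) (XT.lf (nat_lit 0) (nat_lit 11005435492) (nat_lit 684) (nat_lit 5228818217) (nat_lit 760) (nat_lit 1592792836) (nat_lit 85) (nat_lit 5) (nat_lit 94) (nat_lit 5) (nat_lit 95) (nat_lit 5) (nat_lit 280) (nat_lit 278) (nat_lit 222)) (XT.lf (nat_lit 76) (nat_lit 8065575213) (nat_lit 0) (nat_lit 4463292327) (nat_lit 760) (nat_lit 6012830846) (nat_lit 86) (nat_lit 5) (nat_lit 85) (nat_lit 5) (nat_lit 95) (nat_lit 5) (nat_lit 281) (nat_lit 278) (nat_lit 221))))) (XT.nd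 (nat_lit 156) (nat_lit 1064) (nat_lit 0) (XT.nd (nat_lit 78) (nat_lit 0) (nat_lit 76) (XT.lf (nat_lit 76) (nat_lit 3253119523) (nat_lit 0) (nat_lit 11162557701) (nat_lit 760) (nat_lit 4885841247) (nat_lit 87) (nat_lit 5) (nat_lit 86) (nat_lit 5) (nat_lit 96) (nat_lit 5) (nat_lit 282) (nat_lit 278) (nat_lit 220)) (XT.lf (nat_lit 0) (nat_lit 16707396591) (nat_lit 684) (nat_lit 1780922269) (nat_lit 760) (nat_lit 1621173034) (nat_lit 87) (nat_lit 5) (nat_lit 96) (nat_lit 5) (nat_lit 97) (nat_lit 5) (nat_lit 283) (nat_lit 278) (nat_lit 219))) (XT.nd (nat_lit 78) (nat_lit 1140) (nat_lit 0) (XT.lf (nat_lit 76) (nat_lit 13862444219) (nat_lit 0) (nat_lit 5698184477) (nat_lit 760) (nat_lit 1402626821) (nat_lit 88) (nat_lit 5) (nat_lit 87) (nat_lit 5) (nat_lit 97) (nat_lit 5) (nat_lit 284) (nat_lit 278) (nat_lit 218)) (XT.nd (nat_lit 78) (nat_lit 456) (nat_lit 0) (XT.lf (nat_lit 0) (nat_lit 1012259933)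 (nat_lit 760) (nat_lit 12808890881) (nat_lit 76) (nat_lit 8049648343) (nat_lit 78) (nat_lit 5) (nat_lit 88) (nat_lit 5) (nat_lit 79) (nat_lit 5) (nat_lit 285) (nat_lit 278) (nat_lit 217)) (XT.lf (nat_lit 0) (nat_lit 3832212473) (nat_lit 532) (nat_lit 18929613678) (nat_lit 76) (nat_lit 74969518) (nat_lit 72) (nat_lit 5) (nat_lit 79) (nat_lit 5) (nat_lit 73) (nat_lit 5) (nat_lit 286) (nat_lit 278) (nat_lit 216)))))) (XT.nd (nat_lit 390) (nat_lit 1368) (nat_lit 0) (XT.nd (nat_lit 156) (nat_lit 608) (nat_lit 0) (XT.nd (nat_lit 78) (nat_lit 380) (nat_lit 0) (XT.lf (nat_lit 0) (nat_lit 7315381903) (nat_lit 532) (nat_lit 1709275063) (nat_lit 76) (nat_lit 14833580087) (nat_lit 72) (nat_lit 5) (nat_lit 79) (nat_lit 5) (nat_lit 73) (nat_lit 5) (nat_lit 287) (nat_lit 278) (nat_lit 215)) (XT.lf (nat_lit 0) (nat_lit 11423919000) (nat_lit 456) (nat_lit 7617611967) (nat_lit 76) (nat_lit 5902569838) (nat_lit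 67) (nat_lit 5) (nat_lit 73) (nat_lit 5) (nat_lit 68) (nat_lit 5) (nat_lit 288) (nat_lit 278) (nat_lit 214))) (XT.nd (nat_lit 78) (nat_lit 304) (nat_lit 0) (XT.lf (nat_lit 0) (nat_lit 12043477549) (nat_lit 304) (nat_lit 4168792386) (nat_lit 380) (nat_lit 9887046773) (nat_lit 63) (nat_lit 5) (nat_lit 67) (nat_lit 5) (nat_lit 68) (nat_lit 5) (nat_lit 289) (nat_lit 278) (nat_lit 213)) (XT.nd (nat_lit 78) (nat_lit 0) (nat_lit 0) (XT.lf (nat_lit 0) (nat_lit 6199524091) (nat_lit 304) (nat_lit 15583299801) (nat_lit 380) (nat_lit 5544205906) (nat_lit 59) (nat_lit 5) (nat_lit 63) (nat_lit 5) (nat_lit 64) (nat_lit 5) (nat_lit 290) (nat_lit 278) (nat_lit 212)) (XT.lf (nat_lit 0) (nat_lit 28101933091) (nat_lit 380) (nat_lit 158917885) (nat_lit 76) (nat_lit 376997360) (nat_lit 59) (nat_lit 5) (nat_lit 64) (nat_lit 5) (nat_lit 60) (nat_lit 5) (nat_lit 291) (nat_lit 278) (nat_lit 211))))) (XT.nd (nat_lit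 234) (nat_lit 532) (nat_lit 0) (XT.nd (nat_lit 78) (nat_lit 532) (nat_lit 0) (XT.lf (nat_lit 0) (nat_lit 5331946134) (nat_lit 304) (nat_lit 7169376281) (nat_lit 76) (nat_lit 17517692030) (nat_lit 55) (nat_lit 5) (nat_lit 59) (nat_lit 5) (nat_lit 56) (nat_lit 5) (nat_lit 292) (nat_lit 278) (nat_lit 210)) (XT.nd (nat_lit 78) (nat_lit 228) (nat_lit 0) (XT.lf (nat_lit 0) (nat_lit 11973944838) (nat_lit 380) (nat_lit 14871736235) (nat_lit 76) (nat_lit 4648407001) (nat_lit 51) (nat_lit 5) (nat_lit 56) (nat_lit 5) (nat_lit 52) (nat_lit 5) (nat_lit 293) (nat_lit 278) (nat_lit 209)) (XT.lf (nat_lit 0) (nat_lit 9567592074) (nat_lit 228) (nat_lit 10052321064) (nat_lit 304) (nat_lit 13443649633) (nat_lit 48) (nat_lit 5) (nat_lit 51) (nat_lit 5) (nat_lit 52) (nat_lit 5) (nat_lit 294) (nat_lit 278) (nat_lit 208)))) (XT.nd (nat_lit 78) (nat_lit 304) (nat_lit 0) (XT.lf (nat_lit 0) (nat_lit 1651733041)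 (nat_lit 228) (nat_lit 26627384158) (nat_lit 304) (nat_lit 6459424095) (nat_lit 45) (nat_lit 5) (nat_lit 48) (nat_lit 5) (nat_lit 49) (nat_lit 5) (nat_lit 295) (nat_lit 278) (nat_lit 207)) (XT.nd (nat_lit 78) (nat_lit 228) (nat_lit 0) (XT.lf (nat_lit 0) (nat_lit 1621112835) (nat_lit 304) (nat_lit 7087717286) (nat_lit 76) (nat_lit 27809250408) (nat_lit 44) (nat_lit 5) (nat_lit 48) (nat_lit 5) (nat_lit 45) (nat_lit 5) (nat_lit 296) (nat_lit 278) (nat_lit 206)) (XT.lf (nat_lit 0) (nat_lit 10622504175) (nat_lit 304) (nat_lit 17035948033) (nat_lit 76) (nat_lit 10751219579) (nat_lit 41) (nat_lit 5) (nat_lit 45) (nat_lit 5) (nat_lit 42) (nat_lit 5) (nat_lit 297) (nat_lit 278) (nat_lit 205))))))))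
noncomputable def xc82 : XT := (XT.nd (nat_lit 1638) (nat_lit 608) (nat_lit 0) (XT.nd (nat_lit 780) (nat_lit 836) (nat_lit 0) (XT.nd (nat_lit 390) (nat_lit 532) (nat_lit 0) (XT.nd (nat_lit 156) (nat_lit 456) (nat_lit 0) (XT.nd (nat_lit 78) (nat_lit 152) (nat_lit 0) (XT.lf (nat_lit 0) (nat_lit 12142200466) (nat_lit 228) (nat_lit 8652050226) (nat_lit 304) (nat_lit 19635845426) (nat_lit 38) (nat_lit 5) (nat_lit 41) (nat_lit 5) (nat_lit 42) (nat_lit 5) (nat_lit 298) (nat_lit 278) (nat_lit 204)) (XT.lf (nat_lit 0) (nat_lit 1507511041) (nat_lit 152) (nat_lit 30771667225) (nat_lit 228) (nat_lit 10308020697) (nat_lit 36) (nat_lit 5) (nat_lit 38) (nat_lit 5) (nat_lit 39) (nat_lit 5) (nat_lit 299) (nat_lit 278) (nat_lit 203))) (XT.nd (nat_lit 78) (nat_lit 380) (nat_lit 0) (XT.lf (nat_lit 0) (nat_lit 409522883) (nat_lit 228) (nat_lit 10361620271) (nat_lit 76) (nat_lit 34114123980) (nat_lit 35) (nat_lit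 5) (nat_lit 38) (nat_lit 5) (nat_lit 36) (nat_lit 5) (nat_lit 300) (nat_lit 278) (nat_lit 202)) (XT.nd (nat_lit 78) (nat_lit 152) (nat_lit 0) (XT.lf (nat_lit 0) (nat_lit 12160992760) (nat_lit 304) (nat_lit 24145015940) (nat_lit 76) (nat_lit 11025853162) (nat_lit 32) (nat_lit 5) (nat_lit 36) (nat_lit 5) (nat_lit 33) (nat_lit 5) (nat_lit 301) (nat_lit 278) (nat_lit 201)) (XT.lf (nat_lit 0) (nat_lit 9943324478) (nat_lit 152) (nat_lit 15420091740) (nat_lit 228) (nat_lit 24585238727) (nat_lit 30) (nat_lit 5) (nat_lit 32) (nat_lit 5) (nat_lit 33) (nat_lit 5) (nat_lit 302) (nat_lit 278) (nat_lit 200))))) (XT.nd (nat_lit 156) (nat_lit 304) (nat_lit 0) (XT.nd (nat_lit 78) (nat_lit 228) (nat_lit 0) (XT.lf (nat_lit 0) (nat_lit 40151875980) (nat_lit 228) (nat_lit 5265283581) (nat_lit 76) (nat_lit 7331151438) (nat_lit 30) (nat_lit 5) (nat_lit 33) (nat_lit 5) (nat_lit 31) (nat_lit 5) (nat_lit 303) (nat_lit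 278) (nat_lit 199)) (XT.lf (nat_lit 0) (nat_lit 1120230003) (nat_lit 228) (nat_lit 22713356878) (nat_lit 76) (nat_lit 31899088232) (nat_lit 27) (nat_lit 5) (nat_lit 30) (nat_lit 5) (nat_lit 28) (nat_lit 5) (nat_lit 304) (nat_lit 278) (nat_lit 198))) (XT.nd (nat_lit 78) (nat_lit 152) (nat_lit 0) (XT.lf (nat_lit 0) (nat_lit 15832767392) (nat_lit 228) (nat_lit 43044128734) (nat_lit 76) (nat_lit 51583949) (nat_lit 25) (nat_lit 5) (nat_lit 28) (nat_lit 5) (nat_lit 26) (nat_lit 5) (nat_lit 305) (nat_lit 278) (nat_lit 197)) (XT.nd (nat_lit 78) (nat_lit 152) (nat_lit 0) (XT.lf (nat_lit 0) (nat_lit 32518552736) (nat_lit 228) (nat_lit 4400140392) (nat_lit 76) (nat_lit 25421452861) (nat_lit 25) (nat_lit 5) (nat_lit 28) (nat_lit 5) (nat_lit 26) (nat_lit 5) (nat_lit 306) (nat_lit 278) (nat_lit 196)) (XT.lf (nat_lit 0) (nat_lit 38557816732) (nat_lit 152) (nat_lit 12576184413) (nat_lit 228) (nat_lit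 14861012173) (nat_lit 23) (nat_lit 5) (nat_lit 25) (nat_lit 5) (nat_lit 26) (nat_lit 5) (nat_lit 307) (nat_lit 278) (nat_lit 195)))))) (XT.nd (nat_lit 390) (nat_lit 456) (nat_lit 0) (XT.nd (nat_lit 156) (nat_lit 228) (nat_lit 0) (XT.nd (nat_lit 78) (nat_lit 0) (nat_lit 0) (XT.lf (nat_lit 0) (nat_lit 1789687915) (nat_lit 152) (nat_lit 54506392895) (nat_lit 76) (nat_lit 13618446080) (nat_lit 21) (nat_lit 5) (nat_lit 23) (nat_lit 5) (nat_lit 22) (nat_lit 5) (nat_lit 308) (nat_lit 278) (nat_lit 194)) (XT.lf (nat_lit 0) (nat_lit 19949901125) (nat_lit 152) (nat_lit 11944465253) (nat_lit 76) (nat_lit 42206154940) (nat_lit 21) (nat_lit 5) (nat_lit 23) (nat_lit 5) (nat_lit 22) (nat_lit 5) (nat_lit 309) (nat_lit 278) (nat_lit 193))) (XT.nd (nat_lit 78) (nat_lit 76) (nat_lit 0) (XT.lf (nat_lit 0) (nat_lit 35136687083) (nat_lit 152) (nat_lit 4968644216) (nat_lit 228) (nat_lit 38488950170) (nat_lit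 19) (nat_lit 5) (nat_lit 21) (nat_lit 5) (nat_lit 22) (nat_lit 5) (nat_lit 310) (nat_lit 278) (nat_lit 192)) (XT.nd (nat_lit 78) (nat_lit 0) (nat_lit 0) (XT.lf (nat_lit 0) (nat_lit 2669191353) (nat_lit 76) (nat_lit 59827655410) (nat_lit 152) (nat_lit 20919518829) (nat_lit 18) (nat_lit 5) (nat_lit 19) (nat_lit 5) (nat_lit 20) (nat_lit 4) (nat_lit 311) (nat_lit 278) (nat_lit 191)) (XT.lf (nat_lit 0) (nat_lit 53941753931) (nat_lit 76) (nat_lit 33571710111) (nat_lit 152) (nat_lit 1069068661) (nat_lit 18) (nat_lit 5) (nat_lit 19) (nat_lit 5) (nat_lit 20) (nat_lit 4) (nat_lit 312) (nat_lit 278) (nat_lit 190))))) (XT.nd (nat_lit 234) (nat_lit 152) (nat_lit 0) (XT.nd (nat_lit 78) (nat_lit 76) (nat_lit 0) (XT.lf (nat_lit 0) (nat_lit 15317214818) (nat_lit 152) (nat_lit 4634075105) (nat_lit 228) (nat_lit 74183115685) (nat_lit 15) (nat_lit 5) (nat_lit 17) (nat_lit 5) (nat_lit 18) (nat_lit 5) (nat_lit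 313) (nat_lit 278) (nat_lit 189)) (XT.nd (nat_lit 78) (nat_lit 76) (nat_lit 0) (XT.lf (nat_lit 0) (nat_lit 43640102479) (nat_lit 228) (nat_lit 30043847029) (nat_lit 76) (nat_lit 26394392852) (nat_lit 15) (nat_lit 5) (nat_lit 18) (nat_lit 5) (nat_lit 16) (nat_lit 4) (nat_lit 314) (nat_lit 278) (nat_lit 188)) (XT.lf (nat_lit 0) (nat_lit 23290385695) (nat_lit 76) (nat_lit 46370657870) (nat_lit 152) (nat_lit 36814903308) (nat_lit 14) (nat_lit 5) (nat_lit 15) (nat_lit 5) (nat_lit 16) (nat_lit 4) (nat_lit 315) (nat_lit 278) (nat_lit 187)))) (XT.nd (nat_lit 78) (nat_lit 152) (nat_lit 0) (XT.lf (nat_lit 0) (nat_lit 81956295489) (nat_lit 76) (nat_lit 16326193009) (nat_lit 152) (nat_lit 15076933520) (nat_lit 14) (nat_lit 5) (nat_lit 15) (nat_lit 5) (nat_lit 16) (nat_lit 4) (nat_lit 316) (nat_lit 278) (nat_lit 186)) (XT.nd (nat_lit 78) (nat_lit 0) (nat_lit 0) (XT.lf (nat_lit 0) (nat_lit 8780498298)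 (nat_lit 152) (nat_lit 95838323040) (nat_lit 76) (nat_lit 16135735698) (nat_lit 12) (nat_lit 5) (nat_lit 14) (nat_lit 5) (nat_lit 13) (nat_lit 4) (nat_lit 317) (nat_lit 278) (nat_lit 185)) (XT.lf (nat_lit 0) (nat_lit 34852545157) (nat_lit 152) (nat_lit 42397201803) (nat_lit 76) (nat_lit 51437488636) (nat_lit 12) (nat_lit 5) (nat_lit 14) (nat_lit 5) (nat_lit 13) (nat_lit 4) (nat_lit 318) (nat_lit 278) (nat_lit 184))))))) (XT.nd (nat_lit 780) (nat_lit 228) (nat_lit 0) (XT.nd (nat_lit 390) (nat_lit 152) (nat_lit 0) (XT.nd (nat_lit 156) (nat_lit 152) (nat_lit 0) (XT.nd (nat_lit 78) (nat_lit 0) (nat_lit 0) (XT.lf (nat_lit 0) (nat_lit 15818741650) (nat_lit 76) (nat_lit 47434794361) (nat_lit 152) (nat_lit 73988836211) (nat_lit 11) (nat_lit 5) (nat_lit 12) (nat_lit 5) (nat_lit 13) (nat_lit 4) (nat_lit 319) (nat_lit 278) (nat_lit 183)) (XT.lf (nat_lit 0) (nat_lit 80199479018) (nat_lit 76) (nat_lit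 14462044417) (nat_lit 152) (nat_lit 51783653069) (nat_lit 11) (nat_lit 5) (nat_lit 12) (nat_lit 5) (nat_lit 13) (nat_lit 4) (nat_lit 320) (nat_lit 278) (nat_lit 182))) (XT.nd (nat_lit 78) (nat_lit 152) (nat_lit 0) (XT.lf (nat_lit 0) (nat_lit 128908949444) (nat_lit 152) (nat_lit 6989838497) (nat_lit 0) (nat_lit 20469079605) (nat_lit 11) (nat_lit 5) (nat_lit 13) (nat_lit 4) (nat_lit 11) (nat_lit 4) (nat_lit 321) (nat_lit 278) (nat_lit 181)) (XT.nd (nat_lit 78) (nat_lit 0) (nat_lit 0) (XT.lf (nat_lit 0) (nat_lit 24931041) (nat_lit 152) (nat_lit 108393363766) (nat_lit 76) (nat_lit 58608253469) (nat_lit 9) (nat_lit 5) (nat_lit 11) (nat_lit 5) (nat_lit 10) (nat_lit 4) (nat_lit 322) (nat_lit 278) (nat_lit 180)) (XT.lf (nat_lit 0) (nat_lit 28879036783) (nat_lit 152) (nat_lit 49246708627) (nat_lit 76) (nat_lit 100382993930) (nat_lit 9) (nat_lit 5) (nat_lit 11) (nat_lit 5) (nat_lit 10) (nat_lit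 4) (nat_lit 323) (nat_lit 278) (nat_lit 179))))) (XT.nd (nat_lit 156) (nat_lit 76) (nat_lit 0) (XT.nd (nat_lit 78) (nat_lit 0) (nat_lit 0) (XT.lf (nat_lit 0) (nat_lit 15110184594) (nat_lit 76) (nat_lit 45164383495) (nat_lit 152) (nat_lit 130623284559) (nat_lit 8) (nat_lit 5) (nat_lit 9) (nat_lit 5) (nat_lit 10) (nat_lit 4) (nat_lit 324) (nat_lit 278) (nat_lit 178)) (XT.lf (nat_lit 0) (nat_lit 86369321029) (nat_lit 76) (nat_lit 8667583692) (nat_lit 152) (nat_lit 109198433835) (nat_lit 8) (nat_lit 5) (nat_lit 9) (nat_lit 5) (nat_lit 10) (nat_lit 4) (nat_lit 325) (nat_lit 278) (nat_lit 177))) (XT.nd (nat_lit 78) (nat_lit 76) (nat_lit 0) (XT.lf (nat_lit 0) (nat_lit 133057789465) (nat_lit 152) (nat_lit 55795336163) (nat_lit 0) (nat_lit 29762821205) (nat_lit 8) (nat_lit 5) (nat_lit 10) (nat_lit 4) (nat_lit 8) (nat_lit 4) (nat_lit 326) (nat_lit 278) (nat_lit 176)) (XT.nd (nat_lit 78) (nat_lit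 0) (nat_lit 0) (XT.lf (nat_lit 0) (nat_lit 11457271391) (nat_lit 76) (nat_lit 162985775134) (nat_lit 76) (nat_lit 59687823610) (nat_lit 7) (nat_lit 4) (nat_lit 8) (nat_lit 5) (nat_lit 8) (nat_lit 4) (nat_lit 327) (nat_lit 278) (nat_lit 175)) (XT.lf (nat_lit 0) (nat_lit 86078425803) (nat_lit 76) (nat_lit 134030395878) (nat_lit 76) (nat_lit 30729682074) (nat_lit 7) (nat_lit 4) (nat_lit 8) (nat_lit 5) (nat_lit 8) (nat_lit 4) (nat_lit 328) (nat_lit 278) (nat_lit 174)))))) (XT.nd (nat_lit 390) (nat_lit 76) (nat_lit 0) (XT.nd (nat_lit 156) (nat_lit 76) (nat_lit 0) (XT.nd (nat_lit 78) (nat_lit 0) (nat_lit 0) (XT.lf (nat_lit 0) (nat_lit 525572233) (nat_lit 152) (nat_lit 102225848393) (nat_lit 76) (nat_lit 166131007659) (nat_lit 6) (nat_lit 5) (nat_lit 8) (nat_lit 5) (nat_lit 7) (nat_lit 4) (nat_lit 329) (nat_lit 278) (nat_lit 173)) (XT.lf (nat_lit 0) (nat_lit 33217085142) (nat_lit 152) (nat_lit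 35210615141) (nat_lit 76) (nat_lit 219916356487) (nat_lit 6) (nat_lit 5) (nat_lit 8) (nat_lit 5) (nat_lit 7) (nat_lit 4) (nat_lit 330) (nat_lit 278) (nat_lit 172))) (XT.nd (nat_lit 78) (nat_lit 0) (nat_lit 0) (XT.lf (nat_lit 0) (nat_lit 38391286493) (nat_lit 76) (nat_lit 30730234952) (nat_lit 152) (nat_lit 240211214978) (nat_lit 5) (nat_lit 5) (nat_lit 6) (nat_lit 5) (nat_lit 7) (nat_lit 4) (nat_lit 331) (nat_lit 278) (nat_lit 171)) (XT.nd (nat_lit 78) (nat_lit 0) (nat_lit 0) (XT.lf (nat_lit 0) (nat_lit 108675844160) (nat_lit 152) (nat_lit 213000292037) (nat_lit 0) (nat_lit 10285498608) (nat_lit 5) (nat_lit 5) (nat_lit 7) (nat_lit 4) (nat_lit 5) (nat_lit 4) (nat_lit 332) (nat_lit 278) (nat_lit 170)) (XT.lf (nat_lit 0) (nat_lit 151911076342) (nat_lit 152) (nat_lit 150945001049) (nat_lit 0) (nat_lit 53518940349) (nat_lit 5) (nat_lit 5) (nat_lit 7) (nat_lit 4) (nat_lit 5) (nat_lit 4) (nat_lit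 333) (nat_lit 278) (nat_lit 169))))) (XT.nd (nat_lit 234) (nat_lit 0) (nat_lit 0) (XT.nd (nat_lit 78) (nat_lit 76) (nat_lit 0) (XT.lf (nat_lit 0) (nat_lit 198603641684) (nat_lit 152) (nat_lit 83928056818) (nat_lit 0) (nat_lit 100209847877) (nat_lit 5) (nat_lit 5) (nat_lit 7) (nat_lit 4) (nat_lit 5) (nat_lit 4) (nat_lit 334) (nat_lit 278) (nat_lit 168)) (XT.nd (nat_lit 78) (nat_lit 76) (nat_lit 0) (XT.lf (nat_lit 0) (nat_lit 249030236871) (nat_lit 152) (nat_lit 11552321899) (nat_lit 0) (nat_lit 150634908049) (nat_lit 5) (nat_lit 5) (nat_lit 7) (nat_lit 4) (nat_lit 5) (nat_lit 4) (nat_lit 335) (nat_lit 278) (nat_lit 167)) (XT.lf (nat_lit 0) (nat_lit 68813560643) (nat_lit 76) (nat_lit 235750498058) (nat_lit 76) (nat_lit 137353747927) (nat_lit 4) (nat_lit 4) (nat_lit 5) (nat_lit 5) (nat_lit 5) (nat_lit 4) (nat_lit 336) (nat_lit 278) (nat_lit 166)))) (XT.nd (nat_lit 78) (nat_lit 0) (nat_lit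 0) (XT.lf (nat_lit 0) (nat_lit 156018971825) (nat_lit 76) (nat_lit 208721633811) (nat_lit 76) (nat_lit 110323567653) (nat_lit 4) (nat_lit 4) (nat_lit 5) (nat_lit 5) (nat_lit 5) (nat_lit 4) (nat_lit 337) (nat_lit 278) (nat_lit 165)) (XT.nd (nat_lit 78) (nat_lit 0) (nat_lit 0) (XT.lf (nat_lit 0) (nat_lit 250198712521) (nat_lit 76) (nat_lit 179531439142) (nat_lit 76) (nat_lit 81132154441) (nat_lit 4) (nat_lit 4) (nat_lit 5) (nat_lit 5) (nat_lit 5) (nat_lit 4) (nat_lit 338) (nat_lit 278) (nat_lit 164)) (XT.lf (nat_lit 0) (nat_lit 351910884897) (nat_lit 76) (nat_lit 148006935120) (nat_lit 76) (nat_lit 49606522138) (nat_lit 4) (nat_lit 4) (nat_lit 5) (nat_lit 5) (nat_lit 5) (nat_lit 4) (nat_lit 339) (nat_lit 278) (nat_lit 163))))))))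
noncomputable def xc83 : XT := (XT.nd (nat_lit 36972) (nat_lit 0) (nat_lit 988) (XT.nd (nat_lit 36114) (nat_lit 0) (nat_lit 4104) (XT.nd (nat_lit 390) (nat_lit 0) (nat_lit 0) (XT.nd (nat_lit 156) (nat_lit 76) (nat_lit 0) (XT.nd (nat_lit 78) (nat_lit 76) (nat_lit 0) (XT.lf (nat_lit 0) (nat_lit 461758227753) (nat_lit 76) (nat_lit 113961309869) (nat_lit 76) (nat_lit 15559852183) (nat_lit 4) (nat_lit 4) (nat_lit 5) (nat_lit 5) (nat_lit 5) (nat_lit 4) (nat_lit 340) (nat_lit 278) (nat_lit 162)) (XT.lf (nat_lit 0) (nat_lit 20530773380) (nat_lit 152) (nat_lit 56314339576) (nat_lit 76) (nat_lit 559513216343) (nat_lit 3) (nat_lit 5) (nat_lit 5) (nat_lit 5) (nat_lit 4) (nat_lit 4) (nat_lit 341) (nat_lit 278) (nat_lit 161))) (XT.nd (nat_lit 78) (nat_lit 0) (nat_lit 0) (XT.lf (nat_lit 0) (nat_lit 23228545432) (nat_lit 76) (nat_lit 36104072178) (nat_lit 152) (nat_lit 625679757272) (nat_lit 2) (nat_lit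 5) (nat_lit 3) (nat_lit 5) (nat_lit 4) (nat_lit 4) (nat_lit 342) (nat_lit 278) (nat_lit 160)) (XT.nd (nat_lit 78) (nat_lit 0) (nat_lit 0) (XT.lf (nat_lit 0) (nat_lit 102358119905) (nat_lit 152) (nat_lit 626504767246) (nat_lit 0) (nat_lit 8639881818) (nat_lit 2) (nat_lit 5) (nat_lit 4) (nat_lit 4) (nat_lit 2) (nat_lit 4) (nat_lit 343) (nat_lit 278) (nat_lit 159)) (XT.lf (nat_lit 0) (nat_lit 149433690340) (nat_lit 152) (nat_lit 589013582268) (nat_lit 0) (nat_lit 55714720930) (nat_lit 2) (nat_lit 5) (nat_lit 4) (nat_lit 4) (nat_lit 2) (nat_lit 4) (nat_lit 344) (nat_lit 278) (nat_lit 158))))) (XT.nd (nat_lit 35490) (nat_lit 0) (nat_lit 6232) (XT.nd (nat_lit 78) (nat_lit 0) (nat_lit 0) (XT.lf (nat_lit 0) (nat_lit 200274609510) (nat_lit 152) (nat_lit 548524418783) (nat_lit 0) (nat_lit 106554962949) (nat_lit 2) (nat_lit 5) (nat_lit 4) (nat_lit 4) (nat_lit 2) (nat_lit 4) (nat_lit 345) (nat_lit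 278) (nat_lit 157)) (XT.lf (nat_lit 0) (nat_lit 255182156937) (nat_lit 152) (nat_lit 504797341009) (nat_lit 0) (nat_lit 161461883384) (nat_lit 2) (nat_lit 5) (nat_lit 4) (nat_lit 4) (nat_lit 2) (nat_lit 4) (nat_lit 346) (nat_lit 278) (nat_lit 156))) (XT.nd (nat_lit 78) (nat_lit 0) (nat_lit 0) (XT.lf (nat_lit 0) (nat_lit 2608210238) (nat_lit 0) (nat_lit 2608210238) (nat_lit 684) (nat_lit 3684281654) (nat_lit 84) (nat_lit 5) (nat_lit 84) (nat_lit 3) (nat_lit 93) (nat_lit 3) (nat_lit 279) (nat_lit 279) (nat_lit 222)) (XT.nd (nat_lit 78) (nat_lit 0) (nat_lit 76) (XT.lf (nat_lit 76) (nat_lit 23522683) (nat_lit 0) (nat_lit 11250374021) (nat_lit 760) (nat_lit 7217664444) (nat_lit 85) (nat_lit 5) (nat_lit 84) (nat_lit 5) (nat_lit 94) (nat_lit 5) (nat_lit 280) (nat_lit 279) (nat_lit 221)) (XT.lf (nat_lit 0) (nat_lit 12481084968) (nat_lit 684) (nat_lit 5265547016) (nat_lit 760) (nat_lit 1475427450)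 (nat_lit 85) (nat_lit 5) (nat_lit 94) (nat_lit 5) (nat_lit 95) (nat_lit 5) (nat_lit 281) (nat_lit 279) (nat_lit 220)))))) (XT.nd (nat_lit 390) (nat_lit 1672) (nat_lit 0) (XT.nd (nat_lit 156) (nat_lit 532) (nat_lit 0) (XT.nd (nat_lit 78) (nat_lit 0) (nat_lit 76) (XT.lf (nat_lit 76) (nat_lit 9075815032) (nat_lit 0) (nat_lit 5012185150) (nat_lit 760) (nat_lit 5907905779) (nat_lit 86) (nat_lit 5) (nat_lit 85) (nat_lit 5) (nat_lit 95) (nat_lit 5) (nat_lit 282) (nat_lit 279) (nat_lit 219)) (XT.lf (nat_lit 76) (nat_lit 3893227953) (nat_lit 0) (nat_lit 12194438041) (nat_lit 760) (nat_lit 4730845436) (nat_lit 87) (nat_lit 5) (nat_lit 86) (nat_lit 5) (nat_lit 96) (nat_lit 5) (nat_lit 283) (nat_lit 279) (nat_lit 218))) (XT.nd (nat_lit 78) (nat_lit 684) (nat_lit 0) (XT.lf (nat_lit 0) (nat_lit 18522290495) (nat_lit 684) (nat_lit 1544548249) (nat_lit 760) (nat_lit 1626393883) (nat_lit 87) (nat_lit 5)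 (nat_lit 96) (nat_lit 5) (nat_lit 97) (nat_lit 5) (nat_lit 284) (nat_lit 279) (nat_lit 217)) (XT.nd (nat_lit 78) (nat_lit 684) (nat_lit 0) (XT.lf (nat_lit 76) (nat_lit 15333823295) (nat_lit 0) (nat_lit 6240185906) (nat_lit 760) (nat_lit 1042858480) (nat_lit 88) (nat_lit 5) (nat_lit 87) (nat_lit 5) (nat_lit 97) (nat_lit 5) (nat_lit 285) (nat_lit 279) (nat_lit 216)) (XT.lf (nat_lit 0) (nat_lit 1520881792) (nat_lit 760) (nat_lit 13448210801) (nat_lit 76) (nat_lit 8629087414) (nat_lit 78) (nat_lit 5) (nat_lit 88) (nat_lit 5) (nat_lit 79) (nat_lit 5) (nat_lit 286) (nat_lit 279) (nat_lit 215))))) (XT.nd (nat_lit 234) (nat_lit 836) (nat_lit 0) (XT.nd (nat_lit 78) (nat_lit 380) (nat_lit 0) (XT.lf (nat_lit 0) (nat_lit 4539992544) (nat_lit 532) (nat_lit 20053903378) (nat_lit 76) (nat_lit 48948961) (nat_lit 72) (nat_lit 5) (nat_lit 79) (nat_lit 5) (nat_lit 73) (nat_lit 5) (nat_lit 287) (nat_lit 279)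 (nat_lit 214)) (XT.nd (nat_lit 78) (nat_lit 380) (nat_lit 0) (XT.lf (nat_lit 0) (nat_lit 8272096782) (nat_lit 532) (nat_lit 1484832443) (nat_lit 76) (nat_lit 15990620088) (nat_lit 72) (nat_lit 5) (nat_lit 79) (nat_lit 5) (nat_lit 73) (nat_lit 5) (nat_lit 288) (nat_lit 279) (nat_lit 213)) (XT.lf (nat_lit 0) (nat_lit 12687133056) (nat_lit 456) (nat_lit 7863289158) (nat_lit 76) (nat_lit 6371026362) (nat_lit 67) (nat_lit 5) (nat_lit 73) (nat_lit 5) (nat_lit 68) (nat_lit 5) (nat_lit 289) (nat_lit 279) (nat_lit 212)))) (XT.nd (nat_lit 78) (nat_lit 532) (nat_lit 0) (XT.lf (nat_lit 0) (nat_lit 13354880181) (nat_lit 304) (nat_lit 4483229847) (nat_lit 380) (nat_lit 10332046808) (nat_lit 63) (nat_lit 5) (nat_lit 67) (nat_lit 5) (nat_lit 68) (nat_lit 5) (nat_lit 290) (nat_lit 279) (nat_lit 211)) (XT.nd (nat_lit 78) (nat_lit 228) (nat_lit 0) (XT.lf (nat_lit 0) (nat_lit 7044367175) (nat_lit 304) (nat_lit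 16791303873) (nat_lit 380) (nat_lit 5661396847) (nat_lit 59) (nat_lit 5) (nat_lit 63) (nat_lit 5) (nat_lit 64) (nat_lit 5) (nat_lit 291) (nat_lit 279) (nat_lit 210)) (XT.lf (nat_lit 0) (nat_lit 171259172) (nat_lit 228) (nat_lit 30469303174) (nat_lit 304) (nat_lit 273222325) (nat_lit 56) (nat_lit 5) (nat_lit 59) (nat_lit 5) (nat_lit 60) (nat_lit 5) (nat_lit 292) (nat_lit 279) (nat_lit 209))))))) (XT.nd (nat_lit 858) (nat_lit 1140) (nat_lit 0) (XT.nd (nat_lit 390) (nat_lit 1064) (nat_lit 0) (XT.nd (nat_lit 156) (nat_lit 532) (nat_lit 0) (XT.nd (nat_lit 78) (nat_lit 304) (nat_lit 0) (XT.lf (nat_lit 0) (nat_lit 6034983069) (nat_lit 304) (nat_lit 7410538222) (nat_lit 76) (nat_lit 18960689541) (nat_lit 55) (nat_lit 5) (nat_lit 59) (nat_lit 5) (nat_lit 56) (nat_lit 5) (nat_lit 293) (nat_lit 279) (nat_lit 208)) (XT.lf (nat_lit 0) (nat_lit 13193715141) (nat_lit 380) (nat_lit 15730909867) (nat_lit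 76) (nat_lit 5075433758) (nat_lit 51) (nat_lit 5) (nat_lit 56) (nat_lit 5) (nat_lit 52) (nat_lit 5) (nat_lit 294) (nat_lit 279) (nat_lit 207))) (XT.nd (nat_lit 78) (nat_lit 304) (nat_lit 0) (XT.lf (nat_lit 0) (nat_lit 10649198744) (nat_lit 228) (nat_lit 10787702274) (nat_lit 304) (nat_lit 14258947758) (nat_lit 48) (nat_lit 5) (nat_lit 51) (nat_lit 5) (nat_lit 52) (nat_lit 5) (nat_lit 295) (nat_lit 279) (nat_lit 206)) (XT.nd (nat_lit 78) (nat_lit 76) (nat_lit 0) (XT.lf (nat_lit 0) (nat_lit 2097544592) (nat_lit 228) (nat_lit 28678863239) (nat_lit 304) (nat_lit 6729071226) (nat_lit 45) (nat_lit 5) (nat_lit 48) (nat_lit 5) (nat_lit 49) (nat_lit 5) (nat_lit 296) (nat_lit 279) (nat_lit 205)) (XT.lf (nat_lit 0) (nat_lit 1972281339) (nat_lit 304) (nat_lit 7356623170) (nat_lit 76) (nat_lit 30099197979) (nat_lit 44) (nat_lit 5) (nat_lit 48) (nat_lit 5) (nat_lit 45) (nat_lit 5) (nat_lit 297) (nat_lit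 279) (nat_lit 204))))) (XT.nd (nat_lit 234) (nat_lit 456) (nat_lit 0) (XT.nd (nat_lit 78) (nat_lit 380) (nat_lit 0) (XT.lf (nat_lit 0) (nat_lit 11683010983) (nat_lit 304) (nat_lit 18104047910) (nat_lit 76) (nat_lit 11684526768) (nat_lit 41) (nat_lit 5) (nat_lit 45) (nat_lit 5) (nat_lit 42) (nat_lit 5) (nat_lit 298) (nat_lit 279) (nat_lit 203)) (XT.nd (nat_lit 78) (nat_lit 152) (nat_lit 0) (XT.lf (nat_lit 0) (nat_lit 13395541864) (nat_lit 228) (nat_lit 9261749740) (nat_lit 304) (nat_lit 20996936656) (nat_lit 38) (nat_lit 5) (nat_lit 41) (nat_lit 5) (nat_lit 42) (nat_lit 5) (nat_lit 299) (nat_lit 279) (nat_lit 202)) (XT.lf (nat_lit 0) (nat_lit 1906420851) (nat_lit 152) (nat_lit 33145352006) (nat_lit 228) (nat_lit 10932610762) (nat_lit 36) (nat_lit 5) (nat_lit 38) (nat_lit 5) (nat_lit 39) (nat_lit 5) (nat_lit 300) (nat_lit 279) (nat_lit 201)))) (XT.nd (nat_lit 78) (nat_lit 380) (nat_lit 0)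 (XT.lf (nat_lit 0) (nat_lit 621589057) (nat_lit 228) (nat_lit 10926682465) (nat_lit 76) (nat_lit 36918606400) (nat_lit 35) (nat_lit 5) (nat_lit 38) (nat_lit 5) (nat_lit 36) (nat_lit 5) (nat_lit 301) (nat_lit 279) (nat_lit 200)) (XT.nd (nat_lit 78) (nat_lit 152) (nat_lit 0) (XT.lf (nat_lit 0) (nat_lit 13305122463) (nat_lit 304) (nat_lit 25816778862) (nat_lit 76) (nat_lit 11987719780) (nat_lit 32) (nat_lit 5) (nat_lit 36) (nat_lit 5) (nat_lit 33) (nat_lit 5) (nat_lit 302) (nat_lit 279) (nat_lit 199)) (XT.lf (nat_lit 0) (nat_lit 10987336530) (nat_lit 152) (nat_lit 16567598563) (nat_lit 228) (nat_lit 26381279607) (nat_lit 30) (nat_lit 5) (nat_lit 32) (nat_lit 5) (nat_lit 33) (nat_lit 5) (nat_lit 303) (nat_lit 279) (nat_lit 198)))))) (XT.nd (nat_lit 390) (nat_lit 608) (nat_lit 0) (XT.nd (nat_lit 156) (nat_lit 304) (nat_lit 0) (XT.nd (nat_lit 78) (nat_lit 228) (nat_lit 0) (XT.lf (nat_lit 0)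 (nat_lit 43515683325) (nat_lit 228) (nat_lit 5449900281) (nat_lit 76) (nat_lit 7994814629) (nat_lit 30) (nat_lit 5) (nat_lit 33) (nat_lit 5) (nat_lit 31) (nat_lit 5) (nat_lit 304) (nat_lit 279) (nat_lit 197)) (XT.lf (nat_lit 0) (nat_lit 1356339870) (nat_lit 228) (nat_lit 24299086618) (nat_lit 76) (nat_lit 34528366298) (nat_lit 27) (nat_lit 5) (nat_lit 30) (nat_lit 5) (nat_lit 28) (nat_lit 5) (nat_lit 305) (nat_lit 279) (nat_lit 196))) (XT.nd (nat_lit 78) (nat_lit 152) (nat_lit 0) (XT.lf (nat_lit 0) (nat_lit 17239767126) (nat_lit 228) (nat_lit 46260543344) (nat_lit 76) (nat_lit 135270053) (nat_lit 25) (nat_lit 5) (nat_lit 28) (nat_lit 5) (nat_lit 26) (nat_lit 5) (nat_lit 306) (nat_lit 279) (nat_lit 195)) (XT.nd (nat_lit 78) (nat_lit 152) (nat_lit 0) (XT.lf (nat_lit 0) (nat_lit 35250016903) (nat_lit 228) (nat_lit 4541859319) (nat_lit 76) (nat_lit 27528835190) (nat_lit 25) (nat_lit 5) (nat_lit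 28) (nat_lit 5) (nat_lit 26) (nat_lit 5) (nat_lit 307) (nat_lit 279) (nat_lit 194)) (XT.lf (nat_lit 0) (nat_lit 41843595327) (nat_lit 152) (nat_lit 13504618278) (nat_lit 228) (nat_lit 15920089808) (nat_lit 23) (nat_lit 5) (nat_lit 25) (nat_lit 5) (nat_lit 26) (nat_lit 5) (nat_lit 308) (nat_lit 279) (nat_lit 193))))) (XT.nd (nat_lit 234) (nat_lit 304) (nat_lit 0) (XT.nd (nat_lit 78) (nat_lit 152) (nat_lit 0) (XT.lf (nat_lit 0) (nat_lit 2053476261) (nat_lit 152) (nat_lit 58665507793) (nat_lit 76) (nat_lit 14782554082) (nat_lit 21) (nat_lit 5) (nat_lit 23) (nat_lit 5) (nat_lit 22) (nat_lit 5) (nat_lit 309) (nat_lit 279) (nat_lit 192)) (XT.nd (nat_lit 78) (nat_lit 152) (nat_lit 0) (XT.lf (nat_lit 0) (nat_lit 21657572209) (nat_lit 152) (nat_lit 12713544200) (nat_lit 76) (nat_lit 45651751332) (nat_lit 21) (nat_lit 5) (nat_lit 23) (nat_lit 5) (nat_lit 22) (nat_lit 5) (nat_lit 310) (nat_lit 279)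 (nat_lit 191)) (XT.lf (nat_lit 0) (nat_lit 38125996203) (nat_lit 152) (nat_lit 5293952995) (nat_lit 228) (nat_lit 41456462132) (nat_lit 19) (nat_lit 5) (nat_lit 21) (nat_lit 5) (nat_lit 22) (nat_lit 5) (nat_lit 311) (nat_lit 279) (nat_lit 190)))) (XT.nd (nat_lit 78) (nat_lit 228) (nat_lit 0) (XT.lf (nat_lit 0) (nat_lit 3057448323) (nat_lit 76) (nat_lit 64541242940) (nat_lit 152) (nat_lit 22485783291) (nat_lit 18) (nat_lit 5) (nat_lit 19) (nat_lit 5) (nat_lit 20) (nat_lit 4) (nat_lit 312) (nat_lit 279) (nat_lit 189)) (XT.nd (nat_lit 78) (nat_lit 228) (nat_lit 0) (XT.lf (nat_lit 0) (nat_lit 58418873561) (nat_lit 76) (nat_lit 36190201639) (nat_lit 152) (nat_lit 1055245038) (nat_lit 18) (nat_lit 5) (nat_lit 19) (nat_lit 5) (nat_lit 20) (nat_lit 4) (nat_lit 313) (nat_lit 279) (nat_lit 188)) (XT.lf (nat_lit 0) (nat_lit 16700462702) (nat_lit 152) (nat_lit 4938440889) (nat_lit 228) (nat_lit 80021601006)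 (nat_lit 15) (nat_lit 5) (nat_lit 17) (nat_lit 5) (nat_lit 18) (nat_lit 5) (nat_lit 314) (nat_lit 279) (nat_lit 187))))))))
noncomputable def xc84 : XT := (XT.nd (nat_lit 1638) (nat_lit 228) (nat_lit 0) (XT.nd (nat_lit 780) (nat_lit 304) (nat_lit 0) (XT.nd (nat_lit 390) (nat_lit 228) (nat_lit 0) (XT.nd (nat_lit 156) (nat_lit 152) (nat_lit 0) (XT.nd (nat_lit 78) (nat_lit 76) (nat_lit 0) (XT.lf (nat_lit 0) (nat_lit 47217001921) (nat_lit 228) (nat_lit 32297828783) (nat_lit 76) (nat_lit 28565422321) (nat_lit 15) (nat_lit 5) (nat_lit 18) (nat_lit 5) (nat_lit 16) (nat_lit 4) (nat_lit 315) (nat_lit 279) (nat_lit 186)) (XT.lf (nat_lit 0) (nat_lit 25296644341) (nat_lit 76) (nat_lit 50018859518) (nat_lit 152) (nat_lit 39674373106) (nat_lit 14) (nat_lit 5) (nat_lit 15) (nat_lit 5) (nat_lit 16) (nat_lit 4) (nat_lit 316) (nat_lit 279) (nat_lit 185))) (XT.nd (nat_lit 78) (nat_lit 152) (nat_lit 0) (XT.lf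 (nat_lit 0) (nat_lit 88645232267) (nat_lit 76) (nat_lit 17575389392) (nat_lit 152) (nat_lit 16203715548) (nat_lit 14) (nat_lit 5) (nat_lit 15) (nat_lit 5) (nat_lit 16) (nat_lit 4) (nat_lit 317) (nat_lit 279) (nat_lit 184)) (XT.nd (nat_lit 78) (nat_lit 0) (nat_lit 0) (XT.lf (nat_lit 0) (nat_lit 9556970153) (nat_lit 152) (nat_lit 103373386732) (nat_lit 76) (nat_lit 17480808558) (nat_lit 12) (nat_lit 5) (nat_lit 14) (nat_lit 5) (nat_lit 13) (nat_lit 4) (nat_lit 318) (nat_lit 279) (nat_lit 183)) (XT.lf (nat_lit 0) (nat_lit 37709296909) (nat_lit 152) (nat_lit 45666753733) (nat_lit 76) (nat_lit 55602685878) (nat_lit 12) (nat_lit 5) (nat_lit 14) (nat_lit 5) (nat_lit 13) (nat_lit 4) (nat_lit 319) (nat_lit 279) (nat_lit 182))))) (XT.nd (nat_lit 156) (nat_lit 152) (nat_lit 0) (XT.nd (nat_lit 78) (nat_lit 0) (nat_lit 0) (XT.lf (nat_lit 0) (nat_lit 17201153481) (nat_lit 76) (nat_lit 51177961242) (nat_lit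 152) (nat_lit 79839335711) (nat_lit 11) (nat_lit 5) (nat_lit 12) (nat_lit 5) (nat_lit 13) (nat_lit 4) (nat_lit 320) (nat_lit 279) (nat_lit 181)) (XT.lf (nat_lit 0) (nat_lit 86723689654) (nat_lit 76) (nat_lit 15571214759) (nat_lit 152) (nat_lit 55862819947) (nat_lit 11) (nat_lit 5) (nat_lit 12) (nat_lit 5) (nat_lit 13) (nat_lit 4) (nat_lit 321) (nat_lit 279) (nat_lit 180))) (XT.nd (nat_lit 78) (nat_lit 152) (nat_lit 0) (XT.lf (nat_lit 0) (nat_lit 139278336964) (nat_lit 152) (nat_lit 7446643732) (nat_lit 0) (nat_lit 22149442575) (nat_lit 11) (nat_lit 5) (nat_lit 13) (nat_lit 4) (nat_lit 11) (nat_lit 4) (nat_lit 322) (nat_lit 279) (nat_lit 179)) (XT.nd (nat_lit 78) (nat_lit 0) (nat_lit 0) (XT.lf (nat_lit 0) (nat_lit 81849427) (nat_lit 152) (nat_lit 116965049017) (nat_lit 76) (nat_lit 63338992135) (nat_lit 9) (nat_lit 5) (nat_lit 11) (nat_lit 5) (nat_lit 10) (nat_lit 4) (nat_lit 323) (nat_lit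 279) (nat_lit 178)) (XT.lf (nat_lit 0) (nat_lit 31240215191) (nat_lit 152) (nat_lit 53094052864) (nat_lit 76) (nat_lit 108452594916) (nat_lit 9) (nat_lit 5) (nat_lit 11) (nat_lit 5) (nat_lit 10) (nat_lit 4) (nat_lit 324) (nat_lit 279) (nat_lit 177)))))) (XT.nd (nat_lit 390) (nat_lit 152) (nat_lit 0) (XT.nd (nat_lit 156) (nat_lit 76) (nat_lit 0) (XT.nd (nat_lit 78) (nat_lit 0) (nat_lit 0) (XT.lf (nat_lit 0) (nat_lit 16407376552) (nat_lit 76) (nat_lit 48737625194) (nat_lit 152) (nat_lit 141022225386) (nat_lit 8) (nat_lit 5) (nat_lit 9) (nat_lit 5) (nat_lit 10) (nat_lit 4) (nat_lit 325) (nat_lit 279) (nat_lit 176)) (XT.lf (nat_lit 0) (nat_lit 93360697443) (nat_lit 76) (nat_lit 9324037628) (nat_lit 152) (nat_lit 117887158599) (nat_lit 8) (nat_lit 5) (nat_lit 9) (nat_lit 5) (nat_lit 10) (nat_lit 4) (nat_lit 326) (nat_lit 279) (nat_lit 175))) (XT.nd (nat_lit 78) (nat_lit 76) (nat_lit 0) (XT.lf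 (nat_lit 0) (nat_lit 143744500500) (nat_lit 152) (nat_lit 60181624384) (nat_lit 0) (nat_lit 32176967310) (nat_lit 8) (nat_lit 5) (nat_lit 10) (nat_lit 4) (nat_lit 8) (nat_lit 4) (nat_lit 327) (nat_lit 279) (nat_lit 174)) (XT.nd (nat_lit 78) (nat_lit 0) (nat_lit 0) (XT.lf (nat_lit 0) (nat_lit 12447830730) (nat_lit 76) (nat_lit 175990784772) (nat_lit 76) (nat_lit 64420693914) (nat_lit 7) (nat_lit 4) (nat_lit 8) (nat_lit 5) (nat_lit 8) (nat_lit 4) (nat_lit 328) (nat_lit 279) (nat_lit 173)) (XT.lf (nat_lit 0) (nat_lit 93033197671) (nat_lit 76) (nat_lit 144721482759) (nat_lit 76) (nat_lit 33149023690) (nat_lit 7) (nat_lit 4) (nat_lit 8) (nat_lit 5) (nat_lit 8) (nat_lit 4) (nat_lit 329) (nat_lit 279) (nat_lit 172))))) (XT.nd (nat_lit 234) (nat_lit 0) (nat_lit 0) (XT.nd (nat_lit 78) (nat_lit 76) (nat_lit 0) (XT.lf (nat_lit 0) (nat_lit 602602874) (nat_lit 152) (nat_lit 110339315963) (nat_lit 76)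 (nat_lit 179449334817) (nat_lit 6) (nat_lit 5) (nat_lit 8) (nat_lit 5) (nat_lit 7) (nat_lit 4) (nat_lit 330) (nat_lit 279) (nat_lit 171)) (XT.nd (nat_lit 78) (nat_lit 76) (nat_lit 0) (XT.lf (nat_lit 0) (nat_lit 35906845344) (nat_lit 152) (nat_lit 37967649259) (nat_lit 76) (nat_lit 237535448844) (nat_lit 6) (nat_lit 5) (nat_lit 8) (nat_lit 5) (nat_lit 7) (nat_lit 4) (nat_lit 331) (nat_lit 279) (nat_lit 170)) (XT.lf (nat_lit 0) (nat_lit 41519805015) (nat_lit 76) (nat_lit 33162325322) (nat_lit 152) (nat_lit 259395663793) (nat_lit 5) (nat_lit 5) (nat_lit 6) (nat_lit 5) (nat_lit 7) (nat_lit 4) (nat_lit 332) (nat_lit 279) (nat_lit 169)))) (XT.nd (nat_lit 78) (nat_lit 0) (nat_lit 0) (XT.lf (nat_lit 0) (nat_lit 117398891542) (nat_lit 152) (nat_lit 229986273041) (nat_lit 0) (nat_lit 11131936415) (nat_lit 5) (nat_lit 5) (nat_lit 7) (nat_lit 4) (nat_lit 5) (nat_lit 4) (nat_lit 333) (nat_lit 279)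 (nat_lit 168)) (XT.nd (nat_lit 78) (nat_lit 0) (nat_lit 0) (XT.lf (nat_lit 0) (nat_lit 164090795643) (nat_lit 152) (nat_lit 162970561911) (nat_lit 0) (nat_lit 57822305502) (nat_lit 5) (nat_lit 5) (nat_lit 7) (nat_lit 4) (nat_lit 5) (nat_lit 4) (nat_lit 334) (nat_lit 279) (nat_lit 167)) (XT.lf (nat_lit 0) (nat_lit 214516778568) (nat_lit 152) (nat_lit 90595968751) (nat_lit 0) (nat_lit 108246867118) (nat_lit 5) (nat_lit 5) (nat_lit 7) (nat_lit 4) (nat_lit 5) (nat_lit 4) (nat_lit 335) (nat_lit 279) (nat_lit 166))))))) (XT.nd (nat_lit 780) (nat_lit 0) (nat_lit 0) (XT.nd (nat_lit 390) (nat_lit 152) (nat_lit 0) (XT.nd (nat_lit 156) (nat_lit 0) (nat_lit 0) (XT.nd (nat_lit 78) (nat_lit 76) (nat_lit 0) (XT.lf (nat_lit 0) (nat_lit 268975660959) (nat_lit 152) (nat_lit 12433607083) (nat_lit 0) (nat_lit 162704433482) (nat_lit 5) (nat_lit 5) (nat_lit 7) (nat_lit 4) (nat_lit 5) (nat_lit 4) (nat_lit 336)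 (nat_lit 279) (nat_lit 165)) (XT.lf (nat_lit 0) (nat_lit 74359681655) (nat_lit 76) (nat_lit 254591443485) (nat_lit 76) (nat_lit 148318997465) (nat_lit 4) (nat_lit 4) (nat_lit 5) (nat_lit 5) (nat_lit 5) (nat_lit 4) (nat_lit 337) (nat_lit 279) (nat_lit 164))) (XT.nd (nat_lit 78) (nat_lit 0) (nat_lit 0) (XT.lf (nat_lit 0) (nat_lit 168538486017) (nat_lit 76) (nat_lit 225401684499) (nat_lit 76) (nat_lit 119128110198) (nat_lit 4) (nat_lit 4) (nat_lit 5) (nat_lit 5) (nat_lit 5) (nat_lit 4) (nat_lit 338) (nat_lit 279) (nat_lit 163)) (XT.nd (nat_lit 78) (nat_lit 0) (nat_lit 0) (XT.lf (nat_lit 0) (nat_lit 270249791417) (nat_lit 76) (nat_lit 193877583888) (nat_lit 76) (nat_lit 87602964881) (nat_lit 4) (nat_lit 4) (nat_lit 5) (nat_lit 5) (nat_lit 5) (nat_lit 4) (nat_lit 339) (nat_lit 279) (nat_lit 162)) (XT.lf (nat_lit 0) (nat_lit 380096331516) (nat_lit 76) (nat_lit 159832332165) (nat_lit 76) (nat_lit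 53556745840) (nat_lit 4) (nat_lit 4) (nat_lit 5) (nat_lit 5) (nat_lit 5) (nat_lit 4) (nat_lit 340) (nat_lit 279) (nat_lit 161))))) (XT.nd (nat_lit 156) (nat_lit 76) (nat_lit 0) (XT.nd (nat_lit 78) (nat_lit 76) (nat_lit 0) (XT.lf (nat_lit 0) (nat_lit 498729048776) (nat_lit 76) (nat_lit 123064179692) (nat_lit 76) (nat_lit 16787697701) (nat_lit 4) (nat_lit 4) (nat_lit 5) (nat_lit 5) (nat_lit 5) (nat_lit 4) (nat_lit 341) (nat_lit 279) (nat_lit 160)) (XT.lf (nat_lit 0) (nat_lit 22188420792) (nat_lit 152) (nat_lit 60791048685) (nat_lit 76) (nat_lit 604286759455) (nat_lit 3) (nat_lit 5) (nat_lit 5) (nat_lit 5) (nat_lit 4) (nat_lit 4) (nat_lit 342) (nat_lit 279) (nat_lit 159))) (XT.nd (nat_lit 78) (nat_lit 0) (nat_lit 0) (XT.lf (nat_lit 0) (nat_lit 25114031240) (nat_lit 76) (nat_lit 38979681169) (nat_lit 152) (nat_lit 675718921313) (nat_lit 2) (nat_lit 5) (nat_lit 3) (nat_lit 5) (nat_lit 4) (nat_lit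 4) (nat_lit 343) (nat_lit 279) (nat_lit 158)) (XT.nd (nat_lit 78) (nat_lit 0) (nat_lit 0) (XT.lf (nat_lit 0) (nat_lit 110560365733) (nat_lit 152) (nat_lit 676599468274) (nat_lit 0) (nat_lit 9342470296) (nat_lit 2) (nat_lit 5) (nat_lit 4) (nat_lit 4) (nat_lit 2) (nat_lit 4) (nat_lit 344) (nat_lit 279) (nat_lit 157)) (XT.lf (nat_lit 0) (nat_lit 161400974674) (nat_lit 152) (nat_lit 636110890746) (nat_lit 0) (nat_lit 60182452245) (nat_lit 2) (nat_lit 5) (nat_lit 4) (nat_lit 4) (nat_lit 2) (nat_lit 4) (nat_lit 345) (nat_lit 279) (nat_lit 156)))))) (XT.nd (nat_lit 35802) (nat_lit 0) (nat_lit 5320) (XT.nd (nat_lit 35568) (nat_lit 0) (nat_lit 6232) (XT.nd (nat_lit 35490) (nat_lit 0) (nat_lit 6232) (XT.lf (nat_lit 0) (nat_lit 216308234851) (nat_lit 152) (nat_lit 592384355523) (nat_lit 0) (nat_lit 115089131875) (nat_lit 2) (nat_lit 5) (nat_lit 4) (nat_lit 4) (nat_lit 2) (nat_lit 4) (nat_lit 346)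 (nat_lit 279) (nat_lit 155)) (XT.lf (nat_lit 0) (nat_lit 2966474059) (nat_lit 0) (nat_lit 2966474059) (nat_lit 684) (nat_lit 3664154430) (nat_lit 84) (nat_lit 5) (nat_lit 84) (nat_lit 3) (nat_lit 93) (nat_lit 3) (nat_lit 280) (nat_lit 280) (nat_lit 220))) (XT.nd (nat_lit 78) (nat_lit 0) (nat_lit 76) (XT.lf (nat_lit 76) (nat_lit 346034319) (nat_lit 0) (nat_lit 12384554532) (nat_lit 760) (nat_lit 7211271036) (nat_lit 85) (nat_lit 5) (nat_lit 84) (nat_lit 5) (nat_lit 94) (nat_lit 5) (nat_lit 281) (nat_lit 280) (nat_lit 219)) (XT.nd (nat_lit 78) (nat_lit 0) (nat_lit 0) (XT.lf (nat_lit 0) (nat_lit 13989872379) (nat_lit 684) (nat_lit 5359650294) (nat_lit 760) (nat_lit 1383594694) (nat_lit 85) (nat_lit 5) (nat_lit 94) (nat_lit 5) (nat_lit 95) (nat_lit 5) (nat_lit 282) (nat_lit 280) (nat_lit 218)) (XT.lf (nat_lit 76) (nat_lit 10114803590) (nat_lit 0) (nat_lit 5577622785) (nat_lit 760) (nat_lit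 5878179244) (nat_lit 86) (nat_lit 5) (nat_lit 85) (nat_lit 5) (nat_lit 95) (nat_lit 5) (nat_lit 283) (nat_lit 280) (nat_lit 217))))) (XT.nd (nat_lit 234) (nat_lit 1064) (nat_lit 0) (XT.nd (nat_lit 78) (nat_lit 0) (nat_lit 76) (XT.lf (nat_lit 76) (nat_lit 4530353942) (nat_lit 0) (nat_lit 13289056633) (nat_lit 760) (nat_lit 4641323436) (nat_lit 87) (nat_lit 5) (nat_lit 86) (nat_lit 5) (nat_lit 96) (nat_lit 5) (nat_lit 284) (nat_lit 280) (nat_lit 216)) (XT.nd (nat_lit 78) (nat_lit 0) (nat_lit 0) (XT.lf (nat_lit 0) (nat_lit 20414140760) (nat_lit 684) (nat_lit 1343311181) (nat_lit 760) (nat_lit 1649789864) (nat_lit 87) (nat_lit 5) (nat_lit 96) (nat_lit 5) (nat_lit 97) (nat_lit 5) (nat_lit 285) (nat_lit 280) (nat_lit 215)) (XT.lf (nat_lit 76) (nat_lit 16871214634) (nat_lit 0) (nat_lit 6813257664) (nat_lit 760) (nat_lit 721641678) (nat_lit 88) (nat_lit 5) (nat_lit 87) (nat_lit 5) (nat_lit 97)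 (nat_lit 5) (nat_lit 286) (nat_lit 280) (nat_lit 214)))) (XT.nd (nat_lit 78) (nat_lit 456) (nat_lit 0) (XT.lf (nat_lit 0) (nat_lit 2009185620) (nat_lit 760) (nat_lit 14193656700) (nat_lit 76) (nat_lit 9264087935) (nat_lit 78) (nat_lit 5) (nat_lit 88) (nat_lit 5) (nat_lit 79) (nat_lit 5) (nat_lit 287) (nat_lit 280) (nat_lit 213)) (XT.nd (nat_lit 78) (nat_lit 0) (nat_lit 0) (XT.lf (nat_lit 0) (nat_lit 5247158917) (nat_lit 532) (nat_lit 21323785440) (nat_lit 76) (nat_lit 25414502) (nat_lit 72) (nat_lit 5) (nat_lit 79) (nat_lit 5) (nat_lit 73) (nat_lit 5) (nat_lit 288) (nat_lit 280) (nat_lit 212)) (XT.lf (nat_lit 0) (nat_lit 9252352459) (nat_lit 532) (nat_lit 1293961438) (nat_lit 76) (nat_lit 17244452680) (nat_lit 72) (nat_lit 5) (nat_lit 79) (nat_lit 5) (nat_lit 73) (nat_lit 5) (nat_lit 289) (nat_lit 280) (nat_lit 211))))))))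
noncomputable def xc85 : XT := (XT.nd (nat_lit 1638) (nat_lit 1140) (nat_lit 0) (XT.nd (nat_lit 780) (nat_lit 1520) (nat_lit 0) (XT.nd (nat_lit 390) (nat_lit 1064) (nat_lit 0) (XT.nd (nat_lit 156) (nat_lit 608) (nat_lit 0) (XT.nd (nat_lit 78) (nat_lit 304) (nat_lit 0) (XT.lf (nat_lit 0) (nat_lit 14001572610) (nat_lit 456) (nat_lit 8180510927) (nat_lit 76) (nat_lit 6877494254) (nat_lit 67) (nat_lit 5) (nat_lit 73) (nat_lit 5) (nat_lit 68) (nat_lit 5) (nat_lit 290) (nat_lit 280) (nat_lit 210)) (XT.lf (nat_lit 0) (nat_lit 14721559713) (nat_lit 304) (nat_lit 4825542273) (nat_lit 380) (nat_lit 10862002437) (nat_lit 63) (nat_lit 5) (nat_lit 67) (nat_lit 5) (nat_lit 68) (nat_lit 5) (nat_lit 291) (nat_lit 280) (nat_lit 209))) (XT.nd (nat_lit 78) (nat_lit 304) (nat_lit 0) (XT.lf (nat_lit 0) (nat_lit 7907025908) (nat_lit 304) (nat_lit 18101463539) (nat_lit 380) (nat_lit 5834519901) (nat_lit 59)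 (nat_lit 5) (nat_lit 63) (nat_lit 5) (nat_lit 64) (nat_lit 5) (nat_lit 292) (nat_lit 280) (nat_lit 208)) (XT.nd (nat_lit 78) (nat_lit 76) (nat_lit 0) (XT.lf (nat_lit 0) (nat_lit 483798550) (nat_lit 228) (nat_lit 32859417267) (nat_lit 304) (nat_lit 30614406) (nat_lit 56) (nat_lit 5) (nat_lit 59) (nat_lit 5) (nat_lit 60) (nat_lit 5) (nat_lit 293) (nat_lit 280) (nat_lit 207)) (XT.lf (nat_lit 0) (nat_lit 6754819818) (nat_lit 304) (nat_lit 7718412006) (nat_lit 76) (nat_lit 20513194695) (nat_lit 55) (nat_lit 5) (nat_lit 59) (nat_lit 5) (nat_lit 56) (nat_lit 5) (nat_lit 294) (nat_lit 280) (nat_lit 206))))) (XT.nd (nat_lit 156) (nat_lit 532) (nat_lit 0) (XT.nd (nat_lit 78) (nat_lit 228) (nat_lit 0) (XT.lf (nat_lit 0) (nat_lit 14473710566) (nat_lit 380) (nat_lit 16705976220) (nat_lit 76) (nat_lit 5528754294) (nat_lit 51) (nat_lit 5) (nat_lit 56) (nat_lit 5) (nat_lit 52) (nat_lit 5) (nat_lit 295)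 (nat_lit 280) (nat_lit 205)) (XT.lf (nat_lit 0) (nat_lit 11772224581) (nat_lit 228) (nat_lit 11591729708) (nat_lit 304) (nat_lit 15176589295) (nat_lit 48) (nat_lit 5) (nat_lit 51) (nat_lit 5) (nat_lit 52) (nat_lit 5) (nat_lit 296) (nat_lit 280) (nat_lit 204))) (XT.nd (nat_lit 78) (nat_lit 304) (nat_lit 0) (XT.lf (nat_lit 0) (nat_lit 2534272121) (nat_lit 228) (nat_lit 30905689743) (nat_lit 304) (nat_lit 7055542675) (nat_lit 45) (nat_lit 5) (nat_lit 48) (nat_lit 5) (nat_lit 49) (nat_lit 5) (nat_lit 297) (nat_lit 280) (nat_lit 203)) (XT.nd (nat_lit 78) (nat_lit 228) (nat_lit 0) (XT.lf (nat_lit 0) (nat_lit 2319946800) (nat_lit 304) (nat_lit 7689570463) (nat_lit 76) (nat_lit 32563038772) (nat_lit 44) (nat_lit 5) (nat_lit 48) (nat_lit 5) (nat_lit 45) (nat_lit 5) (nat_lit 298) (nat_lit 280) (nat_lit 202)) (XT.lf (nat_lit 0) (nat_lit 12798298701) (nat_lit 304) (nat_lit 19299648865) (nat_lit 76)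 (nat_lit 12682054360) (nat_lit 41) (nat_lit 5) (nat_lit 45) (nat_lit 5) (nat_lit 42) (nat_lit 5) (nat_lit 299) (nat_lit 280) (nat_lit 201)))))) (XT.nd (nat_lit 390) (nat_lit 684) (nat_lit 0) (XT.nd (nat_lit 156) (nat_lit 456) (nat_lit 0) (XT.nd (nat_lit 78) (nat_lit 152) (nat_lit 0) (XT.lf (nat_lit 0) (nat_lit 14708925063) (nat_lit 228) (nat_lit 9931989698) (nat_lit 304) (nat_lit 22496842133) (nat_lit 38) (nat_lit 5) (nat_lit 41) (nat_lit 5) (nat_lit 42) (nat_lit 5) (nat_lit 300) (nat_lit 280) (nat_lit 200)) (XT.lf (nat_lit 0) (nat_lit 2297539566) (nat_lit 152) (nat_lit 35721492686) (nat_lit 228) (nat_lit 11635707628) (nat_lit 36) (nat_lit 5) (nat_lit 38) (nat_lit 5) (nat_lit 39) (nat_lit 5) (nat_lit 301) (nat_lit 280) (nat_lit 199))) (XT.nd (nat_lit 78) (nat_lit 380) (nat_lit 0) (XT.lf (nat_lit 0) (nat_lit 825040755) (nat_lit 228) (nat_lit 11574593273) (nat_lit 76) (nat_lit 39936697536)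 (nat_lit 35) (nat_lit 5) (nat_lit 38) (nat_lit 5) (nat_lit 36) (nat_lit 5) (nat_lit 302) (nat_lit 280) (nat_lit 198)) (XT.nd (nat_lit 78) (nat_lit 152) (nat_lit 0) (XT.lf (nat_lit 0) (nat_lit 14516351776) (nat_lit 304) (nat_lit 27659351665) (nat_lit 76) (nat_lit 13015151598) (nat_lit 32) (nat_lit 5) (nat_lit 36) (nat_lit 5) (nat_lit 33) (nat_lit 5) (nat_lit 303) (nat_lit 280) (nat_lit 197)) (XT.lf (nat_lit 0) (nat_lit 12079411668) (nat_lit 152) (nat_lit 17819189132) (nat_lit 228) (nat_lit 28345367179) (nat_lit 30) (nat_lit 5) (nat_lit 32) (nat_lit 5) (nat_lit 33) (nat_lit 5) (nat_lit 304) (nat_lit 280) (nat_lit 196))))) (XT.nd (nat_lit 234) (nat_lit 304) (nat_lit 0) (XT.nd (nat_lit 78) (nat_lit 380) (nat_lit 0) (XT.lf (nat_lit 0) (nat_lit 47126959653) (nat_lit 228) (nat_lit 5683040807) (nat_lit 76) (nat_lit 8700561558) (nat_lit 30) (nat_lit 5) (nat_lit 33) (nat_lit 5) (nat_lit 31) (nat_lit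 5) (nat_lit 305) (nat_lit 280) (nat_lit 195)) (XT.nd (nat_lit 78) (nat_lit 152) (nat_lit 0) (XT.lf (nat_lit 0) (nat_lit 1590439880) (nat_lit 228) (nat_lit 26044677804) (nat_lit 76) (nat_lit 37356951624) (nat_lit 27) (nat_lit 5) (nat_lit 30) (nat_lit 5) (nat_lit 28) (nat_lit 5) (nat_lit 306) (nat_lit 280) (nat_lit 194)) (XT.lf (nat_lit 0) (nat_lit 18739300300) (nat_lit 228) (nat_lit 49766671715) (nat_lit 76) (nat_lit 214301009) (nat_lit 25) (nat_lit 5) (nat_lit 28) (nat_lit 5) (nat_lit 26) (nat_lit 5) (nat_lit 307) (nat_lit 280) (nat_lit 193)))) (XT.nd (nat_lit 78) (nat_lit 304) (nat_lit 0) (XT.lf (nat_lit 0) (nat_lit 38181455110) (nat_lit 228) (nat_lit 4724916309) (nat_lit 76) (nat_lit 29794298812) (nat_lit 25) (nat_lit 5) (nat_lit 28) (nat_lit 5) (nat_lit 26) (nat_lit 5) (nat_lit 308) (nat_lit 280) (nat_lit 192)) (XT.nd (nat_lit 78) (nat_lit 152) (nat_lit 0) (XT.lf (nat_lit 0) (nat_lit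 45363539450) (nat_lit 152) (nat_lit 14518406046) (nat_lit 228) (nat_lit 17082411551) (nat_lit 23) (nat_lit 5) (nat_lit 25) (nat_lit 5) (nat_lit 26) (nat_lit 5) (nat_lit 309) (nat_lit 280) (nat_lit 191)) (XT.lf (nat_lit 0) (nat_lit 2321160838) (nat_lit 152) (nat_lit 63186083349) (nat_lit 76) (nat_lit 16029143591) (nat_lit 21) (nat_lit 5) (nat_lit 23) (nat_lit 5) (nat_lit 22) (nat_lit 5) (nat_lit 310) (nat_lit 280) (nat_lit 190))))))) (XT.nd (nat_lit 780) (nat_lit 456) (nat_lit 0) (XT.nd (nat_lit 390) (nat_lit 228) (nat_lit 0) (XT.nd (nat_lit 156) (nat_lit 304) (nat_lit 0) (XT.nd (nat_lit 78) (nat_lit 152) (nat_lit 0) (XT.lf (nat_lit 0) (nat_lit 23485924723) (nat_lit 152) (nat_lit 13570752674) (nat_lit 76) (nat_lit 49363136977) (nat_lit 21) (nat_lit 5) (nat_lit 23) (nat_lit 5) (nat_lit 22) (nat_lit 5) (nat_lit 311) (nat_lit 280) (nat_lit 189)) (XT.lf (nat_lit 0) (nat_lit 41329002987) (nat_lit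 152) (nat_lit 5655584154) (nat_lit 228) (nat_lit 44677296616) (nat_lit 19) (nat_lit 5) (nat_lit 21) (nat_lit 5) (nat_lit 22) (nat_lit 5) (nat_lit 312) (nat_lit 280) (nat_lit 188))) (XT.nd (nat_lit 78) (nat_lit 228) (nat_lit 0) (XT.lf (nat_lit 0) (nat_lit 3451839851) (nat_lit 76) (nat_lit 69642278226) (nat_lit 152) (nat_lit 24192656032) (nat_lit 18) (nat_lit 5) (nat_lit 19) (nat_lit 5) (nat_lit 20) (nat_lit 4) (nat_lit 313) (nat_lit 280) (nat_lit 187)) (XT.nd (nat_lit 78) (nat_lit 228) (nat_lit 0) (XT.lf (nat_lit 0) (nat_lit 63231083133) (nat_lit 76) (nat_lit 39027765780) (nat_lit 152) (nat_lit 1054488788) (nat_lit 18) (nat_lit 5) (nat_lit 19) (nat_lit 5) (nat_lit 20) (nat_lit 4) (nat_lit 314) (nat_lit 280) (nat_lit 186)) (XT.lf (nat_lit 0) (nat_lit 18171848397) (nat_lit 152) (nat_lit 5276622963) (nat_lit 228) (nat_lit 86340884013) (nat_lit 15) (nat_lit 5) (nat_lit 17) (nat_lit 5) (nat_lit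 18) (nat_lit 5) (nat_lit 315) (nat_lit 280) (nat_lit 185))))) (XT.nd (nat_lit 156) (nat_lit 152) (nat_lit 0) (XT.nd (nat_lit 78) (nat_lit 76) (nat_lit 0) (XT.lf (nat_lit 0) (nat_lit 51067828505) (nat_lit 228) (nat_lit 34753460634) (nat_lit 76) (nat_lit 30901648939) (nat_lit 15) (nat_lit 5) (nat_lit 18) (nat_lit 5) (nat_lit 16) (nat_lit 4) (nat_lit 316) (nat_lit 280) (nat_lit 184)) (XT.lf (nat_lit 0) (nat_lit 27442999166) (nat_lit 76) (nat_lit 53967683967) (nat_lit 152) (nat_lit 42774829756) (nat_lit 14) (nat_lit 5) (nat_lit 15) (nat_lit 5) (nat_lit 16) (nat_lit 4) (nat_lit 317) (nat_lit 280) (nat_lit 183))) (XT.nd (nat_lit 78) (nat_lit 152) (nat_lit 0) (XT.lf (nat_lit 0) (nat_lit 95850390920) (nat_lit 76) (nat_lit 18932638773) (nat_lit 152) (nat_lit 17431963534) (nat_lit 14) (nat_lit 5) (nat_lit 15) (nat_lit 5) (nat_lit 16) (nat_lit 4) (nat_lit 318) (nat_lit 280) (nat_lit 182)) (XT.nd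 (nat_lit 78) (nat_lit 0) (nat_lit 0) (XT.lf (nat_lit 0) (nat_lit 10384998265) (nat_lit 152) (nat_lit 111530087102) (nat_lit 76) (nat_lit 18925753013) (nat_lit 12) (nat_lit 5) (nat_lit 14) (nat_lit 5) (nat_lit 13) (nat_lit 4) (nat_lit 319) (nat_lit 280) (nat_lit 181)) (XT.lf (nat_lit 0) (nat_lit 40784809643) (nat_lit 152) (nat_lit 49215306468) (nat_lit 76) (nat_lit 60093937573) (nat_lit 12) (nat_lit 5) (nat_lit 14) (nat_lit 5) (nat_lit 13) (nat_lit 4) (nat_lit 320) (nat_lit 280) (nat_lit 180)))))) (XT.nd (nat_lit 390) (nat_lit 228) (nat_lit 0) (XT.nd (nat_lit 156) (nat_lit 152) (nat_lit 0) (XT.nd (nat_lit 78) (nat_lit 0) (nat_lit 0) (XT.lf (nat_lit 0) (nat_lit 18677479384) (nat_lit 76) (nat_lit 55227945169) (nat_lit 152) (nat_lit 86167662783) (nat_lit 11) (nat_lit 5) (nat_lit 12) (nat_lit 5) (nat_lit 13) (nat_lit 4) (nat_lit 321) (nat_lit 280) (nat_lit 179)) (XT.lf (nat_lit 0) (nat_lit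 93754393737) (nat_lit 76) (nat_lit 16775936965) (nat_lit 152) (nat_lit 60277382779) (nat_lit 11) (nat_lit 5) (nat_lit 12) (nat_lit 5) (nat_lit 13) (nat_lit 4) (nat_lit 322) (nat_lit 280) (nat_lit 178))) (XT.nd (nat_lit 78) (nat_lit 152) (nat_lit 0) (XT.lf (nat_lit 0) (nat_lit 150469190653) (nat_lit 152) (nat_lit 7954599300) (nat_lit 0) (nat_lit 23958123463) (nat_lit 11) (nat_lit 5) (nat_lit 13) (nat_lit 4) (nat_lit 11) (nat_lit 4) (nat_lit 323) (nat_lit 280) (nat_lit 177)) (XT.nd (nat_lit 78) (nat_lit 0) (nat_lit 0) (XT.lf (nat_lit 0) (nat_lit 135485775) (nat_lit 152) (nat_lit 126236704370) (nat_lit 76) (nat_lit 68442186943) (nat_lit 9) (nat_lit 5) (nat_lit 11) (nat_lit 5) (nat_lit 10) (nat_lit 4) (nat_lit 324) (nat_lit 280) (nat_lit 176)) (XT.lf (nat_lit 0) (nat_lit 33783032771) (nat_lit 152) (nat_lit 57262365456) (nat_lit 76) (nat_lit 117162205691) (nat_lit 9) (nat_lit 5) (nat_lit 11)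 (nat_lit 5) (nat_lit 10) (nat_lit 4) (nat_lit 325) (nat_lit 280) (nat_lit 175))))) (XT.nd (nat_lit 234) (nat_lit 152) (nat_lit 0) (XT.nd (nat_lit 78) (nat_lit 0) (nat_lit 0) (XT.lf (nat_lit 0) (nat_lit 17795735872) (nat_lit 76) (nat_lit 52602419691) (nat_lit 152) (nat_lit 152260346063) (nat_lit 8) (nat_lit 5) (nat_lit 9) (nat_lit 5) (nat_lit 10) (nat_lit 4) (nat_lit 326) (nat_lit 280) (nat_lit 174)) (XT.nd (nat_lit 78) (nat_lit 0) (nat_lit 0) (XT.lf (nat_lit 0) (nat_lit 100899709902) (nat_lit 76) (nat_lit 10038279603) (nat_lit 152) (nat_lit 127277707811) (nat_lit 8) (nat_lit 5) (nat_lit 9) (nat_lit 5) (nat_lit 10) (nat_lit 4) (nat_lit 327) (nat_lit 280) (nat_lit 173)) (XT.lf (nat_lit 0) (nat_lit 155280144111) (nat_lit 152) (nat_lit 64929848888) (nat_lit 0) (nat_lit 34779520106) (nat_lit 8) (nat_lit 5) (nat_lit 10) (nat_lit 4) (nat_lit 8) (nat_lit 4) (nat_lit 328) (nat_lit 280) (nat_lit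 172)))) (XT.nd (nat_lit 78) (nat_lit 76) (nat_lit 0) (XT.lf (nat_lit 0) (nat_lit 13507081081) (nat_lit 76) (nat_lit 190041024600) (nat_lit 76) (nat_lit 69538207807) (nat_lit 7) (nat_lit 4) (nat_lit 8) (nat_lit 5) (nat_lit 8) (nat_lit 4) (nat_lit 329) (nat_lit 280) (nat_lit 171)) (XT.nd (nat_lit 78) (nat_lit 76) (nat_lit 0) (XT.lf (nat_lit 0) (nat_lit 100534579310) (nat_lit 76) (nat_lit 156272328275) (nat_lit 76) (nat_lit 35767481123) (nat_lit 7) (nat_lit 4) (nat_lit 8) (nat_lit 5) (nat_lit 8) (nat_lit 4) (nat_lit 330) (nat_lit 280) (nat_lit 170)) (XT.lf (nat_lit 0) (nat_lit 680804984) (nat_lit 152) (nat_lit 119111076894) (nat_lit 76) (nat_lit 193829155525) (nat_lit 6) (nat_lit 5) (nat_lit 8) (nat_lit 5) (nat_lit 7) (nat_lit 4) (nat_lit 331) (nat_lit 280) (nat_lit 169))))))))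
noncomputable def xc86 : XT := (XT.nd (nat_lit 37128) (nat_lit 0) (nat_lit 1900) (XT.nd (nat_lit 780) (nat_lit 152) (nat_lit 0) (XT.nd (nat_lit 390) (nat_lit 76) (nat_lit 0) (XT.nd (nat_lit 156) (nat_lit 0) (nat_lit 0) (XT.nd (nat_lit 78) (nat_lit 76) (nat_lit 0) (XT.lf (nat_lit 0) (nat_lit 38807165083) (nat_lit 152) (nat_lit 40953779398) (nat_lit 76) (nat_lit 256560390236) (nat_lit 6) (nat_lit 5) (nat_lit 8) (nat_lit 5) (nat_lit 7) (nat_lit 4) (nat_lit 332) (nat_lit 280) (nat_lit 168)) (XT.lf (nat_lit 0) (nat_lit 44890442573) (nat_lit 76) (nat_lit 35792738966) (nat_lit 152) (nat_lit 280119497639) (nat_lit 5) (nat_lit 5) (nat_lit 6) (nat_lit 5) (nat_lit 7) (nat_lit 4) (nat_lit 333) (nat_lit 280) (nat_lit 167))) (XT.nd (nat_lit 78) (nat_lit 0) (nat_lit 0) (XT.lf (nat_lit 0) (nat_lit 126815648415) (nat_lit 152) (nat_lit 248338842271) (nat_lit 0) (nat_lit 12042722740) (nat_lit 5) (nat_lit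 5) (nat_lit 7) (nat_lit 4) (nat_lit 5) (nat_lit 4) (nat_lit 334) (nat_lit 280) (nat_lit 166)) (XT.nd (nat_lit 78) (nat_lit 0) (nat_lit 0) (XT.lf (nat_lit 0) (nat_lit 177241064433) (nat_lit 152) (nat_lit 175965306296) (nat_lit 0) (nat_lit 62466822730) (nat_lit 5) (nat_lit 5) (nat_lit 7) (nat_lit 4) (nat_lit 5) (nat_lit 4) (nat_lit 335) (nat_lit 280) (nat_lit 165)) (XT.lf (nat_lit 0) (nat_lit 231699421908) (nat_lit 152) (nat_lit 97803923503) (nat_lit 0) (nat_lit 116923961662) (nat_lit 5) (nat_lit 5) (nat_lit 7) (nat_lit 4) (nat_lit 5) (nat_lit 4) (nat_lit 336) (nat_lit 280) (nat_lit 164))))) (XT.nd (nat_lit 156) (nat_lit 0) (nat_lit 0) (XT.nd (nat_lit 78) (nat_lit 76) (nat_lit 0) (XT.lf (nat_lit 0) (nat_lit 290513437034) (nat_lit 152) (nat_lit 13391515328) (nat_lit 0) (nat_lit 175736848507) (nat_lit 5) (nat_lit 5) (nat_lit 7) (nat_lit 4) (nat_lit 5) (nat_lit 4) (nat_lit 337) (nat_lit 280)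 (nat_lit 163)) (XT.lf (nat_lit 0) (nat_lit 80343638082) (nat_lit 76) (nat_lit 274942388578) (nat_lit 76) (nat_lit 160164755347) (nat_lit 4) (nat_lit 4) (nat_lit 5) (nat_lit 5) (nat_lit 5) (nat_lit 4) (nat_lit 338) (nat_lit 280) (nat_lit 162))) (XT.nd (nat_lit 78) (nat_lit 0) (nat_lit 0) (XT.lf (nat_lit 0) (nat_lit 182054140726) (nat_lit 76) (nat_lit 243418661495) (nat_lit 76) (nat_lit 128640060945) (nat_lit 4) (nat_lit 4) (nat_lit 5) (nat_lit 5) (nat_lit 5) (nat_lit 4) (nat_lit 339) (nat_lit 280) (nat_lit 161)) (XT.nd (nat_lit 78) (nat_lit 0) (nat_lit 0) (XT.lf (nat_lit 0) (nat_lit 291899937533) (nat_lit 76) (nat_lit 209373755632) (nat_lit 76) (nat_lit 94594259416) (nat_lit 4) (nat_lit 4) (nat_lit 5) (nat_lit 5) (nat_lit 5) (nat_lit 4) (nat_lit 340) (nat_lit 280) (nat_lit 160)) (XT.lf (nat_lit 0) (nat_lit 410531966560) (nat_lit 76) (nat_lit 172605923399) (nat_lit 76) (nat_lit 57825597862)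 (nat_lit 4) (nat_lit 4) (nat_lit 5) (nat_lit 5) (nat_lit 5) (nat_lit 4) (nat_lit 341) (nat_lit 280) (nat_lit 159)))))) (XT.nd (nat_lit 35880) (nat_lit 0) (nat_lit 6232) (XT.nd (nat_lit 156) (nat_lit 76) (nat_lit 0) (XT.nd (nat_lit 78) (nat_lit 76) (nat_lit 0) (XT.lf (nat_lit 0) (nat_lit 538653232421) (nat_lit 76) (nat_lit 132897281346) (nat_lit 76) (nat_lit 18116187920) (nat_lit 4) (nat_lit 4) (nat_lit 5) (nat_lit 5) (nat_lit 5) (nat_lit 4) (nat_lit 342) (nat_lit 280) (nat_lit 158)) (XT.lf (nat_lit 0) (nat_lit 23976513611) (nat_lit 152) (nat_lit 65629951530) (nat_lit 76) (nat_lit 652640404777) (nat_lit 3) (nat_lit 5) (nat_lit 5) (nat_lit 5) (nat_lit 4) (nat_lit 4) (nat_lit 343) (nat_lit 280) (nat_lit 157))) (XT.nd (nat_lit 78) (nat_lit 0) (nat_lit 0) (XT.lf (nat_lit 0) (nat_lit 27146475219) (nat_lit 76) (nat_lit 42087153070) (nat_lit 152) (nat_lit 729763389287) (nat_lit 2) (nat_lit 5)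 (nat_lit 3) (nat_lit 5) (nat_lit 4) (nat_lit 4) (nat_lit 344) (nat_lit 280) (nat_lit 156)) (XT.nd (nat_lit 78) (nat_lit 0) (nat_lit 0) (XT.lf (nat_lit 0) (nat_lit 119416851572) (nat_lit 152) (nat_lit 730705408973) (nat_lit 0) (nat_lit 10099639810) (nat_lit 2) (nat_lit 5) (nat_lit 4) (nat_lit 4) (nat_lit 2) (nat_lit 4) (nat_lit 345) (nat_lit 280) (nat_lit 155)) (XT.lf (nat_lit 0) (nat_lit 174323845778) (nat_lit 152) (nat_lit 686979376114) (nat_lit 0) (nat_lit 65006096472) (nat_lit 2) (nat_lit 5) (nat_lit 4) (nat_lit 4) (nat_lit 2) (nat_lit 4) (nat_lit 346) (nat_lit 280) (nat_lit 154))))) (XT.nd (nat_lit 234) (nat_lit 0) (nat_lit 76) (XT.nd (nat_lit 78) (nat_lit 0) (nat_lit 0) (XT.lf (nat_lit 0) (nat_lit 3332055875) (nat_lit 0) (nat_lit 3332055875) (nat_lit 684) (nat_lit 3687336720) (nat_lit 84) (nat_lit 5) (nat_lit 84) (nat_lit 3) (nat_lit 93) (nat_lit 3) (nat_lit 281) (nat_lit 281) (nat_lit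 218)) (XT.nd (nat_lit 78) (nat_lit 0) (nat_lit 76) (XT.lf (nat_lit 76) (nat_lit 648605456) (nat_lit 0) (nat_lit 13576065284) (nat_lit 760) (nat_lit 7287652688) (nat_lit 85) (nat_lit 5) (nat_lit 84) (nat_lit 5) (nat_lit 94) (nat_lit 5) (nat_lit 282) (nat_lit 281) (nat_lit 217)) (XT.lf (nat_lit 0) (nat_lit 15546562695) (nat_lit 684) (nat_lit 5507952083) (nat_lit 760) (nat_lit 1314355184) (nat_lit 85) (nat_lit 5) (nat_lit 94) (nat_lit 5) (nat_lit 95) (nat_lit 5) (nat_lit 283) (nat_lit 281) (nat_lit 216)))) (XT.nd (nat_lit 78) (nat_lit 0) (nat_lit 76) (XT.lf (nat_lit 76) (nat_lit 11192269218) (nat_lit 0) (nat_lit 6164832971) (nat_lit 760) (nat_lit 5917741714) (nat_lit 86) (nat_lit 5) (nat_lit 85) (nat_lit 5) (nat_lit 95) (nat_lit 5) (nat_lit 284) (nat_lit 281) (nat_lit 215)) (XT.nd (nat_lit 78) (nat_lit 0) (nat_lit 76) (XT.lf (nat_lit 76) (nat_lit 5171989865) (nat_lit 0) (nat_lit 14454258966)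 (nat_lit 760) (nat_lit 4611403629) (nat_lit 87) (nat_lit 5) (nat_lit 86) (nat_lit 5) (nat_lit 96) (nat_lit 5) (nat_lit 285) (nat_lit 281) (nat_lit 214)) (XT.lf (nat_lit 0) (nat_lit 22398838400) (nat_lit 684) (nat_lit 1172311631) (nat_lit 760) (nat_lit 1690281687) (nat_lit 87) (nat_lit 5) (nat_lit 96) (nat_lit 5) (nat_lit 97) (nat_lit 5) (nat_lit 286) (nat_lit 281) (nat_lit 213))))))) (XT.nd (nat_lit 780) (nat_lit 1824) (nat_lit 0) (XT.nd (nat_lit 390) (nat_lit 1216) (nat_lit 0) (XT.nd (nat_lit 156) (nat_lit 836) (nat_lit 0) (XT.nd (nat_lit 78) (nat_lit 684) (nat_lit 0) (XT.lf (nat_lit 76) (nat_lit 18487274523) (nat_lit 0) (nat_lit 7421638651) (nat_lit 760) (nat_lit 432454734) (nat_lit 88) (nat_lit 5) (nat_lit 87) (nat_lit 5) (nat_lit 97) (nat_lit 5) (nat_lit 287) (nat_lit 281) (nat_lit 212)) (XT.lf (nat_lit 0) (nat_lit 2484249418) (nat_lit 760) (nat_lit 15045875089) (nat_lit 76) (nat_lit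 9957781437) (nat_lit 78) (nat_lit 5) (nat_lit 88) (nat_lit 5) (nat_lit 79) (nat_lit 5) (nat_lit 288) (nat_lit 281) (nat_lit 211))) (XT.nd (nat_lit 78) (nat_lit 380) (nat_lit 0) (XT.lf (nat_lit 0) (nat_lit 5961827866) (nat_lit 532) (nat_lit 22742968275) (nat_lit 76) (nat_lit 3913389) (nat_lit 72) (nat_lit 5) (nat_lit 79) (nat_lit 5) (nat_lit 73) (nat_lit 5) (nat_lit 289) (nat_lit 281) (nat_lit 210)) (XT.nd (nat_lit 78) (nat_lit 380) (nat_lit 0) (XT.lf (nat_lit 0) (nat_lit 10265592726) (nat_lit 532) (nat_lit 1131996872) (nat_lit 76) (nat_lit 18602217901) (nat_lit 72) (nat_lit 5) (nat_lit 79) (nat_lit 5) (nat_lit 73) (nat_lit 5) (nat_lit 290) (nat_lit 281) (nat_lit 209)) (XT.lf (nat_lit 0) (nat_lit 15378444740) (nat_lit 456) (nat_lit 8567598095) (nat_lit 76) (nat_lit 7424938121) (nat_lit 67) (nat_lit 5) (nat_lit 73) (nat_lit 5) (nat_lit 68) (nat_lit 5) (nat_lit 291) (nat_lit 281) (nat_lit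 208))))) (XT.nd (nat_lit 156) (nat_lit 608) (nat_lit 0) (XT.nd (nat_lit 78) (nat_lit 304) (nat_lit 0) (XT.lf (nat_lit 0) (nat_lit 16155019331) (nat_lit 304) (nat_lit 5197571627) (nat_lit 380) (nat_lit 11476668980) (nat_lit 63) (nat_lit 5) (nat_lit 67) (nat_lit 5) (nat_lit 68) (nat_lit 5) (nat_lit 292) (nat_lit 281) (nat_lit 207)) (XT.lf (nat_lit 0) (nat_lit 8796026046) (nat_lit 304) (nat_lit 19521164432) (nat_lit 380) (nat_lit 6061407784) (nat_lit 59) (nat_lit 5) (nat_lit 63) (nat_lit 5) (nat_lit 64) (nat_lit 5) (nat_lit 293) (nat_lit 281) (nat_lit 206))) (XT.nd (nat_lit 78) (nat_lit 304) (nat_lit 0) (XT.lf (nat_lit 0) (nat_lit 187474406) (nat_lit 304) (nat_lit 35256857553) (nat_lit 76) (nat_lit 588059028) (nat_lit 55) (nat_lit 5) (nat_lit 59) (nat_lit 5) (nat_lit 56) (nat_lit 5) (nat_lit 294) (nat_lit 281) (nat_lit 205)) (XT.nd (nat_lit 78) (nat_lit 304) (nat_lit 0) (XT.lf (nat_lit 0)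 (nat_lit 7498427371) (nat_lit 304) (nat_lit 8091569745) (nat_lit 76) (nat_lit 22184814391) (nat_lit 55) (nat_lit 5) (nat_lit 59) (nat_lit 5) (nat_lit 56) (nat_lit 5) (nat_lit 295) (nat_lit 281) (nat_lit 204)) (XT.lf (nat_lit 0) (nat_lit 15824078444) (nat_lit 380) (nat_lit 17799478978) (nat_lit 76) (nat_lit 6011594619) (nat_lit 51) (nat_lit 5) (nat_lit 56) (nat_lit 5) (nat_lit 52) (nat_lit 5) (nat_lit 296) (nat_lit 281) (nat_lit 203)))))) (XT.nd (nat_lit 390) (nat_lit 836) (nat_lit 0) (XT.nd (nat_lit 156) (nat_lit 532) (nat_lit 0) (XT.nd (nat_lit 78) (nat_lit 228) (nat_lit 0) (XT.lf (nat_lit 0) (nat_lit 12946418475) (nat_lit 228) (nat_lit 12468494741) (nat_lit 304) (nat_lit 16199466196) (nat_lit 48) (nat_lit 5) (nat_lit 51) (nat_lit 5) (nat_lit 52) (nat_lit 5) (nat_lit 297) (nat_lit 281) (nat_lit 202)) (XT.lf (nat_lit 0) (nat_lit 2967572842) (nat_lit 228) (nat_lit 33320289508) (nat_lit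 304) (nat_lit 7438355217) (nat_lit 45) (nat_lit 5) (nat_lit 48) (nat_lit 5) (nat_lit 49) (nat_lit 5) (nat_lit 298) (nat_lit 281) (nat_lit 201))) (XT.nd (nat_lit 78) (nat_lit 456) (nat_lit 0) (XT.lf (nat_lit 0) (nat_lit 2668336572) (nat_lit 304) (nat_lit 8085615249) (nat_lit 76) (nat_lit 35216011361) (nat_lit 44) (nat_lit 5) (nat_lit 48) (nat_lit 5) (nat_lit 45) (nat_lit 5) (nat_lit 299) (nat_lit 281) (nat_lit 200)) (XT.nd (nat_lit 78) (nat_lit 228) (nat_lit 0) (XT.lf (nat_lit 0) (nat_lit 13977038146) (nat_lit 304) (nat_lit 20626951640) (nat_lit 76) (nat_lit 13750429967) (nat_lit 41) (nat_lit 5) (nat_lit 45) (nat_lit 5) (nat_lit 42) (nat_lit 5) (nat_lit 300) (nat_lit 281) (nat_lit 199)) (XT.lf (nat_lit 0) (nat_lit 16092892026) (nat_lit 228) (nat_lit 10665935001) (nat_lit 304) (nat_lit 24142397584) (nat_lit 38) (nat_lit 5) (nat_lit 41) (nat_lit 5) (nat_lit 42) (nat_lit 5) (nat_lit 301) (nat_lit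 281) (nat_lit 198))))) (XT.nd (nat_lit 234) (nat_lit 380) (nat_lit 0) (XT.nd (nat_lit 78) (nat_lit 304) (nat_lit 0) (XT.lf (nat_lit 0) (nat_lit 2685908100) (nat_lit 152) (nat_lit 38514493753) (nat_lit 228) (nat_lit 12419520347) (nat_lit 36) (nat_lit 5) (nat_lit 38) (nat_lit 5) (nat_lit 39) (nat_lit 5) (nat_lit 302) (nat_lit 281) (nat_lit 197)) (XT.nd (nat_lit 78) (nat_lit 228) (nat_lit 0) (XT.lf (nat_lit 0) (nat_lit 1022838061) (nat_lit 228) (nat_lit 12306610298) (nat_lit 76) (nat_lit 43187019677) (nat_lit 35) (nat_lit 5) (nat_lit 38) (nat_lit 5) (nat_lit 36) (nat_lit 5) (nat_lit 303) (nat_lit 281) (nat_lit 196)) (XT.lf (nat_lit 0) (nat_lit 15803533988) (nat_lit 304) (nat_lit 29681110852) (nat_lit 76) (nat_lit 14115017906) (nat_lit 32) (nat_lit 5) (nat_lit 36) (nat_lit 5) (nat_lit 33) (nat_lit 5) (nat_lit 304) (nat_lit 281) (nat_lit 195)))) (XT.nd (nat_lit 78) (nat_lit 228) (nat_lit 0)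 (XT.lf (nat_lit 0) (nat_lit 13228453400) (nat_lit 152) (nat_lit 19181437813) (nat_lit 228) (nat_lit 30487469464) (nat_lit 30) (nat_lit 5) (nat_lit 32) (nat_lit 5) (nat_lit 33) (nat_lit 5) (nat_lit 305) (nat_lit 281) (nat_lit 194)) (XT.nd (nat_lit 78) (nat_lit 228) (nat_lit 0) (XT.lf (nat_lit 0) (nat_lit 51008589044) (nat_lit 228) (nat_lit 5963771608) (nat_lit 76) (nat_lit 9453329528) (nat_lit 30) (nat_lit 5) (nat_lit 33) (nat_lit 5) (nat_lit 31) (nat_lit 5) (nat_lit 306) (nat_lit 281) (nat_lit 193)) (XT.lf (nat_lit 0) (nat_lit 1825350672) (nat_lit 228) (nat_lit 27958211096) (nat_lit 76) (nat_lit 40402363054) (nat_lit 27) (nat_lit 5) (nat_lit 30) (nat_lit 5) (nat_lit 28) (nat_lit 5) (nat_lit 307) (nat_lit 281) (nat_lit 192))))))))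
noncomputable def xc87 : XT := (XT.nd (nat_lit 1638) (nat_lit 456) (nat_lit 0) (XT.nd (nat_lit 780) (nat_lit 532) (nat_lit 0) (XT.nd (nat_lit 390) (nat_lit 456) (nat_lit 0) (XT.nd (nat_lit 156) (nat_lit 304) (nat_lit 0) (XT.nd (nat_lit 78) (nat_lit 0) (nat_lit 0) (XT.lf (nat_lit 0) (nat_lit 20341626597) (nat_lit 228) (nat_lit 53581068641) (nat_lit 76) (nat_lit 289923615) (nat_lit 25) (nat_lit 5) (nat_lit 28) (nat_lit 5) (nat_lit 26) (nat_lit 5) (nat_lit 308) (nat_lit 281) (nat_lit 191)) (XT.lf (nat_lit 0) (nat_lit 41331510660) (nat_lit 228) (nat_lit 4948338492) (nat_lit 76) (nat_lit 32231989500) (nat_lit 25) (nat_lit 5) (nat_lit 28) (nat_lit 5) (nat_lit 26) (nat_lit 5) (nat_lit 309) (nat_lit 281) (nat_lit 190))) (XT.nd (nat_lit 78) (nat_lit 152) (nat_lit 0) (XT.lf (nat_lit 0) (nat_lit 49140476255) (nat_lit 152) (nat_lit 15622795459) (nat_lit 228) (nat_lit 18353595146) (nat_lit 23) (nat_lit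 5) (nat_lit 25) (nat_lit 5) (nat_lit 26) (nat_lit 5) (nat_lit 310) (nat_lit 281) (nat_lit 189)) (XT.nd (nat_lit 78) (nat_lit 0) (nat_lit 0) (XT.lf (nat_lit 0) (nat_lit 2595508092) (nat_lit 152) (nat_lit 68092937552) (nat_lit 76) (nat_lit 17366332058) (nat_lit 21) (nat_lit 5) (nat_lit 23) (nat_lit 5) (nat_lit 22) (nat_lit 5) (nat_lit 311) (nat_lit 281) (nat_lit 188)) (XT.lf (nat_lit 0) (nat_lit 25446886095) (nat_lit 152) (nat_lit 14519345791) (nat_lit 76) (nat_lit 53362981435) (nat_lit 21) (nat_lit 5) (nat_lit 23) (nat_lit 5) (nat_lit 22) (nat_lit 5) (nat_lit 312) (nat_lit 281) (nat_lit 187))))) (XT.nd (nat_lit 156) (nat_lit 228) (nat_lit 0) (XT.nd (nat_lit 78) (nat_lit 76) (nat_lit 0) (XT.lf (nat_lit 0) (nat_lit 44766433554) (nat_lit 152) (nat_lit 6054974405) (nat_lit 228) (nat_lit 48169448036) (nat_lit 19) (nat_lit 5) (nat_lit 21) (nat_lit 5) (nat_lit 22) (nat_lit 5) (nat_lit 313) (nat_lit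 281) (nat_lit 186)) (XT.lf (nat_lit 0) (nat_lit 3856412676) (nat_lit 76) (nat_lit 75160279012) (nat_lit 152) (nat_lit 26049201983) (nat_lit 18) (nat_lit 5) (nat_lit 19) (nat_lit 5) (nat_lit 20) (nat_lit 4) (nat_lit 314) (nat_lit 281) (nat_lit 185))) (XT.nd (nat_lit 78) (nat_lit 228) (nat_lit 0) (XT.lf (nat_lit 0) (nat_lit 68408482411) (nat_lit 76) (nat_lit 42100559753) (nat_lit 152) (nat_lit 1065823325) (nat_lit 18) (nat_lit 5) (nat_lit 19) (nat_lit 5) (nat_lit 20) (nat_lit 4) (nat_lit 315) (nat_lit 281) (nat_lit 184)) (XT.nd (nat_lit 78) (nat_lit 0) (nat_lit 0) (XT.lf (nat_lit 0) (nat_lit 19741635945) (nat_lit 152) (nat_lit 5649976054) (nat_lit 228) (nat_lit 93177471372) (nat_lit 15) (nat_lit 5) (nat_lit 17) (nat_lit 5) (nat_lit 18) (nat_lit 5) (nat_lit 316) (nat_lit 281) (nat_lit 183)) (XT.lf (nat_lit 0) (nat_lit 55216240407) (nat_lit 228) (nat_lit 37423831404) (nat_lit 76) (nat_lit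 33417498989) (nat_lit 15) (nat_lit 5) (nat_lit 18) (nat_lit 5) (nat_lit 16) (nat_lit 4) (nat_lit 317) (nat_lit 281) (nat_lit 182)))))) (XT.nd (nat_lit 390) (nat_lit 228) (nat_lit 0) (XT.nd (nat_lit 156) (nat_lit 228) (nat_lit 0) (XT.nd (nat_lit 78) (nat_lit 0) (nat_lit 0) (XT.lf (nat_lit 0) (nat_lit 29743568795) (nat_lit 76) (nat_lit 58239930379) (nat_lit 152) (nat_lit 46133807565) (nat_lit 14) (nat_lit 5) (nat_lit 15) (nat_lit 5) (nat_lit 16) (nat_lit 4) (nat_lit 318) (nat_lit 281) (nat_lit 181)) (XT.lf (nat_lit 0) (nat_lit 103615764505) (nat_lit 76) (nat_lit 20405427369) (nat_lit 152) (nat_lit 18768179346) (nat_lit 14) (nat_lit 5) (nat_lit 15) (nat_lit 5) (nat_lit 16) (nat_lit 4) (nat_lit 319) (nat_lit 281) (nat_lit 180))) (XT.nd (nat_lit 78) (nat_lit 76) (nat_lit 0) (XT.lf (nat_lit 0) (nat_lit 11270213849) (nat_lit 152) (nat_lit 120355468548) (nat_lit 76) (nat_lit 20479662165) (nat_lit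 12) (nat_lit 5) (nat_lit 14) (nat_lit 5) (nat_lit 13) (nat_lit 4) (nat_lit 320) (nat_lit 281) (nat_lit 179)) (XT.nd (nat_lit 78) (nat_lit 76) (nat_lit 0) (XT.lf (nat_lit 0) (nat_lit 44097979343) (nat_lit 152) (nat_lit 53062692539) (nat_lit 76) (nat_lit 64938349719) (nat_lit 12) (nat_lit 5) (nat_lit 14) (nat_lit 5) (nat_lit 13) (nat_lit 4) (nat_lit 321) (nat_lit 281) (nat_lit 178)) (XT.lf (nat_lit 0) (nat_lit 20257611912) (nat_lit 76) (nat_lit 59608240990) (nat_lit 152) (nat_lit 93010647321) (nat_lit 11) (nat_lit 5) (nat_lit 12) (nat_lit 5) (nat_lit 13) (nat_lit 4) (nat_lit 322) (nat_lit 281) (nat_lit 177))))) (XT.nd (nat_lit 234) (nat_lit 76) (nat_lit 0) (XT.nd (nat_lit 78) (nat_lit 152) (nat_lit 0) (XT.lf (nat_lit 0) (nat_lit 101334313918) (nat_lit 76) (nat_lit 18082882485) (nat_lit 152) (nat_lit 65052880360) (nat_lit 11) (nat_lit 5) (nat_lit 12) (nat_lit 5) (nat_lit 13) (nat_lit 4) (nat_lit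 323) (nat_lit 281) (nat_lit 176)) (XT.nd (nat_lit 78) (nat_lit 152) (nat_lit 0) (XT.lf (nat_lit 0) (nat_lit 162548381196) (nat_lit 152) (nat_lit 8515713532) (nat_lit 0) (nat_lit 25906259521) (nat_lit 11) (nat_lit 5) (nat_lit 13) (nat_lit 4) (nat_lit 11) (nat_lit 4) (nat_lit 324) (nat_lit 281) (nat_lit 175)) (XT.lf (nat_lit 0) (nat_lit 186695345) (nat_lit 152) (nat_lit 136262296612) (nat_lit 76) (nat_lit 73948490771) (nat_lit 9) (nat_lit 5) (nat_lit 11) (nat_lit 5) (nat_lit 10) (nat_lit 4) (nat_lit 325) (nat_lit 281) (nat_lit 174)))) (XT.nd (nat_lit 78) (nat_lit 76) (nat_lit 0) (XT.lf (nat_lit 0) (nat_lit 36523055678) (nat_lit 152) (nat_lit 61775443481) (nat_lit 76) (nat_lit 126563819992) (nat_lit 9) (nat_lit 5) (nat_lit 11) (nat_lit 5) (nat_lit 10) (nat_lit 4) (nat_lit 326) (nat_lit 281) (nat_lit 173)) (XT.nd (nat_lit 78) (nat_lit 0) (nat_lit 0) (XT.lf (nat_lit 0) (nat_lit 19284354615)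 (nat_lit 76) (nat_lit 56781278974) (nat_lit 152) (nat_lit 164403744603) (nat_lit 8) (nat_lit 5) (nat_lit 9) (nat_lit 5) (nat_lit 10) (nat_lit 4) (nat_lit 327) (nat_lit 281) (nat_lit 172)) (XT.lf (nat_lit 0) (nat_lit 109031834724) (nat_lit 76) (nat_lit 10814180589) (nat_lit 152) (nat_lit 137425267821) (nat_lit 8) (nat_lit 5) (nat_lit 9) (nat_lit 5) (nat_lit 10) (nat_lit 4) (nat_lit 328) (nat_lit 281) (nat_lit 171))))))) (XT.nd (nat_lit 858) (nat_lit 152) (nat_lit 0) (XT.nd (nat_lit 390) (nat_lit 152) (nat_lit 0) (XT.nd (nat_lit 156) (nat_lit 76) (nat_lit 0) (XT.nd (nat_lit 78) (nat_lit 76) (nat_lit 0) (XT.lf (nat_lit 0) (nat_lit 167733491487) (nat_lit 152) (nat_lit 70067390567) (nat_lit 0) (nat_lit 37586226204) (nat_lit 8) (nat_lit 5) (nat_lit 10) (nat_lit 4) (nat_lit 8) (nat_lit 4) (nat_lit 329) (nat_lit 281) (nat_lit 170)) (XT.lf (nat_lit 0) (nat_lit 14642023332) (nat_lit 76) (nat_lit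 205219424064) (nat_lit 76) (nat_lit 75070278818) (nat_lit 7) (nat_lit 4) (nat_lit 8) (nat_lit 5) (nat_lit 8) (nat_lit 4) (nat_lit 330) (nat_lit 281) (nat_lit 169))) (XT.nd (nat_lit 78) (nat_lit 76) (nat_lit 0) (XT.lf (nat_lit 0) (nat_lit 108627693586) (nat_lit 76) (nat_lit 168751075181) (nat_lit 76) (nat_lit 38600189230) (nat_lit 7) (nat_lit 4) (nat_lit 8) (nat_lit 5) (nat_lit 8) (nat_lit 4) (nat_lit 331) (nat_lit 281) (nat_lit 168)) (XT.nd (nat_lit 78) (nat_lit 0) (nat_lit 0) (XT.lf (nat_lit 0) (nat_lit 760984301) (nat_lit 152) (nat_lit 128592479896) (nat_lit 76) (nat_lit 209355956009) (nat_lit 6) (nat_lit 5) (nat_lit 8) (nat_lit 5) (nat_lit 7) (nat_lit 4) (nat_lit 332) (nat_lit 281) (nat_lit 167)) (XT.lf (nat_lit 0) (nat_lit 41935548399) (nat_lit 152) (nat_lit 44186115870) (nat_lit 76) (nat_lit 277104173346) (nat_lit 6) (nat_lit 5) (nat_lit 8) (nat_lit 5) (nat_lit 7) (nat_lit 4) (nat_lit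 333) (nat_lit 281) (nat_lit 166))))) (XT.nd (nat_lit 234) (nat_lit 76) (nat_lit 0) (XT.nd (nat_lit 78) (nat_lit 0) (nat_lit 0) (XT.lf (nat_lit 0) (nat_lit 48523733155) (nat_lit 76) (nat_lit 38636805905) (nat_lit 152) (nat_lit 302505206920) (nat_lit 5) (nat_lit 5) (nat_lit 6) (nat_lit 5) (nat_lit 7) (nat_lit 4) (nat_lit 334) (nat_lit 281) (nat_lit 165)) (XT.nd (nat_lit 78) (nat_lit 0) (nat_lit 0) (XT.lf (nat_lit 0) (nat_lit 136982201342) (nat_lit 152) (nat_lit 268166226905) (nat_lit 0) (nat_lit 13023485734) (nat_lit 5) (nat_lit 5) (nat_lit 7) (nat_lit 4) (nat_lit 5) (nat_lit 4) (nat_lit 335) (nat_lit 281) (nat_lit 164)) (XT.lf (nat_lit 0) (nat_lit 191440072785) (nat_lit 152) (nat_lit 190005750478) (nat_lit 0) (nat_lit 67480228896) (nat_lit 5) (nat_lit 5) (nat_lit 7) (nat_lit 4) (nat_lit 5) (nat_lit 4) (nat_lit 336) (nat_lit 281) (nat_lit 163)))) (XT.nd (nat_lit 78) (nat_lit 76) (nat_lit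 0) (XT.lf (nat_lit 0) (nat_lit 250253637881) (nat_lit 152) (nat_lit 105594181530) (nat_lit 0) (nat_lit 126292749287) (nat_lit 5) (nat_lit 5) (nat_lit 7) (nat_lit 4) (nat_lit 5) (nat_lit 4) (nat_lit 337) (nat_lit 281) (nat_lit 162)) (XT.nd (nat_lit 78) (nat_lit 76) (nat_lit 0) (XT.lf (nat_lit 0) (nat_lit 313771421460) (nat_lit 152) (nat_lit 14431303356) (nat_lit 0) (nat_lit 189809565547) (nat_lit 5) (nat_lit 5) (nat_lit 7) (nat_lit 4) (nat_lit 5) (nat_lit 4) (nat_lit 338) (nat_lit 281) (nat_lit 161)) (XT.lf (nat_lit 0) (nat_lit 86801291932) (nat_lit 76) (nat_lit 296923744698) (nat_lit 76) (nat_lit 172960993119) (nat_lit 4) (nat_lit 4) (nat_lit 5) (nat_lit 5) (nat_lit 5) (nat_lit 4) (nat_lit 339) (nat_lit 281) (nat_lit 160)))))) (XT.nd (nat_lit 390) (nat_lit 76) (nat_lit 0) (XT.nd (nat_lit 156) (nat_lit 76) (nat_lit 0) (XT.nd (nat_lit 78) (nat_lit 0) (nat_lit 0) (XT.lf (nat_lit 0) (nat_lit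 196646400506) (nat_lit 76) (nat_lit 262879159075) (nat_lit 76) (nat_lit 138915578175) (nat_lit 4) (nat_lit 4) (nat_lit 5) (nat_lit 5) (nat_lit 5) (nat_lit 4) (nat_lit 340) (nat_lit 281) (nat_lit 159)) (XT.lf (nat_lit 0) (nat_lit 315277792278) (nat_lit 76) (nat_lit 226111623360) (nat_lit 76) (nat_lit 102147274572) (nat_lit 4) (nat_lit 4) (nat_lit 5) (nat_lit 5) (nat_lit 5) (nat_lit 4) (nat_lit 341) (nat_lit 281) (nat_lit 158))) (XT.nd (nat_lit 78) (nat_lit 76) (nat_lit 0) (XT.lf (nat_lit 0) (nat_lit 443398468090) (nat_lit 76) (nat_lit 186403255861) (nat_lit 76) (nat_lit 62438196064) (nat_lit 4) (nat_lit 4) (nat_lit 5) (nat_lit 5) (nat_lit 5) (nat_lit 4) (nat_lit 342) (nat_lit 281) (nat_lit 157)) (XT.nd (nat_lit 78) (nat_lit 76) (nat_lit 0) (XT.lf (nat_lit 0) (nat_lit 581767661575) (nat_lit 76) (nat_lit 143518747734) (nat_lit 76) (nat_lit 19553029596) (nat_lit 4) (nat_lit 4) (nat_lit 5)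 (nat_lit 5) (nat_lit 5) (nat_lit 4) (nat_lit 343) (nat_lit 281) (nat_lit 156)) (XT.lf (nat_lit 0) (nat_lit 25905796527) (nat_lit 152) (nat_lit 70859444832) (nat_lit 76) (nat_lit 704860814599) (nat_lit 3) (nat_lit 5) (nat_lit 5) (nat_lit 5) (nat_lit 4) (nat_lit 4) (nat_lit 344) (nat_lit 281) (nat_lit 155))))) (XT.nd (nat_lit 35802) (nat_lit 0) (nat_lit 6232) (XT.nd (nat_lit 78) (nat_lit 0) (nat_lit 0) (XT.lf (nat_lit 0) (nat_lit 29338187646) (nat_lit 76) (nat_lit 45444778100) (nat_lit 152) (nat_lit 788133275819) (nat_lit 2) (nat_lit 5) (nat_lit 3) (nat_lit 5) (nat_lit 4) (nat_lit 4) (nat_lit 345) (nat_lit 281) (nat_lit 154)) (XT.nd (nat_lit 35646) (nat_lit 0) (nat_lit 6232) (XT.lf (nat_lit 0) (nat_lit 128980193337) (nat_lit 152) (nat_lit 789142965866) (nat_lit 0) (nat_lit 10915988816) (nat_lit 2) (nat_lit 5) (nat_lit 4) (nat_lit 4) (nat_lit 2) (nat_lit 4) (nat_lit 346) (nat_lit 281) (nat_lit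 153)) (XT.lf (nat_lit 0) (nat_lit 3708585957) (nat_lit 0) (nat_lit 3708585957) (nat_lit 684) (nat_lit 3750884987) (nat_lit 84) (nat_lit 5) (nat_lit 84) (nat_lit 3) (nat_lit 93) (nat_lit 3) (nat_lit 282) (nat_lit 282) (nat_lit 216)))) (XT.nd (nat_lit 78) (nat_lit 0) (nat_lit 76) (XT.lf (nat_lit 76) (nat_lit 936166382) (nat_lit 0) (nat_lit 14834258180) (nat_lit 760) (nat_lit 7441549651) (nat_lit 85) (nat_lit 5) (nat_lit 84) (nat_lit 5) (nat_lit 94) (nat_lit 5) (nat_lit 283) (nat_lit 282) (nat_lit 215)) (XT.nd (nat_lit 78) (nat_lit 0) (nat_lit 0) (XT.lf (nat_lit 0) (nat_lit 17165373896) (nat_lit 684) (nat_lit 5708130229) (nat_lit 760) (nat_lit 1265245125) (nat_lit 85) (nat_lit 5) (nat_lit 94) (nat_lit 5) (nat_lit 95) (nat_lit 5) (nat_lit 284) (nat_lit 282) (nat_lit 214)) (XT.lf (nat_lit 76) (nat_lit 12317658764) (nat_lit 0) (nat_lit 6778904693) (nat_lit 760) (nat_lit 6021912192) (nat_lit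 86) (nat_lit 5) (nat_lit 85) (nat_lit 5) (nat_lit 95) (nat_lit 5) (nat_lit 285) (nat_lit 282) (nat_lit 213))))))))
noncomputable def xc88 : XT := (XT.nd (nat_lit 1638) (nat_lit 1596) (nat_lit 0) (XT.nd (nat_lit 780) (nat_lit 1900) (nat_lit 0) (XT.nd (nat_lit 390) (nat_lit 1292) (nat_lit 0) (XT.nd (nat_lit 156) (nat_lit 1064) (nat_lit 0) (XT.nd (nat_lit 78) (nat_lit 0) (nat_lit 76) (XT.lf (nat_lit 76) (nat_lit 5825124576) (nat_lit 0) (nat_lit 15698114947) (nat_lit 760) (nat_lit 4636329566) (nat_lit 87) (nat_lit 5) (nat_lit 86) (nat_lit 5) (nat_lit 96) (nat_lit 5) (nat_lit 286) (nat_lit 282) (nat_lit 212)) (XT.lf (nat_lit 0) (nat_lit 24492156976) (nat_lit 684) (nat_lit 1027358183) (nat_lit 760) (nat_lit 1747065122) (nat_lit 87) (nat_lit 5) (nat_lit 96) (nat_lit 5) (nat_lit 97) (nat_lit 5) (nat_lit 287) (nat_lit 282) (nat_lit 211))) (XT.nd (nat_lit 78) (nat_lit 1140) (nat_lit 0) (XT.lf (nat_lit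 76) (nat_lit 20194619584) (nat_lit 0) (nat_lit 8069656759) (nat_lit 760) (nat_lit 169624606) (nat_lit 88) (nat_lit 5) (nat_lit 87) (nat_lit 5) (nat_lit 97) (nat_lit 5) (nat_lit 288) (nat_lit 282) (nat_lit 210)) (XT.nd (nat_lit 78) (nat_lit 456) (nat_lit 0) (XT.lf (nat_lit 0) (nat_lit 2952475782) (nat_lit 760) (nat_lit 16006683172) (nat_lit 76) (nat_lit 10713737344) (nat_lit 78) (nat_lit 5) (nat_lit 88) (nat_lit 5) (nat_lit 79) (nat_lit 5) (nat_lit 289) (nat_lit 282) (nat_lit 209)) (XT.lf (nat_lit 0) (nat_lit 6675379573) (nat_lit 456) (nat_lit 16477776) (nat_lit 532) (nat_lit 24300369038) (nat_lit 72) (nat_lit 5) (nat_lit 78) (nat_lit 5) (nat_lit 79) (nat_lit 5) (nat_lit 290) (nat_lit 282) (nat_lit 208))))) (XT.nd (nat_lit 156) (nat_lit 912) (nat_lit 0) (XT.nd (nat_lit 78) (nat_lit 380) (nat_lit 0) (XT.lf (nat_lit 0) (nat_lit 11320938284) (nat_lit 532) (nat_lit 994949042) (nat_lit 76) (nat_lit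 20071713069) (nat_lit 72) (nat_lit 5) (nat_lit 79) (nat_lit 5) (nat_lit 73) (nat_lit 5) (nat_lit 291) (nat_lit 282) (nat_lit 207)) (XT.lf (nat_lit 0) (nat_lit 16828838908) (nat_lit 456) (nat_lit 9023793231) (nat_lit 76) (nat_lit 8016570625) (nat_lit 67) (nat_lit 5) (nat_lit 73) (nat_lit 5) (nat_lit 68) (nat_lit 5) (nat_lit 292) (nat_lit 282) (nat_lit 206))) (XT.nd (nat_lit 78) (nat_lit 608) (nat_lit 0) (XT.lf (nat_lit 0) (nat_lit 17666672284) (nat_lit 304) (nat_lit 5601362588) (nat_lit 380) (nat_lit 12176786679) (nat_lit 63) (nat_lit 5) (nat_lit 67) (nat_lit 5) (nat_lit 68) (nat_lit 5) (nat_lit 293) (nat_lit 282) (nat_lit 205)) (XT.nd (nat_lit 78) (nat_lit 304) (nat_lit 0) (XT.lf (nat_lit 0) (nat_lit 9719562438) (nat_lit 304) (nat_lit 21058495284) (nat_lit 380) (nat_lit 6340667365) (nat_lit 59) (nat_lit 5) (nat_lit 63) (nat_lit 5) (nat_lit 64) (nat_lit 5) (nat_lit 294) (nat_lit 282) (nat_lit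 204)) (XT.lf (nat_lit 0) (nat_lit 390640848) (nat_lit 304) (nat_lit 37851188360) (nat_lit 76) (nat_lit 663403861) (nat_lit 55) (nat_lit 5) (nat_lit 59) (nat_lit 5) (nat_lit 56) (nat_lit 5) (nat_lit 295) (nat_lit 282) (nat_lit 203)))))) (XT.nd (nat_lit 390) (nat_lit 1064) (nat_lit 0) (XT.nd (nat_lit 156) (nat_lit 532) (nat_lit 0) (XT.nd (nat_lit 78) (nat_lit 304) (nat_lit 0) (XT.lf (nat_lit 0) (nat_lit 8272531643) (nat_lit 304) (nat_lit 8529434402) (nat_lit 76) (nat_lit 23985803349) (nat_lit 55) (nat_lit 5) (nat_lit 59) (nat_lit 5) (nat_lit 56) (nat_lit 5) (nat_lit 296) (nat_lit 282) (nat_lit 202)) (XT.lf (nat_lit 0) (nat_lit 17255017609) (nat_lit 380) (nat_lit 19015125105) (nat_lit 76) (nat_lit 6527278689) (nat_lit 51) (nat_lit 5) (nat_lit 56) (nat_lit 5) (nat_lit 52) (nat_lit 5) (nat_lit 297) (nat_lit 282) (nat_lit 201))) (XT.nd (nat_lit 78) (nat_lit 304) (nat_lit 0) (XT.lf (nat_lit 0)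 (nat_lit 14181391150) (nat_lit 228) (nat_lit 13422615830) (nat_lit 304) (nat_lit 17331457233) (nat_lit 48) (nat_lit 5) (nat_lit 51) (nat_lit 5) (nat_lit 52) (nat_lit 5) (nat_lit 298) (nat_lit 282) (nat_lit 200)) (XT.nd (nat_lit 78) (nat_lit 76) (nat_lit 0) (XT.lf (nat_lit 0) (nat_lit 3402645809) (nat_lit 228) (nat_lit 35936310976) (nat_lit 304) (nat_lit 7877704436) (nat_lit 45) (nat_lit 5) (nat_lit 48) (nat_lit 5) (nat_lit 49) (nat_lit 5) (nat_lit 299) (nat_lit 282) (nat_lit 199)) (XT.lf (nat_lit 0) (nat_lit 3021373138) (nat_lit 304) (nat_lit 8544603657) (nat_lit 76) (nat_lit 38074384080) (nat_lit 44) (nat_lit 5) (nat_lit 48) (nat_lit 5) (nat_lit 45) (nat_lit 5) (nat_lit 300) (nat_lit 282) (nat_lit 198))))) (XT.nd (nat_lit 234) (nat_lit 456) (nat_lit 0) (XT.nd (nat_lit 78) (nat_lit 380) (nat_lit 0) (XT.lf (nat_lit 0) (nat_lit 15227982018) (nat_lit 304) (nat_lit 22091348911) (nat_lit 76)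 (nat_lit 14896598844) (nat_lit 41) (nat_lit 5) (nat_lit 45) (nat_lit 5) (nat_lit 42) (nat_lit 5) (nat_lit 301) (nat_lit 282) (nat_lit 197)) (XT.nd (nat_lit 78) (nat_lit 152) (nat_lit 0) (XT.lf (nat_lit 0) (nat_lit 17558009394) (nat_lit 228) (nat_lit 11467243176) (nat_lit 304) (nat_lit 25941594672) (nat_lit 38) (nat_lit 5) (nat_lit 41) (nat_lit 5) (nat_lit 42) (nat_lit 5) (nat_lit 302) (nat_lit 282) (nat_lit 196)) (XT.lf (nat_lit 0) (nat_lit 3076162580) (nat_lit 152) (nat_lit 41540167702) (nat_lit 228) (nat_lit 13287015538) (nat_lit 36) (nat_lit 5) (nat_lit 38) (nat_lit 5) (nat_lit 39) (nat_lit 5) (nat_lit 303) (nat_lit 282) (nat_lit 195)))) (XT.nd (nat_lit 78) (nat_lit 380) (nat_lit 0) (XT.lf (nat_lit 0) (nat_lit 1217657257) (nat_lit 228) (nat_lit 13124857883) (nat_lit 76) (nat_lit 46689466109) (nat_lit 35) (nat_lit 5) (nat_lit 38) (nat_lit 5) (nat_lit 36) (nat_lit 5) (nat_lit 304) (nat_lit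 282) (nat_lit 194)) (XT.nd (nat_lit 78) (nat_lit 152) (nat_lit 0) (XT.lf (nat_lit 0) (nat_lit 17175733434) (nat_lit 304) (nat_lit 31891857483) (nat_lit 76) (nat_lit 15294505844) (nat_lit 32) (nat_lit 5) (nat_lit 36) (nat_lit 5) (nat_lit 33) (nat_lit 5) (nat_lit 305) (nat_lit 282) (nat_lit 193)) (XT.lf (nat_lit 0) (nat_lit 14443355872) (nat_lit 152) (nat_lit 20661694908) (nat_lit 228) (nat_lit 32818847775) (nat_lit 30) (nat_lit 5) (nat_lit 32) (nat_lit 5) (nat_lit 33) (nat_lit 5) (nat_lit 306) (nat_lit 282) (nat_lit 192))))))) (XT.nd (nat_lit 780) (nat_lit 684) (nat_lit 0) (XT.nd (nat_lit 390) (nat_lit 380) (nat_lit 0) (XT.nd (nat_lit 156) (nat_lit 304) (nat_lit 0) (XT.nd (nat_lit 78) (nat_lit 228) (nat_lit 0) (XT.lf (nat_lit 0) (nat_lit 55184845971) (nat_lit 228) (nat_lit 6291771431) (nat_lit 76) (nat_lit 10258226758) (nat_lit 30) (nat_lit 5) (nat_lit 33) (nat_lit 5) (nat_lit 31) (nat_lit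 5) (nat_lit 307) (nat_lit 282) (nat_lit 191)) (XT.lf (nat_lit 0) (nat_lit 2063693198) (nat_lit 228) (nat_lit 30049085291) (nat_lit 76) (nat_lit 43683296354) (nat_lit 27) (nat_lit 5) (nat_lit 30) (nat_lit 5) (nat_lit 28) (nat_lit 5) (nat_lit 308) (nat_lit 282) (nat_lit 190))) (XT.nd (nat_lit 78) (nat_lit 152) (nat_lit 0) (XT.lf (nat_lit 0) (nat_lit 22057418893) (nat_lit 228) (nat_lit 57724432723) (nat_lit 76) (nat_lit 363253415) (nat_lit 25) (nat_lit 5) (nat_lit 28) (nat_lit 5) (nat_lit 26) (nat_lit 5) (nat_lit 309) (nat_lit 282) (nat_lit 189)) (XT.nd (nat_lit 78) (nat_lit 152) (nat_lit 0) (XT.lf (nat_lit 0) (nat_lit 44719940928) (nat_lit 228) (nat_lit 5211685748) (nat_lit 76) (nat_lit 34856970799) (nat_lit 25) (nat_lit 5) (nat_lit 28) (nat_lit 5) (nat_lit 26) (nat_lit 5) (nat_lit 310) (nat_lit 282) (nat_lit 188)) (XT.lf (nat_lit 0) (nat_lit 53198475028) (nat_lit 152) (nat_lit 16823679563)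 (nat_lit 228) (nat_lit 19740084635) (nat_lit 23) (nat_lit 5) (nat_lit 25) (nat_lit 5) (nat_lit 26) (nat_lit 5) (nat_lit 311) (nat_lit 282) (nat_lit 187))))) (XT.nd (nat_lit 156) (nat_lit 228) (nat_lit 0) (XT.nd (nat_lit 78) (nat_lit 0) (nat_lit 0) (XT.lf (nat_lit 0) (nat_lit 2879155586) (nat_lit 152) (nat_lit 73413458577) (nat_lit 76) (nat_lit 18802669642) (nat_lit 21) (nat_lit 5) (nat_lit 23) (nat_lit 5) (nat_lit 22) (nat_lit 5) (nat_lit 312) (nat_lit 282) (nat_lit 186)) (XT.lf (nat_lit 0) (nat_lit 27553013693) (nat_lit 152) (nat_lit 15563380511) (nat_lit 76) (nat_lit 57675567190) (nat_lit 21) (nat_lit 5) (nat_lit 23) (nat_lit 5) (nat_lit 22) (nat_lit 5) (nat_lit 313) (nat_lit 282) (nat_lit 185))) (XT.nd (nat_lit 78) (nat_lit 76) (nat_lit 0) (XT.lf (nat_lit 0) (nat_lit 48460154212) (nat_lit 152) (nat_lit 6493884976) (nat_lit 228) (nat_lit 51952674395) (nat_lit 19) (nat_lit 5) (nat_lit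 21) (nat_lit 5) (nat_lit 22) (nat_lit 5) (nat_lit 314) (nat_lit 282) (nat_lit 184)) (XT.nd (nat_lit 78) (nat_lit 0) (nat_lit 0) (XT.lf (nat_lit 0) (nat_lit 4275029974) (nat_lit 76) (nat_lit 81127335325) (nat_lit 152) (nat_lit 28065522803) (nat_lit 18) (nat_lit 5) (nat_lit 19) (nat_lit 5) (nat_lit 20) (nat_lit 4) (nat_lit 315) (nat_lit 282) (nat_lit 183)) (XT.lf (nat_lit 0) (nat_lit 73983109415) (nat_lit 76) (nat_lit 45426228600) (nat_lit 152) (nat_lit 1088482396) (nat_lit 18) (nat_lit 5) (nat_lit 19) (nat_lit 5) (nat_lit 20) (nat_lit 4) (nat_lit 316) (nat_lit 282) (nat_lit 182)))))) (XT.nd (nat_lit 390) (nat_lit 228) (nat_lit 0) (XT.nd (nat_lit 156) (nat_lit 228) (nat_lit 0) (XT.nd (nat_lit 78) (nat_lit 0) (nat_lit 0) (XT.lf (nat_lit 0) (nat_lit 21420452140) (nat_lit 152) (nat_lit 6060155940) (nat_lit 228) (nat_lit 100571069491) (nat_lit 15) (nat_lit 5) (nat_lit 17) (nat_lit 5) (nat_lit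 18) (nat_lit 5) (nat_lit 317) (nat_lit 282) (nat_lit 181)) (XT.lf (nat_lit 0) (nat_lit 59687539659) (nat_lit 228) (nat_lit 40323511167) (nat_lit 76) (nat_lit 36128380163) (nat_lit 15) (nat_lit 5) (nat_lit 18) (nat_lit 5) (nat_lit 16) (nat_lit 4) (nat_lit 318) (nat_lit 282) (nat_lit 180))) (XT.nd (nat_lit 78) (nat_lit 152) (nat_lit 0) (XT.lf (nat_lit 0) (nat_lit 32213186068) (nat_lit 76) (nat_lit 62860400267) (nat_lit 152) (nat_lit 49770492475) (nat_lit 14) (nat_lit 5) (nat_lit 15) (nat_lit 5) (nat_lit 16) (nat_lit 4) (nat_lit 319) (nat_lit 282) (nat_lit 179)) (XT.nd (nat_lit 78) (nat_lit 152) (nat_lit 0) (XT.lf (nat_lit 0) (nat_lit 111988481007) (nat_lit 76) (nat_lit 22002005500) (nat_lit 152) (nat_lit 20219615458) (nat_lit 14) (nat_lit 5) (nat_lit 15) (nat_lit 5) (nat_lit 16) (nat_lit 4) (nat_lit 320) (nat_lit 282) (nat_lit 178)) (XT.lf (nat_lit 0) (nat_lit 12218483669) (nat_lit 152)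 (nat_lit 129900722285) (nat_lit 76) (nat_lit 22152199157) (nat_lit 12) (nat_lit 5) (nat_lit 14) (nat_lit 5) (nat_lit 13) (nat_lit 4) (nat_lit 321) (nat_lit 282) (nat_lit 177))))) (XT.nd (nat_lit 234) (nat_lit 152) (nat_lit 0) (XT.nd (nat_lit 78) (nat_lit 76) (nat_lit 0) (XT.lf (nat_lit 0) (nat_lit 47669014646) (nat_lit 152) (nat_lit 57230685954) (nat_lit 76) (nat_lit 70165051047) (nat_lit 12) (nat_lit 5) (nat_lit 14) (nat_lit 5) (nat_lit 13) (nat_lit 4) (nat_lit 322) (nat_lit 282) (nat_lit 176)) (XT.nd (nat_lit 78) (nat_lit 0) (nat_lit 0) (XT.lf (nat_lit 0) (nat_lit 21951895570) (nat_lit 76) (nat_lit 64344373014) (nat_lit 152) (nat_lit 100408264809) (nat_lit 11) (nat_lit 5) (nat_lit 12) (nat_lit 5) (nat_lit 13) (nat_lit 4) (nat_lit 323) (nat_lit 282) (nat_lit 175)) (XT.lf (nat_lit 0) (nat_lit 109509276352) (nat_lit 76) (nat_lit 19499395254) (nat_lit 152) (nat_lit 70217079032) (nat_lit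 11) (nat_lit 5) (nat_lit 12) (nat_lit 5) (nat_lit 13) (nat_lit 4) (nat_lit 324) (nat_lit 282) (nat_lit 174)))) (XT.nd (nat_lit 78) (nat_lit 152) (nat_lit 0) (XT.lf (nat_lit 0) (nat_lit 175587964390) (nat_lit 152) (nat_lit 9132452685) (nat_lit 0) (nat_lit 28005754608) (nat_lit 11) (nat_lit 5) (nat_lit 13) (nat_lit 4) (nat_lit 11) (nat_lit 4) (nat_lit 325) (nat_lit 282) (nat_lit 173)) (XT.nd (nat_lit 78) (nat_lit 0) (nat_lit 0) (XT.lf (nat_lit 0) (nat_lit 236242348) (nat_lit 152) (nat_lit 147100399589) (nat_lit 76) (nat_lit 79890886556) (nat_lit 9) (nat_lit 5) (nat_lit 11) (nat_lit 5) (nat_lit 10) (nat_lit 4) (nat_lit 326) (nat_lit 282) (nat_lit 172)) (XT.lf (nat_lit 0) (nat_lit 39476947701) (nat_lit 152) (nat_lit 66659256042) (nat_lit 76) (nat_lit 136713477927) (nat_lit 9) (nat_lit 5) (nat_lit 11) (nat_lit 5) (nat_lit 10) (nat_lit 4) (nat_lit 327) (nat_lit 282) (nat_lit 171))))))))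
noncomputable def xc89 : XT := (XT.nd (nat_lit 37284) (nat_lit 0) (nat_lit 2508) (XT.nd (nat_lit 780) (nat_lit 228) (nat_lit 0) (XT.nd (nat_lit 390) (nat_lit 152) (nat_lit 0) (XT.nd (nat_lit 156) (nat_lit 76) (nat_lit 0) (XT.nd (nat_lit 78) (nat_lit 0) (nat_lit 0) (XT.lf (nat_lit 0) (nat_lit 20882795605) (nat_lit 76) (nat_lit 61298631864) (nat_lit 152) (nat_lit 177523954713) (nat_lit 8) (nat_lit 5) (nat_lit 9) (nat_lit 5) (nat_lit 10) (nat_lit 4) (nat_lit 328) (nat_lit 282) (nat_lit 170)) (XT.lf (nat_lit 0) (nat_lit 117805948744) (nat_lit 76) (nat_lit 11656028530) (nat_lit 152) (nat_lit 148389576785) (nat_lit 8) (nat_lit 5) (nat_lit 9) (nat_lit 5) (nat_lit 10) (nat_lit 4) (nat_lit 329) (nat_lit 282) (nat_lit 169))) (XT.nd (nat_lit 78) (nat_lit 76) (nat_lit 0) (XT.lf (nat_lit 0) (nat_lit 181178693308) (nat_lit 152) (nat_lit 75624045330) (nat_lit 0) (nat_lit 40613995775) (nat_lit 8) (nat_lit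 5) (nat_lit 10) (nat_lit 4) (nat_lit 8) (nat_lit 4) (nat_lit 330) (nat_lit 282) (nat_lit 168)) (XT.nd (nat_lit 78) (nat_lit 0) (nat_lit 0) (XT.lf (nat_lit 0) (nat_lit 15860003653) (nat_lit 76) (nat_lit 221615645252) (nat_lit 76) (nat_lit 81049335954) (nat_lit 7) (nat_lit 4) (nat_lit 8) (nat_lit 5) (nat_lit 8) (nat_lit 4) (nat_lit 331) (nat_lit 282) (nat_lit 167)) (XT.lf (nat_lit 0) (nat_lit 117361074308) (nat_lit 76) (nat_lit 182231408661) (nat_lit 76) (nat_lit 41663606989) (nat_lit 7) (nat_lit 4) (nat_lit 8) (nat_lit 5) (nat_lit 8) (nat_lit 4) (nat_lit 332) (nat_lit 282) (nat_lit 166))))) (XT.nd (nat_lit 156) (nat_lit 76) (nat_lit 0) (XT.nd (nat_lit 78) (nat_lit 0) (nat_lit 0) (XT.lf (nat_lit 0) (nat_lit 843909443) (nat_lit 152) (nat_lit 138839169141) (nat_lit 76) (nat_lit 226121980536) (nat_lit 6) (nat_lit 5) (nat_lit 8) (nat_lit 5) (nat_lit 7) (nat_lit 4) (nat_lit 333) (nat_lit 282)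 (nat_lit 165)) (XT.lf (nat_lit 0) (nat_lit 45310805602) (nat_lit 152) (nat_lit 47683311485) (nat_lit 76) (nat_lit 299288755404) (nat_lit 6) (nat_lit 5) (nat_lit 8) (nat_lit 5) (nat_lit 7) (nat_lit 4) (nat_lit 334) (nat_lit 282) (nat_lit 164))) (XT.nd (nat_lit 78) (nat_lit 0) (nat_lit 0) (XT.lf (nat_lit 0) (nat_lit 52441687342) (nat_lit 76) (nat_lit 41711159003) (nat_lit 152) (nat_lit 326685175488) (nat_lit 5) (nat_lit 5) (nat_lit 6) (nat_lit 5) (nat_lit 7) (nat_lit 4) (nat_lit 335) (nat_lit 282) (nat_lit 163)) (XT.nd (nat_lit 78) (nat_lit 0) (nat_lit 0) (XT.lf (nat_lit 0) (nat_lit 147959039670) (nat_lit 152) (nat_lit 289585469204) (nat_lit 0) (nat_lit 14080235284) (nat_lit 5) (nat_lit 5) (nat_lit 7) (nat_lit 4) (nat_lit 5) (nat_lit 4) (nat_lit 336) (nat_lit 282) (nat_lit 162)) (XT.lf (nat_lit 0) (nat_lit 206772188072) (nat_lit 152) (nat_lit 205174677318) (nat_lit 0) (nat_lit 72892416366)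 (nat_lit 5) (nat_lit 5) (nat_lit 7) (nat_lit 4) (nat_lit 5) (nat_lit 4) (nat_lit 337) (nat_lit 282) (nat_lit 161)))))) (XT.nd (nat_lit 390) (nat_lit 152) (nat_lit 0) (XT.nd (nat_lit 156) (nat_lit 76) (nat_lit 0) (XT.nd (nat_lit 78) (nat_lit 0) (nat_lit 0) (XT.lf (nat_lit 0) (nat_lit 270289585822) (nat_lit 152) (nat_lit 114012518647) (nat_lit 0) (nat_lit 136408918451) (nat_lit 5) (nat_lit 5) (nat_lit 7) (nat_lit 4) (nat_lit 5) (nat_lit 4) (nat_lit 338) (nat_lit 282) (nat_lit 160)) (XT.lf (nat_lit 0) (nat_lit 338887632317) (nat_lit 152) (nat_lit 15558772990) (nat_lit 0) (nat_lit 205006135625) (nat_lit 5) (nat_lit 5) (nat_lit 7) (nat_lit 4) (nat_lit 5) (nat_lit 4) (nat_lit 339) (nat_lit 282) (nat_lit 159))) (XT.nd (nat_lit 78) (nat_lit 0) (nat_lit 0) (XT.lf (nat_lit 0) (nat_lit 93771255029) (nat_lit 76) (nat_lit 320665611552) (nat_lit 76) (nat_lit 186783346971) (nat_lit 4) (nat_lit 4) (nat_lit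 5) (nat_lit 5) (nat_lit 5) (nat_lit 4) (nat_lit 340) (nat_lit 282) (nat_lit 158)) (XT.nd (nat_lit 78) (nat_lit 0) (nat_lit 0) (XT.lf (nat_lit 0) (nat_lit 212402056752) (nat_lit 76) (nat_lit 283898350391) (nat_lit 76) (nat_lit 150015374802) (nat_lit 4) (nat_lit 4) (nat_lit 5) (nat_lit 5) (nat_lit 5) (nat_lit 4) (nat_lit 341) (nat_lit 282) (nat_lit 157)) (XT.lf (nat_lit 0) (nat_lit 340522186222) (nat_lit 76) (nat_lit 244190237109) (nat_lit 76) (nat_lit 110306603179) (nat_lit 4) (nat_lit 4) (nat_lit 5) (nat_lit 5) (nat_lit 5) (nat_lit 4) (nat_lit 342) (nat_lit 282) (nat_lit 156))))) (XT.nd (nat_lit 234) (nat_lit 76) (nat_lit 0) (XT.nd (nat_lit 78) (nat_lit 76) (nat_lit 0) (XT.lf (nat_lit 0) (nat_lit 478890873835) (nat_lit 76) (nat_lit 201305964368) (nat_lit 76) (nat_lit 67421720862) (nat_lit 4) (nat_lit 4) (nat_lit 5) (nat_lit 5) (nat_lit 5) (nat_lit 4) (nat_lit 343) (nat_lit 282) (nat_lit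 155)) (XT.nd (nat_lit 78) (nat_lit 76) (nat_lit 0) (XT.lf (nat_lit 0) (nat_lit 628328082184) (nat_lit 76) (nat_lit 154991403142) (nat_lit 76) (nat_lit 21106595216) (nat_lit 4) (nat_lit 4) (nat_lit 5) (nat_lit 5) (nat_lit 5) (nat_lit 4) (nat_lit 344) (nat_lit 282) (nat_lit 154)) (XT.lf (nat_lit 0) (nat_lit 27987829716) (nat_lit 152) (nat_lit 76510279619) (nat_lit 76) (nat_lit 761257547942) (nat_lit 3) (nat_lit 5) (nat_lit 5) (nat_lit 5) (nat_lit 4) (nat_lit 4) (nat_lit 345) (nat_lit 282) (nat_lit 153)))) (XT.nd (nat_lit 35724) (nat_lit 0) (nat_lit 6232) (XT.lf (nat_lit 0) (nat_lit 31702384641) (nat_lit 76) (nat_lit 49072346617) (nat_lit 152) (nat_lit 851174348883) (nat_lit 2) (nat_lit 5) (nat_lit 3) (nat_lit 5) (nat_lit 4) (nat_lit 4) (nat_lit 346) (nat_lit 282) (nat_lit 152)) (XT.nd (nat_lit 78) (nat_lit 0) (nat_lit 0) (XT.lf (nat_lit 0) (nat_lit 4099550622) (nat_lit 0) (nat_lit 4099550622)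 (nat_lit 684) (nat_lit 3852534430) (nat_lit 84) (nat_lit 5) (nat_lit 84) (nat_lit 3) (nat_lit 93) (nat_lit 3) (nat_lit 283) (nat_lit 283) (nat_lit 214)) (XT.lf (nat_lit 76) (nat_lit 1213110867) (nat_lit 0) (nat_lit 16168553424) (nat_lit 760) (nat_lit 7668976459) (nat_lit 85) (nat_lit 5) (nat_lit 84) (nat_lit 5) (nat_lit 94) (nat_lit 5) (nat_lit 284) (nat_lit 283) (nat_lit 213))))))) (XT.nd (nat_lit 780) (nat_lit 2128) (nat_lit 0) (XT.nd (nat_lit 390) (nat_lit 1064) (nat_lit 0) (XT.nd (nat_lit 156) (nat_lit 608) (nat_lit 0) (XT.nd (nat_lit 78) (nat_lit 0) (nat_lit 0) (XT.lf (nat_lit 0) (nat_lit 18860179755) (nat_lit 684) (nat_lit 5958626651) (nat_lit 760) (nat_lit 1234212956) (nat_lit 85) (nat_lit 5) (nat_lit 94) (nat_lit 5) (nat_lit 95) (nat_lit 5) (nat_lit 285) (nat_lit 283) (nat_lit 212)) (XT.lf (nat_lit 76) (nat_lit 13500266260) (nat_lit 0) (nat_lit 7424856544) (nat_lit 760) (nat_lit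 6187093785) (nat_lit 86) (nat_lit 5) (nat_lit 85) (nat_lit 5) (nat_lit 95) (nat_lit 5) (nat_lit 286) (nat_lit 283) (nat_lit 211))) (XT.nd (nat_lit 78) (nat_lit 684) (nat_lit 0) (XT.lf (nat_lit 76) (nat_lit 6496360468) (nat_lit 0) (nat_lit 17028994374) (nat_lit 760) (nat_lit 4712323078) (nat_lit 87) (nat_lit 5) (nat_lit 86) (nat_lit 5) (nat_lit 96) (nat_lit 5) (nat_lit 287) (nat_lit 283) (nat_lit 210)) (XT.nd (nat_lit 78) (nat_lit 760) (nat_lit 0) (XT.lf (nat_lit 0) (nat_lit 26709941319) (nat_lit 684) (nat_lit 904867159) (nat_lit 760) (nat_lit 1819581447) (nat_lit 87) (nat_lit 5) (nat_lit 96) (nat_lit 5) (nat_lit 97) (nat_lit 5) (nat_lit 288) (nat_lit 283) (nat_lit 209)) (XT.lf (nat_lit 0) (nat_lit 69502644) (nat_lit 760) (nat_lit 8691091960) (nat_lit 836) (nat_lit 21935293996) (nat_lit 77) (nat_lit 5) (nat_lit 87) (nat_lit 5) (nat_lit 88) (nat_lit 5) (nat_lit 289) (nat_lit 283) (nat_lit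 208))))) (XT.nd (nat_lit 156) (nat_lit 684) (nat_lit 0) (XT.nd (nat_lit 78) (nat_lit 456) (nat_lit 0) (XT.lf (nat_lit 0) (nat_lit 3419715005) (nat_lit 760) (nat_lit 17079002871) (nat_lit 76) (nat_lit 11535971269) (nat_lit 78) (nat_lit 5) (nat_lit 88) (nat_lit 5) (nat_lit 79) (nat_lit 5) (nat_lit 290) (nat_lit 283) (nat_lit 207)) (XT.lf (nat_lit 0) (nat_lit 7408576126) (nat_lit 456) (nat_lit 35666355) (nat_lit 532) (nat_lit 26016059452) (nat_lit 72) (nat_lit 5) (nat_lit 78) (nat_lit 5) (nat_lit 79) (nat_lit 5) (nat_lit 291) (nat_lit 283) (nat_lit 206))) (XT.nd (nat_lit 78) (nat_lit 684) (nat_lit 0) (XT.lf (nat_lit 0) (nat_lit 12427314769) (nat_lit 532) (nat_lit 879408151) (nat_lit 76) (nat_lit 21661433084) (nat_lit 72) (nat_lit 5) (nat_lit 79) (nat_lit 5) (nat_lit 73) (nat_lit 5) (nat_lit 292) (nat_lit 283) (nat_lit 205)) (XT.nd (nat_lit 78) (nat_lit 304) (nat_lit 0) (XT.lf (nat_lit 0)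 (nat_lit 18363862231) (nat_lit 456) (nat_lit 9549183733) (nat_lit 76) (nat_lit 8655870773) (nat_lit 67) (nat_lit 5) (nat_lit 73) (nat_lit 5) (nat_lit 68) (nat_lit 5) (nat_lit 293) (nat_lit 283) (nat_lit 204)) (XT.lf (nat_lit 0) (nat_lit 19267978809) (nat_lit 304) (nat_lit 6039170866) (nat_lit 380) (nat_lit 12964016187) (nat_lit 63) (nat_lit 5) (nat_lit 67) (nat_lit 5) (nat_lit 68) (nat_lit 5) (nat_lit 294) (nat_lit 283) (nat_lit 203)))))) (XT.nd (nat_lit 390) (nat_lit 988) (nat_lit 0) (XT.nd (nat_lit 156) (nat_lit 532) (nat_lit 0) (XT.nd (nat_lit 78) (nat_lit 304) (nat_lit 0) (XT.lf (nat_lit 0) (nat_lit 10685617067) (nat_lit 304) (nat_lit 22722288159) (nat_lit 380) (nat_lit 6671606417) (nat_lit 59) (nat_lit 5) (nat_lit 63) (nat_lit 5) (nat_lit 64) (nat_lit 5) (nat_lit 295) (nat_lit 283) (nat_lit 202)) (XT.lf (nat_lit 0) (nat_lit 583216266) (nat_lit 304) (nat_lit 40685338129) (nat_lit 76)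 (nat_lit 740738955) (nat_lit 55) (nat_lit 5) (nat_lit 59) (nat_lit 5) (nat_lit 56) (nat_lit 5) (nat_lit 296) (nat_lit 283) (nat_lit 201))) (XT.nd (nat_lit 78) (nat_lit 532) (nat_lit 0) (XT.lf (nat_lit 0) (nat_lit 9083708387) (nat_lit 304) (nat_lit 9032210173) (nat_lit 76) (nat_lit 25927133158) (nat_lit 55) (nat_lit 5) (nat_lit 59) (nat_lit 5) (nat_lit 56) (nat_lit 5) (nat_lit 297) (nat_lit 283) (nat_lit 200)) (XT.nd (nat_lit 78) (nat_lit 228) (nat_lit 0) (XT.lf (nat_lit 0) (nat_lit 18776890973) (nat_lit 380) (nat_lit 20357740986) (nat_lit 76) (nat_lit 7079259080) (nat_lit 51) (nat_lit 5) (nat_lit 56) (nat_lit 5) (nat_lit 52) (nat_lit 5) (nat_lit 298) (nat_lit 283) (nat_lit 199)) (XT.lf (nat_lit 0) (nat_lit 15486735087) (nat_lit 228) (nat_lit 14459252179) (nat_lit 304) (nat_lit 18577399174) (nat_lit 48) (nat_lit 5) (nat_lit 51) (nat_lit 5) (nat_lit 52) (nat_lit 5) (nat_lit 299) (nat_lit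 283) (nat_lit 198))))) (XT.nd (nat_lit 234) (nat_lit 456) (nat_lit 0) (XT.nd (nat_lit 78) (nat_lit 304) (nat_lit 0) (XT.lf (nat_lit 0) (nat_lit 3844325186) (nat_lit 228) (nat_lit 38768690398) (nat_lit 304) (nat_lit 8374416678) (nat_lit 45) (nat_lit 5) (nat_lit 48) (nat_lit 5) (nat_lit 49) (nat_lit 5) (nat_lit 300) (nat_lit 283) (nat_lit 197)) (XT.nd (nat_lit 78) (nat_lit 228) (nat_lit 0) (XT.lf (nat_lit 0) (nat_lit 3382741459) (nat_lit 304) (nat_lit 9067111583) (nat_lit 76) (nat_lit 41155564411) (nat_lit 44) (nat_lit 5) (nat_lit 48) (nat_lit 5) (nat_lit 45) (nat_lit 5) (nat_lit 301) (nat_lit 283) (nat_lit 196)) (XT.lf (nat_lit 0) (nat_lit 16560058731) (nat_lit 304) (nat_lit 23699398542) (nat_lit 76) (nat_lit 16127879633) (nat_lit 41) (nat_lit 5) (nat_lit 45) (nat_lit 5) (nat_lit 42) (nat_lit 5) (nat_lit 302) (nat_lit 283) (nat_lit 195)))) (XT.nd (nat_lit 78) (nat_lit 228) (nat_lit 0) (XT.lf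 (nat_lit 0) (nat_lit 19114987257) (nat_lit 228) (nat_lit 12340069624) (nat_lit 304) (nat_lit 27903586582) (nat_lit 38) (nat_lit 5) (nat_lit 41) (nat_lit 5) (nat_lit 42) (nat_lit 5) (nat_lit 303) (nat_lit 283) (nat_lit 194)) (XT.nd (nat_lit 78) (nat_lit 76) (nat_lit 0) (XT.lf (nat_lit 0) (nat_lit 3472617240) (nat_lit 152) (nat_lit 44815811201) (nat_lit 228) (nat_lit 14241895132) (nat_lit 36) (nat_lit 5) (nat_lit 38) (nat_lit 5) (nat_lit 39) (nat_lit 5) (nat_lit 304) (nat_lit 283) (nat_lit 193)) (XT.lf (nat_lit 0) (nat_lit 1411942395) (nat_lit 228) (nat_lit 14032287153) (nat_lit 76) (nat_lit 50465334010) (nat_lit 35) (nat_lit 5) (nat_lit 38) (nat_lit 5) (nat_lit 36) (nat_lit 5) (nat_lit 305) (nat_lit 283) (nat_lit 192))))))))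
noncomputable def xc90 : XT := (XT.nd (nat_lit 1638) (nat_lit 608) (nat_lit 0) (XT.nd (nat_lit 780) (nat_lit 608) (nat_lit 0) (XT.nd (nat_lit 390) (nat_lit 456) (nat_lit 0) (XT.nd (nat_lit 156) (nat_lit 380) (nat_lit 0) (XT.nd (nat_lit 78) (nat_lit 152) (nat_lit 0) (XT.lf (nat_lit 0) (nat_lit 18642313308) (nat_lit 304) (nat_lit 34302823505) (nat_lit 76) (nat_lit 16561178884) (nat_lit 32) (nat_lit 5) (nat_lit 36) (nat_lit 5) (nat_lit 33) (nat_lit 5) (nat_lit 306) (nat_lit 283) (nat_lit 191)) (XT.lf (nat_lit 0) (nat_lit 15733106063) (nat_lit 152) (nat_lit 22268113071) (nat_lit 228) (nat_lit 35352089439) (nat_lit 30) (nat_lit 5) (nat_lit 32) (nat_lit 5) (nat_lit 33) (nat_lit 5) (nat_lit 307) (nat_lit 283) (nat_lit 190))) (XT.nd (nat_lit 78) (nat_lit 380) (nat_lit 0) (XT.lf (nat_lit 0) (nat_lit 59681569351) (nat_lit 228) (nat_lit 6667282294) (nat_lit 76) (nat_lit 11120578030) (nat_lit 30)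 (nat_lit 5) (nat_lit 33) (nat_lit 5) (nat_lit 31) (nat_lit 5) (nat_lit 308) (nat_lit 283) (nat_lit 189)) (XT.nd (nat_lit 78) (nat_lit 152) (nat_lit 0) (XT.lf (nat_lit 0) (nat_lit 2307933435) (nat_lit 228) (nat_lit 32328026953) (nat_lit 76) (nat_lit 47219750405) (nat_lit 27) (nat_lit 5) (nat_lit 30) (nat_lit 5) (nat_lit 28) (nat_lit 5) (nat_lit 309) (nat_lit 283) (nat_lit 188)) (XT.lf (nat_lit 0) (nat_lit 23897854455) (nat_lit 228) (nat_lit 62219683801) (nat_lit 76) (nat_lit 435297150) (nat_lit 25) (nat_lit 5) (nat_lit 28) (nat_lit 5) (nat_lit 26) (nat_lit 5) (nat_lit 310) (nat_lit 283) (nat_lit 187))))) (XT.nd (nat_lit 156) (nat_lit 304) (nat_lit 0) (XT.nd (nat_lit 78) (nat_lit 152) (nat_lit 0) (XT.lf (nat_lit 0) (nat_lit 48367760324) (nat_lit 228) (nat_lit 5515006219) (nat_lit 76) (nat_lit 37685327965) (nat_lit 25) (nat_lit 5) (nat_lit 28) (nat_lit 5) (nat_lit 26) (nat_lit 5) (nat_lit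 311) (nat_lit 283) (nat_lit 186)) (XT.lf (nat_lit 0) (nat_lit 57563029876) (nat_lit 152) (nat_lit 18127616167) (nat_lit 228) (nat_lit 21249162701) (nat_lit 23) (nat_lit 5) (nat_lit 25) (nat_lit 5) (nat_lit 26) (nat_lit 5) (nat_lit 312) (nat_lit 283) (nat_lit 185))) (XT.nd (nat_lit 78) (nat_lit 152) (nat_lit 0) (XT.lf (nat_lit 0) (nat_lit 3174651653) (nat_lit 152) (nat_lit 79177726982) (nat_lit 76) (nat_lit 20347204731) (nat_lit 21) (nat_lit 5) (nat_lit 23) (nat_lit 5) (nat_lit 22) (nat_lit 5) (nat_lit 313) (nat_lit 283) (nat_lit 184)) (XT.nd (nat_lit 78) (nat_lit 152) (nat_lit 0) (XT.lf (nat_lit 0) (nat_lit 29817591474) (nat_lit 152) (nat_lit 16707702543) (nat_lit 76) (nat_lit 62326947304) (nat_lit 21) (nat_lit 5) (nat_lit 23) (nat_lit 5) (nat_lit 22) (nat_lit 5) (nat_lit 314) (nat_lit 283) (nat_lit 183)) (XT.lf (nat_lit 0) (nat_lit 52433336555) (nat_lit 152) (nat_lit 6974397676) (nat_lit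 228) (nat_lit 56048592150) (nat_lit 19) (nat_lit 5) (nat_lit 21) (nat_lit 5) (nat_lit 22) (nat_lit 5) (nat_lit 315) (nat_lit 283) (nat_lit 182)))))) (XT.nd (nat_lit 390) (nat_lit 228) (nat_lit 0) (XT.nd (nat_lit 156) (nat_lit 304) (nat_lit 0) (XT.nd (nat_lit 78) (nat_lit 0) (nat_lit 0) (XT.lf (nat_lit 0) (nat_lit 4711429048) (nat_lit 76) (nat_lit 87578285175) (nat_lit 152) (nat_lit 30252795373) (nat_lit 18) (nat_lit 5) (nat_lit 19) (nat_lit 5) (nat_lit 20) (nat_lit 4) (nat_lit 316) (nat_lit 283) (nat_lit 181)) (XT.lf (nat_lit 0) (nat_lit 79989162498) (nat_lit 76) (nat_lit 49023996355) (nat_lit 152) (nat_lit 1121885751) (nat_lit 18) (nat_lit 5) (nat_lit 19) (nat_lit 5) (nat_lit 20) (nat_lit 4) (nat_lit 317) (nat_lit 283) (nat_lit 180))) (XT.nd (nat_lit 78) (nat_lit 76) (nat_lit 0) (XT.lf (nat_lit 0) (nat_lit 23219380938) (nat_lit 152) (nat_lit 6509116051) (nat_lit 228) (nat_lit 108564800670)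 (nat_lit 15) (nat_lit 5) (nat_lit 17) (nat_lit 5) (nat_lit 18) (nat_lit 5) (nat_lit 318) (nat_lit 283) (nat_lit 179)) (XT.nd (nat_lit 78) (nat_lit 76) (nat_lit 0) (XT.lf (nat_lit 0) (nat_lit 64508839144) (nat_lit 228) (nat_lit 43468607811) (nat_lit 76) (nat_lit 39050784710) (nat_lit 15) (nat_lit 5) (nat_lit 18) (nat_lit 5) (nat_lit 16) (nat_lit 4) (nat_lit 319) (nat_lit 283) (nat_lit 178)) (XT.lf (nat_lit 0) (nat_lit 34867514418) (nat_lit 76) (nat_lit 67856032234) (nat_lit 152) (nat_lit 53705818691) (nat_lit 14) (nat_lit 5) (nat_lit 15) (nat_lit 5) (nat_lit 16) (nat_lit 4) (nat_lit 320) (nat_lit 283) (nat_lit 177))))) (XT.nd (nat_lit 234) (nat_lit 76) (nat_lit 0) (XT.nd (nat_lit 78) (nat_lit 152) (nat_lit 0) (XT.lf (nat_lit 0) (nat_lit 121019108993) (nat_lit 76) (nat_lit 23731425150) (nat_lit 152) (nat_lit 21794302119) (nat_lit 14) (nat_lit 5) (nat_lit 15) (nat_lit 5) (nat_lit 16) (nat_lit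 4) (nat_lit 321) (nat_lit 283) (nat_lit 176)) (XT.nd (nat_lit 78) (nat_lit 0) (nat_lit 0) (XT.lf (nat_lit 0) (nat_lit 13235959544) (nat_lit 152) (nat_lit 140221463413) (nat_lit 76) (nat_lit 23953665229) (nat_lit 12) (nat_lit 5) (nat_lit 14) (nat_lit 5) (nat_lit 13) (nat_lit 4) (nat_lit 322) (nat_lit 283) (nat_lit 175)) (XT.lf (nat_lit 0) (nat_lit 51519570244) (nat_lit 152) (nat_lit 61743106891) (nat_lit 76) (nat_lit 75805375630) (nat_lit 12) (nat_lit 5) (nat_lit 14) (nat_lit 5) (nat_lit 13) (nat_lit 4) (nat_lit 323) (nat_lit 283) (nat_lit 174)))) (XT.nd (nat_lit 78) (nat_lit 0) (nat_lit 0) (XT.lf (nat_lit 0) (nat_lit 23771211401) (nat_lit 76) (nat_lit 69464035975) (nat_lit 152) (nat_lit 108403859552) (nat_lit 11) (nat_lit 5) (nat_lit 12) (nat_lit 5) (nat_lit 13) (nat_lit 4) (nat_lit 324) (nat_lit 283) (nat_lit 173)) (XT.nd (nat_lit 78) (nat_lit 0) (nat_lit 0) (XT.lf (nat_lit 0) (nat_lit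 118328503817) (nat_lit 76) (nat_lit 21033525690) (nat_lit 152) (nat_lit 75800124575) (nat_lit 11) (nat_lit 5) (nat_lit 12) (nat_lit 5) (nat_lit 13) (nat_lit 4) (nat_lit 325) (nat_lit 283) (nat_lit 172)) (XT.lf (nat_lit 0) (nat_lit 189665619424) (nat_lit 152) (nat_lit 9807735175) (nat_lit 0) (nat_lit 30269358259) (nat_lit 11) (nat_lit 5) (nat_lit 13) (nat_lit 4) (nat_lit 11) (nat_lit 4) (nat_lit 326) (nat_lit 283) (nat_lit 171))))))) (XT.nd (nat_lit 780) (nat_lit 152) (nat_lit 0) (XT.nd (nat_lit 390) (nat_lit 228) (nat_lit 0) (XT.nd (nat_lit 156) (nat_lit 76) (nat_lit 0) (XT.nd (nat_lit 78) (nat_lit 0) (nat_lit 0) (XT.lf (nat_lit 0) (nat_lit 284815411) (nat_lit 152) (nat_lit 158814521447) (nat_lit 76) (nat_lit 86304891124) (nat_lit 9) (nat_lit 5) (nat_lit 11) (nat_lit 5) (nat_lit 10) (nat_lit 4) (nat_lit 327) (nat_lit 283) (nat_lit 170)) (XT.lf (nat_lit 0) (nat_lit 42662579143) (nat_lit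 152) (nat_lit 71942079758) (nat_lit 76) (nat_lit 147671605832) (nat_lit 9) (nat_lit 5) (nat_lit 11) (nat_lit 5) (nat_lit 10) (nat_lit 4) (nat_lit 328) (nat_lit 283) (nat_lit 169))) (XT.nd (nat_lit 78) (nat_lit 0) (nat_lit 0) (XT.lf (nat_lit 0) (nat_lit 22601166699) (nat_lit 76) (nat_lit 66180960833) (nat_lit 152) (nat_lit 191698359552) (nat_lit 8) (nat_lit 5) (nat_lit 9) (nat_lit 5) (nat_lit 10) (nat_lit 4) (nat_lit 329) (nat_lit 283) (nat_lit 168)) (XT.nd (nat_lit 78) (nat_lit 0) (nat_lit 0) (XT.lf (nat_lit 0) (nat_lit 127274635241) (nat_lit 76) (nat_lit 12568546386) (nat_lit 152) (nat_lit 160235269281) (nat_lit 8) (nat_lit 5) (nat_lit 9) (nat_lit 5) (nat_lit 10) (nat_lit 4) (nat_lit 330) (nat_lit 283) (nat_lit 167)) (XT.lf (nat_lit 0) (nat_lit 195695727543) (nat_lit 152) (nat_lit 81632185278) (nat_lit 0) (nat_lit 43881009363) (nat_lit 8) (nat_lit 5) (nat_lit 10) (nat_lit 4) (nat_lit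 8) (nat_lit 4) (nat_lit 331) (nat_lit 283) (nat_lit 166))))) (XT.nd (nat_lit 156) (nat_lit 152) (nat_lit 0) (XT.nd (nat_lit 78) (nat_lit 0) (nat_lit 0) (XT.lf (nat_lit 0) (nat_lit 17168771755) (nat_lit 76) (nat_lit 239326607488) (nat_lit 76) (nat_lit 87510507480) (nat_lit 7) (nat_lit 4) (nat_lit 8) (nat_lit 5) (nat_lit 8) (nat_lit 4) (nat_lit 332) (nat_lit 283) (nat_lit 165)) (XT.lf (nat_lit 0) (nat_lit 126786967485) (nat_lit 76) (nat_lit 196792986740) (nat_lit 76) (nat_lit 44975607261) (nat_lit 7) (nat_lit 4) (nat_lit 8) (nat_lit 5) (nat_lit 8) (nat_lit 4) (nat_lit 333) (nat_lit 283) (nat_lit 164))) (XT.nd (nat_lit 78) (nat_lit 76) (nat_lit 0) (XT.lf (nat_lit 0) (nat_lit 930323431) (nat_lit 152) (nat_lit 149911401139) (nat_lit 76) (nat_lit 244226783601) (nat_lit 6) (nat_lit 5) (nat_lit 8) (nat_lit 5) (nat_lit 7) (nat_lit 4) (nat_lit 334) (nat_lit 283) (nat_lit 163)) (XT.nd (nat_lit 78)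 (nat_lit 76) (nat_lit 0) (XT.lf (nat_lit 0) (nat_lit 48953171192) (nat_lit 152) (nat_lit 51465660170) (nat_lit 76) (nat_lit 323245786042) (nat_lit 6) (nat_lit 5) (nat_lit 8) (nat_lit 5) (nat_lit 7) (nat_lit 4) (nat_lit 335) (nat_lit 283) (nat_lit 162)) (XT.lf (nat_lit 0) (nat_lit 56667934139) (nat_lit 76) (nat_lit 45033827293) (nat_lit 152) (nat_lit 352802458675) (nat_lit 5) (nat_lit 5) (nat_lit 6) (nat_lit 5) (nat_lit 7) (nat_lit 4) (nat_lit 336) (nat_lit 283) (nat_lit 161)))))) (XT.nd (nat_lit 390) (nat_lit 76) (nat_lit 0) (XT.nd (nat_lit 156) (nat_lit 76) (nat_lit 0) (XT.nd (nat_lit 78) (nat_lit 0) (nat_lit 0) (XT.lf (nat_lit 0) (nat_lit 159811419755) (nat_lit 152) (nat_lit 312723109335) (nat_lit 0) (nat_lit 15219403328) (nat_lit 5) (nat_lit 5) (nat_lit 7) (nat_lit 4) (nat_lit 5) (nat_lit 4) (nat_lit 337) (nat_lit 283) (nat_lit 160)) (XT.lf (nat_lit 0) (nat_lit 223328460257) (nat_lit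 152) (nat_lit 221561616869) (nat_lit 0) (nat_lit 78735614510) (nat_lit 5) (nat_lit 5) (nat_lit 7) (nat_lit 4) (nat_lit 5) (nat_lit 4) (nat_lit 338) (nat_lit 283) (nat_lit 159))) (XT.nd (nat_lit 78) (nat_lit 76) (nat_lit 0) (XT.lf (nat_lit 0) (nat_lit 291926175966) (nat_lit 152) (nat_lit 123108488070) (nat_lit 0) (nat_lit 147332562329) (nat_lit 5) (nat_lit 5) (nat_lit 7) (nat_lit 4) (nat_lit 5) (nat_lit 4) (nat_lit 339) (nat_lit 283) (nat_lit 158)) (XT.nd (nat_lit 78) (nat_lit 76) (nat_lit 0) (XT.lf (nat_lit 0) (nat_lit 366011071862) (nat_lit 152) (nat_lit 16780296988) (nat_lit 0) (nat_lit 221416747218) (nat_lit 5) (nat_lit 5) (nat_lit 7) (nat_lit 4) (nat_lit 5) (nat_lit 4) (nat_lit 340) (nat_lit 283) (nat_lit 157)) (XT.lf (nat_lit 0) (nat_lit 101295125992) (nat_lit 76) (nat_lit 346308544356) (nat_lit 76) (nat_lit 201713561370) (nat_lit 4) (nat_lit 4) (nat_lit 5) (nat_lit 5) (nat_lit 5)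 (nat_lit 4) (nat_lit 341) (nat_lit 283) (nat_lit 156))))) (XT.nd (nat_lit 234) (nat_lit 76) (nat_lit 0) (XT.nd (nat_lit 78) (nat_lit 0) (nat_lit 0) (XT.lf (nat_lit 0) (nat_lit 229414749590) (nat_lit 76) (nat_lit 306600666460) (nat_lit 76) (nat_lit 162005073899) (nat_lit 4) (nat_lit 4) (nat_lit 5) (nat_lit 5) (nat_lit 5) (nat_lit 4) (nat_lit 342) (nat_lit 283) (nat_lit 155)) (XT.nd (nat_lit 78) (nat_lit 0) (nat_lit 0) (XT.lf (nat_lit 0) (nat_lit 367782968802) (nat_lit 76) (nat_lit 263716611668) (nat_lit 76) (nat_lit 119120454686) (nat_lit 4) (nat_lit 4) (nat_lit 5) (nat_lit 5) (nat_lit 5) (nat_lit 4) (nat_lit 343) (nat_lit 283) (nat_lit 154)) (XT.lf (nat_lit 0) (nat_lit 517219743448) (nat_lit 76) (nat_lit 217402252249) (nat_lit 76) (nat_lit 72805572654) (nat_lit 4) (nat_lit 4) (nat_lit 5) (nat_lit 5) (nat_lit 5) (nat_lit 4) (nat_lit 344) (nat_lit 283) (nat_lit 153)))) (XT.nd (nat_lit 78)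 (nat_lit 76) (nat_lit 0) (XT.lf (nat_lit 0) (nat_lit 678610624783) (nat_lit 76) (nat_lit 167383132738) (nat_lit 76) (nat_lit 22785969243) (nat_lit 4) (nat_lit 4) (nat_lit 5) (nat_lit 5) (nat_lit 5) (nat_lit 4) (nat_lit 345) (nat_lit 283) (nat_lit 152)) (XT.nd (nat_lit 35802) (nat_lit 0) (nat_lit 6156) (XT.lf (nat_lit 0) (nat_lit 30235060370) (nat_lit 152) (nat_lit 82615737792) (nat_lit 76) (nat_lit 822164897469) (nat_lit 3) (nat_lit 5) (nat_lit 5) (nat_lit 5) (nat_lit 4) (nat_lit 4) (nat_lit 346) (nat_lit 283) (nat_lit 151)) (XT.lf (nat_lit 0) (nat_lit 4508342680) (nat_lit 0) (nat_lit 4508342680) (nat_lit 684) (nat_lit 3990622853) (nat_lit 84) (nat_lit 5) (nat_lit 84) (nat_lit 3) (nat_lit 93) (nat_lit 3) (nat_lit 284) (nat_lit 284) (nat_lit 212))))))))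
noncomputable def xc91 : XT := (XT.nd (nat_lit 1638) (nat_lit 1900) (nat_lit 0) (XT.nd (nat_lit 780) (nat_lit 2356) (nat_lit 0) (XT.nd (nat_lit 390) (nat_lit 1292) (nat_lit 0) (XT.nd (nat_lit 156) (nat_lit 0) (nat_lit 76) (XT.nd (nat_lit 78) (nat_lit 0) (nat_lit 76) (XT.lf (nat_lit 76) (nat_lit 1483386052) (nat_lit 0) (nat_lit 17588541976) (nat_lit 760) (nat_lit 7967082055) (nat_lit 85) (nat_lit 5) (nat_lit 84) (nat_lit 5) (nat_lit 94) (nat_lit 5) (nat_lit 285) (nat_lit 284) (nat_lit 211)) (XT.lf (nat_lit 0) (nat_lit 20644693679) (nat_lit 684) (nat_lit 6258572960) (nat_lit 760) (nat_lit 1219565408) (nat_lit 85) (nat_lit 5) (nat_lit 94) (nat_lit 5) (nat_lit 95) (nat_lit 5) (nat_lit 286) (nat_lit 284) (nat_lit 210))) (XT.nd (nat_lit 78) (nat_lit 0) (nat_lit 76) (XT.lf (nat_lit 76) (nat_lit 14749350313) (nat_lit 0) (nat_lit 8107699214) (nat_lit 760) (nat_lit 6410652353) (nat_lit 86) (nat_lit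 5) (nat_lit 85) (nat_lit 5) (nat_lit 95) (nat_lit 5) (nat_lit 287) (nat_lit 284) (nat_lit 209)) (XT.nd (nat_lit 78) (nat_lit 0) (nat_lit 76) (XT.lf (nat_lit 76) (nat_lit 7192017460) (nat_lit 0) (nat_lit 18455640255) (nat_lit 760) (nat_lit 4836468686) (nat_lit 87) (nat_lit 5) (nat_lit 86) (nat_lit 5) (nat_lit 96) (nat_lit 5) (nat_lit 288) (nat_lit 284) (nat_lit 208)) (XT.lf (nat_lit 0) (nat_lit 29068283078) (nat_lit 684) (nat_lit 801776696) (nat_lit 760) (nat_lit 1907492883) (nat_lit 87) (nat_lit 5) (nat_lit 96) (nat_lit 5) (nat_lit 97) (nat_lit 5) (nat_lit 289) (nat_lit 284) (nat_lit 207))))) (XT.nd (nat_lit 156) (nat_lit 760) (nat_lit 0) (XT.nd (nat_lit 78) (nat_lit 0) (nat_lit 76) (XT.lf (nat_lit 0) (nat_lit 286683097) (nat_lit 760) (nat_lit 9211077761) (nat_lit 836) (nat_lit 23642767078) (nat_lit 77) (nat_lit 5) (nat_lit 87) (nat_lit 5) (nat_lit 88) (nat_lit 5) (nat_lit 290) (nat_lit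 284) (nat_lit 206)) (XT.lf (nat_lit 0) (nat_lit 3891372762) (nat_lit 760) (nat_lit 18266812337) (nat_lit 76) (nat_lit 12428957800) (nat_lit 78) (nat_lit 5) (nat_lit 88) (nat_lit 5) (nat_lit 79) (nat_lit 5) (nat_lit 291) (nat_lit 284) (nat_lit 205))) (XT.nd (nat_lit 78) (nat_lit 380) (nat_lit 0) (XT.lf (nat_lit 0) (nat_lit 8172015119) (nat_lit 456) (nat_lit 53840613) (nat_lit 532) (nat_lit 27901580226) (nat_lit 72) (nat_lit 5) (nat_lit 78) (nat_lit 5) (nat_lit 79) (nat_lit 5) (nat_lit 292) (nat_lit 284) (nat_lit 204)) (XT.nd (nat_lit 78) (nat_lit 380) (nat_lit 0) (XT.lf (nat_lit 0) (nat_lit 13593569072) (nat_lit 532) (nat_lit 782462437) (nat_lit 76) (nat_lit 23380615708) (nat_lit 72) (nat_lit 5) (nat_lit 79) (nat_lit 5) (nat_lit 73) (nat_lit 5) (nat_lit 293) (nat_lit 284) (nat_lit 203)) (XT.lf (nat_lit 0) (nat_lit 19994764943) (nat_lit 456) (nat_lit 10144640247) (nat_lit 76) (nat_lit 9346603894)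 (nat_lit 67) (nat_lit 5) (nat_lit 73) (nat_lit 5) (nat_lit 68) (nat_lit 5) (nat_lit 294) (nat_lit 284) (nat_lit 202)))))) (XT.nd (nat_lit 390) (nat_lit 1140) (nat_lit 0) (XT.nd (nat_lit 156) (nat_lit 608) (nat_lit 0) (XT.nd (nat_lit 78) (nat_lit 304) (nat_lit 0) (XT.lf (nat_lit 0) (nat_lit 20970573443) (nat_lit 304) (nat_lit 6513473321) (nat_lit 380) (nat_lit 13840889347) (nat_lit 63) (nat_lit 5) (nat_lit 67) (nat_lit 5) (nat_lit 68) (nat_lit 5) (nat_lit 295) (nat_lit 284) (nat_lit 201)) (XT.lf (nat_lit 0) (nat_lit 11702065912) (nat_lit 304) (nat_lit 24522164192) (nat_lit 380) (nat_lit 7054173805) (nat_lit 59) (nat_lit 5) (nat_lit 63) (nat_lit 5) (nat_lit 64) (nat_lit 5) (nat_lit 296) (nat_lit 284) (nat_lit 200))) (XT.nd (nat_lit 78) (nat_lit 304) (nat_lit 0) (XT.lf (nat_lit 0) (nat_lit 768183023) (nat_lit 304) (nat_lit 43773888345) (nat_lit 76) (nat_lit 820799498) (nat_lit 55) (nat_lit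 5) (nat_lit 59) (nat_lit 5) (nat_lit 56) (nat_lit 5) (nat_lit 297) (nat_lit 284) (nat_lit 199)) (XT.nd (nat_lit 78) (nat_lit 304) (nat_lit 0) (XT.lf (nat_lit 0) (nat_lit 9938469370) (nat_lit 304) (nat_lit 9600826955) (nat_lit 76) (nat_lit 28020564391) (nat_lit 55) (nat_lit 5) (nat_lit 59) (nat_lit 5) (nat_lit 56) (nat_lit 5) (nat_lit 298) (nat_lit 284) (nat_lit 198)) (XT.lf (nat_lit 0) (nat_lit 20400331650) (nat_lit 380) (nat_lit 21833244586) (nat_lit 76) (nat_lit 7671146872) (nat_lit 51) (nat_lit 5) (nat_lit 56) (nat_lit 5) (nat_lit 52) (nat_lit 5) (nat_lit 299) (nat_lit 284) (nat_lit 197))))) (XT.nd (nat_lit 234) (nat_lit 608) (nat_lit 0) (XT.nd (nat_lit 78) (nat_lit 304) (nat_lit 0) (XT.lf (nat_lit 0) (nat_lit 16872135352) (nat_lit 228) (nat_lit 15584122568) (nat_lit 304) (nat_lit 19943071013) (nat_lit 48) (nat_lit 5) (nat_lit 51) (nat_lit 5) (nat_lit 52) (nat_lit 5) (nat_lit 300) (nat_lit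 284) (nat_lit 196)) (XT.nd (nat_lit 78) (nat_lit 76) (nat_lit 0) (XT.lf (nat_lit 0) (nat_lit 4297162449) (nat_lit 228) (nat_lit 41833726905) (nat_lit 304) (nat_lit 8929911754) (nat_lit 45) (nat_lit 5) (nat_lit 48) (nat_lit 5) (nat_lit 49) (nat_lit 5) (nat_lit 301) (nat_lit 284) (nat_lit 195)) (XT.lf (nat_lit 0) (nat_lit 3755948627) (nat_lit 304) (nat_lit 9654397204) (nat_lit 76) (nat_lit 44478213271) (nat_lit 44) (nat_lit 5) (nat_lit 48) (nat_lit 5) (nat_lit 45) (nat_lit 5) (nat_lit 302) (nat_lit 284) (nat_lit 194)))) (XT.nd (nat_lit 78) (nat_lit 380) (nat_lit 0) (XT.lf (nat_lit 0) (nat_lit 17982461296) (nat_lit 304) (nat_lit 25458812118) (nat_lit 76) (nat_lit 17452020224) (nat_lit 41) (nat_lit 5) (nat_lit 45) (nat_lit 5) (nat_lit 42) (nat_lit 5) (nat_lit 303) (nat_lit 284) (nat_lit 193)) (XT.nd (nat_lit 78) (nat_lit 152) (nat_lit 0) (XT.lf (nat_lit 0) (nat_lit 20774790757) (nat_lit 228)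 (nat_lit 13289078172) (nat_lit 304) (nat_lit 30038706445) (nat_lit 38) (nat_lit 5) (nat_lit 41) (nat_lit 5) (nat_lit 42) (nat_lit 5) (nat_lit 304) (nat_lit 284) (nat_lit 192)) (XT.lf (nat_lit 0) (nat_lit 3879337502) (nat_lit 152) (nat_lit 48360292560) (nat_lit 228) (nat_lit 15288584148) (nat_lit 36) (nat_lit 5) (nat_lit 38) (nat_lit 5) (nat_lit 39) (nat_lit 5) (nat_lit 305) (nat_lit 284) (nat_lit 191))))))) (XT.nd (nat_lit 858) (nat_lit 608) (nat_lit 0) (XT.nd (nat_lit 390) (nat_lit 608) (nat_lit 0) (XT.nd (nat_lit 156) (nat_lit 380) (nat_lit 0) (XT.nd (nat_lit 78) (nat_lit 228) (nat_lit 0) (XT.lf (nat_lit 0) (nat_lit 1607950391) (nat_lit 228) (nat_lit 15032648451) (nat_lit 76) (nat_lit 54537463518) (nat_lit 35) (nat_lit 5) (nat_lit 38) (nat_lit 5) (nat_lit 36) (nat_lit 5) (nat_lit 306) (nat_lit 284) (nat_lit 190)) (XT.lf (nat_lit 0) (nat_lit 20213020389) (nat_lit 304) (nat_lit 36926693953)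 (nat_lit 76) (nat_lit 17923035278) (nat_lit 32) (nat_lit 5) (nat_lit 36) (nat_lit 5) (nat_lit 33) (nat_lit 5) (nat_lit 307) (nat_lit 284) (nat_lit 189))) (XT.nd (nat_lit 78) (nat_lit 228) (nat_lit 0) (XT.lf (nat_lit 0) (nat_lit 17106879480) (nat_lit 152) (nat_lit 24009680918) (nat_lit 228) (nat_lit 38101153235) (nat_lit 30) (nat_lit 5) (nat_lit 32) (nat_lit 5) (nat_lit 33) (nat_lit 5) (nat_lit 308) (nat_lit 284) (nat_lit 188)) (XT.nd (nat_lit 78) (nat_lit 228) (nat_lit 0) (XT.lf (nat_lit 0) (nat_lit 64526341557) (nat_lit 228) (nat_lit 7091070525) (nat_lit 76) (nat_lit 12045969413) (nat_lit 30) (nat_lit 5) (nat_lit 33) (nat_lit 5) (nat_lit 31) (nat_lit 5) (nat_lit 309) (nat_lit 284) (nat_lit 187)) (XT.lf (nat_lit 0) (nat_lit 2560422003) (nat_lit 228) (nat_lit 34807114479) (nat_lit 76) (nat_lit 51033158921) (nat_lit 27) (nat_lit 5) (nat_lit 30) (nat_lit 5) (nat_lit 28) (nat_lit 5) (nat_lit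 310) (nat_lit 284) (nat_lit 186))))) (XT.nd (nat_lit 234) (nat_lit 304) (nat_lit 0) (XT.nd (nat_lit 78) (nat_lit 152) (nat_lit 0) (XT.lf (nat_lit 0) (nat_lit 25874705146) (nat_lit 228) (nat_lit 67092059998) (nat_lit 76) (nat_lit 506972312) (nat_lit 25) (nat_lit 5) (nat_lit 28) (nat_lit 5) (nat_lit 26) (nat_lit 5) (nat_lit 311) (nat_lit 284) (nat_lit 185)) (XT.nd (nat_lit 78) (nat_lit 152) (nat_lit 0) (XT.lf (nat_lit 0) (nat_lit 52297387015) (nat_lit 228) (nat_lit 5858800691) (nat_lit 76) (nat_lit 40734275860) (nat_lit 25) (nat_lit 5) (nat_lit 28) (nat_lit 5) (nat_lit 26) (nat_lit 5) (nat_lit 312) (nat_lit 284) (nat_lit 184)) (XT.lf (nat_lit 0) (nat_lit 62261245145) (nat_lit 152) (nat_lit 19541853442) (nat_lit 228) (nat_lit 22888971656) (nat_lit 23) (nat_lit 5) (nat_lit 25) (nat_lit 5) (nat_lit 26) (nat_lit 5) (nat_lit 313) (nat_lit 284) (nat_lit 183)))) (XT.nd (nat_lit 78) (nat_lit 152)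 (nat_lit 0) (XT.lf (nat_lit 0) (nat_lit 3484491087) (nat_lit 152) (nat_lit 85418659578) (nat_lit 76) (nat_lit 22009550312) (nat_lit 21) (nat_lit 5) (nat_lit 23) (nat_lit 5) (nat_lit 22) (nat_lit 5) (nat_lit 314) (nat_lit 284) (nat_lit 182)) (XT.nd (nat_lit 78) (nat_lit 152) (nat_lit 0) (XT.lf (nat_lit 0) (nat_lit 32254727775) (nat_lit 152) (nat_lit 17957943225) (nat_lit 76) (nat_lit 67345111609) (nat_lit 21) (nat_lit 5) (nat_lit 23) (nat_lit 5) (nat_lit 22) (nat_lit 5) (nat_lit 315) (nat_lit 284) (nat_lit 181)) (XT.lf (nat_lit 0) (nat_lit 56710625226) (nat_lit 152) (nat_lit 7498914907) (nat_lit 228) (nat_lit 60480785252) (nat_lit 19) (nat_lit 5) (nat_lit 21) (nat_lit 5) (nat_lit 22) (nat_lit 5) (nat_lit 316) (nat_lit 284) (nat_lit 180)))))) (XT.nd (nat_lit 390) (nat_lit 228) (nat_lit 0) (XT.nd (nat_lit 156) (nat_lit 304) (nat_lit 0) (XT.nd (nat_lit 78) (nat_lit 0) (nat_lit 0) (XT.lf (nat_lit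 0) (nat_lit 5169273308) (nat_lit 76) (nat_lit 94550908607) (nat_lit 152) (nat_lit 32623319710) (nat_lit 18) (nat_lit 5) (nat_lit 19) (nat_lit 5) (nat_lit 20) (nat_lit 4) (nat_lit 317) (nat_lit 284) (nat_lit 179)) (XT.lf (nat_lit 0) (nat_lit 86463230623) (nat_lit 76) (nat_lit 52914768487) (nat_lit 152) (nat_lit 1165618748) (nat_lit 18) (nat_lit 5) (nat_lit 19) (nat_lit 5) (nat_lit 20) (nat_lit 4) (nat_lit 318) (nat_lit 284) (nat_lit 178))) (XT.nd (nat_lit 78) (nat_lit 76) (nat_lit 0) (XT.lf (nat_lit 0) (nat_lit 25150056093) (nat_lit 152) (nat_lit 6999107711) (nat_lit 228) (nat_lit 117205442215) (nat_lit 15) (nat_lit 5) (nat_lit 17) (nat_lit 5) (nat_lit 18) (nat_lit 5) (nat_lit 319) (nat_lit 284) (nat_lit 177)) (XT.nd (nat_lit 78) (nat_lit 76) (nat_lit 0) (XT.lf (nat_lit 0) (nat_lit 69709237902) (nat_lit 228) (nat_lit 46876836962) (nat_lit 76) (nat_lit 42202397328) (nat_lit 15) (nat_lit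 5) (nat_lit 18) (nat_lit 5) (nat_lit 16) (nat_lit 4) (nat_lit 320) (nat_lit 284) (nat_lit 176)) (XT.lf (nat_lit 0) (nat_lit 37723165113) (nat_lit 76) (nat_lit 73256051119) (nat_lit 152) (nat_lit 57962578098) (nat_lit 14) (nat_lit 5) (nat_lit 15) (nat_lit 5) (nat_lit 16) (nat_lit 4) (nat_lit 321) (nat_lit 284) (nat_lit 175))))) (XT.nd (nat_lit 234) (nat_lit 76) (nat_lit 0) (XT.nd (nat_lit 78) (nat_lit 152) (nat_lit 0) (XT.lf (nat_lit 0) (nat_lit 130761979880) (nat_lit 76) (nat_lit 25603583890) (nat_lit 152) (nat_lit 23501081392) (nat_lit 14) (nat_lit 5) (nat_lit 15) (nat_lit 5) (nat_lit 16) (nat_lit 4) (nat_lit 322) (nat_lit 284) (nat_lit 174)) (XT.nd (nat_lit 78) (nat_lit 0) (nat_lit 0) (XT.lf (nat_lit 0) (nat_lit 14329127443) (nat_lit 152) (nat_lit 151378037949) (nat_lit 76) (nat_lit 25895070021) (nat_lit 12) (nat_lit 5) (nat_lit 14) (nat_lit 5) (nat_lit 13) (nat_lit 4) (nat_lit 323)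 (nat_lit 284) (nat_lit 173)) (XT.lf (nat_lit 0) (nat_lit 55672886916) (nat_lit 152) (nat_lit 66625941982) (nat_lit 76) (nat_lit 81893057138) (nat_lit 12) (nat_lit 5) (nat_lit 14) (nat_lit 5) (nat_lit 13) (nat_lit 4) (nat_lit 324) (nat_lit 284) (nat_lit 172)))) (XT.nd (nat_lit 78) (nat_lit 0) (nat_lit 0) (XT.lf (nat_lit 0) (nat_lit 25727061422) (nat_lit 76) (nat_lit 74997250349) (nat_lit 152) (nat_lit 117044389816) (nat_lit 11) (nat_lit 5) (nat_lit 12) (nat_lit 5) (nat_lit 13) (nat_lit 4) (nat_lit 325) (nat_lit 284) (nat_lit 171)) (XT.nd (nat_lit 78) (nat_lit 0) (nat_lit 0) (XT.lf (nat_lit 0) (nat_lit 127844925890) (nat_lit 76) (nat_lit 22694070241) (nat_lit 152) (nat_lit 81834710004) (nat_lit 11) (nat_lit 5) (nat_lit 12) (nat_lit 5) (nat_lit 13) (nat_lit 4) (nat_lit 326) (nat_lit 284) (nat_lit 170)) (XT.lf (nat_lit 0) (nat_lit 204865118878) (nat_lit 152) (nat_lit 10544931385) (nat_lit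 0) (nat_lit 32710748555) (nat_lit 11) (nat_lit 5) (nat_lit 13) (nat_lit 4) (nat_lit 11) (nat_lit 4) (nat_lit 327) (nat_lit 284) (nat_lit 169))))))))
noncomputable def xc92 : XT := (XT.nd (nat_lit 37518) (nat_lit 0) (nat_lit 2128) (XT.nd (nat_lit 780) (nat_lit 76) (nat_lit 0) (XT.nd (nat_lit 390) (nat_lit 228) (nat_lit 0) (XT.nd (nat_lit 156) (nat_lit 76) (nat_lit 0) (XT.nd (nat_lit 78) (nat_lit 0) (nat_lit 0) (XT.lf (nat_lit 0) (nat_lit 333041038) (nat_lit 152) (nat_lit 171473463934) (nat_lit 76) (nat_lit 93228772850) (nat_lit 9) (nat_lit 5) (nat_lit 11) (nat_lit 5) (nat_lit 10) (nat_lit 4) (nat_lit 328) (nat_lit 284) (nat_lit 168)) (XT.lf (nat_lit 0) (nat_lit 46099141395) (nat_lit 152) (nat_lit 77654650555) (nat_lit 76) (nat_lit 159503380999) (nat_lit 9) (nat_lit 5) (nat_lit 11) (nat_lit 5) (nat_lit 10) (nat_lit 4) (nat_lit 329) (nat_lit 284) (nat_lit 167))) (XT.nd (nat_lit 78) (nat_lit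 0) (nat_lit 0) (XT.lf (nat_lit 0) (nat_lit 24450195774) (nat_lit 76) (nat_lit 71456952120) (nat_lit 152) (nat_lit 207010641606) (nat_lit 8) (nat_lit 5) (nat_lit 9) (nat_lit 5) (nat_lit 10) (nat_lit 4) (nat_lit 330) (nat_lit 284) (nat_lit 166)) (XT.nd (nat_lit 78) (nat_lit 0) (nat_lit 0) (XT.lf (nat_lit 0) (nat_lit 137494509523) (nat_lit 76) (nat_lit 13556913819) (nat_lit 152) (nat_lit 173032251278) (nat_lit 8) (nat_lit 5) (nat_lit 9) (nat_lit 5) (nat_lit 10) (nat_lit 4) (nat_lit 331) (nat_lit 284) (nat_lit 165)) (XT.lf (nat_lit 0) (nat_lit 211370880578) (nat_lit 152) (nat_lit 88126937331) (nat_lit 0) (nat_lit 47406831269) (nat_lit 8) (nat_lit 5) (nat_lit 10) (nat_lit 4) (nat_lit 8) (nat_lit 4) (nat_lit 332) (nat_lit 284) (nat_lit 164))))) (XT.nd (nat_lit 156) (nat_lit 152) (nat_lit 0) (XT.nd (nat_lit 78) (nat_lit 0) (nat_lit 0) (XT.lf (nat_lit 0) (nat_lit 18576539451) (nat_lit 76) (nat_lit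 258457055889) (nat_lit 76) (nat_lit 94491821886) (nat_lit 7) (nat_lit 4) (nat_lit 8) (nat_lit 5) (nat_lit 8) (nat_lit 4) (nat_lit 333) (nat_lit 284) (nat_lit 163)) (XT.lf (nat_lit 0) (nat_lit 136961652620) (nat_lit 76) (nat_lit 212521906977) (nat_lit 76) (nat_lit 48555576034) (nat_lit 7) (nat_lit 4) (nat_lit 8) (nat_lit 5) (nat_lit 8) (nat_lit 4) (nat_lit 334) (nat_lit 284) (nat_lit 162))) (XT.nd (nat_lit 78) (nat_lit 76) (nat_lit 0) (XT.lf (nat_lit 0) (nat_lit 1020954066) (nat_lit 152) (nat_lit 161874390792) (nat_lit 76) (nat_lit 263777824627) (nat_lit 6) (nat_lit 5) (nat_lit 8) (nat_lit 5) (nat_lit 7) (nat_lit 4) (nat_lit 335) (nat_lit 284) (nat_lit 161)) (XT.nd (nat_lit 78) (nat_lit 76) (nat_lit 0) (XT.lf (nat_lit 0) (nat_lit 52884429295) (nat_lit 152) (nat_lit 55555207022) (nat_lit 76) (nat_lit 349117391831) (nat_lit 6) (nat_lit 5) (nat_lit 8) (nat_lit 5) (nat_lit 7) (nat_lit 4) (nat_lit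 336) (nat_lit 284) (nat_lit 160)) (XT.lf (nat_lit 0) (nat_lit 61227870765) (nat_lit 76) (nat_lit 48624338321) (nat_lit 152) (nat_lit 381011625490) (nat_lit 5) (nat_lit 5) (nat_lit 6) (nat_lit 5) (nat_lit 7) (nat_lit 4) (nat_lit 337) (nat_lit 284) (nat_lit 159)))))) (XT.nd (nat_lit 390) (nat_lit 0) (nat_lit 0) (XT.nd (nat_lit 156) (nat_lit 76) (nat_lit 0) (XT.nd (nat_lit 78) (nat_lit 0) (nat_lit 0) (XT.lf (nat_lit 0) (nat_lit 172609756613) (nat_lit 152) (nat_lit 337715926013) (nat_lit 0) (nat_lit 16447885996) (nat_lit 5) (nat_lit 5) (nat_lit 7) (nat_lit 4) (nat_lit 5) (nat_lit 4) (nat_lit 338) (nat_lit 284) (nat_lit 158)) (XT.lf (nat_lit 0) (nat_lit 241207166038) (nat_lit 152) (nat_lit 239263368377) (nat_lit 0) (nat_lit 85044584414) (nat_lit 5) (nat_lit 5) (nat_lit 7) (nat_lit 4) (nat_lit 5) (nat_lit 4) (nat_lit 339) (nat_lit 284) (nat_lit 157))) (XT.nd (nat_lit 78) (nat_lit 76) (nat_lit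 0) (XT.lf (nat_lit 0) (nat_lit 315291778340) (nat_lit 152) (nat_lit 132935706151) (nat_lit 0) (nat_lit 159128538374) (nat_lit 5) (nat_lit 5) (nat_lit 7) (nat_lit 4) (nat_lit 5) (nat_lit 4) (nat_lit 340) (nat_lit 284) (nat_lit 156)) (XT.nd (nat_lit 78) (nat_lit 76) (nat_lit 0) (XT.lf (nat_lit 0) (nat_lit 395302613442) (nat_lit 152) (nat_lit 18102849483) (nat_lit 0) (nat_lit 239138763901) (nat_lit 5) (nat_lit 5) (nat_lit 7) (nat_lit 4) (nat_lit 5) (nat_lit 4) (nat_lit 341) (nat_lit 284) (nat_lit 155)) (XT.lf (nat_lit 0) (nat_lit 109417743754) (nat_lit 76) (nat_lit 374004383495) (nat_lit 76) (nat_lit 217839969533) (nat_lit 4) (nat_lit 4) (nat_lit 5) (nat_lit 5) (nat_lit 5) (nat_lit 4) (nat_lit 342) (nat_lit 284) (nat_lit 154))))) (XT.nd (nat_lit 36114) (nat_lit 0) (nat_lit 6080) (XT.nd (nat_lit 78) (nat_lit 0) (nat_lit 0) (XT.lf (nat_lit 0) (nat_lit 247785529263) (nat_lit 76) (nat_lit 331120530509)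 (nat_lit 76) (nat_lit 174955593934) (nat_lit 4) (nat_lit 4) (nat_lit 5) (nat_lit 5) (nat_lit 5) (nat_lit 4) (nat_lit 343) (nat_lit 284) (nat_lit 153)) (XT.nd (nat_lit 78) (nat_lit 0) (nat_lit 0) (XT.lf (nat_lit 0) (nat_lit 397221902331) (nat_lit 76) (nat_lit 284806357946) (nat_lit 76) (nat_lit 128640937471) (nat_lit 4) (nat_lit 4) (nat_lit 5) (nat_lit 5) (nat_lit 5) (nat_lit 4) (nat_lit 344) (nat_lit 284) (nat_lit 152)) (XT.lf (nat_lit 0) (nat_lit 558612411835) (nat_lit 76) (nat_lit 234787411451) (nat_lit 76) (nat_lit 78621542920) (nat_lit 4) (nat_lit 4) (nat_lit 5) (nat_lit 5) (nat_lit 5) (nat_lit 4) (nat_lit 345) (nat_lit 284) (nat_lit 151)))) (XT.nd (nat_lit 78) (nat_lit 0) (nat_lit 0) (XT.lf (nat_lit 0) (nat_lit 4938307083) (nat_lit 0) (nat_lit 4938307083) (nat_lit 684) (nat_lit 4164027060) (nat_lit 84) (nat_lit 5) (nat_lit 84) (nat_lit 3) (nat_lit 93) (nat_lit 3) (nat_lit 285) (nat_lit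 285) (nat_lit 210)) (XT.nd (nat_lit 78) (nat_lit 0) (nat_lit 76) (XT.lf (nat_lit 76) (nat_lit 1750570581) (nat_lit 0) (nat_lit 19104082362) (nat_lit 760) (nat_lit 8334033220) (nat_lit 85) (nat_lit 5) (nat_lit 84) (nat_lit 5) (nat_lit 94) (nat_lit 5) (nat_lit 286) (nat_lit 285) (nat_lit 209)) (XT.lf (nat_lit 0) (nat_lit 22532637094) (nat_lit 684) (nat_lit 6607729455) (nat_lit 760) (nat_lit 1219921635) (nat_lit 85) (nat_lit 5) (nat_lit 94) (nat_lit 5) (nat_lit 95) (nat_lit 5) (nat_lit 287) (nat_lit 285) (nat_lit 208))))))) (XT.nd (nat_lit 780) (nat_lit 2052) (nat_lit 0) (XT.nd (nat_lit 390) (nat_lit 1368) (nat_lit 0) (XT.nd (nat_lit 156) (nat_lit 608) (nat_lit 0) (XT.nd (nat_lit 78) (nat_lit 0) (nat_lit 76) (XT.lf (nat_lit 76) (nat_lit 16074242398) (nat_lit 0) (nat_lit 8832493259) (nat_lit 760) (nat_lit 6690815125) (nat_lit 86) (nat_lit 5) (nat_lit 85) (nat_lit 5) (nat_lit 95) (nat_lit 5)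 (nat_lit 288) (nat_lit 285) (nat_lit 207)) (XT.lf (nat_lit 76) (nat_lit 7918226039) (nat_lit 0) (nat_lit 19987240936) (nat_lit 760) (nat_lit 5006616429) (nat_lit 87) (nat_lit 5) (nat_lit 86) (nat_lit 5) (nat_lit 96) (nat_lit 5) (nat_lit 289) (nat_lit 285) (nat_lit 206))) (XT.nd (nat_lit 78) (nat_lit 760) (nat_lit 0) (XT.lf (nat_lit 0) (nat_lit 31583686100) (nat_lit 684) (nat_lit 715473157) (nat_lit 760) (nat_lit 2010662375) (nat_lit 87) (nat_lit 5) (nat_lit 96) (nat_lit 5) (nat_lit 97) (nat_lit 5) (nat_lit 290) (nat_lit 285) (nat_lit 205)) (XT.nd (nat_lit 78) (nat_lit 0) (nat_lit 76) (XT.lf (nat_lit 0) (nat_lit 491047993) (nat_lit 760) (nat_lit 9797671154) (nat_lit 836) (nat_lit 25493593077) (nat_lit 77) (nat_lit 5) (nat_lit 87) (nat_lit 5) (nat_lit 88) (nat_lit 5) (nat_lit 291) (nat_lit 285) (nat_lit 204)) (XT.lf (nat_lit 0) (nat_lit 4372504733) (nat_lit 760) (nat_lit 19575113117) (nat_lit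 76) (nat_lit 13397647562) (nat_lit 78) (nat_lit 5) (nat_lit 88) (nat_lit 5) (nat_lit 79) (nat_lit 5) (nat_lit 292) (nat_lit 285) (nat_lit 203))))) (XT.nd (nat_lit 156) (nat_lit 988) (nat_lit 0) (XT.nd (nat_lit 78) (nat_lit 0) (nat_lit 0) (XT.lf (nat_lit 0) (nat_lit 8972169422) (nat_lit 456) (nat_lit 71283108) (nat_lit 532) (nat_lit 29965870582) (nat_lit 72) (nat_lit 5) (nat_lit 78) (nat_lit 5) (nat_lit 79) (nat_lit 5) (nat_lit 293) (nat_lit 285) (nat_lit 202)) (XT.lf (nat_lit 0) (nat_lit 14828576135) (nat_lit 532) (nat_lit 701628048) (nat_lit 76) (nat_lit 25239291969) (nat_lit 72) (nat_lit 5) (nat_lit 79) (nat_lit 5) (nat_lit 73) (nat_lit 5) (nat_lit 294) (nat_lit 285) (nat_lit 201))) (XT.nd (nat_lit 78) (nat_lit 608) (nat_lit 0) (XT.lf (nat_lit 0) (nat_lit 21733058188) (nat_lit 456) (nat_lit 10811768577) (nat_lit 76) (nat_lit 10092843401) (nat_lit 67) (nat_lit 5) (nat_lit 73) (nat_lit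 5) (nat_lit 68) (nat_lit 5) (nat_lit 295) (nat_lit 285) (nat_lit 200)) (XT.nd (nat_lit 78) (nat_lit 304) (nat_lit 0) (XT.lf (nat_lit 0) (nat_lit 22786384895) (nat_lit 304) (nat_lit 7026979844) (nat_lit 380) (nat_lit 14810773547) (nat_lit 63) (nat_lit 5) (nat_lit 67) (nat_lit 5) (nat_lit 68) (nat_lit 5) (nat_lit 296) (nat_lit 285) (nat_lit 199)) (XT.lf (nat_lit 0) (nat_lit 12776776692) (nat_lit 304) (nat_lit 26468584944) (nat_lit 380) (nat_lit 7488911409) (nat_lit 59) (nat_lit 5) (nat_lit 63) (nat_lit 5) (nat_lit 64) (nat_lit 5) (nat_lit 297) (nat_lit 285) (nat_lit 198)))))) (XT.nd (nat_lit 390) (nat_lit 988) (nat_lit 0) (XT.nd (nat_lit 156) (nat_lit 760) (nat_lit 0) (XT.nd (nat_lit 78) (nat_lit 0) (nat_lit 0) (XT.lf (nat_lit 0) (nat_lit 948215732) (nat_lit 304) (nat_lit 47133243828) (nat_lit 76) (nat_lit 904297328) (nat_lit 55) (nat_lit 5) (nat_lit 59) (nat_lit 5) (nat_lit 56) (nat_lit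 5) (nat_lit 298) (nat_lit 285) (nat_lit 197)) (XT.lf (nat_lit 0) (nat_lit 10843341425) (nat_lit 304) (nat_lit 10236897199) (nat_lit 76) (nat_lit 30278722386) (nat_lit 55) (nat_lit 5) (nat_lit 59) (nat_lit 5) (nat_lit 56) (nat_lit 5) (nat_lit 299) (nat_lit 285) (nat_lit 196))) (XT.nd (nat_lit 78) (nat_lit 456) (nat_lit 0) (XT.lf (nat_lit 0) (nat_lit 22136344293) (nat_lit 380) (nat_lit 23448632137) (nat_lit 76) (nat_lit 8306741113) (nat_lit 51) (nat_lit 5) (nat_lit 56) (nat_lit 5) (nat_lit 52) (nat_lit 5) (nat_lit 300) (nat_lit 285) (nat_lit 195)) (XT.nd (nat_lit 78) (nat_lit 228) (nat_lit 0) (XT.lf (nat_lit 0) (nat_lit 18347473274) (nat_lit 228) (nat_lit 16803529170) (nat_lit 304) (nat_lit 21435190139) (nat_lit 48) (nat_lit 5) (nat_lit 51) (nat_lit 5) (nat_lit 52) (nat_lit 5) (nat_lit 301) (nat_lit 285) (nat_lit 194)) (XT.lf (nat_lit 0) (nat_lit 4765499273) (nat_lit 228) (nat_lit 45149167578)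 (nat_lit 304) (nat_lit 9546175185) (nat_lit 45) (nat_lit 5) (nat_lit 48) (nat_lit 5) (nat_lit 49) (nat_lit 5) (nat_lit 302) (nat_lit 285) (nat_lit 193))))) (XT.nd (nat_lit 234) (nat_lit 456) (nat_lit 0) (XT.nd (nat_lit 78) (nat_lit 456) (nat_lit 0) (XT.lf (nat_lit 0) (nat_lit 4144377065) (nat_lit 304) (nat_lit 10308364803) (nat_lit 76) (nat_lit 48062365143) (nat_lit 44) (nat_lit 5) (nat_lit 48) (nat_lit 5) (nat_lit 45) (nat_lit 5) (nat_lit 303) (nat_lit 285) (nat_lit 192)) (XT.nd (nat_lit 78) (nat_lit 228) (nat_lit 0) (XT.lf (nat_lit 0) (nat_lit 19504732640) (nat_lit 304) (nat_lit 27378457496) (nat_lit 76) (nat_lit 18877254390) (nat_lit 41) (nat_lit 5) (nat_lit 45) (nat_lit 5) (nat_lit 42) (nat_lit 5) (nat_lit 304) (nat_lit 285) (nat_lit 191)) (XT.lf (nat_lit 0) (nat_lit 22548746342) (nat_lit 228) (nat_lit 14319456637) (nat_lit 304) (nat_lit 32358497864) (nat_lit 38) (nat_lit 5) (nat_lit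 41) (nat_lit 5) (nat_lit 42) (nat_lit 5) (nat_lit 305) (nat_lit 285) (nat_lit 190)))) (XT.nd (nat_lit 78) (nat_lit 304) (nat_lit 0) (XT.lf (nat_lit 0) (nat_lit 4300204806) (nat_lit 152) (nat_lit 52194150655) (nat_lit 228) (nat_lit 16432227641) (nat_lit 36) (nat_lit 5) (nat_lit 38) (nat_lit 5) (nat_lit 39) (nat_lit 5) (nat_lit 306) (nat_lit 285) (nat_lit 189)) (XT.nd (nat_lit 78) (nat_lit 228) (nat_lit 0) (XT.lf (nat_lit 0) (nat_lit 1807790644) (nat_lit 228) (nat_lit 16130474941) (nat_lit 76) (nat_lit 58930384115) (nat_lit 35) (nat_lit 5) (nat_lit 38) (nat_lit 5) (nat_lit 36) (nat_lit 5) (nat_lit 307) (nat_lit 285) (nat_lit 188)) (XT.lf (nat_lit 0) (nat_lit 21898067863) (nat_lit 304) (nat_lit 39777644084) (nat_lit 76) (nat_lit 19388567129) (nat_lit 32) (nat_lit 5) (nat_lit 36) (nat_lit 5) (nat_lit 33) (nat_lit 5) (nat_lit 308) (nat_lit 285) (nat_lit 187))))))))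
noncomputable def xc93 : XT := (XT.nd (nat_lit 1638) (nat_lit 380) (nat_lit 0) (XT.nd (nat_lit 780) (nat_lit 684) (nat_lit 0) (XT.nd (nat_lit 390) (nat_lit 532) (nat_lit 0) (XT.nd (nat_lit 156) (nat_lit 380) (nat_lit 0) (XT.nd (nat_lit 78) (nat_lit 0) (nat_lit 0) (XT.lf (nat_lit 0) (nat_lit 18574130912) (nat_lit 152) (nat_lit 25896263691) (nat_lit 228) (nat_lit 41081427114) (nat_lit 30) (nat_lit 5) (nat_lit 32) (nat_lit 5) (nat_lit 33) (nat_lit 5) (nat_lit 309) (nat_lit 285) (nat_lit 186)) (XT.lf (nat_lit 0) (nat_lit 69748674069) (nat_lit 228) (nat_lit 7564396675) (nat_lit 76) (nat_lit 13040292662) (nat_lit 30) (nat_lit 5) (nat_lit 33) (nat_lit 5) (nat_lit 31) (nat_lit 5) (nat_lit 310) (nat_lit 285) (nat_lit 185))) (XT.nd (nat_lit 78) (nat_lit 152) (nat_lit 0) (XT.lf (nat_lit 0) (nat_lit 2823429540) (nat_lit 228) (nat_lit 37499815813) (nat_lit 76) (nat_lit 55146528784) (nat_lit 27) (nat_lit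 5) (nat_lit 30) (nat_lit 5) (nat_lit 28) (nat_lit 5) (nat_lit 311) (nat_lit 285) (nat_lit 184)) (XT.nd (nat_lit 78) (nat_lit 0) (nat_lit 0) (XT.lf (nat_lit 0) (nat_lit 28000427729) (nat_lit 228) (nat_lit 72369234033) (nat_lit 76) (nat_lit 579124225) (nat_lit 25) (nat_lit 5) (nat_lit 28) (nat_lit 5) (nat_lit 26) (nat_lit 5) (nat_lit 312) (nat_lit 285) (nat_lit 183)) (XT.lf (nat_lit 0) (nat_lit 56532794802) (nat_lit 228) (nat_lit 6243994779) (nat_lit 76) (nat_lit 44022271751) (nat_lit 25) (nat_lit 5) (nat_lit 28) (nat_lit 5) (nat_lit 26) (nat_lit 5) (nat_lit 313) (nat_lit 285) (nat_lit 182))))) (XT.nd (nat_lit 156) (nat_lit 228) (nat_lit 0) (XT.nd (nat_lit 78) (nat_lit 152) (nat_lit 0) (XT.lf (nat_lit 0) (nat_lit 67322025483) (nat_lit 152) (nat_lit 21074361511) (nat_lit 228) (nat_lit 24668542697) (nat_lit 23) (nat_lit 5) (nat_lit 25) (nat_lit 5) (nat_lit 26) (nat_lit 5) (nat_lit 314) (nat_lit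 285) (nat_lit 181)) (XT.lf (nat_lit 0) (nat_lit 3811147580) (nat_lit 152) (nat_lit 92172175009) (nat_lit 76) (nat_lit 23799951857) (nat_lit 21) (nat_lit 5) (nat_lit 23) (nat_lit 5) (nat_lit 22) (nat_lit 5) (nat_lit 315) (nat_lit 285) (nat_lit 180))) (XT.nd (nat_lit 78) (nat_lit 228) (nat_lit 0) (XT.lf (nat_lit 0) (nat_lit 34879455262) (nat_lit 152) (nat_lit 19320525596) (nat_lit 76) (nat_lit 72760162686) (nat_lit 21) (nat_lit 5) (nat_lit 23) (nat_lit 5) (nat_lit 22) (nat_lit 5) (nat_lit 316) (nat_lit 285) (nat_lit 179)) (XT.nd (nat_lit 78) (nat_lit 76) (nat_lit 0) (XT.lf (nat_lit 0) (nat_lit 61318310074) (nat_lit 152) (nat_lit 8070163333) (nat_lit 228) (nat_lit 65274928567) (nat_lit 19) (nat_lit 5) (nat_lit 21) (nat_lit 5) (nat_lit 22) (nat_lit 5) (nat_lit 317) (nat_lit 285) (nat_lit 178)) (XT.lf (nat_lit 0) (nat_lit 5652199548) (nat_lit 76) (nat_lit 102086140947) (nat_lit 152) (nat_lit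 35190576154) (nat_lit 18) (nat_lit 5) (nat_lit 19) (nat_lit 5) (nat_lit 20) (nat_lit 4) (nat_lit 318) (nat_lit 285) (nat_lit 177)))))) (XT.nd (nat_lit 390) (nat_lit 380) (nat_lit 0) (XT.nd (nat_lit 156) (nat_lit 76) (nat_lit 0) (XT.nd (nat_lit 78) (nat_lit 228) (nat_lit 0) (XT.lf (nat_lit 0) (nat_lit 93444533865) (nat_lit 76) (nat_lit 57121245940) (nat_lit 152) (nat_lit 1219415347) (nat_lit 18) (nat_lit 5) (nat_lit 19) (nat_lit 5) (nat_lit 20) (nat_lit 4) (nat_lit 319) (nat_lit 285) (nat_lit 176)) (XT.lf (nat_lit 0) (nat_lit 27224753207) (nat_lit 152) (nat_lit 7532683769) (nat_lit 228) (nat_lit 126543689571) (nat_lit 15) (nat_lit 5) (nat_lit 17) (nat_lit 5) (nat_lit 18) (nat_lit 5) (nat_lit 320) (nat_lit 285) (nat_lit 175))) (XT.nd (nat_lit 78) (nat_lit 76) (nat_lit 0) (XT.lf (nat_lit 0) (nat_lit 75320006106) (nat_lit 228) (nat_lit 50567605084) (nat_lit 76) (nat_lit 45602208662) (nat_lit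 15) (nat_lit 5) (nat_lit 18) (nat_lit 5) (nat_lit 16) (nat_lit 4) (nat_lit 321) (nat_lit 285) (nat_lit 174)) (XT.nd (nat_lit 78) (nat_lit 0) (nat_lit 0) (XT.lf (nat_lit 0) (nat_lit 40797816626) (nat_lit 76) (nat_lit 79092132178) (nat_lit 152) (nat_lit 62565542775) (nat_lit 14) (nat_lit 5) (nat_lit 15) (nat_lit 5) (nat_lit 16) (nat_lit 4) (nat_lit 322) (nat_lit 285) (nat_lit 173)) (XT.lf (nat_lit 0) (nat_lit 141275529292) (nat_lit 76) (nat_lit 27629275202) (nat_lit 152) (nat_lit 25349647930) (nat_lit 14) (nat_lit 5) (nat_lit 15) (nat_lit 5) (nat_lit 16) (nat_lit 4) (nat_lit 323) (nat_lit 285) (nat_lit 172))))) (XT.nd (nat_lit 234) (nat_lit 152) (nat_lit 0) (XT.nd (nat_lit 78) (nat_lit 76) (nat_lit 0) (XT.lf (nat_lit 0) (nat_lit 15504856761) (nat_lit 152) (nat_lit 163435861114) (nat_lit 76) (nat_lit 27988204750) (nat_lit 12) (nat_lit 5) (nat_lit 14) (nat_lit 5) (nat_lit 13) (nat_lit 4) (nat_lit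 324) (nat_lit 285) (nat_lit 171)) (XT.nd (nat_lit 78) (nat_lit 76) (nat_lit 0) (XT.lf (nat_lit 0) (nat_lit 60153939279) (nat_lit 152) (nat_lit 71907480423) (nat_lit 76) (nat_lit 88464436085) (nat_lit 12) (nat_lit 5) (nat_lit 14) (nat_lit 5) (nat_lit 13) (nat_lit 4) (nat_lit 325) (nat_lit 285) (nat_lit 170)) (XT.lf (nat_lit 0) (nat_lit 27831653898) (nat_lit 76) (nat_lit 80976532688) (nat_lit 152) (nat_lit 126380696060) (nat_lit 11) (nat_lit 5) (nat_lit 12) (nat_lit 5) (nat_lit 13) (nat_lit 4) (nat_lit 326) (nat_lit 285) (nat_lit 169)))) (XT.nd (nat_lit 78) (nat_lit 152) (nat_lit 0) (XT.lf (nat_lit 0) (nat_lit 138115508444) (nat_lit 76) (nat_lit 24490616519) (nat_lit 152) (nat_lit 88356260007) (nat_lit 11) (nat_lit 5) (nat_lit 12) (nat_lit 5) (nat_lit 13) (nat_lit 4) (nat_lit 327) (nat_lit 285) (nat_lit 168)) (XT.nd (nat_lit 78) (nat_lit 152) (nat_lit 0) (XT.lf (nat_lit 0) (nat_lit 221276833446)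 (nat_lit 152) (nat_lit 11347868656) (nat_lit 0) (nat_lit 35344619443) (nat_lit 11) (nat_lit 5) (nat_lit 13) (nat_lit 4) (nat_lit 11) (nat_lit 4) (nat_lit 328) (nat_lit 285) (nat_lit 167)) (XT.lf (nat_lit 0) (nat_lit 381495359) (nat_lit 152) (nat_lit 185151715509) (nat_lit 76) (nat_lit 100703784586) (nat_lit 9) (nat_lit 5) (nat_lit 11) (nat_lit 5) (nat_lit 10) (nat_lit 4) (nat_lit 329) (nat_lit 285) (nat_lit 166))))))) (XT.nd (nat_lit 858) (nat_lit 76) (nat_lit 0) (XT.nd (nat_lit 390) (nat_lit 152) (nat_lit 0) (XT.nd (nat_lit 156) (nat_lit 76) (nat_lit 0) (XT.nd (nat_lit 78) (nat_lit 76) (nat_lit 0) (XT.lf (nat_lit 0) (nat_lit 49807268111) (nat_lit 152) (nat_lit 83830332285) (nat_lit 76) (nat_lit 172279123615) (nat_lit 9) (nat_lit 5) (nat_lit 11) (nat_lit 5) (nat_lit 10) (nat_lit 4) (nat_lit 330) (nat_lit 285) (nat_lit 165)) (XT.lf (nat_lit 0) (nat_lit 26441307234) (nat_lit 76) (nat_lit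 77157659884) (nat_lit 152) (nat_lit 223551271132) (nat_lit 8) (nat_lit 5) (nat_lit 9) (nat_lit 5) (nat_lit 10) (nat_lit 4) (nat_lit 331) (nat_lit 285) (nat_lit 164))) (XT.nd (nat_lit 78) (nat_lit 76) (nat_lit 0) (XT.lf (nat_lit 0) (nat_lit 148526566394) (nat_lit 76) (nat_lit 14626792475) (nat_lit 152) (nat_lit 186856107489) (nat_lit 8) (nat_lit 5) (nat_lit 9) (nat_lit 5) (nat_lit 10) (nat_lit 4) (nat_lit 332) (nat_lit 285) (nat_lit 163)) (XT.nd (nat_lit 78) (nat_lit 76) (nat_lit 0) (XT.lf (nat_lit 0) (nat_lit 228297264699) (nat_lit 152) (nat_lit 95146380067) (nat_lit 0) (nat_lit 51212530341) (nat_lit 8) (nat_lit 5) (nat_lit 10) (nat_lit 4) (nat_lit 8) (nat_lit 4) (nat_lit 333) (nat_lit 285) (nat_lit 162)) (XT.lf (nat_lit 0) (nat_lit 20092040141) (nat_lit 76) (nat_lit 279120177117) (nat_lit 76) (nat_lit 102034427074) (nat_lit 7) (nat_lit 4) (nat_lit 8) (nat_lit 5) (nat_lit 8) (nat_lit 4)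 (nat_lit 334) (nat_lit 285) (nat_lit 161))))) (XT.nd (nat_lit 234) (nat_lit 76) (nat_lit 0) (XT.nd (nat_lit 78) (nat_lit 76) (nat_lit 0) (XT.lf (nat_lit 0) (nat_lit 147945786250) (nat_lit 76) (nat_lit 229511212088) (nat_lit 76) (nat_lit 52424521595) (nat_lit 7) (nat_lit 4) (nat_lit 8) (nat_lit 5) (nat_lit 8) (nat_lit 4) (nat_lit 335) (nat_lit 285) (nat_lit 160)) (XT.nd (nat_lit 78) (nat_lit 0) (nat_lit 0) (XT.lf (nat_lit 0) (nat_lit 1116523361) (nat_lit 152) (nat_lit 174798688387) (nat_lit 76) (nat_lit 284891108843) (nat_lit 6) (nat_lit 5) (nat_lit 8) (nat_lit 5) (nat_lit 7) (nat_lit 4) (nat_lit 336) (nat_lit 285) (nat_lit 159)) (XT.lf (nat_lit 0) (nat_lit 57128047499) (nat_lit 152) (nat_lit 59975870187) (nat_lit 76) (nat_lit 377057022294) (nat_lit 6) (nat_lit 5) (nat_lit 8) (nat_lit 5) (nat_lit 7) (nat_lit 4) (nat_lit 337) (nat_lit 285) (nat_lit 158)))) (XT.nd (nat_lit 78) (nat_lit 0)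 (nat_lit 0) (XT.lf (nat_lit 0) (nat_lit 66148821529) (nat_lit 76) (nat_lit 52503830007) (nat_lit 152) (nat_lit 411479669830) (nat_lit 5) (nat_lit 5) (nat_lit 6) (nat_lit 5) (nat_lit 7) (nat_lit 4) (nat_lit 338) (nat_lit 285) (nat_lit 157)) (XT.nd (nat_lit 78) (nat_lit 0) (nat_lit 0) (XT.lf (nat_lit 0) (nat_lit 186430045438) (nat_lit 152) (nat_lit 364711739129) (nat_lit 0) (nat_lit 17773087934) (nat_lit 5) (nat_lit 5) (nat_lit 7) (nat_lit 4) (nat_lit 5) (nat_lit 4) (nat_lit 339) (nat_lit 285) (nat_lit 156)) (XT.lf (nat_lit 0) (nat_lit 260514395152) (nat_lit 152) (nat_lit 258384566584) (nat_lit 0) (nat_lit 91856828072) (nat_lit 5) (nat_lit 5) (nat_lit 7) (nat_lit 4) (nat_lit 5) (nat_lit 4) (nat_lit 340) (nat_lit 285) (nat_lit 155)))))) (XT.nd (nat_lit 36348) (nat_lit 0) (nat_lit 6080) (XT.nd (nat_lit 156) (nat_lit 76) (nat_lit 0) (XT.nd (nat_lit 78) (nat_lit 0) (nat_lit 0) (XT.lf (nat_lit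 0) (nat_lit 340524987116) (nat_lit 152) (nat_lit 143552163325) (nat_lit 0) (nat_lit 171866855616) (nat_lit 5) (nat_lit 5) (nat_lit 7) (nat_lit 4) (nat_lit 5) (nat_lit 4) (nat_lit 341) (nat_lit 285) (nat_lit 154)) (XT.lf (nat_lit 0) (nat_lit 426935958174) (nat_lit 152) (nat_lit 19534041036) (nat_lit 0) (nat_lit 258277304061) (nat_lit 5) (nat_lit 5) (nat_lit 7) (nat_lit 4) (nat_lit 5) (nat_lit 4) (nat_lit 342) (nat_lit 285) (nat_lit 153))) (XT.nd (nat_lit 78) (nat_lit 0) (nat_lit 0) (XT.lf (nat_lit 0) (nat_lit 118187459279) (nat_lit 76) (nat_lit 403917151519) (nat_lit 76) (nat_lit 235258013505) (nat_lit 4) (nat_lit 4) (nat_lit 5) (nat_lit 5) (nat_lit 5) (nat_lit 4) (nat_lit 343) (nat_lit 285) (nat_lit 152)) (XT.nd (nat_lit 78) (nat_lit 0) (nat_lit 0) (XT.lf (nat_lit 0) (nat_lit 267623460515) (nat_lit 76) (nat_lit 357603151972) (nat_lit 76) (nat_lit 188943565902) (nat_lit 4) (nat_lit 4) (nat_lit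 5) (nat_lit 5) (nat_lit 5) (nat_lit 4) (nat_lit 344) (nat_lit 285) (nat_lit 151)) (XT.lf (nat_lit 0) (nat_lit 429013625731) (nat_lit 76) (nat_lit 307584365676) (nat_lit 76) (nat_lit 138924364740) (nat_lit 4) (nat_lit 4) (nat_lit 5) (nat_lit 5) (nat_lit 5) (nat_lit 4) (nat_lit 345) (nat_lit 285) (nat_lit 150))))) (XT.nd (nat_lit 234) (nat_lit 0) (nat_lit 76) (XT.nd (nat_lit 78) (nat_lit 0) (nat_lit 0) (XT.lf (nat_lit 0) (nat_lit 5392782649) (nat_lit 0) (nat_lit 5392782649) (nat_lit 684) (nat_lit 4372110113) (nat_lit 84) (nat_lit 5) (nat_lit 84) (nat_lit 3) (nat_lit 93) (nat_lit 3) (nat_lit 286) (nat_lit 286) (nat_lit 208)) (XT.nd (nat_lit 78) (nat_lit 0) (nat_lit 76) (XT.lf (nat_lit 76) (nat_lit 2017942741) (nat_lit 0) (nat_lit 20725393371) (nat_lit 760) (nat_lit 8768918259) (nat_lit 85) (nat_lit 5) (nat_lit 84) (nat_lit 5) (nat_lit 94) (nat_lit 5) (nat_lit 287) (nat_lit 286) (nat_lit 207))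 (XT.lf (nat_lit 0) (nat_lit 24537895457) (nat_lit 684) (nat_lit 7006435825) (nat_lit 760) (nat_lit 1234174312) (nat_lit 85) (nat_lit 5) (nat_lit 94) (nat_lit 5) (nat_lit 95) (nat_lit 5) (nat_lit 288) (nat_lit 286) (nat_lit 206)))) (XT.nd (nat_lit 78) (nat_lit 0) (nat_lit 76) (XT.lf (nat_lit 76) (nat_lit 17484447960) (nat_lit 0) (nat_lit 9604403170) (nat_lit 760) (nat_lit 7026586666) (nat_lit 86) (nat_lit 5) (nat_lit 85) (nat_lit 5) (nat_lit 95) (nat_lit 5) (nat_lit 289) (nat_lit 286) (nat_lit 205)) (XT.nd (nat_lit 78) (nat_lit 0) (nat_lit 76) (XT.lf (nat_lit 76) (nat_lit 8681011268) (nat_lit 0) (nat_lit 21633501984) (nat_lit 760) (nat_lit 5221300621) (nat_lit 87) (nat_lit 5) (nat_lit 86) (nat_lit 5) (nat_lit 96) (nat_lit 5) (nat_lit 290) (nat_lit 286) (nat_lit 204)) (XT.lf (nat_lit 0) (nat_lit 34273224245) (nat_lit 684) (nat_lit 643728093) (nat_lit 760) (nat_lit 2129137160) (nat_lit 87)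 (nat_lit 5) (nat_lit 96) (nat_lit 5) (nat_lit 97) (nat_lit 5) (nat_lit 291) (nat_lit 286) (nat_lit 203))))))))
noncomputable def xc94 : XT := (XT.nd (nat_lit 1638) (nat_lit 1444) (nat_lit 0) (XT.nd (nat_lit 780) (nat_lit 1824) (nat_lit 0) (XT.nd (nat_lit 390) (nat_lit 1216) (nat_lit 0) (XT.nd (nat_lit 156) (nat_lit 760) (nat_lit 0) (XT.nd (nat_lit 78) (nat_lit 0) (nat_lit 76) (XT.lf (nat_lit 0) (nat_lit 685879027) (nat_lit 760) (nat_lit 10452632970) (nat_lit 836) (nat_lit 27498276538) (nat_lit 77) (nat_lit 5) (nat_lit 87) (nat_lit 5) (nat_lit 88) (nat_lit 5) (nat_lit 292) (nat_lit 286) (nat_lit 202)) (XT.lf (nat_lit 0) (nat_lit 4867900233) (nat_lit 760) (nat_lit 21009911426) (nat_lit 76) (nat_lit 14447488464) (nat_lit 78) (nat_lit 5) (nat_lit 88) (nat_lit 5) (nat_lit 79) (nat_lit 5) (nat_lit 293) (nat_lit 286) (nat_lit 201))) (XT.nd (nat_lit 78) (nat_lit 380) (nat_lit 0) (XT.lf (nat_lit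 0) (nat_lit 9815451457) (nat_lit 456) (nat_lit 88247112) (nat_lit 532) (nat_lit 32219247857) (nat_lit 72) (nat_lit 5) (nat_lit 78) (nat_lit 5) (nat_lit 79) (nat_lit 5) (nat_lit 294) (nat_lit 286) (nat_lit 200)) (XT.nd (nat_lit 78) (nat_lit 380) (nat_lit 0) (XT.lf (nat_lit 0) (nat_lit 16141338166) (nat_lit 532) (nat_lit 634788998) (nat_lit 76) (nat_lit 27248341880) (nat_lit 72) (nat_lit 5) (nat_lit 79) (nat_lit 5) (nat_lit 73) (nat_lit 5) (nat_lit 295) (nat_lit 286) (nat_lit 199)) (XT.lf (nat_lit 0) (nat_lit 23590626067) (nat_lit 456) (nat_lit 11552873568) (nat_lit 76) (nat_lit 10898994463) (nat_lit 67) (nat_lit 5) (nat_lit 73) (nat_lit 5) (nat_lit 68) (nat_lit 5) (nat_lit 296) (nat_lit 286) (nat_lit 198))))) (XT.nd (nat_lit 156) (nat_lit 608) (nat_lit 0) (XT.nd (nat_lit 78) (nat_lit 304) (nat_lit 0) (XT.lf (nat_lit 0) (nat_lit 24727750400) (nat_lit 304) (nat_lit 7582647025) (nat_lit 380)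 (nat_lit 15877848267) (nat_lit 63) (nat_lit 5) (nat_lit 67) (nat_lit 5) (nat_lit 68) (nat_lit 5) (nat_lit 297) (nat_lit 286) (nat_lit 197)) (XT.lf (nat_lit 0) (nat_lit 13917699270) (nat_lit 304) (nat_lit 28572909546) (nat_lit 380) (nat_lit 7976916382) (nat_lit 59) (nat_lit 5) (nat_lit 63) (nat_lit 5) (nat_lit 64) (nat_lit 5) (nat_lit 298) (nat_lit 286) (nat_lit 196))) (XT.nd (nat_lit 78) (nat_lit 304) (nat_lit 0) (XT.lf (nat_lit 0) (nat_lit 1125734570) (nat_lit 304) (nat_lit 50781684897) (nat_lit 76) (nat_lit 991930784) (nat_lit 55) (nat_lit 5) (nat_lit 59) (nat_lit 5) (nat_lit 56) (nat_lit 5) (nat_lit 299) (nat_lit 286) (nat_lit 195)) (XT.nd (nat_lit 78) (nat_lit 304) (nat_lit 0) (XT.lf (nat_lit 0) (nat_lit 11804939831) (nat_lit 304) (nat_lit 10942683756) (nat_lit 76) (nat_lit 32715177278) (nat_lit 55) (nat_lit 5) (nat_lit 59) (nat_lit 5) (nat_lit 56) (nat_lit 5) (nat_lit 300) (nat_lit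 286) (nat_lit 194)) (XT.lf (nat_lit 0) (nat_lit 23996403166) (nat_lit 380) (nat_lit 25211978113) (nat_lit 76) (nat_lit 8990058257) (nat_lit 51) (nat_lit 5) (nat_lit 56) (nat_lit 5) (nat_lit 52) (nat_lit 5) (nat_lit 301) (nat_lit 286) (nat_lit 193)))))) (XT.nd (nat_lit 390) (nat_lit 836) (nat_lit 0) (XT.nd (nat_lit 156) (nat_lit 532) (nat_lit 0) (XT.nd (nat_lit 78) (nat_lit 228) (nat_lit 0) (XT.lf (nat_lit 0) (nat_lit 19922924680) (nat_lit 228) (nat_lit 18124386260) (nat_lit 304) (nat_lit 23061419482) (nat_lit 48) (nat_lit 5) (nat_lit 51) (nat_lit 5) (nat_lit 52) (nat_lit 5) (nat_lit 302) (nat_lit 286) (nat_lit 192)) (XT.lf (nat_lit 0) (nat_lit 5253532620) (nat_lit 228) (nat_lit 48734302733) (nat_lit 304) (nat_lit 10225738963) (nat_lit 45) (nat_lit 5) (nat_lit 48) (nat_lit 5) (nat_lit 49) (nat_lit 5) (nat_lit 303) (nat_lit 286) (nat_lit 191))) (XT.nd (nat_lit 78) (nat_lit 456) (nat_lit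 0) (XT.lf (nat_lit 0) (nat_lit 4551332364) (nat_lit 304) (nat_lit 11031538636) (nat_lit 76) (nat_lit 51929554981) (nat_lit 44) (nat_lit 5) (nat_lit 48) (nat_lit 5) (nat_lit 45) (nat_lit 5) (nat_lit 304) (nat_lit 286) (nat_lit 190)) (XT.nd (nat_lit 78) (nat_lit 228) (nat_lit 0) (XT.lf (nat_lit 0) (nat_lit 21136848596) (nat_lit 304) (nat_lit 29468374364) (nat_lit 76) (nat_lit 20412359765) (nat_lit 41) (nat_lit 5) (nat_lit 45) (nat_lit 5) (nat_lit 42) (nat_lit 5) (nat_lit 305) (nat_lit 286) (nat_lit 189)) (XT.lf (nat_lit 0) (nat_lit 24448644269) (nat_lit 228) (nat_lit 15436937217) (nat_lit 304) (nat_lit 34875757000) (nat_lit 38) (nat_lit 5) (nat_lit 41) (nat_lit 5) (nat_lit 42) (nat_lit 5) (nat_lit 306) (nat_lit 286) (nat_lit 188))))) (XT.nd (nat_lit 234) (nat_lit 380) (nat_lit 0) (XT.nd (nat_lit 78) (nat_lit 304) (nat_lit 0) (XT.lf (nat_lit 0) (nat_lit 4738974537) (nat_lit 152) (nat_lit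 56339705591) (nat_lit 228) (nat_lit 17678696079) (nat_lit 36) (nat_lit 5) (nat_lit 38) (nat_lit 5) (nat_lit 39) (nat_lit 5) (nat_lit 307) (nat_lit 286) (nat_lit 187)) (XT.nd (nat_lit 78) (nat_lit 228) (nat_lit 0) (XT.lf (nat_lit 0) (nat_lit 2013460038) (nat_lit 228) (nat_lit 17331076357) (nat_lit 76) (nat_lit 63670469435) (nat_lit 35) (nat_lit 5) (nat_lit 38) (nat_lit 5) (nat_lit 36) (nat_lit 5) (nat_lit 308) (nat_lit 286) (nat_lit 186)) (XT.lf (nat_lit 0) (nat_lit 23708217342) (nat_lit 304) (nat_lit 42871390775) (nat_lit 76) (nat_lit 20966820733) (nat_lit 32) (nat_lit 5) (nat_lit 36) (nat_lit 5) (nat_lit 33) (nat_lit 5) (nat_lit 309) (nat_lit 286) (nat_lit 185)))) (XT.nd (nat_lit 78) (nat_lit 228) (nat_lit 0) (XT.lf (nat_lit 0) (nat_lit 20144681647) (nat_lit 152) (nat_lit 27938650915) (nat_lit 228) (nat_lit 44309797953) (nat_lit 30) (nat_lit 5) (nat_lit 32) (nat_lit 5) (nat_lit 33) (nat_lit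 5) (nat_lit 310) (nat_lit 286) (nat_lit 184)) (XT.nd (nat_lit 78) (nat_lit 228) (nat_lit 0) (XT.lf (nat_lit 0) (nat_lit 75380201386) (nat_lit 228) (nat_lit 8088993289) (nat_lit 76) (nat_lit 14109789820) (nat_lit 30) (nat_lit 5) (nat_lit 33) (nat_lit 5) (nat_lit 31) (nat_lit 5) (nat_lit 311) (nat_lit 286) (nat_lit 183)) (XT.lf (nat_lit 0) (nat_lit 3099178541) (nat_lit 228) (nat_lit 40421039225) (nat_lit 76) (nat_lit 59584586092) (nat_lit 27) (nat_lit 5) (nat_lit 30) (nat_lit 5) (nat_lit 28) (nat_lit 5) (nat_lit 312) (nat_lit 286) (nat_lit 182))))))) (XT.nd (nat_lit 780) (nat_lit 532) (nat_lit 0) (XT.nd (nat_lit 390) (nat_lit 456) (nat_lit 0) (XT.nd (nat_lit 156) (nat_lit 304) (nat_lit 0) (XT.nd (nat_lit 78) (nat_lit 0) (nat_lit 0) (XT.lf (nat_lit 0) (nat_lit 30288255305) (nat_lit 228) (nat_lit 78081448711) (nat_lit 76) (nat_lit 652541035) (nat_lit 25) (nat_lit 5) (nat_lit 28) (nat_lit 5)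 (nat_lit 26) (nat_lit 5) (nat_lit 313) (nat_lit 286) (nat_lit 181)) (XT.lf (nat_lit 0) (nat_lit 61099671494) (nat_lit 228) (nat_lit 6671918024) (nat_lit 76) (nat_lit 47569133928) (nat_lit 25) (nat_lit 5) (nat_lit 28) (nat_lit 5) (nat_lit 26) (nat_lit 5) (nat_lit 314) (nat_lit 286) (nat_lit 180))) (XT.nd (nat_lit 78) (nat_lit 152) (nat_lit 0) (XT.lf (nat_lit 0) (nat_lit 72776272369) (nat_lit 152) (nat_lit 22733869925) (nat_lit 228) (nat_lit 26597833132) (nat_lit 23) (nat_lit 5) (nat_lit 25) (nat_lit 5) (nat_lit 26) (nat_lit 5) (nat_lit 315) (nat_lit 286) (nat_lit 179)) (XT.nd (nat_lit 78) (nat_lit 0) (nat_lit 0) (XT.lf (nat_lit 0) (nat_lit 4157103521) (nat_lit 152) (nat_lit 99477381336) (nat_lit 76) (nat_lit 25729357402) (nat_lit 21) (nat_lit 5) (nat_lit 23) (nat_lit 5) (nat_lit 22) (nat_lit 5) (nat_lit 316) (nat_lit 286) (nat_lit 178)) (XT.lf (nat_lit 0) (nat_lit 37707834029) (nat_lit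 152) (nat_lit 20802679057) (nat_lit 76) (nat_lit 78604502919) (nat_lit 21) (nat_lit 5) (nat_lit 23) (nat_lit 5) (nat_lit 22) (nat_lit 5) (nat_lit 317) (nat_lit 286) (nat_lit 177))))) (XT.nd (nat_lit 156) (nat_lit 228) (nat_lit 0) (XT.nd (nat_lit 78) (nat_lit 76) (nat_lit 0) (XT.lf (nat_lit 0) (nat_lit 66284504331) (nat_lit 152) (nat_lit 8691200983) (nat_lit 228) (nat_lit 70458926021) (nat_lit 19) (nat_lit 5) (nat_lit 21) (nat_lit 5) (nat_lit 22) (nat_lit 5) (nat_lit 318) (nat_lit 286) (nat_lit 176)) (XT.lf (nat_lit 0) (nat_lit 6163861430) (nat_lit 76) (nat_lit 110228306272) (nat_lit 152) (nat_lit 37969291783) (nat_lit 18) (nat_lit 5) (nat_lit 19) (nat_lit 5) (nat_lit 20) (nat_lit 4) (nat_lit 319) (nat_lit 286) (nat_lit 175))) (XT.nd (nat_lit 78) (nat_lit 228) (nat_lit 0) (XT.lf (nat_lit 0) (nat_lit 100975176129) (nat_lit 76) (nat_lit 61668051217) (nat_lit 152) (nat_lit 1283144072) (nat_lit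 18) (nat_lit 5) (nat_lit 19) (nat_lit 5) (nat_lit 20) (nat_lit 4) (nat_lit 320) (nat_lit 286) (nat_lit 174)) (XT.nd (nat_lit 78) (nat_lit 0) (nat_lit 0) (XT.lf (nat_lit 0) (nat_lit 29456482286) (nat_lit 152) (nat_lit 8112705399) (nat_lit 228) (nat_lit 136634444664) (nat_lit 15) (nat_lit 5) (nat_lit 17) (nat_lit 5) (nat_lit 18) (nat_lit 5) (nat_lit 321) (nat_lit 286) (nat_lit 173)) (XT.lf (nat_lit 0) (nat_lit 81374781125) (nat_lit 228) (nat_lit 54562105710) (nat_lit 76) (nat_lit 49270635310) (nat_lit 15) (nat_lit 5) (nat_lit 18) (nat_lit 5) (nat_lit 16) (nat_lit 4) (nat_lit 322) (nat_lit 286) (nat_lit 172)))))) (XT.nd (nat_lit 390) (nat_lit 228) (nat_lit 0) (XT.nd (nat_lit 156) (nat_lit 228) (nat_lit 0) (XT.nd (nat_lit 78) (nat_lit 0) (nat_lit 0) (XT.lf (nat_lit 0) (nat_lit 44110337346) (nat_lit 76) (nat_lit 85398581087) (nat_lit 152) (nat_lit 67541601037) (nat_lit 14) (nat_lit 5) (nat_lit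 15) (nat_lit 5) (nat_lit 16) (nat_lit 4) (nat_lit 323) (nat_lit 286) (nat_lit 171)) (XT.lf (nat_lit 0) (nat_lit 152622659960) (nat_lit 76) (nat_lit 29820245306) (nat_lit 152) (nat_lit 27350596468) (nat_lit 14) (nat_lit 5) (nat_lit 15) (nat_lit 5) (nat_lit 16) (nat_lit 4) (nat_lit 324) (nat_lit 286) (nat_lit 170))) (XT.nd (nat_lit 78) (nat_lit 76) (nat_lit 0) (XT.lf (nat_lit 0) (nat_lit 16770450310) (nat_lit 152) (nat_lit 176465788413) (nat_lit 76) (nat_lit 30245718886) (nat_lit 12) (nat_lit 5) (nat_lit 14) (nat_lit 5) (nat_lit 13) (nat_lit 4) (nat_lit 325) (nat_lit 286) (nat_lit 169)) (XT.nd (nat_lit 78) (nat_lit 76) (nat_lit 0) (XT.lf (nat_lit 0) (nat_lit 64989592392) (nat_lit 152) (nat_lit 77618466274) (nat_lit 76) (nat_lit 95558681487) (nat_lit 12) (nat_lit 5) (nat_lit 14) (nat_lit 5) (nat_lit 13) (nat_lit 4) (nat_lit 326) (nat_lit 286) (nat_lit 168)) (XT.lf (nat_lit 0) (nat_lit 30097990361)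 (nat_lit 76) (nat_lit 87437081839) (nat_lit 152) (nat_lit 136467793599) (nat_lit 11) (nat_lit 5) (nat_lit 12) (nat_lit 5) (nat_lit 13) (nat_lit 4) (nat_lit 327) (nat_lit 286) (nat_lit 167))))) (XT.nd (nat_lit 234) (nat_lit 76) (nat_lit 0) (XT.nd (nat_lit 78) (nat_lit 152) (nat_lit 0) (XT.lf (nat_lit 0) (nat_lit 149201604815) (nat_lit 76) (nat_lit 26433594114) (nat_lit 152) (nat_lit 95403132895) (nat_lit 11) (nat_lit 5) (nat_lit 12) (nat_lit 5) (nat_lit 13) (nat_lit 4) (nat_lit 328) (nat_lit 286) (nat_lit 166)) (XT.nd (nat_lit 78) (nat_lit 152) (nat_lit 0) (XT.lf (nat_lit 0) (nat_lit 238998274581) (nat_lit 152) (nat_lit 12220841119) (nat_lit 0) (nat_lit 38186773193) (nat_lit 11) (nat_lit 5) (nat_lit 13) (nat_lit 4) (nat_lit 11) (nat_lit 4) (nat_lit 329) (nat_lit 286) (nat_lit 165)) (XT.lf (nat_lit 0) (nat_lit 430714437) (nat_lit 152) (nat_lit 199929880236) (nat_lit 76) (nat_lit 108774413405)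 (nat_lit 9) (nat_lit 5) (nat_lit 11) (nat_lit 5) (nat_lit 10) (nat_lit 4) (nat_lit 330) (nat_lit 286) (nat_lit 164)))) (XT.nd (nat_lit 78) (nat_lit 76) (nat_lit 0) (XT.lf (nat_lit 0) (nat_lit 53809163865) (nat_lit 152) (nat_lit 90505302837) (nat_lit 76) (nat_lit 186074718367) (nat_lit 9) (nat_lit 5) (nat_lit 11) (nat_lit 5) (nat_lit 10) (nat_lit 4) (nat_lit 331) (nat_lit 286) (nat_lit 163)) (XT.nd (nat_lit 78) (nat_lit 0) (nat_lit 0) (XT.lf (nat_lit 0) (nat_lit 28586700803) (nat_lit 76) (nat_lit 83316685222) (nat_lit 152) (nat_lit 241418035887) (nat_lit 8) (nat_lit 5) (nat_lit 9) (nat_lit 5) (nat_lit 10) (nat_lit 4) (nat_lit 332) (nat_lit 286) (nat_lit 162)) (XT.lf (nat_lit 0) (nat_lit 160436551882) (nat_lit 76) (nat_lit 15784354898) (nat_lit 152) (nat_lit 201788543370) (nat_lit 8) (nat_lit 5) (nat_lit 9) (nat_lit 5) (nat_lit 10) (nat_lit 4) (nat_lit 333) (nat_lit 286) (nat_lit 161))))))))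
noncomputable def xc95 : XT := (XT.nd (nat_lit 37674) (nat_lit 0) (nat_lit 1292) (XT.nd (nat_lit 780) (nat_lit 76) (nat_lit 0) (XT.nd (nat_lit 390) (nat_lit 76) (nat_lit 0) (XT.nd (nat_lit 156) (nat_lit 76) (nat_lit 0) (XT.nd (nat_lit 78) (nat_lit 76) (nat_lit 0) (XT.lf (nat_lit 0) (nat_lit 246575375158) (nat_lit 152) (nat_lit 102731759667) (nat_lit 0) (nat_lit 55320808977) (nat_lit 8) (nat_lit 5) (nat_lit 10) (nat_lit 4) (nat_lit 8) (nat_lit 4) (nat_lit 334) (nat_lit 286) (nat_lit 160)) (XT.lf (nat_lit 0) (nat_lit 21724589853) (nat_lit 76) (nat_lit 301438265872) (nat_lit 76) (nat_lit 110182828905) (nat_lit 7) (nat_lit 4) (nat_lit 8) (nat_lit 5) (nat_lit 8) (nat_lit 4) (nat_lit 335) (nat_lit 286) (nat_lit 159))) (XT.nd (nat_lit 78) (nat_lit 76) (nat_lit 0) (XT.lf (nat_lit 0) (nat_lit 159804769983) (nat_lit 76) (nat_lit 247861437375) (nat_lit 76) (nat_lit 56605194124) (nat_lit 7) (nat_lit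 4) (nat_lit 8) (nat_lit 5) (nat_lit 8) (nat_lit 4) (nat_lit 336) (nat_lit 286) (nat_lit 158)) (XT.nd (nat_lit 78) (nat_lit 0) (nat_lit 0) (XT.lf (nat_lit 0) (nat_lit 1217756213) (nat_lit 152) (nat_lit 188760589572) (nat_lit 76) (nat_lit 307691878214) (nat_lit 6) (nat_lit 5) (nat_lit 8) (nat_lit 5) (nat_lit 7) (nat_lit 4) (nat_lit 337) (nat_lit 286) (nat_lit 157)) (XT.lf (nat_lit 0) (nat_lit 61709319987) (nat_lit 152) (nat_lit 64753575093) (nat_lit 76) (nat_lit 407230362470) (nat_lit 6) (nat_lit 5) (nat_lit 8) (nat_lit 5) (nat_lit 7) (nat_lit 4) (nat_lit 338) (nat_lit 286) (nat_lit 156))))) (XT.nd (nat_lit 156) (nat_lit 0) (nat_lit 0) (XT.nd (nat_lit 78) (nat_lit 0) (nat_lit 0) (XT.lf (nat_lit 0) (nat_lit 71460206935) (nat_lit 76) (nat_lit 56695172604) (nat_lit 152) (nat_lit 444386996006) (nat_lit 5) (nat_lit 5) (nat_lit 6) (nat_lit 5) (nat_lit 7) (nat_lit 4) (nat_lit 339) (nat_lit 286)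 (nat_lit 155)) (XT.lf (nat_lit 0) (nat_lit 201354315583) (nat_lit 152) (nat_lit 393870278941) (nat_lit 0) (nat_lit 19202969141) (nat_lit 5) (nat_lit 5) (nat_lit 7) (nat_lit 4) (nat_lit 5) (nat_lit 4) (nat_lit 340) (nat_lit 286) (nat_lit 154))) (XT.nd (nat_lit 78) (nat_lit 0) (nat_lit 0) (XT.lf (nat_lit 0) (nat_lit 281364682421) (nat_lit 152) (nat_lit 279038295505) (nat_lit 0) (nat_lit 99212813366) (nat_lit 5) (nat_lit 5) (nat_lit 7) (nat_lit 4) (nat_lit 5) (nat_lit 4) (nat_lit 341) (nat_lit 286) (nat_lit 153)) (XT.nd (nat_lit 78) (nat_lit 0) (nat_lit 0) (XT.lf (nat_lit 0) (nat_lit 367775445027) (nat_lit 152) (nat_lit 155020561941) (nat_lit 0) (nat_lit 185623092073) (nat_lit 5) (nat_lit 5) (nat_lit 7) (nat_lit 4) (nat_lit 5) (nat_lit 4) (nat_lit 342) (nat_lit 286) (nat_lit 152)) (XT.lf (nat_lit 0) (nat_lit 461098667181) (nat_lit 152) (nat_lit 21082158347) (nat_lit 0) (nat_lit 278945866171)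 (nat_lit 5) (nat_lit 5) (nat_lit 7) (nat_lit 4) (nat_lit 5) (nat_lit 4) (nat_lit 343) (nat_lit 286) (nat_lit 151)))))) (XT.nd (nat_lit 36426) (nat_lit 0) (nat_lit 5168) (XT.nd (nat_lit 36192) (nat_lit 0) (nat_lit 6080) (XT.nd (nat_lit 78) (nat_lit 0) (nat_lit 0) (XT.lf (nat_lit 0) (nat_lit 127656427235) (nat_lit 76) (nat_lit 436224022735) (nat_lit 76) (nat_lit 254070806858) (nat_lit 4) (nat_lit 4) (nat_lit 5) (nat_lit 5) (nat_lit 5) (nat_lit 4) (nat_lit 344) (nat_lit 286) (nat_lit 150)) (XT.lf (nat_lit 0) (nat_lit 289046273666) (nat_lit 76) (nat_lit 386205384773) (nat_lit 76) (nat_lit 204051784760) (nat_lit 4) (nat_lit 4) (nat_lit 5) (nat_lit 5) (nat_lit 5) (nat_lit 4) (nat_lit 345) (nat_lit 286) (nat_lit 149))) (XT.nd (nat_lit 78) (nat_lit 0) (nat_lit 0) (XT.lf (nat_lit 0) (nat_lit 5875140616) (nat_lit 0) (nat_lit 5875140616) (nat_lit 684) (nat_lit 4614678037) (nat_lit 84) (nat_lit 5)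 (nat_lit 84) (nat_lit 3) (nat_lit 93) (nat_lit 3) (nat_lit 287) (nat_lit 287) (nat_lit 206)) (XT.nd (nat_lit 78) (nat_lit 0) (nat_lit 76) (XT.lf (nat_lit 76) (nat_lit 2288540123) (nat_lit 0) (nat_lit 22463143995) (nat_lit 760) (nat_lit 9271668330) (nat_lit 85) (nat_lit 5) (nat_lit 84) (nat_lit 5) (nat_lit 94) (nat_lit 5) (nat_lit 288) (nat_lit 287) (nat_lit 205)) (XT.lf (nat_lit 0) (nat_lit 26674664572) (nat_lit 684) (nat_lit 7455572102) (nat_lit 760) (nat_lit 1261456736) (nat_lit 85) (nat_lit 5) (nat_lit 94) (nat_lit 5) (nat_lit 95) (nat_lit 5) (nat_lit 289) (nat_lit 287) (nat_lit 204))))) (XT.nd (nat_lit 234) (nat_lit 988) (nat_lit 0) (XT.nd (nat_lit 78) (nat_lit 0) (nat_lit 76) (XT.lf (nat_lit 76) (nat_lit 18989742009) (nat_lit 0) (nat_lit 10428748608) (nat_lit 760) (nat_lit 7417679932) (nat_lit 86) (nat_lit 5) (nat_lit 85) (nat_lit 5) (nat_lit 95) (nat_lit 5) (nat_lit 290) (nat_lit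 287) (nat_lit 203)) (XT.nd (nat_lit 78) (nat_lit 0) (nat_lit 76) (XT.lf (nat_lit 76) (nat_lit 9486369352) (nat_lit 0) (nat_lit 23404718643) (nat_lit 760) (nat_lit 5479672432) (nat_lit 87) (nat_lit 5) (nat_lit 86) (nat_lit 5) (nat_lit 96) (nat_lit 5) (nat_lit 291) (nat_lit 287) (nat_lit 202)) (XT.lf (nat_lit 0) (nat_lit 37154694031) (nat_lit 684) (nat_lit 584644278) (nat_lit 760) (nat_lit 2263135653) (nat_lit 87) (nat_lit 5) (nat_lit 96) (nat_lit 5) (nat_lit 97) (nat_lit 5) (nat_lit 292) (nat_lit 287) (nat_lit 201)))) (XT.nd (nat_lit 78) (nat_lit 380) (nat_lit 0) (XT.lf (nat_lit 0) (nat_lit 874105997) (nat_lit 760) (nat_lit 11178373891) (nat_lit 836) (nat_lit 29668299854) (nat_lit 77) (nat_lit 5) (nat_lit 87) (nat_lit 5) (nat_lit 88) (nat_lit 5) (nat_lit 293) (nat_lit 287) (nat_lit 200)) (XT.nd (nat_lit 78) (nat_lit 456) (nat_lit 0) (XT.lf (nat_lit 0) (nat_lit 5382156602) (nat_lit 760)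 (nat_lit 22578212279) (nat_lit 76) (nat_lit 15584451033) (nat_lit 78) (nat_lit 5) (nat_lit 88) (nat_lit 5) (nat_lit 79) (nat_lit 5) (nat_lit 294) (nat_lit 287) (nat_lit 199)) (XT.lf (nat_lit 0) (nat_lit 10708290867) (nat_lit 456) (nat_lit 104961678) (nat_lit 532) (nat_lit 34673423170) (nat_lit 72) (nat_lit 5) (nat_lit 78) (nat_lit 5) (nat_lit 79) (nat_lit 5) (nat_lit 295) (nat_lit 287) (nat_lit 198))))))) (XT.nd (nat_lit 858) (nat_lit 1520) (nat_lit 0) (XT.nd (nat_lit 390) (nat_lit 1064) (nat_lit 0) (XT.nd (nat_lit 156) (nat_lit 912) (nat_lit 0) (XT.nd (nat_lit 78) (nat_lit 380) (nat_lit 0) (XT.lf (nat_lit 0) (nat_lit 17541077953) (nat_lit 532) (nat_lit 580145769) (nat_lit 76) (nat_lit 29419555727) (nat_lit 72) (nat_lit 5) (nat_lit 79) (nat_lit 5) (nat_lit 73) (nat_lit 5) (nat_lit 296) (nat_lit 287) (nat_lit 197)) (XT.lf (nat_lit 0) (nat_lit 25579833649) (nat_lit 456) (nat_lit 12370933618)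 (nat_lit 76) (nat_lit 11769819705) (nat_lit 67) (nat_lit 5) (nat_lit 73) (nat_lit 5) (nat_lit 68) (nat_lit 5) (nat_lit 297) (nat_lit 287) (nat_lit 196))) (XT.nd (nat_lit 78) (nat_lit 608) (nat_lit 0) (XT.lf (nat_lit 0) (nat_lit 26807526255) (nat_lit 304) (nat_lit 8183693624) (nat_lit 380) (nat_lit 17047092620) (nat_lit 63) (nat_lit 5) (nat_lit 67) (nat_lit 5) (nat_lit 68) (nat_lit 5) (nat_lit 298) (nat_lit 287) (nat_lit 195)) (XT.nd (nat_lit 78) (nat_lit 304) (nat_lit 0) (XT.lf (nat_lit 0) (nat_lit 15132950295) (nat_lit 304) (nat_lit 30847457850) (nat_lit 380) (nat_lit 8519812543) (nat_lit 59) (nat_lit 5) (nat_lit 63) (nat_lit 5) (nat_lit 64) (nat_lit 5) (nat_lit 299) (nat_lit 287) (nat_lit 194)) (XT.lf (nat_lit 0) (nat_lit 1302951754) (nat_lit 304) (nat_lit 54739437078) (nat_lit 76) (nat_lit 1084393675) (nat_lit 55) (nat_lit 5) (nat_lit 59) (nat_lit 5) (nat_lit 56) (nat_lit 5) (nat_lit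 300) (nat_lit 287) (nat_lit 193))))) (XT.nd (nat_lit 234) (nat_lit 532) (nat_lit 0) (XT.nd (nat_lit 78) (nat_lit 532) (nat_lit 0) (XT.lf (nat_lit 0) (nat_lit 12830037257) (nat_lit 304) (nat_lit 11721077520) (nat_lit 76) (nat_lit 35344528893) (nat_lit 55) (nat_lit 5) (nat_lit 59) (nat_lit 5) (nat_lit 56) (nat_lit 5) (nat_lit 301) (nat_lit 287) (nat_lit 192)) (XT.nd (nat_lit 78) (nat_lit 228) (nat_lit 0) (XT.lf (nat_lit 0) (nat_lit 25992548314) (nat_lit 380) (nat_lit 27132447512) (nat_lit 76) (nat_lit 9725361902) (nat_lit 51) (nat_lit 5) (nat_lit 56) (nat_lit 5) (nat_lit 52) (nat_lit 5) (nat_lit 302) (nat_lit 287) (nat_lit 191)) (XT.lf (nat_lit 0) (nat_lit 21609054217) (nat_lit 228) (nat_lit 19554253790) (nat_lit 304) (nat_lit 24830384938) (nat_lit 48) (nat_lit 5) (nat_lit 51) (nat_lit 5) (nat_lit 52) (nat_lit 5) (nat_lit 303) (nat_lit 287) (nat_lit 190)))) (XT.nd (nat_lit 78) (nat_lit 304)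 (nat_lit 0) (XT.lf (nat_lit 0) (nat_lit 5765373361) (nat_lit 228) (nat_lit 52610071771) (nat_lit 304) (nat_lit 10971669962) (nat_lit 45) (nat_lit 5) (nat_lit 48) (nat_lit 5) (nat_lit 49) (nat_lit 5) (nat_lit 304) (nat_lit 287) (nat_lit 189)) (XT.nd (nat_lit 78) (nat_lit 228) (nat_lit 0) (XT.lf (nat_lit 0) (nat_lit 4980086701) (nat_lit 304) (nat_lit 11827045822) (nat_lit 76) (nat_lit 56102952838) (nat_lit 44) (nat_lit 5) (nat_lit 48) (nat_lit 5) (nat_lit 45) (nat_lit 5) (nat_lit 305) (nat_lit 287) (nat_lit 188)) (XT.lf (nat_lit 0) (nat_lit 22889299695) (nat_lit 304) (nat_lit 31739802019) (nat_lit 76) (nat_lit 22066717737) (nat_lit 41) (nat_lit 5) (nat_lit 45) (nat_lit 5) (nat_lit 42) (nat_lit 5) (nat_lit 306) (nat_lit 287) (nat_lit 187)))))) (XT.nd (nat_lit 390) (nat_lit 684) (nat_lit 0) (XT.nd (nat_lit 156) (nat_lit 456) (nat_lit 0) (XT.nd (nat_lit 78) (nat_lit 152) (nat_lit 0) (XT.lf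 (nat_lit 0) (nat_lit 26486838812) (nat_lit 228) (nat_lit 16647821591) (nat_lit 304) (nat_lit 37604585827) (nat_lit 38) (nat_lit 5) (nat_lit 41) (nat_lit 5) (nat_lit 42) (nat_lit 5) (nat_lit 307) (nat_lit 287) (nat_lit 186)) (XT.lf (nat_lit 0) (nat_lit 5199328223) (nat_lit 152) (nat_lit 60821181492) (nat_lit 228) (nat_lit 19034598613) (nat_lit 36) (nat_lit 5) (nat_lit 38) (nat_lit 5) (nat_lit 39) (nat_lit 5) (nat_lit 308) (nat_lit 287) (nat_lit 185))) (XT.nd (nat_lit 78) (nat_lit 380) (nat_lit 0) (XT.lf (nat_lit 0) (nat_lit 2226874070) (nat_lit 228) (nat_lit 18640542078) (nat_lit 76) (nat_lit 68786101667) (nat_lit 35) (nat_lit 5) (nat_lit 38) (nat_lit 5) (nat_lit 36) (nat_lit 5) (nat_lit 309) (nat_lit 287) (nat_lit 184)) (XT.nd (nat_lit 78) (nat_lit 152) (nat_lit 0) (XT.lf (nat_lit 0) (nat_lit 25654861054) (nat_lit 304) (nat_lit 46225257699) (nat_lit 76) (nat_lit 22667458774) (nat_lit 32)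 (nat_lit 5) (nat_lit 36) (nat_lit 5) (nat_lit 33) (nat_lit 5) (nat_lit 310) (nat_lit 287) (nat_lit 183)) (XT.lf (nat_lit 0) (nat_lit 21828804415) (nat_lit 152) (nat_lit 30148611069) (nat_lit 228) (nat_lit 47804733255) (nat_lit 30) (nat_lit 5) (nat_lit 32) (nat_lit 5) (nat_lit 33) (nat_lit 5) (nat_lit 311) (nat_lit 287) (nat_lit 182))))) (XT.nd (nat_lit 234) (nat_lit 304) (nat_lit 0) (XT.nd (nat_lit 78) (nat_lit 380) (nat_lit 0) (XT.lf (nat_lit 0) (nat_lit 81454884807) (nat_lit 228) (nat_lit 8667049720) (nat_lit 76) (nat_lit 15261098507) (nat_lit 30) (nat_lit 5) (nat_lit 33) (nat_lit 5) (nat_lit 31) (nat_lit 5) (nat_lit 312) (nat_lit 287) (nat_lit 181)) (XT.nd (nat_lit 78) (nat_lit 152) (nat_lit 0) (XT.lf (nat_lit 0) (nat_lit 3389872287) (nat_lit 228) (nat_lit 43587196769) (nat_lit 76) (nat_lit 64373931001) (nat_lit 27) (nat_lit 5) (nat_lit 30) (nat_lit 5) (nat_lit 28) (nat_lit 5) (nat_lit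 313) (nat_lit 287) (nat_lit 180)) (XT.lf (nat_lit 0) (nat_lit 32752290829) (nat_lit 228) (nat_lit 84261671704) (nat_lit 76) (nat_lit 727966945) (nat_lit 25) (nat_lit 5) (nat_lit 28) (nat_lit 5) (nat_lit 26) (nat_lit 5) (nat_lit 314) (nat_lit 287) (nat_lit 179)))) (XT.nd (nat_lit 78) (nat_lit 304) (nat_lit 0) (XT.lf (nat_lit 0) (nat_lit 66025585122) (nat_lit 228) (nat_lit 7144289147) (nat_lit 76) (nat_lit 51396167074) (nat_lit 25) (nat_lit 5) (nat_lit 28) (nat_lit 5) (nat_lit 26) (nat_lit 5) (nat_lit 315) (nat_lit 287) (nat_lit 178)) (XT.nd (nat_lit 78) (nat_lit 152) (nat_lit 0) (XT.lf (nat_lit 0) (nat_lit 78657088877) (nat_lit 152) (nat_lit 24529911046) (nat_lit 228) (nat_lit 28687771426) (nat_lit 23) (nat_lit 5) (nat_lit 25) (nat_lit 5) (nat_lit 26) (nat_lit 5) (nat_lit 316) (nat_lit 287) (nat_lit 177)) (XT.lf (nat_lit 0) (nat_lit 4524877679) (nat_lit 152) (nat_lit 107376786114) (nat_lit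 76) (nat_lit 27809490455) (nat_lit 21) (nat_lit 5) (nat_lit 23) (nat_lit 5) (nat_lit 22) (nat_lit 5) (nat_lit 317) (nat_lit 287) (nat_lit 176))))))))
noncomputable def xc96 : XT := (XT.nd (nat_lit 1638) (nat_lit 152) (nat_lit 0) (XT.nd (nat_lit 780) (nat_lit 456) (nat_lit 0) (XT.nd (nat_lit 390) (nat_lit 228) (nat_lit 0) (XT.nd (nat_lit 156) (nat_lit 304) (nat_lit 0) (XT.nd (nat_lit 78) (nat_lit 152) (nat_lit 0) (XT.lf (nat_lit 0) (nat_lit 40757058786) (nat_lit 152) (nat_lit 22412462151) (nat_lit 76) (nat_lit 84913033951) (nat_lit 21) (nat_lit 5) (nat_lit 23) (nat_lit 5) (nat_lit 22) (nat_lit 5) (nat_lit 318) (nat_lit 287) (nat_lit 175)) (XT.lf (nat_lit 0) (nat_lit 71639330392) (nat_lit 152) (nat_lit 9365427603) (nat_lit 228) (nat_lit 76063063944) (nat_lit 19) (nat_lit 5) (nat_lit 21) (nat_lit 5) (nat_lit 22) (nat_lit 5) (nat_lit 319) (nat_lit 287) (nat_lit 174))) (XT.nd (nat_lit 78) (nat_lit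 228) (nat_lit 0) (XT.lf (nat_lit 0) (nat_lit 6707969932) (nat_lit 76) (nat_lit 119025372257) (nat_lit 152) (nat_lit 40975516141) (nat_lit 18) (nat_lit 5) (nat_lit 19) (nat_lit 5) (nat_lit 20) (nat_lit 4) (nat_lit 320) (nat_lit 287) (nat_lit 173)) (XT.nd (nat_lit 78) (nat_lit 228) (nat_lit 0) (XT.lf (nat_lit 0) (nat_lit 109100412059) (nat_lit 76) (nat_lit 66581867058) (nat_lit 152) (nat_lit 1356796538) (nat_lit 18) (nat_lit 5) (nat_lit 19) (nat_lit 5) (nat_lit 20) (nat_lit 4) (nat_lit 321) (nat_lit 287) (nat_lit 172)) (XT.lf (nat_lit 0) (nat_lit 31859081821) (nat_lit 152) (nat_lit 8742351914) (nat_lit 228) (nat_lit 147537130902) (nat_lit 15) (nat_lit 5) (nat_lit 17) (nat_lit 5) (nat_lit 18) (nat_lit 5) (nat_lit 322) (nat_lit 287) (nat_lit 171))))) (XT.nd (nat_lit 156) (nat_lit 152) (nat_lit 0) (XT.nd (nat_lit 78) (nat_lit 76) (nat_lit 0) (XT.lf (nat_lit 0) (nat_lit 87909776072) (nat_lit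 228) (nat_lit 58883428950) (nat_lit 76) (nat_lit 53229647208) (nat_lit 15) (nat_lit 5) (nat_lit 18) (nat_lit 5) (nat_lit 16) (nat_lit 4) (nat_lit 323) (nat_lit 287) (nat_lit 170)) (XT.lf (nat_lit 0) (nat_lit 47680912783) (nat_lit 76) (nat_lit 92212530618) (nat_lit 152) (nat_lit 72919907549) (nat_lit 14) (nat_lit 5) (nat_lit 15) (nat_lit 5) (nat_lit 16) (nat_lit 4) (nat_lit 324) (nat_lit 287) (nat_lit 169))) (XT.nd (nat_lit 78) (nat_lit 152) (nat_lit 0) (XT.lf (nat_lit 0) (nat_lit 164871128728) (nat_lit 76) (nat_lit 32189256638) (nat_lit 152) (nat_lit 29515476064) (nat_lit 14) (nat_lit 5) (nat_lit 15) (nat_lit 5) (nat_lit 16) (nat_lit 4) (nat_lit 325) (nat_lit 287) (nat_lit 168)) (XT.nd (nat_lit 78) (nat_lit 0) (nat_lit 0) (XT.lf (nat_lit 0) (nat_lit 18133695567) (nat_lit 152) (nat_lit 190544521317) (nat_lit 76) (nat_lit 32681200948) (nat_lit 12) (nat_lit 5) (nat_lit 14) (nat_lit 5) (nat_lit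 13) (nat_lit 4) (nat_lit 326) (nat_lit 287) (nat_lit 167)) (XT.lf (nat_lit 0) (nat_lit 70208768332) (nat_lit 152) (nat_lit 83792267493) (nat_lit 76) (nat_lit 103218028368) (nat_lit 12) (nat_lit 5) (nat_lit 14) (nat_lit 5) (nat_lit 13) (nat_lit 4) (nat_lit 327) (nat_lit 287) (nat_lit 166)))))) (XT.nd (nat_lit 390) (nat_lit 228) (nat_lit 0) (XT.nd (nat_lit 156) (nat_lit 152) (nat_lit 0) (XT.nd (nat_lit 78) (nat_lit 0) (nat_lit 0) (XT.lf (nat_lit 0) (nat_lit 32539955234) (nat_lit 76) (nat_lit 94416981972) (nat_lit 152) (nat_lit 147365191242) (nat_lit 11) (nat_lit 5) (nat_lit 12) (nat_lit 5) (nat_lit 13) (nat_lit 4) (nat_lit 328) (nat_lit 287) (nat_lit 165)) (XT.lf (nat_lit 0) (nat_lit 161169331019) (nat_lit 76) (nat_lit 28534331261) (nat_lit 152) (nat_lit 103016841077) (nat_lit 11) (nat_lit 5) (nat_lit 12) (nat_lit 5) (nat_lit 13) (nat_lit 4) (nat_lit 329) (nat_lit 287) (nat_lit 164))) (XT.nd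 (nat_lit 78) (nat_lit 152) (nat_lit 0) (XT.lf (nat_lit 0) (nat_lit 258134678437) (nat_lit 152) (nat_lit 13168624124) (nat_lit 0) (nat_lit 41254218644) (nat_lit 11) (nat_lit 5) (nat_lit 13) (nat_lit 4) (nat_lit 11) (nat_lit 4) (nat_lit 330) (nat_lit 287) (nat_lit 163)) (XT.nd (nat_lit 78) (nat_lit 0) (nat_lit 0) (XT.lf (nat_lit 0) (nat_lit 481203355) (nat_lit 152) (nat_lit 215895144701) (nat_lit 76) (nat_lit 117488648758) (nat_lit 9) (nat_lit 5) (nat_lit 11) (nat_lit 5) (nat_lit 10) (nat_lit 4) (nat_lit 331) (nat_lit 287) (nat_lit 162)) (XT.lf (nat_lit 0) (nat_lit 58128741200) (nat_lit 152) (nat_lit 97718758588) (nat_lit 76) (nat_lit 200972068319) (nat_lit 9) (nat_lit 5) (nat_lit 11) (nat_lit 5) (nat_lit 10) (nat_lit 4) (nat_lit 332) (nat_lit 287) (nat_lit 161))))) (XT.nd (nat_lit 234) (nat_lit 152) (nat_lit 0) (XT.nd (nat_lit 78) (nat_lit 0) (nat_lit 0) (XT.lf (nat_lit 0) (nat_lit 30899433326)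 (nat_lit 76) (nat_lit 89970370989) (nat_lit 152) (nat_lit 260716615130) (nat_lit 8) (nat_lit 5) (nat_lit 9) (nat_lit 5) (nat_lit 10) (nat_lit 4) (nat_lit 333) (nat_lit 287) (nat_lit 160)) (XT.nd (nat_lit 78) (nat_lit 0) (nat_lit 0) (XT.lf (nat_lit 0) (nat_lit 173295361643) (nat_lit 76) (nat_lit 17036317132) (nat_lit 152) (nat_lit 217917864221) (nat_lit 8) (nat_lit 5) (nat_lit 9) (nat_lit 5) (nat_lit 10) (nat_lit 4) (nat_lit 334) (nat_lit 287) (nat_lit 159)) (XT.lf (nat_lit 0) (nat_lit 266313690221) (nat_lit 152) (nat_lit 110927726019) (nat_lit 0) (nat_lit 59756141226) (nat_lit 8) (nat_lit 5) (nat_lit 10) (nat_lit 4) (nat_lit 8) (nat_lit 4) (nat_lit 335) (nat_lit 287) (nat_lit 158)))) (XT.nd (nat_lit 78) (nat_lit 76) (nat_lit 0) (XT.lf (nat_lit 0) (nat_lit 23484150406) (nat_lit 76) (nat_lit 325543445957) (nat_lit 76) (nat_lit 118985150404) (nat_lit 7) (nat_lit 4) (nat_lit 8) (nat_lit 5)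 (nat_lit 8) (nat_lit 4) (nat_lit 336) (nat_lit 287) (nat_lit 157)) (XT.nd (nat_lit 78) (nat_lit 76) (nat_lit 0) (XT.lf (nat_lit 0) (nat_lit 172609145438) (nat_lit 76) (nat_lit 267681203120) (nat_lit 76) (nat_lit 61122216309) (nat_lit 7) (nat_lit 4) (nat_lit 8) (nat_lit 5) (nat_lit 8) (nat_lit 4) (nat_lit 337) (nat_lit 287) (nat_lit 156)) (XT.lf (nat_lit 0) (nat_lit 1325388457) (nat_lit 152) (nat_lit 203842580526) (nat_lit 76) (nat_lit 332315356612) (nat_lit 6) (nat_lit 5) (nat_lit 8) (nat_lit 5) (nat_lit 7) (nat_lit 4) (nat_lit 338) (nat_lit 287) (nat_lit 155))))))) (XT.nd (nat_lit 36894) (nat_lit 0) (nat_lit 3876) (XT.nd (nat_lit 390) (nat_lit 76) (nat_lit 0) (XT.nd (nat_lit 156) (nat_lit 0) (nat_lit 0) (XT.nd (nat_lit 78) (nat_lit 76) (nat_lit 0) (XT.lf (nat_lit 0) (nat_lit 66655520908) (nat_lit 152) (nat_lit 69916401645) (nat_lit 76) (nat_lit 439816317524) (nat_lit 6) (nat_lit 5) (nat_lit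 8) (nat_lit 5) (nat_lit 7) (nat_lit 4) (nat_lit 339) (nat_lit 287) (nat_lit 154)) (XT.lf (nat_lit 0) (nat_lit 77193724179) (nat_lit 76) (nat_lit 61223101396) (nat_lit 152) (nat_lit 479928484313) (nat_lit 5) (nat_lit 5) (nat_lit 6) (nat_lit 5) (nat_lit 7) (nat_lit 4) (nat_lit 340) (nat_lit 287) (nat_lit 153))) (XT.nd (nat_lit 78) (nat_lit 0) (nat_lit 0) (XT.lf (nat_lit 0) (nat_lit 217471119771) (nat_lit 152) (nat_lit 425364126807) (nat_lit 0) (nat_lit 20746094680) (nat_lit 5) (nat_lit 5) (nat_lit 7) (nat_lit 4) (nat_lit 5) (nat_lit 4) (nat_lit 341) (nat_lit 287) (nat_lit 152)) (XT.nd (nat_lit 78) (nat_lit 0) (nat_lit 0) (XT.lf (nat_lit 0) (nat_lit 303881689368) (nat_lit 152) (nat_lit 301346753174) (nat_lit 0) (nat_lit 107156216220) (nat_lit 5) (nat_lit 5) (nat_lit 7) (nat_lit 4) (nat_lit 5) (nat_lit 4) (nat_lit 342) (nat_lit 287) (nat_lit 151)) (XT.lf (nat_lit 0) (nat_lit 397204732809)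 (nat_lit 152) (nat_lit 167408682849) (nat_lit 0) (nat_lit 200478844795) (nat_lit 5) (nat_lit 5) (nat_lit 7) (nat_lit 4) (nat_lit 5) (nat_lit 4) (nat_lit 343) (nat_lit 287) (nat_lit 150))))) (XT.nd (nat_lit 36270) (nat_lit 0) (nat_lit 6080) (XT.nd (nat_lit 78) (nat_lit 76) (nat_lit 0) (XT.lf (nat_lit 0) (nat_lit 497993275537) (nat_lit 152) (nat_lit 22756208749) (nat_lit 0) (nat_lit 301267003387) (nat_lit 5) (nat_lit 5) (nat_lit 7) (nat_lit 4) (nat_lit 5) (nat_lit 4) (nat_lit 344) (nat_lit 287) (nat_lit 149)) (XT.lf (nat_lit 0) (nat_lit 137880919478) (nat_lit 76) (nat_lit 471116371075) (nat_lit 76) (nat_lit 274389743244) (nat_lit 4) (nat_lit 4) (nat_lit 5) (nat_lit 5) (nat_lit 5) (nat_lit 4) (nat_lit 345) (nat_lit 287) (nat_lit 148))) (XT.nd (nat_lit 78) (nat_lit 0) (nat_lit 0) (XT.lf (nat_lit 0) (nat_lit 6388820724) (nat_lit 0) (nat_lit 6388820724) (nat_lit 684) (nat_lit 4891944800) (nat_lit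 84) (nat_lit 5) (nat_lit 84) (nat_lit 3) (nat_lit 93) (nat_lit 3) (nat_lit 288) (nat_lit 288) (nat_lit 204)) (XT.nd (nat_lit 78) (nat_lit 0) (nat_lit 76) (XT.lf (nat_lit 76) (nat_lit 2565212121) (nat_lit 0) (nat_lit 24328541839) (nat_lit 760) (nat_lit 9842994225) (nat_lit 85) (nat_lit 5) (nat_lit 84) (nat_lit 5) (nat_lit 94) (nat_lit 5) (nat_lit 289) (nat_lit 288) (nat_lit 203)) (XT.lf (nat_lit 0) (nat_lit 28957589622) (nat_lit 684) (nat_lit 7956528682) (nat_lit 760) (nat_lit 1301115112) (nat_lit 85) (nat_lit 5) (nat_lit 94) (nat_lit 5) (nat_lit 95) (nat_lit 5) (nat_lit 290) (nat_lit 288) (nat_lit 202)))))) (XT.nd (nat_lit 390) (nat_lit 1672) (nat_lit 0) (XT.nd (nat_lit 156) (nat_lit 608) (nat_lit 0) (XT.nd (nat_lit 78) (nat_lit 0) (nat_lit 76) (XT.lf (nat_lit 76) (nat_lit 20600260714) (nat_lit 0) (nat_lit 11311053627) (nat_lit 760) (nat_lit 7864460524) (nat_lit 86) (nat_lit 5) (nat_lit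 85) (nat_lit 5) (nat_lit 95) (nat_lit 5) (nat_lit 291) (nat_lit 288) (nat_lit 201)) (XT.lf (nat_lit 76) (nat_lit 10340338213) (nat_lit 0) (nat_lit 25311849649) (nat_lit 760) (nat_lit 5781444513) (nat_lit 87) (nat_lit 5) (nat_lit 86) (nat_lit 5) (nat_lit 96) (nat_lit 5) (nat_lit 292) (nat_lit 288) (nat_lit 200))) (XT.nd (nat_lit 78) (nat_lit 760) (nat_lit 0) (XT.lf (nat_lit 0) (nat_lit 40246764209) (nat_lit 684) (nat_lit 536609526) (nat_lit 760) (nat_lit 2413037259) (nat_lit 87) (nat_lit 5) (nat_lit 96) (nat_lit 5) (nat_lit 97) (nat_lit 5) (nat_lit 293) (nat_lit 288) (nat_lit 199)) (XT.nd (nat_lit 78) (nat_lit 0) (nat_lit 76) (XT.lf (nat_lit 0) (nat_lit 1058366309) (nat_lit 760) (nat_lit 11977933827) (nat_lit 836) (nat_lit 32016181875) (nat_lit 77) (nat_lit 5) (nat_lit 87) (nat_lit 5) (nat_lit 88) (nat_lit 5) (nat_lit 294) (nat_lit 288) (nat_lit 198)) (XT.lf (nat_lit 0) (nat_lit 5919745892)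 (nat_lit 760) (nat_lit 24288025450) (nat_lit 76) (nat_lit 16815057845) (nat_lit 78) (nat_lit 5) (nat_lit 88) (nat_lit 5) (nat_lit 79) (nat_lit 5) (nat_lit 295) (nat_lit 288) (nat_lit 197))))) (XT.nd (nat_lit 234) (nat_lit 912) (nat_lit 0) (XT.nd (nat_lit 78) (nat_lit 380) (nat_lit 0) (XT.lf (nat_lit 0) (nat_lit 11657206617) (nat_lit 456) (nat_lit 121636045) (nat_lit 532) (nat_lit 37341531835) (nat_lit 72) (nat_lit 5) (nat_lit 78) (nat_lit 5) (nat_lit 79) (nat_lit 5) (nat_lit 296) (nat_lit 288) (nat_lit 196)) (XT.nd (nat_lit 78) (nat_lit 380) (nat_lit 0) (XT.lf (nat_lit 0) (nat_lit 19037327782) (nat_lit 532) (nat_lit 536171329) (nat_lit 76) (nat_lit 31765701201) (nat_lit 72) (nat_lit 5) (nat_lit 79) (nat_lit 5) (nat_lit 73) (nat_lit 5) (nat_lit 297) (nat_lit 288) (nat_lit 195)) (XT.lf (nat_lit 0) (nat_lit 27713632461) (nat_lit 456) (nat_lit 13269584786) (nat_lit 76) (nat_lit 12710467082)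 (nat_lit 67) (nat_lit 5) (nat_lit 73) (nat_lit 5) (nat_lit 68) (nat_lit 5) (nat_lit 298) (nat_lit 288) (nat_lit 194)))) (XT.nd (nat_lit 78) (nat_lit 608) (nat_lit 0) (XT.lf (nat_lit 0) (nat_lit 29039196106) (nat_lit 304) (nat_lit 8833617884) (nat_lit 380) (nat_lit 18324282948) (nat_lit 63) (nat_lit 5) (nat_lit 67) (nat_lit 5) (nat_lit 68) (nat_lit 5) (nat_lit 299) (nat_lit 288) (nat_lit 193)) (XT.nd (nat_lit 78) (nat_lit 304) (nat_lit 0) (XT.lf (nat_lit 0) (nat_lit 16430893490) (nat_lit 304) (nat_lit 33305579872) (nat_lit 380) (nat_lit 9119729894) (nat_lit 59) (nat_lit 5) (nat_lit 63) (nat_lit 5) (nat_lit 64) (nat_lit 5) (nat_lit 300) (nat_lit 288) (nat_lit 192)) (XT.lf (nat_lit 0) (nat_lit 1481912190) (nat_lit 304) (nat_lit 59028757845) (nat_lit 76) (nat_lit 1182383532) (nat_lit 55) (nat_lit 5) (nat_lit 59) (nat_lit 5) (nat_lit 56) (nat_lit 5) (nat_lit 301) (nat_lit 288) (nat_lit 191))))))))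
noncomputable def xc97 : XT := (XT.nd (nat_lit 1638) (nat_lit 988) (nat_lit 0) (XT.nd (nat_lit 780) (nat_lit 1064) (nat_lit 0) (XT.nd (nat_lit 390) (nat_lit 912) (nat_lit 0) (XT.nd (nat_lit 156) (nat_lit 532) (nat_lit 0) (XT.nd (nat_lit 78) (nat_lit 304) (nat_lit 0) (XT.lf (nat_lit 0) (nat_lit 13925629401) (nat_lit 304) (nat_lit 12575583907) (nat_lit 76) (nat_lit 38182497097) (nat_lit 55) (nat_lit 5) (nat_lit 59) (nat_lit 5) (nat_lit 56) (nat_lit 5) (nat_lit 302) (nat_lit 288) (nat_lit 190)) (XT.lf (nat_lit 0) (nat_lit 28137481068) (nat_lit 380) (nat_lit 29220319675) (nat_lit 76) (nat_lit 10517193139) (nat_lit 51) (nat_lit 5) (nat_lit 56) (nat_lit 5) (nat_lit 52) (nat_lit 5) (nat_lit 303) (nat_lit 288) (nat_lit 189))) (XT.nd (nat_lit 78) (nat_lit 304) (nat_lit 0) (XT.lf (nat_lit 0) (nat_lit 23416907123) (nat_lit 228) (nat_lit 21101375840) (nat_lit 304) (nat_lit 26751702476) (nat_lit 48)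 (nat_lit 5) (nat_lit 51) (nat_lit 5) (nat_lit 52) (nat_lit 5) (nat_lit 304) (nat_lit 288) (nat_lit 188)) (XT.nd (nat_lit 78) (nat_lit 76) (nat_lit 0) (XT.lf (nat_lit 0) (nat_lit 6305099571) (nat_lit 228) (nat_lit 56799179998) (nat_lit 304) (nat_lit 11787565323) (nat_lit 45) (nat_lit 5) (nat_lit 48) (nat_lit 5) (nat_lit 49) (nat_lit 5) (nat_lit 305) (nat_lit 288) (nat_lit 187)) (XT.lf (nat_lit 0) (nat_lit 5433918662) (nat_lit 304) (nat_lit 12698607375) (nat_lit 76) (nat_lit 60607507189) (nat_lit 44) (nat_lit 5) (nat_lit 48) (nat_lit 5) (nat_lit 45) (nat_lit 5) (nat_lit 306) (nat_lit 288) (nat_lit 186))))) (XT.nd (nat_lit 156) (nat_lit 456) (nat_lit 0) (XT.nd (nat_lit 78) (nat_lit 228) (nat_lit 0) (XT.lf (nat_lit 0) (nat_lit 24773172762) (nat_lit 304) (nat_lit 34205218781) (nat_lit 76) (nat_lit 23850375793) (nat_lit 41) (nat_lit 5) (nat_lit 45) (nat_lit 5) (nat_lit 42) (nat_lit 5) (nat_lit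 307) (nat_lit 288) (nat_lit 185)) (XT.lf (nat_lit 0) (nat_lit 28676347475) (nat_lit 228) (nat_lit 17959010656) (nat_lit 304) (nat_lit 40560456352) (nat_lit 38) (nat_lit 5) (nat_lit 41) (nat_lit 5) (nat_lit 42) (nat_lit 5) (nat_lit 308) (nat_lit 288) (nat_lit 184))) (XT.nd (nat_lit 78) (nat_lit 304) (nat_lit 0) (XT.lf (nat_lit 0) (nat_lit 5684921019) (nat_lit 152) (nat_lit 65664841935) (nat_lit 228) (nat_lit 20507303786) (nat_lit 36) (nat_lit 5) (nat_lit 38) (nat_lit 5) (nat_lit 39) (nat_lit 5) (nat_lit 309) (nat_lit 288) (nat_lit 183)) (XT.nd (nat_lit 78) (nat_lit 228) (nat_lit 0) (XT.lf (nat_lit 0) (nat_lit 2449894734) (nat_lit 228) (nat_lit 20065752877) (nat_lit 76) (nat_lit 74307846691) (nat_lit 35) (nat_lit 5) (nat_lit 38) (nat_lit 5) (nat_lit 36) (nat_lit 5) (nat_lit 310) (nat_lit 288) (nat_lit 182)) (XT.lf (nat_lit 0) (nat_lit 27750105156) (nat_lit 304) (nat_lit 49858254019) (nat_lit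 76) (nat_lit 24500824939) (nat_lit 32) (nat_lit 5) (nat_lit 36) (nat_lit 5) (nat_lit 33) (nat_lit 5) (nat_lit 311) (nat_lit 288) (nat_lit 181)))))) (XT.nd (nat_lit 390) (nat_lit 532) (nat_lit 0) (XT.nd (nat_lit 156) (nat_lit 380) (nat_lit 0) (XT.nd (nat_lit 78) (nat_lit 0) (nat_lit 0) (XT.lf (nat_lit 0) (nat_lit 23637307187) (nat_lit 152) (nat_lit 32538953384) (nat_lit 228) (nat_lit 51586374832) (nat_lit 30) (nat_lit 5) (nat_lit 32) (nat_lit 5) (nat_lit 33) (nat_lit 5) (nat_lit 312) (nat_lit 288) (nat_lit 180)) (XT.lf (nat_lit 0) (nat_lit 88009227675) (nat_lit 228) (nat_lit 9301203279) (nat_lit 76) (nat_lit 16501298374) (nat_lit 30) (nat_lit 5) (nat_lit 33) (nat_lit 5) (nat_lit 31) (nat_lit 5) (nat_lit 313) (nat_lit 288) (nat_lit 179))) (XT.nd (nat_lit 78) (nat_lit 152) (nat_lit 0) (XT.lf (nat_lit 0) (nat_lit 3697721417) (nat_lit 228) (nat_lit 47016280198) (nat_lit 76) (nat_lit 69543202496)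 (nat_lit 27) (nat_lit 5) (nat_lit 30) (nat_lit 5) (nat_lit 28) (nat_lit 5) (nat_lit 314) (nat_lit 288) (nat_lit 178)) (XT.nd (nat_lit 78) (nat_lit 0) (nat_lit 0) (XT.lf (nat_lit 0) (nat_lit 35407603640) (nat_lit 228) (nat_lit 90945769959) (nat_lit 76) (nat_lit 806113960) (nat_lit 25) (nat_lit 5) (nat_lit 28) (nat_lit 5) (nat_lit 26) (nat_lit 5) (nat_lit 315) (nat_lit 288) (nat_lit 177)) (XT.lf (nat_lit 0) (nat_lit 71340159287) (nat_lit 228) (nat_lit 7663206834) (nat_lit 76) (nat_lit 55526295310) (nat_lit 25) (nat_lit 5) (nat_lit 28) (nat_lit 5) (nat_lit 26) (nat_lit 5) (nat_lit 316) (nat_lit 288) (nat_lit 176))))) (XT.nd (nat_lit 234) (nat_lit 228) (nat_lit 0) (XT.nd (nat_lit 78) (nat_lit 152) (nat_lit 0) (XT.lf (nat_lit 0) (nat_lit 84999994394) (nat_lit 152) (nat_lit 26472869368) (nat_lit 228) (nat_lit 30950309980) (nat_lit 23) (nat_lit 5) (nat_lit 25) (nat_lit 5) (nat_lit 26) (nat_lit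 5) (nat_lit 317) (nat_lit 288) (nat_lit 175)) (XT.nd (nat_lit 78) (nat_lit 0) (nat_lit 0) (XT.lf (nat_lit 0) (nat_lit 4917051258) (nat_lit 152) (nat_lit 115916529716) (nat_lit 76) (nat_lit 30052926356) (nat_lit 21) (nat_lit 5) (nat_lit 23) (nat_lit 5) (nat_lit 22) (nat_lit 5) (nat_lit 318) (nat_lit 288) (nat_lit 174)) (XT.lf (nat_lit 0) (nat_lit 44045571048) (nat_lit 152) (nat_lit 24158793116) (nat_lit 76) (nat_lit 91723369875) (nat_lit 21) (nat_lit 5) (nat_lit 23) (nat_lit 5) (nat_lit 22) (nat_lit 5) (nat_lit 319) (nat_lit 288) (nat_lit 173)))) (XT.nd (nat_lit 78) (nat_lit 76) (nat_lit 0) (XT.lf (nat_lit 0) (nat_lit 77415114783) (nat_lit 152) (nat_lit 10096598146) (nat_lit 228) (nat_lit 82120180254) (nat_lit 19) (nat_lit 5) (nat_lit 21) (nat_lit 5) (nat_lit 22) (nat_lit 5) (nat_lit 320) (nat_lit 288) (nat_lit 172)) (XT.nd (nat_lit 78) (nat_lit 0) (nat_lit 0) (XT.lf (nat_lit 0) (nat_lit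 7288331452) (nat_lit 76) (nat_lit 128529227726) (nat_lit 152) (nat_lit 44226706451) (nat_lit 18) (nat_lit 5) (nat_lit 19) (nat_lit 5) (nat_lit 20) (nat_lit 4) (nat_lit 321) (nat_lit 288) (nat_lit 171)) (XT.lf (nat_lit 0) (nat_lit 117868930141) (nat_lit 76) (nat_lit 71891588356) (nat_lit 152) (nat_lit 1440478241) (nat_lit 18) (nat_lit 5) (nat_lit 19) (nat_lit 5) (nat_lit 20) (nat_lit 4) (nat_lit 322) (nat_lit 288) (nat_lit 170))))))) (XT.nd (nat_lit 780) (nat_lit 304) (nat_lit 0) (XT.nd (nat_lit 390) (nat_lit 228) (nat_lit 0) (XT.nd (nat_lit 156) (nat_lit 228) (nat_lit 0) (XT.nd (nat_lit 78) (nat_lit 0) (nat_lit 0) (XT.lf (nat_lit 0) (nat_lit 34447315356) (nat_lit 152) (nat_lit 9425133486) (nat_lit 228) (nat_lit 159316036443) (nat_lit 15) (nat_lit 5) (nat_lit 17) (nat_lit 5) (nat_lit 18) (nat_lit 5) (nat_lit 323) (nat_lit 288) (nat_lit 169)) (XT.lf (nat_lit 0) (nat_lit 94964002308) (nat_lit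 228) (nat_lit 63556684528) (nat_lit 76) (nat_lit 57502903307) (nat_lit 15) (nat_lit 5) (nat_lit 18) (nat_lit 5) (nat_lit 16) (nat_lit 4) (nat_lit 324) (nat_lit 288) (nat_lit 168))) (XT.nd (nat_lit 78) (nat_lit 152) (nat_lit 0) (XT.lf (nat_lit 0) (nat_lit 51531178371) (nat_lit 76) (nat_lit 99574155019) (nat_lit 152) (nat_lit 78732048189) (nat_lit 14) (nat_lit 5) (nat_lit 15) (nat_lit 5) (nat_lit 16) (nat_lit 4) (nat_lit 325) (nat_lit 288) (nat_lit 167)) (XT.nd (nat_lit 78) (nat_lit 152) (nat_lit 0) (XT.lf (nat_lit 0) (nat_lit 178093960291) (nat_lit 76) (nat_lit 34750158235) (nat_lit 152) (nat_lit 31856851220) (nat_lit 14) (nat_lit 5) (nat_lit 15) (nat_lit 5) (nat_lit 16) (nat_lit 4) (nat_lit 326) (nat_lit 288) (nat_lit 166)) (XT.lf (nat_lit 0) (nat_lit 19602917647) (nat_lit 152) (nat_lit 205755049612) (nat_lit 76) (nat_lit 35309264025) (nat_lit 12) (nat_lit 5) (nat_lit 14) (nat_lit 5) (nat_lit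 13) (nat_lit 4) (nat_lit 327) (nat_lit 288) (nat_lit 165))))) (XT.nd (nat_lit 156) (nat_lit 152) (nat_lit 0) (XT.nd (nat_lit 78) (nat_lit 76) (nat_lit 0) (XT.lf (nat_lit 0) (nat_lit 75842623904) (nat_lit 152) (nat_lit 90465062401) (nat_lit 76) (nat_lit 111488032676) (nat_lit 12) (nat_lit 5) (nat_lit 14) (nat_lit 5) (nat_lit 13) (nat_lit 4) (nat_lit 328) (nat_lit 288) (nat_lit 164)) (XT.lf (nat_lit 0) (nat_lit 35172408892) (nat_lit 76) (nat_lit 101957423509) (nat_lit 152) (nat_lit 159137237607) (nat_lit 11) (nat_lit 5) (nat_lit 12) (nat_lit 5) (nat_lit 13) (nat_lit 4) (nat_lit 329) (nat_lit 288) (nat_lit 163))) (XT.nd (nat_lit 78) (nat_lit 152) (nat_lit 0) (XT.lf (nat_lit 0) (nat_lit 174089967537) (nat_lit 76) (nat_lit 30805117557) (nat_lit 152) (nat_lit 111242291202) (nat_lit 11) (nat_lit 5) (nat_lit 12) (nat_lit 5) (nat_lit 13) (nat_lit 4) (nat_lit 330) (nat_lit 288) (nat_lit 162)) (XT.nd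 (nat_lit 78) (nat_lit 152) (nat_lit 0) (XT.lf (nat_lit 0) (nat_lit 278799634716) (nat_lit 152) (nat_lit 14196493097) (nat_lit 0) (nat_lit 44565275953) (nat_lit 11) (nat_lit 5) (nat_lit 13) (nat_lit 4) (nat_lit 11) (nat_lit 4) (nat_lit 331) (nat_lit 288) (nat_lit 161)) (XT.lf (nat_lit 0) (nat_lit 533444277) (nat_lit 152) (nat_lit 233141785465) (nat_lit 76) (nat_lit 126898270735) (nat_lit 9) (nat_lit 5) (nat_lit 11) (nat_lit 5) (nat_lit 10) (nat_lit 4) (nat_lit 332) (nat_lit 288) (nat_lit 160)))))) (XT.nd (nat_lit 390) (nat_lit 152) (nat_lit 0) (XT.nd (nat_lit 156) (nat_lit 76) (nat_lit 0) (XT.nd (nat_lit 78) (nat_lit 76) (nat_lit 0) (XT.lf (nat_lit 0) (nat_lit 62791767027) (nat_lit 152) (nat_lit 105513138153) (nat_lit 76) (nat_lit 217059583855) (nat_lit 9) (nat_lit 5) (nat_lit 11) (nat_lit 5) (nat_lit 10) (nat_lit 4) (nat_lit 333) (nat_lit 288) (nat_lit 159)) (XT.lf (nat_lit 0) (nat_lit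 33393504298) (nat_lit 76) (nat_lit 97158013484) (nat_lit 152) (nat_lit 281561201175) (nat_lit 8) (nat_lit 5) (nat_lit 9) (nat_lit 5) (nat_lit 10) (nat_lit 4) (nat_lit 334) (nat_lit 288) (nat_lit 158))) (XT.nd (nat_lit 78) (nat_lit 76) (nat_lit 0) (XT.lf (nat_lit 0) (nat_lit 187179468635) (nat_lit 76) (nat_lit 18389975110) (nat_lit 152) (nat_lit 235339494131) (nat_lit 8) (nat_lit 5) (nat_lit 9) (nat_lit 5) (nat_lit 10) (nat_lit 4) (nat_lit 335) (nat_lit 288) (nat_lit 157)) (XT.nd (nat_lit 78) (nat_lit 76) (nat_lit 0) (XT.lf (nat_lit 0) (nat_lit 287629317889) (nat_lit 152) (nat_lit 119782590173) (nat_lit 0) (nat_lit 64544920874) (nat_lit 8) (nat_lit 5) (nat_lit 10) (nat_lit 4) (nat_lit 8) (nat_lit 4) (nat_lit 336) (nat_lit 288) (nat_lit 156)) (XT.lf (nat_lit 0) (nat_lit 25381395268) (nat_lit 76) (nat_lit 351578450110) (nat_lit 76) (nat_lit 128493413042) (nat_lit 7) (nat_lit 4) (nat_lit 8)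 (nat_lit 5) (nat_lit 8) (nat_lit 4) (nat_lit 337) (nat_lit 288) (nat_lit 155))))) (XT.nd (nat_lit 234) (nat_lit 76) (nat_lit 0) (XT.nd (nat_lit 78) (nat_lit 76) (nat_lit 0) (XT.lf (nat_lit 0) (nat_lit 186435018582) (nat_lit 76) (nat_lit 289087855366) (nat_lit 76) (nat_lit 66002225656) (nat_lit 7) (nat_lit 4) (nat_lit 8) (nat_lit 5) (nat_lit 8) (nat_lit 4) (nat_lit 338) (nat_lit 288) (nat_lit 154)) (XT.nd (nat_lit 78) (nat_lit 0) (nat_lit 0) (XT.lf (nat_lit 0) (nat_lit 1440174462) (nat_lit 152) (nat_lit 220133820805) (nat_lit 76) (nat_lit 358907553712) (nat_lit 6) (nat_lit 5) (nat_lit 8) (nat_lit 5) (nat_lit 7) (nat_lit 4) (nat_lit 339) (nat_lit 288) (nat_lit 153)) (XT.lf (nat_lit 0) (nat_lit 71996068995) (nat_lit 152) (nat_lit 75494745107) (nat_lit 76) (nat_lit 475008075306) (nat_lit 6) (nat_lit 5) (nat_lit 8) (nat_lit 5) (nat_lit 7) (nat_lit 4) (nat_lit 340) (nat_lit 288) (nat_lit 152))))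 (XT.nd (nat_lit 78) (nat_lit 0) (nat_lit 0) (XT.lf (nat_lit 0) (nat_lit 83383540262) (nat_lit 76) (nat_lit 66114360845) (nat_lit 152) (nat_lit 518314642881) (nat_lit 5) (nat_lit 5) (nat_lit 6) (nat_lit 5) (nat_lit 7) (nat_lit 4) (nat_lit 341) (nat_lit 288) (nat_lit 151)) (XT.nd (nat_lit 78) (nat_lit 0) (nat_lit 0) (XT.lf (nat_lit 0) (nat_lit 234876061532) (nat_lit 152) (nat_lit 459379732904) (nat_lit 0) (nat_lit 22411687610) (nat_lit 5) (nat_lit 5) (nat_lit 7) (nat_lit 4) (nat_lit 5) (nat_lit 4) (nat_lit 342) (nat_lit 288) (nat_lit 150)) (XT.lf (nat_lit 0) (nat_lit 328198939498) (nat_lit 152) (nat_lit 325441971161) (nat_lit 0) (nat_lit 115734181440) (nat_lit 5) (nat_lit 5) (nat_lit 7) (nat_lit 4) (nat_lit 5) (nat_lit 4) (nat_lit 343) (nat_lit 288) (nat_lit 149))))))))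
noncomputable def xc98 : XT := (XT.nd (nat_lit 37830) (nat_lit 0) (nat_lit 532) (XT.nd (nat_lit 36972) (nat_lit 0) (nat_lit 2964) (XT.nd (nat_lit 36582) (nat_lit 0) (nat_lit 5472) (XT.nd (nat_lit 36348) (nat_lit 0) (nat_lit 6004) (XT.nd (nat_lit 78) (nat_lit 0) (nat_lit 0) (XT.lf (nat_lit 0) (nat_lit 428987329008) (nat_lit 152) (nat_lit 180789782785) (nat_lit 0) (nat_lit 216522215269) (nat_lit 5) (nat_lit 5) (nat_lit 7) (nat_lit 4) (nat_lit 5) (nat_lit 4) (nat_lit 344) (nat_lit 288) (nat_lit 148)) (XT.lf (nat_lit 0) (nat_lit 537838494593) (nat_lit 152) (nat_lit 24565969623) (nat_lit 0) (nat_lit 325373051520) (nat_lit 5) (nat_lit 5) (nat_lit 7) (nat_lit 4) (nat_lit 5) (nat_lit 4) (nat_lit 345) (nat_lit 288) (nat_lit 147))) (XT.nd (nat_lit 78) (nat_lit 0) (nat_lit 0) (XT.lf (nat_lit 0) (nat_lit 6937365388) (nat_lit 0) (nat_lit 6937365388) (nat_lit 684) (nat_lit 5204504533) (nat_lit 84) (nat_lit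 5) (nat_lit 84) (nat_lit 3) (nat_lit 93) (nat_lit 3) (nat_lit 289) (nat_lit 289) (nat_lit 202)) (XT.nd (nat_lit 78) (nat_lit 0) (nat_lit 76) (XT.lf (nat_lit 76) (nat_lit 2850666392) (nat_lit 0) (nat_lit 26333421144) (nat_lit 760) (nat_lit 10484336738) (nat_lit 85) (nat_lit 5) (nat_lit 84) (nat_lit 5) (nat_lit 94) (nat_lit 5) (nat_lit 290) (nat_lit 289) (nat_lit 201)) (XT.lf (nat_lit 0) (nat_lit 31401899025) (nat_lit 684) (nat_lit 8511184388) (nat_lit 760) (nat_lit 1352685320) (nat_lit 85) (nat_lit 5) (nat_lit 94) (nat_lit 5) (nat_lit 95) (nat_lit 5) (nat_lit 291) (nat_lit 289) (nat_lit 200))))) (XT.nd (nat_lit 156) (nat_lit 608) (nat_lit 0) (XT.nd (nat_lit 78) (nat_lit 0) (nat_lit 76) (XT.lf (nat_lit 76) (nat_lit 22326590337) (nat_lit 0) (nat_lit 12257094579) (nat_lit 760) (nat_lit 8367902515) (nat_lit 86) (nat_lit 5) (nat_lit 85) (nat_lit 5) (nat_lit 95) (nat_lit 5) (nat_lit 292) (nat_lit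 289) (nat_lit 199)) (XT.lf (nat_lit 76) (nat_lit 11249063309) (nat_lit 0) (nat_lit 27366593159) (nat_lit 760) (nat_lit 6126846122) (nat_lit 87) (nat_lit 5) (nat_lit 86) (nat_lit 5) (nat_lit 96) (nat_lit 5) (nat_lit 293) (nat_lit 289) (nat_lit 198))) (XT.nd (nat_lit 78) (nat_lit 760) (nat_lit 0) (XT.lf (nat_lit 0) (nat_lit 43569124221) (nat_lit 684) (nat_lit 498257171) (nat_lit 760) (nat_lit 2579374782) (nat_lit 87) (nat_lit 5) (nat_lit 96) (nat_lit 5) (nat_lit 97) (nat_lit 5) (nat_lit 294) (nat_lit 289) (nat_lit 197)) (XT.nd (nat_lit 78) (nat_lit 0) (nat_lit 76) (XT.lf (nat_lit 0) (nat_lit 1241056731) (nat_lit 760) (nat_lit 12854969994) (nat_lit 836) (nat_lit 34555544010) (nat_lit 77) (nat_lit 5) (nat_lit 87) (nat_lit 5) (nat_lit 88) (nat_lit 5) (nat_lit 295) (nat_lit 289) (nat_lit 196)) (XT.lf (nat_lit 0) (nat_lit 6485075187) (nat_lit 760) (nat_lit 26148382462) (nat_lit 76) (nat_lit 18146417077)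 (nat_lit 78) (nat_lit 5) (nat_lit 88) (nat_lit 5) (nat_lit 79) (nat_lit 5) (nat_lit 296) (nat_lit 289) (nat_lit 195)))))) (XT.nd (nat_lit 390) (nat_lit 1140) (nat_lit 0) (XT.nd (nat_lit 156) (nat_lit 988) (nat_lit 0) (XT.nd (nat_lit 78) (nat_lit 0) (nat_lit 0) (XT.lf (nat_lit 0) (nat_lit 12668874780) (nat_lit 456) (nat_lit 138463493) (nat_lit 532) (nat_lit 40238177780) (nat_lit 72) (nat_lit 5) (nat_lit 78) (nat_lit 5) (nat_lit 79) (nat_lit 5) (nat_lit 297) (nat_lit 289) (nat_lit 194)) (XT.lf (nat_lit 0) (nat_lit 20640015301) (nat_lit 532) (nat_lit 501573522) (nat_lit 76) (nat_lit 34300596714) (nat_lit 72) (nat_lit 5) (nat_lit 79) (nat_lit 5) (nat_lit 73) (nat_lit 5) (nat_lit 298) (nat_lit 289) (nat_lit 193))) (XT.nd (nat_lit 78) (nat_lit 608) (nat_lit 0) (XT.lf (nat_lit 0) (nat_lit 30005664862) (nat_lit 456) (nat_lit 14253113570) (nat_lit 76) (nat_lit 13726500094) (nat_lit 67) (nat_lit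 5) (nat_lit 73) (nat_lit 5) (nat_lit 68) (nat_lit 5) (nat_lit 299) (nat_lit 289) (nat_lit 192)) (XT.nd (nat_lit 78) (nat_lit 304) (nat_lit 0) (XT.lf (nat_lit 0) (nat_lit 31436978357) (nat_lit 304) (nat_lit 9536216753) (nat_lit 380) (nat_lit 19715999691) (nat_lit 63) (nat_lit 5) (nat_lit 67) (nat_lit 5) (nat_lit 68) (nat_lit 5) (nat_lit 300) (nat_lit 289) (nat_lit 191)) (XT.lf (nat_lit 0) (nat_lit 17820216796) (nat_lit 304) (nat_lit 35961731847) (nat_lit 380) (nat_lit 9779291436) (nat_lit 59) (nat_lit 5) (nat_lit 63) (nat_lit 5) (nat_lit 64) (nat_lit 5) (nat_lit 301) (nat_lit 289) (nat_lit 190))))) (XT.nd (nat_lit 234) (nat_lit 532) (nat_lit 0) (XT.nd (nat_lit 78) (nat_lit 304) (nat_lit 0) (XT.lf (nat_lit 0) (nat_lit 1664529205) (nat_lit 304) (nat_lit 63674040126) (nat_lit 76) (nat_lit 1286609300) (nat_lit 55) (nat_lit 5) (nat_lit 59) (nat_lit 5) (nat_lit 56) (nat_lit 5) (nat_lit 302) (nat_lit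 289) (nat_lit 189)) (XT.nd (nat_lit 78) (nat_lit 304) (nat_lit 0) (XT.lf (nat_lit 0) (nat_lit 15098998308) (nat_lit 304) (nat_lit 13510317336) (nat_lit 76) (nat_lit 41246018240) (nat_lit 55) (nat_lit 5) (nat_lit 59) (nat_lit 5) (nat_lit 56) (nat_lit 5) (nat_lit 303) (nat_lit 289) (nat_lit 188)) (XT.lf (nat_lit 0) (nat_lit 30444660014) (nat_lit 380) (nat_lit 31487023064) (nat_lit 76) (nat_lit 11370401824) (nat_lit 51) (nat_lit 5) (nat_lit 56) (nat_lit 5) (nat_lit 52) (nat_lit 5) (nat_lit 304) (nat_lit 289) (nat_lit 187)))) (XT.nd (nat_lit 78) (nat_lit 304) (nat_lit 0) (XT.lf (nat_lit 0) (nat_lit 25358099687) (nat_lit 228) (nat_lit 22774724030) (nat_lit 304) (nat_lit 28836014551) (nat_lit 48) (nat_lit 5) (nat_lit 51) (nat_lit 5) (nat_lit 52) (nat_lit 5) (nat_lit 305) (nat_lit 289) (nat_lit 186)) (XT.nd (nat_lit 78) (nat_lit 76) (nat_lit 0) (XT.lf (nat_lit 0) (nat_lit 6876805497) (nat_lit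 228) (nat_lit 61326226954) (nat_lit 304) (nat_lit 12677554228) (nat_lit 45) (nat_lit 5) (nat_lit 48) (nat_lit 5) (nat_lit 49) (nat_lit 5) (nat_lit 306) (nat_lit 289) (nat_lit 185)) (XT.lf (nat_lit 0) (nat_lit 5916150180) (nat_lit 304) (nat_lit 13650536677) (nat_lit 76) (nat_lit 65470097924) (nat_lit 44) (nat_lit 5) (nat_lit 48) (nat_lit 5) (nat_lit 45) (nat_lit 5) (nat_lit 307) (nat_lit 289) (nat_lit 184))))))) (XT.nd (nat_lit 780) (nat_lit 988) (nat_lit 0) (XT.nd (nat_lit 390) (nat_lit 532) (nat_lit 0) (XT.nd (nat_lit 156) (nat_lit 456) (nat_lit 0) (XT.nd (nat_lit 78) (nat_lit 228) (nat_lit 0) (XT.lf (nat_lit 0) (nat_lit 26800233279) (nat_lit 304) (nat_lit 36878392629) (nat_lit 76) (nat_lit 25774112850) (nat_lit 41) (nat_lit 5) (nat_lit 45) (nat_lit 5) (nat_lit 42) (nat_lit 5) (nat_lit 308) (nat_lit 289) (nat_lit 183)) (XT.lf (nat_lit 0) (nat_lit 31030950436) (nat_lit 228) (nat_lit 19378038897)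 (nat_lit 304) (nat_lit 43760285709) (nat_lit 38) (nat_lit 5) (nat_lit 41) (nat_lit 5) (nat_lit 42) (nat_lit 5) (nat_lit 309) (nat_lit 289) (nat_lit 182))) (XT.nd (nat_lit 78) (nat_lit 304) (nat_lit 0) (XT.lf (nat_lit 0) (nat_lit 6199425382) (nat_lit 152) (nat_lit 70899138621) (nat_lit 228) (nat_lit 22104967378) (nat_lit 36) (nat_lit 5) (nat_lit 38) (nat_lit 5) (nat_lit 39) (nat_lit 5) (nat_lit 310) (nat_lit 289) (nat_lit 181)) (XT.nd (nat_lit 78) (nat_lit 228) (nat_lit 0) (XT.lf (nat_lit 0) (nat_lit 2684355738) (nat_lit 228) (nat_lit 21614400824) (nat_lit 76) (nat_lit 80268641170) (nat_lit 35) (nat_lit 5) (nat_lit 38) (nat_lit 5) (nat_lit 36) (nat_lit 5) (nat_lit 311) (nat_lit 289) (nat_lit 180)) (XT.lf (nat_lit 0) (nat_lit 30006855010) (nat_lit 304) (nat_lit 53791166488) (nat_lit 76) (nat_lit 26478011530) (nat_lit 32) (nat_lit 5) (nat_lit 36) (nat_lit 5) (nat_lit 33) (nat_lit 5) (nat_lit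 312) (nat_lit 289) (nat_lit 179))))) (XT.nd (nat_lit 156) (nat_lit 380) (nat_lit 0) (XT.nd (nat_lit 78) (nat_lit 0) (nat_lit 0) (XT.lf (nat_lit 0) (nat_lit 25581616881) (nat_lit 152) (nat_lit 35123596943) (nat_lit 228) (nat_lit 55676644658) (nat_lit 30) (nat_lit 5) (nat_lit 32) (nat_lit 5) (nat_lit 33) (nat_lit 5) (nat_lit 313) (nat_lit 289) (nat_lit 178)) (XT.lf (nat_lit 0) (nat_lit 95082503684) (nat_lit 228) (nat_lit 9994536152) (nat_lit 76) (nat_lit 17837959160) (nat_lit 30) (nat_lit 5) (nat_lit 33) (nat_lit 5) (nat_lit 31) (nat_lit 5) (nat_lit 314) (nat_lit 289) (nat_lit 177))) (XT.nd (nat_lit 78) (nat_lit 152) (nat_lit 0) (XT.lf (nat_lit 0) (nat_lit 4024968612) (nat_lit 228) (nat_lit 50727949287) (nat_lit 76) (nat_lit 75123254215) (nat_lit 27) (nat_lit 5) (nat_lit 30) (nat_lit 5) (nat_lit 28) (nat_lit 5) (nat_lit 315) (nat_lit 289) (nat_lit 176)) (XT.nd (nat_lit 78) (nat_lit 0) (nat_lit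 0) (XT.lf (nat_lit 0) (nat_lit 38270329853) (nat_lit 228) (nat_lit 98172704292) (nat_lit 76) (nat_lit 887672401) (nat_lit 25) (nat_lit 5) (nat_lit 28) (nat_lit 5) (nat_lit 26) (nat_lit 5) (nat_lit 316) (nat_lit 289) (nat_lit 175)) (XT.lf (nat_lit 0) (nat_lit 77075258995) (nat_lit 228) (nat_lit 8231145544) (nat_lit 76) (nat_lit 59984203865) (nat_lit 25) (nat_lit 5) (nat_lit 28) (nat_lit 5) (nat_lit 26) (nat_lit 5) (nat_lit 317) (nat_lit 289) (nat_lit 174)))))) (XT.nd (nat_lit 390) (nat_lit 456) (nat_lit 0) (XT.nd (nat_lit 156) (nat_lit 228) (nat_lit 0) (XT.nd (nat_lit 78) (nat_lit 152) (nat_lit 0) (XT.lf (nat_lit 0) (nat_lit 91843151017) (nat_lit 152) (nat_lit 28574036913) (nat_lit 228) (nat_lit 33398485705) (nat_lit 23) (nat_lit 5) (nat_lit 25) (nat_lit 5) (nat_lit 26) (nat_lit 5) (nat_lit 318) (nat_lit 289) (nat_lit 173)) (XT.lf (nat_lit 0) (nat_lit 5336292728) (nat_lit 152) (nat_lit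 125146642828) (nat_lit 76) (nat_lit 32473172695) (nat_lit 21) (nat_lit 5) (nat_lit 23) (nat_lit 5) (nat_lit 22) (nat_lit 5) (nat_lit 319) (nat_lit 289) (nat_lit 172))) (XT.nd (nat_lit 78) (nat_lit 228) (nat_lit 0) (XT.lf (nat_lit 0) (nat_lit 47593177260) (nat_lit 152) (nat_lit 26051487987) (nat_lit 76) (nat_lit 99076065603) (nat_lit 21) (nat_lit 5) (nat_lit 23) (nat_lit 5) (nat_lit 22) (nat_lit 5) (nat_lit 320) (nat_lit 289) (nat_lit 171)) (XT.nd (nat_lit 78) (nat_lit 76) (nat_lit 0) (XT.lf (nat_lit 0) (nat_lit 83646593820) (nat_lit 152) (nat_lit 10888839316) (nat_lit 228) (nat_lit 88665850225) (nat_lit 19) (nat_lit 5) (nat_lit 21) (nat_lit 5) (nat_lit 22) (nat_lit 5) (nat_lit 321) (nat_lit 289) (nat_lit 170)) (XT.lf (nat_lit 0) (nat_lit 7908884188) (nat_lit 76) (nat_lit 138795984401) (nat_lit 152) (nat_lit 47741822578) (nat_lit 18) (nat_lit 5) (nat_lit 19) (nat_lit 5) (nat_lit 20) (nat_lit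 4) (nat_lit 322) (nat_lit 289) (nat_lit 169))))) (XT.nd (nat_lit 234) (nat_lit 228) (nat_lit 0) (XT.nd (nat_lit 78) (nat_lit 228) (nat_lit 0) (XT.lf (nat_lit 0) (nat_lit 127333154014) (nat_lit 76) (nat_lit 77628488070) (nat_lit 152) (nat_lit 1534401326) (nat_lit 18) (nat_lit 5) (nat_lit 19) (nat_lit 5) (nat_lit 20) (nat_lit 4) (nat_lit 323) (nat_lit 289) (nat_lit 168)) (XT.nd (nat_lit 78) (nat_lit 0) (nat_lit 0) (XT.lf (nat_lit 0) (nat_lit 37236971460) (nat_lit 152) (nat_lit 10164906697) (nat_lit 228) (nat_lit 172040687559) (nat_lit 15) (nat_lit 5) (nat_lit 17) (nat_lit 5) (nat_lit 18) (nat_lit 5) (nat_lit 324) (nat_lit 289) (nat_lit 167)) (XT.lf (nat_lit 0) (nat_lit 102579507395) (nat_lit 228) (nat_lit 68609138753) (nat_lit 76) (nat_lit 62115896478) (nat_lit 15) (nat_lit 5) (nat_lit 18) (nat_lit 5) (nat_lit 16) (nat_lit 4) (nat_lit 325) (nat_lit 289) (nat_lit 166)))) (XT.nd (nat_lit 78)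 (nat_lit 152) (nat_lit 0) (XT.lf (nat_lit 0) (nat_lit 55684358997) (nat_lit 76) (nat_lit 107526903222) (nat_lit 152) (nat_lit 85012220443) (nat_lit 14) (nat_lit 5) (nat_lit 15) (nat_lit 5) (nat_lit 16) (nat_lit 4) (nat_lit 326) (nat_lit 289) (nat_lit 165)) (XT.nd (nat_lit 78) (nat_lit 152) (nat_lit 0) (XT.lf (nat_lit 0) (nat_lit 192369890407) (nat_lit 76) (nat_lit 37517963304) (nat_lit 152) (nat_lit 34388370056) (nat_lit 14) (nat_lit 5) (nat_lit 15) (nat_lit 5) (nat_lit 16) (nat_lit 4) (nat_lit 327) (nat_lit 289) (nat_lit 164)) (XT.lf (nat_lit 0) (nat_lit 21187034489) (nat_lit 152) (nat_lit 222187132756) (nat_lit 76) (nat_lit 38145636665) (nat_lit 12) (nat_lit 5) (nat_lit 14) (nat_lit 5) (nat_lit 13) (nat_lit 4) (nat_lit 328) (nat_lit 289) (nat_lit 163))))))))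
noncomputable def xc99 : XT := (XT.nd (nat_lit 37908) (nat_lit 0) (nat_lit 1900) (XT.nd (nat_lit 780) (nat_lit 152) (nat_lit 0) (XT.nd (nat_lit 390) (nat_lit 152) (nat_lit 0) (XT.nd (nat_lit 156) (nat_lit 152) (nat_lit 0) (XT.nd (nat_lit 78) (nat_lit 76) (nat_lit 0) (XT.lf (nat_lit 0) (nat_lit 81924740697) (nat_lit 152) (nat_lit 97676044407) (nat_lit 76) (nat_lit 120417845214) (nat_lit 12) (nat_lit 5) (nat_lit 14) (nat_lit 5) (nat_lit 13) (nat_lit 4) (nat_lit 329) (nat_lit 289) (nat_lit 162)) (XT.lf (nat_lit 0) (nat_lit 38011284970) (nat_lit 76) (nat_lit 110102943127) (nat_lit 152) (nat_lit 171853497022) (nat_lit 11) (nat_lit 5) (nat_lit 12) (nat_lit 5) (nat_lit 13) (nat_lit 4) (nat_lit 330) (nat_lit 289) (nat_lit 161))) (XT.nd (nat_lit 78) (nat_lit 152) (nat_lit 0) (XT.lf (nat_lit 0) (nat_lit 188040390280) (nat_lit 76) (nat_lit 33259273014) (nat_lit 152) (nat_lit 120128045244) (nat_lit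 11) (nat_lit 5) (nat_lit 12) (nat_lit 5) (nat_lit 13) (nat_lit 4) (nat_lit 331) (nat_lit 289) (nat_lit 160)) (XT.nd (nat_lit 78) (nat_lit 152) (nat_lit 0) (XT.lf (nat_lit 0) (nat_lit 301115764276) (nat_lit 152) (nat_lit 15310246704) (nat_lit 0) (nat_lit 48139688546) (nat_lit 11) (nat_lit 5) (nat_lit 13) (nat_lit 4) (nat_lit 11) (nat_lit 4) (nat_lit 332) (nat_lit 289) (nat_lit 159)) (XT.lf (nat_lit 0) (nat_lit 587903644) (nat_lit 152) (nat_lit 251771719856) (nat_lit 76) (nat_lit 137059160237) (nat_lit 9) (nat_lit 5) (nat_lit 11) (nat_lit 5) (nat_lit 10) (nat_lit 4) (nat_lit 333) (nat_lit 289) (nat_lit 158))))) (XT.nd (nat_lit 156) (nat_lit 76) (nat_lit 0) (XT.nd (nat_lit 78) (nat_lit 76) (nat_lit 0) (XT.lf (nat_lit 0) (nat_lit 67826019338) (nat_lit 152) (nat_lit 113934366570) (nat_lit 76) (nat_lit 234432709677) (nat_lit 9) (nat_lit 5) (nat_lit 11) (nat_lit 5) (nat_lit 10) (nat_lit 4) (nat_lit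 334) (nat_lit 289) (nat_lit 157)) (XT.lf (nat_lit 0) (nat_lit 36083945810) (nat_lit 76) (nat_lit 104922092163) (nat_lit 152) (nat_lit 304075172058) (nat_lit 8) (nat_lit 5) (nat_lit 9) (nat_lit 5) (nat_lit 10) (nat_lit 4) (nat_lit 335) (nat_lit 289) (nat_lit 156))) (XT.nd (nat_lit 78) (nat_lit 76) (nat_lit 0) (XT.lf (nat_lit 0) (nat_lit 202171382763) (nat_lit 76) (nat_lit 19853244971) (nat_lit 152) (nat_lit 254156537726) (nat_lit 8) (nat_lit 5) (nat_lit 9) (nat_lit 5) (nat_lit 10) (nat_lit 4) (nat_lit 336) (nat_lit 289) (nat_lit 155)) (XT.nd (nat_lit 78) (nat_lit 76) (nat_lit 0) (XT.lf (nat_lit 0) (nat_lit 310648693199) (nat_lit 152) (nat_lit 129348604514) (nat_lit 0) (nat_lit 69715620469) (nat_lit 8) (nat_lit 5) (nat_lit 10) (nat_lit 4) (nat_lit 8) (nat_lit 4) (nat_lit 337) (nat_lit 289) (nat_lit 154)) (XT.lf (nat_lit 0) (nat_lit 27427778656) (nat_lit 76) (nat_lit 379697463153) (nat_lit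 76) (nat_lit 138763841680) (nat_lit 7) (nat_lit 4) (nat_lit 8) (nat_lit 5) (nat_lit 8) (nat_lit 4) (nat_lit 338) (nat_lit 289) (nat_lit 153)))))) (XT.nd (nat_lit 390) (nat_lit 0) (nat_lit 0) (XT.nd (nat_lit 156) (nat_lit 76) (nat_lit 0) (XT.nd (nat_lit 78) (nat_lit 76) (nat_lit 0) (XT.lf (nat_lit 0) (nat_lit 201364516149) (nat_lit 76) (nat_lit 312208158827) (nat_lit 76) (nat_lit 71274029259) (nat_lit 7) (nat_lit 4) (nat_lit 8) (nat_lit 5) (nat_lit 8) (nat_lit 4) (nat_lit 339) (nat_lit 289) (nat_lit 152)) (XT.lf (nat_lit 0) (nat_lit 1562894358) (nat_lit 152) (nat_lit 237730666591) (nat_lit 76) (nat_lit 387626132435) (nat_lit 6) (nat_lit 5) (nat_lit 8) (nat_lit 5) (nat_lit 7) (nat_lit 4) (nat_lit 340) (nat_lit 289) (nat_lit 151))) (XT.nd (nat_lit 78) (nat_lit 76) (nat_lit 0) (XT.lf (nat_lit 0) (nat_lit 77762704459) (nat_lit 152) (nat_lit 81521491495) (nat_lit 76) (nat_lit 513014253207) (nat_lit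 6) (nat_lit 5) (nat_lit 8) (nat_lit 5) (nat_lit 7) (nat_lit 4) (nat_lit 341) (nat_lit 289) (nat_lit 150)) (XT.nd (nat_lit 78) (nat_lit 0) (nat_lit 0) (XT.lf (nat_lit 0) (nat_lit 90066498988) (nat_lit 76) (nat_lit 71397860996) (nat_lit 152) (nat_lit 559772852570) (nat_lit 5) (nat_lit 5) (nat_lit 6) (nat_lit 5) (nat_lit 7) (nat_lit 4) (nat_lit 342) (nat_lit 289) (nat_lit 149)) (XT.lf (nat_lit 0) (nat_lit 253672364029) (nat_lit 152) (nat_lit 496118516845) (nat_lit 0) (nat_lit 24209685510) (nat_lit 5) (nat_lit 5) (nat_lit 7) (nat_lit 4) (nat_lit 5) (nat_lit 4) (nat_lit 343) (nat_lit 289) (nat_lit 148))))) (XT.nd (nat_lit 36504) (nat_lit 0) (nat_lit 6004) (XT.nd (nat_lit 78) (nat_lit 0) (nat_lit 0) (XT.lf (nat_lit 0) (nat_lit 354460611671) (nat_lit 152) (nat_lit 351466593028) (nat_lit 0) (nat_lit 124997603818) (nat_lit 5) (nat_lit 5) (nat_lit 7) (nat_lit 4) (nat_lit 5) (nat_lit 4) (nat_lit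 344) (nat_lit 289) (nat_lit 147)) (XT.nd (nat_lit 36348) (nat_lit 0) (nat_lit 6004) (XT.lf (nat_lit 0) (nat_lit 463311645897) (nat_lit 152) (nat_lit 195243024829) (nat_lit 0) (nat_lit 233848333104) (nat_lit 5) (nat_lit 5) (nat_lit 7) (nat_lit 4) (nat_lit 5) (nat_lit 4) (nat_lit 345) (nat_lit 289) (nat_lit 146)) (XT.lf (nat_lit 0) (nat_lit 7524452534) (nat_lit 0) (nat_lit 7524452534) (nat_lit 684) (nat_lit 5553310154) (nat_lit 84) (nat_lit 5) (nat_lit 84) (nat_lit 3) (nat_lit 93) (nat_lit 3) (nat_lit 290) (nat_lit 290) (nat_lit 200)))) (XT.nd (nat_lit 78) (nat_lit 0) (nat_lit 76) (XT.lf (nat_lit 76) (nat_lit 3147510257) (nat_lit 0) (nat_lit 28490331425) (nat_lit 760) (nat_lit 11197829025) (nat_lit 85) (nat_lit 5) (nat_lit 84) (nat_lit 5) (nat_lit 94) (nat_lit 5) (nat_lit 291) (nat_lit 290) (nat_lit 199)) (XT.nd (nat_lit 78) (nat_lit 0) (nat_lit 0) (XT.lf (nat_lit 0) (nat_lit 34023535029)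 (nat_lit 684) (nat_lit 9121891735) (nat_lit 760) (nat_lit 1415873568) (nat_lit 85) (nat_lit 5) (nat_lit 94) (nat_lit 5) (nat_lit 95) (nat_lit 5) (nat_lit 292) (nat_lit 290) (nat_lit 198)) (XT.lf (nat_lit 76) (nat_lit 24179854709) (nat_lit 0) (nat_lit 13272947349) (nat_lit 760) (nat_lit 8929554494) (nat_lit 86) (nat_lit 5) (nat_lit 85) (nat_lit 5) (nat_lit 95) (nat_lit 5) (nat_lit 293) (nat_lit 290) (nat_lit 197))))))) (XT.nd (nat_lit 858) (nat_lit 1900) (nat_lit 0) (XT.nd (nat_lit 390) (nat_lit 1292) (nat_lit 0) (XT.nd (nat_lit 156) (nat_lit 1064) (nat_lit 0) (XT.nd (nat_lit 78) (nat_lit 0) (nat_lit 76) (XT.lf (nat_lit 76) (nat_lit 12218859807) (nat_lit 0) (nat_lit 29581465483) (nat_lit 760) (nat_lit 6516587475) (nat_lit 87) (nat_lit 5) (nat_lit 86) (nat_lit 5) (nat_lit 96) (nat_lit 5) (nat_lit 294) (nat_lit 290) (nat_lit 196)) (XT.lf (nat_lit 0) (nat_lit 47142633304) (nat_lit 684) (nat_lit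 468432288) (nat_lit 760) (nat_lit 2762829139) (nat_lit 87) (nat_lit 5) (nat_lit 96) (nat_lit 5) (nat_lit 97) (nat_lit 5) (nat_lit 295) (nat_lit 290) (nat_lit 195))) (XT.nd (nat_lit 78) (nat_lit 380) (nat_lit 0) (XT.lf (nat_lit 0) (nat_lit 1424378579) (nat_lit 760) (nat_lit 13813752934) (nat_lit 836) (nat_lit 37301184021) (nat_lit 77) (nat_lit 5) (nat_lit 87) (nat_lit 5) (nat_lit 88) (nat_lit 5) (nat_lit 296) (nat_lit 290) (nat_lit 194)) (XT.nd (nat_lit 78) (nat_lit 456) (nat_lit 0) (XT.lf (nat_lit 0) (nat_lit 7082541716) (nat_lit 760) (nat_lit 28169363979) (nat_lit 76) (nat_lit 19586260248) (nat_lit 78) (nat_lit 5) (nat_lit 88) (nat_lit 5) (nat_lit 79) (nat_lit 5) (nat_lit 297) (nat_lit 290) (nat_lit 193)) (XT.lf (nat_lit 0) (nat_lit 13750193089) (nat_lit 456) (nat_lit 155624733) (nat_lit 532) (nat_lit 43379491432) (nat_lit 72) (nat_lit 5) (nat_lit 78) (nat_lit 5) (nat_lit 79) (nat_lit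 5) (nat_lit 298) (nat_lit 290) (nat_lit 192))))) (XT.nd (nat_lit 234) (nat_lit 608) (nat_lit 0) (XT.nd (nat_lit 78) (nat_lit 684) (nat_lit 0) (XT.lf (nat_lit 0) (nat_lit 22359547540) (nat_lit 532) (nat_lit 475262921) (nat_lit 76) (nat_lit 37039191276) (nat_lit 72) (nat_lit 5) (nat_lit 79) (nat_lit 5) (nat_lit 73) (nat_lit 5) (nat_lit 299) (nat_lit 290) (nat_lit 191)) (XT.nd (nat_lit 78) (nat_lit 304) (nat_lit 0) (XT.lf (nat_lit 0) (nat_lit 32470368568) (nat_lit 456) (nat_lit 15326457650) (nat_lit 76) (nat_lit 14823930497) (nat_lit 67) (nat_lit 5) (nat_lit 73) (nat_lit 5) (nat_lit 68) (nat_lit 5) (nat_lit 300) (nat_lit 290) (nat_lit 190)) (XT.lf (nat_lit 0) (nat_lit 34015934021) (nat_lit 304) (nat_lit 10295607097) (nat_lit 380) (nat_lit 21229642927) (nat_lit 63) (nat_lit 5) (nat_lit 67) (nat_lit 5) (nat_lit 68) (nat_lit 5) (nat_lit 301) (nat_lit 290) (nat_lit 189)))) (XT.nd (nat_lit 78)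 (nat_lit 304) (nat_lit 0) (XT.lf (nat_lit 0) (nat_lit 19310007516) (nat_lit 304) (nat_lit 38831559271) (nat_lit 380) (nat_lit 10501606588) (nat_lit 59) (nat_lit 5) (nat_lit 63) (nat_lit 5) (nat_lit 64) (nat_lit 5) (nat_lit 302) (nat_lit 290) (nat_lit 188)) (XT.nd (nat_lit 78) (nat_lit 0) (nat_lit 0) (XT.lf (nat_lit 0) (nat_lit 1852616130) (nat_lit 304) (nat_lit 68701932517) (nat_lit 76) (nat_lit 1397798577) (nat_lit 55) (nat_lit 5) (nat_lit 59) (nat_lit 5) (nat_lit 56) (nat_lit 5) (nat_lit 303) (nat_lit 290) (nat_lit 187)) (XT.lf (nat_lit 0) (nat_lit 16357774273) (nat_lit 304) (nat_lit 14530003076) (nat_lit 76) (nat_lit 44553348341) (nat_lit 55) (nat_lit 5) (nat_lit 59) (nat_lit 5) (nat_lit 56) (nat_lit 5) (nat_lit 304) (nat_lit 290) (nat_lit 186)))))) (XT.nd (nat_lit 390) (nat_lit 836) (nat_lit 0) (XT.nd (nat_lit 156) (nat_lit 532) (nat_lit 0) (XT.nd (nat_lit 78) (nat_lit 228) (nat_lit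 0) (XT.lf (nat_lit 0) (nat_lit 32928398504) (nat_lit 380) (nat_lit 33945180566) (nat_lit 76) (nat_lit 12290179061) (nat_lit 51) (nat_lit 5) (nat_lit 56) (nat_lit 5) (nat_lit 52) (nat_lit 5) (nat_lit 305) (nat_lit 290) (nat_lit 185)) (XT.lf (nat_lit 0) (nat_lit 27444909522) (nat_lit 228) (nat_lit 24584046023) (nat_lit 304) (nat_lit 31095035528) (nat_lit 48) (nat_lit 5) (nat_lit 51) (nat_lit 5) (nat_lit 52) (nat_lit 5) (nat_lit 306) (nat_lit 290) (nat_lit 184))) (XT.nd (nat_lit 78) (nat_lit 304) (nat_lit 0) (XT.lf (nat_lit 0) (nat_lit 7484647090) (nat_lit 228) (nat_lit 66217846849) (nat_lit 304) (nat_lit 13646305617) (nat_lit 45) (nat_lit 5) (nat_lit 48) (nat_lit 5) (nat_lit 49) (nat_lit 5) (nat_lit 307) (nat_lit 290) (nat_lit 183)) (XT.nd (nat_lit 78) (nat_lit 228) (nat_lit 0) (XT.lf (nat_lit 0) (nat_lit 6430181241) (nat_lit 304) (nat_lit 14687744831) (nat_lit 76) (nat_lit 70719700066)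 (nat_lit 44) (nat_lit 5) (nat_lit 48) (nat_lit 5) (nat_lit 45) (nat_lit 5) (nat_lit 308) (nat_lit 290) (nat_lit 182)) (XT.lf (nat_lit 0) (nat_lit 28983009397) (nat_lit 304) (nat_lit 39774442798) (nat_lit 76) (nat_lit 27849508093) (nat_lit 41) (nat_lit 5) (nat_lit 45) (nat_lit 5) (nat_lit 42) (nat_lit 5) (nat_lit 309) (nat_lit 290) (nat_lit 181))))) (XT.nd (nat_lit 234) (nat_lit 380) (nat_lit 0) (XT.nd (nat_lit 78) (nat_lit 228) (nat_lit 0) (XT.lf (nat_lit 0) (nat_lit 33565291322) (nat_lit 228) (nat_lit 20913113446) (nat_lit 304) (nat_lit 47222522187) (nat_lit 38) (nat_lit 5) (nat_lit 41) (nat_lit 5) (nat_lit 42) (nat_lit 5) (nat_lit 310) (nat_lit 290) (nat_lit 180)) (XT.nd (nat_lit 78) (nat_lit 76) (nat_lit 0) (XT.lf (nat_lit 0) (nat_lit 6746571698) (nat_lit 152) (nat_lit 76554874007) (nat_lit 228) (nat_lit 23836567178) (nat_lit 36) (nat_lit 5) (nat_lit 38) (nat_lit 5) (nat_lit 39) (nat_lit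 5) (nat_lit 311) (nat_lit 290) (nat_lit 179)) (XT.lf (nat_lit 0) (nat_lit 2932085529) (nat_lit 228) (nat_lit 23295016981) (nat_lit 76) (nat_lit 86703992841) (nat_lit 35) (nat_lit 5) (nat_lit 38) (nat_lit 5) (nat_lit 36) (nat_lit 5) (nat_lit 312) (nat_lit 290) (nat_lit 178)))) (XT.nd (nat_lit 78) (nat_lit 152) (nat_lit 0) (XT.lf (nat_lit 0) (nat_lit 32438903274) (nat_lit 304) (nat_lit 58046665009) (nat_lit 76) (nat_lit 28610930604) (nat_lit 32) (nat_lit 5) (nat_lit 36) (nat_lit 5) (nat_lit 33) (nat_lit 5) (nat_lit 313) (nat_lit 290) (nat_lit 177)) (XT.nd (nat_lit 78) (nat_lit 0) (nat_lit 0) (XT.lf (nat_lit 0) (nat_lit 27673863926) (nat_lit 152) (nat_lit 37917647326) (nat_lit 228) (nat_lit 60099363198) (nat_lit 30) (nat_lit 5) (nat_lit 32) (nat_lit 5) (nat_lit 33) (nat_lit 5) (nat_lit 314) (nat_lit 290) (nat_lit 176)) (XT.lf (nat_lit 0) (nat_lit 102716999894) (nat_lit 228) (nat_lit 10750577619)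 (nat_lit 76) (nat_lit 19279190780) (nat_lit 30) (nat_lit 5) (nat_lit 33) (nat_lit 5) (nat_lit 31) (nat_lit 5) (nat_lit 315) (nat_lit 290) (nat_lit 175))))))))
noncomputable def xc100 : XT := (XT.nd (nat_lit 1638) (nat_lit 228) (nat_lit 0) (XT.nd (nat_lit 780) (nat_lit 532) (nat_lit 0) (XT.nd (nat_lit 390) (nat_lit 456) (nat_lit 0) (XT.nd (nat_lit 156) (nat_lit 304) (nat_lit 0) (XT.nd (nat_lit 78) (nat_lit 152) (nat_lit 0) (XT.lf (nat_lit 0) (nat_lit 4373911815) (nat_lit 228) (nat_lit 54743632652) (nat_lit 76) (nat_lit 81147342536) (nat_lit 27) (nat_lit 5) (nat_lit 30) (nat_lit 5) (nat_lit 28) (nat_lit 5) (nat_lit 316) (nat_lit 290) (nat_lit 174)) (XT.lf (nat_lit 0) (nat_lit 41357777505) (nat_lit 228) (nat_lit 105984744861) (nat_lit 76) (nat_lit 973320388) (nat_lit 25) (nat_lit 5) (nat_lit 28) (nat_lit 5) (nat_lit 26) (nat_lit 5) (nat_lit 317) (nat_lit 290) (nat_lit 173))) (XT.nd (nat_lit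 78) (nat_lit 304) (nat_lit 0) (XT.lf (nat_lit 0) (nat_lit 83265188292) (nat_lit 228) (nat_lit 8850955914) (nat_lit 76) (nat_lit 64796490354) (nat_lit 25) (nat_lit 5) (nat_lit 28) (nat_lit 5) (nat_lit 26) (nat_lit 5) (nat_lit 318) (nat_lit 290) (nat_lit 172)) (XT.nd (nat_lit 78) (nat_lit 152) (nat_lit 0) (XT.lf (nat_lit 0) (nat_lit 99227603330) (nat_lit 152) (nat_lit 30845674883) (nat_lit 228) (nat_lit 36046488469) (nat_lit 23) (nat_lit 5) (nat_lit 25) (nat_lit 5) (nat_lit 26) (nat_lit 5) (nat_lit 319) (nat_lit 290) (nat_lit 171)) (XT.lf (nat_lit 0) (nat_lit 5785381821) (nat_lit 152) (nat_lit 135121329274) (nat_lit 76) (nat_lit 35084754416) (nat_lit 21) (nat_lit 5) (nat_lit 23) (nat_lit 5) (nat_lit 22) (nat_lit 5) (nat_lit 320) (nat_lit 290) (nat_lit 170))))) (XT.nd (nat_lit 156) (nat_lit 304) (nat_lit 0) (XT.nd (nat_lit 78) (nat_lit 152) (nat_lit 0) (XT.lf (nat_lit 0) (nat_lit 51421173732)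 (nat_lit 152) (nat_lit 28101306118) (nat_lit 76) (nat_lit 107014861876) (nat_lit 21) (nat_lit 5) (nat_lit 23) (nat_lit 5) (nat_lit 22) (nat_lit 5) (nat_lit 321) (nat_lit 290) (nat_lit 169)) (XT.lf (nat_lit 0) (nat_lit 90371131558) (nat_lit 152) (nat_lit 11746669128) (nat_lit 228) (nat_lit 95738589737) (nat_lit 19) (nat_lit 5) (nat_lit 21) (nat_lit 5) (nat_lit 22) (nat_lit 5) (nat_lit 322) (nat_lit 290) (nat_lit 168))) (XT.nd (nat_lit 78) (nat_lit 228) (nat_lit 0) (XT.lf (nat_lit 0) (nat_lit 8573733314) (nat_lit 76) (nat_lit 149886304492) (nat_lit 152) (nat_lit 51541432112) (nat_lit 18) (nat_lit 5) (nat_lit 19) (nat_lit 5) (nat_lit 20) (nat_lit 4) (nat_lit 323) (nat_lit 290) (nat_lit 167)) (XT.nd (nat_lit 78) (nat_lit 228) (nat_lit 0) (XT.lf (nat_lit 0) (nat_lit 137549564105) (nat_lit 76) (nat_lit 83826397985) (nat_lit 152) (nat_lit 1638879105) (nat_lit 18) (nat_lit 5) (nat_lit 19) (nat_lit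 5) (nat_lit 20) (nat_lit 4) (nat_lit 324) (nat_lit 290) (nat_lit 166)) (XT.lf (nat_lit 0) (nat_lit 40244967993) (nat_lit 152) (nat_lit 10965892900) (nat_lit 228) (nat_lit 185786254121) (nat_lit 15) (nat_lit 5) (nat_lit 17) (nat_lit 5) (nat_lit 18) (nat_lit 5) (nat_lit 325) (nat_lit 290) (nat_lit 165)))))) (XT.nd (nat_lit 390) (nat_lit 304) (nat_lit 0) (XT.nd (nat_lit 156) (nat_lit 152) (nat_lit 0) (XT.nd (nat_lit 78) (nat_lit 76) (nat_lit 0) (XT.lf (nat_lit 0) (nat_lit 110801630078) (nat_lit 228) (nat_lit 74070365963) (nat_lit 76) (nat_lit 67096108617) (nat_lit 15) (nat_lit 5) (nat_lit 18) (nat_lit 5) (nat_lit 16) (nat_lit 4) (nat_lit 326) (nat_lit 290) (nat_lit 164)) (XT.lf (nat_lit 0) (nat_lit 60165416321) (nat_lit 76) (nat_lit 116117752155) (nat_lit 152) (nat_lit 91797430244) (nat_lit 14) (nat_lit 5) (nat_lit 15) (nat_lit 5) (nat_lit 16) (nat_lit 4) (nat_lit 327) (nat_lit 290) (nat_lit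 163))) (XT.nd (nat_lit 78) (nat_lit 152) (nat_lit 0) (XT.lf (nat_lit 0) (nat_lit 207783841458) (nat_lit 76) (nat_lit 40508934326) (nat_lit 152) (nat_lit 37124839815) (nat_lit 14) (nat_lit 5) (nat_lit 15) (nat_lit 5) (nat_lit 16) (nat_lit 4) (nat_lit 328) (nat_lit 290) (nat_lit 162)) (XT.nd (nat_lit 78) (nat_lit 0) (nat_lit 0) (XT.lf (nat_lit 0) (nat_lit 22895614730) (nat_lit 152) (nat_lit 239937822834) (nat_lit 76) (nat_lit 41207259749) (nat_lit 12) (nat_lit 5) (nat_lit 14) (nat_lit 5) (nat_lit 13) (nat_lit 4) (nat_lit 329) (nat_lit 290) (nat_lit 161)) (XT.lf (nat_lit 0) (nat_lit 88491328732) (nat_lit 152) (nat_lit 105467645976) (nat_lit 76) (nat_lit 130060506305) (nat_lit 12) (nat_lit 5) (nat_lit 14) (nat_lit 5) (nat_lit 13) (nat_lit 4) (nat_lit 330) (nat_lit 290) (nat_lit 160))))) (XT.nd (nat_lit 234) (nat_lit 228) (nat_lit 0) (XT.nd (nat_lit 78) (nat_lit 0) (nat_lit 0) (XT.lf (nat_lit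 0) (nat_lit 41073692712) (nat_lit 76) (nat_lit 118901684181) (nat_lit 152) (nat_lit 185589157104) (nat_lit 11) (nat_lit 5) (nat_lit 12) (nat_lit 5) (nat_lit 13) (nat_lit 4) (nat_lit 331) (nat_lit 290) (nat_lit 159)) (XT.nd (nat_lit 78) (nat_lit 0) (nat_lit 0) (XT.lf (nat_lit 0) (nat_lit 203103533488) (nat_lit 76) (nat_lit 35911223748) (nat_lit 152) (nat_lit 129726603975) (nat_lit 11) (nat_lit 5) (nat_lit 12) (nat_lit 5) (nat_lit 13) (nat_lit 4) (nat_lit 332) (nat_lit 290) (nat_lit 158)) (XT.lf (nat_lit 0) (nat_lit 325215449614) (nat_lit 152) (nat_lit 16516234271) (nat_lit 0) (nat_lit 51998743016) (nat_lit 11) (nat_lit 5) (nat_lit 13) (nat_lit 4) (nat_lit 11) (nat_lit 4) (nat_lit 333) (nat_lit 290) (nat_lit 157)))) (XT.nd (nat_lit 78) (nat_lit 76) (nat_lit 0) (XT.lf (nat_lit 0) (nat_lit 645038666) (nat_lit 152) (nat_lit 271895103153) (nat_lit 76) (nat_lit 148031632976) (nat_lit 9) (nat_lit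 5) (nat_lit 11) (nat_lit 5) (nat_lit 10) (nat_lit 4) (nat_lit 334) (nat_lit 290) (nat_lit 156)) (XT.nd (nat_lit 78) (nat_lit 76) (nat_lit 0) (XT.lf (nat_lit 0) (nat_lit 73261455265) (nat_lit 152) (nat_lit 123032121181) (nat_lit 76) (nat_lit 253194493044) (nat_lit 9) (nat_lit 5) (nat_lit 11) (nat_lit 5) (nat_lit 10) (nat_lit 4) (nat_lit 335) (nat_lit 290) (nat_lit 155)) (XT.lf (nat_lit 0) (nat_lit 38986917620) (nat_lit 76) (nat_lit 113308518658) (nat_lit 152) (nat_lit 328391819216) (nat_lit 8) (nat_lit 5) (nat_lit 9) (nat_lit 5) (nat_lit 10) (nat_lit 4) (nat_lit 336) (nat_lit 290) (nat_lit 154))))))) (XT.nd (nat_lit 37206) (nat_lit 0) (nat_lit 4104) (XT.nd (nat_lit 390) (nat_lit 76) (nat_lit 0) (XT.nd (nat_lit 156) (nat_lit 152) (nat_lit 0) (XT.nd (nat_lit 78) (nat_lit 0) (nat_lit 0) (XT.lf (nat_lit 0) (nat_lit 218360145370) (nat_lit 76) (nat_lit 21434707459) (nat_lit 152) (nat_lit 274480387960)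 (nat_lit 8) (nat_lit 5) (nat_lit 9) (nat_lit 5) (nat_lit 10) (nat_lit 4) (nat_lit 337) (nat_lit 290) (nat_lit 153)) (XT.lf (nat_lit 0) (nat_lit 335508330320) (nat_lit 152) (nat_lit 139682267160) (nat_lit 0) (nat_lit 75298962291) (nat_lit 8) (nat_lit 5) (nat_lit 10) (nat_lit 4) (nat_lit 8) (nat_lit 4) (nat_lit 338) (nat_lit 290) (nat_lit 152))) (XT.nd (nat_lit 78) (nat_lit 76) (nat_lit 0) (XT.lf (nat_lit 0) (nat_lit 29635608431) (nat_lit 76) (nat_lit 410067033383) (nat_lit 76) (nat_lit 149857194895) (nat_lit 7) (nat_lit 4) (nat_lit 8) (nat_lit 5) (nat_lit 8) (nat_lit 4) (nat_lit 339) (nat_lit 290) (nat_lit 151)) (XT.nd (nat_lit 78) (nat_lit 76) (nat_lit 0) (XT.lf (nat_lit 0) (nat_lit 217486276962) (nat_lit 76) (nat_lit 337179045957) (nat_lit 76) (nat_lit 76968771859) (nat_lit 7) (nat_lit 4) (nat_lit 8) (nat_lit 5) (nat_lit 8) (nat_lit 4) (nat_lit 340) (nat_lit 290) (nat_lit 150)) (XT.lf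 (nat_lit 0) (nat_lit 1694361040) (nat_lit 152) (nat_lit 256737237306) (nat_lit 76) (nat_lit 418641345137) (nat_lit 6) (nat_lit 5) (nat_lit 8) (nat_lit 5) (nat_lit 7) (nat_lit 4) (nat_lit 341) (nat_lit 290) (nat_lit 149))))) (XT.nd (nat_lit 156) (nat_lit 0) (nat_lit 0) (XT.nd (nat_lit 78) (nat_lit 76) (nat_lit 0) (XT.lf (nat_lit 0) (nat_lit 83989679272) (nat_lit 152) (nat_lit 88032208396) (nat_lit 76) (nat_lit 554060136155) (nat_lit 6) (nat_lit 5) (nat_lit 8) (nat_lit 5) (nat_lit 7) (nat_lit 4) (nat_lit 342) (nat_lit 290) (nat_lit 148)) (XT.lf (nat_lit 0) (nat_lit 97282343174) (nat_lit 76) (nat_lit 77104847011) (nat_lit 152) (nat_lit 604548712203) (nat_lit 5) (nat_lit 5) (nat_lit 6) (nat_lit 5) (nat_lit 7) (nat_lit 4) (nat_lit 343) (nat_lit 290) (nat_lit 147))) (XT.nd (nat_lit 36504) (nat_lit 0) (nat_lit 6004) (XT.lf (nat_lit 0) (nat_lit 273971483720) (nat_lit 152) (nat_lit 535798057613)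 (nat_lit 0) (nat_lit 26150800964) (nat_lit 5) (nat_lit 5) (nat_lit 7) (nat_lit 4) (nat_lit 5) (nat_lit 4) (nat_lit 344) (nat_lit 290) (nat_lit 146)) (XT.nd (nat_lit 78) (nat_lit 0) (nat_lit 0) (XT.lf (nat_lit 0) (nat_lit 8153927524) (nat_lit 0) (nat_lit 8153927524) (nat_lit 684) (nat_lit 5939657664) (nat_lit 84) (nat_lit 5) (nat_lit 84) (nat_lit 3) (nat_lit 93) (nat_lit 3) (nat_lit 291) (nat_lit 291) (nat_lit 198)) (XT.lf (nat_lit 76) (nat_lit 3458287889) (nat_lit 0) (nat_lit 30812627717) (nat_lit 760) (nat_lit 11986269672) (nat_lit 85) (nat_lit 5) (nat_lit 84) (nat_lit 5) (nat_lit 94) (nat_lit 5) (nat_lit 292) (nat_lit 291) (nat_lit 197)))))) (XT.nd (nat_lit 390) (nat_lit 1368) (nat_lit 0) (XT.nd (nat_lit 156) (nat_lit 608) (nat_lit 0) (XT.nd (nat_lit 78) (nat_lit 0) (nat_lit 0) (XT.lf (nat_lit 0) (nat_lit 36839282785) (nat_lit 684) (nat_lit 9791468688) (nat_lit 760) (nat_lit 1490540420)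 (nat_lit 85) (nat_lit 5) (nat_lit 94) (nat_lit 5) (nat_lit 95) (nat_lit 5) (nat_lit 293) (nat_lit 291) (nat_lit 196)) (XT.lf (nat_lit 76) (nat_lit 26171802367) (nat_lit 0) (nat_lit 14365034512) (nat_lit 760) (nat_lit 9551514685) (nat_lit 86) (nat_lit 5) (nat_lit 85) (nat_lit 5) (nat_lit 95) (nat_lit 5) (nat_lit 294) (nat_lit 291) (nat_lit 195))) (XT.nd (nat_lit 78) (nat_lit 684) (nat_lit 0) (XT.lf (nat_lit 76) (nat_lit 13256272083) (nat_lit 0) (nat_lit 31969883331) (nat_lit 760) (nat_lit 6951832222) (nat_lit 87) (nat_lit 5) (nat_lit 86) (nat_lit 5) (nat_lit 96) (nat_lit 5) (nat_lit 295) (nat_lit 291) (nat_lit 194)) (XT.nd (nat_lit 78) (nat_lit 760) (nat_lit 0) (XT.lf (nat_lit 0) (nat_lit 50989471904) (nat_lit 684) (nat_lit 446162824) (nat_lit 760) (nat_lit 2964226162) (nat_lit 87) (nat_lit 5) (nat_lit 96) (nat_lit 5) (nat_lit 97) (nat_lit 5) (nat_lit 296) (nat_lit 291) (nat_lit 193)) (XT.lf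 (nat_lit 0) (nat_lit 1610377313) (nat_lit 760) (nat_lit 14859169819) (nat_lit 836) (nat_lit 40269157764) (nat_lit 77) (nat_lit 5) (nat_lit 87) (nat_lit 5) (nat_lit 88) (nat_lit 5) (nat_lit 297) (nat_lit 291) (nat_lit 192))))) (XT.nd (nat_lit 234) (nat_lit 988) (nat_lit 0) (XT.nd (nat_lit 78) (nat_lit 456) (nat_lit 0) (XT.lf (nat_lit 0) (nat_lit 7716583765) (nat_lit 760) (nat_lit 30362137137) (nat_lit 76) (nat_lit 21142984289) (nat_lit 78) (nat_lit 5) (nat_lit 88) (nat_lit 5) (nat_lit 79) (nat_lit 5) (nat_lit 298) (nat_lit 291) (nat_lit 191)) (XT.nd (nat_lit 78) (nat_lit 0) (nat_lit 0) (XT.lf (nat_lit 0) (nat_lit 14908343248) (nat_lit 456) (nat_lit 173290898) (nat_lit 532) (nat_lit 46783200737) (nat_lit 72) (nat_lit 5) (nat_lit 78) (nat_lit 5) (nat_lit 79) (nat_lit 5) (nat_lit 299) (nat_lit 291) (nat_lit 190)) (XT.lf (nat_lit 0) (nat_lit 24206894176) (nat_lit 532) (nat_lit 456325378) (nat_lit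 76) (nat_lit 39997651359) (nat_lit 72) (nat_lit 5) (nat_lit 79) (nat_lit 5) (nat_lit 73) (nat_lit 5) (nat_lit 300) (nat_lit 291) (nat_lit 189)))) (XT.nd (nat_lit 78) (nat_lit 608) (nat_lit 0) (XT.lf (nat_lit 0) (nat_lit 35123082517) (nat_lit 456) (nat_lit 16495214004) (nat_lit 76) (nat_lit 16009253712) (nat_lit 67) (nat_lit 5) (nat_lit 73) (nat_lit 5) (nat_lit 68) (nat_lit 5) (nat_lit 301) (nat_lit 291) (nat_lit 188)) (XT.nd (nat_lit 78) (nat_lit 304) (nat_lit 0) (XT.lf (nat_lit 0) (nat_lit 36792076194) (nat_lit 304) (nat_lit 11116248980) (nat_lit 380) (nat_lit 22873456114) (nat_lit 63) (nat_lit 5) (nat_lit 67) (nat_lit 5) (nat_lit 68) (nat_lit 5) (nat_lit 302) (nat_lit 291) (nat_lit 187)) (XT.lf (nat_lit 0) (nat_lit 20909826445) (nat_lit 304) (nat_lit 41931987370) (nat_lit 380) (nat_lit 11290270641) (nat_lit 59) (nat_lit 5) (nat_lit 63) (nat_lit 5) (nat_lit 64) (nat_lit 5) (nat_lit 303)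 (nat_lit 291) (nat_lit 186))))))))
noncomputable def xc101 : XT := (XT.nd (nat_lit 1638) (nat_lit 988) (nat_lit 0) (XT.nd (nat_lit 780) (nat_lit 1292) (nat_lit 0) (XT.nd (nat_lit 390) (nat_lit 760) (nat_lit 0) (XT.nd (nat_lit 156) (nat_lit 760) (nat_lit 0) (XT.nd (nat_lit 78) (nat_lit 0) (nat_lit 0) (XT.lf (nat_lit 0) (nat_lit 2047914402) (nat_lit 304) (nat_lit 74141476334) (nat_lit 76) (nat_lit 1516704539) (nat_lit 55) (nat_lit 5) (nat_lit 59) (nat_lit 5) (nat_lit 56) (nat_lit 5) (nat_lit 304) (nat_lit 291) (nat_lit 185)) (XT.lf (nat_lit 0) (nat_lit 17709997123) (nat_lit 304) (nat_lit 15639985929) (nat_lit 76) (nat_lit 48124173686) (nat_lit 55) (nat_lit 5) (nat_lit 59) (nat_lit 5) (nat_lit 56) (nat_lit 5) (nat_lit 305) (nat_lit 291) (nat_lit 184))) (XT.nd (nat_lit 78) (nat_lit 456) (nat_lit 0) (XT.lf (nat_lit 0) (nat_lit 35603964700) (nat_lit 380) (nat_lit 36608665088) (nat_lit 76) (nat_lit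 13282091167) (nat_lit 51) (nat_lit 5) (nat_lit 56) (nat_lit 5) (nat_lit 52) (nat_lit 5) (nat_lit 306) (nat_lit 291) (nat_lit 183)) (XT.nd (nat_lit 78) (nat_lit 228) (nat_lit 0) (XT.lf (nat_lit 0) (nat_lit 29690366704) (nat_lit 228) (nat_lit 26539919284) (nat_lit 304) (nat_lit 33541605973) (nat_lit 48) (nat_lit 5) (nat_lit 51) (nat_lit 5) (nat_lit 52) (nat_lit 5) (nat_lit 307) (nat_lit 291) (nat_lit 182)) (XT.lf (nat_lit 0) (nat_lit 8132884867) (nat_lit 228) (nat_lit 71502861822) (nat_lit 304) (nat_lit 14699041489) (nat_lit 45) (nat_lit 5) (nat_lit 48) (nat_lit 5) (nat_lit 49) (nat_lit 5) (nat_lit 308) (nat_lit 291) (nat_lit 181))))) (XT.nd (nat_lit 156) (nat_lit 456) (nat_lit 0) (XT.nd (nat_lit 78) (nat_lit 228) (nat_lit 0) (XT.lf (nat_lit 0) (nat_lit 6979522908) (nat_lit 304) (nat_lit 15815752431) (nat_lit 76) (nat_lit 76387559257) (nat_lit 44) (nat_lit 5) (nat_lit 48) (nat_lit 5) (nat_lit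 45) (nat_lit 5) (nat_lit 309) (nat_lit 291) (nat_lit 180)) (XT.lf (nat_lit 0) (nat_lit 31334878420) (nat_lit 304) (nat_lit 42909912248) (nat_lit 76) (nat_lit 30089013849) (nat_lit 41) (nat_lit 5) (nat_lit 45) (nat_lit 5) (nat_lit 42) (nat_lit 5) (nat_lit 310) (nat_lit 291) (nat_lit 179))) (XT.nd (nat_lit 78) (nat_lit 228) (nat_lit 0) (XT.lf (nat_lit 0) (nat_lit 36294980378) (nat_lit 228) (nat_lit 22573157924) (nat_lit 304) (nat_lit 50967242362) (nat_lit 38) (nat_lit 5) (nat_lit 41) (nat_lit 5) (nat_lit 42) (nat_lit 5) (nat_lit 311) (nat_lit 291) (nat_lit 178)) (XT.nd (nat_lit 78) (nat_lit 76) (nat_lit 0) (XT.lf (nat_lit 0) (nat_lit 7330186567) (nat_lit 152) (nat_lit 82665378723) (nat_lit 228) (nat_lit 25711944548) (nat_lit 36) (nat_lit 5) (nat_lit 38) (nat_lit 5) (nat_lit 39) (nat_lit 5) (nat_lit 312) (nat_lit 291) (nat_lit 177)) (XT.lf (nat_lit 0) (nat_lit 3194928547) (nat_lit 228) (nat_lit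 25117006621) (nat_lit 76) (nat_lit 93652195308) (nat_lit 35) (nat_lit 5) (nat_lit 38) (nat_lit 5) (nat_lit 36) (nat_lit 5) (nat_lit 313) (nat_lit 291) (nat_lit 176)))))) (XT.nd (nat_lit 390) (nat_lit 532) (nat_lit 0) (XT.nd (nat_lit 156) (nat_lit 380) (nat_lit 0) (XT.nd (nat_lit 78) (nat_lit 152) (nat_lit 0) (XT.lf (nat_lit 0) (nat_lit 35061021592) (nat_lit 304) (nat_lit 62649421874) (nat_lit 76) (nat_lit 30912389202) (nat_lit 32) (nat_lit 5) (nat_lit 36) (nat_lit 5) (nat_lit 33) (nat_lit 5) (nat_lit 314) (nat_lit 291) (nat_lit 175)) (XT.lf (nat_lit 0) (nat_lit 29926968594) (nat_lit 152) (nat_lit 40937481117) (nat_lit 228) (nat_lit 64880380642) (nat_lit 30) (nat_lit 5) (nat_lit 32) (nat_lit 5) (nat_lit 33) (nat_lit 5) (nat_lit 315) (nat_lit 291) (nat_lit 174))) (XT.nd (nat_lit 78) (nat_lit 380) (nat_lit 0) (XT.lf (nat_lit 0) (nat_lit 110958276136) (nat_lit 228) (nat_lit 11573311221) (nat_lit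 76) (nat_lit 20833695870) (nat_lit 30) (nat_lit 5) (nat_lit 33) (nat_lit 5) (nat_lit 31) (nat_lit 5) (nat_lit 316) (nat_lit 291) (nat_lit 173)) (XT.nd (nat_lit 78) (nat_lit 152) (nat_lit 0) (XT.lf (nat_lit 0) (nat_lit 4746926368) (nat_lit 228) (nat_lit 59086641287) (nat_lit 76) (nat_lit 87651328142) (nat_lit 27) (nat_lit 5) (nat_lit 30) (nat_lit 5) (nat_lit 28) (nat_lit 5) (nat_lit 317) (nat_lit 291) (nat_lit 172)) (XT.lf (nat_lit 0) (nat_lit 44688537277) (nat_lit 228) (nat_lit 114427708456) (nat_lit 76) (nat_lit 1063732482) (nat_lit 25) (nat_lit 5) (nat_lit 28) (nat_lit 5) (nat_lit 26) (nat_lit 5) (nat_lit 318) (nat_lit 291) (nat_lit 171))))) (XT.nd (nat_lit 234) (nat_lit 228) (nat_lit 0) (XT.nd (nat_lit 78) (nat_lit 304) (nat_lit 0) (XT.lf (nat_lit 0) (nat_lit 89946901107) (nat_lit 228) (nat_lit 9525869430) (nat_lit 76) (nat_lit 69991826678) (nat_lit 25) (nat_lit 5) (nat_lit 28) (nat_lit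 5) (nat_lit 26) (nat_lit 5) (nat_lit 319) (nat_lit 291) (nat_lit 170)) (XT.nd (nat_lit 78) (nat_lit 152) (nat_lit 0) (XT.lf (nat_lit 0) (nat_lit 107197533332) (nat_lit 152) (nat_lit 33301081804) (nat_lit 228) (nat_lit 38909737646) (nat_lit 23) (nat_lit 5) (nat_lit 25) (nat_lit 5) (nat_lit 26) (nat_lit 5) (nat_lit 320) (nat_lit 291) (nat_lit 169)) (XT.lf (nat_lit 0) (nat_lit 6267233006) (nat_lit 152) (nat_lit 145899275516) (nat_lit 76) (nat_lit 37903304236) (nat_lit 21) (nat_lit 5) (nat_lit 23) (nat_lit 5) (nat_lit 22) (nat_lit 5) (nat_lit 321) (nat_lit 291) (nat_lit 168)))) (XT.nd (nat_lit 78) (nat_lit 228) (nat_lit 0) (XT.lf (nat_lit 0) (nat_lit 55552479334) (nat_lit 152) (nat_lit 30320003107) (nat_lit 76) (nat_lit 115586948480) (nat_lit 21) (nat_lit 5) (nat_lit 23) (nat_lit 5) (nat_lit 22) (nat_lit 5) (nat_lit 322) (nat_lit 291) (nat_lit 167)) (XT.nd (nat_lit 78) (nat_lit 76) (nat_lit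 0) (XT.lf (nat_lit 0) (nat_lit 97628951569) (nat_lit 152) (nat_lit 12675019486) (nat_lit 228) (nat_lit 103380077031) (nat_lit 19) (nat_lit 5) (nat_lit 21) (nat_lit 5) (nat_lit 22) (nat_lit 5) (nat_lit 323) (nat_lit 291) (nat_lit 166)) (XT.lf (nat_lit 0) (nat_lit 9287185469) (nat_lit 76) (nat_lit 161865755952) (nat_lit 152) (nat_lit 55647826008) (nat_lit 18) (nat_lit 5) (nat_lit 19) (nat_lit 5) (nat_lit 20) (nat_lit 4) (nat_lit 324) (nat_lit 291) (nat_lit 165))))))) (XT.nd (nat_lit 780) (nat_lit 456) (nat_lit 0) (XT.nd (nat_lit 390) (nat_lit 228) (nat_lit 0) (XT.nd (nat_lit 156) (nat_lit 76) (nat_lit 0) (XT.nd (nat_lit 78) (nat_lit 228) (nat_lit 0) (XT.lf (nat_lit 0) (nat_lit 148579041724) (nat_lit 76) (nat_lit 90521905287) (nat_lit 152) (nat_lit 1754322144) (nat_lit 18) (nat_lit 5) (nat_lit 19) (nat_lit 5) (nat_lit 20) (nat_lit 4) (nat_lit 325) (nat_lit 291) (nat_lit 164)) (XT.lf (nat_lit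 0) (nat_lit 43489461537) (nat_lit 152) (nat_lit 11832699368) (nat_lit 228) (nat_lit 200633989462) (nat_lit 15) (nat_lit 5) (nat_lit 17) (nat_lit 5) (nat_lit 18) (nat_lit 5) (nat_lit 326) (nat_lit 291) (nat_lit 163))) (XT.nd (nat_lit 78) (nat_lit 76) (nat_lit 0) (XT.lf (nat_lit 0) (nat_lit 119679273936) (nat_lit 228) (nat_lit 79972415088) (nat_lit 76) (nat_lit 72473176954) (nat_lit 15) (nat_lit 5) (nat_lit 18) (nat_lit 5) (nat_lit 16) (nat_lit 4) (nat_lit 327) (nat_lit 291) (nat_lit 162)) (XT.nd (nat_lit 78) (nat_lit 0) (nat_lit 0) (XT.lf (nat_lit 0) (nat_lit 65001205015) (nat_lit 76) (nat_lit 125397481549) (nat_lit 152) (nat_lit 99127706288) (nat_lit 14) (nat_lit 5) (nat_lit 15) (nat_lit 5) (nat_lit 16) (nat_lit 4) (nat_lit 328) (nat_lit 291) (nat_lit 161)) (XT.lf (nat_lit 0) (nat_lit 224427433393) (nat_lit 76) (nat_lit 43740676129) (nat_lit 152) (nat_lit 40082309985) (nat_lit 14) (nat_lit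 5) (nat_lit 15) (nat_lit 5) (nat_lit 16) (nat_lit 4) (nat_lit 329) (nat_lit 291) (nat_lit 160))))) (XT.nd (nat_lit 156) (nat_lit 76) (nat_lit 0) (XT.nd (nat_lit 78) (nat_lit 0) (nat_lit 0) (XT.lf (nat_lit 0) (nat_lit 24738938705) (nat_lit 152) (nat_lit 259112032009) (nat_lit 76) (nat_lit 44512390042) (nat_lit 12) (nat_lit 5) (nat_lit 14) (nat_lit 5) (nat_lit 13) (nat_lit 4) (nat_lit 330) (nat_lit 291) (nat_lit 159)) (XT.lf (nat_lit 0) (nat_lit 95581445027) (nat_lit 152) (nat_lit 113885782976) (nat_lit 76) (nat_lit 140473263024) (nat_lit 12) (nat_lit 5) (nat_lit 14) (nat_lit 5) (nat_lit 13) (nat_lit 4) (nat_lit 331) (nat_lit 291) (nat_lit 158))) (XT.nd (nat_lit 78) (nat_lit 0) (nat_lit 0) (XT.lf (nat_lit 0) (nat_lit 44378025153) (nat_lit 76) (nat_lit 128405679001) (nat_lit 152) (nat_lit 200425470331) (nat_lit 11) (nat_lit 5) (nat_lit 12) (nat_lit 5) (nat_lit 13) (nat_lit 4) (nat_lit 332)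 (nat_lit 291) (nat_lit 157)) (XT.nd (nat_lit 78) (nat_lit 0) (nat_lit 0) (XT.lf (nat_lit 0) (nat_lit 219368887485) (nat_lit 76) (nat_lit 38776584690) (nat_lit 152) (nat_lit 140094714385) (nat_lit 11) (nat_lit 5) (nat_lit 12) (nat_lit 5) (nat_lit 13) (nat_lit 4) (nat_lit 333) (nat_lit 291) (nat_lit 156)) (XT.lf (nat_lit 0) (nat_lit 351241622651) (nat_lit 152) (nat_lit 17821387464) (nat_lit 0) (nat_lit 56165397760) (nat_lit 11) (nat_lit 5) (nat_lit 13) (nat_lit 4) (nat_lit 11) (nat_lit 4) (nat_lit 334) (nat_lit 291) (nat_lit 155)))))) (XT.nd (nat_lit 390) (nat_lit 228) (nat_lit 0) (XT.nd (nat_lit 156) (nat_lit 76) (nat_lit 0) (XT.nd (nat_lit 78) (nat_lit 0) (nat_lit 0) (XT.lf (nat_lit 0) (nat_lit 705303222) (nat_lit 152) (nat_lit 293630975558) (nat_lit 76) (nat_lit 159880799348) (nat_lit 9) (nat_lit 5) (nat_lit 11) (nat_lit 5) (nat_lit 10) (nat_lit 4) (nat_lit 335) (nat_lit 291) (nat_lit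 154)) (XT.lf (nat_lit 0) (nat_lit 79130391559) (nat_lit 152) (nat_lit 132860120647) (nat_lit 76) (nat_lit 273456196686) (nat_lit 9) (nat_lit 5) (nat_lit 11) (nat_lit 5) (nat_lit 10) (nat_lit 4) (nat_lit 336) (nat_lit 291) (nat_lit 153))) (XT.nd (nat_lit 78) (nat_lit 0) (nat_lit 0) (XT.lf (nat_lit 0) (nat_lit 42119808054) (nat_lit 76) (nat_lit 122366906530) (nat_lit 152) (nat_lit 354655134397) (nat_lit 8) (nat_lit 5) (nat_lit 9) (nat_lit 5) (nat_lit 10) (nat_lit 4) (nat_lit 337) (nat_lit 291) (nat_lit 152)) (XT.nd (nat_lit 78) (nat_lit 0) (nat_lit 0) (XT.lf (nat_lit 0) (nat_lit 235841861652) (nat_lit 76) (nat_lit 23143656630) (nat_lit 152) (nat_lit 296431383482) (nat_lit 8) (nat_lit 5) (nat_lit 9) (nat_lit 5) (nat_lit 10) (nat_lit 4) (nat_lit 338) (nat_lit 291) (nat_lit 151)) (XT.lf (nat_lit 0) (nat_lit 362355633976) (nat_lit 152) (nat_lit 150844652276) (nat_lit 0) (nat_lit 81328102341)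 (nat_lit 8) (nat_lit 5) (nat_lit 10) (nat_lit 4) (nat_lit 8) (nat_lit 4) (nat_lit 339) (nat_lit 291) (nat_lit 150))))) (XT.nd (nat_lit 234) (nat_lit 76) (nat_lit 0) (XT.nd (nat_lit 78) (nat_lit 76) (nat_lit 0) (XT.lf (nat_lit 0) (nat_lit 32018123329) (nat_lit 76) (nat_lit 442867057557) (nat_lit 76) (nat_lit 161839122579) (nat_lit 7) (nat_lit 4) (nat_lit 8) (nat_lit 5) (nat_lit 8) (nat_lit 4) (nat_lit 340) (nat_lit 291) (nat_lit 149)) (XT.nd (nat_lit 78) (nat_lit 76) (nat_lit 0) (XT.lf (nat_lit 0) (nat_lit 234895981177) (nat_lit 76) (nat_lit 364148426581) (nat_lit 76) (nat_lit 83120118138) (nat_lit 7) (nat_lit 4) (nat_lit 8) (nat_lit 5) (nat_lit 8) (nat_lit 4) (nat_lit 341) (nat_lit 291) (nat_lit 148)) (XT.lf (nat_lit 0) (nat_lit 1835427013) (nat_lit 152) (nat_lit 277266028866) (nat_lit 76) (nat_lit 452137044130) (nat_lit 6) (nat_lit 5) (nat_lit 8) (nat_lit 5) (nat_lit 7) (nat_lit 4) (nat_lit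 342) (nat_lit 291) (nat_lit 147)))) (XT.nd (nat_lit 78) (nat_lit 76) (nat_lit 0) (XT.lf (nat_lit 0) (nat_lit 90713962031) (nat_lit 152) (nat_lit 95065352267) (nat_lit 76) (nat_lit 598389013142) (nat_lit 6) (nat_lit 5) (nat_lit 8) (nat_lit 5) (nat_lit 7) (nat_lit 4) (nat_lit 343) (nat_lit 291) (nat_lit 146)) (XT.nd (nat_lit 36582) (nat_lit 0) (nat_lit 6004) (XT.lf (nat_lit 0) (nat_lit 105073953490) (nat_lit 76) (nat_lit 83269082797) (nat_lit 152) (nat_lit 652907492091) (nat_lit 5) (nat_lit 5) (nat_lit 6) (nat_lit 5) (nat_lit 7) (nat_lit 4) (nat_lit 344) (nat_lit 291) (nat_lit 145)) (XT.lf (nat_lit 0) (nat_lit 8829834651) (nat_lit 0) (nat_lit 8829834651) (nat_lit 684) (nat_lit 6365175526) (nat_lit 84) (nat_lit 5) (nat_lit 84) (nat_lit 3) (nat_lit 93) (nat_lit 3) (nat_lit 292) (nat_lit 292) (nat_lit 196))))))))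
noncomputable def xc102 : XT := (XT.nd (nat_lit 1638) (nat_lit 1900) (nat_lit 0) (XT.nd (nat_lit 780) (nat_lit 2356) (nat_lit 0) (XT.nd (nat_lit 390) (nat_lit 1292) (nat_lit 0) (XT.nd (nat_lit 156) (nat_lit 0) (nat_lit 76) (XT.nd (nat_lit 78) (nat_lit 0) (nat_lit 76) (XT.lf (nat_lit 76) (nat_lit 3785514031) (nat_lit 0) (nat_lit 33314563327) (nat_lit 760) (nat_lit 12853105337) (nat_lit 85) (nat_lit 5) (nat_lit 84) (nat_lit 5) (nat_lit 94) (nat_lit 5) (nat_lit 293) (nat_lit 292) (nat_lit 195)) (XT.lf (nat_lit 0) (nat_lit 39866899477) (nat_lit 684) (nat_lit 10523196345) (nat_lit 760) (nat_lit 1576687774) (nat_lit 85) (nat_lit 5) (nat_lit 94) (nat_lit 5) (nat_lit 95) (nat_lit 5) (nat_lit 294) (nat_lit 292) (nat_lit 194))) (XT.nd (nat_lit 78) (nat_lit 0) (nat_lit 76) (XT.lf (nat_lit 76) (nat_lit 28314894362) (nat_lit 0) (nat_lit 15540172951) (nat_lit 760) (nat_lit 10236414179) (nat_lit 86)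 (nat_lit 5) (nat_lit 85) (nat_lit 5) (nat_lit 95) (nat_lit 5) (nat_lit 295) (nat_lit 292) (nat_lit 193)) (XT.nd (nat_lit 78) (nat_lit 0) (nat_lit 76) (XT.lf (nat_lit 76) (nat_lit 14368131439) (nat_lit 0) (nat_lit 34546250240) (nat_lit 760) (nat_lit 7434177144) (nat_lit 87) (nat_lit 5) (nat_lit 86) (nat_lit 5) (nat_lit 96) (nat_lit 5) (nat_lit 296) (nat_lit 292) (nat_lit 192)) (XT.lf (nat_lit 0) (nat_lit 55133296955) (nat_lit 684) (nat_lit 430634958) (nat_lit 760) (nat_lit 3184535287) (nat_lit 87) (nat_lit 5) (nat_lit 96) (nat_lit 5) (nat_lit 97) (nat_lit 5) (nat_lit 297) (nat_lit 292) (nat_lit 191))))) (XT.nd (nat_lit 156) (nat_lit 760) (nat_lit 0) (XT.nd (nat_lit 78) (nat_lit 0) (nat_lit 76) (XT.lf (nat_lit 0) (nat_lit 1800977429) (nat_lit 760) (nat_lit 15996734552) (nat_lit 836) (nat_lit 43476869244) (nat_lit 77) (nat_lit 5) (nat_lit 87) (nat_lit 5) (nat_lit 88) (nat_lit 5) (nat_lit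 298) (nat_lit 292) (nat_lit 190)) (XT.lf (nat_lit 0) (nat_lit 8391728293) (nat_lit 760) (nat_lit 32739002518) (nat_lit 76) (nat_lit 22825698084) (nat_lit 78) (nat_lit 5) (nat_lit 88) (nat_lit 5) (nat_lit 79) (nat_lit 5) (nat_lit 299) (nat_lit 292) (nat_lit 189))) (XT.nd (nat_lit 78) (nat_lit 380) (nat_lit 0) (XT.lf (nat_lit 0) (nat_lit 16150851852) (nat_lit 456) (nat_lit 191626210) (nat_lit 532) (nat_lit 50468715155) (nat_lit 72) (nat_lit 5) (nat_lit 78) (nat_lit 5) (nat_lit 79) (nat_lit 5) (nat_lit 300) (nat_lit 292) (nat_lit 188)) (XT.nd (nat_lit 78) (nat_lit 380) (nat_lit 0) (XT.lf (nat_lit 0) (nat_lit 26193671046) (nat_lit 532) (nat_lit 443998610) (nat_lit 76) (nat_lit 43193455222) (nat_lit 72) (nat_lit 5) (nat_lit 79) (nat_lit 5) (nat_lit 73) (nat_lit 5) (nat_lit 301) (nat_lit 292) (nat_lit 187)) (XT.lf (nat_lit 0) (nat_lit 37980155167) (nat_lit 456) (nat_lit 17765653947) (nat_lit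 76) (nat_lit 17289487129) (nat_lit 67) (nat_lit 5) (nat_lit 73) (nat_lit 5) (nat_lit 68) (nat_lit 5) (nat_lit 302) (nat_lit 292) (nat_lit 186)))))) (XT.nd (nat_lit 390) (nat_lit 1140) (nat_lit 0) (XT.nd (nat_lit 156) (nat_lit 608) (nat_lit 0) (XT.nd (nat_lit 78) (nat_lit 304) (nat_lit 0) (XT.lf (nat_lit 0) (nat_lit 39782482286) (nat_lit 304) (nat_lit 12002971151) (nat_lit 380) (nat_lit 24656557700) (nat_lit 63) (nat_lit 5) (nat_lit 67) (nat_lit 5) (nat_lit 68) (nat_lit 5) (nat_lit 303) (nat_lit 292) (nat_lit 185)) (XT.lf (nat_lit 0) (nat_lit 22629781908) (nat_lit 304) (nat_lit 45281319471) (nat_lit 380) (nat_lit 12149369801) (nat_lit 59) (nat_lit 5) (nat_lit 63) (nat_lit 5) (nat_lit 64) (nat_lit 5) (nat_lit 304) (nat_lit 292) (nat_lit 184))) (XT.nd (nat_lit 78) (nat_lit 304) (nat_lit 0) (XT.lf (nat_lit 0) (nat_lit 2252118766) (nat_lit 304) (nat_lit 80024259818) (nat_lit 76) (nat_lit 1644112640)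 (nat_lit 55) (nat_lit 5) (nat_lit 59) (nat_lit 5) (nat_lit 56) (nat_lit 5) (nat_lit 305) (nat_lit 292) (nat_lit 183)) (XT.nd (nat_lit 78) (nat_lit 304) (nat_lit 0) (XT.lf (nat_lit 0) (nat_lit 19164177645) (nat_lit 304) (nat_lit 16846245338) (nat_lit 76) (nat_lit 51979729560) (nat_lit 55) (nat_lit 5) (nat_lit 59) (nat_lit 5) (nat_lit 56) (nat_lit 5) (nat_lit 306) (nat_lit 292) (nat_lit 182)) (XT.lf (nat_lit 0) (nat_lit 38487685095) (nat_lit 380) (nat_lit 39492665288) (nat_lit 76) (nat_lit 14352115405) (nat_lit 51) (nat_lit 5) (nat_lit 56) (nat_lit 5) (nat_lit 52) (nat_lit 5) (nat_lit 307) (nat_lit 292) (nat_lit 181))))) (XT.nd (nat_lit 234) (nat_lit 608) (nat_lit 0) (XT.nd (nat_lit 78) (nat_lit 304) (nat_lit 0) (XT.lf (nat_lit 0) (nat_lit 32108346744) (nat_lit 228) (nat_lit 28653810341) (nat_lit 304) (nat_lit 36189755784) (nat_lit 48) (nat_lit 5) (nat_lit 51) (nat_lit 5) (nat_lit 52) (nat_lit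 5) (nat_lit 308) (nat_lit 292) (nat_lit 180)) (XT.nd (nat_lit 78) (nat_lit 76) (nat_lit 0) (XT.lf (nat_lit 0) (nat_lit 8825924787) (nat_lit 228) (nat_lit 77212448814) (nat_lit 304) (nat_lit 15841555533) (nat_lit 45) (nat_lit 5) (nat_lit 48) (nat_lit 5) (nat_lit 49) (nat_lit 5) (nat_lit 309) (nat_lit 292) (nat_lit 179)) (XT.lf (nat_lit 0) (nat_lit 7567829156) (nat_lit 304) (nat_lit 17040707426) (nat_lit 76) (nat_lit 82507380172) (nat_lit 44) (nat_lit 5) (nat_lit 48) (nat_lit 5) (nat_lit 45) (nat_lit 5) (nat_lit 310) (nat_lit 292) (nat_lit 178)))) (XT.nd (nat_lit 78) (nat_lit 380) (nat_lit 0) (XT.lf (nat_lit 0) (nat_lit 33870156580) (nat_lit 304) (nat_lit 46302850997) (nat_lit 76) (nat_lit 32506033027) (nat_lit 41) (nat_lit 5) (nat_lit 45) (nat_lit 5) (nat_lit 42) (nat_lit 5) (nat_lit 311) (nat_lit 292) (nat_lit 177)) (XT.nd (nat_lit 78) (nat_lit 152) (nat_lit 0) (XT.lf (nat_lit 0) (nat_lit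 39236701023) (nat_lit 228) (nat_lit 24367861212) (nat_lit 304) (nat_lit 55016259611) (nat_lit 38) (nat_lit 5) (nat_lit 41) (nat_lit 5) (nat_lit 42) (nat_lit 5) (nat_lit 312) (nat_lit 292) (nat_lit 176)) (XT.lf (nat_lit 0) (nat_lit 7954229350) (nat_lit 152) (nat_lit 89266704695) (nat_lit 228) (nat_lit 27741852784) (nat_lit 36) (nat_lit 5) (nat_lit 38) (nat_lit 5) (nat_lit 39) (nat_lit 5) (nat_lit 313) (nat_lit 292) (nat_lit 175))))))) (XT.nd (nat_lit 780) (nat_lit 760) (nat_lit 0) (XT.nd (nat_lit 390) (nat_lit 456) (nat_lit 0) (XT.nd (nat_lit 156) (nat_lit 380) (nat_lit 0) (XT.nd (nat_lit 78) (nat_lit 228) (nat_lit 0) (XT.lf (nat_lit 0) (nat_lit 3474765094) (nat_lit 228) (nat_lit 27090691809) (nat_lit 76) (nat_lit 101154558724) (nat_lit 35) (nat_lit 5) (nat_lit 38) (nat_lit 5) (nat_lit 36) (nat_lit 5) (nat_lit 314) (nat_lit 292) (nat_lit 174)) (XT.lf (nat_lit 0) (nat_lit 37889056660) (nat_lit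 304) (nat_lit 67626245020) (nat_lit 76) (nat_lit 33396169218) (nat_lit 32) (nat_lit 5) (nat_lit 36) (nat_lit 5) (nat_lit 33) (nat_lit 5) (nat_lit 315) (nat_lit 292) (nat_lit 173))) (XT.nd (nat_lit 78) (nat_lit 228) (nat_lit 0) (XT.lf (nat_lit 0) (nat_lit 32354729952) (nat_lit 152) (nat_lit 44200838665) (nat_lit 228) (nat_lit 70047721577) (nat_lit 30) (nat_lit 5) (nat_lit 32) (nat_lit 5) (nat_lit 33) (nat_lit 5) (nat_lit 316) (nat_lit 292) (nat_lit 172)) (XT.nd (nat_lit 78) (nat_lit 228) (nat_lit 0) (XT.lf (nat_lit 0) (nat_lit 119855442556) (nat_lit 228) (nat_lit 12467186572) (nat_lit 76) (nat_lit 22510825205) (nat_lit 30) (nat_lit 5) (nat_lit 33) (nat_lit 5) (nat_lit 31) (nat_lit 5) (nat_lit 317) (nat_lit 292) (nat_lit 171)) (XT.lf (nat_lit 0) (nat_lit 5146486382) (nat_lit 228) (nat_lit 63782295174) (nat_lit 76) (nat_lit 94673892386) (nat_lit 27) (nat_lit 5) (nat_lit 30) (nat_lit 5) (nat_lit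 28) (nat_lit 5) (nat_lit 318) (nat_lit 292) (nat_lit 170))))) (XT.nd (nat_lit 156) (nat_lit 304) (nat_lit 0) (XT.nd (nat_lit 78) (nat_lit 0) (nat_lit 0) (XT.lf (nat_lit 0) (nat_lit 48282599659) (nat_lit 228) (nat_lit 123551218691) (nat_lit 76) (nat_lit 1159587650) (nat_lit 25) (nat_lit 5) (nat_lit 28) (nat_lit 5) (nat_lit 26) (nat_lit 5) (nat_lit 319) (nat_lit 292) (nat_lit 169)) (XT.lf (nat_lit 0) (nat_lit 97160226713) (nat_lit 228) (nat_lit 10259507094) (nat_lit 76) (nat_lit 75601132599) (nat_lit 25) (nat_lit 5) (nat_lit 28) (nat_lit 5) (nat_lit 26) (nat_lit 5) (nat_lit 320) (nat_lit 292) (nat_lit 168))) (XT.nd (nat_lit 78) (nat_lit 152) (nat_lit 0) (XT.lf (nat_lit 0) (nat_lit 115800532274) (nat_lit 152) (nat_lit 35954668459) (nat_lit 228) (nat_lit 42004967018) (nat_lit 23) (nat_lit 5) (nat_lit 25) (nat_lit 5) (nat_lit 26) (nat_lit 5) (nat_lit 321) (nat_lit 292) (nat_lit 167)) (XT.nd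 (nat_lit 78) (nat_lit 0) (nat_lit 0) (XT.lf (nat_lit 0) (nat_lit 6784918779) (nat_lit 152) (nat_lit 157543988391) (nat_lit 76) (nat_lit 40945658996) (nat_lit 21) (nat_lit 5) (nat_lit 23) (nat_lit 5) (nat_lit 22) (nat_lit 5) (nat_lit 322) (nat_lit 292) (nat_lit 166)) (XT.lf (nat_lit 0) (nat_lit 60011776877) (nat_lit 152) (nat_lit 32720391164) (nat_lit 76) (nat_lit 124843247341) (nat_lit 21) (nat_lit 5) (nat_lit 23) (nat_lit 5) (nat_lit 22) (nat_lit 5) (nat_lit 323) (nat_lit 292) (nat_lit 165)))))) (XT.nd (nat_lit 390) (nat_lit 304) (nat_lit 0) (XT.nd (nat_lit 156) (nat_lit 228) (nat_lit 0) (XT.nd (nat_lit 78) (nat_lit 76) (nat_lit 0) (XT.lf (nat_lit 0) (nat_lit 105463384195) (nat_lit 152) (nat_lit 13679261808) (nat_lit 228) (nat_lit 111635394128) (nat_lit 19) (nat_lit 5) (nat_lit 21) (nat_lit 5) (nat_lit 22) (nat_lit 5) (nat_lit 324) (nat_lit 292) (nat_lit 164)) (XT.lf (nat_lit 0) (nat_lit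 10053782983) (nat_lit 76) (nat_lit 174805197413) (nat_lit 152) (nat_lit 60085145339) (nat_lit 18) (nat_lit 5) (nat_lit 19) (nat_lit 5) (nat_lit 20) (nat_lit 4) (nat_lit 325) (nat_lit 292) (nat_lit 163))) (XT.nd (nat_lit 78) (nat_lit 228) (nat_lit 0) (XT.lf (nat_lit 0) (nat_lit 160487237911) (nat_lit 76) (nat_lit 97754566030) (nat_lit 152) (nat_lit 1881235740) (nat_lit 18) (nat_lit 5) (nat_lit 19) (nat_lit 5) (nat_lit 20) (nat_lit 4) (nat_lit 326) (nat_lit 292) (nat_lit 162)) (XT.nd (nat_lit 78) (nat_lit 0) (nat_lit 0) (XT.lf (nat_lit 0) (nat_lit 46989962857) (nat_lit 152) (nat_lit 12770343298) (nat_lit 228) (nat_lit 216671707085) (nat_lit 15) (nat_lit 5) (nat_lit 17) (nat_lit 5) (nat_lit 18) (nat_lit 5) (nat_lit 327) (nat_lit 292) (nat_lit 161)) (XT.lf (nat_lit 0) (nat_lit 129265201459) (nat_lit 228) (nat_lit 86349992115) (nat_lit 76) (nat_lit 78279072646) (nat_lit 15) (nat_lit 5) (nat_lit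 18) (nat_lit 5) (nat_lit 16) (nat_lit 4) (nat_lit 328) (nat_lit 292) (nat_lit 160))))) (XT.nd (nat_lit 234) (nat_lit 76) (nat_lit 0) (XT.nd (nat_lit 78) (nat_lit 152) (nat_lit 0) (XT.lf (nat_lit 0) (nat_lit 70220639025) (nat_lit 76) (nat_lit 135420971791) (nat_lit 152) (nat_lit 107046332962) (nat_lit 14) (nat_lit 5) (nat_lit 15) (nat_lit 5) (nat_lit 16) (nat_lit 4) (nat_lit 329) (nat_lit 292) (nat_lit 159)) (XT.nd (nat_lit 78) (nat_lit 152) (nat_lit 0) (XT.lf (nat_lit 0) (nat_lit 242399533259) (nat_lit 76) (nat_lit 47232237366) (nat_lit 152) (nat_lit 43278163461) (nat_lit 14) (nat_lit 5) (nat_lit 15) (nat_lit 5) (nat_lit 16) (nat_lit 4) (nat_lit 330) (nat_lit 292) (nat_lit 158)) (XT.lf (nat_lit 0) (nat_lit 26728063057) (nat_lit 152) (nat_lit 279823147646) (nat_lit 76) (nat_lit 48080711074) (nat_lit 12) (nat_lit 5) (nat_lit 14) (nat_lit 5) (nat_lit 13) (nat_lit 4) (nat_lit 331) (nat_lit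 292) (nat_lit 157)))) (XT.nd (nat_lit 78) (nat_lit 76) (nat_lit 0) (XT.lf (nat_lit 0) (nat_lit 103237228458) (nat_lit 152) (nat_lit 122980120685) (nat_lit 76) (nat_lit 151717910945) (nat_lit 12) (nat_lit 5) (nat_lit 14) (nat_lit 5) (nat_lit 13) (nat_lit 4) (nat_lit 332) (nat_lit 292) (nat_lit 156)) (XT.nd (nat_lit 78) (nat_lit 0) (nat_lit 0) (XT.lf (nat_lit 0) (nat_lit 47944073941) (nat_lit 76) (nat_lit 138671154656) (nat_lit 152) (nat_lit 216450232117) (nat_lit 11) (nat_lit 5) (nat_lit 12) (nat_lit 5) (nat_lit 13) (nat_lit 4) (nat_lit 333) (nat_lit 292) (nat_lit 155)) (XT.lf (nat_lit 0) (nat_lit 236933034388) (nat_lit 76) (nat_lit 41872249739) (nat_lit 152) (nat_lit 151293702794) (nat_lit 11) (nat_lit 5) (nat_lit 12) (nat_lit 5) (nat_lit 13) (nat_lit 4) (nat_lit 334) (nat_lit 292) (nat_lit 154))))))))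
noncomputable def xc103 : XT := (XT.nd (nat_lit 38220) (nat_lit 0) (nat_lit 988) (XT.nd (nat_lit 37362) (nat_lit 0) (nat_lit 4636) (XT.nd (nat_lit 390) (nat_lit 152) (nat_lit 0) (XT.nd (nat_lit 156) (nat_lit 76) (nat_lit 0) (XT.nd (nat_lit 78) (nat_lit 152) (nat_lit 0) (XT.lf (nat_lit 0) (nat_lit 379348614559) (nat_lit 152) (nat_lit 19233256255) (nat_lit 0) (nat_lit 60664421165) (nat_lit 11) (nat_lit 5) (nat_lit 13) (nat_lit 4) (nat_lit 11) (nat_lit 4) (nat_lit 335) (nat_lit 292) (nat_lit 153)) (XT.lf (nat_lit 0) (nat_lit 769153288) (nat_lit 152) (nat_lit 317107962650) (nat_lit 76) (nat_lit 172676952369) (nat_lit 9) (nat_lit 5) (nat_lit 11) (nat_lit 5) (nat_lit 10) (nat_lit 4) (nat_lit 336) (nat_lit 292) (nat_lit 152))) (XT.nd (nat_lit 78) (nat_lit 76) (nat_lit 0) (XT.lf (nat_lit 0) (nat_lit 85467698633) (nat_lit 152) (nat_lit 143476438676) (nat_lit 76) (nat_lit 295337960081) (nat_lit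 9) (nat_lit 5) (nat_lit 11) (nat_lit 5) (nat_lit 10) (nat_lit 4) (nat_lit 337) (nat_lit 292) (nat_lit 151)) (XT.nd (nat_lit 78) (nat_lit 0) (nat_lit 0) (XT.lf (nat_lit 0) (nat_lit 45501341450) (nat_lit 76) (nat_lit 132150863288) (nat_lit 152) (nat_lit 383020660413) (nat_lit 8) (nat_lit 5) (nat_lit 9) (nat_lit 5) (nat_lit 10) (nat_lit 4) (nat_lit 338) (nat_lit 292) (nat_lit 150)) (XT.lf (nat_lit 0) (nat_lit 254720274243) (nat_lit 76) (nat_lit 24990153082) (nat_lit 152) (nat_lit 320139519405) (nat_lit 8) (nat_lit 5) (nat_lit 9) (nat_lit 5) (nat_lit 10) (nat_lit 4) (nat_lit 339) (nat_lit 292) (nat_lit 149))))) (XT.nd (nat_lit 156) (nat_lit 76) (nat_lit 0) (XT.nd (nat_lit 78) (nat_lit 76) (nat_lit 0) (XT.lf (nat_lit 0) (nat_lit 391349775050) (nat_lit 152) (nat_lit 162901768133) (nat_lit 0) (nat_lit 87838828465) (nat_lit 8) (nat_lit 5) (nat_lit 10) (nat_lit 4) (nat_lit 8) (nat_lit 4) (nat_lit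 340) (nat_lit 292) (nat_lit 148)) (XT.lf (nat_lit 0) (nat_lit 34589575101) (nat_lit 76) (nat_lit 478291845261) (nat_lit 76) (nat_lit 174780552876) (nat_lit 7) (nat_lit 4) (nat_lit 8) (nat_lit 5) (nat_lit 8) (nat_lit 4) (nat_lit 341) (nat_lit 292) (nat_lit 147))) (XT.nd (nat_lit 78) (nat_lit 76) (nat_lit 0) (XT.lf (nat_lit 0) (nat_lit 253696920695) (nat_lit 76) (nat_lit 393276062837) (nat_lit 76) (nat_lit 89764450265) (nat_lit 7) (nat_lit 4) (nat_lit 8) (nat_lit 5) (nat_lit 8) (nat_lit 4) (nat_lit 342) (nat_lit 292) (nat_lit 146)) (XT.nd (nat_lit 78) (nat_lit 0) (nat_lit 0) (XT.lf (nat_lit 0) (nat_lit 1986991189) (nat_lit 152) (nat_lit 299438577101) (nat_lit 76) (nat_lit 488311772562) (nat_lit 6) (nat_lit 5) (nat_lit 8) (nat_lit 5) (nat_lit 7) (nat_lit 4) (nat_lit 343) (nat_lit 292) (nat_lit 145)) (XT.lf (nat_lit 0) (nat_lit 97975458637) (nat_lit 152) (nat_lit 102662493342) (nat_lit 76)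 (nat_lit 646263620214) (nat_lit 6) (nat_lit 5) (nat_lit 8) (nat_lit 5) (nat_lit 7) (nat_lit 4) (nat_lit 344) (nat_lit 292) (nat_lit 144)))))) (XT.nd (nat_lit 390) (nat_lit 1292) (nat_lit 0) (XT.nd (nat_lit 156) (nat_lit 0) (nat_lit 76) (XT.nd (nat_lit 78) (nat_lit 0) (nat_lit 0) (XT.lf (nat_lit 0) (nat_lit 9556448554) (nat_lit 0) (nat_lit 9556448554) (nat_lit 684) (nat_lit 6831818621) (nat_lit 84) (nat_lit 5) (nat_lit 84) (nat_lit 3) (nat_lit 93) (nat_lit 3) (nat_lit 293) (nat_lit 293) (nat_lit 194)) (XT.lf (nat_lit 76) (nat_lit 4131704870) (nat_lit 0) (nat_lit 36011385966) (nat_lit 760) (nat_lit 13802422087) (nat_lit 85) (nat_lit 5) (nat_lit 84) (nat_lit 5) (nat_lit 94) (nat_lit 5) (nat_lit 294) (nat_lit 293) (nat_lit 193))) (XT.nd (nat_lit 78) (nat_lit 0) (nat_lit 0) (XT.lf (nat_lit 0) (nat_lit 43125244978) (nat_lit 684) (nat_lit 11320822083) (nat_lit 760) (nat_lit 1674448414) (nat_lit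 85) (nat_lit 5) (nat_lit 94) (nat_lit 5) (nat_lit 95) (nat_lit 5) (nat_lit 295) (nat_lit 293) (nat_lit 192)) (XT.nd (nat_lit 78) (nat_lit 0) (nat_lit 76) (XT.lf (nat_lit 76) (nat_lit 30622393701) (nat_lit 0) (nat_lit 16805622451) (nat_lit 760) (nat_lit 10987407490) (nat_lit 86) (nat_lit 5) (nat_lit 85) (nat_lit 5) (nat_lit 95) (nat_lit 5) (nat_lit 296) (nat_lit 293) (nat_lit 191)) (XT.lf (nat_lit 76) (nat_lit 15561612808) (nat_lit 0) (nat_lit 37326047861) (nat_lit 760) (nat_lit 7965638292) (nat_lit 87) (nat_lit 5) (nat_lit 86) (nat_lit 5) (nat_lit 96) (nat_lit 5) (nat_lit 297) (nat_lit 293) (nat_lit 190))))) (XT.nd (nat_lit 234) (nat_lit 760) (nat_lit 0) (XT.nd (nat_lit 78) (nat_lit 760) (nat_lit 0) (XT.lf (nat_lit 0) (nat_lit 59599402496) (nat_lit 684) (nat_lit 421172097) (nat_lit 760) (nat_lit 3424869982) (nat_lit 87) (nat_lit 5) (nat_lit 96) (nat_lit 5) (nat_lit 97) (nat_lit 5) (nat_lit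 298) (nat_lit 293) (nat_lit 189)) (XT.nd (nat_lit 78) (nat_lit 0) (nat_lit 76) (XT.lf (nat_lit 0) (nat_lit 1998013383) (nat_lit 760) (nat_lit 17232604272) (nat_lit 836) (nat_lit 46943169383) (nat_lit 77) (nat_lit 5) (nat_lit 87) (nat_lit 5) (nat_lit 88) (nat_lit 5) (nat_lit 299) (nat_lit 293) (nat_lit 188)) (XT.lf (nat_lit 0) (nat_lit 9112636023) (nat_lit 760) (nat_lit 35313450574) (nat_lit 76) (nat_lit 24644273694) (nat_lit 78) (nat_lit 5) (nat_lit 88) (nat_lit 5) (nat_lit 79) (nat_lit 5) (nat_lit 300) (nat_lit 293) (nat_lit 187)))) (XT.nd (nat_lit 78) (nat_lit 380) (nat_lit 0) (XT.lf (nat_lit 0) (nat_lit 17485650749) (nat_lit 456) (nat_lit 210790359) (nat_lit 532) (nat_lit 54457222621) (nat_lit 72) (nat_lit 5) (nat_lit 78) (nat_lit 5) (nat_lit 79) (nat_lit 5) (nat_lit 301) (nat_lit 293) (nat_lit 186)) (XT.nd (nat_lit 78) (nat_lit 380) (nat_lit 0) (XT.lf (nat_lit 0) (nat_lit 28332224860)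 (nat_lit 532) (nat_lit 437652246) (nat_lit 76) (nat_lit 46645495214) (nat_lit 72) (nat_lit 5) (nat_lit 79) (nat_lit 5) (nat_lit 73) (nat_lit 5) (nat_lit 302) (nat_lit 293) (nat_lit 185)) (XT.lf (nat_lit 0) (nat_lit 41059056305) (nat_lit 456) (nat_lit 19144744761) (nat_lit 76) (nat_lit 18672211532) (nat_lit 67) (nat_lit 5) (nat_lit 73) (nat_lit 5) (nat_lit 68) (nat_lit 5) (nat_lit 303) (nat_lit 293) (nat_lit 184))))))) (XT.nd (nat_lit 858) (nat_lit 1292) (nat_lit 0) (XT.nd (nat_lit 390) (nat_lit 1140) (nat_lit 0) (XT.nd (nat_lit 156) (nat_lit 608) (nat_lit 0) (XT.nd (nat_lit 78) (nat_lit 304) (nat_lit 0) (XT.lf (nat_lit 0) (nat_lit 43005410084) (nat_lit 304) (nat_lit 12960998841) (nat_lit 380) (nat_lit 26588980375) (nat_lit 63) (nat_lit 5) (nat_lit 67) (nat_lit 5) (nat_lit 68) (nat_lit 5) (nat_lit 304) (nat_lit 293) (nat_lit 183)) (XT.lf (nat_lit 0) (nat_lit 24480604574) (nat_lit 304) (nat_lit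 48899343815) (nat_lit 380) (nat_lit 13083491460) (nat_lit 59) (nat_lit 5) (nat_lit 63) (nat_lit 5) (nat_lit 64) (nat_lit 5) (nat_lit 305) (nat_lit 293) (nat_lit 182))) (XT.nd (nat_lit 78) (nat_lit 304) (nat_lit 0) (XT.lf (nat_lit 0) (nat_lit 2466900074) (nat_lit 304) (nat_lit 86384589987) (nat_lit 76) (nat_lit 1780847188) (nat_lit 55) (nat_lit 5) (nat_lit 59) (nat_lit 5) (nat_lit 56) (nat_lit 5) (nat_lit 306) (nat_lit 293) (nat_lit 181)) (XT.nd (nat_lit 78) (nat_lit 304) (nat_lit 0) (XT.lf (nat_lit 0) (nat_lit 20729359826) (nat_lit 304) (nat_lit 18155416617) (nat_lit 76) (nat_lit 56142927867) (nat_lit 55) (nat_lit 5) (nat_lit 59) (nat_lit 5) (nat_lit 56) (nat_lit 5) (nat_lit 307) (nat_lit 293) (nat_lit 180)) (XT.lf (nat_lit 0) (nat_lit 41597052457) (nat_lit 380) (nat_lit 42613761461) (nat_lit 76) (nat_lit 15506677766) (nat_lit 51) (nat_lit 5) (nat_lit 56) (nat_lit 5) (nat_lit 52) (nat_lit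 5) (nat_lit 308) (nat_lit 293) (nat_lit 179))))) (XT.nd (nat_lit 234) (nat_lit 608) (nat_lit 0) (XT.nd (nat_lit 78) (nat_lit 304) (nat_lit 0) (XT.lf (nat_lit 0) (nat_lit 34713666322) (nat_lit 228) (nat_lit 30938139785) (nat_lit 304) (nat_lit 39054776211) (nat_lit 48) (nat_lit 5) (nat_lit 51) (nat_lit 5) (nat_lit 52) (nat_lit 5) (nat_lit 309) (nat_lit 293) (nat_lit 178)) (XT.nd (nat_lit 78) (nat_lit 76) (nat_lit 0) (XT.lf (nat_lit 0) (nat_lit 9568357764) (nat_lit 228) (nat_lit 83380320958) (nat_lit 304) (nat_lit 17080236908) (nat_lit 45) (nat_lit 5) (nat_lit 48) (nat_lit 5) (nat_lit 49) (nat_lit 5) (nat_lit 310) (nat_lit 293) (nat_lit 177)) (XT.lf (nat_lit 0) (nat_lit 8198927999) (nat_lit 304) (nat_lit 18369408807) (nat_lit 76) (nat_lit 89115529034) (nat_lit 44) (nat_lit 5) (nat_lit 48) (nat_lit 5) (nat_lit 45) (nat_lit 5) (nat_lit 311) (nat_lit 293) (nat_lit 176)))) (XT.nd (nat_lit 78)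 (nat_lit 380) (nat_lit 0) (XT.lf (nat_lit 0) (nat_lit 36604192878) (nat_lit 304) (nat_lit 49972910498) (nat_lit 76) (nat_lit 35115001669) (nat_lit 41) (nat_lit 5) (nat_lit 45) (nat_lit 5) (nat_lit 42) (nat_lit 5) (nat_lit 312) (nat_lit 293) (nat_lit 175)) (XT.nd (nat_lit 78) (nat_lit 152) (nat_lit 0) (XT.lf (nat_lit 0) (nat_lit 42408320759) (nat_lit 228) (nat_lit 26307731341) (nat_lit 304) (nat_lit 59393244417) (nat_lit 38) (nat_lit 5) (nat_lit 41) (nat_lit 5) (nat_lit 42) (nat_lit 5) (nat_lit 313) (nat_lit 293) (nat_lit 174)) (XT.lf (nat_lit 0) (nat_lit 8622827521) (nat_lit 152) (nat_lit 96397835030) (nat_lit 228) (nat_lit 29938012283) (nat_lit 36) (nat_lit 5) (nat_lit 38) (nat_lit 5) (nat_lit 39) (nat_lit 5) (nat_lit 314) (nat_lit 293) (nat_lit 173)))))) (XT.nd (nat_lit 390) (nat_lit 608) (nat_lit 0) (XT.nd (nat_lit 156) (nat_lit 380) (nat_lit 0) (XT.nd (nat_lit 78) (nat_lit 228) (nat_lit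 0) (XT.lf (nat_lit 0) (nat_lit 3773530135) (nat_lit 228) (nat_lit 29227361299) (nat_lit 76) (nat_lit 109255657810) (nat_lit 35) (nat_lit 5) (nat_lit 38) (nat_lit 5) (nat_lit 36) (nat_lit 5) (nat_lit 315) (nat_lit 293) (nat_lit 172)) (XT.lf (nat_lit 0) (nat_lit 40940031450) (nat_lit 304) (nat_lit 73006225792) (nat_lit 76) (nat_lit 36077112480) (nat_lit 32) (nat_lit 5) (nat_lit 36) (nat_lit 5) (nat_lit 33) (nat_lit 5) (nat_lit 316) (nat_lit 293) (nat_lit 171))) (XT.nd (nat_lit 78) (nat_lit 228) (nat_lit 0) (XT.lf (nat_lit 0) (nat_lit 34971918251) (nat_lit 152) (nat_lit 47726925527) (nat_lit 228) (nat_lit 75631743765) (nat_lit 30) (nat_lit 5) (nat_lit 32) (nat_lit 5) (nat_lit 33) (nat_lit 5) (nat_lit 317) (nat_lit 293) (nat_lit 170)) (XT.nd (nat_lit 78) (nat_lit 228) (nat_lit 0) (XT.lf (nat_lit 0) (nat_lit 129461457119) (nat_lit 228) (nat_lit 13437135618) (nat_lit 76) (nat_lit 24320636408)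 (nat_lit 30) (nat_lit 5) (nat_lit 33) (nat_lit 5) (nat_lit 31) (nat_lit 5) (nat_lit 318) (nat_lit 293) (nat_lit 169)) (XT.lf (nat_lit 0) (nat_lit 5575185663) (nat_lit 228) (nat_lit 68858063446) (nat_lit 76) (nat_lit 102256769820) (nat_lit 27) (nat_lit 5) (nat_lit 30) (nat_lit 5) (nat_lit 28) (nat_lit 5) (nat_lit 319) (nat_lit 293) (nat_lit 168))))) (XT.nd (nat_lit 234) (nat_lit 304) (nat_lit 0) (XT.nd (nat_lit 78) (nat_lit 152) (nat_lit 0) (XT.lf (nat_lit 0) (nat_lit 52161479408) (nat_lit 228) (nat_lit 133408990362) (nat_lit 76) (nat_lit 1261576686) (nat_lit 25) (nat_lit 5) (nat_lit 28) (nat_lit 5) (nat_lit 26) (nat_lit 5) (nat_lit 320) (nat_lit 293) (nat_lit 167)) (XT.nd (nat_lit 78) (nat_lit 152) (nat_lit 0) (XT.lf (nat_lit 0) (nat_lit 104948111310) (nat_lit 228) (nat_lit 11055891898) (nat_lit 76) (nat_lit 81657762118) (nat_lit 25) (nat_lit 5) (nat_lit 28) (nat_lit 5) (nat_lit 26) (nat_lit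 5) (nat_lit 321) (nat_lit 293) (nat_lit 166)) (XT.lf (nat_lit 0) (nat_lit 125087891278) (nat_lit 152) (nat_lit 38822039973) (nat_lit 228) (nat_lit 45350318391) (nat_lit 23) (nat_lit 5) (nat_lit 25) (nat_lit 5) (nat_lit 26) (nat_lit 5) (nat_lit 322) (nat_lit 293) (nat_lit 165)))) (XT.nd (nat_lit 78) (nat_lit 152) (nat_lit 0) (XT.lf (nat_lit 0) (nat_lit 7341693020) (nat_lit 152) (nat_lit 170124162840) (nat_lit 76) (nat_lit 44229962625) (nat_lit 21) (nat_lit 5) (nat_lit 23) (nat_lit 5) (nat_lit 22) (nat_lit 5) (nat_lit 323) (nat_lit 293) (nat_lit 164)) (XT.nd (nat_lit 78) (nat_lit 152) (nat_lit 0) (XT.lf (nat_lit 0) (nat_lit 64825664155) (nat_lit 152) (nat_lit 35316407067) (nat_lit 76) (nat_lit 134838717229) (nat_lit 21) (nat_lit 5) (nat_lit 23) (nat_lit 5) (nat_lit 22) (nat_lit 5) (nat_lit 324) (nat_lit 293) (nat_lit 163)) (XT.lf (nat_lit 0) (nat_lit 113921130942) (nat_lit 152) (nat_lit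 14765235781) (nat_lit 228) (nat_lit 120553289218) (nat_lit 19) (nat_lit 5) (nat_lit 21) (nat_lit 5) (nat_lit 22) (nat_lit 5) (nat_lit 325) (nat_lit 293) (nat_lit 162))))))))
noncomputable def xc104 : XT := (XT.nd (nat_lit 38298) (nat_lit 0) (nat_lit 2204) (XT.nd (nat_lit 780) (nat_lit 380) (nat_lit 0) (XT.nd (nat_lit 390) (nat_lit 228) (nat_lit 0) (XT.nd (nat_lit 156) (nat_lit 304) (nat_lit 0) (XT.nd (nat_lit 78) (nat_lit 0) (nat_lit 0) (XT.lf (nat_lit 0) (nat_lit 10878338260) (nat_lit 76) (nat_lit 188781194984) (nat_lit 152) (nat_lit 64879519766) (nat_lit 18) (nat_lit 5) (nat_lit 19) (nat_lit 5) (nat_lit 20) (nat_lit 4) (nat_lit 326) (nat_lit 293) (nat_lit 161)) (XT.lf (nat_lit 0) (nat_lit 173344969386) (nat_lit 76) (nat_lit 105567136661) (nat_lit 152) (nat_lit 2020218673) (nat_lit 18) (nat_lit 5) (nat_lit 19) (nat_lit 5) (nat_lit 20) (nat_lit 4) (nat_lit 327) (nat_lit 293) (nat_lit 160)))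 (XT.nd (nat_lit 78) (nat_lit 76) (nat_lit 0) (XT.lf (nat_lit 0) (nat_lit 50767459265) (nat_lit 152) (nat_lit 13784278702) (nat_lit 228) (nat_lit 233994296933) (nat_lit 15) (nat_lit 5) (nat_lit 17) (nat_lit 5) (nat_lit 18) (nat_lit 5) (nat_lit 328) (nat_lit 293) (nat_lit 159)) (XT.nd (nat_lit 78) (nat_lit 76) (nat_lit 0) (XT.lf (nat_lit 0) (nat_lit 139616350366) (nat_lit 228) (nat_lit 93240659368) (nat_lit 76) (nat_lit 84548292779) (nat_lit 15) (nat_lit 5) (nat_lit 18) (nat_lit 5) (nat_lit 16) (nat_lit 4) (nat_lit 329) (nat_lit 293) (nat_lit 158)) (XT.lf (nat_lit 0) (nat_lit 75854869031) (nat_lit 76) (nat_lit 146247526523) (nat_lit 152) (nat_lit 115600103189) (nat_lit 14) (nat_lit 5) (nat_lit 15) (nat_lit 5) (nat_lit 16) (nat_lit 4) (nat_lit 330) (nat_lit 293) (nat_lit 157))))) (XT.nd (nat_lit 156) (nat_lit 76) (nat_lit 0) (XT.nd (nat_lit 78) (nat_lit 152) (nat_lit 0) (XT.lf (nat_lit 0)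 (nat_lit 261806846738) (nat_lit 76) (nat_lit 51004220974) (nat_lit 152) (nat_lit 46731216158) (nat_lit 14) (nat_lit 5) (nat_lit 15) (nat_lit 5) (nat_lit 16) (nat_lit 4) (nat_lit 331) (nat_lit 293) (nat_lit 156)) (XT.lf (nat_lit 0) (nat_lit 28874889425) (nat_lit 152) (nat_lit 302193698597) (nat_lit 76) (nat_lit 51933452107) (nat_lit 12) (nat_lit 5) (nat_lit 14) (nat_lit 5) (nat_lit 13) (nat_lit 4) (nat_lit 332) (nat_lit 293) (nat_lit 155))) (XT.nd (nat_lit 78) (nat_lit 76) (nat_lit 0) (XT.lf (nat_lit 0) (nat_lit 111504152405) (nat_lit 152) (nat_lit 132804362877) (nat_lit 76) (nat_lit 163861162475) (nat_lit 12) (nat_lit 5) (nat_lit 14) (nat_lit 5) (nat_lit 13) (nat_lit 4) (nat_lit 333) (nat_lit 293) (nat_lit 154)) (XT.nd (nat_lit 78) (nat_lit 0) (nat_lit 0) (XT.lf (nat_lit 0) (nat_lit 51793151619) (nat_lit 76) (nat_lit 149758863949) (nat_lit 152) (nat_lit 233758298147) (nat_lit 11) (nat_lit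 5) (nat_lit 12) (nat_lit 5) (nat_lit 13) (nat_lit 4) (nat_lit 334) (nat_lit 293) (nat_lit 153)) (XT.lf (nat_lit 0) (nat_lit 255900225067) (nat_lit 76) (nat_lit 45216489829) (nat_lit 152) (nat_lit 163389835556) (nat_lit 11) (nat_lit 5) (nat_lit 12) (nat_lit 5) (nat_lit 13) (nat_lit 4) (nat_lit 335) (nat_lit 293) (nat_lit 152)))))) (XT.nd (nat_lit 390) (nat_lit 152) (nat_lit 0) (XT.nd (nat_lit 156) (nat_lit 76) (nat_lit 0) (XT.nd (nat_lit 78) (nat_lit 152) (nat_lit 0) (XT.lf (nat_lit 0) (nat_lit 409703072735) (nat_lit 152) (nat_lit 20760049295) (nat_lit 0) (nat_lit 65522540209) (nat_lit 11) (nat_lit 5) (nat_lit 13) (nat_lit 4) (nat_lit 11) (nat_lit 4) (nat_lit 336) (nat_lit 293) (nat_lit 151)) (XT.lf (nat_lit 0) (nat_lit 837051985) (nat_lit 152) (nat_lit 342465033345) (nat_lit 76) (nat_lit 186495986021) (nat_lit 9) (nat_lit 5) (nat_lit 11) (nat_lit 5) (nat_lit 10) (nat_lit 4) (nat_lit 337)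 (nat_lit 293) (nat_lit 150))) (XT.nd (nat_lit 78) (nat_lit 76) (nat_lit 0) (XT.lf (nat_lit 0) (nat_lit 92311009370) (nat_lit 152) (nat_lit 154943844217) (nat_lit 76) (nat_lit 318969513056) (nat_lit 9) (nat_lit 5) (nat_lit 11) (nat_lit 5) (nat_lit 10) (nat_lit 4) (nat_lit 338) (nat_lit 293) (nat_lit 149)) (XT.nd (nat_lit 78) (nat_lit 0) (nat_lit 0) (XT.lf (nat_lit 0) (nat_lit 49151692895) (nat_lit 76) (nat_lit 142718306353) (nat_lit 152) (nat_lit 413656410695) (nat_lit 8) (nat_lit 5) (nat_lit 9) (nat_lit 5) (nat_lit 10) (nat_lit 4) (nat_lit 339) (nat_lit 293) (nat_lit 148)) (XT.lf (nat_lit 0) (nat_lit 275107381487) (nat_lit 76) (nat_lit 26985081997) (nat_lit 152) (nat_lit 345745215632) (nat_lit 8) (nat_lit 5) (nat_lit 9) (nat_lit 5) (nat_lit 10) (nat_lit 4) (nat_lit 340) (nat_lit 293) (nat_lit 147))))) (XT.nd (nat_lit 234) (nat_lit 76) (nat_lit 0) (XT.nd (nat_lit 78) (nat_lit 76) (nat_lit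 0) (XT.lf (nat_lit 0) (nat_lit 422662635616) (nat_lit 152) (nat_lit 175924944970) (nat_lit 0) (nat_lit 94869773852) (nat_lit 8) (nat_lit 5) (nat_lit 10) (nat_lit 4) (nat_lit 8) (nat_lit 4) (nat_lit 341) (nat_lit 293) (nat_lit 146)) (XT.nd (nat_lit 78) (nat_lit 0) (nat_lit 0) (XT.lf (nat_lit 0) (nat_lit 37365316131) (nat_lit 76) (nat_lit 516551268928) (nat_lit 76) (nat_lit 188758110695) (nat_lit 7) (nat_lit 4) (nat_lit 8) (nat_lit 5) (nat_lit 8) (nat_lit 4) (nat_lit 342) (nat_lit 293) (nat_lit 145)) (XT.lf (nat_lit 0) (nat_lit 274000614186) (nat_lit 76) (nat_lit 424734514573) (nat_lit 76) (nat_lit 96941081832) (nat_lit 7) (nat_lit 4) (nat_lit 8) (nat_lit 5) (nat_lit 8) (nat_lit 4) (nat_lit 343) (nat_lit 293) (nat_lit 144)))) (XT.nd (nat_lit 36738) (nat_lit 0) (nat_lit 5928) (XT.lf (nat_lit 0) (nat_lit 2150005710) (nat_lit 152) (nat_lit 323386175208) (nat_lit 76) (nat_lit 527379942164) (nat_lit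 6) (nat_lit 5) (nat_lit 8) (nat_lit 5) (nat_lit 7) (nat_lit 4) (nat_lit 344) (nat_lit 293) (nat_lit 143)) (XT.nd (nat_lit 78) (nat_lit 0) (nat_lit 0) (XT.lf (nat_lit 0) (nat_lit 10338305942) (nat_lit 0) (nat_lit 10338305942) (nat_lit 684) (nat_lit 7341866386) (nat_lit 84) (nat_lit 5) (nat_lit 84) (nat_lit 3) (nat_lit 93) (nat_lit 3) (nat_lit 294) (nat_lit 294) (nat_lit 192)) (XT.lf (nat_lit 76) (nat_lit 4499406655) (nat_lit 0) (nat_lit 38919438109) (nat_lit 760) (nat_lit 14838944664) (nat_lit 85) (nat_lit 5) (nat_lit 84) (nat_lit 5) (nat_lit 94) (nat_lit 5) (nat_lit 295) (nat_lit 294) (nat_lit 191))))))) (XT.nd (nat_lit 780) (nat_lit 2128) (nat_lit 0) (XT.nd (nat_lit 390) (nat_lit 1064) (nat_lit 0) (XT.nd (nat_lit 156) (nat_lit 608) (nat_lit 0) (XT.nd (nat_lit 78) (nat_lit 0) (nat_lit 0) (XT.lf (nat_lit 0) (nat_lit 46634415419) (nat_lit 684) (nat_lit 12188567779) (nat_lit 760) (nat_lit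 1784077828) (nat_lit 85) (nat_lit 5) (nat_lit 94) (nat_lit 5) (nat_lit 95) (nat_lit 5) (nat_lit 296) (nat_lit 294) (nat_lit 190)) (XT.lf (nat_lit 76) (nat_lit 33108457307) (nat_lit 0) (nat_lit 18169135745) (nat_lit 760) (nat_lit 11808169789) (nat_lit 86) (nat_lit 5) (nat_lit 85) (nat_lit 5) (nat_lit 95) (nat_lit 5) (nat_lit 297) (nat_lit 294) (nat_lit 189))) (XT.nd (nat_lit 78) (nat_lit 684) (nat_lit 0) (XT.lf (nat_lit 76) (nat_lit 16844291194) (nat_lit 0) (nat_lit 40325932789) (nat_lit 760) (nat_lit 8548642935) (nat_lit 87) (nat_lit 5) (nat_lit 86) (nat_lit 5) (nat_lit 96) (nat_lit 5) (nat_lit 298) (nat_lit 294) (nat_lit 188)) (XT.nd (nat_lit 78) (nat_lit 760) (nat_lit 0) (XT.lf (nat_lit 0) (nat_lit 64414887091) (nat_lit 684) (nat_lit 417216981) (nat_lit 760) (nat_lit 3686489787) (nat_lit 87) (nat_lit 5) (nat_lit 96) (nat_lit 5) (nat_lit 97) (nat_lit 5) (nat_lit 299) (nat_lit 294) (nat_lit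 187)) (XT.lf (nat_lit 0) (nat_lit 2203257197) (nat_lit 760) (nat_lit 18573601979) (nat_lit 836) (nat_lit 50688463982) (nat_lit 77) (nat_lit 5) (nat_lit 87) (nat_lit 5) (nat_lit 88) (nat_lit 5) (nat_lit 300) (nat_lit 294) (nat_lit 186))))) (XT.nd (nat_lit 156) (nat_lit 684) (nat_lit 0) (XT.nd (nat_lit 78) (nat_lit 456) (nat_lit 0) (XT.lf (nat_lit 0) (nat_lit 9884144733) (nat_lit 760) (nat_lit 38100227455) (nat_lit 76) (nat_lit 26609402492) (nat_lit 78) (nat_lit 5) (nat_lit 88) (nat_lit 5) (nat_lit 79) (nat_lit 5) (nat_lit 301) (nat_lit 294) (nat_lit 185)) (XT.lf (nat_lit 0) (nat_lit 18921137538) (nat_lit 456) (nat_lit 230940670) (nat_lit 532) (nat_lit 58771799619) (nat_lit 72) (nat_lit 5) (nat_lit 78) (nat_lit 5) (nat_lit 79) (nat_lit 5) (nat_lit 302) (nat_lit 294) (nat_lit 184))) (XT.nd (nat_lit 78) (nat_lit 684) (nat_lit 0) (XT.lf (nat_lit 0) (nat_lit 30635719970) (nat_lit 532) (nat_lit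 436770861) (nat_lit 76) (nat_lit 50374188651) (nat_lit 72) (nat_lit 5) (nat_lit 79) (nat_lit 5) (nat_lit 73) (nat_lit 5) (nat_lit 303) (nat_lit 294) (nat_lit 183)) (XT.nd (nat_lit 78) (nat_lit 304) (nat_lit 0) (XT.lf (nat_lit 0) (nat_lit 44378493365) (nat_lit 456) (nat_lit 20640177649) (nat_lit 76) (nat_lit 20165615882) (nat_lit 67) (nat_lit 5) (nat_lit 73) (nat_lit 5) (nat_lit 68) (nat_lit 5) (nat_lit 304) (nat_lit 294) (nat_lit 182)) (XT.lf (nat_lit 0) (nat_lit 46480418692) (nat_lit 304) (nat_lit 13995984027) (nat_lit 380) (nat_lit 28681717855) (nat_lit 63) (nat_lit 5) (nat_lit 67) (nat_lit 5) (nat_lit 68) (nat_lit 5) (nat_lit 305) (nat_lit 294) (nat_lit 181)))))) (XT.nd (nat_lit 390) (nat_lit 988) (nat_lit 0) (XT.nd (nat_lit 156) (nat_lit 532) (nat_lit 0) (XT.nd (nat_lit 78) (nat_lit 304) (nat_lit 0) (XT.lf (nat_lit 0) (nat_lit 26473723818) (nat_lit 304) (nat_lit 52807449401) (nat_lit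 380) (nat_lit 14097739429) (nat_lit 59) (nat_lit 5) (nat_lit 63) (nat_lit 5) (nat_lit 64) (nat_lit 5) (nat_lit 306) (nat_lit 294) (nat_lit 180)) (XT.lf (nat_lit 0) (nat_lit 2693926126) (nat_lit 304) (nat_lit 93259682790) (nat_lit 76) (nat_lit 1927777872) (nat_lit 55) (nat_lit 5) (nat_lit 59) (nat_lit 5) (nat_lit 56) (nat_lit 5) (nat_lit 307) (nat_lit 294) (nat_lit 179))) (XT.nd (nat_lit 78) (nat_lit 532) (nat_lit 0) (XT.lf (nat_lit 0) (nat_lit 22415184581) (nat_lit 304) (nat_lit 19574818097) (nat_lit 76) (nat_lit 60638494419) (nat_lit 55) (nat_lit 5) (nat_lit 59) (nat_lit 5) (nat_lit 56) (nat_lit 5) (nat_lit 308) (nat_lit 294) (nat_lit 178)) (XT.nd (nat_lit 78) (nat_lit 228) (nat_lit 0) (XT.lf (nat_lit 0) (nat_lit 44950839077) (nat_lit 380) (nat_lit 45990011683) (nat_lit 76) (nat_lit 16752693064) (nat_lit 51) (nat_lit 5) (nat_lit 56) (nat_lit 5) (nat_lit 52) (nat_lit 5) (nat_lit 309) (nat_lit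 294) (nat_lit 177)) (XT.lf (nat_lit 0) (nat_lit 37522182671) (nat_lit 228) (nat_lit 33406353363) (nat_lit 304) (nat_lit 42153300937) (nat_lit 48) (nat_lit 5) (nat_lit 51) (nat_lit 5) (nat_lit 52) (nat_lit 5) (nat_lit 310) (nat_lit 294) (nat_lit 176))))) (XT.nd (nat_lit 234) (nat_lit 456) (nat_lit 0) (XT.nd (nat_lit 78) (nat_lit 304) (nat_lit 0) (XT.lf (nat_lit 0) (nat_lit 10364998362) (nat_lit 228) (nat_lit 90042924481) (nat_lit 304) (nat_lit 18422099046) (nat_lit 45) (nat_lit 5) (nat_lit 48) (nat_lit 5) (nat_lit 49) (nat_lit 5) (nat_lit 311) (nat_lit 294) (nat_lit 175)) (XT.nd (nat_lit 78) (nat_lit 228) (nat_lit 0) (XT.lf (nat_lit 0) (nat_lit 8876852279) (nat_lit 304) (nat_lit 19809335986) (nat_lit 76) (nat_lit 96251251508) (nat_lit 44) (nat_lit 5) (nat_lit 48) (nat_lit 5) (nat_lit 45) (nat_lit 5) (nat_lit 312) (nat_lit 294) (nat_lit 174)) (XT.lf (nat_lit 0) (nat_lit 39553467756) (nat_lit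 304) (nat_lit 53941449289) (nat_lit 76) (nat_lit 37931477180) (nat_lit 41) (nat_lit 5) (nat_lit 45) (nat_lit 5) (nat_lit 42) (nat_lit 5) (nat_lit 313) (nat_lit 294) (nat_lit 173)))) (XT.nd (nat_lit 78) (nat_lit 228) (nat_lit 0) (XT.lf (nat_lit 0) (nat_lit 45829007385) (nat_lit 228) (nat_lit 28404154746) (nat_lit 304) (nat_lit 64123856951) (nat_lit 38) (nat_lit 5) (nat_lit 41) (nat_lit 5) (nat_lit 42) (nat_lit 5) (nat_lit 314) (nat_lit 294) (nat_lit 172)) (XT.nd (nat_lit 78) (nat_lit 76) (nat_lit 0) (XT.lf (nat_lit 0) (nat_lit 9340311321) (nat_lit 152) (nat_lit 104100911798) (nat_lit 228) (nat_lit 32313172672) (nat_lit 36) (nat_lit 5) (nat_lit 38) (nat_lit 5) (nat_lit 39) (nat_lit 5) (nat_lit 315) (nat_lit 294) (nat_lit 171)) (XT.lf (nat_lit 0) (nat_lit 4093231334) (nat_lit 228) (nat_lit 31539327761) (nat_lit 76) (nat_lit 118003598766) (nat_lit 35) (nat_lit 5) (nat_lit 38) (nat_lit 5) (nat_lit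 36) (nat_lit 5) (nat_lit 316) (nat_lit 294) (nat_lit 170))))))))
noncomputable def xc105 : XT := (XT.nd (nat_lit 1638) (nat_lit 304) (nat_lit 0) (XT.nd (nat_lit 780) (nat_lit 608) (nat_lit 0) (XT.nd (nat_lit 390) (nat_lit 456) (nat_lit 0) (XT.nd (nat_lit 156) (nat_lit 380) (nat_lit 0) (XT.nd (nat_lit 78) (nat_lit 152) (nat_lit 0) (XT.lf (nat_lit 0) (nat_lit 44232252363) (nat_lit 304) (nat_lit 78820901813) (nat_lit 76) (nat_lit 38971211627) (nat_lit 32) (nat_lit 5) (nat_lit 36) (nat_lit 5) (nat_lit 33) (nat_lit 5) (nat_lit 317) (nat_lit 294) (nat_lit 169)) (XT.lf (nat_lit 0) (nat_lit 37794371559) (nat_lit 152) (nat_lit 51536523130) (nat_lit 228) (nat_lit 81665311782) (nat_lit 30) (nat_lit 5) (nat_lit 32) (nat_lit 5) (nat_lit 33) (nat_lit 5) (nat_lit 318) (nat_lit 294) (nat_lit 168))) (XT.nd (nat_lit 78) (nat_lit 380) (nat_lit 0) (XT.lf (nat_lit 0) (nat_lit 139833444983) (nat_lit 228) (nat_lit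 14488593195) (nat_lit 76) (nat_lit 26273956377) (nat_lit 30) (nat_lit 5) (nat_lit 33) (nat_lit 5) (nat_lit 31) (nat_lit 5) (nat_lit 319) (nat_lit 294) (nat_lit 167)) (XT.nd (nat_lit 78) (nat_lit 152) (nat_lit 0) (XT.lf (nat_lit 0) (nat_lit 6035758448) (nat_lit 228) (nat_lit 74343718688) (nat_lit 76) (nat_lit 110444998342) (nat_lit 27) (nat_lit 5) (nat_lit 30) (nat_lit 5) (nat_lit 28) (nat_lit 5) (nat_lit 320) (nat_lit 294) (nat_lit 166)) (XT.lf (nat_lit 0) (nat_lit 56348348186) (nat_lit 228) (nat_lit 144059139439) (nat_lit 76) (nat_lit 1370409221) (nat_lit 25) (nat_lit 5) (nat_lit 28) (nat_lit 5) (nat_lit 26) (nat_lit 5) (nat_lit 321) (nat_lit 294) (nat_lit 165))))) (XT.nd (nat_lit 156) (nat_lit 304) (nat_lit 0) (XT.nd (nat_lit 78) (nat_lit 152) (nat_lit 0) (XT.lf (nat_lit 0) (nat_lit 113356877275) (nat_lit 228) (nat_lit 11919464962) (nat_lit 76) (nat_lit 88197703828) (nat_lit 25) (nat_lit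 5) (nat_lit 28) (nat_lit 5) (nat_lit 26) (nat_lit 5) (nat_lit 322) (nat_lit 294) (nat_lit 164)) (XT.lf (nat_lit 0) (nat_lit 135114912654) (nat_lit 152) (nat_lit 41920085439) (nat_lit 228) (nat_lit 48965444353) (nat_lit 23) (nat_lit 5) (nat_lit 25) (nat_lit 5) (nat_lit 26) (nat_lit 5) (nat_lit 323) (nat_lit 294) (nat_lit 163))) (XT.nd (nat_lit 78) (nat_lit 152) (nat_lit 0) (XT.lf (nat_lit 0) (nat_lit 7941014691) (nat_lit 152) (nat_lit 183714081617) (nat_lit 76) (nat_lit 47775776396) (nat_lit 21) (nat_lit 5) (nat_lit 23) (nat_lit 5) (nat_lit 22) (nat_lit 5) (nat_lit 324) (nat_lit 294) (nat_lit 162)) (XT.nd (nat_lit 78) (nat_lit 152) (nat_lit 0) (XT.lf (nat_lit 0) (nat_lit 70022815648) (nat_lit 152) (nat_lit 38123187919) (nat_lit 76) (nat_lit 145632681979) (nat_lit 21) (nat_lit 5) (nat_lit 23) (nat_lit 5) (nat_lit 22) (nat_lit 5) (nat_lit 325) (nat_lit 294) (nat_lit 161)) (XT.lf (nat_lit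 0) (nat_lit 123052547765) (nat_lit 152) (nat_lit 15939281314) (nat_lit 228) (nat_lit 130186461442) (nat_lit 19) (nat_lit 5) (nat_lit 21) (nat_lit 5) (nat_lit 22) (nat_lit 5) (nat_lit 326) (nat_lit 294) (nat_lit 160)))))) (XT.nd (nat_lit 390) (nat_lit 228) (nat_lit 0) (XT.nd (nat_lit 156) (nat_lit 304) (nat_lit 0) (XT.nd (nat_lit 78) (nat_lit 0) (nat_lit 0) (XT.lf (nat_lit 0) (nat_lit 11765968693) (nat_lit 76) (nat_lit 203876473313) (nat_lit 152) (nat_lit 70059218454) (nat_lit 18) (nat_lit 5) (nat_lit 19) (nat_lit 5) (nat_lit 20) (nat_lit 4) (nat_lit 327) (nat_lit 294) (nat_lit 159)) (XT.lf (nat_lit 0) (nat_lit 187228644134) (nat_lit 76) (nat_lit 114005824938) (nat_lit 152) (nat_lit 2171963117) (nat_lit 18) (nat_lit 5) (nat_lit 19) (nat_lit 5) (nat_lit 20) (nat_lit 4) (nat_lit 328) (nat_lit 294) (nat_lit 158))) (XT.nd (nat_lit 78) (nat_lit 76) (nat_lit 0) (XT.lf (nat_lit 0) (nat_lit 54844544776)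 (nat_lit 152) (nat_lit 14880426296) (nat_lit 228) (nat_lit 252704284172) (nat_lit 15) (nat_lit 5) (nat_lit 17) (nat_lit 5) (nat_lit 18) (nat_lit 5) (nat_lit 329) (nat_lit 294) (nat_lit 157)) (XT.nd (nat_lit 78) (nat_lit 76) (nat_lit 0) (XT.lf (nat_lit 0) (nat_lit 150794174163) (nat_lit 228) (nat_lit 100685052622) (nat_lit 76) (nat_lit 91318066970) (nat_lit 15) (nat_lit 5) (nat_lit 18) (nat_lit 5) (nat_lit 16) (nat_lit 4) (nat_lit 330) (nat_lit 294) (nat_lit 156)) (XT.lf (nat_lit 0) (nat_lit 81937472274) (nat_lit 76) (nat_lit 157941221810) (nat_lit 152) (nat_lit 124839592574) (nat_lit 14) (nat_lit 5) (nat_lit 15) (nat_lit 5) (nat_lit 16) (nat_lit 4) (nat_lit 331) (nat_lit 294) (nat_lit 155))))) (XT.nd (nat_lit 234) (nat_lit 76) (nat_lit 0) (XT.nd (nat_lit 78) (nat_lit 152) (nat_lit 0) (XT.lf (nat_lit 0) (nat_lit 282764555329) (nat_lit 76) (nat_lit 55078904176) (nat_lit 152) (nat_lit 50461825608)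 (nat_lit 14) (nat_lit 5) (nat_lit 15) (nat_lit 5) (nat_lit 16) (nat_lit 4) (nat_lit 332) (nat_lit 294) (nat_lit 154)) (XT.nd (nat_lit 78) (nat_lit 0) (nat_lit 0) (XT.lf (nat_lit 0) (nat_lit 31192237681) (nat_lit 152) (nat_lit 326356076463) (nat_lit 76) (nat_lit 56093515919) (nat_lit 12) (nat_lit 5) (nat_lit 14) (nat_lit 5) (nat_lit 13) (nat_lit 4) (nat_lit 333) (nat_lit 294) (nat_lit 153)) (XT.lf (nat_lit 0) (nat_lit 120431296728) (nat_lit 152) (nat_lit 143416565590) (nat_lit 76) (nat_lit 176975044032) (nat_lit 12) (nat_lit 5) (nat_lit 14) (nat_lit 5) (nat_lit 13) (nat_lit 4) (nat_lit 334) (nat_lit 294) (nat_lit 152)))) (XT.nd (nat_lit 78) (nat_lit 0) (nat_lit 0) (XT.lf (nat_lit 0) (nat_lit 55948222201) (nat_lit 76) (nat_lit 161734443538) (nat_lit 152) (nat_lit 252452143979) (nat_lit 11) (nat_lit 5) (nat_lit 12) (nat_lit 5) (nat_lit 13) (nat_lit 4) (nat_lit 335) (nat_lit 294) (nat_lit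 151)) (XT.nd (nat_lit 78) (nat_lit 0) (nat_lit 0) (XT.lf (nat_lit 0) (nat_lit 276383000899) (nat_lit 76) (nat_lit 48829059454) (nat_lit 152) (nat_lit 176454709419) (nat_lit 11) (nat_lit 5) (nat_lit 12) (nat_lit 5) (nat_lit 13) (nat_lit 4) (nat_lit 336) (nat_lit 294) (nat_lit 150)) (XT.lf (nat_lit 0) (nat_lit 442484950423) (nat_lit 152) (nat_lit 22410678804) (nat_lit 0) (nat_lit 70768600412) (nat_lit 11) (nat_lit 5) (nat_lit 13) (nat_lit 4) (nat_lit 11) (nat_lit 4) (nat_lit 337) (nat_lit 294) (nat_lit 149))))))) (XT.nd (nat_lit 37518) (nat_lit 0) (nat_lit 3648) (XT.nd (nat_lit 390) (nat_lit 76) (nat_lit 0) (XT.nd (nat_lit 156) (nat_lit 76) (nat_lit 0) (XT.nd (nat_lit 78) (nat_lit 0) (nat_lit 0) (XT.lf (nat_lit 0) (nat_lit 909474335) (nat_lit 152) (nat_lit 369852319760) (nat_lit 76) (nat_lit 201419846541) (nat_lit 9) (nat_lit 5) (nat_lit 11) (nat_lit 5) (nat_lit 10) (nat_lit 4) (nat_lit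 338) (nat_lit 294) (nat_lit 148)) (XT.lf (nat_lit 0) (nat_lit 99700944000) (nat_lit 152) (nat_lit 167330170039) (nat_lit 76) (nat_lit 344490945988) (nat_lit 9) (nat_lit 5) (nat_lit 11) (nat_lit 5) (nat_lit 10) (nat_lit 4) (nat_lit 339) (nat_lit 294) (nat_lit 147))) (XT.nd (nat_lit 78) (nat_lit 0) (nat_lit 0) (XT.lf (nat_lit 0) (nat_lit 53092611016) (nat_lit 76) (nat_lit 154131804813) (nat_lit 152) (nat_lit 446743863065) (nat_lit 8) (nat_lit 5) (nat_lit 9) (nat_lit 5) (nat_lit 10) (nat_lit 4) (nat_lit 340) (nat_lit 294) (nat_lit 146)) (XT.nd (nat_lit 78) (nat_lit 0) (nat_lit 0) (XT.lf (nat_lit 0) (nat_lit 297124104126) (nat_lit 76) (nat_lit 29140216290) (nat_lit 152) (nat_lit 373400147247) (nat_lit 8) (nat_lit 5) (nat_lit 9) (nat_lit 5) (nat_lit 10) (nat_lit 4) (nat_lit 341) (nat_lit 294) (nat_lit 145)) (XT.lf (nat_lit 0) (nat_lit 456479829047) (nat_lit 152) (nat_lit 189991254857) (nat_lit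 0) (nat_lit 102462647179) (nat_lit 8) (nat_lit 5) (nat_lit 10) (nat_lit 4) (nat_lit 8) (nat_lit 4) (nat_lit 342) (nat_lit 294) (nat_lit 144))))) (XT.nd (nat_lit 36894) (nat_lit 0) (nat_lit 5852) (XT.nd (nat_lit 78) (nat_lit 0) (nat_lit 0) (XT.lf (nat_lit 0) (nat_lit 40361893121) (nat_lit 76) (nat_lit 557872006284) (nat_lit 76) (nat_lit 203854570241) (nat_lit 7) (nat_lit 4) (nat_lit 8) (nat_lit 5) (nat_lit 8) (nat_lit 4) (nat_lit 343) (nat_lit 294) (nat_lit 143)) (XT.lf (nat_lit 0) (nat_lit 295927470450) (nat_lit 76) (nat_lit 458710160777) (nat_lit 76) (nat_lit 104692489388) (nat_lit 7) (nat_lit 4) (nat_lit 8) (nat_lit 5) (nat_lit 8) (nat_lit 4) (nat_lit 344) (nat_lit 294) (nat_lit 142))) (XT.nd (nat_lit 78) (nat_lit 0) (nat_lit 0) (XT.lf (nat_lit 0) (nat_lit 11180237962) (nat_lit 0) (nat_lit 11180237962) (nat_lit 684) (nat_lit 7897924781) (nat_lit 84) (nat_lit 5) (nat_lit 84) (nat_lit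 3) (nat_lit 93) (nat_lit 3) (nat_lit 295) (nat_lit 295) (nat_lit 190)) (XT.nd (nat_lit 78) (nat_lit 0) (nat_lit 76) (XT.lf (nat_lit 76) (nat_lit 4891222524) (nat_lit 0) (nat_lit 42056262419) (nat_lit 760) (nat_lit 15968043098) (nat_lit 85) (nat_lit 5) (nat_lit 84) (nat_lit 5) (nat_lit 94) (nat_lit 5) (nat_lit 296) (nat_lit 295) (nat_lit 189)) (XT.lf (nat_lit 0) (nat_lit 50415880966) (nat_lit 684) (nat_lit 13131142853) (nat_lit 760) (nat_lit 1905948036) (nat_lit 85) (nat_lit 5) (nat_lit 94) (nat_lit 5) (nat_lit 95) (nat_lit 5) (nat_lit 297) (nat_lit 295) (nat_lit 188)))))) (XT.nd (nat_lit 390) (nat_lit 1672) (nat_lit 0) (XT.nd (nat_lit 156) (nat_lit 608) (nat_lit 0) (XT.nd (nat_lit 78) (nat_lit 0) (nat_lit 76) (XT.lf (nat_lit 76) (nat_lit 35788231380) (nat_lit 0) (nat_lit 19639010481) (nat_lit 760) (nat_lit 12702900275) (nat_lit 86) (nat_lit 5) (nat_lit 85) (nat_lit 5) (nat_lit 95) (nat_lit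 5) (nat_lit 298) (nat_lit 295) (nat_lit 187)) (XT.lf (nat_lit 76) (nat_lit 18224198482) (nat_lit 0) (nat_lit 43563839630) (nat_lit 760) (nat_lit 9186026809) (nat_lit 87) (nat_lit 5) (nat_lit 86) (nat_lit 5) (nat_lit 96) (nat_lit 5) (nat_lit 299) (nat_lit 295) (nat_lit 186))) (XT.nd (nat_lit 78) (nat_lit 760) (nat_lit 0) (XT.lf (nat_lit 0) (nat_lit 69608829425) (nat_lit 684) (nat_lit 418316489) (nat_lit 760) (nat_lit 3970803865) (nat_lit 87) (nat_lit 5) (nat_lit 96) (nat_lit 5) (nat_lit 97) (nat_lit 5) (nat_lit 300) (nat_lit 295) (nat_lit 185)) (XT.nd (nat_lit 78) (nat_lit 0) (nat_lit 76) (XT.lf (nat_lit 0) (nat_lit 2418443307) (nat_lit 760) (nat_lit 20027245081) (nat_lit 836) (nat_lit 54734831437) (nat_lit 77) (nat_lit 5) (nat_lit 87) (nat_lit 5) (nat_lit 88) (nat_lit 5) (nat_lit 301) (nat_lit 295) (nat_lit 184)) (XT.lf (nat_lit 0) (nat_lit 10711311350) (nat_lit 760) (nat_lit 41115410291)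 (nat_lit 76) (nat_lit 28732656495) (nat_lit 78) (nat_lit 5) (nat_lit 88) (nat_lit 5) (nat_lit 79) (nat_lit 5) (nat_lit 302) (nat_lit 295) (nat_lit 183))))) (XT.nd (nat_lit 234) (nat_lit 912) (nat_lit 0) (XT.nd (nat_lit 78) (nat_lit 380) (nat_lit 0) (XT.lf (nat_lit 0) (nat_lit 20466236917) (nat_lit 456) (nat_lit 252234068) (nat_lit 532) (nat_lit 63437534663) (nat_lit 72) (nat_lit 5) (nat_lit 78) (nat_lit 5) (nat_lit 79) (nat_lit 5) (nat_lit 303) (nat_lit 295) (nat_lit 182)) (XT.nd (nat_lit 78) (nat_lit 380) (nat_lit 0) (XT.lf (nat_lit 0) (nat_lit 33118228049) (nat_lit 532) (nat_lit 440939583) (nat_lit 76) (nat_lit 54401597868) (nat_lit 72) (nat_lit 5) (nat_lit 79) (nat_lit 5) (nat_lit 73) (nat_lit 5) (nat_lit 304) (nat_lit 295) (nat_lit 181)) (XT.lf (nat_lit 0) (nat_lit 47958533256) (nat_lit 456) (nat_lit 22260401898) (nat_lit 76) (nat_lit 21778545733) (nat_lit 67) (nat_lit 5) (nat_lit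 73) (nat_lit 5) (nat_lit 68) (nat_lit 5) (nat_lit 305) (nat_lit 295) (nat_lit 180)))) (XT.nd (nat_lit 78) (nat_lit 608) (nat_lit 0) (XT.lf (nat_lit 0) (nat_lit 50228495364) (nat_lit 304) (nat_lit 15114038331) (nat_lit 380) (nat_lit 30946779160) (nat_lit 63) (nat_lit 5) (nat_lit 67) (nat_lit 5) (nat_lit 68) (nat_lit 5) (nat_lit 306) (nat_lit 295) (nat_lit 179)) (XT.nd (nat_lit 78) (nat_lit 304) (nat_lit 0) (XT.lf (nat_lit 0) (nat_lit 28621346414) (nat_lit 304) (nat_lit 57028751527) (nat_lit 380) (nat_lit 15197753929) (nat_lit 59) (nat_lit 5) (nat_lit 63) (nat_lit 5) (nat_lit 64) (nat_lit 5) (nat_lit 307) (nat_lit 295) (nat_lit 178)) (XT.lf (nat_lit 0) (nat_lit 2934880928) (nat_lit 304) (nat_lit 100689872368) (nat_lit 76) (nat_lit 2085826327) (nat_lit 55) (nat_lit 5) (nat_lit 59) (nat_lit 5) (nat_lit 56) (nat_lit 5) (nat_lit 308) (nat_lit 295) (nat_lit 177))))))))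
noncomputable def xc106 : XT := (XT.nd (nat_lit 1638) (nat_lit 760) (nat_lit 0) (XT.nd (nat_lit 780) (nat_lit 1064) (nat_lit 0) (XT.nd (nat_lit 390) (nat_lit 912) (nat_lit 0) (XT.nd (nat_lit 156) (nat_lit 532) (nat_lit 0) (XT.nd (nat_lit 78) (nat_lit 304) (nat_lit 0) (XT.lf (nat_lit 0) (nat_lit 24231955562) (nat_lit 304) (nat_lit 21112484059) (nat_lit 76) (nat_lit 65493116773) (nat_lit 55) (nat_lit 5) (nat_lit 59) (nat_lit 5) (nat_lit 56) (nat_lit 5) (nat_lit 309) (nat_lit 295) (nat_lit 176)) (XT.lf (nat_lit 0) (nat_lit 48569216237) (nat_lit 380) (nat_lit 49641048443) (nat_lit 76) (nat_lit 18097607649) (nat_lit 51) (nat_lit 5) (nat_lit 56) (nat_lit 5) (nat_lit 52) (nat_lit 5) (nat_lit 310) (nat_lit 295) (nat_lit 175))) (XT.nd (nat_lit 78) (nat_lit 304) (nat_lit 0) (XT.lf (nat_lit 0) (nat_lit 40550897479) (nat_lit 228) (nat_lit 36072999488) (nat_lit 304) (nat_lit 45503396485) (nat_lit 48)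 (nat_lit 5) (nat_lit 51) (nat_lit 5) (nat_lit 52) (nat_lit 5) (nat_lit 311) (nat_lit 295) (nat_lit 174)) (XT.nd (nat_lit 78) (nat_lit 76) (nat_lit 0) (XT.lf (nat_lit 0) (nat_lit 11220923177) (nat_lit 228) (nat_lit 97239652203) (nat_lit 304) (nat_lit 19874813460) (nat_lit 45) (nat_lit 5) (nat_lit 48) (nat_lit 5) (nat_lit 49) (nat_lit 5) (nat_lit 312) (nat_lit 295) (nat_lit 173)) (XT.lf (nat_lit 0) (nat_lit 9605870522) (nat_lit 304) (nat_lit 21368683751) (nat_lit 76) (nat_lit 103956907314) (nat_lit 44) (nat_lit 5) (nat_lit 48) (nat_lit 5) (nat_lit 45) (nat_lit 5) (nat_lit 313) (nat_lit 295) (nat_lit 172))))) (XT.nd (nat_lit 156) (nat_lit 456) (nat_lit 0) (XT.nd (nat_lit 78) (nat_lit 228) (nat_lit 0) (XT.lf (nat_lit 0) (nat_lit 42735697377) (nat_lit 304) (nat_lit 58231650307) (nat_lit 76) (nat_lit 40972232817) (nat_lit 41) (nat_lit 5) (nat_lit 45) (nat_lit 5) (nat_lit 42) (nat_lit 5) (nat_lit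 314) (nat_lit 295) (nat_lit 171)) (XT.lf (nat_lit 0) (nat_lit 49519351437) (nat_lit 228) (nat_lit 30669461146) (nat_lit 304) (nat_lit 69235892548) (nat_lit 38) (nat_lit 5) (nat_lit 41) (nat_lit 5) (nat_lit 42) (nat_lit 5) (nat_lit 315) (nat_lit 295) (nat_lit 170))) (XT.nd (nat_lit 78) (nat_lit 304) (nat_lit 0) (XT.lf (nat_lit 0) (nat_lit 10111248160) (nat_lit 152) (nat_lit 112421482997) (nat_lit 228) (nat_lit 34881182082) (nat_lit 36) (nat_lit 5) (nat_lit 38) (nat_lit 5) (nat_lit 39) (nat_lit 5) (nat_lit 316) (nat_lit 295) (nat_lit 169)) (XT.nd (nat_lit 78) (nat_lit 228) (nat_lit 0) (XT.lf (nat_lit 0) (nat_lit 4435966578) (nat_lit 228) (nat_lit 34039992466) (nat_lit 76) (nat_lit 127450306703) (nat_lit 35) (nat_lit 5) (nat_lit 38) (nat_lit 5) (nat_lit 36) (nat_lit 5) (nat_lit 317) (nat_lit 295) (nat_lit 168)) (XT.lf (nat_lit 0) (nat_lit 47785423083) (nat_lit 304) (nat_lit 85104435718) (nat_lit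 76) (nat_lit 42095707382) (nat_lit 32) (nat_lit 5) (nat_lit 36) (nat_lit 5) (nat_lit 33) (nat_lit 5) (nat_lit 318) (nat_lit 295) (nat_lit 167)))))) (XT.nd (nat_lit 390) (nat_lit 532) (nat_lit 0) (XT.nd (nat_lit 156) (nat_lit 380) (nat_lit 0) (XT.nd (nat_lit 78) (nat_lit 0) (nat_lit 0) (XT.lf (nat_lit 0) (nat_lit 40839097422) (nat_lit 152) (nat_lit 55652109212) (nat_lit 228) (nat_lit 88183986413) (nat_lit 30) (nat_lit 5) (nat_lit 32) (nat_lit 5) (nat_lit 33) (nat_lit 5) (nat_lit 319) (nat_lit 295) (nat_lit 166)) (XT.lf (nat_lit 0) (nat_lit 151033041788) (nat_lit 228) (nat_lit 15627521810) (nat_lit 76) (nat_lit 28382447866) (nat_lit 30) (nat_lit 5) (nat_lit 33) (nat_lit 5) (nat_lit 31) (nat_lit 5) (nat_lit 320) (nat_lit 295) (nat_lit 165))) (XT.nd (nat_lit 78) (nat_lit 152) (nat_lit 0) (XT.lf (nat_lit 0) (nat_lit 6531100203) (nat_lit 228) (nat_lit 80271506106) (nat_lit 76) (nat_lit 119287188519)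 (nat_lit 27) (nat_lit 5) (nat_lit 30) (nat_lit 5) (nat_lit 28) (nat_lit 5) (nat_lit 321) (nat_lit 295) (nat_lit 164)) (XT.nd (nat_lit 78) (nat_lit 0) (nat_lit 0) (XT.lf (nat_lit 0) (nat_lit 60868176282) (nat_lit 228) (nat_lit 155564520328) (nat_lit 76) (nat_lit 1486820422) (nat_lit 25) (nat_lit 5) (nat_lit 28) (nat_lit 5) (nat_lit 26) (nat_lit 5) (nat_lit 322) (nat_lit 295) (nat_lit 163)) (XT.lf (nat_lit 0) (nat_lit 122436501755) (nat_lit 228) (nat_lit 12855105245) (nat_lit 76) (nat_lit 95259796490) (nat_lit 25) (nat_lit 5) (nat_lit 28) (nat_lit 5) (nat_lit 26) (nat_lit 5) (nat_lit 323) (nat_lit 295) (nat_lit 162))))) (XT.nd (nat_lit 234) (nat_lit 228) (nat_lit 0) (XT.nd (nat_lit 78) (nat_lit 152) (nat_lit 0) (XT.lf (nat_lit 0) (nat_lit 145941243933) (nat_lit 152) (nat_lit 45267075563) (nat_lit 228) (nat_lit 52871620651) (nat_lit 23) (nat_lit 5) (nat_lit 25) (nat_lit 5) (nat_lit 26) (nat_lit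 5) (nat_lit 324) (nat_lit 295) (nat_lit 161)) (XT.nd (nat_lit 78) (nat_lit 0) (nat_lit 0) (XT.lf (nat_lit 0) (nat_lit 8586572126) (nat_lit 152) (nat_lit 198394049153) (nat_lit 76) (nat_lit 51604197184) (nat_lit 21) (nat_lit 5) (nat_lit 23) (nat_lit 5) (nat_lit 22) (nat_lit 5) (nat_lit 325) (nat_lit 295) (nat_lit 160)) (XT.lf (nat_lit 0) (nat_lit 75634155955) (nat_lit 152) (nat_lit 41157154996) (nat_lit 76) (nat_lit 157289184201) (nat_lit 21) (nat_lit 5) (nat_lit 23) (nat_lit 5) (nat_lit 22) (nat_lit 5) (nat_lit 326) (nat_lit 295) (nat_lit 159)))) (XT.nd (nat_lit 78) (nat_lit 76) (nat_lit 0) (XT.lf (nat_lit 0) (nat_lit 132911949073) (nat_lit 152) (nat_lit 17208273845) (nat_lit 228) (nat_lit 140591869687) (nat_lit 19) (nat_lit 5) (nat_lit 21) (nat_lit 5) (nat_lit 22) (nat_lit 5) (nat_lit 327) (nat_lit 295) (nat_lit 158)) (XT.nd (nat_lit 78) (nat_lit 0) (nat_lit 0) (XT.lf (nat_lit 0) (nat_lit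 12722132482) (nat_lit 76) (nat_lit 220180403533) (nat_lit 152) (nat_lit 75654814217) (nat_lit 18) (nat_lit 5) (nat_lit 19) (nat_lit 5) (nat_lit 20) (nat_lit 4) (nat_lit 328) (nat_lit 295) (nat_lit 157)) (XT.lf (nat_lit 0) (nat_lit 202220719269) (nat_lit 76) (nat_lit 123120561632) (nat_lit 152) (nat_lit 2337255617) (nat_lit 18) (nat_lit 5) (nat_lit 19) (nat_lit 5) (nat_lit 20) (nat_lit 4) (nat_lit 329) (nat_lit 295) (nat_lit 156))))))) (XT.nd (nat_lit 780) (nat_lit 76) (nat_lit 0) (XT.nd (nat_lit 390) (nat_lit 228) (nat_lit 0) (XT.nd (nat_lit 156) (nat_lit 228) (nat_lit 0) (XT.nd (nat_lit 78) (nat_lit 0) (nat_lit 0) (XT.lf (nat_lit 0) (nat_lit 59245558948) (nat_lit 152) (nat_lit 16065206505) (nat_lit 228) (nat_lit 272912433735) (nat_lit 15) (nat_lit 5) (nat_lit 17) (nat_lit 5) (nat_lit 18) (nat_lit 5) (nat_lit 330) (nat_lit 295) (nat_lit 155)) (XT.lf (nat_lit 0) (nat_lit 162865008994) (nat_lit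 228) (nat_lit 108727117209) (nat_lit 76) (nat_lit 98628579860) (nat_lit 15) (nat_lit 5) (nat_lit 18) (nat_lit 5) (nat_lit 16) (nat_lit 4) (nat_lit 331) (nat_lit 295) (nat_lit 154))) (XT.nd (nat_lit 78) (nat_lit 152) (nat_lit 0) (XT.lf (nat_lit 0) (nat_lit 88504656030) (nat_lit 76) (nat_lit 170571283928) (nat_lit 152) (nat_lit 134819456422) (nat_lit 14) (nat_lit 5) (nat_lit 15) (nat_lit 5) (nat_lit 16) (nat_lit 4) (nat_lit 332) (nat_lit 295) (nat_lit 153)) (XT.nd (nat_lit 78) (nat_lit 152) (nat_lit 0) (XT.lf (nat_lit 0) (nat_lit 305397003064) (nat_lit 76) (nat_lit 59480368708) (nat_lit 152) (nat_lit 54492009103) (nat_lit 14) (nat_lit 5) (nat_lit 15) (nat_lit 5) (nat_lit 16) (nat_lit 4) (nat_lit 333) (nat_lit 295) (nat_lit 152)) (XT.lf (nat_lit 0) (nat_lit 33693924224) (nat_lit 152) (nat_lit 352453315991) (nat_lit 76) (nat_lit 60585616228) (nat_lit 12) (nat_lit 5) (nat_lit 14) (nat_lit 5)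 (nat_lit 13) (nat_lit 4) (nat_lit 334) (nat_lit 295) (nat_lit 151))))) (XT.nd (nat_lit 156) (nat_lit 152) (nat_lit 0) (XT.nd (nat_lit 78) (nat_lit 76) (nat_lit 0) (XT.lf (nat_lit 0) (nat_lit 130071640771) (nat_lit 152) (nat_lit 154879477329) (nat_lit 76) (nat_lit 191137324439) (nat_lit 12) (nat_lit 5) (nat_lit 14) (nat_lit 5) (nat_lit 13) (nat_lit 4) (nat_lit 335) (nat_lit 295) (nat_lit 150)) (XT.lf (nat_lit 0) (nat_lit 60434040927) (nat_lit 76) (nat_lit 174668801279) (nat_lit 152) (nat_lit 272642470144) (nat_lit 11) (nat_lit 5) (nat_lit 12) (nat_lit 5) (nat_lit 13) (nat_lit 4) (nat_lit 336) (nat_lit 295) (nat_lit 149))) (XT.nd (nat_lit 78) (nat_lit 152) (nat_lit 0) (XT.lf (nat_lit 0) (nat_lit 298502864073) (nat_lit 76) (nat_lit 52731312226) (nat_lit 152) (nat_lit 190565673808) (nat_lit 11) (nat_lit 5) (nat_lit 12) (nat_lit 5) (nat_lit 13) (nat_lit 4) (nat_lit 337) (nat_lit 295) (nat_lit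 148)) (XT.nd (nat_lit 78) (nat_lit 152) (nat_lit 0) (XT.lf (nat_lit 0) (nat_lit 477888574877) (nat_lit 152) (nat_lit 24194810171) (nat_lit 0) (nat_lit 76433738126) (nat_lit 11) (nat_lit 5) (nat_lit 13) (nat_lit 4) (nat_lit 11) (nat_lit 4) (nat_lit 338) (nat_lit 295) (nat_lit 147)) (XT.lf (nat_lit 0) (nat_lit 986911801) (nat_lit 152) (nat_lit 399432003752) (nat_lit 76) (nat_lit 217537019345) (nat_lit 9) (nat_lit 5) (nat_lit 11) (nat_lit 5) (nat_lit 10) (nat_lit 4) (nat_lit 339) (nat_lit 295) (nat_lit 146)))))) (XT.nd (nat_lit 37284) (nat_lit 0) (nat_lit 5244) (XT.nd (nat_lit 156) (nat_lit 0) (nat_lit 0) (XT.nd (nat_lit 78) (nat_lit 76) (nat_lit 0) (XT.lf (nat_lit 0) (nat_lit 107681352408) (nat_lit 152) (nat_lit 180708711801) (nat_lit 76) (nat_lit 372053541186) (nat_lit 9) (nat_lit 5) (nat_lit 11) (nat_lit 5) (nat_lit 10) (nat_lit 4) (nat_lit 340) (nat_lit 295) (nat_lit 145)) (XT.lf (nat_lit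 0) (nat_lit 57347549638) (nat_lit 76) (nat_lit 166458948951) (nat_lit 152) (nat_lit 482479033558) (nat_lit 8) (nat_lit 5) (nat_lit 9) (nat_lit 5) (nat_lit 10) (nat_lit 4) (nat_lit 341) (nat_lit 295) (nat_lit 144))) (XT.nd (nat_lit 78) (nat_lit 0) (nat_lit 0) (XT.lf (nat_lit 0) (nat_lit 320901004438) (nat_lit 76) (nat_lit 31468285216) (nat_lit 152) (nat_lit 403268141850) (nat_lit 8) (nat_lit 5) (nat_lit 9) (nat_lit 5) (nat_lit 10) (nat_lit 4) (nat_lit 342) (nat_lit 295) (nat_lit 143)) (XT.nd (nat_lit 36972) (nat_lit 0) (nat_lit 5776) (XT.lf (nat_lit 0) (nat_lit 493001801260) (nat_lit 152) (nat_lit 205183965987) (nat_lit 0) (nat_lit 110662480813) (nat_lit 8) (nat_lit 5) (nat_lit 10) (nat_lit 4) (nat_lit 8) (nat_lit 4) (nat_lit 343) (nat_lit 295) (nat_lit 142)) (XT.lf (nat_lit 0) (nat_lit 12087403523) (nat_lit 0) (nat_lit 12087403523) (nat_lit 684) (nat_lit 8502931846) (nat_lit 84) (nat_lit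 5) (nat_lit 84) (nat_lit 3) (nat_lit 93) (nat_lit 3) (nat_lit 296) (nat_lit 296) (nat_lit 188))))) (XT.nd (nat_lit 234) (nat_lit 532) (nat_lit 0) (XT.nd (nat_lit 78) (nat_lit 0) (nat_lit 76) (XT.lf (nat_lit 76) (nat_lit 5309838001) (nat_lit 0) (nat_lit 45440713053) (nat_lit 760) (nat_lit 17195746200) (nat_lit 85) (nat_lit 5) (nat_lit 84) (nat_lit 5) (nat_lit 94) (nat_lit 5) (nat_lit 297) (nat_lit 296) (nat_lit 187)) (XT.nd (nat_lit 78) (nat_lit 0) (nat_lit 0) (XT.lf (nat_lit 0) (nat_lit 54492629079) (nat_lit 684) (nat_lit 14153761897) (nat_lit 760) (nat_lit 2040543206) (nat_lit 85) (nat_lit 5) (nat_lit 94) (nat_lit 5) (nat_lit 95) (nat_lit 5) (nat_lit 298) (nat_lit 296) (nat_lit 186)) (XT.lf (nat_lit 76) (nat_lit 38677950975) (nat_lit 0) (nat_lit 21224143559) (nat_lit 760) (nat_lit 13676331288) (nat_lit 86) (nat_lit 5) (nat_lit 85) (nat_lit 5) (nat_lit 95) (nat_lit 5) (nat_lit 299) (nat_lit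 296) (nat_lit 185)))) (XT.nd (nat_lit 78) (nat_lit 684) (nat_lit 0) (XT.lf (nat_lit 76) (nat_lit 19709881268) (nat_lit 0) (nat_lit 47059091020) (nat_lit 760) (nat_lit 9881036215) (nat_lit 87) (nat_lit 5) (nat_lit 86) (nat_lit 5) (nat_lit 96) (nat_lit 5) (nat_lit 300) (nat_lit 296) (nat_lit 184)) (XT.nd (nat_lit 78) (nat_lit 760) (nat_lit 0) (XT.lf (nat_lit 0) (nat_lit 75212473508) (nat_lit 684) (nat_lit 424108755) (nat_lit 760) (nat_lit 4279376006) (nat_lit 87) (nat_lit 5) (nat_lit 96) (nat_lit 5) (nat_lit 97) (nat_lit 5) (nat_lit 301) (nat_lit 296) (nat_lit 183)) (XT.lf (nat_lit 0) (nat_lit 2645291144) (nat_lit 760) (nat_lit 21601779748) (nat_lit 836) (nat_lit 59106150819) (nat_lit 77) (nat_lit 5) (nat_lit 87) (nat_lit 5) (nat_lit 88) (nat_lit 5) (nat_lit 302) (nat_lit 296) (nat_lit 182))))))))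
noncomputable def xc107 : XT := (XT.nd (nat_lit 1638) (nat_lit 1292) (nat_lit 0) (XT.nd (nat_lit 780) (nat_lit 1748) (nat_lit 0) (XT.nd (nat_lit 390) (nat_lit 1140) (nat_lit 0) (XT.nd (nat_lit 156) (nat_lit 684) (nat_lit 0) (XT.nd (nat_lit 78) (nat_lit 456) (nat_lit 0) (XT.lf (nat_lit 0) (nat_lit 11599453430) (nat_lit 760) (nat_lit 44376492085) (nat_lit 76) (nat_lit 31026555196) (nat_lit 78) (nat_lit 5) (nat_lit 88) (nat_lit 5) (nat_lit 79) (nat_lit 5) (nat_lit 303) (nat_lit 296) (nat_lit 181)) (XT.lf (nat_lit 0) (nat_lit 22130463490) (nat_lit 456) (nat_lit 274828897) (nat_lit 532) (nat_lit 68481665585) (nat_lit 72) (nat_lit 5) (nat_lit 78) (nat_lit 5) (nat_lit 79) (nat_lit 5) (nat_lit 304) (nat_lit 296) (nat_lit 180))) (XT.nd (nat_lit 78) (nat_lit 684) (nat_lit 0) (XT.lf (nat_lit 0) (nat_lit 35794821480) (nat_lit 532) (nat_lit 449831908) (nat_lit 76) (nat_lit 58751560166) (nat_lit 72)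 (nat_lit 5) (nat_lit 79) (nat_lit 5) (nat_lit 73) (nat_lit 5) (nat_lit 305) (nat_lit 296) (nat_lit 179)) (XT.nd (nat_lit 78) (nat_lit 304) (nat_lit 0) (XT.lf (nat_lit 0) (nat_lit 51820730681) (nat_lit 456) (nat_lit 24014665152) (nat_lit 76) (nat_lit 23520555540) (nat_lit 67) (nat_lit 5) (nat_lit 73) (nat_lit 5) (nat_lit 68) (nat_lit 5) (nat_lit 306) (nat_lit 296) (nat_lit 178)) (XT.lf (nat_lit 0) (nat_lit 54272189239) (nat_lit 304) (nat_lit 16321768721) (nat_lit 380) (nat_lit 33397250468) (nat_lit 63) (nat_lit 5) (nat_lit 67) (nat_lit 5) (nat_lit 68) (nat_lit 5) (nat_lit 307) (nat_lit 296) (nat_lit 177))))) (XT.nd (nat_lit 156) (nat_lit 532) (nat_lit 0) (XT.nd (nat_lit 78) (nat_lit 304) (nat_lit 0) (XT.lf (nat_lit 0) (nat_lit 30936538258) (nat_lit 304) (nat_lit 61588227724) (nat_lit 380) (nat_lit 16389736234) (nat_lit 59) (nat_lit 5) (nat_lit 63) (nat_lit 5) (nat_lit 64) (nat_lit 5) (nat_lit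 308) (nat_lit 296) (nat_lit 176)) (XT.lf (nat_lit 0) (nat_lit 3191482712) (nat_lit 304) (nat_lit 108718840411) (nat_lit 76) (nat_lit 2255972805) (nat_lit 55) (nat_lit 5) (nat_lit 59) (nat_lit 5) (nat_lit 56) (nat_lit 5) (nat_lit 309) (nat_lit 296) (nat_lit 175))) (XT.nd (nat_lit 78) (nat_lit 532) (nat_lit 0) (XT.lf (nat_lit 0) (nat_lit 26190707664) (nat_lit 304) (nat_lit 22777203388) (nat_lit 76) (nat_lit 70735603496) (nat_lit 55) (nat_lit 5) (nat_lit 59) (nat_lit 5) (nat_lit 56) (nat_lit 5) (nat_lit 310) (nat_lit 296) (nat_lit 174)) (XT.nd (nat_lit 78) (nat_lit 228) (nat_lit 0) (XT.lf (nat_lit 0) (nat_lit 52473880794) (nat_lit 380) (nat_lit 53588186077) (nat_lit 76) (nat_lit 19549445016) (nat_lit 51) (nat_lit 5) (nat_lit 56) (nat_lit 5) (nat_lit 52) (nat_lit 5) (nat_lit 311) (nat_lit 296) (nat_lit 173)) (XT.lf (nat_lit 0) (nat_lit 43818066153) (nat_lit 228) (nat_lit 38953813603) (nat_lit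 304) (nat_lit 49124662265) (nat_lit 48) (nat_lit 5) (nat_lit 51) (nat_lit 5) (nat_lit 52) (nat_lit 5) (nat_lit 312) (nat_lit 296) (nat_lit 172)))))) (XT.nd (nat_lit 390) (nat_lit 836) (nat_lit 0) (XT.nd (nat_lit 156) (nat_lit 608) (nat_lit 0) (XT.nd (nat_lit 78) (nat_lit 76) (nat_lit 0) (XT.lf (nat_lit 0) (nat_lit 12141509365) (nat_lit 228) (nat_lit 105013074863) (nat_lit 304) (nat_lit 21446748545) (nat_lit 45) (nat_lit 5) (nat_lit 48) (nat_lit 5) (nat_lit 49) (nat_lit 5) (nat_lit 313) (nat_lit 296) (nat_lit 171)) (XT.lf (nat_lit 0) (nat_lit 10390518201) (nat_lit 304) (nat_lit 23056402806) (nat_lit 76) (nat_lit 112278223004) (nat_lit 44) (nat_lit 5) (nat_lit 48) (nat_lit 5) (nat_lit 45) (nat_lit 5) (nat_lit 314) (nat_lit 296) (nat_lit 170))) (XT.nd (nat_lit 78) (nat_lit 380) (nat_lit 0) (XT.lf (nat_lit 0) (nat_lit 46169944287) (nat_lit 304) (nat_lit 62868650331) (nat_lit 76) (nat_lit 44255359062)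 (nat_lit 41) (nat_lit 5) (nat_lit 45) (nat_lit 5) (nat_lit 42) (nat_lit 5) (nat_lit 315) (nat_lit 296) (nat_lit 169)) (XT.nd (nat_lit 78) (nat_lit 152) (nat_lit 0) (XT.lf (nat_lit 0) (nat_lit 53501495798) (nat_lit 228) (nat_lit 33116994393) (nat_lit 304) (nat_lit 74759440770) (nat_lit 38) (nat_lit 5) (nat_lit 41) (nat_lit 5) (nat_lit 42) (nat_lit 5) (nat_lit 316) (nat_lit 296) (nat_lit 168)) (XT.lf (nat_lit 0) (nat_lit 10940477174) (nat_lit 152) (nat_lit 121408770100) (nat_lit 228) (nat_lit 37657063818) (nat_lit 36) (nat_lit 5) (nat_lit 38) (nat_lit 5) (nat_lit 39) (nat_lit 5) (nat_lit 317) (nat_lit 296) (nat_lit 167))))) (XT.nd (nat_lit 234) (nat_lit 380) (nat_lit 0) (XT.nd (nat_lit 78) (nat_lit 380) (nat_lit 0) (XT.lf (nat_lit 0) (nat_lit 4803941245) (nat_lit 228) (nat_lit 36743917586) (nat_lit 76) (nat_lit 137651835386) (nat_lit 35) (nat_lit 5) (nat_lit 38) (nat_lit 5) (nat_lit 36)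 (nat_lit 5) (nat_lit 318) (nat_lit 296) (nat_lit 166)) (XT.nd (nat_lit 78) (nat_lit 152) (nat_lit 0) (XT.lf (nat_lit 0) (nat_lit 51620765960) (nat_lit 304) (nat_lit 91893810604) (nat_lit 76) (nat_lit 45469192868) (nat_lit 32) (nat_lit 5) (nat_lit 36) (nat_lit 5) (nat_lit 33) (nat_lit 5) (nat_lit 319) (nat_lit 296) (nat_lit 165)) (XT.lf (nat_lit 0) (nat_lit 44124380342) (nat_lit 152) (nat_lit 60097988711) (nat_lit 228) (nat_lit 95226230779) (nat_lit 30) (nat_lit 5) (nat_lit 32) (nat_lit 5) (nat_lit 33) (nat_lit 5) (nat_lit 320) (nat_lit 296) (nat_lit 164)))) (XT.nd (nat_lit 78) (nat_lit 380) (nat_lit 0) (XT.lf (nat_lit 0) (nat_lit 163126762982) (nat_lit 228) (nat_lit 16860440599) (nat_lit 76) (nat_lit 30658680680) (nat_lit 30) (nat_lit 5) (nat_lit 33) (nat_lit 5) (nat_lit 31) (nat_lit 5) (nat_lit 321) (nat_lit 296) (nat_lit 163)) (XT.nd (nat_lit 78) (nat_lit 152) (nat_lit 0) (XT.lf (nat_lit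 0) (nat_lit 7064288733) (nat_lit 228) (nat_lit 86676328380) (nat_lit 76) (nat_lit 128835813729) (nat_lit 27) (nat_lit 5) (nat_lit 30) (nat_lit 5) (nat_lit 28) (nat_lit 5) (nat_lit 322) (nat_lit 296) (nat_lit 162)) (XT.lf (nat_lit 0) (nat_lit 65747884363) (nat_lit 228) (nat_lit 167993092219) (nat_lit 76) (nat_lit 1611577496) (nat_lit 25) (nat_lit 5) (nat_lit 28) (nat_lit 5) (nat_lit 26) (nat_lit 5) (nat_lit 323) (nat_lit 296) (nat_lit 161))))))) (XT.nd (nat_lit 858) (nat_lit 456) (nat_lit 0) (XT.nd (nat_lit 390) (nat_lit 380) (nat_lit 0) (XT.nd (nat_lit 156) (nat_lit 304) (nat_lit 0) (XT.nd (nat_lit 78) (nat_lit 152) (nat_lit 0) (XT.lf (nat_lit 0) (nat_lit 132240916320) (nat_lit 228) (nat_lit 13868152799) (nat_lit 76) (nat_lit 102885961172) (nat_lit 25) (nat_lit 5) (nat_lit 28) (nat_lit 5) (nat_lit 26) (nat_lit 5) (nat_lit 324) (nat_lit 296) (nat_lit 160)) (XT.lf (nat_lit 0) (nat_lit 157631236749)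 (nat_lit 152) (nat_lit 48882768845) (nat_lit 228) (nat_lit 57091868778) (nat_lit 23) (nat_lit 5) (nat_lit 25) (nat_lit 5) (nat_lit 26) (nat_lit 5) (nat_lit 325) (nat_lit 296) (nat_lit 159))) (XT.nd (nat_lit 78) (nat_lit 152) (nat_lit 0) (XT.lf (nat_lit 0) (nat_lit 9282308132) (nat_lit 152) (nat_lit 214250862014) (nat_lit 76) (nat_lit 55737984499) (nat_lit 21) (nat_lit 5) (nat_lit 23) (nat_lit 5) (nat_lit 22) (nat_lit 5) (nat_lit 326) (nat_lit 296) (nat_lit 158)) (XT.nd (nat_lit 78) (nat_lit 152) (nat_lit 0) (XT.lf (nat_lit 0) (nat_lit 81693046058) (nat_lit 152) (nat_lit 44436106033) (nat_lit 76) (nat_lit 169877366659) (nat_lit 21) (nat_lit 5) (nat_lit 23) (nat_lit 5) (nat_lit 22) (nat_lit 5) (nat_lit 327) (nat_lit 296) (nat_lit 157)) (XT.lf (nat_lit 0) (nat_lit 143557934393) (nat_lit 152) (nat_lit 18579663141) (nat_lit 228) (nat_lit 151831067110) (nat_lit 19) (nat_lit 5) (nat_lit 21) (nat_lit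 5) (nat_lit 22) (nat_lit 5) (nat_lit 328) (nat_lit 296) (nat_lit 156))))) (XT.nd (nat_lit 234) (nat_lit 76) (nat_lit 0) (XT.nd (nat_lit 78) (nat_lit 228) (nat_lit 0) (XT.lf (nat_lit 0) (nat_lit 13752665678) (nat_lit 76) (nat_lit 237789530908) (nat_lit 152) (nat_lit 81699361809) (nat_lit 18) (nat_lit 5) (nat_lit 19) (nat_lit 5) (nat_lit 20) (nat_lit 4) (nat_lit 329) (nat_lit 296) (nat_lit 155)) (XT.nd (nat_lit 78) (nat_lit 228) (nat_lit 0) (XT.lf (nat_lit 0) (nat_lit 218410194031) (nat_lit 76) (nat_lit 132965294610) (nat_lit 152) (nat_lit 2516979080) (nat_lit 18) (nat_lit 5) (nat_lit 19) (nat_lit 5) (nat_lit 20) (nat_lit 4) (nat_lit 330) (nat_lit 296) (nat_lit 154)) (XT.lf (nat_lit 0) (nat_lit 63996735378) (nat_lit 152) (nat_lit 17345575723) (nat_lit 228) (nat_lit 294738404109) (nat_lit 15) (nat_lit 5) (nat_lit 17) (nat_lit 5) (nat_lit 18) (nat_lit 5) (nat_lit 331) (nat_lit 296) (nat_lit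 153)))) (XT.nd (nat_lit 78) (nat_lit 76) (nat_lit 0) (XT.lf (nat_lit 0) (nat_lit 175900469056) (nat_lit 228) (nat_lit 117414364412) (nat_lit 76) (nat_lit 106523210840) (nat_lit 15) (nat_lit 5) (nat_lit 18) (nat_lit 5) (nat_lit 16) (nat_lit 4) (nat_lit 332) (nat_lit 296) (nat_lit 152)) (XT.nd (nat_lit 78) (nat_lit 0) (nat_lit 0) (XT.lf (nat_lit 0) (nat_lit 95595476021) (nat_lit 76) (nat_lit 184212497937) (nat_lit 152) (nat_lit 145598751312) (nat_lit 14) (nat_lit 5) (nat_lit 15) (nat_lit 5) (nat_lit 16) (nat_lit 4) (nat_lit 333) (nat_lit 296) (nat_lit 151)) (XT.lf (nat_lit 0) (nat_lit 329838436929) (nat_lit 76) (nat_lit 64234641995) (nat_lit 152) (nat_lit 58845572032) (nat_lit 14) (nat_lit 5) (nat_lit 15) (nat_lit 5) (nat_lit 16) (nat_lit 4) (nat_lit 334) (nat_lit 296) (nat_lit 150)))))) (XT.nd (nat_lit 390) (nat_lit 228) (nat_lit 0) (XT.nd (nat_lit 156) (nat_lit 76) (nat_lit 0) (XT.nd (nat_lit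 78) (nat_lit 0) (nat_lit 0) (XT.lf (nat_lit 0) (nat_lit 36394845852) (nat_lit 152) (nat_lit 380639939132) (nat_lit 76) (nat_lit 65436425605) (nat_lit 12) (nat_lit 5) (nat_lit 14) (nat_lit 5) (nat_lit 13) (nat_lit 4) (nat_lit 335) (nat_lit 296) (nat_lit 149)) (XT.lf (nat_lit 0) (nat_lit 140482379153) (nat_lit 152) (nat_lit 167260907610) (nat_lit 76) (nat_lit 206431977134) (nat_lit 12) (nat_lit 5) (nat_lit 14) (nat_lit 5) (nat_lit 13) (nat_lit 4) (nat_lit 336) (nat_lit 296) (nat_lit 148))) (XT.nd (nat_lit 78) (nat_lit 0) (nat_lit 0) (XT.lf (nat_lit 0) (nat_lit 65277304111) (nat_lit 76) (nat_lit 188638535026) (nat_lit 152) (nat_lit 294448856307) (nat_lit 11) (nat_lit 5) (nat_lit 12) (nat_lit 5) (nat_lit 13) (nat_lit 4) (nat_lit 337) (nat_lit 296) (nat_lit 147)) (XT.nd (nat_lit 78) (nat_lit 0) (nat_lit 0) (XT.lf (nat_lit 0) (nat_lit 322391000522) (nat_lit 76) (nat_lit 56946326135) (nat_lit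 152) (nat_lit 205806287483) (nat_lit 11) (nat_lit 5) (nat_lit 12) (nat_lit 5) (nat_lit 13) (nat_lit 4) (nat_lit 338) (nat_lit 296) (nat_lit 146)) (XT.lf (nat_lit 0) (nat_lit 516123800458) (nat_lit 152) (nat_lit 26122916471) (nat_lit 0) (nat_lit 82551566189) (nat_lit 11) (nat_lit 5) (nat_lit 13) (nat_lit 4) (nat_lit 11) (nat_lit 4) (nat_lit 339) (nat_lit 296) (nat_lit 145))))) (XT.nd (nat_lit 234) (nat_lit 0) (nat_lit 0) (XT.nd (nat_lit 78) (nat_lit 76) (nat_lit 0) (XT.lf (nat_lit 0) (nat_lit 1069876679) (nat_lit 152) (nat_lit 431379275311) (nat_lit 76) (nat_lit 234943054521) (nat_lit 9) (nat_lit 5) (nat_lit 11) (nat_lit 5) (nat_lit 10) (nat_lit 4) (nat_lit 340) (nat_lit 296) (nat_lit 144)) (XT.nd (nat_lit 78) (nat_lit 76) (nat_lit 0) (XT.lf (nat_lit 0) (nat_lit 116299575353) (nat_lit 152) (nat_lit 195158659910) (nat_lit 76) (nat_lit 401820670434) (nat_lit 9) (nat_lit 5) (nat_lit 11) (nat_lit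 5) (nat_lit 10) (nat_lit 4) (nat_lit 341) (nat_lit 296) (nat_lit 143)) (XT.lf (nat_lit 0) (nat_lit 61941809148) (nat_lit 76) (nat_lit 179772749704) (nat_lit 152) (nat_lit 521073636635) (nat_lit 8) (nat_lit 5) (nat_lit 9) (nat_lit 5) (nat_lit 10) (nat_lit 4) (nat_lit 342) (nat_lit 296) (nat_lit 142)))) (XT.nd (nat_lit 37050) (nat_lit 0) (nat_lit 5776) (XT.lf (nat_lit 0) (nat_lit 346579062144) (nat_lit 76) (nat_lit 33983048808) (nat_lit 152) (nat_lit 435526149116) (nat_lit 8) (nat_lit 5) (nat_lit 9) (nat_lit 5) (nat_lit 10) (nat_lit 4) (nat_lit 343) (nat_lit 296) (nat_lit 141)) (XT.nd (nat_lit 78) (nat_lit 0) (nat_lit 0) (XT.lf (nat_lit 0) (nat_lit 13065323894) (nat_lit 0) (nat_lit 13065323894) (nat_lit 684) (nat_lit 9160166636) (nat_lit 84) (nat_lit 5) (nat_lit 84) (nat_lit 3) (nat_lit 93) (nat_lit 3) (nat_lit 297) (nat_lit 297) (nat_lit 186)) (XT.lf (nat_lit 76) (nat_lit 5758045545) (nat_lit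 0) (nat_lit 49093073699) (nat_lit 760) (nat_lit 18528761567) (nat_lit 85) (nat_lit 5) (nat_lit 84) (nat_lit 5) (nat_lit 94) (nat_lit 5) (nat_lit 298) (nat_lit 297) (nat_lit 185))))))))
noncomputable def xc108 : XT := (XT.nd (nat_lit 1638) (nat_lit 1824) (nat_lit 0) (XT.nd (nat_lit 780) (nat_lit 2128) (nat_lit 0) (XT.nd (nat_lit 390) (nat_lit 1064) (nat_lit 0) (XT.nd (nat_lit 156) (nat_lit 608) (nat_lit 0) (XT.nd (nat_lit 78) (nat_lit 0) (nat_lit 0) (XT.lf (nat_lit 0) (nat_lit 58889314470) (nat_lit 684) (nat_lit 15262166772) (nat_lit 760) (nat_lit 2188456866) (nat_lit 85) (nat_lit 5) (nat_lit 94) (nat_lit 5) (nat_lit 95) (nat_lit 5) (nat_lit 299) (nat_lit 297) (nat_lit 184)) (XT.lf (nat_lit 76) (nat_lit 41795044635) (nat_lit 0) (nat_lit 22934088281) (nat_lit 760) (nat_lit 14733742825) (nat_lit 86) (nat_lit 5) (nat_lit 85) (nat_lit 5) (nat_lit 95) (nat_lit 5) (nat_lit 300) (nat_lit 297)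 (nat_lit 183))) (XT.nd (nat_lit 78) (nat_lit 684) (nat_lit 0) (XT.lf (nat_lit 76) (nat_lit 21310460270) (nat_lit 0) (nat_lit 50832515335) (nat_lit 760) (nat_lit 10637334666) (nat_lit 87) (nat_lit 5) (nat_lit 86) (nat_lit 5) (nat_lit 96) (nat_lit 5) (nat_lit 301) (nat_lit 297) (nat_lit 182)) (XT.nd (nat_lit 78) (nat_lit 760) (nat_lit 0) (XT.lf (nat_lit 0) (nat_lit 81259424860) (nat_lit 684) (nat_lit 434312272) (nat_lit 760) (nat_lit 4613931018) (nat_lit 87) (nat_lit 5) (nat_lit 96) (nat_lit 5) (nat_lit 97) (nat_lit 5) (nat_lit 302) (nat_lit 297) (nat_lit 181)) (XT.lf (nat_lit 0) (nat_lit 2885525865) (nat_lit 760) (nat_lit 23306221049) (nat_lit 836) (nat_lit 63828241022) (nat_lit 77) (nat_lit 5) (nat_lit 87) (nat_lit 5) (nat_lit 88) (nat_lit 5) (nat_lit 303) (nat_lit 297) (nat_lit 180))))) (XT.nd (nat_lit 156) (nat_lit 684) (nat_lit 0) (XT.nd (nat_lit 78) (nat_lit 456) (nat_lit 0) (XT.lf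 (nat_lit 0) (nat_lit 12554190546) (nat_lit 760) (nat_lit 47902476482) (nat_lit 76) (nat_lit 33504638273) (nat_lit 78) (nat_lit 5) (nat_lit 88) (nat_lit 5) (nat_lit 79) (nat_lit 5) (nat_lit 304) (nat_lit 297) (nat_lit 179)) (XT.lf (nat_lit 0) (nat_lit 23923986663) (nat_lit 456) (nat_lit 298886628) (nat_lit 532) (nat_lit 73933731197) (nat_lit 72) (nat_lit 5) (nat_lit 78) (nat_lit 5) (nat_lit 79) (nat_lit 5) (nat_lit 305) (nat_lit 297) (nat_lit 178))) (XT.nd (nat_lit 78) (nat_lit 684) (nat_lit 0) (XT.lf (nat_lit 0) (nat_lit 38681671247) (nat_lit 532) (nat_lit 463199427) (nat_lit 76) (nat_lit 63449828386) (nat_lit 72) (nat_lit 5) (nat_lit 79) (nat_lit 5) (nat_lit 73) (nat_lit 5) (nat_lit 306) (nat_lit 297) (nat_lit 177)) (XT.nd (nat_lit 78) (nat_lit 304) (nat_lit 0) (XT.lf (nat_lit 0) (nat_lit 55988263933) (nat_lit 456) (nat_lit 25913059816) (nat_lit 76) (nat_lit 25401965200) (nat_lit 67)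 (nat_lit 5) (nat_lit 73) (nat_lit 5) (nat_lit 68) (nat_lit 5) (nat_lit 307) (nat_lit 297) (nat_lit 176)) (XT.lf (nat_lit 0) (nat_lit 58635752999) (nat_lit 304) (nat_lit 17626316222) (nat_lit 380) (nat_lit 36047364675) (nat_lit 63) (nat_lit 5) (nat_lit 67) (nat_lit 5) (nat_lit 68) (nat_lit 5) (nat_lit 308) (nat_lit 297) (nat_lit 175)))))) (XT.nd (nat_lit 390) (nat_lit 988) (nat_lit 0) (XT.nd (nat_lit 156) (nat_lit 532) (nat_lit 0) (XT.nd (nat_lit 78) (nat_lit 304) (nat_lit 0) (XT.lf (nat_lit 0) (nat_lit 33433309854) (nat_lit 304) (nat_lit 66512864881) (nat_lit 380) (nat_lit 17680477882) (nat_lit 59) (nat_lit 5) (nat_lit 63) (nat_lit 5) (nat_lit 64) (nat_lit 5) (nat_lit 309) (nat_lit 297) (nat_lit 174)) (XT.lf (nat_lit 0) (nat_lit 3465501011) (nat_lit 304) (nat_lit 117393866722) (nat_lit 76) (nat_lit 2439263019) (nat_lit 55) (nat_lit 5) (nat_lit 59) (nat_lit 5) (nat_lit 56) (nat_lit 5) (nat_lit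 310) (nat_lit 297) (nat_lit 173))) (XT.nd (nat_lit 78) (nat_lit 532) (nat_lit 0) (XT.lf (nat_lit 0) (nat_lit 28303278798) (nat_lit 304) (nat_lit 24578563992) (nat_lit 76) (nat_lit 76397055840) (nat_lit 55) (nat_lit 5) (nat_lit 59) (nat_lit 5) (nat_lit 56) (nat_lit 5) (nat_lit 311) (nat_lit 297) (nat_lit 172)) (XT.nd (nat_lit 78) (nat_lit 228) (nat_lit 0) (XT.lf (nat_lit 0) (nat_lit 56688189798) (nat_lit 380) (nat_lit 57854539453) (nat_lit 76) (nat_lit 21116854626) (nat_lit 51) (nat_lit 5) (nat_lit 56) (nat_lit 5) (nat_lit 52) (nat_lit 5) (nat_lit 312) (nat_lit 297) (nat_lit 171)) (XT.lf (nat_lit 0) (nat_lit 47343313292) (nat_lit 228) (nat_lit 42065809840) (nat_lit 304) (nat_lit 53038340717) (nat_lit 48) (nat_lit 5) (nat_lit 51) (nat_lit 5) (nat_lit 52) (nat_lit 5) (nat_lit 313) (nat_lit 297) (nat_lit 170))))) (XT.nd (nat_lit 234) (nat_lit 456) (nat_lit 0) (XT.nd (nat_lit 78) (nat_lit 304)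 (nat_lit 0) (XT.lf (nat_lit 0) (nat_lit 13132473747) (nat_lit 228) (nat_lit 113409191568) (nat_lit 304) (nat_lit 23147013470) (nat_lit 45) (nat_lit 5) (nat_lit 48) (nat_lit 5) (nat_lit 49) (nat_lit 5) (nat_lit 314) (nat_lit 297) (nat_lit 169)) (XT.nd (nat_lit 78) (nat_lit 228) (nat_lit 0) (XT.lf (nat_lit 0) (nat_lit 11235629715) (nat_lit 304) (nat_lit 24882245924) (nat_lit 76) (nat_lit 121264564438) (nat_lit 44) (nat_lit 5) (nat_lit 48) (nat_lit 5) (nat_lit 45) (nat_lit 5) (nat_lit 315) (nat_lit 297) (nat_lit 168)) (XT.lf (nat_lit 0) (nat_lit 49876735233) (nat_lit 304) (nat_lit 67879682137) (nat_lit 76) (nat_lit 47800372509) (nat_lit 41) (nat_lit 5) (nat_lit 45) (nat_lit 5) (nat_lit 42) (nat_lit 5) (nat_lit 316) (nat_lit 297) (nat_lit 167)))) (XT.nd (nat_lit 78) (nat_lit 228) (nat_lit 0) (XT.lf (nat_lit 0) (nat_lit 57799273424) (nat_lit 228) (nat_lit 35761189640) (nat_lit 304) (nat_lit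 80727058873) (nat_lit 38) (nat_lit 5) (nat_lit 41) (nat_lit 5) (nat_lit 42) (nat_lit 5) (nat_lit 317) (nat_lit 297) (nat_lit 166)) (XT.nd (nat_lit 78) (nat_lit 76) (nat_lit 0) (XT.lf (nat_lit 0) (nat_lit 11833144326) (nat_lit 152) (nat_lit 131115957702) (nat_lit 228) (nat_lit 40657100778) (nat_lit 36) (nat_lit 5) (nat_lit 38) (nat_lit 5) (nat_lit 39) (nat_lit 5) (nat_lit 318) (nat_lit 297) (nat_lit 165)) (XT.lf (nat_lit 0) (nat_lit 5199485404) (nat_lit 228) (nat_lit 39666906407) (nat_lit 76) (nat_lit 148668701136) (nat_lit 35) (nat_lit 5) (nat_lit 38) (nat_lit 5) (nat_lit 36) (nat_lit 5) (nat_lit 319) (nat_lit 297) (nat_lit 164))))))) (XT.nd (nat_lit 780) (nat_lit 608) (nat_lit 0) (XT.nd (nat_lit 390) (nat_lit 456) (nat_lit 0) (XT.nd (nat_lit 156) (nat_lit 380) (nat_lit 0) (XT.nd (nat_lit 78) (nat_lit 152) (nat_lit 0) (XT.lf (nat_lit 0) (nat_lit 55761151713) (nat_lit 304) (nat_lit 99229043185)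 (nat_lit 76) (nat_lit 49111725637) (nat_lit 32) (nat_lit 5) (nat_lit 36) (nat_lit 5) (nat_lit 33) (nat_lit 5) (nat_lit 320) (nat_lit 297) (nat_lit 163)) (XT.lf (nat_lit 0) (nat_lit 47669895863) (nat_lit 152) (nat_lit 64900435799) (nat_lit 228) (nat_lit 102833634327) (nat_lit 30) (nat_lit 5) (nat_lit 32) (nat_lit 5) (nat_lit 33) (nat_lit 5) (nat_lit 321) (nat_lit 297) (nat_lit 162))) (XT.nd (nat_lit 78) (nat_lit 380) (nat_lit 0) (XT.lf (nat_lit 0) (nat_lit 176186401493) (nat_lit 228) (nat_lit 18194458497) (nat_lit 76) (nat_lit 33116207941) (nat_lit 30) (nat_lit 5) (nat_lit 33) (nat_lit 5) (nat_lit 31) (nat_lit 5) (nat_lit 322) (nat_lit 297) (nat_lit 161)) (XT.nd (nat_lit 78) (nat_lit 152) (nat_lit 0) (XT.lf (nat_lit 0) (nat_lit 7638605798) (nat_lit 228) (nat_lit 93595947155) (nat_lit 76) (nat_lit 139147522901) (nat_lit 27) (nat_lit 5) (nat_lit 30) (nat_lit 5) (nat_lit 28) (nat_lit 5) (nat_lit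 323) (nat_lit 297) (nat_lit 160)) (XT.lf (nat_lit 0) (nat_lit 71016506247) (nat_lit 228) (nat_lit 181418316572) (nat_lit 76) (nat_lit 1745486069) (nat_lit 25) (nat_lit 5) (nat_lit 28) (nat_lit 5) (nat_lit 26) (nat_lit 5) (nat_lit 324) (nat_lit 297) (nat_lit 159))))) (XT.nd (nat_lit 156) (nat_lit 304) (nat_lit 0) (XT.nd (nat_lit 78) (nat_lit 152) (nat_lit 0) (XT.lf (nat_lit 0) (nat_lit 142828329565) (nat_lit 228) (nat_lit 14964435556) (nat_lit 76) (nat_lit 111121451374) (nat_lit 25) (nat_lit 5) (nat_lit 28) (nat_lit 5) (nat_lit 26) (nat_lit 5) (nat_lit 325) (nat_lit 297) (nat_lit 158)) (XT.lf (nat_lit 0) (nat_lit 170254332827) (nat_lit 152) (nat_lit 52788526872) (nat_lit 228) (nat_lit 61651089401) (nat_lit 23) (nat_lit 5) (nat_lit 25) (nat_lit 5) (nat_lit 26) (nat_lit 5) (nat_lit 326) (nat_lit 297) (nat_lit 157))) (XT.nd (nat_lit 78) (nat_lit 152) (nat_lit 0) (XT.lf (nat_lit 0) (nat_lit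 10032446141) (nat_lit 152) (nat_lit 231378318602) (nat_lit 76) (nat_lit 60201697076) (nat_lit 21) (nat_lit 5) (nat_lit 23) (nat_lit 5) (nat_lit 22) (nat_lit 5) (nat_lit 327) (nat_lit 297) (nat_lit 156)) (XT.nd (nat_lit 78) (nat_lit 152) (nat_lit 0) (XT.lf (nat_lit 0) (nat_lit 88235483593) (nat_lit 152) (nat_lit 47979316392) (nat_lit 76) (nat_lit 183471883601) (nat_lit 21) (nat_lit 5) (nat_lit 23) (nat_lit 5) (nat_lit 22) (nat_lit 5) (nat_lit 328) (nat_lit 297) (nat_lit 155)) (XT.lf (nat_lit 0) (nat_lit 155053739751) (nat_lit 152) (nat_lit 20061515777) (nat_lit 228) (nat_lit 163970563323) (nat_lit 19) (nat_lit 5) (nat_lit 21) (nat_lit 5) (nat_lit 22) (nat_lit 5) (nat_lit 329) (nat_lit 297) (nat_lit 154)))))) (XT.nd (nat_lit 390) (nat_lit 228) (nat_lit 0) (XT.nd (nat_lit 156) (nat_lit 304) (nat_lit 0) (XT.nd (nat_lit 78) (nat_lit 0) (nat_lit 0) (XT.lf (nat_lit 0) (nat_lit 14863820802) (nat_lit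 76) (nat_lit 256808145277) (nat_lit 152) (nat_lit 88228591321) (nat_lit 18) (nat_lit 5) (nat_lit 19) (nat_lit 5) (nat_lit 20) (nat_lit 4) (nat_lit 330) (nat_lit 297) (nat_lit 153)) (XT.lf (nat_lit 0) (nat_lit 235893140914) (nat_lit 76) (nat_lit 143598306972) (nat_lit 152) (nat_lit 2712115710) (nat_lit 18) (nat_lit 5) (nat_lit 19) (nat_lit 5) (nat_lit 20) (nat_lit 4) (nat_lit 331) (nat_lit 297) (nat_lit 152))) (XT.nd (nat_lit 78) (nat_lit 76) (nat_lit 0) (XT.lf (nat_lit 0) (nat_lit 69126360794) (nat_lit 152) (nat_lit 18729066000) (nat_lit 228) (nat_lit 318311454213) (nat_lit 15) (nat_lit 5) (nat_lit 17) (nat_lit 5) (nat_lit 18) (nat_lit 5) (nat_lit 332) (nat_lit 297) (nat_lit 151)) (XT.nd (nat_lit 78) (nat_lit 76) (nat_lit 0) (XT.lf (nat_lit 0) (nat_lit 189977872959) (nat_lit 228) (nat_lit 126798149562) (nat_lit 76) (nat_lit 115048792494) (nat_lit 15) (nat_lit 5) (nat_lit 18) (nat_lit 5)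 (nat_lit 16) (nat_lit 4) (nat_lit 333) (nat_lit 297) (nat_lit 150)) (XT.lf (nat_lit 0) (nat_lit 103252071157) (nat_lit 76) (nat_lit 198945649430) (nat_lit 152) (nat_lit 157241283084) (nat_lit 14) (nat_lit 5) (nat_lit 15) (nat_lit 5) (nat_lit 16) (nat_lit 4) (nat_lit 334) (nat_lit 297) (nat_lit 149))))) (XT.nd (nat_lit 234) (nat_lit 76) (nat_lit 0) (XT.nd (nat_lit 78) (nat_lit 152) (nat_lit 0) (XT.lf (nat_lit 0) (nat_lit 356233805453) (nat_lit 76) (nat_lit 69369850075) (nat_lit 152) (nat_lit 63548247115) (nat_lit 14) (nat_lit 5) (nat_lit 15) (nat_lit 5) (nat_lit 16) (nat_lit 4) (nat_lit 335) (nat_lit 297) (nat_lit 148)) (XT.nd (nat_lit 78) (nat_lit 0) (nat_lit 0) (XT.lf (nat_lit 0) (nat_lit 39311069742) (nat_lit 152) (nat_lit 411082867684) (nat_lit 76) (nat_lit 70674734782) (nat_lit 12) (nat_lit 5) (nat_lit 14) (nat_lit 5) (nat_lit 13) (nat_lit 4) (nat_lit 336) (nat_lit 297) (nat_lit 147))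 (XT.lf (nat_lit 0) (nat_lit 151725262283) (nat_lit 152) (nat_lit 180634125979) (nat_lit 76) (nat_lit 222949678942) (nat_lit 12) (nat_lit 5) (nat_lit 14) (nat_lit 5) (nat_lit 13) (nat_lit 4) (nat_lit 337) (nat_lit 297) (nat_lit 146)))) (XT.nd (nat_lit 78) (nat_lit 0) (nat_lit 0) (XT.lf (nat_lit 0) (nat_lit 70506810035) (nat_lit 76) (nat_lit 203726385356) (nat_lit 152) (nat_lit 318000468303) (nat_lit 11) (nat_lit 5) (nat_lit 12) (nat_lit 5) (nat_lit 13) (nat_lit 4) (nat_lit 338) (nat_lit 297) (nat_lit 145)) (XT.nd (nat_lit 78) (nat_lit 0) (nat_lit 0) (XT.lf (nat_lit 0) (nat_lit 348189059819) (nat_lit 76) (nat_lit 61499039196) (nat_lit 152) (nat_lit 222266812232) (nat_lit 11) (nat_lit 5) (nat_lit 12) (nat_lit 5) (nat_lit 13) (nat_lit 4) (nat_lit 339) (nat_lit 297) (nat_lit 144)) (XT.lf (nat_lit 0) (nat_lit 557417253528) (nat_lit 152) (nat_lit 28206338169) (nat_lit 0) (nat_lit 89158374108)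 (nat_lit 11) (nat_lit 5) (nat_lit 13) (nat_lit 4) (nat_lit 11) (nat_lit 4) (nat_lit 340) (nat_lit 297) (nat_lit 143))))))))
noncomputable def xc109 : XT := (XT.nd (nat_lit 38688) (nat_lit 0) (nat_lit 304) (XT.nd (nat_lit 37830) (nat_lit 0) (nat_lit 2812) (XT.nd (nat_lit 37440) (nat_lit 0) (nat_lit 5244) (XT.nd (nat_lit 156) (nat_lit 76) (nat_lit 0) (XT.nd (nat_lit 78) (nat_lit 0) (nat_lit 0) (XT.lf (nat_lit 0) (nat_lit 1158906399) (nat_lit 152) (nat_lit 465883368414) (nat_lit 76) (nat_lit 253741134024) (nat_lit 9) (nat_lit 5) (nat_lit 11) (nat_lit 5) (nat_lit 10) (nat_lit 4) (nat_lit 341) (nat_lit 297) (nat_lit 142)) (XT.lf (nat_lit 0) (nat_lit 125606726184) (nat_lit 152) (nat_lit 210765566665) (nat_lit 76) (nat_lit 433968764014) (nat_lit 9) (nat_lit 5) (nat_lit 11) (nat_lit 5) (nat_lit 10) (nat_lit 4) (nat_lit 342) (nat_lit 297) (nat_lit 141))) (XT.nd (nat_lit 37128) (nat_lit 0) (nat_lit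 5776) (XT.lf (nat_lit 0) (nat_lit 66902688464) (nat_lit 76) (nat_lit 194152070397) (nat_lit 152) (nat_lit 562756338601) (nat_lit 8) (nat_lit 5) (nat_lit 9) (nat_lit 5) (nat_lit 10) (nat_lit 4) (nat_lit 343) (nat_lit 297) (nat_lit 140)) (XT.nd (nat_lit 78) (nat_lit 0) (nat_lit 0) (XT.lf (nat_lit 0) (nat_lit 14119918881) (nat_lit 0) (nat_lit 14119918881) (nat_lit 684) (nat_lit 9873261382) (nat_lit 84) (nat_lit 5) (nat_lit 84) (nat_lit 3) (nat_lit 93) (nat_lit 3) (nat_lit 298) (nat_lit 298) (nat_lit 184)) (XT.lf (nat_lit 76) (nat_lit 6238768495) (nat_lit 0) (nat_lit 53035183176) (nat_lit 760) (nat_lit 19974501853) (nat_lit 85) (nat_lit 5) (nat_lit 84) (nat_lit 5) (nat_lit 94) (nat_lit 5) (nat_lit 299) (nat_lit 298) (nat_lit 183))))) (XT.nd (nat_lit 156) (nat_lit 608) (nat_lit 0) (XT.nd (nat_lit 78) (nat_lit 0) (nat_lit 0) (XT.lf (nat_lit 0) (nat_lit 63632416987) (nat_lit 684) (nat_lit 16462653080)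 (nat_lit 760) (nat_lit 2350390587) (nat_lit 85) (nat_lit 5) (nat_lit 94) (nat_lit 5) (nat_lit 95) (nat_lit 5) (nat_lit 300) (nat_lit 298) (nat_lit 182)) (XT.lf (nat_lit 76) (nat_lit 45158244899) (nat_lit 0) (nat_lit 24779114759) (nat_lit 760) (nat_lit 15880982231) (nat_lit 86) (nat_lit 5) (nat_lit 85) (nat_lit 5) (nat_lit 95) (nat_lit 5) (nat_lit 301) (nat_lit 298) (nat_lit 181))) (XT.nd (nat_lit 78) (nat_lit 684) (nat_lit 0) (XT.lf (nat_lit 76) (nat_lit 23035691897) (nat_lit 0) (nat_lit 54906572867) (nat_lit 760) (nat_lit 11459013787) (nat_lit 87) (nat_lit 5) (nat_lit 86) (nat_lit 5) (nat_lit 96) (nat_lit 5) (nat_lit 302) (nat_lit 298) (nat_lit 180)) (XT.nd (nat_lit 78) (nat_lit 760) (nat_lit 0) (XT.lf (nat_lit 0) (nat_lit 87785859123) (nat_lit 684) (nat_lit 448716733) (nat_lit 760) (nat_lit 4976362485) (nat_lit 87) (nat_lit 5) (nat_lit 96) (nat_lit 5) (nat_lit 97) (nat_lit 5) (nat_lit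 303) (nat_lit 298) (nat_lit 179)) (XT.lf (nat_lit 0) (nat_lit 3140897624) (nat_lit 760) (nat_lit 25150398877) (nat_lit 836) (nat_lit 68929011739) (nat_lit 77) (nat_lit 5) (nat_lit 87) (nat_lit 5) (nat_lit 88) (nat_lit 5) (nat_lit 304) (nat_lit 298) (nat_lit 178)))))) (XT.nd (nat_lit 390) (nat_lit 1368) (nat_lit 0) (XT.nd (nat_lit 156) (nat_lit 684) (nat_lit 0) (XT.nd (nat_lit 78) (nat_lit 456) (nat_lit 0) (XT.lf (nat_lit 0) (nat_lit 13581486043) (nat_lit 760) (nat_lit 51713982754) (nat_lit 76) (nat_lit 36181544538) (nat_lit 78) (nat_lit 5) (nat_lit 88) (nat_lit 5) (nat_lit 79) (nat_lit 5) (nat_lit 305) (nat_lit 298) (nat_lit 177)) (XT.lf (nat_lit 0) (nat_lit 25857698201) (nat_lit 456) (nat_lit 324573467) (nat_lit 532) (nat_lit 79825737961) (nat_lit 72) (nat_lit 5) (nat_lit 78) (nat_lit 5) (nat_lit 79) (nat_lit 5) (nat_lit 306) (nat_lit 298) (nat_lit 176))) (XT.nd (nat_lit 78) (nat_lit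 684) (nat_lit 0) (XT.lf (nat_lit 0) (nat_lit 41796150119) (nat_lit 532) (nat_lit 480863205) (nat_lit 76) (nat_lit 68524222927) (nat_lit 72) (nat_lit 5) (nat_lit 79) (nat_lit 5) (nat_lit 73) (nat_lit 5) (nat_lit 307) (nat_lit 298) (nat_lit 175)) (XT.nd (nat_lit 78) (nat_lit 304) (nat_lit 0) (XT.lf (nat_lit 0) (nat_lit 60486079162) (nat_lit 456) (nat_lit 27966575668) (nat_lit 76) (nat_lit 27433921127) (nat_lit 67) (nat_lit 5) (nat_lit 73) (nat_lit 5) (nat_lit 68) (nat_lit 5) (nat_lit 308) (nat_lit 298) (nat_lit 174)) (XT.lf (nat_lit 0) (nat_lit 63345293468) (nat_lit 304) (nat_lit 19035397861) (nat_lit 380) (nat_lit 38912578891) (nat_lit 63) (nat_lit 5) (nat_lit 67) (nat_lit 5) (nat_lit 68) (nat_lit 5) (nat_lit 309) (nat_lit 298) (nat_lit 173))))) (XT.nd (nat_lit 234) (nat_lit 760) (nat_lit 0) (XT.nd (nat_lit 78) (nat_lit 304) (nat_lit 0) (XT.lf (nat_lit 0) (nat_lit 36126706239) (nat_lit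 304) (nat_lit 71831818402) (nat_lit 380) (nat_lit 19077394464) (nat_lit 59) (nat_lit 5) (nat_lit 63) (nat_lit 5) (nat_lit 64) (nat_lit 5) (nat_lit 310) (nat_lit 298) (nat_lit 172)) (XT.nd (nat_lit 78) (nat_lit 0) (nat_lit 0) (XT.lf (nat_lit 0) (nat_lit 3758773056) (nat_lit 304) (nat_lit 126766102294) (nat_lit 76) (nat_lit 2636815231) (nat_lit 55) (nat_lit 5) (nat_lit 59) (nat_lit 5) (nat_lit 56) (nat_lit 5) (nat_lit 311) (nat_lit 298) (nat_lit 171)) (XT.lf (nat_lit 0) (nat_lit 30582385513) (nat_lit 304) (nat_lit 26527003031) (nat_lit 76) (nat_lit 82511052873) (nat_lit 55) (nat_lit 5) (nat_lit 59) (nat_lit 5) (nat_lit 56) (nat_lit 5) (nat_lit 312) (nat_lit 298) (nat_lit 170)))) (XT.nd (nat_lit 78) (nat_lit 456) (nat_lit 0) (XT.lf (nat_lit 0) (nat_lit 61237304087) (nat_lit 380) (nat_lit 62465154401) (nat_lit 76) (nat_lit 22809164251) (nat_lit 51) (nat_lit 5) (nat_lit 56) (nat_lit 5) (nat_lit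 52) (nat_lit 5) (nat_lit 313) (nat_lit 298) (nat_lit 169)) (XT.nd (nat_lit 78) (nat_lit 228) (nat_lit 0) (XT.lf (nat_lit 0) (nat_lit 51147755248) (nat_lit 228) (nat_lit 45427380482) (nat_lit 304) (nat_lit 57267438041) (nat_lit 48) (nat_lit 5) (nat_lit 51) (nat_lit 5) (nat_lit 52) (nat_lit 5) (nat_lit 314) (nat_lit 298) (nat_lit 168)) (XT.lf (nat_lit 0) (nat_lit 14199912896) (nat_lit 228) (nat_lit 122477700827) (nat_lit 304) (nat_lit 24985507265) (nat_lit 45) (nat_lit 5) (nat_lit 48) (nat_lit 5) (nat_lit 49) (nat_lit 5) (nat_lit 315) (nat_lit 298) (nat_lit 167))))))) (XT.nd (nat_lit 858) (nat_lit 988) (nat_lit 0) (XT.nd (nat_lit 390) (nat_lit 760) (nat_lit 0) (XT.nd (nat_lit 156) (nat_lit 456) (nat_lit 0) (XT.nd (nat_lit 78) (nat_lit 228) (nat_lit 0) (XT.lf (nat_lit 0) (nat_lit 12146371432) (nat_lit 304) (nat_lit 26856819848) (nat_lit 76) (nat_lit 130969230618) (nat_lit 44) (nat_lit 5)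 (nat_lit 48) (nat_lit 5) (nat_lit 45) (nat_lit 5) (nat_lit 316) (nat_lit 298) (nat_lit 166)) (XT.lf (nat_lit 0) (nat_lit 53878186984) (nat_lit 304) (nat_lit 73294230045) (nat_lit 76) (nat_lit 51628332969) (nat_lit 41) (nat_lit 5) (nat_lit 45) (nat_lit 5) (nat_lit 42) (nat_lit 5) (nat_lit 317) (nat_lit 298) (nat_lit 165))) (XT.nd (nat_lit 78) (nat_lit 228) (nat_lit 0) (XT.lf (nat_lit 0) (nat_lit 62438354153) (nat_lit 228) (nat_lit 38617657252) (nat_lit 304) (nat_lit 87173960587) (nat_lit 38) (nat_lit 5) (nat_lit 41) (nat_lit 5) (nat_lit 42) (nat_lit 5) (nat_lit 318) (nat_lit 298) (nat_lit 164)) (XT.nd (nat_lit 78) (nat_lit 76) (nat_lit 0) (XT.lf (nat_lit 0) (nat_lit 12794738412) (nat_lit 152) (nat_lit 141600506947) (nat_lit 228) (nat_lit 43898927974) (nat_lit 36) (nat_lit 5) (nat_lit 38) (nat_lit 5) (nat_lit 39) (nat_lit 5) (nat_lit 319) (nat_lit 298) (nat_lit 163)) (XT.lf (nat_lit 0) (nat_lit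 5625071172) (nat_lit 228) (nat_lit 42826091750) (nat_lit 76) (nat_lit 160566242939) (nat_lit 35) (nat_lit 5) (nat_lit 38) (nat_lit 5) (nat_lit 36) (nat_lit 5) (nat_lit 320) (nat_lit 298) (nat_lit 162))))) (XT.nd (nat_lit 234) (nat_lit 380) (nat_lit 0) (XT.nd (nat_lit 78) (nat_lit 152) (nat_lit 0) (XT.lf (nat_lit 0) (nat_lit 60231238360) (nat_lit 304) (nat_lit 107153415794) (nat_lit 76) (nat_lit 53044948100) (nat_lit 32) (nat_lit 5) (nat_lit 36) (nat_lit 5) (nat_lit 33) (nat_lit 5) (nat_lit 321) (nat_lit 298) (nat_lit 161)) (XT.nd (nat_lit 78) (nat_lit 0) (nat_lit 0) (XT.lf (nat_lit 0) (nat_lit 51496832091) (nat_lit 152) (nat_lit 70087847885) (nat_lit 228) (nat_lit 111051155909) (nat_lit 30) (nat_lit 5) (nat_lit 32) (nat_lit 5) (nat_lit 33) (nat_lit 5) (nat_lit 322) (nat_lit 298) (nat_lit 160)) (XT.lf (nat_lit 0) (nat_lit 190289456164) (nat_lit 228) (nat_lit 19637311688) (nat_lit 76) (nat_lit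 35769647928) (nat_lit 30) (nat_lit 5) (nat_lit 33) (nat_lit 5) (nat_lit 31) (nat_lit 5) (nat_lit 323) (nat_lit 298) (nat_lit 159)))) (XT.nd (nat_lit 78) (nat_lit 152) (nat_lit 0) (XT.lf (nat_lit 0) (nat_lit 8257559459) (nat_lit 228) (nat_lit 101071202236) (nat_lit 76) (nat_lit 150283477746) (nat_lit 27) (nat_lit 5) (nat_lit 30) (nat_lit 5) (nat_lit 28) (nat_lit 5) (nat_lit 324) (nat_lit 298) (nat_lit 158)) (XT.nd (nat_lit 78) (nat_lit 0) (nat_lit 0) (XT.lf (nat_lit 0) (nat_lit 76705363727) (nat_lit 228) (nat_lit 195919587948) (nat_lit 76) (nat_lit 1889396536) (nat_lit 25) (nat_lit 5) (nat_lit 28) (nat_lit 5) (nat_lit 26) (nat_lit 5) (nat_lit 325) (nat_lit 298) (nat_lit 157)) (XT.lf (nat_lit 0) (nat_lit 154261574616) (nat_lit 228) (nat_lit 16150299706) (nat_lit 76) (nat_lit 120015122652) (nat_lit 25) (nat_lit 5) (nat_lit 28) (nat_lit 5) (nat_lit 26) (nat_lit 5) (nat_lit 326) (nat_lit 298)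 (nat_lit 156)))))) (XT.nd (nat_lit 390) (nat_lit 456) (nat_lit 0) (XT.nd (nat_lit 156) (nat_lit 228) (nat_lit 0) (XT.nd (nat_lit 78) (nat_lit 152) (nat_lit 0) (XT.lf (nat_lit 0) (nat_lit 183885479468) (nat_lit 152) (nat_lit 57007439372) (nat_lit 228) (nat_lit 66576207350) (nat_lit 23) (nat_lit 5) (nat_lit 25) (nat_lit 5) (nat_lit 26) (nat_lit 5) (nat_lit 327) (nat_lit 298) (nat_lit 155)) (XT.lf (nat_lit 0) (nat_lit 10841517619) (nat_lit 152) (nat_lit 249877771013) (nat_lit 76) (nat_lit 65021839887) (nat_lit 21) (nat_lit 5) (nat_lit 23) (nat_lit 5) (nat_lit 22) (nat_lit 5) (nat_lit 328) (nat_lit 298) (nat_lit 154))) (XT.nd (nat_lit 78) (nat_lit 228) (nat_lit 0) (XT.lf (nat_lit 0) (nat_lit 95300318379) (nat_lit 152) (nat_lit 51807649596) (nat_lit 76) (nat_lit 198153344515) (nat_lit 21) (nat_lit 5) (nat_lit 23) (nat_lit 5) (nat_lit 22) (nat_lit 5) (nat_lit 329) (nat_lit 298) (nat_lit 153))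 (XT.nd (nat_lit 78) (nat_lit 76) (nat_lit 0) (XT.lf (nat_lit 0) (nat_lit 167467615925) (nat_lit 152) (nat_lit 21662561512) (nat_lit 228) (nat_lit 177082216313) (nat_lit 19) (nat_lit 5) (nat_lit 21) (nat_lit 5) (nat_lit 22) (nat_lit 5) (nat_lit 330) (nat_lit 298) (nat_lit 152)) (XT.lf (nat_lit 0) (nat_lit 16062307356) (nat_lit 76) (nat_lit 277348897633) (nat_lit 152) (nat_lit 95281117797) (nat_lit 18) (nat_lit 5) (nat_lit 19) (nat_lit 5) (nat_lit 20) (nat_lit 4) (nat_lit 331) (nat_lit 298) (nat_lit 151))))) (XT.nd (nat_lit 234) (nat_lit 228) (nat_lit 0) (XT.nd (nat_lit 78) (nat_lit 228) (nat_lit 0) (XT.lf (nat_lit 0) (nat_lit 254773278197) (nat_lit 76) (nat_lit 155082561098) (nat_lit 152) (nat_lit 2923750865) (nat_lit 18) (nat_lit 5) (nat_lit 19) (nat_lit 5) (nat_lit 20) (nat_lit 4) (nat_lit 332) (nat_lit 298) (nat_lit 150)) (XT.nd (nat_lit 78) (nat_lit 0) (nat_lit 0) (XT.lf (nat_lit 0)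 (nat_lit 74664945811) (nat_lit 152) (nat_lit 20223828367) (nat_lit 228) (nat_lit 343771207462) (nat_lit 15) (nat_lit 5) (nat_lit 17) (nat_lit 5) (nat_lit 18) (nat_lit 5) (nat_lit 333) (nat_lit 298) (nat_lit 149)) (XT.lf (nat_lit 0) (nat_lit 205180703599) (nat_lit 228) (nat_lit 136933973404) (nat_lit 76) (nat_lit 124255889298) (nat_lit 15) (nat_lit 5) (nat_lit 18) (nat_lit 5) (nat_lit 16) (nat_lit 4) (nat_lit 334) (nat_lit 298) (nat_lit 148)))) (XT.nd (nat_lit 78) (nat_lit 152) (nat_lit 0) (XT.lf (nat_lit 0) (nat_lit 111519916081) (nat_lit 76) (nat_lit 214858002052) (nat_lit 152) (nat_lit 169815983250) (nat_lit 14) (nat_lit 5) (nat_lit 15) (nat_lit 5) (nat_lit 16) (nat_lit 4) (nat_lit 335) (nat_lit 298) (nat_lit 147)) (XT.nd (nat_lit 78) (nat_lit 152) (nat_lit 0) (XT.lf (nat_lit 0) (nat_lit 384739620288) (nat_lit 76) (nat_lit 74916383144) (nat_lit 152) (nat_lit 68627845329) (nat_lit 14)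 (nat_lit 5) (nat_lit 15) (nat_lit 5) (nat_lit 16) (nat_lit 4) (nat_lit 336) (nat_lit 298) (nat_lit 146)) (XT.lf (nat_lit 0) (nat_lit 42459930134) (nat_lit 152) (nat_lit 443962409840) (nat_lit 76) (nat_lit 76331624341) (nat_lit 12) (nat_lit 5) (nat_lit 14) (nat_lit 5) (nat_lit 13) (nat_lit 4) (nat_lit 337) (nat_lit 298) (nat_lit 145))))))))
noncomputable def xc110 : XT := (XT.nd (nat_lit 38766) (nat_lit 0) (nat_lit 456) (XT.nd (nat_lit 37908) (nat_lit 0) (nat_lit 3496) (XT.nd (nat_lit 390) (nat_lit 0) (nat_lit 0) (XT.nd (nat_lit 156) (nat_lit 152) (nat_lit 0) (XT.nd (nat_lit 78) (nat_lit 76) (nat_lit 0) (XT.lf (nat_lit 0) (nat_lit 163866963649) (nat_lit 152) (nat_lit 195078293781) (nat_lit 76) (nat_lit 240788348421) (nat_lit 12) (nat_lit 5) (nat_lit 14) (nat_lit 5) (nat_lit 13) (nat_lit 4) (nat_lit 338) (nat_lit 298) (nat_lit 144)) (XT.lf (nat_lit 0) (nat_lit 76153631927) (nat_lit 76) (nat_lit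 220021724861) (nat_lit 152) (nat_lit 343436822203) (nat_lit 11) (nat_lit 5) (nat_lit 12) (nat_lit 5) (nat_lit 13) (nat_lit 4) (nat_lit 339) (nat_lit 298) (nat_lit 143))) (XT.nd (nat_lit 78) (nat_lit 152) (nat_lit 0) (XT.lf (nat_lit 0) (nat_lit 376049996724) (nat_lit 76) (nat_lit 66416396291) (nat_lit 152) (nat_lit 240044746504) (nat_lit 11) (nat_lit 5) (nat_lit 12) (nat_lit 5) (nat_lit 13) (nat_lit 4) (nat_lit 340) (nat_lit 298) (nat_lit 142)) (XT.nd (nat_lit 78) (nat_lit 152) (nat_lit 0) (XT.lf (nat_lit 0) (nat_lit 602013676534) (nat_lit 152) (nat_lit 30457348292) (nat_lit 0) (nat_lit 96293343954) (nat_lit 11) (nat_lit 5) (nat_lit 13) (nat_lit 4) (nat_lit 11) (nat_lit 4) (nat_lit 341) (nat_lit 298) (nat_lit 141)) (XT.lf (nat_lit 0) (nat_lit 1254567802) (nat_lit 152) (nat_lit 503148680445) (nat_lit 76) (nat_lit 274042683955) (nat_lit 9) (nat_lit 5) (nat_lit 11) (nat_lit 5) (nat_lit 10)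 (nat_lit 4) (nat_lit 342) (nat_lit 298) (nat_lit 140))))) (XT.nd (nat_lit 37284) (nat_lit 0) (nat_lit 5700) (XT.nd (nat_lit 37206) (nat_lit 0) (nat_lit 5700) (XT.lf (nat_lit 0) (nat_lit 135657994733) (nat_lit 152) (nat_lit 227621851403) (nat_lit 76) (nat_lit 468688356996) (nat_lit 9) (nat_lit 5) (nat_lit 11) (nat_lit 5) (nat_lit 10) (nat_lit 4) (nat_lit 343) (nat_lit 298) (nat_lit 139)) (XT.lf (nat_lit 0) (nat_lit 15257544863) (nat_lit 0) (nat_lit 15257544863) (nat_lit 684) (nat_lit 10646216784) (nat_lit 84) (nat_lit 5) (nat_lit 84) (nat_lit 3) (nat_lit 93) (nat_lit 3) (nat_lit 299) (nat_lit 299) (nat_lit 182))) (XT.nd (nat_lit 78) (nat_lit 0) (nat_lit 76) (XT.lf (nat_lit 76) (nat_lit 6755084744) (nat_lit 0) (nat_lit 57290569488) (nat_lit 760) (nat_lit 21541117147) (nat_lit 85) (nat_lit 5) (nat_lit 84) (nat_lit 5) (nat_lit 94) (nat_lit 5) (nat_lit 300) (nat_lit 299) (nat_lit 181)) (XT.nd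 (nat_lit 78) (nat_lit 0) (nat_lit 0) (XT.lf (nat_lit 0) (nat_lit 68750408631) (nat_lit 684) (nat_lit 17762100997) (nat_lit 760) (nat_lit 2527153976) (nat_lit 85) (nat_lit 5) (nat_lit 94) (nat_lit 5) (nat_lit 95) (nat_lit 5) (nat_lit 301) (nat_lit 299) (nat_lit 180)) (XT.lf (nat_lit 76) (nat_lit 48787705496) (nat_lit 0) (nat_lit 26770274027) (nat_lit 760) (nat_lit 17124488914) (nat_lit 86) (nat_lit 5) (nat_lit 85) (nat_lit 5) (nat_lit 95) (nat_lit 5) (nat_lit 302) (nat_lit 299) (nat_lit 179)))))) (XT.nd (nat_lit 390) (nat_lit 1292) (nat_lit 0) (XT.nd (nat_lit 156) (nat_lit 1064) (nat_lit 0) (XT.nd (nat_lit 78) (nat_lit 0) (nat_lit 76) (XT.lf (nat_lit 76) (nat_lit 24896032507) (nat_lit 0) (nat_lit 59305491275) (nat_lit 760) (nat_lit 12350608302) (nat_lit 87) (nat_lit 5) (nat_lit 86) (nat_lit 5) (nat_lit 96) (nat_lit 5) (nat_lit 303) (nat_lit 299) (nat_lit 178)) (XT.lf (nat_lit 0) (nat_lit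 94830744548) (nat_lit 684) (nat_lit 467175354) (nat_lit 760) (nat_lit 5368741876) (nat_lit 87) (nat_lit 5) (nat_lit 96) (nat_lit 5) (nat_lit 97) (nat_lit 5) (nat_lit 304) (nat_lit 299) (nat_lit 177))) (XT.nd (nat_lit 78) (nat_lit 380) (nat_lit 0) (XT.lf (nat_lit 0) (nat_lit 3413199689) (nat_lit 760) (nat_lit 27145009786) (nat_lit 836) (nat_lit 74438627118) (nat_lit 77) (nat_lit 5) (nat_lit 87) (nat_lit 5) (nat_lit 88) (nat_lit 5) (nat_lit 305) (nat_lit 299) (nat_lit 176)) (XT.nd (nat_lit 78) (nat_lit 456) (nat_lit 0) (XT.lf (nat_lit 0) (nat_lit 14687689644) (nat_lit 760) (nat_lit 55833361451) (nat_lit 76) (nat_lit 39073097596) (nat_lit 78) (nat_lit 5) (nat_lit 88) (nat_lit 5) (nat_lit 79) (nat_lit 5) (nat_lit 306) (nat_lit 299) (nat_lit 175)) (XT.lf (nat_lit 0) (nat_lit 27943283025) (nat_lit 456) (nat_lit 352061899) (nat_lit 532) (nat_lit 86192342495) (nat_lit 72) (nat_lit 5) (nat_lit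 78) (nat_lit 5) (nat_lit 79) (nat_lit 5) (nat_lit 307) (nat_lit 299) (nat_lit 174))))) (XT.nd (nat_lit 234) (nat_lit 608) (nat_lit 0) (XT.nd (nat_lit 78) (nat_lit 684) (nat_lit 0) (XT.lf (nat_lit 0) (nat_lit 45156941898) (nat_lit 532) (nat_lit 502706596) (nat_lit 76) (nat_lit 74004796110) (nat_lit 72) (nat_lit 5) (nat_lit 79) (nat_lit 5) (nat_lit 73) (nat_lit 5) (nat_lit 308) (nat_lit 299) (nat_lit 173)) (XT.nd (nat_lit 78) (nat_lit 304) (nat_lit 0) (XT.lf (nat_lit 0) (nat_lit 65341044124) (nat_lit 456) (nat_lit 30187158809) (nat_lit 76) (nat_lit 29628462244) (nat_lit 67) (nat_lit 5) (nat_lit 73) (nat_lit 5) (nat_lit 68) (nat_lit 5) (nat_lit 309) (nat_lit 299) (nat_lit 172)) (XT.lf (nat_lit 0) (nat_lit 68428932232) (nat_lit 304) (nat_lit 20557352068) (nat_lit 380) (nat_lit 42009660170) (nat_lit 63) (nat_lit 5) (nat_lit 67) (nat_lit 5) (nat_lit 68) (nat_lit 5) (nat_lit 310) (nat_lit 299)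 (nat_lit 171)))) (XT.nd (nat_lit 78) (nat_lit 304) (nat_lit 0) (XT.lf (nat_lit 0) (nat_lit 39032902063) (nat_lit 304) (nat_lit 77576584323) (nat_lit 380) (nat_lit 20588564032) (nat_lit 59) (nat_lit 5) (nat_lit 63) (nat_lit 5) (nat_lit 64) (nat_lit 5) (nat_lit 311) (nat_lit 299) (nat_lit 170)) (XT.nd (nat_lit 78) (nat_lit 0) (nat_lit 0) (XT.lf (nat_lit 0) (nat_lit 4073219725) (nat_lit 304) (nat_lit 136890866329) (nat_lit 76) (nat_lit 2849827640) (nat_lit 55) (nat_lit 5) (nat_lit 59) (nat_lit 5) (nat_lit 56) (nat_lit 5) (nat_lit 312) (nat_lit 299) (nat_lit 169)) (XT.lf (nat_lit 0) (nat_lit 33041703044) (nat_lit 304) (nat_lit 28633863136) (nat_lit 76) (nat_lit 89113851168) (nat_lit 55) (nat_lit 5) (nat_lit 59) (nat_lit 5) (nat_lit 56) (nat_lit 5) (nat_lit 313) (nat_lit 299) (nat_lit 168))))))) (XT.nd (nat_lit 780) (nat_lit 1140) (nat_lit 0) (XT.nd (nat_lit 390) (nat_lit 836) (nat_lit 0) (XT.nd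 (nat_lit 156) (nat_lit 532) (nat_lit 0) (XT.nd (nat_lit 78) (nat_lit 228) (nat_lit 0) (XT.lf (nat_lit 0) (nat_lit 66148341831) (nat_lit 380) (nat_lit 67447150526) (nat_lit 76) (nat_lit 24636436191) (nat_lit 51) (nat_lit 5) (nat_lit 56) (nat_lit 5) (nat_lit 52) (nat_lit 5) (nat_lit 314) (nat_lit 299) (nat_lit 167)) (XT.lf (nat_lit 0) (nat_lit 55254130617) (nat_lit 228) (nat_lit 49058403786) (nat_lit 304) (nat_lit 61836856119) (nat_lit 48) (nat_lit 5) (nat_lit 51) (nat_lit 5) (nat_lit 52) (nat_lit 5) (nat_lit 315) (nat_lit 299) (nat_lit 166))) (XT.nd (nat_lit 78) (nat_lit 304) (nat_lit 0) (XT.lf (nat_lit 0) (nat_lit 15350344585) (nat_lit 228) (nat_lit 132272293723) (nat_lit 304) (nat_lit 26972973290) (nat_lit 45) (nat_lit 5) (nat_lit 48) (nat_lit 5) (nat_lit 49) (nat_lit 5) (nat_lit 316) (nat_lit 299) (nat_lit 165)) (XT.nd (nat_lit 78) (nat_lit 228) (nat_lit 0) (XT.lf (nat_lit 0) (nat_lit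 13128276054) (nat_lit 304) (nat_lit 28991643086) (nat_lit 76) (nat_lit 141449770631) (nat_lit 44) (nat_lit 5) (nat_lit 48) (nat_lit 5) (nat_lit 45) (nat_lit 5) (nat_lit 317) (nat_lit 299) (nat_lit 164)) (XT.lf (nat_lit 0) (nat_lit 58198140958) (nat_lit 304) (nat_lit 79144199636) (nat_lit 76) (nat_lit 55761969514) (nat_lit 41) (nat_lit 5) (nat_lit 45) (nat_lit 5) (nat_lit 42) (nat_lit 5) (nat_lit 318) (nat_lit 299) (nat_lit 163))))) (XT.nd (nat_lit 156) (nat_lit 456) (nat_lit 0) (XT.nd (nat_lit 78) (nat_lit 152) (nat_lit 0) (XT.lf (nat_lit 0) (nat_lit 67446401614) (nat_lit 228) (nat_lit 41703273914) (nat_lit 304) (nat_lit 94138221230) (nat_lit 38) (nat_lit 5) (nat_lit 41) (nat_lit 5) (nat_lit 42) (nat_lit 5) (nat_lit 319) (nat_lit 299) (nat_lit 162)) (XT.lf (nat_lit 0) (nat_lit 13831128305) (nat_lit 152) (nat_lit 152924494543) (nat_lit 228) (nat_lit 47401633650) (nat_lit 36) (nat_lit 5)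 (nat_lit 38) (nat_lit 5) (nat_lit 39) (nat_lit 5) (nat_lit 320) (nat_lit 299) (nat_lit 161))) (XT.nd (nat_lit 78) (nat_lit 380) (nat_lit 0) (XT.lf (nat_lit 0) (nat_lit 6083330412) (nat_lit 228) (nat_lit 46240033027) (nat_lit 76) (nat_lit 173415010920) (nat_lit 35) (nat_lit 5) (nat_lit 38) (nat_lit 5) (nat_lit 36) (nat_lit 5) (nat_lit 321) (nat_lit 299) (nat_lit 160)) (XT.nd (nat_lit 78) (nat_lit 152) (nat_lit 0) (XT.lf (nat_lit 0) (nat_lit 65057620239) (nat_lit 304) (nat_lit 115713728456) (nat_lit 76) (nat_lit 57292217141) (nat_lit 32) (nat_lit 5) (nat_lit 36) (nat_lit 5) (nat_lit 33) (nat_lit 5) (nat_lit 322) (nat_lit 299) (nat_lit 159)) (XT.lf (nat_lit 0) (nat_lit 55628019467) (nat_lit 152) (nat_lit 75690912429) (nat_lit 228) (nat_lit 119927387301) (nat_lit 30) (nat_lit 5) (nat_lit 32) (nat_lit 5) (nat_lit 33) (nat_lit 5) (nat_lit 323) (nat_lit 299) (nat_lit 158)))))) (XT.nd (nat_lit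 390) (nat_lit 608) (nat_lit 0) (XT.nd (nat_lit 156) (nat_lit 304) (nat_lit 0) (XT.nd (nat_lit 78) (nat_lit 228) (nat_lit 0) (XT.lf (nat_lit 0) (nat_lit 205519593583) (nat_lit 228) (nat_lit 21197405428) (nat_lit 76) (nat_lit 38634772019) (nat_lit 30) (nat_lit 5) (nat_lit 33) (nat_lit 5) (nat_lit 31) (nat_lit 5) (nat_lit 324) (nat_lit 299) (nat_lit 157)) (XT.lf (nat_lit 0) (nat_lit 8924907355) (nat_lit 228) (nat_lit 109146249674) (nat_lit 76) (nat_lit 162309716505) (nat_lit 27) (nat_lit 5) (nat_lit 30) (nat_lit 5) (nat_lit 28) (nat_lit 5) (nat_lit 325) (nat_lit 299) (nat_lit 156))) (XT.nd (nat_lit 78) (nat_lit 152) (nat_lit 0) (XT.lf (nat_lit 0) (nat_lit 82848254572) (nat_lit 228) (nat_lit 211582700637) (nat_lit 76) (nat_lit 2044210452) (nat_lit 25) (nat_lit 5) (nat_lit 28) (nat_lit 5) (nat_lit 26) (nat_lit 5) (nat_lit 326) (nat_lit 299) (nat_lit 155)) (XT.nd (nat_lit 78) (nat_lit 152) (nat_lit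 0) (XT.lf (nat_lit 0) (nat_lit 166608483683) (nat_lit 228) (nat_lit 17432643731) (nat_lit 76) (nat_lit 129619723384) (nat_lit 25) (nat_lit 5) (nat_lit 28) (nat_lit 5) (nat_lit 26) (nat_lit 5) (nat_lit 327) (nat_lit 299) (nat_lit 154)) (XT.lf (nat_lit 0) (nat_lit 198605577098) (nat_lit 152) (nat_lit 61564459718) (nat_lit 228) (nat_lit 71896328969) (nat_lit 23) (nat_lit 5) (nat_lit 25) (nat_lit 5) (nat_lit 26) (nat_lit 5) (nat_lit 328) (nat_lit 299) (nat_lit 153))))) (XT.nd (nat_lit 234) (nat_lit 304) (nat_lit 0) (XT.nd (nat_lit 78) (nat_lit 152) (nat_lit 0) (XT.lf (nat_lit 0) (nat_lit 11714390972) (nat_lit 152) (nat_lit 269858722224) (nat_lit 76) (nat_lit 70227022474) (nat_lit 21) (nat_lit 5) (nat_lit 23) (nat_lit 5) (nat_lit 22) (nat_lit 5) (nat_lit 329) (nat_lit 299) (nat_lit 152)) (XT.nd (nat_lit 78) (nat_lit 152) (nat_lit 0) (XT.lf (nat_lit 0) (nat_lit 102929484538) (nat_lit 152) (nat_lit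 55943677795) (nat_lit 76) (nat_lit 214008792998) (nat_lit 21) (nat_lit 5) (nat_lit 23) (nat_lit 5) (nat_lit 22) (nat_lit 5) (nat_lit 330) (nat_lit 299) (nat_lit 151)) (XT.lf (nat_lit 0) (nat_lit 180873235928) (nat_lit 152) (nat_lit 23392243794) (nat_lit 228) (nat_lit 191243656380) (nat_lit 19) (nat_lit 5) (nat_lit 21) (nat_lit 5) (nat_lit 22) (nat_lit 5) (nat_lit 331) (nat_lit 299) (nat_lit 150)))) (XT.nd (nat_lit 78) (nat_lit 228) (nat_lit 0) (XT.lf (nat_lit 0) (nat_lit 17355334546) (nat_lit 76) (nat_lit 299533466451) (nat_lit 152) (nat_lit 102898668238) (nat_lit 18) (nat_lit 5) (nat_lit 19) (nat_lit 5) (nat_lit 20) (nat_lit 4) (nat_lit 332) (nat_lit 299) (nat_lit 149)) (XT.nd (nat_lit 78) (nat_lit 228) (nat_lit 0) (XT.lf (nat_lit 0) (nat_lit 275162587305) (nat_lit 76) (nat_lit 167486070623) (nat_lit 152) (nat_lit 3153077802) (nat_lit 18) (nat_lit 5) (nat_lit 19) (nat_lit 5) (nat_lit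 20) (nat_lit 4) (nat_lit 333) (nat_lit 299) (nat_lit 148)) (XT.lf (nat_lit 0) (nat_lit 80645408411) (nat_lit 152) (nat_lit 21838680014) (nat_lit 228) (nat_lit 371268477543) (nat_lit 15) (nat_lit 5) (nat_lit 17) (nat_lit 5) (nat_lit 18) (nat_lit 5) (nat_lit 334) (nat_lit 299) (nat_lit 147))))))))
noncomputable def xc111 : XT := (XT.nd (nat_lit 38844) (nat_lit 0) (nat_lit 684) (XT.nd (nat_lit 37986) (nat_lit 0) (nat_lit 4104) (XT.nd (nat_lit 390) (nat_lit 228) (nat_lit 0) (XT.nd (nat_lit 156) (nat_lit 152) (nat_lit 0) (XT.nd (nat_lit 78) (nat_lit 76) (nat_lit 0) (XT.lf (nat_lit 0) (nat_lit 221599104335) (nat_lit 228) (nat_lit 147881808455) (nat_lit 76) (nat_lit 134199098272) (nat_lit 15) (nat_lit 5) (nat_lit 18) (nat_lit 5) (nat_lit 16) (nat_lit 4) (nat_lit 335) (nat_lit 299) (nat_lit 146)) (XT.lf (nat_lit 0) (nat_lit 120448093070) (nat_lit 76) (nat_lit 232043813570) (nat_lit 152) (nat_lit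 183397316025) (nat_lit 14) (nat_lit 5) (nat_lit 15) (nat_lit 5) (nat_lit 16) (nat_lit 4) (nat_lit 336) (nat_lit 299) (nat_lit 145))) (XT.nd (nat_lit 78) (nat_lit 152) (nat_lit 0) (XT.lf (nat_lit 0) (nat_lit 415524885932) (nat_lit 76) (nat_lit 80907074679) (nat_lit 152) (nat_lit 74114419358) (nat_lit 14) (nat_lit 5) (nat_lit 15) (nat_lit 5) (nat_lit 16) (nat_lit 4) (nat_lit 337) (nat_lit 299) (nat_lit 144)) (XT.nd (nat_lit 78) (nat_lit 0) (nat_lit 0) (XT.lf (nat_lit 0) (nat_lit 45860132307) (nat_lit 152) (nat_lit 479473326445) (nat_lit 76) (nat_lit 82440649809) (nat_lit 12) (nat_lit 5) (nat_lit 14) (nat_lit 5) (nat_lit 13) (nat_lit 4) (nat_lit 338) (nat_lit 299) (nat_lit 143)) (XT.lf (nat_lit 0) (nat_lit 176979476075) (nat_lit 152) (nat_lit 210678931189) (nat_lit 76) (nat_lit 260053726962) (nat_lit 12) (nat_lit 5) (nat_lit 14) (nat_lit 5) (nat_lit 13) (nat_lit 4) (nat_lit 339) (nat_lit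 299) (nat_lit 142))))) (XT.nd (nat_lit 156) (nat_lit 152) (nat_lit 0) (XT.nd (nat_lit 78) (nat_lit 0) (nat_lit 0) (XT.lf (nat_lit 0) (nat_lit 82251304072) (nat_lit 76) (nat_lit 237621086886) (nat_lit 152) (nat_lit 370908609917) (nat_lit 11) (nat_lit 5) (nat_lit 12) (nat_lit 5) (nat_lit 13) (nat_lit 4) (nat_lit 340) (nat_lit 299) (nat_lit 141)) (XT.lf (nat_lit 0) (nat_lit 406138979417) (nat_lit 76) (nat_lit 71727508029) (nat_lit 152) (nat_lit 259245402092) (nat_lit 11) (nat_lit 5) (nat_lit 12) (nat_lit 5) (nat_lit 13) (nat_lit 4) (nat_lit 341) (nat_lit 299) (nat_lit 140))) (XT.nd (nat_lit 78) (nat_lit 152) (nat_lit 0) (XT.lf (nat_lit 0) (nat_lit 650177379301) (nat_lit 152) (nat_lit 32889223424) (nat_lit 0) (nat_lit 103998783279) (nat_lit 11) (nat_lit 5) (nat_lit 13) (nat_lit 4) (nat_lit 11) (nat_lit 4) (nat_lit 342) (nat_lit 299) (nat_lit 139)) (XT.nd (nat_lit 37284) (nat_lit 0) (nat_lit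 5700) (XT.lf (nat_lit 0) (nat_lit 1357461424) (nat_lit 152) (nat_lit 543395981737) (nat_lit 76) (nat_lit 295968035579) (nat_lit 9) (nat_lit 5) (nat_lit 11) (nat_lit 5) (nat_lit 10) (nat_lit 4) (nat_lit 343) (nat_lit 299) (nat_lit 138)) (XT.lf (nat_lit 0) (nat_lit 16485035002) (nat_lit 0) (nat_lit 16485035002) (nat_lit 684) (nat_lit 11483420378) (nat_lit 84) (nat_lit 5) (nat_lit 84) (nat_lit 3) (nat_lit 93) (nat_lit 3) (nat_lit 300) (nat_lit 300) (nat_lit 180)))))) (XT.nd (nat_lit 390) (nat_lit 1596) (nat_lit 0) (XT.nd (nat_lit 156) (nat_lit 0) (nat_lit 76) (XT.nd (nat_lit 78) (nat_lit 0) (nat_lit 76) (XT.lf (nat_lit 76) (nat_lit 7310250413) (nat_lit 0) (nat_lit 61884593218) (nat_lit 760) (nat_lit 23237533358) (nat_lit 85) (nat_lit 5) (nat_lit 84) (nat_lit 5) (nat_lit 94) (nat_lit 5) (nat_lit 301) (nat_lit 300) (nat_lit 179)) (XT.lf (nat_lit 0) (nat_lit 74273930935) (nat_lit 684) (nat_lit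 19168010495) (nat_lit 760) (nat_lit 2719665923) (nat_lit 85) (nat_lit 5) (nat_lit 94) (nat_lit 5) (nat_lit 95) (nat_lit 5) (nat_lit 302) (nat_lit 300) (nat_lit 178))) (XT.nd (nat_lit 78) (nat_lit 0) (nat_lit 76) (XT.lf (nat_lit 76) (nat_lit 52705126090) (nat_lit 0) (nat_lit 28919466327) (nat_lit 760) (nat_lit 18471323973) (nat_lit 86) (nat_lit 5) (nat_lit 85) (nat_lit 5) (nat_lit 95) (nat_lit 5) (nat_lit 303) (nat_lit 300) (nat_lit 177)) (XT.nd (nat_lit 78) (nat_lit 0) (nat_lit 76) (XT.lf (nat_lit 76) (nat_lit 26902705899) (nat_lit 0) (nat_lit 64055411183) (nat_lit 760) (nat_lit 13317114966) (nat_lit 87) (nat_lit 5) (nat_lit 86) (nat_lit 5) (nat_lit 96) (nat_lit 5) (nat_lit 304) (nat_lit 300) (nat_lit 176)) (XT.lf (nat_lit 0) (nat_lit 102436079880) (nat_lit 684) (nat_lit 489598492) (nat_lit 760) (nat_lit 5793329010) (nat_lit 87) (nat_lit 5) (nat_lit 96) (nat_lit 5) (nat_lit 97) (nat_lit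 5) (nat_lit 305) (nat_lit 300) (nat_lit 175))))) (XT.nd (nat_lit 234) (nat_lit 684) (nat_lit 0) (XT.nd (nat_lit 78) (nat_lit 380) (nat_lit 0) (XT.lf (nat_lit 0) (nat_lit 3704285718) (nat_lit 760) (nat_lit 29301674869) (nat_lit 836) (nat_lit 80389683028) (nat_lit 77) (nat_lit 5) (nat_lit 87) (nat_lit 5) (nat_lit 88) (nat_lit 5) (nat_lit 306) (nat_lit 300) (nat_lit 174)) (XT.nd (nat_lit 78) (nat_lit 456) (nat_lit 0) (XT.lf (nat_lit 0) (nat_lit 15879581288) (nat_lit 760) (nat_lit 60284821242) (nat_lit 76) (nat_lit 42196398675) (nat_lit 78) (nat_lit 5) (nat_lit 88) (nat_lit 5) (nat_lit 79) (nat_lit 5) (nat_lit 307) (nat_lit 300) (nat_lit 173)) (XT.lf (nat_lit 0) (nat_lit 30193293822) (nat_lit 456) (nat_lit 381532197) (nat_lit 532) (nat_lit 93071050795) (nat_lit 72) (nat_lit 5) (nat_lit 78) (nat_lit 5) (nat_lit 79) (nat_lit 5) (nat_lit 308) (nat_lit 300) (nat_lit 172)))) (XT.nd (nat_lit 78)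 (nat_lit 684) (nat_lit 0) (XT.lf (nat_lit 0) (nat_lit 48784157547) (nat_lit 532) (nat_lit 528669296) (nat_lit 76) (nat_lit 79924009830) (nat_lit 72) (nat_lit 5) (nat_lit 79) (nat_lit 5) (nat_lit 73) (nat_lit 5) (nat_lit 309) (nat_lit 300) (nat_lit 171)) (XT.nd (nat_lit 78) (nat_lit 304) (nat_lit 0) (XT.lf (nat_lit 0) (nat_lit 70582112488) (nat_lit 456) (nat_lit 32587777165) (nat_lit 76) (nat_lit 31998591270) (nat_lit 67) (nat_lit 5) (nat_lit 73) (nat_lit 5) (nat_lit 68) (nat_lit 5) (nat_lit 310) (nat_lit 300) (nat_lit 170)) (XT.lf (nat_lit 0) (nat_lit 73916977337) (nat_lit 304) (nat_lit 22201187813) (nat_lit 380) (nat_lit 45356779836) (nat_lit 63) (nat_lit 5) (nat_lit 67) (nat_lit 5) (nat_lit 68) (nat_lit 5) (nat_lit 311) (nat_lit 300) (nat_lit 169))))))) (XT.nd (nat_lit 858) (nat_lit 1292) (nat_lit 0) (XT.nd (nat_lit 390) (nat_lit 988) (nat_lit 0) (XT.nd (nat_lit 156) (nat_lit 532) (nat_lit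 0) (XT.nd (nat_lit 78) (nat_lit 304) (nat_lit 0) (XT.lf (nat_lit 0) (nat_lit 42169302512) (nat_lit 304) (nat_lit 83781185390) (nat_lit 380) (nat_lit 22222770220) (nat_lit 59) (nat_lit 5) (nat_lit 63) (nat_lit 5) (nat_lit 64) (nat_lit 5) (nat_lit 312) (nat_lit 300) (nat_lit 168)) (XT.lf (nat_lit 0) (nat_lit 4410861275) (nat_lit 304) (nat_lit 147827968841) (nat_lit 76) (nat_lit 3079586133) (nat_lit 55) (nat_lit 5) (nat_lit 59) (nat_lit 5) (nat_lit 56) (nat_lit 5) (nat_lit 313) (nat_lit 300) (nat_lit 167))) (XT.nd (nat_lit 78) (nat_lit 532) (nat_lit 0) (XT.lf (nat_lit 0) (nat_lit 35695950372) (nat_lit 304) (nat_lit 30911454785) (nat_lit 76) (nat_lit 96244600264) (nat_lit 55) (nat_lit 5) (nat_lit 59) (nat_lit 5) (nat_lit 56) (nat_lit 5) (nat_lit 314) (nat_lit 300) (nat_lit 166)) (XT.nd (nat_lit 78) (nat_lit 228) (nat_lit 0) (XT.lf (nat_lit 0) (nat_lit 71450543040) (nat_lit 380) (nat_lit 72829877105)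 (nat_lit 76) (nat_lit 26609527697) (nat_lit 51) (nat_lit 5) (nat_lit 56) (nat_lit 5) (nat_lit 52) (nat_lit 5) (nat_lit 315) (nat_lit 300) (nat_lit 165)) (XT.lf (nat_lit 0) (nat_lit 59686939590) (nat_lit 228) (nat_lit 52980360782) (nat_lit 304) (nat_lit 66773536291) (nat_lit 48) (nat_lit 5) (nat_lit 51) (nat_lit 5) (nat_lit 52) (nat_lit 5) (nat_lit 316) (nat_lit 300) (nat_lit 164))))) (XT.nd (nat_lit 234) (nat_lit 456) (nat_lit 0) (XT.nd (nat_lit 78) (nat_lit 304) (nat_lit 0) (XT.lf (nat_lit 0) (nat_lit 16590750972) (nat_lit 228) (nat_lit 142850970935) (nat_lit 304) (nat_lit 29121059304) (nat_lit 45) (nat_lit 5) (nat_lit 48) (nat_lit 5) (nat_lit 49) (nat_lit 5) (nat_lit 317) (nat_lit 300) (nat_lit 163)) (XT.nd (nat_lit 78) (nat_lit 228) (nat_lit 0) (XT.lf (nat_lit 0) (nat_lit 14187278627) (nat_lit 304) (nat_lit 31299209829) (nat_lit 76) (nat_lit 152768325639) (nat_lit 44) (nat_lit 5) (nat_lit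 48) (nat_lit 5) (nat_lit 45) (nat_lit 5) (nat_lit 318) (nat_lit 300) (nat_lit 162)) (XT.lf (nat_lit 0) (nat_lit 62862307577) (nat_lit 304) (nat_lit 85464102537) (nat_lit 76) (nat_lit 60225816228) (nat_lit 41) (nat_lit 5) (nat_lit 45) (nat_lit 5) (nat_lit 42) (nat_lit 5) (nat_lit 319) (nat_lit 300) (nat_lit 161)))) (XT.nd (nat_lit 78) (nat_lit 228) (nat_lit 0) (XT.lf (nat_lit 0) (nat_lit 72853241254) (nat_lit 228) (nat_lit 45036281440) (nat_lit 304) (nat_lit 101661000290) (nat_lit 38) (nat_lit 5) (nat_lit 41) (nat_lit 5) (nat_lit 42) (nat_lit 5) (nat_lit 320) (nat_lit 300) (nat_lit 160)) (XT.nd (nat_lit 78) (nat_lit 76) (nat_lit 0) (XT.lf (nat_lit 0) (nat_lit 14948601782) (nat_lit 152) (nat_lit 165154979348) (nat_lit 228) (nat_lit 51185869485) (nat_lit 36) (nat_lit 5) (nat_lit 38) (nat_lit 5) (nat_lit 39) (nat_lit 5) (nat_lit 321) (nat_lit 300) (nat_lit 159)) (XT.lf (nat_lit 0) (nat_lit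 6577072931) (nat_lit 228) (nat_lit 49928822377) (nat_lit 76) (nat_lit 187291185512) (nat_lit 35) (nat_lit 5) (nat_lit 38) (nat_lit 5) (nat_lit 36) (nat_lit 5) (nat_lit 322) (nat_lit 300) (nat_lit 158)))))) (XT.nd (nat_lit 390) (nat_lit 532) (nat_lit 0) (XT.nd (nat_lit 156) (nat_lit 380) (nat_lit 0) (XT.nd (nat_lit 78) (nat_lit 152) (nat_lit 0) (XT.lf (nat_lit 0) (nat_lit 70268988097) (nat_lit 304) (nat_lit 124960572444) (nat_lit 76) (nat_lit 61878743684) (nat_lit 32) (nat_lit 5) (nat_lit 36) (nat_lit 5) (nat_lit 33) (nat_lit 5) (nat_lit 323) (nat_lit 300) (nat_lit 157)) (XT.lf (nat_lit 0) (nat_lit 60088069674) (nat_lit 152) (nat_lit 81742787543) (nat_lit 228) (nat_lit 129514838675) (nat_lit 30) (nat_lit 5) (nat_lit 32) (nat_lit 5) (nat_lit 33) (nat_lit 5) (nat_lit 324) (nat_lit 300) (nat_lit 156))) (XT.nd (nat_lit 78) (nat_lit 380) (nat_lit 0) (XT.lf (nat_lit 0) (nat_lit 221967146088)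 (nat_lit 228) (nat_lit 22883860419) (nat_lit 76) (nat_lit 41728599268) (nat_lit 30) (nat_lit 5) (nat_lit 33) (nat_lit 5) (nat_lit 31) (nat_lit 5) (nat_lit 325) (nat_lit 300) (nat_lit 155)) (XT.nd (nat_lit 78) (nat_lit 152) (nat_lit 0) (XT.lf (nat_lit 0) (nat_lit 9644681098) (nat_lit 228) (nat_lit 117868820068) (nat_lit 76) (nat_lit 175297546414) (nat_lit 27) (nat_lit 5) (nat_lit 30) (nat_lit 5) (nat_lit 28) (nat_lit 5) (nat_lit 326) (nat_lit 300) (nat_lit 154)) (XT.lf (nat_lit 0) (nat_lit 89481654843) (nat_lit 228) (nat_lit 228500353770) (nat_lit 76) (nat_lit 2210887028) (nat_lit 25) (nat_lit 5) (nat_lit 28) (nat_lit 5) (nat_lit 26) (nat_lit 5) (nat_lit 327) (nat_lit 300) (nat_lit 153))))) (XT.nd (nat_lit 234) (nat_lit 228) (nat_lit 0) (XT.nd (nat_lit 78) (nat_lit 304) (nat_lit 0) (XT.lf (nat_lit 0) (nat_lit 179942291921) (nat_lit 228) (nat_lit 18818956232) (nat_lit 76) (nat_lit 139992208421)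 (nat_lit 25) (nat_lit 5) (nat_lit 28) (nat_lit 5) (nat_lit 26) (nat_lit 5) (nat_lit 328) (nat_lit 300) (nat_lit 152)) (XT.nd (nat_lit 78) (nat_lit 152) (nat_lit 0) (XT.lf (nat_lit 0) (nat_lit 214501961599) (nat_lit 152) (nat_lit 66486551678) (nat_lit 228) (nat_lit 77642912714) (nat_lit 23) (nat_lit 5) (nat_lit 25) (nat_lit 5) (nat_lit 26) (nat_lit 5) (nat_lit 329) (nat_lit 300) (nat_lit 151)) (XT.lf (nat_lit 0) (nat_lit 12656302146) (nat_lit 152) (nat_lit 291439472068) (nat_lit 76) (nat_lit 75848129569) (nat_lit 21) (nat_lit 5) (nat_lit 23) (nat_lit 5) (nat_lit 22) (nat_lit 5) (nat_lit 330) (nat_lit 300) (nat_lit 150)))) (XT.nd (nat_lit 78) (nat_lit 228) (nat_lit 0) (XT.lf (nat_lit 0) (nat_lit 111168250612) (nat_lit 152) (nat_lit 60411812820) (nat_lit 76) (nat_lit 231132223565) (nat_lit 21) (nat_lit 5) (nat_lit 23) (nat_lit 5) (nat_lit 22) (nat_lit 5) (nat_lit 331) (nat_lit 300) (nat_lit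 149)) (XT.nd (nat_lit 78) (nat_lit 76) (nat_lit 0) (XT.lf (nat_lit 0) (nat_lit 195350134178) (nat_lit 152) (nat_lit 25260774669) (nat_lit 228) (nat_lit 206538744536) (nat_lit 19) (nat_lit 5) (nat_lit 21) (nat_lit 5) (nat_lit 22) (nat_lit 5) (nat_lit 332) (nat_lit 300) (nat_lit 148)) (XT.lf (nat_lit 0) (nat_lit 18750656544) (nat_lit 76) (nat_lit 323493277691) (nat_lit 152) (nat_lit 111126327315) (nat_lit 18) (nat_lit 5) (nat_lit 19) (nat_lit 5) (nat_lit 20) (nat_lit 4) (nat_lit 333) (nat_lit 300) (nat_lit 147))))))))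
noncomputable def xc112 : XT := (XT.nd (nat_lit 39000) (nat_lit 0) (nat_lit 608) (XT.nd (nat_lit 38142) (nat_lit 0) (nat_lit 3952) (XT.nd (nat_lit 390) (nat_lit 228) (nat_lit 0) (XT.nd (nat_lit 156) (nat_lit 76) (nat_lit 0) (XT.nd (nat_lit 78) (nat_lit 228) (nat_lit 0) (XT.lf (nat_lit 0) (nat_lit 297181978766) (nat_lit 76) (nat_lit 180882302498) (nat_lit 152) (nat_lit 3401403302) (nat_lit 18) (nat_lit 5) (nat_lit 19) (nat_lit 5) (nat_lit 20) (nat_lit 4) (nat_lit 334) (nat_lit 300) (nat_lit 146)) (XT.lf (nat_lit 0) (nat_lit 87103271310) (nat_lit 152) (nat_lit 23583155568) (nat_lit 228) (nat_lit 400966160723) (nat_lit 15) (nat_lit 5) (nat_lit 17) (nat_lit 5) (nat_lit 18) (nat_lit 5) (nat_lit 335) (nat_lit 300) (nat_lit 145))) (XT.nd (nat_lit 78) (nat_lit 76) (nat_lit 0) (XT.lf (nat_lit 0) (nat_lit 239330414411) (nat_lit 228) (nat_lit 159706452221) (nat_lit 76) (nat_lit 144937373382) (nat_lit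 15) (nat_lit 5) (nat_lit 18) (nat_lit 5) (nat_lit 16) (nat_lit 4) (nat_lit 336) (nat_lit 300) (nat_lit 144)) (XT.nd (nat_lit 78) (nat_lit 0) (nat_lit 0) (XT.lf (nat_lit 0) (nat_lit 130089584980) (nat_lit 76) (nat_lit 250604893547) (nat_lit 152) (nat_lit 198065718346) (nat_lit 14) (nat_lit 5) (nat_lit 15) (nat_lit 5) (nat_lit 16) (nat_lit 4) (nat_lit 337) (nat_lit 300) (nat_lit 143)) (XT.lf (nat_lit 0) (nat_lit 448772103162) (nat_lit 76) (nat_lit 87377395182) (nat_lit 152) (nat_lit 80040440535) (nat_lit 14) (nat_lit 5) (nat_lit 15) (nat_lit 5) (nat_lit 16) (nat_lit 4) (nat_lit 338) (nat_lit 300) (nat_lit 142))))) (XT.nd (nat_lit 156) (nat_lit 76) (nat_lit 0) (XT.nd (nat_lit 78) (nat_lit 0) (nat_lit 0) (XT.lf (nat_lit 0) (nat_lit 49531864498) (nat_lit 152) (nat_lit 517825983214) (nat_lit 76) (nat_lit 89038041301) (nat_lit 12) (nat_lit 5) (nat_lit 14) (nat_lit 5) (nat_lit 13) (nat_lit 4)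 (nat_lit 339) (nat_lit 300) (nat_lit 141)) (XT.lf (nat_lit 0) (nat_lit 191140539353) (nat_lit 152) (nat_lit 227528422215) (nat_lit 76) (nat_lit 280860006145) (nat_lit 12) (nat_lit 5) (nat_lit 14) (nat_lit 5) (nat_lit 13) (nat_lit 4) (nat_lit 340) (nat_lit 300) (nat_lit 140))) (XT.nd (nat_lit 78) (nat_lit 0) (nat_lit 0) (XT.lf (nat_lit 0) (nat_lit 88836022245) (nat_lit 76) (nat_lit 256628736832) (nat_lit 152) (nat_lit 400578591180) (nat_lit 11) (nat_lit 5) (nat_lit 12) (nat_lit 5) (nat_lit 13) (nat_lit 4) (nat_lit 341) (nat_lit 300) (nat_lit 139)) (XT.nd (nat_lit 37440) (nat_lit 0) (nat_lit 5548) (XT.lf (nat_lit 0) (nat_lit 438634369851) (nat_lit 76) (nat_lit 77463822555) (nat_lit 152) (nat_lit 279982527288) (nat_lit 11) (nat_lit 5) (nat_lit 12) (nat_lit 5) (nat_lit 13) (nat_lit 4) (nat_lit 342) (nat_lit 300) (nat_lit 138)) (XT.lf (nat_lit 0) (nat_lit 17809741909) (nat_lit 0) (nat_lit 17809741909)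 (nat_lit 684) (nat_lit 12389667955) (nat_lit 84) (nat_lit 5) (nat_lit 84) (nat_lit 3) (nat_lit 93) (nat_lit 3) (nat_lit 301) (nat_lit 301) (nat_lit 178)))))) (XT.nd (nat_lit 390) (nat_lit 1596) (nat_lit 0) (XT.nd (nat_lit 156) (nat_lit 0) (nat_lit 76) (XT.nd (nat_lit 78) (nat_lit 0) (nat_lit 76) (XT.lf (nat_lit 76) (nat_lit 7907723816) (nat_lit 0) (nat_lit 66844601219) (nat_lit 760) (nat_lit 25073496622) (nat_lit 85) (nat_lit 5) (nat_lit 84) (nat_lit 5) (nat_lit 94) (nat_lit 5) (nat_lit 302) (nat_lit 301) (nat_lit 177)) (XT.lf (nat_lit 0) (nat_lit 80235983968) (nat_lit 684) (nat_lit 20688541028) (nat_lit 760) (nat_lit 2928956985) (nat_lit 85) (nat_lit 5) (nat_lit 94) (nat_lit 5) (nat_lit 95) (nat_lit 5) (nat_lit 303) (nat_lit 301) (nat_lit 176))) (XT.nd (nat_lit 78) (nat_lit 0) (nat_lit 76) (XT.lf (nat_lit 76) (nat_lit 56933885418) (nat_lit 0) (nat_lit 31239514011) (nat_lit 760) (nat_lit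 19929204742) (nat_lit 86) (nat_lit 5) (nat_lit 85) (nat_lit 5) (nat_lit 95) (nat_lit 5) (nat_lit 304) (nat_lit 301) (nat_lit 175)) (XT.nd (nat_lit 78) (nat_lit 0) (nat_lit 76) (XT.lf (nat_lit 76) (nat_lit 29067774557) (nat_lit 0) (nat_lit 69184542815) (nat_lit 760) (nat_lit 14364015371) (nat_lit 87) (nat_lit 5) (nat_lit 86) (nat_lit 5) (nat_lit 96) (nat_lit 5) (nat_lit 305) (nat_lit 301) (nat_lit 174)) (XT.lf (nat_lit 0) (nat_lit 110647149199) (nat_lit 684) (nat_lit 515948394) (nat_lit 760) (nat_lit 6252583898) (nat_lit 87) (nat_lit 5) (nat_lit 96) (nat_lit 5) (nat_lit 97) (nat_lit 5) (nat_lit 306) (nat_lit 301) (nat_lit 173))))) (XT.nd (nat_lit 234) (nat_lit 684) (nat_lit 0) (XT.nd (nat_lit 78) (nat_lit 380) (nat_lit 0) (XT.lf (nat_lit 0) (nat_lit 4016086441) (nat_lit 760) (nat_lit 31633003902) (nat_lit 836) (nat_lit 86817398943) (nat_lit 77) (nat_lit 5) (nat_lit 87) (nat_lit 5) (nat_lit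 88) (nat_lit 5) (nat_lit 307) (nat_lit 301) (nat_lit 172)) (XT.nd (nat_lit 78) (nat_lit 456) (nat_lit 0) (XT.lf (nat_lit 0) (nat_lit 17164416646) (nat_lit 760) (nat_lit 65094567568) (nat_lit 76) (nat_lit 45569927159) (nat_lit 78) (nat_lit 5) (nat_lit 88) (nat_lit 5) (nat_lit 79) (nat_lit 5) (nat_lit 308) (nat_lit 301) (nat_lit 171)) (XT.lf (nat_lit 0) (nat_lit 32621230026) (nat_lit 456) (nat_lit 413173896) (nat_lit 532) (nat_lit 100502435218) (nat_lit 72) (nat_lit 5) (nat_lit 78) (nat_lit 5) (nat_lit 79) (nat_lit 5) (nat_lit 309) (nat_lit 301) (nat_lit 170)))) (XT.nd (nat_lit 78) (nat_lit 684) (nat_lit 0) (XT.lf (nat_lit 0) (nat_lit 52699458993) (nat_lit 532) (nat_lit 558742479) (nat_lit 76) (nat_lit 86316927556) (nat_lit 72) (nat_lit 5) (nat_lit 79) (nat_lit 5) (nat_lit 73) (nat_lit 5) (nat_lit 310) (nat_lit 301) (nat_lit 169)) (XT.nd (nat_lit 78) (nat_lit 304) (nat_lit 0) (XT.lf (nat_lit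 0) (nat_lit 76240499760) (nat_lit 456) (nat_lit 35182492797) (nat_lit 76) (nat_lit 34558351726) (nat_lit 67) (nat_lit 5) (nat_lit 73) (nat_lit 5) (nat_lit 68) (nat_lit 5) (nat_lit 311) (nat_lit 301) (nat_lit 168)) (XT.lf (nat_lit 0) (nat_lit 79842107237) (nat_lit 304) (nat_lit 23976637760) (nat_lit 380) (nat_lit 48973616848) (nat_lit 63) (nat_lit 5) (nat_lit 67) (nat_lit 5) (nat_lit 68) (nat_lit 5) (nat_lit 312) (nat_lit 301) (nat_lit 167))))))) (XT.nd (nat_lit 780) (nat_lit 1292) (nat_lit 0) (XT.nd (nat_lit 390) (nat_lit 912) (nat_lit 0) (XT.nd (nat_lit 156) (nat_lit 532) (nat_lit 0) (XT.nd (nat_lit 78) (nat_lit 304) (nat_lit 0) (XT.lf (nat_lit 0) (nat_lit 45554650796) (nat_lit 304) (nat_lit 90482372197) (nat_lit 380) (nat_lit 23989550227) (nat_lit 59) (nat_lit 5) (nat_lit 63) (nat_lit 5) (nat_lit 64) (nat_lit 5) (nat_lit 313) (nat_lit 301) (nat_lit 166)) (XT.lf (nat_lit 0) (nat_lit 4773833034)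 (nat_lit 304) (nat_lit 159642060607) (nat_lit 76) (nat_lit 3327472471) (nat_lit 55) (nat_lit 5) (nat_lit 59) (nat_lit 5) (nat_lit 56) (nat_lit 5) (nat_lit 314) (nat_lit 301) (nat_lit 165))) (XT.nd (nat_lit 78) (nat_lit 532) (nat_lit 0) (XT.lf (nat_lit 0) (nat_lit 38560980899) (nat_lit 304) (nat_lit 33373125111) (nat_lit 76) (nat_lit 103945575180) (nat_lit 55) (nat_lit 5) (nat_lit 59) (nat_lit 5) (nat_lit 56) (nat_lit 5) (nat_lit 315) (nat_lit 301) (nat_lit 164)) (XT.nd (nat_lit 78) (nat_lit 228) (nat_lit 0) (XT.lf (nat_lit 0) (nat_lit 77175446105) (nat_lit 380) (nat_lit 78645082892) (nat_lit 76) (nat_lit 28740156006) (nat_lit 51) (nat_lit 5) (nat_lit 56) (nat_lit 5) (nat_lit 52) (nat_lit 5) (nat_lit 316) (nat_lit 301) (nat_lit 163)) (XT.lf (nat_lit 0) (nat_lit 64472593079) (nat_lit 228) (nat_lit 57216461706) (nat_lit 304) (nat_lit 72106615767) (nat_lit 48) (nat_lit 5) (nat_lit 51) (nat_lit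 5) (nat_lit 52) (nat_lit 5) (nat_lit 317) (nat_lit 301) (nat_lit 162))))) (XT.nd (nat_lit 156) (nat_lit 608) (nat_lit 0) (XT.nd (nat_lit 78) (nat_lit 76) (nat_lit 0) (XT.lf (nat_lit 0) (nat_lit 17928623894) (nat_lit 228) (nat_lit 154276385472) (nat_lit 304) (nat_lit 31442383410) (nat_lit 45) (nat_lit 5) (nat_lit 48) (nat_lit 5) (nat_lit 49) (nat_lit 5) (nat_lit 318) (nat_lit 301) (nat_lit 161)) (XT.lf (nat_lit 0) (nat_lit 15329754479) (nat_lit 304) (nat_lit 33793060278) (nat_lit 76) (nat_lit 164991997929) (nat_lit 44) (nat_lit 5) (nat_lit 48) (nat_lit 5) (nat_lit 45) (nat_lit 5) (nat_lit 319) (nat_lit 301) (nat_lit 160))) (XT.nd (nat_lit 78) (nat_lit 380) (nat_lit 0) (XT.lf (nat_lit 0) (nat_lit 67898421250) (nat_lit 304) (nat_lit 92291257258) (nat_lit 76) (nat_lit 65046358508) (nat_lit 41) (nat_lit 5) (nat_lit 45) (nat_lit 5) (nat_lit 42) (nat_lit 5) (nat_lit 320) (nat_lit 301) (nat_lit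 159)) (XT.nd (nat_lit 78) (nat_lit 152) (nat_lit 0) (XT.lf (nat_lit 0) (nat_lit 78691040602) (nat_lit 228) (nat_lit 48636393842) (nat_lit 304) (nat_lit 109786782716) (nat_lit 38) (nat_lit 5) (nat_lit 41) (nat_lit 5) (nat_lit 42) (nat_lit 5) (nat_lit 321) (nat_lit 301) (nat_lit 158)) (XT.lf (nat_lit 0) (nat_lit 16153906260) (nat_lit 152) (nat_lit 178364398649) (nat_lit 228) (nat_lit 55273970477) (nat_lit 36) (nat_lit 5) (nat_lit 38) (nat_lit 5) (nat_lit 39) (nat_lit 5) (nat_lit 322) (nat_lit 301) (nat_lit 157)))))) (XT.nd (nat_lit 390) (nat_lit 608) (nat_lit 0) (XT.nd (nat_lit 156) (nat_lit 380) (nat_lit 0) (XT.nd (nat_lit 78) (nat_lit 228) (nat_lit 0) (XT.lf (nat_lit 0) (nat_lit 7109305368) (nat_lit 228) (nat_lit 53914200447) (nat_lit 76) (nat_lit 202277029838) (nat_lit 35) (nat_lit 5) (nat_lit 38) (nat_lit 5) (nat_lit 36) (nat_lit 5) (nat_lit 323) (nat_lit 301) (nat_lit 156)) (XT.lf (nat_lit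 0) (nat_lit 75896301246) (nat_lit 304) (nat_lit 134948626840) (nat_lit 76) (nat_lit 66831743085) (nat_lit 32) (nat_lit 5) (nat_lit 36) (nat_lit 5) (nat_lit 33) (nat_lit 5) (nat_lit 324) (nat_lit 301) (nat_lit 155))) (XT.nd (nat_lit 78) (nat_lit 228) (nat_lit 0) (XT.lf (nat_lit 0) (nat_lit 64903524584) (nat_lit 152) (nat_lit 88279297412) (nat_lit 228) (nat_lit 139870247640) (nat_lit 30) (nat_lit 5) (nat_lit 32) (nat_lit 5) (nat_lit 33) (nat_lit 5) (nat_lit 325) (nat_lit 301) (nat_lit 154)) (XT.nd (nat_lit 78) (nat_lit 228) (nat_lit 0) (XT.lf (nat_lit 0) (nat_lit 239729648964) (nat_lit 228) (nat_lit 24706563899) (nat_lit 76) (nat_lit 45069498224) (nat_lit 30) (nat_lit 5) (nat_lit 33) (nat_lit 5) (nat_lit 31) (nat_lit 5) (nat_lit 326) (nat_lit 301) (nat_lit 153)) (XT.lf (nat_lit 0) (nat_lit 10421211994) (nat_lit 228) (nat_lit 127290498531) (nat_lit 76) (nat_lit 189323967230) (nat_lit 27)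 (nat_lit 5) (nat_lit 30) (nat_lit 5) (nat_lit 28) (nat_lit 5) (nat_lit 327) (nat_lit 301) (nat_lit 152))))) (XT.nd (nat_lit 234) (nat_lit 304) (nat_lit 0) (XT.nd (nat_lit 78) (nat_lit 152) (nat_lit 0) (XT.lf (nat_lit 0) (nat_lit 96644936807) (nat_lit 228) (nat_lit 246772697814) (nat_lit 76) (nat_lit 2390449812) (nat_lit 25) (nat_lit 5) (nat_lit 28) (nat_lit 5) (nat_lit 26) (nat_lit 5) (nat_lit 328) (nat_lit 301) (nat_lit 151)) (XT.nd (nat_lit 78) (nat_lit 152) (nat_lit 0) (XT.lf (nat_lit 0) (nat_lit 194342073030) (nat_lit 228) (nat_lit 20317357678) (nat_lit 76) (nat_lit 151194077522) (nat_lit 25) (nat_lit 5) (nat_lit 28) (nat_lit 5) (nat_lit 26) (nat_lit 5) (nat_lit 329) (nat_lit 301) (nat_lit 150)) (XT.lf (nat_lit 0) (nat_lit 231668924369) (nat_lit 152) (nat_lit 71802848226) (nat_lit 228) (nat_lit 83849953951) (nat_lit 23) (nat_lit 5) (nat_lit 25) (nat_lit 5) (nat_lit 26) (nat_lit 5)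 (nat_lit 330) (nat_lit 301) (nat_lit 149)))) (XT.nd (nat_lit 78) (nat_lit 152) (nat_lit 0) (XT.lf (nat_lit 0) (nat_lit 13672887162) (nat_lit 152) (nat_lit 314747815761) (nat_lit 76) (nat_lit 81918505053) (nat_lit 21) (nat_lit 5) (nat_lit 23) (nat_lit 5) (nat_lit 22) (nat_lit 5) (nat_lit 331) (nat_lit 301) (nat_lit 148)) (XT.nd (nat_lit 78) (nat_lit 152) (nat_lit 0) (XT.lf (nat_lit 0) (nat_lit 120065489221) (nat_lit 152) (nat_lit 65238448519) (nat_lit 76) (nat_lit 249625139523) (nat_lit 21) (nat_lit 5) (nat_lit 23) (nat_lit 5) (nat_lit 22) (nat_lit 5) (nat_lit 332) (nat_lit 301) (nat_lit 147)) (XT.lf (nat_lit 0) (nat_lit 210984180043) (nat_lit 152) (nat_lit 27279194404) (nat_lit 228) (nat_lit 223058068075) (nat_lit 19) (nat_lit 5) (nat_lit 21) (nat_lit 5) (nat_lit 22) (nat_lit 5) (nat_lit 333) (nat_lit 301) (nat_lit 146))))))))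
noncomputable def xc113 : XT := (XT.nd (nat_lit 39078) (nat_lit 0) (nat_lit 608) (XT.nd (nat_lit 38220) (nat_lit 0) (nat_lit 3952) (XT.nd (nat_lit 390) (nat_lit 228) (nat_lit 0) (XT.nd (nat_lit 156) (nat_lit 304) (nat_lit 0) (XT.nd (nat_lit 78) (nat_lit 0) (nat_lit 0) (XT.lf (nat_lit 0) (nat_lit 20256620619) (nat_lit 76) (nat_lit 349370282707) (nat_lit 152) (nat_lit 120012803200) (nat_lit 18) (nat_lit 5) (nat_lit 19) (nat_lit 5) (nat_lit 20) (nat_lit 4) (nat_lit 334) (nat_lit 301) (nat_lit 145)) (XT.lf (nat_lit 0) (nat_lit 320962010726) (nat_lit 76) (nat_lit 195350611513) (nat_lit 152) (nat_lit 3670154178) (nat_lit 18) (nat_lit 5) (nat_lit 19) (nat_lit 5) (nat_lit 20) (nat_lit 4) (nat_lit 335) (nat_lit 301) (nat_lit 144))) (XT.nd (nat_lit 78) (nat_lit 76) (nat_lit 0) (XT.lf (nat_lit 0) (nat_lit 94076874430) (nat_lit 152) (nat_lit 25467562774) (nat_lit 228) (nat_lit 433040199960) (nat_lit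 15) (nat_lit 5) (nat_lit 17) (nat_lit 5) (nat_lit 18) (nat_lit 5) (nat_lit 336) (nat_lit 301) (nat_lit 143)) (XT.nd (nat_lit 78) (nat_lit 76) (nat_lit 0) (XT.lf (nat_lit 0) (nat_lit 258479746850) (nat_lit 228) (nat_lit 172477909319) (nat_lit 76) (nat_lit 156534375639) (nat_lit 15) (nat_lit 5) (nat_lit 18) (nat_lit 5) (nat_lit 16) (nat_lit 4) (nat_lit 337) (nat_lit 301) (nat_lit 142)) (XT.lf (nat_lit 0) (nat_lit 140501590996) (nat_lit 76) (nat_lit 270651205892) (nat_lit 152) (nat_lit 213908075471) (nat_lit 14) (nat_lit 5) (nat_lit 15) (nat_lit 5) (nat_lit 16) (nat_lit 4) (nat_lit 338) (nat_lit 301) (nat_lit 141))))) (XT.nd (nat_lit 156) (nat_lit 76) (nat_lit 0) (XT.nd (nat_lit 78) (nat_lit 152) (nat_lit 0) (XT.lf (nat_lit 0) (nat_lit 484678352172) (nat_lit 76) (nat_lit 94365661668) (nat_lit 152) (nat_lit 86440990275) (nat_lit 14) (nat_lit 5) (nat_lit 15) (nat_lit 5) (nat_lit 16) (nat_lit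 4) (nat_lit 339) (nat_lit 301) (nat_lit 140)) (XT.lf (nat_lit 0) (nat_lit 53496918464) (nat_lit 152) (nat_lit 559247595696) (nat_lit 76) (nat_lit 96162918888) (nat_lit 12) (nat_lit 5) (nat_lit 14) (nat_lit 5) (nat_lit 13) (nat_lit 4) (nat_lit 340) (nat_lit 301) (nat_lit 139))) (XT.nd (nat_lit 78) (nat_lit 76) (nat_lit 0) (XT.lf (nat_lit 0) (nat_lit 206434101766) (nat_lit 152) (nat_lit 245726560644) (nat_lit 76) (nat_lit 303330505046) (nat_lit 12) (nat_lit 5) (nat_lit 14) (nat_lit 5) (nat_lit 13) (nat_lit 4) (nat_lit 341) (nat_lit 301) (nat_lit 138)) (XT.nd (nat_lit 37518) (nat_lit 0) (nat_lit 5548) (XT.lf (nat_lit 0) (nat_lit 95946859655) (nat_lit 76) (nat_lit 277157289374) (nat_lit 152) (nat_lit 432622557205) (nat_lit 11) (nat_lit 5) (nat_lit 12) (nat_lit 5) (nat_lit 13) (nat_lit 4) (nat_lit 342) (nat_lit 301) (nat_lit 137)) (XT.lf (nat_lit 0) (nat_lit 19239583081) (nat_lit 0) (nat_lit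 19239583081) (nat_lit 684) (nat_lit 13370188053) (nat_lit 84) (nat_lit 5) (nat_lit 84) (nat_lit 3) (nat_lit 93) (nat_lit 3) (nat_lit 302) (nat_lit 302) (nat_lit 176)))))) (XT.nd (nat_lit 390) (nat_lit 1596) (nat_lit 0) (XT.nd (nat_lit 156) (nat_lit 0) (nat_lit 76) (XT.nd (nat_lit 78) (nat_lit 0) (nat_lit 76) (XT.lf (nat_lit 76) (nat_lit 8551189946) (nat_lit 0) (nat_lit 72200091593) (nat_lit 760) (nat_lit 27059623776) (nat_lit 85) (nat_lit 5) (nat_lit 84) (nat_lit 5) (nat_lit 94) (nat_lit 5) (nat_lit 303) (nat_lit 302) (nat_lit 175)) (XT.lf (nat_lit 0) (nat_lit 86672128252) (nat_lit 684) (nat_lit 22332555803) (nat_lit 760) (nat_lit 3156172882) (nat_lit 85) (nat_lit 5) (nat_lit 94) (nat_lit 5) (nat_lit 95) (nat_lit 5) (nat_lit 304) (nat_lit 302) (nat_lit 174))) (XT.nd (nat_lit 78) (nat_lit 0) (nat_lit 76) (XT.lf (nat_lit 76) (nat_lit 61499183734) (nat_lit 0) (nat_lit 33744239586) (nat_lit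 760) (nat_lit 21506544252) (nat_lit 86) (nat_lit 5) (nat_lit 85) (nat_lit 5) (nat_lit 95) (nat_lit 5) (nat_lit 305) (nat_lit 302) (nat_lit 173)) (XT.nd (nat_lit 78) (nat_lit 0) (nat_lit 76) (XT.lf (nat_lit 76) (nat_lit 31404215200) (nat_lit 0) (nat_lit 74723334649) (nat_lit 760) (nat_lit 15497302588) (nat_lit 87) (nat_lit 5) (nat_lit 86) (nat_lit 5) (nat_lit 96) (nat_lit 5) (nat_lit 306) (nat_lit 302) (nat_lit 172)) (XT.lf (nat_lit 0) (nat_lit 119512795388) (nat_lit 684) (nat_lit 546234915) (nat_lit 760) (nat_lit 6749179985) (nat_lit 87) (nat_lit 5) (nat_lit 96) (nat_lit 5) (nat_lit 97) (nat_lit 5) (nat_lit 307) (nat_lit 302) (nat_lit 171))))) (XT.nd (nat_lit 234) (nat_lit 684) (nat_lit 0) (XT.nd (nat_lit 78) (nat_lit 380) (nat_lit 0) (XT.lf (nat_lit 0) (nat_lit 4350625984) (nat_lit 760) (nat_lit 34152666029) (nat_lit 836) (nat_lit 93759825558) (nat_lit 77) (nat_lit 5) (nat_lit 87) (nat_lit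 5) (nat_lit 88) (nat_lit 5) (nat_lit 308) (nat_lit 302) (nat_lit 170)) (XT.nd (nat_lit 78) (nat_lit 456) (nat_lit 0) (XT.lf (nat_lit 0) (nat_lit 18549974689) (nat_lit 760) (nat_lit 70290953812) (nat_lit 76) (nat_lit 49213649410) (nat_lit 78) (nat_lit 5) (nat_lit 88) (nat_lit 5) (nat_lit 79) (nat_lit 5) (nat_lit 309) (nat_lit 302) (nat_lit 169)) (XT.lf (nat_lit 0) (nat_lit 35241621756) (nat_lit 456) (nat_lit 447187276) (nat_lit 532) (nat_lit 108530370399) (nat_lit 72) (nat_lit 5) (nat_lit 78) (nat_lit 5) (nat_lit 79) (nat_lit 5) (nat_lit 310) (nat_lit 302) (nat_lit 168)))) (XT.nd (nat_lit 78) (nat_lit 684) (nat_lit 0) (XT.lf (nat_lit 0) (nat_lit 56926191468) (nat_lit 532) (nat_lit 592964888) (nat_lit 76) (nat_lit 93221421799) (nat_lit 72) (nat_lit 5) (nat_lit 79) (nat_lit 5) (nat_lit 73) (nat_lit 5) (nat_lit 311) (nat_lit 302) (nat_lit 167)) (XT.nd (nat_lit 78) (nat_lit 304) (nat_lit 0)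 (XT.lf (nat_lit 0) (nat_lit 82349872004) (nat_lit 456) (nat_lit 37986541346) (nat_lit 76) (nat_lit 37322911114) (nat_lit 67) (nat_lit 5) (nat_lit 73) (nat_lit 5) (nat_lit 68) (nat_lit 5) (nat_lit 312) (nat_lit 302) (nat_lit 166)) (XT.lf (nat_lit 0) (nat_lit 86239568163) (nat_lit 304) (nat_lit 25894215730) (nat_lit 380) (nat_lit 52881470725) (nat_lit 63) (nat_lit 5) (nat_lit 67) (nat_lit 5) (nat_lit 68) (nat_lit 5) (nat_lit 313) (nat_lit 302) (nat_lit 165))))))) (XT.nd (nat_lit 780) (nat_lit 1292) (nat_lit 0) (XT.nd (nat_lit 390) (nat_lit 912) (nat_lit 0) (XT.nd (nat_lit 156) (nat_lit 532) (nat_lit 0) (XT.nd (nat_lit 78) (nat_lit 304) (nat_lit 0) (XT.lf (nat_lit 0) (nat_lit 49209142959) (nat_lit 304) (nat_lit 97719840554) (nat_lit 380) (nat_lit 25899247844) (nat_lit 59) (nat_lit 5) (nat_lit 63) (nat_lit 5) (nat_lit 64) (nat_lit 5) (nat_lit 314) (nat_lit 302) (nat_lit 164)) (XT.lf (nat_lit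 0) (nat_lit 5164401248) (nat_lit 304) (nat_lit 172403012439) (nat_lit 76) (nat_lit 3594972949) (nat_lit 55) (nat_lit 5) (nat_lit 59) (nat_lit 5) (nat_lit 56) (nat_lit 5) (nat_lit 315) (nat_lit 302) (nat_lit 163))) (XT.nd (nat_lit 78) (nat_lit 532) (nat_lit 0) (XT.lf (nat_lit 0) (nat_lit 41653879344) (nat_lit 304) (nat_lit 36033333438) (nat_lit 76) (nat_lit 112262427380) (nat_lit 55) (nat_lit 5) (nat_lit 59) (nat_lit 5) (nat_lit 56) (nat_lit 5) (nat_lit 316) (nat_lit 302) (nat_lit 162)) (XT.nd (nat_lit 78) (nat_lit 228) (nat_lit 0) (XT.lf (nat_lit 0) (nat_lit 83357077490) (nat_lit 380) (nat_lit 84927100719) (nat_lit 76) (nat_lit 31040968361) (nat_lit 51) (nat_lit 5) (nat_lit 56) (nat_lit 5) (nat_lit 52) (nat_lit 5) (nat_lit 317) (nat_lit 302) (nat_lit 161)) (XT.lf (nat_lit 0) (nat_lit 69639572612) (nat_lit 228) (nat_lit 61791782811) (nat_lit 304) (nat_lit 77867597509) (nat_lit 48) (nat_lit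 5) (nat_lit 51) (nat_lit 5) (nat_lit 52) (nat_lit 5) (nat_lit 318) (nat_lit 302) (nat_lit 160))))) (XT.nd (nat_lit 156) (nat_lit 608) (nat_lit 0) (XT.nd (nat_lit 78) (nat_lit 76) (nat_lit 0) (XT.lf (nat_lit 0) (nat_lit 19372012608) (nat_lit 228) (nat_lit 166616213097) (nat_lit 304) (nat_lit 33950606183) (nat_lit 45) (nat_lit 5) (nat_lit 48) (nat_lit 5) (nat_lit 49) (nat_lit 5) (nat_lit 319) (nat_lit 302) (nat_lit 159)) (XT.lf (nat_lit 0) (nat_lit 16562559358) (nat_lit 304) (nat_lit 36487857692) (nat_lit 76) (nat_lit 178193249257) (nat_lit 44) (nat_lit 5) (nat_lit 48) (nat_lit 5) (nat_lit 45) (nat_lit 5) (nat_lit 320) (nat_lit 302) (nat_lit 158))) (XT.nd (nat_lit 78) (nat_lit 380) (nat_lit 0) (XT.lf (nat_lit 0) (nat_lit 73336406975) (nat_lit 304) (nat_lit 99666007184) (nat_lit 76) (nat_lit 70252190802) (nat_lit 41) (nat_lit 5) (nat_lit 45) (nat_lit 5) (nat_lit 42) (nat_lit 5) (nat_lit 321)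 (nat_lit 302) (nat_lit 157)) (XT.nd (nat_lit 78) (nat_lit 152) (nat_lit 0) (XT.lf (nat_lit 0) (nat_lit 84994502903) (nat_lit 228) (nat_lit 52524913277) (nat_lit 304) (nat_lit 118563640287) (nat_lit 38) (nat_lit 5) (nat_lit 41) (nat_lit 5) (nat_lit 42) (nat_lit 5) (nat_lit 322) (nat_lit 302) (nat_lit 156)) (XT.lf (nat_lit 0) (nat_lit 17454291750) (nat_lit 152) (nat_lit 192630996490) (nat_lit 228) (nat_lit 59690085159) (nat_lit 36) (nat_lit 5) (nat_lit 38) (nat_lit 5) (nat_lit 39) (nat_lit 5) (nat_lit 323) (nat_lit 302) (nat_lit 155)))))) (XT.nd (nat_lit 390) (nat_lit 608) (nat_lit 0) (XT.nd (nat_lit 156) (nat_lit 380) (nat_lit 0) (XT.nd (nat_lit 78) (nat_lit 228) (nat_lit 0) (XT.lf (nat_lit 0) (nat_lit 7683250932) (nat_lit 228) (nat_lit 58219682402) (nat_lit 76) (nat_lit 218461377998) (nat_lit 35) (nat_lit 5) (nat_lit 38) (nat_lit 5) (nat_lit 36) (nat_lit 5) (nat_lit 324) (nat_lit 302)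 (nat_lit 154)) (XT.lf (nat_lit 0) (nat_lit 81972972854) (nat_lit 304) (nat_lit 145736979780) (nat_lit 76) (nat_lit 72180597267) (nat_lit 32) (nat_lit 5) (nat_lit 36) (nat_lit 5) (nat_lit 33) (nat_lit 5) (nat_lit 325) (nat_lit 302) (nat_lit 153))) (XT.nd (nat_lit 78) (nat_lit 228) (nat_lit 0) (XT.lf (nat_lit 0) (nat_lit 70103016201) (nat_lit 152) (nat_lit 95339143662) (nat_lit 228) (nat_lit 151054913637) (nat_lit 30) (nat_lit 5) (nat_lit 32) (nat_lit 5) (nat_lit 33) (nat_lit 5) (nat_lit 326) (nat_lit 302) (nat_lit 152)) (XT.nd (nat_lit 78) (nat_lit 228) (nat_lit 0) (XT.lf (nat_lit 0) (nat_lit 258912420048) (nat_lit 228) (nat_lit 26676225712) (nat_lit 76) (nat_lit 48677296607) (nat_lit 30) (nat_lit 5) (nat_lit 33) (nat_lit 5) (nat_lit 31) (nat_lit 5) (nat_lit 327) (nat_lit 302) (nat_lit 151)) (XT.lf (nat_lit 0) (nat_lit 11259158275) (nat_lit 228) (nat_lit 137467027900) (nat_lit 76) (nat_lit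 204472128352) (nat_lit 27) (nat_lit 5) (nat_lit 30) (nat_lit 5) (nat_lit 28) (nat_lit 5) (nat_lit 328) (nat_lit 302) (nat_lit 150))))) (XT.nd (nat_lit 234) (nat_lit 304) (nat_lit 0) (XT.nd (nat_lit 78) (nat_lit 152) (nat_lit 0) (XT.lf (nat_lit 0) (nat_lit 104380603748) (nat_lit 228) (nat_lit 266507925628) (nat_lit 76) (nat_lit 2583993599) (nat_lit 25) (nat_lit 5) (nat_lit 28) (nat_lit 5) (nat_lit 26) (nat_lit 5) (nat_lit 329) (nat_lit 302) (nat_lit 149)) (XT.nd (nat_lit 78) (nat_lit 152) (nat_lit 0) (XT.lf (nat_lit 0) (nat_lit 209893209239) (nat_lit 228) (nat_lit 21936646281) (nat_lit 76) (nat_lit 163291740578) (nat_lit 25) (nat_lit 5) (nat_lit 28) (nat_lit 5) (nat_lit 26) (nat_lit 5) (nat_lit 330) (nat_lit 302) (nat_lit 148)) (XT.lf (nat_lit 0) (nat_lit 250208273230) (nat_lit 152) (nat_lit 77544823351) (nat_lit 228) (nat_lit 90554185023) (nat_lit 23) (nat_lit 5) (nat_lit 25) (nat_lit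 5) (nat_lit 26) (nat_lit 5) (nat_lit 331) (nat_lit 302) (nat_lit 147)))) (XT.nd (nat_lit 78) (nat_lit 152) (nat_lit 0) (XT.lf (nat_lit 0) (nat_lit 14770216801) (nat_lit 152) (nat_lit 339921799053) (nat_lit 76) (nat_lit 88474150339) (nat_lit 21) (nat_lit 5) (nat_lit 23) (nat_lit 5) (nat_lit 22) (nat_lit 5) (nat_lit 332) (nat_lit 302) (nat_lit 146)) (XT.nd (nat_lit 78) (nat_lit 152) (nat_lit 0) (XT.lf (nat_lit 0) (nat_lit 129673967864) (nat_lit 152) (nat_lit 70452115170) (nat_lit 76) (nat_lit 269597155205) (nat_lit 21) (nat_lit 5) (nat_lit 23) (nat_lit 5) (nat_lit 22) (nat_lit 5) (nat_lit 333) (nat_lit 302) (nat_lit 145)) (XT.lf (nat_lit 0) (nat_lit 227868088599) (nat_lit 152) (nat_lit 29459436129) (nat_lit 228) (nat_lit 240899476190) (nat_lit 19) (nat_lit 5) (nat_lit 21) (nat_lit 5) (nat_lit 22) (nat_lit 5) (nat_lit 334) (nat_lit 302) (nat_lit 144))))))))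
noncomputable def xc114 : XT := (XT.nd (nat_lit 39156) (nat_lit 0) (nat_lit 456) (XT.nd (nat_lit 38298) (nat_lit 0) (nat_lit 3572) (XT.nd (nat_lit 390) (nat_lit 152) (nat_lit 0) (XT.nd (nat_lit 156) (nat_lit 304) (nat_lit 0) (XT.nd (nat_lit 78) (nat_lit 0) (nat_lit 0) (XT.lf (nat_lit 0) (nat_lit 21882218472) (nat_lit 76) (nat_lit 377317798671) (nat_lit 152) (nat_lit 129610715059) (nat_lit 18) (nat_lit 5) (nat_lit 19) (nat_lit 5) (nat_lit 20) (nat_lit 4) (nat_lit 335) (nat_lit 302) (nat_lit 143)) (XT.lf (nat_lit 0) (nat_lit 346643664365) (nat_lit 76) (nat_lit 210976709831) (nat_lit 152) (nat_lit 3960884663) (nat_lit 18) (nat_lit 5) (nat_lit 19) (nat_lit 5) (nat_lit 20) (nat_lit 4) (nat_lit 336) (nat_lit 302) (nat_lit 142))) (XT.nd (nat_lit 78) (nat_lit 76) (nat_lit 0) (XT.lf (nat_lit 0) (nat_lit 101607603786) (nat_lit 152) (nat_lit 27503042866) (nat_lit 228) (nat_lit 467680626501) (nat_lit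 15) (nat_lit 5) (nat_lit 17) (nat_lit 5) (nat_lit 18) (nat_lit 5) (nat_lit 337) (nat_lit 302) (nat_lit 141)) (XT.nd (nat_lit 78) (nat_lit 76) (nat_lit 0) (XT.lf (nat_lit 0) (nat_lit 279160612270) (nat_lit 228) (nat_lit 186271804719) (nat_lit 76) (nat_lit 169058850987) (nat_lit 15) (nat_lit 5) (nat_lit 18) (nat_lit 5) (nat_lit 16) (nat_lit 4) (nat_lit 338) (nat_lit 302) (nat_lit 140)) (XT.lf (nat_lit 0) (nat_lit 151745867125) (nat_lit 76) (nat_lit 292301519837) (nat_lit 152) (nat_lit 231018234932) (nat_lit 14) (nat_lit 5) (nat_lit 15) (nat_lit 5) (nat_lit 16) (nat_lit 4) (nat_lit 339) (nat_lit 302) (nat_lit 139))))) (XT.nd (nat_lit 156) (nat_lit 0) (nat_lit 0) (XT.nd (nat_lit 78) (nat_lit 152) (nat_lit 0) (XT.lf (nat_lit 0) (nat_lit 523456461873) (nat_lit 76) (nat_lit 101913264114) (nat_lit 152) (nat_lit 93353967111) (nat_lit 14) (nat_lit 5) (nat_lit 15) (nat_lit 5) (nat_lit 16) (nat_lit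 4) (nat_lit 340) (nat_lit 302) (nat_lit 138)) (XT.lf (nat_lit 0) (nat_lit 57778819409) (nat_lit 152) (nat_lit 603983574326) (nat_lit 76) (nat_lit 103857525000) (nat_lit 12) (nat_lit 5) (nat_lit 14) (nat_lit 5) (nat_lit 13) (nat_lit 4) (nat_lit 341) (nat_lit 302) (nat_lit 137))) (XT.nd (nat_lit 37596) (nat_lit 0) (nat_lit 5472) (XT.lf (nat_lit 0) (nat_lit 222950818304) (nat_lit 152) (nat_lit 265381140102) (nat_lit 76) (nat_lit 327598401562) (nat_lit 12) (nat_lit 5) (nat_lit 14) (nat_lit 5) (nat_lit 13) (nat_lit 4) (nat_lit 342) (nat_lit 302) (nat_lit 136)) (XT.nd (nat_lit 78) (nat_lit 0) (nat_lit 0) (XT.lf (nat_lit 0) (nat_lit 20783089422) (nat_lit 0) (nat_lit 20783089422) (nat_lit 684) (nat_lit 14430669577) (nat_lit 84) (nat_lit 5) (nat_lit 84) (nat_lit 3) (nat_lit 93) (nat_lit 3) (nat_lit 303) (nat_lit 303) (nat_lit 174)) (XT.lf (nat_lit 76) (nat_lit 9244585746) (nat_lit 0) (nat_lit 77982890996)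 (nat_lit 760) (nat_lit 29207459029) (nat_lit 85) (nat_lit 5) (nat_lit 84) (nat_lit 5) (nat_lit 94) (nat_lit 5) (nat_lit 304) (nat_lit 303) (nat_lit 173)))))) (XT.nd (nat_lit 390) (nat_lit 1368) (nat_lit 0) (XT.nd (nat_lit 156) (nat_lit 608) (nat_lit 0) (XT.nd (nat_lit 78) (nat_lit 0) (nat_lit 0) (XT.lf (nat_lit 0) (nat_lit 93620700954) (nat_lit 684) (nat_lit 24109670806) (nat_lit 760) (nat_lit 3402579040) (nat_lit 85) (nat_lit 5) (nat_lit 94) (nat_lit 5) (nat_lit 95) (nat_lit 5) (nat_lit 305) (nat_lit 303) (nat_lit 172)) (XT.lf (nat_lit 76) (nat_lit 66428195494) (nat_lit 0) (nat_lit 36448549374) (nat_lit 760) (nat_lit 23212495716) (nat_lit 86) (nat_lit 5) (nat_lit 85) (nat_lit 5) (nat_lit 95) (nat_lit 5) (nat_lit 306) (nat_lit 303) (nat_lit 171))) (XT.nd (nat_lit 78) (nat_lit 684) (nat_lit 0) (XT.lf (nat_lit 76) (nat_lit 33925999157) (nat_lit 0) (nat_lit 80704655133) (nat_lit 760) (nat_lit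 16723511681) (nat_lit 87) (nat_lit 5) (nat_lit 86) (nat_lit 5) (nat_lit 96) (nat_lit 5) (nat_lit 307) (nat_lit 303) (nat_lit 170)) (XT.nd (nat_lit 78) (nat_lit 760) (nat_lit 0) (XT.lf (nat_lit 0) (nat_lit 129085713954) (nat_lit 684) (nat_lit 580512111) (nat_lit 760) (nat_lit 7286018855) (nat_lit 87) (nat_lit 5) (nat_lit 96) (nat_lit 5) (nat_lit 97) (nat_lit 5) (nat_lit 308) (nat_lit 303) (nat_lit 169)) (XT.lf (nat_lit 0) (nat_lit 4710038056) (nat_lit 760) (nat_lit 36875467287) (nat_lit 836) (nat_lit 101258069334) (nat_lit 77) (nat_lit 5) (nat_lit 87) (nat_lit 5) (nat_lit 88) (nat_lit 5) (nat_lit 309) (nat_lit 303) (nat_lit 168))))) (XT.nd (nat_lit 234) (nat_lit 988) (nat_lit 0) (XT.nd (nat_lit 78) (nat_lit 456) (nat_lit 0) (XT.lf (nat_lit 0) (nat_lit 20044607704) (nat_lit 760) (nat_lit 75904645789) (nat_lit 76) (nat_lit 53149136491) (nat_lit 78) (nat_lit 5) (nat_lit 88) (nat_lit 5) (nat_lit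 79) (nat_lit 5) (nat_lit 310) (nat_lit 303) (nat_lit 167)) (XT.nd (nat_lit 78) (nat_lit 0) (nat_lit 0) (XT.lf (nat_lit 0) (nat_lit 38070119302) (nat_lit 456) (nat_lit 483784847) (nat_lit 532) (nat_lit 117202289369) (nat_lit 72) (nat_lit 5) (nat_lit 78) (nat_lit 5) (nat_lit 79) (nat_lit 5) (nat_lit 311) (nat_lit 303) (nat_lit 166)) (XT.lf (nat_lit 0) (nat_lit 61489525259) (nat_lit 532) (nat_lit 631419749) (nat_lit 76) (nat_lit 100678398264) (nat_lit 72) (nat_lit 5) (nat_lit 79) (nat_lit 5) (nat_lit 73) (nat_lit 5) (nat_lit 312) (nat_lit 303) (nat_lit 165)))) (XT.nd (nat_lit 78) (nat_lit 608) (nat_lit 0) (XT.lf (nat_lit 0) (nat_lit 88946548548) (nat_lit 456) (nat_lit 41016418979) (nat_lit 76) (nat_lit 40308650767) (nat_lit 67) (nat_lit 5) (nat_lit 73) (nat_lit 5) (nat_lit 68) (nat_lit 5) (nat_lit 313) (nat_lit 303) (nat_lit 164)) (XT.nd (nat_lit 78) (nat_lit 304) (nat_lit 0) (XT.lf (nat_lit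 0) (nat_lit 93147386177) (nat_lit 304) (nat_lit 27965278836) (nat_lit 380) (nat_lit 57103384583) (nat_lit 63) (nat_lit 5) (nat_lit 67) (nat_lit 5) (nat_lit 68) (nat_lit 5) (nat_lit 314) (nat_lit 303) (nat_lit 163)) (XT.lf (nat_lit 0) (nat_lit 53154550749) (nat_lit 304) (nat_lit 105536466361) (nat_lit 380) (nat_lit 27963071758) (nat_lit 59) (nat_lit 5) (nat_lit 63) (nat_lit 5) (nat_lit 64) (nat_lit 5) (nat_lit 315) (nat_lit 303) (nat_lit 162))))))) (XT.nd (nat_lit 780) (nat_lit 1292) (nat_lit 0) (XT.nd (nat_lit 390) (nat_lit 760) (nat_lit 0) (XT.nd (nat_lit 156) (nat_lit 760) (nat_lit 0) (XT.nd (nat_lit 78) (nat_lit 0) (nat_lit 0) (XT.lf (nat_lit 0) (nat_lit 5584979249) (nat_lit 304) (nat_lit 186186325951) (nat_lit 76) (nat_lit 3883687624) (nat_lit 55) (nat_lit 5) (nat_lit 59) (nat_lit 5) (nat_lit 56) (nat_lit 5) (nat_lit 316) (nat_lit 303) (nat_lit 161)) (XT.lf (nat_lit 0) (nat_lit 44993065526)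 (nat_lit 304) (nat_lit 38907733925) (nat_lit 76) (nat_lit 121244455681) (nat_lit 55) (nat_lit 5) (nat_lit 59) (nat_lit 5) (nat_lit 56) (nat_lit 5) (nat_lit 317) (nat_lit 303) (nat_lit 160))) (XT.nd (nat_lit 78) (nat_lit 456) (nat_lit 0) (XT.lf (nat_lit 0) (nat_lit 90032155776) (nat_lit 380) (nat_lit 91713047922) (nat_lit 76) (nat_lit 33525617464) (nat_lit 51) (nat_lit 5) (nat_lit 56) (nat_lit 5) (nat_lit 52) (nat_lit 5) (nat_lit 318) (nat_lit 303) (nat_lit 159)) (XT.nd (nat_lit 78) (nat_lit 228) (nat_lit 0) (XT.lf (nat_lit 0) (nat_lit 75218602007) (nat_lit 228) (nat_lit 66733414332) (nat_lit 304) (nat_lit 84090534528) (nat_lit 48) (nat_lit 5) (nat_lit 51) (nat_lit 5) (nat_lit 52) (nat_lit 5) (nat_lit 319) (nat_lit 303) (nat_lit 158)) (XT.lf (nat_lit 0) (nat_lit 20929574374) (nat_lit 228) (nat_lit 179943552658) (nat_lit 304) (nat_lit 36660509358) (nat_lit 45) (nat_lit 5) (nat_lit 48) (nat_lit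 5) (nat_lit 49) (nat_lit 5) (nat_lit 320) (nat_lit 303) (nat_lit 157))))) (XT.nd (nat_lit 156) (nat_lit 456) (nat_lit 0) (XT.nd (nat_lit 78) (nat_lit 228) (nat_lit 0) (XT.lf (nat_lit 0) (nat_lit 17893072098) (nat_lit 304) (nat_lit 39399472548) (nat_lit 76) (nat_lit 192450330850) (nat_lit 44) (nat_lit 5) (nat_lit 48) (nat_lit 5) (nat_lit 45) (nat_lit 5) (nat_lit 321) (nat_lit 303) (nat_lit 156)) (XT.lf (nat_lit 0) (nat_lit 79208559609) (nat_lit 304) (nat_lit 107631956952) (nat_lit 76) (nat_lit 75874186722) (nat_lit 41) (nat_lit 5) (nat_lit 45) (nat_lit 5) (nat_lit 42) (nat_lit 5) (nat_lit 322) (nat_lit 303) (nat_lit 155))) (XT.nd (nat_lit 78) (nat_lit 228) (nat_lit 0) (XT.lf (nat_lit 0) (nat_lit 91801075354) (nat_lit 228) (nat_lit 56724855523) (nat_lit 304) (nat_lit 128043514563) (nat_lit 38) (nat_lit 5) (nat_lit 41) (nat_lit 5) (nat_lit 42) (nat_lit 5) (nat_lit 323) (nat_lit 303) (nat_lit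 154)) (XT.nd (nat_lit 78) (nat_lit 76) (nat_lit 0) (XT.lf (nat_lit 0) (nat_lit 18857556378) (nat_lit 152) (nat_lit 208039286521) (nat_lit 228) (nat_lit 64460316873) (nat_lit 36) (nat_lit 5) (nat_lit 38) (nat_lit 5) (nat_lit 39) (nat_lit 5) (nat_lit 324) (nat_lit 303) (nat_lit 153)) (XT.lf (nat_lit 0) (nat_lit 8302370141) (nat_lit 228) (nat_lit 62870694854) (nat_lit 76) (nat_lit 235940162185) (nat_lit 35) (nat_lit 5) (nat_lit 38) (nat_lit 5) (nat_lit 36) (nat_lit 5) (nat_lit 325) (nat_lit 303) (nat_lit 152)))))) (XT.nd (nat_lit 390) (nat_lit 532) (nat_lit 0) (XT.nd (nat_lit 156) (nat_lit 380) (nat_lit 0) (XT.nd (nat_lit 78) (nat_lit 152) (nat_lit 0) (XT.lf (nat_lit 0) (nat_lit 88535069519) (nat_lit 304) (nat_lit 157389476221) (nat_lit 76) (nat_lit 77957029560) (nat_lit 32) (nat_lit 5) (nat_lit 36) (nat_lit 5) (nat_lit 33) (nat_lit 5) (nat_lit 326) (nat_lit 303) (nat_lit 151)) (XT.lf (nat_lit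 0) (nat_lit 75717438610) (nat_lit 152) (nat_lit 102964133914) (nat_lit 228) (nat_lit 163135059631) (nat_lit 30) (nat_lit 5) (nat_lit 32) (nat_lit 5) (nat_lit 33) (nat_lit 5) (nat_lit 327) (nat_lit 303) (nat_lit 150))) (XT.nd (nat_lit 78) (nat_lit 380) (nat_lit 0) (XT.lf (nat_lit 0) (nat_lit 279629185229) (nat_lit 228) (nat_lit 28804439595) (nat_lit 76) (nat_lit 52573399509) (nat_lit 30) (nat_lit 5) (nat_lit 33) (nat_lit 5) (nat_lit 31) (nat_lit 5) (nat_lit 328) (nat_lit 303) (nat_lit 149)) (XT.nd (nat_lit 78) (nat_lit 152) (nat_lit 0) (XT.lf (nat_lit 0) (nat_lit 12163534046) (nat_lit 228) (nat_lit 148458636948) (nat_lit 76) (nat_lit 220831822268) (nat_lit 27) (nat_lit 5) (nat_lit 30) (nat_lit 5) (nat_lit 28) (nat_lit 5) (nat_lit 329) (nat_lit 303) (nat_lit 148)) (XT.lf (nat_lit 0) (nat_lit 112734543128) (nat_lit 228) (nat_lit 287822911519) (nat_lit 76) (nat_lit 2792691656) (nat_lit 25)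 (nat_lit 5) (nat_lit 28) (nat_lit 5) (nat_lit 26) (nat_lit 5) (nat_lit 330) (nat_lit 303) (nat_lit 147))))) (XT.nd (nat_lit 234) (nat_lit 228) (nat_lit 0) (XT.nd (nat_lit 78) (nat_lit 304) (nat_lit 0) (XT.lf (nat_lit 0) (nat_lit 226687898460) (nat_lit 228) (nat_lit 23686348207) (nat_lit 76) (nat_lit 176356911833) (nat_lit 25) (nat_lit 5) (nat_lit 28) (nat_lit 5) (nat_lit 26) (nat_lit 5) (nat_lit 331) (nat_lit 303) (nat_lit 146)) (XT.nd (nat_lit 78) (nat_lit 152) (nat_lit 0) (XT.lf (nat_lit 0) (nat_lit 270229937585) (nat_lit 152) (nat_lit 83746477865) (nat_lit 228) (nat_lit 97795291735) (nat_lit 23) (nat_lit 5) (nat_lit 25) (nat_lit 5) (nat_lit 26) (nat_lit 5) (nat_lit 332) (nat_lit 303) (nat_lit 145)) (XT.lf (nat_lit 0) (nat_lit 15954833687) (nat_lit 152) (nat_lit 367110534430) (nat_lit 76) (nat_lit 95553938403) (nat_lit 21) (nat_lit 5) (nat_lit 23) (nat_lit 5) (nat_lit 22) (nat_lit 5)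 (nat_lit 333) (nat_lit 303) (nat_lit 144)))) (XT.nd (nat_lit 78) (nat_lit 228) (nat_lit 0) (XT.lf (nat_lit 0) (nat_lit 140050662647) (nat_lit 152) (nat_lit 76083646841) (nat_lit 76) (nat_lit 291166646174) (nat_lit 21) (nat_lit 5) (nat_lit 23) (nat_lit 5) (nat_lit 22) (nat_lit 5) (nat_lit 334) (nat_lit 303) (nat_lit 143)) (XT.nd (nat_lit 78) (nat_lit 76) (nat_lit 0) (XT.lf (nat_lit 0) (nat_lit 246101971688) (nat_lit 152) (nat_lit 31814395901) (nat_lit 228) (nat_lit 260168658795) (nat_lit 19) (nat_lit 5) (nat_lit 21) (nat_lit 5) (nat_lit 22) (nat_lit 5) (nat_lit 335) (nat_lit 303) (nat_lit 142)) (XT.lf (nat_lit 0) (nat_lit 23637141116) (nat_lit 76) (nat_lit 407501416450) (nat_lit 152) (nat_lit 139976903885) (nat_lit 18) (nat_lit 5) (nat_lit 19) (nat_lit 5) (nat_lit 20) (nat_lit 4) (nat_lit 336) (nat_lit 303) (nat_lit 141))))))))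
noncomputable def xc115 : XT := (XT.nd (nat_lit 39234) (nat_lit 0) (nat_lit 228) (XT.nd (nat_lit 38376) (nat_lit 0) (nat_lit 3268) (XT.nd (nat_lit 390) (nat_lit 152) (nat_lit 0) (XT.nd (nat_lit 156) (nat_lit 76) (nat_lit 0) (XT.nd (nat_lit 78) (nat_lit 228) (nat_lit 0) (XT.lf (nat_lit 0) (nat_lit 374379180817) (nat_lit 76) (nat_lit 227853174289) (nat_lit 152) (nat_lit 4275284715) (nat_lit 18) (nat_lit 5) (nat_lit 19) (nat_lit 5) (nat_lit 20) (nat_lit 4) (nat_lit 337) (nat_lit 303) (nat_lit 140)) (XT.lf (nat_lit 0) (nat_lit 109740138189) (nat_lit 152) (nat_lit 29701635977) (nat_lit 228) (nat_lit 505092685112) (nat_lit 15) (nat_lit 5) (nat_lit 17) (nat_lit 5) (nat_lit 18) (nat_lit 5) (nat_lit 338) (nat_lit 303) (nat_lit 139))) (XT.nd (nat_lit 78) (nat_lit 76) (nat_lit 0) (XT.lf (nat_lit 0) (nat_lit 301495592314) (nat_lit 228) (nat_lit 201169830523) (nat_lit 76) (nat_lit 182585038230) (nat_lit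 15) (nat_lit 5) (nat_lit 18) (nat_lit 5) (nat_lit 16) (nat_lit 4) (nat_lit 339) (nat_lit 303) (nat_lit 138)) (XT.nd (nat_lit 78) (nat_lit 0) (nat_lit 0) (XT.lf (nat_lit 0) (nat_lit 163889093465) (nat_lit 76) (nat_lit 315684113194) (nat_lit 152) (nat_lit 249497561887) (nat_lit 14) (nat_lit 5) (nat_lit 15) (nat_lit 5) (nat_lit 16) (nat_lit 4) (nat_lit 340) (nat_lit 303) (nat_lit 137)) (XT.lf (nat_lit 0) (nat_lit 565336272314) (nat_lit 76) (nat_lit 110064910216) (nat_lit 152) (nat_lit 100820310555) (nat_lit 14) (nat_lit 5) (nat_lit 15) (nat_lit 5) (nat_lit 16) (nat_lit 4) (nat_lit 341) (nat_lit 303) (nat_lit 136))))) (XT.nd (nat_lit 37752) (nat_lit 0) (nat_lit 5472) (XT.nd (nat_lit 37674) (nat_lit 0) (nat_lit 5472) (XT.lf (nat_lit 0) (nat_lit 62402966070) (nat_lit 152) (nat_lit 652298977500) (nat_lit 76) (nat_lit 112167475253) (nat_lit 12) (nat_lit 5) (nat_lit 14) (nat_lit 5) (nat_lit 13)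 (nat_lit 4) (nat_lit 342) (nat_lit 303) (nat_lit 135)) (XT.lf (nat_lit 0) (nat_lit 22449457165) (nat_lit 0) (nat_lit 22449457165) (nat_lit 684) (nat_lit 15577292622) (nat_lit 84) (nat_lit 5) (nat_lit 84) (nat_lit 3) (nat_lit 93) (nat_lit 3) (nat_lit 304) (nat_lit 304) (nat_lit 172))) (XT.nd (nat_lit 78) (nat_lit 0) (nat_lit 76) (XT.lf (nat_lit 76) (nat_lit 9992126374) (nat_lit 0) (nat_lit 84227345386) (nat_lit 760) (nat_lit 31529537018) (nat_lit 85) (nat_lit 5) (nat_lit 84) (nat_lit 5) (nat_lit 94) (nat_lit 5) (nat_lit 305) (nat_lit 304) (nat_lit 171)) (XT.nd (nat_lit 78) (nat_lit 0) (nat_lit 0) (XT.lf (nat_lit 0) (nat_lit 101123047737) (nat_lit 684) (nat_lit 26030308788) (nat_lit 760) (nat_lit 3669566165) (nat_lit 85) (nat_lit 5) (nat_lit 94) (nat_lit 5) (nat_lit 95) (nat_lit 5) (nat_lit 306) (nat_lit 304) (nat_lit 170)) (XT.lf (nat_lit 76) (nat_lit 71750233250) (nat_lit 0) (nat_lit 39368523364)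 (nat_lit 760) (nat_lit 25057002167) (nat_lit 86) (nat_lit 5) (nat_lit 85) (nat_lit 5) (nat_lit 95) (nat_lit 5) (nat_lit 307) (nat_lit 304) (nat_lit 169)))))) (XT.nd (nat_lit 390) (nat_lit 1292) (nat_lit 0) (XT.nd (nat_lit 156) (nat_lit 1064) (nat_lit 0) (XT.nd (nat_lit 78) (nat_lit 0) (nat_lit 76) (XT.lf (nat_lit 76) (nat_lit 36648178148) (nat_lit 0) (nat_lit 87163988544) (nat_lit 760) (nat_lit 18049754143) (nat_lit 87) (nat_lit 5) (nat_lit 86) (nat_lit 5) (nat_lit 96) (nat_lit 5) (nat_lit 308) (nat_lit 304) (nat_lit 168)) (XT.lf (nat_lit 0) (nat_lit 139422769061) (nat_lit 684) (nat_lit 618875580) (nat_lit 760) (nat_lit 7866246446) (nat_lit 87) (nat_lit 5) (nat_lit 96) (nat_lit 5) (nat_lit 97) (nat_lit 5) (nat_lit 309) (nat_lit 304) (nat_lit 167))) (XT.nd (nat_lit 78) (nat_lit 380) (nat_lit 0) (XT.lf (nat_lit 0) (nat_lit 5096582177) (nat_lit 760) (nat_lit 39817435375) (nat_lit 836) (nat_lit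 109356535296) (nat_lit 77) (nat_lit 5) (nat_lit 87) (nat_lit 5) (nat_lit 88) (nat_lit 5) (nat_lit 310) (nat_lit 304) (nat_lit 166)) (XT.nd (nat_lit 78) (nat_lit 456) (nat_lit 0) (XT.lf (nat_lit 0) (nat_lit 21657294153) (nat_lit 760) (nat_lit 81968800435) (nat_lit 76) (nat_lit 57399691492) (nat_lit 78) (nat_lit 5) (nat_lit 88) (nat_lit 5) (nat_lit 79) (nat_lit 5) (nat_lit 311) (nat_lit 304) (nat_lit 165)) (XT.lf (nat_lit 0) (nat_lit 41123588762) (nat_lit 456) (nat_lit 523192872) (nat_lit 532) (nat_lit 126569461320) (nat_lit 72) (nat_lit 5) (nat_lit 78) (nat_lit 5) (nat_lit 79) (nat_lit 5) (nat_lit 312) (nat_lit 304) (nat_lit 164))))) (XT.nd (nat_lit 234) (nat_lit 608) (nat_lit 0) (XT.nd (nat_lit 78) (nat_lit 684) (nat_lit 0) (XT.lf (nat_lit 0) (nat_lit 66416607782) (nat_lit 532) (nat_lit 674232429) (nat_lit 76) (nat_lit 108732038027) (nat_lit 72) (nat_lit 5) (nat_lit 79) (nat_lit 5) (nat_lit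 73) (nat_lit 5) (nat_lit 313) (nat_lit 304) (nat_lit 163)) (XT.nd (nat_lit 78) (nat_lit 304) (nat_lit 0) (XT.lf (nat_lit 0) (nat_lit 96069719949) (nat_lit 456) (nat_lit 44289977289) (nat_lit 76) (nat_lit 43533262894) (nat_lit 67) (nat_lit 5) (nat_lit 73) (nat_lit 5) (nat_lit 68) (nat_lit 5) (nat_lit 314) (nat_lit 304) (nat_lit 162)) (XT.lf (nat_lit 0) (nat_lit 100606595247) (nat_lit 304) (nat_lit 30202094634) (nat_lit 380) (nat_lit 61664278979) (nat_lit 63) (nat_lit 5) (nat_lit 67) (nat_lit 5) (nat_lit 68) (nat_lit 5) (nat_lit 315) (nat_lit 304) (nat_lit 161)))) (XT.nd (nat_lit 78) (nat_lit 304) (nat_lit 0) (XT.lf (nat_lit 0) (nat_lit 57414353384) (nat_lit 304) (nat_lit 113978559393) (nat_lit 380) (nat_lit 30193159411) (nat_lit 59) (nat_lit 5) (nat_lit 63) (nat_lit 5) (nat_lit 64) (nat_lit 5) (nat_lit 316) (nat_lit 304) (nat_lit 160)) (XT.nd (nat_lit 78) (nat_lit 0) (nat_lit 0) (XT.lf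 (nat_lit 0) (nat_lit 6038144102) (nat_lit 304) (nat_lit 201073578149) (nat_lit 76) (nat_lit 4195340143) (nat_lit 55) (nat_lit 5) (nat_lit 59) (nat_lit 5) (nat_lit 56) (nat_lit 5) (nat_lit 317) (nat_lit 304) (nat_lit 159)) (XT.lf (nat_lit 0) (nat_lit 48598405688) (nat_lit 304) (nat_lit 42013265715) (nat_lit 76) (nat_lit 130944898717) (nat_lit 55) (nat_lit 5) (nat_lit 59) (nat_lit 5) (nat_lit 56) (nat_lit 5) (nat_lit 318) (nat_lit 304) (nat_lit 158))))))) (XT.nd (nat_lit 858) (nat_lit 1140) (nat_lit 0) (XT.nd (nat_lit 390) (nat_lit 836) (nat_lit 0) (XT.nd (nat_lit 156) (nat_lit 532) (nat_lit 0) (XT.nd (nat_lit 78) (nat_lit 228) (nat_lit 0) (XT.lf (nat_lit 0) (nat_lit 97240311302) (nat_lit 380) (nat_lit 99043043698) (nat_lit 76) (nat_lit 36208842816) (nat_lit 51) (nat_lit 5) (nat_lit 56) (nat_lit 5) (nat_lit 52) (nat_lit 5) (nat_lit 319) (nat_lit 304) (nat_lit 157)) (XT.lf (nat_lit 0) (nat_lit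 81242831925) (nat_lit 228) (nat_lit 72070620482) (nat_lit 304) (nat_lit 90812229638) (nat_lit 48) (nat_lit 5) (nat_lit 51) (nat_lit 5) (nat_lit 52) (nat_lit 5) (nat_lit 320) (nat_lit 304) (nat_lit 156))) (XT.nd (nat_lit 78) (nat_lit 304) (nat_lit 0) (XT.lf (nat_lit 0) (nat_lit 22610628216) (nat_lit 228) (nat_lit 194337358642) (nat_lit 304) (nat_lit 39588081487) (nat_lit 45) (nat_lit 5) (nat_lit 48) (nat_lit 5) (nat_lit 49) (nat_lit 5) (nat_lit 321) (nat_lit 304) (nat_lit 155)) (XT.nd (nat_lit 78) (nat_lit 228) (nat_lit 0) (XT.lf (nat_lit 0) (nat_lit 19329240080) (nat_lit 304) (nat_lit 42545074248) (nat_lit 76) (nat_lit 207847747623) (nat_lit 44) (nat_lit 5) (nat_lit 48) (nat_lit 5) (nat_lit 45) (nat_lit 5) (nat_lit 322) (nat_lit 304) (nat_lit 154)) (XT.lf (nat_lit 0) (nat_lit 85549736899) (nat_lit 304) (nat_lit 116236228522) (nat_lit 76) (nat_lit 81945682579) (nat_lit 41) (nat_lit 5) (nat_lit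 45) (nat_lit 5) (nat_lit 42) (nat_lit 5) (nat_lit 323) (nat_lit 304) (nat_lit 153))))) (XT.nd (nat_lit 234) (nat_lit 380) (nat_lit 0) (XT.nd (nat_lit 78) (nat_lit 228) (nat_lit 0) (XT.lf (nat_lit 0) (nat_lit 99151173231) (nat_lit 228) (nat_lit 61261085720) (nat_lit 304) (nat_lit 138282523038) (nat_lit 38) (nat_lit 5) (nat_lit 41) (nat_lit 5) (nat_lit 42) (nat_lit 5) (nat_lit 324) (nat_lit 304) (nat_lit 152)) (XT.nd (nat_lit 78) (nat_lit 76) (nat_lit 0) (XT.lf (nat_lit 0) (nat_lit 20372094776) (nat_lit 152) (nat_lit 224680552139) (nat_lit 228) (nat_lit 69612876877) (nat_lit 36) (nat_lit 5) (nat_lit 38) (nat_lit 5) (nat_lit 39) (nat_lit 5) (nat_lit 325) (nat_lit 304) (nat_lit 151)) (XT.lf (nat_lit 0) (nat_lit 8970382741) (nat_lit 228) (nat_lit 67894724465) (nat_lit 76) (nat_lit 254816981768) (nat_lit 35) (nat_lit 5) (nat_lit 38) (nat_lit 5) (nat_lit 36) (nat_lit 5) (nat_lit 326) (nat_lit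 304) (nat_lit 150)))) (XT.nd (nat_lit 78) (nat_lit 152) (nat_lit 0) (XT.lf (nat_lit 0) (nat_lit 95621526347) (nat_lit 304) (nat_lit 169975094246) (nat_lit 76) (nat_lit 84195293324) (nat_lit 32) (nat_lit 5) (nat_lit 36) (nat_lit 5) (nat_lit 33) (nat_lit 5) (nat_lit 327) (nat_lit 304) (nat_lit 149)) (XT.nd (nat_lit 78) (nat_lit 0) (nat_lit 0) (XT.lf (nat_lit 0) (nat_lit 81780133007) (nat_lit 152) (nat_lit 111199428859) (nat_lit 228) (nat_lit 176182223200) (nat_lit 30) (nat_lit 5) (nat_lit 32) (nat_lit 5) (nat_lit 33) (nat_lit 5) (nat_lit 328) (nat_lit 304) (nat_lit 148)) (XT.lf (nat_lit 0) (nat_lit 302002753567) (nat_lit 228) (nat_lit 31103750032) (nat_lit 76) (nat_lit 56780916852) (nat_lit 30) (nat_lit 5) (nat_lit 33) (nat_lit 5) (nat_lit 31) (nat_lit 5) (nat_lit 329) (nat_lit 304) (nat_lit 147)))))) (XT.nd (nat_lit 390) (nat_lit 456) (nat_lit 0) (XT.nd (nat_lit 156) (nat_lit 304) (nat_lit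 0) (XT.nd (nat_lit 78) (nat_lit 152) (nat_lit 0) (XT.lf (nat_lit 0) (nat_lit 13139740147) (nat_lit 228) (nat_lit 160330395477) (nat_lit 76) (nat_lit 238500017268) (nat_lit 27) (nat_lit 5) (nat_lit 30) (nat_lit 5) (nat_lit 28) (nat_lit 5) (nat_lit 330) (nat_lit 304) (nat_lit 146)) (XT.lf (nat_lit 0) (nat_lit 121756299617) (nat_lit 228) (nat_lit 310843902055) (nat_lit 76) (nat_lit 3017803293) (nat_lit 25) (nat_lit 5) (nat_lit 28) (nat_lit 5) (nat_lit 26) (nat_lit 5) (nat_lit 331) (nat_lit 304) (nat_lit 145))) (XT.nd (nat_lit 78) (nat_lit 304) (nat_lit 0) (XT.lf (nat_lit 0) (nat_lit 244825701670) (nat_lit 228) (nat_lit 25576772373) (nat_lit 76) (nat_lit 190467035431) (nat_lit 25) (nat_lit 5) (nat_lit 28) (nat_lit 5) (nat_lit 26) (nat_lit 5) (nat_lit 332) (nat_lit 304) (nat_lit 144)) (XT.nd (nat_lit 78) (nat_lit 152) (nat_lit 0) (XT.lf (nat_lit 0) (nat_lit 291852621427) (nat_lit 152) (nat_lit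 90444540268) (nat_lit 228) (nat_lit 105616147507) (nat_lit 23) (nat_lit 5) (nat_lit 25) (nat_lit 5) (nat_lit 26) (nat_lit 5) (nat_lit 333) (nat_lit 304) (nat_lit 143)) (XT.lf (nat_lit 0) (nat_lit 17233792006) (nat_lit 152) (nat_lit 396475083163) (nat_lit 76) (nat_lit 103199844728) (nat_lit 21) (nat_lit 5) (nat_lit 23) (nat_lit 5) (nat_lit 22) (nat_lit 5) (nat_lit 334) (nat_lit 304) (nat_lit 142))))) (XT.nd (nat_lit 234) (nat_lit 228) (nat_lit 0) (XT.nd (nat_lit 78) (nat_lit 228) (nat_lit 0) (XT.lf (nat_lit 0) (nat_lit 151257096792) (nat_lit 152) (nat_lit 82166362642) (nat_lit 76) (nat_lit 314461451250) (nat_lit 21) (nat_lit 5) (nat_lit 23) (nat_lit 5) (nat_lit 22) (nat_lit 5) (nat_lit 335) (nat_lit 304) (nat_lit 141)) (XT.nd (nat_lit 78) (nat_lit 76) (nat_lit 0) (XT.lf (nat_lit 0) (nat_lit 265793932579) (nat_lit 152) (nat_lit 34358008548) (nat_lit 228) (nat_lit 280979771963) (nat_lit 19)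 (nat_lit 5) (nat_lit 21) (nat_lit 5) (nat_lit 22) (nat_lit 5) (nat_lit 336) (nat_lit 304) (nat_lit 140)) (XT.lf (nat_lit 0) (nat_lit 25531837686) (nat_lit 76) (nat_lit 440099981314) (nat_lit 152) (nat_lit 151172768491) (nat_lit 18) (nat_lit 5) (nat_lit 19) (nat_lit 5) (nat_lit 20) (nat_lit 4) (nat_lit 337) (nat_lit 304) (nat_lit 139)))) (XT.nd (nat_lit 78) (nat_lit 228) (nat_lit 0) (XT.lf (nat_lit 0) (nat_lit 404332964616) (nat_lit 76) (nat_lit 246079994480) (nat_lit 152) (nat_lit 4615189247) (nat_lit 18) (nat_lit 5) (nat_lit 19) (nat_lit 5) (nat_lit 20) (nat_lit 4) (nat_lit 338) (nat_lit 304) (nat_lit 138)) (XT.nd (nat_lit 78) (nat_lit 0) (nat_lit 0) (XT.lf (nat_lit 0) (nat_lit 118522715241) (nat_lit 152) (nat_lit 32076351974) (nat_lit 228) (nat_lit 545498049588) (nat_lit 15) (nat_lit 5) (nat_lit 17) (nat_lit 5) (nat_lit 18) (nat_lit 5) (nat_lit 339) (nat_lit 304) (nat_lit 137)) (XT.lf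 (nat_lit 0) (nat_lit 325617066742) (nat_lit 228) (nat_lit 217260228886) (nat_lit 76) (nat_lit 197193109433) (nat_lit 15) (nat_lit 5) (nat_lit 18) (nat_lit 5) (nat_lit 16) (nat_lit 4) (nat_lit 340) (nat_lit 304) (nat_lit 136))))))))
noncomputable def xc116 : XT := (XT.nd (nat_lit 39390) (nat_lit 0) (nat_lit 76) (XT.nd (nat_lit 38532) (nat_lit 0) (nat_lit 2052) (XT.nd (nat_lit 38142) (nat_lit 0) (nat_lit 4408) (XT.nd (nat_lit 37908) (nat_lit 0) (nat_lit 5320) (XT.nd (nat_lit 37830) (nat_lit 0) (nat_lit 5320) (XT.lf (nat_lit 0) (nat_lit 177003270471) (nat_lit 76) (nat_lit 340937532039) (nat_lit 152) (nat_lit 269455539130) (nat_lit 14) (nat_lit 5) (nat_lit 15) (nat_lit 5) (nat_lit 16) (nat_lit 4) (nat_lit 341) (nat_lit 304) (nat_lit 135)) (XT.lf (nat_lit 0) (nat_lit 24248603543) (nat_lit 0) (nat_lit 24248603543) (nat_lit 684) (nat_lit 16816762622) (nat_lit 84) (nat_lit 5) (nat_lit 84) (nat_lit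 3) (nat_lit 93) (nat_lit 3) (nat_lit 305) (nat_lit 305) (nat_lit 170))) (XT.nd (nat_lit 78) (nat_lit 0) (nat_lit 76) (XT.lf (nat_lit 76) (nat_lit 10798332706) (nat_lit 0) (nat_lit 90970525395) (nat_lit 760) (nat_lit 34039452507) (nat_lit 85) (nat_lit 5) (nat_lit 84) (nat_lit 5) (nat_lit 94) (nat_lit 5) (nat_lit 306) (nat_lit 305) (nat_lit 169)) (XT.nd (nat_lit 78) (nat_lit 0) (nat_lit 0) (XT.lf (nat_lit 0) (nat_lit 109223771792) (nat_lit 684) (nat_lit 28105758454) (nat_lit 760) (nat_lit 3958656837) (nat_lit 85) (nat_lit 5) (nat_lit 94) (nat_lit 5) (nat_lit 95) (nat_lit 5) (nat_lit 307) (nat_lit 305) (nat_lit 168)) (XT.lf (nat_lit 76) (nat_lit 77496923820) (nat_lit 0) (nat_lit 42521511782) (nat_lit 760) (nat_lit 27050851429) (nat_lit 86) (nat_lit 5) (nat_lit 85) (nat_lit 5) (nat_lit 95) (nat_lit 5) (nat_lit 308) (nat_lit 305) (nat_lit 167))))) (XT.nd (nat_lit 156) (nat_lit 1064) (nat_lit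 0) (XT.nd (nat_lit 78) (nat_lit 0) (nat_lit 76) (XT.lf (nat_lit 76) (nat_lit 39586976036) (nat_lit 0) (nat_lit 94139646209) (nat_lit 760) (nat_lit 19483756361) (nat_lit 87) (nat_lit 5) (nat_lit 86) (nat_lit 5) (nat_lit 96) (nat_lit 5) (nat_lit 309) (nat_lit 305) (nat_lit 166)) (XT.lf (nat_lit 0) (nat_lit 150585333718) (nat_lit 684) (nat_lit 661460471) (nat_lit 760) (nat_lit 8493270856) (nat_lit 87) (nat_lit 5) (nat_lit 96) (nat_lit 5) (nat_lit 97) (nat_lit 5) (nat_lit 310) (nat_lit 305) (nat_lit 165))) (XT.nd (nat_lit 78) (nat_lit 380) (nat_lit 0) (XT.lf (nat_lit 0) (nat_lit 5512660155) (nat_lit 760) (nat_lit 42995912086) (nat_lit 836) (nat_lit 118103189478) (nat_lit 77) (nat_lit 5) (nat_lit 87) (nat_lit 5) (nat_lit 88) (nat_lit 5) (nat_lit 311) (nat_lit 305) (nat_lit 164)) (XT.nd (nat_lit 78) (nat_lit 456) (nat_lit 0) (XT.lf (nat_lit 0) (nat_lit 23397694758) (nat_lit 760) (nat_lit 88519259702)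 (nat_lit 76) (nat_lit 61990487183) (nat_lit 78) (nat_lit 5) (nat_lit 88) (nat_lit 5) (nat_lit 79) (nat_lit 5) (nat_lit 312) (nat_lit 305) (nat_lit 163)) (XT.lf (nat_lit 0) (nat_lit 44420214474) (nat_lit 456) (nat_lit 565652930) (nat_lit 532) (nat_lit 136687292575) (nat_lit 72) (nat_lit 5) (nat_lit 78) (nat_lit 5) (nat_lit 79) (nat_lit 5) (nat_lit 313) (nat_lit 305) (nat_lit 162)))))) (XT.nd (nat_lit 390) (nat_lit 1064) (nat_lit 0) (XT.nd (nat_lit 156) (nat_lit 912) (nat_lit 0) (XT.nd (nat_lit 78) (nat_lit 380) (nat_lit 0) (XT.lf (nat_lit 0) (nat_lit 71736726959) (nat_lit 532) (nat_lit 721568743) (nat_lit 76) (nat_lit 117430059147) (nat_lit 72) (nat_lit 5) (nat_lit 79) (nat_lit 5) (nat_lit 73) (nat_lit 5) (nat_lit 314) (nat_lit 305) (nat_lit 161)) (XT.lf (nat_lit 0) (nat_lit 103761682590) (nat_lit 456) (nat_lit 47826526631) (nat_lit 76) (nat_lit 47015855394) (nat_lit 67) (nat_lit 5) (nat_lit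 73) (nat_lit 5) (nat_lit 68) (nat_lit 5) (nat_lit 315) (nat_lit 305) (nat_lit 160))) (XT.nd (nat_lit 78) (nat_lit 608) (nat_lit 0) (XT.lf (nat_lit 0) (nat_lit 108661482758) (nat_lit 304) (nat_lit 32617913688) (nat_lit 380) (nat_lit 66591097248) (nat_lit 63) (nat_lit 5) (nat_lit 67) (nat_lit 5) (nat_lit 68) (nat_lit 5) (nat_lit 316) (nat_lit 305) (nat_lit 159)) (XT.nd (nat_lit 78) (nat_lit 304) (nat_lit 0) (XT.lf (nat_lit 0) (nat_lit 62013879034) (nat_lit 304) (nat_lit 123096137460) (nat_lit 380) (nat_lit 32602646725) (nat_lit 59) (nat_lit 5) (nat_lit 63) (nat_lit 5) (nat_lit 64) (nat_lit 5) (nat_lit 317) (nat_lit 305) (nat_lit 158)) (XT.lf (nat_lit 0) (nat_lit 6526653889) (nat_lit 304) (nat_lit 217152902434) (nat_lit 76) (nat_lit 4531788264) (nat_lit 55) (nat_lit 5) (nat_lit 59) (nat_lit 5) (nat_lit 56) (nat_lit 5) (nat_lit 318) (nat_lit 305) (nat_lit 157))))) (XT.nd (nat_lit 234) (nat_lit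 532) (nat_lit 0) (XT.nd (nat_lit 78) (nat_lit 532) (nat_lit 0) (XT.lf (nat_lit 0) (nat_lit 52491332087) (nat_lit 304) (nat_lit 45368251077) (nat_lit 76) (nat_lit 141421250717) (nat_lit 55) (nat_lit 5) (nat_lit 59) (nat_lit 5) (nat_lit 56) (nat_lit 5) (nat_lit 319) (nat_lit 305) (nat_lit 156)) (XT.nd (nat_lit 78) (nat_lit 228) (nat_lit 0) (XT.lf (nat_lit 0) (nat_lit 105024322784) (nat_lit 380) (nat_lit 106960444621) (nat_lit 76) (nat_lit 39106558434) (nat_lit 51) (nat_lit 5) (nat_lit 56) (nat_lit 5) (nat_lit 52) (nat_lit 5) (nat_lit 320) (nat_lit 305) (nat_lit 155)) (XT.lf (nat_lit 0) (nat_lit 87748038450) (nat_lit 228) (nat_lit 77835012409) (nat_lit 304) (nat_lit 98072451791) (nat_lit 48) (nat_lit 5) (nat_lit 51) (nat_lit 5) (nat_lit 52) (nat_lit 5) (nat_lit 321) (nat_lit 305) (nat_lit 154)))) (XT.nd (nat_lit 78) (nat_lit 304) (nat_lit 0) (XT.lf (nat_lit 0) (nat_lit 24425212262) (nat_lit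 228) (nat_lit 209882908522) (nat_lit 304) (nat_lit 42750611013) (nat_lit 45) (nat_lit 5) (nat_lit 48) (nat_lit 5) (nat_lit 49) (nat_lit 5) (nat_lit 322) (nat_lit 305) (nat_lit 153)) (XT.nd (nat_lit 78) (nat_lit 228) (nat_lit 0) (XT.lf (nat_lit 0) (nat_lit 20879627824) (nat_lit 304) (nat_lit 45943230854) (nat_lit 76) (nat_lit 224476759395) (nat_lit 44) (nat_lit 5) (nat_lit 48) (nat_lit 5) (nat_lit 45) (nat_lit 5) (nat_lit 323) (nat_lit 305) (nat_lit 152)) (XT.lf (nat_lit 0) (nat_lit 92397567463) (nat_lit 304) (nat_lit 125529738442) (nat_lit 76) (nat_lit 88502675422) (nat_lit 41) (nat_lit 5) (nat_lit 45) (nat_lit 5) (nat_lit 42) (nat_lit 5) (nat_lit 324) (nat_lit 305) (nat_lit 151))))))) (XT.nd (nat_lit 780) (nat_lit 608) (nat_lit 0) (XT.nd (nat_lit 390) (nat_lit 532) (nat_lit 0) (XT.nd (nat_lit 156) (nat_lit 456) (nat_lit 0) (XT.nd (nat_lit 78) (nat_lit 152) (nat_lit 0) (XT.lf (nat_lit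 0) (nat_lit 107088421280) (nat_lit 228) (nat_lit 66160465166) (nat_lit 304) (nat_lit 149341290269) (nat_lit 38) (nat_lit 5) (nat_lit 41) (nat_lit 5) (nat_lit 42) (nat_lit 5) (nat_lit 325) (nat_lit 305) (nat_lit 150)) (XT.lf (nat_lit 0) (nat_lit 22006949711) (nat_lit 152) (nat_lit 242653386824) (nat_lit 228) (nat_lit 75178250181) (nat_lit 36) (nat_lit 5) (nat_lit 38) (nat_lit 5) (nat_lit 39) (nat_lit 5) (nat_lit 326) (nat_lit 305) (nat_lit 149))) (XT.nd (nat_lit 78) (nat_lit 380) (nat_lit 0) (XT.lf (nat_lit 0) (nat_lit 9691290957) (nat_lit 228) (nat_lit 73321479053) (nat_lit 76) (nat_lit 275203717717) (nat_lit 35) (nat_lit 5) (nat_lit 38) (nat_lit 5) (nat_lit 36) (nat_lit 5) (nat_lit 327) (nat_lit 305) (nat_lit 148)) (XT.nd (nat_lit 78) (nat_lit 152) (nat_lit 0) (XT.lf (nat_lit 0) (nat_lit 103274378827) (nat_lit 304) (nat_lit 183568352066) (nat_lit 76) (nat_lit 90932375466) (nat_lit 32)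 (nat_lit 5) (nat_lit 36) (nat_lit 5) (nat_lit 33) (nat_lit 5) (nat_lit 328) (nat_lit 305) (nat_lit 147)) (XT.lf (nat_lit 0) (nat_lit 88327086950) (nat_lit 152) (nat_lit 120093809292) (nat_lit 228) (nat_lit 190273679313) (nat_lit 30) (nat_lit 5) (nat_lit 32) (nat_lit 5) (nat_lit 33) (nat_lit 5) (nat_lit 329) (nat_lit 305) (nat_lit 146))))) (XT.nd (nat_lit 156) (nat_lit 304) (nat_lit 0) (XT.nd (nat_lit 78) (nat_lit 228) (nat_lit 0) (XT.lf (nat_lit 0) (nat_lit 326165746074) (nat_lit 228) (nat_lit 33587724992) (nat_lit 76) (nat_lit 61324800850) (nat_lit 30) (nat_lit 5) (nat_lit 33) (nat_lit 5) (nat_lit 31) (nat_lit 5) (nat_lit 330) (nat_lit 305) (nat_lit 145)) (XT.lf (nat_lit 0) (nat_lit 14193597152) (nat_lit 228) (nat_lit 173152598353) (nat_lit 76) (nat_lit 257581432589) (nat_lit 27) (nat_lit 5) (nat_lit 30) (nat_lit 5) (nat_lit 28) (nat_lit 5) (nat_lit 331) (nat_lit 305) (nat_lit 144)))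 (XT.nd (nat_lit 78) (nat_lit 152) (nat_lit 0) (XT.lf (nat_lit 0) (nat_lit 131499369635) (nat_lit 228) (nat_lit 335707262655) (nat_lit 76) (nat_lit 3260681863) (nat_lit 25) (nat_lit 5) (nat_lit 28) (nat_lit 5) (nat_lit 26) (nat_lit 5) (nat_lit 332) (nat_lit 305) (nat_lit 143)) (XT.nd (nat_lit 78) (nat_lit 152) (nat_lit 0) (XT.lf (nat_lit 0) (nat_lit 264414133774) (nat_lit 228) (nat_lit 27619070122) (nat_lit 76) (nat_lit 205705744846) (nat_lit 25) (nat_lit 5) (nat_lit 28) (nat_lit 5) (nat_lit 26) (nat_lit 5) (nat_lit 333) (nat_lit 305) (nat_lit 142)) (XT.lf (nat_lit 0) (nat_lit 315204508125) (nat_lit 152) (nat_lit 97678683886) (nat_lit 228) (nat_lit 114063066565) (nat_lit 23) (nat_lit 5) (nat_lit 25) (nat_lit 5) (nat_lit 26) (nat_lit 5) (nat_lit 334) (nat_lit 305) (nat_lit 141)))))) (XT.nd (nat_lit 390) (nat_lit 228) (nat_lit 0) (XT.nd (nat_lit 156) (nat_lit 228) (nat_lit 0) (XT.nd (nat_lit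 78) (nat_lit 0) (nat_lit 0) (XT.lf (nat_lit 0) (nat_lit 18614700120) (nat_lit 152) (nat_lit 428189408385) (nat_lit 76) (nat_lit 111457196549) (nat_lit 21) (nat_lit 5) (nat_lit 23) (nat_lit 5) (nat_lit 22) (nat_lit 5) (nat_lit 335) (nat_lit 305) (nat_lit 140)) (XT.lf (nat_lit 0) (nat_lit 163359705974) (nat_lit 152) (nat_lit 88736262921) (nat_lit 76) (nat_lit 339619630538) (nat_lit 21) (nat_lit 5) (nat_lit 23) (nat_lit 5) (nat_lit 22) (nat_lit 5) (nat_lit 336) (nat_lit 305) (nat_lit 139))) (XT.nd (nat_lit 78) (nat_lit 76) (nat_lit 0) (XT.lf (nat_lit 0) (nat_lit 287060707779) (nat_lit 152) (nat_lit 37105329766) (nat_lit 228) (nat_lit 303456113652) (nat_lit 19) (nat_lit 5) (nat_lit 21) (nat_lit 5) (nat_lit 22) (nat_lit 5) (nat_lit 337) (nat_lit 305) (nat_lit 138)) (XT.nd (nat_lit 78) (nat_lit 0) (nat_lit 0) (XT.lf (nat_lit 0) (nat_lit 27577578529) (nat_lit 76) (nat_lit 475306652271) (nat_lit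 152) (nat_lit 163264628632) (nat_lit 18) (nat_lit 5) (nat_lit 19) (nat_lit 5) (nat_lit 20) (nat_lit 4) (nat_lit 338) (nat_lit 305) (nat_lit 137)) (XT.lf (nat_lit 0) (nat_lit 436682559033) (nat_lit 76) (nat_lit 265765164827) (nat_lit 152) (nat_lit 4982588333) (nat_lit 18) (nat_lit 5) (nat_lit 19) (nat_lit 5) (nat_lit 20) (nat_lit 4) (nat_lit 339) (nat_lit 305) (nat_lit 136))))) (XT.nd (nat_lit 38064) (nat_lit 0) (nat_lit 5244) (XT.nd (nat_lit 78) (nat_lit 0) (nat_lit 0) (XT.lf (nat_lit 0) (nat_lit 128007418260) (nat_lit 152) (nat_lit 34641247099) (nat_lit 228) (nat_lit 589136135725) (nat_lit 15) (nat_lit 5) (nat_lit 17) (nat_lit 5) (nat_lit 18) (nat_lit 5) (nat_lit 340) (nat_lit 305) (nat_lit 135)) (XT.nd (nat_lit 37908) (nat_lit 0) (nat_lit 5244) (XT.lf (nat_lit 0) (nat_lit 351667998476) (nat_lit 228) (nat_lit 234638313934) (nat_lit 76) (nat_lit 212969645418) (nat_lit 15) (nat_lit 5) (nat_lit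 18) (nat_lit 5) (nat_lit 16) (nat_lit 4) (nat_lit 341) (nat_lit 305) (nat_lit 134)) (XT.lf (nat_lit 0) (nat_lit 26191226570) (nat_lit 0) (nat_lit 26191226570) (nat_lit 684) (nat_lit 18156347964) (nat_lit 84) (nat_lit 5) (nat_lit 84) (nat_lit 3) (nat_lit 93) (nat_lit 3) (nat_lit 306) (nat_lit 306) (nat_lit 168)))) (XT.nd (nat_lit 78) (nat_lit 0) (nat_lit 76) (XT.lf (nat_lit 76) (nat_lit 11668060281) (nat_lit 0) (nat_lit 98252447586) (nat_lit 760) (nat_lit 36751937005) (nat_lit 85) (nat_lit 5) (nat_lit 84) (nat_lit 5) (nat_lit 94) (nat_lit 5) (nat_lit 307) (nat_lit 306) (nat_lit 167)) (XT.nd (nat_lit 78) (nat_lit 0) (nat_lit 0) (XT.lf (nat_lit 0) (nat_lit 117971001584) (nat_lit 684) (nat_lit 30348239160) (nat_lit 760) (nat_lit 4271513117) (nat_lit 85) (nat_lit 5) (nat_lit 94) (nat_lit 5) (nat_lit 95) (nat_lit 5) (nat_lit 308) (nat_lit 306) (nat_lit 166)) (XT.lf (nat_lit 76) (nat_lit 83702397813)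 (nat_lit 0) (nat_lit 45926239026) (nat_lit 760) (nat_lit 29205736664) (nat_lit 86) (nat_lit 5) (nat_lit 85) (nat_lit 5) (nat_lit 95) (nat_lit 5) (nat_lit 309) (nat_lit 306) (nat_lit 165))))))))
noncomputable def xc117 : XT := (XT.nd (nat_lit 1638) (nat_lit 1140) (nat_lit 0) (XT.nd (nat_lit 780) (nat_lit 1900) (nat_lit 0) (XT.nd (nat_lit 390) (nat_lit 1292) (nat_lit 0) (XT.nd (nat_lit 156) (nat_lit 1064) (nat_lit 0) (XT.nd (nat_lit 78) (nat_lit 0) (nat_lit 76) (XT.lf (nat_lit 76) (nat_lit 42759887168) (nat_lit 0) (nat_lit 101672994330) (nat_lit 760) (nat_lit 21033902245) (nat_lit 87) (nat_lit 5) (nat_lit 86) (nat_lit 5) (nat_lit 96) (nat_lit 5) (nat_lit 310) (nat_lit 306) (nat_lit 164)) (XT.lf (nat_lit 0) (nat_lit 162639656243) (nat_lit 684) (nat_lit 708440105) (nat_lit 760) (nat_lit 9170781816) (nat_lit 87) (nat_lit 5) (nat_lit 96) (nat_lit 5) (nat_lit 97) (nat_lit 5) (nat_lit 311) (nat_lit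 306) (nat_lit 163))) (XT.nd (nat_lit 78) (nat_lit 380) (nat_lit 0) (XT.lf (nat_lit 0) (nat_lit 5960832950) (nat_lit 760) (nat_lit 46429653881) (nat_lit 836) (nat_lit 127549842576) (nat_lit 77) (nat_lit 5) (nat_lit 87) (nat_lit 5) (nat_lit 88) (nat_lit 5) (nat_lit 312) (nat_lit 306) (nat_lit 162)) (XT.nd (nat_lit 78) (nat_lit 456) (nat_lit 0) (XT.lf (nat_lit 0) (nat_lit 25276212218) (nat_lit 760) (nat_lit 95594760725) (nat_lit 76) (nat_lit 66948714817) (nat_lit 78) (nat_lit 5) (nat_lit 88) (nat_lit 5) (nat_lit 79) (nat_lit 5) (nat_lit 313) (nat_lit 306) (nat_lit 161)) (XT.lf (nat_lit 0) (nat_lit 47979608904) (nat_lit 456) (nat_lit 611423535) (nat_lit 532) (nat_lit 147615652481) (nat_lit 72) (nat_lit 5) (nat_lit 78) (nat_lit 5) (nat_lit 79) (nat_lit 5) (nat_lit 314) (nat_lit 306) (nat_lit 160))))) (XT.nd (nat_lit 156) (nat_lit 912) (nat_lit 0) (XT.nd (nat_lit 78) (nat_lit 380) (nat_lit 0)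 (XT.lf (nat_lit 0) (nat_lit 77481486921) (nat_lit 532) (nat_lit 773633851) (nat_lit 76) (nat_lit 126823999269) (nat_lit 72) (nat_lit 5) (nat_lit 79) (nat_lit 5) (nat_lit 73) (nat_lit 5) (nat_lit 315) (nat_lit 306) (nat_lit 159)) (XT.lf (nat_lit 0) (nat_lit 112068091344) (nat_lit 456) (nat_lit 51646948453) (nat_lit 76) (nat_lit 50777065071) (nat_lit 67) (nat_lit 5) (nat_lit 73) (nat_lit 5) (nat_lit 68) (nat_lit 5) (nat_lit 316) (nat_lit 306) (nat_lit 158))) (XT.nd (nat_lit 78) (nat_lit 608) (nat_lit 0) (XT.lf (nat_lit 0) (nat_lit 117359853959) (nat_lit 304) (nat_lit 35227047987) (nat_lit 380) (nat_lit 71912963174) (nat_lit 63) (nat_lit 5) (nat_lit 67) (nat_lit 5) (nat_lit 68) (nat_lit 5) (nat_lit 317) (nat_lit 306) (nat_lit 157)) (XT.nd (nat_lit 78) (nat_lit 304) (nat_lit 0) (XT.lf (nat_lit 0) (nat_lit 66980456931) (nat_lit 304) (nat_lit 132943222589) (nat_lit 380) (nat_lit 35205744061)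 (nat_lit 59) (nat_lit 5) (nat_lit 63) (nat_lit 5) (nat_lit 64) (nat_lit 5) (nat_lit 318) (nat_lit 306) (nat_lit 156)) (XT.lf (nat_lit 0) (nat_lit 7053465778) (nat_lit 304) (nat_lit 234519508800) (nat_lit 76) (nat_lit 4895035123) (nat_lit 55) (nat_lit 5) (nat_lit 59) (nat_lit 5) (nat_lit 56) (nat_lit 5) (nat_lit 319) (nat_lit 306) (nat_lit 155)))))) (XT.nd (nat_lit 390) (nat_lit 1064) (nat_lit 0) (XT.nd (nat_lit 156) (nat_lit 532) (nat_lit 0) (XT.nd (nat_lit 78) (nat_lit 304) (nat_lit 0) (XT.lf (nat_lit 0) (nat_lit 56694971596) (nat_lit 304) (nat_lit 48992502062) (nat_lit 76) (nat_lit 152735602438) (nat_lit 55) (nat_lit 5) (nat_lit 59) (nat_lit 5) (nat_lit 56) (nat_lit 5) (nat_lit 320) (nat_lit 306) (nat_lit 154)) (XT.lf (nat_lit 0) (nat_lit 113430372326) (nat_lit 380) (nat_lit 115512099658) (nat_lit 76) (nat_lit 42235947471) (nat_lit 51) (nat_lit 5) (nat_lit 56) (nat_lit 5) (nat_lit 52)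 (nat_lit 5) (nat_lit 321) (nat_lit 306) (nat_lit 153))) (XT.nd (nat_lit 78) (nat_lit 304) (nat_lit 0) (XT.lf (nat_lit 0) (nat_lit 94772836919) (nat_lit 228) (nat_lit 84060735115) (nat_lit 304) (nat_lit 105914170244) (nat_lit 48) (nat_lit 5) (nat_lit 51) (nat_lit 5) (nat_lit 52) (nat_lit 5) (nat_lit 322) (nat_lit 306) (nat_lit 152)) (XT.nd (nat_lit 78) (nat_lit 76) (nat_lit 0) (XT.lf (nat_lit 0) (nat_lit 26384145044) (nat_lit 228) (nat_lit 226672307656) (nat_lit 304) (nat_lit 46166787300) (nat_lit 45) (nat_lit 5) (nat_lit 48) (nat_lit 5) (nat_lit 49) (nat_lit 5) (nat_lit 323) (nat_lit 306) (nat_lit 151)) (XT.lf (nat_lit 0) (nat_lit 22553469019) (nat_lit 304) (nat_lit 49614017397) (nat_lit 76) (nat_lit 242435922062) (nat_lit 44) (nat_lit 5) (nat_lit 48) (nat_lit 5) (nat_lit 45) (nat_lit 5) (nat_lit 324) (nat_lit 306) (nat_lit 150))))) (XT.nd (nat_lit 234) (nat_lit 456) (nat_lit 0) (XT.nd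 (nat_lit 78) (nat_lit 380) (nat_lit 0) (XT.lf (nat_lit 0) (nat_lit 99792674997) (nat_lit 304) (nat_lit 135567497865) (nat_lit 76) (nat_lit 95584036778) (nat_lit 41) (nat_lit 5) (nat_lit 45) (nat_lit 5) (nat_lit 42) (nat_lit 5) (nat_lit 325) (nat_lit 306) (nat_lit 149)) (XT.nd (nat_lit 78) (nat_lit 152) (nat_lit 0) (XT.lf (nat_lit 0) (nat_lit 115659913870) (nat_lit 228) (nat_lit 71452010017) (nat_lit 304) (nat_lit 161285305930) (nat_lit 38) (nat_lit 5) (nat_lit 41) (nat_lit 5) (nat_lit 42) (nat_lit 5) (nat_lit 326) (nat_lit 306) (nat_lit 148)) (XT.lf (nat_lit 0) (nat_lit 23771867273) (nat_lit 152) (nat_lit 262064277895) (nat_lit 228) (nat_lit 81189375039) (nat_lit 36) (nat_lit 5) (nat_lit 38) (nat_lit 5) (nat_lit 39) (nat_lit 5) (nat_lit 327) (nat_lit 306) (nat_lit 147)))) (XT.nd (nat_lit 78) (nat_lit 380) (nat_lit 0) (XT.lf (nat_lit 0) (nat_lit 10469404245) (nat_lit 228) (nat_lit 79183062116)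 (nat_lit 76) (nat_lit 297221196039) (nat_lit 35) (nat_lit 5) (nat_lit 38) (nat_lit 5) (nat_lit 36) (nat_lit 5) (nat_lit 328) (nat_lit 306) (nat_lit 146)) (XT.nd (nat_lit 78) (nat_lit 152) (nat_lit 0) (XT.lf (nat_lit 0) (nat_lit 111539012923) (nat_lit 304) (nat_lit 198249748112) (nat_lit 76) (nat_lit 98208216082) (nat_lit 32) (nat_lit 5) (nat_lit 36) (nat_lit 5) (nat_lit 33) (nat_lit 5) (nat_lit 329) (nat_lit 306) (nat_lit 145)) (XT.lf (nat_lit 0) (nat_lit 95397149055) (nat_lit 152) (nat_lit 129699964690) (nat_lit 228) (nat_lit 205492897266) (nat_lit 30) (nat_lit 5) (nat_lit 32) (nat_lit 5) (nat_lit 33) (nat_lit 5) (nat_lit 330) (nat_lit 306) (nat_lit 144))))))) (XT.nd (nat_lit 780) (nat_lit 228) (nat_lit 0) (XT.nd (nat_lit 390) (nat_lit 380) (nat_lit 0) (XT.nd (nat_lit 156) (nat_lit 304) (nat_lit 0) (XT.nd (nat_lit 78) (nat_lit 228) (nat_lit 0) (XT.lf (nat_lit 0) (nat_lit 352261382493)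 (nat_lit 228) (nat_lit 36271034964) (nat_lit 76) (nat_lit 66231994323) (nat_lit 30) (nat_lit 5) (nat_lit 33) (nat_lit 5) (nat_lit 31) (nat_lit 5) (nat_lit 331) (nat_lit 306) (nat_lit 143)) (XT.lf (nat_lit 0) (nat_lit 15331380701) (nat_lit 228) (nat_lit 187001180740) (nat_lit 76) (nat_lit 278189159421) (nat_lit 27) (nat_lit 5) (nat_lit 30) (nat_lit 5) (nat_lit 28) (nat_lit 5) (nat_lit 332) (nat_lit 306) (nat_lit 142))) (XT.nd (nat_lit 78) (nat_lit 152) (nat_lit 0) (XT.lf (nat_lit 0) (nat_lit 142021519179) (nat_lit 228) (nat_lit 362560284369) (nat_lit 76) (nat_lit 3522783246) (nat_lit 25) (nat_lit 5) (nat_lit 28) (nat_lit 5) (nat_lit 26) (nat_lit 5) (nat_lit 333) (nat_lit 306) (nat_lit 141)) (XT.nd (nat_lit 78) (nat_lit 152) (nat_lit 0) (XT.lf (nat_lit 0) (nat_lit 285569301488) (nat_lit 228) (nat_lit 29825300085) (nat_lit 76) (nat_lit 222163358910) (nat_lit 25) (nat_lit 5) (nat_lit 28) (nat_lit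 5) (nat_lit 26) (nat_lit 5) (nat_lit 334) (nat_lit 306) (nat_lit 140)) (XT.lf (nat_lit 0) (nat_lit 340424021197) (nat_lit 152) (nat_lit 105491761516) (nat_lit 228) (nat_lit 123186077647) (nat_lit 23) (nat_lit 5) (nat_lit 25) (nat_lit 5) (nat_lit 26) (nat_lit 5) (nat_lit 335) (nat_lit 306) (nat_lit 139))))) (XT.nd (nat_lit 156) (nat_lit 228) (nat_lit 0) (XT.nd (nat_lit 78) (nat_lit 0) (nat_lit 0) (XT.lf (nat_lit 0) (nat_lit 20105766350) (nat_lit 152) (nat_lit 462441404822) (nat_lit 76) (nat_lit 120374941891) (nat_lit 21) (nat_lit 5) (nat_lit 23) (nat_lit 5) (nat_lit 22) (nat_lit 5) (nat_lit 336) (nat_lit 306) (nat_lit 138)) (XT.lf (nat_lit 0) (nat_lit 176430232656) (nat_lit 152) (nat_lit 95832241516) (nat_lit 76) (nat_lit 366790283961) (nat_lit 21) (nat_lit 5) (nat_lit 23) (nat_lit 5) (nat_lit 22) (nat_lit 5) (nat_lit 337) (nat_lit 306) (nat_lit 137))) (XT.nd (nat_lit 78) (nat_lit 76) (nat_lit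 0) (XT.lf (nat_lit 0) (nat_lit 310028359835) (nat_lit 152) (nat_lit 40072624918) (nat_lit 228) (nat_lit 327730853714) (nat_lit 19) (nat_lit 5) (nat_lit 21) (nat_lit 5) (nat_lit 22) (nat_lit 5) (nat_lit 338) (nat_lit 306) (nat_lit 136)) (XT.nd (nat_lit 78) (nat_lit 0) (nat_lit 0) (XT.lf (nat_lit 0) (nat_lit 29786523003) (nat_lit 76) (nat_lit 513330046295) (nat_lit 152) (nat_lit 176324117392) (nat_lit 18) (nat_lit 5) (nat_lit 19) (nat_lit 5) (nat_lit 20) (nat_lit 4) (nat_lit 339) (nat_lit 306) (nat_lit 135)) (XT.lf (nat_lit 0) (nat_lit 471619699119) (nat_lit 76) (nat_lit 287025324163) (nat_lit 152) (nat_lit 5379638426) (nat_lit 18) (nat_lit 5) (nat_lit 19) (nat_lit 5) (nat_lit 20) (nat_lit 4) (nat_lit 340) (nat_lit 306) (nat_lit 134)))))) (XT.nd (nat_lit 38298) (nat_lit 0) (nat_lit 4332) (XT.nd (nat_lit 38064) (nat_lit 0) (nat_lit 5244) (XT.nd (nat_lit 37986) (nat_lit 0) (nat_lit 5244) (XT.lf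 (nat_lit 0) (nat_lit 138250485830) (nat_lit 152) (nat_lit 37411506887) (nat_lit 228) (nat_lit 636265519527) (nat_lit 15) (nat_lit 5) (nat_lit 17) (nat_lit 5) (nat_lit 18) (nat_lit 5) (nat_lit 341) (nat_lit 306) (nat_lit 133)) (XT.lf (nat_lit 0) (nat_lit 28288869298) (nat_lit 0) (nat_lit 28288869298) (nat_lit 684) (nat_lit 19603921245) (nat_lit 84) (nat_lit 5) (nat_lit 84) (nat_lit 3) (nat_lit 93) (nat_lit 3) (nat_lit 307) (nat_lit 307) (nat_lit 166))) (XT.nd (nat_lit 78) (nat_lit 0) (nat_lit 76) (XT.lf (nat_lit 76) (nat_lit 12606529930) (nat_lit 0) (nat_lit 106116312940) (nat_lit 760) (nat_lit 39682942701) (nat_lit 85) (nat_lit 5) (nat_lit 84) (nat_lit 5) (nat_lit 94) (nat_lit 5) (nat_lit 308) (nat_lit 307) (nat_lit 165)) (XT.nd (nat_lit 78) (nat_lit 0) (nat_lit 0) (XT.lf (nat_lit 0) (nat_lit 127416679009) (nat_lit 684) (nat_lit 32770971433) (nat_lit 760) (nat_lit 4609945186) (nat_lit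 85) (nat_lit 5) (nat_lit 94) (nat_lit 5) (nat_lit 95) (nat_lit 5) (nat_lit 309) (nat_lit 307) (nat_lit 164)) (XT.lf (nat_lit 76) (nat_lit 90403493692) (nat_lit 0) (nat_lit 49602915566) (nat_lit 760) (nat_lit 31534322758) (nat_lit 86) (nat_lit 5) (nat_lit 85) (nat_lit 5) (nat_lit 95) (nat_lit 5) (nat_lit 310) (nat_lit 307) (nat_lit 163))))) (XT.nd (nat_lit 234) (nat_lit 380) (nat_lit 0) (XT.nd (nat_lit 78) (nat_lit 684) (nat_lit 0) (XT.lf (nat_lit 76) (nat_lit 46185781922) (nat_lit 0) (nat_lit 109808699809) (nat_lit 760) (nat_lit 22709280213) (nat_lit 87) (nat_lit 5) (nat_lit 86) (nat_lit 5) (nat_lit 96) (nat_lit 5) (nat_lit 311) (nat_lit 307) (nat_lit 162)) (XT.nd (nat_lit 78) (nat_lit 760) (nat_lit 0) (XT.lf (nat_lit 0) (nat_lit 175657255206) (nat_lit 684) (nat_lit 760025118) (nat_lit 760) (nat_lit 9902771943) (nat_lit 87) (nat_lit 5) (nat_lit 96) (nat_lit 5) (nat_lit 97) (nat_lit 5)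 (nat_lit 312) (nat_lit 307) (nat_lit 161)) (XT.lf (nat_lit 0) (nat_lit 6443838117) (nat_lit 760) (nat_lit 50138941168) (nat_lit 836) (nat_lit 137752456474) (nat_lit 77) (nat_lit 5) (nat_lit 87) (nat_lit 5) (nat_lit 88) (nat_lit 5) (nat_lit 313) (nat_lit 307) (nat_lit 160)))) (XT.nd (nat_lit 78) (nat_lit 456) (nat_lit 0) (XT.lf (nat_lit 0) (nat_lit 27304054977) (nat_lit 760) (nat_lit 103237163469) (nat_lit 76) (nat_lit 72303744940) (nat_lit 78) (nat_lit 5) (nat_lit 88) (nat_lit 5) (nat_lit 79) (nat_lit 5) (nat_lit 314) (nat_lit 307) (nat_lit 159)) (XT.nd (nat_lit 78) (nat_lit 0) (nat_lit 0) (XT.lf (nat_lit 0) (nat_lit 51822930697) (nat_lit 456) (nat_lit 660781837) (nat_lit 532) (nat_lit 159419226095) (nat_lit 72) (nat_lit 5) (nat_lit 78) (nat_lit 5) (nat_lit 79) (nat_lit 5) (nat_lit 315) (nat_lit 307) (nat_lit 158)) (XT.lf (nat_lit 0) (nat_lit 83684997135) (nat_lit 532) (nat_lit 830671686)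 (nat_lit 76) (nat_lit 136969520881) (nat_lit 72) (nat_lit 5) (nat_lit 79) (nat_lit 5) (nat_lit 73) (nat_lit 5) (nat_lit 316) (nat_lit 307) (nat_lit 157))))))))
noncomputable def xc118 : XT := (XT.nd (nat_lit 1638) (nat_lit 228) (nat_lit 0) (XT.nd (nat_lit 780) (nat_lit 1520) (nat_lit 0) (XT.nd (nat_lit 390) (nat_lit 1064) (nat_lit 0) (XT.nd (nat_lit 156) (nat_lit 608) (nat_lit 0) (XT.nd (nat_lit 78) (nat_lit 304) (nat_lit 0) (XT.lf (nat_lit 0) (nat_lit 121038231850) (nat_lit 456) (nat_lit 55773817232) (nat_lit 76) (nat_lit 54839179905) (nat_lit 67) (nat_lit 5) (nat_lit 73) (nat_lit 5) (nat_lit 68) (nat_lit 5) (nat_lit 317) (nat_lit 307) (nat_lit 156)) (XT.lf (nat_lit 0) (nat_lit 126753316986) (nat_lit 304) (nat_lit 38044955657) (nat_lit 380) (nat_lit 77661351863) (nat_lit 63) (nat_lit 5) (nat_lit 67) (nat_lit 5) (nat_lit 68) (nat_lit 5) (nat_lit 318) (nat_lit 307) (nat_lit 155))) (XT.nd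 (nat_lit 78) (nat_lit 304) (nat_lit 0) (XT.lf (nat_lit 0) (nat_lit 72343581050) (nat_lit 304) (nat_lit 143578160962) (nat_lit 380) (nat_lit 38017818810) (nat_lit 59) (nat_lit 5) (nat_lit 63) (nat_lit 5) (nat_lit 64) (nat_lit 5) (nat_lit 319) (nat_lit 307) (nat_lit 154)) (XT.nd (nat_lit 78) (nat_lit 0) (nat_lit 0) (XT.lf (nat_lit 0) (nat_lit 7621755023) (nat_lit 304) (nat_lit 253276246263) (nat_lit 76) (nat_lit 5287241326) (nat_lit 55) (nat_lit 5) (nat_lit 59) (nat_lit 5) (nat_lit 56) (nat_lit 5) (nat_lit 320) (nat_lit 307) (nat_lit 153)) (XT.lf (nat_lit 0) (nat_lit 61234284123) (nat_lit 304) (nat_lit 52907436263) (nat_lit 76) (nat_lit 164955009331) (nat_lit 55) (nat_lit 5) (nat_lit 59) (nat_lit 5) (nat_lit 56) (nat_lit 5) (nat_lit 321) (nat_lit 307) (nat_lit 152))))) (XT.nd (nat_lit 156) (nat_lit 532) (nat_lit 0) (XT.nd (nat_lit 78) (nat_lit 228) (nat_lit 0) (XT.lf (nat_lit 0) (nat_lit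 122508320389) (nat_lit 380) (nat_lit 124748626158) (nat_lit 76) (nat_lit 45615564320) (nat_lit 51) (nat_lit 5) (nat_lit 56) (nat_lit 5) (nat_lit 52) (nat_lit 5) (nat_lit 322) (nat_lit 307) (nat_lit 151)) (XT.lf (nat_lit 0) (nat_lit 102358912323) (nat_lit 228) (nat_lit 90784669468) (nat_lit 304) (nat_lit 114383807902) (nat_lit 48) (nat_lit 5) (nat_lit 51) (nat_lit 5) (nat_lit 52) (nat_lit 5) (nat_lit 323) (nat_lit 307) (nat_lit 150))) (XT.nd (nat_lit 78) (nat_lit 304) (nat_lit 0) (XT.lf (nat_lit 0) (nat_lit 28499091153) (nat_lit 228) (nat_lit 244805034699) (nat_lit 304) (nat_lit 49856810160) (nat_lit 45) (nat_lit 5) (nat_lit 48) (nat_lit 5) (nat_lit 49) (nat_lit 5) (nat_lit 324) (nat_lit 307) (nat_lit 149)) (XT.nd (nat_lit 78) (nat_lit 228) (nat_lit 0) (XT.lf (nat_lit 0) (nat_lit 24360722337) (nat_lit 304) (nat_lit 53579133365) (nat_lit 76) (nat_lit 261831671955) (nat_lit 44) (nat_lit 5)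 (nat_lit 48) (nat_lit 5) (nat_lit 45) (nat_lit 5) (nat_lit 325) (nat_lit 307) (nat_lit 148)) (XT.lf (nat_lit 0) (nat_lit 107778920047) (nat_lit 304) (nat_lit 146408937087) (nat_lit 76) (nat_lit 103231743364) (nat_lit 41) (nat_lit 5) (nat_lit 45) (nat_lit 5) (nat_lit 42) (nat_lit 5) (nat_lit 326) (nat_lit 307) (nat_lit 147)))))) (XT.nd (nat_lit 390) (nat_lit 684) (nat_lit 0) (XT.nd (nat_lit 156) (nat_lit 456) (nat_lit 0) (XT.nd (nat_lit 78) (nat_lit 152) (nat_lit 0) (XT.lf (nat_lit 0) (nat_lit 124916495463) (nat_lit 228) (nat_lit 77167062826) (nat_lit 304) (nat_lit 174185311851) (nat_lit 38) (nat_lit 5) (nat_lit 41) (nat_lit 5) (nat_lit 42) (nat_lit 5) (nat_lit 327) (nat_lit 307) (nat_lit 146)) (XT.lf (nat_lit 0) (nat_lit 25677356011) (nat_lit 152) (nat_lit 283028237107) (nat_lit 228) (nat_lit 87681837150) (nat_lit 36) (nat_lit 5) (nat_lit 38) (nat_lit 5) (nat_lit 39) (nat_lit 5) (nat_lit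 328) (nat_lit 307) (nat_lit 145))) (XT.nd (nat_lit 78) (nat_lit 380) (nat_lit 0) (XT.lf (nat_lit 0) (nat_lit 11309365716) (nat_lit 228) (nat_lit 85514161765) (nat_lit 76) (nat_lit 320999904157) (nat_lit 35) (nat_lit 5) (nat_lit 38) (nat_lit 5) (nat_lit 36) (nat_lit 5) (nat_lit 329) (nat_lit 307) (nat_lit 144)) (XT.nd (nat_lit 78) (nat_lit 152) (nat_lit 0) (XT.lf (nat_lit 0) (nat_lit 120464434875) (nat_lit 304) (nat_lit 214106236776) (nat_lit 76) (nat_lit 106065945539) (nat_lit 32) (nat_lit 5) (nat_lit 36) (nat_lit 5) (nat_lit 33) (nat_lit 5) (nat_lit 330) (nat_lit 307) (nat_lit 143)) (XT.lf (nat_lit 0) (nat_lit 103032260443) (nat_lit 152) (nat_lit 140074805020) (nat_lit 228) (nat_lit 221930034473) (nat_lit 30) (nat_lit 5) (nat_lit 32) (nat_lit 5) (nat_lit 33) (nat_lit 5) (nat_lit 331) (nat_lit 307) (nat_lit 142))))) (XT.nd (nat_lit 234) (nat_lit 304) (nat_lit 0) (XT.nd (nat_lit 78) (nat_lit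 380) (nat_lit 0) (XT.lf (nat_lit 0) (nat_lit 380444330758) (nat_lit 228) (nat_lit 39169538725) (nat_lit 76) (nat_lit 71531590739) (nat_lit 30) (nat_lit 5) (nat_lit 33) (nat_lit 5) (nat_lit 31) (nat_lit 5) (nat_lit 332) (nat_lit 307) (nat_lit 141)) (XT.nd (nat_lit 78) (nat_lit 152) (nat_lit 0) (XT.lf (nat_lit 0) (nat_lit 16559859415) (nat_lit 228) (nat_lit 201958166933) (nat_lit 76) (nat_lit 300445331462) (nat_lit 27) (nat_lit 5) (nat_lit 30) (nat_lit 5) (nat_lit 28) (nat_lit 5) (nat_lit 333) (nat_lit 307) (nat_lit 140)) (XT.lf (nat_lit 0) (nat_lit 153385126835) (nat_lit 228) (nat_lit 391562055595) (nat_lit 76) (nat_lit 3805674865) (nat_lit 25) (nat_lit 5) (nat_lit 28) (nat_lit 5) (nat_lit 26) (nat_lit 5) (nat_lit 334) (nat_lit 307) (nat_lit 139)))) (XT.nd (nat_lit 78) (nat_lit 304) (nat_lit 0) (XT.lf (nat_lit 0) (nat_lit 308416592016) (nat_lit 228) (nat_lit 32208498607) (nat_lit 76) (nat_lit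 239937417400) (nat_lit 25) (nat_lit 5) (nat_lit 28) (nat_lit 5) (nat_lit 26) (nat_lit 5) (nat_lit 335) (nat_lit 307) (nat_lit 138)) (XT.nd (nat_lit 78) (nat_lit 152) (nat_lit 0) (XT.lf (nat_lit 0) (nat_lit 367660645586) (nat_lit 152) (nat_lit 113930058986) (nat_lit 228) (nat_lit 133039219822) (nat_lit 23) (nat_lit 5) (nat_lit 25) (nat_lit 5) (nat_lit 26) (nat_lit 5) (nat_lit 336) (nat_lit 307) (nat_lit 137)) (XT.lf (nat_lit 0) (nat_lit 21715848217) (nat_lit 152) (nat_lit 499434011246) (nat_lit 76) (nat_lit 130005940001) (nat_lit 21) (nat_lit 5) (nat_lit 23) (nat_lit 5) (nat_lit 22) (nat_lit 5) (nat_lit 337) (nat_lit 307) (nat_lit 136))))))) (XT.nd (nat_lit 38766) (nat_lit 0) (nat_lit 2280) (XT.nd (nat_lit 38376) (nat_lit 0) (nat_lit 5016) (XT.nd (nat_lit 156) (nat_lit 76) (nat_lit 0) (XT.nd (nat_lit 78) (nat_lit 152) (nat_lit 0) (XT.lf (nat_lit 0) (nat_lit 190546151786) (nat_lit 152) (nat_lit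 103496315316) (nat_lit 76) (nat_lit 396134435159) (nat_lit 21) (nat_lit 5) (nat_lit 23) (nat_lit 5) (nat_lit 22) (nat_lit 5) (nat_lit 338) (nat_lit 307) (nat_lit 135)) (XT.lf (nat_lit 0) (nat_lit 334833025255) (nat_lit 152) (nat_lit 43277465064) (nat_lit 228) (nat_lit 353947822500) (nat_lit 19) (nat_lit 5) (nat_lit 21) (nat_lit 5) (nat_lit 22) (nat_lit 5) (nat_lit 339) (nat_lit 307) (nat_lit 134))) (XT.nd (nat_lit 78) (nat_lit 0) (nat_lit 0) (XT.lf (nat_lit 0) (nat_lit 32171792402) (nat_lit 76) (nat_lit 554395474211) (nat_lit 152) (nat_lit 190428605141) (nat_lit 18) (nat_lit 5) (nat_lit 19) (nat_lit 5) (nat_lit 20) (nat_lit 4) (nat_lit 340) (nat_lit 307) (nat_lit 133)) (XT.nd (nat_lit 38064) (nat_lit 0) (nat_lit 5016) (XT.lf (nat_lit 0) (nat_lit 509351448714) (nat_lit 76) (nat_lit 309986446589) (nat_lit 152) (nat_lit 5808674646) (nat_lit 18) (nat_lit 5) (nat_lit 19) (nat_lit 5) (nat_lit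 20) (nat_lit 4) (nat_lit 341) (nat_lit 307) (nat_lit 132)) (XT.lf (nat_lit 0) (nat_lit 30553988960) (nat_lit 0) (nat_lit 30553988960) (nat_lit 684) (nat_lit 21168004357) (nat_lit 84) (nat_lit 5) (nat_lit 84) (nat_lit 3) (nat_lit 93) (nat_lit 3) (nat_lit 308) (nat_lit 308) (nat_lit 164))))) (XT.nd (nat_lit 156) (nat_lit 0) (nat_lit 76) (XT.nd (nat_lit 78) (nat_lit 0) (nat_lit 76) (XT.lf (nat_lit 76) (nat_lit 13619360304) (nat_lit 0) (nat_lit 114608764020) (nat_lit 760) (nat_lit 42849734098) (nat_lit 85) (nat_lit 5) (nat_lit 84) (nat_lit 5) (nat_lit 94) (nat_lit 5) (nat_lit 309) (nat_lit 308) (nat_lit 163)) (XT.lf (nat_lit 0) (nat_lit 137616869725) (nat_lit 684) (nat_lit 35388253691) (nat_lit 760) (nat_lit 4975921031) (nat_lit 85) (nat_lit 5) (nat_lit 94) (nat_lit 5) (nat_lit 95) (nat_lit 5) (nat_lit 310) (nat_lit 308) (nat_lit 162))) (XT.nd (nat_lit 78) (nat_lit 0) (nat_lit 76) (XT.lf (nat_lit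 76) (nat_lit 97639977622) (nat_lit 0) (nat_lit 53573358533) (nat_lit 760) (nat_lit 34050318888) (nat_lit 86) (nat_lit 5) (nat_lit 85) (nat_lit 5) (nat_lit 95) (nat_lit 5) (nat_lit 311) (nat_lit 308) (nat_lit 161)) (XT.nd (nat_lit 78) (nat_lit 0) (nat_lit 76) (XT.lf (nat_lit 76) (nat_lit 49885020145) (nat_lit 0) (nat_lit 118594995531) (nat_lit 760) (nat_lit 24519734726) (nat_lit 87) (nat_lit 5) (nat_lit 86) (nat_lit 5) (nat_lit 96) (nat_lit 5) (nat_lit 312) (nat_lit 308) (nat_lit 160)) (XT.lf (nat_lit 0) (nat_lit 189715345279) (nat_lit 684) (nat_lit 816463105) (nat_lit 760) (nat_lit 10693559870) (nat_lit 87) (nat_lit 5) (nat_lit 96) (nat_lit 5) (nat_lit 97) (nat_lit 5) (nat_lit 313) (nat_lit 308) (nat_lit 159)))))) (XT.nd (nat_lit 390) (nat_lit 1444) (nat_lit 0) (XT.nd (nat_lit 156) (nat_lit 760) (nat_lit 0) (XT.nd (nat_lit 78) (nat_lit 0) (nat_lit 76) (XT.lf (nat_lit 0) (nat_lit 6964607967)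 (nat_lit 760) (nat_lit 54145696872) (nat_lit 836) (nat_lit 148771475430) (nat_lit 77) (nat_lit 5) (nat_lit 87) (nat_lit 5) (nat_lit 88) (nat_lit 5) (nat_lit 314) (nat_lit 308) (nat_lit 158)) (XT.lf (nat_lit 0) (nat_lit 29493305456) (nat_lit 760) (nat_lit 111491697148) (nat_lit 76) (nat_lit 78087301169) (nat_lit 78) (nat_lit 5) (nat_lit 88) (nat_lit 5) (nat_lit 79) (nat_lit 5) (nat_lit 315) (nat_lit 308) (nat_lit 157))) (XT.nd (nat_lit 78) (nat_lit 380) (nat_lit 0) (XT.lf (nat_lit 0) (nat_lit 55973011620) (nat_lit 456) (nat_lit 714025402) (nat_lit 532) (nat_lit 172167895713) (nat_lit 72) (nat_lit 5) (nat_lit 78) (nat_lit 5) (nat_lit 79) (nat_lit 5) (nat_lit 316) (nat_lit 308) (nat_lit 156)) (XT.nd (nat_lit 78) (nat_lit 380) (nat_lit 0) (XT.lf (nat_lit 0) (nat_lit 90384076107) (nat_lit 532) (nat_lit 892964865) (nat_lit 76) (nat_lit 147926741049) (nat_lit 72) (nat_lit 5) (nat_lit 79) (nat_lit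 5) (nat_lit 73) (nat_lit 5) (nat_lit 317) (nat_lit 308) (nat_lit 155)) (XT.lf (nat_lit 0) (nat_lit 130725314060) (nat_lit 456) (nat_lit 60231532713) (nat_lit 76) (nat_lit 59226271111) (nat_lit 67) (nat_lit 5) (nat_lit 73) (nat_lit 5) (nat_lit 68) (nat_lit 5) (nat_lit 318) (nat_lit 308) (nat_lit 154))))) (XT.nd (nat_lit 234) (nat_lit 532) (nat_lit 0) (XT.nd (nat_lit 78) (nat_lit 608) (nat_lit 0) (XT.lf (nat_lit 0) (nat_lit 136897590154) (nat_lit 304) (nat_lit 41088332485) (nat_lit 380) (nat_lit 83870274789) (nat_lit 63) (nat_lit 5) (nat_lit 67) (nat_lit 5) (nat_lit 68) (nat_lit 5) (nat_lit 319) (nat_lit 308) (nat_lit 153)) (XT.nd (nat_lit 78) (nat_lit 304) (nat_lit 0) (XT.lf (nat_lit 0) (nat_lit 78135086364) (nat_lit 304) (nat_lit 155063968508) (nat_lit 380) (nat_lit 41055485077) (nat_lit 59) (nat_lit 5) (nat_lit 63) (nat_lit 5) (nat_lit 64) (nat_lit 5) (nat_lit 320) (nat_lit 308) (nat_lit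 152)) (XT.lf (nat_lit 0) (nat_lit 8234935054) (nat_lit 304) (nat_lit 273534210812) (nat_lit 76) (nat_lit 5710737944) (nat_lit 55) (nat_lit 5) (nat_lit 59) (nat_lit 5) (nat_lit 56) (nat_lit 5) (nat_lit 321) (nat_lit 308) (nat_lit 151)))) (XT.nd (nat_lit 78) (nat_lit 532) (nat_lit 0) (XT.lf (nat_lit 0) (nat_lit 66136211694) (nat_lit 304) (nat_lit 57136202320) (nat_lit 76) (nat_lit 178151889070) (nat_lit 55) (nat_lit 5) (nat_lit 59) (nat_lit 5) (nat_lit 56) (nat_lit 5) (nat_lit 322) (nat_lit 308) (nat_lit 150)) (XT.nd (nat_lit 78) (nat_lit 228) (nat_lit 0) (XT.lf (nat_lit 0) (nat_lit 132312002376) (nat_lit 380) (nat_lit 134724708405) (nat_lit 76) (nat_lit 49265444797) (nat_lit 51) (nat_lit 5) (nat_lit 56) (nat_lit 5) (nat_lit 52) (nat_lit 5) (nat_lit 323) (nat_lit 308) (nat_lit 149)) (XT.lf (nat_lit 0) (nat_lit 110551267671) (nat_lit 228) (nat_lit 98046650454) (nat_lit 304) (nat_lit 123531515310)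 (nat_lit 48) (nat_lit 5) (nat_lit 51) (nat_lit 5) (nat_lit 52) (nat_lit 5) (nat_lit 324) (nat_lit 308) (nat_lit 148))))))))
noncomputable def xc119 : XT := (XT.nd (nat_lit 39780) (nat_lit 0) (nat_lit 608) (XT.nd (nat_lit 780) (nat_lit 608) (nat_lit 0) (XT.nd (nat_lit 390) (nat_lit 684) (nat_lit 0) (XT.nd (nat_lit 156) (nat_lit 608) (nat_lit 0) (XT.nd (nat_lit 78) (nat_lit 76) (nat_lit 0) (XT.lf (nat_lit 0) (nat_lit 30782631705) (nat_lit 228) (nat_lit 264388530780) (nat_lit 304) (nat_lit 53842508501) (nat_lit 45) (nat_lit 5) (nat_lit 48) (nat_lit 5) (nat_lit 49) (nat_lit 5) (nat_lit 325) (nat_lit 308) (nat_lit 147)) (XT.lf (nat_lit 0) (nat_lit 26312131389) (nat_lit 304) (nat_lit 57862030030) (nat_lit 76) (nat_lit 282778956850) (nat_lit 44) (nat_lit 5) (nat_lit 48) (nat_lit 5) (nat_lit 45) (nat_lit 5) (nat_lit 326) (nat_lit 308) (nat_lit 146))) (XT.nd (nat_lit 78) (nat_lit 380) (nat_lit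 0) (XT.lf (nat_lit 0) (nat_lit 116403660821) (nat_lit 304) (nat_lit 158118256472) (nat_lit 76) (nat_lit 111491126149) (nat_lit 41) (nat_lit 5) (nat_lit 45) (nat_lit 5) (nat_lit 42) (nat_lit 5) (nat_lit 327) (nat_lit 308) (nat_lit 145)) (XT.nd (nat_lit 78) (nat_lit 152) (nat_lit 0) (XT.lf (nat_lit 0) (nat_lit 134913063115) (nat_lit 228) (nat_lit 83339477928) (nat_lit 304) (nat_lit 188117720343) (nat_lit 38) (nat_lit 5) (nat_lit 41) (nat_lit 5) (nat_lit 42) (nat_lit 5) (nat_lit 328) (nat_lit 308) (nat_lit 144)) (XT.lf (nat_lit 0) (nat_lit 27734750387) (nat_lit 152) (nat_lit 305669481826) (nat_lit 228) (nat_lit 94694079689) (nat_lit 36) (nat_lit 5) (nat_lit 38) (nat_lit 5) (nat_lit 39) (nat_lit 5) (nat_lit 329) (nat_lit 308) (nat_lit 143))))) (XT.nd (nat_lit 156) (nat_lit 380) (nat_lit 0) (XT.nd (nat_lit 78) (nat_lit 228) (nat_lit 0) (XT.lf (nat_lit 0) (nat_lit 12216180415) (nat_lit 228)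 (nat_lit 92352255165) (nat_lit 76) (nat_lit 346680764490) (nat_lit 35) (nat_lit 5) (nat_lit 38) (nat_lit 5) (nat_lit 36) (nat_lit 5) (nat_lit 330) (nat_lit 308) (nat_lit 142)) (XT.lf (nat_lit 0) (nat_lit 130103562330) (nat_lit 304) (nat_lit 231231742589) (nat_lit 76) (nat_lit 114552140395) (nat_lit 32) (nat_lit 5) (nat_lit 36) (nat_lit 5) (nat_lit 33) (nat_lit 5) (nat_lit 331) (nat_lit 308) (nat_lit 141))) (XT.nd (nat_lit 78) (nat_lit 228) (nat_lit 0) (XT.lf (nat_lit 0) (nat_lit 111277704330) (nat_lit 152) (nat_lit 151279797612) (nat_lit 228) (nat_lit 239682470003) (nat_lit 30) (nat_lit 5) (nat_lit 32) (nat_lit 5) (nat_lit 33) (nat_lit 5) (nat_lit 332) (nat_lit 308) (nat_lit 140)) (XT.nd (nat_lit 78) (nat_lit 228) (nat_lit 0) (XT.lf (nat_lit 0) (nat_lit 410881624188) (nat_lit 228) (nat_lit 42300376313) (nat_lit 76) (nat_lit 77255006947) (nat_lit 30) (nat_lit 5) (nat_lit 33) (nat_lit 5)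 (nat_lit 31) (nat_lit 5) (nat_lit 333) (nat_lit 308) (nat_lit 139)) (XT.lf (nat_lit 0) (nat_lit 17886335632) (nat_lit 228) (nat_lit 218112155450) (nat_lit 76) (nat_lit 324481849000) (nat_lit 27) (nat_lit 5) (nat_lit 30) (nat_lit 5) (nat_lit 28) (nat_lit 5) (nat_lit 334) (nat_lit 308) (nat_lit 138)))))) (XT.nd (nat_lit 390) (nat_lit 152) (nat_lit 0) (XT.nd (nat_lit 156) (nat_lit 304) (nat_lit 0) (XT.nd (nat_lit 78) (nat_lit 0) (nat_lit 0) (XT.lf (nat_lit 0) (nat_lit 165657554028) (nat_lit 228) (nat_lit 422884403852) (nat_lit 76) (nat_lit 4111045315) (nat_lit 25) (nat_lit 5) (nat_lit 28) (nat_lit 5) (nat_lit 26) (nat_lit 5) (nat_lit 335) (nat_lit 308) (nat_lit 137)) (XT.lf (nat_lit 0) (nat_lit 333091416642) (nat_lit 228) (nat_lit 34782756097) (nat_lit 76) (nat_lit 259133259366) (nat_lit 25) (nat_lit 5) (nat_lit 28) (nat_lit 5) (nat_lit 26) (nat_lit 5) (nat_lit 336) (nat_lit 308) (nat_lit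 136))) (XT.nd (nat_lit 78) (nat_lit 152) (nat_lit 0) (XT.lf (nat_lit 0) (nat_lit 397075814357) (nat_lit 152) (nat_lit 123043569114) (nat_lit 228) (nat_lit 143680862178) (nat_lit 23) (nat_lit 5) (nat_lit 25) (nat_lit 5) (nat_lit 26) (nat_lit 5) (nat_lit 337) (nat_lit 308) (nat_lit 135)) (XT.nd (nat_lit 78) (nat_lit 0) (nat_lit 0) (XT.lf (nat_lit 0) (nat_lit 23454505443) (nat_lit 152) (nat_lit 539386412219) (nat_lit 76) (nat_lit 140407274906) (nat_lit 21) (nat_lit 5) (nat_lit 23) (nat_lit 5) (nat_lit 22) (nat_lit 5) (nat_lit 338) (nat_lit 308) (nat_lit 134)) (XT.lf (nat_lit 0) (nat_lit 205791130382) (nat_lit 152) (nat_lit 111773872462) (nat_lit 76) (nat_lit 427825985994) (nat_lit 21) (nat_lit 5) (nat_lit 23) (nat_lit 5) (nat_lit 22) (nat_lit 5) (nat_lit 339) (nat_lit 308) (nat_lit 133))))) (XT.nd (nat_lit 38376) (nat_lit 0) (nat_lit 5016) (XT.nd (nat_lit 38220) (nat_lit 0) (nat_lit 4940)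 (XT.lf (nat_lit 0) (nat_lit 361621722002) (nat_lit 152) (nat_lit 46738830782) (nat_lit 228) (nat_lit 382262362711) (nat_lit 19) (nat_lit 5) (nat_lit 21) (nat_lit 5) (nat_lit 22) (nat_lit 5) (nat_lit 340) (nat_lit 308) (nat_lit 132)) (XT.nd (nat_lit 78) (nat_lit 0) (nat_lit 0) (XT.lf (nat_lit 0) (nat_lit 33000031429) (nat_lit 0) (nat_lit 33000031429) (nat_lit 684) (nat_lit 22857817659) (nat_lit 84) (nat_lit 5) (nat_lit 84) (nat_lit 3) (nat_lit 93) (nat_lit 3) (nat_lit 309) (nat_lit 309) (nat_lit 162)) (XT.lf (nat_lit 76) (nat_lit 14712602526) (nat_lit 0) (nat_lit 123780162369) (nat_lit 760) (nat_lit 46270987843) (nat_lit 85) (nat_lit 5) (nat_lit 84) (nat_lit 5) (nat_lit 94) (nat_lit 5) (nat_lit 310) (nat_lit 309) (nat_lit 161)))) (XT.nd (nat_lit 78) (nat_lit 0) (nat_lit 0) (XT.lf (nat_lit 0) (nat_lit 148632097556) (nat_lit 684) (nat_lit 38215545591) (nat_lit 760) (nat_lit 5371577215) (nat_lit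 85) (nat_lit 5) (nat_lit 94) (nat_lit 5) (nat_lit 95) (nat_lit 5) (nat_lit 311) (nat_lit 309) (nat_lit 160)) (XT.nd (nat_lit 78) (nat_lit 0) (nat_lit 76) (XT.lf (nat_lit 76) (nat_lit 105454780458) (nat_lit 0) (nat_lit 57861121695) (nat_lit 760) (nat_lit 36768557627) (nat_lit 86) (nat_lit 5) (nat_lit 85) (nat_lit 5) (nat_lit 95) (nat_lit 5) (nat_lit 312) (nat_lit 309) (nat_lit 159)) (XT.lf (nat_lit 76) (nat_lit 53879573187) (nat_lit 0) (nat_lit 128083966690) (nat_lit 760) (nat_lit 26475922639) (nat_lit 87) (nat_lit 5) (nat_lit 86) (nat_lit 5) (nat_lit 96) (nat_lit 5) (nat_lit 313) (nat_lit 309) (nat_lit 158))))))) (XT.nd (nat_lit 858) (nat_lit 1824) (nat_lit 0) (XT.nd (nat_lit 390) (nat_lit 1596) (nat_lit 0) (XT.nd (nat_lit 156) (nat_lit 380) (nat_lit 0) (XT.nd (nat_lit 78) (nat_lit 760) (nat_lit 0) (XT.lf (nat_lit 0) (nat_lit 204897296544) (nat_lit 684) (nat_lit 878038708) (nat_lit 760)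 (nat_lit 11547815383) (nat_lit 87) (nat_lit 5) (nat_lit 96) (nat_lit 5) (nat_lit 97) (nat_lit 5) (nat_lit 314) (nat_lit 309) (nat_lit 157)) (XT.lf (nat_lit 0) (nat_lit 7526288608) (nat_lit 760) (nat_lit 58473614978) (nat_lit 836) (nat_lit 160672183895) (nat_lit 77) (nat_lit 5) (nat_lit 87) (nat_lit 5) (nat_lit 88) (nat_lit 5) (nat_lit 315) (nat_lit 309) (nat_lit 156))) (XT.nd (nat_lit 78) (nat_lit 456) (nat_lit 0) (XT.lf (nat_lit 0) (nat_lit 31856993214) (nat_lit 760) (nat_lit 120407226851) (nat_lit 76) (nat_lit 84333647946) (nat_lit 78) (nat_lit 5) (nat_lit 88) (nat_lit 5) (nat_lit 79) (nat_lit 5) (nat_lit 316) (nat_lit 309) (nat_lit 155)) (XT.nd (nat_lit 78) (nat_lit 0) (nat_lit 0) (XT.lf (nat_lit 0) (nat_lit 60454493211) (nat_lit 456) (nat_lit 771474096) (nat_lit 532) (nat_lit 185937153441) (nat_lit 72) (nat_lit 5) (nat_lit 78) (nat_lit 5) (nat_lit 79) (nat_lit 5) (nat_lit 317) (nat_lit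 309) (nat_lit 154)) (XT.lf (nat_lit 0) (nat_lit 97618470920) (nat_lit 532) (nat_lit 960835047) (nat_lit 76) (nat_lit 159760587549) (nat_lit 72) (nat_lit 5) (nat_lit 79) (nat_lit 5) (nat_lit 73) (nat_lit 5) (nat_lit 318) (nat_lit 309) (nat_lit 153))))) (XT.nd (nat_lit 234) (nat_lit 608) (nat_lit 0) (XT.nd (nat_lit 78) (nat_lit 608) (nat_lit 0) (XT.lf (nat_lit 0) (nat_lit 141186788826) (nat_lit 456) (nat_lit 65046463168) (nat_lit 76) (nat_lit 63964335775) (nat_lit 67) (nat_lit 5) (nat_lit 73) (nat_lit 5) (nat_lit 68) (nat_lit 5) (nat_lit 319) (nat_lit 309) (nat_lit 152)) (XT.nd (nat_lit 78) (nat_lit 304) (nat_lit 0) (XT.lf (nat_lit 0) (nat_lit 147852833418) (nat_lit 304) (nat_lit 44375210791) (nat_lit 380) (nat_lit 90576480085) (nat_lit 63) (nat_lit 5) (nat_lit 67) (nat_lit 5) (nat_lit 68) (nat_lit 5) (nat_lit 320) (nat_lit 309) (nat_lit 151)) (XT.lf (nat_lit 0) (nat_lit 84389338773) (nat_lit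 304) (nat_lit 167468704189) (nat_lit 380) (nat_lit 44336700942) (nat_lit 59) (nat_lit 5) (nat_lit 63) (nat_lit 5) (nat_lit 64) (nat_lit 5) (nat_lit 321) (nat_lit 309) (nat_lit 150)))) (XT.nd (nat_lit 78) (nat_lit 304) (nat_lit 0) (XT.lf (nat_lit 0) (nat_lit 8896678786) (nat_lit 304) (nat_lit 295413402451) (nat_lit 76) (nat_lit 6168040492) (nat_lit 55) (nat_lit 5) (nat_lit 59) (nat_lit 5) (nat_lit 56) (nat_lit 5) (nat_lit 322) (nat_lit 309) (nat_lit 149)) (XT.nd (nat_lit 78) (nat_lit 304) (nat_lit 0) (XT.lf (nat_lit 0) (nat_lit 71429839118) (nat_lit 304) (nat_lit 61703815888) (nat_lit 76) (nat_lit 192404450855) (nat_lit 55) (nat_lit 5) (nat_lit 59) (nat_lit 5) (nat_lit 56) (nat_lit 5) (nat_lit 323) (nat_lit 309) (nat_lit 148)) (XT.lf (nat_lit 0) (nat_lit 142899548605) (nat_lit 380) (nat_lit 145499420463) (nat_lit 76) (nat_lit 53207225076) (nat_lit 51) (nat_lit 5) (nat_lit 56) (nat_lit 5)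 (nat_lit 52) (nat_lit 5) (nat_lit 324) (nat_lit 309) (nat_lit 147)))))) (XT.nd (nat_lit 390) (nat_lit 836) (nat_lit 0) (XT.nd (nat_lit 156) (nat_lit 532) (nat_lit 0) (XT.nd (nat_lit 78) (nat_lit 228) (nat_lit 0) (XT.lf (nat_lit 0) (nat_lit 119398491823) (nat_lit 228) (nat_lit 105889702987) (nat_lit 304) (nat_lit 133411466898) (nat_lit 48) (nat_lit 5) (nat_lit 51) (nat_lit 5) (nat_lit 52) (nat_lit 5) (nat_lit 325) (nat_lit 309) (nat_lit 146)) (XT.lf (nat_lit 0) (nat_lit 33248340030) (nat_lit 228) (nat_lit 285538835898) (nat_lit 304) (nat_lit 58147468790) (nat_lit 45) (nat_lit 5) (nat_lit 48) (nat_lit 5) (nat_lit 49) (nat_lit 5) (nat_lit 326) (nat_lit 309) (nat_lit 145))) (XT.nd (nat_lit 78) (nat_lit 456) (nat_lit 0) (XT.lf (nat_lit 0) (nat_lit 28419289199) (nat_lit 304) (nat_lit 62488048326) (nat_lit 76) (nat_lit 305401917378) (nat_lit 44) (nat_lit 5) (nat_lit 48) (nat_lit 5) (nat_lit 45)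 (nat_lit 5) (nat_lit 327) (nat_lit 309) (nat_lit 144)) (XT.nd (nat_lit 78) (nat_lit 228) (nat_lit 0) (XT.lf (nat_lit 0) (nat_lit 125718034593) (nat_lit 304) (nat_lit 170764805826) (nat_lit 76) (nat_lit 120411139249) (nat_lit 41) (nat_lit 5) (nat_lit 45) (nat_lit 5) (nat_lit 42) (nat_lit 5) (nat_lit 328) (nat_lit 309) (nat_lit 143)) (XT.lf (nat_lit 0) (nat_lit 145708892813) (nat_lit 228) (nat_lit 90005821755) (nat_lit 304) (nat_lit 203165066249) (nat_lit 38) (nat_lit 5) (nat_lit 41) (nat_lit 5) (nat_lit 42) (nat_lit 5) (nat_lit 329) (nat_lit 309) (nat_lit 142))))) (XT.nd (nat_lit 234) (nat_lit 380) (nat_lit 0) (XT.nd (nat_lit 78) (nat_lit 304) (nat_lit 0) (XT.lf (nat_lit 0) (nat_lit 29956278956) (nat_lit 152) (nat_lit 330122170817) (nat_lit 228) (nat_lit 102267630384) (nat_lit 36) (nat_lit 5) (nat_lit 38) (nat_lit 5) (nat_lit 39) (nat_lit 5) (nat_lit 330) (nat_lit 309) (nat_lit 141)) (XT.nd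 (nat_lit 78) (nat_lit 228) (nat_lit 0) (XT.lf (nat_lit 0) (nat_lit 13195245632) (nat_lit 228) (nat_lit 99737829662) (nat_lit 76) (nat_lit 374415969820) (nat_lit 35) (nat_lit 5) (nat_lit 38) (nat_lit 5) (nat_lit 36) (nat_lit 5) (nat_lit 331) (nat_lit 309) (nat_lit 140)) (XT.lf (nat_lit 0) (nat_lit 140513538559) (nat_lit 304) (nat_lit 249727715870) (nat_lit 76) (nat_lit 123717099704) (nat_lit 32) (nat_lit 5) (nat_lit 36) (nat_lit 5) (nat_lit 33) (nat_lit 5) (nat_lit 332) (nat_lit 309) (nat_lit 139)))) (XT.nd (nat_lit 78) (nat_lit 228) (nat_lit 0) (XT.lf (nat_lit 0) (nat_lit 120182375281) (nat_lit 152) (nat_lit 163381331105) (nat_lit 228) (nat_lit 258855381022) (nat_lit 30) (nat_lit 5) (nat_lit 32) (nat_lit 5) (nat_lit 33) (nat_lit 5) (nat_lit 333) (nat_lit 309) (nat_lit 138)) (XT.nd (nat_lit 78) (nat_lit 228) (nat_lit 0) (XT.lf (nat_lit 0) (nat_lit 443753651868) (nat_lit 228) (nat_lit 45682069731)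 (nat_lit 76) (nat_lit 83436169633) (nat_lit 30) (nat_lit 5) (nat_lit 33) (nat_lit 5) (nat_lit 31) (nat_lit 5) (nat_lit 334) (nat_lit 309) (nat_lit 137)) (XT.lf (nat_lit 0) (nat_lit 19318689211) (nat_lit 228) (nat_lit 235558843218) (nat_lit 76) (nat_lit 350441160828) (nat_lit 27) (nat_lit 5) (nat_lit 30) (nat_lit 5) (nat_lit 28) (nat_lit 5) (nat_lit 335) (nat_lit 309) (nat_lit 136))))))))
noncomputable def xc120 : XT := (XT.nd (nat_lit 39858) (nat_lit 0) (nat_lit 0) (XT.nd (nat_lit 39000) (nat_lit 0) (nat_lit 2280) (XT.nd (nat_lit 38610) (nat_lit 0) (nat_lit 4788) (XT.nd (nat_lit 156) (nat_lit 304) (nat_lit 0) (XT.nd (nat_lit 78) (nat_lit 0) (nat_lit 0) (XT.lf (nat_lit 0) (nat_lit 178911544706) (nat_lit 228) (nat_lit 456712913199) (nat_lit 76) (nat_lit 4440714657) (nat_lit 25) (nat_lit 5) (nat_lit 28) (nat_lit 5) (nat_lit 26) (nat_lit 5) (nat_lit 336) (nat_lit 309) (nat_lit 135)) (XT.lf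 (nat_lit 0) (nat_lit 359740013636) (nat_lit 228) (nat_lit 37563299769) (nat_lit 76) (nat_lit 279864647631) (nat_lit 25) (nat_lit 5) (nat_lit 28) (nat_lit 5) (nat_lit 26) (nat_lit 5) (nat_lit 337) (nat_lit 309) (nat_lit 134))) (XT.nd (nat_lit 78) (nat_lit 152) (nat_lit 0) (XT.lf (nat_lit 0) (nat_lit 428843866065) (nat_lit 152) (nat_lit 132886287676) (nat_lit 228) (nat_lit 155174049233) (nat_lit 23) (nat_lit 5) (nat_lit 25) (nat_lit 5) (nat_lit 26) (nat_lit 5) (nat_lit 338) (nat_lit 309) (nat_lit 133)) (XT.nd (nat_lit 78) (nat_lit 0) (nat_lit 0) (XT.lf (nat_lit 0) (nat_lit 25332057038) (nat_lit 152) (nat_lit 582535336234) (nat_lit 76) (nat_lit 151640593956) (nat_lit 21) (nat_lit 5) (nat_lit 23) (nat_lit 5) (nat_lit 22) (nat_lit 5) (nat_lit 339) (nat_lit 309) (nat_lit 132)) (XT.lf (nat_lit 0) (nat_lit 222255523738) (nat_lit 152) (nat_lit 120713940627) (nat_lit 76) (nat_lit 462052747334) (nat_lit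 21) (nat_lit 5) (nat_lit 23) (nat_lit 5) (nat_lit 22) (nat_lit 5) (nat_lit 340) (nat_lit 309) (nat_lit 131))))) (XT.nd (nat_lit 156) (nat_lit 0) (nat_lit 76) (XT.nd (nat_lit 78) (nat_lit 0) (nat_lit 0) (XT.lf (nat_lit 0) (nat_lit 35641511441) (nat_lit 0) (nat_lit 35641511441) (nat_lit 684) (nat_lit 24683333464) (nat_lit 84) (nat_lit 5) (nat_lit 84) (nat_lit 3) (nat_lit 93) (nat_lit 3) (nat_lit 310) (nat_lit 310) (nat_lit 160)) (XT.lf (nat_lit 76) (nat_lit 15892777222) (nat_lit 0) (nat_lit 133684887795) (nat_lit 760) (nat_lit 49966901282) (nat_lit 85) (nat_lit 5) (nat_lit 84) (nat_lit 5) (nat_lit 94) (nat_lit 5) (nat_lit 311) (nat_lit 310) (nat_lit 159))) (XT.nd (nat_lit 78) (nat_lit 0) (nat_lit 0) (XT.lf (nat_lit 0) (nat_lit 160527705015) (nat_lit 684) (nat_lit 41269558446) (nat_lit 760) (nat_lit 5799230777) (nat_lit 85) (nat_lit 5) (nat_lit 94) (nat_lit 5) (nat_lit 95) (nat_lit 5) (nat_lit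 312) (nat_lit 310) (nat_lit 158)) (XT.nd (nat_lit 78) (nat_lit 0) (nat_lit 76) (XT.lf (nat_lit 76) (nat_lit 113894253280) (nat_lit 0) (nat_lit 62491635641) (nat_lit 760) (nat_lit 39705081013) (nat_lit 86) (nat_lit 5) (nat_lit 85) (nat_lit 5) (nat_lit 95) (nat_lit 5) (nat_lit 313) (nat_lit 310) (nat_lit 157)) (XT.lf (nat_lit 76) (nat_lit 58193155290) (nat_lit 0) (nat_lit 138331859879) (nat_lit 760) (nat_lit 28589374653) (nat_lit 87) (nat_lit 5) (nat_lit 86) (nat_lit 5) (nat_lit 96) (nat_lit 5) (nat_lit 314) (nat_lit 310) (nat_lit 156)))))) (XT.nd (nat_lit 390) (nat_lit 1596) (nat_lit 0) (XT.nd (nat_lit 156) (nat_lit 380) (nat_lit 0) (XT.nd (nat_lit 78) (nat_lit 760) (nat_lit 0) (XT.lf (nat_lit 0) (nat_lit 221293130030) (nat_lit 684) (nat_lit 945074118) (nat_lit 760) (nat_lit 12470586706) (nat_lit 87) (nat_lit 5) (nat_lit 96) (nat_lit 5) (nat_lit 97) (nat_lit 5) (nat_lit 315) (nat_lit 310)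 (nat_lit 155)) (XT.lf (nat_lit 0) (nat_lit 8132260013) (nat_lit 760) (nat_lit 63148299748) (nat_lit 836) (nat_lit 173525093063) (nat_lit 77) (nat_lit 5) (nat_lit 87) (nat_lit 5) (nat_lit 88) (nat_lit 5) (nat_lit 316) (nat_lit 310) (nat_lit 154))) (XT.nd (nat_lit 78) (nat_lit 456) (nat_lit 0) (XT.lf (nat_lit 0) (nat_lit 34409173488) (nat_lit 760) (nat_lit 130036541908) (nat_lit 76) (nat_lit 91079793386) (nat_lit 78) (nat_lit 5) (nat_lit 88) (nat_lit 5) (nat_lit 79) (nat_lit 5) (nat_lit 317) (nat_lit 310) (nat_lit 153)) (XT.nd (nat_lit 78) (nat_lit 0) (nat_lit 0) (XT.lf (nat_lit 0) (nat_lit 65293973949) (nat_lit 456) (nat_lit 833472083) (nat_lit 532) (nat_lit 200808547245) (nat_lit 72) (nat_lit 5) (nat_lit 78) (nat_lit 5) (nat_lit 79) (nat_lit 5) (nat_lit 318) (nat_lit 310) (nat_lit 152)) (XT.lf (nat_lit 0) (nat_lit 105431093934) (nat_lit 532) (nat_lit 1034643718) (nat_lit 76) (nat_lit 172541183539)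 (nat_lit 72) (nat_lit 5) (nat_lit 79) (nat_lit 5) (nat_lit 73) (nat_lit 5) (nat_lit 319) (nat_lit 310) (nat_lit 151))))) (XT.nd (nat_lit 234) (nat_lit 608) (nat_lit 0) (XT.nd (nat_lit 78) (nat_lit 608) (nat_lit 0) (XT.lf (nat_lit 0) (nat_lit 152484689443) (nat_lit 456) (nat_lit 70247100522) (nat_lit 76) (nat_lit 69081450894) (nat_lit 67) (nat_lit 5) (nat_lit 73) (nat_lit 5) (nat_lit 68) (nat_lit 5) (nat_lit 320) (nat_lit 310) (nat_lit 150)) (XT.nd (nat_lit 78) (nat_lit 304) (nat_lit 0) (XT.lf (nat_lit 0) (nat_lit 159684005951) (nat_lit 304) (nat_lit 47925066224) (nat_lit 380) (nat_lit 97819669233) (nat_lit 63) (nat_lit 5) (nat_lit 67) (nat_lit 5) (nat_lit 68) (nat_lit 5) (nat_lit 321) (nat_lit 310) (nat_lit 149)) (XT.lf (nat_lit 0) (nat_lit 91143439835) (nat_lit 304) (nat_lit 180865873193) (nat_lit 380) (nat_lit 47880873865) (nat_lit 59) (nat_lit 5) (nat_lit 63) (nat_lit 5) (nat_lit 64)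 (nat_lit 5) (nat_lit 322) (nat_lit 310) (nat_lit 148)))) (XT.nd (nat_lit 78) (nat_lit 304) (nat_lit 0) (XT.lf (nat_lit 0) (nat_lit 9610941319) (nat_lit 304) (nat_lit 319043435187) (nat_lit 76) (nat_lit 6661863971) (nat_lit 55) (nat_lit 5) (nat_lit 59) (nat_lit 5) (nat_lit 56) (nat_lit 5) (nat_lit 323) (nat_lit 310) (nat_lit 147)) (XT.nd (nat_lit 78) (nat_lit 304) (nat_lit 0) (XT.lf (nat_lit 0) (nat_lit 77146567202) (nat_lit 304) (nat_lit 66637306844) (nat_lit 76) (nat_lit 207797158998) (nat_lit 55) (nat_lit 5) (nat_lit 59) (nat_lit 5) (nat_lit 56) (nat_lit 5) (nat_lit 324) (nat_lit 310) (nat_lit 146)) (XT.lf (nat_lit 0) (nat_lit 154333729606) (nat_lit 380) (nat_lit 157136575219) (nat_lit 76) (nat_lit 57464270070) (nat_lit 51) (nat_lit 5) (nat_lit 56) (nat_lit 5) (nat_lit 52) (nat_lit 5) (nat_lit 325) (nat_lit 310) (nat_lit 145))))))) (XT.nd (nat_lit 780) (nat_lit 684) (nat_lit 0) (XT.nd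 (nat_lit 390) (nat_lit 608) (nat_lit 0) (XT.nd (nat_lit 156) (nat_lit 532) (nat_lit 0) (XT.nd (nat_lit 78) (nat_lit 228) (nat_lit 0) (XT.lf (nat_lit 0) (nat_lit 128953048414) (nat_lit 228) (nat_lit 114360296662) (nat_lit 304) (nat_lit 144082181201) (nat_lit 48) (nat_lit 5) (nat_lit 51) (nat_lit 5) (nat_lit 52) (nat_lit 5) (nat_lit 326) (nat_lit 310) (nat_lit 144)) (XT.lf (nat_lit 0) (nat_lit 35910863086) (nat_lit 228) (nat_lit 308381276322) (nat_lit 304) (nat_lit 62797174052) (nat_lit 45) (nat_lit 5) (nat_lit 48) (nat_lit 5) (nat_lit 49) (nat_lit 5) (nat_lit 327) (nat_lit 310) (nat_lit 143))) (XT.nd (nat_lit 78) (nat_lit 456) (nat_lit 0) (XT.lf (nat_lit 0) (nat_lit 30694707592) (nat_lit 304) (nat_lit 67484568096) (nat_lit 76) (nat_lit 329834622877) (nat_lit 44) (nat_lit 5) (nat_lit 48) (nat_lit 5) (nat_lit 45) (nat_lit 5) (nat_lit 328) (nat_lit 310) (nat_lit 142)) (XT.nd (nat_lit 78) (nat_lit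 228) (nat_lit 0) (XT.lf (nat_lit 0) (nat_lit 135777261402) (nat_lit 304) (nat_lit 184423494437) (nat_lit 76) (nat_lit 130044650251) (nat_lit 41) (nat_lit 5) (nat_lit 45) (nat_lit 5) (nat_lit 42) (nat_lit 5) (nat_lit 329) (nat_lit 310) (nat_lit 141)) (XT.lf (nat_lit 0) (nat_lit 157367991625) (nat_lit 228) (nat_lit 97205589272) (nat_lit 304) (nat_lit 219416495382) (nat_lit 38) (nat_lit 5) (nat_lit 41) (nat_lit 5) (nat_lit 42) (nat_lit 5) (nat_lit 330) (nat_lit 310) (nat_lit 140))))) (XT.nd (nat_lit 156) (nat_lit 380) (nat_lit 0) (XT.nd (nat_lit 78) (nat_lit 76) (nat_lit 0) (XT.lf (nat_lit 0) (nat_lit 32355137701) (nat_lit 152) (nat_lit 356531198979) (nat_lit 228) (nat_lit 110447346987) (nat_lit 36) (nat_lit 5) (nat_lit 38) (nat_lit 5) (nat_lit 39) (nat_lit 5) (nat_lit 331) (nat_lit 310) (nat_lit 139)) (XT.lf (nat_lit 0) (nat_lit 14252383444) (nat_lit 228) (nat_lit 107714621882) (nat_lit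 76) (nat_lit 404369885412) (nat_lit 35) (nat_lit 5) (nat_lit 38) (nat_lit 5) (nat_lit 36) (nat_lit 5) (nat_lit 332) (nat_lit 310) (nat_lit 138))) (XT.nd (nat_lit 78) (nat_lit 152) (nat_lit 0) (XT.lf (nat_lit 0) (nat_lit 151756071612) (nat_lit 304) (nat_lit 269703733101) (nat_lit 76) (nat_lit 133615143329) (nat_lit 32) (nat_lit 5) (nat_lit 36) (nat_lit 5) (nat_lit 33) (nat_lit 5) (nat_lit 333) (nat_lit 310) (nat_lit 137)) (XT.nd (nat_lit 78) (nat_lit 0) (nat_lit 0) (XT.lf (nat_lit 0) (nat_lit 129799069732) (nat_lit 152) (nat_lit 176451108585) (nat_lit 228) (nat_lit 279562365533) (nat_lit 30) (nat_lit 5) (nat_lit 32) (nat_lit 5) (nat_lit 33) (nat_lit 5) (nat_lit 334) (nat_lit 310) (nat_lit 136)) (XT.lf (nat_lit 0) (nat_lit 479255228093) (nat_lit 228) (nat_lit 49334631978) (nat_lit 76) (nat_lit 90111716607) (nat_lit 30) (nat_lit 5) (nat_lit 33) (nat_lit 5) (nat_lit 31) (nat_lit 5) (nat_lit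 335) (nat_lit 310) (nat_lit 135)))))) (XT.nd (nat_lit 38688) (nat_lit 0) (nat_lit 4788) (XT.nd (nat_lit 156) (nat_lit 304) (nat_lit 0) (XT.nd (nat_lit 78) (nat_lit 152) (nat_lit 0) (XT.lf (nat_lit 0) (nat_lit 20865424684) (nat_lit 228) (nat_lit 254401591941) (nat_lit 76) (nat_lit 378477108621) (nat_lit 27) (nat_lit 5) (nat_lit 30) (nat_lit 5) (nat_lit 28) (nat_lit 5) (nat_lit 336) (nat_lit 310) (nat_lit 134)) (XT.lf (nat_lit 0) (nat_lit 193225656859) (nat_lit 228) (nat_lit 493248023277) (nat_lit 76) (nat_lit 4796645455) (nat_lit 25) (nat_lit 5) (nat_lit 28) (nat_lit 5) (nat_lit 26) (nat_lit 5) (nat_lit 337) (nat_lit 310) (nat_lit 133))) (XT.nd (nat_lit 78) (nat_lit 304) (nat_lit 0) (XT.lf (nat_lit 0) (nat_lit 388520315261) (nat_lit 228) (nat_lit 40566583215) (nat_lit 76) (nat_lit 302254443169) (nat_lit 25) (nat_lit 5) (nat_lit 28) (nat_lit 5) (nat_lit 26) (nat_lit 5) (nat_lit 338) (nat_lit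 310) (nat_lit 132)) (XT.nd (nat_lit 78) (nat_lit 152) (nat_lit 0) (XT.lf (nat_lit 0) (nat_lit 463153078506) (nat_lit 152) (nat_lit 143516533139) (nat_lit 228) (nat_lit 167586874133) (nat_lit 23) (nat_lit 5) (nat_lit 25) (nat_lit 5) (nat_lit 26) (nat_lit 5) (nat_lit 339) (nat_lit 310) (nat_lit 131)) (XT.lf (nat_lit 0) (nat_lit 27359642829) (nat_lit 152) (nat_lit 629136457918) (nat_lit 76) (nat_lit 163772473381) (nat_lit 21) (nat_lit 5) (nat_lit 23) (nat_lit 5) (nat_lit 22) (nat_lit 5) (nat_lit 340) (nat_lit 310) (nat_lit 130))))) (XT.nd (nat_lit 234) (nat_lit 0) (nat_lit 76) (XT.nd (nat_lit 78) (nat_lit 0) (nat_lit 0) (XT.lf (nat_lit 0) (nat_lit 38494099071) (nat_lit 0) (nat_lit 38494099071) (nat_lit 684) (nat_lit 26655334154) (nat_lit 84) (nat_lit 5) (nat_lit 84) (nat_lit 3) (nat_lit 93) (nat_lit 3) (nat_lit 311) (nat_lit 311) (nat_lit 158)) (XT.nd (nat_lit 78) (nat_lit 0) (nat_lit 76)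 (XT.lf (nat_lit 76) (nat_lit 17166914157) (nat_lit 0) (nat_lit 144381661361) (nat_lit 760) (nat_lit 53959310322) (nat_lit 85) (nat_lit 5) (nat_lit 84) (nat_lit 5) (nat_lit 94) (nat_lit 5) (nat_lit 312) (nat_lit 311) (nat_lit 157)) (XT.lf (nat_lit 0) (nat_lit 173374242107) (nat_lit 684) (nat_lit 44568353239) (nat_lit 760) (nat_lit 6261392305) (nat_lit 85) (nat_lit 5) (nat_lit 94) (nat_lit 5) (nat_lit 95) (nat_lit 5) (nat_lit 313) (nat_lit 311) (nat_lit 156)))) (XT.nd (nat_lit 78) (nat_lit 0) (nat_lit 76) (XT.lf (nat_lit 76) (nat_lit 123008443050) (nat_lit 0) (nat_lit 67492358992) (nat_lit 760) (nat_lit 42877234044) (nat_lit 86) (nat_lit 5) (nat_lit 85) (nat_lit 5) (nat_lit 95) (nat_lit 5) (nat_lit 314) (nat_lit 311) (nat_lit 155)) (XT.nd (nat_lit 78) (nat_lit 0) (nat_lit 76) (XT.lf (nat_lit 76) (nat_lit 62851365126) (nat_lit 0) (nat_lit 149399416775) (nat_lit 760) (nat_lit 30872562179)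 (nat_lit 87) (nat_lit 5) (nat_lit 86) (nat_lit 5) (nat_lit 96) (nat_lit 5) (nat_lit 315) (nat_lit 311) (nat_lit 154)) (XT.lf (nat_lit 0) (nat_lit 239000052451) (nat_lit 684) (nat_lit 1017929973) (nat_lit 760) (nat_lit 13467330087) (nat_lit 87) (nat_lit 5) (nat_lit 96) (nat_lit 5) (nat_lit 97) (nat_lit 5) (nat_lit 316) (nat_lit 311) (nat_lit 153))))))))
noncomputable def xc121 : XT := (XT.nd (nat_lit 1638) (nat_lit 304) (nat_lit 0) (XT.nd (nat_lit 780) (nat_lit 1824) (nat_lit 0) (XT.nd (nat_lit 390) (nat_lit 1216) (nat_lit 0) (XT.nd (nat_lit 156) (nat_lit 760) (nat_lit 0) (XT.nd (nat_lit 78) (nat_lit 0) (nat_lit 76) (XT.lf (nat_lit 0) (nat_lit 8786157271) (nat_lit 760) (nat_lit 68197416448) (nat_lit 836) (nat_lit 187406358445) (nat_lit 77) (nat_lit 5) (nat_lit 87) (nat_lit 5) (nat_lit 88) (nat_lit 5) (nat_lit 317) (nat_lit 311) (nat_lit 152)) (XT.lf (nat_lit 0) (nat_lit 37165011633) (nat_lit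 760) (nat_lit 140436667687) (nat_lit 76) (nat_lit 98365708410) (nat_lit 78) (nat_lit 5) (nat_lit 88) (nat_lit 5) (nat_lit 79) (nat_lit 5) (nat_lit 318) (nat_lit 311) (nat_lit 151))) (XT.nd (nat_lit 78) (nat_lit 380) (nat_lit 0) (XT.lf (nat_lit 0) (nat_lit 70520167860) (nat_lit 456) (nat_lit 900389956) (nat_lit 532) (nat_lit 216870163063) (nat_lit 72) (nat_lit 5) (nat_lit 78) (nat_lit 5) (nat_lit 79) (nat_lit 5) (nat_lit 319) (nat_lit 311) (nat_lit 150)) (XT.nd (nat_lit 78) (nat_lit 380) (nat_lit 0) (XT.lf (nat_lit 0) (nat_lit 113868278071) (nat_lit 532) (nat_lit 1114793359) (nat_lit 76) (nat_lit 186344263017) (nat_lit 72) (nat_lit 5) (nat_lit 79) (nat_lit 5) (nat_lit 73) (nat_lit 5) (nat_lit 320) (nat_lit 311) (nat_lit 149)) (XT.lf (nat_lit 0) (nat_lit 164686000188) (nat_lit 456) (nat_lit 75864228218) (nat_lit 76) (nat_lit 74607939751) (nat_lit 67) (nat_lit 5) (nat_lit 73) (nat_lit 5)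 (nat_lit 68) (nat_lit 5) (nat_lit 321) (nat_lit 311) (nat_lit 148))))) (XT.nd (nat_lit 156) (nat_lit 608) (nat_lit 0) (XT.nd (nat_lit 78) (nat_lit 304) (nat_lit 0) (XT.lf (nat_lit 0) (nat_lit 172461252027) (nat_lit 304) (nat_lit 51758933122) (nat_lit 380) (nat_lit 105642731404) (nat_lit 63) (nat_lit 5) (nat_lit 67) (nat_lit 5) (nat_lit 68) (nat_lit 5) (nat_lit 322) (nat_lit 311) (nat_lit 147)) (XT.lf (nat_lit 0) (nat_lit 98437447567) (nat_lit 304) (nat_lit 195334862414) (nat_lit 380) (nat_lit 51708974816) (nat_lit 59) (nat_lit 5) (nat_lit 63) (nat_lit 5) (nat_lit 64) (nat_lit 5) (nat_lit 323) (nat_lit 311) (nat_lit 146))) (XT.nd (nat_lit 78) (nat_lit 304) (nat_lit 0) (XT.lf (nat_lit 0) (nat_lit 10381984175) (nat_lit 304) (nat_lit 344564304154) (nat_lit 76) (nat_lit 7195139083) (nat_lit 55) (nat_lit 5) (nat_lit 59) (nat_lit 5) (nat_lit 56) (nat_lit 5) (nat_lit 324) (nat_lit 311) (nat_lit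 145)) (XT.nd (nat_lit 78) (nat_lit 304) (nat_lit 0) (XT.lf (nat_lit 0) (nat_lit 83320299568) (nat_lit 304) (nat_lit 71965878571) (nat_lit 76) (nat_lit 224421233565) (nat_lit 55) (nat_lit 5) (nat_lit 59) (nat_lit 5) (nat_lit 56) (nat_lit 5) (nat_lit 325) (nat_lit 311) (nat_lit 144)) (XT.lf (nat_lit 0) (nat_lit 166682328790) (nat_lit 380) (nat_lit 169705101648) (nat_lit 76) (nat_lit 62061812043) (nat_lit 51) (nat_lit 5) (nat_lit 56) (nat_lit 5) (nat_lit 52) (nat_lit 5) (nat_lit 326) (nat_lit 311) (nat_lit 143)))))) (XT.nd (nat_lit 390) (nat_lit 836) (nat_lit 0) (XT.nd (nat_lit 156) (nat_lit 532) (nat_lit 0) (XT.nd (nat_lit 78) (nat_lit 228) (nat_lit 0) (XT.lf (nat_lit 0) (nat_lit 139271587593) (nat_lit 228) (nat_lit 123508620940) (nat_lit 304) (nat_lit 155606866938) (nat_lit 48) (nat_lit 5) (nat_lit 51) (nat_lit 5) (nat_lit 52) (nat_lit 5) (nat_lit 327) (nat_lit 311) (nat_lit 142)) (XT.lf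 (nat_lit 0) (nat_lit 38786009100) (nat_lit 228) (nat_lit 333051207056) (nat_lit 304) (nat_lit 67819154216) (nat_lit 45) (nat_lit 5) (nat_lit 48) (nat_lit 5) (nat_lit 49) (nat_lit 5) (nat_lit 328) (nat_lit 311) (nat_lit 141))) (XT.nd (nat_lit 78) (nat_lit 456) (nat_lit 0) (XT.lf (nat_lit 0) (nat_lit 33151891929) (nat_lit 304) (nat_lit 72881169539) (nat_lit 76) (nat_lit 356221866052) (nat_lit 44) (nat_lit 5) (nat_lit 48) (nat_lit 5) (nat_lit 45) (nat_lit 5) (nat_lit 329) (nat_lit 311) (nat_lit 140)) (XT.nd (nat_lit 78) (nat_lit 228) (nat_lit 0) (XT.lf (nat_lit 0) (nat_lit 146640971843) (nat_lit 304) (nat_lit 199175234200) (nat_lit 76) (nat_lit 140448753704) (nat_lit 41) (nat_lit 5) (nat_lit 45) (nat_lit 5) (nat_lit 42) (nat_lit 5) (nat_lit 330) (nat_lit 311) (nat_lit 139)) (XT.lf (nat_lit 0) (nat_lit 169959477755) (nat_lit 228) (nat_lit 104981437800) (nat_lit 304) (nat_lit 236968292236)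 (nat_lit 38) (nat_lit 5) (nat_lit 41) (nat_lit 5) (nat_lit 42) (nat_lit 5) (nat_lit 331) (nat_lit 311) (nat_lit 138))))) (XT.nd (nat_lit 234) (nat_lit 380) (nat_lit 0) (XT.nd (nat_lit 78) (nat_lit 304) (nat_lit 0) (XT.lf (nat_lit 0) (nat_lit 34945568975) (nat_lit 152) (nat_lit 385053055749) (nat_lit 228) (nat_lit 119281682562) (nat_lit 36) (nat_lit 5) (nat_lit 38) (nat_lit 5) (nat_lit 39) (nat_lit 5) (nat_lit 332) (nat_lit 311) (nat_lit 137)) (XT.nd (nat_lit 78) (nat_lit 228) (nat_lit 0) (XT.lf (nat_lit 0) (nat_lit 15393875698) (nat_lit 228) (nat_lit 116329876206) (nat_lit 76) (nat_lit 436720023232) (nat_lit 35) (nat_lit 5) (nat_lit 38) (nat_lit 5) (nat_lit 36) (nat_lit 5) (nat_lit 333) (nat_lit 311) (nat_lit 136)) (XT.lf (nat_lit 0) (nat_lit 163897800455) (nat_lit 304) (nat_lit 291278145570) (nat_lit 76) (nat_lit 144304934056) (nat_lit 32) (nat_lit 5) (nat_lit 36) (nat_lit 5) (nat_lit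 33) (nat_lit 5) (nat_lit 334) (nat_lit 311) (nat_lit 135)))) (XT.nd (nat_lit 78) (nat_lit 228) (nat_lit 0) (XT.lf (nat_lit 0) (nat_lit 140184799518) (nat_lit 152) (nat_lit 190566572264) (nat_lit 228) (nat_lit 301926115088) (nat_lit 30) (nat_lit 5) (nat_lit 32) (nat_lit 5) (nat_lit 33) (nat_lit 5) (nat_lit 335) (nat_lit 311) (nat_lit 134)) (XT.nd (nat_lit 78) (nat_lit 228) (nat_lit 0) (XT.lf (nat_lit 0) (nat_lit 517596747228) (nat_lit 228) (nat_lit 53279685002) (nat_lit 76) (nat_lit 97321214124) (nat_lit 30) (nat_lit 5) (nat_lit 33) (nat_lit 5) (nat_lit 31) (nat_lit 5) (nat_lit 336) (nat_lit 311) (nat_lit 133)) (XT.lf (nat_lit 0) (nat_lit 22535722048) (nat_lit 228) (nat_lit 274752039996) (nat_lit 76) (nat_lit 408755838806) (nat_lit 27) (nat_lit 5) (nat_lit 30) (nat_lit 5) (nat_lit 28) (nat_lit 5) (nat_lit 337) (nat_lit 311) (nat_lit 132))))))) (XT.nd (nat_lit 39156) (nat_lit 0) (nat_lit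 1672) (XT.nd (nat_lit 38766) (nat_lit 0) (nat_lit 4104) (XT.nd (nat_lit 156) (nat_lit 152) (nat_lit 0) (XT.nd (nat_lit 78) (nat_lit 0) (nat_lit 0) (XT.lf (nat_lit 0) (nat_lit 208684728421) (nat_lit 228) (nat_lit 532706216495) (nat_lit 76) (nat_lit 5180954617) (nat_lit 25) (nat_lit 5) (nat_lit 28) (nat_lit 5) (nat_lit 26) (nat_lit 5) (nat_lit 338) (nat_lit 311) (nat_lit 131)) (XT.lf (nat_lit 0) (nat_lit 419602884013) (nat_lit 228) (nat_lit 43810383350) (nat_lit 76) (nat_lit 326435333368) (nat_lit 25) (nat_lit 5) (nat_lit 28) (nat_lit 5) (nat_lit 26) (nat_lit 5) (nat_lit 339) (nat_lit 311) (nat_lit 130))) (XT.nd (nat_lit 38454) (nat_lit 0) (nat_lit 4636) (XT.lf (nat_lit 0) (nat_lit 500206784967) (nat_lit 152) (nat_lit 154997292046) (nat_lit 228) (nat_lit 180992881815) (nat_lit 23) (nat_lit 5) (nat_lit 25) (nat_lit 5) (nat_lit 26) (nat_lit 5) (nat_lit 340) (nat_lit 311) (nat_lit 129)) (XT.nd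 (nat_lit 78) (nat_lit 0) (nat_lit 0) (XT.lf (nat_lit 0) (nat_lit 41574713001) (nat_lit 0) (nat_lit 41574713001) (nat_lit 684) (nat_lit 28785475232) (nat_lit 84) (nat_lit 5) (nat_lit 84) (nat_lit 3) (nat_lit 93) (nat_lit 3) (nat_lit 312) (nat_lit 312) (nat_lit 156)) (XT.lf (nat_lit 76) (nat_lit 18542594757) (nat_lit 0) (nat_lit 155933893980) (nat_lit 760) (nat_lit 58271817268) (nat_lit 85) (nat_lit 5) (nat_lit 84) (nat_lit 5) (nat_lit 94) (nat_lit 5) (nat_lit 313) (nat_lit 312) (nat_lit 155))))) (XT.nd (nat_lit 156) (nat_lit 608) (nat_lit 0) (XT.nd (nat_lit 78) (nat_lit 0) (nat_lit 0) (XT.lf (nat_lit 0) (nat_lit 187247885772) (nat_lit 684) (nat_lit 48131446770) (nat_lit 760) (nat_lit 6760780255) (nat_lit 85) (nat_lit 5) (nat_lit 94) (nat_lit 5) (nat_lit 95) (nat_lit 5) (nat_lit 314) (nat_lit 312) (nat_lit 154)) (XT.lf (nat_lit 76) (nat_lit 132851390019) (nat_lit 0) (nat_lit 72892941554)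 (nat_lit 760) (nat_lit 46303766119) (nat_lit 86) (nat_lit 5) (nat_lit 85) (nat_lit 5) (nat_lit 95) (nat_lit 5) (nat_lit 315) (nat_lit 312) (nat_lit 153))) (XT.nd (nat_lit 78) (nat_lit 684) (nat_lit 0) (XT.lf (nat_lit 76) (nat_lit 67881838374) (nat_lit 0) (nat_lit 161352234405) (nat_lit 760) (nat_lit 33338969994) (nat_lit 87) (nat_lit 5) (nat_lit 86) (nat_lit 5) (nat_lit 96) (nat_lit 5) (nat_lit 316) (nat_lit 312) (nat_lit 152)) (XT.nd (nat_lit 78) (nat_lit 760) (nat_lit 0) (XT.lf (nat_lit 0) (nat_lit 258123033343) (nat_lit 684) (nat_lit 1097006626) (nat_lit 760) (nat_lit 14543941841) (nat_lit 87) (nat_lit 5) (nat_lit 96) (nat_lit 5) (nat_lit 97) (nat_lit 5) (nat_lit 317) (nat_lit 312) (nat_lit 151)) (XT.lf (nat_lit 0) (nat_lit 9491893180) (nat_lit 760) (nat_lit 73650854414) (nat_lit 836) (nat_lit 202398230920) (nat_lit 77) (nat_lit 5) (nat_lit 87) (nat_lit 5) (nat_lit 88) (nat_lit 5) (nat_lit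 318) (nat_lit 312) (nat_lit 150)))))) (XT.nd (nat_lit 390) (nat_lit 1368) (nat_lit 0) (XT.nd (nat_lit 156) (nat_lit 684) (nat_lit 0) (XT.nd (nat_lit 78) (nat_lit 456) (nat_lit 0) (XT.lf (nat_lit 0) (nat_lit 40140873973) (nat_lit 760) (nat_lit 151669202633) (nat_lit 76) (nat_lit 106234563465) (nat_lit 78) (nat_lit 5) (nat_lit 88) (nat_lit 5) (nat_lit 79) (nat_lit 5) (nat_lit 319) (nat_lit 312) (nat_lit 149)) (XT.lf (nat_lit 0) (nat_lit 76164075523) (nat_lit 456) (nat_lit 972627004) (nat_lit 532) (nat_lit 234217145825) (nat_lit 72) (nat_lit 5) (nat_lit 78) (nat_lit 5) (nat_lit 79) (nat_lit 5) (nat_lit 320) (nat_lit 312) (nat_lit 148))) (XT.nd (nat_lit 78) (nat_lit 684) (nat_lit 0) (XT.lf (nat_lit 0) (nat_lit 122980052236) (nat_lit 532) (nat_lit 1201729008) (nat_lit 76) (nat_lit 201251619555) (nat_lit 72) (nat_lit 5) (nat_lit 79) (nat_lit 5) (nat_lit 73) (nat_lit 5) (nat_lit 321) (nat_lit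 312) (nat_lit 147)) (XT.nd (nat_lit 78) (nat_lit 304) (nat_lit 0) (XT.lf (nat_lit 0) (nat_lit 177863054062) (nat_lit 456) (nat_lit 81931102804) (nat_lit 76) (nat_lit 80576551598) (nat_lit 67) (nat_lit 5) (nat_lit 73) (nat_lit 5) (nat_lit 68) (nat_lit 5) (nat_lit 322) (nat_lit 312) (nat_lit 146)) (XT.lf (nat_lit 0) (nat_lit 186260317484) (nat_lit 304) (nat_lit 55899529116) (nat_lit 380) (nat_lit 114091996824) (nat_lit 63) (nat_lit 5) (nat_lit 67) (nat_lit 5) (nat_lit 68) (nat_lit 5) (nat_lit 323) (nat_lit 312) (nat_lit 145))))) (XT.nd (nat_lit 234) (nat_lit 760) (nat_lit 0) (XT.nd (nat_lit 78) (nat_lit 304) (nat_lit 0) (XT.lf (nat_lit 0) (nat_lit 106314614621) (nat_lit 304) (nat_lit 210961410809) (nat_lit 380) (nat_lit 55843661802) (nat_lit 59) (nat_lit 5) (nat_lit 63) (nat_lit 5) (nat_lit 64) (nat_lit 5) (nat_lit 324) (nat_lit 312) (nat_lit 144)) (XT.nd (nat_lit 78) (nat_lit 0) (nat_lit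 0) (XT.lf (nat_lit 0) (nat_lit 11214401233) (nat_lit 304) (nat_lit 372127214393) (nat_lit 76) (nat_lit 7771029698) (nat_lit 55) (nat_lit 5) (nat_lit 59) (nat_lit 5) (nat_lit 56) (nat_lit 5) (nat_lit 325) (nat_lit 312) (nat_lit 143)) (XT.lf (nat_lit 0) (nat_lit 89987644205) (nat_lit 304) (nat_lit 77721080251) (nat_lit 76) (nat_lit 242375191035) (nat_lit 55) (nat_lit 5) (nat_lit 59) (nat_lit 5) (nat_lit 56) (nat_lit 5) (nat_lit 326) (nat_lit 312) (nat_lit 142)))) (XT.nd (nat_lit 78) (nat_lit 456) (nat_lit 0) (XT.lf (nat_lit 0) (nat_lit 180018544736) (nat_lit 380) (nat_lit 183279452519) (nat_lit 76) (nat_lit 67027100256) (nat_lit 51) (nat_lit 5) (nat_lit 56) (nat_lit 5) (nat_lit 52) (nat_lit 5) (nat_lit 327) (nat_lit 312) (nat_lit 141)) (XT.nd (nat_lit 78) (nat_lit 228) (nat_lit 0) (XT.lf (nat_lit 0) (nat_lit 150415282455) (nat_lit 228) (nat_lit 133388882413) (nat_lit 304) (nat_lit 168053796986)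 (nat_lit 48) (nat_lit 5) (nat_lit 51) (nat_lit 5) (nat_lit 52) (nat_lit 5) (nat_lit 328) (nat_lit 312) (nat_lit 140)) (XT.lf (nat_lit 0) (nat_lit 41890841960) (nat_lit 228) (nat_lit 359694813762) (nat_lit 304) (nat_lit 73243148693) (nat_lit 45) (nat_lit 5) (nat_lit 48) (nat_lit 5) (nat_lit 49) (nat_lit 5) (nat_lit 329) (nat_lit 312) (nat_lit 139))))))))
noncomputable def xc122 : XT := (XT.nd (nat_lit 40248) (nat_lit 0) (nat_lit 152) (XT.nd (nat_lit 39390) (nat_lit 0) (nat_lit 2888) (XT.nd (nat_lit 390) (nat_lit 760) (nat_lit 0) (XT.nd (nat_lit 156) (nat_lit 456) (nat_lit 0) (XT.nd (nat_lit 78) (nat_lit 228) (nat_lit 0) (XT.lf (nat_lit 0) (nat_lit 35805421653) (nat_lit 304) (nat_lit 78709807816) (nat_lit 76) (nat_lit 384720021153) (nat_lit 44) (nat_lit 5) (nat_lit 48) (nat_lit 5) (nat_lit 45) (nat_lit 5) (nat_lit 330) (nat_lit 312) (nat_lit 138)) (XT.lf (nat_lit 0) (nat_lit 158373560914)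 (nat_lit 304) (nat_lit 215107418408) (nat_lit 76) (nat_lit 151685109617) (nat_lit 41) (nat_lit 5) (nat_lit 45) (nat_lit 5) (nat_lit 42) (nat_lit 5) (nat_lit 331) (nat_lit 312) (nat_lit 137))) (XT.nd (nat_lit 78) (nat_lit 228) (nat_lit 0) (XT.lf (nat_lit 0) (nat_lit 183557990777) (nat_lit 228) (nat_lit 113379439609) (nat_lit 304) (nat_lit 255924450079) (nat_lit 38) (nat_lit 5) (nat_lit 41) (nat_lit 5) (nat_lit 42) (nat_lit 5) (nat_lit 332) (nat_lit 312) (nat_lit 136)) (XT.nd (nat_lit 78) (nat_lit 76) (nat_lit 0) (XT.lf (nat_lit 0) (nat_lit 37742946539) (nat_lit 152) (nat_lit 415856752242) (nat_lit 228) (nat_lit 128822972153) (nat_lit 36) (nat_lit 5) (nat_lit 38) (nat_lit 5) (nat_lit 39) (nat_lit 5) (nat_lit 333) (nat_lit 312) (nat_lit 135)) (XT.lf (nat_lit 0) (nat_lit 16626501648) (nat_lit 228) (nat_lit 125634624133) (nat_lit 76) (nat_lit 471658094044) (nat_lit 35) (nat_lit 5) (nat_lit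 38) (nat_lit 5) (nat_lit 36) (nat_lit 5) (nat_lit 334) (nat_lit 312) (nat_lit 134))))) (XT.nd (nat_lit 156) (nat_lit 380) (nat_lit 0) (XT.nd (nat_lit 78) (nat_lit 152) (nat_lit 0) (XT.lf (nat_lit 0) (nat_lit 177010690262) (nat_lit 304) (nat_lit 314578780121) (nat_lit 76) (nat_lit 155849825403) (nat_lit 32) (nat_lit 5) (nat_lit 36) (nat_lit 5) (nat_lit 33) (nat_lit 5) (nat_lit 335) (nat_lit 312) (nat_lit 133)) (XT.lf (nat_lit 0) (nat_lit 151401130297) (nat_lit 152) (nat_lit 205811362202) (nat_lit 228) (nat_lit 326079141463) (nat_lit 30) (nat_lit 5) (nat_lit 32) (nat_lit 5) (nat_lit 33) (nat_lit 5) (nat_lit 336) (nat_lit 312) (nat_lit 132))) (XT.nd (nat_lit 156) (nat_lit 380) (nat_lit 0) (XT.lf (nat_lit 0) (nat_lit 559005430839) (nat_lit 228) (nat_lit 57540587294) (nat_lit 76) (nat_lit 105107391526) (nat_lit 30) (nat_lit 5) (nat_lit 33) (nat_lit 5) (nat_lit 31) (nat_lit 5) (nat_lit 337)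 (nat_lit 312) (nat_lit 131)) (XT.nd (nat_lit 38610) (nat_lit 0) (nat_lit 4484) (XT.lf (nat_lit 0) (nat_lit 225380380334) (nat_lit 228) (nat_lit 575321300369) (nat_lit 76) (nat_lit 5595926121) (nat_lit 25) (nat_lit 5) (nat_lit 28) (nat_lit 5) (nat_lit 26) (nat_lit 5) (nat_lit 339) (nat_lit 312) (nat_lit 129)) (XT.lf (nat_lit 0) (nat_lit 44901621115) (nat_lit 0) (nat_lit 44901621115) (nat_lit 684) (nat_lit 31086353670) (nat_lit 84) (nat_lit 5) (nat_lit 84) (nat_lit 3) (nat_lit 93) (nat_lit 3) (nat_lit 313) (nat_lit 313) (nat_lit 154)))))) (XT.nd (nat_lit 390) (nat_lit 1596) (nat_lit 0) (XT.nd (nat_lit 156) (nat_lit 0) (nat_lit 76) (XT.nd (nat_lit 78) (nat_lit 0) (nat_lit 76) (XT.lf (nat_lit 76) (nat_lit 20027997765) (nat_lit 0) (nat_lit 168410062726) (nat_lit 760) (nat_lit 62929929351) (nat_lit 85) (nat_lit 5) (nat_lit 84) (nat_lit 5) (nat_lit 94) (nat_lit 5) (nat_lit 314) (nat_lit 313)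 (nat_lit 153)) (XT.lf (nat_lit 0) (nat_lit 202230892471) (nat_lit 684) (nat_lit 51979926565) (nat_lit 760) (nat_lit 7300336577) (nat_lit 85) (nat_lit 5) (nat_lit 94) (nat_lit 5) (nat_lit 95) (nat_lit 5) (nat_lit 315) (nat_lit 313) (nat_lit 152))) (XT.nd (nat_lit 78) (nat_lit 0) (nat_lit 76) (XT.lf (nat_lit 76) (nat_lit 143481448688) (nat_lit 0) (nat_lit 78725400407) (nat_lit 760) (nat_lit 50004940996) (nat_lit 86) (nat_lit 5) (nat_lit 85) (nat_lit 5) (nat_lit 95) (nat_lit 5) (nat_lit 316) (nat_lit 313) (nat_lit 151)) (XT.nd (nat_lit 78) (nat_lit 0) (nat_lit 76) (XT.lf (nat_lit 76) (nat_lit 73314412226) (nat_lit 0) (nat_lit 174261154145) (nat_lit 760) (nat_lit 36003175077) (nat_lit 87) (nat_lit 5) (nat_lit 86) (nat_lit 5) (nat_lit 96) (nat_lit 5) (nat_lit 317) (nat_lit 313) (nat_lit 150)) (XT.lf (nat_lit 0) (nat_lit 278775428047) (nat_lit 684) (nat_lit 1182745769) (nat_lit 760) (nat_lit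 15706793049) (nat_lit 87) (nat_lit 5) (nat_lit 96) (nat_lit 5) (nat_lit 97) (nat_lit 5) (nat_lit 318) (nat_lit 313) (nat_lit 149))))) (XT.nd (nat_lit 234) (nat_lit 684) (nat_lit 0) (XT.nd (nat_lit 78) (nat_lit 380) (nat_lit 0) (XT.lf (nat_lit 0) (nat_lit 10253682330) (nat_lit 760) (nat_lit 79540903434) (nat_lit 836) (nat_lit 218589543955) (nat_lit 77) (nat_lit 5) (nat_lit 87) (nat_lit 5) (nat_lit 88) (nat_lit 5) (nat_lit 319) (nat_lit 313) (nat_lit 148)) (XT.nd (nat_lit 78) (nat_lit 456) (nat_lit 0) (XT.lf (nat_lit 0) (nat_lit 43354425619) (nat_lit 760) (nat_lit 163800682543) (nat_lit 76) (nat_lit 114732984220) (nat_lit 78) (nat_lit 5) (nat_lit 88) (nat_lit 5) (nat_lit 79) (nat_lit 5) (nat_lit 320) (nat_lit 313) (nat_lit 147)) (XT.lf (nat_lit 0) (nat_lit 82259168501) (nat_lit 456) (nat_lit 1050613650) (nat_lit 532) (nat_lit 252952262447) (nat_lit 72) (nat_lit 5) (nat_lit 78) (nat_lit 5)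 (nat_lit 79) (nat_lit 5) (nat_lit 321) (nat_lit 313) (nat_lit 146)))) (XT.nd (nat_lit 78) (nat_lit 684) (nat_lit 0) (XT.lf (nat_lit 0) (nat_lit 132820438513) (nat_lit 532) (nat_lit 1295940186) (nat_lit 76) (nat_lit 217351590938) (nat_lit 72) (nat_lit 5) (nat_lit 79) (nat_lit 5) (nat_lit 73) (nat_lit 5) (nat_lit 322) (nat_lit 313) (nat_lit 145)) (XT.nd (nat_lit 78) (nat_lit 304) (nat_lit 0) (XT.lf (nat_lit 0) (nat_lit 192093962121) (nat_lit 456) (nat_lit 88483650295) (nat_lit 76) (nat_lit 87022655723) (nat_lit 67) (nat_lit 5) (nat_lit 73) (nat_lit 5) (nat_lit 68) (nat_lit 5) (nat_lit 323) (nat_lit 313) (nat_lit 144)) (XT.lf (nat_lit 0) (nat_lit 201162999274) (nat_lit 304) (nat_lit 60371389716) (nat_lit 380) (nat_lit 123217510641) (nat_lit 63) (nat_lit 5) (nat_lit 67) (nat_lit 5) (nat_lit 68) (nat_lit 5) (nat_lit 324) (nat_lit 313) (nat_lit 143))))))) (XT.nd (nat_lit 780) (nat_lit 684) (nat_lit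 0) (XT.nd (nat_lit 390) (nat_lit 912) (nat_lit 0) (XT.nd (nat_lit 156) (nat_lit 532) (nat_lit 0) (XT.nd (nat_lit 78) (nat_lit 304) (nat_lit 0) (XT.lf (nat_lit 0) (nat_lit 114821645287) (nat_lit 304) (nat_lit 227838117399) (nat_lit 380) (nat_lit 60309413492) (nat_lit 59) (nat_lit 5) (nat_lit 63) (nat_lit 5) (nat_lit 64) (nat_lit 5) (nat_lit 325) (nat_lit 313) (nat_lit 142)) (XT.lf (nat_lit 0) (nat_lit 12113146546) (nat_lit 304) (nat_lit 401895476169) (nat_lit 76) (nat_lit 8392951689) (nat_lit 55) (nat_lit 5) (nat_lit 59) (nat_lit 5) (nat_lit 56) (nat_lit 5) (nat_lit 326) (nat_lit 313) (nat_lit 141))) (XT.nd (nat_lit 78) (nat_lit 532) (nat_lit 0) (XT.lf (nat_lit 0) (nat_lit 97188130939) (nat_lit 304) (nat_lit 83936993175) (nat_lit 76) (nat_lit 261765428184) (nat_lit 55) (nat_lit 5) (nat_lit 59) (nat_lit 5) (nat_lit 56) (nat_lit 5) (nat_lit 327) (nat_lit 313) (nat_lit 140)) (XT.nd (nat_lit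 78) (nat_lit 228) (nat_lit 0) (XT.lf (nat_lit 0) (nat_lit 194421425472) (nat_lit 380) (nat_lit 197940044951) (nat_lit 76) (nat_lit 72389562558) (nat_lit 51) (nat_lit 5) (nat_lit 56) (nat_lit 5) (nat_lit 52) (nat_lit 5) (nat_lit 328) (nat_lit 313) (nat_lit 139)) (XT.lf (nat_lit 0) (nat_lit 162450192170) (nat_lit 228) (nat_lit 144059625892) (nat_lit 304) (nat_lit 181496712450) (nat_lit 48) (nat_lit 5) (nat_lit 51) (nat_lit 5) (nat_lit 52) (nat_lit 5) (nat_lit 329) (nat_lit 313) (nat_lit 138))))) (XT.nd (nat_lit 156) (nat_lit 608) (nat_lit 0) (XT.nd (nat_lit 78) (nat_lit 76) (nat_lit 0) (XT.lf (nat_lit 0) (nat_lit 45243782955) (nat_lit 228) (nat_lit 388469978887) (nat_lit 304) (nat_lit 79101282122) (nat_lit 45) (nat_lit 5) (nat_lit 48) (nat_lit 5) (nat_lit 49) (nat_lit 5) (nat_lit 330) (nat_lit 313) (nat_lit 137)) (XT.lf (nat_lit 0) (nat_lit 38671037115) (nat_lit 304) (nat_lit 85005001832)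 (nat_lit 76) (nat_lit 415497970768) (nat_lit 44) (nat_lit 5) (nat_lit 48) (nat_lit 5) (nat_lit 45) (nat_lit 5) (nat_lit 331) (nat_lit 313) (nat_lit 136))) (XT.nd (nat_lit 78) (nat_lit 380) (nat_lit 0) (XT.lf (nat_lit 0) (nat_lit 171044570036) (nat_lit 304) (nat_lit 232314439069) (nat_lit 76) (nat_lit 163820309005) (nat_lit 41) (nat_lit 5) (nat_lit 45) (nat_lit 5) (nat_lit 42) (nat_lit 5) (nat_lit 332) (nat_lit 313) (nat_lit 135)) (XT.nd (nat_lit 78) (nat_lit 152) (nat_lit 0) (XT.lf (nat_lit 0) (nat_lit 198244134498) (nat_lit 228) (nat_lit 122449354779) (nat_lit 304) (nat_lit 276397286799) (nat_lit 38) (nat_lit 5) (nat_lit 41) (nat_lit 5) (nat_lit 42) (nat_lit 5) (nat_lit 333) (nat_lit 313) (nat_lit 134)) (XT.lf (nat_lit 0) (nat_lit 40763867212) (nat_lit 152) (nat_lit 449124822627) (nat_lit 228) (nat_lit 139127742527) (nat_lit 36) (nat_lit 5) (nat_lit 38) (nat_lit 5) (nat_lit 39) (nat_lit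 5) (nat_lit 334) (nat_lit 313) (nat_lit 133)))))) (XT.nd (nat_lit 39000) (nat_lit 0) (nat_lit 4332) (XT.nd (nat_lit 156) (nat_lit 380) (nat_lit 0) (XT.nd (nat_lit 78) (nat_lit 228) (nat_lit 0) (XT.lf (nat_lit 0) (nat_lit 17957578479) (nat_lit 228) (nat_lit 135683986169) (nat_lit 76) (nat_lit 509391143620) (nat_lit 35) (nat_lit 5) (nat_lit 38) (nat_lit 5) (nat_lit 36) (nat_lit 5) (nat_lit 335) (nat_lit 313) (nat_lit 132)) (XT.lf (nat_lit 0) (nat_lit 191172459209) (nat_lit 304) (nat_lit 339743696133) (nat_lit 76) (nat_lit 168318237208) (nat_lit 32) (nat_lit 5) (nat_lit 36) (nat_lit 5) (nat_lit 33) (nat_lit 5) (nat_lit 336) (nat_lit 313) (nat_lit 131))) (XT.nd (nat_lit 78) (nat_lit 228) (nat_lit 0) (XT.lf (nat_lit 0) (nat_lit 163514546868) (nat_lit 152) (nat_lit 222275811778) (nat_lit 228) (nat_lit 352164561573) (nat_lit 30) (nat_lit 5) (nat_lit 32) (nat_lit 5) (nat_lit 33) (nat_lit 5) (nat_lit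 337) (nat_lit 313) (nat_lit 130)) (XT.nd (nat_lit 78) (nat_lit 228) (nat_lit 0) (XT.lf (nat_lit 0) (nat_lit 603726674492) (nat_lit 228) (nat_lit 62142571839) (nat_lit 76) (nat_lit 113516394603) (nat_lit 30) (nat_lit 5) (nat_lit 33) (nat_lit 5) (nat_lit 31) (nat_lit 5) (nat_lit 338) (nat_lit 313) (nat_lit 129)) (XT.lf (nat_lit 0) (nat_lit 26287432438) (nat_lit 228) (nat_lit 320467990210) (nat_lit 76) (nat_lit 476773743001) (nat_lit 27) (nat_lit 5) (nat_lit 30) (nat_lit 5) (nat_lit 28) (nat_lit 5) (nat_lit 339) (nat_lit 313) (nat_lit 128))))) (XT.nd (nat_lit 234) (nat_lit 0) (nat_lit 76) (XT.nd (nat_lit 78) (nat_lit 0) (nat_lit 0) (XT.lf (nat_lit 0) (nat_lit 48494549050) (nat_lit 0) (nat_lit 48494549050) (nat_lit 684) (nat_lit 33571581939) (nat_lit 84) (nat_lit 5) (nat_lit 84) (nat_lit 3) (nat_lit 93) (nat_lit 3) (nat_lit 314) (nat_lit 314) (nat_lit 152)) (XT.nd (nat_lit 78) (nat_lit 0)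 (nat_lit 76) (XT.lf (nat_lit 76) (nat_lit 21631948344) (nat_lit 0) (nat_lit 181884117082) (nat_lit 760) (nat_lit 67961208731) (nat_lit 85) (nat_lit 5) (nat_lit 84) (nat_lit 5) (nat_lit 94) (nat_lit 5) (nat_lit 315) (nat_lit 314) (nat_lit 151)) (XT.lf (nat_lit 0) (nat_lit 218412086637) (nat_lit 684) (nat_lit 56136575193) (nat_lit 760) (nat_lit 7883243733) (nat_lit 85) (nat_lit 5) (nat_lit 94) (nat_lit 5) (nat_lit 95) (nat_lit 5) (nat_lit 316) (nat_lit 314) (nat_lit 150)))) (XT.nd (nat_lit 78) (nat_lit 0) (nat_lit 76) (XT.lf (nat_lit 76) (nat_lit 154961634222) (nat_lit 0) (nat_lit 85024309950) (nat_lit 760) (nat_lit 54002655881) (nat_lit 86) (nat_lit 5) (nat_lit 85) (nat_lit 5) (nat_lit 95) (nat_lit 5) (nat_lit 317) (nat_lit 314) (nat_lit 149)) (XT.nd (nat_lit 78) (nat_lit 0) (nat_lit 76) (XT.lf (nat_lit 76) (nat_lit 79181302842) (nat_lit 0) (nat_lit 188202681754) (nat_lit 760) (nat_lit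 38880932070) (nat_lit 87) (nat_lit 5) (nat_lit 86) (nat_lit 5) (nat_lit 96) (nat_lit 5) (nat_lit 318) (nat_lit 314) (nat_lit 148)) (XT.lf (nat_lit 0) (nat_lit 301079650252) (nat_lit 684) (nat_lit 1275632418) (nat_lit 760) (nat_lit 16962767099) (nat_lit 87) (nat_lit 5) (nat_lit 96) (nat_lit 5) (nat_lit 97) (nat_lit 5) (nat_lit 319) (nat_lit 314) (nat_lit 147))))))))
noncomputable def xc123 : XT := (XT.nd (nat_lit 40326) (nat_lit 0) (nat_lit 152) (XT.nd (nat_lit 780) (nat_lit 1596) (nat_lit 0) (XT.nd (nat_lit 390) (nat_lit 1216) (nat_lit 0) (XT.nd (nat_lit 156) (nat_lit 760) (nat_lit 0) (XT.nd (nat_lit 78) (nat_lit 0) (nat_lit 76) (XT.lf (nat_lit 0) (nat_lit 11076066847) (nat_lit 760) (nat_lit 85902444456) (nat_lit 836) (nat_lit 236076239846) (nat_lit 77) (nat_lit 5) (nat_lit 87) (nat_lit 5) (nat_lit 88) (nat_lit 5) (nat_lit 320) (nat_lit 314) (nat_lit 146)) (XT.lf (nat_lit 0) (nat_lit 46824735884)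 (nat_lit 760) (nat_lit 176902974200) (nat_lit 76) (nat_lit 123911327757) (nat_lit 78) (nat_lit 5) (nat_lit 88) (nat_lit 5) (nat_lit 79) (nat_lit 5) (nat_lit 321) (nat_lit 314) (nat_lit 145))) (XT.nd (nat_lit 78) (nat_lit 380) (nat_lit 0) (XT.lf (nat_lit 0) (nat_lit 88841588312) (nat_lit 456) (nat_lit 1134814049) (nat_lit 532) (nat_lit 273186510106) (nat_lit 72) (nat_lit 5) (nat_lit 78) (nat_lit 5) (nat_lit 79) (nat_lit 5) (nat_lit 322) (nat_lit 314) (nat_lit 144)) (XT.nd (nat_lit 78) (nat_lit 380) (nat_lit 0) (XT.lf (nat_lit 0) (nat_lit 143447772924) (nat_lit 532) (nat_lit 1397963187) (nat_lit 76) (nat_lit 234739582597) (nat_lit 72) (nat_lit 5) (nat_lit 79) (nat_lit 5) (nat_lit 73) (nat_lit 5) (nat_lit 323) (nat_lit 314) (nat_lit 143)) (XT.lf (nat_lit 0) (nat_lit 207463076942) (nat_lit 456) (nat_lit 95560678452) (nat_lit 76) (nat_lit 93984451031) (nat_lit 67) (nat_lit 5) (nat_lit 73) (nat_lit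 5) (nat_lit 68) (nat_lit 5) (nat_lit 324) (nat_lit 314) (nat_lit 142))))) (XT.nd (nat_lit 156) (nat_lit 608) (nat_lit 0) (XT.nd (nat_lit 78) (nat_lit 304) (nat_lit 0) (XT.lf (nat_lit 0) (nat_lit 217257630773) (nat_lit 304) (nat_lit 65201013678) (nat_lit 380) (nat_lit 133073328905) (nat_lit 63) (nat_lit 5) (nat_lit 67) (nat_lit 5) (nat_lit 68) (nat_lit 5) (nat_lit 325) (nat_lit 314) (nat_lit 141)) (XT.lf (nat_lit 0) (nat_lit 124008972843) (nat_lit 304) (nat_lit 246064989944) (nat_lit 380) (nat_lit 65132673726) (nat_lit 59) (nat_lit 5) (nat_lit 63) (nat_lit 5) (nat_lit 64) (nat_lit 5) (nat_lit 326) (nat_lit 314) (nat_lit 140))) (XT.nd (nat_lit 78) (nat_lit 304) (nat_lit 0) (XT.lf (nat_lit 0) (nat_lit 13083564193) (nat_lit 304) (nat_lit 434045472136) (nat_lit 76) (nat_lit 9064593257) (nat_lit 55) (nat_lit 5) (nat_lit 59) (nat_lit 5) (nat_lit 56) (nat_lit 5) (nat_lit 327) (nat_lit 314) (nat_lit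 139)) (XT.nd (nat_lit 78) (nat_lit 304) (nat_lit 0) (XT.lf (nat_lit 0) (nat_lit 104964446159) (nat_lit 304) (nat_lit 90650432142) (nat_lit 76) (nat_lit 282706852653) (nat_lit 55) (nat_lit 5) (nat_lit 59) (nat_lit 5) (nat_lit 56) (nat_lit 5) (nat_lit 328) (nat_lit 314) (nat_lit 138)) (XT.lf (nat_lit 0) (nat_lit 209976337346) (nat_lit 380) (nat_lit 213773736399) (nat_lit 76) (nat_lit 78180979862) (nat_lit 51) (nat_lit 5) (nat_lit 56) (nat_lit 5) (nat_lit 52) (nat_lit 5) (nat_lit 329) (nat_lit 314) (nat_lit 137)))))) (XT.nd (nat_lit 390) (nat_lit 608) (nat_lit 0) (XT.nd (nat_lit 156) (nat_lit 532) (nat_lit 0) (XT.nd (nat_lit 78) (nat_lit 228) (nat_lit 0) (XT.lf (nat_lit 0) (nat_lit 175447653975) (nat_lit 228) (nat_lit 155584081222) (nat_lit 304) (nat_lit 196015259207) (nat_lit 48) (nat_lit 5) (nat_lit 51) (nat_lit 5) (nat_lit 52) (nat_lit 5) (nat_lit 330) (nat_lit 314) (nat_lit 136)) (XT.lf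 (nat_lit 0) (nat_lit 48864720466) (nat_lit 228) (nat_lit 419547217137) (nat_lit 304) (nat_lit 85428254318) (nat_lit 45) (nat_lit 5) (nat_lit 48) (nat_lit 5) (nat_lit 49) (nat_lit 5) (nat_lit 331) (nat_lit 314) (nat_lit 135))) (XT.nd (nat_lit 78) (nat_lit 456) (nat_lit 0) (XT.lf (nat_lit 0) (nat_lit 41765733227) (nat_lit 304) (nat_lit 91804038288) (nat_lit 76) (nat_lit 448738106716) (nat_lit 44) (nat_lit 5) (nat_lit 48) (nat_lit 5) (nat_lit 45) (nat_lit 5) (nat_lit 332) (nat_lit 314) (nat_lit 134)) (XT.nd (nat_lit 78) (nat_lit 228) (nat_lit 0) (XT.lf (nat_lit 0) (nat_lit 184729099501) (nat_lit 304) (nat_lit 250898245762) (nat_lit 76) (nat_lit 176926268618) (nat_lit 41) (nat_lit 5) (nat_lit 45) (nat_lit 5) (nat_lit 42) (nat_lit 5) (nat_lit 333) (nat_lit 314) (nat_lit 133)) (XT.lf (nat_lit 0) (nat_lit 214104955089) (nat_lit 228) (nat_lit 132244925933) (nat_lit 304) (nat_lit 298508110135)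 (nat_lit 38) (nat_lit 5) (nat_lit 41) (nat_lit 5) (nat_lit 42) (nat_lit 5) (nat_lit 334) (nat_lit 314) (nat_lit 132))))) (XT.nd (nat_lit 234) (nat_lit 152) (nat_lit 0) (XT.nd (nat_lit 78) (nat_lit 304) (nat_lit 0) (XT.lf (nat_lit 0) (nat_lit 44026249694) (nat_lit 152) (nat_lit 485054405665) (nat_lit 228) (nat_lit 150257046807) (nat_lit 36) (nat_lit 5) (nat_lit 38) (nat_lit 5) (nat_lit 39) (nat_lit 5) (nat_lit 335) (nat_lit 314) (nat_lit 131)) (XT.nd (nat_lit 78) (nat_lit 228) (nat_lit 0) (XT.lf (nat_lit 0) (nat_lit 19395004973) (nat_lit 228) (nat_lit 146537498019) (nat_lit 76) (nat_lit 550142779804) (nat_lit 35) (nat_lit 5) (nat_lit 38) (nat_lit 5) (nat_lit 36) (nat_lit 5) (nat_lit 336) (nat_lit 314) (nat_lit 130)) (XT.lf (nat_lit 0) (nat_lit 206467039318) (nat_lit 304) (nat_lit 366922003211) (nat_lit 76) (nat_lit 181784061217) (nat_lit 32) (nat_lit 5) (nat_lit 36) (nat_lit 5) (nat_lit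 33) (nat_lit 5) (nat_lit 337) (nat_lit 314) (nat_lit 129)))) (XT.nd (nat_lit 78) (nat_lit 0) (nat_lit 0) (XT.lf (nat_lit 0) (nat_lit 176596847574) (nat_lit 152) (nat_lit 240057482860) (nat_lit 228) (nat_lit 380336945286) (nat_lit 30) (nat_lit 5) (nat_lit 32) (nat_lit 5) (nat_lit 33) (nat_lit 5) (nat_lit 338) (nat_lit 314) (nat_lit 128)) (XT.nd (nat_lit 38766) (nat_lit 0) (nat_lit 4104) (XT.lf (nat_lit 0) (nat_lit 652025502197) (nat_lit 228) (nat_lit 67112895248) (nat_lit 76) (nat_lit 122598059185) (nat_lit 30) (nat_lit 5) (nat_lit 33) (nat_lit 5) (nat_lit 31) (nat_lit 5) (nat_lit 339) (nat_lit 314) (nat_lit 127)) (XT.lf (nat_lit 0) (nat_lit 52374797341) (nat_lit 0) (nat_lit 52374797341) (nat_lit 684) (nat_lit 36255868144) (nat_lit 84) (nat_lit 5) (nat_lit 84) (nat_lit 3) (nat_lit 93) (nat_lit 3) (nat_lit 315) (nat_lit 315) (nat_lit 150))))))) (XT.nd (nat_lit 858) (nat_lit 2356) (nat_lit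 0) (XT.nd (nat_lit 390) (nat_lit 1596) (nat_lit 0) (XT.nd (nat_lit 156) (nat_lit 0) (nat_lit 76) (XT.nd (nat_lit 78) (nat_lit 0) (nat_lit 76) (XT.lf (nat_lit 76) (nat_lit 23363970911) (nat_lit 0) (nat_lit 196435917555) (nat_lit 760) (nat_lit 73395434846) (nat_lit 85) (nat_lit 5) (nat_lit 84) (nat_lit 5) (nat_lit 94) (nat_lit 5) (nat_lit 316) (nat_lit 315) (nat_lit 149)) (XT.lf (nat_lit 0) (nat_lit 235887387904) (nat_lit 684) (nat_lit 60626004727) (nat_lit 760) (nat_lit 8512943210) (nat_lit 85) (nat_lit 5) (nat_lit 94) (nat_lit 5) (nat_lit 95) (nat_lit 5) (nat_lit 317) (nat_lit 315) (nat_lit 148))) (XT.nd (nat_lit 78) (nat_lit 0) (nat_lit 76) (XT.lf (nat_lit 76) (nat_lit 167359996406) (nat_lit 0) (nat_lit 91827007070) (nat_lit 760) (nat_lit 58320570345) (nat_lit 86) (nat_lit 5) (nat_lit 85) (nat_lit 5) (nat_lit 95) (nat_lit 5) (nat_lit 318) (nat_lit 315) (nat_lit 147)) (XT.nd (nat_lit 78)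 (nat_lit 0) (nat_lit 76) (XT.lf (nat_lit 76) (nat_lit 85517296814) (nat_lit 0) (nat_lit 203259440943) (nat_lit 760) (nat_lit 41989265850) (nat_lit 87) (nat_lit 5) (nat_lit 86) (nat_lit 5) (nat_lit 96) (nat_lit 5) (nat_lit 319) (nat_lit 315) (nat_lit 146)) (XT.lf (nat_lit 0) (nat_lit 325167898095) (nat_lit 684) (nat_lit 1376197231) (nat_lit 760) (nat_lit 18319300304) (nat_lit 87) (nat_lit 5) (nat_lit 96) (nat_lit 5) (nat_lit 97) (nat_lit 5) (nat_lit 320) (nat_lit 315) (nat_lit 145))))) (XT.nd (nat_lit 234) (nat_lit 684) (nat_lit 0) (XT.nd (nat_lit 78) (nat_lit 380) (nat_lit 0) (XT.lf (nat_lit 0) (nat_lit 11963943974) (nat_lit 760) (nat_lit 92773155742) (nat_lit 836) (nat_lit 254961938119) (nat_lit 77) (nat_lit 5) (nat_lit 87) (nat_lit 5) (nat_lit 88) (nat_lit 5) (nat_lit 321) (nat_lit 315) (nat_lit 144)) (XT.nd (nat_lit 78) (nat_lit 456) (nat_lit 0) (XT.lf (nat_lit 0) (nat_lit 50572391893)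 (nat_lit 760) (nat_lit 191053700694) (nat_lit 76) (nat_lit 133823980891) (nat_lit 78) (nat_lit 5) (nat_lit 88) (nat_lit 5) (nat_lit 79) (nat_lit 5) (nat_lit 322) (nat_lit 315) (nat_lit 143)) (XT.lf (nat_lit 0) (nat_lit 95950361134) (nat_lit 456) (nat_lit 1225728895) (nat_lit 532) (nat_lit 295039773391) (nat_lit 72) (nat_lit 5) (nat_lit 78) (nat_lit 5) (nat_lit 79) (nat_lit 5) (nat_lit 323) (nat_lit 315) (nat_lit 142)))) (XT.nd (nat_lit 78) (nat_lit 684) (nat_lit 0) (XT.lf (nat_lit 0) (nat_lit 154925051659) (nat_lit 532) (nat_lit 1508383734) (nat_lit 76) (nat_lit 253518632937) (nat_lit 72) (nat_lit 5) (nat_lit 79) (nat_lit 5) (nat_lit 73) (nat_lit 5) (nat_lit 324) (nat_lit 315) (nat_lit 141)) (XT.nd (nat_lit 78) (nat_lit 304) (nat_lit 0) (XT.lf (nat_lit 0) (nat_lit 224061492997) (nat_lit 456) (nat_lit 103204106232) (nat_lit 76) (nat_lit 101503192410) (nat_lit 67) (nat_lit 5) (nat_lit 73)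 (nat_lit 5) (nat_lit 68) (nat_lit 5) (nat_lit 325) (nat_lit 315) (nat_lit 140)) (XT.lf (nat_lit 0) (nat_lit 234639605738) (nat_lit 304) (nat_lit 70417019999) (nat_lit 380) (nat_lit 143717838404) (nat_lit 63) (nat_lit 5) (nat_lit 67) (nat_lit 5) (nat_lit 68) (nat_lit 5) (nat_lit 326) (nat_lit 315) (nat_lit 139)))))) (XT.nd (nat_lit 390) (nat_lit 1216) (nat_lit 0) (XT.nd (nat_lit 156) (nat_lit 532) (nat_lit 0) (XT.nd (nat_lit 78) (nat_lit 304) (nat_lit 0) (XT.lf (nat_lit 0) (nat_lit 133931058926) (nat_lit 304) (nat_lit 265750037521) (nat_lit 380) (nat_lit 70342007750) (nat_lit 59) (nat_lit 5) (nat_lit 63) (nat_lit 5) (nat_lit 64) (nat_lit 5) (nat_lit 327) (nat_lit 315) (nat_lit 138)) (XT.lf (nat_lit 0) (nat_lit 14131420389) (nat_lit 304) (nat_lit 468767702049) (nat_lit 76) (nat_lit 9789936842) (nat_lit 55) (nat_lit 5) (nat_lit 59) (nat_lit 5) (nat_lit 56) (nat_lit 5) (nat_lit 328) (nat_lit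 315) (nat_lit 137))) (XT.nd (nat_lit 78) (nat_lit 532) (nat_lit 0) (XT.lf (nat_lit 0) (nat_lit 113362686166) (nat_lit 304) (nat_lit 97901163141) (nat_lit 76) (nat_lit 305323563944) (nat_lit 55) (nat_lit 5) (nat_lit 59) (nat_lit 5) (nat_lit 56) (nat_lit 5) (nat_lit 329) (nat_lit 315) (nat_lit 136)) (XT.nd (nat_lit 78) (nat_lit 228) (nat_lit 0) (XT.lf (nat_lit 0) (nat_lit 226775471285) (nat_lit 380) (nat_lit 230874338887) (nat_lit 76) (nat_lit 84435674557) (nat_lit 51) (nat_lit 5) (nat_lit 56) (nat_lit 5) (nat_lit 52) (nat_lit 5) (nat_lit 330) (nat_lit 315) (nat_lit 135)) (XT.lf (nat_lit 0) (nat_lit 189484706376) (nat_lit 228) (nat_lit 168030537879) (nat_lit 304) (nat_lit 211695459506) (nat_lit 48) (nat_lit 5) (nat_lit 51) (nat_lit 5) (nat_lit 52) (nat_lit 5) (nat_lit 331) (nat_lit 315) (nat_lit 134))))) (XT.nd (nat_lit 234) (nat_lit 684) (nat_lit 0) (XT.nd (nat_lit 78) (nat_lit 304) (nat_lit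 0) (XT.lf (nat_lit 0) (nat_lit 52775128278) (nat_lit 228) (nat_lit 453110685814) (nat_lit 304) (nat_lit 92261545551) (nat_lit 45) (nat_lit 5) (nat_lit 48) (nat_lit 5) (nat_lit 49) (nat_lit 5) (nat_lit 332) (nat_lit 315) (nat_lit 133)) (XT.nd (nat_lit 78) (nat_lit 228) (nat_lit 0) (XT.lf (nat_lit 0) (nat_lit 45107860492) (nat_lit 304) (nat_lit 99147192207) (nat_lit 76) (nat_lit 484637410987) (nat_lit 44) (nat_lit 5) (nat_lit 48) (nat_lit 5) (nat_lit 45) (nat_lit 5) (nat_lit 333) (nat_lit 315) (nat_lit 132)) (XT.lf (nat_lit 0) (nat_lit 199508253818) (nat_lit 304) (nat_lit 270968949360) (nat_lit 76) (nat_lit 191080657224) (nat_lit 41) (nat_lit 5) (nat_lit 45) (nat_lit 5) (nat_lit 42) (nat_lit 5) (nat_lit 334) (nat_lit 315) (nat_lit 131)))) (XT.nd (nat_lit 78) (nat_lit 456) (nat_lit 0) (XT.lf (nat_lit 0) (nat_lit 231234457319) (nat_lit 228) (nat_lit 142824196595) (nat_lit 304) (nat_lit 322387936237)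 (nat_lit 38) (nat_lit 5) (nat_lit 41) (nat_lit 5) (nat_lit 42) (nat_lit 5) (nat_lit 335) (nat_lit 315) (nat_lit 130)) (XT.nd (nat_lit 156) (nat_lit 304) (nat_lit 0) (XT.lf (nat_lit 0) (nat_lit 47549441152) (nat_lit 152) (nat_lit 523858412806) (nat_lit 228) (nat_lit 162276825982) (nat_lit 36) (nat_lit 5) (nat_lit 38) (nat_lit 5) (nat_lit 39) (nat_lit 5) (nat_lit 336) (nat_lit 315) (nat_lit 129)) (XT.lf (nat_lit 0) (nat_lit 222985074079) (nat_lit 304) (nat_lit 396274744424) (nat_lit 76) (nat_lit 196327099071) (nat_lit 32) (nat_lit 5) (nat_lit 36) (nat_lit 5) (nat_lit 33) (nat_lit 5) (nat_lit 338) (nat_lit 315) (nat_lit 127))))))))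
noncomputable def xc124 : XT := (XT.nd (nat_lit 1716) (nat_lit 228) (nat_lit 0) (XT.nd (nat_lit 780) (nat_lit 2584) (nat_lit 0) (XT.nd (nat_lit 390) (nat_lit 912) (nat_lit 0) (XT.nd (nat_lit 156) (nat_lit 0) (nat_lit 76) (XT.nd (nat_lit 78) (nat_lit 0) (nat_lit 0) (XT.lf (nat_lit 0) (nat_lit 56565367863) (nat_lit 0) (nat_lit 56565367863) (nat_lit 684) (nat_lit 39155102728) (nat_lit 84) (nat_lit 5) (nat_lit 84) (nat_lit 3) (nat_lit 93) (nat_lit 3) (nat_lit 316) (nat_lit 316) (nat_lit 148)) (XT.lf (nat_lit 76) (nat_lit 25234346042) (nat_lit 0) (nat_lit 212151709260) (nat_lit 760) (nat_lit 79264780040) (nat_lit 85) (nat_lit 5) (nat_lit 84) (nat_lit 5) (nat_lit 94) (nat_lit 5) (nat_lit 317) (nat_lit 316) (nat_lit 147))) (XT.nd (nat_lit 78) (nat_lit 0) (nat_lit 0) (XT.lf (nat_lit 0) (nat_lit 254760380252) (nat_lit 684) (nat_lit 65474802114) (nat_lit 760) (nat_lit 9193155603) (nat_lit 85) (nat_lit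 5) (nat_lit 94) (nat_lit 5) (nat_lit 95) (nat_lit 5) (nat_lit 318) (nat_lit 316) (nat_lit 146)) (XT.nd (nat_lit 78) (nat_lit 0) (nat_lit 76) (XT.lf (nat_lit 76) (nat_lit 180750023354) (nat_lit 0) (nat_lit 99173812632) (nat_lit 760) (nat_lit 62984245802) (nat_lit 86) (nat_lit 5) (nat_lit 85) (nat_lit 5) (nat_lit 95) (nat_lit 5) (nat_lit 319) (nat_lit 316) (nat_lit 145)) (XT.lf (nat_lit 76) (nat_lit 92359957775) (nat_lit 0) (nat_lit 219520663166) (nat_lit 760) (nat_lit 45346571738) (nat_lit 87) (nat_lit 5) (nat_lit 86) (nat_lit 5) (nat_lit 96) (nat_lit 5) (nat_lit 320) (nat_lit 316) (nat_lit 144))))) (XT.nd (nat_lit 156) (nat_lit 380) (nat_lit 0) (XT.nd (nat_lit 78) (nat_lit 760) (nat_lit 0) (XT.lf (nat_lit 0) (nat_lit 351182938159) (nat_lit 684) (nat_lit 1485019193) (nat_lit 760) (nat_lit 19784425808) (nat_lit 87) (nat_lit 5) (nat_lit 96) (nat_lit 5) (nat_lit 97) (nat_lit 5) (nat_lit 321)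 (nat_lit 316) (nat_lit 143)) (XT.lf (nat_lit 0) (nat_lit 12922595653) (nat_lit 760) (nat_lit 100193735679) (nat_lit 836) (nat_lit 275358549450) (nat_lit 77) (nat_lit 5) (nat_lit 87) (nat_lit 5) (nat_lit 88) (nat_lit 5) (nat_lit 322) (nat_lit 316) (nat_lit 142))) (XT.nd (nat_lit 78) (nat_lit 456) (nat_lit 0) (XT.lf (nat_lit 0) (nat_lit 54619621121) (nat_lit 760) (nat_lit 206336700931) (nat_lit 76) (nat_lit 144529682381) (nat_lit 78) (nat_lit 5) (nat_lit 88) (nat_lit 5) (nat_lit 79) (nat_lit 5) (nat_lit 323) (nat_lit 316) (nat_lit 141)) (XT.nd (nat_lit 78) (nat_lit 0) (nat_lit 0) (XT.lf (nat_lit 0) (nat_lit 103627629528) (nat_lit 456) (nat_lit 1323898422) (nat_lit 532) (nat_lit 318641534202) (nat_lit 72) (nat_lit 5) (nat_lit 78) (nat_lit 5) (nat_lit 79) (nat_lit 5) (nat_lit 324) (nat_lit 316) (nat_lit 140)) (XT.lf (nat_lit 0) (nat_lit 167320304850) (nat_lit 532) (nat_lit 1627840006) (nat_lit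 76) (nat_lit 273800023890) (nat_lit 72) (nat_lit 5) (nat_lit 79) (nat_lit 5) (nat_lit 73) (nat_lit 5) (nat_lit 325) (nat_lit 316) (nat_lit 139)))))) (XT.nd (nat_lit 390) (nat_lit 1292) (nat_lit 0) (XT.nd (nat_lit 156) (nat_lit 608) (nat_lit 0) (XT.nd (nat_lit 78) (nat_lit 304) (nat_lit 0) (XT.lf (nat_lit 0) (nat_lit 241987586905) (nat_lit 456) (nat_lit 111459211739) (nat_lit 76) (nat_lit 109623435197) (nat_lit 67) (nat_lit 5) (nat_lit 73) (nat_lit 5) (nat_lit 68) (nat_lit 5) (nat_lit 326) (nat_lit 316) (nat_lit 138)) (XT.lf (nat_lit 0) (nat_lit 253411944038) (nat_lit 304) (nat_lit 76050317493) (nat_lit 380) (nat_lit 155214102227) (nat_lit 63) (nat_lit 5) (nat_lit 67) (nat_lit 5) (nat_lit 68) (nat_lit 5) (nat_lit 327) (nat_lit 316) (nat_lit 137))) (XT.nd (nat_lit 78) (nat_lit 304) (nat_lit 0) (XT.lf (nat_lit 0) (nat_lit 144646716699) (nat_lit 304) (nat_lit 287009910535) (nat_lit 380) (nat_lit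 75968271084) (nat_lit 59) (nat_lit 5) (nat_lit 63) (nat_lit 5) (nat_lit 64) (nat_lit 5) (nat_lit 328) (nat_lit 316) (nat_lit 136)) (XT.nd (nat_lit 78) (nat_lit 0) (nat_lit 0) (XT.lf (nat_lit 0) (nat_lit 15262938015) (nat_lit 304) (nat_lit 506267911202) (nat_lit 76) (nat_lit 10573282788) (nat_lit 55) (nat_lit 5) (nat_lit 59) (nat_lit 5) (nat_lit 56) (nat_lit 5) (nat_lit 329) (nat_lit 316) (nat_lit 135)) (XT.lf (nat_lit 0) (nat_lit 122432630684) (nat_lit 304) (nat_lit 105732138589) (nat_lit 76) (nat_lit 329749588873) (nat_lit 55) (nat_lit 5) (nat_lit 59) (nat_lit 5) (nat_lit 56) (nat_lit 5) (nat_lit 330) (nat_lit 316) (nat_lit 134))))) (XT.nd (nat_lit 234) (nat_lit 532) (nat_lit 0) (XT.nd (nat_lit 78) (nat_lit 456) (nat_lit 0) (XT.lf (nat_lit 0) (nat_lit 244918389434) (nat_lit 380) (nat_lit 249343174524) (nat_lit 76) (nat_lit 91190713969) (nat_lit 51) (nat_lit 5) (nat_lit 56) (nat_lit 5)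 (nat_lit 52) (nat_lit 5) (nat_lit 331) (nat_lit 316) (nat_lit 133)) (XT.nd (nat_lit 78) (nat_lit 228) (nat_lit 0) (XT.lf (nat_lit 0) (nat_lit 204644546056) (nat_lit 228) (nat_lit 181472749565) (nat_lit 304) (nat_lit 228630221405) (nat_lit 48) (nat_lit 5) (nat_lit 51) (nat_lit 5) (nat_lit 52) (nat_lit 5) (nat_lit 332) (nat_lit 316) (nat_lit 132)) (XT.lf (nat_lit 0) (nat_lit 56998193216) (nat_lit 228) (nat_lit 489359276024) (nat_lit 304) (nat_lit 99641638337) (nat_lit 45) (nat_lit 5) (nat_lit 48) (nat_lit 5) (nat_lit 49) (nat_lit 5) (nat_lit 333) (nat_lit 316) (nat_lit 131)))) (XT.nd (nat_lit 78) (nat_lit 456) (nat_lit 0) (XT.lf (nat_lit 0) (nat_lit 48717234021) (nat_lit 304) (nat_lit 107077965230) (nat_lit 76) (nat_lit 523408623116) (nat_lit 44) (nat_lit 5) (nat_lit 48) (nat_lit 5) (nat_lit 45) (nat_lit 5) (nat_lit 334) (nat_lit 316) (nat_lit 130)) (XT.nd (nat_lit 78) (nat_lit 228) (nat_lit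 0) (XT.lf (nat_lit 0) (nat_lit 215469622591) (nat_lit 304) (nat_lit 292645474171) (nat_lit 76) (nat_lit 206367355958) (nat_lit 41) (nat_lit 5) (nat_lit 45) (nat_lit 5) (nat_lit 42) (nat_lit 5) (nat_lit 335) (nat_lit 316) (nat_lit 129)) (XT.lf (nat_lit 0) (nat_lit 249734161969) (nat_lit 228) (nat_lit 154249855049) (nat_lit 304) (nat_lit 348178265796) (nat_lit 38) (nat_lit 5) (nat_lit 41) (nat_lit 5) (nat_lit 42) (nat_lit 5) (nat_lit 336) (nat_lit 316) (nat_lit 128))))))) (XT.nd (nat_lit 39702) (nat_lit 0) (nat_lit 456) (XT.nd (nat_lit 39312) (nat_lit 0) (nat_lit 2812) (XT.nd (nat_lit 39078) (nat_lit 0) (nat_lit 3724) (XT.nd (nat_lit 39000) (nat_lit 0) (nat_lit 3724) (XT.lf (nat_lit 0) (nat_lit 22623696142) (nat_lit 228) (nat_lit 170919332843) (nat_lit 76) (nat_lit 641687110887) (nat_lit 35) (nat_lit 5) (nat_lit 38) (nat_lit 5) (nat_lit 36) (nat_lit 5) (nat_lit 338) (nat_lit 316) (nat_lit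 126)) (XT.lf (nat_lit 0) (nat_lit 61091100322) (nat_lit 0) (nat_lit 61091100322) (nat_lit 684) (nat_lit 42286452246) (nat_lit 84) (nat_lit 5) (nat_lit 84) (nat_lit 3) (nat_lit 93) (nat_lit 3) (nat_lit 317) (nat_lit 317) (nat_lit 146))) (XT.nd (nat_lit 78) (nat_lit 0) (nat_lit 76) (XT.lf (nat_lit 76) (nat_lit 27254171793) (nat_lit 0) (nat_lit 229124633295) (nat_lit 760) (nat_lit 85603999485) (nat_lit 85) (nat_lit 5) (nat_lit 84) (nat_lit 5) (nat_lit 94) (nat_lit 5) (nat_lit 318) (nat_lit 317) (nat_lit 145)) (XT.nd (nat_lit 78) (nat_lit 0) (nat_lit 0) (XT.lf (nat_lit 0) (nat_lit 275142926478) (nat_lit 684) (nat_lit 70711686324) (nat_lit 760) (nat_lit 9927902406) (nat_lit 85) (nat_lit 5) (nat_lit 94) (nat_lit 5) (nat_lit 95) (nat_lit 5) (nat_lit 319) (nat_lit 317) (nat_lit 144)) (XT.lf (nat_lit 76) (nat_lit 195211077378) (nat_lit 0) (nat_lit 107108270624) (nat_lit 760) (nat_lit 68021296362)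 (nat_lit 86) (nat_lit 5) (nat_lit 85) (nat_lit 5) (nat_lit 95) (nat_lit 5) (nat_lit 320) (nat_lit 317) (nat_lit 143))))) (XT.nd (nat_lit 156) (nat_lit 1064) (nat_lit 0) (XT.nd (nat_lit 78) (nat_lit 0) (nat_lit 76) (XT.lf (nat_lit 76) (nat_lit 99749849404) (nat_lit 0) (nat_lit 237082716552) (nat_lit 760) (nat_lit 48972723935) (nat_lit 87) (nat_lit 5) (nat_lit 86) (nat_lit 5) (nat_lit 96) (nat_lit 5) (nat_lit 321) (nat_lit 317) (nat_lit 142)) (XT.lf (nat_lit 0) (nat_lit 379278951998) (nat_lit 684) (nat_lit 1602728637) (nat_lit 760) (nat_lit 21366821058) (nat_lit 87) (nat_lit 5) (nat_lit 96) (nat_lit 5) (nat_lit 97) (nat_lit 5) (nat_lit 322) (nat_lit 317) (nat_lit 141))) (XT.nd (nat_lit 78) (nat_lit 380) (nat_lit 0) (XT.lf (nat_lit 0) (nat_lit 13957720316) (nat_lit 760) (nat_lit 108208143551) (nat_lit 836) (nat_lit 297386938722) (nat_lit 77) (nat_lit 5) (nat_lit 87) (nat_lit 5) (nat_lit 88)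 (nat_lit 5) (nat_lit 323) (nat_lit 317) (nat_lit 140)) (XT.nd (nat_lit 78) (nat_lit 456) (nat_lit 0) (XT.lf (nat_lit 0) (nat_lit 58990423558) (nat_lit 760) (nat_lit 222842526050) (nat_lit 76) (nat_lit 156091870944) (nat_lit 78) (nat_lit 5) (nat_lit 88) (nat_lit 5) (nat_lit 79) (nat_lit 5) (nat_lit 324) (nat_lit 317) (nat_lit 139)) (XT.lf (nat_lit 0) (nat_lit 111918902565) (nat_lit 456) (nat_lit 1429905645) (nat_lit 532) (nat_lit 344131638608) (nat_lit 72) (nat_lit 5) (nat_lit 78) (nat_lit 5) (nat_lit 79) (nat_lit 5) (nat_lit 325) (nat_lit 317) (nat_lit 138)))))) (XT.nd (nat_lit 390) (nat_lit 1064) (nat_lit 0) (XT.nd (nat_lit 156) (nat_lit 912) (nat_lit 0) (XT.nd (nat_lit 78) (nat_lit 380) (nat_lit 0) (XT.lf (nat_lit 0) (nat_lit 180707000104) (nat_lit 532) (nat_lit 1757026032) (nat_lit 76) (nat_lit 295703940341) (nat_lit 72) (nat_lit 5) (nat_lit 79) (nat_lit 5) (nat_lit 73) (nat_lit 5)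 (nat_lit 326) (nat_lit 317) (nat_lit 137)) (XT.lf (nat_lit 0) (nat_lit 261347600775) (nat_lit 456) (nat_lit 120374900160) (nat_lit 76) (nat_lit 118393299206) (nat_lit 67) (nat_lit 5) (nat_lit 73) (nat_lit 5) (nat_lit 68) (nat_lit 5) (nat_lit 327) (nat_lit 317) (nat_lit 136))) (XT.nd (nat_lit 78) (nat_lit 608) (nat_lit 0) (XT.lf (nat_lit 0) (nat_lit 273685902512) (nat_lit 304) (nat_lit 82134287931) (nat_lit 380) (nat_lit 167630233107) (nat_lit 63) (nat_lit 5) (nat_lit 67) (nat_lit 5) (nat_lit 68) (nat_lit 5) (nat_lit 328) (nat_lit 317) (nat_lit 135)) (XT.nd (nat_lit 78) (nat_lit 304) (nat_lit 0) (XT.lf (nat_lit 0) (nat_lit 156219459743) (nat_lit 304) (nat_lit 309970591934) (nat_lit 380) (nat_lit 82044792025) (nat_lit 59) (nat_lit 5) (nat_lit 63) (nat_lit 5) (nat_lit 64) (nat_lit 5) (nat_lit 329) (nat_lit 317) (nat_lit 134)) (XT.lf (nat_lit 0) (nat_lit 16484833820) (nat_lit 304) (nat_lit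 546768309280) (nat_lit 76) (nat_lit 11419274868) (nat_lit 55) (nat_lit 5) (nat_lit 59) (nat_lit 5) (nat_lit 56) (nat_lit 5) (nat_lit 330) (nat_lit 317) (nat_lit 133))))) (XT.nd (nat_lit 234) (nat_lit 532) (nat_lit 0) (XT.nd (nat_lit 78) (nat_lit 532) (nat_lit 0) (XT.lf (nat_lit 0) (nat_lit 132228038143) (nat_lit 304) (nat_lit 114189751512) (nat_lit 76) (nat_lit 356129675851) (nat_lit 55) (nat_lit 5) (nat_lit 59) (nat_lit 5) (nat_lit 56) (nat_lit 5) (nat_lit 331) (nat_lit 317) (nat_lit 132)) (XT.nd (nat_lit 78) (nat_lit 228) (nat_lit 0) (XT.lf (nat_lit 0) (nat_lit 264512615429) (nat_lit 380) (nat_lit 269289675577) (nat_lit 76) (nat_lit 98486130078) (nat_lit 51) (nat_lit 5) (nat_lit 56) (nat_lit 5) (nat_lit 52) (nat_lit 5) (nat_lit 332) (nat_lit 317) (nat_lit 131)) (XT.lf (nat_lit 0) (nat_lit 221017021239) (nat_lit 228) (nat_lit 195990371190) (nat_lit 304) (nat_lit 246919889066) (nat_lit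 48) (nat_lit 5) (nat_lit 51) (nat_lit 5) (nat_lit 52) (nat_lit 5) (nat_lit 333) (nat_lit 317) (nat_lit 130)))) (XT.nd (nat_lit 78) (nat_lit 304) (nat_lit 0) (XT.lf (nat_lit 0) (nat_lit 61558952888) (nat_lit 228) (nat_lit 528507791206) (nat_lit 304) (nat_lit 107612257078) (nat_lit 45) (nat_lit 5) (nat_lit 48) (nat_lit 5) (nat_lit 49) (nat_lit 5) (nat_lit 334) (nat_lit 317) (nat_lit 129)) (XT.nd (nat_lit 78) (nat_lit 228) (nat_lit 0) (XT.lf (nat_lit 0) (nat_lit 52615251195) (nat_lit 304) (nat_lit 115643343092) (nat_lit 76) (nat_lit 565281500937) (nat_lit 44) (nat_lit 5) (nat_lit 48) (nat_lit 5) (nat_lit 45) (nat_lit 5) (nat_lit 335) (nat_lit 317) (nat_lit 128)) (XT.lf (nat_lit 0) (nat_lit 232707799795) (nat_lit 304) (nat_lit 316056262363) (nat_lit 76) (nat_lit 222876955474) (nat_lit 41) (nat_lit 5) (nat_lit 45) (nat_lit 5) (nat_lit 42) (nat_lit 5) (nat_lit 336) (nat_lit 317) (nat_lit 127))))))))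
noncomputable def xc125 : XT := (XT.nd (nat_lit 79950) (nat_lit 0) (nat_lit 608) (XT.nd (nat_lit 39780) (nat_lit 0) (nat_lit 684) (XT.nd (nat_lit 39390) (nat_lit 0) (nat_lit 2736) (XT.nd (nat_lit 39156) (nat_lit 0) (nat_lit 3648) (XT.nd (nat_lit 39078) (nat_lit 0) (nat_lit 3648) (XT.lf (nat_lit 0) (nat_lit 55463481063) (nat_lit 152) (nat_lit 611027879149) (nat_lit 228) (nat_lit 189278386689) (nat_lit 36) (nat_lit 5) (nat_lit 38) (nat_lit 5) (nat_lit 39) (nat_lit 5) (nat_lit 338) (nat_lit 317) (nat_lit 125)) (XT.lf (nat_lit 0) (nat_lit 65978819615) (nat_lit 0) (nat_lit 65978819615) (nat_lit 684) (nat_lit 45668460761) (nat_lit 84) (nat_lit 5) (nat_lit 84) (nat_lit 3) (nat_lit 93) (nat_lit 3) (nat_lit 318) (nat_lit 318) (nat_lit 144))) (XT.nd (nat_lit 78) (nat_lit 0) (nat_lit 76) (XT.lf (nat_lit 76) (nat_lit 29435429806) (nat_lit 0) (nat_lit 247455278937) (nat_lit 760) (nat_lit 92450636523)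 (nat_lit 85) (nat_lit 5) (nat_lit 84) (nat_lit 5) (nat_lit 94) (nat_lit 5) (nat_lit 319) (nat_lit 318) (nat_lit 143)) (XT.nd (nat_lit 78) (nat_lit 0) (nat_lit 0) (XT.lf (nat_lit 0) (nat_lit 297155831624) (nat_lit 684) (nat_lit 76367678193) (nat_lit 760) (nat_lit 10721529622) (nat_lit 85) (nat_lit 5) (nat_lit 94) (nat_lit 5) (nat_lit 95) (nat_lit 5) (nat_lit 320) (nat_lit 318) (nat_lit 142)) (XT.lf (nat_lit 76) (nat_lit 210828865622) (nat_lit 0) (nat_lit 115677406365) (nat_lit 760) (nat_lit 73461551937) (nat_lit 86) (nat_lit 5) (nat_lit 85) (nat_lit 5) (nat_lit 95) (nat_lit 5) (nat_lit 321) (nat_lit 318) (nat_lit 141))))) (XT.nd (nat_lit 156) (nat_lit 1064) (nat_lit 0) (XT.nd (nat_lit 78) (nat_lit 0) (nat_lit 76) (XT.lf (nat_lit 76) (nat_lit 107730776149) (nat_lit 0) (nat_lit 256049677097) (nat_lit 760) (nat_lit 52889192792) (nat_lit 87) (nat_lit 5) (nat_lit 86) (nat_lit 5) (nat_lit 96)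 (nat_lit 5) (nat_lit 322) (nat_lit 318) (nat_lit 140)) (XT.lf (nat_lit 0) (nat_lit 409622450245) (nat_lit 684) (nat_lit 1730010634) (nat_lit 760) (nat_lit 23075859117) (nat_lit 87) (nat_lit 5) (nat_lit 96) (nat_lit 5) (nat_lit 97) (nat_lit 5) (nat_lit 323) (nat_lit 318) (nat_lit 139))) (XT.nd (nat_lit 78) (nat_lit 380) (nat_lit 0) (XT.lf (nat_lit 0) (nat_lit 15075467066) (nat_lit 760) (nat_lit 116863859693) (nat_lit 836) (nat_lit 321177641176) (nat_lit 77) (nat_lit 5) (nat_lit 87) (nat_lit 5) (nat_lit 88) (nat_lit 5) (nat_lit 324) (nat_lit 318) (nat_lit 138)) (XT.nd (nat_lit 78) (nat_lit 456) (nat_lit 0) (XT.lf (nat_lit 0) (nat_lit 63710714324) (nat_lit 760) (nat_lit 240668975669) (nat_lit 76) (nat_lit 168579061132) (nat_lit 78) (nat_lit 5) (nat_lit 88) (nat_lit 5) (nat_lit 79) (nat_lit 5) (nat_lit 325) (nat_lit 318) (nat_lit 137)) (XT.lf (nat_lit 0) (nat_lit 120873325843) (nat_lit 456)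 (nat_lit 1544379843) (nat_lit 532) (nat_lit 371661125175) (nat_lit 72) (nat_lit 5) (nat_lit 78) (nat_lit 5) (nat_lit 79) (nat_lit 5) (nat_lit 326) (nat_lit 318) (nat_lit 136)))))) (XT.nd (nat_lit 390) (nat_lit 760) (nat_lit 0) (XT.nd (nat_lit 156) (nat_lit 912) (nat_lit 0) (XT.nd (nat_lit 78) (nat_lit 380) (nat_lit 0) (XT.lf (nat_lit 0) (nat_lit 195164478207) (nat_lit 532) (nat_lit 1896695474) (nat_lit 76) (nat_lit 319360182299) (nat_lit 72) (nat_lit 5) (nat_lit 79) (nat_lit 5) (nat_lit 73) (nat_lit 5) (nat_lit 327) (nat_lit 318) (nat_lit 135)) (XT.lf (nat_lit 0) (nat_lit 282256272106) (nat_lit 456) (nat_lit 130003993238) (nat_lit 76) (nat_lit 127864753877) (nat_lit 67) (nat_lit 5) (nat_lit 73) (nat_lit 5) (nat_lit 68) (nat_lit 5) (nat_lit 328) (nat_lit 318) (nat_lit 134))) (XT.nd (nat_lit 78) (nat_lit 608) (nat_lit 0) (XT.lf (nat_lit 0) (nat_lit 295581634581) (nat_lit 304) (nat_lit 88704983846)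 (nat_lit 380) (nat_lit 181039796733) (nat_lit 63) (nat_lit 5) (nat_lit 67) (nat_lit 5) (nat_lit 68) (nat_lit 5) (nat_lit 329) (nat_lit 318) (nat_lit 133)) (XT.nd (nat_lit 78) (nat_lit 304) (nat_lit 0) (XT.lf (nat_lit 0) (nat_lit 168717878755) (nat_lit 304) (nat_lit 334768143744) (nat_lit 380) (nat_lit 88607568850) (nat_lit 59) (nat_lit 5) (nat_lit 63) (nat_lit 5) (nat_lit 64) (nat_lit 5) (nat_lit 330) (nat_lit 318) (nat_lit 132)) (XT.lf (nat_lit 0) (nat_lit 17804358492) (nat_lit 304) (nat_lit 590508886833) (nat_lit 76) (nat_lit 12332927846) (nat_lit 55) (nat_lit 5) (nat_lit 59) (nat_lit 5) (nat_lit 56) (nat_lit 5) (nat_lit 331) (nat_lit 318) (nat_lit 131))))) (XT.nd (nat_lit 234) (nat_lit 228) (nat_lit 0) (XT.nd (nat_lit 78) (nat_lit 532) (nat_lit 0) (XT.lf (nat_lit 0) (nat_lit 142806964496) (nat_lit 304) (nat_lit 123324110161) (nat_lit 76) (nat_lit 384620152686) (nat_lit 55) (nat_lit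 5) (nat_lit 59) (nat_lit 5) (nat_lit 56) (nat_lit 5) (nat_lit 332) (nat_lit 318) (nat_lit 130)) (XT.nd (nat_lit 78) (nat_lit 228) (nat_lit 0) (XT.lf (nat_lit 0) (nat_lit 285674271817) (nat_lit 380) (nat_lit 290832032656) (nat_lit 76) (nat_lit 106365156793) (nat_lit 51) (nat_lit 5) (nat_lit 56) (nat_lit 5) (nat_lit 52) (nat_lit 5) (nat_lit 333) (nat_lit 318) (nat_lit 129)) (XT.lf (nat_lit 0) (nat_lit 238699164400) (nat_lit 228) (nat_lit 211669430841) (nat_lit 304) (nat_lit 266672837142) (nat_lit 48) (nat_lit 5) (nat_lit 51) (nat_lit 5) (nat_lit 52) (nat_lit 5) (nat_lit 334) (nat_lit 318) (nat_lit 128)))) (XT.nd (nat_lit 39390) (nat_lit 0) (nat_lit 2964) (XT.lf (nat_lit 0) (nat_lit 66484444338) (nat_lit 228) (nat_lit 570788219973) (nat_lit 304) (nat_lit 116220626938) (nat_lit 45) (nat_lit 5) (nat_lit 48) (nat_lit 5) (nat_lit 49) (nat_lit 5) (nat_lit 335) (nat_lit 318) (nat_lit 127)) (XT.nd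 (nat_lit 78) (nat_lit 0) (nat_lit 0) (XT.lf (nat_lit 0) (nat_lit 71257494927) (nat_lit 0) (nat_lit 71257494927) (nat_lit 684) (nat_lit 49321159445) (nat_lit 84) (nat_lit 5) (nat_lit 84) (nat_lit 3) (nat_lit 93) (nat_lit 3) (nat_lit 319) (nat_lit 319) (nat_lit 142)) (XT.lf (nat_lit 76) (nat_lit 31791056602) (nat_lit 0) (nat_lit 267252279938) (nat_lit 760) (nat_lit 99845244612) (nat_lit 85) (nat_lit 5) (nat_lit 84) (nat_lit 5) (nat_lit 94) (nat_lit 5) (nat_lit 320) (nat_lit 319) (nat_lit 141))))))) (XT.nd (nat_lit 858) (nat_lit 1140) (nat_lit 0) (XT.nd (nat_lit 390) (nat_lit 1368) (nat_lit 0) (XT.nd (nat_lit 156) (nat_lit 608) (nat_lit 0) (XT.nd (nat_lit 78) (nat_lit 0) (nat_lit 0) (XT.lf (nat_lit 0) (nat_lit 320929559322) (nat_lit 684) (nat_lit 82476283946) (nat_lit 760) (nat_lit 11578733322) (nat_lit 85) (nat_lit 5) (nat_lit 94) (nat_lit 5) (nat_lit 95) (nat_lit 5) (nat_lit 321) (nat_lit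 319) (nat_lit 140)) (XT.lf (nat_lit 76) (nat_lit 227695948238) (nat_lit 0) (nat_lit 124932005332) (nat_lit 760) (nat_lit 79337234551) (nat_lit 86) (nat_lit 5) (nat_lit 85) (nat_lit 5) (nat_lit 95) (nat_lit 5) (nat_lit 322) (nat_lit 319) (nat_lit 139))) (XT.nd (nat_lit 78) (nat_lit 684) (nat_lit 0) (XT.lf (nat_lit 76) (nat_lit 116350043103) (nat_lit 0) (nat_lit 276533945521) (nat_lit 760) (nat_lit 57119171615) (nat_lit 87) (nat_lit 5) (nat_lit 86) (nat_lit 5) (nat_lit 96) (nat_lit 5) (nat_lit 323) (nat_lit 319) (nat_lit 138)) (XT.nd (nat_lit 78) (nat_lit 760) (nat_lit 0) (XT.lf (nat_lit 0) (nat_lit 442393259714) (nat_lit 684) (nat_lit 1867608765) (nat_lit 760) (nat_lit 24921664108) (nat_lit 87) (nat_lit 5) (nat_lit 96) (nat_lit 5) (nat_lit 97) (nat_lit 5) (nat_lit 324) (nat_lit 319) (nat_lit 137)) (XT.lf (nat_lit 0) (nat_lit 16282472474) (nat_lit 760) (nat_lit 126212166564) (nat_lit 836)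 (nat_lit 346871635869) (nat_lit 77) (nat_lit 5) (nat_lit 87) (nat_lit 5) (nat_lit 88) (nat_lit 5) (nat_lit 325) (nat_lit 319) (nat_lit 136))))) (XT.nd (nat_lit 234) (nat_lit 988) (nat_lit 0) (XT.nd (nat_lit 78) (nat_lit 456) (nat_lit 0) (XT.lf (nat_lit 0) (nat_lit 68808477576) (nat_lit 760) (nat_lit 259921677138) (nat_lit 76) (nat_lit 182065249288) (nat_lit 78) (nat_lit 5) (nat_lit 88) (nat_lit 5) (nat_lit 79) (nat_lit 5) (nat_lit 326) (nat_lit 319) (nat_lit 135)) (XT.nd (nat_lit 78) (nat_lit 0) (nat_lit 0) (XT.lf (nat_lit 0) (nat_lit 130543973007) (nat_lit 456) (nat_lit 1668000316) (nat_lit 532) (nat_lit 401393119680) (nat_lit 72) (nat_lit 5) (nat_lit 78) (nat_lit 5) (nat_lit 79) (nat_lit 5) (nat_lit 327) (nat_lit 319) (nat_lit 134)) (XT.lf (nat_lit 0) (nat_lit 210778423582) (nat_lit 532) (nat_lit 2047665817) (nat_lit 76) (nat_lit 344908934067) (nat_lit 72) (nat_lit 5) (nat_lit 79) (nat_lit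 5) (nat_lit 73) (nat_lit 5) (nat_lit 328) (nat_lit 319) (nat_lit 133)))) (XT.nd (nat_lit 78) (nat_lit 608) (nat_lit 0) (XT.lf (nat_lit 0) (nat_lit 304837513989) (nat_lit 456) (nat_lit 140403542005) (nat_lit 76) (nat_lit 138093926243) (nat_lit 67) (nat_lit 5) (nat_lit 73) (nat_lit 5) (nat_lit 68) (nat_lit 5) (nat_lit 329) (nat_lit 319) (nat_lit 132)) (XT.nd (nat_lit 78) (nat_lit 304) (nat_lit 0) (XT.lf (nat_lit 0) (nat_lit 319228902546) (nat_lit 304) (nat_lit 95801342156) (nat_lit 380) (nat_lit 195522247428) (nat_lit 63) (nat_lit 5) (nat_lit 67) (nat_lit 5) (nat_lit 68) (nat_lit 5) (nat_lit 330) (nat_lit 319) (nat_lit 131)) (XT.lf (nat_lit 0) (nat_lit 182216048281) (nat_lit 304) (nat_lit 361549513329) (nat_lit 380) (nat_lit 95695482881) (nat_lit 59) (nat_lit 5) (nat_lit 63) (nat_lit 5) (nat_lit 64) (nat_lit 5) (nat_lit 331) (nat_lit 319) (nat_lit 130)))))) (XT.nd (nat_lit 39702) (nat_lit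 0) (nat_lit 3040) (XT.nd (nat_lit 156) (nat_lit 836) (nat_lit 0) (XT.nd (nat_lit 78) (nat_lit 0) (nat_lit 0) (XT.lf (nat_lit 0) (nat_lit 19229339858) (nat_lit 304) (nat_lit 637748837158) (nat_lit 76) (nat_lit 13319657228) (nat_lit 55) (nat_lit 5) (nat_lit 59) (nat_lit 5) (nat_lit 56) (nat_lit 5) (nat_lit 332) (nat_lit 319) (nat_lit 129)) (XT.lf (nat_lit 0) (nat_lit 154232107477) (nat_lit 304) (nat_lit 133189334694) (nat_lit 76) (nat_lit 415389853007) (nat_lit 55) (nat_lit 5) (nat_lit 59) (nat_lit 5) (nat_lit 56) (nat_lit 5) (nat_lit 333) (nat_lit 319) (nat_lit 128))) (XT.nd (nat_lit 78) (nat_lit 532) (nat_lit 0) (XT.lf (nat_lit 0) (nat_lit 308528768392) (nat_lit 380) (nat_lit 314097894852) (nat_lit 76) (nat_lit 114874486200) (nat_lit 51) (nat_lit 5) (nat_lit 56) (nat_lit 5) (nat_lit 52) (nat_lit 5) (nat_lit 334) (nat_lit 319) (nat_lit 127)) (XT.nd (nat_lit 156) (nat_lit 304) (nat_lit 0)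 (XT.lf (nat_lit 0) (nat_lit 257795767530) (nat_lit 228) (nat_lit 228602839522) (nat_lit 304) (nat_lit 288006112802) (nat_lit 48) (nat_lit 5) (nat_lit 51) (nat_lit 5) (nat_lit 52) (nat_lit 5) (nat_lit 335) (nat_lit 319) (nat_lit 126)) (XT.lf (nat_lit 0) (nat_lit 61371489434) (nat_lit 304) (nat_lit 134884968029) (nat_lit 76) (nat_lit 659344654906) (nat_lit 44) (nat_lit 5) (nat_lit 48) (nat_lit 5) (nat_lit 45) (nat_lit 5) (nat_lit 337) (nat_lit 319) (nat_lit 124))))) (XT.nd (nat_lit 234) (nat_lit 0) (nat_lit 76) (XT.nd (nat_lit 78) (nat_lit 0) (nat_lit 0) (XT.lf (nat_lit 0) (nat_lit 76958411515) (nat_lit 0) (nat_lit 76958411515) (nat_lit 684) (nat_lit 53266185040) (nat_lit 84) (nat_lit 5) (nat_lit 84) (nat_lit 3) (nat_lit 93) (nat_lit 3) (nat_lit 320) (nat_lit 320) (nat_lit 140)) (XT.nd (nat_lit 78) (nat_lit 0) (nat_lit 76) (XT.lf (nat_lit 76) (nat_lit 34335020496) (nat_lit 0) (nat_lit 288632958462)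 (nat_lit 760) (nat_lit 107831627184) (nat_lit 85) (nat_lit 5) (nat_lit 84) (nat_lit 5) (nat_lit 94) (nat_lit 5) (nat_lit 321) (nat_lit 320) (nat_lit 139)) (XT.lf (nat_lit 0) (nat_lit 346605005317) (nat_lit 684) (nat_lit 89073693501) (nat_lit 760) (nat_lit 12504587312) (nat_lit 85) (nat_lit 5) (nat_lit 94) (nat_lit 5) (nat_lit 95) (nat_lit 5) (nat_lit 322) (nat_lit 320) (nat_lit 138)))) (XT.nd (nat_lit 78) (nat_lit 0) (nat_lit 76) (XT.lf (nat_lit 76) (nat_lit 245912287134) (nat_lit 0) (nat_lit 134926914230) (nat_lit 760) (nat_lit 85683148893) (nat_lit 86) (nat_lit 5) (nat_lit 85) (nat_lit 5) (nat_lit 95) (nat_lit 5) (nat_lit 323) (nat_lit 320) (nat_lit 137)) (XT.nd (nat_lit 78) (nat_lit 0) (nat_lit 76) (XT.lf (nat_lit 76) (nat_lit 125658736592) (nat_lit 0) (nat_lit 298656913440) (nat_lit 760) (nat_lit 61687713746) (nat_lit 87) (nat_lit 5) (nat_lit 86) (nat_lit 5) (nat_lit 96) (nat_lit 5)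 (nat_lit 324) (nat_lit 320) (nat_lit 136)) (XT.lf (nat_lit 0) (nat_lit 477785589360) (nat_lit 684) (nat_lit 2016329263) (nat_lit 760) (nat_lit 26915171122) (nat_lit 87) (nat_lit 5) (nat_lit 96) (nat_lit 5) (nat_lit 97) (nat_lit 5) (nat_lit 325) (nat_lit 320) (nat_lit 135))))))))
noncomputable def xc126 : XT := (XT.nd (nat_lit 41106) (nat_lit 0) (nat_lit 760) (XT.nd (nat_lit 40248) (nat_lit 0) (nat_lit 1672) (XT.nd (nat_lit 390) (nat_lit 1672) (nat_lit 0) (XT.nd (nat_lit 156) (nat_lit 760) (nat_lit 0) (XT.nd (nat_lit 78) (nat_lit 0) (nat_lit 76) (XT.lf (nat_lit 0) (nat_lit 17585900212) (nat_lit 760) (nat_lit 136308452385) (nat_lit 836) (nat_lit 374621181038) (nat_lit 77) (nat_lit 5) (nat_lit 87) (nat_lit 5) (nat_lit 88) (nat_lit 5) (nat_lit 326) (nat_lit 320) (nat_lit 134)) (XT.lf (nat_lit 0) (nat_lit 74313932622) (nat_lit 760) (nat_lit 280714711219) (nat_lit 76) (nat_lit 196630352002)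 (nat_lit 78) (nat_lit 5) (nat_lit 88) (nat_lit 5) (nat_lit 79) (nat_lit 5) (nat_lit 327) (nat_lit 320) (nat_lit 133))) (XT.nd (nat_lit 78) (nat_lit 380) (nat_lit 0) (XT.lf (nat_lit 0) (nat_lit 140988160513) (nat_lit 456) (nat_lit 1801500427) (nat_lit 532) (nat_lit 433503801500) (nat_lit 72) (nat_lit 5) (nat_lit 78) (nat_lit 5) (nat_lit 79) (nat_lit 5) (nat_lit 328) (nat_lit 320) (nat_lit 132)) (XT.nd (nat_lit 78) (nat_lit 380) (nat_lit 0) (XT.lf (nat_lit 0) (nat_lit 227641372295) (nat_lit 532) (nat_lit 2210822966) (nat_lit 76) (nat_lit 372501594938) (nat_lit 72) (nat_lit 5) (nat_lit 79) (nat_lit 5) (nat_lit 73) (nat_lit 5) (nat_lit 329) (nat_lit 320) (nat_lit 131)) (XT.lf (nat_lit 0) (nat_lit 329225149637) (nat_lit 456) (nat_lit 151635164622) (nat_lit 76) (nat_lit 149141433532) (nat_lit 67) (nat_lit 5) (nat_lit 73) (nat_lit 5) (nat_lit 68) (nat_lit 5) (nat_lit 330) (nat_lit 320) (nat_lit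 130))))) (XT.nd (nat_lit 156) (nat_lit 1064) (nat_lit 0) (XT.nd (nat_lit 78) (nat_lit 304) (nat_lit 0) (XT.lf (nat_lit 0) (nat_lit 344767846779) (nat_lit 304) (nat_lit 103465414894) (nat_lit 380) (nat_lit 211163398755) (nat_lit 63) (nat_lit 5) (nat_lit 67) (nat_lit 5) (nat_lit 68) (nat_lit 5) (nat_lit 331) (nat_lit 320) (nat_lit 129)) (XT.lf (nat_lit 0) (nat_lit 196793965911) (nat_lit 304) (nat_lit 390473404167) (nat_lit 380) (nat_lit 103350528683) (nat_lit 59) (nat_lit 5) (nat_lit 63) (nat_lit 5) (nat_lit 64) (nat_lit 5) (nat_lit 332) (nat_lit 320) (nat_lit 128))) (XT.nd (nat_lit 78) (nat_lit 760) (nat_lit 0) (XT.lf (nat_lit 0) (nat_lit 20768229474) (nat_lit 304) (nat_lit 688768092020) (nat_lit 76) (nat_lit 14385311386) (nat_lit 55) (nat_lit 5) (nat_lit 59) (nat_lit 5) (nat_lit 56) (nat_lit 5) (nat_lit 333) (nat_lit 320) (nat_lit 127)) (XT.nd (nat_lit 234) (nat_lit 760) (nat_lit 0) (XT.lf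 (nat_lit 0) (nat_lit 166571178323) (nat_lit 304) (nat_lit 143843877664) (nat_lit 76) (nat_lit 448621116784) (nat_lit 55) (nat_lit 5) (nat_lit 59) (nat_lit 5) (nat_lit 56) (nat_lit 5) (nat_lit 334) (nat_lit 320) (nat_lit 126)) (XT.lf (nat_lit 0) (nat_lit 77548743479) (nat_lit 228) (nat_lit 665767056671) (nat_lit 304) (nat_lit 135558724906) (nat_lit 45) (nat_lit 5) (nat_lit 48) (nat_lit 5) (nat_lit 49) (nat_lit 5) (nat_lit 337) (nat_lit 320) (nat_lit 123)))))) (XT.nd (nat_lit 390) (nat_lit 1292) (nat_lit 0) (XT.nd (nat_lit 156) (nat_lit 0) (nat_lit 76) (XT.nd (nat_lit 78) (nat_lit 0) (nat_lit 0) (XT.lf (nat_lit 0) (nat_lit 83115356208) (nat_lit 0) (nat_lit 83115356208) (nat_lit 684) (nat_lit 57526907861) (nat_lit 84) (nat_lit 5) (nat_lit 84) (nat_lit 3) (nat_lit 93) (nat_lit 3) (nat_lit 321) (nat_lit 321) (nat_lit 138)) (XT.lf (nat_lit 76) (nat_lit 37082404582) (nat_lit 0) (nat_lit 311724020490)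 (nat_lit 760) (nat_lit 116457096834) (nat_lit 85) (nat_lit 5) (nat_lit 84) (nat_lit 5) (nat_lit 94) (nat_lit 5) (nat_lit 322) (nat_lit 321) (nat_lit 137))) (XT.nd (nat_lit 78) (nat_lit 0) (nat_lit 0) (XT.lf (nat_lit 0) (nat_lit 374334332739) (nat_lit 684) (nat_lit 96198994708) (nat_lit 760) (nat_lit 13504573059) (nat_lit 85) (nat_lit 5) (nat_lit 94) (nat_lit 5) (nat_lit 95) (nat_lit 5) (nat_lit 323) (nat_lit 321) (nat_lit 136)) (XT.nd (nat_lit 78) (nat_lit 0) (nat_lit 76) (XT.lf (nat_lit 76) (nat_lit 265585838551) (nat_lit 0) (nat_lit 145721366126) (nat_lit 760) (nat_lit 92536888235) (nat_lit 86) (nat_lit 5) (nat_lit 85) (nat_lit 5) (nat_lit 95) (nat_lit 5) (nat_lit 324) (nat_lit 321) (nat_lit 135)) (XT.lf (nat_lit 76) (nat_lit 135712027117) (nat_lit 0) (nat_lit 322549682803) (nat_lit 760) (nat_lit 66621880709) (nat_lit 87) (nat_lit 5) (nat_lit 86) (nat_lit 5) (nat_lit 96) (nat_lit 5)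 (nat_lit 325) (nat_lit 321) (nat_lit 134))))) (XT.nd (nat_lit 234) (nat_lit 760) (nat_lit 0) (XT.nd (nat_lit 78) (nat_lit 760) (nat_lit 0) (XT.lf (nat_lit 0) (nat_lit 516009181424) (nat_lit 684) (nat_lit 2177045580) (nat_lit 760) (nat_lit 29068190956) (nat_lit 87) (nat_lit 5) (nat_lit 96) (nat_lit 5) (nat_lit 97) (nat_lit 5) (nat_lit 326) (nat_lit 321) (nat_lit 133)) (XT.nd (nat_lit 78) (nat_lit 0) (nat_lit 76) (XT.lf (nat_lit 0) (nat_lit 18993483769) (nat_lit 760) (nat_lit 147212539151) (nat_lit 836) (nat_lit 404590716312) (nat_lit 77) (nat_lit 5) (nat_lit 87) (nat_lit 5) (nat_lit 88) (nat_lit 5) (nat_lit 327) (nat_lit 321) (nat_lit 132)) (XT.lf (nat_lit 0) (nat_lit 80259713247) (nat_lit 760) (nat_lit 303171287902) (nat_lit 76) (nat_lit 212360679658) (nat_lit 78) (nat_lit 5) (nat_lit 88) (nat_lit 5) (nat_lit 79) (nat_lit 5) (nat_lit 328) (nat_lit 321) (nat_lit 131)))) (XT.nd (nat_lit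 78) (nat_lit 380) (nat_lit 0) (XT.lf (nat_lit 0) (nat_lit 152267787484) (nat_lit 456) (nat_lit 1945671976) (nat_lit 532) (nat_lit 468183447394) (nat_lit 72) (nat_lit 5) (nat_lit 78) (nat_lit 5) (nat_lit 79) (nat_lit 5) (nat_lit 329) (nat_lit 321) (nat_lit 130)) (XT.nd (nat_lit 78) (nat_lit 380) (nat_lit 0) (XT.lf (nat_lit 0) (nat_lit 245853260635) (nat_lit 532) (nat_lit 2387126289) (nat_lit 76) (nat_lit 402301676361) (nat_lit 72) (nat_lit 5) (nat_lit 79) (nat_lit 5) (nat_lit 73) (nat_lit 5) (nat_lit 330) (nat_lit 321) (nat_lit 129)) (XT.lf (nat_lit 0) (nat_lit 355563705614) (nat_lit 456) (nat_lit 163765411310) (nat_lit 76) (nat_lit 161072742376) (nat_lit 67) (nat_lit 5) (nat_lit 73) (nat_lit 5) (nat_lit 68) (nat_lit 5) (nat_lit 331) (nat_lit 321) (nat_lit 128))))))) (XT.nd (nat_lit 40404) (nat_lit 0) (nat_lit 0) (XT.nd (nat_lit 40014) (nat_lit 0) (nat_lit 1672) (XT.nd (nat_lit 156) (nat_lit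 304) (nat_lit 0) (XT.nd (nat_lit 78) (nat_lit 304) (nat_lit 0) (XT.lf (nat_lit 0) (nat_lit 372349816384) (nat_lit 304) (nat_lit 111742618392) (nat_lit 380) (nat_lit 228055931846) (nat_lit 63) (nat_lit 5) (nat_lit 67) (nat_lit 5) (nat_lit 68) (nat_lit 5) (nat_lit 332) (nat_lit 321) (nat_lit 127)) (XT.lf (nat_lit 0) (nat_lit 212538026537) (nat_lit 304) (nat_lit 421711216291) (nat_lit 380) (nat_lit 111618062722) (nat_lit 59) (nat_lit 5) (nat_lit 63) (nat_lit 5) (nat_lit 64) (nat_lit 5) (nat_lit 333) (nat_lit 321) (nat_lit 126))) (XT.nd (nat_lit 39702) (nat_lit 0) (nat_lit 2204) (XT.lf (nat_lit 0) (nat_lit 22430152876) (nat_lit 304) (nat_lit 743868980301) (nat_lit 76) (nat_lit 15536206239) (nat_lit 55) (nat_lit 5) (nat_lit 59) (nat_lit 5) (nat_lit 56) (nat_lit 5) (nat_lit 334) (nat_lit 321) (nat_lit 125)) (XT.nd (nat_lit 78) (nat_lit 0) (nat_lit 0) (XT.lf (nat_lit 0) (nat_lit 89764817705)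 (nat_lit 0) (nat_lit 89764817705) (nat_lit 684) (nat_lit 62128570107) (nat_lit 84) (nat_lit 5) (nat_lit 84) (nat_lit 3) (nat_lit 93) (nat_lit 3) (nat_lit 322) (nat_lit 322) (nat_lit 136)) (XT.lf (nat_lit 76) (nat_lit 40049496303) (nat_lit 0) (nat_lit 336662306799) (nat_lit 760) (nat_lit 125772755351) (nat_lit 85) (nat_lit 5) (nat_lit 84) (nat_lit 5) (nat_lit 94) (nat_lit 5) (nat_lit 323) (nat_lit 322) (nat_lit 135))))) (XT.nd (nat_lit 156) (nat_lit 608) (nat_lit 0) (XT.nd (nat_lit 78) (nat_lit 0) (nat_lit 0) (XT.lf (nat_lit 0) (nat_lit 404281874108) (nat_lit 684) (nat_lit 103894404790) (nat_lit 760) (nat_lit 14584612053) (nat_lit 85) (nat_lit 5) (nat_lit 94) (nat_lit 5) (nat_lit 95) (nat_lit 5) (nat_lit 324) (nat_lit 322) (nat_lit 134)) (XT.lf (nat_lit 76) (nat_lit 286833192987) (nat_lit 0) (nat_lit 157379331554) (nat_lit 760) (nat_lit 99939056912) (nat_lit 86) (nat_lit 5) (nat_lit 85)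 (nat_lit 5) (nat_lit 95) (nat_lit 5) (nat_lit 325) (nat_lit 322) (nat_lit 133))) (XT.nd (nat_lit 78) (nat_lit 684) (nat_lit 0) (XT.lf (nat_lit 76) (nat_lit 146569496487) (nat_lit 0) (nat_lit 348353842859) (nat_lit 760) (nat_lit 71950902312) (nat_lit 87) (nat_lit 5) (nat_lit 86) (nat_lit 5) (nat_lit 96) (nat_lit 5) (nat_lit 326) (nat_lit 322) (nat_lit 132)) (XT.nd (nat_lit 78) (nat_lit 760) (nat_lit 0) (XT.lf (nat_lit 0) (nat_lit 557290554583) (nat_lit 684) (nat_lit 2350703377) (nat_lit 760) (nat_lit 31393480032) (nat_lit 87) (nat_lit 5) (nat_lit 96) (nat_lit 5) (nat_lit 97) (nat_lit 5) (nat_lit 327) (nat_lit 322) (nat_lit 131)) (XT.lf (nat_lit 0) (nat_lit 20513572501) (nat_lit 760) (nat_lit 158989036947) (nat_lit 836) (nat_lit 436957837122) (nat_lit 77) (nat_lit 5) (nat_lit 87) (nat_lit 5) (nat_lit 88) (nat_lit 5) (nat_lit 328) (nat_lit 322) (nat_lit 130)))))) (XT.nd (nat_lit 390) (nat_lit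 608) (nat_lit 0) (XT.nd (nat_lit 156) (nat_lit 684) (nat_lit 0) (XT.nd (nat_lit 78) (nat_lit 456) (nat_lit 0) (XT.lf (nat_lit 0) (nat_lit 86681061307) (nat_lit 760) (nat_lit 327424476347) (nat_lit 76) (nat_lit 229349447865) (nat_lit 78) (nat_lit 5) (nat_lit 88) (nat_lit 5) (nat_lit 79) (nat_lit 5) (nat_lit 329) (nat_lit 322) (nat_lit 129)) (XT.lf (nat_lit 0) (nat_lit 164449702707) (nat_lit 456) (nat_lit 2101369899) (nat_lit 532) (nat_lit 505637558863) (nat_lit 72) (nat_lit 5) (nat_lit 78) (nat_lit 5) (nat_lit 79) (nat_lit 5) (nat_lit 330) (nat_lit 322) (nat_lit 128))) (XT.nd (nat_lit 78) (nat_lit 684) (nat_lit 0) (XT.lf (nat_lit 0) (nat_lit 265522017504) (nat_lit 532) (nat_lit 2577614126) (nat_lit 76) (nat_lit 434485770885) (nat_lit 72) (nat_lit 5) (nat_lit 79) (nat_lit 5) (nat_lit 73) (nat_lit 5) (nat_lit 331) (nat_lit 322) (nat_lit 127)) (XT.nd (nat_lit 78) (nat_lit 304) (nat_lit 0)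 (XT.lf (nat_lit 0) (nat_lit 384009268461) (nat_lit 456) (nat_lit 176866158548) (nat_lit 76) (nat_lit 173958556760) (nat_lit 67) (nat_lit 5) (nat_lit 73) (nat_lit 5) (nat_lit 68) (nat_lit 5) (nat_lit 332) (nat_lit 322) (nat_lit 126)) (XT.lf (nat_lit 0) (nat_lit 402138266255) (nat_lit 304) (nat_lit 120682002406) (nat_lit 380) (nat_lit 246299944451) (nat_lit 63) (nat_lit 5) (nat_lit 67) (nat_lit 5) (nat_lit 68) (nat_lit 5) (nat_lit 333) (nat_lit 322) (nat_lit 125))))) (XT.nd (nat_lit 39858) (nat_lit 0) (nat_lit 2204) (XT.nd (nat_lit 156) (nat_lit 304) (nat_lit 0) (XT.lf (nat_lit 0) (nat_lit 229541534497) (nat_lit 304) (nat_lit 455448061974) (nat_lit 380) (nat_lit 120547071992) (nat_lit 59) (nat_lit 5) (nat_lit 63) (nat_lit 5) (nat_lit 64) (nat_lit 5) (nat_lit 334) (nat_lit 322) (nat_lit 124)) (XT.nd (nat_lit 39624) (nat_lit 0) (nat_lit 2204) (XT.lf (nat_lit 0) (nat_lit 194289456607) (nat_lit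 304) (nat_lit 167778496012) (nat_lit 76) (nat_lit 523271796081) (nat_lit 55) (nat_lit 5) (nat_lit 59) (nat_lit 5) (nat_lit 56) (nat_lit 5) (nat_lit 336) (nat_lit 322) (nat_lit 122)) (XT.lf (nat_lit 0) (nat_lit 96946202882) (nat_lit 0) (nat_lit 96946202882) (nat_lit 684) (nat_lit 67098435291) (nat_lit 84) (nat_lit 5) (nat_lit 84) (nat_lit 3) (nat_lit 93) (nat_lit 3) (nat_lit 323) (nat_lit 323) (nat_lit 134)))) (XT.nd (nat_lit 78) (nat_lit 0) (nat_lit 76) (XT.lf (nat_lit 76) (nat_lit 43253884122) (nat_lit 0) (nat_lit 363595603988) (nat_lit 760) (nat_lit 135833796262) (nat_lit 85) (nat_lit 5) (nat_lit 84) (nat_lit 5) (nat_lit 94) (nat_lit 5) (nat_lit 324) (nat_lit 323) (nat_lit 133)) (XT.nd (nat_lit 78) (nat_lit 0) (nat_lit 0) (XT.lf (nat_lit 0) (nat_lit 436625105407) (nat_lit 684) (nat_lit 112205520365) (nat_lit 760) (nat_lit 15751100796) (nat_lit 85) (nat_lit 5) (nat_lit 94) (nat_lit 5)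 (nat_lit 95) (nat_lit 5) (nat_lit 325) (nat_lit 323) (nat_lit 132)) (XT.lf (nat_lit 76) (nat_lit 309780266252) (nat_lit 0) (nat_lit 169969897674) (nat_lit 760) (nat_lit 107933510698) (nat_lit 86) (nat_lit 5) (nat_lit 85) (nat_lit 5) (nat_lit 95) (nat_lit 5) (nat_lit 326) (nat_lit 323) (nat_lit 131))))))))
noncomputable def xc127 : XT := (XT.nd (nat_lit 81432) (nat_lit 0) (nat_lit 0) (XT.nd (nat_lit 40638) (nat_lit 0) (nat_lit 380) (XT.nd (nat_lit 390) (nat_lit 380) (nat_lit 0) (XT.nd (nat_lit 156) (nat_lit 1064) (nat_lit 0) (XT.nd (nat_lit 78) (nat_lit 0) (nat_lit 76) (XT.lf (nat_lit 76) (nat_lit 158295491048) (nat_lit 0) (nat_lit 376222309265) (nat_lit 760) (nat_lit 77706349622) (nat_lit 87) (nat_lit 5) (nat_lit 86) (nat_lit 5) (nat_lit 96) (nat_lit 5) (nat_lit 327) (nat_lit 323) (nat_lit 130)) (XT.lf (nat_lit 0) (nat_lit 601874346485) (nat_lit 684) (nat_lit 2538325962) (nat_lit 760)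 (nat_lit 33904815945) (nat_lit 87) (nat_lit 5) (nat_lit 96) (nat_lit 5) (nat_lit 97) (nat_lit 5) (nat_lit 328) (nat_lit 323) (nat_lit 129))) (XT.nd (nat_lit 78) (nat_lit 380) (nat_lit 0) (XT.lf (nat_lit 0) (nat_lit 22155181304) (nat_lit 760) (nat_lit 171707726659) (nat_lit 836) (nat_lit 471914347069) (nat_lit 77) (nat_lit 5) (nat_lit 87) (nat_lit 5) (nat_lit 88) (nat_lit 5) (nat_lit 329) (nat_lit 323) (nat_lit 128)) (XT.nd (nat_lit 78) (nat_lit 456) (nat_lit 0) (XT.lf (nat_lit 0) (nat_lit 93616035752) (nat_lit 760) (nat_lit 353617993279) (nat_lit 76) (nat_lit 247697329820) (nat_lit 78) (nat_lit 5) (nat_lit 88) (nat_lit 5) (nat_lit 79) (nat_lit 5) (nat_lit 330) (nat_lit 323) (nat_lit 127)) (XT.lf (nat_lit 0) (nat_lit 177606100926) (nat_lit 456) (nat_lit 2269517356) (nat_lit 532) (nat_lit 546088079757) (nat_lit 72) (nat_lit 5) (nat_lit 78) (nat_lit 5) (nat_lit 79) (nat_lit 5) (nat_lit 331)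 (nat_lit 323) (nat_lit 126))))) (XT.nd (nat_lit 40014) (nat_lit 0) (nat_lit 1292) (XT.nd (nat_lit 78) (nat_lit 380) (nat_lit 0) (XT.lf (nat_lit 0) (nat_lit 286764204159) (nat_lit 532) (nat_lit 2783409791) (nat_lit 76) (nat_lit 469244598619) (nat_lit 72) (nat_lit 5) (nat_lit 79) (nat_lit 5) (nat_lit 73) (nat_lit 5) (nat_lit 332) (nat_lit 323) (nat_lit 125)) (XT.lf (nat_lit 0) (nat_lit 414730409799) (nat_lit 456) (nat_lit 191015034851) (nat_lit 76) (nat_lit 187875237010) (nat_lit 67) (nat_lit 5) (nat_lit 73) (nat_lit 5) (nat_lit 68) (nat_lit 5) (nat_lit 333) (nat_lit 323) (nat_lit 124))) (XT.nd (nat_lit 78) (nat_lit 0) (nat_lit 0) (XT.lf (nat_lit 0) (nat_lit 104702070374) (nat_lit 0) (nat_lit 104702070374) (nat_lit 684) (nat_lit 72465949668) (nat_lit 84) (nat_lit 5) (nat_lit 84) (nat_lit 3) (nat_lit 93) (nat_lit 3) (nat_lit 324) (nat_lit 324) (nat_lit 132)) (XT.nd (nat_lit 78) (nat_lit 0)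 (nat_lit 76) (XT.lf (nat_lit 76) (nat_lit 46714561892) (nat_lit 0) (nat_lit 392683520351) (nat_lit 760) (nat_lit 146699831652) (nat_lit 85) (nat_lit 5) (nat_lit 84) (nat_lit 5) (nat_lit 94) (nat_lit 5) (nat_lit 325) (nat_lit 324) (nat_lit 131)) (XT.lf (nat_lit 0) (nat_lit 471555698005) (nat_lit 684) (nat_lit 121181587501) (nat_lit 760) (nat_lit 17010948616) (nat_lit 85) (nat_lit 5) (nat_lit 94) (nat_lit 5) (nat_lit 95) (nat_lit 5) (nat_lit 326) (nat_lit 324) (nat_lit 130)))))) (XT.nd (nat_lit 390) (nat_lit 380) (nat_lit 0) (XT.nd (nat_lit 156) (nat_lit 608) (nat_lit 0) (XT.nd (nat_lit 78) (nat_lit 0) (nat_lit 76) (XT.lf (nat_lit 76) (nat_lit 334563045770) (nat_lit 0) (nat_lit 183567677756) (nat_lit 760) (nat_lit 116567616480) (nat_lit 86) (nat_lit 5) (nat_lit 85) (nat_lit 5) (nat_lit 95) (nat_lit 5) (nat_lit 327) (nat_lit 324) (nat_lit 129)) (XT.lf (nat_lit 76) (nat_lit 170959503139) (nat_lit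 0) (nat_lit 406320230304) (nat_lit 760) (nat_lit 83922321862) (nat_lit 87) (nat_lit 5) (nat_lit 86) (nat_lit 5) (nat_lit 96) (nat_lit 5) (nat_lit 328) (nat_lit 324) (nat_lit 128))) (XT.nd (nat_lit 78) (nat_lit 760) (nat_lit 0) (XT.lf (nat_lit 0) (nat_lit 650024763627) (nat_lit 684) (nat_lit 2741020224) (nat_lit 760) (nat_lit 36617079058) (nat_lit 87) (nat_lit 5) (nat_lit 96) (nat_lit 5) (nat_lit 97) (nat_lit 5) (nat_lit 329) (nat_lit 324) (nat_lit 127)) (XT.nd (nat_lit 78) (nat_lit 0) (nat_lit 76) (XT.lf (nat_lit 0) (nat_lit 23928044199) (nat_lit 760) (nat_lit 185443973355) (nat_lit 836) (nat_lit 509667394506) (nat_lit 77) (nat_lit 5) (nat_lit 87) (nat_lit 5) (nat_lit 88) (nat_lit 5) (nat_lit 330) (nat_lit 324) (nat_lit 126)) (XT.lf (nat_lit 0) (nat_lit 101105738315) (nat_lit 760) (nat_lit 381907054504) (nat_lit 76) (nat_lit 267513052871) (nat_lit 78) (nat_lit 5) (nat_lit 88) (nat_lit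 5) (nat_lit 79) (nat_lit 5) (nat_lit 331) (nat_lit 324) (nat_lit 125))))) (XT.nd (nat_lit 40170) (nat_lit 0) (nat_lit 912) (XT.nd (nat_lit 78) (nat_lit 0) (nat_lit 0) (XT.lf (nat_lit 0) (nat_lit 191814950800) (nat_lit 456) (nat_lit 2451111207) (nat_lit 532) (nat_lit 589774711344) (nat_lit 72) (nat_lit 5) (nat_lit 78) (nat_lit 5) (nat_lit 79) (nat_lit 5) (nat_lit 332) (nat_lit 324) (nat_lit 124)) (XT.nd (nat_lit 40014) (nat_lit 0) (nat_lit 912) (XT.lf (nat_lit 0) (nat_lit 309705705080) (nat_lit 532) (nat_lit 3005728095) (nat_lit 76) (nat_lit 506784137412) (nat_lit 72) (nat_lit 5) (nat_lit 79) (nat_lit 5) (nat_lit 73) (nat_lit 5) (nat_lit 333) (nat_lit 324) (nat_lit 123)) (XT.lf (nat_lit 0) (nat_lit 113078382834) (nat_lit 0) (nat_lit 113078382834) (nat_lit 684) (nat_lit 78262916617) (nat_lit 84) (nat_lit 5) (nat_lit 84) (nat_lit 3) (nat_lit 93) (nat_lit 3) (nat_lit 325) (nat_lit 325) (nat_lit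 130)))) (XT.nd (nat_lit 78) (nat_lit 0) (nat_lit 76) (XT.lf (nat_lit 76) (nat_lit 50452041521) (nat_lit 0) (nat_lit 424098431782) (nat_lit 760) (nat_lit 158435245215) (nat_lit 85) (nat_lit 5) (nat_lit 84) (nat_lit 5) (nat_lit 94) (nat_lit 5) (nat_lit 326) (nat_lit 325) (nat_lit 129)) (XT.nd (nat_lit 78) (nat_lit 0) (nat_lit 0) (XT.lf (nat_lit 0) (nat_lit 509280654673) (nat_lit 684) (nat_lit 130875793434) (nat_lit 760) (nat_lit 18371618534) (nat_lit 85) (nat_lit 5) (nat_lit 94) (nat_lit 5) (nat_lit 95) (nat_lit 5) (nat_lit 327) (nat_lit 325) (nat_lit 128)) (XT.lf (nat_lit 76) (nat_lit 361328396546) (nat_lit 0) (nat_lit 198253253387) (nat_lit 760) (nat_lit 125892532765) (nat_lit 86) (nat_lit 5) (nat_lit 85) (nat_lit 5) (nat_lit 95) (nat_lit 5) (nat_lit 328) (nat_lit 325) (nat_lit 127))))))) (XT.nd (nat_lit 40872) (nat_lit 0) (nat_lit 760) (XT.nd (nat_lit 40404) (nat_lit 0) (nat_lit 1292)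 (XT.nd (nat_lit 156) (nat_lit 1444) (nat_lit 0) (XT.nd (nat_lit 78) (nat_lit 0) (nat_lit 76) (XT.lf (nat_lit 76) (nat_lit 184636583013) (nat_lit 0) (nat_lit 438825965581) (nat_lit 760) (nat_lit 90635648309) (nat_lit 87) (nat_lit 5) (nat_lit 86) (nat_lit 5) (nat_lit 96) (nat_lit 5) (nat_lit 329) (nat_lit 325) (nat_lit 126)) (XT.lf (nat_lit 0) (nat_lit 702027147171) (nat_lit 684) (nat_lit 2959983071) (nat_lit 760) (nat_lit 39546340648) (nat_lit 87) (nat_lit 5) (nat_lit 96) (nat_lit 5) (nat_lit 97) (nat_lit 5) (nat_lit 330) (nat_lit 325) (nat_lit 125))) (XT.nd (nat_lit 78) (nat_lit 760) (nat_lit 0) (XT.lf (nat_lit 0) (nat_lit 25842672158) (nat_lit 760) (nat_lit 200279172775) (nat_lit 836) (nat_lit 550440700051) (nat_lit 77) (nat_lit 5) (nat_lit 87) (nat_lit 5) (nat_lit 88) (nat_lit 5) (nat_lit 331) (nat_lit 325) (nat_lit 124)) (XT.nd (nat_lit 234) (nat_lit 836) (nat_lit 0) (XT.lf (nat_lit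 0) (nat_lit 109194557207) (nat_lit 760) (nat_lit 412459294587) (nat_lit 76) (nat_lit 288914042801) (nat_lit 78) (nat_lit 5) (nat_lit 88) (nat_lit 5) (nat_lit 79) (nat_lit 5) (nat_lit 332) (nat_lit 325) (nat_lit 123)) (XT.lf (nat_lit 0) (nat_lit 483742214140) (nat_lit 456) (nat_lit 222799245060) (nat_lit 76) (nat_lit 219137669320) (nat_lit 67) (nat_lit 5) (nat_lit 73) (nat_lit 5) (nat_lit 68) (nat_lit 5) (nat_lit 335) (nat_lit 325) (nat_lit 120))))) (XT.nd (nat_lit 234) (nat_lit 0) (nat_lit 76) (XT.nd (nat_lit 78) (nat_lit 0) (nat_lit 0) (XT.lf (nat_lit 0) (nat_lit 122124779344) (nat_lit 0) (nat_lit 122124779344) (nat_lit 684) (nat_lit 84523685007) (nat_lit 84) (nat_lit 5) (nat_lit 84) (nat_lit 3) (nat_lit 93) (nat_lit 3) (nat_lit 326) (nat_lit 326) (nat_lit 128)) (XT.nd (nat_lit 78) (nat_lit 0) (nat_lit 76) (XT.lf (nat_lit 76) (nat_lit 54488474628) (nat_lit 0) (nat_lit 458026503345) (nat_lit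 760) (nat_lit 171109573604) (nat_lit 85) (nat_lit 5) (nat_lit 84) (nat_lit 5) (nat_lit 94) (nat_lit 5) (nat_lit 327) (nat_lit 326) (nat_lit 127)) (XT.lf (nat_lit 0) (nat_lit 550023536425) (nat_lit 684) (nat_lit 141345581645) (nat_lit 760) (nat_lit 19841171430) (nat_lit 85) (nat_lit 5) (nat_lit 94) (nat_lit 5) (nat_lit 95) (nat_lit 5) (nat_lit 328) (nat_lit 326) (nat_lit 126)))) (XT.nd (nat_lit 78) (nat_lit 0) (nat_lit 76) (XT.lf (nat_lit 76) (nat_lit 390234931571) (nat_lit 0) (nat_lit 214113652040) (nat_lit 760) (nat_lit 135963512690) (nat_lit 86) (nat_lit 5) (nat_lit 85) (nat_lit 5) (nat_lit 95) (nat_lit 5) (nat_lit 329) (nat_lit 326) (nat_lit 125)) (XT.nd (nat_lit 78) (nat_lit 0) (nat_lit 76) (XT.lf (nat_lit 76) (nat_lit 199407783678) (nat_lit 0) (nat_lit 473932143011) (nat_lit 760) (nat_lit 97886106396) (nat_lit 87) (nat_lit 5) (nat_lit 86) (nat_lit 5) (nat_lit 96) (nat_lit 5) (nat_lit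 330) (nat_lit 326) (nat_lit 124)) (XT.lf (nat_lit 0) (nat_lit 758189663985) (nat_lit 684) (nat_lit 3196508421) (nat_lit 760) (nat_lit 42709958107) (nat_lit 87) (nat_lit 5) (nat_lit 96) (nat_lit 5) (nat_lit 97) (nat_lit 5) (nat_lit 331) (nat_lit 326) (nat_lit 123)))))) (XT.nd (nat_lit 40560) (nat_lit 0) (nat_lit 532) (XT.nd (nat_lit 40326) (nat_lit 0) (nat_lit 532) (XT.nd (nat_lit 40248) (nat_lit 0) (nat_lit 532) (XT.lf (nat_lit 0) (nat_lit 27910415512) (nat_lit 760) (nat_lit 216301233580) (nat_lit 836) (nat_lit 594475882311) (nat_lit 77) (nat_lit 5) (nat_lit 87) (nat_lit 5) (nat_lit 88) (nat_lit 5) (nat_lit 332) (nat_lit 326) (nat_lit 122)) (XT.lf (nat_lit 0) (nat_lit 131894869615) (nat_lit 0) (nat_lit 131894869615) (nat_lit 684) (nat_lit 91285352666) (nat_lit 84) (nat_lit 5) (nat_lit 84) (nat_lit 3) (nat_lit 93) (nat_lit 3) (nat_lit 327) (nat_lit 327) (nat_lit 126))) (XT.nd (nat_lit 78)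 (nat_lit 0) (nat_lit 76) (XT.lf (nat_lit 76) (nat_lit 58847783896) (nat_lit 0) (nat_lit 494668792525) (nat_lit 760) (nat_lit 184797918343) (nat_lit 85) (nat_lit 5) (nat_lit 84) (nat_lit 5) (nat_lit 94) (nat_lit 5) (nat_lit 328) (nat_lit 327) (nat_lit 125)) (XT.nd (nat_lit 78) (nat_lit 0) (nat_lit 0) (XT.lf (nat_lit 0) (nat_lit 594025787462) (nat_lit 684) (nat_lit 152652992182) (nat_lit 760) (nat_lit 21428313749) (nat_lit 85) (nat_lit 5) (nat_lit 94) (nat_lit 5) (nat_lit 95) (nat_lit 5) (nat_lit 329) (nat_lit 327) (nat_lit 124)) (XT.lf (nat_lit 76) (nat_lit 421453951835) (nat_lit 0) (nat_lit 231242862845) (nat_lit 760) (nat_lit 146840231311) (nat_lit 86) (nat_lit 5) (nat_lit 85) (nat_lit 5) (nat_lit 95) (nat_lit 5) (nat_lit 330) (nat_lit 327) (nat_lit 123))))) (XT.nd (nat_lit 40560) (nat_lit 0) (nat_lit 0) (XT.nd (nat_lit 40404) (nat_lit 152) (nat_lit 0) (XT.lf (nat_lit 76) (nat_lit 215360641304)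 (nat_lit 0) (nat_lit 511846800342) (nat_lit 760) (nat_lit 105716657307) (nat_lit 87) (nat_lit 5) (nat_lit 86) (nat_lit 5) (nat_lit 96) (nat_lit 5) (nat_lit 331) (nat_lit 327) (nat_lit 122)) (XT.nd (nat_lit 78) (nat_lit 0) (nat_lit 0) (XT.lf (nat_lit 0) (nat_lit 142446551712) (nat_lit 0) (nat_lit 142446551712) (nat_lit 684) (nat_lit 98587986141) (nat_lit 84) (nat_lit 5) (nat_lit 84) (nat_lit 3) (nat_lit 93) (nat_lit 3) (nat_lit 328) (nat_lit 328) (nat_lit 124)) (XT.lf (nat_lit 76) (nat_lit 63555804908) (nat_lit 0) (nat_lit 534242440743) (nat_lit 760) (nat_lit 199581390743) (nat_lit 85) (nat_lit 5) (nat_lit 84) (nat_lit 5) (nat_lit 94) (nat_lit 5) (nat_lit 329) (nat_lit 328) (nat_lit 123)))) (XT.nd (nat_lit 40638) (nat_lit 76) (nat_lit 0) (XT.lf (nat_lit 0) (nat_lit 641548166066) (nat_lit 684) (nat_lit 164865029230) (nat_lit 760) (nat_lit 23142449053) (nat_lit 85) (nat_lit 5) (nat_lit 94)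 (nat_lit 5) (nat_lit 95) (nat_lit 5) (nat_lit 330) (nat_lit 328) (nat_lit 122)) (XT.nd (nat_lit 40794) (nat_lit 0) (nat_lit 76) (XT.lf (nat_lit 76) (nat_lit 68640439312) (nat_lit 0) (nat_lit 576981960158) (nat_lit 760) (nat_lit 215547592445) (nat_lit 85) (nat_lit 5) (nat_lit 84) (nat_lit 5) (nat_lit 94) (nat_lit 5) (nat_lit 330) (nat_lit 329) (nat_lit 121)) (XT.lf (nat_lit 0) (nat_lit 748302305107) (nat_lit 684) (nat_lit 192298234038) (nat_lit 760) (nat_lit 26993136988) (nat_lit 85) (nat_lit 5) (nat_lit 94) (nat_lit 5) (nat_lit 95) (nat_lit 5) (nat_lit 332) (nat_lit 330) (nat_lit 118))))))))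

set_option maxRecDepth 10000000 in
noncomputable def Tp : PT := (PT.nd (nat_lit 5374668) (PT.nd (nat_lit 5090280) (PT.nd (nat_lit 4805970) pc0 pc1) (PT.nd (nat_lit 162630) pc2 pc3)) (PT.nd (nat_lit 162708) (PT.nd (nat_lit 120588) pc4 pc5) (PT.nd (nat_lit 120276) pc6 pc7)))

set_option maxRecDepth 10000000 in
noncomputable def Tx : XT := (XT.nd (nat_lit 8764470) (nat_lit 0) (nat_lit 76) XT.nil (XT.nd (nat_lit 4672044) (nat_lit 0) (nat_lit 0) (XT.nd (nat_lit 2148588) (nat_lit 0) (nat_lit 0) (XT.nd (nat_lit 1462266) (nat_lit 0) (nat_lit 0) (XT.nd (nat_lit 1052532) (nat_lit 0) (nat_lit 0) (XT.nd (nat_lit 729768) (nat_lit 0) (nat_lit 0) (XT.nd (nat_lit 526266) (nat_lit 0) (nat_lit 0) (XT.nd (nat_lit 364572) (nat_lit 0) (nat_lit 0) (XT.nd (nat_lit 243360) (nat_lit 0) (nat_lit 0) xc0 xc1) (XT.nd (nat_lit 81120) (nat_lit 0) (nat_lit 0) xc2 xc3)) (XT.nd (nat_lit 83148) (nat_lit 0) (nat_lit 0)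 (XT.nd (nat_lit 41652) (nat_lit 0) (nat_lit 0) xc4 xc5) (XT.nd (nat_lit 79248) (nat_lit 0) (nat_lit 0) xc6 xc7))) (XT.nd (nat_lit 162630) (nat_lit 0) (nat_lit 0) (XT.nd (nat_lit 81588) (nat_lit 0) (nat_lit 0) (XT.nd (nat_lit 40872) (nat_lit 0) (nat_lit 0) xc8 xc9) (XT.nd (nat_lit 40560) (nat_lit 0) (nat_lit 0) xc10 xc11)) (XT.nd (nat_lit 80340) (nat_lit 0) (nat_lit 0) (XT.nd (nat_lit 40248) (nat_lit 0) (nat_lit 0) xc12 xc13) (XT.nd (nat_lit 39936) (nat_lit 0) (nat_lit 0) xc14 xc15)))) (XT.nd (nat_lit 206622) (nat_lit 0) (nat_lit 0) (XT.nd (nat_lit 121758) (nat_lit 0) (nat_lit 0) (XT.nd (nat_lit 42900) (nat_lit 0) (nat_lit 0) (XT.nd (nat_lit 3276) (nat_lit 0) (nat_lit 0) xc16 xc17) (XT.nd (nat_lit 39468) (nat_lit 0) (nat_lit 0) xc18 xc19)) (XT.nd (nat_lit 42432) (nat_lit 0) (nat_lit 0) (XT.nd (nat_lit 3276) (nat_lit 0) (nat_lit 0) xc20 xc21) (XT.nd (nat_lit 39078) (nat_lit 0) (nat_lit 0)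 xc22 xc23))) (XT.nd (nat_lit 119652) (nat_lit 0) (nat_lit 0) (XT.nd (nat_lit 77688) (nat_lit 0) (nat_lit 0) (XT.nd (nat_lit 38922) (nat_lit 0) (nat_lit 0) xc24 xc25) (XT.nd (nat_lit 3276) (nat_lit 0) (nat_lit 0) xc26 xc27)) (XT.nd (nat_lit 41808) (nat_lit 0) (nat_lit 0) (XT.nd (nat_lit 38454) (nat_lit 0) (nat_lit 0) xc28 xc29) (XT.nd (nat_lit 38298) (nat_lit 0) (nat_lit 0) xc30 xc31))))) (XT.nd (nat_lit 361140) (nat_lit 0) (nat_lit 0) (XT.nd (nat_lit 199134) (nat_lit 0) (nat_lit 0) (XT.nd (nat_lit 117312) (nat_lit 0) (nat_lit 0) (XT.nd (nat_lit 76128) (nat_lit 0) (nat_lit 0) (XT.nd (nat_lit 38142) (nat_lit 0) (nat_lit 0) xc32 xc33) (XT.nd (nat_lit 3276) (nat_lit 228) (nat_lit 0) xc34 xc35)) (XT.nd (nat_lit 40950) (nat_lit 0) (nat_lit 0) (XT.nd (nat_lit 3276) (nat_lit 76) (nat_lit 0) xc36 xc37) (XT.nd (nat_lit 3276) (nat_lit 76) (nat_lit 0) xc38 xc39))) (XT.nd (nat_lit 81198) (nat_lit 0)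 (nat_lit 0) (XT.nd (nat_lit 40638) (nat_lit 0) (nat_lit 0) (XT.nd (nat_lit 3276) (nat_lit 76) (nat_lit 0) xc40 xc41) (XT.nd (nat_lit 3276) (nat_lit 76) (nat_lit 0) xc42 xc43)) (XT.nd (nat_lit 40482) (nat_lit 0) (nat_lit 0) (XT.nd (nat_lit 3276) (nat_lit 76) (nat_lit 0) xc44 xc45) (XT.nd (nat_lit 3276) (nat_lit 76) (nat_lit 0) xc46 xc47)))) (XT.nd (nat_lit 161928) (nat_lit 0) (nat_lit 0) (XT.nd (nat_lit 80808) (nat_lit 0) (nat_lit 0) (XT.nd (nat_lit 40326) (nat_lit 0) (nat_lit 0) (XT.nd (nat_lit 3276) (nat_lit 152) (nat_lit 0) xc48 xc49) (XT.nd (nat_lit 3276) (nat_lit 228) (nat_lit 0) xc50 xc51)) (XT.nd (nat_lit 40482) (nat_lit 0) (nat_lit 0) (XT.nd (nat_lit 3276) (nat_lit 304) (nat_lit 0) xc52 xc53) (XT.nd (nat_lit 3276) (nat_lit 380) (nat_lit 0) xc54 xc55))) (XT.nd (nat_lit 81432) (nat_lit 0) (nat_lit 0) (XT.nd (nat_lit 40638) (nat_lit 0) (nat_lit 0) (XT.nd (nat_lit 3276) (nat_lit 456)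 (nat_lit 0) xc56 xc57) (XT.nd (nat_lit 3276) (nat_lit 456) (nat_lit 0) xc58 xc59)) (XT.nd (nat_lit 40872) (nat_lit 0) (nat_lit 0) (XT.nd (nat_lit 3276) (nat_lit 456) (nat_lit 0) xc60 xc61) (XT.nd (nat_lit 3276) (nat_lit 304) (nat_lit 0) xc62 xc63)))))) (XT.nd (nat_lit 774852) (nat_lit 0) (nat_lit 228) (XT.nd (nat_lit 365742) (nat_lit 0) (nat_lit 76) (XT.nd (nat_lit 164658) (nat_lit 0) (nat_lit 76) (XT.nd (nat_lit 82134) (nat_lit 0) (nat_lit 0) (XT.nd (nat_lit 40950) (nat_lit 0) (nat_lit 0) (XT.nd (nat_lit 3276) (nat_lit 304) (nat_lit 0) xc64 xc65) (XT.nd (nat_lit 3276) (nat_lit 228) (nat_lit 0) xc66 xc67)) (XT.nd (nat_lit 41184) (nat_lit 0) (nat_lit 76) (XT.nd (nat_lit 3276) (nat_lit 76) (nat_lit 0) xc68 xc69) (XT.nd (nat_lit 3276) (nat_lit 0) (nat_lit 0) xc70 xc71))) (XT.nd (nat_lit 82836) (nat_lit 0) (nat_lit 0) (XT.nd (nat_lit 41340) (nat_lit 0) (nat_lit 0) (XT.nd (nat_lit 38064) (nat_lit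 0) (nat_lit 532) xc72 xc73) (XT.nd (nat_lit 38142) (nat_lit 0) (nat_lit 228) xc74 xc75)) (XT.nd (nat_lit 41496) (nat_lit 0) (nat_lit 0) (XT.nd (nat_lit 38220) (nat_lit 0) (nat_lit 0) xc76 xc77) (XT.nd (nat_lit 38298) (nat_lit 0) (nat_lit 0) xc78 xc79)))) (XT.nd (nat_lit 203424) (nat_lit 0) (nat_lit 0) (XT.nd (nat_lit 83772) (nat_lit 0) (nat_lit 0) (XT.nd (nat_lit 41808) (nat_lit 0) (nat_lit 0) (XT.nd (nat_lit 3276) (nat_lit 456) (nat_lit 0) xc80 xc81) (XT.nd (nat_lit 3276) (nat_lit 152) (nat_lit 0) xc82 xc83)) (XT.nd (nat_lit 41964) (nat_lit 0) (nat_lit 0) (XT.nd (nat_lit 38688) (nat_lit 0) (nat_lit 304) xc84 xc85) (XT.nd (nat_lit 38766) (nat_lit 0) (nat_lit 0) xc86 xc87))) (XT.nd (nat_lit 84552) (nat_lit 0) (nat_lit 152) (XT.nd (nat_lit 42198) (nat_lit 0) (nat_lit 76) (XT.nd (nat_lit 3276) (nat_lit 532) (nat_lit 0) xc88 xc89) (XT.nd (nat_lit 39000) (nat_lit 0) (nat_lit 608) xc90 xc91))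 (XT.nd (nat_lit 78468) (nat_lit 0) (nat_lit 0) (XT.nd (nat_lit 39156) (nat_lit 0) (nat_lit 0) xc92 xc93) (XT.nd (nat_lit 3276) (nat_lit 304) (nat_lit 0) xc94 xc95))))) (XT.nd (nat_lit 529542) (nat_lit 0) (nat_lit 532) (XT.nd (nat_lit 244452) (nat_lit 0) (nat_lit 152) (XT.nd (nat_lit 121758) (nat_lit 0) (nat_lit 76) (XT.nd (nat_lit 42666) (nat_lit 0) (nat_lit 76) (XT.nd (nat_lit 39390) (nat_lit 0) (nat_lit 76) xc96 xc97) (XT.nd (nat_lit 39468) (nat_lit 0) (nat_lit 0) xc98 xc99)) (XT.nd (nat_lit 79482) (nat_lit 0) (nat_lit 76) (XT.nd (nat_lit 39702) (nat_lit 0) (nat_lit 0) xc100 xc101) (XT.nd (nat_lit 3276) (nat_lit 380) (nat_lit 0) xc102 xc103))) (XT.nd (nat_lit 160446) (nat_lit 0) (nat_lit 152) (XT.nd (nat_lit 79950) (nat_lit 0) (nat_lit 152) (XT.nd (nat_lit 39936) (nat_lit 0) (nat_lit 76) xc104 xc105) (XT.nd (nat_lit 40170) (nat_lit 0) (nat_lit 0) xc106 xc107)) (XT.nd (nat_lit 43680)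 (nat_lit 0) (nat_lit 76) (XT.nd (nat_lit 3276) (nat_lit 228) (nat_lit 0) xc108 xc109) (XT.nd (nat_lit 40404) (nat_lit 0) (nat_lit 0) xc110 xc111)))) (XT.nd (nat_lit 365898) (nat_lit 0) (nat_lit 760) (XT.nd (nat_lit 163098) (nat_lit 0) (nat_lit 228) (XT.nd (nat_lit 81354) (nat_lit 0) (nat_lit 76) (XT.nd (nat_lit 40638) (nat_lit 0) (nat_lit 0) xc112 xc113) (XT.nd (nat_lit 40794) (nat_lit 0) (nat_lit 0) xc114 xc115)) (XT.nd (nat_lit 120042) (nat_lit 0) (nat_lit 304) (XT.nd (nat_lit 78858) (nat_lit 0) (nat_lit 76) xc116 xc117) (XT.nd (nat_lit 41262) (nat_lit 0) (nat_lit 76) xc118 xc119))) (XT.nd (nat_lit 282906) (nat_lit 0) (nat_lit 1064) (XT.nd (nat_lit 121446) (nat_lit 0) (nat_lit 304) (XT.nd (nat_lit 79794) (nat_lit 0) (nat_lit 152) xc120 xc121) (XT.nd (nat_lit 80496) (nat_lit 0) (nat_lit 380) xc122 xc123)) (XT.nd (nat_lit 163332) (nat_lit 0) (nat_lit 760) (XT.nd (nat_lit 42354) (nat_lit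 0) (nat_lit 76) xc124 xc125) (XT.nd (nat_lit 121992) (nat_lit 0) (nat_lit 1672) xc126 xc127))))))) XT.nil))

set_option maxRecDepth 10000000 in
noncomputable def Te : XT := XT.nil

set_option maxRecDepth 10000000 in
noncomputable def Tz : ZL := (ZL.cons (nat_lit 76) (nat_lit 3) (nat_lit 102830438041974612283) (ZL.cons (nat_lit 152) (nat_lit 6) (nat_lit 198627594908951144256) (ZL.cons (nat_lit 228) (nat_lit 6) (nat_lit 192176780040336835856) (ZL.cons (nat_lit 304) (nat_lit 3) (nat_lit 95813118673922355828) (ZL.cons (nat_lit 380) (nat_lit 6) (nat_lit 185209899982233382782) (ZL.cons (nat_lit 456) (nat_lit 6) (nat_lit 179340560072172794198) (ZL.cons (nat_lit 532) (nat_lit 3) (nat_lit 89415399159932635897) (ZL.cons (nat_lit 608) (nat_lit 6) (nat_lit 173001672969307358530) (ZL.cons (nat_lit 684) (nat_lit 6) (nat_lit 167687980965519299798) (ZL.cons (nat_lit 760) (nat_lit 3) (nat_lit 83607989671506167304)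 (ZL.cons (nat_lit 836) (nat_lit 6) (nat_lit 161949193601428196370) (ZL.cons (nat_lit 912) (nat_lit 6) (nat_lit 157170105162382593364) (ZL.cons (nat_lit 988) (nat_lit 3) (nat_lit 78366533311512146131) (ZL.cons (nat_lit 1064) (nat_lit 6) (nat_lit 152850393501792292390) (ZL.cons (nat_lit 1140) (nat_lit 6) (nat_lit 152008689648213342118) (ZL.cons (nat_lit 1216) (nat_lit 6) (nat_lit 147748066368996466234) (ZL.cons (nat_lit 1292) (nat_lit 3) (nat_lit 73671700527387908532) (ZL.cons (nat_lit 1368) (nat_lit 6) (nat_lit 143925948647422749786) (ZL.cons (nat_lit 1444) (nat_lit 6) (nat_lit 143146593227442240276) (ZL.cons (nat_lit 1520) (nat_lit 6) (nat_lit 139393396193902486856) (ZL.cons (nat_lit 1596) (nat_lit 3) (nat_lit 69509353044071313258) (ZL.cons (nat_lit 1672) (nat_lit 6) (nat_lit 136061568786550395298) (ZL.cons (nat_lit 1748) (nat_lit 6) (nat_lit 135339943397679553162) (ZL.cons (nat_lit 1824)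 (nat_lit 6) (nat_lit 133131366842972027286) (ZL.cons (nat_lit 1900) (nat_lit 6) (nat_lit 132088505080850276076) (ZL.cons (nat_lit 1976) (nat_lit 3) (nat_lit 65870784898869647140) (ZL.cons (nat_lit 2052) (nat_lit 6) (nat_lit 129245123355036547696) (ZL.cons (nat_lit 2128) (nat_lit 6) (nat_lit 128576951698674656826) (ZL.cons (nat_lit 2204) (nat_lit 6) (nat_lit 126792948550752064442) (ZL.cons (nat_lit 2280) (nat_lit 6) (nat_lit 125827335808046739248) (ZL.cons (nat_lit 2356) (nat_lit 3) (nat_lit 62753049717397915087) (ZL.cons (nat_lit 2432) (nat_lit 6) (nat_lit 124717449261749214560) (ZL.cons (nat_lit 2508) (nat_lit 6) (nat_lit 123476428105762931658) (ZL.cons (nat_lit 2584) (nat_lit 6) (nat_lit 122857750646168588260) (ZL.cons (nat_lit 2660) (nat_lit 6) (nat_lit 123006326232982055240) (ZL.cons (nat_lit 2736) (nat_lit 6) (nat_lit 121510297286920811494) (ZL.cons (nat_lit 2812) (nat_lit 6) (nat_lit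 120616211414045510388) (ZL.cons (nat_lit 2888) (nat_lit 3) (nat_lit 60159385163851038032) (ZL.cons (nat_lit 2964) (nat_lit 6) (nat_lit 119917292205927240270) (ZL.cons (nat_lit 3040) (nat_lit 6) (nat_lit 118768198542976978320) (ZL.cons (nat_lit 3116) (nat_lit 6) (nat_lit 118195349043352586288) (ZL.cons (nat_lit 3192) (nat_lit 3) (nat_lit 58559904887605864442) (ZL.cons (nat_lit 3268) (nat_lit 6) (nat_lit 117293363792249457920) (ZL.cons (nat_lit 3344) (nat_lit 6) (nat_lit 117815054311611757506) (ZL.cons (nat_lit 3420) (nat_lit 6) (nat_lit 118687972832672626450) (ZL.cons (nat_lit 3496) (nat_lit 6) (nat_lit 117302760845578882240) (ZL.cons (nat_lit 3572) (nat_lit 6) (nat_lit 116474903555879529364) (ZL.cons (nat_lit 3648) (nat_lit 3) (nat_lit 58099747571299285828) (ZL.cons (nat_lit 3724) (nat_lit 6) (nat_lit 115126097966333798438) (ZL.cons (nat_lit 3800) (nat_lit 6) (nat_lit 115487090321772274838)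 (ZL.cons (nat_lit 3876) (nat_lit 6) (nat_lit 116211214246607381574) (ZL.cons (nat_lit 3952) (nat_lit 6) (nat_lit 115147238632764546438) (ZL.cons (nat_lit 4028) (nat_lit 6) (nat_lit 114616822429408627886) (ZL.cons (nat_lit 4104) (nat_lit 3) (nat_lit 56726811265353388533) (ZL.cons (nat_lit 4180) (nat_lit 6) (nat_lit 113641060869107524430) (ZL.cons (nat_lit 4256) (nat_lit 6) (nat_lit 114204486630018807980) (ZL.cons (nat_lit 4332) (nat_lit 6) (nat_lit 113437952102519407168) (ZL.cons (nat_lit 4408) (nat_lit 3) (nat_lit 56591472156222223162) (ZL.cons (nat_lit 4484) (nat_lit 6) (nat_lit 112266026519823937382) (ZL.cons (nat_lit 4560) (nat_lit 6) (nat_lit 112655898263697491896) (ZL.cons (nat_lit 4636) (nat_lit 6) (nat_lit 112164772149479048792) (ZL.cons (nat_lit 4712) (nat_lit 3) (nat_lit 55676919461111027703) (ZL.cons (nat_lit 4788) (nat_lit 6) (nat_lit 111556272327694862556) (ZL.cons (nat_lit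 4864) (nat_lit 3) (nat_lit 55660077001775690148) (ZL.cons (nat_lit 4940) (nat_lit 6) (nat_lit 110899092520167941424) (ZL.cons (nat_lit 5016) (nat_lit 1) (nat_lit 18446744073709551617) ZL.nil))))))))))))))))))))))))))))))))))))))))))))))))))))))))))))))))))

noncomputable def vl : XL := ⟨(nat_lit 0), (nat_lit 76), (nat_lit 407067048), (nat_lit 152), (nat_lit 94125417), (nat_lit 152), (nat_lit 94125417), (nat_lit 1), (nat_lit 4), (nat_lit 2), (nat_lit 5), (nat_lit 2), (nat_lit 4), (nat_lit 0), (nat_lit 0), (nat_lit 0)⟩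

noncomputable def cp0 : Nat := (nat_lit 3131292982885834982470729934583687507197996188965042984676598734248918209110480997883774575371423604560941432438419330218111221099876471032628068999812101016915773185561610350118074091598025314930734106754526440687601136349706742539009306887012263092003977351303203026893249733088140819810010371716894266954269321397554895682948196667689705811609528327182467160317096482495292496844264568629197801374743802216556074610542216539162774725709196220415414027908322385807495820341780638380854537303046803318154284484988114742587541418967807424904761519517134309861252077244154897839666071109105315193914665944698651235291358228045065658945164761194706138360037824291476543733662545395734830853730267819237613709642959205912524964517975236097529438740496803565714926406860434343522475599452444182115063372143314065733089737907408263835143258974880891651808604690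1399319631707328283855110071160941363134830667504035732251443683523537053417725282654198509471609338576377240322508732315959194916883160233626541036966612559344702919568238155310285905423591830084314858504001992110755929847557262833187743006093843677194064506566690642657261036337901828947751314796229487494215681733344763208959558928757730347682138743312917991545256681077762841568511919371135910499257609811404950964586195489053889312300466748319019294368042793554770249030077329311611954937570840490582217470853306723826509558898058995293925316468777867827783160503620678144258532860969788501960143246533479955100893498489194937633593496559562821665389903321124944478208)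

noncomputable def cp1 : Nat := (nat_lit 1992678448482821622802452911034734832171283122494131268690134158860280269367894731682804509843842385919012320078583505261035558027536776166636837063976596993996178643853738604791778028135727117278591257100983060699343422141491616400344495026758884049019591125946173674760745564589706578012195052152499955296005250581660819617489110338224209721846101358984594753111126048206374325064939225547740320122843888616107084157274722927077566383190981888563058450204071578424431056550294256399870075830807654945704762858875452978589021076757537368560160439298307003011848512467249976586043614208679817509985528450377788978003187810020624787392777138725281463749608628777915253020786958322365332749913844897835862333364879026235231995450715811800204910925017418415961217222490583690822661296820294639467475799506685262507236327390195450372293831163904610584114904057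7770712383086139496734676591370037372047927541986937812014732020254330706704606003681166116645413482734952604878721062781622238788801004595239423148273397081936976510272799536703386830409821188293248876138874124635671102745127249612148142034313384869358468113966596484103390382973224002800473112766951822267499454518854524270483072510175681574892319063615548231429475396619065621869358447208960970905425831447533801254493679090275556595369645687728908985690121001234770217518190660066349684774709854909816573659297638442246092359033507877681709259607150502822834239724548523306042656453535127203717734330770164211344047582780577457552059027707296784865040653911571630338978935241272382879627671716596213925170398768150420843081727554765901787562516107367065934328465672695174516260025302618741079735472150116781623540957985139069473620224376198817784154128733638037533757471610964175238347465132776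700080418556185380536758862585740302080837329963729548171102248960783656309639294205964635785456686357779666137206467307242248735992212680496265385831678603754519027665204528907017247613311147696750909349729947644065972503011090145828831752834211005264941618695989247950145479156867399401595864634176043205952931489660982490197753929317970894951292861804124810689627127581090942915947436479812073824008891649681222620312792720386231197848703450817176081720525415852475288636604434215087215514869609305527603681008681273749270979973192297395773351998384104539719045826245286415573654057345482566880661928598334786048218764796549964907915217529811454477797689564116554901823679846706073318927722288253019142550608418360373549288051648945249356504313824740892547680432352674077094864724813149023071560790889206218503059096236387044861391373536156452048466378300463354052320616047903832820620184628210407962540345715036381016675283347768915570898455577685809228820377894919140949548756058115582681855399579848560864182584635877282849439123222848426142629631112851698492770073009305982249540221623023819279114789160027579676255415719360728006937598771913832539523221926335616547857407874956046573778496364302942588497906970219950816111486818377423694503643767578522655936181948518063072053308350620849531227471872)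

noncomputable def rc0 : Nat := (nat_lit 1992678448482821622802452911034734832171283122494131268690134158860280269367894731682804509843842385919012320078583505261035558027536776166636837063976596993996178643853738604791778028135727117278591257100983060699343422141491616400344495026758884049019591125946173674760745564589706578012195052152499955296005250581660819617489110338224209721846101358984594753111126048206374325064939225547740320122843888616107084157274722927077566383190981888563058450204071578424431056550294256399870075830807654945704762858875452978589021076757537368560160439298307003011848512467249976586043614208679817509985528450377788978003187810020624787392777138725281463749608628777915253020786958322365332749913844897835862333364879026235231995450715811800204910925017418415961217222490583690822661296820294639467475799506685262507236327390195450372293831163904610584114904057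7770712383086139496734676591370037372047927541986937812014732020254330706704606003681166116645413482734952604878721062781622238788801004595239423148273397081936976510272799536703386830409821188293248876138874124635671102745127249612148142034313384869358468113966596484103390382973224002800473112766951822267499454518854524270483072510175681574892319063615548231429475396619065621869358447208960970905425831447533801254493679090275556595369645687728908985690121001234770217518190660066349684774709854909816573659297638442246092359033507877681709259607150502822834239724548523306042656453535127203717734330770164211344047582780577457552059027707296784865040653911571630338978935241272382879627671716596213925170398768150420843081727554765901787562516107367065934328465672695174516260025302618741079735472150116781623540957985139069473620224376198817784154128733638037533757471610964175238347465132776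700080418556185380536758862585740302080837329963729548171102248960783656309639294205964635785456686357779666137206467307242248735992212680496265385831678603754519027665204528907017247613311147696750909349729947644065972503011090145828831752834211005264941618695989247950145479156867399401595864634176043205952931489660982490197753929317970894951292861804124810689627127581090942915947436479812073824008891649681222620312792720386231197848703450817176081720525415852475288636604434215087215514869609305527603681008681273749270979973192297395773351998384104539719045826245286415573654057345482566880661928598334786048218764796549964907915217529811454477797689564116554901823679846706073318927722288253019142550608418360373549288051648945249356504313824740892547680432352674077094864724813149023071560790889206218503059096236387044861391373536156452048466378300463354052320616047903832820620184628210407962540345715036381016675283347768915570898455577685809228820377894919140949548756058115582681855399579848560864182584635877282849439123222848426142629631112851698492770073009305982249540221623023819279114789160027579676255415719360728006937598771913832539523221926335616547857407874956046573778496364302942588497906970219950816111486818377423694503643767578522655936181948518063072053308350620849531227471872)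

end Vale.Agent.Lib.P154.PChain.BP.S3
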