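import Vale.Agent.Lib.P154.PChain.BP.R3_0

set_option linter.all false

namespace Vale.Agent.Lib.P154.PChain.BP.S4

open Vale.Agent.Lib.P154.Chain

noncomputable def pc0 : PT := (PT.nd (nat_lit 4034550) (PT.nd (nat_lit 3872076) (PT.nd (nat_lit 3750396) (PT.nd (nat_lit 3709758) (PT.nd (nat_lit 3709680) (PT.nd (nat_lit 3669120) PT.nil (PT.lf (nat_lit 76) (nat_lit 3) (nat_lit 1) (nat_lit 1) (nat_lit 150) (nat_lit 90) (nat_lit 150))) (PT.lf (nat_lit 152) (nat_lit 6) (nat_lit 2) (nat_lit 3) (nat_lit 149) (nat_lit 91) (nat_lit 150))) (PT.nd (nat_lit 40482) (PT.lf (nat_lit 152) (nat_lit 6) (nat_lit 2) (nat_lit 1) (nat_lit 150) (nat_lit 91) (nat_lit 149)) (PT.nd (nat_lit 78) (PT.lf (nat_lit 228) (nat_lit 6) (nat_lit 3) (nat_lit 3) (nat_lit 148) (nat_lit 92) (nat_lit 150)) (PT.lf (nat_lit 304) (nat_lit 3) (nat_lit 4) (nat_lit 1) (nat_lit 149) (nat_lit 92) (nat_lit 149))))) (PT.nd (nat_lit 81042)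 (PT.nd (nat_lit 40482) (PT.lf (nat_lit 228) (nat_lit 6) (nat_lit 3) (nat_lit 1) (nat_lit 150) (nat_lit 92) (nat_lit 148)) (PT.nd (nat_lit 78) (PT.lf (nat_lit 380) (nat_lit 6) (nat_lit 5) (nat_lit 3) (nat_lit 148) (nat_lit 93) (nat_lit 149)) (PT.lf (nat_lit 380) (nat_lit 6) (nat_lit 5) (nat_lit 1) (nat_lit 149) (nat_lit 93) (nat_lit 148)))) (PT.nd (nat_lit 78) (PT.lf (nat_lit 456) (nat_lit 6) (nat_lit 6) (nat_lit 3) (nat_lit 147) (nat_lit 94) (nat_lit 149)) (PT.nd (nat_lit 78) (PT.lf (nat_lit 532) (nat_lit 3) (nat_lit 7) (nat_lit 1) (nat_lit 148) (nat_lit 94) (nat_lit 148)) (PT.lf (nat_lit 456) (nat_lit 6) (nat_lit 6) (nat_lit 1) (nat_lit 149) (nat_lit 94) (nat_lit 147)))))) (PT.nd (nat_lit 81198) (PT.nd (nat_lit 40560) (PT.nd (nat_lit 78) (PT.lf (nat_lit 608) (nat_lit 6) (nat_lit 8) (nat_lit 3) (nat_lit 147) (nat_lit 95) (nat_lit 148)) (PT.lf (nat_lit 608) (nat_lit 6) (nat_lit 8) (nat_lit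 1) (nat_lit 148) (nat_lit 95) (nat_lit 147))) (PT.nd (nat_lit 78) (PT.lf (nat_lit 684) (nat_lit 6) (nat_lit 9) (nat_lit 3) (nat_lit 146) (nat_lit 96) (nat_lit 148)) (PT.nd (nat_lit 78) (PT.lf (nat_lit 760) (nat_lit 3) (nat_lit 10) (nat_lit 1) (nat_lit 147) (nat_lit 96) (nat_lit 147)) (PT.lf (nat_lit 684) (nat_lit 6) (nat_lit 9) (nat_lit 1) (nat_lit 148) (nat_lit 96) (nat_lit 146))))) (PT.nd (nat_lit 40638) (PT.nd (nat_lit 78) (PT.lf (nat_lit 836) (nat_lit 6) (nat_lit 11) (nat_lit 3) (nat_lit 146) (nat_lit 97) (nat_lit 147)) (PT.nd (nat_lit 40482) (PT.lf (nat_lit 836) (nat_lit 6) (nat_lit 11) (nat_lit 1) (nat_lit 147) (nat_lit 97) (nat_lit 146)) (PT.lf (nat_lit 912) (nat_lit 6) (nat_lit 12) (nat_lit 3) (nat_lit 145) (nat_lit 98) (nat_lit 147)))) (PT.nd (nat_lit 78) (PT.lf (nat_lit 988) (nat_lit 3) (nat_lit 13) (nat_lit 1) (nat_lit 146) (nat_lit 98) (nat_lit 146)) (PT.nd (nat_lit 40482)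 (PT.lf (nat_lit 912) (nat_lit 6) (nat_lit 12) (nat_lit 1) (nat_lit 147) (nat_lit 98) (nat_lit 145)) (PT.lf (nat_lit 1064) (nat_lit 6) (nat_lit 14) (nat_lit 3) (nat_lit 145) (nat_lit 99) (nat_lit 146))))))) (PT.nd (nat_lit 162240) (PT.nd (nat_lit 81120) (PT.nd (nat_lit 40560) (PT.nd (nat_lit 40482) (PT.lf (nat_lit 1064) (nat_lit 6) (nat_lit 14) (nat_lit 1) (nat_lit 146) (nat_lit 99) (nat_lit 145)) (PT.lf (nat_lit 1140) (nat_lit 6) (nat_lit 15) (nat_lit 3) (nat_lit 144) (nat_lit 100) (nat_lit 146))) (PT.nd (nat_lit 78) (PT.lf (nat_lit 1216) (nat_lit 3) (nat_lit 16) (nat_lit 1) (nat_lit 145) (nat_lit 100) (nat_lit 145)) (PT.nd (nat_lit 40404) (PT.lf (nat_lit 1140) (nat_lit 6) (nat_lit 15) (nat_lit 1) (nat_lit 146) (nat_lit 100) (nat_lit 144)) (PT.lf (nat_lit 1292) (nat_lit 6) (nat_lit 17) (nat_lit 3) (nat_lit 143) (nat_lit 101) (nat_lit 146))))) (PT.nd (nat_lit 40560) (PT.nd (nat_lit 78)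 (PT.lf (nat_lit 1368) (nat_lit 6) (nat_lit 18) (nat_lit 3) (nat_lit 144) (nat_lit 101) (nat_lit 145)) (PT.nd (nat_lit 78) (PT.lf (nat_lit 1368) (nat_lit 6) (nat_lit 18) (nat_lit 1) (nat_lit 145) (nat_lit 101) (nat_lit 144)) (PT.lf (nat_lit 1292) (nat_lit 6) (nat_lit 17) (nat_lit 1) (nat_lit 146) (nat_lit 101) (nat_lit 143)))) (PT.nd (nat_lit 78) (PT.lf (nat_lit 1444) (nat_lit 6) (nat_lit 19) (nat_lit 3) (nat_lit 143) (nat_lit 102) (nat_lit 145)) (PT.nd (nat_lit 78) (PT.lf (nat_lit 1520) (nat_lit 3) (nat_lit 20) (nat_lit 1) (nat_lit 144) (nat_lit 102) (nat_lit 144)) (PT.lf (nat_lit 1444) (nat_lit 6) (nat_lit 19) (nat_lit 1) (nat_lit 145) (nat_lit 102) (nat_lit 143)))))) (PT.nd (nat_lit 40794) (PT.nd (nat_lit 234) (PT.nd (nat_lit 78) (PT.lf (nat_lit 1596) (nat_lit 6) (nat_lit 21) (nat_lit 3) (nat_lit 142) (nat_lit 103) (nat_lit 145)) (PT.nd (nat_lit 78) (PT.lf (nat_lit 1672) (nat_lit 6)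 (nat_lit 22) (nat_lit 3) (nat_lit 143) (nat_lit 103) (nat_lit 144)) (PT.lf (nat_lit 1672) (nat_lit 6) (nat_lit 22) (nat_lit 1) (nat_lit 144) (nat_lit 103) (nat_lit 143)))) (PT.nd (nat_lit 40404) (PT.lf (nat_lit 1596) (nat_lit 6) (nat_lit 21) (nat_lit 1) (nat_lit 145) (nat_lit 103) (nat_lit 142)) (PT.nd (nat_lit 78) (PT.lf (nat_lit 1748) (nat_lit 6) (nat_lit 23) (nat_lit 3) (nat_lit 142) (nat_lit 104) (nat_lit 144)) (PT.lf (nat_lit 1824) (nat_lit 3) (nat_lit 24) (nat_lit 1) (nat_lit 143) (nat_lit 104) (nat_lit 143))))) (PT.nd (nat_lit 40560) (PT.nd (nat_lit 40404) (PT.lf (nat_lit 1748) (nat_lit 6) (nat_lit 23) (nat_lit 1) (nat_lit 144) (nat_lit 104) (nat_lit 142)) (PT.nd (nat_lit 78) (PT.lf (nat_lit 1900) (nat_lit 6) (nat_lit 25) (nat_lit 3) (nat_lit 141) (nat_lit 105) (nat_lit 144)) (PT.lf (nat_lit 1976) (nat_lit 6) (nat_lit 26) (nat_lit 3) (nat_lit 142) (nat_lit 105) (nat_lit 143))))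 (PT.nd (nat_lit 78) (PT.lf (nat_lit 1976) (nat_lit 6) (nat_lit 26) (nat_lit 1) (nat_lit 143) (nat_lit 105) (nat_lit 142)) (PT.nd (nat_lit 40326) (PT.lf (nat_lit 1900) (nat_lit 6) (nat_lit 25) (nat_lit 1) (nat_lit 144) (nat_lit 105) (nat_lit 141)) (PT.lf (nat_lit 2052) (nat_lit 6) (nat_lit 27) (nat_lit 3) (nat_lit 140) (nat_lit 106) (nat_lit 144))))))))
noncomputable def pc1 : PT := (PT.nd (nat_lit 162552) (PT.nd (nat_lit 81354) (PT.nd (nat_lit 40638) (PT.nd (nat_lit 156) (PT.nd (nat_lit 78) (PT.lf (nat_lit 2128) (nat_lit 6) (nat_lit 28) (nat_lit 3) (nat_lit 141) (nat_lit 106) (nat_lit 143)) (PT.lf (nat_lit 2204) (nat_lit 3) (nat_lit 29) (nat_lit 1) (nat_lit 142) (nat_lit 106) (nat_lit 142))) (PT.nd (nat_lit 78) (PT.lf (nat_lit 2128) (nat_lit 6) (nat_lit 28) (nat_lit 1) (nat_lit 143) (nat_lit 106) (nat_lit 141)) (PT.nd (nat_lit 40326) (PT.lf (nat_lit 2052) (nat_lit 6) (nat_lit 27) (nat_lit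 1) (nat_lit 144) (nat_lit 106) (nat_lit 140)) (PT.lf (nat_lit 2280) (nat_lit 6) (nat_lit 30) (nat_lit 3) (nat_lit 140) (nat_lit 107) (nat_lit 143))))) (PT.nd (nat_lit 40482) (PT.nd (nat_lit 78) (PT.lf (nat_lit 2356) (nat_lit 6) (nat_lit 31) (nat_lit 3) (nat_lit 141) (nat_lit 107) (nat_lit 142)) (PT.nd (nat_lit 78) (PT.lf (nat_lit 2356) (nat_lit 6) (nat_lit 31) (nat_lit 1) (nat_lit 142) (nat_lit 107) (nat_lit 141)) (PT.lf (nat_lit 2280) (nat_lit 6) (nat_lit 30) (nat_lit 1) (nat_lit 143) (nat_lit 107) (nat_lit 140)))) (PT.nd (nat_lit 78) (PT.lf (nat_lit 2432) (nat_lit 6) (nat_lit 32) (nat_lit 3) (nat_lit 139) (nat_lit 108) (nat_lit 143)) (PT.nd (nat_lit 78) (PT.lf (nat_lit 2508) (nat_lit 6) (nat_lit 33) (nat_lit 3) (nat_lit 140) (nat_lit 108) (nat_lit 142)) (PT.lf (nat_lit 2584) (nat_lit 3) (nat_lit 34) (nat_lit 1) (nat_lit 141) (nat_lit 108) (nat_lit 141)))))) (PT.nd (nat_lit 40560) (PT.nd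 (nat_lit 40326) (PT.nd (nat_lit 78) (PT.lf (nat_lit 2508) (nat_lit 6) (nat_lit 33) (nat_lit 1) (nat_lit 142) (nat_lit 108) (nat_lit 140)) (PT.lf (nat_lit 2432) (nat_lit 6) (nat_lit 32) (nat_lit 1) (nat_lit 143) (nat_lit 108) (nat_lit 139))) (PT.nd (nat_lit 78) (PT.lf (nat_lit 2660) (nat_lit 6) (nat_lit 35) (nat_lit 3) (nat_lit 138) (nat_lit 109) (nat_lit 143)) (PT.nd (nat_lit 78) (PT.lf (nat_lit 2736) (nat_lit 6) (nat_lit 36) (nat_lit 3) (nat_lit 139) (nat_lit 109) (nat_lit 142)) (PT.lf (nat_lit 2812) (nat_lit 6) (nat_lit 37) (nat_lit 3) (nat_lit 140) (nat_lit 109) (nat_lit 141))))) (PT.nd (nat_lit 40404) (PT.nd (nat_lit 78) (PT.lf (nat_lit 2812) (nat_lit 6) (nat_lit 37) (nat_lit 1) (nat_lit 141) (nat_lit 109) (nat_lit 140)) (PT.nd (nat_lit 78) (PT.lf (nat_lit 2736) (nat_lit 6) (nat_lit 36) (nat_lit 1) (nat_lit 142) (nat_lit 109) (nat_lit 139)) (PT.lf (nat_lit 2660) (nat_lit 6) (nat_lit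 35) (nat_lit 1) (nat_lit 143) (nat_lit 109) (nat_lit 138)))) (PT.nd (nat_lit 78) (PT.lf (nat_lit 2888) (nat_lit 6) (nat_lit 38) (nat_lit 3) (nat_lit 138) (nat_lit 110) (nat_lit 142)) (PT.nd (nat_lit 78) (PT.lf (nat_lit 2964) (nat_lit 6) (nat_lit 39) (nat_lit 3) (nat_lit 139) (nat_lit 110) (nat_lit 141)) (PT.lf (nat_lit 3040) (nat_lit 3) (nat_lit 40) (nat_lit 1) (nat_lit 140) (nat_lit 110) (nat_lit 140))))))) (PT.nd (nat_lit 81120) (PT.nd (nat_lit 40560) (PT.nd (nat_lit 40326) (PT.nd (nat_lit 78) (PT.lf (nat_lit 2964) (nat_lit 6) (nat_lit 39) (nat_lit 1) (nat_lit 141) (nat_lit 110) (nat_lit 139)) (PT.lf (nat_lit 2888) (nat_lit 6) (nat_lit 38) (nat_lit 1) (nat_lit 142) (nat_lit 110) (nat_lit 138))) (PT.nd (nat_lit 78) (PT.lf (nat_lit 3116) (nat_lit 6) (nat_lit 41) (nat_lit 3) (nat_lit 137) (nat_lit 111) (nat_lit 142)) (PT.nd (nat_lit 78) (PT.lf (nat_lit 3192) (nat_lit 6) (nat_lit 42) (nat_lit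 3) (nat_lit 138) (nat_lit 111) (nat_lit 141)) (PT.lf (nat_lit 3268) (nat_lit 6) (nat_lit 43) (nat_lit 3) (nat_lit 139) (nat_lit 111) (nat_lit 140))))) (PT.nd (nat_lit 40326) (PT.nd (nat_lit 78) (PT.lf (nat_lit 3268) (nat_lit 6) (nat_lit 43) (nat_lit 1) (nat_lit 140) (nat_lit 111) (nat_lit 139)) (PT.nd (nat_lit 78) (PT.lf (nat_lit 3192) (nat_lit 6) (nat_lit 42) (nat_lit 1) (nat_lit 141) (nat_lit 111) (nat_lit 138)) (PT.lf (nat_lit 3116) (nat_lit 6) (nat_lit 41) (nat_lit 1) (nat_lit 142) (nat_lit 111) (nat_lit 137)))) (PT.nd (nat_lit 78) (PT.lf (nat_lit 3344) (nat_lit 6) (nat_lit 44) (nat_lit 3) (nat_lit 136) (nat_lit 112) (nat_lit 142)) (PT.nd (nat_lit 78) (PT.lf (nat_lit 3420) (nat_lit 6) (nat_lit 45) (nat_lit 3) (nat_lit 137) (nat_lit 112) (nat_lit 141)) (PT.lf (nat_lit 3496) (nat_lit 6) (nat_lit 46) (nat_lit 3) (nat_lit 138) (nat_lit 112) (nat_lit 140)))))) (PT.nd (nat_lit 40560) (PT.nd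 (nat_lit 234) (PT.nd (nat_lit 78) (PT.lf (nat_lit 3572) (nat_lit 3) (nat_lit 47) (nat_lit 1) (nat_lit 139) (nat_lit 112) (nat_lit 139)) (PT.nd (nat_lit 78) (PT.lf (nat_lit 3496) (nat_lit 6) (nat_lit 46) (nat_lit 1) (nat_lit 140) (nat_lit 112) (nat_lit 138)) (PT.lf (nat_lit 3420) (nat_lit 6) (nat_lit 45) (nat_lit 1) (nat_lit 141) (nat_lit 112) (nat_lit 137)))) (PT.nd (nat_lit 40170) (PT.lf (nat_lit 3344) (nat_lit 6) (nat_lit 44) (nat_lit 1) (nat_lit 142) (nat_lit 112) (nat_lit 136)) (PT.nd (nat_lit 78) (PT.lf (nat_lit 3648) (nat_lit 6) (nat_lit 48) (nat_lit 3) (nat_lit 136) (nat_lit 113) (nat_lit 141)) (PT.lf (nat_lit 3724) (nat_lit 6) (nat_lit 49) (nat_lit 3) (nat_lit 137) (nat_lit 113) (nat_lit 140))))) (PT.nd (nat_lit 234) (PT.nd (nat_lit 78) (PT.lf (nat_lit 3800) (nat_lit 6) (nat_lit 50) (nat_lit 3) (nat_lit 138) (nat_lit 113) (nat_lit 139)) (PT.nd (nat_lit 78) (PT.lf (nat_lit 3800)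 (nat_lit 6) (nat_lit 50) (nat_lit 1) (nat_lit 139) (nat_lit 113) (nat_lit 138)) (PT.lf (nat_lit 3724) (nat_lit 6) (nat_lit 49) (nat_lit 1) (nat_lit 140) (nat_lit 113) (nat_lit 137)))) (PT.nd (nat_lit 40170) (PT.lf (nat_lit 3648) (nat_lit 6) (nat_lit 48) (nat_lit 1) (nat_lit 141) (nat_lit 113) (nat_lit 136)) (PT.nd (nat_lit 78) (PT.lf (nat_lit 3876) (nat_lit 6) (nat_lit 51) (nat_lit 3) (nat_lit 135) (nat_lit 114) (nat_lit 141)) (PT.lf (nat_lit 3952) (nat_lit 6) (nat_lit 52) (nat_lit 3) (nat_lit 136) (nat_lit 114) (nat_lit 140))))))))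
noncomputable def pc2 : PT := (PT.nd (nat_lit 121758) (PT.nd (nat_lit 40872) (PT.nd (nat_lit 40404) (PT.nd (nat_lit 156) (PT.nd (nat_lit 78) (PT.lf (nat_lit 4028) (nat_lit 6) (nat_lit 53) (nat_lit 3) (nat_lit 137) (nat_lit 114) (nat_lit 139)) (PT.lf (nat_lit 4104) (nat_lit 3) (nat_lit 54) (nat_lit 1) (nat_lit 138) (nat_lit 114) (nat_lit 138))) (PT.nd (nat_lit 78) (PT.lf (nat_lit 4028) (nat_lit 6) (nat_lit 53) (nat_lit 1) (nat_lit 139) (nat_lit 114) (nat_lit 137)) (PT.nd (nat_lit 78) (PT.lf (nat_lit 3952) (nat_lit 6) (nat_lit 52) (nat_lit 1) (nat_lit 140) (nat_lit 114) (nat_lit 136)) (PT.lf (nat_lit 3876) (nat_lit 6) (nat_lit 51) (nat_lit 1) (nat_lit 141) (nat_lit 114) (nat_lit 135))))) (PT.nd (nat_lit 234) (PT.nd (nat_lit 78) (PT.lf (nat_lit 4180) (nat_lit 6) (nat_lit 55) (nat_lit 3) (nat_lit 134) (nat_lit 115) (nat_lit 141)) (PT.nd (nat_lit 78) (PT.lf (nat_lit 4256) (nat_lit 6) (nat_lit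 56) (nat_lit 3) (nat_lit 135) (nat_lit 115) (nat_lit 140)) (PT.lf (nat_lit 4332) (nat_lit 6) (nat_lit 57) (nat_lit 3) (nat_lit 136) (nat_lit 115) (nat_lit 139)))) (PT.nd (nat_lit 78) (PT.lf (nat_lit 4408) (nat_lit 6) (nat_lit 58) (nat_lit 3) (nat_lit 137) (nat_lit 115) (nat_lit 138)) (PT.nd (nat_lit 78) (PT.lf (nat_lit 4408) (nat_lit 6) (nat_lit 58) (nat_lit 1) (nat_lit 138) (nat_lit 115) (nat_lit 137)) (PT.lf (nat_lit 4332) (nat_lit 6) (nat_lit 57) (nat_lit 1) (nat_lit 139) (nat_lit 115) (nat_lit 136)))))) (PT.nd (nat_lit 40404) (PT.nd (nat_lit 40170) (PT.nd (nat_lit 78) (PT.lf (nat_lit 4256) (nat_lit 6) (nat_lit 56) (nat_lit 1) (nat_lit 140) (nat_lit 115) (nat_lit 135)) (PT.lf (nat_lit 4180) (nat_lit 6) (nat_lit 55) (nat_lit 1) (nat_lit 141) (nat_lit 115) (nat_lit 134))) (PT.nd (nat_lit 78) (PT.lf (nat_lit 4484) (nat_lit 6) (nat_lit 59) (nat_lit 3) (nat_lit 134) (nat_lit 116) (nat_lit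 140)) (PT.nd (nat_lit 78) (PT.lf (nat_lit 4560) (nat_lit 6) (nat_lit 60) (nat_lit 3) (nat_lit 135) (nat_lit 116) (nat_lit 139)) (PT.lf (nat_lit 4636) (nat_lit 6) (nat_lit 61) (nat_lit 3) (nat_lit 136) (nat_lit 116) (nat_lit 138))))) (PT.nd (nat_lit 234) (PT.nd (nat_lit 78) (PT.lf (nat_lit 4712) (nat_lit 3) (nat_lit 62) (nat_lit 1) (nat_lit 137) (nat_lit 116) (nat_lit 137)) (PT.nd (nat_lit 78) (PT.lf (nat_lit 4636) (nat_lit 6) (nat_lit 61) (nat_lit 1) (nat_lit 138) (nat_lit 116) (nat_lit 136)) (PT.lf (nat_lit 4560) (nat_lit 6) (nat_lit 60) (nat_lit 1) (nat_lit 139) (nat_lit 116) (nat_lit 135)))) (PT.nd (nat_lit 40092) (PT.lf (nat_lit 4484) (nat_lit 6) (nat_lit 59) (nat_lit 1) (nat_lit 140) (nat_lit 116) (nat_lit 134)) (PT.nd (nat_lit 78) (PT.lf (nat_lit 4788) (nat_lit 6) (nat_lit 63) (nat_lit 3) (nat_lit 133) (nat_lit 117) (nat_lit 140)) (PT.lf (nat_lit 4864) (nat_lit 6) (nat_lit 64)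 (nat_lit 3) (nat_lit 134) (nat_lit 117) (nat_lit 139))))))) (PT.nd (nat_lit 40794) (PT.nd (nat_lit 390) (PT.nd (nat_lit 156) (PT.nd (nat_lit 78) (PT.lf (nat_lit 4940) (nat_lit 6) (nat_lit 65) (nat_lit 3) (nat_lit 135) (nat_lit 117) (nat_lit 138)) (PT.lf (nat_lit 5016) (nat_lit 6) (nat_lit 66) (nat_lit 3) (nat_lit 136) (nat_lit 117) (nat_lit 137))) (PT.nd (nat_lit 78) (PT.lf (nat_lit 5016) (nat_lit 6) (nat_lit 66) (nat_lit 1) (nat_lit 137) (nat_lit 117) (nat_lit 136)) (PT.nd (nat_lit 78) (PT.lf (nat_lit 4940) (nat_lit 6) (nat_lit 65) (nat_lit 1) (nat_lit 138) (nat_lit 117) (nat_lit 135)) (PT.lf (nat_lit 4864) (nat_lit 6) (nat_lit 64) (nat_lit 1) (nat_lit 139) (nat_lit 117) (nat_lit 134))))) (PT.nd (nat_lit 40170) (PT.nd (nat_lit 40014) (PT.lf (nat_lit 4788) (nat_lit 6) (nat_lit 63) (nat_lit 1) (nat_lit 140) (nat_lit 117) (nat_lit 133)) (PT.nd (nat_lit 78) (PT.lf (nat_lit 5092) (nat_lit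 6) (nat_lit 67) (nat_lit 3) (nat_lit 132) (nat_lit 118) (nat_lit 140)) (PT.lf (nat_lit 5168) (nat_lit 6) (nat_lit 68) (nat_lit 3) (nat_lit 133) (nat_lit 118) (nat_lit 139)))) (PT.nd (nat_lit 78) (PT.lf (nat_lit 5244) (nat_lit 6) (nat_lit 69) (nat_lit 3) (nat_lit 134) (nat_lit 118) (nat_lit 138)) (PT.nd (nat_lit 78) (PT.lf (nat_lit 5320) (nat_lit 6) (nat_lit 70) (nat_lit 3) (nat_lit 135) (nat_lit 118) (nat_lit 137)) (PT.lf (nat_lit 5396) (nat_lit 3) (nat_lit 71) (nat_lit 1) (nat_lit 136) (nat_lit 118) (nat_lit 136)))))) (PT.nd (nat_lit 40326) (PT.nd (nat_lit 234) (PT.nd (nat_lit 78) (PT.lf (nat_lit 5320) (nat_lit 6) (nat_lit 70) (nat_lit 1) (nat_lit 137) (nat_lit 118) (nat_lit 135)) (PT.nd (nat_lit 78) (PT.lf (nat_lit 5244) (nat_lit 6) (nat_lit 69) (nat_lit 1) (nat_lit 138) (nat_lit 118) (nat_lit 134)) (PT.lf (nat_lit 5168) (nat_lit 6) (nat_lit 68) (nat_lit 1) (nat_lit 139) (nat_lit 118)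 (nat_lit 133)))) (PT.nd (nat_lit 39936) (PT.lf (nat_lit 5092) (nat_lit 6) (nat_lit 67) (nat_lit 1) (nat_lit 140) (nat_lit 118) (nat_lit 132)) (PT.nd (nat_lit 78) (PT.lf (nat_lit 5472) (nat_lit 6) (nat_lit 72) (nat_lit 3) (nat_lit 131) (nat_lit 119) (nat_lit 140)) (PT.lf (nat_lit 5548) (nat_lit 6) (nat_lit 73) (nat_lit 3) (nat_lit 132) (nat_lit 119) (nat_lit 139))))) (PT.nd (nat_lit 234) (PT.nd (nat_lit 78) (PT.lf (nat_lit 5624) (nat_lit 6) (nat_lit 74) (nat_lit 3) (nat_lit 133) (nat_lit 119) (nat_lit 138)) (PT.nd (nat_lit 78) (PT.lf (nat_lit 5700) (nat_lit 6) (nat_lit 75) (nat_lit 3) (nat_lit 134) (nat_lit 119) (nat_lit 137)) (PT.lf (nat_lit 5776) (nat_lit 6) (nat_lit 76) (nat_lit 3) (nat_lit 135) (nat_lit 119) (nat_lit 136)))) (PT.nd (nat_lit 78) (PT.lf (nat_lit 5776) (nat_lit 6) (nat_lit 76) (nat_lit 1) (nat_lit 136) (nat_lit 119) (nat_lit 135)) (PT.nd (nat_lit 78) (PT.lf (nat_lit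 5700) (nat_lit 6) (nat_lit 75) (nat_lit 1) (nat_lit 137) (nat_lit 119) (nat_lit 134)) (PT.lf (nat_lit 5624) (nat_lit 6) (nat_lit 74) (nat_lit 1) (nat_lit 138) (nat_lit 119) (nat_lit 133))))))))
noncomputable def pc3 : PT := (PT.nd (nat_lit 81198) (PT.nd (nat_lit 40638) (PT.nd (nat_lit 40170) (PT.nd (nat_lit 39936) (PT.nd (nat_lit 78) (PT.lf (nat_lit 5548) (nat_lit 6) (nat_lit 73) (nat_lit 1) (nat_lit 139) (nat_lit 119) (nat_lit 132)) (PT.lf (nat_lit 5472) (nat_lit 6) (nat_lit 72) (nat_lit 1) (nat_lit 140) (nat_lit 119) (nat_lit 131))) (PT.nd (nat_lit 78) (PT.lf (nat_lit 5928) (nat_lit 6) (nat_lit 78) (nat_lit 3) (nat_lit 130) (nat_lit 120) (nat_lit 140)) (PT.nd (nat_lit 78) (PT.lf (nat_lit 6004) (nat_lit 6) (nat_lit 79) (nat_lit 3) (nat_lit 131) (nat_lit 120) (nat_lit 139)) (PT.lf (nat_lit 6080) (nat_lit 6) (nat_lit 80) (nat_lit 3) (nat_lit 132) (nat_lit 120) (nat_lit 138))))) (PT.nd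 (nat_lit 234) (PT.nd (nat_lit 78) (PT.lf (nat_lit 6156) (nat_lit 6) (nat_lit 81) (nat_lit 3) (nat_lit 133) (nat_lit 120) (nat_lit 137)) (PT.nd (nat_lit 78) (PT.lf (nat_lit 6232) (nat_lit 6) (nat_lit 82) (nat_lit 3) (nat_lit 134) (nat_lit 120) (nat_lit 136)) (PT.lf (nat_lit 6308) (nat_lit 3) (nat_lit 83) (nat_lit 1) (nat_lit 135) (nat_lit 120) (nat_lit 135)))) (PT.nd (nat_lit 78) (PT.lf (nat_lit 6232) (nat_lit 6) (nat_lit 82) (nat_lit 1) (nat_lit 136) (nat_lit 120) (nat_lit 134)) (PT.nd (nat_lit 78) (PT.lf (nat_lit 6156) (nat_lit 6) (nat_lit 81) (nat_lit 1) (nat_lit 137) (nat_lit 120) (nat_lit 133)) (PT.lf (nat_lit 6080) (nat_lit 6) (nat_lit 80) (nat_lit 1) (nat_lit 138) (nat_lit 120) (nat_lit 132)))))) (PT.nd (nat_lit 40092) (PT.nd (nat_lit 39858) (PT.nd (nat_lit 78) (PT.lf (nat_lit 6004) (nat_lit 6) (nat_lit 79) (nat_lit 1) (nat_lit 139) (nat_lit 120) (nat_lit 131)) (PT.lf (nat_lit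 5928) (nat_lit 6) (nat_lit 78) (nat_lit 1) (nat_lit 140) (nat_lit 120) (nat_lit 130))) (PT.nd (nat_lit 78) (PT.lf (nat_lit 5852) (nat_lit 6) (nat_lit 77) (nat_lit 3) (nat_lit 129) (nat_lit 121) (nat_lit 140)) (PT.nd (nat_lit 78) (PT.lf (nat_lit 6688) (nat_lit 6) (nat_lit 88) (nat_lit 3) (nat_lit 130) (nat_lit 121) (nat_lit 139)) (PT.lf (nat_lit 6764) (nat_lit 6) (nat_lit 89) (nat_lit 3) (nat_lit 131) (nat_lit 121) (nat_lit 138))))) (PT.nd (nat_lit 234) (PT.nd (nat_lit 78) (PT.lf (nat_lit 6840) (nat_lit 6) (nat_lit 90) (nat_lit 3) (nat_lit 132) (nat_lit 121) (nat_lit 137)) (PT.nd (nat_lit 78) (PT.lf (nat_lit 6916) (nat_lit 6) (nat_lit 91) (nat_lit 3) (nat_lit 133) (nat_lit 121) (nat_lit 136)) (PT.lf (nat_lit 6992) (nat_lit 6) (nat_lit 92) (nat_lit 3) (nat_lit 134) (nat_lit 121) (nat_lit 135)))) (PT.nd (nat_lit 78) (PT.lf (nat_lit 6992) (nat_lit 6) (nat_lit 92) (nat_lit 1) (nat_lit 135)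 (nat_lit 121) (nat_lit 134)) (PT.nd (nat_lit 78) (PT.lf (nat_lit 6916) (nat_lit 6) (nat_lit 91) (nat_lit 1) (nat_lit 136) (nat_lit 121) (nat_lit 133)) (PT.lf (nat_lit 6840) (nat_lit 6) (nat_lit 90) (nat_lit 1) (nat_lit 137) (nat_lit 121) (nat_lit 132))))))) (PT.nd (nat_lit 40560) (PT.nd (nat_lit 40092) (PT.nd (nat_lit 156) (PT.nd (nat_lit 78) (PT.lf (nat_lit 6764) (nat_lit 6) (nat_lit 89) (nat_lit 1) (nat_lit 138) (nat_lit 121) (nat_lit 131)) (PT.lf (nat_lit 6688) (nat_lit 6) (nat_lit 88) (nat_lit 1) (nat_lit 139) (nat_lit 121) (nat_lit 130))) (PT.nd (nat_lit 39780) (PT.lf (nat_lit 5852) (nat_lit 6) (nat_lit 77) (nat_lit 1) (nat_lit 140) (nat_lit 121) (nat_lit 129)) (PT.nd (nat_lit 78) (PT.lf (nat_lit 6612) (nat_lit 6) (nat_lit 87) (nat_lit 3) (nat_lit 129) (nat_lit 122) (nat_lit 139)) (PT.lf (nat_lit 7372) (nat_lit 6) (nat_lit 97) (nat_lit 3) (nat_lit 130) (nat_lit 122) (nat_lit 138)))))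 (PT.nd (nat_lit 234) (PT.nd (nat_lit 78) (PT.lf (nat_lit 7448) (nat_lit 6) (nat_lit 98) (nat_lit 3) (nat_lit 131) (nat_lit 122) (nat_lit 137)) (PT.nd (nat_lit 78) (PT.lf (nat_lit 7524) (nat_lit 6) (nat_lit 99) (nat_lit 3) (nat_lit 132) (nat_lit 122) (nat_lit 136)) (PT.lf (nat_lit 7600) (nat_lit 6) (nat_lit 100) (nat_lit 3) (nat_lit 133) (nat_lit 122) (nat_lit 135)))) (PT.nd (nat_lit 78) (PT.lf (nat_lit 7676) (nat_lit 3) (nat_lit 101) (nat_lit 1) (nat_lit 134) (nat_lit 122) (nat_lit 134)) (PT.nd (nat_lit 78) (PT.lf (nat_lit 7600) (nat_lit 6) (nat_lit 100) (nat_lit 1) (nat_lit 135) (nat_lit 122) (nat_lit 133)) (PT.lf (nat_lit 7524) (nat_lit 6) (nat_lit 99) (nat_lit 1) (nat_lit 136) (nat_lit 122) (nat_lit 132)))))) (PT.nd (nat_lit 40170) (PT.nd (nat_lit 39936) (PT.nd (nat_lit 78) (PT.lf (nat_lit 7448) (nat_lit 6) (nat_lit 98) (nat_lit 1) (nat_lit 137) (nat_lit 122) (nat_lit 131)) (PT.nd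 (nat_lit 78) (PT.lf (nat_lit 7372) (nat_lit 6) (nat_lit 97) (nat_lit 1) (nat_lit 138) (nat_lit 122) (nat_lit 130)) (PT.lf (nat_lit 6612) (nat_lit 6) (nat_lit 87) (nat_lit 1) (nat_lit 139) (nat_lit 122) (nat_lit 129)))) (PT.nd (nat_lit 78) (PT.lf (nat_lit 6536) (nat_lit 6) (nat_lit 86) (nat_lit 3) (nat_lit 128) (nat_lit 123) (nat_lit 139)) (PT.nd (nat_lit 78) (PT.lf (nat_lit 7296) (nat_lit 6) (nat_lit 96) (nat_lit 3) (nat_lit 129) (nat_lit 123) (nat_lit 138)) (PT.lf (nat_lit 7980) (nat_lit 6) (nat_lit 105) (nat_lit 3) (nat_lit 130) (nat_lit 123) (nat_lit 137))))) (PT.nd (nat_lit 234) (PT.nd (nat_lit 78) (PT.lf (nat_lit 8056) (nat_lit 6) (nat_lit 106) (nat_lit 3) (nat_lit 131) (nat_lit 123) (nat_lit 136)) (PT.nd (nat_lit 78) (PT.lf (nat_lit 8132) (nat_lit 6) (nat_lit 107) (nat_lit 3) (nat_lit 132) (nat_lit 123) (nat_lit 135)) (PT.lf (nat_lit 8208) (nat_lit 6) (nat_lit 108) (nat_lit 3)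 (nat_lit 133) (nat_lit 123) (nat_lit 134)))) (PT.nd (nat_lit 78) (PT.lf (nat_lit 8208) (nat_lit 6) (nat_lit 108) (nat_lit 1) (nat_lit 134) (nat_lit 123) (nat_lit 133)) (PT.nd (nat_lit 78) (PT.lf (nat_lit 8132) (nat_lit 6) (nat_lit 107) (nat_lit 1) (nat_lit 135) (nat_lit 123) (nat_lit 132)) (PT.lf (nat_lit 8056) (nat_lit 6) (nat_lit 106) (nat_lit 1) (nat_lit 136) (nat_lit 123) (nat_lit 131))))))))
noncomputable def pc4 : PT := (PT.nd (nat_lit 80886) (PT.nd (nat_lit 40482) (PT.nd (nat_lit 40014) (PT.nd (nat_lit 156) (PT.nd (nat_lit 78) (PT.lf (nat_lit 7980) (nat_lit 6) (nat_lit 105) (nat_lit 1) (nat_lit 137) (nat_lit 123) (nat_lit 130)) (PT.lf (nat_lit 7296) (nat_lit 6) (nat_lit 96) (nat_lit 1) (nat_lit 138) (nat_lit 123) (nat_lit 129))) (PT.nd (nat_lit 39702) (PT.lf (nat_lit 6536) (nat_lit 6) (nat_lit 86) (nat_lit 1) (nat_lit 139) (nat_lit 123) (nat_lit 128)) (PT.nd (nat_lit 78) (PT.lf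 (nat_lit 6460) (nat_lit 6) (nat_lit 85) (nat_lit 3) (nat_lit 127) (nat_lit 124) (nat_lit 139)) (PT.lf (nat_lit 7220) (nat_lit 6) (nat_lit 95) (nat_lit 3) (nat_lit 128) (nat_lit 124) (nat_lit 138))))) (PT.nd (nat_lit 234) (PT.nd (nat_lit 78) (PT.lf (nat_lit 7904) (nat_lit 6) (nat_lit 104) (nat_lit 3) (nat_lit 129) (nat_lit 124) (nat_lit 137)) (PT.nd (nat_lit 78) (PT.lf (nat_lit 8512) (nat_lit 6) (nat_lit 112) (nat_lit 3) (nat_lit 130) (nat_lit 124) (nat_lit 136)) (PT.lf (nat_lit 8588) (nat_lit 6) (nat_lit 113) (nat_lit 3) (nat_lit 131) (nat_lit 124) (nat_lit 135)))) (PT.nd (nat_lit 78) (PT.lf (nat_lit 8664) (nat_lit 6) (nat_lit 114) (nat_lit 3) (nat_lit 132) (nat_lit 124) (nat_lit 134)) (PT.nd (nat_lit 78) (PT.lf (nat_lit 8740) (nat_lit 3) (nat_lit 115) (nat_lit 1) (nat_lit 133) (nat_lit 124) (nat_lit 133)) (PT.lf (nat_lit 8664) (nat_lit 6) (nat_lit 114) (nat_lit 1) (nat_lit 134) (nat_lit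 124) (nat_lit 132)))))) (PT.nd (nat_lit 39936) (PT.nd (nat_lit 156) (PT.nd (nat_lit 78) (PT.lf (nat_lit 8588) (nat_lit 6) (nat_lit 113) (nat_lit 1) (nat_lit 135) (nat_lit 124) (nat_lit 131)) (PT.lf (nat_lit 8512) (nat_lit 6) (nat_lit 112) (nat_lit 1) (nat_lit 136) (nat_lit 124) (nat_lit 130))) (PT.nd (nat_lit 78) (PT.lf (nat_lit 7904) (nat_lit 6) (nat_lit 104) (nat_lit 1) (nat_lit 137) (nat_lit 124) (nat_lit 129)) (PT.nd (nat_lit 78) (PT.lf (nat_lit 7220) (nat_lit 6) (nat_lit 95) (nat_lit 1) (nat_lit 138) (nat_lit 124) (nat_lit 128)) (PT.lf (nat_lit 6460) (nat_lit 6) (nat_lit 85) (nat_lit 1) (nat_lit 139) (nat_lit 124) (nat_lit 127))))) (PT.nd (nat_lit 234) (PT.nd (nat_lit 78) (PT.lf (nat_lit 6384) (nat_lit 6) (nat_lit 84) (nat_lit 3) (nat_lit 126) (nat_lit 125) (nat_lit 139)) (PT.nd (nat_lit 78) (PT.lf (nat_lit 7144) (nat_lit 6) (nat_lit 94) (nat_lit 3) (nat_lit 127) (nat_lit 125) (nat_lit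 138)) (PT.lf (nat_lit 7828) (nat_lit 6) (nat_lit 103) (nat_lit 3) (nat_lit 128) (nat_lit 125) (nat_lit 137)))) (PT.nd (nat_lit 78) (PT.lf (nat_lit 8436) (nat_lit 6) (nat_lit 111) (nat_lit 3) (nat_lit 129) (nat_lit 125) (nat_lit 136)) (PT.nd (nat_lit 78) (PT.lf (nat_lit 8968) (nat_lit 6) (nat_lit 118) (nat_lit 3) (nat_lit 130) (nat_lit 125) (nat_lit 135)) (PT.lf (nat_lit 9044) (nat_lit 6) (nat_lit 119) (nat_lit 3) (nat_lit 131) (nat_lit 125) (nat_lit 134))))))) (PT.nd (nat_lit 40326) (PT.nd (nat_lit 390) (PT.nd (nat_lit 156) (PT.nd (nat_lit 78) (PT.lf (nat_lit 9120) (nat_lit 6) (nat_lit 120) (nat_lit 3) (nat_lit 132) (nat_lit 125) (nat_lit 133)) (PT.lf (nat_lit 9120) (nat_lit 6) (nat_lit 120) (nat_lit 1) (nat_lit 133) (nat_lit 125) (nat_lit 132))) (PT.nd (nat_lit 78) (PT.lf (nat_lit 9044) (nat_lit 6) (nat_lit 119) (nat_lit 1) (nat_lit 134) (nat_lit 125) (nat_lit 131)) (PT.nd (nat_lit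 78) (PT.lf (nat_lit 8968) (nat_lit 6) (nat_lit 118) (nat_lit 1) (nat_lit 135) (nat_lit 125) (nat_lit 130)) (PT.lf (nat_lit 8436) (nat_lit 6) (nat_lit 111) (nat_lit 1) (nat_lit 136) (nat_lit 125) (nat_lit 129))))) (PT.nd (nat_lit 39702) (PT.nd (nat_lit 78) (PT.lf (nat_lit 7828) (nat_lit 6) (nat_lit 103) (nat_lit 1) (nat_lit 137) (nat_lit 125) (nat_lit 128)) (PT.nd (nat_lit 78) (PT.lf (nat_lit 7144) (nat_lit 6) (nat_lit 94) (nat_lit 1) (nat_lit 138) (nat_lit 125) (nat_lit 127)) (PT.lf (nat_lit 6384) (nat_lit 6) (nat_lit 84) (nat_lit 1) (nat_lit 139) (nat_lit 125) (nat_lit 126)))) (PT.nd (nat_lit 78) (PT.lf (nat_lit 6384) (nat_lit 6) (nat_lit 84) (nat_lit 5) (nat_lit 125) (nat_lit 126) (nat_lit 139)) (PT.nd (nat_lit 78) (PT.lf (nat_lit 7068) (nat_lit 3) (nat_lit 93) (nat_lit 3) (nat_lit 126) (nat_lit 126) (nat_lit 138)) (PT.lf (nat_lit 7752) (nat_lit 6) (nat_lit 102) (nat_lit 3) (nat_lit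 127) (nat_lit 126) (nat_lit 137)))))) (PT.nd (nat_lit 468) (PT.nd (nat_lit 234) (PT.nd (nat_lit 78) (PT.lf (nat_lit 8360) (nat_lit 6) (nat_lit 110) (nat_lit 3) (nat_lit 128) (nat_lit 126) (nat_lit 136)) (PT.nd (nat_lit 78) (PT.lf (nat_lit 8892) (nat_lit 6) (nat_lit 117) (nat_lit 3) (nat_lit 129) (nat_lit 126) (nat_lit 135)) (PT.lf (nat_lit 9348) (nat_lit 6) (nat_lit 123) (nat_lit 3) (nat_lit 130) (nat_lit 126) (nat_lit 134)))) (PT.nd (nat_lit 78) (PT.lf (nat_lit 9424) (nat_lit 6) (nat_lit 124) (nat_lit 3) (nat_lit 131) (nat_lit 126) (nat_lit 133)) (PT.nd (nat_lit 78) (PT.lf (nat_lit 9500) (nat_lit 3) (nat_lit 125) (nat_lit 1) (nat_lit 132) (nat_lit 126) (nat_lit 132)) (PT.lf (nat_lit 9424) (nat_lit 6) (nat_lit 124) (nat_lit 1) (nat_lit 133) (nat_lit 126) (nat_lit 131))))) (PT.nd (nat_lit 234) (PT.nd (nat_lit 78) (PT.lf (nat_lit 9348) (nat_lit 6) (nat_lit 123) (nat_lit 1) (nat_lit 134)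 (nat_lit 126) (nat_lit 130)) (PT.nd (nat_lit 78) (PT.lf (nat_lit 8892) (nat_lit 6) (nat_lit 117) (nat_lit 1) (nat_lit 135) (nat_lit 126) (nat_lit 129)) (PT.lf (nat_lit 8360) (nat_lit 6) (nat_lit 110) (nat_lit 1) (nat_lit 136) (nat_lit 126) (nat_lit 128)))) (PT.nd (nat_lit 78) (PT.lf (nat_lit 7752) (nat_lit 6) (nat_lit 102) (nat_lit 1) (nat_lit 137) (nat_lit 126) (nat_lit 127)) (PT.nd (nat_lit 78) (PT.lf (nat_lit 7068) (nat_lit 3) (nat_lit 93) (nat_lit 0) (nat_lit 138) (nat_lit 126) (nat_lit 126)) (PT.lf (nat_lit 6384) (nat_lit 6) (nat_lit 84) (nat_lit 0) (nat_lit 139) (nat_lit 126) (nat_lit 125))))))))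
noncomputable def pc5 : PT := (PT.nd (nat_lit 41028) (PT.nd (nat_lit 858) (PT.nd (nat_lit 390) (PT.nd (nat_lit 156) (PT.nd (nat_lit 78) (PT.lf (nat_lit 6460) (nat_lit 6) (nat_lit 85) (nat_lit 5) (nat_lit 124) (nat_lit 127) (nat_lit 139)) (PT.lf (nat_lit 7144) (nat_lit 6) (nat_lit 94) (nat_lit 5) (nat_lit 125) (nat_lit 127) (nat_lit 138))) (PT.nd (nat_lit 78) (PT.lf (nat_lit 7752) (nat_lit 6) (nat_lit 102) (nat_lit 5) (nat_lit 126) (nat_lit 127) (nat_lit 137)) (PT.nd (nat_lit 78) (PT.lf (nat_lit 8284) (nat_lit 3) (nat_lit 109) (nat_lit 3) (nat_lit 127) (nat_lit 127) (nat_lit 136)) (PT.lf (nat_lit 8816) (nat_lit 6) (nat_lit 116) (nat_lit 3) (nat_lit 128) (nat_lit 127) (nat_lit 135))))) (PT.nd (nat_lit 234) (PT.nd (nat_lit 78) (PT.lf (nat_lit 9272) (nat_lit 6) (nat_lit 122) (nat_lit 3) (nat_lit 129) (nat_lit 127) (nat_lit 134)) (PT.nd (nat_lit 78) (PT.lf (nat_lit 9652) (nat_lit 6) (nat_lit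 127) (nat_lit 3) (nat_lit 130) (nat_lit 127) (nat_lit 133)) (PT.lf (nat_lit 9728) (nat_lit 6) (nat_lit 128) (nat_lit 3) (nat_lit 131) (nat_lit 127) (nat_lit 132)))) (PT.nd (nat_lit 78) (PT.lf (nat_lit 9728) (nat_lit 6) (nat_lit 128) (nat_lit 1) (nat_lit 132) (nat_lit 127) (nat_lit 131)) (PT.nd (nat_lit 78) (PT.lf (nat_lit 9652) (nat_lit 6) (nat_lit 127) (nat_lit 1) (nat_lit 133) (nat_lit 127) (nat_lit 130)) (PT.lf (nat_lit 9272) (nat_lit 6) (nat_lit 122) (nat_lit 1) (nat_lit 134) (nat_lit 127) (nat_lit 129)))))) (PT.nd (nat_lit 39702) (PT.nd (nat_lit 156) (PT.nd (nat_lit 78) (PT.lf (nat_lit 8816) (nat_lit 6) (nat_lit 116) (nat_lit 1) (nat_lit 135) (nat_lit 127) (nat_lit 128)) (PT.lf (nat_lit 8284) (nat_lit 3) (nat_lit 109) (nat_lit 0) (nat_lit 136) (nat_lit 127) (nat_lit 127))) (PT.nd (nat_lit 78) (PT.lf (nat_lit 7752) (nat_lit 6) (nat_lit 102) (nat_lit 0) (nat_lit 137) (nat_lit 127)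 (nat_lit 126)) (PT.nd (nat_lit 78) (PT.lf (nat_lit 7144) (nat_lit 6) (nat_lit 94) (nat_lit 0) (nat_lit 138) (nat_lit 127) (nat_lit 125)) (PT.lf (nat_lit 6460) (nat_lit 6) (nat_lit 85) (nat_lit 0) (nat_lit 139) (nat_lit 127) (nat_lit 124))))) (PT.nd (nat_lit 234) (PT.nd (nat_lit 78) (PT.lf (nat_lit 6536) (nat_lit 6) (nat_lit 86) (nat_lit 5) (nat_lit 123) (nat_lit 128) (nat_lit 139)) (PT.nd (nat_lit 78) (PT.lf (nat_lit 7220) (nat_lit 6) (nat_lit 95) (nat_lit 5) (nat_lit 124) (nat_lit 128) (nat_lit 138)) (PT.lf (nat_lit 7828) (nat_lit 6) (nat_lit 103) (nat_lit 5) (nat_lit 125) (nat_lit 128) (nat_lit 137)))) (PT.nd (nat_lit 78) (PT.lf (nat_lit 8360) (nat_lit 6) (nat_lit 110) (nat_lit 5) (nat_lit 126) (nat_lit 128) (nat_lit 136)) (PT.nd (nat_lit 78) (PT.lf (nat_lit 8816) (nat_lit 6) (nat_lit 116) (nat_lit 5) (nat_lit 127) (nat_lit 128) (nat_lit 135)) (PT.lf (nat_lit 9196) (nat_lit 3) (nat_lit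 121) (nat_lit 3) (nat_lit 128) (nat_lit 128) (nat_lit 134))))))) (PT.nd (nat_lit 40014) (PT.nd (nat_lit 390) (PT.nd (nat_lit 156) (PT.nd (nat_lit 78) (PT.lf (nat_lit 9576) (nat_lit 6) (nat_lit 126) (nat_lit 3) (nat_lit 129) (nat_lit 128) (nat_lit 133)) (PT.lf (nat_lit 9880) (nat_lit 6) (nat_lit 130) (nat_lit 3) (nat_lit 130) (nat_lit 128) (nat_lit 132))) (PT.nd (nat_lit 78) (PT.lf (nat_lit 9956) (nat_lit 3) (nat_lit 131) (nat_lit 1) (nat_lit 131) (nat_lit 128) (nat_lit 131)) (PT.nd (nat_lit 78) (PT.lf (nat_lit 9880) (nat_lit 6) (nat_lit 130) (nat_lit 1) (nat_lit 132) (nat_lit 128) (nat_lit 130)) (PT.lf (nat_lit 9576) (nat_lit 6) (nat_lit 126) (nat_lit 1) (nat_lit 133) (nat_lit 128) (nat_lit 129))))) (PT.nd (nat_lit 234) (PT.nd (nat_lit 78) (PT.lf (nat_lit 9196) (nat_lit 3) (nat_lit 121) (nat_lit 0) (nat_lit 134) (nat_lit 128) (nat_lit 128)) (PT.nd (nat_lit 78) (PT.lf (nat_lit 8816) (nat_lit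 6) (nat_lit 116) (nat_lit 0) (nat_lit 135) (nat_lit 128) (nat_lit 127)) (PT.lf (nat_lit 8360) (nat_lit 6) (nat_lit 110) (nat_lit 0) (nat_lit 136) (nat_lit 128) (nat_lit 126)))) (PT.nd (nat_lit 78) (PT.lf (nat_lit 7828) (nat_lit 6) (nat_lit 103) (nat_lit 0) (nat_lit 137) (nat_lit 128) (nat_lit 125)) (PT.nd (nat_lit 78) (PT.lf (nat_lit 7220) (nat_lit 6) (nat_lit 95) (nat_lit 0) (nat_lit 138) (nat_lit 128) (nat_lit 124)) (PT.lf (nat_lit 6536) (nat_lit 6) (nat_lit 86) (nat_lit 0) (nat_lit 139) (nat_lit 128) (nat_lit 123)))))) (PT.nd (nat_lit 468) (PT.nd (nat_lit 234) (PT.nd (nat_lit 78) (PT.lf (nat_lit 5852) (nat_lit 6) (nat_lit 77) (nat_lit 5) (nat_lit 121) (nat_lit 129) (nat_lit 140)) (PT.nd (nat_lit 78) (PT.lf (nat_lit 6612) (nat_lit 6) (nat_lit 87) (nat_lit 5) (nat_lit 122) (nat_lit 129) (nat_lit 139)) (PT.lf (nat_lit 7296) (nat_lit 6) (nat_lit 96) (nat_lit 5) (nat_lit 123) (nat_lit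 129) (nat_lit 138)))) (PT.nd (nat_lit 78) (PT.lf (nat_lit 7904) (nat_lit 6) (nat_lit 104) (nat_lit 5) (nat_lit 124) (nat_lit 129) (nat_lit 137)) (PT.nd (nat_lit 78) (PT.lf (nat_lit 8436) (nat_lit 6) (nat_lit 111) (nat_lit 5) (nat_lit 125) (nat_lit 129) (nat_lit 136)) (PT.lf (nat_lit 8892) (nat_lit 6) (nat_lit 117) (nat_lit 5) (nat_lit 126) (nat_lit 129) (nat_lit 135))))) (PT.nd (nat_lit 234) (PT.nd (nat_lit 78) (PT.lf (nat_lit 9272) (nat_lit 6) (nat_lit 122) (nat_lit 5) (nat_lit 127) (nat_lit 129) (nat_lit 134)) (PT.nd (nat_lit 78) (PT.lf (nat_lit 9576) (nat_lit 6) (nat_lit 126) (nat_lit 5) (nat_lit 128) (nat_lit 129) (nat_lit 133)) (PT.lf (nat_lit 9804) (nat_lit 3) (nat_lit 129) (nat_lit 3) (nat_lit 129) (nat_lit 129) (nat_lit 132)))) (PT.nd (nat_lit 78) (PT.lf (nat_lit 10032) (nat_lit 6) (nat_lit 132) (nat_lit 3) (nat_lit 130) (nat_lit 129) (nat_lit 131)) (PT.nd (nat_lit 78) (PT.lf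 (nat_lit 10032) (nat_lit 6) (nat_lit 132) (nat_lit 1) (nat_lit 131) (nat_lit 129) (nat_lit 130)) (PT.lf (nat_lit 9804) (nat_lit 3) (nat_lit 129) (nat_lit 0) (nat_lit 132) (nat_lit 129) (nat_lit 129))))))))
noncomputable def pc6 : PT := (PT.nd (nat_lit 40716) (PT.nd (nat_lit 39858) (PT.nd (nat_lit 390) (PT.nd (nat_lit 156) (PT.nd (nat_lit 78) (PT.lf (nat_lit 9576) (nat_lit 6) (nat_lit 126) (nat_lit 0) (nat_lit 133) (nat_lit 129) (nat_lit 128)) (PT.lf (nat_lit 9272) (nat_lit 6) (nat_lit 122) (nat_lit 0) (nat_lit 134) (nat_lit 129) (nat_lit 127))) (PT.nd (nat_lit 78) (PT.lf (nat_lit 8892) (nat_lit 6) (nat_lit 117) (nat_lit 0) (nat_lit 135) (nat_lit 129) (nat_lit 126)) (PT.nd (nat_lit 78) (PT.lf (nat_lit 8436) (nat_lit 6) (nat_lit 111) (nat_lit 0) (nat_lit 136) (nat_lit 129) (nat_lit 125)) (PT.lf (nat_lit 7904) (nat_lit 6) (nat_lit 104) (nat_lit 0) (nat_lit 137) (nat_lit 129) (nat_lit 124)))))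 (PT.nd (nat_lit 39234) (PT.nd (nat_lit 78) (PT.lf (nat_lit 7296) (nat_lit 6) (nat_lit 96) (nat_lit 0) (nat_lit 138) (nat_lit 129) (nat_lit 123)) (PT.nd (nat_lit 78) (PT.lf (nat_lit 6612) (nat_lit 6) (nat_lit 87) (nat_lit 0) (nat_lit 139) (nat_lit 129) (nat_lit 122)) (PT.lf (nat_lit 5852) (nat_lit 6) (nat_lit 77) (nat_lit 0) (nat_lit 140) (nat_lit 129) (nat_lit 121)))) (PT.nd (nat_lit 78) (PT.lf (nat_lit 5928) (nat_lit 6) (nat_lit 78) (nat_lit 5) (nat_lit 120) (nat_lit 130) (nat_lit 140)) (PT.nd (nat_lit 78) (PT.lf (nat_lit 6688) (nat_lit 6) (nat_lit 88) (nat_lit 5) (nat_lit 121) (nat_lit 130) (nat_lit 139)) (PT.lf (nat_lit 7372) (nat_lit 6) (nat_lit 97) (nat_lit 5) (nat_lit 122) (nat_lit 130) (nat_lit 138)))))) (PT.nd (nat_lit 390) (PT.nd (nat_lit 156) (PT.nd (nat_lit 78) (PT.lf (nat_lit 7980) (nat_lit 6) (nat_lit 105) (nat_lit 5) (nat_lit 123) (nat_lit 130) (nat_lit 137)) (PT.lf (nat_lit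 8512) (nat_lit 6) (nat_lit 112) (nat_lit 5) (nat_lit 124) (nat_lit 130) (nat_lit 136))) (PT.nd (nat_lit 78) (PT.lf (nat_lit 8968) (nat_lit 6) (nat_lit 118) (nat_lit 5) (nat_lit 125) (nat_lit 130) (nat_lit 135)) (PT.nd (nat_lit 78) (PT.lf (nat_lit 9348) (nat_lit 6) (nat_lit 123) (nat_lit 5) (nat_lit 126) (nat_lit 130) (nat_lit 134)) (PT.lf (nat_lit 9652) (nat_lit 6) (nat_lit 127) (nat_lit 5) (nat_lit 127) (nat_lit 130) (nat_lit 133))))) (PT.nd (nat_lit 234) (PT.nd (nat_lit 78) (PT.lf (nat_lit 9880) (nat_lit 6) (nat_lit 130) (nat_lit 5) (nat_lit 128) (nat_lit 130) (nat_lit 132)) (PT.nd (nat_lit 78) (PT.lf (nat_lit 10032) (nat_lit 6) (nat_lit 132) (nat_lit 5) (nat_lit 129) (nat_lit 130) (nat_lit 131)) (PT.lf (nat_lit 10108) (nat_lit 1) (nat_lit 133) (nat_lit 0) (nat_lit 130) (nat_lit 130) (nat_lit 130)))) (PT.nd (nat_lit 78) (PT.lf (nat_lit 10032) (nat_lit 6) (nat_lit 132) (nat_lit 0) (nat_lit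 131) (nat_lit 130) (nat_lit 129)) (PT.nd (nat_lit 78) (PT.lf (nat_lit 9880) (nat_lit 6) (nat_lit 130) (nat_lit 0) (nat_lit 132) (nat_lit 130) (nat_lit 128)) (PT.lf (nat_lit 9652) (nat_lit 6) (nat_lit 127) (nat_lit 0) (nat_lit 133) (nat_lit 130) (nat_lit 127))))))) (PT.nd (nat_lit 39780) (PT.nd (nat_lit 390) (PT.nd (nat_lit 156) (PT.nd (nat_lit 78) (PT.lf (nat_lit 9348) (nat_lit 6) (nat_lit 123) (nat_lit 0) (nat_lit 134) (nat_lit 130) (nat_lit 126)) (PT.lf (nat_lit 8968) (nat_lit 6) (nat_lit 118) (nat_lit 0) (nat_lit 135) (nat_lit 130) (nat_lit 125))) (PT.nd (nat_lit 78) (PT.lf (nat_lit 8512) (nat_lit 6) (nat_lit 112) (nat_lit 0) (nat_lit 136) (nat_lit 130) (nat_lit 124)) (PT.nd (nat_lit 78) (PT.lf (nat_lit 7980) (nat_lit 6) (nat_lit 105) (nat_lit 0) (nat_lit 137) (nat_lit 130) (nat_lit 123)) (PT.lf (nat_lit 7372) (nat_lit 6) (nat_lit 97) (nat_lit 0) (nat_lit 138) (nat_lit 130) (nat_lit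 122))))) (PT.nd (nat_lit 39156) (PT.nd (nat_lit 78) (PT.lf (nat_lit 6688) (nat_lit 6) (nat_lit 88) (nat_lit 0) (nat_lit 139) (nat_lit 130) (nat_lit 121)) (PT.nd (nat_lit 39000) (PT.lf (nat_lit 5928) (nat_lit 6) (nat_lit 78) (nat_lit 0) (nat_lit 140) (nat_lit 130) (nat_lit 120)) (PT.lf (nat_lit 5472) (nat_lit 6) (nat_lit 72) (nat_lit 5) (nat_lit 119) (nat_lit 131) (nat_lit 140)))) (PT.nd (nat_lit 78) (PT.lf (nat_lit 6004) (nat_lit 6) (nat_lit 79) (nat_lit 5) (nat_lit 120) (nat_lit 131) (nat_lit 139)) (PT.nd (nat_lit 78) (PT.lf (nat_lit 6764) (nat_lit 6) (nat_lit 89) (nat_lit 5) (nat_lit 121) (nat_lit 131) (nat_lit 138)) (PT.lf (nat_lit 7448) (nat_lit 6) (nat_lit 98) (nat_lit 5) (nat_lit 122) (nat_lit 131) (nat_lit 137)))))) (PT.nd (nat_lit 468) (PT.nd (nat_lit 234) (PT.nd (nat_lit 78) (PT.lf (nat_lit 8056) (nat_lit 6) (nat_lit 106) (nat_lit 5) (nat_lit 123) (nat_lit 131) (nat_lit 136))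 (PT.nd (nat_lit 78) (PT.lf (nat_lit 8588) (nat_lit 6) (nat_lit 113) (nat_lit 5) (nat_lit 124) (nat_lit 131) (nat_lit 135)) (PT.lf (nat_lit 9044) (nat_lit 6) (nat_lit 119) (nat_lit 5) (nat_lit 125) (nat_lit 131) (nat_lit 134)))) (PT.nd (nat_lit 78) (PT.lf (nat_lit 9424) (nat_lit 6) (nat_lit 124) (nat_lit 5) (nat_lit 126) (nat_lit 131) (nat_lit 133)) (PT.nd (nat_lit 78) (PT.lf (nat_lit 9728) (nat_lit 6) (nat_lit 128) (nat_lit 5) (nat_lit 127) (nat_lit 131) (nat_lit 132)) (PT.lf (nat_lit 9956) (nat_lit 3) (nat_lit 131) (nat_lit 4) (nat_lit 128) (nat_lit 131) (nat_lit 131))))) (PT.nd (nat_lit 234) (PT.nd (nat_lit 78) (PT.lf (nat_lit 10032) (nat_lit 6) (nat_lit 132) (nat_lit 4) (nat_lit 129) (nat_lit 131) (nat_lit 130)) (PT.nd (nat_lit 78) (PT.lf (nat_lit 10032) (nat_lit 6) (nat_lit 132) (nat_lit 2) (nat_lit 130) (nat_lit 131) (nat_lit 129)) (PT.lf (nat_lit 9956) (nat_lit 3) (nat_lit 131)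 (nat_lit 0) (nat_lit 131) (nat_lit 131) (nat_lit 128)))) (PT.nd (nat_lit 78) (PT.lf (nat_lit 9728) (nat_lit 6) (nat_lit 128) (nat_lit 0) (nat_lit 132) (nat_lit 131) (nat_lit 127)) (PT.nd (nat_lit 78) (PT.lf (nat_lit 9424) (nat_lit 6) (nat_lit 124) (nat_lit 0) (nat_lit 133) (nat_lit 131) (nat_lit 126)) (PT.lf (nat_lit 9044) (nat_lit 6) (nat_lit 119) (nat_lit 0) (nat_lit 134) (nat_lit 131) (nat_lit 125))))))))
noncomputable def pc7 : PT := (PT.nd (nat_lit 40560) (PT.nd (nat_lit 39702) (PT.nd (nat_lit 390) (PT.nd (nat_lit 156) (PT.nd (nat_lit 78) (PT.lf (nat_lit 8588) (nat_lit 6) (nat_lit 113) (nat_lit 0) (nat_lit 135) (nat_lit 131) (nat_lit 124)) (PT.lf (nat_lit 8056) (nat_lit 6) (nat_lit 106) (nat_lit 0) (nat_lit 136) (nat_lit 131) (nat_lit 123))) (PT.nd (nat_lit 78) (PT.lf (nat_lit 7448) (nat_lit 6) (nat_lit 98) (nat_lit 0) (nat_lit 137) (nat_lit 131) (nat_lit 122)) (PT.nd (nat_lit 78)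 (PT.lf (nat_lit 6764) (nat_lit 6) (nat_lit 89) (nat_lit 0) (nat_lit 138) (nat_lit 131) (nat_lit 121)) (PT.lf (nat_lit 6004) (nat_lit 6) (nat_lit 79) (nat_lit 0) (nat_lit 139) (nat_lit 131) (nat_lit 120))))) (PT.nd (nat_lit 39078) (PT.nd (nat_lit 38922) (PT.lf (nat_lit 5472) (nat_lit 6) (nat_lit 72) (nat_lit 0) (nat_lit 140) (nat_lit 131) (nat_lit 119)) (PT.nd (nat_lit 78) (PT.lf (nat_lit 5092) (nat_lit 6) (nat_lit 67) (nat_lit 5) (nat_lit 118) (nat_lit 132) (nat_lit 140)) (PT.lf (nat_lit 5548) (nat_lit 6) (nat_lit 73) (nat_lit 5) (nat_lit 119) (nat_lit 132) (nat_lit 139)))) (PT.nd (nat_lit 78) (PT.lf (nat_lit 6080) (nat_lit 6) (nat_lit 80) (nat_lit 5) (nat_lit 120) (nat_lit 132) (nat_lit 138)) (PT.nd (nat_lit 78) (PT.lf (nat_lit 6840) (nat_lit 6) (nat_lit 90) (nat_lit 5) (nat_lit 121) (nat_lit 132) (nat_lit 137)) (PT.lf (nat_lit 7524) (nat_lit 6) (nat_lit 99) (nat_lit 5) (nat_lit 122)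 (nat_lit 132) (nat_lit 136)))))) (PT.nd (nat_lit 390) (PT.nd (nat_lit 156) (PT.nd (nat_lit 78) (PT.lf (nat_lit 8132) (nat_lit 6) (nat_lit 107) (nat_lit 5) (nat_lit 123) (nat_lit 132) (nat_lit 135)) (PT.lf (nat_lit 8664) (nat_lit 6) (nat_lit 114) (nat_lit 5) (nat_lit 124) (nat_lit 132) (nat_lit 134))) (PT.nd (nat_lit 78) (PT.lf (nat_lit 9120) (nat_lit 6) (nat_lit 120) (nat_lit 5) (nat_lit 125) (nat_lit 132) (nat_lit 133)) (PT.nd (nat_lit 78) (PT.lf (nat_lit 9500) (nat_lit 3) (nat_lit 125) (nat_lit 4) (nat_lit 126) (nat_lit 132) (nat_lit 132)) (PT.lf (nat_lit 9728) (nat_lit 6) (nat_lit 128) (nat_lit 4) (nat_lit 127) (nat_lit 132) (nat_lit 131))))) (PT.nd (nat_lit 234) (PT.nd (nat_lit 78) (PT.lf (nat_lit 9880) (nat_lit 6) (nat_lit 130) (nat_lit 4) (nat_lit 128) (nat_lit 132) (nat_lit 130)) (PT.nd (nat_lit 78) (PT.lf (nat_lit 9804) (nat_lit 3) (nat_lit 129) (nat_lit 2) (nat_lit 129) (nat_lit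 132) (nat_lit 129)) (PT.lf (nat_lit 9880) (nat_lit 6) (nat_lit 130) (nat_lit 2) (nat_lit 130) (nat_lit 132) (nat_lit 128)))) (PT.nd (nat_lit 78) (PT.lf (nat_lit 9728) (nat_lit 6) (nat_lit 128) (nat_lit 2) (nat_lit 131) (nat_lit 132) (nat_lit 127)) (PT.nd (nat_lit 78) (PT.lf (nat_lit 9500) (nat_lit 3) (nat_lit 125) (nat_lit 0) (nat_lit 132) (nat_lit 132) (nat_lit 126)) (PT.lf (nat_lit 9120) (nat_lit 6) (nat_lit 120) (nat_lit 0) (nat_lit 133) (nat_lit 132) (nat_lit 125))))))) (PT.nd (nat_lit 39624) (PT.nd (nat_lit 390) (PT.nd (nat_lit 156) (PT.nd (nat_lit 78) (PT.lf (nat_lit 8664) (nat_lit 6) (nat_lit 114) (nat_lit 0) (nat_lit 134) (nat_lit 132) (nat_lit 124)) (PT.lf (nat_lit 8132) (nat_lit 6) (nat_lit 107) (nat_lit 0) (nat_lit 135) (nat_lit 132) (nat_lit 123))) (PT.nd (nat_lit 78) (PT.lf (nat_lit 7524) (nat_lit 6) (nat_lit 99) (nat_lit 0) (nat_lit 136) (nat_lit 132) (nat_lit 122)) (PT.nd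 (nat_lit 78) (PT.lf (nat_lit 6840) (nat_lit 6) (nat_lit 90) (nat_lit 0) (nat_lit 137) (nat_lit 132) (nat_lit 121)) (PT.lf (nat_lit 6080) (nat_lit 6) (nat_lit 80) (nat_lit 0) (nat_lit 138) (nat_lit 132) (nat_lit 120))))) (PT.nd (nat_lit 39000) (PT.nd (nat_lit 78) (PT.lf (nat_lit 5548) (nat_lit 6) (nat_lit 73) (nat_lit 0) (nat_lit 139) (nat_lit 132) (nat_lit 119)) (PT.nd (nat_lit 38844) (PT.lf (nat_lit 5092) (nat_lit 6) (nat_lit 67) (nat_lit 0) (nat_lit 140) (nat_lit 132) (nat_lit 118)) (PT.lf (nat_lit 4788) (nat_lit 6) (nat_lit 63) (nat_lit 5) (nat_lit 117) (nat_lit 133) (nat_lit 140)))) (PT.nd (nat_lit 78) (PT.lf (nat_lit 5168) (nat_lit 6) (nat_lit 68) (nat_lit 5) (nat_lit 118) (nat_lit 133) (nat_lit 139)) (PT.nd (nat_lit 78) (PT.lf (nat_lit 5624) (nat_lit 6) (nat_lit 74) (nat_lit 5) (nat_lit 119) (nat_lit 133) (nat_lit 138)) (PT.lf (nat_lit 6156) (nat_lit 6) (nat_lit 81) (nat_lit 5)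 (nat_lit 120) (nat_lit 133) (nat_lit 137)))))) (PT.nd (nat_lit 468) (PT.nd (nat_lit 234) (PT.nd (nat_lit 78) (PT.lf (nat_lit 6916) (nat_lit 6) (nat_lit 91) (nat_lit 5) (nat_lit 121) (nat_lit 133) (nat_lit 136)) (PT.nd (nat_lit 78) (PT.lf (nat_lit 7600) (nat_lit 6) (nat_lit 100) (nat_lit 5) (nat_lit 122) (nat_lit 133) (nat_lit 135)) (PT.lf (nat_lit 8208) (nat_lit 6) (nat_lit 108) (nat_lit 5) (nat_lit 123) (nat_lit 133) (nat_lit 134)))) (PT.nd (nat_lit 78) (PT.lf (nat_lit 8740) (nat_lit 3) (nat_lit 115) (nat_lit 4) (nat_lit 124) (nat_lit 133) (nat_lit 133)) (PT.nd (nat_lit 78) (PT.lf (nat_lit 9120) (nat_lit 6) (nat_lit 120) (nat_lit 4) (nat_lit 125) (nat_lit 133) (nat_lit 132)) (PT.lf (nat_lit 9424) (nat_lit 6) (nat_lit 124) (nat_lit 4) (nat_lit 126) (nat_lit 133) (nat_lit 131))))) (PT.nd (nat_lit 234) (PT.nd (nat_lit 78) (PT.lf (nat_lit 9652) (nat_lit 6) (nat_lit 127) (nat_lit 4) (nat_lit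 127) (nat_lit 133) (nat_lit 130)) (PT.nd (nat_lit 78) (PT.lf (nat_lit 9576) (nat_lit 6) (nat_lit 126) (nat_lit 4) (nat_lit 128) (nat_lit 133) (nat_lit 129)) (PT.lf (nat_lit 9576) (nat_lit 6) (nat_lit 126) (nat_lit 2) (nat_lit 129) (nat_lit 133) (nat_lit 128)))) (PT.nd (nat_lit 78) (PT.lf (nat_lit 9652) (nat_lit 6) (nat_lit 127) (nat_lit 2) (nat_lit 130) (nat_lit 133) (nat_lit 127)) (PT.nd (nat_lit 78) (PT.lf (nat_lit 9424) (nat_lit 6) (nat_lit 124) (nat_lit 2) (nat_lit 131) (nat_lit 133) (nat_lit 126)) (PT.lf (nat_lit 9120) (nat_lit 6) (nat_lit 120) (nat_lit 2) (nat_lit 132) (nat_lit 133) (nat_lit 125))))))))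
noncomputable def pc8 : PT := (PT.nd (nat_lit 40326) (PT.nd (nat_lit 39468) (PT.nd (nat_lit 390) (PT.nd (nat_lit 156) (PT.nd (nat_lit 78) (PT.lf (nat_lit 8740) (nat_lit 3) (nat_lit 115) (nat_lit 0) (nat_lit 133) (nat_lit 133) (nat_lit 124)) (PT.lf (nat_lit 8208) (nat_lit 6) (nat_lit 108) (nat_lit 0) (nat_lit 134) (nat_lit 133) (nat_lit 123))) (PT.nd (nat_lit 78) (PT.lf (nat_lit 7600) (nat_lit 6) (nat_lit 100) (nat_lit 0) (nat_lit 135) (nat_lit 133) (nat_lit 122)) (PT.nd (nat_lit 78) (PT.lf (nat_lit 6916) (nat_lit 6) (nat_lit 91) (nat_lit 0) (nat_lit 136) (nat_lit 133) (nat_lit 121)) (PT.lf (nat_lit 6156) (nat_lit 6) (nat_lit 81) (nat_lit 0) (nat_lit 137) (nat_lit 133) (nat_lit 120))))) (PT.nd (nat_lit 38844) (PT.nd (nat_lit 78) (PT.lf (nat_lit 5624) (nat_lit 6) (nat_lit 74) (nat_lit 0) (nat_lit 138) (nat_lit 133) (nat_lit 119)) (PT.nd (nat_lit 78) (PT.lf (nat_lit 5168) (nat_lit 6) (nat_lit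 68) (nat_lit 0) (nat_lit 139) (nat_lit 133) (nat_lit 118)) (PT.lf (nat_lit 4788) (nat_lit 6) (nat_lit 63) (nat_lit 0) (nat_lit 140) (nat_lit 133) (nat_lit 117)))) (PT.nd (nat_lit 78) (PT.lf (nat_lit 4180) (nat_lit 6) (nat_lit 55) (nat_lit 5) (nat_lit 115) (nat_lit 134) (nat_lit 141)) (PT.nd (nat_lit 78) (PT.lf (nat_lit 4484) (nat_lit 6) (nat_lit 59) (nat_lit 5) (nat_lit 116) (nat_lit 134) (nat_lit 140)) (PT.lf (nat_lit 4864) (nat_lit 6) (nat_lit 64) (nat_lit 5) (nat_lit 117) (nat_lit 134) (nat_lit 139)))))) (PT.nd (nat_lit 390) (PT.nd (nat_lit 156) (PT.nd (nat_lit 78) (PT.lf (nat_lit 5244) (nat_lit 6) (nat_lit 69) (nat_lit 5) (nat_lit 118) (nat_lit 134) (nat_lit 138)) (PT.lf (nat_lit 5700) (nat_lit 6) (nat_lit 75) (nat_lit 5) (nat_lit 119) (nat_lit 134) (nat_lit 137))) (PT.nd (nat_lit 78) (PT.lf (nat_lit 6232) (nat_lit 6) (nat_lit 82) (nat_lit 5) (nat_lit 120) (nat_lit 134) (nat_lit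 136)) (PT.nd (nat_lit 78) (PT.lf (nat_lit 6992) (nat_lit 6) (nat_lit 92) (nat_lit 5) (nat_lit 121) (nat_lit 134) (nat_lit 135)) (PT.lf (nat_lit 7676) (nat_lit 3) (nat_lit 101) (nat_lit 4) (nat_lit 122) (nat_lit 134) (nat_lit 134))))) (PT.nd (nat_lit 234) (PT.nd (nat_lit 78) (PT.lf (nat_lit 8208) (nat_lit 6) (nat_lit 108) (nat_lit 4) (nat_lit 123) (nat_lit 134) (nat_lit 133)) (PT.nd (nat_lit 78) (PT.lf (nat_lit 8664) (nat_lit 6) (nat_lit 114) (nat_lit 4) (nat_lit 124) (nat_lit 134) (nat_lit 132)) (PT.lf (nat_lit 9044) (nat_lit 6) (nat_lit 119) (nat_lit 4) (nat_lit 125) (nat_lit 134) (nat_lit 131)))) (PT.nd (nat_lit 78) (PT.lf (nat_lit 9348) (nat_lit 6) (nat_lit 123) (nat_lit 4) (nat_lit 126) (nat_lit 134) (nat_lit 130)) (PT.nd (nat_lit 78) (PT.lf (nat_lit 9272) (nat_lit 6) (nat_lit 122) (nat_lit 4) (nat_lit 127) (nat_lit 134) (nat_lit 129)) (PT.lf (nat_lit 9196) (nat_lit 3) (nat_lit 121)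 (nat_lit 2) (nat_lit 128) (nat_lit 134) (nat_lit 128))))))) (PT.nd (nat_lit 858) (PT.nd (nat_lit 390) (PT.nd (nat_lit 156) (PT.nd (nat_lit 78) (PT.lf (nat_lit 9272) (nat_lit 6) (nat_lit 122) (nat_lit 2) (nat_lit 129) (nat_lit 134) (nat_lit 127)) (PT.lf (nat_lit 9348) (nat_lit 6) (nat_lit 123) (nat_lit 2) (nat_lit 130) (nat_lit 134) (nat_lit 126))) (PT.nd (nat_lit 78) (PT.lf (nat_lit 9044) (nat_lit 6) (nat_lit 119) (nat_lit 2) (nat_lit 131) (nat_lit 134) (nat_lit 125)) (PT.nd (nat_lit 78) (PT.lf (nat_lit 8664) (nat_lit 6) (nat_lit 114) (nat_lit 2) (nat_lit 132) (nat_lit 134) (nat_lit 124)) (PT.lf (nat_lit 8208) (nat_lit 6) (nat_lit 108) (nat_lit 2) (nat_lit 133) (nat_lit 134) (nat_lit 123))))) (PT.nd (nat_lit 234) (PT.nd (nat_lit 78) (PT.lf (nat_lit 7676) (nat_lit 3) (nat_lit 101) (nat_lit 0) (nat_lit 134) (nat_lit 134) (nat_lit 122)) (PT.nd (nat_lit 78) (PT.lf (nat_lit 6992) (nat_lit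 6) (nat_lit 92) (nat_lit 0) (nat_lit 135) (nat_lit 134) (nat_lit 121)) (PT.lf (nat_lit 6232) (nat_lit 6) (nat_lit 82) (nat_lit 0) (nat_lit 136) (nat_lit 134) (nat_lit 120)))) (PT.nd (nat_lit 78) (PT.lf (nat_lit 5700) (nat_lit 6) (nat_lit 75) (nat_lit 0) (nat_lit 137) (nat_lit 134) (nat_lit 119)) (PT.nd (nat_lit 78) (PT.lf (nat_lit 5244) (nat_lit 6) (nat_lit 69) (nat_lit 0) (nat_lit 138) (nat_lit 134) (nat_lit 118)) (PT.lf (nat_lit 4864) (nat_lit 6) (nat_lit 64) (nat_lit 0) (nat_lit 139) (nat_lit 134) (nat_lit 117)))))) (PT.nd (nat_lit 38922) (PT.nd (nat_lit 38688) (PT.nd (nat_lit 78) (PT.lf (nat_lit 4484) (nat_lit 6) (nat_lit 59) (nat_lit 0) (nat_lit 140) (nat_lit 134) (nat_lit 116)) (PT.nd (nat_lit 38532) (PT.lf (nat_lit 4180) (nat_lit 6) (nat_lit 55) (nat_lit 0) (nat_lit 141) (nat_lit 134) (nat_lit 115)) (PT.lf (nat_lit 3876) (nat_lit 6) (nat_lit 51) (nat_lit 5) (nat_lit 114) (nat_lit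 135) (nat_lit 141)))) (PT.nd (nat_lit 78) (PT.lf (nat_lit 4256) (nat_lit 6) (nat_lit 56) (nat_lit 5) (nat_lit 115) (nat_lit 135) (nat_lit 140)) (PT.nd (nat_lit 78) (PT.lf (nat_lit 4560) (nat_lit 6) (nat_lit 60) (nat_lit 5) (nat_lit 116) (nat_lit 135) (nat_lit 139)) (PT.lf (nat_lit 4940) (nat_lit 6) (nat_lit 65) (nat_lit 5) (nat_lit 117) (nat_lit 135) (nat_lit 138))))) (PT.nd (nat_lit 234) (PT.nd (nat_lit 78) (PT.lf (nat_lit 5320) (nat_lit 6) (nat_lit 70) (nat_lit 5) (nat_lit 118) (nat_lit 135) (nat_lit 137)) (PT.nd (nat_lit 78) (PT.lf (nat_lit 5776) (nat_lit 6) (nat_lit 76) (nat_lit 5) (nat_lit 119) (nat_lit 135) (nat_lit 136)) (PT.lf (nat_lit 6308) (nat_lit 3) (nat_lit 83) (nat_lit 4) (nat_lit 120) (nat_lit 135) (nat_lit 135)))) (PT.nd (nat_lit 78) (PT.lf (nat_lit 6992) (nat_lit 6) (nat_lit 92) (nat_lit 4) (nat_lit 121) (nat_lit 135) (nat_lit 134)) (PT.nd (nat_lit 78) (PT.lf (nat_lit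 7600) (nat_lit 6) (nat_lit 100) (nat_lit 4) (nat_lit 122) (nat_lit 135) (nat_lit 133)) (PT.lf (nat_lit 8132) (nat_lit 6) (nat_lit 107) (nat_lit 4) (nat_lit 123) (nat_lit 135) (nat_lit 132))))))))
noncomputable def pc9 : PT := (PT.nd (nat_lit 40014) (PT.nd (nat_lit 858) (PT.nd (nat_lit 390) (PT.nd (nat_lit 156) (PT.nd (nat_lit 78) (PT.lf (nat_lit 8588) (nat_lit 6) (nat_lit 113) (nat_lit 4) (nat_lit 124) (nat_lit 135) (nat_lit 131)) (PT.lf (nat_lit 8968) (nat_lit 6) (nat_lit 118) (nat_lit 4) (nat_lit 125) (nat_lit 135) (nat_lit 130))) (PT.nd (nat_lit 78) (PT.lf (nat_lit 8892) (nat_lit 6) (nat_lit 117) (nat_lit 4) (nat_lit 126) (nat_lit 135) (nat_lit 129)) (PT.nd (nat_lit 78) (PT.lf (nat_lit 8816) (nat_lit 6) (nat_lit 116) (nat_lit 4) (nat_lit 127) (nat_lit 135) (nat_lit 128)) (PT.lf (nat_lit 8816) (nat_lit 6) (nat_lit 116) (nat_lit 2) (nat_lit 128) (nat_lit 135) (nat_lit 127))))) (PT.nd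 (nat_lit 234) (PT.nd (nat_lit 78) (PT.lf (nat_lit 8892) (nat_lit 6) (nat_lit 117) (nat_lit 2) (nat_lit 129) (nat_lit 135) (nat_lit 126)) (PT.nd (nat_lit 78) (PT.lf (nat_lit 8968) (nat_lit 6) (nat_lit 118) (nat_lit 2) (nat_lit 130) (nat_lit 135) (nat_lit 125)) (PT.lf (nat_lit 8588) (nat_lit 6) (nat_lit 113) (nat_lit 2) (nat_lit 131) (nat_lit 135) (nat_lit 124)))) (PT.nd (nat_lit 78) (PT.lf (nat_lit 8132) (nat_lit 6) (nat_lit 107) (nat_lit 2) (nat_lit 132) (nat_lit 135) (nat_lit 123)) (PT.nd (nat_lit 78) (PT.lf (nat_lit 7600) (nat_lit 6) (nat_lit 100) (nat_lit 2) (nat_lit 133) (nat_lit 135) (nat_lit 122)) (PT.lf (nat_lit 6992) (nat_lit 6) (nat_lit 92) (nat_lit 2) (nat_lit 134) (nat_lit 135) (nat_lit 121)))))) (PT.nd (nat_lit 390) (PT.nd (nat_lit 156) (PT.nd (nat_lit 78) (PT.lf (nat_lit 6308) (nat_lit 3) (nat_lit 83) (nat_lit 0) (nat_lit 135) (nat_lit 135) (nat_lit 120)) (PT.lf (nat_lit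 5776) (nat_lit 6) (nat_lit 76) (nat_lit 0) (nat_lit 136) (nat_lit 135) (nat_lit 119))) (PT.nd (nat_lit 78) (PT.lf (nat_lit 5320) (nat_lit 6) (nat_lit 70) (nat_lit 0) (nat_lit 137) (nat_lit 135) (nat_lit 118)) (PT.nd (nat_lit 78) (PT.lf (nat_lit 4940) (nat_lit 6) (nat_lit 65) (nat_lit 0) (nat_lit 138) (nat_lit 135) (nat_lit 117)) (PT.lf (nat_lit 4560) (nat_lit 6) (nat_lit 60) (nat_lit 0) (nat_lit 139) (nat_lit 135) (nat_lit 116))))) (PT.nd (nat_lit 38532) (PT.nd (nat_lit 78) (PT.lf (nat_lit 4256) (nat_lit 6) (nat_lit 56) (nat_lit 0) (nat_lit 140) (nat_lit 135) (nat_lit 115)) (PT.nd (nat_lit 38376) (PT.lf (nat_lit 3876) (nat_lit 6) (nat_lit 51) (nat_lit 0) (nat_lit 141) (nat_lit 135) (nat_lit 114)) (PT.lf (nat_lit 3344) (nat_lit 6) (nat_lit 44) (nat_lit 5) (nat_lit 112) (nat_lit 136) (nat_lit 142)))) (PT.nd (nat_lit 78) (PT.lf (nat_lit 3648) (nat_lit 6) (nat_lit 48) (nat_lit 5) (nat_lit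 113) (nat_lit 136) (nat_lit 141)) (PT.nd (nat_lit 78) (PT.lf (nat_lit 3952) (nat_lit 6) (nat_lit 52) (nat_lit 5) (nat_lit 114) (nat_lit 136) (nat_lit 140)) (PT.lf (nat_lit 4332) (nat_lit 6) (nat_lit 57) (nat_lit 5) (nat_lit 115) (nat_lit 136) (nat_lit 139))))))) (PT.nd (nat_lit 858) (PT.nd (nat_lit 390) (PT.nd (nat_lit 156) (PT.nd (nat_lit 78) (PT.lf (nat_lit 4636) (nat_lit 6) (nat_lit 61) (nat_lit 5) (nat_lit 116) (nat_lit 136) (nat_lit 138)) (PT.lf (nat_lit 5016) (nat_lit 6) (nat_lit 66) (nat_lit 5) (nat_lit 117) (nat_lit 136) (nat_lit 137))) (PT.nd (nat_lit 78) (PT.lf (nat_lit 5396) (nat_lit 3) (nat_lit 71) (nat_lit 4) (nat_lit 118) (nat_lit 136) (nat_lit 136)) (PT.nd (nat_lit 78) (PT.lf (nat_lit 5776) (nat_lit 6) (nat_lit 76) (nat_lit 4) (nat_lit 119) (nat_lit 136) (nat_lit 135)) (PT.lf (nat_lit 6232) (nat_lit 6) (nat_lit 82) (nat_lit 4) (nat_lit 120) (nat_lit 136) (nat_lit 134)))))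 (PT.nd (nat_lit 234) (PT.nd (nat_lit 78) (PT.lf (nat_lit 6916) (nat_lit 6) (nat_lit 91) (nat_lit 4) (nat_lit 121) (nat_lit 136) (nat_lit 133)) (PT.nd (nat_lit 78) (PT.lf (nat_lit 7524) (nat_lit 6) (nat_lit 99) (nat_lit 4) (nat_lit 122) (nat_lit 136) (nat_lit 132)) (PT.lf (nat_lit 8056) (nat_lit 6) (nat_lit 106) (nat_lit 4) (nat_lit 123) (nat_lit 136) (nat_lit 131)))) (PT.nd (nat_lit 78) (PT.lf (nat_lit 8512) (nat_lit 6) (nat_lit 112) (nat_lit 4) (nat_lit 124) (nat_lit 136) (nat_lit 130)) (PT.nd (nat_lit 78) (PT.lf (nat_lit 8436) (nat_lit 6) (nat_lit 111) (nat_lit 4) (nat_lit 125) (nat_lit 136) (nat_lit 129)) (PT.lf (nat_lit 8360) (nat_lit 6) (nat_lit 110) (nat_lit 4) (nat_lit 126) (nat_lit 136) (nat_lit 128)))))) (PT.nd (nat_lit 468) (PT.nd (nat_lit 234) (PT.nd (nat_lit 78) (PT.lf (nat_lit 8284) (nat_lit 3) (nat_lit 109) (nat_lit 2) (nat_lit 127) (nat_lit 136) (nat_lit 127)) (PT.nd (nat_lit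 78) (PT.lf (nat_lit 8360) (nat_lit 6) (nat_lit 110) (nat_lit 2) (nat_lit 128) (nat_lit 136) (nat_lit 126)) (PT.lf (nat_lit 8436) (nat_lit 6) (nat_lit 111) (nat_lit 2) (nat_lit 129) (nat_lit 136) (nat_lit 125)))) (PT.nd (nat_lit 78) (PT.lf (nat_lit 8512) (nat_lit 6) (nat_lit 112) (nat_lit 2) (nat_lit 130) (nat_lit 136) (nat_lit 124)) (PT.nd (nat_lit 78) (PT.lf (nat_lit 8056) (nat_lit 6) (nat_lit 106) (nat_lit 2) (nat_lit 131) (nat_lit 136) (nat_lit 123)) (PT.lf (nat_lit 7524) (nat_lit 6) (nat_lit 99) (nat_lit 2) (nat_lit 132) (nat_lit 136) (nat_lit 122))))) (PT.nd (nat_lit 234) (PT.nd (nat_lit 78) (PT.lf (nat_lit 6916) (nat_lit 6) (nat_lit 91) (nat_lit 2) (nat_lit 133) (nat_lit 136) (nat_lit 121)) (PT.nd (nat_lit 78) (PT.lf (nat_lit 6232) (nat_lit 6) (nat_lit 82) (nat_lit 2) (nat_lit 134) (nat_lit 136) (nat_lit 120)) (PT.lf (nat_lit 5776) (nat_lit 6) (nat_lit 76) (nat_lit 2) (nat_lit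 135) (nat_lit 136) (nat_lit 119)))) (PT.nd (nat_lit 78) (PT.lf (nat_lit 5396) (nat_lit 3) (nat_lit 71) (nat_lit 0) (nat_lit 136) (nat_lit 136) (nat_lit 118)) (PT.nd (nat_lit 78) (PT.lf (nat_lit 5016) (nat_lit 6) (nat_lit 66) (nat_lit 0) (nat_lit 137) (nat_lit 136) (nat_lit 117)) (PT.lf (nat_lit 4636) (nat_lit 6) (nat_lit 61) (nat_lit 0) (nat_lit 138) (nat_lit 136) (nat_lit 116))))))))
noncomputable def pc10 : PT := (PT.nd (nat_lit 39858) (PT.nd (nat_lit 39000) (PT.nd (nat_lit 38532) (PT.nd (nat_lit 156) (PT.nd (nat_lit 78) (PT.lf (nat_lit 4332) (nat_lit 6) (nat_lit 57) (nat_lit 0) (nat_lit 139) (nat_lit 136) (nat_lit 115)) (PT.lf (nat_lit 3952) (nat_lit 6) (nat_lit 52) (nat_lit 0) (nat_lit 140) (nat_lit 136) (nat_lit 114))) (PT.nd (nat_lit 78) (PT.lf (nat_lit 3648) (nat_lit 6) (nat_lit 48) (nat_lit 0) (nat_lit 141) (nat_lit 136) (nat_lit 113)) (PT.nd (nat_lit 38220) (PT.lf (nat_lit 3344)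 (nat_lit 6) (nat_lit 44) (nat_lit 0) (nat_lit 142) (nat_lit 136) (nat_lit 112)) (PT.lf (nat_lit 3116) (nat_lit 6) (nat_lit 41) (nat_lit 5) (nat_lit 111) (nat_lit 137) (nat_lit 142))))) (PT.nd (nat_lit 234) (PT.nd (nat_lit 78) (PT.lf (nat_lit 3420) (nat_lit 6) (nat_lit 45) (nat_lit 5) (nat_lit 112) (nat_lit 137) (nat_lit 141)) (PT.nd (nat_lit 78) (PT.lf (nat_lit 3724) (nat_lit 6) (nat_lit 49) (nat_lit 5) (nat_lit 113) (nat_lit 137) (nat_lit 140)) (PT.lf (nat_lit 4028) (nat_lit 6) (nat_lit 53) (nat_lit 5) (nat_lit 114) (nat_lit 137) (nat_lit 139)))) (PT.nd (nat_lit 78) (PT.lf (nat_lit 4408) (nat_lit 6) (nat_lit 58) (nat_lit 5) (nat_lit 115) (nat_lit 137) (nat_lit 138)) (PT.nd (nat_lit 78) (PT.lf (nat_lit 4712) (nat_lit 3) (nat_lit 62) (nat_lit 4) (nat_lit 116) (nat_lit 137) (nat_lit 137)) (PT.lf (nat_lit 5016) (nat_lit 6) (nat_lit 66) (nat_lit 4) (nat_lit 117) (nat_lit 137) (nat_lit 136))))))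 (PT.nd (nat_lit 390) (PT.nd (nat_lit 156) (PT.nd (nat_lit 78) (PT.lf (nat_lit 5320) (nat_lit 6) (nat_lit 70) (nat_lit 4) (nat_lit 118) (nat_lit 137) (nat_lit 135)) (PT.lf (nat_lit 5700) (nat_lit 6) (nat_lit 75) (nat_lit 4) (nat_lit 119) (nat_lit 137) (nat_lit 134))) (PT.nd (nat_lit 78) (PT.lf (nat_lit 6156) (nat_lit 6) (nat_lit 81) (nat_lit 4) (nat_lit 120) (nat_lit 137) (nat_lit 133)) (PT.nd (nat_lit 78) (PT.lf (nat_lit 6840) (nat_lit 6) (nat_lit 90) (nat_lit 4) (nat_lit 121) (nat_lit 137) (nat_lit 132)) (PT.lf (nat_lit 7448) (nat_lit 6) (nat_lit 98) (nat_lit 4) (nat_lit 122) (nat_lit 137) (nat_lit 131))))) (PT.nd (nat_lit 234) (PT.nd (nat_lit 78) (PT.lf (nat_lit 7980) (nat_lit 6) (nat_lit 105) (nat_lit 4) (nat_lit 123) (nat_lit 137) (nat_lit 130)) (PT.nd (nat_lit 78) (PT.lf (nat_lit 7904) (nat_lit 6) (nat_lit 104) (nat_lit 4) (nat_lit 124) (nat_lit 137) (nat_lit 129)) (PT.lf (nat_lit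 7828) (nat_lit 6) (nat_lit 103) (nat_lit 4) (nat_lit 125) (nat_lit 137) (nat_lit 128)))) (PT.nd (nat_lit 78) (PT.lf (nat_lit 7752) (nat_lit 6) (nat_lit 102) (nat_lit 4) (nat_lit 126) (nat_lit 137) (nat_lit 127)) (PT.nd (nat_lit 78) (PT.lf (nat_lit 7752) (nat_lit 6) (nat_lit 102) (nat_lit 2) (nat_lit 127) (nat_lit 137) (nat_lit 126)) (PT.lf (nat_lit 7828) (nat_lit 6) (nat_lit 103) (nat_lit 2) (nat_lit 128) (nat_lit 137) (nat_lit 125))))))) (PT.nd (nat_lit 858) (PT.nd (nat_lit 390) (PT.nd (nat_lit 156) (PT.nd (nat_lit 78) (PT.lf (nat_lit 7904) (nat_lit 6) (nat_lit 104) (nat_lit 2) (nat_lit 129) (nat_lit 137) (nat_lit 124)) (PT.lf (nat_lit 7980) (nat_lit 6) (nat_lit 105) (nat_lit 2) (nat_lit 130) (nat_lit 137) (nat_lit 123))) (PT.nd (nat_lit 78) (PT.lf (nat_lit 7448) (nat_lit 6) (nat_lit 98) (nat_lit 2) (nat_lit 131) (nat_lit 137) (nat_lit 122)) (PT.nd (nat_lit 78) (PT.lf (nat_lit 6840)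 (nat_lit 6) (nat_lit 90) (nat_lit 2) (nat_lit 132) (nat_lit 137) (nat_lit 121)) (PT.lf (nat_lit 6156) (nat_lit 6) (nat_lit 81) (nat_lit 2) (nat_lit 133) (nat_lit 137) (nat_lit 120))))) (PT.nd (nat_lit 234) (PT.nd (nat_lit 78) (PT.lf (nat_lit 5700) (nat_lit 6) (nat_lit 75) (nat_lit 2) (nat_lit 134) (nat_lit 137) (nat_lit 119)) (PT.nd (nat_lit 78) (PT.lf (nat_lit 5320) (nat_lit 6) (nat_lit 70) (nat_lit 2) (nat_lit 135) (nat_lit 137) (nat_lit 118)) (PT.lf (nat_lit 5016) (nat_lit 6) (nat_lit 66) (nat_lit 2) (nat_lit 136) (nat_lit 137) (nat_lit 117)))) (PT.nd (nat_lit 78) (PT.lf (nat_lit 4712) (nat_lit 3) (nat_lit 62) (nat_lit 0) (nat_lit 137) (nat_lit 137) (nat_lit 116)) (PT.nd (nat_lit 78) (PT.lf (nat_lit 4408) (nat_lit 6) (nat_lit 58) (nat_lit 0) (nat_lit 138) (nat_lit 137) (nat_lit 115)) (PT.lf (nat_lit 4028) (nat_lit 6) (nat_lit 53) (nat_lit 0) (nat_lit 139) (nat_lit 137) (nat_lit 114))))))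 (PT.nd (nat_lit 38454) (PT.nd (nat_lit 38220) (PT.nd (nat_lit 78) (PT.lf (nat_lit 3724) (nat_lit 6) (nat_lit 49) (nat_lit 0) (nat_lit 140) (nat_lit 137) (nat_lit 113)) (PT.nd (nat_lit 78) (PT.lf (nat_lit 3420) (nat_lit 6) (nat_lit 45) (nat_lit 0) (nat_lit 141) (nat_lit 137) (nat_lit 112)) (PT.lf (nat_lit 3116) (nat_lit 6) (nat_lit 41) (nat_lit 0) (nat_lit 142) (nat_lit 137) (nat_lit 111)))) (PT.nd (nat_lit 78) (PT.lf (nat_lit 2660) (nat_lit 6) (nat_lit 35) (nat_lit 5) (nat_lit 109) (nat_lit 138) (nat_lit 143)) (PT.nd (nat_lit 78) (PT.lf (nat_lit 2888) (nat_lit 6) (nat_lit 38) (nat_lit 5) (nat_lit 110) (nat_lit 138) (nat_lit 142)) (PT.lf (nat_lit 3192) (nat_lit 6) (nat_lit 42) (nat_lit 5) (nat_lit 111) (nat_lit 138) (nat_lit 141))))) (PT.nd (nat_lit 234) (PT.nd (nat_lit 78) (PT.lf (nat_lit 3496) (nat_lit 6) (nat_lit 46) (nat_lit 5) (nat_lit 112) (nat_lit 138) (nat_lit 140)) (PT.nd (nat_lit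 78) (PT.lf (nat_lit 3800) (nat_lit 6) (nat_lit 50) (nat_lit 5) (nat_lit 113) (nat_lit 138) (nat_lit 139)) (PT.lf (nat_lit 4104) (nat_lit 3) (nat_lit 54) (nat_lit 4) (nat_lit 114) (nat_lit 138) (nat_lit 138)))) (PT.nd (nat_lit 78) (PT.lf (nat_lit 4408) (nat_lit 6) (nat_lit 58) (nat_lit 4) (nat_lit 115) (nat_lit 138) (nat_lit 137)) (PT.nd (nat_lit 78) (PT.lf (nat_lit 4636) (nat_lit 6) (nat_lit 61) (nat_lit 4) (nat_lit 116) (nat_lit 138) (nat_lit 136)) (PT.lf (nat_lit 4940) (nat_lit 6) (nat_lit 65) (nat_lit 4) (nat_lit 117) (nat_lit 138) (nat_lit 135))))))))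
noncomputable def pc11 : PT := (PT.nd (nat_lit 1716) (PT.nd (nat_lit 858) (PT.nd (nat_lit 390) (PT.nd (nat_lit 156) (PT.nd (nat_lit 78) (PT.lf (nat_lit 5244) (nat_lit 6) (nat_lit 69) (nat_lit 4) (nat_lit 118) (nat_lit 138) (nat_lit 134)) (PT.lf (nat_lit 5624) (nat_lit 6) (nat_lit 74) (nat_lit 4) (nat_lit 119) (nat_lit 138) (nat_lit 133))) (PT.nd (nat_lit 78) (PT.lf (nat_lit 6080) (nat_lit 6) (nat_lit 80) (nat_lit 4) (nat_lit 120) (nat_lit 138) (nat_lit 132)) (PT.nd (nat_lit 78) (PT.lf (nat_lit 6764) (nat_lit 6) (nat_lit 89) (nat_lit 4) (nat_lit 121) (nat_lit 138) (nat_lit 131)) (PT.lf (nat_lit 7372) (nat_lit 6) (nat_lit 97) (nat_lit 4) (nat_lit 122) (nat_lit 138) (nat_lit 130))))) (PT.nd (nat_lit 234) (PT.nd (nat_lit 78) (PT.lf (nat_lit 7296) (nat_lit 6) (nat_lit 96) (nat_lit 4) (nat_lit 123) (nat_lit 138) (nat_lit 129)) (PT.nd (nat_lit 78) (PT.lf (nat_lit 7220) (nat_lit 6) (nat_lit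 95) (nat_lit 4) (nat_lit 124) (nat_lit 138) (nat_lit 128)) (PT.lf (nat_lit 7144) (nat_lit 6) (nat_lit 94) (nat_lit 4) (nat_lit 125) (nat_lit 138) (nat_lit 127)))) (PT.nd (nat_lit 78) (PT.lf (nat_lit 7068) (nat_lit 3) (nat_lit 93) (nat_lit 2) (nat_lit 126) (nat_lit 138) (nat_lit 126)) (PT.nd (nat_lit 78) (PT.lf (nat_lit 7144) (nat_lit 6) (nat_lit 94) (nat_lit 2) (nat_lit 127) (nat_lit 138) (nat_lit 125)) (PT.lf (nat_lit 7220) (nat_lit 6) (nat_lit 95) (nat_lit 2) (nat_lit 128) (nat_lit 138) (nat_lit 124)))))) (PT.nd (nat_lit 390) (PT.nd (nat_lit 156) (PT.nd (nat_lit 78) (PT.lf (nat_lit 7296) (nat_lit 6) (nat_lit 96) (nat_lit 2) (nat_lit 129) (nat_lit 138) (nat_lit 123)) (PT.lf (nat_lit 7372) (nat_lit 6) (nat_lit 97) (nat_lit 2) (nat_lit 130) (nat_lit 138) (nat_lit 122))) (PT.nd (nat_lit 78) (PT.lf (nat_lit 6764) (nat_lit 6) (nat_lit 89) (nat_lit 2) (nat_lit 131) (nat_lit 138) (nat_lit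 121)) (PT.nd (nat_lit 78) (PT.lf (nat_lit 6080) (nat_lit 6) (nat_lit 80) (nat_lit 2) (nat_lit 132) (nat_lit 138) (nat_lit 120)) (PT.lf (nat_lit 5624) (nat_lit 6) (nat_lit 74) (nat_lit 2) (nat_lit 133) (nat_lit 138) (nat_lit 119))))) (PT.nd (nat_lit 234) (PT.nd (nat_lit 78) (PT.lf (nat_lit 5244) (nat_lit 6) (nat_lit 69) (nat_lit 2) (nat_lit 134) (nat_lit 138) (nat_lit 118)) (PT.nd (nat_lit 78) (PT.lf (nat_lit 4940) (nat_lit 6) (nat_lit 65) (nat_lit 2) (nat_lit 135) (nat_lit 138) (nat_lit 117)) (PT.lf (nat_lit 4636) (nat_lit 6) (nat_lit 61) (nat_lit 2) (nat_lit 136) (nat_lit 138) (nat_lit 116)))) (PT.nd (nat_lit 78) (PT.lf (nat_lit 4408) (nat_lit 6) (nat_lit 58) (nat_lit 2) (nat_lit 137) (nat_lit 138) (nat_lit 115)) (PT.nd (nat_lit 78) (PT.lf (nat_lit 4104) (nat_lit 3) (nat_lit 54) (nat_lit 0) (nat_lit 138) (nat_lit 138) (nat_lit 114)) (PT.lf (nat_lit 3800) (nat_lit 6) (nat_lit 50) (nat_lit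 0) (nat_lit 139) (nat_lit 138) (nat_lit 113))))))) (PT.nd (nat_lit 38688) (PT.nd (nat_lit 38220) (PT.nd (nat_lit 156) (PT.nd (nat_lit 78) (PT.lf (nat_lit 3496) (nat_lit 6) (nat_lit 46) (nat_lit 0) (nat_lit 140) (nat_lit 138) (nat_lit 112)) (PT.lf (nat_lit 3192) (nat_lit 6) (nat_lit 42) (nat_lit 0) (nat_lit 141) (nat_lit 138) (nat_lit 111))) (PT.nd (nat_lit 78) (PT.lf (nat_lit 2888) (nat_lit 6) (nat_lit 38) (nat_lit 0) (nat_lit 142) (nat_lit 138) (nat_lit 110)) (PT.nd (nat_lit 37908) (PT.lf (nat_lit 2660) (nat_lit 6) (nat_lit 35) (nat_lit 0) (nat_lit 143) (nat_lit 138) (nat_lit 109)) (PT.lf (nat_lit 2432) (nat_lit 6) (nat_lit 32) (nat_lit 5) (nat_lit 108) (nat_lit 139) (nat_lit 143))))) (PT.nd (nat_lit 234) (PT.nd (nat_lit 78) (PT.lf (nat_lit 2736) (nat_lit 6) (nat_lit 36) (nat_lit 5) (nat_lit 109) (nat_lit 139) (nat_lit 142)) (PT.nd (nat_lit 78) (PT.lf (nat_lit 2964) (nat_lit 6) (nat_lit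 39) (nat_lit 5) (nat_lit 110) (nat_lit 139) (nat_lit 141)) (PT.lf (nat_lit 3268) (nat_lit 6) (nat_lit 43) (nat_lit 5) (nat_lit 111) (nat_lit 139) (nat_lit 140)))) (PT.nd (nat_lit 78) (PT.lf (nat_lit 3572) (nat_lit 3) (nat_lit 47) (nat_lit 4) (nat_lit 112) (nat_lit 139) (nat_lit 139)) (PT.nd (nat_lit 78) (PT.lf (nat_lit 3800) (nat_lit 6) (nat_lit 50) (nat_lit 4) (nat_lit 113) (nat_lit 139) (nat_lit 138)) (PT.lf (nat_lit 4028) (nat_lit 6) (nat_lit 53) (nat_lit 4) (nat_lit 114) (nat_lit 139) (nat_lit 137)))))) (PT.nd (nat_lit 468) (PT.nd (nat_lit 234) (PT.nd (nat_lit 78) (PT.lf (nat_lit 4332) (nat_lit 6) (nat_lit 57) (nat_lit 4) (nat_lit 115) (nat_lit 139) (nat_lit 136)) (PT.nd (nat_lit 78) (PT.lf (nat_lit 4560) (nat_lit 6) (nat_lit 60) (nat_lit 4) (nat_lit 116) (nat_lit 139) (nat_lit 135)) (PT.lf (nat_lit 4864) (nat_lit 6) (nat_lit 64) (nat_lit 4) (nat_lit 117) (nat_lit 139) (nat_lit 134))))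 (PT.nd (nat_lit 78) (PT.lf (nat_lit 5168) (nat_lit 6) (nat_lit 68) (nat_lit 4) (nat_lit 118) (nat_lit 139) (nat_lit 133)) (PT.nd (nat_lit 78) (PT.lf (nat_lit 5548) (nat_lit 6) (nat_lit 73) (nat_lit 4) (nat_lit 119) (nat_lit 139) (nat_lit 132)) (PT.lf (nat_lit 6004) (nat_lit 6) (nat_lit 79) (nat_lit 4) (nat_lit 120) (nat_lit 139) (nat_lit 131))))) (PT.nd (nat_lit 234) (PT.nd (nat_lit 78) (PT.lf (nat_lit 6688) (nat_lit 6) (nat_lit 88) (nat_lit 4) (nat_lit 121) (nat_lit 139) (nat_lit 130)) (PT.nd (nat_lit 78) (PT.lf (nat_lit 6612) (nat_lit 6) (nat_lit 87) (nat_lit 4) (nat_lit 122) (nat_lit 139) (nat_lit 129)) (PT.lf (nat_lit 6536) (nat_lit 6) (nat_lit 86) (nat_lit 4) (nat_lit 123) (nat_lit 139) (nat_lit 128)))) (PT.nd (nat_lit 78) (PT.lf (nat_lit 6460) (nat_lit 6) (nat_lit 85) (nat_lit 4) (nat_lit 124) (nat_lit 139) (nat_lit 127)) (PT.nd (nat_lit 78) (PT.lf (nat_lit 6384) (nat_lit 6) (nat_lit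 84) (nat_lit 4) (nat_lit 125) (nat_lit 139) (nat_lit 126)) (PT.lf (nat_lit 6384) (nat_lit 6) (nat_lit 84) (nat_lit 2) (nat_lit 126) (nat_lit 139) (nat_lit 125))))))))
noncomputable def pc12 : PT := (PT.nd (nat_lit 39390) (PT.nd (nat_lit 858) (PT.nd (nat_lit 390) (PT.nd (nat_lit 156) (PT.nd (nat_lit 78) (PT.lf (nat_lit 6460) (nat_lit 6) (nat_lit 85) (nat_lit 2) (nat_lit 127) (nat_lit 139) (nat_lit 124)) (PT.lf (nat_lit 6536) (nat_lit 6) (nat_lit 86) (nat_lit 2) (nat_lit 128) (nat_lit 139) (nat_lit 123))) (PT.nd (nat_lit 78) (PT.lf (nat_lit 6612) (nat_lit 6) (nat_lit 87) (nat_lit 2) (nat_lit 129) (nat_lit 139) (nat_lit 122)) (PT.nd (nat_lit 78) (PT.lf (nat_lit 6688) (nat_lit 6) (nat_lit 88) (nat_lit 2) (nat_lit 130) (nat_lit 139) (nat_lit 121)) (PT.lf (nat_lit 6004) (nat_lit 6) (nat_lit 79) (nat_lit 2) (nat_lit 131) (nat_lit 139) (nat_lit 120))))) (PT.nd (nat_lit 234) (PT.nd (nat_lit 78)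 (PT.lf (nat_lit 5548) (nat_lit 6) (nat_lit 73) (nat_lit 2) (nat_lit 132) (nat_lit 139) (nat_lit 119)) (PT.nd (nat_lit 78) (PT.lf (nat_lit 5168) (nat_lit 6) (nat_lit 68) (nat_lit 2) (nat_lit 133) (nat_lit 139) (nat_lit 118)) (PT.lf (nat_lit 4864) (nat_lit 6) (nat_lit 64) (nat_lit 2) (nat_lit 134) (nat_lit 139) (nat_lit 117)))) (PT.nd (nat_lit 78) (PT.lf (nat_lit 4560) (nat_lit 6) (nat_lit 60) (nat_lit 2) (nat_lit 135) (nat_lit 139) (nat_lit 116)) (PT.nd (nat_lit 78) (PT.lf (nat_lit 4332) (nat_lit 6) (nat_lit 57) (nat_lit 2) (nat_lit 136) (nat_lit 139) (nat_lit 115)) (PT.lf (nat_lit 4028) (nat_lit 6) (nat_lit 53) (nat_lit 2) (nat_lit 137) (nat_lit 139) (nat_lit 114)))))) (PT.nd (nat_lit 390) (PT.nd (nat_lit 156) (PT.nd (nat_lit 78) (PT.lf (nat_lit 3800) (nat_lit 6) (nat_lit 50) (nat_lit 2) (nat_lit 138) (nat_lit 139) (nat_lit 113)) (PT.lf (nat_lit 3572) (nat_lit 3) (nat_lit 47) (nat_lit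 0) (nat_lit 139) (nat_lit 139) (nat_lit 112))) (PT.nd (nat_lit 78) (PT.lf (nat_lit 3268) (nat_lit 6) (nat_lit 43) (nat_lit 0) (nat_lit 140) (nat_lit 139) (nat_lit 111)) (PT.nd (nat_lit 78) (PT.lf (nat_lit 2964) (nat_lit 6) (nat_lit 39) (nat_lit 0) (nat_lit 141) (nat_lit 139) (nat_lit 110)) (PT.lf (nat_lit 2736) (nat_lit 6) (nat_lit 36) (nat_lit 0) (nat_lit 142) (nat_lit 139) (nat_lit 109))))) (PT.nd (nat_lit 37908) (PT.nd (nat_lit 37752) (PT.lf (nat_lit 2432) (nat_lit 6) (nat_lit 32) (nat_lit 0) (nat_lit 143) (nat_lit 139) (nat_lit 108)) (PT.nd (nat_lit 78) (PT.lf (nat_lit 2052) (nat_lit 6) (nat_lit 27) (nat_lit 5) (nat_lit 106) (nat_lit 140) (nat_lit 144)) (PT.lf (nat_lit 2280) (nat_lit 6) (nat_lit 30) (nat_lit 5) (nat_lit 107) (nat_lit 140) (nat_lit 143)))) (PT.nd (nat_lit 78) (PT.lf (nat_lit 2508) (nat_lit 6) (nat_lit 33) (nat_lit 5) (nat_lit 108) (nat_lit 140) (nat_lit 142)) (PT.nd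 (nat_lit 78) (PT.lf (nat_lit 2812) (nat_lit 6) (nat_lit 37) (nat_lit 5) (nat_lit 109) (nat_lit 140) (nat_lit 141)) (PT.lf (nat_lit 3040) (nat_lit 3) (nat_lit 40) (nat_lit 4) (nat_lit 110) (nat_lit 140) (nat_lit 140))))))) (PT.nd (nat_lit 1404) (PT.nd (nat_lit 390) (PT.nd (nat_lit 156) (PT.nd (nat_lit 78) (PT.lf (nat_lit 3268) (nat_lit 6) (nat_lit 43) (nat_lit 4) (nat_lit 111) (nat_lit 140) (nat_lit 139)) (PT.lf (nat_lit 3496) (nat_lit 6) (nat_lit 46) (nat_lit 4) (nat_lit 112) (nat_lit 140) (nat_lit 138))) (PT.nd (nat_lit 78) (PT.lf (nat_lit 3724) (nat_lit 6) (nat_lit 49) (nat_lit 4) (nat_lit 113) (nat_lit 140) (nat_lit 137)) (PT.nd (nat_lit 78) (PT.lf (nat_lit 3952) (nat_lit 6) (nat_lit 52) (nat_lit 4) (nat_lit 114) (nat_lit 140) (nat_lit 136)) (PT.lf (nat_lit 4256) (nat_lit 6) (nat_lit 56) (nat_lit 4) (nat_lit 115) (nat_lit 140) (nat_lit 135))))) (PT.nd (nat_lit 234) (PT.nd (nat_lit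 78) (PT.lf (nat_lit 4484) (nat_lit 6) (nat_lit 59) (nat_lit 4) (nat_lit 116) (nat_lit 140) (nat_lit 134)) (PT.nd (nat_lit 78) (PT.lf (nat_lit 4788) (nat_lit 6) (nat_lit 63) (nat_lit 4) (nat_lit 117) (nat_lit 140) (nat_lit 133)) (PT.lf (nat_lit 5092) (nat_lit 6) (nat_lit 67) (nat_lit 4) (nat_lit 118) (nat_lit 140) (nat_lit 132)))) (PT.nd (nat_lit 78) (PT.lf (nat_lit 5472) (nat_lit 6) (nat_lit 72) (nat_lit 4) (nat_lit 119) (nat_lit 140) (nat_lit 131)) (PT.nd (nat_lit 78) (PT.lf (nat_lit 5928) (nat_lit 6) (nat_lit 78) (nat_lit 4) (nat_lit 120) (nat_lit 140) (nat_lit 130)) (PT.lf (nat_lit 5852) (nat_lit 6) (nat_lit 77) (nat_lit 4) (nat_lit 121) (nat_lit 140) (nat_lit 129)))))) (PT.nd (nat_lit 468) (PT.nd (nat_lit 234) (PT.nd (nat_lit 78) (PT.lf (nat_lit 5852) (nat_lit 6) (nat_lit 77) (nat_lit 2) (nat_lit 129) (nat_lit 140) (nat_lit 121)) (PT.nd (nat_lit 78) (PT.lf (nat_lit 5928) (nat_lit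 6) (nat_lit 78) (nat_lit 2) (nat_lit 130) (nat_lit 140) (nat_lit 120)) (PT.lf (nat_lit 5472) (nat_lit 6) (nat_lit 72) (nat_lit 2) (nat_lit 131) (nat_lit 140) (nat_lit 119)))) (PT.nd (nat_lit 78) (PT.lf (nat_lit 5092) (nat_lit 6) (nat_lit 67) (nat_lit 2) (nat_lit 132) (nat_lit 140) (nat_lit 118)) (PT.nd (nat_lit 78) (PT.lf (nat_lit 4788) (nat_lit 6) (nat_lit 63) (nat_lit 2) (nat_lit 133) (nat_lit 140) (nat_lit 117)) (PT.lf (nat_lit 4484) (nat_lit 6) (nat_lit 59) (nat_lit 2) (nat_lit 134) (nat_lit 140) (nat_lit 116))))) (PT.nd (nat_lit 234) (PT.nd (nat_lit 78) (PT.lf (nat_lit 4256) (nat_lit 6) (nat_lit 56) (nat_lit 2) (nat_lit 135) (nat_lit 140) (nat_lit 115)) (PT.nd (nat_lit 78) (PT.lf (nat_lit 3952) (nat_lit 6) (nat_lit 52) (nat_lit 2) (nat_lit 136) (nat_lit 140) (nat_lit 114)) (PT.lf (nat_lit 3724) (nat_lit 6) (nat_lit 49) (nat_lit 2) (nat_lit 137) (nat_lit 140) (nat_lit 113)))) (PT.nd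 (nat_lit 78) (PT.lf (nat_lit 3496) (nat_lit 6) (nat_lit 46) (nat_lit 2) (nat_lit 138) (nat_lit 140) (nat_lit 112)) (PT.nd (nat_lit 78) (PT.lf (nat_lit 3268) (nat_lit 6) (nat_lit 43) (nat_lit 2) (nat_lit 139) (nat_lit 140) (nat_lit 111)) (PT.lf (nat_lit 3040) (nat_lit 3) (nat_lit 40) (nat_lit 0) (nat_lit 140) (nat_lit 140) (nat_lit 110))))))))
noncomputable def pc13 : PT := (PT.nd (nat_lit 40638) (PT.nd (nat_lit 38376) (PT.nd (nat_lit 37908) (PT.nd (nat_lit 156) (PT.nd (nat_lit 78) (PT.lf (nat_lit 2812) (nat_lit 6) (nat_lit 37) (nat_lit 0) (nat_lit 141) (nat_lit 140) (nat_lit 109)) (PT.lf (nat_lit 2508) (nat_lit 6) (nat_lit 33) (nat_lit 0) (nat_lit 142) (nat_lit 140) (nat_lit 108))) (PT.nd (nat_lit 78) (PT.lf (nat_lit 2280) (nat_lit 6) (nat_lit 30) (nat_lit 0) (nat_lit 143) (nat_lit 140) (nat_lit 107)) (PT.nd (nat_lit 37596) (PT.lf (nat_lit 2052) (nat_lit 6) (nat_lit 27) (nat_lit 0) (nat_lit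 144) (nat_lit 140) (nat_lit 106)) (PT.lf (nat_lit 1900) (nat_lit 6) (nat_lit 25) (nat_lit 5) (nat_lit 105) (nat_lit 141) (nat_lit 144))))) (PT.nd (nat_lit 234) (PT.nd (nat_lit 78) (PT.lf (nat_lit 2128) (nat_lit 6) (nat_lit 28) (nat_lit 5) (nat_lit 106) (nat_lit 141) (nat_lit 143)) (PT.nd (nat_lit 78) (PT.lf (nat_lit 2356) (nat_lit 6) (nat_lit 31) (nat_lit 5) (nat_lit 107) (nat_lit 141) (nat_lit 142)) (PT.lf (nat_lit 2584) (nat_lit 3) (nat_lit 34) (nat_lit 4) (nat_lit 108) (nat_lit 141) (nat_lit 141)))) (PT.nd (nat_lit 78) (PT.lf (nat_lit 2812) (nat_lit 6) (nat_lit 37) (nat_lit 4) (nat_lit 109) (nat_lit 141) (nat_lit 140)) (PT.nd (nat_lit 78) (PT.lf (nat_lit 2964) (nat_lit 6) (nat_lit 39) (nat_lit 4) (nat_lit 110) (nat_lit 141) (nat_lit 139)) (PT.lf (nat_lit 3192) (nat_lit 6) (nat_lit 42) (nat_lit 4) (nat_lit 111) (nat_lit 141) (nat_lit 138)))))) (PT.nd (nat_lit 1794) (PT.nd (nat_lit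 156) (PT.nd (nat_lit 78) (PT.lf (nat_lit 3420) (nat_lit 6) (nat_lit 45) (nat_lit 4) (nat_lit 112) (nat_lit 141) (nat_lit 137)) (PT.lf (nat_lit 3648) (nat_lit 6) (nat_lit 48) (nat_lit 4) (nat_lit 113) (nat_lit 141) (nat_lit 136))) (PT.nd (nat_lit 78) (PT.lf (nat_lit 3876) (nat_lit 6) (nat_lit 51) (nat_lit 4) (nat_lit 114) (nat_lit 141) (nat_lit 135)) (PT.nd (nat_lit 1482) (PT.lf (nat_lit 4180) (nat_lit 6) (nat_lit 55) (nat_lit 4) (nat_lit 115) (nat_lit 141) (nat_lit 134)) (PT.lf (nat_lit 4180) (nat_lit 6) (nat_lit 55) (nat_lit 2) (nat_lit 134) (nat_lit 141) (nat_lit 115))))) (PT.nd (nat_lit 234) (PT.nd (nat_lit 78) (PT.lf (nat_lit 3876) (nat_lit 6) (nat_lit 51) (nat_lit 2) (nat_lit 135) (nat_lit 141) (nat_lit 114)) (PT.nd (nat_lit 78) (PT.lf (nat_lit 3648) (nat_lit 6) (nat_lit 48) (nat_lit 2) (nat_lit 136) (nat_lit 141) (nat_lit 113)) (PT.lf (nat_lit 3420) (nat_lit 6) (nat_lit 45) (nat_lit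 2) (nat_lit 137) (nat_lit 141) (nat_lit 112)))) (PT.nd (nat_lit 78) (PT.lf (nat_lit 3192) (nat_lit 6) (nat_lit 42) (nat_lit 2) (nat_lit 138) (nat_lit 141) (nat_lit 111)) (PT.nd (nat_lit 78) (PT.lf (nat_lit 2964) (nat_lit 6) (nat_lit 39) (nat_lit 2) (nat_lit 139) (nat_lit 141) (nat_lit 110)) (PT.lf (nat_lit 2812) (nat_lit 6) (nat_lit 37) (nat_lit 2) (nat_lit 140) (nat_lit 141) (nat_lit 109))))))) (PT.nd (nat_lit 38220) (PT.nd (nat_lit 37752) (PT.nd (nat_lit 156) (PT.nd (nat_lit 78) (PT.lf (nat_lit 2584) (nat_lit 3) (nat_lit 34) (nat_lit 0) (nat_lit 141) (nat_lit 141) (nat_lit 108)) (PT.lf (nat_lit 2356) (nat_lit 6) (nat_lit 31) (nat_lit 0) (nat_lit 142) (nat_lit 141) (nat_lit 107))) (PT.nd (nat_lit 78) (PT.lf (nat_lit 2128) (nat_lit 6) (nat_lit 28) (nat_lit 0) (nat_lit 143) (nat_lit 141) (nat_lit 106)) (PT.nd (nat_lit 37440) (PT.lf (nat_lit 1900) (nat_lit 6) (nat_lit 25) (nat_lit 0) (nat_lit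 144) (nat_lit 141) (nat_lit 105)) (PT.lf (nat_lit 1596) (nat_lit 6) (nat_lit 21) (nat_lit 5) (nat_lit 103) (nat_lit 142) (nat_lit 145))))) (PT.nd (nat_lit 234) (PT.nd (nat_lit 78) (PT.lf (nat_lit 1748) (nat_lit 6) (nat_lit 23) (nat_lit 5) (nat_lit 104) (nat_lit 142) (nat_lit 144)) (PT.nd (nat_lit 78) (PT.lf (nat_lit 1976) (nat_lit 6) (nat_lit 26) (nat_lit 5) (nat_lit 105) (nat_lit 142) (nat_lit 143)) (PT.lf (nat_lit 2204) (nat_lit 3) (nat_lit 29) (nat_lit 4) (nat_lit 106) (nat_lit 142) (nat_lit 142)))) (PT.nd (nat_lit 78) (PT.lf (nat_lit 2356) (nat_lit 6) (nat_lit 31) (nat_lit 4) (nat_lit 107) (nat_lit 142) (nat_lit 141)) (PT.nd (nat_lit 78) (PT.lf (nat_lit 2508) (nat_lit 6) (nat_lit 33) (nat_lit 4) (nat_lit 108) (nat_lit 142) (nat_lit 140)) (PT.lf (nat_lit 2736) (nat_lit 6) (nat_lit 36) (nat_lit 4) (nat_lit 109) (nat_lit 142) (nat_lit 139)))))) (PT.nd (nat_lit 2262) (PT.nd (nat_lit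 2028) (PT.nd (nat_lit 78) (PT.lf (nat_lit 2888) (nat_lit 6) (nat_lit 38) (nat_lit 4) (nat_lit 110) (nat_lit 142) (nat_lit 138)) (PT.nd (nat_lit 78) (PT.lf (nat_lit 3116) (nat_lit 6) (nat_lit 41) (nat_lit 4) (nat_lit 111) (nat_lit 142) (nat_lit 137)) (PT.lf (nat_lit 3344) (nat_lit 6) (nat_lit 44) (nat_lit 4) (nat_lit 112) (nat_lit 142) (nat_lit 136)))) (PT.nd (nat_lit 78) (PT.lf (nat_lit 3344) (nat_lit 6) (nat_lit 44) (nat_lit 2) (nat_lit 136) (nat_lit 142) (nat_lit 112)) (PT.nd (nat_lit 78) (PT.lf (nat_lit 3116) (nat_lit 6) (nat_lit 41) (nat_lit 2) (nat_lit 137) (nat_lit 142) (nat_lit 111)) (PT.lf (nat_lit 2888) (nat_lit 6) (nat_lit 38) (nat_lit 2) (nat_lit 138) (nat_lit 142) (nat_lit 110))))) (PT.nd (nat_lit 234) (PT.nd (nat_lit 78) (PT.lf (nat_lit 2736) (nat_lit 6) (nat_lit 36) (nat_lit 2) (nat_lit 139) (nat_lit 142) (nat_lit 109)) (PT.nd (nat_lit 78) (PT.lf (nat_lit 2508) (nat_lit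 6) (nat_lit 33) (nat_lit 2) (nat_lit 140) (nat_lit 142) (nat_lit 108)) (PT.lf (nat_lit 2356) (nat_lit 6) (nat_lit 31) (nat_lit 2) (nat_lit 141) (nat_lit 142) (nat_lit 107)))) (PT.nd (nat_lit 78) (PT.lf (nat_lit 2204) (nat_lit 3) (nat_lit 29) (nat_lit 0) (nat_lit 142) (nat_lit 142) (nat_lit 106)) (PT.nd (nat_lit 78) (PT.lf (nat_lit 1976) (nat_lit 6) (nat_lit 26) (nat_lit 0) (nat_lit 143) (nat_lit 142) (nat_lit 105)) (PT.lf (nat_lit 1748) (nat_lit 6) (nat_lit 23) (nat_lit 0) (nat_lit 144) (nat_lit 142) (nat_lit 104))))))))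
noncomputable def pc14 : PT := (PT.nd (nat_lit 78000) (PT.nd (nat_lit 40170) (PT.nd (nat_lit 37518) (PT.nd (nat_lit 37284) (PT.nd (nat_lit 37206) (PT.lf (nat_lit 1596) (nat_lit 6) (nat_lit 21) (nat_lit 0) (nat_lit 145) (nat_lit 142) (nat_lit 103)) (PT.lf (nat_lit 1292) (nat_lit 6) (nat_lit 17) (nat_lit 5) (nat_lit 101) (nat_lit 143) (nat_lit 146))) (PT.nd (nat_lit 78) (PT.lf (nat_lit 1444) (nat_lit 6) (nat_lit 19) (nat_lit 5) (nat_lit 102) (nat_lit 143) (nat_lit 145)) (PT.nd (nat_lit 78) (PT.lf (nat_lit 1672) (nat_lit 6) (nat_lit 22) (nat_lit 5) (nat_lit 103) (nat_lit 143) (nat_lit 144)) (PT.lf (nat_lit 1824) (nat_lit 3) (nat_lit 24) (nat_lit 4) (nat_lit 104) (nat_lit 143) (nat_lit 143))))) (PT.nd (nat_lit 234) (PT.nd (nat_lit 78) (PT.lf (nat_lit 1976) (nat_lit 6) (nat_lit 26) (nat_lit 4) (nat_lit 105) (nat_lit 143) (nat_lit 142)) (PT.nd (nat_lit 78) (PT.lf (nat_lit 2128) (nat_lit 6)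 (nat_lit 28) (nat_lit 4) (nat_lit 106) (nat_lit 143) (nat_lit 141)) (PT.lf (nat_lit 2280) (nat_lit 6) (nat_lit 30) (nat_lit 4) (nat_lit 107) (nat_lit 143) (nat_lit 140)))) (PT.nd (nat_lit 78) (PT.lf (nat_lit 2432) (nat_lit 6) (nat_lit 32) (nat_lit 4) (nat_lit 108) (nat_lit 143) (nat_lit 139)) (PT.nd (nat_lit 2262) (PT.lf (nat_lit 2660) (nat_lit 6) (nat_lit 35) (nat_lit 4) (nat_lit 109) (nat_lit 143) (nat_lit 138)) (PT.lf (nat_lit 2660) (nat_lit 6) (nat_lit 35) (nat_lit 2) (nat_lit 138) (nat_lit 143) (nat_lit 109)))))) (PT.nd (nat_lit 390) (PT.nd (nat_lit 156) (PT.nd (nat_lit 78) (PT.lf (nat_lit 2432) (nat_lit 6) (nat_lit 32) (nat_lit 2) (nat_lit 139) (nat_lit 143) (nat_lit 108)) (PT.lf (nat_lit 2280) (nat_lit 6) (nat_lit 30) (nat_lit 2) (nat_lit 140) (nat_lit 143) (nat_lit 107))) (PT.nd (nat_lit 78) (PT.lf (nat_lit 2128) (nat_lit 6) (nat_lit 28) (nat_lit 2) (nat_lit 141) (nat_lit 143)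 (nat_lit 106)) (PT.nd (nat_lit 78) (PT.lf (nat_lit 1976) (nat_lit 6) (nat_lit 26) (nat_lit 2) (nat_lit 142) (nat_lit 143) (nat_lit 105)) (PT.lf (nat_lit 1824) (nat_lit 3) (nat_lit 24) (nat_lit 0) (nat_lit 143) (nat_lit 143) (nat_lit 104))))) (PT.nd (nat_lit 37206) (PT.nd (nat_lit 78) (PT.lf (nat_lit 1672) (nat_lit 6) (nat_lit 22) (nat_lit 0) (nat_lit 144) (nat_lit 143) (nat_lit 103)) (PT.nd (nat_lit 78) (PT.lf (nat_lit 1444) (nat_lit 6) (nat_lit 19) (nat_lit 0) (nat_lit 145) (nat_lit 143) (nat_lit 102)) (PT.lf (nat_lit 1292) (nat_lit 6) (nat_lit 17) (nat_lit 0) (nat_lit 146) (nat_lit 143) (nat_lit 101)))) (PT.nd (nat_lit 78) (PT.lf (nat_lit 1140) (nat_lit 6) (nat_lit 15) (nat_lit 5) (nat_lit 100) (nat_lit 144) (nat_lit 146)) (PT.nd (nat_lit 78) (PT.lf (nat_lit 1368) (nat_lit 6) (nat_lit 18) (nat_lit 5) (nat_lit 101) (nat_lit 144) (nat_lit 145)) (PT.lf (nat_lit 1520) (nat_lit 3) (nat_lit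 20) (nat_lit 4) (nat_lit 102) (nat_lit 144) (nat_lit 144))))))) (PT.nd (nat_lit 40248) (PT.nd (nat_lit 2964) (PT.nd (nat_lit 156) (PT.nd (nat_lit 78) (PT.lf (nat_lit 1672) (nat_lit 6) (nat_lit 22) (nat_lit 4) (nat_lit 103) (nat_lit 144) (nat_lit 143)) (PT.lf (nat_lit 1748) (nat_lit 6) (nat_lit 23) (nat_lit 4) (nat_lit 104) (nat_lit 144) (nat_lit 142))) (PT.nd (nat_lit 78) (PT.lf (nat_lit 1900) (nat_lit 6) (nat_lit 25) (nat_lit 4) (nat_lit 105) (nat_lit 144) (nat_lit 141)) (PT.nd (nat_lit 2652) (PT.lf (nat_lit 2052) (nat_lit 6) (nat_lit 27) (nat_lit 4) (nat_lit 106) (nat_lit 144) (nat_lit 140)) (PT.lf (nat_lit 2052) (nat_lit 6) (nat_lit 27) (nat_lit 2) (nat_lit 140) (nat_lit 144) (nat_lit 106))))) (PT.nd (nat_lit 234) (PT.nd (nat_lit 78) (PT.lf (nat_lit 1900) (nat_lit 6) (nat_lit 25) (nat_lit 2) (nat_lit 141) (nat_lit 144) (nat_lit 105)) (PT.nd (nat_lit 78) (PT.lf (nat_lit 1748) (nat_lit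 6) (nat_lit 23) (nat_lit 2) (nat_lit 142) (nat_lit 144) (nat_lit 104)) (PT.lf (nat_lit 1672) (nat_lit 6) (nat_lit 22) (nat_lit 2) (nat_lit 143) (nat_lit 144) (nat_lit 103)))) (PT.nd (nat_lit 78) (PT.lf (nat_lit 1520) (nat_lit 3) (nat_lit 20) (nat_lit 0) (nat_lit 144) (nat_lit 144) (nat_lit 102)) (PT.nd (nat_lit 78) (PT.lf (nat_lit 1368) (nat_lit 6) (nat_lit 18) (nat_lit 0) (nat_lit 145) (nat_lit 144) (nat_lit 101)) (PT.lf (nat_lit 1140) (nat_lit 6) (nat_lit 15) (nat_lit 0) (nat_lit 146) (nat_lit 144) (nat_lit 100)))))) (PT.nd (nat_lit 3432) (PT.nd (nat_lit 234) (PT.nd (nat_lit 78) (PT.lf (nat_lit 912) (nat_lit 6) (nat_lit 12) (nat_lit 5) (nat_lit 98) (nat_lit 145) (nat_lit 147)) (PT.nd (nat_lit 78) (PT.lf (nat_lit 1064) (nat_lit 6) (nat_lit 14) (nat_lit 5) (nat_lit 99) (nat_lit 145) (nat_lit 146)) (PT.lf (nat_lit 1216) (nat_lit 3) (nat_lit 16) (nat_lit 4) (nat_lit 100) (nat_lit 145)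 (nat_lit 145)))) (PT.nd (nat_lit 78) (PT.lf (nat_lit 1368) (nat_lit 6) (nat_lit 18) (nat_lit 4) (nat_lit 101) (nat_lit 145) (nat_lit 144)) (PT.nd (nat_lit 78) (PT.lf (nat_lit 1444) (nat_lit 6) (nat_lit 19) (nat_lit 4) (nat_lit 102) (nat_lit 145) (nat_lit 143)) (PT.lf (nat_lit 1596) (nat_lit 6) (nat_lit 21) (nat_lit 4) (nat_lit 103) (nat_lit 145) (nat_lit 142))))) (PT.nd (nat_lit 234) (PT.nd (nat_lit 78) (PT.lf (nat_lit 1596) (nat_lit 6) (nat_lit 21) (nat_lit 2) (nat_lit 142) (nat_lit 145) (nat_lit 103)) (PT.nd (nat_lit 78) (PT.lf (nat_lit 1444) (nat_lit 6) (nat_lit 19) (nat_lit 2) (nat_lit 143) (nat_lit 145) (nat_lit 102)) (PT.lf (nat_lit 1368) (nat_lit 6) (nat_lit 18) (nat_lit 2) (nat_lit 144) (nat_lit 145) (nat_lit 101)))) (PT.nd (nat_lit 78) (PT.lf (nat_lit 1216) (nat_lit 3) (nat_lit 16) (nat_lit 0) (nat_lit 145) (nat_lit 145) (nat_lit 100)) (PT.nd (nat_lit 78) (PT.lf (nat_lit 1064)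 (nat_lit 6) (nat_lit 14) (nat_lit 0) (nat_lit 146) (nat_lit 145) (nat_lit 99)) (PT.lf (nat_lit 912) (nat_lit 6) (nat_lit 12) (nat_lit 0) (nat_lit 147) (nat_lit 145) (nat_lit 98))))))))
noncomputable def pc15 : PT := (PT.nd (nat_lit 81042) (PT.nd (nat_lit 4056) (PT.nd (nat_lit 390) (PT.nd (nat_lit 156) (PT.nd (nat_lit 78) (PT.lf (nat_lit 684) (nat_lit 6) (nat_lit 9) (nat_lit 5) (nat_lit 96) (nat_lit 146) (nat_lit 148)) (PT.lf (nat_lit 836) (nat_lit 6) (nat_lit 11) (nat_lit 5) (nat_lit 97) (nat_lit 146) (nat_lit 147))) (PT.nd (nat_lit 78) (PT.lf (nat_lit 988) (nat_lit 3) (nat_lit 13) (nat_lit 4) (nat_lit 98) (nat_lit 146) (nat_lit 146)) (PT.nd (nat_lit 78) (PT.lf (nat_lit 1064) (nat_lit 6) (nat_lit 14) (nat_lit 4) (nat_lit 99) (nat_lit 146) (nat_lit 145)) (PT.lf (nat_lit 1140) (nat_lit 6) (nat_lit 15) (nat_lit 4) (nat_lit 100) (nat_lit 146) (nat_lit 144))))) (PT.nd (nat_lit 3432) (PT.nd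 (nat_lit 3276) (PT.lf (nat_lit 1292) (nat_lit 6) (nat_lit 17) (nat_lit 4) (nat_lit 101) (nat_lit 146) (nat_lit 143)) (PT.nd (nat_lit 78) (PT.lf (nat_lit 1292) (nat_lit 6) (nat_lit 17) (nat_lit 2) (nat_lit 143) (nat_lit 146) (nat_lit 101)) (PT.lf (nat_lit 1140) (nat_lit 6) (nat_lit 15) (nat_lit 2) (nat_lit 144) (nat_lit 146) (nat_lit 100)))) (PT.nd (nat_lit 78) (PT.lf (nat_lit 1064) (nat_lit 6) (nat_lit 14) (nat_lit 2) (nat_lit 145) (nat_lit 146) (nat_lit 99)) (PT.nd (nat_lit 78) (PT.lf (nat_lit 988) (nat_lit 3) (nat_lit 13) (nat_lit 0) (nat_lit 146) (nat_lit 146) (nat_lit 98)) (PT.lf (nat_lit 836) (nat_lit 6) (nat_lit 11) (nat_lit 0) (nat_lit 147) (nat_lit 146) (nat_lit 97)))))) (PT.nd (nat_lit 40404) (PT.nd (nat_lit 36582) (PT.nd (nat_lit 36426) (PT.lf (nat_lit 684) (nat_lit 6) (nat_lit 9) (nat_lit 0) (nat_lit 148) (nat_lit 146) (nat_lit 96)) (PT.nd (nat_lit 78) (PT.lf (nat_lit 456)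 (nat_lit 6) (nat_lit 6) (nat_lit 5) (nat_lit 94) (nat_lit 147) (nat_lit 149)) (PT.lf (nat_lit 608) (nat_lit 6) (nat_lit 8) (nat_lit 5) (nat_lit 95) (nat_lit 147) (nat_lit 148)))) (PT.nd (nat_lit 78) (PT.lf (nat_lit 760) (nat_lit 3) (nat_lit 10) (nat_lit 4) (nat_lit 96) (nat_lit 147) (nat_lit 147)) (PT.nd (nat_lit 78) (PT.lf (nat_lit 836) (nat_lit 6) (nat_lit 11) (nat_lit 4) (nat_lit 97) (nat_lit 147) (nat_lit 146)) (PT.lf (nat_lit 912) (nat_lit 6) (nat_lit 12) (nat_lit 4) (nat_lit 98) (nat_lit 147) (nat_lit 145))))) (PT.nd (nat_lit 234) (PT.nd (nat_lit 78) (PT.lf (nat_lit 912) (nat_lit 6) (nat_lit 12) (nat_lit 2) (nat_lit 145) (nat_lit 147) (nat_lit 98)) (PT.nd (nat_lit 78) (PT.lf (nat_lit 836) (nat_lit 6) (nat_lit 11) (nat_lit 2) (nat_lit 146) (nat_lit 147) (nat_lit 97)) (PT.lf (nat_lit 760) (nat_lit 3) (nat_lit 10) (nat_lit 0) (nat_lit 147) (nat_lit 147) (nat_lit 96)))) (PT.nd (nat_lit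 78) (PT.lf (nat_lit 608) (nat_lit 6) (nat_lit 8) (nat_lit 0) (nat_lit 148) (nat_lit 147) (nat_lit 95)) (PT.nd (nat_lit 36192) (PT.lf (nat_lit 456) (nat_lit 6) (nat_lit 6) (nat_lit 0) (nat_lit 149) (nat_lit 147) (nat_lit 94)) (PT.lf (nat_lit 228) (nat_lit 6) (nat_lit 3) (nat_lit 5) (nat_lit 92) (nat_lit 148) (nat_lit 150))))))) (PT.nd (nat_lit 40638) (PT.nd (nat_lit 4212) (PT.nd (nat_lit 156) (PT.nd (nat_lit 78) (PT.lf (nat_lit 380) (nat_lit 6) (nat_lit 5) (nat_lit 5) (nat_lit 93) (nat_lit 148) (nat_lit 149)) (PT.lf (nat_lit 532) (nat_lit 3) (nat_lit 7) (nat_lit 4) (nat_lit 94) (nat_lit 148) (nat_lit 148))) (PT.nd (nat_lit 78) (PT.lf (nat_lit 608) (nat_lit 6) (nat_lit 8) (nat_lit 4) (nat_lit 95) (nat_lit 148) (nat_lit 147)) (PT.nd (nat_lit 3900) (PT.lf (nat_lit 684) (nat_lit 6) (nat_lit 9) (nat_lit 4) (nat_lit 96) (nat_lit 148) (nat_lit 146)) (PT.lf (nat_lit 684) (nat_lit 6) (nat_lit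 9) (nat_lit 2) (nat_lit 146) (nat_lit 148) (nat_lit 96))))) (PT.nd (nat_lit 234) (PT.nd (nat_lit 78) (PT.lf (nat_lit 608) (nat_lit 6) (nat_lit 8) (nat_lit 2) (nat_lit 147) (nat_lit 148) (nat_lit 95)) (PT.nd (nat_lit 78) (PT.lf (nat_lit 532) (nat_lit 3) (nat_lit 7) (nat_lit 0) (nat_lit 148) (nat_lit 148) (nat_lit 94)) (PT.lf (nat_lit 380) (nat_lit 6) (nat_lit 5) (nat_lit 0) (nat_lit 149) (nat_lit 148) (nat_lit 93)))) (PT.nd (nat_lit 36036) (PT.lf (nat_lit 228) (nat_lit 6) (nat_lit 3) (nat_lit 0) (nat_lit 150) (nat_lit 148) (nat_lit 92)) (PT.nd (nat_lit 78) (PT.lf (nat_lit 152) (nat_lit 6) (nat_lit 2) (nat_lit 5) (nat_lit 91) (nat_lit 149) (nat_lit 150)) (PT.lf (nat_lit 304) (nat_lit 3) (nat_lit 4) (nat_lit 4) (nat_lit 92) (nat_lit 149) (nat_lit 149)))))) (PT.nd (nat_lit 40404) (PT.nd (nat_lit 4290) (PT.nd (nat_lit 78) (PT.lf (nat_lit 380) (nat_lit 6) (nat_lit 5) (nat_lit 4) (nat_lit 93)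 (nat_lit 149) (nat_lit 148)) (PT.nd (nat_lit 4134) (PT.lf (nat_lit 456) (nat_lit 6) (nat_lit 6) (nat_lit 4) (nat_lit 94) (nat_lit 149) (nat_lit 147)) (PT.lf (nat_lit 456) (nat_lit 6) (nat_lit 6) (nat_lit 2) (nat_lit 147) (nat_lit 149) (nat_lit 94)))) (PT.nd (nat_lit 78) (PT.lf (nat_lit 380) (nat_lit 6) (nat_lit 5) (nat_lit 2) (nat_lit 148) (nat_lit 149) (nat_lit 93)) (PT.nd (nat_lit 78) (PT.lf (nat_lit 304) (nat_lit 3) (nat_lit 4) (nat_lit 0) (nat_lit 149) (nat_lit 149) (nat_lit 92)) (PT.lf (nat_lit 152) (nat_lit 6) (nat_lit 2) (nat_lit 0) (nat_lit 150) (nat_lit 149) (nat_lit 91))))) (PT.nd (nat_lit 4524) (PT.nd (nat_lit 78) (PT.lf (nat_lit 76) (nat_lit 3) (nat_lit 1) (nat_lit 4) (nat_lit 90) (nat_lit 150) (nat_lit 150)) (PT.nd (nat_lit 78) (PT.lf (nat_lit 152) (nat_lit 6) (nat_lit 2) (nat_lit 4) (nat_lit 91) (nat_lit 150) (nat_lit 149)) (PT.lf (nat_lit 228) (nat_lit 6) (nat_lit 3) (nat_lit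 4) (nat_lit 92) (nat_lit 150) (nat_lit 148)))) (PT.nd (nat_lit 78) (PT.lf (nat_lit 228) (nat_lit 6) (nat_lit 3) (nat_lit 2) (nat_lit 148) (nat_lit 150) (nat_lit 92)) (PT.nd (nat_lit 78) (PT.lf (nat_lit 152) (nat_lit 6) (nat_lit 2) (nat_lit 2) (nat_lit 149) (nat_lit 150) (nat_lit 91)) (PT.lf (nat_lit 76) (nat_lit 3) (nat_lit 1) (nat_lit 0) (nat_lit 150) (nat_lit 150) (nat_lit 90))))))))
noncomputable def xc0 : XT := (XT.nd (nat_lit 161928) (nat_lit 0) (nat_lit 0) (XT.nd (nat_lit 81276) (nat_lit 0) (nat_lit 0) (XT.nd (nat_lit 40716) (nat_lit 0) (nat_lit 0) (XT.nd (nat_lit 40482) (nat_lit 0) (nat_lit 0) (XT.nd (nat_lit 78) (nat_lit 0) (nat_lit 0) (XT.lf (nat_lit 0) (nat_lit 243758406080) (nat_lit 76) (nat_lit 64783294372) (nat_lit 76) (nat_lit 64783294372) (nat_lit 1) (nat_lit 4) (nat_lit 2) (nat_lit 5) (nat_lit 2) (nat_lit 4) (nat_lit 392) (nat_lit 194) (nat_lit 194)) (XT.lf (nat_lit 0)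 (nat_lit 513561943066) (nat_lit 76) (nat_lit 135210343389) (nat_lit 76) (nat_lit 135165723423) (nat_lit 1) (nat_lit 4) (nat_lit 2) (nat_lit 5) (nat_lit 2) (nat_lit 4) (nat_lit 393) (nat_lit 194) (nat_lit 193))) (XT.nd (nat_lit 78) (nat_lit 0) (nat_lit 0) (XT.lf (nat_lit 0) (nat_lit 219479335617) (nat_lit 76) (nat_lit 59590259169) (nat_lit 76) (nat_lit 59590259169) (nat_lit 1) (nat_lit 4) (nat_lit 2) (nat_lit 5) (nat_lit 2) (nat_lit 4) (nat_lit 390) (nat_lit 195) (nat_lit 195)) (XT.nd (nat_lit 78) (nat_lit 0) (nat_lit 0) (XT.lf (nat_lit 0) (nat_lit 462659359608) (nat_lit 76) (nat_lit 124263240722) (nat_lit 76) (nat_lit 124216389758) (nat_lit 1) (nat_lit 4) (nat_lit 2) (nat_lit 5) (nat_lit 2) (nat_lit 4) (nat_lit 391) (nat_lit 195) (nat_lit 194)) (XT.lf (nat_lit 0) (nat_lit 487489888124) (nat_lit 76) (nat_lit 129626144932) (nat_lit 76) (nat_lit 129534674003) (nat_lit 1) (nat_lit 4) (nat_lit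 2) (nat_lit 5) (nat_lit 2) (nat_lit 4) (nat_lit 392) (nat_lit 195) (nat_lit 193))))) (XT.nd (nat_lit 40326) (nat_lit 0) (nat_lit 0) (XT.nd (nat_lit 40248) (nat_lit 0) (nat_lit 0) (XT.lf (nat_lit 0) (nat_lit 513509377089) (nat_lit 76) (nat_lit 135281999788) (nat_lit 76) (nat_lit 135148033653) (nat_lit 1) (nat_lit 4) (nat_lit 2) (nat_lit 5) (nat_lit 2) (nat_lit 4) (nat_lit 393) (nat_lit 195) (nat_lit 192)) (XT.lf (nat_lit 0) (nat_lit 197376666782) (nat_lit 76) (nat_lit 54921518230) (nat_lit 76) (nat_lit 54921518230) (nat_lit 1) (nat_lit 4) (nat_lit 2) (nat_lit 5) (nat_lit 2) (nat_lit 4) (nat_lit 388) (nat_lit 196) (nat_lit 196))) (XT.nd (nat_lit 78) (nat_lit 0) (nat_lit 0) (XT.lf (nat_lit 0) (nat_lit 416331392794) (nat_lit 76) (nat_lit 114415069573) (nat_lit 76) (nat_lit 114365876061) (nat_lit 1) (nat_lit 4) (nat_lit 2) (nat_lit 5) (nat_lit 2) (nat_lit 4) (nat_lit 389) (nat_lit 196) (nat_lit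 195)) (XT.nd (nat_lit 78) (nat_lit 0) (nat_lit 0) (XT.lf (nat_lit 0) (nat_lit 438930400996) (nat_lit 76) (nat_lit 119243052335) (nat_lit 76) (nat_lit 119147007859) (nat_lit 1) (nat_lit 4) (nat_lit 2) (nat_lit 5) (nat_lit 2) (nat_lit 4) (nat_lit 390) (nat_lit 196) (nat_lit 194)) (XT.lf (nat_lit 0) (nat_lit 462604165332) (nat_lit 76) (nat_lit 124338479942) (nat_lit 76) (nat_lit 124197815500) (nat_lit 1) (nat_lit 4) (nat_lit 2) (nat_lit 5) (nat_lit 2) (nat_lit 4) (nat_lit 391) (nat_lit 196) (nat_lit 193)))))) (XT.nd (nat_lit 40404) (nat_lit 0) (nat_lit 0) (XT.nd (nat_lit 40170) (nat_lit 0) (nat_lit 0) (XT.nd (nat_lit 78) (nat_lit 0) (nat_lit 0) (XT.lf (nat_lit 0) (nat_lit 487409051908) (nat_lit 76) (nat_lit 129713484364) (nat_lit 76) (nat_lit 129530324717) (nat_lit 1) (nat_lit 4) (nat_lit 2) (nat_lit 5) (nat_lit 2) (nat_lit 4) (nat_lit 392) (nat_lit 196) (nat_lit 192)) (XT.lf (nat_lit 0)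 (nat_lit 513404119978) (nat_lit 76) (nat_lit 135380863232) (nat_lit 76) (nat_lit 135157231961) (nat_lit 1) (nat_lit 4) (nat_lit 2) (nat_lit 5) (nat_lit 2) (nat_lit 4) (nat_lit 393) (nat_lit 196) (nat_lit 191))) (XT.nd (nat_lit 78) (nat_lit 0) (nat_lit 0) (XT.lf (nat_lit 0) (nat_lit 177244016569) (nat_lit 76) (nat_lit 50730402398) (nat_lit 76) (nat_lit 50730402398) (nat_lit 1) (nat_lit 4) (nat_lit 2) (nat_lit 5) (nat_lit 2) (nat_lit 4) (nat_lit 386) (nat_lit 197) (nat_lit 197)) (XT.nd (nat_lit 78) (nat_lit 0) (nat_lit 0) (XT.lf (nat_lit 0) (nat_lit 374144846974) (nat_lit 76) (nat_lit 105567720390) (nat_lit 76) (nat_lit 105516067203) (nat_lit 1) (nat_lit 4) (nat_lit 2) (nat_lit 5) (nat_lit 2) (nat_lit 4) (nat_lit 387) (nat_lit 197) (nat_lit 196)) (XT.lf (nat_lit 0) (nat_lit 394723649813) (nat_lit 76) (nat_lit 109908697157) (nat_lit 76) (nat_lit 109807850457) (nat_lit 1) (nat_lit 4) (nat_lit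 2) (nat_lit 5) (nat_lit 2) (nat_lit 4) (nat_lit 388) (nat_lit 197) (nat_lit 195))))) (XT.nd (nat_lit 156) (nat_lit 0) (nat_lit 0) (XT.nd (nat_lit 78) (nat_lit 0) (nat_lit 0) (XT.lf (nat_lit 0) (nat_lit 416273438805) (nat_lit 76) (nat_lit 114494070754) (nat_lit 76) (nat_lit 114346373090) (nat_lit 1) (nat_lit 4) (nat_lit 2) (nat_lit 5) (nat_lit 2) (nat_lit 4) (nat_lit 389) (nat_lit 197) (nat_lit 194)) (XT.lf (nat_lit 0) (nat_lit 438845522970) (nat_lit 76) (nat_lit 119334758738) (nat_lit 76) (nat_lit 119142441109) (nat_lit 1) (nat_lit 4) (nat_lit 2) (nat_lit 5) (nat_lit 2) (nat_lit 4) (nat_lit 390) (nat_lit 197) (nat_lit 193))) (XT.nd (nat_lit 78) (nat_lit 0) (nat_lit 0) (XT.lf (nat_lit 0) (nat_lit 462493645366) (nat_lit 76) (nat_lit 124442286557) (nat_lit 76) (nat_lit 124207473722) (nat_lit 1) (nat_lit 4) (nat_lit 2) (nat_lit 5) (nat_lit 2) (nat_lit 4) (nat_lit 391) (nat_lit 197) (nat_lit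 192)) (XT.nd (nat_lit 78) (nat_lit 0) (nat_lit 0) (XT.lf (nat_lit 0) (nat_lit 487274111046) (nat_lit 76) (nat_lit 129828814992) (nat_lit 76) (nat_lit 129553530533) (nat_lit 1) (nat_lit 4) (nat_lit 2) (nat_lit 5) (nat_lit 2) (nat_lit 4) (nat_lit 392) (nat_lit 197) (nat_lit 191)) (XT.lf (nat_lit 0) (nat_lit 513245921120) (nat_lit 76) (nat_lit 135507169109) (nat_lit 76) (nat_lit 135193340246) (nat_lit 1) (nat_lit 4) (nat_lit 2) (nat_lit 5) (nat_lit 2) (nat_lit 4) (nat_lit 393) (nat_lit 197) (nat_lit 190))))))) (XT.nd (nat_lit 40482) (nat_lit 0) (nat_lit 0) (XT.nd (nat_lit 390) (nat_lit 0) (nat_lit 0) (XT.nd (nat_lit 156) (nat_lit 0) (nat_lit 0) (XT.nd (nat_lit 78) (nat_lit 0) (nat_lit 0) (XT.lf (nat_lit 0) (nat_lit 158893987418) (nat_lit 76) (nat_lit 46974685108) (nat_lit 76) (nat_lit 46974685108) (nat_lit 1) (nat_lit 4) (nat_lit 2) (nat_lit 5) (nat_lit 2) (nat_lit 4) (nat_lit 384) (nat_lit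 198) (nat_lit 198)) (XT.lf (nat_lit 0) (nat_lit 335706406366) (nat_lit 76) (nat_lit 97632407850) (nat_lit 76) (nat_lit 97578172003) (nat_lit 1) (nat_lit 4) (nat_lit 2) (nat_lit 5) (nat_lit 2) (nat_lit 4) (nat_lit 385) (nat_lit 198) (nat_lit 197))) (XT.nd (nat_lit 78) (nat_lit 0) (nat_lit 0) (XT.lf (nat_lit 0) (nat_lit 354456865199) (nat_lit 76) (nat_lit 101529748527) (nat_lit 76) (nat_lit 101423859492) (nat_lit 1) (nat_lit 4) (nat_lit 2) (nat_lit 5) (nat_lit 2) (nat_lit 4) (nat_lit 386) (nat_lit 198) (nat_lit 196)) (XT.nd (nat_lit 78) (nat_lit 0) (nat_lit 0) (XT.lf (nat_lit 0) (nat_lit 374083995285) (nat_lit 76) (nat_lit 105650671630) (nat_lit 76) (nat_lit 105495589083) (nat_lit 1) (nat_lit 4) (nat_lit 2) (nat_lit 5) (nat_lit 2) (nat_lit 4) (nat_lit 387) (nat_lit 198) (nat_lit 195)) (XT.lf (nat_lit 0) (nat_lit 394634527885) (nat_lit 76) (nat_lit 110004988880) (nat_lit 76) (nat_lit 109803055369)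 (nat_lit 1) (nat_lit 4) (nat_lit 2) (nat_lit 5) (nat_lit 2) (nat_lit 4) (nat_lit 388) (nat_lit 198) (nat_lit 194))))) (XT.nd (nat_lit 156) (nat_lit 0) (nat_lit 0) (XT.nd (nat_lit 78) (nat_lit 0) (nat_lit 0) (XT.lf (nat_lit 0) (nat_lit 416157392839) (nat_lit 76) (nat_lit 114603067701) (nat_lit 76) (nat_lit 114356514224) (nat_lit 1) (nat_lit 4) (nat_lit 2) (nat_lit 5) (nat_lit 2) (nat_lit 4) (nat_lit 389) (nat_lit 198) (nat_lit 193)) (XT.lf (nat_lit 0) (nat_lit 438703835064) (nat_lit 76) (nat_lit 119455855897) (nat_lit 76) (nat_lit 119166807215) (nat_lit 1) (nat_lit 4) (nat_lit 2) (nat_lit 5) (nat_lit 2) (nat_lit 4) (nat_lit 390) (nat_lit 198) (nat_lit 192))) (XT.nd (nat_lit 78) (nat_lit 0) (nat_lit 0) (XT.lf (nat_lit 0) (nat_lit 462327536565) (nat_lit 76) (nat_lit 124574907728) (nat_lit 76) (nat_lit 124245387422) (nat_lit 1) (nat_lit 4) (nat_lit 2) (nat_lit 5) (nat_lit 2) (nat_lit 4)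 (nat_lit 391) (nat_lit 198) (nat_lit 191)) (XT.nd (nat_lit 78) (nat_lit 0) (nat_lit 0) (XT.lf (nat_lit 0) (nat_lit 487084744250) (nat_lit 76) (nat_lit 129972411412) (nat_lit 76) (nat_lit 129604346702) (nat_lit 1) (nat_lit 4) (nat_lit 2) (nat_lit 5) (nat_lit 2) (nat_lit 4) (nat_lit 392) (nat_lit 198) (nat_lit 190)) (XT.lf (nat_lit 0) (nat_lit 513034403852) (nat_lit 76) (nat_lit 135661218148) (nat_lit 76) (nat_lit 135256444481) (nat_lit 1) (nat_lit 4) (nat_lit 2) (nat_lit 5) (nat_lit 2) (nat_lit 4) (nat_lit 393) (nat_lit 198) (nat_lit 189)))))) (XT.nd (nat_lit 390) (nat_lit 0) (nat_lit 0) (XT.nd (nat_lit 156) (nat_lit 0) (nat_lit 0) (XT.nd (nat_lit 78) (nat_lit 0) (nat_lit 0) (XT.lf (nat_lit 0) (nat_lit 142156392023) (nat_lit 76) (nat_lit 43616174548) (nat_lit 76) (nat_lit 43616174548) (nat_lit 1) (nat_lit 4) (nat_lit 2) (nat_lit 5) (nat_lit 2) (nat_lit 4) (nat_lit 382) (nat_lit 199) (nat_lit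 199)) (XT.lf (nat_lit 0) (nat_lit 300658907676) (nat_lit 76) (nat_lit 90528814130) (nat_lit 76) (nat_lit 90471866490) (nat_lit 1) (nat_lit 4) (nat_lit 2) (nat_lit 5) (nat_lit 2) (nat_lit 4) (nat_lit 383) (nat_lit 199) (nat_lit 198))) (XT.nd (nat_lit 78) (nat_lit 0) (nat_lit 0) (XT.lf (nat_lit 0) (nat_lit 317755248500) (nat_lit 76) (nat_lit 94021761135) (nat_lit 76) (nat_lit 93910577648) (nat_lit 1) (nat_lit 4) (nat_lit 2) (nat_lit 5) (nat_lit 2) (nat_lit 4) (nat_lit 384) (nat_lit 199) (nat_lit 197)) (XT.nd (nat_lit 78) (nat_lit 0) (nat_lit 0) (XT.lf (nat_lit 0) (nat_lit 335642512092) (nat_lit 76) (nat_lit 97719506652) (nat_lit 76) (nat_lit 97556669977) (nat_lit 1) (nat_lit 4) (nat_lit 2) (nat_lit 5) (nat_lit 2) (nat_lit 4) (nat_lit 385) (nat_lit 199) (nat_lit 196)) (XT.lf (nat_lit 0) (nat_lit 354363287175) (nat_lit 76) (nat_lit 101630854837) (nat_lit 76) (nat_lit 101418824650) (nat_lit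 1) (nat_lit 4) (nat_lit 2) (nat_lit 5) (nat_lit 2) (nat_lit 4) (nat_lit 386) (nat_lit 199) (nat_lit 195))))) (XT.nd (nat_lit 156) (nat_lit 0) (nat_lit 0) (XT.nd (nat_lit 78) (nat_lit 0) (nat_lit 0) (XT.lf (nat_lit 0) (nat_lit 373962147022) (nat_lit 76) (nat_lit 105765118424) (nat_lit 76) (nat_lit 105506237273) (nat_lit 1) (nat_lit 4) (nat_lit 2) (nat_lit 5) (nat_lit 2) (nat_lit 4) (nat_lit 387) (nat_lit 199) (nat_lit 194)) (XT.lf (nat_lit 0) (nat_lit 394485755585) (nat_lit 76) (nat_lit 110132140897) (nat_lit 76) (nat_lit 109828639781) (nat_lit 1) (nat_lit 4) (nat_lit 2) (nat_lit 5) (nat_lit 2) (nat_lit 4) (nat_lit 388) (nat_lit 199) (nat_lit 193))) (XT.nd (nat_lit 78) (nat_lit 0) (nat_lit 0) (XT.lf (nat_lit 0) (nat_lit 415982978599) (nat_lit 76) (nat_lit 114742319930) (nat_lit 76) (nat_lit 114396323608) (nat_lit 1) (nat_lit 4) (nat_lit 2) (nat_lit 5) (nat_lit 2) (nat_lit 4) (nat_lit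 389) (nat_lit 199) (nat_lit 192)) (XT.nd (nat_lit 78) (nat_lit 0) (nat_lit 0) (XT.lf (nat_lit 0) (nat_lit 438504999929) (nat_lit 76) (nat_lit 119606632139) (nat_lit 76) (nat_lit 119220164193) (nat_lit 1) (nat_lit 4) (nat_lit 2) (nat_lit 5) (nat_lit 2) (nat_lit 4) (nat_lit 390) (nat_lit 199) (nat_lit 191)) (XT.lf (nat_lit 0) (nat_lit 462105443434) (nat_lit 76) (nat_lit 124736659219) (nat_lit 76) (nat_lit 124311646869) (nat_lit 1) (nat_lit 4) (nat_lit 2) (nat_lit 5) (nat_lit 2) (nat_lit 4) (nat_lit 391) (nat_lit 199) (nat_lit 190))))))))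
noncomputable def xc1 : XT := (XT.nd (nat_lit 80496) (nat_lit 0) (nat_lit 0) (XT.nd (nat_lit 40326) (nat_lit 0) (nat_lit 0) (XT.nd (nat_lit 39936) (nat_lit 0) (nat_lit 0) (XT.nd (nat_lit 39702) (nat_lit 0) (nat_lit 0) (XT.nd (nat_lit 78) (nat_lit 0) (nat_lit 0) (XT.lf (nat_lit 0) (nat_lit 486840500647) (nat_lit 76) (nat_lit 130144615521) (nat_lit 76) (nat_lit 129682894215) (nat_lit 1) (nat_lit 4) (nat_lit 2) (nat_lit 5) (nat_lit 2) (nat_lit 4) (nat_lit 392) (nat_lit 199) (nat_lit 189)) (XT.lf (nat_lit 0) (nat_lit 512769064562) (nat_lit 76) (nat_lit 135843377132) (nat_lit 76) (nat_lit 135346694915) (nat_lit 1) (nat_lit 4) (nat_lit 2) (nat_lit 5) (nat_lit 2) (nat_lit 4) (nat_lit 393) (nat_lit 199) (nat_lit 188))) (XT.nd (nat_lit 78) (nat_lit 0) (nat_lit 0) (XT.lf (nat_lit 0) (nat_lit 126876642675) (nat_lit 76) (nat_lit 40620343987) (nat_lit 76) (nat_lit 40620343987) (nat_lit 1) (nat_lit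 4) (nat_lit 2) (nat_lit 5) (nat_lit 2) (nat_lit 4) (nat_lit 380) (nat_lit 200) (nat_lit 200)) (XT.nd (nat_lit 78) (nat_lit 0) (nat_lit 0) (XT.lf (nat_lit 0) (nat_lit 268677958268) (nat_lit 76) (nat_lit 84184312330) (nat_lit 76) (nat_lit 84124517309) (nat_lit 1) (nat_lit 4) (nat_lit 2) (nat_lit 5) (nat_lit 2) (nat_lit 4) (nat_lit 381) (nat_lit 200) (nat_lit 199)) (XT.lf (nat_lit 0) (nat_lit 284278421394) (nat_lit 76) (nat_lit 87308359560) (nat_lit 76) (nat_lit 87191616899) (nat_lit 1) (nat_lit 4) (nat_lit 2) (nat_lit 5) (nat_lit 2) (nat_lit 4) (nat_lit 382) (nat_lit 200) (nat_lit 198))))) (XT.nd (nat_lit 156) (nat_lit 0) (nat_lit 0) (XT.nd (nat_lit 78) (nat_lit 0) (nat_lit 0) (XT.lf (nat_lit 0) (nat_lit 300591818689) (nat_lit 76) (nat_lit 90620267871) (nat_lit 76) (nat_lit 90449289363) (nat_lit 1) (nat_lit 4) (nat_lit 2) (nat_lit 5) (nat_lit 2) (nat_lit 4) (nat_lit 383) (nat_lit 200)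 (nat_lit 197)) (XT.lf (nat_lit 0) (nat_lit 317656991575) (nat_lit 76) (nat_lit 94127922760) (nat_lit 76) (nat_lit 93905291064) (nat_lit 1) (nat_lit 4) (nat_lit 2) (nat_lit 5) (nat_lit 2) (nat_lit 4) (nat_lit 384) (nat_lit 200) (nat_lit 196))) (XT.nd (nat_lit 78) (nat_lit 0) (nat_lit 0) (XT.lf (nat_lit 0) (nat_lit 335514571416) (nat_lit 76) (nat_lit 97839675785) (nat_lit 76) (nat_lit 97567850577) (nat_lit 1) (nat_lit 4) (nat_lit 2) (nat_lit 5) (nat_lit 2) (nat_lit 4) (nat_lit 385) (nat_lit 200) (nat_lit 195)) (XT.nd (nat_lit 78) (nat_lit 0) (nat_lit 0) (XT.lf (nat_lit 0) (nat_lit 354207076259) (nat_lit 76) (nat_lit 101764364455) (nat_lit 76) (nat_lit 101445688283) (nat_lit 1) (nat_lit 4) (nat_lit 2) (nat_lit 5) (nat_lit 2) (nat_lit 4) (nat_lit 386) (nat_lit 200) (nat_lit 194)) (XT.lf (nat_lit 0) (nat_lit 373779012069) (nat_lit 76) (nat_lit 105911333265) (nat_lit 76) (nat_lit 105548037127)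 (nat_lit 1) (nat_lit 4) (nat_lit 2) (nat_lit 5) (nat_lit 2) (nat_lit 4) (nat_lit 387) (nat_lit 200) (nat_lit 193)))))) (XT.nd (nat_lit 390) (nat_lit 0) (nat_lit 0) (XT.nd (nat_lit 156) (nat_lit 0) (nat_lit 0) (XT.nd (nat_lit 78) (nat_lit 0) (nat_lit 0) (XT.lf (nat_lit 0) (nat_lit 394276978692) (nat_lit 76) (nat_lit 110290455951) (nat_lit 76) (nat_lit 109884664608) (nat_lit 1) (nat_lit 4) (nat_lit 2) (nat_lit 5) (nat_lit 2) (nat_lit 4) (nat_lit 388) (nat_lit 200) (nat_lit 192)) (XT.lf (nat_lit 0) (nat_lit 415749780811) (nat_lit 76) (nat_lit 114912158995) (nat_lit 76) (nat_lit 114465896028) (nat_lit 1) (nat_lit 4) (nat_lit 2) (nat_lit 5) (nat_lit 2) (nat_lit 4) (nat_lit 389) (nat_lit 200) (nat_lit 191))) (XT.nd (nat_lit 78) (nat_lit 0) (nat_lit 0) (XT.lf (nat_lit 0) (nat_lit 438248544145) (nat_lit 76) (nat_lit 119787446453) (nat_lit 76) (nat_lit 119302639082) (nat_lit 1) (nat_lit 4) (nat_lit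 2) (nat_lit 5) (nat_lit 2) (nat_lit 4) (nat_lit 390) (nat_lit 200) (nat_lit 190)) (XT.nd (nat_lit 78) (nat_lit 0) (nat_lit 0) (XT.lf (nat_lit 0) (nat_lit 461826837179) (nat_lit 76) (nat_lit 124927926152) (nat_lit 76) (nat_lit 124406409825) (nat_lit 1) (nat_lit 4) (nat_lit 2) (nat_lit 5) (nat_lit 2) (nat_lit 4) (nat_lit 391) (nat_lit 200) (nat_lit 189)) (XT.lf (nat_lit 0) (nat_lit 486540798704) (nat_lit 76) (nat_lit 130345837329) (nat_lit 76) (nat_lit 129789360091) (nat_lit 1) (nat_lit 4) (nat_lit 2) (nat_lit 5) (nat_lit 2) (nat_lit 4) (nat_lit 392) (nat_lit 200) (nat_lit 188))))) (XT.nd (nat_lit 39546) (nat_lit 0) (nat_lit 0) (XT.nd (nat_lit 39468) (nat_lit 0) (nat_lit 0) (XT.lf (nat_lit 0) (nat_lit 512449271488) (nat_lit 76) (nat_lit 136054079773) (nat_lit 76) (nat_lit 135464306429) (nat_lit 1) (nat_lit 4) (nat_lit 2) (nat_lit 5) (nat_lit 2) (nat_lit 4) (nat_lit 393) (nat_lit 200) (nat_lit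 187)) (XT.lf (nat_lit 0) (nat_lit 112914289821) (nat_lit 76) (nat_lit 37955996752) (nat_lit 76) (nat_lit 37955996752) (nat_lit 1) (nat_lit 4) (nat_lit 2) (nat_lit 5) (nat_lit 2) (nat_lit 4) (nat_lit 378) (nat_lit 201) (nat_lit 201))) (XT.nd (nat_lit 78) (nat_lit 0) (nat_lit 0) (XT.lf (nat_lit 0) (nat_lit 239468867707) (nat_lit 76) (nat_lit 78533262635) (nat_lit 76) (nat_lit 78470477863) (nat_lit 1) (nat_lit 4) (nat_lit 2) (nat_lit 5) (nat_lit 2) (nat_lit 4) (nat_lit 379) (nat_lit 201) (nat_lit 200)) (XT.nd (nat_lit 78) (nat_lit 0) (nat_lit 0) (XT.lf (nat_lit 0) (nat_lit 253717204566) (nat_lit 76) (nat_lit 81320498961) (nat_lit 76) (nat_lit 81197919167) (nat_lit 1) (nat_lit 4) (nat_lit 2) (nat_lit 5) (nat_lit 2) (nat_lit 4) (nat_lit 380) (nat_lit 201) (nat_lit 199)) (XT.lf (nat_lit 0) (nat_lit 268607514831) (nat_lit 76) (nat_lit 84280338759) (nat_lit 76) (nat_lit 84100811325) (nat_lit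 1) (nat_lit 4) (nat_lit 2) (nat_lit 5) (nat_lit 2) (nat_lit 4) (nat_lit 381) (nat_lit 201) (nat_lit 198))))))) (XT.nd (nat_lit 780) (nat_lit 0) (nat_lit 0) (XT.nd (nat_lit 390) (nat_lit 0) (nat_lit 0) (XT.nd (nat_lit 156) (nat_lit 0) (nat_lit 0) (XT.nd (nat_lit 78) (nat_lit 0) (nat_lit 0) (XT.lf (nat_lit 0) (nat_lit 284175251622) (nat_lit 76) (nat_lit 87419829267) (nat_lit 76) (nat_lit 87186065986) (nat_lit 1) (nat_lit 4) (nat_lit 2) (nat_lit 5) (nat_lit 2) (nat_lit 4) (nat_lit 382) (nat_lit 201) (nat_lit 197)) (XT.lf (nat_lit 0) (nat_lit 300457480978) (nat_lit 76) (nat_lit 90746445462) (nat_lit 76) (nat_lit 90461028993) (nat_lit 1) (nat_lit 4) (nat_lit 2) (nat_lit 5) (nat_lit 2) (nat_lit 4) (nat_lit 383) (nat_lit 201) (nat_lit 196))) (XT.nd (nat_lit 78) (nat_lit 0) (nat_lit 0) (XT.lf (nat_lit 0) (nat_lit 317492970113) (nat_lit 76) (nat_lit 94268107859) (nat_lit 76) (nat_lit 93933497878)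 (nat_lit 1) (nat_lit 4) (nat_lit 2) (nat_lit 5) (nat_lit 2) (nat_lit 4) (nat_lit 384) (nat_lit 201) (nat_lit 195)) (XT.nd (nat_lit 78) (nat_lit 0) (nat_lit 0) (XT.lf (nat_lit 0) (nat_lit 335322279716) (nat_lit 76) (nat_lit 97993201369) (nat_lit 76) (nat_lit 97611740424) (nat_lit 1) (nat_lit 4) (nat_lit 2) (nat_lit 5) (nat_lit 2) (nat_lit 4) (nat_lit 385) (nat_lit 201) (nat_lit 194)) (XT.lf (nat_lit 0) (nat_lit 353987860522) (nat_lit 76) (nat_lit 101930595261) (nat_lit 76) (nat_lit 101504514350) (nat_lit 1) (nat_lit 4) (nat_lit 2) (nat_lit 5) (nat_lit 2) (nat_lit 4) (nat_lit 386) (nat_lit 201) (nat_lit 193))))) (XT.nd (nat_lit 156) (nat_lit 0) (nat_lit 0) (XT.nd (nat_lit 78) (nat_lit 0) (nat_lit 0) (XT.lf (nat_lit 0) (nat_lit 373534154392) (nat_lit 76) (nat_lit 106089664283) (nat_lit 76) (nat_lit 105621088168) (nat_lit 1) (nat_lit 4) (nat_lit 2) (nat_lit 5) (nat_lit 2) (nat_lit 4) (nat_lit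 387) (nat_lit 201) (nat_lit 192)) (XT.lf (nat_lit 0) (nat_lit 394007700120) (nat_lit 76) (nat_lit 110480310981) (nat_lit 76) (nat_lit 109971263241) (nat_lit 1) (nat_lit 4) (nat_lit 2) (nat_lit 5) (nat_lit 2) (nat_lit 4) (nat_lit 388) (nat_lit 201) (nat_lit 191))) (XT.nd (nat_lit 78) (nat_lit 0) (nat_lit 0) (XT.lf (nat_lit 0) (nat_lit 415457244243) (nat_lit 76) (nat_lit 115112989275) (nat_lit 76) (nat_lit 114565397131) (nat_lit 1) (nat_lit 4) (nat_lit 2) (nat_lit 5) (nat_lit 2) (nat_lit 4) (nat_lit 389) (nat_lit 201) (nat_lit 190)) (XT.nd (nat_lit 78) (nat_lit 0) (nat_lit 0) (XT.lf (nat_lit 0) (nat_lit 437933857105) (nat_lit 76) (nat_lit 119998729352) (nat_lit 76) (nat_lit 119414428252) (nat_lit 1) (nat_lit 4) (nat_lit 2) (nat_lit 5) (nat_lit 2) (nat_lit 4) (nat_lit 390) (nat_lit 201) (nat_lit 189)) (XT.lf (nat_lit 0) (nat_lit 461491054451) (nat_lit 76) (nat_lit 125149163925) (nat_lit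 76) (nat_lit 124529901914) (nat_lit 1) (nat_lit 4) (nat_lit 2) (nat_lit 5) (nat_lit 2) (nat_lit 4) (nat_lit 391) (nat_lit 201) (nat_lit 188)))))) (XT.nd (nat_lit 39624) (nat_lit 0) (nat_lit 0) (XT.nd (nat_lit 39390) (nat_lit 0) (nat_lit 0) (XT.nd (nat_lit 78) (nat_lit 0) (nat_lit 0) (XT.lf (nat_lit 0) (nat_lit 486184924846) (nat_lit 76) (nat_lit 130576555935) (nat_lit 76) (nat_lit 129923997819) (nat_lit 1) (nat_lit 4) (nat_lit 2) (nat_lit 5) (nat_lit 2) (nat_lit 4) (nat_lit 392) (nat_lit 201) (nat_lit 187)) (XT.lf (nat_lit 0) (nat_lit 512074263219) (nat_lit 76) (nat_lit 136293827744) (nat_lit 76) (nat_lit 135609559051) (nat_lit 1) (nat_lit 4) (nat_lit 2) (nat_lit 5) (nat_lit 2) (nat_lit 4) (nat_lit 393) (nat_lit 201) (nat_lit 186))) (XT.nd (nat_lit 78) (nat_lit 0) (nat_lit 0) (XT.lf (nat_lit 0) (nat_lit 100141695934) (nat_lit 76) (nat_lit 35594962636) (nat_lit 76) (nat_lit 35594962636)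 (nat_lit 1) (nat_lit 4) (nat_lit 2) (nat_lit 5) (nat_lit 2) (nat_lit 4) (nat_lit 376) (nat_lit 202) (nat_lit 202)) (XT.nd (nat_lit 78) (nat_lit 0) (nat_lit 0) (XT.lf (nat_lit 0) (nat_lit 212763863497) (nat_lit 76) (nat_lit 73516374464) (nat_lit 76) (nat_lit 73450450453) (nat_lit 1) (nat_lit 4) (nat_lit 2) (nat_lit 5) (nat_lit 2) (nat_lit 4) (nat_lit 377) (nat_lit 202) (nat_lit 201)) (XT.lf (nat_lit 0) (nat_lit 225790694819) (nat_lit 76) (nat_lit 75995795041) (nat_lit 76) (nat_lit 75867086257) (nat_lit 1) (nat_lit 4) (nat_lit 2) (nat_lit 5) (nat_lit 2) (nat_lit 4) (nat_lit 378) (nat_lit 202) (nat_lit 200))))) (XT.nd (nat_lit 234) (nat_lit 0) (nat_lit 0) (XT.nd (nat_lit 78) (nat_lit 0) (nat_lit 0) (XT.lf (nat_lit 0) (nat_lit 239394902099) (nat_lit 76) (nat_lit 78634090385) (nat_lit 76) (nat_lit 78445586580) (nat_lit 1) (nat_lit 4) (nat_lit 2) (nat_lit 5) (nat_lit 2) (nat_lit 4) (nat_lit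 379) (nat_lit 202) (nat_lit 199)) (XT.nd (nat_lit 78) (nat_lit 0) (nat_lit 0) (XT.lf (nat_lit 0) (nat_lit 253608876305) (nat_lit 76) (nat_lit 81437542153) (nat_lit 76) (nat_lit 81192090708) (nat_lit 1) (nat_lit 4) (nat_lit 2) (nat_lit 5) (nat_lit 2) (nat_lit 4) (nat_lit 380) (nat_lit 202) (nat_lit 198)) (XT.lf (nat_lit 0) (nat_lit 268466460235) (nat_lit 76) (nat_lit 84412825229) (nat_lit 76) (nat_lit 84113137937) (nat_lit 1) (nat_lit 4) (nat_lit 2) (nat_lit 5) (nat_lit 2) (nat_lit 4) (nat_lit 381) (nat_lit 202) (nat_lit 197)))) (XT.nd (nat_lit 78) (nat_lit 0) (nat_lit 0) (XT.lf (nat_lit 0) (nat_lit 284003029087) (nat_lit 76) (nat_lit 87567023620) (nat_lit 76) (nat_lit 87215683141) (nat_lit 1) (nat_lit 4) (nat_lit 2) (nat_lit 5) (nat_lit 2) (nat_lit 4) (nat_lit 382) (nat_lit 202) (nat_lit 196)) (XT.nd (nat_lit 78) (nat_lit 0) (nat_lit 0) (XT.lf (nat_lit 0) (nat_lit 300255574693) (nat_lit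 76) (nat_lit 90907647324) (nat_lit 76) (nat_lit 90507113332) (nat_lit 1) (nat_lit 4) (nat_lit 2) (nat_lit 5) (nat_lit 2) (nat_lit 4) (nat_lit 383) (nat_lit 202) (nat_lit 195)) (XT.lf (nat_lit 0) (nat_lit 317262793589) (nat_lit 76) (nat_lit 94442650205) (nat_lit 76) (nat_lit 93995265249) (nat_lit 1) (nat_lit 4) (nat_lit 2) (nat_lit 5) (nat_lit 2) (nat_lit 4) (nat_lit 384) (nat_lit 202) (nat_lit 194))))))))
noncomputable def xc2 : XT := (XT.nd (nat_lit 40638) (nat_lit 0) (nat_lit 0) (XT.nd (nat_lit 39858) (nat_lit 0) (nat_lit 0) (XT.nd (nat_lit 390) (nat_lit 0) (nat_lit 0) (XT.nd (nat_lit 156) (nat_lit 0) (nat_lit 0) (XT.nd (nat_lit 78) (nat_lit 0) (nat_lit 0) (XT.lf (nat_lit 0) (nat_lit 335065179155) (nat_lit 76) (nat_lit 98180448938) (nat_lit 76) (nat_lit 97688444016) (nat_lit 1) (nat_lit 4) (nat_lit 2) (nat_lit 5) (nat_lit 2) (nat_lit 4) (nat_lit 385) (nat_lit 202) (nat_lit 193)) (XT.lf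 (nat_lit 0) (nat_lit 353705118021) (nat_lit 76) (nat_lit 102129943043) (nat_lit 76) (nat_lit 101595442916) (nat_lit 1) (nat_lit 4) (nat_lit 2) (nat_lit 5) (nat_lit 2) (nat_lit 4) (nat_lit 386) (nat_lit 202) (nat_lit 192))) (XT.nd (nat_lit 78) (nat_lit 0) (nat_lit 0) (XT.lf (nat_lit 0) (nat_lit 373226990995) (nat_lit 76) (nat_lit 106300536077) (nat_lit 76) (nat_lit 105725564326) (nat_lit 1) (nat_lit 4) (nat_lit 2) (nat_lit 5) (nat_lit 2) (nat_lit 4) (nat_lit 387) (nat_lit 202) (nat_lit 191)) (XT.nd (nat_lit 78) (nat_lit 0) (nat_lit 0) (XT.lf (nat_lit 0) (nat_lit 393677278728) (nat_lit 76) (nat_lit 110702158024) (nat_lit 76) (nat_lit 110088641869) (nat_lit 1) (nat_lit 4) (nat_lit 2) (nat_lit 5) (nat_lit 2) (nat_lit 4) (nat_lit 388) (nat_lit 202) (nat_lit 190)) (XT.lf (nat_lit 0) (nat_lit 415104672379) (nat_lit 76) (nat_lit 115345288937) (nat_lit 76) (nat_lit 114695063825) (nat_lit 1) (nat_lit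 4) (nat_lit 2) (nat_lit 5) (nat_lit 2) (nat_lit 4) (nat_lit 389) (nat_lit 202) (nat_lit 189))))) (XT.nd (nat_lit 156) (nat_lit 0) (nat_lit 0) (XT.nd (nat_lit 78) (nat_lit 0) (nat_lit 0) (XT.lf (nat_lit 0) (nat_lit 437560189554) (nat_lit 76) (nat_lit 120240983888) (nat_lit 76) (nat_lit 119555797866) (nat_lit 1) (nat_lit 4) (nat_lit 2) (nat_lit 5) (nat_lit 2) (nat_lit 4) (nat_lit 390) (nat_lit 202) (nat_lit 188)) (XT.lf (nat_lit 0) (nat_lit 461097295769) (nat_lit 76) (nat_lit 125400899295) (nat_lit 76) (nat_lit 124682417167) (nat_lit 1) (nat_lit 4) (nat_lit 2) (nat_lit 5) (nat_lit 2) (nat_lit 4) (nat_lit 391) (nat_lit 202) (nat_lit 187))) (XT.nd (nat_lit 78) (nat_lit 0) (nat_lit 0) (XT.lf (nat_lit 0) (nat_lit 485772031753) (nat_lit 76) (nat_lit 130837320669) (nat_lit 76) (nat_lit 130087127965) (nat_lit 1) (nat_lit 4) (nat_lit 2) (nat_lit 5) (nat_lit 2) (nat_lit 4) (nat_lit 392) (nat_lit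 202) (nat_lit 186)) (XT.nd (nat_lit 39156) (nat_lit 0) (nat_lit 0) (XT.lf (nat_lit 0) (nat_lit 511643146878) (nat_lit 76) (nat_lit 136563191873) (nat_lit 76) (nat_lit 135782798620) (nat_lit 1) (nat_lit 4) (nat_lit 2) (nat_lit 5) (nat_lit 2) (nat_lit 4) (nat_lit 393) (nat_lit 202) (nat_lit 185)) (XT.lf (nat_lit 0) (nat_lit 88442832088) (nat_lit 76) (nat_lit 33511822828) (nat_lit 76) (nat_lit 33511822828) (nat_lit 1) (nat_lit 4) (nat_lit 2) (nat_lit 5) (nat_lit 2) (nat_lit 4) (nat_lit 374) (nat_lit 203) (nat_lit 203)))))) (XT.nd (nat_lit 390) (nat_lit 0) (nat_lit 0) (XT.nd (nat_lit 156) (nat_lit 0) (nat_lit 0) (XT.nd (nat_lit 78) (nat_lit 0) (nat_lit 0) (XT.lf (nat_lit 0) (nat_lit 188319564522) (nat_lit 76) (nat_lit 69080128513) (nat_lit 76) (nat_lit 69010908301) (nat_lit 1) (nat_lit 4) (nat_lit 2) (nat_lit 5) (nat_lit 2) (nat_lit 4) (nat_lit 375) (nat_lit 203) (nat_lit 202)) (XT.lf (nat_lit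 0) (nat_lit 200243612803) (nat_lit 76) (nat_lit 71277916885) (nat_lit 76) (nat_lit 71142772662) (nat_lit 1) (nat_lit 4) (nat_lit 2) (nat_lit 5) (nat_lit 2) (nat_lit 4) (nat_lit 376) (nat_lit 203) (nat_lit 201))) (XT.nd (nat_lit 78) (nat_lit 0) (nat_lit 0) (XT.lf (nat_lit 0) (nat_lit 212686199608) (nat_lit 76) (nat_lit 73622243601) (nat_lit 76) (nat_lit 73424314606) (nat_lit 1) (nat_lit 4) (nat_lit 2) (nat_lit 5) (nat_lit 2) (nat_lit 4) (nat_lit 377) (nat_lit 203) (nat_lit 200)) (XT.nd (nat_lit 78) (nat_lit 0) (nat_lit 0) (XT.lf (nat_lit 0) (nat_lit 225676950146) (nat_lit 76) (nat_lit 76118690392) (nat_lit 76) (nat_lit 75860966375) (nat_lit 1) (nat_lit 4) (nat_lit 2) (nat_lit 5) (nat_lit 2) (nat_lit 4) (nat_lit 378) (nat_lit 203) (nat_lit 199)) (XT.lf (nat_lit 0) (nat_lit 239246794773) (nat_lit 76) (nat_lit 78773201179) (nat_lit 76) (nat_lit 78458529522) (nat_lit 1) (nat_lit 4) (nat_lit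 2) (nat_lit 5) (nat_lit 2) (nat_lit 4) (nat_lit 379) (nat_lit 203) (nat_lit 198))))) (XT.nd (nat_lit 156) (nat_lit 0) (nat_lit 0) (XT.nd (nat_lit 78) (nat_lit 0) (nat_lit 0) (XT.lf (nat_lit 0) (nat_lit 253428042644) (nat_lit 76) (nat_lit 81592096224) (nat_lit 76) (nat_lit 81223188721) (nat_lit 1) (nat_lit 4) (nat_lit 2) (nat_lit 5) (nat_lit 2) (nat_lit 4) (nat_lit 380) (nat_lit 203) (nat_lit 197)) (XT.lf (nat_lit 0) (nat_lit 268254458635) (nat_lit 76) (nat_lit 84582087184) (nat_lit 76) (nat_lit 84161526493) (nat_lit 1) (nat_lit 4) (nat_lit 2) (nat_lit 5) (nat_lit 2) (nat_lit 4) (nat_lit 381) (nat_lit 203) (nat_lit 196))) (XT.nd (nat_lit 78) (nat_lit 0) (nat_lit 0) (XT.lf (nat_lit 0) (nat_lit 283761343737) (nat_lit 76) (nat_lit 87750293084) (nat_lit 76) (nat_lit 87280538881) (nat_lit 1) (nat_lit 4) (nat_lit 2) (nat_lit 5) (nat_lit 2) (nat_lit 4) (nat_lit 382) (nat_lit 203) (nat_lit 195))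 (XT.nd (nat_lit 78) (nat_lit 0) (nat_lit 0) (XT.lf (nat_lit 0) (nat_lit 299985619104) (nat_lit 76) (nat_lit 91104257272) (nat_lit 76) (nat_lit 90587652104) (nat_lit 1) (nat_lit 4) (nat_lit 2) (nat_lit 5) (nat_lit 2) (nat_lit 4) (nat_lit 383) (nat_lit 203) (nat_lit 194)) (XT.lf (nat_lit 0) (nat_lit 316965913963) (nat_lit 76) (nat_lit 94651965376) (nat_lit 76) (nat_lit 94090740243) (nat_lit 1) (nat_lit 4) (nat_lit 2) (nat_lit 5) (nat_lit 2) (nat_lit 4) (nat_lit 384) (nat_lit 203) (nat_lit 193))))))) (XT.nd (nat_lit 39702) (nat_lit 0) (nat_lit 0) (XT.nd (nat_lit 390) (nat_lit 0) (nat_lit 0) (XT.nd (nat_lit 156) (nat_lit 0) (nat_lit 0) (XT.nd (nat_lit 78) (nat_lit 0) (nat_lit 0) (XT.lf (nat_lit 0) (nat_lit 334742657588) (nat_lit 76) (nat_lit 98401864321) (nat_lit 76) (nat_lit 97798143983) (nat_lit 1) (nat_lit 4) (nat_lit 2) (nat_lit 5) (nat_lit 2) (nat_lit 4) (nat_lit 385) (nat_lit 203)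 (nat_lit 192)) (XT.lf (nat_lit 0) (nat_lit 353358175559) (nat_lit 76) (nat_lit 102362882438) (nat_lit 76) (nat_lit 101718690475) (nat_lit 1) (nat_lit 4) (nat_lit 2) (nat_lit 5) (nat_lit 2) (nat_lit 4) (nat_lit 386) (nat_lit 203) (nat_lit 191))) (XT.nd (nat_lit 78) (nat_lit 0) (nat_lit 0) (XT.lf (nat_lit 0) (nat_lit 372856790538) (nat_lit 76) (nat_lit 106544450722) (nat_lit 76) (nat_lit 105861714355) (nat_lit 1) (nat_lit 4) (nat_lit 2) (nat_lit 5) (nat_lit 2) (nat_lit 4) (nat_lit 387) (nat_lit 203) (nat_lit 190)) (XT.nd (nat_lit 78) (nat_lit 0) (nat_lit 0) (XT.lf (nat_lit 0) (nat_lit 393284927799) (nat_lit 76) (nat_lit 110956525287) (nat_lit 76) (nat_lit 110237079964) (nat_lit 1) (nat_lit 4) (nat_lit 2) (nat_lit 5) (nat_lit 2) (nat_lit 4) (nat_lit 388) (nat_lit 203) (nat_lit 189)) (XT.lf (nat_lit 0) (nat_lit 414691225763) (nat_lit 76) (nat_lit 115609611075) (nat_lit 76) (nat_lit 114855204841)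 (nat_lit 1) (nat_lit 4) (nat_lit 2) (nat_lit 5) (nat_lit 2) (nat_lit 4) (nat_lit 389) (nat_lit 203) (nat_lit 188))))) (XT.nd (nat_lit 156) (nat_lit 0) (nat_lit 0) (XT.nd (nat_lit 78) (nat_lit 0) (nat_lit 0) (XT.lf (nat_lit 0) (nat_lit 437126651807) (nat_lit 76) (nat_lit 120514786859) (nat_lit 76) (nat_lit 119727084520) (nat_lit 1) (nat_lit 4) (nat_lit 2) (nat_lit 5) (nat_lit 2) (nat_lit 4) (nat_lit 390) (nat_lit 203) (nat_lit 187)) (XT.lf (nat_lit 0) (nat_lit 460644623611) (nat_lit 76) (nat_lit 125683731630) (nat_lit 76) (nat_lit 124864318715) (nat_lit 1) (nat_lit 4) (nat_lit 2) (nat_lit 5) (nat_lit 2) (nat_lit 4) (nat_lit 391) (nat_lit 203) (nat_lit 186))) (XT.nd (nat_lit 78) (nat_lit 0) (nat_lit 0) (XT.lf (nat_lit 0) (nat_lit 485301136347) (nat_lit 76) (nat_lit 131128752400) (nat_lit 76) (nat_lit 130279138935) (nat_lit 1) (nat_lit 4) (nat_lit 2) (nat_lit 5) (nat_lit 2) (nat_lit 4)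 (nat_lit 392) (nat_lit 203) (nat_lit 185)) (XT.nd (nat_lit 39000) (nat_lit 0) (nat_lit 0) (XT.lf (nat_lit 0) (nat_lit 511154895998) (nat_lit 76) (nat_lit 136862813504) (nat_lit 76) (nat_lit 135984437611) (nat_lit 1) (nat_lit 4) (nat_lit 2) (nat_lit 5) (nat_lit 2) (nat_lit 4) (nat_lit 393) (nat_lit 203) (nat_lit 184)) (XT.lf (nat_lit 0) (nat_lit 77712185808) (nat_lit 76) (nat_lit 31683660736) (nat_lit 76) (nat_lit 31683660736) (nat_lit 1) (nat_lit 4) (nat_lit 2) (nat_lit 5) (nat_lit 2) (nat_lit 4) (nat_lit 372) (nat_lit 204) (nat_lit 204)))))) (XT.nd (nat_lit 390) (nat_lit 0) (nat_lit 0) (XT.nd (nat_lit 156) (nat_lit 0) (nat_lit 0) (XT.nd (nat_lit 78) (nat_lit 0) (nat_lit 0) (XT.lf (nat_lit 0) (nat_lit 165914688191) (nat_lit 76) (nat_lit 65176253148) (nat_lit 76) (nat_lit 65103571926) (nat_lit 1) (nat_lit 4) (nat_lit 2) (nat_lit 5) (nat_lit 2) (nat_lit 4) (nat_lit 373) (nat_lit 204) (nat_lit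 203)) (XT.lf (nat_lit 0) (nat_lit 176843896158) (nat_lit 76) (nat_lit 67116036849) (nat_lit 76) (nat_lit 66974135415) (nat_lit 1) (nat_lit 4) (nat_lit 2) (nat_lit 5) (nat_lit 2) (nat_lit 4) (nat_lit 374) (nat_lit 204) (nat_lit 202))) (XT.nd (nat_lit 78) (nat_lit 0) (nat_lit 0) (XT.lf (nat_lit 0) (nat_lit 188238017439) (nat_lit 76) (nat_lit 69191291108) (nat_lit 76) (nat_lit 68983465662) (nat_lit 1) (nat_lit 4) (nat_lit 2) (nat_lit 5) (nat_lit 2) (nat_lit 4) (nat_lit 375) (nat_lit 204) (nat_lit 201)) (XT.nd (nat_lit 78) (nat_lit 0) (nat_lit 0) (XT.lf (nat_lit 0) (nat_lit 200124180896) (nat_lit 76) (nat_lit 71406957004) (nat_lit 76) (nat_lit 71136346786) (nat_lit 1) (nat_lit 4) (nat_lit 2) (nat_lit 5) (nat_lit 2) (nat_lit 4) (nat_lit 376) (nat_lit 204) (nat_lit 200)) (XT.lf (nat_lit 0) (nat_lit 212530686916) (nat_lit 76) (nat_lit 73768309935) (nat_lit 76) (nat_lit 73437904695) (nat_lit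 1) (nat_lit 4) (nat_lit 2) (nat_lit 5) (nat_lit 2) (nat_lit 4) (nat_lit 377) (nat_lit 204) (nat_lit 199))))) (XT.nd (nat_lit 156) (nat_lit 0) (nat_lit 0) (XT.nd (nat_lit 78) (nat_lit 0) (nat_lit 0) (XT.lf (nat_lit 0) (nat_lit 225487074802) (nat_lit 76) (nat_lit 76280972167) (nat_lit 76) (nat_lit 75893619288) (nat_lit 1) (nat_lit 4) (nat_lit 2) (nat_lit 5) (nat_lit 2) (nat_lit 4) (nat_lit 378) (nat_lit 204) (nat_lit 198)) (XT.lf (nat_lit 0) (nat_lit 239024193094) (nat_lit 76) (nat_lit 78950926232) (nat_lit 76) (nat_lit 78509337506) (nat_lit 1) (nat_lit 4) (nat_lit 2) (nat_lit 5) (nat_lit 2) (nat_lit 4) (nat_lit 379) (nat_lit 204) (nat_lit 197))) (XT.nd (nat_lit 78) (nat_lit 0) (nat_lit 0) (XT.lf (nat_lit 0) (nat_lit 253174273026) (nat_lit 76) (nat_lit 81784529161) (nat_lit 76) (nat_lit 81291287247) (nat_lit 1) (nat_lit 4) (nat_lit 2) (nat_lit 5) (nat_lit 2) (nat_lit 4) (nat_lit 380) (nat_lit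 204) (nat_lit 196)) (XT.nd (nat_lit 78) (nat_lit 0) (nat_lit 0) (XT.lf (nat_lit 0) (nat_lit 267971005267) (nat_lit 76) (nat_lit 84788527630) (nat_lit 76) (nat_lit 84246092203) (nat_lit 1) (nat_lit 4) (nat_lit 2) (nat_lit 5) (nat_lit 2) (nat_lit 4) (nat_lit 381) (nat_lit 204) (nat_lit 195)) (XT.lf (nat_lit 0) (nat_lit 283449620129) (nat_lit 76) (nat_lit 87970074014) (nat_lit 76) (nat_lit 87380787624) (nat_lit 1) (nat_lit 4) (nat_lit 2) (nat_lit 5) (nat_lit 2) (nat_lit 4) (nat_lit 382) (nat_lit 204) (nat_lit 194))))))))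
noncomputable def xc3 : XT := (XT.nd (nat_lit 40326) (nat_lit 0) (nat_lit 0) (XT.nd (nat_lit 780) (nat_lit 0) (nat_lit 0) (XT.nd (nat_lit 390) (nat_lit 0) (nat_lit 0) (XT.nd (nat_lit 156) (nat_lit 0) (nat_lit 0) (XT.nd (nat_lit 78) (nat_lit 0) (nat_lit 0) (XT.lf (nat_lit 0) (nat_lit 299646971459) (nat_lit 76) (nat_lit 91336743425) (nat_lit 76) (nat_lit 90702837069) (nat_lit 1) (nat_lit 4) (nat_lit 2) (nat_lit 5) (nat_lit 2) (nat_lit 4) (nat_lit 383) (nat_lit 204) (nat_lit 193)) (XT.lf (nat_lit 0) (nat_lit 316601624379) (nat_lit 76) (nat_lit 94896551741) (nat_lit 76) (nat_lit 94220150180) (nat_lit 1) (nat_lit 4) (nat_lit 2) (nat_lit 5) (nat_lit 2) (nat_lit 4) (nat_lit 384) (nat_lit 204) (nat_lit 192))) (XT.nd (nat_lit 78) (nat_lit 0) (nat_lit 0) (XT.lf (nat_lit 0) (nat_lit 334353947108) (nat_lit 76) (nat_lit 98657974698) (nat_lit 76) (nat_lit 97941101513) (nat_lit 1) (nat_lit 4) (nat_lit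 2) (nat_lit 5) (nat_lit 2) (nat_lit 4) (nat_lit 385) (nat_lit 204) (nat_lit 191)) (XT.nd (nat_lit 78) (nat_lit 0) (nat_lit 0) (XT.lf (nat_lit 0) (nat_lit 352946207084) (nat_lit 76) (nat_lit 102629968064) (nat_lit 76) (nat_lit 101874550475) (nat_lit 1) (nat_lit 4) (nat_lit 2) (nat_lit 5) (nat_lit 2) (nat_lit 4) (nat_lit 386) (nat_lit 204) (nat_lit 190)) (XT.lf (nat_lit 0) (nat_lit 372422671591) (nat_lit 76) (nat_lit 106821988967) (nat_lit 76) (nat_lit 106029862421) (nat_lit 1) (nat_lit 4) (nat_lit 2) (nat_lit 5) (nat_lit 2) (nat_lit 4) (nat_lit 387) (nat_lit 204) (nat_lit 189))))) (XT.nd (nat_lit 156) (nat_lit 0) (nat_lit 0) (XT.nd (nat_lit 78) (nat_lit 0) (nat_lit 0) (XT.lf (nat_lit 0) (nat_lit 392829713164) (nat_lit 76) (nat_lit 111244018407) (nat_lit 76) (nat_lit 110416930951) (nat_lit 1) (nat_lit 4) (nat_lit 2) (nat_lit 5) (nat_lit 2) (nat_lit 4) (nat_lit 388) (nat_lit 204) (nat_lit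 188)) (XT.lf (nat_lit 0) (nat_lit 414215919997) (nat_lit 76) (nat_lit 115906585027) (nat_lit 76) (nat_lit 115046201466) (nat_lit 1) (nat_lit 4) (nat_lit 2) (nat_lit 5) (nat_lit 2) (nat_lit 4) (nat_lit 389) (nat_lit 204) (nat_lit 187))) (XT.nd (nat_lit 78) (nat_lit 0) (nat_lit 0) (XT.lf (nat_lit 0) (nat_lit 436632211630) (nat_lit 76) (nat_lit 120820790176) (nat_lit 76) (nat_lit 119928696038) (nat_lit 1) (nat_lit 4) (nat_lit 2) (nat_lit 5) (nat_lit 2) (nat_lit 4) (nat_lit 390) (nat_lit 204) (nat_lit 186)) (XT.nd (nat_lit 78) (nat_lit 0) (nat_lit 0) (XT.lf (nat_lit 0) (nat_lit 460131960187) (nat_lit 76) (nat_lit 125998334343) (nat_lit 76) (nat_lit 125076039656) (nat_lit 1) (nat_lit 4) (nat_lit 2) (nat_lit 5) (nat_lit 2) (nat_lit 4) (nat_lit 391) (nat_lit 204) (nat_lit 185)) (XT.lf (nat_lit 0) (nat_lit 484771117449) (nat_lit 76) (nat_lit 131451545013) (nat_lit 76) (nat_lit 130500487898)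 (nat_lit 1) (nat_lit 4) (nat_lit 2) (nat_lit 5) (nat_lit 2) (nat_lit 4) (nat_lit 392) (nat_lit 204) (nat_lit 184)))))) (XT.nd (nat_lit 39156) (nat_lit 0) (nat_lit 0) (XT.nd (nat_lit 38922) (nat_lit 0) (nat_lit 0) (XT.nd (nat_lit 38844) (nat_lit 0) (nat_lit 0) (XT.lf (nat_lit 0) (nat_lit 510608348076) (nat_lit 76) (nat_lit 137193406021) (nat_lit 76) (nat_lit 136214956118) (nat_lit 1) (nat_lit 4) (nat_lit 2) (nat_lit 5) (nat_lit 2) (nat_lit 4) (nat_lit 393) (nat_lit 204) (nat_lit 183)) (XT.lf (nat_lit 0) (nat_lit 67853769806) (nat_lit 76) (nat_lit 30089836304) (nat_lit 76) (nat_lit 30089836304) (nat_lit 1) (nat_lit 4) (nat_lit 2) (nat_lit 5) (nat_lit 2) (nat_lit 4) (nat_lit 370) (nat_lit 205) (nat_lit 205))) (XT.nd (nat_lit 78) (nat_lit 0) (nat_lit 0) (XT.lf (nat_lit 0) (nat_lit 145347969487) (nat_lit 76) (nat_lit 61761250123) (nat_lit 76) (nat_lit 61684934839) (nat_lit 1) (nat_lit 4)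 (nat_lit 2) (nat_lit 5) (nat_lit 2) (nat_lit 4) (nat_lit 371) (nat_lit 205) (nat_lit 204)) (XT.nd (nat_lit 78) (nat_lit 0) (nat_lit 0) (XT.lf (nat_lit 0) (nat_lit 155380515196) (nat_lit 76) (nat_lit 63464332225) (nat_lit 76) (nat_lit 63315335719) (nat_lit 1) (nat_lit 4) (nat_lit 2) (nat_lit 5) (nat_lit 2) (nat_lit 4) (nat_lit 372) (nat_lit 205) (nat_lit 203)) (XT.lf (nat_lit 0) (nat_lit 165829063753) (nat_lit 76) (nat_lit 65292973872) (nat_lit 76) (nat_lit 65074757155) (nat_lit 1) (nat_lit 4) (nat_lit 2) (nat_lit 5) (nat_lit 2) (nat_lit 4) (nat_lit 373) (nat_lit 205) (nat_lit 202))))) (XT.nd (nat_lit 156) (nat_lit 0) (nat_lit 0) (XT.nd (nat_lit 78) (nat_lit 0) (nat_lit 0) (XT.lf (nat_lit 0) (nat_lit 176718492655) (nat_lit 76) (nat_lit 67251528974) (nat_lit 76) (nat_lit 66967388246) (nat_lit 1) (nat_lit 4) (nat_lit 2) (nat_lit 5) (nat_lit 2) (nat_lit 4) (nat_lit 374) (nat_lit 205) (nat_lit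 201)) (XT.lf (nat_lit 0) (nat_lit 188074729112) (nat_lit 76) (nat_lit 69344660757) (nat_lit 76) (nat_lit 68997735256) (nat_lit 1) (nat_lit 4) (nat_lit 2) (nat_lit 5) (nat_lit 2) (nat_lit 4) (nat_lit 375) (nat_lit 205) (nat_lit 200))) (XT.nd (nat_lit 78) (nat_lit 0) (nat_lit 0) (XT.lf (nat_lit 0) (nat_lit 199924811784) (nat_lit 76) (nat_lit 71577352868) (nat_lit 76) (nat_lit 71170632345) (nat_lit 1) (nat_lit 4) (nat_lit 2) (nat_lit 5) (nat_lit 2) (nat_lit 4) (nat_lit 376) (nat_lit 205) (nat_lit 199)) (XT.nd (nat_lit 78) (nat_lit 0) (nat_lit 0) (XT.lf (nat_lit 0) (nat_lit 212296955153) (nat_lit 76) (nat_lit 73954921240) (nat_lit 76) (nat_lit 73491253078) (nat_lit 1) (nat_lit 4) (nat_lit 2) (nat_lit 5) (nat_lit 2) (nat_lit 4) (nat_lit 377) (nat_lit 205) (nat_lit 198)) (XT.lf (nat_lit 0) (nat_lit 225220616703) (nat_lit 76) (nat_lit 76483026751) (nat_lit 76) (nat_lit 75965122742) (nat_lit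 1) (nat_lit 4) (nat_lit 2) (nat_lit 5) (nat_lit 2) (nat_lit 4) (nat_lit 378) (nat_lit 205) (nat_lit 197))))))) (XT.nd (nat_lit 780) (nat_lit 0) (nat_lit 0) (XT.nd (nat_lit 390) (nat_lit 0) (nat_lit 0) (XT.nd (nat_lit 156) (nat_lit 0) (nat_lit 0) (XT.nd (nat_lit 78) (nat_lit 0) (nat_lit 0) (XT.lf (nat_lit 0) (nat_lit 238726567057) (nat_lit 76) (nat_lit 79167688699) (nat_lit 76) (nat_lit 78598131502) (nat_lit 1) (nat_lit 4) (nat_lit 2) (nat_lit 5) (nat_lit 2) (nat_lit 4) (nat_lit 379) (nat_lit 205) (nat_lit 196)) (XT.lf (nat_lit 0) (nat_lit 252846963239) (nat_lit 76) (nat_lit 82015299137) (nat_lit 76) (nat_lit 81396548428) (nat_lit 1) (nat_lit 4) (nat_lit 2) (nat_lit 5) (nat_lit 2) (nat_lit 4) (nat_lit 380) (nat_lit 205) (nat_lit 195))) (XT.nd (nat_lit 78) (nat_lit 0) (nat_lit 0) (XT.lf (nat_lit 0) (nat_lit 267615425240) (nat_lit 76) (nat_lit 85032638090) (nat_lit 76) (nat_lit 84367036416)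 (nat_lit 1) (nat_lit 4) (nat_lit 2) (nat_lit 5) (nat_lit 2) (nat_lit 4) (nat_lit 381) (nat_lit 205) (nat_lit 194)) (XT.nd (nat_lit 78) (nat_lit 0) (nat_lit 0) (XT.lf (nat_lit 0) (nat_lit 283067116066) (nat_lit 76) (nat_lit 88226889697) (nat_lit 76) (nat_lit 87516668058) (nat_lit 1) (nat_lit 4) (nat_lit 2) (nat_lit 5) (nat_lit 2) (nat_lit 4) (nat_lit 382) (nat_lit 205) (nat_lit 193)) (XT.lf (nat_lit 0) (nat_lit 299238825455) (nat_lit 76) (nat_lit 91605659320) (nat_lit 76) (nat_lit 90852942476) (nat_lit 1) (nat_lit 4) (nat_lit 2) (nat_lit 5) (nat_lit 2) (nat_lit 4) (nat_lit 383) (nat_lit 205) (nat_lit 192))))) (XT.nd (nat_lit 156) (nat_lit 0) (nat_lit 0) (XT.nd (nat_lit 78) (nat_lit 0) (nat_lit 0) (XT.lf (nat_lit 0) (nat_lit 316169057479) (nat_lit 76) (nat_lit 95176991649) (nat_lit 76) (nat_lit 94383803180) (nat_lit 1) (nat_lit 4) (nat_lit 2) (nat_lit 5) (nat_lit 2) (nat_lit 4) (nat_lit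 384) (nat_lit 205) (nat_lit 191)) (XT.lf (nat_lit 0) (nat_lit 333898122214) (nat_lit 76) (nat_lit 98949389855) (nat_lit 76) (nat_lit 98117656983) (nat_lit 1) (nat_lit 4) (nat_lit 2) (nat_lit 5) (nat_lit 2) (nat_lit 4) (nat_lit 385) (nat_lit 205) (nat_lit 190))) (XT.nd (nat_lit 78) (nat_lit 0) (nat_lit 0) (XT.lf (nat_lit 0) (nat_lit 352468231718) (nat_lit 76) (nat_lit 102931835840) (nat_lit 76) (nat_lit 102063394011) (nat_lit 1) (nat_lit 4) (nat_lit 2) (nat_lit 5) (nat_lit 2) (nat_lit 4) (nat_lit 386) (nat_lit 205) (nat_lit 189)) (XT.nd (nat_lit 78) (nat_lit 0) (nat_lit 0) (XT.lf (nat_lit 0) (nat_lit 371923600537) (nat_lit 76) (nat_lit 107133811617) (nat_lit 76) (nat_lit 106230408877) (nat_lit 1) (nat_lit 4) (nat_lit 2) (nat_lit 5) (nat_lit 2) (nat_lit 4) (nat_lit 387) (nat_lit 205) (nat_lit 188)) (XT.lf (nat_lit 0) (nat_lit 392310550979) (nat_lit 76) (nat_lit 111565321890) (nat_lit 76)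 (nat_lit 110628623045) (nat_lit 1) (nat_lit 4) (nat_lit 2) (nat_lit 5) (nat_lit 2) (nat_lit 4) (nat_lit 388) (nat_lit 205) (nat_lit 187)))))) (XT.nd (nat_lit 39000) (nat_lit 0) (nat_lit 0) (XT.nd (nat_lit 156) (nat_lit 0) (nat_lit 0) (XT.nd (nat_lit 78) (nat_lit 0) (nat_lit 0) (XT.lf (nat_lit 0) (nat_lit 413677623402) (nat_lit 76) (nat_lit 116236917875) (nat_lit 76) (nat_lit 115268508454) (nat_lit 1) (nat_lit 4) (nat_lit 2) (nat_lit 5) (nat_lit 2) (nat_lit 4) (nat_lit 389) (nat_lit 205) (nat_lit 186)) (XT.lf (nat_lit 0) (nat_lit 436075691787) (nat_lit 76) (nat_lit 121159722419) (nat_lit 76) (nat_lit 120161112449) (nat_lit 1) (nat_lit 4) (nat_lit 2) (nat_lit 5) (nat_lit 2) (nat_lit 4) (nat_lit 390) (nat_lit 205) (nat_lit 185))) (XT.nd (nat_lit 78) (nat_lit 0) (nat_lit 0) (XT.lf (nat_lit 0) (nat_lit 459558084869) (nat_lit 76) (nat_lit 126345456486) (nat_lit 76) (nat_lit 125318084088) (nat_lit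 1) (nat_lit 4) (nat_lit 2) (nat_lit 5) (nat_lit 2) (nat_lit 4) (nat_lit 391) (nat_lit 205) (nat_lit 184)) (XT.nd (nat_lit 78) (nat_lit 0) (nat_lit 0) (XT.lf (nat_lit 0) (nat_lit 484180713108) (nat_lit 76) (nat_lit 131806467061) (nat_lit 76) (nat_lit 130751701874) (nat_lit 1) (nat_lit 4) (nat_lit 2) (nat_lit 5) (nat_lit 2) (nat_lit 4) (nat_lit 392) (nat_lit 205) (nat_lit 183)) (XT.lf (nat_lit 0) (nat_lit 510002201808) (nat_lit 76) (nat_lit 137555756550) (nat_lit 76) (nat_lit 136474902993) (nat_lit 1) (nat_lit 4) (nat_lit 2) (nat_lit 5) (nat_lit 2) (nat_lit 4) (nat_lit 393) (nat_lit 205) (nat_lit 182))))) (XT.nd (nat_lit 234) (nat_lit 0) (nat_lit 0) (XT.nd (nat_lit 78) (nat_lit 0) (nat_lit 0) (XT.lf (nat_lit 0) (nat_lit 58780222203) (nat_lit 76) (nat_lit 28711781663) (nat_lit 76) (nat_lit 28711781663) (nat_lit 1) (nat_lit 4) (nat_lit 2) (nat_lit 5) (nat_lit 2) (nat_lit 4) (nat_lit 368)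 (nat_lit 206) (nat_lit 206)) (XT.nd (nat_lit 78) (nat_lit 0) (nat_lit 0) (XT.lf (nat_lit 0) (nat_lit 126436272167) (nat_lit 76) (nat_lit 58795965071) (nat_lit 76) (nat_lit 58715834023) (nat_lit 1) (nat_lit 4) (nat_lit 2) (nat_lit 5) (nat_lit 2) (nat_lit 4) (nat_lit 369) (nat_lit 206) (nat_lit 205)) (XT.lf (nat_lit 0) (nat_lit 135661490372) (nat_lit 76) (nat_lit 60281533900) (nat_lit 76) (nat_lit 60125087569) (nat_lit 1) (nat_lit 4) (nat_lit 2) (nat_lit 5) (nat_lit 2) (nat_lit 4) (nat_lit 370) (nat_lit 206) (nat_lit 204)))) (XT.nd (nat_lit 78) (nat_lit 0) (nat_lit 0) (XT.lf (nat_lit 0) (nat_lit 145258063828) (nat_lit 76) (nat_lit 61883806883) (nat_lit 76) (nat_lit 61654679330) (nat_lit 1) (nat_lit 4) (nat_lit 2) (nat_lit 5) (nat_lit 2) (nat_lit 4) (nat_lit 371) (nat_lit 206) (nat_lit 203)) (XT.nd (nat_lit 78) (nat_lit 0) (nat_lit 0) (XT.lf (nat_lit 0) (nat_lit 155248841518) (nat_lit 76)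 (nat_lit 63606598956) (nat_lit 76) (nat_lit 63308251191) (nat_lit 1) (nat_lit 4) (nat_lit 2) (nat_lit 5) (nat_lit 2) (nat_lit 4) (nat_lit 372) (nat_lit 206) (nat_lit 202)) (XT.lf (nat_lit 0) (nat_lit 165657611010) (nat_lit 76) (nat_lit 65454012005) (nat_lit 76) (nat_lit 65089740228) (nat_lit 1) (nat_lit 4) (nat_lit 2) (nat_lit 5) (nat_lit 2) (nat_lit 4) (nat_lit 373) (nat_lit 206) (nat_lit 201))))))))
noncomputable def xc4 : XT := (XT.nd (nat_lit 40014) (nat_lit 0) (nat_lit 0) (XT.nd (nat_lit 780) (nat_lit 0) (nat_lit 0) (XT.nd (nat_lit 390) (nat_lit 0) (nat_lit 0) (XT.nd (nat_lit 156) (nat_lit 0) (nat_lit 0) (XT.nd (nat_lit 78) (nat_lit 0) (nat_lit 0) (XT.lf (nat_lit 0) (nat_lit 176509155088) (nat_lit 76) (nat_lit 67430444631) (nat_lit 76) (nat_lit 67003388082) (nat_lit 1) (nat_lit 4) (nat_lit 2) (nat_lit 5) (nat_lit 2) (nat_lit 4) (nat_lit 374) (nat_lit 206) (nat_lit 200)) (XT.lf (nat_lit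 0) (nat_lit 187829310761) (nat_lit 76) (nat_lit 69540602628) (nat_lit 76) (nat_lit 69053751058) (nat_lit 1) (nat_lit 4) (nat_lit 2) (nat_lit 5) (nat_lit 2) (nat_lit 4) (nat_lit 375) (nat_lit 206) (nat_lit 199))) (XT.nd (nat_lit 78) (nat_lit 0) (nat_lit 0) (XT.lf (nat_lit 0) (nat_lit 199645030781) (nat_lit 76) (nat_lit 71789510181) (nat_lit 76) (nat_lit 71245710971) (nat_lit 1) (nat_lit 4) (nat_lit 2) (nat_lit 5) (nat_lit 2) (nat_lit 4) (nat_lit 376) (nat_lit 206) (nat_lit 198)) (XT.nd (nat_lit 78) (nat_lit 0) (nat_lit 0) (XT.lf (nat_lit 0) (nat_lit 211984447814) (nat_lit 76) (nat_lit 74182521831) (nat_lit 76) (nat_lit 73584486774) (nat_lit 1) (nat_lit 4) (nat_lit 2) (nat_lit 5) (nat_lit 2) (nat_lit 4) (nat_lit 377) (nat_lit 206) (nat_lit 197)) (XT.lf (nat_lit 0) (nat_lit 224876941426) (nat_lit 76) (nat_lit 76725335226) (nat_lit 76) (nat_lit 76075646981) (nat_lit 1) (nat_lit 4) (nat_lit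 2) (nat_lit 5) (nat_lit 2) (nat_lit 4) (nat_lit 378) (nat_lit 206) (nat_lit 196))))) (XT.nd (nat_lit 156) (nat_lit 0) (nat_lit 0) (XT.nd (nat_lit 78) (nat_lit 0) (nat_lit 0) (XT.lf (nat_lit 0) (nat_lit 238353208028) (nat_lit 76) (nat_lit 79424004683) (nat_lit 76) (nat_lit 78725122925) (nat_lit 1) (nat_lit 4) (nat_lit 2) (nat_lit 5) (nat_lit 2) (nat_lit 4) (nat_lit 379) (nat_lit 206) (nat_lit 195)) (XT.lf (nat_lit 0) (nat_lit 252445333972) (nat_lit 76) (nat_lit 82284955605) (nat_lit 76) (nat_lit 81539222884) (nat_lit 1) (nat_lit 4) (nat_lit 2) (nat_lit 5) (nat_lit 2) (nat_lit 4) (nat_lit 380) (nat_lit 206) (nat_lit 194))) (XT.nd (nat_lit 78) (nat_lit 0) (nat_lit 0) (XT.lf (nat_lit 0) (nat_lit 267186871936) (nat_lit 76) (nat_lit 85314999780) (nat_lit 76) (nat_lit 84524647093) (nat_lit 1) (nat_lit 4) (nat_lit 2) (nat_lit 5) (nat_lit 2) (nat_lit 4) (nat_lit 381) (nat_lit 206) (nat_lit 193))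 (XT.nd (nat_lit 78) (nat_lit 0) (nat_lit 0) (XT.lf (nat_lit 0) (nat_lit 282612920822) (nat_lit 76) (nat_lit 88521351600) (nat_lit 76) (nat_lit 87688503708) (nat_lit 1) (nat_lit 4) (nat_lit 2) (nat_lit 5) (nat_lit 2) (nat_lit 4) (nat_lit 382) (nat_lit 206) (nat_lit 192)) (XT.lf (nat_lit 0) (nat_lit 298760209316) (nat_lit 76) (nat_lit 91911645235) (nat_lit 76) (nat_lit 91038325719) (nat_lit 1) (nat_lit 4) (nat_lit 2) (nat_lit 5) (nat_lit 2) (nat_lit 4) (nat_lit 383) (nat_lit 206) (nat_lit 191)))))) (XT.nd (nat_lit 390) (nat_lit 0) (nat_lit 0) (XT.nd (nat_lit 156) (nat_lit 0) (nat_lit 0) (XT.nd (nat_lit 78) (nat_lit 0) (nat_lit 0) (XT.lf (nat_lit 0) (nat_lit 315667183345) (nat_lit 76) (nat_lit 95493952813) (nat_lit 76) (nat_lit 94582088893) (nat_lit 1) (nat_lit 4) (nat_lit 2) (nat_lit 5) (nat_lit 2) (nat_lit 4) (nat_lit 384) (nat_lit 206) (nat_lit 190)) (XT.lf (nat_lit 0) (nat_lit 333374097607)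 (nat_lit 76) (nat_lit 99276803638) (nat_lit 76) (nat_lit 98328230761) (nat_lit 1) (nat_lit 4) (nat_lit 2) (nat_lit 5) (nat_lit 2) (nat_lit 4) (nat_lit 385) (nat_lit 206) (nat_lit 189))) (XT.nd (nat_lit 78) (nat_lit 0) (nat_lit 0) (XT.lf (nat_lit 0) (nat_lit 351923111423) (nat_lit 76) (nat_lit 103269204497) (nat_lit 76) (nat_lit 102285670710) (nat_lit 1) (nat_lit 4) (nat_lit 2) (nat_lit 5) (nat_lit 2) (nat_lit 4) (nat_lit 386) (nat_lit 206) (nat_lit 188)) (XT.nd (nat_lit 78) (nat_lit 0) (nat_lit 0) (XT.lf (nat_lit 0) (nat_lit 371358389112) (nat_lit 76) (nat_lit 107480661107) (nat_lit 76) (nat_lit 106463831214) (nat_lit 1) (nat_lit 4) (nat_lit 2) (nat_lit 5) (nat_lit 2) (nat_lit 4) (nat_lit 387) (nat_lit 206) (nat_lit 187)) (XT.lf (nat_lit 0) (nat_lit 391726205143) (nat_lit 76) (nat_lit 111921200745) (nat_lit 76) (nat_lit 110872660276) (nat_lit 1) (nat_lit 4) (nat_lit 2) (nat_lit 5) (nat_lit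 2) (nat_lit 4) (nat_lit 388) (nat_lit 206) (nat_lit 186))))) (XT.nd (nat_lit 156) (nat_lit 0) (nat_lit 0) (XT.nd (nat_lit 78) (nat_lit 0) (nat_lit 0) (XT.lf (nat_lit 0) (nat_lit 413075054318) (nat_lit 76) (nat_lit 116601396126) (nat_lit 76) (nat_lit 115522655107) (nat_lit 1) (nat_lit 4) (nat_lit 2) (nat_lit 5) (nat_lit 2) (nat_lit 4) (nat_lit 389) (nat_lit 206) (nat_lit 185)) (XT.lf (nat_lit 0) (nat_lit 435455767229) (nat_lit 76) (nat_lit 121532390570) (nat_lit 76) (nat_lit 120424887124) (nat_lit 1) (nat_lit 4) (nat_lit 2) (nat_lit 5) (nat_lit 2) (nat_lit 4) (nat_lit 390) (nat_lit 206) (nat_lit 184))) (XT.nd (nat_lit 78) (nat_lit 0) (nat_lit 0) (XT.lf (nat_lit 0) (nat_lit 458921631288) (nat_lit 76) (nat_lit 126725924541) (nat_lit 76) (nat_lit 125591028307) (nat_lit 1) (nat_lit 4) (nat_lit 2) (nat_lit 5) (nat_lit 2) (nat_lit 4) (nat_lit 391) (nat_lit 206) (nat_lit 183)) (XT.nd (nat_lit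 78) (nat_lit 0) (nat_lit 0) (XT.lf (nat_lit 0) (nat_lit 483528517599) (nat_lit 76) (nat_lit 132194363597) (nat_lit 76) (nat_lit 131033378993) (nat_lit 1) (nat_lit 4) (nat_lit 2) (nat_lit 5) (nat_lit 2) (nat_lit 4) (nat_lit 392) (nat_lit 206) (nat_lit 182)) (XT.lf (nat_lit 0) (nat_lit 509335013989) (nat_lit 76) (nat_lit 137950727829) (nat_lit 76) (nat_lit 136764897159) (nat_lit 1) (nat_lit 4) (nat_lit 2) (nat_lit 5) (nat_lit 2) (nat_lit 4) (nat_lit 393) (nat_lit 206) (nat_lit 181))))))) (XT.nd (nat_lit 780) (nat_lit 0) (nat_lit 0) (XT.nd (nat_lit 390) (nat_lit 0) (nat_lit 0) (XT.nd (nat_lit 156) (nat_lit 0) (nat_lit 0) (XT.nd (nat_lit 78) (nat_lit 0) (nat_lit 0) (XT.lf (nat_lit 0) (nat_lit 50411989692) (nat_lit 76) (nat_lit 27532816138) (nat_lit 76) (nat_lit 27532816138) (nat_lit 1) (nat_lit 4) (nat_lit 2) (nat_lit 5) (nat_lit 2) (nat_lit 4) (nat_lit 366) (nat_lit 207) (nat_lit 207))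 (XT.lf (nat_lit 0) (nat_lit 109012874170) (nat_lit 76) (nat_lit 56245198646) (nat_lit 76) (nat_lit 56161061046) (nat_lit 1) (nat_lit 4) (nat_lit 2) (nat_lit 5) (nat_lit 2) (nat_lit 4) (nat_lit 367) (nat_lit 207) (nat_lit 206))) (XT.nd (nat_lit 78) (nat_lit 0) (nat_lit 0) (XT.lf (nat_lit 0) (nat_lit 117512092705) (nat_lit 76) (nat_lit 57530517682) (nat_lit 76) (nat_lit 57366249035) (nat_lit 1) (nat_lit 4) (nat_lit 2) (nat_lit 5) (nat_lit 2) (nat_lit 4) (nat_lit 368) (nat_lit 207) (nat_lit 205)) (XT.nd (nat_lit 78) (nat_lit 0) (nat_lit 0) (XT.lf (nat_lit 0) (nat_lit 126341871224) (nat_lit 76) (nat_lit 58924649669) (nat_lit 76) (nat_lit 58684065738) (nat_lit 1) (nat_lit 4) (nat_lit 2) (nat_lit 5) (nat_lit 2) (nat_lit 4) (nat_lit 369) (nat_lit 207) (nat_lit 204)) (XT.lf (nat_lit 0) (nat_lit 135523233010) (nat_lit 76) (nat_lit 60430913968) (nat_lit 76) (nat_lit 60117648814) (nat_lit 1) (nat_lit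 4) (nat_lit 2) (nat_lit 5) (nat_lit 2) (nat_lit 4) (nat_lit 370) (nat_lit 207) (nat_lit 203))))) (XT.nd (nat_lit 156) (nat_lit 0) (nat_lit 0) (XT.nd (nat_lit 78) (nat_lit 0) (nat_lit 0) (XT.lf (nat_lit 0) (nat_lit 145078038447) (nat_lit 76) (nat_lit 62052896922) (nat_lit 76) (nat_lit 61670411557) (nat_lit 1) (nat_lit 4) (nat_lit 2) (nat_lit 5) (nat_lit 2) (nat_lit 4) (nat_lit 371) (nat_lit 207) (nat_lit 202)) (XT.lf (nat_lit 0) (nat_lit 155029037073) (nat_lit 76) (nat_lit 63794460396) (nat_lit 76) (nat_lit 63346051019) (nat_lit 1) (nat_lit 4) (nat_lit 2) (nat_lit 5) (nat_lit 2) (nat_lit 4) (nat_lit 372) (nat_lit 207) (nat_lit 201))) (XT.nd (nat_lit 78) (nat_lit 0) (nat_lit 0) (XT.lf (nat_lit 0) (nat_lit 165399921741) (nat_lit 76) (nat_lit 65659750969) (nat_lit 76) (nat_lit 65148556820) (nat_lit 1) (nat_lit 4) (nat_lit 2) (nat_lit 5) (nat_lit 2) (nat_lit 4) (nat_lit 373) (nat_lit 207)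 (nat_lit 200)) (XT.nd (nat_lit 78) (nat_lit 0) (nat_lit 0) (XT.lf (nat_lit 0) (nat_lit 176215385034) (nat_lit 76) (nat_lit 67653209810) (nat_lit 76) (nat_lit 67082220640) (nat_lit 1) (nat_lit 4) (nat_lit 2) (nat_lit 5) (nat_lit 2) (nat_lit 4) (nat_lit 374) (nat_lit 207) (nat_lit 199)) (XT.lf (nat_lit 0) (nat_lit 187501178055) (nat_lit 76) (nat_lit 69779583249) (nat_lit 76) (nat_lit 69151646439) (nat_lit 1) (nat_lit 4) (nat_lit 2) (nat_lit 5) (nat_lit 2) (nat_lit 4) (nat_lit 375) (nat_lit 207) (nat_lit 198)))))) (XT.nd (nat_lit 390) (nat_lit 0) (nat_lit 0) (XT.nd (nat_lit 156) (nat_lit 0) (nat_lit 0) (XT.nd (nat_lit 78) (nat_lit 0) (nat_lit 0) (XT.lf (nat_lit 0) (nat_lit 199284171740) (nat_lit 76) (nat_lit 72043934080) (nat_lit 76) (nat_lit 71361761422) (nat_lit 1) (nat_lit 4) (nat_lit 2) (nat_lit 5) (nat_lit 2) (nat_lit 4) (nat_lit 376) (nat_lit 207) (nat_lit 197)) (XT.lf (nat_lit 0)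 (nat_lit 211592420835) (nat_lit 76) (nat_lit 74451653614) (nat_lit 76) (nat_lit 73717827769) (nat_lit 1) (nat_lit 4) (nat_lit 2) (nat_lit 5) (nat_lit 2) (nat_lit 4) (nat_lit 377) (nat_lit 207) (nat_lit 196))) (XT.nd (nat_lit 78) (nat_lit 0) (nat_lit 0) (XT.lf (nat_lit 0) (nat_lit 224455230695) (nat_lit 76) (nat_lit 77008474517) (nat_lit 76) (nat_lit 76225455160) (nat_lit 1) (nat_lit 4) (nat_lit 2) (nat_lit 5) (nat_lit 2) (nat_lit 4) (nat_lit 378) (nat_lit 207) (nat_lit 195)) (XT.nd (nat_lit 78) (nat_lit 0) (nat_lit 0) (XT.lf (nat_lit 0) (nat_lit 237903227059) (nat_lit 76) (nat_lit 79720484458) (nat_lit 76) (nat_lit 78890614137) (nat_lit 1) (nat_lit 4) (nat_lit 2) (nat_lit 5) (nat_lit 2) (nat_lit 4) (nat_lit 379) (nat_lit 207) (nat_lit 194)) (XT.lf (nat_lit 0) (nat_lit 251968428965) (nat_lit 76) (nat_lit 82594140603) (nat_lit 76) (nat_lit 81719650316) (nat_lit 1) (nat_lit 4) (nat_lit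 2) (nat_lit 5) (nat_lit 2) (nat_lit 4) (nat_lit 380) (nat_lit 207) (nat_lit 193))))) (XT.nd (nat_lit 156) (nat_lit 0) (nat_lit 0) (XT.nd (nat_lit 78) (nat_lit 0) (nat_lit 0) (XT.lf (nat_lit 0) (nat_lit 266684324990) (nat_lit 76) (nat_lit 85636284991) (nat_lit 76) (nat_lit 84719299499) (nat_lit 1) (nat_lit 4) (nat_lit 2) (nat_lit 5) (nat_lit 2) (nat_lit 4) (nat_lit 381) (nat_lit 207) (nat_lit 192)) (XT.lf (nat_lit 0) (nat_lit 282085952980) (nat_lit 76) (nat_lit 88854160823) (nat_lit 76) (nat_lit 87896703706) (nat_lit 1) (nat_lit 4) (nat_lit 2) (nat_lit 5) (nat_lit 2) (nat_lit 4) (nat_lit 382) (nat_lit 207) (nat_lit 191))) (XT.nd (nat_lit 78) (nat_lit 0) (nat_lit 0) (XT.lf (nat_lit 0) (nat_lit 298209983479) (nat_lit 76) (nat_lit 92255429707) (nat_lit 76) (nat_lit 91259428187) (nat_lit 1) (nat_lit 4) (nat_lit 2) (nat_lit 5) (nat_lit 2) (nat_lit 4) (nat_lit 383) (nat_lit 207) (nat_lit 190))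 (XT.nd (nat_lit 78) (nat_lit 0) (nat_lit 0) (XT.lf (nat_lit 0) (nat_lit 315094807036) (nat_lit 76) (nat_lit 95848189903) (nat_lit 76) (nat_lit 94815479427) (nat_lit 1) (nat_lit 4) (nat_lit 2) (nat_lit 5) (nat_lit 2) (nat_lit 4) (nat_lit 384) (nat_lit 207) (nat_lit 189)) (XT.lf (nat_lit 0) (nat_lit 332780625611) (nat_lit 76) (nat_lit 99640995603) (nat_lit 76) (nat_lit 98573324216) (nat_lit 1) (nat_lit 4) (nat_lit 2) (nat_lit 5) (nat_lit 2) (nat_lit 4) (nat_lit 385) (nat_lit 207) (nat_lit 188))))))))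
noncomputable def xc5 : XT := (XT.nd (nat_lit 39858) (nat_lit 0) (nat_lit 0) (XT.nd (nat_lit 39078) (nat_lit 0) (nat_lit 0) (XT.nd (nat_lit 390) (nat_lit 0) (nat_lit 0) (XT.nd (nat_lit 156) (nat_lit 0) (nat_lit 0) (XT.nd (nat_lit 78) (nat_lit 0) (nat_lit 0) (XT.lf (nat_lit 0) (nat_lit 351309548296) (nat_lit 76) (nat_lit 103642877295) (nat_lit 76) (nat_lit 102541909803) (nat_lit 1) (nat_lit 4) (nat_lit 2) (nat_lit 5) (nat_lit 2) (nat_lit 4) (nat_lit 386) (nat_lit 207) (nat_lit 187)) (XT.lf (nat_lit 0) (nat_lit 370725691574) (nat_lit 76) (nat_lit 107863363270) (nat_lit 76) (nat_lit 106730685201) (nat_lit 1) (nat_lit 4) (nat_lit 2) (nat_lit 5) (nat_lit 2) (nat_lit 4) (nat_lit 387) (nat_lit 207) (nat_lit 186))) (XT.nd (nat_lit 78) (nat_lit 0) (nat_lit 0) (XT.lf (nat_lit 0) (nat_lit 391075284357) (nat_lit 76) (nat_lit 112312502303) (nat_lit 76) (nat_lit 111149623685) (nat_lit 1) (nat_lit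 4) (nat_lit 2) (nat_lit 5) (nat_lit 2) (nat_lit 4) (nat_lit 388) (nat_lit 207) (nat_lit 185)) (XT.nd (nat_lit 78) (nat_lit 0) (nat_lit 0) (XT.lf (nat_lit 0) (nat_lit 412406778057) (nat_lit 76) (nat_lit 117000887584) (nat_lit 76) (nat_lit 115809246537) (nat_lit 1) (nat_lit 4) (nat_lit 2) (nat_lit 5) (nat_lit 2) (nat_lit 4) (nat_lit 389) (nat_lit 207) (nat_lit 184)) (XT.lf (nat_lit 0) (nat_lit 434770961945) (nat_lit 76) (nat_lit 121939681933) (nat_lit 76) (nat_lit 120720648098) (nat_lit 1) (nat_lit 4) (nat_lit 2) (nat_lit 5) (nat_lit 2) (nat_lit 4) (nat_lit 390) (nat_lit 207) (nat_lit 183))))) (XT.nd (nat_lit 156) (nat_lit 0) (nat_lit 0) (XT.nd (nat_lit 78) (nat_lit 0) (nat_lit 0) (XT.lf (nat_lit 0) (nat_lit 458221084077) (nat_lit 76) (nat_lit 127140644385) (nat_lit 76) (nat_lit 125895522181) (nat_lit 1) (nat_lit 4) (nat_lit 2) (nat_lit 5) (nat_lit 2) (nat_lit 4) (nat_lit 391) (nat_lit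 207) (nat_lit 182)) (XT.lf (nat_lit 0) (nat_lit 482812978078) (nat_lit 76) (nat_lit 132616158184) (nat_lit 76) (nat_lit 131346189913) (nat_lit 1) (nat_lit 4) (nat_lit 2) (nat_lit 5) (nat_lit 2) (nat_lit 4) (nat_lit 392) (nat_lit 207) (nat_lit 181))) (XT.nd (nat_lit 38376) (nat_lit 0) (nat_lit 0) (XT.lf (nat_lit 0) (nat_lit 508605196075) (nat_lit 76) (nat_lit 138379260268) (nat_lit 76) (nat_lit 137085629077) (nat_lit 1) (nat_lit 4) (nat_lit 2) (nat_lit 5) (nat_lit 2) (nat_lit 4) (nat_lit 393) (nat_lit 207) (nat_lit 180)) (XT.nd (nat_lit 78) (nat_lit 0) (nat_lit 0) (XT.lf (nat_lit 0) (nat_lit 42676585892) (nat_lit 76) (nat_lit 26537978841) (nat_lit 76) (nat_lit 26537978841) (nat_lit 1) (nat_lit 4) (nat_lit 2) (nat_lit 5) (nat_lit 2) (nat_lit 4) (nat_lit 364) (nat_lit 208) (nat_lit 208)) (XT.lf (nat_lit 0) (nat_lit 92925910981) (nat_lit 76) (nat_lit 54077354561) (nat_lit 76) (nat_lit 53989010081)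 (nat_lit 1) (nat_lit 4) (nat_lit 2) (nat_lit 5) (nat_lit 2) (nat_lit 4) (nat_lit 365) (nat_lit 208) (nat_lit 207)))))) (XT.nd (nat_lit 390) (nat_lit 0) (nat_lit 0) (XT.nd (nat_lit 156) (nat_lit 0) (nat_lit 0) (XT.nd (nat_lit 78) (nat_lit 0) (nat_lit 0) (XT.lf (nat_lit 0) (nat_lit 100773210097) (nat_lit 76) (nat_lit 55177934349) (nat_lit 76) (nat_lit 55005452269) (nat_lit 1) (nat_lit 4) (nat_lit 2) (nat_lit 5) (nat_lit 2) (nat_lit 4) (nat_lit 366) (nat_lit 208) (nat_lit 206)) (XT.lf (nat_lit 0) (nat_lit 108913753181) (nat_lit 76) (nat_lit 56380317474) (nat_lit 76) (nat_lit 56127704346) (nat_lit 1) (nat_lit 4) (nat_lit 2) (nat_lit 5) (nat_lit 2) (nat_lit 4) (nat_lit 367) (nat_lit 208) (nat_lit 205))) (XT.nd (nat_lit 78) (nat_lit 0) (nat_lit 0) (XT.lf (nat_lit 0) (nat_lit 117366922475) (nat_lit 76) (nat_lit 57687366754) (nat_lit 76) (nat_lit 57358438342) (nat_lit 1) (nat_lit 4) (nat_lit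 2) (nat_lit 5) (nat_lit 2) (nat_lit 4) (nat_lit 368) (nat_lit 208) (nat_lit 204)) (XT.nd (nat_lit 78) (nat_lit 0) (nat_lit 0) (XT.lf (nat_lit 0) (nat_lit 126152844575) (nat_lit 76) (nat_lit 59102194210) (nat_lit 76) (nat_lit 58700584576) (nat_lit 1) (nat_lit 4) (nat_lit 2) (nat_lit 5) (nat_lit 2) (nat_lit 4) (nat_lit 369) (nat_lit 208) (nat_lit 203)) (XT.lf (nat_lit 0) (nat_lit 135292438343) (nat_lit 76) (nat_lit 60628168480) (nat_lit 76) (nat_lit 60157338634) (nat_lit 1) (nat_lit 4) (nat_lit 2) (nat_lit 5) (nat_lit 2) (nat_lit 4) (nat_lit 370) (nat_lit 208) (nat_lit 202))))) (XT.nd (nat_lit 156) (nat_lit 0) (nat_lit 0) (XT.nd (nat_lit 78) (nat_lit 0) (nat_lit 0) (XT.lf (nat_lit 0) (nat_lit 144807464715) (nat_lit 76) (nat_lit 62268922835) (nat_lit 76) (nat_lit 61732168978) (nat_lit 1) (nat_lit 4) (nat_lit 2) (nat_lit 5) (nat_lit 2) (nat_lit 4) (nat_lit 371) (nat_lit 208) (nat_lit 201))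 (XT.lf (nat_lit 0) (nat_lit 154720578517) (nat_lit 76) (nat_lit 64028363833) (nat_lit 76) (nat_lit 63428825204) (nat_lit 1) (nat_lit 4) (nat_lit 2) (nat_lit 5) (nat_lit 2) (nat_lit 4) (nat_lit 372) (nat_lit 208) (nat_lit 200))) (XT.nd (nat_lit 78) (nat_lit 0) (nat_lit 0) (XT.lf (nat_lit 0) (nat_lit 165055382400) (nat_lit 76) (nat_lit 65910680621) (nat_lit 76) (nat_lit 65251346970) (nat_lit 1) (nat_lit 4) (nat_lit 2) (nat_lit 5) (nat_lit 2) (nat_lit 4) (nat_lit 373) (nat_lit 208) (nat_lit 199)) (XT.nd (nat_lit 78) (nat_lit 0) (nat_lit 0) (XT.lf (nat_lit 0) (nat_lit 175836483041) (nat_lit 76) (nat_lit 67920354904) (nat_lit 76) (nat_lit 67204073614) (nat_lit 1) (nat_lit 4) (nat_lit 2) (nat_lit 5) (nat_lit 2) (nat_lit 4) (nat_lit 374) (nat_lit 208) (nat_lit 198)) (XT.lf (nat_lit 0) (nat_lit 187089549727) (nat_lit 76) (nat_lit 70062171620) (nat_lit 76) (nat_lit 69291654483) (nat_lit 1) (nat_lit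 4) (nat_lit 2) (nat_lit 5) (nat_lit 2) (nat_lit 4) (nat_lit 375) (nat_lit 208) (nat_lit 197))))))) (XT.nd (nat_lit 780) (nat_lit 0) (nat_lit 0) (XT.nd (nat_lit 390) (nat_lit 0) (nat_lit 0) (XT.nd (nat_lit 156) (nat_lit 0) (nat_lit 0) (XT.nd (nat_lit 78) (nat_lit 0) (nat_lit 0) (XT.lf (nat_lit 0) (nat_lit 198841375473) (nat_lit 76) (nat_lit 72341230335) (nat_lit 76) (nat_lit 71519060010) (nat_lit 1) (nat_lit 4) (nat_lit 2) (nat_lit 5) (nat_lit 2) (nat_lit 4) (nat_lit 376) (nat_lit 208) (nat_lit 196)) (XT.lf (nat_lit 0) (nat_lit 211119940817) (nat_lit 76) (nat_lit 74762957378) (nat_lit 76) (nat_lit 73891593540) (nat_lit 1) (nat_lit 4) (nat_lit 2) (nat_lit 5) (nat_lit 2) (nat_lit 4) (nat_lit 377) (nat_lit 208) (nat_lit 195))) (XT.nd (nat_lit 78) (nat_lit 0) (nat_lit 0) (XT.lf (nat_lit 0) (nat_lit 223954480439) (nat_lit 76) (nat_lit 77333118765) (nat_lit 76) (nat_lit 76414903964) (nat_lit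 1) (nat_lit 4) (nat_lit 2) (nat_lit 5) (nat_lit 2) (nat_lit 4) (nat_lit 378) (nat_lit 208) (nat_lit 194)) (XT.nd (nat_lit 78) (nat_lit 0) (nat_lit 0) (XT.lf (nat_lit 0) (nat_lit 237375552766) (nat_lit 76) (nat_lit 80057833929) (nat_lit 76) (nat_lit 79094999162) (nat_lit 1) (nat_lit 4) (nat_lit 2) (nat_lit 5) (nat_lit 2) (nat_lit 4) (nat_lit 379) (nat_lit 208) (nat_lit 193)) (XT.lf (nat_lit 0) (nat_lit 251415112732) (nat_lit 76) (nat_lit 82943590286) (nat_lit 76) (nat_lit 81938260314) (nat_lit 1) (nat_lit 4) (nat_lit 2) (nat_lit 5) (nat_lit 2) (nat_lit 4) (nat_lit 380) (nat_lit 208) (nat_lit 192))))) (XT.nd (nat_lit 156) (nat_lit 0) (nat_lit 0) (XT.nd (nat_lit 78) (nat_lit 0) (nat_lit 0) (XT.lf (nat_lit 0) (nat_lit 266106587861) (nat_lit 76) (nat_lit 85997258686) (nat_lit 76) (nat_lit 84951457090) (nat_lit 1) (nat_lit 4) (nat_lit 2) (nat_lit 5) (nat_lit 2) (nat_lit 4) (nat_lit 381) (nat_lit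 208) (nat_lit 191)) (XT.lf (nat_lit 0) (nat_lit 281484957856) (nat_lit 76) (nat_lit 89226109767) (nat_lit 76) (nat_lit 88141763767) (nat_lit 1) (nat_lit 4) (nat_lit 2) (nat_lit 5) (nat_lit 2) (nat_lit 4) (nat_lit 382) (nat_lit 208) (nat_lit 190))) (XT.nd (nat_lit 78) (nat_lit 0) (nat_lit 0) (XT.lf (nat_lit 0) (nat_lit 297586837883) (nat_lit 76) (nat_lit 92637831270) (nat_lit 76) (nat_lit 91516776313) (nat_lit 1) (nat_lit 4) (nat_lit 2) (nat_lit 5) (nat_lit 2) (nat_lit 4) (nat_lit 383) (nat_lit 208) (nat_lit 189)) (XT.nd (nat_lit 78) (nat_lit 0) (nat_lit 0) (XT.lf (nat_lit 0) (nat_lit 314450565752) (nat_lit 76) (nat_lit 96240546341) (nat_lit 76) (nat_lit 95084530474) (nat_lit 1) (nat_lit 4) (nat_lit 2) (nat_lit 5) (nat_lit 2) (nat_lit 4) (nat_lit 384) (nat_lit 208) (nat_lit 188)) (XT.lf (nat_lit 0) (nat_lit 332116293196) (nat_lit 76) (nat_lit 100042832874) (nat_lit 76) (nat_lit 98853520901)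 (nat_lit 1) (nat_lit 4) (nat_lit 2) (nat_lit 5) (nat_lit 2) (nat_lit 4) (nat_lit 385) (nat_lit 208) (nat_lit 187)))))) (XT.nd (nat_lit 390) (nat_lit 0) (nat_lit 0) (XT.nd (nat_lit 156) (nat_lit 0) (nat_lit 0) (XT.nd (nat_lit 78) (nat_lit 0) (nat_lit 0) (XT.lf (nat_lit 0) (nat_lit 350626081470) (nat_lit 76) (nat_lit 104053743931) (nat_lit 76) (nat_lit 102832721382) (nat_lit 1) (nat_lit 4) (nat_lit 2) (nat_lit 5) (nat_lit 2) (nat_lit 4) (nat_lit 386) (nat_lit 208) (nat_lit 186)) (XT.lf (nat_lit 0) (nat_lit 370024001500) (nat_lit 76) (nat_lit 108282829301) (nat_lit 76) (nat_lit 107031606202) (nat_lit 1) (nat_lit 4) (nat_lit 2) (nat_lit 5) (nat_lit 2) (nat_lit 4) (nat_lit 387) (nat_lit 208) (nat_lit 185))) (XT.nd (nat_lit 78) (nat_lit 0) (nat_lit 0) (XT.lf (nat_lit 0) (nat_lit 390356238810) (nat_lit 76) (nat_lit 112740158234) (nat_lit 76) (nat_lit 111460172708) (nat_lit 1) (nat_lit 4) (nat_lit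 2) (nat_lit 5) (nat_lit 2) (nat_lit 4) (nat_lit 388) (nat_lit 208) (nat_lit 184)) (XT.nd (nat_lit 78) (nat_lit 0) (nat_lit 0) (XT.lf (nat_lit 0) (nat_lit 411671203487) (nat_lit 76) (nat_lit 117436343419) (nat_lit 76) (nat_lit 116128965105) (nat_lit 1) (nat_lit 4) (nat_lit 2) (nat_lit 5) (nat_lit 2) (nat_lit 4) (nat_lit 389) (nat_lit 208) (nat_lit 183)) (XT.lf (nat_lit 0) (nat_lit 434019645447) (nat_lit 76) (nat_lit 122382566249) (nat_lit 76) (nat_lit 121049099565) (nat_lit 1) (nat_lit 4) (nat_lit 2) (nat_lit 5) (nat_lit 2) (nat_lit 4) (nat_lit 390) (nat_lit 208) (nat_lit 182))))) (XT.nd (nat_lit 38376) (nat_lit 0) (nat_lit 0) (XT.nd (nat_lit 78) (nat_lit 0) (nat_lit 0) (XT.lf (nat_lit 0) (nat_lit 457454775268) (nat_lit 76) (nat_lit 127590603445) (nat_lit 76) (nat_lit 126232290694) (nat_lit 1) (nat_lit 4) (nat_lit 2) (nat_lit 5) (nat_lit 2) (nat_lit 4) (nat_lit 391) (nat_lit 208) (nat_lit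 181)) (XT.nd (nat_lit 78) (nat_lit 0) (nat_lit 0) (XT.lf (nat_lit 0) (nat_lit 482032390877) (nat_lit 76) (nat_lit 133072855095) (nat_lit 76) (nat_lit 131690879424) (nat_lit 1) (nat_lit 4) (nat_lit 2) (nat_lit 5) (nat_lit 2) (nat_lit 4) (nat_lit 392) (nat_lit 208) (nat_lit 180)) (XT.lf (nat_lit 0) (nat_lit 507811010406) (nat_lit 76) (nat_lit 138842374180) (nat_lit 76) (nat_lit 137437862394) (nat_lit 1) (nat_lit 4) (nat_lit 2) (nat_lit 5) (nat_lit 2) (nat_lit 4) (nat_lit 393) (nat_lit 208) (nat_lit 179)))) (XT.nd (nat_lit 78) (nat_lit 0) (nat_lit 0) (XT.lf (nat_lit 0) (nat_lit 35507917876) (nat_lit 76) (nat_lit 25713877236) (nat_lit 76) (nat_lit 25713877236) (nat_lit 1) (nat_lit 4) (nat_lit 2) (nat_lit 5) (nat_lit 2) (nat_lit 4) (nat_lit 362) (nat_lit 209) (nat_lit 209)) (XT.nd (nat_lit 78) (nat_lit 0) (nat_lit 0) (XT.lf (nat_lit 0) (nat_lit 78036962178) (nat_lit 76) (nat_lit 52264121140)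 (nat_lit 76) (nat_lit 52171359436) (nat_lit 1) (nat_lit 4) (nat_lit 2) (nat_lit 5) (nat_lit 2) (nat_lit 4) (nat_lit 363) (nat_lit 209) (nat_lit 208)) (XT.lf (nat_lit 0) (nat_lit 85299864033) (nat_lit 76) (nat_lit 53193874860) (nat_lit 76) (nat_lit 53012768675) (nat_lit 1) (nat_lit 4) (nat_lit 2) (nat_lit 5) (nat_lit 2) (nat_lit 4) (nat_lit 364) (nat_lit 209) (nat_lit 207))))))))
noncomputable def xc6 : XT := (XT.nd (nat_lit 1560) (nat_lit 0) (nat_lit 0) (XT.nd (nat_lit 780) (nat_lit 0) (nat_lit 0) (XT.nd (nat_lit 390) (nat_lit 0) (nat_lit 0) (XT.nd (nat_lit 156) (nat_lit 0) (nat_lit 0) (XT.nd (nat_lit 78) (nat_lit 0) (nat_lit 0) (XT.lf (nat_lit 0) (nat_lit 92821833942) (nat_lit 76) (nat_lit 54219229331) (nat_lit 76) (nat_lit 53953985547) (nat_lit 1) (nat_lit 4) (nat_lit 2) (nat_lit 5) (nat_lit 2) (nat_lit 4) (nat_lit 365) (nat_lit 209) (nat_lit 206)) (XT.lf (nat_lit 0) (nat_lit 100620781356)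 (nat_lit 76) (nat_lit 55342625873) (nat_lit 76) (nat_lit 54997251042) (nat_lit 1) (nat_lit 4) (nat_lit 2) (nat_lit 5) (nat_lit 2) (nat_lit 4) (nat_lit 366) (nat_lit 209) (nat_lit 205))) (XT.nd (nat_lit 78) (nat_lit 0) (nat_lit 0) (XT.lf (nat_lit 0) (nat_lit 108715275199) (nat_lit 76) (nat_lit 56566739242) (nat_lit 76) (nat_lit 56145049127) (nat_lit 1) (nat_lit 4) (nat_lit 2) (nat_lit 5) (nat_lit 2) (nat_lit 4) (nat_lit 367) (nat_lit 209) (nat_lit 204)) (XT.nd (nat_lit 78) (nat_lit 0) (nat_lit 0) (XT.lf (nat_lit 0) (nat_lit 117124588074) (nat_lit 76) (nat_lit 57894483991) (nat_lit 76) (nat_lit 57400112653) (nat_lit 1) (nat_lit 4) (nat_lit 2) (nat_lit 5) (nat_lit 2) (nat_lit 4) (nat_lit 368) (nat_lit 209) (nat_lit 203)) (XT.lf (nat_lit 0) (nat_lit 125868742156) (nat_lit 76) (nat_lit 59329021418) (nat_lit 76) (nat_lit 58765429869) (nat_lit 1) (nat_lit 4) (nat_lit 2) (nat_lit 5) (nat_lit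 2) (nat_lit 4) (nat_lit 369) (nat_lit 209) (nat_lit 202))))) (XT.nd (nat_lit 156) (nat_lit 0) (nat_lit 0) (XT.nd (nat_lit 78) (nat_lit 0) (nat_lit 0) (XT.lf (nat_lit 0) (nat_lit 134968556858) (nat_lit 76) (nat_lit 60873767089) (nat_lit 76) (nat_lit 60244251529) (nat_lit 1) (nat_lit 4) (nat_lit 2) (nat_lit 5) (nat_lit 2) (nat_lit 4) (nat_lit 370) (nat_lit 209) (nat_lit 201)) (XT.lf (nat_lit 0) (nat_lit 144445698407) (nat_lit 76) (nat_lit 62532398969) (nat_lit 76) (nat_lit 61840098636) (nat_lit 1) (nat_lit 4) (nat_lit 2) (nat_lit 5) (nat_lit 2) (nat_lit 4) (nat_lit 371) (nat_lit 209) (nat_lit 200))) (XT.nd (nat_lit 78) (nat_lit 0) (nat_lit 0) (XT.lf (nat_lit 0) (nat_lit 154322731424) (nat_lit 76) (nat_lit 64308866182) (nat_lit 76) (nat_lit 63556770827) (nat_lit 1) (nat_lit 4) (nat_lit 2) (nat_lit 5) (nat_lit 2) (nat_lit 4) (nat_lit 372) (nat_lit 209) (nat_lit 199)) (XT.nd (nat_lit 78)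 (nat_lit 0) (nat_lit 0) (XT.lf (nat_lit 0) (nat_lit 164623172655) (nat_lit 76) (nat_lit 66207398411) (nat_lit 76) (nat_lit 65398355417) (nat_lit 1) (nat_lit 4) (nat_lit 2) (nat_lit 5) (nat_lit 2) (nat_lit 4) (nat_lit 373) (nat_lit 209) (nat_lit 198)) (XT.lf (nat_lit 0) (nat_lit 175371546961) (nat_lit 76) (nat_lit 68232515972) (nat_lit 76) (nat_lit 67369237130) (nat_lit 1) (nat_lit 4) (nat_lit 2) (nat_lit 5) (nat_lit 2) (nat_lit 4) (nat_lit 374) (nat_lit 209) (nat_lit 197)))))) (XT.nd (nat_lit 390) (nat_lit 0) (nat_lit 0) (XT.nd (nat_lit 156) (nat_lit 0) (nat_lit 0) (XT.nd (nat_lit 78) (nat_lit 0) (nat_lit 0) (XT.lf (nat_lit 0) (nat_lit 186593445708) (nat_lit 76) (nat_lit 70389040572) (nat_lit 76) (nat_lit 69474108543) (nat_lit 1) (nat_lit 4) (nat_lit 2) (nat_lit 5) (nat_lit 2) (nat_lit 4) (nat_lit 375) (nat_lit 209) (nat_lit 196)) (XT.lf (nat_lit 0) (nat_lit 198315587703) (nat_lit 76)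 (nat_lit 72682106795) (nat_lit 76) (nat_lit 71717981254) (nat_lit 1) (nat_lit 4) (nat_lit 2) (nat_lit 5) (nat_lit 2) (nat_lit 4) (nat_lit 376) (nat_lit 209) (nat_lit 195))) (XT.nd (nat_lit 78) (nat_lit 0) (nat_lit 0) (XT.lf (nat_lit 0) (nat_lit 210565882809) (nat_lit 76) (nat_lit 75117174322) (nat_lit 76) (nat_lit 74106197817) (nat_lit 1) (nat_lit 4) (nat_lit 2) (nat_lit 5) (nat_lit 2) (nat_lit 4) (nat_lit 377) (nat_lit 209) (nat_lit 194)) (XT.nd (nat_lit 78) (nat_lit 0) (nat_lit 0) (XT.lf (nat_lit 0) (nat_lit 223373498393) (nat_lit 76) (nat_lit 77700040933) (nat_lit 76) (nat_lit 76644444462) (nat_lit 1) (nat_lit 4) (nat_lit 2) (nat_lit 5) (nat_lit 2) (nat_lit 4) (nat_lit 378) (nat_lit 209) (nat_lit 193)) (XT.lf (nat_lit 0) (nat_lit 236768928780) (nat_lit 76) (nat_lit 80436856309) (nat_lit 76) (nat_lit 79338764633) (nat_lit 1) (nat_lit 4) (nat_lit 2) (nat_lit 5) (nat_lit 2) (nat_lit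 4) (nat_lit 379) (nat_lit 209) (nat_lit 192))))) (XT.nd (nat_lit 156) (nat_lit 0) (nat_lit 0) (XT.nd (nat_lit 78) (nat_lit 0) (nat_lit 0) (XT.lf (nat_lit 0) (nat_lit 250784067851) (nat_lit 76) (nat_lit 83334136678) (nat_lit 76) (nat_lit 82195573378) (nat_lit 1) (nat_lit 4) (nat_lit 2) (nat_lit 5) (nat_lit 2) (nat_lit 4) (nat_lit 380) (nat_lit 209) (nat_lit 191)) (XT.lf (nat_lit 0) (nat_lit 265452284985) (nat_lit 76) (nat_lit 86398780328) (nat_lit 76) (nat_lit 85221672623) (nat_lit 1) (nat_lit 4) (nat_lit 2) (nat_lit 5) (nat_lit 2) (nat_lit 4) (nat_lit 381) (nat_lit 209) (nat_lit 190))) (XT.nd (nat_lit 78) (nat_lit 0) (nat_lit 0) (XT.lf (nat_lit 0) (nat_lit 280808504507) (nat_lit 76) (nat_lit 89638084027) (nat_lit 76) (nat_lit 88424267366) (nat_lit 1) (nat_lit 4) (nat_lit 2) (nat_lit 5) (nat_lit 2) (nat_lit 4) (nat_lit 382) (nat_lit 209) (nat_lit 189)) (XT.nd (nat_lit 78) (nat_lit 0)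 (nat_lit 0) (XT.lf (nat_lit 0) (nat_lit 296889288847) (nat_lit 76) (nat_lit 93059760405) (nat_lit 76) (nat_lit 91810982833) (nat_lit 1) (nat_lit 4) (nat_lit 2) (nat_lit 5) (nat_lit 2) (nat_lit 4) (nat_lit 383) (nat_lit 209) (nat_lit 188)) (XT.lf (nat_lit 0) (nat_lit 313732925585) (nat_lit 76) (nat_lit 96671956309) (nat_lit 76) (nat_lit 95389882632) (nat_lit 1) (nat_lit 4) (nat_lit 2) (nat_lit 5) (nat_lit 2) (nat_lit 4) (nat_lit 384) (nat_lit 209) (nat_lit 187))))))) (XT.nd (nat_lit 38766) (nat_lit 0) (nat_lit 0) (XT.nd (nat_lit 390) (nat_lit 0) (nat_lit 0) (XT.nd (nat_lit 156) (nat_lit 0) (nat_lit 0) (XT.nd (nat_lit 78) (nat_lit 0) (nat_lit 0) (XT.lf (nat_lit 0) (nat_lit 331379518619) (nat_lit 76) (nat_lit 100483272206) (nat_lit 76) (nat_lit 99169487953) (nat_lit 1) (nat_lit 4) (nat_lit 2) (nat_lit 5) (nat_lit 2) (nat_lit 4) (nat_lit 385) (nat_lit 209) (nat_lit 186)) (XT.lf (nat_lit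 0) (nat_lit 349871083645) (nat_lit 76) (nat_lit 104502782659) (nat_lit 76) (nat_lit 103158797856) (nat_lit 1) (nat_lit 4) (nat_lit 2) (nat_lit 5) (nat_lit 2) (nat_lit 4) (nat_lit 386) (nat_lit 209) (nat_lit 185))) (XT.nd (nat_lit 78) (nat_lit 0) (nat_lit 0) (XT.lf (nat_lit 0) (nat_lit 369251648201) (nat_lit 76) (nat_lit 108740057928) (nat_lit 76) (nat_lit 107367310698) (nat_lit 1) (nat_lit 4) (nat_lit 2) (nat_lit 5) (nat_lit 2) (nat_lit 4) (nat_lit 387) (nat_lit 209) (nat_lit 184)) (XT.nd (nat_lit 78) (nat_lit 0) (nat_lit 0) (XT.lf (nat_lit 0) (nat_lit 389567356487) (nat_lit 76) (nat_lit 113205186767) (nat_lit 76) (nat_lit 111805046748) (nat_lit 1) (nat_lit 4) (nat_lit 2) (nat_lit 5) (nat_lit 2) (nat_lit 4) (nat_lit 388) (nat_lit 209) (nat_lit 183)) (XT.lf (nat_lit 0) (nat_lit 410866579237) (nat_lit 76) (nat_lit 117908800432) (nat_lit 76) (nat_lit 116482572044) (nat_lit 1) (nat_lit 4)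 (nat_lit 2) (nat_lit 5) (nat_lit 2) (nat_lit 4) (nat_lit 389) (nat_lit 209) (nat_lit 182))))) (XT.nd (nat_lit 156) (nat_lit 0) (nat_lit 0) (XT.nd (nat_lit 78) (nat_lit 0) (nat_lit 0) (XT.lf (nat_lit 0) (nat_lit 433200028887) (nat_lit 76) (nat_lit 122862098006) (nat_lit 76) (nat_lit 121411023551) (nat_lit 1) (nat_lit 4) (nat_lit 2) (nat_lit 5) (nat_lit 2) (nat_lit 4) (nat_lit 390) (nat_lit 209) (nat_lit 181)) (XT.lf (nat_lit 0) (nat_lit 456620880316) (nat_lit 76) (nat_lit 128076873053) (nat_lit 76) (nat_lit 126602135678) (nat_lit 1) (nat_lit 4) (nat_lit 2) (nat_lit 5) (nat_lit 2) (nat_lit 4) (nat_lit 391) (nat_lit 209) (nat_lit 180))) (XT.nd (nat_lit 78) (nat_lit 0) (nat_lit 0) (XT.lf (nat_lit 0) (nat_lit 481184897456) (nat_lit 76) (nat_lit 133565541704) (nat_lit 76) (nat_lit 132068268214) (nat_lit 1) (nat_lit 4) (nat_lit 2) (nat_lit 5) (nat_lit 2) (nat_lit 4) (nat_lit 392) (nat_lit 209)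 (nat_lit 179)) (XT.nd (nat_lit 38064) (nat_lit 0) (nat_lit 0) (XT.lf (nat_lit 0) (nat_lit 506950566064) (nat_lit 76) (nat_lit 139341172218) (nat_lit 76) (nat_lit 137822435762) (nat_lit 1) (nat_lit 4) (nat_lit 2) (nat_lit 5) (nat_lit 2) (nat_lit 4) (nat_lit 393) (nat_lit 209) (nat_lit 178)) (XT.lf (nat_lit 0) (nat_lit 28845674486) (nat_lit 76) (nat_lit 25048550193) (nat_lit 76) (nat_lit 25048550193) (nat_lit 1) (nat_lit 4) (nat_lit 2) (nat_lit 5) (nat_lit 2) (nat_lit 4) (nat_lit 360) (nat_lit 210) (nat_lit 210)))))) (XT.nd (nat_lit 390) (nat_lit 0) (nat_lit 0) (XT.nd (nat_lit 156) (nat_lit 0) (nat_lit 0) (XT.nd (nat_lit 78) (nat_lit 0) (nat_lit 0) (XT.lf (nat_lit 0) (nat_lit 64219767791) (nat_lit 76) (nat_lit 50780183298) (nat_lit 76) (nat_lit 50682783508) (nat_lit 1) (nat_lit 4) (nat_lit 2) (nat_lit 5) (nat_lit 2) (nat_lit 4) (nat_lit 361) (nat_lit 210) (nat_lit 209)) (XT.lf (nat_lit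 0) (nat_lit 70959862614) (nat_lit 76) (nat_lit 51551567508) (nat_lit 76) (nat_lit 51361406015) (nat_lit 1) (nat_lit 4) (nat_lit 2) (nat_lit 5) (nat_lit 2) (nat_lit 4) (nat_lit 362) (nat_lit 210) (nat_lit 208))) (XT.nd (nat_lit 78) (nat_lit 0) (nat_lit 0) (XT.lf (nat_lit 0) (nat_lit 77927681287) (nat_lit 76) (nat_lit 52413089648) (nat_lit 76) (nat_lit 52134583675) (nat_lit 1) (nat_lit 4) (nat_lit 2) (nat_lit 5) (nat_lit 2) (nat_lit 4) (nat_lit 363) (nat_lit 210) (nat_lit 207)) (XT.nd (nat_lit 78) (nat_lit 0) (nat_lit 0) (XT.lf (nat_lit 0) (nat_lit 85139813854) (nat_lit 76) (nat_lit 53366800961) (nat_lit 76) (nat_lit 53004157387) (nat_lit 1) (nat_lit 4) (nat_lit 2) (nat_lit 5) (nat_lit 2) (nat_lit 4) (nat_lit 364) (nat_lit 210) (nat_lit 206)) (XT.lf (nat_lit 0) (nat_lit 92613432061) (nat_lit 76) (nat_lit 54414972187) (nat_lit 76) (nat_lit 53972197566) (nat_lit 1) (nat_lit 4) (nat_lit 2)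 (nat_lit 5) (nat_lit 2) (nat_lit 4) (nat_lit 365) (nat_lit 210) (nat_lit 205))))) (XT.nd (nat_lit 234) (nat_lit 0) (nat_lit 0) (XT.nd (nat_lit 78) (nat_lit 0) (nat_lit 0) (XT.lf (nat_lit 0) (nat_lit 100366330235) (nat_lit 76) (nat_lit 55560098973) (nat_lit 76) (nat_lit 55041009068) (nat_lit 1) (nat_lit 4) (nat_lit 2) (nat_lit 5) (nat_lit 2) (nat_lit 4) (nat_lit 366) (nat_lit 210) (nat_lit 204)) (XT.nd (nat_lit 78) (nat_lit 0) (nat_lit 0) (XT.lf (nat_lit 0) (nat_lit 108416967659) (nat_lit 76) (nat_lit 56804907811) (nat_lit 76) (nat_lit 56213136684) (nat_lit 1) (nat_lit 4) (nat_lit 2) (nat_lit 5) (nat_lit 2) (nat_lit 4) (nat_lit 367) (nat_lit 210) (nat_lit 203)) (XT.lf (nat_lit 0) (nat_lit 116784512516) (nat_lit 76) (nat_lit 58152362531) (nat_lit 76) (nat_lit 57491371192) (nat_lit 1) (nat_lit 4) (nat_lit 2) (nat_lit 5) (nat_lit 2) (nat_lit 4) (nat_lit 368) (nat_lit 210) (nat_lit 202))))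 (XT.nd (nat_lit 78) (nat_lit 0) (nat_lit 0) (XT.lf (nat_lit 0) (nat_lit 125488887532) (nat_lit 76) (nat_lit 59605671359) (nat_lit 76) (nat_lit 58878756009) (nat_lit 1) (nat_lit 4) (nat_lit 2) (nat_lit 5) (nat_lit 2) (nat_lit 4) (nat_lit 369) (nat_lit 210) (nat_lit 201)) (XT.nd (nat_lit 78) (nat_lit 0) (nat_lit 0) (XT.lf (nat_lit 0) (nat_lit 134550817411) (nat_lit 76) (nat_lit 61168294555) (nat_lit 76) (nat_lit 60378594432) (nat_lit 1) (nat_lit 4) (nat_lit 2) (nat_lit 5) (nat_lit 2) (nat_lit 4) (nat_lit 370) (nat_lit 210) (nat_lit 200)) (XT.lf (nat_lit 0) (nat_lit 143991878175) (nat_lit 76) (nat_lit 62843952649) (nat_lit 76) (nat_lit 61994457505) (nat_lit 1) (nat_lit 4) (nat_lit 2) (nat_lit 5) (nat_lit 2) (nat_lit 4) (nat_lit 371) (nat_lit 210) (nat_lit 199))))))))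
noncomputable def xc7 : XT := (XT.nd (nat_lit 1560) (nat_lit 0) (nat_lit 0) (XT.nd (nat_lit 780) (nat_lit 0) (nat_lit 0) (XT.nd (nat_lit 390) (nat_lit 0) (nat_lit 0) (XT.nd (nat_lit 156) (nat_lit 0) (nat_lit 0) (XT.nd (nat_lit 78) (nat_lit 0) (nat_lit 0) (XT.lf (nat_lit 0) (nat_lit 153834548540) (nat_lit 76) (nat_lit 64636635303) (nat_lit 76) (nat_lit 63730192520) (nat_lit 1) (nat_lit 4) (nat_lit 2) (nat_lit 5) (nat_lit 2) (nat_lit 4) (nat_lit 372) (nat_lit 210) (nat_lit 198)) (XT.lf (nat_lit 0) (nat_lit 164102263436) (nat_lit 76) (nat_lit 66550610811) (nat_lit 76) (nat_lit 65589932180) (nat_lit 1) (nat_lit 4) (nat_lit 2) (nat_lit 5) (nat_lit 2) (nat_lit 4) (nat_lit 373) (nat_lit 210) (nat_lit 197))) (XT.nd (nat_lit 78) (nat_lit 0) (nat_lit 0) (XT.lf (nat_lit 0) (nat_lit 174819469803) (nat_lit 76) (nat_lit 68590436255) (nat_lit 76) (nat_lit 67578104437) (nat_lit 1) (nat_lit 4) (nat_lit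 2) (nat_lit 5) (nat_lit 2) (nat_lit 4) (nat_lit 374) (nat_lit 210) (nat_lit 196)) (XT.nd (nat_lit 78) (nat_lit 0) (nat_lit 0) (XT.lf (nat_lit 0) (nat_lit 186011684799) (nat_lit 76) (nat_lit 70760968364) (nat_lit 76) (nat_lit 69699443034) (nat_lit 1) (nat_lit 4) (nat_lit 2) (nat_lit 5) (nat_lit 2) (nat_lit 4) (nat_lit 375) (nat_lit 210) (nat_lit 195)) (XT.lf (nat_lit 0) (nat_lit 197705556556) (nat_lit 76) (nat_lit 73067375072) (nat_lit 76) (nat_lit 71958998777) (nat_lit 1) (nat_lit 4) (nat_lit 2) (nat_lit 5) (nat_lit 2) (nat_lit 4) (nat_lit 376) (nat_lit 210) (nat_lit 194))))) (XT.nd (nat_lit 156) (nat_lit 0) (nat_lit 0) (XT.nd (nat_lit 78) (nat_lit 0) (nat_lit 0) (XT.lf (nat_lit 0) (nat_lit 209928927624) (nat_lit 76) (nat_lit 75515147821) (nat_lit 76) (nat_lit 74362151561) (nat_lit 1) (nat_lit 4) (nat_lit 2) (nat_lit 5) (nat_lit 2) (nat_lit 4) (nat_lit 377) (nat_lit 210) (nat_lit 193))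 (XT.lf (nat_lit 0) (nat_lit 222710901269) (nat_lit 76) (nat_lit 78110114644) (nat_lit 76) (nat_lit 76914623179) (nat_lit 1) (nat_lit 4) (nat_lit 2) (nat_lit 5) (nat_lit 2) (nat_lit 4) (nat_lit 378) (nat_lit 210) (nat_lit 192))) (XT.nd (nat_lit 78) (nat_lit 0) (nat_lit 0) (XT.lf (nat_lit 0) (nat_lit 236081910760) (nat_lit 76) (nat_lit 80858454032) (nat_lit 76) (nat_lit 79622490943) (nat_lit 1) (nat_lit 4) (nat_lit 2) (nat_lit 5) (nat_lit 2) (nat_lit 4) (nat_lit 379) (nat_lit 210) (nat_lit 191)) (XT.nd (nat_lit 78) (nat_lit 0) (nat_lit 0) (XT.lf (nat_lit 0) (nat_lit 250073791836) (nat_lit 76) (nat_lit 83766709651) (nat_lit 76) (nat_lit 82492202158) (nat_lit 1) (nat_lit 4) (nat_lit 2) (nat_lit 5) (nat_lit 2) (nat_lit 4) (nat_lit 380) (nat_lit 210) (nat_lit 190)) (XT.lf (nat_lit 0) (nat_lit 264719858497) (nat_lit 76) (nat_lit 86841805919) (nat_lit 76) (nat_lit 85530589469) (nat_lit 1) (nat_lit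 4) (nat_lit 2) (nat_lit 5) (nat_lit 2) (nat_lit 4) (nat_lit 381) (nat_lit 210) (nat_lit 189)))))) (XT.nd (nat_lit 390) (nat_lit 0) (nat_lit 0) (XT.nd (nat_lit 156) (nat_lit 0) (nat_lit 0) (XT.nd (nat_lit 78) (nat_lit 0) (nat_lit 0) (XT.lf (nat_lit 0) (nat_lit 280054982333) (nat_lit 76) (nat_lit 90091064493) (nat_lit 76) (nat_lit 88744887132) (nat_lit 1) (nat_lit 4) (nat_lit 2) (nat_lit 5) (nat_lit 2) (nat_lit 4) (nat_lit 382) (nat_lit 210) (nat_lit 188)) (XT.lf (nat_lit 0) (nat_lit 296115675541) (nat_lit 76) (nat_lit 93522221704) (nat_lit 76) (nat_lit 92142748238) (nat_lit 1) (nat_lit 4) (nat_lit 2) (nat_lit 5) (nat_lit 2) (nat_lit 4) (nat_lit 383) (nat_lit 210) (nat_lit 187))) (XT.nd (nat_lit 78) (nat_lit 0) (nat_lit 0) (XT.lf (nat_lit 0) (nat_lit 312940177869) (nat_lit 76) (nat_lit 97143446973) (nat_lit 76) (nat_lit 95732262930) (nat_lit 1) (nat_lit 4) (nat_lit 2) (nat_lit 5) (nat_lit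 2) (nat_lit 4) (nat_lit 384) (nat_lit 210) (nat_lit 186)) (XT.nd (nat_lit 78) (nat_lit 0) (nat_lit 0) (XT.lf (nat_lit 0) (nat_lit 330568547654) (nat_lit 76) (nat_lit 100963362265) (nat_lit 76) (nat_lit 99521977674) (nat_lit 1) (nat_lit 4) (nat_lit 2) (nat_lit 5) (nat_lit 2) (nat_lit 4) (nat_lit 385) (nat_lit 210) (nat_lit 185)) (XT.lf (nat_lit 0) (nat_lit 349042757207) (nat_lit 76) (nat_lit 104991062618) (nat_lit 76) (nat_lit 103520915598) (nat_lit 1) (nat_lit 4) (nat_lit 2) (nat_lit 5) (nat_lit 2) (nat_lit 4) (nat_lit 386) (nat_lit 210) (nat_lit 184))))) (XT.nd (nat_lit 156) (nat_lit 0) (nat_lit 0) (XT.nd (nat_lit 78) (nat_lit 0) (nat_lit 0) (XT.lf (nat_lit 0) (nat_lit 368406792739) (nat_lit 76) (nat_lit 109236137792) (nat_lit 76) (nat_lit 107738597985) (nat_lit 1) (nat_lit 4) (nat_lit 2) (nat_lit 5) (nat_lit 2) (nat_lit 4) (nat_lit 387) (nat_lit 210) (nat_lit 183)) (XT.lf (nat_lit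 0) (nat_lit 388706759098) (nat_lit 76) (nat_lit 113708695111) (nat_lit 76) (nat_lit 112185066934) (nat_lit 1) (nat_lit 4) (nat_lit 2) (nat_lit 5) (nat_lit 2) (nat_lit 4) (nat_lit 388) (nat_lit 210) (nat_lit 182))) (XT.nd (nat_lit 78) (nat_lit 0) (nat_lit 0) (XT.lf (nat_lit 0) (nat_lit 409990989537) (nat_lit 76) (nat_lit 118419383521) (nat_lit 76) (nat_lit 116870909277) (nat_lit 1) (nat_lit 4) (nat_lit 2) (nat_lit 5) (nat_lit 2) (nat_lit 4) (nat_lit 389) (nat_lit 210) (nat_lit 181)) (XT.nd (nat_lit 78) (nat_lit 0) (nat_lit 0) (XT.lf (nat_lit 0) (nat_lit 432310160795) (nat_lit 76) (nat_lit 123379418945) (nat_lit 76) (nat_lit 121807281781) (nat_lit 1) (nat_lit 4) (nat_lit 2) (nat_lit 5) (nat_lit 2) (nat_lit 4) (nat_lit 390) (nat_lit 210) (nat_lit 180)) (XT.lf (nat_lit 0) (nat_lit 455717413756) (nat_lit 76) (nat_lit 128600610993) (nat_lit 76) (nat_lit 127005937714) (nat_lit 1) (nat_lit 4)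 (nat_lit 2) (nat_lit 5) (nat_lit 2) (nat_lit 4) (nat_lit 391) (nat_lit 210) (nat_lit 179))))))) (XT.nd (nat_lit 38610) (nat_lit 0) (nat_lit 0) (XT.nd (nat_lit 38220) (nat_lit 0) (nat_lit 0) (XT.nd (nat_lit 37986) (nat_lit 0) (nat_lit 0) (XT.nd (nat_lit 78) (nat_lit 0) (nat_lit 0) (XT.lf (nat_lit 0) (nat_lit 480268479974) (nat_lit 76) (nat_lit 134095391074) (nat_lit 76) (nat_lit 132479254828) (nat_lit 1) (nat_lit 4) (nat_lit 2) (nat_lit 5) (nat_lit 2) (nat_lit 4) (nat_lit 392) (nat_lit 210) (nat_lit 178)) (XT.lf (nat_lit 0) (nat_lit 506021814370) (nat_lit 76) (nat_lit 139876841997) (nat_lit 76) (nat_lit 138240264831) (nat_lit 1) (nat_lit 4) (nat_lit 2) (nat_lit 5) (nat_lit 2) (nat_lit 4) (nat_lit 393) (nat_lit 210) (nat_lit 177))) (XT.nd (nat_lit 78) (nat_lit 0) (nat_lit 0) (XT.lf (nat_lit 0) (nat_lit 22634770651) (nat_lit 76) (nat_lit 24531344230) (nat_lit 76) (nat_lit 24531344230) (nat_lit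 1) (nat_lit 4) (nat_lit 2) (nat_lit 5) (nat_lit 2) (nat_lit 4) (nat_lit 358) (nat_lit 211) (nat_lit 211)) (XT.nd (nat_lit 78) (nat_lit 0) (nat_lit 0) (XT.lf (nat_lit 0) (nat_lit 51359062306) (nat_lit 76) (nat_lit 49602962168) (nat_lit 76) (nat_lit 49500692389) (nat_lit 1) (nat_lit 4) (nat_lit 2) (nat_lit 5) (nat_lit 2) (nat_lit 4) (nat_lit 359) (nat_lit 211) (nat_lit 210)) (XT.lf (nat_lit 0) (nat_lit 57632577177) (nat_lit 76) (nat_lit 50227104075) (nat_lit 76) (nat_lit 50027434507) (nat_lit 1) (nat_lit 4) (nat_lit 2) (nat_lit 5) (nat_lit 2) (nat_lit 4) (nat_lit 360) (nat_lit 211) (nat_lit 209))))) (XT.nd (nat_lit 156) (nat_lit 0) (nat_lit 0) (XT.nd (nat_lit 78) (nat_lit 0) (nat_lit 0) (XT.lf (nat_lit 0) (nat_lit 64105022855) (nat_lit 76) (nat_lit 50936600231) (nat_lit 76) (nat_lit 50644168959) (nat_lit 1) (nat_lit 4) (nat_lit 2) (nat_lit 5) (nat_lit 2) (nat_lit 4) (nat_lit 361) (nat_lit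 211) (nat_lit 208)) (XT.lf (nat_lit 0) (nat_lit 70791809926) (nat_lit 76) (nat_lit 51733139914) (nat_lit 76) (nat_lit 51352364162) (nat_lit 1) (nat_lit 4) (nat_lit 2) (nat_lit 5) (nat_lit 2) (nat_lit 4) (nat_lit 362) (nat_lit 211) (nat_lit 207))) (XT.nd (nat_lit 78) (nat_lit 0) (nat_lit 0) (XT.lf (nat_lit 0) (nat_lit 77708859312) (nat_lit 76) (nat_lit 52618619647) (nat_lit 76) (nat_lit 52153706295) (nat_lit 1) (nat_lit 4) (nat_lit 2) (nat_lit 5) (nat_lit 2) (nat_lit 4) (nat_lit 363) (nat_lit 211) (nat_lit 206)) (XT.nd (nat_lit 78) (nat_lit 0) (nat_lit 0) (XT.lf (nat_lit 0) (nat_lit 84872640178) (nat_lit 76) (nat_lit 53595147715) (nat_lit 76) (nat_lit 53050103315) (nat_lit 1) (nat_lit 4) (nat_lit 2) (nat_lit 5) (nat_lit 2) (nat_lit 4) (nat_lit 364) (nat_lit 211) (nat_lit 205)) (XT.lf (nat_lit 0) (nat_lit 92300209144) (nat_lit 76) (nat_lit 54665049184) (nat_lit 76) (nat_lit 54043689501)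 (nat_lit 1) (nat_lit 4) (nat_lit 2) (nat_lit 5) (nat_lit 2) (nat_lit 4) (nat_lit 365) (nat_lit 211) (nat_lit 204)))))) (XT.nd (nat_lit 390) (nat_lit 0) (nat_lit 0) (XT.nd (nat_lit 156) (nat_lit 0) (nat_lit 0) (XT.nd (nat_lit 78) (nat_lit 0) (nat_lit 0) (XT.lf (nat_lit 0) (nat_lit 100009250899) (nat_lit 76) (nat_lit 55830871440) (nat_lit 76) (nat_lit 55136830534) (nat_lit 1) (nat_lit 4) (nat_lit 2) (nat_lit 5) (nat_lit 2) (nat_lit 4) (nat_lit 366) (nat_lit 211) (nat_lit 203)) (XT.lf (nat_lit 0) (nat_lit 108018120304) (nat_lit 76) (nat_lit 57095390249) (nat_lit 76) (nat_lit 56332129131) (nat_lit 1) (nat_lit 4) (nat_lit 2) (nat_lit 5) (nat_lit 2) (nat_lit 4) (nat_lit 367) (nat_lit 211) (nat_lit 202))) (XT.nd (nat_lit 78) (nat_lit 0) (nat_lit 0) (XT.lf (nat_lit 0) (nat_lit 116345886096) (nat_lit 76) (nat_lit 58461616370) (nat_lit 76) (nat_lit 57632431241) (nat_lit 1) (nat_lit 4) (nat_lit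 2) (nat_lit 5) (nat_lit 2) (nat_lit 4) (nat_lit 368) (nat_lit 211) (nat_lit 201)) (XT.nd (nat_lit 78) (nat_lit 0) (nat_lit 0) (XT.lf (nat_lit 0) (nat_lit 125012376289) (nat_lit 76) (nat_lit 59932802723) (nat_lit 76) (nat_lit 59040832822) (nat_lit 1) (nat_lit 4) (nat_lit 2) (nat_lit 5) (nat_lit 2) (nat_lit 4) (nat_lit 369) (nat_lit 211) (nat_lit 200)) (XT.lf (nat_lit 0) (nat_lit 134038225382) (nat_lit 76) (nat_lit 61512452132) (nat_lit 76) (nat_lit 60560687210) (nat_lit 1) (nat_lit 4) (nat_lit 2) (nat_lit 5) (nat_lit 2) (nat_lit 4) (nat_lit 370) (nat_lit 211) (nat_lit 199))))) (XT.nd (nat_lit 234) (nat_lit 0) (nat_lit 0) (XT.nd (nat_lit 78) (nat_lit 0) (nat_lit 0) (XT.lf (nat_lit 0) (nat_lit 143444923494) (nat_lit 76) (nat_lit 63204325668) (nat_lit 76) (nat_lit 62195613106) (nat_lit 1) (nat_lit 4) (nat_lit 2) (nat_lit 5) (nat_lit 2) (nat_lit 4) (nat_lit 371) (nat_lit 211) (nat_lit 198))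 (XT.nd (nat_lit 78) (nat_lit 0) (nat_lit 0) (XT.lf (nat_lit 0) (nat_lit 153254867524) (nat_lit 76) (nat_lit 65012451601) (nat_lit 76) (nat_lit 63949503192) (nat_lit 1) (nat_lit 4) (nat_lit 2) (nat_lit 5) (nat_lit 2) (nat_lit 4) (nat_lit 372) (nat_lit 211) (nat_lit 197)) (XT.lf (nat_lit 0) (nat_lit 163491414482) (nat_lit 76) (nat_lit 66941134992) (nat_lit 76) (nat_lit 65826533395) (nat_lit 1) (nat_lit 4) (nat_lit 2) (nat_lit 5) (nat_lit 2) (nat_lit 4) (nat_lit 373) (nat_lit 211) (nat_lit 196)))) (XT.nd (nat_lit 78) (nat_lit 0) (nat_lit 0) (XT.lf (nat_lit 0) (nat_lit 174178937098) (nat_lit 76) (nat_lit 68994967945) (nat_lit 76) (nat_lit 67831172836) (nat_lit 1) (nat_lit 4) (nat_lit 2) (nat_lit 5) (nat_lit 2) (nat_lit 4) (nat_lit 374) (nat_lit 211) (nat_lit 195)) (XT.nd (nat_lit 78) (nat_lit 0) (nat_lit 0) (XT.lf (nat_lit 0) (nat_lit 185342881855) (nat_lit 76) (nat_lit 71178840538) (nat_lit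 76) (nat_lit 69968194465) (nat_lit 1) (nat_lit 4) (nat_lit 2) (nat_lit 5) (nat_lit 2) (nat_lit 4) (nat_lit 375) (nat_lit 211) (nat_lit 194)) (XT.lf (nat_lit 0) (nat_lit 197009829575) (nat_lit 76) (nat_lit 73497952469) (nat_lit 76) (nat_lit 72242686430) (nat_lit 1) (nat_lit 4) (nat_lit 2) (nat_lit 5) (nat_lit 2) (nat_lit 4) (nat_lit 376) (nat_lit 211) (nat_lit 193))))))))
noncomputable def xc8 : XT := (XT.nd (nat_lit 39234) (nat_lit 0) (nat_lit 0) (XT.nd (nat_lit 780) (nat_lit 0) (nat_lit 0) (XT.nd (nat_lit 390) (nat_lit 0) (nat_lit 0) (XT.nd (nat_lit 156) (nat_lit 0) (nat_lit 0) (XT.nd (nat_lit 78) (nat_lit 0) (nat_lit 0) (XT.lf (nat_lit 0) (nat_lit 209207558703) (nat_lit 76) (nat_lit 75957825431) (nat_lit 76) (nat_lit 74660064187) (nat_lit 1) (nat_lit 4) (nat_lit 2) (nat_lit 5) (nat_lit 2) (nat_lit 4) (nat_lit 377) (nat_lit 211) (nat_lit 192)) (XT.lf (nat_lit 0) (nat_lit 221965111452)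 (nat_lit 76) (nat_lit 78564316266) (nat_lit 76) (nat_lit 77226083397) (nat_lit 1) (nat_lit 4) (nat_lit 2) (nat_lit 5) (nat_lit 2) (nat_lit 4) (nat_lit 378) (nat_lit 211) (nat_lit 191))) (XT.nd (nat_lit 78) (nat_lit 0) (nat_lit 0) (XT.lf (nat_lit 0) (nat_lit 235312862948) (nat_lit 76) (nat_lit 81323630903) (nat_lit 76) (nat_lit 79946853631) (nat_lit 1) (nat_lit 4) (nat_lit 2) (nat_lit 5) (nat_lit 2) (nat_lit 4) (nat_lit 379) (nat_lit 211) (nat_lit 190)) (XT.nd (nat_lit 78) (nat_lit 0) (nat_lit 0) (XT.lf (nat_lit 0) (nat_lit 249282593552) (nat_lit 76) (nat_lit 84242339141) (nat_lit 76) (nat_lit 82828852912) (nat_lit 1) (nat_lit 4) (nat_lit 2) (nat_lit 5) (nat_lit 2) (nat_lit 4) (nat_lit 380) (nat_lit 211) (nat_lit 189)) (XT.lf (nat_lit 0) (nat_lit 263907564526) (nat_lit 76) (nat_lit 87327390283) (nat_lit 76) (nat_lit 85878943144) (nat_lit 1) (nat_lit 4) (nat_lit 2) (nat_lit 5) (nat_lit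 2) (nat_lit 4) (nat_lit 381) (nat_lit 211) (nat_lit 188))))) (XT.nd (nat_lit 156) (nat_lit 0) (nat_lit 0) (XT.nd (nat_lit 78) (nat_lit 0) (nat_lit 0) (XT.lf (nat_lit 0) (nat_lit 279222597230) (nat_lit 76) (nat_lit 90586129690) (nat_lit 76) (nat_lit 89104386445) (nat_lit 1) (nat_lit 4) (nat_lit 2) (nat_lit 5) (nat_lit 2) (nat_lit 4) (nat_lit 382) (nat_lit 211) (nat_lit 187)) (XT.lf (nat_lit 0) (nat_lit 295264156029) (nat_lit 76) (nat_lit 94026316266) (nat_lit 76) (nat_lit 92512862444) (nat_lit 1) (nat_lit 4) (nat_lit 2) (nat_lit 5) (nat_lit 2) (nat_lit 4) (nat_lit 383) (nat_lit 211) (nat_lit 186))) (XT.nd (nat_lit 78) (nat_lit 0) (nat_lit 0) (XT.lf (nat_lit 0) (nat_lit 312070435108) (nat_lit 76) (nat_lit 97656140930) (nat_lit 76) (nat_lit 96112486559) (nat_lit 1) (nat_lit 4) (nat_lit 2) (nat_lit 5) (nat_lit 2) (nat_lit 4) (nat_lit 384) (nat_lit 211) (nat_lit 185)) (XT.nd (nat_lit 78)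 (nat_lit 0) (nat_lit 0) (XT.lf (nat_lit 0) (nat_lit 329681449419) (nat_lit 76) (nat_lit 101484246122) (nat_lit 76) (nat_lit 99911829324) (nat_lit 1) (nat_lit 4) (nat_lit 2) (nat_lit 5) (nat_lit 2) (nat_lit 4) (nat_lit 385) (nat_lit 211) (nat_lit 184)) (XT.lf (nat_lit 0) (nat_lit 348139129948) (nat_lit 76) (nat_lit 105519746379) (nat_lit 76) (nat_lit 103919936793) (nat_lit 1) (nat_lit 4) (nat_lit 2) (nat_lit 5) (nat_lit 2) (nat_lit 4) (nat_lit 386) (nat_lit 211) (nat_lit 183)))))) (XT.nd (nat_lit 390) (nat_lit 0) (nat_lit 0) (XT.nd (nat_lit 156) (nat_lit 0) (nat_lit 0) (XT.nd (nat_lit 78) (nat_lit 0) (nat_lit 0) (XT.lf (nat_lit 0) (nat_lit 367487423554) (nat_lit 76) (nat_lit 109772250035) (nat_lit 76) (nat_lit 108146352079) (nat_lit 1) (nat_lit 4) (nat_lit 2) (nat_lit 5) (nat_lit 2) (nat_lit 4) (nat_lit 387) (nat_lit 211) (nat_lit 182)) (XT.lf (nat_lit 0) (nat_lit 387772397602) (nat_lit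 76) (nat_lit 114251882098) (nat_lit 76) (nat_lit 112601138075) (nat_lit 1) (nat_lit 4) (nat_lit 2) (nat_lit 5) (nat_lit 2) (nat_lit 4) (nat_lit 388) (nat_lit 211) (nat_lit 181))) (XT.nd (nat_lit 78) (nat_lit 0) (nat_lit 0) (XT.lf (nat_lit 0) (nat_lit 409042349649) (nat_lit 76) (nat_lit 118969308358) (nat_lit 76) (nat_lit 117294901415) (nat_lit 1) (nat_lit 4) (nat_lit 2) (nat_lit 5) (nat_lit 2) (nat_lit 4) (nat_lit 389) (nat_lit 211) (nat_lit 180)) (XT.nd (nat_lit 78) (nat_lit 0) (nat_lit 0) (XT.lf (nat_lit 0) (nat_lit 431347922439) (nat_lit 76) (nat_lit 123935760784) (nat_lit 76) (nat_lit 122238817726) (nat_lit 1) (nat_lit 4) (nat_lit 2) (nat_lit 5) (nat_lit 2) (nat_lit 4) (nat_lit 390) (nat_lit 211) (nat_lit 179)) (XT.lf (nat_lit 0) (nat_lit 454742224477) (nat_lit 76) (nat_lit 129163064261) (nat_lit 76) (nat_lit 127444658237) (nat_lit 1) (nat_lit 4) (nat_lit 2) (nat_lit 5) (nat_lit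 2) (nat_lit 4) (nat_lit 391) (nat_lit 211) (nat_lit 178))))) (XT.nd (nat_lit 37830) (nat_lit 0) (nat_lit 0) (XT.nd (nat_lit 78) (nat_lit 0) (nat_lit 0) (XT.lf (nat_lit 0) (nat_lit 479280956484) (nat_lit 76) (nat_lit 134663664751) (nat_lit 76) (nat_lit 132924817806) (nat_lit 1) (nat_lit 4) (nat_lit 2) (nat_lit 5) (nat_lit 2) (nat_lit 4) (nat_lit 392) (nat_lit 211) (nat_lit 177)) (XT.lf (nat_lit 0) (nat_lit 505022544012) (nat_lit 76) (nat_lit 140450658921) (nat_lit 76) (nat_lit 138692344433) (nat_lit 1) (nat_lit 4) (nat_lit 2) (nat_lit 5) (nat_lit 2) (nat_lit 4) (nat_lit 393) (nat_lit 211) (nat_lit 176))) (XT.nd (nat_lit 78) (nat_lit 0) (nat_lit 0) (XT.lf (nat_lit 0) (nat_lit 16824842464) (nat_lit 76) (nat_lit 24152801715) (nat_lit 76) (nat_lit 24152801715) (nat_lit 1) (nat_lit 4) (nat_lit 2) (nat_lit 5) (nat_lit 2) (nat_lit 4) (nat_lit 356) (nat_lit 212) (nat_lit 212)) (XT.nd (nat_lit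 78) (nat_lit 0) (nat_lit 0) (XT.lf (nat_lit 0) (nat_lit 39349515309) (nat_lit 76) (nat_lit 48712379851) (nat_lit 76) (nat_lit 48604996583) (nat_lit 1) (nat_lit 4) (nat_lit 2) (nat_lit 5) (nat_lit 2) (nat_lit 4) (nat_lit 357) (nat_lit 212) (nat_lit 211)) (XT.lf (nat_lit 0) (nat_lit 45207830917) (nat_lit 76) (nat_lit 49199192331) (nat_lit 76) (nat_lit 48989539285) (nat_lit 1) (nat_lit 4) (nat_lit 2) (nat_lit 5) (nat_lit 2) (nat_lit 4) (nat_lit 358) (nat_lit 212) (nat_lit 210))))))) (XT.nd (nat_lit 780) (nat_lit 0) (nat_lit 0) (XT.nd (nat_lit 390) (nat_lit 0) (nat_lit 0) (XT.nd (nat_lit 156) (nat_lit 0) (nat_lit 0) (XT.nd (nat_lit 78) (nat_lit 0) (nat_lit 0) (XT.lf (nat_lit 0) (nat_lit 51238580124) (nat_lit 76) (nat_lit 49767199948) (nat_lit 76) (nat_lit 49460147113) (nat_lit 1) (nat_lit 4) (nat_lit 2) (nat_lit 5) (nat_lit 2) (nat_lit 4) (nat_lit 359) (nat_lit 212) (nat_lit 209)) (XT.lf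 (nat_lit 0) (nat_lit 57456121855) (nat_lit 76) (nat_lit 50417755101) (nat_lit 76) (nat_lit 50017940561) (nat_lit 1) (nat_lit 4) (nat_lit 2) (nat_lit 5) (nat_lit 2) (nat_lit 4) (nat_lit 360) (nat_lit 212) (nat_lit 208))) (XT.nd (nat_lit 78) (nat_lit 0) (nat_lit 0) (XT.lf (nat_lit 0) (nat_lit 63875259782) (nat_lit 76) (nat_lit 51152406730) (nat_lit 76) (nat_lit 50664247710) (nat_lit 1) (nat_lit 4) (nat_lit 2) (nat_lit 5) (nat_lit 2) (nat_lit 4) (nat_lit 361) (nat_lit 212) (nat_lit 207)) (XT.nd (nat_lit 78) (nat_lit 0) (nat_lit 0) (XT.lf (nat_lit 0) (nat_lit 70511277566) (nat_lit 76) (nat_lit 51972904006) (nat_lit 76) (nat_lit 51400607387) (nat_lit 1) (nat_lit 4) (nat_lit 2) (nat_lit 5) (nat_lit 2) (nat_lit 4) (nat_lit 362) (nat_lit 212) (nat_lit 206)) (XT.lf (nat_lit 0) (nat_lit 77379975249) (nat_lit 76) (nat_lit 52881200494) (nat_lit 76) (nat_lit 52228772827) (nat_lit 1) (nat_lit 4) (nat_lit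 2) (nat_lit 5) (nat_lit 2) (nat_lit 4) (nat_lit 363) (nat_lit 212) (nat_lit 205))))) (XT.nd (nat_lit 156) (nat_lit 0) (nat_lit 0) (XT.nd (nat_lit 78) (nat_lit 0) (nat_lit 0) (XT.lf (nat_lit 0) (nat_lit 84497706874) (nat_lit 76) (nat_lit 53879458805) (nat_lit 76) (nat_lit 53150715854) (nat_lit 1) (nat_lit 4) (nat_lit 2) (nat_lit 5) (nat_lit 2) (nat_lit 4) (nat_lit 364) (nat_lit 212) (nat_lit 204)) (XT.lf (nat_lit 0) (nat_lit 91881419421) (nat_lit 76) (nat_lit 54970055744) (nat_lit 76) (nat_lit 54168631571) (nat_lit 1) (nat_lit 4) (nat_lit 2) (nat_lit 5) (nat_lit 2) (nat_lit 4) (nat_lit 365) (nat_lit 212) (nat_lit 203))) (XT.nd (nat_lit 78) (nat_lit 0) (nat_lit 0) (XT.lf (nat_lit 0) (nat_lit 99548693158) (nat_lit 76) (nat_lit 56155587971) (nat_lit 76) (nat_lit 55284943586) (nat_lit 1) (nat_lit 4) (nat_lit 2) (nat_lit 5) (nat_lit 2) (nat_lit 4) (nat_lit 366) (nat_lit 212) (nat_lit 202))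 (XT.nd (nat_lit 78) (nat_lit 0) (nat_lit 0) (XT.lf (nat_lit 0) (nat_lit 107517783498) (nat_lit 76) (nat_lit 57438878180) (nat_lit 76) (nat_lit 56502309784) (nat_lit 1) (nat_lit 4) (nat_lit 2) (nat_lit 5) (nat_lit 2) (nat_lit 4) (nat_lit 367) (nat_lit 212) (nat_lit 201)) (XT.lf (nat_lit 0) (nat_lit 115807664466) (nat_lit 76) (nat_lit 58822981826) (nat_lit 76) (nat_lit 57823628658) (nat_lit 1) (nat_lit 4) (nat_lit 2) (nat_lit 5) (nat_lit 2) (nat_lit 4) (nat_lit 368) (nat_lit 212) (nat_lit 200)))))) (XT.nd (nat_lit 390) (nat_lit 0) (nat_lit 0) (XT.nd (nat_lit 156) (nat_lit 0) (nat_lit 0) (XT.nd (nat_lit 78) (nat_lit 0) (nat_lit 0) (XT.lf (nat_lit 0) (nat_lit 124438073874) (nat_lit 76) (nat_lit 60311194393) (nat_lit 76) (nat_lit 59252046203) (nat_lit 1) (nat_lit 4) (nat_lit 2) (nat_lit 5) (nat_lit 2) (nat_lit 4) (nat_lit 369) (nat_lit 212) (nat_lit 199)) (XT.lf (nat_lit 0) (nat_lit 133429560316)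 (nat_lit 76) (nat_lit 61907059245) (nat_lit 76) (nat_lit 60790963415) (nat_lit 1) (nat_lit 4) (nat_lit 2) (nat_lit 5) (nat_lit 2) (nat_lit 4) (nat_lit 370) (nat_lit 212) (nat_lit 198))) (XT.nd (nat_lit 78) (nat_lit 0) (nat_lit 0) (XT.lf (nat_lit 0) (nat_lit 142803532092) (nat_lit 76) (nat_lit 63614376059) (nat_lit 76) (nat_lit 62444044382) (nat_lit 1) (nat_lit 4) (nat_lit 2) (nat_lit 5) (nat_lit 2) (nat_lit 4) (nat_lit 371) (nat_lit 212) (nat_lit 197)) (XT.nd (nat_lit 78) (nat_lit 0) (nat_lit 0) (XT.lf (nat_lit 0) (nat_lit 152582308184) (nat_lit 76) (nat_lit 65437209875) (nat_lit 76) (nat_lit 64215225011) (nat_lit 1) (nat_lit 4) (nat_lit 2) (nat_lit 5) (nat_lit 2) (nat_lit 4) (nat_lit 372) (nat_lit 212) (nat_lit 196)) (XT.lf (nat_lit 0) (nat_lit 162789171391) (nat_lit 76) (nat_lit 67379900775) (nat_lit 76) (nat_lit 66108722398) (nat_lit 1) (nat_lit 4) (nat_lit 2) (nat_lit 5) (nat_lit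 2) (nat_lit 4) (nat_lit 373) (nat_lit 212) (nat_lit 195))))) (XT.nd (nat_lit 156) (nat_lit 0) (nat_lit 0) (XT.nd (nat_lit 78) (nat_lit 0) (nat_lit 0) (XT.lf (nat_lit 0) (nat_lit 173448423768) (nat_lit 76) (nat_lit 69447074212) (nat_lit 76) (nat_lit 68129044871) (nat_lit 1) (nat_lit 4) (nat_lit 2) (nat_lit 5) (nat_lit 2) (nat_lit 4) (nat_lit 374) (nat_lit 212) (nat_lit 194)) (XT.lf (nat_lit 0) (nat_lit 184585444488) (nat_lit 76) (nat_lit 71643652029) (nat_lit 76) (nat_lit 70281002722) (nat_lit 1) (nat_lit 4) (nat_lit 2) (nat_lit 5) (nat_lit 2) (nat_lit 4) (nat_lit 375) (nat_lit 212) (nat_lit 193))) (XT.nd (nat_lit 78) (nat_lit 0) (nat_lit 0) (XT.lf (nat_lit 0) (nat_lit 196226750268) (nat_lit 76) (nat_lit 73974864171) (nat_lit 76) (nat_lit 72569719659) (nat_lit 1) (nat_lit 4) (nat_lit 2) (nat_lit 5) (nat_lit 2) (nat_lit 4) (nat_lit 376) (nat_lit 212) (nat_lit 192)) (XT.nd (nat_lit 78)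 (nat_lit 0) (nat_lit 0) (XT.lf (nat_lit 0) (nat_lit 208400058501) (nat_lit 76) (nat_lit 76446261145) (nat_lit 76) (nat_lit 75000645009) (nat_lit 1) (nat_lit 4) (nat_lit 2) (nat_lit 5) (nat_lit 2) (nat_lit 4) (nat_lit 377) (nat_lit 212) (nat_lit 191)) (XT.lf (nat_lit 0) (nat_lit 221134353255) (nat_lit 76) (nat_lit 79063727229) (nat_lit 76) (nat_lit 77579566689) (nat_lit 1) (nat_lit 4) (nat_lit 2) (nat_lit 5) (nat_lit 2) (nat_lit 4) (nat_lit 378) (nat_lit 212) (nat_lit 190))))))))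
noncomputable def xc9 : XT := (XT.nd (nat_lit 39078) (nat_lit 0) (nat_lit 0) (XT.nd (nat_lit 780) (nat_lit 0) (nat_lit 0) (XT.nd (nat_lit 390) (nat_lit 0) (nat_lit 0) (XT.nd (nat_lit 156) (nat_lit 0) (nat_lit 0) (XT.nd (nat_lit 78) (nat_lit 0) (nat_lit 0) (XT.lf (nat_lit 0) (nat_lit 234459954279) (nat_lit 76) (nat_lit 81833494485) (nat_lit 76) (nat_lit 80312624989) (nat_lit 1) (nat_lit 4) (nat_lit 2) (nat_lit 5) (nat_lit 2) (nat_lit 4) (nat_lit 379) (nat_lit 212) (nat_lit 189)) (XT.lf (nat_lit 0) (nat_lit 248408589195) (nat_lit 76) (nat_lit 84762157597) (nat_lit 76) (nat_lit 83206327191) (nat_lit 1) (nat_lit 4) (nat_lit 2) (nat_lit 5) (nat_lit 2) (nat_lit 4) (nat_lit 380) (nat_lit 212) (nat_lit 188))) (XT.nd (nat_lit 78) (nat_lit 0) (nat_lit 0) (XT.lf (nat_lit 0) (nat_lit 263013469038) (nat_lit 76) (nat_lit 87856689573) (nat_lit 76) (nat_lit 86267563061) (nat_lit 1) (nat_lit 4) (nat_lit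 2) (nat_lit 5) (nat_lit 2) (nat_lit 4) (nat_lit 381) (nat_lit 212) (nat_lit 187)) (XT.nd (nat_lit 78) (nat_lit 0) (nat_lit 0) (XT.lf (nat_lit 0) (nat_lit 278309367332) (nat_lit 76) (nat_lit 91124458345) (nat_lit 76) (nat_lit 89503621256) (nat_lit 1) (nat_lit 4) (nat_lit 2) (nat_lit 5) (nat_lit 2) (nat_lit 4) (nat_lit 382) (nat_lit 212) (nat_lit 186)) (XT.lf (nat_lit 0) (nat_lit 294332702882) (nat_lit 76) (nat_lit 94573244316) (nat_lit 76) (nat_lit 92922206678) (nat_lit 1) (nat_lit 4) (nat_lit 2) (nat_lit 5) (nat_lit 2) (nat_lit 4) (nat_lit 383) (nat_lit 212) (nat_lit 185))))) (XT.nd (nat_lit 156) (nat_lit 0) (nat_lit 0) (XT.nd (nat_lit 78) (nat_lit 0) (nat_lit 0) (XT.lf (nat_lit 0) (nat_lit 311121626487) (nat_lit 76) (nat_lit 98211258880) (nat_lit 76) (nat_lit 96531458814) (nat_lit 1) (nat_lit 4) (nat_lit 2) (nat_lit 5) (nat_lit 2) (nat_lit 4) (nat_lit 384) (nat_lit 212) (nat_lit 184))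 (XT.lf (nat_lit 0) (nat_lit 328716111775) (nat_lit 76) (nat_lit 102047163977) (nat_lit 76) (nat_lit 100339971123) (nat_lit 1) (nat_lit 4) (nat_lit 2) (nat_lit 5) (nat_lit 2) (nat_lit 4) (nat_lit 385) (nat_lit 212) (nat_lit 183))) (XT.nd (nat_lit 78) (nat_lit 0) (nat_lit 0) (XT.lf (nat_lit 0) (nat_lit 347158050377) (nat_lit 76) (nat_lit 106090092715) (nat_lit 76) (nat_lit 104356811491) (nat_lit 1) (nat_lit 4) (nat_lit 2) (nat_lit 5) (nat_lit 2) (nat_lit 4) (nat_lit 386) (nat_lit 212) (nat_lit 182)) (XT.nd (nat_lit 78) (nat_lit 0) (nat_lit 0) (XT.lf (nat_lit 0) (nat_lit 366491351672) (nat_lit 76) (nat_lit 110349671114) (nat_lit 76) (nat_lit 108591543824) (nat_lit 1) (nat_lit 4) (nat_lit 2) (nat_lit 5) (nat_lit 2) (nat_lit 4) (nat_lit 387) (nat_lit 212) (nat_lit 181)) (XT.lf (nat_lit 0) (nat_lit 386762047328) (nat_lit 76) (nat_lit 114836041028) (nat_lit 76) (nat_lit 113054250817) (nat_lit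 1) (nat_lit 4) (nat_lit 2) (nat_lit 5) (nat_lit 2) (nat_lit 4) (nat_lit 388) (nat_lit 212) (nat_lit 180)))))) (XT.nd (nat_lit 37908) (nat_lit 0) (nat_lit 0) (XT.nd (nat_lit 156) (nat_lit 0) (nat_lit 0) (XT.nd (nat_lit 78) (nat_lit 0) (nat_lit 0) (XT.lf (nat_lit 0) (nat_lit 408018400907) (nat_lit 76) (nat_lit 119559884289) (nat_lit 76) (nat_lit 117755557964) (nat_lit 1) (nat_lit 4) (nat_lit 2) (nat_lit 5) (nat_lit 2) (nat_lit 4) (nat_lit 389) (nat_lit 212) (nat_lit 179)) (XT.lf (nat_lit 0) (nat_lit 430311022774) (nat_lit 76) (nat_lit 124532448144) (nat_lit 76) (nat_lit 122706658852) (nat_lit 1) (nat_lit 4) (nat_lit 2) (nat_lit 5) (nat_lit 2) (nat_lit 4) (nat_lit 390) (nat_lit 212) (nat_lit 178))) (XT.nd (nat_lit 78) (nat_lit 0) (nat_lit 0) (XT.lf (nat_lit 0) (nat_lit 453692990601) (nat_lit 76) (nat_lit 129765572031) (nat_lit 76) (nat_lit 127919341818) (nat_lit 1) (nat_lit 4) (nat_lit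 2) (nat_lit 5) (nat_lit 2) (nat_lit 4) (nat_lit 391) (nat_lit 212) (nat_lit 177)) (XT.nd (nat_lit 78) (nat_lit 0) (nat_lit 0) (XT.lf (nat_lit 0) (nat_lit 478219975740) (nat_lit 76) (nat_lit 135271715767) (nat_lit 76) (nat_lit 133406018012) (nat_lit 1) (nat_lit 4) (nat_lit 2) (nat_lit 5) (nat_lit 2) (nat_lit 4) (nat_lit 392) (nat_lit 212) (nat_lit 176)) (XT.lf (nat_lit 0) (nat_lit 503950375774) (nat_lit 76) (nat_lit 141063989220) (nat_lit 76) (nat_lit 139179750947) (nat_lit 1) (nat_lit 4) (nat_lit 2) (nat_lit 5) (nat_lit 2) (nat_lit 4) (nat_lit 393) (nat_lit 212) (nat_lit 175))))) (XT.nd (nat_lit 156) (nat_lit 0) (nat_lit 0) (XT.nd (nat_lit 78) (nat_lit 0) (nat_lit 0) (XT.lf (nat_lit 0) (nat_lit 11369788242) (nat_lit 76) (nat_lit 23904559962) (nat_lit 76) (nat_lit 23904559962) (nat_lit 1) (nat_lit 4) (nat_lit 2) (nat_lit 5) (nat_lit 2) (nat_lit 4) (nat_lit 354) (nat_lit 213) (nat_lit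 213)) (XT.lf (nat_lit 0) (nat_lit 28094768750) (nat_lit 76) (nat_lit 48090646983) (nat_lit 76) (nat_lit 47977894552) (nat_lit 1) (nat_lit 4) (nat_lit 2) (nat_lit 5) (nat_lit 2) (nat_lit 4) (nat_lit 355) (nat_lit 213) (nat_lit 212))) (XT.nd (nat_lit 78) (nat_lit 0) (nat_lit 0) (XT.lf (nat_lit 0) (nat_lit 33584889023) (nat_lit 76) (nat_lit 48448932495) (nat_lit 76) (nat_lit 48228796796) (nat_lit 1) (nat_lit 4) (nat_lit 2) (nat_lit 5) (nat_lit 2) (nat_lit 4) (nat_lit 356) (nat_lit 213) (nat_lit 211)) (XT.nd (nat_lit 78) (nat_lit 0) (nat_lit 0) (XT.lf (nat_lit 0) (nat_lit 39223009017) (nat_lit 76) (nat_lit 48884829520) (nat_lit 76) (nat_lit 48562424043) (nat_lit 1) (nat_lit 4) (nat_lit 2) (nat_lit 5) (nat_lit 2) (nat_lit 4) (nat_lit 357) (nat_lit 213) (nat_lit 210)) (XT.lf (nat_lit 0) (nat_lit 45022552830) (nat_lit 76) (nat_lit 49399375909) (nat_lit 76) (nat_lit 48979570642) (nat_lit 1)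 (nat_lit 4) (nat_lit 2) (nat_lit 5) (nat_lit 2) (nat_lit 4) (nat_lit 358) (nat_lit 213) (nat_lit 209))))))) (XT.nd (nat_lit 780) (nat_lit 0) (nat_lit 0) (XT.nd (nat_lit 390) (nat_lit 0) (nat_lit 0) (XT.nd (nat_lit 156) (nat_lit 0) (nat_lit 0) (XT.nd (nat_lit 78) (nat_lit 0) (nat_lit 0) (XT.lf (nat_lit 0) (nat_lit 50997328897) (nat_lit 76) (nat_lit 49993796772) (nat_lit 76) (nat_lit 49481229802) (nat_lit 1) (nat_lit 4) (nat_lit 2) (nat_lit 5) (nat_lit 2) (nat_lit 4) (nat_lit 359) (nat_lit 213) (nat_lit 208)) (XT.lf (nat_lit 0) (nat_lit 57161562876) (nat_lit 76) (nat_lit 50669507398) (nat_lit 76) (nat_lit 50068595947) (nat_lit 1) (nat_lit 4) (nat_lit 2) (nat_lit 5) (nat_lit 2) (nat_lit 4) (nat_lit 360) (nat_lit 213) (nat_lit 207))) (XT.nd (nat_lit 78) (nat_lit 0) (nat_lit 0) (XT.lf (nat_lit 0) (nat_lit 63529931515) (nat_lit 76) (nat_lit 51428116620) (nat_lit 76) (nat_lit 50743067569) (nat_lit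 1) (nat_lit 4) (nat_lit 2) (nat_lit 5) (nat_lit 2) (nat_lit 4) (nat_lit 361) (nat_lit 213) (nat_lit 206)) (XT.nd (nat_lit 78) (nat_lit 0) (nat_lit 0) (XT.lf (nat_lit 0) (nat_lit 70117597597) (nat_lit 76) (nat_lit 52271430651) (nat_lit 76) (nat_lit 51506250553) (nat_lit 1) (nat_lit 4) (nat_lit 2) (nat_lit 5) (nat_lit 2) (nat_lit 4) (nat_lit 362) (nat_lit 213) (nat_lit 205)) (XT.lf (nat_lit 0) (nat_lit 76940246040) (nat_lit 76) (nat_lit 53201457382) (nat_lit 76) (nat_lit 52359962000) (nat_lit 1) (nat_lit 4) (nat_lit 2) (nat_lit 5) (nat_lit 2) (nat_lit 4) (nat_lit 363) (nat_lit 213) (nat_lit 204))))) (XT.nd (nat_lit 156) (nat_lit 0) (nat_lit 0) (XT.nd (nat_lit 78) (nat_lit 0) (nat_lit 0) (XT.lf (nat_lit 0) (nat_lit 84014121246) (nat_lit 76) (nat_lit 54220411162) (nat_lit 76) (nat_lit 53306234558) (nat_lit 1) (nat_lit 4) (nat_lit 2) (nat_lit 5) (nat_lit 2) (nat_lit 4) (nat_lit 364) (nat_lit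 213) (nat_lit 203)) (XT.lf (nat_lit 0) (nat_lit 91356065775) (nat_lit 76) (nat_lit 55330718072) (nat_lit 76) (nat_lit 54347321257) (nat_lit 1) (nat_lit 4) (nat_lit 2) (nat_lit 5) (nat_lit 2) (nat_lit 4) (nat_lit 365) (nat_lit 213) (nat_lit 202))) (XT.nd (nat_lit 78) (nat_lit 0) (nat_lit 0) (XT.lf (nat_lit 0) (nat_lit 98983560447) (nat_lit 76) (nat_lit 56535021700) (nat_lit 76) (nat_lit 55485700873) (nat_lit 1) (nat_lit 4) (nat_lit 2) (nat_lit 5) (nat_lit 2) (nat_lit 4) (nat_lit 366) (nat_lit 213) (nat_lit 201)) (XT.nd (nat_lit 78) (nat_lit 0) (nat_lit 0) (XT.lf (nat_lit 0) (nat_lit 106914765963) (nat_lit 76) (nat_lit 57836189434) (nat_lit 76) (nat_lit 56724083835) (nat_lit 1) (nat_lit 4) (nat_lit 2) (nat_lit 5) (nat_lit 2) (nat_lit 4) (nat_lit 367) (nat_lit 213) (nat_lit 200)) (XT.lf (nat_lit 0) (nat_lit 115168566146) (nat_lit 76) (nat_lit 59237319294) (nat_lit 76) (nat_lit 58065418673)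 (nat_lit 1) (nat_lit 4) (nat_lit 2) (nat_lit 5) (nat_lit 2) (nat_lit 4) (nat_lit 368) (nat_lit 213) (nat_lit 199)))))) (XT.nd (nat_lit 390) (nat_lit 0) (nat_lit 0) (XT.nd (nat_lit 156) (nat_lit 0) (nat_lit 0) (XT.nd (nat_lit 78) (nat_lit 0) (nat_lit 0) (XT.lf (nat_lit 0) (nat_lit 123764612902) (nat_lit 76) (nat_lit 60741747304) (nat_lit 76) (nat_lit 59512899043) (nat_lit 1) (nat_lit 4) (nat_lit 2) (nat_lit 5) (nat_lit 2) (nat_lit 4) (nat_lit 369) (nat_lit 213) (nat_lit 198)) (XT.lf (nat_lit 0) (nat_lit 132723373009) (nat_lit 76) (nat_lit 62353055433) (nat_lit 76) (nat_lit 61069971325) (nat_lit 1) (nat_lit 4) (nat_lit 2) (nat_lit 5) (nat_lit 2) (nat_lit 4) (nat_lit 370) (nat_lit 213) (nat_lit 197))) (XT.nd (nat_lit 78) (nat_lit 0) (nat_lit 0) (XT.lf (nat_lit 0) (nat_lit 142066176847) (nat_lit 76) (nat_lit 64075080131) (nat_lit 76) (nat_lit 62740342835) (nat_lit 1) (nat_lit 4) (nat_lit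 2) (nat_lit 5) (nat_lit 2) (nat_lit 4) (nat_lit 371) (nat_lit 213) (nat_lit 196)) (XT.nd (nat_lit 78) (nat_lit 0) (nat_lit 0) (XT.lf (nat_lit 0) (nat_lit 151815269187) (nat_lit 76) (nat_lit 65911921456) (nat_lit 76) (nat_lit 64527990648) (nat_lit 1) (nat_lit 4) (nat_lit 2) (nat_lit 5) (nat_lit 2) (nat_lit 4) (nat_lit 372) (nat_lit 213) (nat_lit 195)) (XT.lf (nat_lit 0) (nat_lit 161993862155) (nat_lit 76) (nat_lit 67867952840) (nat_lit 76) (nat_lit 66437171068) (nat_lit 1) (nat_lit 4) (nat_lit 2) (nat_lit 5) (nat_lit 2) (nat_lit 4) (nat_lit 373) (nat_lit 213) (nat_lit 194))))) (XT.nd (nat_lit 234) (nat_lit 0) (nat_lit 0) (XT.nd (nat_lit 78) (nat_lit 0) (nat_lit 0) (XT.lf (nat_lit 0) (nat_lit 172626190496) (nat_lit 76) (nat_lit 69947831500) (nat_lit 76) (nat_lit 68472429762) (nat_lit 1) (nat_lit 4) (nat_lit 2) (nat_lit 5) (nat_lit 2) (nat_lit 4) (nat_lit 374) (nat_lit 213) (nat_lit 193))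 (XT.nd (nat_lit 78) (nat_lit 0) (nat_lit 0) (XT.lf (nat_lit 0) (nat_lit 183737569276) (nat_lit 76) (nat_lit 72156509529) (nat_lit 76) (nat_lit 70638612586) (nat_lit 1) (nat_lit 4) (nat_lit 2) (nat_lit 5) (nat_lit 2) (nat_lit 4) (nat_lit 375) (nat_lit 213) (nat_lit 192)) (XT.lf (nat_lit 0) (nat_lit 195354454160) (nat_lit 76) (nat_lit 74499245683) (nat_lit 76) (nat_lit 72940877116) (nat_lit 1) (nat_lit 4) (nat_lit 2) (nat_lit 5) (nat_lit 2) (nat_lit 4) (nat_lit 376) (nat_lit 213) (nat_lit 191)))) (XT.nd (nat_lit 78) (nat_lit 0) (nat_lit 0) (XT.lf (nat_lit 0) (nat_lit 207504504397) (nat_lit 76) (nat_lit 76981617907) (nat_lit 76) (nat_lit 75384704936) (nat_lit 1) (nat_lit 4) (nat_lit 2) (nat_lit 5) (nat_lit 2) (nat_lit 4) (nat_lit 377) (nat_lit 213) (nat_lit 190)) (XT.nd (nat_lit 78) (nat_lit 0) (nat_lit 0) (XT.lf (nat_lit 0) (nat_lit 220216648679) (nat_lit 76) (nat_lit 79609536609) (nat_lit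 76) (nat_lit 77975914682) (nat_lit 1) (nat_lit 4) (nat_lit 2) (nat_lit 5) (nat_lit 2) (nat_lit 4) (nat_lit 378) (nat_lit 213) (nat_lit 189)) (XT.lf (nat_lit 0) (nat_lit 233521154016) (nat_lit 76) (nat_lit 82389258740) (nat_lit 76) (nat_lit 80720675902) (nat_lit 1) (nat_lit 4) (nat_lit 2) (nat_lit 5) (nat_lit 2) (nat_lit 4) (nat_lit 379) (nat_lit 213) (nat_lit 188))))))))
noncomputable def xc10 : XT := (XT.nd (nat_lit 39000) (nat_lit 0) (nat_lit 0) (XT.nd (nat_lit 780) (nat_lit 0) (nat_lit 0) (XT.nd (nat_lit 390) (nat_lit 0) (nat_lit 0) (XT.nd (nat_lit 156) (nat_lit 0) (nat_lit 0) (XT.nd (nat_lit 78) (nat_lit 0) (nat_lit 0) (XT.lf (nat_lit 0) (nat_lit 247449697801) (nat_lit 76) (nat_lit 85327402685) (nat_lit 76) (nat_lit 83625523742) (nat_lit 1) (nat_lit 4) (nat_lit 2) (nat_lit 5) (nat_lit 2) (nat_lit 4) (nat_lit 380) (nat_lit 213) (nat_lit 187)) (XT.lf (nat_lit 0) (nat_lit 262035443234)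 (nat_lit 76) (nat_lit 88430964025) (nat_lit 76) (nat_lit 86697374505) (nat_lit 1) (nat_lit 4) (nat_lit 2) (nat_lit 5) (nat_lit 2) (nat_lit 4) (nat_lit 381) (nat_lit 213) (nat_lit 186))) (XT.nd (nat_lit 78) (nat_lit 0) (nat_lit 0) (XT.lf (nat_lit 0) (nat_lit 277313118280) (nat_lit 76) (nat_lit 91707332192) (nat_lit 76) (nat_lit 89943542123) (nat_lit 1) (nat_lit 4) (nat_lit 2) (nat_lit 5) (nat_lit 2) (nat_lit 4) (nat_lit 382) (nat_lit 213) (nat_lit 185)) (XT.nd (nat_lit 78) (nat_lit 0) (nat_lit 0) (XT.lf (nat_lit 0) (nat_lit 293319098355) (nat_lit 76) (nat_lit 95164308063) (nat_lit 76) (nat_lit 93371755566) (nat_lit 1) (nat_lit 4) (nat_lit 2) (nat_lit 5) (nat_lit 2) (nat_lit 4) (nat_lit 383) (nat_lit 213) (nat_lit 184)) (XT.lf (nat_lit 0) (nat_lit 310091492937) (nat_lit 76) (nat_lit 98810122532) (nat_lit 76) (nat_lit 96990177247) (nat_lit 1) (nat_lit 4) (nat_lit 2) (nat_lit 5) (nat_lit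 2) (nat_lit 4) (nat_lit 384) (nat_lit 213) (nat_lit 183))))) (XT.nd (nat_lit 156) (nat_lit 0) (nat_lit 0) (XT.nd (nat_lit 78) (nat_lit 0) (nat_lit 0) (XT.lf (nat_lit 0) (nat_lit 327670236298) (nat_lit 76) (nat_lit 102653456110) (nat_lit 76) (nat_lit 100807422455) (nat_lit 1) (nat_lit 4) (nat_lit 2) (nat_lit 5) (nat_lit 2) (nat_lit 4) (nat_lit 385) (nat_lit 213) (nat_lit 182)) (XT.lf (nat_lit 0) (nat_lit 346097182590) (nat_lit 76) (nat_lit 106703459592) (nat_lit 76) (nat_lit 104832579870) (nat_lit 1) (nat_lit 4) (nat_lit 2) (nat_lit 5) (nat_lit 2) (nat_lit 4) (nat_lit 386) (nat_lit 213) (nat_lit 181))) (XT.nd (nat_lit 78) (nat_lit 0) (nat_lit 0) (XT.lf (nat_lit 0) (nat_lit 365416205492) (nat_lit 76) (nat_lit 110969775842) (nat_lit 76) (nat_lit 109075233200) (nat_lit 1) (nat_lit 4) (nat_lit 2) (nat_lit 5) (nat_lit 2) (nat_lit 4) (nat_lit 387) (nat_lit 213) (nat_lit 180)) (XT.nd (nat_lit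 78) (nat_lit 0) (nat_lit 0) (XT.lf (nat_lit 0) (nat_lit 385673302680) (nat_lit 76) (nat_lit 115462562757) (nat_lit 76) (nat_lit 113545484000) (nat_lit 1) (nat_lit 4) (nat_lit 2) (nat_lit 5) (nat_lit 2) (nat_lit 4) (nat_lit 388) (nat_lit 213) (nat_lit 179)) (XT.lf (nat_lit 0) (nat_lit 406916705337) (nat_lit 76) (nat_lit 120192517448) (nat_lit 76) (nat_lit 118253975725) (nat_lit 1) (nat_lit 4) (nat_lit 2) (nat_lit 5) (nat_lit 2) (nat_lit 4) (nat_lit 389) (nat_lit 213) (nat_lit 178)))))) (XT.nd (nat_lit 37830) (nat_lit 0) (nat_lit 0) (XT.nd (nat_lit 156) (nat_lit 0) (nat_lit 0) (XT.nd (nat_lit 78) (nat_lit 0) (nat_lit 0) (XT.lf (nat_lit 0) (nat_lit 429196992993) (nat_lit 76) (nat_lit 125170901712) (nat_lit 76) (nat_lit 123211919068) (nat_lit 1) (nat_lit 4) (nat_lit 2) (nat_lit 5) (nat_lit 2) (nat_lit 4) (nat_lit 390) (nat_lit 213) (nat_lit 177)) (XT.lf (nat_lit 0) (nat_lit 452567213952)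 (nat_lit 76) (nat_lit 130409568845) (nat_lit 76) (nat_lit 128431118658) (nat_lit 1) (nat_lit 4) (nat_lit 2) (nat_lit 5) (nat_lit 2) (nat_lit 4) (nat_lit 391) (nat_lit 213) (nat_lit 176))) (XT.nd (nat_lit 37518) (nat_lit 0) (nat_lit 0) (XT.lf (nat_lit 0) (nat_lit 477083011597) (nat_lit 76) (nat_lit 135920991864) (nat_lit 76) (nat_lit 133924001160) (nat_lit 1) (nat_lit 4) (nat_lit 2) (nat_lit 5) (nat_lit 2) (nat_lit 4) (nat_lit 392) (nat_lit 213) (nat_lit 175)) (XT.nd (nat_lit 78) (nat_lit 0) (nat_lit 0) (XT.lf (nat_lit 0) (nat_lit 6227351264) (nat_lit 76) (nat_lit 23779260216) (nat_lit 76) (nat_lit 23779260216) (nat_lit 1) (nat_lit 4) (nat_lit 2) (nat_lit 5) (nat_lit 2) (nat_lit 4) (nat_lit 352) (nat_lit 214) (nat_lit 214)) (XT.lf (nat_lit 0) (nat_lit 17506561769) (nat_lit 76) (nat_lit 47722071070) (nat_lit 76) (nat_lit 47603681017) (nat_lit 1) (nat_lit 4) (nat_lit 2) (nat_lit 5) (nat_lit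 2) (nat_lit 4) (nat_lit 353) (nat_lit 214) (nat_lit 213))))) (XT.nd (nat_lit 156) (nat_lit 0) (nat_lit 0) (XT.nd (nat_lit 78) (nat_lit 0) (nat_lit 0) (XT.lf (nat_lit 0) (nat_lit 22671540784) (nat_lit 76) (nat_lit 47959615443) (nat_lit 76) (nat_lit 47728472960) (nat_lit 1) (nat_lit 4) (nat_lit 2) (nat_lit 5) (nat_lit 2) (nat_lit 4) (nat_lit 354) (nat_lit 214) (nat_lit 212)) (XT.lf (nat_lit 0) (nat_lit 27961937144) (nat_lit 76) (nat_lit 48271719136) (nat_lit 76) (nat_lit 47933193385) (nat_lit 1) (nat_lit 4) (nat_lit 2) (nat_lit 5) (nat_lit 2) (nat_lit 4) (nat_lit 355) (nat_lit 214) (nat_lit 211))) (XT.nd (nat_lit 78) (nat_lit 0) (nat_lit 0) (XT.lf (nat_lit 0) (nat_lit 33390347031) (nat_lit 76) (nat_lit 48659125252) (nat_lit 76) (nat_lit 48218329722) (nat_lit 1) (nat_lit 4) (nat_lit 2) (nat_lit 5) (nat_lit 2) (nat_lit 4) (nat_lit 356) (nat_lit 214) (nat_lit 210)) (XT.nd (nat_lit 78) (nat_lit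 0) (nat_lit 0) (XT.lf (nat_lit 0) (nat_lit 38969695229) (nat_lit 76) (nat_lit 49122756185) (nat_lit 76) (nat_lit 48584560866) (nat_lit 1) (nat_lit 4) (nat_lit 2) (nat_lit 5) (nat_lit 2) (nat_lit 4) (nat_lit 357) (nat_lit 214) (nat_lit 209)) (XT.lf (nat_lit 0) (nat_lit 44713265902) (nat_lit 76) (nat_lit 49663715820) (nat_lit 76) (nat_lit 49032758797) (nat_lit 1) (nat_lit 4) (nat_lit 2) (nat_lit 5) (nat_lit 2) (nat_lit 4) (nat_lit 358) (nat_lit 214) (nat_lit 208))))))) (XT.nd (nat_lit 780) (nat_lit 0) (nat_lit 0) (XT.nd (nat_lit 390) (nat_lit 0) (nat_lit 0) (XT.nd (nat_lit 156) (nat_lit 0) (nat_lit 0) (XT.nd (nat_lit 78) (nat_lit 0) (nat_lit 0) (XT.lf (nat_lit 0) (nat_lit 50634734217) (nat_lit 76) (nat_lit 50283292156) (nat_lit 76) (nat_lit 49563990653) (nat_lit 1) (nat_lit 4) (nat_lit 2) (nat_lit 5) (nat_lit 2) (nat_lit 4) (nat_lit 359) (nat_lit 214) (nat_lit 207)) (XT.lf (nat_lit 0)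 (nat_lit 56748198909) (nat_lit 76) (nat_lit 50982960374) (nat_lit 76) (nat_lit 50179521271) (nat_lit 1) (nat_lit 4) (nat_lit 2) (nat_lit 5) (nat_lit 2) (nat_lit 4) (nat_lit 360) (nat_lit 214) (nat_lit 206))) (XT.nd (nat_lit 78) (nat_lit 0) (nat_lit 0) (XT.lf (nat_lit 0) (nat_lit 63068215846) (nat_lit 76) (nat_lit 51764386352) (nat_lit 76) (nat_lit 50880816201) (nat_lit 1) (nat_lit 4) (nat_lit 2) (nat_lit 5) (nat_lit 2) (nat_lit 4) (nat_lit 361) (nat_lit 214) (nat_lit 205)) (XT.nd (nat_lit 78) (nat_lit 0) (nat_lit 0) (XT.lf (nat_lit 0) (nat_lit 69609832688) (nat_lit 76) (nat_lit 52629430626) (nat_lit 76) (nat_lit 51669545192) (nat_lit 1) (nat_lit 4) (nat_lit 2) (nat_lit 5) (nat_lit 2) (nat_lit 4) (nat_lit 362) (nat_lit 214) (nat_lit 204)) (XT.lf (nat_lit 0) (nat_lit 76388624712) (nat_lit 76) (nat_lit 53580152827) (nat_lit 76) (nat_lit 52547586170) (nat_lit 1) (nat_lit 4) (nat_lit 2) (nat_lit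 5) (nat_lit 2) (nat_lit 4) (nat_lit 363) (nat_lit 214) (nat_lit 203))))) (XT.nd (nat_lit 156) (nat_lit 0) (nat_lit 0) (XT.nd (nat_lit 78) (nat_lit 0) (nat_lit 0) (XT.lf (nat_lit 0) (nat_lit 83420731899) (nat_lit 76) (nat_lit 54618816578) (nat_lit 76) (nat_lit 53517029710) (nat_lit 1) (nat_lit 4) (nat_lit 2) (nat_lit 5) (nat_lit 2) (nat_lit 4) (nat_lit 364) (nat_lit 214) (nat_lit 202)) (XT.lf (nat_lit 0) (nat_lit 90722897363) (nat_lit 76) (nat_lit 55747894889) (nat_lit 76) (nat_lit 54580184010) (nat_lit 1) (nat_lit 4) (nat_lit 2) (nat_lit 5) (nat_lit 2) (nat_lit 4) (nat_lit 365) (nat_lit 214) (nat_lit 201))) (XT.nd (nat_lit 78) (nat_lit 0) (nat_lit 0) (XT.lf (nat_lit 0) (nat_lit 98312507211) (nat_lit 76) (nat_lit 56970076041) (nat_lit 76) (nat_lit 55739580389) (nat_lit 1) (nat_lit 4) (nat_lit 2) (nat_lit 5) (nat_lit 2) (nat_lit 4) (nat_lit 366) (nat_lit 214) (nat_lit 200)) (XT.nd (nat_lit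 78) (nat_lit 0) (nat_lit 0) (XT.lf (nat_lit 0) (nat_lit 106207631942) (nat_lit 76) (nat_lit 58288269990) (nat_lit 76) (nat_lit 56997979316) (nat_lit 1) (nat_lit 4) (nat_lit 2) (nat_lit 5) (nat_lit 2) (nat_lit 4) (nat_lit 367) (nat_lit 214) (nat_lit 199)) (XT.lf (nat_lit 0) (nat_lit 114427069474) (nat_lit 76) (nat_lit 59705615292) (nat_lit 76) (nat_lit 58358376979) (nat_lit 1) (nat_lit 4) (nat_lit 2) (nat_lit 5) (nat_lit 2) (nat_lit 4) (nat_lit 368) (nat_lit 214) (nat_lit 198)))))) (XT.nd (nat_lit 390) (nat_lit 0) (nat_lit 0) (XT.nd (nat_lit 156) (nat_lit 0) (nat_lit 0) (XT.nd (nat_lit 78) (nat_lit 0) (nat_lit 0) (XT.lf (nat_lit 0) (nat_lit 122990389894) (nat_lit 76) (nat_lit 61225486579) (nat_lit 76) (nat_lit 59824012419) (nat_lit 1) (nat_lit 4) (nat_lit 2) (nat_lit 5) (nat_lit 2) (nat_lit 4) (nat_lit 369) (nat_lit 214) (nat_lit 197)) (XT.lf (nat_lit 0) (nat_lit 131917982062) (nat_lit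 76) (nat_lit 62851502592) (nat_lit 76) (nat_lit 61398375244) (nat_lit 1) (nat_lit 4) (nat_lit 2) (nat_lit 5) (nat_lit 2) (nat_lit 4) (nat_lit 370) (nat_lit 214) (nat_lit 196))) (XT.nd (nat_lit 78) (nat_lit 0) (nat_lit 0) (XT.lf (nat_lit 0) (nat_lit 141231102149) (nat_lit 76) (nat_lit 64587534799) (nat_lit 76) (nat_lit 63085213938) (nat_lit 1) (nat_lit 4) (nat_lit 2) (nat_lit 5) (nat_lit 2) (nat_lit 4) (nat_lit 371) (nat_lit 214) (nat_lit 195)) (XT.nd (nat_lit 78) (nat_lit 0) (nat_lit 0) (XT.lf (nat_lit 0) (nat_lit 150951924251) (nat_lit 76) (nat_lit 66437716608) (nat_lit 76) (nat_lit 64888544783) (nat_lit 1) (nat_lit 4) (nat_lit 2) (nat_lit 5) (nat_lit 2) (nat_lit 4) (nat_lit 372) (nat_lit 214) (nat_lit 194)) (XT.lf (nat_lit 0) (nat_lit 161103593182) (nat_lit 76) (nat_lit 68406453215) (nat_lit 76) (nat_lit 66812661425) (nat_lit 1) (nat_lit 4) (nat_lit 2) (nat_lit 5) (nat_lit 2) (nat_lit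 4) (nat_lit 373) (nat_lit 214) (nat_lit 193))))) (XT.nd (nat_lit 156) (nat_lit 0) (nat_lit 0) (XT.nd (nat_lit 78) (nat_lit 0) (nat_lit 0) (XT.lf (nat_lit 0) (nat_lit 171710279582) (nat_lit 76) (nat_lit 70498432087) (nat_lit 76) (nat_lit 68862145092) (nat_lit 1) (nat_lit 4) (nat_lit 2) (nat_lit 5) (nat_lit 2) (nat_lit 4) (nat_lit 374) (nat_lit 214) (nat_lit 192)) (XT.lf (nat_lit 0) (nat_lit 182797237468) (nat_lit 76) (nat_lit 72718634128) (nat_lit 76) (nat_lit 71041875508) (nat_lit 1) (nat_lit 4) (nat_lit 2) (nat_lit 5) (nat_lit 2) (nat_lit 4) (nat_lit 375) (nat_lit 214) (nat_lit 191))) (XT.nd (nat_lit 78) (nat_lit 0) (nat_lit 0) (XT.lf (nat_lit 0) (nat_lit 194390864356) (nat_lit 76) (nat_lit 75072345532) (nat_lit 76) (nat_lit 73357042508) (nat_lit 1) (nat_lit 4) (nat_lit 2) (nat_lit 5) (nat_lit 2) (nat_lit 4) (nat_lit 376) (nat_lit 214) (nat_lit 190)) (XT.nd (nat_lit 78) (nat_lit 0)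 (nat_lit 0) (XT.lf (nat_lit 0) (nat_lit 206518764122) (nat_lit 76) (nat_lit 77565170374) (nat_lit 76) (nat_lit 75813158394) (nat_lit 1) (nat_lit 4) (nat_lit 2) (nat_lit 5) (nat_lit 2) (nat_lit 4) (nat_lit 377) (nat_lit 214) (nat_lit 189)) (XT.lf (nat_lit 0) (nat_lit 219209812716) (nat_lit 76) (nat_lit 80203043951) (nat_lit 76) (nat_lit 78416071061) (nat_lit 1) (nat_lit 4) (nat_lit 2) (nat_lit 5) (nat_lit 2) (nat_lit 4) (nat_lit 378) (nat_lit 214) (nat_lit 188))))))))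
noncomputable def xc11 : XT := (XT.nd (nat_lit 38844) (nat_lit 0) (nat_lit 0) (XT.nd (nat_lit 780) (nat_lit 0) (nat_lit 0) (XT.nd (nat_lit 390) (nat_lit 0) (nat_lit 0) (XT.nd (nat_lit 156) (nat_lit 0) (nat_lit 0) (XT.nd (nat_lit 78) (nat_lit 0) (nat_lit 0) (XT.lf (nat_lit 0) (nat_lit 232494226922) (nat_lit 76) (nat_lit 82992246915) (nat_lit 76) (nat_lit 81171977919) (nat_lit 1) (nat_lit 4) (nat_lit 2) (nat_lit 5) (nat_lit 2) (nat_lit 4) (nat_lit 379) (nat_lit 214) (nat_lit 187)) (XT.lf (nat_lit 0) (nat_lit 246403636296) (nat_lit 76) (nat_lit 85939420225) (nat_lit 76) (nat_lit 84087440652) (nat_lit 1) (nat_lit 4) (nat_lit 2) (nat_lit 5) (nat_lit 2) (nat_lit 4) (nat_lit 380) (nat_lit 214) (nat_lit 186))) (XT.nd (nat_lit 78) (nat_lit 0) (nat_lit 0) (XT.lf (nat_lit 0) (nat_lit 260971158481) (nat_lit 76) (nat_lit 89051580960) (nat_lit 76) (nat_lit 87169400839) (nat_lit 1) (nat_lit 4) (nat_lit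 2) (nat_lit 5) (nat_lit 2) (nat_lit 4) (nat_lit 381) (nat_lit 214) (nat_lit 185)) (XT.nd (nat_lit 78) (nat_lit 0) (nat_lit 0) (XT.lf (nat_lit 0) (nat_lit 276231478052) (nat_lit 76) (nat_lit 92336139027) (nat_lit 76) (nat_lit 90425196478) (nat_lit 1) (nat_lit 4) (nat_lit 2) (nat_lit 5) (nat_lit 2) (nat_lit 4) (nat_lit 382) (nat_lit 214) (nat_lit 184)) (XT.lf (nat_lit 0) (nat_lit 292220929105) (nat_lit 76) (nat_lit 95800914803) (nat_lit 76) (nat_lit 93862579465) (nat_lit 1) (nat_lit 4) (nat_lit 2) (nat_lit 5) (nat_lit 2) (nat_lit 4) (nat_lit 383) (nat_lit 214) (nat_lit 183))))) (XT.nd (nat_lit 156) (nat_lit 0) (nat_lit 0) (XT.nd (nat_lit 78) (nat_lit 0) (nat_lit 0) (XT.lf (nat_lit 0) (nat_lit 308977581760) (nat_lit 76) (nat_lit 99454157753) (nat_lit 76) (nat_lit 97489734045) (nat_lit 1) (nat_lit 4) (nat_lit 2) (nat_lit 5) (nat_lit 2) (nat_lit 4) (nat_lit 384) (nat_lit 214) (nat_lit 182))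 (XT.lf (nat_lit 0) (nat_lit 326541332810) (nat_lit 76) (nat_lit 103304566074) (nat_lit 76) (nat_lit 101315296301) (nat_lit 1) (nat_lit 4) (nat_lit 2) (nat_lit 5) (nat_lit 2) (nat_lit 4) (nat_lit 385) (nat_lit 214) (nat_lit 181))) (XT.nd (nat_lit 78) (nat_lit 0) (nat_lit 0) (XT.lf (nat_lit 0) (nat_lit 344954000709) (nat_lit 76) (nat_lit 107361307407) (nat_lit 76) (nat_lit 105348374713) (nat_lit 1) (nat_lit 4) (nat_lit 2) (nat_lit 5) (nat_lit 2) (nat_lit 4) (nat_lit 386) (nat_lit 214) (nat_lit 180)) (XT.nd (nat_lit 78) (nat_lit 0) (nat_lit 0) (XT.lf (nat_lit 0) (nat_lit 364259425144) (nat_lit 76) (nat_lit 111634040658) (nat_lit 76) (nat_lit 109598571849) (nat_lit 1) (nat_lit 4) (nat_lit 2) (nat_lit 5) (nat_lit 2) (nat_lit 4) (nat_lit 387) (nat_lit 214) (nat_lit 179)) (XT.lf (nat_lit 0) (nat_lit 384503571409) (nat_lit 76) (nat_lit 116132939002) (nat_lit 76) (nat_lit 114076007227) (nat_lit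 1) (nat_lit 4) (nat_lit 2) (nat_lit 5) (nat_lit 2) (nat_lit 4) (nat_lit 388) (nat_lit 214) (nat_lit 178)))))) (XT.nd (nat_lit 37674) (nat_lit 0) (nat_lit 0) (XT.nd (nat_lit 156) (nat_lit 0) (nat_lit 0) (XT.nd (nat_lit 78) (nat_lit 0) (nat_lit 0) (XT.lf (nat_lit 0) (nat_lit 405734639855) (nat_lit 76) (nat_lit 120868714102) (nat_lit 76) (nat_lit 118791341406) (nat_lit 1) (nat_lit 4) (nat_lit 2) (nat_lit 5) (nat_lit 2) (nat_lit 4) (nat_lit 389) (nat_lit 214) (nat_lit 177)) (XT.lf (nat_lit 0) (nat_lit 428003180642) (nat_lit 76) (nat_lit 125852641613) (nat_lit 76) (nat_lit 123755801374) (nat_lit 1) (nat_lit 4) (nat_lit 2) (nat_lit 5) (nat_lit 2) (nat_lit 4) (nat_lit 390) (nat_lit 214) (nat_lit 176))) (XT.nd (nat_lit 78) (nat_lit 0) (nat_lit 0) (XT.lf (nat_lit 0) (nat_lit 451362214108) (nat_lit 76) (nat_lit 131096588029) (nat_lit 76) (nat_lit 128981207273) (nat_lit 1) (nat_lit 4) (nat_lit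 2) (nat_lit 5) (nat_lit 2) (nat_lit 4) (nat_lit 391) (nat_lit 214) (nat_lit 175)) (XT.nd (nat_lit 37362) (nat_lit 0) (nat_lit 0) (XT.lf (nat_lit 0) (nat_lit 475867356997) (nat_lit 76) (nat_lit 136613038936) (nat_lit 76) (nat_lit 134480000544) (nat_lit 1) (nat_lit 4) (nat_lit 2) (nat_lit 5) (nat_lit 2) (nat_lit 4) (nat_lit 392) (nat_lit 214) (nat_lit 174)) (XT.lf (nat_lit 0) (nat_lit 1358740243) (nat_lit 76) (nat_lit 23770465636) (nat_lit 76) (nat_lit 23770465636) (nat_lit 1) (nat_lit 4) (nat_lit 2) (nat_lit 5) (nat_lit 2) (nat_lit 4) (nat_lit 350) (nat_lit 215) (nat_lit 215))))) (XT.nd (nat_lit 156) (nat_lit 0) (nat_lit 0) (XT.nd (nat_lit 78) (nat_lit 0) (nat_lit 0) (XT.lf (nat_lit 0) (nat_lit 7503934829) (nat_lit 76) (nat_lit 47592883682) (nat_lit 76) (nat_lit 47468574126) (nat_lit 1) (nat_lit 4) (nat_lit 2) (nat_lit 5) (nat_lit 2) (nat_lit 4) (nat_lit 351) (nat_lit 215) (nat_lit 214))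 (XT.lf (nat_lit 0) (nat_lit 12383265044) (nat_lit 76) (nat_lit 47716540727) (nat_lit 76) (nat_lit 47473841119) (nat_lit 1) (nat_lit 4) (nat_lit 2) (nat_lit 5) (nat_lit 2) (nat_lit 4) (nat_lit 352) (nat_lit 215) (nat_lit 213))) (XT.nd (nat_lit 78) (nat_lit 0) (nat_lit 0) (XT.lf (nat_lit 0) (nat_lit 17367088583) (nat_lit 76) (nat_lit 47912196830) (nat_lit 76) (nat_lit 47556744791) (nat_lit 1) (nat_lit 4) (nat_lit 2) (nat_lit 5) (nat_lit 2) (nat_lit 4) (nat_lit 353) (nat_lit 215) (nat_lit 212)) (XT.nd (nat_lit 78) (nat_lit 0) (nat_lit 0) (XT.lf (nat_lit 0) (nat_lit 22467271692) (nat_lit 76) (nat_lit 48180317838) (nat_lit 76) (nat_lit 47717482532) (nat_lit 1) (nat_lit 4) (nat_lit 2) (nat_lit 5) (nat_lit 2) (nat_lit 4) (nat_lit 354) (nat_lit 215) (nat_lit 211)) (XT.lf (nat_lit 0) (nat_lit 27695957666) (nat_lit 76) (nat_lit 48521542135) (nat_lit 76) (nat_lit 47956437049) (nat_lit 1) (nat_lit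 4) (nat_lit 2) (nat_lit 5) (nat_lit 2) (nat_lit 4) (nat_lit 355) (nat_lit 215) (nat_lit 210))))))) (XT.nd (nat_lit 780) (nat_lit 0) (nat_lit 0) (XT.nd (nat_lit 390) (nat_lit 0) (nat_lit 0) (XT.nd (nat_lit 156) (nat_lit 0) (nat_lit 0) (XT.nd (nat_lit 78) (nat_lit 0) (nat_lit 0) (XT.lf (nat_lit 0) (nat_lit 33065595756) (nat_lit 76) (nat_lit 48936682158) (nat_lit 76) (nat_lit 48274177284) (nat_lit 1) (nat_lit 4) (nat_lit 2) (nat_lit 5) (nat_lit 2) (nat_lit 4) (nat_lit 356) (nat_lit 215) (nat_lit 209)) (XT.lf (nat_lit 0) (nat_lit 38588970816) (nat_lit 76) (nat_lit 49426726338) (nat_lit 76) (nat_lit 48671459760) (nat_lit 1) (nat_lit 4) (nat_lit 2) (nat_lit 5) (nat_lit 2) (nat_lit 4) (nat_lit 357) (nat_lit 215) (nat_lit 208))) (XT.nd (nat_lit 78) (nat_lit 0) (nat_lit 0) (XT.lf (nat_lit 0) (nat_lit 44279233737) (nat_lit 76) (nat_lit 49992841446) (nat_lit 76) (nat_lit 49149230388) (nat_lit 1)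 (nat_lit 4) (nat_lit 2) (nat_lit 5) (nat_lit 2) (nat_lit 4) (nat_lit 358) (nat_lit 215) (nat_lit 207)) (XT.nd (nat_lit 78) (nat_lit 0) (nat_lit 0) (XT.lf (nat_lit 0) (nat_lit 50149932765) (nat_lit 76) (nat_lit 50636375375) (nat_lit 76) (nat_lit 49708626717) (nat_lit 1) (nat_lit 4) (nat_lit 2) (nat_lit 5) (nat_lit 2) (nat_lit 4) (nat_lit 359) (nat_lit 215) (nat_lit 206)) (XT.lf (nat_lit 0) (nat_lit 56215045755) (nat_lit 76) (nat_lit 51358860349) (nat_lit 76) (nat_lit 50350980642) (nat_lit 1) (nat_lit 4) (nat_lit 2) (nat_lit 5) (nat_lit 2) (nat_lit 4) (nat_lit 360) (nat_lit 215) (nat_lit 205))))) (XT.nd (nat_lit 156) (nat_lit 0) (nat_lit 0) (XT.nd (nat_lit 78) (nat_lit 0) (nat_lit 0) (XT.lf (nat_lit 0) (nat_lit 62489013451) (nat_lit 76) (nat_lit 52162016569) (nat_lit 76) (nat_lit 51077821579) (nat_lit 1) (nat_lit 4) (nat_lit 2) (nat_lit 5) (nat_lit 2) (nat_lit 4) (nat_lit 361) (nat_lit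 215) (nat_lit 204)) (XT.lf (nat_lit 0) (nat_lit 68986773874) (nat_lit 76) (nat_lit 53047756313) (nat_lit 76) (nat_lit 51890880101) (nat_lit 1) (nat_lit 4) (nat_lit 2) (nat_lit 5) (nat_lit 2) (nat_lit 4) (nat_lit 362) (nat_lit 215) (nat_lit 203))) (XT.nd (nat_lit 78) (nat_lit 0) (nat_lit 0) (XT.lf (nat_lit 0) (nat_lit 75723797879) (nat_lit 76) (nat_lit 54018188485) (nat_lit 76) (nat_lit 52792092061) (nat_lit 1) (nat_lit 4) (nat_lit 2) (nat_lit 5) (nat_lit 2) (nat_lit 4) (nat_lit 363) (nat_lit 215) (nat_lit 202)) (XT.nd (nat_lit 78) (nat_lit 0) (nat_lit 0) (XT.lf (nat_lit 0) (nat_lit 82716126002) (nat_lit 76) (nat_lit 55075623637) (nat_lit 76) (nat_lit 53783603202) (nat_lit 1) (nat_lit 4) (nat_lit 2) (nat_lit 5) (nat_lit 2) (nat_lit 4) (nat_lit 364) (nat_lit 215) (nat_lit 201)) (XT.lf (nat_lit 0) (nat_lit 89980406641) (nat_lit 76) (nat_lit 56222579473) (nat_lit 76) (nat_lit 54867774265)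 (nat_lit 1) (nat_lit 4) (nat_lit 2) (nat_lit 5) (nat_lit 2) (nat_lit 4) (nat_lit 365) (nat_lit 215) (nat_lit 200)))))) (XT.nd (nat_lit 390) (nat_lit 0) (nat_lit 0) (XT.nd (nat_lit 156) (nat_lit 0) (nat_lit 0) (XT.nd (nat_lit 78) (nat_lit 0) (nat_lit 0) (XT.lf (nat_lit 0) (nat_lit 97533935705) (nat_lit 76) (nat_lit 57461786839) (nat_lit 76) (nat_lit 56047186610) (nat_lit 1) (nat_lit 4) (nat_lit 2) (nat_lit 5) (nat_lit 2) (nat_lit 4) (nat_lit 366) (nat_lit 215) (nat_lit 199)) (XT.lf (nat_lit 0) (nat_lit 105394697784) (nat_lit 76) (nat_lit 58796196229) (nat_lit 76) (nat_lit 57324648361) (nat_lit 1) (nat_lit 4) (nat_lit 2) (nat_lit 5) (nat_lit 2) (nat_lit 4) (nat_lit 367) (nat_lit 215) (nat_lit 198))) (XT.nd (nat_lit 78) (nat_lit 0) (nat_lit 0) (XT.lf (nat_lit 0) (nat_lit 113581408980) (nat_lit 76) (nat_lit 60228984809) (nat_lit 76) (nat_lit 58703201094) (nat_lit 1) (nat_lit 4) (nat_lit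 2) (nat_lit 5) (nat_lit 2) (nat_lit 4) (nat_lit 368) (nat_lit 215) (nat_lit 197)) (XT.nd (nat_lit 78) (nat_lit 0) (nat_lit 0) (XT.lf (nat_lit 0) (nat_lit 122113561462) (nat_lit 76) (nat_lit 61763563980) (nat_lit 76) (nat_lit 60186127077) (nat_lit 1) (nat_lit 4) (nat_lit 2) (nat_lit 5) (nat_lit 2) (nat_lit 4) (nat_lit 369) (nat_lit 215) (nat_lit 196)) (XT.lf (nat_lit 0) (nat_lit 131011469879) (nat_lit 76) (nat_lit 63403587502) (nat_lit 76) (nat_lit 61776957086) (nat_lit 1) (nat_lit 4) (nat_lit 2) (nat_lit 5) (nat_lit 2) (nat_lit 4) (nat_lit 370) (nat_lit 215) (nat_lit 195))))) (XT.nd (nat_lit 234) (nat_lit 0) (nat_lit 0) (XT.nd (nat_lit 78) (nat_lit 0) (nat_lit 0) (XT.lf (nat_lit 0) (nat_lit 140296319728) (nat_lit 76) (nat_lit 65152960192) (nat_lit 76) (nat_lit 63479478813) (nat_lit 1) (nat_lit 4) (nat_lit 2) (nat_lit 5) (nat_lit 2) (nat_lit 4) (nat_lit 371) (nat_lit 215) (nat_lit 194))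 (XT.nd (nat_lit 78) (nat_lit 0) (nat_lit 0) (XT.lf (nat_lit 0) (nat_lit 149990217792) (nat_lit 76) (nat_lit 67015847225) (nat_lit 76) (nat_lit 65297745879) (nat_lit 1) (nat_lit 4) (nat_lit 2) (nat_lit 5) (nat_lit 2) (nat_lit 4) (nat_lit 372) (nat_lit 215) (nat_lit 193)) (XT.lf (nat_lit 0) (nat_lit 160116244783) (nat_lit 76) (nat_lit 68996684044) (nat_lit 76) (nat_lit 67236087493) (nat_lit 1) (nat_lit 4) (nat_lit 2) (nat_lit 5) (nat_lit 2) (nat_lit 4) (nat_lit 373) (nat_lit 215) (nat_lit 192)))) (XT.nd (nat_lit 78) (nat_lit 0) (nat_lit 0) (XT.lf (nat_lit 0) (nat_lit 170698510288) (nat_lit 76) (nat_lit 71100186929) (nat_lit 76) (nat_lit 69299118754) (nat_lit 1) (nat_lit 4) (nat_lit 2) (nat_lit 5) (nat_lit 2) (nat_lit 4) (nat_lit 374) (nat_lit 215) (nat_lit 191)) (XT.nd (nat_lit 78) (nat_lit 0) (nat_lit 0) (XT.lf (nat_lit 0) (nat_lit 181762210178) (nat_lit 76) (nat_lit 73331364219) (nat_lit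 76) (nat_lit 71491751640) (nat_lit 1) (nat_lit 4) (nat_lit 2) (nat_lit 5) (nat_lit 2) (nat_lit 4) (nat_lit 375) (nat_lit 215) (nat_lit 190)) (XT.lf (nat_lit 0) (nat_lit 193333686595) (nat_lit 76) (nat_lit 75695528241) (nat_lit 76) (nat_lit 73819206706) (nat_lit 1) (nat_lit 4) (nat_lit 2) (nat_lit 5) (nat_lit 2) (nat_lit 4) (nat_lit 376) (nat_lit 215) (nat_lit 189))))))))
noncomputable def xc12 : XT := (XT.nd (nat_lit 38688) (nat_lit 0) (nat_lit 0) (XT.nd (nat_lit 780) (nat_lit 0) (nat_lit 0) (XT.nd (nat_lit 390) (nat_lit 0) (nat_lit 0) (XT.nd (nat_lit 156) (nat_lit 0) (nat_lit 0) (XT.nd (nat_lit 78) (nat_lit 0) (nat_lit 0) (XT.lf (nat_lit 0) (nat_lit 205440490673) (nat_lit 76) (nat_lit 78198307958) (nat_lit 76) (nat_lit 76287025512) (nat_lit 1) (nat_lit 4) (nat_lit 2) (nat_lit 5) (nat_lit 2) (nat_lit 4) (nat_lit 377) (nat_lit 215) (nat_lit 188)) (XT.lf (nat_lit 0) (nat_lit 218111448136)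 (nat_lit 76) (nat_lit 80845662368) (nat_lit 76) (nat_lit 78901083817) (nat_lit 1) (nat_lit 4) (nat_lit 2) (nat_lit 5) (nat_lit 2) (nat_lit 4) (nat_lit 378) (nat_lit 215) (nat_lit 187))) (XT.nd (nat_lit 78) (nat_lit 0) (nat_lit 0) (XT.lf (nat_lit 0) (nat_lit 231376727931) (nat_lit 76) (nat_lit 83643894697) (nat_lit 76) (nat_lit 81667605569) (nat_lit 1) (nat_lit 4) (nat_lit 2) (nat_lit 5) (nat_lit 2) (nat_lit 4) (nat_lit 379) (nat_lit 215) (nat_lit 186)) (XT.nd (nat_lit 78) (nat_lit 0) (nat_lit 0) (XT.lf (nat_lit 0) (nat_lit 245267914058) (nat_lit 76) (nat_lit 86599667402) (nat_lit 76) (nat_lit 84593177725) (nat_lit 1) (nat_lit 4) (nat_lit 2) (nat_lit 5) (nat_lit 2) (nat_lit 4) (nat_lit 380) (nat_lit 215) (nat_lit 185)) (XT.lf (nat_lit 0) (nat_lit 259818080768) (nat_lit 76) (nat_lit 89720018037) (nat_lit 76) (nat_lit 87684765932) (nat_lit 1) (nat_lit 4) (nat_lit 2) (nat_lit 5) (nat_lit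 2) (nat_lit 4) (nat_lit 381) (nat_lit 215) (nat_lit 184))))) (XT.nd (nat_lit 156) (nat_lit 0) (nat_lit 0) (XT.nd (nat_lit 78) (nat_lit 0) (nat_lit 0) (XT.lf (nat_lit 0) (nat_lit 275061871316) (nat_lit 76) (nat_lit 93012376009) (nat_lit 76) (nat_lit 90949731116) (nat_lit 1) (nat_lit 4) (nat_lit 2) (nat_lit 5) (nat_lit 2) (nat_lit 4) (nat_lit 382) (nat_lit 215) (nat_lit 183)) (XT.lf (nat_lit 0) (nat_lit 291035580442) (nat_lit 76) (nat_lit 96484580265) (nat_lit 76) (nat_lit 94395847003) (nat_lit 1) (nat_lit 4) (nat_lit 2) (nat_lit 5) (nat_lit 2) (nat_lit 4) (nat_lit 383) (nat_lit 215) (nat_lit 182))) (XT.nd (nat_lit 78) (nat_lit 0) (nat_lit 0) (XT.lf (nat_lit 0) (nat_lit 307777240786) (nat_lit 76) (nat_lit 100144897959) (nat_lit 76) (nat_lit 98031318630) (nat_lit 1) (nat_lit 4) (nat_lit 2) (nat_lit 5) (nat_lit 2) (nat_lit 4) (nat_lit 384) (nat_lit 215) (nat_lit 181)) (XT.nd (nat_lit 78)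 (nat_lit 0) (nat_lit 0) (XT.lf (nat_lit 0) (nat_lit 325326713444) (nat_lit 76) (nat_lit 104002044131) (nat_lit 76) (nat_lit 101864801882) (nat_lit 1) (nat_lit 4) (nat_lit 2) (nat_lit 5) (nat_lit 2) (nat_lit 4) (nat_lit 385) (nat_lit 215) (nat_lit 180)) (XT.lf (nat_lit 0) (nat_lit 343725782875) (nat_lit 76) (nat_lit 108065202465) (nat_lit 76) (nat_lit 105905424101) (nat_lit 1) (nat_lit 4) (nat_lit 2) (nat_lit 5) (nat_lit 2) (nat_lit 4) (nat_lit 386) (nat_lit 215) (nat_lit 179)))))) (XT.nd (nat_lit 390) (nat_lit 0) (nat_lit 0) (XT.nd (nat_lit 156) (nat_lit 0) (nat_lit 0) (XT.nd (nat_lit 78) (nat_lit 0) (nat_lit 0) (XT.lf (nat_lit 0) (nat_lit 363018256387) (nat_lit 76) (nat_lit 112344047146) (nat_lit 76) (nat_lit 110162805815) (nat_lit 1) (nat_lit 4) (nat_lit 2) (nat_lit 5) (nat_lit 2) (nat_lit 4) (nat_lit 387) (nat_lit 215) (nat_lit 178)) (XT.lf (nat_lit 0) (nat_lit 383250068442) (nat_lit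 76) (nat_lit 116848765899) (nat_lit 76) (nat_lit 114647083648) (nat_lit 1) (nat_lit 4) (nat_lit 2) (nat_lit 5) (nat_lit 2) (nat_lit 4) (nat_lit 388) (nat_lit 215) (nat_lit 177))) (XT.nd (nat_lit 78) (nat_lit 0) (nat_lit 0) (XT.lf (nat_lit 0) (nat_lit 404469390019) (nat_lit 76) (nat_lit 121590084246) (nat_lit 76) (nat_lit 119368934451) (nat_lit 1) (nat_lit 4) (nat_lit 2) (nat_lit 5) (nat_lit 2) (nat_lit 4) (nat_lit 389) (nat_lit 215) (nat_lit 176)) (XT.nd (nat_lit 78) (nat_lit 0) (nat_lit 0) (XT.lf (nat_lit 0) (nat_lit 426726743313) (nat_lit 76) (nat_lit 126579291039) (nat_lit 76) (nat_lit 124339600728) (nat_lit 1) (nat_lit 4) (nat_lit 2) (nat_lit 5) (nat_lit 2) (nat_lit 4) (nat_lit 390) (nat_lit 215) (nat_lit 175)) (XT.lf (nat_lit 0) (nat_lit 450075122022) (nat_lit 76) (nat_lit 131828265343) (nat_lit 76) (nat_lit 129570917396) (nat_lit 1) (nat_lit 4) (nat_lit 2) (nat_lit 5) (nat_lit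 2) (nat_lit 4) (nat_lit 391) (nat_lit 215) (nat_lit 174))))) (XT.nd (nat_lit 37284) (nat_lit 0) (nat_lit 0) (XT.nd (nat_lit 37206) (nat_lit 0) (nat_lit 76) (XT.lf (nat_lit 0) (nat_lit 474570117525) (nat_lit 76) (nat_lit 137349504715) (nat_lit 76) (nat_lit 135075339972) (nat_lit 1) (nat_lit 4) (nat_lit 2) (nat_lit 5) (nat_lit 2) (nat_lit 4) (nat_lit 392) (nat_lit 215) (nat_lit 173)) (XT.lf (nat_lit 0) (nat_lit 20651952111) (nat_lit 152) (nat_lit 3167000674) (nat_lit 0) (nat_lit 20651952111) (nat_lit 2) (nat_lit 5) (nat_lit 4) (nat_lit 4) (nat_lit 2) (nat_lit 4) (nat_lit 348) (nat_lit 216) (nat_lit 216))) (XT.nd (nat_lit 78) (nat_lit 76) (nat_lit 0) (XT.lf (nat_lit 0) (nat_lit 45734620886) (nat_lit 152) (nat_lit 1923882075) (nat_lit 0) (nat_lit 45604095853) (nat_lit 2) (nat_lit 5) (nat_lit 4) (nat_lit 4) (nat_lit 2) (nat_lit 4) (nat_lit 349) (nat_lit 216) (nat_lit 215)) (XT.nd (nat_lit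 78) (nat_lit 0) (nat_lit 0) (XT.lf (nat_lit 0) (nat_lit 2642471126) (nat_lit 76) (nat_lit 47706852581) (nat_lit 76) (nat_lit 47452017993) (nat_lit 1) (nat_lit 4) (nat_lit 2) (nat_lit 5) (nat_lit 2) (nat_lit 4) (nat_lit 350) (nat_lit 216) (nat_lit 214)) (XT.lf (nat_lit 0) (nat_lit 7357487983) (nat_lit 76) (nat_lit 47792515730) (nat_lit 76) (nat_lit 47419291089) (nat_lit 1) (nat_lit 4) (nat_lit 2) (nat_lit 5) (nat_lit 2) (nat_lit 4) (nat_lit 351) (nat_lit 216) (nat_lit 213))))))) (XT.nd (nat_lit 780) (nat_lit 0) (nat_lit 0) (XT.nd (nat_lit 390) (nat_lit 0) (nat_lit 0) (XT.nd (nat_lit 156) (nat_lit 0) (nat_lit 0) (XT.nd (nat_lit 78) (nat_lit 0) (nat_lit 0) (XT.lf (nat_lit 0) (nat_lit 12168782497) (nat_lit 76) (nat_lit 47948278241) (nat_lit 76) (nat_lit 47462301170) (nat_lit 1) (nat_lit 4) (nat_lit 2) (nat_lit 5) (nat_lit 2) (nat_lit 4) (nat_lit 352) (nat_lit 216) (nat_lit 212)) (XT.lf (nat_lit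 0) (nat_lit 17087810131) (nat_lit 76) (nat_lit 48174510978) (nat_lit 76) (nat_lit 47581150639) (nat_lit 1) (nat_lit 4) (nat_lit 2) (nat_lit 5) (nat_lit 2) (nat_lit 4) (nat_lit 353) (nat_lit 216) (nat_lit 211))) (XT.nd (nat_lit 78) (nat_lit 0) (nat_lit 0) (XT.lf (nat_lit 0) (nat_lit 22126282855) (nat_lit 76) (nat_lit 48471752590) (nat_lit 76) (nat_lit 47776122472) (nat_lit 1) (nat_lit 4) (nat_lit 2) (nat_lit 5) (nat_lit 2) (nat_lit 4) (nat_lit 354) (nat_lit 216) (nat_lit 210)) (XT.nd (nat_lit 78) (nat_lit 0) (nat_lit 0) (XT.lf (nat_lit 0) (nat_lit 27296197032) (nat_lit 76) (nat_lit 48840710795) (nat_lit 76) (nat_lit 48047680888) (nat_lit 1) (nat_lit 4) (nat_lit 2) (nat_lit 5) (nat_lit 2) (nat_lit 4) (nat_lit 355) (nat_lit 216) (nat_lit 209)) (XT.lf (nat_lit 0) (nat_lit 32609861983) (nat_lit 76) (nat_lit 49282264066) (nat_lit 76) (nat_lit 48396472454) (nat_lit 1) (nat_lit 4) (nat_lit 2)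 (nat_lit 5) (nat_lit 2) (nat_lit 4) (nat_lit 356) (nat_lit 216) (nat_lit 208))))) (XT.nd (nat_lit 156) (nat_lit 0) (nat_lit 0) (XT.nd (nat_lit 78) (nat_lit 0) (nat_lit 0) (XT.lf (nat_lit 0) (nat_lit 38079929290) (nat_lit 76) (nat_lit 49797463718) (nat_lit 76) (nat_lit 48823327627) (nat_lit 1) (nat_lit 4) (nat_lit 2) (nat_lit 5) (nat_lit 2) (nat_lit 4) (nat_lit 357) (nat_lit 216) (nat_lit 207)) (XT.lf (nat_lit 0) (nat_lit 43719422924) (nat_lit 76) (nat_lit 50387536419) (nat_lit 76) (nat_lit 49329262728) (nat_lit 1) (nat_lit 4) (nat_lit 2) (nat_lit 5) (nat_lit 2) (nat_lit 4) (nat_lit 358) (nat_lit 216) (nat_lit 206))) (XT.nd (nat_lit 78) (nat_lit 0) (nat_lit 0) (XT.lf (nat_lit 0) (nat_lit 49541770250) (nat_lit 76) (nat_lit 51053887103) (nat_lit 76) (nat_lit 49915482364) (nat_lit 1) (nat_lit 4) (nat_lit 2) (nat_lit 5) (nat_lit 2) (nat_lit 4) (nat_lit 359) (nat_lit 216) (nat_lit 205)) (XT.nd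 (nat_lit 78) (nat_lit 0) (nat_lit 0) (XT.lf (nat_lit 0) (nat_lit 55560834000) (nat_lit 76) (nat_lit 51798102319) (nat_lit 76) (nat_lit 50583382297) (nat_lit 1) (nat_lit 4) (nat_lit 2) (nat_lit 5) (nat_lit 2) (nat_lit 4) (nat_lit 360) (nat_lit 216) (nat_lit 204)) (XT.lf (nat_lit 0) (nat_lit 61790945277) (nat_lit 76) (nat_lit 52621954009) (nat_lit 76) (nat_lit 51334552765) (nat_lit 1) (nat_lit 4) (nat_lit 2) (nat_lit 5) (nat_lit 2) (nat_lit 4) (nat_lit 361) (nat_lit 216) (nat_lit 203)))))) (XT.nd (nat_lit 390) (nat_lit 0) (nat_lit 0) (XT.nd (nat_lit 156) (nat_lit 0) (nat_lit 0) (XT.nd (nat_lit 78) (nat_lit 0) (nat_lit 0) (XT.lf (nat_lit 0) (nat_lit 68246937681) (nat_lit 76) (nat_lit 53527403724) (nat_lit 76) (nat_lit 52170782268) (nat_lit 1) (nat_lit 4) (nat_lit 2) (nat_lit 5) (nat_lit 2) (nat_lit 4) (nat_lit 362) (nat_lit 216) (nat_lit 202)) (XT.lf (nat_lit 0) (nat_lit 74944182622) (nat_lit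 76) (nat_lit 54516607297) (nat_lit 76) (nat_lit 53094061829) (nat_lit 1) (nat_lit 4) (nat_lit 2) (nat_lit 5) (nat_lit 2) (nat_lit 4) (nat_lit 363) (nat_lit 216) (nat_lit 201))) (XT.nd (nat_lit 78) (nat_lit 0) (nat_lit 0) (XT.lf (nat_lit 0) (nat_lit 81898625920) (nat_lit 76) (nat_lit 55591919974) (nat_lit 76) (nat_lit 54106589734) (nat_lit 1) (nat_lit 4) (nat_lit 2) (nat_lit 5) (nat_lit 2) (nat_lit 4) (nat_lit 364) (nat_lit 216) (nat_lit 200)) (XT.nd (nat_lit 78) (nat_lit 0) (nat_lit 0) (XT.lf (nat_lit 0) (nat_lit 89126825775) (nat_lit 76) (nat_lit 56755902024) (nat_lit 76) (nat_lit 55210776762) (nat_lit 1) (nat_lit 4) (nat_lit 2) (nat_lit 5) (nat_lit 2) (nat_lit 4) (nat_lit 365) (nat_lit 216) (nat_lit 199)) (XT.lf (nat_lit 0) (nat_lit 96645992186) (nat_lit 76) (nat_lit 58011324832) (nat_lit 76) (nat_lit 56409251931) (nat_lit 1) (nat_lit 4) (nat_lit 2) (nat_lit 5) (nat_lit 2) (nat_lit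 4) (nat_lit 366) (nat_lit 216) (nat_lit 198))))) (XT.nd (nat_lit 156) (nat_lit 0) (nat_lit 0) (XT.nd (nat_lit 78) (nat_lit 0) (nat_lit 0) (XT.lf (nat_lit 0) (nat_lit 104474027930) (nat_lit 76) (nat_lit 59361177501) (nat_lit 76) (nat_lit 57704868752) (nat_lit 1) (nat_lit 4) (nat_lit 2) (nat_lit 5) (nat_lit 2) (nat_lit 4) (nat_lit 367) (nat_lit 216) (nat_lit 197)) (XT.lf (nat_lit 0) (nat_lit 112629571188) (nat_lit 76) (nat_lit 60808673965) (nat_lit 76) (nat_lit 59100712028) (nat_lit 1) (nat_lit 4) (nat_lit 2) (nat_lit 5) (nat_lit 2) (nat_lit 4) (nat_lit 368) (nat_lit 216) (nat_lit 196))) (XT.nd (nat_lit 78) (nat_lit 0) (nat_lit 0) (XT.lf (nat_lit 0) (nat_lit 121132039919) (nat_lit 76) (nat_lit 62357260644) (nat_lit 76) (nat_lit 60600105195) (nat_lit 1) (nat_lit 4) (nat_lit 2) (nat_lit 5) (nat_lit 2) (nat_lit 4) (nat_lit 369) (nat_lit 216) (nat_lit 195)) (XT.nd (nat_lit 78) (nat_lit 0)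 (nat_lit 0) (XT.lf (nat_lit 0) (nat_lit 130001678098) (nat_lit 76) (nat_lit 64010624650) (nat_lit 76) (nat_lit 62206618237) (nat_lit 1) (nat_lit 4) (nat_lit 2) (nat_lit 5) (nat_lit 2) (nat_lit 4) (nat_lit 370) (nat_lit 216) (nat_lit 194)) (XT.lf (nat_lit 0) (nat_lit 139259603909) (nat_lit 76) (nat_lit 65772702563) (nat_lit 76) (nat_lit 63924076185) (nat_lit 1) (nat_lit 4) (nat_lit 2) (nat_lit 5) (nat_lit 2) (nat_lit 4) (nat_lit 371) (nat_lit 216) (nat_lit 193))))))))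
noncomputable def xc13 : XT := (XT.nd (nat_lit 1560) (nat_lit 0) (nat_lit 0) (XT.nd (nat_lit 780) (nat_lit 0) (nat_lit 0) (XT.nd (nat_lit 390) (nat_lit 0) (nat_lit 0) (XT.nd (nat_lit 156) (nat_lit 0) (nat_lit 0) (XT.nd (nat_lit 78) (nat_lit 0) (nat_lit 0) (XT.lf (nat_lit 0) (nat_lit 148927860034) (nat_lit 76) (nat_lit 67647689808) (nat_lit 76) (nat_lit 65756568224) (nat_lit 1) (nat_lit 4) (nat_lit 2) (nat_lit 5) (nat_lit 2) (nat_lit 4) (nat_lit 372) (nat_lit 216) (nat_lit 192)) (XT.lf (nat_lit 0) (nat_lit 159029466129) (nat_lit 76) (nat_lit 69640050639) (nat_lit 76) (nat_lit 67708457431) (nat_lit 1) (nat_lit 4) (nat_lit 2) (nat_lit 5) (nat_lit 2) (nat_lit 4) (nat_lit 373) (nat_lit 216) (nat_lit 191))) (XT.nd (nat_lit 78) (nat_lit 0) (nat_lit 0) (XT.lf (nat_lit 0) (nat_lit 169588473639) (nat_lit 76) (nat_lit 71754528773) (nat_lit 76) (nat_lit 69784391161) (nat_lit 1) (nat_lit 4) (nat_lit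 2) (nat_lit 5) (nat_lit 2) (nat_lit 4) (nat_lit 374) (nat_lit 216) (nat_lit 190)) (XT.nd (nat_lit 78) (nat_lit 0) (nat_lit 0) (XT.lf (nat_lit 0) (nat_lit 180630023056) (nat_lit 76) (nat_lit 73996158682) (nat_lit 76) (nat_lit 71989312114) (nat_lit 1) (nat_lit 4) (nat_lit 2) (nat_lit 5) (nat_lit 2) (nat_lit 4) (nat_lit 375) (nat_lit 216) (nat_lit 189)) (XT.lf (nat_lit 0) (nat_lit 192180403786) (nat_lit 76) (nat_lit 76370277579) (nat_lit 76) (nat_lit 74328470100) (nat_lit 1) (nat_lit 4) (nat_lit 2) (nat_lit 5) (nat_lit 2) (nat_lit 4) (nat_lit 376) (nat_lit 216) (nat_lit 188))))) (XT.nd (nat_lit 156) (nat_lit 0) (nat_lit 0) (XT.nd (nat_lit 78) (nat_lit 0) (nat_lit 0) (XT.lf (nat_lit 0) (nat_lit 204267116733) (nat_lit 76) (nat_lit 78882538128) (nat_lit 76) (nat_lit 76807434544) (nat_lit 1) (nat_lit 4) (nat_lit 2) (nat_lit 5) (nat_lit 2) (nat_lit 4) (nat_lit 377) (nat_lit 216) (nat_lit 187))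 (XT.lf (nat_lit 0) (nat_lit 216918939786) (nat_lit 76) (nat_lit 81538921903) (nat_lit 76) (nat_lit 79432107743) (nat_lit 1) (nat_lit 4) (nat_lit 2) (nat_lit 5) (nat_lit 2) (nat_lit 4) (nat_lit 378) (nat_lit 216) (nat_lit 186))) (XT.nd (nat_lit 78) (nat_lit 0) (nat_lit 0) (XT.lf (nat_lit 0) (nat_lit 230165996333) (nat_lit 76) (nat_lit 84345753627) (nat_lit 76) (nat_lit 82208738917) (nat_lit 1) (nat_lit 4) (nat_lit 2) (nat_lit 5) (nat_lit 2) (nat_lit 4) (nat_lit 379) (nat_lit 216) (nat_lit 185)) (XT.nd (nat_lit 78) (nat_lit 0) (nat_lit 0) (XT.lf (nat_lit 0) (nat_lit 244039826985) (nat_lit 76) (nat_lit 87309716232) (nat_lit 76) (nat_lit 85143939095) (nat_lit 1) (nat_lit 4) (nat_lit 2) (nat_lit 5) (nat_lit 2) (nat_lit 4) (nat_lit 380) (nat_lit 216) (nat_lit 184)) (XT.lf (nat_lit 0) (nat_lit 258573464672) (nat_lit 76) (nat_lit 90437866772) (nat_lit 76) (nat_lit 88244696847) (nat_lit 1) (nat_lit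 4) (nat_lit 2) (nat_lit 5) (nat_lit 2) (nat_lit 4) (nat_lit 381) (nat_lit 216) (nat_lit 183)))))) (XT.nd (nat_lit 390) (nat_lit 0) (nat_lit 0) (XT.nd (nat_lit 156) (nat_lit 0) (nat_lit 0) (XT.nd (nat_lit 78) (nat_lit 0) (nat_lit 0) (XT.lf (nat_lit 0) (nat_lit 273801513293) (nat_lit 76) (nat_lit 93737653225) (nat_lit 76) (nat_lit 91518394930) (nat_lit 1) (nat_lit 4) (nat_lit 2) (nat_lit 5) (nat_lit 2) (nat_lit 4) (nat_lit 382) (nat_lit 216) (nat_lit 182)) (XT.lf (nat_lit 0) (nat_lit 289760230108) (nat_lit 76) (nat_lit 97216932225) (nat_lit 76) (nat_lit 94972827863) (nat_lit 1) (nat_lit 4) (nat_lit 2) (nat_lit 5) (nat_lit 2) (nat_lit 4) (nat_lit 383) (nat_lit 216) (nat_lit 181))) (XT.nd (nat_lit 78) (nat_lit 0) (nat_lit 0) (XT.lf (nat_lit 0) (nat_lit 306487612060) (nat_lit 76) (nat_lit 100883987770) (nat_lit 76) (nat_lit 98616220487) (nat_lit 1) (nat_lit 4) (nat_lit 2) (nat_lit 5) (nat_lit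 2) (nat_lit 4) (nat_lit 384) (nat_lit 216) (nat_lit 180)) (XT.nd (nat_lit 78) (nat_lit 0) (nat_lit 0) (XT.lf (nat_lit 0) (nat_lit 324023486250) (nat_lit 76) (nat_lit 104747550943) (nat_lit 76) (nat_lit 102457247546) (nat_lit 1) (nat_lit 4) (nat_lit 2) (nat_lit 5) (nat_lit 2) (nat_lit 4) (nat_lit 385) (nat_lit 216) (nat_lit 179)) (XT.lf (nat_lit 0) (nat_lit 342409604759) (nat_lit 76) (nat_lit 108816820706) (nat_lit 76) (nat_lit 106505054343) (nat_lit 1) (nat_lit 4) (nat_lit 2) (nat_lit 5) (nat_lit 2) (nat_lit 4) (nat_lit 386) (nat_lit 216) (nat_lit 178))))) (XT.nd (nat_lit 156) (nat_lit 0) (nat_lit 0) (XT.nd (nat_lit 78) (nat_lit 0) (nat_lit 0) (XT.lf (nat_lit 0) (nat_lit 361689744060) (nat_lit 76) (nat_lit 113101485796) (nat_lit 76) (nat_lit 110769278512) (nat_lit 1) (nat_lit 4) (nat_lit 2) (nat_lit 5) (nat_lit 2) (nat_lit 4) (nat_lit 387) (nat_lit 216) (nat_lit 177)) (XT.lf (nat_lit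 0) (nat_lit 381909809246) (nat_lit 76) (nat_lit 117611747796) (nat_lit 76) (nat_lit 115260072969) (nat_lit 1) (nat_lit 4) (nat_lit 2) (nat_lit 5) (nat_lit 2) (nat_lit 4) (nat_lit 388) (nat_lit 216) (nat_lit 176))) (XT.nd (nat_lit 78) (nat_lit 0) (nat_lit 0) (XT.lf (nat_lit 0) (nat_lit 403117943329) (nat_lit 76) (nat_lit 122358345426) (nat_lit 76) (nat_lit 119988130081) (nat_lit 1) (nat_lit 4) (nat_lit 2) (nat_lit 5) (nat_lit 2) (nat_lit 4) (nat_lit 389) (nat_lit 216) (nat_lit 175)) (XT.nd (nat_lit 78) (nat_lit 0) (nat_lit 0) (XT.lf (nat_lit 0) (nat_lit 425364641867) (nat_lit 76) (nat_lit 127352580107) (nat_lit 76) (nat_lit 124964707127) (nat_lit 1) (nat_lit 4) (nat_lit 2) (nat_lit 5) (nat_lit 2) (nat_lit 4) (nat_lit 390) (nat_lit 216) (nat_lit 174)) (XT.lf (nat_lit 0) (nat_lit 448702873191) (nat_lit 76) (nat_lit 132606342876) (nat_lit 76) (nat_lit 130201653100) (nat_lit 1) (nat_lit 4)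 (nat_lit 2) (nat_lit 5) (nat_lit 2) (nat_lit 4) (nat_lit 391) (nat_lit 216) (nat_lit 173))))))) (XT.nd (nat_lit 37752) (nat_lit 0) (nat_lit 0) (XT.nd (nat_lit 37362) (nat_lit 0) (nat_lit 0) (XT.nd (nat_lit 37128) (nat_lit 0) (nat_lit 76) (XT.nd (nat_lit 37050) (nat_lit 0) (nat_lit 76) (XT.lf (nat_lit 0) (nat_lit 473188204516) (nat_lit 76) (nat_lit 138132142691) (nat_lit 76) (nat_lit 135711436919) (nat_lit 1) (nat_lit 4) (nat_lit 2) (nat_lit 5) (nat_lit 2) (nat_lit 4) (nat_lit 392) (nat_lit 216) (nat_lit 172)) (XT.lf (nat_lit 0) (nat_lit 16504105607) (nat_lit 152) (nat_lit 7450534696) (nat_lit 0) (nat_lit 16504105607) (nat_lit 2) (nat_lit 5) (nat_lit 4) (nat_lit 4) (nat_lit 2) (nat_lit 4) (nat_lit 346) (nat_lit 217) (nat_lit 217))) (XT.nd (nat_lit 78) (nat_lit 0) (nat_lit 0) (XT.lf (nat_lit 0) (nat_lit 37142419299) (nat_lit 152) (nat_lit 10682962555) (nat_lit 0) (nat_lit 37005368014)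 (nat_lit 2) (nat_lit 5) (nat_lit 4) (nat_lit 4) (nat_lit 2) (nat_lit 4) (nat_lit 347) (nat_lit 217) (nat_lit 216)) (XT.nd (nat_lit 78) (nat_lit 0) (nat_lit 0) (XT.lf (nat_lit 0) (nat_lit 41400591431) (nat_lit 152) (nat_lit 6410240369) (nat_lit 0) (nat_lit 41133015114) (nat_lit 2) (nat_lit 5) (nat_lit 4) (nat_lit 4) (nat_lit 2) (nat_lit 4) (nat_lit 348) (nat_lit 217) (nat_lit 215)) (XT.lf (nat_lit 0) (nat_lit 45792866116) (nat_lit 152) (nat_lit 2072729688) (nat_lit 0) (nat_lit 45400980244) (nat_lit 2) (nat_lit 5) (nat_lit 4) (nat_lit 4) (nat_lit 2) (nat_lit 4) (nat_lit 349) (nat_lit 217) (nat_lit 214))))) (XT.nd (nat_lit 156) (nat_lit 0) (nat_lit 0) (XT.nd (nat_lit 78) (nat_lit 0) (nat_lit 0) (XT.lf (nat_lit 0) (nat_lit 2417264452) (nat_lit 76) (nat_lit 47950176971) (nat_lit 76) (nat_lit 47439901046) (nat_lit 1) (nat_lit 4) (nat_lit 2) (nat_lit 5) (nat_lit 2) (nat_lit 4) (nat_lit 350)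 (nat_lit 217) (nat_lit 213)) (XT.lf (nat_lit 0) (nat_lit 7064245609) (nat_lit 76) (nat_lit 48067945586) (nat_lit 76) (nat_lit 47444917229) (nat_lit 1) (nat_lit 4) (nat_lit 2) (nat_lit 5) (nat_lit 2) (nat_lit 4) (nat_lit 351) (nat_lit 217) (nat_lit 212))) (XT.nd (nat_lit 78) (nat_lit 0) (nat_lit 0) (XT.lf (nat_lit 0) (nat_lit 11810744218) (nat_lit 76) (nat_lit 48254284731) (nat_lit 76) (nat_lit 47523873107) (nat_lit 1) (nat_lit 4) (nat_lit 2) (nat_lit 5) (nat_lit 2) (nat_lit 4) (nat_lit 352) (nat_lit 217) (nat_lit 211)) (XT.nd (nat_lit 78) (nat_lit 0) (nat_lit 0) (XT.lf (nat_lit 0) (nat_lit 16668061465) (nat_lit 76) (nat_lit 48509638072) (nat_lit 76) (nat_lit 47676956670) (nat_lit 1) (nat_lit 4) (nat_lit 2) (nat_lit 5) (nat_lit 2) (nat_lit 4) (nat_lit 353) (nat_lit 217) (nat_lit 210)) (XT.lf (nat_lit 0) (nat_lit 21647762392) (nat_lit 76) (nat_lit 48834613593) (nat_lit 76) (nat_lit 47904532401)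 (nat_lit 1) (nat_lit 4) (nat_lit 2) (nat_lit 5) (nat_lit 2) (nat_lit 4) (nat_lit 354) (nat_lit 217) (nat_lit 209)))))) (XT.nd (nat_lit 390) (nat_lit 0) (nat_lit 0) (XT.nd (nat_lit 156) (nat_lit 0) (nat_lit 0) (XT.nd (nat_lit 78) (nat_lit 0) (nat_lit 0) (XT.lf (nat_lit 0) (nat_lit 26761703431) (nat_lit 76) (nat_lit 49229985044) (nat_lit 76) (nat_lit 48207142148) (nat_lit 1) (nat_lit 4) (nat_lit 2) (nat_lit 5) (nat_lit 2) (nat_lit 4) (nat_lit 355) (nat_lit 217) (nat_lit 208)) (XT.lf (nat_lit 0) (nat_lit 32022060630) (nat_lit 76) (nat_lit 49696693787) (nat_lit 76) (nat_lit 48585506411) (nat_lit 1) (nat_lit 4) (nat_lit 2) (nat_lit 5) (nat_lit 2) (nat_lit 4) (nat_lit 356) (nat_lit 217) (nat_lit 207))) (XT.nd (nat_lit 78) (nat_lit 0) (nat_lit 0) (XT.lf (nat_lit 0) (nat_lit 37441358650) (nat_lit 76) (nat_lit 50235851033) (nat_lit 76) (nat_lit 49040526057) (nat_lit 1) (nat_lit 4) (nat_lit 2)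 (nat_lit 5) (nat_lit 2) (nat_lit 4) (nat_lit 357) (nat_lit 217) (nat_lit 206)) (XT.nd (nat_lit 78) (nat_lit 0) (nat_lit 0) (XT.lf (nat_lit 0) (nat_lit 43032500581) (nat_lit 76) (nat_lit 50848740489) (nat_lit 76) (nat_lit 49573284465) (nat_lit 1) (nat_lit 4) (nat_lit 2) (nat_lit 5) (nat_lit 2) (nat_lit 4) (nat_lit 358) (nat_lit 217) (nat_lit 205)) (XT.lf (nat_lit 0) (nat_lit 48808798667) (nat_lit 76) (nat_lit 51536821416) (nat_lit 76) (nat_lit 50185050109) (nat_lit 1) (nat_lit 4) (nat_lit 2) (nat_lit 5) (nat_lit 2) (nat_lit 4) (nat_lit 359) (nat_lit 217) (nat_lit 204))))) (XT.nd (nat_lit 234) (nat_lit 0) (nat_lit 0) (XT.nd (nat_lit 78) (nat_lit 0) (nat_lit 0) (XT.lf (nat_lit 0) (nat_lit 54784005997) (nat_lit 76) (nat_lit 52301732102) (nat_lit 76) (nat_lit 50877279572) (nat_lit 1) (nat_lit 4) (nat_lit 2) (nat_lit 5) (nat_lit 2) (nat_lit 4) (nat_lit 360) (nat_lit 217) (nat_lit 203)) (XT.nd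 (nat_lit 78) (nat_lit 0) (nat_lit 0) (XT.lf (nat_lit 0) (nat_lit 60972349257) (nat_lit 76) (nat_lit 53145293763) (nat_lit 76) (nat_lit 51651621021) (nat_lit 1) (nat_lit 4) (nat_lit 2) (nat_lit 5) (nat_lit 2) (nat_lit 4) (nat_lit 361) (nat_lit 217) (nat_lit 202)) (XT.lf (nat_lit 0) (nat_lit 67388562595) (nat_lit 76) (nat_lit 54069514879) (nat_lit 76) (nat_lit 52509918126) (nat_lit 1) (nat_lit 4) (nat_lit 2) (nat_lit 5) (nat_lit 2) (nat_lit 4) (nat_lit 362) (nat_lit 217) (nat_lit 201)))) (XT.nd (nat_lit 78) (nat_lit 0) (nat_lit 0) (XT.lf (nat_lit 0) (nat_lit 74047922712) (nat_lit 76) (nat_lit 55076595976) (nat_lit 76) (nat_lit 53454214451) (nat_lit 1) (nat_lit 4) (nat_lit 2) (nat_lit 5) (nat_lit 2) (nat_lit 4) (nat_lit 363) (nat_lit 217) (nat_lit 200)) (XT.nd (nat_lit 78) (nat_lit 0) (nat_lit 0) (XT.lf (nat_lit 0) (nat_lit 80966285226) (nat_lit 76) (nat_lit 56168934867) (nat_lit 76) (nat_lit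 54486758321) (nat_lit 1) (nat_lit 4) (nat_lit 2) (nat_lit 5) (nat_lit 2) (nat_lit 4) (nat_lit 364) (nat_lit 217) (nat_lit 199)) (XT.lf (nat_lit 0) (nat_lit 88160122429) (nat_lit 76) (nat_lit 57349132359) (nat_lit 76) (nat_lit 55610008173) (nat_lit 1) (nat_lit 4) (nat_lit 2) (nat_lit 5) (nat_lit 2) (nat_lit 4) (nat_lit 365) (nat_lit 217) (nat_lit 198))))))))
noncomputable def xc14 : XT := (XT.nd (nat_lit 1560) (nat_lit 0) (nat_lit 0) (XT.nd (nat_lit 780) (nat_lit 0) (nat_lit 0) (XT.nd (nat_lit 390) (nat_lit 0) (nat_lit 0) (XT.nd (nat_lit 156) (nat_lit 0) (nat_lit 0) (XT.nd (nat_lit 78) (nat_lit 0) (nat_lit 0) (XT.lf (nat_lit 0) (nat_lit 95646562505) (nat_lit 76) (nat_lit 58619998445) (nat_lit 76) (nat_lit 56826638412) (nat_lit 1) (nat_lit 4) (nat_lit 2) (nat_lit 5) (nat_lit 2) (nat_lit 4) (nat_lit 366) (nat_lit 217) (nat_lit 197)) (XT.lf (nat_lit 0) (nat_lit 103443430310) (nat_lit 76)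 (nat_lit 59984558997) (nat_lit 76) (nat_lit 58139545776) (nat_lit 1) (nat_lit 4) (nat_lit 2) (nat_lit 5) (nat_lit 2) (nat_lit 4) (nat_lit 367) (nat_lit 217) (nat_lit 196))) (XT.nd (nat_lit 78) (nat_lit 0) (nat_lit 0) (XT.lf (nat_lit 0) (nat_lit 111569289817) (nat_lit 76) (nat_lit 61446062970) (nat_lit 76) (nat_lit 59551856237) (nat_lit 1) (nat_lit 4) (nat_lit 2) (nat_lit 5) (nat_lit 2) (nat_lit 4) (nat_lit 368) (nat_lit 217) (nat_lit 195)) (XT.nd (nat_lit 78) (nat_lit 0) (nat_lit 0) (XT.lf (nat_lit 0) (nat_lit 120043488310) (nat_lit 76) (nat_lit 63007990133) (nat_lit 76) (nat_lit 61066932436) (nat_lit 1) (nat_lit 4) (nat_lit 2) (nat_lit 5) (nat_lit 2) (nat_lit 4) (nat_lit 369) (nat_lit 217) (nat_lit 194)) (XT.lf (nat_lit 0) (nat_lit 128886202451) (nat_lit 76) (nat_lit 64674059362) (nat_lit 76) (nat_lit 62688381699) (nat_lit 1) (nat_lit 4) (nat_lit 2) (nat_lit 5) (nat_lit 2) (nat_lit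 4) (nat_lit 370) (nat_lit 217) (nat_lit 193))))) (XT.nd (nat_lit 156) (nat_lit 0) (nat_lit 0) (XT.nd (nat_lit 78) (nat_lit 0) (nat_lit 0) (XT.lf (nat_lit 0) (nat_lit 138118486322) (nat_lit 76) (nat_lit 66448237488) (nat_lit 76) (nat_lit 64420064620) (nat_lit 1) (nat_lit 4) (nat_lit 2) (nat_lit 5) (nat_lit 2) (nat_lit 4) (nat_lit 371) (nat_lit 217) (nat_lit 192)) (XT.lf (nat_lit 0) (nat_lit 147762321552) (nat_lit 76) (nat_lit 68334748745) (nat_lit 76) (nat_lit 66266104252) (nat_lit 1) (nat_lit 4) (nat_lit 2) (nat_lit 5) (nat_lit 2) (nat_lit 4) (nat_lit 372) (nat_lit 217) (nat_lit 191))) (XT.nd (nat_lit 78) (nat_lit 0) (nat_lit 0) (XT.lf (nat_lit 0) (nat_lit 157840669652) (nat_lit 76) (nat_lit 70338084825) (nat_lit 76) (nat_lit 68230895929) (nat_lit 1) (nat_lit 4) (nat_lit 2) (nat_lit 5) (nat_lit 2) (nat_lit 4) (nat_lit 373) (nat_lit 217) (nat_lit 190)) (XT.nd (nat_lit 78) (nat_lit 0)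 (nat_lit 0) (XT.lf (nat_lit 0) (nat_lit 168377526689) (nat_lit 76) (nat_lit 72463015578) (nat_lit 76) (nat_lit 70319117725) (nat_lit 1) (nat_lit 4) (nat_lit 2) (nat_lit 5) (nat_lit 2) (nat_lit 4) (nat_lit 374) (nat_lit 217) (nat_lit 189)) (XT.lf (nat_lit 0) (nat_lit 179397980419) (nat_lit 76) (nat_lit 74714600361) (nat_lit 76) (nat_lit 72535741598) (nat_lit 1) (nat_lit 4) (nat_lit 2) (nat_lit 5) (nat_lit 2) (nat_lit 4) (nat_lit 375) (nat_lit 217) (nat_lit 188)))))) (XT.nd (nat_lit 390) (nat_lit 0) (nat_lit 0) (XT.nd (nat_lit 156) (nat_lit 0) (nat_lit 0) (XT.nd (nat_lit 78) (nat_lit 0) (nat_lit 0) (XT.lf (nat_lit 0) (nat_lit 190928270018) (nat_lit 76) (nat_lit 77098200091) (nat_lit 76) (nat_lit 74886045222) (nat_lit 1) (nat_lit 4) (nat_lit 2) (nat_lit 5) (nat_lit 2) (nat_lit 4) (nat_lit 376) (nat_lit 217) (nat_lit 187)) (XT.lf (nat_lit 0) (nat_lit 202995848554) (nat_lit 76) (nat_lit 79619490005)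 (nat_lit 76) (nat_lit 77375624560) (nat_lit 1) (nat_lit 4) (nat_lit 2) (nat_lit 5) (nat_lit 2) (nat_lit 4) (nat_lit 377) (nat_lit 217) (nat_lit 186))) (XT.nd (nat_lit 78) (nat_lit 0) (nat_lit 0) (XT.lf (nat_lit 0) (nat_lit 215629448359) (nat_lit 76) (nat_lit 82284473176) (nat_lit 76) (nat_lit 80010407181) (nat_lit 1) (nat_lit 4) (nat_lit 2) (nat_lit 5) (nat_lit 2) (nat_lit 4) (nat_lit 378) (nat_lit 217) (nat_lit 185)) (XT.nd (nat_lit 78) (nat_lit 0) (nat_lit 0) (XT.lf (nat_lit 0) (nat_lit 228859149432) (nat_lit 76) (nat_lit 85099494799) (nat_lit 76) (nat_lit 82796666377) (nat_lit 1) (nat_lit 4) (nat_lit 2) (nat_lit 5) (nat_lit 2) (nat_lit 4) (nat_lit 379) (nat_lit 217) (nat_lit 184)) (XT.lf (nat_lit 0) (nat_lit 242716451061) (nat_lit 76) (nat_lit 88071257309) (nat_lit 76) (nat_lit 85741036099) (nat_lit 1) (nat_lit 4) (nat_lit 2) (nat_lit 5) (nat_lit 2) (nat_lit 4) (nat_lit 380) (nat_lit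 217) (nat_lit 183))))) (XT.nd (nat_lit 156) (nat_lit 0) (nat_lit 0) (XT.nd (nat_lit 78) (nat_lit 0) (nat_lit 0) (XT.lf (nat_lit 0) (nat_lit 257234346821) (nat_lit 76) (nat_lit 91206836330) (nat_lit 76) (nat_lit 88850526750) (nat_lit 1) (nat_lit 4) (nat_lit 2) (nat_lit 5) (nat_lit 2) (nat_lit 4) (nat_lit 381) (nat_lit 217) (nat_lit 182)) (XT.lf (nat_lit 0) (nat_lit 272447403131) (nat_lit 76) (nat_lit 94513697527) (nat_lit 76) (nat_lit 92132541880) (nat_lit 1) (nat_lit 4) (nat_lit 2) (nat_lit 5) (nat_lit 2) (nat_lit 4) (nat_lit 382) (nat_lit 217) (nat_lit 181))) (XT.nd (nat_lit 78) (nat_lit 0) (nat_lit 0) (XT.lf (nat_lit 0) (nat_lit 288391841554) (nat_lit 76) (nat_lit 97999714378) (nat_lit 76) (nat_lit 95594895811) (nat_lit 1) (nat_lit 4) (nat_lit 2) (nat_lit 5) (nat_lit 2) (nat_lit 4) (nat_lit 383) (nat_lit 217) (nat_lit 180)) (XT.nd (nat_lit 78) (nat_lit 0) (nat_lit 0) (XT.lf (nat_lit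 0) (nat_lit 305105625038) (nat_lit 76) (nat_lit 101673186923) (nat_lit 76) (nat_lit 99245832241) (nat_lit 1) (nat_lit 4) (nat_lit 2) (nat_lit 5) (nat_lit 2) (nat_lit 4) (nat_lit 384) (nat_lit 217) (nat_lit 179)) (XT.lf (nat_lit 0) (nat_lit 322628548306) (nat_lit 76) (nat_lit 105542861526) (nat_lit 76) (nat_lit 103094043878) (nat_lit 1) (nat_lit 4) (nat_lit 2) (nat_lit 5) (nat_lit 2) (nat_lit 4) (nat_lit 385) (nat_lit 217) (nat_lit 178))))))) (XT.nd (nat_lit 37596) (nat_lit 0) (nat_lit 0) (XT.nd (nat_lit 390) (nat_lit 0) (nat_lit 0) (XT.nd (nat_lit 156) (nat_lit 0) (nat_lit 0) (XT.nd (nat_lit 78) (nat_lit 0) (nat_lit 0) (XT.lf (nat_lit 0) (nat_lit 341002332603) (nat_lit 76) (nat_lit 109617951699) (nat_lit 76) (nat_lit 107148693130) (nat_lit 1) (nat_lit 4) (nat_lit 2) (nat_lit 5) (nat_lit 2) (nat_lit 4) (nat_lit 386) (nat_lit 217) (nat_lit 177)) (XT.lf (nat_lit 0) (nat_lit 360270725036)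 (nat_lit 76) (nat_lit 113908160035) (nat_lit 76) (nat_lit 111419433923) (nat_lit 1) (nat_lit 4) (nat_lit 2) (nat_lit 5) (nat_lit 2) (nat_lit 4) (nat_lit 387) (nat_lit 217) (nat_lit 176))) (XT.nd (nat_lit 78) (nat_lit 0) (nat_lit 0) (XT.lf (nat_lit 0) (nat_lit 380479602728) (nat_lit 76) (nat_lit 118423701318) (nat_lit 76) (nat_lit 115916434688) (nat_lit 1) (nat_lit 4) (nat_lit 2) (nat_lit 5) (nat_lit 2) (nat_lit 4) (nat_lit 388) (nat_lit 217) (nat_lit 175)) (XT.nd (nat_lit 78) (nat_lit 0) (nat_lit 0) (XT.lf (nat_lit 0) (nat_lit 401677082056) (nat_lit 76) (nat_lit 123175326835) (nat_lit 76) (nat_lit 120650402570) (nat_lit 1) (nat_lit 4) (nat_lit 2) (nat_lit 5) (nat_lit 2) (nat_lit 4) (nat_lit 389) (nat_lit 217) (nat_lit 174)) (XT.lf (nat_lit 0) (nat_lit 423913633208) (nat_lit 76) (nat_lit 128174349982) (nat_lit 76) (nat_lit 125632608921) (nat_lit 1) (nat_lit 4) (nat_lit 2) (nat_lit 5)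 (nat_lit 2) (nat_lit 4) (nat_lit 390) (nat_lit 217) (nat_lit 173))))) (XT.nd (nat_lit 36972) (nat_lit 0) (nat_lit 76) (XT.nd (nat_lit 78) (nat_lit 0) (nat_lit 0) (XT.lf (nat_lit 0) (nat_lit 447242200354) (nat_lit 76) (nat_lit 133432673194) (nat_lit 76) (nat_lit 130874916137) (nat_lit 1) (nat_lit 4) (nat_lit 2) (nat_lit 5) (nat_lit 2) (nat_lit 4) (nat_lit 391) (nat_lit 217) (nat_lit 172)) (XT.lf (nat_lit 0) (nat_lit 471718327701) (nat_lit 76) (nat_lit 138962816288) (nat_lit 76) (nat_lit 136389805901) (nat_lit 1) (nat_lit 4) (nat_lit 2) (nat_lit 5) (nat_lit 2) (nat_lit 4) (nat_lit 392) (nat_lit 217) (nat_lit 171))) (XT.nd (nat_lit 78) (nat_lit 0) (nat_lit 0) (XT.lf (nat_lit 0) (nat_lit 12630495368) (nat_lit 152) (nat_lit 11564724913) (nat_lit 0) (nat_lit 12630495368) (nat_lit 2) (nat_lit 5) (nat_lit 4) (nat_lit 4) (nat_lit 2) (nat_lit 4) (nat_lit 344) (nat_lit 218) (nat_lit 218)) (XT.nd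 (nat_lit 78) (nat_lit 0) (nat_lit 0) (XT.lf (nat_lit 0) (nat_lit 29132027673) (nat_lit 152) (nat_lit 19074603994) (nat_lit 0) (nat_lit 28988123824) (nat_lit 2) (nat_lit 5) (nat_lit 4) (nat_lit 4) (nat_lit 2) (nat_lit 4) (nat_lit 345) (nat_lit 218) (nat_lit 217)) (XT.lf (nat_lit 0) (nat_lit 33109732783) (nat_lit 152) (nat_lit 14981120365) (nat_lit 0) (nat_lit 32828777649) (nat_lit 2) (nat_lit 5) (nat_lit 4) (nat_lit 4) (nat_lit 2) (nat_lit 4) (nat_lit 346) (nat_lit 218) (nat_lit 216)))))) (XT.nd (nat_lit 390) (nat_lit 0) (nat_lit 0) (XT.nd (nat_lit 156) (nat_lit 76) (nat_lit 0) (XT.nd (nat_lit 78) (nat_lit 0) (nat_lit 0) (XT.lf (nat_lit 0) (nat_lit 37203576791) (nat_lit 152) (nat_lit 10839252549) (nat_lit 0) (nat_lit 36792096625) (nat_lit 2) (nat_lit 5) (nat_lit 4) (nat_lit 4) (nat_lit 2) (nat_lit 4) (nat_lit 347) (nat_lit 218) (nat_lit 215)) (XT.lf (nat_lit 0) (nat_lit 41423306946) (nat_lit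 152) (nat_lit 6639138956) (nat_lit 0) (nat_lit 40887517224) (nat_lit 2) (nat_lit 5) (nat_lit 4) (nat_lit 4) (nat_lit 2) (nat_lit 4) (nat_lit 348) (nat_lit 218) (nat_lit 214))) (XT.nd (nat_lit 78) (nat_lit 76) (nat_lit 0) (XT.lf (nat_lit 0) (nat_lit 45778970224) (nat_lit 152) (nat_lit 2370779315) (nat_lit 0) (nat_lit 45124790450) (nat_lit 2) (nat_lit 5) (nat_lit 4) (nat_lit 4) (nat_lit 2) (nat_lit 4) (nat_lit 349) (nat_lit 218) (nat_lit 213)) (XT.nd (nat_lit 78) (nat_lit 0) (nat_lit 0) (XT.lf (nat_lit 0) (nat_lit 2041324258) (nat_lit 76) (nat_lit 48271483785) (nat_lit 76) (nat_lit 47504551580) (nat_lit 1) (nat_lit 4) (nat_lit 2) (nat_lit 5) (nat_lit 2) (nat_lit 4) (nat_lit 350) (nat_lit 218) (nat_lit 212)) (XT.lf (nat_lit 0) (nat_lit 6623509510) (nat_lit 76) (nat_lit 48419829034) (nat_lit 76) (nat_lit 47545513561) (nat_lit 1) (nat_lit 4) (nat_lit 2) (nat_lit 5) (nat_lit 2) (nat_lit 4)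 (nat_lit 351) (nat_lit 218) (nat_lit 211))))) (XT.nd (nat_lit 234) (nat_lit 0) (nat_lit 0) (XT.nd (nat_lit 78) (nat_lit 0) (nat_lit 0) (XT.lf (nat_lit 0) (nat_lit 11308297732) (nat_lit 76) (nat_lit 48635288784) (nat_lit 76) (nat_lit 47658703532) (nat_lit 1) (nat_lit 4) (nat_lit 2) (nat_lit 5) (nat_lit 2) (nat_lit 4) (nat_lit 352) (nat_lit 218) (nat_lit 210)) (XT.nd (nat_lit 78) (nat_lit 0) (nat_lit 0) (XT.lf (nat_lit 0) (nat_lit 16106843184) (nat_lit 76) (nat_lit 48918376033) (nat_lit 76) (nat_lit 47844390993) (nat_lit 1) (nat_lit 4) (nat_lit 2) (nat_lit 5) (nat_lit 2) (nat_lit 4) (nat_lit 353) (nat_lit 218) (nat_lit 209)) (XT.lf (nat_lit 0) (nat_lit 21030570972) (nat_lit 76) (nat_lit 49269764800) (nat_lit 76) (nat_lit 48103018055) (nat_lit 1) (nat_lit 4) (nat_lit 2) (nat_lit 5) (nat_lit 2) (nat_lit 4) (nat_lit 354) (nat_lit 218) (nat_lit 208)))) (XT.nd (nat_lit 78) (nat_lit 0) (nat_lit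 0) (XT.lf (nat_lit 0) (nat_lit 26091204258) (nat_lit 76) (nat_lit 49690291724) (nat_lit 76) (nat_lit 48435200499) (nat_lit 1) (nat_lit 4) (nat_lit 2) (nat_lit 5) (nat_lit 2) (nat_lit 4) (nat_lit 355) (nat_lit 218) (nat_lit 207)) (XT.nd (nat_lit 78) (nat_lit 0) (nat_lit 0) (XT.lf (nat_lit 0) (nat_lit 31300792170) (nat_lit 76) (nat_lit 50180958060) (nat_lit 76) (nat_lit 48841729235) (nat_lit 1) (nat_lit 4) (nat_lit 2) (nat_lit 5) (nat_lit 2) (nat_lit 4) (nat_lit 356) (nat_lit 218) (nat_lit 206)) (XT.lf (nat_lit 0) (nat_lit 36671738488) (nat_lit 76) (nat_lit 50742932061) (nat_lit 76) (nat_lit 49323572188) (nat_lit 1) (nat_lit 4) (nat_lit 2) (nat_lit 5) (nat_lit 2) (nat_lit 4) (nat_lit 357) (nat_lit 218) (nat_lit 205))))))))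
noncomputable def xc15 : XT := (XT.nd (nat_lit 1560) (nat_lit 0) (nat_lit 0) (XT.nd (nat_lit 780) (nat_lit 0) (nat_lit 0) (XT.nd (nat_lit 390) (nat_lit 0) (nat_lit 0) (XT.nd (nat_lit 156) (nat_lit 0) (nat_lit 0) (XT.nd (nat_lit 78) (nat_lit 0) (nat_lit 0) (XT.lf (nat_lit 0) (nat_lit 42216831179) (nat_lit 76) (nat_lit 51377551760) (nat_lit 76) (nat_lit 49881876604) (nat_lit 1) (nat_lit 4) (nat_lit 2) (nat_lit 5) (nat_lit 2) (nat_lit 4) (nat_lit 358) (nat_lit 218) (nat_lit 204)) (XT.lf (nat_lit 0) (nat_lit 47949272845) (nat_lit 76) (nat_lit 52086328156) (nat_lit 76) (nat_lit 50517971778) (nat_lit 1) (nat_lit 4) (nat_lit 2) (nat_lit 5) (nat_lit 2) (nat_lit 4) (nat_lit 359) (nat_lit 218) (nat_lit 203))) (XT.nd (nat_lit 78) (nat_lit 0) (nat_lit 0) (XT.lf (nat_lit 0) (nat_lit 53882712157) (nat_lit 76) (nat_lit 52870948813) (nat_lit 76) (nat_lit 51233372223) (nat_lit 1) (nat_lit 4) (nat_lit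 2) (nat_lit 5) (nat_lit 2) (nat_lit 4) (nat_lit 360) (nat_lit 218) (nat_lit 202)) (XT.nd (nat_lit 78) (nat_lit 0) (nat_lit 0) (XT.lf (nat_lit 0) (nat_lit 60031276352) (nat_lit 76) (nat_lit 53733281875) (nat_lit 76) (nat_lit 52029781274) (nat_lit 1) (nat_lit 4) (nat_lit 2) (nat_lit 5) (nat_lit 2) (nat_lit 4) (nat_lit 361) (nat_lit 218) (nat_lit 201)) (XT.lf (nat_lit 0) (nat_lit 66409604866) (nat_lit 76) (nat_lit 54675380516) (nat_lit 76) (nat_lit 52909095142) (nat_lit 1) (nat_lit 4) (nat_lit 2) (nat_lit 5) (nat_lit 2) (nat_lit 4) (nat_lit 362) (nat_lit 218) (nat_lit 200))))) (XT.nd (nat_lit 156) (nat_lit 0) (nat_lit 0) (XT.nd (nat_lit 78) (nat_lit 0) (nat_lit 0) (XT.lf (nat_lit 0) (nat_lit 73032884198) (nat_lit 76) (nat_lit 55699487828) (nat_lit 76) (nat_lit 53873407432) (nat_lit 1) (nat_lit 4) (nat_lit 2) (nat_lit 5) (nat_lit 2) (nat_lit 4) (nat_lit 363) (nat_lit 218) (nat_lit 199))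 (XT.lf (nat_lit 0) (nat_lit 79916884060) (nat_lit 76) (nat_lit 56808042161) (nat_lit 76) (nat_lit 54925014126) (nat_lit 1) (nat_lit 4) (nat_lit 2) (nat_lit 5) (nat_lit 2) (nat_lit 4) (nat_lit 364) (nat_lit 218) (nat_lit 198))) (XT.nd (nat_lit 78) (nat_lit 0) (nat_lit 0) (XT.lf (nat_lit 0) (nat_lit 87077994928) (nat_lit 76) (nat_lit 58003682930) (nat_lit 76) (nat_lit 56066419048) (nat_lit 1) (nat_lit 4) (nat_lit 2) (nat_lit 5) (nat_lit 2) (nat_lit 4) (nat_lit 365) (nat_lit 218) (nat_lit 197)) (XT.nd (nat_lit 78) (nat_lit 0) (nat_lit 0) (XT.lf (nat_lit 0) (nat_lit 94533267065) (nat_lit 76) (nat_lit 59289256900) (nat_lit 76) (nat_lit 57300339831) (nat_lit 1) (nat_lit 4) (nat_lit 2) (nat_lit 5) (nat_lit 2) (nat_lit 4) (nat_lit 366) (nat_lit 218) (nat_lit 196)) (XT.lf (nat_lit 0) (nat_lit 102300451120) (nat_lit 76) (nat_lit 60667824961) (nat_lit 76) (nat_lit 58629714379) (nat_lit 1) (nat_lit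 4) (nat_lit 2) (nat_lit 5) (nat_lit 2) (nat_lit 4) (nat_lit 367) (nat_lit 218) (nat_lit 195)))))) (XT.nd (nat_lit 390) (nat_lit 0) (nat_lit 0) (XT.nd (nat_lit 156) (nat_lit 0) (nat_lit 0) (XT.nd (nat_lit 78) (nat_lit 0) (nat_lit 0) (XT.lf (nat_lit 0) (nat_lit 110398040388) (nat_lit 76) (nat_lit 62142669418) (nat_lit 76) (nat_lit 60057707872) (nat_lit 1) (nat_lit 4) (nat_lit 2) (nat_lit 5) (nat_lit 2) (nat_lit 4) (nat_lit 368) (nat_lit 218) (nat_lit 194)) (XT.lf (nat_lit 0) (nat_lit 118845314844) (nat_lit 76) (nat_lit 63717301804) (nat_lit 76) (nat_lit 61587720293) (nat_lit 1) (nat_lit 4) (nat_lit 2) (nat_lit 5) (nat_lit 2) (nat_lit 4) (nat_lit 369) (nat_lit 218) (nat_lit 193))) (XT.nd (nat_lit 78) (nat_lit 0) (nat_lit 0) (XT.lf (nat_lit 0) (nat_lit 127662387045) (nat_lit 76) (nat_lit 65395471246) (nat_lit 76) (nat_lit 63223394529) (nat_lit 1) (nat_lit 4) (nat_lit 2) (nat_lit 5) (nat_lit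 2) (nat_lit 4) (nat_lit 370) (nat_lit 218) (nat_lit 192)) (XT.nd (nat_lit 78) (nat_lit 0) (nat_lit 0) (XT.lf (nat_lit 0) (nat_lit 136870250021) (nat_lit 76) (nat_lit 67181173383) (nat_lit 76) (nat_lit 64968625042) (nat_lit 1) (nat_lit 4) (nat_lit 2) (nat_lit 5) (nat_lit 2) (nat_lit 4) (nat_lit 371) (nat_lit 218) (nat_lit 191)) (XT.lf (nat_lit 0) (nat_lit 146490827255) (nat_lit 76) (nat_lit 69078659889) (nat_lit 76) (nat_lit 66827567144) (nat_lit 1) (nat_lit 4) (nat_lit 2) (nat_lit 5) (nat_lit 2) (nat_lit 4) (nat_lit 372) (nat_lit 218) (nat_lit 190))))) (XT.nd (nat_lit 156) (nat_lit 0) (nat_lit 0) (XT.nd (nat_lit 78) (nat_lit 0) (nat_lit 0) (XT.lf (nat_lit 0) (nat_lit 156547024883) (nat_lit 76) (nat_lit 71092448588) (nat_lit 76) (nat_lit 68804646887) (nat_lit 1) (nat_lit 4) (nat_lit 2) (nat_lit 5) (nat_lit 2) (nat_lit 4) (nat_lit 373) (nat_lit 218) (nat_lit 189)) (XT.lf (nat_lit 0) (nat_lit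 167062786233) (nat_lit 76) (nat_lit 73227334215) (nat_lit 76) (nat_lit 70904571603) (nat_lit 1) (nat_lit 4) (nat_lit 2) (nat_lit 5) (nat_lit 2) (nat_lit 4) (nat_lit 374) (nat_lit 218) (nat_lit 188))) (XT.nd (nat_lit 78) (nat_lit 0) (nat_lit 0) (XT.lf (nat_lit 0) (nat_lit 178063148832) (nat_lit 76) (nat_lit 75488399832) (nat_lit 76) (nat_lit 73132341114) (nat_lit 1) (nat_lit 4) (nat_lit 2) (nat_lit 5) (nat_lit 2) (nat_lit 4) (nat_lit 375) (nat_lit 218) (nat_lit 187)) (XT.nd (nat_lit 78) (nat_lit 0) (nat_lit 0) (XT.lf (nat_lit 0) (nat_lit 189574304020) (nat_lit 76) (nat_lit 77881028927) (nat_lit 76) (nat_lit 75493259633) (nat_lit 1) (nat_lit 4) (nat_lit 2) (nat_lit 5) (nat_lit 2) (nat_lit 4) (nat_lit 376) (nat_lit 218) (nat_lit 186)) (XT.lf (nat_lit 0) (nat_lit 201623659308) (nat_lit 76) (nat_lit 80410918236) (nat_lit 76) (nat_lit 77992948393) (nat_lit 1) (nat_lit 4) (nat_lit 2) (nat_lit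 5) (nat_lit 2) (nat_lit 4) (nat_lit 377) (nat_lit 218) (nat_lit 185))))))) (XT.nd (nat_lit 780) (nat_lit 0) (nat_lit 0) (XT.nd (nat_lit 390) (nat_lit 0) (nat_lit 0) (XT.nd (nat_lit 156) (nat_lit 0) (nat_lit 0) (XT.nd (nat_lit 78) (nat_lit 0) (nat_lit 0) (XT.lf (nat_lit 0) (nat_lit 214239903639) (nat_lit 76) (nat_lit 83084091307) (nat_lit 76) (nat_lit 80637359036) (nat_lit 1) (nat_lit 4) (nat_lit 2) (nat_lit 5) (nat_lit 2) (nat_lit 4) (nat_lit 378) (nat_lit 218) (nat_lit 184)) (XT.lf (nat_lit 0) (nat_lit 227453075688) (nat_lit 76) (nat_lit 85906912835) (nat_lit 76) (nat_lit 83432787776) (nat_lit 1) (nat_lit 4) (nat_lit 2) (nat_lit 5) (nat_lit 2) (nat_lit 4) (nat_lit 379) (nat_lit 218) (nat_lit 183))) (XT.nd (nat_lit 78) (nat_lit 0) (nat_lit 0) (XT.lf (nat_lit 0) (nat_lit 241294635391) (nat_lit 76) (nat_lit 88886103826) (nat_lit 76) (nat_lit 86385890397) (nat_lit 1) (nat_lit 4) (nat_lit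 2) (nat_lit 5) (nat_lit 2) (nat_lit 4) (nat_lit 380) (nat_lit 218) (nat_lit 182)) (XT.nd (nat_lit 78) (nat_lit 0) (nat_lit 0) (XT.lf (nat_lit 0) (nat_lit 255797538840) (nat_lit 76) (nat_lit 92028757590) (nat_lit 76) (nat_lit 89503698095) (nat_lit 1) (nat_lit 4) (nat_lit 2) (nat_lit 5) (nat_lit 2) (nat_lit 4) (nat_lit 381) (nat_lit 218) (nat_lit 181)) (XT.lf (nat_lit 0) (nat_lit 270996316758) (nat_lit 76) (nat_lit 95342356638) (nat_lit 76) (nat_lit 92793634222) (nat_lit 1) (nat_lit 4) (nat_lit 2) (nat_lit 5) (nat_lit 2) (nat_lit 4) (nat_lit 382) (nat_lit 218) (nat_lit 180))))) (XT.nd (nat_lit 156) (nat_lit 0) (nat_lit 0) (XT.nd (nat_lit 78) (nat_lit 0) (nat_lit 0) (XT.lf (nat_lit 0) (nat_lit 286927156713) (nat_lit 76) (nat_lit 98834790490) (nat_lit 76) (nat_lit 96263531959) (nat_lit 1) (nat_lit 4) (nat_lit 2) (nat_lit 5) (nat_lit 2) (nat_lit 4) (nat_lit 383) (nat_lit 218) (nat_lit 179))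 (XT.lf (nat_lit 0) (nat_lit 303627989274) (nat_lit 76) (nat_lit 102514374465) (nat_lit 76) (nat_lit 99921652968) (nat_lit 1) (nat_lit 4) (nat_lit 2) (nat_lit 5) (nat_lit 2) (nat_lit 4) (nat_lit 384) (nat_lit 218) (nat_lit 178))) (XT.nd (nat_lit 78) (nat_lit 0) (nat_lit 0) (XT.lf (nat_lit 0) (nat_lit 321138578331) (nat_lit 76) (nat_lit 106389869477) (nat_lit 76) (nat_lit 103776707060) (nat_lit 1) (nat_lit 4) (nat_lit 2) (nat_lit 5) (nat_lit 2) (nat_lit 4) (nat_lit 385) (nat_lit 218) (nat_lit 177)) (XT.nd (nat_lit 78) (nat_lit 0) (nat_lit 0) (XT.lf (nat_lit 0) (nat_lit 339500615760) (nat_lit 76) (nat_lit 110470502896) (nat_lit 76) (nat_lit 107837872935) (nat_lit 1) (nat_lit 4) (nat_lit 2) (nat_lit 5) (nat_lit 2) (nat_lit 4) (nat_lit 386) (nat_lit 218) (nat_lit 176)) (XT.lf (nat_lit 0) (nat_lit 358757820699) (nat_lit 76) (nat_lit 114765990515) (nat_lit 76) (nat_lit 112114820037) (nat_lit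 1) (nat_lit 4) (nat_lit 2) (nat_lit 5) (nat_lit 2) (nat_lit 4) (nat_lit 387) (nat_lit 218) (nat_lit 175)))))) (XT.nd (nat_lit 37050) (nat_lit 0) (nat_lit 76) (XT.nd (nat_lit 156) (nat_lit 0) (nat_lit 0) (XT.nd (nat_lit 78) (nat_lit 0) (nat_lit 0) (XT.lf (nat_lit 0) (nat_lit 378956043635) (nat_lit 76) (nat_lit 119286559686) (nat_lit 76) (nat_lit 116617731572) (nat_lit 1) (nat_lit 4) (nat_lit 2) (nat_lit 5) (nat_lit 2) (nat_lit 4) (nat_lit 388) (nat_lit 218) (nat_lit 174)) (XT.lf (nat_lit 0) (nat_lit 400143375577) (nat_lit 76) (nat_lit 124042973669) (nat_lit 76) (nat_lit 121357328759) (nat_lit 1) (nat_lit 4) (nat_lit 2) (nat_lit 5) (nat_lit 2) (nat_lit 4) (nat_lit 389) (nat_lit 218) (nat_lit 173))) (XT.nd (nat_lit 78) (nat_lit 0) (nat_lit 0) (XT.lf (nat_lit 0) (nat_lit 422370262551) (nat_lit 76) (nat_lit 129046557258) (nat_lit 76) (nat_lit 126344896353) (nat_lit 1) (nat_lit 4) (nat_lit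 2) (nat_lit 5) (nat_lit 2) (nat_lit 4) (nat_lit 390) (nat_lit 218) (nat_lit 172)) (XT.nd (nat_lit 78) (nat_lit 0) (nat_lit 0) (XT.lf (nat_lit 0) (nat_lit 445689625718) (nat_lit 76) (nat_lit 134309223749) (nat_lit 76) (nat_lit 131592309514) (nat_lit 1) (nat_lit 4) (nat_lit 2) (nat_lit 5) (nat_lit 2) (nat_lit 4) (nat_lit 391) (nat_lit 218) (nat_lit 171)) (XT.lf (nat_lit 0) (nat_lit 470156987372) (nat_lit 76) (nat_lit 139843503299) (nat_lit 76) (nat_lit 137112062083) (nat_lit 1) (nat_lit 4) (nat_lit 2) (nat_lit 5) (nat_lit 2) (nat_lit 4) (nat_lit 392) (nat_lit 218) (nat_lit 170))))) (XT.nd (nat_lit 234) (nat_lit 0) (nat_lit 0) (XT.nd (nat_lit 78) (nat_lit 0) (nat_lit 0) (XT.lf (nat_lit 0) (nat_lit 9000055946) (nat_lit 152) (nat_lit 15536760235) (nat_lit 0) (nat_lit 9000055946) (nat_lit 2) (nat_lit 5) (nat_lit 4) (nat_lit 4) (nat_lit 2) (nat_lit 4) (nat_lit 342) (nat_lit 219) (nat_lit 219))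 (XT.nd (nat_lit 78) (nat_lit 0) (nat_lit 0) (XT.lf (nat_lit 0) (nat_lit 21638504258) (nat_lit 152) (nat_lit 27155312255) (nat_lit 0) (nat_lit 21487405217) (nat_lit 2) (nat_lit 5) (nat_lit 4) (nat_lit 4) (nat_lit 2) (nat_lit 4) (nat_lit 343) (nat_lit 219) (nat_lit 218)) (XT.lf (nat_lit 0) (nat_lit 25367588383) (nat_lit 152) (nat_lit 23213503347) (nat_lit 0) (nat_lit 25072585493) (nat_lit 2) (nat_lit 5) (nat_lit 4) (nat_lit 4) (nat_lit 2) (nat_lit 4) (nat_lit 344) (nat_lit 219) (nat_lit 217)))) (XT.nd (nat_lit 78) (nat_lit 0) (nat_lit 0) (XT.lf (nat_lit 0) (nat_lit 29196243040) (nat_lit 152) (nat_lit 19238708488) (nat_lit 0) (nat_lit 28764188865) (nat_lit 2) (nat_lit 5) (nat_lit 4) (nat_lit 4) (nat_lit 2) (nat_lit 4) (nat_lit 345) (nat_lit 219) (nat_lit 216)) (XT.nd (nat_lit 78) (nat_lit 0) (nat_lit 0) (XT.lf (nat_lit 0) (nat_lit 33133584073) (nat_lit 152) (nat_lit 15221463881) (nat_lit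 0) (nat_lit 32571004865) (nat_lit 2) (nat_lit 5) (nat_lit 4) (nat_lit 4) (nat_lit 2) (nat_lit 4) (nat_lit 346) (nat_lit 219) (nat_lit 215)) (XT.lf (nat_lit 0) (nat_lit 37188986104) (nat_lit 152) (nat_lit 11152204657) (nat_lit 0) (nat_lit 36502097341) (nat_lit 2) (nat_lit 5) (nat_lit 4) (nat_lit 4) (nat_lit 2) (nat_lit 4) (nat_lit 347) (nat_lit 219) (nat_lit 214))))))))
noncomputable def xc16 : XT := (XT.nd (nat_lit 1560) (nat_lit 0) (nat_lit 0) (XT.nd (nat_lit 780) (nat_lit 0) (nat_lit 0) (XT.nd (nat_lit 390) (nat_lit 0) (nat_lit 0) (XT.nd (nat_lit 156) (nat_lit 76) (nat_lit 0) (XT.nd (nat_lit 78) (nat_lit 0) (nat_lit 0) (XT.lf (nat_lit 0) (nat_lit 41372104852) (nat_lit 152) (nat_lit 7021242103) (nat_lit 0) (nat_lit 40566826036) (nat_lit 2) (nat_lit 5) (nat_lit 4) (nat_lit 4) (nat_lit 2) (nat_lit 4) (nat_lit 348) (nat_lit 219) (nat_lit 213)) (XT.lf (nat_lit 0) (nat_lit 45692900123) (nat_lit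 152) (nat_lit 2818740596) (nat_lit 0) (nat_lit 44774868876) (nat_lit 2) (nat_lit 5) (nat_lit 4) (nat_lit 4) (nat_lit 2) (nat_lit 4) (nat_lit 349) (nat_lit 219) (nat_lit 212))) (XT.nd (nat_lit 78) (nat_lit 0) (nat_lit 0) (XT.lf (nat_lit 0) (nat_lit 1513755449) (nat_lit 76) (nat_lit 48671538041) (nat_lit 76) (nat_lit 47646123527) (nat_lit 1) (nat_lit 4) (nat_lit 2) (nat_lit 5) (nat_lit 2) (nat_lit 4) (nat_lit 350) (nat_lit 219) (nat_lit 211)) (XT.nd (nat_lit 78) (nat_lit 0) (nat_lit 0) (XT.lf (nat_lit 0) (nat_lit 6034230314) (nat_lit 76) (nat_lit 48849003893) (nat_lit 76) (nat_lit 47721319601) (nat_lit 1) (nat_lit 4) (nat_lit 2) (nat_lit 5) (nat_lit 2) (nat_lit 4) (nat_lit 351) (nat_lit 219) (nat_lit 210)) (XT.lf (nat_lit 0) (nat_lit 10660246741) (nat_lit 76) (nat_lit 49092197552) (nat_lit 76) (nat_lit 47867113470) (nat_lit 1) (nat_lit 4) (nat_lit 2) (nat_lit 5) (nat_lit 2) (nat_lit 4)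 (nat_lit 352) (nat_lit 219) (nat_lit 209))))) (XT.nd (nat_lit 156) (nat_lit 0) (nat_lit 0) (XT.nd (nat_lit 78) (nat_lit 0) (nat_lit 0) (XT.lf (nat_lit 0) (nat_lit 15402819052) (nat_lit 76) (nat_lit 49401698047) (nat_lit 76) (nat_lit 48083852261) (nat_lit 1) (nat_lit 4) (nat_lit 2) (nat_lit 5) (nat_lit 2) (nat_lit 4) (nat_lit 353) (nat_lit 219) (nat_lit 208)) (XT.lf (nat_lit 0) (nat_lit 20273239089) (nat_lit 76) (nat_lit 49778242287) (nat_lit 76) (nat_lit 48372052021) (nat_lit 1) (nat_lit 4) (nat_lit 2) (nat_lit 5) (nat_lit 2) (nat_lit 4) (nat_lit 354) (nat_lit 219) (nat_lit 207))) (XT.nd (nat_lit 78) (nat_lit 0) (nat_lit 0) (XT.lf (nat_lit 0) (nat_lit 25283103088) (nat_lit 76) (nat_lit 50222726804) (nat_lit 76) (nat_lit 48732398938) (nat_lit 1) (nat_lit 4) (nat_lit 2) (nat_lit 5) (nat_lit 2) (nat_lit 4) (nat_lit 355) (nat_lit 219) (nat_lit 206)) (XT.nd (nat_lit 78) (nat_lit 0) (nat_lit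 0) (XT.lf (nat_lit 0) (nat_lit 30444339298) (nat_lit 76) (nat_lit 50736209895) (nat_lit 76) (nat_lit 49165750981) (nat_lit 1) (nat_lit 4) (nat_lit 2) (nat_lit 5) (nat_lit 2) (nat_lit 4) (nat_lit 356) (nat_lit 219) (nat_lit 205)) (XT.lf (nat_lit 0) (nat_lit 35769236375) (nat_lit 76) (nat_lit 51319914139) (nat_lit 76) (nat_lit 49673139941) (nat_lit 1) (nat_lit 4) (nat_lit 2) (nat_lit 5) (nat_lit 2) (nat_lit 4) (nat_lit 357) (nat_lit 219) (nat_lit 204)))))) (XT.nd (nat_lit 390) (nat_lit 0) (nat_lit 0) (XT.nd (nat_lit 156) (nat_lit 0) (nat_lit 0) (XT.nd (nat_lit 78) (nat_lit 0) (nat_lit 0) (XT.lf (nat_lit 0) (nat_lit 41270472647) (nat_lit 76) (nat_lit 51975229307) (nat_lit 76) (nat_lit 50255773888) (nat_lit 1) (nat_lit 4) (nat_lit 2) (nat_lit 5) (nat_lit 2) (nat_lit 4) (nat_lit 358) (nat_lit 219) (nat_lit 203)) (XT.lf (nat_lit 0) (nat_lit 46961146295) (nat_lit 76) (nat_lit 52703715675) (nat_lit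 76) (nat_lit 50915040044) (nat_lit 1) (nat_lit 4) (nat_lit 2) (nat_lit 5) (nat_lit 2) (nat_lit 4) (nat_lit 359) (nat_lit 219) (nat_lit 202))) (XT.nd (nat_lit 78) (nat_lit 0) (nat_lit 0) (XT.lf (nat_lit 0) (nat_lit 52854806542) (nat_lit 76) (nat_lit 53507107733) (nat_lit 76) (nat_lit 51652508090) (nat_lit 1) (nat_lit 4) (nat_lit 2) (nat_lit 5) (nat_lit 2) (nat_lit 4) (nat_lit 360) (nat_lit 219) (nat_lit 201)) (XT.nd (nat_lit 78) (nat_lit 0) (nat_lit 0) (XT.lf (nat_lit 0) (nat_lit 58965485912) (nat_lit 76) (nat_lit 54387318320) (nat_lit 76) (nat_lit 52469933904) (nat_lit 1) (nat_lit 4) (nat_lit 2) (nat_lit 5) (nat_lit 2) (nat_lit 4) (nat_lit 361) (nat_lit 219) (nat_lit 200)) (XT.lf (nat_lit 0) (nat_lit 65307733642) (nat_lit 76) (nat_lit 55346443174) (nat_lit 76) (nat_lit 53369263738) (nat_lit 1) (nat_lit 4) (nat_lit 2) (nat_lit 5) (nat_lit 2) (nat_lit 4) (nat_lit 362) (nat_lit 219) (nat_lit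 199))))) (XT.nd (nat_lit 156) (nat_lit 0) (nat_lit 0) (XT.nd (nat_lit 78) (nat_lit 0) (nat_lit 0) (XT.lf (nat_lit 0) (nat_lit 71896650322) (nat_lit 76) (nat_lit 56386765928) (nat_lit 76) (nat_lit 54352638852) (nat_lit 1) (nat_lit 4) (nat_lit 2) (nat_lit 5) (nat_lit 2) (nat_lit 4) (nat_lit 363) (nat_lit 219) (nat_lit 198)) (XT.lf (nat_lit 0) (nat_lit 78747923849) (nat_lit 76) (nat_lit 57510763539) (nat_lit 76) (nat_lit 55422400616) (nat_lit 1) (nat_lit 4) (nat_lit 2) (nat_lit 5) (nat_lit 2) (nat_lit 4) (nat_lit 364) (nat_lit 219) (nat_lit 197))) (XT.nd (nat_lit 78) (nat_lit 0) (nat_lit 0) (XT.lf (nat_lit 0) (nat_lit 85877866778) (nat_lit 76) (nat_lit 58721112192) (nat_lit 76) (nat_lit 56581096081) (nat_lit 1) (nat_lit 4) (nat_lit 2) (nat_lit 5) (nat_lit 2) (nat_lit 4) (nat_lit 365) (nat_lit 219) (nat_lit 196)) (XT.nd (nat_lit 78) (nat_lit 0) (nat_lit 0) (XT.lf (nat_lit 0) (nat_lit 93303455165)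 (nat_lit 76) (nat_lit 60020693671) (nat_lit 76) (nat_lit 57831484048) (nat_lit 1) (nat_lit 4) (nat_lit 2) (nat_lit 5) (nat_lit 2) (nat_lit 4) (nat_lit 366) (nat_lit 219) (nat_lit 195)) (XT.lf (nat_lit 0) (nat_lit 101042368981) (nat_lit 76) (nat_lit 61412602216) (nat_lit 76) (nat_lit 59176541629) (nat_lit 1) (nat_lit 4) (nat_lit 2) (nat_lit 5) (nat_lit 2) (nat_lit 4) (nat_lit 367) (nat_lit 219) (nat_lit 194))))))) (XT.nd (nat_lit 780) (nat_lit 0) (nat_lit 0) (XT.nd (nat_lit 390) (nat_lit 0) (nat_lit 0) (XT.nd (nat_lit 156) (nat_lit 0) (nat_lit 0) (XT.nd (nat_lit 78) (nat_lit 0) (nat_lit 0) (XT.lf (nat_lit 0) (nat_lit 109113034212) (nat_lit 76) (nat_lit 62900151895) (nat_lit 76) (nat_lit 60619471343) (nat_lit 1) (nat_lit 4) (nat_lit 2) (nat_lit 5) (nat_lit 2) (nat_lit 4) (nat_lit 368) (nat_lit 219) (nat_lit 193)) (XT.lf (nat_lit 0) (nat_lit 117534666727) (nat_lit 76) (nat_lit 64486884494)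 (nat_lit 76) (nat_lit 62163708736) (nat_lit 1) (nat_lit 4) (nat_lit 2) (nat_lit 5) (nat_lit 2) (nat_lit 4) (nat_lit 369) (nat_lit 219) (nat_lit 192))) (XT.nd (nat_lit 78) (nat_lit 0) (nat_lit 0) (XT.lf (nat_lit 0) (nat_lit 126327318033) (nat_lit 76) (nat_lit 66176577948) (nat_lit 76) (nat_lit 63812930565) (nat_lit 1) (nat_lit 4) (nat_lit 2) (nat_lit 5) (nat_lit 2) (nat_lit 4) (nat_lit 370) (nat_lit 219) (nat_lit 191)) (XT.nd (nat_lit 78) (nat_lit 0) (nat_lit 0) (XT.lf (nat_lit 0) (nat_lit 135511923013) (nat_lit 76) (nat_lit 67973255335) (nat_lit 76) (nat_lit 65571063548) (nat_lit 1) (nat_lit 4) (nat_lit 2) (nat_lit 5) (nat_lit 2) (nat_lit 4) (nat_lit 371) (nat_lit 219) (nat_lit 190)) (XT.lf (nat_lit 0) (nat_lit 145110349775) (nat_lit 76) (nat_lit 69881194459) (nat_lit 76) (nat_lit 67442293717) (nat_lit 1) (nat_lit 4) (nat_lit 2) (nat_lit 5) (nat_lit 2) (nat_lit 4) (nat_lit 372) (nat_lit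 219) (nat_lit 189))))) (XT.nd (nat_lit 156) (nat_lit 0) (nat_lit 0) (XT.nd (nat_lit 78) (nat_lit 0) (nat_lit 0) (XT.lf (nat_lit 0) (nat_lit 155145451716) (nat_lit 76) (nat_lit 71904938033) (nat_lit 76) (nat_lit 69431076380) (nat_lit 1) (nat_lit 4) (nat_lit 2) (nat_lit 5) (nat_lit 2) (nat_lit 4) (nat_lit 373) (nat_lit 219) (nat_lit 188)) (XT.lf (nat_lit 0) (nat_lit 165641121935) (nat_lit 76) (nat_lit 74049304493) (nat_lit 76) (nat_lit 71542146734) (nat_lit 1) (nat_lit 4) (nat_lit 2) (nat_lit 5) (nat_lit 2) (nat_lit 4) (nat_lit 374) (nat_lit 219) (nat_lit 187))) (XT.nd (nat_lit 78) (nat_lit 0) (nat_lit 0) (XT.lf (nat_lit 0) (nat_lit 176622350124) (nat_lit 76) (nat_lit 76319399474) (nat_lit 76) (nat_lit 73780531139) (nat_lit 1) (nat_lit 4) (nat_lit 2) (nat_lit 5) (nat_lit 2) (nat_lit 4) (nat_lit 375) (nat_lit 219) (nat_lit 186)) (XT.nd (nat_lit 78) (nat_lit 0) (nat_lit 0) (XT.lf (nat_lit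 0) (nat_lit 188115282064) (nat_lit 76) (nat_lit 78720627964) (nat_lit 76) (nat_lit 76151559080) (nat_lit 1) (nat_lit 4) (nat_lit 2) (nat_lit 5) (nat_lit 2) (nat_lit 4) (nat_lit 376) (nat_lit 219) (nat_lit 185)) (XT.lf (nat_lit 0) (nat_lit 200147281878) (nat_lit 76) (nat_lit 81258707174) (nat_lit 76) (nat_lit 78660875862) (nat_lit 1) (nat_lit 4) (nat_lit 2) (nat_lit 5) (nat_lit 2) (nat_lit 4) (nat_lit 377) (nat_lit 219) (nat_lit 184)))))) (XT.nd (nat_lit 390) (nat_lit 0) (nat_lit 0) (XT.nd (nat_lit 156) (nat_lit 0) (nat_lit 0) (XT.nd (nat_lit 78) (nat_lit 0) (nat_lit 0) (XT.lf (nat_lit 0) (nat_lit 212746997185) (nat_lit 76) (nat_lit 83939680149) (nat_lit 76) (nat_lit 81314456049) (nat_lit 1) (nat_lit 4) (nat_lit 2) (nat_lit 5) (nat_lit 2) (nat_lit 4) (nat_lit 378) (nat_lit 219) (nat_lit 183)) (XT.lf (nat_lit 0) (nat_lit 225944427308) (nat_lit 76) (nat_lit 86769930158) (nat_lit 76) (nat_lit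 84118617688) (nat_lit 1) (nat_lit 4) (nat_lit 2) (nat_lit 5) (nat_lit 2) (nat_lit 4) (nat_lit 379) (nat_lit 219) (nat_lit 182))) (XT.nd (nat_lit 78) (nat_lit 0) (nat_lit 0) (XT.lf (nat_lit 0) (nat_lit 239770994699) (nat_lit 76) (nat_lit 89756195893) (nat_lit 76) (nat_lit 87080037356) (nat_lit 1) (nat_lit 4) (nat_lit 2) (nat_lit 5) (nat_lit 2) (nat_lit 4) (nat_lit 380) (nat_lit 219) (nat_lit 181)) (XT.nd (nat_lit 78) (nat_lit 0) (nat_lit 0) (XT.lf (nat_lit 0) (nat_lit 254259619756) (nat_lit 76) (nat_lit 92905587508) (nat_lit 76) (nat_lit 90205766051) (nat_lit 1) (nat_lit 4) (nat_lit 2) (nat_lit 5) (nat_lit 2) (nat_lit 4) (nat_lit 381) (nat_lit 219) (nat_lit 180)) (XT.lf (nat_lit 0) (nat_lit 269444799206) (nat_lit 76) (nat_lit 96225603557) (nat_lit 76) (nat_lit 93503245985) (nat_lit 1) (nat_lit 4) (nat_lit 2) (nat_lit 5) (nat_lit 2) (nat_lit 4) (nat_lit 382) (nat_lit 219) (nat_lit 179)))))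 (XT.nd (nat_lit 156) (nat_lit 0) (nat_lit 0) (XT.nd (nat_lit 78) (nat_lit 0) (nat_lit 0) (XT.lf (nat_lit 0) (nat_lit 285362688239) (nat_lit 76) (nat_lit 99724148838) (nat_lit 76) (nat_lit 96980328300) (nat_lit 1) (nat_lit 4) (nat_lit 2) (nat_lit 5) (nat_lit 2) (nat_lit 4) (nat_lit 383) (nat_lit 219) (nat_lit 178)) (XT.lf (nat_lit 0) (nat_lit 302051186589) (nat_lit 76) (nat_lit 103409553222) (nat_lit 76) (nat_lit 100645291764) (nat_lit 1) (nat_lit 4) (nat_lit 2) (nat_lit 5) (nat_lit 2) (nat_lit 4) (nat_lit 384) (nat_lit 219) (nat_lit 177))) (XT.nd (nat_lit 78) (nat_lit 0) (nat_lit 0) (XT.lf (nat_lit 0) (nat_lit 319550028777) (nat_lit 76) (nat_lit 107290591481) (nat_lit 76) (nat_lit 104506862480) (nat_lit 1) (nat_lit 4) (nat_lit 2) (nat_lit 5) (nat_lit 2) (nat_lit 4) (nat_lit 385) (nat_lit 219) (nat_lit 176)) (XT.nd (nat_lit 78) (nat_lit 0) (nat_lit 0) (XT.lf (nat_lit 0) (nat_lit 337900878713)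 (nat_lit 76) (nat_lit 111376504183) (nat_lit 76) (nat_lit 108574234664) (nat_lit 1) (nat_lit 4) (nat_lit 2) (nat_lit 5) (nat_lit 2) (nat_lit 4) (nat_lit 386) (nat_lit 219) (nat_lit 175)) (XT.lf (nat_lit 0) (nat_lit 357147428896) (nat_lit 76) (nat_lit 115677019690) (nat_lit 76) (nat_lit 112857092535) (nat_lit 1) (nat_lit 4) (nat_lit 2) (nat_lit 5) (nat_lit 2) (nat_lit 4) (nat_lit 387) (nat_lit 219) (nat_lit 174))))))))
noncomputable def xc17 : XT := (XT.nd (nat_lit 38064) (nat_lit 0) (nat_lit 0) (XT.nd (nat_lit 37284) (nat_lit 0) (nat_lit 0) (XT.nd (nat_lit 36894) (nat_lit 0) (nat_lit 76) (XT.nd (nat_lit 156) (nat_lit 0) (nat_lit 0) (XT.nd (nat_lit 78) (nat_lit 0) (nat_lit 0) (XT.lf (nat_lit 0) (nat_lit 377335504446) (nat_lit 76) (nat_lit 120202377326) (nat_lit 76) (nat_lit 117365633375) (nat_lit 1) (nat_lit 4) (nat_lit 2) (nat_lit 5) (nat_lit 2) (nat_lit 4) (nat_lit 388) (nat_lit 219)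 (nat_lit 173)) (XT.lf (nat_lit 0) (nat_lit 398513172210) (nat_lit 76) (nat_lit 124963351751) (nat_lit 76) (nat_lit 122110591805) (nat_lit 1) (nat_lit 4) (nat_lit 2) (nat_lit 5) (nat_lit 2) (nat_lit 4) (nat_lit 389) (nat_lit 219) (nat_lit 172))) (XT.nd (nat_lit 78) (nat_lit 0) (nat_lit 0) (XT.lf (nat_lit 0) (nat_lit 420730855206) (nat_lit 76) (nat_lit 129971278620) (nat_lit 76) (nat_lit 127103265343) (nat_lit 1) (nat_lit 4) (nat_lit 2) (nat_lit 5) (nat_lit 2) (nat_lit 4) (nat_lit 390) (nat_lit 219) (nat_lit 171)) (XT.nd (nat_lit 78) (nat_lit 0) (nat_lit 0) (XT.lf (nat_lit 0) (nat_lit 444041452679) (nat_lit 76) (nat_lit 135238081566) (nat_lit 76) (nat_lit 132355541310) (nat_lit 1) (nat_lit 4) (nat_lit 2) (nat_lit 5) (nat_lit 2) (nat_lit 4) (nat_lit 391) (nat_lit 219) (nat_lit 170)) (XT.lf (nat_lit 0) (nat_lit 468500466052) (nat_lit 76) (nat_lit 140776300598) (nat_lit 76) (nat_lit 137879925122)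 (nat_lit 1) (nat_lit 4) (nat_lit 2) (nat_lit 5) (nat_lit 2) (nat_lit 4) (nat_lit 392) (nat_lit 219) (nat_lit 169))))) (XT.nd (nat_lit 156) (nat_lit 0) (nat_lit 0) (XT.nd (nat_lit 78) (nat_lit 0) (nat_lit 0) (XT.lf (nat_lit 0) (nat_lit 5584331587) (nat_lit 152) (nat_lit 19391874053) (nat_lit 0) (nat_lit 5584331587) (nat_lit 2) (nat_lit 5) (nat_lit 4) (nat_lit 4) (nat_lit 2) (nat_lit 4) (nat_lit 340) (nat_lit 220) (nat_lit 220)) (XT.lf (nat_lit 0) (nat_lit 14602402443) (nat_lit 152) (nat_lit 34977457061) (nat_lit 0) (nat_lit 14443748449) (nat_lit 2) (nat_lit 5) (nat_lit 4) (nat_lit 4) (nat_lit 2) (nat_lit 4) (nat_lit 341) (nat_lit 220) (nat_lit 219))) (XT.nd (nat_lit 78) (nat_lit 0) (nat_lit 0) (XT.lf (nat_lit 0) (nat_lit 18112039423) (nat_lit 152) (nat_lit 31161776667) (nat_lit 0) (nat_lit 17802286388) (nat_lit 2) (nat_lit 5) (nat_lit 4) (nat_lit 4) (nat_lit 2) (nat_lit 4) (nat_lit 342)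 (nat_lit 220) (nat_lit 218)) (XT.nd (nat_lit 78) (nat_lit 0) (nat_lit 0) (XT.lf (nat_lit 0) (nat_lit 21705930393) (nat_lit 152) (nat_lit 27327621973) (nat_lit 0) (nat_lit 21252273510) (nat_lit 2) (nat_lit 5) (nat_lit 4) (nat_lit 4) (nat_lit 2) (nat_lit 4) (nat_lit 343) (nat_lit 220) (nat_lit 217)) (XT.lf (nat_lit 0) (nat_lit 25392632238) (nat_lit 152) (nat_lit 23465864039) (nat_lit 0) (nat_lit 24801924070) (nat_lit 2) (nat_lit 5) (nat_lit 4) (nat_lit 4) (nat_lit 2) (nat_lit 4) (nat_lit 344) (nat_lit 220) (nat_lit 216)))))) (XT.nd (nat_lit 390) (nat_lit 76) (nat_lit 0) (XT.nd (nat_lit 156) (nat_lit 0) (nat_lit 0) (XT.nd (nat_lit 78) (nat_lit 0) (nat_lit 0) (XT.lf (nat_lit 0) (nat_lit 29180922819) (nat_lit 152) (nat_lit 19567308201) (nat_lit 0) (nat_lit 28459689618) (nat_lit 2) (nat_lit 5) (nat_lit 4) (nat_lit 4) (nat_lit 2) (nat_lit 4) (nat_lit 345) (nat_lit 220) (nat_lit 215)) (XT.lf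 (nat_lit 0) (nat_lit 33079821874) (nat_lit 152) (nat_lit 15622672186) (nat_lit 0) (nat_lit 32234279118) (nat_lit 2) (nat_lit 5) (nat_lit 4) (nat_lit 4) (nat_lit 2) (nat_lit 4) (nat_lit 346) (nat_lit 220) (nat_lit 214))) (XT.nd (nat_lit 78) (nat_lit 0) (nat_lit 0) (XT.lf (nat_lit 0) (nat_lit 37098612498) (nat_lit 152) (nat_lit 11622564002) (nat_lit 0) (nat_lit 36134679689) (nat_lit 2) (nat_lit 5) (nat_lit 4) (nat_lit 4) (nat_lit 2) (nat_lit 4) (nat_lit 347) (nat_lit 220) (nat_lit 213)) (XT.nd (nat_lit 78) (nat_lit 0) (nat_lit 0) (XT.lf (nat_lit 0) (nat_lit 41246863239) (nat_lit 152) (nat_lit 7557459582) (nat_lit 0) (nat_lit 40170177999) (nat_lit 2) (nat_lit 5) (nat_lit 4) (nat_lit 4) (nat_lit 2) (nat_lit 4) (nat_lit 348) (nat_lit 220) (nat_lit 212)) (XT.lf (nat_lit 0) (nat_lit 45534450884) (nat_lit 152) (nat_lit 3417680106) (nat_lit 0) (nat_lit 44350382377) (nat_lit 2) (nat_lit 5) (nat_lit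 4) (nat_lit 4) (nat_lit 2) (nat_lit 4) (nat_lit 349) (nat_lit 220) (nat_lit 211))))) (XT.nd (nat_lit 156) (nat_lit 0) (nat_lit 0) (XT.nd (nat_lit 78) (nat_lit 0) (nat_lit 0) (XT.lf (nat_lit 0) (nat_lit 833301908) (nat_lit 76) (nat_lit 49151292247) (nat_lit 76) (nat_lit 47864953961) (nat_lit 1) (nat_lit 4) (nat_lit 2) (nat_lit 5) (nat_lit 2) (nat_lit 4) (nat_lit 350) (nat_lit 220) (nat_lit 210)) (XT.lf (nat_lit 0) (nat_lit 5295004977) (nat_lit 76) (nat_lit 49356492008) (nat_lit 76) (nat_lit 47972753933) (nat_lit 1) (nat_lit 4) (nat_lit 2) (nat_lit 5) (nat_lit 2) (nat_lit 4) (nat_lit 351) (nat_lit 220) (nat_lit 209))) (XT.nd (nat_lit 78) (nat_lit 0) (nat_lit 0) (XT.lf (nat_lit 0) (nat_lit 9865048264) (nat_lit 76) (nat_lit 49626098913) (nat_lit 76) (nat_lit 48149599133) (nat_lit 1) (nat_lit 4) (nat_lit 2) (nat_lit 5) (nat_lit 2) (nat_lit 4) (nat_lit 352) (nat_lit 220) (nat_lit 208)) (XT.nd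 (nat_lit 78) (nat_lit 0) (nat_lit 0) (XT.lf (nat_lit 0) (nat_lit 14554312824) (nat_lit 76) (nat_lit 49960754881) (nat_lit 76) (nat_lit 48395910622) (nat_lit 1) (nat_lit 4) (nat_lit 2) (nat_lit 5) (nat_lit 2) (nat_lit 4) (nat_lit 353) (nat_lit 220) (nat_lit 207)) (XT.lf (nat_lit 0) (nat_lit 19373963573) (nat_lit 76) (nat_lit 50361256713) (nat_lit 76) (nat_lit 48712274854) (nat_lit 1) (nat_lit 4) (nat_lit 2) (nat_lit 5) (nat_lit 2) (nat_lit 4) (nat_lit 354) (nat_lit 220) (nat_lit 206))))))) (XT.nd (nat_lit 780) (nat_lit 0) (nat_lit 0) (XT.nd (nat_lit 390) (nat_lit 0) (nat_lit 0) (XT.nd (nat_lit 156) (nat_lit 0) (nat_lit 0) (XT.nd (nat_lit 78) (nat_lit 0) (nat_lit 0) (XT.lf (nat_lit 0) (nat_lit 24335475870) (nat_lit 76) (nat_lit 50828557986) (nat_lit 76) (nat_lit 49099445079) (nat_lit 1) (nat_lit 4) (nat_lit 2) (nat_lit 5) (nat_lit 2) (nat_lit 4) (nat_lit 355) (nat_lit 220) (nat_lit 205))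 (XT.lf (nat_lit 0) (nat_lit 29450662839) (nat_lit 76) (nat_lit 51363771320) (nat_lit 76) (nat_lit 49558343129) (nat_lit 1) (nat_lit 4) (nat_lit 2) (nat_lit 5) (nat_lit 2) (nat_lit 4) (nat_lit 356) (nat_lit 220) (nat_lit 204))) (XT.nd (nat_lit 78) (nat_lit 0) (nat_lit 0) (XT.lf (nat_lit 0) (nat_lit 34731703497) (nat_lit 76) (nat_lit 51968171033) (nat_lit 76) (nat_lit 50090061620) (nat_lit 1) (nat_lit 4) (nat_lit 2) (nat_lit 5) (nat_lit 2) (nat_lit 4) (nat_lit 357) (nat_lit 220) (nat_lit 203)) (XT.nd (nat_lit 78) (nat_lit 0) (nat_lit 0) (XT.lf (nat_lit 0) (nat_lit 40191171751) (nat_lit 76) (nat_lit 52643196173) (nat_lit 76) (nat_lit 50695866548) (nat_lit 1) (nat_lit 4) (nat_lit 2) (nat_lit 5) (nat_lit 2) (nat_lit 4) (nat_lit 358) (nat_lit 220) (nat_lit 202)) (XT.lf (nat_lit 0) (nat_lit 45842066334) (nat_lit 76) (nat_lit 53390453941) (nat_lit 76) (nat_lit 51377200305) (nat_lit 1) (nat_lit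 4) (nat_lit 2) (nat_lit 5) (nat_lit 2) (nat_lit 4) (nat_lit 359) (nat_lit 220) (nat_lit 201))))) (XT.nd (nat_lit 156) (nat_lit 0) (nat_lit 0) (XT.nd (nat_lit 78) (nat_lit 0) (nat_lit 0) (XT.lf (nat_lit 0) (nat_lit 51697841757) (nat_lit 76) (nat_lit 54211723524) (nat_lit 76) (nat_lit 52135685116) (nat_lit 1) (nat_lit 4) (nat_lit 2) (nat_lit 5) (nat_lit 2) (nat_lit 4) (nat_lit 360) (nat_lit 220) (nat_lit 200)) (XT.lf (nat_lit 0) (nat_lit 57772440342) (nat_lit 76) (nat_lit 55108960325) (nat_lit 76) (nat_lit 52973126895) (nat_lit 1) (nat_lit 4) (nat_lit 2) (nat_lit 5) (nat_lit 2) (nat_lit 4) (nat_lit 361) (nat_lit 220) (nat_lit 199))) (XT.nd (nat_lit 78) (nat_lit 0) (nat_lit 0) (XT.lf (nat_lit 0) (nat_lit 64080325421) (nat_lit 76) (nat_lit 56084300621) (nat_lit 76) (nat_lit 53891519552) (nat_lit 1) (nat_lit 4) (nat_lit 2) (nat_lit 5) (nat_lit 2) (nat_lit 4) (nat_lit 362) (nat_lit 220) (nat_lit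 198)) (XT.nd (nat_lit 78) (nat_lit 0) (nat_lit 0) (XT.lf (nat_lit 0) (nat_lit 70636515765) (nat_lit 76) (nat_lit 57140066653) (nat_lit 76) (nat_lit 54893049736) (nat_lit 1) (nat_lit 4) (nat_lit 2) (nat_lit 5) (nat_lit 2) (nat_lit 4) (nat_lit 363) (nat_lit 220) (nat_lit 197)) (XT.lf (nat_lit 0) (nat_lit 77456621353) (nat_lit 76) (nat_lit 58278772148) (nat_lit 76) (nat_lit 55980102043) (nat_lit 1) (nat_lit 4) (nat_lit 2) (nat_lit 5) (nat_lit 2) (nat_lit 4) (nat_lit 364) (nat_lit 220) (nat_lit 196)))))) (XT.nd (nat_lit 390) (nat_lit 0) (nat_lit 0) (XT.nd (nat_lit 156) (nat_lit 0) (nat_lit 0) (XT.nd (nat_lit 78) (nat_lit 0) (nat_lit 0) (XT.lf (nat_lit 0) (nat_lit 84556880532) (nat_lit 76) (nat_lit 59503128310) (nat_lit 76) (nat_lit 57155264693) (nat_lit 1) (nat_lit 4) (nat_lit 2) (nat_lit 5) (nat_lit 2) (nat_lit 4) (nat_lit 365) (nat_lit 220) (nat_lit 195)) (XT.lf (nat_lit 0) (nat_lit 91954198679)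 (nat_lit 76) (nat_lit 60816050272) (nat_lit 76) (nat_lit 58421335692) (nat_lit 1) (nat_lit 4) (nat_lit 2) (nat_lit 5) (nat_lit 2) (nat_lit 4) (nat_lit 366) (nat_lit 220) (nat_lit 194))) (XT.nd (nat_lit 78) (nat_lit 0) (nat_lit 0) (XT.lf (nat_lit 0) (nat_lit 99666188458) (nat_lit 76) (nat_lit 62220664041) (nat_lit 76) (nat_lit 59781329494) (nat_lit 1) (nat_lit 4) (nat_lit 2) (nat_lit 5) (nat_lit 2) (nat_lit 4) (nat_lit 367) (nat_lit 220) (nat_lit 193)) (XT.nd (nat_lit 78) (nat_lit 0) (nat_lit 0) (XT.lf (nat_lit 0) (nat_lit 107711211749) (nat_lit 76) (nat_lit 63720313932) (nat_lit 76) (nat_lit 61238484181) (nat_lit 1) (nat_lit 4) (nat_lit 2) (nat_lit 5) (nat_lit 2) (nat_lit 4) (nat_lit 368) (nat_lit 220) (nat_lit 192)) (XT.lf (nat_lit 0) (nat_lit 116108423370) (nat_lit 76) (nat_lit 65318570543) (nat_lit 76) (nat_lit 62796269168) (nat_lit 1) (nat_lit 4) (nat_lit 2) (nat_lit 5) (nat_lit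 2) (nat_lit 4) (nat_lit 369) (nat_lit 220) (nat_lit 191))))) (XT.nd (nat_lit 234) (nat_lit 0) (nat_lit 0) (XT.nd (nat_lit 78) (nat_lit 0) (nat_lit 0) (XT.lf (nat_lit 0) (nat_lit 124877816680) (nat_lit 76) (nat_lit 67019239246) (nat_lit 76) (nat_lit 64458393466) (nat_lit 1) (nat_lit 4) (nat_lit 2) (nat_lit 5) (nat_lit 2) (nat_lit 4) (nat_lit 370) (nat_lit 220) (nat_lit 190)) (XT.nd (nat_lit 78) (nat_lit 0) (nat_lit 0) (XT.lf (nat_lit 0) (nat_lit 134040271188) (nat_lit 76) (nat_lit 68826369252) (nat_lit 76) (nat_lit 66228814516) (nat_lit 1) (nat_lit 4) (nat_lit 2) (nat_lit 5) (nat_lit 2) (nat_lit 4) (nat_lit 371) (nat_lit 220) (nat_lit 189)) (XT.lf (nat_lit 0) (nat_lit 143617602263) (nat_lit 76) (nat_lit 70744263251) (nat_lit 76) (nat_lit 68111747604) (nat_lit 1) (nat_lit 4) (nat_lit 2) (nat_lit 5) (nat_lit 2) (nat_lit 4) (nat_lit 372) (nat_lit 220) (nat_lit 188)))) (XT.nd (nat_lit 78)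 (nat_lit 0) (nat_lit 0) (XT.lf (nat_lit 0) (nat_lit 153632613072) (nat_lit 76) (nat_lit 72777487657) (nat_lit 76) (nat_lit 70111675905) (nat_lit 1) (nat_lit 4) (nat_lit 2) (nat_lit 5) (nat_lit 2) (nat_lit 4) (nat_lit 373) (nat_lit 220) (nat_lit 187)) (XT.nd (nat_lit 78) (nat_lit 0) (nat_lit 0) (XT.lf (nat_lit 0) (nat_lit 164109148881) (nat_lit 76) (nat_lit 74930883482) (nat_lit 76) (nat_lit 72233361154) (nat_lit 1) (nat_lit 4) (nat_lit 2) (nat_lit 5) (nat_lit 2) (nat_lit 4) (nat_lit 374) (nat_lit 220) (nat_lit 186)) (XT.lf (nat_lit 0) (nat_lit 175072153822) (nat_lit 76) (nat_lit 77209577859) (nat_lit 76) (nat_lit 74481854981) (nat_lit 1) (nat_lit 4) (nat_lit 2) (nat_lit 5) (nat_lit 2) (nat_lit 4) (nat_lit 375) (nat_lit 220) (nat_lit 185))))))))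
noncomputable def xc18 : XT := (XT.nd (nat_lit 37908) (nat_lit 0) (nat_lit 0) (XT.nd (nat_lit 780) (nat_lit 0) (nat_lit 0) (XT.nd (nat_lit 390) (nat_lit 0) (nat_lit 0) (XT.nd (nat_lit 156) (nat_lit 0) (nat_lit 0) (XT.nd (nat_lit 78) (nat_lit 0) (nat_lit 0) (XT.lf (nat_lit 0) (nat_lit 186547730287) (nat_lit 76) (nat_lit 79618996249) (nat_lit 76) (nat_lit 76862510943) (nat_lit 1) (nat_lit 4) (nat_lit 2) (nat_lit 5) (nat_lit 2) (nat_lit 4) (nat_lit 376) (nat_lit 220) (nat_lit 184)) (XT.lf (nat_lit 0) (nat_lit 198563201078) (nat_lit 76) (nat_lit 82164875363) (nat_lit 76) (nat_lit 79380997270) (nat_lit 1) (nat_lit 4) (nat_lit 2) (nat_lit 5) (nat_lit 2) (nat_lit 4) (nat_lit 377) (nat_lit 220) (nat_lit 183))) (XT.nd (nat_lit 78) (nat_lit 0) (nat_lit 0) (XT.lf (nat_lit 0) (nat_lit 211147174459) (nat_lit 76) (nat_lit 84853276819) (nat_lit 76) (nat_lit 82043310356) (nat_lit 1) (nat_lit 4) (nat_lit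 2) (nat_lit 5) (nat_lit 2) (nat_lit 4) (nat_lit 378) (nat_lit 220) (nat_lit 182)) (XT.nd (nat_lit 78) (nat_lit 0) (nat_lit 0) (XT.lf (nat_lit 0) (nat_lit 224329612270) (nat_lit 76) (nat_lit 87690601572) (nat_lit 76) (nat_lit 84855789042) (nat_lit 1) (nat_lit 4) (nat_lit 2) (nat_lit 5) (nat_lit 2) (nat_lit 4) (nat_lit 379) (nat_lit 220) (nat_lit 181)) (XT.lf (nat_lit 0) (nat_lit 238141901269) (nat_lit 76) (nat_lit 90683605157) (nat_lit 76) (nat_lit 87825129707) (nat_lit 1) (nat_lit 4) (nat_lit 2) (nat_lit 5) (nat_lit 2) (nat_lit 4) (nat_lit 380) (nat_lit 220) (nat_lit 180))))) (XT.nd (nat_lit 156) (nat_lit 0) (nat_lit 0) (XT.nd (nat_lit 78) (nat_lit 0) (nat_lit 0) (XT.lf (nat_lit 0) (nat_lit 252616927858) (nat_lit 76) (nat_lit 93839413774) (nat_lit 76) (nat_lit 90958402209) (nat_lit 1) (nat_lit 4) (nat_lit 2) (nat_lit 5) (nat_lit 2) (nat_lit 4) (nat_lit 381) (nat_lit 220) (nat_lit 179))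 (XT.lf (nat_lit 0) (nat_lit 267789156387) (nat_lit 76) (nat_lit 97165541252) (nat_lit 76) (nat_lit 94263066720) (nat_lit 1) (nat_lit 4) (nat_lit 2) (nat_lit 5) (nat_lit 2) (nat_lit 4) (nat_lit 382) (nat_lit 220) (nat_lit 178))) (XT.nd (nat_lit 78) (nat_lit 0) (nat_lit 0) (XT.lf (nat_lit 0) (nat_lit 283694711207) (nat_lit 76) (nat_lit 100669906943) (nat_lit 76) (nat_lit 97746991491) (nat_lit 1) (nat_lit 4) (nat_lit 2) (nat_lit 5) (nat_lit 2) (nat_lit 4) (nat_lit 383) (nat_lit 220) (nat_lit 177)) (XT.nd (nat_lit 78) (nat_lit 0) (nat_lit 0) (XT.lf (nat_lit 0) (nat_lit 300371462689) (nat_lit 76) (nat_lit 104360854573) (nat_lit 76) (nat_lit 101418471578) (nat_lit 1) (nat_lit 4) (nat_lit 2) (nat_lit 5) (nat_lit 2) (nat_lit 4) (nat_lit 384) (nat_lit 220) (nat_lit 176)) (XT.lf (nat_lit 0) (nat_lit 317859117384) (nat_lit 76) (nat_lit 108247172115) (nat_lit 76) (nat_lit 105286248603) (nat_lit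 1) (nat_lit 4) (nat_lit 2) (nat_lit 5) (nat_lit 2) (nat_lit 4) (nat_lit 385) (nat_lit 220) (nat_lit 175)))))) (XT.nd (nat_lit 390) (nat_lit 0) (nat_lit 0) (XT.nd (nat_lit 156) (nat_lit 0) (nat_lit 0) (XT.nd (nat_lit 78) (nat_lit 0) (nat_lit 0) (XT.lf (nat_lit 0) (nat_lit 336199312564) (nat_lit 76) (nat_lit 112338112705) (nat_lit 76) (nat_lit 109359531557) (nat_lit 1) (nat_lit 4) (nat_lit 2) (nat_lit 5) (nat_lit 2) (nat_lit 4) (nat_lit 386) (nat_lit 220) (nat_lit 174)) (XT.lf (nat_lit 0) (nat_lit 355435715361) (nat_lit 76) (nat_lit 116643416677) (nat_lit 76) (nat_lit 113648018733) (nat_lit 1) (nat_lit 4) (nat_lit 2) (nat_lit 5) (nat_lit 2) (nat_lit 4) (nat_lit 387) (nat_lit 220) (nat_lit 173))) (XT.nd (nat_lit 78) (nat_lit 0) (nat_lit 0) (XT.lf (nat_lit 0) (nat_lit 375614126733) (nat_lit 76) (nat_lit 121173334756) (nat_lit 76) (nat_lit 118161920816) (nat_lit 1) (nat_lit 4) (nat_lit 2)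 (nat_lit 5) (nat_lit 2) (nat_lit 4) (nat_lit 388) (nat_lit 220) (nat_lit 172)) (XT.nd (nat_lit 78) (nat_lit 0) (nat_lit 0) (XT.lf (nat_lit 0) (nat_lit 396782590519) (nat_lit 76) (nat_lit 125938652460) (nat_lit 76) (nat_lit 122911985190) (nat_lit 1) (nat_lit 4) (nat_lit 2) (nat_lit 5) (nat_lit 2) (nat_lit 4) (nat_lit 389) (nat_lit 220) (nat_lit 171)) (XT.lf (nat_lit 0) (nat_lit 418991507821) (nat_lit 76) (nat_lit 130950715784) (nat_lit 76) (nat_lit 127909521534) (nat_lit 1) (nat_lit 4) (nat_lit 2) (nat_lit 5) (nat_lit 2) (nat_lit 4) (nat_lit 390) (nat_lit 220) (nat_lit 170))))) (XT.nd (nat_lit 36504) (nat_lit 0) (nat_lit 76) (XT.nd (nat_lit 78) (nat_lit 0) (nat_lit 0) (XT.lf (nat_lit 0) (nat_lit 442293757014) (nat_lit 76) (nat_lit 136221458213) (nat_lit 76) (nat_lit 133166428743) (nat_lit 1) (nat_lit 4) (nat_lit 2) (nat_lit 5) (nat_lit 2) (nat_lit 4) (nat_lit 391) (nat_lit 220) (nat_lit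 169)) (XT.lf (nat_lit 0) (nat_lit 466744819644) (nat_lit 76) (nat_lit 141763429132) (nat_lit 76) (nat_lit 138695223263) (nat_lit 1) (nat_lit 4) (nat_lit 2) (nat_lit 5) (nat_lit 2) (nat_lit 4) (nat_lit 392) (nat_lit 220) (nat_lit 168))) (XT.nd (nat_lit 78) (nat_lit 0) (nat_lit 0) (XT.lf (nat_lit 0) (nat_lit 2357219680) (nat_lit 152) (nat_lit 23153554655) (nat_lit 0) (nat_lit 2357219680) (nat_lit 2) (nat_lit 5) (nat_lit 4) (nat_lit 4) (nat_lit 2) (nat_lit 4) (nat_lit 338) (nat_lit 221) (nat_lit 221)) (XT.nd (nat_lit 78) (nat_lit 0) (nat_lit 0) (XT.lf (nat_lit 0) (nat_lit 7969232743) (nat_lit 152) (nat_lit 42589712402) (nat_lit 0) (nat_lit 7802646050) (nat_lit 2) (nat_lit 5) (nat_lit 4) (nat_lit 4) (nat_lit 2) (nat_lit 4) (nat_lit 339) (nat_lit 221) (nat_lit 220)) (XT.lf (nat_lit 0) (nat_lit 11286187081) (nat_lit 152) (nat_lit 38876417113) (nat_lit 0) (nat_lit 10960946395) (nat_lit 2) (nat_lit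 5) (nat_lit 4) (nat_lit 4) (nat_lit 2) (nat_lit 4) (nat_lit 340) (nat_lit 221) (nat_lit 219))))))) (XT.nd (nat_lit 780) (nat_lit 76) (nat_lit 0) (XT.nd (nat_lit 390) (nat_lit 0) (nat_lit 0) (XT.nd (nat_lit 156) (nat_lit 0) (nat_lit 0) (XT.nd (nat_lit 78) (nat_lit 0) (nat_lit 0) (XT.lf (nat_lit 0) (nat_lit 14673199885) (nat_lit 152) (nat_lit 35158382265) (nat_lit 0) (nat_lit 14196860157) (nat_lit 2) (nat_lit 5) (nat_lit 4) (nat_lit 4) (nat_lit 2) (nat_lit 4) (nat_lit 341) (nat_lit 221) (nat_lit 218)) (XT.lf (nat_lit 0) (nat_lit 18138335470) (nat_lit 152) (nat_lit 31426755393) (nat_lit 0) (nat_lit 17518091894) (nat_lit 2) (nat_lit 5) (nat_lit 4) (nat_lit 4) (nat_lit 2) (nat_lit 4) (nat_lit 342) (nat_lit 221) (nat_lit 217))) (XT.nd (nat_lit 78) (nat_lit 0) (nat_lit 0) (XT.lf (nat_lit 0) (nat_lit 21689844161) (nat_lit 152) (nat_lit 27672651672) (nat_lit 0) (nat_lit 20932549300) (nat_lit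 2) (nat_lit 5) (nat_lit 4) (nat_lit 4) (nat_lit 2) (nat_lit 4) (nat_lit 343) (nat_lit 221) (nat_lit 216)) (XT.nd (nat_lit 78) (nat_lit 0) (nat_lit 0) (XT.lf (nat_lit 0) (nat_lit 25336181929) (nat_lit 152) (nat_lit 23887132759) (nat_lit 0) (nat_lit 24448362035) (nat_lit 2) (nat_lit 5) (nat_lit 4) (nat_lit 4) (nat_lit 2) (nat_lit 4) (nat_lit 344) (nat_lit 221) (nat_lit 215)) (XT.lf (nat_lit 0) (nat_lit 29086030532) (nat_lit 152) (nat_lit 20061185514) (nat_lit 0) (nat_lit 28073901083) (nat_lit 2) (nat_lit 5) (nat_lit 4) (nat_lit 4) (nat_lit 2) (nat_lit 4) (nat_lit 345) (nat_lit 221) (nat_lit 214))))) (XT.nd (nat_lit 156) (nat_lit 0) (nat_lit 0) (XT.nd (nat_lit 78) (nat_lit 0) (nat_lit 0) (XT.lf (nat_lit 0) (nat_lit 32948318181) (nat_lit 152) (nat_lit 16185700538) (nat_lit 0) (nat_lit 31817798679) (nat_lit 2) (nat_lit 5) (nat_lit 4) (nat_lit 4) (nat_lit 2) (nat_lit 4) (nat_lit 346) (nat_lit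 221) (nat_lit 213)) (XT.lf (nat_lit 0) (nat_lit 36932240798) (nat_lit 152) (nat_lit 12251450488) (nat_lit 0) (nat_lit 35688968865) (nat_lit 2) (nat_lit 5) (nat_lit 4) (nat_lit 4) (nat_lit 2) (nat_lit 4) (nat_lit 347) (nat_lit 221) (nat_lit 212))) (XT.nd (nat_lit 78) (nat_lit 0) (nat_lit 0) (XT.lf (nat_lit 0) (nat_lit 41047283913) (nat_lit 152) (nat_lit 8249068099) (nat_lit 0) (nat_lit 39696628713) (nat_lit 2) (nat_lit 5) (nat_lit 4) (nat_lit 4) (nat_lit 2) (nat_lit 4) (nat_lit 348) (nat_lit 221) (nat_lit 211)) (XT.nd (nat_lit 78) (nat_lit 0) (nat_lit 0) (XT.lf (nat_lit 0) (nat_lit 45303245249) (nat_lit 152) (nat_lit 4169023892) (nat_lit 0) (nat_lit 43850320269) (nat_lit 2) (nat_lit 5) (nat_lit 4) (nat_lit 4) (nat_lit 2) (nat_lit 4) (nat_lit 349) (nat_lit 221) (nat_lit 210)) (XT.lf (nat_lit 0) (nat_lit 49710258046) (nat_lit 152) (nat_lit 1603474) (nat_lit 0) (nat_lit 48159933277) (nat_lit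 2) (nat_lit 5) (nat_lit 4) (nat_lit 4) (nat_lit 2) (nat_lit 4) (nat_lit 350) (nat_lit 221) (nat_lit 209)))))) (XT.nd (nat_lit 390) (nat_lit 0) (nat_lit 0) (XT.nd (nat_lit 156) (nat_lit 0) (nat_lit 0) (XT.nd (nat_lit 78) (nat_lit 0) (nat_lit 0) (XT.lf (nat_lit 0) (nat_lit 4404073437) (nat_lit 76) (nat_lit 49943501683) (nat_lit 76) (nat_lit 48300415211) (nat_lit 1) (nat_lit 4) (nat_lit 2) (nat_lit 5) (nat_lit 2) (nat_lit 4) (nat_lit 351) (nat_lit 221) (nat_lit 208)) (XT.lf (nat_lit 0) (nat_lit 8920808972) (nat_lit 76) (nat_lit 50238264060) (nat_lit 76) (nat_lit 48506833108) (nat_lit 1) (nat_lit 4) (nat_lit 2) (nat_lit 5) (nat_lit 2) (nat_lit 4) (nat_lit 352) (nat_lit 221) (nat_lit 207))) (XT.nd (nat_lit 78) (nat_lit 0) (nat_lit 0) (XT.lf (nat_lit 0) (nat_lit 13559304245) (nat_lit 76) (nat_lit 50596877622) (nat_lit 76) (nat_lit 48781309069) (nat_lit 1) (nat_lit 4) (nat_lit 2) (nat_lit 5)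 (nat_lit 2) (nat_lit 4) (nat_lit 353) (nat_lit 221) (nat_lit 206)) (XT.nd (nat_lit 78) (nat_lit 0) (nat_lit 0) (XT.lf (nat_lit 0) (nat_lit 18330603291) (nat_lit 76) (nat_lit 51020196209) (nat_lit 76) (nat_lit 49124496609) (nat_lit 1) (nat_lit 4) (nat_lit 2) (nat_lit 5) (nat_lit 2) (nat_lit 4) (nat_lit 354) (nat_lit 221) (nat_lit 205)) (XT.lf (nat_lit 0) (nat_lit 23246066348) (nat_lit 76) (nat_lit 51509227725) (nat_lit 76) (nat_lit 49537212841) (nat_lit 1) (nat_lit 4) (nat_lit 2) (nat_lit 5) (nat_lit 2) (nat_lit 4) (nat_lit 355) (nat_lit 221) (nat_lit 204))))) (XT.nd (nat_lit 156) (nat_lit 0) (nat_lit 0) (XT.nd (nat_lit 78) (nat_lit 0) (nat_lit 0) (XT.lf (nat_lit 0) (nat_lit 28317396898) (nat_lit 76) (nat_lit 52065136528) (nat_lit 76) (nat_lit 50020440422) (nat_lit 1) (nat_lit 4) (nat_lit 2) (nat_lit 5) (nat_lit 2) (nat_lit 4) (nat_lit 356) (nat_lit 221) (nat_lit 203)) (XT.lf (nat_lit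 0) (nat_lit 33556669538) (nat_lit 76) (nat_lit 52689246213) (nat_lit 76) (nat_lit 50575329895) (nat_lit 1) (nat_lit 4) (nat_lit 2) (nat_lit 5) (nat_lit 2) (nat_lit 4) (nat_lit 357) (nat_lit 221) (nat_lit 202))) (XT.nd (nat_lit 78) (nat_lit 0) (nat_lit 0) (XT.lf (nat_lit 0) (nat_lit 38976358727) (nat_lit 76) (nat_lit 53383042753) (nat_lit 76) (nat_lit 51203202424) (nat_lit 1) (nat_lit 4) (nat_lit 2) (nat_lit 5) (nat_lit 2) (nat_lit 4) (nat_lit 358) (nat_lit 221) (nat_lit 201)) (XT.nd (nat_lit 78) (nat_lit 0) (nat_lit 0) (XT.lf (nat_lit 0) (nat_lit 44589368486) (nat_lit 76) (nat_lit 54148178047) (nat_lit 76) (nat_lit 51905552945) (nat_lit 1) (nat_lit 4) (nat_lit 2) (nat_lit 5) (nat_lit 2) (nat_lit 4) (nat_lit 359) (nat_lit 221) (nat_lit 200)) (XT.lf (nat_lit 0) (nat_lit 50409063124) (nat_lit 76) (nat_lit 54986473843) (nat_lit 76) (nat_lit 52684053721) (nat_lit 1) (nat_lit 4) (nat_lit 2)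 (nat_lit 5) (nat_lit 2) (nat_lit 4) (nat_lit 360) (nat_lit 221) (nat_lit 199))))))))
noncomputable def xc19 : XT := (XT.nd (nat_lit 1560) (nat_lit 0) (nat_lit 0) (XT.nd (nat_lit 780) (nat_lit 0) (nat_lit 0) (XT.nd (nat_lit 390) (nat_lit 0) (nat_lit 0) (XT.nd (nat_lit 156) (nat_lit 0) (nat_lit 0) (XT.nd (nat_lit 78) (nat_lit 0) (nat_lit 0) (XT.lf (nat_lit 0) (nat_lit 56449299057) (nat_lit 76) (nat_lit 55899926086) (nat_lit 76) (nat_lit 53540558324) (nat_lit 1) (nat_lit 4) (nat_lit 2) (nat_lit 5) (nat_lit 2) (nat_lit 4) (nat_lit 361) (nat_lit 221) (nat_lit 198)) (XT.lf (nat_lit 0) (nat_lit 62724457800) (nat_lit 76) (nat_lit 56890709661) (nat_lit 76) (nat_lit 54477106051) (nat_lit 1) (nat_lit 4) (nat_lit 2) (nat_lit 5) (nat_lit 2) (nat_lit 4) (nat_lit 362) (nat_lit 221) (nat_lit 197))) (XT.nd (nat_lit 78) (nat_lit 0) (nat_lit 0) (XT.lf (nat_lit 0) (nat_lit 69249480207) (nat_lit 76) (nat_lit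 57961183576) (nat_lit 76) (nat_lit 55495926779) (nat_lit 1) (nat_lit 4) (nat_lit 2) (nat_lit 5) (nat_lit 2) (nat_lit 4) (nat_lit 363) (nat_lit 221) (nat_lit 196)) (XT.nd (nat_lit 78) (nat_lit 0) (nat_lit 0) (XT.lf (nat_lit 0) (nat_lit 76039902044) (nat_lit 76) (nat_lit 59113896579) (nat_lit 76) (nat_lit 56599446270) (nat_lit 1) (nat_lit 4) (nat_lit 2) (nat_lit 5) (nat_lit 2) (nat_lit 4) (nat_lit 364) (nat_lit 221) (nat_lit 195)) (XT.lf (nat_lit 0) (nat_lit 83111890983) (nat_lit 76) (nat_lit 60351593226) (nat_lit 76) (nat_lit 57790291952) (nat_lit 1) (nat_lit 4) (nat_lit 2) (nat_lit 5) (nat_lit 2) (nat_lit 4) (nat_lit 365) (nat_lit 221) (nat_lit 194))))) (XT.nd (nat_lit 156) (nat_lit 0) (nat_lit 0) (XT.nd (nat_lit 78) (nat_lit 0) (nat_lit 0) (XT.lf (nat_lit 0) (nat_lit 90482285094) (nat_lit 76) (nat_lit 61677220411) (nat_lit 76) (nat_lit 59071299172) (nat_lit 1) (nat_lit 4) (nat_lit 2)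 (nat_lit 5) (nat_lit 2) (nat_lit 4) (nat_lit 366) (nat_lit 221) (nat_lit 193)) (XT.lf (nat_lit 0) (nat_lit 98168632933) (nat_lit 76) (nat_lit 63093934392) (nat_lit 76) (nat_lit 60445517947) (nat_lit 1) (nat_lit 4) (nat_lit 2) (nat_lit 5) (nat_lit 2) (nat_lit 4) (nat_lit 367) (nat_lit 221) (nat_lit 192))) (XT.nd (nat_lit 78) (nat_lit 0) (nat_lit 0) (XT.lf (nat_lit 0) (nat_lit 106189235329) (nat_lit 76) (nat_lit 64605108296) (nat_lit 76) (nat_lit 61916220227) (nat_lit 1) (nat_lit 4) (nat_lit 2) (nat_lit 5) (nat_lit 2) (nat_lit 4) (nat_lit 368) (nat_lit 221) (nat_lit 191)) (XT.nd (nat_lit 78) (nat_lit 0) (nat_lit 0) (XT.lf (nat_lit 0) (nat_lit 114563188953) (nat_lit 76) (nat_lit 66214340156) (nat_lit 76) (nat_lit 63486907683) (nat_lit 1) (nat_lit 4) (nat_lit 2) (nat_lit 5) (nat_lit 2) (nat_lit 4) (nat_lit 369) (nat_lit 221) (nat_lit 190)) (XT.lf (nat_lit 0) (nat_lit 123310431792) (nat_lit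 76) (nat_lit 67925461477) (nat_lit 76) (nat_lit 65161320048) (nat_lit 1) (nat_lit 4) (nat_lit 2) (nat_lit 5) (nat_lit 2) (nat_lit 4) (nat_lit 370) (nat_lit 221) (nat_lit 189)))))) (XT.nd (nat_lit 390) (nat_lit 0) (nat_lit 0) (XT.nd (nat_lit 156) (nat_lit 0) (nat_lit 0) (XT.nd (nat_lit 78) (nat_lit 0) (nat_lit 0) (XT.lf (nat_lit 0) (nat_lit 132451790613) (nat_lit 76) (nat_lit 69742546357) (nat_lit 76) (nat_lit 66943444018) (nat_lit 1) (nat_lit 4) (nat_lit 2) (nat_lit 5) (nat_lit 2) (nat_lit 4) (nat_lit 371) (nat_lit 221) (nat_lit 188)) (XT.lf (nat_lit 0) (nat_lit 142009030556) (nat_lit 76) (nat_lit 71669921190) (nat_lit 76) (nat_lit 68837522744) (nat_lit 1) (nat_lit 4) (nat_lit 2) (nat_lit 5) (nat_lit 2) (nat_lit 4) (nat_lit 372) (nat_lit 221) (nat_lit 187))) (XT.nd (nat_lit 78) (nat_lit 0) (nat_lit 0) (XT.lf (nat_lit 0) (nat_lit 152004906955) (nat_lit 76) (nat_lit 73712174961) (nat_lit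 76) (nat_lit 70848065940) (nat_lit 1) (nat_lit 4) (nat_lit 2) (nat_lit 5) (nat_lit 2) (nat_lit 4) (nat_lit 373) (nat_lit 221) (nat_lit 186)) (XT.nd (nat_lit 78) (nat_lit 0) (nat_lit 0) (XT.lf (nat_lit 0) (nat_lit 162463219516) (nat_lit 76) (nat_lit 75874170181) (nat_lit 76) (nat_lit 72979860611) (nat_lit 1) (nat_lit 4) (nat_lit 2) (nat_lit 5) (nat_lit 2) (nat_lit 4) (nat_lit 374) (nat_lit 221) (nat_lit 185)) (XT.lf (nat_lit 0) (nat_lit 173408868982) (nat_lit 76) (nat_lit 78161054457) (nat_lit 76) (nat_lit 75237982459) (nat_lit 1) (nat_lit 4) (nat_lit 2) (nat_lit 5) (nat_lit 2) (nat_lit 4) (nat_lit 375) (nat_lit 221) (nat_lit 184))))) (XT.nd (nat_lit 156) (nat_lit 0) (nat_lit 0) (XT.nd (nat_lit 78) (nat_lit 0) (nat_lit 0) (XT.lf (nat_lit 0) (nat_lit 184867916424) (nat_lit 76) (nat_lit 80578272752) (nat_lit 76) (nat_lit 77627807966) (nat_lit 1) (nat_lit 4) (nat_lit 2) (nat_lit 5) (nat_lit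 2) (nat_lit 4) (nat_lit 376) (nat_lit 221) (nat_lit 183)) (XT.lf (nat_lit 0) (nat_lit 196867645289) (nat_lit 76) (nat_lit 83131580348) (nat_lit 76) (nat_lit 80155027191) (nat_lit 1) (nat_lit 4) (nat_lit 2) (nat_lit 5) (nat_lit 2) (nat_lit 4) (nat_lit 377) (nat_lit 221) (nat_lit 182))) (XT.nd (nat_lit 78) (nat_lit 0) (nat_lit 0) (XT.lf (nat_lit 0) (nat_lit 209436626358) (nat_lit 76) (nat_lit 85827056547) (nat_lit 76) (nat_lit 82825657324) (nat_lit 1) (nat_lit 4) (nat_lit 2) (nat_lit 5) (nat_lit 2) (nat_lit 4) (nat_lit 378) (nat_lit 221) (nat_lit 181)) (XT.nd (nat_lit 78) (nat_lit 0) (nat_lit 0) (XT.lf (nat_lit 0) (nat_lit 222604785778) (nat_lit 76) (nat_lit 88671119151) (nat_lit 76) (nat_lit 85646057008) (nat_lit 1) (nat_lit 4) (nat_lit 2) (nat_lit 5) (nat_lit 2) (nat_lit 4) (nat_lit 379) (nat_lit 221) (nat_lit 180)) (XT.lf (nat_lit 0) (nat_lit 236403476309) (nat_lit 76) (nat_lit 91670539737)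 (nat_lit 76) (nat_lit 88622941479) (nat_lit 1) (nat_lit 4) (nat_lit 2) (nat_lit 5) (nat_lit 2) (nat_lit 4) (nat_lit 380) (nat_lit 221) (nat_lit 179))))))) (XT.nd (nat_lit 780) (nat_lit 0) (nat_lit 0) (XT.nd (nat_lit 390) (nat_lit 0) (nat_lit 0) (XT.nd (nat_lit 156) (nat_lit 0) (nat_lit 0) (XT.nd (nat_lit 78) (nat_lit 0) (nat_lit 0) (XT.lf (nat_lit 0) (nat_lit 250865551975) (nat_lit 76) (nat_lit 94832459784) (nat_lit 76) (nat_lit 91763398559) (nat_lit 1) (nat_lit 4) (nat_lit 2) (nat_lit 5) (nat_lit 2) (nat_lit 4) (nat_lit 381) (nat_lit 221) (nat_lit 178)) (XT.lf (nat_lit 0) (nat_lit 266025446292) (nat_lit 76) (nat_lit 98164407671) (nat_lit 76) (nat_lit 95074905526) (nat_lit 1) (nat_lit 4) (nat_lit 2) (nat_lit 5) (nat_lit 2) (nat_lit 4) (nat_lit 382) (nat_lit 221) (nat_lit 177))) (XT.nd (nat_lit 78) (nat_lit 0) (nat_lit 0) (XT.lf (nat_lit 0) (nat_lit 281919254245) (nat_lit 76) (nat_lit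 101674316608) (nat_lit 76) (nat_lit 98565346920) (nat_lit 1) (nat_lit 4) (nat_lit 2) (nat_lit 5) (nat_lit 2) (nat_lit 4) (nat_lit 383) (nat_lit 221) (nat_lit 176)) (XT.nd (nat_lit 78) (nat_lit 0) (nat_lit 0) (XT.lf (nat_lit 0) (nat_lit 298584818233) (nat_lit 76) (nat_lit 105370543521) (nat_lit 76) (nat_lit 102243033316) (nat_lit 1) (nat_lit 4) (nat_lit 2) (nat_lit 5) (nat_lit 2) (nat_lit 4) (nat_lit 384) (nat_lit 221) (nat_lit 175)) (XT.lf (nat_lit 0) (nat_lit 316061818172) (nat_lit 76) (nat_lit 109261888951) (nat_lit 76) (nat_lit 106116721110) (nat_lit 1) (nat_lit 4) (nat_lit 2) (nat_lit 5) (nat_lit 2) (nat_lit 4) (nat_lit 385) (nat_lit 221) (nat_lit 174))))) (XT.nd (nat_lit 156) (nat_lit 0) (nat_lit 0) (XT.nd (nat_lit 78) (nat_lit 0) (nat_lit 0) (XT.lf (nat_lit 0) (nat_lit 334391865965) (nat_lit 76) (nat_lit 113357618006) (nat_lit 76) (nat_lit 110195633369) (nat_lit 1) (nat_lit 4)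 (nat_lit 2) (nat_lit 5) (nat_lit 2) (nat_lit 4) (nat_lit 386) (nat_lit 221) (nat_lit 173)) (XT.lf (nat_lit 0) (nat_lit 353618604585) (nat_lit 76) (nat_lit 117667482421) (nat_lit 76) (nat_lit 114489481788) (nat_lit 1) (nat_lit 4) (nat_lit 2) (nat_lit 5) (nat_lit 2) (nat_lit 4) (nat_lit 387) (nat_lit 221) (nat_lit 172))) (XT.nd (nat_lit 78) (nat_lit 0) (nat_lit 0) (XT.lf (nat_lit 0) (nat_lit 373787811979) (nat_lit 76) (nat_lit 122201743778) (nat_lit 76) (nat_lit 119008489816) (nat_lit 1) (nat_lit 4) (nat_lit 2) (nat_lit 5) (nat_lit 2) (nat_lit 4) (nat_lit 388) (nat_lit 221) (nat_lit 171)) (XT.nd (nat_lit 78) (nat_lit 0) (nat_lit 0) (XT.lf (nat_lit 0) (nat_lit 394947510070) (nat_lit 76) (nat_lit 126971197939) (nat_lit 76) (nat_lit 123763416996) (nat_lit 1) (nat_lit 4) (nat_lit 2) (nat_lit 5) (nat_lit 2) (nat_lit 4) (nat_lit 389) (nat_lit 221) (nat_lit 170)) (XT.lf (nat_lit 0) (nat_lit 417148079092)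 (nat_lit 76) (nat_lit 131987200745) (nat_lit 76) (nat_lit 128765584583) (nat_lit 1) (nat_lit 4) (nat_lit 2) (nat_lit 5) (nat_lit 2) (nat_lit 4) (nat_lit 390) (nat_lit 221) (nat_lit 169)))))) (XT.nd (nat_lit 36582) (nat_lit 0) (nat_lit 76) (XT.nd (nat_lit 36348) (nat_lit 0) (nat_lit 76) (XT.nd (nat_lit 78) (nat_lit 0) (nat_lit 0) (XT.lf (nat_lit 0) (nat_lit 440442377543) (nat_lit 76) (nat_lit 137261695061) (nat_lit 76) (nat_lit 134026902499) (nat_lit 1) (nat_lit 4) (nat_lit 2) (nat_lit 5) (nat_lit 2) (nat_lit 4) (nat_lit 391) (nat_lit 221) (nat_lit 168)) (XT.lf (nat_lit 0) (nat_lit 464885868037) (nat_lit 76) (nat_lit 142807239207) (nat_lit 76) (nat_lit 139559897693) (nat_lit 1) (nat_lit 4) (nat_lit 2) (nat_lit 5) (nat_lit 2) (nat_lit 4) (nat_lit 392) (nat_lit 221) (nat_lit 167))) (XT.nd (nat_lit 78) (nat_lit 152) (nat_lit 0) (XT.lf (nat_lit 0) (nat_lit 24043216511) (nat_lit 76) (nat_lit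 693887429) (nat_lit 76) (nat_lit 693887429) (nat_lit 4) (nat_lit 4) (nat_lit 5) (nat_lit 5) (nat_lit 5) (nat_lit 4) (nat_lit 336) (nat_lit 222) (nat_lit 222)) (XT.nd (nat_lit 78) (nat_lit 0) (nat_lit 0) (XT.lf (nat_lit 0) (nat_lit 1688973454) (nat_lit 152) (nat_lit 50037458782) (nat_lit 0) (nat_lit 1514057426) (nat_lit 2) (nat_lit 5) (nat_lit 4) (nat_lit 4) (nat_lit 2) (nat_lit 4) (nat_lit 337) (nat_lit 222) (nat_lit 221)) (XT.lf (nat_lit 0) (nat_lit 4837839462) (nat_lit 152) (nat_lit 46404411767) (nat_lit 0) (nat_lit 4496336741) (nat_lit 2) (nat_lit 5) (nat_lit 4) (nat_lit 4) (nat_lit 2) (nat_lit 4) (nat_lit 338) (nat_lit 222) (nat_lit 220))))) (XT.nd (nat_lit 234) (nat_lit 0) (nat_lit 0) (XT.nd (nat_lit 78) (nat_lit 0) (nat_lit 0) (XT.lf (nat_lit 0) (nat_lit 8043570057) (nat_lit 152) (nat_lit 42779683867) (nat_lit 0) (nat_lit 7543413343) (nat_lit 2) (nat_lit 5) (nat_lit 4) (nat_lit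 4) (nat_lit 2) (nat_lit 4) (nat_lit 339) (nat_lit 222) (nat_lit 219)) (XT.nd (nat_lit 78) (nat_lit 0) (nat_lit 0) (XT.lf (nat_lit 0) (nat_lit 11313797931) (nat_lit 152) (nat_lit 39154644776) (nat_lit 0) (nat_lit 10662542176) (nat_lit 2) (nat_lit 5) (nat_lit 4) (nat_lit 4) (nat_lit 2) (nat_lit 4) (nat_lit 340) (nat_lit 222) (nat_lit 218)) (XT.lf (nat_lit 0) (nat_lit 14656309340) (nat_lit 152) (nat_lit 35520663449) (nat_lit 0) (nat_lit 13861149736) (nat_lit 2) (nat_lit 5) (nat_lit 4) (nat_lit 4) (nat_lit 2) (nat_lit 4) (nat_lit 341) (nat_lit 222) (nat_lit 217)))) (XT.nd (nat_lit 78) (nat_lit 0) (nat_lit 0) (XT.lf (nat_lit 0) (nat_lit 18079062646) (nat_lit 152) (nat_lit 31869087550) (nat_lit 0) (nat_lit 17146851757) (nat_lit 2) (nat_lit 5) (nat_lit 4) (nat_lit 4) (nat_lit 2) (nat_lit 4) (nat_lit 342) (nat_lit 222) (nat_lit 216)) (XT.nd (nat_lit 78) (nat_lit 0) (nat_lit 0) (XT.lf (nat_lit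 0) (nat_lit 21590207260) (nat_lit 152) (nat_lit 28191222850) (nat_lit 0) (nat_lit 20527471338) (nat_lit 2) (nat_lit 5) (nat_lit 4) (nat_lit 4) (nat_lit 2) (nat_lit 4) (nat_lit 343) (nat_lit 222) (nat_lit 215)) (XT.lf (nat_lit 0) (nat_lit 25198103051) (nat_lit 152) (nat_lit 24478312529) (nat_lit 0) (nat_lit 24011057574) (nat_lit 2) (nat_lit 5) (nat_lit 4) (nat_lit 4) (nat_lit 2) (nat_lit 4) (nat_lit 344) (nat_lit 222) (nat_lit 214))))))))
noncomputable def xc20 : XT := (XT.nd (nat_lit 1560) (nat_lit 0) (nat_lit 0) (XT.nd (nat_lit 780) (nat_lit 0) (nat_lit 0) (XT.nd (nat_lit 390) (nat_lit 76) (nat_lit 0) (XT.nd (nat_lit 156) (nat_lit 0) (nat_lit 0) (XT.nd (nat_lit 78) (nat_lit 0) (nat_lit 0) (XT.lf (nat_lit 0) (nat_lit 28911340247) (nat_lit 152) (nat_lit 20721516324) (nat_lit 0) (nat_lit 27605904717) (nat_lit 2) (nat_lit 5) (nat_lit 4) (nat_lit 4) (nat_lit 2) (nat_lit 4) (nat_lit 345)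 (nat_lit 222) (nat_lit 213)) (XT.lf (nat_lit 0) (nat_lit 32738759888) (nat_lit 152) (nat_lit 16911889482) (nat_lit 0) (nat_lit 31320571928) (nat_lit 2) (nat_lit 5) (nat_lit 4) (nat_lit 4) (nat_lit 2) (nat_lit 4) (nat_lit 346) (nat_lit 222) (nat_lit 212))) (XT.nd (nat_lit 78) (nat_lit 0) (nat_lit 0) (XT.lf (nat_lit 0) (nat_lit 36689474880) (nat_lit 152) (nat_lit 13040361463) (nat_lit 0) (nat_lit 35163903652) (nat_lit 2) (nat_lit 5) (nat_lit 4) (nat_lit 4) (nat_lit 2) (nat_lit 4) (nat_lit 347) (nat_lit 222) (nat_lit 211)) (XT.nd (nat_lit 78) (nat_lit 0) (nat_lit 0) (XT.lf (nat_lit 0) (nat_lit 40772891685) (nat_lit 152) (nat_lit 9097714343) (nat_lit 0) (nat_lit 39145050679) (nat_lit 2) (nat_lit 5) (nat_lit 4) (nat_lit 4) (nat_lit 2) (nat_lit 4) (nat_lit 348) (nat_lit 222) (nat_lit 210)) (XT.lf (nat_lit 0) (nat_lit 44998732725) (nat_lit 152) (nat_lit 5074560867) (nat_lit 0) (nat_lit 43273491930)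 (nat_lit 2) (nat_lit 5) (nat_lit 4) (nat_lit 4) (nat_lit 2) (nat_lit 4) (nat_lit 349) (nat_lit 222) (nat_lit 209))))) (XT.nd (nat_lit 156) (nat_lit 0) (nat_lit 0) (XT.nd (nat_lit 78) (nat_lit 76) (nat_lit 0) (XT.lf (nat_lit 0) (nat_lit 49377059527) (nat_lit 152) (nat_lit 961322099) (nat_lit 0) (nat_lit 47559057027) (nat_lit 2) (nat_lit 5) (nat_lit 4) (nat_lit 4) (nat_lit 2) (nat_lit 4) (nat_lit 350) (nat_lit 222) (nat_lit 208)) (XT.lf (nat_lit 0) (nat_lit 3359314428) (nat_lit 76) (nat_lit 50611430561) (nat_lit 76) (nat_lit 48705083581) (nat_lit 1) (nat_lit 4) (nat_lit 2) (nat_lit 5) (nat_lit 2) (nat_lit 4) (nat_lit 351) (nat_lit 222) (nat_lit 207))) (XT.nd (nat_lit 78) (nat_lit 0) (nat_lit 0) (XT.lf (nat_lit 0) (nat_lit 7825280676) (nat_lit 76) (nat_lit 50930150531) (nat_lit 76) (nat_lit 48939665951) (nat_lit 1) (nat_lit 4) (nat_lit 2) (nat_lit 5) (nat_lit 2) (nat_lit 4) (nat_lit 352)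 (nat_lit 222) (nat_lit 206)) (XT.nd (nat_lit 78) (nat_lit 0) (nat_lit 0) (XT.lf (nat_lit 0) (nat_lit 12415424247) (nat_lit 76) (nat_lit 51311580848) (nat_lit 76) (nat_lit 49240965220) (nat_lit 1) (nat_lit 4) (nat_lit 2) (nat_lit 5) (nat_lit 2) (nat_lit 4) (nat_lit 353) (nat_lit 222) (nat_lit 205)) (XT.lf (nat_lit 0) (nat_lit 17140674053) (nat_lit 76) (nat_lit 51756629678) (nat_lit 76) (nat_lit 49609698767) (nat_lit 1) (nat_lit 4) (nat_lit 2) (nat_lit 5) (nat_lit 2) (nat_lit 4) (nat_lit 354) (nat_lit 222) (nat_lit 204)))))) (XT.nd (nat_lit 390) (nat_lit 0) (nat_lit 0) (XT.nd (nat_lit 156) (nat_lit 0) (nat_lit 0) (XT.nd (nat_lit 78) (nat_lit 0) (nat_lit 0) (XT.lf (nat_lit 0) (nat_lit 22012280691) (nat_lit 76) (nat_lit 52266356663) (nat_lit 76) (nat_lit 50046744530) (nat_lit 1) (nat_lit 4) (nat_lit 2) (nat_lit 5) (nat_lit 2) (nat_lit 4) (nat_lit 355) (nat_lit 222) (nat_lit 203)) (XT.lf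 (nat_lit 0) (nat_lit 27041843223) (nat_lit 76) (nat_lit 52841975438) (nat_lit 76) (nat_lit 50553143093) (nat_lit 1) (nat_lit 4) (nat_lit 2) (nat_lit 5) (nat_lit 2) (nat_lit 4) (nat_lit 356) (nat_lit 222) (nat_lit 202))) (XT.nd (nat_lit 78) (nat_lit 0) (nat_lit 0) (XT.lf (nat_lit 0) (nat_lit 32241336797) (nat_lit 76) (nat_lit 53484856523) (nat_lit 76) (nat_lit 51130100167) (nat_lit 1) (nat_lit 4) (nat_lit 2) (nat_lit 5) (nat_lit 2) (nat_lit 4) (nat_lit 357) (nat_lit 222) (nat_lit 201)) (XT.nd (nat_lit 78) (nat_lit 0) (nat_lit 0) (XT.lf (nat_lit 0) (nat_lit 37623141162) (nat_lit 76) (nat_lit 54196530589) (nat_lit 76) (nat_lit 51778989460) (nat_lit 1) (nat_lit 4) (nat_lit 2) (nat_lit 5) (nat_lit 2) (nat_lit 4) (nat_lit 358) (nat_lit 222) (nat_lit 200)) (XT.lf (nat_lit 0) (nat_lit 43200070136) (nat_lit 76) (nat_lit 54978692096) (nat_lit 76) (nat_lit 52501355946) (nat_lit 1) (nat_lit 4) (nat_lit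 2) (nat_lit 5) (nat_lit 2) (nat_lit 4) (nat_lit 359) (nat_lit 222) (nat_lit 199))))) (XT.nd (nat_lit 156) (nat_lit 0) (nat_lit 0) (XT.nd (nat_lit 78) (nat_lit 0) (nat_lit 0) (XT.lf (nat_lit 0) (nat_lit 48985402123) (nat_lit 76) (nat_lit 55833203335) (nat_lit 76) (nat_lit 53298919545) (nat_lit 1) (nat_lit 4) (nat_lit 2) (nat_lit 5) (nat_lit 2) (nat_lit 4) (nat_lit 360) (nat_lit 222) (nat_lit 198)) (XT.lf (nat_lit 0) (nat_lit 54992911721) (nat_lit 76) (nat_lit 56762098855) (nat_lit 76) (nat_lit 54173579218) (nat_lit 1) (nat_lit 4) (nat_lit 2) (nat_lit 5) (nat_lit 2) (nat_lit 4) (nat_lit 361) (nat_lit 222) (nat_lit 197))) (XT.nd (nat_lit 78) (nat_lit 0) (nat_lit 0) (XT.lf (nat_lit 0) (nat_lit 61236902525) (nat_lit 76) (nat_lit 57767590314) (nat_lit 76) (nat_lit 55127417489) (nat_lit 1) (nat_lit 4) (nat_lit 2) (nat_lit 5) (nat_lit 2) (nat_lit 4) (nat_lit 362) (nat_lit 222) (nat_lit 196))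 (XT.nd (nat_lit 78) (nat_lit 0) (nat_lit 0) (XT.lf (nat_lit 0) (nat_lit 67732241181) (nat_lit 76) (nat_lit 58852071738) (nat_lit 76) (nat_lit 56162705401) (nat_lit 1) (nat_lit 4) (nat_lit 2) (nat_lit 5) (nat_lit 2) (nat_lit 4) (nat_lit 363) (nat_lit 222) (nat_lit 195)) (XT.lf (nat_lit 0) (nat_lit 74494392779) (nat_lit 76) (nat_lit 60018125225) (nat_lit 76) (nat_lit 57281907924) (nat_lit 1) (nat_lit 4) (nat_lit 2) (nat_lit 5) (nat_lit 2) (nat_lit 4) (nat_lit 364) (nat_lit 222) (nat_lit 194))))))) (XT.nd (nat_lit 780) (nat_lit 0) (nat_lit 0) (XT.nd (nat_lit 390) (nat_lit 0) (nat_lit 0) (XT.nd (nat_lit 156) (nat_lit 0) (nat_lit 0) (XT.nd (nat_lit 78) (nat_lit 0) (nat_lit 0) (XT.lf (nat_lit 0) (nat_lit 81539457682) (nat_lit 76) (nat_lit 61268527095) (nat_lit 76) (nat_lit 58487689828) (nat_lit 1) (nat_lit 4) (nat_lit 2) (nat_lit 5) (nat_lit 2) (nat_lit 4) (nat_lit 365) (nat_lit 222) (nat_lit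 193)) (XT.lf (nat_lit 0) (nat_lit 88884209852) (nat_lit 76) (nat_lit 62606254493) (nat_lit 76) (nat_lit 59782922021) (nat_lit 1) (nat_lit 4) (nat_lit 2) (nat_lit 5) (nat_lit 2) (nat_lit 4) (nat_lit 366) (nat_lit 222) (nat_lit 192))) (XT.nd (nat_lit 78) (nat_lit 0) (nat_lit 0) (XT.lf (nat_lit 0) (nat_lit 96546136796) (nat_lit 76) (nat_lit 64034492485) (nat_lit 76) (nat_lit 61170688389) (nat_lit 1) (nat_lit 4) (nat_lit 2) (nat_lit 5) (nat_lit 2) (nat_lit 4) (nat_lit 367) (nat_lit 222) (nat_lit 191)) (XT.nd (nat_lit 78) (nat_lit 0) (nat_lit 0) (XT.lf (nat_lit 0) (nat_lit 104543481196) (nat_lit 76) (nat_lit 65556641638) (nat_lit 76) (nat_lit 62654293138) (nat_lit 1) (nat_lit 4) (nat_lit 2) (nat_lit 5) (nat_lit 2) (nat_lit 4) (nat_lit 368) (nat_lit 222) (nat_lit 190)) (XT.lf (nat_lit 0) (nat_lit 112895284349) (nat_lit 76) (nat_lit 67176326117) (nat_lit 76) (nat_lit 64237268660) (nat_lit 1)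 (nat_lit 4) (nat_lit 2) (nat_lit 5) (nat_lit 2) (nat_lit 4) (nat_lit 369) (nat_lit 222) (nat_lit 189))))) (XT.nd (nat_lit 156) (nat_lit 0) (nat_lit 0) (XT.nd (nat_lit 78) (nat_lit 0) (nat_lit 0) (XT.lf (nat_lit 0) (nat_lit 121621431500) (nat_lit 76) (nat_lit 68897402313) (nat_lit 76) (nat_lit 65923383946) (nat_lit 1) (nat_lit 4) (nat_lit 2) (nat_lit 5) (nat_lit 2) (nat_lit 4) (nat_lit 370) (nat_lit 222) (nat_lit 188)) (XT.lf (nat_lit 0) (nat_lit 130742699190) (nat_lit 76) (nat_lit 70723968026) (nat_lit 76) (nat_lit 67716653554) (nat_lit 1) (nat_lit 4) (nat_lit 2) (nat_lit 5) (nat_lit 2) (nat_lit 4) (nat_lit 371) (nat_lit 222) (nat_lit 187))) (XT.nd (nat_lit 78) (nat_lit 0) (nat_lit 0) (XT.lf (nat_lit 0) (nat_lit 140280804723) (nat_lit 76) (nat_lit 72660372223) (nat_lit 76) (nat_lit 69621347174) (nat_lit 1) (nat_lit 4) (nat_lit 2) (nat_lit 5) (nat_lit 2) (nat_lit 4) (nat_lit 372) (nat_lit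 222) (nat_lit 186)) (XT.nd (nat_lit 78) (nat_lit 0) (nat_lit 0) (XT.lf (nat_lit 0) (nat_lit 150258457874) (nat_lit 76) (nat_lit 74711225390) (nat_lit 76) (nat_lit 71641999792) (nat_lit 1) (nat_lit 4) (nat_lit 2) (nat_lit 5) (nat_lit 2) (nat_lit 4) (nat_lit 373) (nat_lit 222) (nat_lit 185)) (XT.lf (nat_lit 0) (nat_lit 160699414960) (nat_lit 76) (nat_lit 76881410510) (nat_lit 76) (nat_lit 73783422484) (nat_lit 1) (nat_lit 4) (nat_lit 2) (nat_lit 5) (nat_lit 2) (nat_lit 4) (nat_lit 374) (nat_lit 222) (nat_lit 184)))))) (XT.nd (nat_lit 390) (nat_lit 0) (nat_lit 0) (XT.nd (nat_lit 156) (nat_lit 0) (nat_lit 0) (XT.nd (nat_lit 78) (nat_lit 0) (nat_lit 0) (XT.lf (nat_lit 0) (nat_lit 171628535403) (nat_lit 76) (nat_lit 79176094691) (nat_lit 76) (nat_lit 76050713877) (nat_lit 1) (nat_lit 4) (nat_lit 2) (nat_lit 5) (nat_lit 2) (nat_lit 4) (nat_lit 375) (nat_lit 222) (nat_lit 183)) (XT.lf (nat_lit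 0) (nat_lit 183071840918) (nat_lit 76) (nat_lit 81600741467) (nat_lit 76) (nat_lit 78449272283) (nat_lit 1) (nat_lit 4) (nat_lit 2) (nat_lit 5) (nat_lit 2) (nat_lit 4) (nat_lit 376) (nat_lit 222) (nat_lit 182))) (XT.nd (nat_lit 78) (nat_lit 0) (nat_lit 0) (XT.lf (nat_lit 0) (nat_lit 195056577471) (nat_lit 76) (nat_lit 84161123806) (nat_lit 76) (nat_lit 80984808555) (nat_lit 1) (nat_lit 4) (nat_lit 2) (nat_lit 5) (nat_lit 2) (nat_lit 4) (nat_lit 377) (nat_lit 222) (nat_lit 181)) (XT.nd (nat_lit 78) (nat_lit 0) (nat_lit 0) (XT.lf (nat_lit 0) (nat_lit 207611280149) (nat_lit 76) (nat_lit 86863337856) (nat_lit 76) (nat_lit 83663359685) (nat_lit 1) (nat_lit 4) (nat_lit 2) (nat_lit 5) (nat_lit 2) (nat_lit 4) (nat_lit 378) (nat_lit 222) (nat_lit 180)) (XT.lf (nat_lit 0) (nat_lit 220765841101) (nat_lit 76) (nat_lit 89713817461) (nat_lit 76) (nat_lit 86491303175) (nat_lit 1) (nat_lit 4) (nat_lit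 2) (nat_lit 5) (nat_lit 2) (nat_lit 4) (nat_lit 379) (nat_lit 222) (nat_lit 179))))) (XT.nd (nat_lit 156) (nat_lit 0) (nat_lit 0) (XT.nd (nat_lit 78) (nat_lit 0) (nat_lit 0) (XT.lf (nat_lit 0) (nat_lit 234551580709) (nat_lit 76) (nat_lit 92719349477) (nat_lit 76) (nat_lit 89475372225) (nat_lit 1) (nat_lit 4) (nat_lit 2) (nat_lit 5) (nat_lit 2) (nat_lit 4) (nat_lit 380) (nat_lit 222) (nat_lit 178)) (XT.lf (nat_lit 0) (nat_lit 249001322165) (nat_lit 76) (nat_lit 95887089932) (nat_lit 76) (nat_lit 92622671760) (nat_lit 1) (nat_lit 4) (nat_lit 2) (nat_lit 5) (nat_lit 2) (nat_lit 4) (nat_lit 381) (nat_lit 222) (nat_lit 177))) (XT.nd (nat_lit 78) (nat_lit 0) (nat_lit 0) (XT.lf (nat_lit 0) (nat_lit 264149469613) (nat_lit 76) (nat_lit 99224581066) (nat_lit 76) (nat_lit 95940695350) (nat_lit 1) (nat_lit 4) (nat_lit 2) (nat_lit 5) (nat_lit 2) (nat_lit 4) (nat_lit 382) (nat_lit 222) (nat_lit 176))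 (XT.nd (nat_lit 78) (nat_lit 0) (nat_lit 0) (XT.lf (nat_lit 0) (nat_lit 280032090072) (nat_lit 76) (nat_lit 102739769286) (nat_lit 76) (nat_lit 99437343053) (nat_lit 1) (nat_lit 4) (nat_lit 2) (nat_lit 5) (nat_lit 2) (nat_lit 4) (nat_lit 383) (nat_lit 222) (nat_lit 175)) (XT.lf (nat_lit 0) (nat_lit 296686999305) (nat_lit 76) (nat_lit 106441024088) (nat_lit 76) (nat_lit 103120940219) (nat_lit 1) (nat_lit 4) (nat_lit 2) (nat_lit 5) (nat_lit 2) (nat_lit 4) (nat_lit 384) (nat_lit 222) (nat_lit 174))))))))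
noncomputable def xc21 : XT := (XT.nd (nat_lit 37596) (nat_lit 0) (nat_lit 0) (XT.nd (nat_lit 36816) (nat_lit 0) (nat_lit 76) (XT.nd (nat_lit 390) (nat_lit 0) (nat_lit 0) (XT.nd (nat_lit 156) (nat_lit 0) (nat_lit 0) (XT.nd (nat_lit 78) (nat_lit 0) (nat_lit 0) (XT.lf (nat_lit 0) (nat_lit 314153851857) (nat_lit 76) (nat_lit 110337157983) (nat_lit 76) (nat_lit 107000257318) (nat_lit 1) (nat_lit 4) (nat_lit 2) (nat_lit 5) (nat_lit 2) (nat_lit 4) (nat_lit 385) (nat_lit 222) (nat_lit 173)) (XT.lf (nat_lit 0) (nat_lit 332474235473) (nat_lit 76) (nat_lit 114437447480) (nat_lit 76) (nat_lit 111084530819) (nat_lit 1) (nat_lit 4) (nat_lit 2) (nat_lit 5) (nat_lit 2) (nat_lit 4) (nat_lit 386) (nat_lit 222) (nat_lit 172))) (XT.nd (nat_lit 78) (nat_lit 0) (nat_lit 0) (XT.lf (nat_lit 0) (nat_lit 351691770114) (nat_lit 76) (nat_lit 118751655174) (nat_lit 76) (nat_lit 115383485184) (nat_lit 1) (nat_lit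 4) (nat_lit 2) (nat_lit 5) (nat_lit 2) (nat_lit 4) (nat_lit 387) (nat_lit 222) (nat_lit 171)) (XT.nd (nat_lit 78) (nat_lit 0) (nat_lit 0) (XT.lf (nat_lit 0) (nat_lit 371852211814) (nat_lit 76) (nat_lit 123290052987) (nat_lit 76) (nat_lit 119907356017) (nat_lit 1) (nat_lit 4) (nat_lit 2) (nat_lit 5) (nat_lit 2) (nat_lit 4) (nat_lit 388) (nat_lit 222) (nat_lit 170)) (XT.lf (nat_lit 0) (nat_lit 393003561626) (nat_lit 76) (nat_lit 128063446630) (nat_lit 76) (nat_lit 124666914439) (nat_lit 1) (nat_lit 4) (nat_lit 2) (nat_lit 5) (nat_lit 2) (nat_lit 4) (nat_lit 389) (nat_lit 222) (nat_lit 169))))) (XT.nd (nat_lit 156) (nat_lit 0) (nat_lit 0) (XT.nd (nat_lit 78) (nat_lit 0) (nat_lit 0) (XT.lf (nat_lit 0) (nat_lit 415196179905) (nat_lit 76) (nat_lit 133083201324) (nat_lit 76) (nat_lit 129673492734) (nat_lit 1) (nat_lit 4) (nat_lit 2) (nat_lit 5) (nat_lit 2) (nat_lit 4) (nat_lit 390) (nat_lit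 222) (nat_lit 168)) (XT.lf (nat_lit 0) (nat_lit 438482906220) (nat_lit 76) (nat_lit 138361268866) (nat_lit 76) (nat_lit 134939011324) (nat_lit 1) (nat_lit 4) (nat_lit 2) (nat_lit 5) (nat_lit 2) (nat_lit 4) (nat_lit 391) (nat_lit 222) (nat_lit 167))) (XT.nd (nat_lit 36114) (nat_lit 0) (nat_lit 228) (XT.lf (nat_lit 0) (nat_lit 462919185156) (nat_lit 76) (nat_lit 143910216084) (nat_lit 76) (nat_lit 140476007160) (nat_lit 1) (nat_lit 4) (nat_lit 2) (nat_lit 5) (nat_lit 2) (nat_lit 4) (nat_lit 392) (nat_lit 222) (nat_lit 166)) (XT.nd (nat_lit 78) (nat_lit 0) (nat_lit 0) (XT.lf (nat_lit 0) (nat_lit 16087743544) (nat_lit 76) (nat_lit 3566720067) (nat_lit 76) (nat_lit 3566720067) (nat_lit 4) (nat_lit 4) (nat_lit 5) (nat_lit 5) (nat_lit 5) (nat_lit 4) (nat_lit 334) (nat_lit 223) (nat_lit 223)) (XT.lf (nat_lit 0) (nat_lit 39985716062) (nat_lit 76) (nat_lit 4402044046) (nat_lit 76) (nat_lit 4209199125)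 (nat_lit 4) (nat_lit 4) (nat_lit 5) (nat_lit 5) (nat_lit 5) (nat_lit 4) (nat_lit 335) (nat_lit 223) (nat_lit 222)))))) (XT.nd (nat_lit 390) (nat_lit 0) (nat_lit 0) (XT.nd (nat_lit 156) (nat_lit 0) (nat_lit 0) (XT.nd (nat_lit 78) (nat_lit 152) (nat_lit 0) (XT.lf (nat_lit 0) (nat_lit 47991172583) (nat_lit 76) (nat_lit 1624945140) (nat_lit 76) (nat_lit 1248438390) (nat_lit 4) (nat_lit 4) (nat_lit 5) (nat_lit 5) (nat_lit 5) (nat_lit 4) (nat_lit 336) (nat_lit 223) (nat_lit 221)) (XT.lf (nat_lit 0) (nat_lit 1767027633) (nat_lit 152) (nat_lit 50236928820) (nat_lit 0) (nat_lit 1241863084) (nat_lit 2) (nat_lit 5) (nat_lit 4) (nat_lit 4) (nat_lit 2) (nat_lit 4) (nat_lit 337) (nat_lit 223) (nat_lit 220))) (XT.nd (nat_lit 78) (nat_lit 0) (nat_lit 0) (XT.lf (nat_lit 0) (nat_lit 4866830855) (nat_lit 152) (nat_lit 46696550813) (nat_lit 0) (nat_lit 4183012312) (nat_lit 2) (nat_lit 5) (nat_lit 4) (nat_lit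 4) (nat_lit 2) (nat_lit 4) (nat_lit 338) (nat_lit 223) (nat_lit 219)) (XT.nd (nat_lit 78) (nat_lit 0) (nat_lit 0) (XT.lf (nat_lit 0) (nat_lit 8025834986) (nat_lit 152) (nat_lit 43160079110) (nat_lit 0) (nat_lit 7190917402) (nat_lit 2) (nat_lit 5) (nat_lit 4) (nat_lit 4) (nat_lit 2) (nat_lit 4) (nat_lit 339) (nat_lit 223) (nat_lit 218)) (XT.lf (nat_lit 0) (nat_lit 11251561466) (nat_lit 152) (nat_lit 39619093540) (nat_lit 0) (nat_lit 10272740032) (nat_lit 2) (nat_lit 5) (nat_lit 4) (nat_lit 4) (nat_lit 2) (nat_lit 4) (nat_lit 340) (nat_lit 223) (nat_lit 217))))) (XT.nd (nat_lit 156) (nat_lit 0) (nat_lit 0) (XT.nd (nat_lit 78) (nat_lit 0) (nat_lit 0) (XT.lf (nat_lit 0) (nat_lit 14551690595) (nat_lit 152) (nat_lit 36065163186) (nat_lit 0) (nat_lit 13435817877) (nat_lit 2) (nat_lit 5) (nat_lit 4) (nat_lit 4) (nat_lit 2) (nat_lit 4) (nat_lit 341) (nat_lit 223) (nat_lit 216)) (XT.lf (nat_lit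 0) (nat_lit 17934079824) (nat_lit 152) (nat_lit 32489826308) (nat_lit 0) (nat_lit 16687682073) (nat_lit 2) (nat_lit 5) (nat_lit 4) (nat_lit 4) (nat_lit 2) (nat_lit 4) (nat_lit 342) (nat_lit 223) (nat_lit 215))) (XT.nd (nat_lit 78) (nat_lit 0) (nat_lit 0) (XT.lf (nat_lit 0) (nat_lit 21406782460) (nat_lit 152) (nat_lit 28884570201) (nat_lit 0) (nat_lit 20036075155) (nat_lit 2) (nat_lit 5) (nat_lit 4) (nat_lit 4) (nat_lit 2) (nat_lit 4) (nat_lit 343) (nat_lit 223) (nat_lit 214)) (XT.nd (nat_lit 78) (nat_lit 0) (nat_lit 0) (XT.lf (nat_lit 0) (nat_lit 24978066844) (nat_lit 152) (nat_lit 25240810919) (nat_lit 0) (nat_lit 23488969486) (nat_lit 2) (nat_lit 5) (nat_lit 4) (nat_lit 4) (nat_lit 2) (nat_lit 4) (nat_lit 344) (nat_lit 223) (nat_lit 213)) (XT.lf (nat_lit 0) (nat_lit 28656436033) (nat_lit 152) (nat_lit 21549872848) (nat_lit 0) (nat_lit 27054586244) (nat_lit 2) (nat_lit 5) (nat_lit 4)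 (nat_lit 4) (nat_lit 2) (nat_lit 4) (nat_lit 345) (nat_lit 223) (nat_lit 212))))))) (XT.nd (nat_lit 780) (nat_lit 0) (nat_lit 0) (XT.nd (nat_lit 390) (nat_lit 76) (nat_lit 0) (XT.nd (nat_lit 156) (nat_lit 0) (nat_lit 0) (XT.nd (nat_lit 78) (nat_lit 0) (nat_lit 0) (XT.lf (nat_lit 0) (nat_lit 32450648049) (nat_lit 152) (nat_lit 17802968037) (nat_lit 0) (nat_lit 30741414992) (nat_lit 2) (nat_lit 5) (nat_lit 4) (nat_lit 4) (nat_lit 2) (nat_lit 4) (nat_lit 346) (nat_lit 223) (nat_lit 211)) (XT.lf (nat_lit 0) (nat_lit 36369736731) (nat_lit 152) (nat_lit 13991175287) (nat_lit 0) (nat_lit 34558233895) (nat_lit 2) (nat_lit 5) (nat_lit 4) (nat_lit 4) (nat_lit 2) (nat_lit 4) (nat_lit 347) (nat_lit 223) (nat_lit 210))) (XT.nd (nat_lit 78) (nat_lit 0) (nat_lit 0) (XT.lf (nat_lit 0) (nat_lit 40423033241) (nat_lit 152) (nat_lit 10105418899) (nat_lit 0) (nat_lit 38514130616) (nat_lit 2) (nat_lit 5)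 (nat_lit 4) (nat_lit 4) (nat_lit 2) (nat_lit 4) (nat_lit 348) (nat_lit 223) (nat_lit 209)) (XT.nd (nat_lit 78) (nat_lit 0) (nat_lit 0) (XT.lf (nat_lit 0) (nat_lit 44620188286) (nat_lit 152) (nat_lit 6136447072) (nat_lit 0) (nat_lit 42618523957) (nat_lit 2) (nat_lit 5) (nat_lit 4) (nat_lit 4) (nat_lit 2) (nat_lit 4) (nat_lit 349) (nat_lit 223) (nat_lit 208)) (XT.lf (nat_lit 0) (nat_lit 48971195091) (nat_lit 152) (nat_lit 2074809874) (nat_lit 0) (nat_lit 46881186282) (nat_lit 2) (nat_lit 5) (nat_lit 4) (nat_lit 4) (nat_lit 2) (nat_lit 4) (nat_lit 350) (nat_lit 223) (nat_lit 207))))) (XT.nd (nat_lit 156) (nat_lit 0) (nat_lit 0) (XT.nd (nat_lit 78) (nat_lit 0) (nat_lit 0) (XT.lf (nat_lit 0) (nat_lit 2158240431) (nat_lit 76) (nat_lit 51361868949) (nat_lit 76) (nat_lit 49187722540) (nat_lit 1) (nat_lit 4) (nat_lit 2) (nat_lit 5) (nat_lit 2) (nat_lit 4) (nat_lit 351) (nat_lit 223) (nat_lit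 206)) (XT.lf (nat_lit 0) (nat_lit 6575854976) (nat_lit 76) (nat_lit 51703405674) (nat_lit 76) (nat_lit 49449128217) (nat_lit 1) (nat_lit 4) (nat_lit 2) (nat_lit 5) (nat_lit 2) (nat_lit 4) (nat_lit 352) (nat_lit 223) (nat_lit 205))) (XT.nd (nat_lit 78) (nat_lit 0) (nat_lit 0) (XT.lf (nat_lit 0) (nat_lit 11119949307) (nat_lit 76) (nat_lit 52106566233) (nat_lit 76) (nat_lit 49775973493) (nat_lit 1) (nat_lit 4) (nat_lit 2) (nat_lit 5) (nat_lit 2) (nat_lit 4) (nat_lit 353) (nat_lit 223) (nat_lit 204)) (XT.nd (nat_lit 78) (nat_lit 0) (nat_lit 0) (XT.lf (nat_lit 0) (nat_lit 15801342694) (nat_lit 76) (nat_lit 52572310534) (nat_lit 76) (nat_lit 50169036571) (nat_lit 1) (nat_lit 4) (nat_lit 2) (nat_lit 5) (nat_lit 2) (nat_lit 4) (nat_lit 354) (nat_lit 223) (nat_lit 203)) (XT.lf (nat_lit 0) (nat_lit 20631181313) (nat_lit 76) (nat_lit 53101747489) (nat_lit 76) (nat_lit 50629253315) (nat_lit 1) (nat_lit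 4) (nat_lit 2) (nat_lit 5) (nat_lit 2) (nat_lit 4) (nat_lit 355) (nat_lit 223) (nat_lit 202)))))) (XT.nd (nat_lit 390) (nat_lit 0) (nat_lit 0) (XT.nd (nat_lit 156) (nat_lit 0) (nat_lit 0) (XT.nd (nat_lit 78) (nat_lit 0) (nat_lit 0) (XT.lf (nat_lit 0) (nat_lit 25620964780) (nat_lit 76) (nat_lit 53696137665) (nat_lit 76) (nat_lit 51157719480) (nat_lit 1) (nat_lit 4) (nat_lit 2) (nat_lit 5) (nat_lit 2) (nat_lit 4) (nat_lit 356) (nat_lit 223) (nat_lit 201)) (XT.lf (nat_lit 0) (nat_lit 30782573531) (nat_lit 76) (nat_lit 54356896275) (nat_lit 76) (nat_lit 51755693317) (nat_lit 1) (nat_lit 4) (nat_lit 2) (nat_lit 5) (nat_lit 2) (nat_lit 4) (nat_lit 357) (nat_lit 223) (nat_lit 200))) (XT.nd (nat_lit 78) (nat_lit 0) (nat_lit 0) (XT.lf (nat_lit 0) (nat_lit 36128297111) (nat_lit 76) (nat_lit 55085596555) (nat_lit 76) (nat_lit 52424598575) (nat_lit 1) (nat_lit 4) (nat_lit 2) (nat_lit 5) (nat_lit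 2) (nat_lit 4) (nat_lit 358) (nat_lit 223) (nat_lit 199)) (XT.nd (nat_lit 78) (nat_lit 0) (nat_lit 0) (XT.lf (nat_lit 0) (nat_lit 41670863433) (nat_lit 76) (nat_lit 55883973504) (nat_lit 76) (nat_lit 53166027885) (nat_lit 1) (nat_lit 4) (nat_lit 2) (nat_lit 5) (nat_lit 2) (nat_lit 4) (nat_lit 359) (nat_lit 223) (nat_lit 198)) (XT.lf (nat_lit 0) (nat_lit 47423469084) (nat_lit 76) (nat_lit 56753928021) (nat_lit 76) (nat_lit 53981746555) (nat_lit 1) (nat_lit 4) (nat_lit 2) (nat_lit 5) (nat_lit 2) (nat_lit 4) (nat_lit 360) (nat_lit 223) (nat_lit 197))))) (XT.nd (nat_lit 234) (nat_lit 0) (nat_lit 0) (XT.nd (nat_lit 78) (nat_lit 0) (nat_lit 0) (XT.lf (nat_lit 0) (nat_lit 53399810744) (nat_lit 76) (nat_lit 57697531425) (nat_lit 76) (nat_lit 54873696771) (nat_lit 1) (nat_lit 4) (nat_lit 2) (nat_lit 5) (nat_lit 2) (nat_lit 4) (nat_lit 361) (nat_lit 223) (nat_lit 196)) (XT.nd (nat_lit 78) (nat_lit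 0) (nat_lit 0) (XT.lf (nat_lit 0) (nat_lit 59614117797) (nat_lit 76) (nat_lit 58717030392) (nat_lit 76) (nat_lit 55844002226) (nat_lit 1) (nat_lit 4) (nat_lit 2) (nat_lit 5) (nat_lit 2) (nat_lit 4) (nat_lit 362) (nat_lit 223) (nat_lit 195)) (XT.lf (nat_lit 0) (nat_lit 66081186214) (nat_lit 76) (nat_lit 59814852300) (nat_lit 76) (nat_lit 56894973170) (nat_lit 1) (nat_lit 4) (nat_lit 2) (nat_lit 5) (nat_lit 2) (nat_lit 4) (nat_lit 363) (nat_lit 223) (nat_lit 194)))) (XT.nd (nat_lit 78) (nat_lit 0) (nat_lit 0) (XT.lf (nat_lit 0) (nat_lit 72816413775) (nat_lit 76) (nat_lit 60993611011) (nat_lit 76) (nat_lit 58029111915) (nat_lit 1) (nat_lit 4) (nat_lit 2) (nat_lit 5) (nat_lit 2) (nat_lit 4) (nat_lit 364) (nat_lit 223) (nat_lit 193)) (XT.nd (nat_lit 78) (nat_lit 0) (nat_lit 0) (XT.lf (nat_lit 0) (nat_lit 79835836738) (nat_lit 76) (nat_lit 62256113092) (nat_lit 76) (nat_lit 59249118791) (nat_lit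 1) (nat_lit 4) (nat_lit 2) (nat_lit 5) (nat_lit 2) (nat_lit 4) (nat_lit 365) (nat_lit 223) (nat_lit 192)) (XT.lf (nat_lit 0) (nat_lit 87156168013) (nat_lit 76) (nat_lit 63605364502) (nat_lit 76) (nat_lit 60557898577) (nat_lit 1) (nat_lit 4) (nat_lit 2) (nat_lit 5) (nat_lit 2) (nat_lit 4) (nat_lit 366) (nat_lit 223) (nat_lit 191))))))))
noncomputable def xc22 : XT := (XT.nd (nat_lit 1560) (nat_lit 0) (nat_lit 0) (XT.nd (nat_lit 780) (nat_lit 0) (nat_lit 0) (XT.nd (nat_lit 390) (nat_lit 0) (nat_lit 0) (XT.nd (nat_lit 156) (nat_lit 0) (nat_lit 0) (XT.nd (nat_lit 78) (nat_lit 0) (nat_lit 0) (XT.lf (nat_lit 0) (nat_lit 94794836961) (nat_lit 76) (nat_lit 65044577744) (nat_lit 76) (nat_lit 61958567415) (nat_lit 1) (nat_lit 4) (nat_lit 2) (nat_lit 5) (nat_lit 2) (nat_lit 4) (nat_lit 367) (nat_lit 223) (nat_lit 190)) (XT.lf (nat_lit 0) (nat_lit 102770030889) (nat_lit 76) (nat_lit 66577179516)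 (nat_lit 76) (nat_lit 63454460230) (nat_lit 1) (nat_lit 4) (nat_lit 2) (nat_lit 5) (nat_lit 2) (nat_lit 4) (nat_lit 368) (nat_lit 223) (nat_lit 189))) (XT.nd (nat_lit 78) (nat_lit 0) (nat_lit 0) (XT.lf (nat_lit 0) (nat_lit 111100738354) (nat_lit 76) (nat_lit 68206818869) (nat_lit 76) (nat_lit 65049138673) (nat_lit 1) (nat_lit 4) (nat_lit 2) (nat_lit 5) (nat_lit 2) (nat_lit 4) (nat_lit 369) (nat_lit 223) (nat_lit 188)) (XT.nd (nat_lit 78) (nat_lit 0) (nat_lit 0) (XT.lf (nat_lit 0) (nat_lit 119806794374) (nat_lit 76) (nat_lit 69937375898) (nat_lit 76) (nat_lit 66746399597) (nat_lit 1) (nat_lit 4) (nat_lit 2) (nat_lit 5) (nat_lit 2) (nat_lit 4) (nat_lit 370) (nat_lit 223) (nat_lit 187)) (XT.lf (nat_lit 0) (nat_lit 128908927654) (nat_lit 76) (nat_lit 71772970976) (nat_lit 76) (nat_lit 68550284098) (nat_lit 1) (nat_lit 4) (nat_lit 2) (nat_lit 5) (nat_lit 2) (nat_lit 4) (nat_lit 371) (nat_lit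 223) (nat_lit 186))))) (XT.nd (nat_lit 156) (nat_lit 0) (nat_lit 0) (XT.nd (nat_lit 78) (nat_lit 0) (nat_lit 0) (XT.lf (nat_lit 0) (nat_lit 138428809939) (nat_lit 76) (nat_lit 73717974568) (nat_lit 76) (nat_lit 70465087141) (nat_lit 1) (nat_lit 4) (nat_lit 2) (nat_lit 5) (nat_lit 2) (nat_lit 4) (nat_lit 372) (nat_lit 223) (nat_lit 185)) (XT.lf (nat_lit 0) (nat_lit 148389107616) (nat_lit 76) (nat_lit 75777017635) (nat_lit 76) (nat_lit 72495367780) (nat_lit 1) (nat_lit 4) (nat_lit 2) (nat_lit 5) (nat_lit 2) (nat_lit 4) (nat_lit 373) (nat_lit 223) (nat_lit 184))) (XT.nd (nat_lit 78) (nat_lit 0) (nat_lit 0) (XT.lf (nat_lit 0) (nat_lit 158813535679) (nat_lit 76) (nat_lit 77955002660) (nat_lit 76) (nat_lit 74645960017) (nat_lit 1) (nat_lit 4) (nat_lit 2) (nat_lit 5) (nat_lit 2) (nat_lit 4) (nat_lit 374) (nat_lit 223) (nat_lit 183)) (XT.nd (nat_lit 78) (nat_lit 0) (nat_lit 0) (XT.lf (nat_lit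 0) (nat_lit 169726914195) (nat_lit 76) (nat_lit 80257115322) (nat_lit 76) (nat_lit 76921984309) (nat_lit 1) (nat_lit 4) (nat_lit 2) (nat_lit 5) (nat_lit 2) (nat_lit 4) (nat_lit 375) (nat_lit 223) (nat_lit 182)) (XT.lf (nat_lit 0) (nat_lit 181155227399) (nat_lit 76) (nat_lit 82688836841) (nat_lit 76) (nat_lit 79328859762) (nat_lit 1) (nat_lit 4) (nat_lit 2) (nat_lit 5) (nat_lit 2) (nat_lit 4) (nat_lit 376) (nat_lit 223) (nat_lit 181)))))) (XT.nd (nat_lit 390) (nat_lit 0) (nat_lit 0) (XT.nd (nat_lit 156) (nat_lit 0) (nat_lit 0) (XT.nd (nat_lit 78) (nat_lit 0) (nat_lit 0) (XT.lf (nat_lit 0) (nat_lit 193125685560) (nat_lit 76) (nat_lit 85255957031) (nat_lit 76) (nat_lit 81872317031) (nat_lit 1) (nat_lit 4) (nat_lit 2) (nat_lit 5) (nat_lit 2) (nat_lit 4) (nat_lit 377) (nat_lit 223) (nat_lit 180)) (XT.lf (nat_lit 0) (nat_lit 205666789770) (nat_lit 76) (nat_lit 87964588083) (nat_lit 76) (nat_lit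 84558411968) (nat_lit 1) (nat_lit 4) (nat_lit 2) (nat_lit 5) (nat_lit 2) (nat_lit 4) (nat_lit 378) (nat_lit 223) (nat_lit 179))) (XT.nd (nat_lit 78) (nat_lit 0) (nat_lit 0) (XT.lf (nat_lit 0) (nat_lit 218808399799) (nat_lit 76) (nat_lit 90821179117) (nat_lit 76) (nat_lit 87393540036) (nat_lit 1) (nat_lit 4) (nat_lit 2) (nat_lit 5) (nat_lit 2) (nat_lit 4) (nat_lit 379) (nat_lit 223) (nat_lit 178)) (XT.nd (nat_lit 78) (nat_lit 0) (nat_lit 0) (XT.lf (nat_lit 0) (nat_lit 232581805196) (nat_lit 76) (nat_lit 93832531542) (nat_lit 76) (nat_lit 90384451541) (nat_lit 1) (nat_lit 4) (nat_lit 2) (nat_lit 5) (nat_lit 2) (nat_lit 4) (nat_lit 380) (nat_lit 223) (nat_lit 177)) (XT.lf (nat_lit 0) (nat_lit 247019799783) (nat_lit 76) (nat_lit 97005815244) (nat_lit 76) (nat_lit 93538267699) (nat_lit 1) (nat_lit 4) (nat_lit 2) (nat_lit 5) (nat_lit 2) (nat_lit 4) (nat_lit 381) (nat_lit 223) (nat_lit 176)))))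 (XT.nd (nat_lit 156) (nat_lit 0) (nat_lit 0) (XT.nd (nat_lit 78) (nat_lit 0) (nat_lit 0) (XT.lf (nat_lit 0) (nat_lit 262156759738) (nat_lit 76) (nat_lit 100348585661) (nat_lit 76) (nat_lit 96862497598) (nat_lit 1) (nat_lit 4) (nat_lit 2) (nat_lit 5) (nat_lit 2) (nat_lit 4) (nat_lit 382) (nat_lit 223) (nat_lit 175)) (XT.lf (nat_lit 0) (nat_lit 278028725442) (nat_lit 76) (nat_lit 103868801769) (nat_lit 76) (nat_lit 100365056071) (nat_lit 1) (nat_lit 4) (nat_lit 2) (nat_lit 5) (nat_lit 2) (nat_lit 4) (nat_lit 383) (nat_lit 223) (nat_lit 174))) (XT.nd (nat_lit 78) (nat_lit 0) (nat_lit 0) (XT.lf (nat_lit 0) (nat_lit 294673487288) (nat_lit 76) (nat_lit 107574845035) (nat_lit 76) (nat_lit 104054282542) (nat_lit 1) (nat_lit 4) (nat_lit 2) (nat_lit 5) (nat_lit 2) (nat_lit 4) (nat_lit 384) (nat_lit 223) (nat_lit 173)) (XT.nd (nat_lit 78) (nat_lit 0) (nat_lit 0) (XT.lf (nat_lit 0) (nat_lit 312130675663)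 (nat_lit 76) (nat_lit 111475539373) (nat_lit 76) (nat_lit 107938960883) (nat_lit 1) (nat_lit 4) (nat_lit 2) (nat_lit 5) (nat_lit 2) (nat_lit 4) (nat_lit 385) (nat_lit 223) (nat_lit 172)) (XT.lf (nat_lit 0) (nat_lit 330441855300) (nat_lit 76) (nat_lit 115580172149) (nat_lit 76) (nat_lit 112028340330) (nat_lit 1) (nat_lit 4) (nat_lit 2) (nat_lit 5) (nat_lit 2) (nat_lit 4) (nat_lit 386) (nat_lit 223) (nat_lit 171))))))) (XT.nd (nat_lit 36660) (nat_lit 0) (nat_lit 76) (XT.nd (nat_lit 390) (nat_lit 0) (nat_lit 0) (XT.nd (nat_lit 156) (nat_lit 0) (nat_lit 0) (XT.nd (nat_lit 78) (nat_lit 0) (nat_lit 0) (XT.lf (nat_lit 0) (nat_lit 349650624247) (nat_lit 76) (nat_lit 119898516299) (nat_lit 76) (nat_lit 116332157500) (nat_lit 1) (nat_lit 4) (nat_lit 2) (nat_lit 5) (nat_lit 2) (nat_lit 4) (nat_lit 387) (nat_lit 223) (nat_lit 170)) (XT.lf (nat_lit 0) (nat_lit 369802717667) (nat_lit 76) (nat_lit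 124440853595) (nat_lit 76) (nat_lit 120860659576) (nat_lit 1) (nat_lit 4) (nat_lit 2) (nat_lit 5) (nat_lit 2) (nat_lit 4) (nat_lit 388) (nat_lit 223) (nat_lit 169))) (XT.nd (nat_lit 78) (nat_lit 0) (nat_lit 0) (XT.lf (nat_lit 0) (nat_lit 390946116736) (nat_lit 76) (nat_lit 129217999125) (nat_lit 76) (nat_lit 125624628706) (nat_lit 1) (nat_lit 4) (nat_lit 2) (nat_lit 5) (nat_lit 2) (nat_lit 4) (nat_lit 389) (nat_lit 223) (nat_lit 168)) (XT.nd (nat_lit 78) (nat_lit 0) (nat_lit 0) (XT.lf (nat_lit 0) (nat_lit 413131162880) (nat_lit 76) (nat_lit 134241327045) (nat_lit 76) (nat_lit 130635407674) (nat_lit 1) (nat_lit 4) (nat_lit 2) (nat_lit 5) (nat_lit 2) (nat_lit 4) (nat_lit 390) (nat_lit 223) (nat_lit 167)) (XT.lf (nat_lit 0) (nat_lit 436410677636) (nat_lit 76) (nat_lit 139522797660) (nat_lit 76) (nat_lit 135904926906) (nat_lit 1) (nat_lit 4) (nat_lit 2) (nat_lit 5) (nat_lit 2) (nat_lit 4)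 (nat_lit 391) (nat_lit 223) (nat_lit 166))))) (XT.nd (nat_lit 36036) (nat_lit 0) (nat_lit 228) (XT.nd (nat_lit 35958) (nat_lit 0) (nat_lit 228) (XT.lf (nat_lit 0) (nat_lit 460840088422) (nat_lit 76) (nat_lit 145074985900) (nat_lit 76) (nat_lit 141445732877) (nat_lit 1) (nat_lit 4) (nat_lit 2) (nat_lit 5) (nat_lit 2) (nat_lit 4) (nat_lit 392) (nat_lit 223) (nat_lit 165)) (XT.lf (nat_lit 0) (nat_lit 8585886919) (nat_lit 76) (nat_lit 6319331142) (nat_lit 76) (nat_lit 6319331142) (nat_lit 4) (nat_lit 4) (nat_lit 5) (nat_lit 5) (nat_lit 5) (nat_lit 4) (nat_lit 332) (nat_lit 224) (nat_lit 224))) (XT.nd (nat_lit 78) (nat_lit 0) (nat_lit 0) (XT.lf (nat_lit 0) (nat_lit 24541889880) (nat_lit 76) (nat_lit 10028123898) (nat_lit 76) (nat_lit 9825636732) (nat_lit 4) (nat_lit 4) (nat_lit 5) (nat_lit 5) (nat_lit 5) (nat_lit 4) (nat_lit 333) (nat_lit 224) (nat_lit 223)) (XT.nd (nat_lit 78) (nat_lit 0)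 (nat_lit 0) (XT.lf (nat_lit 0) (nat_lit 32075463627) (nat_lit 76) (nat_lit 7382468930) (nat_lit 76) (nat_lit 6987136843) (nat_lit 4) (nat_lit 4) (nat_lit 5) (nat_lit 5) (nat_lit 5) (nat_lit 4) (nat_lit 334) (nat_lit 224) (nat_lit 222)) (XT.lf (nat_lit 0) (nat_lit 39790432161) (nat_lit 76) (nat_lit 4695398200) (nat_lit 76) (nat_lit 4116404284) (nat_lit 4) (nat_lit 4) (nat_lit 5) (nat_lit 5) (nat_lit 5) (nat_lit 4) (nat_lit 335) (nat_lit 224) (nat_lit 221)))))) (XT.nd (nat_lit 390) (nat_lit 0) (nat_lit 0) (XT.nd (nat_lit 156) (nat_lit 0) (nat_lit 0) (XT.nd (nat_lit 78) (nat_lit 152) (nat_lit 0) (XT.lf (nat_lit 0) (nat_lit 47705164454) (nat_lit 76) (nat_lit 1960513922) (nat_lit 76) (nat_lit 1206603979) (nat_lit 4) (nat_lit 4) (nat_lit 5) (nat_lit 5) (nat_lit 5) (nat_lit 4) (nat_lit 336) (nat_lit 224) (nat_lit 220)) (XT.lf (nat_lit 0) (nat_lit 1748405809) (nat_lit 152) (nat_lit 50636343825)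 (nat_lit 0) (nat_lit 871742345) (nat_lit 2) (nat_lit 5) (nat_lit 4) (nat_lit 4) (nat_lit 2) (nat_lit 4) (nat_lit 337) (nat_lit 224) (nat_lit 219))) (XT.nd (nat_lit 78) (nat_lit 0) (nat_lit 0) (XT.lf (nat_lit 0) (nat_lit 4801482566) (nat_lit 152) (nat_lit 47184222015) (nat_lit 0) (nat_lit 3773720061) (nat_lit 2) (nat_lit 5) (nat_lit 4) (nat_lit 4) (nat_lit 2) (nat_lit 4) (nat_lit 338) (nat_lit 224) (nat_lit 218)) (XT.nd (nat_lit 78) (nat_lit 0) (nat_lit 0) (XT.lf (nat_lit 0) (nat_lit 7915985303) (nat_lit 152) (nat_lit 43731803833) (nat_lit 0) (nat_lit 6744318949) (nat_lit 2) (nat_lit 5) (nat_lit 4) (nat_lit 4) (nat_lit 2) (nat_lit 4) (nat_lit 339) (nat_lit 224) (nat_lit 217)) (XT.lf (nat_lit 0) (nat_lit 11099329502) (nat_lit 152) (nat_lit 40270869236) (nat_lit 0) (nat_lit 9790611864) (nat_lit 2) (nat_lit 5) (nat_lit 4) (nat_lit 4) (nat_lit 2) (nat_lit 4) (nat_lit 340) (nat_lit 224) (nat_lit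 216))))) (XT.nd (nat_lit 234) (nat_lit 0) (nat_lit 0) (XT.nd (nat_lit 78) (nat_lit 0) (nat_lit 0) (XT.lf (nat_lit 0) (nat_lit 14359094555) (nat_lit 152) (nat_lit 36793177904) (nat_lit 0) (nat_lit 12919851884) (nat_lit 2) (nat_lit 5) (nat_lit 4) (nat_lit 4) (nat_lit 2) (nat_lit 4) (nat_lit 341) (nat_lit 224) (nat_lit 215)) (XT.nd (nat_lit 78) (nat_lit 0) (nat_lit 0) (XT.lf (nat_lit 0) (nat_lit 17703041807) (nat_lit 152) (nat_lit 33290449618) (nat_lit 0) (nat_lit 16139489580) (nat_lit 2) (nat_lit 5) (nat_lit 4) (nat_lit 4) (nat_lit 2) (nat_lit 4) (nat_lit 342) (nat_lit 224) (nat_lit 214)) (XT.lf (nat_lit 0) (nat_lit 21139133036) (nat_lit 152) (nat_lit 29754344551) (nat_lit 0) (nat_lit 19457190757) (nat_lit 2) (nat_lit 5) (nat_lit 4) (nat_lit 4) (nat_lit 2) (nat_lit 4) (nat_lit 343) (nat_lit 224) (nat_lit 213)))) (XT.nd (nat_lit 78) (nat_lit 0) (nat_lit 0) (XT.lf (nat_lit 0) (nat_lit 24675549413)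 (nat_lit 152) (nat_lit 26176443403) (nat_lit 0) (nat_lit 22880854703) (nat_lit 2) (nat_lit 5) (nat_lit 4) (nat_lit 4) (nat_lit 2) (nat_lit 4) (nat_lit 344) (nat_lit 224) (nat_lit 212)) (XT.nd (nat_lit 78) (nat_lit 0) (nat_lit 0) (XT.lf (nat_lit 0) (nat_lit 28320710977) (nat_lit 152) (nat_lit 22548227363) (nat_lit 0) (nat_lit 26418632999) (nat_lit 2) (nat_lit 5) (nat_lit 4) (nat_lit 4) (nat_lit 2) (nat_lit 4) (nat_lit 345) (nat_lit 224) (nat_lit 211)) (XT.lf (nat_lit 0) (nat_lit 32083296683) (nat_lit 152) (nat_lit 18861057821) (nat_lit 0) (nat_lit 30078948926) (nat_lit 2) (nat_lit 5) (nat_lit 4) (nat_lit 4) (nat_lit 2) (nat_lit 4) (nat_lit 346) (nat_lit 224) (nat_lit 210))))))))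
noncomputable def xc23 : XT := (XT.nd (nat_lit 1560) (nat_lit 0) (nat_lit 0) (XT.nd (nat_lit 780) (nat_lit 0) (nat_lit 0) (XT.nd (nat_lit 390) (nat_lit 0) (nat_lit 0) (XT.nd (nat_lit 156) (nat_lit 76) (nat_lit 0) (XT.nd (nat_lit 78) (nat_lit 0) (nat_lit 0) (XT.lf (nat_lit 0) (nat_lit 35972265069) (nat_lit 152) (nat_lit 15106155802) (nat_lit 0) (nat_lit 33870517523) (nat_lit 2) (nat_lit 5) (nat_lit 4) (nat_lit 4) (nat_lit 2) (nat_lit 4) (nat_lit 347) (nat_lit 224) (nat_lit 209)) (XT.lf (nat_lit 0) (nat_lit 39996875583) (nat_lit 152) (nat_lit 11274581063) (nat_lit 0) (nat_lit 37802366334) (nat_lit 2) (nat_lit 5) (nat_lit 4) (nat_lit 4) (nat_lit 2) (nat_lit 4) (nat_lit 348) (nat_lit 224) (nat_lit 208))) (XT.nd (nat_lit 78) (nat_lit 76) (nat_lit 0) (XT.lf (nat_lit 0) (nat_lit 44166710632) (nat_lit 152) (nat_lit 7357210807) (nat_lit 0) (nat_lit 41883856903) (nat_lit 2) (nat_lit 5) (nat_lit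 4) (nat_lit 4) (nat_lit 2) (nat_lit 4) (nat_lit 349) (nat_lit 224) (nat_lit 207)) (XT.nd (nat_lit 78) (nat_lit 76) (nat_lit 0) (XT.lf (nat_lit 0) (nat_lit 48491698395) (nat_lit 152) (nat_lit 3344717963) (nat_lit 0) (nat_lit 46124707065) (nat_lit 2) (nat_lit 5) (nat_lit 4) (nat_lit 4) (nat_lit 2) (nat_lit 4) (nat_lit 350) (nat_lit 224) (nat_lit 206)) (XT.lf (nat_lit 0) (nat_lit 797991744) (nat_lit 76) (nat_lit 52196603604) (nat_lit 76) (nat_lit 49749481226) (nat_lit 1) (nat_lit 4) (nat_lit 2) (nat_lit 5) (nat_lit 2) (nat_lit 4) (nat_lit 351) (nat_lit 224) (nat_lit 205))))) (XT.nd (nat_lit 156) (nat_lit 0) (nat_lit 0) (XT.nd (nat_lit 78) (nat_lit 0) (nat_lit 0) (XT.lf (nat_lit 0) (nat_lit 5169557049) (nat_lit 76) (nat_lit 52559870572) (nat_lit 76) (nat_lit 50036432911) (nat_lit 1) (nat_lit 4) (nat_lit 2) (nat_lit 5) (nat_lit 2) (nat_lit 4) (nat_lit 352) (nat_lit 224) (nat_lit 204)) (XT.lf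 (nat_lit 0) (nat_lit 9669794960) (nat_lit 76) (nat_lit 52983726601) (nat_lit 76) (nat_lit 50387607718) (nat_lit 1) (nat_lit 4) (nat_lit 2) (nat_lit 5) (nat_lit 2) (nat_lit 4) (nat_lit 353) (nat_lit 224) (nat_lit 203))) (XT.nd (nat_lit 78) (nat_lit 0) (nat_lit 0) (XT.lf (nat_lit 0) (nat_lit 14309420329) (nat_lit 76) (nat_lit 53469180872) (nat_lit 76) (nat_lit 50803841777) (nat_lit 1) (nat_lit 4) (nat_lit 2) (nat_lit 5) (nat_lit 2) (nat_lit 4) (nat_lit 354) (nat_lit 224) (nat_lit 202)) (XT.nd (nat_lit 78) (nat_lit 0) (nat_lit 0) (XT.lf (nat_lit 0) (nat_lit 19099479883) (nat_lit 76) (nat_lit 54017389229) (nat_lit 76) (nat_lit 51286126123) (nat_lit 1) (nat_lit 4) (nat_lit 2) (nat_lit 5) (nat_lit 2) (nat_lit 4) (nat_lit 355) (nat_lit 224) (nat_lit 201)) (XT.lf (nat_lit 0) (nat_lit 24051378526) (nat_lit 76) (nat_lit 54629656929) (nat_lit 76) (nat_lit 51835609051) (nat_lit 1) (nat_lit 4) (nat_lit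 2) (nat_lit 5) (nat_lit 2) (nat_lit 4) (nat_lit 356) (nat_lit 224) (nat_lit 200)))))) (XT.nd (nat_lit 390) (nat_lit 0) (nat_lit 0) (XT.nd (nat_lit 156) (nat_lit 0) (nat_lit 0) (XT.nd (nat_lit 78) (nat_lit 0) (nat_lit 0) (XT.lf (nat_lit 0) (nat_lit 29176906492) (nat_lit 76) (nat_lit 55307441754) (nat_lit 76) (nat_lit 52453598854) (nat_lit 1) (nat_lit 4) (nat_lit 2) (nat_lit 5) (nat_lit 2) (nat_lit 4) (nat_lit 357) (nat_lit 224) (nat_lit 199)) (XT.lf (nat_lit 0) (nat_lit 34488267420) (nat_lit 76) (nat_lit 56052357475) (nat_lit 76) (nat_lit 53141566935) (nat_lit 1) (nat_lit 4) (nat_lit 2) (nat_lit 5) (nat_lit 2) (nat_lit 4) (nat_lit 358) (nat_lit 224) (nat_lit 198))) (XT.nd (nat_lit 78) (nat_lit 0) (nat_lit 0) (XT.lf (nat_lit 0) (nat_lit 39998107407) (nat_lit 76) (nat_lit 56866177702) (nat_lit 76) (nat_lit 53901151316) (nat_lit 1) (nat_lit 4) (nat_lit 2) (nat_lit 5) (nat_lit 2) (nat_lit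 4) (nat_lit 359) (nat_lit 224) (nat_lit 197)) (XT.nd (nat_lit 78) (nat_lit 0) (nat_lit 0) (XT.lf (nat_lit 0) (nat_lit 45719545119) (nat_lit 76) (nat_lit 57750840103) (nat_lit 76) (nat_lit 54734160528) (nat_lit 1) (nat_lit 4) (nat_lit 2) (nat_lit 5) (nat_lit 2) (nat_lit 4) (nat_lit 360) (nat_lit 224) (nat_lit 196)) (XT.lf (nat_lit 0) (nat_lit 51666203028) (nat_lit 76) (nat_lit 58708451016) (nat_lit 76) (nat_lit 55642577929) (nat_lit 1) (nat_lit 4) (nat_lit 2) (nat_lit 5) (nat_lit 2) (nat_lit 4) (nat_lit 361) (nat_lit 224) (nat_lit 195))))) (XT.nd (nat_lit 156) (nat_lit 0) (nat_lit 0) (XT.nd (nat_lit 78) (nat_lit 0) (nat_lit 0) (XT.lf (nat_lit 0) (nat_lit 57852239843) (nat_lit 76) (nat_lit 59741290467) (nat_lit 76) (nat_lit 56628566416) (nat_lit 1) (nat_lit 4) (nat_lit 2) (nat_lit 5) (nat_lit 2) (nat_lit 4) (nat_lit 362) (nat_lit 224) (nat_lit 194)) (XT.lf (nat_lit 0) (nat_lit 64292384223)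 (nat_lit 76) (nat_lit 60851817598) (nat_lit 76) (nat_lit 57694473582) (nat_lit 1) (nat_lit 4) (nat_lit 2) (nat_lit 5) (nat_lit 2) (nat_lit 4) (nat_lit 363) (nat_lit 224) (nat_lit 193))) (XT.nd (nat_lit 78) (nat_lit 0) (nat_lit 0) (XT.lf (nat_lit 0) (nat_lit 71001969844) (nat_lit 76) (nat_lit 62042676521) (nat_lit 76) (nat_lit 58842837299) (nat_lit 1) (nat_lit 4) (nat_lit 2) (nat_lit 5) (nat_lit 2) (nat_lit 4) (nat_lit 364) (nat_lit 224) (nat_lit 192)) (XT.nd (nat_lit 78) (nat_lit 0) (nat_lit 0) (XT.lf (nat_lit 0) (nat_lit 77996971911) (nat_lit 76) (nat_lit 63316702615) (nat_lit 76) (nat_lit 60076391769) (nat_lit 1) (nat_lit 4) (nat_lit 2) (nat_lit 5) (nat_lit 2) (nat_lit 4) (nat_lit 365) (nat_lit 224) (nat_lit 191)) (XT.lf (nat_lit 0) (nat_lit 85294045191) (nat_lit 76) (nat_lit 64676929274) (nat_lit 76) (nat_lit 61398074024) (nat_lit 1) (nat_lit 4) (nat_lit 2) (nat_lit 5) (nat_lit 2)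 (nat_lit 4) (nat_lit 366) (nat_lit 224) (nat_lit 190))))))) (XT.nd (nat_lit 780) (nat_lit 0) (nat_lit 0) (XT.nd (nat_lit 390) (nat_lit 0) (nat_lit 0) (XT.nd (nat_lit 156) (nat_lit 0) (nat_lit 0) (XT.nd (nat_lit 78) (nat_lit 0) (nat_lit 0) (XT.lf (nat_lit 0) (nat_lit 92910563667) (nat_lit 76) (nat_lit 66126595134) (nat_lit 76) (nat_lit 62811030928) (nat_lit 1) (nat_lit 4) (nat_lit 2) (nat_lit 5) (nat_lit 2) (nat_lit 4) (nat_lit 367) (nat_lit 224) (nat_lit 189)) (XT.lf (nat_lit 0) (nat_lit 100864661908) (nat_lit 76) (nat_lit 67669151781) (nat_lit 76) (nat_lit 64318626664) (nat_lit 1) (nat_lit 4) (nat_lit 2) (nat_lit 5) (nat_lit 2) (nat_lit 4) (nat_lit 368) (nat_lit 224) (nat_lit 188))) (XT.nd (nat_lit 78) (nat_lit 0) (nat_lit 0) (XT.lf (nat_lit 0) (nat_lit 109175278242) (nat_lit 76) (nat_lit 69308271967) (nat_lit 76) (nat_lit 65924450745) (nat_lit 1) (nat_lit 4) (nat_lit 2) (nat_lit 5)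 (nat_lit 2) (nat_lit 4) (nat_lit 369) (nat_lit 224) (nat_lit 187)) (XT.nd (nat_lit 78) (nat_lit 0) (nat_lit 0) (XT.lf (nat_lit 0) (nat_lit 117862199852) (nat_lit 76) (nat_lit 71047858361) (nat_lit 76) (nat_lit 67632326562) (nat_lit 1) (nat_lit 4) (nat_lit 2) (nat_lit 5) (nat_lit 2) (nat_lit 4) (nat_lit 370) (nat_lit 224) (nat_lit 186)) (XT.lf (nat_lit 0) (nat_lit 126946109883) (nat_lit 76) (nat_lit 72892052834) (nat_lit 76) (nat_lit 69446320486) (nat_lit 1) (nat_lit 4) (nat_lit 2) (nat_lit 5) (nat_lit 2) (nat_lit 4) (nat_lit 371) (nat_lit 224) (nat_lit 185))))) (XT.nd (nat_lit 156) (nat_lit 0) (nat_lit 0) (XT.nd (nat_lit 78) (nat_lit 0) (nat_lit 0) (XT.lf (nat_lit 0) (nat_lit 136448636694) (nat_lit 76) (nat_lit 74845246326) (nat_lit 76) (nat_lit 71370751551) (nat_lit 1) (nat_lit 4) (nat_lit 2) (nat_lit 5) (nat_lit 2) (nat_lit 4) (nat_lit 372) (nat_lit 224) (nat_lit 184)) (XT.lf (nat_lit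 0) (nat_lit 146392405347) (nat_lit 76) (nat_lit 76912089298) (nat_lit 76) (nat_lit 73410201734) (nat_lit 1) (nat_lit 4) (nat_lit 2) (nat_lit 5) (nat_lit 2) (nat_lit 4) (nat_lit 373) (nat_lit 224) (nat_lit 183))) (XT.nd (nat_lit 78) (nat_lit 0) (nat_lit 0) (XT.lf (nat_lit 0) (nat_lit 156801091484) (nat_lit 76) (nat_lit 79097502803) (nat_lit 76) (nat_lit 75569526870) (nat_lit 1) (nat_lit 4) (nat_lit 2) (nat_lit 5) (nat_lit 2) (nat_lit 4) (nat_lit 374) (nat_lit 224) (nat_lit 182)) (XT.nd (nat_lit 78) (nat_lit 0) (nat_lit 0) (XT.lf (nat_lit 0) (nat_lit 167699477689) (nat_lit 76) (nat_lit 81406690209) (nat_lit 76) (nat_lit 77853868209) (nat_lit 1) (nat_lit 4) (nat_lit 2) (nat_lit 5) (nat_lit 2) (nat_lit 4) (nat_lit 375) (nat_lit 224) (nat_lit 181)) (XT.lf (nat_lit 0) (nat_lit 179113512501) (nat_lit 76) (nat_lit 83845149579) (nat_lit 76) (nat_lit 80268664659) (nat_lit 1) (nat_lit 4) (nat_lit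 2) (nat_lit 5) (nat_lit 2) (nat_lit 4) (nat_lit 376) (nat_lit 224) (nat_lit 180)))))) (XT.nd (nat_lit 390) (nat_lit 0) (nat_lit 0) (XT.nd (nat_lit 156) (nat_lit 0) (nat_lit 0) (XT.nd (nat_lit 78) (nat_lit 0) (nat_lit 0) (XT.lf (nat_lit 0) (nat_lit 191070372194) (nat_lit 76) (nat_lit 86418686770) (nat_lit 76) (nat_lit 82819665735) (nat_lit 1) (nat_lit 4) (nat_lit 2) (nat_lit 5) (nat_lit 2) (nat_lit 4) (nat_lit 377) (nat_lit 224) (nat_lit 179)) (XT.lf (nat_lit 0) (nat_lit 203598525481) (nat_lit 76) (nat_lit 89133429251) (nat_lit 76) (nat_lit 85512945249) (nat_lit 1) (nat_lit 4) (nat_lit 2) (nat_lit 5) (nat_lit 2) (nat_lit 4) (nat_lit 378) (nat_lit 224) (nat_lit 178))) (XT.nd (nat_lit 78) (nat_lit 0) (nat_lit 0) (XT.lf (nat_lit 0) (nat_lit 216727801299) (nat_lit 76) (nat_lit 91995840695) (nat_lit 76) (nat_lit 88354915773) (nat_lit 1) (nat_lit 4) (nat_lit 2) (nat_lit 5) (nat_lit 2) (nat_lit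 4) (nat_lit 379) (nat_lit 224) (nat_lit 177)) (XT.nd (nat_lit 78) (nat_lit 0) (nat_lit 0) (XT.lf (nat_lit 0) (nat_lit 230489459828) (nat_lit 76) (nat_lit 95012736367) (nat_lit 76) (nat_lit 91352343901) (nat_lit 1) (nat_lit 4) (nat_lit 2) (nat_lit 5) (nat_lit 2) (nat_lit 4) (nat_lit 380) (nat_lit 224) (nat_lit 176)) (XT.lf (nat_lit 0) (nat_lit 244916266921) (nat_lit 76) (nat_lit 98191299351) (nat_lit 76) (nat_lit 94512366368) (nat_lit 1) (nat_lit 4) (nat_lit 2) (nat_lit 5) (nat_lit 2) (nat_lit 4) (nat_lit 381) (nat_lit 224) (nat_lit 175))))) (XT.nd (nat_lit 234) (nat_lit 0) (nat_lit 0) (XT.nd (nat_lit 78) (nat_lit 0) (nat_lit 0) (XT.lf (nat_lit 0) (nat_lit 260042572121) (nat_lit 76) (nat_lit 101539097656) (nat_lit 76) (nat_lit 97842507037) (nat_lit 1) (nat_lit 4) (nat_lit 2) (nat_lit 5) (nat_lit 2) (nat_lit 4) (nat_lit 382) (nat_lit 224) (nat_lit 174)) (XT.nd (nat_lit 78) (nat_lit 0)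 (nat_lit 0) (XT.lf (nat_lit 0) (nat_lit 275904390437) (nat_lit 76) (nat_lit 105064102229) (nat_lit 76) (nat_lit 101350694815) (nat_lit 1) (nat_lit 4) (nat_lit 2) (nat_lit 5) (nat_lit 2) (nat_lit 4) (nat_lit 383) (nat_lit 224) (nat_lit 173)) (XT.lf (nat_lit 0) (nat_lit 292539488106) (nat_lit 76) (nat_lit 108774705938) (nat_lit 76) (nat_lit 105045282528) (nat_lit 1) (nat_lit 4) (nat_lit 2) (nat_lit 5) (nat_lit 2) (nat_lit 4) (nat_lit 384) (nat_lit 224) (nat_lit 172)))) (XT.nd (nat_lit 78) (nat_lit 0) (nat_lit 0) (XT.lf (nat_lit 0) (nat_lit 309987472503) (nat_lit 76) (nat_lit 112679743555) (nat_lit 76) (nat_lit 108935066815) (nat_lit 1) (nat_lit 4) (nat_lit 2) (nat_lit 5) (nat_lit 2) (nat_lit 4) (nat_lit 385) (nat_lit 224) (nat_lit 171)) (XT.nd (nat_lit 78) (nat_lit 0) (nat_lit 0) (XT.lf (nat_lit 0) (nat_lit 328289886446) (nat_lit 76) (nat_lit 116788512787) (nat_lit 76) (nat_lit 113029309067)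 (nat_lit 1) (nat_lit 4) (nat_lit 2) (nat_lit 5) (nat_lit 2) (nat_lit 4) (nat_lit 386) (nat_lit 224) (nat_lit 170)) (XT.lf (nat_lit 0) (nat_lit 347490307113) (nat_lit 76) (nat_lit 121110796419) (nat_lit 76) (nat_lit 117337757479) (nat_lit 1) (nat_lit 4) (nat_lit 2) (nat_lit 5) (nat_lit 2) (nat_lit 4) (nat_lit 387) (nat_lit 224) (nat_lit 169))))))))
noncomputable def xc24 : XT := (XT.nd (nat_lit 37284) (nat_lit 0) (nat_lit 0) (XT.nd (nat_lit 36504) (nat_lit 0) (nat_lit 76) (XT.nd (nat_lit 36114) (nat_lit 0) (nat_lit 228) (XT.nd (nat_lit 156) (nat_lit 0) (nat_lit 0) (XT.nd (nat_lit 78) (nat_lit 0) (nat_lit 0) (XT.lf (nat_lit 0) (nat_lit 367634449791) (nat_lit 76) (nat_lit 125656885602) (nat_lit 76) (nat_lit 121870670263) (nat_lit 1) (nat_lit 4) (nat_lit 2) (nat_lit 5) (nat_lit 2) (nat_lit 4) (nat_lit 388) (nat_lit 224) (nat_lit 168)) (XT.lf (nat_lit 0) (nat_lit 388770276723) (nat_lit 76)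 (nat_lit 130437604358) (nat_lit 76) (nat_lit 126638840067) (nat_lit 1) (nat_lit 4) (nat_lit 2) (nat_lit 5) (nat_lit 2) (nat_lit 4) (nat_lit 389) (nat_lit 224) (nat_lit 167))) (XT.nd (nat_lit 78) (nat_lit 0) (nat_lit 0) (XT.lf (nat_lit 0) (nat_lit 410948111309) (nat_lit 76) (nat_lit 135464335351) (nat_lit 76) (nat_lit 131653619677) (nat_lit 1) (nat_lit 4) (nat_lit 2) (nat_lit 5) (nat_lit 2) (nat_lit 4) (nat_lit 390) (nat_lit 224) (nat_lit 166)) (XT.nd (nat_lit 78) (nat_lit 0) (nat_lit 0) (XT.lf (nat_lit 0) (nat_lit 434220757915) (nat_lit 76) (nat_lit 140749046988) (nat_lit 76) (nat_lit 136926949044) (nat_lit 1) (nat_lit 4) (nat_lit 2) (nat_lit 5) (nat_lit 2) (nat_lit 4) (nat_lit 391) (nat_lit 224) (nat_lit 165)) (XT.lf (nat_lit 0) (nat_lit 458643627605) (nat_lit 76) (nat_lit 146304321915) (nat_lit 76) (nat_lit 142471383715) (nat_lit 1) (nat_lit 4) (nat_lit 2) (nat_lit 5) (nat_lit 2) (nat_lit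 4) (nat_lit 392) (nat_lit 224) (nat_lit 164))))) (XT.nd (nat_lit 156) (nat_lit 0) (nat_lit 0) (XT.nd (nat_lit 78) (nat_lit 0) (nat_lit 0) (XT.lf (nat_lit 0) (nat_lit 1481173280) (nat_lit 76) (nat_lit 8970241075) (nat_lit 76) (nat_lit 8970241075) (nat_lit 4) (nat_lit 4) (nat_lit 5) (nat_lit 5) (nat_lit 5) (nat_lit 4) (nat_lit 330) (nat_lit 225) (nat_lit 225)) (XT.lf (nat_lit 0) (nat_lit 9947567606) (nat_lit 76) (nat_lit 15432911182) (nat_lit 76) (nat_lit 15220299657) (nat_lit 4) (nat_lit 4) (nat_lit 5) (nat_lit 5) (nat_lit 5) (nat_lit 4) (nat_lit 331) (nat_lit 225) (nat_lit 224))) (XT.nd (nat_lit 78) (nat_lit 0) (nat_lit 0) (XT.lf (nat_lit 0) (nat_lit 17066749203) (nat_lit 76) (nat_lit 12900142519) (nat_lit 76) (nat_lit 12485043828) (nat_lit 4) (nat_lit 4) (nat_lit 5) (nat_lit 5) (nat_lit 5) (nat_lit 4) (nat_lit 332) (nat_lit 225) (nat_lit 223)) (XT.nd (nat_lit 78) (nat_lit 0) (nat_lit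 0) (XT.lf (nat_lit 0) (nat_lit 24336841783) (nat_lit 76) (nat_lit 10336145760) (nat_lit 76) (nat_lit 9728202149) (nat_lit 4) (nat_lit 4) (nat_lit 5) (nat_lit 5) (nat_lit 5) (nat_lit 4) (nat_lit 333) (nat_lit 225) (nat_lit 222)) (XT.lf (nat_lit 0) (nat_lit 31775155091) (nat_lit 76) (nat_lit 7734816151) (nat_lit 76) (nat_lit 6943210711) (nat_lit 4) (nat_lit 4) (nat_lit 5) (nat_lit 5) (nat_lit 5) (nat_lit 4) (nat_lit 334) (nat_lit 225) (nat_lit 221)))))) (XT.nd (nat_lit 390) (nat_lit 0) (nat_lit 0) (XT.nd (nat_lit 156) (nat_lit 152) (nat_lit 0) (XT.nd (nat_lit 78) (nat_lit 0) (nat_lit 0) (XT.lf (nat_lit 0) (nat_lit 39399399397) (nat_lit 76) (nat_lit 5089960050) (nat_lit 76) (nat_lit 4123438582) (nat_lit 4) (nat_lit 4) (nat_lit 5) (nat_lit 5) (nat_lit 5) (nat_lit 4) (nat_lit 335) (nat_lit 225) (nat_lit 220)) (XT.lf (nat_lit 0) (nat_lit 47227727663) (nat_lit 76) (nat_lit 2395280181) (nat_lit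 76) (nat_lit 1262172019) (nat_lit 4) (nat_lit 4) (nat_lit 5) (nat_lit 5) (nat_lit 5) (nat_lit 4) (nat_lit 336) (nat_lit 225) (nat_lit 219))) (XT.nd (nat_lit 78) (nat_lit 0) (nat_lit 0) (XT.lf (nat_lit 0) (nat_lit 1633063641) (nat_lit 152) (nat_lit 51236654785) (nat_lit 0) (nat_lit 402813970) (nat_lit 2) (nat_lit 5) (nat_lit 4) (nat_lit 4) (nat_lit 2) (nat_lit 4) (nat_lit 337) (nat_lit 225) (nat_lit 218)) (XT.nd (nat_lit 78) (nat_lit 0) (nat_lit 0) (XT.lf (nat_lit 0) (nat_lit 4641639004) (nat_lit 152) (nat_lit 47868586497) (nat_lit 0) (nat_lit 3267485484) (nat_lit 2) (nat_lit 5) (nat_lit 4) (nat_lit 4) (nat_lit 2) (nat_lit 4) (nat_lit 338) (nat_lit 225) (nat_lit 217)) (XT.lf (nat_lit 0) (nat_lit 7713759461) (nat_lit 152) (nat_lit 44496219287) (nat_lit 0) (nat_lit 6202554657) (nat_lit 2) (nat_lit 5) (nat_lit 4) (nat_lit 4) (nat_lit 2) (nat_lit 4) (nat_lit 339) (nat_lit 225) (nat_lit 216)))))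 (XT.nd (nat_lit 156) (nat_lit 0) (nat_lit 0) (XT.nd (nat_lit 78) (nat_lit 0) (nat_lit 0) (XT.lf (nat_lit 0) (nat_lit 10856739584) (nat_lit 152) (nat_lit 41111523712) (nat_lit 0) (nat_lit 9215009747) (nat_lit 2) (nat_lit 5) (nat_lit 4) (nat_lit 4) (nat_lit 2) (nat_lit 4) (nat_lit 340) (nat_lit 225) (nat_lit 215)) (XT.lf (nat_lit 0) (nat_lit 14078062660) (nat_lit 152) (nat_lit 37706440971) (nat_lit 0) (nat_lit 12312023267) (nat_lit 2) (nat_lit 5) (nat_lit 4) (nat_lit 4) (nat_lit 2) (nat_lit 4) (nat_lit 341) (nat_lit 225) (nat_lit 214))) (XT.nd (nat_lit 78) (nat_lit 0) (nat_lit 0) (XT.lf (nat_lit 0) (nat_lit 17385398504) (nat_lit 152) (nat_lit 34272863726) (nat_lit 0) (nat_lit 15500969059) (nat_lit 2) (nat_lit 5) (nat_lit 4) (nat_lit 4) (nat_lit 2) (nat_lit 4) (nat_lit 342) (nat_lit 225) (nat_lit 213)) (XT.nd (nat_lit 78) (nat_lit 0) (nat_lit 0) (XT.lf (nat_lit 0) (nat_lit 20786621727)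 (nat_lit 152) (nat_lit 30802616792) (nat_lit 0) (nat_lit 18789439850) (nat_lit 2) (nat_lit 5) (nat_lit 4) (nat_lit 4) (nat_lit 2) (nat_lit 4) (nat_lit 343) (nat_lit 225) (nat_lit 212)) (XT.lf (nat_lit 0) (nat_lit 24289830478) (nat_lit 152) (nat_lit 27287437676) (nat_lit 0) (nat_lit 22185265334) (nat_lit 2) (nat_lit 5) (nat_lit 4) (nat_lit 4) (nat_lit 2) (nat_lit 4) (nat_lit 344) (nat_lit 225) (nat_lit 211))))))) (XT.nd (nat_lit 780) (nat_lit 0) (nat_lit 0) (XT.nd (nat_lit 390) (nat_lit 76) (nat_lit 0) (XT.nd (nat_lit 156) (nat_lit 0) (nat_lit 0) (XT.nd (nat_lit 78) (nat_lit 0) (nat_lit 0) (XT.lf (nat_lit 0) (nat_lit 27903365732) (nat_lit 152) (nat_lit 23718956904) (nat_lit 0) (nat_lit 25696530809) (nat_lit 2) (nat_lit 5) (nat_lit 4) (nat_lit 4) (nat_lit 2) (nat_lit 4) (nat_lit 345) (nat_lit 225) (nat_lit 210)) (XT.lf (nat_lit 0) (nat_lit 31635831142) (nat_lit 152) (nat_lit 20088678094)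 (nat_lit 0) (nat_lit 29331596430) (nat_lit 2) (nat_lit 5) (nat_lit 4) (nat_lit 4) (nat_lit 2) (nat_lit 4) (nat_lit 346) (nat_lit 225) (nat_lit 209))) (XT.nd (nat_lit 78) (nat_lit 0) (nat_lit 0) (XT.lf (nat_lit 0) (nat_lit 35496113533) (nat_lit 152) (nat_lit 16387957724) (nat_lit 0) (nat_lit 33099117117) (nat_lit 2) (nat_lit 5) (nat_lit 4) (nat_lit 4) (nat_lit 2) (nat_lit 4) (nat_lit 347) (nat_lit 225) (nat_lit 208)) (XT.nd (nat_lit 78) (nat_lit 0) (nat_lit 0) (XT.lf (nat_lit 0) (nat_lit 39493404052) (nat_lit 152) (nat_lit 12607984556) (nat_lit 0) (nat_lit 37008063156) (nat_lit 2) (nat_lit 5) (nat_lit 4) (nat_lit 4) (nat_lit 2) (nat_lit 4) (nat_lit 348) (nat_lit 225) (nat_lit 207)) (XT.lf (nat_lit 0) (nat_lit 43637220057) (nat_lit 152) (nat_lit 8739758653) (nat_lit 0) (nat_lit 41067741561) (nat_lit 2) (nat_lit 5) (nat_lit 4) (nat_lit 4) (nat_lit 2) (nat_lit 4) (nat_lit 349) (nat_lit 225)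 (nat_lit 206))))) (XT.nd (nat_lit 156) (nat_lit 76) (nat_lit 0) (XT.nd (nat_lit 78) (nat_lit 0) (nat_lit 0) (XT.lf (nat_lit 0) (nat_lit 47937427778) (nat_lit 152) (nat_lit 4774069955) (nat_lit 0) (nat_lit 45287818235) (nat_lit 2) (nat_lit 5) (nat_lit 4) (nat_lit 4) (nat_lit 2) (nat_lit 4) (nat_lit 350) (nat_lit 225) (nat_lit 205)) (XT.lf (nat_lit 0) (nat_lit 52404265804) (nat_lit 152) (nat_lit 701476344) (nat_lit 0) (nat_lit 49678340977) (nat_lit 2) (nat_lit 5) (nat_lit 4) (nat_lit 4) (nat_lit 2) (nat_lit 4) (nat_lit 351) (nat_lit 225) (nat_lit 204))) (XT.nd (nat_lit 78) (nat_lit 0) (nat_lit 0) (XT.lf (nat_lit 0) (nat_lit 3603038566) (nat_lit 76) (nat_lit 53501584427) (nat_lit 76) (nat_lit 50702978378) (nat_lit 1) (nat_lit 4) (nat_lit 2) (nat_lit 5) (nat_lit 2) (nat_lit 4) (nat_lit 352) (nat_lit 225) (nat_lit 203)) (XT.nd (nat_lit 78) (nat_lit 0) (nat_lit 0) (XT.lf (nat_lit 0) (nat_lit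 8061508458) (nat_lit 76) (nat_lit 53945150427) (nat_lit 76) (nat_lit 51077324166) (nat_lit 1) (nat_lit 4) (nat_lit 2) (nat_lit 5) (nat_lit 2) (nat_lit 4) (nat_lit 353) (nat_lit 225) (nat_lit 202)) (XT.lf (nat_lit 0) (nat_lit 12661354762) (nat_lit 76) (nat_lit 54449376100) (nat_lit 76) (nat_lit 51515625827) (nat_lit 1) (nat_lit 4) (nat_lit 2) (nat_lit 5) (nat_lit 2) (nat_lit 4) (nat_lit 354) (nat_lit 225) (nat_lit 201)))))) (XT.nd (nat_lit 390) (nat_lit 0) (nat_lit 0) (XT.nd (nat_lit 156) (nat_lit 0) (nat_lit 0) (XT.nd (nat_lit 78) (nat_lit 0) (nat_lit 0) (XT.lf (nat_lit 0) (nat_lit 17413529492) (nat_lit 76) (nat_lit 55015461981) (nat_lit 76) (nat_lit 52018926936) (nat_lit 1) (nat_lit 4) (nat_lit 2) (nat_lit 5) (nat_lit 2) (nat_lit 4) (nat_lit 355) (nat_lit 225) (nat_lit 200)) (XT.lf (nat_lit 0) (nat_lit 22329347350) (nat_lit 76) (nat_lit 55644755896) (nat_lit 76) (nat_lit 52588425829)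 (nat_lit 1) (nat_lit 4) (nat_lit 2) (nat_lit 5) (nat_lit 2) (nat_lit 4) (nat_lit 356) (nat_lit 225) (nat_lit 199))) (XT.nd (nat_lit 78) (nat_lit 0) (nat_lit 0) (XT.lf (nat_lit 0) (nat_lit 27420512665) (nat_lit 76) (nat_lit 56338756162) (nat_lit 76) (nat_lit 53225478456) (nat_lit 1) (nat_lit 4) (nat_lit 2) (nat_lit 5) (nat_lit 2) (nat_lit 4) (nat_lit 357) (nat_lit 225) (nat_lit 198)) (XT.nd (nat_lit 78) (nat_lit 0) (nat_lit 0) (XT.lf (nat_lit 0) (nat_lit 32699147257) (nat_lit 76) (nat_lit 57099115161) (nat_lit 76) (nat_lit 53931601608) (nat_lit 1) (nat_lit 4) (nat_lit 2) (nat_lit 5) (nat_lit 2) (nat_lit 4) (nat_lit 358) (nat_lit 225) (nat_lit 197)) (XT.lf (nat_lit 0) (nat_lit 38177819306) (nat_lit 76) (nat_lit 57927643272) (nat_lit 76) (nat_lit 54708476531) (nat_lit 1) (nat_lit 4) (nat_lit 2) (nat_lit 5) (nat_lit 2) (nat_lit 4) (nat_lit 359) (nat_lit 225) (nat_lit 196))))) (XT.nd (nat_lit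 156) (nat_lit 0) (nat_lit 0) (XT.nd (nat_lit 78) (nat_lit 0) (nat_lit 0) (XT.lf (nat_lit 0) (nat_lit 43869573268) (nat_lit 76) (nat_lit 58826313181) (nat_lit 76) (nat_lit 55557952928) (nat_lit 1) (nat_lit 4) (nat_lit 2) (nat_lit 5) (nat_lit 2) (nat_lit 4) (nat_lit 360) (nat_lit 225) (nat_lit 195)) (XT.lf (nat_lit 0) (nat_lit 49787960938) (nat_lit 76) (nat_lit 59797264578) (nat_lit 76) (nat_lit 56482053361) (nat_lit 1) (nat_lit 4) (nat_lit 2) (nat_lit 5) (nat_lit 2) (nat_lit 4) (nat_lit 361) (nat_lit 225) (nat_lit 194))) (XT.nd (nat_lit 78) (nat_lit 0) (nat_lit 0) (XT.lf (nat_lit 0) (nat_lit 55947073715) (nat_lit 76) (nat_lit 60842809253) (nat_lit 76) (nat_lit 57482978070) (nat_lit 1) (nat_lit 4) (nat_lit 2) (nat_lit 5) (nat_lit 2) (nat_lit 4) (nat_lit 362) (nat_lit 225) (nat_lit 193)) (XT.nd (nat_lit 78) (nat_lit 0) (nat_lit 0) (XT.lf (nat_lit 0) (nat_lit 62361576155) (nat_lit 76) (nat_lit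 61965436596) (nat_lit 76) (nat_lit 58563110208) (nat_lit 1) (nat_lit 4) (nat_lit 2) (nat_lit 5) (nat_lit 2) (nat_lit 4) (nat_lit 363) (nat_lit 225) (nat_lit 192)) (XT.lf (nat_lit 0) (nat_lit 69046740881) (nat_lit 76) (nat_lit 63167819531) (nat_lit 76) (nat_lit 59725021519) (nat_lit 1) (nat_lit 4) (nat_lit 2) (nat_lit 5) (nat_lit 2) (nat_lit 4) (nat_lit 364) (nat_lit 225) (nat_lit 191))))))))
noncomputable def xc25 : XT := (XT.nd (nat_lit 1560) (nat_lit 0) (nat_lit 0) (XT.nd (nat_lit 780) (nat_lit 0) (nat_lit 0) (XT.nd (nat_lit 390) (nat_lit 0) (nat_lit 0) (XT.nd (nat_lit 156) (nat_lit 0) (nat_lit 0) (XT.nd (nat_lit 78) (nat_lit 0) (nat_lit 0) (XT.lf (nat_lit 0) (nat_lit 76018484953) (nat_lit 76) (nat_lit 64452820874) (nat_lit 76) (nat_lit 60971478458) (nat_lit 1) (nat_lit 4) (nat_lit 2) (nat_lit 5) (nat_lit 2) (nat_lit 4) (nat_lit 365) (nat_lit 225) (nat_lit 190)) (XT.lf (nat_lit 0)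 (nat_lit 83293407760) (nat_lit 76) (nat_lit 65823500152) (nat_lit 76) (nat_lit 62305448779) (nat_lit 1) (nat_lit 4) (nat_lit 2) (nat_lit 5) (nat_lit 2) (nat_lit 4) (nat_lit 366) (nat_lit 225) (nat_lit 189))) (XT.nd (nat_lit 78) (nat_lit 0) (nat_lit 0) (XT.lf (nat_lit 0) (nat_lit 90888830549) (nat_lit 76) (nat_lit 67283120887) (nat_lit 76) (nat_lit 63730108603) (nat_lit 1) (nat_lit 4) (nat_lit 2) (nat_lit 5) (nat_lit 2) (nat_lit 4) (nat_lit 367) (nat_lit 225) (nat_lit 188)) (XT.nd (nat_lit 78) (nat_lit 0) (nat_lit 0) (XT.lf (nat_lit 0) (nat_lit 98822837659) (nat_lit 76) (nat_lit 68835158366) (nat_lit 76) (nat_lit 65248849977) (nat_lit 1) (nat_lit 4) (nat_lit 2) (nat_lit 5) (nat_lit 2) (nat_lit 4) (nat_lit 368) (nat_lit 225) (nat_lit 187)) (XT.lf (nat_lit 0) (nat_lit 107114319583) (nat_lit 76) (nat_lit 70483307917) (nat_lit 76) (nat_lit 66865288952) (nat_lit 1) (nat_lit 4) (nat_lit 2)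 (nat_lit 5) (nat_lit 2) (nat_lit 4) (nat_lit 369) (nat_lit 225) (nat_lit 186))))) (XT.nd (nat_lit 156) (nat_lit 0) (nat_lit 0) (XT.nd (nat_lit 78) (nat_lit 0) (nat_lit 0) (XT.lf (nat_lit 0) (nat_lit 115783017944) (nat_lit 76) (nat_lit 72231493706) (nat_lit 76) (nat_lit 68583274192) (nat_lit 1) (nat_lit 4) (nat_lit 2) (nat_lit 5) (nat_lit 2) (nat_lit 4) (nat_lit 370) (nat_lit 225) (nat_lit 185)) (XT.lf (nat_lit 0) (nat_lit 124849572501) (nat_lit 76) (nat_lit 74083878080) (nat_lit 76) (nat_lit 70406896138) (nat_lit 1) (nat_lit 4) (nat_lit 2) (nat_lit 5) (nat_lit 2) (nat_lit 4) (nat_lit 371) (nat_lit 225) (nat_lit 184))) (XT.nd (nat_lit 78) (nat_lit 0) (nat_lit 0) (XT.lf (nat_lit 0) (nat_lit 134335570289) (nat_lit 76) (nat_lit 76044871476) (nat_lit 76) (nat_lit 72340496746) (nat_lit 1) (nat_lit 4) (nat_lit 2) (nat_lit 5) (nat_lit 2) (nat_lit 4) (nat_lit 372) (nat_lit 225) (nat_lit 183))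 (XT.nd (nat_lit 78) (nat_lit 0) (nat_lit 0) (XT.lf (nat_lit 0) (nat_lit 144263597015) (nat_lit 76) (nat_lit 78119142929) (nat_lit 76) (nat_lit 74388679829) (nat_lit 1) (nat_lit 4) (nat_lit 2) (nat_lit 5) (nat_lit 2) (nat_lit 4) (nat_lit 373) (nat_lit 225) (nat_lit 182)) (XT.lf (nat_lit 0) (nat_lit 154657290840) (nat_lit 76) (nat_lit 80311631178) (nat_lit 76) (nat_lit 76556322012) (nat_lit 1) (nat_lit 4) (nat_lit 2) (nat_lit 5) (nat_lit 2) (nat_lit 4) (nat_lit 374) (nat_lit 225) (nat_lit 181)))))) (XT.nd (nat_lit 390) (nat_lit 0) (nat_lit 0) (XT.nd (nat_lit 156) (nat_lit 0) (nat_lit 0) (XT.nd (nat_lit 78) (nat_lit 0) (nat_lit 0) (XT.lf (nat_lit 0) (nat_lit 165541398654) (nat_lit 76) (nat_lit 82627556435) (nat_lit 76) (nat_lit 78848584348) (nat_lit 1) (nat_lit 4) (nat_lit 2) (nat_lit 5) (nat_lit 2) (nat_lit 4) (nat_lit 375) (nat_lit 225) (nat_lit 180)) (XT.lf (nat_lit 0) (nat_lit 176941834998)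 (nat_lit 76) (nat_lit 85072432806) (nat_lit 76) (nat_lit 81270924604) (nat_lit 1) (nat_lit 4) (nat_lit 2) (nat_lit 5) (nat_lit 2) (nat_lit 4) (nat_lit 376) (nat_lit 225) (nat_lit 179))) (XT.nd (nat_lit 78) (nat_lit 0) (nat_lit 0) (XT.lf (nat_lit 0) (nat_lit 188885743769) (nat_lit 76) (nat_lit 87652081427) (nat_lit 76) (nat_lit 83829110258) (nat_lit 1) (nat_lit 4) (nat_lit 2) (nat_lit 5) (nat_lit 2) (nat_lit 4) (nat_lit 377) (nat_lit 225) (nat_lit 178)) (XT.nd (nat_lit 78) (nat_lit 0) (nat_lit 0) (XT.lf (nat_lit 0) (nat_lit 201401562844) (nat_lit 76) (nat_lit 90372644317) (nat_lit 76) (nat_lit 86529232228) (nat_lit 1) (nat_lit 4) (nat_lit 2) (nat_lit 5) (nat_lit 2) (nat_lit 4) (nat_lit 378) (nat_lit 225) (nat_lit 177)) (XT.lf (nat_lit 0) (nat_lit 214519091794) (nat_lit 76) (nat_lit 93240599007) (nat_lit 76) (nat_lit 89377719375) (nat_lit 1) (nat_lit 4) (nat_lit 2) (nat_lit 5) (nat_lit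 2) (nat_lit 4) (nat_lit 379) (nat_lit 225) (nat_lit 176))))) (XT.nd (nat_lit 156) (nat_lit 0) (nat_lit 0) (XT.nd (nat_lit 78) (nat_lit 0) (nat_lit 0) (XT.lf (nat_lit 0) (nat_lit 228269562829) (nat_lit 76) (nat_lit 96262773961) (nat_lit 76) (nat_lit 92381353812) (nat_lit 1) (nat_lit 4) (nat_lit 2) (nat_lit 5) (nat_lit 2) (nat_lit 4) (nat_lit 380) (nat_lit 225) (nat_lit 175)) (XT.lf (nat_lit 0) (nat_lit 242685715167) (nat_lit 76) (nat_lit 99446364834) (nat_lit 76) (nat_lit 95547287049) (nat_lit 1) (nat_lit 4) (nat_lit 2) (nat_lit 5) (nat_lit 2) (nat_lit 4) (nat_lit 381) (nat_lit 225) (nat_lit 174))) (XT.nd (nat_lit 78) (nat_lit 0) (nat_lit 0) (XT.lf (nat_lit 0) (nat_lit 257801872980) (nat_lit 76) (nat_lit 102798951604) (nat_lit 76) (nat_lit 98883057023) (nat_lit 1) (nat_lit 4) (nat_lit 2) (nat_lit 5) (nat_lit 2) (nat_lit 4) (nat_lit 382) (nat_lit 225) (nat_lit 173)) (XT.nd (nat_lit 78)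 (nat_lit 0) (nat_lit 0) (XT.lf (nat_lit 0) (nat_lit 273654027119) (nat_lit 76) (nat_lit 106328516620) (nat_lit 76) (nat_lit 102396606043) (nat_lit 1) (nat_lit 4) (nat_lit 2) (nat_lit 5) (nat_lit 2) (nat_lit 4) (nat_lit 383) (nat_lit 225) (nat_lit 172)) (XT.lf (nat_lit 0) (nat_lit 290279920810) (nat_lit 76) (nat_lit 110043463608) (nat_lit 76) (nat_lit 106096299702) (nat_lit 1) (nat_lit 4) (nat_lit 2) (nat_lit 5) (nat_lit 2) (nat_lit 4) (nat_lit 384) (nat_lit 225) (nat_lit 171))))))) (XT.nd (nat_lit 36348) (nat_lit 0) (nat_lit 76) (XT.nd (nat_lit 390) (nat_lit 0) (nat_lit 0) (XT.nd (nat_lit 156) (nat_lit 0) (nat_lit 0) (XT.nd (nat_lit 78) (nat_lit 0) (nat_lit 0) (XT.lf (nat_lit 0) (nat_lit 307719139512) (nat_lit 76) (nat_lit 113952637680) (nat_lit 76) (nat_lit 109990946794) (nat_lit 1) (nat_lit 4) (nat_lit 2) (nat_lit 5) (nat_lit 2) (nat_lit 4) (nat_lit 385) (nat_lit 225) (nat_lit 170))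 (XT.lf (nat_lit 0) (nat_lit 326013205176) (nat_lit 76) (nat_lit 118065346395) (nat_lit 76) (nat_lit 114089820288) (nat_lit 1) (nat_lit 4) (nat_lit 2) (nat_lit 5) (nat_lit 2) (nat_lit 4) (nat_lit 386) (nat_lit 225) (nat_lit 169))) (XT.nd (nat_lit 78) (nat_lit 0) (nat_lit 0) (XT.lf (nat_lit 0) (nat_lit 345205675100) (nat_lit 76) (nat_lit 122391381914) (nat_lit 76) (nat_lit 118402679408) (nat_lit 1) (nat_lit 4) (nat_lit 2) (nat_lit 5) (nat_lit 2) (nat_lit 4) (nat_lit 387) (nat_lit 225) (nat_lit 168)) (XT.nd (nat_lit 78) (nat_lit 0) (nat_lit 0) (XT.lf (nat_lit 0) (nat_lit 365342245641) (nat_lit 76) (nat_lit 126941044324) (nat_lit 76) (nat_lit 122939792866) (nat_lit 1) (nat_lit 4) (nat_lit 2) (nat_lit 5) (nat_lit 2) (nat_lit 4) (nat_lit 388) (nat_lit 225) (nat_lit 167)) (XT.lf (nat_lit 0) (nat_lit 386470861016) (nat_lit 76) (nat_lit 131725166152) (nat_lit 76) (nat_lit 127711963312) (nat_lit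 1) (nat_lit 4) (nat_lit 2) (nat_lit 5) (nat_lit 2) (nat_lit 4) (nat_lit 389) (nat_lit 225) (nat_lit 166))))) (XT.nd (nat_lit 156) (nat_lit 0) (nat_lit 0) (XT.nd (nat_lit 78) (nat_lit 0) (nat_lit 0) (XT.lf (nat_lit 0) (nat_lit 408641827451) (nat_lit 76) (nat_lit 136755138167) (nat_lit 76) (nat_lit 132730553057) (nat_lit 1) (nat_lit 4) (nat_lit 2) (nat_lit 5) (nat_lit 2) (nat_lit 4) (nat_lit 390) (nat_lit 225) (nat_lit 165)) (XT.lf (nat_lit 0) (nat_lit 431907932961) (nat_lit 76) (nat_lit 142042936491) (nat_lit 76) (nat_lit 138007511124) (nat_lit 1) (nat_lit 4) (nat_lit 2) (nat_lit 5) (nat_lit 2) (nat_lit 4) (nat_lit 391) (nat_lit 225) (nat_lit 164))) (XT.nd (nat_lit 35646) (nat_lit 0) (nat_lit 304) (XT.lf (nat_lit 0) (nat_lit 456324573036) (nat_lit 76) (nat_lit 147601151120) (nat_lit 76) (nat_lit 143555401700) (nat_lit 1) (nat_lit 4) (nat_lit 2) (nat_lit 5) (nat_lit 2) (nat_lit 4) (nat_lit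 392) (nat_lit 225) (nat_lit 163)) (XT.nd (nat_lit 78) (nat_lit 0) (nat_lit 0) (XT.lf (nat_lit 0) (nat_lit 6340689821) (nat_lit 152) (nat_lit 5109395691) (nat_lit 0) (nat_lit 6340689821) (nat_lit 5) (nat_lit 5) (nat_lit 7) (nat_lit 4) (nat_lit 5) (nat_lit 4) (nat_lit 328) (nat_lit 226) (nat_lit 226)) (XT.lf (nat_lit 0) (nat_lit 16807499030) (nat_lit 152) (nat_lit 3780543567) (nat_lit 0) (nat_lit 16584256929) (nat_lit 5) (nat_lit 5) (nat_lit 7) (nat_lit 4) (nat_lit 5) (nat_lit 4) (nat_lit 329) (nat_lit 226) (nat_lit 225)))))) (XT.nd (nat_lit 390) (nat_lit 152) (nat_lit 0) (XT.nd (nat_lit 156) (nat_lit 0) (nat_lit 0) (XT.nd (nat_lit 78) (nat_lit 0) (nat_lit 0) (XT.lf (nat_lit 0) (nat_lit 2852070695) (nat_lit 76) (nat_lit 18215036396) (nat_lit 76) (nat_lit 17779182771) (nat_lit 4) (nat_lit 4) (nat_lit 5) (nat_lit 5) (nat_lit 5) (nat_lit 4) (nat_lit 330) (nat_lit 226) (nat_lit 224)) (XT.lf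 (nat_lit 0) (nat_lit 9732267105) (nat_lit 76) (nat_lit 15756334137) (nat_lit 76) (nat_lit 15117993345) (nat_lit 4) (nat_lit 4) (nat_lit 5) (nat_lit 5) (nat_lit 5) (nat_lit 4) (nat_lit 331) (nat_lit 226) (nat_lit 223))) (XT.nd (nat_lit 78) (nat_lit 0) (nat_lit 0) (XT.lf (nat_lit 0) (nat_lit 16751425240) (nat_lit 76) (nat_lit 13270107102) (nat_lit 76) (nat_lit 12438921389) (nat_lit 4) (nat_lit 4) (nat_lit 5) (nat_lit 5) (nat_lit 5) (nat_lit 4) (nat_lit 332) (nat_lit 226) (nat_lit 222)) (XT.nd (nat_lit 78) (nat_lit 0) (nat_lit 0) (XT.lf (nat_lit 0) (nat_lit 23926257381) (nat_lit 76) (nat_lit 10750435703) (nat_lit 76) (nat_lit 9735588161) (nat_lit 4) (nat_lit 4) (nat_lit 5) (nat_lit 5) (nat_lit 5) (nat_lit 4) (nat_lit 333) (nat_lit 226) (nat_lit 221)) (XT.lf (nat_lit 0) (nat_lit 31273846461) (nat_lit 76) (nat_lit 8191320723) (nat_lit 76) (nat_lit 7001557153) (nat_lit 4) (nat_lit 4) (nat_lit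 5) (nat_lit 5) (nat_lit 5) (nat_lit 4) (nat_lit 334) (nat_lit 226) (nat_lit 220))))) (XT.nd (nat_lit 234) (nat_lit 0) (nat_lit 0) (XT.nd (nat_lit 78) (nat_lit 152) (nat_lit 0) (XT.lf (nat_lit 0) (nat_lit 38811686740) (nat_lit 76) (nat_lit 5586669030) (nat_lit 76) (nat_lit 4230318767) (nat_lit 4) (nat_lit 4) (nat_lit 5) (nat_lit 5) (nat_lit 5) (nat_lit 4) (nat_lit 335) (nat_lit 226) (nat_lit 219)) (XT.nd (nat_lit 78) (nat_lit 152) (nat_lit 0) (XT.lf (nat_lit 0) (nat_lit 46557725456) (nat_lit 76) (nat_lit 2930279073) (nat_lit 76) (nat_lit 1415274817) (nat_lit 4) (nat_lit 4) (nat_lit 5) (nat_lit 5) (nat_lit 5) (nat_lit 4) (nat_lit 336) (nat_lit 226) (nat_lit 218)) (XT.lf (nat_lit 0) (nat_lit 1251876028) (nat_lit 76) (nat_lit 171528520) (nat_lit 152) (nat_lit 51870440532) (nat_lit 2) (nat_lit 5) (nat_lit 3) (nat_lit 5) (nat_lit 4) (nat_lit 4) (nat_lit 337) (nat_lit 226) (nat_lit 217))))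 (XT.nd (nat_lit 78) (nat_lit 0) (nat_lit 0) (XT.lf (nat_lit 0) (nat_lit 4386919591) (nat_lit 152) (nat_lit 48751273696) (nat_lit 0) (nat_lit 2663103261) (nat_lit 2) (nat_lit 5) (nat_lit 4) (nat_lit 4) (nat_lit 2) (nat_lit 4) (nat_lit 338) (nat_lit 226) (nat_lit 216)) (XT.nd (nat_lit 78) (nat_lit 0) (nat_lit 0) (XT.lf (nat_lit 0) (nat_lit 7418675971) (nat_lit 152) (nat_lit 45455145508) (nat_lit 0) (nat_lit 5564334609) (nat_lit 2) (nat_lit 5) (nat_lit 4) (nat_lit 4) (nat_lit 2) (nat_lit 4) (nat_lit 339) (nat_lit 226) (nat_lit 215)) (XT.lf (nat_lit 0) (nat_lit 10523214117) (nat_lit 152) (nat_lit 42143058525) (nat_lit 0) (nat_lit 8544563199) (nat_lit 2) (nat_lit 5) (nat_lit 4) (nat_lit 4) (nat_lit 2) (nat_lit 4) (nat_lit 340) (nat_lit 226) (nat_lit 214))))))))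
noncomputable def xc26 : XT := (XT.nd (nat_lit 1560) (nat_lit 0) (nat_lit 0) (XT.nd (nat_lit 780) (nat_lit 76) (nat_lit 0) (XT.nd (nat_lit 390) (nat_lit 0) (nat_lit 0) (XT.nd (nat_lit 156) (nat_lit 0) (nat_lit 0) (XT.nd (nat_lit 78) (nat_lit 0) (nat_lit 0) (XT.lf (nat_lit 0) (nat_lit 13707925785) (nat_lit 152) (nat_lit 38807126824) (nat_lit 0) (nat_lit 11610884815) (nat_lit 2) (nat_lit 5) (nat_lit 4) (nat_lit 4) (nat_lit 2) (nat_lit 4) (nat_lit 341) (nat_lit 226) (nat_lit 213)) (XT.lf (nat_lit 0) (nat_lit 16980393622) (nat_lit 152) (nat_lit 35439407712) (nat_lit 0) (nat_lit 14770600221) (nat_lit 2) (nat_lit 5) (nat_lit 4) (nat_lit 4) (nat_lit 2) (nat_lit 4) (nat_lit 342) (nat_lit 226) (nat_lit 212))) (XT.nd (nat_lit 78) (nat_lit 0) (nat_lit 0) (XT.lf (nat_lit 0) (nat_lit 20348409219) (nat_lit 152) (nat_lit 32031882810) (nat_lit 0) (nat_lit 18031232551) (nat_lit 2) (nat_lit 5) (nat_lit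 4) (nat_lit 4) (nat_lit 2) (nat_lit 4) (nat_lit 343) (nat_lit 226) (nat_lit 211)) (XT.nd (nat_lit 78) (nat_lit 0) (nat_lit 0) (XT.lf (nat_lit 0) (nat_lit 23819991661) (nat_lit 152) (nat_lit 28576438962) (nat_lit 0) (nat_lit 21400545213) (nat_lit 2) (nat_lit 5) (nat_lit 4) (nat_lit 4) (nat_lit 2) (nat_lit 4) (nat_lit 344) (nat_lit 226) (nat_lit 210)) (XT.lf (nat_lit 0) (nat_lit 27403406619) (nat_lit 152) (nat_lit 25064848922) (nat_lit 0) (nat_lit 24886560382) (nat_lit 2) (nat_lit 5) (nat_lit 4) (nat_lit 4) (nat_lit 2) (nat_lit 4) (nat_lit 345) (nat_lit 226) (nat_lit 209))))) (XT.nd (nat_lit 156) (nat_lit 0) (nat_lit 0) (XT.nd (nat_lit 78) (nat_lit 0) (nat_lit 0) (XT.lf (nat_lit 0) (nat_lit 31107186034) (nat_lit 152) (nat_lit 21488751761) (nat_lit 0) (nat_lit 28497578093) (nat_lit 2) (nat_lit 5) (nat_lit 4) (nat_lit 4) (nat_lit 2) (nat_lit 4) (nat_lit 346) (nat_lit 226) (nat_lit 208))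 (XT.lf (nat_lit 0) (nat_lit 34940148429) (nat_lit 152) (nat_lit 17839632962) (nat_lit 0) (nat_lit 32242196008) (nat_lit 2) (nat_lit 5) (nat_lit 4) (nat_lit 4) (nat_lit 2) (nat_lit 4) (nat_lit 347) (nat_lit 226) (nat_lit 207))) (XT.nd (nat_lit 78) (nat_lit 0) (nat_lit 0) (XT.lf (nat_lit 0) (nat_lit 38911419904) (nat_lit 152) (nat_lit 14108804147) (nat_lit 0) (nat_lit 36129329884) (nat_lit 2) (nat_lit 5) (nat_lit 4) (nat_lit 4) (nat_lit 2) (nat_lit 4) (nat_lit 348) (nat_lit 226) (nat_lit 206)) (XT.nd (nat_lit 78) (nat_lit 0) (nat_lit 0) (XT.lf (nat_lit 0) (nat_lit 43030455869) (nat_lit 152) (nat_lit 10287382391) (nat_lit 0) (nat_lit 40168234800) (nat_lit 2) (nat_lit 5) (nat_lit 4) (nat_lit 4) (nat_lit 2) (nat_lit 4) (nat_lit 349) (nat_lit 226) (nat_lit 205)) (XT.lf (nat_lit 0) (nat_lit 47307063550) (nat_lit 152) (nat_lit 6366269069) (nat_lit 0) (nat_lit 44368527198) (nat_lit 2) (nat_lit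 5) (nat_lit 4) (nat_lit 4) (nat_lit 2) (nat_lit 4) (nat_lit 350) (nat_lit 226) (nat_lit 204)))))) (XT.nd (nat_lit 390) (nat_lit 0) (nat_lit 0) (XT.nd (nat_lit 156) (nat_lit 0) (nat_lit 0) (XT.nd (nat_lit 78) (nat_lit 76) (nat_lit 0) (XT.lf (nat_lit 0) (nat_lit 51751425348) (nat_lit 152) (nat_lit 2336128198) (nat_lit 0) (nat_lit 48740207773) (nat_lit 2) (nat_lit 5) (nat_lit 4) (nat_lit 4) (nat_lit 2) (nat_lit 4) (nat_lit 351) (nat_lit 226) (nat_lit 203)) (XT.lf (nat_lit 0) (nat_lit 1872569721) (nat_lit 76) (nat_lit 54530789416) (nat_lit 76) (nat_lit 51450351630) (nat_lit 1) (nat_lit 4) (nat_lit 2) (nat_lit 5) (nat_lit 2) (nat_lit 4) (nat_lit 352) (nat_lit 226) (nat_lit 202))) (XT.nd (nat_lit 78) (nat_lit 0) (nat_lit 0) (XT.lf (nat_lit 0) (nat_lit 6291260548) (nat_lit 76) (nat_lit 54993126817) (nat_lit 76) (nat_lit 51846765020) (nat_lit 1) (nat_lit 4) (nat_lit 2) (nat_lit 5) (nat_lit 2)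 (nat_lit 4) (nat_lit 353) (nat_lit 226) (nat_lit 201)) (XT.nd (nat_lit 78) (nat_lit 0) (nat_lit 0) (XT.lf (nat_lit 0) (nat_lit 10853222028) (nat_lit 76) (nat_lit 55515230014) (nat_lit 76) (nat_lit 52306083444) (nat_lit 1) (nat_lit 4) (nat_lit 2) (nat_lit 5) (nat_lit 2) (nat_lit 4) (nat_lit 354) (nat_lit 226) (nat_lit 200)) (XT.lf (nat_lit 0) (nat_lit 15569315974) (nat_lit 76) (nat_lit 56098342110) (nat_lit 76) (nat_lit 52829400518) (nat_lit 1) (nat_lit 4) (nat_lit 2) (nat_lit 5) (nat_lit 2) (nat_lit 4) (nat_lit 355) (nat_lit 226) (nat_lit 199))))) (XT.nd (nat_lit 156) (nat_lit 0) (nat_lit 0) (XT.nd (nat_lit 78) (nat_lit 0) (nat_lit 0) (XT.lf (nat_lit 0) (nat_lit 20450771180) (nat_lit 76) (nat_lit 56743851466) (nat_lit 76) (nat_lit 53417962235) (nat_lit 1) (nat_lit 4) (nat_lit 2) (nat_lit 5) (nat_lit 2) (nat_lit 4) (nat_lit 356) (nat_lit 226) (nat_lit 198)) (XT.lf (nat_lit 0) (nat_lit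 25509210159) (nat_lit 76) (nat_lit 57453295010) (nat_lit 76) (nat_lit 54073169932) (nat_lit 1) (nat_lit 4) (nat_lit 2) (nat_lit 5) (nat_lit 2) (nat_lit 4) (nat_lit 357) (nat_lit 226) (nat_lit 197))) (XT.nd (nat_lit 78) (nat_lit 0) (nat_lit 0) (XT.lf (nat_lit 0) (nat_lit 30756676813) (nat_lit 76) (nat_lit 58228361893) (nat_lit 76) (nat_lit 54796583628) (nat_lit 1) (nat_lit 4) (nat_lit 2) (nat_lit 5) (nat_lit 2) (nat_lit 4) (nat_lit 358) (nat_lit 226) (nat_lit 196)) (XT.nd (nat_lit 78) (nat_lit 0) (nat_lit 0) (XT.lf (nat_lit 0) (nat_lit 36205665111) (nat_lit 76) (nat_lit 59070897513) (nat_lit 76) (nat_lit 55589925735) (nat_lit 1) (nat_lit 4) (nat_lit 2) (nat_lit 5) (nat_lit 2) (nat_lit 4) (nat_lit 359) (nat_lit 226) (nat_lit 195)) (XT.lf (nat_lit 0) (nat_lit 41869148833) (nat_lit 76) (nat_lit 59982907906) (nat_lit 76) (nat_lit 56455085164) (nat_lit 1) (nat_lit 4) (nat_lit 2) (nat_lit 5)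 (nat_lit 2) (nat_lit 4) (nat_lit 360) (nat_lit 226) (nat_lit 194))))))) (XT.nd (nat_lit 780) (nat_lit 0) (nat_lit 0) (XT.nd (nat_lit 390) (nat_lit 0) (nat_lit 0) (XT.nd (nat_lit 156) (nat_lit 0) (nat_lit 0) (XT.nd (nat_lit 78) (nat_lit 0) (nat_lit 0) (XT.lf (nat_lit 0) (nat_lit 47760612466) (nat_lit 76) (nat_lit 60966564527) (nat_lit 76) (nat_lit 57394121819) (nat_lit 1) (nat_lit 4) (nat_lit 2) (nat_lit 5) (nat_lit 2) (nat_lit 4) (nat_lit 361) (nat_lit 226) (nat_lit 193)) (XT.lf (nat_lit 0) (nat_lit 53894083304) (nat_lit 76) (nat_lit 62024209413) (nat_lit 76) (nat_lit 58409271500) (nat_lit 1) (nat_lit 4) (nat_lit 2) (nat_lit 5) (nat_lit 2) (nat_lit 4) (nat_lit 362) (nat_lit 226) (nat_lit 192))) (XT.nd (nat_lit 78) (nat_lit 0) (nat_lit 0) (XT.lf (nat_lit 0) (nat_lit 60284164848) (nat_lit 76) (nat_lit 63158360769) (nat_lit 76) (nat_lit 59502951231) (nat_lit 1) (nat_lit 4) (nat_lit 2) (nat_lit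 5) (nat_lit 2) (nat_lit 4) (nat_lit 363) (nat_lit 226) (nat_lit 191)) (XT.nd (nat_lit 78) (nat_lit 0) (nat_lit 0) (XT.lf (nat_lit 0) (nat_lit 66946071579) (nat_lit 76) (nat_lit 64371718953) (nat_lit 76) (nat_lit 60677765012) (nat_lit 1) (nat_lit 4) (nat_lit 2) (nat_lit 5) (nat_lit 2) (nat_lit 4) (nat_lit 364) (nat_lit 226) (nat_lit 190)) (XT.lf (nat_lit 0) (nat_lit 73895665179) (nat_lit 76) (nat_lit 65667172914) (nat_lit 76) (nat_lit 61936510017) (nat_lit 1) (nat_lit 4) (nat_lit 2) (nat_lit 5) (nat_lit 2) (nat_lit 4) (nat_lit 365) (nat_lit 226) (nat_lit 189))))) (XT.nd (nat_lit 156) (nat_lit 0) (nat_lit 0) (XT.nd (nat_lit 78) (nat_lit 0) (nat_lit 0) (XT.lf (nat_lit 0) (nat_lit 81149492299) (nat_lit 76) (nat_lit 67047807067) (nat_lit 76) (nat_lit 63282183259) (nat_lit 1) (nat_lit 4) (nat_lit 2) (nat_lit 5) (nat_lit 2) (nat_lit 4) (nat_lit 366) (nat_lit 226) (nat_lit 188)) (XT.lf (nat_lit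 0) (nat_lit 88724823957) (nat_lit 76) (nat_lit 68516908635) (nat_lit 76) (nat_lit 64717988721) (nat_lit 1) (nat_lit 4) (nat_lit 2) (nat_lit 5) (nat_lit 2) (nat_lit 4) (nat_lit 367) (nat_lit 226) (nat_lit 187))) (XT.nd (nat_lit 78) (nat_lit 0) (nat_lit 0) (XT.lf (nat_lit 0) (nat_lit 96639696656) (nat_lit 76) (nat_lit 70077975479) (nat_lit 76) (nat_lit 66247344989) (nat_lit 1) (nat_lit 4) (nat_lit 2) (nat_lit 5) (nat_lit 2) (nat_lit 4) (nat_lit 368) (nat_lit 226) (nat_lit 186)) (XT.nd (nat_lit 78) (nat_lit 0) (nat_lit 0) (XT.lf (nat_lit 0) (nat_lit 104912955332) (nat_lit 76) (nat_lit 71734724425) (nat_lit 76) (nat_lit 67873893386) (nat_lit 1) (nat_lit 4) (nat_lit 2) (nat_lit 5) (nat_lit 2) (nat_lit 4) (nat_lit 369) (nat_lit 226) (nat_lit 185)) (XT.lf (nat_lit 0) (nat_lit 113564298219) (nat_lit 76) (nat_lit 73491100114) (nat_lit 76) (nat_lit 69601506647) (nat_lit 1) (nat_lit 4) (nat_lit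 2) (nat_lit 5) (nat_lit 2) (nat_lit 4) (nat_lit 370) (nat_lit 226) (nat_lit 184)))))) (XT.nd (nat_lit 390) (nat_lit 0) (nat_lit 0) (XT.nd (nat_lit 156) (nat_lit 0) (nat_lit 0) (XT.nd (nat_lit 78) (nat_lit 0) (nat_lit 0) (XT.lf (nat_lit 0) (nat_lit 122614323753) (nat_lit 76) (nat_lit 75351284392) (nat_lit 76) (nat_lit 71434298137) (nat_lit 1) (nat_lit 4) (nat_lit 2) (nat_lit 5) (nat_lit 2) (nat_lit 4) (nat_lit 371) (nat_lit 226) (nat_lit 183)) (XT.lf (nat_lit 0) (nat_lit 132084579613) (nat_lit 76) (nat_lit 77319706270) (nat_lit 76) (nat_lit 73376631645) (nat_lit 1) (nat_lit 4) (nat_lit 2) (nat_lit 5) (nat_lit 2) (nat_lit 4) (nat_lit 372) (nat_lit 226) (nat_lit 182))) (XT.nd (nat_lit 78) (nat_lit 0) (nat_lit 0) (XT.lf (nat_lit 0) (nat_lit 141997614029) (nat_lit 76) (nat_lit 79401052466) (nat_lit 76) (nat_lit 75433131775) (nat_lit 1) (nat_lit 4) (nat_lit 2) (nat_lit 5) (nat_lit 2) (nat_lit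 4) (nat_lit 373) (nat_lit 226) (nat_lit 181)) (XT.nd (nat_lit 78) (nat_lit 0) (nat_lit 0) (XT.lf (nat_lit 0) (nat_lit 152377029462) (nat_lit 76) (nat_lit 81600278566) (nat_lit 76) (nat_lit 77608694954) (nat_lit 1) (nat_lit 4) (nat_lit 2) (nat_lit 5) (nat_lit 2) (nat_lit 4) (nat_lit 374) (nat_lit 226) (nat_lit 180)) (XT.lf (nat_lit 0) (nat_lit 163247538807) (nat_lit 76) (nat_lit 83922620824) (nat_lit 76) (nat_lit 79908501097) (nat_lit 1) (nat_lit 4) (nat_lit 2) (nat_lit 5) (nat_lit 2) (nat_lit 4) (nat_lit 375) (nat_lit 226) (nat_lit 179))))) (XT.nd (nat_lit 156) (nat_lit 0) (nat_lit 0) (XT.nd (nat_lit 78) (nat_lit 0) (nat_lit 0) (XT.lf (nat_lit 0) (nat_lit 174635024229) (nat_lit 76) (nat_lit 86373608625) (nat_lit 76) (nat_lit 82338025932) (nat_lit 1) (nat_lit 4) (nat_lit 2) (nat_lit 5) (nat_lit 2) (nat_lit 4) (nat_lit 376) (nat_lit 226) (nat_lit 178)) (XT.lf (nat_lit 0) (nat_lit 186566598788)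 (nat_lit 76) (nat_lit 88959077654) (nat_lit 76) (nat_lit 84903054041) (nat_lit 1) (nat_lit 4) (nat_lit 2) (nat_lit 5) (nat_lit 2) (nat_lit 4) (nat_lit 377) (nat_lit 226) (nat_lit 177))) (XT.nd (nat_lit 78) (nat_lit 0) (nat_lit 0) (XT.lf (nat_lit 0) (nat_lit 199070670996) (nat_lit 76) (nat_lit 91685183791) (nat_lit 76) (nat_lit 87609692634) (nat_lit 1) (nat_lit 4) (nat_lit 2) (nat_lit 5) (nat_lit 2) (nat_lit 4) (nat_lit 378) (nat_lit 226) (nat_lit 176)) (XT.nd (nat_lit 78) (nat_lit 0) (nat_lit 0) (XT.lf (nat_lit 0) (nat_lit 212177012452) (nat_lit 76) (nat_lit 94558417764) (nat_lit 76) (nat_lit 90464386090) (nat_lit 1) (nat_lit 4) (nat_lit 2) (nat_lit 5) (nat_lit 2) (nat_lit 4) (nat_lit 379) (nat_lit 226) (nat_lit 175)) (XT.lf (nat_lit 0) (nat_lit 225916828731) (nat_lit 76) (nat_lit 97585620607) (nat_lit 76) (nat_lit 93473931297) (nat_lit 1) (nat_lit 4) (nat_lit 2) (nat_lit 5) (nat_lit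 2) (nat_lit 4) (nat_lit 380) (nat_lit 226) (nat_lit 174))))))))
noncomputable def xc27 : XT := (XT.nd (nat_lit 36972) (nat_lit 0) (nat_lit 0) (XT.nd (nat_lit 780) (nat_lit 0) (nat_lit 0) (XT.nd (nat_lit 390) (nat_lit 0) (nat_lit 0) (XT.nd (nat_lit 156) (nat_lit 0) (nat_lit 0) (XT.nd (nat_lit 78) (nat_lit 0) (nat_lit 0) (XT.lf (nat_lit 0) (nat_lit 240322833683) (nat_lit 76) (nat_lit 100773999944) (nat_lit 76) (nat_lit 96645493839) (nat_lit 1) (nat_lit 4) (nat_lit 2) (nat_lit 5) (nat_lit 2) (nat_lit 4) (nat_lit 381) (nat_lit 226) (nat_lit 173)) (XT.lf (nat_lit 0) (nat_lit 255429327318) (nat_lit 76) (nat_lit 104131147157) (nat_lit 76) (nat_lit 99986625055) (nat_lit 1) (nat_lit 4) (nat_lit 2) (nat_lit 5) (nat_lit 2) (nat_lit 4) (nat_lit 382) (nat_lit 226) (nat_lit 172))) (XT.nd (nat_lit 78) (nat_lit 0) (nat_lit 0) (XT.lf (nat_lit 0) (nat_lit 271272277479) (nat_lit 76) (nat_lit 107665055451)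 (nat_lit 76) (nat_lit 103505280021) (nat_lit 1) (nat_lit 4) (nat_lit 2) (nat_lit 5) (nat_lit 2) (nat_lit 4) (nat_lit 383) (nat_lit 226) (nat_lit 171)) (XT.nd (nat_lit 78) (nat_lit 0) (nat_lit 0) (XT.lf (nat_lit 0) (nat_lit 287889405475) (nat_lit 76) (nat_lit 111384138896) (nat_lit 76) (nat_lit 107209836484) (nat_lit 1) (nat_lit 4) (nat_lit 2) (nat_lit 5) (nat_lit 2) (nat_lit 4) (nat_lit 384) (nat_lit 226) (nat_lit 170)) (XT.lf (nat_lit 0) (nat_lit 305320275898) (nat_lit 76) (nat_lit 115297252450) (nat_lit 76) (nat_lit 111109114819) (nat_lit 1) (nat_lit 4) (nat_lit 2) (nat_lit 5) (nat_lit 2) (nat_lit 4) (nat_lit 385) (nat_lit 226) (nat_lit 169))))) (XT.nd (nat_lit 156) (nat_lit 0) (nat_lit 0) (XT.nd (nat_lit 78) (nat_lit 0) (nat_lit 0) (XT.lf (nat_lit 0) (nat_lit 323606390819) (nat_lit 76) (nat_lit 119413713052) (nat_lit 76) (nat_lit 115212399022) (nat_lit 1) (nat_lit 4) (nat_lit 2) (nat_lit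 5) (nat_lit 2) (nat_lit 4) (nat_lit 386) (nat_lit 226) (nat_lit 168)) (XT.lf (nat_lit 0) (nat_lit 342791288607) (nat_lit 76) (nat_lit 123743321798) (nat_lit 76) (nat_lit 119529458816) (nat_lit 1) (nat_lit 4) (nat_lit 2) (nat_lit 5) (nat_lit 2) (nat_lit 4) (nat_lit 387) (nat_lit 226) (nat_lit 167))) (XT.nd (nat_lit 78) (nat_lit 0) (nat_lit 0) (XT.lf (nat_lit 0) (nat_lit 362920647591) (nat_lit 76) (nat_lit 128296387280) (nat_lit 76) (nat_lit 124070572915) (nat_lit 1) (nat_lit 4) (nat_lit 2) (nat_lit 5) (nat_lit 2) (nat_lit 4) (nat_lit 388) (nat_lit 226) (nat_lit 166)) (XT.nd (nat_lit 78) (nat_lit 0) (nat_lit 0) (XT.lf (nat_lit 0) (nat_lit 384042394815) (nat_lit 76) (nat_lit 133083750130) (nat_lit 76) (nat_lit 128846553496) (nat_lit 1) (nat_lit 4) (nat_lit 2) (nat_lit 5) (nat_lit 2) (nat_lit 4) (nat_lit 389) (nat_lit 226) (nat_lit 165)) (XT.lf (nat_lit 0) (nat_lit 406206820154) (nat_lit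 76) (nat_lit 138116808832) (nat_lit 76) (nat_lit 133868771941) (nat_lit 1) (nat_lit 4) (nat_lit 2) (nat_lit 5) (nat_lit 2) (nat_lit 4) (nat_lit 390) (nat_lit 226) (nat_lit 164)))))) (XT.nd (nat_lit 35802) (nat_lit 0) (nat_lit 228) (XT.nd (nat_lit 35568) (nat_lit 0) (nat_lit 304) (XT.nd (nat_lit 78) (nat_lit 0) (nat_lit 0) (XT.lf (nat_lit 0) (nat_lit 429466696049) (nat_lit 76) (nat_lit 143407546858) (nat_lit 76) (nat_lit 139149185913) (nat_lit 1) (nat_lit 4) (nat_lit 2) (nat_lit 5) (nat_lit 2) (nat_lit 4) (nat_lit 391) (nat_lit 226) (nat_lit 163)) (XT.lf (nat_lit 0) (nat_lit 453877403157) (nat_lit 76) (nat_lit 148968561204) (nat_lit 76) (nat_lit 144700367826) (nat_lit 1) (nat_lit 4) (nat_lit 2) (nat_lit 5) (nat_lit 2) (nat_lit 4) (nat_lit 392) (nat_lit 226) (nat_lit 162))) (XT.nd (nat_lit 78) (nat_lit 0) (nat_lit 0) (XT.lf (nat_lit 0) (nat_lit 2477212998) (nat_lit 152) (nat_lit 11364729876)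 (nat_lit 0) (nat_lit 2477212998) (nat_lit 5) (nat_lit 5) (nat_lit 7) (nat_lit 4) (nat_lit 5) (nat_lit 4) (nat_lit 326) (nat_lit 227) (nat_lit 227)) (XT.nd (nat_lit 78) (nat_lit 0) (nat_lit 0) (XT.lf (nat_lit 0) (nat_lit 8868800223) (nat_lit 152) (nat_lit 16569285987) (nat_lit 0) (nat_lit 8634396017) (nat_lit 5) (nat_lit 5) (nat_lit 7) (nat_lit 4) (nat_lit 5) (nat_lit 4) (nat_lit 327) (nat_lit 227) (nat_lit 226)) (XT.lf (nat_lit 0) (nat_lit 12855679742) (nat_lit 152) (nat_lit 10330875051) (nat_lit 0) (nat_lit 12398033435) (nat_lit 5) (nat_lit 5) (nat_lit 7) (nat_lit 4) (nat_lit 5) (nat_lit 4) (nat_lit 328) (nat_lit 227) (nat_lit 225))))) (XT.nd (nat_lit 156) (nat_lit 0) (nat_lit 0) (XT.nd (nat_lit 78) (nat_lit 76) (nat_lit 0) (XT.lf (nat_lit 0) (nat_lit 16924557124) (nat_lit 152) (nat_lit 3999373585) (nat_lit 0) (nat_lit 16254299292) (nat_lit 5) (nat_lit 5) (nat_lit 7) (nat_lit 4) (nat_lit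 5) (nat_lit 4) (nat_lit 329) (nat_lit 227) (nat_lit 224)) (XT.lf (nat_lit 0) (nat_lit 2520980534) (nat_lit 76) (nat_lit 18603499209) (nat_lit 76) (nat_lit 17730754210) (nat_lit 4) (nat_lit 4) (nat_lit 5) (nat_lit 5) (nat_lit 5) (nat_lit 4) (nat_lit 330) (nat_lit 227) (nat_lit 223))) (XT.nd (nat_lit 78) (nat_lit 0) (nat_lit 0) (XT.lf (nat_lit 0) (nat_lit 9301153483) (nat_lit 76) (nat_lit 16191338577) (nat_lit 76) (nat_lit 15125748658) (nat_lit 4) (nat_lit 4) (nat_lit 5) (nat_lit 5) (nat_lit 5) (nat_lit 4) (nat_lit 331) (nat_lit 227) (nat_lit 222)) (XT.nd (nat_lit 78) (nat_lit 0) (nat_lit 0) (XT.lf (nat_lit 0) (nat_lit 16225051178) (nat_lit 76) (nat_lit 13749436902) (nat_lit 76) (nat_lit 12500185154) (nat_lit 4) (nat_lit 4) (nat_lit 5) (nat_lit 5) (nat_lit 5) (nat_lit 4) (nat_lit 332) (nat_lit 227) (nat_lit 221)) (XT.lf (nat_lit 0) (nat_lit 23309159091) (nat_lit 76) (nat_lit 11271980132)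 (nat_lit 76) (nat_lit 9847812356) (nat_lit 4) (nat_lit 4) (nat_lit 5) (nat_lit 5) (nat_lit 5) (nat_lit 4) (nat_lit 333) (nat_lit 227) (nat_lit 220))))))) (XT.nd (nat_lit 780) (nat_lit 76) (nat_lit 0) (XT.nd (nat_lit 390) (nat_lit 0) (nat_lit 0) (XT.nd (nat_lit 156) (nat_lit 152) (nat_lit 0) (XT.nd (nat_lit 78) (nat_lit 0) (nat_lit 0) (XT.lf (nat_lit 0) (nat_lit 30570344144) (nat_lit 76) (nat_lit 8753069559) (nat_lit 76) (nat_lit 7162315091) (nat_lit 4) (nat_lit 4) (nat_lit 5) (nat_lit 5) (nat_lit 5) (nat_lit 4) (nat_lit 334) (nat_lit 227) (nat_lit 219)) (XT.lf (nat_lit 0) (nat_lit 38025894873) (nat_lit 76) (nat_lit 6186707779) (nat_lit 76) (nat_lit 4437299317) (nat_lit 4) (nat_lit 4) (nat_lit 5) (nat_lit 5) (nat_lit 5) (nat_lit 4) (nat_lit 335) (nat_lit 227) (nat_lit 218))) (XT.nd (nat_lit 78) (nat_lit 152) (nat_lit 0) (XT.lf (nat_lit 0) (nat_lit 45693562590) (nat_lit 76) (nat_lit 3566784405)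 (nat_lit 76) (nat_lit 1666276902) (nat_lit 4) (nat_lit 4) (nat_lit 5) (nat_lit 5) (nat_lit 5) (nat_lit 4) (nat_lit 336) (nat_lit 227) (nat_lit 217)) (XT.nd (nat_lit 78) (nat_lit 0) (nat_lit 0) (XT.lf (nat_lit 0) (nat_lit 260558319) (nat_lit 76) (nat_lit 863817129) (nat_lit 152) (nat_lit 52195833020) (nat_lit 2) (nat_lit 5) (nat_lit 3) (nat_lit 5) (nat_lit 4) (nat_lit 4) (nat_lit 337) (nat_lit 227) (nat_lit 216)) (XT.lf (nat_lit 0) (nat_lit 4036717849) (nat_lit 152) (nat_lit 49834385249) (nat_lit 0) (nat_lit 1959134386) (nat_lit 2) (nat_lit 5) (nat_lit 4) (nat_lit 4) (nat_lit 2) (nat_lit 4) (nat_lit 338) (nat_lit 227) (nat_lit 215))))) (XT.nd (nat_lit 156) (nat_lit 0) (nat_lit 0) (XT.nd (nat_lit 78) (nat_lit 0) (nat_lit 0) (XT.lf (nat_lit 0) (nat_lit 7030032252) (nat_lit 152) (nat_lit 46610865654) (nat_lit 0) (nat_lit 4828139234) (nat_lit 2) (nat_lit 5) (nat_lit 4) (nat_lit 4) (nat_lit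 2) (nat_lit 4) (nat_lit 339) (nat_lit 227) (nat_lit 214)) (XT.lf (nat_lit 0) (nat_lit 10097958991) (nat_lit 152) (nat_lit 43367929711) (nat_lit 0) (nat_lit 7777675919) (nat_lit 2) (nat_lit 5) (nat_lit 4) (nat_lit 4) (nat_lit 2) (nat_lit 4) (nat_lit 340) (nat_lit 227) (nat_lit 213))) (XT.nd (nat_lit 78) (nat_lit 0) (nat_lit 0) (XT.lf (nat_lit 0) (nat_lit 13247802652) (nat_lit 152) (nat_lit 40097856143) (nat_lit 0) (nat_lit 10814767150) (nat_lit 2) (nat_lit 5) (nat_lit 4) (nat_lit 4) (nat_lit 2) (nat_lit 4) (nat_lit 341) (nat_lit 227) (nat_lit 212)) (XT.nd (nat_lit 78) (nat_lit 0) (nat_lit 0) (XT.lf (nat_lit 0) (nat_lit 16487062864) (nat_lit 152) (nat_lit 36792859063) (nat_lit 0) (nat_lit 13946644094) (nat_lit 2) (nat_lit 5) (nat_lit 4) (nat_lit 4) (nat_lit 2) (nat_lit 4) (nat_lit 342) (nat_lit 227) (nat_lit 211)) (XT.lf (nat_lit 0) (nat_lit 19823452151) (nat_lit 152) (nat_lit 33445069429)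 (nat_lit 0) (nat_lit 17180763603) (nat_lit 2) (nat_lit 5) (nat_lit 4) (nat_lit 4) (nat_lit 2) (nat_lit 4) (nat_lit 343) (nat_lit 227) (nat_lit 210)))))) (XT.nd (nat_lit 390) (nat_lit 76) (nat_lit 0) (XT.nd (nat_lit 156) (nat_lit 0) (nat_lit 0) (XT.nd (nat_lit 78) (nat_lit 0) (nat_lit 0) (XT.lf (nat_lit 0) (nat_lit 23264914297) (nat_lit 152) (nat_lit 30046516313) (nat_lit 0) (nat_lit 20524825959) (nat_lit 2) (nat_lit 5) (nat_lit 4) (nat_lit 4) (nat_lit 2) (nat_lit 4) (nat_lit 344) (nat_lit 227) (nat_lit 209)) (XT.lf (nat_lit 0) (nat_lit 26819643260) (nat_lit 152) (nat_lit 26589107922) (nat_lit 0) (nat_lit 23986793218) (nat_lit 2) (nat_lit 5) (nat_lit 4) (nat_lit 4) (nat_lit 2) (nat_lit 4) (nat_lit 345) (nat_lit 227) (nat_lit 208))) (XT.nd (nat_lit 78) (nat_lit 0) (nat_lit 0) (XT.lf (nat_lit 0) (nat_lit 30496102679) (nat_lit 152) (nat_lit 23064612332) (nat_lit 0) (nat_lit 27574908158)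 (nat_lit 2) (nat_lit 5) (nat_lit 4) (nat_lit 4) (nat_lit 2) (nat_lit 4) (nat_lit 346) (nat_lit 227) (nat_lit 207)) (XT.nd (nat_lit 78) (nat_lit 0) (nat_lit 0) (XT.lf (nat_lit 0) (nat_lit 34303046031) (nat_lit 152) (nat_lit 19464637886) (nat_lit 0) (nat_lit 31297713909) (nat_lit 2) (nat_lit 5) (nat_lit 4) (nat_lit 4) (nat_lit 2) (nat_lit 4) (nat_lit 347) (nat_lit 227) (nat_lit 206)) (XT.lf (nat_lit 0) (nat_lit 38249537465) (nat_lit 152) (nat_lit 15780613217) (nat_lit 0) (nat_lit 35164074295) (nat_lit 2) (nat_lit 5) (nat_lit 4) (nat_lit 4) (nat_lit 2) (nat_lit 4) (nat_lit 348) (nat_lit 227) (nat_lit 205))))) (XT.nd (nat_lit 234) (nat_lit 76) (nat_lit 0) (XT.nd (nat_lit 78) (nat_lit 0) (nat_lit 0) (XT.lf (nat_lit 0) (nat_lit 42344973389) (nat_lit 152) (nat_lit 12003766837) (nat_lit 0) (nat_lit 39183194936) (nat_lit 2) (nat_lit 5) (nat_lit 4) (nat_lit 4) (nat_lit 2) (nat_lit 4) (nat_lit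 349) (nat_lit 227) (nat_lit 204)) (XT.nd (nat_lit 78) (nat_lit 0) (nat_lit 0) (XT.lf (nat_lit 0) (nat_lit 46599104843) (nat_lit 152) (nat_lit 8125106255) (nat_lit 0) (nat_lit 43364645167) (nat_lit 2) (nat_lit 5) (nat_lit 4) (nat_lit 4) (nat_lit 2) (nat_lit 4) (nat_lit 350) (nat_lit 227) (nat_lit 203)) (XT.lf (nat_lit 0) (nat_lit 51022060709) (nat_lit 152) (nat_lit 4135396565) (nat_lit 0) (nat_lit 47718380822) (nat_lit 2) (nat_lit 5) (nat_lit 4) (nat_lit 4) (nat_lit 2) (nat_lit 4) (nat_lit 351) (nat_lit 227) (nat_lit 202)))) (XT.nd (nat_lit 78) (nat_lit 76) (nat_lit 0) (XT.lf (nat_lit 0) (nat_lit 55624371836) (nat_lit 152) (nat_lit 25138458) (nat_lit 0) (nat_lit 52254767937) (nat_lit 2) (nat_lit 5) (nat_lit 4) (nat_lit 4) (nat_lit 2) (nat_lit 4) (nat_lit 352) (nat_lit 227) (nat_lit 201)) (XT.nd (nat_lit 78) (nat_lit 0) (nat_lit 0) (XT.lf (nat_lit 0) (nat_lit 4354836354) (nat_lit 76) (nat_lit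 56130150952) (nat_lit 76) (nat_lit 52697762281) (nat_lit 1) (nat_lit 4) (nat_lit 2) (nat_lit 5) (nat_lit 2) (nat_lit 4) (nat_lit 353) (nat_lit 227) (nat_lit 200)) (XT.lf (nat_lit 0) (nat_lit 8880717049) (nat_lit 76) (nat_lit 56669280363) (nat_lit 76) (nat_lit 53177096671) (nat_lit 1) (nat_lit 4) (nat_lit 2) (nat_lit 5) (nat_lit 2) (nat_lit 4) (nat_lit 354) (nat_lit 227) (nat_lit 199))))))))
noncomputable def xc28 : XT := (XT.nd (nat_lit 1560) (nat_lit 0) (nat_lit 0) (XT.nd (nat_lit 780) (nat_lit 0) (nat_lit 0) (XT.nd (nat_lit 390) (nat_lit 0) (nat_lit 0) (XT.nd (nat_lit 156) (nat_lit 0) (nat_lit 0) (XT.nd (nat_lit 78) (nat_lit 0) (nat_lit 0) (XT.lf (nat_lit 0) (nat_lit 13562448342) (nat_lit 76) (nat_lit 57268607901) (nat_lit 76) (nat_lit 53719476569) (nat_lit 1) (nat_lit 4) (nat_lit 2) (nat_lit 5) (nat_lit 2) (nat_lit 4) (nat_lit 355) (nat_lit 227) (nat_lit 198)) (XT.lf (nat_lit 0) (nat_lit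 18411177213) (nat_lit 76) (nat_lit 57929560535) (nat_lit 76) (nat_lit 54326193356) (nat_lit 1) (nat_lit 4) (nat_lit 2) (nat_lit 5) (nat_lit 2) (nat_lit 4) (nat_lit 356) (nat_lit 227) (nat_lit 197))) (XT.nd (nat_lit 78) (nat_lit 0) (nat_lit 0) (XT.lf (nat_lit 0) (nat_lit 23438448254) (nat_lit 76) (nat_lit 58653711963) (nat_lit 76) (nat_lit 54998691596) (nat_lit 1) (nat_lit 4) (nat_lit 2) (nat_lit 5) (nat_lit 2) (nat_lit 4) (nat_lit 357) (nat_lit 227) (nat_lit 196)) (XT.nd (nat_lit 78) (nat_lit 0) (nat_lit 0) (XT.lf (nat_lit 0) (nat_lit 28656231157) (nat_lit 76) (nat_lit 59442786355) (nat_lit 76) (nat_lit 55738572476) (nat_lit 1) (nat_lit 4) (nat_lit 2) (nat_lit 5) (nat_lit 2) (nat_lit 4) (nat_lit 358) (nat_lit 227) (nat_lit 195)) (XT.lf (nat_lit 0) (nat_lit 34076949216) (nat_lit 76) (nat_lit 60298662459) (nat_lit 76) (nat_lit 56547597616) (nat_lit 1) (nat_lit 4) (nat_lit 2) (nat_lit 5)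 (nat_lit 2) (nat_lit 4) (nat_lit 359) (nat_lit 227) (nat_lit 194))))) (XT.nd (nat_lit 156) (nat_lit 0) (nat_lit 0) (XT.nd (nat_lit 78) (nat_lit 0) (nat_lit 0) (XT.lf (nat_lit 0) (nat_lit 39713508902) (nat_lit 76) (nat_lit 61223378075) (nat_lit 76) (nat_lit 57427693266) (nat_lit 1) (nat_lit 4) (nat_lit 2) (nat_lit 5) (nat_lit 2) (nat_lit 4) (nat_lit 360) (nat_lit 227) (nat_lit 193)) (XT.lf (nat_lit 0) (nat_lit 45579330595) (nat_lit 76) (nat_lit 62219134907) (nat_lit 76) (nat_lit 58380954893) (nat_lit 1) (nat_lit 4) (nat_lit 2) (nat_lit 5) (nat_lit 2) (nat_lit 4) (nat_lit 361) (nat_lit 227) (nat_lit 192))) (XT.nd (nat_lit 78) (nat_lit 0) (nat_lit 0) (XT.lf (nat_lit 0) (nat_lit 51688380537) (nat_lit 76) (nat_lit 63288303806) (nat_lit 76) (nat_lit 59409652168) (nat_lit 1) (nat_lit 4) (nat_lit 2) (nat_lit 5) (nat_lit 2) (nat_lit 4) (nat_lit 362) (nat_lit 227) (nat_lit 191)) (XT.nd (nat_lit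 78) (nat_lit 0) (nat_lit 0) (XT.lf (nat_lit 0) (nat_lit 58055204086) (nat_lit 76) (nat_lit 64433430411) (nat_lit 76) (nat_lit 60516234368) (nat_lit 1) (nat_lit 4) (nat_lit 2) (nat_lit 5) (nat_lit 2) (nat_lit 4) (nat_lit 363) (nat_lit 227) (nat_lit 190)) (XT.lf (nat_lit 0) (nat_lit 64694960344) (nat_lit 76) (nat_lit 65657241213) (nat_lit 76) (nat_lit 61703336215) (nat_lit 1) (nat_lit 4) (nat_lit 2) (nat_lit 5) (nat_lit 2) (nat_lit 4) (nat_lit 364) (nat_lit 227) (nat_lit 189)))))) (XT.nd (nat_lit 390) (nat_lit 0) (nat_lit 0) (XT.nd (nat_lit 156) (nat_lit 0) (nat_lit 0) (XT.nd (nat_lit 78) (nat_lit 0) (nat_lit 0) (XT.lf (nat_lit 0) (nat_lit 71623458257) (nat_lit 76) (nat_lit 66962650050) (nat_lit 76) (nat_lit 62973784140) (nat_lit 1) (nat_lit 4) (nat_lit 2) (nat_lit 5) (nat_lit 2) (nat_lit 4) (nat_lit 365) (nat_lit 227) (nat_lit 188)) (XT.lf (nat_lit 0) (nat_lit 78857194246) (nat_lit 76)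 (nat_lit 68352765035) (nat_lit 76) (nat_lit 64330603021) (nat_lit 1) (nat_lit 4) (nat_lit 2) (nat_lit 5) (nat_lit 2) (nat_lit 4) (nat_lit 366) (nat_lit 227) (nat_lit 187))) (XT.nd (nat_lit 78) (nat_lit 0) (nat_lit 0) (XT.lf (nat_lit 0) (nat_lit 86413391493) (nat_lit 76) (nat_lit 69830895968) (nat_lit 76) (nat_lit 65777023377) (nat_lit 1) (nat_lit 4) (nat_lit 2) (nat_lit 5) (nat_lit 2) (nat_lit 4) (nat_lit 367) (nat_lit 227) (nat_lit 186)) (XT.nd (nat_lit 78) (nat_lit 0) (nat_lit 0) (XT.lf (nat_lit 0) (nat_lit 94310040944) (nat_lit 76) (nat_lit 71400562207) (nat_lit 76) (nat_lit 67316489067) (nat_lit 1) (nat_lit 4) (nat_lit 2) (nat_lit 5) (nat_lit 2) (nat_lit 4) (nat_lit 368) (nat_lit 227) (nat_lit 185)) (XT.lf (nat_lit 0) (nat_lit 102565944146) (nat_lit 76) (nat_lit 73065501054) (nat_lit 76) (nat_lit 68952665486) (nat_lit 1) (nat_lit 4) (nat_lit 2) (nat_lit 5) (nat_lit 2) (nat_lit 4)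 (nat_lit 369) (nat_lit 227) (nat_lit 184))))) (XT.nd (nat_lit 156) (nat_lit 0) (nat_lit 0) (XT.nd (nat_lit 78) (nat_lit 0) (nat_lit 0) (XT.lf (nat_lit 0) (nat_lit 111200758010) (nat_lit 76) (nat_lit 74829676647) (nat_lit 76) (nat_lit 70689448291) (nat_lit 1) (nat_lit 4) (nat_lit 2) (nat_lit 5) (nat_lit 2) (nat_lit 4) (nat_lit 370) (nat_lit 227) (nat_lit 183)) (XT.lf (nat_lit 0) (nat_lit 120235041617) (nat_lit 76) (nat_lit 76697289406) (nat_lit 76) (nat_lit 72530972680) (nat_lit 1) (nat_lit 4) (nat_lit 2) (nat_lit 5) (nat_lit 2) (nat_lit 4) (nat_lit 371) (nat_lit 227) (nat_lit 182))) (XT.nd (nat_lit 78) (nat_lit 0) (nat_lit 0) (XT.lf (nat_lit 0) (nat_lit 129690305166) (nat_lit 76) (nat_lit 78672786028) (nat_lit 76) (nat_lit 74481623235) (nat_lit 1) (nat_lit 4) (nat_lit 2) (nat_lit 5) (nat_lit 2) (nat_lit 4) (nat_lit 372) (nat_lit 227) (nat_lit 181)) (XT.nd (nat_lit 78) (nat_lit 0) (nat_lit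 0) (XT.lf (nat_lit 0) (nat_lit 139589061190) (nat_lit 76) (nat_lit 80760870075) (nat_lit 76) (nat_lit 76546044362) (nat_lit 1) (nat_lit 4) (nat_lit 2) (nat_lit 5) (nat_lit 2) (nat_lit 4) (nat_lit 373) (nat_lit 227) (nat_lit 180)) (XT.lf (nat_lit 0) (nat_lit 149954878155) (nat_lit 76) (nat_lit 82966513176) (nat_lit 76) (nat_lit 78729151348) (nat_lit 1) (nat_lit 4) (nat_lit 2) (nat_lit 5) (nat_lit 2) (nat_lit 4) (nat_lit 374) (nat_lit 227) (nat_lit 179))))))) (XT.nd (nat_lit 780) (nat_lit 0) (nat_lit 0) (XT.nd (nat_lit 390) (nat_lit 0) (nat_lit 0) (XT.nd (nat_lit 156) (nat_lit 0) (nat_lit 0) (XT.nd (nat_lit 78) (nat_lit 0) (nat_lit 0) (XT.lf (nat_lit 0) (nat_lit 160812436578) (nat_lit 76) (nat_lit 85294966863) (nat_lit 76) (nat_lit 81036142069) (nat_lit 1) (nat_lit 4) (nat_lit 2) (nat_lit 5) (nat_lit 2) (nat_lit 4) (nat_lit 375) (nat_lit 227) (nat_lit 178)) (XT.lf (nat_lit 0) (nat_lit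 172187587788) (nat_lit 76) (nat_lit 87751775073) (nat_lit 76) (nat_lit 83472509359) (nat_lit 1) (nat_lit 4) (nat_lit 2) (nat_lit 5) (nat_lit 2) (nat_lit 4) (nat_lit 376) (nat_lit 227) (nat_lit 177))) (XT.nd (nat_lit 78) (nat_lit 0) (nat_lit 0) (XT.lf (nat_lit 0) (nat_lit 184107415479) (nat_lit 76) (nat_lit 90342787349) (nat_lit 76) (nat_lit 86044054092) (nat_lit 1) (nat_lit 4) (nat_lit 2) (nat_lit 5) (nat_lit 2) (nat_lit 4) (nat_lit 377) (nat_lit 227) (nat_lit 176)) (XT.nd (nat_lit 78) (nat_lit 0) (nat_lit 0) (XT.lf (nat_lit 0) (nat_lit 196600300193) (nat_lit 76) (nat_lit 93074172769) (nat_lit 76) (nat_lit 88756898994) (nat_lit 1) (nat_lit 4) (nat_lit 2) (nat_lit 5) (nat_lit 2) (nat_lit 4) (nat_lit 378) (nat_lit 227) (nat_lit 175)) (XT.lf (nat_lit 0) (nat_lit 209695986894) (nat_lit 76) (nat_lit 95952434630) (nat_lit 76) (nat_lit 91617503219) (nat_lit 1) (nat_lit 4) (nat_lit 2) (nat_lit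 5) (nat_lit 2) (nat_lit 4) (nat_lit 379) (nat_lit 227) (nat_lit 174))))) (XT.nd (nat_lit 156) (nat_lit 0) (nat_lit 0) (XT.nd (nat_lit 78) (nat_lit 0) (nat_lit 0) (XT.lf (nat_lit 0) (nat_lit 223425655787) (nat_lit 76) (nat_lit 98984425937) (nat_lit 76) (nat_lit 94632677731) (nat_lit 1) (nat_lit 4) (nat_lit 2) (nat_lit 5) (nat_lit 2) (nat_lit 4) (nat_lit 380) (nat_lit 227) (nat_lit 173)) (XT.lf (nat_lit 0) (nat_lit 237821996561) (nat_lit 76) (nat_lit 102177365718) (nat_lit 76) (nat_lit 97809601515) (nat_lit 1) (nat_lit 4) (nat_lit 2) (nat_lit 5) (nat_lit 2) (nat_lit 4) (nat_lit 381) (nat_lit 227) (nat_lit 172))) (XT.nd (nat_lit 78) (nat_lit 0) (nat_lit 0) (XT.lf (nat_lit 0) (nat_lit 252919286217) (nat_lit 76) (nat_lit 105538856209) (nat_lit 76) (nat_lit 101155838677) (nat_lit 1) (nat_lit 4) (nat_lit 2) (nat_lit 5) (nat_lit 2) (nat_lit 4) (nat_lit 382) (nat_lit 227) (nat_lit 171)) (XT.nd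 (nat_lit 78) (nat_lit 0) (nat_lit 0) (XT.lf (nat_lit 0) (nat_lit 268753470684) (nat_lit 76) (nat_lit 109076900960) (nat_lit 76) (nat_lit 104679356447) (nat_lit 1) (nat_lit 4) (nat_lit 2) (nat_lit 5) (nat_lit 2) (nat_lit 4) (nat_lit 383) (nat_lit 227) (nat_lit 170)) (XT.lf (nat_lit 0) (nat_lit 285362250401) (nat_lit 76) (nat_lit 112799923886) (nat_lit 76) (nat_lit 108388544154) (nat_lit 1) (nat_lit 4) (nat_lit 2) (nat_lit 5) (nat_lit 2) (nat_lit 4) (nat_lit 384) (nat_lit 227) (nat_lit 169)))))) (XT.nd (nat_lit 390) (nat_lit 0) (nat_lit 0) (XT.nd (nat_lit 156) (nat_lit 0) (nat_lit 0) (XT.nd (nat_lit 78) (nat_lit 0) (nat_lit 0) (XT.lf (nat_lit 0) (nat_lit 302785170081) (nat_lit 76) (nat_lit 116716789328) (nat_lit 76) (nat_lit 112292233197) (nat_lit 1) (nat_lit 4) (nat_lit 2) (nat_lit 5) (nat_lit 2) (nat_lit 4) (nat_lit 385) (nat_lit 227) (nat_lit 168)) (XT.lf (nat_lit 0) (nat_lit 321063712865)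 (nat_lit 76) (nat_lit 120836823157) (nat_lit 76) (nat_lit 116399718073) (nat_lit 1) (nat_lit 4) (nat_lit 2) (nat_lit 5) (nat_lit 2) (nat_lit 4) (nat_lit 386) (nat_lit 227) (nat_lit 167))) (XT.nd (nat_lit 78) (nat_lit 0) (nat_lit 0) (XT.lf (nat_lit 0) (nat_lit 340241399096) (nat_lit 76) (nat_lit 125169834975) (nat_lit 76) (nat_lit 120720778509) (nat_lit 1) (nat_lit 4) (nat_lit 2) (nat_lit 5) (nat_lit 2) (nat_lit 4) (nat_lit 387) (nat_lit 227) (nat_lit 166)) (XT.nd (nat_lit 78) (nat_lit 0) (nat_lit 0) (XT.lf (nat_lit 0) (nat_lit 360363889929) (nat_lit 76) (nat_lit 129726141479) (nat_lit 76) (nat_lit 125265702743) (nat_lit 1) (nat_lit 4) (nat_lit 2) (nat_lit 5) (nat_lit 2) (nat_lit 4) (nat_lit 388) (nat_lit 227) (nat_lit 165)) (XT.lf (nat_lit 0) (nat_lit 381479096057) (nat_lit 76) (nat_lit 134516591016) (nat_lit 76) (nat_lit 130045312024) (nat_lit 1) (nat_lit 4) (nat_lit 2) (nat_lit 5)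 (nat_lit 2) (nat_lit 4) (nat_lit 389) (nat_lit 227) (nat_lit 164))))) (XT.nd (nat_lit 156) (nat_lit 0) (nat_lit 0) (XT.nd (nat_lit 78) (nat_lit 0) (nat_lit 0) (XT.lf (nat_lit 0) (nat_lit 403637291781) (nat_lit 76) (nat_lit 139552589420) (nat_lit 76) (nat_lit 135070986374) (nat_lit 1) (nat_lit 4) (nat_lit 2) (nat_lit 5) (nat_lit 2) (nat_lit 4) (nat_lit 390) (nat_lit 227) (nat_lit 163)) (XT.lf (nat_lit 0) (nat_lit 426891234710) (nat_lit 76) (nat_lit 144846127162) (nat_lit 76) (nat_lit 140354691684) (nat_lit 1) (nat_lit 4) (nat_lit 2) (nat_lit 5) (nat_lit 2) (nat_lit 4) (nat_lit 391) (nat_lit 227) (nat_lit 162))) (XT.nd (nat_lit 35334) (nat_lit 0) (nat_lit 304) (XT.lf (nat_lit 0) (nat_lit 451296291374) (nat_lit 76) (nat_lit 150409807904) (nat_lit 76) (nat_lit 145909008205) (nat_lit 1) (nat_lit 4) (nat_lit 2) (nat_lit 5) (nat_lit 2) (nat_lit 4) (nat_lit 392) (nat_lit 227) (nat_lit 161))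 (XT.nd (nat_lit 78) (nat_lit 152) (nat_lit 0) (XT.lf (nat_lit 0) (nat_lit 12646589153) (nat_lit 76) (nat_lit 1171567326) (nat_lit 76) (nat_lit 1171567326) (nat_lit 7) (nat_lit 4) (nat_lit 8) (nat_lit 5) (nat_lit 8) (nat_lit 4) (nat_lit 324) (nat_lit 228) (nat_lit 228)) (XT.lf (nat_lit 0) (nat_lit 1349361541) (nat_lit 152) (nat_lit 28826063430) (nat_lit 0) (nat_lit 1103237125) (nat_lit 5) (nat_lit 5) (nat_lit 7) (nat_lit 4) (nat_lit 5) (nat_lit 4) (nat_lit 325) (nat_lit 228) (nat_lit 227))))))))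
noncomputable def xc29 : XT := (XT.nd (nat_lit 1560) (nat_lit 76) (nat_lit 0) (XT.nd (nat_lit 780) (nat_lit 152) (nat_lit 0) (XT.nd (nat_lit 390) (nat_lit 0) (nat_lit 0) (XT.nd (nat_lit 156) (nat_lit 76) (nat_lit 0) (XT.nd (nat_lit 78) (nat_lit 0) (nat_lit 0) (XT.lf (nat_lit 0) (nat_lit 5137441101) (nat_lit 152) (nat_lit 22847147604) (nat_lit 0) (nat_lit 4656912479) (nat_lit 5) (nat_lit 5) (nat_lit 7) (nat_lit 4) (nat_lit 5) (nat_lit 4) (nat_lit 326) (nat_lit 228) (nat_lit 226)) (XT.lf (nat_lit 0) (nat_lit 8991711221) (nat_lit 152) (nat_lit 16799057505) (nat_lit 0) (nat_lit 8287940497) (nat_lit 5) (nat_lit 5) (nat_lit 7) (nat_lit 4) (nat_lit 5) (nat_lit 4) (nat_lit 327) (nat_lit 228) (nat_lit 225))) (XT.nd (nat_lit 78) (nat_lit 76) (nat_lit 0) (XT.lf (nat_lit 0) (nat_lit 12921348733) (nat_lit 152) (nat_lit 10667392919) (nat_lit 0) (nat_lit 12004966485) (nat_lit 5) (nat_lit 5) (nat_lit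 7) (nat_lit 4) (nat_lit 5) (nat_lit 4) (nat_lit 328) (nat_lit 228) (nat_lit 224)) (XT.nd (nat_lit 78) (nat_lit 76) (nat_lit 0) (XT.lf (nat_lit 0) (nat_lit 16935709919) (nat_lit 152) (nat_lit 4437554644) (nat_lit 0) (nat_lit 15816840504) (nat_lit 5) (nat_lit 5) (nat_lit 7) (nat_lit 4) (nat_lit 5) (nat_lit 4) (nat_lit 329) (nat_lit 228) (nat_lit 223)) (XT.lf (nat_lit 0) (nat_lit 1968287769) (nat_lit 76) (nat_lit 19106795499) (nat_lit 76) (nat_lit 17795081163) (nat_lit 4) (nat_lit 4) (nat_lit 5) (nat_lit 5) (nat_lit 5) (nat_lit 4) (nat_lit 330) (nat_lit 228) (nat_lit 222))))) (XT.nd (nat_lit 156) (nat_lit 0) (nat_lit 0) (XT.nd (nat_lit 78) (nat_lit 0) (nat_lit 0) (XT.lf (nat_lit 0) (nat_lit 8653200278) (nat_lit 76) (nat_lit 16738960227) (nat_lit 76) (nat_lit 15243584063) (nat_lit 4) (nat_lit 4) (nat_lit 5) (nat_lit 5) (nat_lit 5) (nat_lit 4) (nat_lit 331) (nat_lit 228) (nat_lit 221)) (XT.lf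 (nat_lit 0) (nat_lit 15486373745) (nat_lit 76) (nat_lit 14339273181) (nat_lit 76) (nat_lit 12668980989) (nat_lit 4) (nat_lit 4) (nat_lit 5) (nat_lit 5) (nat_lit 5) (nat_lit 4) (nat_lit 332) (nat_lit 228) (nat_lit 220))) (XT.nd (nat_lit 78) (nat_lit 0) (nat_lit 0) (XT.lf (nat_lit 0) (nat_lit 22484077631) (nat_lit 76) (nat_lit 11902020818) (nat_lit 76) (nat_lit 10065141933) (nat_lit 4) (nat_lit 4) (nat_lit 5) (nat_lit 5) (nat_lit 5) (nat_lit 4) (nat_lit 333) (nat_lit 228) (nat_lit 219)) (XT.nd (nat_lit 78) (nat_lit 0) (nat_lit 0) (XT.lf (nat_lit 0) (nat_lit 29662973135) (nat_lit 76) (nat_lit 9421400158) (nat_lit 76) (nat_lit 7425867280) (nat_lit 4) (nat_lit 4) (nat_lit 5) (nat_lit 5) (nat_lit 5) (nat_lit 4) (nat_lit 334) (nat_lit 228) (nat_lit 218)) (XT.lf (nat_lit 0) (nat_lit 37040152864) (nat_lit 76) (nat_lit 6891504961) (nat_lit 76) (nat_lit 4744873041) (nat_lit 4) (nat_lit 4) (nat_lit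 5) (nat_lit 5) (nat_lit 5) (nat_lit 4) (nat_lit 335) (nat_lit 228) (nat_lit 217)))))) (XT.nd (nat_lit 390) (nat_lit 0) (nat_lit 0) (XT.nd (nat_lit 156) (nat_lit 76) (nat_lit 0) (XT.nd (nat_lit 78) (nat_lit 76) (nat_lit 0) (XT.lf (nat_lit 0) (nat_lit 44633181534) (nat_lit 76) (nat_lit 4306311667) (nat_lit 76) (nat_lit 2015775898) (nat_lit 4) (nat_lit 4) (nat_lit 5) (nat_lit 5) (nat_lit 5) (nat_lit 4) (nat_lit 336) (nat_lit 228) (nat_lit 216)) (XT.lf (nat_lit 0) (nat_lit 743343700) (nat_lit 152) (nat_lit 903732467) (nat_lit 76) (nat_lit 51704205199) (nat_lit 3) (nat_lit 5) (nat_lit 5) (nat_lit 5) (nat_lit 4) (nat_lit 4) (nat_lit 337) (nat_lit 228) (nat_lit 215))) (XT.nd (nat_lit 78) (nat_lit 0) (nat_lit 0) (XT.lf (nat_lit 0) (nat_lit 3590199967) (nat_lit 152) (nat_lit 51120499994) (nat_lit 0) (nat_lit 1153902742) (nat_lit 2) (nat_lit 5) (nat_lit 4) (nat_lit 4) (nat_lit 2) (nat_lit 4) (nat_lit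 338) (nat_lit 228) (nat_lit 214)) (XT.nd (nat_lit 78) (nat_lit 0) (nat_lit 0) (XT.lf (nat_lit 0) (nat_lit 6546902963) (nat_lit 152) (nat_lit 47966131439) (nat_lit 0) (nat_lit 3992215686) (nat_lit 2) (nat_lit 5) (nat_lit 4) (nat_lit 4) (nat_lit 2) (nat_lit 4) (nat_lit 339) (nat_lit 228) (nat_lit 213)) (XT.lf (nat_lit 0) (nat_lit 9579961695) (nat_lit 152) (nat_lit 44789053629) (nat_lit 0) (nat_lit 6912521986) (nat_lit 2) (nat_lit 5) (nat_lit 4) (nat_lit 4) (nat_lit 2) (nat_lit 4) (nat_lit 340) (nat_lit 228) (nat_lit 212))))) (XT.nd (nat_lit 156) (nat_lit 0) (nat_lit 0) (XT.nd (nat_lit 78) (nat_lit 0) (nat_lit 0) (XT.lf (nat_lit 0) (nat_lit 12696597730) (nat_lit 152) (nat_lit 41581702093) (nat_lit 0) (nat_lit 9921774754) (nat_lit 2) (nat_lit 5) (nat_lit 4) (nat_lit 4) (nat_lit 2) (nat_lit 4) (nat_lit 341) (nat_lit 228) (nat_lit 211)) (XT.lf (nat_lit 0) (nat_lit 15904231632) (nat_lit 152)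 (nat_lit 38336440281) (nat_lit 0) (nat_lit 13027138878) (nat_lit 2) (nat_lit 5) (nat_lit 4) (nat_lit 4) (nat_lit 2) (nat_lit 4) (nat_lit 342) (nat_lit 228) (nat_lit 210))) (XT.nd (nat_lit 78) (nat_lit 0) (nat_lit 0) (XT.lf (nat_lit 0) (nat_lit 19210500624) (nat_lit 152) (nat_lit 35045541379) (nat_lit 0) (nat_lit 16236008080) (nat_lit 2) (nat_lit 5) (nat_lit 4) (nat_lit 4) (nat_lit 2) (nat_lit 4) (nat_lit 343) (nat_lit 228) (nat_lit 209)) (XT.nd (nat_lit 78) (nat_lit 0) (nat_lit 0) (XT.lf (nat_lit 0) (nat_lit 22623276775) (nat_lit 152) (nat_lit 31701169912) (nat_lit 0) (nat_lit 19556022527) (nat_lit 2) (nat_lit 5) (nat_lit 4) (nat_lit 4) (nat_lit 2) (nat_lit 4) (nat_lit 344) (nat_lit 228) (nat_lit 208)) (XT.lf (nat_lit 0) (nat_lit 26150685742) (nat_lit 152) (nat_lit 28295363092) (nat_lit 0) (nat_lit 22995087014) (nat_lit 2) (nat_lit 5) (nat_lit 4) (nat_lit 4) (nat_lit 2) (nat_lit 4) (nat_lit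 345) (nat_lit 228) (nat_lit 207))))))) (XT.nd (nat_lit 780) (nat_lit 0) (nat_lit 0) (XT.nd (nat_lit 390) (nat_lit 76) (nat_lit 0) (XT.nd (nat_lit 156) (nat_lit 0) (nat_lit 0) (XT.nd (nat_lit 78) (nat_lit 0) (nat_lit 0) (XT.lf (nat_lit 0) (nat_lit 29801126118) (nat_lit 152) (nat_lit 24820011855) (nat_lit 0) (nat_lit 26561389790) (nat_lit 2) (nat_lit 5) (nat_lit 4) (nat_lit 4) (nat_lit 2) (nat_lit 4) (nat_lit 346) (nat_lit 228) (nat_lit 206)) (XT.lf (nat_lit 0) (nat_lit 33583289428) (nat_lit 152) (nat_lit 21266841555) (nat_lit 0) (nat_lit 30263422052) (nat_lit 2) (nat_lit 5) (nat_lit 4) (nat_lit 4) (nat_lit 2) (nat_lit 4) (nat_lit 347) (nat_lit 228) (nat_lit 205))) (XT.nd (nat_lit 78) (nat_lit 0) (nat_lit 0) (XT.lf (nat_lit 0) (nat_lit 37506180822) (nat_lit 152) (nat_lit 17627392263) (nat_lit 0) (nat_lit 34109998163) (nat_lit 2) (nat_lit 5) (nat_lit 4) (nat_lit 4) (nat_lit 2) (nat_lit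 4) (nat_lit 348) (nat_lit 228) (nat_lit 204)) (XT.nd (nat_lit 78) (nat_lit 0) (nat_lit 0) (XT.lf (nat_lit 0) (nat_lit 41579140519) (nat_lit 152) (nat_lit 13892998623) (nat_lit 0) (nat_lit 38110276637) (nat_lit 2) (nat_lit 5) (nat_lit 4) (nat_lit 4) (nat_lit 2) (nat_lit 4) (nat_lit 349) (nat_lit 228) (nat_lit 203)) (XT.lf (nat_lit 0) (nat_lit 45811866040) (nat_lit 152) (nat_lit 10054769222) (nat_lit 0) (nat_lit 42273781947) (nat_lit 2) (nat_lit 5) (nat_lit 4) (nat_lit 4) (nat_lit 2) (nat_lit 4) (nat_lit 350) (nat_lit 228) (nat_lit 202))))) (XT.nd (nat_lit 156) (nat_lit 76) (nat_lit 0) (XT.nd (nat_lit 78) (nat_lit 0) (nat_lit 0) (XT.lf (nat_lit 0) (nat_lit 50214435305) (nat_lit 152) (nat_lit 6103565419) (nat_lit 0) (nat_lit 46610427201) (nat_lit 2) (nat_lit 5) (nat_lit 4) (nat_lit 4) (nat_lit 2) (nat_lit 4) (nat_lit 351) (nat_lit 228) (nat_lit 201)) (XT.lf (nat_lit 0) (nat_lit 54797330621)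 (nat_lit 152) (nat_lit 2029979585) (nat_lit 0) (nat_lit 51130537744) (nat_lit 2) (nat_lit 5) (nat_lit 4) (nat_lit 4) (nat_lit 2) (nat_lit 4) (nat_lit 352) (nat_lit 228) (nat_lit 200))) (XT.nd (nat_lit 78) (nat_lit 0) (nat_lit 0) (XT.lf (nat_lit 0) (nat_lit 2247625341) (nat_lit 76) (nat_lit 57358930033) (nat_lit 76) (nat_lit 53632342134) (nat_lit 1) (nat_lit 4) (nat_lit 2) (nat_lit 5) (nat_lit 2) (nat_lit 4) (nat_lit 353) (nat_lit 228) (nat_lit 199)) (XT.nd (nat_lit 78) (nat_lit 0) (nat_lit 0) (XT.lf (nat_lit 0) (nat_lit 6739143384) (nat_lit 76) (nat_lit 57914274886) (nat_lit 76) (nat_lit 54130739348) (nat_lit 1) (nat_lit 4) (nat_lit 2) (nat_lit 5) (nat_lit 2) (nat_lit 4) (nat_lit 354) (nat_lit 228) (nat_lit 198)) (XT.lf (nat_lit 0) (nat_lit 11388148342) (nat_lit 76) (nat_lit 58529045701) (nat_lit 76) (nat_lit 54691274316) (nat_lit 1) (nat_lit 4) (nat_lit 2) (nat_lit 5) (nat_lit 2) (nat_lit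 4) (nat_lit 355) (nat_lit 228) (nat_lit 197)))))) (XT.nd (nat_lit 390) (nat_lit 0) (nat_lit 0) (XT.nd (nat_lit 156) (nat_lit 0) (nat_lit 0) (XT.nd (nat_lit 78) (nat_lit 0) (nat_lit 0) (XT.lf (nat_lit 0) (nat_lit 16205709274) (nat_lit 76) (nat_lit 59204706219) (nat_lit 76) (nat_lit 55315281646) (nat_lit 1) (nat_lit 4) (nat_lit 2) (nat_lit 5) (nat_lit 2) (nat_lit 4) (nat_lit 356) (nat_lit 228) (nat_lit 196)) (XT.lf (nat_lit 0) (nat_lit 21203296564) (nat_lit 76) (nat_lit 59942865156) (nat_lit 76) (nat_lit 56004247071) (nat_lit 1) (nat_lit 4) (nat_lit 2) (nat_lit 5) (nat_lit 2) (nat_lit 4) (nat_lit 357) (nat_lit 228) (nat_lit 195))) (XT.nd (nat_lit 78) (nat_lit 0) (nat_lit 0) (XT.lf (nat_lit 0) (nat_lit 26392809229) (nat_lit 76) (nat_lit 60745280032) (nat_lit 76) (nat_lit 56759810983) (nat_lit 1) (nat_lit 4) (nat_lit 2) (nat_lit 5) (nat_lit 2) (nat_lit 4) (nat_lit 358) (nat_lit 228) (nat_lit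 194)) (XT.nd (nat_lit 78) (nat_lit 0) (nat_lit 0) (XT.lf (nat_lit 0) (nat_lit 31786603250) (nat_lit 76) (nat_lit 61613861359) (nat_lit 76) (nat_lit 57583772344) (nat_lit 1) (nat_lit 4) (nat_lit 2) (nat_lit 5) (nat_lit 2) (nat_lit 4) (nat_lit 359) (nat_lit 228) (nat_lit 193)) (XT.lf (nat_lit 0) (nat_lit 37397520996) (nat_lit 76) (nat_lit 62550677187) (nat_lit 76) (nat_lit 58478092967) (nat_lit 1) (nat_lit 4) (nat_lit 2) (nat_lit 5) (nat_lit 2) (nat_lit 4) (nat_lit 360) (nat_lit 228) (nat_lit 192))))) (XT.nd (nat_lit 234) (nat_lit 0) (nat_lit 0) (XT.nd (nat_lit 78) (nat_lit 0) (nat_lit 0) (XT.lf (nat_lit 0) (nat_lit 43238921794) (nat_lit 76) (nat_lit 63557958032) (nat_lit 76) (nat_lit 59444902187) (nat_lit 1) (nat_lit 4) (nat_lit 2) (nat_lit 5) (nat_lit 2) (nat_lit 4) (nat_lit 361) (nat_lit 228) (nat_lit 191)) (XT.nd (nat_lit 78) (nat_lit 0) (nat_lit 0) (XT.lf (nat_lit 0) (nat_lit 49324713741)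 (nat_lit 76) (nat_lit 64638102180) (nat_lit 76) (nat_lit 60486501931) (nat_lit 1) (nat_lit 4) (nat_lit 2) (nat_lit 5) (nat_lit 2) (nat_lit 4) (nat_lit 362) (nat_lit 228) (nat_lit 190)) (XT.lf (nat_lit 0) (nat_lit 55669386817) (nat_lit 76) (nat_lit 65793681403) (nat_lit 76) (nat_lit 61605372198) (nat_lit 1) (nat_lit 4) (nat_lit 2) (nat_lit 5) (nat_lit 2) (nat_lit 4) (nat_lit 363) (nat_lit 228) (nat_lit 189)))) (XT.nd (nat_lit 78) (nat_lit 0) (nat_lit 0) (XT.lf (nat_lit 0) (nat_lit 62288047389) (nat_lit 76) (nat_lit 67027447080) (nat_lit 76) (nat_lit 62804176965) (nat_lit 1) (nat_lit 4) (nat_lit 2) (nat_lit 5) (nat_lit 2) (nat_lit 4) (nat_lit 364) (nat_lit 228) (nat_lit 188)) (XT.nd (nat_lit 78) (nat_lit 0) (nat_lit 0) (XT.lf (nat_lit 0) (nat_lit 69196454170) (nat_lit 76) (nat_lit 68342336749) (nat_lit 76) (nat_lit 64085770529) (nat_lit 1) (nat_lit 4) (nat_lit 2) (nat_lit 5) (nat_lit 2)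 (nat_lit 4) (nat_lit 365) (nat_lit 228) (nat_lit 187)) (XT.lf (nat_lit 0) (nat_lit 76411055749) (nat_lit 76) (nat_lit 69741481100) (nat_lit 76) (nat_lit 65453204303) (nat_lit 1) (nat_lit 4) (nat_lit 2) (nat_lit 5) (nat_lit 2) (nat_lit 4) (nat_lit 366) (nat_lit 228) (nat_lit 186))))))))
noncomputable def xc30 : XT := (XT.nd (nat_lit 1560) (nat_lit 0) (nat_lit 0) (XT.nd (nat_lit 780) (nat_lit 0) (nat_lit 0) (XT.nd (nat_lit 390) (nat_lit 0) (nat_lit 0) (XT.nd (nat_lit 156) (nat_lit 0) (nat_lit 0) (XT.nd (nat_lit 78) (nat_lit 0) (nat_lit 0) (XT.lf (nat_lit 0) (nat_lit 83949029748) (nat_lit 76) (nat_lit 71228211428) (nat_lit 76) (nat_lit 66909734081) (nat_lit 1) (nat_lit 4) (nat_lit 2) (nat_lit 5) (nat_lit 2) (nat_lit 4) (nat_lit 367) (nat_lit 228) (nat_lit 185)) (XT.lf (nat_lit 0) (nat_lit 91828323725) (nat_lit 76) (nat_lit 72806067567) (nat_lit 76) (nat_lit 68458827793) (nat_lit 1) (nat_lit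 4) (nat_lit 2) (nat_lit 5) (nat_lit 2) (nat_lit 4) (nat_lit 368) (nat_lit 228) (nat_lit 184))) (XT.nd (nat_lit 78) (nat_lit 0) (nat_lit 0) (XT.lf (nat_lit 0) (nat_lit 100067697903) (nat_lit 76) (nat_lit 74478806318) (nat_lit 76) (nat_lit 70104173756) (nat_lit 1) (nat_lit 4) (nat_lit 2) (nat_lit 5) (nat_lit 2) (nat_lit 4) (nat_lit 369) (nat_lit 228) (nat_lit 183)) (XT.nd (nat_lit 78) (nat_lit 0) (nat_lit 0) (XT.lf (nat_lit 0) (nat_lit 108686769840) (nat_lit 76) (nat_lit 76250410393) (nat_lit 76) (nat_lit 71849689461) (nat_lit 1) (nat_lit 4) (nat_lit 2) (nat_lit 5) (nat_lit 2) (nat_lit 4) (nat_lit 370) (nat_lit 228) (nat_lit 182)) (XT.lf (nat_lit 0) (nat_lit 117706061136) (nat_lit 76) (nat_lit 78125097895) (nat_lit 76) (nat_lit 73699530897) (nat_lit 1) (nat_lit 4) (nat_lit 2) (nat_lit 5) (nat_lit 2) (nat_lit 4) (nat_lit 371) (nat_lit 228) (nat_lit 181))))) (XT.nd (nat_lit 156) (nat_lit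 0) (nat_lit 0) (XT.nd (nat_lit 78) (nat_lit 0) (nat_lit 0) (XT.lf (nat_lit 0) (nat_lit 127147046294) (nat_lit 76) (nat_lit 80107332368) (nat_lit 76) (nat_lit 75658102449) (nat_lit 1) (nat_lit 4) (nat_lit 2) (nat_lit 5) (nat_lit 2) (nat_lit 4) (nat_lit 372) (nat_lit 228) (nat_lit 180)) (XT.lf (nat_lit 0) (nat_lit 137032203849) (nat_lit 76) (nat_lit 82201833416) (nat_lit 76) (nat_lit 77730067382) (nat_lit 1) (nat_lit 4) (nat_lit 2) (nat_lit 5) (nat_lit 2) (nat_lit 4) (nat_lit 373) (nat_lit 228) (nat_lit 179))) (XT.nd (nat_lit 78) (nat_lit 0) (nat_lit 0) (XT.lf (nat_lit 0) (nat_lit 147385069892) (nat_lit 76) (nat_lit 84413587947) (nat_lit 76) (nat_lit 79920358946) (nat_lit 1) (nat_lit 4) (nat_lit 2) (nat_lit 5) (nat_lit 2) (nat_lit 4) (nat_lit 374) (nat_lit 228) (nat_lit 178)) (XT.nd (nat_lit 78) (nat_lit 0) (nat_lit 0) (XT.lf (nat_lit 0) (nat_lit 158230294103) (nat_lit 76) (nat_lit 86747862043)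 (nat_lit 76) (nat_lit 82234192122) (nat_lit 1) (nat_lit 4) (nat_lit 2) (nat_lit 5) (nat_lit 2) (nat_lit 4) (nat_lit 375) (nat_lit 228) (nat_lit 177)) (XT.lf (nat_lit 0) (nat_lit 169593698446) (nat_lit 76) (nat_lit 89210213500) (nat_lit 76) (nat_lit 84677076036) (nat_lit 1) (nat_lit 4) (nat_lit 2) (nat_lit 5) (nat_lit 2) (nat_lit 4) (nat_lit 376) (nat_lit 228) (nat_lit 176)))))) (XT.nd (nat_lit 390) (nat_lit 0) (nat_lit 0) (XT.nd (nat_lit 156) (nat_lit 0) (nat_lit 0) (XT.nd (nat_lit 78) (nat_lit 0) (nat_lit 0) (XT.lf (nat_lit 0) (nat_lit 181502338643) (nat_lit 76) (nat_lit 91806505058) (nat_lit 76) (nat_lit 87254827077) (nat_lit 1) (nat_lit 4) (nat_lit 2) (nat_lit 5) (nat_lit 2) (nat_lit 4) (nat_lit 377) (nat_lit 228) (nat_lit 175)) (XT.lf (nat_lit 0) (nat_lit 193984568601) (nat_lit 76) (nat_lit 94542918366) (nat_lit 76) (nat_lit 89973582749) (nat_lit 1) (nat_lit 4) (nat_lit 2) (nat_lit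 5) (nat_lit 2) (nat_lit 4) (nat_lit 378) (nat_lit 228) (nat_lit 174))) (XT.nd (nat_lit 78) (nat_lit 0) (nat_lit 0) (XT.lf (nat_lit 0) (nat_lit 207070107915) (nat_lit 76) (nat_lit 97425968692) (nat_lit 76) (nat_lit 92839816280) (nat_lit 1) (nat_lit 4) (nat_lit 2) (nat_lit 5) (nat_lit 2) (nat_lit 4) (nat_lit 379) (nat_lit 228) (nat_lit 173)) (XT.nd (nat_lit 78) (nat_lit 0) (nat_lit 0) (XT.lf (nat_lit 0) (nat_lit 220790112631) (nat_lit 76) (nat_lit 100462520443) (nat_lit 76) (nat_lit 95860352034) (nat_lit 1) (nat_lit 4) (nat_lit 2) (nat_lit 5) (nat_lit 2) (nat_lit 4) (nat_lit 380) (nat_lit 228) (nat_lit 172)) (XT.lf (nat_lit 0) (nat_lit 235177249426) (nat_lit 76) (nat_lit 103659803502) (nat_lit 76) (nat_lit 99042381764) (nat_lit 1) (nat_lit 4) (nat_lit 2) (nat_lit 5) (nat_lit 2) (nat_lit 4) (nat_lit 381) (nat_lit 228) (nat_lit 171))))) (XT.nd (nat_lit 156) (nat_lit 0) (nat_lit 0) (XT.nd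 (nat_lit 78) (nat_lit 0) (nat_lit 0) (XT.lf (nat_lit 0) (nat_lit 250265773389) (nat_lit 76) (nat_lit 107025430449) (nat_lit 76) (nat_lit 102393481731) (nat_lit 1) (nat_lit 4) (nat_lit 2) (nat_lit 5) (nat_lit 2) (nat_lit 4) (nat_lit 382) (nat_lit 228) (nat_lit 170)) (XT.lf (nat_lit 0) (nat_lit 266091609576) (nat_lit 76) (nat_lit 110567414682) (nat_lit 76) (nat_lit 105921630744) (nat_lit 1) (nat_lit 4) (nat_lit 2) (nat_lit 5) (nat_lit 2) (nat_lit 4) (nat_lit 383) (nat_lit 228) (nat_lit 169))) (XT.nd (nat_lit 78) (nat_lit 0) (nat_lit 0) (XT.lf (nat_lit 0) (nat_lit 282692438550) (nat_lit 76) (nat_lit 114294189496) (nat_lit 76) (nat_lit 109635229158) (nat_lit 1) (nat_lit 4) (nat_lit 2) (nat_lit 5) (nat_lit 2) (nat_lit 4) (nat_lit 384) (nat_lit 228) (nat_lit 168)) (XT.nd (nat_lit 78) (nat_lit 0) (nat_lit 0) (XT.lf (nat_lit 0) (nat_lit 300107786094) (nat_lit 76) (nat_lit 118214628164) (nat_lit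 76) (nat_lit 113543118875) (nat_lit 1) (nat_lit 4) (nat_lit 2) (nat_lit 5) (nat_lit 2) (nat_lit 4) (nat_lit 385) (nat_lit 228) (nat_lit 167)) (XT.lf (nat_lit 0) (nat_lit 318379117320) (nat_lit 76) (nat_lit 122338065065) (nat_lit 76) (nat_lit 117654604393) (nat_lit 1) (nat_lit 4) (nat_lit 2) (nat_lit 5) (nat_lit 2) (nat_lit 4) (nat_lit 386) (nat_lit 228) (nat_lit 166))))))) (XT.nd (nat_lit 35880) (nat_lit 0) (nat_lit 228) (XT.nd (nat_lit 390) (nat_lit 0) (nat_lit 0) (XT.nd (nat_lit 156) (nat_lit 0) (nat_lit 0) (XT.nd (nat_lit 78) (nat_lit 0) (nat_lit 0) (XT.lf (nat_lit 0) (nat_lit 337549935400) (nat_lit 76) (nat_lit 126674317905) (nat_lit 76) (nat_lit 121979474963) (nat_lit 1) (nat_lit 4) (nat_lit 2) (nat_lit 5) (nat_lit 2) (nat_lit 4) (nat_lit 387) (nat_lit 228) (nat_lit 165)) (XT.lf (nat_lit 0) (nat_lit 357665885137) (nat_lit 76) (nat_lit 131233711096) (nat_lit 76) (nat_lit 126528027897)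 (nat_lit 1) (nat_lit 4) (nat_lit 2) (nat_lit 5) (nat_lit 2) (nat_lit 4) (nat_lit 388) (nat_lit 228) (nat_lit 164))) (XT.nd (nat_lit 78) (nat_lit 0) (nat_lit 0) (XT.lf (nat_lit 0) (nat_lit 378774861651) (nat_lit 76) (nat_lit 136027100335) (nat_lit 76) (nat_lit 131311093083) (nat_lit 1) (nat_lit 4) (nat_lit 2) (nat_lit 5) (nat_lit 2) (nat_lit 4) (nat_lit 389) (nat_lit 228) (nat_lit 163)) (XT.nd (nat_lit 78) (nat_lit 0) (nat_lit 0) (XT.lf (nat_lit 0) (nat_lit 400927124408) (nat_lit 76) (nat_lit 141065898455) (nat_lit 76) (nat_lit 136340058771) (nat_lit 1) (nat_lit 4) (nat_lit 2) (nat_lit 5) (nat_lit 2) (nat_lit 4) (nat_lit 390) (nat_lit 228) (nat_lit 162)) (XT.lf (nat_lit 0) (nat_lit 424175416892) (nat_lit 76) (nat_lit 146362102594) (nat_lit 76) (nat_lit 141626898689) (nat_lit 1) (nat_lit 4) (nat_lit 2) (nat_lit 5) (nat_lit 2) (nat_lit 4) (nat_lit 391) (nat_lit 228) (nat_lit 161))))) (XT.nd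 (nat_lit 35256) (nat_lit 0) (nat_lit 304) (XT.nd (nat_lit 35178) (nat_lit 0) (nat_lit 456) (XT.lf (nat_lit 0) (nat_lit 448575092181) (nat_lit 76) (nat_lit 151928322761) (nat_lit 76) (nat_lit 147184200550) (nat_lit 1) (nat_lit 4) (nat_lit 2) (nat_lit 5) (nat_lit 2) (nat_lit 4) (nat_lit 392) (nat_lit 228) (nat_lit 160)) (XT.lf (nat_lit 0) (nat_lit 4557869182) (nat_lit 76) (nat_lit 4613989841) (nat_lit 76) (nat_lit 4613989841) (nat_lit 7) (nat_lit 4) (nat_lit 8) (nat_lit 5) (nat_lit 8) (nat_lit 4) (nat_lit 322) (nat_lit 229) (nat_lit 229))) (XT.nd (nat_lit 78) (nat_lit 152) (nat_lit 0) (XT.lf (nat_lit 0) (nat_lit 17066138757) (nat_lit 76) (nat_lit 5974902469) (nat_lit 76) (nat_lit 5703550300) (nat_lit 7) (nat_lit 4) (nat_lit 8) (nat_lit 5) (nat_lit 8) (nat_lit 4) (nat_lit 323) (nat_lit 229) (nat_lit 228)) (XT.nd (nat_lit 78) (nat_lit 152) (nat_lit 0) (XT.lf (nat_lit 0) (nat_lit 25178053676)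 (nat_lit 76) (nat_lit 2667168179) (nat_lit 76) (nat_lit 2137385373) (nat_lit 7) (nat_lit 4) (nat_lit 8) (nat_lit 5) (nat_lit 8) (nat_lit 4) (nat_lit 324) (nat_lit 229) (nat_lit 227)) (XT.lf (nat_lit 0) (nat_lit 1478418089) (nat_lit 152) (nat_lit 29067323525) (nat_lit 0) (nat_lit 739458829) (nat_lit 5) (nat_lit 5) (nat_lit 7) (nat_lit 4) (nat_lit 5) (nat_lit 4) (nat_lit 325) (nat_lit 229) (nat_lit 226)))))) (XT.nd (nat_lit 390) (nat_lit 0) (nat_lit 0) (XT.nd (nat_lit 156) (nat_lit 76) (nat_lit 0) (XT.nd (nat_lit 78) (nat_lit 0) (nat_lit 0) (XT.lf (nat_lit 0) (nat_lit 5206393542) (nat_lit 152) (nat_lit 23200491366) (nat_lit 0) (nat_lit 4244192182) (nat_lit 5) (nat_lit 5) (nat_lit 7) (nat_lit 4) (nat_lit 5) (nat_lit 4) (nat_lit 326) (nat_lit 229) (nat_lit 225)) (XT.lf (nat_lit 0) (nat_lit 9003421656) (nat_lit 152) (nat_lit 17259147617) (nat_lit 0) (nat_lit 7828608770) (nat_lit 5) (nat_lit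 5) (nat_lit 7) (nat_lit 4) (nat_lit 5) (nat_lit 4) (nat_lit 327) (nat_lit 229) (nat_lit 224))) (XT.nd (nat_lit 78) (nat_lit 76) (nat_lit 0) (XT.lf (nat_lit 0) (nat_lit 12878542972) (nat_lit 152) (nat_lit 11229146221) (nat_lit 0) (nat_lit 11501242919) (nat_lit 5) (nat_lit 5) (nat_lit 7) (nat_lit 4) (nat_lit 5) (nat_lit 4) (nat_lit 328) (nat_lit 229) (nat_lit 223)) (XT.nd (nat_lit 78) (nat_lit 76) (nat_lit 0) (XT.lf (nat_lit 0) (nat_lit 16840983970) (nat_lit 152) (nat_lit 5096130032) (nat_lit 0) (nat_lit 15270838997) (nat_lit 5) (nat_lit 5) (nat_lit 7) (nat_lit 4) (nat_lit 5) (nat_lit 4) (nat_lit 329) (nat_lit 229) (nat_lit 222)) (XT.lf (nat_lit 0) (nat_lit 1192676464) (nat_lit 76) (nat_lit 19726123591) (nat_lit 76) (nat_lit 17972316789) (nat_lit 4) (nat_lit 4) (nat_lit 5) (nat_lit 5) (nat_lit 5) (nat_lit 4) (nat_lit 330) (nat_lit 229) (nat_lit 221))))) (XT.nd (nat_lit 234) (nat_lit 0)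 (nat_lit 0) (XT.nd (nat_lit 78) (nat_lit 0) (nat_lit 0) (XT.lf (nat_lit 0) (nat_lit 7786864745) (nat_lit 76) (nat_lit 17400502948) (nat_lit 76) (nat_lit 15471780119) (nat_lit 4) (nat_lit 4) (nat_lit 5) (nat_lit 5) (nat_lit 5) (nat_lit 4) (nat_lit 331) (nat_lit 229) (nat_lit 220)) (XT.nd (nat_lit 78) (nat_lit 0) (nat_lit 0) (XT.lf (nat_lit 0) (nat_lit 14533634186) (nat_lit 76) (nat_lit 15041020309) (nat_lit 76) (nat_lit 12945710787) (nat_lit 4) (nat_lit 4) (nat_lit 5) (nat_lit 5) (nat_lit 5) (nat_lit 4) (nat_lit 332) (nat_lit 229) (nat_lit 219)) (XT.lf (nat_lit 0) (nat_lit 21449048522) (nat_lit 76) (nat_lit 12642057860) (nat_lit 76) (nat_lit 10388094344) (nat_lit 4) (nat_lit 4) (nat_lit 5) (nat_lit 5) (nat_lit 5) (nat_lit 4) (nat_lit 333) (nat_lit 229) (nat_lit 218)))) (XT.nd (nat_lit 78) (nat_lit 0) (nat_lit 0) (XT.lf (nat_lit 0) (nat_lit 28549573026) (nat_lit 76) (nat_lit 10197903783)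 (nat_lit 76) (nat_lit 7792841226) (nat_lit 4) (nat_lit 4) (nat_lit 5) (nat_lit 5) (nat_lit 5) (nat_lit 4) (nat_lit 334) (nat_lit 229) (nat_lit 217)) (XT.nd (nat_lit 78) (nat_lit 0) (nat_lit 0) (XT.lf (nat_lit 0) (nat_lit 35852113709) (nat_lit 76) (nat_lit 7702738665) (nat_lit 76) (nat_lit 5153772259) (nat_lit 4) (nat_lit 4) (nat_lit 5) (nat_lit 5) (nat_lit 5) (nat_lit 4) (nat_lit 335) (nat_lit 229) (nat_lit 216)) (XT.lf (nat_lit 0) (nat_lit 43374057572) (nat_lit 76) (nat_lit 5150621637) (nat_lit 76) (nat_lit 2464603946) (nat_lit 4) (nat_lit 4) (nat_lit 5) (nat_lit 5) (nat_lit 5) (nat_lit 4) (nat_lit 336) (nat_lit 229) (nat_lit 215))))))))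
noncomputable def xc31 : XT := (XT.nd (nat_lit 1560) (nat_lit 0) (nat_lit 0) (XT.nd (nat_lit 780) (nat_lit 76) (nat_lit 0) (XT.nd (nat_lit 390) (nat_lit 0) (nat_lit 0) (XT.nd (nat_lit 156) (nat_lit 0) (nat_lit 0) (XT.nd (nat_lit 78) (nat_lit 76) (nat_lit 0) (XT.lf (nat_lit 0) (nat_lit 272070611) (nat_lit 152) (nat_lit 2258797970) (nat_lit 76) (nat_lit 50856635747) (nat_lit 3) (nat_lit 5) (nat_lit 5) (nat_lit 5) (nat_lit 4) (nat_lit 4) (nat_lit 337) (nat_lit 229) (nat_lit 214)) (XT.lf (nat_lit 0) (nat_lit 3046302806) (nat_lit 152) (nat_lit 52612680109) (nat_lit 0) (nat_lit 245491113) (nat_lit 2) (nat_lit 5) (nat_lit 4) (nat_lit 4) (nat_lit 2) (nat_lit 4) (nat_lit 338) (nat_lit 229) (nat_lit 213))) (XT.nd (nat_lit 78) (nat_lit 0) (nat_lit 0) (XT.lf (nat_lit 0) (nat_lit 5968137795) (nat_lit 152) (nat_lit 49524169686) (nat_lit 0) (nat_lit 3054573670) (nat_lit 2) (nat_lit 5) (nat_lit 4) (nat_lit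 4) (nat_lit 2) (nat_lit 4) (nat_lit 339) (nat_lit 229) (nat_lit 212)) (XT.nd (nat_lit 78) (nat_lit 0) (nat_lit 0) (XT.lf (nat_lit 0) (nat_lit 8967988901) (nat_lit 152) (nat_lit 46409813908) (nat_lit 0) (nat_lit 5947041509) (nat_lit 2) (nat_lit 5) (nat_lit 4) (nat_lit 4) (nat_lit 2) (nat_lit 4) (nat_lit 340) (nat_lit 229) (nat_lit 211)) (XT.lf (nat_lit 0) (nat_lit 12052998627) (nat_lit 152) (nat_lit 43262197641) (nat_lit 0) (nat_lit 8929781456) (nat_lit 2) (nat_lit 5) (nat_lit 4) (nat_lit 4) (nat_lit 2) (nat_lit 4) (nat_lit 341) (nat_lit 229) (nat_lit 210))))) (XT.nd (nat_lit 156) (nat_lit 0) (nat_lit 0) (XT.nd (nat_lit 78) (nat_lit 0) (nat_lit 0) (XT.lf (nat_lit 0) (nat_lit 15230512234) (nat_lit 152) (nat_lit 40073826561) (nat_lit 0) (nat_lit 12009895273) (nat_lit 2) (nat_lit 5) (nat_lit 4) (nat_lit 4) (nat_lit 2) (nat_lit 4) (nat_lit 342) (nat_lit 229) (nat_lit 209)) (XT.lf (nat_lit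 0) (nat_lit 18508095230) (nat_lit 152) (nat_lit 36837109308) (nat_lit 0) (nat_lit 15194716566) (nat_lit 2) (nat_lit 5) (nat_lit 4) (nat_lit 4) (nat_lit 2) (nat_lit 4) (nat_lit 343) (nat_lit 229) (nat_lit 208))) (XT.nd (nat_lit 78) (nat_lit 0) (nat_lit 0) (XT.lf (nat_lit 0) (nat_lit 21893551385) (nat_lit 152) (nat_lit 33544339412) (nat_lit 0) (nat_lit 18491828241) (nat_lit 2) (nat_lit 5) (nat_lit 4) (nat_lit 4) (nat_lit 2) (nat_lit 4) (nat_lit 344) (nat_lit 229) (nat_lit 207)) (XT.nd (nat_lit 78) (nat_lit 0) (nat_lit 0) (XT.lf (nat_lit 0) (nat_lit 25394941308) (nat_lit 152) (nat_lit 30187676945) (nat_lit 0) (nat_lit 21909080564) (nat_lit 2) (nat_lit 5) (nat_lit 4) (nat_lit 4) (nat_lit 2) (nat_lit 4) (nat_lit 345) (nat_lit 229) (nat_lit 206)) (XT.lf (nat_lit 0) (nat_lit 29020601643) (nat_lit 152) (nat_lit 26759129854) (nat_lit 0) (nat_lit 25454609851) (nat_lit 2) (nat_lit 5) (nat_lit 4)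 (nat_lit 4) (nat_lit 2) (nat_lit 4) (nat_lit 346) (nat_lit 229) (nat_lit 205)))))) (XT.nd (nat_lit 390) (nat_lit 76) (nat_lit 0) (XT.nd (nat_lit 156) (nat_lit 0) (nat_lit 0) (XT.nd (nat_lit 78) (nat_lit 0) (nat_lit 0) (XT.lf (nat_lit 0) (nat_lit 32779164913) (nat_lit 152) (nat_lit 23250534931) (nat_lit 0) (nat_lit 29136857838) (nat_lit 2) (nat_lit 5) (nat_lit 4) (nat_lit 4) (nat_lit 2) (nat_lit 4) (nat_lit 347) (nat_lit 229) (nat_lit 204)) (XT.lf (nat_lit 0) (nat_lit 36679580080) (nat_lit 152) (nat_lit 19653538379) (nat_lit 0) (nat_lit 32964591782) (nat_lit 2) (nat_lit 5) (nat_lit 4) (nat_lit 4) (nat_lit 2) (nat_lit 4) (nat_lit 348) (nat_lit 229) (nat_lit 203))) (XT.nd (nat_lit 78) (nat_lit 0) (nat_lit 0) (XT.lf (nat_lit 0) (nat_lit 40731133845) (nat_lit 152) (nat_lit 15959575920) (nat_lit 0) (nat_lit 36946925335) (nat_lit 2) (nat_lit 5) (nat_lit 4) (nat_lit 4) (nat_lit 2) (nat_lit 4)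 (nat_lit 349) (nat_lit 229) (nat_lit 202)) (XT.nd (nat_lit 78) (nat_lit 0) (nat_lit 0) (XT.lf (nat_lit 0) (nat_lit 44943472765) (nat_lit 152) (nat_lit 12159852405) (nat_lit 0) (nat_lit 41093340244) (nat_lit 2) (nat_lit 5) (nat_lit 4) (nat_lit 4) (nat_lit 2) (nat_lit 4) (nat_lit 350) (nat_lit 229) (nat_lit 201)) (XT.lf (nat_lit 0) (nat_lit 49326626219) (nat_lit 152) (nat_lit 8245320875) (nat_lit 0) (nat_lit 45413708926) (nat_lit 2) (nat_lit 5) (nat_lit 4) (nat_lit 4) (nat_lit 2) (nat_lit 4) (nat_lit 351) (nat_lit 229) (nat_lit 200))))) (XT.nd (nat_lit 156) (nat_lit 76) (nat_lit 0) (XT.nd (nat_lit 78) (nat_lit 0) (nat_lit 0) (XT.lf (nat_lit 0) (nat_lit 53891030286) (nat_lit 152) (nat_lit 4206661015) (nat_lit 0) (nat_lit 49918317972) (nat_lit 2) (nat_lit 5) (nat_lit 4) (nat_lit 4) (nat_lit 2) (nat_lit 4) (nat_lit 352) (nat_lit 229) (nat_lit 199)) (XT.lf (nat_lit 0) (nat_lit 58647552596)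 (nat_lit 152) (nat_lit 34256969) (nat_lit 0) (nat_lit 54617892641) (nat_lit 2) (nat_lit 5) (nat_lit 4) (nat_lit 4) (nat_lit 2) (nat_lit 4) (nat_lit 353) (nat_lit 229) (nat_lit 198))) (XT.nd (nat_lit 78) (nat_lit 0) (nat_lit 0) (XT.lf (nat_lit 0) (nat_lit 4423402048) (nat_lit 76) (nat_lit 59253177854) (nat_lit 76) (nat_lit 55169282053) (nat_lit 1) (nat_lit 4) (nat_lit 2) (nat_lit 5) (nat_lit 2) (nat_lit 4) (nat_lit 354) (nat_lit 229) (nat_lit 197)) (XT.nd (nat_lit 78) (nat_lit 0) (nat_lit 0) (XT.lf (nat_lit 0) (nat_lit 9041239068) (nat_lit 76) (nat_lit 59882656554) (nat_lit 76) (nat_lit 55747107564) (nat_lit 1) (nat_lit 4) (nat_lit 2) (nat_lit 5) (nat_lit 2) (nat_lit 4) (nat_lit 355) (nat_lit 229) (nat_lit 196)) (XT.lf (nat_lit 0) (nat_lit 13829116250) (nat_lit 76) (nat_lit 60572324580) (nat_lit 76) (nat_lit 56387582079) (nat_lit 1) (nat_lit 4) (nat_lit 2) (nat_lit 5) (nat_lit 2) (nat_lit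 4) (nat_lit 356) (nat_lit 229) (nat_lit 195))))))) (XT.nd (nat_lit 780) (nat_lit 0) (nat_lit 0) (XT.nd (nat_lit 390) (nat_lit 0) (nat_lit 0) (XT.nd (nat_lit 156) (nat_lit 0) (nat_lit 0) (XT.nd (nat_lit 78) (nat_lit 0) (nat_lit 0) (XT.lf (nat_lit 0) (nat_lit 18798433300) (nat_lit 76) (nat_lit 61323824001) (nat_lit 76) (nat_lit 57092230535) (nat_lit 1) (nat_lit 4) (nat_lit 2) (nat_lit 5) (nat_lit 2) (nat_lit 4) (nat_lit 357) (nat_lit 229) (nat_lit 194)) (XT.lf (nat_lit 0) (nat_lit 23961021928) (nat_lit 76) (nat_lit 62138944100) (nat_lit 76) (nat_lit 57862730669) (nat_lit 1) (nat_lit 4) (nat_lit 2) (nat_lit 5) (nat_lit 2) (nat_lit 4) (nat_lit 358) (nat_lit 229) (nat_lit 193))) (XT.nd (nat_lit 78) (nat_lit 0) (nat_lit 0) (XT.lf (nat_lit 0) (nat_lit 29329174010) (nat_lit 76) (nat_lit 63019625639) (nat_lit 76) (nat_lit 58700917002) (nat_lit 1) (nat_lit 4) (nat_lit 2) (nat_lit 5) (nat_lit 2)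 (nat_lit 4) (nat_lit 359) (nat_lit 229) (nat_lit 192)) (XT.nd (nat_lit 78) (nat_lit 0) (nat_lit 0) (XT.lf (nat_lit 0) (nat_lit 34915670860) (nat_lit 76) (nat_lit 63967965480) (nat_lit 76) (nat_lit 59608785219) (nat_lit 1) (nat_lit 4) (nat_lit 2) (nat_lit 5) (nat_lit 2) (nat_lit 4) (nat_lit 360) (nat_lit 229) (nat_lit 191)) (XT.lf (nat_lit 0) (nat_lit 40733813662) (nat_lit 76) (nat_lit 64986221574) (nat_lit 76) (nat_lit 60588496909) (nat_lit 1) (nat_lit 4) (nat_lit 2) (nat_lit 5) (nat_lit 2) (nat_lit 4) (nat_lit 361) (nat_lit 229) (nat_lit 190))))) (XT.nd (nat_lit 156) (nat_lit 0) (nat_lit 0) (XT.nd (nat_lit 78) (nat_lit 0) (nat_lit 0) (XT.lf (nat_lit 0) (nat_lit 46797455137) (nat_lit 76) (nat_lit 66076818340) (nat_lit 76) (nat_lit 61642384719) (nat_lit 1) (nat_lit 4) (nat_lit 2) (nat_lit 5) (nat_lit 2) (nat_lit 4) (nat_lit 362) (nat_lit 229) (nat_lit 189)) (XT.lf (nat_lit 0) (nat_lit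 53121032526) (nat_lit 76) (nat_lit 67242352438) (nat_lit 76) (nat_lit 62772957906) (nat_lit 1) (nat_lit 4) (nat_lit 2) (nat_lit 5) (nat_lit 2) (nat_lit 4) (nat_lit 363) (nat_lit 229) (nat_lit 188))) (XT.nd (nat_lit 78) (nat_lit 0) (nat_lit 0) (XT.lf (nat_lit 0) (nat_lit 59719601967) (nat_lit 76) (nat_lit 68485598948) (nat_lit 76) (nat_lit 63982908311) (nat_lit 1) (nat_lit 4) (nat_lit 2) (nat_lit 5) (nat_lit 2) (nat_lit 4) (nat_lit 364) (nat_lit 229) (nat_lit 187)) (XT.nd (nat_lit 78) (nat_lit 0) (nat_lit 0) (XT.lf (nat_lit 0) (nat_lit 66608874337) (nat_lit 76) (nat_lit 69809517982) (nat_lit 76) (nat_lit 65275116769) (nat_lit 1) (nat_lit 4) (nat_lit 2) (nat_lit 5) (nat_lit 2) (nat_lit 4) (nat_lit 365) (nat_lit 229) (nat_lit 186)) (XT.lf (nat_lit 0) (nat_lit 73805252668) (nat_lit 76) (nat_lit 71217261728) (nat_lit 76) (nat_lit 66652659965) (nat_lit 1) (nat_lit 4) (nat_lit 2) (nat_lit 5)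 (nat_lit 2) (nat_lit 4) (nat_lit 366) (nat_lit 229) (nat_lit 185)))))) (XT.nd (nat_lit 390) (nat_lit 0) (nat_lit 0) (XT.nd (nat_lit 156) (nat_lit 0) (nat_lit 0) (XT.nd (nat_lit 78) (nat_lit 0) (nat_lit 0) (XT.lf (nat_lit 0) (nat_lit 81325871193) (nat_lit 76) (nat_lit 72712181956) (nat_lit 76) (nat_lit 68118817765) (nat_lit 1) (nat_lit 4) (nat_lit 2) (nat_lit 5) (nat_lit 2) (nat_lit 4) (nat_lit 367) (nat_lit 229) (nat_lit 184)) (XT.lf (nat_lit 0) (nat_lit 89188636147) (nat_lit 76) (nat_lit 74297838000) (nat_lit 76) (nat_lit 69677081021) (nat_lit 1) (nat_lit 4) (nat_lit 2) (nat_lit 5) (nat_lit 2) (nat_lit 4) (nat_lit 368) (nat_lit 229) (nat_lit 183))) (XT.nd (nat_lit 78) (nat_lit 0) (nat_lit 0) (XT.lf (nat_lit 0) (nat_lit 97412268398) (nat_lit 76) (nat_lit 75978005232) (nat_lit 76) (nat_lit 71331159883) (nat_lit 1) (nat_lit 4) (nat_lit 2) (nat_lit 5) (nat_lit 2) (nat_lit 4) (nat_lit 369)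 (nat_lit 229) (nat_lit 182)) (XT.nd (nat_lit 78) (nat_lit 0) (nat_lit 0) (XT.lf (nat_lit 0) (nat_lit 106016348024) (nat_lit 76) (nat_lit 77756684050) (nat_lit 76) (nat_lit 73084992635) (nat_lit 1) (nat_lit 4) (nat_lit 2) (nat_lit 5) (nat_lit 2) (nat_lit 4) (nat_lit 370) (nat_lit 229) (nat_lit 181)) (XT.lf (nat_lit 0) (nat_lit 115021360928) (nat_lit 76) (nat_lit 79638109404) (nat_lit 76) (nat_lit 74942755068) (nat_lit 1) (nat_lit 4) (nat_lit 2) (nat_lit 5) (nat_lit 2) (nat_lit 4) (nat_lit 371) (nat_lit 229) (nat_lit 180))))) (XT.nd (nat_lit 234) (nat_lit 0) (nat_lit 0) (XT.nd (nat_lit 78) (nat_lit 0) (nat_lit 0) (XT.lf (nat_lit 0) (nat_lit 124448747618) (nat_lit 76) (nat_lit 81626760877) (nat_lit 76) (nat_lit 76908870427) (nat_lit 1) (nat_lit 4) (nat_lit 2) (nat_lit 5) (nat_lit 2) (nat_lit 4) (nat_lit 372) (nat_lit 229) (nat_lit 179)) (XT.nd (nat_lit 78) (nat_lit 0) (nat_lit 0) (XT.lf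 (nat_lit 0) (nat_lit 134320954251) (nat_lit 76) (nat_lit 83727373355) (nat_lit 76) (nat_lit 78988019938) (nat_lit 1) (nat_lit 4) (nat_lit 2) (nat_lit 5) (nat_lit 2) (nat_lit 4) (nat_lit 373) (nat_lit 229) (nat_lit 178)) (XT.lf (nat_lit 0) (nat_lit 144661486082) (nat_lit 76) (nat_lit 85944948295) (nat_lit 76) (nat_lit 81185153957) (nat_lit 1) (nat_lit 4) (nat_lit 2) (nat_lit 5) (nat_lit 2) (nat_lit 4) (nat_lit 374) (nat_lit 229) (nat_lit 177)))) (XT.nd (nat_lit 78) (nat_lit 0) (nat_lit 0) (XT.lf (nat_lit 0) (nat_lit 155494963425) (nat_lit 76) (nat_lit 88284765637) (nat_lit 76) (nat_lit 83505503757) (nat_lit 1) (nat_lit 4) (nat_lit 2) (nat_lit 5) (nat_lit 2) (nat_lit 4) (nat_lit 375) (nat_lit 229) (nat_lit 176)) (XT.nd (nat_lit 78) (nat_lit 0) (nat_lit 0) (XT.lf (nat_lit 0) (nat_lit 166847180274) (nat_lit 76) (nat_lit 90752396377) (nat_lit 76) (nat_lit 85954593979) (nat_lit 1) (nat_lit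 4) (nat_lit 2) (nat_lit 5) (nat_lit 2) (nat_lit 4) (nat_lit 376) (nat_lit 229) (nat_lit 175)) (XT.lf (nat_lit 0) (nat_lit 178745165716) (nat_lit 76) (nat_lit 93353715824) (nat_lit 76) (nat_lit 88538255791) (nat_lit 1) (nat_lit 4) (nat_lit 2) (nat_lit 5) (nat_lit 2) (nat_lit 4) (nat_lit 377) (nat_lit 229) (nat_lit 174))))))))
noncomputable def xc32 : XT := (XT.nd (nat_lit 36504) (nat_lit 0) (nat_lit 76) (XT.nd (nat_lit 780) (nat_lit 0) (nat_lit 0) (XT.nd (nat_lit 390) (nat_lit 0) (nat_lit 0) (XT.nd (nat_lit 156) (nat_lit 0) (nat_lit 0) (XT.nd (nat_lit 78) (nat_lit 0) (nat_lit 0) (XT.lf (nat_lit 0) (nat_lit 191217248288) (nat_lit 76) (nat_lit 96094917596) (nat_lit 76) (nat_lit 91262640767) (nat_lit 1) (nat_lit 4) (nat_lit 2) (nat_lit 5) (nat_lit 2) (nat_lit 4) (nat_lit 378) (nat_lit 229) (nat_lit 173)) (XT.lf (nat_lit 0) (nat_lit 204293123424) (nat_lit 76) (nat_lit 98982528365) (nat_lit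 76) (nat_lit 94134235540) (nat_lit 1) (nat_lit 4) (nat_lit 2) (nat_lit 5) (nat_lit 2) (nat_lit 4) (nat_lit 379) (nat_lit 229) (nat_lit 172))) (XT.nd (nat_lit 78) (nat_lit 0) (nat_lit 0) (XT.lf (nat_lit 0) (nat_lit 218003924161) (nat_lit 76) (nat_lit 102023423395) (nat_lit 76) (nat_lit 97159877240) (nat_lit 1) (nat_lit 4) (nat_lit 2) (nat_lit 5) (nat_lit 2) (nat_lit 4) (nat_lit 380) (nat_lit 229) (nat_lit 171)) (XT.nd (nat_lit 78) (nat_lit 0) (nat_lit 0) (XT.lf (nat_lit 0) (nat_lit 232382295263) (nat_lit 76) (nat_lit 105224842910) (nat_lit 76) (nat_lit 100346769775) (nat_lit 1) (nat_lit 4) (nat_lit 2) (nat_lit 5) (nat_lit 2) (nat_lit 4) (nat_lit 381) (nat_lit 229) (nat_lit 170)) (XT.lf (nat_lit 0) (nat_lit 247462470946) (nat_lit 76) (nat_lit 108594409339) (nat_lit 76) (nat_lit 103702500985) (nat_lit 1) (nat_lit 4) (nat_lit 2) (nat_lit 5) (nat_lit 2) (nat_lit 4) (nat_lit 382) (nat_lit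 229) (nat_lit 169))))) (XT.nd (nat_lit 156) (nat_lit 0) (nat_lit 0) (XT.nd (nat_lit 78) (nat_lit 0) (nat_lit 0) (XT.lf (nat_lit 0) (nat_lit 263280356390) (nat_lit 76) (nat_lit 112140145460) (nat_lit 76) (nat_lit 107235060705) (nat_lit 1) (nat_lit 4) (nat_lit 2) (nat_lit 5) (nat_lit 2) (nat_lit 4) (nat_lit 383) (nat_lit 229) (nat_lit 168)) (XT.lf (nat_lit 0) (nat_lit 279873613228) (nat_lit 76) (nat_lit 115870493500) (nat_lit 76) (nat_lit 110952859794) (nat_lit 1) (nat_lit 4) (nat_lit 2) (nat_lit 5) (nat_lit 2) (nat_lit 4) (nat_lit 384) (nat_lit 229) (nat_lit 167))) (XT.nd (nat_lit 78) (nat_lit 0) (nat_lit 0) (XT.lf (nat_lit 0) (nat_lit 297281749213) (nat_lit 76) (nat_lit 119794335241) (nat_lit 76) (nat_lit 114864750152) (nat_lit 1) (nat_lit 4) (nat_lit 2) (nat_lit 5) (nat_lit 2) (nat_lit 4) (nat_lit 385) (nat_lit 229) (nat_lit 166)) (XT.nd (nat_lit 78) (nat_lit 0) (nat_lit 0) (XT.lf (nat_lit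 0) (nat_lit 315546212290) (nat_lit 76) (nat_lit 123921013163) (nat_lit 76) (nat_lit 118980045805) (nat_lit 1) (nat_lit 4) (nat_lit 2) (nat_lit 5) (nat_lit 2) (nat_lit 4) (nat_lit 386) (nat_lit 229) (nat_lit 165)) (XT.lf (nat_lit 0) (nat_lit 334710489273) (nat_lit 76) (nat_lit 128260352690) (nat_lit 76) (nat_lit 123308545076) (nat_lit 1) (nat_lit 4) (nat_lit 2) (nat_lit 5) (nat_lit 2) (nat_lit 4) (nat_lit 387) (nat_lit 229) (nat_lit 164)))))) (XT.nd (nat_lit 35334) (nat_lit 0) (nat_lit 456) (XT.nd (nat_lit 156) (nat_lit 0) (nat_lit 0) (XT.nd (nat_lit 78) (nat_lit 0) (nat_lit 0) (XT.lf (nat_lit 0) (nat_lit 354820209396) (nat_lit 76) (nat_lit 132822685583) (nat_lit 76) (nat_lit 127860553915) (nat_lit 1) (nat_lit 4) (nat_lit 2) (nat_lit 5) (nat_lit 2) (nat_lit 4) (nat_lit 388) (nat_lit 229) (nat_lit 163)) (XT.lf (nat_lit 0) (nat_lit 375923252942) (nat_lit 76) (nat_lit 137618874539) (nat_lit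 76) (nat_lit 132646910438) (nat_lit 1) (nat_lit 4) (nat_lit 2) (nat_lit 5) (nat_lit 2) (nat_lit 4) (nat_lit 389) (nat_lit 229) (nat_lit 162))) (XT.nd (nat_lit 78) (nat_lit 0) (nat_lit 0) (XT.lf (nat_lit 0) (nat_lit 398069865255) (nat_lit 76) (nat_lit 142660339055) (nat_lit 76) (nat_lit 137679010733) (nat_lit 1) (nat_lit 4) (nat_lit 2) (nat_lit 5) (nat_lit 2) (nat_lit 4) (nat_lit 390) (nat_lit 229) (nat_lit 161)) (XT.nd (nat_lit 78) (nat_lit 0) (nat_lit 0) (XT.lf (nat_lit 0) (nat_lit 421312776364) (nat_lit 76) (nat_lit 147959082619) (nat_lit 76) (nat_lit 142968835992) (nat_lit 1) (nat_lit 4) (nat_lit 2) (nat_lit 5) (nat_lit 2) (nat_lit 4) (nat_lit 391) (nat_lit 229) (nat_lit 160)) (XT.lf (nat_lit 0) (nat_lit 445707326533) (nat_lit 76) (nat_lit 153527721287) (nat_lit 76) (nat_lit 148528981034) (nat_lit 1) (nat_lit 4) (nat_lit 2) (nat_lit 5) (nat_lit 2) (nat_lit 4) (nat_lit 392) (nat_lit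 229) (nat_lit 159))))) (XT.nd (nat_lit 156) (nat_lit 0) (nat_lit 0) (XT.nd (nat_lit 78) (nat_lit 76) (nat_lit 0) (XT.lf (nat_lit 0) (nat_lit 4838231440) (nat_lit 152) (nat_lit 3024483200) (nat_lit 0) (nat_lit 4838231440) (nat_lit 8) (nat_lit 5) (nat_lit 10) (nat_lit 4) (nat_lit 8) (nat_lit 4) (nat_lit 320) (nat_lit 230) (nat_lit 230)) (XT.lf (nat_lit 0) (nat_lit 1307922973) (nat_lit 76) (nat_lit 12719065019) (nat_lit 76) (nat_lit 12434145241) (nat_lit 7) (nat_lit 4) (nat_lit 8) (nat_lit 5) (nat_lit 8) (nat_lit 4) (nat_lit 321) (nat_lit 230) (nat_lit 229))) (XT.nd (nat_lit 78) (nat_lit 0) (nat_lit 0) (XT.lf (nat_lit 0) (nat_lit 8994857502) (nat_lit 76) (nat_lit 9568214886) (nat_lit 76) (nat_lit 9011942939) (nat_lit 7) (nat_lit 4) (nat_lit 8) (nat_lit 5) (nat_lit 8) (nat_lit 4) (nat_lit 322) (nat_lit 230) (nat_lit 228)) (XT.nd (nat_lit 78) (nat_lit 0) (nat_lit 0) (XT.lf (nat_lit 0) (nat_lit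 16830133263) (nat_lit 76) (nat_lit 6367819031) (nat_lit 76) (nat_lit 5553116447) (nat_lit 7) (nat_lit 4) (nat_lit 8) (nat_lit 5) (nat_lit 8) (nat_lit 4) (nat_lit 323) (nat_lit 230) (nat_lit 227)) (XT.lf (nat_lit 0) (nat_lit 24832405677) (nat_lit 76) (nat_lit 3110257463) (nat_lit 76) (nat_lit 2049430463) (nat_lit 7) (nat_lit 4) (nat_lit 8) (nat_lit 5) (nat_lit 8) (nat_lit 4) (nat_lit 324) (nat_lit 230) (nat_lit 226))))))) (XT.nd (nat_lit 780) (nat_lit 152) (nat_lit 0) (XT.nd (nat_lit 390) (nat_lit 76) (nat_lit 0) (XT.nd (nat_lit 156) (nat_lit 0) (nat_lit 0) (XT.nd (nat_lit 78) (nat_lit 0) (nat_lit 0) (XT.lf (nat_lit 0) (nat_lit 1490714046) (nat_lit 152) (nat_lit 29550418142) (nat_lit 0) (nat_lit 257160516) (nat_lit 5) (nat_lit 5) (nat_lit 7) (nat_lit 4) (nat_lit 5) (nat_lit 4) (nat_lit 325) (nat_lit 230) (nat_lit 225)) (XT.lf (nat_lit 0) (nat_lit 5161447493) (nat_lit 152) (nat_lit 23790332333)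 (nat_lit 0) (nat_lit 3715282438) (nat_lit 5) (nat_lit 5) (nat_lit 7) (nat_lit 4) (nat_lit 5) (nat_lit 4) (nat_lit 326) (nat_lit 230) (nat_lit 224))) (XT.nd (nat_lit 78) (nat_lit 0) (nat_lit 0) (XT.lf (nat_lit 0) (nat_lit 8903959409) (nat_lit 152) (nat_lit 17950651775) (nat_lit 0) (nat_lit 7255307188) (nat_lit 5) (nat_lit 5) (nat_lit 7) (nat_lit 4) (nat_lit 5) (nat_lit 4) (nat_lit 327) (nat_lit 230) (nat_lit 223)) (XT.nd (nat_lit 78) (nat_lit 0) (nat_lit 0) (XT.lf (nat_lit 0) (nat_lit 12727160538) (nat_lit 152) (nat_lit 12017472465) (nat_lit 0) (nat_lit 10885663396) (nat_lit 5) (nat_lit 5) (nat_lit 7) (nat_lit 4) (nat_lit 5) (nat_lit 4) (nat_lit 328) (nat_lit 230) (nat_lit 222)) (XT.lf (nat_lit 0) (nat_lit 16640153739) (nat_lit 152) (nat_lit 5976667787) (nat_lit 0) (nat_lit 14614994768) (nat_lit 5) (nat_lit 5) (nat_lit 7) (nat_lit 4) (nat_lit 5) (nat_lit 4) (nat_lit 329) (nat_lit 230)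 (nat_lit 221))))) (XT.nd (nat_lit 156) (nat_lit 0) (nat_lit 0) (XT.nd (nat_lit 78) (nat_lit 0) (nat_lit 0) (XT.lf (nat_lit 0) (nat_lit 192299926) (nat_lit 76) (nat_lit 20462958076) (nat_lit 76) (nat_lit 18262883078) (nat_lit 4) (nat_lit 4) (nat_lit 5) (nat_lit 5) (nat_lit 5) (nat_lit 4) (nat_lit 330) (nat_lit 230) (nat_lit 220)) (XT.lf (nat_lit 0) (nat_lit 6700084181) (nat_lit 76) (nat_lit 18177541841) (nat_lit 76) (nat_lit 15810880150) (nat_lit 4) (nat_lit 4) (nat_lit 5) (nat_lit 5) (nat_lit 5) (nat_lit 4) (nat_lit 331) (nat_lit 230) (nat_lit 219))) (XT.nd (nat_lit 78) (nat_lit 0) (nat_lit 0) (XT.lf (nat_lit 0) (nat_lit 13364564072) (nat_lit 76) (nat_lit 15856349115) (nat_lit 76) (nat_lit 13331033430) (nat_lit 4) (nat_lit 4) (nat_lit 5) (nat_lit 5) (nat_lit 5) (nat_lit 4) (nat_lit 332) (nat_lit 230) (nat_lit 218)) (XT.nd (nat_lit 78) (nat_lit 0) (nat_lit 0) (XT.lf (nat_lit 0) (nat_lit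 20201607409) (nat_lit 76) (nat_lit 13493853249) (nat_lit 76) (nat_lit 10817438523) (nat_lit 4) (nat_lit 4) (nat_lit 5) (nat_lit 5) (nat_lit 5) (nat_lit 4) (nat_lit 333) (nat_lit 230) (nat_lit 217)) (XT.lf (nat_lit 0) (nat_lit 27227492866) (nat_lit 76) (nat_lit 11084429251) (nat_lit 76) (nat_lit 8264110676) (nat_lit 4) (nat_lit 4) (nat_lit 5) (nat_lit 5) (nat_lit 5) (nat_lit 4) (nat_lit 334) (nat_lit 230) (nat_lit 216)))))) (XT.nd (nat_lit 390) (nat_lit 0) (nat_lit 0) (XT.nd (nat_lit 156) (nat_lit 152) (nat_lit 0) (XT.nd (nat_lit 78) (nat_lit 0) (nat_lit 0) (XT.lf (nat_lit 0) (nat_lit 34458948742) (nat_lit 76) (nat_lit 8622340399) (nat_lit 76) (nat_lit 5664970540) (nat_lit 4) (nat_lit 4) (nat_lit 5) (nat_lit 5) (nat_lit 5) (nat_lit 4) (nat_lit 335) (nat_lit 230) (nat_lit 215)) (XT.lf (nat_lit 0) (nat_lit 41913192789) (nat_lit 76) (nat_lit 6101724577) (nat_lit 76) (nat_lit 3013829684)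 (nat_lit 4) (nat_lit 4) (nat_lit 5) (nat_lit 5) (nat_lit 5) (nat_lit 4) (nat_lit 336) (nat_lit 230) (nat_lit 214))) (XT.nd (nat_lit 78) (nat_lit 152) (nat_lit 0) (XT.lf (nat_lit 0) (nat_lit 49607973208) (nat_lit 76) (nat_lit 3516580317) (nat_lit 76) (nat_lit 304375869) (nat_lit 4) (nat_lit 4) (nat_lit 5) (nat_lit 5) (nat_lit 5) (nat_lit 4) (nat_lit 337) (nat_lit 230) (nat_lit 213)) (XT.nd (nat_lit 78) (nat_lit 0) (nat_lit 0) (XT.lf (nat_lit 0) (nat_lit 1622457073) (nat_lit 76) (nat_lit 793665645) (nat_lit 152) (nat_lit 53533204102) (nat_lit 2) (nat_lit 5) (nat_lit 3) (nat_lit 5) (nat_lit 4) (nat_lit 4) (nat_lit 338) (nat_lit 230) (nat_lit 212)) (XT.lf (nat_lit 0) (nat_lit 5292358737) (nat_lit 152) (nat_lit 51288690011) (nat_lit 0) (nat_lit 2012980707) (nat_lit 2) (nat_lit 5) (nat_lit 4) (nat_lit 4) (nat_lit 2) (nat_lit 4) (nat_lit 339) (nat_lit 230) (nat_lit 211))))) (XT.nd (nat_lit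 156) (nat_lit 0) (nat_lit 0) (XT.nd (nat_lit 78) (nat_lit 0) (nat_lit 0) (XT.lf (nat_lit 0) (nat_lit 8260583533) (nat_lit 152) (nat_lit 48234069502) (nat_lit 0) (nat_lit 4878935724) (nat_lit 2) (nat_lit 5) (nat_lit 4) (nat_lit 4) (nat_lit 2) (nat_lit 4) (nat_lit 340) (nat_lit 230) (nat_lit 210)) (XT.lf (nat_lit 0) (nat_lit 11315472963) (nat_lit 152) (nat_lit 45143343966) (nat_lit 0) (nat_lit 7836425366) (nat_lit 2) (nat_lit 5) (nat_lit 4) (nat_lit 4) (nat_lit 2) (nat_lit 4) (nat_lit 341) (nat_lit 230) (nat_lit 209))) (XT.nd (nat_lit 78) (nat_lit 0) (nat_lit 0) (XT.lf (nat_lit 0) (nat_lit 14464300575) (nat_lit 152) (nat_lit 42009154535) (nat_lit 0) (nat_lit 10892491273) (nat_lit 2) (nat_lit 5) (nat_lit 4) (nat_lit 4) (nat_lit 2) (nat_lit 4) (nat_lit 342) (nat_lit 230) (nat_lit 208)) (XT.nd (nat_lit 78) (nat_lit 0) (nat_lit 0) (XT.lf (nat_lit 0) (nat_lit 17714563575) (nat_lit 152) (nat_lit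 38824038853) (nat_lit 0) (nat_lit 14054409793) (nat_lit 2) (nat_lit 5) (nat_lit 4) (nat_lit 4) (nat_lit 2) (nat_lit 4) (nat_lit 343) (nat_lit 230) (nat_lit 207)) (XT.lf (nat_lit 0) (nat_lit 21074000686) (nat_lit 152) (nat_lit 35580413310) (nat_lit 0) (nat_lit 17329709305) (nat_lit 2) (nat_lit 5) (nat_lit 4) (nat_lit 4) (nat_lit 2) (nat_lit 4) (nat_lit 344) (nat_lit 230) (nat_lit 206))))))))
noncomputable def xc33 : XT := (XT.nd (nat_lit 1560) (nat_lit 0) (nat_lit 0) (XT.nd (nat_lit 780) (nat_lit 0) (nat_lit 0) (XT.nd (nat_lit 390) (nat_lit 76) (nat_lit 0) (XT.nd (nat_lit 156) (nat_lit 0) (nat_lit 0) (XT.nd (nat_lit 78) (nat_lit 0) (nat_lit 0) (XT.lf (nat_lit 0) (nat_lit 24550610568) (nat_lit 152) (nat_lit 32270554989) (nat_lit 0) (nat_lit 20726188139) (nat_lit 2) (nat_lit 5) (nat_lit 4) (nat_lit 4) (nat_lit 2) (nat_lit 4) (nat_lit 345) (nat_lit 230) (nat_lit 205)) (XT.lf (nat_lit 0)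 (nat_lit 28152670864) (nat_lit 152) (nat_lit 28886583275) (nat_lit 0) (nat_lit 24251933151) (nat_lit 2) (nat_lit 5) (nat_lit 4) (nat_lit 4) (nat_lit 2) (nat_lit 4) (nat_lit 346) (nat_lit 230) (nat_lit 204))) (XT.nd (nat_lit 78) (nat_lit 0) (nat_lit 0) (XT.lf (nat_lit 0) (nat_lit 31888757906) (nat_lit 152) (nat_lit 25420441092) (nat_lit 0) (nat_lit 27915338971) (nat_lit 2) (nat_lit 5) (nat_lit 4) (nat_lit 4) (nat_lit 2) (nat_lit 4) (nat_lit 347) (nat_lit 230) (nat_lit 203)) (XT.nd (nat_lit 78) (nat_lit 0) (nat_lit 0) (XT.lf (nat_lit 0) (nat_lit 35767767141) (nat_lit 152) (nat_lit 21863875721) (nat_lit 0) (nat_lit 31725127994) (nat_lit 2) (nat_lit 5) (nat_lit 4) (nat_lit 4) (nat_lit 2) (nat_lit 4) (nat_lit 348) (nat_lit 230) (nat_lit 202)) (XT.lf (nat_lit 0) (nat_lit 39798934304) (nat_lit 152) (nat_lit 18208419148) (nat_lit 0) (nat_lit 35690371146) (nat_lit 2) (nat_lit 5) (nat_lit 4) (nat_lit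 4) (nat_lit 2) (nat_lit 4) (nat_lit 349) (nat_lit 230) (nat_lit 201))))) (XT.nd (nat_lit 156) (nat_lit 76) (nat_lit 0) (XT.nd (nat_lit 78) (nat_lit 0) (nat_lit 0) (XT.lf (nat_lit 0) (nat_lit 43991857414) (nat_lit 152) (nat_lit 14445367907) (nat_lit 0) (nat_lit 39820509483) (nat_lit 2) (nat_lit 5) (nat_lit 4) (nat_lit 4) (nat_lit 2) (nat_lit 4) (nat_lit 350) (nat_lit 230) (nat_lit 200)) (XT.lf (nat_lit 0) (nat_lit 48356519619) (nat_lit 152) (nat_lit 10565762350) (nat_lit 0) (nat_lit 44125376667) (nat_lit 2) (nat_lit 5) (nat_lit 4) (nat_lit 4) (nat_lit 2) (nat_lit 4) (nat_lit 351) (nat_lit 230) (nat_lit 199))) (XT.nd (nat_lit 78) (nat_lit 76) (nat_lit 0) (XT.lf (nat_lit 0) (nat_lit 52903312974) (nat_lit 152) (nat_lit 6560365323) (nat_lit 0) (nat_lit 48615222382) (nat_lit 2) (nat_lit 5) (nat_lit 4) (nat_lit 4) (nat_lit 2) (nat_lit 4) (nat_lit 352) (nat_lit 230) (nat_lit 198)) (XT.nd (nat_lit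 78) (nat_lit 76) (nat_lit 0) (XT.lf (nat_lit 0) (nat_lit 57643063176) (nat_lit 152) (nat_lit 2419640165) (nat_lit 0) (nat_lit 53300736737) (nat_lit 2) (nat_lit 5) (nat_lit 4) (nat_lit 4) (nat_lit 2) (nat_lit 4) (nat_lit 353) (nat_lit 230) (nat_lit 197)) (XT.lf (nat_lit 0) (nat_lit 1927979372) (nat_lit 76) (nat_lit 60689177133) (nat_lit 76) (nat_lit 56295197506) (nat_lit 1) (nat_lit 4) (nat_lit 2) (nat_lit 5) (nat_lit 2) (nat_lit 4) (nat_lit 354) (nat_lit 230) (nat_lit 196)))))) (XT.nd (nat_lit 390) (nat_lit 0) (nat_lit 0) (XT.nd (nat_lit 156) (nat_lit 0) (nat_lit 0) (XT.nd (nat_lit 78) (nat_lit 0) (nat_lit 0) (XT.lf (nat_lit 0) (nat_lit 6516132641) (nat_lit 76) (nat_lit 61332663341) (nat_lit 76) (nat_lit 56889490202) (nat_lit 1) (nat_lit 4) (nat_lit 2) (nat_lit 5) (nat_lit 2) (nat_lit 4) (nat_lit 355) (nat_lit 230) (nat_lit 195)) (XT.lf (nat_lit 0) (nat_lit 11275739584) (nat_lit 76)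 (nat_lit 62035671852) (nat_lit 76) (nat_lit 57545647749) (nat_lit 1) (nat_lit 4) (nat_lit 2) (nat_lit 5) (nat_lit 2) (nat_lit 4) (nat_lit 356) (nat_lit 230) (nat_lit 194))) (XT.nd (nat_lit 78) (nat_lit 0) (nat_lit 0) (XT.lf (nat_lit 0) (nat_lit 16218132598) (nat_lit 76) (nat_lit 62799876495) (nat_lit 76) (nat_lit 58265232427) (nat_lit 1) (nat_lit 4) (nat_lit 2) (nat_lit 5) (nat_lit 2) (nat_lit 4) (nat_lit 357) (nat_lit 230) (nat_lit 193)) (XT.nd (nat_lit 78) (nat_lit 0) (nat_lit 0) (XT.lf (nat_lit 0) (nat_lit 21355079285) (nat_lit 76) (nat_lit 63627096807) (nat_lit 76) (nat_lit 59049957533) (nat_lit 1) (nat_lit 4) (nat_lit 2) (nat_lit 5) (nat_lit 2) (nat_lit 4) (nat_lit 358) (nat_lit 230) (nat_lit 192)) (XT.lf (nat_lit 0) (nat_lit 26698810471) (nat_lit 76) (nat_lit 64519302358) (nat_lit 76) (nat_lit 59901691460) (nat_lit 1) (nat_lit 4) (nat_lit 2) (nat_lit 5) (nat_lit 2) (nat_lit 4)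 (nat_lit 359) (nat_lit 230) (nat_lit 191))))) (XT.nd (nat_lit 156) (nat_lit 0) (nat_lit 0) (XT.nd (nat_lit 78) (nat_lit 0) (nat_lit 0) (XT.lf (nat_lit 0) (nat_lit 32262049326) (nat_lit 76) (nat_lit 65478617448) (nat_lit 76) (nat_lit 60822462146) (nat_lit 1) (nat_lit 4) (nat_lit 2) (nat_lit 5) (nat_lit 2) (nat_lit 4) (nat_lit 360) (nat_lit 230) (nat_lit 190)) (XT.lf (nat_lit 0) (nat_lit 38058041657) (nat_lit 76) (nat_lit 66507326160) (nat_lit 76) (nat_lit 61814461902) (nat_lit 1) (nat_lit 4) (nat_lit 2) (nat_lit 5) (nat_lit 2) (nat_lit 4) (nat_lit 361) (nat_lit 230) (nat_lit 189))) (XT.nd (nat_lit 78) (nat_lit 0) (nat_lit 0) (XT.lf (nat_lit 0) (nat_lit 44100587444) (nat_lit 76) (nat_lit 67607877801) (nat_lit 76) (nat_lit 62880052632) (nat_lit 1) (nat_lit 4) (nat_lit 2) (nat_lit 5) (nat_lit 2) (nat_lit 4) (nat_lit 362) (nat_lit 230) (nat_lit 188)) (XT.nd (nat_lit 78) (nat_lit 0) (nat_lit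 0) (XT.lf (nat_lit 0) (nat_lit 50404073702) (nat_lit 76) (nat_lit 68782892732) (nat_lit 76) (nat_lit 64021771458) (nat_lit 1) (nat_lit 4) (nat_lit 2) (nat_lit 5) (nat_lit 2) (nat_lit 4) (nat_lit 363) (nat_lit 230) (nat_lit 187)) (XT.lf (nat_lit 0) (nat_lit 56983508732) (nat_lit 76) (nat_lit 70035168608) (nat_lit 76) (nat_lit 65242336757) (nat_lit 1) (nat_lit 4) (nat_lit 2) (nat_lit 5) (nat_lit 2) (nat_lit 4) (nat_lit 364) (nat_lit 230) (nat_lit 186))))))) (XT.nd (nat_lit 780) (nat_lit 0) (nat_lit 0) (XT.nd (nat_lit 390) (nat_lit 0) (nat_lit 0) (XT.nd (nat_lit 156) (nat_lit 0) (nat_lit 0) (XT.nd (nat_lit 78) (nat_lit 0) (nat_lit 0) (XT.lf (nat_lit 0) (nat_lit 63854557855) (nat_lit 76) (nat_lit 71367687037) (nat_lit 76) (nat_lit 66544654637) (nat_lit 1) (nat_lit 4) (nat_lit 2) (nat_lit 5) (nat_lit 2) (nat_lit 4) (nat_lit 365) (nat_lit 230) (nat_lit 185)) (XT.lf (nat_lit 0) (nat_lit 71033580711)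 (nat_lit 76) (nat_lit 72783620682) (nat_lit 76) (nat_lit 67931825854) (nat_lit 1) (nat_lit 4) (nat_lit 2) (nat_lit 5) (nat_lit 2) (nat_lit 4) (nat_lit 366) (nat_lit 230) (nat_lit 184))) (XT.nd (nat_lit 78) (nat_lit 0) (nat_lit 0) (XT.lf (nat_lit 0) (nat_lit 78537670213) (nat_lit 76) (nat_lit 74286340815) (nat_lit 76) (nat_lit 69407153199) (nat_lit 1) (nat_lit 4) (nat_lit 2) (nat_lit 5) (nat_lit 2) (nat_lit 4) (nat_lit 367) (nat_lit 230) (nat_lit 183)) (XT.nd (nat_lit 78) (nat_lit 0) (nat_lit 0) (XT.lf (nat_lit 0) (nat_lit 86384693240) (nat_lit 76) (nat_lit 75879425340) (nat_lit 76) (nat_lit 70974149354) (nat_lit 1) (nat_lit 4) (nat_lit 2) (nat_lit 5) (nat_lit 2) (nat_lit 4) (nat_lit 368) (nat_lit 230) (nat_lit 182)) (XT.lf (nat_lit 0) (nat_lit 94593333180) (nat_lit 76) (nat_lit 77566667316) (nat_lit 76) (nat_lit 72636545263) (nat_lit 1) (nat_lit 4) (nat_lit 2) (nat_lit 5) (nat_lit 2)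 (nat_lit 4) (nat_lit 369) (nat_lit 230) (nat_lit 181))))) (XT.nd (nat_lit 156) (nat_lit 0) (nat_lit 0) (XT.nd (nat_lit 78) (nat_lit 0) (nat_lit 0) (XT.lf (nat_lit 0) (nat_lit 103183134414) (nat_lit 76) (nat_lit 79352083985) (nat_lit 76) (nat_lit 74398299012) (nat_lit 1) (nat_lit 4) (nat_lit 2) (nat_lit 5) (nat_lit 2) (nat_lit 4) (nat_lit 370) (nat_lit 230) (nat_lit 180)) (XT.lf (nat_lit 0) (nat_lit 112174548850) (nat_lit 76) (nat_lit 81239926339) (nat_lit 76) (nat_lit 76263605252) (nat_lit 1) (nat_lit 4) (nat_lit 2) (nat_lit 5) (nat_lit 2) (nat_lit 4) (nat_lit 371) (nat_lit 230) (nat_lit 179))) (XT.nd (nat_lit 78) (nat_lit 0) (nat_lit 0) (XT.lf (nat_lit 0) (nat_lit 121588984617) (nat_lit 76) (nat_lit 83234689242) (nat_lit 76) (nat_lit 78236905188) (nat_lit 1) (nat_lit 4) (nat_lit 2) (nat_lit 5) (nat_lit 2) (nat_lit 4) (nat_lit 372) (nat_lit 230) (nat_lit 178)) (XT.nd (nat_lit 78) (nat_lit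 0) (nat_lit 0) (XT.lf (nat_lit 0) (nat_lit 131448857039) (nat_lit 76) (nat_lit 85341122129) (nat_lit 76) (nat_lit 80322897155) (nat_lit 1) (nat_lit 4) (nat_lit 2) (nat_lit 5) (nat_lit 2) (nat_lit 4) (nat_lit 373) (nat_lit 230) (nat_lit 177)) (XT.lf (nat_lit 0) (nat_lit 141777642002) (nat_lit 76) (nat_lit 87564240316) (nat_lit 76) (nat_lit 82526547798) (nat_lit 1) (nat_lit 4) (nat_lit 2) (nat_lit 5) (nat_lit 2) (nat_lit 4) (nat_lit 374) (nat_lit 230) (nat_lit 176)))))) (XT.nd (nat_lit 390) (nat_lit 0) (nat_lit 0) (XT.nd (nat_lit 156) (nat_lit 0) (nat_lit 0) (XT.nd (nat_lit 78) (nat_lit 0) (nat_lit 0) (XT.lf (nat_lit 0) (nat_lit 152599931852) (nat_lit 76) (nat_lit 89909336941) (nat_lit 76) (nat_lit 84853103906) (nat_lit 1) (nat_lit 4) (nat_lit 2) (nat_lit 5) (nat_lit 2) (nat_lit 4) (nat_lit 375) (nat_lit 230) (nat_lit 175)) (XT.lf (nat_lit 0) (nat_lit 163941493945) (nat_lit 76) (nat_lit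 92381995569) (nat_lit 76) (nat_lit 87308104898) (nat_lit 1) (nat_lit 4) (nat_lit 2) (nat_lit 5) (nat_lit 2) (nat_lit 4) (nat_lit 376) (nat_lit 230) (nat_lit 174))) (XT.nd (nat_lit 78) (nat_lit 0) (nat_lit 0) (XT.lf (nat_lit 0) (nat_lit 175829332000) (nat_lit 76) (nat_lit 94988103481) (nat_lit 76) (nat_lit 89897396014) (nat_lit 1) (nat_lit 4) (nat_lit 2) (nat_lit 5) (nat_lit 2) (nat_lit 4) (nat_lit 377) (nat_lit 230) (nat_lit 173)) (XT.nd (nat_lit 78) (nat_lit 0) (nat_lit 0) (XT.lf (nat_lit 0) (nat_lit 188291750394) (nat_lit 76) (nat_lit 97733865696) (nat_lit 76) (nat_lit 92627142234) (nat_lit 1) (nat_lit 4) (nat_lit 2) (nat_lit 5) (nat_lit 2) (nat_lit 4) (nat_lit 378) (nat_lit 230) (nat_lit 172)) (XT.lf (nat_lit 0) (nat_lit 201358421552) (nat_lit 76) (nat_lit 100625819744) (nat_lit 76) (nat_lit 95503842952) (nat_lit 1) (nat_lit 4) (nat_lit 2) (nat_lit 5) (nat_lit 2) (nat_lit 4) (nat_lit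 379) (nat_lit 230) (nat_lit 171))))) (XT.nd (nat_lit 234) (nat_lit 0) (nat_lit 0) (XT.nd (nat_lit 78) (nat_lit 0) (nat_lit 0) (XT.lf (nat_lit 0) (nat_lit 215060456595) (nat_lit 76) (nat_lit 103670851229) (nat_lit 76) (nat_lit 98534347457) (nat_lit 1) (nat_lit 4) (nat_lit 2) (nat_lit 5) (nat_lit 2) (nat_lit 4) (nat_lit 380) (nat_lit 230) (nat_lit 170)) (XT.nd (nat_lit 78) (nat_lit 0) (nat_lit 0) (XT.lf (nat_lit 0) (nat_lit 229430479417) (nat_lit 76) (nat_lit 106876210226) (nat_lit 76) (nat_lit 101725871235) (nat_lit 1) (nat_lit 4) (nat_lit 2) (nat_lit 5) (nat_lit 2) (nat_lit 4) (nat_lit 381) (nat_lit 230) (nat_lit 169)) (XT.lf (nat_lit 0) (nat_lit 244502704357) (nat_lit 76) (nat_lit 110249528543) (nat_lit 76) (nat_lit 105086013152) (nat_lit 1) (nat_lit 4) (nat_lit 2) (nat_lit 5) (nat_lit 2) (nat_lit 4) (nat_lit 382) (nat_lit 230) (nat_lit 168)))) (XT.nd (nat_lit 78) (nat_lit 0) (nat_lit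 0) (XT.lf (nat_lit 0) (nat_lit 260313017665) (nat_lit 76) (nat_lit 113798837890) (nat_lit 76) (nat_lit 108622773547) (nat_lit 1) (nat_lit 4) (nat_lit 2) (nat_lit 5) (nat_lit 2) (nat_lit 4) (nat_lit 383) (nat_lit 230) (nat_lit 167)) (XT.nd (nat_lit 78) (nat_lit 0) (nat_lit 0) (XT.lf (nat_lit 0) (nat_lit 276899062945) (nat_lit 76) (nat_lit 117532589003) (nat_lit 76) (nat_lit 112344573276) (nat_lit 1) (nat_lit 4) (nat_lit 2) (nat_lit 5) (nat_lit 2) (nat_lit 4) (nat_lit 384) (nat_lit 230) (nat_lit 166)) (XT.lf (nat_lit 0) (nat_lit 294300330780) (nat_lit 76) (nat_lit 121459671765) (nat_lit 76) (nat_lit 116260273770) (nat_lit 1) (nat_lit 4) (nat_lit 2) (nat_lit 5) (nat_lit 2) (nat_lit 4) (nat_lit 385) (nat_lit 230) (nat_lit 165))))))))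
noncomputable def xc34 : XT := (XT.nd (nat_lit 36348) (nat_lit 0) (nat_lit 76) (XT.nd (nat_lit 35568) (nat_lit 0) (nat_lit 304) (XT.nd (nat_lit 390) (nat_lit 0) (nat_lit 0) (XT.nd (nat_lit 156) (nat_lit 0) (nat_lit 0) (XT.nd (nat_lit 78) (nat_lit 0) (nat_lit 0) (XT.lf (nat_lit 0) (nat_lit 312558252761) (nat_lit 76) (nat_lit 125589436375) (nat_lit 76) (nat_lit 120379198123) (nat_lit 1) (nat_lit 4) (nat_lit 2) (nat_lit 5) (nat_lit 2) (nat_lit 4) (nat_lit 386) (nat_lit 230) (nat_lit 164)) (XT.lf (nat_lit 0) (nat_lit 331716300130) (nat_lit 76) (nat_lit 129931715604) (nat_lit 76) (nat_lit 124711153298) (nat_lit 1) (nat_lit 4) (nat_lit 2) (nat_lit 5) (nat_lit 2) (nat_lit 4) (nat_lit 387) (nat_lit 230) (nat_lit 163))) (XT.nd (nat_lit 78) (nat_lit 0) (nat_lit 0) (XT.lf (nat_lit 0) (nat_lit 351820087285) (nat_lit 76) (nat_lit 134496848213) (nat_lit 76) (nat_lit 129266453475) (nat_lit 1) (nat_lit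 4) (nat_lit 2) (nat_lit 5) (nat_lit 2) (nat_lit 4) (nat_lit 388) (nat_lit 230) (nat_lit 162)) (XT.nd (nat_lit 78) (nat_lit 0) (nat_lit 0) (XT.lf (nat_lit 0) (nat_lit 372917480388) (nat_lit 76) (nat_lit 139295703566) (nat_lit 76) (nat_lit 134055944606) (nat_lit 1) (nat_lit 4) (nat_lit 2) (nat_lit 5) (nat_lit 2) (nat_lit 4) (nat_lit 389) (nat_lit 230) (nat_lit 161)) (XT.lf (nat_lit 0) (nat_lit 395058711325) (nat_lit 76) (nat_lit 144339707507) (nat_lit 76) (nat_lit 139091030242) (nat_lit 1) (nat_lit 4) (nat_lit 2) (nat_lit 5) (nat_lit 2) (nat_lit 4) (nat_lit 390) (nat_lit 230) (nat_lit 160))))) (XT.nd (nat_lit 34944) (nat_lit 0) (nat_lit 532) (XT.nd (nat_lit 78) (nat_lit 0) (nat_lit 0) (XT.lf (nat_lit 0) (nat_lit 418296497314) (nat_lit 76) (nat_lit 149640869571) (nat_lit 76) (nat_lit 144383698682) (nat_lit 1) (nat_lit 4) (nat_lit 2) (nat_lit 5) (nat_lit 2) (nat_lit 4) (nat_lit 391) (nat_lit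 230) (nat_lit 159)) (XT.lf (nat_lit 0) (nat_lit 442686166416) (nat_lit 76) (nat_lit 155211811572) (nat_lit 76) (nat_lit 149946551516) (nat_lit 1) (nat_lit 4) (nat_lit 2) (nat_lit 5) (nat_lit 2) (nat_lit 4) (nat_lit 392) (nat_lit 230) (nat_lit 158))) (XT.nd (nat_lit 78) (nat_lit 0) (nat_lit 0) (XT.lf (nat_lit 0) (nat_lit 801230207) (nat_lit 152) (nat_lit 10120896974) (nat_lit 0) (nat_lit 801230207) (nat_lit 8) (nat_lit 5) (nat_lit 10) (nat_lit 4) (nat_lit 8) (nat_lit 4) (nat_lit 318) (nat_lit 231) (nat_lit 231)) (XT.nd (nat_lit 78) (nat_lit 0) (nat_lit 0) (XT.lf (nat_lit 0) (nat_lit 5721179141) (nat_lit 152) (nat_lit 13255533855) (nat_lit 0) (nat_lit 5422013374) (nat_lit 8) (nat_lit 5) (nat_lit 10) (nat_lit 4) (nat_lit 8) (nat_lit 4) (nat_lit 319) (nat_lit 231) (nat_lit 230)) (XT.lf (nat_lit 0) (nat_lit 9908766592) (nat_lit 152) (nat_lit 6171828916) (nat_lit 0) (nat_lit 9324681048) (nat_lit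 8) (nat_lit 5) (nat_lit 10) (nat_lit 4) (nat_lit 8) (nat_lit 4) (nat_lit 320) (nat_lit 231) (nat_lit 229)))))) (XT.nd (nat_lit 390) (nat_lit 0) (nat_lit 0) (XT.nd (nat_lit 156) (nat_lit 152) (nat_lit 0) (XT.nd (nat_lit 78) (nat_lit 0) (nat_lit 0) (XT.lf (nat_lit 0) (nat_lit 1060117205) (nat_lit 76) (nat_lit 13131627409) (nat_lit 76) (nat_lit 12276189696) (nat_lit 7) (nat_lit 4) (nat_lit 8) (nat_lit 5) (nat_lit 8) (nat_lit 4) (nat_lit 321) (nat_lit 231) (nat_lit 228)) (XT.lf (nat_lit 0) (nat_lit 8631927103) (nat_lit 76) (nat_lit 10033458634) (nat_lit 76) (nat_lit 8919590284) (nat_lit 7) (nat_lit 4) (nat_lit 8) (nat_lit 5) (nat_lit 8) (nat_lit 4) (nat_lit 322) (nat_lit 231) (nat_lit 227))) (XT.nd (nat_lit 78) (nat_lit 152) (nat_lit 0) (XT.lf (nat_lit 0) (nat_lit 16357560359) (nat_lit 76) (nat_lit 6883235501) (nat_lit 76) (nat_lit 5523242734) (nat_lit 7) (nat_lit 4) (nat_lit 8) (nat_lit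 5) (nat_lit 8) (nat_lit 4) (nat_lit 323) (nat_lit 231) (nat_lit 226)) (XT.nd (nat_lit 78) (nat_lit 152) (nat_lit 0) (XT.lf (nat_lit 0) (nat_lit 24255411338) (nat_lit 76) (nat_lit 3673457478) (nat_lit 76) (nat_lit 2079060506) (nat_lit 7) (nat_lit 4) (nat_lit 8) (nat_lit 5) (nat_lit 8) (nat_lit 4) (nat_lit 324) (nat_lit 231) (nat_lit 225)) (XT.lf (nat_lit 0) (nat_lit 1035633083) (nat_lit 76) (nat_lit 356206993) (nat_lit 152) (nat_lit 29925851904) (nat_lit 5) (nat_lit 5) (nat_lit 6) (nat_lit 5) (nat_lit 7) (nat_lit 4) (nat_lit 325) (nat_lit 231) (nat_lit 224))))) (XT.nd (nat_lit 156) (nat_lit 0) (nat_lit 0) (XT.nd (nat_lit 78) (nat_lit 0) (nat_lit 0) (XT.lf (nat_lit 0) (nat_lit 5002495937) (nat_lit 152) (nat_lit 24618074890) (nat_lit 0) (nat_lit 3068923939) (nat_lit 5) (nat_lit 5) (nat_lit 7) (nat_lit 4) (nat_lit 5) (nat_lit 4) (nat_lit 326) (nat_lit 231) (nat_lit 223)) (XT.lf (nat_lit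 0) (nat_lit 8693087667) (nat_lit 152) (nat_lit 18875216417) (nat_lit 0) (nat_lit 6566670748) (nat_lit 5) (nat_lit 5) (nat_lit 7) (nat_lit 4) (nat_lit 5) (nat_lit 4) (nat_lit 327) (nat_lit 231) (nat_lit 222))) (XT.nd (nat_lit 78) (nat_lit 0) (nat_lit 0) (XT.lf (nat_lit 0) (nat_lit 12466840998) (nat_lit 152) (nat_lit 13034248618) (nat_lit 0) (nat_lit 10156762250) (nat_lit 5) (nat_lit 5) (nat_lit 7) (nat_lit 4) (nat_lit 5) (nat_lit 4) (nat_lit 328) (nat_lit 231) (nat_lit 221)) (XT.nd (nat_lit 78) (nat_lit 0) (nat_lit 0) (XT.lf (nat_lit 0) (nat_lit 16332741059) (nat_lit 152) (nat_lit 7081264426) (nat_lit 0) (nat_lit 13847746283) (nat_lit 5) (nat_lit 5) (nat_lit 7) (nat_lit 4) (nat_lit 5) (nat_lit 4) (nat_lit 329) (nat_lit 231) (nat_lit 220)) (XT.lf (nat_lit 0) (nat_lit 20299992372) (nat_lit 152) (nat_lit 1002090069) (nat_lit 0) (nat_lit 17648410903) (nat_lit 5) (nat_lit 5) (nat_lit 7) (nat_lit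 4) (nat_lit 5) (nat_lit 4) (nat_lit 330) (nat_lit 231) (nat_lit 219))))))) (XT.nd (nat_lit 780) (nat_lit 0) (nat_lit 0) (XT.nd (nat_lit 390) (nat_lit 152) (nat_lit 0) (XT.nd (nat_lit 156) (nat_lit 0) (nat_lit 0) (XT.nd (nat_lit 78) (nat_lit 0) (nat_lit 0) (XT.lf (nat_lit 0) (nat_lit 5390271012) (nat_lit 76) (nat_lit 19071927000) (nat_lit 76) (nat_lit 16261691537) (nat_lit 4) (nat_lit 4) (nat_lit 5) (nat_lit 5) (nat_lit 5) (nat_lit 4) (nat_lit 331) (nat_lit 231) (nat_lit 218)) (XT.lf (nat_lit 0) (nat_lit 11976379903) (nat_lit 76) (nat_lit 16787200857) (nat_lit 76) (nat_lit 13825866353) (nat_lit 4) (nat_lit 4) (nat_lit 5) (nat_lit 5) (nat_lit 5) (nat_lit 4) (nat_lit 332) (nat_lit 231) (nat_lit 217))) (XT.nd (nat_lit 78) (nat_lit 0) (nat_lit 0) (XT.lf (nat_lit 0) (nat_lit 18738784193) (nat_lit 76) (nat_lit 14459435070) (nat_lit 76) (nat_lit 11354196717) (nat_lit 4) (nat_lit 4) (nat_lit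 5) (nat_lit 5) (nat_lit 5) (nat_lit 4) (nat_lit 333) (nat_lit 231) (nat_lit 216)) (XT.nd (nat_lit 78) (nat_lit 0) (nat_lit 0) (XT.lf (nat_lit 0) (nat_lit 25693584843) (nat_lit 76) (nat_lit 12083087338) (nat_lit 76) (nat_lit 8840797701) (nat_lit 4) (nat_lit 4) (nat_lit 5) (nat_lit 5) (nat_lit 5) (nat_lit 4) (nat_lit 334) (nat_lit 231) (nat_lit 215)) (XT.lf (nat_lit 0) (nat_lit 32857340904) (nat_lit 76) (nat_lit 9652499692) (nat_lit 76) (nat_lit 6279685022) (nat_lit 4) (nat_lit 4) (nat_lit 5) (nat_lit 5) (nat_lit 5) (nat_lit 4) (nat_lit 335) (nat_lit 231) (nat_lit 214))))) (XT.nd (nat_lit 156) (nat_lit 152) (nat_lit 0) (XT.nd (nat_lit 78) (nat_lit 0) (nat_lit 0) (XT.lf (nat_lit 0) (nat_lit 40247108936) (nat_lit 76) (nat_lit 7161885018) (nat_lit 76) (nat_lit 3664760793) (nat_lit 4) (nat_lit 4) (nat_lit 5) (nat_lit 5) (nat_lit 5) (nat_lit 4) (nat_lit 336) (nat_lit 231) (nat_lit 213)) (XT.lf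 (nat_lit 0) (nat_lit 47880483626) (nat_lit 76) (nat_lit 4605313280) (nat_lit 76) (nat_lit 989799003) (nat_lit 4) (nat_lit 4) (nat_lit 5) (nat_lit 5) (nat_lit 5) (nat_lit 4) (nat_lit 337) (nat_lit 231) (nat_lit 212))) (XT.nd (nat_lit 78) (nat_lit 76) (nat_lit 0) (XT.lf (nat_lit 0) (nat_lit 1695508147) (nat_lit 152) (nat_lit 252475005) (nat_lit 76) (nat_lit 54051417276) (nat_lit 3) (nat_lit 5) (nat_lit 5) (nat_lit 5) (nat_lit 4) (nat_lit 4) (nat_lit 338) (nat_lit 231) (nat_lit 211)) (XT.nd (nat_lit 78) (nat_lit 0) (nat_lit 0) (XT.lf (nat_lit 0) (nat_lit 4517956790) (nat_lit 152) (nat_lit 53263893653) (nat_lit 0) (nat_lit 864956812) (nat_lit 2) (nat_lit 5) (nat_lit 4) (nat_lit 4) (nat_lit 2) (nat_lit 4) (nat_lit 339) (nat_lit 231) (nat_lit 210)) (XT.lf (nat_lit 0) (nat_lit 7456061291) (nat_lit 152) (nat_lit 50266163875) (nat_lit 0) (nat_lit 3705661524) (nat_lit 2) (nat_lit 5) (nat_lit 4)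 (nat_lit 4) (nat_lit 2) (nat_lit 4) (nat_lit 340) (nat_lit 231) (nat_lit 209)))))) (XT.nd (nat_lit 390) (nat_lit 0) (nat_lit 0) (XT.nd (nat_lit 156) (nat_lit 0) (nat_lit 0) (XT.nd (nat_lit 78) (nat_lit 0) (nat_lit 0) (XT.lf (nat_lit 0) (nat_lit 10482264726) (nat_lit 152) (nat_lit 47229619989) (nat_lit 0) (nat_lit 6639103255) (nat_lit 2) (nat_lit 5) (nat_lit 4) (nat_lit 4) (nat_lit 2) (nat_lit 4) (nat_lit 341) (nat_lit 231) (nat_lit 208)) (XT.lf (nat_lit 0) (nat_lit 13603772341) (nat_lit 152) (nat_lit 44147032129) (nat_lit 0) (nat_lit 9672266390) (nat_lit 2) (nat_lit 5) (nat_lit 4) (nat_lit 4) (nat_lit 2) (nat_lit 4) (nat_lit 342) (nat_lit 231) (nat_lit 207))) (XT.nd (nat_lit 78) (nat_lit 0) (nat_lit 0) (XT.lf (nat_lit 0) (nat_lit 16828016298) (nat_lit 152) (nat_lit 41011060799) (nat_lit 0) (nat_lit 12812372747) (nat_lit 2) (nat_lit 5) (nat_lit 4) (nat_lit 4) (nat_lit 2) (nat_lit 4) (nat_lit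 343) (nat_lit 231) (nat_lit 206)) (XT.nd (nat_lit 78) (nat_lit 0) (nat_lit 0) (XT.lf (nat_lit 0) (nat_lit 20162673368) (nat_lit 152) (nat_lit 37814239402) (nat_lit 0) (nat_lit 16066898770) (nat_lit 2) (nat_lit 5) (nat_lit 4) (nat_lit 4) (nat_lit 2) (nat_lit 4) (nat_lit 344) (nat_lit 231) (nat_lit 205)) (XT.lf (nat_lit 0) (nat_lit 23615683211) (nat_lit 152) (nat_lit 34548956458) (nat_lit 0) (nat_lit 19443593329) (nat_lit 2) (nat_lit 5) (nat_lit 4) (nat_lit 4) (nat_lit 2) (nat_lit 4) (nat_lit 345) (nat_lit 231) (nat_lit 204))))) (XT.nd (nat_lit 156) (nat_lit 0) (nat_lit 0) (XT.nd (nat_lit 78) (nat_lit 0) (nat_lit 0) (XT.lf (nat_lit 0) (nat_lit 27195267278) (nat_lit 152) (nat_lit 31207437484) (nat_lit 0) (nat_lit 22950496173) (nat_lit 2) (nat_lit 5) (nat_lit 4) (nat_lit 4) (nat_lit 2) (nat_lit 4) (nat_lit 346) (nat_lit 231) (nat_lit 203)) (XT.lf (nat_lit 0) (nat_lit 30909948388) (nat_lit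 152) (nat_lit 27781726482) (nat_lit 0) (nat_lit 26595957072) (nat_lit 2) (nat_lit 5) (nat_lit 4) (nat_lit 4) (nat_lit 2) (nat_lit 4) (nat_lit 347) (nat_lit 231) (nat_lit 202))) (XT.nd (nat_lit 78) (nat_lit 0) (nat_lit 0) (XT.lf (nat_lit 0) (nat_lit 34768571022) (nat_lit 152) (nat_lit 24263666997) (nat_lit 0) (nat_lit 30388655694) (nat_lit 2) (nat_lit 5) (nat_lit 4) (nat_lit 4) (nat_lit 2) (nat_lit 4) (nat_lit 348) (nat_lit 231) (nat_lit 201)) (XT.nd (nat_lit 78) (nat_lit 0) (nat_lit 0) (XT.lf (nat_lit 0) (nat_lit 38780322374) (nat_lit 152) (nat_lit 20644882698) (nat_lit 0) (nat_lit 34337622275) (nat_lit 2) (nat_lit 5) (nat_lit 4) (nat_lit 4) (nat_lit 2) (nat_lit 4) (nat_lit 349) (nat_lit 231) (nat_lit 200)) (XT.lf (nat_lit 0) (nat_lit 42954754235) (nat_lit 152) (nat_lit 16916757430) (nat_lit 0) (nat_lit 38452259114) (nat_lit 2) (nat_lit 5) (nat_lit 4) (nat_lit 4) (nat_lit 2) (nat_lit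 4) (nat_lit 350) (nat_lit 231) (nat_lit 199))))))))
noncomputable def xc35 : XT := (XT.nd (nat_lit 1560) (nat_lit 0) (nat_lit 0) (XT.nd (nat_lit 780) (nat_lit 0) (nat_lit 0) (XT.nd (nat_lit 390) (nat_lit 0) (nat_lit 0) (XT.nd (nat_lit 156) (nat_lit 76) (nat_lit 0) (XT.nd (nat_lit 78) (nat_lit 0) (nat_lit 0) (XT.lf (nat_lit 0) (nat_lit 47301805728) (nat_lit 152) (nat_lit 13070414707) (nat_lit 0) (nat_lit 42742362967) (nat_lit 2) (nat_lit 5) (nat_lit 4) (nat_lit 4) (nat_lit 2) (nat_lit 4) (nat_lit 351) (nat_lit 231) (nat_lit 198)) (XT.lf (nat_lit 0) (nat_lit 51831826975) (nat_lit 152) (nat_lit 9096696567) (nat_lit 0) (nat_lit 47218148367) (nat_lit 2) (nat_lit 5) (nat_lit 4) (nat_lit 4) (nat_lit 2) (nat_lit 4) (nat_lit 352) (nat_lit 231) (nat_lit 197))) (XT.nd (nat_lit 78) (nat_lit 76) (nat_lit 0) (XT.lf (nat_lit 0) (nat_lit 56555603742) (nat_lit 152) (nat_lit 4986141779) (nat_lit 0) (nat_lit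 51890271946) (nat_lit 2) (nat_lit 5) (nat_lit 4) (nat_lit 4) (nat_lit 2) (nat_lit 4) (nat_lit 353) (nat_lit 231) (nat_lit 196)) (XT.nd (nat_lit 78) (nat_lit 76) (nat_lit 0) (XT.lf (nat_lit 0) (nat_lit 61484383115) (nat_lit 152) (nat_lit 728963307) (nat_lit 0) (nat_lit 56769857807) (nat_lit 2) (nat_lit 5) (nat_lit 4) (nat_lit 4) (nat_lit 2) (nat_lit 4) (nat_lit 354) (nat_lit 231) (nat_lit 195)) (XT.lf (nat_lit 0) (nat_lit 3806816903) (nat_lit 76) (nat_lit 62882518460) (nat_lit 76) (nat_lit 58121142188) (nat_lit 1) (nat_lit 4) (nat_lit 2) (nat_lit 5) (nat_lit 2) (nat_lit 4) (nat_lit 355) (nat_lit 231) (nat_lit 194))))) (XT.nd (nat_lit 156) (nat_lit 0) (nat_lit 0) (XT.nd (nat_lit 78) (nat_lit 0) (nat_lit 0) (XT.lf (nat_lit 0) (nat_lit 8539499809) (nat_lit 76) (nat_lit 63598232194) (nat_lit 76) (nat_lit 58792235957) (nat_lit 1) (nat_lit 4) (nat_lit 2) (nat_lit 5) (nat_lit 2) (nat_lit 4)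 (nat_lit 356) (nat_lit 231) (nat_lit 193)) (XT.lf (nat_lit 0) (nat_lit 13456250882) (nat_lit 76) (nat_lit 64374537050) (nat_lit 76) (nat_lit 59526045607) (nat_lit 1) (nat_lit 4) (nat_lit 2) (nat_lit 5) (nat_lit 2) (nat_lit 4) (nat_lit 357) (nat_lit 231) (nat_lit 192))) (XT.nd (nat_lit 78) (nat_lit 0) (nat_lit 0) (XT.lf (nat_lit 0) (nat_lit 18568776675) (nat_lit 76) (nat_lit 65213281373) (nat_lit 76) (nat_lit 60324318306) (nat_lit 1) (nat_lit 4) (nat_lit 2) (nat_lit 5) (nat_lit 2) (nat_lit 4) (nat_lit 358) (nat_lit 231) (nat_lit 191)) (XT.nd (nat_lit 78) (nat_lit 0) (nat_lit 0) (XT.lf (nat_lit 0) (nat_lit 23889249866) (nat_lit 76) (nat_lit 66116462174) (nat_lit 76) (nat_lit 61188954703) (nat_lit 1) (nat_lit 4) (nat_lit 2) (nat_lit 5) (nat_lit 2) (nat_lit 4) (nat_lit 359) (nat_lit 231) (nat_lit 190)) (XT.lf (nat_lit 0) (nat_lit 29430338249) (nat_lit 76) (nat_lit 67086229882) (nat_lit 76)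 (nat_lit 62122013455) (nat_lit 1) (nat_lit 4) (nat_lit 2) (nat_lit 5) (nat_lit 2) (nat_lit 4) (nat_lit 360) (nat_lit 231) (nat_lit 189)))))) (XT.nd (nat_lit 390) (nat_lit 0) (nat_lit 0) (XT.nd (nat_lit 156) (nat_lit 0) (nat_lit 0) (XT.nd (nat_lit 78) (nat_lit 0) (nat_lit 0) (XT.lf (nat_lit 0) (nat_lit 35205234891) (nat_lit 76) (nat_lit 68124893469) (nat_lit 76) (nat_lit 63125716131) (nat_lit 1) (nat_lit 4) (nat_lit 2) (nat_lit 5) (nat_lit 2) (nat_lit 4) (nat_lit 361) (nat_lit 231) (nat_lit 188)) (XT.lf (nat_lit 0) (nat_lit 41227689548) (nat_lit 76) (nat_lit 69234925944) (nat_lit 76) (nat_lit 64202452500) (nat_lit 1) (nat_lit 4) (nat_lit 2) (nat_lit 5) (nat_lit 2) (nat_lit 4) (nat_lit 362) (nat_lit 231) (nat_lit 187))) (XT.nd (nat_lit 78) (nat_lit 0) (nat_lit 0) (XT.lf (nat_lit 0) (nat_lit 47512041396) (nat_lit 76) (nat_lit 70418970239) (nat_lit 76) (nat_lit 65354786219) (nat_lit 1) (nat_lit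 4) (nat_lit 2) (nat_lit 5) (nat_lit 2) (nat_lit 4) (nat_lit 363) (nat_lit 231) (nat_lit 186)) (XT.nd (nat_lit 78) (nat_lit 0) (nat_lit 0) (XT.lf (nat_lit 0) (nat_lit 54073253177) (nat_lit 76) (nat_lit 71679845510) (nat_lit 76) (nat_lit 66585460941) (nat_lit 1) (nat_lit 4) (nat_lit 2) (nat_lit 5) (nat_lit 2) (nat_lit 4) (nat_lit 364) (nat_lit 231) (nat_lit 185)) (XT.lf (nat_lit 0) (nat_lit 60926946826) (nat_lit 76) (nat_lit 73020553839) (nat_lit 76) (nat_lit 67897406842) (nat_lit 1) (nat_lit 4) (nat_lit 2) (nat_lit 5) (nat_lit 2) (nat_lit 4) (nat_lit 365) (nat_lit 231) (nat_lit 184))))) (XT.nd (nat_lit 156) (nat_lit 0) (nat_lit 0) (XT.nd (nat_lit 78) (nat_lit 0) (nat_lit 0) (XT.lf (nat_lit 0) (nat_lit 68089440659) (nat_lit 76) (nat_lit 74444287389) (nat_lit 76) (nat_lit 69293747604) (nat_lit 1) (nat_lit 4) (nat_lit 2) (nat_lit 5) (nat_lit 2) (nat_lit 4) (nat_lit 366) (nat_lit 231) (nat_lit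 183)) (XT.lf (nat_lit 0) (nat_lit 75577788234) (nat_lit 76) (nat_lit 75954436003) (nat_lit 76) (nat_lit 70777807848) (nat_lit 1) (nat_lit 4) (nat_lit 2) (nat_lit 5) (nat_lit 2) (nat_lit 4) (nat_lit 367) (nat_lit 231) (nat_lit 182))) (XT.nd (nat_lit 78) (nat_lit 0) (nat_lit 0) (XT.lf (nat_lit 0) (nat_lit 83409818950) (nat_lit 76) (nat_lit 77554595271) (nat_lit 76) (nat_lit 72353121050) (nat_lit 1) (nat_lit 4) (nat_lit 2) (nat_lit 5) (nat_lit 2) (nat_lit 4) (nat_lit 368) (nat_lit 231) (nat_lit 181)) (XT.nd (nat_lit 78) (nat_lit 0) (nat_lit 0) (XT.lf (nat_lit 0) (nat_lit 91604180498) (nat_lit 76) (nat_lit 79248575098) (nat_lit 76) (nat_lit 74023437956) (nat_lit 1) (nat_lit 4) (nat_lit 2) (nat_lit 5) (nat_lit 2) (nat_lit 4) (nat_lit 369) (nat_lit 231) (nat_lit 180)) (XT.lf (nat_lit 0) (nat_lit 100180383264) (nat_lit 76) (nat_lit 81040408768) (nat_lit 76) (nat_lit 75792735512) (nat_lit 1)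 (nat_lit 4) (nat_lit 2) (nat_lit 5) (nat_lit 2) (nat_lit 4) (nat_lit 370) (nat_lit 231) (nat_lit 179))))))) (XT.nd (nat_lit 780) (nat_lit 0) (nat_lit 0) (XT.nd (nat_lit 390) (nat_lit 0) (nat_lit 0) (XT.nd (nat_lit 156) (nat_lit 0) (nat_lit 0) (XT.nd (nat_lit 78) (nat_lit 0) (nat_lit 0) (XT.lf (nat_lit 0) (nat_lit 109158846777) (nat_lit 76) (nat_lit 82934362552) (nat_lit 76) (nat_lit 77665226329) (nat_lit 1) (nat_lit 4) (nat_lit 2) (nat_lit 5) (nat_lit 2) (nat_lit 4) (nat_lit 371) (nat_lit 231) (nat_lit 178)) (XT.lf (nat_lit 0) (nat_lit 118560948333) (nat_lit 76) (nat_lit 84934945864) (nat_lit 76) (nat_lit 79645368721) (nat_lit 1) (nat_lit 4) (nat_lit 2) (nat_lit 5) (nat_lit 2) (nat_lit 4) (nat_lit 372) (nat_lit 231) (nat_lit 177))) (XT.nd (nat_lit 78) (nat_lit 0) (nat_lit 0) (XT.lf (nat_lit 0) (nat_lit 128409073887) (nat_lit 76) (nat_lit 87046921998) (nat_lit 76) (nat_lit 81737877311)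 (nat_lit 1) (nat_lit 4) (nat_lit 2) (nat_lit 5) (nat_lit 2) (nat_lit 4) (nat_lit 373) (nat_lit 231) (nat_lit 176)) (XT.nd (nat_lit 78) (nat_lit 0) (nat_lit 0) (XT.lf (nat_lit 0) (nat_lit 138726671356) (nat_lit 76) (nat_lit 89275319467) (nat_lit 76) (nat_lit 83947734263) (nat_lit 1) (nat_lit 4) (nat_lit 2) (nat_lit 5) (nat_lit 2) (nat_lit 4) (nat_lit 374) (nat_lit 231) (nat_lit 175)) (XT.lf (nat_lit 0) (nat_lit 149538306450) (nat_lit 76) (nat_lit 91625443981) (nat_lit 76) (nat_lit 86280201141) (nat_lit 1) (nat_lit 4) (nat_lit 2) (nat_lit 5) (nat_lit 2) (nat_lit 4) (nat_lit 375) (nat_lit 231) (nat_lit 174))))) (XT.nd (nat_lit 156) (nat_lit 0) (nat_lit 0) (XT.nd (nat_lit 78) (nat_lit 0) (nat_lit 0) (XT.lf (nat_lit 0) (nat_lit 160869721157) (nat_lit 76) (nat_lit 94102891073) (nat_lit 76) (nat_lit 88740831438) (nat_lit 1) (nat_lit 4) (nat_lit 2) (nat_lit 5) (nat_lit 2) (nat_lit 4) (nat_lit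 376) (nat_lit 231) (nat_lit 173)) (XT.lf (nat_lit 0) (nat_lit 172747895035) (nat_lit 76) (nat_lit 96713559428) (nat_lit 76) (nat_lit 91335483797) (nat_lit 1) (nat_lit 4) (nat_lit 2) (nat_lit 5) (nat_lit 2) (nat_lit 4) (nat_lit 377) (nat_lit 231) (nat_lit 172))) (XT.nd (nat_lit 78) (nat_lit 0) (nat_lit 0) (XT.lf (nat_lit 0) (nat_lit 185201109450) (nat_lit 76) (nat_lit 99463664922) (nat_lit 76) (nat_lit 94070335961) (nat_lit 1) (nat_lit 4) (nat_lit 2) (nat_lit 5) (nat_lit 2) (nat_lit 4) (nat_lit 378) (nat_lit 231) (nat_lit 171)) (XT.nd (nat_lit 78) (nat_lit 0) (nat_lit 0) (XT.lf (nat_lit 0) (nat_lit 198259014914) (nat_lit 76) (nat_lit 102359755426) (nat_lit 76) (nat_lit 96951899485) (nat_lit 1) (nat_lit 4) (nat_lit 2) (nat_lit 5) (nat_lit 2) (nat_lit 4) (nat_lit 379) (nat_lit 231) (nat_lit 170)) (XT.lf (nat_lit 0) (nat_lit 211952701678) (nat_lit 76) (nat_lit 105408726393) (nat_lit 76)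 (nat_lit 99987035232) (nat_lit 1) (nat_lit 4) (nat_lit 2) (nat_lit 5) (nat_lit 2) (nat_lit 4) (nat_lit 380) (nat_lit 231) (nat_lit 169)))))) (XT.nd (nat_lit 390) (nat_lit 0) (nat_lit 0) (XT.nd (nat_lit 156) (nat_lit 0) (nat_lit 0) (XT.nd (nat_lit 78) (nat_lit 0) (nat_lit 0) (XT.lf (nat_lit 0) (nat_lit 226314773756) (nat_lit 76) (nat_lit 108617837278) (nat_lit 76) (nat_lit 103182969718) (nat_lit 1) (nat_lit 4) (nat_lit 2) (nat_lit 5) (nat_lit 2) (nat_lit 4) (nat_lit 381) (nat_lit 231) (nat_lit 168)) (XT.lf (nat_lit 0) (nat_lit 241379426561) (nat_lit 76) (nat_lit 111994728821) (nat_lit 76) (nat_lit 106547312309) (nat_lit 1) (nat_lit 4) (nat_lit 2) (nat_lit 5) (nat_lit 2) (nat_lit 4) (nat_lit 382) (nat_lit 231) (nat_lit 167))) (XT.nd (nat_lit 78) (nat_lit 0) (nat_lit 0) (XT.lf (nat_lit 0) (nat_lit 257182528311) (nat_lit 76) (nat_lit 115547441241) (nat_lit 76) (nat_lit 110088073345) (nat_lit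 1) (nat_lit 4) (nat_lit 2) (nat_lit 5) (nat_lit 2) (nat_lit 4) (nat_lit 383) (nat_lit 231) (nat_lit 166)) (XT.nd (nat_lit 78) (nat_lit 0) (nat_lit 0) (XT.lf (nat_lit 0) (nat_lit 273761705440) (nat_lit 76) (nat_lit 119284433375) (nat_lit 76) (nat_lit 113813683210) (nat_lit 1) (nat_lit 4) (nat_lit 2) (nat_lit 5) (nat_lit 2) (nat_lit 4) (nat_lit 384) (nat_lit 231) (nat_lit 165)) (XT.lf (nat_lit 0) (nat_lit 291156432179) (nat_lit 76) (nat_lit 123214602825) (nat_lit 76) (nat_lit 117733012404) (nat_lit 1) (nat_lit 4) (nat_lit 2) (nat_lit 5) (nat_lit 2) (nat_lit 4) (nat_lit 385) (nat_lit 231) (nat_lit 164))))) (XT.nd (nat_lit 234) (nat_lit 0) (nat_lit 0) (XT.nd (nat_lit 78) (nat_lit 0) (nat_lit 0) (XT.lf (nat_lit 0) (nat_lit 309408124545) (nat_lit 76) (nat_lit 127347307136) (nat_lit 76) (nat_lit 121855392661) (nat_lit 1) (nat_lit 4) (nat_lit 2) (nat_lit 5) (nat_lit 2) (nat_lit 4) (nat_lit 386)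 (nat_lit 231) (nat_lit 163)) (XT.nd (nat_lit 78) (nat_lit 0) (nat_lit 0) (XT.lf (nat_lit 0) (nat_lit 328560238947) (nat_lit 76) (nat_lit 131692386082) (nat_lit 76) (nat_lit 126190639175) (nat_lit 1) (nat_lit 4) (nat_lit 2) (nat_lit 5) (nat_lit 2) (nat_lit 4) (nat_lit 387) (nat_lit 231) (nat_lit 162)) (XT.lf (nat_lit 0) (nat_lit 348658375658) (nat_lit 76) (nat_lit 136260185088) (nat_lit 76) (nat_lit 130749073959) (nat_lit 1) (nat_lit 4) (nat_lit 2) (nat_lit 5) (nat_lit 2) (nat_lit 4) (nat_lit 388) (nat_lit 231) (nat_lit 161)))) (XT.nd (nat_lit 78) (nat_lit 0) (nat_lit 0) (XT.lf (nat_lit 0) (nat_lit 369750387385) (nat_lit 76) (nat_lit 141061579865) (nat_lit 76) (nat_lit 135541550431) (nat_lit 1) (nat_lit 4) (nat_lit 2) (nat_lit 5) (nat_lit 2) (nat_lit 4) (nat_lit 389) (nat_lit 231) (nat_lit 160)) (XT.nd (nat_lit 78) (nat_lit 0) (nat_lit 0) (XT.lf (nat_lit 0) (nat_lit 391886493203) (nat_lit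 76) (nat_lit 146108002307) (nat_lit 76) (nat_lit 140579479248) (nat_lit 1) (nat_lit 4) (nat_lit 2) (nat_lit 5) (nat_lit 2) (nat_lit 4) (nat_lit 390) (nat_lit 231) (nat_lit 159)) (XT.lf (nat_lit 0) (nat_lit 415119398125) (nat_lit 76) (nat_lit 151411467705) (nat_lit 76) (nat_lit 145874855479) (nat_lit 1) (nat_lit 4) (nat_lit 2) (nat_lit 5) (nat_lit 2) (nat_lit 4) (nat_lit 391) (nat_lit 231) (nat_lit 158))))))))
noncomputable def xc36 : XT := (XT.nd (nat_lit 36192) (nat_lit 0) (nat_lit 76) (XT.nd (nat_lit 35412) (nat_lit 0) (nat_lit 228) (XT.nd (nat_lit 35022) (nat_lit 0) (nat_lit 456) (XT.nd (nat_lit 34788) (nat_lit 0) (nat_lit 532) (XT.nd (nat_lit 34710) (nat_lit 0) (nat_lit 684) (XT.lf (nat_lit 0) (nat_lit 439504418593) (nat_lit 76) (nat_lit 156984603356) (nat_lit 76) (nat_lit 151440287163) (nat_lit 1) (nat_lit 4) (nat_lit 2) (nat_lit 5) (nat_lit 2) (nat_lit 4) (nat_lit 392) (nat_lit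 231) (nat_lit 157)) (XT.lf (nat_lit 0) (nat_lit 4855686179) (nat_lit 76) (nat_lit 2990779165) (nat_lit 76) (nat_lit 2990779165) (nat_lit 10) (nat_lit 4) (nat_lit 11) (nat_lit 5) (nat_lit 11) (nat_lit 4) (nat_lit 316) (nat_lit 232) (nat_lit 232))) (XT.nd (nat_lit 78) (nat_lit 152) (nat_lit 0) (XT.lf (nat_lit 0) (nat_lit 18013661757) (nat_lit 76) (nat_lit 2427950226) (nat_lit 76) (nat_lit 2098119969) (nat_lit 10) (nat_lit 4) (nat_lit 11) (nat_lit 5) (nat_lit 11) (nat_lit 4) (nat_lit 317) (nat_lit 232) (nat_lit 231)) (XT.nd (nat_lit 78) (nat_lit 0) (nat_lit 0) (XT.lf (nat_lit 0) (nat_lit 1846379311) (nat_lit 152) (nat_lit 20370799589) (nat_lit 0) (nat_lit 1233089490) (nat_lit 8) (nat_lit 5) (nat_lit 10) (nat_lit 4) (nat_lit 8) (nat_lit 4) (nat_lit 318) (nat_lit 232) (nat_lit 230)) (XT.lf (nat_lit 0) (nat_lit 5898235984) (nat_lit 152) (nat_lit 13507402013) (nat_lit 0) (nat_lit 5000026385)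 (nat_lit 8) (nat_lit 5) (nat_lit 10) (nat_lit 4) (nat_lit 8) (nat_lit 4) (nat_lit 319) (nat_lit 232) (nat_lit 229))))) (XT.nd (nat_lit 156) (nat_lit 0) (nat_lit 0) (XT.nd (nat_lit 78) (nat_lit 76) (nat_lit 0) (XT.lf (nat_lit 0) (nat_lit 10022145287) (nat_lit 152) (nat_lit 6540708993) (nat_lit 0) (nat_lit 8852583519) (nat_lit 8) (nat_lit 5) (nat_lit 10) (nat_lit 4) (nat_lit 8) (nat_lit 4) (nat_lit 320) (nat_lit 232) (nat_lit 228)) (XT.lf (nat_lit 0) (nat_lit 563915655) (nat_lit 76) (nat_lit 13672814703) (nat_lit 76) (nat_lit 12244822297) (nat_lit 7) (nat_lit 4) (nat_lit 8) (nat_lit 5) (nat_lit 8) (nat_lit 4) (nat_lit 321) (nat_lit 232) (nat_lit 227))) (XT.nd (nat_lit 78) (nat_lit 0) (nat_lit 0) (XT.lf (nat_lit 0) (nat_lit 8026083047) (nat_lit 76) (nat_lit 10624818650) (nat_lit 76) (nat_lit 8950701829) (nat_lit 7) (nat_lit 4) (nat_lit 8) (nat_lit 5) (nat_lit 8) (nat_lit 4) (nat_lit 322)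 (nat_lit 232) (nat_lit 226)) (XT.nd (nat_lit 78) (nat_lit 0) (nat_lit 0) (XT.lf (nat_lit 0) (nat_lit 15647294869) (nat_lit 76) (nat_lit 7522379062) (nat_lit 76) (nat_lit 5613858034) (nat_lit 7) (nat_lit 4) (nat_lit 8) (nat_lit 5) (nat_lit 8) (nat_lit 4) (nat_lit 323) (nat_lit 232) (nat_lit 225)) (XT.lf (nat_lit 0) (nat_lit 23445696864) (nat_lit 76) (nat_lit 4358109177) (nat_lit 76) (nat_lit 2226346048) (nat_lit 7) (nat_lit 4) (nat_lit 8) (nat_lit 5) (nat_lit 8) (nat_lit 4) (nat_lit 324) (nat_lit 232) (nat_lit 224)))))) (XT.nd (nat_lit 390) (nat_lit 76) (nat_lit 0) (XT.nd (nat_lit 156) (nat_lit 0) (nat_lit 0) (XT.nd (nat_lit 78) (nat_lit 0) (nat_lit 0) (XT.lf (nat_lit 0) (nat_lit 78903980) (nat_lit 76) (nat_lit 1103183158) (nat_lit 152) (nat_lit 30161331005) (nat_lit 5) (nat_lit 5) (nat_lit 6) (nat_lit 5) (nat_lit 7) (nat_lit 4) (nat_lit 325) (nat_lit 232) (nat_lit 223)) (XT.lf (nat_lit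 0) (nat_lit 4729160421) (nat_lit 152) (nat_lit 25685689850) (nat_lit 0) (nat_lit 2303577735) (nat_lit 5) (nat_lit 5) (nat_lit 7) (nat_lit 4) (nat_lit 5) (nat_lit 4) (nat_lit 326) (nat_lit 232) (nat_lit 222))) (XT.nd (nat_lit 78) (nat_lit 0) (nat_lit 0) (XT.lf (nat_lit 0) (nat_lit 8370304353) (nat_lit 152) (nat_lit 20035042889) (nat_lit 0) (nat_lit 5761059838) (nat_lit 5) (nat_lit 5) (nat_lit 7) (nat_lit 4) (nat_lit 5) (nat_lit 4) (nat_lit 327) (nat_lit 232) (nat_lit 221)) (XT.nd (nat_lit 78) (nat_lit 0) (nat_lit 0) (XT.lf (nat_lit 0) (nat_lit 12096964544) (nat_lit 152) (nat_lit 14281895576) (nat_lit 0) (nat_lit 9312804002) (nat_lit 5) (nat_lit 5) (nat_lit 7) (nat_lit 4) (nat_lit 5) (nat_lit 4) (nat_lit 328) (nat_lit 232) (nat_lit 220)) (XT.lf (nat_lit 0) (nat_lit 15918013995) (nat_lit 152) (nat_lit 8412549942) (nat_lit 0) (nat_lit 12967266760) (nat_lit 5) (nat_lit 5) (nat_lit 7) (nat_lit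 4) (nat_lit 5) (nat_lit 4) (nat_lit 329) (nat_lit 232) (nat_lit 219))))) (XT.nd (nat_lit 156) (nat_lit 0) (nat_lit 0) (XT.nd (nat_lit 78) (nat_lit 76) (nat_lit 0) (XT.lf (nat_lit 0) (nat_lit 19842550442) (nat_lit 152) (nat_lit 2413031355) (nat_lit 0) (nat_lit 16733149213) (nat_lit 5) (nat_lit 5) (nat_lit 7) (nat_lit 4) (nat_lit 5) (nat_lit 4) (nat_lit 330) (nat_lit 232) (nat_lit 218)) (XT.lf (nat_lit 0) (nat_lit 3854306636) (nat_lit 76) (nat_lit 20085787912) (nat_lit 76) (nat_lit 16825287642) (nat_lit 4) (nat_lit 4) (nat_lit 5) (nat_lit 5) (nat_lit 5) (nat_lit 4) (nat_lit 331) (nat_lit 232) (nat_lit 217))) (XT.nd (nat_lit 78) (nat_lit 0) (nat_lit 0) (XT.lf (nat_lit 0) (nat_lit 10365776480) (nat_lit 76) (nat_lit 17835791849) (nat_lit 76) (nat_lit 14431387730) (nat_lit 4) (nat_lit 4) (nat_lit 5) (nat_lit 5) (nat_lit 5) (nat_lit 4) (nat_lit 332) (nat_lit 232) (nat_lit 216)) (XT.nd (nat_lit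 78) (nat_lit 0) (nat_lit 0) (XT.lf (nat_lit 0) (nat_lit 17057095963) (nat_lit 76) (nat_lit 15541102327) (nat_lit 76) (nat_lit 11999646924) (nat_lit 4) (nat_lit 4) (nat_lit 5) (nat_lit 5) (nat_lit 5) (nat_lit 4) (nat_lit 333) (nat_lit 232) (nat_lit 215)) (XT.lf (nat_lit 0) (nat_lit 23944196797) (nat_lit 76) (nat_lit 13196255802) (nat_lit 76) (nat_lit 9524275365) (nat_lit 4) (nat_lit 4) (nat_lit 5) (nat_lit 5) (nat_lit 5) (nat_lit 4) (nat_lit 334) (nat_lit 232) (nat_lit 214))))))) (XT.nd (nat_lit 780) (nat_lit 0) (nat_lit 0) (XT.nd (nat_lit 390) (nat_lit 0) (nat_lit 0) (XT.nd (nat_lit 156) (nat_lit 152) (nat_lit 0) (XT.nd (nat_lit 78) (nat_lit 0) (nat_lit 0) (XT.lf (nat_lit 0) (nat_lit 31043476843) (nat_lit 76) (nat_lit 10795669304) (nat_lit 76) (nat_lit 6999379312) (nat_lit 4) (nat_lit 4) (nat_lit 5) (nat_lit 5) (nat_lit 5) (nat_lit 4) (nat_lit 335) (nat_lit 232) (nat_lit 213)) (XT.lf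 (nat_lit 0) (nat_lit 38371839146) (nat_lit 76) (nat_lit 8333627152) (nat_lit 76) (nat_lit 4418947108) (nat_lit 4) (nat_lit 4) (nat_lit 5) (nat_lit 5) (nat_lit 5) (nat_lit 4) (nat_lit 336) (nat_lit 232) (nat_lit 212))) (XT.nd (nat_lit 78) (nat_lit 152) (nat_lit 0) (XT.lf (nat_lit 0) (nat_lit 45946732189) (nat_lit 76) (nat_lit 5804267340) (nat_lit 76) (nat_lit 1776834865) (nat_lit 4) (nat_lit 4) (nat_lit 5) (nat_lit 5) (nat_lit 5) (nat_lit 4) (nat_lit 337) (nat_lit 232) (nat_lit 211)) (XT.nd (nat_lit 78) (nat_lit 76) (nat_lit 0) (XT.lf (nat_lit 0) (nat_lit 903378389) (nat_lit 152) (nat_lit 2282890044) (nat_lit 76) (nat_lit 52867513893) (nat_lit 3) (nat_lit 5) (nat_lit 5) (nat_lit 5) (nat_lit 4) (nat_lit 4) (nat_lit 338) (nat_lit 232) (nat_lit 210)) (XT.lf (nat_lit 0) (nat_lit 3244214108) (nat_lit 76) (nat_lit 405200345) (nat_lit 152) (nat_lit 55055609444) (nat_lit 2) (nat_lit 5) (nat_lit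 3) (nat_lit 5) (nat_lit 4) (nat_lit 4) (nat_lit 339) (nat_lit 232) (nat_lit 209))))) (XT.nd (nat_lit 156) (nat_lit 0) (nat_lit 0) (XT.nd (nat_lit 78) (nat_lit 0) (nat_lit 0) (XT.lf (nat_lit 0) (nat_lit 6552506645) (nat_lit 152) (nat_lit 52510935348) (nat_lit 0) (nat_lit 2424425397) (nat_lit 2) (nat_lit 5) (nat_lit 4) (nat_lit 4) (nat_lit 2) (nat_lit 4) (nat_lit 340) (nat_lit 232) (nat_lit 208)) (XT.lf (nat_lit 0) (nat_lit 9551390085) (nat_lit 152) (nat_lit 49525993032) (nat_lit 0) (nat_lit 5334964356) (nat_lit 2) (nat_lit 5) (nat_lit 4) (nat_lit 4) (nat_lit 2) (nat_lit 4) (nat_lit 341) (nat_lit 232) (nat_lit 207))) (XT.nd (nat_lit 78) (nat_lit 0) (nat_lit 0) (XT.lf (nat_lit 0) (nat_lit 12646878657) (nat_lit 152) (nat_lit 46492549525) (nat_lit 0) (nat_lit 8346315328) (nat_lit 2) (nat_lit 5) (nat_lit 4) (nat_lit 4) (nat_lit 2) (nat_lit 4) (nat_lit 342) (nat_lit 232) (nat_lit 206)) (XT.nd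 (nat_lit 78) (nat_lit 0) (nat_lit 0) (XT.lf (nat_lit 0) (nat_lit 15846342572) (nat_lit 152) (nat_lit 43403382342) (nat_lit 0) (nat_lit 11465648196) (nat_lit 2) (nat_lit 5) (nat_lit 4) (nat_lit 4) (nat_lit 2) (nat_lit 4) (nat_lit 343) (nat_lit 232) (nat_lit 205)) (XT.lf (nat_lit 0) (nat_lit 19157399603) (nat_lit 152) (nat_lit 40251136322) (nat_lit 0) (nat_lit 14700389943) (nat_lit 2) (nat_lit 5) (nat_lit 4) (nat_lit 4) (nat_lit 2) (nat_lit 4) (nat_lit 344) (nat_lit 232) (nat_lit 204)))))) (XT.nd (nat_lit 390) (nat_lit 0) (nat_lit 0) (XT.nd (nat_lit 156) (nat_lit 0) (nat_lit 0) (XT.nd (nat_lit 78) (nat_lit 0) (nat_lit 0) (XT.lf (nat_lit 0) (nat_lit 22587933217) (nat_lit 152) (nat_lit 37028306118) (nat_lit 0) (nat_lit 18058242335) (nat_lit 2) (nat_lit 5) (nat_lit 4) (nat_lit 4) (nat_lit 2) (nat_lit 4) (nat_lit 345) (nat_lit 232) (nat_lit 203)) (XT.lf (nat_lit 0) (nat_lit 26146111353) (nat_lit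 152) (nat_lit 33727218324) (nat_lit 0) (nat_lit 21547200259) (nat_lit 2) (nat_lit 5) (nat_lit 4) (nat_lit 4) (nat_lit 2) (nat_lit 4) (nat_lit 346) (nat_lit 232) (nat_lit 202))) (XT.nd (nat_lit 78) (nat_lit 0) (nat_lit 0) (XT.lf (nat_lit 0) (nat_lit 29840405862) (nat_lit 152) (nat_lit 30340013209) (nat_lit 0) (nat_lit 25175570757) (nat_lit 2) (nat_lit 5) (nat_lit 4) (nat_lit 4) (nat_lit 2) (nat_lit 4) (nat_lit 347) (nat_lit 232) (nat_lit 201)) (XT.nd (nat_lit 78) (nat_lit 0) (nat_lit 0) (XT.lf (nat_lit 0) (nat_lit 33679612684) (nat_lit 152) (nat_lit 26858625997) (nat_lit 0) (nat_lit 28951992807) (nat_lit 2) (nat_lit 5) (nat_lit 4) (nat_lit 4) (nat_lit 2) (nat_lit 4) (nat_lit 348) (nat_lit 232) (nat_lit 200)) (XT.lf (nat_lit 0) (nat_lit 37672872789) (nat_lit 152) (nat_lit 23274767672) (nat_lit 0) (nat_lit 32885457890) (nat_lit 2) (nat_lit 5) (nat_lit 4) (nat_lit 4) (nat_lit 2) (nat_lit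 4) (nat_lit 349) (nat_lit 232) (nat_lit 199))))) (XT.nd (nat_lit 156) (nat_lit 0) (nat_lit 0) (XT.nd (nat_lit 78) (nat_lit 0) (nat_lit 0) (XT.lf (nat_lit 0) (nat_lit 41829693937) (nat_lit 152) (nat_lit 19579905237) (nat_lit 0) (nat_lit 36985331398) (nat_lit 2) (nat_lit 5) (nat_lit 4) (nat_lit 4) (nat_lit 2) (nat_lit 4) (nat_lit 350) (nat_lit 232) (nat_lit 198)) (XT.lf (nat_lit 0) (nat_lit 46159973322) (nat_lit 152) (nat_lit 15765241402) (nat_lit 0) (nat_lit 41261374937) (nat_lit 2) (nat_lit 5) (nat_lit 4) (nat_lit 4) (nat_lit 2) (nat_lit 4) (nat_lit 351) (nat_lit 232) (nat_lit 197))) (XT.nd (nat_lit 78) (nat_lit 0) (nat_lit 0) (XT.lf (nat_lit 0) (nat_lit 50674021134) (nat_lit 152) (nat_lit 11821693632) (nat_lit 0) (nat_lit 45723769560) (nat_lit 2) (nat_lit 5) (nat_lit 4) (nat_lit 4) (nat_lit 2) (nat_lit 4) (nat_lit 352) (nat_lit 232) (nat_lit 196)) (XT.nd (nat_lit 78) (nat_lit 0) (nat_lit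 0) (XT.lf (nat_lit 0) (nat_lit 55382585104) (nat_lit 152) (nat_lit 7739872529) (nat_lit 0) (nat_lit 50383140018) (nat_lit 2) (nat_lit 5) (nat_lit 4) (nat_lit 4) (nat_lit 2) (nat_lit 4) (nat_lit 353) (nat_lit 232) (nat_lit 195)) (XT.lf (nat_lit 0) (nat_lit 60296876100) (nat_lit 152) (nat_lit 3510059472) (nat_lit 0) (nat_lit 55250580051) (nat_lit 2) (nat_lit 5) (nat_lit 4) (nat_lit 4) (nat_lit 2) (nat_lit 4) (nat_lit 354) (nat_lit 232) (nat_lit 194))))))))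
noncomputable def xc37 : XT := (XT.nd (nat_lit 1560) (nat_lit 0) (nat_lit 0) (XT.nd (nat_lit 780) (nat_lit 0) (nat_lit 0) (XT.nd (nat_lit 390) (nat_lit 0) (nat_lit 0) (XT.nd (nat_lit 156) (nat_lit 0) (nat_lit 0) (XT.nd (nat_lit 78) (nat_lit 0) (nat_lit 0) (XT.lf (nat_lit 0) (nat_lit 906841102) (nat_lit 76) (nat_lit 64535912043) (nat_lit 76) (nat_lit 59444996028) (nat_lit 1) (nat_lit 4) (nat_lit 2) (nat_lit 5) (nat_lit 2) (nat_lit 4) (nat_lit 355) (nat_lit 232) (nat_lit 193)) (XT.lf (nat_lit 0) (nat_lit 5613882068) (nat_lit 76) (nat_lit 65263725989) (nat_lit 76) (nat_lit 60130314769) (nat_lit 1) (nat_lit 4) (nat_lit 2) (nat_lit 5) (nat_lit 2) (nat_lit 4) (nat_lit 356) (nat_lit 232) (nat_lit 192))) (XT.nd (nat_lit 78) (nat_lit 0) (nat_lit 0) (XT.lf (nat_lit 0) (nat_lit 10506212246) (nat_lit 76) (nat_lit 66051554857) (nat_lit 76) (nat_lit 60877672012) (nat_lit 1) (nat_lit 4) (nat_lit 2)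 (nat_lit 5) (nat_lit 2) (nat_lit 4) (nat_lit 357) (nat_lit 232) (nat_lit 191)) (XT.nd (nat_lit 78) (nat_lit 0) (nat_lit 0) (XT.lf (nat_lit 0) (nat_lit 15595480043) (nat_lit 76) (nat_lit 66901274430) (nat_lit 76) (nat_lit 61688847181) (nat_lit 1) (nat_lit 4) (nat_lit 2) (nat_lit 5) (nat_lit 2) (nat_lit 4) (nat_lit 358) (nat_lit 232) (nat_lit 190)) (XT.lf (nat_lit 0) (nat_lit 20893802762) (nat_lit 76) (nat_lit 67814907849) (nat_lit 76) (nat_lit 62565771644) (nat_lit 1) (nat_lit 4) (nat_lit 2) (nat_lit 5) (nat_lit 2) (nat_lit 4) (nat_lit 359) (nat_lit 232) (nat_lit 189))))) (XT.nd (nat_lit 156) (nat_lit 0) (nat_lit 0) (XT.nd (nat_lit 78) (nat_lit 0) (nat_lit 0) (XT.lf (nat_lit 0) (nat_lit 26413795458) (nat_lit 76) (nat_lit 68794630432) (nat_lit 76) (nat_lit 63510533316) (nat_lit 1) (nat_lit 4) (nat_lit 2) (nat_lit 5) (nat_lit 2) (nat_lit 4) (nat_lit 360) (nat_lit 232) (nat_lit 188)) (XT.lf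 (nat_lit 0) (nat_lit 32168600969) (nat_lit 76) (nat_lit 69842774852) (nat_lit 76) (nat_lit 64525381631) (nat_lit 1) (nat_lit 4) (nat_lit 2) (nat_lit 5) (nat_lit 2) (nat_lit 4) (nat_lit 361) (nat_lit 232) (nat_lit 187))) (XT.nd (nat_lit 78) (nat_lit 0) (nat_lit 0) (XT.lf (nat_lit 0) (nat_lit 38171921215) (nat_lit 76) (nat_lit 70961836691) (nat_lit 76) (nat_lit 65612732893) (nat_lit 1) (nat_lit 4) (nat_lit 2) (nat_lit 5) (nat_lit 2) (nat_lit 4) (nat_lit 362) (nat_lit 232) (nat_lit 186)) (XT.nd (nat_lit 78) (nat_lit 0) (nat_lit 0) (XT.lf (nat_lit 0) (nat_lit 44438049815) (nat_lit 76) (nat_lit 72154480382) (nat_lit 76) (nat_lit 66775176035) (nat_lit 1) (nat_lit 4) (nat_lit 2) (nat_lit 5) (nat_lit 2) (nat_lit 4) (nat_lit 363) (nat_lit 232) (nat_lit 185)) (XT.lf (nat_lit 0) (nat_lit 50981906122) (nat_lit 76) (nat_lit 73423545552) (nat_lit 76) (nat_lit 68015478778) (nat_lit 1) (nat_lit 4) (nat_lit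 2) (nat_lit 5) (nat_lit 2) (nat_lit 4) (nat_lit 364) (nat_lit 232) (nat_lit 184)))))) (XT.nd (nat_lit 390) (nat_lit 0) (nat_lit 0) (XT.nd (nat_lit 156) (nat_lit 0) (nat_lit 0) (XT.nd (nat_lit 78) (nat_lit 0) (nat_lit 0) (XT.lf (nat_lit 0) (nat_lit 57819070748) (nat_lit 76) (nat_lit 74772053786) (nat_lit 76) (nat_lit 69336594223) (nat_lit 1) (nat_lit 4) (nat_lit 2) (nat_lit 5) (nat_lit 2) (nat_lit 4) (nat_lit 365) (nat_lit 232) (nat_lit 183)) (XT.lf (nat_lit 0) (nat_lit 64965822654) (nat_lit 76) (nat_lit 76203215817) (nat_lit 76) (nat_lit 70741667885) (nat_lit 1) (nat_lit 4) (nat_lit 2) (nat_lit 5) (nat_lit 2) (nat_lit 4) (nat_lit 366) (nat_lit 232) (nat_lit 182))) (XT.nd (nat_lit 78) (nat_lit 0) (nat_lit 0) (XT.lf (nat_lit 0) (nat_lit 72439177918) (nat_lit 76) (nat_lit 77720439174) (nat_lit 76) (nat_lit 72234045175) (nat_lit 1) (nat_lit 4) (nat_lit 2) (nat_lit 5) (nat_lit 2) (nat_lit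 4) (nat_lit 367) (nat_lit 232) (nat_lit 181)) (XT.nd (nat_lit 78) (nat_lit 0) (nat_lit 0) (XT.lf (nat_lit 0) (nat_lit 80256930242) (nat_lit 76) (nat_lit 79327336294) (nat_lit 76) (nat_lit 73817279375) (nat_lit 1) (nat_lit 4) (nat_lit 2) (nat_lit 5) (nat_lit 2) (nat_lit 4) (nat_lit 368) (nat_lit 232) (nat_lit 180)) (XT.lf (nat_lit 0) (nat_lit 88437693322) (nat_lit 76) (nat_lit 81027733122) (nat_lit 76) (nat_lit 75495140088) (nat_lit 1) (nat_lit 4) (nat_lit 2) (nat_lit 5) (nat_lit 2) (nat_lit 4) (nat_lit 369) (nat_lit 232) (nat_lit 179))))) (XT.nd (nat_lit 156) (nat_lit 0) (nat_lit 0) (XT.nd (nat_lit 78) (nat_lit 0) (nat_lit 0) (XT.lf (nat_lit 0) (nat_lit 97000945165) (nat_lit 76) (nat_lit 82825678221) (nat_lit 76) (nat_lit 77271622221) (nat_lit 1) (nat_lit 4) (nat_lit 2) (nat_lit 5) (nat_lit 2) (nat_lit 4) (nat_lit 370) (nat_lit 232) (nat_lit 178)) (XT.lf (nat_lit 0) (nat_lit 105967074468)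 (nat_lit 76) (nat_lit 84725452415) (nat_lit 76) (nat_lit 79150955494) (nat_lit 1) (nat_lit 4) (nat_lit 2) (nat_lit 5) (nat_lit 2) (nat_lit 4) (nat_lit 371) (nat_lit 232) (nat_lit 177))) (XT.nd (nat_lit 78) (nat_lit 0) (nat_lit 0) (XT.lf (nat_lit 0) (nat_lit 115357429155) (nat_lit 76) (nat_lit 86731578973) (nat_lit 76) (nat_lit 81137614509) (nat_lit 1) (nat_lit 4) (nat_lit 2) (nat_lit 5) (nat_lit 2) (nat_lit 4) (nat_lit 372) (nat_lit 232) (nat_lit 176)) (XT.nd (nat_lit 78) (nat_lit 0) (nat_lit 0) (XT.lf (nat_lit 0) (nat_lit 125194367215) (nat_lit 76) (nat_lit 88848834389) (nat_lit 76) (nat_lit 83236329408) (nat_lit 1) (nat_lit 4) (nat_lit 2) (nat_lit 5) (nat_lit 2) (nat_lit 4) (nat_lit 373) (nat_lit 232) (nat_lit 175)) (XT.lf (nat_lit 0) (nat_lit 135501309929) (nat_lit 76) (nat_lit 91082259747) (nat_lit 76) (nat_lit 85452097130) (nat_lit 1) (nat_lit 4) (nat_lit 2) (nat_lit 5) (nat_lit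 2) (nat_lit 4) (nat_lit 374) (nat_lit 232) (nat_lit 174))))))) (XT.nd (nat_lit 780) (nat_lit 0) (nat_lit 0) (XT.nd (nat_lit 390) (nat_lit 0) (nat_lit 0) (XT.nd (nat_lit 156) (nat_lit 0) (nat_lit 0) (XT.nd (nat_lit 78) (nat_lit 0) (nat_lit 0) (XT.lf (nat_lit 0) (nat_lit 146302797637) (nat_lit 76) (nat_lit 93437172725) (nat_lit 76) (nat_lit 87790193312) (nat_lit 1) (nat_lit 4) (nat_lit 2) (nat_lit 5) (nat_lit 2) (nat_lit 4) (nat_lit 375) (nat_lit 232) (nat_lit 173)) (XT.lf (nat_lit 0) (nat_lit 157624548166) (nat_lit 76) (nat_lit 95919180261) (nat_lit 76) (nat_lit 90256184852) (nat_lit 1) (nat_lit 4) (nat_lit 2) (nat_lit 5) (nat_lit 2) (nat_lit 4) (nat_lit 376) (nat_lit 232) (nat_lit 172))) (XT.nd (nat_lit 78) (nat_lit 0) (nat_lit 0) (XT.lf (nat_lit 0) (nat_lit 169493518065) (nat_lit 76) (nat_lit 98534191894) (nat_lit 76) (nat_lit 92855943156) (nat_lit 1) (nat_lit 4) (nat_lit 2) (nat_lit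 5) (nat_lit 2) (nat_lit 4) (nat_lit 377) (nat_lit 232) (nat_lit 171)) (XT.nd (nat_lit 78) (nat_lit 0) (nat_lit 0) (XT.lf (nat_lit 0) (nat_lit 181937966787) (nat_lit 76) (nat_lit 101288433845) (nat_lit 76) (nat_lit 95595658126) (nat_lit 1) (nat_lit 4) (nat_lit 2) (nat_lit 5) (nat_lit 2) (nat_lit 4) (nat_lit 378) (nat_lit 232) (nat_lit 170)) (XT.lf (nat_lit 0) (nat_lit 194987523971) (nat_lit 76) (nat_lit 104188463831) (nat_lit 76) (nat_lit 98481852892) (nat_lit 1) (nat_lit 4) (nat_lit 2) (nat_lit 5) (nat_lit 2) (nat_lit 4) (nat_lit 379) (nat_lit 232) (nat_lit 169))))) (XT.nd (nat_lit 156) (nat_lit 0) (nat_lit 0) (XT.nd (nat_lit 78) (nat_lit 0) (nat_lit 0) (XT.lf (nat_lit 0) (nat_lit 208673259991) (nat_lit 76) (nat_lit 107241186685) (nat_lit 76) (nat_lit 101521399347) (nat_lit 1) (nat_lit 4) (nat_lit 2) (nat_lit 5) (nat_lit 2) (nat_lit 4) (nat_lit 380) (nat_lit 232) (nat_lit 168)) (XT.lf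 (nat_lit 0) (nat_lit 223027759934) (nat_lit 76) (nat_lit 110453870797) (nat_lit 76) (nat_lit 104721534507) (nat_lit 1) (nat_lit 4) (nat_lit 2) (nat_lit 5) (nat_lit 2) (nat_lit 4) (nat_lit 381) (nat_lit 232) (nat_lit 167))) (XT.nd (nat_lit 78) (nat_lit 0) (nat_lit 0) (XT.lf (nat_lit 0) (nat_lit 238085201180) (nat_lit 76) (nat_lit 113834165412) (nat_lit 76) (nat_lit 108089877740) (nat_lit 1) (nat_lit 4) (nat_lit 2) (nat_lit 5) (nat_lit 2) (nat_lit 4) (nat_lit 382) (nat_lit 232) (nat_lit 166)) (XT.nd (nat_lit 78) (nat_lit 0) (nat_lit 0) (XT.lf (nat_lit 0) (nat_lit 253881434780) (nat_lit 76) (nat_lit 117390118853) (nat_lit 76) (nat_lit 111634448911) (nat_lit 1) (nat_lit 4) (nat_lit 2) (nat_lit 5) (nat_lit 2) (nat_lit 4) (nat_lit 383) (nat_lit 232) (nat_lit 165)) (XT.lf (nat_lit 0) (nat_lit 270454070813) (nat_lit 76) (nat_lit 121130197675) (nat_lit 76) (nat_lit 115363687476) (nat_lit 1) (nat_lit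 4) (nat_lit 2) (nat_lit 5) (nat_lit 2) (nat_lit 4) (nat_lit 384) (nat_lit 232) (nat_lit 164)))))) (XT.nd (nat_lit 390) (nat_lit 0) (nat_lit 0) (XT.nd (nat_lit 156) (nat_lit 0) (nat_lit 0) (XT.nd (nat_lit 78) (nat_lit 0) (nat_lit 0) (XT.lf (nat_lit 0) (nat_lit 287842567938) (nat_lit 76) (nat_lit 125063306827) (nat_lit 76) (nat_lit 119286472574) (nat_lit 1) (nat_lit 4) (nat_lit 2) (nat_lit 5) (nat_lit 2) (nat_lit 4) (nat_lit 385) (nat_lit 232) (nat_lit 163)) (XT.lf (nat_lit 0) (nat_lit 306088327337) (nat_lit 76) (nat_lit 129198810854) (nat_lit 76) (nat_lit 123412144170) (nat_lit 1) (nat_lit 4) (nat_lit 2) (nat_lit 5) (nat_lit 2) (nat_lit 4) (nat_lit 386) (nat_lit 232) (nat_lit 162))) (XT.nd (nat_lit 78) (nat_lit 0) (nat_lit 0) (XT.lf (nat_lit 0) (nat_lit 325234791294) (nat_lit 76) (nat_lit 133546556197) (nat_lit 76) (nat_lit 127750525291) (nat_lit 1) (nat_lit 4) (nat_lit 2) (nat_lit 5)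 (nat_lit 2) (nat_lit 4) (nat_lit 387) (nat_lit 232) (nat_lit 161)) (XT.nd (nat_lit 78) (nat_lit 0) (nat_lit 0) (XT.lf (nat_lit 0) (nat_lit 345327546630) (nat_lit 76) (nat_lit 138116894627) (nat_lit 76) (nat_lit 132311945416) (nat_lit 1) (nat_lit 4) (nat_lit 2) (nat_lit 5) (nat_lit 2) (nat_lit 4) (nat_lit 388) (nat_lit 232) (nat_lit 160)) (XT.lf (nat_lit 0) (nat_lit 366414433237) (nat_lit 76) (nat_lit 142920707905) (nat_lit 76) (nat_lit 137107265069) (nat_lit 1) (nat_lit 4) (nat_lit 2) (nat_lit 5) (nat_lit 2) (nat_lit 4) (nat_lit 389) (nat_lit 232) (nat_lit 159))))) (XT.nd (nat_lit 34710) (nat_lit 0) (nat_lit 684) (XT.nd (nat_lit 78) (nat_lit 0) (nat_lit 0) (XT.lf (nat_lit 0) (nat_lit 388545657988) (nat_lit 76) (nat_lit 147969433680) (nat_lit 76) (nat_lit 142147901678) (nat_lit 1) (nat_lit 4) (nat_lit 2) (nat_lit 5) (nat_lit 2) (nat_lit 4) (nat_lit 390) (nat_lit 232) (nat_lit 158)) (XT.nd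 (nat_lit 78) (nat_lit 0) (nat_lit 0) (XT.lf (nat_lit 0) (nat_lit 411773914276) (nat_lit 76) (nat_lit 153275092729) (nat_lit 76) (nat_lit 147445856758) (nat_lit 1) (nat_lit 4) (nat_lit 2) (nat_lit 5) (nat_lit 2) (nat_lit 4) (nat_lit 391) (nat_lit 232) (nat_lit 157)) (XT.lf (nat_lit 0) (nat_lit 436154507472) (nat_lit 76) (nat_lit 158850317572) (nat_lit 76) (nat_lit 153013744489) (nat_lit 1) (nat_lit 4) (nat_lit 2) (nat_lit 5) (nat_lit 2) (nat_lit 4) (nat_lit 392) (nat_lit 232) (nat_lit 156)))) (XT.nd (nat_lit 78) (nat_lit 76) (nat_lit 0) (XT.lf (nat_lit 0) (nat_lit 3486925227) (nat_lit 152) (nat_lit 3064979555) (nat_lit 0) (nat_lit 3486925227) (nat_lit 11) (nat_lit 5) (nat_lit 13) (nat_lit 4) (nat_lit 11) (nat_lit 4) (nat_lit 314) (nat_lit 233) (nat_lit 233)) (XT.nd (nat_lit 78) (nat_lit 0) (nat_lit 0) (XT.lf (nat_lit 0) (nat_lit 1558281415) (nat_lit 76) (nat_lit 9822684236) (nat_lit 76)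 (nat_lit 9476362466) (nat_lit 10) (nat_lit 4) (nat_lit 11) (nat_lit 5) (nat_lit 11) (nat_lit 4) (nat_lit 315) (nat_lit 233) (nat_lit 232)) (XT.lf (nat_lit 0) (nat_lit 9585296216) (nat_lit 76) (nat_lit 6384434363) (nat_lit 76) (nat_lit 5708282335) (nat_lit 10) (nat_lit 4) (nat_lit 11) (nat_lit 5) (nat_lit 11) (nat_lit 4) (nat_lit 316) (nat_lit 233) (nat_lit 231))))))))
noncomputable def xc38 : XT := (XT.nd (nat_lit 1560) (nat_lit 228) (nat_lit 0) (XT.nd (nat_lit 780) (nat_lit 76) (nat_lit 0) (XT.nd (nat_lit 390) (nat_lit 228) (nat_lit 0) (XT.nd (nat_lit 156) (nat_lit 0) (nat_lit 0) (XT.nd (nat_lit 78) (nat_lit 152) (nat_lit 0) (XT.lf (nat_lit 0) (nat_lit 17767513100) (nat_lit 76) (nat_lit 2884687461) (nat_lit 76) (nat_lit 1894411378) (nat_lit 10) (nat_lit 4) (nat_lit 11) (nat_lit 5) (nat_lit 11) (nat_lit 4) (nat_lit 317) (nat_lit 233) (nat_lit 230)) (XT.lf (nat_lit 0) (nat_lit 1965426941)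 (nat_lit 152) (nat_lit 20758123671) (nat_lit 0) (nat_lit 737387085) (nat_lit 8) (nat_lit 5) (nat_lit 10) (nat_lit 4) (nat_lit 8) (nat_lit 4) (nat_lit 318) (nat_lit 233) (nat_lit 229))) (XT.nd (nat_lit 78) (nat_lit 0) (nat_lit 0) (XT.lf (nat_lit 0) (nat_lit 5953605466) (nat_lit 152) (nat_lit 14011738014) (nat_lit 0) (nat_lit 4454213441) (nat_lit 8) (nat_lit 5) (nat_lit 10) (nat_lit 4) (nat_lit 8) (nat_lit 4) (nat_lit 319) (nat_lit 233) (nat_lit 228)) (XT.nd (nat_lit 78) (nat_lit 0) (nat_lit 0) (XT.lf (nat_lit 0) (nat_lit 10016868915) (nat_lit 152) (nat_lit 7156484919) (nat_lit 0) (nat_lit 8259046253) (nat_lit 8) (nat_lit 5) (nat_lit 10) (nat_lit 4) (nat_lit 8) (nat_lit 4) (nat_lit 320) (nat_lit 233) (nat_lit 227)) (XT.lf (nat_lit 0) (nat_lit 14164891726) (nat_lit 152) (nat_lit 176042353) (nat_lit 0) (nat_lit 12160944646) (nat_lit 8) (nat_lit 5) (nat_lit 10) (nat_lit 4) (nat_lit 8) (nat_lit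 4) (nat_lit 321) (nat_lit 233) (nat_lit 226))))) (XT.nd (nat_lit 156) (nat_lit 152) (nat_lit 0) (XT.nd (nat_lit 78) (nat_lit 0) (nat_lit 0) (XT.lf (nat_lit 0) (nat_lit 7175882849) (nat_lit 76) (nat_lit 11343702934) (nat_lit 76) (nat_lit 9105351649) (nat_lit 7) (nat_lit 4) (nat_lit 8) (nat_lit 5) (nat_lit 8) (nat_lit 4) (nat_lit 322) (nat_lit 233) (nat_lit 225)) (XT.lf (nat_lit 0) (nat_lit 14697645686) (nat_lit 76) (nat_lit 8286771484) (nat_lit 76) (nat_lit 5825178097) (nat_lit 7) (nat_lit 4) (nat_lit 8) (nat_lit 5) (nat_lit 8) (nat_lit 4) (nat_lit 323) (nat_lit 233) (nat_lit 224))) (XT.nd (nat_lit 78) (nat_lit 152) (nat_lit 0) (XT.lf (nat_lit 0) (nat_lit 22401334362) (nat_lit 76) (nat_lit 5165842683) (nat_lit 76) (nat_lit 2491637772) (nat_lit 7) (nat_lit 4) (nat_lit 8) (nat_lit 5) (nat_lit 8) (nat_lit 4) (nat_lit 324) (nat_lit 233) (nat_lit 223)) (XT.nd (nat_lit 78) (nat_lit 76) (nat_lit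 0) (XT.lf (nat_lit 0) (nat_lit 874298085) (nat_lit 152) (nat_lit 1084381001) (nat_lit 76) (nat_lit 29416186245) (nat_lit 6) (nat_lit 5) (nat_lit 8) (nat_lit 5) (nat_lit 7) (nat_lit 4) (nat_lit 325) (nat_lit 233) (nat_lit 222)) (XT.lf (nat_lit 0) (nat_lit 4340790144) (nat_lit 152) (nat_lit 26995719156) (nat_lit 0) (nat_lit 1417421574) (nat_lit 5) (nat_lit 5) (nat_lit 7) (nat_lit 4) (nat_lit 5) (nat_lit 4) (nat_lit 326) (nat_lit 233) (nat_lit 221)))))) (XT.nd (nat_lit 390) (nat_lit 0) (nat_lit 0) (XT.nd (nat_lit 156) (nat_lit 76) (nat_lit 0) (XT.nd (nat_lit 78) (nat_lit 0) (nat_lit 0) (XT.lf (nat_lit 0) (nat_lit 7934840936) (nat_lit 152) (nat_lit 21432892680) (nat_lit 0) (nat_lit 4836556339) (nat_lit 5) (nat_lit 5) (nat_lit 7) (nat_lit 4) (nat_lit 5) (nat_lit 4) (nat_lit 327) (nat_lit 233) (nat_lit 220)) (XT.lf (nat_lit 0) (nat_lit 11616650517) (nat_lit 152) (nat_lit 15763383926) (nat_lit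 0) (nat_lit 8351779227) (nat_lit 5) (nat_lit 5) (nat_lit 7) (nat_lit 4) (nat_lit 5) (nat_lit 4) (nat_lit 328) (nat_lit 233) (nat_lit 219))) (XT.nd (nat_lit 78) (nat_lit 76) (nat_lit 0) (XT.lf (nat_lit 0) (nat_lit 15394985102) (nat_lit 152) (nat_lit 9973694062) (nat_lit 0) (nat_lit 11971459818) (nat_lit 5) (nat_lit 5) (nat_lit 7) (nat_lit 4) (nat_lit 5) (nat_lit 4) (nat_lit 329) (nat_lit 233) (nat_lit 218)) (XT.nd (nat_lit 78) (nat_lit 76) (nat_lit 0) (XT.lf (nat_lit 0) (nat_lit 19278840723) (nat_lit 152) (nat_lit 4050038113) (nat_lit 0) (nat_lit 15704216399) (nat_lit 5) (nat_lit 5) (nat_lit 7) (nat_lit 4) (nat_lit 5) (nat_lit 4) (nat_lit 330) (nat_lit 233) (nat_lit 217)) (XT.lf (nat_lit 0) (nat_lit 2088533994) (nat_lit 76) (nat_lit 21221538532) (nat_lit 76) (nat_lit 17503010359) (nat_lit 4) (nat_lit 4) (nat_lit 5) (nat_lit 5) (nat_lit 5) (nat_lit 4) (nat_lit 331) (nat_lit 233) (nat_lit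 216))))) (XT.nd (nat_lit 156) (nat_lit 0) (nat_lit 0) (XT.nd (nat_lit 78) (nat_lit 0) (nat_lit 0) (XT.lf (nat_lit 0) (nat_lit 8528919032) (nat_lit 76) (nat_lit 19004618735) (nat_lit 76) (nat_lit 15149039277) (nat_lit 4) (nat_lit 4) (nat_lit 5) (nat_lit 5) (nat_lit 5) (nat_lit 4) (nat_lit 332) (nat_lit 233) (nat_lit 215)) (XT.lf (nat_lit 0) (nat_lit 15152538699) (nat_lit 76) (nat_lit 16741430419) (nat_lit 76) (nat_lit 12755325928) (nat_lit 4) (nat_lit 4) (nat_lit 5) (nat_lit 5) (nat_lit 5) (nat_lit 4) (nat_lit 333) (nat_lit 233) (nat_lit 214))) (XT.nd (nat_lit 78) (nat_lit 0) (nat_lit 0) (XT.lf (nat_lit 0) (nat_lit 21975163518) (nat_lit 76) (nat_lit 14426585042) (nat_lit 76) (nat_lit 10316170996) (nat_lit 4) (nat_lit 4) (nat_lit 5) (nat_lit 5) (nat_lit 5) (nat_lit 4) (nat_lit 334) (nat_lit 233) (nat_lit 213)) (XT.nd (nat_lit 78) (nat_lit 0) (nat_lit 0) (XT.lf (nat_lit 0) (nat_lit 29013037834)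 (nat_lit 76) (nat_lit 12054571067) (nat_lit 76) (nat_lit 7825766968) (nat_lit 4) (nat_lit 4) (nat_lit 5) (nat_lit 5) (nat_lit 5) (nat_lit 4) (nat_lit 335) (nat_lit 233) (nat_lit 212)) (XT.lf (nat_lit 0) (nat_lit 36282918491) (nat_lit 76) (nat_lit 9619740840) (nat_lit 76) (nat_lit 5278184310) (nat_lit 4) (nat_lit 4) (nat_lit 5) (nat_lit 5) (nat_lit 5) (nat_lit 4) (nat_lit 336) (nat_lit 233) (nat_lit 211))))))) (XT.nd (nat_lit 780) (nat_lit 76) (nat_lit 0) (XT.nd (nat_lit 390) (nat_lit 0) (nat_lit 0) (XT.nd (nat_lit 156) (nat_lit 76) (nat_lit 0) (XT.nd (nat_lit 78) (nat_lit 76) (nat_lit 0) (XT.lf (nat_lit 0) (nat_lit 43802114729) (nat_lit 76) (nat_lit 7116297149) (nat_lit 76) (nat_lit 2667357351) (nat_lit 4) (nat_lit 4) (nat_lit 5) (nat_lit 5) (nat_lit 5) (nat_lit 4) (nat_lit 337) (nat_lit 233) (nat_lit 210)) (XT.lf (nat_lit 0) (nat_lit 12516318) (nat_lit 152) (nat_lit 4525551123) (nat_lit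 76) (nat_lit 51575801106) (nat_lit 3) (nat_lit 5) (nat_lit 5) (nat_lit 5) (nat_lit 4) (nat_lit 4) (nat_lit 338) (nat_lit 233) (nat_lit 209))) (XT.nd (nat_lit 78) (nat_lit 0) (nat_lit 0) (XT.lf (nat_lit 0) (nat_lit 874259357) (nat_lit 76) (nat_lit 1819822946) (nat_lit 152) (nat_lit 56074264762) (nat_lit 2) (nat_lit 5) (nat_lit 3) (nat_lit 5) (nat_lit 4) (nat_lit 4) (nat_lit 339) (nat_lit 233) (nat_lit 208)) (XT.nd (nat_lit 78) (nat_lit 0) (nat_lit 0) (XT.lf (nat_lit 0) (nat_lit 5547768277) (nat_lit 152) (nat_lit 54973728614) (nat_lit 0) (nat_lit 1032176782) (nat_lit 2) (nat_lit 5) (nat_lit 4) (nat_lit 4) (nat_lit 2) (nat_lit 4) (nat_lit 340) (nat_lit 233) (nat_lit 207)) (XT.lf (nat_lit 0) (nat_lit 8520632673) (nat_lit 152) (nat_lit 52037930652) (nat_lit 0) (nat_lit 3920903578) (nat_lit 2) (nat_lit 5) (nat_lit 4) (nat_lit 4) (nat_lit 2) (nat_lit 4) (nat_lit 341) (nat_lit 233) (nat_lit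 206))))) (XT.nd (nat_lit 156) (nat_lit 0) (nat_lit 0) (XT.nd (nat_lit 78) (nat_lit 0) (nat_lit 0) (XT.lf (nat_lit 0) (nat_lit 11591341203) (nat_lit 152) (nat_lit 49051291291) (nat_lit 0) (nat_lit 6911481061) (nat_lit 2) (nat_lit 5) (nat_lit 4) (nat_lit 4) (nat_lit 2) (nat_lit 4) (nat_lit 342) (nat_lit 233) (nat_lit 205)) (XT.lf (nat_lit 0) (nat_lit 14767205079) (nat_lit 152) (nat_lit 46006699484) (nat_lit 0) (nat_lit 10011029653) (nat_lit 2) (nat_lit 5) (nat_lit 4) (nat_lit 4) (nat_lit 2) (nat_lit 4) (nat_lit 343) (nat_lit 233) (nat_lit 204))) (XT.nd (nat_lit 78) (nat_lit 0) (nat_lit 0) (XT.lf (nat_lit 0) (nat_lit 18055785882) (nat_lit 152) (nat_lit 42896906204) (nat_lit 0) (nat_lit 13226929233) (nat_lit 2) (nat_lit 5) (nat_lit 4) (nat_lit 4) (nat_lit 2) (nat_lit 4) (nat_lit 344) (nat_lit 233) (nat_lit 203)) (XT.nd (nat_lit 78) (nat_lit 0) (nat_lit 0) (XT.lf (nat_lit 0) (nat_lit 21464913564)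 (nat_lit 152) (nat_lit 39714507181) (nat_lit 0) (nat_lit 16566836704) (nat_lit 2) (nat_lit 5) (nat_lit 4) (nat_lit 4) (nat_lit 2) (nat_lit 4) (nat_lit 345) (nat_lit 233) (nat_lit 202)) (XT.lf (nat_lit 0) (nat_lit 25002705099) (nat_lit 152) (nat_lit 36451925274) (nat_lit 0) (nat_lit 20038704227) (nat_lit 2) (nat_lit 5) (nat_lit 4) (nat_lit 4) (nat_lit 2) (nat_lit 4) (nat_lit 346) (nat_lit 233) (nat_lit 201)))))) (XT.nd (nat_lit 390) (nat_lit 76) (nat_lit 0) (XT.nd (nat_lit 156) (nat_lit 0) (nat_lit 0) (XT.nd (nat_lit 78) (nat_lit 0) (nat_lit 0) (XT.lf (nat_lit 0) (nat_lit 28677583797) (nat_lit 152) (nat_lit 33101392432) (nat_lit 0) (nat_lit 23650798153) (nat_lit 2) (nat_lit 5) (nat_lit 4) (nat_lit 4) (nat_lit 2) (nat_lit 4) (nat_lit 347) (nat_lit 233) (nat_lit 200)) (XT.lf (nat_lit 0) (nat_lit 32498299371) (nat_lit 152) (nat_lit 29654931194) (nat_lit 0) (nat_lit 27411718706) (nat_lit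 2) (nat_lit 5) (nat_lit 4) (nat_lit 4) (nat_lit 2) (nat_lit 4) (nat_lit 348) (nat_lit 233) (nat_lit 199))) (XT.nd (nat_lit 78) (nat_lit 0) (nat_lit 0) (XT.lf (nat_lit 0) (nat_lit 36473948762) (nat_lit 152) (nat_lit 26104335701) (nat_lit 0) (nat_lit 31330420458) (nat_lit 2) (nat_lit 5) (nat_lit 4) (nat_lit 4) (nat_lit 2) (nat_lit 4) (nat_lit 349) (nat_lit 233) (nat_lit 198)) (XT.nd (nat_lit 78) (nat_lit 0) (nat_lit 0) (XT.lf (nat_lit 0) (nat_lit 40613997803) (nat_lit 152) (nat_lit 22441152155) (nat_lit 0) (nat_lit 35416233651) (nat_lit 2) (nat_lit 5) (nat_lit 4) (nat_lit 4) (nat_lit 2) (nat_lit 4) (nat_lit 350) (nat_lit 233) (nat_lit 197)) (XT.lf (nat_lit 0) (nat_lit 44928303753) (nat_lit 152) (nat_lit 18656658689) (nat_lit 0) (nat_lit 39678886413) (nat_lit 2) (nat_lit 5) (nat_lit 4) (nat_lit 4) (nat_lit 2) (nat_lit 4) (nat_lit 351) (nat_lit 233) (nat_lit 196))))) (XT.nd (nat_lit 234)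 (nat_lit 76) (nat_lit 0) (XT.nd (nat_lit 78) (nat_lit 0) (nat_lit 0) (XT.lf (nat_lit 0) (nat_lit 49427138768) (nat_lit 152) (nat_lit 14741844605) (nat_lit 0) (nat_lit 44128527916) (nat_lit 2) (nat_lit 5) (nat_lit 4) (nat_lit 4) (nat_lit 2) (nat_lit 4) (nat_lit 352) (nat_lit 233) (nat_lit 195)) (XT.nd (nat_lit 78) (nat_lit 0) (nat_lit 0) (XT.lf (nat_lit 0) (nat_lit 54121214362) (nat_lit 152) (nat_lit 10687388917) (nat_lit 0) (nat_lit 48775752546) (nat_lit 2) (nat_lit 5) (nat_lit 4) (nat_lit 4) (nat_lit 2) (nat_lit 4) (nat_lit 353) (nat_lit 233) (nat_lit 194)) (XT.lf (nat_lit 0) (nat_lit 59021706903) (nat_lit 152) (nat_lit 6483638159) (nat_lit 0) (nat_lit 53631625122) (nat_lit 2) (nat_lit 5) (nat_lit 4) (nat_lit 4) (nat_lit 2) (nat_lit 4) (nat_lit 354) (nat_lit 233) (nat_lit 193)))) (XT.nd (nat_lit 78) (nat_lit 76) (nat_lit 0) (XT.lf (nat_lit 0) (nat_lit 64140284233) (nat_lit 152) (nat_lit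 2120583400) (nat_lit 0) (nat_lit 58707707246) (nat_lit 2) (nat_lit 5) (nat_lit 4) (nat_lit 4) (nat_lit 2) (nat_lit 4) (nat_lit 355) (nat_lit 233) (nat_lit 192)) (XT.nd (nat_lit 78) (nat_lit 0) (nat_lit 0) (XT.lf (nat_lit 0) (nat_lit 2491920605) (nat_lit 76) (nat_lit 67036118698) (nat_lit 76) (nat_lit 61563070087) (nat_lit 1) (nat_lit 4) (nat_lit 2) (nat_lit 5) (nat_lit 2) (nat_lit 4) (nat_lit 356) (nat_lit 233) (nat_lit 191)) (XT.lf (nat_lit 0) (nat_lit 7360992788) (nat_lit 76) (nat_lit 67834922815) (nat_lit 76) (nat_lit 62323329800) (nat_lit 1) (nat_lit 4) (nat_lit 2) (nat_lit 5) (nat_lit 2) (nat_lit 4) (nat_lit 357) (nat_lit 233) (nat_lit 190))))))))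
noncomputable def xc39 : XT := (XT.nd (nat_lit 1560) (nat_lit 0) (nat_lit 0) (XT.nd (nat_lit 780) (nat_lit 0) (nat_lit 0) (XT.nd (nat_lit 390) (nat_lit 0) (nat_lit 0) (XT.nd (nat_lit 156) (nat_lit 0) (nat_lit 0) (XT.nd (nat_lit 78) (nat_lit 0) (nat_lit 0) (XT.lf (nat_lit 0) (nat_lit 12428110112) (nat_lit 76) (nat_lit 68695095006) (nat_lit 76) (nat_lit 63146793035) (nat_lit 1) (nat_lit 4) (nat_lit 2) (nat_lit 5) (nat_lit 2) (nat_lit 4) (nat_lit 358) (nat_lit 233) (nat_lit 189)) (XT.lf (nat_lit 0) (nat_lit 17705337144) (nat_lit 76) (nat_lit 69618683300) (nat_lit 76) (nat_lit 64035420418) (nat_lit 1) (nat_lit 4) (nat_lit 2) (nat_lit 5) (nat_lit 2) (nat_lit 4) (nat_lit 359) (nat_lit 233) (nat_lit 188))) (XT.nd (nat_lit 78) (nat_lit 0) (nat_lit 0) (XT.lf (nat_lit 0) (nat_lit 23205238708) (nat_lit 76) (nat_lit 70607886716) (nat_lit 76) (nat_lit 64991327729) (nat_lit 1) (nat_lit 4) (nat_lit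 2) (nat_lit 5) (nat_lit 2) (nat_lit 4) (nat_lit 360) (nat_lit 233) (nat_lit 187)) (XT.nd (nat_lit 78) (nat_lit 0) (nat_lit 0) (XT.lf (nat_lit 0) (nat_lit 28940909810) (nat_lit 76) (nat_lit 71665060501) (nat_lit 76) (nat_lit 66016790937) (nat_lit 1) (nat_lit 4) (nat_lit 2) (nat_lit 5) (nat_lit 2) (nat_lit 4) (nat_lit 361) (nat_lit 233) (nat_lit 186)) (XT.lf (nat_lit 0) (nat_lit 34926006808) (nat_lit 76) (nat_lit 72792721735) (nat_lit 76) (nat_lit 67114251622) (nat_lit 1) (nat_lit 4) (nat_lit 2) (nat_lit 5) (nat_lit 2) (nat_lit 4) (nat_lit 362) (nat_lit 233) (nat_lit 185))))) (XT.nd (nat_lit 156) (nat_lit 0) (nat_lit 0) (XT.nd (nat_lit 78) (nat_lit 0) (nat_lit 0) (XT.lf (nat_lit 0) (nat_lit 41174779933) (nat_lit 76) (nat_lit 73993555326) (nat_lit 76) (nat_lit 68286322785) (nat_lit 1) (nat_lit 4) (nat_lit 2) (nat_lit 5) (nat_lit 2) (nat_lit 4) (nat_lit 363) (nat_lit 233) (nat_lit 184))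 (XT.lf (nat_lit 0) (nat_lit 47702107217) (nat_lit 76) (nat_lit 75270420402) (nat_lit 76) (nat_lit 69535795072) (nat_lit 1) (nat_lit 4) (nat_lit 2) (nat_lit 5) (nat_lit 2) (nat_lit 4) (nat_lit 364) (nat_lit 233) (nat_lit 183))) (XT.nd (nat_lit 78) (nat_lit 0) (nat_lit 0) (XT.lf (nat_lit 0) (nat_lit 54523529916) (nat_lit 76) (nat_lit 76626357116) (nat_lit 76) (nat_lit 70865643417) (nat_lit 1) (nat_lit 4) (nat_lit 2) (nat_lit 5) (nat_lit 2) (nat_lit 4) (nat_lit 365) (nat_lit 233) (nat_lit 182)) (XT.nd (nat_lit 78) (nat_lit 0) (nat_lit 0) (XT.lf (nat_lit 0) (nat_lit 61655289511) (nat_lit 76) (nat_lit 78064593891) (nat_lit 76) (nat_lit 72279034126) (nat_lit 1) (nat_lit 4) (nat_lit 2) (nat_lit 5) (nat_lit 2) (nat_lit 4) (nat_lit 366) (nat_lit 233) (nat_lit 181)) (XT.lf (nat_lit 0) (nat_lit 69114366383) (nat_lit 76) (nat_lit 79588555099) (nat_lit 76) (nat_lit 73779332413) (nat_lit 1) (nat_lit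 4) (nat_lit 2) (nat_lit 5) (nat_lit 2) (nat_lit 4) (nat_lit 367) (nat_lit 233) (nat_lit 180)))))) (XT.nd (nat_lit 390) (nat_lit 0) (nat_lit 0) (XT.nd (nat_lit 156) (nat_lit 0) (nat_lit 0) (XT.nd (nat_lit 78) (nat_lit 0) (nat_lit 0) (XT.lf (nat_lit 0) (nat_lit 76918520238) (nat_lit 76) (nat_lit 81201869220) (nat_lit 76) (nat_lit 75370110419) (nat_lit 1) (nat_lit 4) (nat_lit 2) (nat_lit 5) (nat_lit 2) (nat_lit 4) (nat_lit 368) (nat_lit 233) (nat_lit 179)) (XT.lf (nat_lit 0) (nat_lit 85086332396) (nat_lit 76) (nat_lit 82908377477) (nat_lit 76) (nat_lit 77055155710) (nat_lit 1) (nat_lit 4) (nat_lit 2) (nat_lit 5) (nat_lit 2) (nat_lit 4) (nat_lit 369) (nat_lit 233) (nat_lit 178))) (XT.nd (nat_lit 78) (nat_lit 0) (nat_lit 0) (XT.lf (nat_lit 0) (nat_lit 93637250028) (nat_lit 76) (nat_lit 84712142986) (nat_lit 76) (nat_lit 78838480298) (nat_lit 1) (nat_lit 4) (nat_lit 2) (nat_lit 5) (nat_lit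 2) (nat_lit 4) (nat_lit 370) (nat_lit 233) (nat_lit 177)) (XT.nd (nat_lit 78) (nat_lit 0) (nat_lit 0) (XT.lf (nat_lit 0) (nat_lit 102591632462) (nat_lit 76) (nat_lit 86617460426) (nat_lit 76) (nat_lit 80724330195) (nat_lit 1) (nat_lit 4) (nat_lit 2) (nat_lit 5) (nat_lit 2) (nat_lit 4) (nat_lit 371) (nat_lit 233) (nat_lit 176)) (XT.lf (nat_lit 0) (nat_lit 111970799656) (nat_lit 76) (nat_lit 88628866267) (nat_lit 76) (nat_lit 82717195519) (nat_lit 1) (nat_lit 4) (nat_lit 2) (nat_lit 5) (nat_lit 2) (nat_lit 4) (nat_lit 372) (nat_lit 233) (nat_lit 175))))) (XT.nd (nat_lit 156) (nat_lit 0) (nat_lit 0) (XT.nd (nat_lit 78) (nat_lit 0) (nat_lit 0) (XT.lf (nat_lit 0) (nat_lit 121797082961) (nat_lit 76) (nat_lit 90751149571) (nat_lit 76) (nat_lit 84821821188) (nat_lit 1) (nat_lit 4) (nat_lit 2) (nat_lit 5) (nat_lit 2) (nat_lit 4) (nat_lit 373) (nat_lit 233) (nat_lit 174)) (XT.lf (nat_lit 0) (nat_lit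 132093878288) (nat_lit 76) (nat_lit 92989363394) (nat_lit 76) (nat_lit 87043218214) (nat_lit 1) (nat_lit 4) (nat_lit 2) (nat_lit 5) (nat_lit 2) (nat_lit 4) (nat_lit 374) (nat_lit 233) (nat_lit 173))) (XT.nd (nat_lit 78) (nat_lit 0) (nat_lit 0) (XT.lf (nat_lit 0) (nat_lit 142885701818) (nat_lit 76) (nat_lit 95348836815) (nat_lit 76) (nat_lit 89386675640) (nat_lit 1) (nat_lit 4) (nat_lit 2) (nat_lit 5) (nat_lit 2) (nat_lit 4) (nat_lit 375) (nat_lit 233) (nat_lit 172)) (XT.nd (nat_lit 78) (nat_lit 0) (nat_lit 0) (XT.lf (nat_lit 0) (nat_lit 154198248369) (nat_lit 76) (nat_lit 97835187629) (nat_lit 76) (nat_lit 91857773124) (nat_lit 1) (nat_lit 4) (nat_lit 2) (nat_lit 5) (nat_lit 2) (nat_lit 4) (nat_lit 376) (nat_lit 233) (nat_lit 171)) (XT.lf (nat_lit 0) (nat_lit 166058452574) (nat_lit 76) (nat_lit 100454335719) (nat_lit 76) (nat_lit 94462394234) (nat_lit 1) (nat_lit 4) (nat_lit 2) (nat_lit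 5) (nat_lit 2) (nat_lit 4) (nat_lit 377) (nat_lit 233) (nat_lit 170))))))) (XT.nd (nat_lit 780) (nat_lit 0) (nat_lit 0) (XT.nd (nat_lit 390) (nat_lit 0) (nat_lit 0) (XT.nd (nat_lit 156) (nat_lit 0) (nat_lit 0) (XT.nd (nat_lit 78) (nat_lit 0) (nat_lit 0) (XT.lf (nat_lit 0) (nat_lit 178494553016) (nat_lit 76) (nat_lit 103212517151) (nat_lit 76) (nat_lit 97206740446) (nat_lit 1) (nat_lit 4) (nat_lit 2) (nat_lit 5) (nat_lit 2) (nat_lit 4) (nat_lit 378) (nat_lit 233) (nat_lit 169)) (XT.lf (nat_lit 0) (nat_lit 191536159457) (nat_lit 76) (nat_lit 106116299025) (nat_lit 76) (nat_lit 100097345920) (nat_lit 1) (nat_lit 4) (nat_lit 2) (nat_lit 5) (nat_lit 2) (nat_lit 4) (nat_lit 379) (nat_lit 233) (nat_lit 168))) (XT.nd (nat_lit 78) (nat_lit 0) (nat_lit 0) (XT.lf (nat_lit 0) (nat_lit 205214323342) (nat_lit 76) (nat_lit 109172595106) (nat_lit 76) (nat_lit 103141093049) (nat_lit 1) (nat_lit 4) (nat_lit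 2) (nat_lit 5) (nat_lit 2) (nat_lit 4) (nat_lit 380) (nat_lit 233) (nat_lit 167)) (XT.nd (nat_lit 78) (nat_lit 0) (nat_lit 0) (XT.lf (nat_lit 0) (nat_lit 219561611727) (nat_lit 76) (nat_lit 112388682290) (nat_lit 76) (nat_lit 106345228850) (nat_lit 1) (nat_lit 4) (nat_lit 2) (nat_lit 5) (nat_lit 2) (nat_lit 4) (nat_lit 381) (nat_lit 233) (nat_lit 166)) (XT.lf (nat_lit 0) (nat_lit 234612184822) (nat_lit 76) (nat_lit 115772217927) (nat_lit 76) (nat_lit 109717382218) (nat_lit 1) (nat_lit 4) (nat_lit 2) (nat_lit 5) (nat_lit 2) (nat_lit 4) (nat_lit 382) (nat_lit 233) (nat_lit 165))))) (XT.nd (nat_lit 156) (nat_lit 0) (nat_lit 0) (XT.nd (nat_lit 78) (nat_lit 0) (nat_lit 0) (XT.lf (nat_lit 0) (nat_lit 250401877326) (nat_lit 76) (nat_lit 119331258055) (nat_lit 76) (nat_lit 113265582090) (nat_lit 1) (nat_lit 4) (nat_lit 2) (nat_lit 5) (nat_lit 2) (nat_lit 4) (nat_lit 383) (nat_lit 233) (nat_lit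 164)) (XT.lf (nat_lit 0) (nat_lit 266968283745) (nat_lit 76) (nat_lit 123074276579) (nat_lit 76) (nat_lit 116998276560) (nat_lit 1) (nat_lit 4) (nat_lit 2) (nat_lit 5) (nat_lit 2) (nat_lit 4) (nat_lit 384) (nat_lit 233) (nat_lit 163))) (XT.nd (nat_lit 78) (nat_lit 0) (nat_lit 0) (XT.lf (nat_lit 0) (nat_lit 284350847902) (nat_lit 76) (nat_lit 127010185447) (nat_lit 76) (nat_lit 120924352996) (nat_lit 1) (nat_lit 4) (nat_lit 2) (nat_lit 5) (nat_lit 2) (nat_lit 4) (nat_lit 385) (nat_lit 233) (nat_lit 162)) (XT.nd (nat_lit 78) (nat_lit 0) (nat_lit 0) (XT.lf (nat_lit 0) (nat_lit 302590956857) (nat_lit 76) (nat_lit 131148355871) (nat_lit 76) (nat_lit 125053159199) (nat_lit 1) (nat_lit 4) (nat_lit 2) (nat_lit 5) (nat_lit 2) (nat_lit 4) (nat_lit 386) (nat_lit 233) (nat_lit 161)) (XT.lf (nat_lit 0) (nat_lit 321732039439) (nat_lit 76) (nat_lit 135498640638) (nat_lit 76) (nat_lit 129394525660)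 (nat_lit 1) (nat_lit 4) (nat_lit 2) (nat_lit 5) (nat_lit 2) (nat_lit 4) (nat_lit 387) (nat_lit 233) (nat_lit 160)))))) (XT.nd (nat_lit 34788) (nat_lit 0) (nat_lit 532) (XT.nd (nat_lit 156) (nat_lit 0) (nat_lit 0) (XT.nd (nat_lit 78) (nat_lit 0) (nat_lit 0) (XT.lf (nat_lit 0) (nat_lit 341819669655) (nat_lit 76) (nat_lit 140071397569) (nat_lit 76) (nat_lit 133958788967) (nat_lit 1) (nat_lit 4) (nat_lit 2) (nat_lit 5) (nat_lit 2) (nat_lit 4) (nat_lit 388) (nat_lit 233) (nat_lit 159)) (XT.lf (nat_lit 0) (nat_lit 362901675195) (nat_lit 76) (nat_lit 144877514181) (nat_lit 76) (nat_lit 138756816412) (nat_lit 1) (nat_lit 4) (nat_lit 2) (nat_lit 5) (nat_lit 2) (nat_lit 4) (nat_lit 389) (nat_lit 233) (nat_lit 158))) (XT.nd (nat_lit 78) (nat_lit 0) (nat_lit 0) (XT.lf (nat_lit 0) (nat_lit 385028251312) (nat_lit 76) (nat_lit 149928433607) (nat_lit 76) (nat_lit 143800031870) (nat_lit 1) (nat_lit 4)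 (nat_lit 2) (nat_lit 5) (nat_lit 2) (nat_lit 4) (nat_lit 390) (nat_lit 233) (nat_lit 157)) (XT.nd (nat_lit 34476) (nat_lit 0) (nat_lit 912) (XT.lf (nat_lit 0) (nat_lit 408252080329) (nat_lit 76) (nat_lit 155236181847) (nat_lit 76) (nat_lit 149100442998) (nat_lit 1) (nat_lit 4) (nat_lit 2) (nat_lit 5) (nat_lit 2) (nat_lit 4) (nat_lit 391) (nat_lit 233) (nat_lit 156)) (XT.lf (nat_lit 0) (nat_lit 8185059784) (nat_lit 76) (nat_lit 567307723) (nat_lit 76) (nat_lit 567307723) (nat_lit 13) (nat_lit 4) (nat_lit 14) (nat_lit 5) (nat_lit 14) (nat_lit 4) (nat_lit 312) (nat_lit 234) (nat_lit 234))))) (XT.nd (nat_lit 234) (nat_lit 152) (nat_lit 0) (XT.nd (nat_lit 78) (nat_lit 76) (nat_lit 0) (XT.lf (nat_lit 0) (nat_lit 3024921725) (nat_lit 152) (nat_lit 13654777077) (nat_lit 0) (nat_lit 2661283867) (nat_lit 11) (nat_lit 5) (nat_lit 13) (nat_lit 4) (nat_lit 11) (nat_lit 4) (nat_lit 313) (nat_lit 234)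 (nat_lit 233)) (XT.nd (nat_lit 78) (nat_lit 76) (nat_lit 0) (XT.lf (nat_lit 0) (nat_lit 7266557162) (nat_lit 152) (nat_lit 6258102074) (nat_lit 0) (nat_lit 6556597533) (nat_lit 11) (nat_lit 5) (nat_lit 13) (nat_lit 4) (nat_lit 11) (nat_lit 4) (nat_lit 314) (nat_lit 234) (nat_lit 232)) (XT.lf (nat_lit 0) (nat_lit 1299825325) (nat_lit 76) (nat_lit 10302258333) (nat_lit 76) (nat_lit 9262468446) (nat_lit 10) (nat_lit 4) (nat_lit 11) (nat_lit 5) (nat_lit 11) (nat_lit 4) (nat_lit 315) (nat_lit 234) (nat_lit 231)))) (XT.nd (nat_lit 78) (nat_lit 152) (nat_lit 0) (XT.lf (nat_lit 0) (nat_lit 9206767610) (nat_lit 76) (nat_lit 6917869661) (nat_lit 76) (nat_lit 5563955720) (nat_lit 10) (nat_lit 4) (nat_lit 11) (nat_lit 5) (nat_lit 11) (nat_lit 4) (nat_lit 316) (nat_lit 234) (nat_lit 230)) (XT.nd (nat_lit 78) (nat_lit 152) (nat_lit 0) (XT.lf (nat_lit 0) (nat_lit 17274629717) (nat_lit 76) (nat_lit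 3469419142) (nat_lit 76) (nat_lit 1816339434) (nat_lit 10) (nat_lit 4) (nat_lit 11) (nat_lit 5) (nat_lit 11) (nat_lit 4) (nat_lit 317) (nat_lit 234) (nat_lit 229)) (XT.lf (nat_lit 0) (nat_lit 1959886751) (nat_lit 152) (nat_lit 21404688393) (nat_lit 0) (nat_lit 114172955) (nat_lit 8) (nat_lit 5) (nat_lit 10) (nat_lit 4) (nat_lit 8) (nat_lit 4) (nat_lit 318) (nat_lit 234) (nat_lit 228))))))))
noncomputable def xc40 : XT := (XT.nd (nat_lit 1560) (nat_lit 228) (nat_lit 0) (XT.nd (nat_lit 780) (nat_lit 76) (nat_lit 0) (XT.nd (nat_lit 390) (nat_lit 152) (nat_lit 0) (XT.nd (nat_lit 156) (nat_lit 76) (nat_lit 0) (XT.nd (nat_lit 78) (nat_lit 0) (nat_lit 0) (XT.lf (nat_lit 0) (nat_lit 5887419421) (nat_lit 152) (nat_lit 14769742660) (nat_lit 0) (nat_lit 3783274988) (nat_lit 8) (nat_lit 5) (nat_lit 10) (nat_lit 4) (nat_lit 8) (nat_lit 4) (nat_lit 319) (nat_lit 234) (nat_lit 227)) (XT.lf (nat_lit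 0) (nat_lit 9892924914) (nat_lit 152) (nat_lit 8020622825) (nat_lit 0) (nat_lit 7542656064) (nat_lit 8) (nat_lit 5) (nat_lit 10) (nat_lit 4) (nat_lit 8) (nat_lit 4) (nat_lit 320) (nat_lit 234) (nat_lit 226))) (XT.nd (nat_lit 78) (nat_lit 76) (nat_lit 0) (XT.lf (nat_lit 0) (nat_lit 13985940146) (nat_lit 152) (nat_lit 1141259555) (nat_lit 0) (nat_lit 11401267090) (nat_lit 8) (nat_lit 5) (nat_lit 10) (nat_lit 4) (nat_lit 8) (nat_lit 4) (nat_lit 321) (nat_lit 234) (nat_lit 225)) (XT.nd (nat_lit 78) (nat_lit 0) (nat_lit 0) (XT.lf (nat_lit 0) (nat_lit 6079302222) (nat_lit 76) (nat_lit 12191823115) (nat_lit 76) (nat_lit 9383907958) (nat_lit 7) (nat_lit 4) (nat_lit 8) (nat_lit 5) (nat_lit 8) (nat_lit 4) (nat_lit 322) (nat_lit 234) (nat_lit 224)) (XT.lf (nat_lit 0) (nat_lit 13506351741) (nat_lit 76) (nat_lit 9178232748) (nat_lit 76) (nat_lit 6157706067) (nat_lit 7) (nat_lit 4) (nat_lit 8) (nat_lit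 5) (nat_lit 8) (nat_lit 4) (nat_lit 323) (nat_lit 234) (nat_lit 223))))) (XT.nd (nat_lit 156) (nat_lit 76) (nat_lit 0) (XT.nd (nat_lit 78) (nat_lit 76) (nat_lit 0) (XT.lf (nat_lit 0) (nat_lit 21119837256) (nat_lit 76) (nat_lit 6098581170) (nat_lit 76) (nat_lit 2875567322) (nat_lit 7) (nat_lit 4) (nat_lit 8) (nat_lit 5) (nat_lit 8) (nat_lit 4) (nat_lit 324) (nat_lit 234) (nat_lit 222)) (XT.lf (nat_lit 0) (nat_lit 455269622) (nat_lit 152) (nat_lit 2482556042) (nat_lit 76) (nat_lit 28474906280) (nat_lit 6) (nat_lit 5) (nat_lit 8) (nat_lit 5) (nat_lit 7) (nat_lit 4) (nat_lit 325) (nat_lit 234) (nat_lit 221))) (XT.nd (nat_lit 78) (nat_lit 0) (nat_lit 0) (XT.lf (nat_lit 0) (nat_lit 3836460416) (nat_lit 152) (nat_lit 28551281924) (nat_lit 0) (nat_lit 408345561) (nat_lit 5) (nat_lit 5) (nat_lit 7) (nat_lit 4) (nat_lit 5) (nat_lit 4) (nat_lit 326) (nat_lit 234) (nat_lit 220)) (XT.nd (nat_lit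 78) (nat_lit 0) (nat_lit 0) (XT.lf (nat_lit 0) (nat_lit 7385660598) (nat_lit 152) (nat_lit 23072094007) (nat_lit 0) (nat_lit 3790959050) (nat_lit 5) (nat_lit 5) (nat_lit 7) (nat_lit 4) (nat_lit 5) (nat_lit 4) (nat_lit 327) (nat_lit 234) (nat_lit 219)) (XT.lf (nat_lit 0) (nat_lit 11024755313) (nat_lit 152) (nat_lit 17482241022) (nat_lit 0) (nat_lit 7271399772) (nat_lit 5) (nat_lit 5) (nat_lit 7) (nat_lit 4) (nat_lit 5) (nat_lit 4) (nat_lit 328) (nat_lit 234) (nat_lit 218)))))) (XT.nd (nat_lit 390) (nat_lit 0) (nat_lit 0) (XT.nd (nat_lit 156) (nat_lit 76) (nat_lit 0) (XT.nd (nat_lit 78) (nat_lit 0) (nat_lit 0) (XT.lf (nat_lit 0) (nat_lit 14762409072) (nat_lit 152) (nat_lit 11768413796) (nat_lit 0) (nat_lit 10857954490) (nat_lit 5) (nat_lit 5) (nat_lit 7) (nat_lit 4) (nat_lit 5) (nat_lit 4) (nat_lit 329) (nat_lit 234) (nat_lit 217)) (XT.lf (nat_lit 0) (nat_lit 18607521051) (nat_lit 152)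 (nat_lit 5917007979) (nat_lit 0) (nat_lit 14559162620) (nat_lit 5) (nat_lit 5) (nat_lit 7) (nat_lit 4) (nat_lit 5) (nat_lit 4) (nat_lit 330) (nat_lit 234) (nat_lit 216))) (XT.nd (nat_lit 78) (nat_lit 0) (nat_lit 0) (XT.lf (nat_lit 0) (nat_lit 88748867) (nat_lit 76) (nat_lit 22481883029) (nat_lit 76) (nat_lit 18296473313) (nat_lit 4) (nat_lit 4) (nat_lit 5) (nat_lit 5) (nat_lit 5) (nat_lit 4) (nat_lit 331) (nat_lit 234) (nat_lit 215)) (XT.nd (nat_lit 78) (nat_lit 0) (nat_lit 0) (XT.lf (nat_lit 0) (nat_lit 6461434088) (nat_lit 76) (nat_lit 20296464438) (nat_lit 76) (nat_lit 15980529689) (nat_lit 4) (nat_lit 4) (nat_lit 5) (nat_lit 5) (nat_lit 5) (nat_lit 4) (nat_lit 332) (nat_lit 234) (nat_lit 214)) (XT.lf (nat_lit 0) (nat_lit 13020577740) (nat_lit 76) (nat_lit 18063277270) (nat_lit 76) (nat_lit 13623032966) (nat_lit 4) (nat_lit 4) (nat_lit 5) (nat_lit 5) (nat_lit 5) (nat_lit 4) (nat_lit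 333) (nat_lit 234) (nat_lit 213))))) (XT.nd (nat_lit 156) (nat_lit 0) (nat_lit 0) (XT.nd (nat_lit 78) (nat_lit 0) (nat_lit 0) (XT.lf (nat_lit 0) (nat_lit 19781796831) (nat_lit 76) (nat_lit 15777004415) (nat_lit 76) (nat_lit 11218370059) (nat_lit 4) (nat_lit 4) (nat_lit 5) (nat_lit 5) (nat_lit 5) (nat_lit 4) (nat_lit 334) (nat_lit 234) (nat_lit 212)) (XT.lf (nat_lit 0) (nat_lit 26761189501) (nat_lit 76) (nat_lit 13432202366) (nat_lit 76) (nat_lit 8760815578) (nat_lit 4) (nat_lit 4) (nat_lit 5) (nat_lit 5) (nat_lit 5) (nat_lit 4) (nat_lit 335) (nat_lit 234) (nat_lit 211))) (XT.nd (nat_lit 78) (nat_lit 0) (nat_lit 0) (XT.lf (nat_lit 0) (nat_lit 33975373352) (nat_lit 76) (nat_lit 11023288259) (nat_lit 76) (nat_lit 6244518204) (nat_lit 4) (nat_lit 4) (nat_lit 5) (nat_lit 5) (nat_lit 5) (nat_lit 4) (nat_lit 336) (nat_lit 234) (nat_lit 210)) (XT.nd (nat_lit 78) (nat_lit 0) (nat_lit 0) (XT.lf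 (nat_lit 0) (nat_lit 41441525012) (nat_lit 76) (nat_lit 8544526586) (nat_lit 76) (nat_lit 3663486753) (nat_lit 4) (nat_lit 4) (nat_lit 5) (nat_lit 5) (nat_lit 5) (nat_lit 4) (nat_lit 337) (nat_lit 234) (nat_lit 209)) (XT.lf (nat_lit 0) (nat_lit 49177421032) (nat_lit 76) (nat_lit 5990015534) (nat_lit 76) (nat_lit 1011575911) (nat_lit 4) (nat_lit 4) (nat_lit 5) (nat_lit 5) (nat_lit 5) (nat_lit 4) (nat_lit 338) (nat_lit 234) (nat_lit 208))))))) (XT.nd (nat_lit 780) (nat_lit 76) (nat_lit 0) (XT.nd (nat_lit 390) (nat_lit 0) (nat_lit 0) (XT.nd (nat_lit 156) (nat_lit 0) (nat_lit 0) (XT.nd (nat_lit 78) (nat_lit 76) (nat_lit 0) (XT.lf (nat_lit 0) (nat_lit 1662556759) (nat_lit 152) (nat_lit 1662959969) (nat_lit 76) (nat_lit 55510767251) (nat_lit 3) (nat_lit 5) (nat_lit 5) (nat_lit 5) (nat_lit 4) (nat_lit 4) (nat_lit 339) (nat_lit 234) (nat_lit 207)) (XT.lf (nat_lit 0) (nat_lit 3957020572) (nat_lit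 76) (nat_lit 490084978) (nat_lit 152) (nat_lit 57177974090) (nat_lit 2) (nat_lit 5) (nat_lit 3) (nat_lit 5) (nat_lit 4) (nat_lit 4) (nat_lit 340) (nat_lit 234) (nat_lit 206))) (XT.nd (nat_lit 78) (nat_lit 0) (nat_lit 0) (XT.lf (nat_lit 0) (nat_lit 7387538305) (nat_lit 152) (nat_lit 54771413652) (nat_lit 0) (nat_lit 2393554108) (nat_lit 2) (nat_lit 5) (nat_lit 4) (nat_lit 4) (nat_lit 2) (nat_lit 4) (nat_lit 341) (nat_lit 234) (nat_lit 205)) (XT.nd (nat_lit 78) (nat_lit 0) (nat_lit 0) (XT.lf (nat_lit 0) (nat_lit 10434646796) (nat_lit 152) (nat_lit 51829349667) (nat_lit 0) (nat_lit 5364347315) (nat_lit 2) (nat_lit 5) (nat_lit 4) (nat_lit 4) (nat_lit 2) (nat_lit 4) (nat_lit 342) (nat_lit 234) (nat_lit 204)) (XT.lf (nat_lit 0) (nat_lit 13588034444) (nat_lit 152) (nat_lit 48827210601) (nat_lit 0) (nat_lit 8445053741) (nat_lit 2) (nat_lit 5) (nat_lit 4) (nat_lit 4) (nat_lit 2) (nat_lit 4) (nat_lit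 343) (nat_lit 234) (nat_lit 203))))) (XT.nd (nat_lit 156) (nat_lit 0) (nat_lit 0) (XT.nd (nat_lit 78) (nat_lit 0) (nat_lit 0) (XT.lf (nat_lit 0) (nat_lit 16855209315) (nat_lit 152) (nat_lit 45757848502) (nat_lit 0) (nat_lit 11643008400) (nat_lit 2) (nat_lit 5) (nat_lit 4) (nat_lit 4) (nat_lit 2) (nat_lit 4) (nat_lit 344) (nat_lit 234) (nat_lit 202)) (XT.lf (nat_lit 0) (nat_lit 20243950396) (nat_lit 152) (nat_lit 42613955365) (nat_lit 0) (nat_lit 14965825470) (nat_lit 2) (nat_lit 5) (nat_lit 4) (nat_lit 4) (nat_lit 2) (nat_lit 4) (nat_lit 345) (nat_lit 234) (nat_lit 201))) (XT.nd (nat_lit 78) (nat_lit 0) (nat_lit 0) (XT.lf (nat_lit 0) (nat_lit 23762326119) (nat_lit 152) (nat_lit 39388045731) (nat_lit 0) (nat_lit 18421416421) (nat_lit 2) (nat_lit 5) (nat_lit 4) (nat_lit 4) (nat_lit 2) (nat_lit 4) (nat_lit 346) (nat_lit 234) (nat_lit 200)) (XT.nd (nat_lit 78) (nat_lit 0) (nat_lit 0) (XT.lf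 (nat_lit 0) (nat_lit 27418713569) (nat_lit 152) (nat_lit 36072438863) (nat_lit 0) (nat_lit 22018008849) (nat_lit 2) (nat_lit 5) (nat_lit 4) (nat_lit 4) (nat_lit 2) (nat_lit 4) (nat_lit 347) (nat_lit 234) (nat_lit 199)) (XT.lf (nat_lit 0) (nat_lit 31221818431) (nat_lit 152) (nat_lit 32659240458) (nat_lit 0) (nat_lit 25764166071) (nat_lit 2) (nat_lit 5) (nat_lit 4) (nat_lit 4) (nat_lit 2) (nat_lit 4) (nat_lit 348) (nat_lit 234) (nat_lit 198)))))) (XT.nd (nat_lit 390) (nat_lit 76) (nat_lit 0) (XT.nd (nat_lit 156) (nat_lit 0) (nat_lit 0) (XT.nd (nat_lit 78) (nat_lit 0) (nat_lit 0) (XT.lf (nat_lit 0) (nat_lit 35180695715) (nat_lit 152) (nat_lit 29140323853) (nat_lit 0) (nat_lit 29668807508) (nat_lit 2) (nat_lit 5) (nat_lit 4) (nat_lit 4) (nat_lit 2) (nat_lit 4) (nat_lit 349) (nat_lit 234) (nat_lit 197)) (XT.lf (nat_lit 0) (nat_lit 39304771320) (nat_lit 152) (nat_lit 25507310677) (nat_lit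 0) (nat_lit 33741229925) (nat_lit 2) (nat_lit 5) (nat_lit 4) (nat_lit 4) (nat_lit 2) (nat_lit 4) (nat_lit 350) (nat_lit 234) (nat_lit 196))) (XT.nd (nat_lit 78) (nat_lit 0) (nat_lit 0) (XT.lf (nat_lit 0) (nat_lit 43603864473) (nat_lit 152) (nat_lit 21751550896) (nat_lit 0) (nat_lit 37991129567) (nat_lit 2) (nat_lit 5) (nat_lit 4) (nat_lit 4) (nat_lit 2) (nat_lit 4) (nat_lit 351) (nat_lit 234) (nat_lit 195)) (XT.nd (nat_lit 78) (nat_lit 0) (nat_lit 0) (XT.lf (nat_lit 0) (nat_lit 48088211112) (nat_lit 152) (nat_lit 17864102227) (nat_lit 0) (nat_lit 42428625241) (nat_lit 2) (nat_lit 5) (nat_lit 4) (nat_lit 4) (nat_lit 2) (nat_lit 4) (nat_lit 352) (nat_lit 234) (nat_lit 194)) (XT.lf (nat_lit 0) (nat_lit 52768488251) (nat_lit 152) (nat_lit 13835708839) (nat_lit 0) (nat_lit 47064282415) (nat_lit 2) (nat_lit 5) (nat_lit 4) (nat_lit 4) (nat_lit 2) (nat_lit 4) (nat_lit 353) (nat_lit 234) (nat_lit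 193))))) (XT.nd (nat_lit 156) (nat_lit 76) (nat_lit 0) (XT.nd (nat_lit 78) (nat_lit 0) (nat_lit 0) (XT.lf (nat_lit 0) (nat_lit 57655839408) (nat_lit 152) (nat_lit 9656779318) (nat_lit 0) (nat_lit 51909138366) (nat_lit 2) (nat_lit 5) (nat_lit 4) (nat_lit 4) (nat_lit 2) (nat_lit 4) (nat_lit 354) (nat_lit 234) (nat_lit 192)) (XT.lf (nat_lit 0) (nat_lit 62761901132) (nat_lit 152) (nat_lit 5317363834) (nat_lit 0) (nat_lit 56974728466) (nat_lit 2) (nat_lit 5) (nat_lit 4) (nat_lit 4) (nat_lit 2) (nat_lit 4) (nat_lit 355) (nat_lit 234) (nat_lit 191))) (XT.nd (nat_lit 78) (nat_lit 76) (nat_lit 0) (XT.lf (nat_lit 0) (nat_lit 68098830715) (nat_lit 152) (nat_lit 807130444) (nat_lit 0) (nat_lit 62273113645) (nat_lit 2) (nat_lit 5) (nat_lit 4) (nat_lit 4) (nat_lit 2) (nat_lit 4) (nat_lit 356) (nat_lit 234) (nat_lit 190)) (XT.nd (nat_lit 78) (nat_lit 0) (nat_lit 0) (XT.lf (nat_lit 0) (nat_lit 4013103889)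 (nat_lit 76) (nat_lit 69728887040) (nat_lit 76) (nat_lit 63866461013) (nat_lit 1) (nat_lit 4) (nat_lit 2) (nat_lit 5) (nat_lit 2) (nat_lit 4) (nat_lit 357) (nat_lit 234) (nat_lit 189)) (XT.lf (nat_lit 0) (nat_lit 9059125526) (nat_lit 76) (nat_lit 70599014105) (nat_lit 76) (nat_lit 64701627168) (nat_lit 1) (nat_lit 4) (nat_lit 2) (nat_lit 5) (nat_lit 2) (nat_lit 4) (nat_lit 358) (nat_lit 234) (nat_lit 188))))))))
noncomputable def xc41 : XT := (XT.nd (nat_lit 1560) (nat_lit 0) (nat_lit 0) (XT.nd (nat_lit 780) (nat_lit 0) (nat_lit 0) (XT.nd (nat_lit 390) (nat_lit 0) (nat_lit 0) (XT.nd (nat_lit 156) (nat_lit 0) (nat_lit 0) (XT.nd (nat_lit 78) (nat_lit 0) (nat_lit 0) (XT.lf (nat_lit 0) (nat_lit 14316261426) (nat_lit 76) (nat_lit 71532083232) (nat_lit 76) (nat_lit 65601400190) (nat_lit 1) (nat_lit 4) (nat_lit 2) (nat_lit 5) (nat_lit 2) (nat_lit 4) (nat_lit 359) (nat_lit 234) (nat_lit 187))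 (XT.lf (nat_lit 0) (nat_lit 19797028580) (nat_lit 76) (nat_lit 72530316013) (nat_lit 76) (nat_lit 66567922394) (nat_lit 1) (nat_lit 4) (nat_lit 2) (nat_lit 5) (nat_lit 2) (nat_lit 4) (nat_lit 360) (nat_lit 234) (nat_lit 186))) (XT.nd (nat_lit 78) (nat_lit 0) (nat_lit 0) (XT.lf (nat_lit 0) (nat_lit 25514476434) (nat_lit 76) (nat_lit 73596089193) (nat_lit 76) (nat_lit 67603495025) (nat_lit 1) (nat_lit 4) (nat_lit 2) (nat_lit 5) (nat_lit 2) (nat_lit 4) (nat_lit 361) (nat_lit 234) (nat_lit 185)) (XT.nd (nat_lit 78) (nat_lit 0) (nat_lit 0) (XT.lf (nat_lit 0) (nat_lit 31482217957) (nat_lit 76) (nat_lit 74731940327) (nat_lit 76) (nat_lit 68710583732) (nat_lit 1) (nat_lit 4) (nat_lit 2) (nat_lit 5) (nat_lit 2) (nat_lit 4) (nat_lit 362) (nat_lit 234) (nat_lit 184)) (XT.lf (nat_lit 0) (nat_lit 37714462060) (nat_lit 76) (nat_lit 75940573823) (nat_lit 76) (nat_lit 69891824439) (nat_lit 1) (nat_lit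 4) (nat_lit 2) (nat_lit 5) (nat_lit 2) (nat_lit 4) (nat_lit 363) (nat_lit 234) (nat_lit 183))))) (XT.nd (nat_lit 156) (nat_lit 0) (nat_lit 0) (XT.nd (nat_lit 78) (nat_lit 0) (nat_lit 0) (XT.lf (nat_lit 0) (nat_lit 44226047417) (nat_lit 76) (nat_lit 77224867379) (nat_lit 76) (nat_lit 71150029625) (nat_lit 1) (nat_lit 4) (nat_lit 2) (nat_lit 5) (nat_lit 2) (nat_lit 4) (nat_lit 364) (nat_lit 234) (nat_lit 182)) (XT.lf (nat_lit 0) (nat_lit 51032477804) (nat_lit 76) (nat_lit 78587878837) (nat_lit 76) (nat_lit 72488195017) (nat_lit 1) (nat_lit 4) (nat_lit 2) (nat_lit 5) (nat_lit 2) (nat_lit 4) (nat_lit 365) (nat_lit 234) (nat_lit 181))) (XT.nd (nat_lit 78) (nat_lit 0) (nat_lit 0) (XT.lf (nat_lit 0) (nat_lit 58149959007) (nat_lit 76) (nat_lit 80032853463) (nat_lit 76) (nat_lit 73909506722) (nat_lit 1) (nat_lit 4) (nat_lit 2) (nat_lit 5) (nat_lit 2) (nat_lit 4) (nat_lit 366) (nat_lit 234) (nat_lit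 180)) (XT.nd (nat_lit 78) (nat_lit 0) (nat_lit 0) (XT.lf (nat_lit 0) (nat_lit 65595437411) (nat_lit 76) (nat_lit 81563231672) (nat_lit 76) (nat_lit 75417348817) (nat_lit 1) (nat_lit 4) (nat_lit 2) (nat_lit 5) (nat_lit 2) (nat_lit 4) (nat_lit 367) (nat_lit 234) (nat_lit 179)) (XT.lf (nat_lit 0) (nat_lit 73386640345) (nat_lit 76) (nat_lit 83182657223) (nat_lit 76) (nat_lit 77015311401) (nat_lit 1) (nat_lit 4) (nat_lit 2) (nat_lit 5) (nat_lit 2) (nat_lit 4) (nat_lit 368) (nat_lit 234) (nat_lit 178)))))) (XT.nd (nat_lit 390) (nat_lit 0) (nat_lit 0) (XT.nd (nat_lit 156) (nat_lit 0) (nat_lit 0) (XT.nd (nat_lit 78) (nat_lit 0) (nat_lit 0) (XT.lf (nat_lit 0) (nat_lit 81542118291) (nat_lit 76) (nat_lit 84894985889) (nat_lit 76) (nat_lit 78707199147) (nat_lit 1) (nat_lit 4) (nat_lit 2) (nat_lit 5) (nat_lit 2) (nat_lit 4) (nat_lit 369) (nat_lit 234) (nat_lit 177)) (XT.lf (nat_lit 0) (nat_lit 90081289055)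 (nat_lit 76) (nat_lit 86704294644) (nat_lit 76) (nat_lit 80497040359) (nat_lit 1) (nat_lit 4) (nat_lit 2) (nat_lit 5) (nat_lit 2) (nat_lit 4) (nat_lit 370) (nat_lit 234) (nat_lit 176))) (XT.nd (nat_lit 78) (nat_lit 0) (nat_lit 0) (XT.lf (nat_lit 0) (nat_lit 99024483995) (nat_lit 76) (nat_lit 88614891367) (nat_lit 76) (nat_lit 82389096564) (nat_lit 1) (nat_lit 4) (nat_lit 2) (nat_lit 5) (nat_lit 2) (nat_lit 4) (nat_lit 371) (nat_lit 234) (nat_lit 175)) (XT.nd (nat_lit 78) (nat_lit 0) (nat_lit 0) (XT.lf (nat_lit 0) (nat_lit 108392996434) (nat_lit 76) (nat_lit 90631325096) (nat_lit 76) (nat_lit 84387872658) (nat_lit 1) (nat_lit 4) (nat_lit 2) (nat_lit 5) (nat_lit 2) (nat_lit 4) (nat_lit 372) (nat_lit 234) (nat_lit 174)) (XT.lf (nat_lit 0) (nat_lit 118209132352) (nat_lit 76) (nat_lit 92758396865) (nat_lit 76) (nat_lit 86498127631) (nat_lit 1) (nat_lit 4) (nat_lit 2) (nat_lit 5) (nat_lit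 2) (nat_lit 4) (nat_lit 373) (nat_lit 234) (nat_lit 173))))) (XT.nd (nat_lit 156) (nat_lit 0) (nat_lit 0) (XT.nd (nat_lit 78) (nat_lit 0) (nat_lit 0) (XT.lf (nat_lit 0) (nat_lit 128496263502) (nat_lit 76) (nat_lit 95001171131) (nat_lit 76) (nat_lit 88724885901) (nat_lit 1) (nat_lit 4) (nat_lit 2) (nat_lit 5) (nat_lit 2) (nat_lit 4) (nat_lit 374) (nat_lit 234) (nat_lit 172)) (XT.lf (nat_lit 0) (nat_lit 139278883053) (nat_lit 76) (nat_lit 97364987831) (nat_lit 76) (nat_lit 91073449271) (nat_lit 1) (nat_lit 4) (nat_lit 2) (nat_lit 5) (nat_lit 2) (nat_lit 4) (nat_lit 375) (nat_lit 234) (nat_lit 171))) (XT.nd (nat_lit 78) (nat_lit 0) (nat_lit 0) (XT.lf (nat_lit 0) (nat_lit 150582663909) (nat_lit 76) (nat_lit 99855475101) (nat_lit 76) (nat_lit 93549409561) (nat_lit 1) (nat_lit 4) (nat_lit 2) (nat_lit 5) (nat_lit 2) (nat_lit 4) (nat_lit 376) (nat_lit 234) (nat_lit 170)) (XT.nd (nat_lit 78)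 (nat_lit 0) (nat_lit 0) (XT.lf (nat_lit 0) (nat_lit 162434519835) (nat_lit 76) (nat_lit 102478562673) (nat_lit 76) (nat_lit 96158661913) (nat_lit 1) (nat_lit 4) (nat_lit 2) (nat_lit 5) (nat_lit 2) (nat_lit 4) (nat_lit 377) (nat_lit 234) (nat_lit 169)) (XT.lf (nat_lit 0) (nat_lit 174862669534) (nat_lit 76) (nat_lit 105240495993) (nat_lit 76) (nat_lit 98907418834) (nat_lit 1) (nat_lit 4) (nat_lit 2) (nat_lit 5) (nat_lit 2) (nat_lit 4) (nat_lit 378) (nat_lit 234) (nat_lit 168))))))) (XT.nd (nat_lit 780) (nat_lit 0) (nat_lit 0) (XT.nd (nat_lit 390) (nat_lit 0) (nat_lit 0) (XT.nd (nat_lit 156) (nat_lit 0) (nat_lit 0) (XT.nd (nat_lit 78) (nat_lit 0) (nat_lit 0) (XT.lf (nat_lit 0) (nat_lit 187896703839) (nat_lit 76) (nat_lit 108147851093) (nat_lit 76) (nat_lit 101802224981) (nat_lit 1) (nat_lit 4) (nat_lit 2) (nat_lit 5) (nat_lit 2) (nat_lit 4) (nat_lit 379) (nat_lit 234) (nat_lit 167)) (XT.lf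 (nat_lit 0) (nat_lit 201567656166) (nat_lit 76) (nat_lit 111207550246) (nat_lit 76) (nat_lit 104849972752) (nat_lit 1) (nat_lit 4) (nat_lit 2) (nat_lit 5) (nat_lit 2) (nat_lit 4) (nat_lit 380) (nat_lit 234) (nat_lit 166))) (XT.nd (nat_lit 78) (nat_lit 0) (nat_lit 0) (XT.lf (nat_lit 0) (nat_lit 215908076400) (nat_lit 76) (nat_lit 114426878452) (nat_lit 76) (nat_lit 108057918688) (nat_lit 1) (nat_lit 4) (nat_lit 2) (nat_lit 5) (nat_lit 2) (nat_lit 4) (nat_lit 381) (nat_lit 234) (nat_lit 165)) (XT.nd (nat_lit 78) (nat_lit 0) (nat_lit 0) (XT.lf (nat_lit 0) (nat_lit 230952108400) (nat_lit 76) (nat_lit 117813500776) (nat_lit 76) (nat_lit 111433700756) (nat_lit 1) (nat_lit 4) (nat_lit 2) (nat_lit 5) (nat_lit 2) (nat_lit 4) (nat_lit 382) (nat_lit 234) (nat_lit 164)) (XT.lf (nat_lit 0) (nat_lit 246735571289) (nat_lit 76) (nat_lit 121375480606) (nat_lit 76) (nat_lit 114985356533) (nat_lit 1) (nat_lit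 4) (nat_lit 2) (nat_lit 5) (nat_lit 2) (nat_lit 4) (nat_lit 383) (nat_lit 234) (nat_lit 163))))) (XT.nd (nat_lit 156) (nat_lit 0) (nat_lit 0) (XT.nd (nat_lit 78) (nat_lit 0) (nat_lit 0) (XT.lf (nat_lit 0) (nat_lit 263296044741) (nat_lit 76) (nat_lit 125121298846) (nat_lit 76) (nat_lit 118721342340) (nat_lit 1) (nat_lit 4) (nat_lit 2) (nat_lit 5) (nat_lit 2) (nat_lit 4) (nat_lit 384) (nat_lit 234) (nat_lit 162)) (XT.lf (nat_lit 0) (nat_lit 280672958454) (nat_lit 76) (nat_lit 129059874111) (nat_lit 76) (nat_lit 122650553384) (nat_lit 1) (nat_lit 4) (nat_lit 2) (nat_lit 5) (nat_lit 2) (nat_lit 4) (nat_lit 385) (nat_lit 234) (nat_lit 161))) (XT.nd (nat_lit 78) (nat_lit 0) (nat_lit 0) (XT.lf (nat_lit 0) (nat_lit 298907686033) (nat_lit 76) (nat_lit 133200583960) (nat_lit 76) (nat_lit 126782344927) (nat_lit 1) (nat_lit 4) (nat_lit 2) (nat_lit 5) (nat_lit 2) (nat_lit 4) (nat_lit 386) (nat_lit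 234) (nat_lit 160)) (XT.nd (nat_lit 78) (nat_lit 0) (nat_lit 0) (XT.lf (nat_lit 0) (nat_lit 318043643495) (nat_lit 76) (nat_lit 137553287228) (nat_lit 76) (nat_lit 131126554570) (nat_lit 1) (nat_lit 4) (nat_lit 2) (nat_lit 5) (nat_lit 2) (nat_lit 4) (nat_lit 387) (nat_lit 234) (nat_lit 159)) (XT.lf (nat_lit 0) (nat_lit 338126392645) (nat_lit 76) (nat_lit 142128347492) (nat_lit 76) (nat_lit 135693525668) (nat_lit 1) (nat_lit 4) (nat_lit 2) (nat_lit 5) (nat_lit 2) (nat_lit 4) (nat_lit 388) (nat_lit 234) (nat_lit 158)))))) (XT.nd (nat_lit 34632) (nat_lit 0) (nat_lit 684) (XT.nd (nat_lit 156) (nat_lit 0) (nat_lit 0) (XT.nd (nat_lit 78) (nat_lit 0) (nat_lit 0) (XT.lf (nat_lit 0) (nat_lit 359203749551) (nat_lit 76) (nat_lit 146936657755) (nat_lit 76) (nat_lit 140494131963) (nat_lit 1) (nat_lit 4) (nat_lit 2) (nat_lit 5) (nat_lit 2) (nat_lit 4) (nat_lit 389) (nat_lit 234) (nat_lit 157)) (XT.lf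 (nat_lit 0) (nat_lit 381325898396) (nat_lit 76) (nat_lit 151989666372) (nat_lit 76) (nat_lit 145539803468) (nat_lit 1) (nat_lit 4) (nat_lit 2) (nat_lit 5) (nat_lit 2) (nat_lit 4) (nat_lit 390) (nat_lit 234) (nat_lit 156))) (XT.nd (nat_lit 34320) (nat_lit 0) (nat_lit 912) (XT.lf (nat_lit 0) (nat_lit 404545510964) (nat_lit 76) (nat_lit 157299404318) (nat_lit 76) (nat_lit 150842553688) (nat_lit 1) (nat_lit 4) (nat_lit 2) (nat_lit 5) (nat_lit 2) (nat_lit 4) (nat_lit 391) (nat_lit 234) (nat_lit 155)) (XT.nd (nat_lit 78) (nat_lit 76) (nat_lit 0) (XT.lf (nat_lit 0) (nat_lit 4291440540) (nat_lit 152) (nat_lit 84681839) (nat_lit 0) (nat_lit 4291440540) (nat_lit 14) (nat_lit 5) (nat_lit 16) (nat_lit 4) (nat_lit 14) (nat_lit 4) (nat_lit 310) (nat_lit 235) (nat_lit 235)) (XT.lf (nat_lit 0) (nat_lit 7959881001) (nat_lit 76) (nat_lit 5205301891) (nat_lit 76) (nat_lit 4804391152) (nat_lit 13) (nat_lit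 4) (nat_lit 14) (nat_lit 5) (nat_lit 14) (nat_lit 4) (nat_lit 311) (nat_lit 235) (nat_lit 234))))) (XT.nd (nat_lit 234) (nat_lit 76) (nat_lit 0) (XT.nd (nat_lit 78) (nat_lit 152) (nat_lit 0) (XT.lf (nat_lit 0) (nat_lit 16245025978) (nat_lit 76) (nat_lit 1590312830) (nat_lit 76) (nat_lit 807582338) (nat_lit 13) (nat_lit 4) (nat_lit 14) (nat_lit 5) (nat_lit 14) (nat_lit 4) (nat_lit 312) (nat_lit 235) (nat_lit 233)) (XT.nd (nat_lit 78) (nat_lit 0) (nat_lit 0) (XT.lf (nat_lit 0) (nat_lit 3261332617) (nat_lit 152) (nat_lit 13917470152) (nat_lit 0) (nat_lit 2169553236) (nat_lit 11) (nat_lit 5) (nat_lit 13) (nat_lit 4) (nat_lit 11) (nat_lit 4) (nat_lit 313) (nat_lit 235) (nat_lit 232)) (XT.lf (nat_lit 0) (nat_lit 7435414576) (nat_lit 152) (nat_lit 6642836067) (nat_lit 0) (nat_lit 6013804937) (nat_lit 11) (nat_lit 5) (nat_lit 13) (nat_lit 4) (nat_lit 11) (nat_lit 4) (nat_lit 314) (nat_lit 235)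 (nat_lit 231)))) (XT.nd (nat_lit 78) (nat_lit 0) (nat_lit 0) (XT.lf (nat_lit 0) (nat_lit 782297773) (nat_lit 76) (nat_lit 10916226598) (nat_lit 76) (nat_lit 9180492904) (nat_lit 10) (nat_lit 4) (nat_lit 11) (nat_lit 5) (nat_lit 11) (nat_lit 4) (nat_lit 315) (nat_lit 235) (nat_lit 230)) (XT.nd (nat_lit 78) (nat_lit 0) (nat_lit 0) (XT.lf (nat_lit 0) (nat_lit 8574885281) (nat_lit 76) (nat_lit 7583134310) (nat_lit 76) (nat_lit 5548234850) (nat_lit 10) (nat_lit 4) (nat_lit 11) (nat_lit 5) (nat_lit 11) (nat_lit 4) (nat_lit 316) (nat_lit 235) (nat_lit 229)) (XT.lf (nat_lit 0) (nat_lit 16533838076) (nat_lit 76) (nat_lit 4183537488) (nat_lit 76) (nat_lit 1863718250) (nat_lit 10) (nat_lit 4) (nat_lit 11) (nat_lit 5) (nat_lit 11) (nat_lit 4) (nat_lit 317) (nat_lit 235) (nat_lit 228))))))))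
noncomputable def xc42 : XT := (XT.nd (nat_lit 1560) (nat_lit 228) (nat_lit 0) (XT.nd (nat_lit 780) (nat_lit 76) (nat_lit 0) (XT.nd (nat_lit 390) (nat_lit 152) (nat_lit 0) (XT.nd (nat_lit 156) (nat_lit 76) (nat_lit 0) (XT.nd (nat_lit 78) (nat_lit 0) (nat_lit 0) (XT.lf (nat_lit 0) (nat_lit 1180903346) (nat_lit 76) (nat_lit 659133118) (nat_lit 152) (nat_lit 21663190991) (nat_lit 8) (nat_lit 5) (nat_lit 9) (nat_lit 5) (nat_lit 10) (nat_lit 4) (nat_lit 318) (nat_lit 235) (nat_lit 227)) (XT.lf (nat_lit 0) (nat_lit 5699520263) (nat_lit 152) (nat_lit 15783220722) (nat_lit 0) (nat_lit 2985613554) (nat_lit 8) (nat_lit 5) (nat_lit 10) (nat_lit 4) (nat_lit 8) (nat_lit 4) (nat_lit 319) (nat_lit 235) (nat_lit 226))) (XT.nd (nat_lit 78) (nat_lit 76) (nat_lit 0) (XT.lf (nat_lit 0) (nat_lit 9650018177) (nat_lit 152) (nat_lit 9135180183) (nat_lit 0) (nat_lit 6701707263) (nat_lit 8) (nat_lit 5) (nat_lit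 10) (nat_lit 4) (nat_lit 8) (nat_lit 4) (nat_lit 320) (nat_lit 235) (nat_lit 225)) (XT.nd (nat_lit 78) (nat_lit 76) (nat_lit 0) (XT.lf (nat_lit 0) (nat_lit 13690645240) (nat_lit 152) (nat_lit 2352082909) (nat_lit 0) (nat_lit 10519092224) (nat_lit 8) (nat_lit 5) (nat_lit 10) (nat_lit 4) (nat_lit 8) (nat_lit 4) (nat_lit 321) (nat_lit 235) (nat_lit 224)) (XT.lf (nat_lit 0) (nat_lit 4733730261) (nat_lit 76) (nat_lit 13171198526) (nat_lit 76) (nat_lit 9787033986) (nat_lit 7) (nat_lit 4) (nat_lit 8) (nat_lit 5) (nat_lit 8) (nat_lit 4) (nat_lit 322) (nat_lit 235) (nat_lit 223))))) (XT.nd (nat_lit 156) (nat_lit 152) (nat_lit 0) (XT.nd (nat_lit 78) (nat_lit 0) (nat_lit 0) (XT.lf (nat_lit 0) (nat_lit 12070576619) (nat_lit 76) (nat_lit 10198885382) (nat_lit 76) (nat_lit 6612233676) (nat_lit 7) (nat_lit 4) (nat_lit 8) (nat_lit 5) (nat_lit 8) (nat_lit 4) (nat_lit 323) (nat_lit 235) (nat_lit 222))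 (XT.lf (nat_lit 0) (nat_lit 19598154362) (nat_lit 76) (nat_lit 7158545445) (nat_lit 76) (nat_lit 3379048817) (nat_lit 7) (nat_lit 4) (nat_lit 8) (nat_lit 5) (nat_lit 8) (nat_lit 4) (nat_lit 324) (nat_lit 235) (nat_lit 221))) (XT.nd (nat_lit 78) (nat_lit 152) (nat_lit 0) (XT.lf (nat_lit 0) (nat_lit 27334386294) (nat_lit 76) (nat_lit 4042939809) (nat_lit 76) (nat_lit 79781352) (nat_lit 7) (nat_lit 4) (nat_lit 8) (nat_lit 5) (nat_lit 8) (nat_lit 4) (nat_lit 325) (nat_lit 235) (nat_lit 220)) (XT.nd (nat_lit 78) (nat_lit 0) (nat_lit 0) (XT.lf (nat_lit 0) (nat_lit 2476621528) (nat_lit 76) (nat_lit 750059453) (nat_lit 152) (nat_lit 29617732951) (nat_lit 5) (nat_lit 5) (nat_lit 6) (nat_lit 5) (nat_lit 7) (nat_lit 4) (nat_lit 326) (nat_lit 235) (nat_lit 219)) (XT.lf (nat_lit 0) (nat_lit 6721455767) (nat_lit 152) (nat_lit 24956549727) (nat_lit 0) (nat_lit 2621778455) (nat_lit 5) (nat_lit 5) (nat_lit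 7) (nat_lit 4) (nat_lit 5) (nat_lit 4) (nat_lit 327) (nat_lit 235) (nat_lit 218)))))) (XT.nd (nat_lit 390) (nat_lit 0) (nat_lit 0) (XT.nd (nat_lit 156) (nat_lit 76) (nat_lit 0) (XT.nd (nat_lit 78) (nat_lit 0) (nat_lit 0) (XT.lf (nat_lit 0) (nat_lit 10319869656) (nat_lit 152) (nat_lit 19442559381) (nat_lit 0) (nat_lit 6069093304) (nat_lit 5) (nat_lit 5) (nat_lit 7) (nat_lit 4) (nat_lit 5) (nat_lit 4) (nat_lit 328) (nat_lit 235) (nat_lit 217)) (XT.lf (nat_lit 0) (nat_lit 14018779772) (nat_lit 152) (nat_lit 13800982286) (nat_lit 0) (nat_lit 9624099571) (nat_lit 5) (nat_lit 5) (nat_lit 7) (nat_lit 4) (nat_lit 5) (nat_lit 4) (nat_lit 329) (nat_lit 235) (nat_lit 216))) (XT.nd (nat_lit 78) (nat_lit 76) (nat_lit 0) (XT.lf (nat_lit 0) (nat_lit 17826993044) (nat_lit 152) (nat_lit 8018386118) (nat_lit 0) (nat_lit 13295261558) (nat_lit 5) (nat_lit 5) (nat_lit 7) (nat_lit 4) (nat_lit 5) (nat_lit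 4) (nat_lit 330) (nat_lit 235) (nat_lit 215)) (XT.nd (nat_lit 78) (nat_lit 76) (nat_lit 0) (XT.lf (nat_lit 0) (nat_lit 21753576644) (nat_lit 152) (nat_lit 2081002789) (nat_lit 0) (nat_lit 17091320125) (nat_lit 5) (nat_lit 5) (nat_lit 7) (nat_lit 4) (nat_lit 5) (nat_lit 4) (nat_lit 331) (nat_lit 235) (nat_lit 214)) (XT.lf (nat_lit 0) (nat_lit 4158399067) (nat_lit 76) (nat_lit 21714404779) (nat_lit 76) (nat_lit 16927838705) (nat_lit 4) (nat_lit 4) (nat_lit 5) (nat_lit 5) (nat_lit 5) (nat_lit 4) (nat_lit 332) (nat_lit 235) (nat_lit 213))))) (XT.nd (nat_lit 156) (nat_lit 0) (nat_lit 0) (XT.nd (nat_lit 78) (nat_lit 0) (nat_lit 0) (XT.lf (nat_lit 0) (nat_lit 10656136990) (nat_lit 76) (nat_lit 19509790134) (nat_lit 76) (nat_lit 14604834007) (nat_lit 4) (nat_lit 4) (nat_lit 5) (nat_lit 5) (nat_lit 5) (nat_lit 4) (nat_lit 333) (nat_lit 235) (nat_lit 212)) (XT.lf (nat_lit 0) (nat_lit 17358874434)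 (nat_lit 76) (nat_lit 17250729205) (nat_lit 76) (nat_lit 12233020647) (nat_lit 4) (nat_lit 4) (nat_lit 5) (nat_lit 5) (nat_lit 5) (nat_lit 4) (nat_lit 334) (nat_lit 235) (nat_lit 211))) (XT.nd (nat_lit 78) (nat_lit 0) (nat_lit 0) (XT.lf (nat_lit 0) (nat_lit 24282570298) (nat_lit 76) (nat_lit 14931843275) (nat_lit 76) (nat_lit 9806751450) (nat_lit 4) (nat_lit 4) (nat_lit 5) (nat_lit 5) (nat_lit 5) (nat_lit 4) (nat_lit 335) (nat_lit 235) (nat_lit 210)) (XT.nd (nat_lit 78) (nat_lit 0) (nat_lit 0) (XT.lf (nat_lit 0) (nat_lit 31443709571) (nat_lit 76) (nat_lit 12547611188) (nat_lit 76) (nat_lit 7320249584) (nat_lit 4) (nat_lit 4) (nat_lit 5) (nat_lit 5) (nat_lit 5) (nat_lit 4) (nat_lit 336) (nat_lit 235) (nat_lit 209)) (XT.lf (nat_lit 0) (nat_lit 38859342586) (nat_lit 76) (nat_lit 10092356200) (nat_lit 76) (nat_lit 4767594806) (nat_lit 4) (nat_lit 4) (nat_lit 5) (nat_lit 5) (nat_lit 5) (nat_lit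 4) (nat_lit 337) (nat_lit 235) (nat_lit 208))))))) (XT.nd (nat_lit 780) (nat_lit 76) (nat_lit 0) (XT.nd (nat_lit 390) (nat_lit 0) (nat_lit 0) (XT.nd (nat_lit 156) (nat_lit 76) (nat_lit 0) (XT.nd (nat_lit 78) (nat_lit 76) (nat_lit 0) (XT.lf (nat_lit 0) (nat_lit 46547125612) (nat_lit 76) (nat_lit 7560232466) (nat_lit 76) (nat_lit 2142709369) (nat_lit 4) (nat_lit 4) (nat_lit 5) (nat_lit 5) (nat_lit 5) (nat_lit 4) (nat_lit 338) (nat_lit 235) (nat_lit 207)) (XT.lf (nat_lit 0) (nat_lit 542711948) (nat_lit 152) (nat_lit 4393308082) (nat_lit 76) (nat_lit 53973459855) (nat_lit 3) (nat_lit 5) (nat_lit 5) (nat_lit 5) (nat_lit 4) (nat_lit 4) (nat_lit 339) (nat_lit 235) (nat_lit 206))) (XT.nd (nat_lit 78) (nat_lit 0) (nat_lit 0) (XT.lf (nat_lit 0) (nat_lit 1090489480) (nat_lit 76) (nat_lit 2168288401) (nat_lit 152) (nat_lit 58442933421) (nat_lit 2) (nat_lit 5) (nat_lit 3) (nat_lit 5) (nat_lit 4)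 (nat_lit 4) (nat_lit 340) (nat_lit 235) (nat_lit 205)) (XT.nd (nat_lit 78) (nat_lit 0) (nat_lit 0) (XT.lf (nat_lit 0) (nat_lit 6149409138) (nat_lit 152) (nat_lit 57732950324) (nat_lit 0) (nat_lit 749279400) (nat_lit 2) (nat_lit 5) (nat_lit 4) (nat_lit 4) (nat_lit 2) (nat_lit 4) (nat_lit 341) (nat_lit 235) (nat_lit 204)) (XT.lf (nat_lit 0) (nat_lit 9174041401) (nat_lit 152) (nat_lit 54833339080) (nat_lit 0) (nat_lit 3701230440) (nat_lit 2) (nat_lit 5) (nat_lit 4) (nat_lit 4) (nat_lit 2) (nat_lit 4) (nat_lit 342) (nat_lit 235) (nat_lit 203))))) (XT.nd (nat_lit 156) (nat_lit 0) (nat_lit 0) (XT.nd (nat_lit 78) (nat_lit 0) (nat_lit 0) (XT.lf (nat_lit 0) (nat_lit 12306023117) (nat_lit 152) (nat_lit 51871631194) (nat_lit 0) (nat_lit 6763991945) (nat_lit 2) (nat_lit 5) (nat_lit 4) (nat_lit 4) (nat_lit 2) (nat_lit 4) (nat_lit 343) (nat_lit 235) (nat_lit 202)) (XT.lf (nat_lit 0) (nat_lit 15552811387)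 (nat_lit 152) (nat_lit 48840774981) (nat_lit 0) (nat_lit 9944856203) (nat_lit 2) (nat_lit 5) (nat_lit 4) (nat_lit 4) (nat_lit 2) (nat_lit 4) (nat_lit 344) (nat_lit 235) (nat_lit 201))) (XT.nd (nat_lit 78) (nat_lit 0) (nat_lit 0) (XT.lf (nat_lit 0) (nat_lit 18922136657) (nat_lit 152) (nat_lit 45733554118) (nat_lit 0) (nat_lit 13251396701) (nat_lit 2) (nat_lit 5) (nat_lit 4) (nat_lit 4) (nat_lit 2) (nat_lit 4) (nat_lit 345) (nat_lit 235) (nat_lit 200)) (XT.nd (nat_lit 78) (nat_lit 0) (nat_lit 0) (XT.lf (nat_lit 0) (nat_lit 22422021132) (nat_lit 152) (nat_lit 42542570458) (nat_lit 0) (nat_lit 16691486154) (nat_lit 2) (nat_lit 5) (nat_lit 4) (nat_lit 4) (nat_lit 2) (nat_lit 4) (nat_lit 346) (nat_lit 235) (nat_lit 199)) (XT.lf (nat_lit 0) (nat_lit 26060797869) (nat_lit 152) (nat_lit 39260226422) (nat_lit 0) (nat_lit 20273315252) (nat_lit 2) (nat_lit 5) (nat_lit 4) (nat_lit 4) (nat_lit 2)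 (nat_lit 4) (nat_lit 347) (nat_lit 235) (nat_lit 198)))))) (XT.nd (nat_lit 390) (nat_lit 76) (nat_lit 0) (XT.nd (nat_lit 156) (nat_lit 0) (nat_lit 0) (XT.nd (nat_lit 78) (nat_lit 0) (nat_lit 0) (XT.lf (nat_lit 0) (nat_lit 29847130623) (nat_lit 152) (nat_lit 35878706906) (nat_lit 0) (nat_lit 24005412159) (nat_lit 2) (nat_lit 5) (nat_lit 4) (nat_lit 4) (nat_lit 2) (nat_lit 4) (nat_lit 348) (nat_lit 235) (nat_lit 197)) (XT.lf (nat_lit 0) (nat_lit 33790034471) (nat_lit 152) (nat_lit 32389960671) (nat_lit 0) (nat_lit 27896662819) (nat_lit 2) (nat_lit 5) (nat_lit 4) (nat_lit 4) (nat_lit 2) (nat_lit 4) (nat_lit 349) (nat_lit 235) (nat_lit 196))) (XT.nd (nat_lit 78) (nat_lit 0) (nat_lit 0) (XT.lf (nat_lit 0) (nat_lit 37898897280) (nat_lit 152) (nat_lit 28785681180) (nat_lit 0) (nat_lit 31956332116) (nat_lit 2) (nat_lit 5) (nat_lit 4) (nat_lit 4) (nat_lit 2) (nat_lit 4) (nat_lit 350) (nat_lit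 235) (nat_lit 195)) (XT.nd (nat_lit 78) (nat_lit 0) (nat_lit 0) (XT.lf (nat_lit 0) (nat_lit 42183502057) (nat_lit 152) (nat_lit 25057286814) (nat_lit 0) (nat_lit 36194085929) (nat_lit 2) (nat_lit 5) (nat_lit 4) (nat_lit 4) (nat_lit 2) (nat_lit 4) (nat_lit 351) (nat_lit 235) (nat_lit 194)) (XT.lf (nat_lit 0) (nat_lit 46654050241) (nat_lit 152) (nat_lit 21195900444) (nat_lit 0) (nat_lit 40620014147) (nat_lit 2) (nat_lit 5) (nat_lit 4) (nat_lit 4) (nat_lit 2) (nat_lit 4) (nat_lit 352) (nat_lit 235) (nat_lit 193))))) (XT.nd (nat_lit 156) (nat_lit 76) (nat_lit 0) (XT.nd (nat_lit 78) (nat_lit 0) (nat_lit 0) (XT.lf (nat_lit 0) (nat_lit 51321185995) (nat_lit 152) (nat_lit 17192328294) (nat_lit 0) (nat_lit 45244654696) (nat_lit 2) (nat_lit 5) (nat_lit 4) (nat_lit 4) (nat_lit 2) (nat_lit 4) (nat_lit 353) (nat_lit 235) (nat_lit 192)) (XT.lf (nat_lit 0) (nat_lit 56196021547) (nat_lit 152) (nat_lit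 13037038048) (nat_lit 0) (nat_lit 50079018624) (nat_lit 2) (nat_lit 5) (nat_lit 4) (nat_lit 4) (nat_lit 2) (nat_lit 4) (nat_lit 354) (nat_lit 235) (nat_lit 191))) (XT.nd (nat_lit 78) (nat_lit 76) (nat_lit 0) (XT.lf (nat_lit 0) (nat_lit 61290163648) (nat_lit 152) (nat_lit 8720136158) (nat_lit 0) (nat_lit 55134616321) (nat_lit 2) (nat_lit 5) (nat_lit 4) (nat_lit 4) (nat_lit 2) (nat_lit 4) (nat_lit 355) (nat_lit 235) (nat_lit 190)) (XT.nd (nat_lit 78) (nat_lit 76) (nat_lit 0) (XT.lf (nat_lit 0) (nat_lit 66615741208) (nat_lit 152) (nat_lit 4231344286) (nat_lit 0) (nat_lit 60423484924) (nat_lit 2) (nat_lit 5) (nat_lit 4) (nat_lit 4) (nat_lit 2) (nat_lit 4) (nat_lit 356) (nat_lit 235) (nat_lit 189)) (XT.lf (nat_lit 0) (nat_lit 454574385) (nat_lit 76) (nat_lit 71737956968) (nat_lit 76) (nat_lit 65510739774) (nat_lit 1) (nat_lit 4) (nat_lit 2) (nat_lit 5) (nat_lit 2) (nat_lit 4) (nat_lit 357)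 (nat_lit 235) (nat_lit 188))))))))
noncomputable def xc43 : XT := (XT.nd (nat_lit 1560) (nat_lit 0) (nat_lit 0) (XT.nd (nat_lit 780) (nat_lit 0) (nat_lit 0) (XT.nd (nat_lit 390) (nat_lit 0) (nat_lit 0) (XT.nd (nat_lit 156) (nat_lit 0) (nat_lit 0) (XT.nd (nat_lit 78) (nat_lit 0) (nat_lit 0) (XT.lf (nat_lit 0) (nat_lit 5480504891) (nat_lit 76) (nat_lit 72617564867) (nat_lit 76) (nat_lit 66357051567) (nat_lit 1) (nat_lit 4) (nat_lit 2) (nat_lit 5) (nat_lit 2) (nat_lit 4) (nat_lit 358) (nat_lit 235) (nat_lit 187)) (XT.lf (nat_lit 0) (nat_lit 10718506381) (nat_lit 76) (nat_lit 73559663358) (nat_lit 76) (nat_lit 67267439482) (nat_lit 1) (nat_lit 4) (nat_lit 2) (nat_lit 5) (nat_lit 2) (nat_lit 4) (nat_lit 359) (nat_lit 235) (nat_lit 186))) (XT.nd (nat_lit 78) (nat_lit 0) (nat_lit 0) (XT.lf (nat_lit 0) (nat_lit 16181050287) (nat_lit 76) (nat_lit 74566495535) (nat_lit 76) (nat_lit 68244071109)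 (nat_lit 1) (nat_lit 4) (nat_lit 2) (nat_lit 5) (nat_lit 2) (nat_lit 4) (nat_lit 360) (nat_lit 235) (nat_lit 185)) (XT.nd (nat_lit 78) (nat_lit 0) (nat_lit 0) (XT.lf (nat_lit 0) (nat_lit 21881142666) (nat_lit 76) (nat_lit 75640458615) (nat_lit 76) (nat_lit 69289271761) (nat_lit 1) (nat_lit 4) (nat_lit 2) (nat_lit 5) (nat_lit 2) (nat_lit 4) (nat_lit 361) (nat_lit 235) (nat_lit 184)) (XT.lf (nat_lit 0) (nat_lit 27832355167) (nat_lit 76) (nat_lit 76784109654) (nat_lit 76) (nat_lit 70405530012) (nat_lit 1) (nat_lit 4) (nat_lit 2) (nat_lit 5) (nat_lit 2) (nat_lit 4) (nat_lit 362) (nat_lit 235) (nat_lit 183))))) (XT.nd (nat_lit 156) (nat_lit 0) (nat_lit 0) (XT.nd (nat_lit 78) (nat_lit 0) (nat_lit 0) (XT.lf (nat_lit 0) (nat_lit 34048857342) (nat_lit 76) (nat_lit 78000171630) (nat_lit 76) (nat_lit 71595503619) (nat_lit 1) (nat_lit 4) (nat_lit 2) (nat_lit 5) (nat_lit 2) (nat_lit 4) (nat_lit 363)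 (nat_lit 235) (nat_lit 182)) (XT.lf (nat_lit 0) (nat_lit 40545450388) (nat_lit 76) (nat_lit 79291539930) (nat_lit 76) (nat_lit 72862025852) (nat_lit 1) (nat_lit 4) (nat_lit 2) (nat_lit 5) (nat_lit 2) (nat_lit 4) (nat_lit 364) (nat_lit 235) (nat_lit 181))) (XT.nd (nat_lit 78) (nat_lit 0) (nat_lit 0) (XT.lf (nat_lit 0) (nat_lit 47337602384) (nat_lit 76) (nat_lit 80661289239) (nat_lit 76) (nat_lit 74208112241) (nat_lit 1) (nat_lit 4) (nat_lit 2) (nat_lit 5) (nat_lit 2) (nat_lit 4) (nat_lit 365) (nat_lit 235) (nat_lit 180)) (XT.nd (nat_lit 78) (nat_lit 0) (nat_lit 0) (XT.lf (nat_lit 0) (nat_lit 54441485119) (nat_lit 76) (nat_lit 82112680866) (nat_lit 76) (nat_lit 75636967753) (nat_lit 1) (nat_lit 4) (nat_lit 2) (nat_lit 5) (nat_lit 2) (nat_lit 4) (nat_lit 366) (nat_lit 235) (nat_lit 179)) (XT.lf (nat_lit 0) (nat_lit 61874012600) (nat_lit 76) (nat_lit 83649170505) (nat_lit 76) (nat_lit 77151994425)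 (nat_lit 1) (nat_lit 4) (nat_lit 2) (nat_lit 5) (nat_lit 2) (nat_lit 4) (nat_lit 367) (nat_lit 235) (nat_lit 178)))))) (XT.nd (nat_lit 390) (nat_lit 0) (nat_lit 0) (XT.nd (nat_lit 156) (nat_lit 0) (nat_lit 0) (XT.nd (nat_lit 78) (nat_lit 0) (nat_lit 0) (XT.lf (nat_lit 0) (nat_lit 69652881322) (nat_lit 76) (nat_lit 85274416464) (nat_lit 76) (nat_lit 78756799464) (nat_lit 1) (nat_lit 4) (nat_lit 2) (nat_lit 5) (nat_lit 2) (nat_lit 4) (nat_lit 368) (nat_lit 235) (nat_lit 177)) (XT.lf (nat_lit 0) (nat_lit 77796612400) (nat_lit 76) (nat_lit 86992288377) (nat_lit 76) (nat_lit 80455203834) (nat_lit 1) (nat_lit 4) (nat_lit 2) (nat_lit 5) (nat_lit 2) (nat_lit 4) (nat_lit 369) (nat_lit 235) (nat_lit 176))) (XT.nd (nat_lit 78) (nat_lit 0) (nat_lit 0) (XT.lf (nat_lit 0) (nat_lit 86324595671) (nat_lit 76) (nat_lit 88806876415) (nat_lit 76) (nat_lit 82251251355) (nat_lit 1) (nat_lit 4) (nat_lit 2)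 (nat_lit 5) (nat_lit 2) (nat_lit 4) (nat_lit 370) (nat_lit 235) (nat_lit 175)) (XT.nd (nat_lit 78) (nat_lit 0) (nat_lit 0) (XT.lf (nat_lit 0) (nat_lit 95257135856) (nat_lit 76) (nat_lit 90722501026) (nat_lit 76) (nat_lit 84149218330) (nat_lit 1) (nat_lit 4) (nat_lit 2) (nat_lit 5) (nat_lit 2) (nat_lit 4) (nat_lit 371) (nat_lit 235) (nat_lit 174)) (XT.lf (nat_lit 0) (nat_lit 104615500907) (nat_lit 76) (nat_lit 92743723220) (nat_lit 76) (nat_lit 86153623729) (nat_lit 1) (nat_lit 4) (nat_lit 2) (nat_lit 5) (nat_lit 2) (nat_lit 4) (nat_lit 372) (nat_lit 235) (nat_lit 173))))) (XT.nd (nat_lit 156) (nat_lit 0) (nat_lit 0) (XT.nd (nat_lit 78) (nat_lit 0) (nat_lit 0) (XT.lf (nat_lit 0) (nat_lit 114421972648) (nat_lit 76) (nat_lit 94875355432) (nat_lit 76) (nat_lit 88269239944) (nat_lit 1) (nat_lit 4) (nat_lit 2) (nat_lit 5) (nat_lit 2) (nat_lit 4) (nat_lit 373) (nat_lit 235) (nat_lit 172)) (XT.lf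 (nat_lit 0) (nat_lit 124699899819) (nat_lit 76) (nat_lit 97122472976) (nat_lit 76) (nat_lit 90501104159) (nat_lit 1) (nat_lit 4) (nat_lit 2) (nat_lit 5) (nat_lit 2) (nat_lit 4) (nat_lit 374) (nat_lit 235) (nat_lit 171))) (XT.nd (nat_lit 78) (nat_lit 0) (nat_lit 0) (XT.lf (nat_lit 0) (nat_lit 135473753677) (nat_lit 76) (nat_lit 99490426133) (nat_lit 76) (nat_lit 92854530335) (nat_lit 1) (nat_lit 4) (nat_lit 2) (nat_lit 5) (nat_lit 2) (nat_lit 4) (nat_lit 375) (nat_lit 235) (nat_lit 170)) (XT.nd (nat_lit 78) (nat_lit 0) (nat_lit 0) (XT.lf (nat_lit 0) (nat_lit 146769186253) (nat_lit 76) (nat_lit 101984852885) (nat_lit 76) (nat_lit 95335121868) (nat_lit 1) (nat_lit 4) (nat_lit 2) (nat_lit 5) (nat_lit 2) (nat_lit 4) (nat_lit 376) (nat_lit 235) (nat_lit 169)) (XT.lf (nat_lit 0) (nat_lit 158613091436) (nat_lit 76) (nat_lit 104611692344) (nat_lit 76) (nat_lit 97948784927) (nat_lit 1) (nat_lit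 4) (nat_lit 2) (nat_lit 5) (nat_lit 2) (nat_lit 4) (nat_lit 377) (nat_lit 235) (nat_lit 168))))))) (XT.nd (nat_lit 780) (nat_lit 0) (nat_lit 0) (XT.nd (nat_lit 390) (nat_lit 0) (nat_lit 0) (XT.nd (nat_lit 156) (nat_lit 0) (nat_lit 0) (XT.nd (nat_lit 78) (nat_lit 0) (nat_lit 0) (XT.lf (nat_lit 0) (nat_lit 171033668999) (nat_lit 76) (nat_lit 107377198890) (nat_lit 76) (nat_lit 100701742522) (nat_lit 1) (nat_lit 4) (nat_lit 2) (nat_lit 5) (nat_lit 2) (nat_lit 4) (nat_lit 378) (nat_lit 235) (nat_lit 167)) (XT.lf (nat_lit 0) (nat_lit 184060491747) (nat_lit 76) (nat_lit 110287957063) (nat_lit 76) (nat_lit 103600549311) (nat_lit 1) (nat_lit 4) (nat_lit 2) (nat_lit 5) (nat_lit 2) (nat_lit 4) (nat_lit 379) (nat_lit 235) (nat_lit 166))) (XT.nd (nat_lit 78) (nat_lit 0) (nat_lit 0) (XT.lf (nat_lit 0) (nat_lit 197724575923) (nat_lit 76) (nat_lit 113350897238) (nat_lit 76) (nat_lit 106652107217) (nat_lit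 1) (nat_lit 4) (nat_lit 2) (nat_lit 5) (nat_lit 2) (nat_lit 4) (nat_lit 380) (nat_lit 235) (nat_lit 165)) (XT.nd (nat_lit 78) (nat_lit 0) (nat_lit 0) (XT.lf (nat_lit 0) (nat_lit 212058455061) (nat_lit 76) (nat_lit 116573312131) (nat_lit 76) (nat_lit 109863681853) (nat_lit 1) (nat_lit 4) (nat_lit 2) (nat_lit 5) (nat_lit 2) (nat_lit 4) (nat_lit 381) (nat_lit 235) (nat_lit 164)) (XT.lf (nat_lit 0) (nat_lit 227096257446) (nat_lit 76) (nat_lit 119962874157) (nat_lit 76) (nat_lit 113242919826) (nat_lit 1) (nat_lit 4) (nat_lit 2) (nat_lit 5) (nat_lit 2) (nat_lit 4) (nat_lit 382) (nat_lit 235) (nat_lit 163))))) (XT.nd (nat_lit 156) (nat_lit 0) (nat_lit 0) (XT.nd (nat_lit 78) (nat_lit 0) (nat_lit 0) (XT.lf (nat_lit 0) (nat_lit 242873787368) (nat_lit 76) (nat_lit 123527653703) (nat_lit 76) (nat_lit 116797866940) (nat_lit 1) (nat_lit 4) (nat_lit 2) (nat_lit 5) (nat_lit 2) (nat_lit 4) (nat_lit 383)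 (nat_lit 235) (nat_lit 162)) (XT.lf (nat_lit 0) (nat_lit 259428610376) (nat_lit 76) (nat_lit 127276138340) (nat_lit 76) (nat_lit 120536987355) (nat_lit 1) (nat_lit 4) (nat_lit 2) (nat_lit 5) (nat_lit 2) (nat_lit 4) (nat_lit 384) (nat_lit 235) (nat_lit 161))) (XT.nd (nat_lit 78) (nat_lit 0) (nat_lit 0) (XT.lf (nat_lit 0) (nat_lit 276800142713) (nat_lit 76) (nat_lit 131217253030) (nat_lit 76) (nat_lit 124469183739) (nat_lit 1) (nat_lit 4) (nat_lit 2) (nat_lit 5) (nat_lit 2) (nat_lit 4) (nat_lit 385) (nat_lit 235) (nat_lit 160)) (XT.nd (nat_lit 78) (nat_lit 0) (nat_lit 0) (XT.lf (nat_lit 0) (nat_lit 295029745172) (nat_lit 76) (nat_lit 135360381379) (nat_lit 76) (nat_lit 128603818464) (nat_lit 1) (nat_lit 4) (nat_lit 2) (nat_lit 5) (nat_lit 2) (nat_lit 4) (nat_lit 386) (nat_lit 235) (nat_lit 159)) (XT.lf (nat_lit 0) (nat_lit 314160821568) (nat_lit 76) (nat_lit 139715387980) (nat_lit 76)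 (nat_lit 132950735899) (nat_lit 1) (nat_lit 4) (nat_lit 2) (nat_lit 5) (nat_lit 2) (nat_lit 4) (nat_lit 387) (nat_lit 235) (nat_lit 158)))))) (XT.nd (nat_lit 34476) (nat_lit 0) (nat_lit 760) (XT.nd (nat_lit 156) (nat_lit 0) (nat_lit 0) (XT.nd (nat_lit 78) (nat_lit 0) (nat_lit 0) (XT.lf (nat_lit 0) (nat_lit 334238922083) (nat_lit 76) (nat_lit 144292641896) (nat_lit 76) (nat_lit 137520285847) (nat_lit 1) (nat_lit 4) (nat_lit 2) (nat_lit 5) (nat_lit 2) (nat_lit 4) (nat_lit 388) (nat_lit 235) (nat_lit 157)) (XT.lf (nat_lit 0) (nat_lit 355311851718) (nat_lit 76) (nat_lit 149103041349) (nat_lit 76) (nat_lit 142323348188) (nat_lit 1) (nat_lit 4) (nat_lit 2) (nat_lit 5) (nat_lit 2) (nat_lit 4) (nat_lit 389) (nat_lit 235) (nat_lit 156))) (XT.nd (nat_lit 78) (nat_lit 0) (nat_lit 0) (XT.lf (nat_lit 0) (nat_lit 377429784115) (nat_lit 76) (nat_lit 154158039673) (nat_lit 76) (nat_lit 147371358786)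 (nat_lit 1) (nat_lit 4) (nat_lit 2) (nat_lit 5) (nat_lit 2) (nat_lit 4) (nat_lit 390) (nat_lit 235) (nat_lit 155)) (XT.nd (nat_lit 34164) (nat_lit 0) (nat_lit 988) (XT.lf (nat_lit 0) (nat_lit 400645381018) (nat_lit 76) (nat_lit 159469672577) (nat_lit 76) (nat_lit 152676336713) (nat_lit 1) (nat_lit 4) (nat_lit 2) (nat_lit 5) (nat_lit 2) (nat_lit 4) (nat_lit 391) (nat_lit 235) (nat_lit 154)) (XT.lf (nat_lit 0) (nat_lit 184593940) (nat_lit 152) (nat_lit 7711521766) (nat_lit 0) (nat_lit 184593940) (nat_lit 14) (nat_lit 5) (nat_lit 16) (nat_lit 4) (nat_lit 14) (nat_lit 4) (nat_lit 308) (nat_lit 236) (nat_lit 236))))) (XT.nd (nat_lit 234) (nat_lit 152) (nat_lit 0) (XT.nd (nat_lit 78) (nat_lit 76) (nat_lit 0) (XT.lf (nat_lit 0) (nat_lit 4617973069) (nat_lit 152) (nat_lit 7917101399) (nat_lit 0) (nat_lit 4197016793) (nat_lit 14) (nat_lit 5) (nat_lit 16) (nat_lit 4) (nat_lit 14) (nat_lit 4) (nat_lit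 309) (nat_lit 236) (nat_lit 235)) (XT.nd (nat_lit 78) (nat_lit 76) (nat_lit 0) (XT.lf (nat_lit 0) (nat_lit 8932065776) (nat_lit 152) (nat_lit 296507985) (nat_lit 0) (nat_lit 8110198760) (nat_lit 14) (nat_lit 5) (nat_lit 16) (nat_lit 4) (nat_lit 14) (nat_lit 4) (nat_lit 310) (nat_lit 236) (nat_lit 234)) (XT.lf (nat_lit 0) (nat_lit 7703439139) (nat_lit 76) (nat_lit 5738570787) (nat_lit 76) (nat_lit 4534884019) (nat_lit 13) (nat_lit 4) (nat_lit 14) (nat_lit 5) (nat_lit 14) (nat_lit 4) (nat_lit 311) (nat_lit 236) (nat_lit 233)))) (XT.nd (nat_lit 78) (nat_lit 152) (nat_lit 0) (XT.lf (nat_lit 0) (nat_lit 15869447363) (nat_lit 76) (nat_lit 2175759481) (nat_lit 76) (nat_lit 608434855) (nat_lit 13) (nat_lit 4) (nat_lit 14) (nat_lit 5) (nat_lit 14) (nat_lit 4) (nat_lit 312) (nat_lit 236) (nat_lit 232)) (XT.nd (nat_lit 78) (nat_lit 0) (nat_lit 0) (XT.lf (nat_lit 0) (nat_lit 3371079423) (nat_lit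 152) (nat_lit 14443481763) (nat_lit 0) (nat_lit 1548559045) (nat_lit 11) (nat_lit 5) (nat_lit 13) (nat_lit 4) (nat_lit 11) (nat_lit 4) (nat_lit 313) (nat_lit 236) (nat_lit 231)) (XT.lf (nat_lit 0) (nat_lit 7480824737) (nat_lit 152) (nat_lit 7285077123) (nat_lit 0) (nat_lit 5344180304) (nat_lit 11) (nat_lit 5) (nat_lit 13) (nat_lit 4) (nat_lit 11) (nat_lit 4) (nat_lit 314) (nat_lit 236) (nat_lit 230))))))))
noncomputable def xc44 : XT := (XT.nd (nat_lit 1560) (nat_lit 152) (nat_lit 0) (XT.nd (nat_lit 780) (nat_lit 228) (nat_lit 0) (XT.nd (nat_lit 390) (nat_lit 76) (nat_lit 0) (XT.nd (nat_lit 156) (nat_lit 152) (nat_lit 0) (XT.nd (nat_lit 78) (nat_lit 0) (nat_lit 0) (XT.lf (nat_lit 0) (nat_lit 4466550) (nat_lit 76) (nat_lit 11666050861) (nat_lit 76) (nat_lit 9230240662) (nat_lit 10) (nat_lit 4) (nat_lit 11) (nat_lit 5) (nat_lit 11) (nat_lit 4) (nat_lit 315) (nat_lit 236) (nat_lit 229))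 (XT.lf (nat_lit 0) (nat_lit 7688144746) (nat_lit 76) (nat_lit 8381812271) (nat_lit 76) (nat_lit 5661082294) (nat_lit 10) (nat_lit 4) (nat_lit 11) (nat_lit 5) (nat_lit 11) (nat_lit 4) (nat_lit 316) (nat_lit 236) (nat_lit 228))) (XT.nd (nat_lit 78) (nat_lit 152) (nat_lit 0) (XT.lf (nat_lit 0) (nat_lit 15543374388) (nat_lit 76) (nat_lit 5028742780) (nat_lit 76) (nat_lit 2036660634) (nat_lit 10) (nat_lit 4) (nat_lit 11) (nat_lit 5) (nat_lit 11) (nat_lit 4) (nat_lit 317) (nat_lit 236) (nat_lit 227)) (XT.nd (nat_lit 78) (nat_lit 0) (nat_lit 0) (XT.lf (nat_lit 0) (nat_lit 27901062) (nat_lit 76) (nat_lit 1571325203) (nat_lit 152) (nat_lit 21935526007) (nat_lit 8) (nat_lit 5) (nat_lit 9) (nat_lit 5) (nat_lit 10) (nat_lit 4) (nat_lit 318) (nat_lit 236) (nat_lit 226)) (XT.lf (nat_lit 0) (nat_lit 5389460611) (nat_lit 152) (nat_lit 17054585244) (nat_lit 0) (nat_lit 2059329945) (nat_lit 8) (nat_lit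 5) (nat_lit 10) (nat_lit 4) (nat_lit 8) (nat_lit 4) (nat_lit 319) (nat_lit 236) (nat_lit 225))))) (XT.nd (nat_lit 156) (nat_lit 76) (nat_lit 0) (XT.nd (nat_lit 78) (nat_lit 0) (nat_lit 0) (XT.lf (nat_lit 0) (nat_lit 9287570356) (nat_lit 152) (nat_lit 10502810701) (nat_lit 0) (nat_lit 5734197589) (nat_lit 8) (nat_lit 5) (nat_lit 10) (nat_lit 4) (nat_lit 8) (nat_lit 4) (nat_lit 320) (nat_lit 236) (nat_lit 224)) (XT.lf (nat_lit 0) (nat_lit 13278303925) (nat_lit 152) (nat_lit 3811395329) (nat_lit 0) (nat_lit 9512319632) (nat_lit 8) (nat_lit 5) (nat_lit 10) (nat_lit 4) (nat_lit 8) (nat_lit 4) (nat_lit 321) (nat_lit 236) (nat_lit 223))) (XT.nd (nat_lit 78) (nat_lit 0) (nat_lit 0) (XT.lf (nat_lit 0) (nat_lit 3135963222) (nat_lit 76) (nat_lit 14284161015) (nat_lit 76) (nat_lit 10315689556) (nat_lit 7) (nat_lit 4) (nat_lit 8) (nat_lit 5) (nat_lit 8) (nat_lit 4) (nat_lit 322) (nat_lit 236) (nat_lit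 222)) (XT.nd (nat_lit 78) (nat_lit 0) (nat_lit 0) (XT.lf (nat_lit 0) (nat_lit 10386901808) (nat_lit 76) (nat_lit 11351159512) (nat_lit 76) (nat_lit 7189843132) (nat_lit 7) (nat_lit 4) (nat_lit 8) (nat_lit 5) (nat_lit 8) (nat_lit 4) (nat_lit 323) (nat_lit 236) (nat_lit 221)) (XT.lf (nat_lit 0) (nat_lit 17832662625) (nat_lit 76) (nat_lit 8348259232) (nat_lit 76) (nat_lit 4003281023) (nat_lit 7) (nat_lit 4) (nat_lit 8) (nat_lit 5) (nat_lit 8) (nat_lit 4) (nat_lit 324) (nat_lit 236) (nat_lit 220)))))) (XT.nd (nat_lit 390) (nat_lit 76) (nat_lit 0) (XT.nd (nat_lit 156) (nat_lit 0) (nat_lit 0) (XT.nd (nat_lit 78) (nat_lit 152) (nat_lit 0) (XT.lf (nat_lit 0) (nat_lit 25490973675) (nat_lit 76) (nat_lit 5268310412) (nat_lit 76) (nat_lit 748416176) (nat_lit 7) (nat_lit 4) (nat_lit 8) (nat_lit 5) (nat_lit 8) (nat_lit 4) (nat_lit 325) (nat_lit 236) (nat_lit 219)) (XT.lf (nat_lit 0) (nat_lit 452690073)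 (nat_lit 76) (nat_lit 2054222610) (nat_lit 152) (nat_lit 30392265712) (nat_lit 5) (nat_lit 5) (nat_lit 6) (nat_lit 5) (nat_lit 7) (nat_lit 4) (nat_lit 326) (nat_lit 236) (nat_lit 218))) (XT.nd (nat_lit 78) (nat_lit 0) (nat_lit 0) (XT.lf (nat_lit 0) (nat_lit 5940645002) (nat_lit 152) (nat_lit 27090746642) (nat_lit 0) (nat_lit 1326230791) (nat_lit 5) (nat_lit 5) (nat_lit 7) (nat_lit 4) (nat_lit 5) (nat_lit 4) (nat_lit 327) (nat_lit 236) (nat_lit 217)) (XT.nd (nat_lit 78) (nat_lit 0) (nat_lit 0) (XT.lf (nat_lit 0) (nat_lit 9500315249) (nat_lit 152) (nat_lit 21649006427) (nat_lit 0) (nat_lit 4741997189) (nat_lit 5) (nat_lit 5) (nat_lit 7) (nat_lit 4) (nat_lit 5) (nat_lit 4) (nat_lit 328) (nat_lit 236) (nat_lit 216)) (XT.lf (nat_lit 0) (nat_lit 13162326657) (nat_lit 152) (nat_lit 16076238982) (nat_lit 0) (nat_lit 8266957312) (nat_lit 5) (nat_lit 5) (nat_lit 7) (nat_lit 4) (nat_lit 5) (nat_lit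 4) (nat_lit 329) (nat_lit 236) (nat_lit 215))))) (XT.nd (nat_lit 156) (nat_lit 76) (nat_lit 0) (XT.nd (nat_lit 78) (nat_lit 0) (nat_lit 0) (XT.lf (nat_lit 0) (nat_lit 16935398302) (nat_lit 152) (nat_lit 10359175812) (nat_lit 0) (nat_lit 11909503924) (nat_lit 5) (nat_lit 5) (nat_lit 7) (nat_lit 4) (nat_lit 5) (nat_lit 4) (nat_lit 330) (nat_lit 236) (nat_lit 214)) (XT.lf (nat_lit 0) (nat_lit 20828513687) (nat_lit 152) (nat_lit 4484204863) (nat_lit 0) (nat_lit 15678309754) (nat_lit 5) (nat_lit 5) (nat_lit 7) (nat_lit 4) (nat_lit 5) (nat_lit 4) (nat_lit 331) (nat_lit 236) (nat_lit 213))) (XT.nd (nat_lit 78) (nat_lit 0) (nat_lit 0) (XT.lf (nat_lit 0) (nat_lit 1614330550) (nat_lit 76) (nat_lit 23261815809) (nat_lit 76) (nat_lit 17993221823) (nat_lit 4) (nat_lit 4) (nat_lit 5) (nat_lit 5) (nat_lit 5) (nat_lit 4) (nat_lit 332) (nat_lit 236) (nat_lit 212)) (XT.nd (nat_lit 78) (nat_lit 0) (nat_lit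 0) (XT.lf (nat_lit 0) (nat_lit 8053586827) (nat_lit 76) (nat_lit 21084413089) (nat_lit 76) (nat_lit 15703066673) (nat_lit 4) (nat_lit 4) (nat_lit 5) (nat_lit 5) (nat_lit 5) (nat_lit 4) (nat_lit 333) (nat_lit 236) (nat_lit 211)) (XT.lf (nat_lit 0) (nat_lit 14700627465) (nat_lit 76) (nat_lit 18851268280) (nat_lit 76) (nat_lit 13362538596) (nat_lit 4) (nat_lit 4) (nat_lit 5) (nat_lit 5) (nat_lit 5) (nat_lit 4) (nat_lit 334) (nat_lit 236) (nat_lit 210))))))) (XT.nd (nat_lit 780) (nat_lit 0) (nat_lit 0) (XT.nd (nat_lit 390) (nat_lit 152) (nat_lit 0) (XT.nd (nat_lit 156) (nat_lit 0) (nat_lit 0) (XT.nd (nat_lit 78) (nat_lit 0) (nat_lit 0) (XT.lf (nat_lit 0) (nat_lit 21571278751) (nat_lit 76) (nat_lit 16557064369) (nat_lit 76) (nat_lit 10966064906) (nat_lit 4) (nat_lit 4) (nat_lit 5) (nat_lit 5) (nat_lit 5) (nat_lit 4) (nat_lit 335) (nat_lit 236) (nat_lit 209)) (XT.lf (nat_lit 0) (nat_lit 28681899380)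 (nat_lit 76) (nat_lit 14196338967) (nat_lit 76) (nat_lit 8507939714) (nat_lit 4) (nat_lit 4) (nat_lit 5) (nat_lit 5) (nat_lit 5) (nat_lit 4) (nat_lit 336) (nat_lit 236) (nat_lit 208))) (XT.nd (nat_lit 78) (nat_lit 0) (nat_lit 0) (XT.lf (nat_lit 0) (nat_lit 36049419400) (nat_lit 76) (nat_lit 11763471297) (nat_lit 76) (nat_lit 5982310341) (nat_lit 4) (nat_lit 4) (nat_lit 5) (nat_lit 5) (nat_lit 5) (nat_lit 4) (nat_lit 337) (nat_lit 236) (nat_lit 207)) (XT.nd (nat_lit 78) (nat_lit 0) (nat_lit 0) (XT.lf (nat_lit 0) (nat_lit 43691380525) (nat_lit 76) (nat_lit 9252668820) (nat_lit 76) (nat_lit 3383163383) (nat_lit 4) (nat_lit 4) (nat_lit 5) (nat_lit 5) (nat_lit 5) (nat_lit 4) (nat_lit 338) (nat_lit 236) (nat_lit 206)) (XT.lf (nat_lit 0) (nat_lit 51625977901) (nat_lit 76) (nat_lit 6657953432) (nat_lit 76) (nat_lit 704310395) (nat_lit 4) (nat_lit 4) (nat_lit 5) (nat_lit 5) (nat_lit 5) (nat_lit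 4) (nat_lit 339) (nat_lit 236) (nat_lit 205))))) (XT.nd (nat_lit 156) (nat_lit 0) (nat_lit 0) (XT.nd (nat_lit 78) (nat_lit 76) (nat_lit 0) (XT.lf (nat_lit 0) (nat_lit 1994673915) (nat_lit 152) (nat_lit 1944692557) (nat_lit 76) (nat_lit 57843648744) (nat_lit 3) (nat_lit 5) (nat_lit 5) (nat_lit 5) (nat_lit 4) (nat_lit 4) (nat_lit 340) (nat_lit 236) (nat_lit 204)) (XT.lf (nat_lit 0) (nat_lit 3770258094) (nat_lit 76) (nat_lit 1049423594) (nat_lit 152) (nat_lit 59896552796) (nat_lit 2) (nat_lit 5) (nat_lit 3) (nat_lit 5) (nat_lit 4) (nat_lit 4) (nat_lit 341) (nat_lit 236) (nat_lit 203))) (XT.nd (nat_lit 78) (nat_lit 0) (nat_lit 0) (XT.lf (nat_lit 0) (nat_lit 7806523576) (nat_lit 152) (nat_lit 58070411883) (nat_lit 0) (nat_lit 1918170634) (nat_lit 2) (nat_lit 5) (nat_lit 4) (nat_lit 4) (nat_lit 2) (nat_lit 4) (nat_lit 342) (nat_lit 236) (nat_lit 202)) (XT.nd (nat_lit 78) (nat_lit 0) (nat_lit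 0) (XT.lf (nat_lit 0) (nat_lit 10918118691) (nat_lit 152) (nat_lit 55147209884) (nat_lit 0) (nat_lit 4963841738) (nat_lit 2) (nat_lit 5) (nat_lit 4) (nat_lit 4) (nat_lit 2) (nat_lit 4) (nat_lit 343) (nat_lit 236) (nat_lit 201)) (XT.lf (nat_lit 0) (nat_lit 14145491150) (nat_lit 152) (nat_lit 52153025945) (nat_lit 0) (nat_lit 8128429423) (nat_lit 2) (nat_lit 5) (nat_lit 4) (nat_lit 4) (nat_lit 2) (nat_lit 4) (nat_lit 344) (nat_lit 236) (nat_lit 200)))))) (XT.nd (nat_lit 390) (nat_lit 0) (nat_lit 0) (XT.nd (nat_lit 156) (nat_lit 0) (nat_lit 0) (XT.nd (nat_lit 78) (nat_lit 0) (nat_lit 0) (XT.lf (nat_lit 0) (nat_lit 17496325172) (nat_lit 152) (nat_lit 49080731055) (nat_lit 0) (nat_lit 11419468424) (nat_lit 2) (nat_lit 5) (nat_lit 4) (nat_lit 4) (nat_lit 2) (nat_lit 4) (nat_lit 345) (nat_lit 236) (nat_lit 199)) (XT.lf (nat_lit 0) (nat_lit 20978598934) (nat_lit 152) (nat_lit 45923010228) (nat_lit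 0) (nat_lit 14844794546) (nat_lit 2) (nat_lit 5) (nat_lit 4) (nat_lit 4) (nat_lit 2) (nat_lit 4) (nat_lit 346) (nat_lit 236) (nat_lit 198))) (XT.nd (nat_lit 78) (nat_lit 0) (nat_lit 0) (XT.lf (nat_lit 0) (nat_lit 24600603564) (nat_lit 152) (nat_lit 42672345081) (nat_lit 0) (nat_lit 18412563329) (nat_lit 2) (nat_lit 5) (nat_lit 4) (nat_lit 4) (nat_lit 2) (nat_lit 4) (nat_lit 347) (nat_lit 236) (nat_lit 197)) (XT.nd (nat_lit 78) (nat_lit 0) (nat_lit 0) (XT.lf (nat_lit 0) (nat_lit 28370962882) (nat_lit 152) (nat_lit 39320995934) (nat_lit 0) (nat_lit 22131269459) (nat_lit 2) (nat_lit 5) (nat_lit 4) (nat_lit 4) (nat_lit 2) (nat_lit 4) (nat_lit 348) (nat_lit 236) (nat_lit 196)) (XT.lf (nat_lit 0) (nat_lit 32298653934) (nat_lit 152) (nat_lit 35860983384) (nat_lit 0) (nat_lit 26009766999) (nat_lit 2) (nat_lit 5) (nat_lit 4) (nat_lit 4) (nat_lit 2) (nat_lit 4) (nat_lit 349) (nat_lit 236) (nat_lit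 195))))) (XT.nd (nat_lit 156) (nat_lit 0) (nat_lit 0) (XT.nd (nat_lit 78) (nat_lit 0) (nat_lit 0) (XT.lf (nat_lit 0) (nat_lit 36393028366) (nat_lit 152) (nat_lit 32284069308) (nat_lit 0) (nat_lit 30057290468) (nat_lit 2) (nat_lit 5) (nat_lit 4) (nat_lit 4) (nat_lit 2) (nat_lit 4) (nat_lit 350) (nat_lit 236) (nat_lit 194)) (XT.lf (nat_lit 0) (nat_lit 40663834689) (nat_lit 152) (nat_lit 28581737242) (nat_lit 0) (nat_lit 34283476824) (nat_lit 2) (nat_lit 5) (nat_lit 4) (nat_lit 4) (nat_lit 2) (nat_lit 4) (nat_lit 351) (nat_lit 236) (nat_lit 193))) (XT.nd (nat_lit 78) (nat_lit 0) (nat_lit 0) (XT.lf (nat_lit 0) (nat_lit 45121241488) (nat_lit 152) (nat_lit 24745172110) (nat_lit 0) (nat_lit 38698388418) (nat_lit 2) (nat_lit 5) (nat_lit 4) (nat_lit 4) (nat_lit 2) (nat_lit 4) (nat_lit 352) (nat_lit 236) (nat_lit 192)) (XT.nd (nat_lit 78) (nat_lit 0) (nat_lit 0) (XT.lf (nat_lit 0) (nat_lit 49775861637)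 (nat_lit 152) (nat_lit 20765239233) (nat_lit 0) (nat_lit 43312536943) (nat_lit 2) (nat_lit 5) (nat_lit 4) (nat_lit 4) (nat_lit 2) (nat_lit 4) (nat_lit 353) (nat_lit 236) (nat_lit 191)) (XT.lf (nat_lit 0) (nat_lit 54638777565) (nat_lit 152) (nat_lit 16632462582) (nat_lit 0) (nat_lit 48136908467) (nat_lit 2) (nat_lit 5) (nat_lit 4) (nat_lit 4) (nat_lit 2) (nat_lit 4) (nat_lit 354) (nat_lit 236) (nat_lit 190))))))))
noncomputable def xc45 : XT := (XT.nd (nat_lit 1560) (nat_lit 0) (nat_lit 0) (XT.nd (nat_lit 780) (nat_lit 0) (nat_lit 0) (XT.nd (nat_lit 390) (nat_lit 0) (nat_lit 0) (XT.nd (nat_lit 156) (nat_lit 76) (nat_lit 0) (XT.nd (nat_lit 78) (nat_lit 0) (nat_lit 0) (XT.lf (nat_lit 0) (nat_lit 59721567644) (nat_lit 152) (nat_lit 12337002210) (nat_lit 0) (nat_lit 53182989590) (nat_lit 2) (nat_lit 5) (nat_lit 4) (nat_lit 4) (nat_lit 2) (nat_lit 4) (nat_lit 355) (nat_lit 236) (nat_lit 189))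 (XT.lf (nat_lit 0) (nat_lit 65036333754) (nat_lit 152) (nat_lit 7868630832) (nat_lit 0) (nat_lit 58462794789) (nat_lit 2) (nat_lit 5) (nat_lit 4) (nat_lit 4) (nat_lit 2) (nat_lit 4) (nat_lit 356) (nat_lit 236) (nat_lit 188))) (XT.nd (nat_lit 78) (nat_lit 76) (nat_lit 0) (XT.lf (nat_lit 0) (nat_lit 70595730100) (nat_lit 152) (nat_lit 3216709469) (nat_lit 0) (nat_lit 63988895030) (nat_lit 2) (nat_lit 5) (nat_lit 4) (nat_lit 4) (nat_lit 2) (nat_lit 4) (nat_lit 357) (nat_lit 236) (nat_lit 187)) (XT.nd (nat_lit 78) (nat_lit 0) (nat_lit 0) (XT.lf (nat_lit 0) (nat_lit 1683727684) (nat_lit 76) (nat_lit 74755553364) (nat_lit 76) (nat_lit 68117007718) (nat_lit 1) (nat_lit 4) (nat_lit 2) (nat_lit 5) (nat_lit 2) (nat_lit 4) (nat_lit 358) (nat_lit 236) (nat_lit 186)) (XT.lf (nat_lit 0) (nat_lit 6903505926) (nat_lit 76) (nat_lit 75706251251) (nat_lit 76) (nat_lit 69037505055) (nat_lit 1) (nat_lit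 4) (nat_lit 2) (nat_lit 5) (nat_lit 2) (nat_lit 4) (nat_lit 359) (nat_lit 236) (nat_lit 185))))) (XT.nd (nat_lit 156) (nat_lit 0) (nat_lit 0) (XT.nd (nat_lit 78) (nat_lit 0) (nat_lit 0) (XT.lf (nat_lit 0) (nat_lit 12348694357) (nat_lit 76) (nat_lit 76721273327) (nat_lit 76) (nat_lit 70023764704) (nat_lit 1) (nat_lit 4) (nat_lit 2) (nat_lit 5) (nat_lit 2) (nat_lit 4) (nat_lit 360) (nat_lit 236) (nat_lit 184)) (XT.lf (nat_lit 0) (nat_lit 18032257713) (nat_lit 76) (nat_lit 77803036312) (nat_lit 76) (nat_lit 71078134900) (nat_lit 1) (nat_lit 4) (nat_lit 2) (nat_lit 5) (nat_lit 2) (nat_lit 4) (nat_lit 361) (nat_lit 236) (nat_lit 183))) (XT.nd (nat_lit 78) (nat_lit 0) (nat_lit 0) (XT.lf (nat_lit 0) (nat_lit 23967728287) (nat_lit 76) (nat_lit 78954115832) (nat_lit 76) (nat_lit 72203126050) (nat_lit 1) (nat_lit 4) (nat_lit 2) (nat_lit 5) (nat_lit 2) (nat_lit 4) (nat_lit 362) (nat_lit 236) (nat_lit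 182)) (XT.nd (nat_lit 78) (nat_lit 0) (nat_lit 0) (XT.lf (nat_lit 0) (nat_lit 30169238151) (nat_lit 76) (nat_lit 80177252552) (nat_lit 76) (nat_lit 73401416704) (nat_lit 1) (nat_lit 4) (nat_lit 2) (nat_lit 5) (nat_lit 2) (nat_lit 4) (nat_lit 363) (nat_lit 236) (nat_lit 181)) (XT.lf (nat_lit 0) (nat_lit 36651552805) (nat_lit 76) (nat_lit 81475358703) (nat_lit 76) (nat_lit 74675859934) (nat_lit 1) (nat_lit 4) (nat_lit 2) (nat_lit 5) (nat_lit 2) (nat_lit 4) (nat_lit 364) (nat_lit 236) (nat_lit 180)))))) (XT.nd (nat_lit 390) (nat_lit 0) (nat_lit 0) (XT.nd (nat_lit 156) (nat_lit 0) (nat_lit 0) (XT.nd (nat_lit 78) (nat_lit 0) (nat_lit 0) (XT.lf (nat_lit 0) (nat_lit 43430106332) (nat_lit 76) (nat_lit 82851525013) (nat_lit 76) (nat_lit 76029490130) (nat_lit 1) (nat_lit 4) (nat_lit 2) (nat_lit 5) (nat_lit 2) (nat_lit 4) (nat_lit 365) (nat_lit 236) (nat_lit 179)) (XT.lf (nat_lit 0) (nat_lit 50521038146)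 (nat_lit 76) (nat_lit 84309028069) (nat_lit 76) (nat_lit 77465530220) (nat_lit 1) (nat_lit 4) (nat_lit 2) (nat_lit 5) (nat_lit 2) (nat_lit 4) (nat_lit 366) (nat_lit 236) (nat_lit 178))) (XT.nd (nat_lit 78) (nat_lit 0) (nat_lit 0) (XT.lf (nat_lit 0) (nat_lit 57941231415) (nat_lit 76) (nat_lit 85851338117) (nat_lit 76) (nat_lit 78987399347) (nat_lit 1) (nat_lit 4) (nat_lit 2) (nat_lit 5) (nat_lit 2) (nat_lit 4) (nat_lit 367) (nat_lit 236) (nat_lit 177)) (XT.nd (nat_lit 78) (nat_lit 0) (nat_lit 0) (XT.lf (nat_lit 0) (nat_lit 65708353269) (nat_lit 76) (nat_lit 87482127323) (nat_lit 76) (nat_lit 80598721010) (nat_lit 1) (nat_lit 4) (nat_lit 2) (nat_lit 5) (nat_lit 2) (nat_lit 4) (nat_lit 368) (nat_lit 236) (nat_lit 176)) (XT.lf (nat_lit 0) (nat_lit 73840896854) (nat_lit 76) (nat_lit 89205278519) (nat_lit 76) (nat_lit 82303331688) (nat_lit 1) (nat_lit 4) (nat_lit 2) (nat_lit 5) (nat_lit 2)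 (nat_lit 4) (nat_lit 369) (nat_lit 236) (nat_lit 175))))) (XT.nd (nat_lit 156) (nat_lit 0) (nat_lit 0) (XT.nd (nat_lit 78) (nat_lit 0) (nat_lit 0) (XT.lf (nat_lit 0) (nat_lit 82358225369) (nat_lit 76) (nat_lit 91024894445) (nat_lit 76) (nat_lit 84105289979) (nat_lit 1) (nat_lit 4) (nat_lit 2) (nat_lit 5) (nat_lit 2) (nat_lit 4) (nat_lit 370) (nat_lit 236) (nat_lit 174)) (XT.lf (nat_lit 0) (nat_lit 91280618167) (nat_lit 76) (nat_lit 92945307521) (nat_lit 76) (nat_lit 86008886259) (nat_lit 1) (nat_lit 4) (nat_lit 2) (nat_lit 5) (nat_lit 2) (nat_lit 4) (nat_lit 371) (nat_lit 236) (nat_lit 173))) (XT.nd (nat_lit 78) (nat_lit 0) (nat_lit 0) (XT.lf (nat_lit 0) (nat_lit 100629319041) (nat_lit 76) (nat_lit 94971090158) (nat_lit 76) (nat_lit 88018652900) (nat_lit 1) (nat_lit 4) (nat_lit 2) (nat_lit 5) (nat_lit 2) (nat_lit 4) (nat_lit 372) (nat_lit 236) (nat_lit 172)) (XT.nd (nat_lit 78) (nat_lit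 0) (nat_lit 0) (XT.lf (nat_lit 0) (nat_lit 110426586803) (nat_lit 76) (nat_lit 97107065649) (nat_lit 76) (nat_lit 90139375061) (nat_lit 1) (nat_lit 4) (nat_lit 2) (nat_lit 5) (nat_lit 2) (nat_lit 4) (nat_lit 373) (nat_lit 236) (nat_lit 171)) (XT.lf (nat_lit 0) (nat_lit 120695748281) (nat_lit 76) (nat_lit 99358319649) (nat_lit 76) (nat_lit 92376102081) (nat_lit 1) (nat_lit 4) (nat_lit 2) (nat_lit 5) (nat_lit 2) (nat_lit 4) (nat_lit 374) (nat_lit 236) (nat_lit 170))))))) (XT.nd (nat_lit 780) (nat_lit 0) (nat_lit 0) (XT.nd (nat_lit 390) (nat_lit 0) (nat_lit 0) (XT.nd (nat_lit 156) (nat_lit 0) (nat_lit 0) (XT.nd (nat_lit 78) (nat_lit 0) (nat_lit 0) (XT.lf (nat_lit 0) (nat_lit 131461253858) (nat_lit 76) (nat_lit 101730212287) (nat_lit 76) (nat_lit 94734159500) (nat_lit 1) (nat_lit 4) (nat_lit 2) (nat_lit 5) (nat_lit 2) (nat_lit 4) (nat_lit 375) (nat_lit 236) (nat_lit 169)) (XT.lf (nat_lit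 0) (nat_lit 142748735692) (nat_lit 76) (nat_lit 104228390927) (nat_lit 76) (nat_lit 97219161740) (nat_lit 1) (nat_lit 4) (nat_lit 2) (nat_lit 5) (nat_lit 2) (nat_lit 4) (nat_lit 376) (nat_lit 236) (nat_lit 168))) (XT.nd (nat_lit 78) (nat_lit 0) (nat_lit 0) (XT.lf (nat_lit 0) (nat_lit 154585068739) (nat_lit 76) (nat_lit 106858803613) (nat_lit 76) (nat_lit 99837025474) (nat_lit 1) (nat_lit 4) (nat_lit 2) (nat_lit 5) (nat_lit 2) (nat_lit 4) (nat_lit 377) (nat_lit 236) (nat_lit 167)) (XT.nd (nat_lit 78) (nat_lit 0) (nat_lit 0) (XT.lf (nat_lit 0) (nat_lit 166998434744) (nat_lit 76) (nat_lit 109627713232) (nat_lit 76) (nat_lit 102593983710) (nat_lit 1) (nat_lit 4) (nat_lit 2) (nat_lit 5) (nat_lit 2) (nat_lit 4) (nat_lit 378) (nat_lit 236) (nat_lit 166)) (XT.lf (nat_lit 0) (nat_lit 180018389341) (nat_lit 76) (nat_lit 112541712425) (nat_lit 76) (nat_lit 105496600634) (nat_lit 1) (nat_lit 4)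 (nat_lit 2) (nat_lit 5) (nat_lit 2) (nat_lit 4) (nat_lit 379) (nat_lit 236) (nat_lit 165))))) (XT.nd (nat_lit 156) (nat_lit 0) (nat_lit 0) (XT.nd (nat_lit 78) (nat_lit 0) (nat_lit 0) (XT.lf (nat_lit 0) (nat_lit 193675932421) (nat_lit 76) (nat_lit 115607739288) (nat_lit 76) (nat_lit 108551787240) (nat_lit 1) (nat_lit 4) (nat_lit 2) (nat_lit 5) (nat_lit 2) (nat_lit 4) (nat_lit 380) (nat_lit 236) (nat_lit 164)) (XT.lf (nat_lit 0) (nat_lit 208003581944) (nat_lit 76) (nat_lit 118833093883) (nat_lit 76) (nat_lit 111766817781) (nat_lit 1) (nat_lit 4) (nat_lit 2) (nat_lit 5) (nat_lit 2) (nat_lit 4) (nat_lit 381) (nat_lit 236) (nat_lit 163))) (XT.nd (nat_lit 78) (nat_lit 0) (nat_lit 0) (XT.lf (nat_lit 0) (nat_lit 223035451362) (nat_lit 76) (nat_lit 122225455625) (nat_lit 76) (nat_lit 115149347092) (nat_lit 1) (nat_lit 4) (nat_lit 2) (nat_lit 5) (nat_lit 2) (nat_lit 4) (nat_lit 382) (nat_lit 236)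 (nat_lit 162)) (XT.nd (nat_lit 78) (nat_lit 0) (nat_lit 0) (XT.lf (nat_lit 0) (nat_lit 238807330840) (nat_lit 76) (nat_lit 125792901568) (nat_lit 76) (nat_lit 118707428813) (nat_lit 1) (nat_lit 4) (nat_lit 2) (nat_lit 5) (nat_lit 2) (nat_lit 4) (nat_lit 383) (nat_lit 236) (nat_lit 161)) (XT.lf (nat_lit 0) (nat_lit 255356772472) (nat_lit 76) (nat_lit 129543925630) (nat_lit 76) (nat_lit 122449534569) (nat_lit 1) (nat_lit 4) (nat_lit 2) (nat_lit 5) (nat_lit 2) (nat_lit 4) (nat_lit 384) (nat_lit 236) (nat_lit 160)))))) (XT.nd (nat_lit 390) (nat_lit 0) (nat_lit 0) (XT.nd (nat_lit 156) (nat_lit 0) (nat_lit 0) (XT.nd (nat_lit 78) (nat_lit 0) (nat_lit 0) (XT.lf (nat_lit 0) (nat_lit 272723179690) (nat_lit 76) (nat_lit 133487458820) (nat_lit 76) (nat_lit 126384574134) (nat_lit 1) (nat_lit 4) (nat_lit 2) (nat_lit 5) (nat_lit 2) (nat_lit 4) (nat_lit 385) (nat_lit 236) (nat_lit 159)) (XT.lf (nat_lit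 0) (nat_lit 290947901083) (nat_lit 76) (nat_lit 137632890503) (nat_lit 76) (nat_lit 130521916651) (nat_lit 1) (nat_lit 4) (nat_lit 2) (nat_lit 5) (nat_lit 2) (nat_lit 4) (nat_lit 386) (nat_lit 236) (nat_lit 158))) (XT.nd (nat_lit 78) (nat_lit 0) (nat_lit 0) (XT.lf (nat_lit 0) (nat_lit 310074328844) (nat_lit 76) (nat_lit 141990090755) (nat_lit 76) (nat_lit 134871412935) (nat_lit 1) (nat_lit 4) (nat_lit 2) (nat_lit 5) (nat_lit 2) (nat_lit 4) (nat_lit 387) (nat_lit 236) (nat_lit 157)) (XT.nd (nat_lit 78) (nat_lit 0) (nat_lit 0) (XT.lf (nat_lit 0) (nat_lit 330148002088) (nat_lit 76) (nat_lit 146569433862) (nat_lit 76) (nat_lit 139443418930) (nat_lit 1) (nat_lit 4) (nat_lit 2) (nat_lit 5) (nat_lit 2) (nat_lit 4) (nat_lit 388) (nat_lit 236) (nat_lit 156)) (XT.lf (nat_lit 0) (nat_lit 351216715274) (nat_lit 76) (nat_lit 151381823022) (nat_lit 76) (nat_lit 144248820364) (nat_lit 1) (nat_lit 4)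 (nat_lit 2) (nat_lit 5) (nat_lit 2) (nat_lit 4) (nat_lit 389) (nat_lit 236) (nat_lit 155))))) (XT.nd (nat_lit 34164) (nat_lit 0) (nat_lit 988) (XT.nd (nat_lit 78) (nat_lit 0) (nat_lit 0) (XT.lf (nat_lit 0) (nat_lit 373330632006) (nat_lit 76) (nat_lit 156438716304) (nat_lit 76) (nat_lit 149299058668) (nat_lit 1) (nat_lit 4) (nat_lit 2) (nat_lit 5) (nat_lit 2) (nat_lit 4) (nat_lit 390) (nat_lit 236) (nat_lit 154)) (XT.nd (nat_lit 34008) (nat_lit 0) (nat_lit 1140) (XT.lf (nat_lit 0) (nat_lit 396542404465) (nat_lit 76) (nat_lit 161752153930) (nat_lit 76) (nat_lit 154606158221) (nat_lit 1) (nat_lit 4) (nat_lit 2) (nat_lit 5) (nat_lit 2) (nat_lit 4) (nat_lit 391) (nat_lit 236) (nat_lit 153)) (XT.lf (nat_lit 0) (nat_lit 216159702) (nat_lit 152) (nat_lit 3665736405) (nat_lit 152) (nat_lit 3665736405) (nat_lit 16) (nat_lit 4) (nat_lit 18) (nat_lit 5) (nat_lit 18) (nat_lit 4) (nat_lit 306) (nat_lit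 237) (nat_lit 237)))) (XT.nd (nat_lit 78) (nat_lit 152) (nat_lit 0) (XT.lf (nat_lit 0) (nat_lit 8523481803) (nat_lit 152) (nat_lit 3777336626) (nat_lit 152) (nat_lit 3313232331) (nat_lit 16) (nat_lit 4) (nat_lit 18) (nat_lit 5) (nat_lit 18) (nat_lit 4) (nat_lit 307) (nat_lit 237) (nat_lit 236)) (XT.nd (nat_lit 78) (nat_lit 0) (nat_lit 0) (XT.lf (nat_lit 0) (nat_lit 606550275) (nat_lit 76) (nat_lit 131331998) (nat_lit 152) (nat_lit 15427263516) (nat_lit 14) (nat_lit 5) (nat_lit 15) (nat_lit 5) (nat_lit 16) (nat_lit 4) (nat_lit 308) (nat_lit 237) (nat_lit 235)) (XT.lf (nat_lit 0) (nat_lit 4912845419) (nat_lit 152) (nat_lit 8177747226) (nat_lit 0) (nat_lit 3648974313) (nat_lit 14) (nat_lit 5) (nat_lit 16) (nat_lit 4) (nat_lit 14) (nat_lit 4) (nat_lit 309) (nat_lit 237) (nat_lit 234))))))))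
noncomputable def xc46 : XT := (XT.nd (nat_lit 1560) (nat_lit 228) (nat_lit 0) (XT.nd (nat_lit 780) (nat_lit 228) (nat_lit 0) (XT.nd (nat_lit 390) (nat_lit 228) (nat_lit 0) (XT.nd (nat_lit 156) (nat_lit 152) (nat_lit 0) (XT.nd (nat_lit 78) (nat_lit 76) (nat_lit 0) (XT.lf (nat_lit 0) (nat_lit 9158584240) (nat_lit 152) (nat_lit 678243627) (nat_lit 0) (nat_lit 7512893383) (nat_lit 14) (nat_lit 5) (nat_lit 16) (nat_lit 4) (nat_lit 14) (nat_lit 4) (nat_lit 310) (nat_lit 237) (nat_lit 233)) (XT.lf (nat_lit 0) (nat_lit 7189944839) (nat_lit 76) (nat_lit 6405467527) (nat_lit 76) (nat_lit 4396138810) (nat_lit 13) (nat_lit 4) (nat_lit 14) (nat_lit 5) (nat_lit 14) (nat_lit 4) (nat_lit 311) (nat_lit 237) (nat_lit 232))) (XT.nd (nat_lit 78) (nat_lit 152) (nat_lit 0) (XT.lf (nat_lit 0) (nat_lit 15242489488) (nat_lit 76) (nat_lit 2892349322) (nat_lit 76) (nat_lit 536698835) (nat_lit 13) (nat_lit 4)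 (nat_lit 14) (nat_lit 5) (nat_lit 14) (nat_lit 4) (nat_lit 312) (nat_lit 237) (nat_lit 231)) (XT.nd (nat_lit 78) (nat_lit 0) (nat_lit 0) (XT.lf (nat_lit 0) (nat_lit 3354423447) (nat_lit 152) (nat_lit 15234064317) (nat_lit 0) (nat_lit 796822738) (nat_lit 11) (nat_lit 5) (nat_lit 13) (nat_lit 4) (nat_lit 11) (nat_lit 4) (nat_lit 313) (nat_lit 237) (nat_lit 230)) (XT.lf (nat_lit 0) (nat_lit 7402895766) (nat_lit 152) (nat_lit 8186354387) (nat_lit 0) (nat_lit 4546129290) (nat_lit 11) (nat_lit 5) (nat_lit 13) (nat_lit 4) (nat_lit 11) (nat_lit 4) (nat_lit 314) (nat_lit 237) (nat_lit 229))))) (XT.nd (nat_lit 156) (nat_lit 152) (nat_lit 0) (XT.nd (nat_lit 78) (nat_lit 76) (nat_lit 0) (XT.lf (nat_lit 0) (nat_lit 11534163471) (nat_lit 152) (nat_lit 1002377204) (nat_lit 0) (nat_lit 8392477217) (nat_lit 11) (nat_lit 5) (nat_lit 13) (nat_lit 4) (nat_lit 11) (nat_lit 4) (nat_lit 315) (nat_lit 237)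 (nat_lit 228)) (XT.lf (nat_lit 0) (nat_lit 6544434720) (nat_lit 76) (nat_lit 9315805159) (nat_lit 76) (nat_lit 5902766737) (nat_lit 10) (nat_lit 4) (nat_lit 11) (nat_lit 5) (nat_lit 11) (nat_lit 4) (nat_lit 316) (nat_lit 237) (nat_lit 227))) (XT.nd (nat_lit 78) (nat_lit 152) (nat_lit 0) (XT.lf (nat_lit 0) (nat_lit 14300880406) (nat_lit 76) (nat_lit 6007047413) (nat_lit 76) (nat_lit 2335578354) (nat_lit 10) (nat_lit 4) (nat_lit 11) (nat_lit 5) (nat_lit 11) (nat_lit 4) (nat_lit 317) (nat_lit 237) (nat_lit 226)) (XT.nd (nat_lit 78) (nat_lit 76) (nat_lit 0) (XT.lf (nat_lit 0) (nat_lit 1256676877) (nat_lit 152) (nat_lit 1341405876) (nat_lit 76) (nat_lit 20974325153) (nat_lit 9) (nat_lit 5) (nat_lit 11) (nat_lit 5) (nat_lit 10) (nat_lit 4) (nat_lit 318) (nat_lit 237) (nat_lit 225)) (XT.lf (nat_lit 0) (nat_lit 4956502230) (nat_lit 152) (nat_lit 18586863284) (nat_lit 0) (nat_lit 1002218723)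 (nat_lit 8) (nat_lit 5) (nat_lit 10) (nat_lit 4) (nat_lit 8) (nat_lit 4) (nat_lit 319) (nat_lit 237) (nat_lit 224)))))) (XT.nd (nat_lit 390) (nat_lit 152) (nat_lit 0) (XT.nd (nat_lit 156) (nat_lit 76) (nat_lit 0) (XT.nd (nat_lit 78) (nat_lit 0) (nat_lit 0) (XT.lf (nat_lit 0) (nat_lit 8804718481) (nat_lit 152) (nat_lit 12126770643) (nat_lit 0) (nat_lit 4637823449) (nat_lit 8) (nat_lit 5) (nat_lit 10) (nat_lit 4) (nat_lit 8) (nat_lit 4) (nat_lit 320) (nat_lit 237) (nat_lit 223)) (XT.lf (nat_lit 0) (nat_lit 12747934435) (nat_lit 152) (nat_lit 5522671366) (nat_lit 0) (nat_lit 8378552237) (nat_lit 8) (nat_lit 5) (nat_lit 10) (nat_lit 4) (nat_lit 8) (nat_lit 4) (nat_lit 321) (nat_lit 237) (nat_lit 222))) (XT.nd (nat_lit 78) (nat_lit 0) (nat_lit 0) (XT.lf (nat_lit 0) (nat_lit 1282196898) (nat_lit 76) (nat_lit 15533360491) (nat_lit 76) (nat_lit 10971133372) (nat_lit 7) (nat_lit 4) (nat_lit 8)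 (nat_lit 5) (nat_lit 8) (nat_lit 4) (nat_lit 322) (nat_lit 237) (nat_lit 221)) (XT.nd (nat_lit 78) (nat_lit 0) (nat_lit 0) (XT.lf (nat_lit 0) (nat_lit 8451318558) (nat_lit 76) (nat_lit 12637798646) (nat_lit 76) (nat_lit 7891909698) (nat_lit 7) (nat_lit 4) (nat_lit 8) (nat_lit 5) (nat_lit 8) (nat_lit 4) (nat_lit 323) (nat_lit 237) (nat_lit 220)) (XT.lf (nat_lit 0) (nat_lit 15819158493) (nat_lit 76) (nat_lit 9670555182) (nat_lit 76) (nat_lit 4749750207) (nat_lit 7) (nat_lit 4) (nat_lit 8) (nat_lit 5) (nat_lit 8) (nat_lit 4) (nat_lit 324) (nat_lit 237) (nat_lit 219))))) (XT.nd (nat_lit 156) (nat_lit 76) (nat_lit 0) (XT.nd (nat_lit 78) (nat_lit 76) (nat_lit 0) (XT.lf (nat_lit 0) (nat_lit 23403259180) (nat_lit 76) (nat_lit 6624565236) (nat_lit 76) (nat_lit 1537173568) (nat_lit 7) (nat_lit 4) (nat_lit 8) (nat_lit 5) (nat_lit 8) (nat_lit 4) (nat_lit 325) (nat_lit 237) (nat_lit 218)) (XT.lf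 (nat_lit 0) (nat_lit 1697347245) (nat_lit 152) (nat_lit 1766483808) (nat_lit 76) (nat_lit 29495585358) (nat_lit 6) (nat_lit 5) (nat_lit 8) (nat_lit 5) (nat_lit 7) (nat_lit 4) (nat_lit 326) (nat_lit 237) (nat_lit 217))) (XT.nd (nat_lit 78) (nat_lit 0) (nat_lit 0) (XT.lf (nat_lit 0) (nat_lit 4940927957) (nat_lit 76) (nat_lit 102034315) (nat_lit 152) (nat_lit 29379324898) (nat_lit 5) (nat_lit 5) (nat_lit 6) (nat_lit 5) (nat_lit 7) (nat_lit 4) (nat_lit 327) (nat_lit 237) (nat_lit 216)) (XT.nd (nat_lit 78) (nat_lit 0) (nat_lit 0) (XT.lf (nat_lit 0) (nat_lit 8564140770) (nat_lit 152) (nat_lit 24106835606) (nat_lit 0) (nat_lit 3286951674) (nat_lit 5) (nat_lit 5) (nat_lit 7) (nat_lit 4) (nat_lit 5) (nat_lit 4) (nat_lit 328) (nat_lit 237) (nat_lit 215)) (XT.lf (nat_lit 0) (nat_lit 12191010552) (nat_lit 152) (nat_lit 18599601159) (nat_lit 0) (nat_lit 6783296423) (nat_lit 5) (nat_lit 5) (nat_lit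 7) (nat_lit 4) (nat_lit 5) (nat_lit 4) (nat_lit 329) (nat_lit 237) (nat_lit 214))))))) (XT.nd (nat_lit 780) (nat_lit 152) (nat_lit 0) (XT.nd (nat_lit 390) (nat_lit 0) (nat_lit 0) (XT.nd (nat_lit 156) (nat_lit 76) (nat_lit 0) (XT.nd (nat_lit 78) (nat_lit 0) (nat_lit 0) (XT.lf (nat_lit 0) (nat_lit 15930613982) (nat_lit 152) (nat_lit 12944950370) (nat_lit 0) (nat_lit 10398590297) (nat_lit 5) (nat_lit 5) (nat_lit 7) (nat_lit 4) (nat_lit 5) (nat_lit 4) (nat_lit 330) (nat_lit 237) (nat_lit 213)) (XT.lf (nat_lit 0) (nat_lit 19791854876) (nat_lit 152) (nat_lit 7129419783) (nat_lit 0) (nat_lit 14141441138) (nat_lit 5) (nat_lit 5) (nat_lit 7) (nat_lit 4) (nat_lit 5) (nat_lit 4) (nat_lit 331) (nat_lit 237) (nat_lit 212))) (XT.nd (nat_lit 78) (nat_lit 76) (nat_lit 0) (XT.lf (nat_lit 0) (nat_lit 23783926666) (nat_lit 152) (nat_lit 1139162896) (nat_lit 0) (nat_lit 18020760497) (nat_lit 5) (nat_lit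 5) (nat_lit 7) (nat_lit 4) (nat_lit 5) (nat_lit 4) (nat_lit 332) (nat_lit 237) (nat_lit 211)) (XT.nd (nat_lit 78) (nat_lit 0) (nat_lit 0) (XT.lf (nat_lit 0) (nat_lit 5206730703) (nat_lit 76) (nat_lit 22790895238) (nat_lit 76) (nat_lit 16920345802) (nat_lit 4) (nat_lit 4) (nat_lit 5) (nat_lit 5) (nat_lit 5) (nat_lit 4) (nat_lit 333) (nat_lit 237) (nat_lit 210)) (XT.lf (nat_lit 0) (nat_lit 11800726764) (nat_lit 76) (nat_lit 20582432448) (nat_lit 76) (nat_lit 14609613233) (nat_lit 4) (nat_lit 4) (nat_lit 5) (nat_lit 5) (nat_lit 5) (nat_lit 4) (nat_lit 334) (nat_lit 237) (nat_lit 209))))) (XT.nd (nat_lit 156) (nat_lit 0) (nat_lit 0) (XT.nd (nat_lit 78) (nat_lit 0) (nat_lit 0) (XT.lf (nat_lit 0) (nat_lit 18620859405) (nat_lit 76) (nat_lit 18311735222) (nat_lit 76) (nat_lit 12241516218) (nat_lit 4) (nat_lit 4) (nat_lit 5) (nat_lit 5) (nat_lit 5) (nat_lit 4) (nat_lit 335) (nat_lit 237) (nat_lit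 208)) (XT.lf (nat_lit 0) (nat_lit 25683367039) (nat_lit 76) (nat_lit 15973397138) (nat_lit 76) (nat_lit 9810416430) (nat_lit 4) (nat_lit 4) (nat_lit 5) (nat_lit 5) (nat_lit 5) (nat_lit 4) (nat_lit 336) (nat_lit 237) (nat_lit 207))) (XT.nd (nat_lit 78) (nat_lit 0) (nat_lit 0) (XT.lf (nat_lit 0) (nat_lit 33005065158) (nat_lit 76) (nat_lit 13561850725) (nat_lit 76) (nat_lit 7310525537) (nat_lit 4) (nat_lit 4) (nat_lit 5) (nat_lit 5) (nat_lit 5) (nat_lit 4) (nat_lit 337) (nat_lit 237) (nat_lit 206)) (XT.nd (nat_lit 78) (nat_lit 0) (nat_lit 0) (XT.lf (nat_lit 0) (nat_lit 40603386379) (nat_lit 76) (nat_lit 11071354205) (nat_lit 76) (nat_lit 4735891417) (nat_lit 4) (nat_lit 4) (nat_lit 5) (nat_lit 5) (nat_lit 5) (nat_lit 4) (nat_lit 338) (nat_lit 237) (nat_lit 205)) (XT.lf (nat_lit 0) (nat_lit 48496421941) (nat_lit 76) (nat_lit 8495977825) (nat_lit 76) (nat_lit 2080383989) (nat_lit 4) (nat_lit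 4) (nat_lit 5) (nat_lit 5) (nat_lit 5) (nat_lit 4) (nat_lit 339) (nat_lit 237) (nat_lit 204)))))) (XT.nd (nat_lit 390) (nat_lit 0) (nat_lit 0) (XT.nd (nat_lit 156) (nat_lit 0) (nat_lit 0) (XT.nd (nat_lit 78) (nat_lit 76) (nat_lit 0) (XT.lf (nat_lit 0) (nat_lit 641121026) (nat_lit 152) (nat_lit 5177611015) (nat_lit 76) (nat_lit 56050986065) (nat_lit 3) (nat_lit 5) (nat_lit 5) (nat_lit 5) (nat_lit 4) (nat_lit 4) (nat_lit 340) (nat_lit 237) (nat_lit 203)) (XT.lf (nat_lit 0) (nat_lit 390789993) (nat_lit 76) (nat_lit 3002078462) (nat_lit 152) (nat_lit 61413741967) (nat_lit 2) (nat_lit 5) (nat_lit 3) (nat_lit 5) (nat_lit 4) (nat_lit 4) (nat_lit 341) (nat_lit 237) (nat_lit 202))) (XT.nd (nat_lit 78) (nat_lit 0) (nat_lit 0) (XT.lf (nat_lit 0) (nat_lit 6328837328) (nat_lit 152) (nat_lit 61548275395) (nat_lit 0) (nat_lit 10922515) (nat_lit 2) (nat_lit 5) (nat_lit 4) (nat_lit 4) (nat_lit 2) (nat_lit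 4) (nat_lit 342) (nat_lit 237) (nat_lit 201)) (XT.nd (nat_lit 78) (nat_lit 0) (nat_lit 0) (XT.lf (nat_lit 0) (nat_lit 9421016632) (nat_lit 152) (nat_lit 58661745669) (nat_lit 0) (nat_lit 3040317046) (nat_lit 2) (nat_lit 5) (nat_lit 4) (nat_lit 4) (nat_lit 2) (nat_lit 4) (nat_lit 343) (nat_lit 237) (nat_lit 200)) (XT.lf (nat_lit 0) (nat_lit 12629897842) (nat_lit 152) (nat_lit 55702487703) (nat_lit 0) (nat_lit 6189403235) (nat_lit 2) (nat_lit 5) (nat_lit 4) (nat_lit 4) (nat_lit 2) (nat_lit 4) (nat_lit 344) (nat_lit 237) (nat_lit 199))))) (XT.nd (nat_lit 234) (nat_lit 0) (nat_lit 0) (XT.nd (nat_lit 78) (nat_lit 0) (nat_lit 0) (XT.lf (nat_lit 0) (nat_lit 15963121151) (nat_lit 152) (nat_lit 52663455647) (nat_lit 0) (nat_lit 9465678905) (nat_lit 2) (nat_lit 5) (nat_lit 4) (nat_lit 4) (nat_lit 2) (nat_lit 4) (nat_lit 345) (nat_lit 237) (nat_lit 198)) (XT.nd (nat_lit 78) (nat_lit 0) (nat_lit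 0) (XT.lf (nat_lit 0) (nat_lit 19428622806) (nat_lit 152) (nat_lit 49537413708) (nat_lit 0) (nat_lit 12876944712) (nat_lit 2) (nat_lit 5) (nat_lit 4) (nat_lit 4) (nat_lit 2) (nat_lit 4) (nat_lit 346) (nat_lit 237) (nat_lit 197)) (XT.lf (nat_lit 0) (nat_lit 23034654000) (nat_lit 152) (nat_lit 46316918930) (nat_lit 0) (nat_lit 16431322718) (nat_lit 2) (nat_lit 5) (nat_lit 4) (nat_lit 4) (nat_lit 2) (nat_lit 4) (nat_lit 347) (nat_lit 237) (nat_lit 196)))) (XT.nd (nat_lit 78) (nat_lit 0) (nat_lit 0) (XT.lf (nat_lit 0) (nat_lit 26789800522) (nat_lit 152) (nat_lit 42994303468) (nat_lit 0) (nat_lit 20137275728) (nat_lit 2) (nat_lit 5) (nat_lit 4) (nat_lit 4) (nat_lit 2) (nat_lit 4) (nat_lit 348) (nat_lit 237) (nat_lit 195)) (XT.nd (nat_lit 78) (nat_lit 0) (nat_lit 0) (XT.lf (nat_lit 0) (nat_lit 30703003197) (nat_lit 152) (nat_lit 39561656334) (nat_lit 0) (nat_lit 24003627440) (nat_lit 2) (nat_lit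 5) (nat_lit 4) (nat_lit 4) (nat_lit 2) (nat_lit 4) (nat_lit 349) (nat_lit 237) (nat_lit 194)) (XT.lf (nat_lit 0) (nat_lit 34783579175) (nat_lit 152) (nat_lit 36010804557) (nat_lit 0) (nat_lit 28039583452) (nat_lit 2) (nat_lit 5) (nat_lit 4) (nat_lit 4) (nat_lit 2) (nat_lit 4) (nat_lit 350) (nat_lit 237) (nat_lit 193))))))))
noncomputable def xc47 : XT := (XT.nd (nat_lit 1560) (nat_lit 0) (nat_lit 0) (XT.nd (nat_lit 780) (nat_lit 0) (nat_lit 0) (XT.nd (nat_lit 390) (nat_lit 76) (nat_lit 0) (XT.nd (nat_lit 156) (nat_lit 0) (nat_lit 0) (XT.nd (nat_lit 78) (nat_lit 0) (nat_lit 0) (XT.lf (nat_lit 0) (nat_lit 39041244112) (nat_lit 152) (nat_lit 32333293729) (nat_lit 0) (nat_lit 32254753184) (nat_lit 2) (nat_lit 5) (nat_lit 4) (nat_lit 4) (nat_lit 2) (nat_lit 4) (nat_lit 351) (nat_lit 237) (nat_lit 192)) (XT.lf (nat_lit 0) (nat_lit 43486135307) (nat_lit 152) (nat_lit 28520367871) (nat_lit 0)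 (nat_lit 36659172754) (nat_lit 2) (nat_lit 5) (nat_lit 4) (nat_lit 4) (nat_lit 2) (nat_lit 4) (nat_lit 352) (nat_lit 237) (nat_lit 191))) (XT.nd (nat_lit 78) (nat_lit 0) (nat_lit 0) (XT.lf (nat_lit 0) (nat_lit 48128835832) (nat_lit 152) (nat_lit 24562948589) (nat_lit 0) (nat_lit 41263328876) (nat_lit 2) (nat_lit 5) (nat_lit 4) (nat_lit 4) (nat_lit 2) (nat_lit 4) (nat_lit 353) (nat_lit 237) (nat_lit 190)) (XT.nd (nat_lit 78) (nat_lit 0) (nat_lit 0) (XT.lf (nat_lit 0) (nat_lit 52980399738) (nat_lit 152) (nat_lit 20451613456) (nat_lit 0) (nat_lit 46078183825) (nat_lit 2) (nat_lit 5) (nat_lit 4) (nat_lit 4) (nat_lit 2) (nat_lit 4) (nat_lit 354) (nat_lit 237) (nat_lit 189)) (XT.lf (nat_lit 0) (nat_lit 58052378367) (nat_lit 152) (nat_lit 16176573578) (nat_lit 0) (nat_lit 51115201543) (nat_lit 2) (nat_lit 5) (nat_lit 4) (nat_lit 4) (nat_lit 2) (nat_lit 4) (nat_lit 355) (nat_lit 237) (nat_lit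 188))))) (XT.nd (nat_lit 156) (nat_lit 76) (nat_lit 0) (XT.nd (nat_lit 78) (nat_lit 0) (nat_lit 0) (XT.lf (nat_lit 0) (nat_lit 63356847857) (nat_lit 152) (nat_lit 11727650289) (nat_lit 0) (nat_lit 56386374928) (nat_lit 2) (nat_lit 5) (nat_lit 4) (nat_lit 4) (nat_lit 2) (nat_lit 4) (nat_lit 356) (nat_lit 237) (nat_lit 187)) (XT.lf (nat_lit 0) (nat_lit 68906437900) (nat_lit 152) (nat_lit 7094250916) (nat_lit 0) (nat_lit 61904254394) (nat_lit 2) (nat_lit 5) (nat_lit 4) (nat_lit 4) (nat_lit 2) (nat_lit 4) (nat_lit 357) (nat_lit 237) (nat_lit 186))) (XT.nd (nat_lit 78) (nat_lit 76) (nat_lit 0) (XT.lf (nat_lit 0) (nat_lit 74714361804) (nat_lit 152) (nat_lit 2265343553) (nat_lit 0) (nat_lit 67681977749) (nat_lit 2) (nat_lit 5) (nat_lit 4) (nat_lit 4) (nat_lit 2) (nat_lit 4) (nat_lit 358) (nat_lit 237) (nat_lit 185)) (XT.nd (nat_lit 78) (nat_lit 0) (nat_lit 0) (XT.lf (nat_lit 0) (nat_lit 2862176725)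 (nat_lit 76) (nat_lit 77976957833) (nat_lit 76) (nat_lit 70915811351) (nat_lit 1) (nat_lit 4) (nat_lit 2) (nat_lit 5) (nat_lit 2) (nat_lit 4) (nat_lit 359) (nat_lit 237) (nat_lit 184)) (XT.lf (nat_lit 0) (nat_lit 8290836133) (nat_lit 76) (nat_lit 78999779814) (nat_lit 76) (nat_lit 71911240544) (nat_lit 1) (nat_lit 4) (nat_lit 2) (nat_lit 5) (nat_lit 2) (nat_lit 4) (nat_lit 360) (nat_lit 237) (nat_lit 183)))))) (XT.nd (nat_lit 390) (nat_lit 0) (nat_lit 0) (XT.nd (nat_lit 156) (nat_lit 0) (nat_lit 0) (XT.nd (nat_lit 78) (nat_lit 0) (nat_lit 0) (XT.lf (nat_lit 0) (nat_lit 13958657562) (nat_lit 76) (nat_lit 80088971280) (nat_lit 76) (nat_lit 72974343639) (nat_lit 1) (nat_lit 4) (nat_lit 2) (nat_lit 5) (nat_lit 2) (nat_lit 4) (nat_lit 361) (nat_lit 237) (nat_lit 182)) (XT.lf (nat_lit 0) (nat_lit 19879135825) (nat_lit 76) (nat_lit 81247125543) (nat_lit 76) (nat_lit 74107651836) (nat_lit 1)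 (nat_lit 4) (nat_lit 2) (nat_lit 5) (nat_lit 2) (nat_lit 4) (nat_lit 362) (nat_lit 237) (nat_lit 181))) (XT.nd (nat_lit 78) (nat_lit 0) (nat_lit 0) (XT.lf (nat_lit 0) (nat_lit 26066367297) (nat_lit 76) (nat_lit 82477000115) (nat_lit 76) (nat_lit 75313863487) (nat_lit 1) (nat_lit 4) (nat_lit 2) (nat_lit 5) (nat_lit 2) (nat_lit 4) (nat_lit 363) (nat_lit 237) (nat_lit 180)) (XT.nd (nat_lit 78) (nat_lit 0) (nat_lit 0) (XT.lf (nat_lit 0) (nat_lit 32535083483) (nat_lit 76) (nat_lit 83781523266) (nat_lit 76) (nat_lit 76595850524) (nat_lit 1) (nat_lit 4) (nat_lit 2) (nat_lit 5) (nat_lit 2) (nat_lit 4) (nat_lit 364) (nat_lit 237) (nat_lit 179)) (XT.lf (nat_lit 0) (nat_lit 39300686088) (nat_lit 76) (nat_lit 85163801006) (nat_lit 76) (nat_lit 77956665298) (nat_lit 1) (nat_lit 4) (nat_lit 2) (nat_lit 5) (nat_lit 2) (nat_lit 4) (nat_lit 365) (nat_lit 237) (nat_lit 178))))) (XT.nd (nat_lit 156) (nat_lit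 0) (nat_lit 0) (XT.nd (nat_lit 78) (nat_lit 0) (nat_lit 0) (XT.lf (nat_lit 0) (nat_lit 46379283690) (nat_lit 76) (nat_lit 86627124472) (nat_lit 76) (nat_lit 79399547843) (nat_lit 1) (nat_lit 4) (nat_lit 2) (nat_lit 5) (nat_lit 2) (nat_lit 4) (nat_lit 366) (nat_lit 237) (nat_lit 177)) (XT.lf (nat_lit 0) (nat_lit 53787730091) (nat_lit 76) (nat_lit 88174977766) (nat_lit 76) (nat_lit 80927933594) (nat_lit 1) (nat_lit 4) (nat_lit 2) (nat_lit 5) (nat_lit 2) (nat_lit 4) (nat_lit 367) (nat_lit 237) (nat_lit 176))) (XT.nd (nat_lit 78) (nat_lit 0) (nat_lit 0) (XT.lf (nat_lit 0) (nat_lit 61543664452) (nat_lit 76) (nat_lit 89811046255) (nat_lit 76) (nat_lit 82545461565) (nat_lit 1) (nat_lit 4) (nat_lit 2) (nat_lit 5) (nat_lit 2) (nat_lit 4) (nat_lit 368) (nat_lit 237) (nat_lit 175)) (XT.nd (nat_lit 78) (nat_lit 0) (nat_lit 0) (XT.lf (nat_lit 0) (nat_lit 69665553281) (nat_lit 76) (nat_lit 91539225339)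 (nat_lit 76) (nat_lit 84255983013) (nat_lit 1) (nat_lit 4) (nat_lit 2) (nat_lit 5) (nat_lit 2) (nat_lit 4) (nat_lit 369) (nat_lit 237) (nat_lit 174)) (XT.lf (nat_lit 0) (nat_lit 78172734409) (nat_lit 76) (nat_lit 93363629730) (nat_lit 76) (nat_lit 86063570609) (nat_lit 1) (nat_lit 4) (nat_lit 2) (nat_lit 5) (nat_lit 2) (nat_lit 4) (nat_lit 370) (nat_lit 237) (nat_lit 173))))))) (XT.nd (nat_lit 780) (nat_lit 0) (nat_lit 0) (XT.nd (nat_lit 390) (nat_lit 0) (nat_lit 0) (XT.nd (nat_lit 156) (nat_lit 0) (nat_lit 0) (XT.nd (nat_lit 78) (nat_lit 0) (nat_lit 0) (XT.lf (nat_lit 0) (nat_lit 87085463030) (nat_lit 76) (nat_lit 95288603248) (nat_lit 76) (nat_lit 87972528131) (nat_lit 1) (nat_lit 4) (nat_lit 2) (nat_lit 5) (nat_lit 2) (nat_lit 4) (nat_lit 371) (nat_lit 237) (nat_lit 172)) (XT.lf (nat_lit 0) (nat_lit 96424959925) (nat_lit 76) (nat_lit 97318729164) (nat_lit 76) (nat_lit 89987400718)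 (nat_lit 1) (nat_lit 4) (nat_lit 2) (nat_lit 5) (nat_lit 2) (nat_lit 4) (nat_lit 372) (nat_lit 237) (nat_lit 171))) (XT.nd (nat_lit 78) (nat_lit 0) (nat_lit 0) (XT.lf (nat_lit 0) (nat_lit 106213461993) (nat_lit 76) (nat_lit 99458841111) (nat_lit 76) (nat_lit 92112985684) (nat_lit 1) (nat_lit 4) (nat_lit 2) (nat_lit 5) (nat_lit 2) (nat_lit 4) (nat_lit 373) (nat_lit 237) (nat_lit 170)) (XT.nd (nat_lit 78) (nat_lit 0) (nat_lit 0) (XT.lf (nat_lit 0) (nat_lit 116474275191) (nat_lit 76) (nat_lit 101714034594) (nat_lit 76) (nat_lit 94354343947) (nat_lit 1) (nat_lit 4) (nat_lit 2) (nat_lit 5) (nat_lit 2) (nat_lit 4) (nat_lit 374) (nat_lit 237) (nat_lit 169)) (XT.lf (nat_lit 0) (nat_lit 127231830026) (nat_lit 76) (nat_lit 104089679119) (nat_lit 76) (nat_lit 96716812073) (nat_lit 1) (nat_lit 4) (nat_lit 2) (nat_lit 5) (nat_lit 2) (nat_lit 4) (nat_lit 375) (nat_lit 237) (nat_lit 168))))) (XT.nd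 (nat_lit 156) (nat_lit 0) (nat_lit 0) (XT.nd (nat_lit 78) (nat_lit 0) (nat_lit 0) (XT.lf (nat_lit 0) (nat_lit 138511739724) (nat_lit 76) (nat_lit 106591430985) (nat_lit 76) (nat_lit 99206014987) (nat_lit 1) (nat_lit 4) (nat_lit 2) (nat_lit 5) (nat_lit 2) (nat_lit 4) (nat_lit 376) (nat_lit 237) (nat_lit 167)) (XT.lf (nat_lit 0) (nat_lit 150340861212) (nat_lit 76) (nat_lit 109225246744) (nat_lit 76) (nat_lit 101827879363) (nat_lit 1) (nat_lit 4) (nat_lit 2) (nat_lit 5) (nat_lit 2) (nat_lit 4) (nat_lit 377) (nat_lit 237) (nat_lit 166))) (XT.nd (nat_lit 78) (nat_lit 0) (nat_lit 0) (XT.lf (nat_lit 0) (nat_lit 162747359067) (nat_lit 76) (nat_lit 111997397384) (nat_lit 76) (nat_lit 104588647734) (nat_lit 1) (nat_lit 4) (nat_lit 2) (nat_lit 5) (nat_lit 2) (nat_lit 4) (nat_lit 378) (nat_lit 237) (nat_lit 165)) (XT.nd (nat_lit 78) (nat_lit 0) (nat_lit 0) (XT.lf (nat_lit 0) (nat_lit 175760772568)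 (nat_lit 76) (nat_lit 114914483265) (nat_lit 76) (nat_lit 107494893358) (nat_lit 1) (nat_lit 4) (nat_lit 2) (nat_lit 5) (nat_lit 2) (nat_lit 4) (nat_lit 379) (nat_lit 237) (nat_lit 164)) (XT.lf (nat_lit 0) (nat_lit 189412086033) (nat_lit 76) (nat_lit 117983449830) (nat_lit 76) (nat_lit 110553535869) (nat_lit 1) (nat_lit 4) (nat_lit 2) (nat_lit 5) (nat_lit 2) (nat_lit 4) (nat_lit 380) (nat_lit 237) (nat_lit 163)))))) (XT.nd (nat_lit 390) (nat_lit 0) (nat_lit 0) (XT.nd (nat_lit 156) (nat_lit 0) (nat_lit 0) (XT.nd (nat_lit 78) (nat_lit 0) (nat_lit 0) (XT.lf (nat_lit 0) (nat_lit 203733802590) (nat_lit 76) (nat_lit 121211604141) (nat_lit 76) (nat_lit 113771857748) (nat_lit 1) (nat_lit 4) (nat_lit 2) (nat_lit 5) (nat_lit 2) (nat_lit 4) (nat_lit 381) (nat_lit 237) (nat_lit 162)) (XT.lf (nat_lit 0) (nat_lit 218760021564) (nat_lit 76) (nat_lit 124606632280) (nat_lit 76) (nat_lit 117157521666)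 (nat_lit 1) (nat_lit 4) (nat_lit 2) (nat_lit 5) (nat_lit 2) (nat_lit 4) (nat_lit 382) (nat_lit 237) (nat_lit 161))) (XT.nd (nat_lit 78) (nat_lit 0) (nat_lit 0) (XT.lf (nat_lit 0) (nat_lit 234526519666) (nat_lit 76) (nat_lit 128176617648) (nat_lit 76) (nat_lit 120718588728) (nat_lit 1) (nat_lit 4) (nat_lit 2) (nat_lit 5) (nat_lit 2) (nat_lit 4) (nat_lit 383) (nat_lit 237) (nat_lit 160)) (XT.nd (nat_lit 78) (nat_lit 0) (nat_lit 0) (XT.lf (nat_lit 0) (nat_lit 251070836178) (nat_lit 76) (nat_lit 131930060210) (nat_lit 76) (nat_lit 124463537665) (nat_lit 1) (nat_lit 4) (nat_lit 2) (nat_lit 5) (nat_lit 2) (nat_lit 4) (nat_lit 384) (nat_lit 237) (nat_lit 159)) (XT.lf (nat_lit 0) (nat_lit 268432362329) (nat_lit 76) (nat_lit 135875896733) (nat_lit 76) (nat_lit 128401285023) (nat_lit 1) (nat_lit 4) (nat_lit 2) (nat_lit 5) (nat_lit 2) (nat_lit 4) (nat_lit 385) (nat_lit 237) (nat_lit 158))))) (XT.nd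 (nat_lit 234) (nat_lit 0) (nat_lit 0) (XT.nd (nat_lit 78) (nat_lit 0) (nat_lit 0) (XT.lf (nat_lit 0) (nat_lit 286652435088) (nat_lit 76) (nat_lit 140023522068) (nat_lit 76) (nat_lit 132541206389) (nat_lit 1) (nat_lit 4) (nat_lit 2) (nat_lit 5) (nat_lit 2) (nat_lit 4) (nat_lit 386) (nat_lit 237) (nat_lit 157)) (XT.nd (nat_lit 78) (nat_lit 0) (nat_lit 0) (XT.lf (nat_lit 0) (nat_lit 305774435578) (nat_lit 76) (nat_lit 144382811511) (nat_lit 76) (nat_lit 136893158720) (nat_lit 1) (nat_lit 4) (nat_lit 2) (nat_lit 5) (nat_lit 2) (nat_lit 4) (nat_lit 387) (nat_lit 237) (nat_lit 156)) (XT.lf (nat_lit 0) (nat_lit 325843892373) (nat_lit 76) (nat_lit 148964144324) (nat_lit 76) (nat_lit 141467503807) (nat_lit 1) (nat_lit 4) (nat_lit 2) (nat_lit 5) (nat_lit 2) (nat_lit 4) (nat_lit 388) (nat_lit 237) (nat_lit 155)))) (XT.nd (nat_lit 78) (nat_lit 0) (nat_lit 0) (XT.lf (nat_lit 0) (nat_lit 346908589894)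 (nat_lit 76) (nat_lit 153778428442) (nat_lit 76) (nat_lit 146275132948) (nat_lit 1) (nat_lit 4) (nat_lit 2) (nat_lit 5) (nat_lit 2) (nat_lit 4) (nat_lit 389) (nat_lit 237) (nat_lit 154)) (XT.nd (nat_lit 78) (nat_lit 0) (nat_lit 0) (XT.lf (nat_lit 0) (nat_lit 369018682182) (nat_lit 76) (nat_lit 158837126446) (nat_lit 76) (nat_lit 151327492878) (nat_lit 1) (nat_lit 4) (nat_lit 2) (nat_lit 5) (nat_lit 2) (nat_lit 4) (nat_lit 390) (nat_lit 237) (nat_lit 153)) (XT.lf (nat_lit 0) (nat_lit 392226812315) (nat_lit 76) (nat_lit 164152282855) (nat_lit 76) (nat_lit 156636613027) (nat_lit 1) (nat_lit 4) (nat_lit 2) (nat_lit 5) (nat_lit 2) (nat_lit 4) (nat_lit 391) (nat_lit 237) (nat_lit 152))))))))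
noncomputable def xc48 : XT := (XT.nd (nat_lit 1560) (nat_lit 380) (nat_lit 0) (XT.nd (nat_lit 780) (nat_lit 304) (nat_lit 0) (XT.nd (nat_lit 390) (nat_lit 228) (nat_lit 0) (XT.nd (nat_lit 156) (nat_lit 304) (nat_lit 0) (XT.nd (nat_lit 78) (nat_lit 152) (nat_lit 0) (XT.lf (nat_lit 0) (nat_lit 6766009986) (nat_lit 152) (nat_lit 151015223) (nat_lit 152) (nat_lit 151015223) (nat_lit 20) (nat_lit 4) (nat_lit 22) (nat_lit 5) (nat_lit 22) (nat_lit 4) (nat_lit 304) (nat_lit 238) (nat_lit 238)) (XT.lf (nat_lit 0) (nat_lit 3901659931) (nat_lit 152) (nat_lit 7286727565) (nat_lit 0) (nat_lit 3414350422) (nat_lit 18) (nat_lit 5) (nat_lit 20) (nat_lit 4) (nat_lit 18) (nat_lit 4) (nat_lit 305) (nat_lit 238) (nat_lit 237))) (XT.nd (nat_lit 78) (nat_lit 152) (nat_lit 0) (XT.lf (nat_lit 0) (nat_lit 302165430) (nat_lit 152) (nat_lit 7874159744) (nat_lit 152) (nat_lit 6922745940) (nat_lit 16) (nat_lit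 4) (nat_lit 18) (nat_lit 5) (nat_lit 18) (nat_lit 4) (nat_lit 306) (nat_lit 238) (nat_lit 236)) (XT.nd (nat_lit 78) (nat_lit 152) (nat_lit 0) (XT.lf (nat_lit 0) (nat_lit 8269371662) (nat_lit 152) (nat_lit 4372763964) (nat_lit 152) (nat_lit 2979346069) (nat_lit 16) (nat_lit 4) (nat_lit 18) (nat_lit 5) (nat_lit 18) (nat_lit 4) (nat_lit 307) (nat_lit 238) (nat_lit 235)) (XT.lf (nat_lit 0) (nat_lit 206602577) (nat_lit 76) (nat_lit 779239738) (nat_lit 152) (nat_lit 15190293855) (nat_lit 14) (nat_lit 5) (nat_lit 15) (nat_lit 5) (nat_lit 16) (nat_lit 4) (nat_lit 308) (nat_lit 238) (nat_lit 234))))) (XT.nd (nat_lit 156) (nat_lit 228) (nat_lit 0) (XT.nd (nat_lit 78) (nat_lit 0) (nat_lit 0) (XT.lf (nat_lit 0) (nat_lit 5082335921) (nat_lit 152) (nat_lit 8699659465) (nat_lit 0) (nat_lit 2972540768) (nat_lit 14) (nat_lit 5) (nat_lit 16) (nat_lit 4) (nat_lit 14) (nat_lit 4) (nat_lit 309) (nat_lit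 238) (nat_lit 233)) (XT.lf (nat_lit 0) (nat_lit 9262975803) (nat_lit 152) (nat_lit 1315479500) (nat_lit 0) (nat_lit 6789542791) (nat_lit 14) (nat_lit 5) (nat_lit 16) (nat_lit 4) (nat_lit 14) (nat_lit 4) (nat_lit 310) (nat_lit 238) (nat_lit 232))) (XT.nd (nat_lit 78) (nat_lit 152) (nat_lit 0) (XT.lf (nat_lit 0) (nat_lit 6418175495) (nat_lit 76) (nat_lit 7207579960) (nat_lit 76) (nat_lit 4387825179) (nat_lit 13) (nat_lit 4) (nat_lit 14) (nat_lit 5) (nat_lit 14) (nat_lit 4) (nat_lit 311) (nat_lit 238) (nat_lit 231)) (XT.nd (nat_lit 78) (nat_lit 152) (nat_lit 0) (XT.lf (nat_lit 0) (nat_lit 14362659597) (nat_lit 76) (nat_lit 3741788518) (nat_lit 76) (nat_lit 592203479) (nat_lit 13) (nat_lit 4) (nat_lit 14) (nat_lit 5) (nat_lit 14) (nat_lit 4) (nat_lit 312) (nat_lit 238) (nat_lit 230)) (XT.lf (nat_lit 0) (nat_lit 3122398566) (nat_lit 76) (nat_lit 90336877) (nat_lit 152) (nat_lit 16202173689)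 (nat_lit 11) (nat_lit 5) (nat_lit 12) (nat_lit 5) (nat_lit 13) (nat_lit 4) (nat_lit 313) (nat_lit 238) (nat_lit 229)))))) (XT.nd (nat_lit 390) (nat_lit 152) (nat_lit 0) (XT.nd (nat_lit 156) (nat_lit 152) (nat_lit 0) (XT.nd (nat_lit 78) (nat_lit 0) (nat_lit 0) (XT.lf (nat_lit 0) (nat_lit 7201442116) (nat_lit 152) (nat_lit 9348813758) (nat_lit 0) (nat_lit 3617751773) (nat_lit 11) (nat_lit 5) (nat_lit 13) (nat_lit 4) (nat_lit 11) (nat_lit 4) (nat_lit 314) (nat_lit 238) (nat_lit 228)) (XT.lf (nat_lit 0) (nat_lit 11277133408) (nat_lit 152) (nat_lit 2265239940) (nat_lit 0) (nat_lit 7422090895) (nat_lit 11) (nat_lit 5) (nat_lit 13) (nat_lit 4) (nat_lit 11) (nat_lit 4) (nat_lit 315) (nat_lit 238) (nat_lit 227))) (XT.nd (nat_lit 78) (nat_lit 76) (nat_lit 0) (XT.lf (nat_lit 0) (nat_lit 5141032083) (nat_lit 76) (nat_lit 10387336768) (nat_lit 76) (nat_lit 6273863618) (nat_lit 10) (nat_lit 4) (nat_lit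 11) (nat_lit 5) (nat_lit 11) (nat_lit 4) (nat_lit 316) (nat_lit 238) (nat_lit 226)) (XT.nd (nat_lit 78) (nat_lit 76) (nat_lit 0) (XT.lf (nat_lit 0) (nat_lit 12803397811) (nat_lit 76) (nat_lit 7120780683) (nat_lit 76) (nat_lit 2761183117) (nat_lit 10) (nat_lit 4) (nat_lit 11) (nat_lit 5) (nat_lit 11) (nat_lit 4) (nat_lit 317) (nat_lit 238) (nat_lit 225)) (XT.lf (nat_lit 0) (nat_lit 794443373) (nat_lit 152) (nat_lit 2965392857) (nat_lit 76) (nat_lit 19857304250) (nat_lit 9) (nat_lit 5) (nat_lit 11) (nat_lit 5) (nat_lit 10) (nat_lit 4) (nat_lit 318) (nat_lit 238) (nat_lit 224))))) (XT.nd (nat_lit 156) (nat_lit 76) (nat_lit 0) (XT.nd (nat_lit 78) (nat_lit 0) (nat_lit 0) (XT.lf (nat_lit 0) (nat_lit 4208189339) (nat_lit 76) (nat_lit 194461008) (nat_lit 152) (nat_lit 20192278197) (nat_lit 8) (nat_lit 5) (nat_lit 9) (nat_lit 5) (nat_lit 10) (nat_lit 4) (nat_lit 319) (nat_lit 238) (nat_lit 223))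 (XT.lf (nat_lit 0) (nat_lit 8200312902) (nat_lit 152) (nat_lit 14010926578) (nat_lit 0) (nat_lit 3409974428) (nat_lit 8) (nat_lit 5) (nat_lit 10) (nat_lit 4) (nat_lit 8) (nat_lit 4) (nat_lit 320) (nat_lit 238) (nat_lit 222))) (XT.nd (nat_lit 78) (nat_lit 76) (nat_lit 0) (XT.lf (nat_lit 0) (nat_lit 12098273986) (nat_lit 152) (nat_lit 7489985489) (nat_lit 0) (nat_lit 7115090591) (nat_lit 8) (nat_lit 5) (nat_lit 10) (nat_lit 4) (nat_lit 8) (nat_lit 4) (nat_lit 321) (nat_lit 238) (nat_lit 221)) (XT.nd (nat_lit 78) (nat_lit 76) (nat_lit 0) (XT.lf (nat_lit 0) (nat_lit 16102778377) (nat_lit 152) (nat_lit 805353805) (nat_lit 0) (nat_lit 10935933153) (nat_lit 8) (nat_lit 5) (nat_lit 10) (nat_lit 4) (nat_lit 8) (nat_lit 4) (nat_lit 322) (nat_lit 238) (nat_lit 220)) (XT.lf (nat_lit 0) (nat_lit 6259218338) (nat_lit 76) (nat_lit 14061866211) (nat_lit 76) (nat_lit 8720104959) (nat_lit 7) (nat_lit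 4) (nat_lit 8) (nat_lit 5) (nat_lit 8) (nat_lit 4) (nat_lit 323) (nat_lit 238) (nat_lit 219))))))) (XT.nd (nat_lit 780) (nat_lit 152) (nat_lit 0) (XT.nd (nat_lit 390) (nat_lit 76) (nat_lit 0) (XT.nd (nat_lit 156) (nat_lit 152) (nat_lit 0) (XT.nd (nat_lit 78) (nat_lit 0) (nat_lit 0) (XT.lf (nat_lit 0) (nat_lit 13552847910) (nat_lit 76) (nat_lit 11128581621) (nat_lit 76) (nat_lit 5620233676) (nat_lit 7) (nat_lit 4) (nat_lit 8) (nat_lit 5) (nat_lit 8) (nat_lit 4) (nat_lit 324) (nat_lit 238) (nat_lit 218)) (XT.lf (nat_lit 0) (nat_lit 21066272059) (nat_lit 76) (nat_lit 8114933459) (nat_lit 76) (nat_lit 2447931521) (nat_lit 7) (nat_lit 4) (nat_lit 8) (nat_lit 5) (nat_lit 8) (nat_lit 4) (nat_lit 325) (nat_lit 238) (nat_lit 217))) (XT.nd (nat_lit 78) (nat_lit 76) (nat_lit 0) (XT.lf (nat_lit 0) (nat_lit 778610236) (nat_lit 152) (nat_lit 4221949995) (nat_lit 76) (nat_lit 28025583515) (nat_lit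 6) (nat_lit 5) (nat_lit 8) (nat_lit 5) (nat_lit 7) (nat_lit 4) (nat_lit 326) (nat_lit 238) (nat_lit 216)) (XT.nd (nat_lit 78) (nat_lit 0) (nat_lit 0) (XT.lf (nat_lit 0) (nat_lit 2336819272) (nat_lit 76) (nat_lit 1711387605) (nat_lit 152) (nat_lit 30444628410) (nat_lit 5) (nat_lit 5) (nat_lit 6) (nat_lit 5) (nat_lit 7) (nat_lit 4) (nat_lit 327) (nat_lit 238) (nat_lit 215)) (XT.lf (nat_lit 0) (nat_lit 7509117234) (nat_lit 152) (nat_lit 26821898892) (nat_lit 0) (nat_lit 1700492365) (nat_lit 5) (nat_lit 5) (nat_lit 7) (nat_lit 4) (nat_lit 5) (nat_lit 4) (nat_lit 328) (nat_lit 238) (nat_lit 214))))) (XT.nd (nat_lit 156) (nat_lit 76) (nat_lit 0) (XT.nd (nat_lit 78) (nat_lit 0) (nat_lit 0) (XT.lf (nat_lit 0) (nat_lit 11102518800) (nat_lit 152) (nat_lit 21377076825) (nat_lit 0) (nat_lit 5169584376) (nat_lit 5) (nat_lit 5) (nat_lit 7) (nat_lit 4) (nat_lit 5) (nat_lit 4) (nat_lit 329) (nat_lit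 238) (nat_lit 213)) (XT.lf (nat_lit 0) (nat_lit 14810247739) (nat_lit 152) (nat_lit 15781866398) (nat_lit 0) (nat_lit 8758923262) (nat_lit 5) (nat_lit 5) (nat_lit 7) (nat_lit 4) (nat_lit 5) (nat_lit 4) (nat_lit 330) (nat_lit 238) (nat_lit 212))) (XT.nd (nat_lit 78) (nat_lit 76) (nat_lit 0) (XT.lf (nat_lit 0) (nat_lit 18641131975) (nat_lit 152) (nat_lit 10022945679) (nat_lit 0) (nat_lit 12477055067) (nat_lit 5) (nat_lit 5) (nat_lit 7) (nat_lit 4) (nat_lit 5) (nat_lit 4) (nat_lit 331) (nat_lit 238) (nat_lit 211)) (XT.nd (nat_lit 78) (nat_lit 76) (nat_lit 0) (XT.lf (nat_lit 0) (nat_lit 22604292661) (nat_lit 152) (nat_lit 4086602953) (nat_lit 0) (nat_lit 16332832486) (nat_lit 5) (nat_lit 5) (nat_lit 7) (nat_lit 4) (nat_lit 5) (nat_lit 4) (nat_lit 332) (nat_lit 238) (nat_lit 210)) (XT.lf (nat_lit 0) (nat_lit 2108790390) (nat_lit 76) (nat_lit 24633299633) (nat_lit 76) (nat_lit 18259569679)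 (nat_lit 4) (nat_lit 4) (nat_lit 5) (nat_lit 5) (nat_lit 5) (nat_lit 4) (nat_lit 333) (nat_lit 238) (nat_lit 209)))))) (XT.nd (nat_lit 390) (nat_lit 152) (nat_lit 0) (XT.nd (nat_lit 156) (nat_lit 0) (nat_lit 0) (XT.nd (nat_lit 78) (nat_lit 0) (nat_lit 0) (XT.lf (nat_lit 0) (nat_lit 8652267806) (nat_lit 76) (nat_lit 22448343528) (nat_lit 76) (nat_lit 15977213784) (nat_lit 4) (nat_lit 4) (nat_lit 5) (nat_lit 5) (nat_lit 5) (nat_lit 4) (nat_lit 334) (nat_lit 238) (nat_lit 208)) (XT.lf (nat_lit 0) (nat_lit 15424287452) (nat_lit 76) (nat_lit 20200033621) (nat_lit 76) (nat_lit 13636142173) (nat_lit 4) (nat_lit 4) (nat_lit 5) (nat_lit 5) (nat_lit 5) (nat_lit 4) (nat_lit 335) (nat_lit 238) (nat_lit 207))) (XT.nd (nat_lit 78) (nat_lit 0) (nat_lit 0) (XT.lf (nat_lit 0) (nat_lit 22440973185) (nat_lit 76) (nat_lit 17883016793) (nat_lit 76) (nat_lit 11230780865) (nat_lit 4) (nat_lit 4) (nat_lit 5)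 (nat_lit 5) (nat_lit 5) (nat_lit 4) (nat_lit 336) (nat_lit 238) (nat_lit 206)) (XT.nd (nat_lit 78) (nat_lit 0) (nat_lit 0) (XT.lf (nat_lit 0) (nat_lit 29719031399) (nat_lit 76) (nat_lit 15491776338) (nat_lit 76) (nat_lit 8755402810) (nat_lit 4) (nat_lit 4) (nat_lit 5) (nat_lit 5) (nat_lit 5) (nat_lit 4) (nat_lit 337) (nat_lit 238) (nat_lit 205)) (XT.lf (nat_lit 0) (nat_lit 37275790806) (nat_lit 76) (nat_lit 13020618825) (nat_lit 76) (nat_lit 6204114250) (nat_lit 4) (nat_lit 4) (nat_lit 5) (nat_lit 5) (nat_lit 5) (nat_lit 4) (nat_lit 338) (nat_lit 238) (nat_lit 204))))) (XT.nd (nat_lit 156) (nat_lit 152) (nat_lit 0) (XT.nd (nat_lit 78) (nat_lit 0) (nat_lit 0) (XT.lf (nat_lit 0) (nat_lit 45129243687) (nat_lit 76) (nat_lit 10463660548) (nat_lit 76) (nat_lit 3570840689) (nat_lit 4) (nat_lit 4) (nat_lit 5) (nat_lit 5) (nat_lit 5) (nat_lit 4) (nat_lit 339) (nat_lit 238) (nat_lit 203)) (XT.lf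 (nat_lit 0) (nat_lit 53298088742) (nat_lit 76) (nat_lit 7814813509) (nat_lit 76) (nat_lit 849312428) (nat_lit 4) (nat_lit 4) (nat_lit 5) (nat_lit 5) (nat_lit 5) (nat_lit 4) (nat_lit 340) (nat_lit 238) (nat_lit 202))) (XT.nd (nat_lit 78) (nat_lit 76) (nat_lit 0) (XT.lf (nat_lit 0) (nat_lit 1903995666) (nat_lit 152) (nat_lit 3131530176) (nat_lit 76) (nat_lit 59865534847) (nat_lit 3) (nat_lit 5) (nat_lit 5) (nat_lit 5) (nat_lit 4) (nat_lit 4) (nat_lit 341) (nat_lit 238) (nat_lit 201)) (XT.nd (nat_lit 78) (nat_lit 0) (nat_lit 0) (XT.lf (nat_lit 0) (nat_lit 2678114086) (nat_lit 76) (nat_lit 2092012445) (nat_lit 152) (nat_lit 63215859973) (nat_lit 2) (nat_lit 5) (nat_lit 3) (nat_lit 5) (nat_lit 4) (nat_lit 4) (nat_lit 342) (nat_lit 238) (nat_lit 200)) (XT.lf (nat_lit 0) (nat_lit 7811152410) (nat_lit 152) (nat_lit 62423606489) (nat_lit 0) (nat_lit 988838051) (nat_lit 2) (nat_lit 5) (nat_lit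 4) (nat_lit 4) (nat_lit 2) (nat_lit 4) (nat_lit 343) (nat_lit 238) (nat_lit 199))))))))
noncomputable def xc49 : XT := (XT.nd (nat_lit 1560) (nat_lit 0) (nat_lit 0) (XT.nd (nat_lit 780) (nat_lit 76) (nat_lit 0) (XT.nd (nat_lit 390) (nat_lit 0) (nat_lit 0) (XT.nd (nat_lit 156) (nat_lit 0) (nat_lit 0) (XT.nd (nat_lit 78) (nat_lit 0) (nat_lit 0) (XT.lf (nat_lit 0) (nat_lit 11002422907) (nat_lit 152) (nat_lit 59497611357) (nat_lit 0) (nat_lit 4123160909) (nat_lit 2) (nat_lit 5) (nat_lit 4) (nat_lit 4) (nat_lit 2) (nat_lit 4) (nat_lit 344) (nat_lit 238) (nat_lit 198)) (XT.lf (nat_lit 0) (nat_lit 14318874109) (nat_lit 152) (nat_lit 56490258188) (nat_lit 0) (nat_lit 7385376264) (nat_lit 2) (nat_lit 5) (nat_lit 4) (nat_lit 4) (nat_lit 2) (nat_lit 4) (nat_lit 345) (nat_lit 238) (nat_lit 197))) (XT.nd (nat_lit 78) (nat_lit 0) (nat_lit 0) (XT.lf (nat_lit 0) (nat_lit 17768402328) (nat_lit 152) (nat_lit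 53394386619) (nat_lit 0) (nat_lit 10783251295) (nat_lit 2) (nat_lit 5) (nat_lit 4) (nat_lit 4) (nat_lit 2) (nat_lit 4) (nat_lit 346) (nat_lit 238) (nat_lit 196)) (XT.nd (nat_lit 78) (nat_lit 0) (nat_lit 0) (XT.lf (nat_lit 0) (nat_lit 21359220726) (nat_lit 152) (nat_lit 50202625527) (nat_lit 0) (nat_lit 14324876181) (nat_lit 2) (nat_lit 5) (nat_lit 4) (nat_lit 4) (nat_lit 2) (nat_lit 4) (nat_lit 347) (nat_lit 238) (nat_lit 195)) (XT.lf (nat_lit 0) (nat_lit 25099878871) (nat_lit 152) (nat_lit 46907375480) (nat_lit 0) (nat_lit 18018683362) (nat_lit 2) (nat_lit 5) (nat_lit 4) (nat_lit 4) (nat_lit 2) (nat_lit 4) (nat_lit 348) (nat_lit 238) (nat_lit 194))))) (XT.nd (nat_lit 156) (nat_lit 0) (nat_lit 0) (XT.nd (nat_lit 78) (nat_lit 0) (nat_lit 0) (XT.lf (nat_lit 0) (nat_lit 28999283092) (nat_lit 152) (nat_lit 43500790645) (nat_lit 0) (nat_lit 21873467617) (nat_lit 2) (nat_lit 5) (nat_lit 4)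 (nat_lit 4) (nat_lit 2) (nat_lit 4) (nat_lit 349) (nat_lit 238) (nat_lit 193)) (XT.lf (nat_lit 0) (nat_lit 33066717685) (nat_lit 152) (nat_lit 39974760106) (nat_lit 0) (nat_lit 25898407004) (nat_lit 2) (nat_lit 5) (nat_lit 4) (nat_lit 4) (nat_lit 2) (nat_lit 4) (nat_lit 350) (nat_lit 238) (nat_lit 192))) (XT.nd (nat_lit 78) (nat_lit 0) (nat_lit 0) (XT.lf (nat_lit 0) (nat_lit 37311867017) (nat_lit 152) (nat_lit 36320888552) (nat_lit 0) (nat_lit 30103084713) (nat_lit 2) (nat_lit 5) (nat_lit 4) (nat_lit 4) (nat_lit 2) (nat_lit 4) (nat_lit 351) (nat_lit 238) (nat_lit 191)) (XT.nd (nat_lit 78) (nat_lit 0) (nat_lit 0) (XT.lf (nat_lit 0) (nat_lit 41744838588) (nat_lit 152) (nat_lit 32530476288) (nat_lit 0) (nat_lit 34497511880) (nat_lit 2) (nat_lit 5) (nat_lit 4) (nat_lit 4) (nat_lit 2) (nat_lit 4) (nat_lit 352) (nat_lit 238) (nat_lit 190)) (XT.lf (nat_lit 0) (nat_lit 46376187091) (nat_lit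 152) (nat_lit 28594498525) (nat_lit 0) (nat_lit 39092151426) (nat_lit 2) (nat_lit 5) (nat_lit 4) (nat_lit 4) (nat_lit 2) (nat_lit 4) (nat_lit 353) (nat_lit 238) (nat_lit 189)))))) (XT.nd (nat_lit 390) (nat_lit 76) (nat_lit 0) (XT.nd (nat_lit 156) (nat_lit 0) (nat_lit 0) (XT.nd (nat_lit 78) (nat_lit 0) (nat_lit 0) (XT.lf (nat_lit 0) (nat_lit 51216939547) (nat_lit 152) (nat_lit 24503583885) (nat_lit 0) (nat_lit 43897942971) (nat_lit 2) (nat_lit 5) (nat_lit 4) (nat_lit 4) (nat_lit 2) (nat_lit 4) (nat_lit 354) (nat_lit 238) (nat_lit 188)) (XT.lf (nat_lit 0) (nat_lit 56278621556) (nat_lit 152) (nat_lit 20247992097) (nat_lit 0) (nat_lit 48926328876) (nat_lit 2) (nat_lit 5) (nat_lit 4) (nat_lit 4) (nat_lit 2) (nat_lit 4) (nat_lit 355) (nat_lit 238) (nat_lit 187))) (XT.nd (nat_lit 78) (nat_lit 0) (nat_lit 0) (XT.lf (nat_lit 0) (nat_lit 61573284743) (nat_lit 152) (nat_lit 15817590798) (nat_lit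 0) (nat_lit 54189281486) (nat_lit 2) (nat_lit 5) (nat_lit 4) (nat_lit 4) (nat_lit 2) (nat_lit 4) (nat_lit 356) (nat_lit 238) (nat_lit 186)) (XT.nd (nat_lit 78) (nat_lit 0) (nat_lit 0) (XT.lf (nat_lit 0) (nat_lit 67113535449) (nat_lit 152) (nat_lit 11201831415) (nat_lit 0) (nat_lit 59699331642) (nat_lit 2) (nat_lit 5) (nat_lit 4) (nat_lit 4) (nat_lit 2) (nat_lit 4) (nat_lit 357) (nat_lit 238) (nat_lit 185)) (XT.lf (nat_lit 0) (nat_lit 72912564746) (nat_lit 152) (nat_lit 6389724043) (nat_lit 0) (nat_lit 65469598512) (nat_lit 2) (nat_lit 5) (nat_lit 4) (nat_lit 4) (nat_lit 2) (nat_lit 4) (nat_lit 358) (nat_lit 238) (nat_lit 184))))) (XT.nd (nat_lit 156) (nat_lit 0) (nat_lit 0) (XT.nd (nat_lit 78) (nat_lit 76) (nat_lit 0) (XT.lf (nat_lit 0) (nat_lit 78984179847) (nat_lit 152) (nat_lit 1369811285) (nat_lit 0) (nat_lit 71513820825) (nat_lit 2) (nat_lit 5) (nat_lit 4) (nat_lit 4) (nat_lit 2)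 (nat_lit 4) (nat_lit 359) (nat_lit 238) (nat_lit 183)) (XT.lf (nat_lit 0) (nat_lit 3997814048) (nat_lit 76) (nat_lit 81407440012) (nat_lit 76) (nat_lit 73910992619) (nat_lit 1) (nat_lit 4) (nat_lit 2) (nat_lit 5) (nat_lit 2) (nat_lit 4) (nat_lit 360) (nat_lit 238) (nat_lit 182))) (XT.nd (nat_lit 78) (nat_lit 0) (nat_lit 0) (XT.lf (nat_lit 0) (nat_lit 9650643166) (nat_lit 76) (nat_lit 82503706221) (nat_lit 76) (nat_lit 74982412762) (nat_lit 1) (nat_lit 4) (nat_lit 2) (nat_lit 5) (nat_lit 2) (nat_lit 4) (nat_lit 361) (nat_lit 238) (nat_lit 181)) (XT.nd (nat_lit 78) (nat_lit 0) (nat_lit 0) (XT.lf (nat_lit 0) (nat_lit 15556843037) (nat_lit 76) (nat_lit 83668598335) (nat_lit 76) (nat_lit 76123641956) (nat_lit 1) (nat_lit 4) (nat_lit 2) (nat_lit 5) (nat_lit 2) (nat_lit 4) (nat_lit 362) (nat_lit 238) (nat_lit 180)) (XT.lf (nat_lit 0) (nat_lit 21730476041) (nat_lit 76) (nat_lit 84904889907)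 (nat_lit 76) (nat_lit 77337397413) (nat_lit 1) (nat_lit 4) (nat_lit 2) (nat_lit 5) (nat_lit 2) (nat_lit 4) (nat_lit 363) (nat_lit 238) (nat_lit 179))))))) (XT.nd (nat_lit 780) (nat_lit 0) (nat_lit 0) (XT.nd (nat_lit 390) (nat_lit 0) (nat_lit 0) (XT.nd (nat_lit 156) (nat_lit 0) (nat_lit 0) (XT.nd (nat_lit 78) (nat_lit 0) (nat_lit 0) (XT.lf (nat_lit 0) (nat_lit 28186241305) (nat_lit 76) (nat_lit 86215524489) (nat_lit 76) (nat_lit 78626569028) (nat_lit 1) (nat_lit 4) (nat_lit 2) (nat_lit 5) (nat_lit 2) (nat_lit 4) (nat_lit 364) (nat_lit 238) (nat_lit 178)) (XT.lf (nat_lit 0) (nat_lit 34939509698) (nat_lit 76) (nat_lit 87603622638) (nat_lit 76) (nat_lit 79994226257) (nat_lit 1) (nat_lit 4) (nat_lit 2) (nat_lit 5) (nat_lit 2) (nat_lit 4) (nat_lit 365) (nat_lit 238) (nat_lit 177))) (XT.nd (nat_lit 78) (nat_lit 0) (nat_lit 0) (XT.lf (nat_lit 0) (nat_lit 42006360431) (nat_lit 76) (nat_lit 89072489350)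 (nat_lit 76) (nat_lit 81443625426) (nat_lit 1) (nat_lit 4) (nat_lit 2) (nat_lit 5) (nat_lit 2) (nat_lit 4) (nat_lit 366) (nat_lit 238) (nat_lit 176)) (XT.nd (nat_lit 78) (nat_lit 0) (nat_lit 0) (XT.lf (nat_lit 0) (nat_lit 49403619340) (nat_lit 76) (nat_lit 90625621927) (nat_lit 76) (nat_lit 82978217485) (nat_lit 1) (nat_lit 4) (nat_lit 2) (nat_lit 5) (nat_lit 2) (nat_lit 4) (nat_lit 367) (nat_lit 238) (nat_lit 175)) (XT.lf (nat_lit 0) (nat_lit 57148898944) (nat_lit 76) (nat_lit 92266718304) (nat_lit 76) (nat_lit 84601656227) (nat_lit 1) (nat_lit 4) (nat_lit 2) (nat_lit 5) (nat_lit 2) (nat_lit 4) (nat_lit 368) (nat_lit 238) (nat_lit 174))))) (XT.nd (nat_lit 156) (nat_lit 0) (nat_lit 0) (XT.nd (nat_lit 78) (nat_lit 0) (nat_lit 0) (XT.lf (nat_lit 0) (nat_lit 65260640387) (nat_lit 76) (nat_lit 93999685853) (nat_lit 76) (nat_lit 86317806980) (nat_lit 1) (nat_lit 4) (nat_lit 2) (nat_lit 5)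 (nat_lit 2) (nat_lit 4) (nat_lit 369) (nat_lit 238) (nat_lit 173)) (XT.lf (nat_lit 0) (nat_lit 73758157337) (nat_lit 76) (nat_lit 95828650687) (nat_lit 76) (nat_lit 88130755818) (nat_lit 1) (nat_lit 4) (nat_lit 2) (nat_lit 5) (nat_lit 2) (nat_lit 4) (nat_lit 370) (nat_lit 238) (nat_lit 172))) (XT.nd (nat_lit 78) (nat_lit 0) (nat_lit 0) (XT.lf (nat_lit 0) (nat_lit 82661681980) (nat_lit 76) (nat_lit 97757967484) (nat_lit 76) (nat_lit 90044819286) (nat_lit 1) (nat_lit 4) (nat_lit 2) (nat_lit 5) (nat_lit 2) (nat_lit 4) (nat_lit 371) (nat_lit 238) (nat_lit 171)) (XT.nd (nat_lit 78) (nat_lit 0) (nat_lit 0) (XT.lf (nat_lit 0) (nat_lit 91992413181) (nat_lit 76) (nat_lit 99792229856) (nat_lit 76) (nat_lit 92064554677) (nat_lit 1) (nat_lit 4) (nat_lit 2) (nat_lit 5) (nat_lit 2) (nat_lit 4) (nat_lit 372) (nat_lit 238) (nat_lit 170)) (XT.lf (nat_lit 0) (nat_lit 101772566970) (nat_lit 76) (nat_lit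 101936281285) (nat_lit 76) (nat_lit 94194770887) (nat_lit 1) (nat_lit 4) (nat_lit 2) (nat_lit 5) (nat_lit 2) (nat_lit 4) (nat_lit 373) (nat_lit 238) (nat_lit 169)))))) (XT.nd (nat_lit 390) (nat_lit 0) (nat_lit 0) (XT.nd (nat_lit 156) (nat_lit 0) (nat_lit 0) (XT.nd (nat_lit 78) (nat_lit 0) (nat_lit 0) (XT.lf (nat_lit 0) (nat_lit 112025429424) (nat_lit 76) (nat_lit 104195226655) (nat_lit 76) (nat_lit 96440539857) (nat_lit 1) (nat_lit 4) (nat_lit 2) (nat_lit 5) (nat_lit 2) (nat_lit 4) (nat_lit 374) (nat_lit 238) (nat_lit 168)) (XT.lf (nat_lit 0) (nat_lit 122775412123) (nat_lit 76) (nat_lit 106574444407) (nat_lit 76) (nat_lit 98807208657) (nat_lit 1) (nat_lit 4) (nat_lit 2) (nat_lit 5) (nat_lit 2) (nat_lit 4) (nat_lit 375) (nat_lit 238) (nat_lit 167))) (XT.nd (nat_lit 78) (nat_lit 0) (nat_lit 0) (XT.lf (nat_lit 0) (nat_lit 134048110263) (nat_lit 76) (nat_lit 109079599346) (nat_lit 76) (nat_lit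 101300412213) (nat_lit 1) (nat_lit 4) (nat_lit 2) (nat_lit 5) (nat_lit 2) (nat_lit 4) (nat_lit 376) (nat_lit 238) (nat_lit 166)) (XT.nd (nat_lit 78) (nat_lit 0) (nat_lit 0) (XT.lf (nat_lit 0) (nat_lit 145870363601) (nat_lit 76) (nat_lit 111716656125) (nat_lit 76) (nat_lit 103926086723) (nat_lit 1) (nat_lit 4) (nat_lit 2) (nat_lit 5) (nat_lit 2) (nat_lit 4) (nat_lit 377) (nat_lit 238) (nat_lit 165)) (XT.lf (nat_lit 0) (nat_lit 158270320360) (nat_lit 76) (nat_lit 114491893453) (nat_lit 76) (nat_lit 106690483794) (nat_lit 1) (nat_lit 4) (nat_lit 2) (nat_lit 5) (nat_lit 2) (nat_lit 4) (nat_lit 378) (nat_lit 238) (nat_lit 164))))) (XT.nd (nat_lit 234) (nat_lit 0) (nat_lit 0) (XT.nd (nat_lit 78) (nat_lit 0) (nat_lit 0) (XT.lf (nat_lit 0) (nat_lit 171277504246) (nat_lit 76) (nat_lit 117411919036) (nat_lit 76) (nat_lit 109600185324) (nat_lit 1) (nat_lit 4) (nat_lit 2) (nat_lit 5) (nat_lit 2)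 (nat_lit 4) (nat_lit 379) (nat_lit 238) (nat_lit 163)) (XT.nd (nat_lit 78) (nat_lit 0) (nat_lit 0) (XT.lf (nat_lit 0) (nat_lit 184922884745) (nat_lit 76) (nat_lit 120483685317) (nat_lit 76) (nat_lit 112662119172) (nat_lit 1) (nat_lit 4) (nat_lit 2) (nat_lit 5) (nat_lit 2) (nat_lit 4) (nat_lit 380) (nat_lit 238) (nat_lit 162)) (XT.lf (nat_lit 0) (nat_lit 199238950857) (nat_lit 76) (nat_lit 123714506024) (nat_lit 76) (nat_lit 115883575659) (nat_lit 1) (nat_lit 4) (nat_lit 2) (nat_lit 5) (nat_lit 2) (nat_lit 4) (nat_lit 381) (nat_lit 238) (nat_lit 161)))) (XT.nd (nat_lit 78) (nat_lit 0) (nat_lit 0) (XT.lf (nat_lit 0) (nat_lit 214259788455) (nat_lit 76) (nat_lit 127112073589) (nat_lit 76) (nat_lit 119272224917) (nat_lit 1) (nat_lit 4) (nat_lit 2) (nat_lit 5) (nat_lit 2) (nat_lit 4) (nat_lit 382) (nat_lit 238) (nat_lit 160)) (XT.nd (nat_lit 78) (nat_lit 0) (nat_lit 0) (XT.lf (nat_lit 0) (nat_lit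 230021161438) (nat_lit 76) (nat_lit 130684477457) (nat_lit 76) (nat_lit 122836135161) (nat_lit 1) (nat_lit 4) (nat_lit 2) (nat_lit 5) (nat_lit 2) (nat_lit 4) (nat_lit 383) (nat_lit 238) (nat_lit 159)) (XT.lf (nat_lit 0) (nat_lit 246560596883) (nat_lit 76) (nat_lit 134440223352) (nat_lit 76) (nat_lit 126583791890) (nat_lit 1) (nat_lit 4) (nat_lit 2) (nat_lit 5) (nat_lit 2) (nat_lit 4) (nat_lit 384) (nat_lit 238) (nat_lit 158))))))))
noncomputable def xc50 : XT := (XT.nd (nat_lit 35178) (nat_lit 0) (nat_lit 228) (XT.nd (nat_lit 34398) (nat_lit 0) (nat_lit 760) (XT.nd (nat_lit 390) (nat_lit 0) (nat_lit 0) (XT.nd (nat_lit 156) (nat_lit 0) (nat_lit 0) (XT.nd (nat_lit 78) (nat_lit 0) (nat_lit 0) (XT.lf (nat_lit 0) (nat_lit 263917474400) (nat_lit 76) (nat_lit 138388253527) (nat_lit 76) (nat_lit 130524118096) (nat_lit 1) (nat_lit 4) (nat_lit 2) (nat_lit 5) (nat_lit 2) (nat_lit 4) (nat_lit 385)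 (nat_lit 238) (nat_lit 157)) (XT.lf (nat_lit 0) (nat_lit 282133119887) (nat_lit 76) (nat_lit 142537968053) (nat_lit 76) (nat_lit 134666495510) (nat_lit 1) (nat_lit 4) (nat_lit 2) (nat_lit 5) (nat_lit 2) (nat_lit 4) (nat_lit 386) (nat_lit 238) (nat_lit 156))) (XT.nd (nat_lit 78) (nat_lit 0) (nat_lit 0) (XT.lf (nat_lit 0) (nat_lit 301250903929) (nat_lit 76) (nat_lit 146899247202) (nat_lit 76) (nat_lit 139020786933) (nat_lit 1) (nat_lit 4) (nat_lit 2) (nat_lit 5) (nat_lit 2) (nat_lit 4) (nat_lit 387) (nat_lit 238) (nat_lit 155)) (XT.nd (nat_lit 78) (nat_lit 0) (nat_lit 0) (XT.lf (nat_lit 0) (nat_lit 321316345059) (nat_lit 76) (nat_lit 151482474973) (nat_lit 76) (nat_lit 143597359727) (nat_lit 1) (nat_lit 4) (nat_lit 2) (nat_lit 5) (nat_lit 2) (nat_lit 4) (nat_lit 388) (nat_lit 238) (nat_lit 154)) (XT.lf (nat_lit 0) (nat_lit 342377218136) (nat_lit 76) (nat_lit 156298563813) (nat_lit 76)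 (nat_lit 148407110494) (nat_lit 1) (nat_lit 4) (nat_lit 2) (nat_lit 5) (nat_lit 2) (nat_lit 4) (nat_lit 389) (nat_lit 238) (nat_lit 153))))) (XT.nd (nat_lit 33774) (nat_lit 0) (nat_lit 1368) (XT.nd (nat_lit 78) (nat_lit 0) (nat_lit 0) (XT.lf (nat_lit 0) (nat_lit 364483668098) (nat_lit 76) (nat_lit 161358980600) (nat_lit 76) (nat_lit 153461491020) (nat_lit 1) (nat_lit 4) (nat_lit 2) (nat_lit 5) (nat_lit 2) (nat_lit 4) (nat_lit 390) (nat_lit 238) (nat_lit 152)) (XT.lf (nat_lit 0) (nat_lit 387688329348) (nat_lit 76) (nat_lit 166675773945) (nat_lit 76) (nat_lit 158772535546) (nat_lit 1) (nat_lit 4) (nat_lit 2) (nat_lit 5) (nat_lit 2) (nat_lit 4) (nat_lit 391) (nat_lit 238) (nat_lit 151))) (XT.nd (nat_lit 78) (nat_lit 228) (nat_lit 0) (XT.lf (nat_lit 0) (nat_lit 2721716957) (nat_lit 152) (nat_lit 1187957513) (nat_lit 0) (nat_lit 2721716957) (nat_lit 22) (nat_lit 5) (nat_lit 24) (nat_lit 4)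 (nat_lit 22) (nat_lit 4) (nat_lit 302) (nat_lit 239) (nat_lit 239)) (XT.nd (nat_lit 78) (nat_lit 76) (nat_lit 0) (XT.lf (nat_lit 0) (nat_lit 5406631325) (nat_lit 152) (nat_lit 4409250973) (nat_lit 152) (nat_lit 3871992239) (nat_lit 20) (nat_lit 4) (nat_lit 22) (nat_lit 5) (nat_lit 22) (nat_lit 4) (nat_lit 303) (nat_lit 239) (nat_lit 238)) (XT.lf (nat_lit 0) (nat_lit 154175183) (nat_lit 228) (nat_lit 732874592) (nat_lit 76) (nat_lit 13252594303) (nat_lit 19) (nat_lit 5) (nat_lit 22) (nat_lit 5) (nat_lit 20) (nat_lit 4) (nat_lit 304) (nat_lit 239) (nat_lit 237)))))) (XT.nd (nat_lit 390) (nat_lit 228) (nat_lit 0) (XT.nd (nat_lit 156) (nat_lit 304) (nat_lit 0) (XT.nd (nat_lit 78) (nat_lit 0) (nat_lit 0) (XT.lf (nat_lit 0) (nat_lit 4264208728) (nat_lit 152) (nat_lit 7545003446) (nat_lit 0) (nat_lit 2801119939) (nat_lit 18) (nat_lit 5) (nat_lit 20) (nat_lit 4) (nat_lit 18) (nat_lit 4) (nat_lit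 305) (nat_lit 239) (nat_lit 236)) (XT.lf (nat_lit 0) (nat_lit 8464875864) (nat_lit 152) (nat_lit 85770425) (nat_lit 0) (nat_lit 6559782985) (nat_lit 18) (nat_lit 5) (nat_lit 20) (nat_lit 4) (nat_lit 18) (nat_lit 4) (nat_lit 306) (nat_lit 239) (nat_lit 235))) (XT.nd (nat_lit 78) (nat_lit 152) (nat_lit 0) (XT.lf (nat_lit 0) (nat_lit 7760546356) (nat_lit 152) (nat_lit 5100932029) (nat_lit 152) (nat_lit 2774882874) (nat_lit 16) (nat_lit 4) (nat_lit 18) (nat_lit 5) (nat_lit 18) (nat_lit 4) (nat_lit 307) (nat_lit 239) (nat_lit 234)) (XT.nd (nat_lit 78) (nat_lit 76) (nat_lit 0) (XT.lf (nat_lit 0) (nat_lit 1114825797) (nat_lit 228) (nat_lit 441567010) (nat_lit 76) (nat_lit 14637965432) (nat_lit 15) (nat_lit 5) (nat_lit 18) (nat_lit 5) (nat_lit 16) (nat_lit 4) (nat_lit 308) (nat_lit 239) (nat_lit 233)) (XT.lf (nat_lit 0) (nat_lit 5126848122) (nat_lit 152) (nat_lit 9484080765) (nat_lit 0) (nat_lit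 2166105601) (nat_lit 14) (nat_lit 5) (nat_lit 16) (nat_lit 4) (nat_lit 14) (nat_lit 4) (nat_lit 309) (nat_lit 239) (nat_lit 232))))) (XT.nd (nat_lit 156) (nat_lit 152) (nat_lit 0) (XT.nd (nat_lit 78) (nat_lit 76) (nat_lit 0) (XT.lf (nat_lit 0) (nat_lit 9245489014) (nat_lit 152) (nat_lit 2209732831) (nat_lit 0) (nat_lit 5938424723) (nat_lit 14) (nat_lit 5) (nat_lit 16) (nat_lit 4) (nat_lit 14) (nat_lit 4) (nat_lit 310) (nat_lit 239) (nat_lit 231)) (XT.lf (nat_lit 0) (nat_lit 5386293563) (nat_lit 76) (nat_lit 8146817879) (nat_lit 76) (nat_lit 4509923330) (nat_lit 13) (nat_lit 4) (nat_lit 14) (nat_lit 5) (nat_lit 14) (nat_lit 4) (nat_lit 311) (nat_lit 239) (nat_lit 230))) (XT.nd (nat_lit 78) (nat_lit 152) (nat_lit 0) (XT.lf (nat_lit 0) (nat_lit 13227862857) (nat_lit 76) (nat_lit 4726099544) (nat_lit 76) (nat_lit 775080941) (nat_lit 13) (nat_lit 4) (nat_lit 14) (nat_lit 5) (nat_lit 14) (nat_lit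 4) (nat_lit 312) (nat_lit 239) (nat_lit 229)) (XT.nd (nat_lit 78) (nat_lit 0) (nat_lit 0) (XT.lf (nat_lit 0) (nat_lit 1816355701) (nat_lit 76) (nat_lit 1142932138) (nat_lit 152) (nat_lit 16492018263) (nat_lit 11) (nat_lit 5) (nat_lit 12) (nat_lit 5) (nat_lit 13) (nat_lit 4) (nat_lit 313) (nat_lit 239) (nat_lit 228)) (XT.lf (nat_lit 0) (nat_lit 6875984137) (nat_lit 152) (nat_lit 10775222996) (nat_lit 0) (nat_lit 2556837330) (nat_lit 11) (nat_lit 5) (nat_lit 13) (nat_lit 4) (nat_lit 11) (nat_lit 4) (nat_lit 314) (nat_lit 239) (nat_lit 227))))))) (XT.nd (nat_lit 780) (nat_lit 228) (nat_lit 0) (XT.nd (nat_lit 390) (nat_lit 76) (nat_lit 0) (XT.nd (nat_lit 156) (nat_lit 152) (nat_lit 0) (XT.nd (nat_lit 78) (nat_lit 76) (nat_lit 0) (XT.lf (nat_lit 0) (nat_lit 10898745511) (nat_lit 152) (nat_lit 3787271430) (nat_lit 0) (nat_lit 6321168067) (nat_lit 11) (nat_lit 5) (nat_lit 13) (nat_lit 4) (nat_lit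 11) (nat_lit 4) (nat_lit 315) (nat_lit 239) (nat_lit 226)) (XT.lf (nat_lit 0) (nat_lit 3474595400) (nat_lit 76) (nat_lit 11598958363) (nat_lit 76) (nat_lit 6775256502) (nat_lit 10) (nat_lit 4) (nat_lit 11) (nat_lit 5) (nat_lit 11) (nat_lit 4) (nat_lit 316) (nat_lit 239) (nat_lit 225))) (XT.nd (nat_lit 78) (nat_lit 152) (nat_lit 0) (XT.lf (nat_lit 0) (nat_lit 11047361168) (nat_lit 76) (nat_lit 8372594336) (nat_lit 76) (nat_lit 3314488269) (nat_lit 10) (nat_lit 4) (nat_lit 11) (nat_lit 5) (nat_lit 11) (nat_lit 4) (nat_lit 317) (nat_lit 239) (nat_lit 224)) (XT.nd (nat_lit 78) (nat_lit 76) (nat_lit 0) (XT.lf (nat_lit 0) (nat_lit 210989582) (nat_lit 152) (nat_lit 4848819523) (nat_lit 76) (nat_lit 18609269175) (nat_lit 9) (nat_lit 5) (nat_lit 11) (nat_lit 5) (nat_lit 10) (nat_lit 4) (nat_lit 318) (nat_lit 239) (nat_lit 223)) (XT.lf (nat_lit 0) (nat_lit 2176943939) (nat_lit 76) (nat_lit 1564960271)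 (nat_lit 152) (nat_lit 20908856097) (nat_lit 8) (nat_lit 5) (nat_lit 9) (nat_lit 5) (nat_lit 10) (nat_lit 4) (nat_lit 319) (nat_lit 239) (nat_lit 222))))) (XT.nd (nat_lit 156) (nat_lit 76) (nat_lit 0) (XT.nd (nat_lit 78) (nat_lit 0) (nat_lit 0) (XT.lf (nat_lit 0) (nat_lit 7472914561) (nat_lit 152) (nat_lit 16159764594) (nat_lit 0) (nat_lit 2047727076) (nat_lit 8) (nat_lit 5) (nat_lit 10) (nat_lit 4) (nat_lit 8) (nat_lit 4) (nat_lit 320) (nat_lit 239) (nat_lit 221)) (XT.lf (nat_lit 0) (nat_lit 11327775768) (nat_lit 152) (nat_lit 9718021778) (nat_lit 0) (nat_lit 5718926454) (nat_lit 8) (nat_lit 5) (nat_lit 10) (nat_lit 4) (nat_lit 8) (nat_lit 4) (nat_lit 321) (nat_lit 239) (nat_lit 220))) (XT.nd (nat_lit 78) (nat_lit 76) (nat_lit 0) (XT.lf (nat_lit 0) (nat_lit 15291232658) (nat_lit 152) (nat_lit 3108817021) (nat_lit 0) (nat_lit 9507467316) (nat_lit 8) (nat_lit 5) (nat_lit 10) (nat_lit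 4) (nat_lit 8) (nat_lit 4) (nat_lit 322) (nat_lit 239) (nat_lit 219)) (XT.nd (nat_lit 78) (nat_lit 0) (nat_lit 0) (XT.lf (nat_lit 0) (nat_lit 3805381862) (nat_lit 76) (nat_lit 15626752844) (nat_lit 76) (nat_lit 9676400810) (nat_lit 7) (nat_lit 4) (nat_lit 8) (nat_lit 5) (nat_lit 8) (nat_lit 4) (nat_lit 323) (nat_lit 239) (nat_lit 218)) (XT.lf (nat_lit 0) (nat_lit 11028334897) (nat_lit 76) (nat_lit 12725810039) (nat_lit 76) (nat_lit 6616804010) (nat_lit 7) (nat_lit 4) (nat_lit 8) (nat_lit 5) (nat_lit 8) (nat_lit 4) (nat_lit 324) (nat_lit 239) (nat_lit 217)))))) (XT.nd (nat_lit 390) (nat_lit 76) (nat_lit 0) (XT.nd (nat_lit 156) (nat_lit 152) (nat_lit 0) (XT.nd (nat_lit 78) (nat_lit 0) (nat_lit 0) (XT.lf (nat_lit 0) (nat_lit 18474448059) (nat_lit 76) (nat_lit 9742963576) (nat_lit 76) (nat_lit 3482858506) (nat_lit 7) (nat_lit 4) (nat_lit 8) (nat_lit 5) (nat_lit 8) (nat_lit 4) (nat_lit 325)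 (nat_lit 239) (nat_lit 216)) (XT.lf (nat_lit 0) (nat_lit 26161450190) (nat_lit 76) (nat_lit 6671111440) (nat_lit 76) (nat_lit 267102522) (nat_lit 7) (nat_lit 4) (nat_lit 8) (nat_lit 5) (nat_lit 8) (nat_lit 4) (nat_lit 326) (nat_lit 239) (nat_lit 215))) (XT.nd (nat_lit 78) (nat_lit 76) (nat_lit 0) (XT.lf (nat_lit 0) (nat_lit 2940881674) (nat_lit 152) (nat_lit 512252770) (nat_lit 76) (nat_lit 31116956747) (nat_lit 6) (nat_lit 5) (nat_lit 8) (nat_lit 5) (nat_lit 7) (nat_lit 4) (nat_lit 327) (nat_lit 239) (nat_lit 214)) (XT.nd (nat_lit 78) (nat_lit 0) (nat_lit 0) (XT.lf (nat_lit 0) (nat_lit 6311216336) (nat_lit 76) (nat_lit 21857601) (nat_lit 152) (nat_lit 29779144378) (nat_lit 5) (nat_lit 5) (nat_lit 6) (nat_lit 5) (nat_lit 7) (nat_lit 4) (nat_lit 328) (nat_lit 239) (nat_lit 213)) (XT.lf (nat_lit 0) (nat_lit 9894259754) (nat_lit 152) (nat_lit 24415279016) (nat_lit 0) (nat_lit 3421979001)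 (nat_lit 5) (nat_lit 5) (nat_lit 7) (nat_lit 4) (nat_lit 5) (nat_lit 4) (nat_lit 329) (nat_lit 239) (nat_lit 212))))) (XT.nd (nat_lit 156) (nat_lit 76) (nat_lit 0) (XT.nd (nat_lit 78) (nat_lit 0) (nat_lit 0) (XT.lf (nat_lit 0) (nat_lit 13571632034) (nat_lit 152) (nat_lit 18876678457) (nat_lit 0) (nat_lit 6986598850) (nat_lit 5) (nat_lit 5) (nat_lit 7) (nat_lit 4) (nat_lit 5) (nat_lit 4) (nat_lit 330) (nat_lit 239) (nat_lit 211)) (XT.lf (nat_lit 0) (nat_lit 17373605167) (nat_lit 152) (nat_lit 13171671899) (nat_lit 0) (nat_lit 10681188715) (nat_lit 5) (nat_lit 5) (nat_lit 7) (nat_lit 4) (nat_lit 5) (nat_lit 4) (nat_lit 331) (nat_lit 239) (nat_lit 210))) (XT.nd (nat_lit 78) (nat_lit 76) (nat_lit 0) (XT.lf (nat_lit 0) (nat_lit 21309231470) (nat_lit 152) (nat_lit 7286675993) (nat_lit 0) (nat_lit 14514545240) (nat_lit 5) (nat_lit 5) (nat_lit 7) (nat_lit 4) (nat_lit 5) (nat_lit 4) (nat_lit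 332) (nat_lit 239) (nat_lit 209)) (XT.nd (nat_lit 78) (nat_lit 76) (nat_lit 0) (XT.lf (nat_lit 0) (nat_lit 25387881482) (nat_lit 152) (nat_lit 1207678844) (nat_lit 0) (nat_lit 18495795462) (nat_lit 5) (nat_lit 5) (nat_lit 7) (nat_lit 4) (nat_lit 5) (nat_lit 4) (nat_lit 333) (nat_lit 239) (nat_lit 208)) (XT.lf (nat_lit 0) (nat_lit 5247754259) (nat_lit 76) (nat_lit 24453444165) (nat_lit 76) (nat_lit 17468596441) (nat_lit 4) (nat_lit 4) (nat_lit 5) (nat_lit 5) (nat_lit 5) (nat_lit 4) (nat_lit 334) (nat_lit 239) (nat_lit 207))))))))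
noncomputable def xc51 : XT := (XT.nd (nat_lit 1560) (nat_lit 76) (nat_lit 0) (XT.nd (nat_lit 780) (nat_lit 0) (nat_lit 0) (XT.nd (nat_lit 390) (nat_lit 152) (nat_lit 0) (XT.nd (nat_lit 156) (nat_lit 0) (nat_lit 0) (XT.nd (nat_lit 78) (nat_lit 0) (nat_lit 0) (XT.lf (nat_lit 0) (nat_lit 11973952005) (nat_lit 76) (nat_lit 22226455514) (nat_lit 76) (nat_lit 15153263310) (nat_lit 4) (nat_lit 4) (nat_lit 5) (nat_lit 5) (nat_lit 5) (nat_lit 4) (nat_lit 335) (nat_lit 239) (nat_lit 206)) (XT.lf (nat_lit 0) (nat_lit 18946997833) (nat_lit 76) (nat_lit 19929744644) (nat_lit 76) (nat_lit 12772414840) (nat_lit 4) (nat_lit 4) (nat_lit 5) (nat_lit 5) (nat_lit 5) (nat_lit 4) (nat_lit 336) (nat_lit 239) (nat_lit 205))) (XT.nd (nat_lit 78) (nat_lit 0) (nat_lit 0) (XT.lf (nat_lit 0) (nat_lit 26183494234) (nat_lit 76) (nat_lit 17557843197) (nat_lit 76) (nat_lit 10320382345) (nat_lit 4) (nat_lit 4) (nat_lit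 5) (nat_lit 5) (nat_lit 5) (nat_lit 4) (nat_lit 337) (nat_lit 239) (nat_lit 204)) (XT.nd (nat_lit 78) (nat_lit 0) (nat_lit 0) (XT.lf (nat_lit 0) (nat_lit 33700670959) (nat_lit 76) (nat_lit 15105103787) (nat_lit 76) (nat_lit 7791327652) (nat_lit 4) (nat_lit 4) (nat_lit 5) (nat_lit 5) (nat_lit 5) (nat_lit 4) (nat_lit 338) (nat_lit 239) (nat_lit 203)) (XT.lf (nat_lit 0) (nat_lit 41516426051) (nat_lit 76) (nat_lit 12565686560) (nat_lit 76) (nat_lit 5179229202) (nat_lit 4) (nat_lit 4) (nat_lit 5) (nat_lit 5) (nat_lit 5) (nat_lit 4) (nat_lit 339) (nat_lit 239) (nat_lit 202))))) (XT.nd (nat_lit 156) (nat_lit 76) (nat_lit 0) (XT.nd (nat_lit 78) (nat_lit 76) (nat_lit 0) (XT.lf (nat_lit 0) (nat_lit 49649368448) (nat_lit 76) (nat_lit 9933545283) (nat_lit 76) (nat_lit 2477867714) (nat_lit 4) (nat_lit 4) (nat_lit 5) (nat_lit 5) (nat_lit 5) (nat_lit 4) (nat_lit 340) (nat_lit 239) (nat_lit 201)) (XT.lf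 (nat_lit 0) (nat_lit 308972596) (nat_lit 152) (nat_lit 6888207757) (nat_lit 76) (nat_lit 57804657102) (nat_lit 3) (nat_lit 5) (nat_lit 5) (nat_lit 5) (nat_lit 4) (nat_lit 4) (nat_lit 341) (nat_lit 239) (nat_lit 200))) (XT.nd (nat_lit 78) (nat_lit 76) (nat_lit 0) (XT.lf (nat_lit 0) (nat_lit 3115584192) (nat_lit 152) (nat_lit 1197438758) (nat_lit 76) (nat_lit 63776724949) (nat_lit 3) (nat_lit 5) (nat_lit 5) (nat_lit 5) (nat_lit 4) (nat_lit 4) (nat_lit 342) (nat_lit 239) (nat_lit 199)) (XT.nd (nat_lit 78) (nat_lit 0) (nat_lit 0) (XT.lf (nat_lit 0) (nat_lit 4868967267) (nat_lit 76) (nat_lit 1235007679) (nat_lit 152) (nat_lit 65226023409) (nat_lit 2) (nat_lit 5) (nat_lit 3) (nat_lit 5) (nat_lit 4) (nat_lit 4) (nat_lit 343) (nat_lit 239) (nat_lit 198)) (XT.lf (nat_lit 0) (nat_lit 9259191405) (nat_lit 152) (nat_lit 63547432914) (nat_lit 0) (nat_lit 1924782821) (nat_lit 2) (nat_lit 5) (nat_lit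 4) (nat_lit 4) (nat_lit 2) (nat_lit 4) (nat_lit 344) (nat_lit 239) (nat_lit 197)))))) (XT.nd (nat_lit 390) (nat_lit 0) (nat_lit 0) (XT.nd (nat_lit 156) (nat_lit 0) (nat_lit 0) (XT.nd (nat_lit 78) (nat_lit 0) (nat_lit 0) (XT.lf (nat_lit 0) (nat_lit 12559669172) (nat_lit 152) (nat_lit 60570250115) (nat_lit 0) (nat_lit 5173607399) (nat_lit 2) (nat_lit 5) (nat_lit 4) (nat_lit 4) (nat_lit 2) (nat_lit 4) (nat_lit 345) (nat_lit 239) (nat_lit 196)) (XT.lf (nat_lit 0) (nat_lit 15993984594) (nat_lit 152) (nat_lit 57503112231) (nat_lit 0) (nat_lit 8558729310) (nat_lit 2) (nat_lit 5) (nat_lit 4) (nat_lit 4) (nat_lit 2) (nat_lit 4) (nat_lit 346) (nat_lit 239) (nat_lit 195))) (XT.nd (nat_lit 78) (nat_lit 0) (nat_lit 0) (XT.lf (nat_lit 0) (nat_lit 19570314616) (nat_lit 152) (nat_lit 54338716553) (nat_lit 0) (nat_lit 12088208367) (nat_lit 2) (nat_lit 5) (nat_lit 4) (nat_lit 4) (nat_lit 2) (nat_lit 4)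 (nat_lit 347) (nat_lit 239) (nat_lit 194)) (XT.nd (nat_lit 78) (nat_lit 0) (nat_lit 0) (XT.lf (nat_lit 0) (nat_lit 23297174306) (nat_lit 152) (nat_lit 51069528806) (nat_lit 0) (nat_lit 15770448092) (nat_lit 2) (nat_lit 5) (nat_lit 4) (nat_lit 4) (nat_lit 2) (nat_lit 4) (nat_lit 348) (nat_lit 239) (nat_lit 193)) (XT.lf (nat_lit 0) (nat_lit 27183437142) (nat_lit 152) (nat_lit 47687765209) (nat_lit 0) (nat_lit 19614215723) (nat_lit 2) (nat_lit 5) (nat_lit 4) (nat_lit 4) (nat_lit 2) (nat_lit 4) (nat_lit 349) (nat_lit 239) (nat_lit 192))))) (XT.nd (nat_lit 156) (nat_lit 0) (nat_lit 0) (XT.nd (nat_lit 78) (nat_lit 0) (nat_lit 0) (XT.lf (nat_lit 0) (nat_lit 31238356130) (nat_lit 152) (nat_lit 44185373944) (nat_lit 0) (nat_lit 23628663086) (nat_lit 2) (nat_lit 5) (nat_lit 4) (nat_lit 4) (nat_lit 2) (nat_lit 4) (nat_lit 350) (nat_lit 239) (nat_lit 191)) (XT.lf (nat_lit 0) (nat_lit 35471585839)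 (nat_lit 152) (nat_lit 40554015984) (nat_lit 0) (nat_lit 27823348391) (nat_lit 2) (nat_lit 5) (nat_lit 4) (nat_lit 4) (nat_lit 2) (nat_lit 4) (nat_lit 351) (nat_lit 239) (nat_lit 190))) (XT.nd (nat_lit 78) (nat_lit 0) (nat_lit 0) (XT.lf (nat_lit 0) (nat_lit 39893205388) (nat_lit 152) (nat_lit 36785045240) (nat_lit 0) (nat_lit 32208258983) (nat_lit 2) (nat_lit 5) (nat_lit 4) (nat_lit 4) (nat_lit 2) (nat_lit 4) (nat_lit 352) (nat_lit 239) (nat_lit 189)) (XT.nd (nat_lit 78) (nat_lit 0) (nat_lit 0) (XT.lf (nat_lit 0) (nat_lit 44513742441) (nat_lit 152) (nat_lit 32869487970) (nat_lit 0) (nat_lit 36793835126) (nat_lit 2) (nat_lit 5) (nat_lit 4) (nat_lit 4) (nat_lit 2) (nat_lit 4) (nat_lit 353) (nat_lit 239) (nat_lit 188)) (XT.lf (nat_lit 0) (nat_lit 49344198277) (nat_lit 152) (nat_lit 28798021420) (nat_lit 0) (nat_lit 41590994857) (nat_lit 2) (nat_lit 5) (nat_lit 4) (nat_lit 4) (nat_lit 2)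 (nat_lit 4) (nat_lit 354) (nat_lit 239) (nat_lit 187))))))) (XT.nd (nat_lit 780) (nat_lit 0) (nat_lit 0) (XT.nd (nat_lit 390) (nat_lit 76) (nat_lit 0) (XT.nd (nat_lit 156) (nat_lit 0) (nat_lit 0) (XT.nd (nat_lit 78) (nat_lit 0) (nat_lit 0) (XT.lf (nat_lit 0) (nat_lit 54396073983) (nat_lit 152) (nat_lit 24560951621) (nat_lit 0) (nat_lit 46611159986) (nat_lit 2) (nat_lit 5) (nat_lit 4) (nat_lit 4) (nat_lit 2) (nat_lit 4) (nat_lit 355) (nat_lit 239) (nat_lit 186)) (XT.lf (nat_lit 0) (nat_lit 59681397833) (nat_lit 152) (nat_lit 20148190313) (nat_lit 0) (nat_lit 51866283287) (nat_lit 2) (nat_lit 5) (nat_lit 4) (nat_lit 4) (nat_lit 2) (nat_lit 4) (nat_lit 356) (nat_lit 239) (nat_lit 185))) (XT.nd (nat_lit 78) (nat_lit 0) (nat_lit 0) (XT.lf (nat_lit 0) (nat_lit 65212753932) (nat_lit 152) (nat_lit 15549230920) (nat_lit 0) (nat_lit 57368876958) (nat_lit 2) (nat_lit 5) (nat_lit 4) (nat_lit 4)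 (nat_lit 2) (nat_lit 4) (nat_lit 357) (nat_lit 239) (nat_lit 184)) (XT.nd (nat_lit 78) (nat_lit 0) (nat_lit 0) (XT.lf (nat_lit 0) (nat_lit 71003312175) (nat_lit 152) (nat_lit 10753123540) (nat_lit 0) (nat_lit 63132042413) (nat_lit 2) (nat_lit 5) (nat_lit 4) (nat_lit 4) (nat_lit 2) (nat_lit 4) (nat_lit 358) (nat_lit 239) (nat_lit 183)) (XT.lf (nat_lit 0) (nat_lit 77066859606) (nat_lit 152) (nat_lit 5748448868) (nat_lit 0) (nat_lit 69169501474) (nat_lit 2) (nat_lit 5) (nat_lit 4) (nat_lit 4) (nat_lit 2) (nat_lit 4) (nat_lit 359) (nat_lit 239) (nat_lit 182))))) (XT.nd (nat_lit 156) (nat_lit 0) (nat_lit 0) (XT.nd (nat_lit 78) (nat_lit 76) (nat_lit 0) (XT.lf (nat_lit 0) (nat_lit 83417833242) (nat_lit 152) (nat_lit 523291014) (nat_lit 0) (nat_lit 75495629044) (nat_lit 2) (nat_lit 5) (nat_lit 4) (nat_lit 4) (nat_lit 2) (nat_lit 4) (nat_lit 360) (nat_lit 239) (nat_lit 181)) (XT.lf (nat_lit 0)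 (nat_lit 5097957347) (nat_lit 76) (nat_lit 85052990503) (nat_lit 76) (nat_lit 77107123384) (nat_lit 1) (nat_lit 4) (nat_lit 2) (nat_lit 5) (nat_lit 2) (nat_lit 4) (nat_lit 361) (nat_lit 239) (nat_lit 180))) (XT.nd (nat_lit 78) (nat_lit 0) (nat_lit 0) (XT.lf (nat_lit 0) (nat_lit 10990558749) (nat_lit 76) (nat_lit 86224299619) (nat_lit 76) (nat_lit 78255896385) (nat_lit 1) (nat_lit 4) (nat_lit 2) (nat_lit 5) (nat_lit 2) (nat_lit 4) (nat_lit 362) (nat_lit 239) (nat_lit 179)) (XT.nd (nat_lit 78) (nat_lit 0) (nat_lit 0) (XT.lf (nat_lit 0) (nat_lit 17151240831) (nat_lit 76) (nat_lit 87466702620) (nat_lit 76) (nat_lit 79476836420) (nat_lit 1) (nat_lit 4) (nat_lit 2) (nat_lit 5) (nat_lit 2) (nat_lit 4) (nat_lit 363) (nat_lit 239) (nat_lit 178)) (XT.lf (nat_lit 0) (nat_lit 23594671883) (nat_lit 76) (nat_lit 88783157611) (nat_lit 76) (nat_lit 80772850490) (nat_lit 1) (nat_lit 4) (nat_lit 2) (nat_lit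 5) (nat_lit 2) (nat_lit 4) (nat_lit 364) (nat_lit 239) (nat_lit 177)))))) (XT.nd (nat_lit 390) (nat_lit 0) (nat_lit 0) (XT.nd (nat_lit 156) (nat_lit 0) (nat_lit 0) (XT.nd (nat_lit 78) (nat_lit 0) (nat_lit 0) (XT.lf (nat_lit 0) (nat_lit 30336193409) (nat_lit 76) (nat_lit 90176799006) (nat_lit 76) (nat_lit 82147024343) (nat_lit 1) (nat_lit 4) (nat_lit 2) (nat_lit 5) (nat_lit 2) (nat_lit 4) (nat_lit 365) (nat_lit 239) (nat_lit 176)) (XT.lf (nat_lit 0) (nat_lit 37391856648) (nat_lit 76) (nat_lit 91650945001) (nat_lit 76) (nat_lit 83602629820) (nat_lit 1) (nat_lit 4) (nat_lit 2) (nat_lit 5) (nat_lit 2) (nat_lit 4) (nat_lit 366) (nat_lit 239) (nat_lit 175))) (XT.nd (nat_lit 78) (nat_lit 0) (nat_lit 0) (XT.lf (nat_lit 0) (nat_lit 44778460801) (nat_lit 76) (nat_lit 93209105467) (nat_lit 76) (nat_lit 85143132650) (nat_lit 1) (nat_lit 4) (nat_lit 2) (nat_lit 5) (nat_lit 2) (nat_lit 4) (nat_lit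 367) (nat_lit 239) (nat_lit 174)) (XT.nd (nat_lit 78) (nat_lit 0) (nat_lit 0) (XT.lf (nat_lit 0) (nat_lit 52513593019) (nat_lit 76) (nat_lit 94854990308) (nat_lit 76) (nat_lit 86772200696) (nat_lit 1) (nat_lit 4) (nat_lit 2) (nat_lit 5) (nat_lit 2) (nat_lit 4) (nat_lit 368) (nat_lit 239) (nat_lit 173)) (XT.lf (nat_lit 0) (nat_lit 60615670284) (nat_lit 76) (nat_lit 96592518300) (nat_lit 76) (nat_lit 88493712692) (nat_lit 1) (nat_lit 4) (nat_lit 2) (nat_lit 5) (nat_lit 2) (nat_lit 4) (nat_lit 369) (nat_lit 239) (nat_lit 172))))) (XT.nd (nat_lit 234) (nat_lit 0) (nat_lit 0) (XT.nd (nat_lit 78) (nat_lit 0) (nat_lit 0) (XT.lf (nat_lit 0) (nat_lit 69103983256) (nat_lit 76) (nat_lit 98425826413) (nat_lit 76) (nat_lit 90311767475) (nat_lit 1) (nat_lit 4) (nat_lit 2) (nat_lit 5) (nat_lit 2) (nat_lit 4) (nat_lit 370) (nat_lit 239) (nat_lit 171)) (XT.nd (nat_lit 78) (nat_lit 0) (nat_lit 0) (XT.lf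 (nat_lit 0) (nat_lit 77998742204) (nat_lit 76) (nat_lit 100359279666) (nat_lit 76) (nat_lit 92230693748) (nat_lit 1) (nat_lit 4) (nat_lit 2) (nat_lit 5) (nat_lit 2) (nat_lit 4) (nat_lit 371) (nat_lit 239) (nat_lit 170)) (XT.lf (nat_lit 0) (nat_lit 87321125126) (nat_lit 76) (nat_lit 102397481520) (nat_lit 76) (nat_lit 94255060383) (nat_lit 1) (nat_lit 4) (nat_lit 2) (nat_lit 5) (nat_lit 2) (nat_lit 4) (nat_lit 372) (nat_lit 239) (nat_lit 169)))) (XT.nd (nat_lit 78) (nat_lit 0) (nat_lit 0) (XT.lf (nat_lit 0) (nat_lit 97093328172) (nat_lit 76) (nat_lit 104545284837) (nat_lit 76) (nat_lit 96389687299) (nat_lit 1) (nat_lit 4) (nat_lit 2) (nat_lit 5) (nat_lit 2) (nat_lit 4) (nat_lit 373) (nat_lit 239) (nat_lit 168)) (XT.nd (nat_lit 78) (nat_lit 0) (nat_lit 0) (XT.lf (nat_lit 0) (nat_lit 107338618491) (nat_lit 76) (nat_lit 106807803433) (nat_lit 76) (nat_lit 98639656944) (nat_lit 1) (nat_lit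 4) (nat_lit 2) (nat_lit 5) (nat_lit 2) (nat_lit 4) (nat_lit 374) (nat_lit 239) (nat_lit 167)) (XT.lf (nat_lit 0) (nat_lit 118081389631) (nat_lit 76) (nat_lit 109190424258) (nat_lit 76) (nat_lit 101010326385) (nat_lit 1) (nat_lit 4) (nat_lit 2) (nat_lit 5) (nat_lit 2) (nat_lit 4) (nat_lit 375) (nat_lit 239) (nat_lit 166))))))))
noncomputable def xc52 : XT := (XT.nd (nat_lit 35022) (nat_lit 0) (nat_lit 456) (XT.nd (nat_lit 780) (nat_lit 0) (nat_lit 0) (XT.nd (nat_lit 390) (nat_lit 0) (nat_lit 0) (XT.nd (nat_lit 156) (nat_lit 0) (nat_lit 0) (XT.nd (nat_lit 78) (nat_lit 0) (nat_lit 0) (XT.lf (nat_lit 0) (nat_lit 129347219621) (nat_lit 76) (nat_lit 111698820218) (nat_lit 76) (nat_lit 103507340076) (nat_lit 1) (nat_lit 4) (nat_lit 2) (nat_lit 5) (nat_lit 2) (nat_lit 4) (nat_lit 376) (nat_lit 239) (nat_lit 165)) (XT.lf (nat_lit 0) (nat_lit 141162931863) (nat_lit 76) (nat_lit 114338963685) (nat_lit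 76) (nat_lit 106136643287) (nat_lit 1) (nat_lit 4) (nat_lit 2) (nat_lit 5) (nat_lit 2) (nat_lit 4) (nat_lit 377) (nat_lit 239) (nat_lit 164))) (XT.nd (nat_lit 78) (nat_lit 0) (nat_lit 0) (XT.lf (nat_lit 0) (nat_lit 153556659007) (nat_lit 76) (nat_lit 117117140714) (nat_lit 76) (nat_lit 108904496263) (nat_lit 1) (nat_lit 4) (nat_lit 2) (nat_lit 5) (nat_lit 2) (nat_lit 4) (nat_lit 378) (nat_lit 239) (nat_lit 163)) (XT.nd (nat_lit 78) (nat_lit 0) (nat_lit 0) (XT.lf (nat_lit 0) (nat_lit 166557909926) (nat_lit 76) (nat_lit 120039966014) (nat_lit 76) (nat_lit 111817489130) (nat_lit 1) (nat_lit 4) (nat_lit 2) (nat_lit 5) (nat_lit 2) (nat_lit 4) (nat_lit 379) (nat_lit 239) (nat_lit 162)) (XT.lf (nat_lit 0) (nat_lit 180197639980) (nat_lit 76) (nat_lit 123114398691) (nat_lit 76) (nat_lit 114882557586) (nat_lit 1) (nat_lit 4) (nat_lit 2) (nat_lit 5) (nat_lit 2) (nat_lit 4) (nat_lit 380) (nat_lit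 239) (nat_lit 161))))) (XT.nd (nat_lit 156) (nat_lit 0) (nat_lit 0) (XT.nd (nat_lit 78) (nat_lit 0) (nat_lit 0) (XT.lf (nat_lit 0) (nat_lit 194508324717) (nat_lit 76) (nat_lit 126347758824) (nat_lit 76) (nat_lit 118106999413) (nat_lit 1) (nat_lit 4) (nat_lit 2) (nat_lit 5) (nat_lit 2) (nat_lit 4) (nat_lit 381) (nat_lit 239) (nat_lit 160)) (XT.lf (nat_lit 0) (nat_lit 209524037195) (nat_lit 76) (nat_lit 129747744889) (nat_lit 76) (nat_lit 121498491853) (nat_lit 1) (nat_lit 4) (nat_lit 2) (nat_lit 5) (nat_lit 2) (nat_lit 4) (nat_lit 382) (nat_lit 239) (nat_lit 159))) (XT.nd (nat_lit 78) (nat_lit 0) (nat_lit 0) (XT.lf (nat_lit 0) (nat_lit 225280529112) (nat_lit 76) (nat_lit 133322452090) (nat_lit 76) (nat_lit 125065109888) (nat_lit 1) (nat_lit 4) (nat_lit 2) (nat_lit 5) (nat_lit 2) (nat_lit 4) (nat_lit 383) (nat_lit 239) (nat_lit 158)) (XT.nd (nat_lit 78) (nat_lit 0) (nat_lit 0) (XT.lf (nat_lit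 0) (nat_lit 241815315923) (nat_lit 76) (nat_lit 137080391637) (nat_lit 76) (nat_lit 128815345467) (nat_lit 1) (nat_lit 4) (nat_lit 2) (nat_lit 5) (nat_lit 2) (nat_lit 4) (nat_lit 384) (nat_lit 239) (nat_lit 157)) (XT.lf (nat_lit 0) (nat_lit 259167766169) (nat_lit 76) (nat_lit 141030511002) (nat_lit 76) (nat_lit 132758127720) (nat_lit 1) (nat_lit 4) (nat_lit 2) (nat_lit 5) (nat_lit 2) (nat_lit 4) (nat_lit 385) (nat_lit 239) (nat_lit 156)))))) (XT.nd (nat_lit 390) (nat_lit 0) (nat_lit 0) (XT.nd (nat_lit 156) (nat_lit 0) (nat_lit 0) (XT.nd (nat_lit 78) (nat_lit 0) (nat_lit 0) (XT.lf (nat_lit 0) (nat_lit 277379195207) (nat_lit 76) (nat_lit 145182215234) (nat_lit 76) (nat_lit 136902844226) (nat_lit 1) (nat_lit 4) (nat_lit 2) (nat_lit 5) (nat_lit 2) (nat_lit 4) (nat_lit 386) (nat_lit 239) (nat_lit 155)) (XT.lf (nat_lit 0) (nat_lit 296492963583) (nat_lit 76) (nat_lit 149545389342) (nat_lit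 76) (nat_lit 141259363356) (nat_lit 1) (nat_lit 4) (nat_lit 2) (nat_lit 5) (nat_lit 2) (nat_lit 4) (nat_lit 387) (nat_lit 239) (nat_lit 154))) (XT.nd (nat_lit 78) (nat_lit 0) (nat_lit 0) (XT.lf (nat_lit 0) (nat_lit 316554580270) (nat_lit 76) (nat_lit 154130421835) (nat_lit 76) (nat_lit 145838057776) (nat_lit 1) (nat_lit 4) (nat_lit 2) (nat_lit 5) (nat_lit 2) (nat_lit 4) (nat_lit 388) (nat_lit 239) (nat_lit 153)) (XT.nd (nat_lit 78) (nat_lit 0) (nat_lit 0) (XT.lf (nat_lit 0) (nat_lit 337611811021) (nat_lit 76) (nat_lit 158948229458) (nat_lit 76) (nat_lit 150649829139) (nat_lit 1) (nat_lit 4) (nat_lit 2) (nat_lit 5) (nat_lit 2) (nat_lit 4) (nat_lit 389) (nat_lit 239) (nat_lit 152)) (XT.lf (nat_lit 0) (nat_lit 359714792099) (nat_lit 76) (nat_lit 164010283181) (nat_lit 76) (nat_lit 155706134042) (nat_lit 1) (nat_lit 4) (nat_lit 2) (nat_lit 5) (nat_lit 2) (nat_lit 4) (nat_lit 390) (nat_lit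 239) (nat_lit 151))))) (XT.nd (nat_lit 33618) (nat_lit 0) (nat_lit 1444) (XT.nd (nat_lit 33540) (nat_lit 0) (nat_lit 1748) (XT.lf (nat_lit 0) (nat_lit 382916149652) (nat_lit 76) (nat_lit 169328635513) (nat_lit 76) (nat_lit 161019011308) (nat_lit 1) (nat_lit 4) (nat_lit 2) (nat_lit 5) (nat_lit 2) (nat_lit 4) (nat_lit 391) (nat_lit 239) (nat_lit 150)) (XT.lf (nat_lit 0) (nat_lit 3954000511) (nat_lit 152) (nat_lit 1141838009) (nat_lit 152) (nat_lit 1141838009) (nat_lit 24) (nat_lit 4) (nat_lit 26) (nat_lit 5) (nat_lit 26) (nat_lit 4) (nat_lit 300) (nat_lit 240) (nat_lit 240))) (XT.nd (nat_lit 78) (nat_lit 152) (nat_lit 0) (XT.lf (nat_lit 0) (nat_lit 1779488225) (nat_lit 152) (nat_lit 9866422414) (nat_lit 0) (nat_lit 1215366554) (nat_lit 22) (nat_lit 5) (nat_lit 24) (nat_lit 4) (nat_lit 22) (nat_lit 4) (nat_lit 301) (nat_lit 240) (nat_lit 239)) (XT.nd (nat_lit 78) (nat_lit 152) (nat_lit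 0) (XT.lf (nat_lit 0) (nat_lit 5933684849) (nat_lit 152) (nat_lit 2500564964) (nat_lit 0) (nat_lit 4832304443) (nat_lit 22) (nat_lit 5) (nat_lit 24) (nat_lit 4) (nat_lit 22) (nat_lit 4) (nat_lit 302) (nat_lit 240) (nat_lit 238)) (XT.lf (nat_lit 0) (nat_lit 5155220443) (nat_lit 152) (nat_lit 5076634478) (nat_lit 152) (nat_lit 3463579088) (nat_lit 20) (nat_lit 4) (nat_lit 22) (nat_lit 5) (nat_lit 22) (nat_lit 4) (nat_lit 303) (nat_lit 240) (nat_lit 237))))))) (XT.nd (nat_lit 780) (nat_lit 304) (nat_lit 0) (XT.nd (nat_lit 390) (nat_lit 304) (nat_lit 0) (XT.nd (nat_lit 156) (nat_lit 228) (nat_lit 0) (XT.nd (nat_lit 78) (nat_lit 76) (nat_lit 0) (XT.lf (nat_lit 0) (nat_lit 479493392) (nat_lit 228) (nat_lit 1117403445) (nat_lit 76) (nat_lit 12553556310) (nat_lit 19) (nat_lit 5) (nat_lit 22) (nat_lit 5) (nat_lit 20) (nat_lit 4) (nat_lit 304) (nat_lit 240) (nat_lit 236)) (XT.lf (nat_lit 0) (nat_lit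 4502860025) (nat_lit 152) (nat_lit 8062170150) (nat_lit 0) (nat_lit 2060508411) (nat_lit 18) (nat_lit 5) (nat_lit 20) (nat_lit 4) (nat_lit 18) (nat_lit 4) (nat_lit 305) (nat_lit 240) (nat_lit 235))) (XT.nd (nat_lit 78) (nat_lit 228) (nat_lit 0) (XT.lf (nat_lit 0) (nat_lit 8637545771) (nat_lit 152) (nat_lit 717212173) (nat_lit 0) (nat_lit 5774237881) (nat_lit 18) (nat_lit 5) (nat_lit 20) (nat_lit 4) (nat_lit 18) (nat_lit 4) (nat_lit 306) (nat_lit 240) (nat_lit 234)) (XT.nd (nat_lit 78) (nat_lit 76) (nat_lit 0) (XT.lf (nat_lit 0) (nat_lit 6995794396) (nat_lit 152) (nat_lit 5963574556) (nat_lit 152) (nat_lit 2699355927) (nat_lit 16) (nat_lit 4) (nat_lit 18) (nat_lit 5) (nat_lit 18) (nat_lit 4) (nat_lit 307) (nat_lit 240) (nat_lit 233)) (XT.lf (nat_lit 0) (nat_lit 1125354486) (nat_lit 228) (nat_lit 1339061683) (nat_lit 76) (nat_lit 13755428478) (nat_lit 15) (nat_lit 5) (nat_lit 18) (nat_lit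 5) (nat_lit 16) (nat_lit 4) (nat_lit 308) (nat_lit 240) (nat_lit 232))))) (XT.nd (nat_lit 156) (nat_lit 228) (nat_lit 0) (XT.nd (nat_lit 78) (nat_lit 0) (nat_lit 0) (XT.lf (nat_lit 0) (nat_lit 5046488005) (nat_lit 152) (nat_lit 10532878795) (nat_lit 0) (nat_lit 1227748728) (nat_lit 14) (nat_lit 5) (nat_lit 16) (nat_lit 4) (nat_lit 14) (nat_lit 4) (nat_lit 309) (nat_lit 240) (nat_lit 231)) (XT.lf (nat_lit 0) (nat_lit 9106082240) (nat_lit 152) (nat_lit 3363132796) (nat_lit 0) (nat_lit 4957512706) (nat_lit 14) (nat_lit 5) (nat_lit 16) (nat_lit 4) (nat_lit 14) (nat_lit 4) (nat_lit 310) (nat_lit 240) (nat_lit 230))) (XT.nd (nat_lit 78) (nat_lit 152) (nat_lit 0) (XT.lf (nat_lit 0) (nat_lit 4091842179) (nat_lit 76) (nat_lit 9225417564) (nat_lit 76) (nat_lit 4762723975) (nat_lit 13) (nat_lit 4) (nat_lit 14) (nat_lit 5) (nat_lit 14) (nat_lit 4) (nat_lit 311) (nat_lit 240) (nat_lit 229)) (XT.nd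 (nat_lit 78) (nat_lit 152) (nat_lit 0) (XT.lf (nat_lit 0) (nat_lit 11835397371) (nat_lit 76) (nat_lit 5847625998) (nat_lit 76) (nat_lit 1085766643) (nat_lit 13) (nat_lit 4) (nat_lit 14) (nat_lit 5) (nat_lit 14) (nat_lit 4) (nat_lit 312) (nat_lit 240) (nat_lit 228)) (XT.lf (nat_lit 0) (nat_lit 243502546) (nat_lit 76) (nat_lit 2337122662) (nat_lit 152) (nat_lit 16914605464) (nat_lit 11) (nat_lit 5) (nat_lit 12) (nat_lit 5) (nat_lit 13) (nat_lit 4) (nat_lit 313) (nat_lit 240) (nat_lit 227)))))) (XT.nd (nat_lit 390) (nat_lit 228) (nat_lit 0) (XT.nd (nat_lit 156) (nat_lit 76) (nat_lit 0) (XT.nd (nat_lit 78) (nat_lit 0) (nat_lit 0) (XT.lf (nat_lit 0) (nat_lit 6425746928) (nat_lit 152) (nat_lit 12468978313) (nat_lit 0) (nat_lit 1360859974) (nat_lit 11) (nat_lit 5) (nat_lit 13) (nat_lit 4) (nat_lit 11) (nat_lit 4) (nat_lit 314) (nat_lit 240) (nat_lit 226)) (XT.lf (nat_lit 0) (nat_lit 10398098857)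 (nat_lit 152) (nat_lit 5572095559) (nat_lit 0) (nat_lit 5087087487) (nat_lit 11) (nat_lit 5) (nat_lit 13) (nat_lit 4) (nat_lit 11) (nat_lit 4) (nat_lit 315) (nat_lit 240) (nat_lit 225))) (XT.nd (nat_lit 78) (nat_lit 0) (nat_lit 0) (XT.lf (nat_lit 0) (nat_lit 1541156965) (nat_lit 76) (nat_lit 12953554756) (nat_lit 76) (nat_lit 7408139180) (nat_lit 10) (nat_lit 4) (nat_lit 11) (nat_lit 5) (nat_lit 11) (nat_lit 4) (nat_lit 316) (nat_lit 240) (nat_lit 224)) (XT.nd (nat_lit 78) (nat_lit 0) (nat_lit 0) (XT.lf (nat_lit 0) (nat_lit 9028589437) (nat_lit 76) (nat_lit 9765468880) (nat_lit 76) (nat_lit 3996811202) (nat_lit 10) (nat_lit 4) (nat_lit 11) (nat_lit 5) (nat_lit 11) (nat_lit 4) (nat_lit 317) (nat_lit 240) (nat_lit 223)) (XT.lf (nat_lit 0) (nat_lit 16723790433) (nat_lit 76) (nat_lit 6492712242) (nat_lit 76) (nat_lit 511443040) (nat_lit 10) (nat_lit 4) (nat_lit 11) (nat_lit 5) (nat_lit 11)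 (nat_lit 4) (nat_lit 318) (nat_lit 240) (nat_lit 222))))) (XT.nd (nat_lit 156) (nat_lit 76) (nat_lit 0) (XT.nd (nat_lit 78) (nat_lit 76) (nat_lit 0) (XT.lf (nat_lit 0) (nat_lit 2958444274) (nat_lit 152) (nat_lit 118945605) (nat_lit 76) (nat_lit 21636534898) (nat_lit 9) (nat_lit 5) (nat_lit 11) (nat_lit 5) (nat_lit 10) (nat_lit 4) (nat_lit 319) (nat_lit 240) (nat_lit 221)) (XT.lf (nat_lit 0) (nat_lit 6620791555) (nat_lit 152) (nat_lit 18578400971) (nat_lit 0) (nat_lit 547837946) (nat_lit 8) (nat_lit 5) (nat_lit 10) (nat_lit 4) (nat_lit 8) (nat_lit 4) (nat_lit 320) (nat_lit 240) (nat_lit 220))) (XT.nd (nat_lit 78) (nat_lit 76) (nat_lit 0) (XT.lf (nat_lit 0) (nat_lit 10434605261) (nat_lit 152) (nat_lit 12212085082) (nat_lit 0) (nat_lit 4186735624) (nat_lit 8) (nat_lit 5) (nat_lit 10) (nat_lit 4) (nat_lit 8) (nat_lit 4) (nat_lit 321) (nat_lit 240) (nat_lit 219)) (XT.nd (nat_lit 78) (nat_lit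 76) (nat_lit 0) (XT.lf (nat_lit 0) (nat_lit 14358969292) (nat_lit 152) (nat_lit 5674715493) (nat_lit 0) (nat_lit 7944512962) (nat_lit 8) (nat_lit 5) (nat_lit 10) (nat_lit 4) (nat_lit 8) (nat_lit 4) (nat_lit 322) (nat_lit 240) (nat_lit 218)) (XT.lf (nat_lit 0) (nat_lit 1083966661) (nat_lit 76) (nat_lit 17336184467) (nat_lit 76) (nat_lit 10763074144) (nat_lit 7) (nat_lit 4) (nat_lit 8) (nat_lit 5) (nat_lit 8) (nat_lit 4) (nat_lit 323) (nat_lit 240) (nat_lit 217))))))))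
noncomputable def xc53 : XT := (XT.nd (nat_lit 1560) (nat_lit 76) (nat_lit 0) (XT.nd (nat_lit 780) (nat_lit 228) (nat_lit 0) (XT.nd (nat_lit 390) (nat_lit 0) (nat_lit 0) (XT.nd (nat_lit 156) (nat_lit 152) (nat_lit 0) (XT.nd (nat_lit 78) (nat_lit 0) (nat_lit 0) (XT.lf (nat_lit 0) (nat_lit 8239608709) (nat_lit 76) (nat_lit 14466043360) (nat_lit 76) (nat_lit 7741833996) (nat_lit 7) (nat_lit 4) (nat_lit 8) (nat_lit 5) (nat_lit 8) (nat_lit 4) (nat_lit 324) (nat_lit 240) (nat_lit 216)) (XT.lf (nat_lit 0) (nat_lit 15621616169) (nat_lit 76) (nat_lit 11512531849) (nat_lit 76) (nat_lit 4644418636) (nat_lit 7) (nat_lit 4) (nat_lit 8) (nat_lit 5) (nat_lit 8) (nat_lit 4) (nat_lit 325) (nat_lit 240) (nat_lit 215))) (XT.nd (nat_lit 78) (nat_lit 152) (nat_lit 0) (XT.lf (nat_lit 0) (nat_lit 23247565250) (nat_lit 76) (nat_lit 8468617762) (nat_lit 76) (nat_lit 1463453265) (nat_lit 7) (nat_lit 4) (nat_lit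 8) (nat_lit 5) (nat_lit 8) (nat_lit 4) (nat_lit 326) (nat_lit 240) (nat_lit 214)) (XT.nd (nat_lit 78) (nat_lit 76) (nat_lit 0) (XT.lf (nat_lit 0) (nat_lit 1750748201) (nat_lit 152) (nat_lit 3546655717) (nat_lit 76) (nat_lit 29355215005) (nat_lit 6) (nat_lit 5) (nat_lit 8) (nat_lit 5) (nat_lit 7) (nat_lit 4) (nat_lit 327) (nat_lit 240) (nat_lit 213)) (XT.lf (nat_lit 0) (nat_lit 3118213284) (nat_lit 76) (nat_lit 1944329335) (nat_lit 152) (nat_lit 31136240478) (nat_lit 5) (nat_lit 5) (nat_lit 6) (nat_lit 5) (nat_lit 7) (nat_lit 4) (nat_lit 328) (nat_lit 240) (nat_lit 212))))) (XT.nd (nat_lit 156) (nat_lit 0) (nat_lit 0) (XT.nd (nat_lit 78) (nat_lit 0) (nat_lit 0) (XT.lf (nat_lit 0) (nat_lit 8563356607) (nat_lit 152) (nat_lit 27721441547) (nat_lit 0) (nat_lit 1536319332) (nat_lit 5) (nat_lit 5) (nat_lit 7) (nat_lit 4) (nat_lit 5) (nat_lit 4) (nat_lit 329) (nat_lit 240) (nat_lit 211)) (XT.lf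 (nat_lit 0) (nat_lit 12211817784) (nat_lit 152) (nat_lit 22236755149) (nat_lit 0) (nat_lit 5077397241) (nat_lit 5) (nat_lit 5) (nat_lit 7) (nat_lit 4) (nat_lit 5) (nat_lit 4) (nat_lit 330) (nat_lit 240) (nat_lit 210))) (XT.nd (nat_lit 78) (nat_lit 0) (nat_lit 0) (XT.lf (nat_lit 0) (nat_lit 15986256533) (nat_lit 152) (nat_lit 16583095410) (nat_lit 0) (nat_lit 8749566212) (nat_lit 5) (nat_lit 5) (nat_lit 7) (nat_lit 4) (nat_lit 5) (nat_lit 4) (nat_lit 331) (nat_lit 240) (nat_lit 209)) (XT.nd (nat_lit 78) (nat_lit 0) (nat_lit 0) (XT.lf (nat_lit 0) (nat_lit 19895659613) (nat_lit 152) (nat_lit 10747001237) (nat_lit 0) (nat_lit 12561569503) (nat_lit 5) (nat_lit 5) (nat_lit 7) (nat_lit 4) (nat_lit 5) (nat_lit 4) (nat_lit 332) (nat_lit 240) (nat_lit 208)) (XT.lf (nat_lit 0) (nat_lit 23949335127) (nat_lit 152) (nat_lit 4714577167) (nat_lit 0) (nat_lit 16522483313) (nat_lit 5) (nat_lit 5) (nat_lit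 7) (nat_lit 4) (nat_lit 5) (nat_lit 4) (nat_lit 333) (nat_lit 240) (nat_lit 207)))))) (XT.nd (nat_lit 390) (nat_lit 152) (nat_lit 0) (XT.nd (nat_lit 156) (nat_lit 0) (nat_lit 0) (XT.nd (nat_lit 78) (nat_lit 0) (nat_lit 0) (XT.lf (nat_lit 0) (nat_lit 1579080140) (nat_lit 76) (nat_lit 26602508409) (nat_lit 76) (nat_lit 19087312115) (nat_lit 4) (nat_lit 4) (nat_lit 5) (nat_lit 5) (nat_lit 5) (nat_lit 4) (nat_lit 334) (nat_lit 240) (nat_lit 206)) (XT.lf (nat_lit 0) (nat_lit 8261637981) (nat_lit 76) (nat_lit 24395825716) (nat_lit 76) (nat_lit 16796491822) (nat_lit 4) (nat_lit 4) (nat_lit 5) (nat_lit 5) (nat_lit 5) (nat_lit 4) (nat_lit 335) (nat_lit 240) (nat_lit 205))) (XT.nd (nat_lit 78) (nat_lit 0) (nat_lit 0) (XT.lf (nat_lit 0) (nat_lit 15193121995) (nat_lit 76) (nat_lit 22118453854) (nat_lit 76) (nat_lit 14438988912) (nat_lit 4) (nat_lit 4) (nat_lit 5) (nat_lit 5) (nat_lit 5) (nat_lit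 4) (nat_lit 336) (nat_lit 240) (nat_lit 204)) (XT.nd (nat_lit 78) (nat_lit 0) (nat_lit 0) (XT.lf (nat_lit 0) (nat_lit 22390035715) (nat_lit 76) (nat_lit 19764970509) (nat_lit 76) (nat_lit 12009190284) (nat_lit 4) (nat_lit 4) (nat_lit 5) (nat_lit 5) (nat_lit 5) (nat_lit 4) (nat_lit 337) (nat_lit 240) (nat_lit 203)) (XT.lf (nat_lit 0) (nat_lit 29869514650) (nat_lit 76) (nat_lit 17329772150) (nat_lit 76) (nat_lit 9501310702) (nat_lit 4) (nat_lit 4) (nat_lit 5) (nat_lit 5) (nat_lit 5) (nat_lit 4) (nat_lit 338) (nat_lit 240) (nat_lit 202))))) (XT.nd (nat_lit 156) (nat_lit 152) (nat_lit 0) (XT.nd (nat_lit 78) (nat_lit 0) (nat_lit 0) (XT.lf (nat_lit 0) (nat_lit 37649367083) (nat_lit 76) (nat_lit 14807060684) (nat_lit 76) (nat_lit 6909379025) (nat_lit 4) (nat_lit 4) (nat_lit 5) (nat_lit 5) (nat_lit 5) (nat_lit 4) (nat_lit 339) (nat_lit 240) (nat_lit 201)) (XT.lf (nat_lit 0) (nat_lit 45748116473)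 (nat_lit 76) (nat_lit 12190829657) (nat_lit 76) (nat_lit 4227223986) (nat_lit 4) (nat_lit 4) (nat_lit 5) (nat_lit 5) (nat_lit 5) (nat_lit 4) (nat_lit 340) (nat_lit 240) (nat_lit 200))) (XT.nd (nat_lit 78) (nat_lit 152) (nat_lit 0) (XT.lf (nat_lit 0) (nat_lit 54185045556) (nat_lit 76) (nat_lit 9474849946) (nat_lit 76) (nat_lit 1448459503) (nat_lit 4) (nat_lit 4) (nat_lit 5) (nat_lit 5) (nat_lit 5) (nat_lit 4) (nat_lit 341) (nat_lit 240) (nat_lit 199)) (XT.nd (nat_lit 78) (nat_lit 76) (nat_lit 0) (XT.lf (nat_lit 0) (nat_lit 1387648600) (nat_lit 152) (nat_lit 5241505833) (nat_lit 76) (nat_lit 61569093157) (nat_lit 3) (nat_lit 5) (nat_lit 5) (nat_lit 5) (nat_lit 4) (nat_lit 4) (nat_lit 342) (nat_lit 240) (nat_lit 198)) (XT.lf (nat_lit 0) (nat_lit 660114530) (nat_lit 76) (nat_lit 3634152608) (nat_lit 152) (nat_lit 67148327379) (nat_lit 2) (nat_lit 5) (nat_lit 3) (nat_lit 5) (nat_lit 4) (nat_lit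 4) (nat_lit 343) (nat_lit 240) (nat_lit 197))))))) (XT.nd (nat_lit 780) (nat_lit 76) (nat_lit 0) (XT.nd (nat_lit 390) (nat_lit 0) (nat_lit 0) (XT.nd (nat_lit 156) (nat_lit 0) (nat_lit 0) (XT.nd (nat_lit 78) (nat_lit 0) (nat_lit 0) (XT.lf (nat_lit 0) (nat_lit 6978127627) (nat_lit 76) (nat_lit 424553630) (nat_lit 152) (nat_lit 67443669648) (nat_lit 2) (nat_lit 5) (nat_lit 3) (nat_lit 5) (nat_lit 4) (nat_lit 4) (nat_lit 344) (nat_lit 240) (nat_lit 196)) (XT.lf (nat_lit 0) (nat_lit 10681317756) (nat_lit 152) (nat_lit 64913145693) (nat_lit 0) (nat_lit 2825106195) (nat_lit 2) (nat_lit 5) (nat_lit 4) (nat_lit 4) (nat_lit 2) (nat_lit 4) (nat_lit 345) (nat_lit 240) (nat_lit 195))) (XT.nd (nat_lit 78) (nat_lit 0) (nat_lit 0) (XT.lf (nat_lit 0) (nat_lit 14101144802) (nat_lit 152) (nat_lit 61873373224) (nat_lit 0) (nat_lit 6198082276) (nat_lit 2) (nat_lit 5) (nat_lit 4) (nat_lit 4) (nat_lit 2) (nat_lit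 4) (nat_lit 346) (nat_lit 240) (nat_lit 194)) (XT.nd (nat_lit 78) (nat_lit 0) (nat_lit 0) (XT.lf (nat_lit 0) (nat_lit 17663676368) (nat_lit 152) (nat_lit 58735039846) (nat_lit 0) (nat_lit 9715993878) (nat_lit 2) (nat_lit 5) (nat_lit 4) (nat_lit 4) (nat_lit 2) (nat_lit 4) (nat_lit 347) (nat_lit 240) (nat_lit 193)) (XT.lf (nat_lit 0) (nat_lit 21377394674) (nat_lit 152) (nat_lit 55490673336) (nat_lit 0) (nat_lit 13387216978) (nat_lit 2) (nat_lit 5) (nat_lit 4) (nat_lit 4) (nat_lit 2) (nat_lit 4) (nat_lit 348) (nat_lit 240) (nat_lit 192))))) (XT.nd (nat_lit 156) (nat_lit 0) (nat_lit 0) (XT.nd (nat_lit 78) (nat_lit 0) (nat_lit 0) (XT.lf (nat_lit 0) (nat_lit 25251141905) (nat_lit 152) (nat_lit 52132549013) (nat_lit 0) (nat_lit 17220492585) (nat_lit 2) (nat_lit 5) (nat_lit 4) (nat_lit 4) (nat_lit 2) (nat_lit 4) (nat_lit 349) (nat_lit 240) (nat_lit 191)) (XT.lf (nat_lit 0) (nat_lit 29294141270)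 (nat_lit 152) (nat_lit 48652671343) (nat_lit 0) (nat_lit 21224947545) (nat_lit 2) (nat_lit 5) (nat_lit 4) (nat_lit 4) (nat_lit 2) (nat_lit 4) (nat_lit 350) (nat_lit 240) (nat_lit 190))) (XT.nd (nat_lit 78) (nat_lit 0) (nat_lit 0) (XT.lf (nat_lit 0) (nat_lit 33516018956) (nat_lit 152) (nat_lit 45042754902) (nat_lit 0) (nat_lit 25410116275) (nat_lit 2) (nat_lit 5) (nat_lit 4) (nat_lit 4) (nat_lit 2) (nat_lit 4) (nat_lit 351) (nat_lit 240) (nat_lit 189)) (XT.nd (nat_lit 78) (nat_lit 0) (nat_lit 0) (XT.lf (nat_lit 0) (nat_lit 37926827054) (nat_lit 152) (nat_lit 41294204651) (nat_lit 0) (nat_lit 29785963463) (nat_lit 2) (nat_lit 5) (nat_lit 4) (nat_lit 4) (nat_lit 2) (nat_lit 4) (nat_lit 352) (nat_lit 240) (nat_lit 188)) (XT.lf (nat_lit 0) (nat_lit 42537067488) (nat_lit 152) (nat_lit 37398095470) (nat_lit 0) (nat_lit 34362907792) (nat_lit 2) (nat_lit 5) (nat_lit 4) (nat_lit 4) (nat_lit 2)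 (nat_lit 4) (nat_lit 353) (nat_lit 240) (nat_lit 187)))))) (XT.nd (nat_lit 390) (nat_lit 76) (nat_lit 0) (XT.nd (nat_lit 156) (nat_lit 0) (nat_lit 0) (XT.nd (nat_lit 78) (nat_lit 0) (nat_lit 0) (XT.lf (nat_lit 0) (nat_lit 47357717021) (nat_lit 152) (nat_lit 33345150910) (nat_lit 0) (nat_lit 39151846748) (nat_lit 2) (nat_lit 5) (nat_lit 4) (nat_lit 4) (nat_lit 2) (nat_lit 4) (nat_lit 354) (nat_lit 240) (nat_lit 186)) (XT.lf (nat_lit 0) (nat_lit 52400253390) (nat_lit 152) (nat_lit 29125721101) (nat_lit 0) (nat_lit 44164182567) (nat_lit 2) (nat_lit 5) (nat_lit 4) (nat_lit 4) (nat_lit 2) (nat_lit 4) (nat_lit 355) (nat_lit 240) (nat_lit 185))) (XT.nd (nat_lit 78) (nat_lit 0) (nat_lit 0) (XT.lf (nat_lit 0) (nat_lit 57676682633) (nat_lit 152) (nat_lit 24729759784) (nat_lit 0) (nat_lit 49411849383) (nat_lit 2) (nat_lit 5) (nat_lit 4) (nat_lit 4) (nat_lit 2) (nat_lit 4) (nat_lit 356) (nat_lit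 240) (nat_lit 184)) (XT.nd (nat_lit 78) (nat_lit 0) (nat_lit 0) (XT.lf (nat_lit 0) (nat_lit 63199567678) (nat_lit 152) (nat_lit 20146800382) (nat_lit 0) (nat_lit 54907341640) (nat_lit 2) (nat_lit 5) (nat_lit 4) (nat_lit 4) (nat_lit 2) (nat_lit 4) (nat_lit 357) (nat_lit 240) (nat_lit 183)) (XT.lf (nat_lit 0) (nat_lit 68982058251) (nat_lit 152) (nat_lit 15365931089) (nat_lit 0) (nat_lit 60663743842) (nat_lit 2) (nat_lit 5) (nat_lit 4) (nat_lit 4) (nat_lit 2) (nat_lit 4) (nat_lit 358) (nat_lit 240) (nat_lit 182))))) (XT.nd (nat_lit 234) (nat_lit 0) (nat_lit 0) (XT.nd (nat_lit 78) (nat_lit 76) (nat_lit 0) (XT.lf (nat_lit 0) (nat_lit 75037922186) (nat_lit 152) (nat_lit 10375768881) (nat_lit 0) (nat_lit 66694761711) (nat_lit 2) (nat_lit 5) (nat_lit 4) (nat_lit 4) (nat_lit 2) (nat_lit 4) (nat_lit 359) (nat_lit 240) (nat_lit 181)) (XT.nd (nat_lit 78) (nat_lit 76) (nat_lit 0) (XT.lf (nat_lit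 0) (nat_lit 81381578207) (nat_lit 152) (nat_lit 5164432421) (nat_lit 0) (nat_lit 73014754812) (nat_lit 2) (nat_lit 5) (nat_lit 4) (nat_lit 4) (nat_lit 2) (nat_lit 4) (nat_lit 360) (nat_lit 240) (nat_lit 180)) (XT.lf (nat_lit 0) (nat_lit 289760377) (nat_lit 76) (nat_lit 87742893852) (nat_lit 76) (nat_lit 79353534342) (nat_lit 1) (nat_lit 4) (nat_lit 2) (nat_lit 5) (nat_lit 2) (nat_lit 4) (nat_lit 361) (nat_lit 240) (nat_lit 179)))) (XT.nd (nat_lit 78) (nat_lit 0) (nat_lit 0) (XT.lf (nat_lit 0) (nat_lit 6169410857) (nat_lit 76) (nat_lit 88920314397) (nat_lit 76) (nat_lit 80509491920) (nat_lit 1) (nat_lit 4) (nat_lit 2) (nat_lit 5) (nat_lit 2) (nat_lit 4) (nat_lit 362) (nat_lit 240) (nat_lit 178)) (XT.nd (nat_lit 78) (nat_lit 0) (nat_lit 0) (XT.lf (nat_lit 0) (nat_lit 12317758727) (nat_lit 76) (nat_lit 90168537808) (nat_lit 76) (nat_lit 81737274411) (nat_lit 1) (nat_lit 4) (nat_lit 2) (nat_lit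 5) (nat_lit 2) (nat_lit 4) (nat_lit 363) (nat_lit 240) (nat_lit 177)) (XT.lf (nat_lit 0) (nat_lit 18749442911) (nat_lit 76) (nat_lit 91490536045) (nat_lit 76) (nat_lit 83039805105) (nat_lit 1) (nat_lit 4) (nat_lit 2) (nat_lit 5) (nat_lit 2) (nat_lit 4) (nat_lit 364) (nat_lit 240) (nat_lit 176))))))))
noncomputable def xc54 : XT := (XT.nd (nat_lit 1560) (nat_lit 0) (nat_lit 0) (XT.nd (nat_lit 780) (nat_lit 0) (nat_lit 0) (XT.nd (nat_lit 390) (nat_lit 0) (nat_lit 0) (XT.nd (nat_lit 156) (nat_lit 0) (nat_lit 0) (XT.nd (nat_lit 78) (nat_lit 0) (nat_lit 0) (XT.lf (nat_lit 0) (nat_lit 25479776943) (nat_lit 76) (nat_lit 92889456723) (nat_lit 76) (nat_lit 84420185266) (nat_lit 1) (nat_lit 4) (nat_lit 2) (nat_lit 5) (nat_lit 2) (nat_lit 4) (nat_lit 365) (nat_lit 240) (nat_lit 175)) (XT.lf (nat_lit 0) (nat_lit 32524785427) (nat_lit 76) (nat_lit 94368630606) (nat_lit 76) (nat_lit 85881701513) (nat_lit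 1) (nat_lit 4) (nat_lit 2) (nat_lit 5) (nat_lit 2) (nat_lit 4) (nat_lit 366) (nat_lit 240) (nat_lit 174))) (XT.nd (nat_lit 78) (nat_lit 0) (nat_lit 0) (XT.lf (nat_lit 0) (nat_lit 39901242193) (nat_lit 76) (nat_lit 95931579536) (nat_lit 76) (nat_lit 87427833648) (nat_lit 1) (nat_lit 4) (nat_lit 2) (nat_lit 5) (nat_lit 2) (nat_lit 4) (nat_lit 367) (nat_lit 240) (nat_lit 173)) (XT.nd (nat_lit 78) (nat_lit 0) (nat_lit 0) (XT.lf (nat_lit 0) (nat_lit 47626710234) (nat_lit 76) (nat_lit 97582024821) (nat_lit 76) (nat_lit 89062262936) (nat_lit 1) (nat_lit 4) (nat_lit 2) (nat_lit 5) (nat_lit 2) (nat_lit 4) (nat_lit 368) (nat_lit 240) (nat_lit 172)) (XT.lf (nat_lit 0) (nat_lit 55719583520) (nat_lit 76) (nat_lit 99323896091) (nat_lit 76) (nat_lit 90788880877) (nat_lit 1) (nat_lit 4) (nat_lit 2) (nat_lit 5) (nat_lit 2) (nat_lit 4) (nat_lit 369) (nat_lit 240) (nat_lit 171))))) (XT.nd (nat_lit 156)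 (nat_lit 0) (nat_lit 0) (XT.nd (nat_lit 78) (nat_lit 0) (nat_lit 0) (XT.lf (nat_lit 0) (nat_lit 64199130798) (nat_lit 76) (nat_lit 101161340660) (nat_lit 76) (nat_lit 92611798466) (nat_lit 1) (nat_lit 4) (nat_lit 2) (nat_lit 5) (nat_lit 2) (nat_lit 4) (nat_lit 370) (nat_lit 240) (nat_lit 170)) (XT.lf (nat_lit 0) (nat_lit 73085541467) (nat_lit 76) (nat_lit 103098733396) (nat_lit 76) (nat_lit 94535355981) (nat_lit 1) (nat_lit 4) (nat_lit 2) (nat_lit 5) (nat_lit 2) (nat_lit 4) (nat_lit 371) (nat_lit 240) (nat_lit 169))) (XT.nd (nat_lit 78) (nat_lit 0) (nat_lit 0) (XT.lf (nat_lit 0) (nat_lit 82399973646) (nat_lit 76) (nat_lit 105140687137) (nat_lit 76) (nat_lit 96564133324) (nat_lit 1) (nat_lit 4) (nat_lit 2) (nat_lit 5) (nat_lit 2) (nat_lit 4) (nat_lit 372) (nat_lit 240) (nat_lit 168)) (XT.nd (nat_lit 78) (nat_lit 0) (nat_lit 0) (XT.lf (nat_lit 0) (nat_lit 92164604555) (nat_lit 76) (nat_lit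 107292063680) (nat_lit 76) (nat_lit 98702960914) (nat_lit 1) (nat_lit 4) (nat_lit 2) (nat_lit 5) (nat_lit 2) (nat_lit 4) (nat_lit 373) (nat_lit 240) (nat_lit 167)) (XT.lf (nat_lit 0) (nat_lit 102402683316) (nat_lit 76) (nat_lit 109557985349) (nat_lit 76) (nat_lit 100956931200) (nat_lit 1) (nat_lit 4) (nat_lit 2) (nat_lit 5) (nat_lit 2) (nat_lit 4) (nat_lit 374) (nat_lit 240) (nat_lit 166)))))) (XT.nd (nat_lit 390) (nat_lit 0) (nat_lit 0) (XT.nd (nat_lit 156) (nat_lit 0) (nat_lit 0) (XT.nd (nat_lit 78) (nat_lit 0) (nat_lit 0) (XT.lf (nat_lit 0) (nat_lit 113138586306) (nat_lit 76) (nat_lit 111943847195) (nat_lit 76) (nat_lit 103331410777) (nat_lit 1) (nat_lit 4) (nat_lit 2) (nat_lit 5) (nat_lit 2) (nat_lit 4) (nat_lit 375) (nat_lit 240) (nat_lit 165)) (XT.lf (nat_lit 0) (nat_lit 124397875200) (nat_lit 76) (nat_lit 114455329842) (nat_lit 76) (nat_lit 105832053168) (nat_lit 1) (nat_lit 4)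 (nat_lit 2) (nat_lit 5) (nat_lit 2) (nat_lit 4) (nat_lit 376) (nat_lit 240) (nat_lit 164))) (XT.nd (nat_lit 78) (nat_lit 0) (nat_lit 0) (XT.lf (nat_lit 0) (nat_lit 136207357827) (nat_lit 76) (nat_lit 117098413012) (nat_lit 76) (nat_lit 108464812283) (nat_lit 1) (nat_lit 4) (nat_lit 2) (nat_lit 5) (nat_lit 2) (nat_lit 4) (nat_lit 377) (nat_lit 240) (nat_lit 163)) (XT.nd (nat_lit 78) (nat_lit 0) (nat_lit 0) (XT.lf (nat_lit 0) (nat_lit 148595152005) (nat_lit 76) (nat_lit 119879389757) (nat_lit 76) (nat_lit 111235956597) (nat_lit 1) (nat_lit 4) (nat_lit 2) (nat_lit 5) (nat_lit 2) (nat_lit 4) (nat_lit 378) (nat_lit 240) (nat_lit 162)) (XT.lf (nat_lit 0) (nat_lit 161590752479) (nat_lit 76) (nat_lit 122804881453) (nat_lit 76) (nat_lit 114152084072) (nat_lit 1) (nat_lit 4) (nat_lit 2) (nat_lit 5) (nat_lit 2) (nat_lit 4) (nat_lit 379) (nat_lit 240) (nat_lit 161))))) (XT.nd (nat_lit 156) (nat_lit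 0) (nat_lit 0) (XT.nd (nat_lit 78) (nat_lit 0) (nat_lit 0) (XT.lf (nat_lit 0) (nat_lit 175225101158) (nat_lit 76) (nat_lit 125881853556) (nat_lit 76) (nat_lit 117220137868) (nat_lit 1) (nat_lit 4) (nat_lit 2) (nat_lit 5) (nat_lit 2) (nat_lit 4) (nat_lit 380) (nat_lit 240) (nat_lit 160)) (XT.lf (nat_lit 0) (nat_lit 189530660775) (nat_lit 76) (nat_lit 129117632189) (nat_lit 76) (nat_lit 120447422877) (nat_lit 1) (nat_lit 4) (nat_lit 2) (nat_lit 5) (nat_lit 2) (nat_lit 4) (nat_lit 381) (nat_lit 240) (nat_lit 159))) (XT.nd (nat_lit 78) (nat_lit 0) (nat_lit 0) (XT.lf (nat_lit 0) (nat_lit 204541492187) (nat_lit 76) (nat_lit 132519921587) (nat_lit 76) (nat_lit 123841623109) (nat_lit 1) (nat_lit 4) (nat_lit 2) (nat_lit 5) (nat_lit 2) (nat_lit 4) (nat_lit 382) (nat_lit 240) (nat_lit 158)) (XT.nd (nat_lit 78) (nat_lit 0) (nat_lit 0) (XT.lf (nat_lit 0) (nat_lit 220293335469) (nat_lit 76) (nat_lit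 136096822440) (nat_lit 76) (nat_lit 127410819993) (nat_lit 1) (nat_lit 4) (nat_lit 2) (nat_lit 5) (nat_lit 2) (nat_lit 4) (nat_lit 383) (nat_lit 240) (nat_lit 157)) (XT.lf (nat_lit 0) (nat_lit 236823695008) (nat_lit 76) (nat_lit 139856851177) (nat_lit 76) (nat_lit 131163511619) (nat_lit 1) (nat_lit 4) (nat_lit 2) (nat_lit 5) (nat_lit 2) (nat_lit 4) (nat_lit 384) (nat_lit 240) (nat_lit 156))))))) (XT.nd (nat_lit 34086) (nat_lit 0) (nat_lit 912) (XT.nd (nat_lit 390) (nat_lit 0) (nat_lit 0) (XT.nd (nat_lit 156) (nat_lit 0) (nat_lit 0) (XT.nd (nat_lit 78) (nat_lit 0) (nat_lit 0) (XT.lf (nat_lit 0) (nat_lit 254171928806) (nat_lit 76) (nat_lit 143808960249) (nat_lit 76) (nat_lit 135108632965) (nat_lit 1) (nat_lit 4) (nat_lit 2) (nat_lit 5) (nat_lit 2) (nat_lit 4) (nat_lit 385) (nat_lit 240) (nat_lit 155)) (XT.lf (nat_lit 0) (nat_lit 272379342179) (nat_lit 76) (nat_lit 147962559439) (nat_lit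 76) (nat_lit 139255577178) (nat_lit 1) (nat_lit 4) (nat_lit 2) (nat_lit 5) (nat_lit 2) (nat_lit 4) (nat_lit 386) (nat_lit 240) (nat_lit 154))) (XT.nd (nat_lit 78) (nat_lit 0) (nat_lit 0) (XT.lf (nat_lit 0) (nat_lit 291489286112) (nat_lit 76) (nat_lit 152327538269) (nat_lit 76) (nat_lit 143614217934) (nat_lit 1) (nat_lit 4) (nat_lit 2) (nat_lit 5) (nat_lit 2) (nat_lit 4) (nat_lit 387) (nat_lit 240) (nat_lit 153)) (XT.nd (nat_lit 78) (nat_lit 0) (nat_lit 0) (XT.lf (nat_lit 0) (nat_lit 311547260472) (nat_lit 76) (nat_lit 156914289545) (nat_lit 76) (nat_lit 148194932949) (nat_lit 1) (nat_lit 4) (nat_lit 2) (nat_lit 5) (nat_lit 2) (nat_lit 4) (nat_lit 388) (nat_lit 240) (nat_lit 152)) (XT.lf (nat_lit 0) (nat_lit 332601022340) (nat_lit 76) (nat_lit 161733734104) (nat_lit 76) (nat_lit 153008628689) (nat_lit 1) (nat_lit 4) (nat_lit 2) (nat_lit 5) (nat_lit 2) (nat_lit 4) (nat_lit 389) (nat_lit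 240) (nat_lit 151))))) (XT.nd (nat_lit 33462) (nat_lit 0) (nat_lit 1748) (XT.nd (nat_lit 78) (nat_lit 0) (nat_lit 0) (XT.lf (nat_lit 0) (nat_lit 354700699721) (nat_lit 76) (nat_lit 166797346814) (nat_lit 76) (nat_lit 158066766333) (nat_lit 1) (nat_lit 4) (nat_lit 2) (nat_lit 5) (nat_lit 2) (nat_lit 4) (nat_lit 390) (nat_lit 240) (nat_lit 150)) (XT.lf (nat_lit 0) (nat_lit 377898910894) (nat_lit 76) (nat_lit 172117183895) (nat_lit 76) (nat_lit 163381389065) (nat_lit 1) (nat_lit 4) (nat_lit 2) (nat_lit 5) (nat_lit 2) (nat_lit 4) (nat_lit 391) (nat_lit 240) (nat_lit 149))) (XT.nd (nat_lit 78) (nat_lit 152) (nat_lit 0) (XT.lf (nat_lit 0) (nat_lit 1156182843) (nat_lit 228) (nat_lit 3568300053) (nat_lit 0) (nat_lit 1156182843) (nat_lit 26) (nat_lit 5) (nat_lit 29) (nat_lit 4) (nat_lit 26) (nat_lit 4) (nat_lit 298) (nat_lit 241) (nat_lit 241)) (XT.nd (nat_lit 78) (nat_lit 0) (nat_lit 0) (XT.lf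 (nat_lit 0) (nat_lit 143402549) (nat_lit 152) (nat_lit 6294599104) (nat_lit 152) (nat_lit 5672654962) (nat_lit 24) (nat_lit 4) (nat_lit 26) (nat_lit 5) (nat_lit 26) (nat_lit 4) (nat_lit 299) (nat_lit 241) (nat_lit 240)) (XT.lf (nat_lit 0) (nat_lit 7786885826) (nat_lit 152) (nat_lit 2953249631) (nat_lit 152) (nat_lit 1738977734) (nat_lit 24) (nat_lit 4) (nat_lit 26) (nat_lit 5) (nat_lit 26) (nat_lit 4) (nat_lit 300) (nat_lit 241) (nat_lit 239)))))) (XT.nd (nat_lit 390) (nat_lit 380) (nat_lit 0) (XT.nd (nat_lit 156) (nat_lit 304) (nat_lit 0) (XT.nd (nat_lit 78) (nat_lit 0) (nat_lit 0) (XT.lf (nat_lit 0) (nat_lit 2220380969) (nat_lit 152) (nat_lit 10121954786) (nat_lit 0) (nat_lit 526672809) (nat_lit 22) (nat_lit 5) (nat_lit 24) (nat_lit 4) (nat_lit 22) (nat_lit 4) (nat_lit 301) (nat_lit 241) (nat_lit 238)) (XT.lf (nat_lit 0) (nat_lit 6304224509) (nat_lit 152) (nat_lit 2874811562) (nat_lit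 0) (nat_lit 4098841365) (nat_lit 22) (nat_lit 5) (nat_lit 24) (nat_lit 4) (nat_lit 22) (nat_lit 4) (nat_lit 302) (nat_lit 241) (nat_lit 237))) (XT.nd (nat_lit 78) (nat_lit 152) (nat_lit 0) (XT.lf (nat_lit 0) (nat_lit 4651800081) (nat_lit 152) (nat_lit 5875731763) (nat_lit 152) (nat_lit 3183039109) (nat_lit 20) (nat_lit 4) (nat_lit 22) (nat_lit 5) (nat_lit 22) (nat_lit 4) (nat_lit 303) (nat_lit 241) (nat_lit 236)) (XT.nd (nat_lit 78) (nat_lit 76) (nat_lit 0) (XT.lf (nat_lit 0) (nat_lit 684365606) (nat_lit 228) (nat_lit 1753847454) (nat_lit 76) (nat_lit 11730556522) (nat_lit 19) (nat_lit 5) (nat_lit 22) (nat_lit 5) (nat_lit 20) (nat_lit 4) (nat_lit 304) (nat_lit 241) (nat_lit 235)) (XT.lf (nat_lit 0) (nat_lit 4618182037) (nat_lit 152) (nat_lit 8839459027) (nat_lit 0) (nat_lit 1190752476) (nat_lit 18) (nat_lit 5) (nat_lit 20) (nat_lit 4) (nat_lit 18) (nat_lit 4) (nat_lit 305) (nat_lit 241)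 (nat_lit 234))))) (XT.nd (nat_lit 234) (nat_lit 152) (nat_lit 0) (XT.nd (nat_lit 78) (nat_lit 228) (nat_lit 0) (XT.lf (nat_lit 0) (nat_lit 8690028365) (nat_lit 152) (nat_lit 1603334424) (nat_lit 0) (nat_lit 4861688064) (nat_lit 18) (nat_lit 5) (nat_lit 20) (nat_lit 4) (nat_lit 18) (nat_lit 4) (nat_lit 306) (nat_lit 241) (nat_lit 233)) (XT.nd (nat_lit 78) (nat_lit 76) (nat_lit 0) (XT.lf (nat_lit 0) (nat_lit 5973294944) (nat_lit 152) (nat_lit 6962745455) (nat_lit 152) (nat_lit 2752585403) (nat_lit 16) (nat_lit 4) (nat_lit 18) (nat_lit 5) (nat_lit 18) (nat_lit 4) (nat_lit 307) (nat_lit 241) (nat_lit 232)) (XT.lf (nat_lit 0) (nat_lit 1014227806) (nat_lit 228) (nat_lit 2494630907) (nat_lit 76) (nat_lit 12743958645) (nat_lit 15) (nat_lit 5) (nat_lit 18) (nat_lit 5) (nat_lit 16) (nat_lit 4) (nat_lit 308) (nat_lit 241) (nat_lit 231)))) (XT.nd (nat_lit 78) (nat_lit 76) (nat_lit 0) (XT.lf (nat_lit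 0) (nat_lit 4841064235) (nat_lit 152) (nat_lit 11848550693) (nat_lit 0) (nat_lit 155235967) (nat_lit 14) (nat_lit 5) (nat_lit 16) (nat_lit 4) (nat_lit 14) (nat_lit 4) (nat_lit 309) (nat_lit 241) (nat_lit 230)) (XT.nd (nat_lit 78) (nat_lit 76) (nat_lit 0) (XT.lf (nat_lit 0) (nat_lit 8844423559) (nat_lit 152) (nat_lit 4778425585) (nat_lit 0) (nat_lit 3844471236) (nat_lit 14) (nat_lit 5) (nat_lit 16) (nat_lit 4) (nat_lit 14) (nat_lit 4) (nat_lit 310) (nat_lit 241) (nat_lit 229)) (XT.lf (nat_lit 0) (nat_lit 2531739317) (nat_lit 76) (nat_lit 10445947109) (nat_lit 76) (nat_lit 5146829020) (nat_lit 13) (nat_lit 4) (nat_lit 14) (nat_lit 5) (nat_lit 14) (nat_lit 4) (nat_lit 311) (nat_lit 241) (nat_lit 228))))))))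
noncomputable def xc55 : XT := (XT.nd (nat_lit 1560) (nat_lit 228) (nat_lit 0) (XT.nd (nat_lit 780) (nat_lit 228) (nat_lit 0) (XT.nd (nat_lit 390) (nat_lit 228) (nat_lit 0) (XT.nd (nat_lit 156) (nat_lit 76) (nat_lit 0) (XT.nd (nat_lit 78) (nat_lit 76) (nat_lit 0) (XT.lf (nat_lit 0) (nat_lit 10181947745) (nat_lit 76) (nat_lit 7109038180) (nat_lit 76) (nat_lit 1525000313) (nat_lit 13) (nat_lit 4) (nat_lit 14) (nat_lit 5) (nat_lit 14) (nat_lit 4) (nat_lit 312) (nat_lit 241) (nat_lit 227)) (XT.lf (nat_lit 0) (nat_lit 2100824987) (nat_lit 152) (nat_lit 1548698810) (nat_lit 76) (nat_lit 15896014676) (nat_lit 12) (nat_lit 5) (nat_lit 14) (nat_lit 5) (nat_lit 13) (nat_lit 4) (nat_lit 313) (nat_lit 241) (nat_lit 226))) (XT.nd (nat_lit 78) (nat_lit 0) (nat_lit 0) (XT.lf (nat_lit 0) (nat_lit 5849658497) (nat_lit 152) (nat_lit 14434112460) (nat_lit 0) (nat_lit 26972141) (nat_lit 11) (nat_lit 5)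 (nat_lit 13) (nat_lit 4) (nat_lit 11) (nat_lit 4) (nat_lit 314) (nat_lit 241) (nat_lit 225)) (XT.nd (nat_lit 78) (nat_lit 0) (nat_lit 0) (XT.lf (nat_lit 0) (nat_lit 9774001431) (nat_lit 152) (nat_lit 7623961908) (nat_lit 0) (nat_lit 3716910869) (nat_lit 11) (nat_lit 5) (nat_lit 13) (nat_lit 4) (nat_lit 11) (nat_lit 4) (nat_lit 315) (nat_lit 241) (nat_lit 224)) (XT.lf (nat_lit 0) (nat_lit 13800829663) (nat_lit 152) (nat_lit 642638127) (nat_lit 0) (nat_lit 7520497000) (nat_lit 11) (nat_lit 5) (nat_lit 13) (nat_lit 4) (nat_lit 11) (nat_lit 4) (nat_lit 316) (nat_lit 241) (nat_lit 223))))) (XT.nd (nat_lit 156) (nat_lit 152) (nat_lit 0) (XT.nd (nat_lit 78) (nat_lit 0) (nat_lit 0) (XT.lf (nat_lit 0) (nat_lit 6742276020) (nat_lit 76) (nat_lit 11302720684) (nat_lit 76) (nat_lit 4809776496) (nat_lit 10) (nat_lit 4) (nat_lit 11) (nat_lit 5) (nat_lit 11) (nat_lit 4) (nat_lit 317) (nat_lit 241) (nat_lit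 222)) (XT.lf (nat_lit 0) (nat_lit 14360077201) (nat_lit 76) (nat_lit 8064683457) (nat_lit 76) (nat_lit 1369252103) (nat_lit 10) (nat_lit 4) (nat_lit 11) (nat_lit 5) (nat_lit 11) (nat_lit 4) (nat_lit 318) (nat_lit 241) (nat_lit 221))) (XT.nd (nat_lit 78) (nat_lit 76) (nat_lit 0) (XT.lf (nat_lit 0) (nat_lit 2086749040) (nat_lit 152) (nat_lit 2610440740) (nat_lit 76) (nat_lit 20085565373) (nat_lit 9) (nat_lit 5) (nat_lit 11) (nat_lit 5) (nat_lit 10) (nat_lit 4) (nat_lit 319) (nat_lit 241) (nat_lit 220)) (XT.nd (nat_lit 78) (nat_lit 0) (nat_lit 0) (XT.lf (nat_lit 0) (nat_lit 4530135940) (nat_lit 76) (nat_lit 1129412373) (nat_lit 152) (nat_lit 20160815285) (nat_lit 8) (nat_lit 5) (nat_lit 9) (nat_lit 5) (nat_lit 10) (nat_lit 4) (nat_lit 320) (nat_lit 241) (nat_lit 219)) (XT.lf (nat_lit 0) (nat_lit 9416635868) (nat_lit 152) (nat_lit 14978113646) (nat_lit 0) (nat_lit 2514870029) (nat_lit 8)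 (nat_lit 5) (nat_lit 10) (nat_lit 4) (nat_lit 8) (nat_lit 4) (nat_lit 321) (nat_lit 241) (nat_lit 218)))))) (XT.nd (nat_lit 390) (nat_lit 152) (nat_lit 0) (XT.nd (nat_lit 156) (nat_lit 76) (nat_lit 0) (XT.nd (nat_lit 78) (nat_lit 0) (nat_lit 0) (XT.lf (nat_lit 0) (nat_lit 13303768605) (nat_lit 152) (nat_lit 8509158504) (nat_lit 0) (nat_lit 6243348773) (nat_lit 8) (nat_lit 5) (nat_lit 10) (nat_lit 4) (nat_lit 8) (nat_lit 4) (nat_lit 322) (nat_lit 241) (nat_lit 217)) (XT.lf (nat_lit 0) (nat_lit 17312568310) (nat_lit 152) (nat_lit 1850326666) (nat_lit 0) (nat_lit 10101049436) (nat_lit 8) (nat_lit 5) (nat_lit 10) (nat_lit 4) (nat_lit 8) (nat_lit 4) (nat_lit 323) (nat_lit 241) (nat_lit 216))) (XT.nd (nat_lit 78) (nat_lit 0) (nat_lit 0) (XT.lf (nat_lit 0) (nat_lit 5180029522) (nat_lit 76) (nat_lit 16353424999) (nat_lit 76) (nat_lit 8998002276) (nat_lit 7) (nat_lit 4) (nat_lit 8) (nat_lit 5)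 (nat_lit 8) (nat_lit 4) (nat_lit 324) (nat_lit 241) (nat_lit 215)) (XT.nd (nat_lit 78) (nat_lit 0) (nat_lit 0) (XT.lf (nat_lit 0) (nat_lit 12500983933) (nat_lit 76) (nat_lit 13427851536) (nat_lit 76) (nat_lit 5935377529) (nat_lit 7) (nat_lit 4) (nat_lit 8) (nat_lit 5) (nat_lit 8) (nat_lit 4) (nat_lit 325) (nat_lit 241) (nat_lit 214)) (XT.lf (nat_lit 0) (nat_lit 20068787252) (nat_lit 76) (nat_lit 10410545115) (nat_lit 76) (nat_lit 2787546075) (nat_lit 7) (nat_lit 4) (nat_lit 8) (nat_lit 5) (nat_lit 8) (nat_lit 4) (nat_lit 326) (nat_lit 241) (nat_lit 213))))) (XT.nd (nat_lit 156) (nat_lit 76) (nat_lit 0) (XT.nd (nat_lit 78) (nat_lit 0) (nat_lit 0) (XT.lf (nat_lit 0) (nat_lit 438488510) (nat_lit 152) (nat_lit 6848407147) (nat_lit 76) (nat_lit 27455543534) (nat_lit 6) (nat_lit 5) (nat_lit 8) (nat_lit 5) (nat_lit 7) (nat_lit 4) (nat_lit 327) (nat_lit 241) (nat_lit 212)) (XT.lf (nat_lit 0)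 (nat_lit 3672507338) (nat_lit 152) (nat_lit 337058603) (nat_lit 76) (nat_lit 32282942545) (nat_lit 6) (nat_lit 5) (nat_lit 8) (nat_lit 5) (nat_lit 7) (nat_lit 4) (nat_lit 328) (nat_lit 241) (nat_lit 211))) (XT.nd (nat_lit 78) (nat_lit 0) (nat_lit 0) (XT.lf (nat_lit 0) (nat_lit 6606425946) (nat_lit 76) (nat_lit 508148212) (nat_lit 152) (nat_lit 30803221639) (nat_lit 5) (nat_lit 5) (nat_lit 6) (nat_lit 5) (nat_lit 7) (nat_lit 4) (nat_lit 329) (nat_lit 241) (nat_lit 210)) (XT.nd (nat_lit 78) (nat_lit 0) (nat_lit 0) (XT.lf (nat_lit 0) (nat_lit 10727567334) (nat_lit 152) (nat_lit 25870096655) (nat_lit 0) (nat_lit 3026772718) (nat_lit 5) (nat_lit 5) (nat_lit 7) (nat_lit 4) (nat_lit 5) (nat_lit 4) (nat_lit 330) (nat_lit 241) (nat_lit 209)) (XT.lf (nat_lit 0) (nat_lit 14475782860) (nat_lit 152) (nat_lit 20265338649) (nat_lit 0) (nat_lit 6677588456) (nat_lit 5) (nat_lit 5) (nat_lit 7) (nat_lit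 4) (nat_lit 5) (nat_lit 4) (nat_lit 331) (nat_lit 241) (nat_lit 208))))))) (XT.nd (nat_lit 780) (nat_lit 152) (nat_lit 0) (XT.nd (nat_lit 390) (nat_lit 0) (nat_lit 0) (XT.nd (nat_lit 156) (nat_lit 76) (nat_lit 0) (XT.nd (nat_lit 78) (nat_lit 0) (nat_lit 0) (XT.lf (nat_lit 0) (nat_lit 18360211443) (nat_lit 152) (nat_lit 14475817555) (nat_lit 0) (nat_lit 10469255334) (nat_lit 5) (nat_lit 5) (nat_lit 7) (nat_lit 4) (nat_lit 5) (nat_lit 4) (nat_lit 332) (nat_lit 241) (nat_lit 207)) (XT.lf (nat_lit 0) (nat_lit 22390101721) (nat_lit 152) (nat_lit 8487748798) (nat_lit 0) (nat_lit 14410801132) (nat_lit 5) (nat_lit 5) (nat_lit 7) (nat_lit 4) (nat_lit 5) (nat_lit 4) (nat_lit 333) (nat_lit 241) (nat_lit 206))) (XT.nd (nat_lit 78) (nat_lit 76) (nat_lit 0) (XT.lf (nat_lit 0) (nat_lit 26575048671) (nat_lit 152) (nat_lit 2286875072) (nat_lit 0) (nat_lit 18511610482) (nat_lit 5) (nat_lit 5) (nat_lit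 7) (nat_lit 4) (nat_lit 5) (nat_lit 4) (nat_lit 334) (nat_lit 241) (nat_lit 205)) (XT.nd (nat_lit 78) (nat_lit 0) (nat_lit 0) (XT.lf (nat_lit 0) (nat_lit 4278506536) (nat_lit 76) (nat_lit 26713309394) (nat_lit 76) (nat_lit 18569740157) (nat_lit 4) (nat_lit 4) (nat_lit 5) (nat_lit 5) (nat_lit 5) (nat_lit 4) (nat_lit 335) (nat_lit 241) (nat_lit 204)) (XT.lf (nat_lit 0) (nat_lit 11170407870) (nat_lit 76) (nat_lit 24454355635) (nat_lit 76) (nat_lit 16234471114) (nat_lit 4) (nat_lit 4) (nat_lit 5) (nat_lit 5) (nat_lit 5) (nat_lit 4) (nat_lit 336) (nat_lit 241) (nat_lit 203))))) (XT.nd (nat_lit 156) (nat_lit 0) (nat_lit 0) (XT.nd (nat_lit 78) (nat_lit 0) (nat_lit 0) (XT.lf (nat_lit 0) (nat_lit 18329623799) (nat_lit 76) (nat_lit 22118413340) (nat_lit 76) (nat_lit 13825847597) (nat_lit 4) (nat_lit 4) (nat_lit 5) (nat_lit 5) (nat_lit 5) (nat_lit 4) (nat_lit 337) (nat_lit 241) (nat_lit 202)) (XT.lf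 (nat_lit 0) (nat_lit 25773200076) (nat_lit 76) (nat_lit 19699920742) (nat_lit 76) (nat_lit 11338134788) (nat_lit 4) (nat_lit 4) (nat_lit 5) (nat_lit 5) (nat_lit 5) (nat_lit 4) (nat_lit 338) (nat_lit 241) (nat_lit 201))) (XT.nd (nat_lit 78) (nat_lit 0) (nat_lit 0) (XT.lf (nat_lit 0) (nat_lit 33518859502) (nat_lit 76) (nat_lit 17193119526) (nat_lit 76) (nat_lit 8765409561) (nat_lit 4) (nat_lit 4) (nat_lit 5) (nat_lit 5) (nat_lit 5) (nat_lit 4) (nat_lit 339) (nat_lit 241) (nat_lit 200)) (XT.nd (nat_lit 78) (nat_lit 0) (nat_lit 0) (XT.lf (nat_lit 0) (nat_lit 41585044123) (nat_lit 76) (nat_lit 14592041118) (nat_lit 76) (nat_lit 6101546380) (nat_lit 4) (nat_lit 4) (nat_lit 5) (nat_lit 5) (nat_lit 5) (nat_lit 4) (nat_lit 340) (nat_lit 241) (nat_lit 199)) (XT.lf (nat_lit 0) (nat_lit 49990959140) (nat_lit 76) (nat_lit 11890492472) (nat_lit 76) (nat_lit 3340202713) (nat_lit 4) (nat_lit 4) (nat_lit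 5) (nat_lit 5) (nat_lit 5) (nat_lit 4) (nat_lit 341) (nat_lit 241) (nat_lit 198)))))) (XT.nd (nat_lit 390) (nat_lit 0) (nat_lit 0) (XT.nd (nat_lit 156) (nat_lit 76) (nat_lit 0) (XT.nd (nat_lit 78) (nat_lit 76) (nat_lit 0) (XT.lf (nat_lit 0) (nat_lit 58756618637) (nat_lit 76) (nat_lit 9082041332) (nat_lit 76) (nat_lit 474803933) (nat_lit 4) (nat_lit 4) (nat_lit 5) (nat_lit 5) (nat_lit 5) (nat_lit 4) (nat_lit 342) (nat_lit 241) (nat_lit 197)) (XT.lf (nat_lit 0) (nat_lit 2421409601) (nat_lit 152) (nat_lit 3697583563) (nat_lit 76) (nat_lit 65440475887) (nat_lit 3) (nat_lit 5) (nat_lit 5) (nat_lit 5) (nat_lit 4) (nat_lit 4) (nat_lit 343) (nat_lit 241) (nat_lit 196))) (XT.nd (nat_lit 78) (nat_lit 0) (nat_lit 0) (XT.lf (nat_lit 0) (nat_lit 2469988825) (nat_lit 76) (nat_lit 2985189349) (nat_lit 152) (nat_lit 69511786670) (nat_lit 2) (nat_lit 5) (nat_lit 3) (nat_lit 5) (nat_lit 4) (nat_lit 4)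 (nat_lit 344) (nat_lit 241) (nat_lit 195)) (XT.nd (nat_lit 78) (nat_lit 0) (nat_lit 0) (XT.lf (nat_lit 0) (nat_lit 8679347596) (nat_lit 152) (nat_lit 69529285150) (nat_lit 0) (nat_lit 334280981) (nat_lit 2) (nat_lit 5) (nat_lit 4) (nat_lit 4) (nat_lit 2) (nat_lit 4) (nat_lit 345) (nat_lit 241) (nat_lit 194)) (XT.lf (nat_lit 0) (nat_lit 12085376188) (nat_lit 152) (nat_lit 66515574981) (nat_lit 0) (nat_lit 3695689607) (nat_lit 2) (nat_lit 5) (nat_lit 4) (nat_lit 4) (nat_lit 2) (nat_lit 4) (nat_lit 346) (nat_lit 241) (nat_lit 193))))) (XT.nd (nat_lit 234) (nat_lit 0) (nat_lit 0) (XT.nd (nat_lit 78) (nat_lit 0) (nat_lit 0) (XT.lf (nat_lit 0) (nat_lit 15634766370) (nat_lit 152) (nat_lit 63402062840) (nat_lit 0) (nat_lit 7202584583) (nat_lit 2) (nat_lit 5) (nat_lit 4) (nat_lit 4) (nat_lit 2) (nat_lit 4) (nat_lit 347) (nat_lit 241) (nat_lit 192)) (XT.nd (nat_lit 78) (nat_lit 0) (nat_lit 0)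 (XT.lf (nat_lit 0) (nat_lit 19335969071) (nat_lit 152) (nat_lit 60181335605) (nat_lit 0) (nat_lit 10863315660) (nat_lit 2) (nat_lit 5) (nat_lit 4) (nat_lit 4) (nat_lit 2) (nat_lit 4) (nat_lit 348) (nat_lit 241) (nat_lit 191)) (XT.lf (nat_lit 0) (nat_lit 23197796678) (nat_lit 152) (nat_lit 56845724877) (nat_lit 0) (nat_lit 14686598863) (nat_lit 2) (nat_lit 5) (nat_lit 4) (nat_lit 4) (nat_lit 2) (nat_lit 4) (nat_lit 349) (nat_lit 241) (nat_lit 190)))) (XT.nd (nat_lit 78) (nat_lit 0) (nat_lit 0) (XT.lf (nat_lit 0) (nat_lit 27229444020) (nat_lit 152) (nat_lit 53387288724) (nat_lit 0) (nat_lit 18681537249) (nat_lit 2) (nat_lit 5) (nat_lit 4) (nat_lit 4) (nat_lit 2) (nat_lit 4) (nat_lit 350) (nat_lit 241) (nat_lit 189)) (XT.nd (nat_lit 78) (nat_lit 0) (nat_lit 0) (XT.lf (nat_lit 0) (nat_lit 31440510256) (nat_lit 152) (nat_lit 49797792777) (nat_lit 0) (nat_lit 22857642575) (nat_lit 2) (nat_lit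 5) (nat_lit 4) (nat_lit 4) (nat_lit 2) (nat_lit 4) (nat_lit 351) (nat_lit 241) (nat_lit 188)) (XT.lf (nat_lit 0) (nat_lit 35841021735) (nat_lit 152) (nat_lit 46068690615) (nat_lit 0) (nat_lit 27224857949) (nat_lit 2) (nat_lit 5) (nat_lit 4) (nat_lit 4) (nat_lit 2) (nat_lit 4) (nat_lit 352) (nat_lit 241) (nat_lit 187))))))))
noncomputable def xc56 : XT := (XT.nd (nat_lit 1560) (nat_lit 0) (nat_lit 0) (XT.nd (nat_lit 780) (nat_lit 0) (nat_lit 0) (XT.nd (nat_lit 390) (nat_lit 76) (nat_lit 0) (XT.nd (nat_lit 156) (nat_lit 0) (nat_lit 0) (XT.nd (nat_lit 78) (nat_lit 0) (nat_lit 0) (XT.lf (nat_lit 0) (nat_lit 40441455866) (nat_lit 152) (nat_lit 42191103425) (nat_lit 0) (nat_lit 31793581502) (nat_lit 2) (nat_lit 5) (nat_lit 4) (nat_lit 4) (nat_lit 2) (nat_lit 4) (nat_lit 353) (nat_lit 241) (nat_lit 186)) (XT.lf (nat_lit 0) (nat_lit 45252766061) (nat_lit 152) (nat_lit 38155798855) (nat_lit 0)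 (nat_lit 36574691149) (nat_lit 2) (nat_lit 5) (nat_lit 4) (nat_lit 4) (nat_lit 2) (nat_lit 4) (nat_lit 354) (nat_lit 241) (nat_lit 185))) (XT.nd (nat_lit 78) (nat_lit 0) (nat_lit 0) (XT.lf (nat_lit 0) (nat_lit 50286407823) (nat_lit 152) (nat_lit 33953169037) (nat_lit 0) (nat_lit 41579570483) (nat_lit 2) (nat_lit 5) (nat_lit 4) (nat_lit 4) (nat_lit 2) (nat_lit 4) (nat_lit 355) (nat_lit 241) (nat_lit 184)) (XT.nd (nat_lit 78) (nat_lit 0) (nat_lit 0) (XT.lf (nat_lit 0) (nat_lit 55554366013) (nat_lit 152) (nat_lit 29573207711) (nat_lit 0) (nat_lit 46820135884) (nat_lit 2) (nat_lit 5) (nat_lit 4) (nat_lit 4) (nat_lit 2) (nat_lit 4) (nat_lit 356) (nat_lit 241) (nat_lit 183)) (XT.lf (nat_lit 0) (nat_lit 61069183387) (nat_lit 152) (nat_lit 25005486396) (nat_lit 0) (nat_lit 52308864889) (nat_lit 2) (nat_lit 5) (nat_lit 4) (nat_lit 4) (nat_lit 2) (nat_lit 4) (nat_lit 357) (nat_lit 241) (nat_lit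 182))))) (XT.nd (nat_lit 156) (nat_lit 76) (nat_lit 0) (XT.nd (nat_lit 78) (nat_lit 0) (nat_lit 0) (XT.lf (nat_lit 0) (nat_lit 66843990464) (nat_lit 152) (nat_lit 20239129566) (nat_lit 0) (nat_lit 58058825899) (nat_lit 2) (nat_lit 5) (nat_lit 4) (nat_lit 4) (nat_lit 2) (nat_lit 4) (nat_lit 358) (nat_lit 241) (nat_lit 181)) (XT.lf (nat_lit 0) (nat_lit 72892536784) (nat_lit 152) (nat_lit 15262788753) (nat_lit 0) (nat_lit 64083709299) (nat_lit 2) (nat_lit 5) (nat_lit 4) (nat_lit 4) (nat_lit 2) (nat_lit 4) (nat_lit 359) (nat_lit 241) (nat_lit 180))) (XT.nd (nat_lit 78) (nat_lit 76) (nat_lit 0) (XT.lf (nat_lit 0) (nat_lit 79229223648) (nat_lit 152) (nat_lit 10064615525) (nat_lit 0) (nat_lit 70397860048) (nat_lit 2) (nat_lit 5) (nat_lit 4) (nat_lit 4) (nat_lit 2) (nat_lit 4) (nat_lit 360) (nat_lit 241) (nat_lit 179)) (XT.nd (nat_lit 78) (nat_lit 76) (nat_lit 0) (XT.lf (nat_lit 0) (nat_lit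 85869138406) (nat_lit 152) (nat_lit 4632233280) (nat_lit 0) (nat_lit 77016311840) (nat_lit 2) (nat_lit 5) (nat_lit 4) (nat_lit 4) (nat_lit 2) (nat_lit 4) (nat_lit 361) (nat_lit 241) (nat_lit 178)) (XT.lf (nat_lit 0) (nat_lit 1081920436) (nat_lit 76) (nat_lit 91763061752) (nat_lit 76) (nat_lit 82889794266) (nat_lit 1) (nat_lit 4) (nat_lit 2) (nat_lit 5) (nat_lit 2) (nat_lit 4) (nat_lit 362) (nat_lit 241) (nat_lit 177)))))) (XT.nd (nat_lit 390) (nat_lit 0) (nat_lit 0) (XT.nd (nat_lit 156) (nat_lit 0) (nat_lit 0) (XT.nd (nat_lit 78) (nat_lit 0) (nat_lit 0) (XT.lf (nat_lit 0) (nat_lit 7218521438) (nat_lit 76) (nat_lit 93016828410) (nat_lit 76) (nat_lit 84124093380) (nat_lit 1) (nat_lit 4) (nat_lit 2) (nat_lit 5) (nat_lit 2) (nat_lit 4) (nat_lit 363) (nat_lit 241) (nat_lit 176)) (XT.lf (nat_lit 0) (nat_lit 13639018129) (nat_lit 76) (nat_lit 94344105930) (nat_lit 76) (nat_lit 85432830382)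 (nat_lit 1) (nat_lit 4) (nat_lit 2) (nat_lit 5) (nat_lit 2) (nat_lit 4) (nat_lit 364) (nat_lit 241) (nat_lit 175))) (XT.nd (nat_lit 78) (nat_lit 0) (nat_lit 0) (XT.lf (nat_lit 0) (nat_lit 20358697405) (nat_lit 76) (nat_lit 95748054496) (nat_lit 76) (nat_lit 86819121313) (nat_lit 1) (nat_lit 4) (nat_lit 2) (nat_lit 5) (nat_lit 2) (nat_lit 4) (nat_lit 365) (nat_lit 241) (nat_lit 174)) (XT.nd (nat_lit 78) (nat_lit 0) (nat_lit 0) (XT.lf (nat_lit 0) (nat_lit 27393558502) (nat_lit 76) (nat_lit 97232016844) (nat_lit 76) (nat_lit 88286266865) (nat_lit 1) (nat_lit 4) (nat_lit 2) (nat_lit 5) (nat_lit 2) (nat_lit 4) (nat_lit 366) (nat_lit 241) (nat_lit 173)) (XT.lf (nat_lit 0) (nat_lit 34760351091) (nat_lit 76) (nat_lit 98799526217) (nat_lit 76) (nat_lit 89837760242) (nat_lit 1) (nat_lit 4) (nat_lit 2) (nat_lit 5) (nat_lit 2) (nat_lit 4) (nat_lit 367) (nat_lit 241) (nat_lit 172))))) (XT.nd (nat_lit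 156) (nat_lit 0) (nat_lit 0) (XT.nd (nat_lit 78) (nat_lit 0) (nat_lit 0) (XT.lf (nat_lit 0) (nat_lit 42476615153) (nat_lit 76) (nat_lit 100454314781) (nat_lit 76) (nat_lit 91477295476) (nat_lit 1) (nat_lit 4) (nat_lit 2) (nat_lit 5) (nat_lit 2) (nat_lit 4) (nat_lit 368) (nat_lit 241) (nat_lit 171)) (XT.lf (nat_lit 0) (nat_lit 50560722746) (nat_lit 76) (nat_lit 102200322507) (nat_lit 76) (nat_lit 93208776222) (nat_lit 1) (nat_lit 4) (nat_lit 2) (nat_lit 5) (nat_lit 2) (nat_lit 4) (nat_lit 369) (nat_lit 241) (nat_lit 170))) (XT.nd (nat_lit 78) (nat_lit 0) (nat_lit 0) (XT.lf (nat_lit 0) (nat_lit 59031921744) (nat_lit 76) (nat_lit 104041706558) (nat_lit 76) (nat_lit 95036325054) (nat_lit 1) (nat_lit 4) (nat_lit 2) (nat_lit 5) (nat_lit 2) (nat_lit 4) (nat_lit 370) (nat_lit 241) (nat_lit 169)) (XT.nd (nat_lit 78) (nat_lit 0) (nat_lit 0) (XT.lf (nat_lit 0) (nat_lit 67910381670) (nat_lit 76)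 (nat_lit 105982851181) (nat_lit 76) (nat_lit 96964293277) (nat_lit 1) (nat_lit 4) (nat_lit 2) (nat_lit 5) (nat_lit 2) (nat_lit 4) (nat_lit 371) (nat_lit 241) (nat_lit 168)) (XT.lf (nat_lit 0) (nat_lit 77217241713) (nat_lit 76) (nat_lit 108028378149) (nat_lit 76) (nat_lit 98997271293) (nat_lit 1) (nat_lit 4) (nat_lit 2) (nat_lit 5) (nat_lit 2) (nat_lit 4) (nat_lit 372) (nat_lit 241) (nat_lit 167))))))) (XT.nd (nat_lit 780) (nat_lit 0) (nat_lit 0) (XT.nd (nat_lit 390) (nat_lit 0) (nat_lit 0) (XT.nd (nat_lit 156) (nat_lit 0) (nat_lit 0) (XT.nd (nat_lit 78) (nat_lit 0) (nat_lit 0) (XT.lf (nat_lit 0) (nat_lit 86974661064) (nat_lit 76) (nat_lit 110183157764) (nat_lit 76) (nat_lit 101140099526) (nat_lit 1) (nat_lit 4) (nat_lit 2) (nat_lit 5) (nat_lit 2) (nat_lit 4) (nat_lit 373) (nat_lit 241) (nat_lit 166)) (XT.lf (nat_lit 0) (nat_lit 97205871674) (nat_lit 76) (nat_lit 112452320455) (nat_lit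 76) (nat_lit 103397879947) (nat_lit 1) (nat_lit 4) (nat_lit 2) (nat_lit 5) (nat_lit 2) (nat_lit 4) (nat_lit 374) (nat_lit 241) (nat_lit 165))) (XT.nd (nat_lit 78) (nat_lit 0) (nat_lit 0) (XT.lf (nat_lit 0) (nat_lit 107935233569) (nat_lit 76) (nat_lit 114841268988) (nat_lit 76) (nat_lit 105775988224) (nat_lit 1) (nat_lit 4) (nat_lit 2) (nat_lit 5) (nat_lit 2) (nat_lit 4) (nat_lit 375) (nat_lit 241) (nat_lit 164)) (XT.nd (nat_lit 78) (nat_lit 0) (nat_lit 0) (XT.lf (nat_lit 0) (nat_lit 119188292847) (nat_lit 76) (nat_lit 117355691338) (nat_lit 76) (nat_lit 108280086519) (nat_lit 1) (nat_lit 4) (nat_lit 2) (nat_lit 5) (nat_lit 2) (nat_lit 4) (nat_lit 376) (nat_lit 241) (nat_lit 163)) (XT.lf (nat_lit 0) (nat_lit 130991842508) (nat_lit 76) (nat_lit 120001574223) (nat_lit 76) (nat_lit 110916136972) (nat_lit 1) (nat_lit 4) (nat_lit 2) (nat_lit 5) (nat_lit 2) (nat_lit 4) (nat_lit 377) (nat_lit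 241) (nat_lit 162))))) (XT.nd (nat_lit 156) (nat_lit 0) (nat_lit 0) (XT.nd (nat_lit 78) (nat_lit 0) (nat_lit 0) (XT.lf (nat_lit 0) (nat_lit 143373986241) (nat_lit 76) (nat_lit 122785217365) (nat_lit 76) (nat_lit 113690415894) (nat_lit 1) (nat_lit 4) (nat_lit 2) (nat_lit 5) (nat_lit 2) (nat_lit 4) (nat_lit 378) (nat_lit 241) (nat_lit 161)) (XT.lf (nat_lit 0) (nat_lit 156364205340) (nat_lit 76) (nat_lit 125713248487) (nat_lit 76) (nat_lit 116609528709) (nat_lit 1) (nat_lit 4) (nat_lit 2) (nat_lit 5) (nat_lit 2) (nat_lit 4) (nat_lit 379) (nat_lit 241) (nat_lit 160))) (XT.nd (nat_lit 78) (nat_lit 0) (nat_lit 0) (XT.lf (nat_lit 0) (nat_lit 169993428899) (nat_lit 76) (nat_lit 128792639089) (nat_lit 76) (nat_lit 119680425687) (nat_lit 1) (nat_lit 4) (nat_lit 2) (nat_lit 5) (nat_lit 2) (nat_lit 4) (nat_lit 380) (nat_lit 241) (nat_lit 159)) (XT.nd (nat_lit 78) (nat_lit 0) (nat_lit 0) (XT.lf (nat_lit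 0) (nat_lit 184294107450) (nat_lit 76) (nat_lit 132030721056) (nat_lit 76) (nat_lit 122910418487) (nat_lit 1) (nat_lit 4) (nat_lit 2) (nat_lit 5) (nat_lit 2) (nat_lit 4) (nat_lit 381) (nat_lit 241) (nat_lit 158)) (XT.lf (nat_lit 0) (nat_lit 199300290227) (nat_lit 76) (nat_lit 135435204105) (nat_lit 76) (nat_lit 126307197568) (nat_lit 1) (nat_lit 4) (nat_lit 2) (nat_lit 5) (nat_lit 2) (nat_lit 4) (nat_lit 382) (nat_lit 241) (nat_lit 157)))))) (XT.nd (nat_lit 390) (nat_lit 0) (nat_lit 0) (XT.nd (nat_lit 156) (nat_lit 0) (nat_lit 0) (XT.nd (nat_lit 78) (nat_lit 0) (nat_lit 0) (XT.lf (nat_lit 0) (nat_lit 215047706238) (nat_lit 76) (nat_lit 139014194149) (nat_lit 76) (nat_lit 129878850500) (nat_lit 1) (nat_lit 4) (nat_lit 2) (nat_lit 5) (nat_lit 2) (nat_lit 4) (nat_lit 383) (nat_lit 241) (nat_lit 156)) (XT.lf (nat_lit 0) (nat_lit 231573849329) (nat_lit 76) (nat_lit 142776212593) (nat_lit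 76) (nat_lit 133633881218) (nat_lit 1) (nat_lit 4) (nat_lit 2) (nat_lit 5) (nat_lit 2) (nat_lit 4) (nat_lit 384) (nat_lit 241) (nat_lit 155))) (XT.nd (nat_lit 78) (nat_lit 0) (nat_lit 0) (XT.lf (nat_lit 0) (nat_lit 248918067461) (nat_lit 76) (nat_lit 146730216623) (nat_lit 76) (nat_lit 137581230271) (nat_lit 1) (nat_lit 4) (nat_lit 2) (nat_lit 5) (nat_lit 2) (nat_lit 4) (nat_lit 385) (nat_lit 241) (nat_lit 154)) (XT.nd (nat_lit 78) (nat_lit 0) (nat_lit 0) (XT.lf (nat_lit 0) (nat_lit 267121656390) (nat_lit 76) (nat_lit 150885620535) (nat_lit 76) (nat_lit 141730296109) (nat_lit 1) (nat_lit 4) (nat_lit 2) (nat_lit 5) (nat_lit 2) (nat_lit 4) (nat_lit 386) (nat_lit 241) (nat_lit 153)) (XT.lf (nat_lit 0) (nat_lit 286227957997) (nat_lit 76) (nat_lit 155252318147) (nat_lit 76) (nat_lit 146090957462) (nat_lit 1) (nat_lit 4) (nat_lit 2) (nat_lit 5) (nat_lit 2) (nat_lit 4) (nat_lit 387) (nat_lit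 241) (nat_lit 152))))) (XT.nd (nat_lit 156) (nat_lit 0) (nat_lit 0) (XT.nd (nat_lit 78) (nat_lit 0) (nat_lit 0) (XT.lf (nat_lit 0) (nat_lit 306282463474) (nat_lit 76) (nat_lit 159840706360) (nat_lit 76) (nat_lit 150673596854) (nat_lit 1) (nat_lit 4) (nat_lit 2) (nat_lit 5) (nat_lit 2) (nat_lit 4) (nat_lit 388) (nat_lit 241) (nat_lit 151)) (XT.lf (nat_lit 0) (nat_lit 327332921644) (nat_lit 76) (nat_lit 164661709905) (nat_lit 76) (nat_lit 155489125334) (nat_lit 1) (nat_lit 4) (nat_lit 2) (nat_lit 5) (nat_lit 2) (nat_lit 4) (nat_lit 389) (nat_lit 241) (nat_lit 150))) (XT.nd (nat_lit 78) (nat_lit 0) (nat_lit 0) (XT.lf (nat_lit 0) (nat_lit 349429452646) (nat_lit 76) (nat_lit 169726807365) (nat_lit 76) (nat_lit 160549008444) (nat_lit 1) (nat_lit 4) (nat_lit 2) (nat_lit 5) (nat_lit 2) (nat_lit 4) (nat_lit 390) (nat_lit 241) (nat_lit 149)) (XT.nd (nat_lit 33228) (nat_lit 0) (nat_lit 2128) (XT.lf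 (nat_lit 0) (nat_lit 372624667268) (nat_lit 76) (nat_lit 175048058493) (nat_lit 76) (nat_lit 165865293526) (nat_lit 1) (nat_lit 4) (nat_lit 2) (nat_lit 5) (nat_lit 2) (nat_lit 4) (nat_lit 391) (nat_lit 241) (nat_lit 148)) (XT.lf (nat_lit 0) (nat_lit 575343149) (nat_lit 152) (nat_lit 2490868368) (nat_lit 152) (nat_lit 2490868368) (nat_lit 29) (nat_lit 4) (nat_lit 31) (nat_lit 5) (nat_lit 31) (nat_lit 4) (nat_lit 296) (nat_lit 242) (nat_lit 242))))))))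
noncomputable def xc57 : XT := (XT.nd (nat_lit 1560) (nat_lit 532) (nat_lit 0) (XT.nd (nat_lit 780) (nat_lit 532) (nat_lit 0) (XT.nd (nat_lit 390) (nat_lit 304) (nat_lit 0) (XT.nd (nat_lit 156) (nat_lit 304) (nat_lit 0) (XT.nd (nat_lit 78) (nat_lit 228) (nat_lit 0) (XT.lf (nat_lit 0) (nat_lit 8607962606) (nat_lit 152) (nat_lit 1754630461) (nat_lit 152) (nat_lit 1068937044) (nat_lit 29) (nat_lit 4) (nat_lit 31) (nat_lit 5) (nat_lit 31) (nat_lit 4) (nat_lit 297) (nat_lit 242) (nat_lit 241)) (XT.lf (nat_lit 0) (nat_lit 2890232517) (nat_lit 228) (nat_lit 7259700797) (nat_lit 0) (nat_lit 1615247025) (nat_lit 26) (nat_lit 5) (nat_lit 29) (nat_lit 4) (nat_lit 26) (nat_lit 4) (nat_lit 298) (nat_lit 242) (nat_lit 240))) (XT.nd (nat_lit 78) (nat_lit 304) (nat_lit 0) (XT.lf (nat_lit 0) (nat_lit 6942034791) (nat_lit 228) (nat_lit 101526672) (nat_lit 0) (nat_lit 5074721545) (nat_lit 26) (nat_lit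 5) (nat_lit 29) (nat_lit 4) (nat_lit 26) (nat_lit 4) (nat_lit 299) (nat_lit 242) (nat_lit 239)) (XT.nd (nat_lit 78) (nat_lit 152) (nat_lit 0) (XT.lf (nat_lit 0) (nat_lit 7423251867) (nat_lit 152) (nat_lit 3749292793) (nat_lit 152) (nat_lit 1317857876) (nat_lit 24) (nat_lit 4) (nat_lit 26) (nat_lit 5) (nat_lit 26) (nat_lit 4) (nat_lit 300) (nat_lit 242) (nat_lit 238)) (XT.lf (nat_lit 0) (nat_lit 2245980412) (nat_lit 76) (nat_lit 297763033) (nat_lit 152) (nat_lit 10340513824) (nat_lit 22) (nat_lit 5) (nat_lit 23) (nat_lit 5) (nat_lit 24) (nat_lit 4) (nat_lit 301) (nat_lit 242) (nat_lit 237))))) (XT.nd (nat_lit 156) (nat_lit 152) (nat_lit 0) (XT.nd (nat_lit 78) (nat_lit 152) (nat_lit 0) (XT.lf (nat_lit 0) (nat_lit 6555935134) (nat_lit 152) (nat_lit 3499545885) (nat_lit 0) (nat_lit 3241298338) (nat_lit 22) (nat_lit 5) (nat_lit 24) (nat_lit 4) (nat_lit 22) (nat_lit 4) (nat_lit 302) (nat_lit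 242) (nat_lit 236)) (XT.lf (nat_lit 0) (nat_lit 3895171619) (nat_lit 152) (nat_lit 6808445439) (nat_lit 152) (nat_lit 3029704348) (nat_lit 20) (nat_lit 4) (nat_lit 22) (nat_lit 5) (nat_lit 22) (nat_lit 4) (nat_lit 303) (nat_lit 242) (nat_lit 235))) (XT.nd (nat_lit 78) (nat_lit 76) (nat_lit 0) (XT.lf (nat_lit 0) (nat_lit 769279617) (nat_lit 228) (nat_lit 2643721964) (nat_lit 76) (nat_lit 10781635418) (nat_lit 19) (nat_lit 5) (nat_lit 22) (nat_lit 5) (nat_lit 20) (nat_lit 4) (nat_lit 304) (nat_lit 242) (nat_lit 234)) (XT.nd (nat_lit 78) (nat_lit 0) (nat_lit 0) (XT.lf (nat_lit 0) (nat_lit 4610449342) (nat_lit 152) (nat_lit 9878720766) (nat_lit 0) (nat_lit 189781287) (nat_lit 18) (nat_lit 5) (nat_lit 20) (nat_lit 4) (nat_lit 18) (nat_lit 4) (nat_lit 305) (nat_lit 242) (nat_lit 233)) (XT.lf (nat_lit 0) (nat_lit 8622448605) (nat_lit 152) (nat_lit 2746246995) (nat_lit 0) (nat_lit 3819960798)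 (nat_lit 18) (nat_lit 5) (nat_lit 20) (nat_lit 4) (nat_lit 18) (nat_lit 4) (nat_lit 306) (nat_lit 242) (nat_lit 232)))))) (XT.nd (nat_lit 390) (nat_lit 152) (nat_lit 0) (XT.nd (nat_lit 156) (nat_lit 152) (nat_lit 0) (XT.nd (nat_lit 78) (nat_lit 76) (nat_lit 0) (XT.lf (nat_lit 0) (nat_lit 4690613478) (nat_lit 152) (nat_lit 8100823704) (nat_lit 152) (nat_lit 2934698038) (nat_lit 16) (nat_lit 4) (nat_lit 18) (nat_lit 5) (nat_lit 18) (nat_lit 4) (nat_lit 307) (nat_lit 242) (nat_lit 231)) (XT.lf (nat_lit 0) (nat_lit 781181170) (nat_lit 228) (nat_lit 3911026037) (nat_lit 76) (nat_lit 11601147673) (nat_lit 15) (nat_lit 5) (nat_lit 18) (nat_lit 5) (nat_lit 16) (nat_lit 4) (nat_lit 308) (nat_lit 242) (nat_lit 230))) (XT.nd (nat_lit 78) (nat_lit 76) (nat_lit 0) (XT.lf (nat_lit 0) (nat_lit 3438251656) (nat_lit 76) (nat_lit 1088835831) (nat_lit 152) (nat_lit 12362392959) (nat_lit 14) (nat_lit 5)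 (nat_lit 15) (nat_lit 5) (nat_lit 16) (nat_lit 4) (nat_lit 309) (nat_lit 242) (nat_lit 229)) (XT.nd (nat_lit 78) (nat_lit 76) (nat_lit 0) (XT.lf (nat_lit 0) (nat_lit 8459889975) (nat_lit 152) (nat_lit 6458980943) (nat_lit 0) (nat_lit 2596650214) (nat_lit 14) (nat_lit 5) (nat_lit 16) (nat_lit 4) (nat_lit 14) (nat_lit 4) (nat_lit 310) (nat_lit 242) (nat_lit 228)) (XT.lf (nat_lit 0) (nat_lit 702270446) (nat_lit 76) (nat_lit 11811312537) (nat_lit 76) (nat_lit 5663152999) (nat_lit 13) (nat_lit 4) (nat_lit 14) (nat_lit 5) (nat_lit 14) (nat_lit 4) (nat_lit 311) (nat_lit 242) (nat_lit 227))))) (XT.nd (nat_lit 156) (nat_lit 76) (nat_lit 0) (XT.nd (nat_lit 78) (nat_lit 76) (nat_lit 0) (XT.lf (nat_lit 0) (nat_lit 8263577195) (nat_lit 76) (nat_lit 8513339453) (nat_lit 76) (nat_lit 2093827746) (nat_lit 13) (nat_lit 4) (nat_lit 14) (nat_lit 5) (nat_lit 14) (nat_lit 4) (nat_lit 312) (nat_lit 242) (nat_lit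 226)) (XT.lf (nat_lit 0) (nat_lit 1501800714) (nat_lit 152) (nat_lit 3599250880) (nat_lit 76) (nat_lit 14502144899) (nat_lit 12) (nat_lit 5) (nat_lit 14) (nat_lit 5) (nat_lit 13) (nat_lit 4) (nat_lit 313) (nat_lit 242) (nat_lit 225))) (XT.nd (nat_lit 78) (nat_lit 0) (nat_lit 0) (XT.lf (nat_lit 0) (nat_lit 3673822495) (nat_lit 76) (nat_lit 1495879580) (nat_lit 152) (nat_lit 15202779620) (nat_lit 11) (nat_lit 5) (nat_lit 12) (nat_lit 5) (nat_lit 13) (nat_lit 4) (nat_lit 314) (nat_lit 242) (nat_lit 224)) (XT.nd (nat_lit 78) (nat_lit 0) (nat_lit 0) (XT.lf (nat_lit 0) (nat_lit 9024967284) (nat_lit 152) (nat_lit 9947755873) (nat_lit 0) (nat_lit 2207375887) (nat_lit 11) (nat_lit 5) (nat_lit 13) (nat_lit 4) (nat_lit 11) (nat_lit 4) (nat_lit 315) (nat_lit 242) (nat_lit 223)) (XT.lf (nat_lit 0) (nat_lit 13008249943) (nat_lit 152) (nat_lit 3045100756) (nat_lit 0) (nat_lit 5978047021) (nat_lit 11)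 (nat_lit 5) (nat_lit 13) (nat_lit 4) (nat_lit 11) (nat_lit 4) (nat_lit 316) (nat_lit 242) (nat_lit 222))))))) (XT.nd (nat_lit 780) (nat_lit 228) (nat_lit 0) (XT.nd (nat_lit 390) (nat_lit 76) (nat_lit 0) (XT.nd (nat_lit 156) (nat_lit 152) (nat_lit 0) (XT.nd (nat_lit 78) (nat_lit 0) (nat_lit 0) (XT.lf (nat_lit 0) (nat_lit 4182977313) (nat_lit 76) (nat_lit 12988009870) (nat_lit 76) (nat_lit 5755319782) (nat_lit 10) (nat_lit 4) (nat_lit 11) (nat_lit 5) (nat_lit 11) (nat_lit 4) (nat_lit 317) (nat_lit 242) (nat_lit 221)) (XT.lf (nat_lit 0) (nat_lit 11727064385) (nat_lit 76) (nat_lit 9783038749) (nat_lit 76) (nat_lit 2357503741) (nat_lit 10) (nat_lit 4) (nat_lit 11) (nat_lit 5) (nat_lit 11) (nat_lit 4) (nat_lit 318) (nat_lit 242) (nat_lit 220))) (XT.nd (nat_lit 78) (nat_lit 76) (nat_lit 0) (XT.lf (nat_lit 0) (nat_lit 1090754848) (nat_lit 152) (nat_lit 5373149398) (nat_lit 76) (nat_lit 18395210479)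 (nat_lit 9) (nat_lit 5) (nat_lit 11) (nat_lit 5) (nat_lit 10) (nat_lit 4) (nat_lit 319) (nat_lit 242) (nat_lit 219)) (XT.nd (nat_lit 78) (nat_lit 0) (nat_lit 0) (XT.lf (nat_lit 0) (nat_lit 1605702280) (nat_lit 76) (nat_lit 2974695351) (nat_lit 152) (nat_lit 21320507507) (nat_lit 8) (nat_lit 5) (nat_lit 9) (nat_lit 5) (nat_lit 10) (nat_lit 4) (nat_lit 320) (nat_lit 242) (nat_lit 218)) (XT.lf (nat_lit 0) (nat_lit 8271443854) (nat_lit 152) (nat_lit 18022693253) (nat_lit 0) (nat_lit 699349036) (nat_lit 8) (nat_lit 5) (nat_lit 10) (nat_lit 4) (nat_lit 8) (nat_lit 4) (nat_lit 321) (nat_lit 242) (nat_lit 217))))) (XT.nd (nat_lit 156) (nat_lit 76) (nat_lit 0) (XT.nd (nat_lit 78) (nat_lit 0) (nat_lit 0) (XT.lf (nat_lit 0) (nat_lit 12123118215) (nat_lit 152) (nat_lit 11618894726) (nat_lit 0) (nat_lit 4399924357) (nat_lit 8) (nat_lit 5) (nat_lit 10) (nat_lit 4) (nat_lit 8) (nat_lit 4) (nat_lit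 322) (nat_lit 242) (nat_lit 216)) (XT.lf (nat_lit 0) (nat_lit 16098148039) (nat_lit 152) (nat_lit 5022116808) (nat_lit 0) (nat_lit 8231050331) (nat_lit 8) (nat_lit 5) (nat_lit 10) (nat_lit 4) (nat_lit 8) (nat_lit 4) (nat_lit 323) (nat_lit 242) (nat_lit 215))) (XT.nd (nat_lit 78) (nat_lit 0) (nat_lit 0) (XT.lf (nat_lit 0) (nat_lit 1842312624) (nat_lit 76) (nat_lit 18392448719) (nat_lit 76) (nat_lit 10388299727) (nat_lit 7) (nat_lit 4) (nat_lit 8) (nat_lit 5) (nat_lit 8) (nat_lit 4) (nat_lit 324) (nat_lit 242) (nat_lit 214)) (XT.nd (nat_lit 78) (nat_lit 0) (nat_lit 0) (XT.lf (nat_lit 0) (nat_lit 9105121273) (nat_lit 76) (nat_lit 15493482923) (nat_lit 76) (nat_lit 7358808898) (nat_lit 7) (nat_lit 4) (nat_lit 8) (nat_lit 5) (nat_lit 8) (nat_lit 4) (nat_lit 325) (nat_lit 242) (nat_lit 213)) (XT.lf (nat_lit 0) (nat_lit 16617547677) (nat_lit 76) (nat_lit 12501517136) (nat_lit 76) (nat_lit 4242533556)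 (nat_lit 7) (nat_lit 4) (nat_lit 8) (nat_lit 5) (nat_lit 8) (nat_lit 4) (nat_lit 326) (nat_lit 242) (nat_lit 212)))))) (XT.nd (nat_lit 390) (nat_lit 76) (nat_lit 0) (XT.nd (nat_lit 156) (nat_lit 76) (nat_lit 0) (XT.nd (nat_lit 78) (nat_lit 76) (nat_lit 0) (XT.lf (nat_lit 0) (nat_lit 24397478565) (nat_lit 76) (nat_lit 9409427631) (nat_lit 76) (nat_lit 1032053998) (nat_lit 7) (nat_lit 4) (nat_lit 8) (nat_lit 5) (nat_lit 8) (nat_lit 4) (nat_lit 327) (nat_lit 242) (nat_lit 211)) (XT.lf (nat_lit 0) (nat_lit 2207290771) (nat_lit 152) (nat_lit 3965179982) (nat_lit 76) (nat_lit 30218765273) (nat_lit 6) (nat_lit 5) (nat_lit 8) (nat_lit 5) (nat_lit 7) (nat_lit 4) (nat_lit 328) (nat_lit 242) (nat_lit 210))) (XT.nd (nat_lit 78) (nat_lit 0) (nat_lit 0) (XT.lf (nat_lit 0) (nat_lit 2808007502) (nat_lit 76) (nat_lit 2755659245) (nat_lit 152) (nat_lit 32457155953) (nat_lit 5) (nat_lit 5) (nat_lit 6)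 (nat_lit 5) (nat_lit 7) (nat_lit 4) (nat_lit 329) (nat_lit 242) (nat_lit 209)) (XT.nd (nat_lit 78) (nat_lit 0) (nat_lit 0) (XT.lf (nat_lit 0) (nat_lit 9115346755) (nat_lit 152) (nat_lit 29785353789) (nat_lit 0) (nat_lit 829842841) (nat_lit 5) (nat_lit 5) (nat_lit 7) (nat_lit 4) (nat_lit 5) (nat_lit 4) (nat_lit 330) (nat_lit 242) (nat_lit 208)) (XT.lf (nat_lit 0) (nat_lit 12838587784) (nat_lit 152) (nat_lit 24227168862) (nat_lit 0) (nat_lit 4460322166) (nat_lit 5) (nat_lit 5) (nat_lit 7) (nat_lit 4) (nat_lit 5) (nat_lit 4) (nat_lit 331) (nat_lit 242) (nat_lit 207))))) (XT.nd (nat_lit 234) (nat_lit 76) (nat_lit 0) (XT.nd (nat_lit 78) (nat_lit 0) (nat_lit 0) (XT.lf (nat_lit 0) (nat_lit 16699231131) (nat_lit 152) (nat_lit 18482003081) (nat_lit 0) (nat_lit 8232621032) (nat_lit 5) (nat_lit 5) (nat_lit 7) (nat_lit 4) (nat_lit 5) (nat_lit 4) (nat_lit 332) (nat_lit 242) (nat_lit 206)) (XT.nd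 (nat_lit 78) (nat_lit 0) (nat_lit 0) (XT.lf (nat_lit 0) (nat_lit 20706468803) (nat_lit 152) (nat_lit 12536177479) (nat_lit 0) (nat_lit 12155721104) (nat_lit 5) (nat_lit 5) (nat_lit 7) (nat_lit 4) (nat_lit 5) (nat_lit 4) (nat_lit 333) (nat_lit 242) (nat_lit 205)) (XT.lf (nat_lit 0) (nat_lit 24869841843) (nat_lit 152) (nat_lit 6375535330) (nat_lit 0) (nat_lit 16238963097) (nat_lit 5) (nat_lit 5) (nat_lit 7) (nat_lit 4) (nat_lit 5) (nat_lit 4) (nat_lit 334) (nat_lit 242) (nat_lit 204)))) (XT.nd (nat_lit 78) (nat_lit 0) (nat_lit 0) (XT.lf (nat_lit 0) (nat_lit 15074025) (nat_lit 76) (nat_lit 29184424366) (nat_lit 76) (nat_lit 20477230337) (nat_lit 4) (nat_lit 4) (nat_lit 5) (nat_lit 5) (nat_lit 5) (nat_lit 4) (nat_lit 335) (nat_lit 242) (nat_lit 203)) (XT.nd (nat_lit 78) (nat_lit 0) (nat_lit 0) (XT.lf (nat_lit 0) (nat_lit 6869277568) (nat_lit 76) (nat_lit 26943011657) (nat_lit 76) (nat_lit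 18163136405) (nat_lit 4) (nat_lit 4) (nat_lit 5) (nat_lit 5) (nat_lit 5) (nat_lit 4) (nat_lit 336) (nat_lit 242) (nat_lit 202)) (XT.lf (nat_lit 0) (nat_lit 13992590839) (nat_lit 76) (nat_lit 24623775124) (nat_lit 76) (nat_lit 15774679660) (nat_lit 4) (nat_lit 4) (nat_lit 5) (nat_lit 5) (nat_lit 5) (nat_lit 4) (nat_lit 337) (nat_lit 242) (nat_lit 201))))))))
noncomputable def xc58 : XT := (XT.nd (nat_lit 1560) (nat_lit 76) (nat_lit 0) (XT.nd (nat_lit 780) (nat_lit 0) (nat_lit 0) (XT.nd (nat_lit 390) (nat_lit 152) (nat_lit 0) (XT.nd (nat_lit 156) (nat_lit 0) (nat_lit 0) (XT.nd (nat_lit 78) (nat_lit 0) (nat_lit 0) (XT.lf (nat_lit 0) (nat_lit 21401974109) (nat_lit 76) (nat_lit 22221192776) (nat_lit 76) (nat_lit 13306173301) (nat_lit 4) (nat_lit 4) (nat_lit 5) (nat_lit 5) (nat_lit 5) (nat_lit 4) (nat_lit 338) (nat_lit 242) (nat_lit 200)) (XT.lf (nat_lit 0) (nat_lit 29115068766) (nat_lit 76)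 (nat_lit 19729544179) (nat_lit 76) (nat_lit 10751739931) (nat_lit 4) (nat_lit 4) (nat_lit 5) (nat_lit 5) (nat_lit 5) (nat_lit 4) (nat_lit 339) (nat_lit 242) (nat_lit 199))) (XT.nd (nat_lit 78) (nat_lit 0) (nat_lit 0) (XT.lf (nat_lit 0) (nat_lit 37150239321) (nat_lit 76) (nat_lit 17142896835) (nat_lit 76) (nat_lit 8105297566) (nat_lit 4) (nat_lit 4) (nat_lit 5) (nat_lit 5) (nat_lit 5) (nat_lit 4) (nat_lit 340) (nat_lit 242) (nat_lit 198)) (XT.nd (nat_lit 78) (nat_lit 0) (nat_lit 0) (XT.lf (nat_lit 0) (nat_lit 45526617132) (nat_lit 76) (nat_lit 14455092062) (nat_lit 76) (nat_lit 5360545153) (nat_lit 4) (nat_lit 4) (nat_lit 5) (nat_lit 5) (nat_lit 5) (nat_lit 4) (nat_lit 341) (nat_lit 242) (nat_lit 197)) (XT.lf (nat_lit 0) (nat_lit 54264145957) (nat_lit 76) (nat_lit 11659730323) (nat_lit 76) (nat_lit 2510947567) (nat_lit 4) (nat_lit 4) (nat_lit 5) (nat_lit 5) (nat_lit 5) (nat_lit 4) (nat_lit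 342) (nat_lit 242) (nat_lit 196))))) (XT.nd (nat_lit 156) (nat_lit 76) (nat_lit 0) (XT.nd (nat_lit 78) (nat_lit 0) (nat_lit 0) (XT.lf (nat_lit 0) (nat_lit 435868177) (nat_lit 152) (nat_lit 8306906180) (nat_lit 76) (nat_lit 62940379620) (nat_lit 3) (nat_lit 5) (nat_lit 5) (nat_lit 5) (nat_lit 4) (nat_lit 4) (nat_lit 343) (nat_lit 242) (nat_lit 195)) (XT.lf (nat_lit 0) (nat_lit 3417199873) (nat_lit 152) (nat_lit 2244369715) (nat_lit 76) (nat_lit 69431708817) (nat_lit 3) (nat_lit 5) (nat_lit 5) (nat_lit 5) (nat_lit 4) (nat_lit 4) (nat_lit 344) (nat_lit 242) (nat_lit 194))) (XT.nd (nat_lit 78) (nat_lit 0) (nat_lit 0) (XT.lf (nat_lit 0) (nat_lit 4205160437) (nat_lit 76) (nat_lit 2381005834) (nat_lit 152) (nat_lit 72085827634) (nat_lit 2) (nat_lit 5) (nat_lit 3) (nat_lit 5) (nat_lit 4) (nat_lit 4) (nat_lit 345) (nat_lit 242) (nat_lit 193)) (XT.nd (nat_lit 78) (nat_lit 0) (nat_lit 0) (XT.lf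 (nat_lit 0) (nat_lit 9941879304) (nat_lit 152) (nat_lit 71440770363) (nat_lit 0) (nat_lit 1045593223) (nat_lit 2) (nat_lit 5) (nat_lit 4) (nat_lit 4) (nat_lit 2) (nat_lit 4) (nat_lit 346) (nat_lit 242) (nat_lit 192)) (XT.lf (nat_lit 0) (nat_lit 13478753881) (nat_lit 152) (nat_lit 68350897497) (nat_lit 0) (nat_lit 4541996175) (nat_lit 2) (nat_lit 5) (nat_lit 4) (nat_lit 4) (nat_lit 2) (nat_lit 4) (nat_lit 347) (nat_lit 242) (nat_lit 191)))))) (XT.nd (nat_lit 390) (nat_lit 0) (nat_lit 0) (XT.nd (nat_lit 156) (nat_lit 0) (nat_lit 0) (XT.nd (nat_lit 78) (nat_lit 0) (nat_lit 0) (XT.lf (nat_lit 0) (nat_lit 17168036958) (nat_lit 152) (nat_lit 65152683856) (nat_lit 0) (nat_lit 8192734849) (nat_lit 2) (nat_lit 5) (nat_lit 4) (nat_lit 4) (nat_lit 2) (nat_lit 4) (nat_lit 348) (nat_lit 242) (nat_lit 190)) (XT.lf (nat_lit 0) (nat_lit 21018512543) (nat_lit 152) (nat_lit 61838514646) (nat_lit 0) (nat_lit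 12006501478) (nat_lit 2) (nat_lit 5) (nat_lit 4) (nat_lit 4) (nat_lit 2) (nat_lit 4) (nat_lit 349) (nat_lit 242) (nat_lit 189))) (XT.nd (nat_lit 78) (nat_lit 0) (nat_lit 0) (XT.lf (nat_lit 0) (nat_lit 25039348435) (nat_lit 152) (nat_lit 58400498987) (nat_lit 0) (nat_lit 15992376459) (nat_lit 2) (nat_lit 5) (nat_lit 4) (nat_lit 4) (nat_lit 2) (nat_lit 4) (nat_lit 350) (nat_lit 242) (nat_lit 188)) (XT.nd (nat_lit 78) (nat_lit 0) (nat_lit 0) (XT.lf (nat_lit 0) (nat_lit 29240118052) (nat_lit 152) (nat_lit 54830451129) (nat_lit 0) (nat_lit 20159849971) (nat_lit 2) (nat_lit 5) (nat_lit 4) (nat_lit 4) (nat_lit 2) (nat_lit 4) (nat_lit 351) (nat_lit 242) (nat_lit 187)) (XT.lf (nat_lit 0) (nat_lit 33630823228) (nat_lit 152) (nat_lit 51119870957) (nat_lit 0) (nat_lit 24518844569) (nat_lit 2) (nat_lit 5) (nat_lit 4) (nat_lit 4) (nat_lit 2) (nat_lit 4) (nat_lit 352) (nat_lit 242) (nat_lit 186)))))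 (XT.nd (nat_lit 156) (nat_lit 0) (nat_lit 0) (XT.nd (nat_lit 78) (nat_lit 0) (nat_lit 0) (XT.lf (nat_lit 0) (nat_lit 38221918021) (nat_lit 152) (nat_lit 47259923757) (nat_lit 0) (nat_lit 29079738814) (nat_lit 2) (nat_lit 5) (nat_lit 4) (nat_lit 4) (nat_lit 2) (nat_lit 4) (nat_lit 353) (nat_lit 242) (nat_lit 185)) (XT.lf (nat_lit 0) (nat_lit 43024333610) (nat_lit 152) (nat_lit 43241419178) (nat_lit 0) (nat_lit 33853391975) (nat_lit 2) (nat_lit 5) (nat_lit 4) (nat_lit 4) (nat_lit 2) (nat_lit 4) (nat_lit 354) (nat_lit 242) (nat_lit 184))) (XT.nd (nat_lit 78) (nat_lit 0) (nat_lit 0) (XT.lf (nat_lit 0) (nat_lit 48049504318) (nat_lit 152) (nat_lit 39054789351) (nat_lit 0) (nat_lit 38851169895) (nat_lit 2) (nat_lit 5) (nat_lit 4) (nat_lit 4) (nat_lit 2) (nat_lit 4) (nat_lit 355) (nat_lit 242) (nat_lit 183)) (XT.nd (nat_lit 78) (nat_lit 0) (nat_lit 0) (XT.lf (nat_lit 0) (nat_lit 53309394837)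 (nat_lit 152) (nat_lit 34690066112) (nat_lit 0) (nat_lit 44084972044) (nat_lit 2) (nat_lit 5) (nat_lit 4) (nat_lit 4) (nat_lit 2) (nat_lit 4) (nat_lit 356) (nat_lit 242) (nat_lit 182)) (XT.lf (nat_lit 0) (nat_lit 58816528716) (nat_lit 152) (nat_lit 30136857261) (nat_lit 0) (nat_lit 49567259856) (nat_lit 2) (nat_lit 5) (nat_lit 4) (nat_lit 4) (nat_lit 2) (nat_lit 4) (nat_lit 357) (nat_lit 242) (nat_lit 181))))))) (XT.nd (nat_lit 780) (nat_lit 0) (nat_lit 0) (XT.nd (nat_lit 390) (nat_lit 76) (nat_lit 0) (XT.nd (nat_lit 156) (nat_lit 0) (nat_lit 0) (XT.nd (nat_lit 78) (nat_lit 0) (nat_lit 0) (XT.lf (nat_lit 0) (nat_lit 64584018178) (nat_lit 152) (nat_lit 25384321825) (nat_lit 0) (nat_lit 55311086397) (nat_lit 2) (nat_lit 5) (nat_lit 4) (nat_lit 4) (nat_lit 2) (nat_lit 4) (nat_lit 358) (nat_lit 242) (nat_lit 180)) (XT.lf (nat_lit 0) (nat_lit 70625595341) (nat_lit 152) (nat_lit 20421144244)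 (nat_lit 0) (nat_lit 61330127446) (nat_lit 2) (nat_lit 5) (nat_lit 4) (nat_lit 4) (nat_lit 2) (nat_lit 4) (nat_lit 359) (nat_lit 242) (nat_lit 179))) (XT.nd (nat_lit 78) (nat_lit 0) (nat_lit 0) (XT.lf (nat_lit 0) (nat_lit 76955644912) (nat_lit 152) (nat_lit 15235507428) (nat_lit 0) (nat_lit 67638714051) (nat_lit 2) (nat_lit 5) (nat_lit 4) (nat_lit 4) (nat_lit 2) (nat_lit 4) (nat_lit 360) (nat_lit 242) (nat_lit 178)) (XT.nd (nat_lit 78) (nat_lit 0) (nat_lit 0) (XT.lf (nat_lit 0) (nat_lit 83589238439) (nat_lit 152) (nat_lit 9815064622) (nat_lit 0) (nat_lit 74251866658) (nat_lit 2) (nat_lit 5) (nat_lit 4) (nat_lit 4) (nat_lit 2) (nat_lit 4) (nat_lit 361) (nat_lit 242) (nat_lit 177)) (XT.lf (nat_lit 0) (nat_lit 90542170192) (nat_lit 152) (nat_lit 4146910012) (nat_lit 0) (nat_lit 81185330867) (nat_lit 2) (nat_lit 5) (nat_lit 4) (nat_lit 4) (nat_lit 2) (nat_lit 4) (nat_lit 362) (nat_lit 242)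 (nat_lit 176))))) (XT.nd (nat_lit 156) (nat_lit 0) (nat_lit 0) (XT.nd (nat_lit 78) (nat_lit 0) (nat_lit 0) (XT.lf (nat_lit 0) (nat_lit 1841387923) (nat_lit 76) (nat_lit 96018356072) (nat_lit 76) (nat_lit 86642976230) (nat_lit 1) (nat_lit 4) (nat_lit 2) (nat_lit 5) (nat_lit 2) (nat_lit 4) (nat_lit 363) (nat_lit 242) (nat_lit 175)) (XT.lf (nat_lit 0) (nat_lit 8251229858) (nat_lit 76) (nat_lit 97350661480) (nat_lit 76) (nat_lit 87957624002) (nat_lit 1) (nat_lit 4) (nat_lit 2) (nat_lit 5) (nat_lit 2) (nat_lit 4) (nat_lit 364) (nat_lit 242) (nat_lit 174))) (XT.nd (nat_lit 78) (nat_lit 0) (nat_lit 0) (XT.lf (nat_lit 0) (nat_lit 14960761748) (nat_lit 76) (nat_lit 98759398511) (nat_lit 76) (nat_lit 89349544238) (nat_lit 1) (nat_lit 4) (nat_lit 2) (nat_lit 5) (nat_lit 2) (nat_lit 4) (nat_lit 365) (nat_lit 242) (nat_lit 173)) (XT.nd (nat_lit 78) (nat_lit 0) (nat_lit 0) (XT.lf (nat_lit 0) (nat_lit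 21985958668) (nat_lit 76) (nat_lit 100247921302) (nat_lit 76) (nat_lit 90822051032) (nat_lit 1) (nat_lit 4) (nat_lit 2) (nat_lit 5) (nat_lit 2) (nat_lit 4) (nat_lit 366) (nat_lit 242) (nat_lit 172)) (XT.lf (nat_lit 0) (nat_lit 29343547278) (nat_lit 76) (nat_lit 101819773954) (nat_lit 76) (nat_lit 92378650355) (nat_lit 1) (nat_lit 4) (nat_lit 2) (nat_lit 5) (nat_lit 2) (nat_lit 4) (nat_lit 367) (nat_lit 242) (nat_lit 171)))))) (XT.nd (nat_lit 390) (nat_lit 0) (nat_lit 0) (XT.nd (nat_lit 156) (nat_lit 0) (nat_lit 0) (XT.nd (nat_lit 78) (nat_lit 0) (nat_lit 0) (XT.lf (nat_lit 0) (nat_lit 37051045646) (nat_lit 76) (nat_lit 103478698973) (nat_lit 76) (nat_lit 94023048394) (nat_lit 1) (nat_lit 4) (nat_lit 2) (nat_lit 5) (nat_lit 2) (nat_lit 4) (nat_lit 368) (nat_lit 242) (nat_lit 170)) (XT.lf (nat_lit 0) (nat_lit 45126804959) (nat_lit 76) (nat_lit 105228646182) (nat_lit 76) (nat_lit 95759160383)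 (nat_lit 1) (nat_lit 4) (nat_lit 2) (nat_lit 5) (nat_lit 2) (nat_lit 4) (nat_lit 369) (nat_lit 242) (nat_lit 169))) (XT.nd (nat_lit 78) (nat_lit 0) (nat_lit 0) (XT.lf (nat_lit 0) (nat_lit 53590053214) (nat_lit 76) (nat_lit 107073782120) (nat_lit 76) (nat_lit 97591119922) (nat_lit 1) (nat_lit 4) (nat_lit 2) (nat_lit 5) (nat_lit 2) (nat_lit 4) (nat_lit 370) (nat_lit 242) (nat_lit 168)) (XT.nd (nat_lit 78) (nat_lit 0) (nat_lit 0) (XT.lf (nat_lit 0) (nat_lit 62460941004) (nat_lit 76) (nat_lit 109018499970) (nat_lit 76) (nat_lit 99523288819) (nat_lit 1) (nat_lit 4) (nat_lit 2) (nat_lit 5) (nat_lit 2) (nat_lit 4) (nat_lit 371) (nat_lit 242) (nat_lit 167)) (XT.lf (nat_lit 0) (nat_lit 71760589489) (nat_lit 76) (nat_lit 111067430010) (nat_lit 76) (nat_lit 101560267477) (nat_lit 1) (nat_lit 4) (nat_lit 2) (nat_lit 5) (nat_lit 2) (nat_lit 4) (nat_lit 372) (nat_lit 242) (nat_lit 166))))) (XT.nd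 (nat_lit 234) (nat_lit 0) (nat_lit 0) (XT.nd (nat_lit 78) (nat_lit 0) (nat_lit 0) (XT.lf (nat_lit 0) (nat_lit 81511140690) (nat_lit 76) (nat_lit 113225450647) (nat_lit 76) (nat_lit 103706905844) (nat_lit 1) (nat_lit 4) (nat_lit 2) (nat_lit 5) (nat_lit 2) (nat_lit 4) (nat_lit 373) (nat_lit 242) (nat_lit 165)) (XT.nd (nat_lit 78) (nat_lit 0) (nat_lit 0) (XT.lf (nat_lit 0) (nat_lit 91735810204) (nat_lit 76) (nat_lit 115497700025) (nat_lit 76) (nat_lit 105968314965) (nat_lit 1) (nat_lit 4) (nat_lit 2) (nat_lit 5) (nat_lit 2) (nat_lit 4) (nat_lit 374) (nat_lit 242) (nat_lit 164)) (XT.lf (nat_lit 0) (nat_lit 102458942484) (nat_lit 76) (nat_lit 117889588260) (nat_lit 76) (nat_lit 108349879147) (nat_lit 1) (nat_lit 4) (nat_lit 2) (nat_lit 5) (nat_lit 2) (nat_lit 4) (nat_lit 375) (nat_lit 242) (nat_lit 163)))) (XT.nd (nat_lit 78) (nat_lit 0) (nat_lit 0) (XT.lf (nat_lit 0) (nat_lit 113706068796)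 (nat_lit 76) (nat_lit 120406810326) (nat_lit 76) (nat_lit 110857268781) (nat_lit 1) (nat_lit 4) (nat_lit 2) (nat_lit 5) (nat_lit 2) (nat_lit 4) (nat_lit 376) (nat_lit 242) (nat_lit 162)) (XT.nd (nat_lit 78) (nat_lit 0) (nat_lit 0) (XT.lf (nat_lit 0) (nat_lit 125503968012) (nat_lit 76) (nat_lit 123055359608) (nat_lit 76) (nat_lit 113496453841) (nat_lit 1) (nat_lit 4) (nat_lit 2) (nat_lit 5) (nat_lit 2) (nat_lit 4) (nat_lit 377) (nat_lit 242) (nat_lit 161)) (XT.lf (nat_lit 0) (nat_lit 137880730369) (nat_lit 76) (nat_lit 125841542175) (nat_lit 76) (nat_lit 116273718103) (nat_lit 1) (nat_lit 4) (nat_lit 2) (nat_lit 5) (nat_lit 2) (nat_lit 4) (nat_lit 378) (nat_lit 242) (nat_lit 160))))))))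
noncomputable def xc59 : XT := (XT.nd (nat_lit 34554) (nat_lit 0) (nat_lit 532) (XT.nd (nat_lit 780) (nat_lit 0) (nat_lit 0) (XT.nd (nat_lit 390) (nat_lit 0) (nat_lit 0) (XT.nd (nat_lit 156) (nat_lit 0) (nat_lit 0) (XT.nd (nat_lit 78) (nat_lit 0) (nat_lit 0) (XT.lf (nat_lit 0) (nat_lit 150865824349) (nat_lit 76) (nat_lit 128771991797) (nat_lit 76) (nat_lit 119195674100) (nat_lit 1) (nat_lit 4) (nat_lit 2) (nat_lit 5) (nat_lit 2) (nat_lit 4) (nat_lit 379) (nat_lit 242) (nat_lit 159)) (XT.lf (nat_lit 0) (nat_lit 164490166841) (nat_lit 76) (nat_lit 131853685733) (nat_lit 76) (nat_lit 122269278870) (nat_lit 1) (nat_lit 4) (nat_lit 2) (nat_lit 5) (nat_lit 2) (nat_lit 4) (nat_lit 380) (nat_lit 242) (nat_lit 158))) (XT.nd (nat_lit 78) (nat_lit 0) (nat_lit 0) (XT.lf (nat_lit 0) (nat_lit 178786196757) (nat_lit 76) (nat_lit 135093961350) (nat_lit 76) (nat_lit 125501850519) (nat_lit 1) (nat_lit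 4) (nat_lit 2) (nat_lit 5) (nat_lit 2) (nat_lit 4) (nat_lit 381) (nat_lit 242) (nat_lit 157)) (XT.nd (nat_lit 78) (nat_lit 0) (nat_lit 0) (XT.lf (nat_lit 0) (nat_lit 193787952263) (nat_lit 76) (nat_lit 138500533591) (nat_lit 76) (nat_lit 128901085647) (nat_lit 1) (nat_lit 4) (nat_lit 2) (nat_lit 5) (nat_lit 2) (nat_lit 4) (nat_lit 382) (nat_lit 242) (nat_lit 156)) (XT.lf (nat_lit 0) (nat_lit 209531151825) (nat_lit 76) (nat_lit 142081513341) (nat_lit 76) (nat_lit 132475077672) (nat_lit 1) (nat_lit 4) (nat_lit 2) (nat_lit 5) (nat_lit 2) (nat_lit 4) (nat_lit 383) (nat_lit 242) (nat_lit 155))))) (XT.nd (nat_lit 156) (nat_lit 0) (nat_lit 0) (XT.nd (nat_lit 78) (nat_lit 0) (nat_lit 0) (XT.lf (nat_lit 0) (nat_lit 226053279251) (nat_lit 76) (nat_lit 145845426743) (nat_lit 76) (nat_lit 136232336096) (nat_lit 1) (nat_lit 4) (nat_lit 2) (nat_lit 5) (nat_lit 2) (nat_lit 4) (nat_lit 384) (nat_lit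 242) (nat_lit 154)) (XT.lf (nat_lit 0) (nat_lit 243393672940) (nat_lit 76) (nat_lit 149801235495) (nat_lit 76) (nat_lit 140181806775) (nat_lit 1) (nat_lit 4) (nat_lit 2) (nat_lit 5) (nat_lit 2) (nat_lit 4) (nat_lit 385) (nat_lit 242) (nat_lit 153))) (XT.nd (nat_lit 78) (nat_lit 0) (nat_lit 0) (XT.lf (nat_lit 0) (nat_lit 261593619543) (nat_lit 76) (nat_lit 153958358190) (nat_lit 76) (nat_lit 144332893210) (nat_lit 1) (nat_lit 4) (nat_lit 2) (nat_lit 5) (nat_lit 2) (nat_lit 4) (nat_lit 386) (nat_lit 242) (nat_lit 152)) (XT.nd (nat_lit 78) (nat_lit 0) (nat_lit 0) (XT.lf (nat_lit 0) (nat_lit 280696452266) (nat_lit 76) (nat_lit 158326692739) (nat_lit 76) (nat_lit 148695478939) (nat_lit 1) (nat_lit 4) (nat_lit 2) (nat_lit 5) (nat_lit 2) (nat_lit 4) (nat_lit 387) (nat_lit 242) (nat_lit 151)) (XT.lf (nat_lit 0) (nat_lit 300747654045) (nat_lit 76) (nat_lit 162916639938) (nat_lit 76) (nat_lit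 153279951072) (nat_lit 1) (nat_lit 4) (nat_lit 2) (nat_lit 5) (nat_lit 2) (nat_lit 4) (nat_lit 388) (nat_lit 242) (nat_lit 150)))))) (XT.nd (nat_lit 33384) (nat_lit 0) (nat_lit 1748) (XT.nd (nat_lit 156) (nat_lit 0) (nat_lit 0) (XT.nd (nat_lit 78) (nat_lit 0) (nat_lit 0) (XT.lf (nat_lit 0) (nat_lit 321794965837) (nat_lit 76) (nat_lit 167739128233) (nat_lit 76) (nat_lit 158097225018) (nat_lit 1) (nat_lit 4) (nat_lit 2) (nat_lit 5) (nat_lit 2) (nat_lit 4) (nat_lit 389) (nat_lit 242) (nat_lit 149)) (XT.lf (nat_lit 0) (nat_lit 343888500287) (nat_lit 76) (nat_lit 172805639739) (nat_lit 76) (nat_lit 163158770478) (nat_lit 1) (nat_lit 4) (nat_lit 2) (nat_lit 5) (nat_lit 2) (nat_lit 4) (nat_lit 390) (nat_lit 242) (nat_lit 148))) (XT.nd (nat_lit 33072) (nat_lit 0) (nat_lit 2280) (XT.lf (nat_lit 0) (nat_lit 367080861051) (nat_lit 76) (nat_lit 178128237579) (nat_lit 76) (nat_lit 168476638750) (nat_lit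 1) (nat_lit 4) (nat_lit 2) (nat_lit 5) (nat_lit 2) (nat_lit 4) (nat_lit 391) (nat_lit 242) (nat_lit 147)) (XT.nd (nat_lit 78) (nat_lit 228) (nat_lit 0) (XT.lf (nat_lit 0) (nat_lit 4116939614) (nat_lit 228) (nat_lit 573652377) (nat_lit 228) (nat_lit 573652377) (nat_lit 34) (nat_lit 4) (nat_lit 37) (nat_lit 5) (nat_lit 37) (nat_lit 4) (nat_lit 294) (nat_lit 243) (nat_lit 243)) (XT.lf (nat_lit 0) (nat_lit 2774000396) (nat_lit 228) (nat_lit 5986556992) (nat_lit 0) (nat_lit 2054022309) (nat_lit 31) (nat_lit 5) (nat_lit 34) (nat_lit 4) (nat_lit 31) (nat_lit 4) (nat_lit 295) (nat_lit 243) (nat_lit 242))))) (XT.nd (nat_lit 156) (nat_lit 380) (nat_lit 0) (XT.nd (nat_lit 78) (nat_lit 0) (nat_lit 0) (XT.lf (nat_lit 0) (nat_lit 1031335621) (nat_lit 152) (nat_lit 5746169906) (nat_lit 152) (nat_lit 4340498402) (nat_lit 29) (nat_lit 4) (nat_lit 31) (nat_lit 5) (nat_lit 31) (nat_lit 4) (nat_lit 296)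 (nat_lit 243) (nat_lit 241)) (XT.lf (nat_lit 0) (nat_lit 8374944617) (nat_lit 152) (nat_lit 2561401802) (nat_lit 152) (nat_lit 502688948) (nat_lit 29) (nat_lit 4) (nat_lit 31) (nat_lit 5) (nat_lit 31) (nat_lit 4) (nat_lit 297) (nat_lit 243) (nat_lit 240))) (XT.nd (nat_lit 78) (nat_lit 152) (nat_lit 0) (XT.lf (nat_lit 0) (nat_lit 3350223392) (nat_lit 228) (nat_lit 7629295969) (nat_lit 0) (nat_lit 797216730) (nat_lit 26) (nat_lit 5) (nat_lit 29) (nat_lit 4) (nat_lit 26) (nat_lit 4) (nat_lit 298) (nat_lit 243) (nat_lit 239)) (XT.nd (nat_lit 78) (nat_lit 152) (nat_lit 0) (XT.lf (nat_lit 0) (nat_lit 7333840162) (nat_lit 228) (nat_lit 582777800) (nat_lit 0) (nat_lit 4216711829) (nat_lit 26) (nat_lit 5) (nat_lit 29) (nat_lit 4) (nat_lit 26) (nat_lit 4) (nat_lit 299) (nat_lit 243) (nat_lit 238)) (XT.lf (nat_lit 0) (nat_lit 6816233349) (nat_lit 152) (nat_lit 4673700847) (nat_lit 152) (nat_lit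 1019313779) (nat_lit 24) (nat_lit 4) (nat_lit 26) (nat_lit 5) (nat_lit 26) (nat_lit 4) (nat_lit 300) (nat_lit 243) (nat_lit 237))))))) (XT.nd (nat_lit 780) (nat_lit 456) (nat_lit 0) (XT.nd (nat_lit 390) (nat_lit 304) (nat_lit 0) (XT.nd (nat_lit 156) (nat_lit 304) (nat_lit 0) (XT.nd (nat_lit 78) (nat_lit 0) (nat_lit 0) (XT.lf (nat_lit 0) (nat_lit 1484244856) (nat_lit 76) (nat_lit 1272002416) (nat_lit 152) (nat_lit 10150517255) (nat_lit 22) (nat_lit 5) (nat_lit 23) (nat_lit 5) (nat_lit 24) (nat_lit 4) (nat_lit 301) (nat_lit 243) (nat_lit 236)) (XT.lf (nat_lit 0) (nat_lit 6689416034) (nat_lit 152) (nat_lit 4376255395) (nat_lit 0) (nat_lit 2257633594) (nat_lit 22) (nat_lit 5) (nat_lit 24) (nat_lit 4) (nat_lit 22) (nat_lit 4) (nat_lit 302) (nat_lit 243) (nat_lit 235))) (XT.nd (nat_lit 78) (nat_lit 152) (nat_lit 0) (XT.lf (nat_lit 0) (nat_lit 2883533561) (nat_lit 152) (nat_lit 7876996253)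 (nat_lit 152) (nat_lit 3003209723) (nat_lit 20) (nat_lit 4) (nat_lit 22) (nat_lit 5) (nat_lit 22) (nat_lit 4) (nat_lit 303) (nat_lit 243) (nat_lit 234)) (XT.nd (nat_lit 78) (nat_lit 76) (nat_lit 0) (XT.lf (nat_lit 0) (nat_lit 734437601) (nat_lit 228) (nat_lit 3789145723) (nat_lit 76) (nat_lit 9704533660) (nat_lit 19) (nat_lit 5) (nat_lit 22) (nat_lit 5) (nat_lit 20) (nat_lit 4) (nat_lit 304) (nat_lit 243) (nat_lit 233)) (XT.lf (nat_lit 0) (nat_lit 3518854660) (nat_lit 76) (nat_lit 976027391) (nat_lit 152) (nat_lit 10221640928) (nat_lit 18) (nat_lit 5) (nat_lit 19) (nat_lit 5) (nat_lit 20) (nat_lit 4) (nat_lit 305) (nat_lit 243) (nat_lit 232))))) (XT.nd (nat_lit 156) (nat_lit 152) (nat_lit 0) (XT.nd (nat_lit 78) (nat_lit 152) (nat_lit 0) (XT.lf (nat_lit 0) (nat_lit 8434645586) (nat_lit 152) (nat_lit 4148671105) (nat_lit 0) (nat_lit 2646575778) (nat_lit 18) (nat_lit 5) (nat_lit 20) (nat_lit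 4) (nat_lit 18) (nat_lit 4) (nat_lit 306) (nat_lit 243) (nat_lit 231)) (XT.lf (nat_lit 0) (nat_lit 3144695993) (nat_lit 152) (nat_lit 9380519013) (nat_lit 152) (nat_lit 3246127435) (nat_lit 16) (nat_lit 4) (nat_lit 18) (nat_lit 5) (nat_lit 18) (nat_lit 4) (nat_lit 307) (nat_lit 243) (nat_lit 230))) (XT.nd (nat_lit 78) (nat_lit 76) (nat_lit 0) (XT.lf (nat_lit 0) (nat_lit 425659704) (nat_lit 228) (nat_lit 5591619441) (nat_lit 76) (nat_lit 10324274583) (nat_lit 15) (nat_lit 5) (nat_lit 18) (nat_lit 5) (nat_lit 16) (nat_lit 4) (nat_lit 308) (nat_lit 243) (nat_lit 229)) (XT.nd (nat_lit 78) (nat_lit 0) (nat_lit 0) (XT.lf (nat_lit 0) (nat_lit 1609280727) (nat_lit 76) (nat_lit 2482244452) (nat_lit 152) (nat_lit 12850199516) (nat_lit 14) (nat_lit 5) (nat_lit 15) (nat_lit 5) (nat_lit 16) (nat_lit 4) (nat_lit 309) (nat_lit 243) (nat_lit 228)) (XT.lf (nat_lit 0) (nat_lit 7951565930) (nat_lit 152)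 (nat_lit 8408800191) (nat_lit 0) (nat_lit 1211078638) (nat_lit 14) (nat_lit 5) (nat_lit 16) (nat_lit 4) (nat_lit 14) (nat_lit 4) (nat_lit 310) (nat_lit 243) (nat_lit 227)))))) (XT.nd (nat_lit 390) (nat_lit 228) (nat_lit 0) (XT.nd (nat_lit 156) (nat_lit 152) (nat_lit 0) (XT.nd (nat_lit 78) (nat_lit 76) (nat_lit 0) (XT.lf (nat_lit 0) (nat_lit 11945716698) (nat_lit 152) (nat_lit 1356082113) (nat_lit 0) (nat_lit 4933877237) (nat_lit 14) (nat_lit 5) (nat_lit 16) (nat_lit 4) (nat_lit 14) (nat_lit 4) (nat_lit 311) (nat_lit 243) (nat_lit 226)) (XT.lf (nat_lit 0) (nat_lit 6075718170) (nat_lit 76) (nat_lit 10063873391) (nat_lit 76) (nat_lit 2793603292) (nat_lit 13) (nat_lit 4) (nat_lit 14) (nat_lit 5) (nat_lit 14) (nat_lit 4) (nat_lit 312) (nat_lit 243) (nat_lit 225))) (XT.nd (nat_lit 78) (nat_lit 76) (nat_lit 0) (XT.lf (nat_lit 0) (nat_lit 778324382) (nat_lit 152) (nat_lit 5920829530) (nat_lit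 76) (nat_lit 12969378183) (nat_lit 12) (nat_lit 5) (nat_lit 14) (nat_lit 5) (nat_lit 13) (nat_lit 4) (nat_lit 313) (nat_lit 243) (nat_lit 224)) (XT.nd (nat_lit 78) (nat_lit 0) (nat_lit 0) (XT.lf (nat_lit 0) (nat_lit 1194613067) (nat_lit 76) (nat_lit 3169002439) (nat_lit 152) (nat_lit 16078364658) (nat_lit 11) (nat_lit 5) (nat_lit 12) (nat_lit 5) (nat_lit 13) (nat_lit 4) (nat_lit 314) (nat_lit 243) (nat_lit 223)) (XT.lf (nat_lit 0) (nat_lit 8149213004) (nat_lit 152) (nat_lit 12549010297) (nat_lit 0) (nat_lit 554888411) (nat_lit 11) (nat_lit 5) (nat_lit 13) (nat_lit 4) (nat_lit 11) (nat_lit 4) (nat_lit 315) (nat_lit 243) (nat_lit 222))))) (XT.nd (nat_lit 234) (nat_lit 152) (nat_lit 0) (XT.nd (nat_lit 78) (nat_lit 76) (nat_lit 0) (XT.lf (nat_lit 0) (nat_lit 12091023687) (nat_lit 152) (nat_lit 5721277717) (nat_lit 0) (nat_lit 4294211928) (nat_lit 11) (nat_lit 5) (nat_lit 13) (nat_lit 4)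 (nat_lit 11) (nat_lit 4) (nat_lit 316) (nat_lit 243) (nat_lit 221)) (XT.nd (nat_lit 78) (nat_lit 0) (nat_lit 0) (XT.lf (nat_lit 0) (nat_lit 1344599747) (nat_lit 76) (nat_lit 14825349033) (nat_lit 76) (nat_lit 6835692354) (nat_lit 10) (nat_lit 4) (nat_lit 11) (nat_lit 5) (nat_lit 11) (nat_lit 4) (nat_lit 317) (nat_lit 243) (nat_lit 220)) (XT.lf (nat_lit 0) (nat_lit 8818482906) (nat_lit 76) (nat_lit 11651869441) (nat_lit 76) (nat_lit 3478550933) (nat_lit 10) (nat_lit 4) (nat_lit 11) (nat_lit 5) (nat_lit 11) (nat_lit 4) (nat_lit 318) (nat_lit 243) (nat_lit 219)))) (XT.nd (nat_lit 78) (nat_lit 152) (nat_lit 0) (XT.lf (nat_lit 0) (nat_lit 16528995440) (nat_lit 76) (nat_lit 8381199332) (nat_lit 76) (nat_lit 32964796) (nat_lit 10) (nat_lit 4) (nat_lit 11) (nat_lit 5) (nat_lit 11) (nat_lit 4) (nat_lit 319) (nat_lit 243) (nat_lit 218)) (XT.nd (nat_lit 78) (nat_lit 76) (nat_lit 0) (XT.lf (nat_lit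 0) (nat_lit 3396951282) (nat_lit 152) (nat_lit 1551071099) (nat_lit 76) (nat_lit 21040015416) (nat_lit 9) (nat_lit 5) (nat_lit 11) (nat_lit 5) (nat_lit 10) (nat_lit 4) (nat_lit 320) (nat_lit 243) (nat_lit 217)) (XT.lf (nat_lit 0) (nat_lit 5710743553) (nat_lit 76) (nat_lit 1305948532) (nat_lit 152) (nat_lit 20067513886) (nat_lit 8) (nat_lit 5) (nat_lit 9) (nat_lit 5) (nat_lit 10) (nat_lit 4) (nat_lit 321) (nat_lit 243) (nat_lit 216))))))))
noncomputable def xc60 : XT := (XT.nd (nat_lit 1560) (nat_lit 152) (nat_lit 0) (XT.nd (nat_lit 780) (nat_lit 76) (nat_lit 0) (XT.nd (nat_lit 390) (nat_lit 152) (nat_lit 0) (XT.nd (nat_lit 156) (nat_lit 76) (nat_lit 0) (XT.nd (nat_lit 78) (nat_lit 0) (nat_lit 0) (XT.lf (nat_lit 0) (nat_lit 10814207050) (nat_lit 152) (nat_lit 15011328295) (nat_lit 0) (nat_lit 2409850608) (nat_lit 8) (nat_lit 5) (nat_lit 10) (nat_lit 4) (nat_lit 8) (nat_lit 4) (nat_lit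 322) (nat_lit 243) (nat_lit 215)) (XT.lf (nat_lit 0) (nat_lit 14757075082) (nat_lit 152) (nat_lit 8473649348) (nat_lit 0) (nat_lit 6215667355) (nat_lit 8) (nat_lit 5) (nat_lit 10) (nat_lit 4) (nat_lit 8) (nat_lit 4) (nat_lit 323) (nat_lit 243) (nat_lit 214))) (XT.nd (nat_lit 78) (nat_lit 76) (nat_lit 0) (XT.lf (nat_lit 0) (nat_lit 18834294446) (nat_lit 152) (nat_lit 1724470158) (nat_lit 0) (nat_lit 10162361687) (nat_lit 8) (nat_lit 5) (nat_lit 10) (nat_lit 4) (nat_lit 8) (nat_lit 4) (nat_lit 324) (nat_lit 243) (nat_lit 213)) (XT.nd (nat_lit 78) (nat_lit 0) (nat_lit 0) (XT.lf (nat_lit 0) (nat_lit 5425942803) (nat_lit 76) (nat_lit 17714344178) (nat_lit 76) (nat_lit 8918101864) (nat_lit 7) (nat_lit 4) (nat_lit 8) (nat_lit 5) (nat_lit 8) (nat_lit 4) (nat_lit 325) (nat_lit 243) (nat_lit 212)) (XT.lf (nat_lit 0) (nat_lit 12885629286) (nat_lit 76) (nat_lit 14746512329) (nat_lit 76) (nat_lit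 5831879962) (nat_lit 7) (nat_lit 4) (nat_lit 8) (nat_lit 5) (nat_lit 8) (nat_lit 4) (nat_lit 326) (nat_lit 243) (nat_lit 211))))) (XT.nd (nat_lit 156) (nat_lit 76) (nat_lit 0) (XT.nd (nat_lit 78) (nat_lit 76) (nat_lit 0) (XT.lf (nat_lit 0) (nat_lit 20615331679) (nat_lit 76) (nat_lit 11677407526) (nat_lit 76) (nat_lit 2650022728) (nat_lit 7) (nat_lit 4) (nat_lit 8) (nat_lit 5) (nat_lit 8) (nat_lit 4) (nat_lit 327) (nat_lit 243) (nat_lit 210)) (XT.lf (nat_lit 0) (nat_lit 614720259) (nat_lit 152) (nat_lit 7874591533) (nat_lit 76) (nat_lit 28008323190) (nat_lit 6) (nat_lit 5) (nat_lit 8) (nat_lit 5) (nat_lit 7) (nat_lit 4) (nat_lit 328) (nat_lit 243) (nat_lit 209))) (XT.nd (nat_lit 78) (nat_lit 76) (nat_lit 0) (XT.lf (nat_lit 0) (nat_lit 3902125001) (nat_lit 152) (nat_lit 1237681590) (nat_lit 76) (nat_lit 32990877743) (nat_lit 6) (nat_lit 5) (nat_lit 8) (nat_lit 5) (nat_lit 7) (nat_lit 4)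 (nat_lit 329) (nat_lit 243) (nat_lit 208)) (XT.nd (nat_lit 78) (nat_lit 0) (nat_lit 0) (XT.lf (nat_lit 0) (nat_lit 5826975633) (nat_lit 76) (nat_lit 1568835716) (nat_lit 152) (nat_lit 32447506797) (nat_lit 5) (nat_lit 5) (nat_lit 6) (nat_lit 5) (nat_lit 7) (nat_lit 4) (nat_lit 330) (nat_lit 243) (nat_lit 207)) (XT.lf (nat_lit 0) (nat_lit 11070773220) (nat_lit 152) (nat_lit 28478018977) (nat_lit 0) (nat_lit 2092488136) (nat_lit 5) (nat_lit 5) (nat_lit 7) (nat_lit 4) (nat_lit 5) (nat_lit 4) (nat_lit 331) (nat_lit 243) (nat_lit 206)))))) (XT.nd (nat_lit 390) (nat_lit 0) (nat_lit 0) (XT.nd (nat_lit 156) (nat_lit 76) (nat_lit 0) (XT.nd (nat_lit 78) (nat_lit 0) (nat_lit 0) (XT.lf (nat_lit 0) (nat_lit 14908763961) (nat_lit 152) (nat_lit 22775096352) (nat_lit 0) (nat_lit 5846341277) (nat_lit 5) (nat_lit 5) (nat_lit 7) (nat_lit 4) (nat_lit 5) (nat_lit 4) (nat_lit 332) (nat_lit 243) (nat_lit 205))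 (XT.lf (nat_lit 0) (nat_lit 18894427723) (nat_lit 152) (nat_lit 16869502327) (nat_lit 0) (nat_lit 9751873992) (nat_lit 5) (nat_lit 5) (nat_lit 7) (nat_lit 4) (nat_lit 5) (nat_lit 4) (nat_lit 333) (nat_lit 243) (nat_lit 204))) (XT.nd (nat_lit 78) (nat_lit 76) (nat_lit 0) (XT.lf (nat_lit 0) (nat_lit 23037254182) (nat_lit 152) (nat_lit 10747175965) (nat_lit 0) (nat_lit 13818385167) (nat_lit 5) (nat_lit 5) (nat_lit 7) (nat_lit 4) (nat_lit 5) (nat_lit 4) (nat_lit 334) (nat_lit 243) (nat_lit 203)) (XT.nd (nat_lit 78) (nat_lit 76) (nat_lit 0) (XT.lf (nat_lit 0) (nat_lit 27347107210) (nat_lit 152) (nat_lit 4393540298) (nat_lit 0) (nat_lit 18055556973) (nat_lit 5) (nat_lit 5) (nat_lit 7) (nat_lit 4) (nat_lit 5) (nat_lit 4) (nat_lit 335) (nat_lit 243) (nat_lit 202)) (XT.lf (nat_lit 0) (nat_lit 2279490302) (nat_lit 76) (nat_lit 29590347292) (nat_lit 76) (nat_lit 20229576844) (nat_lit 4) (nat_lit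 4) (nat_lit 5) (nat_lit 5) (nat_lit 5) (nat_lit 4) (nat_lit 336) (nat_lit 243) (nat_lit 201))))) (XT.nd (nat_lit 156) (nat_lit 0) (nat_lit 0) (XT.nd (nat_lit 78) (nat_lit 0) (nat_lit 0) (XT.lf (nat_lit 0) (nat_lit 9368610566) (nat_lit 76) (nat_lit 27287021009) (nat_lit 76) (nat_lit 17860326549) (nat_lit 4) (nat_lit 4) (nat_lit 5) (nat_lit 5) (nat_lit 5) (nat_lit 4) (nat_lit 337) (nat_lit 243) (nat_lit 200)) (XT.lf (nat_lit 0) (nat_lit 16745429067) (nat_lit 76) (nat_lit 24899591279) (nat_lit 76) (nat_lit 15410112047) (nat_lit 4) (nat_lit 4) (nat_lit 5) (nat_lit 5) (nat_lit 5) (nat_lit 4) (nat_lit 338) (nat_lit 243) (nat_lit 199))) (XT.nd (nat_lit 78) (nat_lit 0) (nat_lit 0) (XT.lf (nat_lit 0) (nat_lit 24427509658) (nat_lit 76) (nat_lit 22422373747) (nat_lit 76) (nat_lit 12873099493) (nat_lit 4) (nat_lit 4) (nat_lit 5) (nat_lit 5) (nat_lit 5) (nat_lit 4) (nat_lit 339) (nat_lit 243) (nat_lit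 198)) (XT.nd (nat_lit 78) (nat_lit 0) (nat_lit 0) (XT.lf (nat_lit 0) (nat_lit 32433143007) (nat_lit 76) (nat_lit 19849470276) (nat_lit 76) (nat_lit 10243248382) (nat_lit 4) (nat_lit 4) (nat_lit 5) (nat_lit 5) (nat_lit 5) (nat_lit 4) (nat_lit 340) (nat_lit 243) (nat_lit 197)) (XT.lf (nat_lit 0) (nat_lit 40781390147) (nat_lit 76) (nat_lit 17174754904) (nat_lit 76) (nat_lit 7514297163) (nat_lit 4) (nat_lit 4) (nat_lit 5) (nat_lit 5) (nat_lit 5) (nat_lit 4) (nat_lit 341) (nat_lit 243) (nat_lit 196))))))) (XT.nd (nat_lit 780) (nat_lit 0) (nat_lit 0) (XT.nd (nat_lit 390) (nat_lit 0) (nat_lit 0) (XT.nd (nat_lit 156) (nat_lit 152) (nat_lit 0) (XT.nd (nat_lit 78) (nat_lit 0) (nat_lit 0) (XT.lf (nat_lit 0) (nat_lit 49492127856) (nat_lit 76) (nat_lit 14391859262) (nat_lit 76) (nat_lit 4679748333) (nat_lit 4) (nat_lit 4) (nat_lit 5) (nat_lit 5) (nat_lit 5) (nat_lit 4) (nat_lit 342) (nat_lit 243)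 (nat_lit 195)) (XT.lf (nat_lit 0) (nat_lit 58586095986) (nat_lit 76) (nat_lit 11494157408) (nat_lit 76) (nat_lit 1732852967) (nat_lit 4) (nat_lit 4) (nat_lit 5) (nat_lit 5) (nat_lit 5) (nat_lit 4) (nat_lit 343) (nat_lit 243) (nat_lit 194))) (XT.nd (nat_lit 78) (nat_lit 76) (nat_lit 0) (XT.lf (nat_lit 0) (nat_lit 1290728054) (nat_lit 152) (nat_lit 7162162893) (nat_lit 76) (nat_lit 66772359682) (nat_lit 3) (nat_lit 5) (nat_lit 5) (nat_lit 5) (nat_lit 4) (nat_lit 4) (nat_lit 344) (nat_lit 243) (nat_lit 193)) (XT.nd (nat_lit 78) (nat_lit 76) (nat_lit 0) (XT.lf (nat_lit 0) (nat_lit 4381456503) (nat_lit 152) (nat_lit 870789538) (nat_lit 76) (nat_lit 73555638145) (nat_lit 3) (nat_lit 5) (nat_lit 5) (nat_lit 5) (nat_lit 4) (nat_lit 4) (nat_lit 345) (nat_lit 243) (nat_lit 192)) (XT.lf (nat_lit 0) (nat_lit 5877252628) (nat_lit 76) (nat_lit 1816661129) (nat_lit 152) (nat_lit 74872388068) (nat_lit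 2) (nat_lit 5) (nat_lit 3) (nat_lit 5) (nat_lit 4) (nat_lit 4) (nat_lit 346) (nat_lit 243) (nat_lit 191))))) (XT.nd (nat_lit 156) (nat_lit 0) (nat_lit 0) (XT.nd (nat_lit 78) (nat_lit 0) (nat_lit 0) (XT.lf (nat_lit 0) (nat_lit 11190505539) (nat_lit 152) (nat_lit 73593326754) (nat_lit 0) (nat_lit 1727893920) (nat_lit 2) (nat_lit 5) (nat_lit 4) (nat_lit 4) (nat_lit 2) (nat_lit 4) (nat_lit 347) (nat_lit 243) (nat_lit 190)) (XT.lf (nat_lit 0) (nat_lit 14868436594) (nat_lit 152) (nat_lit 70416554632) (nat_lit 0) (nat_lit 5369116019) (nat_lit 2) (nat_lit 5) (nat_lit 4) (nat_lit 4) (nat_lit 2) (nat_lit 4) (nat_lit 348) (nat_lit 243) (nat_lit 189))) (XT.nd (nat_lit 78) (nat_lit 0) (nat_lit 0) (XT.lf (nat_lit 0) (nat_lit 18708100729) (nat_lit 152) (nat_lit 67122805915) (nat_lit 0) (nat_lit 9173819243) (nat_lit 2) (nat_lit 5) (nat_lit 4) (nat_lit 4) (nat_lit 2) (nat_lit 4) (nat_lit 349) (nat_lit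 243) (nat_lit 188)) (XT.nd (nat_lit 78) (nat_lit 0) (nat_lit 0) (XT.lf (nat_lit 0) (nat_lit 22718640002) (nat_lit 152) (nat_lit 63704238347) (nat_lit 0) (nat_lit 13151062411) (nat_lit 2) (nat_lit 5) (nat_lit 4) (nat_lit 4) (nat_lit 2) (nat_lit 4) (nat_lit 350) (nat_lit 243) (nat_lit 187)) (XT.lf (nat_lit 0) (nat_lit 26909603315) (nat_lit 152) (nat_lit 60152712478) (nat_lit 0) (nat_lit 17310315148) (nat_lit 2) (nat_lit 5) (nat_lit 4) (nat_lit 4) (nat_lit 2) (nat_lit 4) (nat_lit 351) (nat_lit 243) (nat_lit 186)))))) (XT.nd (nat_lit 390) (nat_lit 0) (nat_lit 0) (XT.nd (nat_lit 156) (nat_lit 0) (nat_lit 0) (XT.nd (nat_lit 78) (nat_lit 0) (nat_lit 0) (XT.lf (nat_lit 0) (nat_lit 31290969154) (nat_lit 152) (nat_lit 56459772297) (nat_lit 0) (nat_lit 21661480437) (nat_lit 2) (nat_lit 5) (nat_lit 4) (nat_lit 4) (nat_lit 2) (nat_lit 4) (nat_lit 352) (nat_lit 243) (nat_lit 185)) (XT.lf (nat_lit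 0) (nat_lit 35873169340) (nat_lit 152) (nat_lit 52616625087) (nat_lit 0) (nat_lit 26214918196) (nat_lit 2) (nat_lit 5) (nat_lit 4) (nat_lit 4) (nat_lit 2) (nat_lit 4) (nat_lit 353) (nat_lit 243) (nat_lit 184))) (XT.nd (nat_lit 78) (nat_lit 0) (nat_lit 0) (XT.lf (nat_lit 0) (nat_lit 40667113875) (nat_lit 152) (nat_lit 48614120499) (nat_lit 0) (nat_lit 30981469942) (nat_lit 2) (nat_lit 5) (nat_lit 4) (nat_lit 4) (nat_lit 2) (nat_lit 4) (nat_lit 354) (nat_lit 243) (nat_lit 183)) (XT.nd (nat_lit 78) (nat_lit 0) (nat_lit 0) (XT.lf (nat_lit 0) (nat_lit 45684216913) (nat_lit 152) (nat_lit 44442728760) (nat_lit 0) (nat_lit 35972484610) (nat_lit 2) (nat_lit 5) (nat_lit 4) (nat_lit 4) (nat_lit 2) (nat_lit 4) (nat_lit 355) (nat_lit 243) (nat_lit 182)) (XT.lf (nat_lit 0) (nat_lit 50936423936) (nat_lit 152) (nat_lit 40092517984) (nat_lit 0) (nat_lit 41199845567) (nat_lit 2) (nat_lit 5) (nat_lit 4)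 (nat_lit 4) (nat_lit 2) (nat_lit 4) (nat_lit 356) (nat_lit 243) (nat_lit 181))))) (XT.nd (nat_lit 156) (nat_lit 0) (nat_lit 0) (XT.nd (nat_lit 78) (nat_lit 0) (nat_lit 0) (XT.lf (nat_lit 0) (nat_lit 56436240200) (nat_lit 152) (nat_lit 35553130527) (nat_lit 0) (nat_lit 46675998910) (nat_lit 2) (nat_lit 5) (nat_lit 4) (nat_lit 4) (nat_lit 2) (nat_lit 4) (nat_lit 357) (nat_lit 243) (nat_lit 180)) (XT.lf (nat_lit 0) (nat_lit 62196760505) (nat_lit 152) (nat_lit 30813758323) (nat_lit 0) (nat_lit 52413983100) (nat_lit 2) (nat_lit 5) (nat_lit 4) (nat_lit 4) (nat_lit 2) (nat_lit 4) (nat_lit 358) (nat_lit 243) (nat_lit 179))) (XT.nd (nat_lit 78) (nat_lit 0) (nat_lit 0) (XT.lf (nat_lit 0) (nat_lit 68231700375) (nat_lit 152) (nat_lit 25863117154) (nat_lit 0) (nat_lit 58427460005) (nat_lit 2) (nat_lit 5) (nat_lit 4) (nat_lit 4) (nat_lit 2) (nat_lit 4) (nat_lit 359) (nat_lit 243) (nat_lit 178)) (XT.nd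 (nat_lit 78) (nat_lit 0) (nat_lit 0) (XT.lf (nat_lit 0) (nat_lit 74555428716) (nat_lit 152) (nat_lit 20689419778) (nat_lit 0) (nat_lit 64730747425) (nat_lit 2) (nat_lit 5) (nat_lit 4) (nat_lit 4) (nat_lit 2) (nat_lit 4) (nat_lit 360) (nat_lit 243) (nat_lit 177)) (XT.lf (nat_lit 0) (nat_lit 81183002023) (nat_lit 152) (nat_lit 15280347867) (nat_lit 0) (nat_lit 71338853189) (nat_lit 2) (nat_lit 5) (nat_lit 4) (nat_lit 4) (nat_lit 2) (nat_lit 4) (nat_lit 361) (nat_lit 243) (nat_lit 176))))))))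
noncomputable def xc61 : XT := (XT.nd (nat_lit 1560) (nat_lit 0) (nat_lit 0) (XT.nd (nat_lit 780) (nat_lit 0) (nat_lit 0) (XT.nd (nat_lit 390) (nat_lit 0) (nat_lit 0) (XT.nd (nat_lit 156) (nat_lit 76) (nat_lit 0) (XT.nd (nat_lit 78) (nat_lit 0) (nat_lit 0) (XT.lf (nat_lit 0) (nat_lit 88130200233) (nat_lit 152) (nat_lit 9623022680) (nat_lit 0) (nat_lit 78267510881) (nat_lit 2) (nat_lit 5) (nat_lit 4) (nat_lit 4) (nat_lit 2) (nat_lit 4) (nat_lit 362) (nat_lit 243) (nat_lit 175)) (XT.lf (nat_lit 0) (nat_lit 95413564294) (nat_lit 152) (nat_lit 3703974395) (nat_lit 0) (nat_lit 85533217306) (nat_lit 2) (nat_lit 5) (nat_lit 4) (nat_lit 4) (nat_lit 2) (nat_lit 4) (nat_lit 363) (nat_lit 243) (nat_lit 174))) (XT.nd (nat_lit 78) (nat_lit 0) (nat_lit 0) (XT.lf (nat_lit 0) (nat_lit 2573250032) (nat_lit 76) (nat_lit 100517361160) (nat_lit 76) (nat_lit 90620197377) (nat_lit 1) (nat_lit 4) (nat_lit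 2) (nat_lit 5) (nat_lit 2) (nat_lit 4) (nat_lit 364) (nat_lit 243) (nat_lit 173)) (XT.nd (nat_lit 78) (nat_lit 0) (nat_lit 0) (XT.lf (nat_lit 0) (nat_lit 9273117744) (nat_lit 76) (nat_lit 101930658635) (nat_lit 76) (nat_lit 92017478856) (nat_lit 1) (nat_lit 4) (nat_lit 2) (nat_lit 5) (nat_lit 2) (nat_lit 4) (nat_lit 365) (nat_lit 243) (nat_lit 172)) (XT.lf (nat_lit 0) (nat_lit 16289110685) (nat_lit 76) (nat_lit 103423524704) (nat_lit 76) (nat_lit 93495091596) (nat_lit 1) (nat_lit 4) (nat_lit 2) (nat_lit 5) (nat_lit 2) (nat_lit 4) (nat_lit 366) (nat_lit 243) (nat_lit 171))))) (XT.nd (nat_lit 156) (nat_lit 0) (nat_lit 0) (XT.nd (nat_lit 78) (nat_lit 0) (nat_lit 0) (XT.lf (nat_lit 0) (nat_lit 23637933601) (nat_lit 76) (nat_lit 104999513812) (nat_lit 76) (nat_lit 95056553723) (nat_lit 1) (nat_lit 4) (nat_lit 2) (nat_lit 5) (nat_lit 2) (nat_lit 4) (nat_lit 367) (nat_lit 243) (nat_lit 170))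 (XT.lf (nat_lit 0) (nat_lit 31337083690) (nat_lit 76) (nat_lit 106662378314) (nat_lit 76) (nat_lit 96705583005) (nat_lit 1) (nat_lit 4) (nat_lit 2) (nat_lit 5) (nat_lit 2) (nat_lit 4) (nat_lit 368) (nat_lit 243) (nat_lit 169))) (XT.nd (nat_lit 78) (nat_lit 0) (nat_lit 0) (XT.lf (nat_lit 0) (nat_lit 39404892259) (nat_lit 76) (nat_lit 108416077410) (nat_lit 76) (nat_lit 98446105702) (nat_lit 1) (nat_lit 4) (nat_lit 2) (nat_lit 5) (nat_lit 2) (nat_lit 4) (nat_lit 369) (nat_lit 243) (nat_lit 168)) (XT.nd (nat_lit 78) (nat_lit 0) (nat_lit 0) (XT.lf (nat_lit 0) (nat_lit 47860568379) (nat_lit 76) (nat_lit 110264786575) (nat_lit 76) (nat_lit 100282265915) (nat_lit 1) (nat_lit 4) (nat_lit 2) (nat_lit 5) (nat_lit 2) (nat_lit 4) (nat_lit 370) (nat_lit 243) (nat_lit 167)) (XT.lf (nat_lit 0) (nat_lit 56724244611) (nat_lit 76) (nat_lit 112212907497) (nat_lit 76) (nat_lit 102218435454) (nat_lit 1)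 (nat_lit 4) (nat_lit 2) (nat_lit 5) (nat_lit 2) (nat_lit 4) (nat_lit 371) (nat_lit 243) (nat_lit 166)))))) (XT.nd (nat_lit 390) (nat_lit 0) (nat_lit 0) (XT.nd (nat_lit 156) (nat_lit 0) (nat_lit 0) (XT.nd (nat_lit 78) (nat_lit 0) (nat_lit 0) (XT.lf (nat_lit 0) (nat_lit 66017024945) (nat_lit 76) (nat_lit 114265078559) (nat_lit 76) (nat_lit 104259224246) (nat_lit 1) (nat_lit 4) (nat_lit 2) (nat_lit 5) (nat_lit 2) (nat_lit 4) (nat_lit 372) (nat_lit 243) (nat_lit 165)) (XT.lf (nat_lit 0) (nat_lit 75761035050) (nat_lit 76) (nat_lit 116426185883) (nat_lit 76) (nat_lit 106409491314) (nat_lit 1) (nat_lit 4) (nat_lit 2) (nat_lit 5) (nat_lit 2) (nat_lit 4) (nat_lit 373) (nat_lit 243) (nat_lit 164))) (XT.nd (nat_lit 78) (nat_lit 0) (nat_lit 0) (XT.lf (nat_lit 0) (nat_lit 85979474950) (nat_lit 76) (nat_lit 118701374962) (nat_lit 76) (nat_lit 108674356340) (nat_lit 1) (nat_lit 4) (nat_lit 2) (nat_lit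 5) (nat_lit 2) (nat_lit 4) (nat_lit 374) (nat_lit 243) (nat_lit 163)) (XT.nd (nat_lit 78) (nat_lit 0) (nat_lit 0) (XT.lf (nat_lit 0) (nat_lit 96696674263) (nat_lit 76) (nat_lit 121096062914) (nat_lit 76) (nat_lit 111059211859) (nat_lit 1) (nat_lit 4) (nat_lit 2) (nat_lit 5) (nat_lit 2) (nat_lit 4) (nat_lit 375) (nat_lit 243) (nat_lit 162)) (XT.lf (nat_lit 0) (nat_lit 107938150130) (nat_lit 76) (nat_lit 123615951377) (nat_lit 76) (nat_lit 113569736101) (nat_lit 1) (nat_lit 4) (nat_lit 2) (nat_lit 5) (nat_lit 2) (nat_lit 4) (nat_lit 376) (nat_lit 243) (nat_lit 161))))) (XT.nd (nat_lit 156) (nat_lit 0) (nat_lit 0) (XT.nd (nat_lit 78) (nat_lit 0) (nat_lit 0) (XT.lf (nat_lit 0) (nat_lit 119730667971) (nat_lit 76) (nat_lit 126267040084) (nat_lit 76) (nat_lit 116211906502) (nat_lit 1) (nat_lit 4) (nat_lit 2) (nat_lit 5) (nat_lit 2) (nat_lit 4) (nat_lit 377) (nat_lit 243) (nat_lit 160)) (XT.lf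 (nat_lit 0) (nat_lit 132102305208) (nat_lit 76) (nat_lit 129055641151) (nat_lit 76) (nat_lit 118992013945) (nat_lit 1) (nat_lit 4) (nat_lit 2) (nat_lit 5) (nat_lit 2) (nat_lit 4) (nat_lit 378) (nat_lit 243) (nat_lit 159))) (XT.nd (nat_lit 78) (nat_lit 0) (nat_lit 0) (XT.lf (nat_lit 0) (nat_lit 145082518121) (nat_lit 76) (nat_lit 131988394106) (nat_lit 76) (nat_lit 121916677733) (nat_lit 1) (nat_lit 4) (nat_lit 2) (nat_lit 5) (nat_lit 2) (nat_lit 4) (nat_lit 379) (nat_lit 243) (nat_lit 158)) (XT.nd (nat_lit 78) (nat_lit 0) (nat_lit 0) (XT.lf (nat_lit 0) (nat_lit 158702211979) (nat_lit 76) (nat_lit 135072281693) (nat_lit 76) (nat_lit 124992861353) (nat_lit 1) (nat_lit 4) (nat_lit 2) (nat_lit 5) (nat_lit 2) (nat_lit 4) (nat_lit 380) (nat_lit 243) (nat_lit 157)) (XT.lf (nat_lit 0) (nat_lit 172993814624) (nat_lit 76) (nat_lit 138314646502) (nat_lit 76) (nat_lit 128227889049) (nat_lit 1) (nat_lit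 4) (nat_lit 2) (nat_lit 5) (nat_lit 2) (nat_lit 4) (nat_lit 381) (nat_lit 243) (nat_lit 156))))))) (XT.nd (nat_lit 33618) (nat_lit 0) (nat_lit 1596) (XT.nd (nat_lit 390) (nat_lit 0) (nat_lit 0) (XT.nd (nat_lit 156) (nat_lit 0) (nat_lit 0) (XT.nd (nat_lit 78) (nat_lit 0) (nat_lit 0) (XT.lf (nat_lit 0) (nat_lit 187991353682) (nat_lit 76) (nat_lit 141723208449) (nat_lit 76) (nat_lit 131629463270) (nat_lit 1) (nat_lit 4) (nat_lit 2) (nat_lit 5) (nat_lit 2) (nat_lit 4) (nat_lit 382) (nat_lit 243) (nat_lit 155)) (XT.lf (nat_lit 0) (nat_lit 203730537578) (nat_lit 76) (nat_lit 145306083157) (nat_lit 76) (nat_lit 135205683001) (nat_lit 1) (nat_lit 4) (nat_lit 2) (nat_lit 5) (nat_lit 2) (nat_lit 4) (nat_lit 383) (nat_lit 243) (nat_lit 154))) (XT.nd (nat_lit 78) (nat_lit 0) (nat_lit 0) (XT.lf (nat_lit 0) (nat_lit 220248840561) (nat_lit 76) (nat_lit 149071801281) (nat_lit 76) (nat_lit 138965063051)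 (nat_lit 1) (nat_lit 4) (nat_lit 2) (nat_lit 5) (nat_lit 2) (nat_lit 4) (nat_lit 384) (nat_lit 243) (nat_lit 153)) (XT.nd (nat_lit 78) (nat_lit 0) (nat_lit 0) (XT.lf (nat_lit 0) (nat_lit 237585591923) (nat_lit 76) (nat_lit 153029328816) (nat_lit 76) (nat_lit 142916554326) (nat_lit 1) (nat_lit 4) (nat_lit 2) (nat_lit 5) (nat_lit 2) (nat_lit 4) (nat_lit 385) (nat_lit 243) (nat_lit 152)) (XT.lf (nat_lit 0) (nat_lit 255782069643) (nat_lit 76) (nat_lit 157188088447) (nat_lit 76) (nat_lit 147069565138) (nat_lit 1) (nat_lit 4) (nat_lit 2) (nat_lit 5) (nat_lit 2) (nat_lit 4) (nat_lit 386) (nat_lit 243) (nat_lit 151))))) (XT.nd (nat_lit 156) (nat_lit 0) (nat_lit 0) (XT.nd (nat_lit 78) (nat_lit 0) (nat_lit 0) (XT.lf (nat_lit 0) (nat_lit 274881598669) (nat_lit 76) (nat_lit 161557981983) (nat_lit 76) (nat_lit 151433983607) (nat_lit 1) (nat_lit 4) (nat_lit 2) (nat_lit 5) (nat_lit 2) (nat_lit 4) (nat_lit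 387) (nat_lit 243) (nat_lit 150)) (XT.lf (nat_lit 0) (nat_lit 294929654069) (nat_lit 76) (nat_lit 166149413931) (nat_lit 76) (nat_lit 156020201207) (nat_lit 1) (nat_lit 4) (nat_lit 2) (nat_lit 5) (nat_lit 2) (nat_lit 4) (nat_lit 388) (nat_lit 243) (nat_lit 149))) (XT.nd (nat_lit 78) (nat_lit 0) (nat_lit 0) (XT.lf (nat_lit 0) (nat_lit 315973969309) (nat_lit 76) (nat_lit 170973316273) (nat_lit 76) (nat_lit 160839137502) (nat_lit 1) (nat_lit 4) (nat_lit 2) (nat_lit 5) (nat_lit 2) (nat_lit 4) (nat_lit 389) (nat_lit 243) (nat_lit 148)) (XT.nd (nat_lit 78) (nat_lit 0) (nat_lit 0) (XT.lf (nat_lit 0) (nat_lit 338064649901) (nat_lit 76) (nat_lit 176041174491) (nat_lit 76) (nat_lit 165902266152) (nat_lit 1) (nat_lit 4) (nat_lit 2) (nat_lit 5) (nat_lit 2) (nat_lit 4) (nat_lit 390) (nat_lit 243) (nat_lit 147)) (XT.lf (nat_lit 0) (nat_lit 361254292704) (nat_lit 76) (nat_lit 181365054913) (nat_lit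 76) (nat_lit 171221642224) (nat_lit 1) (nat_lit 4) (nat_lit 2) (nat_lit 5) (nat_lit 2) (nat_lit 4) (nat_lit 391) (nat_lit 243) (nat_lit 146)))))) (XT.nd (nat_lit 390) (nat_lit 532) (nat_lit 0) (XT.nd (nat_lit 156) (nat_lit 380) (nat_lit 0) (XT.nd (nat_lit 78) (nat_lit 228) (nat_lit 0) (XT.lf (nat_lit 0) (nat_lit 1059328303) (nat_lit 228) (nat_lit 2879249264) (nat_lit 0) (nat_lit 1059328303) (nat_lit 37) (nat_lit 5) (nat_lit 40) (nat_lit 4) (nat_lit 37) (nat_lit 4) (nat_lit 292) (nat_lit 244) (nat_lit 244)) (XT.lf (nat_lit 0) (nat_lit 1026752064) (nat_lit 228) (nat_lit 5011566959) (nat_lit 228) (nat_lit 4217791118) (nat_lit 34) (nat_lit 4) (nat_lit 37) (nat_lit 5) (nat_lit 37) (nat_lit 4) (nat_lit 293) (nat_lit 244) (nat_lit 243))) (XT.nd (nat_lit 78) (nat_lit 380) (nat_lit 0) (XT.lf (nat_lit 0) (nat_lit 8122157299) (nat_lit 228) (nat_lit 1979919004) (nat_lit 228) (nat_lit 430166171)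 (nat_lit 34) (nat_lit 4) (nat_lit 37) (nat_lit 5) (nat_lit 37) (nat_lit 4) (nat_lit 294) (nat_lit 244) (nat_lit 242)) (XT.nd (nat_lit 78) (nat_lit 152) (nat_lit 0) (XT.lf (nat_lit 0) (nat_lit 3380261383) (nat_lit 228) (nat_lit 6223394948) (nat_lit 0) (nat_lit 1218612887) (nat_lit 31) (nat_lit 5) (nat_lit 34) (nat_lit 4) (nat_lit 31) (nat_lit 4) (nat_lit 295) (nat_lit 244) (nat_lit 241)) (XT.lf (nat_lit 0) (nat_lit 672999421) (nat_lit 152) (nat_lit 6635617987) (nat_lit 152) (nat_lit 3820928141) (nat_lit 29) (nat_lit 4) (nat_lit 31) (nat_lit 5) (nat_lit 31) (nat_lit 4) (nat_lit 296) (nat_lit 244) (nat_lit 240))))) (XT.nd (nat_lit 234) (nat_lit 304) (nat_lit 0) (XT.nd (nat_lit 78) (nat_lit 228) (nat_lit 0) (XT.lf (nat_lit 0) (nat_lit 7908353834) (nat_lit 152) (nat_lit 3491171951) (nat_lit 152) (nat_lit 54537963) (nat_lit 29) (nat_lit 4) (nat_lit 31) (nat_lit 5) (nat_lit 31) (nat_lit 4)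 (nat_lit 297) (nat_lit 244) (nat_lit 239)) (XT.nd (nat_lit 78) (nat_lit 0) (nat_lit 0) (XT.lf (nat_lit 0) (nat_lit 3547327467) (nat_lit 152) (nat_lit 148423366) (nat_lit 228) (nat_lit 8100159548) (nat_lit 26) (nat_lit 5) (nat_lit 28) (nat_lit 5) (nat_lit 29) (nat_lit 4) (nat_lit 298) (nat_lit 244) (nat_lit 238)) (XT.lf (nat_lit 0) (nat_lit 7612111724) (nat_lit 228) (nat_lit 1306086447) (nat_lit 0) (nat_lit 3237746568) (nat_lit 26) (nat_lit 5) (nat_lit 29) (nat_lit 4) (nat_lit 26) (nat_lit 4) (nat_lit 299) (nat_lit 244) (nat_lit 237)))) (XT.nd (nat_lit 78) (nat_lit 152) (nat_lit 0) (XT.lf (nat_lit 0) (nat_lit 5964384992) (nat_lit 152) (nat_lit 5728674764) (nat_lit 152) (nat_lit 842634624) (nat_lit 24) (nat_lit 4) (nat_lit 26) (nat_lit 5) (nat_lit 26) (nat_lit 4) (nat_lit 300) (nat_lit 244) (nat_lit 236)) (XT.nd (nat_lit 78) (nat_lit 0) (nat_lit 0) (XT.lf (nat_lit 0) (nat_lit 468952914)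 (nat_lit 76) (nat_lit 2380950775) (nat_lit 152) (nat_lit 10087104975) (nat_lit 22) (nat_lit 5) (nat_lit 23) (nat_lit 5) (nat_lit 24) (nat_lit 4) (nat_lit 301) (nat_lit 244) (nat_lit 235)) (XT.lf (nat_lit 0) (nat_lit 6704985021) (nat_lit 152) (nat_lit 5507027495) (nat_lit 0) (nat_lit 1145505074) (nat_lit 22) (nat_lit 5) (nat_lit 24) (nat_lit 4) (nat_lit 22) (nat_lit 4) (nat_lit 302) (nat_lit 244) (nat_lit 234))))))))
noncomputable def xc62 : XT := (XT.nd (nat_lit 1560) (nat_lit 304) (nat_lit 0) (XT.nd (nat_lit 780) (nat_lit 380) (nat_lit 0) (XT.nd (nat_lit 390) (nat_lit 228) (nat_lit 0) (XT.nd (nat_lit 156) (nat_lit 228) (nat_lit 0) (XT.nd (nat_lit 78) (nat_lit 76) (nat_lit 0) (XT.lf (nat_lit 0) (nat_lit 1614477246) (nat_lit 152) (nat_lit 9083928375) (nat_lit 152) (nat_lit 3103492151) (nat_lit 20) (nat_lit 4) (nat_lit 22) (nat_lit 5) (nat_lit 22) (nat_lit 4) (nat_lit 303) (nat_lit 244)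 (nat_lit 233)) (XT.lf (nat_lit 0) (nat_lit 579756601) (nat_lit 228) (nat_lit 5192845930) (nat_lit 76) (nat_lit 8496686720) (nat_lit 19) (nat_lit 5) (nat_lit 22) (nat_lit 5) (nat_lit 20) (nat_lit 4) (nat_lit 304) (nat_lit 244) (nat_lit 232))) (XT.nd (nat_lit 78) (nat_lit 152) (nat_lit 0) (XT.lf (nat_lit 0) (nat_lit 1972271912) (nat_lit 76) (nat_lit 2288917661) (nat_lit 152) (nat_lit 10500508948) (nat_lit 18) (nat_lit 5) (nat_lit 19) (nat_lit 5) (nat_lit 20) (nat_lit 4) (nat_lit 305) (nat_lit 244) (nat_lit 231)) (XT.nd (nat_lit 78) (nat_lit 152) (nat_lit 0) (XT.lf (nat_lit 0) (nat_lit 8126172159) (nat_lit 152) (nat_lit 5813945859) (nat_lit 0) (nat_lit 1338739232) (nat_lit 18) (nat_lit 5) (nat_lit 20) (nat_lit 4) (nat_lit 18) (nat_lit 4) (nat_lit 306) (nat_lit 244) (nat_lit 230)) (XT.lf (nat_lit 0) (nat_lit 1331861735) (nat_lit 152) (nat_lit 10804878276) (nat_lit 152) (nat_lit 3687615091)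 (nat_lit 16) (nat_lit 4) (nat_lit 18) (nat_lit 5) (nat_lit 18) (nat_lit 4) (nat_lit 307) (nat_lit 244) (nat_lit 229))))) (XT.nd (nat_lit 156) (nat_lit 152) (nat_lit 0) (XT.nd (nat_lit 78) (nat_lit 76) (nat_lit 0) (XT.lf (nat_lit 0) (nat_lit 8856215449) (nat_lit 152) (nat_lit 7486328782) (nat_lit 152) (nat_lit 54941543) (nat_lit 16) (nat_lit 4) (nat_lit 18) (nat_lit 5) (nat_lit 18) (nat_lit 4) (nat_lit 308) (nat_lit 244) (nat_lit 228)) (XT.lf (nat_lit 0) (nat_lit 3538523230) (nat_lit 228) (nat_lit 476580382) (nat_lit 76) (nat_lit 12986345269) (nat_lit 15) (nat_lit 5) (nat_lit 18) (nat_lit 5) (nat_lit 16) (nat_lit 4) (nat_lit 309) (nat_lit 244) (nat_lit 227))) (XT.nd (nat_lit 78) (nat_lit 76) (nat_lit 0) (XT.lf (nat_lit 0) (nat_lit 6997354794) (nat_lit 76) (nat_lit 325975731) (nat_lit 152) (nat_lit 10311639420) (nat_lit 14) (nat_lit 5) (nat_lit 15) (nat_lit 5) (nat_lit 16) (nat_lit 4)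 (nat_lit 310) (nat_lit 244) (nat_lit 226)) (XT.nd (nat_lit 78) (nat_lit 76) (nat_lit 0) (XT.lf (nat_lit 0) (nat_lit 11266127298) (nat_lit 152) (nat_lit 3661766032) (nat_lit 0) (nat_lit 3373913057) (nat_lit 14) (nat_lit 5) (nat_lit 16) (nat_lit 4) (nat_lit 14) (nat_lit 4) (nat_lit 311) (nat_lit 244) (nat_lit 225)) (XT.lf (nat_lit 0) (nat_lit 3613161483) (nat_lit 76) (nat_lit 11764331741) (nat_lit 76) (nat_lit 3625993084) (nat_lit 13) (nat_lit 4) (nat_lit 14) (nat_lit 5) (nat_lit 14) (nat_lit 4) (nat_lit 312) (nat_lit 244) (nat_lit 224)))))) (XT.nd (nat_lit 390) (nat_lit 228) (nat_lit 0) (XT.nd (nat_lit 156) (nat_lit 76) (nat_lit 0) (XT.nd (nat_lit 78) (nat_lit 76) (nat_lit 0) (XT.lf (nat_lit 0) (nat_lit 11221530565) (nat_lit 76) (nat_lit 8446427810) (nat_lit 76) (nat_lit 73684947) (nat_lit 13) (nat_lit 4) (nat_lit 14) (nat_lit 5) (nat_lit 14) (nat_lit 4) (nat_lit 313) (nat_lit 244) (nat_lit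 223)) (XT.lf (nat_lit 0) (nat_lit 3453501076) (nat_lit 152) (nat_lit 1516307756) (nat_lit 76) (nat_lit 15548394067) (nat_lit 12) (nat_lit 5) (nat_lit 14) (nat_lit 5) (nat_lit 13) (nat_lit 4) (nat_lit 314) (nat_lit 244) (nat_lit 222))) (XT.nd (nat_lit 78) (nat_lit 0) (nat_lit 0) (XT.lf (nat_lit 0) (nat_lit 5879091434) (nat_lit 76) (nat_lit 1285634381) (nat_lit 152) (nat_lit 14168356617) (nat_lit 11) (nat_lit 5) (nat_lit 12) (nat_lit 5) (nat_lit 13) (nat_lit 4) (nat_lit 315) (nat_lit 244) (nat_lit 221)) (XT.nd (nat_lit 78) (nat_lit 0) (nat_lit 0) (XT.lf (nat_lit 0) (nat_lit 11046967024) (nat_lit 152) (nat_lit 8677540860) (nat_lit 0) (nat_lit 2464982590) (nat_lit 11) (nat_lit 5) (nat_lit 13) (nat_lit 4) (nat_lit 11) (nat_lit 4) (nat_lit 316) (nat_lit 244) (nat_lit 220)) (XT.lf (nat_lit 0) (nat_lit 15067282843) (nat_lit 152) (nat_lit 1722655934) (nat_lit 0) (nat_lit 6301636580) (nat_lit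 11) (nat_lit 5) (nat_lit 13) (nat_lit 4) (nat_lit 11) (nat_lit 4) (nat_lit 317) (nat_lit 244) (nat_lit 219))))) (XT.nd (nat_lit 156) (nat_lit 152) (nat_lit 0) (XT.nd (nat_lit 78) (nat_lit 0) (nat_lit 0) (XT.lf (nat_lit 0) (nat_lit 5627407570) (nat_lit 76) (nat_lit 13675625130) (nat_lit 76) (nat_lit 4735062839) (nat_lit 10) (nat_lit 4) (nat_lit 11) (nat_lit 5) (nat_lit 11) (nat_lit 4) (nat_lit 318) (nat_lit 244) (nat_lit 218)) (XT.lf (nat_lit 0) (nat_lit 13274243085) (nat_lit 76) (nat_lit 10433518766) (nat_lit 76) (nat_lit 1326369783) (nat_lit 10) (nat_lit 4) (nat_lit 11) (nat_lit 5) (nat_lit 11) (nat_lit 4) (nat_lit 319) (nat_lit 244) (nat_lit 217))) (XT.nd (nat_lit 78) (nat_lit 76) (nat_lit 0) (XT.lf (nat_lit 0) (nat_lit 2110931646) (nat_lit 152) (nat_lit 4938393101) (nat_lit 76) (nat_lit 19032417282) (nat_lit 9) (nat_lit 5) (nat_lit 11) (nat_lit 5) (nat_lit 10) (nat_lit 4) (nat_lit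 320) (nat_lit 244) (nat_lit 216)) (XT.nd (nat_lit 78) (nat_lit 0) (nat_lit 0) (XT.lf (nat_lit 0) (nat_lit 2150626763) (nat_lit 76) (nat_lit 3492070203) (nat_lit 152) (nat_lit 21539632868) (nat_lit 8) (nat_lit 5) (nat_lit 9) (nat_lit 5) (nat_lit 10) (nat_lit 4) (nat_lit 321) (nat_lit 244) (nat_lit 215)) (XT.lf (nat_lit 0) (nat_lit 9373918653) (nat_lit 152) (nat_lit 18694536432) (nat_lit 0) (nat_lit 268389256) (nat_lit 8) (nat_lit 5) (nat_lit 10) (nat_lit 4) (nat_lit 8) (nat_lit 4) (nat_lit 322) (nat_lit 244) (nat_lit 214))))))) (XT.nd (nat_lit 780) (nat_lit 76) (nat_lit 0) (XT.nd (nat_lit 390) (nat_lit 152) (nat_lit 0) (XT.nd (nat_lit 156) (nat_lit 76) (nat_lit 0) (XT.nd (nat_lit 78) (nat_lit 0) (nat_lit 0) (XT.lf (nat_lit 0) (nat_lit 13286156407) (nat_lit 152) (nat_lit 12213142219) (nat_lit 0) (nat_lit 4050101977) (nat_lit 8) (nat_lit 5) (nat_lit 10) (nat_lit 4) (nat_lit 8) (nat_lit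 4) (nat_lit 323) (nat_lit 244) (nat_lit 213)) (XT.lf (nat_lit 0) (nat_lit 17334204079) (nat_lit 152) (nat_lit 5517567538) (nat_lit 0) (nat_lit 7973840094) (nat_lit 8) (nat_lit 5) (nat_lit 10) (nat_lit 4) (nat_lit 8) (nat_lit 4) (nat_lit 324) (nat_lit 244) (nat_lit 212))) (XT.nd (nat_lit 78) (nat_lit 0) (nat_lit 0) (XT.lf (nat_lit 0) (nat_lit 1454688573) (nat_lit 76) (nat_lit 20095723068) (nat_lit 76) (nat_lit 10616969030) (nat_lit 7) (nat_lit 4) (nat_lit 8) (nat_lit 5) (nat_lit 8) (nat_lit 4) (nat_lit 325) (nat_lit 244) (nat_lit 211)) (XT.nd (nat_lit 78) (nat_lit 0) (nat_lit 0) (XT.lf (nat_lit 0) (nat_lit 8864146562) (nat_lit 76) (nat_lit 17150875921) (nat_lit 76) (nat_lit 7559369452) (nat_lit 7) (nat_lit 4) (nat_lit 8) (nat_lit 5) (nat_lit 8) (nat_lit 4) (nat_lit 326) (nat_lit 244) (nat_lit 210)) (XT.lf (nat_lit 0) (nat_lit 16546012292) (nat_lit 76) (nat_lit 14103661310) (nat_lit 76)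 (nat_lit 4404771574) (nat_lit 7) (nat_lit 4) (nat_lit 8) (nat_lit 5) (nat_lit 8) (nat_lit 4) (nat_lit 327) (nat_lit 244) (nat_lit 209))))) (XT.nd (nat_lit 156) (nat_lit 76) (nat_lit 0) (XT.nd (nat_lit 78) (nat_lit 76) (nat_lit 0) (XT.lf (nat_lit 0) (nat_lit 24518575922) (nat_lit 76) (nat_lit 10946823964) (nat_lit 76) (nat_lit 1145664449) (nat_lit 7) (nat_lit 4) (nat_lit 8) (nat_lit 5) (nat_lit 8) (nat_lit 4) (nat_lit 328) (nat_lit 244) (nat_lit 208)) (XT.lf (nat_lit 0) (nat_lit 2154475026) (nat_lit 152) (nat_lit 5481885500) (nat_lit 76) (nat_lit 30609857641) (nat_lit 6) (nat_lit 5) (nat_lit 8) (nat_lit 5) (nat_lit 7) (nat_lit 4) (nat_lit 329) (nat_lit 244) (nat_lit 207))) (XT.nd (nat_lit 78) (nat_lit 0) (nat_lit 0) (XT.lf (nat_lit 0) (nat_lit 1398957920) (nat_lit 76) (nat_lit 4157275703) (nat_lit 152) (nat_lit 34407227546) (nat_lit 5) (nat_lit 5) (nat_lit 6) (nat_lit 5) (nat_lit 7) (nat_lit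 4) (nat_lit 330) (nat_lit 244) (nat_lit 206)) (XT.nd (nat_lit 78) (nat_lit 0) (nat_lit 0) (XT.lf (nat_lit 0) (nat_lit 8729270224) (nat_lit 76) (nat_lit 445820367) (nat_lit 152) (nat_lit 32589150206) (nat_lit 5) (nat_lit 5) (nat_lit 6) (nat_lit 5) (nat_lit 7) (nat_lit 4) (nat_lit 331) (nat_lit 244) (nat_lit 205)) (XT.lf (nat_lit 0) (nat_lit 12984546917) (nat_lit 152) (nat_lit 27365319018) (nat_lit 0) (nat_lit 3304734451) (nat_lit 5) (nat_lit 5) (nat_lit 7) (nat_lit 4) (nat_lit 5) (nat_lit 4) (nat_lit 332) (nat_lit 244) (nat_lit 204)))))) (XT.nd (nat_lit 390) (nat_lit 0) (nat_lit 0) (XT.nd (nat_lit 156) (nat_lit 76) (nat_lit 0) (XT.nd (nat_lit 78) (nat_lit 0) (nat_lit 0) (XT.lf (nat_lit 0) (nat_lit 16949664098) (nat_lit 152) (nat_lit 21498040781) (nat_lit 0) (nat_lit 7193536349) (nat_lit 5) (nat_lit 5) (nat_lit 7) (nat_lit 4) (nat_lit 5) (nat_lit 4) (nat_lit 333) (nat_lit 244) (nat_lit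 203)) (XT.lf (nat_lit 0) (nat_lit 21072922384) (nat_lit 152) (nat_lit 15412205645) (nat_lit 0) (nat_lit 11244113413) (nat_lit 5) (nat_lit 5) (nat_lit 7) (nat_lit 4) (nat_lit 5) (nat_lit 4) (nat_lit 334) (nat_lit 244) (nat_lit 202))) (XT.nd (nat_lit 78) (nat_lit 76) (nat_lit 0) (XT.lf (nat_lit 0) (nat_lit 25364139058) (nat_lit 152) (nat_lit 9093323527) (nat_lit 0) (nat_lit 15466109875) (nat_lit 5) (nat_lit 5) (nat_lit 7) (nat_lit 4) (nat_lit 5) (nat_lit 4) (nat_lit 335) (nat_lit 244) (nat_lit 201)) (XT.nd (nat_lit 78) (nat_lit 76) (nat_lit 0) (XT.lf (nat_lit 0) (nat_lit 29833531301) (nat_lit 152) (nat_lit 2526349469) (nat_lit 0) (nat_lit 19869578107) (nat_lit 5) (nat_lit 5) (nat_lit 7) (nat_lit 4) (nat_lit 5) (nat_lit 4) (nat_lit 336) (nat_lit 244) (nat_lit 200)) (XT.lf (nat_lit 0) (nat_lit 4446673503) (nat_lit 76) (nat_lit 30114492056) (nat_lit 76) (nat_lit 20087754090) (nat_lit 4) (nat_lit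 4) (nat_lit 5) (nat_lit 5) (nat_lit 5) (nat_lit 4) (nat_lit 337) (nat_lit 244) (nat_lit 199))))) (XT.nd (nat_lit 234) (nat_lit 0) (nat_lit 0) (XT.nd (nat_lit 78) (nat_lit 0) (nat_lit 0) (XT.lf (nat_lit 0) (nat_lit 11792477938) (nat_lit 76) (nat_lit 27741493392) (nat_lit 76) (nat_lit 17654960404) (nat_lit 4) (nat_lit 4) (nat_lit 5) (nat_lit 5) (nat_lit 5) (nat_lit 4) (nat_lit 338) (nat_lit 244) (nat_lit 198)) (XT.nd (nat_lit 78) (nat_lit 0) (nat_lit 0) (XT.lf (nat_lit 0) (nat_lit 19445021323) (nat_lit 76) (nat_lit 25278019732) (nat_lit 76) (nat_lit 15134539104) (nat_lit 4) (nat_lit 4) (nat_lit 5) (nat_lit 5) (nat_lit 5) (nat_lit 4) (nat_lit 339) (nat_lit 244) (nat_lit 197)) (XT.lf (nat_lit 0) (nat_lit 27422524001) (nat_lit 76) (nat_lit 22718205662) (nat_lit 76) (nat_lit 12520489187) (nat_lit 4) (nat_lit 4) (nat_lit 5) (nat_lit 5) (nat_lit 5) (nat_lit 4) (nat_lit 340) (nat_lit 244) (nat_lit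 196)))) (XT.nd (nat_lit 78) (nat_lit 0) (nat_lit 0) (XT.lf (nat_lit 0) (nat_lit 35743980025) (nat_lit 76) (nat_lit 20055956387) (nat_lit 76) (nat_lit 9806586724) (nat_lit 4) (nat_lit 4) (nat_lit 5) (nat_lit 5) (nat_lit 5) (nat_lit 4) (nat_lit 341) (nat_lit 244) (nat_lit 195)) (XT.nd (nat_lit 78) (nat_lit 0) (nat_lit 0) (XT.lf (nat_lit 0) (nat_lit 44429202385) (nat_lit 76) (nat_lit 17284933218) (nat_lit 76) (nat_lit 6986370043) (nat_lit 4) (nat_lit 4) (nat_lit 5) (nat_lit 5) (nat_lit 5) (nat_lit 4) (nat_lit 342) (nat_lit 244) (nat_lit 194)) (XT.lf (nat_lit 0) (nat_lit 53498870183) (nat_lit 76) (nat_lit 14398538481) (nat_lit 76) (nat_lit 4053124342) (nat_lit 4) (nat_lit 4) (nat_lit 5) (nat_lit 5) (nat_lit 5) (nat_lit 4) (nat_lit 343) (nat_lit 244) (nat_lit 193))))))))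
noncomputable def xc63 : XT := (XT.nd (nat_lit 1560) (nat_lit 76) (nat_lit 0) (XT.nd (nat_lit 780) (nat_lit 0) (nat_lit 0) (XT.nd (nat_lit 390) (nat_lit 0) (nat_lit 0) (XT.nd (nat_lit 156) (nat_lit 76) (nat_lit 0) (XT.nd (nat_lit 78) (nat_lit 76) (nat_lit 0) (XT.lf (nat_lit 0) (nat_lit 62974577865) (nat_lit 76) (nat_lit 11389899807) (nat_lit 76) (nat_lit 999865703) (nat_lit 4) (nat_lit 4) (nat_lit 5) (nat_lit 5) (nat_lit 5) (nat_lit 4) (nat_lit 344) (nat_lit 244) (nat_lit 192)) (XT.lf (nat_lit 0) (nat_lit 2110880301) (nat_lit 152) (nat_lit 6105224691) (nat_lit 76) (nat_lit 70732257559) (nat_lit 3) (nat_lit 5) (nat_lit 5) (nat_lit 5) (nat_lit 4) (nat_lit 4) (nat_lit 345) (nat_lit 244) (nat_lit 191))) (XT.nd (nat_lit 78) (nat_lit 0) (nat_lit 0) (XT.lf (nat_lit 0) (nat_lit 447662155) (nat_lit 76) (nat_lit 4879490570) (nat_lit 152) (nat_lit 77384442292) (nat_lit 2) (nat_lit 5) (nat_lit 3)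 (nat_lit 5) (nat_lit 4) (nat_lit 4) (nat_lit 346) (nat_lit 244) (nat_lit 190)) (XT.nd (nat_lit 78) (nat_lit 0) (nat_lit 0) (XT.lf (nat_lit 0) (nat_lit 7497041943) (nat_lit 76) (nat_lit 1287634779) (nat_lit 152) (nat_lit 77874301396) (nat_lit 2) (nat_lit 5) (nat_lit 3) (nat_lit 5) (nat_lit 4) (nat_lit 4) (nat_lit 347) (nat_lit 244) (nat_lit 189)) (XT.lf (nat_lit 0) (nat_lit 12431692739) (nat_lit 152) (nat_lit 75985480959) (nat_lit 0) (nat_lit 2385736269) (nat_lit 2) (nat_lit 5) (nat_lit 4) (nat_lit 4) (nat_lit 2) (nat_lit 4) (nat_lit 348) (nat_lit 244) (nat_lit 188))))) (XT.nd (nat_lit 156) (nat_lit 0) (nat_lit 0) (XT.nd (nat_lit 78) (nat_lit 0) (nat_lit 0) (XT.lf (nat_lit 0) (nat_lit 16261060255) (nat_lit 152) (nat_lit 72711180332) (nat_lit 0) (nat_lit 6181807679) (nat_lit 2) (nat_lit 5) (nat_lit 4) (nat_lit 4) (nat_lit 2) (nat_lit 4) (nat_lit 349) (nat_lit 244) (nat_lit 187)) (XT.lf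 (nat_lit 0) (nat_lit 20261793224) (nat_lit 152) (nat_lit 69311134753) (nat_lit 0) (nat_lit 10150830072) (nat_lit 2) (nat_lit 5) (nat_lit 4) (nat_lit 4) (nat_lit 2) (nat_lit 4) (nat_lit 350) (nat_lit 244) (nat_lit 186))) (XT.nd (nat_lit 78) (nat_lit 0) (nat_lit 0) (XT.lf (nat_lit 0) (nat_lit 24443417201) (nat_lit 152) (nat_lit 65777248875) (nat_lit 0) (nat_lit 14302253499) (nat_lit 2) (nat_lit 5) (nat_lit 4) (nat_lit 4) (nat_lit 2) (nat_lit 4) (nat_lit 351) (nat_lit 244) (nat_lit 185)) (XT.nd (nat_lit 78) (nat_lit 0) (nat_lit 0) (XT.lf (nat_lit 0) (nat_lit 28815888432) (nat_lit 152) (nat_lit 62101108684) (nat_lit 0) (nat_lit 18645962303) (nat_lit 2) (nat_lit 5) (nat_lit 4) (nat_lit 4) (nat_lit 2) (nat_lit 4) (nat_lit 352) (nat_lit 244) (nat_lit 184)) (XT.lf (nat_lit 0) (nat_lit 33389617565) (nat_lit 152) (nat_lit 58273961466) (nat_lit 0) (nat_lit 23192298647) (nat_lit 2) (nat_lit 5) (nat_lit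 4) (nat_lit 4) (nat_lit 2) (nat_lit 4) (nat_lit 353) (nat_lit 244) (nat_lit 183)))))) (XT.nd (nat_lit 390) (nat_lit 0) (nat_lit 0) (XT.nd (nat_lit 156) (nat_lit 0) (nat_lit 0) (XT.nd (nat_lit 78) (nat_lit 0) (nat_lit 0) (XT.lf (nat_lit 0) (nat_lit 38175494429) (nat_lit 152) (nat_lit 54286694964) (nat_lit 0) (nat_lit 27952087142) (nat_lit 2) (nat_lit 5) (nat_lit 4) (nat_lit 4) (nat_lit 2) (nat_lit 4) (nat_lit 354) (nat_lit 244) (nat_lit 182)) (XT.lf (nat_lit 0) (nat_lit 43184913971) (nat_lit 152) (nat_lit 50129815689) (nat_lit 0) (nat_lit 32936660617) (nat_lit 2) (nat_lit 5) (nat_lit 4) (nat_lit 4) (nat_lit 2) (nat_lit 4) (nat_lit 355) (nat_lit 244) (nat_lit 181))) (XT.nd (nat_lit 78) (nat_lit 0) (nat_lit 0) (XT.lf (nat_lit 0) (nat_lit 48429803380) (nat_lit 152) (nat_lit 45793426307) (nat_lit 0) (nat_lit 38157887105) (nat_lit 2) (nat_lit 5) (nat_lit 4) (nat_lit 4) (nat_lit 2) (nat_lit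 4) (nat_lit 356) (nat_lit 244) (nat_lit 180)) (XT.nd (nat_lit 78) (nat_lit 0) (nat_lit 0) (XT.lf (nat_lit 0) (nat_lit 53922650486) (nat_lit 152) (nat_lit 41267202082) (nat_lit 0) (nat_lit 43628198097) (nat_lit 2) (nat_lit 5) (nat_lit 4) (nat_lit 4) (nat_lit 2) (nat_lit 4) (nat_lit 357) (nat_lit 244) (nat_lit 179)) (XT.lf (nat_lit 0) (nat_lit 59676533499) (nat_lit 152) (nat_lit 36540366291) (nat_lit 0) (nat_lit 49360618143) (nat_lit 2) (nat_lit 5) (nat_lit 4) (nat_lit 4) (nat_lit 2) (nat_lit 4) (nat_lit 358) (nat_lit 244) (nat_lit 178))))) (XT.nd (nat_lit 156) (nat_lit 0) (nat_lit 0) (XT.nd (nat_lit 78) (nat_lit 0) (nat_lit 0) (XT.lf (nat_lit 0) (nat_lit 65705152139) (nat_lit 152) (nat_lit 31601664561) (nat_lit 0) (nat_lit 55368795862) (nat_lit 2) (nat_lit 5) (nat_lit 4) (nat_lit 4) (nat_lit 2) (nat_lit 4) (nat_lit 359) (nat_lit 244) (nat_lit 177)) (XT.lf (nat_lit 0) (nat_lit 72022860260)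 (nat_lit 152) (nat_lit 26439338080) (nat_lit 0) (nat_lit 61667036440) (nat_lit 2) (nat_lit 5) (nat_lit 4) (nat_lit 4) (nat_lit 2) (nat_lit 4) (nat_lit 360) (nat_lit 244) (nat_lit 176))) (XT.nd (nat_lit 78) (nat_lit 0) (nat_lit 0) (XT.lf (nat_lit 0) (nat_lit 78644700024) (nat_lit 152) (nat_lit 21041095593) (nat_lit 0) (nat_lit 68270335687) (nat_lit 2) (nat_lit 5) (nat_lit 4) (nat_lit 4) (nat_lit 2) (nat_lit 4) (nat_lit 361) (nat_lit 244) (nat_lit 175)) (XT.nd (nat_lit 78) (nat_lit 0) (nat_lit 0) (XT.lf (nat_lit 0) (nat_lit 85586437717) (nat_lit 152) (nat_lit 15394084143) (nat_lit 0) (nat_lit 75194415744) (nat_lit 2) (nat_lit 5) (nat_lit 4) (nat_lit 4) (nat_lit 2) (nat_lit 4) (nat_lit 362) (nat_lit 244) (nat_lit 174)) (XT.lf (nat_lit 0) (nat_lit 92864601285) (nat_lit 152) (nat_lit 9484858464) (nat_lit 0) (nat_lit 82455762517) (nat_lit 2) (nat_lit 5) (nat_lit 4) (nat_lit 4) (nat_lit 2)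 (nat_lit 4) (nat_lit 363) (nat_lit 244) (nat_lit 173))))))) (XT.nd (nat_lit 780) (nat_lit 0) (nat_lit 0) (XT.nd (nat_lit 390) (nat_lit 0) (nat_lit 0) (XT.nd (nat_lit 156) (nat_lit 0) (nat_lit 0) (XT.nd (nat_lit 78) (nat_lit 76) (nat_lit 0) (XT.lf (nat_lit 0) (nat_lit 100496519690) (nat_lit 152) (nat_lit 3299348972) (nat_lit 0) (nat_lit 90071664925) (nat_lit 2) (nat_lit 5) (nat_lit 4) (nat_lit 4) (nat_lit 2) (nat_lit 4) (nat_lit 364) (nat_lit 244) (nat_lit 172)) (XT.lf (nat_lit 0) (nat_lit 3282223384) (nat_lit 76) (nat_lit 105269385486) (nat_lit 76) (nat_lit 94829277392) (nat_lit 1) (nat_lit 4) (nat_lit 2) (nat_lit 5) (nat_lit 2) (nat_lit 4) (nat_lit 365) (nat_lit 244) (nat_lit 171))) (XT.nd (nat_lit 78) (nat_lit 0) (nat_lit 0) (XT.lf (nat_lit 0) (nat_lit 10289450631) (nat_lit 76) (nat_lit 106766388012) (nat_lit 76) (nat_lit 96311752938) (nat_lit 1) (nat_lit 4) (nat_lit 2) (nat_lit 5)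 (nat_lit 2) (nat_lit 4) (nat_lit 366) (nat_lit 244) (nat_lit 170)) (XT.nd (nat_lit 78) (nat_lit 0) (nat_lit 0) (XT.lf (nat_lit 0) (nat_lit 17629925267) (nat_lit 76) (nat_lit 108346316602) (nat_lit 76) (nat_lit 97877846308) (nat_lit 1) (nat_lit 4) (nat_lit 2) (nat_lit 5) (nat_lit 2) (nat_lit 4) (nat_lit 367) (nat_lit 244) (nat_lit 169)) (XT.lf (nat_lit 0) (nat_lit 25321124613) (nat_lit 76) (nat_lit 110012932991) (nat_lit 76) (nat_lit 99531286298) (nat_lit 1) (nat_lit 4) (nat_lit 2) (nat_lit 5) (nat_lit 2) (nat_lit 4) (nat_lit 368) (nat_lit 244) (nat_lit 168))))) (XT.nd (nat_lit 156) (nat_lit 0) (nat_lit 0) (XT.nd (nat_lit 78) (nat_lit 0) (nat_lit 0) (XT.lf (nat_lit 0) (nat_lit 33381361047) (nat_lit 76) (nat_lit 111770205313) (nat_lit 76) (nat_lit 101276009668) (nat_lit 1) (nat_lit 4) (nat_lit 2) (nat_lit 5) (nat_lit 2) (nat_lit 4) (nat_lit 369) (nat_lit 244) (nat_lit 167)) (XT.lf (nat_lit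 0) (nat_lit 41829825608) (nat_lit 76) (nat_lit 113622317551) (nat_lit 76) (nat_lit 103116170523) (nat_lit 1) (nat_lit 4) (nat_lit 2) (nat_lit 5) (nat_lit 2) (nat_lit 4) (nat_lit 370) (nat_lit 244) (nat_lit 166))) (XT.nd (nat_lit 78) (nat_lit 0) (nat_lit 0) (XT.lf (nat_lit 0) (nat_lit 50686633689) (nat_lit 76) (nat_lit 115573679494) (nat_lit 76) (nat_lit 105056150197) (nat_lit 1) (nat_lit 4) (nat_lit 2) (nat_lit 5) (nat_lit 2) (nat_lit 4) (nat_lit 371) (nat_lit 244) (nat_lit 165)) (XT.nd (nat_lit 78) (nat_lit 0) (nat_lit 0) (XT.lf (nat_lit 0) (nat_lit 59972872928) (nat_lit 76) (nat_lit 117628937243) (nat_lit 76) (nat_lit 107100567690) (nat_lit 1) (nat_lit 4) (nat_lit 2) (nat_lit 5) (nat_lit 2) (nat_lit 4) (nat_lit 372) (nat_lit 244) (nat_lit 164)) (XT.lf (nat_lit 0) (nat_lit 69710653418) (nat_lit 76) (nat_lit 119792984270) (nat_lit 76) (nat_lit 109254290662) (nat_lit 1) (nat_lit 4) (nat_lit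 2) (nat_lit 5) (nat_lit 2) (nat_lit 4) (nat_lit 373) (nat_lit 244) (nat_lit 163)))))) (XT.nd (nat_lit 390) (nat_lit 0) (nat_lit 0) (XT.nd (nat_lit 156) (nat_lit 0) (nat_lit 0) (XT.nd (nat_lit 78) (nat_lit 0) (nat_lit 0) (XT.lf (nat_lit 0) (nat_lit 79923160351) (nat_lit 76) (nat_lit 122070973065) (nat_lit 76) (nat_lit 111522447026) (nat_lit 1) (nat_lit 4) (nat_lit 2) (nat_lit 5) (nat_lit 2) (nat_lit 4) (nat_lit 374) (nat_lit 244) (nat_lit 162)) (XT.lf (nat_lit 0) (nat_lit 90634709220) (nat_lit 76) (nat_lit 124468327414) (nat_lit 76) (nat_lit 113910437153) (nat_lit 1) (nat_lit 4) (nat_lit 2) (nat_lit 5) (nat_lit 2) (nat_lit 4) (nat_lit 375) (nat_lit 244) (nat_lit 161))) (XT.nd (nat_lit 78) (nat_lit 0) (nat_lit 0) (XT.lf (nat_lit 0) (nat_lit 101870803711) (nat_lit 76) (nat_lit 126990755301) (nat_lit 76) (nat_lit 116423946734) (nat_lit 1) (nat_lit 4) (nat_lit 2) (nat_lit 5) (nat_lit 2) (nat_lit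 4) (nat_lit 376) (nat_lit 244) (nat_lit 160)) (XT.nd (nat_lit 78) (nat_lit 0) (nat_lit 0) (XT.lf (nat_lit 0) (nat_lit 113658196432) (nat_lit 76) (nat_lit 129644262508) (nat_lit 76) (nat_lit 119068960317) (nat_lit 1) (nat_lit 4) (nat_lit 2) (nat_lit 5) (nat_lit 2) (nat_lit 4) (nat_lit 377) (nat_lit 244) (nat_lit 159)) (XT.lf (nat_lit 0) (nat_lit 126024952603) (nat_lit 76) (nat_lit 132435166910) (nat_lit 76) (nat_lit 121851775552) (nat_lit 1) (nat_lit 4) (nat_lit 2) (nat_lit 5) (nat_lit 2) (nat_lit 4) (nat_lit 378) (nat_lit 244) (nat_lit 158))))) (XT.nd (nat_lit 234) (nat_lit 0) (nat_lit 0) (XT.nd (nat_lit 78) (nat_lit 0) (nat_lit 0) (XT.lf (nat_lit 0) (nat_lit 139000516882) (nat_lit 76) (nat_lit 135370113516) (nat_lit 76) (nat_lit 124779018190) (nat_lit 1) (nat_lit 4) (nat_lit 2) (nat_lit 5) (nat_lit 2) (nat_lit 4) (nat_lit 379) (nat_lit 244) (nat_lit 157)) (XT.nd (nat_lit 78) (nat_lit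 0) (nat_lit 0) (XT.lf (nat_lit 0) (nat_lit 152615783469) (nat_lit 76) (nat_lit 138456090294) (nat_lit 76) (nat_lit 127857657856) (nat_lit 1) (nat_lit 4) (nat_lit 2) (nat_lit 5) (nat_lit 2) (nat_lit 4) (nat_lit 380) (nat_lit 244) (nat_lit 156)) (XT.lf (nat_lit 0) (nat_lit 166903169665) (nat_lit 76) (nat_lit 141700444809) (nat_lit 76) (nat_lit 131095024645) (nat_lit 1) (nat_lit 4) (nat_lit 2) (nat_lit 5) (nat_lit 2) (nat_lit 4) (nat_lit 381) (nat_lit 244) (nat_lit 155)))) (XT.nd (nat_lit 78) (nat_lit 0) (nat_lit 0) (XT.lf (nat_lit 0) (nat_lit 181896693057) (nat_lit 76) (nat_lit 145110901714) (nat_lit 76) (nat_lit 134498826573) (nat_lit 1) (nat_lit 4) (nat_lit 2) (nat_lit 5) (nat_lit 2) (nat_lit 4) (nat_lit 382) (nat_lit 244) (nat_lit 154)) (XT.nd (nat_lit 78) (nat_lit 0) (nat_lit 0) (XT.lf (nat_lit 0) (nat_lit 197632052510) (nat_lit 76) (nat_lit 148695581144) (nat_lit 76) (nat_lit 138077167930)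 (nat_lit 1) (nat_lit 4) (nat_lit 2) (nat_lit 5) (nat_lit 2) (nat_lit 4) (nat_lit 383) (nat_lit 244) (nat_lit 153)) (XT.lf (nat_lit 0) (nat_lit 214146713166) (nat_lit 76) (nat_lit 152463018051) (nat_lit 76) (nat_lit 141838568576) (nat_lit 1) (nat_lit 4) (nat_lit 2) (nat_lit 5) (nat_lit 2) (nat_lit 4) (nat_lit 384) (nat_lit 244) (nat_lit 152))))))))
noncomputable def xc64 : XT := (XT.nd (nat_lit 34320) (nat_lit 0) (nat_lit 532) (XT.nd (nat_lit 33540) (nat_lit 0) (nat_lit 1444) (XT.nd (nat_lit 390) (nat_lit 0) (nat_lit 0) (XT.nd (nat_lit 156) (nat_lit 0) (nat_lit 0) (XT.nd (nat_lit 78) (nat_lit 0) (nat_lit 0) (XT.lf (nat_lit 0) (nat_lit 231479995645) (nat_lit 76) (nat_lit 156422182522) (nat_lit 76) (nat_lit 145791984228) (nat_lit 1) (nat_lit 4) (nat_lit 2) (nat_lit 5) (nat_lit 2) (nat_lit 4) (nat_lit 385) (nat_lit 244) (nat_lit 151)) (XT.lf (nat_lit 0) (nat_lit 249673169668) (nat_lit 76)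 (nat_lit 160582501140) (nat_lit 76) (nat_lit 149946827780) (nat_lit 1) (nat_lit 4) (nat_lit 2) (nat_lit 5) (nat_lit 2) (nat_lit 4) (nat_lit 386) (nat_lit 244) (nat_lit 150))) (XT.nd (nat_lit 78) (nat_lit 0) (nat_lit 0) (XT.lf (nat_lit 0) (nat_lit 268769552315) (nat_lit 76) (nat_lit 164953879425) (nat_lit 76) (nat_lit 154312991716) (nat_lit 1) (nat_lit 4) (nat_lit 2) (nat_lit 5) (nat_lit 2) (nat_lit 4) (nat_lit 387) (nat_lit 244) (nat_lit 149)) (XT.nd (nat_lit 78) (nat_lit 0) (nat_lit 0) (XT.lf (nat_lit 0) (nat_lit 288814611163) (nat_lit 76) (nat_lit 169546725420) (nat_lit 76) (nat_lit 158900871665) (nat_lit 1) (nat_lit 4) (nat_lit 2) (nat_lit 5) (nat_lit 2) (nat_lit 4) (nat_lit 388) (nat_lit 244) (nat_lit 148)) (XT.lf (nat_lit 0) (nat_lit 309856072545) (nat_lit 76) (nat_lit 174371974474) (nat_lit 76) (nat_lit 163721391150) (nat_lit 1) (nat_lit 4) (nat_lit 2) (nat_lit 5) (nat_lit 2) (nat_lit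 4) (nat_lit 389) (nat_lit 244) (nat_lit 147))))) (XT.nd (nat_lit 32916) (nat_lit 0) (nat_lit 2508) (XT.nd (nat_lit 32838) (nat_lit 0) (nat_lit 2964) (XT.lf (nat_lit 0) (nat_lit 331944035177) (nat_lit 76) (nat_lit 179441115274) (nat_lit 76) (nat_lit 168786027600) (nat_lit 1) (nat_lit 4) (nat_lit 2) (nat_lit 5) (nat_lit 2) (nat_lit 4) (nat_lit 390) (nat_lit 244) (nat_lit 146)) (XT.lf (nat_lit 0) (nat_lit 166574945) (nat_lit 228) (nat_lit 2295250534) (nat_lit 228) (nat_lit 2295250534) (nat_lit 40) (nat_lit 4) (nat_lit 43) (nat_lit 5) (nat_lit 43) (nat_lit 4) (nat_lit 290) (nat_lit 245) (nat_lit 245))) (XT.nd (nat_lit 78) (nat_lit 456) (nat_lit 0) (XT.lf (nat_lit 0) (nat_lit 7136941532) (nat_lit 228) (nat_lit 1744337691) (nat_lit 228) (nat_lit 869199825) (nat_lit 40) (nat_lit 4) (nat_lit 43) (nat_lit 5) (nat_lit 43) (nat_lit 4) (nat_lit 291) (nat_lit 245) (nat_lit 244)) (XT.nd (nat_lit 78)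 (nat_lit 228) (nat_lit 0) (XT.lf (nat_lit 0) (nat_lit 2877425051) (nat_lit 228) (nat_lit 5872051965) (nat_lit 0) (nat_lit 1250184576) (nat_lit 37) (nat_lit 5) (nat_lit 40) (nat_lit 4) (nat_lit 37) (nat_lit 4) (nat_lit 292) (nat_lit 245) (nat_lit 243)) (XT.lf (nat_lit 0) (nat_lit 797722109) (nat_lit 228) (nat_lit 5924650331) (nat_lit 228) (nat_lit 3541432864) (nat_lit 34) (nat_lit 4) (nat_lit 37) (nat_lit 5) (nat_lit 37) (nat_lit 4) (nat_lit 293) (nat_lit 245) (nat_lit 242)))))) (XT.nd (nat_lit 390) (nat_lit 456) (nat_lit 0) (XT.nd (nat_lit 156) (nat_lit 380) (nat_lit 0) (XT.nd (nat_lit 78) (nat_lit 152) (nat_lit 0) (XT.lf (nat_lit 0) (nat_lit 167660601) (nat_lit 304) (nat_lit 2759491321) (nat_lit 76) (nat_lit 7616225492) (nat_lit 33) (nat_lit 5) (nat_lit 37) (nat_lit 5) (nat_lit 34) (nat_lit 4) (nat_lit 294) (nat_lit 245) (nat_lit 241)) (XT.lf (nat_lit 0) (nat_lit 3874248747) (nat_lit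 228) (nat_lit 6697634760) (nat_lit 0) (nat_lit 265783060) (nat_lit 31) (nat_lit 5) (nat_lit 34) (nat_lit 4) (nat_lit 31) (nat_lit 4) (nat_lit 295) (nat_lit 245) (nat_lit 240))) (XT.nd (nat_lit 78) (nat_lit 228) (nat_lit 0) (XT.lf (nat_lit 0) (nat_lit 74824516) (nat_lit 152) (nat_lit 7652198713) (nat_lit 152) (nat_lit 3421788883) (nat_lit 29) (nat_lit 4) (nat_lit 31) (nat_lit 5) (nat_lit 31) (nat_lit 4) (nat_lit 296) (nat_lit 245) (nat_lit 239)) (XT.nd (nat_lit 78) (nat_lit 152) (nat_lit 0) (XT.lf (nat_lit 0) (nat_lit 267730554) (nat_lit 228) (nat_lit 4273889947) (nat_lit 76) (nat_lit 6934814626) (nat_lit 28) (nat_lit 5) (nat_lit 31) (nat_lit 5) (nat_lit 29) (nat_lit 4) (nat_lit 297) (nat_lit 245) (nat_lit 238)) (XT.lf (nat_lit 0) (nat_lit 2690531828) (nat_lit 152) (nat_lit 1249658943) (nat_lit 228) (nat_lit 7881930429) (nat_lit 26) (nat_lit 5) (nat_lit 28) (nat_lit 5) (nat_lit 29) (nat_lit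 4) (nat_lit 298) (nat_lit 245) (nat_lit 237))))) (XT.nd (nat_lit 156) (nat_lit 304) (nat_lit 0) (XT.nd (nat_lit 78) (nat_lit 152) (nat_lit 0) (XT.lf (nat_lit 0) (nat_lit 7777512026) (nat_lit 228) (nat_lit 2273174775) (nat_lit 0) (nat_lit 2135494894) (nat_lit 26) (nat_lit 5) (nat_lit 29) (nat_lit 4) (nat_lit 26) (nat_lit 4) (nat_lit 299) (nat_lit 245) (nat_lit 236)) (XT.lf (nat_lit 0) (nat_lit 4865678583) (nat_lit 152) (nat_lit 6916726386) (nat_lit 152) (nat_lit 787399745) (nat_lit 24) (nat_lit 4) (nat_lit 26) (nat_lit 5) (nat_lit 26) (nat_lit 4) (nat_lit 300) (nat_lit 245) (nat_lit 235))) (XT.nd (nat_lit 78) (nat_lit 228) (nat_lit 0) (XT.lf (nat_lit 0) (nat_lit 2837462038) (nat_lit 228) (nat_lit 776633757) (nat_lit 76) (nat_lit 9360339578) (nat_lit 23) (nat_lit 5) (nat_lit 26) (nat_lit 5) (nat_lit 24) (nat_lit 4) (nat_lit 301) (nat_lit 245) (nat_lit 234)) (XT.nd (nat_lit 78) (nat_lit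 152) (nat_lit 0) (XT.lf (nat_lit 0) (nat_lit 6503288826) (nat_lit 76) (nat_lit 100966711) (nat_lit 152) (nat_lit 6795164163) (nat_lit 22) (nat_lit 5) (nat_lit 23) (nat_lit 5) (nat_lit 24) (nat_lit 4) (nat_lit 302) (nat_lit 245) (nat_lit 233)) (XT.lf (nat_lit 0) (nat_lit 84981109) (nat_lit 152) (nat_lit 10432115452) (nat_lit 152) (nat_lit 3330790401) (nat_lit 20) (nat_lit 4) (nat_lit 22) (nat_lit 5) (nat_lit 22) (nat_lit 4) (nat_lit 303) (nat_lit 245) (nat_lit 232))))))) (XT.nd (nat_lit 780) (nat_lit 380) (nat_lit 0) (XT.nd (nat_lit 390) (nat_lit 228) (nat_lit 0) (XT.nd (nat_lit 156) (nat_lit 152) (nat_lit 0) (XT.nd (nat_lit 78) (nat_lit 76) (nat_lit 0) (XT.lf (nat_lit 0) (nat_lit 304868328) (nat_lit 228) (nat_lit 6858164729) (nat_lit 76) (nat_lit 7155218773) (nat_lit 19) (nat_lit 5) (nat_lit 22) (nat_lit 5) (nat_lit 20) (nat_lit 4) (nat_lit 304) (nat_lit 245) (nat_lit 231)) (XT.lf (nat_lit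 0) (nat_lit 160014083) (nat_lit 76) (nat_lit 3745740426) (nat_lit 152) (nat_lit 10908984123) (nat_lit 18) (nat_lit 5) (nat_lit 19) (nat_lit 5) (nat_lit 20) (nat_lit 4) (nat_lit 305) (nat_lit 245) (nat_lit 230))) (XT.nd (nat_lit 78) (nat_lit 152) (nat_lit 0) (XT.lf (nat_lit 0) (nat_lit 7587824741) (nat_lit 76) (nat_lit 110189489) (nat_lit 152) (nat_lit 7637567075) (nat_lit 18) (nat_lit 5) (nat_lit 19) (nat_lit 5) (nat_lit 20) (nat_lit 4) (nat_lit 306) (nat_lit 245) (nat_lit 229)) (XT.nd (nat_lit 78) (nat_lit 152) (nat_lit 0) (XT.lf (nat_lit 0) (nat_lit 11636831293) (nat_lit 152) (nat_lit 728130292) (nat_lit 0) (nat_lit 3519750636) (nat_lit 18) (nat_lit 5) (nat_lit 20) (nat_lit 4) (nat_lit 18) (nat_lit 4) (nat_lit 307) (nat_lit 245) (nat_lit 228)) (XT.lf (nat_lit 0) (nat_lit 6688249732) (nat_lit 152) (nat_lit 9094440112) (nat_lit 152) (nat_lit 678193689) (nat_lit 16) (nat_lit 4) (nat_lit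 18) (nat_lit 5) (nat_lit 18) (nat_lit 4) (nat_lit 308) (nat_lit 245) (nat_lit 227))))) (XT.nd (nat_lit 156) (nat_lit 76) (nat_lit 0) (XT.nd (nat_lit 78) (nat_lit 76) (nat_lit 0) (XT.lf (nat_lit 0) (nat_lit 2888520196) (nat_lit 228) (nat_lit 2779699798) (nat_lit 76) (nat_lit 11399487452) (nat_lit 15) (nat_lit 5) (nat_lit 18) (nat_lit 5) (nat_lit 16) (nat_lit 4) (nat_lit 309) (nat_lit 245) (nat_lit 226)) (XT.lf (nat_lit 0) (nat_lit 4537911499) (nat_lit 76) (nat_lit 2052542095) (nat_lit 152) (nat_lit 11114956065) (nat_lit 14) (nat_lit 5) (nat_lit 15) (nat_lit 5) (nat_lit 16) (nat_lit 4) (nat_lit 310) (nat_lit 245) (nat_lit 225))) (XT.nd (nat_lit 78) (nat_lit 76) (nat_lit 0) (XT.lf (nat_lit 0) (nat_lit 10462232303) (nat_lit 152) (nat_lit 6242748075) (nat_lit 0) (nat_lit 1670852296) (nat_lit 14) (nat_lit 5) (nat_lit 16) (nat_lit 4) (nat_lit 14) (nat_lit 4) (nat_lit 311) (nat_lit 245) (nat_lit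 224)) (XT.nd (nat_lit 78) (nat_lit 0) (nat_lit 0) (XT.lf (nat_lit 0) (nat_lit 870043904) (nat_lit 76) (nat_lit 13618763215) (nat_lit 76) (nat_lit 4592979003) (nat_lit 13) (nat_lit 4) (nat_lit 14) (nat_lit 5) (nat_lit 14) (nat_lit 4) (nat_lit 312) (nat_lit 245) (nat_lit 223)) (XT.lf (nat_lit 0) (nat_lit 8405273354) (nat_lit 76) (nat_lit 10332891900) (nat_lit 76) (nat_lit 1083865586) (nat_lit 13) (nat_lit 4) (nat_lit 14) (nat_lit 5) (nat_lit 14) (nat_lit 4) (nat_lit 313) (nat_lit 245) (nat_lit 222)))))) (XT.nd (nat_lit 390) (nat_lit 152) (nat_lit 0) (XT.nd (nat_lit 156) (nat_lit 76) (nat_lit 0) (XT.nd (nat_lit 78) (nat_lit 76) (nat_lit 0) (XT.lf (nat_lit 0) (nat_lit 2435831364) (nat_lit 152) (nat_lit 4468183540) (nat_lit 76) (nat_lit 13697384505) (nat_lit 12) (nat_lit 5) (nat_lit 14) (nat_lit 5) (nat_lit 13) (nat_lit 4) (nat_lit 314) (nat_lit 245) (nat_lit 221)) (XT.lf (nat_lit 0) (nat_lit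 2759755706) (nat_lit 76) (nat_lit 3300673908) (nat_lit 152) (nat_lit 15360208601) (nat_lit 11) (nat_lit 5) (nat_lit 12) (nat_lit 5) (nat_lit 13) (nat_lit 4) (nat_lit 315) (nat_lit 245) (nat_lit 220))) (XT.nd (nat_lit 78) (nat_lit 76) (nat_lit 0) (XT.lf (nat_lit 0) (nat_lit 9873594105) (nat_lit 152) (nat_lit 11920928906) (nat_lit 0) (nat_lit 486003700) (nat_lit 11) (nat_lit 5) (nat_lit 13) (nat_lit 4) (nat_lit 11) (nat_lit 4) (nat_lit 316) (nat_lit 245) (nat_lit 219)) (XT.nd (nat_lit 78) (nat_lit 76) (nat_lit 0) (XT.lf (nat_lit 0) (nat_lit 13858084872) (nat_lit 152) (nat_lit 5030764884) (nat_lit 0) (nat_lit 4295578439) (nat_lit 11) (nat_lit 5) (nat_lit 13) (nat_lit 4) (nat_lit 11) (nat_lit 4) (nat_lit 317) (nat_lit 245) (nat_lit 218)) (XT.lf (nat_lit 0) (nat_lit 2146240578) (nat_lit 76) (nat_lit 15859124281) (nat_lit 76) (nat_lit 6130031155) (nat_lit 10) (nat_lit 4) (nat_lit 11) (nat_lit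 5) (nat_lit 11) (nat_lit 4) (nat_lit 318) (nat_lit 245) (nat_lit 217))))) (XT.nd (nat_lit 156) (nat_lit 76) (nat_lit 0) (XT.nd (nat_lit 78) (nat_lit 76) (nat_lit 0) (XT.lf (nat_lit 0) (nat_lit 9732431314) (nat_lit 76) (nat_lit 12644221484) (nat_lit 76) (nat_lit 2756474365) (nat_lit 10) (nat_lit 4) (nat_lit 11) (nat_lit 5) (nat_lit 11) (nat_lit 4) (nat_lit 319) (nat_lit 245) (nat_lit 216)) (XT.lf (nat_lit 0) (nat_lit 694207258) (nat_lit 152) (nat_lit 8615721279) (nat_lit 76) (nat_lit 16873565878) (nat_lit 9) (nat_lit 5) (nat_lit 11) (nat_lit 5) (nat_lit 10) (nat_lit 4) (nat_lit 320) (nat_lit 245) (nat_lit 215))) (XT.nd (nat_lit 78) (nat_lit 76) (nat_lit 0) (XT.lf (nat_lit 0) (nat_lit 4161545665) (nat_lit 152) (nat_lit 1651581394) (nat_lit 76) (nat_lit 21474196369) (nat_lit 9) (nat_lit 5) (nat_lit 11) (nat_lit 5) (nat_lit 10) (nat_lit 4) (nat_lit 321) (nat_lit 245) (nat_lit 214)) (XT.nd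 (nat_lit 78) (nat_lit 0) (nat_lit 0) (XT.lf (nat_lit 0) (nat_lit 5734893797) (nat_lit 76) (nat_lit 2096664783) (nat_lit 152) (nat_lit 20613358711) (nat_lit 8) (nat_lit 5) (nat_lit 9) (nat_lit 5) (nat_lit 10) (nat_lit 4) (nat_lit 322) (nat_lit 245) (nat_lit 213)) (XT.lf (nat_lit 0) (nat_lit 11681889829) (nat_lit 152) (nat_lit 16249498977) (nat_lit 0) (nat_lit 1729198089) (nat_lit 8) (nat_lit 5) (nat_lit 10) (nat_lit 4) (nat_lit 8) (nat_lit 4) (nat_lit 323) (nat_lit 245) (nat_lit 212))))))))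
noncomputable def xc65 : XT := (XT.nd (nat_lit 1560) (nat_lit 152) (nat_lit 0) (XT.nd (nat_lit 780) (nat_lit 76) (nat_lit 0) (XT.nd (nat_lit 390) (nat_lit 152) (nat_lit 0) (XT.nd (nat_lit 156) (nat_lit 76) (nat_lit 0) (XT.nd (nat_lit 78) (nat_lit 0) (nat_lit 0) (XT.lf (nat_lit 0) (nat_lit 15702154935) (nat_lit 152) (nat_lit 9604976209) (nat_lit 0) (nat_lit 5631073143) (nat_lit 8) (nat_lit 5) (nat_lit 10) (nat_lit 4) (nat_lit 8) (nat_lit 4) (nat_lit 324) (nat_lit 245) (nat_lit 211)) (XT.lf (nat_lit 0) (nat_lit 19869191147) (nat_lit 152) (nat_lit 2727900086) (nat_lit 0) (nat_lit 9685356924) (nat_lit 8) (nat_lit 5) (nat_lit 10) (nat_lit 4) (nat_lit 8) (nat_lit 4) (nat_lit 325) (nat_lit 245) (nat_lit 210))) (XT.nd (nat_lit 78) (nat_lit 0) (nat_lit 0) (XT.lf (nat_lit 0) (nat_lit 4543524543) (nat_lit 76) (nat_lit 19720332587) (nat_lit 76) (nat_lit 9429115096) (nat_lit 7) (nat_lit 4) (nat_lit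 8) (nat_lit 5) (nat_lit 8) (nat_lit 4) (nat_lit 326) (nat_lit 245) (nat_lit 209)) (XT.nd (nat_lit 78) (nat_lit 0) (nat_lit 0) (XT.lf (nat_lit 0) (nat_lit 12179831548) (nat_lit 76) (nat_lit 16693965779) (nat_lit 76) (nat_lit 6300478509) (nat_lit 7) (nat_lit 4) (nat_lit 8) (nat_lit 5) (nat_lit 8) (nat_lit 4) (nat_lit 327) (nat_lit 245) (nat_lit 208)) (XT.lf (nat_lit 0) (nat_lit 20109005915) (nat_lit 76) (nat_lit 13556983483) (nat_lit 76) (nat_lit 3066096424) (nat_lit 7) (nat_lit 4) (nat_lit 8) (nat_lit 5) (nat_lit 8) (nat_lit 4) (nat_lit 328) (nat_lit 245) (nat_lit 207))))) (XT.nd (nat_lit 156) (nat_lit 76) (nat_lit 0) (XT.nd (nat_lit 78) (nat_lit 0) (nat_lit 0) (XT.lf (nat_lit 0) (nat_lit 272714883) (nat_lit 152) (nat_lit 10024583250) (nat_lit 76) (nat_lit 28072593188) (nat_lit 6) (nat_lit 5) (nat_lit 8) (nat_lit 5) (nat_lit 7) (nat_lit 4) (nat_lit 329) (nat_lit 245) (nat_lit 206)) (XT.lf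 (nat_lit 0) (nat_lit 3630923271) (nat_lit 152) (nat_lit 3228600537) (nat_lit 76) (nat_lit 33229800221) (nat_lit 6) (nat_lit 5) (nat_lit 8) (nat_lit 5) (nat_lit 7) (nat_lit 4) (nat_lit 330) (nat_lit 245) (nat_lit 205))) (XT.nd (nat_lit 78) (nat_lit 0) (nat_lit 0) (XT.lf (nat_lit 0) (nat_lit 3955520873) (nat_lit 76) (nat_lit 3220894598) (nat_lit 152) (nat_lit 34717368037) (nat_lit 5) (nat_lit 5) (nat_lit 6) (nat_lit 5) (nat_lit 7) (nat_lit 4) (nat_lit 331) (nat_lit 245) (nat_lit 204)) (XT.nd (nat_lit 78) (nat_lit 0) (nat_lit 0) (XT.lf (nat_lit 0) (nat_lit 10921998529) (nat_lit 152) (nat_lit 32263600182) (nat_lit 0) (nat_lit 601749110) (nat_lit 5) (nat_lit 5) (nat_lit 7) (nat_lit 4) (nat_lit 5) (nat_lit 4) (nat_lit 332) (nat_lit 245) (nat_lit 203)) (XT.lf (nat_lit 0) (nat_lit 14867547538) (nat_lit 152) (nat_lit 26432813171) (nat_lit 0) (nat_lit 4474616896) (nat_lit 5) (nat_lit 5) (nat_lit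 7) (nat_lit 4) (nat_lit 5) (nat_lit 4) (nat_lit 333) (nat_lit 245) (nat_lit 202)))))) (XT.nd (nat_lit 390) (nat_lit 0) (nat_lit 0) (XT.nd (nat_lit 156) (nat_lit 76) (nat_lit 0) (XT.nd (nat_lit 78) (nat_lit 0) (nat_lit 0) (XT.lf (nat_lit 0) (nat_lit 18972169470) (nat_lit 152) (nat_lit 20381731583) (nat_lit 0) (nat_lit 8510018616) (nat_lit 5) (nat_lit 5) (nat_lit 7) (nat_lit 4) (nat_lit 5) (nat_lit 4) (nat_lit 334) (nat_lit 245) (nat_lit 201)) (XT.lf (nat_lit 0) (nat_lit 23245637234) (nat_lit 152) (nat_lit 14095948083) (nat_lit 0) (nat_lit 12717562369) (nat_lit 5) (nat_lit 5) (nat_lit 7) (nat_lit 4) (nat_lit 5) (nat_lit 4) (nat_lit 335) (nat_lit 245) (nat_lit 200))) (XT.nd (nat_lit 78) (nat_lit 76) (nat_lit 0) (XT.lf (nat_lit 0) (nat_lit 27698125754) (nat_lit 152) (nat_lit 7560496518) (nat_lit 0) (nat_lit 17107266116) (nat_lit 5) (nat_lit 5) (nat_lit 7) (nat_lit 4) (nat_lit 5) (nat_lit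 4) (nat_lit 336) (nat_lit 245) (nat_lit 199)) (XT.nd (nat_lit 78) (nat_lit 76) (nat_lit 0) (XT.lf (nat_lit 0) (nat_lit 32340236193) (nat_lit 152) (nat_lit 759816290) (nat_lit 0) (nat_lit 21689581534) (nat_lit 5) (nat_lit 5) (nat_lit 7) (nat_lit 4) (nat_lit 5) (nat_lit 4) (nat_lit 337) (nat_lit 245) (nat_lit 198)) (XT.lf (nat_lit 0) (nat_lit 6531327981) (nat_lit 76) (nat_lit 30753665547) (nat_lit 76) (nat_lit 20046063249) (nat_lit 4) (nat_lit 4) (nat_lit 5) (nat_lit 5) (nat_lit 5) (nat_lit 4) (nat_lit 338) (nat_lit 245) (nat_lit 197))))) (XT.nd (nat_lit 156) (nat_lit 0) (nat_lit 0) (XT.nd (nat_lit 78) (nat_lit 0) (nat_lit 0) (XT.lf (nat_lit 0) (nat_lit 14155740695) (nat_lit 76) (nat_lit 28303281289) (nat_lit 76) (nat_lit 17541443143) (nat_lit 4) (nat_lit 4) (nat_lit 5) (nat_lit 5) (nat_lit 5) (nat_lit 4) (nat_lit 339) (nat_lit 245) (nat_lit 196)) (XT.lf (nat_lit 0) (nat_lit 22106452257)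 (nat_lit 76) (nat_lit 25755933315) (nat_lit 76) (nat_lit 14942441982) (nat_lit 4) (nat_lit 4) (nat_lit 5) (nat_lit 5) (nat_lit 5) (nat_lit 4) (nat_lit 340) (nat_lit 245) (nat_lit 195))) (XT.nd (nat_lit 78) (nat_lit 0) (nat_lit 0) (XT.lf (nat_lit 0) (nat_lit 30402392932) (nat_lit 76) (nat_lit 23105556513) (nat_lit 76) (nat_lit 12242871668) (nat_lit 4) (nat_lit 4) (nat_lit 5) (nat_lit 5) (nat_lit 5) (nat_lit 4) (nat_lit 341) (nat_lit 245) (nat_lit 194)) (XT.nd (nat_lit 78) (nat_lit 0) (nat_lit 0) (XT.lf (nat_lit 0) (nat_lit 39063314960) (nat_lit 76) (nat_lit 20345840462) (nat_lit 76) (nat_lit 9436304652) (nat_lit 4) (nat_lit 4) (nat_lit 5) (nat_lit 5) (nat_lit 5) (nat_lit 4) (nat_lit 342) (nat_lit 245) (nat_lit 193)) (XT.lf (nat_lit 0) (nat_lit 48109839584) (nat_lit 76) (nat_lit 17470214408) (nat_lit 76) (nat_lit 6516058633) (nat_lit 4) (nat_lit 4) (nat_lit 5) (nat_lit 5) (nat_lit 5) (nat_lit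 4) (nat_lit 343) (nat_lit 245) (nat_lit 192))))))) (XT.nd (nat_lit 780) (nat_lit 0) (nat_lit 0) (XT.nd (nat_lit 390) (nat_lit 0) (nat_lit 0) (XT.nd (nat_lit 156) (nat_lit 152) (nat_lit 0) (XT.nd (nat_lit 78) (nat_lit 0) (nat_lit 0) (XT.lf (nat_lit 0) (nat_lit 57563506149) (nat_lit 76) (nat_lit 14471831623) (nat_lit 76) (nat_lit 3475180642) (nat_lit 4) (nat_lit 4) (nat_lit 5) (nat_lit 5) (nat_lit 5) (nat_lit 4) (nat_lit 344) (nat_lit 245) (nat_lit 191)) (XT.lf (nat_lit 0) (nat_lit 67446823383) (nat_lit 76) (nat_lit 11343553101) (nat_lit 76) (nat_lit 306430496) (nat_lit 4) (nat_lit 4) (nat_lit 5) (nat_lit 5) (nat_lit 5) (nat_lit 4) (nat_lit 345) (nat_lit 245) (nat_lit 190))) (XT.nd (nat_lit 78) (nat_lit 76) (nat_lit 0) (XT.lf (nat_lit 0) (nat_lit 2901790161) (nat_lit 152) (nat_lit 5126997177) (nat_lit 76) (nat_lit 74832389614) (nat_lit 3) (nat_lit 5) (nat_lit 5) (nat_lit 5) (nat_lit 4)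 (nat_lit 4) (nat_lit 346) (nat_lit 245) (nat_lit 189)) (XT.nd (nat_lit 78) (nat_lit 0) (nat_lit 0) (XT.lf (nat_lit 0) (nat_lit 1732832581) (nat_lit 76) (nat_lit 4533122807) (nat_lit 152) (nat_lit 80547277669) (nat_lit 2) (nat_lit 5) (nat_lit 3) (nat_lit 5) (nat_lit 4) (nat_lit 4) (nat_lit 347) (nat_lit 245) (nat_lit 188)) (XT.lf (nat_lit 0) (nat_lit 9074548628) (nat_lit 76) (nat_lit 789785763) (nat_lit 152) (nat_lit 81095267191) (nat_lit 2) (nat_lit 5) (nat_lit 3) (nat_lit 5) (nat_lit 4) (nat_lit 4) (nat_lit 348) (nat_lit 245) (nat_lit 187))))) (XT.nd (nat_lit 156) (nat_lit 0) (nat_lit 0) (XT.nd (nat_lit 78) (nat_lit 0) (nat_lit 0) (XT.lf (nat_lit 0) (nat_lit 13671564835) (nat_lit 152) (nat_lit 78616943548) (nat_lit 0) (nat_lit 3023342948) (nat_lit 2) (nat_lit 5) (nat_lit 4) (nat_lit 4) (nat_lit 2) (nat_lit 4) (nat_lit 349) (nat_lit 245) (nat_lit 186)) (XT.lf (nat_lit 0) (nat_lit 17662958467)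 (nat_lit 152) (nat_lit 75234537959) (nat_lit 0) (nat_lit 6984536031) (nat_lit 2) (nat_lit 5) (nat_lit 4) (nat_lit 4) (nat_lit 2) (nat_lit 4) (nat_lit 350) (nat_lit 245) (nat_lit 185))) (XT.nd (nat_lit 78) (nat_lit 0) (nat_lit 0) (XT.lf (nat_lit 0) (nat_lit 21835687837) (nat_lit 152) (nat_lit 71717452072) (nat_lit 0) (nat_lit 11128502973) (nat_lit 2) (nat_lit 5) (nat_lit 4) (nat_lit 4) (nat_lit 2) (nat_lit 4) (nat_lit 351) (nat_lit 245) (nat_lit 184)) (XT.nd (nat_lit 78) (nat_lit 0) (nat_lit 0) (XT.lf (nat_lit 0) (nat_lit 26199688014) (nat_lit 152) (nat_lit 68057311873) (nat_lit 0) (nat_lit 15465110362) (nat_lit 2) (nat_lit 5) (nat_lit 4) (nat_lit 4) (nat_lit 2) (nat_lit 4) (nat_lit 352) (nat_lit 245) (nat_lit 183)) (XT.lf (nat_lit 0) (nat_lit 30765349476) (nat_lit 152) (nat_lit 64245402741) (nat_lit 0) (nat_lit 20004683454) (nat_lit 2) (nat_lit 5) (nat_lit 4) (nat_lit 4) (nat_lit 2)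 (nat_lit 4) (nat_lit 353) (nat_lit 245) (nat_lit 182)))))) (XT.nd (nat_lit 390) (nat_lit 0) (nat_lit 0) (XT.nd (nat_lit 156) (nat_lit 0) (nat_lit 0) (XT.nd (nat_lit 78) (nat_lit 0) (nat_lit 0) (XT.lf (nat_lit 0) (nat_lit 35543542845) (nat_lit 152) (nat_lit 60272648704) (nat_lit 0) (nat_lit 24758030757) (nat_lit 2) (nat_lit 5) (nat_lit 4) (nat_lit 4) (nat_lit 2) (nat_lit 4) (nat_lit 354) (nat_lit 245) (nat_lit 181)) (XT.lf (nat_lit 0) (nat_lit 40545644772) (nat_lit 152) (nat_lit 56129590822) (nat_lit 0) (nat_lit 29736469763) (nat_lit 2) (nat_lit 5) (nat_lit 4) (nat_lit 4) (nat_lit 2) (nat_lit 4) (nat_lit 355) (nat_lit 245) (nat_lit 180))) (XT.nd (nat_lit 78) (nat_lit 0) (nat_lit 0) (XT.lf (nat_lit 0) (nat_lit 45783565023) (nat_lit 152) (nat_lit 51806364672) (nat_lit 0) (nat_lit 34951853900) (nat_lit 2) (nat_lit 5) (nat_lit 4) (nat_lit 4) (nat_lit 2) (nat_lit 4) (nat_lit 356) (nat_lit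 245) (nat_lit 179)) (XT.nd (nat_lit 78) (nat_lit 0) (nat_lit 0) (XT.lf (nat_lit 0) (nat_lit 51269774838) (nat_lit 152) (nat_lit 47292676860) (nat_lit 0) (nat_lit 40416600748) (nat_lit 2) (nat_lit 5) (nat_lit 4) (nat_lit 4) (nat_lit 2) (nat_lit 4) (nat_lit 357) (nat_lit 245) (nat_lit 178)) (XT.lf (nat_lit 0) (nat_lit 57017336619) (nat_lit 152) (nat_lit 42577780508) (nat_lit 0) (nat_lit 46143721609) (nat_lit 2) (nat_lit 5) (nat_lit 4) (nat_lit 4) (nat_lit 2) (nat_lit 4) (nat_lit 358) (nat_lit 245) (nat_lit 177))))) (XT.nd (nat_lit 234) (nat_lit 0) (nat_lit 0) (XT.nd (nat_lit 78) (nat_lit 0) (nat_lit 0) (XT.lf (nat_lit 0) (nat_lit 63039935039) (nat_lit 152) (nat_lit 37650449673) (nat_lit 0) (nat_lit 52146852485) (nat_lit 2) (nat_lit 5) (nat_lit 4) (nat_lit 4) (nat_lit 2) (nat_lit 4) (nat_lit 359) (nat_lit 245) (nat_lit 176)) (XT.nd (nat_lit 78) (nat_lit 0) (nat_lit 0) (XT.lf (nat_lit 0)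 (nat_lit 69351909617) (nat_lit 152) (nat_lit 32498952616) (nat_lit 0) (nat_lit 58440286546) (nat_lit 2) (nat_lit 5) (nat_lit 4) (nat_lit 4) (nat_lit 2) (nat_lit 4) (nat_lit 360) (nat_lit 245) (nat_lit 175)) (XT.lf (nat_lit 0) (nat_lit 75968288865) (nat_lit 152) (nat_lit 27111023866) (nat_lit 0) (nat_lit 65039008158) (nat_lit 2) (nat_lit 5) (nat_lit 4) (nat_lit 4) (nat_lit 2) (nat_lit 4) (nat_lit 361) (nat_lit 245) (nat_lit 174)))) (XT.nd (nat_lit 78) (nat_lit 0) (nat_lit 0) (XT.lf (nat_lit 0) (nat_lit 82904826065) (nat_lit 152) (nat_lit 21473835023) (nat_lit 0) (nat_lit 71958728563) (nat_lit 2) (nat_lit 5) (nat_lit 4) (nat_lit 4) (nat_lit 2) (nat_lit 4) (nat_lit 362) (nat_lit 245) (nat_lit 173)) (XT.nd (nat_lit 78) (nat_lit 0) (nat_lit 0) (XT.lf (nat_lit 0) (nat_lit 90178036784) (nat_lit 152) (nat_lit 15573964207) (nat_lit 0) (nat_lit 79215923285) (nat_lit 2) (nat_lit 5) (nat_lit 4)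 (nat_lit 4) (nat_lit 2) (nat_lit 4) (nat_lit 363) (nat_lit 245) (nat_lit 172)) (XT.lf (nat_lit 0) (nat_lit 97805238188) (nat_lit 152) (nat_lit 9397364109) (nat_lit 0) (nat_lit 86827871361) (nat_lit 2) (nat_lit 5) (nat_lit 4) (nat_lit 4) (nat_lit 2) (nat_lit 4) (nat_lit 364) (nat_lit 245) (nat_lit 171))))))))
noncomputable def xc66 : XT := (XT.nd (nat_lit 1560) (nat_lit 0) (nat_lit 0) (XT.nd (nat_lit 780) (nat_lit 0) (nat_lit 0) (XT.nd (nat_lit 390) (nat_lit 0) (nat_lit 0) (XT.nd (nat_lit 156) (nat_lit 0) (nat_lit 0) (XT.nd (nat_lit 78) (nat_lit 76) (nat_lit 0) (XT.lf (nat_lit 0) (nat_lit 105804590283) (nat_lit 152) (nat_lit 2929328536) (nat_lit 0) (nat_lit 94812696474) (nat_lit 2) (nat_lit 5) (nat_lit 4) (nat_lit 4) (nat_lit 2) (nat_lit 4) (nat_lit 365) (nat_lit 245) (nat_lit 170)) (XT.lf (nat_lit 0) (nat_lit 3972693601) (nat_lit 76) (nat_lit 110284470423) (nat_lit 76) (nat_lit 99278741395)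 (nat_lit 1) (nat_lit 4) (nat_lit 2) (nat_lit 5) (nat_lit 2) (nat_lit 4) (nat_lit 366) (nat_lit 245) (nat_lit 169))) (XT.nd (nat_lit 78) (nat_lit 0) (nat_lit 0) (XT.lf (nat_lit 0) (nat_lit 11305217494) (nat_lit 76) (nat_lit 111868150900) (nat_lit 76) (nat_lit 100849245473) (nat_lit 1) (nat_lit 4) (nat_lit 2) (nat_lit 5) (nat_lit 2) (nat_lit 4) (nat_lit 367) (nat_lit 245) (nat_lit 168)) (XT.nd (nat_lit 78) (nat_lit 0) (nat_lit 0) (XT.lf (nat_lit 0) (nat_lit 18988844703) (nat_lit 76) (nat_lit 113538340516) (nat_lit 76) (nat_lit 102506886136) (nat_lit 1) (nat_lit 4) (nat_lit 2) (nat_lit 5) (nat_lit 2) (nat_lit 4) (nat_lit 368) (nat_lit 245) (nat_lit 167)) (XT.lf (nat_lit 0) (nat_lit 27041869579) (nat_lit 76) (nat_lit 115299015911) (nat_lit 76) (nat_lit 104255610148) (nat_lit 1) (nat_lit 4) (nat_lit 2) (nat_lit 5) (nat_lit 2) (nat_lit 4) (nat_lit 369) (nat_lit 245) (nat_lit 166))))) (XT.nd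 (nat_lit 156) (nat_lit 0) (nat_lit 0) (XT.nd (nat_lit 78) (nat_lit 0) (nat_lit 0) (XT.lf (nat_lit 0) (nat_lit 35483465990) (nat_lit 76) (nat_lit 117154369169) (nat_lit 76) (nat_lit 106099581138) (nat_lit 1) (nat_lit 4) (nat_lit 2) (nat_lit 5) (nat_lit 2) (nat_lit 4) (nat_lit 370) (nat_lit 245) (nat_lit 165)) (XT.lf (nat_lit 0) (nat_lit 44333732976) (nat_lit 76) (nat_lit 119108817800) (nat_lit 76) (nat_lit 108043189512) (nat_lit 1) (nat_lit 4) (nat_lit 2) (nat_lit 5) (nat_lit 2) (nat_lit 4) (nat_lit 371) (nat_lit 245) (nat_lit 164))) (XT.nd (nat_lit 78) (nat_lit 0) (nat_lit 0) (XT.lf (nat_lit 0) (nat_lit 53613742600) (nat_lit 76) (nat_lit 121167015252) (nat_lit 76) (nat_lit 110091062910) (nat_lit 1) (nat_lit 4) (nat_lit 2) (nat_lit 5) (nat_lit 2) (nat_lit 4) (nat_lit 372) (nat_lit 245) (nat_lit 163)) (XT.nd (nat_lit 78) (nat_lit 0) (nat_lit 0) (XT.lf (nat_lit 0) (nat_lit 63345590123)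 (nat_lit 76) (nat_lit 123333861994) (nat_lit 76) (nat_lit 112248077220) (nat_lit 1) (nat_lit 4) (nat_lit 2) (nat_lit 5) (nat_lit 2) (nat_lit 4) (nat_lit 373) (nat_lit 245) (nat_lit 162)) (XT.lf (nat_lit 0) (nat_lit 73552446611) (nat_lit 76) (nat_lit 125614517186) (nat_lit 76) (nat_lit 114519368191) (nat_lit 1) (nat_lit 4) (nat_lit 2) (nat_lit 5) (nat_lit 2) (nat_lit 4) (nat_lit 374) (nat_lit 245) (nat_lit 161)))))) (XT.nd (nat_lit 390) (nat_lit 0) (nat_lit 0) (XT.nd (nat_lit 156) (nat_lit 0) (nat_lit 0) (XT.nd (nat_lit 78) (nat_lit 0) (nat_lit 0) (XT.lf (nat_lit 0) (nat_lit 84258614104) (nat_lit 76) (nat_lit 128014410960) (nat_lit 76) (nat_lit 116910343659) (nat_lit 1) (nat_lit 4) (nat_lit 2) (nat_lit 5) (nat_lit 2) (nat_lit 4) (nat_lit 375) (nat_lit 245) (nat_lit 160)) (XT.lf (nat_lit 0) (nat_lit 95489583476) (nat_lit 76) (nat_lit 130539257348) (nat_lit 76) (nat_lit 119426696422) (nat_lit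 1) (nat_lit 4) (nat_lit 2) (nat_lit 5) (nat_lit 2) (nat_lit 4) (nat_lit 376) (nat_lit 245) (nat_lit 159))) (XT.nd (nat_lit 78) (nat_lit 0) (nat_lit 0) (XT.lf (nat_lit 0) (nat_lit 107272095131) (nat_lit 76) (nat_lit 133195067888) (nat_lit 76) (nat_lit 122074417796) (nat_lit 1) (nat_lit 4) (nat_lit 2) (nat_lit 5) (nat_lit 2) (nat_lit 4) (nat_lit 377) (nat_lit 245) (nat_lit 158)) (XT.nd (nat_lit 78) (nat_lit 0) (nat_lit 0) (XT.lf (nat_lit 0) (nat_lit 119634202667) (nat_lit 76) (nat_lit 135988165941) (nat_lit 76) (nat_lit 124859811881) (nat_lit 1) (nat_lit 4) (nat_lit 2) (nat_lit 5) (nat_lit 2) (nat_lit 4) (nat_lit 378) (nat_lit 245) (nat_lit 157)) (XT.lf (nat_lit 0) (nat_lit 132605339675) (nat_lit 76) (nat_lit 138925201738) (nat_lit 76) (nat_lit 127789510566) (nat_lit 1) (nat_lit 4) (nat_lit 2) (nat_lit 5) (nat_lit 2) (nat_lit 4) (nat_lit 379) (nat_lit 245) (nat_lit 156))))) (XT.nd (nat_lit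 156) (nat_lit 0) (nat_lit 0) (XT.nd (nat_lit 78) (nat_lit 0) (nat_lit 0) (XT.lf (nat_lit 0) (nat_lit 146216389813) (nat_lit 76) (nat_lit 142013168222) (nat_lit 76) (nat_lit 130870489324) (nat_lit 1) (nat_lit 4) (nat_lit 2) (nat_lit 5) (nat_lit 2) (nat_lit 4) (nat_lit 380) (nat_lit 245) (nat_lit 155)) (XT.lf (nat_lit 0) (nat_lit 160499760344) (nat_lit 76) (nat_lit 145259417695) (nat_lit 76) (nat_lit 134110083820) (nat_lit 1) (nat_lit 4) (nat_lit 2) (nat_lit 5) (nat_lit 2) (nat_lit 4) (nat_lit 381) (nat_lit 245) (nat_lit 154))) (XT.nd (nat_lit 78) (nat_lit 0) (nat_lit 0) (XT.lf (nat_lit 0) (nat_lit 175489459293) (nat_lit 76) (nat_lit 148671679322) (nat_lit 76) (nat_lit 137516007374) (nat_lit 1) (nat_lit 4) (nat_lit 2) (nat_lit 5) (nat_lit 2) (nat_lit 4) (nat_lit 382) (nat_lit 245) (nat_lit 153)) (XT.nd (nat_lit 78) (nat_lit 0) (nat_lit 0) (XT.lf (nat_lit 0) (nat_lit 191221176419) (nat_lit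 76) (nat_lit 152258077536) (nat_lit 76) (nat_lit 141096369326) (nat_lit 1) (nat_lit 4) (nat_lit 2) (nat_lit 5) (nat_lit 2) (nat_lit 4) (nat_lit 383) (nat_lit 245) (nat_lit 152)) (XT.lf (nat_lit 0) (nat_lit 207732368192) (nat_lit 76) (nat_lit 156027151379) (nat_lit 76) (nat_lit 144859694350) (nat_lit 1) (nat_lit 4) (nat_lit 2) (nat_lit 5) (nat_lit 2) (nat_lit 4) (nat_lit 384) (nat_lit 245) (nat_lit 151))))))) (XT.nd (nat_lit 33384) (nat_lit 0) (nat_lit 1672) (XT.nd (nat_lit 390) (nat_lit 0) (nat_lit 0) (XT.nd (nat_lit 156) (nat_lit 0) (nat_lit 0) (XT.nd (nat_lit 78) (nat_lit 0) (nat_lit 0) (XT.lf (nat_lit 0) (nat_lit 225062346973) (nat_lit 76) (nat_lit 159987874837) (nat_lit 76) (nat_lit 148814942742) (nat_lit 1) (nat_lit 4) (nat_lit 2) (nat_lit 5) (nat_lit 2) (nat_lit 4) (nat_lit 385) (nat_lit 245) (nat_lit 150)) (XT.lf (nat_lit 0) (nat_lit 243252374617) (nat_lit 76) (nat_lit 164149678204)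 (nat_lit 76) (nat_lit 152971531760) (nat_lit 1) (nat_lit 4) (nat_lit 2) (nat_lit 5) (nat_lit 2) (nat_lit 4) (nat_lit 386) (nat_lit 245) (nat_lit 149))) (XT.nd (nat_lit 78) (nat_lit 0) (nat_lit 0) (XT.lf (nat_lit 0) (nat_lit 262345760712) (nat_lit 76) (nat_lit 168522470536) (nat_lit 76) (nat_lit 157339358046) (nat_lit 1) (nat_lit 4) (nat_lit 2) (nat_lit 5) (nat_lit 2) (nat_lit 4) (nat_lit 387) (nat_lit 245) (nat_lit 148)) (XT.nd (nat_lit 78) (nat_lit 0) (nat_lit 0) (XT.lf (nat_lit 0) (nat_lit 282387965703) (nat_lit 76) (nat_lit 173116663243) (nat_lit 76) (nat_lit 161928821185) (nat_lit 1) (nat_lit 4) (nat_lit 2) (nat_lit 5) (nat_lit 2) (nat_lit 4) (nat_lit 388) (nat_lit 245) (nat_lit 147)) (XT.lf (nat_lit 0) (nat_lit 303426709124) (nat_lit 76) (nat_lit 177943194878) (nat_lit 76) (nat_lit 166750848470) (nat_lit 1) (nat_lit 4) (nat_lit 2) (nat_lit 5) (nat_lit 2) (nat_lit 4) (nat_lit 389)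 (nat_lit 245) (nat_lit 146))))) (XT.nd (nat_lit 32760) (nat_lit 0) (nat_lit 2964) (XT.nd (nat_lit 32682) (nat_lit 0) (nat_lit 3496) (XT.lf (nat_lit 0) (nat_lit 325512083222) (nat_lit 76) (nat_lit 183013557185) (nat_lit 76) (nat_lit 171816920919) (nat_lit 1) (nat_lit 4) (nat_lit 2) (nat_lit 5) (nat_lit 2) (nat_lit 4) (nat_lit 390) (nat_lit 245) (nat_lit 145)) (XT.lf (nat_lit 0) (nat_lit 2890890479) (nat_lit 228) (nat_lit 824054585) (nat_lit 228) (nat_lit 824054585) (nat_lit 47) (nat_lit 4) (nat_lit 50) (nat_lit 5) (nat_lit 50) (nat_lit 4) (nat_lit 288) (nat_lit 246) (nat_lit 246))) (XT.nd (nat_lit 78) (nat_lit 228) (nat_lit 0) (XT.lf (nat_lit 0) (nat_lit 2026869785) (nat_lit 304) (nat_lit 6156806794) (nat_lit 0) (nat_lit 1107975027) (nat_lit 43) (nat_lit 5) (nat_lit 47) (nat_lit 4) (nat_lit 43) (nat_lit 4) (nat_lit 289) (nat_lit 246) (nat_lit 245)) (XT.nd (nat_lit 78) (nat_lit 0) (nat_lit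 0) (XT.lf (nat_lit 0) (nat_lit 223679984) (nat_lit 228) (nat_lit 5544182822) (nat_lit 228) (nat_lit 3750150198) (nat_lit 40) (nat_lit 4) (nat_lit 43) (nat_lit 5) (nat_lit 43) (nat_lit 4) (nat_lit 290) (nat_lit 246) (nat_lit 244)) (XT.lf (nat_lit 0) (nat_lit 6923214573) (nat_lit 228) (nat_lit 2731149915) (nat_lit 228) (nat_lit 103652658) (nat_lit 40) (nat_lit 4) (nat_lit 43) (nat_lit 5) (nat_lit 43) (nat_lit 4) (nat_lit 291) (nat_lit 246) (nat_lit 243)))))) (XT.nd (nat_lit 390) (nat_lit 608) (nat_lit 0) (XT.nd (nat_lit 156) (nat_lit 228) (nat_lit 0) (XT.nd (nat_lit 78) (nat_lit 228) (nat_lit 0) (XT.lf (nat_lit 0) (nat_lit 3528296500) (nat_lit 228) (nat_lit 6212982639) (nat_lit 0) (nat_lit 269941168) (nat_lit 37) (nat_lit 5) (nat_lit 40) (nat_lit 4) (nat_lit 37) (nat_lit 4) (nat_lit 292) (nat_lit 246) (nat_lit 242)) (XT.lf (nat_lit 0) (nat_lit 339116890) (nat_lit 228) (nat_lit 6959215240)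 (nat_lit 228) (nat_lit 2980881820) (nat_lit 34) (nat_lit 4) (nat_lit 37) (nat_lit 5) (nat_lit 37) (nat_lit 4) (nat_lit 293) (nat_lit 246) (nat_lit 241))) (XT.nd (nat_lit 78) (nat_lit 152) (nat_lit 0) (XT.lf (nat_lit 0) (nat_lit 642983084) (nat_lit 304) (nat_lit 3345911513) (nat_lit 76) (nat_lit 6572912891) (nat_lit 33) (nat_lit 5) (nat_lit 37) (nat_lit 5) (nat_lit 34) (nat_lit 4) (nat_lit 294) (nat_lit 246) (nat_lit 240)) (XT.nd (nat_lit 78) (nat_lit 0) (nat_lit 0) (XT.lf (nat_lit 0) (nat_lit 3436740376) (nat_lit 152) (nat_lit 833410141) (nat_lit 228) (nat_lit 6590007296) (nat_lit 31) (nat_lit 5) (nat_lit 33) (nat_lit 5) (nat_lit 34) (nat_lit 4) (nat_lit 295) (nat_lit 246) (nat_lit 239)) (XT.lf (nat_lit 0) (nat_lit 8045656953) (nat_lit 228) (nat_lit 740140916) (nat_lit 0) (nat_lit 2389454736) (nat_lit 31) (nat_lit 5) (nat_lit 34) (nat_lit 4) (nat_lit 31) (nat_lit 4) (nat_lit 296) (nat_lit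 246) (nat_lit 238))))) (XT.nd (nat_lit 156) (nat_lit 228) (nat_lit 0) (XT.nd (nat_lit 78) (nat_lit 152) (nat_lit 0) (XT.lf (nat_lit 0) (nat_lit 475732275) (nat_lit 228) (nat_lit 5245072723) (nat_lit 76) (nat_lit 5785662363) (nat_lit 28) (nat_lit 5) (nat_lit 31) (nat_lit 5) (nat_lit 29) (nat_lit 4) (nat_lit 297) (nat_lit 246) (nat_lit 237)) (XT.lf (nat_lit 0) (nat_lit 1588514465) (nat_lit 152) (nat_lit 2482752406) (nat_lit 228) (nat_lit 7784807000) (nat_lit 26) (nat_lit 5) (nat_lit 28) (nat_lit 5) (nat_lit 29) (nat_lit 4) (nat_lit 298) (nat_lit 246) (nat_lit 236))) (XT.nd (nat_lit 78) (nat_lit 228) (nat_lit 0) (XT.lf (nat_lit 0) (nat_lit 7830434880) (nat_lit 228) (nat_lit 3486345377) (nat_lit 0) (nat_lit 907332396) (nat_lit 26) (nat_lit 5) (nat_lit 29) (nat_lit 4) (nat_lit 26) (nat_lit 4) (nat_lit 299) (nat_lit 246) (nat_lit 235)) (XT.nd (nat_lit 78) (nat_lit 76) (nat_lit 0) (XT.lf (nat_lit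 0) (nat_lit 3517498157) (nat_lit 152) (nat_lit 8240684409) (nat_lit 152) (nat_lit 853477631) (nat_lit 24) (nat_lit 4) (nat_lit 26) (nat_lit 5) (nat_lit 26) (nat_lit 4) (nat_lit 300) (nat_lit 246) (nat_lit 234)) (XT.lf (nat_lit 0) (nat_lit 2717701914) (nat_lit 228) (nat_lit 2257921942) (nat_lit 76) (nat_lit 8043569446) (nat_lit 23) (nat_lit 5) (nat_lit 26) (nat_lit 5) (nat_lit 24) (nat_lit 4) (nat_lit 301) (nat_lit 246) (nat_lit 233))))))))
noncomputable def xc67 : XT := (XT.nd (nat_lit 1560) (nat_lit 380) (nat_lit 0) (XT.nd (nat_lit 780) (nat_lit 380) (nat_lit 0) (XT.nd (nat_lit 390) (nat_lit 304) (nat_lit 0) (XT.nd (nat_lit 156) (nat_lit 304) (nat_lit 0) (XT.nd (nat_lit 78) (nat_lit 0) (nat_lit 0) (XT.lf (nat_lit 0) (nat_lit 4882227076) (nat_lit 76) (nat_lit 1523818885) (nat_lit 152) (nat_lit 7042112245) (nat_lit 22) (nat_lit 5) (nat_lit 23) (nat_lit 5) (nat_lit 24) (nat_lit 4) (nat_lit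 302) (nat_lit 246) (nat_lit 232)) (XT.lf (nat_lit 0) (nat_lit 10242846928) (nat_lit 152) (nat_lit 1653910745) (nat_lit 0) (nat_lit 2003725134) (nat_lit 22) (nat_lit 5) (nat_lit 24) (nat_lit 4) (nat_lit 22) (nat_lit 4) (nat_lit 303) (nat_lit 246) (nat_lit 231))) (XT.nd (nat_lit 78) (nat_lit 152) (nat_lit 0) (XT.lf (nat_lit 0) (nat_lit 5584515009) (nat_lit 152) (nat_lit 8696646325) (nat_lit 152) (nat_lit 93886672) (nat_lit 20) (nat_lit 4) (nat_lit 22) (nat_lit 5) (nat_lit 22) (nat_lit 4) (nat_lit 304) (nat_lit 246) (nat_lit 230)) (XT.nd (nat_lit 78) (nat_lit 76) (nat_lit 0) (XT.lf (nat_lit 0) (nat_lit 3457742040) (nat_lit 228) (nat_lit 1860710241) (nat_lit 76) (nat_lit 9555816742) (nat_lit 19) (nat_lit 5) (nat_lit 22) (nat_lit 5) (nat_lit 20) (nat_lit 4) (nat_lit 305) (nat_lit 246) (nat_lit 229)) (XT.lf (nat_lit 0) (nat_lit 5422242629) (nat_lit 76) (nat_lit 1749052156) (nat_lit 152) (nat_lit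 8227797785) (nat_lit 18) (nat_lit 5) (nat_lit 19) (nat_lit 5) (nat_lit 20) (nat_lit 4) (nat_lit 306) (nat_lit 246) (nat_lit 228))))) (XT.nd (nat_lit 156) (nat_lit 152) (nat_lit 0) (XT.nd (nat_lit 78) (nat_lit 152) (nat_lit 0) (XT.lf (nat_lit 0) (nat_lit 11037632867) (nat_lit 152) (nat_lit 3012849570) (nat_lit 0) (nat_lit 1901408356) (nat_lit 18) (nat_lit 5) (nat_lit 20) (nat_lit 4) (nat_lit 18) (nat_lit 4) (nat_lit 307) (nat_lit 246) (nat_lit 227)) (XT.lf (nat_lit 0) (nat_lit 4248084067) (nat_lit 152) (nat_lit 10852650725) (nat_lit 152) (nat_lit 1431506437) (nat_lit 16) (nat_lit 4) (nat_lit 18) (nat_lit 5) (nat_lit 18) (nat_lit 4) (nat_lit 308) (nat_lit 246) (nat_lit 226))) (XT.nd (nat_lit 78) (nat_lit 76) (nat_lit 0) (XT.lf (nat_lit 0) (nat_lit 2114843066) (nat_lit 228) (nat_lit 5357068170) (nat_lit 76) (nat_lit 9670003180) (nat_lit 15) (nat_lit 5) (nat_lit 18) (nat_lit 5) (nat_lit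 16) (nat_lit 4) (nat_lit 309) (nat_lit 246) (nat_lit 225)) (XT.nd (nat_lit 78) (nat_lit 0) (nat_lit 0) (XT.lf (nat_lit 0) (nat_lit 1798969069) (nat_lit 76) (nat_lit 3932687595) (nat_lit 152) (nat_lit 12052251624) (nat_lit 14) (nat_lit 5) (nat_lit 15) (nat_lit 5) (nat_lit 16) (nat_lit 4) (nat_lit 310) (nat_lit 246) (nat_lit 224)) (XT.lf (nat_lit 0) (nat_lit 9349720177) (nat_lit 76) (nat_lit 185290402) (nat_lit 152) (nat_lit 8922775937) (nat_lit 14) (nat_lit 5) (nat_lit 15) (nat_lit 5) (nat_lit 16) (nat_lit 4) (nat_lit 311) (nat_lit 246) (nat_lit 223)))))) (XT.nd (nat_lit 390) (nat_lit 152) (nat_lit 0) (XT.nd (nat_lit 156) (nat_lit 152) (nat_lit 0) (XT.nd (nat_lit 78) (nat_lit 76) (nat_lit 0) (XT.lf (nat_lit 0) (nat_lit 13505143569) (nat_lit 152) (nat_lit 2091027002) (nat_lit 0) (nat_lit 3570423839) (nat_lit 14) (nat_lit 5) (nat_lit 16) (nat_lit 4) (nat_lit 14) (nat_lit 4) (nat_lit 312)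 (nat_lit 246) (nat_lit 222)) (XT.lf (nat_lit 0) (nat_lit 5305406859) (nat_lit 76) (nat_lit 12376219063) (nat_lit 76) (nat_lit 2228887808) (nat_lit 13) (nat_lit 4) (nat_lit 14) (nat_lit 5) (nat_lit 14) (nat_lit 4) (nat_lit 313) (nat_lit 246) (nat_lit 221))) (XT.nd (nat_lit 78) (nat_lit 76) (nat_lit 0) (XT.lf (nat_lit 0) (nat_lit 1289532088) (nat_lit 152) (nat_lit 7706277640) (nat_lit 76) (nat_lit 11696890616) (nat_lit 12) (nat_lit 5) (nat_lit 14) (nat_lit 5) (nat_lit 13) (nat_lit 4) (nat_lit 314) (nat_lit 246) (nat_lit 220)) (XT.nd (nat_lit 78) (nat_lit 76) (nat_lit 0) (XT.lf (nat_lit 0) (nat_lit 4834923850) (nat_lit 152) (nat_lit 631069447) (nat_lit 76) (nat_lit 16049932794) (nat_lit 12) (nat_lit 5) (nat_lit 14) (nat_lit 5) (nat_lit 13) (nat_lit 4) (nat_lit 315) (nat_lit 246) (nat_lit 219)) (XT.lf (nat_lit 0) (nat_lit 6892774451) (nat_lit 76) (nat_lit 1701908291) (nat_lit 152) (nat_lit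 13783827475) (nat_lit 11) (nat_lit 5) (nat_lit 12) (nat_lit 5) (nat_lit 13) (nat_lit 4) (nat_lit 316) (nat_lit 246) (nat_lit 218))))) (XT.nd (nat_lit 156) (nat_lit 152) (nat_lit 0) (XT.nd (nat_lit 78) (nat_lit 0) (nat_lit 0) (XT.lf (nat_lit 0) (nat_lit 12518482855) (nat_lit 152) (nat_lit 8630639144) (nat_lit 0) (nat_lit 2136348380) (nat_lit 11) (nat_lit 5) (nat_lit 13) (nat_lit 4) (nat_lit 11) (nat_lit 4) (nat_lit 317) (nat_lit 246) (nat_lit 217)) (XT.lf (nat_lit 0) (nat_lit 16599759635) (nat_lit 152) (nat_lit 1581030550) (nat_lit 0) (nat_lit 6058971166) (nat_lit 11) (nat_lit 5) (nat_lit 13) (nat_lit 4) (nat_lit 11) (nat_lit 4) (nat_lit 318) (nat_lit 246) (nat_lit 216))) (XT.nd (nat_lit 78) (nat_lit 76) (nat_lit 0) (XT.lf (nat_lit 0) (nat_lit 5895127241) (nat_lit 76) (nat_lit 15018571065) (nat_lit 76) (nat_lit 4326683555) (nat_lit 10) (nat_lit 4) (nat_lit 11) (nat_lit 5) (nat_lit 11)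 (nat_lit 4) (nat_lit 319) (nat_lit 246) (nat_lit 215)) (XT.nd (nat_lit 78) (nat_lit 76) (nat_lit 0) (XT.lf (nat_lit 0) (nat_lit 13687219198) (nat_lit 76) (nat_lit 11720709291) (nat_lit 76) (nat_lit 884917933) (nat_lit 10) (nat_lit 4) (nat_lit 11) (nat_lit 5) (nat_lit 11) (nat_lit 4) (nat_lit 320) (nat_lit 246) (nat_lit 214)) (XT.lf (nat_lit 0) (nat_lit 2581362800) (nat_lit 152) (nat_lit 5681048902) (nat_lit 76) (nat_lit 19136442480) (nat_lit 9) (nat_lit 5) (nat_lit 11) (nat_lit 5) (nat_lit 10) (nat_lit 4) (nat_lit 321) (nat_lit 246) (nat_lit 213))))))) (XT.nd (nat_lit 780) (nat_lit 152) (nat_lit 0) (XT.nd (nat_lit 390) (nat_lit 152) (nat_lit 0) (XT.nd (nat_lit 156) (nat_lit 0) (nat_lit 0) (XT.nd (nat_lit 78) (nat_lit 0) (nat_lit 0) (XT.lf (nat_lit 0) (nat_lit 1519677212) (nat_lit 76) (nat_lit 4637905660) (nat_lit 152) (nat_lit 22403572831) (nat_lit 8) (nat_lit 5) (nat_lit 9) (nat_lit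 5) (nat_lit 10) (nat_lit 4) (nat_lit 322) (nat_lit 246) (nat_lit 212)) (XT.lf (nat_lit 0) (nat_lit 9175140251) (nat_lit 76) (nat_lit 777453642) (nat_lit 152) (nat_lit 19827014583) (nat_lit 8) (nat_lit 5) (nat_lit 9) (nat_lit 5) (nat_lit 10) (nat_lit 4) (nat_lit 323) (nat_lit 246) (nat_lit 211))) (XT.nd (nat_lit 78) (nat_lit 0) (nat_lit 0) (XT.lf (nat_lit 0) (nat_lit 13934261185) (nat_lit 152) (nat_lit 13996428097) (nat_lit 0) (nat_lit 3128482819) (nat_lit 8) (nat_lit 5) (nat_lit 10) (nat_lit 4) (nat_lit 8) (nat_lit 4) (nat_lit 324) (nat_lit 246) (nat_lit 210)) (XT.nd (nat_lit 78) (nat_lit 0) (nat_lit 0) (XT.lf (nat_lit 0) (nat_lit 18076097791) (nat_lit 152) (nat_lit 7165657563) (nat_lit 0) (nat_lit 7162936158) (nat_lit 8) (nat_lit 5) (nat_lit 10) (nat_lit 4) (nat_lit 8) (nat_lit 4) (nat_lit 325) (nat_lit 246) (nat_lit 209)) (XT.lf (nat_lit 0) (nat_lit 22375826999) (nat_lit 152) (nat_lit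 83754655) (nat_lit 0) (nat_lit 11360395587) (nat_lit 8) (nat_lit 5) (nat_lit 10) (nat_lit 4) (nat_lit 8) (nat_lit 4) (nat_lit 326) (nat_lit 246) (nat_lit 208))))) (XT.nd (nat_lit 156) (nat_lit 76) (nat_lit 0) (XT.nd (nat_lit 78) (nat_lit 0) (nat_lit 0) (XT.lf (nat_lit 0) (nat_lit 7506393779) (nat_lit 76) (nat_lit 19454488323) (nat_lit 76) (nat_lit 8341657121) (nat_lit 7) (nat_lit 4) (nat_lit 8) (nat_lit 5) (nat_lit 8) (nat_lit 4) (nat_lit 327) (nat_lit 246) (nat_lit 207)) (XT.lf (nat_lit 0) (nat_lit 15394245039) (nat_lit 76) (nat_lit 16336415598) (nat_lit 76) (nat_lit 5130822693) (nat_lit 7) (nat_lit 4) (nat_lit 8) (nat_lit 5) (nat_lit 8) (nat_lit 4) (nat_lit 328) (nat_lit 246) (nat_lit 206))) (XT.nd (nat_lit 78) (nat_lit 76) (nat_lit 0) (XT.lf (nat_lit 0) (nat_lit 23595810414) (nat_lit 76) (nat_lit 13099357924) (nat_lit 76) (nat_lit 1805420538) (nat_lit 7) (nat_lit 4) (nat_lit 8) (nat_lit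 5) (nat_lit 8) (nat_lit 4) (nat_lit 329) (nat_lit 246) (nat_lit 205)) (XT.nd (nat_lit 78) (nat_lit 0) (nat_lit 0) (XT.lf (nat_lit 0) (nat_lit 1589897764) (nat_lit 152) (nat_lit 8118784567) (nat_lit 76) (nat_lit 30513793988) (nat_lit 6) (nat_lit 5) (nat_lit 8) (nat_lit 5) (nat_lit 7) (nat_lit 4) (nat_lit 330) (nat_lit 246) (nat_lit 204)) (XT.lf (nat_lit 0) (nat_lit 5053942897) (nat_lit 152) (nat_lit 1097623091) (nat_lit 76) (nat_lit 35879453223) (nat_lit 6) (nat_lit 5) (nat_lit 8) (nat_lit 5) (nat_lit 7) (nat_lit 4) (nat_lit 331) (nat_lit 246) (nat_lit 203)))))) (XT.nd (nat_lit 390) (nat_lit 76) (nat_lit 0) (XT.nd (nat_lit 156) (nat_lit 0) (nat_lit 0) (XT.nd (nat_lit 78) (nat_lit 0) (nat_lit 0) (XT.lf (nat_lit 0) (nat_lit 6408730074) (nat_lit 76) (nat_lit 2344075481) (nat_lit 152) (nat_lit 35174124524) (nat_lit 5) (nat_lit 5) (nat_lit 6) (nat_lit 5) (nat_lit 7) (nat_lit 4) (nat_lit 332)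 (nat_lit 246) (nat_lit 202)) (XT.lf (nat_lit 0) (nat_lit 12643120622) (nat_lit 152) (nat_lit 31685568955) (nat_lit 0) (nat_lit 1588642014) (nat_lit 5) (nat_lit 5) (nat_lit 7) (nat_lit 4) (nat_lit 5) (nat_lit 4) (nat_lit 333) (nat_lit 246) (nat_lit 201))) (XT.nd (nat_lit 78) (nat_lit 0) (nat_lit 0) (XT.lf (nat_lit 0) (nat_lit 16729993645) (nat_lit 152) (nat_lit 25667585985) (nat_lit 0) (nat_lit 5609591026) (nat_lit 5) (nat_lit 5) (nat_lit 7) (nat_lit 4) (nat_lit 5) (nat_lit 4) (nat_lit 334) (nat_lit 246) (nat_lit 200)) (XT.nd (nat_lit 78) (nat_lit 0) (nat_lit 0) (XT.lf (nat_lit 0) (nat_lit 20986557686) (nat_lit 152) (nat_lit 19413324978) (nat_lit 0) (nat_lit 9803370294) (nat_lit 5) (nat_lit 5) (nat_lit 7) (nat_lit 4) (nat_lit 5) (nat_lit 4) (nat_lit 335) (nat_lit 246) (nat_lit 199)) (XT.lf (nat_lit 0) (nat_lit 25422947422) (nat_lit 152) (nat_lit 12907894834) (nat_lit 0) (nat_lit 14179965009)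 (nat_lit 5) (nat_lit 5) (nat_lit 7) (nat_lit 4) (nat_lit 5) (nat_lit 4) (nat_lit 336) (nat_lit 246) (nat_lit 198))))) (XT.nd (nat_lit 234) (nat_lit 0) (nat_lit 0) (XT.nd (nat_lit 78) (nat_lit 76) (nat_lit 0) (XT.lf (nat_lit 0) (nat_lit 30049725686) (nat_lit 152) (nat_lit 6135806437) (nat_lit 0) (nat_lit 18749795633) (nat_lit 5) (nat_lit 5) (nat_lit 7) (nat_lit 4) (nat_lit 5) (nat_lit 4) (nat_lit 337) (nat_lit 246) (nat_lit 197)) (XT.nd (nat_lit 78) (nat_lit 0) (nat_lit 0) (XT.lf (nat_lit 0) (nat_lit 949452649) (nat_lit 76) (nat_lit 33943279584) (nat_lit 76) (nat_lit 22589113683) (nat_lit 4) (nat_lit 4) (nat_lit 5) (nat_lit 5) (nat_lit 5) (nat_lit 4) (nat_lit 338) (nat_lit 246) (nat_lit 196)) (XT.lf (nat_lit 0) (nat_lit 8547074247) (nat_lit 76) (nat_lit 31505361422) (nat_lit 76) (nat_lit 20099542334) (nat_lit 4) (nat_lit 4) (nat_lit 5) (nat_lit 5) (nat_lit 5) (nat_lit 4) (nat_lit 339)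 (nat_lit 246) (nat_lit 195)))) (XT.nd (nat_lit 78) (nat_lit 0) (nat_lit 0) (XT.lf (nat_lit 0) (nat_lit 16472270460) (nat_lit 76) (nat_lit 28969885922) (nat_lit 76) (nat_lit 17514873321) (nat_lit 4) (nat_lit 4) (nat_lit 5) (nat_lit 5) (nat_lit 5) (nat_lit 4) (nat_lit 340) (nat_lit 246) (nat_lit 194)) (XT.nd (nat_lit 78) (nat_lit 0) (nat_lit 0) (XT.lf (nat_lit 0) (nat_lit 24743910803) (nat_lit 76) (nat_lit 26330816237) (nat_lit 76) (nat_lit 14828952673) (nat_lit 4) (nat_lit 4) (nat_lit 5) (nat_lit 5) (nat_lit 5) (nat_lit 4) (nat_lit 341) (nat_lit 246) (nat_lit 193)) (XT.lf (nat_lit 0) (nat_lit 33381689658) (nat_lit 76) (nat_lit 23581868868) (nat_lit 76) (nat_lit 12035385339) (nat_lit 4) (nat_lit 4) (nat_lit 5) (nat_lit 5) (nat_lit 5) (nat_lit 4) (nat_lit 342) (nat_lit 246) (nat_lit 192))))))))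
noncomputable def xc68 : XT := (XT.nd (nat_lit 1560) (nat_lit 76) (nat_lit 0) (XT.nd (nat_lit 780) (nat_lit 0) (nat_lit 0) (XT.nd (nat_lit 390) (nat_lit 76) (nat_lit 0) (XT.nd (nat_lit 156) (nat_lit 76) (nat_lit 0) (XT.nd (nat_lit 78) (nat_lit 0) (nat_lit 0) (XT.lf (nat_lit 0) (nat_lit 42406173165) (nat_lit 76) (nat_lit 20716498703) (nat_lit 76) (nat_lit 9127519968) (nat_lit 4) (nat_lit 4) (nat_lit 5) (nat_lit 5) (nat_lit 5) (nat_lit 4) (nat_lit 343) (nat_lit 246) (nat_lit 191)) (XT.lf (nat_lit 0) (nat_lit 51838848189) (nat_lit 76) (nat_lit 17727883432) (nat_lit 76) (nat_lit 6098433072) (nat_lit 4) (nat_lit 4) (nat_lit 5) (nat_lit 5) (nat_lit 5) (nat_lit 4) (nat_lit 344) (nat_lit 246) (nat_lit 190))) (XT.nd (nat_lit 78) (nat_lit 76) (nat_lit 0) (XT.lf (nat_lit 0) (nat_lit 61702173480) (nat_lit 76) (nat_lit 14608907303) (nat_lit 76) (nat_lit 2940912539) (nat_lit 4) (nat_lit 4) (nat_lit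 5) (nat_lit 5) (nat_lit 5) (nat_lit 4) (nat_lit 345) (nat_lit 246) (nat_lit 189)) (XT.nd (nat_lit 78) (nat_lit 0) (nat_lit 0) (XT.lf (nat_lit 0) (nat_lit 341275429) (nat_lit 152) (nat_lit 11005089089) (nat_lit 76) (nat_lit 71672578054) (nat_lit 3) (nat_lit 5) (nat_lit 5) (nat_lit 5) (nat_lit 4) (nat_lit 4) (nat_lit 346) (nat_lit 246) (nat_lit 188)) (XT.lf (nat_lit 0) (nat_lit 3668526695) (nat_lit 152) (nat_lit 4219184905) (nat_lit 76) (nat_lit 79085137600) (nat_lit 3) (nat_lit 5) (nat_lit 5) (nat_lit 5) (nat_lit 4) (nat_lit 4) (nat_lit 347) (nat_lit 246) (nat_lit 187))))) (XT.nd (nat_lit 156) (nat_lit 0) (nat_lit 0) (XT.nd (nat_lit 78) (nat_lit 0) (nat_lit 0) (XT.lf (nat_lit 0) (nat_lit 2964859532) (nat_lit 76) (nat_lit 4224321086) (nat_lit 152) (nat_lit 83933927957) (nat_lit 2) (nat_lit 5) (nat_lit 3) (nat_lit 5) (nat_lit 4) (nat_lit 4) (nat_lit 348) (nat_lit 246) (nat_lit 186)) (XT.lf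 (nat_lit 0) (nat_lit 10619119224) (nat_lit 76) (nat_lit 319315183) (nat_lit 152) (nat_lit 84539827127) (nat_lit 2) (nat_lit 5) (nat_lit 3) (nat_lit 5) (nat_lit 4) (nat_lit 4) (nat_lit 349) (nat_lit 246) (nat_lit 185))) (XT.nd (nat_lit 78) (nat_lit 0) (nat_lit 0) (XT.lf (nat_lit 0) (nat_lit 14915948028) (nat_lit 152) (nat_lit 81488551308) (nat_lit 0) (nat_lit 3644641493) (nat_lit 2) (nat_lit 5) (nat_lit 4) (nat_lit 4) (nat_lit 2) (nat_lit 4) (nat_lit 350) (nat_lit 246) (nat_lit 184)) (XT.nd (nat_lit 78) (nat_lit 0) (nat_lit 0) (XT.lf (nat_lit 0) (nat_lit 19080206344) (nat_lit 152) (nat_lit 77987465412) (nat_lit 0) (nat_lit 7781507021) (nat_lit 2) (nat_lit 5) (nat_lit 4) (nat_lit 4) (nat_lit 2) (nat_lit 4) (nat_lit 351) (nat_lit 246) (nat_lit 183)) (XT.lf (nat_lit 0) (nat_lit 23436138851) (nat_lit 152) (nat_lit 74342563299) (nat_lit 0) (nat_lit 12111351158) (nat_lit 2) (nat_lit 5) (nat_lit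 4) (nat_lit 4) (nat_lit 2) (nat_lit 4) (nat_lit 352) (nat_lit 246) (nat_lit 182)))))) (XT.nd (nat_lit 390) (nat_lit 0) (nat_lit 0) (XT.nd (nat_lit 156) (nat_lit 0) (nat_lit 0) (XT.nd (nat_lit 78) (nat_lit 0) (nat_lit 0) (XT.lf (nat_lit 0) (nat_lit 27994116817) (nat_lit 152) (nat_lit 70545166631) (nat_lit 0) (nat_lit 16644483058) (nat_lit 2) (nat_lit 5) (nat_lit 4) (nat_lit 4) (nat_lit 2) (nat_lit 4) (nat_lit 353) (nat_lit 246) (nat_lit 181)) (XT.lf (nat_lit 0) (nat_lit 32764992571) (nat_lit 152) (nat_lit 66586233988) (nat_lit 0) (nat_lit 21391695891) (nat_lit 2) (nat_lit 5) (nat_lit 4) (nat_lit 4) (nat_lit 2) (nat_lit 4) (nat_lit 354) (nat_lit 246) (nat_lit 180))) (XT.nd (nat_lit 78) (nat_lit 0) (nat_lit 0) (XT.lf (nat_lit 0) (nat_lit 37760125341) (nat_lit 152) (nat_lit 62456339338) (nat_lit 0) (nat_lit 26364292546) (nat_lit 2) (nat_lit 5) (nat_lit 4) (nat_lit 4) (nat_lit 2) (nat_lit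 4) (nat_lit 355) (nat_lit 246) (nat_lit 179)) (XT.nd (nat_lit 78) (nat_lit 0) (nat_lit 0) (XT.lf (nat_lit 0) (nat_lit 42991408300) (nat_lit 152) (nat_lit 58145649601) (nat_lit 0) (nat_lit 31574112539) (nat_lit 2) (nat_lit 5) (nat_lit 4) (nat_lit 4) (nat_lit 2) (nat_lit 4) (nat_lit 356) (nat_lit 246) (nat_lit 178)) (XT.lf (nat_lit 0) (nat_lit 48471296883) (nat_lit 152) (nat_lit 53643901227) (nat_lit 0) (nat_lit 37033560202) (nat_lit 2) (nat_lit 5) (nat_lit 4) (nat_lit 4) (nat_lit 2) (nat_lit 4) (nat_lit 357) (nat_lit 246) (nat_lit 177))))) (XT.nd (nat_lit 156) (nat_lit 0) (nat_lit 0) (XT.nd (nat_lit 78) (nat_lit 0) (nat_lit 0) (XT.lf (nat_lit 0) (nat_lit 54212838445) (nat_lit 152) (nat_lit 48940375771) (nat_lit 0) (nat_lit 42755634220) (nat_lit 2) (nat_lit 5) (nat_lit 4) (nat_lit 4) (nat_lit 2) (nat_lit 4) (nat_lit 358) (nat_lit 246) (nat_lit 176)) (XT.lf (nat_lit 0) (nat_lit 60229703322)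 (nat_lit 152) (nat_lit 44023874360) (nat_lit 0) (nat_lit 48753958580) (nat_lit 2) (nat_lit 5) (nat_lit 4) (nat_lit 4) (nat_lit 2) (nat_lit 4) (nat_lit 359) (nat_lit 246) (nat_lit 175))) (XT.nd (nat_lit 78) (nat_lit 0) (nat_lit 0) (XT.lf (nat_lit 0) (nat_lit 66536217383) (nat_lit 152) (nat_lit 38882691039) (nat_lit 0) (nat_lit 55042815006) (nat_lit 2) (nat_lit 5) (nat_lit 4) (nat_lit 4) (nat_lit 2) (nat_lit 4) (nat_lit 360) (nat_lit 246) (nat_lit 174)) (XT.nd (nat_lit 78) (nat_lit 0) (nat_lit 0) (XT.lf (nat_lit 0) (nat_lit 73147396138) (nat_lit 152) (nat_lit 33504584897) (nat_lit 0) (nat_lit 61637176965) (nat_lit 2) (nat_lit 5) (nat_lit 4) (nat_lit 4) (nat_lit 2) (nat_lit 4) (nat_lit 361) (nat_lit 246) (nat_lit 173)) (XT.lf (nat_lit 0) (nat_lit 80078980489) (nat_lit 152) (nat_lit 27876750917) (nat_lit 0) (nat_lit 68552745320) (nat_lit 2) (nat_lit 5) (nat_lit 4) (nat_lit 4) (nat_lit 2)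 (nat_lit 4) (nat_lit 362) (nat_lit 246) (nat_lit 172))))))) (XT.nd (nat_lit 780) (nat_lit 0) (nat_lit 0) (XT.nd (nat_lit 390) (nat_lit 0) (nat_lit 0) (XT.nd (nat_lit 156) (nat_lit 76) (nat_lit 0) (XT.nd (nat_lit 78) (nat_lit 0) (nat_lit 0) (XT.lf (nat_lit 0) (nat_lit 87347474208) (nat_lit 152) (nat_lit 21985789495) (nat_lit 0) (nat_lit 75805985709) (nat_lit 2) (nat_lit 5) (nat_lit 4) (nat_lit 4) (nat_lit 2) (nat_lit 4) (nat_lit 363) (nat_lit 246) (nat_lit 171)) (XT.lf (nat_lit 0) (nat_lit 94970183231) (nat_lit 152) (nat_lit 15817674533) (nat_lit 0) (nat_lit 83414167752) (nat_lit 2) (nat_lit 5) (nat_lit 4) (nat_lit 4) (nat_lit 2) (nat_lit 4) (nat_lit 364) (nat_lit 246) (nat_lit 170))) (XT.nd (nat_lit 78) (nat_lit 76) (nat_lit 0) (XT.lf (nat_lit 0) (nat_lit 102965256868) (nat_lit 152) (nat_lit 9357720043) (nat_lit 0) (nat_lit 91395406169) (nat_lit 2) (nat_lit 5) (nat_lit 4) (nat_lit 4)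 (nat_lit 2) (nat_lit 4) (nat_lit 365) (nat_lit 246) (nat_lit 169)) (XT.nd (nat_lit 78) (nat_lit 76) (nat_lit 0) (XT.lf (nat_lit 0) (nat_lit 111351731007) (nat_lit 152) (nat_lit 2590545180) (nat_lit 0) (nat_lit 99768703908) (nat_lit 2) (nat_lit 5) (nat_lit 4) (nat_lit 4) (nat_lit 2) (nat_lit 4) (nat_lit 366) (nat_lit 246) (nat_lit 168)) (XT.lf (nat_lit 0) (nat_lit 4648751453) (nat_lit 76) (nat_lit 115573402027) (nat_lit 76) (nat_lit 103977825977) (nat_lit 1) (nat_lit 4) (nat_lit 2) (nat_lit 5) (nat_lit 2) (nat_lit 4) (nat_lit 367) (nat_lit 246) (nat_lit 167))))) (XT.nd (nat_lit 156) (nat_lit 0) (nat_lit 0) (XT.nd (nat_lit 78) (nat_lit 0) (nat_lit 0) (XT.lf (nat_lit 0) (nat_lit 12325167105) (nat_lit 76) (nat_lit 117246994715) (nat_lit 76) (nat_lit 105639467282) (nat_lit 1) (nat_lit 4) (nat_lit 2) (nat_lit 5) (nat_lit 2) (nat_lit 4) (nat_lit 368) (nat_lit 246) (nat_lit 166)) (XT.lf (nat_lit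 0) (nat_lit 20371323830) (nat_lit 76) (nat_lit 119010911132) (nat_lit 76) (nat_lit 107392001430) (nat_lit 1) (nat_lit 4) (nat_lit 2) (nat_lit 5) (nat_lit 2) (nat_lit 4) (nat_lit 369) (nat_lit 246) (nat_lit 165))) (XT.nd (nat_lit 78) (nat_lit 0) (nat_lit 0) (XT.lf (nat_lit 0) (nat_lit 28806379145) (nat_lit 76) (nat_lit 120869351078) (nat_lit 76) (nat_lit 109239601119) (nat_lit 1) (nat_lit 4) (nat_lit 2) (nat_lit 5) (nat_lit 2) (nat_lit 4) (nat_lit 370) (nat_lit 246) (nat_lit 164)) (XT.nd (nat_lit 78) (nat_lit 0) (nat_lit 0) (XT.lf (nat_lit 0) (nat_lit 37650416516) (nat_lit 76) (nat_lit 122826739411) (nat_lit 76) (nat_lit 111186665398) (nat_lit 1) (nat_lit 4) (nat_lit 2) (nat_lit 5) (nat_lit 2) (nat_lit 4) (nat_lit 371) (nat_lit 246) (nat_lit 163)) (XT.lf (nat_lit 0) (nat_lit 46924493173) (nat_lit 76) (nat_lit 124887736579) (nat_lit 76) (nat_lit 113237830134) (nat_lit 1) (nat_lit 4) (nat_lit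 2) (nat_lit 5) (nat_lit 2) (nat_lit 4) (nat_lit 372) (nat_lit 246) (nat_lit 162)))))) (XT.nd (nat_lit 390) (nat_lit 0) (nat_lit 0) (XT.nd (nat_lit 156) (nat_lit 0) (nat_lit 0) (XT.nd (nat_lit 78) (nat_lit 0) (nat_lit 0) (XT.lf (nat_lit 0) (nat_lit 56650690252) (nat_lit 76) (nat_lit 127057249717) (nat_lit 76) (nat_lit 115397979051) (nat_lit 1) (nat_lit 4) (nat_lit 2) (nat_lit 5) (nat_lit 2) (nat_lit 4) (nat_lit 373) (nat_lit 246) (nat_lit 161)) (XT.lf (nat_lit 0) (nat_lit 66852165364) (nat_lit 76) (nat_lit 129340444335) (nat_lit 76) (nat_lit 117672255363) (nat_lit 1) (nat_lit 4) (nat_lit 2) (nat_lit 5) (nat_lit 2) (nat_lit 4) (nat_lit 374) (nat_lit 246) (nat_lit 160))) (XT.nd (nat_lit 78) (nat_lit 0) (nat_lit 0) (XT.lf (nat_lit 0) (nat_lit 77553207737) (nat_lit 76) (nat_lit 131742756609) (nat_lit 76) (nat_lit 120066074012) (nat_lit 1) (nat_lit 4) (nat_lit 2) (nat_lit 5) (nat_lit 2) (nat_lit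 4) (nat_lit 375) (nat_lit 246) (nat_lit 159)) (XT.nd (nat_lit 78) (nat_lit 0) (nat_lit 0) (XT.lf (nat_lit 0) (nat_lit 88779296043) (nat_lit 76) (nat_lit 134269906330) (nat_lit 76) (nat_lit 122585134567) (nat_lit 1) (nat_lit 4) (nat_lit 2) (nat_lit 5) (nat_lit 2) (nat_lit 4) (nat_lit 376) (nat_lit 246) (nat_lit 158)) (XT.lf (nat_lit 0) (nat_lit 100557159063) (nat_lit 76) (nat_lit 136927910522) (nat_lit 76) (nat_lit 125235434791) (nat_lit 1) (nat_lit 4) (nat_lit 2) (nat_lit 5) (nat_lit 2) (nat_lit 4) (nat_lit 377) (nat_lit 246) (nat_lit 157))))) (XT.nd (nat_lit 156) (nat_lit 0) (nat_lit 0) (XT.nd (nat_lit 78) (nat_lit 0) (nat_lit 0) (XT.lf (nat_lit 0) (nat_lit 112914839328) (nat_lit 76) (nat_lit 139723097765) (nat_lit 76) (nat_lit 128023284922) (nat_lit 1) (nat_lit 4) (nat_lit 2) (nat_lit 5) (nat_lit 2) (nat_lit 4) (nat_lit 378) (nat_lit 246) (nat_lit 156)) (XT.lf (nat_lit 0) (nat_lit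 125881759887) (nat_lit 76) (nat_lit 142662123269) (nat_lit 76) (nat_lit 130955322699) (nat_lit 1) (nat_lit 4) (nat_lit 2) (nat_lit 5) (nat_lit 2) (nat_lit 4) (nat_lit 379) (nat_lit 246) (nat_lit 155))) (XT.nd (nat_lit 78) (nat_lit 0) (nat_lit 0) (XT.lf (nat_lit 0) (nat_lit 139488794360) (nat_lit 76) (nat_lit 145751984711) (nat_lit 76) (nat_lit 134038529165) (nat_lit 1) (nat_lit 4) (nat_lit 2) (nat_lit 5) (nat_lit 2) (nat_lit 4) (nat_lit 380) (nat_lit 246) (nat_lit 154)) (XT.nd (nat_lit 78) (nat_lit 0) (nat_lit 0) (XT.lf (nat_lit 0) (nat_lit 153768340448) (nat_lit 76) (nat_lit 149000038906) (nat_lit 76) (nat_lit 137280245287) (nat_lit 1) (nat_lit 4) (nat_lit 2) (nat_lit 5) (nat_lit 2) (nat_lit 4) (nat_lit 381) (nat_lit 246) (nat_lit 153)) (XT.lf (nat_lit 0) (nat_lit 168754397070) (nat_lit 76) (nat_lit 152414019316) (nat_lit 76) (nat_lit 140688189436) (nat_lit 1) (nat_lit 4) (nat_lit 2)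 (nat_lit 5) (nat_lit 2) (nat_lit 4) (nat_lit 382) (nat_lit 246) (nat_lit 152))))))))
noncomputable def xc69 : XT := (XT.nd (nat_lit 34008) (nat_lit 0) (nat_lit 760) (XT.nd (nat_lit 33228) (nat_lit 0) (nat_lit 2052) (XT.nd (nat_lit 390) (nat_lit 0) (nat_lit 0) (XT.nd (nat_lit 156) (nat_lit 0) (nat_lit 0) (XT.nd (nat_lit 78) (nat_lit 0) (nat_lit 0) (XT.lf (nat_lit 0) (nat_lit 184482645314) (nat_lit 76) (nat_lit 156002054466) (nat_lit 76) (nat_lit 144270475766) (nat_lit 1) (nat_lit 4) (nat_lit 2) (nat_lit 5) (nat_lit 2) (nat_lit 4) (nat_lit 383) (nat_lit 246) (nat_lit 151)) (XT.lf (nat_lit 0) (nat_lit 200990533389) (nat_lit 76) (nat_lit 159772687296) (nat_lit 76) (nat_lit 148035633530) (nat_lit 1) (nat_lit 4) (nat_lit 2) (nat_lit 5) (nat_lit 2) (nat_lit 4) (nat_lit 384) (nat_lit 246) (nat_lit 150))) (XT.nd (nat_lit 78) (nat_lit 0) (nat_lit 0) (XT.lf (nat_lit 0) (nat_lit 218317365791) (nat_lit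 76) (nat_lit 163734895503) (nat_lit 76) (nat_lit 151992627389) (nat_lit 1) (nat_lit 4) (nat_lit 2) (nat_lit 5) (nat_lit 2) (nat_lit 4) (nat_lit 385) (nat_lit 246) (nat_lit 149)) (XT.nd (nat_lit 78) (nat_lit 0) (nat_lit 0) (XT.lf (nat_lit 0) (nat_lit 236504396883) (nat_lit 76) (nat_lit 167898112917) (nat_lit 76) (nat_lit 156150878756) (nat_lit 1) (nat_lit 4) (nat_lit 2) (nat_lit 5) (nat_lit 2) (nat_lit 4) (nat_lit 386) (nat_lit 246) (nat_lit 148)) (XT.lf (nat_lit 0) (nat_lit 255594929120) (nat_lit 76) (nat_lit 172272251960) (nat_lit 76) (nat_lit 160520288231) (nat_lit 1) (nat_lit 4) (nat_lit 2) (nat_lit 5) (nat_lit 2) (nat_lit 4) (nat_lit 387) (nat_lit 246) (nat_lit 147))))) (XT.nd (nat_lit 156) (nat_lit 0) (nat_lit 0) (XT.nd (nat_lit 78) (nat_lit 0) (nat_lit 0) (XT.lf (nat_lit 0) (nat_lit 275634416151) (nat_lit 76) (nat_lit 176867727249) (nat_lit 76) (nat_lit 165111259170) (nat_lit 1)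 (nat_lit 4) (nat_lit 2) (nat_lit 5) (nat_lit 2) (nat_lit 4) (nat_lit 388) (nat_lit 246) (nat_lit 146)) (XT.lf (nat_lit 0) (nat_lit 296670571038) (nat_lit 76) (nat_lit 181695480392) (nat_lit 76) (nat_lit 169934722455) (nat_lit 1) (nat_lit 4) (nat_lit 2) (nat_lit 5) (nat_lit 2) (nat_lit 4) (nat_lit 389) (nat_lit 246) (nat_lit 145))) (XT.nd (nat_lit 32526) (nat_lit 0) (nat_lit 3724) (XT.lf (nat_lit 0) (nat_lit 318753479866) (nat_lit 76) (nat_lit 186767006039) (nat_lit 76) (nat_lit 175002162523) (nat_lit 1) (nat_lit 4) (nat_lit 2) (nat_lit 5) (nat_lit 2) (nat_lit 4) (nat_lit 390) (nat_lit 246) (nat_lit 144)) (XT.nd (nat_lit 78) (nat_lit 0) (nat_lit 0) (XT.lf (nat_lit 0) (nat_lit 482342318) (nat_lit 304) (nat_lit 3377499927) (nat_lit 0) (nat_lit 482342318) (nat_lit 50) (nat_lit 5) (nat_lit 54) (nat_lit 4) (nat_lit 50) (nat_lit 4) (nat_lit 286) (nat_lit 247) (nat_lit 247)) (XT.lf (nat_lit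 0) (nat_lit 4605228374) (nat_lit 304) (nat_lit 679307004) (nat_lit 0) (nat_lit 3592146903) (nat_lit 50) (nat_lit 5) (nat_lit 54) (nat_lit 4) (nat_lit 50) (nat_lit 4) (nat_lit 287) (nat_lit 247) (nat_lit 246)))))) (XT.nd (nat_lit 390) (nat_lit 684) (nat_lit 0) (XT.nd (nat_lit 156) (nat_lit 456) (nat_lit 0) (XT.nd (nat_lit 78) (nat_lit 304) (nat_lit 0) (XT.lf (nat_lit 0) (nat_lit 5680006762) (nat_lit 228) (nat_lit 2689854429) (nat_lit 228) (nat_lit 711933461) (nat_lit 47) (nat_lit 4) (nat_lit 50) (nat_lit 5) (nat_lit 50) (nat_lit 4) (nat_lit 288) (nat_lit 247) (nat_lit 245)) (XT.lf (nat_lit 0) (nat_lit 2842113035) (nat_lit 304) (nat_lit 6374037474) (nat_lit 0) (nat_lit 83240915) (nat_lit 43) (nat_lit 5) (nat_lit 47) (nat_lit 4) (nat_lit 43) (nat_lit 4) (nat_lit 289) (nat_lit 247) (nat_lit 244))) (XT.nd (nat_lit 78) (nat_lit 456) (nat_lit 0) (XT.lf (nat_lit 0) (nat_lit 6510114948) (nat_lit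 304) (nat_lit 101630027) (nat_lit 0) (nat_lit 2917778194) (nat_lit 43) (nat_lit 5) (nat_lit 47) (nat_lit 4) (nat_lit 43) (nat_lit 4) (nat_lit 290) (nat_lit 247) (nat_lit 243)) (XT.nd (nat_lit 78) (nat_lit 152) (nat_lit 0) (XT.lf (nat_lit 0) (nat_lit 536391033) (nat_lit 304) (nat_lit 3286510977) (nat_lit 76) (nat_lit 5949776707) (nat_lit 39) (nat_lit 5) (nat_lit 43) (nat_lit 5) (nat_lit 40) (nat_lit 4) (nat_lit 291) (nat_lit 247) (nat_lit 242)) (XT.lf (nat_lit 0) (nat_lit 3234451378) (nat_lit 152) (nat_lit 851666166) (nat_lit 228) (nat_lit 5943733020) (nat_lit 37) (nat_lit 5) (nat_lit 39) (nat_lit 5) (nat_lit 40) (nat_lit 4) (nat_lit 292) (nat_lit 247) (nat_lit 241))))) (XT.nd (nat_lit 156) (nat_lit 380) (nat_lit 0) (XT.nd (nat_lit 78) (nat_lit 304) (nat_lit 0) (XT.lf (nat_lit 0) (nat_lit 7773036337) (nat_lit 228) (nat_lit 338948346) (nat_lit 0) (nat_lit 2190114742) (nat_lit 37) (nat_lit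 5) (nat_lit 40) (nat_lit 4) (nat_lit 37) (nat_lit 4) (nat_lit 293) (nat_lit 247) (nat_lit 240)) (XT.lf (nat_lit 0) (nat_lit 1010701002) (nat_lit 304) (nat_lit 4164025889) (nat_lit 76) (nat_lit 5413185489) (nat_lit 33) (nat_lit 5) (nat_lit 37) (nat_lit 5) (nat_lit 34) (nat_lit 4) (nat_lit 294) (nat_lit 247) (nat_lit 239))) (XT.nd (nat_lit 78) (nat_lit 228) (nat_lit 0) (XT.lf (nat_lit 0) (nat_lit 2494449058) (nat_lit 152) (nat_lit 2067675890) (nat_lit 228) (nat_lit 6328010777) (nat_lit 31) (nat_lit 5) (nat_lit 33) (nat_lit 5) (nat_lit 34) (nat_lit 4) (nat_lit 295) (nat_lit 247) (nat_lit 238)) (XT.nd (nat_lit 78) (nat_lit 228) (nat_lit 0) (XT.lf (nat_lit 0) (nat_lit 8258277266) (nat_lit 228) (nat_lit 1788187200) (nat_lit 0) (nat_lit 1162815513) (nat_lit 31) (nat_lit 5) (nat_lit 34) (nat_lit 4) (nat_lit 31) (nat_lit 4) (nat_lit 296) (nat_lit 247) (nat_lit 237)) (XT.lf (nat_lit 0) (nat_lit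 571707997) (nat_lit 228) (nat_lit 6460719093) (nat_lit 76) (nat_lit 4511847440) (nat_lit 28) (nat_lit 5) (nat_lit 31) (nat_lit 5) (nat_lit 29) (nat_lit 4) (nat_lit 297) (nat_lit 247) (nat_lit 236))))))) (XT.nd (nat_lit 780) (nat_lit 532) (nat_lit 0) (XT.nd (nat_lit 390) (nat_lit 304) (nat_lit 0) (XT.nd (nat_lit 156) (nat_lit 304) (nat_lit 0) (XT.nd (nat_lit 78) (nat_lit 0) (nat_lit 0) (XT.lf (nat_lit 0) (nat_lit 238651529) (nat_lit 152) (nat_lit 3850639691) (nat_lit 228) (nat_lit 7808558014) (nat_lit 26) (nat_lit 5) (nat_lit 28) (nat_lit 5) (nat_lit 29) (nat_lit 4) (nat_lit 298) (nat_lit 247) (nat_lit 235)) (XT.lf (nat_lit 0) (nat_lit 7313725875) (nat_lit 152) (nat_lit 464533079) (nat_lit 228) (nat_lit 4491206337) (nat_lit 26) (nat_lit 5) (nat_lit 28) (nat_lit 5) (nat_lit 29) (nat_lit 4) (nat_lit 299) (nat_lit 247) (nat_lit 234))) (XT.nd (nat_lit 78) (nat_lit 152) (nat_lit 0) (XT.lf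 (nat_lit 0) (nat_lit 1916633759) (nat_lit 152) (nat_lit 9703701112) (nat_lit 152) (nat_lit 1041025610) (nat_lit 24) (nat_lit 4) (nat_lit 26) (nat_lit 5) (nat_lit 26) (nat_lit 4) (nat_lit 300) (nat_lit 247) (nat_lit 233)) (XT.nd (nat_lit 78) (nat_lit 76) (nat_lit 0) (XT.lf (nat_lit 0) (nat_lit 2483016506) (nat_lit 228) (nat_lit 3993447940) (nat_lit 76) (nat_lit 6595290659) (nat_lit 23) (nat_lit 5) (nat_lit 26) (nat_lit 5) (nat_lit 24) (nat_lit 4) (nat_lit 301) (nat_lit 247) (nat_lit 232)) (XT.lf (nat_lit 0) (nat_lit 3002844858) (nat_lit 76) (nat_lit 3088563617) (nat_lit 152) (nat_lit 7413364473) (nat_lit 22) (nat_lit 5) (nat_lit 23) (nat_lit 5) (nat_lit 24) (nat_lit 4) (nat_lit 302) (nat_lit 247) (nat_lit 231))))) (XT.nd (nat_lit 156) (nat_lit 152) (nat_lit 0) (XT.nd (nat_lit 78) (nat_lit 152) (nat_lit 0) (XT.lf (nat_lit 0) (nat_lit 9853780770) (nat_lit 152) (nat_lit 3649845639) (nat_lit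 0) (nat_lit 457245275) (nat_lit 22) (nat_lit 5) (nat_lit 24) (nat_lit 4) (nat_lit 22) (nat_lit 4) (nat_lit 303) (nat_lit 247) (nat_lit 230)) (XT.lf (nat_lit 0) (nat_lit 3439578283) (nat_lit 152) (nat_lit 10371410684) (nat_lit 152) (nat_lit 628553418) (nat_lit 20) (nat_lit 4) (nat_lit 22) (nat_lit 5) (nat_lit 22) (nat_lit 4) (nat_lit 304) (nat_lit 247) (nat_lit 229))) (XT.nd (nat_lit 78) (nat_lit 76) (nat_lit 0) (XT.lf (nat_lit 0) (nat_lit 2892793530) (nat_lit 228) (nat_lit 4142460785) (nat_lit 76) (nat_lit 7906341716) (nat_lit 19) (nat_lit 5) (nat_lit 22) (nat_lit 5) (nat_lit 20) (nat_lit 4) (nat_lit 305) (nat_lit 247) (nat_lit 228)) (XT.nd (nat_lit 78) (nat_lit 0) (nat_lit 0) (XT.lf (nat_lit 0) (nat_lit 2985681104) (nat_lit 76) (nat_lit 3537486057) (nat_lit 152) (nat_lit 8947454730) (nat_lit 18) (nat_lit 5) (nat_lit 19) (nat_lit 5) (nat_lit 20) (nat_lit 4) (nat_lit 306) (nat_lit 247)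 (nat_lit 227)) (XT.lf (nat_lit 0) (nat_lit 10316923976) (nat_lit 152) (nat_lit 5570363798) (nat_lit 0) (nat_lit 139802696) (nat_lit 18) (nat_lit 5) (nat_lit 20) (nat_lit 4) (nat_lit 18) (nat_lit 4) (nat_lit 307) (nat_lit 247) (nat_lit 226)))))) (XT.nd (nat_lit 390) (nat_lit 228) (nat_lit 0) (XT.nd (nat_lit 156) (nat_lit 76) (nat_lit 0) (XT.nd (nat_lit 78) (nat_lit 76) (nat_lit 0) (XT.lf (nat_lit 0) (nat_lit 1529908536) (nat_lit 152) (nat_lit 12765146837) (nat_lit 152) (nat_lit 2316673387) (nat_lit 16) (nat_lit 4) (nat_lit 18) (nat_lit 5) (nat_lit 18) (nat_lit 4) (nat_lit 308) (nat_lit 247) (nat_lit 225)) (XT.lf (nat_lit 0) (nat_lit 1215649754) (nat_lit 228) (nat_lit 8214822089) (nat_lit 76) (nat_lit 7793774632) (nat_lit 15) (nat_lit 5) (nat_lit 18) (nat_lit 5) (nat_lit 16) (nat_lit 4) (nat_lit 309) (nat_lit 247) (nat_lit 224))) (XT.nd (nat_lit 78) (nat_lit 76) (nat_lit 0) (XT.lf (nat_lit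 0) (nat_lit 4764036182) (nat_lit 228) (nat_lit 1186754328) (nat_lit 76) (nat_lit 11918905168) (nat_lit 15) (nat_lit 5) (nat_lit 18) (nat_lit 5) (nat_lit 16) (nat_lit 4) (nat_lit 310) (nat_lit 247) (nat_lit 223)) (XT.nd (nat_lit 78) (nat_lit 0) (nat_lit 0) (XT.lf (nat_lit 0) (nat_lit 6255501430) (nat_lit 76) (nat_lit 2253246930) (nat_lit 152) (nat_lit 10037789985) (nat_lit 14) (nat_lit 5) (nat_lit 15) (nat_lit 5) (nat_lit 16) (nat_lit 4) (nat_lit 311) (nat_lit 247) (nat_lit 222)) (XT.lf (nat_lit 0) (nat_lit 12408532752) (nat_lit 152) (nat_lit 5309138321) (nat_lit 0) (nat_lit 1541223409) (nat_lit 14) (nat_lit 5) (nat_lit 16) (nat_lit 4) (nat_lit 14) (nat_lit 4) (nat_lit 312) (nat_lit 247) (nat_lit 221))))) (XT.nd (nat_lit 234) (nat_lit 76) (nat_lit 0) (XT.nd (nat_lit 78) (nat_lit 76) (nat_lit 0) (XT.lf (nat_lit 0) (nat_lit 1914550443) (nat_lit 76) (nat_lit 14581274365) (nat_lit 76) (nat_lit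 3511477856) (nat_lit 13) (nat_lit 4) (nat_lit 14) (nat_lit 5) (nat_lit 14) (nat_lit 4) (nat_lit 313) (nat_lit 247) (nat_lit 220)) (XT.nd (nat_lit 78) (nat_lit 0) (nat_lit 0) (XT.lf (nat_lit 0) (nat_lit 11873964) (nat_lit 152) (nat_lit 11238299801) (nat_lit 76) (nat_lit 9542149319) (nat_lit 12) (nat_lit 5) (nat_lit 14) (nat_lit 5) (nat_lit 13) (nat_lit 4) (nat_lit 314) (nat_lit 247) (nat_lit 219)) (XT.lf (nat_lit 0) (nat_lit 3522866710) (nat_lit 152) (nat_lit 4224426502) (nat_lit 76) (nat_lit 13870000921) (nat_lit 12) (nat_lit 5) (nat_lit 14) (nat_lit 5) (nat_lit 13) (nat_lit 4) (nat_lit 315) (nat_lit 247) (nat_lit 218)))) (XT.nd (nat_lit 78) (nat_lit 0) (nat_lit 0) (XT.lf (nat_lit 0) (nat_lit 3120259163) (nat_lit 76) (nat_lit 4070705934) (nat_lit 152) (nat_lit 15293520331) (nat_lit 11) (nat_lit 5) (nat_lit 12) (nat_lit 5) (nat_lit 13) (nat_lit 4) (nat_lit 316) (nat_lit 247) (nat_lit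 217)) (XT.nd (nat_lit 78) (nat_lit 0) (nat_lit 0) (XT.lf (nat_lit 0) (nat_lit 10861024021) (nat_lit 76) (nat_lit 187185735) (nat_lit 152) (nat_lit 12346586599) (nat_lit 11) (nat_lit 5) (nat_lit 12) (nat_lit 5) (nat_lit 13) (nat_lit 4) (nat_lit 317) (nat_lit 247) (nat_lit 216)) (XT.lf (nat_lit 0) (nat_lit 15095617015) (nat_lit 152) (nat_lit 5537149597) (nat_lit 0) (nat_lit 3718036089) (nat_lit 11) (nat_lit 5) (nat_lit 13) (nat_lit 4) (nat_lit 11) (nat_lit 4) (nat_lit 318) (nat_lit 247) (nat_lit 215))))))))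
noncomputable def xc70 : XT := (XT.nd (nat_lit 1560) (nat_lit 228) (nat_lit 0) (XT.nd (nat_lit 780) (nat_lit 152) (nat_lit 0) (XT.nd (nat_lit 390) (nat_lit 76) (nat_lit 0) (XT.nd (nat_lit 156) (nat_lit 152) (nat_lit 0) (XT.nd (nat_lit 78) (nat_lit 0) (nat_lit 0) (XT.lf (nat_lit 0) (nat_lit 1753194429) (nat_lit 76) (nat_lit 17562220720) (nat_lit 76) (nat_lit 6040735945) (nat_lit 10) (nat_lit 4) (nat_lit 11) (nat_lit 5) (nat_lit 11) (nat_lit 4) (nat_lit 319) (nat_lit 247) (nat_lit 214)) (XT.lf (nat_lit 0) (nat_lit 9492899144) (nat_lit 76) (nat_lit 14287858411) (nat_lit 76) (nat_lit 2629322351) (nat_lit 10) (nat_lit 4) (nat_lit 11) (nat_lit 5) (nat_lit 11) (nat_lit 4) (nat_lit 320) (nat_lit 247) (nat_lit 213))) (XT.nd (nat_lit 78) (nat_lit 76) (nat_lit 0) (XT.lf (nat_lit 0) (nat_lit 864808718) (nat_lit 152) (nat_lit 10016203220) (nat_lit 76) (nat_lit 16637854572) (nat_lit 9) (nat_lit 5)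 (nat_lit 11) (nat_lit 5) (nat_lit 10) (nat_lit 4) (nat_lit 321) (nat_lit 247) (nat_lit 212)) (XT.nd (nat_lit 78) (nat_lit 76) (nat_lit 0) (XT.lf (nat_lit 0) (nat_lit 4390653323) (nat_lit 152) (nat_lit 2912531333) (nat_lit 76) (nat_lit 21380519304) (nat_lit 9) (nat_lit 5) (nat_lit 11) (nat_lit 5) (nat_lit 10) (nat_lit 4) (nat_lit 322) (nat_lit 247) (nat_lit 211)) (XT.lf (nat_lit 0) (nat_lit 4598996086) (nat_lit 76) (nat_lit 3513568199) (nat_lit 152) (nat_lit 21793263793) (nat_lit 8) (nat_lit 5) (nat_lit 9) (nat_lit 5) (nat_lit 10) (nat_lit 4) (nat_lit 323) (nat_lit 247) (nat_lit 210))))) (XT.nd (nat_lit 156) (nat_lit 76) (nat_lit 0) (XT.nd (nat_lit 78) (nat_lit 0) (nat_lit 0) (XT.lf (nat_lit 0) (nat_lit 12026313556) (nat_lit 152) (nat_lit 18702379038) (nat_lit 0) (nat_lit 460110573) (nat_lit 8) (nat_lit 5) (nat_lit 10) (nat_lit 4) (nat_lit 8) (nat_lit 4) (nat_lit 324) (nat_lit 247) (nat_lit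 209)) (XT.lf (nat_lit 0) (nat_lit 16144150538) (nat_lit 152) (nat_lit 11915709067) (nat_lit 0) (nat_lit 4475677777) (nat_lit 8) (nat_lit 5) (nat_lit 10) (nat_lit 4) (nat_lit 8) (nat_lit 4) (nat_lit 325) (nat_lit 247) (nat_lit 208))) (XT.nd (nat_lit 78) (nat_lit 76) (nat_lit 0) (XT.lf (nat_lit 0) (nat_lit 20421022961) (nat_lit 152) (nat_lit 4875806694) (nat_lit 0) (nat_lit 8655150411) (nat_lit 8) (nat_lit 5) (nat_lit 10) (nat_lit 4) (nat_lit 8) (nat_lit 4) (nat_lit 326) (nat_lit 247) (nat_lit 207)) (XT.nd (nat_lit 78) (nat_lit 0) (nat_lit 0) (XT.lf (nat_lit 0) (nat_lit 2514571751) (nat_lit 76) (nat_lit 22391801615) (nat_lit 76) (nat_lit 10533167360) (nat_lit 7) (nat_lit 4) (nat_lit 8) (nat_lit 5) (nat_lit 8) (nat_lit 4) (nat_lit 327) (nat_lit 247) (nat_lit 206)) (XT.lf (nat_lit 0) (nat_lit 10363067670) (nat_lit 76) (nat_lit 19291738006) (nat_lit 76) (nat_lit 7344759271) (nat_lit 7) (nat_lit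 4) (nat_lit 8) (nat_lit 5) (nat_lit 8) (nat_lit 4) (nat_lit 328) (nat_lit 247) (nat_lit 205)))))) (XT.nd (nat_lit 390) (nat_lit 0) (nat_lit 0) (XT.nd (nat_lit 156) (nat_lit 152) (nat_lit 0) (XT.nd (nat_lit 78) (nat_lit 0) (nat_lit 0) (XT.lf (nat_lit 0) (nat_lit 18527151769) (nat_lit 76) (nat_lit 16071831870) (nat_lit 76) (nat_lit 4040715535) (nat_lit 7) (nat_lit 4) (nat_lit 8) (nat_lit 5) (nat_lit 8) (nat_lit 4) (nat_lit 329) (nat_lit 247) (nat_lit 204)) (XT.lf (nat_lit 0) (nat_lit 27026262343) (nat_lit 76) (nat_lit 12724416765) (nat_lit 76) (nat_lit 613169383) (nat_lit 7) (nat_lit 4) (nat_lit 8) (nat_lit 5) (nat_lit 8) (nat_lit 4) (nat_lit 330) (nat_lit 247) (nat_lit 203))) (XT.nd (nat_lit 78) (nat_lit 76) (nat_lit 0) (XT.lf (nat_lit 0) (nat_lit 2851748332) (nat_lit 152) (nat_lit 6341478584) (nat_lit 76) (nat_lit 32980591298) (nat_lit 6) (nat_lit 5) (nat_lit 8) (nat_lit 5) (nat_lit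 7) (nat_lit 4) (nat_lit 331) (nat_lit 247) (nat_lit 202)) (XT.nd (nat_lit 78) (nat_lit 0) (nat_lit 0) (XT.lf (nat_lit 0) (nat_lit 957420337) (nat_lit 76) (nat_lit 5490220748) (nat_lit 152) (nat_lit 37627246524) (nat_lit 5) (nat_lit 5) (nat_lit 6) (nat_lit 5) (nat_lit 7) (nat_lit 4) (nat_lit 332) (nat_lit 247) (nat_lit 201)) (XT.lf (nat_lit 0) (nat_lit 8774910939) (nat_lit 76) (nat_lit 1519906152) (nat_lit 152) (nat_lit 35772638536) (nat_lit 5) (nat_lit 5) (nat_lit 6) (nat_lit 5) (nat_lit 7) (nat_lit 4) (nat_lit 333) (nat_lit 247) (nat_lit 200))))) (XT.nd (nat_lit 156) (nat_lit 0) (nat_lit 0) (XT.nd (nat_lit 78) (nat_lit 0) (nat_lit 0) (XT.lf (nat_lit 0) (nat_lit 14341056397) (nat_lit 152) (nat_lit 31282354218) (nat_lit 0) (nat_lit 2535924863) (nat_lit 5) (nat_lit 5) (nat_lit 7) (nat_lit 4) (nat_lit 5) (nat_lit 4) (nat_lit 334) (nat_lit 247) (nat_lit 199)) (XT.lf (nat_lit 0) (nat_lit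 18581521654) (nat_lit 152) (nat_lit 25058114632) (nat_lit 0) (nat_lit 6716595098) (nat_lit 5) (nat_lit 5) (nat_lit 7) (nat_lit 4) (nat_lit 5) (nat_lit 4) (nat_lit 335) (nat_lit 247) (nat_lit 198))) (XT.nd (nat_lit 78) (nat_lit 0) (nat_lit 0) (XT.lf (nat_lit 0) (nat_lit 23002579215) (nat_lit 152) (nat_lit 18581276319) (nat_lit 0) (nat_lit 11080705020) (nat_lit 5) (nat_lit 5) (nat_lit 7) (nat_lit 4) (nat_lit 5) (nat_lit 4) (nat_lit 336) (nat_lit 247) (nat_lit 197)) (XT.nd (nat_lit 78) (nat_lit 0) (nat_lit 0) (XT.lf (nat_lit 0) (nat_lit 27614755407) (nat_lit 152) (nat_lit 11836418236) (nat_lit 0) (nat_lit 15638645365) (nat_lit 5) (nat_lit 5) (nat_lit 7) (nat_lit 4) (nat_lit 5) (nat_lit 4) (nat_lit 337) (nat_lit 247) (nat_lit 196)) (XT.lf (nat_lit 0) (nat_lit 32429031603) (nat_lit 152) (nat_lit 4807481196) (nat_lit 0) (nat_lit 20401268373) (nat_lit 5) (nat_lit 5) (nat_lit 7) (nat_lit 4)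 (nat_lit 5) (nat_lit 4) (nat_lit 338) (nat_lit 247) (nat_lit 195))))))) (XT.nd (nat_lit 780) (nat_lit 76) (nat_lit 0) (XT.nd (nat_lit 390) (nat_lit 76) (nat_lit 0) (XT.nd (nat_lit 156) (nat_lit 0) (nat_lit 0) (XT.nd (nat_lit 78) (nat_lit 0) (nat_lit 0) (XT.lf (nat_lit 0) (nat_lit 2605668012) (nat_lit 76) (nat_lit 34891884131) (nat_lit 76) (nat_lit 22814927389) (nat_lit 4) (nat_lit 4) (nat_lit 5) (nat_lit 5) (nat_lit 5) (nat_lit 4) (nat_lit 339) (nat_lit 247) (nat_lit 194)) (XT.lf (nat_lit 0) (nat_lit 10506563893) (nat_lit 76) (nat_lit 32367715749) (nat_lit 76) (nat_lit 20243908042) (nat_lit 4) (nat_lit 4) (nat_lit 5) (nat_lit 5) (nat_lit 5) (nat_lit 4) (nat_lit 340) (nat_lit 247) (nat_lit 193))) (XT.nd (nat_lit 78) (nat_lit 0) (nat_lit 0) (XT.lf (nat_lit 0) (nat_lit 18755061063) (nat_lit 76) (nat_lit 29739414747) (nat_lit 76) (nat_lit 17570987075) (nat_lit 4) (nat_lit 4) (nat_lit 5)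 (nat_lit 5) (nat_lit 5) (nat_lit 4) (nat_lit 341) (nat_lit 247) (nat_lit 192)) (XT.nd (nat_lit 78) (nat_lit 0) (nat_lit 0) (XT.lf (nat_lit 0) (nat_lit 27370798800) (nat_lit 76) (nat_lit 27000723267) (nat_lit 76) (nat_lit 14789800390) (nat_lit 4) (nat_lit 4) (nat_lit 5) (nat_lit 5) (nat_lit 5) (nat_lit 4) (nat_lit 342) (nat_lit 247) (nat_lit 191)) (XT.lf (nat_lit 0) (nat_lit 36374290766) (nat_lit 76) (nat_lit 24145120615) (nat_lit 76) (nat_lit 11893726113) (nat_lit 4) (nat_lit 4) (nat_lit 5) (nat_lit 5) (nat_lit 5) (nat_lit 4) (nat_lit 343) (nat_lit 247) (nat_lit 190))))) (XT.nd (nat_lit 156) (nat_lit 76) (nat_lit 0) (XT.nd (nat_lit 78) (nat_lit 0) (nat_lit 0) (XT.lf (nat_lit 0) (nat_lit 45786973847) (nat_lit 76) (nat_lit 21165807737) (nat_lit 76) (nat_lit 8875868831) (nat_lit 4) (nat_lit 4) (nat_lit 5) (nat_lit 5) (nat_lit 5) (nat_lit 4) (nat_lit 344) (nat_lit 247) (nat_lit 189)) (XT.lf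 (nat_lit 0) (nat_lit 55631259193) (nat_lit 76) (nat_lit 18055691030) (nat_lit 76) (nat_lit 5729043168) (nat_lit 4) (nat_lit 4) (nat_lit 5) (nat_lit 5) (nat_lit 5) (nat_lit 4) (nat_lit 345) (nat_lit 247) (nat_lit 188))) (XT.nd (nat_lit 78) (nat_lit 76) (nat_lit 0) (XT.lf (nat_lit 0) (nat_lit 65930585578) (nat_lit 76) (nat_lit 14807365455) (nat_lit 76) (nat_lit 2445756683) (nat_lit 4) (nat_lit 4) (nat_lit 5) (nat_lit 5) (nat_lit 5) (nat_lit 4) (nat_lit 346) (nat_lit 247) (nat_lit 187)) (XT.nd (nat_lit 78) (nat_lit 0) (nat_lit 0) (XT.lf (nat_lit 0) (nat_lit 950383986) (nat_lit 152) (nat_lit 10446617705) (nat_lit 76) (nat_lit 75742996009) (nat_lit 3) (nat_lit 5) (nat_lit 5) (nat_lit 5) (nat_lit 4) (nat_lit 4) (nat_lit 347) (nat_lit 247) (nat_lit 186)) (XT.lf (nat_lit 0) (nat_lit 4415805206) (nat_lit 152) (nat_lit 3374214780) (nat_lit 76) (nat_lit 83503003101) (nat_lit 3) (nat_lit 5) (nat_lit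 5) (nat_lit 5) (nat_lit 4) (nat_lit 4) (nat_lit 348) (nat_lit 247) (nat_lit 185)))))) (XT.nd (nat_lit 390) (nat_lit 0) (nat_lit 0) (XT.nd (nat_lit 156) (nat_lit 0) (nat_lit 0) (XT.nd (nat_lit 78) (nat_lit 0) (nat_lit 0) (XT.lf (nat_lit 0) (nat_lit 4152000760) (nat_lit 76) (nat_lit 3949861075) (nat_lit 152) (nat_lit 87549478237) (nat_lit 2) (nat_lit 5) (nat_lit 3) (nat_lit 5) (nat_lit 4) (nat_lit 4) (nat_lit 349) (nat_lit 247) (nat_lit 184)) (XT.lf (nat_lit 0) (nat_lit 12014221406) (nat_lit 152) (nat_lit 88088065305) (nat_lit 0) (nat_lit 123194329) (nat_lit 2) (nat_lit 5) (nat_lit 4) (nat_lit 4) (nat_lit 2) (nat_lit 4) (nat_lit 350) (nat_lit 247) (nat_lit 183))) (XT.nd (nat_lit 78) (nat_lit 0) (nat_lit 0) (XT.lf (nat_lit 0) (nat_lit 16170412051) (nat_lit 152) (nat_lit 84602217496) (nat_lit 0) (nat_lit 4253296604) (nat_lit 2) (nat_lit 5) (nat_lit 4) (nat_lit 4) (nat_lit 2) (nat_lit 4)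 (nat_lit 351) (nat_lit 247) (nat_lit 182)) (XT.nd (nat_lit 78) (nat_lit 0) (nat_lit 0) (XT.lf (nat_lit 0) (nat_lit 20518661063) (nat_lit 152) (nat_lit 80971827847) (nat_lit 0) (nat_lit 8576699549) (nat_lit 2) (nat_lit 5) (nat_lit 4) (nat_lit 4) (nat_lit 2) (nat_lit 4) (nat_lit 352) (nat_lit 247) (nat_lit 181)) (XT.lf (nat_lit 0) (nat_lit 25069321414) (nat_lit 152) (nat_lit 77188252573) (nat_lit 0) (nat_lit 13103696980) (nat_lit 2) (nat_lit 5) (nat_lit 4) (nat_lit 4) (nat_lit 2) (nat_lit 4) (nat_lit 353) (nat_lit 247) (nat_lit 180))))) (XT.nd (nat_lit 234) (nat_lit 0) (nat_lit 0) (XT.nd (nat_lit 78) (nat_lit 0) (nat_lit 0) (XT.lf (nat_lit 0) (nat_lit 29833228011) (nat_lit 152) (nat_lit 73242483162) (nat_lit 0) (nat_lit 17845067462) (nat_lit 2) (nat_lit 5) (nat_lit 4) (nat_lit 4) (nat_lit 2) (nat_lit 4) (nat_lit 354) (nat_lit 247) (nat_lit 179)) (XT.nd (nat_lit 78) (nat_lit 0) (nat_lit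 0) (XT.lf (nat_lit 0) (nat_lit 34821723489) (nat_lit 152) (nat_lit 69125124924) (nat_lit 0) (nat_lit 22812099973) (nat_lit 2) (nat_lit 5) (nat_lit 4) (nat_lit 4) (nat_lit 2) (nat_lit 4) (nat_lit 355) (nat_lit 247) (nat_lit 178)) (XT.lf (nat_lit 0) (nat_lit 40046685217) (nat_lit 152) (nat_lit 64826374626) (nat_lit 0) (nat_lit 28016620781) (nat_lit 2) (nat_lit 5) (nat_lit 4) (nat_lit 4) (nat_lit 2) (nat_lit 4) (nat_lit 356) (nat_lit 247) (nat_lit 177)))) (XT.nd (nat_lit 78) (nat_lit 0) (nat_lit 0) (XT.lf (nat_lit 0) (nat_lit 45520553580) (nat_lit 152) (nat_lit 60335997149) (nat_lit 0) (nat_lit 33471021601) (nat_lit 2) (nat_lit 5) (nat_lit 4) (nat_lit 4) (nat_lit 2) (nat_lit 4) (nat_lit 357) (nat_lit 247) (nat_lit 176)) (XT.nd (nat_lit 78) (nat_lit 0) (nat_lit 0) (XT.lf (nat_lit 0) (nat_lit 51256361599) (nat_lit 152) (nat_lit 55643301116) (nat_lit 0) (nat_lit 39188289103) (nat_lit 2) (nat_lit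 5) (nat_lit 4) (nat_lit 4) (nat_lit 2) (nat_lit 4) (nat_lit 358) (nat_lit 247) (nat_lit 175)) (XT.lf (nat_lit 0) (nat_lit 57267765959) (nat_lit 152) (nat_lit 50737113442) (nat_lit 0) (nat_lit 45182035827) (nat_lit 2) (nat_lit 5) (nat_lit 4) (nat_lit 4) (nat_lit 2) (nat_lit 4) (nat_lit 359) (nat_lit 247) (nat_lit 174))))))))
noncomputable def xc71 : XT := (XT.nd (nat_lit 1560) (nat_lit 0) (nat_lit 0) (XT.nd (nat_lit 780) (nat_lit 0) (nat_lit 0) (XT.nd (nat_lit 390) (nat_lit 76) (nat_lit 0) (XT.nd (nat_lit 156) (nat_lit 0) (nat_lit 0) (XT.nd (nat_lit 78) (nat_lit 0) (nat_lit 0) (XT.lf (nat_lit 0) (nat_lit 63569079528) (nat_lit 152) (nat_lit 45605752728) (nat_lit 0) (nat_lit 51466532600) (nat_lit 2) (nat_lit 5) (nat_lit 4) (nat_lit 4) (nat_lit 2) (nat_lit 4) (nat_lit 360) (nat_lit 247) (nat_lit 173)) (XT.lf (nat_lit 0) (nat_lit 70175305433) (nat_lit 152) (nat_lit 40237001449) (nat_lit 0)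 (nat_lit 58056742510) (nat_lit 2) (nat_lit 5) (nat_lit 4) (nat_lit 4) (nat_lit 2) (nat_lit 4) (nat_lit 361) (nat_lit 247) (nat_lit 172))) (XT.nd (nat_lit 78) (nat_lit 0) (nat_lit 0) (XT.lf (nat_lit 0) (nat_lit 77102172784) (nat_lit 152) (nat_lit 34618076862) (nat_lit 0) (nat_lit 64968356531) (nat_lit 2) (nat_lit 5) (nat_lit 4) (nat_lit 4) (nat_lit 2) (nat_lit 4) (nat_lit 362) (nat_lit 247) (nat_lit 171)) (XT.nd (nat_lit 78) (nat_lit 0) (nat_lit 0) (XT.lf (nat_lit 0) (nat_lit 84366174122) (nat_lit 152) (nat_lit 28735600578) (nat_lit 0) (nat_lit 72217830888) (nat_lit 2) (nat_lit 5) (nat_lit 4) (nat_lit 4) (nat_lit 2) (nat_lit 4) (nat_lit 363) (nat_lit 247) (nat_lit 170)) (XT.lf (nat_lit 0) (nat_lit 91984604688) (nat_lit 152) (nat_lit 22575566699) (nat_lit 0) (nat_lit 79822426235) (nat_lit 2) (nat_lit 5) (nat_lit 4) (nat_lit 4) (nat_lit 2) (nat_lit 4) (nat_lit 364) (nat_lit 247) (nat_lit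 169))))) (XT.nd (nat_lit 156) (nat_lit 76) (nat_lit 0) (XT.nd (nat_lit 78) (nat_lit 0) (nat_lit 0) (XT.lf (nat_lit 0) (nat_lit 99975603603) (nat_lit 152) (nat_lit 16123308478) (nat_lit 0) (nat_lit 87800248750) (nat_lit 2) (nat_lit 5) (nat_lit 4) (nat_lit 4) (nat_lit 2) (nat_lit 4) (nat_lit 365) (nat_lit 247) (nat_lit 168)) (XT.lf (nat_lit 0) (nat_lit 108358197054) (nat_lit 152) (nat_lit 9363463396) (nat_lit 0) (nat_lit 96170293249) (nat_lit 2) (nat_lit 5) (nat_lit 4) (nat_lit 4) (nat_lit 2) (nat_lit 4) (nat_lit 366) (nat_lit 247) (nat_lit 167))) (XT.nd (nat_lit 78) (nat_lit 76) (nat_lit 0) (XT.lf (nat_lit 0) (nat_lit 117152343597) (nat_lit 152) (nat_lit 2279936583) (nat_lit 0) (nat_lit 104952488410) (nat_lit 2) (nat_lit 5) (nat_lit 4) (nat_lit 4) (nat_lit 2) (nat_lit 4) (nat_lit 367) (nat_lit 247) (nat_lit 166)) (XT.nd (nat_lit 78) (nat_lit 0) (nat_lit 0) (XT.lf (nat_lit 0) (nat_lit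 5314225917) (nat_lit 76) (nat_lit 121147725719) (nat_lit 76) (nat_lit 108936488263) (nat_lit 1) (nat_lit 4) (nat_lit 2) (nat_lit 5) (nat_lit 2) (nat_lit 4) (nat_lit 368) (nat_lit 247) (nat_lit 165)) (XT.lf (nat_lit 0) (nat_lit 13353841547) (nat_lit 76) (nat_lit 122914728823) (nat_lit 76) (nat_lit 110692651110) (nat_lit 1) (nat_lit 4) (nat_lit 2) (nat_lit 5) (nat_lit 2) (nat_lit 4) (nat_lit 369) (nat_lit 247) (nat_lit 164)))))) (XT.nd (nat_lit 390) (nat_lit 0) (nat_lit 0) (XT.nd (nat_lit 156) (nat_lit 0) (nat_lit 0) (XT.nd (nat_lit 78) (nat_lit 0) (nat_lit 0) (XT.lf (nat_lit 0) (nat_lit 21782667247) (nat_lit 76) (nat_lit 124776108471) (nat_lit 76) (nat_lit 112543706704) (nat_lit 1) (nat_lit 4) (nat_lit 2) (nat_lit 5) (nat_lit 2) (nat_lit 4) (nat_lit 370) (nat_lit 247) (nat_lit 163)) (XT.lf (nat_lit 0) (nat_lit 30620771651) (nat_lit 76) (nat_lit 126736296520) (nat_lit 76) (nat_lit 114494062321)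 (nat_lit 1) (nat_lit 4) (nat_lit 2) (nat_lit 5) (nat_lit 2) (nat_lit 4) (nat_lit 371) (nat_lit 247) (nat_lit 162))) (XT.nd (nat_lit 78) (nat_lit 0) (nat_lit 0) (XT.lf (nat_lit 0) (nat_lit 39889197863) (nat_lit 76) (nat_lit 128799960085) (nat_lit 76) (nat_lit 116548361664) (nat_lit 1) (nat_lit 4) (nat_lit 2) (nat_lit 5) (nat_lit 2) (nat_lit 4) (nat_lit 372) (nat_lit 247) (nat_lit 161)) (XT.nd (nat_lit 78) (nat_lit 0) (nat_lit 0) (XT.lf (nat_lit 0) (nat_lit 49610013567) (nat_lit 76) (nat_lit 130972012649) (nat_lit 76) (nat_lit 118711495922) (nat_lit 1) (nat_lit 4) (nat_lit 2) (nat_lit 5) (nat_lit 2) (nat_lit 4) (nat_lit 373) (nat_lit 247) (nat_lit 160)) (XT.lf (nat_lit 0) (nat_lit 59806363560) (nat_lit 76) (nat_lit 133257625766) (nat_lit 76) (nat_lit 120988615415) (nat_lit 1) (nat_lit 4) (nat_lit 2) (nat_lit 5) (nat_lit 2) (nat_lit 4) (nat_lit 374) (nat_lit 247) (nat_lit 159))))) (XT.nd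 (nat_lit 156) (nat_lit 0) (nat_lit 0) (XT.nd (nat_lit 78) (nat_lit 0) (nat_lit 0) (XT.lf (nat_lit 0) (nat_lit 70502524867) (nat_lit 76) (nat_lit 135662241374) (nat_lit 76) (nat_lit 123385141856) (nat_lit 1) (nat_lit 4) (nat_lit 2) (nat_lit 5) (nat_lit 2) (nat_lit 4) (nat_lit 375) (nat_lit 247) (nat_lit 158)) (XT.lf (nat_lit 0) (nat_lit 81723964538) (nat_lit 76) (nat_lit 138191584746) (nat_lit 76) (nat_lit 125906781261) (nat_lit 1) (nat_lit 4) (nat_lit 2) (nat_lit 5) (nat_lit 2) (nat_lit 4) (nat_lit 376) (nat_lit 247) (nat_lit 157))) (XT.nd (nat_lit 78) (nat_lit 0) (nat_lit 0) (XT.lf (nat_lit 0) (nat_lit 93497400287) (nat_lit 76) (nat_lit 140851678129) (nat_lit 76) (nat_lit 128559537531) (nat_lit 1) (nat_lit 4) (nat_lit 2) (nat_lit 5) (nat_lit 2) (nat_lit 4) (nat_lit 377) (nat_lit 247) (nat_lit 156)) (XT.nd (nat_lit 78) (nat_lit 0) (nat_lit 0) (XT.lf (nat_lit 0) (nat_lit 105850864103)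 (nat_lit 76) (nat_lit 143648855079) (nat_lit 76) (nat_lit 131349726755) (nat_lit 1) (nat_lit 4) (nat_lit 2) (nat_lit 5) (nat_lit 2) (nat_lit 4) (nat_lit 378) (nat_lit 247) (nat_lit 155)) (XT.lf (nat_lit 0) (nat_lit 118813768997) (nat_lit 76) (nat_lit 146589775540) (nat_lit 76) (nat_lit 134283992239) (nat_lit 1) (nat_lit 4) (nat_lit 2) (nat_lit 5) (nat_lit 2) (nat_lit 4) (nat_lit 379) (nat_lit 247) (nat_lit 154))))))) (XT.nd (nat_lit 780) (nat_lit 0) (nat_lit 0) (XT.nd (nat_lit 390) (nat_lit 0) (nat_lit 0) (XT.nd (nat_lit 156) (nat_lit 0) (nat_lit 0) (XT.nd (nat_lit 78) (nat_lit 0) (nat_lit 0) (XT.lf (nat_lit 0) (nat_lit 132416979026) (nat_lit 76) (nat_lit 149681441705) (nat_lit 76) (nat_lit 137369320331) (nat_lit 1) (nat_lit 4) (nat_lit 2) (nat_lit 5) (nat_lit 2) (nat_lit 4) (nat_lit 380) (nat_lit 247) (nat_lit 153)) (XT.lf (nat_lit 0) (nat_lit 146692882787) (nat_lit 76) (nat_lit 152931214683)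 (nat_lit 76) (nat_lit 140613057048) (nat_lit 1) (nat_lit 4) (nat_lit 2) (nat_lit 5) (nat_lit 2) (nat_lit 4) (nat_lit 381) (nat_lit 247) (nat_lit 152))) (XT.nd (nat_lit 78) (nat_lit 0) (nat_lit 0) (XT.lf (nat_lit 0) (nat_lit 161675470527) (nat_lit 76) (nat_lit 156346832029) (nat_lit 76) (nat_lit 144022925575) (nat_lit 1) (nat_lit 4) (nat_lit 2) (nat_lit 5) (nat_lit 2) (nat_lit 4) (nat_lit 382) (nat_lit 247) (nat_lit 151)) (XT.nd (nat_lit 78) (nat_lit 0) (nat_lit 0) (XT.lf (nat_lit 0) (nat_lit 177400415072) (nat_lit 76) (nat_lit 159936426165) (nat_lit 76) (nat_lit 147607044645) (nat_lit 1) (nat_lit 4) (nat_lit 2) (nat_lit 5) (nat_lit 2) (nat_lit 4) (nat_lit 383) (nat_lit 247) (nat_lit 150)) (XT.lf (nat_lit 0) (nat_lit 193905156769) (nat_lit 76) (nat_lit 163708543744) (nat_lit 76) (nat_lit 151373947876) (nat_lit 1) (nat_lit 4) (nat_lit 2) (nat_lit 5) (nat_lit 2) (nat_lit 4) (nat_lit 384)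 (nat_lit 247) (nat_lit 149))))) (XT.nd (nat_lit 156) (nat_lit 0) (nat_lit 0) (XT.nd (nat_lit 78) (nat_lit 0) (nat_lit 0) (XT.lf (nat_lit 0) (nat_lit 211228992620) (nat_lit 76) (nat_lit 167672165999) (nat_lit 76) (nat_lit 155332604084) (nat_lit 1) (nat_lit 4) (nat_lit 2) (nat_lit 5) (nat_lit 2) (nat_lit 4) (nat_lit 385) (nat_lit 247) (nat_lit 148)) (XT.lf (nat_lit 0) (nat_lit 229413169853) (nat_lit 76) (nat_lit 171836730124) (nat_lit 76) (nat_lit 159492438641) (nat_lit 1) (nat_lit 4) (nat_lit 2) (nat_lit 5) (nat_lit 2) (nat_lit 4) (nat_lit 386) (nat_lit 247) (nat_lit 147))) (XT.nd (nat_lit 78) (nat_lit 0) (nat_lit 0) (XT.lf (nat_lit 0) (nat_lit 248500984130) (nat_lit 76) (nat_lit 176212151750) (nat_lit 76) (nat_lit 163863355916) (nat_lit 1) (nat_lit 4) (nat_lit 2) (nat_lit 5) (nat_lit 2) (nat_lit 4) (nat_lit 387) (nat_lit 247) (nat_lit 146)) (XT.nd (nat_lit 78) (nat_lit 0) (nat_lit 0)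 (XT.lf (nat_lit 0) (nat_lit 268537882627) (nat_lit 76) (nat_lit 180808848546) (nat_lit 76) (nat_lit 168455762854) (nat_lit 1) (nat_lit 4) (nat_lit 2) (nat_lit 5) (nat_lit 2) (nat_lit 4) (nat_lit 388) (nat_lit 247) (nat_lit 145)) (XT.lf (nat_lit 0) (nat_lit 289571572244) (nat_lit 76) (nat_lit 185637765029) (nat_lit 76) (nat_lit 173280593758) (nat_lit 1) (nat_lit 4) (nat_lit 2) (nat_lit 5) (nat_lit 2) (nat_lit 4) (nat_lit 389) (nat_lit 247) (nat_lit 144)))))) (XT.nd (nat_lit 32682) (nat_lit 0) (nat_lit 2736) (XT.nd (nat_lit 32448) (nat_lit 0) (nat_lit 3724) (XT.nd (nat_lit 32370) (nat_lit 0) (nat_lit 4332) (XT.lf (nat_lit 0) (nat_lit 311652133195) (nat_lit 76) (nat_lit 190710398618) (nat_lit 76) (nat_lit 178349336321) (nat_lit 1) (nat_lit 4) (nat_lit 2) (nat_lit 5) (nat_lit 2) (nat_lit 4) (nat_lit 390) (nat_lit 247) (nat_lit 143)) (XT.lf (nat_lit 0) (nat_lit 1668142747) (nat_lit 304) (nat_lit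 827790618) (nat_lit 0) (nat_lit 1668142747) (nat_lit 58) (nat_lit 5) (nat_lit 62) (nat_lit 4) (nat_lit 58) (nat_lit 4) (nat_lit 284) (nat_lit 248) (nat_lit 248))) (XT.nd (nat_lit 78) (nat_lit 304) (nat_lit 0) (XT.lf (nat_lit 0) (nat_lit 4335960477) (nat_lit 304) (nat_lit 2641562982) (nat_lit 304) (nat_lit 1524640660) (nat_lit 54) (nat_lit 4) (nat_lit 58) (nat_lit 5) (nat_lit 58) (nat_lit 4) (nat_lit 285) (nat_lit 248) (nat_lit 247)) (XT.nd (nat_lit 78) (nat_lit 0) (nat_lit 0) (XT.lf (nat_lit 0) (nat_lit 1827736910) (nat_lit 228) (nat_lit 127577615) (nat_lit 304) (nat_lit 6732856709) (nat_lit 50) (nat_lit 5) (nat_lit 53) (nat_lit 5) (nat_lit 54) (nat_lit 4) (nat_lit 286) (nat_lit 248) (nat_lit 246)) (XT.lf (nat_lit 0) (nat_lit 5522344989) (nat_lit 304) (nat_lit 881266418) (nat_lit 0) (nat_lit 2480688476) (nat_lit 50) (nat_lit 5) (nat_lit 54) (nat_lit 4) (nat_lit 50) (nat_lit 4) (nat_lit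 287) (nat_lit 248) (nat_lit 245))))) (XT.nd (nat_lit 234) (nat_lit 456) (nat_lit 0) (XT.nd (nat_lit 78) (nat_lit 228) (nat_lit 0) (XT.lf (nat_lit 0) (nat_lit 117032079) (nat_lit 304) (nat_lit 3720635509) (nat_lit 76) (nat_lit 5255427778) (nat_lit 46) (nat_lit 5) (nat_lit 50) (nat_lit 5) (nat_lit 47) (nat_lit 4) (nat_lit 288) (nat_lit 248) (nat_lit 244)) (XT.nd (nat_lit 78) (nat_lit 0) (nat_lit 0) (XT.lf (nat_lit 0) (nat_lit 2488095035) (nat_lit 228) (nat_lit 1084482609) (nat_lit 304) (nat_lit 5741465251) (nat_lit 43) (nat_lit 5) (nat_lit 46) (nat_lit 5) (nat_lit 47) (nat_lit 4) (nat_lit 289) (nat_lit 248) (nat_lit 243)) (XT.lf (nat_lit 0) (nat_lit 7157458376) (nat_lit 304) (nat_lit 632723055) (nat_lit 0) (nat_lit 1758264309) (nat_lit 43) (nat_lit 5) (nat_lit 47) (nat_lit 4) (nat_lit 43) (nat_lit 4) (nat_lit 290) (nat_lit 248) (nat_lit 242)))) (XT.nd (nat_lit 78) (nat_lit 152) (nat_lit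 0) (XT.lf (nat_lit 0) (nat_lit 1070314488) (nat_lit 304) (nat_lit 3961026356) (nat_lit 76) (nat_lit 4763593418) (nat_lit 39) (nat_lit 5) (nat_lit 43) (nat_lit 5) (nat_lit 40) (nat_lit 4) (nat_lit 291) (nat_lit 248) (nat_lit 241)) (XT.nd (nat_lit 78) (nat_lit 0) (nat_lit 0) (XT.lf (nat_lit 0) (nat_lit 2442355250) (nat_lit 152) (nat_lit 2102768845) (nat_lit 228) (nat_lit 5510827234) (nat_lit 37) (nat_lit 5) (nat_lit 39) (nat_lit 5) (nat_lit 40) (nat_lit 4) (nat_lit 292) (nat_lit 248) (nat_lit 240)) (XT.lf (nat_lit 0) (nat_lit 8151056930) (nat_lit 228) (nat_lit 1231032714) (nat_lit 0) (nat_lit 950254488) (nat_lit 37) (nat_lit 5) (nat_lit 40) (nat_lit 4) (nat_lit 37) (nat_lit 4) (nat_lit 293) (nat_lit 248) (nat_lit 239))))))))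
noncomputable def xc72 : XT := (XT.nd (nat_lit 1560) (nat_lit 684) (nat_lit 0) (XT.nd (nat_lit 780) (nat_lit 608) (nat_lit 0) (XT.nd (nat_lit 390) (nat_lit 456) (nat_lit 0) (XT.nd (nat_lit 156) (nat_lit 228) (nat_lit 0) (XT.nd (nat_lit 78) (nat_lit 152) (nat_lit 0) (XT.lf (nat_lit 0) (nat_lit 1271689873) (nat_lit 304) (nat_lit 5215782341) (nat_lit 76) (nat_lit 4134282030) (nat_lit 33) (nat_lit 5) (nat_lit 37) (nat_lit 5) (nat_lit 34) (nat_lit 4) (nat_lit 294) (nat_lit 248) (nat_lit 238)) (XT.lf (nat_lit 0) (nat_lit 1315415467) (nat_lit 152) (nat_lit 3431164925) (nat_lit 228) (nat_lit 6181305626) (nat_lit 31) (nat_lit 5) (nat_lit 33) (nat_lit 5) (nat_lit 34) (nat_lit 4) (nat_lit 295) (nat_lit 248) (nat_lit 237))) (XT.nd (nat_lit 78) (nat_lit 228) (nat_lit 0) (XT.lf (nat_lit 0) (nat_lit 8173655538) (nat_lit 152) (nat_lit 193589118) (nat_lit 228) (nat_lit 2883637883) (nat_lit 31) (nat_lit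 5) (nat_lit 33) (nat_lit 5) (nat_lit 34) (nat_lit 4) (nat_lit 296) (nat_lit 248) (nat_lit 236)) (XT.nd (nat_lit 78) (nat_lit 0) (nat_lit 0) (XT.lf (nat_lit 0) (nat_lit 555886233) (nat_lit 228) (nat_lit 7923723452) (nat_lit 76) (nat_lit 3110336966) (nat_lit 28) (nat_lit 5) (nat_lit 31) (nat_lit 5) (nat_lit 29) (nat_lit 4) (nat_lit 297) (nat_lit 248) (nat_lit 235)) (XT.lf (nat_lit 0) (nat_lit 4015575599) (nat_lit 228) (nat_lit 1318669762) (nat_lit 76) (nat_lit 6612237949) (nat_lit 28) (nat_lit 5) (nat_lit 31) (nat_lit 5) (nat_lit 29) (nat_lit 4) (nat_lit 298) (nat_lit 248) (nat_lit 234))))) (XT.nd (nat_lit 156) (nat_lit 152) (nat_lit 0) (XT.nd (nat_lit 78) (nat_lit 152) (nat_lit 0) (XT.lf (nat_lit 0) (nat_lit 5627522854) (nat_lit 152) (nat_lit 2002831726) (nat_lit 228) (nat_lit 4691518283) (nat_lit 26) (nat_lit 5) (nat_lit 28) (nat_lit 5) (nat_lit 29) (nat_lit 4) (nat_lit 299) (nat_lit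 248) (nat_lit 233)) (XT.lf (nat_lit 0) (nat_lit 59273808) (nat_lit 152) (nat_lit 11309259869) (nat_lit 152) (nat_lit 1350490225) (nat_lit 24) (nat_lit 4) (nat_lit 26) (nat_lit 5) (nat_lit 26) (nat_lit 4) (nat_lit 300) (nat_lit 248) (nat_lit 232))) (XT.nd (nat_lit 78) (nat_lit 76) (nat_lit 0) (XT.lf (nat_lit 0) (nat_lit 2132847037) (nat_lit 228) (nat_lit 5987343955) (nat_lit 76) (nat_lit 5012054933) (nat_lit 23) (nat_lit 5) (nat_lit 26) (nat_lit 5) (nat_lit 24) (nat_lit 4) (nat_lit 301) (nat_lit 248) (nat_lit 231)) (XT.nd (nat_lit 78) (nat_lit 0) (nat_lit 0) (XT.lf (nat_lit 0) (nat_lit 860667452) (nat_lit 76) (nat_lit 4798926492) (nat_lit 152) (nat_lit 7909804779) (nat_lit 22) (nat_lit 5) (nat_lit 23) (nat_lit 5) (nat_lit 24) (nat_lit 4) (nat_lit 302) (nat_lit 248) (nat_lit 230)) (XT.lf (nat_lit 0) (nat_lit 8098159753) (nat_lit 76) (nat_lit 1269302562) (nat_lit 152) (nat_lit 4660810532)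 (nat_lit 22) (nat_lit 5) (nat_lit 23) (nat_lit 5) (nat_lit 24) (nat_lit 4) (nat_lit 303) (nat_lit 248) (nat_lit 229)))))) (XT.nd (nat_lit 390) (nat_lit 304) (nat_lit 0) (XT.nd (nat_lit 156) (nat_lit 76) (nat_lit 0) (XT.nd (nat_lit 78) (nat_lit 76) (nat_lit 0) (XT.lf (nat_lit 0) (nat_lit 1025333024) (nat_lit 152) (nat_lit 12196476759) (nat_lit 152) (nat_lit 1290324602) (nat_lit 20) (nat_lit 4) (nat_lit 22) (nat_lit 5) (nat_lit 22) (nat_lit 4) (nat_lit 304) (nat_lit 248) (nat_lit 228)) (XT.lf (nat_lit 0) (nat_lit 2207065597) (nat_lit 228) (nat_lit 6695791737) (nat_lit 76) (nat_lit 6114147539) (nat_lit 19) (nat_lit 5) (nat_lit 22) (nat_lit 5) (nat_lit 20) (nat_lit 4) (nat_lit 305) (nat_lit 248) (nat_lit 227))) (XT.nd (nat_lit 78) (nat_lit 0) (nat_lit 0) (XT.lf (nat_lit 0) (nat_lit 272338830) (nat_lit 76) (nat_lit 5479749368) (nat_lit 152) (nat_lit 9798251379) (nat_lit 18) (nat_lit 5) (nat_lit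 19) (nat_lit 5) (nat_lit 20) (nat_lit 4) (nat_lit 306) (nat_lit 248) (nat_lit 226)) (XT.nd (nat_lit 78) (nat_lit 0) (nat_lit 0) (XT.lf (nat_lit 0) (nat_lit 7673764720) (nat_lit 76) (nat_lit 1827760389) (nat_lit 152) (nat_lit 6607538368) (nat_lit 18) (nat_lit 5) (nat_lit 19) (nat_lit 5) (nat_lit 20) (nat_lit 4) (nat_lit 307) (nat_lit 248) (nat_lit 225)) (XT.lf (nat_lit 0) (nat_lit 13386727035) (nat_lit 152) (nat_lit 1425611552) (nat_lit 0) (nat_lit 1886047107) (nat_lit 18) (nat_lit 5) (nat_lit 20) (nat_lit 4) (nat_lit 18) (nat_lit 4) (nat_lit 308) (nat_lit 248) (nat_lit 224))))) (XT.nd (nat_lit 156) (nat_lit 76) (nat_lit 0) (XT.nd (nat_lit 78) (nat_lit 0) (nat_lit 0) (XT.lf (nat_lit 0) (nat_lit 188799322) (nat_lit 228) (nat_lit 11359765733) (nat_lit 76) (nat_lit 5766334596) (nat_lit 15) (nat_lit 5) (nat_lit 18) (nat_lit 5) (nat_lit 16) (nat_lit 4) (nat_lit 309) (nat_lit 248) (nat_lit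 223)) (XT.lf (nat_lit 0) (nat_lit 3698766491) (nat_lit 228) (nat_lit 4398737241) (nat_lit 76) (nat_lit 9864798438) (nat_lit 15) (nat_lit 5) (nat_lit 18) (nat_lit 5) (nat_lit 16) (nat_lit 4) (nat_lit 310) (nat_lit 248) (nat_lit 222))) (XT.nd (nat_lit 78) (nat_lit 0) (nat_lit 0) (XT.lf (nat_lit 0) (nat_lit 2871357865) (nat_lit 76) (nat_lit 4482695069) (nat_lit 152) (nat_lit 11289594004) (nat_lit 14) (nat_lit 5) (nat_lit 15) (nat_lit 5) (nat_lit 16) (nat_lit 4) (nat_lit 311) (nat_lit 248) (nat_lit 221)) (XT.nd (nat_lit 78) (nat_lit 0) (nat_lit 0) (XT.lf (nat_lit 0) (nat_lit 10528896826) (nat_lit 76) (nat_lit 664253906) (nat_lit 152) (nat_lit 8165916019) (nat_lit 14) (nat_lit 5) (nat_lit 15) (nat_lit 5) (nat_lit 16) (nat_lit 4) (nat_lit 312) (nat_lit 248) (nat_lit 220)) (XT.lf (nat_lit 0) (nat_lit 15205657069) (nat_lit 152) (nat_lit 1718546451) (nat_lit 0) (nat_lit 3187038647) (nat_lit 14)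 (nat_lit 5) (nat_lit 16) (nat_lit 4) (nat_lit 14) (nat_lit 4) (nat_lit 313) (nat_lit 248) (nat_lit 219))))))) (XT.nd (nat_lit 780) (nat_lit 304) (nat_lit 0) (XT.nd (nat_lit 390) (nat_lit 152) (nat_lit 0) (XT.nd (nat_lit 156) (nat_lit 76) (nat_lit 0) (XT.nd (nat_lit 78) (nat_lit 76) (nat_lit 0) (XT.lf (nat_lit 0) (nat_lit 5804132417) (nat_lit 76) (nat_lit 13648761741) (nat_lit 76) (nat_lit 1446481490) (nat_lit 13) (nat_lit 4) (nat_lit 14) (nat_lit 5) (nat_lit 14) (nat_lit 4) (nat_lit 314) (nat_lit 248) (nat_lit 218)) (XT.lf (nat_lit 0) (nat_lit 2078046727) (nat_lit 152) (nat_lit 8117200488) (nat_lit 76) (nat_lit 11531890856) (nat_lit 12) (nat_lit 5) (nat_lit 14) (nat_lit 5) (nat_lit 13) (nat_lit 4) (nat_lit 315) (nat_lit 248) (nat_lit 217))) (XT.nd (nat_lit 78) (nat_lit 76) (nat_lit 0) (XT.lf (nat_lit 0) (nat_lit 5666228201) (nat_lit 152) (nat_lit 928015157) (nat_lit 76) (nat_lit 16004104844)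 (nat_lit 12) (nat_lit 5) (nat_lit 14) (nat_lit 5) (nat_lit 13) (nat_lit 4) (nat_lit 316) (nat_lit 248) (nat_lit 216)) (XT.nd (nat_lit 78) (nat_lit 0) (nat_lit 0) (XT.lf (nat_lit 0) (nat_lit 6727330071) (nat_lit 76) (nat_lit 2750605068) (nat_lit 152) (nat_lit 14033022776) (nat_lit 11) (nat_lit 5) (nat_lit 12) (nat_lit 5) (nat_lit 13) (nat_lit 4) (nat_lit 317) (nat_lit 248) (nat_lit 215)) (XT.lf (nat_lit 0) (nat_lit 13455846880) (nat_lit 152) (nat_lit 9800228996) (nat_lit 0) (nat_lit 1214384017) (nat_lit 11) (nat_lit 5) (nat_lit 13) (nat_lit 4) (nat_lit 11) (nat_lit 4) (nat_lit 318) (nat_lit 248) (nat_lit 214))))) (XT.nd (nat_lit 156) (nat_lit 76) (nat_lit 0) (XT.nd (nat_lit 78) (nat_lit 76) (nat_lit 0) (XT.lf (nat_lit 0) (nat_lit 17620202871) (nat_lit 152) (nat_lit 2616708661) (nat_lit 0) (nat_lit 5241688723) (nat_lit 11) (nat_lit 5) (nat_lit 13) (nat_lit 4) (nat_lit 11) (nat_lit 4) (nat_lit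 319) (nat_lit 248) (nat_lit 213)) (XT.lf (nat_lit 0) (nat_lit 4986583237) (nat_lit 76) (nat_lit 17029244892) (nat_lit 76) (nat_lit 4520205712) (nat_lit 10) (nat_lit 4) (nat_lit 11) (nat_lit 5) (nat_lit 11) (nat_lit 4) (nat_lit 320) (nat_lit 248) (nat_lit 212))) (XT.nd (nat_lit 78) (nat_lit 76) (nat_lit 0) (XT.lf (nat_lit 0) (nat_lit 12963476565) (nat_lit 76) (nat_lit 13658359080) (nat_lit 76) (nat_lit 1025010345) (nat_lit 10) (nat_lit 4) (nat_lit 11) (nat_lit 5) (nat_lit 11) (nat_lit 4) (nat_lit 321) (nat_lit 248) (nat_lit 211)) (XT.nd (nat_lit 78) (nat_lit 0) (nat_lit 0) (XT.lf (nat_lit 0) (nat_lit 2508260948) (nat_lit 152) (nat_lit 7609803843) (nat_lit 76) (nat_lit 18695704158) (nat_lit 9) (nat_lit 5) (nat_lit 11) (nat_lit 5) (nat_lit 10) (nat_lit 4) (nat_lit 322) (nat_lit 248) (nat_lit 210)) (XT.lf (nat_lit 0) (nat_lit 6134197222) (nat_lit 152) (nat_lit 289386912) (nat_lit 76) (nat_lit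 23617123229) (nat_lit 9) (nat_lit 5) (nat_lit 11) (nat_lit 5) (nat_lit 10) (nat_lit 4) (nat_lit 323) (nat_lit 248) (nat_lit 209)))))) (XT.nd (nat_lit 390) (nat_lit 152) (nat_lit 0) (XT.nd (nat_lit 156) (nat_lit 76) (nat_lit 0) (XT.nd (nat_lit 78) (nat_lit 0) (nat_lit 0) (XT.lf (nat_lit 0) (nat_lit 7553059282) (nat_lit 76) (nat_lit 2459103531) (nat_lit 152) (nat_lit 21313323645) (nat_lit 8) (nat_lit 5) (nat_lit 9) (nat_lit 5) (nat_lit 10) (nat_lit 4) (nat_lit 324) (nat_lit 248) (nat_lit 208)) (XT.lf (nat_lit 0) (nat_lit 14068749514) (nat_lit 152) (nat_lit 16989364243) (nat_lit 0) (nat_lit 1617183547) (nat_lit 8) (nat_lit 5) (nat_lit 10) (nat_lit 4) (nat_lit 8) (nat_lit 4) (nat_lit 325) (nat_lit 248) (nat_lit 207))) (XT.nd (nat_lit 78) (nat_lit 76) (nat_lit 0) (XT.lf (nat_lit 0) (nat_lit 18323853570) (nat_lit 152) (nat_lit 9989462380) (nat_lit 0) (nat_lit 5779525899) (nat_lit 8) (nat_lit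 5) (nat_lit 10) (nat_lit 4) (nat_lit 8) (nat_lit 4) (nat_lit 326) (nat_lit 248) (nat_lit 206)) (XT.nd (nat_lit 78) (nat_lit 76) (nat_lit 0) (XT.lf (nat_lit 0) (nat_lit 22749212686) (nat_lit 152) (nat_lit 2717661657) (nat_lit 0) (nat_lit 10116540534) (nat_lit 8) (nat_lit 5) (nat_lit 10) (nat_lit 4) (nat_lit 8) (nat_lit 4) (nat_lit 327) (nat_lit 248) (nat_lit 205)) (XT.lf (nat_lit 0) (nat_lit 5003494817) (nat_lit 76) (nat_lit 22429987188) (nat_lit 76) (nat_lit 9713177437) (nat_lit 7) (nat_lit 4) (nat_lit 8) (nat_lit 5) (nat_lit 8) (nat_lit 4) (nat_lit 328) (nat_lit 248) (nat_lit 204))))) (XT.nd (nat_lit 156) (nat_lit 152) (nat_lit 0) (XT.nd (nat_lit 78) (nat_lit 0) (nat_lit 0) (XT.lf (nat_lit 0) (nat_lit 13131882462) (nat_lit 76) (nat_lit 19226415851) (nat_lit 76) (nat_lit 6429475052) (nat_lit 7) (nat_lit 4) (nat_lit 8) (nat_lit 5) (nat_lit 8) (nat_lit 4) (nat_lit 329) (nat_lit 248) (nat_lit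 203)) (XT.lf (nat_lit 0) (nat_lit 21596996413) (nat_lit 76) (nat_lit 15894557697) (nat_lit 76) (nat_lit 3021301614) (nat_lit 7) (nat_lit 4) (nat_lit 8) (nat_lit 5) (nat_lit 8) (nat_lit 4) (nat_lit 330) (nat_lit 248) (nat_lit 202))) (XT.nd (nat_lit 78) (nat_lit 76) (nat_lit 0) (XT.lf (nat_lit 0) (nat_lit 502831687) (nat_lit 152) (nat_lit 11915132344) (nat_lit 76) (nat_lit 29907644317) (nat_lit 6) (nat_lit 5) (nat_lit 8) (nat_lit 5) (nat_lit 7) (nat_lit 4) (nat_lit 331) (nat_lit 248) (nat_lit 201)) (XT.nd (nat_lit 78) (nat_lit 76) (nat_lit 0) (XT.lf (nat_lit 0) (nat_lit 4066767204) (nat_lit 152) (nat_lit 4678284747) (nat_lit 76) (nat_lit 35483233208) (nat_lit 6) (nat_lit 5) (nat_lit 8) (nat_lit 5) (nat_lit 7) (nat_lit 4) (nat_lit 332) (nat_lit 248) (nat_lit 200)) (XT.lf (nat_lit 0) (nat_lit 2953619317) (nat_lit 76) (nat_lit 4868185972) (nat_lit 152) (nat_lit 38403663885) (nat_lit 5) (nat_lit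 5) (nat_lit 6) (nat_lit 5) (nat_lit 7) (nat_lit 4) (nat_lit 333) (nat_lit 248) (nat_lit 199))))))))
noncomputable def xc73 : XT := (XT.nd (nat_lit 1560) (nat_lit 76) (nat_lit 0) (XT.nd (nat_lit 780) (nat_lit 152) (nat_lit 0) (XT.nd (nat_lit 390) (nat_lit 76) (nat_lit 0) (XT.nd (nat_lit 156) (nat_lit 0) (nat_lit 0) (XT.nd (nat_lit 78) (nat_lit 0) (nat_lit 0) (XT.lf (nat_lit 0) (nat_lit 11069206927) (nat_lit 76) (nat_lit 742048305) (nat_lit 152) (nat_lit 36508941925) (nat_lit 5) (nat_lit 5) (nat_lit 6) (nat_lit 5) (nat_lit 7) (nat_lit 4) (nat_lit 334) (nat_lit 248) (nat_lit 198)) (XT.lf (nat_lit 0) (nat_lit 16024802861) (nat_lit 152) (nat_lit 31043757021) (nat_lit 0) (nat_lit 3449887317) (nat_lit 5) (nat_lit 5) (nat_lit 7) (nat_lit 4) (nat_lit 5) (nat_lit 4) (nat_lit 335) (nat_lit 248) (nat_lit 197))) (XT.nd (nat_lit 78) (nat_lit 0) (nat_lit 0) (XT.lf (nat_lit 0) (nat_lit 20431258351)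 (nat_lit 152) (nat_lit 24594149023) (nat_lit 0) (nat_lit 7802106959) (nat_lit 5) (nat_lit 5) (nat_lit 7) (nat_lit 4) (nat_lit 5) (nat_lit 4) (nat_lit 336) (nat_lit 248) (nat_lit 196)) (XT.nd (nat_lit 78) (nat_lit 0) (nat_lit 0) (XT.lf (nat_lit 0) (nat_lit 25029527808) (nat_lit 152) (nat_lit 17875224573) (nat_lit 0) (nat_lit 12348723229) (nat_lit 5) (nat_lit 5) (nat_lit 7) (nat_lit 4) (nat_lit 5) (nat_lit 4) (nat_lit 337) (nat_lit 248) (nat_lit 195)) (XT.lf (nat_lit 0) (nat_lit 29830559494) (nat_lit 152) (nat_lit 10870986232) (nat_lit 0) (nat_lit 17100561403) (nat_lit 5) (nat_lit 5) (nat_lit 7) (nat_lit 4) (nat_lit 5) (nat_lit 4) (nat_lit 338) (nat_lit 248) (nat_lit 194))))) (XT.nd (nat_lit 156) (nat_lit 0) (nat_lit 0) (XT.nd (nat_lit 78) (nat_lit 76) (nat_lit 0) (XT.lf (nat_lit 0) (nat_lit 34845784437) (nat_lit 152) (nat_lit 3564757241) (nat_lit 0) (nat_lit 22068935381) (nat_lit 5) (nat_lit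 5) (nat_lit 7) (nat_lit 4) (nat_lit 5) (nat_lit 4) (nat_lit 339) (nat_lit 248) (nat_lit 193)) (XT.lf (nat_lit 0) (nat_lit 4195128492) (nat_lit 76) (nat_lit 35957512867) (nat_lit 76) (nat_lit 23136043846) (nat_lit 4) (nat_lit 4) (nat_lit 5) (nat_lit 5) (nat_lit 5) (nat_lit 4) (nat_lit 340) (nat_lit 248) (nat_lit 192))) (XT.nd (nat_lit 78) (nat_lit 0) (nat_lit 0) (XT.lf (nat_lit 0) (nat_lit 12421584545) (nat_lit 76) (nat_lit 33339467754) (nat_lit 76) (nat_lit 20475503528) (nat_lit 4) (nat_lit 4) (nat_lit 5) (nat_lit 5) (nat_lit 5) (nat_lit 4) (nat_lit 341) (nat_lit 248) (nat_lit 191)) (XT.nd (nat_lit 78) (nat_lit 0) (nat_lit 0) (XT.lf (nat_lit 0) (nat_lit 21016330742) (nat_lit 76) (nat_lit 30610543788) (nat_lit 76) (nat_lit 17706107937) (nat_lit 4) (nat_lit 4) (nat_lit 5) (nat_lit 5) (nat_lit 5) (nat_lit 4) (nat_lit 342) (nat_lit 248) (nat_lit 190)) (XT.lf (nat_lit 0) (nat_lit 29999830765)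 (nat_lit 76) (nat_lit 27764243529) (nat_lit 76) (nat_lit 14821263274) (nat_lit 4) (nat_lit 4) (nat_lit 5) (nat_lit 5) (nat_lit 5) (nat_lit 4) (nat_lit 343) (nat_lit 248) (nat_lit 189)))))) (XT.nd (nat_lit 390) (nat_lit 76) (nat_lit 0) (XT.nd (nat_lit 156) (nat_lit 76) (nat_lit 0) (XT.nd (nat_lit 78) (nat_lit 0) (nat_lit 0) (XT.lf (nat_lit 0) (nat_lit 39393473899) (nat_lit 76) (nat_lit 24793790073) (nat_lit 76) (nat_lit 11814100862) (nat_lit 4) (nat_lit 4) (nat_lit 5) (nat_lit 5) (nat_lit 5) (nat_lit 4) (nat_lit 344) (nat_lit 248) (nat_lit 188)) (XT.lf (nat_lit 0) (nat_lit 49219625963) (nat_lit 76) (nat_lit 21692110911) (nat_lit 76) (nat_lit 8677460789) (nat_lit 4) (nat_lit 4) (nat_lit 5) (nat_lit 5) (nat_lit 5) (nat_lit 4) (nat_lit 345) (nat_lit 248) (nat_lit 187))) (XT.nd (nat_lit 78) (nat_lit 76) (nat_lit 0) (XT.lf (nat_lit 0) (nat_lit 59501682556) (nat_lit 76) (nat_lit 18451821094)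 (nat_lit 76) (nat_lit 5403874867) (nat_lit 4) (nat_lit 4) (nat_lit 5) (nat_lit 5) (nat_lit 5) (nat_lit 4) (nat_lit 346) (nat_lit 248) (nat_lit 186)) (XT.nd (nat_lit 78) (nat_lit 76) (nat_lit 0) (XT.lf (nat_lit 0) (nat_lit 70264124765) (nat_lit 76) (nat_lit 15065205644) (nat_lit 76) (nat_lit 1985548841) (nat_lit 4) (nat_lit 4) (nat_lit 5) (nat_lit 5) (nat_lit 5) (nat_lit 4) (nat_lit 347) (nat_lit 248) (nat_lit 185)) (XT.lf (nat_lit 0) (nat_lit 1534905259) (nat_lit 152) (nat_lit 9963301571) (nat_lit 76) (nat_lit 79971677830) (nat_lit 3) (nat_lit 5) (nat_lit 5) (nat_lit 5) (nat_lit 4) (nat_lit 4) (nat_lit 348) (nat_lit 248) (nat_lit 184))))) (XT.nd (nat_lit 156) (nat_lit 0) (nat_lit 0) (XT.nd (nat_lit 78) (nat_lit 76) (nat_lit 0) (XT.lf (nat_lit 0) (nat_lit 5148026013) (nat_lit 152) (nat_lit 2585166453) (nat_lit 76) (nat_lit 88098659943) (nat_lit 3) (nat_lit 5) (nat_lit 5) (nat_lit 5) (nat_lit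 4) (nat_lit 4) (nat_lit 349) (nat_lit 248) (nat_lit 183)) (XT.lf (nat_lit 0) (nat_lit 5301912137) (nat_lit 76) (nat_lit 3706831621) (nat_lit 152) (nat_lit 91399835489) (nat_lit 2) (nat_lit 5) (nat_lit 3) (nat_lit 5) (nat_lit 4) (nat_lit 4) (nat_lit 350) (nat_lit 248) (nat_lit 182))) (XT.nd (nat_lit 78) (nat_lit 0) (nat_lit 0) (XT.lf (nat_lit 0) (nat_lit 13099376879) (nat_lit 152) (nat_lit 91577457735) (nat_lit 0) (nat_lit 535471223) (nat_lit 2) (nat_lit 5) (nat_lit 4) (nat_lit 4) (nat_lit 2) (nat_lit 4) (nat_lit 351) (nat_lit 248) (nat_lit 181)) (XT.nd (nat_lit 78) (nat_lit 0) (nat_lit 0) (XT.lf (nat_lit 0) (nat_lit 17440308275) (nat_lit 152) (nat_lit 87960889480) (nat_lit 0) (nat_lit 4852739699) (nat_lit 2) (nat_lit 5) (nat_lit 4) (nat_lit 4) (nat_lit 2) (nat_lit 4) (nat_lit 352) (nat_lit 248) (nat_lit 180)) (XT.lf (nat_lit 0) (nat_lit 21983999469) (nat_lit 152) (nat_lit 84190477439)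 (nat_lit 0) (nat_lit 9373894778) (nat_lit 2) (nat_lit 5) (nat_lit 4) (nat_lit 4) (nat_lit 2) (nat_lit 4) (nat_lit 353) (nat_lit 248) (nat_lit 179))))))) (XT.nd (nat_lit 780) (nat_lit 76) (nat_lit 0) (XT.nd (nat_lit 390) (nat_lit 0) (nat_lit 0) (XT.nd (nat_lit 156) (nat_lit 0) (nat_lit 0) (XT.nd (nat_lit 78) (nat_lit 0) (nat_lit 0) (XT.lf (nat_lit 0) (nat_lit 26741268774) (nat_lit 152) (nat_lit 80257244439) (nat_lit 0) (nat_lit 14109701117) (nat_lit 2) (nat_lit 5) (nat_lit 4) (nat_lit 4) (nat_lit 2) (nat_lit 4) (nat_lit 354) (nat_lit 248) (nat_lit 178)) (XT.lf (nat_lit 0) (nat_lit 31723443021) (nat_lit 152) (nat_lit 76151825641) (nat_lit 0) (nat_lit 19071434443) (nat_lit 2) (nat_lit 5) (nat_lit 4) (nat_lit 4) (nat_lit 2) (nat_lit 4) (nat_lit 355) (nat_lit 248) (nat_lit 177))) (XT.nd (nat_lit 78) (nat_lit 0) (nat_lit 0) (XT.lf (nat_lit 0) (nat_lit 36942384528) (nat_lit 152) (nat_lit 71864446239)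 (nat_lit 0) (nat_lit 24270908407) (nat_lit 2) (nat_lit 5) (nat_lit 4) (nat_lit 4) (nat_lit 2) (nat_lit 4) (nat_lit 356) (nat_lit 248) (nat_lit 176)) (XT.nd (nat_lit 78) (nat_lit 0) (nat_lit 0) (XT.lf (nat_lit 0) (nat_lit 42410519349) (nat_lit 152) (nat_lit 67384898184) (nat_lit 0) (nat_lit 29720502711) (nat_lit 2) (nat_lit 5) (nat_lit 4) (nat_lit 4) (nat_lit 2) (nat_lit 4) (nat_lit 357) (nat_lit 248) (nat_lit 175)) (XT.lf (nat_lit 0) (nat_lit 48140866851) (nat_lit 152) (nat_lit 62702515888) (nat_lit 0) (nat_lit 35433192577) (nat_lit 2) (nat_lit 5) (nat_lit 4) (nat_lit 4) (nat_lit 2) (nat_lit 4) (nat_lit 358) (nat_lit 248) (nat_lit 174))))) (XT.nd (nat_lit 156) (nat_lit 0) (nat_lit 0) (XT.nd (nat_lit 78) (nat_lit 0) (nat_lit 0) (XT.lf (nat_lit 0) (nat_lit 54147070719) (nat_lit 152) (nat_lit 57806150821) (nat_lit 0) (nat_lit 41422579649) (nat_lit 2) (nat_lit 5) (nat_lit 4) (nat_lit 4)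 (nat_lit 2) (nat_lit 4) (nat_lit 359) (nat_lit 248) (nat_lit 173)) (XT.lf (nat_lit 0) (nat_lit 60443431438) (nat_lit 152) (nat_lit 52684144971) (nat_lit 0) (nat_lit 47702924372) (nat_lit 2) (nat_lit 5) (nat_lit 4) (nat_lit 4) (nat_lit 2) (nat_lit 4) (nat_lit 360) (nat_lit 248) (nat_lit 172))) (XT.nd (nat_lit 78) (nat_lit 0) (nat_lit 0) (XT.lf (nat_lit 0) (nat_lit 67044940344) (nat_lit 152) (nat_lit 47324303085) (nat_lit 0) (nat_lit 54289179948) (nat_lit 2) (nat_lit 5) (nat_lit 4) (nat_lit 4) (nat_lit 2) (nat_lit 4) (nat_lit 361) (nat_lit 248) (nat_lit 171)) (XT.nd (nat_lit 78) (nat_lit 0) (nat_lit 0) (XT.lf (nat_lit 0) (nat_lit 73967315314) (nat_lit 152) (nat_lit 41713863636) (nat_lit 0) (nat_lit 61197027938) (nat_lit 2) (nat_lit 5) (nat_lit 4) (nat_lit 4) (nat_lit 2) (nat_lit 4) (nat_lit 362) (nat_lit 248) (nat_lit 170)) (XT.lf (nat_lit 0) (nat_lit 81227038194) (nat_lit 152) (nat_lit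 35839468435) (nat_lit 0) (nat_lit 68442915598) (nat_lit 2) (nat_lit 5) (nat_lit 4) (nat_lit 4) (nat_lit 2) (nat_lit 4) (nat_lit 363) (nat_lit 248) (nat_lit 169)))))) (XT.nd (nat_lit 390) (nat_lit 76) (nat_lit 0) (XT.nd (nat_lit 156) (nat_lit 0) (nat_lit 0) (XT.nd (nat_lit 78) (nat_lit 0) (nat_lit 0) (XT.lf (nat_lit 0) (nat_lit 88841394038) (nat_lit 152) (nat_lit 29687130825) (nat_lit 0) (nat_lit 76044095043) (nat_lit 2) (nat_lit 5) (nat_lit 4) (nat_lit 4) (nat_lit 2) (nat_lit 4) (nat_lit 364) (nat_lit 248) (nat_lit 168)) (XT.lf (nat_lit 0) (nat_lit 96828512265) (nat_lit 152) (nat_lit 23242202384) (nat_lit 0) (nat_lit 84018664318) (nat_lit 2) (nat_lit 5) (nat_lit 4) (nat_lit 4) (nat_lit 2) (nat_lit 4) (nat_lit 365) (nat_lit 248) (nat_lit 167))) (XT.nd (nat_lit 78) (nat_lit 0) (nat_lit 0) (XT.lf (nat_lit 0) (nat_lit 105207409823) (nat_lit 152) (nat_lit 16489338045) (nat_lit 0) (nat_lit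 92385610494) (nat_lit 2) (nat_lit 5) (nat_lit 4) (nat_lit 4) (nat_lit 2) (nat_lit 4) (nat_lit 366) (nat_lit 248) (nat_lit 166)) (XT.nd (nat_lit 78) (nat_lit 0) (nat_lit 0) (XT.lf (nat_lit 0) (nat_lit 113998036469) (nat_lit 152) (nat_lit 9412459559) (nat_lit 0) (nat_lit 101164854870) (nat_lit 2) (nat_lit 5) (nat_lit 4) (nat_lit 4) (nat_lit 2) (nat_lit 4) (nat_lit 367) (nat_lit 248) (nat_lit 165)) (XT.lf (nat_lit 0) (nat_lit 123221322265) (nat_lit 152) (nat_lit 1994717215) (nat_lit 0) (nat_lit 110377300410) (nat_lit 2) (nat_lit 5) (nat_lit 4) (nat_lit 4) (nat_lit 2) (nat_lit 4) (nat_lit 368) (nat_lit 248) (nat_lit 164))))) (XT.nd (nat_lit 234) (nat_lit 0) (nat_lit 0) (XT.nd (nat_lit 78) (nat_lit 0) (nat_lit 0) (XT.lf (nat_lit 0) (nat_lit 5972714439) (nat_lit 76) (nat_lit 127019763788) (nat_lit 76) (nat_lit 114165417879) (nat_lit 1) (nat_lit 4) (nat_lit 2) (nat_lit 5) (nat_lit 2) (nat_lit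 4) (nat_lit 369) (nat_lit 248) (nat_lit 163)) (XT.nd (nat_lit 78) (nat_lit 0) (nat_lit 0) (XT.lf (nat_lit 0) (nat_lit 14395607172) (nat_lit 76) (nat_lit 128883943153) (nat_lit 76) (nat_lit 116019764811) (nat_lit 1) (nat_lit 4) (nat_lit 2) (nat_lit 5) (nat_lit 2) (nat_lit 4) (nat_lit 370) (nat_lit 248) (nat_lit 162)) (XT.lf (nat_lit 0) (nat_lit 23228061132) (nat_lit 76) (nat_lit 130846797598) (nat_lit 76) (nat_lit 117973255036) (nat_lit 1) (nat_lit 4) (nat_lit 2) (nat_lit 5) (nat_lit 2) (nat_lit 4) (nat_lit 371) (nat_lit 248) (nat_lit 161)))) (XT.nd (nat_lit 78) (nat_lit 0) (nat_lit 0) (XT.lf (nat_lit 0) (nat_lit 32491105969) (nat_lit 76) (nat_lit 132913000588) (nat_lit 76) (nat_lit 120030539719) (nat_lit 1) (nat_lit 4) (nat_lit 2) (nat_lit 5) (nat_lit 2) (nat_lit 4) (nat_lit 372) (nat_lit 248) (nat_lit 160)) (XT.nd (nat_lit 78) (nat_lit 0) (nat_lit 0) (XT.lf (nat_lit 0) (nat_lit 42206796552)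 (nat_lit 76) (nat_lit 135087471652) (nat_lit 76) (nat_lit 122196517159) (nat_lit 1) (nat_lit 4) (nat_lit 2) (nat_lit 5) (nat_lit 2) (nat_lit 4) (nat_lit 373) (nat_lit 248) (nat_lit 159)) (XT.lf (nat_lit 0) (nat_lit 52398265479) (nat_lit 76) (nat_lit 137375388103) (nat_lit 76) (nat_lit 124476344444) (nat_lit 1) (nat_lit 4) (nat_lit 2) (nat_lit 5) (nat_lit 2) (nat_lit 4) (nat_lit 374) (nat_lit 248) (nat_lit 158))))))))
noncomputable def xc74 : XT := (XT.nd (nat_lit 33696) (nat_lit 0) (nat_lit 1368) (XT.nd (nat_lit 780) (nat_lit 0) (nat_lit 0) (XT.nd (nat_lit 390) (nat_lit 0) (nat_lit 0) (XT.nd (nat_lit 156) (nat_lit 0) (nat_lit 0) (XT.nd (nat_lit 78) (nat_lit 0) (nat_lit 0) (XT.lf (nat_lit 0) (nat_lit 63089778151) (nat_lit 76) (nat_lit 139782197361) (nat_lit 76) (nat_lit 126875449734) (nat_lit 1) (nat_lit 4) (nat_lit 2) (nat_lit 5) (nat_lit 2) (nat_lit 4) (nat_lit 375) (nat_lit 248) (nat_lit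 157)) (XT.lf (nat_lit 0) (nat_lit 74306790551) (nat_lit 76) (nat_lit 142313629925) (nat_lit 76) (nat_lit 129399545185) (nat_lit 1) (nat_lit 4) (nat_lit 2) (nat_lit 5) (nat_lit 2) (nat_lit 4) (nat_lit 376) (nat_lit 248) (nat_lit 156))) (XT.nd (nat_lit 78) (nat_lit 0) (nat_lit 0) (XT.lf (nat_lit 0) (nat_lit 86076009851) (nat_lit 76) (nat_lit 144975713014) (nat_lit 76) (nat_lit 132054640548) (nat_lit 1) (nat_lit 4) (nat_lit 2) (nat_lit 5) (nat_lit 2) (nat_lit 4) (nat_lit 377) (nat_lit 248) (nat_lit 155)) (XT.nd (nat_lit 78) (nat_lit 0) (nat_lit 0) (XT.lf (nat_lit 0) (nat_lit 98425458003) (nat_lit 76) (nat_lit 147774784922) (nat_lit 76) (nat_lit 134847057479) (nat_lit 1) (nat_lit 4) (nat_lit 2) (nat_lit 5) (nat_lit 2) (nat_lit 4) (nat_lit 378) (nat_lit 248) (nat_lit 154)) (XT.lf (nat_lit 0) (nat_lit 111384538453) (nat_lit 76) (nat_lit 150717510106) (nat_lit 76) (nat_lit 137783444589) (nat_lit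 1) (nat_lit 4) (nat_lit 2) (nat_lit 5) (nat_lit 2) (nat_lit 4) (nat_lit 379) (nat_lit 248) (nat_lit 153))))) (XT.nd (nat_lit 156) (nat_lit 0) (nat_lit 0) (XT.nd (nat_lit 78) (nat_lit 0) (nat_lit 0) (XT.lf (nat_lit 0) (nat_lit 124984106156) (nat_lit 76) (nat_lit 153810895053) (nat_lit 76) (nat_lit 140870793277) (nat_lit 1) (nat_lit 4) (nat_lit 2) (nat_lit 5) (nat_lit 2) (nat_lit 4) (nat_lit 380) (nat_lit 248) (nat_lit 152)) (XT.lf (nat_lit 0) (nat_lit 139256541034) (nat_lit 76) (nat_lit 157062304968) (nat_lit 76) (nat_lit 144116454371) (nat_lit 1) (nat_lit 4) (nat_lit 2) (nat_lit 5) (nat_lit 2) (nat_lit 4) (nat_lit 381) (nat_lit 248) (nat_lit 151))) (XT.nd (nat_lit 78) (nat_lit 0) (nat_lit 0) (XT.lf (nat_lit 0) (nat_lit 154235825075) (nat_lit 76) (nat_lit 160479481300) (nat_lit 76) (nat_lit 147528155638) (nat_lit 1) (nat_lit 4) (nat_lit 2) (nat_lit 5) (nat_lit 2) (nat_lit 4) (nat_lit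 382) (nat_lit 248) (nat_lit 150)) (XT.nd (nat_lit 78) (nat_lit 0) (nat_lit 0) (XT.lf (nat_lit 0) (nat_lit 169957623242) (nat_lit 76) (nat_lit 164070560186) (nat_lit 76) (nat_lit 151114020175) (nat_lit 1) (nat_lit 4) (nat_lit 2) (nat_lit 5) (nat_lit 2) (nat_lit 4) (nat_lit 383) (nat_lit 248) (nat_lit 149)) (XT.lf (nat_lit 0) (nat_lit 186459368387) (nat_lit 76) (nat_lit 167844091812) (nat_lit 76) (nat_lit 154882585755) (nat_lit 1) (nat_lit 4) (nat_lit 2) (nat_lit 5) (nat_lit 2) (nat_lit 4) (nat_lit 384) (nat_lit 248) (nat_lit 148)))))) (XT.nd (nat_lit 390) (nat_lit 0) (nat_lit 0) (XT.nd (nat_lit 156) (nat_lit 0) (nat_lit 0) (XT.nd (nat_lit 78) (nat_lit 0) (nat_lit 0) (XT.lf (nat_lit 0) (nat_lit 203780350380) (nat_lit 76) (nat_lit 171809060778) (nat_lit 76) (nat_lit 158842825152) (nat_lit 1) (nat_lit 4) (nat_lit 2) (nat_lit 5) (nat_lit 2) (nat_lit 4) (nat_lit 385) (nat_lit 248) (nat_lit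 147)) (XT.lf (nat_lit 0) (nat_lit 221961809653) (nat_lit 76) (nat_lit 175974907486) (nat_lit 76) (nat_lit 163004167510) (nat_lit 1) (nat_lit 4) (nat_lit 2) (nat_lit 5) (nat_lit 2) (nat_lit 4) (nat_lit 386) (nat_lit 248) (nat_lit 146))) (XT.nd (nat_lit 78) (nat_lit 0) (nat_lit 0) (XT.lf (nat_lit 0) (nat_lit 241047035396) (nat_lit 76) (nat_lit 180351550618) (nat_lit 76) (nat_lit 167376520784) (nat_lit 1) (nat_lit 4) (nat_lit 2) (nat_lit 5) (nat_lit 2) (nat_lit 4) (nat_lit 387) (nat_lit 248) (nat_lit 145)) (XT.nd (nat_lit 78) (nat_lit 0) (nat_lit 0) (XT.lf (nat_lit 0) (nat_lit 261081468622) (nat_lit 76) (nat_lit 184949410754) (nat_lit 76) (nat_lit 171970295342) (nat_lit 1) (nat_lit 4) (nat_lit 2) (nat_lit 5) (nat_lit 2) (nat_lit 4) (nat_lit 388) (nat_lit 248) (nat_lit 144)) (XT.lf (nat_lit 0) (nat_lit 282112810363) (nat_lit 76) (nat_lit 189779435179) (nat_lit 76) (nat_lit 176796428740)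 (nat_lit 1) (nat_lit 4) (nat_lit 2) (nat_lit 5) (nat_lit 2) (nat_lit 4) (nat_lit 389) (nat_lit 248) (nat_lit 143))))) (XT.nd (nat_lit 32292) (nat_lit 0) (nat_lit 4028) (XT.nd (nat_lit 32214) (nat_lit 0) (nat_lit 4636) (XT.lf (nat_lit 0) (nat_lit 304191135242) (nat_lit 76) (nat_lit 194853123953) (nat_lit 76) (nat_lit 181866411773) (nat_lit 1) (nat_lit 4) (nat_lit 2) (nat_lit 5) (nat_lit 2) (nat_lit 4) (nat_lit 390) (nat_lit 248) (nat_lit 142)) (XT.lf (nat_lit 0) (nat_lit 1553641237) (nat_lit 304) (nat_lit 1225430422) (nat_lit 304) (nat_lit 1225430422) (nat_lit 62) (nat_lit 4) (nat_lit 66) (nat_lit 5) (nat_lit 66) (nat_lit 4) (nat_lit 282) (nat_lit 249) (nat_lit 249))) (XT.nd (nat_lit 78) (nat_lit 304) (nat_lit 0) (XT.lf (nat_lit 0) (nat_lit 746598603) (nat_lit 228) (nat_lit 218282110) (nat_lit 304) (nat_lit 7201678318) (nat_lit 58) (nat_lit 5) (nat_lit 61) (nat_lit 5) (nat_lit 62) (nat_lit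 4) (nat_lit 283) (nat_lit 249) (nat_lit 248)) (XT.nd (nat_lit 78) (nat_lit 304) (nat_lit 0) (XT.lf (nat_lit 0) (nat_lit 4435191101) (nat_lit 304) (nat_lit 1751315800) (nat_lit 0) (nat_lit 2145500341) (nat_lit 58) (nat_lit 5) (nat_lit 62) (nat_lit 4) (nat_lit 58) (nat_lit 4) (nat_lit 284) (nat_lit 249) (nat_lit 247)) (XT.lf (nat_lit 0) (nat_lit 4142870038) (nat_lit 304) (nat_lit 3860198789) (nat_lit 304) (nat_lit 506772483) (nat_lit 54) (nat_lit 4) (nat_lit 58) (nat_lit 5) (nat_lit 58) (nat_lit 4) (nat_lit 285) (nat_lit 249) (nat_lit 246))))))) (XT.nd (nat_lit 780) (nat_lit 1064) (nat_lit 0) (XT.nd (nat_lit 390) (nat_lit 760) (nat_lit 0) (XT.nd (nat_lit 156) (nat_lit 532) (nat_lit 0) (XT.nd (nat_lit 78) (nat_lit 0) (nat_lit 0) (XT.lf (nat_lit 0) (nat_lit 1508718634) (nat_lit 228) (nat_lit 1357245468) (nat_lit 304) (nat_lit 5832961589) (nat_lit 50) (nat_lit 5) (nat_lit 53) (nat_lit 5)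 (nat_lit 54) (nat_lit 4) (nat_lit 286) (nat_lit 249) (nat_lit 245)) (XT.lf (nat_lit 0) (nat_lit 6345680358) (nat_lit 304) (nat_lit 1285666101) (nat_lit 0) (nat_lit 1268206764) (nat_lit 50) (nat_lit 5) (nat_lit 54) (nat_lit 4) (nat_lit 50) (nat_lit 4) (nat_lit 287) (nat_lit 249) (nat_lit 244))) (XT.nd (nat_lit 78) (nat_lit 228) (nat_lit 0) (XT.lf (nat_lit 0) (nat_lit 825097761) (nat_lit 304) (nat_lit 4261161048) (nat_lit 76) (nat_lit 4025287501) (nat_lit 46) (nat_lit 5) (nat_lit 50) (nat_lit 5) (nat_lit 47) (nat_lit 4) (nat_lit 288) (nat_lit 249) (nat_lit 243)) (XT.nd (nat_lit 78) (nat_lit 0) (nat_lit 0) (XT.lf (nat_lit 0) (nat_lit 1836558535) (nat_lit 228) (nat_lit 2369604697) (nat_lit 304) (nat_lit 5130169653) (nat_lit 43) (nat_lit 5) (nat_lit 46) (nat_lit 5) (nat_lit 47) (nat_lit 4) (nat_lit 289) (nat_lit 249) (nat_lit 242)) (XT.lf (nat_lit 0) (nat_lit 7707942113) (nat_lit 304) (nat_lit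 1378022762) (nat_lit 0) (nat_lit 489035509) (nat_lit 43) (nat_lit 5) (nat_lit 47) (nat_lit 4) (nat_lit 43) (nat_lit 4) (nat_lit 290) (nat_lit 249) (nat_lit 241))))) (XT.nd (nat_lit 156) (nat_lit 304) (nat_lit 0) (XT.nd (nat_lit 78) (nat_lit 152) (nat_lit 0) (XT.lf (nat_lit 0) (nat_lit 1502706487) (nat_lit 304) (nat_lit 4858336392) (nat_lit 76) (nat_lit 3463874808) (nat_lit 39) (nat_lit 5) (nat_lit 43) (nat_lit 5) (nat_lit 40) (nat_lit 4) (nat_lit 291) (nat_lit 249) (nat_lit 240)) (XT.lf (nat_lit 0) (nat_lit 1424634926) (nat_lit 152) (nat_lit 3477420212) (nat_lit 228) (nat_lit 5187747308) (nat_lit 37) (nat_lit 5) (nat_lit 39) (nat_lit 5) (nat_lit 40) (nat_lit 4) (nat_lit 292) (nat_lit 249) (nat_lit 239))) (XT.nd (nat_lit 78) (nat_lit 304) (nat_lit 0) (XT.lf (nat_lit 0) (nat_lit 8013263957) (nat_lit 152) (nat_lit 421313318) (nat_lit 228) (nat_lit 1935378646) (nat_lit 37) (nat_lit 5) (nat_lit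 39) (nat_lit 5) (nat_lit 40) (nat_lit 4) (nat_lit 293) (nat_lit 249) (nat_lit 238)) (XT.nd (nat_lit 78) (nat_lit 0) (nat_lit 0) (XT.lf (nat_lit 0) (nat_lit 1426571101) (nat_lit 304) (nat_lit 6503685051) (nat_lit 76) (nat_lit 2733157508) (nat_lit 33) (nat_lit 5) (nat_lit 37) (nat_lit 5) (nat_lit 34) (nat_lit 4) (nat_lit 294) (nat_lit 249) (nat_lit 237)) (XT.lf (nat_lit 0) (nat_lit 4825566766) (nat_lit 304) (nat_lit 99865609) (nat_lit 76) (nat_lit 6047985664) (nat_lit 33) (nat_lit 5) (nat_lit 37) (nat_lit 5) (nat_lit 34) (nat_lit 4) (nat_lit 295) (nat_lit 249) (nat_lit 236)))))) (XT.nd (nat_lit 390) (nat_lit 532) (nat_lit 0) (XT.nd (nat_lit 156) (nat_lit 152) (nat_lit 0) (XT.nd (nat_lit 78) (nat_lit 228) (nat_lit 0) (XT.lf (nat_lit 0) (nat_lit 6671171029) (nat_lit 152) (nat_lit 1719417870) (nat_lit 228) (nat_lit 2908681924) (nat_lit 31) (nat_lit 5) (nat_lit 33) (nat_lit 5) (nat_lit 34)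 (nat_lit 4) (nat_lit 296) (nat_lit 249) (nat_lit 235)) (XT.lf (nat_lit 0) (nat_lit 428229312) (nat_lit 228) (nat_lit 9637569145) (nat_lit 76) (nat_lit 1577794011) (nat_lit 28) (nat_lit 5) (nat_lit 31) (nat_lit 5) (nat_lit 29) (nat_lit 4) (nat_lit 297) (nat_lit 249) (nat_lit 234))) (XT.nd (nat_lit 78) (nat_lit 152) (nat_lit 0) (XT.lf (nat_lit 0) (nat_lit 3836330261) (nat_lit 228) (nat_lit 3115066496) (nat_lit 76) (nat_lit 5051375849) (nat_lit 28) (nat_lit 5) (nat_lit 31) (nat_lit 5) (nat_lit 29) (nat_lit 4) (nat_lit 298) (nat_lit 249) (nat_lit 233)) (XT.nd (nat_lit 78) (nat_lit 0) (nat_lit 0) (XT.lf (nat_lit 0) (nat_lit 3690509559) (nat_lit 152) (nat_lit 3681225651) (nat_lit 228) (nat_lit 5010456660) (nat_lit 26) (nat_lit 5) (nat_lit 28) (nat_lit 5) (nat_lit 29) (nat_lit 4) (nat_lit 299) (nat_lit 249) (nat_lit 232)) (XT.lf (nat_lit 0) (nat_lit 10785940946) (nat_lit 152) (nat_lit 252324831)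 (nat_lit 228) (nat_lit 1744717661) (nat_lit 26) (nat_lit 5) (nat_lit 28) (nat_lit 5) (nat_lit 29) (nat_lit 4) (nat_lit 300) (nat_lit 249) (nat_lit 231))))) (XT.nd (nat_lit 156) (nat_lit 304) (nat_lit 0) (XT.nd (nat_lit 78) (nat_lit 0) (nat_lit 0) (XT.lf (nat_lit 0) (nat_lit 1666359772) (nat_lit 228) (nat_lit 8244357359) (nat_lit 76) (nat_lit 3290092660) (nat_lit 23) (nat_lit 5) (nat_lit 26) (nat_lit 5) (nat_lit 24) (nat_lit 4) (nat_lit 301) (nat_lit 249) (nat_lit 230)) (XT.lf (nat_lit 0) (nat_lit 5133764801) (nat_lit 228) (nat_lit 1499814909) (nat_lit 76) (nat_lit 7007400164) (nat_lit 23) (nat_lit 5) (nat_lit 26) (nat_lit 5) (nat_lit 24) (nat_lit 4) (nat_lit 302) (nat_lit 249) (nat_lit 229))) (XT.nd (nat_lit 78) (nat_lit 228) (nat_lit 0) (XT.lf (nat_lit 0) (nat_lit 5613389065) (nat_lit 76) (nat_lit 3159168782) (nat_lit 152) (nat_lit 5330797718) (nat_lit 22) (nat_lit 5) (nat_lit 23) (nat_lit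 5) (nat_lit 24) (nat_lit 4) (nat_lit 303) (nat_lit 249) (nat_lit 228)) (XT.nd (nat_lit 78) (nat_lit 228) (nat_lit 0) (XT.lf (nat_lit 0) (nat_lit 12538200196) (nat_lit 152) (nat_lit 1610711570) (nat_lit 0) (nat_lit 442786119) (nat_lit 22) (nat_lit 5) (nat_lit 24) (nat_lit 4) (nat_lit 22) (nat_lit 4) (nat_lit 304) (nat_lit 249) (nat_lit 227)) (XT.lf (nat_lit 0) (nat_lit 1398925554) (nat_lit 228) (nat_lit 9526782456) (nat_lit 76) (nat_lit 4174967081) (nat_lit 19) (nat_lit 5) (nat_lit 22) (nat_lit 5) (nat_lit 20) (nat_lit 4) (nat_lit 305) (nat_lit 249) (nat_lit 226))))))))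
noncomputable def xc75 : XT := (XT.nd (nat_lit 1560) (nat_lit 304) (nat_lit 0) (XT.nd (nat_lit 780) (nat_lit 304) (nat_lit 0) (XT.nd (nat_lit 390) (nat_lit 228) (nat_lit 0) (XT.nd (nat_lit 156) (nat_lit 228) (nat_lit 0) (XT.nd (nat_lit 78) (nat_lit 76) (nat_lit 0) (XT.lf (nat_lit 0) (nat_lit 4898755085) (nat_lit 228) (nat_lit 2637051694) (nat_lit 76) (nat_lit 8100501996) (nat_lit 19) (nat_lit 5) (nat_lit 22) (nat_lit 5) (nat_lit 20) (nat_lit 4) (nat_lit 306) (nat_lit 249) (nat_lit 225)) (XT.lf (nat_lit 0) (nat_lit 4608622019) (nat_lit 76) (nat_lit 3956974960) (nat_lit 152) (nat_lit 7633602901) (nat_lit 18) (nat_lit 5) (nat_lit 19) (nat_lit 5) (nat_lit 20) (nat_lit 4) (nat_lit 307) (nat_lit 249) (nat_lit 224))) (XT.nd (nat_lit 78) (nat_lit 228) (nat_lit 0) (XT.lf (nat_lit 0) (nat_lit 12174277955) (nat_lit 76) (nat_lit 207946621) (nat_lit 152) (nat_lit 4409761908) (nat_lit 18) (nat_lit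 5) (nat_lit 19) (nat_lit 5) (nat_lit 20) (nat_lit 4) (nat_lit 308) (nat_lit 249) (nat_lit 223)) (XT.nd (nat_lit 78) (nat_lit 76) (nat_lit 0) (XT.lf (nat_lit 0) (nat_lit 2598306583) (nat_lit 152) (nat_lit 13814837809) (nat_lit 152) (nat_lit 1000164625) (nat_lit 16) (nat_lit 4) (nat_lit 18) (nat_lit 5) (nat_lit 18) (nat_lit 4) (nat_lit 309) (nat_lit 249) (nat_lit 222)) (XT.lf (nat_lit 0) (nat_lit 2505224288) (nat_lit 228) (nat_lit 7902205494) (nat_lit 76) (nat_lit 7655922826) (nat_lit 15) (nat_lit 5) (nat_lit 18) (nat_lit 5) (nat_lit 16) (nat_lit 4) (nat_lit 310) (nat_lit 249) (nat_lit 221))))) (XT.nd (nat_lit 156) (nat_lit 152) (nat_lit 0) (XT.nd (nat_lit 78) (nat_lit 76) (nat_lit 0) (XT.lf (nat_lit 0) (nat_lit 6080833387) (nat_lit 228) (nat_lit 784818364) (nat_lit 76) (nat_lit 11883058836) (nat_lit 15) (nat_lit 5) (nat_lit 18) (nat_lit 5) (nat_lit 16) (nat_lit 4) (nat_lit 311) (nat_lit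 249) (nat_lit 220)) (XT.lf (nat_lit 0) (nat_lit 6786945114) (nat_lit 76) (nat_lit 3086205661) (nat_lit 152) (nat_lit 9593346595) (nat_lit 14) (nat_lit 5) (nat_lit 15) (nat_lit 5) (nat_lit 16) (nat_lit 4) (nat_lit 312) (nat_lit 249) (nat_lit 219))) (XT.nd (nat_lit 78) (nat_lit 152) (nat_lit 0) (XT.lf (nat_lit 0) (nat_lit 13814964270) (nat_lit 152) (nat_lit 5588361598) (nat_lit 0) (nat_lit 818908178) (nat_lit 14) (nat_lit 5) (nat_lit 16) (nat_lit 4) (nat_lit 14) (nat_lit 4) (nat_lit 313) (nat_lit 249) (nat_lit 218)) (XT.nd (nat_lit 78) (nat_lit 76) (nat_lit 0) (XT.lf (nat_lit 0) (nat_lit 1749056889) (nat_lit 76) (nat_lit 16218519674) (nat_lit 76) (nat_lit 3047547554) (nat_lit 13) (nat_lit 4) (nat_lit 14) (nat_lit 5) (nat_lit 14) (nat_lit 4) (nat_lit 314) (nat_lit 249) (nat_lit 217)) (XT.lf (nat_lit 0) (nat_lit 497023853) (nat_lit 152) (nat_lit 12318659912) (nat_lit 76) (nat_lit 9030035669)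 (nat_lit 12) (nat_lit 5) (nat_lit 14) (nat_lit 5) (nat_lit 13) (nat_lit 4) (nat_lit 315) (nat_lit 249) (nat_lit 216)))))) (XT.nd (nat_lit 390) (nat_lit 152) (nat_lit 0) (XT.nd (nat_lit 156) (nat_lit 76) (nat_lit 0) (XT.nd (nat_lit 78) (nat_lit 76) (nat_lit 0) (XT.lf (nat_lit 0) (nat_lit 4055490164) (nat_lit 152) (nat_lit 5182457969) (nat_lit 76) (nat_lit 13480489091) (nat_lit 12) (nat_lit 5) (nat_lit 14) (nat_lit 5) (nat_lit 13) (nat_lit 4) (nat_lit 316) (nat_lit 249) (nat_lit 215)) (XT.lf (nat_lit 0) (nat_lit 2280087350) (nat_lit 76) (nat_lit 5489375672) (nat_lit 152) (nat_lit 15866491472) (nat_lit 11) (nat_lit 5) (nat_lit 12) (nat_lit 5) (nat_lit 13) (nat_lit 4) (nat_lit 317) (nat_lit 249) (nat_lit 214))) (XT.nd (nat_lit 78) (nat_lit 76) (nat_lit 0) (XT.lf (nat_lit 0) (nat_lit 10193907867) (nat_lit 76) (nat_lit 1506152407) (nat_lit 152) (nat_lit 12897781786) (nat_lit 11) (nat_lit 5)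 (nat_lit 12) (nat_lit 5) (nat_lit 13) (nat_lit 4) (nat_lit 318) (nat_lit 249) (nat_lit 213)) (XT.nd (nat_lit 78) (nat_lit 76) (nat_lit 0) (XT.lf (nat_lit 0) (nat_lit 15814167800) (nat_lit 152) (nat_lit 7245194335) (nat_lit 0) (nat_lit 2549151628) (nat_lit 11) (nat_lit 5) (nat_lit 13) (nat_lit 4) (nat_lit 11) (nat_lit 4) (nat_lit 319) (nat_lit 249) (nat_lit 212)) (XT.lf (nat_lit 0) (nat_lit 157542152) (nat_lit 76) (nat_lit 19951395847) (nat_lit 76) (nat_lit 6562070119) (nat_lit 10) (nat_lit 4) (nat_lit 11) (nat_lit 5) (nat_lit 11) (nat_lit 4) (nat_lit 320) (nat_lit 249) (nat_lit 211))))) (XT.nd (nat_lit 156) (nat_lit 76) (nat_lit 0) (XT.nd (nat_lit 78) (nat_lit 76) (nat_lit 0) (XT.lf (nat_lit 0) (nat_lit 8089181412) (nat_lit 76) (nat_lit 16600809755) (nat_lit 76) (nat_lit 3093093975) (nat_lit 10) (nat_lit 4) (nat_lit 11) (nat_lit 5) (nat_lit 11) (nat_lit 4) (nat_lit 321) (nat_lit 249)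 (nat_lit 210)) (XT.lf (nat_lit 0) (nat_lit 482197439) (nat_lit 152) (nat_lit 12631963461) (nat_lit 76) (nat_lit 15838685767) (nat_lit 9) (nat_lit 5) (nat_lit 11) (nat_lit 5) (nat_lit 10) (nat_lit 4) (nat_lit 322) (nat_lit 249) (nat_lit 209))) (XT.nd (nat_lit 78) (nat_lit 76) (nat_lit 0) (XT.lf (nat_lit 0) (nat_lit 4085113264) (nat_lit 152) (nat_lit 5353369285) (nat_lit 76) (nat_lit 20742468375) (nat_lit 9) (nat_lit 5) (nat_lit 11) (nat_lit 5) (nat_lit 10) (nat_lit 4) (nat_lit 323) (nat_lit 249) (nat_lit 208)) (XT.nd (nat_lit 78) (nat_lit 0) (nat_lit 0) (XT.lf (nat_lit 0) (nat_lit 2280490587) (nat_lit 76) (nat_lit 5578344458) (nat_lit 152) (nat_lit 23612121280) (nat_lit 8) (nat_lit 5) (nat_lit 9) (nat_lit 5) (nat_lit 10) (nat_lit 4) (nat_lit 324) (nat_lit 249) (nat_lit 207)) (XT.lf (nat_lit 0) (nat_lit 10401563395) (nat_lit 76) (nat_lit 1466282674) (nat_lit 152) (nat_lit 20955313330)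 (nat_lit 8) (nat_lit 5) (nat_lit 9) (nat_lit 5) (nat_lit 10) (nat_lit 4) (nat_lit 325) (nat_lit 249) (nat_lit 206))))))) (XT.nd (nat_lit 780) (nat_lit 76) (nat_lit 0) (XT.nd (nat_lit 390) (nat_lit 152) (nat_lit 0) (XT.nd (nat_lit 156) (nat_lit 76) (nat_lit 0) (XT.nd (nat_lit 78) (nat_lit 0) (nat_lit 0) (XT.lf (nat_lit 0) (nat_lit 16079325566) (nat_lit 152) (nat_lit 15436897083) (nat_lit 0) (nat_lit 2726675327) (nat_lit 8) (nat_lit 5) (nat_lit 10) (nat_lit 4) (nat_lit 8) (nat_lit 4) (nat_lit 326) (nat_lit 249) (nat_lit 205)) (XT.lf (nat_lit 0) (nat_lit 20484940131) (nat_lit 152) (nat_lit 8201378002) (nat_lit 0) (nat_lit 7048152292) (nat_lit 8) (nat_lit 5) (nat_lit 10) (nat_lit 4) (nat_lit 8) (nat_lit 4) (nat_lit 327) (nat_lit 249) (nat_lit 204))) (XT.nd (nat_lit 78) (nat_lit 76) (nat_lit 0) (XT.lf (nat_lit 0) (nat_lit 25072286541) (nat_lit 152) (nat_lit 674918553) (nat_lit 0) (nat_lit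 11555367655) (nat_lit 8) (nat_lit 5) (nat_lit 10) (nat_lit 4) (nat_lit 8) (nat_lit 4) (nat_lit 328) (nat_lit 249) (nat_lit 203)) (XT.nd (nat_lit 78) (nat_lit 0) (nat_lit 0) (XT.lf (nat_lit 0) (nat_lit 7397156613) (nat_lit 76) (nat_lit 22570620780) (nat_lit 76) (nat_lit 8977386611) (nat_lit 7) (nat_lit 4) (nat_lit 8) (nat_lit 5) (nat_lit 8) (nat_lit 4) (nat_lit 329) (nat_lit 249) (nat_lit 202)) (XT.lf (nat_lit 0) (nat_lit 15829892829) (nat_lit 76) (nat_lit 19253578770) (nat_lit 76) (nat_lit 5587663378) (nat_lit 7) (nat_lit 4) (nat_lit 8) (nat_lit 5) (nat_lit 8) (nat_lit 4) (nat_lit 330) (nat_lit 249) (nat_lit 201))))) (XT.nd (nat_lit 156) (nat_lit 76) (nat_lit 0) (XT.nd (nat_lit 78) (nat_lit 76) (nat_lit 0) (XT.lf (nat_lit 0) (nat_lit 24621052180) (nat_lit 76) (nat_lit 15799611417) (nat_lit 76) (nat_lit 2064475813) (nat_lit 7) (nat_lit 4) (nat_lit 8) (nat_lit 5) (nat_lit 8) (nat_lit 4)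 (nat_lit 331) (nat_lit 249) (nat_lit 200)) (XT.lf (nat_lit 0) (nat_lit 1549336563) (nat_lit 152) (nat_lit 10624919661) (nat_lit 76) (nat_lit 32215990671) (nat_lit 6) (nat_lit 5) (nat_lit 8) (nat_lit 5) (nat_lit 7) (nat_lit 4) (nat_lit 332) (nat_lit 249) (nat_lit 199))) (XT.nd (nat_lit 78) (nat_lit 76) (nat_lit 0) (XT.lf (nat_lit 0) (nat_lit 5242832508) (nat_lit 152) (nat_lit 3116037746) (nat_lit 76) (nat_lit 38031646429) (nat_lit 6) (nat_lit 5) (nat_lit 8) (nat_lit 5) (nat_lit 7) (nat_lit 4) (nat_lit 333) (nat_lit 249) (nat_lit 198)) (XT.nd (nat_lit 78) (nat_lit 0) (nat_lit 0) (XT.lf (nat_lit 0) (nat_lit 4868491179) (nat_lit 76) (nat_lit 4298401790) (nat_lit 152) (nat_lit 39321629423) (nat_lit 5) (nat_lit 5) (nat_lit 6) (nat_lit 5) (nat_lit 7) (nat_lit 4) (nat_lit 334) (nat_lit 249) (nat_lit 197)) (XT.lf (nat_lit 0) (nat_lit 13305706223) (nat_lit 76) (nat_lit 4680738) (nat_lit 152) (nat_lit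 37379896016) (nat_lit 5) (nat_lit 5) (nat_lit 6) (nat_lit 5) (nat_lit 7) (nat_lit 4) (nat_lit 335) (nat_lit 249) (nat_lit 196)))))) (XT.nd (nat_lit 390) (nat_lit 76) (nat_lit 0) (XT.nd (nat_lit 156) (nat_lit 0) (nat_lit 0) (XT.nd (nat_lit 78) (nat_lit 0) (nat_lit 0) (XT.lf (nat_lit 0) (nat_lit 17702862637) (nat_lit 152) (nat_lit 30960829310) (nat_lit 0) (nat_lit 4336364640) (nat_lit 5) (nat_lit 5) (nat_lit 7) (nat_lit 4) (nat_lit 5) (nat_lit 4) (nat_lit 336) (nat_lit 249) (nat_lit 195)) (XT.lf (nat_lit 0) (nat_lit 22287887585) (nat_lit 152) (nat_lit 24266603558) (nat_lit 0) (nat_lit 8872196076) (nat_lit 5) (nat_lit 5) (nat_lit 7) (nat_lit 4) (nat_lit 5) (nat_lit 4) (nat_lit 337) (nat_lit 249) (nat_lit 194))) (XT.nd (nat_lit 78) (nat_lit 0) (nat_lit 0) (XT.lf (nat_lit 0) (nat_lit 27076305452) (nat_lit 152) (nat_lit 17285887786) (nat_lit 0) (nat_lit 13613762980) (nat_lit 5) (nat_lit 5)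 (nat_lit 7) (nat_lit 4) (nat_lit 5) (nat_lit 4) (nat_lit 338) (nat_lit 249) (nat_lit 193)) (XT.nd (nat_lit 78) (nat_lit 0) (nat_lit 0) (XT.lf (nat_lit 0) (nat_lit 32079517234) (nat_lit 152) (nat_lit 10002061243) (nat_lit 0) (nat_lit 18572354796) (nat_lit 5) (nat_lit 5) (nat_lit 7) (nat_lit 4) (nat_lit 5) (nat_lit 4) (nat_lit 339) (nat_lit 249) (nat_lit 192)) (XT.lf (nat_lit 0) (nat_lit 37309435340) (nat_lit 152) (nat_lit 2397781483) (nat_lit 0) (nat_lit 23759777697) (nat_lit 5) (nat_lit 5) (nat_lit 7) (nat_lit 4) (nat_lit 5) (nat_lit 4) (nat_lit 340) (nat_lit 249) (nat_lit 191))))) (XT.nd (nat_lit 234) (nat_lit 0) (nat_lit 0) (XT.nd (nat_lit 78) (nat_lit 0) (nat_lit 0) (XT.lf (nat_lit 0) (nat_lit 5728401543) (nat_lit 76) (nat_lit 37139546814) (nat_lit 76) (nat_lit 23549417546) (nat_lit 4) (nat_lit 4) (nat_lit 5) (nat_lit 5) (nat_lit 5) (nat_lit 4) (nat_lit 341) (nat_lit 249) (nat_lit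 190)) (XT.nd (nat_lit 78) (nat_lit 0) (nat_lit 0) (XT.lf (nat_lit 0) (nat_lit 14303155796) (nat_lit 76) (nat_lit 34419925240) (nat_lit 76) (nat_lit 20791251569) (nat_lit 4) (nat_lit 4) (nat_lit 5) (nat_lit 5) (nat_lit 5) (nat_lit 4) (nat_lit 342) (nat_lit 249) (nat_lit 189)) (XT.lf (nat_lit 0) (nat_lit 23267615873) (nat_lit 76) (nat_lit 31582484404) (nat_lit 76) (nat_lit 17917101776) (nat_lit 4) (nat_lit 4) (nat_lit 5) (nat_lit 5) (nat_lit 5) (nat_lit 4) (nat_lit 343) (nat_lit 249) (nat_lit 188)))) (XT.nd (nat_lit 78) (nat_lit 0) (nat_lit 0) (XT.lf (nat_lit 0) (nat_lit 32643125726) (nat_lit 76) (nat_lit 28620468493) (nat_lit 76) (nat_lit 14920124954) (nat_lit 4) (nat_lit 4) (nat_lit 5) (nat_lit 5) (nat_lit 5) (nat_lit 4) (nat_lit 344) (nat_lit 249) (nat_lit 187)) (XT.nd (nat_lit 78) (nat_lit 0) (nat_lit 0) (XT.lf (nat_lit 0) (nat_lit 42452007998) (nat_lit 76) (nat_lit 25526825088) (nat_lit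 76) (nat_lit 11793185445) (nat_lit 4) (nat_lit 4) (nat_lit 5) (nat_lit 5) (nat_lit 5) (nat_lit 4) (nat_lit 345) (nat_lit 249) (nat_lit 186)) (XT.lf (nat_lit 0) (nat_lit 52717617169) (nat_lit 76) (nat_lit 22294188373) (nat_lit 76) (nat_lit 8528838153) (nat_lit 4) (nat_lit 4) (nat_lit 5) (nat_lit 5) (nat_lit 5) (nat_lit 4) (nat_lit 346) (nat_lit 249) (nat_lit 185))))))))
noncomputable def xc76 : XT := (XT.nd (nat_lit 1560) (nat_lit 76) (nat_lit 0) (XT.nd (nat_lit 780) (nat_lit 0) (nat_lit 0) (XT.nd (nat_lit 390) (nat_lit 0) (nat_lit 0) (XT.nd (nat_lit 156) (nat_lit 152) (nat_lit 0) (XT.nd (nat_lit 78) (nat_lit 0) (nat_lit 0) (XT.lf (nat_lit 0) (nat_lit 63464395167) (nat_lit 76) (nat_lit 18914861592) (nat_lit 76) (nat_lit 5119310823) (nat_lit 4) (nat_lit 4) (nat_lit 5) (nat_lit 5) (nat_lit 5) (nat_lit 4) (nat_lit 347) (nat_lit 249) (nat_lit 184)) (XT.lf (nat_lit 0) (nat_lit 74717929559)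 (nat_lit 76) (nat_lit 15380798731) (nat_lit 76) (nat_lit 1556485533) (nat_lit 4) (nat_lit 4) (nat_lit 5) (nat_lit 5) (nat_lit 5) (nat_lit 4) (nat_lit 348) (nat_lit 249) (nat_lit 183))) (XT.nd (nat_lit 78) (nat_lit 76) (nat_lit 0) (XT.lf (nat_lit 0) (nat_lit 2098727232) (nat_lit 152) (nat_lit 9549315158) (nat_lit 76) (nat_lit 84370744279) (nat_lit 3) (nat_lit 5) (nat_lit 5) (nat_lit 5) (nat_lit 4) (nat_lit 4) (nat_lit 349) (nat_lit 249) (nat_lit 182)) (XT.nd (nat_lit 78) (nat_lit 76) (nat_lit 0) (XT.lf (nat_lit 0) (nat_lit 5869309895) (nat_lit 152) (nat_lit 1845709069) (nat_lit 76) (nat_lit 92885004900) (nat_lit 3) (nat_lit 5) (nat_lit 5) (nat_lit 5) (nat_lit 4) (nat_lit 4) (nat_lit 350) (nat_lit 249) (nat_lit 181)) (XT.lf (nat_lit 0) (nat_lit 6421711907) (nat_lit 76) (nat_lit 3492606302) (nat_lit 152) (nat_lit 95491716914) (nat_lit 2) (nat_lit 5) (nat_lit 3) (nat_lit 5) (nat_lit 4) (nat_lit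 4) (nat_lit 351) (nat_lit 249) (nat_lit 180))))) (XT.nd (nat_lit 156) (nat_lit 0) (nat_lit 0) (XT.nd (nat_lit 78) (nat_lit 0) (nat_lit 0) (XT.lf (nat_lit 0) (nat_lit 14193751076) (nat_lit 152) (nat_lit 95326388821) (nat_lit 0) (nat_lit 930605036) (nat_lit 2) (nat_lit 5) (nat_lit 4) (nat_lit 4) (nat_lit 2) (nat_lit 4) (nat_lit 352) (nat_lit 249) (nat_lit 179)) (XT.lf (nat_lit 0) (nat_lit 18730804978) (nat_lit 152) (nat_lit 91568513192) (nat_lit 0) (nat_lit 5446195971) (nat_lit 2) (nat_lit 5) (nat_lit 4) (nat_lit 4) (nat_lit 2) (nat_lit 4) (nat_lit 353) (nat_lit 249) (nat_lit 178))) (XT.nd (nat_lit 78) (nat_lit 0) (nat_lit 0) (XT.lf (nat_lit 0) (nat_lit 23481753052) (nat_lit 152) (nat_lit 87647219632) (nat_lit 0) (nat_lit 10176703124) (nat_lit 2) (nat_lit 5) (nat_lit 4) (nat_lit 4) (nat_lit 2) (nat_lit 4) (nat_lit 354) (nat_lit 249) (nat_lit 177)) (XT.nd (nat_lit 78) (nat_lit 0) (nat_lit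 0) (XT.lf (nat_lit 0) (nat_lit 28457907078) (nat_lit 152) (nat_lit 83553171729) (nat_lit 0) (nat_lit 15133389608) (nat_lit 2) (nat_lit 5) (nat_lit 4) (nat_lit 4) (nat_lit 2) (nat_lit 4) (nat_lit 355) (nat_lit 249) (nat_lit 176)) (XT.lf (nat_lit 0) (nat_lit 33671115043) (nat_lit 152) (nat_lit 79276621750) (nat_lit 0) (nat_lit 20328057056) (nat_lit 2) (nat_lit 5) (nat_lit 4) (nat_lit 4) (nat_lit 2) (nat_lit 4) (nat_lit 356) (nat_lit 249) (nat_lit 175)))))) (XT.nd (nat_lit 390) (nat_lit 0) (nat_lit 0) (XT.nd (nat_lit 156) (nat_lit 0) (nat_lit 0) (XT.nd (nat_lit 78) (nat_lit 0) (nat_lit 0) (XT.lf (nat_lit 0) (nat_lit 39133789347) (nat_lit 152) (nat_lit 74807387433) (nat_lit 0) (nat_lit 25773073724) (nat_lit 2) (nat_lit 5) (nat_lit 4) (nat_lit 4) (nat_lit 2) (nat_lit 4) (nat_lit 357) (nat_lit 249) (nat_lit 174)) (XT.lf (nat_lit 0) (nat_lit 44858936357) (nat_lit 152) (nat_lit 70134827744)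 (nat_lit 0) (nat_lit 31481403938) (nat_lit 2) (nat_lit 5) (nat_lit 4) (nat_lit 4) (nat_lit 2) (nat_lit 4) (nat_lit 358) (nat_lit 249) (nat_lit 173))) (XT.nd (nat_lit 78) (nat_lit 0) (nat_lit 0) (XT.lf (nat_lit 0) (nat_lit 50860187375) (nat_lit 152) (nat_lit 65247817540) (nat_lit 0) (nat_lit 37466638960) (nat_lit 2) (nat_lit 5) (nat_lit 4) (nat_lit 4) (nat_lit 2) (nat_lit 4) (nat_lit 359) (nat_lit 249) (nat_lit 172)) (XT.nd (nat_lit 78) (nat_lit 0) (nat_lit 0) (XT.lf (nat_lit 0) (nat_lit 57151831094) (nat_lit 152) (nat_lit 60134721084) (nat_lit 0) (nat_lit 43743029349) (nat_lit 2) (nat_lit 5) (nat_lit 4) (nat_lit 4) (nat_lit 2) (nat_lit 4) (nat_lit 360) (nat_lit 249) (nat_lit 171)) (XT.lf (nat_lit 0) (nat_lit 63748847619) (nat_lit 152) (nat_lit 54783364335) (nat_lit 0) (nat_lit 50325518894) (nat_lit 2) (nat_lit 5) (nat_lit 4) (nat_lit 4) (nat_lit 2) (nat_lit 4) (nat_lit 361) (nat_lit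 249) (nat_lit 170))))) (XT.nd (nat_lit 156) (nat_lit 0) (nat_lit 0) (XT.nd (nat_lit 78) (nat_lit 0) (nat_lit 0) (XT.lf (nat_lit 0) (nat_lit 70666944131) (nat_lit 152) (nat_lit 49181005969) (nat_lit 0) (nat_lit 57229780186) (nat_lit 2) (nat_lit 5) (nat_lit 4) (nat_lit 4) (nat_lit 2) (nat_lit 4) (nat_lit 362) (nat_lit 249) (nat_lit 169)) (XT.lf (nat_lit 0) (nat_lit 77922592289) (nat_lit 152) (nat_lit 43314307036) (nat_lit 0) (nat_lit 64472251945) (nat_lit 2) (nat_lit 5) (nat_lit 4) (nat_lit 4) (nat_lit 2) (nat_lit 4) (nat_lit 363) (nat_lit 249) (nat_lit 168))) (XT.nd (nat_lit 78) (nat_lit 0) (nat_lit 0) (XT.lf (nat_lit 0) (nat_lit 85533067446) (nat_lit 152) (nat_lit 37169299207) (nat_lit 0) (nat_lit 72070178150) (nat_lit 2) (nat_lit 5) (nat_lit 4) (nat_lit 4) (nat_lit 2) (nat_lit 4) (nat_lit 364) (nat_lit 249) (nat_lit 167)) (XT.nd (nat_lit 78) (nat_lit 0) (nat_lit 0) (XT.lf (nat_lit 0)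 (nat_lit 93516489780) (nat_lit 152) (nat_lit 30731351509) (nat_lit 0) (nat_lit 80041649101) (nat_lit 2) (nat_lit 5) (nat_lit 4) (nat_lit 4) (nat_lit 2) (nat_lit 4) (nat_lit 365) (nat_lit 249) (nat_lit 166)) (XT.lf (nat_lit 0) (nat_lit 101891867441) (nat_lit 152) (nat_lit 23985135497) (nat_lit 0) (nat_lit 88405644492) (nat_lit 2) (nat_lit 5) (nat_lit 4) (nat_lit 4) (nat_lit 2) (nat_lit 4) (nat_lit 366) (nat_lit 249) (nat_lit 165))))))) (XT.nd (nat_lit 780) (nat_lit 0) (nat_lit 0) (XT.nd (nat_lit 390) (nat_lit 0) (nat_lit 0) (XT.nd (nat_lit 156) (nat_lit 76) (nat_lit 0) (XT.nd (nat_lit 78) (nat_lit 0) (nat_lit 0) (XT.lf (nat_lit 0) (nat_lit 110679141803) (nat_lit 152) (nat_lit 16914588751) (nat_lit 0) (nat_lit 97182078598) (nat_lit 2) (nat_lit 5) (nat_lit 4) (nat_lit 4) (nat_lit 2) (nat_lit 4) (nat_lit 367) (nat_lit 249) (nat_lit 164)) (XT.lf (nat_lit 0) (nat_lit 119899234948) (nat_lit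 152) (nat_lit 9502876636) (nat_lit 0) (nat_lit 106391847689) (nat_lit 2) (nat_lit 5) (nat_lit 4) (nat_lit 4) (nat_lit 2) (nat_lit 4) (nat_lit 368) (nat_lit 249) (nat_lit 163))) (XT.nd (nat_lit 78) (nat_lit 76) (nat_lit 0) (XT.lf (nat_lit 0) (nat_lit 129574099479) (nat_lit 152) (nat_lit 1732352218) (nat_lit 0) (nat_lit 116056879788) (nat_lit 2) (nat_lit 5) (nat_lit 4) (nat_lit 4) (nat_lit 2) (nat_lit 4) (nat_lit 369) (nat_lit 249) (nat_lit 162)) (XT.nd (nat_lit 78) (nat_lit 0) (nat_lit 0) (XT.lf (nat_lit 0) (nat_lit 6627610683) (nat_lit 76) (nat_lit 133202635681) (nat_lit 76) (nat_lit 119676051769) (nat_lit 1) (nat_lit 4) (nat_lit 2) (nat_lit 5) (nat_lit 2) (nat_lit 4) (nat_lit 370) (nat_lit 249) (nat_lit 161)) (XT.lf (nat_lit 0) (nat_lit 15454683266) (nat_lit 76) (nat_lit 135168029552) (nat_lit 76) (nat_lit 121632527334) (nat_lit 1) (nat_lit 4) (nat_lit 2) (nat_lit 5) (nat_lit 2) (nat_lit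 4) (nat_lit 371) (nat_lit 249) (nat_lit 160))))) (XT.nd (nat_lit 156) (nat_lit 0) (nat_lit 0) (XT.nd (nat_lit 78) (nat_lit 0) (nat_lit 0) (XT.lf (nat_lit 0) (nat_lit 24712602984) (nat_lit 76) (nat_lit 137236651041) (nat_lit 76) (nat_lit 123692655199) (nat_lit 1) (nat_lit 4) (nat_lit 2) (nat_lit 5) (nat_lit 2) (nat_lit 4) (nat_lit 372) (nat_lit 249) (nat_lit 159)) (XT.lf (nat_lit 0) (nat_lit 34423412501) (nat_lit 76) (nat_lit 139413425439) (nat_lit 76) (nat_lit 125861340430) (nat_lit 1) (nat_lit 4) (nat_lit 2) (nat_lit 5) (nat_lit 2) (nat_lit 4) (nat_lit 373) (nat_lit 249) (nat_lit 158))) (XT.nd (nat_lit 78) (nat_lit 0) (nat_lit 0) (XT.lf (nat_lit 0) (nat_lit 44610232793) (nat_lit 76) (nat_lit 141703535541) (nat_lit 76) (nat_lit 128143746564) (nat_lit 1) (nat_lit 4) (nat_lit 2) (nat_lit 5) (nat_lit 2) (nat_lit 4) (nat_lit 374) (nat_lit 249) (nat_lit 157)) (XT.nd (nat_lit 78) (nat_lit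 0) (nat_lit 0) (XT.lf (nat_lit 0) (nat_lit 55297318194) (nat_lit 76) (nat_lit 144112433991) (nat_lit 76) (nat_lit 130545307902) (nat_lit 1) (nat_lit 4) (nat_lit 2) (nat_lit 5) (nat_lit 2) (nat_lit 4) (nat_lit 375) (nat_lit 249) (nat_lit 156)) (XT.lf (nat_lit 0) (nat_lit 66510114145) (nat_lit 76) (nat_lit 146645856260) (nat_lit 76) (nat_lit 133071742445) (nat_lit 1) (nat_lit 4) (nat_lit 2) (nat_lit 5) (nat_lit 2) (nat_lit 4) (nat_lit 376) (nat_lit 249) (nat_lit 155)))))) (XT.nd (nat_lit 390) (nat_lit 0) (nat_lit 0) (XT.nd (nat_lit 156) (nat_lit 0) (nat_lit 0) (XT.nd (nat_lit 78) (nat_lit 0) (nat_lit 0) (XT.lf (nat_lit 0) (nat_lit 78275317780) (nat_lit 76) (nat_lit 149309834308) (nat_lit 76) (nat_lit 135729065516) (nat_lit 1) (nat_lit 4) (nat_lit 2) (nat_lit 5) (nat_lit 2) (nat_lit 4) (nat_lit 377) (nat_lit 249) (nat_lit 154)) (XT.lf (nat_lit 0) (nat_lit 90620941488) (nat_lit 76) (nat_lit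 152110710938) (nat_lit 76) (nat_lit 138523604072) (nat_lit 1) (nat_lit 4) (nat_lit 2) (nat_lit 5) (nat_lit 2) (nat_lit 4) (nat_lit 378) (nat_lit 249) (nat_lit 153))) (XT.nd (nat_lit 78) (nat_lit 0) (nat_lit 0) (XT.lf (nat_lit 0) (nat_lit 103576379612) (nat_lit 76) (nat_lit 155055154904) (nat_lit 76) (nat_lit 141462011778) (nat_lit 1) (nat_lit 4) (nat_lit 2) (nat_lit 5) (nat_lit 2) (nat_lit 4) (nat_lit 379) (nat_lit 249) (nat_lit 152)) (XT.nd (nat_lit 78) (nat_lit 0) (nat_lit 0) (XT.lf (nat_lit 0) (nat_lit 117172478432) (nat_lit 76) (nat_lit 158150176788) (nat_lit 76) (nat_lit 144551284843) (nat_lit 1) (nat_lit 4) (nat_lit 2) (nat_lit 5) (nat_lit 2) (nat_lit 4) (nat_lit 380) (nat_lit 249) (nat_lit 151)) (XT.lf (nat_lit 0) (nat_lit 131441609612) (nat_lit 76) (nat_lit 161403145689) (nat_lit 76) (nat_lit 147798778677) (nat_lit 1) (nat_lit 4) (nat_lit 2) (nat_lit 5) (nat_lit 2) (nat_lit 4)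 (nat_lit 381) (nat_lit 249) (nat_lit 150))))) (XT.nd (nat_lit 156) (nat_lit 0) (nat_lit 0) (XT.nd (nat_lit 78) (nat_lit 0) (nat_lit 0) (XT.lf (nat_lit 0) (nat_lit 146417747275) (nat_lit 76) (nat_lit 164821806771) (nat_lit 76) (nat_lit 151212225411) (nat_lit 1) (nat_lit 4) (nat_lit 2) (nat_lit 5) (nat_lit 2) (nat_lit 4) (nat_lit 382) (nat_lit 249) (nat_lit 149)) (XT.lf (nat_lit 0) (nat_lit 162136548890) (nat_lit 76) (nat_lit 168414299704) (nat_lit 76) (nat_lit 154799752297) (nat_lit 1) (nat_lit 4) (nat_lit 2) (nat_lit 5) (nat_lit 2) (nat_lit 4) (nat_lit 383) (nat_lit 249) (nat_lit 148))) (XT.nd (nat_lit 78) (nat_lit 0) (nat_lit 0) (XT.lf (nat_lit 0) (nat_lit 178635440177) (nat_lit 76) (nat_lit 172189178041) (nat_lit 76) (nat_lit 158569901067) (nat_lit 1) (nat_lit 4) (nat_lit 2) (nat_lit 5) (nat_lit 2) (nat_lit 4) (nat_lit 384) (nat_lit 249) (nat_lit 147)) (XT.nd (nat_lit 78) (nat_lit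 0) (nat_lit 0) (XT.lf (nat_lit 0) (nat_lit 195953704209) (nat_lit 76) (nat_lit 176155429589) (nat_lit 76) (nat_lit 162531648264) (nat_lit 1) (nat_lit 4) (nat_lit 2) (nat_lit 5) (nat_lit 2) (nat_lit 4) (nat_lit 385) (nat_lit 249) (nat_lit 146)) (XT.lf (nat_lit 0) (nat_lit 214132574949) (nat_lit 76) (nat_lit 180322497804) (nat_lit 76) (nat_lit 166694426621) (nat_lit 1) (nat_lit 4) (nat_lit 2) (nat_lit 5) (nat_lit 2) (nat_lit 4) (nat_lit 386) (nat_lit 249) (nat_lit 145))))))))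
noncomputable def xc77 : XT := (XT.nd (nat_lit 33540) (nat_lit 0) (nat_lit 836) (XT.nd (nat_lit 32760) (nat_lit 0) (nat_lit 2432) (XT.nd (nat_lit 32370) (nat_lit 0) (nat_lit 3952) (XT.nd (nat_lit 156) (nat_lit 0) (nat_lit 0) (XT.nd (nat_lit 78) (nat_lit 0) (nat_lit 0) (XT.lf (nat_lit 0) (nat_lit 233215335422) (nat_lit 76) (nat_lit 184700304277) (nat_lit 76) (nat_lit 171068147515) (nat_lit 1) (nat_lit 4) (nat_lit 2) (nat_lit 5) (nat_lit 2) (nat_lit 4) (nat_lit 387) (nat_lit 249) (nat_lit 144)) (XT.lf (nat_lit 0) (nat_lit 253247420771) (nat_lit 76) (nat_lit 189299272355) (nat_lit 76) (nat_lit 175663224566) (nat_lit 1) (nat_lit 4) (nat_lit 2) (nat_lit 5) (nat_lit 2) (nat_lit 4) (nat_lit 388) (nat_lit 249) (nat_lit 143))) (XT.nd (nat_lit 78) (nat_lit 0) (nat_lit 0) (XT.lf (nat_lit 0) (nat_lit 274276526440) (nat_lit 76) (nat_lit 194130351964) (nat_lit 76) (nat_lit 180490598435) (nat_lit 1)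 (nat_lit 4) (nat_lit 2) (nat_lit 5) (nat_lit 2) (nat_lit 4) (nat_lit 389) (nat_lit 249) (nat_lit 142)) (XT.nd (nat_lit 32058) (nat_lit 0) (nat_lit 5320) (XT.lf (nat_lit 0) (nat_lit 296352721725) (nat_lit 76) (nat_lit 199205045674) (nat_lit 76) (nat_lit 185561762869) (nat_lit 1) (nat_lit 4) (nat_lit 2) (nat_lit 5) (nat_lit 2) (nat_lit 4) (nat_lit 390) (nat_lit 249) (nat_lit 141)) (XT.lf (nat_lit 0) (nat_lit 3800268061) (nat_lit 380) (nat_lit 31302070) (nat_lit 380) (nat_lit 31302070) (nat_lit 71) (nat_lit 4) (nat_lit 76) (nat_lit 5) (nat_lit 76) (nat_lit 4) (nat_lit 280) (nat_lit 250) (nat_lit 250))))) (XT.nd (nat_lit 156) (nat_lit 684) (nat_lit 0) (XT.nd (nat_lit 78) (nat_lit 304) (nat_lit 0) (XT.lf (nat_lit 0) (nat_lit 3323106573) (nat_lit 380) (nat_lit 2510010786) (nat_lit 0) (nat_lit 2030129370) (nat_lit 66) (nat_lit 5) (nat_lit 71) (nat_lit 4) (nat_lit 66) (nat_lit 4) (nat_lit 281)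 (nat_lit 250) (nat_lit 249)) (XT.lf (nat_lit 0) (nat_lit 3016260840) (nat_lit 304) (nat_lit 3760511627) (nat_lit 304) (nat_lit 1236127564) (nat_lit 62) (nat_lit 4) (nat_lit 66) (nat_lit 5) (nat_lit 66) (nat_lit 4) (nat_lit 282) (nat_lit 250) (nat_lit 248))) (XT.nd (nat_lit 78) (nat_lit 380) (nat_lit 0) (XT.lf (nat_lit 0) (nat_lit 536765556) (nat_lit 228) (nat_lit 1528560325) (nat_lit 304) (nat_lit 6108113074) (nat_lit 58) (nat_lit 5) (nat_lit 61) (nat_lit 5) (nat_lit 62) (nat_lit 4) (nat_lit 283) (nat_lit 250) (nat_lit 247)) (XT.nd (nat_lit 78) (nat_lit 380) (nat_lit 0) (XT.lf (nat_lit 0) (nat_lit 5444833599) (nat_lit 304) (nat_lit 2038747432) (nat_lit 0) (nat_lit 860000433) (nat_lit 58) (nat_lit 5) (nat_lit 62) (nat_lit 4) (nat_lit 58) (nat_lit 4) (nat_lit 284) (nat_lit 250) (nat_lit 246)) (XT.lf (nat_lit 0) (nat_lit 401199573) (nat_lit 380) (nat_lit 4775455511) (nat_lit 76) (nat_lit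 3348235339) (nat_lit 53) (nat_lit 5) (nat_lit 58) (nat_lit 5) (nat_lit 54) (nat_lit 4) (nat_lit 285) (nat_lit 250) (nat_lit 245)))))) (XT.nd (nat_lit 390) (nat_lit 760) (nat_lit 0) (XT.nd (nat_lit 156) (nat_lit 532) (nat_lit 0) (XT.nd (nat_lit 78) (nat_lit 0) (nat_lit 0) (XT.lf (nat_lit 0) (nat_lit 987892281) (nat_lit 228) (nat_lit 2695349872) (nat_lit 304) (nat_lit 5034193924) (nat_lit 50) (nat_lit 5) (nat_lit 53) (nat_lit 5) (nat_lit 54) (nat_lit 4) (nat_lit 286) (nat_lit 250) (nat_lit 244)) (XT.lf (nat_lit 0) (nat_lit 7028193673) (nat_lit 228) (nat_lit 49778309) (nat_lit 304) (nat_lit 1844467779) (nat_lit 50) (nat_lit 5) (nat_lit 53) (nat_lit 5) (nat_lit 54) (nat_lit 4) (nat_lit 287) (nat_lit 250) (nat_lit 243))) (XT.nd (nat_lit 78) (nat_lit 228) (nat_lit 0) (XT.lf (nat_lit 0) (nat_lit 1436735771) (nat_lit 304) (nat_lit 5013536198) (nat_lit 76) (nat_lit 2687475212) (nat_lit 46) (nat_lit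 5) (nat_lit 50) (nat_lit 5) (nat_lit 47) (nat_lit 4) (nat_lit 288) (nat_lit 250) (nat_lit 242)) (XT.nd (nat_lit 78) (nat_lit 0) (nat_lit 0) (XT.lf (nat_lit 0) (nat_lit 970602897) (nat_lit 228) (nat_lit 3772432843) (nat_lit 304) (nat_lit 4623345854) (nat_lit 43) (nat_lit 5) (nat_lit 46) (nat_lit 5) (nat_lit 47) (nat_lit 4) (nat_lit 289) (nat_lit 250) (nat_lit 241)) (XT.lf (nat_lit 0) (nat_lit 7254824451) (nat_lit 228) (nat_lit 922454483) (nat_lit 304) (nat_lit 1431251289) (nat_lit 43) (nat_lit 5) (nat_lit 46) (nat_lit 5) (nat_lit 47) (nat_lit 4) (nat_lit 290) (nat_lit 250) (nat_lit 240))))) (XT.nd (nat_lit 156) (nat_lit 304) (nat_lit 0) (XT.nd (nat_lit 78) (nat_lit 152) (nat_lit 0) (XT.lf (nat_lit 0) (nat_lit 1834596532) (nat_lit 304) (nat_lit 5980577537) (nat_lit 76) (nat_lit 2047526310) (nat_lit 39) (nat_lit 5) (nat_lit 43) (nat_lit 5) (nat_lit 40) (nat_lit 4) (nat_lit 291) (nat_lit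 250) (nat_lit 239)) (XT.lf (nat_lit 0) (nat_lit 178867262) (nat_lit 152) (nat_lit 4978893245) (nat_lit 228) (nat_lit 4973724001) (nat_lit 37) (nat_lit 5) (nat_lit 39) (nat_lit 5) (nat_lit 40) (nat_lit 4) (nat_lit 292) (nat_lit 250) (nat_lit 238))) (XT.nd (nat_lit 78) (nat_lit 304) (nat_lit 0) (XT.lf (nat_lit 0) (nat_lit 6685191381) (nat_lit 152) (nat_lit 1949773156) (nat_lit 228) (nat_lit 1779525196) (nat_lit 37) (nat_lit 5) (nat_lit 39) (nat_lit 5) (nat_lit 40) (nat_lit 4) (nat_lit 293) (nat_lit 250) (nat_lit 237)) (XT.nd (nat_lit 78) (nat_lit 0) (nat_lit 0) (XT.lf (nat_lit 0) (nat_lit 1475713449) (nat_lit 304) (nat_lit 8030800454) (nat_lit 76) (nat_lit 1206475910) (nat_lit 33) (nat_lit 5) (nat_lit 37) (nat_lit 5) (nat_lit 34) (nat_lit 4) (nat_lit 294) (nat_lit 250) (nat_lit 236)) (XT.lf (nat_lit 0) (nat_lit 4821987655) (nat_lit 304) (nat_lit 1708197066) (nat_lit 76) (nat_lit 4495519700)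 (nat_lit 33) (nat_lit 5) (nat_lit 37) (nat_lit 5) (nat_lit 34) (nat_lit 4) (nat_lit 295) (nat_lit 250) (nat_lit 235))))))) (XT.nd (nat_lit 780) (nat_lit 532) (nat_lit 0) (XT.nd (nat_lit 390) (nat_lit 532) (nat_lit 0) (XT.nd (nat_lit 156) (nat_lit 152) (nat_lit 0) (XT.nd (nat_lit 78) (nat_lit 228) (nat_lit 0) (XT.lf (nat_lit 0) (nat_lit 4929754752) (nat_lit 152) (nat_lit 3379855733) (nat_lit 228) (nat_lit 3045887308) (nat_lit 31) (nat_lit 5) (nat_lit 33) (nat_lit 5) (nat_lit 34) (nat_lit 4) (nat_lit 296) (nat_lit 250) (nat_lit 234)) (XT.lf (nat_lit 0) (nat_lit 97488407) (nat_lit 152) (nat_lit 92387307) (nat_lit 228) (nat_lit 11515391874) (nat_lit 28) (nat_lit 5) (nat_lit 30) (nat_lit 5) (nat_lit 31) (nat_lit 5) (nat_lit 297) (nat_lit 250) (nat_lit 233))) (XT.nd (nat_lit 78) (nat_lit 152) (nat_lit 0) (XT.lf (nat_lit 0) (nat_lit 3547402413) (nat_lit 228) (nat_lit 5162454146) (nat_lit 76)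 (nat_lit 3357180887) (nat_lit 28) (nat_lit 5) (nat_lit 31) (nat_lit 5) (nat_lit 29) (nat_lit 4) (nat_lit 298) (nat_lit 250) (nat_lit 232)) (XT.nd (nat_lit 78) (nat_lit 0) (nat_lit 0) (XT.lf (nat_lit 0) (nat_lit 1498074052) (nat_lit 152) (nat_lit 5503711031) (nat_lit 228) (nat_lit 5448780843) (nat_lit 26) (nat_lit 5) (nat_lit 28) (nat_lit 5) (nat_lit 29) (nat_lit 4) (nat_lit 299) (nat_lit 250) (nat_lit 231)) (XT.lf (nat_lit 0) (nat_lit 8519836893) (nat_lit 152) (nat_lit 2102764571) (nat_lit 228) (nat_lit 2231097077) (nat_lit 26) (nat_lit 5) (nat_lit 28) (nat_lit 5) (nat_lit 29) (nat_lit 4) (nat_lit 300) (nat_lit 250) (nat_lit 230))))) (XT.nd (nat_lit 156) (nat_lit 304) (nat_lit 0) (XT.nd (nat_lit 78) (nat_lit 0) (nat_lit 0) (XT.lf (nat_lit 0) (nat_lit 1082444027) (nat_lit 228) (nat_lit 10769861993) (nat_lit 76) (nat_lit 1425303928) (nat_lit 23) (nat_lit 5) (nat_lit 26) (nat_lit 5) (nat_lit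 24) (nat_lit 4) (nat_lit 301) (nat_lit 250) (nat_lit 229)) (XT.lf (nat_lit 0) (nat_lit 4506130534) (nat_lit 228) (nat_lit 4097626423) (nat_lit 76) (nat_lit 5116256801) (nat_lit 23) (nat_lit 5) (nat_lit 26) (nat_lit 5) (nat_lit 24) (nat_lit 4) (nat_lit 302) (nat_lit 250) (nat_lit 228))) (XT.nd (nat_lit 78) (nat_lit 228) (nat_lit 0) (XT.lf (nat_lit 0) (nat_lit 2858541530) (nat_lit 76) (nat_lit 5201734473) (nat_lit 152) (nat_lit 6126391351) (nat_lit 22) (nat_lit 5) (nat_lit 23) (nat_lit 5) (nat_lit 24) (nat_lit 4) (nat_lit 303) (nat_lit 250) (nat_lit 227)) (XT.nd (nat_lit 78) (nat_lit 228) (nat_lit 0) (XT.lf (nat_lit 0) (nat_lit 10165884587) (nat_lit 76) (nat_lit 1612180251) (nat_lit 152) (nat_lit 2899380869) (nat_lit 22) (nat_lit 5) (nat_lit 23) (nat_lit 5) (nat_lit 24) (nat_lit 4) (nat_lit 304) (nat_lit 250) (nat_lit 226)) (XT.lf (nat_lit 0) (nat_lit 466449258) (nat_lit 228) (nat_lit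 12642173398) (nat_lit 76) (nat_lit 2084183246) (nat_lit 19) (nat_lit 5) (nat_lit 22) (nat_lit 5) (nat_lit 20) (nat_lit 4) (nat_lit 305) (nat_lit 250) (nat_lit 225)))))) (XT.nd (nat_lit 390) (nat_lit 228) (nat_lit 0) (XT.nd (nat_lit 156) (nat_lit 228) (nat_lit 0) (XT.nd (nat_lit 78) (nat_lit 76) (nat_lit 0) (XT.lf (nat_lit 0) (nat_lit 3927287268) (nat_lit 228) (nat_lit 5818807646) (nat_lit 76) (nat_lit 5984331702) (nat_lit 19) (nat_lit 5) (nat_lit 22) (nat_lit 5) (nat_lit 20) (nat_lit 4) (nat_lit 306) (nat_lit 250) (nat_lit 224)) (XT.lf (nat_lit 0) (nat_lit 1256368239) (nat_lit 76) (nat_lit 6248288065) (nat_lit 152) (nat_lit 8793170731) (nat_lit 18) (nat_lit 5) (nat_lit 19) (nat_lit 5) (nat_lit 20) (nat_lit 4) (nat_lit 307) (nat_lit 250) (nat_lit 223))) (XT.nd (nat_lit 78) (nat_lit 228) (nat_lit 0) (XT.lf (nat_lit 0) (nat_lit 8759838833) (nat_lit 76) (nat_lit 2525107720) (nat_lit 152)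 (nat_lit 5607517924) (nat_lit 18) (nat_lit 5) (nat_lit 19) (nat_lit 5) (nat_lit 20) (nat_lit 4) (nat_lit 308) (nat_lit 250) (nat_lit 222)) (XT.nd (nat_lit 78) (nat_lit 228) (nat_lit 0) (XT.lf (nat_lit 0) (nat_lit 15204130804) (nat_lit 152) (nat_lit 1024197685) (nat_lit 0) (nat_lit 1291077654) (nat_lit 18) (nat_lit 5) (nat_lit 20) (nat_lit 4) (nat_lit 18) (nat_lit 4) (nat_lit 309) (nat_lit 250) (nat_lit 221)) (XT.lf (nat_lit 0) (nat_lit 1180567804) (nat_lit 228) (nat_lit 11705500676) (nat_lit 76) (nat_lit 5287019104) (nat_lit 15) (nat_lit 5) (nat_lit 18) (nat_lit 5) (nat_lit 16) (nat_lit 4) (nat_lit 310) (nat_lit 250) (nat_lit 220))))) (XT.nd (nat_lit 234) (nat_lit 152) (nat_lit 0) (XT.nd (nat_lit 78) (nat_lit 76) (nat_lit 0) (XT.lf (nat_lit 0) (nat_lit 4722988903) (nat_lit 228) (nat_lit 4646024588) (nat_lit 76) (nat_lit 9491119421) (nat_lit 15) (nat_lit 5) (nat_lit 18) (nat_lit 5) (nat_lit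 16) (nat_lit 4) (nat_lit 311) (nat_lit 250) (nat_lit 219)) (XT.nd (nat_lit 78) (nat_lit 0) (nat_lit 0) (XT.lf (nat_lit 0) (nat_lit 2741092982) (nat_lit 76) (nat_lit 5679438600) (nat_lit 152) (nat_lit 11162153466) (nat_lit 14) (nat_lit 5) (nat_lit 15) (nat_lit 5) (nat_lit 16) (nat_lit 4) (nat_lit 312) (nat_lit 250) (nat_lit 218)) (XT.lf (nat_lit 0) (nat_lit 10547625120) (nat_lit 76) (nat_lit 1770562056) (nat_lit 152) (nat_lit 8022467794) (nat_lit 14) (nat_lit 5) (nat_lit 15) (nat_lit 5) (nat_lit 16) (nat_lit 4) (nat_lit 313) (nat_lit 250) (nat_lit 217)))) (XT.nd (nat_lit 78) (nat_lit 152) (nat_lit 0) (XT.lf (nat_lit 0) (nat_lit 16386025780) (nat_lit 152) (nat_lit 2536779755) (nat_lit 0) (nat_lit 2215002333) (nat_lit 14) (nat_lit 5) (nat_lit 16) (nat_lit 4) (nat_lit 14) (nat_lit 4) (nat_lit 314) (nat_lit 250) (nat_lit 216)) (XT.nd (nat_lit 78) (nat_lit 76) (nat_lit 0) (XT.lf (nat_lit 0)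 (nat_lit 5113783852) (nat_lit 76) (nat_lit 15594113541) (nat_lit 76) (nat_lit 1264436101) (nat_lit 13) (nat_lit 4) (nat_lit 14) (nat_lit 5) (nat_lit 14) (nat_lit 4) (nat_lit 315) (nat_lit 250) (nat_lit 215)) (XT.lf (nat_lit 0) (nat_lit 2306199904) (nat_lit 152) (nat_lit 9753066676) (nat_lit 76) (nat_lit 10788207635) (nat_lit 12) (nat_lit 5) (nat_lit 14) (nat_lit 5) (nat_lit 13) (nat_lit 4) (nat_lit 316) (nat_lit 250) (nat_lit 214))))))))
noncomputable def xc78 : XT := (XT.nd (nat_lit 1560) (nat_lit 228) (nat_lit 0) (XT.nd (nat_lit 780) (nat_lit 228) (nat_lit 0) (XT.nd (nat_lit 390) (nat_lit 152) (nat_lit 0) (XT.nd (nat_lit 156) (nat_lit 76) (nat_lit 0) (XT.nd (nat_lit 78) (nat_lit 76) (nat_lit 0) (XT.lf (nat_lit 0) (nat_lit 5957621680) (nat_lit 152) (nat_lit 2411555885) (nat_lit 76) (nat_lit 15398961339) (nat_lit 12) (nat_lit 5) (nat_lit 14) (nat_lit 5) (nat_lit 13) (nat_lit 4) (nat_lit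 317) (nat_lit 250) (nat_lit 213)) (XT.lf (nat_lit 0) (nat_lit 5375245329) (nat_lit 76) (nat_lit 4447670252) (nat_lit 152) (nat_lit 14910394971) (nat_lit 11) (nat_lit 5) (nat_lit 12) (nat_lit 5) (nat_lit 13) (nat_lit 4) (nat_lit 318) (nat_lit 250) (nat_lit 212))) (XT.nd (nat_lit 78) (nat_lit 76) (nat_lit 0) (XT.lf (nat_lit 0) (nat_lit 13542797176) (nat_lit 76) (nat_lit 327960786) (nat_lit 152) (nat_lit 11876555567) (nat_lit 11) (nat_lit 5) (nat_lit 12) (nat_lit 5) (nat_lit 13) (nat_lit 4) (nat_lit 319) (nat_lit 250) (nat_lit 211)) (XT.nd (nat_lit 78) (nat_lit 76) (nat_lit 0) (XT.lf (nat_lit 0) (nat_lit 18133700295) (nat_lit 152) (nat_lit 4845507466) (nat_lit 0) (nat_lit 3832208674) (nat_lit 11) (nat_lit 5) (nat_lit 13) (nat_lit 4) (nat_lit 11) (nat_lit 4) (nat_lit 320) (nat_lit 250) (nat_lit 210)) (XT.lf (nat_lit 0) (nat_lit 2882818320) (nat_lit 76) (nat_lit 19730015751) (nat_lit 76)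 (nat_lit 5315771698) (nat_lit 10) (nat_lit 4) (nat_lit 11) (nat_lit 5) (nat_lit 11) (nat_lit 4) (nat_lit 321) (nat_lit 250) (nat_lit 209))))) (XT.nd (nat_lit 156) (nat_lit 76) (nat_lit 0) (XT.nd (nat_lit 78) (nat_lit 76) (nat_lit 0) (XT.lf (nat_lit 0) (nat_lit 11081639587) (nat_lit 76) (nat_lit 16269945588) (nat_lit 76) (nat_lit 1748318267) (nat_lit 10) (nat_lit 4) (nat_lit 11) (nat_lit 5) (nat_lit 11) (nat_lit 4) (nat_lit 322) (nat_lit 250) (nat_lit 208)) (XT.lf (nat_lit 0) (nat_lit 1888630424) (nat_lit 152) (nat_lit 10752204728) (nat_lit 76) (nat_lit 17689647683) (nat_lit 9) (nat_lit 5) (nat_lit 11) (nat_lit 5) (nat_lit 10) (nat_lit 4) (nat_lit 323) (nat_lit 250) (nat_lit 207))) (XT.nd (nat_lit 78) (nat_lit 76) (nat_lit 0) (XT.lf (nat_lit 0) (nat_lit 5605867131) (nat_lit 152) (nat_lit 3229269268) (nat_lit 76) (nat_lit 22788189535) (nat_lit 9) (nat_lit 5) (nat_lit 11) (nat_lit 5) (nat_lit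 10) (nat_lit 4) (nat_lit 324) (nat_lit 250) (nat_lit 206)) (XT.nd (nat_lit 78) (nat_lit 0) (nat_lit 0) (XT.lf (nat_lit 0) (nat_lit 4747706686) (nat_lit 76) (nat_lit 4794617839) (nat_lit 152) (nat_lit 23436844966) (nat_lit 8) (nat_lit 5) (nat_lit 9) (nat_lit 5) (nat_lit 10) (nat_lit 4) (nat_lit 325) (nat_lit 250) (nat_lit 205)) (XT.lf (nat_lit 0) (nat_lit 13162776393) (nat_lit 76) (nat_lit 527555053) (nat_lit 152) (nat_lit 20711762446) (nat_lit 8) (nat_lit 5) (nat_lit 9) (nat_lit 5) (nat_lit 10) (nat_lit 4) (nat_lit 326) (nat_lit 250) (nat_lit 204)))))) (XT.nd (nat_lit 390) (nat_lit 152) (nat_lit 0) (XT.nd (nat_lit 156) (nat_lit 76) (nat_lit 0) (XT.nd (nat_lit 78) (nat_lit 0) (nat_lit 0) (XT.lf (nat_lit 0) (nat_lit 18068905065) (nat_lit 152) (nat_lit 14030115750) (nat_lit 0) (nat_lit 3796009187) (nat_lit 8) (nat_lit 5) (nat_lit 10) (nat_lit 4) (nat_lit 8) (nat_lit 4) (nat_lit 327) (nat_lit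 250) (nat_lit 203)) (XT.lf (nat_lit 0) (nat_lit 22638342586) (nat_lit 152) (nat_lit 6536564819) (nat_lit 0) (nat_lit 8289131424) (nat_lit 8) (nat_lit 5) (nat_lit 10) (nat_lit 4) (nat_lit 8) (nat_lit 4) (nat_lit 328) (nat_lit 250) (nat_lit 202))) (XT.nd (nat_lit 78) (nat_lit 0) (nat_lit 0) (XT.lf (nat_lit 0) (nat_lit 1309320114) (nat_lit 76) (nat_lit 26112409052) (nat_lit 76) (nat_lit 11690516667) (nat_lit 7) (nat_lit 4) (nat_lit 8) (nat_lit 5) (nat_lit 8) (nat_lit 4) (nat_lit 329) (nat_lit 250) (nat_lit 201)) (XT.nd (nat_lit 78) (nat_lit 0) (nat_lit 0) (XT.lf (nat_lit 0) (nat_lit 9711220390) (nat_lit 76) (nat_lit 22809477655) (nat_lit 76) (nat_lit 8318365059) (nat_lit 7) (nat_lit 4) (nat_lit 8) (nat_lit 5) (nat_lit 8) (nat_lit 4) (nat_lit 330) (nat_lit 250) (nat_lit 200)) (XT.lf (nat_lit 0) (nat_lit 18473012180) (nat_lit 76) (nat_lit 19368948980) (nat_lit 76) (nat_lit 4811912373) (nat_lit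 7) (nat_lit 4) (nat_lit 8) (nat_lit 5) (nat_lit 8) (nat_lit 4) (nat_lit 331) (nat_lit 250) (nat_lit 199))))) (XT.nd (nat_lit 156) (nat_lit 76) (nat_lit 0) (XT.nd (nat_lit 78) (nat_lit 76) (nat_lit 0) (XT.lf (nat_lit 0) (nat_lit 27615556894) (nat_lit 76) (nat_lit 15782631294) (nat_lit 76) (nat_lit 1162809914) (nat_lit 7) (nat_lit 4) (nat_lit 8) (nat_lit 5) (nat_lit 8) (nat_lit 4) (nat_lit 332) (nat_lit 250) (nat_lit 198)) (XT.lf (nat_lit 0) (nat_lit 2553210004) (nat_lit 152) (nat_lit 9445535892) (nat_lit 76) (nat_lit 34564172643) (nat_lit 6) (nat_lit 5) (nat_lit 8) (nat_lit 5) (nat_lit 7) (nat_lit 4) (nat_lit 333) (nat_lit 250) (nat_lit 197))) (XT.nd (nat_lit 78) (nat_lit 76) (nat_lit 0) (XT.lf (nat_lit 0) (nat_lit 6387266145) (nat_lit 152) (nat_lit 1642668441) (nat_lit 76) (nat_lit 40635497739) (nat_lit 6) (nat_lit 5) (nat_lit 8) (nat_lit 5) (nat_lit 7) (nat_lit 4) (nat_lit 334) (nat_lit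 250) (nat_lit 196)) (XT.nd (nat_lit 78) (nat_lit 0) (nat_lit 0) (XT.lf (nat_lit 0) (nat_lit 6714809975) (nat_lit 76) (nat_lit 3775731421) (nat_lit 152) (nat_lit 40378669937) (nat_lit 5) (nat_lit 5) (nat_lit 6) (nat_lit 5) (nat_lit 7) (nat_lit 4) (nat_lit 335) (nat_lit 250) (nat_lit 195)) (XT.lf (nat_lit 0) (nat_lit 14810895893) (nat_lit 152) (nat_lit 37696475943) (nat_lit 0) (nat_lit 675226297) (nat_lit 5) (nat_lit 5) (nat_lit 7) (nat_lit 4) (nat_lit 5) (nat_lit 4) (nat_lit 336) (nat_lit 250) (nat_lit 194))))))) (XT.nd (nat_lit 780) (nat_lit 152) (nat_lit 0) (XT.nd (nat_lit 390) (nat_lit 76) (nat_lit 0) (XT.nd (nat_lit 156) (nat_lit 0) (nat_lit 0) (XT.nd (nat_lit 78) (nat_lit 0) (nat_lit 0) (XT.lf (nat_lit 0) (nat_lit 19383307022) (nat_lit 152) (nat_lit 31025772760) (nat_lit 0) (nat_lit 5200786462) (nat_lit 5) (nat_lit 5) (nat_lit 7) (nat_lit 4) (nat_lit 5) (nat_lit 4) (nat_lit 337)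 (nat_lit 250) (nat_lit 193)) (XT.lf (nat_lit 0) (nat_lit 24159711729) (nat_lit 152) (nat_lit 24067459436) (nat_lit 0) (nat_lit 9932571204) (nat_lit 5) (nat_lit 5) (nat_lit 7) (nat_lit 4) (nat_lit 5) (nat_lit 4) (nat_lit 338) (nat_lit 250) (nat_lit 192))) (XT.nd (nat_lit 78) (nat_lit 0) (nat_lit 0) (XT.lf (nat_lit 0) (nat_lit 29151482406) (nat_lit 152) (nat_lit 16804968556) (nat_lit 0) (nat_lit 14881846675) (nat_lit 5) (nat_lit 5) (nat_lit 7) (nat_lit 4) (nat_lit 5) (nat_lit 4) (nat_lit 339) (nat_lit 250) (nat_lit 191)) (XT.nd (nat_lit 78) (nat_lit 0) (nat_lit 0) (XT.lf (nat_lit 0) (nat_lit 34370504221) (nat_lit 152) (nat_lit 9221008477) (nat_lit 0) (nat_lit 20060396866) (nat_lit 5) (nat_lit 5) (nat_lit 7) (nat_lit 4) (nat_lit 5) (nat_lit 4) (nat_lit 340) (nat_lit 250) (nat_lit 190)) (XT.lf (nat_lit 0) (nat_lit 39829203417) (nat_lit 152) (nat_lit 1297522150) (nat_lit 0) (nat_lit 25480551658)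 (nat_lit 5) (nat_lit 5) (nat_lit 7) (nat_lit 4) (nat_lit 5) (nat_lit 4) (nat_lit 341) (nat_lit 250) (nat_lit 189))))) (XT.nd (nat_lit 156) (nat_lit 0) (nat_lit 0) (XT.nd (nat_lit 78) (nat_lit 0) (nat_lit 0) (XT.lf (nat_lit 0) (nat_lit 7215290215) (nat_lit 76) (nat_lit 38437937582) (nat_lit 76) (nat_lit 24052576866) (nat_lit 4) (nat_lit 4) (nat_lit 5) (nat_lit 5) (nat_lit 5) (nat_lit 4) (nat_lit 342) (nat_lit 250) (nat_lit 188)) (XT.lf (nat_lit 0) (nat_lit 16161617010) (nat_lit 76) (nat_lit 35608934290) (nat_lit 76) (nat_lit 21188612664) (nat_lit 4) (nat_lit 4) (nat_lit 5) (nat_lit 5) (nat_lit 5) (nat_lit 4) (nat_lit 343) (nat_lit 250) (nat_lit 187))) (XT.nd (nat_lit 78) (nat_lit 0) (nat_lit 0) (XT.lf (nat_lit 0) (nat_lit 25519857070) (nat_lit 76) (nat_lit 32654954136) (nat_lit 76) (nat_lit 18201336405) (nat_lit 4) (nat_lit 4) (nat_lit 5) (nat_lit 5) (nat_lit 5) (nat_lit 4) (nat_lit 344)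 (nat_lit 250) (nat_lit 186)) (XT.nd (nat_lit 78) (nat_lit 0) (nat_lit 0) (XT.lf (nat_lit 0) (nat_lit 35312291920) (nat_lit 76) (nat_lit 29568963834) (nat_lit 76) (nat_lit 15083635526) (nat_lit 4) (nat_lit 4) (nat_lit 5) (nat_lit 5) (nat_lit 5) (nat_lit 4) (nat_lit 345) (nat_lit 250) (nat_lit 185)) (XT.lf (nat_lit 0) (nat_lit 45562236881) (nat_lit 76) (nat_lit 26343615787) (nat_lit 76) (nat_lit 11828086930) (nat_lit 4) (nat_lit 4) (nat_lit 5) (nat_lit 5) (nat_lit 5) (nat_lit 4) (nat_lit 346) (nat_lit 250) (nat_lit 184)))))) (XT.nd (nat_lit 390) (nat_lit 76) (nat_lit 0) (XT.nd (nat_lit 156) (nat_lit 76) (nat_lit 0) (XT.nd (nat_lit 78) (nat_lit 0) (nat_lit 0) (XT.lf (nat_lit 0) (nat_lit 56294096584) (nat_lit 76) (nat_lit 22971230595) (nat_lit 76) (nat_lit 8426939311) (nat_lit 4) (nat_lit 4) (nat_lit 5) (nat_lit 5) (nat_lit 5) (nat_lit 4) (nat_lit 347) (nat_lit 250) (nat_lit 183)) (XT.lf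 (nat_lit 0) (nat_lit 67533423074) (nat_lit 76) (nat_lit 19443778771) (nat_lit 76) (nat_lit 4872094698) (nat_lit 4) (nat_lit 4) (nat_lit 5) (nat_lit 5) (nat_lit 5) (nat_lit 4) (nat_lit 348) (nat_lit 250) (nat_lit 182))) (XT.nd (nat_lit 78) (nat_lit 76) (nat_lit 0) (XT.lf (nat_lit 0) (nat_lit 79306976654) (nat_lit 76) (nat_lit 15752861618) (nat_lit 76) (nat_lit 1155089175) (nat_lit 4) (nat_lit 4) (nat_lit 5) (nat_lit 5) (nat_lit 5) (nat_lit 4) (nat_lit 349) (nat_lit 250) (nat_lit 181)) (XT.nd (nat_lit 78) (nat_lit 0) (nat_lit 0) (XT.lf (nat_lit 0) (nat_lit 2645456529) (nat_lit 152) (nat_lit 9199432625) (nat_lit 76) (nat_lit 88952530979) (nat_lit 3) (nat_lit 5) (nat_lit 5) (nat_lit 5) (nat_lit 4) (nat_lit 4) (nat_lit 350) (nat_lit 250) (nat_lit 180)) (XT.lf (nat_lit 0) (nat_lit 6583530566) (nat_lit 152) (nat_lit 1150043769) (nat_lit 76) (nat_lit 97875207036) (nat_lit 3) (nat_lit 5) (nat_lit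 5) (nat_lit 5) (nat_lit 4) (nat_lit 4) (nat_lit 351) (nat_lit 250) (nat_lit 179))))) (XT.nd (nat_lit 234) (nat_lit 0) (nat_lit 0) (XT.nd (nat_lit 78) (nat_lit 0) (nat_lit 0) (XT.lf (nat_lit 0) (nat_lit 7518039373) (nat_lit 76) (nat_lit 3304817659) (nat_lit 152) (nat_lit 99832642579) (nat_lit 2) (nat_lit 5) (nat_lit 3) (nat_lit 5) (nat_lit 4) (nat_lit 4) (nat_lit 352) (nat_lit 250) (nat_lit 178)) (XT.nd (nat_lit 78) (nat_lit 0) (nat_lit 0) (XT.lf (nat_lit 0) (nat_lit 15301992238) (nat_lit 152) (nat_lit 99339926584) (nat_lit 0) (nat_lit 1311248894) (nat_lit 2) (nat_lit 5) (nat_lit 4) (nat_lit 4) (nat_lit 2) (nat_lit 4) (nat_lit 353) (nat_lit 250) (nat_lit 177)) (XT.lf (nat_lit 0) (nat_lit 20046920092) (nat_lit 152) (nat_lit 95430003919) (nat_lit 0) (nat_lit 6036709205) (nat_lit 2) (nat_lit 5) (nat_lit 4) (nat_lit 4) (nat_lit 2) (nat_lit 4) (nat_lit 354) (nat_lit 250) (nat_lit 176)))) (XT.nd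 (nat_lit 78) (nat_lit 0) (nat_lit 0) (XT.lf (nat_lit 0) (nat_lit 25017340576) (nat_lit 152) (nat_lit 91346785440) (nat_lit 0) (nat_lit 10988589171) (nat_lit 2) (nat_lit 5) (nat_lit 4) (nat_lit 4) (nat_lit 2) (nat_lit 4) (nat_lit 355) (nat_lit 250) (nat_lit 175)) (XT.nd (nat_lit 78) (nat_lit 0) (nat_lit 0) (XT.lf (nat_lit 0) (nat_lit 30225088024) (nat_lit 152) (nat_lit 87080549198) (nat_lit 0) (nat_lit 16178678984) (nat_lit 2) (nat_lit 5) (nat_lit 4) (nat_lit 4) (nat_lit 2) (nat_lit 4) (nat_lit 356) (nat_lit 250) (nat_lit 174)) (XT.lf (nat_lit 0) (nat_lit 35682561836) (nat_lit 152) (nat_lit 82621137488) (nat_lit 0) (nat_lit 21619336000) (nat_lit 2) (nat_lit 5) (nat_lit 4) (nat_lit 4) (nat_lit 2) (nat_lit 4) (nat_lit 357) (nat_lit 250) (nat_lit 173))))))))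
noncomputable def xc79 : XT := (XT.nd (nat_lit 1560) (nat_lit 0) (nat_lit 0) (XT.nd (nat_lit 780) (nat_lit 76) (nat_lit 0) (XT.nd (nat_lit 390) (nat_lit 0) (nat_lit 0) (XT.nd (nat_lit 156) (nat_lit 0) (nat_lit 0) (XT.nd (nat_lit 78) (nat_lit 0) (nat_lit 0) (XT.lf (nat_lit 0) (nat_lit 41402755995) (nat_lit 152) (nat_lit 77957932662) (nat_lit 0) (nat_lit 27323514164) (nat_lit 2) (nat_lit 5) (nat_lit 4) (nat_lit 4) (nat_lit 2) (nat_lit 4) (nat_lit 358) (nat_lit 250) (nat_lit 172)) (XT.lf (nat_lit 0) (nat_lit 47399290014) (nat_lit 152) (nat_lit 73079831852) (nat_lit 0) (nat_lit 33304794852) (nat_lit 2) (nat_lit 5) (nat_lit 4) (nat_lit 4) (nat_lit 2) (nat_lit 4) (nat_lit 359) (nat_lit 250) (nat_lit 171))) (XT.nd (nat_lit 78) (nat_lit 0) (nat_lit 0) (XT.lf (nat_lit 0) (nat_lit 53686441352) (nat_lit 152) (nat_lit 67975220532) (nat_lit 0) (nat_lit 39577419210) (nat_lit 2) (nat_lit 5) (nat_lit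 4) (nat_lit 4) (nat_lit 2) (nat_lit 4) (nat_lit 360) (nat_lit 250) (nat_lit 170)) (XT.nd (nat_lit 78) (nat_lit 0) (nat_lit 0) (XT.lf (nat_lit 0) (nat_lit 60279179419) (nat_lit 152) (nat_lit 62631944867) (nat_lit 0) (nat_lit 46156322058) (nat_lit 2) (nat_lit 5) (nat_lit 4) (nat_lit 4) (nat_lit 2) (nat_lit 4) (nat_lit 361) (nat_lit 250) (nat_lit 169)) (XT.lf (nat_lit 0) (nat_lit 67193201209) (nat_lit 152) (nat_lit 57037282770) (nat_lit 0) (nat_lit 53057167448) (nat_lit 2) (nat_lit 5) (nat_lit 4) (nat_lit 4) (nat_lit 2) (nat_lit 4) (nat_lit 362) (nat_lit 250) (nat_lit 168))))) (XT.nd (nat_lit 156) (nat_lit 0) (nat_lit 0) (XT.nd (nat_lit 78) (nat_lit 0) (nat_lit 0) (XT.lf (nat_lit 0) (nat_lit 74444968680) (nat_lit 152) (nat_lit 51177913618) (nat_lit 0) (nat_lit 60296385967) (nat_lit 2) (nat_lit 5) (nat_lit 4) (nat_lit 4) (nat_lit 2) (nat_lit 4) (nat_lit 363) (nat_lit 250) (nat_lit 167))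 (XT.lf (nat_lit 0) (nat_lit 82051747944) (nat_lit 152) (nat_lit 45039886531) (nat_lit 0) (nat_lit 67891213848) (nat_lit 2) (nat_lit 5) (nat_lit 4) (nat_lit 4) (nat_lit 2) (nat_lit 4) (nat_lit 364) (nat_lit 250) (nat_lit 166))) (XT.nd (nat_lit 78) (nat_lit 0) (nat_lit 0) (XT.lf (nat_lit 0) (nat_lit 90031650381) (nat_lit 152) (nat_lit 38608587161) (nat_lit 0) (nat_lit 75859734016) (nat_lit 2) (nat_lit 5) (nat_lit 4) (nat_lit 4) (nat_lit 2) (nat_lit 4) (nat_lit 365) (nat_lit 250) (nat_lit 165)) (XT.nd (nat_lit 78) (nat_lit 0) (nat_lit 0) (XT.lf (nat_lit 0) (nat_lit 98403675757) (nat_lit 152) (nat_lit 31868702888) (nat_lit 0) (nat_lit 84220919136) (nat_lit 2) (nat_lit 5) (nat_lit 4) (nat_lit 4) (nat_lit 2) (nat_lit 4) (nat_lit 366) (nat_lit 250) (nat_lit 164)) (XT.lf (nat_lit 0) (nat_lit 107187757468) (nat_lit 152) (nat_lit 24804186370) (nat_lit 0) (nat_lit 92994676793) (nat_lit 2) (nat_lit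 5) (nat_lit 4) (nat_lit 4) (nat_lit 2) (nat_lit 4) (nat_lit 367) (nat_lit 250) (nat_lit 163)))))) (XT.nd (nat_lit 390) (nat_lit 0) (nat_lit 0) (XT.nd (nat_lit 156) (nat_lit 76) (nat_lit 0) (XT.nd (nat_lit 78) (nat_lit 0) (nat_lit 0) (XT.lf (nat_lit 0) (nat_lit 116404809993) (nat_lit 152) (nat_lit 17398217330) (nat_lit 0) (nat_lit 102201896885) (nat_lit 2) (nat_lit 5) (nat_lit 4) (nat_lit 4) (nat_lit 2) (nat_lit 4) (nat_lit 368) (nat_lit 250) (nat_lit 162)) (XT.lf (nat_lit 0) (nat_lit 126076778695) (nat_lit 152) (nat_lit 9633162507) (nat_lit 0) (nat_lit 111864501367) (nat_lit 2) (nat_lit 5) (nat_lit 4) (nat_lit 4) (nat_lit 2) (nat_lit 4) (nat_lit 369) (nat_lit 250) (nat_lit 161))) (XT.nd (nat_lit 78) (nat_lit 76) (nat_lit 0) (XT.lf (nat_lit 0) (nat_lit 136226692072) (nat_lit 152) (nat_lit 1490533676) (nat_lit 0) (nat_lit 122005496437) (nat_lit 2) (nat_lit 5) (nat_lit 4) (nat_lit 4) (nat_lit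 2) (nat_lit 4) (nat_lit 370) (nat_lit 250) (nat_lit 160)) (XT.nd (nat_lit 78) (nat_lit 0) (nat_lit 0) (XT.lf (nat_lit 0) (nat_lit 7282130013) (nat_lit 76) (nat_lit 139710281028) (nat_lit 76) (nat_lit 125480591769) (nat_lit 1) (nat_lit 4) (nat_lit 2) (nat_lit 5) (nat_lit 2) (nat_lit 4) (nat_lit 371) (nat_lit 250) (nat_lit 159)) (XT.lf (nat_lit 0) (nat_lit 16535168664) (nat_lit 76) (nat_lit 141781205851) (nat_lit 76) (nat_lit 127543427426) (nat_lit 1) (nat_lit 4) (nat_lit 2) (nat_lit 5) (nat_lit 2) (nat_lit 4) (nat_lit 372) (nat_lit 250) (nat_lit 158))))) (XT.nd (nat_lit 156) (nat_lit 0) (nat_lit 0) (XT.nd (nat_lit 78) (nat_lit 0) (nat_lit 0) (XT.lf (nat_lit 0) (nat_lit 26241329546) (nat_lit 76) (nat_lit 143960173900) (nat_lit 76) (nat_lit 129714691506) (nat_lit 1) (nat_lit 4) (nat_lit 2) (nat_lit 5) (nat_lit 2) (nat_lit 4) (nat_lit 373) (nat_lit 250) (nat_lit 157)) (XT.lf (nat_lit 0)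 (nat_lit 36423722567) (nat_lit 76) (nat_lit 146252373193) (nat_lit 76) (nat_lit 131999553688) (nat_lit 1) (nat_lit 4) (nat_lit 2) (nat_lit 5) (nat_lit 2) (nat_lit 4) (nat_lit 374) (nat_lit 250) (nat_lit 156))) (XT.nd (nat_lit 78) (nat_lit 0) (nat_lit 0) (XT.lf (nat_lit 0) (nat_lit 47106591520) (nat_lit 76) (nat_lit 148663261349) (nat_lit 76) (nat_lit 134403454117) (nat_lit 1) (nat_lit 4) (nat_lit 2) (nat_lit 5) (nat_lit 2) (nat_lit 4) (nat_lit 375) (nat_lit 250) (nat_lit 155)) (XT.nd (nat_lit 78) (nat_lit 0) (nat_lit 0) (XT.lf (nat_lit 0) (nat_lit 58315371806) (nat_lit 76) (nat_lit 151198578577) (nat_lit 76) (nat_lit 136932116368) (nat_lit 1) (nat_lit 4) (nat_lit 2) (nat_lit 5) (nat_lit 2) (nat_lit 4) (nat_lit 376) (nat_lit 250) (nat_lit 154)) (XT.lf (nat_lit 0) (nat_lit 70076750997) (nat_lit 76) (nat_lit 153864361346) (nat_lit 76) (nat_lit 139591561064) (nat_lit 1) (nat_lit 4) (nat_lit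 2) (nat_lit 5) (nat_lit 2) (nat_lit 4) (nat_lit 377) (nat_lit 250) (nat_lit 153))))))) (XT.nd (nat_lit 780) (nat_lit 0) (nat_lit 0) (XT.nd (nat_lit 390) (nat_lit 0) (nat_lit 0) (XT.nd (nat_lit 156) (nat_lit 0) (nat_lit 0) (XT.nd (nat_lit 78) (nat_lit 0) (nat_lit 0) (XT.lf (nat_lit 0) (nat_lit 82418732378) (nat_lit 76) (nat_lit 156666956759) (nat_lit 76) (nat_lit 142388120217) (nat_lit 1) (nat_lit 4) (nat_lit 2) (nat_lit 5) (nat_lit 2) (nat_lit 4) (nat_lit 378) (nat_lit 250) (nat_lit 152)) (XT.lf (nat_lit 0) (nat_lit 95370701619) (nat_lit 76) (nat_lit 159613037662) (nat_lit 76) (nat_lit 145328452300) (nat_lit 1) (nat_lit 4) (nat_lit 2) (nat_lit 5) (nat_lit 2) (nat_lit 4) (nat_lit 379) (nat_lit 250) (nat_lit 151))) (XT.nd (nat_lit 78) (nat_lit 0) (nat_lit 0) (XT.lf (nat_lit 0) (nat_lit 108963496741) (nat_lit 76) (nat_lit 162709618533) (nat_lit 76) (nat_lit 148419558104) (nat_lit 1) (nat_lit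 4) (nat_lit 2) (nat_lit 5) (nat_lit 2) (nat_lit 4) (nat_lit 380) (nat_lit 250) (nat_lit 150)) (XT.nd (nat_lit 78) (nat_lit 0) (nat_lit 0) (XT.lf (nat_lit 0) (nat_lit 123229481543) (nat_lit 76) (nat_lit 165964072183) (nat_lit 76) (nat_lit 151668797406) (nat_lit 1) (nat_lit 4) (nat_lit 2) (nat_lit 5) (nat_lit 2) (nat_lit 4) (nat_lit 381) (nat_lit 250) (nat_lit 149)) (XT.lf (nat_lit 0) (nat_lit 138202622654) (nat_lit 76) (nat_lit 169384147312) (nat_lit 76) (nat_lit 155083906489) (nat_lit 1) (nat_lit 4) (nat_lit 2) (nat_lit 5) (nat_lit 2) (nat_lit 4) (nat_lit 382) (nat_lit 250) (nat_lit 148))))) (XT.nd (nat_lit 156) (nat_lit 0) (nat_lit 0) (XT.nd (nat_lit 78) (nat_lit 0) (nat_lit 0) (XT.lf (nat_lit 0) (nat_lit 153918570411) (nat_lit 76) (nat_lit 172977986956) (nat_lit 76) (nat_lit 158673016564) (nat_lit 1) (nat_lit 4) (nat_lit 2) (nat_lit 5) (nat_lit 2) (nat_lit 4) (nat_lit 383) (nat_lit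 250) (nat_lit 147)) (XT.lf (nat_lit 0) (nat_lit 170414743737) (nat_lit 76) (nat_lit 176754147876) (nat_lit 76) (nat_lit 162444673134) (nat_lit 1) (nat_lit 4) (nat_lit 2) (nat_lit 5) (nat_lit 2) (nat_lit 4) (nat_lit 384) (nat_lit 250) (nat_lit 146))) (XT.nd (nat_lit 78) (nat_lit 0) (nat_lit 0) (XT.lf (nat_lit 0) (nat_lit 187730419236) (nat_lit 76) (nat_lit 180721620931) (nat_lit 76) (nat_lit 166407856331) (nat_lit 1) (nat_lit 4) (nat_lit 2) (nat_lit 5) (nat_lit 2) (nat_lit 4) (nat_lit 385) (nat_lit 250) (nat_lit 145)) (XT.nd (nat_lit 78) (nat_lit 0) (nat_lit 0) (XT.lf (nat_lit 0) (nat_lit 205906824705) (nat_lit 76) (nat_lit 184889852486) (nat_lit 76) (nat_lit 170572002307) (nat_lit 1) (nat_lit 4) (nat_lit 2) (nat_lit 5) (nat_lit 2) (nat_lit 4) (nat_lit 386) (nat_lit 250) (nat_lit 144)) (XT.lf (nat_lit 0) (nat_lit 224987237302) (nat_lit 76) (nat_lit 189268766901) (nat_lit 76) (nat_lit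 174947025695) (nat_lit 1) (nat_lit 4) (nat_lit 2) (nat_lit 5) (nat_lit 2) (nat_lit 4) (nat_lit 387) (nat_lit 250) (nat_lit 143)))))) (XT.nd (nat_lit 32214) (nat_lit 0) (nat_lit 3952) (XT.nd (nat_lit 156) (nat_lit 0) (nat_lit 0) (XT.nd (nat_lit 78) (nat_lit 0) (nat_lit 0) (XT.lf (nat_lit 0) (nat_lit 245017086579) (nat_lit 76) (nat_lit 193868790163) (nat_lit 76) (nat_lit 179543343217) (nat_lit 1) (nat_lit 4) (nat_lit 2) (nat_lit 5) (nat_lit 2) (nat_lit 4) (nat_lit 388) (nat_lit 250) (nat_lit 142)) (XT.lf (nat_lit 0) (nat_lit 266044062654) (nat_lit 76) (nat_lit 198700874709) (nat_lit 76) (nat_lit 184371898487) (nat_lit 1) (nat_lit 4) (nat_lit 2) (nat_lit 5) (nat_lit 2) (nat_lit 4) (nat_lit 389) (nat_lit 250) (nat_lit 141))) (XT.nd (nat_lit 31902) (nat_lit 0) (nat_lit 5320) (XT.lf (nat_lit 0) (nat_lit 288118229756) (nat_lit 76) (nat_lit 203776525502) (nat_lit 76) (nat_lit 189444188063) (nat_lit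 1) (nat_lit 4) (nat_lit 2) (nat_lit 5) (nat_lit 2) (nat_lit 4) (nat_lit 390) (nat_lit 250) (nat_lit 140)) (XT.nd (nat_lit 78) (nat_lit 380) (nat_lit 0) (XT.lf (nat_lit 0) (nat_lit 1118129026) (nat_lit 532) (nat_lit 1499059387) (nat_lit 0) (nat_lit 1118129026) (nat_lit 76) (nat_lit 5) (nat_lit 83) (nat_lit 4) (nat_lit 76) (nat_lit 4) (nat_lit 278) (nat_lit 251) (nat_lit 251)) (XT.lf (nat_lit 0) (nat_lit 2163793571) (nat_lit 380) (nat_lit 3428022558) (nat_lit 380) (nat_lit 2002515191) (nat_lit 71) (nat_lit 4) (nat_lit 76) (nat_lit 5) (nat_lit 76) (nat_lit 4) (nat_lit 279) (nat_lit 251) (nat_lit 250))))) (XT.nd (nat_lit 234) (nat_lit 684) (nat_lit 0) (XT.nd (nat_lit 78) (nat_lit 608) (nat_lit 0) (XT.lf (nat_lit 0) (nat_lit 1244285691) (nat_lit 456) (nat_lit 232347763) (nat_lit 76) (nat_lit 6251984207) (nat_lit 70) (nat_lit 5) (nat_lit 76) (nat_lit 5) (nat_lit 71) (nat_lit 4) (nat_lit 280)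 (nat_lit 251) (nat_lit 249)) (XT.nd (nat_lit 78) (nat_lit 304) (nat_lit 0) (XT.lf (nat_lit 0) (nat_lit 4531232384) (nat_lit 380) (nat_lit 2690632953) (nat_lit 0) (nat_lit 649222257) (nat_lit 66) (nat_lit 5) (nat_lit 71) (nat_lit 4) (nat_lit 66) (nat_lit 4) (nat_lit 281) (nat_lit 251) (nat_lit 248)) (XT.lf (nat_lit 0) (nat_lit 2742979217) (nat_lit 304) (nat_lit 5168198128) (nat_lit 304) (nat_lit 113419563) (nat_lit 62) (nat_lit 4) (nat_lit 66) (nat_lit 5) (nat_lit 66) (nat_lit 4) (nat_lit 282) (nat_lit 251) (nat_lit 247)))) (XT.nd (nat_lit 78) (nat_lit 380) (nat_lit 0) (XT.lf (nat_lit 0) (nat_lit 136461260) (nat_lit 228) (nat_lit 2940691006) (nat_lit 304) (nat_lit 5111008698) (nat_lit 58) (nat_lit 5) (nat_lit 61) (nat_lit 5) (nat_lit 62) (nat_lit 4) (nat_lit 283) (nat_lit 251) (nat_lit 246)) (XT.nd (nat_lit 78) (nat_lit 380) (nat_lit 0) (XT.lf (nat_lit 0) (nat_lit 5835480046) (nat_lit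 228) (nat_lit 540576772) (nat_lit 304) (nat_lit 1986423637) (nat_lit 58) (nat_lit 5) (nat_lit 61) (nat_lit 5) (nat_lit 62) (nat_lit 4) (nat_lit 284) (nat_lit 251) (nat_lit 245)) (XT.lf (nat_lit 0) (nat_lit 1201537099) (nat_lit 380) (nat_lit 5392580282) (nat_lit 76) (nat_lit 1953232341) (nat_lit 53) (nat_lit 5) (nat_lit 58) (nat_lit 5) (nat_lit 54) (nat_lit 4) (nat_lit 285) (nat_lit 251) (nat_lit 244))))))))
noncomputable def xc80 : XT := (XT.nd (nat_lit 1560) (nat_lit 988) (nat_lit 0) (XT.nd (nat_lit 780) (nat_lit 836) (nat_lit 0) (XT.nd (nat_lit 390) (nat_lit 760) (nat_lit 0) (XT.nd (nat_lit 156) (nat_lit 532) (nat_lit 0) (XT.nd (nat_lit 78) (nat_lit 0) (nat_lit 0) (XT.lf (nat_lit 0) (nat_lit 264017787) (nat_lit 228) (nat_lit 4145076789) (nat_lit 304) (nat_lit 4334651886) (nat_lit 50) (nat_lit 5) (nat_lit 53) (nat_lit 5) (nat_lit 54) (nat_lit 4) (nat_lit 286) (nat_lit 251) (nat_lit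 243)) (XT.lf (nat_lit 0) (nat_lit 6222086045) (nat_lit 228) (nat_lit 1520279811) (nat_lit 304) (nat_lit 1209578011) (nat_lit 50) (nat_lit 5) (nat_lit 53) (nat_lit 5) (nat_lit 54) (nat_lit 4) (nat_lit 287) (nat_lit 251) (nat_lit 242))) (XT.nd (nat_lit 78) (nat_lit 228) (nat_lit 0) (XT.lf (nat_lit 0) (nat_lit 1953402391) (nat_lit 304) (nat_lit 5979552329) (nat_lit 76) (nat_lit 1238805644) (nat_lit 46) (nat_lit 5) (nat_lit 50) (nat_lit 5) (nat_lit 47) (nat_lit 4) (nat_lit 288) (nat_lit 251) (nat_lit 241)) (XT.nd (nat_lit 78) (nat_lit 228) (nat_lit 0) (XT.lf (nat_lit 0) (nat_lit 5186219475) (nat_lit 304) (nat_lit 108254299) (nat_lit 76) (nat_lit 4109699491) (nat_lit 46) (nat_lit 5) (nat_lit 50) (nat_lit 5) (nat_lit 47) (nat_lit 4) (nat_lit 289) (nat_lit 251) (nat_lit 240)) (XT.lf (nat_lit 0) (nat_lit 6091931127) (nat_lit 228) (nat_lit 2469977867) (nat_lit 304) (nat_lit 1087439959) (nat_lit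 43) (nat_lit 5) (nat_lit 46) (nat_lit 5) (nat_lit 47) (nat_lit 4) (nat_lit 290) (nat_lit 251) (nat_lit 239))))) (XT.nd (nat_lit 156) (nat_lit 456) (nat_lit 0) (XT.nd (nat_lit 78) (nat_lit 0) (nat_lit 0) (XT.lf (nat_lit 0) (nat_lit 2066774840) (nat_lit 304) (nat_lit 7330421795) (nat_lit 76) (nat_lit 511175665) (nat_lit 39) (nat_lit 5) (nat_lit 43) (nat_lit 5) (nat_lit 40) (nat_lit 4) (nat_lit 291) (nat_lit 251) (nat_lit 238)) (XT.lf (nat_lit 0) (nat_lit 5333113100) (nat_lit 304) (nat_lit 1256372504) (nat_lit 76) (nat_lit 3590597956) (nat_lit 39) (nat_lit 5) (nat_lit 43) (nat_lit 5) (nat_lit 40) (nat_lit 4) (nat_lit 292) (nat_lit 251) (nat_lit 237))) (XT.nd (nat_lit 78) (nat_lit 304) (nat_lit 0) (XT.lf (nat_lit 0) (nat_lit 5130024634) (nat_lit 152) (nat_lit 3607344511) (nat_lit 228) (nat_lit 1729448795) (nat_lit 37) (nat_lit 5) (nat_lit 39) (nat_lit 5) (nat_lit 40) (nat_lit 4) (nat_lit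 293) (nat_lit 251) (nat_lit 236)) (XT.nd (nat_lit 78) (nat_lit 0) (nat_lit 0) (XT.lf (nat_lit 0) (nat_lit 962225435) (nat_lit 228) (nat_lit 464256837) (nat_lit 304) (nat_lit 9343756051) (nat_lit 33) (nat_lit 5) (nat_lit 36) (nat_lit 5) (nat_lit 37) (nat_lit 5) (nat_lit 294) (nat_lit 251) (nat_lit 235)) (XT.lf (nat_lit 0) (nat_lit 4715297215) (nat_lit 304) (nat_lit 3555509774) (nat_lit 76) (nat_lit 2815089530) (nat_lit 33) (nat_lit 5) (nat_lit 37) (nat_lit 5) (nat_lit 34) (nat_lit 4) (nat_lit 295) (nat_lit 251) (nat_lit 234)))))) (XT.nd (nat_lit 390) (nat_lit 304) (nat_lit 0) (XT.nd (nat_lit 156) (nat_lit 380) (nat_lit 0) (XT.nd (nat_lit 78) (nat_lit 0) (nat_lit 0) (XT.lf (nat_lit 0) (nat_lit 2945260478) (nat_lit 152) (nat_lit 5178856133) (nat_lit 228) (nat_lit 3295580714) (nat_lit 31) (nat_lit 5) (nat_lit 33) (nat_lit 5) (nat_lit 34) (nat_lit 4) (nat_lit 296) (nat_lit 251) (nat_lit 233))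 (XT.lf (nat_lit 0) (nat_lit 9745930245) (nat_lit 152) (nat_lit 1921978591) (nat_lit 228) (nat_lit 104184063) (nat_lit 31) (nat_lit 5) (nat_lit 33) (nat_lit 5) (nat_lit 34) (nat_lit 4) (nat_lit 297) (nat_lit 251) (nat_lit 232))) (XT.nd (nat_lit 78) (nat_lit 152) (nat_lit 0) (XT.lf (nat_lit 0) (nat_lit 3148104131) (nat_lit 228) (nat_lit 7465707446) (nat_lit 76) (nat_lit 1525619266) (nat_lit 28) (nat_lit 5) (nat_lit 31) (nat_lit 5) (nat_lit 29) (nat_lit 4) (nat_lit 298) (nat_lit 251) (nat_lit 231)) (XT.nd (nat_lit 78) (nat_lit 152) (nat_lit 0) (XT.lf (nat_lit 0) (nat_lit 6534533653) (nat_lit 228) (nat_lit 924437664) (nat_lit 76) (nat_lit 5067440998) (nat_lit 28) (nat_lit 5) (nat_lit 31) (nat_lit 5) (nat_lit 29) (nat_lit 4) (nat_lit 299) (nat_lit 251) (nat_lit 230)) (XT.lf (nat_lit 0) (nat_lit 5996598570) (nat_lit 152) (nat_lit 4100303856) (nat_lit 228) (nat_lit 2835617585) (nat_lit 26)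 (nat_lit 5) (nat_lit 28) (nat_lit 5) (nat_lit 29) (nat_lit 4) (nat_lit 300) (nat_lit 251) (nat_lit 229))))) (XT.nd (nat_lit 156) (nat_lit 76) (nat_lit 0) (XT.nd (nat_lit 78) (nat_lit 152) (nat_lit 0) (XT.lf (nat_lit 0) (nat_lit 392560899) (nat_lit 228) (nat_lit 210033952) (nat_lit 76) (nat_lit 12759591834) (nat_lit 25) (nat_lit 5) (nat_lit 28) (nat_lit 5) (nat_lit 26) (nat_lit 5) (nat_lit 301) (nat_lit 251) (nat_lit 228)) (XT.lf (nat_lit 0) (nat_lit 3761759345) (nat_lit 228) (nat_lit 6966499088) (nat_lit 76) (nat_lit 3079101990) (nat_lit 23) (nat_lit 5) (nat_lit 26) (nat_lit 5) (nat_lit 24) (nat_lit 4) (nat_lit 302) (nat_lit 251) (nat_lit 227))) (XT.nd (nat_lit 78) (nat_lit 76) (nat_lit 0) (XT.lf (nat_lit 0) (nat_lit 7231620982) (nat_lit 228) (nat_lit 167406788) (nat_lit 76) (nat_lit 6879243798) (nat_lit 23) (nat_lit 5) (nat_lit 26) (nat_lit 5) (nat_lit 24) (nat_lit 4) (nat_lit 303)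 (nat_lit 251) (nat_lit 226)) (XT.nd (nat_lit 78) (nat_lit 0) (nat_lit 0) (XT.lf (nat_lit 0) (nat_lit 7069874386) (nat_lit 76) (nat_lit 3838062177) (nat_lit 152) (nat_lit 3863228314) (nat_lit 22) (nat_lit 5) (nat_lit 23) (nat_lit 5) (nat_lit 24) (nat_lit 4) (nat_lit 304) (nat_lit 251) (nat_lit 225)) (XT.lf (nat_lit 0) (nat_lit 14548850987) (nat_lit 76) (nat_lit 146352102) (nat_lit 152) (nat_lit 597223623) (nat_lit 22) (nat_lit 5) (nat_lit 23) (nat_lit 5) (nat_lit 24) (nat_lit 4) (nat_lit 305) (nat_lit 251) (nat_lit 224))))))) (XT.nd (nat_lit 780) (nat_lit 304) (nat_lit 0) (XT.nd (nat_lit 390) (nat_lit 228) (nat_lit 0) (XT.nd (nat_lit 156) (nat_lit 228) (nat_lit 0) (XT.nd (nat_lit 78) (nat_lit 0) (nat_lit 0) (XT.lf (nat_lit 0) (nat_lit 2831119757) (nat_lit 228) (nat_lit 9289221179) (nat_lit 76) (nat_lit 3712788853) (nat_lit 19) (nat_lit 5) (nat_lit 22) (nat_lit 5) (nat_lit 20) (nat_lit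 4) (nat_lit 306) (nat_lit 251) (nat_lit 223)) (XT.lf (nat_lit 0) (nat_lit 6353506904) (nat_lit 228) (nat_lit 2314451944) (nat_lit 76) (nat_lit 7735354425) (nat_lit 19) (nat_lit 5) (nat_lit 22) (nat_lit 5) (nat_lit 20) (nat_lit 4) (nat_lit 307) (nat_lit 251) (nat_lit 222))) (XT.nd (nat_lit 78) (nat_lit 152) (nat_lit 0) (XT.lf (nat_lit 0) (nat_lit 5053268282) (nat_lit 76) (nat_lit 5008592003) (nat_lit 152) (nat_lit 6939719628) (nat_lit 18) (nat_lit 5) (nat_lit 19) (nat_lit 5) (nat_lit 20) (nat_lit 4) (nat_lit 308) (nat_lit 251) (nat_lit 221)) (XT.nd (nat_lit 78) (nat_lit 152) (nat_lit 0) (XT.lf (nat_lit 0) (nat_lit 12754098995) (nat_lit 76) (nat_lit 1173162663) (nat_lit 152) (nat_lit 3703979878) (nat_lit 18) (nat_lit 5) (nat_lit 19) (nat_lit 5) (nat_lit 20) (nat_lit 4) (nat_lit 309) (nat_lit 251) (nat_lit 220)) (XT.lf (nat_lit 0) (nat_lit 2469376012) (nat_lit 152) (nat_lit 15534607240)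 (nat_lit 152) (nat_lit 287560640) (nat_lit 16) (nat_lit 4) (nat_lit 18) (nat_lit 5) (nat_lit 18) (nat_lit 4) (nat_lit 310) (nat_lit 251) (nat_lit 219))))) (XT.nd (nat_lit 156) (nat_lit 152) (nat_lit 0) (XT.nd (nat_lit 78) (nat_lit 0) (nat_lit 0) (XT.lf (nat_lit 0) (nat_lit 3232456576) (nat_lit 228) (nat_lit 8813355538) (nat_lit 76) (nat_lit 6934608586) (nat_lit 15) (nat_lit 5) (nat_lit 18) (nat_lit 5) (nat_lit 16) (nat_lit 4) (nat_lit 311) (nat_lit 251) (nat_lit 218)) (XT.lf (nat_lit 0) (nat_lit 6857100617) (nat_lit 228) (nat_lit 1566497083) (nat_lit 76) (nat_lit 11283045418) (nat_lit 15) (nat_lit 5) (nat_lit 18) (nat_lit 5) (nat_lit 16) (nat_lit 4) (nat_lit 312) (nat_lit 251) (nat_lit 217))) (XT.nd (nat_lit 78) (nat_lit 76) (nat_lit 0) (XT.lf (nat_lit 0) (nat_lit 6136559774) (nat_lit 76) (nat_lit 4563454446) (nat_lit 152) (nat_lit 9767360062) (nat_lit 14) (nat_lit 5) (nat_lit 15) (nat_lit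 5) (nat_lit 16) (nat_lit 4) (nat_lit 313) (nat_lit 251) (nat_lit 216)) (XT.nd (nat_lit 78) (nat_lit 76) (nat_lit 0) (XT.lf (nat_lit 0) (nat_lit 14178256035) (nat_lit 76) (nat_lit 525798650) (nat_lit 152) (nat_lit 6563685395) (nat_lit 14) (nat_lit 5) (nat_lit 15) (nat_lit 5) (nat_lit 16) (nat_lit 4) (nat_lit 314) (nat_lit 251) (nat_lit 215)) (XT.lf (nat_lit 0) (nat_lit 369523438) (nat_lit 76) (nat_lit 18547072515) (nat_lit 76) (nat_lit 3191158169) (nat_lit 13) (nat_lit 4) (nat_lit 14) (nat_lit 5) (nat_lit 14) (nat_lit 4) (nat_lit 315) (nat_lit 251) (nat_lit 214)))))) (XT.nd (nat_lit 390) (nat_lit 152) (nat_lit 0) (XT.nd (nat_lit 156) (nat_lit 76) (nat_lit 0) (XT.nd (nat_lit 78) (nat_lit 0) (nat_lit 0) (XT.lf (nat_lit 0) (nat_lit 414192445) (nat_lit 152) (nat_lit 14650723681) (nat_lit 76) (nat_lit 7920850283) (nat_lit 12) (nat_lit 5) (nat_lit 14) (nat_lit 5) (nat_lit 13) (nat_lit 4) (nat_lit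 316) (nat_lit 251) (nat_lit 213)) (XT.lf (nat_lit 0) (nat_lit 4039945145) (nat_lit 152) (nat_lit 7354981931) (nat_lit 76) (nat_lit 12512806392) (nat_lit 12) (nat_lit 5) (nat_lit 14) (nat_lit 5) (nat_lit 13) (nat_lit 4) (nat_lit 317) (nat_lit 251) (nat_lit 212))) (XT.nd (nat_lit 78) (nat_lit 0) (nat_lit 0) (XT.lf (nat_lit 0) (nat_lit 223336461) (nat_lit 76) (nat_lit 7577020111) (nat_lit 152) (nat_lit 17077810685) (nat_lit 11) (nat_lit 5) (nat_lit 12) (nat_lit 5) (nat_lit 13) (nat_lit 4) (nat_lit 318) (nat_lit 251) (nat_lit 211)) (XT.nd (nat_lit 78) (nat_lit 0) (nat_lit 0) (XT.lf (nat_lit 0) (nat_lit 8348001802) (nat_lit 76) (nat_lit 3476244963) (nat_lit 152) (nat_lit 14069138235) (nat_lit 11) (nat_lit 5) (nat_lit 12) (nat_lit 5) (nat_lit 13) (nat_lit 4) (nat_lit 319) (nat_lit 251) (nat_lit 210)) (XT.lf (nat_lit 0) (nat_lit 16014942412) (nat_lit 152) (nat_lit 10178940445) (nat_lit 0) (nat_lit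 767233725) (nat_lit 11) (nat_lit 5) (nat_lit 13) (nat_lit 4) (nat_lit 11) (nat_lit 4) (nat_lit 320) (nat_lit 251) (nat_lit 209))))) (XT.nd (nat_lit 156) (nat_lit 76) (nat_lit 0) (XT.nd (nat_lit 78) (nat_lit 76) (nat_lit 0) (XT.lf (nat_lit 0) (nat_lit 20427073841) (nat_lit 152) (nat_lit 2582615869) (nat_lit 0) (nat_lit 5071981887) (nat_lit 11) (nat_lit 5) (nat_lit 13) (nat_lit 4) (nat_lit 11) (nat_lit 4) (nat_lit 321) (nat_lit 251) (nat_lit 208)) (XT.lf (nat_lit 0) (nat_lit 5491720288) (nat_lit 76) (nat_lit 19610893058) (nat_lit 76) (nat_lit 4153531325) (nat_lit 10) (nat_lit 4) (nat_lit 11) (nat_lit 5) (nat_lit 11) (nat_lit 4) (nat_lit 322) (nat_lit 251) (nat_lit 207))) (XT.nd (nat_lit 78) (nat_lit 76) (nat_lit 0) (XT.lf (nat_lit 0) (nat_lit 13983113045) (nat_lit 76) (nat_lit 16030468123) (nat_lit 76) (nat_lit 475706602) (nat_lit 10) (nat_lit 4) (nat_lit 11) (nat_lit 5) (nat_lit 11) (nat_lit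 4) (nat_lit 323) (nat_lit 251) (nat_lit 206)) (XT.nd (nat_lit 78) (nat_lit 0) (nat_lit 0) (XT.lf (nat_lit 0) (nat_lit 3236869758) (nat_lit 152) (nat_lit 9011940221) (nat_lit 76) (nat_lit 19534699345) (nat_lit 9) (nat_lit 5) (nat_lit 11) (nat_lit 5) (nat_lit 10) (nat_lit 4) (nat_lit 324) (nat_lit 251) (nat_lit 205)) (XT.lf (nat_lit 0) (nat_lit 7080263166) (nat_lit 152) (nat_lit 1221328214) (nat_lit 76) (nat_lit 24842426894) (nat_lit 9) (nat_lit 5) (nat_lit 11) (nat_lit 5) (nat_lit 10) (nat_lit 4) (nat_lit 325) (nat_lit 251) (nat_lit 204))))))))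
noncomputable def xc81 : XT := (XT.nd (nat_lit 1560) (nat_lit 152) (nat_lit 0) (XT.nd (nat_lit 780) (nat_lit 152) (nat_lit 0) (XT.nd (nat_lit 390) (nat_lit 76) (nat_lit 0) (XT.nd (nat_lit 156) (nat_lit 76) (nat_lit 0) (XT.nd (nat_lit 78) (nat_lit 0) (nat_lit 0) (XT.lf (nat_lit 0) (nat_lit 7119506143) (nat_lit 76) (nat_lit 4070499441) (nat_lit 152) (nat_lit 23378861929) (nat_lit 8) (nat_lit 5) (nat_lit 9) (nat_lit 5) (nat_lit 10) (nat_lit 4) (nat_lit 326) (nat_lit 251) (nat_lit 203)) (XT.lf (nat_lit 0) (nat_lit 15495355024) (nat_lit 152) (nat_lit 20217752848) (nat_lit 0) (nat_lit 352368020) (nat_lit 8) (nat_lit 5) (nat_lit 10) (nat_lit 4) (nat_lit 8) (nat_lit 4) (nat_lit 327) (nat_lit 251) (nat_lit 202))) (XT.nd (nat_lit 78) (nat_lit 76) (nat_lit 0) (XT.lf (nat_lit 0) (nat_lit 20047736460) (nat_lit 152) (nat_lit 12755543363) (nat_lit 0) (nat_lit 4832068234) (nat_lit 8) (nat_lit 5) (nat_lit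 10) (nat_lit 4) (nat_lit 8) (nat_lit 4) (nat_lit 328) (nat_lit 251) (nat_lit 201)) (XT.nd (nat_lit 78) (nat_lit 76) (nat_lit 0) (XT.lf (nat_lit 0) (nat_lit 24794436993) (nat_lit 152) (nat_lit 4981413846) (nat_lit 0) (nat_lit 9509548556) (nat_lit 8) (nat_lit 5) (nat_lit 10) (nat_lit 4) (nat_lit 8) (nat_lit 4) (nat_lit 329) (nat_lit 251) (nat_lit 200)) (XT.lf (nat_lit 0) (nat_lit 3226410830) (nat_lit 76) (nat_lit 26570720776) (nat_lit 76) (nat_lit 11219908327) (nat_lit 7) (nat_lit 4) (nat_lit 8) (nat_lit 5) (nat_lit 8) (nat_lit 4) (nat_lit 330) (nat_lit 251) (nat_lit 199))))) (XT.nd (nat_lit 156) (nat_lit 76) (nat_lit 0) (XT.nd (nat_lit 78) (nat_lit 0) (nat_lit 0) (XT.lf (nat_lit 0) (nat_lit 11960233515) (nat_lit 76) (nat_lit 23142990844) (nat_lit 76) (nat_lit 7729393622) (nat_lit 7) (nat_lit 4) (nat_lit 8) (nat_lit 5) (nat_lit 8) (nat_lit 4) (nat_lit 331) (nat_lit 251) (nat_lit 198))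 (XT.lf (nat_lit 0) (nat_lit 21076140985) (nat_lit 76) (nat_lit 19568862435) (nat_lit 76) (nat_lit 4095470192) (nat_lit 7) (nat_lit 4) (nat_lit 8) (nat_lit 5) (nat_lit 8) (nat_lit 4) (nat_lit 332) (nat_lit 251) (nat_lit 197))) (XT.nd (nat_lit 78) (nat_lit 76) (nat_lit 0) (XT.lf (nat_lit 0) (nat_lit 30595837782) (nat_lit 76) (nat_lit 15839825721) (nat_lit 76) (nat_lit 309485839) (nat_lit 7) (nat_lit 4) (nat_lit 8) (nat_lit 5) (nat_lit 8) (nat_lit 4) (nat_lit 333) (nat_lit 251) (nat_lit 196)) (XT.nd (nat_lit 78) (nat_lit 0) (nat_lit 0) (XT.lf (nat_lit 0) (nat_lit 3521148611) (nat_lit 152) (nat_lit 8366221076) (nat_lit 76) (nat_lit 36961208884) (nat_lit 6) (nat_lit 5) (nat_lit 8) (nat_lit 5) (nat_lit 7) (nat_lit 4) (nat_lit 334) (nat_lit 251) (nat_lit 195)) (XT.lf (nat_lit 0) (nat_lit 7506894316) (nat_lit 152) (nat_lit 247095567) (nat_lit 76) (nat_lit 43304251301) (nat_lit 6) (nat_lit 5)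 (nat_lit 8) (nat_lit 5) (nat_lit 7) (nat_lit 4) (nat_lit 335) (nat_lit 251) (nat_lit 194)))))) (XT.nd (nat_lit 390) (nat_lit 76) (nat_lit 0) (XT.nd (nat_lit 156) (nat_lit 0) (nat_lit 0) (XT.nd (nat_lit 78) (nat_lit 0) (nat_lit 0) (XT.lf (nat_lit 0) (nat_lit 8504422797) (nat_lit 76) (nat_lit 3295501703) (nat_lit 152) (nat_lit 41573076489) (nat_lit 5) (nat_lit 5) (nat_lit 6) (nat_lit 5) (nat_lit 7) (nat_lit 4) (nat_lit 336) (nat_lit 251) (nat_lit 193)) (XT.lf (nat_lit 0) (nat_lit 16308870453) (nat_lit 152) (nat_lit 38168825440) (nat_lit 0) (nat_lit 1325752935) (nat_lit 5) (nat_lit 5) (nat_lit 7) (nat_lit 4) (nat_lit 5) (nat_lit 4) (nat_lit 337) (nat_lit 251) (nat_lit 192))) (XT.nd (nat_lit 78) (nat_lit 0) (nat_lit 0) (XT.lf (nat_lit 0) (nat_lit 21073834055) (nat_lit 152) (nat_lit 31231847779) (nat_lit 0) (nat_lit 6048221332) (nat_lit 5) (nat_lit 5) (nat_lit 7) (nat_lit 4) (nat_lit 5) (nat_lit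 4) (nat_lit 338) (nat_lit 251) (nat_lit 191)) (XT.nd (nat_lit 78) (nat_lit 0) (nat_lit 0) (XT.lf (nat_lit 0) (nat_lit 26054708441) (nat_lit 152) (nat_lit 23989676580) (nat_lit 0) (nat_lit 10988624094) (nat_lit 5) (nat_lit 5) (nat_lit 7) (nat_lit 4) (nat_lit 5) (nat_lit 4) (nat_lit 339) (nat_lit 251) (nat_lit 190)) (XT.lf (nat_lit 0) (nat_lit 31263352836) (nat_lit 152) (nat_lit 16425068577) (nat_lit 0) (nat_lit 16158724085) (nat_lit 5) (nat_lit 5) (nat_lit 7) (nat_lit 4) (nat_lit 5) (nat_lit 4) (nat_lit 340) (nat_lit 251) (nat_lit 189))))) (XT.nd (nat_lit 156) (nat_lit 76) (nat_lit 0) (XT.nd (nat_lit 78) (nat_lit 0) (nat_lit 0) (XT.lf (nat_lit 0) (nat_lit 36712168775) (nat_lit 152) (nat_lit 8520012798) (nat_lit 0) (nat_lit 21570831068) (nat_lit 5) (nat_lit 5) (nat_lit 7) (nat_lit 4) (nat_lit 5) (nat_lit 4) (nat_lit 341) (nat_lit 251) (nat_lit 188)) (XT.lf (nat_lit 0) (nat_lit 42414129628)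 (nat_lit 152) (nat_lit 255687684) (nat_lit 0) (nat_lit 27237831010) (nat_lit 5) (nat_lit 5) (nat_lit 7) (nat_lit 4) (nat_lit 5) (nat_lit 4) (nat_lit 342) (nat_lit 251) (nat_lit 187))) (XT.nd (nat_lit 78) (nat_lit 0) (nat_lit 0) (XT.lf (nat_lit 0) (nat_lit 8664915129) (nat_lit 76) (nat_lit 39853179973) (nat_lit 76) (nat_lit 24643585249) (nat_lit 4) (nat_lit 4) (nat_lit 5) (nat_lit 5) (nat_lit 5) (nat_lit 4) (nat_lit 343) (nat_lit 251) (nat_lit 186)) (XT.nd (nat_lit 78) (nat_lit 0) (nat_lit 0) (XT.lf (nat_lit 0) (nat_lit 18006707768) (nat_lit 76) (nat_lit 36906852921) (nat_lit 76) (nat_lit 21665547621) (nat_lit 4) (nat_lit 4) (nat_lit 5) (nat_lit 5) (nat_lit 5) (nat_lit 4) (nat_lit 344) (nat_lit 251) (nat_lit 185)) (XT.lf (nat_lit 0) (nat_lit 27783478408) (nat_lit 76) (nat_lit 33828151287) (nat_lit 76) (nat_lit 18556645438) (nat_lit 4) (nat_lit 4) (nat_lit 5) (nat_lit 5) (nat_lit 5) (nat_lit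 4) (nat_lit 345) (nat_lit 251) (nat_lit 184))))))) (XT.nd (nat_lit 780) (nat_lit 0) (nat_lit 0) (XT.nd (nat_lit 390) (nat_lit 152) (nat_lit 0) (XT.nd (nat_lit 156) (nat_lit 0) (nat_lit 0) (XT.nd (nat_lit 78) (nat_lit 0) (nat_lit 0) (XT.lf (nat_lit 0) (nat_lit 38018505072) (nat_lit 76) (nat_lit 30609744829) (nat_lit 76) (nat_lit 15309476552) (nat_lit 4) (nat_lit 4) (nat_lit 5) (nat_lit 5) (nat_lit 5) (nat_lit 4) (nat_lit 346) (nat_lit 251) (nat_lit 183)) (XT.lf (nat_lit 0) (nat_lit 48736156874) (nat_lit 76) (nat_lit 27243970675) (nat_lit 76) (nat_lit 11916309610) (nat_lit 4) (nat_lit 4) (nat_lit 5) (nat_lit 5) (nat_lit 5) (nat_lit 4) (nat_lit 347) (nat_lit 251) (nat_lit 182))) (XT.nd (nat_lit 78) (nat_lit 0) (nat_lit 0) (XT.lf (nat_lit 0) (nat_lit 59961952030) (nat_lit 76) (nat_lit 23722815077) (nat_lit 76) (nat_lit 8369065642) (nat_lit 4) (nat_lit 4) (nat_lit 5) (nat_lit 5) (nat_lit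 5) (nat_lit 4) (nat_lit 348) (nat_lit 251) (nat_lit 181)) (XT.nd (nat_lit 78) (nat_lit 0) (nat_lit 0) (XT.lf (nat_lit 0) (nat_lit 71722618626) (nat_lit 76) (nat_lit 20037894330) (nat_lit 76) (nat_lit 4659298828) (nat_lit 4) (nat_lit 4) (nat_lit 5) (nat_lit 5) (nat_lit 5) (nat_lit 4) (nat_lit 349) (nat_lit 251) (nat_lit 180)) (XT.lf (nat_lit 0) (nat_lit 84046158247) (nat_lit 76) (nat_lit 16180434814) (nat_lit 76) (nat_lit 778176392) (nat_lit 4) (nat_lit 4) (nat_lit 5) (nat_lit 5) (nat_lit 5) (nat_lit 4) (nat_lit 350) (nat_lit 251) (nat_lit 179))))) (XT.nd (nat_lit 156) (nat_lit 76) (nat_lit 0) (XT.nd (nat_lit 78) (nat_lit 0) (nat_lit 0) (XT.lf (nat_lit 0) (nat_lit 3178448570) (nat_lit 152) (nat_lit 8908974966) (nat_lit 76) (nat_lit 93729635520) (nat_lit 3) (nat_lit 5) (nat_lit 5) (nat_lit 5) (nat_lit 4) (nat_lit 4) (nat_lit 351) (nat_lit 251) (nat_lit 178)) (XT.lf (nat_lit 0) (nat_lit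 7294344442) (nat_lit 152) (nat_lit 492851396) (nat_lit 76) (nat_lit 103082755952) (nat_lit 3) (nat_lit 5) (nat_lit 5) (nat_lit 5) (nat_lit 4) (nat_lit 4) (nat_lit 352) (nat_lit 251) (nat_lit 177))) (XT.nd (nat_lit 78) (nat_lit 0) (nat_lit 0) (XT.lf (nat_lit 0) (nat_lit 8597108571) (nat_lit 76) (nat_lit 3141333864) (nat_lit 152) (nat_lit 104430932141) (nat_lit 2) (nat_lit 5) (nat_lit 3) (nat_lit 5) (nat_lit 4) (nat_lit 4) (nat_lit 353) (nat_lit 251) (nat_lit 176)) (XT.nd (nat_lit 78) (nat_lit 0) (nat_lit 0) (XT.lf (nat_lit 0) (nat_lit 16428591722) (nat_lit 152) (nat_lit 103624127740) (nat_lit 0) (nat_lit 1679862230) (nat_lit 2) (nat_lit 5) (nat_lit 4) (nat_lit 4) (nat_lit 2) (nat_lit 4) (nat_lit 354) (nat_lit 251) (nat_lit 175)) (XT.lf (nat_lit 0) (nat_lit 21393551689) (nat_lit 152) (nat_lit 99551222998) (nat_lit 0) (nat_lit 6627164561) (nat_lit 2) (nat_lit 5) (nat_lit 4) (nat_lit 4)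 (nat_lit 2) (nat_lit 4) (nat_lit 355) (nat_lit 251) (nat_lit 174)))))) (XT.nd (nat_lit 390) (nat_lit 0) (nat_lit 0) (XT.nd (nat_lit 156) (nat_lit 0) (nat_lit 0) (XT.nd (nat_lit 78) (nat_lit 0) (nat_lit 0) (XT.lf (nat_lit 0) (nat_lit 26596098645) (nat_lit 152) (nat_lit 95294809362) (nat_lit 0) (nat_lit 11812894721) (nat_lit 2) (nat_lit 5) (nat_lit 4) (nat_lit 4) (nat_lit 2) (nat_lit 4) (nat_lit 356) (nat_lit 251) (nat_lit 173)) (XT.lf (nat_lit 0) (nat_lit 32048619606) (nat_lit 152) (nat_lit 90844752515) (nat_lit 0) (nat_lit 17249399687) (nat_lit 2) (nat_lit 5) (nat_lit 4) (nat_lit 4) (nat_lit 2) (nat_lit 4) (nat_lit 357) (nat_lit 251) (nat_lit 172))) (XT.nd (nat_lit 78) (nat_lit 0) (nat_lit 0) (XT.lf (nat_lit 0) (nat_lit 37764096766) (nat_lit 152) (nat_lit 86190457083) (nat_lit 0) (nat_lit 22949623517) (nat_lit 2) (nat_lit 5) (nat_lit 4) (nat_lit 4) (nat_lit 2) (nat_lit 4) (nat_lit 358)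 (nat_lit 251) (nat_lit 171)) (XT.nd (nat_lit 78) (nat_lit 0) (nat_lit 0) (XT.lf (nat_lit 0) (nat_lit 43756138404) (nat_lit 152) (nat_lit 81320841410) (nat_lit 0) (nat_lit 28927138174) (nat_lit 2) (nat_lit 5) (nat_lit 4) (nat_lit 4) (nat_lit 2) (nat_lit 4) (nat_lit 359) (nat_lit 251) (nat_lit 170)) (XT.lf (nat_lit 0) (nat_lit 50039011285) (nat_lit 152) (nat_lit 76224311174) (nat_lit 0) (nat_lit 35196175836) (nat_lit 2) (nat_lit 5) (nat_lit 4) (nat_lit 4) (nat_lit 2) (nat_lit 4) (nat_lit 360) (nat_lit 251) (nat_lit 169))))) (XT.nd (nat_lit 234) (nat_lit 0) (nat_lit 0) (XT.nd (nat_lit 78) (nat_lit 0) (nat_lit 0) (XT.lf (nat_lit 0) (nat_lit 56627674629) (nat_lit 152) (nat_lit 70888731777) (nat_lit 0) (nat_lit 41771662781) (nat_lit 2) (nat_lit 5) (nat_lit 4) (nat_lit 4) (nat_lit 2) (nat_lit 4) (nat_lit 361) (nat_lit 251) (nat_lit 168)) (XT.nd (nat_lit 78) (nat_lit 0) (nat_lit 0) (XT.lf (nat_lit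 0) (nat_lit 63537815732) (nat_lit 152) (nat_lit 65301399460) (nat_lit 0) (nat_lit 48669254932) (nat_lit 2) (nat_lit 5) (nat_lit 4) (nat_lit 4) (nat_lit 2) (nat_lit 4) (nat_lit 362) (nat_lit 251) (nat_lit 167)) (XT.lf (nat_lit 0) (nat_lit 70785887310) (nat_lit 152) (nat_lit 59449011052) (nat_lit 0) (nat_lit 55905375127) (nat_lit 2) (nat_lit 5) (nat_lit 4) (nat_lit 4) (nat_lit 2) (nat_lit 4) (nat_lit 363) (nat_lit 251) (nat_lit 166)))) (XT.nd (nat_lit 78) (nat_lit 0) (nat_lit 0) (XT.lf (nat_lit 0) (nat_lit 78389146676) (nat_lit 152) (nat_lit 53317632292) (nat_lit 0) (nat_lit 63497252224) (nat_lit 2) (nat_lit 5) (nat_lit 4) (nat_lit 4) (nat_lit 2) (nat_lit 4) (nat_lit 364) (nat_lit 251) (nat_lit 165)) (XT.nd (nat_lit 78) (nat_lit 0) (nat_lit 0) (XT.lf (nat_lit 0) (nat_lit 86365696829) (nat_lit 152) (nat_lit 46892664661) (nat_lit 0) (nat_lit 71462962120) (nat_lit 2) (nat_lit 5) (nat_lit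 4) (nat_lit 4) (nat_lit 2) (nat_lit 4) (nat_lit 365) (nat_lit 251) (nat_lit 164)) (XT.lf (nat_lit 0) (nat_lit 94734529555) (nat_lit 152) (nat_lit 40158810617) (nat_lit 0) (nat_lit 79821470792) (nat_lit 2) (nat_lit 5) (nat_lit 4) (nat_lit 4) (nat_lit 2) (nat_lit 4) (nat_lit 366) (nat_lit 251) (nat_lit 163))))))))
noncomputable def xc82 : XT := (XT.nd (nat_lit 1560) (nat_lit 0) (nat_lit 0) (XT.nd (nat_lit 780) (nat_lit 0) (nat_lit 0) (XT.nd (nat_lit 390) (nat_lit 76) (nat_lit 0) (XT.nd (nat_lit 156) (nat_lit 0) (nat_lit 0) (XT.nd (nat_lit 78) (nat_lit 0) (nat_lit 0) (XT.lf (nat_lit 0) (nat_lit 103515570645) (nat_lit 152) (nat_lit 33100037174) (nat_lit 0) (nat_lit 88592679450) (nat_lit 2) (nat_lit 5) (nat_lit 4) (nat_lit 4) (nat_lit 2) (nat_lit 4) (nat_lit 367) (nat_lit 251) (nat_lit 162)) (XT.lf (nat_lit 0) (nat_lit 112729727342) (nat_lit 152) (nat_lit 25699537728) (nat_lit 0) (nat_lit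 97797471925) (nat_lit 2) (nat_lit 5) (nat_lit 4) (nat_lit 4) (nat_lit 2) (nat_lit 4) (nat_lit 368) (nat_lit 251) (nat_lit 161))) (XT.nd (nat_lit 78) (nat_lit 0) (nat_lit 0) (XT.lf (nat_lit 0) (nat_lit 122398938112) (nat_lit 152) (nat_lit 17939692043) (nat_lit 0) (nat_lit 107457764390) (nat_lit 2) (nat_lit 5) (nat_lit 4) (nat_lit 4) (nat_lit 2) (nat_lit 4) (nat_lit 369) (nat_lit 251) (nat_lit 160)) (XT.nd (nat_lit 78) (nat_lit 0) (nat_lit 0) (XT.lf (nat_lit 0) (nat_lit 132546224887) (nat_lit 152) (nat_lit 9802024296) (nat_lit 0) (nat_lit 117596557540) (nat_lit 2) (nat_lit 5) (nat_lit 4) (nat_lit 4) (nat_lit 2) (nat_lit 4) (nat_lit 370) (nat_lit 251) (nat_lit 159)) (XT.lf (nat_lit 0) (nat_lit 143195747872) (nat_lit 152) (nat_lit 1267159087) (nat_lit 0) (nat_lit 128237991359) (nat_lit 2) (nat_lit 5) (nat_lit 4) (nat_lit 4) (nat_lit 2) (nat_lit 4) (nat_lit 371) (nat_lit 251) (nat_lit 158)))))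 (XT.nd (nat_lit 156) (nat_lit 0) (nat_lit 0) (XT.nd (nat_lit 78) (nat_lit 0) (nat_lit 0) (XT.lf (nat_lit 0) (nat_lit 7939332926) (nat_lit 76) (nat_lit 146557485386) (nat_lit 76) (nat_lit 131592024905) (nat_lit 1) (nat_lit 4) (nat_lit 2) (nat_lit 5) (nat_lit 2) (nat_lit 4) (nat_lit 372) (nat_lit 251) (nat_lit 157)) (XT.lf (nat_lit 0) (nat_lit 17641066538) (nat_lit 76) (nat_lit 148738542626) (nat_lit 76) (nat_lit 133765745033) (nat_lit 1) (nat_lit 4) (nat_lit 2) (nat_lit 5) (nat_lit 2) (nat_lit 4) (nat_lit 373) (nat_lit 251) (nat_lit 156))) (XT.nd (nat_lit 78) (nat_lit 0) (nat_lit 0) (XT.lf (nat_lit 0) (nat_lit 27819243110) (nat_lit 76) (nat_lit 151032731626) (nat_lit 76) (nat_lit 136052946307) (nat_lit 1) (nat_lit 4) (nat_lit 2) (nat_lit 5) (nat_lit 2) (nat_lit 4) (nat_lit 374) (nat_lit 251) (nat_lit 155)) (XT.nd (nat_lit 78) (nat_lit 0) (nat_lit 0) (XT.lf (nat_lit 0) (nat_lit 38498096397)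 (nat_lit 76) (nat_lit 153445514740) (nat_lit 76) (nat_lit 138459074443) (nat_lit 1) (nat_lit 4) (nat_lit 2) (nat_lit 5) (nat_lit 2) (nat_lit 4) (nat_lit 375) (nat_lit 251) (nat_lit 154)) (XT.lf (nat_lit 0) (nat_lit 49703052240) (nat_lit 76) (nat_lit 155982636690) (nat_lit 76) (nat_lit 140989858320) (nat_lit 1) (nat_lit 4) (nat_lit 2) (nat_lit 5) (nat_lit 2) (nat_lit 4) (nat_lit 376) (nat_lit 251) (nat_lit 153)))))) (XT.nd (nat_lit 390) (nat_lit 0) (nat_lit 0) (XT.nd (nat_lit 156) (nat_lit 0) (nat_lit 0) (XT.nd (nat_lit 78) (nat_lit 0) (nat_lit 0) (XT.lf (nat_lit 0) (nat_lit 61460789105) (nat_lit 76) (nat_lit 158650138242) (nat_lit 76) (nat_lit 143651323612) (nat_lit 1) (nat_lit 4) (nat_lit 2) (nat_lit 5) (nat_lit 2) (nat_lit 4) (nat_lit 377) (nat_lit 251) (nat_lit 152)) (XT.lf (nat_lit 0) (nat_lit 73799301603) (nat_lit 76) (nat_lit 161454370591) (nat_lit 76) (nat_lit 146449807141) (nat_lit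 1) (nat_lit 4) (nat_lit 2) (nat_lit 5) (nat_lit 2) (nat_lit 4) (nat_lit 378) (nat_lit 251) (nat_lit 151))) (XT.nd (nat_lit 78) (nat_lit 0) (nat_lit 0) (XT.lf (nat_lit 0) (nat_lit 86747967146) (nat_lit 76) (nat_lit 164402010480) (nat_lit 76) (nat_lit 149391971964) (nat_lit 1) (nat_lit 4) (nat_lit 2) (nat_lit 5) (nat_lit 2) (nat_lit 4) (nat_lit 379) (nat_lit 251) (nat_lit 150)) (XT.nd (nat_lit 78) (nat_lit 0) (nat_lit 0) (XT.lf (nat_lit 0) (nat_lit 100337615889) (nat_lit 76) (nat_lit 167500076100) (nat_lit 76) (nat_lit 152484823236) (nat_lit 1) (nat_lit 4) (nat_lit 2) (nat_lit 5) (nat_lit 2) (nat_lit 4) (nat_lit 380) (nat_lit 251) (nat_lit 149)) (XT.lf (nat_lit 0) (nat_lit 114600604140) (nat_lit 76) (nat_lit 170755943798) (nat_lit 76) (nat_lit 155735724887) (nat_lit 1) (nat_lit 4) (nat_lit 2) (nat_lit 5) (nat_lit 2) (nat_lit 4) (nat_lit 381) (nat_lit 251) (nat_lit 148))))) (XT.nd (nat_lit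 156) (nat_lit 0) (nat_lit 0) (XT.nd (nat_lit 78) (nat_lit 0) (nat_lit 0) (XT.lf (nat_lit 0) (nat_lit 129570891393) (nat_lit 76) (nat_lit 174177365638) (nat_lit 76) (nat_lit 159152417159) (nat_lit 1) (nat_lit 4) (nat_lit 2) (nat_lit 5) (nat_lit 2) (nat_lit 4) (nat_lit 382) (nat_lit 251) (nat_lit 147)) (XT.lf (nat_lit 0) (nat_lit 145284121189) (nat_lit 76) (nat_lit 177772487864) (nat_lit 76) (nat_lit 162743035035) (nat_lit 1) (nat_lit 4) (nat_lit 2) (nat_lit 5) (nat_lit 2) (nat_lit 4) (nat_lit 383) (nat_lit 251) (nat_lit 146))) (XT.nd (nat_lit 78) (nat_lit 0) (nat_lit 0) (XT.lf (nat_lit 0) (nat_lit 161777705982) (nat_lit 76) (nat_lit 181549870291) (nat_lit 76) (nat_lit 166516127604) (nat_lit 1) (nat_lit 4) (nat_lit 2) (nat_lit 5) (nat_lit 2) (nat_lit 4) (nat_lit 384) (nat_lit 251) (nat_lit 145)) (XT.nd (nat_lit 78) (nat_lit 0) (nat_lit 0) (XT.lf (nat_lit 0) (nat_lit 179090916210) (nat_lit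 76) (nat_lit 185518506686) (nat_lit 76) (nat_lit 170480678420) (nat_lit 1) (nat_lit 4) (nat_lit 2) (nat_lit 5) (nat_lit 2) (nat_lit 4) (nat_lit 385) (nat_lit 251) (nat_lit 144)) (XT.lf (nat_lit 0) (nat_lit 197264973803) (nat_lit 76) (nat_lit 189687846184) (nat_lit 76) (nat_lit 174646126891) (nat_lit 1) (nat_lit 4) (nat_lit 2) (nat_lit 5) (nat_lit 2) (nat_lit 4) (nat_lit 386) (nat_lit 251) (nat_lit 143))))))) (XT.nd (nat_lit 32526) (nat_lit 0) (nat_lit 2888) (XT.nd (nat_lit 32136) (nat_lit 0) (nat_lit 4560) (XT.nd (nat_lit 156) (nat_lit 0) (nat_lit 0) (XT.nd (nat_lit 78) (nat_lit 0) (nat_lit 0) (XT.lf (nat_lit 0) (nat_lit 216343150327) (nat_lit 76) (nat_lit 194067815783) (nat_lit 76) (nat_lit 179022390749) (nat_lit 1) (nat_lit 4) (nat_lit 2) (nat_lit 5) (nat_lit 2) (nat_lit 4) (nat_lit 387) (nat_lit 251) (nat_lit 142)) (XT.lf (nat_lit 0) (nat_lit 236370870011) (nat_lit 76) (nat_lit 198668843982)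 (nat_lit 76) (nat_lit 183619889672) (nat_lit 1) (nat_lit 4) (nat_lit 2) (nat_lit 5) (nat_lit 2) (nat_lit 4) (nat_lit 388) (nat_lit 251) (nat_lit 141))) (XT.nd (nat_lit 31824) (nat_lit 0) (nat_lit 6156) (XT.lf (nat_lit 0) (nat_lit 257395817902) (nat_lit 76) (nat_lit 203501885610) (nat_lit 76) (nat_lit 188449570085) (nat_lit 1) (nat_lit 4) (nat_lit 2) (nat_lit 5) (nat_lit 2) (nat_lit 4) (nat_lit 389) (nat_lit 251) (nat_lit 140)) (XT.nd (nat_lit 78) (nat_lit 76) (nat_lit 0) (XT.lf (nat_lit 0) (nat_lit 860464728) (nat_lit 684) (nat_lit 1381743944) (nat_lit 684) (nat_lit 1381743944) (nat_lit 83) (nat_lit 4) (nat_lit 92) (nat_lit 5) (nat_lit 92) (nat_lit 4) (nat_lit 276) (nat_lit 252) (nat_lit 252)) (XT.lf (nat_lit 0) (nat_lit 449077718) (nat_lit 760) (nat_lit 651012547) (nat_lit 76) (nat_lit 6257551504) (nat_lit 82) (nat_lit 5) (nat_lit 92) (nat_lit 5) (nat_lit 83) (nat_lit 4) (nat_lit 277)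 (nat_lit 252) (nat_lit 251))))) (XT.nd (nat_lit 156) (nat_lit 760) (nat_lit 0) (XT.nd (nat_lit 78) (nat_lit 380) (nat_lit 0) (XT.lf (nat_lit 0) (nat_lit 3657125545) (nat_lit 532) (nat_lit 3082676248) (nat_lit 0) (nat_lit 734835443) (nat_lit 76) (nat_lit 5) (nat_lit 83) (nat_lit 4) (nat_lit 76) (nat_lit 4) (nat_lit 278) (nat_lit 252) (nat_lit 250)) (XT.lf (nat_lit 0) (nat_lit 1993246601) (nat_lit 380) (nat_lit 4944474073) (nat_lit 380) (nat_lit 664557908) (nat_lit 71) (nat_lit 4) (nat_lit 76) (nat_lit 5) (nat_lit 76) (nat_lit 4) (nat_lit 279) (nat_lit 252) (nat_lit 249))) (XT.nd (nat_lit 78) (nat_lit 684) (nat_lit 0) (XT.lf (nat_lit 0) (nat_lit 2467995109) (nat_lit 456) (nat_lit 513503392) (nat_lit 76) (nat_lit 4757771666) (nat_lit 70) (nat_lit 5) (nat_lit 76) (nat_lit 5) (nat_lit 71) (nat_lit 4) (nat_lit 280) (nat_lit 252) (nat_lit 248)) (XT.nd (nat_lit 78) (nat_lit 380) (nat_lit 0)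 (XT.lf (nat_lit 0) (nat_lit 4820544400) (nat_lit 304) (nat_lit 850111515) (nat_lit 380) (nat_lit 2215468447) (nat_lit 66) (nat_lit 5) (nat_lit 70) (nat_lit 5) (nat_lit 71) (nat_lit 4) (nat_lit 281) (nat_lit 252) (nat_lit 247)) (XT.lf (nat_lit 0) (nat_lit 890492564) (nat_lit 380) (nat_lit 5771698495) (nat_lit 76) (nat_lit 1381213449) (nat_lit 61) (nat_lit 5) (nat_lit 66) (nat_lit 5) (nat_lit 62) (nat_lit 4) (nat_lit 282) (nat_lit 252) (nat_lit 246)))))) (XT.nd (nat_lit 390) (nat_lit 836) (nat_lit 0) (XT.nd (nat_lit 156) (nat_lit 608) (nat_lit 0) (XT.nd (nat_lit 78) (nat_lit 228) (nat_lit 0) (XT.lf (nat_lit 0) (nat_lit 4009876979) (nat_lit 380) (nat_lit 440695989) (nat_lit 76) (nat_lit 3759831743) (nat_lit 61) (nat_lit 5) (nat_lit 66) (nat_lit 5) (nat_lit 62) (nat_lit 4) (nat_lit 283) (nat_lit 252) (nat_lit 245)) (XT.lf (nat_lit 0) (nat_lit 5164118811) (nat_lit 228) (nat_lit 2074000252)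 (nat_lit 304) (nat_lit 1150278094) (nat_lit 58) (nat_lit 5) (nat_lit 61) (nat_lit 5) (nat_lit 62) (nat_lit 4) (nat_lit 284) (nat_lit 252) (nat_lit 244))) (XT.nd (nat_lit 78) (nat_lit 228) (nat_lit 0) (XT.lf (nat_lit 0) (nat_lit 1912365545) (nat_lit 380) (nat_lit 6211902789) (nat_lit 76) (nat_lit 453399953) (nat_lit 53) (nat_lit 5) (nat_lit 58) (nat_lit 5) (nat_lit 54) (nat_lit 4) (nat_lit 285) (nat_lit 252) (nat_lit 243)) (XT.nd (nat_lit 78) (nat_lit 228) (nat_lit 0) (XT.lf (nat_lit 0) (nat_lit 5055626304) (nat_lit 380) (nat_lit 643356098) (nat_lit 76) (nat_lit 3078418253) (nat_lit 53) (nat_lit 5) (nat_lit 58) (nat_lit 5) (nat_lit 54) (nat_lit 4) (nat_lit 286) (nat_lit 252) (nat_lit 242)) (XT.lf (nat_lit 0) (nat_lit 5215122629) (nat_lit 228) (nat_lit 3104866291) (nat_lit 304) (nat_lit 669169614) (nat_lit 50) (nat_lit 5) (nat_lit 53) (nat_lit 5) (nat_lit 54) (nat_lit 4) (nat_lit 287)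 (nat_lit 252) (nat_lit 241))))) (XT.nd (nat_lit 156) (nat_lit 532) (nat_lit 0) (XT.nd (nat_lit 78) (nat_lit 0) (nat_lit 0) (XT.lf (nat_lit 0) (nat_lit 2046667380) (nat_lit 228) (nat_lit 334888954) (nat_lit 304) (nat_lit 6831849077) (nat_lit 46) (nat_lit 5) (nat_lit 49) (nat_lit 5) (nat_lit 50) (nat_lit 5) (nat_lit 288) (nat_lit 252) (nat_lit 240)) (XT.lf (nat_lit 0) (nat_lit 5553593383) (nat_lit 304) (nat_lit 1368093079) (nat_lit 76) (nat_lit 2527270229) (nat_lit 46) (nat_lit 5) (nat_lit 50) (nat_lit 5) (nat_lit 47) (nat_lit 4) (nat_lit 289) (nat_lit 252) (nat_lit 239))) (XT.nd (nat_lit 78) (nat_lit 304) (nat_lit 0) (XT.lf (nat_lit 0) (nat_lit 4713810912) (nat_lit 228) (nat_lit 4141049499) (nat_lit 304) (nat_lit 843087736) (nat_lit 43) (nat_lit 5) (nat_lit 46) (nat_lit 5) (nat_lit 47) (nat_lit 4) (nat_lit 290) (nat_lit 252) (nat_lit 238)) (XT.nd (nat_lit 78) (nat_lit 0) (nat_lit 0) (XT.lf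 (nat_lit 0) (nat_lit 1031503033) (nat_lit 228) (nat_lit 1186820779) (nat_lit 304) (nat_lit 7742791897) (nat_lit 39) (nat_lit 5) (nat_lit 42) (nat_lit 5) (nat_lit 43) (nat_lit 5) (nat_lit 291) (nat_lit 252) (nat_lit 237)) (XT.lf (nat_lit 0) (nat_lit 5414672383) (nat_lit 304) (nat_lit 2912910589) (nat_lit 76) (nat_lit 1908825239) (nat_lit 39) (nat_lit 5) (nat_lit 43) (nat_lit 5) (nat_lit 40) (nat_lit 4) (nat_lit 292) (nat_lit 252) (nat_lit 236))))))))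
noncomputable def xc83 : XT := (XT.nd (nat_lit 1560) (nat_lit 608) (nat_lit 0) (XT.nd (nat_lit 780) (nat_lit 608) (nat_lit 0) (XT.nd (nat_lit 390) (nat_lit 608) (nat_lit 0) (XT.nd (nat_lit 156) (nat_lit 380) (nat_lit 0) (XT.nd (nat_lit 78) (nat_lit 76) (nat_lit 0) (XT.lf (nat_lit 0) (nat_lit 3344060937) (nat_lit 152) (nat_lit 5397973980) (nat_lit 228) (nat_lit 1785030212) (nat_lit 37) (nat_lit 5) (nat_lit 39) (nat_lit 5) (nat_lit 40) (nat_lit 4) (nat_lit 293) (nat_lit 252) (nat_lit 235)) (XT.lf (nat_lit 0) (nat_lit 1309015754) (nat_lit 228) (nat_lit 986691886) (nat_lit 76) (nat_lit 8538075090) (nat_lit 36) (nat_lit 5) (nat_lit 39) (nat_lit 5) (nat_lit 37) (nat_lit 5) (nat_lit 294) (nat_lit 252) (nat_lit 234))) (XT.nd (nat_lit 78) (nat_lit 152) (nat_lit 0) (XT.lf (nat_lit 0) (nat_lit 4505241423) (nat_lit 304) (nat_lit 5646202096) (nat_lit 76) (nat_lit 1002694132) (nat_lit 33) (nat_lit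 5) (nat_lit 37) (nat_lit 5) (nat_lit 34) (nat_lit 4) (nat_lit 295) (nat_lit 252) (nat_lit 233)) (XT.nd (nat_lit 78) (nat_lit 0) (nat_lit 0) (XT.lf (nat_lit 0) (nat_lit 712963221) (nat_lit 152) (nat_lit 7120702403) (nat_lit 228) (nat_lit 3658356652) (nat_lit 31) (nat_lit 5) (nat_lit 33) (nat_lit 5) (nat_lit 34) (nat_lit 4) (nat_lit 296) (nat_lit 252) (nat_lit 232)) (XT.lf (nat_lit 0) (nat_lit 7444607078) (nat_lit 152) (nat_lit 3888399007) (nat_lit 228) (nat_lit 513695359) (nat_lit 31) (nat_lit 5) (nat_lit 33) (nat_lit 5) (nat_lit 34) (nat_lit 4) (nat_lit 297) (nat_lit 252) (nat_lit 231))))) (XT.nd (nat_lit 156) (nat_lit 380) (nat_lit 0) (XT.nd (nat_lit 78) (nat_lit 0) (nat_lit 0) (XT.lf (nat_lit 0) (nat_lit 2182233322) (nat_lit 152) (nat_lit 462471864) (nat_lit 228) (nat_lit 9575058948) (nat_lit 28) (nat_lit 5) (nat_lit 30) (nat_lit 5) (nat_lit 31) (nat_lit 5) (nat_lit 298) (nat_lit 252)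 (nat_lit 230)) (XT.lf (nat_lit 0) (nat_lit 5981472308) (nat_lit 228) (nat_lit 3556955495) (nat_lit 76) (nat_lit 3070853626) (nat_lit 28) (nat_lit 5) (nat_lit 31) (nat_lit 5) (nat_lit 29) (nat_lit 4) (nat_lit 299) (nat_lit 252) (nat_lit 229))) (XT.nd (nat_lit 78) (nat_lit 228) (nat_lit 0) (XT.lf (nat_lit 0) (nat_lit 3210218268) (nat_lit 152) (nat_lit 6249698734) (nat_lit 228) (nat_lit 3559718518) (nat_lit 26) (nat_lit 5) (nat_lit 28) (nat_lit 5) (nat_lit 29) (nat_lit 4) (nat_lit 300) (nat_lit 252) (nat_lit 228)) (XT.nd (nat_lit 78) (nat_lit 228) (nat_lit 0) (XT.lf (nat_lit 0) (nat_lit 10308782980) (nat_lit 152) (nat_lit 2782785964) (nat_lit 228) (nat_lit 360072114) (nat_lit 26) (nat_lit 5) (nat_lit 28) (nat_lit 5) (nat_lit 29) (nat_lit 4) (nat_lit 301) (nat_lit 252) (nat_lit 227)) (XT.lf (nat_lit 0) (nat_lit 2898878923) (nat_lit 228) (nat_lit 10113263555) (nat_lit 76) (nat_lit 891085362)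 (nat_lit 23) (nat_lit 5) (nat_lit 26) (nat_lit 5) (nat_lit 24) (nat_lit 4) (nat_lit 302) (nat_lit 252) (nat_lit 226)))))) (XT.nd (nat_lit 390) (nat_lit 304) (nat_lit 0) (XT.nd (nat_lit 156) (nat_lit 228) (nat_lit 0) (XT.nd (nat_lit 78) (nat_lit 76) (nat_lit 0) (XT.lf (nat_lit 0) (nat_lit 6330974857) (nat_lit 228) (nat_lit 3376632656) (nat_lit 76) (nat_lit 4668461049) (nat_lit 23) (nat_lit 5) (nat_lit 26) (nat_lit 5) (nat_lit 24) (nat_lit 4) (nat_lit 303) (nat_lit 252) (nat_lit 225)) (XT.lf (nat_lit 0) (nat_lit 3693083057) (nat_lit 76) (nat_lit 6225518868) (nat_lit 152) (nat_lit 4954833697) (nat_lit 22) (nat_lit 5) (nat_lit 23) (nat_lit 5) (nat_lit 24) (nat_lit 4) (nat_lit 304) (nat_lit 252) (nat_lit 224))) (XT.nd (nat_lit 78) (nat_lit 228) (nat_lit 0) (XT.lf (nat_lit 0) (nat_lit 11113532077) (nat_lit 76) (nat_lit 2557167989) (nat_lit 152) (nat_lit 1725793264) (nat_lit 22) (nat_lit 5)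 (nat_lit 23) (nat_lit 5) (nat_lit 24) (nat_lit 4) (nat_lit 305) (nat_lit 252) (nat_lit 223)) (XT.nd (nat_lit 78) (nat_lit 0) (nat_lit 0) (XT.lf (nat_lit 0) (nat_lit 1607642627) (nat_lit 228) (nat_lit 13056555182) (nat_lit 76) (nat_lit 1280465015) (nat_lit 19) (nat_lit 5) (nat_lit 22) (nat_lit 5) (nat_lit 20) (nat_lit 4) (nat_lit 306) (nat_lit 252) (nat_lit 222)) (XT.lf (nat_lit 0) (nat_lit 5096347432) (nat_lit 228) (nat_lit 6139114539) (nat_lit 76) (nat_lit 5281100808) (nat_lit 19) (nat_lit 5) (nat_lit 22) (nat_lit 5) (nat_lit 20) (nat_lit 4) (nat_lit 307) (nat_lit 252) (nat_lit 221))))) (XT.nd (nat_lit 156) (nat_lit 228) (nat_lit 0) (XT.nd (nat_lit 78) (nat_lit 0) (nat_lit 0) (XT.lf (nat_lit 0) (nat_lit 1045741132) (nat_lit 76) (nat_lit 7664312530) (nat_lit 152) (nat_lit 8409538928) (nat_lit 18) (nat_lit 5) (nat_lit 19) (nat_lit 5) (nat_lit 20) (nat_lit 4) (nat_lit 308) (nat_lit 252)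 (nat_lit 220)) (XT.lf (nat_lit 0) (nat_lit 8692853811) (nat_lit 76) (nat_lit 3851211658) (nat_lit 152) (nat_lit 5206787568) (nat_lit 18) (nat_lit 5) (nat_lit 19) (nat_lit 5) (nat_lit 20) (nat_lit 4) (nat_lit 309) (nat_lit 252) (nat_lit 219))) (XT.nd (nat_lit 78) (nat_lit 228) (nat_lit 0) (XT.lf (nat_lit 0) (nat_lit 16510194498) (nat_lit 152) (nat_lit 1801054991) (nat_lit 0) (nat_lit 105463481) (nat_lit 18) (nat_lit 5) (nat_lit 20) (nat_lit 4) (nat_lit 18) (nat_lit 4) (nat_lit 310) (nat_lit 252) (nat_lit 218)) (XT.nd (nat_lit 78) (nat_lit 0) (nat_lit 0) (XT.lf (nat_lit 0) (nat_lit 1605687519) (nat_lit 228) (nat_lit 13296733431) (nat_lit 76) (nat_lit 4207439402) (nat_lit 15) (nat_lit 5) (nat_lit 18) (nat_lit 5) (nat_lit 16) (nat_lit 4) (nat_lit 311) (nat_lit 252) (nat_lit 217)) (XT.lf (nat_lit 0) (nat_lit 5201662518) (nat_lit 228) (nat_lit 6099900711) (nat_lit 76) (nat_lit 8535977135)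 (nat_lit 15) (nat_lit 5) (nat_lit 18) (nat_lit 5) (nat_lit 16) (nat_lit 4) (nat_lit 312) (nat_lit 252) (nat_lit 216))))))) (XT.nd (nat_lit 780) (nat_lit 304) (nat_lit 0) (XT.nd (nat_lit 390) (nat_lit 76) (nat_lit 0) (XT.nd (nat_lit 156) (nat_lit 152) (nat_lit 0) (XT.nd (nat_lit 78) (nat_lit 0) (nat_lit 0) (XT.lf (nat_lit 0) (nat_lit 1404042480) (nat_lit 76) (nat_lit 7539341932) (nat_lit 152) (nat_lit 11659969694) (nat_lit 14) (nat_lit 5) (nat_lit 15) (nat_lit 5) (nat_lit 16) (nat_lit 4) (nat_lit 313) (nat_lit 252) (nat_lit 215)) (XT.lf (nat_lit 0) (nat_lit 9398863629) (nat_lit 76) (nat_lit 3521825731) (nat_lit 152) (nat_lit 8484389220) (nat_lit 14) (nat_lit 5) (nat_lit 15) (nat_lit 5) (nat_lit 16) (nat_lit 4) (nat_lit 314) (nat_lit 252) (nat_lit 214))) (XT.nd (nat_lit 78) (nat_lit 152) (nat_lit 0) (XT.lf (nat_lit 0) (nat_lit 17054923092) (nat_lit 152) (nat_lit 4557895623) (nat_lit 0)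 (nat_lit 636210138) (nat_lit 14) (nat_lit 5) (nat_lit 16) (nat_lit 4) (nat_lit 14) (nat_lit 4) (nat_lit 315) (nat_lit 252) (nat_lit 213)) (XT.nd (nat_lit 78) (nat_lit 76) (nat_lit 0) (XT.lf (nat_lit 0) (nat_lit 3219032214) (nat_lit 76) (nat_lit 18234532292) (nat_lit 76) (nat_lit 1678768053) (nat_lit 13) (nat_lit 4) (nat_lit 14) (nat_lit 5) (nat_lit 14) (nat_lit 4) (nat_lit 316) (nat_lit 252) (nat_lit 212)) (XT.lf (nat_lit 0) (nat_lit 1976268968) (nat_lit 152) (nat_lit 12634937886) (nat_lit 76) (nat_lit 9445643630) (nat_lit 12) (nat_lit 5) (nat_lit 14) (nat_lit 5) (nat_lit 13) (nat_lit 4) (nat_lit 317) (nat_lit 252) (nat_lit 211))))) (XT.nd (nat_lit 156) (nat_lit 0) (nat_lit 0) (XT.nd (nat_lit 78) (nat_lit 76) (nat_lit 0) (XT.lf (nat_lit 0) (nat_lit 5709910879) (nat_lit 152) (nat_lit 5105281524) (nat_lit 76) (nat_lit 14213447505) (nat_lit 12) (nat_lit 5) (nat_lit 14) (nat_lit 5) (nat_lit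 13) (nat_lit 4) (nat_lit 318) (nat_lit 252) (nat_lit 210)) (XT.lf (nat_lit 0) (nat_lit 2809735861) (nat_lit 76) (nat_lit 6818910353) (nat_lit 152) (nat_lit 16420485520) (nat_lit 11) (nat_lit 5) (nat_lit 12) (nat_lit 5) (nat_lit 13) (nat_lit 4) (nat_lit 319) (nat_lit 252) (nat_lit 209))) (XT.nd (nat_lit 78) (nat_lit 0) (nat_lit 0) (XT.lf (nat_lit 0) (nat_lit 11218004346) (nat_lit 76) (nat_lit 2567237437) (nat_lit 152) (nat_lit 13333342099) (nat_lit 11) (nat_lit 5) (nat_lit 12) (nat_lit 5) (nat_lit 13) (nat_lit 4) (nat_lit 320) (nat_lit 252) (nat_lit 208)) (XT.nd (nat_lit 78) (nat_lit 0) (nat_lit 0) (XT.lf (nat_lit 0) (nat_lit 18136345276) (nat_lit 152) (nat_lit 8302014162) (nat_lit 0) (nat_lit 1803845678) (nat_lit 11) (nat_lit 5) (nat_lit 13) (nat_lit 4) (nat_lit 11) (nat_lit 4) (nat_lit 321) (nat_lit 252) (nat_lit 207)) (XT.lf (nat_lit 0) (nat_lit 22706194908) (nat_lit 152) (nat_lit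 439486371) (nat_lit 0) (nat_lit 6276295520) (nat_lit 11) (nat_lit 5) (nat_lit 13) (nat_lit 4) (nat_lit 11) (nat_lit 4) (nat_lit 322) (nat_lit 252) (nat_lit 206)))))) (XT.nd (nat_lit 390) (nat_lit 76) (nat_lit 0) (XT.nd (nat_lit 156) (nat_lit 76) (nat_lit 0) (XT.nd (nat_lit 78) (nat_lit 76) (nat_lit 0) (XT.lf (nat_lit 0) (nat_lit 8001917234) (nat_lit 76) (nat_lit 19588604621) (nat_lit 76) (nat_lit 3065943530) (nat_lit 10) (nat_lit 4) (nat_lit 11) (nat_lit 5) (nat_lit 11) (nat_lit 4) (nat_lit 323) (nat_lit 252) (nat_lit 205)) (XT.lf (nat_lit 0) (nat_lit 710597607) (nat_lit 152) (nat_lit 15154280475) (nat_lit 76) (nat_lit 16088790043) (nat_lit 9) (nat_lit 5) (nat_lit 11) (nat_lit 5) (nat_lit 10) (nat_lit 4) (nat_lit 324) (nat_lit 252) (nat_lit 204))) (XT.nd (nat_lit 78) (nat_lit 76) (nat_lit 0) (XT.lf (nat_lit 0) (nat_lit 4535953892) (nat_lit 152) (nat_lit 7396437691) (nat_lit 76) (nat_lit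 21382698962) (nat_lit 9) (nat_lit 5) (nat_lit 11) (nat_lit 5) (nat_lit 10) (nat_lit 4) (nat_lit 325) (nat_lit 252) (nat_lit 203)) (XT.nd (nat_lit 78) (nat_lit 0) (nat_lit 0) (XT.lf (nat_lit 0) (nat_lit 707978971) (nat_lit 76) (nat_lit 7820437218) (nat_lit 152) (nat_lit 26217398660) (nat_lit 8) (nat_lit 5) (nat_lit 9) (nat_lit 5) (nat_lit 10) (nat_lit 4) (nat_lit 326) (nat_lit 252) (nat_lit 202)) (XT.lf (nat_lit 0) (nat_lit 9411457979) (nat_lit 76) (nat_lit 3399784694) (nat_lit 152) (nat_lit 23432317237) (nat_lit 8) (nat_lit 5) (nat_lit 9) (nat_lit 5) (nat_lit 10) (nat_lit 4) (nat_lit 327) (nat_lit 252) (nat_lit 201))))) (XT.nd (nat_lit 234) (nat_lit 76) (nat_lit 0) (XT.nd (nat_lit 78) (nat_lit 0) (nat_lit 0) (XT.lf (nat_lit 0) (nat_lit 17294300053) (nat_lit 152) (nat_lit 19346661276) (nat_lit 0) (nat_lit 1175946981) (nat_lit 8) (nat_lit 5) (nat_lit 10) (nat_lit 4) (nat_lit 8) (nat_lit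 4) (nat_lit 328) (nat_lit 252) (nat_lit 200)) (XT.nd (nat_lit 78) (nat_lit 0) (nat_lit 0) (XT.lf (nat_lit 0) (nat_lit 22025530214) (nat_lit 152) (nat_lit 11600959375) (nat_lit 0) (nat_lit 5841253132) (nat_lit 8) (nat_lit 5) (nat_lit 10) (nat_lit 4) (nat_lit 8) (nat_lit 4) (nat_lit 329) (nat_lit 252) (nat_lit 199)) (XT.lf (nat_lit 0) (nat_lit 26963117825) (nat_lit 152) (nat_lit 3523473913) (nat_lit 0) (nat_lit 10716055970) (nat_lit 8) (nat_lit 5) (nat_lit 10) (nat_lit 4) (nat_lit 8) (nat_lit 4) (nat_lit 330) (nat_lit 252) (nat_lit 198)))) (XT.nd (nat_lit 78) (nat_lit 0) (nat_lit 0) (XT.lf (nat_lit 0) (nat_lit 5067209567) (nat_lit 76) (nat_lit 27130722821) (nat_lit 76) (nat_lit 10823865944) (nat_lit 7) (nat_lit 4) (nat_lit 8) (nat_lit 5) (nat_lit 8) (nat_lit 4) (nat_lit 331) (nat_lit 252) (nat_lit 197)) (XT.nd (nat_lit 78) (nat_lit 0) (nat_lit 0) (XT.lf (nat_lit 0) (nat_lit 14157748234)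 (nat_lit 76) (nat_lit 23568203249) (nat_lit 76) (nat_lit 7204398733) (nat_lit 7) (nat_lit 4) (nat_lit 8) (nat_lit 5) (nat_lit 8) (nat_lit 4) (nat_lit 332) (nat_lit 252) (nat_lit 196)) (XT.lf (nat_lit 0) (nat_lit 23653284266) (nat_lit 76) (nat_lit 19850222569) (nat_lit 76) (nat_lit 3432182206) (nat_lit 7) (nat_lit 4) (nat_lit 8) (nat_lit 5) (nat_lit 8) (nat_lit 4) (nat_lit 333) (nat_lit 252) (nat_lit 195))))))))
noncomputable def xc84 : XT := (XT.nd (nat_lit 1560) (nat_lit 76) (nat_lit 0) (XT.nd (nat_lit 780) (nat_lit 152) (nat_lit 0) (XT.nd (nat_lit 390) (nat_lit 76) (nat_lit 0) (XT.nd (nat_lit 156) (nat_lit 76) (nat_lit 0) (XT.nd (nat_lit 78) (nat_lit 0) (nat_lit 0) (XT.lf (nat_lit 0) (nat_lit 485705485) (nat_lit 152) (nat_lit 15473997304) (nat_lit 76) (nat_lit 33082494939) (nat_lit 6) (nat_lit 5) (nat_lit 8) (nat_lit 5) (nat_lit 7) (nat_lit 4) (nat_lit 334) (nat_lit 252) (nat_lit 194))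 (XT.lf (nat_lit 0) (nat_lit 4459363054) (nat_lit 152) (nat_lit 7377192800) (nat_lit 76) (nat_lit 39415915685) (nat_lit 6) (nat_lit 5) (nat_lit 8) (nat_lit 5) (nat_lit 7) (nat_lit 4) (nat_lit 335) (nat_lit 252) (nat_lit 193))) (XT.nd (nat_lit 78) (nat_lit 0) (nat_lit 0) (XT.lf (nat_lit 0) (nat_lit 1116611362) (nat_lit 76) (nat_lit 7508924925) (nat_lit 152) (nat_lit 44948044372) (nat_lit 5) (nat_lit 5) (nat_lit 6) (nat_lit 5) (nat_lit 7) (nat_lit 4) (nat_lit 336) (nat_lit 252) (nat_lit 192)) (XT.nd (nat_lit 78) (nat_lit 0) (nat_lit 0) (XT.lf (nat_lit 0) (nat_lit 10248348993) (nat_lit 76) (nat_lit 2853459292) (nat_lit 152) (nat_lit 42903860068) (nat_lit 5) (nat_lit 5) (nat_lit 6) (nat_lit 5) (nat_lit 7) (nat_lit 4) (nat_lit 337) (nat_lit 252) (nat_lit 191)) (XT.lf (nat_lit 0) (nat_lit 17811325100) (nat_lit 152) (nat_lit 38796110884) (nat_lit 0) (nat_lit 1951464912) (nat_lit 5) (nat_lit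 5) (nat_lit 7) (nat_lit 4) (nat_lit 5) (nat_lit 4) (nat_lit 338) (nat_lit 252) (nat_lit 190))))) (XT.nd (nat_lit 156) (nat_lit 76) (nat_lit 0) (XT.nd (nat_lit 78) (nat_lit 0) (nat_lit 0) (XT.lf (nat_lit 0) (nat_lit 22781822067) (nat_lit 152) (nat_lit 31573291760) (nat_lit 0) (nat_lit 6883417474) (nat_lit 5) (nat_lit 5) (nat_lit 7) (nat_lit 4) (nat_lit 5) (nat_lit 4) (nat_lit 339) (nat_lit 252) (nat_lit 189)) (XT.lf (nat_lit 0) (nat_lit 27980583206) (nat_lit 152) (nat_lit 24027114306) (nat_lit 0) (nat_lit 12045469657) (nat_lit 5) (nat_lit 5) (nat_lit 7) (nat_lit 4) (nat_lit 5) (nat_lit 4) (nat_lit 340) (nat_lit 252) (nat_lit 188))) (XT.nd (nat_lit 78) (nat_lit 76) (nat_lit 0) (XT.lf (nat_lit 0) (nat_lit 33419986519) (nat_lit 152) (nat_lit 16139611432) (nat_lit 0) (nat_lit 17449912059) (nat_lit 5) (nat_lit 5) (nat_lit 7) (nat_lit 4) (nat_lit 5) (nat_lit 4) (nat_lit 341) (nat_lit 252) (nat_lit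 187)) (XT.nd (nat_lit 78) (nat_lit 76) (nat_lit 0) (XT.lf (nat_lit 0) (nat_lit 39112982967) (nat_lit 152) (nat_lit 7892003368) (nat_lit 0) (nat_lit 23109612402) (nat_lit 5) (nat_lit 5) (nat_lit 7) (nat_lit 4) (nat_lit 5) (nat_lit 4) (nat_lit 342) (nat_lit 252) (nat_lit 186)) (XT.lf (nat_lit 0) (nat_lit 759660940) (nat_lit 76) (nat_lit 44325326799) (nat_lit 76) (nat_lit 28290245657) (nat_lit 4) (nat_lit 4) (nat_lit 5) (nat_lit 5) (nat_lit 5) (nat_lit 4) (nat_lit 343) (nat_lit 252) (nat_lit 185)))))) (XT.nd (nat_lit 390) (nat_lit 152) (nat_lit 0) (XT.nd (nat_lit 156) (nat_lit 0) (nat_lit 0) (XT.nd (nat_lit 78) (nat_lit 0) (nat_lit 0) (XT.lf (nat_lit 0) (nat_lit 10085789369) (nat_lit 76) (nat_lit 41386288415) (nat_lit 76) (nat_lit 25321006725) (nat_lit 4) (nat_lit 4) (nat_lit 5) (nat_lit 5) (nat_lit 5) (nat_lit 4) (nat_lit 344) (nat_lit 252) (nat_lit 184)) (XT.lf (nat_lit 0) (nat_lit 19847641712)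 (nat_lit 76) (nat_lit 38314528371) (nat_lit 76) (nat_lit 22220484252) (nat_lit 4) (nat_lit 4) (nat_lit 5) (nat_lit 5) (nat_lit 5) (nat_lit 4) (nat_lit 345) (nat_lit 252) (nat_lit 183))) (XT.nd (nat_lit 78) (nat_lit 0) (nat_lit 0) (XT.lf (nat_lit 0) (nat_lit 30068460476) (nat_lit 76) (nat_lit 35102732950) (nat_lit 76) (nat_lit 18981296044) (nat_lit 4) (nat_lit 4) (nat_lit 5) (nat_lit 5) (nat_lit 5) (nat_lit 4) (nat_lit 346) (nat_lit 252) (nat_lit 182)) (XT.nd (nat_lit 78) (nat_lit 0) (nat_lit 0) (XT.lf (nat_lit 0) (nat_lit 40772580944) (nat_lit 76) (nat_lit 31743255022) (nat_lit 76) (nat_lit 15595729746) (nat_lit 4) (nat_lit 4) (nat_lit 5) (nat_lit 5) (nat_lit 5) (nat_lit 4) (nat_lit 347) (nat_lit 252) (nat_lit 181)) (XT.lf (nat_lit 0) (nat_lit 51985489115) (nat_lit 76) (nat_lit 28228095829) (nat_lit 76) (nat_lit 12055724486) (nat_lit 4) (nat_lit 4) (nat_lit 5) (nat_lit 5) (nat_lit 5)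 (nat_lit 4) (nat_lit 348) (nat_lit 252) (nat_lit 180))))) (XT.nd (nat_lit 156) (nat_lit 152) (nat_lit 0) (XT.nd (nat_lit 78) (nat_lit 0) (nat_lit 0) (XT.lf (nat_lit 0) (nat_lit 63733882392) (nat_lit 76) (nat_lit 24548885945) (nat_lit 76) (nat_lit 8352851681) (nat_lit 4) (nat_lit 4) (nat_lit 5) (nat_lit 5) (nat_lit 5) (nat_lit 4) (nat_lit 349) (nat_lit 252) (nat_lit 179)) (XT.lf (nat_lit 0) (nat_lit 76045733138) (nat_lit 76) (nat_lit 20696865346) (nat_lit 76) (nat_lit 4478294968) (nat_lit 4) (nat_lit 4) (nat_lit 5) (nat_lit 5) (nat_lit 5) (nat_lit 4) (nat_lit 350) (nat_lit 252) (nat_lit 178))) (XT.nd (nat_lit 78) (nat_lit 152) (nat_lit 0) (XT.lf (nat_lit 0) (nat_lit 88950355284) (nat_lit 76) (nat_lit 16662862554) (nat_lit 76) (nat_lit 422829210) (nat_lit 4) (nat_lit 4) (nat_lit 5) (nat_lit 5) (nat_lit 5) (nat_lit 4) (nat_lit 351) (nat_lit 252) (nat_lit 177)) (XT.nd (nat_lit 78) (nat_lit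 76) (nat_lit 0) (XT.lf (nat_lit 0) (nat_lit 3700835139) (nat_lit 152) (nat_lit 8673762228) (nat_lit 76) (nat_lit 98714963547) (nat_lit 3) (nat_lit 5) (nat_lit 5) (nat_lit 5) (nat_lit 4) (nat_lit 4) (nat_lit 352) (nat_lit 252) (nat_lit 176)) (XT.lf (nat_lit 0) (nat_lit 135078421) (nat_lit 76) (nat_lit 7872248519) (nat_lit 152) (nat_lit 108388539757) (nat_lit 2) (nat_lit 5) (nat_lit 3) (nat_lit 5) (nat_lit 4) (nat_lit 4) (nat_lit 353) (nat_lit 252) (nat_lit 175))))))) (XT.nd (nat_lit 780) (nat_lit 76) (nat_lit 0) (XT.nd (nat_lit 390) (nat_lit 0) (nat_lit 0) (XT.nd (nat_lit 156) (nat_lit 0) (nat_lit 0) (XT.nd (nat_lit 78) (nat_lit 0) (nat_lit 0) (XT.lf (nat_lit 0) (nat_lit 9664757406) (nat_lit 76) (nat_lit 3000237585) (nat_lit 152) (nat_lit 109295705444) (nat_lit 2) (nat_lit 5) (nat_lit 3) (nat_lit 5) (nat_lit 4) (nat_lit 4) (nat_lit 354) (nat_lit 252) (nat_lit 174)) (XT.lf (nat_lit 0)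 (nat_lit 17577912348) (nat_lit 152) (nat_lit 108186018777) (nat_lit 0) (nat_lit 2038731433) (nat_lit 2) (nat_lit 5) (nat_lit 4) (nat_lit 4) (nat_lit 2) (nat_lit 4) (nat_lit 355) (nat_lit 252) (nat_lit 173))) (XT.nd (nat_lit 78) (nat_lit 0) (nat_lit 0) (XT.lf (nat_lit 0) (nat_lit 22775506454) (nat_lit 152) (nat_lit 103938960005) (nat_lit 0) (nat_lit 7220309543) (nat_lit 2) (nat_lit 5) (nat_lit 4) (nat_lit 4) (nat_lit 2) (nat_lit 4) (nat_lit 356) (nat_lit 252) (nat_lit 172)) (XT.nd (nat_lit 78) (nat_lit 0) (nat_lit 0) (XT.lf (nat_lit 0) (nat_lit 28223310416) (nat_lit 152) (nat_lit 99497812552) (nat_lit 0) (nat_lit 12652860175) (nat_lit 2) (nat_lit 5) (nat_lit 4) (nat_lit 4) (nat_lit 2) (nat_lit 4) (nat_lit 357) (nat_lit 252) (nat_lit 171)) (XT.lf (nat_lit 0) (nat_lit 33934295195) (nat_lit 152) (nat_lit 94852002256) (nat_lit 0) (nat_lit 18349317974) (nat_lit 2) (nat_lit 5) (nat_lit 4) (nat_lit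 4) (nat_lit 2) (nat_lit 4) (nat_lit 358) (nat_lit 252) (nat_lit 170))))) (XT.nd (nat_lit 156) (nat_lit 0) (nat_lit 0) (XT.nd (nat_lit 78) (nat_lit 0) (nat_lit 0) (XT.lf (nat_lit 0) (nat_lit 39922058375) (nat_lit 152) (nat_lit 89990467666) (nat_lit 0) (nat_lit 24323245934) (nat_lit 2) (nat_lit 5) (nat_lit 4) (nat_lit 4) (nat_lit 2) (nat_lit 4) (nat_lit 359) (nat_lit 252) (nat_lit 169)) (XT.lf (nat_lit 0) (nat_lit 46200856534) (nat_lit 152) (nat_lit 84901633699) (nat_lit 0) (nat_lit 30588867693) (nat_lit 2) (nat_lit 5) (nat_lit 4) (nat_lit 4) (nat_lit 2) (nat_lit 4) (nat_lit 360) (nat_lit 252) (nat_lit 168))) (XT.nd (nat_lit 78) (nat_lit 0) (nat_lit 0) (XT.lf (nat_lit 0) (nat_lit 52785639191) (nat_lit 152) (nat_lit 79573384083) (nat_lit 0) (nat_lit 37161101399) (nat_lit 2) (nat_lit 5) (nat_lit 4) (nat_lit 4) (nat_lit 2) (nat_lit 4) (nat_lit 361) (nat_lit 252) (nat_lit 167)) (XT.nd (nat_lit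 78) (nat_lit 0) (nat_lit 0) (XT.lf (nat_lit 0) (nat_lit 59692084402) (nat_lit 152) (nat_lit 73993032509) (nat_lit 0) (nat_lit 44055595226) (nat_lit 2) (nat_lit 5) (nat_lit 4) (nat_lit 4) (nat_lit 2) (nat_lit 4) (nat_lit 362) (nat_lit 252) (nat_lit 166)) (XT.lf (nat_lit 0) (nat_lit 66936636082) (nat_lit 152) (nat_lit 68147292427) (nat_lit 0) (nat_lit 51288764637) (nat_lit 2) (nat_lit 5) (nat_lit 4) (nat_lit 4) (nat_lit 2) (nat_lit 4) (nat_lit 363) (nat_lit 252) (nat_lit 165)))))) (XT.nd (nat_lit 390) (nat_lit 76) (nat_lit 0) (XT.nd (nat_lit 156) (nat_lit 0) (nat_lit 0) (XT.nd (nat_lit 78) (nat_lit 0) (nat_lit 0) (XT.lf (nat_lit 0) (nat_lit 74536543164) (nat_lit 152) (nat_lit 62022245408) (nat_lit 0) (nat_lit 58877831463) (nat_lit 2) (nat_lit 5) (nat_lit 4) (nat_lit 4) (nat_lit 2) (nat_lit 4) (nat_lit 364) (nat_lit 252) (nat_lit 164)) (XT.lf (nat_lit 0) (nat_lit 82509900666) (nat_lit 152)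 (nat_lit 55603308005) (nat_lit 0) (nat_lit 66840864911) (nat_lit 2) (nat_lit 5) (nat_lit 4) (nat_lit 4) (nat_lit 2) (nat_lit 4) (nat_lit 365) (nat_lit 252) (nat_lit 163))) (XT.nd (nat_lit 78) (nat_lit 0) (nat_lit 0) (XT.lf (nat_lit 0) (nat_lit 90875692771) (nat_lit 152) (nat_lit 48875197036) (nat_lit 0) (nat_lit 75196824584) (nat_lit 2) (nat_lit 5) (nat_lit 4) (nat_lit 4) (nat_lit 2) (nat_lit 4) (nat_lit 366) (nat_lit 252) (nat_lit 162)) (XT.nd (nat_lit 78) (nat_lit 0) (nat_lit 0) (XT.lf (nat_lit 0) (nat_lit 99653838033) (nat_lit 152) (nat_lit 41821893188) (nat_lit 0) (nat_lit 83965605625) (nat_lit 2) (nat_lit 5) (nat_lit 4) (nat_lit 4) (nat_lit 2) (nat_lit 4) (nat_lit 367) (nat_lit 252) (nat_lit 161)) (XT.lf (nat_lit 0) (nat_lit 108865236797) (nat_lit 152) (nat_lit 34426602880) (nat_lit 0) (nat_lit 93168086083) (nat_lit 2) (nat_lit 5) (nat_lit 4) (nat_lit 4) (nat_lit 2) (nat_lit 4)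 (nat_lit 368) (nat_lit 252) (nat_lit 160))))) (XT.nd (nat_lit 156) (nat_lit 76) (nat_lit 0) (XT.nd (nat_lit 78) (nat_lit 0) (nat_lit 0) (XT.lf (nat_lit 0) (nat_lit 118531820965) (nat_lit 152) (nat_lit 26671718279) (nat_lit 0) (nat_lit 102826176626) (nat_lit 2) (nat_lit 5) (nat_lit 4) (nat_lit 4) (nat_lit 2) (nat_lit 4) (nat_lit 369) (nat_lit 252) (nat_lit 159)) (XT.lf (nat_lit 0) (nat_lit 128676606214) (nat_lit 152) (nat_lit 18538775373) (nat_lit 0) (nat_lit 112962872709) (nat_lit 2) (nat_lit 5) (nat_lit 4) (nat_lit 4) (nat_lit 2) (nat_lit 4) (nat_lit 370) (nat_lit 252) (nat_lit 158))) (XT.nd (nat_lit 78) (nat_lit 76) (nat_lit 0) (XT.lf (nat_lit 0) (nat_lit 139323746794) (nat_lit 152) (nat_lit 10008410013) (nat_lit 0) (nat_lit 123602309321) (nat_lit 2) (nat_lit 5) (nat_lit 4) (nat_lit 4) (nat_lit 2) (nat_lit 4) (nat_lit 371) (nat_lit 252) (nat_lit 157)) (XT.nd (nat_lit 78) (nat_lit 76)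 (nat_lit 0) (XT.lf (nat_lit 0) (nat_lit 150498593041) (nat_lit 152) (nat_lit 1060311806) (nat_lit 0) (nat_lit 134769818455) (nat_lit 2) (nat_lit 5) (nat_lit 4) (nat_lit 4) (nat_lit 2) (nat_lit 4) (nat_lit 372) (nat_lit 252) (nat_lit 156)) (XT.lf (nat_lit 0) (nat_lit 8602146660) (nat_lit 76) (nat_lit 153759908686) (nat_lit 76) (nat_lit 138024146375) (nat_lit 1) (nat_lit 4) (nat_lit 2) (nat_lit 5) (nat_lit 2) (nat_lit 4) (nat_lit 373) (nat_lit 252) (nat_lit 155))))))))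
noncomputable def xc85 : XT := (XT.nd (nat_lit 33150) (nat_lit 0) (nat_lit 2204) (XT.nd (nat_lit 780) (nat_lit 0) (nat_lit 0) (XT.nd (nat_lit 390) (nat_lit 0) (nat_lit 0) (XT.nd (nat_lit 156) (nat_lit 0) (nat_lit 0) (XT.nd (nat_lit 78) (nat_lit 0) (nat_lit 0) (XT.lf (nat_lit 0) (nat_lit 18776307567) (nat_lit 76) (nat_lit 156055992644) (nat_lit 76) (nat_lit 140313575356) (nat_lit 1) (nat_lit 4) (nat_lit 2) (nat_lit 5) (nat_lit 2) (nat_lit 4) (nat_lit 374) (nat_lit 252) (nat_lit 154)) (XT.lf (nat_lit 0) (nat_lit 29451336410) (nat_lit 76) (nat_lit 158470580480) (nat_lit 76) (nat_lit 142721825118) (nat_lit 1) (nat_lit 4) (nat_lit 2) (nat_lit 5) (nat_lit 2) (nat_lit 4) (nat_lit 375) (nat_lit 252) (nat_lit 153))) (XT.nd (nat_lit 78) (nat_lit 0) (nat_lit 0) (XT.lf (nat_lit 0) (nat_lit 40652649926) (nat_lit 76) (nat_lit 161009421213) (nat_lit 76) (nat_lit 145254629591) (nat_lit 1) (nat_lit 4)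 (nat_lit 2) (nat_lit 5) (nat_lit 2) (nat_lit 4) (nat_lit 376) (nat_lit 252) (nat_lit 152)) (XT.nd (nat_lit 78) (nat_lit 0) (nat_lit 0) (XT.lf (nat_lit 0) (nat_lit 52406917908) (nat_lit 76) (nat_lit 163678559701) (nat_lit 76) (nat_lit 147918019260) (nat_lit 1) (nat_lit 4) (nat_lit 2) (nat_lit 5) (nat_lit 2) (nat_lit 4) (nat_lit 377) (nat_lit 252) (nat_lit 151)) (XT.lf (nat_lit 0) (nat_lit 64742126709) (nat_lit 76) (nat_lit 166484351037) (nat_lit 76) (nat_lit 150718335529) (nat_lit 1) (nat_lit 4) (nat_lit 2) (nat_lit 5) (nat_lit 2) (nat_lit 4) (nat_lit 378) (nat_lit 252) (nat_lit 150))))) (XT.nd (nat_lit 156) (nat_lit 0) (nat_lit 0) (XT.nd (nat_lit 78) (nat_lit 0) (nat_lit 0) (XT.lf (nat_lit 0) (nat_lit 77687645873) (nat_lit 76) (nat_lit 169433475676) (nat_lit 76) (nat_lit 153662245819) (nat_lit 1) (nat_lit 4) (nat_lit 2) (nat_lit 5) (nat_lit 2) (nat_lit 4) (nat_lit 379) (nat_lit 252)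 (nat_lit 149)) (XT.lf (nat_lit 0) (nat_lit 91274298065) (nat_lit 76) (nat_lit 172532955343) (nat_lit 76) (nat_lit 156756759440) (nat_lit 1) (nat_lit 4) (nat_lit 2) (nat_lit 5) (nat_lit 2) (nat_lit 4) (nat_lit 380) (nat_lit 252) (nat_lit 148))) (XT.nd (nat_lit 78) (nat_lit 0) (nat_lit 0) (XT.lf (nat_lit 0) (nat_lit 105534432457) (nat_lit 76) (nat_lit 175790169752) (nat_lit 76) (nat_lit 160009244281) (nat_lit 1) (nat_lit 4) (nat_lit 2) (nat_lit 5) (nat_lit 2) (nat_lit 4) (nat_lit 381) (nat_lit 252) (nat_lit 147)) (XT.nd (nat_lit 78) (nat_lit 0) (nat_lit 0) (XT.lf (nat_lit 0) (nat_lit 120502001749) (nat_lit 76) (nat_lit 179212874174) (nat_lit 76) (nat_lit 163427444353) (nat_lit 1) (nat_lit 4) (nat_lit 2) (nat_lit 5) (nat_lit 2) (nat_lit 4) (nat_lit 382) (nat_lit 252) (nat_lit 146)) (XT.lf (nat_lit 0) (nat_lit 136212643012) (nat_lit 76) (nat_lit 182809217908) (nat_lit 76) (nat_lit 167019498228)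 (nat_lit 1) (nat_lit 4) (nat_lit 2) (nat_lit 5) (nat_lit 2) (nat_lit 4) (nat_lit 383) (nat_lit 252) (nat_lit 145)))))) (XT.nd (nat_lit 390) (nat_lit 0) (nat_lit 0) (XT.nd (nat_lit 156) (nat_lit 0) (nat_lit 0) (XT.nd (nat_lit 78) (nat_lit 0) (nat_lit 0) (XT.lf (nat_lit 0) (nat_lit 152703762535) (nat_lit 76) (nat_lit 186587763674) (nat_lit 76) (nat_lit 170793958416) (nat_lit 1) (nat_lit 4) (nat_lit 2) (nat_lit 5) (nat_lit 2) (nat_lit 4) (nat_lit 384) (nat_lit 252) (nat_lit 144)) (XT.lf (nat_lit 0) (nat_lit 170014624886) (nat_lit 76) (nat_lit 190557508012) (nat_lit 76) (nat_lit 174759811727) (nat_lit 1) (nat_lit 4) (nat_lit 2) (nat_lit 5) (nat_lit 2) (nat_lit 4) (nat_lit 385) (nat_lit 252) (nat_lit 143))) (XT.nd (nat_lit 78) (nat_lit 0) (nat_lit 0) (XT.lf (nat_lit 0) (nat_lit 188186446407) (nat_lit 76) (nat_lit 194727902693) (nat_lit 76) (nat_lit 178926500668) (nat_lit 1) (nat_lit 4) (nat_lit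 2) (nat_lit 5) (nat_lit 2) (nat_lit 4) (nat_lit 386) (nat_lit 252) (nat_lit 142)) (XT.nd (nat_lit 78) (nat_lit 0) (nat_lit 0) (XT.lf (nat_lit 0) (nat_lit 207262493337) (nat_lit 76) (nat_lit 199108877229) (nat_lit 76) (nat_lit 183303945927) (nat_lit 1) (nat_lit 4) (nat_lit 2) (nat_lit 5) (nat_lit 2) (nat_lit 4) (nat_lit 387) (nat_lit 252) (nat_lit 141)) (XT.lf (nat_lit 0) (nat_lit 227288184837) (nat_lit 76) (nat_lit 203710862511) (nat_lit 76) (nat_lit 187902569993) (nat_lit 1) (nat_lit 4) (nat_lit 2) (nat_lit 5) (nat_lit 2) (nat_lit 4) (nat_lit 388) (nat_lit 252) (nat_lit 140))))) (XT.nd (nat_lit 31746) (nat_lit 0) (nat_lit 6156) (XT.nd (nat_lit 31668) (nat_lit 0) (nat_lit 7600) (XT.lf (nat_lit 0) (nat_lit 248311201125) (nat_lit 76) (nat_lit 208544815646) (nat_lit 76) (nat_lit 192733321971) (nat_lit 1) (nat_lit 4) (nat_lit 2) (nat_lit 5) (nat_lit 2) (nat_lit 4) (nat_lit 389) (nat_lit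 252) (nat_lit 139)) (XT.lf (nat_lit 0) (nat_lit 3216051947) (nat_lit 532) (nat_lit 155865936) (nat_lit 532) (nat_lit 155865936) (nat_lit 101) (nat_lit 4) (nat_lit 108) (nat_lit 5) (nat_lit 108) (nat_lit 4) (nat_lit 274) (nat_lit 253) (nat_lit 253))) (XT.nd (nat_lit 78) (nat_lit 760) (nat_lit 0) (XT.lf (nat_lit 0) (nat_lit 2855825364) (nat_lit 684) (nat_lit 3087056831) (nat_lit 0) (nat_lit 1205622399) (nat_lit 92) (nat_lit 5) (nat_lit 101) (nat_lit 4) (nat_lit 92) (nat_lit 4) (nat_lit 275) (nat_lit 253) (nat_lit 252)) (XT.nd (nat_lit 78) (nat_lit 76) (nat_lit 0) (XT.lf (nat_lit 0) (nat_lit 1641780125) (nat_lit 684) (nat_lit 4416009623) (nat_lit 684) (nat_lit 1194184786) (nat_lit 83) (nat_lit 4) (nat_lit 92) (nat_lit 5) (nat_lit 92) (nat_lit 4) (nat_lit 276) (nat_lit 253) (nat_lit 251)) (XT.lf (nat_lit 0) (nat_lit 1893571833) (nat_lit 760) (nat_lit 836785312) (nat_lit 76) (nat_lit 4634064533)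 (nat_lit 82) (nat_lit 5) (nat_lit 92) (nat_lit 5) (nat_lit 83) (nat_lit 4) (nat_lit 277) (nat_lit 253) (nat_lit 250))))))) (XT.nd (nat_lit 780) (nat_lit 1520) (nat_lit 0) (XT.nd (nat_lit 390) (nat_lit 836) (nat_lit 0) (XT.nd (nat_lit 156) (nat_lit 684) (nat_lit 0) (XT.nd (nat_lit 78) (nat_lit 456) (nat_lit 0) (XT.lf (nat_lit 0) (nat_lit 4135696536) (nat_lit 456) (nat_lit 878845646) (nat_lit 532) (nat_lit 2471425594) (nat_lit 76) (nat_lit 5) (nat_lit 82) (nat_lit 5) (nat_lit 83) (nat_lit 4) (nat_lit 278) (nat_lit 253) (nat_lit 249)) (XT.lf (nat_lit 0) (nat_lit 570182108) (nat_lit 456) (nat_lit 5975641916) (nat_lit 76) (nat_lit 1071908180) (nat_lit 70) (nat_lit 5) (nat_lit 76) (nat_lit 5) (nat_lit 71) (nat_lit 4) (nat_lit 279) (nat_lit 253) (nat_lit 248))) (XT.nd (nat_lit 78) (nat_lit 684) (nat_lit 0) (XT.lf (nat_lit 0) (nat_lit 3613441432) (nat_lit 456) (nat_lit 968367162) (nat_lit 76)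 (nat_lit 3175967566) (nat_lit 70) (nat_lit 5) (nat_lit 76) (nat_lit 5) (nat_lit 71) (nat_lit 4) (nat_lit 280) (nat_lit 253) (nat_lit 247)) (XT.nd (nat_lit 78) (nat_lit 380) (nat_lit 0) (XT.lf (nat_lit 0) (nat_lit 4274018656) (nat_lit 304) (nat_lit 2468766316) (nat_lit 380) (nat_lit 1165673119) (nat_lit 66) (nat_lit 5) (nat_lit 70) (nat_lit 5) (nat_lit 71) (nat_lit 4) (nat_lit 281) (nat_lit 253) (nat_lit 246)) (XT.lf (nat_lit 0) (nat_lit 1612772133) (nat_lit 304) (nat_lit 196966916) (nat_lit 380) (nat_lit 6260173941) (nat_lit 61) (nat_lit 5) (nat_lit 65) (nat_lit 5) (nat_lit 66) (nat_lit 5) (nat_lit 282) (nat_lit 253) (nat_lit 245))))) (XT.nd (nat_lit 156) (nat_lit 608) (nat_lit 0) (XT.nd (nat_lit 78) (nat_lit 228) (nat_lit 0) (XT.lf (nat_lit 0) (nat_lit 4863737079) (nat_lit 380) (nat_lit 1200146991) (nat_lit 76) (nat_lit 2176438274) (nat_lit 61) (nat_lit 5) (nat_lit 66) (nat_lit 5) (nat_lit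 62) (nat_lit 4) (nat_lit 283) (nat_lit 253) (nat_lit 244)) (XT.lf (nat_lit 0) (nat_lit 4303716372) (nat_lit 228) (nat_lit 3715485517) (nat_lit 304) (nat_lit 402884938) (nat_lit 58) (nat_lit 5) (nat_lit 61) (nat_lit 5) (nat_lit 62) (nat_lit 4) (nat_lit 284) (nat_lit 253) (nat_lit 243))) (XT.nd (nat_lit 78) (nat_lit 228) (nat_lit 0) (XT.lf (nat_lit 0) (nat_lit 1360986854) (nat_lit 304) (nat_lit 1193016841) (nat_lit 380) (nat_lit 6060983297) (nat_lit 53) (nat_lit 5) (nat_lit 57) (nat_lit 5) (nat_lit 58) (nat_lit 5) (nat_lit 285) (nat_lit 253) (nat_lit 242)) (XT.nd (nat_lit 78) (nat_lit 228) (nat_lit 0) (XT.lf (nat_lit 0) (nat_lit 5621328918) (nat_lit 380) (nat_lit 1742637741) (nat_lit 76) (nat_lit 1454664518) (nat_lit 53) (nat_lit 5) (nat_lit 58) (nat_lit 5) (nat_lit 54) (nat_lit 4) (nat_lit 286) (nat_lit 253) (nat_lit 241)) (XT.lf (nat_lit 0) (nat_lit 4004905893) (nat_lit 228) (nat_lit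 4807310574) (nat_lit 304) (nat_lit 221955903) (nat_lit 50) (nat_lit 5) (nat_lit 53) (nat_lit 5) (nat_lit 54) (nat_lit 4) (nat_lit 287) (nat_lit 253) (nat_lit 240)))))) (XT.nd (nat_lit 390) (nat_lit 684) (nat_lit 0) (XT.nd (nat_lit 156) (nat_lit 532) (nat_lit 0) (XT.nd (nat_lit 78) (nat_lit 0) (nat_lit 0) (XT.lf (nat_lit 0) (nat_lit 667385962) (nat_lit 228) (nat_lit 2071474461) (nat_lit 304) (nat_lit 6523088887) (nat_lit 46) (nat_lit 5) (nat_lit 49) (nat_lit 5) (nat_lit 50) (nat_lit 5) (nat_lit 288) (nat_lit 253) (nat_lit 239)) (XT.lf (nat_lit 0) (nat_lit 5830878333) (nat_lit 304) (nat_lit 2842978412) (nat_lit 76) (nat_lit 827739446) (nat_lit 46) (nat_lit 5) (nat_lit 50) (nat_lit 5) (nat_lit 47) (nat_lit 4) (nat_lit 289) (nat_lit 253) (nat_lit 238))) (XT.nd (nat_lit 78) (nat_lit 304) (nat_lit 0) (XT.lf (nat_lit 0) (nat_lit 3117182565) (nat_lit 228) (nat_lit 5939648122) (nat_lit 304) (nat_lit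 697612830) (nat_lit 43) (nat_lit 5) (nat_lit 46) (nat_lit 5) (nat_lit 47) (nat_lit 4) (nat_lit 290) (nat_lit 253) (nat_lit 237)) (XT.nd (nat_lit 78) (nat_lit 228) (nat_lit 0) (XT.lf (nat_lit 0) (nat_lit 2293077823) (nat_lit 304) (nat_lit 728141722) (nat_lit 76) (nat_lit 6999662966) (nat_lit 42) (nat_lit 5) (nat_lit 46) (nat_lit 5) (nat_lit 43) (nat_lit 5) (nat_lit 291) (nat_lit 253) (nat_lit 236)) (XT.lf (nat_lit 0) (nat_lit 5399839926) (nat_lit 304) (nat_lit 4800415999) (nat_lit 76) (nat_lit 100476275) (nat_lit 39) (nat_lit 5) (nat_lit 43) (nat_lit 5) (nat_lit 40) (nat_lit 4) (nat_lit 292) (nat_lit 253) (nat_lit 235))))) (XT.nd (nat_lit 234) (nat_lit 228) (nat_lit 0) (XT.nd (nat_lit 78) (nat_lit 304) (nat_lit 0) (XT.lf (nat_lit 0) (nat_lit 1323047997) (nat_lit 152) (nat_lit 7325924968) (nat_lit 228) (nat_lit 1946401785) (nat_lit 37) (nat_lit 5) (nat_lit 39) (nat_lit 5) (nat_lit 40)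 (nat_lit 4) (nat_lit 293) (nat_lit 253) (nat_lit 234)) (XT.nd (nat_lit 78) (nat_lit 228) (nat_lit 0) (XT.lf (nat_lit 0) (nat_lit 1106484301) (nat_lit 228) (nat_lit 3142806407) (nat_lit 76) (nat_lit 6655311116) (nat_lit 36) (nat_lit 5) (nat_lit 39) (nat_lit 5) (nat_lit 37) (nat_lit 5) (nat_lit 294) (nat_lit 253) (nat_lit 233)) (XT.lf (nat_lit 0) (nat_lit 3229317765) (nat_lit 228) (nat_lit 977260148) (nat_lit 304) (nat_lit 7023249493) (nat_lit 33) (nat_lit 5) (nat_lit 36) (nat_lit 5) (nat_lit 37) (nat_lit 5) (nat_lit 295) (nat_lit 253) (nat_lit 232)))) (XT.nd (nat_lit 78) (nat_lit 228) (nat_lit 0) (XT.lf (nat_lit 0) (nat_lit 7465238917) (nat_lit 304) (nat_lit 1715722478) (nat_lit 76) (nat_lit 2390299803) (nat_lit 33) (nat_lit 5) (nat_lit 37) (nat_lit 5) (nat_lit 34) (nat_lit 4) (nat_lit 296) (nat_lit 253) (nat_lit 231)) (XT.nd (nat_lit 78) (nat_lit 76) (nat_lit 0) (XT.lf (nat_lit 0) (nat_lit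 4893452883) (nat_lit 152) (nat_lit 6001118540) (nat_lit 228) (nat_lit 1034927446) (nat_lit 31) (nat_lit 5) (nat_lit 33) (nat_lit 5) (nat_lit 34) (nat_lit 4) (nat_lit 297) (nat_lit 253) (nat_lit 230)) (XT.lf (nat_lit 0) (nat_lit 2065051412) (nat_lit 228) (nat_lit 577443488) (nat_lit 76) (nat_lit 9664281472) (nat_lit 30) (nat_lit 5) (nat_lit 33) (nat_lit 5) (nat_lit 31) (nat_lit 5) (nat_lit 298) (nat_lit 253) (nat_lit 229))))))))
noncomputable def xc86 : XT := (XT.nd (nat_lit 1560) (nat_lit 532) (nat_lit 0) (XT.nd (nat_lit 780) (nat_lit 532) (nat_lit 0) (XT.nd (nat_lit 390) (nat_lit 304) (nat_lit 0) (XT.nd (nat_lit 156) (nat_lit 228) (nat_lit 0) (XT.nd (nat_lit 78) (nat_lit 152) (nat_lit 0) (XT.lf (nat_lit 0) (nat_lit 5317895103) (nat_lit 228) (nat_lit 6453695064) (nat_lit 76) (nat_lit 928949864) (nat_lit 28) (nat_lit 5) (nat_lit 31) (nat_lit 5) (nat_lit 29) (nat_lit 4) (nat_lit 299) (nat_lit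 253) (nat_lit 228)) (XT.lf (nat_lit 0) (nat_lit 154061747) (nat_lit 152) (nat_lit 8556066810) (nat_lit 228) (nat_lit 4405123928) (nat_lit 26) (nat_lit 5) (nat_lit 28) (nat_lit 5) (nat_lit 29) (nat_lit 4) (nat_lit 300) (nat_lit 253) (nat_lit 227))) (XT.nd (nat_lit 78) (nat_lit 228) (nat_lit 0) (XT.lf (nat_lit 0) (nat_lit 7192019164) (nat_lit 152) (nat_lit 5112152161) (nat_lit 228) (nat_lit 1245012683) (nat_lit 26) (nat_lit 5) (nat_lit 28) (nat_lit 5) (nat_lit 29) (nat_lit 4) (nat_lit 301) (nat_lit 253) (nat_lit 226)) (XT.nd (nat_lit 78) (nat_lit 0) (nat_lit 0) (XT.lf (nat_lit 0) (nat_lit 437824840) (nat_lit 152) (nat_lit 1501045475) (nat_lit 228) (nat_lit 12067802170) (nat_lit 23) (nat_lit 5) (nat_lit 25) (nat_lit 5) (nat_lit 26) (nat_lit 5) (nat_lit 302) (nat_lit 253) (nat_lit 225)) (XT.lf (nat_lit 0) (nat_lit 5311563387) (nat_lit 228) (nat_lit 6868268269) (nat_lit 76) (nat_lit 2302691020)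 (nat_lit 23) (nat_lit 5) (nat_lit 26) (nat_lit 5) (nat_lit 24) (nat_lit 4) (nat_lit 303) (nat_lit 253) (nat_lit 224))))) (XT.nd (nat_lit 156) (nat_lit 228) (nat_lit 0) (XT.nd (nat_lit 78) (nat_lit 0) (nat_lit 0) (XT.lf (nat_lit 0) (nat_lit 27470621) (nat_lit 76) (nat_lit 8780234746) (nat_lit 152) (nat_lit 6176796078) (nat_lit 22) (nat_lit 5) (nat_lit 23) (nat_lit 5) (nat_lit 24) (nat_lit 4) (nat_lit 304) (nat_lit 253) (nat_lit 223)) (XT.lf (nat_lit 0) (nat_lit 7392179088) (nat_lit 76) (nat_lit 5134130720) (nat_lit 152) (nat_lit 2982959700) (nat_lit 22) (nat_lit 5) (nat_lit 23) (nat_lit 5) (nat_lit 24) (nat_lit 4) (nat_lit 305) (nat_lit 253) (nat_lit 222))) (XT.nd (nat_lit 78) (nat_lit 152) (nat_lit 0) (XT.lf (nat_lit 0) (nat_lit 292176108) (nat_lit 152) (nat_lit 1052031573) (nat_lit 76) (nat_lit 14719171933) (nat_lit 21) (nat_lit 5) (nat_lit 23) (nat_lit 5) (nat_lit 22) (nat_lit 5) (nat_lit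 306) (nat_lit 253) (nat_lit 221)) (XT.nd (nat_lit 78) (nat_lit 0) (nat_lit 0) (XT.lf (nat_lit 0) (nat_lit 3710569223) (nat_lit 228) (nat_lit 10266937514) (nat_lit 76) (nat_lit 2661319230) (nat_lit 19) (nat_lit 5) (nat_lit 22) (nat_lit 5) (nat_lit 20) (nat_lit 4) (nat_lit 307) (nat_lit 253) (nat_lit 220)) (XT.lf (nat_lit 0) (nat_lit 7277397626) (nat_lit 228) (nat_lit 3167550811) (nat_lit 76) (nat_lit 6799280577) (nat_lit 19) (nat_lit 5) (nat_lit 22) (nat_lit 5) (nat_lit 20) (nat_lit 4) (nat_lit 308) (nat_lit 253) (nat_lit 219)))))) (XT.nd (nat_lit 390) (nat_lit 228) (nat_lit 0) (XT.nd (nat_lit 156) (nat_lit 228) (nat_lit 0) (XT.nd (nat_lit 78) (nat_lit 0) (nat_lit 0) (XT.lf (nat_lit 0) (nat_lit 4323668298) (nat_lit 76) (nat_lit 6706756780) (nat_lit 152) (nat_lit 6849141550) (nat_lit 18) (nat_lit 5) (nat_lit 19) (nat_lit 5) (nat_lit 20) (nat_lit 4) (nat_lit 309) (nat_lit 253) (nat_lit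 218)) (XT.lf (nat_lit 0) (nat_lit 12199534700) (nat_lit 76) (nat_lit 2766847120) (nat_lit 152) (nat_lit 3580579971) (nat_lit 18) (nat_lit 5) (nat_lit 19) (nat_lit 5) (nat_lit 20) (nat_lit 4) (nat_lit 310) (nat_lit 253) (nat_lit 217))) (XT.nd (nat_lit 78) (nat_lit 76) (nat_lit 0) (XT.lf (nat_lit 0) (nat_lit 1139197224) (nat_lit 152) (nat_lit 17942911592) (nat_lit 152) (nat_lit 166521246) (nat_lit 16) (nat_lit 4) (nat_lit 18) (nat_lit 5) (nat_lit 18) (nat_lit 4) (nat_lit 311) (nat_lit 253) (nat_lit 216)) (XT.nd (nat_lit 78) (nat_lit 0) (nat_lit 0) (XT.lf (nat_lit 0) (nat_lit 3407479622) (nat_lit 228) (nat_lit 10957643812) (nat_lit 76) (nat_lit 5612704819) (nat_lit 15) (nat_lit 5) (nat_lit 18) (nat_lit 5) (nat_lit 16) (nat_lit 4) (nat_lit 312) (nat_lit 253) (nat_lit 215)) (XT.lf (nat_lit 0) (nat_lit 7101276812) (nat_lit 228) (nat_lit 3544013565) (nat_lit 76) (nat_lit 10100769752) (nat_lit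 15) (nat_lit 5) (nat_lit 18) (nat_lit 5) (nat_lit 16) (nat_lit 4) (nat_lit 313) (nat_lit 253) (nat_lit 214))))) (XT.nd (nat_lit 156) (nat_lit 152) (nat_lit 0) (XT.nd (nat_lit 78) (nat_lit 0) (nat_lit 0) (XT.lf (nat_lit 0) (nat_lit 4288983524) (nat_lit 76) (nat_lit 6706974327) (nat_lit 152) (nat_lit 10555978802) (nat_lit 14) (nat_lit 5) (nat_lit 15) (nat_lit 5) (nat_lit 16) (nat_lit 4) (nat_lit 314) (nat_lit 253) (nat_lit 213)) (XT.lf (nat_lit 0) (nat_lit 12549510543) (nat_lit 76) (nat_lit 2546169683) (nat_lit 152) (nat_lit 7301952131) (nat_lit 14) (nat_lit 5) (nat_lit 15) (nat_lit 5) (nat_lit 16) (nat_lit 4) (nat_lit 315) (nat_lit 253) (nat_lit 212))) (XT.nd (nat_lit 78) (nat_lit 152) (nat_lit 0) (XT.lf (nat_lit 0) (nat_lit 19380943915) (nat_lit 152) (nat_lit 2175864804) (nat_lit 0) (nat_lit 1729815147) (nat_lit 14) (nat_lit 5) (nat_lit 16) (nat_lit 4) (nat_lit 14) (nat_lit 4) (nat_lit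 316) (nat_lit 253) (nat_lit 211)) (XT.nd (nat_lit 78) (nat_lit 76) (nat_lit 0) (XT.lf (nat_lit 0) (nat_lit 5947813851) (nat_lit 76) (nat_lit 18021638635) (nat_lit 76) (nat_lit 246200312) (nat_lit 13) (nat_lit 4) (nat_lit 14) (nat_lit 5) (nat_lit 14) (nat_lit 4) (nat_lit 317) (nat_lit 253) (nat_lit 210)) (XT.lf (nat_lit 0) (nat_lit 3473147632) (nat_lit 152) (nat_lit 10773875728) (nat_lit 76) (nat_lit 10941736091) (nat_lit 12) (nat_lit 5) (nat_lit 14) (nat_lit 5) (nat_lit 13) (nat_lit 4) (nat_lit 318) (nat_lit 253) (nat_lit 209))))))) (XT.nd (nat_lit 780) (nat_lit 228) (nat_lit 0) (XT.nd (nat_lit 390) (nat_lit 152) (nat_lit 0) (XT.nd (nat_lit 156) (nat_lit 76) (nat_lit 0) (XT.nd (nat_lit 78) (nat_lit 76) (nat_lit 0) (XT.lf (nat_lit 0) (nat_lit 7326897104) (nat_lit 152) (nat_lit 2986441741) (nat_lit 76) (nat_lit 15899177289) (nat_lit 12) (nat_lit 5) (nat_lit 14) (nat_lit 5) (nat_lit 13)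 (nat_lit 4) (nat_lit 319) (nat_lit 253) (nat_lit 208)) (XT.lf (nat_lit 0) (nat_lit 5286034515) (nat_lit 76) (nat_lit 6128598942) (nat_lit 152) (nat_lit 15870792608) (nat_lit 11) (nat_lit 5) (nat_lit 12) (nat_lit 5) (nat_lit 13) (nat_lit 4) (nat_lit 320) (nat_lit 253) (nat_lit 207))) (XT.nd (nat_lit 78) (nat_lit 76) (nat_lit 0) (XT.lf (nat_lit 0) (nat_lit 14003487288) (nat_lit 76) (nat_lit 1713449853) (nat_lit 152) (nat_lit 12694564263) (nat_lit 11) (nat_lit 5) (nat_lit 12) (nat_lit 5) (nat_lit 13) (nat_lit 4) (nat_lit 321) (nat_lit 253) (nat_lit 206)) (XT.nd (nat_lit 78) (nat_lit 76) (nat_lit 0) (XT.lf (nat_lit 0) (nat_lit 20241036230) (nat_lit 152) (nat_lit 6553057450) (nat_lit 0) (nat_lit 2799480380) (nat_lit 11) (nat_lit 5) (nat_lit 13) (nat_lit 4) (nat_lit 11) (nat_lit 4) (nat_lit 322) (nat_lit 253) (nat_lit 205)) (XT.lf (nat_lit 0) (nat_lit 1652434603) (nat_lit 76) (nat_lit 23355701271)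 (nat_lit 76) (nat_lit 5825800941) (nat_lit 10) (nat_lit 4) (nat_lit 11) (nat_lit 5) (nat_lit 11) (nat_lit 4) (nat_lit 323) (nat_lit 253) (nat_lit 204))))) (XT.nd (nat_lit 156) (nat_lit 76) (nat_lit 0) (XT.nd (nat_lit 78) (nat_lit 76) (nat_lit 0) (XT.lf (nat_lit 0) (nat_lit 10429778113) (nat_lit 76) (nat_lit 19658435679) (nat_lit 76) (nat_lit 2044397749) (nat_lit 10) (nat_lit 4) (nat_lit 11) (nat_lit 5) (nat_lit 11) (nat_lit 4) (nat_lit 324) (nat_lit 253) (nat_lit 203)) (XT.lf (nat_lit 0) (nat_lit 1829213818) (nat_lit 152) (nat_lit 13944280650) (nat_lit 76) (nat_lit 17723005402) (nat_lit 9) (nat_lit 5) (nat_lit 11) (nat_lit 5) (nat_lit 10) (nat_lit 4) (nat_lit 325) (nat_lit 253) (nat_lit 202))) (XT.nd (nat_lit 78) (nat_lit 76) (nat_lit 0) (XT.lf (nat_lit 0) (nat_lit 5794262377) (nat_lit 152) (nat_lit 5892246387) (nat_lit 76) (nat_lit 23242096632) (nat_lit 9) (nat_lit 5) (nat_lit 11) (nat_lit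 5) (nat_lit 10) (nat_lit 4) (nat_lit 326) (nat_lit 253) (nat_lit 201)) (XT.nd (nat_lit 78) (nat_lit 0) (nat_lit 0) (XT.lf (nat_lit 0) (nat_lit 2587165090) (nat_lit 76) (nat_lit 7378849823) (nat_lit 152) (nat_lit 26465899272) (nat_lit 8) (nat_lit 5) (nat_lit 9) (nat_lit 5) (nat_lit 10) (nat_lit 4) (nat_lit 327) (nat_lit 253) (nat_lit 200)) (XT.lf (nat_lit 0) (nat_lit 11638018659) (nat_lit 76) (nat_lit 2776812733) (nat_lit 152) (nat_lit 23592152793) (nat_lit 8) (nat_lit 5) (nat_lit 9) (nat_lit 5) (nat_lit 10) (nat_lit 4) (nat_lit 328) (nat_lit 253) (nat_lit 199)))))) (XT.nd (nat_lit 390) (nat_lit 152) (nat_lit 0) (XT.nd (nat_lit 156) (nat_lit 76) (nat_lit 0) (XT.nd (nat_lit 78) (nat_lit 0) (nat_lit 0) (XT.lf (nat_lit 0) (nat_lit 19087974037) (nat_lit 152) (nat_lit 18606983715) (nat_lit 0) (nat_lit 1965774317) (nat_lit 8) (nat_lit 5) (nat_lit 10) (nat_lit 4) (nat_lit 8) (nat_lit 4) (nat_lit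 329) (nat_lit 253) (nat_lit 198)) (XT.lf (nat_lit 0) (nat_lit 24011529565) (nat_lit 152) (nat_lit 10555282939) (nat_lit 0) (nat_lit 6829534823) (nat_lit 8) (nat_lit 5) (nat_lit 10) (nat_lit 4) (nat_lit 8) (nat_lit 4) (nat_lit 330) (nat_lit 253) (nat_lit 197))) (XT.nd (nat_lit 78) (nat_lit 76) (nat_lit 0) (XT.lf (nat_lit 0) (nat_lit 29153866897) (nat_lit 152) (nat_lit 2151338652) (nat_lit 0) (nat_lit 11914924516) (nat_lit 8) (nat_lit 5) (nat_lit 10) (nat_lit 4) (nat_lit 8) (nat_lit 4) (nat_lit 331) (nat_lit 253) (nat_lit 196)) (XT.nd (nat_lit 78) (nat_lit 0) (nat_lit 0) (XT.lf (nat_lit 0) (nat_lit 6843906277) (nat_lit 76) (nat_lit 27790175974) (nat_lit 76) (nat_lit 10496997745) (nat_lit 7) (nat_lit 4) (nat_lit 8) (nat_lit 5) (nat_lit 8) (nat_lit 4) (nat_lit 332) (nat_lit 253) (nat_lit 195)) (XT.lf (nat_lit 0) (nat_lit 16316432057) (nat_lit 76) (nat_lit 24082724851) (nat_lit 76) (nat_lit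 6737893435) (nat_lit 7) (nat_lit 4) (nat_lit 8) (nat_lit 5) (nat_lit 8) (nat_lit 4) (nat_lit 333) (nat_lit 253) (nat_lit 194))))) (XT.nd (nat_lit 234) (nat_lit 76) (nat_lit 0) (XT.nd (nat_lit 78) (nat_lit 76) (nat_lit 0) (XT.lf (nat_lit 0) (nat_lit 26217659347) (nat_lit 76) (nat_lit 20210458879) (nat_lit 76) (nat_lit 2816433951) (nat_lit 7) (nat_lit 4) (nat_lit 8) (nat_lit 5) (nat_lit 8) (nat_lit 4) (nat_lit 334) (nat_lit 253) (nat_lit 193)) (XT.nd (nat_lit 78) (nat_lit 0) (nat_lit 0) (XT.lf (nat_lit 0) (nat_lit 1235854582) (nat_lit 152) (nat_lit 14907373998) (nat_lit 76) (nat_lit 35314378121) (nat_lit 6) (nat_lit 5) (nat_lit 8) (nat_lit 5) (nat_lit 7) (nat_lit 4) (nat_lit 335) (nat_lit 253) (nat_lit 192)) (XT.lf (nat_lit 0) (nat_lit 5373630085) (nat_lit 152) (nat_lit 6469554182) (nat_lit 76) (nat_lit 41936957598) (nat_lit 6) (nat_lit 5) (nat_lit 8) (nat_lit 5) (nat_lit 7) (nat_lit 4)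 (nat_lit 336) (nat_lit 253) (nat_lit 191)))) (XT.nd (nat_lit 78) (nat_lit 0) (nat_lit 0) (XT.lf (nat_lit 0) (nat_lit 2428351506) (nat_lit 76) (nat_lit 7306449746) (nat_lit 152) (nat_lit 46483189214) (nat_lit 5) (nat_lit 5) (nat_lit 6) (nat_lit 5) (nat_lit 7) (nat_lit 4) (nat_lit 337) (nat_lit 253) (nat_lit 190)) (XT.nd (nat_lit 78) (nat_lit 0) (nat_lit 0) (XT.lf (nat_lit 0) (nat_lit 11956870801) (nat_lit 76) (nat_lit 2445730900) (nat_lit 152) (nat_lit 44370712713) (nat_lit 5) (nat_lit 5) (nat_lit 6) (nat_lit 5) (nat_lit 7) (nat_lit 4) (nat_lit 338) (nat_lit 253) (nat_lit 189)) (XT.lf (nat_lit 0) (nat_lit 19325030698) (nat_lit 152) (nat_lit 39573870325) (nat_lit 0) (nat_lit 2556452515) (nat_lit 5) (nat_lit 5) (nat_lit 7) (nat_lit 4) (nat_lit 5) (nat_lit 4) (nat_lit 339) (nat_lit 253) (nat_lit 188))))))))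
noncomputable def xc87 : XT := (XT.nd (nat_lit 1560) (nat_lit 76) (nat_lit 0) (XT.nd (nat_lit 780) (nat_lit 152) (nat_lit 0) (XT.nd (nat_lit 390) (nat_lit 0) (nat_lit 0) (XT.nd (nat_lit 156) (nat_lit 76) (nat_lit 0) (XT.nd (nat_lit 78) (nat_lit 0) (nat_lit 0) (XT.lf (nat_lit 0) (nat_lit 24514379211) (nat_lit 152) (nat_lit 32045245775) (nat_lit 0) (nat_lit 7710840118) (nat_lit 5) (nat_lit 5) (nat_lit 7) (nat_lit 4) (nat_lit 5) (nat_lit 4) (nat_lit 340) (nat_lit 253) (nat_lit 187)) (XT.lf (nat_lit 0) (nat_lit 29944818119) (nat_lit 152) (nat_lit 24174459951) (nat_lit 0) (nat_lit 13107982920) (nat_lit 5) (nat_lit 5) (nat_lit 7) (nat_lit 4) (nat_lit 5) (nat_lit 4) (nat_lit 341) (nat_lit 253) (nat_lit 186))) (XT.nd (nat_lit 78) (nat_lit 76) (nat_lit 0) (XT.lf (nat_lit 0) (nat_lit 35629277038) (nat_lit 152) (nat_lit 15942772889) (nat_lit 0) (nat_lit 18760731263) (nat_lit 5) (nat_lit 5) (nat_lit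 7) (nat_lit 4) (nat_lit 5) (nat_lit 4) (nat_lit 342) (nat_lit 253) (nat_lit 185)) (XT.nd (nat_lit 78) (nat_lit 76) (nat_lit 0) (XT.lf (nat_lit 0) (nat_lit 41581290394) (nat_lit 152) (nat_lit 7330585332) (nat_lit 0) (nat_lit 24682544070) (nat_lit 5) (nat_lit 5) (nat_lit 7) (nat_lit 4) (nat_lit 5) (nat_lit 4) (nat_lit 343) (nat_lit 253) (nat_lit 184)) (XT.lf (nat_lit 0) (nat_lit 1738242543) (nat_lit 76) (nat_lit 46103925942) (nat_lit 76) (nat_lit 29176417190) (nat_lit 4) (nat_lit 4) (nat_lit 5) (nat_lit 5) (nat_lit 5) (nat_lit 4) (nat_lit 344) (nat_lit 253) (nat_lit 183))))) (XT.nd (nat_lit 156) (nat_lit 0) (nat_lit 0) (XT.nd (nat_lit 78) (nat_lit 0) (nat_lit 0) (XT.lf (nat_lit 0) (nat_lit 11485886986) (nat_lit 76) (nat_lit 43038776935) (nat_lit 76) (nat_lit 26083875395) (nat_lit 4) (nat_lit 4) (nat_lit 5) (nat_lit 5) (nat_lit 5) (nat_lit 4) (nat_lit 345) (nat_lit 253) (nat_lit 182)) (XT.lf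 (nat_lit 0) (nat_lit 21693174416) (nat_lit 76) (nat_lit 39833277740) (nat_lit 76) (nat_lit 22852287830) (nat_lit 4) (nat_lit 4) (nat_lit 5) (nat_lit 5) (nat_lit 5) (nat_lit 4) (nat_lit 346) (nat_lit 253) (nat_lit 181))) (XT.nd (nat_lit 78) (nat_lit 0) (nat_lit 0) (XT.lf (nat_lit 0) (nat_lit 32384407898) (nat_lit 76) (nat_lit 36479796218) (nat_lit 76) (nat_lit 19473960241) (nat_lit 4) (nat_lit 4) (nat_lit 5) (nat_lit 5) (nat_lit 5) (nat_lit 4) (nat_lit 347) (nat_lit 253) (nat_lit 180)) (XT.nd (nat_lit 78) (nat_lit 0) (nat_lit 0) (XT.lf (nat_lit 0) (nat_lit 43585042751) (nat_lit 76) (nat_lit 32970347888) (nat_lit 76) (nat_lit 15940848991) (nat_lit 4) (nat_lit 4) (nat_lit 5) (nat_lit 5) (nat_lit 5) (nat_lit 4) (nat_lit 348) (nat_lit 253) (nat_lit 179)) (XT.lf (nat_lit 0) (nat_lit 55321747152) (nat_lit 76) (nat_lit 29296576920) (nat_lit 76) (nat_lit 12244541908) (nat_lit 4) (nat_lit 4) (nat_lit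 5) (nat_lit 5) (nat_lit 5) (nat_lit 4) (nat_lit 349) (nat_lit 253) (nat_lit 178)))))) (XT.nd (nat_lit 390) (nat_lit 0) (nat_lit 0) (XT.nd (nat_lit 156) (nat_lit 152) (nat_lit 0) (XT.nd (nat_lit 78) (nat_lit 0) (nat_lit 0) (XT.lf (nat_lit 0) (nat_lit 67622465636) (nat_lit 76) (nat_lit 25449736242) (nat_lit 76) (nat_lit 8376238264) (nat_lit 4) (nat_lit 4) (nat_lit 5) (nat_lit 5) (nat_lit 5) (nat_lit 4) (nat_lit 350) (nat_lit 253) (nat_lit 177)) (XT.lf (nat_lit 0) (nat_lit 80516485627) (nat_lit 76) (nat_lit 21420666708) (nat_lit 76) (nat_lit 4326727809) (nat_lit 4) (nat_lit 4) (nat_lit 5) (nat_lit 5) (nat_lit 5) (nat_lit 4) (nat_lit 351) (nat_lit 253) (nat_lit 176))) (XT.nd (nat_lit 78) (nat_lit 152) (nat_lit 0) (XT.lf (nat_lit 0) (nat_lit 94034507175) (nat_lit 76) (nat_lit 17199775296) (nat_lit 76) (nat_lit 86368854) (nat_lit 4) (nat_lit 4) (nat_lit 5) (nat_lit 5) (nat_lit 5) (nat_lit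 4) (nat_lit 352) (nat_lit 253) (nat_lit 175)) (XT.nd (nat_lit 78) (nat_lit 76) (nat_lit 0) (XT.lf (nat_lit 0) (nat_lit 4215549586) (nat_lit 152) (nat_lit 8490070306) (nat_lit 76) (nat_lit 103921774084) (nat_lit 3) (nat_lit 5) (nat_lit 5) (nat_lit 5) (nat_lit 4) (nat_lit 4) (nat_lit 353) (nat_lit 253) (nat_lit 174)) (XT.lf (nat_lit 0) (nat_lit 749254633) (nat_lit 76) (nat_lit 7981896209) (nat_lit 152) (nat_lit 113468182646) (nat_lit 2) (nat_lit 5) (nat_lit 3) (nat_lit 5) (nat_lit 4) (nat_lit 4) (nat_lit 354) (nat_lit 253) (nat_lit 173))))) (XT.nd (nat_lit 156) (nat_lit 0) (nat_lit 0) (XT.nd (nat_lit 78) (nat_lit 0) (nat_lit 0) (XT.lf (nat_lit 0) (nat_lit 10726492696) (nat_lit 76) (nat_lit 2879806858) (nat_lit 152) (nat_lit 114436886812) (nat_lit 2) (nat_lit 5) (nat_lit 3) (nat_lit 5) (nat_lit 4) (nat_lit 4) (nat_lit 355) (nat_lit 253) (nat_lit 172)) (XT.lf (nat_lit 0) (nat_lit 18754214805)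 (nat_lit 152) (nat_lit 113033582437) (nat_lit 0) (nat_lit 2389988722) (nat_lit 2) (nat_lit 5) (nat_lit 4) (nat_lit 4) (nat_lit 2) (nat_lit 4) (nat_lit 356) (nat_lit 253) (nat_lit 171))) (XT.nd (nat_lit 78) (nat_lit 0) (nat_lit 0) (XT.lf (nat_lit 0) (nat_lit 24197526386) (nat_lit 152) (nat_lit 108600920120) (nat_lit 0) (nat_lit 7818773323) (nat_lit 2) (nat_lit 5) (nat_lit 4) (nat_lit 4) (nat_lit 2) (nat_lit 4) (nat_lit 357) (nat_lit 253) (nat_lit 170)) (XT.nd (nat_lit 78) (nat_lit 0) (nat_lit 0) (XT.lf (nat_lit 0) (nat_lit 29904232707) (nat_lit 152) (nat_lit 103963190908) (nat_lit 0) (nat_lit 13511644425) (nat_lit 2) (nat_lit 5) (nat_lit 4) (nat_lit 4) (nat_lit 2) (nat_lit 4) (nat_lit 358) (nat_lit 253) (nat_lit 169)) (XT.lf (nat_lit 0) (nat_lit 35887921165) (nat_lit 152) (nat_lit 99109352587) (nat_lit 0) (nat_lit 19482156483) (nat_lit 2) (nat_lit 5) (nat_lit 4) (nat_lit 4) (nat_lit 2)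 (nat_lit 4) (nat_lit 359) (nat_lit 253) (nat_lit 168))))))) (XT.nd (nat_lit 780) (nat_lit 76) (nat_lit 0) (XT.nd (nat_lit 390) (nat_lit 0) (nat_lit 0) (XT.nd (nat_lit 156) (nat_lit 0) (nat_lit 0) (XT.nd (nat_lit 78) (nat_lit 0) (nat_lit 0) (XT.lf (nat_lit 0) (nat_lit 42162838636) (nat_lit 152) (nat_lit 94027848400) (nat_lit 0) (nat_lit 25744525002) (nat_lit 2) (nat_lit 5) (nat_lit 4) (nat_lit 4) (nat_lit 2) (nat_lit 4) (nat_lit 360) (nat_lit 253) (nat_lit 167)) (XT.lf (nat_lit 0) (nat_lit 48743925401) (nat_lit 152) (nat_lit 88706579527) (nat_lit 0) (nat_lit 32313660384) (nat_lit 2) (nat_lit 5) (nat_lit 4) (nat_lit 4) (nat_lit 2) (nat_lit 4) (nat_lit 361) (nat_lit 253) (nat_lit 166))) (XT.nd (nat_lit 78) (nat_lit 0) (nat_lit 0) (XT.lf (nat_lit 0) (nat_lit 55646850713) (nat_lit 152) (nat_lit 83132876281) (nat_lit 0) (nat_lit 39205203427) (nat_lit 2) (nat_lit 5) (nat_lit 4) (nat_lit 4)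 (nat_lit 2) (nat_lit 4) (nat_lit 362) (nat_lit 253) (nat_lit 165)) (XT.nd (nat_lit 78) (nat_lit 0) (nat_lit 0) (XT.lf (nat_lit 0) (nat_lit 62888050110) (nat_lit 152) (nat_lit 77293467938) (nat_lit 0) (nat_lit 46435562567) (nat_lit 2) (nat_lit 5) (nat_lit 4) (nat_lit 4) (nat_lit 2) (nat_lit 4) (nat_lit 363) (nat_lit 253) (nat_lit 164)) (XT.lf (nat_lit 0) (nat_lit 70484764541) (nat_lit 152) (nat_lit 71174451147) (nat_lit 0) (nat_lit 54021952944) (nat_lit 2) (nat_lit 5) (nat_lit 4) (nat_lit 4) (nat_lit 2) (nat_lit 4) (nat_lit 364) (nat_lit 253) (nat_lit 163))))) (XT.nd (nat_lit 156) (nat_lit 0) (nat_lit 0) (XT.nd (nat_lit 78) (nat_lit 0) (nat_lit 0) (XT.lf (nat_lit 0) (nat_lit 78455081422) (nat_lit 152) (nat_lit 64761256819) (nat_lit 0) (nat_lit 61982437394) (nat_lit 2) (nat_lit 5) (nat_lit 4) (nat_lit 4) (nat_lit 2) (nat_lit 4) (nat_lit 365) (nat_lit 253) (nat_lit 162)) (XT.lf (nat_lit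 0) (nat_lit 86817977699) (nat_lit 152) (nat_lit 58038615445) (nat_lit 0) (nat_lit 70335969449) (nat_lit 2) (nat_lit 5) (nat_lit 4) (nat_lit 4) (nat_lit 2) (nat_lit 4) (nat_lit 366) (nat_lit 253) (nat_lit 161))) (XT.nd (nat_lit 78) (nat_lit 0) (nat_lit 0) (XT.lf (nat_lit 0) (nat_lit 95593365029) (nat_lit 152) (nat_lit 50990520735) (nat_lit 0) (nat_lit 79102438473) (nat_lit 2) (nat_lit 5) (nat_lit 4) (nat_lit 4) (nat_lit 2) (nat_lit 4) (nat_lit 367) (nat_lit 253) (nat_lit 160)) (XT.nd (nat_lit 78) (nat_lit 0) (nat_lit 0) (XT.lf (nat_lit 0) (nat_lit 104802137191) (nat_lit 152) (nat_lit 43600191511) (nat_lit 0) (nat_lit 88302717011) (nat_lit 2) (nat_lit 5) (nat_lit 4) (nat_lit 4) (nat_lit 2) (nat_lit 4) (nat_lit 368) (nat_lit 253) (nat_lit 159)) (XT.lf (nat_lit 0) (nat_lit 114466219833) (nat_lit 152) (nat_lit 35850031752) (nat_lit 0) (nat_lit 97958710487) (nat_lit 2) (nat_lit 5) (nat_lit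 4) (nat_lit 4) (nat_lit 2) (nat_lit 4) (nat_lit 369) (nat_lit 253) (nat_lit 158)))))) (XT.nd (nat_lit 390) (nat_lit 0) (nat_lit 0) (XT.nd (nat_lit 156) (nat_lit 76) (nat_lit 0) (XT.nd (nat_lit 78) (nat_lit 0) (nat_lit 0) (XT.lf (nat_lit 0) (nat_lit 124608622677) (nat_lit 152) (nat_lit 27721588695) (nat_lit 0) (nat_lit 108093409362) (nat_lit 2) (nat_lit 5) (nat_lit 4) (nat_lit 4) (nat_lit 2) (nat_lit 4) (nat_lit 370) (nat_lit 253) (nat_lit 157)) (XT.lf (nat_lit 0) (nat_lit 135253494300) (nat_lit 152) (nat_lit 19195508906) (nat_lit 0) (nat_lit 118730943873) (nat_lit 2) (nat_lit 5) (nat_lit 4) (nat_lit 4) (nat_lit 2) (nat_lit 4) (nat_lit 371) (nat_lit 253) (nat_lit 156))) (XT.nd (nat_lit 78) (nat_lit 76) (nat_lit 0) (XT.lf (nat_lit 0) (nat_lit 146426179634) (nat_lit 152) (nat_lit 10251492194) (nat_lit 0) (nat_lit 129896641481) (nat_lit 2) (nat_lit 5) (nat_lit 4) (nat_lit 4) (nat_lit 2)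 (nat_lit 4) (nat_lit 372) (nat_lit 253) (nat_lit 155)) (XT.nd (nat_lit 78) (nat_lit 76) (nat_lit 0) (XT.lf (nat_lit 0) (nat_lit 158153280311) (nat_lit 152) (nat_lit 868243282) (nat_lit 0) (nat_lit 141617087181) (nat_lit 2) (nat_lit 5) (nat_lit 4) (nat_lit 4) (nat_lit 2) (nat_lit 4) (nat_lit 373) (nat_lit 253) (nat_lit 154)) (XT.lf (nat_lit 0) (nat_lit 9273385137) (nat_lit 76) (nat_lit 161334116394) (nat_lit 76) (nat_lit 144791585190) (nat_lit 1) (nat_lit 4) (nat_lit 2) (nat_lit 5) (nat_lit 2) (nat_lit 4) (nat_lit 374) (nat_lit 253) (nat_lit 153))))) (XT.nd (nat_lit 234) (nat_lit 0) (nat_lit 0) (XT.nd (nat_lit 78) (nat_lit 0) (nat_lit 0) (XT.lf (nat_lit 0) (nat_lit 19944771654) (nat_lit 76) (nat_lit 163750423013) (nat_lit 76) (nat_lit 147201855549) (nat_lit 1) (nat_lit 4) (nat_lit 2) (nat_lit 5) (nat_lit 2) (nat_lit 4) (nat_lit 375) (nat_lit 253) (nat_lit 152)) (XT.nd (nat_lit 78) (nat_lit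 0) (nat_lit 0) (XT.lf (nat_lit 0) (nat_lit 31142616287) (nat_lit 76) (nat_lit 166290900681) (nat_lit 76) (nat_lit 149736584398) (nat_lit 1) (nat_lit 4) (nat_lit 2) (nat_lit 5) (nat_lit 2) (nat_lit 4) (nat_lit 376) (nat_lit 253) (nat_lit 151)) (XT.lf (nat_lit 0) (nat_lit 42893580571) (nat_lit 76) (nat_lit 168961598157) (nat_lit 76) (nat_lit 152401806807) (nat_lit 1) (nat_lit 4) (nat_lit 2) (nat_lit 5) (nat_lit 2) (nat_lit 4) (nat_lit 377) (nat_lit 253) (nat_lit 150)))) (XT.nd (nat_lit 78) (nat_lit 0) (nat_lit 0) (XT.lf (nat_lit 0) (nat_lit 55225642993) (nat_lit 76) (nat_lit 171768874242) (nat_lit 76) (nat_lit 155203868544) (nat_lit 1) (nat_lit 4) (nat_lit 2) (nat_lit 5) (nat_lit 2) (nat_lit 4) (nat_lit 378) (nat_lit 253) (nat_lit 149)) (XT.nd (nat_lit 78) (nat_lit 0) (nat_lit 0) (XT.lf (nat_lit 0) (nat_lit 68168165606) (nat_lit 76) (nat_lit 174719412928) (nat_lit 76) (nat_lit 158149441183)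 (nat_lit 1) (nat_lit 4) (nat_lit 2) (nat_lit 5) (nat_lit 2) (nat_lit 4) (nat_lit 379) (nat_lit 253) (nat_lit 148)) (XT.lf (nat_lit 0) (nat_lit 81751963939) (nat_lit 76) (nat_lit 177820239306) (nat_lit 76) (nat_lit 161245537993) (nat_lit 1) (nat_lit 4) (nat_lit 2) (nat_lit 5) (nat_lit 2) (nat_lit 4) (nat_lit 380) (nat_lit 253) (nat_lit 147))))))))
noncomputable def xc88 : XT := (XT.nd (nat_lit 32994) (nat_lit 0) (nat_lit 1824) (XT.nd (nat_lit 32214) (nat_lit 0) (nat_lit 4560) (XT.nd (nat_lit 390) (nat_lit 0) (nat_lit 0) (XT.nd (nat_lit 156) (nat_lit 0) (nat_lit 0) (XT.nd (nat_lit 78) (nat_lit 0) (nat_lit 0) (XT.lf (nat_lit 0) (nat_lit 96009380371) (nat_lit 76) (nat_lit 181078736297) (nat_lit 76) (nat_lit 164499530634) (nat_lit 1) (nat_lit 4) (nat_lit 2) (nat_lit 5) (nat_lit 2) (nat_lit 4) (nat_lit 381) (nat_lit 253) (nat_lit 146)) (XT.lf (nat_lit 0) (nat_lit 110974361129) (nat_lit 76)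 (nat_lit 184502662227) (nat_lit 76) (nat_lit 167919166706) (nat_lit 1) (nat_lit 4) (nat_lit 2) (nat_lit 5) (nat_lit 2) (nat_lit 4) (nat_lit 382) (nat_lit 253) (nat_lit 145))) (XT.nd (nat_lit 78) (nat_lit 0) (nat_lit 0) (XT.lf (nat_lit 0) (nat_lit 126682537122) (nat_lit 76) (nat_lit 188100169300) (nat_lit 76) (nat_lit 171512588200) (nat_lit 1) (nat_lit 4) (nat_lit 2) (nat_lit 5) (nat_lit 2) (nat_lit 4) (nat_lit 383) (nat_lit 253) (nat_lit 144)) (XT.nd (nat_lit 78) (nat_lit 0) (nat_lit 0) (XT.lf (nat_lit 0) (nat_lit 143171308768) (nat_lit 76) (nat_lit 191879823009) (nat_lit 76) (nat_lit 175288350883) (nat_lit 1) (nat_lit 4) (nat_lit 2) (nat_lit 5) (nat_lit 2) (nat_lit 4) (nat_lit 384) (nat_lit 253) (nat_lit 143)) (XT.lf (nat_lit 0) (nat_lit 160479935047) (nat_lit 76) (nat_lit 195850622531) (nat_lit 76) (nat_lit 179255444664) (nat_lit 1) (nat_lit 4) (nat_lit 2) (nat_lit 5) (nat_lit 2) (nat_lit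 4) (nat_lit 385) (nat_lit 253) (nat_lit 142))))) (XT.nd (nat_lit 156) (nat_lit 0) (nat_lit 0) (XT.nd (nat_lit 78) (nat_lit 0) (nat_lit 0) (XT.lf (nat_lit 0) (nat_lit 178649626975) (nat_lit 76) (nat_lit 200022022149) (nat_lit 76) (nat_lit 183423315005) (nat_lit 1) (nat_lit 4) (nat_lit 2) (nat_lit 5) (nat_lit 2) (nat_lit 4) (nat_lit 386) (nat_lit 253) (nat_lit 141)) (XT.lf (nat_lit 0) (nat_lit 197723645721) (nat_lit 76) (nat_lit 204403953767) (nat_lit 76) (nat_lit 187801885408) (nat_lit 1) (nat_lit 4) (nat_lit 2) (nat_lit 5) (nat_lit 2) (nat_lit 4) (nat_lit 387) (nat_lit 253) (nat_lit 140))) (XT.nd (nat_lit 78) (nat_lit 0) (nat_lit 0) (XT.lf (nat_lit 0) (nat_lit 217747405618) (nat_lit 76) (nat_lit 209006850556) (nat_lit 76) (nat_lit 192401581039) (nat_lit 1) (nat_lit 4) (nat_lit 2) (nat_lit 5) (nat_lit 2) (nat_lit 4) (nat_lit 388) (nat_lit 253) (nat_lit 139)) (XT.nd (nat_lit 31512) (nat_lit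 0) (nat_lit 8132) (XT.lf (nat_lit 0) (nat_lit 238768582283) (nat_lit 76) (nat_lit 213841671794) (nat_lit 76) (nat_lit 197233353555) (nat_lit 1) (nat_lit 4) (nat_lit 2) (nat_lit 5) (nat_lit 2) (nat_lit 4) (nat_lit 389) (nat_lit 253) (nat_lit 138)) (XT.lf (nat_lit 0) (nat_lit 1072775505) (nat_lit 532) (nat_lit 1298671228) (nat_lit 0) (nat_lit 1072775505) (nat_lit 108) (nat_lit 5) (nat_lit 115) (nat_lit 4) (nat_lit 108) (nat_lit 4) (nat_lit 272) (nat_lit 254) (nat_lit 254)))))) (XT.nd (nat_lit 390) (nat_lit 1596) (nat_lit 0) (XT.nd (nat_lit 156) (nat_lit 1368) (nat_lit 0) (XT.nd (nat_lit 78) (nat_lit 76) (nat_lit 0) (XT.lf (nat_lit 0) (nat_lit 1799603896) (nat_lit 532) (nat_lit 3494345964) (nat_lit 532) (nat_lit 1674997195) (nat_lit 101) (nat_lit 4) (nat_lit 108) (nat_lit 5) (nat_lit 108) (nat_lit 4) (nat_lit 273) (nat_lit 254) (nat_lit 253)) (XT.lf (nat_lit 0) (nat_lit 1381128078) (nat_lit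 608) (nat_lit 720749320) (nat_lit 76) (nat_lit 4956664279) (nat_lit 100) (nat_lit 5) (nat_lit 108) (nat_lit 5) (nat_lit 101) (nat_lit 4) (nat_lit 274) (nat_lit 254) (nat_lit 252))) (XT.nd (nat_lit 78) (nat_lit 760) (nat_lit 0) (XT.lf (nat_lit 0) (nat_lit 3903777382) (nat_lit 608) (nat_lit 538194437) (nat_lit 684) (nat_lit 2714328040) (nat_lit 92) (nat_lit 5) (nat_lit 100) (nat_lit 5) (nat_lit 101) (nat_lit 4) (nat_lit 275) (nat_lit 254) (nat_lit 251)) (XT.nd (nat_lit 78) (nat_lit 0) (nat_lit 0) (XT.lf (nat_lit 0) (nat_lit 286173917) (nat_lit 760) (nat_lit 5864664154) (nat_lit 76) (nat_lit 1113123264) (nat_lit 82) (nat_lit 5) (nat_lit 92) (nat_lit 5) (nat_lit 83) (nat_lit 4) (nat_lit 276) (nat_lit 254) (nat_lit 250)) (XT.lf (nat_lit 0) (nat_lit 3264679177) (nat_lit 760) (nat_lit 1184235736) (nat_lit 76) (nat_lit 2930309594) (nat_lit 82) (nat_lit 5) (nat_lit 92) (nat_lit 5) (nat_lit 83)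 (nat_lit 4) (nat_lit 277) (nat_lit 254) (nat_lit 249))))) (XT.nd (nat_lit 156) (nat_lit 684) (nat_lit 0) (XT.nd (nat_lit 78) (nat_lit 456) (nat_lit 0) (XT.lf (nat_lit 0) (nat_lit 3703620693) (nat_lit 456) (nat_lit 2607635310) (nat_lit 532) (nat_lit 1193421666) (nat_lit 76) (nat_lit 5) (nat_lit 82) (nat_lit 5) (nat_lit 83) (nat_lit 4) (nat_lit 278) (nat_lit 254) (nat_lit 248)) (XT.lf (nat_lit 0) (nat_lit 1099526372) (nat_lit 380) (nat_lit 614951805) (nat_lit 456) (nat_lit 5925776415) (nat_lit 70) (nat_lit 5) (nat_lit 75) (nat_lit 5) (nat_lit 76) (nat_lit 5) (nat_lit 279) (nat_lit 254) (nat_lit 247))) (XT.nd (nat_lit 78) (nat_lit 684) (nat_lit 0) (XT.lf (nat_lit 0) (nat_lit 4683351912) (nat_lit 456) (nat_lit 1598022083) (nat_lit 76) (nat_lit 1502805705) (nat_lit 70) (nat_lit 5) (nat_lit 76) (nat_lit 5) (nat_lit 71) (nat_lit 4) (nat_lit 280) (nat_lit 254) (nat_lit 246)) (XT.nd (nat_lit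 78) (nat_lit 380) (nat_lit 0) (XT.lf (nat_lit 0) (nat_lit 3550571049) (nat_lit 304) (nat_lit 4189129864) (nat_lit 380) (nat_lit 198964608) (nat_lit 66) (nat_lit 5) (nat_lit 70) (nat_lit 5) (nat_lit 71) (nat_lit 4) (nat_lit 281) (nat_lit 254) (nat_lit 245)) (XT.lf (nat_lit 0) (nat_lit 744582279) (nat_lit 304) (nat_lit 1926399992) (nat_lit 380) (nat_lit 5432249560) (nat_lit 61) (nat_lit 5) (nat_lit 65) (nat_lit 5) (nat_lit 66) (nat_lit 5) (nat_lit 282) (nat_lit 254) (nat_lit 244))))))) (XT.nd (nat_lit 780) (nat_lit 1064) (nat_lit 0) (XT.nd (nat_lit 390) (nat_lit 760) (nat_lit 0) (XT.nd (nat_lit 156) (nat_lit 608) (nat_lit 0) (XT.nd (nat_lit 78) (nat_lit 304) (nat_lit 0) (XT.lf (nat_lit 0) (nat_lit 5638635023) (nat_lit 380) (nat_lit 2148067574) (nat_lit 76) (nat_lit 491389024) (nat_lit 61) (nat_lit 5) (nat_lit 66) (nat_lit 5) (nat_lit 62) (nat_lit 4) (nat_lit 283) (nat_lit 254) (nat_lit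 243)) (XT.lf (nat_lit 0) (nat_lit 249292599) (nat_lit 304) (nat_lit 5215426374) (nat_lit 76) (nat_lit 2998709662) (nat_lit 57) (nat_lit 5) (nat_lit 61) (nat_lit 5) (nat_lit 58) (nat_lit 5) (nat_lit 284) (nat_lit 254) (nat_lit 242))) (XT.nd (nat_lit 78) (nat_lit 304) (nat_lit 0) (XT.lf (nat_lit 0) (nat_lit 148066185) (nat_lit 304) (nat_lit 2970365447) (nat_lit 380) (nat_lit 5541440438) (nat_lit 53) (nat_lit 5) (nat_lit 57) (nat_lit 5) (nat_lit 58) (nat_lit 5) (nat_lit 285) (nat_lit 254) (nat_lit 241)) (XT.nd (nat_lit 78) (nat_lit 304) (nat_lit 0) (XT.lf (nat_lit 0) (nat_lit 5818095849) (nat_lit 304) (nat_lit 289856899) (nat_lit 380) (nat_lit 2759563273) (nat_lit 53) (nat_lit 5) (nat_lit 57) (nat_lit 5) (nat_lit 58) (nat_lit 5) (nat_lit 286) (nat_lit 254) (nat_lit 240)) (XT.lf (nat_lit 0) (nat_lit 128866993) (nat_lit 304) (nat_lit 6500616681) (nat_lit 76) (nat_lit 2457504952) (nat_lit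 49) (nat_lit 5) (nat_lit 53) (nat_lit 5) (nat_lit 50) (nat_lit 5) (nat_lit 287) (nat_lit 254) (nat_lit 239))))) (XT.nd (nat_lit 156) (nat_lit 532) (nat_lit 0) (XT.nd (nat_lit 78) (nat_lit 228) (nat_lit 0) (XT.lf (nat_lit 0) (nat_lit 3020672396) (nat_lit 304) (nat_lit 898240559) (nat_lit 76) (nat_lit 5398869334) (nat_lit 49) (nat_lit 5) (nat_lit 53) (nat_lit 5) (nat_lit 50) (nat_lit 5) (nat_lit 288) (nat_lit 254) (nat_lit 238)) (XT.lf (nat_lit 0) (nat_lit 5008979258) (nat_lit 228) (nat_lit 1025770420) (nat_lit 304) (nat_lit 3526666660) (nat_lit 46) (nat_lit 5) (nat_lit 49) (nat_lit 5) (nat_lit 50) (nat_lit 5) (nat_lit 289) (nat_lit 254) (nat_lit 237))) (XT.nd (nat_lit 78) (nat_lit 304) (nat_lit 0) (XT.lf (nat_lit 0) (nat_lit 1298244591) (nat_lit 228) (nat_lit 7870056113) (nat_lit 304) (nat_lit 650668871) (nat_lit 43) (nat_lit 5) (nat_lit 46) (nat_lit 5) (nat_lit 47) (nat_lit 4) (nat_lit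 290) (nat_lit 254) (nat_lit 236)) (XT.nd (nat_lit 78) (nat_lit 228) (nat_lit 0) (XT.lf (nat_lit 0) (nat_lit 2290938199) (nat_lit 304) (nat_lit 2680181757) (nat_lit 76) (nat_lit 5116708886) (nat_lit 42) (nat_lit 5) (nat_lit 46) (nat_lit 5) (nat_lit 43) (nat_lit 5) (nat_lit 291) (nat_lit 254) (nat_lit 235)) (XT.lf (nat_lit 0) (nat_lit 3418685689) (nat_lit 228) (nat_lit 1899552057) (nat_lit 304) (nat_lit 5053488068) (nat_lit 39) (nat_lit 5) (nat_lit 42) (nat_lit 5) (nat_lit 43) (nat_lit 5) (nat_lit 292) (nat_lit 254) (nat_lit 234)))))) (XT.nd (nat_lit 390) (nat_lit 456) (nat_lit 0) (XT.nd (nat_lit 156) (nat_lit 380) (nat_lit 0) (XT.nd (nat_lit 78) (nat_lit 228) (nat_lit 0) (XT.lf (nat_lit 0) (nat_lit 8472603805) (nat_lit 304) (nat_lit 907809829) (nat_lit 76) (nat_lit 1290763703) (nat_lit 39) (nat_lit 5) (nat_lit 43) (nat_lit 5) (nat_lit 40) (nat_lit 4) (nat_lit 293) (nat_lit 254) (nat_lit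 233)) (XT.lf (nat_lit 0) (nat_lit 803382659) (nat_lit 228) (nat_lit 5542048955) (nat_lit 76) (nat_lit 4638183759) (nat_lit 36) (nat_lit 5) (nat_lit 39) (nat_lit 5) (nat_lit 37) (nat_lit 5) (nat_lit 294) (nat_lit 254) (nat_lit 232))) (XT.nd (nat_lit 78) (nat_lit 152) (nat_lit 0) (XT.lf (nat_lit 0) (nat_lit 685799235) (nat_lit 228) (nat_lit 3135947644) (nat_lit 304) (nat_lit 7491241554) (nat_lit 33) (nat_lit 5) (nat_lit 36) (nat_lit 5) (nat_lit 37) (nat_lit 5) (nat_lit 295) (nat_lit 254) (nat_lit 231)) (XT.nd (nat_lit 78) (nat_lit 152) (nat_lit 0) (XT.lf (nat_lit 0) (nat_lit 7005396078) (nat_lit 304) (nat_lit 4372333777) (nat_lit 76) (nat_lit 280501063) (nat_lit 33) (nat_lit 5) (nat_lit 37) (nat_lit 5) (nat_lit 34) (nat_lit 4) (nat_lit 296) (nat_lit 254) (nat_lit 230)) (XT.lf (nat_lit 0) (nat_lit 2086393483) (nat_lit 152) (nat_lit 8265167473) (nat_lit 228) (nat_lit 1669121351) (nat_lit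 31) (nat_lit 5) (nat_lit 33) (nat_lit 5) (nat_lit 34) (nat_lit 4) (nat_lit 297) (nat_lit 254) (nat_lit 229))))) (XT.nd (nat_lit 156) (nat_lit 228) (nat_lit 0) (XT.nd (nat_lit 78) (nat_lit 152) (nat_lit 0) (XT.lf (nat_lit 0) (nat_lit 1412076060) (nat_lit 228) (nat_lit 3526754298) (nat_lit 76) (nat_lit 7461628701) (nat_lit 30) (nat_lit 5) (nat_lit 33) (nat_lit 5) (nat_lit 31) (nat_lit 5) (nat_lit 298) (nat_lit 254) (nat_lit 228)) (XT.lf (nat_lit 0) (nat_lit 3155762702) (nat_lit 152) (nat_lit 1408449228) (nat_lit 228) (nat_lit 8235093980) (nat_lit 28) (nat_lit 5) (nat_lit 30) (nat_lit 5) (nat_lit 31) (nat_lit 5) (nat_lit 299) (nat_lit 254) (nat_lit 227))) (XT.nd (nat_lit 78) (nat_lit 228) (nat_lit 0) (XT.lf (nat_lit 0) (nat_lit 7895387285) (nat_lit 228) (nat_lit 3077394979) (nat_lit 76) (nat_lit 2244334531) (nat_lit 28) (nat_lit 5) (nat_lit 31) (nat_lit 5) (nat_lit 29) (nat_lit 4) (nat_lit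 300) (nat_lit 254) (nat_lit 226)) (XT.nd (nat_lit 78) (nat_lit 76) (nat_lit 0) (XT.lf (nat_lit 0) (nat_lit 3801088627) (nat_lit 152) (nat_lit 7602887760) (nat_lit 228) (nat_lit 2251387971) (nat_lit 26) (nat_lit 5) (nat_lit 28) (nat_lit 5) (nat_lit 29) (nat_lit 4) (nat_lit 301) (nat_lit 254) (nat_lit 225)) (XT.lf (nat_lit 0) (nat_lit 923157824) (nat_lit 228) (nat_lit 3113746497) (nat_lit 76) (nat_lit 10078850832) (nat_lit 25) (nat_lit 5) (nat_lit 28) (nat_lit 5) (nat_lit 26) (nat_lit 5) (nat_lit 302) (nat_lit 254) (nat_lit 224))))))))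
noncomputable def xc89 : XT := (XT.nd (nat_lit 1560) (nat_lit 456) (nat_lit 0) (XT.nd (nat_lit 780) (nat_lit 304) (nat_lit 0) (XT.nd (nat_lit 390) (nat_lit 304) (nat_lit 0) (XT.nd (nat_lit 156) (nat_lit 304) (nat_lit 0) (XT.nd (nat_lit 78) (nat_lit 0) (nat_lit 0) (XT.lf (nat_lit 0) (nat_lit 3943471877) (nat_lit 152) (nat_lit 231095575) (nat_lit 228) (nat_lit 10423139519) (nat_lit 23) (nat_lit 5) (nat_lit 25) (nat_lit 5) (nat_lit 26) (nat_lit 5) (nat_lit 303) (nat_lit 254) (nat_lit 223)) (XT.lf (nat_lit 0) (nat_lit 7634049056) (nat_lit 228) (nat_lit 3809723892) (nat_lit 76) (nat_lit 3657781480) (nat_lit 23) (nat_lit 5) (nat_lit 26) (nat_lit 5) (nat_lit 24) (nat_lit 4) (nat_lit 304) (nat_lit 254) (nat_lit 222))) (XT.nd (nat_lit 78) (nat_lit 228) (nat_lit 0) (XT.lf (nat_lit 0) (nat_lit 3375931656) (nat_lit 76) (nat_lit 7883375920) (nat_lit 152) (nat_lit 4371716184) (nat_lit 22) (nat_lit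 5) (nat_lit 23) (nat_lit 5) (nat_lit 24) (nat_lit 4) (nat_lit 305) (nat_lit 254) (nat_lit 221)) (XT.nd (nat_lit 78) (nat_lit 228) (nat_lit 0) (XT.lf (nat_lit 0) (nat_lit 10949490427) (nat_lit 76) (nat_lit 4118579576) (nat_lit 152) (nat_lit 1118850830) (nat_lit 22) (nat_lit 5) (nat_lit 23) (nat_lit 5) (nat_lit 24) (nat_lit 4) (nat_lit 306) (nat_lit 254) (nat_lit 220)) (XT.lf (nat_lit 0) (nat_lit 2060439446) (nat_lit 152) (nat_lit 134533807) (nat_lit 228) (nat_lit 14575315660) (nat_lit 19) (nat_lit 5) (nat_lit 21) (nat_lit 5) (nat_lit 22) (nat_lit 5) (nat_lit 307) (nat_lit 254) (nat_lit 219))))) (XT.nd (nat_lit 156) (nat_lit 304) (nat_lit 0) (XT.nd (nat_lit 78) (nat_lit 0) (nat_lit 0) (XT.lf (nat_lit 0) (nat_lit 5730605134) (nat_lit 228) (nat_lit 7657884908) (nat_lit 76) (nat_lit 3988789694) (nat_lit 19) (nat_lit 5) (nat_lit 22) (nat_lit 5) (nat_lit 20) (nat_lit 4) (nat_lit 308) (nat_lit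 254) (nat_lit 218)) (XT.lf (nat_lit 0) (nat_lit 9388417461) (nat_lit 228) (nat_lit 352214560) (nat_lit 76) (nat_lit 8276772703) (nat_lit 19) (nat_lit 5) (nat_lit 22) (nat_lit 5) (nat_lit 20) (nat_lit 4) (nat_lit 309) (nat_lit 254) (nat_lit 217))) (XT.nd (nat_lit 78) (nat_lit 228) (nat_lit 0) (XT.lf (nat_lit 0) (nat_lit 7465602379) (nat_lit 76) (nat_lit 5825975456) (nat_lit 152) (nat_lit 5394887222) (nat_lit 18) (nat_lit 5) (nat_lit 19) (nat_lit 5) (nat_lit 20) (nat_lit 4) (nat_lit 310) (nat_lit 254) (nat_lit 216)) (XT.nd (nat_lit 78) (nat_lit 228) (nat_lit 0) (XT.lf (nat_lit 0) (nat_lit 15595940641) (nat_lit 76) (nat_lit 1746980750) (nat_lit 152) (nat_lit 2048455250) (nat_lit 18) (nat_lit 5) (nat_lit 19) (nat_lit 5) (nat_lit 20) (nat_lit 4) (nat_lit 311) (nat_lit 254) (nat_lit 215)) (XT.lf (nat_lit 0) (nat_lit 1470280065) (nat_lit 228) (nat_lit 16151292443) (nat_lit 76) (nat_lit 2506268297)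 (nat_lit 15) (nat_lit 5) (nat_lit 18) (nat_lit 5) (nat_lit 16) (nat_lit 4) (nat_lit 312) (nat_lit 254) (nat_lit 214)))))) (XT.nd (nat_lit 390) (nat_lit 152) (nat_lit 0) (XT.nd (nat_lit 156) (nat_lit 152) (nat_lit 0) (XT.nd (nat_lit 78) (nat_lit 0) (nat_lit 0) (XT.lf (nat_lit 0) (nat_lit 5139311858) (nat_lit 228) (nat_lit 8780876307) (nat_lit 76) (nat_lit 6977143641) (nat_lit 15) (nat_lit 5) (nat_lit 18) (nat_lit 5) (nat_lit 16) (nat_lit 4) (nat_lit 313) (nat_lit 254) (nat_lit 213)) (XT.lf (nat_lit 0) (nat_lit 8943443753) (nat_lit 228) (nat_lit 1126309771) (nat_lit 76) (nat_lit 11638002125) (nat_lit 15) (nat_lit 5) (nat_lit 18) (nat_lit 5) (nat_lit 16) (nat_lit 4) (nat_lit 314) (nat_lit 254) (nat_lit 212))) (XT.nd (nat_lit 78) (nat_lit 76) (nat_lit 0) (XT.lf (nat_lit 0) (nat_lit 7056483875) (nat_lit 76) (nat_lit 5945420820) (nat_lit 152) (nat_lit 9553628647) (nat_lit 14) (nat_lit 5) (nat_lit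 15) (nat_lit 5) (nat_lit 16) (nat_lit 4) (nat_lit 315) (nat_lit 254) (nat_lit 211)) (XT.nd (nat_lit 78) (nat_lit 76) (nat_lit 0) (XT.lf (nat_lit 0) (nat_lit 15608463380) (nat_lit 76) (nat_lit 1628809382) (nat_lit 152) (nat_lit 6209764886) (nat_lit 14) (nat_lit 5) (nat_lit 15) (nat_lit 5) (nat_lit 16) (nat_lit 4) (nat_lit 316) (nat_lit 254) (nat_lit 210)) (XT.lf (nat_lit 0) (nat_lit 85353248) (nat_lit 76) (nat_lit 21602274020) (nat_lit 76) (nat_lit 2695364173) (nat_lit 13) (nat_lit 4) (nat_lit 14) (nat_lit 5) (nat_lit 14) (nat_lit 4) (nat_lit 317) (nat_lit 254) (nat_lit 209))))) (XT.nd (nat_lit 156) (nat_lit 76) (nat_lit 0) (XT.nd (nat_lit 78) (nat_lit 0) (nat_lit 0) (XT.lf (nat_lit 0) (nat_lit 1081254298) (nat_lit 152) (nat_lit 16803090966) (nat_lit 76) (nat_lit 7474736210) (nat_lit 12) (nat_lit 5) (nat_lit 14) (nat_lit 5) (nat_lit 13) (nat_lit 4) (nat_lit 318) (nat_lit 254) (nat_lit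 208)) (XT.lf (nat_lit 0) (nat_lit 4914891377) (nat_lit 152) (nat_lit 9051518221) (nat_lit 76) (nat_lit 12417449000) (nat_lit 12) (nat_lit 5) (nat_lit 14) (nat_lit 5) (nat_lit 13) (nat_lit 4) (nat_lit 319) (nat_lit 254) (nat_lit 207))) (XT.nd (nat_lit 78) (nat_lit 76) (nat_lit 0) (XT.lf (nat_lit 0) (nat_lit 8900943258) (nat_lit 152) (nat_lit 982381643) (nat_lit 76) (nat_lit 17578541966) (nat_lit 12) (nat_lit 5) (nat_lit 14) (nat_lit 5) (nat_lit 13) (nat_lit 4) (nat_lit 320) (nat_lit 254) (nat_lit 206)) (XT.nd (nat_lit 78) (nat_lit 0) (nat_lit 0) (XT.lf (nat_lit 0) (nat_lit 7668986455) (nat_lit 76) (nat_lit 5499648456) (nat_lit 152) (nat_lit 15421051342) (nat_lit 11) (nat_lit 5) (nat_lit 12) (nat_lit 5) (nat_lit 13) (nat_lit 4) (nat_lit 321) (nat_lit 254) (nat_lit 205)) (XT.lf (nat_lit 0) (nat_lit 16721423761) (nat_lit 76) (nat_lit 908283837) (nat_lit 152) (nat_lit 12145215433) (nat_lit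 11) (nat_lit 5) (nat_lit 12) (nat_lit 5) (nat_lit 13) (nat_lit 4) (nat_lit 322) (nat_lit 254) (nat_lit 204))))))) (XT.nd (nat_lit 780) (nat_lit 228) (nat_lit 0) (XT.nd (nat_lit 390) (nat_lit 76) (nat_lit 0) (XT.nd (nat_lit 156) (nat_lit 76) (nat_lit 0) (XT.nd (nat_lit 78) (nat_lit 76) (nat_lit 0) (XT.lf (nat_lit 0) (nat_lit 22339594790) (nat_lit 152) (nat_lit 4917846449) (nat_lit 0) (nat_lit 3760717364) (nat_lit 11) (nat_lit 5) (nat_lit 13) (nat_lit 4) (nat_lit 11) (nat_lit 4) (nat_lit 323) (nat_lit 254) (nat_lit 203)) (XT.lf (nat_lit 0) (nat_lit 3666261112) (nat_lit 76) (nat_lit 23657201407) (nat_lit 76) (nat_lit 4998192933) (nat_lit 10) (nat_lit 4) (nat_lit 11) (nat_lit 5) (nat_lit 11) (nat_lit 4) (nat_lit 324) (nat_lit 254) (nat_lit 202))) (XT.nd (nat_lit 78) (nat_lit 76) (nat_lit 0) (XT.lf (nat_lit 0) (nat_lit 12790509664) (nat_lit 76) (nat_lit 19816324198) (nat_lit 76) (nat_lit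 1081000441) (nat_lit 10) (nat_lit 4) (nat_lit 11) (nat_lit 5) (nat_lit 11) (nat_lit 4) (nat_lit 325) (nat_lit 254) (nat_lit 201)) (XT.nd (nat_lit 78) (nat_lit 0) (nat_lit 0) (XT.lf (nat_lit 0) (nat_lit 2903065737) (nat_lit 152) (nat_lit 12856720217) (nat_lit 76) (nat_lit 19361786836) (nat_lit 9) (nat_lit 5) (nat_lit 11) (nat_lit 5) (nat_lit 10) (nat_lit 4) (nat_lit 326) (nat_lit 254) (nat_lit 200)) (XT.lf (nat_lit 0) (nat_lit 7019586190) (nat_lit 152) (nat_lit 4487073501) (nat_lit 76) (nat_lit 25120993047) (nat_lit 9) (nat_lit 5) (nat_lit 11) (nat_lit 5) (nat_lit 10) (nat_lit 4) (nat_lit 327) (nat_lit 254) (nat_lit 199))))) (XT.nd (nat_lit 156) (nat_lit 0) (nat_lit 0) (XT.nd (nat_lit 78) (nat_lit 0) (nat_lit 0) (XT.lf (nat_lit 0) (nat_lit 4388892660) (nat_lit 76) (nat_lit 6992591175) (nat_lit 152) (nat_lit 26825593944) (nat_lit 8) (nat_lit 5) (nat_lit 9) (nat_lit 5) (nat_lit 10) (nat_lit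 4) (nat_lit 328) (nat_lit 254) (nat_lit 198)) (XT.lf (nat_lit 0) (nat_lit 13812652273) (nat_lit 76) (nat_lit 2196414189) (nat_lit 152) (nat_lit 23854045869) (nat_lit 8) (nat_lit 5) (nat_lit 9) (nat_lit 5) (nat_lit 10) (nat_lit 4) (nat_lit 329) (nat_lit 254) (nat_lit 197))) (XT.nd (nat_lit 78) (nat_lit 0) (nat_lit 0) (XT.lf (nat_lit 0) (nat_lit 20884965920) (nat_lit 152) (nat_lit 17989023944) (nat_lit 0) (nat_lit 2727128780) (nat_lit 8) (nat_lit 5) (nat_lit 10) (nat_lit 4) (nat_lit 8) (nat_lit 4) (nat_lit 330) (nat_lit 254) (nat_lit 196)) (XT.nd (nat_lit 78) (nat_lit 0) (nat_lit 0) (XT.lf (nat_lit 0) (nat_lit 26014575739) (nat_lit 152) (nat_lit 9608467127) (nat_lit 0) (nat_lit 7802502752) (nat_lit 8) (nat_lit 5) (nat_lit 10) (nat_lit 4) (nat_lit 8) (nat_lit 4) (nat_lit 331) (nat_lit 254) (nat_lit 195)) (XT.lf (nat_lit 0) (nat_lit 31375817096) (nat_lit 152) (nat_lit 854543719) (nat_lit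 0) (nat_lit 13112090921) (nat_lit 8) (nat_lit 5) (nat_lit 10) (nat_lit 4) (nat_lit 8) (nat_lit 4) (nat_lit 332) (nat_lit 254) (nat_lit 194)))))) (XT.nd (nat_lit 390) (nat_lit 76) (nat_lit 0) (XT.nd (nat_lit 156) (nat_lit 76) (nat_lit 0) (XT.nd (nat_lit 78) (nat_lit 0) (nat_lit 0) (XT.lf (nat_lit 0) (nat_lit 8567812459) (nat_lit 76) (nat_lit 28547409954) (nat_lit 76) (nat_lit 10234490267) (nat_lit 7) (nat_lit 4) (nat_lit 8) (nat_lit 5) (nat_lit 8) (nat_lit 4) (nat_lit 333) (nat_lit 254) (nat_lit 193)) (XT.lf (nat_lit 0) (nat_lit 18448168772) (nat_lit 76) (nat_lit 24684694600) (nat_lit 76) (nat_lit 6324923949) (nat_lit 7) (nat_lit 4) (nat_lit 8) (nat_lit 5) (nat_lit 8) (nat_lit 4) (nat_lit 334) (nat_lit 254) (nat_lit 192))) (XT.nd (nat_lit 78) (nat_lit 76) (nat_lit 0) (XT.lf (nat_lit 0) (nat_lit 28781794802) (nat_lit 76) (nat_lit 20647489924) (nat_lit 76) (nat_lit 2243099307) (nat_lit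 7) (nat_lit 4) (nat_lit 8) (nat_lit 5) (nat_lit 8) (nat_lit 4) (nat_lit 335) (nat_lit 254) (nat_lit 191)) (XT.nd (nat_lit 78) (nat_lit 0) (nat_lit 0) (XT.lf (nat_lit 0) (nat_lit 1956027195) (nat_lit 152) (nat_lit 14437030071) (nat_lit 76) (nat_lit 37604140959) (nat_lit 6) (nat_lit 5) (nat_lit 8) (nat_lit 5) (nat_lit 7) (nat_lit 4) (nat_lit 336) (nat_lit 254) (nat_lit 190)) (XT.lf (nat_lit 0) (nat_lit 6269340050) (nat_lit 152) (nat_lit 5635210341) (nat_lit 76) (nat_lit 44532894937) (nat_lit 6) (nat_lit 5) (nat_lit 8) (nat_lit 5) (nat_lit 7) (nat_lit 4) (nat_lit 337) (nat_lit 254) (nat_lit 189))))) (XT.nd (nat_lit 234) (nat_lit 0) (nat_lit 0) (XT.nd (nat_lit 78) (nat_lit 0) (nat_lit 0) (XT.lf (nat_lit 0) (nat_lit 3688916090) (nat_lit 76) (nat_lit 7147580465) (nat_lit 152) (nat_lit 48161310238) (nat_lit 5) (nat_lit 5) (nat_lit 6) (nat_lit 5) (nat_lit 7) (nat_lit 4) (nat_lit 338) (nat_lit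 254) (nat_lit 188)) (XT.nd (nat_lit 78) (nat_lit 0) (nat_lit 0) (XT.lf (nat_lit 0) (nat_lit 13639616254) (nat_lit 76) (nat_lit 2068787189) (nat_lit 152) (nat_lit 45973973647) (nat_lit 5) (nat_lit 5) (nat_lit 6) (nat_lit 5) (nat_lit 7) (nat_lit 4) (nat_lit 339) (nat_lit 254) (nat_lit 187)) (XT.lf (nat_lit 0) (nat_lit 20856487986) (nat_lit 152) (nat_lit 40498553771) (nat_lit 0) (nat_lit 3144514922) (nat_lit 5) (nat_lit 5) (nat_lit 7) (nat_lit 4) (nat_lit 5) (nat_lit 4) (nat_lit 340) (nat_lit 254) (nat_lit 186)))) (XT.nd (nat_lit 78) (nat_lit 0) (nat_lit 0) (XT.lf (nat_lit 0) (nat_lit 26278389365) (nat_lit 152) (nat_lit 32643688949) (nat_lit 0) (nat_lit 8534705724) (nat_lit 5) (nat_lit 5) (nat_lit 7) (nat_lit 4) (nat_lit 5) (nat_lit 4) (nat_lit 341) (nat_lit 254) (nat_lit 185)) (XT.nd (nat_lit 78) (nat_lit 0) (nat_lit 0) (XT.lf (nat_lit 0) (nat_lit 31954717304) (nat_lit 152) (nat_lit 24427164744)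 (nat_lit 0) (nat_lit 14180833114) (nat_lit 5) (nat_lit 5) (nat_lit 7) (nat_lit 4) (nat_lit 5) (nat_lit 4) (nat_lit 342) (nat_lit 254) (nat_lit 184)) (XT.lf (nat_lit 0) (nat_lit 37898986870) (nat_lit 152) (nat_lit 15829418005) (nat_lit 0) (nat_lit 20096340253) (nat_lit 5) (nat_lit 5) (nat_lit 7) (nat_lit 4) (nat_lit 5) (nat_lit 4) (nat_lit 343) (nat_lit 254) (nat_lit 183))))))))
noncomputable def xc90 : XT := (XT.nd (nat_lit 1560) (nat_lit 76) (nat_lit 0) (XT.nd (nat_lit 780) (nat_lit 76) (nat_lit 0) (XT.nd (nat_lit 390) (nat_lit 76) (nat_lit 0) (XT.nd (nat_lit 156) (nat_lit 0) (nat_lit 0) (XT.nd (nat_lit 78) (nat_lit 76) (nat_lit 0) (XT.lf (nat_lit 0) (nat_lit 44125351086) (nat_lit 152) (nat_lit 6829977905) (nat_lit 0) (nat_lit 26295311680) (nat_lit 5) (nat_lit 5) (nat_lit 7) (nat_lit 4) (nat_lit 5) (nat_lit 4) (nat_lit 344) (nat_lit 254) (nat_lit 182)) (XT.lf (nat_lit 0) (nat_lit 2678305288)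 (nat_lit 76) (nat_lit 48012145191) (nat_lit 76) (nat_lit 30156017415) (nat_lit 4) (nat_lit 4) (nat_lit 5) (nat_lit 5) (nat_lit 5) (nat_lit 4) (nat_lit 345) (nat_lit 254) (nat_lit 181))) (XT.nd (nat_lit 78) (nat_lit 0) (nat_lit 0) (XT.lf (nat_lit 0) (nat_lit 12872705733) (nat_lit 76) (nat_lit 44812642402) (nat_lit 76) (nat_lit 26931668560) (nat_lit 4) (nat_lit 4) (nat_lit 5) (nat_lit 5) (nat_lit 5) (nat_lit 4) (nat_lit 346) (nat_lit 254) (nat_lit 180)) (XT.nd (nat_lit 78) (nat_lit 0) (nat_lit 0) (XT.lf (nat_lit 0) (nat_lit 23551665896) (nat_lit 76) (nat_lit 41464871742) (nat_lit 76) (nat_lit 23560234980) (nat_lit 4) (nat_lit 4) (nat_lit 5) (nat_lit 5) (nat_lit 5) (nat_lit 4) (nat_lit 347) (nat_lit 254) (nat_lit 179)) (XT.lf (nat_lit 0) (nat_lit 34740611874) (nat_lit 76) (nat_lit 37960862329) (nat_lit 76) (nat_lit 20033689451) (nat_lit 4) (nat_lit 4) (nat_lit 5) (nat_lit 5) (nat_lit 5)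 (nat_lit 4) (nat_lit 348) (nat_lit 254) (nat_lit 178))))) (XT.nd (nat_lit 156) (nat_lit 76) (nat_lit 0) (XT.nd (nat_lit 78) (nat_lit 0) (nat_lit 0) (XT.lf (nat_lit 0) (nat_lit 46466184013) (nat_lit 76) (nat_lit 34292271282) (nat_lit 76) (nat_lit 16343635438) (nat_lit 4) (nat_lit 4) (nat_lit 5) (nat_lit 5) (nat_lit 5) (nat_lit 4) (nat_lit 349) (nat_lit 254) (nat_lit 177)) (XT.lf (nat_lit 0) (nat_lit 58756300342) (nat_lit 76) (nat_lit 30450363861) (nat_lit 76) (nat_lit 12481287097) (nat_lit 4) (nat_lit 4) (nat_lit 5) (nat_lit 5) (nat_lit 5) (nat_lit 4) (nat_lit 350) (nat_lit 254) (nat_lit 176))) (XT.nd (nat_lit 78) (nat_lit 76) (nat_lit 0) (XT.lf (nat_lit 0) (nat_lit 71640223044) (nat_lit 76) (nat_lit 26425992668) (nat_lit 76) (nat_lit 8437448361) (nat_lit 4) (nat_lit 4) (nat_lit 5) (nat_lit 5) (nat_lit 5) (nat_lit 4) (nat_lit 351) (nat_lit 254) (nat_lit 175)) (XT.nd (nat_lit 78) (nat_lit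 76) (nat_lit 0) (XT.lf (nat_lit 0) (nat_lit 85148628125) (nat_lit 76) (nat_lit 22209575866) (nat_lit 76) (nat_lit 4202491042) (nat_lit 4) (nat_lit 4) (nat_lit 5) (nat_lit 5) (nat_lit 5) (nat_lit 4) (nat_lit 352) (nat_lit 254) (nat_lit 174)) (XT.lf (nat_lit 0) (nat_lit 226189252) (nat_lit 152) (nat_lit 17561054491) (nat_lit 76) (nat_lit 99083658576) (nat_lit 3) (nat_lit 5) (nat_lit 5) (nat_lit 5) (nat_lit 4) (nat_lit 4) (nat_lit 353) (nat_lit 254) (nat_lit 173)))))) (XT.nd (nat_lit 390) (nat_lit 0) (nat_lit 0) (XT.nd (nat_lit 156) (nat_lit 0) (nat_lit 0) (XT.nd (nat_lit 78) (nat_lit 76) (nat_lit 0) (XT.lf (nat_lit 0) (nat_lit 4725349914) (nat_lit 152) (nat_lit 8354591931) (nat_lit 76) (nat_lit 109363724338) (nat_lit 3) (nat_lit 5) (nat_lit 5) (nat_lit 5) (nat_lit 4) (nat_lit 4) (nat_lit 354) (nat_lit 254) (nat_lit 172)) (XT.lf (nat_lit 0) (nat_lit 1337667289) (nat_lit 76) (nat_lit 8123426633)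 (nat_lit 152) (nat_lit 118833397584) (nat_lit 2) (nat_lit 5) (nat_lit 3) (nat_lit 5) (nat_lit 4) (nat_lit 4) (nat_lit 355) (nat_lit 254) (nat_lit 171))) (XT.nd (nat_lit 78) (nat_lit 0) (nat_lit 0) (XT.lf (nat_lit 0) (nat_lit 11787531544) (nat_lit 76) (nat_lit 2778497785) (nat_lit 152) (nat_lit 119865212873) (nat_lit 2) (nat_lit 5) (nat_lit 3) (nat_lit 5) (nat_lit 4) (nat_lit 4) (nat_lit 356) (nat_lit 254) (nat_lit 170)) (XT.nd (nat_lit 78) (nat_lit 0) (nat_lit 0) (XT.lf (nat_lit 0) (nat_lit 19961682315) (nat_lit 152) (nat_lit 118175749287) (nat_lit 0) (nat_lit 2735629399) (nat_lit 2) (nat_lit 5) (nat_lit 4) (nat_lit 4) (nat_lit 2) (nat_lit 4) (nat_lit 357) (nat_lit 254) (nat_lit 169)) (XT.lf (nat_lit 0) (nat_lit 25664313915) (nat_lit 152) (nat_lit 113545716344) (nat_lit 0) (nat_lit 8425084599) (nat_lit 2) (nat_lit 5) (nat_lit 4) (nat_lit 4) (nat_lit 2) (nat_lit 4) (nat_lit 358) (nat_lit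 254) (nat_lit 168))))) (XT.nd (nat_lit 156) (nat_lit 0) (nat_lit 0) (XT.nd (nat_lit 78) (nat_lit 0) (nat_lit 0) (XT.lf (nat_lit 0) (nat_lit 31644121685) (nat_lit 152) (nat_lit 108699207804) (nat_lit 0) (nat_lit 14392343417) (nat_lit 2) (nat_lit 5) (nat_lit 4) (nat_lit 4) (nat_lit 2) (nat_lit 4) (nat_lit 359) (nat_lit 254) (nat_lit 167)) (XT.lf (nat_lit 0) (nat_lit 37915343264) (nat_lit 152) (nat_lit 103624684360) (nat_lit 0) (nat_lit 20651613613) (nat_lit 2) (nat_lit 5) (nat_lit 4) (nat_lit 4) (nat_lit 2) (nat_lit 4) (nat_lit 360) (nat_lit 254) (nat_lit 166))) (XT.nd (nat_lit 78) (nat_lit 0) (nat_lit 0) (XT.lf (nat_lit 0) (nat_lit 44492910130) (nat_lit 152) (nat_lit 98310063814) (nat_lit 0) (nat_lit 27217798211) (nat_lit 2) (nat_lit 5) (nat_lit 4) (nat_lit 4) (nat_lit 2) (nat_lit 4) (nat_lit 361) (nat_lit 254) (nat_lit 165)) (XT.nd (nat_lit 78) (nat_lit 0) (nat_lit 0) (XT.lf (nat_lit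 0) (nat_lit 51392483159) (nat_lit 152) (nat_lit 92742692307) (nat_lit 0) (nat_lit 34106530983) (nat_lit 2) (nat_lit 5) (nat_lit 4) (nat_lit 4) (nat_lit 2) (nat_lit 4) (nat_lit 362) (nat_lit 254) (nat_lit 164)) (XT.lf (nat_lit 0) (nat_lit 58630489904) (nat_lit 152) (nat_lit 86909314193) (nat_lit 0) (nat_lit 41334213674) (nat_lit 2) (nat_lit 5) (nat_lit 4) (nat_lit 4) (nat_lit 2) (nat_lit 4) (nat_lit 363) (nat_lit 254) (nat_lit 163))))))) (XT.nd (nat_lit 780) (nat_lit 76) (nat_lit 0) (XT.nd (nat_lit 390) (nat_lit 0) (nat_lit 0) (XT.nd (nat_lit 156) (nat_lit 0) (nat_lit 0) (XT.nd (nat_lit 78) (nat_lit 0) (nat_lit 0) (XT.lf (nat_lit 0) (nat_lit 66224163715) (nat_lit 152) (nat_lit 80796040477) (nat_lit 0) (nat_lit 48918055053) (nat_lit 2) (nat_lit 5) (nat_lit 4) (nat_lit 4) (nat_lit 2) (nat_lit 4) (nat_lit 364) (nat_lit 254) (nat_lit 162)) (XT.lf (nat_lit 0) (nat_lit 74191584768) (nat_lit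 152) (nat_lit 74388315744) (nat_lit 0) (nat_lit 56876111885) (nat_lit 2) (nat_lit 5) (nat_lit 4) (nat_lit 4) (nat_lit 2) (nat_lit 4) (nat_lit 365) (nat_lit 254) (nat_lit 161))) (XT.nd (nat_lit 78) (nat_lit 0) (nat_lit 0) (XT.lf (nat_lit 0) (nat_lit 82551723113) (nat_lit 152) (nat_lit 67670883508) (nat_lit 0) (nat_lit 65227331923) (nat_lit 2) (nat_lit 5) (nat_lit 4) (nat_lit 4) (nat_lit 2) (nat_lit 4) (nat_lit 366) (nat_lit 254) (nat_lit 160)) (XT.nd (nat_lit 78) (nat_lit 0) (nat_lit 0) (XT.lf (nat_lit 0) (nat_lit 91324483840) (nat_lit 152) (nat_lit 60627749881) (nat_lit 0) (nat_lit 73991599027) (nat_lit 2) (nat_lit 5) (nat_lit 4) (nat_lit 4) (nat_lit 2) (nat_lit 4) (nat_lit 367) (nat_lit 254) (nat_lit 159)) (XT.lf (nat_lit 0) (nat_lit 100530754477) (nat_lit 152) (nat_lit 53242145499) (nat_lit 0) (nat_lit 83189780497) (nat_lit 2) (nat_lit 5) (nat_lit 4) (nat_lit 4) (nat_lit 2) (nat_lit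 4) (nat_lit 368) (nat_lit 254) (nat_lit 158))))) (XT.nd (nat_lit 156) (nat_lit 0) (nat_lit 0) (XT.nd (nat_lit 78) (nat_lit 0) (nat_lit 0) (XT.lf (nat_lit 0) (nat_lit 110192454714) (nat_lit 152) (nat_lit 45496485589) (nat_lit 0) (nat_lit 92843776766) (nat_lit 2) (nat_lit 5) (nat_lit 4) (nat_lit 4) (nat_lit 2) (nat_lit 4) (nat_lit 369) (nat_lit 254) (nat_lit 157)) (XT.lf (nat_lit 0) (nat_lit 120332588600) (nat_lit 152) (nat_lit 37372328103) (nat_lit 0) (nat_lit 102976573539) (nat_lit 2) (nat_lit 5) (nat_lit 4) (nat_lit 4) (nat_lit 2) (nat_lit 4) (nat_lit 370) (nat_lit 254) (nat_lit 156))) (XT.nd (nat_lit 78) (nat_lit 0) (nat_lit 0) (XT.lf (nat_lit 0) (nat_lit 130975299311) (nat_lit 152) (nat_lit 28850329810) (nat_lit 0) (nat_lit 113612296524) (nat_lit 2) (nat_lit 5) (nat_lit 4) (nat_lit 4) (nat_lit 2) (nat_lit 4) (nat_lit 371) (nat_lit 254) (nat_lit 155)) (XT.nd (nat_lit 78) (nat_lit 0)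 (nat_lit 0) (XT.lf (nat_lit 0) (nat_lit 142145926633) (nat_lit 152) (nat_lit 19910200237) (nat_lit 0) (nat_lit 124776268870) (nat_lit 2) (nat_lit 5) (nat_lit 4) (nat_lit 4) (nat_lit 2) (nat_lit 4) (nat_lit 372) (nat_lit 254) (nat_lit 154)) (XT.lf (nat_lit 0) (nat_lit 153871067300) (nat_lit 152) (nat_lit 10530653362) (nat_lit 0) (nat_lit 136495071463) (nat_lit 2) (nat_lit 5) (nat_lit 4) (nat_lit 4) (nat_lit 2) (nat_lit 4) (nat_lit 373) (nat_lit 254) (nat_lit 153)))))) (XT.nd (nat_lit 390) (nat_lit 0) (nat_lit 0) (XT.nd (nat_lit 156) (nat_lit 0) (nat_lit 0) (XT.nd (nat_lit 78) (nat_lit 76) (nat_lit 0) (XT.lf (nat_lit 0) (nat_lit 166178638312) (nat_lit 152) (nat_lit 689356930) (nat_lit 0) (nat_lit 148796606215) (nat_lit 2) (nat_lit 5) (nat_lit 4) (nat_lit 4) (nat_lit 2) (nat_lit 4) (nat_lit 374) (nat_lit 254) (nat_lit 152)) (XT.lf (nat_lit 0) (nat_lit 9955767450) (nat_lit 76) (nat_lit 169297613391)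 (nat_lit 76) (nat_lit 151909832474) (nat_lit 1) (nat_lit 4) (nat_lit 2) (nat_lit 5) (nat_lit 2) (nat_lit 4) (nat_lit 375) (nat_lit 254) (nat_lit 151))) (XT.nd (nat_lit 78) (nat_lit 0) (nat_lit 0) (XT.lf (nat_lit 0) (nat_lit 21150308385) (nat_lit 76) (nat_lit 171839650046) (nat_lit 76) (nat_lit 154446394063) (nat_lit 1) (nat_lit 4) (nat_lit 2) (nat_lit 5) (nat_lit 2) (nat_lit 4) (nat_lit 376) (nat_lit 254) (nat_lit 150)) (XT.nd (nat_lit 78) (nat_lit 0) (nat_lit 0) (XT.lf (nat_lit 0) (nat_lit 32898126291) (nat_lit 76) (nat_lit 174511832271) (nat_lit 76) (nat_lit 157113361939) (nat_lit 1) (nat_lit 4) (nat_lit 2) (nat_lit 5) (nat_lit 2) (nat_lit 4) (nat_lit 377) (nat_lit 254) (nat_lit 149)) (XT.lf (nat_lit 0) (nat_lit 45227192161) (nat_lit 76) (nat_lit 177320522403) (nat_lit 76) (nat_lit 159917086025) (nat_lit 1) (nat_lit 4) (nat_lit 2) (nat_lit 5) (nat_lit 2) (nat_lit 4) (nat_lit 378) (nat_lit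 254) (nat_lit 148))))) (XT.nd (nat_lit 234) (nat_lit 0) (nat_lit 0) (XT.nd (nat_lit 78) (nat_lit 0) (nat_lit 0) (XT.lf (nat_lit 0) (nat_lit 58166860915) (nat_lit 76) (nat_lit 180272407800) (nat_lit 76) (nat_lit 162864241854) (nat_lit 1) (nat_lit 4) (nat_lit 2) (nat_lit 5) (nat_lit 2) (nat_lit 4) (nat_lit 379) (nat_lit 254) (nat_lit 147)) (XT.nd (nat_lit 78) (nat_lit 0) (nat_lit 0) (XT.lf (nat_lit 0) (nat_lit 71747941289) (nat_lit 76) (nat_lit 183374516761) (nat_lit 76) (nat_lit 165961846464) (nat_lit 1) (nat_lit 4) (nat_lit 2) (nat_lit 5) (nat_lit 2) (nat_lit 4) (nat_lit 380) (nat_lit 254) (nat_lit 146)) (XT.lf (nat_lit 0) (nat_lit 86002769186) (nat_lit 76) (nat_lit 186634235259) (nat_lit 76) (nat_lit 169217275104) (nat_lit 1) (nat_lit 4) (nat_lit 2) (nat_lit 5) (nat_lit 2) (nat_lit 4) (nat_lit 381) (nat_lit 254) (nat_lit 145)))) (XT.nd (nat_lit 78) (nat_lit 0) (nat_lit 0) (XT.lf (nat_lit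 0) (nat_lit 100965284675) (nat_lit 76) (nat_lit 190059324528) (nat_lit 76) (nat_lit 172638278795) (nat_lit 1) (nat_lit 4) (nat_lit 2) (nat_lit 5) (nat_lit 2) (nat_lit 4) (nat_lit 382) (nat_lit 254) (nat_lit 144)) (XT.nd (nat_lit 78) (nat_lit 0) (nat_lit 0) (XT.lf (nat_lit 0) (nat_lit 116671112791) (nat_lit 76) (nat_lit 193657939544) (nat_lit 76) (nat_lit 176233002784) (nat_lit 1) (nat_lit 4) (nat_lit 2) (nat_lit 5) (nat_lit 2) (nat_lit 4) (nat_lit 383) (nat_lit 254) (nat_lit 143)) (XT.lf (nat_lit 0) (nat_lit 133157648365) (nat_lit 76) (nat_lit 197438648437) (nat_lit 76) (nat_lit 180010005937) (nat_lit 1) (nat_lit 4) (nat_lit 2) (nat_lit 5) (nat_lit 2) (nat_lit 4) (nat_lit 384) (nat_lit 254) (nat_lit 142))))))))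
noncomputable def xc91 : XT := (XT.nd (nat_lit 32838) (nat_lit 0) (nat_lit 1672) (XT.nd (nat_lit 32058) (nat_lit 0) (nat_lit 4256) (XT.nd (nat_lit 31668) (nat_lit 0) (nat_lit 7524) (XT.nd (nat_lit 156) (nat_lit 0) (nat_lit 0) (XT.nd (nat_lit 78) (nat_lit 0) (nat_lit 0) (XT.lf (nat_lit 0) (nat_lit 150464145051) (nat_lit 76) (nat_lit 201410452896) (nat_lit 76) (nat_lit 183978281119) (nat_lit 1) (nat_lit 4) (nat_lit 2) (nat_lit 5) (nat_lit 2) (nat_lit 4) (nat_lit 385) (nat_lit 254) (nat_lit 141)) (XT.lf (nat_lit 0) (nat_lit 168631808794) (nat_lit 76) (nat_lit 205582809596) (nat_lit 76) (nat_lit 188147276603) (nat_lit 1) (nat_lit 4) (nat_lit 2) (nat_lit 5) (nat_lit 2) (nat_lit 4) (nat_lit 386) (nat_lit 254) (nat_lit 140))) (XT.nd (nat_lit 78) (nat_lit 0) (nat_lit 0) (XT.lf (nat_lit 0) (nat_lit 187703895937) (nat_lit 76) (nat_lit 209965652722) (nat_lit 76) (nat_lit 192526918571) (nat_lit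 1) (nat_lit 4) (nat_lit 2) (nat_lit 5) (nat_lit 2) (nat_lit 4) (nat_lit 387) (nat_lit 254) (nat_lit 139)) (XT.nd (nat_lit 78) (nat_lit 0) (nat_lit 0) (XT.lf (nat_lit 0) (nat_lit 207725816211) (nat_lit 76) (nat_lit 214569417613) (nat_lit 76) (nat_lit 197127634741) (nat_lit 1) (nat_lit 4) (nat_lit 2) (nat_lit 5) (nat_lit 2) (nat_lit 4) (nat_lit 388) (nat_lit 254) (nat_lit 138)) (XT.lf (nat_lit 0) (nat_lit 228745240854) (nat_lit 76) (nat_lit 219405065615) (nat_lit 76) (nat_lit 201960379198) (nat_lit 1) (nat_lit 4) (nat_lit 2) (nat_lit 5) (nat_lit 2) (nat_lit 4) (nat_lit 389) (nat_lit 254) (nat_lit 137))))) (XT.nd (nat_lit 156) (nat_lit 1064) (nat_lit 0) (XT.nd (nat_lit 78) (nat_lit 76) (nat_lit 0) (XT.lf (nat_lit 0) (nat_lit 1281080537) (nat_lit 380) (nat_lit 1046913997) (nat_lit 380) (nat_lit 1046913997) (nat_lit 115) (nat_lit 4) (nat_lit 120) (nat_lit 5) (nat_lit 120) (nat_lit 4) (nat_lit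 270) (nat_lit 255) (nat_lit 255)) (XT.lf (nat_lit 0) (nat_lit 946013444) (nat_lit 456) (nat_lit 66504456) (nat_lit 76) (nat_lit 5805341182) (nat_lit 114) (nat_lit 5) (nat_lit 120) (nat_lit 5) (nat_lit 115) (nat_lit 4) (nat_lit 271) (nat_lit 255) (nat_lit 254))) (XT.nd (nat_lit 78) (nat_lit 608) (nat_lit 0) (XT.lf (nat_lit 0) (nat_lit 3976458498) (nat_lit 532) (nat_lit 2669426569) (nat_lit 0) (nat_lit 246793521) (nat_lit 108) (nat_lit 5) (nat_lit 115) (nat_lit 4) (nat_lit 108) (nat_lit 4) (nat_lit 272) (nat_lit 255) (nat_lit 253)) (XT.nd (nat_lit 78) (nat_lit 0) (nat_lit 0) (XT.lf (nat_lit 0) (nat_lit 67404229) (nat_lit 608) (nat_lit 5324199419) (nat_lit 76) (nat_lit 1585669141) (nat_lit 100) (nat_lit 5) (nat_lit 108) (nat_lit 5) (nat_lit 101) (nat_lit 4) (nat_lit 273) (nat_lit 255) (nat_lit 252)) (XT.lf (nat_lit 0) (nat_lit 2995408980) (nat_lit 608) (nat_lit 971992645) (nat_lit 76) (nat_lit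 3102111495) (nat_lit 100) (nat_lit 5) (nat_lit 108) (nat_lit 5) (nat_lit 101) (nat_lit 4) (nat_lit 274) (nat_lit 255) (nat_lit 251)))))) (XT.nd (nat_lit 390) (nat_lit 988) (nat_lit 0) (XT.nd (nat_lit 156) (nat_lit 912) (nat_lit 0) (XT.nd (nat_lit 78) (nat_lit 760) (nat_lit 0) (XT.lf (nat_lit 0) (nat_lit 3575123986) (nat_lit 608) (nat_lit 2405035483) (nat_lit 684) (nat_lit 1191133420) (nat_lit 92) (nat_lit 5) (nat_lit 100) (nat_lit 5) (nat_lit 101) (nat_lit 4) (nat_lit 275) (nat_lit 255) (nat_lit 250)) (XT.lf (nat_lit 0) (nat_lit 967991515) (nat_lit 684) (nat_lit 697708306) (nat_lit 760) (nat_lit 5617008083) (nat_lit 82) (nat_lit 5) (nat_lit 91) (nat_lit 5) (nat_lit 92) (nat_lit 5) (nat_lit 276) (nat_lit 255) (nat_lit 249))) (XT.nd (nat_lit 78) (nat_lit 912) (nat_lit 0) (XT.lf (nat_lit 0) (nat_lit 4565664293) (nat_lit 760) (nat_lit 1694191082) (nat_lit 76) (nat_lit 1142230130) (nat_lit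 82) (nat_lit 5) (nat_lit 92) (nat_lit 5) (nat_lit 83) (nat_lit 4) (nat_lit 277) (nat_lit 255) (nat_lit 248)) (XT.nd (nat_lit 78) (nat_lit 380) (nat_lit 0) (XT.lf (nat_lit 0) (nat_lit 6870977) (nat_lit 532) (nat_lit 4424365395) (nat_lit 76) (nat_lit 3100162162) (nat_lit 75) (nat_lit 5) (nat_lit 82) (nat_lit 5) (nat_lit 76) (nat_lit 5) (nat_lit 278) (nat_lit 255) (nat_lit 247)) (XT.lf (nat_lit 0) (nat_lit 365489840) (nat_lit 380) (nat_lit 2436042197) (nat_lit 456) (nat_lit 4868425751) (nat_lit 70) (nat_lit 5) (nat_lit 75) (nat_lit 5) (nat_lit 76) (nat_lit 5) (nat_lit 279) (nat_lit 255) (nat_lit 246))))) (XT.nd (nat_lit 156) (nat_lit 608) (nat_lit 0) (XT.nd (nat_lit 78) (nat_lit 380) (nat_lit 0) (XT.lf (nat_lit 0) (nat_lit 5410076603) (nat_lit 380) (nat_lit 274482796) (nat_lit 456) (nat_lit 2133769980) (nat_lit 70) (nat_lit 5) (nat_lit 75) (nat_lit 5) (nat_lit 76) (nat_lit 5) (nat_lit 280)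 (nat_lit 255) (nat_lit 245)) (XT.lf (nat_lit 0) (nat_lit 664971801) (nat_lit 380) (nat_lit 5339064843) (nat_lit 76) (nat_lit 1972245665) (nat_lit 65) (nat_lit 5) (nat_lit 70) (nat_lit 5) (nat_lit 66) (nat_lit 5) (nat_lit 281) (nat_lit 255) (nat_lit 244))) (XT.nd (nat_lit 78) (nat_lit 608) (nat_lit 0) (XT.lf (nat_lit 0) (nat_lit 3458859172) (nat_lit 380) (nat_lit 301567949) (nat_lit 76) (nat_lit 4383883920) (nat_lit 65) (nat_lit 5) (nat_lit 70) (nat_lit 5) (nat_lit 66) (nat_lit 5) (nat_lit 282) (nat_lit 255) (nat_lit 243)) (XT.nd (nat_lit 78) (nat_lit 304) (nat_lit 0) (XT.lf (nat_lit 0) (nat_lit 5015083030) (nat_lit 304) (nat_lit 1342289680) (nat_lit 380) (nat_lit 1965381915) (nat_lit 61) (nat_lit 5) (nat_lit 65) (nat_lit 5) (nat_lit 66) (nat_lit 5) (nat_lit 283) (nat_lit 255) (nat_lit 242)) (XT.lf (nat_lit 0) (nat_lit 805908201) (nat_lit 304) (nat_lit 6518984540) (nat_lit 76) (nat_lit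 1187581951) (nat_lit 57) (nat_lit 5) (nat_lit 61) (nat_lit 5) (nat_lit 58) (nat_lit 5) (nat_lit 284) (nat_lit 255) (nat_lit 241))))))) (XT.nd (nat_lit 780) (nat_lit 988) (nat_lit 0) (XT.nd (nat_lit 390) (nat_lit 760) (nat_lit 0) (XT.nd (nat_lit 156) (nat_lit 532) (nat_lit 0) (XT.nd (nat_lit 78) (nat_lit 304) (nat_lit 0) (XT.lf (nat_lit 0) (nat_lit 3619480576) (nat_lit 304) (nat_lit 1227615359) (nat_lit 76) (nat_lit 3864710087) (nat_lit 57) (nat_lit 5) (nat_lit 61) (nat_lit 5) (nat_lit 58) (nat_lit 5) (nat_lit 285) (nat_lit 255) (nat_lit 240)) (XT.lf (nat_lit 0) (nat_lit 4335526306) (nat_lit 304) (nat_lit 2201921068) (nat_lit 380) (nat_lit 2385684661) (nat_lit 53) (nat_lit 5) (nat_lit 57) (nat_lit 5) (nat_lit 58) (nat_lit 5) (nat_lit 286) (nat_lit 255) (nat_lit 239))) (XT.nd (nat_lit 78) (nat_lit 228) (nat_lit 0) (XT.lf (nat_lit 0) (nat_lit 384223134) (nat_lit 304) (nat_lit 8191546430)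 (nat_lit 76) (nat_lit 571965655) (nat_lit 49) (nat_lit 5) (nat_lit 53) (nat_lit 5) (nat_lit 50) (nat_lit 5) (nat_lit 287) (nat_lit 255) (nat_lit 238)) (XT.nd (nat_lit 78) (nat_lit 228) (nat_lit 0) (XT.lf (nat_lit 0) (nat_lit 3226993125) (nat_lit 304) (nat_lit 2655313591) (nat_lit 76) (nat_lit 3498764075) (nat_lit 49) (nat_lit 5) (nat_lit 53) (nat_lit 5) (nat_lit 50) (nat_lit 5) (nat_lit 288) (nat_lit 255) (nat_lit 237)) (XT.lf (nat_lit 0) (nat_lit 3128733002) (nat_lit 228) (nat_lit 3036281097) (nat_lit 304) (nat_lit 3463579399) (nat_lit 46) (nat_lit 5) (nat_lit 49) (nat_lit 5) (nat_lit 50) (nat_lit 5) (nat_lit 289) (nat_lit 255) (nat_lit 236))))) (XT.nd (nat_lit 156) (nat_lit 456) (nat_lit 0) (XT.nd (nat_lit 78) (nat_lit 304) (nat_lit 0) (XT.lf (nat_lit 0) (nat_lit 9167114386) (nat_lit 228) (nat_lit 34630129) (nat_lit 304) (nat_lit 689325007) (nat_lit 46) (nat_lit 5) (nat_lit 49) (nat_lit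 5) (nat_lit 50) (nat_lit 5) (nat_lit 290) (nat_lit 255) (nat_lit 235)) (XT.lf (nat_lit 0) (nat_lit 2195795193) (nat_lit 304) (nat_lit 4862279324) (nat_lit 76) (nat_lit 3104844811) (nat_lit 42) (nat_lit 5) (nat_lit 46) (nat_lit 5) (nat_lit 43) (nat_lit 5) (nat_lit 291) (nat_lit 255) (nat_lit 234))) (XT.nd (nat_lit 78) (nat_lit 228) (nat_lit 0) (XT.lf (nat_lit 0) (nat_lit 1100867804) (nat_lit 228) (nat_lit 4042881857) (nat_lit 304) (nat_lit 5307104516) (nat_lit 39) (nat_lit 5) (nat_lit 42) (nat_lit 5) (nat_lit 43) (nat_lit 5) (nat_lit 292) (nat_lit 255) (nat_lit 233)) (XT.nd (nat_lit 78) (nat_lit 228) (nat_lit 0) (XT.lf (nat_lit 0) (nat_lit 7406866172) (nat_lit 228) (nat_lit 828383201) (nat_lit 304) (nat_lit 2518266906) (nat_lit 39) (nat_lit 5) (nat_lit 42) (nat_lit 5) (nat_lit 43) (nat_lit 5) (nat_lit 293) (nat_lit 255) (nat_lit 232)) (XT.lf (nat_lit 0) (nat_lit 398989158) (nat_lit 228)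 (nat_lit 8190132013) (nat_lit 76) (nat_lit 2481890334) (nat_lit 36) (nat_lit 5) (nat_lit 39) (nat_lit 5) (nat_lit 37) (nat_lit 5) (nat_lit 294) (nat_lit 255) (nat_lit 231)))))) (XT.nd (nat_lit 390) (nat_lit 532) (nat_lit 0) (XT.nd (nat_lit 156) (nat_lit 228) (nat_lit 0) (XT.nd (nat_lit 78) (nat_lit 228) (nat_lit 0) (XT.lf (nat_lit 0) (nat_lit 3366629045) (nat_lit 228) (nat_lit 2044107493) (nat_lit 76) (nat_lit 5992242347) (nat_lit 36) (nat_lit 5) (nat_lit 39) (nat_lit 5) (nat_lit 37) (nat_lit 5) (nat_lit 295) (nat_lit 255) (nat_lit 230)) (XT.lf (nat_lit 0) (nat_lit 4434245302) (nat_lit 228) (nat_lit 2039508024) (nat_lit 304) (nat_lit 5278349627) (nat_lit 33) (nat_lit 5) (nat_lit 36) (nat_lit 5) (nat_lit 37) (nat_lit 5) (nat_lit 296) (nat_lit 255) (nat_lit 229))) (XT.nd (nat_lit 78) (nat_lit 228) (nat_lit 0) (XT.lf (nat_lit 0) (nat_lit 9718033163) (nat_lit 304) (nat_lit 951784309) (nat_lit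 76) (nat_lit 1449883822) (nat_lit 33) (nat_lit 5) (nat_lit 37) (nat_lit 5) (nat_lit 34) (nat_lit 4) (nat_lit 297) (nat_lit 255) (nat_lit 228)) (XT.nd (nat_lit 78) (nat_lit 0) (nat_lit 0) (XT.lf (nat_lit 0) (nat_lit 650153652) (nat_lit 228) (nat_lit 6742566369) (nat_lit 76) (nat_lit 5110018767) (nat_lit 30) (nat_lit 5) (nat_lit 33) (nat_lit 5) (nat_lit 31) (nat_lit 5) (nat_lit 298) (nat_lit 255) (nat_lit 227)) (XT.lf (nat_lit 0) (nat_lit 3717572862) (nat_lit 228) (nat_lit 216354631) (nat_lit 76) (nat_lit 8971939504) (nat_lit 30) (nat_lit 5) (nat_lit 33) (nat_lit 5) (nat_lit 31) (nat_lit 5) (nat_lit 299) (nat_lit 255) (nat_lit 226))))) (XT.nd (nat_lit 234) (nat_lit 228) (nat_lit 0) (XT.nd (nat_lit 78) (nat_lit 152) (nat_lit 0) (XT.lf (nat_lit 0) (nat_lit 6744050519) (nat_lit 152) (nat_lit 230401244) (nat_lit 228) (nat_lit 6352984299) (nat_lit 28) (nat_lit 5) (nat_lit 30) (nat_lit 5) (nat_lit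 31) (nat_lit 5) (nat_lit 300) (nat_lit 255) (nat_lit 225)) (XT.nd (nat_lit 78) (nat_lit 0) (nat_lit 0) (XT.lf (nat_lit 0) (nat_lit 127917726) (nat_lit 152) (nat_lit 10260923085) (nat_lit 228) (nat_lit 3381594109) (nat_lit 26) (nat_lit 5) (nat_lit 28) (nat_lit 5) (nat_lit 29) (nat_lit 4) (nat_lit 301) (nat_lit 255) (nat_lit 224)) (XT.lf (nat_lit 0) (nat_lit 7292117020) (nat_lit 152) (nat_lit 6730440412) (nat_lit 228) (nat_lit 210676504) (nat_lit 26) (nat_lit 5) (nat_lit 28) (nat_lit 5) (nat_lit 29) (nat_lit 4) (nat_lit 302) (nat_lit 255) (nat_lit 223)))) (XT.nd (nat_lit 78) (nat_lit 152) (nat_lit 0) (XT.lf (nat_lit 0) (nat_lit 2954422791) (nat_lit 228) (nat_lit 57763485) (nat_lit 76) (nat_lit 11707852274) (nat_lit 25) (nat_lit 5) (nat_lit 28) (nat_lit 5) (nat_lit 26) (nat_lit 5) (nat_lit 303) (nat_lit 255) (nat_lit 222)) (XT.nd (nat_lit 78) (nat_lit 0) (nat_lit 0) (XT.lf (nat_lit 0) (nat_lit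 6338466896) (nat_lit 228) (nat_lit 7943198597) (nat_lit 76) (nat_lit 946026362) (nat_lit 23) (nat_lit 5) (nat_lit 26) (nat_lit 5) (nat_lit 24) (nat_lit 4) (nat_lit 304) (nat_lit 255) (nat_lit 221)) (XT.lf (nat_lit 0) (nat_lit 9881427245) (nat_lit 228) (nat_lit 914534087) (nat_lit 76) (nat_lit 4965347116) (nat_lit 23) (nat_lit 5) (nat_lit 26) (nat_lit 5) (nat_lit 24) (nat_lit 4) (nat_lit 305) (nat_lit 255) (nat_lit 220))))))))
noncomputable def xc92 : XT := (XT.nd (nat_lit 1560) (nat_lit 380) (nat_lit 0) (XT.nd (nat_lit 780) (nat_lit 304) (nat_lit 0) (XT.nd (nat_lit 390) (nat_lit 304) (nat_lit 0) (XT.nd (nat_lit 156) (nat_lit 228) (nat_lit 0) (XT.nd (nat_lit 78) (nat_lit 76) (nat_lit 0) (XT.lf (nat_lit 0) (nat_lit 6580635271) (nat_lit 76) (nat_lit 7065870735) (nat_lit 152) (nat_lit 2672914513) (nat_lit 22) (nat_lit 5) (nat_lit 23) (nat_lit 5) (nat_lit 24) (nat_lit 4) (nat_lit 306) (nat_lit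 255) (nat_lit 219)) (XT.lf (nat_lit 0) (nat_lit 630444597) (nat_lit 152) (nat_lit 2529411854) (nat_lit 76) (nat_lit 13747183497) (nat_lit 21) (nat_lit 5) (nat_lit 23) (nat_lit 5) (nat_lit 22) (nat_lit 5) (nat_lit 307) (nat_lit 255) (nat_lit 218))) (XT.nd (nat_lit 78) (nat_lit 76) (nat_lit 0) (XT.lf (nat_lit 0) (nat_lit 4049666398) (nat_lit 228) (nat_lit 12469422678) (nat_lit 76) (nat_lit 1000788817) (nat_lit 19) (nat_lit 5) (nat_lit 22) (nat_lit 5) (nat_lit 20) (nat_lit 4) (nat_lit 308) (nat_lit 255) (nat_lit 217)) (XT.nd (nat_lit 78) (nat_lit 76) (nat_lit 0) (XT.lf (nat_lit 0) (nat_lit 7681087727) (nat_lit 228) (nat_lit 5208670781) (nat_lit 76) (nat_lit 5271589272) (nat_lit 19) (nat_lit 5) (nat_lit 22) (nat_lit 5) (nat_lit 20) (nat_lit 4) (nat_lit 309) (nat_lit 255) (nat_lit 216)) (XT.lf (nat_lit 0) (nat_lit 2404375822) (nat_lit 76) (nat_lit 9075718066) (nat_lit 152) (nat_lit 7355546078)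 (nat_lit 18) (nat_lit 5) (nat_lit 19) (nat_lit 5) (nat_lit 20) (nat_lit 4) (nat_lit 310) (nat_lit 255) (nat_lit 215))))) (XT.nd (nat_lit 156) (nat_lit 304) (nat_lit 0) (XT.nd (nat_lit 78) (nat_lit 0) (nat_lit 0) (XT.lf (nat_lit 0) (nat_lit 10492624598) (nat_lit 76) (nat_lit 5014218299) (nat_lit 152) (nat_lit 4034961374) (nat_lit 18) (nat_lit 5) (nat_lit 19) (nat_lit 5) (nat_lit 20) (nat_lit 4) (nat_lit 311) (nat_lit 255) (nat_lit 214)) (XT.lf (nat_lit 0) (nat_lit 18903111102) (nat_lit 76) (nat_lit 783800331) (nat_lit 152) (nat_lit 598811147) (nat_lit 18) (nat_lit 5) (nat_lit 19) (nat_lit 5) (nat_lit 20) (nat_lit 4) (nat_lit 312) (nat_lit 255) (nat_lit 213))) (XT.nd (nat_lit 78) (nat_lit 76) (nat_lit 0) (XT.lf (nat_lit 0) (nat_lit 3030897168) (nat_lit 228) (nat_lit 14363952592) (nat_lit 76) (nat_lit 3663775598) (nat_lit 15) (nat_lit 5) (nat_lit 18) (nat_lit 5) (nat_lit 16) (nat_lit 4)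 (nat_lit 313) (nat_lit 255) (nat_lit 212)) (XT.nd (nat_lit 78) (nat_lit 76) (nat_lit 0) (XT.lf (nat_lit 0) (nat_lit 6812566119) (nat_lit 228) (nat_lit 6748582529) (nat_lit 76) (nat_lit 8309042619) (nat_lit 15) (nat_lit 5) (nat_lit 18) (nat_lit 5) (nat_lit 16) (nat_lit 4) (nat_lit 314) (nat_lit 255) (nat_lit 211)) (XT.lf (nat_lit 0) (nat_lit 1209749117) (nat_lit 76) (nat_lit 9548600747) (nat_lit 152) (nat_lit 11965270970) (nat_lit 14) (nat_lit 5) (nat_lit 15) (nat_lit 5) (nat_lit 16) (nat_lit 4) (nat_lit 315) (nat_lit 255) (nat_lit 210)))))) (XT.nd (nat_lit 390) (nat_lit 152) (nat_lit 0) (XT.nd (nat_lit 156) (nat_lit 152) (nat_lit 0) (XT.nd (nat_lit 78) (nat_lit 0) (nat_lit 0) (XT.lf (nat_lit 0) (nat_lit 9725000744) (nat_lit 76) (nat_lit 5247769209) (nat_lit 152) (nat_lit 8643419744) (nat_lit 14) (nat_lit 5) (nat_lit 15) (nat_lit 5) (nat_lit 16) (nat_lit 4) (nat_lit 316) (nat_lit 255)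 (nat_lit 209)) (XT.lf (nat_lit 0) (nat_lit 18594308145) (nat_lit 76) (nat_lit 762704469) (nat_lit 152) (nat_lit 5198452811) (nat_lit 14) (nat_lit 5) (nat_lit 15) (nat_lit 5) (nat_lit 16) (nat_lit 4) (nat_lit 317) (nat_lit 255) (nat_lit 208))) (XT.nd (nat_lit 78) (nat_lit 76) (nat_lit 0) (XT.lf (nat_lit 0) (nat_lit 2307809034) (nat_lit 76) (nat_lit 21710898447) (nat_lit 76) (nat_lit 1520117356) (nat_lit 13) (nat_lit 4) (nat_lit 14) (nat_lit 5) (nat_lit 14) (nat_lit 4) (nat_lit 318) (nat_lit 255) (nat_lit 207)) (XT.nd (nat_lit 78) (nat_lit 0) (nat_lit 0) (XT.lf (nat_lit 0) (nat_lit 2343018311) (nat_lit 152) (nat_lit 15489863329) (nat_lit 76) (nat_lit 8732878834) (nat_lit 12) (nat_lit 5) (nat_lit 14) (nat_lit 5) (nat_lit 13) (nat_lit 4) (nat_lit 319) (nat_lit 255) (nat_lit 206)) (XT.lf (nat_lit 0) (nat_lit 6310827659) (nat_lit 152) (nat_lit 7453253955) (nat_lit 76) (nat_lit 13880612700)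 (nat_lit 12) (nat_lit 5) (nat_lit 14) (nat_lit 5) (nat_lit 13) (nat_lit 4) (nat_lit 320) (nat_lit 255) (nat_lit 205))))) (XT.nd (nat_lit 156) (nat_lit 76) (nat_lit 0) (XT.nd (nat_lit 78) (nat_lit 0) (nat_lit 0) (XT.lf (nat_lit 0) (nat_lit 952155310) (nat_lit 76) (nat_lit 9504121603) (nat_lit 152) (nat_lit 18322361711) (nat_lit 11) (nat_lit 5) (nat_lit 12) (nat_lit 5) (nat_lit 13) (nat_lit 4) (nat_lit 321) (nat_lit 255) (nat_lit 204)) (XT.lf (nat_lit 0) (nat_lit 9974113977) (nat_lit 76) (nat_lit 4926213251) (nat_lit 152) (nat_lit 15064411486) (nat_lit 11) (nat_lit 5) (nat_lit 12) (nat_lit 5) (nat_lit 13) (nat_lit 4) (nat_lit 322) (nat_lit 255) (nat_lit 203))) (XT.nd (nat_lit 78) (nat_lit 76) (nat_lit 0) (XT.lf (nat_lit 0) (nat_lit 19387664662) (nat_lit 76) (nat_lit 145681242) (nat_lit 152) (nat_lit 11678483420) (nat_lit 11) (nat_lit 5) (nat_lit 12) (nat_lit 5) (nat_lit 13) (nat_lit 4)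 (nat_lit 323) (nat_lit 255) (nat_lit 202)) (XT.nd (nat_lit 78) (nat_lit 76) (nat_lit 0) (XT.lf (nat_lit 0) (nat_lit 24442068179) (nat_lit 152) (nat_lit 3383363377) (nat_lit 0) (nat_lit 4693662950) (nat_lit 11) (nat_lit 5) (nat_lit 13) (nat_lit 4) (nat_lit 11) (nat_lit 4) (nat_lit 324) (nat_lit 255) (nat_lit 201)) (XT.lf (nat_lit 0) (nat_lit 5601233830) (nat_lit 76) (nat_lit 24054315511) (nat_lit 76) (nat_lit 4233229060) (nat_lit 10) (nat_lit 4) (nat_lit 11) (nat_lit 5) (nat_lit 11) (nat_lit 4) (nat_lit 325) (nat_lit 255) (nat_lit 200))))))) (XT.nd (nat_lit 780) (nat_lit 152) (nat_lit 0) (XT.nd (nat_lit 390) (nat_lit 76) (nat_lit 0) (XT.nd (nat_lit 156) (nat_lit 76) (nat_lit 0) (XT.nd (nat_lit 78) (nat_lit 76) (nat_lit 0) (XT.lf (nat_lit 0) (nat_lit 15098282446) (nat_lit 76) (nat_lit 20058810917) (nat_lit 76) (nat_lit 168504254) (nat_lit 10) (nat_lit 4) (nat_lit 11) (nat_lit 5) (nat_lit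 11) (nat_lit 4) (nat_lit 326) (nat_lit 255) (nat_lit 199)) (XT.lf (nat_lit 0) (nat_lit 3939276828) (nat_lit 152) (nat_lit 11880713175) (nat_lit 76) (nat_lit 21012534829) (nat_lit 9) (nat_lit 5) (nat_lit 11) (nat_lit 5) (nat_lit 10) (nat_lit 4) (nat_lit 327) (nat_lit 255) (nat_lit 198))) (XT.nd (nat_lit 78) (nat_lit 76) (nat_lit 0) (XT.lf (nat_lit 0) (nat_lit 8219191980) (nat_lit 152) (nat_lit 3169671887) (nat_lit 76) (nat_lit 27027193796) (nat_lit 9) (nat_lit 5) (nat_lit 11) (nat_lit 5) (nat_lit 10) (nat_lit 4) (nat_lit 328) (nat_lit 255) (nat_lit 197)) (XT.nd (nat_lit 78) (nat_lit 0) (nat_lit 0) (XT.lf (nat_lit 0) (nat_lit 6125225560) (nat_lit 76) (nat_lit 6657231038) (nat_lit 152) (nat_lit 27292859771) (nat_lit 8) (nat_lit 5) (nat_lit 9) (nat_lit 5) (nat_lit 10) (nat_lit 4) (nat_lit 329) (nat_lit 255) (nat_lit 196)) (XT.lf (nat_lit 0) (nat_lit 15947940379) (nat_lit 76) (nat_lit 1653863760)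 (nat_lit 152) (nat_lit 24214354000) (nat_lit 8) (nat_lit 5) (nat_lit 9) (nat_lit 5) (nat_lit 10) (nat_lit 4) (nat_lit 330) (nat_lit 255) (nat_lit 195))))) (XT.nd (nat_lit 156) (nat_lit 76) (nat_lit 0) (XT.nd (nat_lit 78) (nat_lit 0) (nat_lit 0) (XT.lf (nat_lit 0) (nat_lit 22693471070) (nat_lit 152) (nat_lit 17484113276) (nat_lit 0) (nat_lit 3464905398) (nat_lit 8) (nat_lit 5) (nat_lit 10) (nat_lit 4) (nat_lit 8) (nat_lit 4) (nat_lit 331) (nat_lit 255) (nat_lit 194)) (XT.lf (nat_lit 0) (nat_lit 28043168196) (nat_lit 152) (nat_lit 8751402992) (nat_lit 0) (nat_lit 8765409013) (nat_lit 8) (nat_lit 5) (nat_lit 10) (nat_lit 4) (nat_lit 8) (nat_lit 4) (nat_lit 332) (nat_lit 255) (nat_lit 193))) (XT.nd (nat_lit 78) (nat_lit 0) (nat_lit 0) (XT.lf (nat_lit 0) (nat_lit 388976378) (nat_lit 76) (nat_lit 33254908079) (nat_lit 76) (nat_lit 13930297931) (nat_lit 7) (nat_lit 4) (nat_lit 8) (nat_lit 5)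 (nat_lit 8) (nat_lit 4) (nat_lit 333) (nat_lit 255) (nat_lit 192)) (XT.nd (nat_lit 78) (nat_lit 0) (nat_lit 0) (XT.lf (nat_lit 0) (nat_lit 10249455569) (nat_lit 76) (nat_lit 29401288552) (nat_lit 76) (nat_lit 10032058439) (nat_lit 7) (nat_lit 4) (nat_lit 8) (nat_lit 5) (nat_lit 8) (nat_lit 4) (nat_lit 334) (nat_lit 255) (nat_lit 191)) (XT.lf (nat_lit 0) (nat_lit 20564151008) (nat_lit 76) (nat_lit 25372746569) (nat_lit 76) (nat_lit 5961021250) (nat_lit 7) (nat_lit 4) (nat_lit 8) (nat_lit 5) (nat_lit 8) (nat_lit 4) (nat_lit 335) (nat_lit 255) (nat_lit 190)))))) (XT.nd (nat_lit 390) (nat_lit 0) (nat_lit 0) (XT.nd (nat_lit 156) (nat_lit 76) (nat_lit 0) (XT.nd (nat_lit 78) (nat_lit 76) (nat_lit 0) (XT.lf (nat_lit 0) (nat_lit 31357621493) (nat_lit 76) (nat_lit 21159690362) (nat_lit 76) (nat_lit 1707493419) (nat_lit 7) (nat_lit 4) (nat_lit 8) (nat_lit 5) (nat_lit 8) (nat_lit 4) (nat_lit 336)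 (nat_lit 255) (nat_lit 189)) (XT.lf (nat_lit 0) (nat_lit 2650998517) (nat_lit 152) (nat_lit 14056194385) (nat_lit 76) (nat_lit 39959671301) (nat_lit 6) (nat_lit 5) (nat_lit 8) (nat_lit 5) (nat_lit 7) (nat_lit 4) (nat_lit 337) (nat_lit 255) (nat_lit 188))) (XT.nd (nat_lit 78) (nat_lit 76) (nat_lit 0) (XT.lf (nat_lit 0) (nat_lit 7151540351) (nat_lit 152) (nat_lit 4866792582) (nat_lit 76) (nat_lit 47212228535) (nat_lit 6) (nat_lit 5) (nat_lit 8) (nat_lit 5) (nat_lit 7) (nat_lit 4) (nat_lit 338) (nat_lit 255) (nat_lit 187)) (XT.nd (nat_lit 78) (nat_lit 0) (nat_lit 0) (XT.lf (nat_lit 0) (nat_lit 4906601811) (nat_lit 76) (nat_lit 7029502103) (nat_lit 152) (nat_lit 49983399843) (nat_lit 5) (nat_lit 5) (nat_lit 6) (nat_lit 5) (nat_lit 7) (nat_lit 4) (nat_lit 339) (nat_lit 255) (nat_lit 186)) (XT.lf (nat_lit 0) (nat_lit 15305635083) (nat_lit 76) (nat_lit 1719409990) (nat_lit 152) (nat_lit 47714600037)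 (nat_lit 5) (nat_lit 5) (nat_lit 6) (nat_lit 5) (nat_lit 7) (nat_lit 4) (nat_lit 340) (nat_lit 255) (nat_lit 185))))) (XT.nd (nat_lit 156) (nat_lit 0) (nat_lit 0) (XT.nd (nat_lit 78) (nat_lit 0) (nat_lit 0) (XT.lf (nat_lit 0) (nat_lit 22411970664) (nat_lit 152) (nat_lit 41567463255) (nat_lit 0) (nat_lit 3719191716) (nat_lit 5) (nat_lit 5) (nat_lit 7) (nat_lit 4) (nat_lit 5) (nat_lit 4) (nat_lit 341) (nat_lit 255) (nat_lit 184)) (XT.lf (nat_lit 0) (nat_lit 28080554813) (nat_lit 152) (nat_lit 33365379868) (nat_lit 0) (nat_lit 9359013437) (nat_lit 5) (nat_lit 5) (nat_lit 7) (nat_lit 4) (nat_lit 5) (nat_lit 4) (nat_lit 342) (nat_lit 255) (nat_lit 183))) (XT.nd (nat_lit 78) (nat_lit 0) (nat_lit 0) (XT.lf (nat_lit 0) (nat_lit 34017449341) (nat_lit 152) (nat_lit 24781386288) (nat_lit 0) (nat_lit 15268515177) (nat_lit 5) (nat_lit 5) (nat_lit 7) (nat_lit 4) (nat_lit 5) (nat_lit 4) (nat_lit 343)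 (nat_lit 255) (nat_lit 182)) (XT.nd (nat_lit 78) (nat_lit 0) (nat_lit 0) (XT.lf (nat_lit 0) (nat_lit 40236789710) (nat_lit 152) (nat_lit 15795044435) (nat_lit 0) (nat_lit 21461767176) (nat_lit 5) (nat_lit 5) (nat_lit 7) (nat_lit 4) (nat_lit 5) (nat_lit 4) (nat_lit 344) (nat_lit 255) (nat_lit 181)) (XT.lf (nat_lit 0) (nat_lit 46753383875) (nat_lit 152) (nat_lit 6384958258) (nat_lit 0) (nat_lit 27953515274) (nat_lit 5) (nat_lit 5) (nat_lit 7) (nat_lit 4) (nat_lit 5) (nat_lit 4) (nat_lit 345) (nat_lit 255) (nat_lit 180))))))))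
noncomputable def xc93 : XT := (XT.nd (nat_lit 1560) (nat_lit 76) (nat_lit 0) (XT.nd (nat_lit 780) (nat_lit 76) (nat_lit 0) (XT.nd (nat_lit 390) (nat_lit 76) (nat_lit 0) (XT.nd (nat_lit 156) (nat_lit 0) (nat_lit 0) (XT.nd (nat_lit 78) (nat_lit 0) (nat_lit 0) (XT.lf (nat_lit 0) (nat_lit 3586053312) (nat_lit 76) (nat_lit 50052682565) (nat_lit 76) (nat_lit 31229151044) (nat_lit 4) (nat_lit 4) (nat_lit 5) (nat_lit 5) (nat_lit 5) (nat_lit 4) (nat_lit 346) (nat_lit 255) (nat_lit 179)) (XT.lf (nat_lit 0) (nat_lit 14253324600) (nat_lit 76) (nat_lit 46710350822) (nat_lit 76) (nat_lit 27864283186) (nat_lit 4) (nat_lit 4) (nat_lit 5) (nat_lit 5) (nat_lit 5) (nat_lit 4) (nat_lit 347) (nat_lit 255) (nat_lit 178))) (XT.nd (nat_lit 78) (nat_lit 0) (nat_lit 0) (XT.lf (nat_lit 0) (nat_lit 25431138315) (nat_lit 76) (nat_lit 43211521329) (nat_lit 76) (nat_lit 24343990727) (nat_lit 4) (nat_lit 4) (nat_lit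 5) (nat_lit 5) (nat_lit 5) (nat_lit 4) (nat_lit 348) (nat_lit 255) (nat_lit 177)) (XT.nd (nat_lit 78) (nat_lit 0) (nat_lit 0) (XT.lf (nat_lit 0) (nat_lit 37146108300) (nat_lit 76) (nat_lit 39547863540) (nat_lit 76) (nat_lit 20659892017) (nat_lit 4) (nat_lit 4) (nat_lit 5) (nat_lit 5) (nat_lit 5) (nat_lit 4) (nat_lit 349) (nat_lit 255) (nat_lit 176)) (XT.lf (nat_lit 0) (nat_lit 49426127340) (nat_lit 76) (nat_lit 35710654460) (nat_lit 76) (nat_lit 16803215394) (nat_lit 4) (nat_lit 4) (nat_lit 5) (nat_lit 5) (nat_lit 5) (nat_lit 4) (nat_lit 350) (nat_lit 255) (nat_lit 175))))) (XT.nd (nat_lit 156) (nat_lit 76) (nat_lit 0) (XT.nd (nat_lit 78) (nat_lit 0) (nat_lit 0) (XT.lf (nat_lit 0) (nat_lit 62300433575) (nat_lit 76) (nat_lit 31690757877) (nat_lit 76) (nat_lit 12764778294) (nat_lit 4) (nat_lit 4) (nat_lit 5) (nat_lit 5) (nat_lit 5) (nat_lit 4) (nat_lit 351) (nat_lit 255) (nat_lit 174))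 (XT.lf (nat_lit 0) (nat_lit 75799680116) (nat_lit 76) (nat_lit 27478602609) (nat_lit 76) (nat_lit 8534965390) (nat_lit 4) (nat_lit 4) (nat_lit 5) (nat_lit 5) (nat_lit 5) (nat_lit 4) (nat_lit 352) (nat_lit 255) (nat_lit 173))) (XT.nd (nat_lit 78) (nat_lit 76) (nat_lit 0) (XT.lf (nat_lit 0) (nat_lit 89956008026) (nat_lit 76) (nat_lit 23064159715) (nat_lit 76) (nat_lit 4103705700) (nat_lit 4) (nat_lit 4) (nat_lit 5) (nat_lit 5) (nat_lit 5) (nat_lit 4) (nat_lit 353) (nat_lit 255) (nat_lit 172)) (XT.nd (nat_lit 78) (nat_lit 0) (nat_lit 0) (XT.lf (nat_lit 0) (nat_lit 522282380) (nat_lit 152) (nat_lit 17905791130) (nat_lit 76) (nat_lit 104271995362) (nat_lit 3) (nat_lit 5) (nat_lit 5) (nat_lit 5) (nat_lit 4) (nat_lit 4) (nat_lit 354) (nat_lit 255) (nat_lit 171)) (XT.lf (nat_lit 0) (nat_lit 5232839948) (nat_lit 152) (nat_lit 8264401446) (nat_lit 76) (nat_lit 115054914229) (nat_lit 3) (nat_lit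 5) (nat_lit 5) (nat_lit 5) (nat_lit 4) (nat_lit 4) (nat_lit 355) (nat_lit 255) (nat_lit 170)))))) (XT.nd (nat_lit 390) (nat_lit 0) (nat_lit 0) (XT.nd (nat_lit 156) (nat_lit 0) (nat_lit 0) (XT.nd (nat_lit 78) (nat_lit 0) (nat_lit 0) (XT.lf (nat_lit 0) (nat_lit 1904278476) (nat_lit 76) (nat_lit 8295979473) (nat_lit 152) (nat_lit 124495526244) (nat_lit 2) (nat_lit 5) (nat_lit 3) (nat_lit 5) (nat_lit 4) (nat_lit 4) (nat_lit 356) (nat_lit 255) (nat_lit 169)) (XT.lf (nat_lit 0) (nat_lit 12852839380) (nat_lit 76) (nat_lit 2694928873) (nat_lit 152) (nat_lit 125592243784) (nat_lit 2) (nat_lit 5) (nat_lit 3) (nat_lit 5) (nat_lit 4) (nat_lit 4) (nat_lit 357) (nat_lit 255) (nat_lit 168))) (XT.nd (nat_lit 78) (nat_lit 0) (nat_lit 0) (XT.lf (nat_lit 0) (nat_lit 21204443773) (nat_lit 152) (nat_lit 123622394102) (nat_lit 0) (nat_lit 3077527641) (nat_lit 2) (nat_lit 5) (nat_lit 4) (nat_lit 4) (nat_lit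 2) (nat_lit 4) (nat_lit 358) (nat_lit 255) (nat_lit 167)) (XT.nd (nat_lit 78) (nat_lit 0) (nat_lit 0) (XT.lf (nat_lit 0) (nat_lit 27180555651) (nat_lit 152) (nat_lit 118782866305) (nat_lit 0) (nat_lit 9041688135) (nat_lit 2) (nat_lit 5) (nat_lit 4) (nat_lit 4) (nat_lit 2) (nat_lit 4) (nat_lit 359) (nat_lit 255) (nat_lit 166)) (XT.lf (nat_lit 0) (nat_lit 33448257332) (nat_lit 152) (nat_lit 113714991188) (nat_lit 0) (nat_lit 15298007547) (nat_lit 2) (nat_lit 5) (nat_lit 4) (nat_lit 4) (nat_lit 2) (nat_lit 4) (nat_lit 360) (nat_lit 255) (nat_lit 165))))) (XT.nd (nat_lit 156) (nat_lit 0) (nat_lit 0) (XT.nd (nat_lit 78) (nat_lit 0) (nat_lit 0) (XT.lf (nat_lit 0) (nat_lit 40022471915) (nat_lit 152) (nat_lit 108406702381) (nat_lit 0) (nat_lit 21861381873) (nat_lit 2) (nat_lit 5) (nat_lit 4) (nat_lit 4) (nat_lit 2) (nat_lit 4) (nat_lit 361) (nat_lit 255) (nat_lit 164)) (XT.lf (nat_lit 0) (nat_lit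 46918852292) (nat_lit 152) (nat_lit 102845361103) (nat_lit 0) (nat_lit 28747438197) (nat_lit 2) (nat_lit 5) (nat_lit 4) (nat_lit 4) (nat_lit 2) (nat_lit 4) (nat_lit 362) (nat_lit 255) (nat_lit 163))) (XT.nd (nat_lit 78) (nat_lit 0) (nat_lit 0) (XT.lf (nat_lit 0) (nat_lit 54153818417) (nat_lit 152) (nat_lit 97017726064) (nat_lit 0) (nat_lit 35972571890) (nat_lit 2) (nat_lit 5) (nat_lit 4) (nat_lit 4) (nat_lit 2) (nat_lit 4) (nat_lit 363) (nat_lit 255) (nat_lit 162)) (XT.nd (nat_lit 78) (nat_lit 0) (nat_lit 0) (XT.lf (nat_lit 0) (nat_lit 61744596400) (nat_lit 152) (nat_lit 90909921942) (nat_lit 0) (nat_lit 43553985651) (nat_lit 2) (nat_lit 5) (nat_lit 4) (nat_lit 4) (nat_lit 2) (nat_lit 4) (nat_lit 364) (nat_lit 255) (nat_lit 161)) (XT.lf (nat_lit 0) (nat_lit 69709259520) (nat_lit 152) (nat_lit 84507406348) (nat_lit 0) (nat_lit 51509730466) (nat_lit 2) (nat_lit 5) (nat_lit 4) (nat_lit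 4) (nat_lit 2) (nat_lit 4) (nat_lit 365) (nat_lit 255) (nat_lit 160))))))) (XT.nd (nat_lit 780) (nat_lit 76) (nat_lit 0) (XT.nd (nat_lit 390) (nat_lit 0) (nat_lit 0) (XT.nd (nat_lit 156) (nat_lit 0) (nat_lit 0) (XT.nd (nat_lit 78) (nat_lit 0) (nat_lit 0) (XT.lf (nat_lit 0) (nat_lit 78066771263) (nat_lit 152) (nat_lit 77794935195) (nat_lit 0) (nat_lit 59858748584) (nat_lit 2) (nat_lit 5) (nat_lit 4) (nat_lit 4) (nat_lit 2) (nat_lit 4) (nat_lit 366) (nat_lit 255) (nat_lit 159)) (XT.lf (nat_lit 0) (nat_lit 86837030465) (nat_lit 152) (nat_lit 70756526410) (nat_lit 0) (nat_lit 68620918619) (nat_lit 2) (nat_lit 5) (nat_lit 4) (nat_lit 4) (nat_lit 2) (nat_lit 4) (nat_lit 367) (nat_lit 255) (nat_lit 158))) (XT.nd (nat_lit 78) (nat_lit 0) (nat_lit 0) (XT.lf (nat_lit 0) (nat_lit 96040918696) (nat_lit 152) (nat_lit 63375421878) (nat_lit 0) (nat_lit 77817102882) (nat_lit 2) (nat_lit 5) (nat_lit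 4) (nat_lit 4) (nat_lit 2) (nat_lit 4) (nat_lit 368) (nat_lit 255) (nat_lit 157)) (XT.nd (nat_lit 78) (nat_lit 0) (nat_lit 0) (XT.lf (nat_lit 0) (nat_lit 105700349975) (nat_lit 152) (nat_lit 55634047538) (nat_lit 0) (nat_lit 87469197050) (nat_lit 2) (nat_lit 5) (nat_lit 4) (nat_lit 4) (nat_lit 2) (nat_lit 4) (nat_lit 369) (nat_lit 255) (nat_lit 156)) (XT.lf (nat_lit 0) (nat_lit 115838322949) (nat_lit 152) (nat_lit 47513971549) (nat_lit 0) (nat_lit 97600182298) (nat_lit 2) (nat_lit 5) (nat_lit 4) (nat_lit 4) (nat_lit 2) (nat_lit 4) (nat_lit 370) (nat_lit 255) (nat_lit 155))))) (XT.nd (nat_lit 156) (nat_lit 0) (nat_lit 0) (XT.nd (nat_lit 78) (nat_lit 0) (nat_lit 0) (XT.lf (nat_lit 0) (nat_lit 126478975649) (nat_lit 152) (nat_lit 38995860395) (nat_lit 0) (nat_lit 108234180020) (nat_lit 2) (nat_lit 5) (nat_lit 4) (nat_lit 4) (nat_lit 2) (nat_lit 4) (nat_lit 371) (nat_lit 255) (nat_lit 154))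 (XT.lf (nat_lit 0) (nat_lit 137647642961) (nat_lit 152) (nat_lit 30059432859) (nat_lit 0) (nat_lit 119396509258) (nat_lit 2) (nat_lit 5) (nat_lit 4) (nat_lit 4) (nat_lit 2) (nat_lit 4) (nat_lit 372) (nat_lit 255) (nat_lit 153))) (XT.nd (nat_lit 78) (nat_lit 0) (nat_lit 0) (XT.lf (nat_lit 0) (nat_lit 149370916950) (nat_lit 152) (nat_lit 20683411733) (nat_lit 0) (nat_lit 131113746987) (nat_lit 2) (nat_lit 5) (nat_lit 4) (nat_lit 4) (nat_lit 2) (nat_lit 4) (nat_lit 373) (nat_lit 255) (nat_lit 152)) (XT.nd (nat_lit 78) (nat_lit 0) (nat_lit 0) (XT.lf (nat_lit 0) (nat_lit 161676710175) (nat_lit 152) (nat_lit 10845473158) (nat_lit 0) (nat_lit 143413791393) (nat_lit 2) (nat_lit 5) (nat_lit 4) (nat_lit 4) (nat_lit 2) (nat_lit 4) (nat_lit 374) (nat_lit 255) (nat_lit 151)) (XT.lf (nat_lit 0) (nat_lit 174594322142) (nat_lit 152) (nat_lit 522193469) (nat_lit 0) (nat_lit 156325928293) (nat_lit 2)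 (nat_lit 5) (nat_lit 4) (nat_lit 4) (nat_lit 2) (nat_lit 4) (nat_lit 375) (nat_lit 255) (nat_lit 150)))))) (XT.nd (nat_lit 390) (nat_lit 0) (nat_lit 0) (XT.nd (nat_lit 156) (nat_lit 0) (nat_lit 0) (XT.nd (nat_lit 78) (nat_lit 0) (nat_lit 0) (XT.lf (nat_lit 0) (nat_lit 10651935012) (nat_lit 76) (nat_lit 177668880616) (nat_lit 76) (nat_lit 159395272418) (nat_lit 1) (nat_lit 4) (nat_lit 2) (nat_lit 5) (nat_lit 2) (nat_lit 4) (nat_lit 376) (nat_lit 255) (nat_lit 149)) (XT.lf (nat_lit 0) (nat_lit 22396756366) (nat_lit 76) (nat_lit 180342476887) (nat_lit 76) (nat_lit 162063902644) (nat_lit 1) (nat_lit 4) (nat_lit 2) (nat_lit 5) (nat_lit 2) (nat_lit 4) (nat_lit 377) (nat_lit 255) (nat_lit 148))) (XT.nd (nat_lit 78) (nat_lit 0) (nat_lit 0) (XT.lf (nat_lit 0) (nat_lit 34722968378) (nat_lit 76) (nat_lit 183152513731) (nat_lit 76) (nat_lit 164869209919) (nat_lit 1) (nat_lit 4) (nat_lit 2) (nat_lit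 5) (nat_lit 2) (nat_lit 4) (nat_lit 378) (nat_lit 255) (nat_lit 147)) (XT.nd (nat_lit 78) (nat_lit 0) (nat_lit 0) (XT.lf (nat_lit 0) (nat_lit 47659919172) (nat_lit 76) (nat_lit 186105681710) (nat_lit 76) (nat_lit 167817873548) (nat_lit 1) (nat_lit 4) (nat_lit 2) (nat_lit 5) (nat_lit 2) (nat_lit 4) (nat_lit 379) (nat_lit 255) (nat_lit 146)) (XT.lf (nat_lit 0) (nat_lit 61238411011) (nat_lit 76) (nat_lit 189209012178) (nat_lit 76) (nat_lit 170916914158) (nat_lit 1) (nat_lit 4) (nat_lit 2) (nat_lit 5) (nat_lit 2) (nat_lit 4) (nat_lit 380) (nat_lit 255) (nat_lit 145))))) (XT.nd (nat_lit 234) (nat_lit 0) (nat_lit 0) (XT.nd (nat_lit 78) (nat_lit 0) (nat_lit 0) (XT.lf (nat_lit 0) (nat_lit 75490773639) (nat_lit 76) (nat_lit 192469894015) (nat_lit 76) (nat_lit 174173710417) (nat_lit 1) (nat_lit 4) (nat_lit 2) (nat_lit 5) (nat_lit 2) (nat_lit 4) (nat_lit 381) (nat_lit 255) (nat_lit 144)) (XT.nd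 (nat_lit 78) (nat_lit 0) (nat_lit 0) (XT.lf (nat_lit 0) (nat_lit 90450941251) (nat_lit 76) (nat_lit 195896091228) (nat_lit 76) (nat_lit 177596016602) (nat_lit 1) (nat_lit 4) (nat_lit 2) (nat_lit 5) (nat_lit 2) (nat_lit 4) (nat_lit 382) (nat_lit 255) (nat_lit 143)) (XT.lf (nat_lit 0) (nat_lit 106154533295) (nat_lit 76) (nat_lit 199495761428) (nat_lit 76) (nat_lit 181191981062) (nat_lit 1) (nat_lit 4) (nat_lit 2) (nat_lit 5) (nat_lit 2) (nat_lit 4) (nat_lit 383) (nat_lit 255) (nat_lit 142)))) (XT.nd (nat_lit 78) (nat_lit 0) (nat_lit 0) (XT.lf (nat_lit 0) (nat_lit 122638939275) (nat_lit 76) (nat_lit 203277475257) (nat_lit 76) (nat_lit 184970165615) (nat_lit 1) (nat_lit 4) (nat_lit 2) (nat_lit 5) (nat_lit 2) (nat_lit 4) (nat_lit 384) (nat_lit 255) (nat_lit 141)) (XT.nd (nat_lit 78) (nat_lit 0) (nat_lit 0) (XT.lf (nat_lit 0) (nat_lit 139943407777) (nat_lit 76) (nat_lit 207250236798) (nat_lit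 76) (nat_lit 188939565940) (nat_lit 1) (nat_lit 4) (nat_lit 2) (nat_lit 5) (nat_lit 2) (nat_lit 4) (nat_lit 385) (nat_lit 255) (nat_lit 140)) (XT.lf (nat_lit 0) (nat_lit 158109139917) (nat_lit 76) (nat_lit 211423505006) (nat_lit 76) (nat_lit 193109632990) (nat_lit 1) (nat_lit 4) (nat_lit 2) (nat_lit 5) (nat_lit 2) (nat_lit 4) (nat_lit 386) (nat_lit 255) (nat_lit 139))))))))
noncomputable def xc94 : XT := (XT.nd (nat_lit 32682) (nat_lit 0) (nat_lit 1672) (XT.nd (nat_lit 31902) (nat_lit 0) (nat_lit 4256) (XT.nd (nat_lit 31512) (nat_lit 0) (nat_lit 7524) (XT.nd (nat_lit 156) (nat_lit 0) (nat_lit 0) (XT.nd (nat_lit 78) (nat_lit 0) (nat_lit 0) (XT.lf (nat_lit 0) (nat_lit 177179387437) (nat_lit 76) (nat_lit 215807216234) (nat_lit 76) (nat_lit 197490295496) (nat_lit 1) (nat_lit 4) (nat_lit 2) (nat_lit 5) (nat_lit 2) (nat_lit 4) (nat_lit 387) (nat_lit 255) (nat_lit 138)) (XT.lf (nat_lit 0) (nat_lit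 197199555690) (nat_lit 76) (nat_lit 220411807889) (nat_lit 76) (nat_lit 202091983607) (nat_lit 1) (nat_lit 4) (nat_lit 2) (nat_lit 5) (nat_lit 2) (nat_lit 4) (nat_lit 388) (nat_lit 255) (nat_lit 137))) (XT.nd (nat_lit 31200) (nat_lit 0) (nat_lit 9044) (XT.lf (nat_lit 0) (nat_lit 218217311741) (nat_lit 76) (nat_lit 225248243285) (nat_lit 76) (nat_lit 206925653723) (nat_lit 1) (nat_lit 4) (nat_lit 2) (nat_lit 5) (nat_lit 2) (nat_lit 4) (nat_lit 389) (nat_lit 255) (nat_lit 136)) (XT.nd (nat_lit 78) (nat_lit 0) (nat_lit 0) (XT.lf (nat_lit 0) (nat_lit 310821728) (nat_lit 380) (nat_lit 2697547622) (nat_lit 0) (nat_lit 310821728) (nat_lit 120) (nat_lit 5) (nat_lit 125) (nat_lit 4) (nat_lit 120) (nat_lit 4) (nat_lit 268) (nat_lit 256) (nat_lit 256)) (XT.lf (nat_lit 0) (nat_lit 3638370530) (nat_lit 380) (nat_lit 1520905499) (nat_lit 0) (nat_lit 1532246912) (nat_lit 120) (nat_lit 5) (nat_lit 125)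 (nat_lit 4) (nat_lit 120) (nat_lit 4) (nat_lit 269) (nat_lit 256) (nat_lit 255))))) (XT.nd (nat_lit 156) (nat_lit 1064) (nat_lit 0) (XT.nd (nat_lit 78) (nat_lit 76) (nat_lit 0) (XT.lf (nat_lit 0) (nat_lit 2496401289) (nat_lit 380) (nat_lit 4184852527) (nat_lit 380) (nat_lit 72896890) (nat_lit 115) (nat_lit 4) (nat_lit 120) (nat_lit 5) (nat_lit 120) (nat_lit 4) (nat_lit 270) (nat_lit 256) (nat_lit 254)) (XT.lf (nat_lit 0) (nat_lit 2823723253) (nat_lit 456) (nat_lit 233639175) (nat_lit 76) (nat_lit 3767443297) (nat_lit 114) (nat_lit 5) (nat_lit 120) (nat_lit 5) (nat_lit 115) (nat_lit 4) (nat_lit 271) (nat_lit 256) (nat_lit 253))) (XT.nd (nat_lit 78) (nat_lit 608) (nat_lit 0) (XT.lf (nat_lit 0) (nat_lit 3990338023) (nat_lit 456) (nat_lit 1781349116) (nat_lit 532) (nat_lit 1132313267) (nat_lit 108) (nat_lit 5) (nat_lit 114) (nat_lit 5) (nat_lit 115) (nat_lit 4) (nat_lit 272) (nat_lit 256)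 (nat_lit 252)) (XT.nd (nat_lit 78) (nat_lit 0) (nat_lit 0) (XT.lf (nat_lit 0) (nat_lit 1328520786) (nat_lit 532) (nat_lit 365067970) (nat_lit 608) (nat_lit 5298872339) (nat_lit 100) (nat_lit 5) (nat_lit 107) (nat_lit 5) (nat_lit 108) (nat_lit 5) (nat_lit 273) (nat_lit 256) (nat_lit 251)) (XT.lf (nat_lit 0) (nat_lit 4544931723) (nat_lit 608) (nat_lit 1372924912) (nat_lit 76) (nat_lit 1170894806) (nat_lit 100) (nat_lit 5) (nat_lit 108) (nat_lit 5) (nat_lit 101) (nat_lit 4) (nat_lit 274) (nat_lit 256) (nat_lit 250)))))) (XT.nd (nat_lit 390) (nat_lit 1368) (nat_lit 0) (XT.nd (nat_lit 156) (nat_lit 532) (nat_lit 0) (XT.nd (nat_lit 78) (nat_lit 684) (nat_lit 0) (XT.lf (nat_lit 0) (nat_lit 251788229) (nat_lit 684) (nat_lit 4103429892) (nat_lit 76) (nat_lit 2839070482) (nat_lit 91) (nat_lit 5) (nat_lit 100) (nat_lit 5) (nat_lit 92) (nat_lit 5) (nat_lit 275) (nat_lit 256) (nat_lit 249)) (XT.lf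 (nat_lit 0) (nat_lit 357526965) (nat_lit 684) (nat_lit 2636834819) (nat_lit 760) (nat_lit 4314406176) (nat_lit 82) (nat_lit 5) (nat_lit 91) (nat_lit 5) (nat_lit 92) (nat_lit 5) (nat_lit 276) (nat_lit 256) (nat_lit 248))) (XT.nd (nat_lit 78) (nat_lit 532) (nat_lit 0) (XT.lf (nat_lit 0) (nat_lit 5052755622) (nat_lit 684) (nat_lit 758714804) (nat_lit 760) (nat_lit 1620996389) (nat_lit 82) (nat_lit 5) (nat_lit 91) (nat_lit 5) (nat_lit 92) (nat_lit 5) (nat_lit 277) (nat_lit 256) (nat_lit 247)) (XT.nd (nat_lit 78) (nat_lit 0) (nat_lit 0) (XT.lf (nat_lit 0) (nat_lit 1096729446) (nat_lit 532) (nat_lit 5239037016) (nat_lit 76) (nat_lit 1229559705) (nat_lit 75) (nat_lit 5) (nat_lit 82) (nat_lit 5) (nat_lit 76) (nat_lit 5) (nat_lit 278) (nat_lit 256) (nat_lit 246)) (XT.lf (nat_lit 0) (nat_lit 3825130405) (nat_lit 532) (nat_lit 526214694) (nat_lit 76) (nat_lit 3356007492) (nat_lit 75) (nat_lit 5)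 (nat_lit 82) (nat_lit 5) (nat_lit 76) (nat_lit 5) (nat_lit 279) (nat_lit 256) (nat_lit 245))))) (XT.nd (nat_lit 156) (nat_lit 608) (nat_lit 0) (XT.nd (nat_lit 78) (nat_lit 380) (nat_lit 0) (XT.lf (nat_lit 0) (nat_lit 4436691868) (nat_lit 380) (nat_lit 2204304689) (nat_lit 456) (nat_lit 1218232509) (nat_lit 70) (nat_lit 5) (nat_lit 75) (nat_lit 5) (nat_lit 76) (nat_lit 5) (nat_lit 280) (nat_lit 256) (nat_lit 244)) (XT.lf (nat_lit 0) (nat_lit 1446382430) (nat_lit 380) (nat_lit 6480741918) (nat_lit 76) (nat_lit 94717312) (nat_lit 65) (nat_lit 5) (nat_lit 70) (nat_lit 5) (nat_lit 66) (nat_lit 5) (nat_lit 281) (nat_lit 256) (nat_lit 243))) (XT.nd (nat_lit 78) (nat_lit 608) (nat_lit 0) (XT.lf (nat_lit 0) (nat_lit 4184968483) (nat_lit 380) (nat_lit 1508237578) (nat_lit 76) (nat_lit 2499556229) (nat_lit 65) (nat_lit 5) (nat_lit 70) (nat_lit 5) (nat_lit 66) (nat_lit 5) (nat_lit 282) (nat_lit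 256) (nat_lit 242)) (XT.nd (nat_lit 78) (nat_lit 304) (nat_lit 0) (XT.lf (nat_lit 0) (nat_lit 3704571168) (nat_lit 304) (nat_lit 3305782168) (nat_lit 380) (nat_lit 1364629763) (nat_lit 61) (nat_lit 5) (nat_lit 65) (nat_lit 5) (nat_lit 66) (nat_lit 5) (nat_lit 283) (nat_lit 256) (nat_lit 241)) (XT.lf (nat_lit 0) (nat_lit 531309825) (nat_lit 228) (nat_lit 761765444) (nat_lit 304) (nat_lit 7275986351) (nat_lit 57) (nat_lit 5) (nat_lit 60) (nat_lit 5) (nat_lit 61) (nat_lit 5) (nat_lit 284) (nat_lit 256) (nat_lit 240))))))) (XT.nd (nat_lit 780) (nat_lit 1064) (nat_lit 0) (XT.nd (nat_lit 390) (nat_lit 684) (nat_lit 0) (XT.nd (nat_lit 156) (nat_lit 532) (nat_lit 0) (XT.nd (nat_lit 78) (nat_lit 304) (nat_lit 0) (XT.lf (nat_lit 0) (nat_lit 4044035370) (nat_lit 304) (nat_lit 2798664879) (nat_lit 76) (nat_lit 1928927660) (nat_lit 57) (nat_lit 5) (nat_lit 61) (nat_lit 5) (nat_lit 58) (nat_lit 5)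 (nat_lit 285) (nat_lit 256) (nat_lit 239)) (XT.lf (nat_lit 0) (nat_lit 2649390326) (nat_lit 304) (nat_lit 4237982742) (nat_lit 380) (nat_lit 2099411684) (nat_lit 53) (nat_lit 5) (nat_lit 57) (nat_lit 5) (nat_lit 58) (nat_lit 5) (nat_lit 286) (nat_lit 256) (nat_lit 238))) (XT.nd (nat_lit 78) (nat_lit 456) (nat_lit 0) (XT.lf (nat_lit 0) (nat_lit 589224684) (nat_lit 380) (nat_lit 881101477) (nat_lit 76) (nat_lit 7744533881) (nat_lit 52) (nat_lit 5) (nat_lit 57) (nat_lit 5) (nat_lit 53) (nat_lit 5) (nat_lit 287) (nat_lit 256) (nat_lit 237)) (XT.nd (nat_lit 78) (nat_lit 228) (nat_lit 0) (XT.lf (nat_lit 0) (nat_lit 3347894083) (nat_lit 304) (nat_lit 4629377158) (nat_lit 76) (nat_lit 1475215247) (nat_lit 49) (nat_lit 5) (nat_lit 53) (nat_lit 5) (nat_lit 50) (nat_lit 5) (nat_lit 288) (nat_lit 256) (nat_lit 236)) (XT.lf (nat_lit 0) (nat_lit 1027420402) (nat_lit 228) (nat_lit 5181210712) (nat_lit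 304) (nat_lit 3495324035) (nat_lit 46) (nat_lit 5) (nat_lit 49) (nat_lit 5) (nat_lit 50) (nat_lit 5) (nat_lit 289) (nat_lit 256) (nat_lit 235))))) (XT.nd (nat_lit 156) (nat_lit 380) (nat_lit 0) (XT.nd (nat_lit 78) (nat_lit 304) (nat_lit 0) (XT.lf (nat_lit 0) (nat_lit 7006775524) (nat_lit 228) (nat_lit 2195305808) (nat_lit 304) (nat_lit 766591716) (nat_lit 46) (nat_lit 5) (nat_lit 49) (nat_lit 5) (nat_lit 50) (nat_lit 5) (nat_lit 290) (nat_lit 256) (nat_lit 234)) (XT.lf (nat_lit 0) (nat_lit 2007422273) (nat_lit 304) (nat_lit 7279629893) (nat_lit 76) (nat_lit 959280589) (nat_lit 42) (nat_lit 5) (nat_lit 46) (nat_lit 5) (nat_lit 43) (nat_lit 5) (nat_lit 291) (nat_lit 256) (nat_lit 233))) (XT.nd (nat_lit 78) (nat_lit 380) (nat_lit 0) (XT.lf (nat_lit 0) (nat_lit 4897086782) (nat_lit 304) (nat_lit 1410322809) (nat_lit 76) (nat_lit 4229839775) (nat_lit 42) (nat_lit 5) (nat_lit 46) (nat_lit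 5) (nat_lit 43) (nat_lit 5) (nat_lit 292) (nat_lit 256) (nat_lit 232)) (XT.nd (nat_lit 78) (nat_lit 152) (nat_lit 0) (XT.lf (nat_lit 0) (nat_lit 4791383765) (nat_lit 228) (nat_lit 3134410275) (nat_lit 304) (nat_lit 2917321109) (nat_lit 39) (nat_lit 5) (nat_lit 42) (nat_lit 5) (nat_lit 43) (nat_lit 5) (nat_lit 293) (nat_lit 256) (nat_lit 231)) (XT.lf (nat_lit 0) (nat_lit 71814508) (nat_lit 152) (nat_lit 10983878240) (nat_lit 228) (nat_lit 111218737) (nat_lit 37) (nat_lit 5) (nat_lit 39) (nat_lit 5) (nat_lit 40) (nat_lit 4) (nat_lit 294) (nat_lit 256) (nat_lit 230)))))) (XT.nd (nat_lit 390) (nat_lit 532) (nat_lit 0) (XT.nd (nat_lit 156) (nat_lit 228) (nat_lit 0) (XT.nd (nat_lit 78) (nat_lit 228) (nat_lit 0) (XT.lf (nat_lit 0) (nat_lit 2821869333) (nat_lit 228) (nat_lit 5004358700) (nat_lit 76) (nat_lit 3674698564) (nat_lit 36) (nat_lit 5) (nat_lit 39) (nat_lit 5) (nat_lit 37) (nat_lit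 5) (nat_lit 295) (nat_lit 256) (nat_lit 229)) (XT.lf (nat_lit 0) (nat_lit 1320011863) (nat_lit 228) (nat_lit 4524063163) (nat_lit 304) (nat_lit 6010274270) (nat_lit 33) (nat_lit 5) (nat_lit 36) (nat_lit 5) (nat_lit 37) (nat_lit 5) (nat_lit 296) (nat_lit 256) (nat_lit 228))) (XT.nd (nat_lit 78) (nat_lit 228) (nat_lit 0) (XT.lf (nat_lit 0) (nat_lit 8024806642) (nat_lit 228) (nat_lit 1004760521) (nat_lit 304) (nat_lit 3195370051) (nat_lit 33) (nat_lit 5) (nat_lit 36) (nat_lit 5) (nat_lit 37) (nat_lit 5) (nat_lit 297) (nat_lit 256) (nat_lit 227)) (XT.nd (nat_lit 78) (nat_lit 76) (nat_lit 0) (XT.lf (nat_lit 0) (nat_lit 2377554034) (nat_lit 152) (nat_lit 10006237830) (nat_lit 228) (nat_lit 229887758) (nat_lit 31) (nat_lit 5) (nat_lit 33) (nat_lit 5) (nat_lit 34) (nat_lit 4) (nat_lit 298) (nat_lit 256) (nat_lit 226)) (XT.lf (nat_lit 0) (nat_lit 2811130857) (nat_lit 228) (nat_lit 3758992419)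 (nat_lit 76) (nat_lit 6448595294) (nat_lit 30) (nat_lit 5) (nat_lit 33) (nat_lit 5) (nat_lit 31) (nat_lit 5) (nat_lit 299) (nat_lit 256) (nat_lit 225))))) (XT.nd (nat_lit 234) (nat_lit 228) (nat_lit 0) (XT.nd (nat_lit 78) (nat_lit 152) (nat_lit 0) (XT.lf (nat_lit 0) (nat_lit 3032458847) (nat_lit 152) (nat_lit 2945451670) (nat_lit 228) (nat_lit 7466923374) (nat_lit 28) (nat_lit 5) (nat_lit 30) (nat_lit 5) (nat_lit 31) (nat_lit 5) (nat_lit 300) (nat_lit 256) (nat_lit 224)) (XT.nd (nat_lit 78) (nat_lit 152) (nat_lit 0) (XT.lf (nat_lit 0) (nat_lit 9316242052) (nat_lit 228) (nat_lit 3713455572) (nat_lit 76) (nat_lit 861977327) (nat_lit 28) (nat_lit 5) (nat_lit 31) (nat_lit 5) (nat_lit 29) (nat_lit 4) (nat_lit 301) (nat_lit 256) (nat_lit 223)) (XT.lf (nat_lit 0) (nat_lit 3278098337) (nat_lit 152) (nat_lit 9581024728) (nat_lit 228) (nat_lit 1499930134) (nat_lit 26) (nat_lit 5) (nat_lit 28)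 (nat_lit 5) (nat_lit 29) (nat_lit 4) (nat_lit 302) (nat_lit 256) (nat_lit 222)))) (XT.nd (nat_lit 78) (nat_lit 152) (nat_lit 0) (XT.lf (nat_lit 0) (nat_lit 1676447950) (nat_lit 228) (nat_lit 4225985395) (nat_lit 76) (nat_lit 8945964153) (nat_lit 25) (nat_lit 5) (nat_lit 28) (nat_lit 5) (nat_lit 26) (nat_lit 5) (nat_lit 303) (nat_lit 256) (nat_lit 221)) (XT.nd (nat_lit 78) (nat_lit 0) (nat_lit 0) (XT.lf (nat_lit 0) (nat_lit 2946742162) (nat_lit 152) (nat_lit 2001959308) (nat_lit 228) (nat_lit 10412971216) (nat_lit 23) (nat_lit 5) (nat_lit 25) (nat_lit 5) (nat_lit 26) (nat_lit 5) (nat_lit 304) (nat_lit 256) (nat_lit 220)) (XT.lf (nat_lit 0) (nat_lit 8432224276) (nat_lit 228) (nat_lit 5401619479) (nat_lit 76) (nat_lit 2064448215) (nat_lit 23) (nat_lit 5) (nat_lit 26) (nat_lit 5) (nat_lit 24) (nat_lit 4) (nat_lit 305) (nat_lit 256) (nat_lit 219))))))))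
noncomputable def xc95 : XT := (XT.nd (nat_lit 1560) (nat_lit 456) (nat_lit 0) (XT.nd (nat_lit 780) (nat_lit 304) (nat_lit 0) (XT.nd (nat_lit 390) (nat_lit 304) (nat_lit 0) (XT.nd (nat_lit 156) (nat_lit 228) (nat_lit 0) (XT.nd (nat_lit 78) (nat_lit 0) (nat_lit 0) (XT.lf (nat_lit 0) (nat_lit 1899328680) (nat_lit 76) (nat_lit 10198046661) (nat_lit 152) (nat_lit 4364054430) (nat_lit 22) (nat_lit 5) (nat_lit 23) (nat_lit 5) (nat_lit 24) (nat_lit 4) (nat_lit 306) (nat_lit 256) (nat_lit 218)) (XT.lf (nat_lit 0) (nat_lit 9663324207) (nat_lit 76) (nat_lit 6320140253) (nat_lit 152) (nat_lit 1067433272) (nat_lit 22) (nat_lit 5) (nat_lit 23) (nat_lit 5) (nat_lit 24) (nat_lit 4) (nat_lit 307) (nat_lit 256) (nat_lit 217))) (XT.nd (nat_lit 78) (nat_lit 0) (nat_lit 0) (XT.lf (nat_lit 0) (nat_lit 21961741) (nat_lit 152) (nat_lit 2243647058) (nat_lit 228) (nat_lit 15405002721) (nat_lit 19) (nat_lit 5)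 (nat_lit 21) (nat_lit 5) (nat_lit 22) (nat_lit 5) (nat_lit 308) (nat_lit 256) (nat_lit 216)) (XT.nd (nat_lit 78) (nat_lit 0) (nat_lit 0) (XT.lf (nat_lit 0) (nat_lit 5836866228) (nat_lit 228) (nat_lit 10395647742) (nat_lit 76) (nat_lit 2082599775) (nat_lit 19) (nat_lit 5) (nat_lit 22) (nat_lit 5) (nat_lit 20) (nat_lit 4) (nat_lit 309) (nat_lit 256) (nat_lit 215)) (XT.lf (nat_lit 0) (nat_lit 9574395933) (nat_lit 228) (nat_lit 2900298540) (nat_lit 76) (nat_lit 6517808276) (nat_lit 19) (nat_lit 5) (nat_lit 22) (nat_lit 5) (nat_lit 20) (nat_lit 4) (nat_lit 310) (nat_lit 256) (nat_lit 214))))) (XT.nd (nat_lit 156) (nat_lit 228) (nat_lit 0) (XT.nd (nat_lit 78) (nat_lit 0) (nat_lit 0) (XT.lf (nat_lit 0) (nat_lit 5051968043) (nat_lit 76) (nat_lit 8478974513) (nat_lit 152) (nat_lit 6171256516) (nat_lit 18) (nat_lit 5) (nat_lit 19) (nat_lit 5) (nat_lit 20) (nat_lit 4) (nat_lit 311) (nat_lit 256)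 (nat_lit 213)) (XT.lf (nat_lit 0) (nat_lit 13424278142) (nat_lit 76) (nat_lit 4264424970) (nat_lit 152) (nat_lit 2758550523) (nat_lit 18) (nat_lit 5) (nat_lit 19) (nat_lit 5) (nat_lit 20) (nat_lit 4) (nat_lit 312) (nat_lit 256) (nat_lit 212))) (XT.nd (nat_lit 78) (nat_lit 0) (nat_lit 0) (XT.lf (nat_lit 0) (nat_lit 771012707) (nat_lit 228) (nat_lit 20306535461) (nat_lit 76) (nat_lit 152776652) (nat_lit 15) (nat_lit 5) (nat_lit 18) (nat_lit 5) (nat_lit 16) (nat_lit 4) (nat_lit 313) (nat_lit 256) (nat_lit 211)) (XT.nd (nat_lit 78) (nat_lit 0) (nat_lit 0) (XT.lf (nat_lit 0) (nat_lit 4531288376) (nat_lit 228) (nat_lit 12728495371) (nat_lit 76) (nat_lit 4783194660) (nat_lit 15) (nat_lit 5) (nat_lit 18) (nat_lit 5) (nat_lit 16) (nat_lit 4) (nat_lit 314) (nat_lit 256) (nat_lit 210)) (XT.lf (nat_lit 0) (nat_lit 8437809996) (nat_lit 228) (nat_lit 4844435607) (nat_lit 76) (nat_lit 9616142638) (nat_lit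 15) (nat_lit 5) (nat_lit 18) (nat_lit 5) (nat_lit 16) (nat_lit 4) (nat_lit 315) (nat_lit 256) (nat_lit 209)))))) (XT.nd (nat_lit 390) (nat_lit 76) (nat_lit 0) (XT.nd (nat_lit 156) (nat_lit 152) (nat_lit 0) (XT.nd (nat_lit 78) (nat_lit 0) (nat_lit 0) (XT.lf (nat_lit 0) (nat_lit 3475658169) (nat_lit 76) (nat_lit 9078485402) (nat_lit 152) (nat_lit 11241734200) (nat_lit 14) (nat_lit 5) (nat_lit 15) (nat_lit 5) (nat_lit 16) (nat_lit 4) (nat_lit 316) (nat_lit 256) (nat_lit 208)) (XT.lf (nat_lit 0) (nat_lit 12311652301) (nat_lit 76) (nat_lit 4607733495) (nat_lit 152) (nat_lit 7816733284) (nat_lit 14) (nat_lit 5) (nat_lit 15) (nat_lit 5) (nat_lit 16) (nat_lit 4) (nat_lit 317) (nat_lit 256) (nat_lit 207))) (XT.nd (nat_lit 78) (nat_lit 152) (nat_lit 0) (XT.lf (nat_lit 0) (nat_lit 21466709146) (nat_lit 152) (nat_lit 4201766791) (nat_lit 0) (nat_lit 56735954) (nat_lit 14) (nat_lit 5) (nat_lit 16)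 (nat_lit 4) (nat_lit 14) (nat_lit 4) (nat_lit 318) (nat_lit 256) (nat_lit 206)) (XT.nd (nat_lit 78) (nat_lit 76) (nat_lit 0) (XT.lf (nat_lit 0) (nat_lit 4435161503) (nat_lit 76) (nat_lit 21915273959) (nat_lit 76) (nat_lit 407900978) (nat_lit 13) (nat_lit 4) (nat_lit 14) (nat_lit 5) (nat_lit 14) (nat_lit 4) (nat_lit 319) (nat_lit 256) (nat_lit 205)) (XT.lf (nat_lit 0) (nat_lit 3555589906) (nat_lit 152) (nat_lit 14311175376) (nat_lit 76) (nat_lit 9971704919) (nat_lit 12) (nat_lit 5) (nat_lit 14) (nat_lit 5) (nat_lit 13) (nat_lit 4) (nat_lit 320) (nat_lit 256) (nat_lit 204))))) (XT.nd (nat_lit 156) (nat_lit 0) (nat_lit 0) (XT.nd (nat_lit 78) (nat_lit 76) (nat_lit 0) (XT.lf (nat_lit 0) (nat_lit 7669626832) (nat_lit 152) (nat_lit 5965744158) (nat_lit 76) (nat_lit 15338626329) (nat_lit 12) (nat_lit 5) (nat_lit 14) (nat_lit 5) (nat_lit 13) (nat_lit 4) (nat_lit 321) (nat_lit 256) (nat_lit 203))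 (XT.lf (nat_lit 0) (nat_lit 2829932789) (nat_lit 76) (nat_lit 9171310895) (nat_lit 152) (nat_lit 18164487012) (nat_lit 11) (nat_lit 5) (nat_lit 12) (nat_lit 5) (nat_lit 13) (nat_lit 4) (nat_lit 322) (nat_lit 256) (nat_lit 202))) (XT.nd (nat_lit 78) (nat_lit 0) (nat_lit 0) (XT.lf (nat_lit 0) (nat_lit 12215838450) (nat_lit 76) (nat_lit 4402984116) (nat_lit 152) (nat_lit 14794781790) (nat_lit 11) (nat_lit 5) (nat_lit 12) (nat_lit 5) (nat_lit 13) (nat_lit 4) (nat_lit 323) (nat_lit 256) (nat_lit 201)) (XT.nd (nat_lit 78) (nat_lit 0) (nat_lit 0) (XT.lf (nat_lit 0) (nat_lit 21446190363) (nat_lit 152) (nat_lit 10717389064) (nat_lit 0) (nat_lit 561368367) (nat_lit 11) (nat_lit 5) (nat_lit 13) (nat_lit 4) (nat_lit 11) (nat_lit 4) (nat_lit 324) (nat_lit 256) (nat_lit 200)) (XT.lf (nat_lit 0) (nat_lit 26558043379) (nat_lit 152) (nat_lit 1937678579) (nat_lit 0) (nat_lit 5604001171) (nat_lit 11) (nat_lit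 5) (nat_lit 13) (nat_lit 4) (nat_lit 11) (nat_lit 4) (nat_lit 325) (nat_lit 256) (nat_lit 199))))))) (XT.nd (nat_lit 780) (nat_lit 152) (nat_lit 0) (XT.nd (nat_lit 390) (nat_lit 76) (nat_lit 0) (XT.nd (nat_lit 156) (nat_lit 76) (nat_lit 0) (XT.nd (nat_lit 78) (nat_lit 76) (nat_lit 0) (XT.lf (nat_lit 0) (nat_lit 7470102472) (nat_lit 76) (nat_lit 24544336533) (nat_lit 76) (nat_lit 3524370314) (nat_lit 10) (nat_lit 4) (nat_lit 11) (nat_lit 5) (nat_lit 11) (nat_lit 4) (nat_lit 326) (nat_lit 256) (nat_lit 198)) (XT.lf (nat_lit 0) (nat_lit 677359861) (nat_lit 152) (nat_lit 19694163276) (nat_lit 76) (nat_lit 16677514767) (nat_lit 9) (nat_lit 5) (nat_lit 11) (nat_lit 5) (nat_lit 10) (nat_lit 4) (nat_lit 327) (nat_lit 256) (nat_lit 197))) (XT.nd (nat_lit 78) (nat_lit 76) (nat_lit 0) (XT.lf (nat_lit 0) (nat_lit 4944456365) (nat_lit 152) (nat_lit 11006410464) (nat_lit 76) (nat_lit 22682353091)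 (nat_lit 9) (nat_lit 5) (nat_lit 11) (nat_lit 5) (nat_lit 10) (nat_lit 4) (nat_lit 328) (nat_lit 256) (nat_lit 196)) (XT.nd (nat_lit 78) (nat_lit 76) (nat_lit 0) (XT.lf (nat_lit 0) (nat_lit 9399880812) (nat_lit 152) (nat_lit 1929737986) (nat_lit 76) (nat_lit 28968259696) (nat_lit 9) (nat_lit 5) (nat_lit 11) (nat_lit 5) (nat_lit 10) (nat_lit 4) (nat_lit 329) (nat_lit 256) (nat_lit 195)) (XT.lf (nat_lit 0) (nat_lit 7807349212) (nat_lit 76) (nat_lit 6368786744) (nat_lit 152) (nat_lit 27864746414) (nat_lit 8) (nat_lit 5) (nat_lit 9) (nat_lit 5) (nat_lit 10) (nat_lit 4) (nat_lit 330) (nat_lit 256) (nat_lit 194))))) (XT.nd (nat_lit 156) (nat_lit 76) (nat_lit 0) (XT.nd (nat_lit 78) (nat_lit 0) (nat_lit 0) (XT.lf (nat_lit 0) (nat_lit 18055682517) (nat_lit 76) (nat_lit 1144837094) (nat_lit 152) (nat_lit 24670065658) (nat_lit 8) (nat_lit 5) (nat_lit 9) (nat_lit 5) (nat_lit 10) (nat_lit 4) (nat_lit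 331) (nat_lit 256) (nat_lit 193)) (XT.lf (nat_lit 0) (nat_lit 24521348119) (nat_lit 152) (nat_lit 17084521329) (nat_lit 0) (nat_lit 4183656500) (nat_lit 8) (nat_lit 5) (nat_lit 10) (nat_lit 4) (nat_lit 8) (nat_lit 4) (nat_lit 332) (nat_lit 256) (nat_lit 192))) (XT.nd (nat_lit 78) (nat_lit 76) (nat_lit 0) (XT.lf (nat_lit 0) (nat_lit 30105520411) (nat_lit 152) (nat_lit 7975832561) (nat_lit 0) (nat_lit 9723208827) (nat_lit 8) (nat_lit 5) (nat_lit 10) (nat_lit 4) (nat_lit 8) (nat_lit 4) (nat_lit 333) (nat_lit 256) (nat_lit 191)) (XT.nd (nat_lit 78) (nat_lit 0) (nat_lit 0) (XT.lf (nat_lit 0) (nat_lit 1601998994) (nat_lit 76) (nat_lit 34371470722) (nat_lit 76) (nat_lit 13946663932) (nat_lit 7) (nat_lit 4) (nat_lit 8) (nat_lit 5) (nat_lit 8) (nat_lit 4) (nat_lit 334) (nat_lit 256) (nat_lit 190)) (XT.lf (nat_lit 0) (nat_lit 11898665298) (nat_lit 76) (nat_lit 30351178922) (nat_lit 76) (nat_lit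 9885900507) (nat_lit 7) (nat_lit 4) (nat_lit 8) (nat_lit 5) (nat_lit 8) (nat_lit 4) (nat_lit 335) (nat_lit 256) (nat_lit 189)))))) (XT.nd (nat_lit 390) (nat_lit 0) (nat_lit 0) (XT.nd (nat_lit 156) (nat_lit 152) (nat_lit 0) (XT.nd (nat_lit 78) (nat_lit 0) (nat_lit 0) (XT.lf (nat_lit 0) (nat_lit 22674965178) (nat_lit 76) (nat_lit 26145980032) (nat_lit 76) (nat_lit 5642157214) (nat_lit 7) (nat_lit 4) (nat_lit 8) (nat_lit 5) (nat_lit 8) (nat_lit 4) (nat_lit 336) (nat_lit 256) (nat_lit 188)) (XT.lf (nat_lit 0) (nat_lit 33956556490) (nat_lit 76) (nat_lit 21745861675) (nat_lit 76) (nat_lit 1205329901) (nat_lit 7) (nat_lit 4) (nat_lit 8) (nat_lit 5) (nat_lit 8) (nat_lit 4) (nat_lit 337) (nat_lit 256) (nat_lit 187))) (XT.nd (nat_lit 78) (nat_lit 76) (nat_lit 0) (XT.lf (nat_lit 0) (nat_lit 3325199203) (nat_lit 152) (nat_lit 13758834317) (nat_lit 76) (nat_lit 42388787106) (nat_lit 6) (nat_lit 5)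 (nat_lit 8) (nat_lit 5) (nat_lit 7) (nat_lit 4) (nat_lit 338) (nat_lit 256) (nat_lit 186)) (XT.nd (nat_lit 78) (nat_lit 76) (nat_lit 0) (XT.lf (nat_lit 0) (nat_lit 8024975235) (nat_lit 152) (nat_lit 4157589557) (nat_lit 76) (nat_lit 49983442095) (nat_lit 6) (nat_lit 5) (nat_lit 8) (nat_lit 5) (nat_lit 7) (nat_lit 4) (nat_lit 339) (nat_lit 256) (nat_lit 185)) (XT.lf (nat_lit 0) (nat_lit 6089110965) (nat_lit 76) (nat_lit 6949723343) (nat_lit 152) (nat_lit 51951072415) (nat_lit 5) (nat_lit 5) (nat_lit 6) (nat_lit 5) (nat_lit 7) (nat_lit 4) (nat_lit 340) (nat_lit 256) (nat_lit 184))))) (XT.nd (nat_lit 234) (nat_lit 0) (nat_lit 0) (XT.nd (nat_lit 78) (nat_lit 0) (nat_lit 0) (XT.lf (nat_lit 0) (nat_lit 16963468326) (nat_lit 76) (nat_lit 1394662523) (nat_lit 152) (nat_lit 49594142020) (nat_lit 5) (nat_lit 5) (nat_lit 6) (nat_lit 5) (nat_lit 7) (nat_lit 4) (nat_lit 341) (nat_lit 256) (nat_lit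 183)) (XT.nd (nat_lit 78) (nat_lit 0) (nat_lit 0) (XT.lf (nat_lit 0) (nat_lit 23997565369) (nat_lit 152) (nat_lit 42778699725) (nat_lit 0) (nat_lit 4283791708) (nat_lit 5) (nat_lit 5) (nat_lit 7) (nat_lit 4) (nat_lit 5) (nat_lit 4) (nat_lit 342) (nat_lit 256) (nat_lit 182)) (XT.lf (nat_lit 0) (nat_lit 29927436051) (nat_lit 152) (nat_lit 34207804392) (nat_lit 0) (nat_lit 10187574020) (nat_lit 5) (nat_lit 5) (nat_lit 7) (nat_lit 4) (nat_lit 5) (nat_lit 4) (nat_lit 343) (nat_lit 256) (nat_lit 181)))) (XT.nd (nat_lit 78) (nat_lit 0) (nat_lit 0) (XT.lf (nat_lit 0) (nat_lit 36140087043) (nat_lit 152) (nat_lit 25233937060) (nat_lit 0) (nat_lit 16375378946) (nat_lit 5) (nat_lit 5) (nat_lit 7) (nat_lit 4) (nat_lit 5) (nat_lit 4) (nat_lit 344) (nat_lit 256) (nat_lit 180)) (XT.nd (nat_lit 78) (nat_lit 0) (nat_lit 0) (XT.lf (nat_lit 0) (nat_lit 42650310372) (nat_lit 152) (nat_lit 15835731379) (nat_lit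 0) (nat_lit 22861939355) (nat_lit 5) (nat_lit 5) (nat_lit 7) (nat_lit 4) (nat_lit 5) (nat_lit 4) (nat_lit 345) (nat_lit 256) (nat_lit 179)) (XT.lf (nat_lit 0) (nat_lit 49473606570) (nat_lit 152) (nat_lit 5990810667) (nat_lit 0) (nat_lit 29662699438) (nat_lit 5) (nat_lit 5) (nat_lit 7) (nat_lit 4) (nat_lit 5) (nat_lit 4) (nat_lit 346) (nat_lit 256) (nat_lit 178))))))))
noncomputable def xc96 : XT := (XT.nd (nat_lit 1560) (nat_lit 76) (nat_lit 0) (XT.nd (nat_lit 780) (nat_lit 76) (nat_lit 0) (XT.nd (nat_lit 390) (nat_lit 76) (nat_lit 0) (XT.nd (nat_lit 156) (nat_lit 0) (nat_lit 0) (XT.nd (nat_lit 78) (nat_lit 0) (nat_lit 0) (XT.lf (nat_lit 0) (nat_lit 4467245102) (nat_lit 76) (nat_lit 52228722693) (nat_lit 76) (nat_lit 32396352594) (nat_lit 4) (nat_lit 4) (nat_lit 5) (nat_lit 5) (nat_lit 5) (nat_lit 4) (nat_lit 347) (nat_lit 256) (nat_lit 177)) (XT.lf (nat_lit 0) (nat_lit 15634456663)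 (nat_lit 76) (nat_lit 48734826458) (nat_lit 76) (nat_lit 28882015439) (nat_lit 4) (nat_lit 4) (nat_lit 5) (nat_lit 5) (nat_lit 5) (nat_lit 4) (nat_lit 348) (nat_lit 256) (nat_lit 176))) (XT.nd (nat_lit 78) (nat_lit 0) (nat_lit 0) (XT.lf (nat_lit 0) (nat_lit 27339329358) (nat_lit 76) (nat_lit 45075867009) (nat_lit 76) (nat_lit 25203588447) (nat_lit 4) (nat_lit 4) (nat_lit 5) (nat_lit 5) (nat_lit 5) (nat_lit 4) (nat_lit 349) (nat_lit 256) (nat_lit 175)) (XT.nd (nat_lit 78) (nat_lit 0) (nat_lit 0) (XT.lf (nat_lit 0) (nat_lit 39609731931) (nat_lit 76) (nat_lit 41243132540) (nat_lit 76) (nat_lit 21352313460) (nat_lit 4) (nat_lit 4) (nat_lit 5) (nat_lit 5) (nat_lit 5) (nat_lit 4) (nat_lit 350) (nat_lit 256) (nat_lit 174)) (XT.lf (nat_lit 0) (nat_lit 52474879627) (nat_lit 76) (nat_lit 37227497491) (nat_lit 76) (nat_lit 17319020775) (nat_lit 4) (nat_lit 4) (nat_lit 5) (nat_lit 5) (nat_lit 5)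 (nat_lit 4) (nat_lit 351) (nat_lit 256) (nat_lit 173))))) (XT.nd (nat_lit 156) (nat_lit 76) (nat_lit 0) (XT.nd (nat_lit 78) (nat_lit 0) (nat_lit 0) (XT.lf (nat_lit 0) (nat_lit 65965403749) (nat_lit 76) (nat_lit 33019400826) (nat_lit 76) (nat_lit 13094107315) (nat_lit 4) (nat_lit 4) (nat_lit 5) (nat_lit 5) (nat_lit 5) (nat_lit 4) (nat_lit 352) (nat_lit 256) (nat_lit 172)) (XT.lf (nat_lit 0) (nat_lit 80113424593) (nat_lit 76) (nat_lit 28608823268) (nat_lit 76) (nat_lit 8667513761) (nat_lit 4) (nat_lit 4) (nat_lit 5) (nat_lit 5) (nat_lit 5) (nat_lit 4) (nat_lit 353) (nat_lit 256) (nat_lit 171))) (XT.nd (nat_lit 78) (nat_lit 76) (nat_lit 0) (XT.lf (nat_lit 0) (nat_lit 94952627924) (nat_lit 76) (nat_lit 23985263442) (nat_lit 76) (nat_lit 4028700605) (nat_lit 4) (nat_lit 4) (nat_lit 5) (nat_lit 5) (nat_lit 5) (nat_lit 4) (nat_lit 354) (nat_lit 256) (nat_lit 170)) (XT.nd (nat_lit 78) (nat_lit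 0) (nat_lit 0) (XT.lf (nat_lit 0) (nat_lit 806703678) (nat_lit 152) (nat_lit 18317347276) (nat_lit 76) (nat_lit 109697979581) (nat_lit 3) (nat_lit 5) (nat_lit 5) (nat_lit 5) (nat_lit 4) (nat_lit 4) (nat_lit 355) (nat_lit 256) (nat_lit 169)) (XT.lf (nat_lit 0) (nat_lit 5740488782) (nat_lit 152) (nat_lit 8216923032) (nat_lit 76) (nat_lit 121009930846) (nat_lit 3) (nat_lit 5) (nat_lit 5) (nat_lit 5) (nat_lit 4) (nat_lit 4) (nat_lit 356) (nat_lit 256) (nat_lit 168)))))) (XT.nd (nat_lit 390) (nat_lit 0) (nat_lit 0) (XT.nd (nat_lit 156) (nat_lit 0) (nat_lit 0) (XT.nd (nat_lit 78) (nat_lit 0) (nat_lit 0) (XT.lf (nat_lit 0) (nat_lit 2452760265) (nat_lit 76) (nat_lit 8498879588) (nat_lit 152) (nat_lit 130466750430) (nat_lit 2) (nat_lit 5) (nat_lit 3) (nat_lit 5) (nat_lit 4) (nat_lit 4) (nat_lit 357) (nat_lit 256) (nat_lit 167)) (XT.lf (nat_lit 0) (nat_lit 13927165031) (nat_lit 76) (nat_lit 2627866880)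 (nat_lit 152) (nat_lit 131630377758) (nat_lit 2) (nat_lit 5) (nat_lit 3) (nat_lit 5) (nat_lit 4) (nat_lit 4) (nat_lit 358) (nat_lit 256) (nat_lit 166))) (XT.nd (nat_lit 78) (nat_lit 0) (nat_lit 0) (XT.lf (nat_lit 0) (nat_lit 22486595525) (nat_lit 152) (nat_lit 129384336801) (nat_lit 0) (nat_lit 3417450981) (nat_lit 2) (nat_lit 5) (nat_lit 4) (nat_lit 4) (nat_lit 2) (nat_lit 4) (nat_lit 359) (nat_lit 256) (nat_lit 165)) (XT.nd (nat_lit 78) (nat_lit 0) (nat_lit 0) (XT.lf (nat_lit 0) (nat_lit 28750944922) (nat_lit 152) (nat_lit 124322793424) (nat_lit 0) (nat_lit 9670960121) (nat_lit 2) (nat_lit 5) (nat_lit 4) (nat_lit 4) (nat_lit 2) (nat_lit 4) (nat_lit 360) (nat_lit 256) (nat_lit 164)) (XT.lf (nat_lit 0) (nat_lit 35321966854) (nat_lit 152) (nat_lit 119020534846) (nat_lit 0) (nat_lit 16231658000) (nat_lit 2) (nat_lit 5) (nat_lit 4) (nat_lit 4) (nat_lit 2) (nat_lit 4) (nat_lit 361) (nat_lit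 256) (nat_lit 163))))) (XT.nd (nat_lit 156) (nat_lit 0) (nat_lit 0) (XT.nd (nat_lit 78) (nat_lit 0) (nat_lit 0) (XT.lf (nat_lit 0) (nat_lit 42215306611) (nat_lit 152) (nat_lit 113464936642) (nat_lit 0) (nat_lit 23115165325) (nat_lit 2) (nat_lit 5) (nat_lit 4) (nat_lit 4) (nat_lit 2) (nat_lit 4) (nat_lit 362) (nat_lit 256) (nat_lit 162)) (XT.lf (nat_lit 0) (nat_lit 49447376907) (nat_lit 152) (nat_lit 107642771198) (nat_lit 0) (nat_lit 30337871400) (nat_lit 2) (nat_lit 5) (nat_lit 4) (nat_lit 4) (nat_lit 2) (nat_lit 4) (nat_lit 363) (nat_lit 256) (nat_lit 161))) (XT.nd (nat_lit 78) (nat_lit 0) (nat_lit 0) (XT.lf (nat_lit 0) (nat_lit 57035396957) (nat_lit 152) (nat_lit 101540176214) (nat_lit 0) (nat_lit 37916973144) (nat_lit 2) (nat_lit 5) (nat_lit 4) (nat_lit 4) (nat_lit 2) (nat_lit 4) (nat_lit 364) (nat_lit 256) (nat_lit 160)) (XT.nd (nat_lit 78) (nat_lit 0) (nat_lit 0) (XT.lf (nat_lit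 0) (nat_lit 64997433476) (nat_lit 152) (nat_lit 95142621703) (nat_lit 0) (nat_lit 45870516038) (nat_lit 2) (nat_lit 5) (nat_lit 4) (nat_lit 4) (nat_lit 2) (nat_lit 4) (nat_lit 365) (nat_lit 256) (nat_lit 159)) (XT.lf (nat_lit 0) (nat_lit 73352443693) (nat_lit 152) (nat_lit 88434875393) (nat_lit 0) (nat_lit 54217437089) (nat_lit 2) (nat_lit 5) (nat_lit 4) (nat_lit 4) (nat_lit 2) (nat_lit 4) (nat_lit 366) (nat_lit 256) (nat_lit 158))))))) (XT.nd (nat_lit 780) (nat_lit 76) (nat_lit 0) (XT.nd (nat_lit 390) (nat_lit 0) (nat_lit 0) (XT.nd (nat_lit 156) (nat_lit 0) (nat_lit 0) (XT.nd (nat_lit 78) (nat_lit 0) (nat_lit 0) (XT.lf (nat_lit 0) (nat_lit 82120320490) (nat_lit 152) (nat_lit 81400966457) (nat_lit 0) (nat_lit 62977609917) (nat_lit 2) (nat_lit 5) (nat_lit 4) (nat_lit 4) (nat_lit 2) (nat_lit 4) (nat_lit 367) (nat_lit 256) (nat_lit 157)) (XT.lf (nat_lit 0) (nat_lit 91321939763) (nat_lit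 152) (nat_lit 74024147495) (nat_lit 0) (nat_lit 72171892079) (nat_lit 2) (nat_lit 5) (nat_lit 4) (nat_lit 4) (nat_lit 2) (nat_lit 4) (nat_lit 368) (nat_lit 256) (nat_lit 156))) (XT.nd (nat_lit 78) (nat_lit 0) (nat_lit 0) (XT.lf (nat_lit 0) (nat_lit 100979210131) (nat_lit 152) (nat_lit 66286854652) (nat_lit 0) (nat_lit 81822174720) (nat_lit 2) (nat_lit 5) (nat_lit 4) (nat_lit 4) (nat_lit 2) (nat_lit 4) (nat_lit 369) (nat_lit 256) (nat_lit 155)) (XT.nd (nat_lit 78) (nat_lit 0) (nat_lit 0) (XT.lf (nat_lit 0) (nat_lit 111115125093) (nat_lit 152) (nat_lit 58170665801) (nat_lit 0) (nat_lit 91951434706) (nat_lit 2) (nat_lit 5) (nat_lit 4) (nat_lit 4) (nat_lit 2) (nat_lit 4) (nat_lit 370) (nat_lit 256) (nat_lit 154)) (XT.lf (nat_lit 0) (nat_lit 121753817781) (nat_lit 152) (nat_lit 49656256684) (nat_lit 0) (nat_lit 102583789320) (nat_lit 2) (nat_lit 5) (nat_lit 4) (nat_lit 4) (nat_lit 2) (nat_lit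 4) (nat_lit 371) (nat_lit 256) (nat_lit 153))))) (XT.nd (nat_lit 156) (nat_lit 0) (nat_lit 0) (XT.nd (nat_lit 78) (nat_lit 0) (nat_lit 0) (XT.lf (nat_lit 0) (nat_lit 132920618416) (nat_lit 152) (nat_lit 40723354898) (nat_lit 0) (nat_lit 113744553695) (nat_lit 2) (nat_lit 5) (nat_lit 4) (nat_lit 4) (nat_lit 2) (nat_lit 4) (nat_lit 372) (nat_lit 256) (nat_lit 152)) (XT.lf (nat_lit 0) (nat_lit 144642114618) (nat_lit 152) (nat_lit 31350691629) (nat_lit 0) (nat_lit 125460301078) (nat_lit 2) (nat_lit 5) (nat_lit 4) (nat_lit 4) (nat_lit 2) (nat_lit 4) (nat_lit 373) (nat_lit 256) (nat_lit 151))) (XT.nd (nat_lit 78) (nat_lit 0) (nat_lit 0) (XT.lf (nat_lit 0) (nat_lit 156946214712) (nat_lit 152) (nat_lit 21515951013) (nat_lit 0) (nat_lit 137758926105) (nat_lit 2) (nat_lit 5) (nat_lit 4) (nat_lit 4) (nat_lit 2) (nat_lit 4) (nat_lit 374) (nat_lit 256) (nat_lit 150)) (XT.nd (nat_lit 78) (nat_lit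 0) (nat_lit 0) (XT.lf (nat_lit 0) (nat_lit 169862214173) (nat_lit 152) (nat_lit 11195716999) (nat_lit 0) (nat_lit 150669711217) (nat_lit 2) (nat_lit 5) (nat_lit 4) (nat_lit 4) (nat_lit 2) (nat_lit 4) (nat_lit 375) (nat_lit 256) (nat_lit 149)) (XT.lf (nat_lit 0) (nat_lit 183420865382) (nat_lit 152) (nat_lit 365417603) (nat_lit 0) (nat_lit 164223396380) (nat_lit 2) (nat_lit 5) (nat_lit 4) (nat_lit 4) (nat_lit 2) (nat_lit 4) (nat_lit 376) (nat_lit 256) (nat_lit 148)))))) (XT.nd (nat_lit 390) (nat_lit 0) (nat_lit 0) (XT.nd (nat_lit 156) (nat_lit 0) (nat_lit 0) (XT.nd (nat_lit 78) (nat_lit 0) (nat_lit 0) (XT.lf (nat_lit 0) (nat_lit 11364467535) (nat_lit 76) (nat_lit 186467414493) (nat_lit 76) (nat_lit 167265215922) (nat_lit 1) (nat_lit 4) (nat_lit 2) (nat_lit 5) (nat_lit 2) (nat_lit 4) (nat_lit 377) (nat_lit 256) (nat_lit 147)) (XT.lf (nat_lit 0) (nat_lit 23687961587) (nat_lit 76) (nat_lit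 189278733918) (nat_lit 76) (nat_lit 170072030998) (nat_lit 1) (nat_lit 4) (nat_lit 2) (nat_lit 5) (nat_lit 2) (nat_lit 4) (nat_lit 378) (nat_lit 256) (nat_lit 146))) (XT.nd (nat_lit 78) (nat_lit 0) (nat_lit 0) (XT.lf (nat_lit 0) (nat_lit 36622323847) (nat_lit 76) (nat_lit 192233123405) (nat_lit 76) (nat_lit 173022130626) (nat_lit 1) (nat_lit 4) (nat_lit 2) (nat_lit 5) (nat_lit 2) (nat_lit 4) (nat_lit 379) (nat_lit 256) (nat_lit 145)) (XT.nd (nat_lit 78) (nat_lit 0) (nat_lit 0) (XT.lf (nat_lit 0) (nat_lit 50198350416) (nat_lit 76) (nat_lit 195337617212) (nat_lit 76) (nat_lit 176122538855) (nat_lit 1) (nat_lit 4) (nat_lit 2) (nat_lit 5) (nat_lit 2) (nat_lit 4) (nat_lit 380) (nat_lit 256) (nat_lit 144)) (XT.lf (nat_lit 0) (nat_lit 64448365167) (nat_lit 76) (nat_lit 198599606993) (nat_lit 76) (nat_lit 179380637609) (nat_lit 1) (nat_lit 4) (nat_lit 2) (nat_lit 5) (nat_lit 2) (nat_lit 4) (nat_lit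 381) (nat_lit 256) (nat_lit 143))))) (XT.nd (nat_lit 156) (nat_lit 0) (nat_lit 0) (XT.nd (nat_lit 78) (nat_lit 0) (nat_lit 0) (XT.lf (nat_lit 0) (nat_lit 79406296707) (nat_lit 76) (nat_lit 202026859389) (nat_lit 76) (nat_lit 182804184264) (nat_lit 1) (nat_lit 4) (nat_lit 2) (nat_lit 5) (nat_lit 2) (nat_lit 4) (nat_lit 382) (nat_lit 256) (nat_lit 142)) (XT.lf (nat_lit 0) (nat_lit 95107759158) (nat_lit 76) (nat_lit 205627534525) (nat_lit 76) (nat_lit 186401330124) (nat_lit 1) (nat_lit 4) (nat_lit 2) (nat_lit 5) (nat_lit 2) (nat_lit 4) (nat_lit 383) (nat_lit 256) (nat_lit 141))) (XT.nd (nat_lit 78) (nat_lit 0) (nat_lit 0) (XT.lf (nat_lit 0) (nat_lit 111590136954) (nat_lit 76) (nat_lit 209410205438) (nat_lit 76) (nat_lit 190180639821) (nat_lit 1) (nat_lit 4) (nat_lit 2) (nat_lit 5) (nat_lit 2) (nat_lit 4) (nat_lit 384) (nat_lit 256) (nat_lit 140)) (XT.nd (nat_lit 78) (nat_lit 0) (nat_lit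 0) (XT.lf (nat_lit 0) (nat_lit 128892673852) (nat_lit 76) (nat_lit 213383878486) (nat_lit 76) (nat_lit 194151111711) (nat_lit 1) (nat_lit 4) (nat_lit 2) (nat_lit 5) (nat_lit 2) (nat_lit 4) (nat_lit 385) (nat_lit 256) (nat_lit 139)) (XT.lf (nat_lit 0) (nat_lit 147056566369) (nat_lit 76) (nat_lit 217558014796) (nat_lit 76) (nat_lit 198322199300) (nat_lit 1) (nat_lit 4) (nat_lit 2) (nat_lit 5) (nat_lit 2) (nat_lit 4) (nat_lit 386) (nat_lit 256) (nat_lit 138))))))))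
noncomputable def xc97 : XT := (XT.nd (nat_lit 32526) (nat_lit 0) (nat_lit 1824) (XT.nd (nat_lit 31746) (nat_lit 0) (nat_lit 4864) (XT.nd (nat_lit 31356) (nat_lit 0) (nat_lit 8056) (XT.nd (nat_lit 156) (nat_lit 0) (nat_lit 0) (XT.nd (nat_lit 78) (nat_lit 0) (nat_lit 0) (XT.lf (nat_lit 0) (nat_lit 166125061868) (nat_lit 76) (nat_lit 221942552788) (nat_lit 76) (nat_lit 202703833747) (nat_lit 1) (nat_lit 4) (nat_lit 2) (nat_lit 5) (nat_lit 2) (nat_lit 4) (nat_lit 387) (nat_lit 256) (nat_lit 137)) (XT.lf (nat_lit 0) (nat_lit 186143561529) (nat_lit 76) (nat_lit 226547931837) (nat_lit 76) (nat_lit 207306447516) (nat_lit 1) (nat_lit 4) (nat_lit 2) (nat_lit 5) (nat_lit 2) (nat_lit 4) (nat_lit 388) (nat_lit 256) (nat_lit 136))) (XT.nd (nat_lit 31044) (nat_lit 0) (nat_lit 9424) (XT.lf (nat_lit 0) (nat_lit 207159728445) (nat_lit 76) (nat_lit 231385117133) (nat_lit 76) (nat_lit 212140999211) (nat_lit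 1) (nat_lit 4) (nat_lit 2) (nat_lit 5) (nat_lit 2) (nat_lit 4) (nat_lit 389) (nat_lit 256) (nat_lit 135)) (XT.nd (nat_lit 78) (nat_lit 0) (nat_lit 0) (XT.lf (nat_lit 0) (nat_lit 147278275) (nat_lit 228) (nat_lit 1564159590) (nat_lit 228) (nat_lit 1564159590) (nat_lit 125) (nat_lit 4) (nat_lit 128) (nat_lit 5) (nat_lit 128) (nat_lit 4) (nat_lit 266) (nat_lit 257) (nat_lit 257)) (XT.lf (nat_lit 0) (nat_lit 4015923164) (nat_lit 228) (nat_lit 2449252767) (nat_lit 228) (nat_lit 127251478) (nat_lit 125) (nat_lit 4) (nat_lit 128) (nat_lit 5) (nat_lit 128) (nat_lit 4) (nat_lit 267) (nat_lit 257) (nat_lit 256))))) (XT.nd (nat_lit 156) (nat_lit 988) (nat_lit 0) (XT.nd (nat_lit 78) (nat_lit 0) (nat_lit 0) (XT.lf (nat_lit 0) (nat_lit 1154385536) (nat_lit 304) (nat_lit 1620159159) (nat_lit 380) (nat_lit 3867069126) (nat_lit 120) (nat_lit 5) (nat_lit 124) (nat_lit 5) (nat_lit 125) (nat_lit 4) (nat_lit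 268) (nat_lit 257) (nat_lit 255)) (XT.lf (nat_lit 0) (nat_lit 5038111314) (nat_lit 304) (nat_lit 658311135) (nat_lit 380) (nat_lit 1003365321) (nat_lit 120) (nat_lit 5) (nat_lit 124) (nat_lit 5) (nat_lit 125) (nat_lit 4) (nat_lit 269) (nat_lit 257) (nat_lit 254))) (XT.nd (nat_lit 78) (nat_lit 532) (nat_lit 0) (XT.lf (nat_lit 0) (nat_lit 1822492685) (nat_lit 456) (nat_lit 4497591638) (nat_lit 76) (nat_lit 445607881) (nat_lit 114) (nat_lit 5) (nat_lit 120) (nat_lit 5) (nat_lit 115) (nat_lit 4) (nat_lit 270) (nat_lit 257) (nat_lit 253)) (XT.nd (nat_lit 78) (nat_lit 532) (nat_lit 0) (XT.lf (nat_lit 0) (nat_lit 4641980741) (nat_lit 456) (nat_lit 536989892) (nat_lit 76) (nat_lit 1661310747) (nat_lit 114) (nat_lit 5) (nat_lit 120) (nat_lit 5) (nat_lit 115) (nat_lit 4) (nat_lit 271) (nat_lit 257) (nat_lit 252)) (XT.lf (nat_lit 0) (nat_lit 570426240) (nat_lit 532) (nat_lit 3317177278) (nat_lit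 76) (nat_lit 3035506077) (nat_lit 107) (nat_lit 5) (nat_lit 114) (nat_lit 5) (nat_lit 108) (nat_lit 5) (nat_lit 272) (nat_lit 257) (nat_lit 251)))))) (XT.nd (nat_lit 390) (nat_lit 1292) (nat_lit 0) (XT.nd (nat_lit 156) (nat_lit 1368) (nat_lit 0) (XT.nd (nat_lit 78) (nat_lit 0) (nat_lit 0) (XT.lf (nat_lit 0) (nat_lit 830407374) (nat_lit 532) (nat_lit 2451797915) (nat_lit 608) (nat_lit 3732592087) (nat_lit 100) (nat_lit 5) (nat_lit 107) (nat_lit 5) (nat_lit 108) (nat_lit 5) (nat_lit 273) (nat_lit 257) (nat_lit 250)) (XT.lf (nat_lit 0) (nat_lit 5177549095) (nat_lit 532) (nat_lit 869410485) (nat_lit 608) (nat_lit 1068664168) (nat_lit 100) (nat_lit 5) (nat_lit 107) (nat_lit 5) (nat_lit 108) (nat_lit 5) (nat_lit 274) (nat_lit 257) (nat_lit 249))) (XT.nd (nat_lit 78) (nat_lit 684) (nat_lit 0) (XT.lf (nat_lit 0) (nat_lit 1590285988) (nat_lit 684) (nat_lit 4788970012) (nat_lit 76) (nat_lit 845412914)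 (nat_lit 91) (nat_lit 5) (nat_lit 100) (nat_lit 5) (nat_lit 92) (nat_lit 5) (nat_lit 275) (nat_lit 257) (nat_lit 248)) (XT.nd (nat_lit 78) (nat_lit 684) (nat_lit 0) (XT.lf (nat_lit 0) (nat_lit 4263844292) (nat_lit 684) (nat_lit 401425729) (nat_lit 76) (nat_lit 2677507477) (nat_lit 91) (nat_lit 5) (nat_lit 100) (nat_lit 5) (nat_lit 92) (nat_lit 5) (nat_lit 276) (nat_lit 257) (nat_lit 247)) (XT.lf (nat_lit 0) (nat_lit 4219560009) (nat_lit 684) (nat_lit 2793553782) (nat_lit 760) (nat_lit 456924486) (nat_lit 82) (nat_lit 5) (nat_lit 91) (nat_lit 5) (nat_lit 92) (nat_lit 5) (nat_lit 277) (nat_lit 257) (nat_lit 246))))) (XT.nd (nat_lit 156) (nat_lit 760) (nat_lit 0) (XT.nd (nat_lit 78) (nat_lit 0) (nat_lit 0) (XT.lf (nat_lit 0) (nat_lit 1366598232) (nat_lit 456) (nat_lit 762248186) (nat_lit 532) (nat_lit 5478031522) (nat_lit 75) (nat_lit 5) (nat_lit 81) (nat_lit 5) (nat_lit 82) (nat_lit 5)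 (nat_lit 278) (nat_lit 257) (nat_lit 245)) (XT.lf (nat_lit 0) (nat_lit 4787676280) (nat_lit 532) (nat_lit 1577780323) (nat_lit 76) (nat_lit 1387073139) (nat_lit 75) (nat_lit 5) (nat_lit 82) (nat_lit 5) (nat_lit 76) (nat_lit 5) (nat_lit 279) (nat_lit 257) (nat_lit 244))) (XT.nd (nat_lit 78) (nat_lit 380) (nat_lit 0) (XT.lf (nat_lit 0) (nat_lit 3289136571) (nat_lit 380) (nat_lit 4241565242) (nat_lit 456) (nat_lit 377486266) (nat_lit 70) (nat_lit 5) (nat_lit 75) (nat_lit 5) (nat_lit 76) (nat_lit 5) (nat_lit 280) (nat_lit 257) (nat_lit 243)) (XT.nd (nat_lit 78) (nat_lit 0) (nat_lit 0) (XT.lf (nat_lit 0) (nat_lit 230851120) (nat_lit 304) (nat_lit 1953138738) (nat_lit 380) (nat_lit 5890092812) (nat_lit 65) (nat_lit 5) (nat_lit 69) (nat_lit 5) (nat_lit 70) (nat_lit 5) (nat_lit 281) (nat_lit 257) (nat_lit 242)) (XT.lf (nat_lit 0) (nat_lit 4839414020) (nat_lit 380) (nat_lit 2902130911) (nat_lit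 76) (nat_lit 507737255) (nat_lit 65) (nat_lit 5) (nat_lit 70) (nat_lit 5) (nat_lit 66) (nat_lit 5) (nat_lit 282) (nat_lit 257) (nat_lit 241))))))) (XT.nd (nat_lit 780) (nat_lit 1292) (nat_lit 0) (XT.nd (nat_lit 390) (nat_lit 760) (nat_lit 0) (XT.nd (nat_lit 156) (nat_lit 608) (nat_lit 0) (XT.nd (nat_lit 78) (nat_lit 76) (nat_lit 0) (XT.lf (nat_lit 0) (nat_lit 2203690105) (nat_lit 304) (nat_lit 5387515883) (nat_lit 380) (nat_lit 844091692) (nat_lit 61) (nat_lit 5) (nat_lit 65) (nat_lit 5) (nat_lit 66) (nat_lit 5) (nat_lit 283) (nat_lit 257) (nat_lit 240)) (XT.lf (nat_lit 0) (nat_lit 1739076709) (nat_lit 380) (nat_lit 1114761175) (nat_lit 76) (nat_lit 5778130116) (nat_lit 60) (nat_lit 5) (nat_lit 65) (nat_lit 5) (nat_lit 61) (nat_lit 5) (nat_lit 284) (nat_lit 257) (nat_lit 239))) (XT.nd (nat_lit 78) (nat_lit 380) (nat_lit 0) (XT.lf (nat_lit 0) (nat_lit 4263920845) (nat_lit 228) (nat_lit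 128886566) (nat_lit 304) (nat_lit 4446687724) (nat_lit 57) (nat_lit 5) (nat_lit 60) (nat_lit 5) (nat_lit 61) (nat_lit 5) (nat_lit 285) (nat_lit 257) (nat_lit 238)) (XT.nd (nat_lit 78) (nat_lit 76) (nat_lit 0) (XT.lf (nat_lit 0) (nat_lit 755673301) (nat_lit 304) (nat_lit 6402889687) (nat_lit 380) (nat_lit 1900062739) (nat_lit 53) (nat_lit 5) (nat_lit 57) (nat_lit 5) (nat_lit 58) (nat_lit 5) (nat_lit 286) (nat_lit 257) (nat_lit 237)) (XT.lf (nat_lit 0) (nat_lit 736665950) (nat_lit 380) (nat_lit 2908633320) (nat_lit 76) (nat_lit 5643608336) (nat_lit 52) (nat_lit 5) (nat_lit 57) (nat_lit 5) (nat_lit 53) (nat_lit 5) (nat_lit 287) (nat_lit 257) (nat_lit 236))))) (XT.nd (nat_lit 156) (nat_lit 532) (nat_lit 0) (XT.nd (nat_lit 78) (nat_lit 0) (nat_lit 0) (XT.lf (nat_lit 0) (nat_lit 2695609543) (nat_lit 228) (nat_lit 698966412) (nat_lit 304) (nat_lit 6137077823) (nat_lit 49) (nat_lit 5) (nat_lit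 52) (nat_lit 5) (nat_lit 53) (nat_lit 5) (nat_lit 288) (nat_lit 257) (nat_lit 235)) (XT.lf (nat_lit 0) (nat_lit 6186000618) (nat_lit 304) (nat_lit 1258354773) (nat_lit 76) (nat_lit 2342310531) (nat_lit 49) (nat_lit 5) (nat_lit 53) (nat_lit 5) (nat_lit 50) (nat_lit 5) (nat_lit 289) (nat_lit 257) (nat_lit 234))) (XT.nd (nat_lit 78) (nat_lit 304) (nat_lit 0) (XT.lf (nat_lit 0) (nat_lit 4623177967) (nat_lit 228) (nat_lit 4494757586) (nat_lit 304) (nat_lit 936598186) (nat_lit 46) (nat_lit 5) (nat_lit 49) (nat_lit 5) (nat_lit 50) (nat_lit 5) (nat_lit 290) (nat_lit 257) (nat_lit 233)) (XT.nd (nat_lit 78) (nat_lit 0) (nat_lit 0) (XT.lf (nat_lit 0) (nat_lit 377837591) (nat_lit 228) (nat_lit 1368905798) (nat_lit 304) (nat_lit 8590455718) (nat_lit 42) (nat_lit 5) (nat_lit 45) (nat_lit 5) (nat_lit 46) (nat_lit 5) (nat_lit 291) (nat_lit 257) (nat_lit 232)) (XT.lf (nat_lit 0) (nat_lit 4575890367)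 (nat_lit 304) (nat_lit 4124496643) (nat_lit 76) (nat_lit 1930818641) (nat_lit 42) (nat_lit 5) (nat_lit 46) (nat_lit 5) (nat_lit 43) (nat_lit 5) (nat_lit 292) (nat_lit 257) (nat_lit 231)))))) (XT.nd (nat_lit 390) (nat_lit 608) (nat_lit 0) (XT.nd (nat_lit 156) (nat_lit 456) (nat_lit 0) (XT.nd (nat_lit 78) (nat_lit 0) (nat_lit 0) (XT.lf (nat_lit 0) (nat_lit 1932552656) (nat_lit 228) (nat_lit 5590129581) (nat_lit 304) (nat_lit 3418545977) (nat_lit 39) (nat_lit 5) (nat_lit 42) (nat_lit 5) (nat_lit 43) (nat_lit 5) (nat_lit 293) (nat_lit 257) (nat_lit 230)) (XT.lf (nat_lit 0) (nat_lit 8328433743) (nat_lit 228) (nat_lit 2283769632) (nat_lit 304) (nat_lit 654898155) (nat_lit 39) (nat_lit 5) (nat_lit 42) (nat_lit 5) (nat_lit 43) (nat_lit 5) (nat_lit 294) (nat_lit 257) (nat_lit 229))) (XT.nd (nat_lit 78) (nat_lit 228) (nat_lit 0) (XT.lf (nat_lit 0) (nat_lit 2175463449) (nat_lit 228) (nat_lit 8223952460)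 (nat_lit 76) (nat_lit 1208184234) (nat_lit 36) (nat_lit 5) (nat_lit 39) (nat_lit 5) (nat_lit 37) (nat_lit 5) (nat_lit 295) (nat_lit 257) (nat_lit 228)) (XT.nd (nat_lit 78) (nat_lit 228) (nat_lit 0) (XT.lf (nat_lit 0) (nat_lit 5142491795) (nat_lit 228) (nat_lit 1993551770) (nat_lit 76) (nat_lit 4827788335) (nat_lit 36) (nat_lit 5) (nat_lit 39) (nat_lit 5) (nat_lit 37) (nat_lit 5) (nat_lit 296) (nat_lit 257) (nat_lit 227)) (XT.lf (nat_lit 0) (nat_lit 4594440146) (nat_lit 228) (nat_lit 3667673079) (nat_lit 304) (nat_lit 4075647929) (nat_lit 33) (nat_lit 5) (nat_lit 36) (nat_lit 5) (nat_lit 37) (nat_lit 5) (nat_lit 297) (nat_lit 257) (nat_lit 226))))) (XT.nd (nat_lit 234) (nat_lit 380) (nat_lit 0) (XT.nd (nat_lit 78) (nat_lit 228) (nat_lit 0) (XT.lf (nat_lit 0) (nat_lit 11481692393) (nat_lit 228) (nat_lit 23957364) (nat_lit 304) (nat_lit 1226433741) (nat_lit 33) (nat_lit 5) (nat_lit 36)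 (nat_lit 5) (nat_lit 37) (nat_lit 5) (nat_lit 298) (nat_lit 257) (nat_lit 225)) (XT.nd (nat_lit 78) (nat_lit 0) (nat_lit 0) (XT.lf (nat_lit 0) (nat_lit 1793457420) (nat_lit 228) (nat_lit 7581589628) (nat_lit 76) (nat_lit 3765545791) (nat_lit 30) (nat_lit 5) (nat_lit 33) (nat_lit 5) (nat_lit 31) (nat_lit 5) (nat_lit 299) (nat_lit 257) (nat_lit 224)) (XT.lf (nat_lit 0) (nat_lit 4882272000) (nat_lit 228) (nat_lit 934967193) (nat_lit 76) (nat_lit 7753406545) (nat_lit 30) (nat_lit 5) (nat_lit 33) (nat_lit 5) (nat_lit 31) (nat_lit 5) (nat_lit 300) (nat_lit 257) (nat_lit 223)))) (XT.nd (nat_lit 78) (nat_lit 228) (nat_lit 0) (XT.lf (nat_lit 0) (nat_lit 6147476396) (nat_lit 152) (nat_lit 2014248541) (nat_lit 228) (nat_lit 5858743246) (nat_lit 28) (nat_lit 5) (nat_lit 30) (nat_lit 5) (nat_lit 31) (nat_lit 5) (nat_lit 301) (nat_lit 257) (nat_lit 222)) (XT.nd (nat_lit 78) (nat_lit 228) (nat_lit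 0) (XT.lf (nat_lit 0) (nat_lit 11593251224) (nat_lit 228) (nat_lit 1000876940) (nat_lit 76) (nat_lit 1899321674) (nat_lit 28) (nat_lit 5) (nat_lit 31) (nat_lit 5) (nat_lit 29) (nat_lit 4) (nat_lit 302) (nat_lit 257) (nat_lit 221)) (XT.lf (nat_lit 0) (nat_lit 276031483) (nat_lit 228) (nat_lit 8697333917) (nat_lit 76) (nat_lit 6012802464) (nat_lit 25) (nat_lit 5) (nat_lit 28) (nat_lit 5) (nat_lit 26) (nat_lit 5) (nat_lit 303) (nat_lit 257) (nat_lit 220))))))))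
noncomputable def xc98 : XT := (XT.nd (nat_lit 1560) (nat_lit 456) (nat_lit 0) (XT.nd (nat_lit 780) (nat_lit 532) (nat_lit 0) (XT.nd (nat_lit 390) (nat_lit 228) (nat_lit 0) (XT.nd (nat_lit 156) (nat_lit 152) (nat_lit 0) (XT.nd (nat_lit 78) (nat_lit 152) (nat_lit 0) (XT.lf (nat_lit 0) (nat_lit 3475080477) (nat_lit 228) (nat_lit 1662923074) (nat_lit 76) (nat_lit 10365130539) (nat_lit 25) (nat_lit 5) (nat_lit 28) (nat_lit 5) (nat_lit 26) (nat_lit 5) (nat_lit 304) (nat_lit 257) (nat_lit 219)) (XT.lf (nat_lit 0) (nat_lit 5823693093) (nat_lit 152) (nat_lit 1048212876) (nat_lit 228) (nat_lit 9172211616) (nat_lit 23) (nat_lit 5) (nat_lit 25) (nat_lit 5) (nat_lit 26) (nat_lit 5) (nat_lit 305) (nat_lit 257) (nat_lit 218))) (XT.nd (nat_lit 78) (nat_lit 152) (nat_lit 0) (XT.lf (nat_lit 0) (nat_lit 10465476337) (nat_lit 228) (nat_lit 3006177507) (nat_lit 76) (nat_lit 3139208526) (nat_lit 23) (nat_lit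 5) (nat_lit 26) (nat_lit 5) (nat_lit 24) (nat_lit 4) (nat_lit 306) (nat_lit 257) (nat_lit 217)) (XT.nd (nat_lit 78) (nat_lit 76) (nat_lit 0) (XT.lf (nat_lit 0) (nat_lit 4616825755) (nat_lit 76) (nat_lit 9661259452) (nat_lit 152) (nat_lit 2925945754) (nat_lit 22) (nat_lit 5) (nat_lit 23) (nat_lit 5) (nat_lit 24) (nat_lit 4) (nat_lit 307) (nat_lit 257) (nat_lit 216)) (XT.lf (nat_lit 0) (nat_lit 442019334) (nat_lit 152) (nat_lit 5189794938) (nat_lit 76) (nat_lit 12194633500) (nat_lit 21) (nat_lit 5) (nat_lit 23) (nat_lit 5) (nat_lit 22) (nat_lit 5) (nat_lit 308) (nat_lit 257) (nat_lit 215))))) (XT.nd (nat_lit 156) (nat_lit 76) (nat_lit 0) (XT.nd (nat_lit 78) (nat_lit 0) (nat_lit 0) (XT.lf (nat_lit 0) (nat_lit 2531594664) (nat_lit 152) (nat_lit 1340699369) (nat_lit 228) (nat_lit 14605728093) (nat_lit 19) (nat_lit 5) (nat_lit 21) (nat_lit 5) (nat_lit 22) (nat_lit 5) (nat_lit 309) (nat_lit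 257) (nat_lit 214)) (XT.lf (nat_lit 0) (nat_lit 7566094129) (nat_lit 228) (nat_lit 8468948434) (nat_lit 76) (nat_lit 3122576945) (nat_lit 19) (nat_lit 5) (nat_lit 22) (nat_lit 5) (nat_lit 20) (nat_lit 4) (nat_lit 310) (nat_lit 257) (nat_lit 213))) (XT.nd (nat_lit 78) (nat_lit 76) (nat_lit 0) (XT.lf (nat_lit 0) (nat_lit 11422053435) (nat_lit 228) (nat_lit 715330899) (nat_lit 76) (nat_lit 7734981719) (nat_lit 19) (nat_lit 5) (nat_lit 22) (nat_lit 5) (nat_lit 20) (nat_lit 4) (nat_lit 311) (nat_lit 257) (nat_lit 212)) (XT.nd (nat_lit 78) (nat_lit 0) (nat_lit 0) (XT.lf (nat_lit 0) (nat_lit 7596968648) (nat_lit 76) (nat_lit 7950062053) (nat_lit 152) (nat_lit 5072048942) (nat_lit 18) (nat_lit 5) (nat_lit 19) (nat_lit 5) (nat_lit 20) (nat_lit 4) (nat_lit 312) (nat_lit 257) (nat_lit 211)) (XT.lf (nat_lit 0) (nat_lit 16278732242) (nat_lit 76) (nat_lit 3570159375) (nat_lit 152) (nat_lit 1555744335)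 (nat_lit 18) (nat_lit 5) (nat_lit 19) (nat_lit 5) (nat_lit 20) (nat_lit 4) (nat_lit 313) (nat_lit 257) (nat_lit 210)))))) (XT.nd (nat_lit 390) (nat_lit 228) (nat_lit 0) (XT.nd (nat_lit 156) (nat_lit 76) (nat_lit 0) (XT.nd (nat_lit 78) (nat_lit 0) (nat_lit 0) (XT.lf (nat_lit 0) (nat_lit 2094178913) (nat_lit 228) (nat_lit 19080286186) (nat_lit 76) (nat_lit 1052063373) (nat_lit 15) (nat_lit 5) (nat_lit 18) (nat_lit 5) (nat_lit 16) (nat_lit 4) (nat_lit 314) (nat_lit 257) (nat_lit 209)) (XT.lf (nat_lit 0) (nat_lit 5981296196) (nat_lit 228) (nat_lit 11230085809) (nat_lit 76) (nat_lit 5871542858) (nat_lit 15) (nat_lit 5) (nat_lit 18) (nat_lit 5) (nat_lit 16) (nat_lit 4) (nat_lit 315) (nat_lit 257) (nat_lit 208))) (XT.nd (nat_lit 78) (nat_lit 76) (nat_lit 0) (XT.lf (nat_lit 0) (nat_lit 10024884687) (nat_lit 228) (nat_lit 3053481834) (nat_lit 76) (nat_lit 10905700688) (nat_lit 15) (nat_lit 5)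 (nat_lit 18) (nat_lit 5) (nat_lit 16) (nat_lit 4) (nat_lit 316) (nat_lit 257) (nat_lit 207)) (XT.nd (nat_lit 78) (nat_lit 0) (nat_lit 0) (XT.lf (nat_lit 0) (nat_lit 5649823477) (nat_lit 76) (nat_lit 8672958078) (nat_lit 152) (nat_lit 10604909055) (nat_lit 14) (nat_lit 5) (nat_lit 15) (nat_lit 5) (nat_lit 16) (nat_lit 4) (nat_lit 317) (nat_lit 257) (nat_lit 206)) (XT.lf (nat_lit 0) (nat_lit 14832361011) (nat_lit 76) (nat_lit 4019594842) (nat_lit 152) (nat_lit 7065749135) (nat_lit 14) (nat_lit 5) (nat_lit 15) (nat_lit 5) (nat_lit 16) (nat_lit 4) (nat_lit 318) (nat_lit 257) (nat_lit 205))))) (XT.nd (nat_lit 156) (nat_lit 76) (nat_lit 0) (XT.nd (nat_lit 78) (nat_lit 152) (nat_lit 0) (XT.lf (nat_lit 0) (nat_lit 23587073404) (nat_lit 152) (nat_lit 2557029734) (nat_lit 0) (nat_lit 814170281) (nat_lit 14) (nat_lit 5) (nat_lit 16) (nat_lit 4) (nat_lit 14) (nat_lit 4) (nat_lit 319) (nat_lit 257)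 (nat_lit 204)) (XT.lf (nat_lit 0) (nat_lit 628669909) (nat_lit 152) (nat_lit 21572474288) (nat_lit 76) (nat_lit 5842511698) (nat_lit 12) (nat_lit 5) (nat_lit 14) (nat_lit 5) (nat_lit 13) (nat_lit 4) (nat_lit 320) (nat_lit 257) (nat_lit 203))) (XT.nd (nat_lit 78) (nat_lit 76) (nat_lit 0) (XT.lf (nat_lit 0) (nat_lit 4726948249) (nat_lit 152) (nat_lit 13255141292) (nat_lit 76) (nat_lit 11197893016) (nat_lit 12) (nat_lit 5) (nat_lit 14) (nat_lit 5) (nat_lit 13) (nat_lit 4) (nat_lit 321) (nat_lit 257) (nat_lit 202)) (XT.nd (nat_lit 78) (nat_lit 76) (nat_lit 0) (XT.lf (nat_lit 0) (nat_lit 8999373742) (nat_lit 152) (nat_lit 4576800078) (nat_lit 76) (nat_lit 16798512742) (nat_lit 12) (nat_lit 5) (nat_lit 14) (nat_lit 5) (nat_lit 13) (nat_lit 4) (nat_lit 322) (nat_lit 257) (nat_lit 201)) (XT.lf (nat_lit 0) (nat_lit 4631447308) (nat_lit 76) (nat_lit 8896981395) (nat_lit 152) (nat_lit 18098568249)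 (nat_lit 11) (nat_lit 5) (nat_lit 12) (nat_lit 5) (nat_lit 13) (nat_lit 4) (nat_lit 323) (nat_lit 257) (nat_lit 200))))))) (XT.nd (nat_lit 780) (nat_lit 228) (nat_lit 0) (XT.nd (nat_lit 390) (nat_lit 76) (nat_lit 0) (XT.nd (nat_lit 156) (nat_lit 152) (nat_lit 0) (XT.nd (nat_lit 78) (nat_lit 0) (nat_lit 0) (XT.lf (nat_lit 0) (nat_lit 14407599782) (nat_lit 76) (nat_lit 3925138041) (nat_lit 152) (nat_lit 14606765533) (nat_lit 11) (nat_lit 5) (nat_lit 12) (nat_lit 5) (nat_lit 13) (nat_lit 4) (nat_lit 324) (nat_lit 257) (nat_lit 199)) (XT.lf (nat_lit 0) (nat_lit 23369806349) (nat_lit 152) (nat_lit 9715303312) (nat_lit 0) (nat_lit 1232917808) (nat_lit 11) (nat_lit 5) (nat_lit 13) (nat_lit 4) (nat_lit 11) (nat_lit 4) (nat_lit 325) (nat_lit 257) (nat_lit 198))) (XT.nd (nat_lit 78) (nat_lit 152) (nat_lit 0) (XT.lf (nat_lit 0) (nat_lit 28696713612) (nat_lit 152) (nat_lit 569843265) (nat_lit 0)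 (nat_lit 6497040298) (nat_lit 11) (nat_lit 5) (nat_lit 13) (nat_lit 4) (nat_lit 11) (nat_lit 4) (nat_lit 326) (nat_lit 257) (nat_lit 197)) (XT.nd (nat_lit 78) (nat_lit 76) (nat_lit 0) (XT.lf (nat_lit 0) (nat_lit 9284702335) (nat_lit 76) (nat_lit 25125118209) (nat_lit 76) (nat_lit 2865649873) (nat_lit 10) (nat_lit 4) (nat_lit 11) (nat_lit 5) (nat_lit 11) (nat_lit 4) (nat_lit 327) (nat_lit 257) (nat_lit 196)) (XT.lf (nat_lit 0) (nat_lit 1480957087) (nat_lit 152) (nat_lit 19280453945) (nat_lit 76) (nat_lit 18101096715) (nat_lit 9) (nat_lit 5) (nat_lit 11) (nat_lit 5) (nat_lit 10) (nat_lit 4) (nat_lit 328) (nat_lit 257) (nat_lit 195))))) (XT.nd (nat_lit 156) (nat_lit 76) (nat_lit 0) (XT.nd (nat_lit 78) (nat_lit 0) (nat_lit 0) (XT.lf (nat_lit 0) (nat_lit 5924754644) (nat_lit 152) (nat_lit 10224904801) (nat_lit 76) (nat_lit 24378095708) (nat_lit 9) (nat_lit 5) (nat_lit 11) (nat_lit 5) (nat_lit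 10) (nat_lit 4) (nat_lit 329) (nat_lit 257) (nat_lit 194)) (XT.lf (nat_lit 0) (nat_lit 10568041958) (nat_lit 152) (nat_lit 757818994) (nat_lit 76) (nat_lit 30951553597) (nat_lit 9) (nat_lit 5) (nat_lit 11) (nat_lit 5) (nat_lit 10) (nat_lit 4) (nat_lit 330) (nat_lit 257) (nat_lit 193))) (XT.nd (nat_lit 78) (nat_lit 0) (nat_lit 0) (XT.lf (nat_lit 0) (nat_lit 9445664405) (nat_lit 76) (nat_lit 6123683364) (nat_lit 152) (nat_lit 28538930361) (nat_lit 8) (nat_lit 5) (nat_lit 9) (nat_lit 5) (nat_lit 10) (nat_lit 4) (nat_lit 331) (nat_lit 257) (nat_lit 192)) (XT.nd (nat_lit 78) (nat_lit 0) (nat_lit 0) (XT.lf (nat_lit 0) (nat_lit 20146988292) (nat_lit 76) (nat_lit 665371599) (nat_lit 152) (nat_lit 25218756203) (nat_lit 8) (nat_lit 5) (nat_lit 9) (nat_lit 5) (nat_lit 10) (nat_lit 4) (nat_lit 332) (nat_lit 257) (nat_lit 191)) (XT.lf (nat_lit 0) (nat_lit 26376171529) (nat_lit 152) (nat_lit 16783375413)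 (nat_lit 0) (nat_lit 4887629194) (nat_lit 8) (nat_lit 5) (nat_lit 10) (nat_lit 4) (nat_lit 8) (nat_lit 4) (nat_lit 333) (nat_lit 257) (nat_lit 190)))))) (XT.nd (nat_lit 390) (nat_lit 152) (nat_lit 0) (XT.nd (nat_lit 156) (nat_lit 0) (nat_lit 0) (XT.nd (nat_lit 78) (nat_lit 76) (nat_lit 0) (XT.lf (nat_lit 0) (nat_lit 32209611675) (nat_lit 152) (nat_lit 7274269920) (nat_lit 0) (nat_lit 10680597715) (nat_lit 8) (nat_lit 5) (nat_lit 10) (nat_lit 4) (nat_lit 8) (nat_lit 4) (nat_lit 334) (nat_lit 257) (nat_lit 189)) (XT.lf (nat_lit 0) (nat_lit 2764705563) (nat_lit 76) (nat_lit 35594640393) (nat_lit 76) (nat_lit 14027082030) (nat_lit 7) (nat_lit 4) (nat_lit 8) (nat_lit 5) (nat_lit 8) (nat_lit 4) (nat_lit 335) (nat_lit 257) (nat_lit 188))) (XT.nd (nat_lit 78) (nat_lit 0) (nat_lit 0) (XT.lf (nat_lit 0) (nat_lit 13524652486) (nat_lit 76) (nat_lit 31396924663) (nat_lit 76) (nat_lit 9792657344)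 (nat_lit 7) (nat_lit 4) (nat_lit 8) (nat_lit 5) (nat_lit 8) (nat_lit 4) (nat_lit 336) (nat_lit 257) (nat_lit 187)) (XT.nd (nat_lit 78) (nat_lit 0) (nat_lit 0) (XT.lf (nat_lit 0) (nat_lit 24790669554) (nat_lit 76) (nat_lit 27003933125) (nat_lit 76) (nat_lit 5364704895) (nat_lit 7) (nat_lit 4) (nat_lit 8) (nat_lit 5) (nat_lit 8) (nat_lit 4) (nat_lit 337) (nat_lit 257) (nat_lit 186)) (XT.lf (nat_lit 0) (nat_lit 36589580617) (nat_lit 76) (nat_lit 22405206274) (nat_lit 76) (nat_lit 732681939) (nat_lit 7) (nat_lit 4) (nat_lit 8) (nat_lit 5) (nat_lit 8) (nat_lit 4) (nat_lit 338) (nat_lit 257) (nat_lit 185))))) (XT.nd (nat_lit 156) (nat_lit 76) (nat_lit 0) (XT.nd (nat_lit 78) (nat_lit 0) (nat_lit 0) (XT.lf (nat_lit 0) (nat_lit 3982752369) (nat_lit 152) (nat_lit 13539592553) (nat_lit 76) (nat_lit 44899276112) (nat_lit 6) (nat_lit 5) (nat_lit 8) (nat_lit 5) (nat_lit 7) (nat_lit 4) (nat_lit 339)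 (nat_lit 257) (nat_lit 184)) (XT.lf (nat_lit 0) (nat_lit 8894122288) (nat_lit 152) (nat_lit 3501484768) (nat_lit 76) (nat_lit 52855042439) (nat_lit 6) (nat_lit 5) (nat_lit 8) (nat_lit 5) (nat_lit 7) (nat_lit 4) (nat_lit 340) (nat_lit 257) (nat_lit 183))) (XT.nd (nat_lit 78) (nat_lit 0) (nat_lit 0) (XT.lf (nat_lit 0) (nat_lit 7243615550) (nat_lit 76) (nat_lit 6906049541) (nat_lit 152) (nat_lit 54066542207) (nat_lit 5) (nat_lit 5) (nat_lit 6) (nat_lit 5) (nat_lit 7) (nat_lit 4) (nat_lit 341) (nat_lit 257) (nat_lit 182)) (XT.nd (nat_lit 78) (nat_lit 0) (nat_lit 0) (XT.lf (nat_lit 0) (nat_lit 18621212253) (nat_lit 76) (nat_lit 1091862346) (nat_lit 152) (nat_lit 51614721665) (nat_lit 5) (nat_lit 5) (nat_lit 6) (nat_lit 5) (nat_lit 7) (nat_lit 4) (nat_lit 342) (nat_lit 257) (nat_lit 181)) (XT.lf (nat_lit 0) (nat_lit 25619208873) (nat_lit 152) (nat_lit 44131116169) (nat_lit 0) (nat_lit 4841419304)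 (nat_lit 5) (nat_lit 5) (nat_lit 7) (nat_lit 4) (nat_lit 5) (nat_lit 4) (nat_lit 343) (nat_lit 257) (nat_lit 180))))))))
noncomputable def xc99 : XT := (XT.nd (nat_lit 1560) (nat_lit 76) (nat_lit 0) (XT.nd (nat_lit 780) (nat_lit 152) (nat_lit 0) (XT.nd (nat_lit 390) (nat_lit 0) (nat_lit 0) (XT.nd (nat_lit 156) (nat_lit 76) (nat_lit 0) (XT.nd (nat_lit 78) (nat_lit 0) (nat_lit 0) (XT.lf (nat_lit 0) (nat_lit 31825489030) (nat_lit 152) (nat_lit 35169129333) (nat_lit 0) (nat_lit 11024036541) (nat_lit 5) (nat_lit 5) (nat_lit 7) (nat_lit 4) (nat_lit 5) (nat_lit 4) (nat_lit 344) (nat_lit 257) (nat_lit 179)) (XT.lf (nat_lit 0) (nat_lit 38329644896) (nat_lit 152) (nat_lit 25782238409) (nat_lit 0) (nat_lit 17505656293) (nat_lit 5) (nat_lit 5) (nat_lit 7) (nat_lit 4) (nat_lit 5) (nat_lit 4) (nat_lit 345) (nat_lit 257) (nat_lit 178))) (XT.nd (nat_lit 78) (nat_lit 76) (nat_lit 0) (XT.lf (nat_lit 0)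 (nat_lit 45147162559) (nat_lit 152) (nat_lit 15948093658) (nat_lit 0) (nat_lit 24301710988) (nat_lit 5) (nat_lit 5) (nat_lit 7) (nat_lit 4) (nat_lit 5) (nat_lit 4) (nat_lit 346) (nat_lit 257) (nat_lit 177)) (XT.nd (nat_lit 78) (nat_lit 76) (nat_lit 0) (XT.lf (nat_lit 0) (nat_lit 52294274201) (nat_lit 152) (nat_lit 5643280449) (nat_lit 0) (nat_lit 31428381711) (nat_lit 5) (nat_lit 5) (nat_lit 7) (nat_lit 4) (nat_lit 5) (nat_lit 4) (nat_lit 347) (nat_lit 257) (nat_lit 176)) (XT.lf (nat_lit 0) (nat_lit 5327241484) (nat_lit 76) (nat_lit 54543928441) (nat_lit 76) (nat_lit 33658568408) (nat_lit 4) (nat_lit 4) (nat_lit 5) (nat_lit 5) (nat_lit 5) (nat_lit 4) (nat_lit 348) (nat_lit 257) (nat_lit 175))))) (XT.nd (nat_lit 156) (nat_lit 0) (nat_lit 0) (XT.nd (nat_lit 78) (nat_lit 0) (nat_lit 0) (XT.lf (nat_lit 0) (nat_lit 17022497712) (nat_lit 76) (nat_lit 50889443604) (nat_lit 76) (nat_lit 29985543052)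 (nat_lit 4) (nat_lit 4) (nat_lit 5) (nat_lit 5) (nat_lit 5) (nat_lit 4) (nat_lit 349) (nat_lit 257) (nat_lit 174)) (XT.lf (nat_lit 0) (nat_lit 29283741745) (nat_lit 76) (nat_lit 47060970668) (nat_lit 76) (nat_lit 26139412481) (nat_lit 4) (nat_lit 4) (nat_lit 5) (nat_lit 5) (nat_lit 5) (nat_lit 4) (nat_lit 350) (nat_lit 257) (nat_lit 173))) (XT.nd (nat_lit 78) (nat_lit 0) (nat_lit 0) (XT.lf (nat_lit 0) (nat_lit 42140167023) (nat_lit 76) (nat_lit 43049394222) (nat_lit 76) (nat_lit 22111019239) (nat_lit 4) (nat_lit 4) (nat_lit 5) (nat_lit 5) (nat_lit 5) (nat_lit 4) (nat_lit 351) (nat_lit 257) (nat_lit 172)) (XT.nd (nat_lit 78) (nat_lit 0) (nat_lit 0) (XT.lf (nat_lit 0) (nat_lit 55622384079) (nat_lit 76) (nat_lit 38845162894) (nat_lit 76) (nat_lit 17890771915) (nat_lit 4) (nat_lit 4) (nat_lit 5) (nat_lit 5) (nat_lit 5) (nat_lit 4) (nat_lit 352) (nat_lit 257) (nat_lit 171)) (XT.lf (nat_lit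 0) (nat_lit 69762493433) (nat_lit 76) (nat_lit 34438266609) (nat_lit 76) (nat_lit 13468622301) (nat_lit 4) (nat_lit 4) (nat_lit 5) (nat_lit 5) (nat_lit 5) (nat_lit 4) (nat_lit 353) (nat_lit 257) (nat_lit 170)))))) (XT.nd (nat_lit 390) (nat_lit 0) (nat_lit 0) (XT.nd (nat_lit 156) (nat_lit 152) (nat_lit 0) (XT.nd (nat_lit 78) (nat_lit 0) (nat_lit 0) (XT.lf (nat_lit 0) (nat_lit 84594162010) (nat_lit 76) (nat_lit 29818212757) (nat_lit 76) (nat_lit 8834041468) (nat_lit 4) (nat_lit 4) (nat_lit 5) (nat_lit 5) (nat_lit 5) (nat_lit 4) (nat_lit 354) (nat_lit 257) (nat_lit 169)) (XT.lf (nat_lit 0) (nat_lit 100152703308) (nat_lit 76) (nat_lit 24974001209) (nat_lit 76) (nat_lit 3975994701) (nat_lit 4) (nat_lit 4) (nat_lit 5) (nat_lit 5) (nat_lit 5) (nat_lit 4) (nat_lit 355) (nat_lit 257) (nat_lit 168))) (XT.nd (nat_lit 78) (nat_lit 76) (nat_lit 0) (XT.lf (nat_lit 0) (nat_lit 1081331088) (nat_lit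 152) (nat_lit 18794454176) (nat_lit 76) (nat_lit 115375517518) (nat_lit 3) (nat_lit 5) (nat_lit 5) (nat_lit 5) (nat_lit 4) (nat_lit 4) (nat_lit 356) (nat_lit 257) (nat_lit 167)) (XT.nd (nat_lit 78) (nat_lit 76) (nat_lit 0) (XT.lf (nat_lit 0) (nat_lit 6250648674) (nat_lit 152) (nat_lit 8209902075) (nat_lit 76) (nat_lit 127243893063) (nat_lit 3) (nat_lit 5) (nat_lit 5) (nat_lit 5) (nat_lit 4) (nat_lit 4) (nat_lit 357) (nat_lit 257) (nat_lit 166)) (XT.lf (nat_lit 0) (nat_lit 2986525595) (nat_lit 76) (nat_lit 8731625057) (nat_lit 152) (nat_lit 136760108699) (nat_lit 2) (nat_lit 5) (nat_lit 3) (nat_lit 5) (nat_lit 4) (nat_lit 4) (nat_lit 358) (nat_lit 257) (nat_lit 165))))) (XT.nd (nat_lit 156) (nat_lit 0) (nat_lit 0) (XT.nd (nat_lit 78) (nat_lit 0) (nat_lit 0) (XT.lf (nat_lit 0) (nat_lit 15015073107) (nat_lit 76) (nat_lit 2576214023) (nat_lit 152) (nat_lit 137992868786) (nat_lit 2) (nat_lit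 5) (nat_lit 3) (nat_lit 5) (nat_lit 4) (nat_lit 4) (nat_lit 359) (nat_lit 257) (nat_lit 164)) (XT.lf (nat_lit 0) (nat_lit 23812221956) (nat_lit 152) (nat_lit 135473347740) (nat_lit 0) (nat_lit 3757073606) (nat_lit 2) (nat_lit 5) (nat_lit 4) (nat_lit 4) (nat_lit 2) (nat_lit 4) (nat_lit 360) (nat_lit 257) (nat_lit 163))) (XT.nd (nat_lit 78) (nat_lit 0) (nat_lit 0) (XT.lf (nat_lit 0) (nat_lit 30380203268) (nat_lit 152) (nat_lit 130176832236) (nat_lit 0) (nat_lit 10315222485) (nat_lit 2) (nat_lit 5) (nat_lit 4) (nat_lit 4) (nat_lit 2) (nat_lit 4) (nat_lit 361) (nat_lit 257) (nat_lit 162)) (XT.nd (nat_lit 78) (nat_lit 0) (nat_lit 0) (XT.lf (nat_lit 0) (nat_lit 37270647196) (nat_lit 152) (nat_lit 124626703628) (nat_lit 0) (nat_lit 17196302193) (nat_lit 2) (nat_lit 5) (nat_lit 4) (nat_lit 4) (nat_lit 2) (nat_lit 4) (nat_lit 362) (nat_lit 257) (nat_lit 161)) (XT.lf (nat_lit 0) (nat_lit 44499959561)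 (nat_lit 152) (nat_lit 118809747321) (nat_lit 0) (nat_lit 24416696251) (nat_lit 2) (nat_lit 5) (nat_lit 4) (nat_lit 4) (nat_lit 2) (nat_lit 4) (nat_lit 363) (nat_lit 257) (nat_lit 160))))))) (XT.nd (nat_lit 780) (nat_lit 76) (nat_lit 0) (XT.nd (nat_lit 390) (nat_lit 0) (nat_lit 0) (XT.nd (nat_lit 156) (nat_lit 0) (nat_lit 0) (XT.nd (nat_lit 78) (nat_lit 0) (nat_lit 0) (XT.lf (nat_lit 0) (nat_lit 52085353009) (nat_lit 152) (nat_lit 112712113422) (nat_lit 0) (nat_lit 31993596075) (nat_lit 2) (nat_lit 5) (nat_lit 4) (nat_lit 4) (nat_lit 2) (nat_lit 4) (nat_lit 364) (nat_lit 257) (nat_lit 159)) (XT.lf (nat_lit 0) (nat_lit 60044888002) (nat_lit 152) (nat_lit 106319283752) (nat_lit 0) (nat_lit 39945041901) (nat_lit 2) (nat_lit 5) (nat_lit 4) (nat_lit 4) (nat_lit 2) (nat_lit 4) (nat_lit 365) (nat_lit 257) (nat_lit 158))) (XT.nd (nat_lit 78) (nat_lit 0) (nat_lit 0) (XT.lf (nat_lit 0) (nat_lit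 68397515813) (nat_lit 152) (nat_lit 99616037291) (nat_lit 0) (nat_lit 48289965745) (nat_lit 2) (nat_lit 5) (nat_lit 4) (nat_lit 4) (nat_lit 2) (nat_lit 4) (nat_lit 366) (nat_lit 257) (nat_lit 157)) (XT.nd (nat_lit 78) (nat_lit 0) (nat_lit 0) (XT.lf (nat_lit 0) (nat_lit 77163123652) (nat_lit 152) (nat_lit 92586413926) (nat_lit 0) (nat_lit 57048236471) (nat_lit 2) (nat_lit 5) (nat_lit 4) (nat_lit 4) (nat_lit 2) (nat_lit 4) (nat_lit 367) (nat_lit 257) (nat_lit 156)) (XT.lf (nat_lit 0) (nat_lit 86362582014) (nat_lit 152) (nat_lit 85213676460) (nat_lit 0) (nat_lit 66240707107) (nat_lit 2) (nat_lit 5) (nat_lit 4) (nat_lit 4) (nat_lit 2) (nat_lit 4) (nat_lit 368) (nat_lit 257) (nat_lit 155))))) (XT.nd (nat_lit 156) (nat_lit 0) (nat_lit 0) (XT.nd (nat_lit 78) (nat_lit 0) (nat_lit 0) (XT.lf (nat_lit 0) (nat_lit 96017794370) (nat_lit 152) (nat_lit 77480270756) (nat_lit 0) (nat_lit 75889264486)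 (nat_lit 2) (nat_lit 5) (nat_lit 4) (nat_lit 4) (nat_lit 2) (nat_lit 4) (nat_lit 369) (nat_lit 257) (nat_lit 154)) (XT.lf (nat_lit 0) (nat_lit 106151749322) (nat_lit 152) (nat_lit 69367783942) (nat_lit 0) (nat_lit 86016881364) (nat_lit 2) (nat_lit 5) (nat_lit 4) (nat_lit 4) (nat_lit 2) (nat_lit 4) (nat_lit 370) (nat_lit 257) (nat_lit 153))) (XT.nd (nat_lit 78) (nat_lit 0) (nat_lit 0) (XT.lf (nat_lit 0) (nat_lit 116788575333) (nat_lit 152) (nat_lit 60856900575) (nat_lit 0) (nat_lit 96647671115) (nat_lit 2) (nat_lit 5) (nat_lit 4) (nat_lit 4) (nat_lit 2) (nat_lit 4) (nat_lit 371) (nat_lit 257) (nat_lit 152)) (XT.nd (nat_lit 78) (nat_lit 0) (nat_lit 0) (XT.lf (nat_lit 0) (nat_lit 127953598180) (nat_lit 152) (nat_lit 51927356646) (nat_lit 0) (nat_lit 107806945143) (nat_lit 2) (nat_lit 5) (nat_lit 4) (nat_lit 4) (nat_lit 2) (nat_lit 4) (nat_lit 372) (nat_lit 257) (nat_lit 151)) (XT.lf (nat_lit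 0) (nat_lit 139673401251) (nat_lit 152) (nat_lit 42557891336) (nat_lit 0) (nat_lit 119521273148) (nat_lit 2) (nat_lit 5) (nat_lit 4) (nat_lit 4) (nat_lit 2) (nat_lit 4) (nat_lit 373) (nat_lit 257) (nat_lit 150)))))) (XT.nd (nat_lit 390) (nat_lit 0) (nat_lit 0) (XT.nd (nat_lit 156) (nat_lit 76) (nat_lit 0) (XT.nd (nat_lit 78) (nat_lit 0) (nat_lit 0) (XT.lf (nat_lit 0) (nat_lit 151975888839) (nat_lit 152) (nat_lit 32726196394) (nat_lit 0) (nat_lit 131818546387) (nat_lit 2) (nat_lit 5) (nat_lit 4) (nat_lit 4) (nat_lit 2) (nat_lit 4) (nat_lit 374) (nat_lit 257) (nat_lit 149)) (XT.lf (nat_lit 0) (nat_lit 164890352581) (nat_lit 152) (nat_lit 22408863024) (nat_lit 0) (nat_lit 144728044082) (nat_lit 2) (nat_lit 5) (nat_lit 4) (nat_lit 4) (nat_lit 2) (nat_lit 4) (nat_lit 375) (nat_lit 257) (nat_lit 148))) (XT.nd (nat_lit 78) (nat_lit 76) (nat_lit 0) (XT.lf (nat_lit 0) (nat_lit 178447541199) (nat_lit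 152) (nat_lit 11581326145) (nat_lit 0) (nat_lit 158280503132) (nat_lit 2) (nat_lit 5) (nat_lit 4) (nat_lit 4) (nat_lit 2) (nat_lit 4) (nat_lit 376) (nat_lit 257) (nat_lit 147)) (XT.nd (nat_lit 78) (nat_lit 76) (nat_lit 0) (XT.lf (nat_lit 0) (nat_lit 192679733715) (nat_lit 152) (nat_lit 217805908) (nat_lit 0) (nat_lit 172508191298) (nat_lit 2) (nat_lit 5) (nat_lit 4) (nat_lit 4) (nat_lit 2) (nat_lit 4) (nat_lit 377) (nat_lit 257) (nat_lit 146)) (XT.lf (nat_lit 0) (nat_lit 12095897962) (nat_lit 76) (nat_lit 195713769205) (nat_lit 76) (nat_lit 175537936930) (nat_lit 1) (nat_lit 4) (nat_lit 2) (nat_lit 5) (nat_lit 2) (nat_lit 4) (nat_lit 378) (nat_lit 257) (nat_lit 145))))) (XT.nd (nat_lit 234) (nat_lit 0) (nat_lit 0) (XT.nd (nat_lit 78) (nat_lit 0) (nat_lit 0) (XT.lf (nat_lit 0) (nat_lit 25027794952) (nat_lit 76) (nat_lit 198669322031) (nat_lit 76) (nat_lit 178489404177) (nat_lit 1) (nat_lit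 4) (nat_lit 2) (nat_lit 5) (nat_lit 2) (nat_lit 4) (nat_lit 379) (nat_lit 257) (nat_lit 144)) (XT.nd (nat_lit 78) (nat_lit 0) (nat_lit 0) (XT.lf (nat_lit 0) (nat_lit 38601473645) (nat_lit 76) (nat_lit 201774923781) (nat_lit 76) (nat_lit 181591114900) (nat_lit 1) (nat_lit 4) (nat_lit 2) (nat_lit 5) (nat_lit 2) (nat_lit 4) (nat_lit 380) (nat_lit 257) (nat_lit 143)) (XT.lf (nat_lit 0) (nat_lit 52849252323) (nat_lit 76) (nat_lit 205037968745) (nat_lit 76) (nat_lit 184850454124) (nat_lit 1) (nat_lit 4) (nat_lit 2) (nat_lit 5) (nat_lit 2) (nat_lit 4) (nat_lit 381) (nat_lit 257) (nat_lit 142)))) (XT.nd (nat_lit 78) (nat_lit 0) (nat_lit 0) (XT.lf (nat_lit 0) (nat_lit 67805054270) (nat_lit 76) (nat_lit 208466226078) (nat_lit 76) (nat_lit 188275182181) (nat_lit 1) (nat_lit 4) (nat_lit 2) (nat_lit 5) (nat_lit 2) (nat_lit 4) (nat_lit 382) (nat_lit 257) (nat_lit 141)) (XT.nd (nat_lit 78) (nat_lit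 0) (nat_lit 0) (XT.lf (nat_lit 0) (nat_lit 83504488536) (nat_lit 76) (nat_lit 212067858297) (nat_lit 76) (nat_lit 191873453184) (nat_lit 1) (nat_lit 4) (nat_lit 2) (nat_lit 5) (nat_lit 2) (nat_lit 4) (nat_lit 383) (nat_lit 257) (nat_lit 140)) (XT.lf (nat_lit 0) (nat_lit 99984934729) (nat_lit 76) (nat_lit 215851440717) (nat_lit 76) (nat_lit 195653834446) (nat_lit 1) (nat_lit 4) (nat_lit 2) (nat_lit 5) (nat_lit 2) (nat_lit 4) (nat_lit 384) (nat_lit 257) (nat_lit 139))))))))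
noncomputable def xc100 : XT := (XT.nd (nat_lit 32370) (nat_lit 0) (nat_lit 2432) (XT.nd (nat_lit 31590) (nat_lit 0) (nat_lit 5624) (XT.nd (nat_lit 31200) (nat_lit 0) (nat_lit 9044) (XT.nd (nat_lit 156) (nat_lit 0) (nat_lit 0) (XT.nd (nat_lit 78) (nat_lit 0) (nat_lit 0) (XT.lf (nat_lit 0) (nat_lit 117285632005) (nat_lit 76) (nat_lit 219825981868) (nat_lit 76) (nat_lit 199625326875) (nat_lit 1) (nat_lit 4) (nat_lit 2) (nat_lit 5) (nat_lit 2) (nat_lit 4) (nat_lit 385) (nat_lit 257) (nat_lit 138)) (XT.lf (nat_lit 0) (nat_lit 135447772501) (nat_lit 76) (nat_lit 224000944941) (nat_lit 76) (nat_lit 203797386404) (nat_lit 1) (nat_lit 4) (nat_lit 2) (nat_lit 5) (nat_lit 2) (nat_lit 4) (nat_lit 386) (nat_lit 257) (nat_lit 137))) (XT.nd (nat_lit 78) (nat_lit 0) (nat_lit 0) (XT.lf (nat_lit 0) (nat_lit 154514599408) (nat_lit 76) (nat_lit 228386270327) (nat_lit 76) (nat_lit 208179946510) (nat_lit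 1) (nat_lit 4) (nat_lit 2) (nat_lit 5) (nat_lit 2) (nat_lit 4) (nat_lit 387) (nat_lit 257) (nat_lit 136)) (XT.nd (nat_lit 78) (nat_lit 0) (nat_lit 0) (XT.lf (nat_lit 0) (nat_lit 174531509933) (nat_lit 76) (nat_lit 232992399276) (nat_lit 76) (nat_lit 212783441858) (nat_lit 1) (nat_lit 4) (nat_lit 2) (nat_lit 5) (nat_lit 2) (nat_lit 4) (nat_lit 388) (nat_lit 257) (nat_lit 135)) (XT.lf (nat_lit 0) (nat_lit 195546163387) (nat_lit 76) (nat_lit 237830298762) (nat_lit 76) (nat_lit 217618833152) (nat_lit 1) (nat_lit 4) (nat_lit 2) (nat_lit 5) (nat_lit 2) (nat_lit 4) (nat_lit 389) (nat_lit 257) (nat_lit 134))))) (XT.nd (nat_lit 156) (nat_lit 608) (nat_lit 0) (XT.nd (nat_lit 78) (nat_lit 228) (nat_lit 0) (XT.lf (nat_lit 0) (nat_lit 3147101338) (nat_lit 76) (nat_lit 49208631) (nat_lit 76) (nat_lit 49208631) (nat_lit 131) (nat_lit 4) (nat_lit 132) (nat_lit 5) (nat_lit 132) (nat_lit 4) (nat_lit 264)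 (nat_lit 258) (nat_lit 258)) (XT.lf (nat_lit 0) (nat_lit 2848917470) (nat_lit 228) (nat_lit 3258580842) (nat_lit 0) (nat_lit 410816116) (nat_lit 128) (nat_lit 5) (nat_lit 131) (nat_lit 4) (nat_lit 128) (nat_lit 4) (nat_lit 265) (nat_lit 258) (nat_lit 257))) (XT.nd (nat_lit 78) (nat_lit 380) (nat_lit 0) (XT.lf (nat_lit 0) (nat_lit 234772054) (nat_lit 228) (nat_lit 5540571841) (nat_lit 228) (nat_lit 780469197) (nat_lit 125) (nat_lit 4) (nat_lit 128) (nat_lit 5) (nat_lit 128) (nat_lit 4) (nat_lit 266) (nat_lit 258) (nat_lit 256)) (XT.nd (nat_lit 78) (nat_lit 304) (nat_lit 0) (XT.lf (nat_lit 0) (nat_lit 2066322852) (nat_lit 304) (nat_lit 2735570595) (nat_lit 76) (nat_lit 1797884022) (nat_lit 124) (nat_lit 5) (nat_lit 128) (nat_lit 5) (nat_lit 125) (nat_lit 4) (nat_lit 267) (nat_lit 258) (nat_lit 255)) (XT.lf (nat_lit 0) (nat_lit 928981029) (nat_lit 304) (nat_lit 3952305356) (nat_lit 380)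 (nat_lit 1772006847) (nat_lit 120) (nat_lit 5) (nat_lit 124) (nat_lit 5) (nat_lit 125) (nat_lit 4) (nat_lit 268) (nat_lit 258) (nat_lit 254)))))) (XT.nd (nat_lit 390) (nat_lit 1900) (nat_lit 0) (XT.nd (nat_lit 156) (nat_lit 1064) (nat_lit 0) (XT.nd (nat_lit 78) (nat_lit 380) (nat_lit 0) (XT.lf (nat_lit 0) (nat_lit 978891362) (nat_lit 380) (nat_lit 1974858538) (nat_lit 76) (nat_lit 3761021958) (nat_lit 119) (nat_lit 5) (nat_lit 124) (nat_lit 5) (nat_lit 120) (nat_lit 5) (nat_lit 269) (nat_lit 258) (nat_lit 253)) (XT.lf (nat_lit 0) (nat_lit 1877825311) (nat_lit 380) (nat_lit 1807255122) (nat_lit 456) (nat_lit 3099441458) (nat_lit 114) (nat_lit 5) (nat_lit 119) (nat_lit 5) (nat_lit 120) (nat_lit 5) (nat_lit 270) (nat_lit 258) (nat_lit 252))) (XT.nd (nat_lit 78) (nat_lit 1064) (nat_lit 0) (XT.lf (nat_lit 0) (nat_lit 5878270242) (nat_lit 380) (nat_lit 535200837) (nat_lit 456) (nat_lit 450434019)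 (nat_lit 114) (nat_lit 5) (nat_lit 119) (nat_lit 5) (nat_lit 120) (nat_lit 5) (nat_lit 271) (nat_lit 258) (nat_lit 251)) (XT.nd (nat_lit 78) (nat_lit 532) (nat_lit 0) (XT.lf (nat_lit 0) (nat_lit 2176534459) (nat_lit 532) (nat_lit 3884433679) (nat_lit 76) (nat_lit 888908433) (nat_lit 107) (nat_lit 5) (nat_lit 114) (nat_lit 5) (nat_lit 108) (nat_lit 5) (nat_lit 272) (nat_lit 258) (nat_lit 250)) (XT.lf (nat_lit 0) (nat_lit 184401222) (nat_lit 532) (nat_lit 4627059714) (nat_lit 608) (nat_lit 2234152638) (nat_lit 100) (nat_lit 5) (nat_lit 107) (nat_lit 5) (nat_lit 108) (nat_lit 5) (nat_lit 273) (nat_lit 258) (nat_lit 249))))) (XT.nd (nat_lit 156) (nat_lit 1216) (nat_lit 0) (XT.nd (nat_lit 78) (nat_lit 608) (nat_lit 0) (XT.lf (nat_lit 0) (nat_lit 350292981) (nat_lit 608) (nat_lit 2681104464) (nat_lit 76) (nat_lit 4118180732) (nat_lit 99) (nat_lit 5) (nat_lit 107) (nat_lit 5) (nat_lit 100)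 (nat_lit 5) (nat_lit 274) (nat_lit 258) (nat_lit 248)) (XT.lf (nat_lit 0) (nat_lit 1606644304) (nat_lit 608) (nat_lit 1278994855) (nat_lit 684) (nat_lit 4376798408) (nat_lit 91) (nat_lit 5) (nat_lit 99) (nat_lit 5) (nat_lit 100) (nat_lit 5) (nat_lit 275) (nat_lit 258) (nat_lit 247))) (XT.nd (nat_lit 78) (nat_lit 1216) (nat_lit 0) (XT.lf (nat_lit 0) (nat_lit 5478816147) (nat_lit 684) (nat_lit 1307298838) (nat_lit 76) (nat_lit 598620198) (nat_lit 91) (nat_lit 5) (nat_lit 100) (nat_lit 5) (nat_lit 92) (nat_lit 5) (nat_lit 276) (nat_lit 258) (nat_lit 246)) (XT.nd (nat_lit 78) (nat_lit 456) (nat_lit 0) (XT.lf (nat_lit 0) (nat_lit 618762783) (nat_lit 760) (nat_lit 4300122540) (nat_lit 76) (nat_lit 2596426174) (nat_lit 81) (nat_lit 5) (nat_lit 91) (nat_lit 5) (nat_lit 82) (nat_lit 5) (nat_lit 277) (nat_lit 258) (nat_lit 245)) (XT.lf (nat_lit 0) (nat_lit 215659005) (nat_lit 456) (nat_lit 2899559737)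 (nat_lit 532) (nat_lit 4540457072) (nat_lit 75) (nat_lit 5) (nat_lit 81) (nat_lit 5) (nat_lit 82) (nat_lit 5) (nat_lit 278) (nat_lit 258) (nat_lit 244))))))) (XT.nd (nat_lit 780) (nat_lit 1216) (nat_lit 0) (XT.nd (nat_lit 390) (nat_lit 912) (nat_lit 0) (XT.nd (nat_lit 156) (nat_lit 608) (nat_lit 0) (XT.nd (nat_lit 78) (nat_lit 456) (nat_lit 0) (XT.lf (nat_lit 0) (nat_lit 4990901684) (nat_lit 456) (nat_lit 705874105) (nat_lit 532) (nat_lit 2108555300) (nat_lit 75) (nat_lit 5) (nat_lit 81) (nat_lit 5) (nat_lit 82) (nat_lit 5) (nat_lit 279) (nat_lit 258) (nat_lit 243)) (XT.lf (nat_lit 0) (nat_lit 377973028) (nat_lit 456) (nat_lit 6006740891) (nat_lit 76) (nat_lit 1580304255) (nat_lit 69) (nat_lit 5) (nat_lit 75) (nat_lit 5) (nat_lit 70) (nat_lit 5) (nat_lit 280) (nat_lit 258) (nat_lit 242))) (XT.nd (nat_lit 78) (nat_lit 608) (nat_lit 0) (XT.lf (nat_lit 0) (nat_lit 2872124633) (nat_lit 456)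 (nat_lit 1227477236) (nat_lit 76) (nat_lit 4033899136) (nat_lit 69) (nat_lit 5) (nat_lit 75) (nat_lit 5) (nat_lit 70) (nat_lit 5) (nat_lit 281) (nat_lit 258) (nat_lit 241)) (XT.nd (nat_lit 78) (nat_lit 304) (nat_lit 0) (XT.lf (nat_lit 0) (nat_lit 3800404184) (nat_lit 304) (nat_lit 1649096826) (nat_lit 380) (nat_lit 2863216941) (nat_lit 65) (nat_lit 5) (nat_lit 69) (nat_lit 5) (nat_lit 70) (nat_lit 5) (nat_lit 282) (nat_lit 258) (nat_lit 240)) (XT.lf (nat_lit 0) (nat_lit 508866315) (nat_lit 304) (nat_lit 7592447333) (nat_lit 380) (nat_lit 402528324) (nat_lit 61) (nat_lit 5) (nat_lit 65) (nat_lit 5) (nat_lit 66) (nat_lit 5) (nat_lit 283) (nat_lit 258) (nat_lit 239))))) (XT.nd (nat_lit 156) (nat_lit 608) (nat_lit 0) (XT.nd (nat_lit 78) (nat_lit 228) (nat_lit 0) (XT.lf (nat_lit 0) (nat_lit 2119287361) (nat_lit 380) (nat_lit 2941921458) (nat_lit 76) (nat_lit 3641419144) (nat_lit 60) (nat_lit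 5) (nat_lit 65) (nat_lit 5) (nat_lit 61) (nat_lit 5) (nat_lit 284) (nat_lit 258) (nat_lit 238)) (XT.lf (nat_lit 0) (nat_lit 2320365944) (nat_lit 228) (nat_lit 2377336417) (nat_lit 304) (nat_lit 4216313165) (nat_lit 57) (nat_lit 5) (nat_lit 60) (nat_lit 5) (nat_lit 61) (nat_lit 5) (nat_lit 285) (nat_lit 258) (nat_lit 237))) (XT.nd (nat_lit 78) (nat_lit 608) (nat_lit 0) (XT.lf (nat_lit 0) (nat_lit 7372742195) (nat_lit 304) (nat_lit 1306920910) (nat_lit 76) (nat_lit 458108938) (nat_lit 57) (nat_lit 5) (nat_lit 61) (nat_lit 5) (nat_lit 58) (nat_lit 5) (nat_lit 286) (nat_lit 258) (nat_lit 236)) (XT.nd (nat_lit 78) (nat_lit 228) (nat_lit 0) (XT.lf (nat_lit 0) (nat_lit 802592709) (nat_lit 380) (nat_lit 5152461724) (nat_lit 76) (nat_lit 3416215045) (nat_lit 52) (nat_lit 5) (nat_lit 57) (nat_lit 5) (nat_lit 53) (nat_lit 5) (nat_lit 287) (nat_lit 258) (nat_lit 235)) (XT.lf (nat_lit 0) (nat_lit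 322435687) (nat_lit 228) (nat_lit 3059720559) (nat_lit 304) (nat_lit 6235854591) (nat_lit 49) (nat_lit 5) (nat_lit 52) (nat_lit 5) (nat_lit 53) (nat_lit 5) (nat_lit 288) (nat_lit 258) (nat_lit 234)))))) (XT.nd (nat_lit 390) (nat_lit 684) (nat_lit 0) (XT.nd (nat_lit 156) (nat_lit 304) (nat_lit 0) (XT.nd (nat_lit 78) (nat_lit 228) (nat_lit 0) (XT.lf (nat_lit 0) (nat_lit 6096381364) (nat_lit 304) (nat_lit 3735443941) (nat_lit 76) (nat_lit 45131808) (nat_lit 49) (nat_lit 5) (nat_lit 53) (nat_lit 5) (nat_lit 50) (nat_lit 5) (nat_lit 289) (nat_lit 258) (nat_lit 233)) (XT.lf (nat_lit 0) (nat_lit 2010646484) (nat_lit 228) (nat_lit 6938460349) (nat_lit 304) (nat_lit 1199749197) (nat_lit 46) (nat_lit 5) (nat_lit 49) (nat_lit 5) (nat_lit 50) (nat_lit 5) (nat_lit 290) (nat_lit 258) (nat_lit 232))) (XT.nd (nat_lit 78) (nat_lit 228) (nat_lit 0) (XT.lf (nat_lit 0) (nat_lit 1448050677) (nat_lit 304)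 (nat_lit 2389312586) (nat_lit 76) (nat_lit 6596625828) (nat_lit 45) (nat_lit 5) (nat_lit 49) (nat_lit 5) (nat_lit 46) (nat_lit 5) (nat_lit 291) (nat_lit 258) (nat_lit 231)) (XT.nd (nat_lit 78) (nat_lit 0) (nat_lit 0) (XT.lf (nat_lit 0) (nat_lit 3641788686) (nat_lit 228) (nat_lit 528673421) (nat_lit 304) (nat_lit 6562931315) (nat_lit 42) (nat_lit 5) (nat_lit 45) (nat_lit 5) (nat_lit 46) (nat_lit 5) (nat_lit 292) (nat_lit 258) (nat_lit 230)) (XT.lf (nat_lit 0) (nat_lit 7043321603) (nat_lit 304) (nat_lit 1138780664) (nat_lit 76) (nat_lit 2865068437) (nat_lit 42) (nat_lit 5) (nat_lit 46) (nat_lit 5) (nat_lit 43) (nat_lit 5) (nat_lit 293) (nat_lit 258) (nat_lit 229))))) (XT.nd (nat_lit 156) (nat_lit 380) (nat_lit 0) (XT.nd (nat_lit 78) (nat_lit 76) (nat_lit 0) (XT.lf (nat_lit 0) (nat_lit 5169638184) (nat_lit 228) (nat_lit 4910244482) (nat_lit 304) (nat_lit 1295864696) (nat_lit 39) (nat_lit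 5) (nat_lit 42) (nat_lit 5) (nat_lit 43) (nat_lit 5) (nat_lit 294) (nat_lit 258) (nat_lit 228)) (XT.lf (nat_lit 0) (nat_lit 1448840839) (nat_lit 304) (nat_lit 10874189) (nat_lit 76) (nat_lit 10262390051) (nat_lit 38) (nat_lit 5) (nat_lit 42) (nat_lit 5) (nat_lit 39) (nat_lit 5) (nat_lit 295) (nat_lit 258) (nat_lit 227))) (XT.nd (nat_lit 78) (nat_lit 228) (nat_lit 0) (XT.lf (nat_lit 0) (nat_lit 4359978522) (nat_lit 228) (nat_lit 5529412116) (nat_lit 76) (nat_lit 2191788534) (nat_lit 36) (nat_lit 5) (nat_lit 39) (nat_lit 5) (nat_lit 37) (nat_lit 5) (nat_lit 296) (nat_lit 258) (nat_lit 226)) (XT.nd (nat_lit 78) (nat_lit 0) (nat_lit 0) (XT.lf (nat_lit 0) (nat_lit 893204444) (nat_lit 228) (nat_lit 6497254413) (nat_lit 304) (nat_lit 5069152150) (nat_lit 33) (nat_lit 5) (nat_lit 36) (nat_lit 5) (nat_lit 37) (nat_lit 5) (nat_lit 297) (nat_lit 258) (nat_lit 225)) (XT.lf (nat_lit 0) (nat_lit 7734300648)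 (nat_lit 228) (nat_lit 2869112749) (nat_lit 304) (nat_lit 2252092408) (nat_lit 33) (nat_lit 5) (nat_lit 36) (nat_lit 5) (nat_lit 37) (nat_lit 5) (nat_lit 298) (nat_lit 258) (nat_lit 224))))))))
noncomputable def xc101 : XT := (XT.nd (nat_lit 1560) (nat_lit 532) (nat_lit 0) (XT.nd (nat_lit 780) (nat_lit 608) (nat_lit 0) (XT.nd (nat_lit 390) (nat_lit 304) (nat_lit 0) (XT.nd (nat_lit 156) (nat_lit 304) (nat_lit 0) (XT.nd (nat_lit 78) (nat_lit 0) (nat_lit 0) (XT.lf (nat_lit 0) (nat_lit 662129519) (nat_lit 228) (nat_lit 11693247680) (nat_lit 76) (nat_lit 916402781) (nat_lit 30) (nat_lit 5) (nat_lit 33) (nat_lit 5) (nat_lit 31) (nat_lit 5) (nat_lit 299) (nat_lit 258) (nat_lit 223)) (XT.lf (nat_lit 0) (nat_lit 3721782291) (nat_lit 228) (nat_lit 5092121636) (nat_lit 76) (nat_lit 4889424496) (nat_lit 30) (nat_lit 5) (nat_lit 33) (nat_lit 5) (nat_lit 31) (nat_lit 5) (nat_lit 300) (nat_lit 258)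 (nat_lit 222))) (XT.nd (nat_lit 78) (nat_lit 152) (nat_lit 0) (XT.lf (nat_lit 0) (nat_lit 1808105075) (nat_lit 152) (nat_lit 5097607256) (nat_lit 228) (nat_lit 7252250352) (nat_lit 28) (nat_lit 5) (nat_lit 30) (nat_lit 5) (nat_lit 31) (nat_lit 5) (nat_lit 301) (nat_lit 258) (nat_lit 221)) (XT.nd (nat_lit 78) (nat_lit 152) (nat_lit 0) (XT.lf (nat_lit 0) (nat_lit 9142736481) (nat_lit 152) (nat_lit 1136751706) (nat_lit 228) (nat_lit 4354377644) (nat_lit 28) (nat_lit 5) (nat_lit 30) (nat_lit 5) (nat_lit 31) (nat_lit 5) (nat_lit 302) (nat_lit 258) (nat_lit 220)) (XT.lf (nat_lit 0) (nat_lit 1630050472) (nat_lit 152) (nat_lit 12211122104) (nat_lit 228) (nat_lit 1291496900) (nat_lit 26) (nat_lit 5) (nat_lit 28) (nat_lit 5) (nat_lit 29) (nat_lit 4) (nat_lit 303) (nat_lit 258) (nat_lit 219))))) (XT.nd (nat_lit 156) (nat_lit 76) (nat_lit 0) (XT.nd (nat_lit 78) (nat_lit 152) (nat_lit 0) (XT.lf (nat_lit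 0) (nat_lit 1922985561) (nat_lit 228) (nat_lit 6489951478) (nat_lit 76) (nat_lit 7239031328) (nat_lit 25) (nat_lit 5) (nat_lit 28) (nat_lit 5) (nat_lit 26) (nat_lit 5) (nat_lit 304) (nat_lit 258) (nat_lit 218)) (XT.lf (nat_lit 0) (nat_lit 795830050) (nat_lit 152) (nat_lit 4420812925) (nat_lit 228) (nat_lit 10981495241) (nat_lit 23) (nat_lit 5) (nat_lit 25) (nat_lit 5) (nat_lit 26) (nat_lit 5) (nat_lit 305) (nat_lit 258) (nat_lit 217))) (XT.nd (nat_lit 78) (nat_lit 76) (nat_lit 0) (XT.lf (nat_lit 0) (nat_lit 8590717950) (nat_lit 152) (nat_lit 144755586) (nat_lit 228) (nat_lit 8033173072) (nat_lit 23) (nat_lit 5) (nat_lit 25) (nat_lit 5) (nat_lit 26) (nat_lit 5) (nat_lit 306) (nat_lit 258) (nat_lit 216)) (XT.nd (nat_lit 78) (nat_lit 76) (nat_lit 0) (XT.lf (nat_lit 0) (nat_lit 12450555912) (nat_lit 228) (nat_lit 738778495) (nat_lit 76) (nat_lit 4177382467) (nat_lit 23) (nat_lit 5) (nat_lit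 26) (nat_lit 5) (nat_lit 24) (nat_lit 4) (nat_lit 307) (nat_lit 258) (nat_lit 215)) (XT.lf (nat_lit 0) (nat_lit 7226379641) (nat_lit 76) (nat_lit 9194944156) (nat_lit 152) (nat_lit 1569919780) (nat_lit 22) (nat_lit 5) (nat_lit 23) (nat_lit 5) (nat_lit 24) (nat_lit 4) (nat_lit 308) (nat_lit 258) (nat_lit 214)))))) (XT.nd (nat_lit 390) (nat_lit 304) (nat_lit 0) (XT.nd (nat_lit 156) (nat_lit 76) (nat_lit 0) (XT.nd (nat_lit 78) (nat_lit 152) (nat_lit 0) (XT.lf (nat_lit 0) (nat_lit 1849110334) (nat_lit 152) (nat_lit 3136669394) (nat_lit 76) (nat_lit 13661360235) (nat_lit 21) (nat_lit 5) (nat_lit 23) (nat_lit 5) (nat_lit 22) (nat_lit 5) (nat_lit 309) (nat_lit 258) (nat_lit 213)) (XT.lf (nat_lit 0) (nat_lit 4933489441) (nat_lit 152) (nat_lit 486981466) (nat_lit 228) (nat_lit 13912409270) (nat_lit 19) (nat_lit 5) (nat_lit 21) (nat_lit 5) (nat_lit 22) (nat_lit 5) (nat_lit 310) (nat_lit 258) (nat_lit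 212))) (XT.nd (nat_lit 78) (nat_lit 76) (nat_lit 0) (XT.lf (nat_lit 0) (nat_lit 9248149031) (nat_lit 228) (nat_lit 6673364839) (nat_lit 76) (nat_lit 4127546773) (nat_lit 19) (nat_lit 5) (nat_lit 22) (nat_lit 5) (nat_lit 20) (nat_lit 4) (nat_lit 311) (nat_lit 258) (nat_lit 211)) (XT.nd (nat_lit 78) (nat_lit 0) (nat_lit 0) (XT.lf (nat_lit 0) (nat_lit 1407308075) (nat_lit 76) (nat_lit 11849486907) (nat_lit 152) (nat_lit 7544814735) (nat_lit 18) (nat_lit 5) (nat_lit 19) (nat_lit 5) (nat_lit 20) (nat_lit 4) (nat_lit 312) (nat_lit 258) (nat_lit 210)) (XT.lf (nat_lit 0) (nat_lit 10056093455) (nat_lit 76) (nat_lit 7483291972) (nat_lit 152) (nat_lit 4048762138) (nat_lit 18) (nat_lit 5) (nat_lit 19) (nat_lit 5) (nat_lit 20) (nat_lit 4) (nat_lit 313) (nat_lit 258) (nat_lit 209))))) (XT.nd (nat_lit 156) (nat_lit 76) (nat_lit 0) (XT.nd (nat_lit 78) (nat_lit 228) (nat_lit 0) (XT.lf (nat_lit 0) (nat_lit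 19072932069) (nat_lit 76) (nat_lit 2925550026) (nat_lit 152) (nat_lit 417446550) (nat_lit 18) (nat_lit 5) (nat_lit 19) (nat_lit 5) (nat_lit 20) (nat_lit 4) (nat_lit 314) (nat_lit 258) (nat_lit 208)) (XT.lf (nat_lit 0) (nat_lit 3364072051) (nat_lit 228) (nat_lit 18001124942) (nat_lit 76) (nat_lit 1913417460) (nat_lit 15) (nat_lit 5) (nat_lit 18) (nat_lit 5) (nat_lit 16) (nat_lit 4) (nat_lit 315) (nat_lit 258) (nat_lit 207))) (XT.nd (nat_lit 78) (nat_lit 76) (nat_lit 0) (XT.lf (nat_lit 0) (nat_lit 7390060236) (nat_lit 228) (nat_lit 9855232429) (nat_lit 76) (nat_lit 6935358971) (nat_lit 15) (nat_lit 5) (nat_lit 18) (nat_lit 5) (nat_lit 16) (nat_lit 4) (nat_lit 316) (nat_lit 258) (nat_lit 206)) (XT.nd (nat_lit 78) (nat_lit 76) (nat_lit 0) (XT.lf (nat_lit 0) (nat_lit 11582985331) (nat_lit 228) (nat_lit 1362005763) (nat_lit 76) (nat_lit 12184546647) (nat_lit 15) (nat_lit 5) (nat_lit 18) (nat_lit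 5) (nat_lit 16) (nat_lit 4) (nat_lit 317) (nat_lit 258) (nat_lit 205)) (XT.lf (nat_lit 0) (nat_lit 7746720456) (nat_lit 76) (nat_lit 8327058050) (nat_lit 152) (nat_lit 10047706114) (nat_lit 14) (nat_lit 5) (nat_lit 15) (nat_lit 5) (nat_lit 16) (nat_lit 4) (nat_lit 318) (nat_lit 258) (nat_lit 204))))))) (XT.nd (nat_lit 780) (nat_lit 228) (nat_lit 0) (XT.nd (nat_lit 390) (nat_lit 152) (nat_lit 0) (XT.nd (nat_lit 156) (nat_lit 152) (nat_lit 0) (XT.nd (nat_lit 78) (nat_lit 0) (nat_lit 0) (XT.lf (nat_lit 0) (nat_lit 17301984590) (nat_lit 76) (nat_lit 3478147983) (nat_lit 152) (nat_lit 6383371455) (nat_lit 14) (nat_lit 5) (nat_lit 15) (nat_lit 5) (nat_lit 16) (nat_lit 4) (nat_lit 319) (nat_lit 258) (nat_lit 203)) (XT.lf (nat_lit 0) (nat_lit 25716113062) (nat_lit 152) (nat_lit 1002499907) (nat_lit 0) (nat_lit 1539320999) (nat_lit 14) (nat_lit 5) (nat_lit 16) (nat_lit 4) (nat_lit 14) (nat_lit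 4) (nat_lit 320) (nat_lit 258) (nat_lit 202))) (XT.nd (nat_lit 78) (nat_lit 0) (nat_lit 0) (XT.lf (nat_lit 0) (nat_lit 1606368973) (nat_lit 152) (nat_lit 20963866715) (nat_lit 76) (nat_lit 6827592379) (nat_lit 12) (nat_lit 5) (nat_lit 14) (nat_lit 5) (nat_lit 13) (nat_lit 4) (nat_lit 321) (nat_lit 258) (nat_lit 201)) (XT.nd (nat_lit 78) (nat_lit 0) (nat_lit 0) (XT.lf (nat_lit 0) (nat_lit 5864500965) (nat_lit 152) (nat_lit 12311011415) (nat_lit 76) (nat_lit 12417744901) (nat_lit 12) (nat_lit 5) (nat_lit 14) (nat_lit 5) (nat_lit 13) (nat_lit 4) (nat_lit 322) (nat_lit 258) (nat_lit 200)) (XT.lf (nat_lit 0) (nat_lit 10307633195) (nat_lit 152) (nat_lit 3275271566) (nat_lit 76) (nat_lit 18266969079) (nat_lit 12) (nat_lit 5) (nat_lit 14) (nat_lit 5) (nat_lit 13) (nat_lit 4) (nat_lit 323) (nat_lit 258) (nat_lit 199))))) (XT.nd (nat_lit 156) (nat_lit 76) (nat_lit 0) (XT.nd (nat_lit 78) (nat_lit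 0) (nat_lit 0) (XT.lf (nat_lit 0) (nat_lit 6368704826) (nat_lit 76) (nat_lit 8677073053) (nat_lit 152) (nat_lit 18119920140) (nat_lit 11) (nat_lit 5) (nat_lit 12) (nat_lit 5) (nat_lit 13) (nat_lit 4) (nat_lit 324) (nat_lit 258) (nat_lit 198)) (XT.lf (nat_lit 0) (nat_lit 16561965631) (nat_lit 76) (nat_lit 3488292647) (nat_lit 152) (nat_lit 14495602361) (nat_lit 11) (nat_lit 5) (nat_lit 12) (nat_lit 5) (nat_lit 13) (nat_lit 4) (nat_lit 325) (nat_lit 258) (nat_lit 197))) (XT.nd (nat_lit 78) (nat_lit 76) (nat_lit 0) (XT.lf (nat_lit 0) (nat_lit 25310456728) (nat_lit 152) (nat_lit 8806097769) (nat_lit 0) (nat_lit 1878219954) (nat_lit 11) (nat_lit 5) (nat_lit 13) (nat_lit 4) (nat_lit 11) (nat_lit 4) (nat_lit 326) (nat_lit 258) (nat_lit 196)) (XT.nd (nat_lit 78) (nat_lit 0) (nat_lit 0) (XT.lf (nat_lit 0) (nat_lit 754352080) (nat_lit 76) (nat_lit 30124365297) (nat_lit 76) (nat_lit 6635180884)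 (nat_lit 10) (nat_lit 4) (nat_lit 11) (nat_lit 5) (nat_lit 11) (nat_lit 4) (nat_lit 327) (nat_lit 258) (nat_lit 195)) (XT.lf (nat_lit 0) (nat_lit 11056052862) (nat_lit 76) (nat_lit 25795038381) (nat_lit 76) (nat_lit 2251618121) (nat_lit 10) (nat_lit 4) (nat_lit 11) (nat_lit 5) (nat_lit 11) (nat_lit 4) (nat_lit 328) (nat_lit 258) (nat_lit 194)))))) (XT.nd (nat_lit 390) (nat_lit 76) (nat_lit 0) (XT.nd (nat_lit 156) (nat_lit 76) (nat_lit 0) (XT.nd (nat_lit 78) (nat_lit 0) (nat_lit 0) (XT.lf (nat_lit 0) (nat_lit 2253172047) (nat_lit 152) (nat_lit 18976070751) (nat_lit 76) (nat_lit 19541032467) (nat_lit 9) (nat_lit 5) (nat_lit 11) (nat_lit 5) (nat_lit 10) (nat_lit 4) (nat_lit 329) (nat_lit 258) (nat_lit 193)) (XT.lf (nat_lit 0) (nat_lit 6885913428) (nat_lit 152) (nat_lit 9528144430) (nat_lit 76) (nat_lit 26106410889) (nat_lit 9) (nat_lit 5) (nat_lit 11) (nat_lit 5) (nat_lit 10) (nat_lit 4)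 (nat_lit 330) (nat_lit 258) (nat_lit 192))) (XT.nd (nat_lit 78) (nat_lit 0) (nat_lit 0) (XT.lf (nat_lit 0) (nat_lit 366501940) (nat_lit 76) (nat_lit 11368922383) (nat_lit 152) (nat_lit 32623504218) (nat_lit 8) (nat_lit 5) (nat_lit 9) (nat_lit 5) (nat_lit 10) (nat_lit 4) (nat_lit 331) (nat_lit 258) (nat_lit 191)) (XT.nd (nat_lit 78) (nat_lit 0) (nat_lit 0) (XT.lf (nat_lit 0) (nat_lit 11049873005) (nat_lit 76) (nat_lit 5918717674) (nat_lit 152) (nat_lit 29313674272) (nat_lit 8) (nat_lit 5) (nat_lit 9) (nat_lit 5) (nat_lit 10) (nat_lit 4) (nat_lit 332) (nat_lit 258) (nat_lit 190)) (XT.lf (nat_lit 0) (nat_lit 22232361878) (nat_lit 76) (nat_lit 211830791) (nat_lit 152) (nat_lit 25858548674) (nat_lit 8) (nat_lit 5) (nat_lit 9) (nat_lit 5) (nat_lit 10) (nat_lit 4) (nat_lit 333) (nat_lit 258) (nat_lit 189))))) (XT.nd (nat_lit 234) (nat_lit 0) (nat_lit 0) (XT.nd (nat_lit 78) (nat_lit 76) (nat_lit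 0) (XT.lf (nat_lit 0) (nat_lit 28265280337) (nat_lit 152) (nat_lit 16574587737) (nat_lit 0) (nat_lit 5580799652) (nat_lit 8) (nat_lit 5) (nat_lit 10) (nat_lit 4) (nat_lit 8) (nat_lit 4) (nat_lit 334) (nat_lit 258) (nat_lit 188)) (XT.nd (nat_lit 78) (nat_lit 76) (nat_lit 0) (XT.lf (nat_lit 0) (nat_lit 34363235335) (nat_lit 152) (nat_lit 6639929657) (nat_lit 0) (nat_lit 11642045694) (nat_lit 8) (nat_lit 5) (nat_lit 10) (nat_lit 4) (nat_lit 8) (nat_lit 4) (nat_lit 335) (nat_lit 258) (nat_lit 187)) (XT.lf (nat_lit 0) (nat_lit 3884896959) (nat_lit 76) (nat_lit 36925026503) (nat_lit 76) (nat_lit 14168875951) (nat_lit 7) (nat_lit 4) (nat_lit 8) (nat_lit 5) (nat_lit 8) (nat_lit 4) (nat_lit 336) (nat_lit 258) (nat_lit 186)))) (XT.nd (nat_lit 78) (nat_lit 0) (nat_lit 0) (XT.lf (nat_lit 0) (nat_lit 15136081413) (nat_lit 76) (nat_lit 32538822411) (nat_lit 76) (nat_lit 9749375754) (nat_lit 7) (nat_lit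 4) (nat_lit 8) (nat_lit 5) (nat_lit 8) (nat_lit 4) (nat_lit 337) (nat_lit 258) (nat_lit 185)) (XT.nd (nat_lit 78) (nat_lit 0) (nat_lit 0) (XT.lf (nat_lit 0) (nat_lit 26920866177) (nat_lit 76) (nat_lit 27946559795) (nat_lit 76) (nat_lit 5125402561) (nat_lit 7) (nat_lit 4) (nat_lit 8) (nat_lit 5) (nat_lit 8) (nat_lit 4) (nat_lit 338) (nat_lit 258) (nat_lit 184)) (XT.lf (nat_lit 0) (nat_lit 39267310262) (nat_lit 76) (nat_lit 23137304696) (nat_lit 76) (nat_lit 285946913) (nat_lit 7) (nat_lit 4) (nat_lit 8) (nat_lit 5) (nat_lit 8) (nat_lit 4) (nat_lit 339) (nat_lit 258) (nat_lit 183))))))))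
noncomputable def xc102 : XT := (XT.nd (nat_lit 1560) (nat_lit 76) (nat_lit 0) (XT.nd (nat_lit 780) (nat_lit 152) (nat_lit 0) (XT.nd (nat_lit 390) (nat_lit 76) (nat_lit 0) (XT.nd (nat_lit 156) (nat_lit 76) (nat_lit 0) (XT.nd (nat_lit 78) (nat_lit 0) (nat_lit 0) (XT.lf (nat_lit 0) (nat_lit 4627507409) (nat_lit 152) (nat_lit 13393730022) (nat_lit 76) (nat_lit 47498933478) (nat_lit 6) (nat_lit 5) (nat_lit 8) (nat_lit 5) (nat_lit 7) (nat_lit 4) (nat_lit 340) (nat_lit 258) (nat_lit 182)) (XT.lf (nat_lit 0) (nat_lit 9763225946) (nat_lit 152) (nat_lit 2892899808) (nat_lit 76) (nat_lit 55835597952) (nat_lit 6) (nat_lit 5) (nat_lit 8) (nat_lit 5) (nat_lit 7) (nat_lit 4) (nat_lit 341) (nat_lit 258) (nat_lit 181))) (XT.nd (nat_lit 78) (nat_lit 0) (nat_lit 0) (XT.lf (nat_lit 0) (nat_lit 8376815862) (nat_lit 76) (nat_lit 6896558396) (nat_lit 152) (nat_lit 56332605074) (nat_lit 5) (nat_lit 5) (nat_lit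 6) (nat_lit 5) (nat_lit 7) (nat_lit 4) (nat_lit 342) (nat_lit 258) (nat_lit 180)) (XT.nd (nat_lit 78) (nat_lit 0) (nat_lit 0) (XT.lf (nat_lit 0) (nat_lit 20286577184) (nat_lit 76) (nat_lit 808556776) (nat_lit 152) (nat_lit 53779015612) (nat_lit 5) (nat_lit 5) (nat_lit 6) (nat_lit 5) (nat_lit 7) (nat_lit 4) (nat_lit 343) (nat_lit 258) (nat_lit 179)) (XT.lf (nat_lit 0) (nat_lit 27282722818) (nat_lit 152) (nat_lit 45624276473) (nat_lit 0) (nat_lit 5394998669) (nat_lit 5) (nat_lit 5) (nat_lit 7) (nat_lit 4) (nat_lit 5) (nat_lit 4) (nat_lit 344) (nat_lit 258) (nat_lit 178))))) (XT.nd (nat_lit 156) (nat_lit 76) (nat_lit 0) (XT.nd (nat_lit 78) (nat_lit 0) (nat_lit 0) (XT.lf (nat_lit 0) (nat_lit 33781100149) (nat_lit 152) (nat_lit 36248161510) (nat_lit 0) (nat_lit 11871913034) (nat_lit 5) (nat_lit 5) (nat_lit 7) (nat_lit 4) (nat_lit 5) (nat_lit 4) (nat_lit 345) (nat_lit 258) (nat_lit 177)) (XT.lf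 (nat_lit 0) (nat_lit 40593114444) (nat_lit 152) (nat_lit 26424279578) (nat_lit 0) (nat_lit 18663486408) (nat_lit 5) (nat_lit 5) (nat_lit 7) (nat_lit 4) (nat_lit 5) (nat_lit 4) (nat_lit 346) (nat_lit 258) (nat_lit 176))) (XT.nd (nat_lit 78) (nat_lit 76) (nat_lit 0) (XT.lf (nat_lit 0) (nat_lit 47734984784) (nat_lit 152) (nat_lit 16129240483) (nat_lit 0) (nat_lit 25785889206) (nat_lit 5) (nat_lit 5) (nat_lit 7) (nat_lit 4) (nat_lit 5) (nat_lit 4) (nat_lit 347) (nat_lit 258) (nat_lit 175)) (XT.nd (nat_lit 78) (nat_lit 76) (nat_lit 0) (XT.lf (nat_lit 0) (nat_lit 55223715623) (nat_lit 152) (nat_lit 5338532225) (nat_lit 0) (nat_lit 33256079527) (nat_lit 5) (nat_lit 5) (nat_lit 7) (nat_lit 4) (nat_lit 5) (nat_lit 4) (nat_lit 348) (nat_lit 258) (nat_lit 174)) (XT.lf (nat_lit 0) (nat_lit 6171049478) (nat_lit 76) (nat_lit 57002435171) (nat_lit 76) (nat_lit 35017141440) (nat_lit 4) (nat_lit 4) (nat_lit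 5) (nat_lit 5) (nat_lit 5) (nat_lit 4) (nat_lit 349) (nat_lit 258) (nat_lit 173)))))) (XT.nd (nat_lit 390) (nat_lit 152) (nat_lit 0) (XT.nd (nat_lit 156) (nat_lit 0) (nat_lit 0) (XT.nd (nat_lit 78) (nat_lit 0) (nat_lit 0) (XT.lf (nat_lit 0) (nat_lit 18423571092) (nat_lit 76) (nat_lit 53178020839) (nat_lit 76) (nat_lit 31175910311) (nat_lit 4) (nat_lit 4) (nat_lit 5) (nat_lit 5) (nat_lit 5) (nat_lit 4) (nat_lit 350) (nat_lit 258) (nat_lit 172)) (XT.lf (nat_lit 0) (nat_lit 31271689304) (nat_lit 76) (nat_lit 49170309729) (nat_lit 76) (nat_lit 27152183206) (nat_lit 4) (nat_lit 4) (nat_lit 5) (nat_lit 5) (nat_lit 5) (nat_lit 4) (nat_lit 351) (nat_lit 258) (nat_lit 171))) (XT.nd (nat_lit 78) (nat_lit 0) (nat_lit 0) (XT.lf (nat_lit 0) (nat_lit 44745994870) (nat_lit 76) (nat_lit 44969759674) (nat_lit 76) (nat_lit 22936379821) (nat_lit 4) (nat_lit 4) (nat_lit 5) (nat_lit 5) (nat_lit 5) (nat_lit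 4) (nat_lit 352) (nat_lit 258) (nat_lit 170)) (XT.nd (nat_lit 78) (nat_lit 0) (nat_lit 0) (XT.lf (nat_lit 0) (nat_lit 58878569471) (nat_lit 76) (nat_lit 40566369363) (nat_lit 76) (nat_lit 18518462530) (nat_lit 4) (nat_lit 4) (nat_lit 5) (nat_lit 5) (nat_lit 5) (nat_lit 4) (nat_lit 353) (nat_lit 258) (nat_lit 169)) (XT.lf (nat_lit 0) (nat_lit 73703062093) (nat_lit 76) (nat_lit 35949654534) (nat_lit 76) (nat_lit 13887912482) (nat_lit 4) (nat_lit 4) (nat_lit 5) (nat_lit 5) (nat_lit 5) (nat_lit 4) (nat_lit 354) (nat_lit 258) (nat_lit 168))))) (XT.nd (nat_lit 156) (nat_lit 152) (nat_lit 0) (XT.nd (nat_lit 78) (nat_lit 0) (nat_lit 0) (XT.lf (nat_lit 0) (nat_lit 89254769147) (nat_lit 76) (nat_lit 31108623009) (nat_lit 76) (nat_lit 9033704557) (nat_lit 4) (nat_lit 4) (nat_lit 5) (nat_lit 5) (nat_lit 5) (nat_lit 4) (nat_lit 355) (nat_lit 258) (nat_lit 167)) (XT.lf (nat_lit 0) (nat_lit 105570718508)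 (nat_lit 76) (nat_lit 26031748522) (nat_lit 76) (nat_lit 3944281117) (nat_lit 4) (nat_lit 4) (nat_lit 5) (nat_lit 5) (nat_lit 5) (nat_lit 4) (nat_lit 356) (nat_lit 258) (nat_lit 166))) (XT.nd (nat_lit 78) (nat_lit 76) (nat_lit 0) (XT.lf (nat_lit 0) (nat_lit 1347907598) (nat_lit 152) (nat_lit 19336208210) (nat_lit 76) (nat_lit 121319022608) (nat_lit 3) (nat_lit 5) (nat_lit 5) (nat_lit 5) (nat_lit 4) (nat_lit 4) (nat_lit 357) (nat_lit 258) (nat_lit 165)) (XT.nd (nat_lit 78) (nat_lit 76) (nat_lit 0) (XT.lf (nat_lit 0) (nat_lit 6765571542) (nat_lit 152) (nat_lit 8241379394) (nat_lit 76) (nat_lit 133772496491) (nat_lit 3) (nat_lit 5) (nat_lit 5) (nat_lit 5) (nat_lit 4) (nat_lit 4) (nat_lit 358) (nat_lit 258) (nat_lit 164)) (XT.lf (nat_lit 0) (nat_lit 3508756469) (nat_lit 76) (nat_lit 8993876594) (nat_lit 152) (nat_lit 143389516172) (nat_lit 2) (nat_lit 5) (nat_lit 3) (nat_lit 5) (nat_lit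 4) (nat_lit 4) (nat_lit 359) (nat_lit 258) (nat_lit 163))))))) (XT.nd (nat_lit 780) (nat_lit 76) (nat_lit 0) (XT.nd (nat_lit 390) (nat_lit 0) (nat_lit 0) (XT.nd (nat_lit 156) (nat_lit 0) (nat_lit 0) (XT.nd (nat_lit 78) (nat_lit 0) (nat_lit 0) (XT.lf (nat_lit 0) (nat_lit 16120973996) (nat_lit 76) (nat_lit 2538996424) (nat_lit 152) (nat_lit 144693847499) (nat_lit 2) (nat_lit 5) (nat_lit 3) (nat_lit 5) (nat_lit 4) (nat_lit 4) (nat_lit 360) (nat_lit 258) (nat_lit 162)) (XT.lf (nat_lit 0) (nat_lit 25185415054) (nat_lit 152) (nat_lit 141902157166) (nat_lit 0) (nat_lit 4097988579) (nat_lit 2) (nat_lit 5) (nat_lit 4) (nat_lit 4) (nat_lit 2) (nat_lit 4) (nat_lit 361) (nat_lit 258) (nat_lit 161))) (XT.nd (nat_lit 78) (nat_lit 0) (nat_lit 0) (XT.lf (nat_lit 0) (nat_lit 32073101051) (nat_lit 152) (nat_lit 136357237695) (nat_lit 0) (nat_lit 10976756269) (nat_lit 2) (nat_lit 5) (nat_lit 4) (nat_lit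 4) (nat_lit 2) (nat_lit 4) (nat_lit 362) (nat_lit 258) (nat_lit 160)) (XT.nd (nat_lit 78) (nat_lit 0) (nat_lit 0) (XT.lf (nat_lit 0) (nat_lit 39299786813) (nat_lit 152) (nat_lit 130545242473) (nat_lit 0) (nat_lit 18194948407) (nat_lit 2) (nat_lit 5) (nat_lit 4) (nat_lit 4) (nat_lit 2) (nat_lit 4) (nat_lit 363) (nat_lit 258) (nat_lit 159)) (XT.lf (nat_lit 0) (nat_lit 46882678735) (nat_lit 152) (nat_lit 124452333415) (nat_lit 0) (nat_lit 25769751163) (nat_lit 2) (nat_lit 5) (nat_lit 4) (nat_lit 4) (nat_lit 2) (nat_lit 4) (nat_lit 364) (nat_lit 258) (nat_lit 158))))) (XT.nd (nat_lit 156) (nat_lit 0) (nat_lit 0) (XT.nd (nat_lit 78) (nat_lit 0) (nat_lit 0) (XT.lf (nat_lit 0) (nat_lit 54839831323) (nat_lit 152) (nat_lit 118064003595) (nat_lit 0) (nat_lit 33719199783) (nat_lit 2) (nat_lit 5) (nat_lit 4) (nat_lit 4) (nat_lit 2) (nat_lit 4) (nat_lit 365) (nat_lit 258) (nat_lit 157)) (XT.lf (nat_lit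 0) (nat_lit 63190190177) (nat_lit 152) (nat_lit 111365042704) (nat_lit 0) (nat_lit 42062221524) (nat_lit 2) (nat_lit 5) (nat_lit 4) (nat_lit 4) (nat_lit 2) (nat_lit 4) (nat_lit 366) (nat_lit 258) (nat_lit 156))) (XT.nd (nat_lit 78) (nat_lit 0) (nat_lit 0) (XT.lf (nat_lit 0) (nat_lit 71953637104) (nat_lit 152) (nat_lit 104339500836) (nat_lit 0) (nat_lit 50818680726) (nat_lit 2) (nat_lit 5) (nat_lit 4) (nat_lit 4) (nat_lit 2) (nat_lit 4) (nat_lit 367) (nat_lit 258) (nat_lit 155)) (XT.nd (nat_lit 78) (nat_lit 0) (nat_lit 0) (XT.lf (nat_lit 0) (nat_lit 81151037454) (nat_lit 152) (nat_lit 96970650509) (nat_lit 0) (nat_lit 60009426098) (nat_lit 2) (nat_lit 5) (nat_lit 4) (nat_lit 4) (nat_lit 2) (nat_lit 4) (nat_lit 368) (nat_lit 258) (nat_lit 154)) (XT.lf (nat_lit 0) (nat_lit 90804289799) (nat_lit 152) (nat_lit 89240946841) (nat_lit 0) (nat_lit 69656340370) (nat_lit 2) (nat_lit 5) (nat_lit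 4) (nat_lit 4) (nat_lit 2) (nat_lit 4) (nat_lit 369) (nat_lit 258) (nat_lit 153)))))) (XT.nd (nat_lit 390) (nat_lit 76) (nat_lit 0) (XT.nd (nat_lit 156) (nat_lit 0) (nat_lit 0) (XT.nd (nat_lit 78) (nat_lit 0) (nat_lit 0) (XT.lf (nat_lit 0) (nat_lit 100936378074) (nat_lit 152) (nat_lit 81131985778) (nat_lit 0) (nat_lit 79782392384) (nat_lit 2) (nat_lit 5) (nat_lit 4) (nat_lit 4) (nat_lit 2) (nat_lit 4) (nat_lit 370) (nat_lit 258) (nat_lit 152)) (XT.lf (nat_lit 0) (nat_lit 111571426297) (nat_lit 152) (nat_lit 72624460267) (nat_lit 0) (nat_lit 90411691789) (nat_lit 2) (nat_lit 5) (nat_lit 4) (nat_lit 4) (nat_lit 2) (nat_lit 4) (nat_lit 371) (nat_lit 258) (nat_lit 151))) (XT.nd (nat_lit 78) (nat_lit 0) (nat_lit 0) (XT.lf (nat_lit 0) (nat_lit 122734756014) (nat_lit 152) (nat_lit 63698114297) (nat_lit 0) (nat_lit 101569546439) (nat_lit 2) (nat_lit 5) (nat_lit 4) (nat_lit 4) (nat_lit 2) (nat_lit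 4) (nat_lit 372) (nat_lit 258) (nat_lit 150)) (XT.nd (nat_lit 78) (nat_lit 0) (nat_lit 0) (XT.lf (nat_lit 0) (nat_lit 134452946579) (nat_lit 152) (nat_lit 54331694662) (nat_lit 0) (nat_lit 113282522655) (nat_lit 2) (nat_lit 5) (nat_lit 4) (nat_lit 4) (nat_lit 2) (nat_lit 4) (nat_lit 373) (nat_lit 258) (nat_lit 149)) (XT.lf (nat_lit 0) (nat_lit 146753898447) (nat_lit 152) (nat_lit 44502900363) (nat_lit 0) (nat_lit 125578508477) (nat_lit 2) (nat_lit 5) (nat_lit 4) (nat_lit 4) (nat_lit 2) (nat_lit 4) (nat_lit 374) (nat_lit 258) (nat_lit 148))))) (XT.nd (nat_lit 234) (nat_lit 76) (nat_lit 0) (XT.nd (nat_lit 78) (nat_lit 0) (nat_lit 0) (XT.lf (nat_lit 0) (nat_lit 159666899598) (nat_lit 152) (nat_lit 34188329510) (nat_lit 0) (nat_lit 138486780060) (nat_lit 2) (nat_lit 5) (nat_lit 4) (nat_lit 4) (nat_lit 2) (nat_lit 4) (nat_lit 375) (nat_lit 258) (nat_lit 147)) (XT.nd (nat_lit 78) (nat_lit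 0) (nat_lit 0) (XT.lf (nat_lit 0) (nat_lit 173222695273) (nat_lit 152) (nat_lit 23363423600) (nat_lit 0) (nat_lit 152038071385) (nat_lit 2) (nat_lit 5) (nat_lit 4) (nat_lit 4) (nat_lit 2) (nat_lit 4) (nat_lit 376) (nat_lit 258) (nat_lit 146)) (XT.lf (nat_lit 0) (nat_lit 187453561177) (nat_lit 152) (nat_lit 12002409047) (nat_lit 0) (nat_lit 166264647431) (nat_lit 2) (nat_lit 5) (nat_lit 4) (nat_lit 4) (nat_lit 2) (nat_lit 4) (nat_lit 377) (nat_lit 258) (nat_lit 145)))) (XT.nd (nat_lit 78) (nat_lit 76) (nat_lit 0) (XT.lf (nat_lit 0) (nat_lit 202393380323) (nat_lit 152) (nat_lit 78235817) (nat_lit 0) (nat_lit 181200380998) (nat_lit 2) (nat_lit 5) (nat_lit 4) (nat_lit 4) (nat_lit 2) (nat_lit 4) (nat_lit 378) (nat_lit 258) (nat_lit 144)) (XT.nd (nat_lit 78) (nat_lit 0) (nat_lit 0) (XT.lf (nat_lit 0) (nat_lit 12848726466) (nat_lit 76) (nat_lit 205429601871) (nat_lit 76) (nat_lit 184232711519)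 (nat_lit 1) (nat_lit 4) (nat_lit 2) (nat_lit 5) (nat_lit 2) (nat_lit 4) (nat_lit 379) (nat_lit 258) (nat_lit 143)) (XT.lf (nat_lit 0) (nat_lit 26420169086) (nat_lit 76) (nat_lit 208536258805) (nat_lit 76) (nat_lit 187335662713) (nat_lit 1) (nat_lit 4) (nat_lit 2) (nat_lit 5) (nat_lit 2) (nat_lit 4) (nat_lit 380) (nat_lit 258) (nat_lit 142))))))))
noncomputable def xc103 : XT := (XT.nd (nat_lit 32214) (nat_lit 0) (nat_lit 3116) (XT.nd (nat_lit 31434) (nat_lit 0) (nat_lit 8056) (XT.nd (nat_lit 390) (nat_lit 0) (nat_lit 0) (XT.nd (nat_lit 156) (nat_lit 0) (nat_lit 0) (XT.nd (nat_lit 78) (nat_lit 0) (nat_lit 0) (XT.lf (nat_lit 0) (nat_lit 40665818171) (nat_lit 76) (nat_lit 211800308706) (nat_lit 76) (nat_lit 190596183337) (nat_lit 1) (nat_lit 4) (nat_lit 2) (nat_lit 5) (nat_lit 2) (nat_lit 4) (nat_lit 381) (nat_lit 258) (nat_lit 141)) (XT.lf (nat_lit 0) (nat_lit 55619591934) (nat_lit 76)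 (nat_lit 215229523122) (nat_lit 76) (nat_lit 194022036537) (nat_lit 1) (nat_lit 4) (nat_lit 2) (nat_lit 5) (nat_lit 2) (nat_lit 4) (nat_lit 382) (nat_lit 258) (nat_lit 140))) (XT.nd (nat_lit 78) (nat_lit 0) (nat_lit 0) (XT.lf (nat_lit 0) (nat_lit 71317094597) (nat_lit 76) (nat_lit 218832066848) (nat_lit 76) (nat_lit 197621379106) (nat_lit 1) (nat_lit 4) (nat_lit 2) (nat_lit 5) (nat_lit 2) (nat_lit 4) (nat_lit 383) (nat_lit 258) (nat_lit 139)) (XT.nd (nat_lit 78) (nat_lit 0) (nat_lit 0) (XT.lf (nat_lit 0) (nat_lit 87795701167) (nat_lit 76) (nat_lit 222616517370) (nat_lit 76) (nat_lit 201402780906) (nat_lit 1) (nat_lit 4) (nat_lit 2) (nat_lit 5) (nat_lit 2) (nat_lit 4) (nat_lit 384) (nat_lit 258) (nat_lit 138)) (XT.lf (nat_lit 0) (nat_lit 105094646421) (nat_lit 76) (nat_lit 226591885284) (nat_lit 76) (nat_lit 205375245276) (nat_lit 1) (nat_lit 4) (nat_lit 2) (nat_lit 5) (nat_lit 2) (nat_lit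 4) (nat_lit 385) (nat_lit 258) (nat_lit 137))))) (XT.nd (nat_lit 156) (nat_lit 0) (nat_lit 0) (XT.nd (nat_lit 78) (nat_lit 0) (nat_lit 0) (XT.lf (nat_lit 0) (nat_lit 123255118325) (nat_lit 76) (nat_lit 230767635753) (nat_lit 76) (nat_lit 209548230463) (nat_lit 1) (nat_lit 4) (nat_lit 2) (nat_lit 5) (nat_lit 2) (nat_lit 4) (nat_lit 386) (nat_lit 258) (nat_lit 136)) (XT.lf (nat_lit 0) (nat_lit 142320356097) (nat_lit 76) (nat_lit 235153711038) (nat_lit 76) (nat_lit 213931672148) (nat_lit 1) (nat_lit 4) (nat_lit 2) (nat_lit 5) (nat_lit 2) (nat_lit 4) (nat_lit 387) (nat_lit 258) (nat_lit 135))) (XT.nd (nat_lit 78) (nat_lit 0) (nat_lit 0) (XT.lf (nat_lit 0) (nat_lit 162335753160) (nat_lit 76) (nat_lit 239760554176) (nat_lit 76) (nat_lit 218536007096) (nat_lit 1) (nat_lit 4) (nat_lit 2) (nat_lit 5) (nat_lit 2) (nat_lit 4) (nat_lit 388) (nat_lit 258) (nat_lit 134)) (XT.nd (nat_lit 30732) (nat_lit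 0) (nat_lit 9956) (XT.lf (nat_lit 0) (nat_lit 183348965222) (nat_lit 76) (nat_lit 244599133842) (nat_lit 76) (nat_lit 223372198009) (nat_lit 1) (nat_lit 4) (nat_lit 2) (nat_lit 5) (nat_lit 2) (nat_lit 4) (nat_lit 389) (nat_lit 258) (nat_lit 133)) (XT.lf (nat_lit 0) (nat_lit 1531560694) (nat_lit 76) (nat_lit 163470445) (nat_lit 0) (nat_lit 1531560694) (nat_lit 132) (nat_lit 5) (nat_lit 133) (nat_lit 0) (nat_lit 132) (nat_lit 4) (nat_lit 262) (nat_lit 259) (nat_lit 259)))))) (XT.nd (nat_lit 390) (nat_lit 1292) (nat_lit 0) (XT.nd (nat_lit 156) (nat_lit 456) (nat_lit 0) (XT.nd (nat_lit 78) (nat_lit 76) (nat_lit 0) (XT.lf (nat_lit 0) (nat_lit 2923137290) (nat_lit 76) (nat_lit 3117119929) (nat_lit 76) (nat_lit 429113186) (nat_lit 131) (nat_lit 4) (nat_lit 132) (nat_lit 5) (nat_lit 132) (nat_lit 4) (nat_lit 263) (nat_lit 259) (nat_lit 258)) (XT.lf (nat_lit 0) (nat_lit 2418104934) (nat_lit 152)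 (nat_lit 290898049) (nat_lit 76) (nat_lit 3784796105) (nat_lit 130) (nat_lit 5) (nat_lit 132) (nat_lit 5) (nat_lit 131) (nat_lit 4) (nat_lit 264) (nat_lit 259) (nat_lit 257))) (XT.nd (nat_lit 78) (nat_lit 304) (nat_lit 0) (XT.lf (nat_lit 0) (nat_lit 3115162163) (nat_lit 152) (nat_lit 2153753291) (nat_lit 228) (nat_lit 1257089265) (nat_lit 128) (nat_lit 5) (nat_lit 130) (nat_lit 5) (nat_lit 131) (nat_lit 4) (nat_lit 265) (nat_lit 259) (nat_lit 256)) (XT.nd (nat_lit 78) (nat_lit 0) (nat_lit 0) (XT.lf (nat_lit 0) (nat_lit 6332271) (nat_lit 228) (nat_lit 1477012656) (nat_lit 304) (nat_lit 5084003041) (nat_lit 124) (nat_lit 5) (nat_lit 127) (nat_lit 5) (nat_lit 128) (nat_lit 5) (nat_lit 266) (nat_lit 259) (nat_lit 255)) (XT.lf (nat_lit 0) (nat_lit 3583995347) (nat_lit 228) (nat_lit 628676232) (nat_lit 304) (nat_lit 2402946476) (nat_lit 124) (nat_lit 5) (nat_lit 127) (nat_lit 5) (nat_lit 128)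 (nat_lit 5) (nat_lit 267) (nat_lit 259) (nat_lit 254))))) (XT.nd (nat_lit 156) (nat_lit 912) (nat_lit 0) (XT.nd (nat_lit 78) (nat_lit 0) (nat_lit 0) (XT.lf (nat_lit 0) (nat_lit 254493828) (nat_lit 380) (nat_lit 6100989721) (nat_lit 76) (nat_lit 318260743) (nat_lit 119) (nat_lit 5) (nat_lit 124) (nat_lit 5) (nat_lit 120) (nat_lit 5) (nat_lit 268) (nat_lit 259) (nat_lit 253)) (XT.lf (nat_lit 0) (nat_lit 2874520111) (nat_lit 380) (nat_lit 2435443679) (nat_lit 76) (nat_lit 1427834777) (nat_lit 119) (nat_lit 5) (nat_lit 124) (nat_lit 5) (nat_lit 120) (nat_lit 5) (nat_lit 269) (nat_lit 259) (nat_lit 252))) (XT.nd (nat_lit 78) (nat_lit 532) (nat_lit 0) (XT.lf (nat_lit 0) (nat_lit 1346676638) (nat_lit 380) (nat_lit 4155114452) (nat_lit 456) (nat_lit 1309942575) (nat_lit 114) (nat_lit 5) (nat_lit 119) (nat_lit 5) (nat_lit 120) (nat_lit 5) (nat_lit 270) (nat_lit 259) (nat_lit 251)) (XT.nd (nat_lit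 78) (nat_lit 456) (nat_lit 0) (XT.lf (nat_lit 0) (nat_lit 1226784748) (nat_lit 456) (nat_lit 1620113709) (nat_lit 76) (nat_lit 4046861094) (nat_lit 113) (nat_lit 5) (nat_lit 119) (nat_lit 5) (nat_lit 114) (nat_lit 5) (nat_lit 271) (nat_lit 259) (nat_lit 250)) (XT.lf (nat_lit 0) (nat_lit 2363452996) (nat_lit 456) (nat_lit 1384235348) (nat_lit 532) (nat_lit 3236480059) (nat_lit 107) (nat_lit 5) (nat_lit 113) (nat_lit 5) (nat_lit 114) (nat_lit 5) (nat_lit 272) (nat_lit 259) (nat_lit 249))))))) (XT.nd (nat_lit 780) (nat_lit 1748) (nat_lit 0) (XT.nd (nat_lit 390) (nat_lit 1216) (nat_lit 0) (XT.nd (nat_lit 156) (nat_lit 1368) (nat_lit 0) (XT.nd (nat_lit 78) (nat_lit 608) (nat_lit 0) (XT.lf (nat_lit 0) (nat_lit 6294536767) (nat_lit 532) (nat_lit 591478816) (nat_lit 76) (nat_lit 198490483) (nat_lit 107) (nat_lit 5) (nat_lit 114) (nat_lit 5) (nat_lit 108) (nat_lit 5) (nat_lit 273) (nat_lit 259)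 (nat_lit 248)) (XT.lf (nat_lit 0) (nat_lit 1675960102) (nat_lit 608) (nat_lit 3594966561) (nat_lit 76) (nat_lit 1920209750) (nat_lit 99) (nat_lit 5) (nat_lit 107) (nat_lit 5) (nat_lit 100) (nat_lit 5) (nat_lit 274) (nat_lit 259) (nat_lit 247))) (XT.nd (nat_lit 78) (nat_lit 760) (nat_lit 0) (XT.lf (nat_lit 0) (nat_lit 606815489) (nat_lit 608) (nat_lit 3529264511) (nat_lit 684) (nat_lit 3171847084) (nat_lit 91) (nat_lit 5) (nat_lit 99) (nat_lit 5) (nat_lit 100) (nat_lit 5) (nat_lit 275) (nat_lit 259) (nat_lit 246)) (XT.nd (nat_lit 78) (nat_lit 760) (nat_lit 0) (XT.lf (nat_lit 0) (nat_lit 5034649919) (nat_lit 608) (nat_lit 1627345647) (nat_lit 684) (nat_lit 771754077) (nat_lit 91) (nat_lit 5) (nat_lit 99) (nat_lit 5) (nat_lit 100) (nat_lit 5) (nat_lit 276) (nat_lit 259) (nat_lit 245)) (XT.lf (nat_lit 0) (nat_lit 1616600457) (nat_lit 760) (nat_lit 5527253465) (nat_lit 76) (nat_lit 424734830)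 (nat_lit 81) (nat_lit 5) (nat_lit 91) (nat_lit 5) (nat_lit 82) (nat_lit 5) (nat_lit 277) (nat_lit 259) (nat_lit 244))))) (XT.nd (nat_lit 156) (nat_lit 760) (nat_lit 0) (XT.nd (nat_lit 78) (nat_lit 456) (nat_lit 0) (XT.lf (nat_lit 0) (nat_lit 4055669260) (nat_lit 760) (nat_lit 1072968488) (nat_lit 76) (nat_lit 2583324512) (nat_lit 81) (nat_lit 5) (nat_lit 91) (nat_lit 5) (nat_lit 82) (nat_lit 5) (nat_lit 278) (nat_lit 259) (nat_lit 243)) (XT.lf (nat_lit 0) (nat_lit 3613083422) (nat_lit 456) (nat_lit 2954550591) (nat_lit 532) (nat_lit 1297596308) (nat_lit 75) (nat_lit 5) (nat_lit 81) (nat_lit 5) (nat_lit 82) (nat_lit 5) (nat_lit 279) (nat_lit 259) (nat_lit 242))) (XT.nd (nat_lit 78) (nat_lit 304) (nat_lit 0) (XT.lf (nat_lit 0) (nat_lit 432000551) (nat_lit 380) (nat_lit 630503999) (nat_lit 456) (nat_lit 6966924167) (nat_lit 69) (nat_lit 5) (nat_lit 74) (nat_lit 5) (nat_lit 75) (nat_lit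 5) (nat_lit 280) (nat_lit 259) (nat_lit 241)) (XT.nd (nat_lit 78) (nat_lit 304) (nat_lit 0) (XT.lf (nat_lit 0) (nat_lit 3497632822) (nat_lit 456) (nat_lit 2862945984) (nat_lit 76) (nat_lit 1840398948) (nat_lit 69) (nat_lit 5) (nat_lit 75) (nat_lit 5) (nat_lit 70) (nat_lit 5) (nat_lit 281) (nat_lit 259) (nat_lit 240)) (XT.lf (nat_lit 0) (nat_lit 2057115100) (nat_lit 304) (nat_lit 3943838947) (nat_lit 380) (nat_lit 2383052973) (nat_lit 65) (nat_lit 5) (nat_lit 69) (nat_lit 5) (nat_lit 70) (nat_lit 5) (nat_lit 282) (nat_lit 259) (nat_lit 239)))))) (XT.nd (nat_lit 390) (nat_lit 760) (nat_lit 0) (XT.nd (nat_lit 156) (nat_lit 608) (nat_lit 0) (XT.nd (nat_lit 78) (nat_lit 304) (nat_lit 0) (XT.lf (nat_lit 0) (nat_lit 6013414) (nat_lit 380) (nat_lit 1361083715) (nat_lit 76) (nat_lit 7211529554) (nat_lit 64) (nat_lit 5) (nat_lit 69) (nat_lit 5) (nat_lit 65) (nat_lit 5) (nat_lit 283) (nat_lit 259)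 (nat_lit 238)) (XT.lf (nat_lit 0) (nat_lit 2426317251) (nat_lit 380) (nat_lit 4971526637) (nat_lit 76) (nat_lit 1383780620) (nat_lit 60) (nat_lit 5) (nat_lit 65) (nat_lit 5) (nat_lit 61) (nat_lit 5) (nat_lit 284) (nat_lit 259) (nat_lit 237))) (XT.nd (nat_lit 78) (nat_lit 380) (nat_lit 0) (XT.lf (nat_lit 0) (nat_lit 170338141) (nat_lit 228) (nat_lit 4757996283) (nat_lit 304) (nat_lit 4068587676) (nat_lit 57) (nat_lit 5) (nat_lit 60) (nat_lit 5) (nat_lit 61) (nat_lit 5) (nat_lit 285) (nat_lit 259) (nat_lit 236)) (XT.nd (nat_lit 78) (nat_lit 380) (nat_lit 0) (XT.lf (nat_lit 0) (nat_lit 5637805711) (nat_lit 228) (nat_lit 1916596586) (nat_lit 304) (nat_lit 1668810762) (nat_lit 57) (nat_lit 5) (nat_lit 60) (nat_lit 5) (nat_lit 61) (nat_lit 5) (nat_lit 286) (nat_lit 259) (nat_lit 235)) (XT.lf (nat_lit 0) (nat_lit 787161929) (nat_lit 380) (nat_lit 7617929137) (nat_lit 76) (nat_lit 1057050692)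 (nat_lit 52) (nat_lit 5) (nat_lit 57) (nat_lit 5) (nat_lit 53) (nat_lit 5) (nat_lit 287) (nat_lit 259) (nat_lit 234))))) (XT.nd (nat_lit 234) (nat_lit 532) (nat_lit 0) (XT.nd (nat_lit 78) (nat_lit 228) (nat_lit 0) (XT.lf (nat_lit 0) (nat_lit 3322363177) (nat_lit 380) (nat_lit 2204198411) (nat_lit 76) (nat_lit 4184613799) (nat_lit 52) (nat_lit 5) (nat_lit 57) (nat_lit 5) (nat_lit 53) (nat_lit 5) (nat_lit 288) (nat_lit 259) (nat_lit 233)) (XT.nd (nat_lit 78) (nat_lit 0) (nat_lit 0) (XT.lf (nat_lit 0) (nat_lit 3492736026) (nat_lit 228) (nat_lit 2469336298) (nat_lit 304) (nat_lit 4011845764) (nat_lit 49) (nat_lit 5) (nat_lit 52) (nat_lit 5) (nat_lit 53) (nat_lit 5) (nat_lit 289) (nat_lit 259) (nat_lit 232)) (XT.lf (nat_lit 0) (nat_lit 8708261727) (nat_lit 304) (nat_lit 810248755) (nat_lit 76) (nat_lit 732700586) (nat_lit 49) (nat_lit 5) (nat_lit 53) (nat_lit 5) (nat_lit 50) (nat_lit 5) (nat_lit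 290) (nat_lit 259) (nat_lit 231)))) (XT.nd (nat_lit 78) (nat_lit 228) (nat_lit 0) (XT.lf (nat_lit 0) (nat_lit 1066299862) (nat_lit 304) (nat_lit 5384254950) (nat_lit 76) (nat_lit 4088595002) (nat_lit 45) (nat_lit 5) (nat_lit 49) (nat_lit 5) (nat_lit 46) (nat_lit 5) (nat_lit 291) (nat_lit 259) (nat_lit 230)) (XT.nd (nat_lit 78) (nat_lit 0) (nat_lit 0) (XT.lf (nat_lit 0) (nat_lit 498802832) (nat_lit 228) (nat_lit 3206311498) (nat_lit 304) (nat_lit 7137677766) (nat_lit 42) (nat_lit 5) (nat_lit 45) (nat_lit 5) (nat_lit 46) (nat_lit 5) (nat_lit 292) (nat_lit 259) (nat_lit 229)) (XT.lf (nat_lit 0) (nat_lit 6502353404) (nat_lit 304) (nat_lit 4397574566) (nat_lit 76) (nat_lit 260477766) (nat_lit 42) (nat_lit 5) (nat_lit 46) (nat_lit 5) (nat_lit 43) (nat_lit 5) (nat_lit 293) (nat_lit 259) (nat_lit 228))))))))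
noncomputable def xc104 : XT := (XT.nd (nat_lit 1560) (nat_lit 760) (nat_lit 0) (XT.nd (nat_lit 780) (nat_lit 760) (nat_lit 0) (XT.nd (nat_lit 390) (nat_lit 380) (nat_lit 0) (XT.nd (nat_lit 156) (nat_lit 380) (nat_lit 0) (XT.nd (nat_lit 78) (nat_lit 76) (nat_lit 0) (XT.lf (nat_lit 0) (nat_lit 1755656689) (nat_lit 228) (nat_lit 7697751209) (nat_lit 304) (nat_lit 2039902525) (nat_lit 39) (nat_lit 5) (nat_lit 42) (nat_lit 5) (nat_lit 43) (nat_lit 5) (nat_lit 294) (nat_lit 259) (nat_lit 227)) (XT.lf (nat_lit 0) (nat_lit 696677363) (nat_lit 304) (nat_lit 3577084332) (nat_lit 76) (nat_lit 7568132047) (nat_lit 38) (nat_lit 5) (nat_lit 42) (nat_lit 5) (nat_lit 39) (nat_lit 5) (nat_lit 295) (nat_lit 259) (nat_lit 226))) (XT.nd (nat_lit 78) (nat_lit 228) (nat_lit 0) (XT.lf (nat_lit 0) (nat_lit 2859225281) (nat_lit 152) (nat_lit 624589303) (nat_lit 228) (nat_lit 8723398798) (nat_lit 36) (nat_lit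 5) (nat_lit 38) (nat_lit 5) (nat_lit 39) (nat_lit 5) (nat_lit 296) (nat_lit 259) (nat_lit 225)) (XT.nd (nat_lit 78) (nat_lit 228) (nat_lit 0) (XT.lf (nat_lit 0) (nat_lit 6460736541) (nat_lit 228) (nat_lit 2988886833) (nat_lit 76) (nat_lit 3138743120) (nat_lit 36) (nat_lit 5) (nat_lit 39) (nat_lit 5) (nat_lit 37) (nat_lit 5) (nat_lit 297) (nat_lit 259) (nat_lit 224)) (XT.lf (nat_lit 0) (nat_lit 3709425137) (nat_lit 228) (nat_lit 5886932387) (nat_lit 304) (nat_lit 3391811740) (nat_lit 33) (nat_lit 5) (nat_lit 36) (nat_lit 5) (nat_lit 37) (nat_lit 5) (nat_lit 298) (nat_lit 259) (nat_lit 223))))) (XT.nd (nat_lit 156) (nat_lit 152) (nat_lit 0) (XT.nd (nat_lit 78) (nat_lit 228) (nat_lit 0) (XT.lf (nat_lit 0) (nat_lit 10760597081) (nat_lit 228) (nat_lit 2121916247) (nat_lit 304) (nat_lit 525841775) (nat_lit 33) (nat_lit 5) (nat_lit 36) (nat_lit 5) (nat_lit 37) (nat_lit 5) (nat_lit 299) (nat_lit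 259) (nat_lit 222)) (XT.lf (nat_lit 0) (nat_lit 2446333138) (nat_lit 228) (nat_lit 9545960089) (nat_lit 76) (nat_lit 1853271887) (nat_lit 30) (nat_lit 5) (nat_lit 33) (nat_lit 5) (nat_lit 31) (nat_lit 5) (nat_lit 300) (nat_lit 259) (nat_lit 221))) (XT.nd (nat_lit 78) (nat_lit 152) (nat_lit 0) (XT.lf (nat_lit 0) (nat_lit 5575582971) (nat_lit 228) (nat_lit 2744870600) (nat_lit 76) (nat_lit 5982513785) (nat_lit 30) (nat_lit 5) (nat_lit 33) (nat_lit 5) (nat_lit 31) (nat_lit 5) (nat_lit 301) (nat_lit 259) (nat_lit 220)) (XT.nd (nat_lit 78) (nat_lit 0) (nat_lit 0) (XT.lf (nat_lit 0) (nat_lit 4458402009) (nat_lit 152) (nat_lit 4420859750) (nat_lit 228) (nat_lit 5903145952) (nat_lit 28) (nat_lit 5) (nat_lit 30) (nat_lit 5) (nat_lit 31) (nat_lit 5) (nat_lit 302) (nat_lit 259) (nat_lit 219)) (XT.lf (nat_lit 0) (nat_lit 12037865382) (nat_lit 152) (nat_lit 306324654) (nat_lit 228) (nat_lit 2941889938)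 (nat_lit 28) (nat_lit 5) (nat_lit 30) (nat_lit 5) (nat_lit 31) (nat_lit 5) (nat_lit 303) (nat_lit 259) (nat_lit 218)))))) (XT.nd (nat_lit 390) (nat_lit 304) (nat_lit 0) (XT.nd (nat_lit 156) (nat_lit 228) (nat_lit 0) (XT.nd (nat_lit 78) (nat_lit 0) (nat_lit 0) (XT.lf (nat_lit 0) (nat_lit 242714356) (nat_lit 228) (nat_lit 11640150128) (nat_lit 76) (nat_lit 3927965748) (nat_lit 25) (nat_lit 5) (nat_lit 28) (nat_lit 5) (nat_lit 26) (nat_lit 5) (nat_lit 304) (nat_lit 259) (nat_lit 217)) (XT.lf (nat_lit 0) (nat_lit 3500452304) (nat_lit 228) (nat_lit 4417851198) (nat_lit 76) (nat_lit 8440519168) (nat_lit 25) (nat_lit 5) (nat_lit 28) (nat_lit 5) (nat_lit 26) (nat_lit 5) (nat_lit 305) (nat_lit 259) (nat_lit 216))) (XT.nd (nat_lit 78) (nat_lit 76) (nat_lit 0) (XT.lf (nat_lit 0) (nat_lit 3193564602) (nat_lit 152) (nat_lit 3731503158) (nat_lit 228) (nat_lit 10008999407) (nat_lit 23) (nat_lit 5)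 (nat_lit 25) (nat_lit 5) (nat_lit 26) (nat_lit 5) (nat_lit 306) (nat_lit 259) (nat_lit 215)) (XT.nd (nat_lit 78) (nat_lit 76) (nat_lit 0) (XT.lf (nat_lit 0) (nat_lit 10562070131) (nat_lit 228) (nat_lit 6281873109) (nat_lit 76) (nat_lit 692122337) (nat_lit 23) (nat_lit 5) (nat_lit 26) (nat_lit 5) (nat_lit 24) (nat_lit 4) (nat_lit 307) (nat_lit 259) (nat_lit 214)) (XT.lf (nat_lit 0) (nat_lit 1464074428) (nat_lit 76) (nat_lit 12957768498) (nat_lit 152) (nat_lit 3744322101) (nat_lit 22) (nat_lit 5) (nat_lit 23) (nat_lit 5) (nat_lit 24) (nat_lit 4) (nat_lit 308) (nat_lit 259) (nat_lit 213))))) (XT.nd (nat_lit 156) (nat_lit 228) (nat_lit 0) (XT.nd (nat_lit 78) (nat_lit 76) (nat_lit 0) (XT.lf (nat_lit 0) (nat_lit 9745261071) (nat_lit 76) (nat_lit 8793577287) (nat_lit 152) (nat_lit 285764284) (nat_lit 22) (nat_lit 5) (nat_lit 23) (nat_lit 5) (nat_lit 24) (nat_lit 4) (nat_lit 309) (nat_lit 259)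 (nat_lit 212)) (XT.lf (nat_lit 0) (nat_lit 3197792639) (nat_lit 152) (nat_lit 1195892623) (nat_lit 76) (nat_lit 15121748029) (nat_lit 21) (nat_lit 5) (nat_lit 23) (nat_lit 5) (nat_lit 22) (nat_lit 5) (nat_lit 310) (nat_lit 259) (nat_lit 211))) (XT.nd (nat_lit 78) (nat_lit 76) (nat_lit 0) (XT.lf (nat_lit 0) (nat_lit 6925178003) (nat_lit 228) (nat_lit 12998014098) (nat_lit 76) (nat_lit 313455212) (nat_lit 19) (nat_lit 5) (nat_lit 22) (nat_lit 5) (nat_lit 20) (nat_lit 4) (nat_lit 311) (nat_lit 259) (nat_lit 210)) (XT.nd (nat_lit 78) (nat_lit 76) (nat_lit 0) (XT.lf (nat_lit 0) (nat_lit 10893096342) (nat_lit 228) (nat_lit 4994306535) (nat_lit 76) (nat_lit 5103847904) (nat_lit 19) (nat_lit 5) (nat_lit 22) (nat_lit 5) (nat_lit 20) (nat_lit 4) (nat_lit 312) (nat_lit 259) (nat_lit 209)) (XT.lf (nat_lit 0) (nat_lit 3457936693) (nat_lit 76) (nat_lit 11618843934) (nat_lit 152) (nat_lit 6705970470)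 (nat_lit 18) (nat_lit 5) (nat_lit 19) (nat_lit 5) (nat_lit 20) (nat_lit 4) (nat_lit 313) (nat_lit 259) (nat_lit 208))))))) (XT.nd (nat_lit 780) (nat_lit 304) (nat_lit 0) (XT.nd (nat_lit 390) (nat_lit 152) (nat_lit 0) (XT.nd (nat_lit 156) (nat_lit 228) (nat_lit 0) (XT.nd (nat_lit 78) (nat_lit 76) (nat_lit 0) (XT.lf (nat_lit 0) (nat_lit 12444863094) (nat_lit 76) (nat_lit 7073535315) (nat_lit 152) (nat_lit 3093024053) (nat_lit 18) (nat_lit 5) (nat_lit 19) (nat_lit 5) (nat_lit 20) (nat_lit 4) (nat_lit 314) (nat_lit 259) (nat_lit 207)) (XT.lf (nat_lit 0) (nat_lit 643431320) (nat_lit 152) (nat_lit 1670907714) (nat_lit 76) (nat_lit 21168407641) (nat_lit 17) (nat_lit 5) (nat_lit 19) (nat_lit 5) (nat_lit 18) (nat_lit 5) (nat_lit 315) (nat_lit 259) (nat_lit 206))) (XT.nd (nat_lit 78) (nat_lit 76) (nat_lit 0) (XT.lf (nat_lit 0) (nat_lit 4589132063) (nat_lit 228) (nat_lit 17057031026) (nat_lit 76)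 (nat_lit 2742649257) (nat_lit 15) (nat_lit 5) (nat_lit 18) (nat_lit 5) (nat_lit 16) (nat_lit 4) (nat_lit 316) (nat_lit 259) (nat_lit 205)) (XT.nd (nat_lit 78) (nat_lit 76) (nat_lit 0) (XT.lf (nat_lit 0) (nat_lit 8766093162) (nat_lit 228) (nat_lit 8591660562) (nat_lit 76) (nat_lit 7980756371) (nat_lit 15) (nat_lit 5) (nat_lit 18) (nat_lit 5) (nat_lit 16) (nat_lit 4) (nat_lit 317) (nat_lit 259) (nat_lit 204)) (XT.lf (nat_lit 0) (nat_lit 250613711) (nat_lit 76) (nat_lit 12874033586) (nat_lit 152) (nat_lit 13212434432) (nat_lit 14) (nat_lit 5) (nat_lit 15) (nat_lit 5) (nat_lit 16) (nat_lit 4) (nat_lit 318) (nat_lit 259) (nat_lit 203))))) (XT.nd (nat_lit 156) (nat_lit 152) (nat_lit 0) (XT.nd (nat_lit 78) (nat_lit 0) (nat_lit 0) (XT.lf (nat_lit 0) (nat_lit 9779776029) (nat_lit 76) (nat_lit 8036337999) (nat_lit 152) (nat_lit 9563743671) (nat_lit 14) (nat_lit 5) (nat_lit 15) (nat_lit 5) (nat_lit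 16) (nat_lit 4) (nat_lit 319) (nat_lit 259) (nat_lit 202)) (XT.lf (nat_lit 0) (nat_lit 19734435773) (nat_lit 76) (nat_lit 2978652569) (nat_lit 152) (nat_lit 5763161219) (nat_lit 14) (nat_lit 5) (nat_lit 15) (nat_lit 5) (nat_lit 16) (nat_lit 4) (nat_lit 320) (nat_lit 259) (nat_lit 201))) (XT.nd (nat_lit 78) (nat_lit 76) (nat_lit 0) (XT.lf (nat_lit 0) (nat_lit 488995449) (nat_lit 76) (nat_lit 27381951041) (nat_lit 76) (nat_lit 1755735443) (nat_lit 13) (nat_lit 4) (nat_lit 14) (nat_lit 5) (nat_lit 14) (nat_lit 4) (nat_lit 321) (nat_lit 259) (nat_lit 200)) (XT.nd (nat_lit 78) (nat_lit 0) (nat_lit 0) (XT.lf (nat_lit 0) (nat_lit 2544978187) (nat_lit 152) (nat_lit 20481691535) (nat_lit 76) (nat_lit 7797502698) (nat_lit 12) (nat_lit 5) (nat_lit 14) (nat_lit 5) (nat_lit 13) (nat_lit 4) (nat_lit 322) (nat_lit 259) (nat_lit 199)) (XT.lf (nat_lit 0) (nat_lit 6975145789) (nat_lit 152) (nat_lit 11469068162)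 (nat_lit 76) (nat_lit 13637232813) (nat_lit 12) (nat_lit 5) (nat_lit 14) (nat_lit 5) (nat_lit 13) (nat_lit 4) (nat_lit 323) (nat_lit 259) (nat_lit 198)))))) (XT.nd (nat_lit 390) (nat_lit 152) (nat_lit 0) (XT.nd (nat_lit 156) (nat_lit 76) (nat_lit 0) (XT.nd (nat_lit 78) (nat_lit 76) (nat_lit 0) (XT.lf (nat_lit 0) (nat_lit 11601509880) (nat_lit 152) (nat_lit 2050945788) (nat_lit 76) (nat_lit 19750413405) (nat_lit 12) (nat_lit 5) (nat_lit 14) (nat_lit 5) (nat_lit 13) (nat_lit 4) (nat_lit 324) (nat_lit 259) (nat_lit 197)) (XT.lf (nat_lit 0) (nat_lit 8052840886) (nat_lit 76) (nat_lit 8507972138) (nat_lit 152) (nat_lit 18224486196) (nat_lit 11) (nat_lit 5) (nat_lit 12) (nat_lit 5) (nat_lit 13) (nat_lit 4) (nat_lit 325) (nat_lit 259) (nat_lit 196))) (XT.nd (nat_lit 78) (nat_lit 76) (nat_lit 0) (XT.lf (nat_lit 0) (nat_lit 18690731359) (nat_lit 76) (nat_lit 3088464834) (nat_lit 152) (nat_lit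 14457115859) (nat_lit 11) (nat_lit 5) (nat_lit 12) (nat_lit 5) (nat_lit 13) (nat_lit 4) (nat_lit 326) (nat_lit 259) (nat_lit 195)) (XT.nd (nat_lit 78) (nat_lit 76) (nat_lit 0) (XT.lf (nat_lit 0) (nat_lit 27276351502) (nat_lit 152) (nat_lit 7981123104) (nat_lit 0) (nat_lit 2501524381) (nat_lit 11) (nat_lit 5) (nat_lit 13) (nat_lit 4) (nat_lit 11) (nat_lit 4) (nat_lit 327) (nat_lit 259) (nat_lit 194)) (XT.lf (nat_lit 0) (nat_lit 2036941503) (nat_lit 76) (nat_lit 31072168573) (nat_lit 76) (nat_lit 6245688265) (nat_lit 10) (nat_lit 4) (nat_lit 11) (nat_lit 5) (nat_lit 11) (nat_lit 4) (nat_lit 328) (nat_lit 259) (nat_lit 193))))) (XT.nd (nat_lit 156) (nat_lit 76) (nat_lit 0) (XT.nd (nat_lit 78) (nat_lit 76) (nat_lit 0) (XT.lf (nat_lit 0) (nat_lit 12794447714) (nat_lit 76) (nat_lit 26552966502) (nat_lit 76) (nat_lit 1677292682) (nat_lit 10) (nat_lit 4) (nat_lit 11) (nat_lit 5) (nat_lit 11)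 (nat_lit 4) (nat_lit 329) (nat_lit 259) (nat_lit 192)) (XT.lf (nat_lit 0) (nat_lit 2999088794) (nat_lit 152) (nat_lit 18774392754) (nat_lit 76) (nat_lit 21003236849) (nat_lit 9) (nat_lit 5) (nat_lit 11) (nat_lit 5) (nat_lit 10) (nat_lit 4) (nat_lit 330) (nat_lit 259) (nat_lit 191))) (XT.nd (nat_lit 78) (nat_lit 76) (nat_lit 0) (XT.lf (nat_lit 0) (nat_lit 7833312095) (nat_lit 152) (nat_lit 8908854953) (nat_lit 76) (nat_lit 27873781680) (nat_lit 9) (nat_lit 5) (nat_lit 11) (nat_lit 5) (nat_lit 10) (nat_lit 4) (nat_lit 331) (nat_lit 259) (nat_lit 190)) (XT.nd (nat_lit 78) (nat_lit 0) (nat_lit 0) (XT.lf (nat_lit 0) (nat_lit 1462851209) (nat_lit 76) (nat_lit 11450559115) (nat_lit 152) (nat_lit 33633534089) (nat_lit 8) (nat_lit 5) (nat_lit 9) (nat_lit 5) (nat_lit 10) (nat_lit 4) (nat_lit 332) (nat_lit 259) (nat_lit 189)) (XT.lf (nat_lit 0) (nat_lit 12629056343) (nat_lit 76) (nat_lit 5751025570)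 (nat_lit 152) (nat_lit 30187790996) (nat_lit 8) (nat_lit 5) (nat_lit 9) (nat_lit 5) (nat_lit 10) (nat_lit 4) (nat_lit 333) (nat_lit 259) (nat_lit 188))))))))
noncomputable def xc105 : XT := (XT.nd (nat_lit 1560) (nat_lit 152) (nat_lit 0) (XT.nd (nat_lit 780) (nat_lit 76) (nat_lit 0) (XT.nd (nat_lit 390) (nat_lit 152) (nat_lit 0) (XT.nd (nat_lit 156) (nat_lit 76) (nat_lit 0) (XT.nd (nat_lit 78) (nat_lit 0) (nat_lit 0) (XT.lf (nat_lit 0) (nat_lit 24106072745) (nat_lit 152) (nat_lit 26372372044) (nat_lit 0) (nat_lit 212114665) (nat_lit 8) (nat_lit 5) (nat_lit 10) (nat_lit 4) (nat_lit 8) (nat_lit 4) (nat_lit 334) (nat_lit 259) (nat_lit 187)) (XT.lf (nat_lit 0) (nat_lit 30195823475) (nat_lit 152) (nat_lit 16452789735) (nat_lit 0) (nat_lit 6266904484) (nat_lit 8) (nat_lit 5) (nat_lit 10) (nat_lit 4) (nat_lit 8) (nat_lit 4) (nat_lit 335) (nat_lit 259) (nat_lit 186))) (XT.nd (nat_lit 78) (nat_lit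 76) (nat_lit 0) (XT.lf (nat_lit 0) (nat_lit 36574043884) (nat_lit 152) (nat_lit 6066661960) (nat_lit 0) (nat_lit 12611828789) (nat_lit 8) (nat_lit 5) (nat_lit 10) (nat_lit 4) (nat_lit 8) (nat_lit 4) (nat_lit 336) (nat_lit 259) (nat_lit 185)) (XT.nd (nat_lit 78) (nat_lit 0) (nat_lit 0) (XT.lf (nat_lit 0) (nat_lit 4969804952) (nat_lit 76) (nat_lit 38363707843) (nat_lit 76) (nat_lit 14369782170) (nat_lit 7) (nat_lit 4) (nat_lit 8) (nat_lit 5) (nat_lit 8) (nat_lit 4) (nat_lit 337) (nat_lit 259) (nat_lit 184)) (XT.lf (nat_lit 0) (nat_lit 16741136098) (nat_lit 76) (nat_lit 33777601641) (nat_lit 76) (nat_lit 9753475419) (nat_lit 7) (nat_lit 4) (nat_lit 8) (nat_lit 5) (nat_lit 8) (nat_lit 4) (nat_lit 338) (nat_lit 259) (nat_lit 183))))) (XT.nd (nat_lit 156) (nat_lit 76) (nat_lit 0) (XT.nd (nat_lit 78) (nat_lit 76) (nat_lit 0) (XT.lf (nat_lit 0) (nat_lit 29074767214) (nat_lit 76) (nat_lit 28974209793)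 (nat_lit 76) (nat_lit 4921321144) (nat_lit 7) (nat_lit 4) (nat_lit 8) (nat_lit 5) (nat_lit 8) (nat_lit 4) (nat_lit 339) (nat_lit 259) (nat_lit 182)) (XT.lf (nat_lit 0) (nat_lit 133762975) (nat_lit 152) (nat_lit 23806067338) (nat_lit 76) (nat_lit 41864035772) (nat_lit 6) (nat_lit 5) (nat_lit 8) (nat_lit 5) (nat_lit 7) (nat_lit 4) (nat_lit 340) (nat_lit 259) (nat_lit 181))) (XT.nd (nat_lit 78) (nat_lit 76) (nat_lit 0) (XT.lf (nat_lit 0) (nat_lit 5263070916) (nat_lit 152) (nat_lit 13317074429) (nat_lit 76) (nat_lit 50195597668) (nat_lit 6) (nat_lit 5) (nat_lit 8) (nat_lit 5) (nat_lit 7) (nat_lit 4) (nat_lit 341) (nat_lit 259) (nat_lit 180)) (XT.nd (nat_lit 78) (nat_lit 76) (nat_lit 0) (XT.lf (nat_lit 0) (nat_lit 10636328326) (nat_lit 152) (nat_lit 2326742804) (nat_lit 76) (nat_lit 58933775483) (nat_lit 6) (nat_lit 5) (nat_lit 8) (nat_lit 5) (nat_lit 7) (nat_lit 4) (nat_lit 342) (nat_lit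 259) (nat_lit 179)) (XT.lf (nat_lit 0) (nat_lit 9494994101) (nat_lit 76) (nat_lit 6919578042) (nat_lit 152) (nat_lit 58752623769) (nat_lit 5) (nat_lit 5) (nat_lit 6) (nat_lit 5) (nat_lit 7) (nat_lit 4) (nat_lit 343) (nat_lit 259) (nat_lit 178)))))) (XT.nd (nat_lit 390) (nat_lit 76) (nat_lit 0) (XT.nd (nat_lit 156) (nat_lit 0) (nat_lit 0) (XT.nd (nat_lit 78) (nat_lit 0) (nat_lit 0) (XT.lf (nat_lit 0) (nat_lit 21966941706) (nat_lit 76) (nat_lit 542500544) (nat_lit 152) (nat_lit 56090241099) (nat_lit 5) (nat_lit 5) (nat_lit 6) (nat_lit 5) (nat_lit 7) (nat_lit 4) (nat_lit 344) (nat_lit 259) (nat_lit 177)) (XT.lf (nat_lit 0) (nat_lit 28993846261) (nat_lit 152) (nat_lit 47258419546) (nat_lit 0) (nat_lit 5947295904) (nat_lit 5) (nat_lit 5) (nat_lit 7) (nat_lit 4) (nat_lit 5) (nat_lit 4) (nat_lit 345) (nat_lit 259) (nat_lit 176))) (XT.nd (nat_lit 78) (nat_lit 0) (nat_lit 0) (XT.lf (nat_lit 0)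 (nat_lit 35800619254) (nat_lit 152) (nat_lit 37444311727) (nat_lit 0) (nat_lit 12734601353) (nat_lit 5) (nat_lit 5) (nat_lit 7) (nat_lit 4) (nat_lit 5) (nat_lit 4) (nat_lit 346) (nat_lit 259) (nat_lit 175)) (XT.nd (nat_lit 78) (nat_lit 0) (nat_lit 0) (XT.lf (nat_lit 0) (nat_lit 42937497878) (nat_lit 152) (nat_lit 27158581311) (nat_lit 0) (nat_lit 19852939460) (nat_lit 5) (nat_lit 5) (nat_lit 7) (nat_lit 4) (nat_lit 5) (nat_lit 4) (nat_lit 347) (nat_lit 259) (nat_lit 174)) (XT.lf (nat_lit 0) (nat_lit 50421474702) (nat_lit 152) (nat_lit 16376738463) (nat_lit 0) (nat_lit 27319258648) (nat_lit 5) (nat_lit 5) (nat_lit 7) (nat_lit 4) (nat_lit 5) (nat_lit 4) (nat_lit 348) (nat_lit 259) (nat_lit 173))))) (XT.nd (nat_lit 156) (nat_lit 0) (nat_lit 0) (XT.nd (nat_lit 78) (nat_lit 76) (nat_lit 0) (XT.lf (nat_lit 0) (nat_lit 58270368717) (nat_lit 152) (nat_lit 5073112128) (nat_lit 0) (nat_lit 35151335868)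 (nat_lit 5) (nat_lit 5) (nat_lit 7) (nat_lit 4) (nat_lit 5) (nat_lit 4) (nat_lit 349) (nat_lit 259) (nat_lit 172)) (XT.lf (nat_lit 0) (nat_lit 7003362423) (nat_lit 76) (nat_lit 59608847458) (nat_lit 76) (nat_lit 36473798613) (nat_lit 4) (nat_lit 4) (nat_lit 5) (nat_lit 5) (nat_lit 5) (nat_lit 4) (nat_lit 350) (nat_lit 259) (nat_lit 171))) (XT.nd (nat_lit 78) (nat_lit 0) (nat_lit 0) (XT.lf (nat_lit 0) (nat_lit 19843569144) (nat_lit 76) (nat_lit 55604817622) (nat_lit 76) (nat_lit 32454515447) (nat_lit 4) (nat_lit 4) (nat_lit 5) (nat_lit 5) (nat_lit 5) (nat_lit 4) (nat_lit 351) (nat_lit 259) (nat_lit 170)) (XT.nd (nat_lit 78) (nat_lit 0) (nat_lit 0) (XT.lf (nat_lit 0) (nat_lit 33310339957) (nat_lit 76) (nat_lit 51407773541) (nat_lit 76) (nat_lit 28242944385) (nat_lit 4) (nat_lit 4) (nat_lit 5) (nat_lit 5) (nat_lit 5) (nat_lit 4) (nat_lit 352) (nat_lit 259) (nat_lit 169)) (XT.lf (nat_lit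 0) (nat_lit 47435738602) (nat_lit 76) (nat_lit 47007722253) (nat_lit 76) (nat_lit 23829057878) (nat_lit 4) (nat_lit 4) (nat_lit 5) (nat_lit 5) (nat_lit 5) (nat_lit 4) (nat_lit 353) (nat_lit 259) (nat_lit 168))))))) (XT.nd (nat_lit 780) (nat_lit 0) (nat_lit 0) (XT.nd (nat_lit 390) (nat_lit 76) (nat_lit 0) (XT.nd (nat_lit 156) (nat_lit 76) (nat_lit 0) (XT.nd (nat_lit 78) (nat_lit 0) (nat_lit 0) (XT.lf (nat_lit 0) (nat_lit 62253396980) (nat_lit 76) (nat_lit 42394187446) (nat_lit 76) (nat_lit 19202346672) (nat_lit 4) (nat_lit 4) (nat_lit 5) (nat_lit 5) (nat_lit 5) (nat_lit 4) (nat_lit 354) (nat_lit 259) (nat_lit 167)) (XT.lf (nat_lit 0) (nat_lit 77798595231) (nat_lit 76) (nat_lit 37556184513) (nat_lit 76) (nat_lit 14351794787) (nat_lit 4) (nat_lit 4) (nat_lit 5) (nat_lit 5) (nat_lit 5) (nat_lit 4) (nat_lit 355) (nat_lit 259) (nat_lit 166))) (XT.nd (nat_lit 78) (nat_lit 76) (nat_lit 0) (XT.lf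 (nat_lit 0) (nat_lit 94108345732) (nat_lit 76) (nat_lit 32482194400) (nat_lit 76) (nat_lit 9265853290) (nat_lit 4) (nat_lit 4) (nat_lit 5) (nat_lit 5) (nat_lit 5) (nat_lit 4) (nat_lit 356) (nat_lit 259) (nat_lit 165)) (XT.nd (nat_lit 78) (nat_lit 76) (nat_lit 0) (XT.lf (nat_lit 0) (nat_lit 111221481221) (nat_lit 76) (nat_lit 27160136176) (nat_lit 76) (nat_lit 3932412798) (nat_lit 4) (nat_lit 4) (nat_lit 5) (nat_lit 5) (nat_lit 5) (nat_lit 4) (nat_lit 357) (nat_lit 259) (nat_lit 164)) (XT.lf (nat_lit 0) (nat_lit 1608055772) (nat_lit 152) (nat_lit 19942049302) (nat_lit 76) (nat_lit 127543458286) (nat_lit 3) (nat_lit 5) (nat_lit 5) (nat_lit 5) (nat_lit 4) (nat_lit 4) (nat_lit 358) (nat_lit 259) (nat_lit 163))))) (XT.nd (nat_lit 156) (nat_lit 0) (nat_lit 0) (XT.nd (nat_lit 78) (nat_lit 76) (nat_lit 0) (XT.lf (nat_lit 0) (nat_lit 7287424209) (nat_lit 152) (nat_lit 8309668060) (nat_lit 76)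 (nat_lit 140612058979) (nat_lit 3) (nat_lit 5) (nat_lit 5) (nat_lit 5) (nat_lit 4) (nat_lit 4) (nat_lit 359) (nat_lit 259) (nat_lit 162)) (XT.lf (nat_lit 0) (nat_lit 4022429753) (nat_lit 76) (nat_lit 9285448234) (nat_lit 152) (nat_lit 150369787481) (nat_lit 2) (nat_lit 5) (nat_lit 3) (nat_lit 5) (nat_lit 4) (nat_lit 4) (nat_lit 360) (nat_lit 259) (nat_lit 161))) (XT.nd (nat_lit 78) (nat_lit 0) (nat_lit 0) (XT.lf (nat_lit 0) (nat_lit 17249151706) (nat_lit 76) (nat_lit 2515353683) (nat_lit 152) (nat_lit 151748345112) (nat_lit 2) (nat_lit 5) (nat_lit 3) (nat_lit 5) (nat_lit 4) (nat_lit 4) (nat_lit 361) (nat_lit 259) (nat_lit 160)) (XT.nd (nat_lit 78) (nat_lit 0) (nat_lit 0) (XT.lf (nat_lit 0) (nat_lit 26610293063) (nat_lit 152) (nat_lit 148684468688) (nat_lit 0) (nat_lit 4441719113) (nat_lit 2) (nat_lit 5) (nat_lit 4) (nat_lit 4) (nat_lit 2) (nat_lit 4) (nat_lit 362) (nat_lit 259) (nat_lit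 159)) (XT.lf (nat_lit 0) (nat_lit 33834477300) (nat_lit 152) (nat_lit 142877198308) (nat_lit 0) (nat_lit 11657814183) (nat_lit 2) (nat_lit 5) (nat_lit 4) (nat_lit 4) (nat_lit 2) (nat_lit 4) (nat_lit 363) (nat_lit 259) (nat_lit 158)))))) (XT.nd (nat_lit 390) (nat_lit 0) (nat_lit 0) (XT.nd (nat_lit 156) (nat_lit 0) (nat_lit 0) (XT.nd (nat_lit 78) (nat_lit 0) (nat_lit 0) (XT.lf (nat_lit 0) (nat_lit 41414986817) (nat_lit 152) (nat_lit 136788789099) (nat_lit 0) (nat_lit 19230619732) (nat_lit 2) (nat_lit 5) (nat_lit 4) (nat_lit 4) (nat_lit 2) (nat_lit 4) (nat_lit 364) (nat_lit 259) (nat_lit 157)) (XT.lf (nat_lit 0) (nat_lit 49369870447) (nat_lit 152) (nat_lit 130404744850) (nat_lit 0) (nat_lit 27178166250) (nat_lit 2) (nat_lit 5) (nat_lit 4) (nat_lit 4) (nat_lit 2) (nat_lit 4) (nat_lit 365) (nat_lit 259) (nat_lit 156))) (XT.nd (nat_lit 78) (nat_lit 0) (nat_lit 0) (XT.lf (nat_lit 0) (nat_lit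 57718068389) (nat_lit 152) (nat_lit 123709865455) (nat_lit 0) (nat_lit 35519376466) (nat_lit 2) (nat_lit 5) (nat_lit 4) (nat_lit 4) (nat_lit 2) (nat_lit 4) (nat_lit 366) (nat_lit 259) (nat_lit 155)) (XT.nd (nat_lit 78) (nat_lit 0) (nat_lit 0) (XT.lf (nat_lit 0) (nat_lit 66479457304) (nat_lit 152) (nat_lit 116688210725) (nat_lit 0) (nat_lit 44274110404) (nat_lit 2) (nat_lit 5) (nat_lit 4) (nat_lit 4) (nat_lit 2) (nat_lit 4) (nat_lit 367) (nat_lit 259) (nat_lit 154)) (XT.lf (nat_lit 0) (nat_lit 75674897644) (nat_lit 152) (nat_lit 109323062436) (nat_lit 0) (nat_lit 53463212670) (nat_lit 2) (nat_lit 5) (nat_lit 4) (nat_lit 4) (nat_lit 2) (nat_lit 4) (nat_lit 368) (nat_lit 259) (nat_lit 153))))) (XT.nd (nat_lit 234) (nat_lit 0) (nat_lit 0) (XT.nd (nat_lit 78) (nat_lit 0) (nat_lit 0) (XT.lf (nat_lit 0) (nat_lit 85326283312) (nat_lit 152) (nat_lit 101596884518) (nat_lit 0) (nat_lit 63108562078)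 (nat_lit 2) (nat_lit 5) (nat_lit 4) (nat_lit 4) (nat_lit 2) (nat_lit 4) (nat_lit 369) (nat_lit 259) (nat_lit 152)) (XT.nd (nat_lit 78) (nat_lit 0) (nat_lit 0) (XT.lf (nat_lit 0) (nat_lit 95456593799) (nat_lit 152) (nat_lit 93491281311) (nat_lit 0) (nat_lit 73233123745) (nat_lit 2) (nat_lit 5) (nat_lit 4) (nat_lit 4) (nat_lit 2) (nat_lit 4) (nat_lit 370) (nat_lit 259) (nat_lit 151)) (XT.lf (nat_lit 0) (nat_lit 106089948892) (nat_lit 152) (nat_lit 84986953759) (nat_lit 0) (nat_lit 83861003772) (nat_lit 2) (nat_lit 5) (nat_lit 4) (nat_lit 4) (nat_lit 2) (nat_lit 4) (nat_lit 371) (nat_lit 259) (nat_lit 150)))) (XT.nd (nat_lit 78) (nat_lit 0) (nat_lit 0) (XT.lf (nat_lit 0) (nat_lit 117251666102) (nat_lit 152) (nat_lit 76063653464) (nat_lit 0) (nat_lit 95017506633) (nat_lit 2) (nat_lit 5) (nat_lit 4) (nat_lit 4) (nat_lit 2) (nat_lit 4) (nat_lit 372) (nat_lit 259) (nat_lit 149)) (XT.nd (nat_lit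 78) (nat_lit 0) (nat_lit 0) (XT.lf (nat_lit 0) (nat_lit 128968320947) (nat_lit 152) (nat_lit 66700134472) (nat_lit 0) (nat_lit 106729195432) (nat_lit 2) (nat_lit 5) (nat_lit 4) (nat_lit 4) (nat_lit 2) (nat_lit 4) (nat_lit 373) (nat_lit 259) (nat_lit 148)) (XT.lf (nat_lit 0) (nat_lit 141267810225) (nat_lit 152) (nat_lit 56874102691) (nat_lit 0) (nat_lit 119023955142) (nat_lit 2) (nat_lit 5) (nat_lit 4) (nat_lit 4) (nat_lit 2) (nat_lit 4) (nat_lit 374) (nat_lit 259) (nat_lit 147))))))))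
noncomputable def xc106 : XT := (XT.nd (nat_lit 32136) (nat_lit 0) (nat_lit 4484) (XT.nd (nat_lit 780) (nat_lit 0) (nat_lit 0) (XT.nd (nat_lit 390) (nat_lit 0) (nat_lit 0) (XT.nd (nat_lit 156) (nat_lit 76) (nat_lit 0) (XT.nd (nat_lit 78) (nat_lit 0) (nat_lit 0) (XT.lf (nat_lit 0) (nat_lit 154179418433) (nat_lit 152) (nat_lit 46562162806) (nat_lit 0) (nat_lit 131931059000) (nat_lit 2) (nat_lit 5) (nat_lit 4) (nat_lit 4) (nat_lit 2) (nat_lit 4) (nat_lit 375) (nat_lit 259) (nat_lit 146)) (XT.lf (nat_lit 0) (nat_lit 167733887496) (nat_lit 152) (nat_lit 35739762580) (nat_lit 0) (nat_lit 145481238205) (nat_lit 2) (nat_lit 5) (nat_lit 4) (nat_lit 4) (nat_lit 2) (nat_lit 4) (nat_lit 376) (nat_lit 259) (nat_lit 145))) (XT.nd (nat_lit 78) (nat_lit 76) (nat_lit 0) (XT.lf (nat_lit 0) (nat_lit 181963489959) (nat_lit 152) (nat_lit 24381134394) (nat_lit 0) (nat_lit 159706755089) (nat_lit 2) (nat_lit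 5) (nat_lit 4) (nat_lit 4) (nat_lit 2) (nat_lit 4) (nat_lit 377) (nat_lit 259) (nat_lit 144)) (XT.nd (nat_lit 78) (nat_lit 76) (nat_lit 0) (XT.lf (nat_lit 0) (nat_lit 196902105828) (nat_lit 152) (nat_lit 12459233894) (nat_lit 0) (nat_lit 174641479931) (nat_lit 2) (nat_lit 5) (nat_lit 4) (nat_lit 4) (nat_lit 2) (nat_lit 4) (nat_lit 378) (nat_lit 259) (nat_lit 143)) (XT.lf (nat_lit 0) (nat_lit 56120606) (nat_lit 76) (nat_lit 212530058830) (nat_lit 76) (nat_lit 190265727192) (nat_lit 1) (nat_lit 4) (nat_lit 2) (nat_lit 5) (nat_lit 2) (nat_lit 4) (nat_lit 379) (nat_lit 259) (nat_lit 142))))) (XT.nd (nat_lit 156) (nat_lit 0) (nat_lit 0) (XT.nd (nat_lit 78) (nat_lit 0) (nat_lit 0) (XT.lf (nat_lit 0) (nat_lit 13625433633) (nat_lit 76) (nat_lit 215637720701) (nat_lit 76) (nat_lit 193369859787) (nat_lit 1) (nat_lit 4) (nat_lit 2) (nat_lit 5) (nat_lit 2) (nat_lit 4) (nat_lit 380) (nat_lit 259)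 (nat_lit 141)) (XT.lf (nat_lit 0) (nat_lit 27869054534) (nat_lit 76) (nat_lit 218902727684) (nat_lit 76) (nat_lit 196631505555) (nat_lit 1) (nat_lit 4) (nat_lit 2) (nat_lit 5) (nat_lit 2) (nat_lit 4) (nat_lit 381) (nat_lit 259) (nat_lit 140))) (XT.nd (nat_lit 78) (nat_lit 0) (nat_lit 0) (XT.lf (nat_lit 0) (nat_lit 42820896693) (nat_lit 76) (nat_lit 222332853607) (nat_lit 76) (nat_lit 200058430320) (nat_lit 1) (nat_lit 4) (nat_lit 2) (nat_lit 5) (nat_lit 2) (nat_lit 4) (nat_lit 382) (nat_lit 259) (nat_lit 139)) (XT.nd (nat_lit 78) (nat_lit 0) (nat_lit 0) (XT.lf (nat_lit 0) (nat_lit 58516559734) (nat_lit 76) (nat_lit 225936265436) (nat_lit 76) (nat_lit 203658793427) (nat_lit 1) (nat_lit 4) (nat_lit 2) (nat_lit 5) (nat_lit 2) (nat_lit 4) (nat_lit 383) (nat_lit 259) (nat_lit 138)) (XT.lf (nat_lit 0) (nat_lit 74993414282) (nat_lit 76) (nat_lit 229721542722) (nat_lit 76) (nat_lit 207441167168)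 (nat_lit 1) (nat_lit 4) (nat_lit 2) (nat_lit 5) (nat_lit 2) (nat_lit 4) (nat_lit 384) (nat_lit 259) (nat_lit 137)))))) (XT.nd (nat_lit 30966) (nat_lit 0) (nat_lit 9576) (XT.nd (nat_lit 156) (nat_lit 0) (nat_lit 0) (XT.nd (nat_lit 78) (nat_lit 0) (nat_lit 0) (XT.lf (nat_lit 0) (nat_lit 92290690945) (nat_lit 76) (nat_lit 233697698030) (nat_lit 76) (nat_lit 211414557196) (nat_lit 1) (nat_lit 4) (nat_lit 2) (nat_lit 5) (nat_lit 2) (nat_lit 4) (nat_lit 385) (nat_lit 259) (nat_lit 136)) (XT.lf (nat_lit 0) (nat_lit 110449573713) (nat_lit 76) (nat_lit 237874198398) (nat_lit 76) (nat_lit 215588423963) (nat_lit 1) (nat_lit 4) (nat_lit 2) (nat_lit 5) (nat_lit 2) (nat_lit 4) (nat_lit 386) (nat_lit 259) (nat_lit 135))) (XT.nd (nat_lit 78) (nat_lit 0) (nat_lit 0) (XT.lf (nat_lit 0) (nat_lit 129513298023) (nat_lit 76) (nat_lit 242260987873) (nat_lit 76) (nat_lit 219972705247) (nat_lit 1) (nat_lit 4)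 (nat_lit 2) (nat_lit 5) (nat_lit 2) (nat_lit 4) (nat_lit 387) (nat_lit 259) (nat_lit 134)) (XT.nd (nat_lit 30654) (nat_lit 0) (nat_lit 10032) (XT.lf (nat_lit 0) (nat_lit 149527253694) (nat_lit 76) (nat_lit 246868511192) (nat_lit 76) (nat_lit 224577839814) (nat_lit 1) (nat_lit 4) (nat_lit 2) (nat_lit 5) (nat_lit 2) (nat_lit 4) (nat_lit 388) (nat_lit 259) (nat_lit 133)) (XT.lf (nat_lit 0) (nat_lit 0) (nat_lit 0) (nat_lit 0) (nat_lit 0) (nat_lit 1073741823) (nat_lit 1) (nat_lit 0) (nat_lit 1) (nat_lit 0) (nat_lit 133) (nat_lit 0) (nat_lit 260) (nat_lit 260) (nat_lit 260))))) (XT.nd (nat_lit 156) (nat_lit 380) (nat_lit 0) (XT.nd (nat_lit 78) (nat_lit 0) (nat_lit 0) (XT.lf (nat_lit 0) (nat_lit 2917258465) (nat_lit 76) (nat_lit 3433063585) (nat_lit 0) (nat_lit 94851385) (nat_lit 132) (nat_lit 5) (nat_lit 133) (nat_lit 0) (nat_lit 132) (nat_lit 4) (nat_lit 261) (nat_lit 260) (nat_lit 259))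 (XT.lf (nat_lit 0) (nat_lit 5795193816) (nat_lit 76) (nat_lit 378116157) (nat_lit 0) (nat_lit 284779993) (nat_lit 132) (nat_lit 5) (nat_lit 133) (nat_lit 0) (nat_lit 132) (nat_lit 4) (nat_lit 262) (nat_lit 260) (nat_lit 258))) (XT.nd (nat_lit 78) (nat_lit 228) (nat_lit 0) (XT.lf (nat_lit 0) (nat_lit 2135060448) (nat_lit 152) (nat_lit 3693546326) (nat_lit 76) (nat_lit 648701347) (nat_lit 130) (nat_lit 5) (nat_lit 132) (nat_lit 5) (nat_lit 131) (nat_lit 4) (nat_lit 263) (nat_lit 260) (nat_lit 257)) (XT.nd (nat_lit 78) (nat_lit 228) (nat_lit 0) (XT.lf (nat_lit 0) (nat_lit 4884161876) (nat_lit 152) (nat_lit 495989752) (nat_lit 76) (nat_lit 1125805835) (nat_lit 130) (nat_lit 5) (nat_lit 132) (nat_lit 5) (nat_lit 131) (nat_lit 4) (nat_lit 264) (nat_lit 260) (nat_lit 256)) (XT.lf (nat_lit 0) (nat_lit 1072352420) (nat_lit 228) (nat_lit 3706968213) (nat_lit 76) (nat_lit 1762520994) (nat_lit 127)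 (nat_lit 5) (nat_lit 130) (nat_lit 5) (nat_lit 128) (nat_lit 5) (nat_lit 265) (nat_lit 260) (nat_lit 255))))))) (XT.nd (nat_lit 780) (nat_lit 2964) (nat_lit 0) (XT.nd (nat_lit 390) (nat_lit 1064) (nat_lit 0) (XT.nd (nat_lit 156) (nat_lit 836) (nat_lit 0) (XT.nd (nat_lit 78) (nat_lit 228) (nat_lit 0) (XT.lf (nat_lit 0) (nat_lit 3693606043) (nat_lit 228) (nat_lit 360382368) (nat_lit 76) (nat_lit 2532453126) (nat_lit 127) (nat_lit 5) (nat_lit 130) (nat_lit 5) (nat_lit 128) (nat_lit 5) (nat_lit 266) (nat_lit 260) (nat_lit 254)) (XT.lf (nat_lit 0) (nat_lit 3155423918) (nat_lit 228) (nat_lit 3185824059) (nat_lit 304) (nat_lit 297824740) (nat_lit 124) (nat_lit 5) (nat_lit 127) (nat_lit 5) (nat_lit 128) (nat_lit 5) (nat_lit 267) (nat_lit 260) (nat_lit 253))) (XT.nd (nat_lit 78) (nat_lit 456) (nat_lit 0) (XT.lf (nat_lit 0) (nat_lit 25306545) (nat_lit 304) (nat_lit 2179468437) (nat_lit 380) (nat_lit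 4495404923) (nat_lit 119) (nat_lit 5) (nat_lit 123) (nat_lit 5) (nat_lit 124) (nat_lit 5) (nat_lit 268) (nat_lit 260) (nat_lit 252)) (XT.nd (nat_lit 78) (nat_lit 456) (nat_lit 0) (XT.lf (nat_lit 0) (nat_lit 3724257812) (nat_lit 304) (nat_lit 1011685720) (nat_lit 380) (nat_lit 2032972695) (nat_lit 119) (nat_lit 5) (nat_lit 123) (nat_lit 5) (nat_lit 124) (nat_lit 5) (nat_lit 269) (nat_lit 260) (nat_lit 251)) (XT.lf (nat_lit 0) (nat_lit 408504261) (nat_lit 456) (nat_lit 6173403963) (nat_lit 76) (nat_lit 265514012) (nat_lit 113) (nat_lit 5) (nat_lit 119) (nat_lit 5) (nat_lit 114) (nat_lit 5) (nat_lit 270) (nat_lit 260) (nat_lit 250))))) (XT.nd (nat_lit 156) (nat_lit 608) (nat_lit 0) (XT.nd (nat_lit 78) (nat_lit 456) (nat_lit 0) (XT.lf (nat_lit 0) (nat_lit 2837189359) (nat_lit 456) (nat_lit 2401495235) (nat_lit 76) (nat_lit 1693253326) (nat_lit 113) (nat_lit 5) (nat_lit 119) (nat_lit 5) (nat_lit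 114) (nat_lit 5) (nat_lit 271) (nat_lit 260) (nat_lit 249)) (XT.lf (nat_lit 0) (nat_lit 1504500862) (nat_lit 456) (nat_lit 3777213935) (nat_lit 532) (nat_lit 1744647639) (nat_lit 107) (nat_lit 5) (nat_lit 113) (nat_lit 5) (nat_lit 114) (nat_lit 5) (nat_lit 272) (nat_lit 260) (nat_lit 248))) (XT.nd (nat_lit 78) (nat_lit 532) (nat_lit 0) (XT.lf (nat_lit 0) (nat_lit 614229761) (nat_lit 532) (nat_lit 1551825812) (nat_lit 76) (nat_lit 4963533555) (nat_lit 106) (nat_lit 5) (nat_lit 113) (nat_lit 5) (nat_lit 107) (nat_lit 5) (nat_lit 273) (nat_lit 260) (nat_lit 247)) (XT.nd (nat_lit 78) (nat_lit 0) (nat_lit 0) (XT.lf (nat_lit 0) (nat_lit 2569820026) (nat_lit 532) (nat_lit 381839021) (nat_lit 608) (nat_lit 4289274521) (nat_lit 99) (nat_lit 5) (nat_lit 106) (nat_lit 5) (nat_lit 107) (nat_lit 5) (nat_lit 274) (nat_lit 260) (nat_lit 246)) (XT.lf (nat_lit 0) (nat_lit 5339565992) (nat_lit 608) (nat_lit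 534187945) (nat_lit 76) (nat_lit 1487742822) (nat_lit 99) (nat_lit 5) (nat_lit 107) (nat_lit 5) (nat_lit 100) (nat_lit 5) (nat_lit 275) (nat_lit 260) (nat_lit 245)))))) (XT.nd (nat_lit 390) (nat_lit 1064) (nat_lit 0) (XT.nd (nat_lit 156) (nat_lit 532) (nat_lit 0) (XT.nd (nat_lit 78) (nat_lit 684) (nat_lit 0) (XT.lf (nat_lit 0) (nat_lit 301389779) (nat_lit 684) (nat_lit 3670091917) (nat_lit 76) (nat_lit 3518922683) (nat_lit 90) (nat_lit 5) (nat_lit 99) (nat_lit 5) (nat_lit 91) (nat_lit 5) (nat_lit 276) (nat_lit 260) (nat_lit 244)) (XT.lf (nat_lit 0) (nat_lit 671348889) (nat_lit 684) (nat_lit 1912093018) (nat_lit 760) (nat_lit 5045419023) (nat_lit 81) (nat_lit 5) (nat_lit 90) (nat_lit 5) (nat_lit 91) (nat_lit 5) (nat_lit 277) (nat_lit 260) (nat_lit 243))) (XT.nd (nat_lit 78) (nat_lit 532) (nat_lit 0) (XT.lf (nat_lit 0) (nat_lit 4941209849) (nat_lit 760) (nat_lit 2525368348) (nat_lit 76)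 (nat_lit 309854457) (nat_lit 81) (nat_lit 5) (nat_lit 91) (nat_lit 5) (nat_lit 82) (nat_lit 5) (nat_lit 278) (nat_lit 260) (nat_lit 242)) (XT.nd (nat_lit 78) (nat_lit 76) (nat_lit 0) (XT.lf (nat_lit 0) (nat_lit 2061504869) (nat_lit 456) (nat_lit 5318447406) (nat_lit 532) (nat_lit 553536389) (nat_lit 75) (nat_lit 5) (nat_lit 81) (nat_lit 5) (nat_lit 82) (nat_lit 5) (nat_lit 279) (nat_lit 260) (nat_lit 241)) (XT.lf (nat_lit 0) (nat_lit 1727685517) (nat_lit 532) (nat_lit 1263712430) (nat_lit 76) (nat_lit 5108576529) (nat_lit 74) (nat_lit 5) (nat_lit 81) (nat_lit 5) (nat_lit 75) (nat_lit 5) (nat_lit 280) (nat_lit 260) (nat_lit 240))))) (XT.nd (nat_lit 156) (nat_lit 380) (nat_lit 0) (XT.nd (nat_lit 78) (nat_lit 304) (nat_lit 0) (XT.lf (nat_lit 0) (nat_lit 3582083714) (nat_lit 380) (nat_lit 483870355) (nat_lit 456) (nat_lit 4210521992) (nat_lit 69) (nat_lit 5) (nat_lit 74) (nat_lit 5) (nat_lit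 75) (nat_lit 5) (nat_lit 281) (nat_lit 260) (nat_lit 239)) (XT.lf (nat_lit 0) (nat_lit 121732111) (nat_lit 304) (nat_lit 6365164693) (nat_lit 380) (nat_lit 1976831791) (nat_lit 65) (nat_lit 5) (nat_lit 69) (nat_lit 5) (nat_lit 70) (nat_lit 5) (nat_lit 282) (nat_lit 260) (nat_lit 238))) (XT.nd (nat_lit 78) (nat_lit 304) (nat_lit 0) (XT.lf (nat_lit 0) (nat_lit 355183763) (nat_lit 380) (nat_lit 3432829352) (nat_lit 76) (nat_lit 4872315135) (nat_lit 64) (nat_lit 5) (nat_lit 69) (nat_lit 5) (nat_lit 65) (nat_lit 5) (nat_lit 283) (nat_lit 260) (nat_lit 237)) (XT.nd (nat_lit 78) (nat_lit 0) (nat_lit 0) (XT.lf (nat_lit 0) (nat_lit 1643798411) (nat_lit 304) (nat_lit 1033230620) (nat_lit 380) (nat_lit 6191310111) (nat_lit 60) (nat_lit 5) (nat_lit 64) (nat_lit 5) (nat_lit 65) (nat_lit 5) (nat_lit 284) (nat_lit 260) (nat_lit 236)) (XT.lf (nat_lit 0) (nat_lit 5119464771) (nat_lit 380) (nat_lit 2121146980)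 (nat_lit 76) (nat_lit 1846089898) (nat_lit 60) (nat_lit 5) (nat_lit 65) (nat_lit 5) (nat_lit 61) (nat_lit 5) (nat_lit 285) (nat_lit 260) (nat_lit 235))))))))
noncomputable def xc107 : XT := (XT.nd (nat_lit 1560) (nat_lit 1064) (nat_lit 0) (XT.nd (nat_lit 780) (nat_lit 1064) (nat_lit 0) (XT.nd (nat_lit 390) (nat_lit 760) (nat_lit 0) (XT.nd (nat_lit 156) (nat_lit 532) (nat_lit 0) (XT.nd (nat_lit 78) (nat_lit 76) (nat_lit 0) (XT.lf (nat_lit 0) (nat_lit 3227827876) (nat_lit 228) (nat_lit 4443889762) (nat_lit 304) (nat_lit 1645047478) (nat_lit 57) (nat_lit 5) (nat_lit 60) (nat_lit 5) (nat_lit 61) (nat_lit 5) (nat_lit 286) (nat_lit 260) (nat_lit 234)) (XT.lf (nat_lit 0) (nat_lit 725631826) (nat_lit 304) (nat_lit 748785344) (nat_lit 76) (nat_lit 8085558891) (nat_lit 56) (nat_lit 5) (nat_lit 60) (nat_lit 5) (nat_lit 57) (nat_lit 5) (nat_lit 287) (nat_lit 260) (nat_lit 233))) (XT.nd (nat_lit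 78) (nat_lit 228) (nat_lit 0) (XT.lf (nat_lit 0) (nat_lit 3188082724) (nat_lit 380) (nat_lit 4945600452) (nat_lit 76) (nat_lit 1679034656) (nat_lit 52) (nat_lit 5) (nat_lit 57) (nat_lit 5) (nat_lit 53) (nat_lit 5) (nat_lit 288) (nat_lit 260) (nat_lit 232)) (XT.nd (nat_lit 78) (nat_lit 0) (nat_lit 0) (XT.lf (nat_lit 0) (nat_lit 613046451) (nat_lit 228) (nat_lit 5134113590) (nat_lit 304) (nat_lit 4332399344) (nat_lit 49) (nat_lit 5) (nat_lit 52) (nat_lit 5) (nat_lit 53) (nat_lit 5) (nat_lit 289) (nat_lit 260) (nat_lit 231)) (XT.lf (nat_lit 0) (nat_lit 6528305756) (nat_lit 228) (nat_lit 1918544347) (nat_lit 304) (nat_lit 1912391288) (nat_lit 49) (nat_lit 5) (nat_lit 52) (nat_lit 5) (nat_lit 53) (nat_lit 5) (nat_lit 290) (nat_lit 260) (nat_lit 230))))) (XT.nd (nat_lit 156) (nat_lit 456) (nat_lit 0) (XT.nd (nat_lit 78) (nat_lit 0) (nat_lit 0) (XT.lf (nat_lit 0) (nat_lit 594682910) (nat_lit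 304) (nat_lit 8626213477) (nat_lit 76) (nat_lit 1432330228) (nat_lit 45) (nat_lit 5) (nat_lit 49) (nat_lit 5) (nat_lit 46) (nat_lit 5) (nat_lit 291) (nat_lit 260) (nat_lit 229)) (XT.lf (nat_lit 0) (nat_lit 3192827625) (nat_lit 304) (nat_lit 2804309371) (nat_lit 76) (nat_lit 4961820723) (nat_lit 45) (nat_lit 5) (nat_lit 49) (nat_lit 5) (nat_lit 46) (nat_lit 5) (nat_lit 292) (nat_lit 260) (nat_lit 228))) (XT.nd (nat_lit 78) (nat_lit 228) (nat_lit 0) (XT.lf (nat_lit 0) (nat_lit 3326947133) (nat_lit 228) (nat_lit 2581677139) (nat_lit 304) (nat_lit 5372071910) (nat_lit 42) (nat_lit 5) (nat_lit 45) (nat_lit 5) (nat_lit 46) (nat_lit 5) (nat_lit 293) (nat_lit 260) (nat_lit 227)) (XT.nd (nat_lit 78) (nat_lit 228) (nat_lit 0) (XT.lf (nat_lit 0) (nat_lit 8761289640) (nat_lit 304) (nat_lit 1860134809) (nat_lit 76) (nat_lit 997146068) (nat_lit 42) (nat_lit 5) (nat_lit 46) (nat_lit 5) (nat_lit 43)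 (nat_lit 5) (nat_lit 294) (nat_lit 260) (nat_lit 226)) (XT.lf (nat_lit 0) (nat_lit 4556285130) (nat_lit 228) (nat_lit 7253880253) (nat_lit 304) (nat_lit 160592323) (nat_lit 39) (nat_lit 5) (nat_lit 42) (nat_lit 5) (nat_lit 43) (nat_lit 5) (nat_lit 295) (nat_lit 260) (nat_lit 225)))))) (XT.nd (nat_lit 390) (nat_lit 532) (nat_lit 0) (XT.nd (nat_lit 156) (nat_lit 304) (nat_lit 0) (XT.nd (nat_lit 78) (nat_lit 152) (nat_lit 0) (XT.lf (nat_lit 0) (nat_lit 2558074264) (nat_lit 304) (nat_lit 1109147962) (nat_lit 76) (nat_lit 8672704371) (nat_lit 38) (nat_lit 5) (nat_lit 42) (nat_lit 5) (nat_lit 39) (nat_lit 5) (nat_lit 296) (nat_lit 260) (nat_lit 224)) (XT.lf (nat_lit 0) (nat_lit 5440870043) (nat_lit 228) (nat_lit 7122295111) (nat_lit 76) (nat_lit 162662155) (nat_lit 36) (nat_lit 5) (nat_lit 39) (nat_lit 5) (nat_lit 37) (nat_lit 5) (nat_lit 297) (nat_lit 260) (nat_lit 223))) (XT.nd (nat_lit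 78) (nat_lit 304) (nat_lit 0) (XT.lf (nat_lit 0) (nat_lit 8491491366) (nat_lit 228) (nat_lit 583232864) (nat_lit 76) (nat_lit 4055195159) (nat_lit 36) (nat_lit 5) (nat_lit 39) (nat_lit 5) (nat_lit 37) (nat_lit 5) (nat_lit 298) (nat_lit 260) (nat_lit 222)) (XT.nd (nat_lit 78) (nat_lit 76) (nat_lit 0) (XT.lf (nat_lit 0) (nat_lit 6408783442) (nat_lit 228) (nat_lit 5333038873) (nat_lit 304) (nat_lit 1810111610) (nat_lit 33) (nat_lit 5) (nat_lit 36) (nat_lit 5) (nat_lit 37) (nat_lit 5) (nat_lit 299) (nat_lit 260) (nat_lit 221)) (XT.lf (nat_lit 0) (nat_lit 1080050703) (nat_lit 304) (nat_lit 321822429) (nat_lit 76) (nat_lit 12594463191) (nat_lit 32) (nat_lit 5) (nat_lit 36) (nat_lit 5) (nat_lit 33) (nat_lit 5) (nat_lit 300) (nat_lit 260) (nat_lit 220))))) (XT.nd (nat_lit 156) (nat_lit 380) (nat_lit 0) (XT.nd (nat_lit 78) (nat_lit 0) (nat_lit 0) (XT.lf (nat_lit 0) (nat_lit 4156946524) (nat_lit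 228) (nat_lit 7545298933) (nat_lit 76) (nat_lit 2754143162) (nat_lit 30) (nat_lit 5) (nat_lit 33) (nat_lit 5) (nat_lit 31) (nat_lit 5) (nat_lit 301) (nat_lit 260) (nat_lit 219)) (XT.lf (nat_lit 0) (nat_lit 7367025671) (nat_lit 228) (nat_lit 522153025) (nat_lit 76) (nat_lit 7051361074) (nat_lit 30) (nat_lit 5) (nat_lit 33) (nat_lit 5) (nat_lit 31) (nat_lit 5) (nat_lit 302) (nat_lit 260) (nat_lit 218))) (XT.nd (nat_lit 78) (nat_lit 228) (nat_lit 0) (XT.lf (nat_lit 0) (nat_lit 7003219326) (nat_lit 152) (nat_lit 3796888797) (nat_lit 228) (nat_lit 4645725547) (nat_lit 28) (nat_lit 5) (nat_lit 30) (nat_lit 5) (nat_lit 31) (nat_lit 5) (nat_lit 303) (nat_lit 260) (nat_lit 217)) (XT.nd (nat_lit 78) (nat_lit 228) (nat_lit 0) (XT.lf (nat_lit 0) (nat_lit 14375498120) (nat_lit 228) (nat_lit 1134747790) (nat_lit 76) (nat_lit 467670979) (nat_lit 28) (nat_lit 5) (nat_lit 31) (nat_lit 5) (nat_lit 29)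 (nat_lit 4) (nat_lit 304) (nat_lit 260) (nat_lit 216)) (XT.lf (nat_lit 0) (nat_lit 1665628611) (nat_lit 228) (nat_lit 9939683487) (nat_lit 76) (nat_lit 4923922390) (nat_lit 25) (nat_lit 5) (nat_lit 28) (nat_lit 5) (nat_lit 26) (nat_lit 5) (nat_lit 305) (nat_lit 260) (nat_lit 215))))))) (XT.nd (nat_lit 780) (nat_lit 532) (nat_lit 0) (XT.nd (nat_lit 390) (nat_lit 228) (nat_lit 0) (XT.nd (nat_lit 156) (nat_lit 152) (nat_lit 0) (XT.nd (nat_lit 78) (nat_lit 152) (nat_lit 0) (XT.lf (nat_lit 0) (nat_lit 5019073526) (nat_lit 228) (nat_lit 2464958857) (nat_lit 76) (nat_lit 9624029274) (nat_lit 25) (nat_lit 5) (nat_lit 28) (nat_lit 5) (nat_lit 26) (nat_lit 5) (nat_lit 306) (nat_lit 260) (nat_lit 214)) (XT.lf (nat_lit 0) (nat_lit 5491966687) (nat_lit 152) (nat_lit 3092363656) (nat_lit 228) (nat_lit 9129339994) (nat_lit 23) (nat_lit 5) (nat_lit 25) (nat_lit 5) (nat_lit 26) (nat_lit 5) (nat_lit 307)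 (nat_lit 260) (nat_lit 213))) (XT.nd (nat_lit 78) (nat_lit 152) (nat_lit 0) (XT.lf (nat_lit 0) (nat_lit 12352936413) (nat_lit 228) (nat_lit 4507459789) (nat_lit 76) (nat_lit 1487953820) (nat_lit 23) (nat_lit 5) (nat_lit 26) (nat_lit 5) (nat_lit 24) (nat_lit 4) (nat_lit 308) (nat_lit 260) (nat_lit 212)) (XT.nd (nat_lit 78) (nat_lit 76) (nat_lit 0) (XT.lf (nat_lit 0) (nat_lit 3592099529) (nat_lit 76) (nat_lit 12785548279) (nat_lit 152) (nat_lit 2633774887) (nat_lit 22) (nat_lit 5) (nat_lit 23) (nat_lit 5) (nat_lit 24) (nat_lit 4) (nat_lit 309) (nat_lit 260) (nat_lit 211)) (XT.lf (nat_lit 0) (nat_lit 905957520) (nat_lit 152) (nat_lit 7530899951) (nat_lit 76) (nat_lit 11268196517) (nat_lit 21) (nat_lit 5) (nat_lit 23) (nat_lit 5) (nat_lit 22) (nat_lit 5) (nat_lit 310) (nat_lit 260) (nat_lit 210))))) (XT.nd (nat_lit 156) (nat_lit 76) (nat_lit 0) (XT.nd (nat_lit 78) (nat_lit 0) (nat_lit 0)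 (XT.lf (nat_lit 0) (nat_lit 668296737) (nat_lit 152) (nat_lit 3839254248) (nat_lit 228) (nat_lit 15925024635) (nat_lit 19) (nat_lit 5) (nat_lit 21) (nat_lit 5) (nat_lit 22) (nat_lit 5) (nat_lit 311) (nat_lit 260) (nat_lit 209)) (XT.lf (nat_lit 0) (nat_lit 8397665340) (nat_lit 228) (nat_lit 11731032379) (nat_lit 76) (nat_lit 1062388727) (nat_lit 19) (nat_lit 5) (nat_lit 22) (nat_lit 5) (nat_lit 20) (nat_lit 4) (nat_lit 312) (nat_lit 260) (nat_lit 208))) (XT.nd (nat_lit 78) (nat_lit 76) (nat_lit 0) (XT.lf (nat_lit 0) (nat_lit 12510349671) (nat_lit 228) (nat_lit 3418419553) (nat_lit 76) (nat_lit 6057383875) (nat_lit 19) (nat_lit 5) (nat_lit 22) (nat_lit 5) (nat_lit 20) (nat_lit 4) (nat_lit 313) (nat_lit 260) (nat_lit 207)) (XT.nd (nat_lit 78) (nat_lit 0) (nat_lit 0) (XT.lf (nat_lit 0) (nat_lit 5426990638) (nat_lit 76) (nat_lit 11453194459) (nat_lit 152) (nat_lit 5938244049) (nat_lit 18)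 (nat_lit 5) (nat_lit 19) (nat_lit 5) (nat_lit 20) (nat_lit 4) (nat_lit 314) (nat_lit 260) (nat_lit 206)) (XT.lf (nat_lit 0) (nat_lit 14777732068) (nat_lit 76) (nat_lit 6716172393) (nat_lit 152) (nat_lit 2197175308) (nat_lit 18) (nat_lit 5) (nat_lit 19) (nat_lit 5) (nat_lit 20) (nat_lit 4) (nat_lit 315) (nat_lit 260) (nat_lit 205)))))) (XT.nd (nat_lit 390) (nat_lit 228) (nat_lit 0) (XT.nd (nat_lit 156) (nat_lit 76) (nat_lit 0) (XT.nd (nat_lit 78) (nat_lit 152) (nat_lit 0) (XT.lf (nat_lit 0) (nat_lit 1644057542) (nat_lit 152) (nat_lit 92416541) (nat_lit 76) (nat_lit 22871139566) (nat_lit 17) (nat_lit 5) (nat_lit 19) (nat_lit 5) (nat_lit 18) (nat_lit 5) (nat_lit 316) (nat_lit 260) (nat_lit 204)) (XT.lf (nat_lit 0) (nat_lit 5777188584) (nat_lit 228) (nat_lit 16237184018) (nat_lit 76) (nat_lit 3545143103) (nat_lit 15) (nat_lit 5) (nat_lit 18) (nat_lit 5) (nat_lit 16) (nat_lit 4) (nat_lit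 317) (nat_lit 260) (nat_lit 203))) (XT.nd (nat_lit 78) (nat_lit 76) (nat_lit 0) (XT.lf (nat_lit 0) (nat_lit 10117350123) (nat_lit 228) (nat_lit 7428197343) (nat_lit 76) (nat_lit 9013471696) (nat_lit 15) (nat_lit 5) (nat_lit 18) (nat_lit 5) (nat_lit 16) (nat_lit 4) (nat_lit 318) (nat_lit 260) (nat_lit 202)) (XT.nd (nat_lit 78) (nat_lit 0) (nat_lit 0) (XT.lf (nat_lit 0) (nat_lit 1830496350) (nat_lit 76) (nat_lit 12844332452) (nat_lit 152) (nat_lit 12933677345) (nat_lit 14) (nat_lit 5) (nat_lit 15) (nat_lit 5) (nat_lit 16) (nat_lit 4) (nat_lit 319) (nat_lit 260) (nat_lit 201)) (XT.lf (nat_lit 0) (nat_lit 11761480977) (nat_lit 76) (nat_lit 7796818886) (nat_lit 152) (nat_lit 9147284369) (nat_lit 14) (nat_lit 5) (nat_lit 15) (nat_lit 5) (nat_lit 16) (nat_lit 4) (nat_lit 320) (nat_lit 260) (nat_lit 200))))) (XT.nd (nat_lit 234) (nat_lit 76) (nat_lit 0) (XT.nd (nat_lit 78) (nat_lit 152) (nat_lit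 0) (XT.lf (nat_lit 0) (nat_lit 22142791986) (nat_lit 76) (nat_lit 2516788995) (nat_lit 152) (nat_lit 5199275008) (nat_lit 14) (nat_lit 5) (nat_lit 15) (nat_lit 5) (nat_lit 16) (nat_lit 4) (nat_lit 321) (nat_lit 260) (nat_lit 199)) (XT.nd (nat_lit 78) (nat_lit 76) (nat_lit 0) (XT.lf (nat_lit 0) (nat_lit 1943309064) (nat_lit 76) (nat_lit 28124817945) (nat_lit 76) (nat_lit 999074850) (nat_lit 13) (nat_lit 4) (nat_lit 14) (nat_lit 5) (nat_lit 14) (nat_lit 4) (nat_lit 322) (nat_lit 260) (nat_lit 198)) (XT.lf (nat_lit 0) (nat_lit 3450722122) (nat_lit 152) (nat_lit 20117686755) (nat_lit 76) (nat_lit 8757473706) (nat_lit 12) (nat_lit 5) (nat_lit 14) (nat_lit 5) (nat_lit 13) (nat_lit 4) (nat_lit 323) (nat_lit 260) (nat_lit 197)))) (XT.nd (nat_lit 78) (nat_lit 76) (nat_lit 0) (XT.lf (nat_lit 0) (nat_lit 8065326912) (nat_lit 152) (nat_lit 10720531707) (nat_lit 76) (nat_lit 14862042903) (nat_lit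 12) (nat_lit 5) (nat_lit 14) (nat_lit 5) (nat_lit 13) (nat_lit 4) (nat_lit 324) (nat_lit 260) (nat_lit 196)) (XT.nd (nat_lit 78) (nat_lit 76) (nat_lit 0) (XT.lf (nat_lit 0) (nat_lit 12887703310) (nat_lit 152) (nat_lit 894455113) (nat_lit 76) (nat_lit 21255027838) (nat_lit 12) (nat_lit 5) (nat_lit 14) (nat_lit 5) (nat_lit 13) (nat_lit 4) (nat_lit 325) (nat_lit 260) (nat_lit 195)) (XT.lf (nat_lit 0) (nat_lit 9694213831) (nat_lit 76) (nat_lit 8386473178) (nat_lit 152) (nat_lit 18408789915) (nat_lit 11) (nat_lit 5) (nat_lit 12) (nat_lit 5) (nat_lit 13) (nat_lit 4) (nat_lit 326) (nat_lit 260) (nat_lit 194))))))))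
noncomputable def xc108 : XT := (XT.nd (nat_lit 1560) (nat_lit 228) (nat_lit 0) (XT.nd (nat_lit 780) (nat_lit 228) (nat_lit 0) (XT.nd (nat_lit 390) (nat_lit 76) (nat_lit 0) (XT.nd (nat_lit 156) (nat_lit 152) (nat_lit 0) (XT.nd (nat_lit 78) (nat_lit 0) (nat_lit 0) (XT.lf (nat_lit 0) (nat_lit 20805011642) (nat_lit 76) (nat_lit 2722033250) (nat_lit 152) (nat_lit 14487666327) (nat_lit 11) (nat_lit 5) (nat_lit 12) (nat_lit 5) (nat_lit 13) (nat_lit 4) (nat_lit 327) (nat_lit 260) (nat_lit 193)) (XT.lf (nat_lit 0) (nat_lit 29275427070) (nat_lit 152) (nat_lit 7232533405) (nat_lit 0) (nat_lit 3106776047) (nat_lit 11) (nat_lit 5) (nat_lit 13) (nat_lit 4) (nat_lit 11) (nat_lit 4) (nat_lit 328) (nat_lit 260) (nat_lit 192))) (XT.nd (nat_lit 78) (nat_lit 76) (nat_lit 0) (XT.lf (nat_lit 0) (nat_lit 3267924015) (nat_lit 76) (nat_lit 32119278146) (nat_lit 76) (nat_lit 5903776159) (nat_lit 10) (nat_lit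 4) (nat_lit 11) (nat_lit 5) (nat_lit 11) (nat_lit 4) (nat_lit 329) (nat_lit 260) (nat_lit 191)) (XT.nd (nat_lit 78) (nat_lit 76) (nat_lit 0) (XT.lf (nat_lit 0) (nat_lit 14509537183) (nat_lit 76) (nat_lit 27398234965) (nat_lit 76) (nat_lit 1138113011) (nat_lit 10) (nat_lit 4) (nat_lit 11) (nat_lit 5) (nat_lit 11) (nat_lit 4) (nat_lit 330) (nat_lit 260) (nat_lit 190)) (XT.lf (nat_lit 0) (nat_lit 3723427040) (nat_lit 152) (nat_lit 18669591726) (nat_lit 76) (nat_lit 22493446545) (nat_lit 9) (nat_lit 5) (nat_lit 11) (nat_lit 5) (nat_lit 10) (nat_lit 4) (nat_lit 331) (nat_lit 260) (nat_lit 189))))) (XT.nd (nat_lit 156) (nat_lit 0) (nat_lit 0) (XT.nd (nat_lit 78) (nat_lit 76) (nat_lit 0) (XT.lf (nat_lit 0) (nat_lit 8772009896) (nat_lit 152) (nat_lit 8360468495) (nat_lit 76) (nat_lit 29686563958) (nat_lit 9) (nat_lit 5) (nat_lit 11) (nat_lit 5) (nat_lit 10) (nat_lit 4) (nat_lit 332) (nat_lit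 260) (nat_lit 188)) (XT.lf (nat_lit 0) (nat_lit 2513793471) (nat_lit 76) (nat_lit 11581536605) (nat_lit 152) (nat_lit 34751813660) (nat_lit 8) (nat_lit 5) (nat_lit 9) (nat_lit 5) (nat_lit 10) (nat_lit 4) (nat_lit 333) (nat_lit 260) (nat_lit 187))) (XT.nd (nat_lit 78) (nat_lit 0) (nat_lit 0) (XT.lf (nat_lit 0) (nat_lit 14191746972) (nat_lit 76) (nat_lit 5618052596) (nat_lit 152) (nat_lit 31160611847) (nat_lit 8) (nat_lit 5) (nat_lit 9) (nat_lit 5) (nat_lit 10) (nat_lit 4) (nat_lit 334) (nat_lit 260) (nat_lit 186)) (XT.nd (nat_lit 78) (nat_lit 0) (nat_lit 0) (XT.lf (nat_lit 0) (nat_lit 25804023164) (nat_lit 152) (nat_lit 26785726466) (nat_lit 0) (nat_lit 610401208) (nat_lit 8) (nat_lit 5) (nat_lit 10) (nat_lit 4) (nat_lit 8) (nat_lit 4) (nat_lit 335) (nat_lit 260) (nat_lit 185)) (XT.lf (nat_lit 0) (nat_lit 32174802060) (nat_lit 152) (nat_lit 16413272860) (nat_lit 0) (nat_lit 6949469528)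 (nat_lit 8) (nat_lit 5) (nat_lit 10) (nat_lit 4) (nat_lit 8) (nat_lit 4) (nat_lit 336) (nat_lit 260) (nat_lit 184)))))) (XT.nd (nat_lit 390) (nat_lit 76) (nat_lit 0) (XT.nd (nat_lit 156) (nat_lit 76) (nat_lit 0) (XT.nd (nat_lit 78) (nat_lit 76) (nat_lit 0) (XT.lf (nat_lit 0) (nat_lit 38849591232) (nat_lit 152) (nat_lit 5548893761) (nat_lit 0) (nat_lit 13594058151) (nat_lit 8) (nat_lit 5) (nat_lit 10) (nat_lit 4) (nat_lit 8) (nat_lit 4) (nat_lit 337) (nat_lit 260) (nat_lit 183)) (XT.lf (nat_lit 0) (nat_lit 6026152927) (nat_lit 76) (nat_lit 39912215243) (nat_lit 76) (nat_lit 14627919734) (nat_lit 7) (nat_lit 4) (nat_lit 8) (nat_lit 5) (nat_lit 8) (nat_lit 4) (nat_lit 338) (nat_lit 260) (nat_lit 182))) (XT.nd (nat_lit 78) (nat_lit 76) (nat_lit 0) (XT.lf (nat_lit 0) (nat_lit 18347581215) (nat_lit 76) (nat_lit 35114407445) (nat_lit 76) (nat_lit 9802719147) (nat_lit 7) (nat_lit 4) (nat_lit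 8) (nat_lit 5) (nat_lit 8) (nat_lit 4) (nat_lit 339) (nat_lit 260) (nat_lit 181)) (XT.nd (nat_lit 78) (nat_lit 76) (nat_lit 0) (XT.lf (nat_lit 0) (nat_lit 31261256348) (nat_lit 76) (nat_lit 30087611447) (nat_lit 76) (nat_lit 4749834780) (nat_lit 7) (nat_lit 4) (nat_lit 8) (nat_lit 5) (nat_lit 8) (nat_lit 4) (nat_lit 340) (nat_lit 260) (nat_lit 180)) (XT.lf (nat_lit 0) (nat_lit 525392206) (nat_lit 152) (nat_lit 24285568710) (nat_lit 76) (nat_lit 44263635194) (nat_lit 6) (nat_lit 5) (nat_lit 8) (nat_lit 5) (nat_lit 7) (nat_lit 4) (nat_lit 341) (nat_lit 260) (nat_lit 179))))) (XT.nd (nat_lit 156) (nat_lit 76) (nat_lit 0) (XT.nd (nat_lit 78) (nat_lit 0) (nat_lit 0) (XT.lf (nat_lit 0) (nat_lit 5892835016) (nat_lit 152) (nat_lit 13305973870) (nat_lit 76) (nat_lit 52997184821) (nat_lit 6) (nat_lit 5) (nat_lit 8) (nat_lit 5) (nat_lit 7) (nat_lit 4) (nat_lit 342) (nat_lit 260) (nat_lit 178))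 (XT.lf (nat_lit 0) (nat_lit 11517297652) (nat_lit 152) (nat_lit 1798361582) (nat_lit 76) (nat_lit 62158375943) (nat_lit 6) (nat_lit 5) (nat_lit 8) (nat_lit 5) (nat_lit 7) (nat_lit 4) (nat_lit 343) (nat_lit 260) (nat_lit 177))) (XT.nd (nat_lit 78) (nat_lit 0) (nat_lit 0) (XT.lf (nat_lit 0) (nat_lit 10604063485) (nat_lit 76) (nat_lit 6973667353) (nat_lit 152) (nat_lit 61330516583) (nat_lit 5) (nat_lit 5) (nat_lit 6) (nat_lit 5) (nat_lit 7) (nat_lit 4) (nat_lit 344) (nat_lit 260) (nat_lit 176)) (XT.nd (nat_lit 78) (nat_lit 0) (nat_lit 0) (XT.lf (nat_lit 0) (nat_lit 23669402772) (nat_lit 76) (nat_lit 291635485) (nat_lit 152) (nat_lit 58552145177) (nat_lit 5) (nat_lit 5) (nat_lit 6) (nat_lit 5) (nat_lit 7) (nat_lit 4) (nat_lit 345) (nat_lit 260) (nat_lit 175)) (XT.lf (nat_lit 0) (nat_lit 30758266287) (nat_lit 152) (nat_lit 49034428277) (nat_lit 0) (nat_lit 6500939430) (nat_lit 5) (nat_lit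 5) (nat_lit 7) (nat_lit 4) (nat_lit 5) (nat_lit 4) (nat_lit 346) (nat_lit 260) (nat_lit 174))))))) (XT.nd (nat_lit 780) (nat_lit 152) (nat_lit 0) (XT.nd (nat_lit 390) (nat_lit 0) (nat_lit 0) (XT.nd (nat_lit 156) (nat_lit 76) (nat_lit 0) (XT.nd (nat_lit 78) (nat_lit 0) (nat_lit 0) (XT.lf (nat_lit 0) (nat_lit 37890390895) (nat_lit 152) (nat_lit 38757563270) (nat_lit 0) (nat_lit 13615406403) (nat_lit 5) (nat_lit 5) (nat_lit 7) (nat_lit 4) (nat_lit 5) (nat_lit 4) (nat_lit 347) (nat_lit 260) (nat_lit 173)) (XT.lf (nat_lit 0) (nat_lit 45369840085) (nat_lit 152) (nat_lit 27984163668) (nat_lit 0) (nat_lit 21078038797) (nat_lit 5) (nat_lit 5) (nat_lit 7) (nat_lit 4) (nat_lit 5) (nat_lit 4) (nat_lit 348) (nat_lit 260) (nat_lit 172))) (XT.nd (nat_lit 78) (nat_lit 76) (nat_lit 0) (XT.lf (nat_lit 0) (nat_lit 53214422068) (nat_lit 152) (nat_lit 16688578521) (nat_lit 0) (nat_lit 28906604784) (nat_lit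 5) (nat_lit 5) (nat_lit 7) (nat_lit 4) (nat_lit 5) (nat_lit 4) (nat_lit 349) (nat_lit 260) (nat_lit 171)) (XT.nd (nat_lit 78) (nat_lit 76) (nat_lit 0) (XT.lf (nat_lit 0) (nat_lit 61442814421) (nat_lit 152) (nat_lit 4843913577) (nat_lit 0) (nat_lit 37119743807) (nat_lit 5) (nat_lit 5) (nat_lit 7) (nat_lit 4) (nat_lit 5) (nat_lit 4) (nat_lit 350) (nat_lit 260) (nat_lit 170)) (XT.lf (nat_lit 0) (nat_lit 7828596731) (nat_lit 76) (nat_lit 62368238156) (nat_lit 76) (nat_lit 38030640562) (nat_lit 4) (nat_lit 4) (nat_lit 5) (nat_lit 5) (nat_lit 5) (nat_lit 4) (nat_lit 351) (nat_lit 260) (nat_lit 169))))) (XT.nd (nat_lit 156) (nat_lit 0) (nat_lit 0) (XT.nd (nat_lit 78) (nat_lit 0) (nat_lit 0) (XT.lf (nat_lit 0) (nat_lit 21288191589) (nat_lit 76) (nat_lit 58174533098) (nat_lit 76) (nat_lit 33823100285) (nat_lit 4) (nat_lit 4) (nat_lit 5) (nat_lit 5) (nat_lit 5) (nat_lit 4) (nat_lit 352) (nat_lit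 260) (nat_lit 168)) (XT.lf (nat_lit 0) (nat_lit 35406755991) (nat_lit 76) (nat_lit 53777661833) (nat_lit 76) (nat_lit 29413052620) (nat_lit 4) (nat_lit 4) (nat_lit 5) (nat_lit 5) (nat_lit 5) (nat_lit 4) (nat_lit 353) (nat_lit 260) (nat_lit 167))) (XT.nd (nat_lit 78) (nat_lit 0) (nat_lit 0) (XT.lf (nat_lit 0) (nat_lit 50217905566) (nat_lit 76) (nat_lit 49167155618) (nat_lit 76) (nat_lit 24789997453) (nat_lit 4) (nat_lit 4) (nat_lit 5) (nat_lit 5) (nat_lit 5) (nat_lit 4) (nat_lit 354) (nat_lit 260) (nat_lit 166)) (XT.nd (nat_lit 78) (nat_lit 0) (nat_lit 0) (XT.lf (nat_lit 0) (nat_lit 65756904957) (nat_lit 76) (nat_lit 44332037059) (nat_lit 76) (nat_lit 19942927511) (nat_lit 4) (nat_lit 4) (nat_lit 5) (nat_lit 5) (nat_lit 5) (nat_lit 4) (nat_lit 355) (nat_lit 260) (nat_lit 165)) (XT.lf (nat_lit 0) (nat_lit 82060751782) (nat_lit 76) (nat_lit 39260793967) (nat_lit 76) (nat_lit 14860302151)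 (nat_lit 4) (nat_lit 4) (nat_lit 5) (nat_lit 5) (nat_lit 5) (nat_lit 4) (nat_lit 356) (nat_lit 260) (nat_lit 164)))))) (XT.nd (nat_lit 390) (nat_lit 0) (nat_lit 0) (XT.nd (nat_lit 156) (nat_lit 152) (nat_lit 0) (XT.nd (nat_lit 78) (nat_lit 0) (nat_lit 0) (XT.lf (nat_lit 0) (nat_lit 99168264722) (nat_lit 76) (nat_lit 33941351956) (nat_lit 76) (nat_lit 9530019883) (nat_lit 4) (nat_lit 4) (nat_lit 5) (nat_lit 5) (nat_lit 5) (nat_lit 4) (nat_lit 357) (nat_lit 260) (nat_lit 163)) (XT.lf (nat_lit 0) (nat_lit 117120175952) (nat_lit 76) (nat_lit 28361045687) (nat_lit 76) (nat_lit 3939389560) (nat_lit 4) (nat_lit 4) (nat_lit 5) (nat_lit 5) (nat_lit 5) (nat_lit 4) (nat_lit 358) (nat_lit 260) (nat_lit 162))) (XT.nd (nat_lit 78) (nat_lit 76) (nat_lit 0) (XT.lf (nat_lit 0) (nat_lit 1863291026) (nat_lit 152) (nat_lit 20611741954) (nat_lit 76) (nat_lit 134064381356) (nat_lit 3) (nat_lit 5) (nat_lit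 5) (nat_lit 5) (nat_lit 4) (nat_lit 4) (nat_lit 359) (nat_lit 260) (nat_lit 161)) (XT.nd (nat_lit 78) (nat_lit 76) (nat_lit 0) (XT.lf (nat_lit 0) (nat_lit 7818302530) (nat_lit 152) (nat_lit 8413332593) (nat_lit 76) (nat_lit 147779566839) (nat_lit 3) (nat_lit 5) (nat_lit 5) (nat_lit 5) (nat_lit 4) (nat_lit 4) (nat_lit 360) (nat_lit 260) (nat_lit 160)) (XT.lf (nat_lit 0) (nat_lit 4530340774) (nat_lit 76) (nat_lit 9606299157) (nat_lit 152) (nat_lit 157716662795) (nat_lit 2) (nat_lit 5) (nat_lit 3) (nat_lit 5) (nat_lit 4) (nat_lit 4) (nat_lit 361) (nat_lit 260) (nat_lit 159))))) (XT.nd (nat_lit 156) (nat_lit 0) (nat_lit 0) (XT.nd (nat_lit 78) (nat_lit 0) (nat_lit 0) (XT.lf (nat_lit 0) (nat_lit 18403789799) (nat_lit 76) (nat_lit 2504529474) (nat_lit 152) (nat_lit 159172320407) (nat_lit 2) (nat_lit 5) (nat_lit 3) (nat_lit 5) (nat_lit 4) (nat_lit 4) (nat_lit 362) (nat_lit 260) (nat_lit 158))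 (XT.lf (nat_lit 0) (nat_lit 28091018380) (nat_lit 152) (nat_lit 155834976625) (nat_lit 0) (nat_lit 4789728973) (nat_lit 2) (nat_lit 5) (nat_lit 4) (nat_lit 4) (nat_lit 2) (nat_lit 4) (nat_lit 363) (nat_lit 260) (nat_lit 157))) (XT.nd (nat_lit 78) (nat_lit 0) (nat_lit 0) (XT.lf (nat_lit 0) (nat_lit 35669258939) (nat_lit 152) (nat_lit 149750852987) (nat_lit 0) (nat_lit 12360632420) (nat_lit 2) (nat_lit 5) (nat_lit 4) (nat_lit 4) (nat_lit 2) (nat_lit 4) (nat_lit 364) (nat_lit 260) (nat_lit 156)) (XT.nd (nat_lit 78) (nat_lit 0) (nat_lit 0) (XT.lf (nat_lit 0) (nat_lit 43621981657) (nat_lit 152) (nat_lit 143370890234) (nat_lit 0) (nat_lit 20306367412) (nat_lit 2) (nat_lit 5) (nat_lit 4) (nat_lit 4) (nat_lit 2) (nat_lit 4) (nat_lit 365) (nat_lit 260) (nat_lit 155)) (XT.lf (nat_lit 0) (nat_lit 51968121588) (nat_lit 152) (nat_lit 136679897978) (nat_lit 0) (nat_lit 28645852365) (nat_lit 2) (nat_lit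 5) (nat_lit 4) (nat_lit 4) (nat_lit 2) (nat_lit 4) (nat_lit 366) (nat_lit 260) (nat_lit 154))))))))
noncomputable def xc109 : XT := (XT.nd (nat_lit 1560) (nat_lit 0) (nat_lit 0) (XT.nd (nat_lit 780) (nat_lit 76) (nat_lit 0) (XT.nd (nat_lit 390) (nat_lit 0) (nat_lit 0) (XT.nd (nat_lit 156) (nat_lit 0) (nat_lit 0) (XT.nd (nat_lit 78) (nat_lit 0) (nat_lit 0) (XT.lf (nat_lit 0) (nat_lit 60727550493) (nat_lit 152) (nat_lit 129661945286) (nat_lit 0) (nat_lit 37398943197) (nat_lit 2) (nat_lit 5) (nat_lit 4) (nat_lit 4) (nat_lit 2) (nat_lit 4) (nat_lit 367) (nat_lit 260) (nat_lit 153)) (XT.lf (nat_lit 0) (nat_lit 69921124155) (nat_lit 152) (nat_lit 122300322746) (nat_lit 0) (nat_lit 46586480598) (nat_lit 2) (nat_lit 5) (nat_lit 4) (nat_lit 4) (nat_lit 2) (nat_lit 4) (nat_lit 368) (nat_lit 260) (nat_lit 152))) (XT.nd (nat_lit 78) (nat_lit 0) (nat_lit 0) (XT.lf (nat_lit 0) (nat_lit 79570732036)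 (nat_lit 152) (nat_lit 114577502685) (nat_lit 0) (nat_lit 56230339660) (nat_lit 2) (nat_lit 5) (nat_lit 4) (nat_lit 4) (nat_lit 2) (nat_lit 4) (nat_lit 369) (nat_lit 260) (nat_lit 151)) (XT.nd (nat_lit 78) (nat_lit 0) (nat_lit 0) (XT.lf (nat_lit 0) (nat_lit 89699349391) (nat_lit 152) (nat_lit 106475097437) (nat_lit 0) (nat_lit 66353481949) (nat_lit 2) (nat_lit 5) (nat_lit 4) (nat_lit 4) (nat_lit 2) (nat_lit 4) (nat_lit 370) (nat_lit 260) (nat_lit 150)) (XT.lf (nat_lit 0) (nat_lit 100331091978) (nat_lit 152) (nat_lit 97973815560) (nat_lit 0) (nat_lit 76980010188) (nat_lit 2) (nat_lit 5) (nat_lit 4) (nat_lit 4) (nat_lit 2) (nat_lit 4) (nat_lit 371) (nat_lit 260) (nat_lit 149))))) (XT.nd (nat_lit 156) (nat_lit 0) (nat_lit 0) (XT.nd (nat_lit 78) (nat_lit 0) (nat_lit 0) (XT.lf (nat_lit 0) (nat_lit 111491273469) (nat_lit 152) (nat_lit 89053415908) (nat_lit 0) (nat_lit 88135225632) (nat_lit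 2) (nat_lit 5) (nat_lit 4) (nat_lit 4) (nat_lit 2) (nat_lit 4) (nat_lit 372) (nat_lit 260) (nat_lit 148)) (XT.lf (nat_lit 0) (nat_lit 123206465724) (nat_lit 152) (nat_lit 79692659433) (nat_lit 0) (nat_lit 99845688319) (nat_lit 2) (nat_lit 5) (nat_lit 4) (nat_lit 4) (nat_lit 2) (nat_lit 4) (nat_lit 373) (nat_lit 260) (nat_lit 147))) (XT.nd (nat_lit 78) (nat_lit 0) (nat_lit 0) (XT.lf (nat_lit 0) (nat_lit 135504562059) (nat_lit 152) (nat_lit 69869258620) (nat_lit 0) (nat_lit 112139280303) (nat_lit 2) (nat_lit 5) (nat_lit 4) (nat_lit 4) (nat_lit 2) (nat_lit 4) (nat_lit 374) (nat_lit 260) (nat_lit 146)) (XT.nd (nat_lit 78) (nat_lit 0) (nat_lit 0) (XT.lf (nat_lit 0) (nat_lit 148414843654) (nat_lit 152) (nat_lit 59559824420) (nat_lit 0) (nat_lit 125045272041) (nat_lit 2) (nat_lit 5) (nat_lit 4) (nat_lit 4) (nat_lit 2) (nat_lit 4) (nat_lit 375) (nat_lit 260) (nat_lit 145)) (XT.lf (nat_lit 0)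 (nat_lit 161968049277) (nat_lit 152) (nat_lit 48739810560) (nat_lit 0) (nat_lit 138594392085) (nat_lit 2) (nat_lit 5) (nat_lit 4) (nat_lit 4) (nat_lit 2) (nat_lit 4) (nat_lit 376) (nat_lit 260) (nat_lit 144)))))) (XT.nd (nat_lit 390) (nat_lit 0) (nat_lit 0) (XT.nd (nat_lit 156) (nat_lit 76) (nat_lit 0) (XT.nd (nat_lit 78) (nat_lit 0) (nat_lit 0) (XT.lf (nat_lit 0) (nat_lit 176196448463) (nat_lit 152) (nat_lit 37383455104) (nat_lit 0) (nat_lit 152818900244) (nat_lit 2) (nat_lit 5) (nat_lit 4) (nat_lit 4) (nat_lit 2) (nat_lit 4) (nat_lit 377) (nat_lit 260) (nat_lit 143)) (XT.lf (nat_lit 0) (nat_lit 191133918354) (nat_lit 152) (nat_lit 25463719108) (nat_lit 0) (nat_lit 167752664395) (nat_lit 2) (nat_lit 5) (nat_lit 4) (nat_lit 4) (nat_lit 2) (nat_lit 4) (nat_lit 378) (nat_lit 260) (nat_lit 142))) (XT.nd (nat_lit 78) (nat_lit 76) (nat_lit 0) (XT.lf (nat_lit 0) (nat_lit 206816024355) (nat_lit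 152) (nat_lit 12952222250) (nat_lit 0) (nat_lit 183431241119) (nat_lit 2) (nat_lit 5) (nat_lit 4) (nat_lit 4) (nat_lit 2) (nat_lit 4) (nat_lit 379) (nat_lit 260) (nat_lit 141)) (XT.nd (nat_lit 78) (nat_lit 0) (nat_lit 0) (XT.lf (nat_lit 0) (nat_lit 186803631) (nat_lit 76) (nat_lit 223096217710) (nat_lit 76) (nat_lit 199708073259) (nat_lit 1) (nat_lit 4) (nat_lit 2) (nat_lit 5) (nat_lit 2) (nat_lit 4) (nat_lit 380) (nat_lit 260) (nat_lit 140)) (XT.lf (nat_lit 0) (nat_lit 14428492928) (nat_lit 76) (nat_lit 226362136201) (nat_lit 76) (nat_lit 202970790592) (nat_lit 1) (nat_lit 4) (nat_lit 2) (nat_lit 5) (nat_lit 2) (nat_lit 4) (nat_lit 381) (nat_lit 260) (nat_lit 139))))) (XT.nd (nat_lit 156) (nat_lit 0) (nat_lit 0) (XT.nd (nat_lit 78) (nat_lit 0) (nat_lit 0) (XT.lf (nat_lit 0) (nat_lit 29378495464) (nat_lit 76) (nat_lit 229793130226) (nat_lit 76) (nat_lit 206398735895) (nat_lit 1) (nat_lit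 4) (nat_lit 2) (nat_lit 5) (nat_lit 2) (nat_lit 4) (nat_lit 382) (nat_lit 260) (nat_lit 138)) (XT.lf (nat_lit 0) (nat_lit 45072406483) (nat_lit 76) (nat_lit 233397368819) (nat_lit 76) (nat_lit 210000070943) (nat_lit 1) (nat_lit 4) (nat_lit 2) (nat_lit 5) (nat_lit 2) (nat_lit 4) (nat_lit 383) (nat_lit 260) (nat_lit 137))) (XT.nd (nat_lit 78) (nat_lit 0) (nat_lit 0) (XT.lf (nat_lit 0) (nat_lit 61547592440) (nat_lit 76) (nat_lit 237183433499) (nat_lit 76) (nat_lit 213783370343) (nat_lit 1) (nat_lit 4) (nat_lit 2) (nat_lit 5) (nat_lit 2) (nat_lit 4) (nat_lit 384) (nat_lit 260) (nat_lit 136)) (XT.nd (nat_lit 78) (nat_lit 0) (nat_lit 0) (XT.lf (nat_lit 0) (nat_lit 78843279967) (nat_lit 76) (nat_lit 241160338707) (nat_lit 76) (nat_lit 217757641950) (nat_lit 1) (nat_lit 4) (nat_lit 2) (nat_lit 5) (nat_lit 2) (nat_lit 4) (nat_lit 385) (nat_lit 260) (nat_lit 135)) (XT.lf (nat_lit 0) (nat_lit 97000649274)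 (nat_lit 76) (nat_lit 245337553264) (nat_lit 76) (nat_lit 221932348317) (nat_lit 1) (nat_lit 4) (nat_lit 2) (nat_lit 5) (nat_lit 2) (nat_lit 4) (nat_lit 386) (nat_lit 260) (nat_lit 134))))))) (XT.nd (nat_lit 31434) (nat_lit 0) (nat_lit 5548) (XT.nd (nat_lit 31044) (nat_lit 0) (nat_lit 9272) (XT.nd (nat_lit 30810) (nat_lit 0) (nat_lit 9728) (XT.nd (nat_lit 78) (nat_lit 0) (nat_lit 0) (XT.lf (nat_lit 0) (nat_lit 116062932191) (nat_lit 76) (nat_lit 249725022920) (nat_lit 76) (nat_lit 226317429219) (nat_lit 1) (nat_lit 4) (nat_lit 2) (nat_lit 5) (nat_lit 2) (nat_lit 4) (nat_lit 387) (nat_lit 260) (nat_lit 133)) (XT.lf (nat_lit 0) (nat_lit 136075515107) (nat_lit 76) (nat_lit 254333194031) (nat_lit 76) (nat_lit 230923325327) (nat_lit 1) (nat_lit 4) (nat_lit 2) (nat_lit 5) (nat_lit 2) (nat_lit 4) (nat_lit 388) (nat_lit 260) (nat_lit 132))) (XT.nd (nat_lit 78) (nat_lit 228) (nat_lit 0) (XT.lf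 (nat_lit 0) (nat_lit 1435102954) (nat_lit 0) (nat_lit 1435102954) (nat_lit 76) (nat_lit 356289466) (nat_lit 132) (nat_lit 5) (nat_lit 132) (nat_lit 3) (nat_lit 133) (nat_lit 0) (nat_lit 261) (nat_lit 261) (nat_lit 258)) (XT.nd (nat_lit 78) (nat_lit 0) (nat_lit 0) (XT.lf (nat_lit 0) (nat_lit 1991944276) (nat_lit 228) (nat_lit 604963640) (nat_lit 228) (nat_lit 3872252636) (nat_lit 129) (nat_lit 3) (nat_lit 132) (nat_lit 3) (nat_lit 132) (nat_lit 5) (nat_lit 262) (nat_lit 261) (nat_lit 257)) (XT.lf (nat_lit 76) (nat_lit 2499002995) (nat_lit 0) (nat_lit 2174992581) (nat_lit 228) (nat_lit 1818936594) (nat_lit 130) (nat_lit 5) (nat_lit 129) (nat_lit 3) (nat_lit 132) (nat_lit 5) (nat_lit 263) (nat_lit 261) (nat_lit 256))))) (XT.nd (nat_lit 156) (nat_lit 228) (nat_lit 0) (XT.nd (nat_lit 78) (nat_lit 0) (nat_lit 0) (XT.lf (nat_lit 0) (nat_lit 782257025) (nat_lit 228) (nat_lit 849359370) (nat_lit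 304) (nat_lit 4894086811) (nat_lit 126) (nat_lit 5) (nat_lit 129) (nat_lit 3) (nat_lit 130) (nat_lit 5) (nat_lit 264) (nat_lit 261) (nat_lit 255)) (XT.lf (nat_lit 76) (nat_lit 2408465676) (nat_lit 0) (nat_lit 920285965) (nat_lit 304) (nat_lit 3236647681) (nat_lit 127) (nat_lit 5) (nat_lit 126) (nat_lit 5) (nat_lit 130) (nat_lit 5) (nat_lit 265) (nat_lit 261) (nat_lit 254))) (XT.nd (nat_lit 78) (nat_lit 228) (nat_lit 0) (XT.lf (nat_lit 76) (nat_lit 5768900878) (nat_lit 0) (nat_lit 93097272) (nat_lit 304) (nat_lit 752678294) (nat_lit 127) (nat_lit 5) (nat_lit 126) (nat_lit 5) (nat_lit 130) (nat_lit 5) (nat_lit 266) (nat_lit 261) (nat_lit 253)) (XT.nd (nat_lit 78) (nat_lit 0) (nat_lit 0) (XT.lf (nat_lit 0) (nat_lit 1700256588) (nat_lit 304) (nat_lit 4091150482) (nat_lit 76) (nat_lit 878868959) (nat_lit 123) (nat_lit 5) (nat_lit 127) (nat_lit 5) (nat_lit 124) (nat_lit 5) (nat_lit 267) (nat_lit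 261) (nat_lit 252)) (XT.lf (nat_lit 0) (nat_lit 4122739476) (nat_lit 304) (nat_lit 635512812) (nat_lit 76) (nat_lit 1976666826) (nat_lit 123) (nat_lit 5) (nat_lit 127) (nat_lit 5) (nat_lit 124) (nat_lit 5) (nat_lit 268) (nat_lit 261) (nat_lit 251)))))) (XT.nd (nat_lit 390) (nat_lit 2432) (nat_lit 0) (XT.nd (nat_lit 156) (nat_lit 912) (nat_lit 0) (XT.nd (nat_lit 78) (nat_lit 76) (nat_lit 0) (XT.lf (nat_lit 0) (nat_lit 2995339603) (nat_lit 304) (nat_lit 3580735950) (nat_lit 380) (nat_lit 231699277) (nat_lit 119) (nat_lit 5) (nat_lit 123) (nat_lit 5) (nat_lit 124) (nat_lit 5) (nat_lit 269) (nat_lit 261) (nat_lit 250)) (XT.lf (nat_lit 0) (nat_lit 2071620485) (nat_lit 380) (nat_lit 186321902) (nat_lit 76) (nat_lit 4631164161) (nat_lit 118) (nat_lit 5) (nat_lit 123) (nat_lit 5) (nat_lit 119) (nat_lit 5) (nat_lit 270) (nat_lit 261) (nat_lit 249))) (XT.nd (nat_lit 78) (nat_lit 532) (nat_lit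 0) (XT.lf (nat_lit 0) (nat_lit 3641662607) (nat_lit 380) (nat_lit 769380387) (nat_lit 456) (nat_lit 2567239124) (nat_lit 113) (nat_lit 5) (nat_lit 118) (nat_lit 5) (nat_lit 119) (nat_lit 5) (nat_lit 271) (nat_lit 261) (nat_lit 248)) (XT.nd (nat_lit 78) (nat_lit 76) (nat_lit 0) (XT.lf (nat_lit 0) (nat_lit 501595460) (nat_lit 456) (nat_lit 6266333569) (nat_lit 532) (nat_lit 309346963) (nat_lit 107) (nat_lit 5) (nat_lit 113) (nat_lit 5) (nat_lit 114) (nat_lit 5) (nat_lit 272) (nat_lit 261) (nat_lit 247)) (XT.lf (nat_lit 0) (nat_lit 1944624790) (nat_lit 532) (nat_lit 2677098333) (nat_lit 76) (nat_lit 2560777428) (nat_lit 106) (nat_lit 5) (nat_lit 113) (nat_lit 5) (nat_lit 107) (nat_lit 5) (nat_lit 273) (nat_lit 261) (nat_lit 246))))) (XT.nd (nat_lit 234) (nat_lit 1216) (nat_lit 0) (XT.nd (nat_lit 78) (nat_lit 684) (nat_lit 0) (XT.lf (nat_lit 0) (nat_lit 1359087457) (nat_lit 532) (nat_lit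 2847904585) (nat_lit 608) (nat_lit 3090767923) (nat_lit 99) (nat_lit 5) (nat_lit 106) (nat_lit 5) (nat_lit 107) (nat_lit 5) (nat_lit 274) (nat_lit 261) (nat_lit 245)) (XT.nd (nat_lit 78) (nat_lit 684) (nat_lit 0) (XT.lf (nat_lit 0) (nat_lit 5595816217) (nat_lit 532) (nat_lit 920884558) (nat_lit 608) (nat_lit 905686457) (nat_lit 99) (nat_lit 5) (nat_lit 106) (nat_lit 5) (nat_lit 107) (nat_lit 5) (nat_lit 275) (nat_lit 261) (nat_lit 244)) (XT.lf (nat_lit 0) (nat_lit 1293093841) (nat_lit 684) (nat_lit 5119907826) (nat_lit 76) (nat_lit 1142002304) (nat_lit 90) (nat_lit 5) (nat_lit 99) (nat_lit 5) (nat_lit 91) (nat_lit 5) (nat_lit 276) (nat_lit 261) (nat_lit 243)))) (XT.nd (nat_lit 78) (nat_lit 1216) (nat_lit 0) (XT.lf (nat_lit 0) (nat_lit 3513950748) (nat_lit 684) (nat_lit 847630287) (nat_lit 76) (nat_lit 3335072421) (nat_lit 90) (nat_lit 5) (nat_lit 99) (nat_lit 5) (nat_lit 91) (nat_lit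 5) (nat_lit 277) (nat_lit 261) (nat_lit 242)) (XT.nd (nat_lit 78) (nat_lit 532) (nat_lit 0) (XT.lf (nat_lit 0) (nat_lit 3662399234) (nat_lit 684) (nat_lit 2141619346) (nat_lit 760) (nat_lit 2043718437) (nat_lit 81) (nat_lit 5) (nat_lit 90) (nat_lit 5) (nat_lit 91) (nat_lit 5) (nat_lit 278) (nat_lit 261) (nat_lit 241)) (XT.lf (nat_lit 0) (nat_lit 121382574) (nat_lit 532) (nat_lit 7679754630) (nat_lit 76) (nat_lit 209033544) (nat_lit 74) (nat_lit 5) (nat_lit 81) (nat_lit 5) (nat_lit 75) (nat_lit 5) (nat_lit 279) (nat_lit 261) (nat_lit 240))))))))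
noncomputable def xc110 : XT := (XT.nd (nat_lit 1560) (nat_lit 1444) (nat_lit 0) (XT.nd (nat_lit 780) (nat_lit 1444) (nat_lit 0) (XT.nd (nat_lit 390) (nat_lit 912) (nat_lit 0) (XT.nd (nat_lit 156) (nat_lit 380) (nat_lit 0) (XT.nd (nat_lit 78) (nat_lit 380) (nat_lit 0) (XT.lf (nat_lit 0) (nat_lit 2338869145) (nat_lit 532) (nat_lit 3128156480) (nat_lit 76) (nat_lit 2711609318) (nat_lit 74) (nat_lit 5) (nat_lit 81) (nat_lit 5) (nat_lit 75) (nat_lit 5) (nat_lit 280) (nat_lit 261) (nat_lit 239)) (XT.lf (nat_lit 0) (nat_lit 1608736454) (nat_lit 380) (nat_lit 2993764416) (nat_lit 456) (nat_lit 3756471846) (nat_lit 69) (nat_lit 5) (nat_lit 74) (nat_lit 5) (nat_lit 75) (nat_lit 5) (nat_lit 281) (nat_lit 261) (nat_lit 238))) (XT.nd (nat_lit 78) (nat_lit 380) (nat_lit 0) (XT.lf (nat_lit 0) (nat_lit 6598814326) (nat_lit 380) (nat_lit 346468549) (nat_lit 456) (nat_lit 1604949786) (nat_lit 69) (nat_lit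 5) (nat_lit 74) (nat_lit 5) (nat_lit 75) (nat_lit 5) (nat_lit 282) (nat_lit 261) (nat_lit 237)) (XT.nd (nat_lit 78) (nat_lit 0) (nat_lit 0) (XT.lf (nat_lit 0) (nat_lit 635811776) (nat_lit 380) (nat_lit 5706364733) (nat_lit 76) (nat_lit 2408423210) (nat_lit 64) (nat_lit 5) (nat_lit 69) (nat_lit 5) (nat_lit 65) (nat_lit 5) (nat_lit 283) (nat_lit 261) (nat_lit 236)) (XT.lf (nat_lit 0) (nat_lit 2892038805) (nat_lit 380) (nat_lit 727971299) (nat_lit 76) (nat_lit 5341967264) (nat_lit 64) (nat_lit 5) (nat_lit 69) (nat_lit 5) (nat_lit 65) (nat_lit 5) (nat_lit 284) (nat_lit 261) (nat_lit 235))))) (XT.nd (nat_lit 156) (nat_lit 380) (nat_lit 0) (XT.nd (nat_lit 78) (nat_lit 228) (nat_lit 0) (XT.lf (nat_lit 0) (nat_lit 4556092699) (nat_lit 304) (nat_lit 698112552) (nat_lit 380) (nat_lit 3930229845) (nat_lit 60) (nat_lit 5) (nat_lit 64) (nat_lit 5) (nat_lit 65) (nat_lit 5) (nat_lit 285) (nat_lit 261)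 (nat_lit 234)) (XT.lf (nat_lit 0) (nat_lit 602937883) (nat_lit 228) (nat_lit 7114640803) (nat_lit 304) (nat_lit 1701441713) (nat_lit 57) (nat_lit 5) (nat_lit 60) (nat_lit 5) (nat_lit 61) (nat_lit 5) (nat_lit 286) (nat_lit 261) (nat_lit 233))) (XT.nd (nat_lit 78) (nat_lit 304) (nat_lit 0) (XT.lf (nat_lit 0) (nat_lit 634460856) (nat_lit 304) (nat_lit 3520192474) (nat_lit 76) (nat_lit 5509521746) (nat_lit 56) (nat_lit 5) (nat_lit 60) (nat_lit 5) (nat_lit 57) (nat_lit 5) (nat_lit 287) (nat_lit 261) (nat_lit 232)) (XT.nd (nat_lit 78) (nat_lit 0) (nat_lit 0) (XT.lf (nat_lit 0) (nat_lit 1988096056) (nat_lit 304) (nat_lit 1001501232) (nat_lit 380) (nat_lit 6932752545) (nat_lit 52) (nat_lit 5) (nat_lit 56) (nat_lit 5) (nat_lit 57) (nat_lit 5) (nat_lit 288) (nat_lit 261) (nat_lit 231)) (XT.lf (nat_lit 0) (nat_lit 5489493843) (nat_lit 380) (nat_lit 2423515266) (nat_lit 76) (nat_lit 2279205373)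 (nat_lit 52) (nat_lit 5) (nat_lit 57) (nat_lit 5) (nat_lit 53) (nat_lit 5) (nat_lit 289) (nat_lit 261) (nat_lit 230)))))) (XT.nd (nat_lit 390) (nat_lit 684) (nat_lit 0) (XT.nd (nat_lit 156) (nat_lit 456) (nat_lit 0) (XT.nd (nat_lit 78) (nat_lit 76) (nat_lit 0) (XT.lf (nat_lit 0) (nat_lit 3368396801) (nat_lit 228) (nat_lit 4748668064) (nat_lit 304) (nat_lit 2358498584) (nat_lit 49) (nat_lit 5) (nat_lit 52) (nat_lit 5) (nat_lit 53) (nat_lit 5) (nat_lit 290) (nat_lit 261) (nat_lit 229)) (XT.lf (nat_lit 0) (nat_lit 75696495) (nat_lit 304) (nat_lit 1325920536) (nat_lit 76) (nat_lit 9372693093) (nat_lit 48) (nat_lit 5) (nat_lit 52) (nat_lit 5) (nat_lit 49) (nat_lit 5) (nat_lit 291) (nat_lit 261) (nat_lit 228))) (XT.nd (nat_lit 78) (nat_lit 228) (nat_lit 0) (XT.lf (nat_lit 0) (nat_lit 2598905408) (nat_lit 304) (nat_lit 6344040030) (nat_lit 76) (nat_lit 2140895282) (nat_lit 45) (nat_lit 5) (nat_lit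 49) (nat_lit 5) (nat_lit 46) (nat_lit 5) (nat_lit 292) (nat_lit 261) (nat_lit 227)) (XT.nd (nat_lit 78) (nat_lit 228) (nat_lit 0) (XT.lf (nat_lit 0) (nat_lit 5232934105) (nat_lit 304) (nat_lit 360254249) (nat_lit 76) (nat_lit 5816529419) (nat_lit 45) (nat_lit 5) (nat_lit 49) (nat_lit 5) (nat_lit 46) (nat_lit 5) (nat_lit 293) (nat_lit 261) (nat_lit 226)) (XT.lf (nat_lit 0) (nat_lit 6035883296) (nat_lit 228) (nat_lit 1998788267) (nat_lit 304) (nat_lit 3715514741) (nat_lit 42) (nat_lit 5) (nat_lit 45) (nat_lit 5) (nat_lit 46) (nat_lit 5) (nat_lit 294) (nat_lit 261) (nat_lit 225))))) (XT.nd (nat_lit 156) (nat_lit 380) (nat_lit 0) (XT.nd (nat_lit 78) (nat_lit 76) (nat_lit 0) (XT.lf (nat_lit 0) (nat_lit 565941252) (nat_lit 228) (nat_lit 10396279244) (nat_lit 304) (nat_lit 1146264863) (nat_lit 39) (nat_lit 5) (nat_lit 42) (nat_lit 5) (nat_lit 43) (nat_lit 5) (nat_lit 295) (nat_lit 261) (nat_lit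 224)) (XT.lf (nat_lit 0) (nat_lit 1576358856) (nat_lit 304) (nat_lit 5261810604) (nat_lit 76) (nat_lit 5641675065) (nat_lit 38) (nat_lit 5) (nat_lit 42) (nat_lit 5) (nat_lit 39) (nat_lit 5) (nat_lit 296) (nat_lit 261) (nat_lit 223))) (XT.nd (nat_lit 78) (nat_lit 228) (nat_lit 0) (XT.lf (nat_lit 0) (nat_lit 1276983160) (nat_lit 152) (nat_lit 3085678618) (nat_lit 228) (nat_lit 8507947430) (nat_lit 36) (nat_lit 5) (nat_lit 38) (nat_lit 5) (nat_lit 39) (nat_lit 5) (nat_lit 297) (nat_lit 261) (nat_lit 222)) (XT.nd (nat_lit 78) (nat_lit 228) (nat_lit 0) (XT.lf (nat_lit 0) (nat_lit 7339311639) (nat_lit 228) (nat_lit 5044982903) (nat_lit 76) (nat_lit 894142771) (nat_lit 36) (nat_lit 5) (nat_lit 39) (nat_lit 5) (nat_lit 37) (nat_lit 5) (nat_lit 298) (nat_lit 261) (nat_lit 221)) (XT.lf (nat_lit 0) (nat_lit 1761535105) (nat_lit 228) (nat_lit 8730983893) (nat_lit 304) (nat_lit 3212824700) (nat_lit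 33) (nat_lit 5) (nat_lit 36) (nat_lit 5) (nat_lit 37) (nat_lit 5) (nat_lit 299) (nat_lit 261) (nat_lit 220))))))) (XT.nd (nat_lit 780) (nat_lit 684) (nat_lit 0) (XT.nd (nat_lit 390) (nat_lit 380) (nat_lit 0) (XT.nd (nat_lit 156) (nat_lit 152) (nat_lit 0) (XT.nd (nat_lit 78) (nat_lit 228) (nat_lit 0) (XT.lf (nat_lit 0) (nat_lit 9009392272) (nat_lit 228) (nat_lit 4830312012) (nat_lit 304) (nat_lit 312144883) (nat_lit 33) (nat_lit 5) (nat_lit 36) (nat_lit 5) (nat_lit 37) (nat_lit 5) (nat_lit 300) (nat_lit 261) (nat_lit 219)) (XT.lf (nat_lit 0) (nat_lit 1946334259) (nat_lit 152) (nat_lit 682517447) (nat_lit 228) (nat_lit 11990618734) (nat_lit 30) (nat_lit 5) (nat_lit 32) (nat_lit 5) (nat_lit 33) (nat_lit 5) (nat_lit 301) (nat_lit 261) (nat_lit 218))) (XT.nd (nat_lit 78) (nat_lit 152) (nat_lit 0) (XT.lf (nat_lit 0) (nat_lit 5805425804) (nat_lit 228) (nat_lit 5674981875) (nat_lit 76) (nat_lit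 3624918510) (nat_lit 30) (nat_lit 5) (nat_lit 33) (nat_lit 5) (nat_lit 31) (nat_lit 5) (nat_lit 302) (nat_lit 261) (nat_lit 217)) (XT.nd (nat_lit 78) (nat_lit 0) (nat_lit 0) (XT.lf (nat_lit 0) (nat_lit 1644942031) (nat_lit 152) (nat_lit 7488147510) (nat_lit 228) (nat_lit 6482829433) (nat_lit 28) (nat_lit 5) (nat_lit 30) (nat_lit 5) (nat_lit 31) (nat_lit 5) (nat_lit 303) (nat_lit 261) (nat_lit 216)) (XT.lf (nat_lit 0) (nat_lit 9459409514) (nat_lit 152) (nat_lit 3220280684) (nat_lit 228) (nat_lit 3469778080) (nat_lit 28) (nat_lit 5) (nat_lit 30) (nat_lit 5) (nat_lit 31) (nat_lit 5) (nat_lit 304) (nat_lit 261) (nat_lit 215))))) (XT.nd (nat_lit 156) (nat_lit 152) (nat_lit 0) (XT.nd (nat_lit 78) (nat_lit 76) (nat_lit 0) (XT.lf (nat_lit 0) (nat_lit 896956186) (nat_lit 152) (nat_lit 15498504783) (nat_lit 228) (nat_lit 314694041) (nat_lit 26) (nat_lit 5) (nat_lit 28) (nat_lit 5) (nat_lit 29)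 (nat_lit 4) (nat_lit 305) (nat_lit 261) (nat_lit 214)) (XT.lf (nat_lit 0) (nat_lit 3028527763) (nat_lit 228) (nat_lit 8366396327) (nat_lit 76) (nat_lit 5895341508) (nat_lit 25) (nat_lit 5) (nat_lit 28) (nat_lit 5) (nat_lit 26) (nat_lit 5) (nat_lit 306) (nat_lit 261) (nat_lit 213))) (XT.nd (nat_lit 78) (nat_lit 152) (nat_lit 0) (XT.lf (nat_lit 0) (nat_lit 6488710746) (nat_lit 228) (nat_lit 616519814) (nat_lit 76) (nat_lit 10795919308) (nat_lit 25) (nat_lit 5) (nat_lit 28) (nat_lit 5) (nat_lit 26) (nat_lit 5) (nat_lit 307) (nat_lit 261) (nat_lit 212)) (XT.nd (nat_lit 78) (nat_lit 0) (nat_lit 0) (XT.lf (nat_lit 0) (nat_lit 7706450604) (nat_lit 152) (nat_lit 2498034301) (nat_lit 228) (nat_lit 8334007100) (nat_lit 23) (nat_lit 5) (nat_lit 25) (nat_lit 5) (nat_lit 26) (nat_lit 5) (nat_lit 308) (nat_lit 261) (nat_lit 211)) (XT.lf (nat_lit 0) (nat_lit 14115946295) (nat_lit 228) (nat_lit 2838495386)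 (nat_lit 76) (nat_lit 2252805358) (nat_lit 23) (nat_lit 5) (nat_lit 26) (nat_lit 5) (nat_lit 24) (nat_lit 4) (nat_lit 309) (nat_lit 261) (nat_lit 210)))))) (XT.nd (nat_lit 390) (nat_lit 380) (nat_lit 0) (XT.nd (nat_lit 156) (nat_lit 152) (nat_lit 0) (XT.nd (nat_lit 78) (nat_lit 76) (nat_lit 0) (XT.lf (nat_lit 0) (nat_lit 5635488069) (nat_lit 76) (nat_lit 12680962977) (nat_lit 152) (nat_lit 1588354045) (nat_lit 22) (nat_lit 5) (nat_lit 23) (nat_lit 5) (nat_lit 24) (nat_lit 4) (nat_lit 310) (nat_lit 261) (nat_lit 209)) (XT.lf (nat_lit 0) (nat_lit 2036431328) (nat_lit 152) (nat_lit 6095450355) (nat_lit 76) (nat_lit 12503084397) (nat_lit 21) (nat_lit 5) (nat_lit 23) (nat_lit 5) (nat_lit 22) (nat_lit 5) (nat_lit 311) (nat_lit 261) (nat_lit 208))) (XT.nd (nat_lit 78) (nat_lit 0) (nat_lit 0) (XT.lf (nat_lit 0) (nat_lit 2484480447) (nat_lit 152) (nat_lit 3309782992) (nat_lit 228) (nat_lit 15605843920)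 (nat_lit 19) (nat_lit 5) (nat_lit 21) (nat_lit 5) (nat_lit 22) (nat_lit 5) (nat_lit 312) (nat_lit 261) (nat_lit 207)) (XT.nd (nat_lit 78) (nat_lit 0) (nat_lit 0) (XT.lf (nat_lit 0) (nat_lit 9839071000) (nat_lit 228) (nat_lit 10578915132) (nat_lit 76) (nat_lit 1780597283) (nat_lit 19) (nat_lit 5) (nat_lit 22) (nat_lit 5) (nat_lit 20) (nat_lit 4) (nat_lit 313) (nat_lit 261) (nat_lit 206)) (XT.lf (nat_lit 0) (nat_lit 14108745624) (nat_lit 228) (nat_lit 1933465421) (nat_lit 76) (nat_lit 6993671278) (nat_lit 19) (nat_lit 5) (nat_lit 22) (nat_lit 5) (nat_lit 20) (nat_lit 4) (nat_lit 314) (nat_lit 261) (nat_lit 205))))) (XT.nd (nat_lit 234) (nat_lit 76) (nat_lit 0) (XT.nd (nat_lit 78) (nat_lit 228) (nat_lit 0) (XT.lf (nat_lit 0) (nat_lit 7327507617) (nat_lit 76) (nat_lit 11348673527) (nat_lit 152) (nat_lit 5234680111) (nat_lit 18) (nat_lit 5) (nat_lit 19) (nat_lit 5) (nat_lit 20) (nat_lit 4)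 (nat_lit 315) (nat_lit 261) (nat_lit 204)) (XT.nd (nat_lit 78) (nat_lit 228) (nat_lit 0) (XT.lf (nat_lit 0) (nat_lit 17068206716) (nat_lit 76) (nat_lit 6407047056) (nat_lit 152) (nat_lit 1354199655) (nat_lit 18) (nat_lit 5) (nat_lit 19) (nat_lit 5) (nat_lit 20) (nat_lit 4) (nat_lit 316) (nat_lit 261) (nat_lit 203)) (XT.lf (nat_lit 0) (nat_lit 1457115582) (nat_lit 152) (nat_lit 1170311415) (nat_lit 228) (nat_lit 23164740183) (nat_lit 15) (nat_lit 5) (nat_lit 17) (nat_lit 5) (nat_lit 18) (nat_lit 5) (nat_lit 317) (nat_lit 261) (nat_lit 202)))) (XT.nd (nat_lit 78) (nat_lit 76) (nat_lit 0) (XT.lf (nat_lit 0) (nat_lit 6935526397) (nat_lit 228) (nat_lit 15531856317) (nat_lit 76) (nat_lit 4325902645) (nat_lit 15) (nat_lit 5) (nat_lit 18) (nat_lit 5) (nat_lit 16) (nat_lit 4) (nat_lit 318) (nat_lit 261) (nat_lit 201)) (XT.nd (nat_lit 78) (nat_lit 76) (nat_lit 0) (XT.lf (nat_lit 0) (nat_lit 11451292280)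 (nat_lit 228) (nat_lit 6354667303) (nat_lit 76) (nat_lit 10038909460) (nat_lit 15) (nat_lit 5) (nat_lit 18) (nat_lit 5) (nat_lit 16) (nat_lit 4) (nat_lit 319) (nat_lit 261) (nat_lit 200)) (XT.lf (nat_lit 0) (nat_lit 3343655592) (nat_lit 76) (nat_lit 12875752873) (nat_lit 152) (nat_lit 12728316941) (nat_lit 14) (nat_lit 5) (nat_lit 15) (nat_lit 5) (nat_lit 16) (nat_lit 4) (nat_lit 320) (nat_lit 261) (nat_lit 199))))))))
noncomputable def xc111 : XT := (XT.nd (nat_lit 1560) (nat_lit 304) (nat_lit 0) (XT.nd (nat_lit 780) (nat_lit 228) (nat_lit 0) (XT.nd (nat_lit 390) (nat_lit 152) (nat_lit 0) (XT.nd (nat_lit 156) (nat_lit 152) (nat_lit 0) (XT.nd (nat_lit 78) (nat_lit 0) (nat_lit 0) (XT.lf (nat_lit 0) (nat_lit 13703492573) (nat_lit 76) (nat_lit 7604949162) (nat_lit 152) (nat_lit 8793177853) (nat_lit 14) (nat_lit 5) (nat_lit 15) (nat_lit 5) (nat_lit 16) (nat_lit 4) (nat_lit 321) (nat_lit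 261) (nat_lit 198)) (XT.lf (nat_lit 0) (nat_lit 24539395916) (nat_lit 76) (nat_lit 2088618284) (nat_lit 152) (nat_lit 4686409488) (nat_lit 14) (nat_lit 5) (nat_lit 15) (nat_lit 5) (nat_lit 16) (nat_lit 4) (nat_lit 322) (nat_lit 261) (nat_lit 197))) (XT.nd (nat_lit 78) (nat_lit 76) (nat_lit 0) (XT.lf (nat_lit 0) (nat_lit 3337403172) (nat_lit 76) (nat_lit 28963049184) (nat_lit 76) (nat_lit 283089938) (nat_lit 13) (nat_lit 4) (nat_lit 14) (nat_lit 5) (nat_lit 14) (nat_lit 4) (nat_lit 323) (nat_lit 261) (nat_lit 196)) (XT.nd (nat_lit 78) (nat_lit 0) (nat_lit 0) (XT.lf (nat_lit 0) (nat_lit 4329376165) (nat_lit 152) (nat_lit 19864533128) (nat_lit 76) (nat_lit 9712441153) (nat_lit 12) (nat_lit 5) (nat_lit 14) (nat_lit 5) (nat_lit 13) (nat_lit 4) (nat_lit 324) (nat_lit 261) (nat_lit 195)) (XT.lf (nat_lit 0) (nat_lit 9141086531) (nat_lit 152) (nat_lit 10057474516) (nat_lit 76) (nat_lit 16097615298)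 (nat_lit 12) (nat_lit 5) (nat_lit 14) (nat_lit 5) (nat_lit 13) (nat_lit 4) (nat_lit 325) (nat_lit 261) (nat_lit 194))))) (XT.nd (nat_lit 156) (nat_lit 76) (nat_lit 0) (XT.nd (nat_lit 78) (nat_lit 0) (nat_lit 0) (XT.lf (nat_lit 0) (nat_lit 209512384) (nat_lit 76) (nat_lit 13966316950) (nat_lit 152) (nat_lit 22580557205) (nat_lit 11) (nat_lit 5) (nat_lit 12) (nat_lit 5) (nat_lit 13) (nat_lit 4) (nat_lit 326) (nat_lit 261) (nat_lit 193)) (XT.lf (nat_lit 0) (nat_lit 11302489966) (nat_lit 76) (nat_lit 8309744622) (nat_lit 152) (nat_lit 18669891007) (nat_lit 11) (nat_lit 5) (nat_lit 12) (nat_lit 5) (nat_lit 13) (nat_lit 4) (nat_lit 327) (nat_lit 261) (nat_lit 192))) (XT.nd (nat_lit 78) (nat_lit 76) (nat_lit 0) (XT.lf (nat_lit 0) (nat_lit 22915324551) (nat_lit 76) (nat_lit 2385704231) (nat_lit 152) (nat_lit 14584108306) (nat_lit 11) (nat_lit 5) (nat_lit 12) (nat_lit 5) (nat_lit 13) (nat_lit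 4) (nat_lit 328) (nat_lit 261) (nat_lit 191)) (XT.nd (nat_lit 78) (nat_lit 76) (nat_lit 0) (XT.lf (nat_lit 0) (nat_lit 31315396150) (nat_lit 152) (nat_lit 6553211455) (nat_lit 0) (nat_lit 3697648134) (nat_lit 11) (nat_lit 5) (nat_lit 13) (nat_lit 4) (nat_lit 11) (nat_lit 4) (nat_lit 329) (nat_lit 261) (nat_lit 190)) (XT.lf (nat_lit 0) (nat_lit 4455479343) (nat_lit 76) (nat_lit 33265832661) (nat_lit 76) (nat_lit 5605589439) (nat_lit 10) (nat_lit 4) (nat_lit 11) (nat_lit 5) (nat_lit 11) (nat_lit 4) (nat_lit 330) (nat_lit 261) (nat_lit 189)))))) (XT.nd (nat_lit 390) (nat_lit 76) (nat_lit 0) (XT.nd (nat_lit 156) (nat_lit 76) (nat_lit 0) (XT.nd (nat_lit 78) (nat_lit 76) (nat_lit 0) (XT.lf (nat_lit 0) (nat_lit 16210403686) (nat_lit 76) (nat_lit 28330613958) (nat_lit 76) (nat_lit 629899112) (nat_lit 10) (nat_lit 4) (nat_lit 11) (nat_lit 5) (nat_lit 11) (nat_lit 4) (nat_lit 331) (nat_lit 261)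 (nat_lit 188)) (XT.lf (nat_lit 0) (nat_lit 4430581435) (nat_lit 152) (nat_lit 18656567307) (nat_lit 76) (nat_lit 24017255247) (nat_lit 9) (nat_lit 5) (nat_lit 11) (nat_lit 5) (nat_lit 10) (nat_lit 4) (nat_lit 332) (nat_lit 261) (nat_lit 187))) (XT.nd (nat_lit 78) (nat_lit 76) (nat_lit 0) (XT.lf (nat_lit 0) (nat_lit 9706784718) (nat_lit 152) (nat_lit 7877059534) (nat_lit 76) (nat_lit 31551022037) (nat_lit 9) (nat_lit 5) (nat_lit 11) (nat_lit 5) (nat_lit 10) (nat_lit 4) (nat_lit 333) (nat_lit 261) (nat_lit 186)) (XT.nd (nat_lit 78) (nat_lit 0) (nat_lit 0) (XT.lf (nat_lit 0) (nat_lit 3526376299) (nat_lit 76) (nat_lit 11760114147) (nat_lit 152) (nat_lit 35978386534) (nat_lit 8) (nat_lit 5) (nat_lit 9) (nat_lit 5) (nat_lit 10) (nat_lit 4) (nat_lit 334) (nat_lit 261) (nat_lit 185)) (XT.lf (nat_lit 0) (nat_lit 15745994467) (nat_lit 76) (nat_lit 5517527332) (nat_lit 152) (nat_lit 32231958812)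 (nat_lit 8) (nat_lit 5) (nat_lit 9) (nat_lit 5) (nat_lit 10) (nat_lit 4) (nat_lit 335) (nat_lit 261) (nat_lit 184))))) (XT.nd (nat_lit 156) (nat_lit 76) (nat_lit 0) (XT.nd (nat_lit 78) (nat_lit 0) (nat_lit 0) (XT.lf (nat_lit 0) (nat_lit 27541069476) (nat_lit 152) (nat_lit 27303911492) (nat_lit 0) (nat_lit 992559191) (nat_lit 8) (nat_lit 5) (nat_lit 10) (nat_lit 4) (nat_lit 8) (nat_lit 4) (nat_lit 336) (nat_lit 261) (nat_lit 183)) (XT.lf (nat_lit 0) (nat_lit 34209108976) (nat_lit 152) (nat_lit 16451935268) (nat_lit 0) (nat_lit 7631836264) (nat_lit 8) (nat_lit 5) (nat_lit 10) (nat_lit 4) (nat_lit 8) (nat_lit 4) (nat_lit 337) (nat_lit 261) (nat_lit 182))) (XT.nd (nat_lit 78) (nat_lit 76) (nat_lit 0) (XT.lf (nat_lit 0) (nat_lit 41197372521) (nat_lit 152) (nat_lit 5081575368) (nat_lit 0) (nat_lit 14592707020) (nat_lit 8) (nat_lit 5) (nat_lit 10) (nat_lit 4) (nat_lit 8) (nat_lit 4) (nat_lit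 338) (nat_lit 261) (nat_lit 181)) (XT.nd (nat_lit 78) (nat_lit 0) (nat_lit 0) (XT.lf (nat_lit 0) (nat_lit 7060211347) (nat_lit 76) (nat_lit 41572517170) (nat_lit 76) (nat_lit 14941763299) (nat_lit 7) (nat_lit 4) (nat_lit 8) (nat_lit 5) (nat_lit 8) (nat_lit 4) (nat_lit 339) (nat_lit 261) (nat_lit 180)) (XT.lf (nat_lit 0) (nat_lit 19962818156) (nat_lit 76) (nat_lit 36550786069) (nat_lit 76) (nat_lit 9895186132) (nat_lit 7) (nat_lit 4) (nat_lit 8) (nat_lit 5) (nat_lit 8) (nat_lit 4) (nat_lit 340) (nat_lit 261) (nat_lit 179))))))) (XT.nd (nat_lit 780) (nat_lit 152) (nat_lit 0) (XT.nd (nat_lit 390) (nat_lit 0) (nat_lit 0) (XT.nd (nat_lit 156) (nat_lit 76) (nat_lit 0) (XT.nd (nat_lit 78) (nat_lit 76) (nat_lit 0) (XT.lf (nat_lit 0) (nat_lit 33488945718) (nat_lit 76) (nat_lit 31287857021) (nat_lit 76) (nat_lit 4608594163) (nat_lit 7) (nat_lit 4) (nat_lit 8) (nat_lit 5) (nat_lit 8) (nat_lit 4)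 (nat_lit 341) (nat_lit 261) (nat_lit 178)) (XT.lf (nat_lit 0) (nat_lit 900814726) (nat_lit 152) (nat_lit 24855128783) (nat_lit 76) (nat_lit 46754728640) (nat_lit 6) (nat_lit 5) (nat_lit 8) (nat_lit 5) (nat_lit 7) (nat_lit 4) (nat_lit 342) (nat_lit 261) (nat_lit 177))) (XT.nd (nat_lit 78) (nat_lit 76) (nat_lit 0) (XT.lf (nat_lit 0) (nat_lit 6520003347) (nat_lit 152) (nat_lit 13357255075) (nat_lit 76) (nat_lit 55911721858) (nat_lit 6) (nat_lit 5) (nat_lit 8) (nat_lit 5) (nat_lit 7) (nat_lit 4) (nat_lit 343) (nat_lit 261) (nat_lit 176)) (XT.nd (nat_lit 78) (nat_lit 76) (nat_lit 0) (XT.lf (nat_lit 0) (nat_lit 12409854515) (nat_lit 152) (nat_lit 1303501101) (nat_lit 76) (nat_lit 65518368832) (nat_lit 6) (nat_lit 5) (nat_lit 8) (nat_lit 5) (nat_lit 7) (nat_lit 4) (nat_lit 344) (nat_lit 261) (nat_lit 175)) (XT.lf (nat_lit 0) (nat_lit 11709613307) (nat_lit 76) (nat_lit 7057598258) (nat_lit 152)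 (nat_lit 64070749101) (nat_lit 5) (nat_lit 5) (nat_lit 6) (nat_lit 5) (nat_lit 7) (nat_lit 4) (nat_lit 345) (nat_lit 261) (nat_lit 174))))) (XT.nd (nat_lit 156) (nat_lit 0) (nat_lit 0) (XT.nd (nat_lit 78) (nat_lit 0) (nat_lit 0) (XT.lf (nat_lit 0) (nat_lit 25400822099) (nat_lit 76) (nat_lit 54072056) (nat_lit 152) (nat_lit 61168996902) (nat_lit 5) (nat_lit 5) (nat_lit 6) (nat_lit 5) (nat_lit 7) (nat_lit 4) (nat_lit 346) (nat_lit 261) (nat_lit 173)) (XT.lf (nat_lit 0) (nat_lit 32581646913) (nat_lit 152) (nat_lit 50953802982) (nat_lit 0) (nat_lit 7058438766) (nat_lit 5) (nat_lit 5) (nat_lit 7) (nat_lit 4) (nat_lit 5) (nat_lit 4) (nat_lit 347) (nat_lit 261) (nat_lit 172))) (XT.nd (nat_lit 78) (nat_lit 0) (nat_lit 0) (XT.lf (nat_lit 0) (nat_lit 40056784071) (nat_lit 152) (nat_lit 40188444568) (nat_lit 0) (nat_lit 14517559927) (nat_lit 5) (nat_lit 5) (nat_lit 7) (nat_lit 4) (nat_lit 5) (nat_lit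 4) (nat_lit 348) (nat_lit 261) (nat_lit 171)) (XT.nd (nat_lit 78) (nat_lit 0) (nat_lit 0) (XT.lf (nat_lit 0) (nat_lit 47897259357) (nat_lit 152) (nat_lit 28900517694) (nat_lit 0) (nat_lit 22342781883) (nat_lit 5) (nat_lit 5) (nat_lit 7) (nat_lit 4) (nat_lit 5) (nat_lit 4) (nat_lit 349) (nat_lit 261) (nat_lit 170)) (XT.lf (nat_lit 0) (nat_lit 56121740569) (nat_lit 152) (nat_lit 17063146344) (nat_lit 0) (nat_lit 30552736115) (nat_lit 5) (nat_lit 5) (nat_lit 7) (nat_lit 4) (nat_lit 5) (nat_lit 4) (nat_lit 350) (nat_lit 261) (nat_lit 169)))))) (XT.nd (nat_lit 390) (nat_lit 76) (nat_lit 0) (XT.nd (nat_lit 156) (nat_lit 0) (nat_lit 0) (XT.nd (nat_lit 78) (nat_lit 76) (nat_lit 0) (XT.lf (nat_lit 0) (nat_lit 64749809806) (nat_lit 152) (nat_lit 4648146301) (nat_lit 0) (nat_lit 39166970133) (nat_lit 5) (nat_lit 5) (nat_lit 7) (nat_lit 4) (nat_lit 5) (nat_lit 4) (nat_lit 351) (nat_lit 261) (nat_lit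 168)) (XT.lf (nat_lit 0) (nat_lit 8650925604) (nat_lit 76) (nat_lit 65286149679) (nat_lit 76) (nat_lit 39690133606) (nat_lit 4) (nat_lit 4) (nat_lit 5) (nat_lit 5) (nat_lit 5) (nat_lit 4) (nat_lit 352) (nat_lit 261) (nat_lit 167))) (XT.nd (nat_lit 78) (nat_lit 0) (nat_lit 0) (XT.lf (nat_lit 0) (nat_lit 22762981203) (nat_lit 76) (nat_lit 60892307005) (nat_lit 76) (nat_lit 35283741980) (nat_lit 4) (nat_lit 4) (nat_lit 5) (nat_lit 5) (nat_lit 5) (nat_lit 4) (nat_lit 353) (nat_lit 261) (nat_lit 166)) (XT.nd (nat_lit 78) (nat_lit 0) (nat_lit 0) (XT.lf (nat_lit 0) (nat_lit 37567931918) (nat_lit 76) (nat_lit 56284685164) (nat_lit 76) (nat_lit 30664168757) (nat_lit 4) (nat_lit 4) (nat_lit 5) (nat_lit 5) (nat_lit 5) (nat_lit 4) (nat_lit 354) (nat_lit 261) (nat_lit 165)) (XT.lf (nat_lit 0) (nat_lit 53101027633) (nat_lit 76) (nat_lit 51452313628) (nat_lit 76) (nat_lit 25820414950) (nat_lit 4) (nat_lit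 4) (nat_lit 5) (nat_lit 5) (nat_lit 5) (nat_lit 4) (nat_lit 355) (nat_lit 261) (nat_lit 164))))) (XT.nd (nat_lit 234) (nat_lit 76) (nat_lit 0) (XT.nd (nat_lit 78) (nat_lit 0) (nat_lit 0) (XT.lf (nat_lit 0) (nat_lit 69399251908) (nat_lit 76) (nat_lit 46383686748) (nat_lit 76) (nat_lit 20740947815) (nat_lit 4) (nat_lit 4) (nat_lit 5) (nat_lit 5) (nat_lit 5) (nat_lit 4) (nat_lit 356) (nat_lit 261) (nat_lit 163)) (XT.nd (nat_lit 78) (nat_lit 0) (nat_lit 0) (XT.lf (nat_lit 0) (nat_lit 86501410041) (nat_lit 76) (nat_lit 41066736368) (nat_lit 76) (nat_lit 15413673380) (nat_lit 4) (nat_lit 4) (nat_lit 5) (nat_lit 5) (nat_lit 5) (nat_lit 4) (nat_lit 357) (nat_lit 261) (nat_lit 162)) (XT.lf (nat_lit 0) (nat_lit 104448221453) (nat_lit 76) (nat_lit 35488803080) (nat_lit 76) (nat_lit 9825907660) (nat_lit 4) (nat_lit 4) (nat_lit 5) (nat_lit 5) (nat_lit 5) (nat_lit 4) (nat_lit 358) (nat_lit 261) (nat_lit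 161)))) (XT.nd (nat_lit 78) (nat_lit 76) (nat_lit 0) (XT.lf (nat_lit 0) (nat_lit 123282416650) (nat_lit 76) (nat_lit 29636606091) (nat_lit 76) (nat_lit 3964346450) (nat_lit 4) (nat_lit 4) (nat_lit 5) (nat_lit 5) (nat_lit 5) (nat_lit 4) (nat_lit 359) (nat_lit 261) (nat_lit 160)) (XT.nd (nat_lit 78) (nat_lit 0) (nat_lit 0) (XT.lf (nat_lit 0) (nat_lit 2115033778) (nat_lit 152) (nat_lit 21345358699) (nat_lit 76) (nat_lit 140897986054) (nat_lit 3) (nat_lit 5) (nat_lit 5) (nat_lit 5) (nat_lit 4) (nat_lit 4) (nat_lit 360) (nat_lit 261) (nat_lit 159)) (XT.lf (nat_lit 0) (nat_lit 8360244514) (nat_lit 152) (nat_lit 8551170316) (nat_lit 76) (nat_lit 155292721971) (nat_lit 3) (nat_lit 5) (nat_lit 5) (nat_lit 5) (nat_lit 4) (nat_lit 4) (nat_lit 361) (nat_lit 261) (nat_lit 158))))))))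
noncomputable def xc112 : XT := (XT.nd (nat_lit 1560) (nat_lit 0) (nat_lit 0) (XT.nd (nat_lit 780) (nat_lit 76) (nat_lit 0) (XT.nd (nat_lit 390) (nat_lit 0) (nat_lit 0) (XT.nd (nat_lit 156) (nat_lit 0) (nat_lit 0) (XT.nd (nat_lit 78) (nat_lit 0) (nat_lit 0) (XT.lf (nat_lit 0) (nat_lit 5035124963) (nat_lit 76) (nat_lit 9956526598) (nat_lit 152) (nat_lit 165446836924) (nat_lit 2) (nat_lit 5) (nat_lit 3) (nat_lit 5) (nat_lit 4) (nat_lit 4) (nat_lit 362) (nat_lit 261) (nat_lit 157)) (XT.lf (nat_lit 0) (nat_lit 19588995622) (nat_lit 76) (nat_lit 2505863073) (nat_lit 152) (nat_lit 166982689750) (nat_lit 2) (nat_lit 5) (nat_lit 3) (nat_lit 5) (nat_lit 4) (nat_lit 4) (nat_lit 363) (nat_lit 261) (nat_lit 156))) (XT.nd (nat_lit 78) (nat_lit 0) (nat_lit 0) (XT.lf (nat_lit 0) (nat_lit 29631814799) (nat_lit 152) (nat_lit 163369387137) (nat_lit 0) (nat_lit 5143432115) (nat_lit 2) (nat_lit 5) (nat_lit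 4) (nat_lit 4) (nat_lit 2) (nat_lit 4) (nat_lit 364) (nat_lit 261) (nat_lit 155)) (XT.nd (nat_lit 78) (nat_lit 0) (nat_lit 0) (XT.lf (nat_lit 0) (nat_lit 37582479505) (nat_lit 152) (nat_lit 156993311522) (nat_lit 0) (nat_lit 13087441844) (nat_lit 2) (nat_lit 5) (nat_lit 4) (nat_lit 4) (nat_lit 2) (nat_lit 4) (nat_lit 365) (nat_lit 261) (nat_lit 154)) (XT.lf (nat_lit 0) (nat_lit 45926659425) (nat_lit 152) (nat_lit 150306021304) (nat_lit 0) (nat_lit 21425283691) (nat_lit 2) (nat_lit 5) (nat_lit 4) (nat_lit 4) (nat_lit 2) (nat_lit 4) (nat_lit 366) (nat_lit 261) (nat_lit 153))))) (XT.nd (nat_lit 156) (nat_lit 0) (nat_lit 0) (XT.nd (nat_lit 78) (nat_lit 0) (nat_lit 0) (XT.lf (nat_lit 0) (nat_lit 54684221653) (nat_lit 152) (nat_lit 143291594361) (nat_lit 0) (nat_lit 30176809658) (nat_lit 2) (nat_lit 5) (nat_lit 4) (nat_lit 4) (nat_lit 2) (nat_lit 4) (nat_lit 367) (nat_lit 261) (nat_lit 152))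 (XT.lf (nat_lit 0) (nat_lit 63876017527) (nat_lit 152) (nat_lit 135933329678) (nat_lit 0) (nat_lit 39362856713) (nat_lit 2) (nat_lit 5) (nat_lit 4) (nat_lit 4) (nat_lit 2) (nat_lit 4) (nat_lit 368) (nat_lit 261) (nat_lit 151))) (XT.nd (nat_lit 78) (nat_lit 0) (nat_lit 0) (XT.lf (nat_lit 0) (nat_lit 73523932277) (nat_lit 152) (nat_lit 128213707576) (nat_lit 0) (nat_lit 49005296396) (nat_lit 2) (nat_lit 5) (nat_lit 4) (nat_lit 4) (nat_lit 2) (nat_lit 4) (nat_lit 369) (nat_lit 261) (nat_lit 150)) (XT.nd (nat_lit 78) (nat_lit 0) (nat_lit 0) (XT.lf (nat_lit 0) (nat_lit 83650937127) (nat_lit 152) (nat_lit 120114348003) (nat_lit 0) (nat_lit 59127086898) (nat_lit 2) (nat_lit 5) (nat_lit 4) (nat_lit 4) (nat_lit 2) (nat_lit 4) (nat_lit 370) (nat_lit 261) (nat_lit 149)) (XT.lf (nat_lit 0) (nat_lit 94281143994) (nat_lit 152) (nat_lit 111615966769) (nat_lit 0) (nat_lit 69752327719) (nat_lit 2) (nat_lit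 5) (nat_lit 4) (nat_lit 4) (nat_lit 2) (nat_lit 4) (nat_lit 371) (nat_lit 261) (nat_lit 148)))))) (XT.nd (nat_lit 390) (nat_lit 76) (nat_lit 0) (XT.nd (nat_lit 156) (nat_lit 0) (nat_lit 0) (XT.nd (nat_lit 78) (nat_lit 0) (nat_lit 0) (XT.lf (nat_lit 0) (nat_lit 105439862894) (nat_lit 152) (nat_lit 102698329634) (nat_lit 0) (nat_lit 80906317051) (nat_lit 2) (nat_lit 5) (nat_lit 4) (nat_lit 4) (nat_lit 2) (nat_lit 4) (nat_lit 372) (nat_lit 261) (nat_lit 147)) (XT.lf (nat_lit 0) (nat_lit 117153662206) (nat_lit 152) (nat_lit 93340204128) (nat_lit 0) (nat_lit 92615612013) (nat_lit 2) (nat_lit 5) (nat_lit 4) (nat_lit 4) (nat_lit 2) (nat_lit 4) (nat_lit 373) (nat_lit 261) (nat_lit 146))) (XT.nd (nat_lit 78) (nat_lit 0) (nat_lit 0) (XT.lf (nat_lit 0) (nat_lit 129450431928) (nat_lit 152) (nat_lit 83519309000) (nat_lit 0) (nat_lit 104908091877) (nat_lit 2) (nat_lit 5) (nat_lit 4) (nat_lit 4) (nat_lit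 2) (nat_lit 4) (nat_lit 374) (nat_lit 261) (nat_lit 145)) (XT.nd (nat_lit 78) (nat_lit 0) (nat_lit 0) (XT.lf (nat_lit 0) (nat_lit 142359450084) (nat_lit 152) (nat_lit 73212261166) (nat_lit 0) (nat_lit 117813024453) (nat_lit 2) (nat_lit 5) (nat_lit 4) (nat_lit 4) (nat_lit 2) (nat_lit 4) (nat_lit 375) (nat_lit 261) (nat_lit 144)) (XT.lf (nat_lit 0) (nat_lit 155911452429) (nat_lit 152) (nat_lit 62394520036) (nat_lit 0) (nat_lit 131361135772) (nat_lit 2) (nat_lit 5) (nat_lit 4) (nat_lit 4) (nat_lit 2) (nat_lit 4) (nat_lit 376) (nat_lit 261) (nat_lit 143))))) (XT.nd (nat_lit 156) (nat_lit 76) (nat_lit 0) (XT.nd (nat_lit 78) (nat_lit 0) (nat_lit 0) (XT.lf (nat_lit 0) (nat_lit 170138705638) (nat_lit 152) (nat_lit 51040329083) (nat_lit 0) (nat_lit 145584683240) (nat_lit 2) (nat_lit 5) (nat_lit 4) (nat_lit 4) (nat_lit 2) (nat_lit 4) (nat_lit 377) (nat_lit 261) (nat_lit 142)) (XT.lf (nat_lit 0)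 (nat_lit 185075084122) (nat_lit 152) (nat_lit 39122654520) (nat_lit 0) (nat_lit 160517532448) (nat_lit 2) (nat_lit 5) (nat_lit 4) (nat_lit 4) (nat_lit 2) (nat_lit 4) (nat_lit 378) (nat_lit 261) (nat_lit 141))) (XT.nd (nat_lit 78) (nat_lit 76) (nat_lit 0) (XT.lf (nat_lit 0) (nat_lit 200756150687) (nat_lit 152) (nat_lit 26613120932) (nat_lit 0) (nat_lit 176195237797) (nat_lit 2) (nat_lit 5) (nat_lit 4) (nat_lit 4) (nat_lit 2) (nat_lit 4) (nat_lit 379) (nat_lit 261) (nat_lit 140)) (XT.nd (nat_lit 78) (nat_lit 76) (nat_lit 0) (XT.lf (nat_lit 0) (nat_lit 217219241206) (nat_lit 152) (nat_lit 13481943713) (nat_lit 0) (nat_lit 192655127159) (nat_lit 2) (nat_lit 5) (nat_lit 4) (nat_lit 4) (nat_lit 2) (nat_lit 4) (nat_lit 380) (nat_lit 261) (nat_lit 139)) (XT.lf (nat_lit 0) (nat_lit 312132015) (nat_lit 76) (nat_lit 234196294754) (nat_lit 76) (nat_lit 209629131984) (nat_lit 1) (nat_lit 4) (nat_lit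 2) (nat_lit 5) (nat_lit 2) (nat_lit 4) (nat_lit 381) (nat_lit 261) (nat_lit 138))))))) (XT.nd (nat_lit 31512) (nat_lit 0) (nat_lit 7980) (XT.nd (nat_lit 390) (nat_lit 0) (nat_lit 0) (XT.nd (nat_lit 156) (nat_lit 0) (nat_lit 0) (XT.nd (nat_lit 78) (nat_lit 0) (nat_lit 0) (XT.lf (nat_lit 0) (nat_lit 15260382530) (nat_lit 76) (nat_lit 237628115543) (nat_lit 76) (nat_lit 213058049229) (nat_lit 1) (nat_lit 4) (nat_lit 2) (nat_lit 5) (nat_lit 2) (nat_lit 4) (nat_lit 382) (nat_lit 261) (nat_lit 137)) (XT.lf (nat_lit 0) (nat_lit 30952624957) (nat_lit 76) (nat_lit 241233141529) (nat_lit 76) (nat_lit 216660309935) (nat_lit 1) (nat_lit 4) (nat_lit 2) (nat_lit 5) (nat_lit 2) (nat_lit 4) (nat_lit 383) (nat_lit 261) (nat_lit 136))) (XT.nd (nat_lit 78) (nat_lit 0) (nat_lit 0) (XT.lf (nat_lit 0) (nat_lit 47426221779) (nat_lit 76) (nat_lit 245019956109) (nat_lit 76) (nat_lit 220444490914) (nat_lit 1)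 (nat_lit 4) (nat_lit 2) (nat_lit 5) (nat_lit 2) (nat_lit 4) (nat_lit 384) (nat_lit 261) (nat_lit 135)) (XT.nd (nat_lit 78) (nat_lit 0) (nat_lit 0) (XT.lf (nat_lit 0) (nat_lit 64720395844) (nat_lit 76) (nat_lit 248997575506) (nat_lit 76) (nat_lit 224419602121) (nat_lit 1) (nat_lit 4) (nat_lit 2) (nat_lit 5) (nat_lit 2) (nat_lit 4) (nat_lit 385) (nat_lit 261) (nat_lit 134)) (XT.lf (nat_lit 0) (nat_lit 82876323758) (nat_lit 76) (nat_lit 253175470245) (nat_lit 76) (nat_lit 228595108106) (nat_lit 1) (nat_lit 4) (nat_lit 2) (nat_lit 5) (nat_lit 2) (nat_lit 4) (nat_lit 386) (nat_lit 261) (nat_lit 133))))) (XT.nd (nat_lit 30888) (nat_lit 0) (nat_lit 9500) (XT.nd (nat_lit 78) (nat_lit 0) (nat_lit 0) (XT.lf (nat_lit 0) (nat_lit 101937233921) (nat_lit 76) (nat_lit 257563587692) (nat_lit 76) (nat_lit 232980950550) (nat_lit 1) (nat_lit 4) (nat_lit 2) (nat_lit 5) (nat_lit 2) (nat_lit 4) (nat_lit 387)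 (nat_lit 261) (nat_lit 132)) (XT.lf (nat_lit 0) (nat_lit 121948509452) (nat_lit 76) (nat_lit 262172375746) (nat_lit 76) (nat_lit 237587571935) (nat_lit 1) (nat_lit 4) (nat_lit 2) (nat_lit 5) (nat_lit 2) (nat_lit 4) (nat_lit 388) (nat_lit 261) (nat_lit 131))) (XT.nd (nat_lit 78) (nat_lit 228) (nat_lit 0) (XT.lf (nat_lit 0) (nat_lit 2294691917) (nat_lit 228) (nat_lit 474985152) (nat_lit 228) (nat_lit 474985152) (nat_lit 129) (nat_lit 3) (nat_lit 132) (nat_lit 3) (nat_lit 132) (nat_lit 5) (nat_lit 262) (nat_lit 262) (nat_lit 256)) (XT.nd (nat_lit 78) (nat_lit 0) (nat_lit 0) (XT.lf (nat_lit 0) (nat_lit 645828685) (nat_lit 228) (nat_lit 4429266984) (nat_lit 304) (nat_lit 1442125577) (nat_lit 126) (nat_lit 5) (nat_lit 129) (nat_lit 3) (nat_lit 130) (nat_lit 5) (nat_lit 263) (nat_lit 262) (nat_lit 255)) (XT.lf (nat_lit 0) (nat_lit 3110154542) (nat_lit 228) (nat_lit 1357603466) (nat_lit 304)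 (nat_lit 2085037560) (nat_lit 126) (nat_lit 5) (nat_lit 129) (nat_lit 3) (nat_lit 130) (nat_lit 5) (nat_lit 264) (nat_lit 262) (nat_lit 254)))))) (XT.nd (nat_lit 390) (nat_lit 912) (nat_lit 0) (XT.nd (nat_lit 156) (nat_lit 304) (nat_lit 0) (XT.nd (nat_lit 78) (nat_lit 304) (nat_lit 0) (XT.lf (nat_lit 76) (nat_lit 1839627010) (nat_lit 0) (nat_lit 3733235809) (nat_lit 304) (nat_lit 1024095040) (nat_lit 127) (nat_lit 5) (nat_lit 126) (nat_lit 5) (nat_lit 130) (nat_lit 5) (nat_lit 265) (nat_lit 262) (nat_lit 253)) (XT.lf (nat_lit 0) (nat_lit 1339724476) (nat_lit 304) (nat_lit 1513348872) (nat_lit 380) (nat_lit 3795944352) (nat_lit 122) (nat_lit 5) (nat_lit 126) (nat_lit 5) (nat_lit 127) (nat_lit 5) (nat_lit 266) (nat_lit 262) (nat_lit 252))) (XT.nd (nat_lit 78) (nat_lit 304) (nat_lit 0) (XT.lf (nat_lit 76) (nat_lit 1848555840) (nat_lit 0) (nat_lit 1824270829) (nat_lit 380) (nat_lit 3036229320)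 (nat_lit 123) (nat_lit 5) (nat_lit 122) (nat_lit 5) (nat_lit 127) (nat_lit 5) (nat_lit 267) (nat_lit 262) (nat_lit 251)) (XT.nd (nat_lit 78) (nat_lit 304) (nat_lit 0) (XT.lf (nat_lit 76) (nat_lit 5345840226) (nat_lit 0) (nat_lit 664515173) (nat_lit 380) (nat_lit 767819153) (nat_lit 123) (nat_lit 5) (nat_lit 122) (nat_lit 5) (nat_lit 127) (nat_lit 5) (nat_lit 268) (nat_lit 262) (nat_lit 250)) (XT.lf (nat_lit 0) (nat_lit 1471979192) (nat_lit 380) (nat_lit 4741314159) (nat_lit 76) (nat_lit 641137944) (nat_lit 118) (nat_lit 5) (nat_lit 123) (nat_lit 5) (nat_lit 119) (nat_lit 5) (nat_lit 269) (nat_lit 262) (nat_lit 249))))) (XT.nd (nat_lit 156) (nat_lit 532) (nat_lit 0) (XT.nd (nat_lit 78) (nat_lit 380) (nat_lit 0) (XT.lf (nat_lit 0) (nat_lit 3705379138) (nat_lit 380) (nat_lit 1163790055) (nat_lit 76) (nat_lit 2069734903) (nat_lit 118) (nat_lit 5) (nat_lit 123) (nat_lit 5) (nat_lit 119) (nat_lit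 5) (nat_lit 270) (nat_lit 262) (nat_lit 248)) (XT.lf (nat_lit 0) (nat_lit 2587628546) (nat_lit 380) (nat_lit 3381189062) (nat_lit 456) (nat_lit 1063248648) (nat_lit 113) (nat_lit 5) (nat_lit 118) (nat_lit 5) (nat_lit 119) (nat_lit 5) (nat_lit 271) (nat_lit 262) (nat_lit 247))) (XT.nd (nat_lit 78) (nat_lit 456) (nat_lit 0) (XT.lf (nat_lit 0) (nat_lit 1076818200) (nat_lit 456) (nat_lit 671876988) (nat_lit 76) (nat_lit 5385581785) (nat_lit 112) (nat_lit 5) (nat_lit 118) (nat_lit 5) (nat_lit 113) (nat_lit 5) (nat_lit 272) (nat_lit 262) (nat_lit 246)) (XT.nd (nat_lit 78) (nat_lit 0) (nat_lit 0) (XT.lf (nat_lit 0) (nat_lit 3226413404) (nat_lit 532) (nat_lit 3954388022) (nat_lit 76) (nat_lit 63344267) (nat_lit 106) (nat_lit 5) (nat_lit 113) (nat_lit 5) (nat_lit 107) (nat_lit 5) (nat_lit 273) (nat_lit 262) (nat_lit 245)) (XT.lf (nat_lit 0) (nat_lit 5414076629) (nat_lit 532) (nat_lit 6186322)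 (nat_lit 76) (nat_lit 1943031522) (nat_lit 106) (nat_lit 5) (nat_lit 113) (nat_lit 5) (nat_lit 107) (nat_lit 5) (nat_lit 274) (nat_lit 262) (nat_lit 244))))))))
noncomputable def xc113 : XT := (XT.nd (nat_lit 1560) (nat_lit 1748) (nat_lit 0) (XT.nd (nat_lit 780) (nat_lit 1672) (nat_lit 0) (XT.nd (nat_lit 390) (nat_lit 1216) (nat_lit 0) (XT.nd (nat_lit 156) (nat_lit 760) (nat_lit 0) (XT.nd (nat_lit 78) (nat_lit 608) (nat_lit 0) (XT.lf (nat_lit 0) (nat_lit 175603428) (nat_lit 608) (nat_lit 3306916348) (nat_lit 76) (nat_lit 4007993224) (nat_lit 98) (nat_lit 5) (nat_lit 106) (nat_lit 5) (nat_lit 99) (nat_lit 5) (nat_lit 275) (nat_lit 262) (nat_lit 243)) (XT.lf (nat_lit 0) (nat_lit 865626009) (nat_lit 608) (nat_lit 1386440470) (nat_lit 684) (nat_lit 5375155899) (nat_lit 90) (nat_lit 5) (nat_lit 98) (nat_lit 5) (nat_lit 99) (nat_lit 5) (nat_lit 276) (nat_lit 262) (nat_lit 242))) (XT.nd (nat_lit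 78) (nat_lit 760) (nat_lit 0) (XT.lf (nat_lit 0) (nat_lit 4402978514) (nat_lit 684) (nat_lit 2513078240) (nat_lit 76) (nat_lit 856439185) (nat_lit 90) (nat_lit 5) (nat_lit 99) (nat_lit 5) (nat_lit 91) (nat_lit 5) (nat_lit 277) (nat_lit 262) (nat_lit 241)) (XT.nd (nat_lit 78) (nat_lit 76) (nat_lit 0) (XT.lf (nat_lit 0) (nat_lit 1897210769) (nat_lit 684) (nat_lit 4722277323) (nat_lit 760) (nat_lit 1307890114) (nat_lit 81) (nat_lit 5) (nat_lit 90) (nat_lit 5) (nat_lit 91) (nat_lit 5) (nat_lit 278) (nat_lit 262) (nat_lit 240)) (XT.lf (nat_lit 0) (nat_lit 779761315) (nat_lit 760) (nat_lit 1577204272) (nat_lit 76) (nat_lit 5735076416) (nat_lit 80) (nat_lit 5) (nat_lit 90) (nat_lit 5) (nat_lit 81) (nat_lit 5) (nat_lit 279) (nat_lit 262) (nat_lit 239))))) (XT.nd (nat_lit 156) (nat_lit 760) (nat_lit 0) (XT.nd (nat_lit 78) (nat_lit 0) (nat_lit 0) (XT.lf (nat_lit 0) (nat_lit 2890765895) (nat_lit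 532) (nat_lit 5179597468) (nat_lit 76) (nat_lit 195571281) (nat_lit 74) (nat_lit 5) (nat_lit 81) (nat_lit 5) (nat_lit 75) (nat_lit 5) (nat_lit 280) (nat_lit 262) (nat_lit 238)) (XT.lf (nat_lit 0) (nat_lit 5087540405) (nat_lit 532) (nat_lit 537759645) (nat_lit 76) (nat_lit 2824414603) (nat_lit 74) (nat_lit 5) (nat_lit 81) (nat_lit 5) (nat_lit 75) (nat_lit 5) (nat_lit 281) (nat_lit 262) (nat_lit 237))) (XT.nd (nat_lit 78) (nat_lit 380) (nat_lit 0) (XT.lf (nat_lit 0) (nat_lit 4391674636) (nat_lit 380) (nat_lit 2989552328) (nat_lit 456) (nat_lit 1262297051) (nat_lit 69) (nat_lit 5) (nat_lit 74) (nat_lit 5) (nat_lit 75) (nat_lit 5) (nat_lit 282) (nat_lit 262) (nat_lit 236)) (XT.nd (nat_lit 78) (nat_lit 0) (nat_lit 0) (XT.lf (nat_lit 0) (nat_lit 659402771) (nat_lit 304) (nat_lit 192163047) (nat_lit 380) (nat_lit 7997940194) (nat_lit 64) (nat_lit 5) (nat_lit 68) (nat_lit 5) (nat_lit 69) (nat_lit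 5) (nat_lit 283) (nat_lit 262) (nat_lit 235)) (XT.lf (nat_lit 0) (nat_lit 3066741274) (nat_lit 380) (nat_lit 3252159616) (nat_lit 76) (nat_lit 2744117106) (nat_lit 64) (nat_lit 5) (nat_lit 69) (nat_lit 5) (nat_lit 65) (nat_lit 5) (nat_lit 284) (nat_lit 262) (nat_lit 234)))))) (XT.nd (nat_lit 390) (nat_lit 760) (nat_lit 0) (XT.nd (nat_lit 156) (nat_lit 608) (nat_lit 0) (XT.nd (nat_lit 78) (nat_lit 0) (nat_lit 0) (XT.lf (nat_lit 0) (nat_lit 1905694109) (nat_lit 304) (nat_lit 3445594061) (nat_lit 380) (nat_lit 3938146396) (nat_lit 60) (nat_lit 5) (nat_lit 64) (nat_lit 5) (nat_lit 65) (nat_lit 5) (nat_lit 285) (nat_lit 262) (nat_lit 233)) (XT.lf (nat_lit 0) (nat_lit 7350885423) (nat_lit 304) (nat_lit 382197683) (nat_lit 380) (nat_lit 1795089844) (nat_lit 60) (nat_lit 5) (nat_lit 64) (nat_lit 5) (nat_lit 65) (nat_lit 5) (nat_lit 286) (nat_lit 262) (nat_lit 232))) (XT.nd (nat_lit 78) (nat_lit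 304) (nat_lit 0) (XT.lf (nat_lit 0) (nat_lit 467309919) (nat_lit 304) (nat_lit 6518304977) (nat_lit 76) (nat_lit 2791678104) (nat_lit 56) (nat_lit 5) (nat_lit 60) (nat_lit 5) (nat_lit 57) (nat_lit 5) (nat_lit 287) (nat_lit 262) (nat_lit 231)) (XT.nd (nat_lit 78) (nat_lit 304) (nat_lit 0) (XT.lf (nat_lit 0) (nat_lit 2758225918) (nat_lit 304) (nat_lit 1114593357) (nat_lit 76) (nat_lit 6165923562) (nat_lit 56) (nat_lit 5) (nat_lit 60) (nat_lit 5) (nat_lit 57) (nat_lit 5) (nat_lit 288) (nat_lit 262) (nat_lit 230)) (XT.lf (nat_lit 0) (nat_lit 4627470749) (nat_lit 304) (nat_lit 543683422) (nat_lit 380) (nat_lit 5141862738) (nat_lit 52) (nat_lit 5) (nat_lit 56) (nat_lit 5) (nat_lit 57) (nat_lit 5) (nat_lit 289) (nat_lit 262) (nat_lit 229))))) (XT.nd (nat_lit 156) (nat_lit 532) (nat_lit 0) (XT.nd (nat_lit 78) (nat_lit 228) (nat_lit 0) (XT.lf (nat_lit 0) (nat_lit 7706832011) (nat_lit 380) (nat_lit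 32795149) (nat_lit 76) (nat_lit 2861391477) (nat_lit 52) (nat_lit 5) (nat_lit 57) (nat_lit 5) (nat_lit 53) (nat_lit 5) (nat_lit 290) (nat_lit 262) (nat_lit 228)) (XT.lf (nat_lit 0) (nat_lit 6008198071) (nat_lit 228) (nat_lit 4403651395) (nat_lit 304) (nat_lit 489556640) (nat_lit 49) (nat_lit 5) (nat_lit 52) (nat_lit 5) (nat_lit 53) (nat_lit 5) (nat_lit 291) (nat_lit 262) (nat_lit 227))) (XT.nd (nat_lit 78) (nat_lit 228) (nat_lit 0) (XT.lf (nat_lit 0) (nat_lit 1059106591) (nat_lit 228) (nat_lit 868600565) (nat_lit 304) (nat_lit 9289742605) (nat_lit 45) (nat_lit 5) (nat_lit 48) (nat_lit 5) (nat_lit 49) (nat_lit 5) (nat_lit 292) (nat_lit 262) (nat_lit 226)) (XT.nd (nat_lit 78) (nat_lit 228) (nat_lit 0) (XT.lf (nat_lit 0) (nat_lit 4519769819) (nat_lit 304) (nat_lit 4200031946) (nat_lit 76) (nat_lit 2825671151) (nat_lit 45) (nat_lit 5) (nat_lit 49) (nat_lit 5) (nat_lit 46) (nat_lit 5) (nat_lit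 293) (nat_lit 262) (nat_lit 225)) (XT.lf (nat_lit 0) (nat_lit 2030738973) (nat_lit 228) (nat_lit 5201184640) (nat_lit 304) (nat_lit 4658542543) (nat_lit 42) (nat_lit 5) (nat_lit 45) (nat_lit 5) (nat_lit 46) (nat_lit 5) (nat_lit 294) (nat_lit 262) (nat_lit 224))))))) (XT.nd (nat_lit 780) (nat_lit 684) (nat_lit 0) (XT.nd (nat_lit 390) (nat_lit 608) (nat_lit 0) (XT.nd (nat_lit 156) (nat_lit 152) (nat_lit 0) (XT.nd (nat_lit 78) (nat_lit 304) (nat_lit 0) (XT.lf (nat_lit 0) (nat_lit 8643880461) (nat_lit 228) (nat_lit 1452947427) (nat_lit 304) (nat_lit 2155112913) (nat_lit 42) (nat_lit 5) (nat_lit 45) (nat_lit 5) (nat_lit 46) (nat_lit 5) (nat_lit 295) (nat_lit 262) (nat_lit 223)) (XT.lf (nat_lit 0) (nat_lit 491690423) (nat_lit 304) (nat_lit 9700163000) (nat_lit 76) (nat_lit 2437678909) (nat_lit 38) (nat_lit 5) (nat_lit 42) (nat_lit 5) (nat_lit 39) (nat_lit 5) (nat_lit 296) (nat_lit 262) (nat_lit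 222))) (XT.nd (nat_lit 78) (nat_lit 152) (nat_lit 0) (XT.lf (nat_lit 0) (nat_lit 3233030622) (nat_lit 304) (nat_lit 3238503910) (nat_lit 76) (nat_lit 6551048071) (nat_lit 38) (nat_lit 5) (nat_lit 42) (nat_lit 5) (nat_lit 39) (nat_lit 5) (nat_lit 297) (nat_lit 262) (nat_lit 221)) (XT.nd (nat_lit 78) (nat_lit 0) (nat_lit 0) (XT.lf (nat_lit 0) (nat_lit 3590352167) (nat_lit 152) (nat_lit 2528281935) (nat_lit 228) (nat_lit 7316364597) (nat_lit 36) (nat_lit 5) (nat_lit 38) (nat_lit 5) (nat_lit 39) (nat_lit 5) (nat_lit 298) (nat_lit 262) (nat_lit 220)) (XT.lf (nat_lit 0) (nat_lit 9181468236) (nat_lit 228) (nat_lit 3090042059) (nat_lit 76) (nat_lit 1594947423) (nat_lit 36) (nat_lit 5) (nat_lit 39) (nat_lit 5) (nat_lit 37) (nat_lit 5) (nat_lit 299) (nat_lit 262) (nat_lit 219))))) (XT.nd (nat_lit 156) (nat_lit 304) (nat_lit 0) (XT.nd (nat_lit 78) (nat_lit 76) (nat_lit 0) (XT.lf (nat_lit 0) (nat_lit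 4021202011) (nat_lit 228) (nat_lit 8434791369) (nat_lit 304) (nat_lit 1860635167) (nat_lit 33) (nat_lit 5) (nat_lit 36) (nat_lit 5) (nat_lit 37) (nat_lit 5) (nat_lit 300) (nat_lit 262) (nat_lit 218)) (XT.lf (nat_lit 0) (nat_lit 1077414878) (nat_lit 304) (nat_lit 3278316935) (nat_lit 76) (nat_lit 10432381562) (nat_lit 32) (nat_lit 5) (nat_lit 36) (nat_lit 5) (nat_lit 33) (nat_lit 5) (nat_lit 301) (nat_lit 262) (nat_lit 217))) (XT.nd (nat_lit 78) (nat_lit 152) (nat_lit 0) (XT.lf (nat_lit 0) (nat_lit 4121135913) (nat_lit 228) (nat_lit 11155049889) (nat_lit 76) (nat_lit 4453923) (nat_lit 30) (nat_lit 5) (nat_lit 33) (nat_lit 5) (nat_lit 31) (nat_lit 5) (nat_lit 302) (nat_lit 262) (nat_lit 216)) (XT.nd (nat_lit 78) (nat_lit 152) (nat_lit 0) (XT.lf (nat_lit 0) (nat_lit 7402392744) (nat_lit 228) (nat_lit 3920107835) (nat_lit 76) (nat_lit 4471078894) (nat_lit 30) (nat_lit 5) (nat_lit 33) (nat_lit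 5) (nat_lit 31) (nat_lit 5) (nat_lit 303) (nat_lit 262) (nat_lit 215)) (XT.lf (nat_lit 0) (nat_lit 3732931248) (nat_lit 152) (nat_lit 7132600072) (nat_lit 228) (nat_lit 5465795910) (nat_lit 28) (nat_lit 5) (nat_lit 30) (nat_lit 5) (nat_lit 31) (nat_lit 5) (nat_lit 304) (nat_lit 262) (nat_lit 214)))))) (XT.nd (nat_lit 390) (nat_lit 304) (nat_lit 0) (XT.nd (nat_lit 156) (nat_lit 152) (nat_lit 0) (XT.nd (nat_lit 78) (nat_lit 228) (nat_lit 0) (XT.lf (nat_lit 0) (nat_lit 11842610576) (nat_lit 152) (nat_lit 2686099658) (nat_lit 228) (nat_lit 2365957465) (nat_lit 28) (nat_lit 5) (nat_lit 30) (nat_lit 5) (nat_lit 31) (nat_lit 5) (nat_lit 305) (nat_lit 262) (nat_lit 213)) (XT.lf (nat_lit 0) (nat_lit 898830583) (nat_lit 228) (nat_lit 14627012861) (nat_lit 76) (nat_lit 1957762390) (nat_lit 25) (nat_lit 5) (nat_lit 28) (nat_lit 5) (nat_lit 26) (nat_lit 5) (nat_lit 306) (nat_lit 262) (nat_lit 212)))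 (XT.nd (nat_lit 78) (nat_lit 152) (nat_lit 0) (XT.lf (nat_lit 0) (nat_lit 4340605145) (nat_lit 228) (nat_lit 6906919014) (nat_lit 76) (nat_lit 6847907221) (nat_lit 25) (nat_lit 5) (nat_lit 28) (nat_lit 5) (nat_lit 26) (nat_lit 5) (nat_lit 307) (nat_lit 262) (nat_lit 211)) (XT.nd (nat_lit 78) (nat_lit 0) (nat_lit 0) (XT.lf (nat_lit 0) (nat_lit 1178760097) (nat_lit 152) (nat_lit 6758171834) (nat_lit 228) (nat_lit 10801833818) (nat_lit 23) (nat_lit 5) (nat_lit 25) (nat_lit 5) (nat_lit 26) (nat_lit 5) (nat_lit 308) (nat_lit 262) (nat_lit 210)) (XT.lf (nat_lit 0) (nat_lit 9851306542) (nat_lit 152) (nat_lit 1943618521) (nat_lit 228) (nat_lit 7615288050) (nat_lit 23) (nat_lit 5) (nat_lit 25) (nat_lit 5) (nat_lit 26) (nat_lit 5) (nat_lit 309) (nat_lit 262) (nat_lit 209))))) (XT.nd (nat_lit 234) (nat_lit 152) (nat_lit 0) (XT.nd (nat_lit 78) (nat_lit 152) (nat_lit 0) (XT.lf (nat_lit 0) (nat_lit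 15860621670) (nat_lit 228) (nat_lit 1262200298) (nat_lit 76) (nat_lit 2991707619) (nat_lit 23) (nat_lit 5) (nat_lit 26) (nat_lit 5) (nat_lit 24) (nat_lit 4) (nat_lit 310) (nat_lit 262) (nat_lit 208)) (XT.nd (nat_lit 78) (nat_lit 76) (nat_lit 0) (XT.lf (nat_lit 0) (nat_lit 7607769106) (nat_lit 76) (nat_lit 12640305715) (nat_lit 152) (nat_lit 600098653) (nat_lit 22) (nat_lit 5) (nat_lit 23) (nat_lit 5) (nat_lit 24) (nat_lit 4) (nat_lit 311) (nat_lit 262) (nat_lit 207)) (XT.lf (nat_lit 0) (nat_lit 3122539454) (nat_lit 152) (nat_lit 4756690362) (nat_lit 76) (nat_lit 13737289006) (nat_lit 21) (nat_lit 5) (nat_lit 23) (nat_lit 5) (nat_lit 22) (nat_lit 5) (nat_lit 312) (nat_lit 262) (nat_lit 206)))) (XT.nd (nat_lit 78) (nat_lit 0) (nat_lit 0) (XT.lf (nat_lit 0) (nat_lit 4225728392) (nat_lit 152) (nat_lit 2820910266) (nat_lit 228) (nat_lit 15374406459) (nat_lit 19) (nat_lit 5) (nat_lit 21) (nat_lit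 5) (nat_lit 22) (nat_lit 5) (nat_lit 313) (nat_lit 262) (nat_lit 205)) (XT.nd (nat_lit 78) (nat_lit 0) (nat_lit 0) (XT.lf (nat_lit 0) (nat_lit 11257575473) (nat_lit 228) (nat_lit 9530836974) (nat_lit 76) (nat_lit 2472882584) (nat_lit 19) (nat_lit 5) (nat_lit 22) (nat_lit 5) (nat_lit 20) (nat_lit 4) (nat_lit 314) (nat_lit 262) (nat_lit 204)) (XT.lf (nat_lit 0) (nat_lit 15696612355) (nat_lit 228) (nat_lit 528211155) (nat_lit 76) (nat_lit 7917883829) (nat_lit 19) (nat_lit 5) (nat_lit 22) (nat_lit 5) (nat_lit 20) (nat_lit 4) (nat_lit 315) (nat_lit 262) (nat_lit 203))))))))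
noncomputable def xc114 : XT := (XT.nd (nat_lit 1560) (nat_lit 304) (nat_lit 0) (XT.nd (nat_lit 780) (nat_lit 304) (nat_lit 0) (XT.nd (nat_lit 390) (nat_lit 228) (nat_lit 0) (XT.nd (nat_lit 156) (nat_lit 228) (nat_lit 0) (XT.nd (nat_lit 78) (nat_lit 0) (nat_lit 0) (XT.lf (nat_lit 0) (nat_lit 9171585897) (nat_lit 76) (nat_lit 11301884387) (nat_lit 152) (nat_lit 4588952765) (nat_lit 18) (nat_lit 5) (nat_lit 19) (nat_lit 5) (nat_lit 20) (nat_lit 4) (nat_lit 316) (nat_lit 262) (nat_lit 202)) (XT.lf (nat_lit 0) (nat_lit 19328953147) (nat_lit 76) (nat_lit 6142425298) (nat_lit 152) (nat_lit 557660731) (nat_lit 18) (nat_lit 5) (nat_lit 19) (nat_lit 5) (nat_lit 20) (nat_lit 4) (nat_lit 317) (nat_lit 262) (nat_lit 201))) (XT.nd (nat_lit 78) (nat_lit 0) (nat_lit 0) (XT.lf (nat_lit 0) (nat_lit 2942544100) (nat_lit 152) (nat_lit 635058508) (nat_lit 228) (nat_lit 23462535373) (nat_lit 15) (nat_lit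 5) (nat_lit 17) (nat_lit 5) (nat_lit 18) (nat_lit 5) (nat_lit 318) (nat_lit 262) (nat_lit 200)) (XT.nd (nat_lit 78) (nat_lit 0) (nat_lit 0) (XT.lf (nat_lit 0) (nat_lit 8070945241) (nat_lit 228) (nat_lit 14932315888) (nat_lit 76) (nat_lit 5089592233) (nat_lit 15) (nat_lit 5) (nat_lit 18) (nat_lit 5) (nat_lit 16) (nat_lit 4) (nat_lit 319) (nat_lit 262) (nat_lit 199)) (XT.lf (nat_lit 0) (nat_lit 12774945013) (nat_lit 228) (nat_lit 5361797578) (nat_lit 76) (nat_lit 11062182986) (nat_lit 15) (nat_lit 5) (nat_lit 18) (nat_lit 5) (nat_lit 16) (nat_lit 4) (nat_lit 320) (nat_lit 262) (nat_lit 198))))) (XT.nd (nat_lit 156) (nat_lit 152) (nat_lit 0) (XT.nd (nat_lit 78) (nat_lit 0) (nat_lit 0) (XT.lf (nat_lit 0) (nat_lit 4800302702) (nat_lit 76) (nat_lit 12965530356) (nat_lit 152) (nat_lit 12591903517) (nat_lit 14) (nat_lit 5) (nat_lit 15) (nat_lit 5) (nat_lit 16) (nat_lit 4) (nat_lit 321) (nat_lit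 262) (nat_lit 197)) (XT.lf (nat_lit 0) (nat_lit 15616728469) (nat_lit 76) (nat_lit 7457567895) (nat_lit 152) (nat_lit 8496808869) (nat_lit 14) (nat_lit 5) (nat_lit 15) (nat_lit 5) (nat_lit 16) (nat_lit 4) (nat_lit 322) (nat_lit 262) (nat_lit 196))) (XT.nd (nat_lit 78) (nat_lit 152) (nat_lit 0) (XT.lf (nat_lit 0) (nat_lit 26935947872) (nat_lit 76) (nat_lit 1690545651) (nat_lit 152) (nat_lit 4219751032) (nat_lit 14) (nat_lit 5) (nat_lit 15) (nat_lit 5) (nat_lit 16) (nat_lit 4) (nat_lit 323) (nat_lit 262) (nat_lit 195)) (XT.nd (nat_lit 78) (nat_lit 0) (nat_lit 0) (XT.lf (nat_lit 0) (nat_lit 384762515) (nat_lit 152) (nat_lit 29504721484) (nat_lit 76) (nat_lit 4289347198) (nat_lit 12) (nat_lit 5) (nat_lit 14) (nat_lit 5) (nat_lit 13) (nat_lit 4) (nat_lit 324) (nat_lit 262) (nat_lit 194)) (XT.lf (nat_lit 0) (nat_lit 5186314757) (nat_lit 152) (nat_lit 19715775236) (nat_lit 76) (nat_lit 10667082496)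 (nat_lit 12) (nat_lit 5) (nat_lit 14) (nat_lit 5) (nat_lit 13) (nat_lit 4) (nat_lit 325) (nat_lit 262) (nat_lit 193)))))) (XT.nd (nat_lit 390) (nat_lit 228) (nat_lit 0) (XT.nd (nat_lit 156) (nat_lit 0) (nat_lit 0) (XT.nd (nat_lit 78) (nat_lit 76) (nat_lit 0) (XT.lf (nat_lit 0) (nat_lit 10208112080) (nat_lit 152) (nat_lit 9472743910) (nat_lit 76) (nat_lit 17349181097) (nat_lit 12) (nat_lit 5) (nat_lit 14) (nat_lit 5) (nat_lit 13) (nat_lit 4) (nat_lit 326) (nat_lit 262) (nat_lit 192)) (XT.lf (nat_lit 0) (nat_lit 1290050330) (nat_lit 76) (nat_lit 14192202117) (nat_lit 152) (nat_lit 23081643729) (nat_lit 11) (nat_lit 5) (nat_lit 12) (nat_lit 5) (nat_lit 13) (nat_lit 4) (nat_lit 327) (nat_lit 262) (nat_lit 191))) (XT.nd (nat_lit 78) (nat_lit 0) (nat_lit 0) (XT.lf (nat_lit 0) (nat_lit 12886721442) (nat_lit 76) (nat_lit 8275297871) (nat_lit 152) (nat_lit 19005346188) (nat_lit 11) (nat_lit 5)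 (nat_lit 12) (nat_lit 5) (nat_lit 13) (nat_lit 4) (nat_lit 328) (nat_lit 262) (nat_lit 190)) (XT.nd (nat_lit 78) (nat_lit 0) (nat_lit 0) (XT.lf (nat_lit 0) (nat_lit 25031668852) (nat_lit 76) (nat_lit 2076480888) (nat_lit 152) (nat_lit 14743752418) (nat_lit 11) (nat_lit 5) (nat_lit 12) (nat_lit 5) (nat_lit 13) (nat_lit 4) (nat_lit 329) (nat_lit 262) (nat_lit 189)) (XT.lf (nat_lit 0) (nat_lit 33403794281) (nat_lit 152) (nat_lit 5936700944) (nat_lit 0) (nat_lit 4277572068) (nat_lit 11) (nat_lit 5) (nat_lit 13) (nat_lit 4) (nat_lit 11) (nat_lit 4) (nat_lit 330) (nat_lit 262) (nat_lit 188))))) (XT.nd (nat_lit 156) (nat_lit 152) (nat_lit 0) (XT.nd (nat_lit 78) (nat_lit 0) (nat_lit 0) (XT.lf (nat_lit 0) (nat_lit 5607195828) (nat_lit 76) (nat_lit 34512426432) (nat_lit 76) (nat_lit 5347659815) (nat_lit 10) (nat_lit 4) (nat_lit 11) (nat_lit 5) (nat_lit 11) (nat_lit 4) (nat_lit 331) (nat_lit 262)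 (nat_lit 187)) (XT.lf (nat_lit 0) (nat_lit 17905631031) (nat_lit 76) (nat_lit 29350289549) (nat_lit 76) (nat_lit 148813976) (nat_lit 10) (nat_lit 4) (nat_lit 11) (nat_lit 5) (nat_lit 11) (nat_lit 4) (nat_lit 332) (nat_lit 262) (nat_lit 186))) (XT.nd (nat_lit 78) (nat_lit 76) (nat_lit 0) (XT.lf (nat_lit 0) (nat_lit 5124657485) (nat_lit 152) (nat_lit 18730888638) (nat_lit 76) (nat_lit 25580146467) (nat_lit 9) (nat_lit 5) (nat_lit 11) (nat_lit 5) (nat_lit 10) (nat_lit 4) (nat_lit 333) (nat_lit 262) (nat_lit 185)) (XT.nd (nat_lit 78) (nat_lit 76) (nat_lit 0) (XT.lf (nat_lit 0) (nat_lit 10642168695) (nat_lit 152) (nat_lit 7453286764) (nat_lit 76) (nat_lit 33473362146) (nat_lit 9) (nat_lit 5) (nat_lit 11) (nat_lit 5) (nat_lit 10) (nat_lit 4) (nat_lit 334) (nat_lit 262) (nat_lit 184)) (XT.lf (nat_lit 0) (nat_lit 4507133349) (nat_lit 76) (nat_lit 11984855194) (nat_lit 152) (nat_lit 37313797645)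 (nat_lit 8) (nat_lit 5) (nat_lit 9) (nat_lit 5) (nat_lit 10) (nat_lit 4) (nat_lit 335) (nat_lit 262) (nat_lit 183))))))) (XT.nd (nat_lit 780) (nat_lit 152) (nat_lit 0) (XT.nd (nat_lit 390) (nat_lit 76) (nat_lit 0) (XT.nd (nat_lit 156) (nat_lit 76) (nat_lit 0) (XT.nd (nat_lit 78) (nat_lit 0) (nat_lit 0) (XT.lf (nat_lit 0) (nat_lit 17299425843) (nat_lit 76) (nat_lit 5447437355) (nat_lit 152) (nat_lit 33402120357) (nat_lit 8) (nat_lit 5) (nat_lit 9) (nat_lit 5) (nat_lit 10) (nat_lit 4) (nat_lit 336) (nat_lit 262) (nat_lit 182)) (XT.lf (nat_lit 0) (nat_lit 29323424676) (nat_lit 152) (nat_lit 27924343986) (nat_lit 0) (nat_lit 1361133112) (nat_lit 8) (nat_lit 5) (nat_lit 10) (nat_lit 4) (nat_lit 8) (nat_lit 4) (nat_lit 337) (nat_lit 262) (nat_lit 181))) (XT.nd (nat_lit 78) (nat_lit 76) (nat_lit 0) (XT.lf (nat_lit 0) (nat_lit 36305566070) (nat_lit 152) (nat_lit 16565233858) (nat_lit 0) (nat_lit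 8317186136) (nat_lit 8) (nat_lit 5) (nat_lit 10) (nat_lit 4) (nat_lit 8) (nat_lit 4) (nat_lit 338) (nat_lit 262) (nat_lit 180)) (XT.nd (nat_lit 78) (nat_lit 76) (nat_lit 0) (XT.lf (nat_lit 0) (nat_lit 43624861761) (nat_lit 152) (nat_lit 4660132067) (nat_lit 0) (nat_lit 15611635760) (nat_lit 8) (nat_lit 5) (nat_lit 10) (nat_lit 4) (nat_lit 8) (nat_lit 4) (nat_lit 339) (nat_lit 262) (nat_lit 179)) (XT.lf (nat_lit 0) (nat_lit 8077848467) (nat_lit 76) (nat_lit 43347008030) (nat_lit 76) (nat_lit 15310119109) (nat_lit 7) (nat_lit 4) (nat_lit 8) (nat_lit 5) (nat_lit 8) (nat_lit 4) (nat_lit 340) (nat_lit 262) (nat_lit 178))))) (XT.nd (nat_lit 156) (nat_lit 76) (nat_lit 0) (XT.nd (nat_lit 78) (nat_lit 0) (nat_lit 0) (XT.lf (nat_lit 0) (nat_lit 21593936732) (nat_lit 76) (nat_lit 38088672993) (nat_lit 76) (nat_lit 10029247957) (nat_lit 7) (nat_lit 4) (nat_lit 8) (nat_lit 5) (nat_lit 8) (nat_lit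 4) (nat_lit 341) (nat_lit 262) (nat_lit 177)) (XT.lf (nat_lit 0) (nat_lit 35766228878) (nat_lit 76) (nat_lit 32576390463) (nat_lit 76) (nat_lit 4495502461) (nat_lit 7) (nat_lit 4) (nat_lit 8) (nat_lit 5) (nat_lit 8) (nat_lit 4) (nat_lit 342) (nat_lit 262) (nat_lit 176))) (XT.nd (nat_lit 78) (nat_lit 0) (nat_lit 0) (XT.lf (nat_lit 0) (nat_lit 1262547443) (nat_lit 152) (nat_lit 25513106662) (nat_lit 76) (nat_lit 49344539163) (nat_lit 6) (nat_lit 5) (nat_lit 8) (nat_lit 5) (nat_lit 7) (nat_lit 4) (nat_lit 343) (nat_lit 262) (nat_lit 175)) (XT.nd (nat_lit 78) (nat_lit 0) (nat_lit 0) (XT.lf (nat_lit 0) (nat_lit 7147614925) (nat_lit 152) (nat_lit 13468185867) (nat_lit 76) (nat_lit 58947378515) (nat_lit 6) (nat_lit 5) (nat_lit 8) (nat_lit 5) (nat_lit 7) (nat_lit 4) (nat_lit 344) (nat_lit 262) (nat_lit 174)) (XT.lf (nat_lit 0) (nat_lit 13317596204) (nat_lit 152) (nat_lit 838264764) (nat_lit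 76) (nat_lit 69022925905) (nat_lit 6) (nat_lit 5) (nat_lit 8) (nat_lit 5) (nat_lit 7) (nat_lit 4) (nat_lit 345) (nat_lit 262) (nat_lit 173)))))) (XT.nd (nat_lit 390) (nat_lit 76) (nat_lit 0) (XT.nd (nat_lit 156) (nat_lit 0) (nat_lit 0) (XT.nd (nat_lit 78) (nat_lit 0) (nat_lit 0) (XT.lf (nat_lit 0) (nat_lit 12816950342) (nat_lit 76) (nat_lit 7170339882) (nat_lit 152) (nat_lit 66978328905) (nat_lit 5) (nat_lit 5) (nat_lit 6) (nat_lit 5) (nat_lit 7) (nat_lit 4) (nat_lit 346) (nat_lit 262) (nat_lit 172)) (XT.lf (nat_lit 0) (nat_lit 26998626067) (nat_lit 152) (nat_lit 63776339114) (nat_lit 0) (nat_lit 166424720) (nat_lit 5) (nat_lit 5) (nat_lit 7) (nat_lit 4) (nat_lit 5) (nat_lit 4) (nat_lit 347) (nat_lit 262) (nat_lit 171))) (XT.nd (nat_lit 78) (nat_lit 0) (nat_lit 0) (XT.lf (nat_lit 0) (nat_lit 34469656527) (nat_lit 152) (nat_lit 53018638973) (nat_lit 0) (nat_lit 7622201850) (nat_lit 5)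 (nat_lit 5) (nat_lit 7) (nat_lit 4) (nat_lit 5) (nat_lit 4) (nat_lit 348) (nat_lit 262) (nat_lit 170)) (XT.nd (nat_lit 78) (nat_lit 0) (nat_lit 0) (XT.lf (nat_lit 0) (nat_lit 42306220672) (nat_lit 152) (nat_lit 41738005694) (nat_lit 0) (nat_lit 15444239015) (nat_lit 5) (nat_lit 5) (nat_lit 7) (nat_lit 4) (nat_lit 5) (nat_lit 4) (nat_lit 349) (nat_lit 262) (nat_lit 169)) (XT.lf (nat_lit 0) (nat_lit 50526976989) (nat_lit 152) (nat_lit 29907580624) (nat_lit 0) (nat_lit 23651160113) (nat_lit 5) (nat_lit 5) (nat_lit 7) (nat_lit 4) (nat_lit 5) (nat_lit 4) (nat_lit 350) (nat_lit 262) (nat_lit 168))))) (XT.nd (nat_lit 156) (nat_lit 76) (nat_lit 0) (XT.nd (nat_lit 78) (nat_lit 0) (nat_lit 0) (XT.lf (nat_lit 0) (nat_lit 59151498707) (nat_lit 152) (nat_lit 17499196086) (nat_lit 0) (nat_lit 32262505431) (nat_lit 5) (nat_lit 5) (nat_lit 7) (nat_lit 4) (nat_lit 5) (nat_lit 4) (nat_lit 351) (nat_lit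 262) (nat_lit 167)) (XT.lf (nat_lit 0) (nat_lit 68200320401) (nat_lit 152) (nat_lit 4483308306) (nat_lit 0) (nat_lit 41298778172) (nat_lit 5) (nat_lit 5) (nat_lit 7) (nat_lit 4) (nat_lit 5) (nat_lit 4) (nat_lit 352) (nat_lit 262) (nat_lit 166))) (XT.nd (nat_lit 78) (nat_lit 0) (nat_lit 0) (XT.lf (nat_lit 0) (nat_lit 9474310012) (nat_lit 76) (nat_lit 68368597403) (nat_lit 76) (nat_lit 41455103792) (nat_lit 4) (nat_lit 4) (nat_lit 5) (nat_lit 5) (nat_lit 5) (nat_lit 4) (nat_lit 353) (nat_lit 262) (nat_lit 165)) (XT.nd (nat_lit 78) (nat_lit 0) (nat_lit 0) (XT.lf (nat_lit 0) (nat_lit 24273357051) (nat_lit 76) (nat_lit 63763722584) (nat_lit 76) (nat_lit 36838846704) (nat_lit 4) (nat_lit 4) (nat_lit 5) (nat_lit 5) (nat_lit 5) (nat_lit 4) (nat_lit 354) (nat_lit 262) (nat_lit 164)) (XT.lf (nat_lit 0) (nat_lit 39800830217) (nat_lit 76) (nat_lit 58933967259) (nat_lit 76) (nat_lit 31998251123)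 (nat_lit 4) (nat_lit 4) (nat_lit 5) (nat_lit 5) (nat_lit 5) (nat_lit 4) (nat_lit 355) (nat_lit 262) (nat_lit 163))))))))
noncomputable def xc115 : XT := (XT.nd (nat_lit 1560) (nat_lit 76) (nat_lit 0) (XT.nd (nat_lit 780) (nat_lit 0) (nat_lit 0) (XT.nd (nat_lit 390) (nat_lit 152) (nat_lit 0) (XT.nd (nat_lit 156) (nat_lit 0) (nat_lit 0) (XT.nd (nat_lit 78) (nat_lit 0) (nat_lit 0) (XT.lf (nat_lit 0) (nat_lit 56093699684) (nat_lit 76) (nat_lit 53867832011) (nat_lit 76) (nat_lit 26921791820) (nat_lit 4) (nat_lit 4) (nat_lit 5) (nat_lit 5) (nat_lit 5) (nat_lit 4) (nat_lit 356) (nat_lit 262) (nat_lit 162)) (XT.lf (nat_lit 0) (nat_lit 73190757999) (nat_lit 76) (nat_lit 48553254611) (nat_lit 76) (nat_lit 21597381988) (nat_lit 4) (nat_lit 4) (nat_lit 5) (nat_lit 5) (nat_lit 5) (nat_lit 4) (nat_lit 357) (nat_lit 262) (nat_lit 161))) (XT.nd (nat_lit 78) (nat_lit 0) (nat_lit 0) (XT.lf (nat_lit 0)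 (nat_lit 91132712443) (nat_lit 76) (nat_lit 42977581305) (nat_lit 76) (nat_lit 16012344461) (nat_lit 4) (nat_lit 4) (nat_lit 5) (nat_lit 5) (nat_lit 5) (nat_lit 4) (nat_lit 358) (nat_lit 262) (nat_lit 160)) (XT.nd (nat_lit 78) (nat_lit 0) (nat_lit 0) (XT.lf (nat_lit 0) (nat_lit 109962281955) (nat_lit 76) (nat_lit 37127536681) (nat_lit 76) (nat_lit 10153381531) (nat_lit 4) (nat_lit 4) (nat_lit 5) (nat_lit 5) (nat_lit 5) (nat_lit 4) (nat_lit 359) (nat_lit 262) (nat_lit 159)) (XT.lf (nat_lit 0) (nat_lit 129724298843) (nat_lit 76) (nat_lit 30989192059) (nat_lit 76) (nat_lit 4006543285) (nat_lit 4) (nat_lit 4) (nat_lit 5) (nat_lit 5) (nat_lit 5) (nat_lit 4) (nat_lit 360) (nat_lit 262) (nat_lit 158))))) (XT.nd (nat_lit 156) (nat_lit 76) (nat_lit 0) (XT.nd (nat_lit 78) (nat_lit 0) (nat_lit 0) (XT.lf (nat_lit 0) (nat_lit 2364620570) (nat_lit 152) (nat_lit 22143265771) (nat_lit 76) (nat_lit 148061148966)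 (nat_lit 3) (nat_lit 5) (nat_lit 5) (nat_lit 5) (nat_lit 4) (nat_lit 4) (nat_lit 361) (nat_lit 262) (nat_lit 157)) (XT.lf (nat_lit 0) (nat_lit 8915242552) (nat_lit 152) (nat_lit 8722194676) (nat_lit 76) (nat_lit 163169990079) (nat_lit 3) (nat_lit 5) (nat_lit 5) (nat_lit 5) (nat_lit 4) (nat_lit 4) (nat_lit 362) (nat_lit 262) (nat_lit 156))) (XT.nd (nat_lit 78) (nat_lit 0) (nat_lit 0) (XT.lf (nat_lit 0) (nat_lit 5539277719) (nat_lit 76) (nat_lit 10336359714) (nat_lit 152) (nat_lit 173577991459) (nat_lit 2) (nat_lit 5) (nat_lit 3) (nat_lit 5) (nat_lit 4) (nat_lit 4) (nat_lit 363) (nat_lit 262) (nat_lit 155)) (XT.nd (nat_lit 78) (nat_lit 0) (nat_lit 0) (XT.lf (nat_lit 0) (nat_lit 20808823030) (nat_lit 76) (nat_lit 2518781738) (nat_lit 152) (nat_lit 175197360131) (nat_lit 2) (nat_lit 5) (nat_lit 3) (nat_lit 5) (nat_lit 4) (nat_lit 4) (nat_lit 364) (nat_lit 262) (nat_lit 154)) (XT.lf (nat_lit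 0) (nat_lit 31236984223) (nat_lit 152) (nat_lit 171304443051) (nat_lit 0) (nat_lit 5504201629) (nat_lit 2) (nat_lit 5) (nat_lit 4) (nat_lit 4) (nat_lit 2) (nat_lit 4) (nat_lit 365) (nat_lit 262) (nat_lit 153)))))) (XT.nd (nat_lit 390) (nat_lit 0) (nat_lit 0) (XT.nd (nat_lit 156) (nat_lit 0) (nat_lit 0) (XT.nd (nat_lit 78) (nat_lit 0) (nat_lit 0) (XT.lf (nat_lit 0) (nat_lit 39579297466) (nat_lit 152) (nat_lit 164620678582) (nat_lit 0) (nat_lit 13840478611) (nat_lit 2) (nat_lit 5) (nat_lit 4) (nat_lit 4) (nat_lit 2) (nat_lit 4) (nat_lit 366) (nat_lit 262) (nat_lit 152)) (XT.lf (nat_lit 0) (nat_lit 48335081906) (nat_lit 152) (nat_lit 157609609497) (nat_lit 0) (nat_lit 22590514232) (nat_lit 2) (nat_lit 5) (nat_lit 4) (nat_lit 4) (nat_lit 2) (nat_lit 4) (nat_lit 367) (nat_lit 262) (nat_lit 151))) (XT.nd (nat_lit 78) (nat_lit 0) (nat_lit 0) (XT.lf (nat_lit 0) (nat_lit 57525184649) (nat_lit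 152) (nat_lit 150254542772) (nat_lit 0) (nat_lit 31775141909) (nat_lit 2) (nat_lit 5) (nat_lit 4) (nat_lit 4) (nat_lit 2) (nat_lit 4) (nat_lit 368) (nat_lit 262) (nat_lit 150)) (XT.nd (nat_lit 78) (nat_lit 0) (nat_lit 0) (XT.lf (nat_lit 0) (nat_lit 67171486893) (nat_lit 152) (nat_lit 142537966345) (nat_lit 0) (nat_lit 41416229804) (nat_lit 2) (nat_lit 5) (nat_lit 4) (nat_lit 4) (nat_lit 2) (nat_lit 4) (nat_lit 369) (nat_lit 262) (nat_lit 149)) (XT.lf (nat_lit 0) (nat_lit 77296956024) (nat_lit 152) (nat_lit 134441507415) (nat_lit 0) (nat_lit 51536732888) (nat_lit 2) (nat_lit 5) (nat_lit 4) (nat_lit 4) (nat_lit 2) (nat_lit 4) (nat_lit 370) (nat_lit 262) (nat_lit 148))))) (XT.nd (nat_lit 156) (nat_lit 0) (nat_lit 0) (XT.nd (nat_lit 78) (nat_lit 0) (nat_lit 0) (XT.lf (nat_lit 0) (nat_lit 87925700300) (nat_lit 152) (nat_lit 125945888699) (nat_lit 0) (nat_lit 62160747597) (nat_lit 2) (nat_lit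 5) (nat_lit 4) (nat_lit 4) (nat_lit 2) (nat_lit 4) (nat_lit 371) (nat_lit 262) (nat_lit 147)) (XT.lf (nat_lit 0) (nat_lit 99083026258) (nat_lit 152) (nat_lit 117030882532) (nat_lit 0) (nat_lit 73313569204) (nat_lit 2) (nat_lit 5) (nat_lit 4) (nat_lit 4) (nat_lit 2) (nat_lit 4) (nat_lit 372) (nat_lit 262) (nat_lit 146))) (XT.nd (nat_lit 78) (nat_lit 0) (nat_lit 0) (XT.lf (nat_lit 0) (nat_lit 110795498957) (nat_lit 152) (nat_lit 107675262711) (nat_lit 0) (nat_lit 85021752045) (nat_lit 2) (nat_lit 5) (nat_lit 4) (nat_lit 4) (nat_lit 2) (nat_lit 4) (nat_lit 373) (nat_lit 262) (nat_lit 145)) (XT.nd (nat_lit 78) (nat_lit 0) (nat_lit 0) (XT.lf (nat_lit 0) (nat_lit 123091005239) (nat_lit 152) (nat_lit 97856753948) (nat_lit 0) (nat_lit 97313172748) (nat_lit 2) (nat_lit 5) (nat_lit 4) (nat_lit 4) (nat_lit 2) (nat_lit 4) (nat_lit 374) (nat_lit 262) (nat_lit 144)) (XT.lf (nat_lit 0) (nat_lit 135998820117)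 (nat_lit 152) (nat_lit 87551978844) (nat_lit 0) (nat_lit 110217096600) (nat_lit 2) (nat_lit 5) (nat_lit 4) (nat_lit 4) (nat_lit 2) (nat_lit 4) (nat_lit 375) (nat_lit 262) (nat_lit 143))))))) (XT.nd (nat_lit 780) (nat_lit 0) (nat_lit 0) (XT.nd (nat_lit 390) (nat_lit 76) (nat_lit 0) (XT.nd (nat_lit 156) (nat_lit 0) (nat_lit 0) (XT.nd (nat_lit 78) (nat_lit 0) (nat_lit 0) (XT.lf (nat_lit 0) (nat_lit 149549676485) (nat_lit 152) (nat_lit 76736402218) (nat_lit 0) (nat_lit 123764247227) (nat_lit 2) (nat_lit 5) (nat_lit 4) (nat_lit 4) (nat_lit 2) (nat_lit 4) (nat_lit 376) (nat_lit 262) (nat_lit 142)) (XT.lf (nat_lit 0) (nat_lit 163775838287) (nat_lit 152) (nat_lit 65384272699) (nat_lit 0) (nat_lit 137986879752) (nat_lit 2) (nat_lit 5) (nat_lit 4) (nat_lit 4) (nat_lit 2) (nat_lit 4) (nat_lit 377) (nat_lit 262) (nat_lit 141))) (XT.nd (nat_lit 78) (nat_lit 0) (nat_lit 0) (XT.lf (nat_lit 0) (nat_lit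 178711177335) (nat_lit 152) (nat_lit 53468561406) (nat_lit 0) (nat_lit 152918857585) (nat_lit 2) (nat_lit 5) (nat_lit 4) (nat_lit 4) (nat_lit 2) (nat_lit 4) (nat_lit 378) (nat_lit 262) (nat_lit 140)) (XT.nd (nat_lit 78) (nat_lit 0) (nat_lit 0) (XT.lf (nat_lit 0) (nat_lit 194391253961) (nat_lit 152) (nat_lit 40960897597) (nat_lit 0) (nat_lit 168595733053) (nat_lit 2) (nat_lit 5) (nat_lit 4) (nat_lit 4) (nat_lit 2) (nat_lit 4) (nat_lit 379) (nat_lit 262) (nat_lit 139)) (XT.lf (nat_lit 0) (nat_lit 210853401682) (nat_lit 152) (nat_lit 27831501122) (nat_lit 0) (nat_lit 185054832052) (nat_lit 2) (nat_lit 5) (nat_lit 4) (nat_lit 4) (nat_lit 2) (nat_lit 4) (nat_lit 380) (nat_lit 262) (nat_lit 138))))) (XT.nd (nat_lit 156) (nat_lit 0) (nat_lit 0) (XT.nd (nat_lit 78) (nat_lit 76) (nat_lit 0) (XT.lf (nat_lit 0) (nat_lit 228136816086) (nat_lit 152) (nat_lit 14049111512) (nat_lit 0) (nat_lit 202335342912)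 (nat_lit 2) (nat_lit 5) (nat_lit 4) (nat_lit 4) (nat_lit 2) (nat_lit 4) (nat_lit 381) (nat_lit 262) (nat_lit 137)) (XT.lf (nat_lit 0) (nat_lit 432943336) (nat_lit 76) (nat_lit 245856464283) (nat_lit 76) (nat_lit 220052225828) (nat_lit 1) (nat_lit 4) (nat_lit 2) (nat_lit 5) (nat_lit 2) (nat_lit 4) (nat_lit 382) (nat_lit 262) (nat_lit 136))) (XT.nd (nat_lit 78) (nat_lit 0) (nat_lit 0) (XT.lf (nat_lit 0) (nat_lit 16123596628) (nat_lit 76) (nat_lit 249462240169) (nat_lit 76) (nat_lit 223655368114) (nat_lit 1) (nat_lit 4) (nat_lit 2) (nat_lit 5) (nat_lit 2) (nat_lit 4) (nat_lit 383) (nat_lit 262) (nat_lit 135)) (XT.nd (nat_lit 78) (nat_lit 0) (nat_lit 0) (XT.lf (nat_lit 0) (nat_lit 32595679987) (nat_lit 76) (nat_lit 253249768938) (nat_lit 76) (nat_lit 227440388692) (nat_lit 1) (nat_lit 4) (nat_lit 2) (nat_lit 5) (nat_lit 2) (nat_lit 4) (nat_lit 384) (nat_lit 262) (nat_lit 134)) (XT.lf (nat_lit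 0) (nat_lit 49888412660) (nat_lit 76) (nat_lit 257228068517) (nat_lit 76) (nat_lit 231416299518) (nat_lit 1) (nat_lit 4) (nat_lit 2) (nat_lit 5) (nat_lit 2) (nat_lit 4) (nat_lit 385) (nat_lit 262) (nat_lit 133)))))) (XT.nd (nat_lit 31200) (nat_lit 0) (nat_lit 8816) (XT.nd (nat_lit 156) (nat_lit 0) (nat_lit 0) (XT.nd (nat_lit 78) (nat_lit 0) (nat_lit 0) (XT.lf (nat_lit 0) (nat_lit 68042967819) (nat_lit 76) (nat_lit 261406611046) (nat_lit 76) (nat_lit 235592567044) (nat_lit 1) (nat_lit 4) (nat_lit 2) (nat_lit 5) (nat_lit 2) (nat_lit 4) (nat_lit 386) (nat_lit 262) (nat_lit 132)) (XT.lf (nat_lit 0) (nat_lit 87102570597) (nat_lit 76) (nat_lit 265795345437) (nat_lit 76) (nat_lit 239979134765) (nat_lit 1) (nat_lit 4) (nat_lit 2) (nat_lit 5) (nat_lit 2) (nat_lit 4) (nat_lit 387) (nat_lit 262) (nat_lit 131))) (XT.nd (nat_lit 30888) (nat_lit 0) (nat_lit 9500) (XT.lf (nat_lit 0) (nat_lit 107112600998)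 (nat_lit 76) (nat_lit 270404721057) (nat_lit 76) (nat_lit 244586446891) (nat_lit 1) (nat_lit 4) (nat_lit 2) (nat_lit 5) (nat_lit 2) (nat_lit 4) (nat_lit 388) (nat_lit 262) (nat_lit 130)) (XT.nd (nat_lit 78) (nat_lit 0) (nat_lit 0) (XT.lf (nat_lit 0) (nat_lit 758791089) (nat_lit 0) (nat_lit 758791089) (nat_lit 228) (nat_lit 1756771203) (nat_lit 126) (nat_lit 5) (nat_lit 126) (nat_lit 3) (nat_lit 129) (nat_lit 3) (nat_lit 263) (nat_lit 263) (nat_lit 254)) (XT.lf (nat_lit 0) (nat_lit 4597960787) (nat_lit 0) (nat_lit 815665363) (nat_lit 228) (nat_lit 1175224995) (nat_lit 126) (nat_lit 5) (nat_lit 126) (nat_lit 3) (nat_lit 129) (nat_lit 3) (nat_lit 264) (nat_lit 263) (nat_lit 253))))) (XT.nd (nat_lit 234) (nat_lit 380) (nat_lit 0) (XT.nd (nat_lit 78) (nat_lit 0) (nat_lit 0) (XT.lf (nat_lit 0) (nat_lit 1106985606) (nat_lit 304) (nat_lit 5499016188) (nat_lit 380) (nat_lit 31119241) (nat_lit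 122) (nat_lit 5) (nat_lit 126) (nat_lit 5) (nat_lit 127) (nat_lit 5) (nat_lit 265) (nat_lit 263) (nat_lit 252)) (XT.nd (nat_lit 78) (nat_lit 0) (nat_lit 0) (XT.lf (nat_lit 0) (nat_lit 3368099331) (nat_lit 304) (nat_lit 2313293083) (nat_lit 380) (nat_lit 1010724591) (nat_lit 122) (nat_lit 5) (nat_lit 126) (nat_lit 5) (nat_lit 127) (nat_lit 5) (nat_lit 266) (nat_lit 263) (nat_lit 251)) (XT.lf (nat_lit 76) (nat_lit 980573754) (nat_lit 0) (nat_lit 4640477703) (nat_lit 380) (nat_lit 1135339111) (nat_lit 123) (nat_lit 5) (nat_lit 122) (nat_lit 5) (nat_lit 127) (nat_lit 5) (nat_lit 267) (nat_lit 263) (nat_lit 250)))) (XT.nd (nat_lit 78) (nat_lit 0) (nat_lit 0) (XT.lf (nat_lit 0) (nat_lit 1031500330) (nat_lit 380) (nat_lit 2407315013) (nat_lit 456) (nat_lit 3389281132) (nat_lit 117) (nat_lit 5) (nat_lit 122) (nat_lit 5) (nat_lit 123) (nat_lit 5) (nat_lit 268) (nat_lit 263) (nat_lit 249)) (XT.nd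 (nat_lit 78) (nat_lit 0) (nat_lit 0) (XT.lf (nat_lit 76) (nat_lit 1063076374) (nat_lit 0) (nat_lit 2094547161) (nat_lit 456) (nat_lit 3750782056) (nat_lit 118) (nat_lit 5) (nat_lit 117) (nat_lit 5) (nat_lit 123) (nat_lit 5) (nat_lit 269) (nat_lit 263) (nat_lit 248)) (XT.lf (nat_lit 76) (nat_lit 4709937152) (nat_lit 0) (nat_lit 598196488) (nat_lit 456) (nat_lit 1689076631) (nat_lit 118) (nat_lit 5) (nat_lit 117) (nat_lit 5) (nat_lit 123) (nat_lit 5) (nat_lit 270) (nat_lit 263) (nat_lit 247))))))))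
noncomputable def xc116 : XT := (XT.nd (nat_lit 1560) (nat_lit 2204) (nat_lit 0) (XT.nd (nat_lit 780) (nat_lit 1672) (nat_lit 0) (XT.nd (nat_lit 390) (nat_lit 1824) (nat_lit 0) (XT.nd (nat_lit 156) (nat_lit 1064) (nat_lit 0) (XT.nd (nat_lit 78) (nat_lit 0) (nat_lit 0) (XT.lf (nat_lit 0) (nat_lit 379577195) (nat_lit 456) (nat_lit 5706399169) (nat_lit 76) (nat_lit 1008501445) (nat_lit 112) (nat_lit 5) (nat_lit 118) (nat_lit 5) (nat_lit 113) (nat_lit 5) (nat_lit 271) (nat_lit 263) (nat_lit 246)) (XT.lf (nat_lit 0) (nat_lit 2429933629) (nat_lit 456) (nat_lit 1992574422) (nat_lit 76) (nat_lit 2776296325) (nat_lit 112) (nat_lit 5) (nat_lit 118) (nat_lit 5) (nat_lit 113) (nat_lit 5) (nat_lit 272) (nat_lit 263) (nat_lit 245))) (XT.nd (nat_lit 78) (nat_lit 608) (nat_lit 0) (XT.lf (nat_lit 0) (nat_lit 1885008706) (nat_lit 456) (nat_lit 2618521229) (nat_lit 532) (nat_lit 2809097270) (nat_lit 106)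 (nat_lit 5) (nat_lit 112) (nat_lit 5) (nat_lit 113) (nat_lit 5) (nat_lit 273) (nat_lit 263) (nat_lit 244)) (XT.nd (nat_lit 78) (nat_lit 608) (nat_lit 0) (XT.lf (nat_lit 0) (nat_lit 5944710622) (nat_lit 456) (nat_lit 665045340) (nat_lit 532) (nat_lit 826238706) (nat_lit 106) (nat_lit 5) (nat_lit 112) (nat_lit 5) (nat_lit 113) (nat_lit 5) (nat_lit 274) (nat_lit 263) (nat_lit 243)) (XT.lf (nat_lit 0) (nat_lit 1177806687) (nat_lit 608) (nat_lit 4965245922) (nat_lit 76) (nat_lit 1423658794) (nat_lit 98) (nat_lit 5) (nat_lit 106) (nat_lit 5) (nat_lit 99) (nat_lit 5) (nat_lit 275) (nat_lit 263) (nat_lit 242))))) (XT.nd (nat_lit 156) (nat_lit 1216) (nat_lit 0) (XT.nd (nat_lit 78) (nat_lit 608) (nat_lit 0) (XT.lf (nat_lit 0) (nat_lit 3193036370) (nat_lit 608) (nat_lit 861811862) (nat_lit 76) (nat_lit 3651761050) (nat_lit 98) (nat_lit 5) (nat_lit 106) (nat_lit 5) (nat_lit 99) (nat_lit 5) (nat_lit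 276) (nat_lit 263) (nat_lit 241)) (XT.lf (nat_lit 0) (nat_lit 3477253576) (nat_lit 608) (nat_lit 1792898901) (nat_lit 684) (nat_lit 2585540953) (nat_lit 90) (nat_lit 5) (nat_lit 98) (nat_lit 5) (nat_lit 99) (nat_lit 5) (nat_lit 277) (nat_lit 263) (nat_lit 240))) (XT.nd (nat_lit 78) (nat_lit 1216) (nat_lit 0) (XT.lf (nat_lit 0) (nat_lit 7385240801) (nat_lit 684) (nat_lit 42065506) (nat_lit 76) (nat_lit 588455491) (nat_lit 90) (nat_lit 5) (nat_lit 99) (nat_lit 5) (nat_lit 91) (nat_lit 5) (nat_lit 278) (nat_lit 263) (nat_lit 239)) (XT.nd (nat_lit 78) (nat_lit 456) (nat_lit 0) (XT.lf (nat_lit 0) (nat_lit 1391605573) (nat_lit 760) (nat_lit 3658904682) (nat_lit 76) (nat_lit 3131683146) (nat_lit 80) (nat_lit 5) (nat_lit 90) (nat_lit 5) (nat_lit 81) (nat_lit 5) (nat_lit 279) (nat_lit 263) (nat_lit 238)) (XT.lf (nat_lit 0) (nat_lit 897745456) (nat_lit 456) (nat_lit 2526388351) (nat_lit 532) (nat_lit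 4935975427) (nat_lit 74) (nat_lit 5) (nat_lit 80) (nat_lit 5) (nat_lit 81) (nat_lit 5) (nat_lit 280) (nat_lit 263) (nat_lit 237)))))) (XT.nd (nat_lit 390) (nat_lit 912) (nat_lit 0) (XT.nd (nat_lit 156) (nat_lit 380) (nat_lit 0) (XT.nd (nat_lit 78) (nat_lit 380) (nat_lit 0) (XT.lf (nat_lit 0) (nat_lit 5541711620) (nat_lit 532) (nat_lit 2822572904) (nat_lit 76) (nat_lit 183659197) (nat_lit 74) (nat_lit 5) (nat_lit 81) (nat_lit 5) (nat_lit 75) (nat_lit 5) (nat_lit 281) (nat_lit 263) (nat_lit 236)) (XT.lf (nat_lit 0) (nat_lit 1990493390) (nat_lit 380) (nat_lit 5769555911) (nat_lit 456) (nat_lit 985561363) (nat_lit 69) (nat_lit 5) (nat_lit 74) (nat_lit 5) (nat_lit 75) (nat_lit 5) (nat_lit 282) (nat_lit 263) (nat_lit 235))) (XT.nd (nat_lit 78) (nat_lit 304) (nat_lit 0) (XT.lf (nat_lit 0) (nat_lit 1071801108) (nat_lit 456) (nat_lit 1909485249) (nat_lit 76) (nat_lit 5972554186) (nat_lit 68)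 (nat_lit 5) (nat_lit 74) (nat_lit 5) (nat_lit 69) (nat_lit 5) (nat_lit 283) (nat_lit 263) (nat_lit 234)) (XT.nd (nat_lit 78) (nat_lit 0) (nat_lit 0) (XT.lf (nat_lit 0) (nat_lit 3175888095) (nat_lit 380) (nat_lit 5987388329) (nat_lit 76) (nat_lit 9708391) (nat_lit 64) (nat_lit 5) (nat_lit 69) (nat_lit 5) (nat_lit 65) (nat_lit 5) (nat_lit 284) (nat_lit 263) (nat_lit 233)) (XT.lf (nat_lit 0) (nat_lit 5396168051) (nat_lit 380) (nat_lit 929939159) (nat_lit 76) (nat_lit 3076581678) (nat_lit 64) (nat_lit 5) (nat_lit 69) (nat_lit 5) (nat_lit 65) (nat_lit 5) (nat_lit 285) (nat_lit 263) (nat_lit 232))))) (XT.nd (nat_lit 156) (nat_lit 304) (nat_lit 0) (XT.nd (nat_lit 78) (nat_lit 304) (nat_lit 0) (XT.lf (nat_lit 0) (nat_lit 4445729375) (nat_lit 304) (nat_lit 3283759005) (nat_lit 380) (nat_lit 1914433246) (nat_lit 60) (nat_lit 5) (nat_lit 64) (nat_lit 5) (nat_lit 65) (nat_lit 5) (nat_lit 286) (nat_lit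 263) (nat_lit 231)) (XT.lf (nat_lit 0) (nat_lit 148077214) (nat_lit 228) (nat_lit 76904517) (nat_lit 304) (nat_lit 9674557394) (nat_lit 56) (nat_lit 5) (nat_lit 59) (nat_lit 5) (nat_lit 60) (nat_lit 5) (nat_lit 287) (nat_lit 263) (nat_lit 230))) (XT.nd (nat_lit 78) (nat_lit 304) (nat_lit 0) (XT.lf (nat_lit 0) (nat_lit 2483096386) (nat_lit 304) (nat_lit 4385545235) (nat_lit 76) (nat_lit 3294048417) (nat_lit 56) (nat_lit 5) (nat_lit 60) (nat_lit 5) (nat_lit 57) (nat_lit 5) (nat_lit 288) (nat_lit 263) (nat_lit 229)) (XT.nd (nat_lit 78) (nat_lit 0) (nat_lit 0) (XT.lf (nat_lit 0) (nat_lit 1209999753) (nat_lit 304) (nat_lit 3602572729) (nat_lit 380) (nat_lit 5628622338) (nat_lit 52) (nat_lit 5) (nat_lit 56) (nat_lit 5) (nat_lit 57) (nat_lit 5) (nat_lit 289) (nat_lit 263) (nat_lit 228)) (XT.lf (nat_lit 0) (nat_lit 7162671851) (nat_lit 304) (nat_lit 110193787) (nat_lit 380) (nat_lit 3460155481)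 (nat_lit 52) (nat_lit 5) (nat_lit 56) (nat_lit 5) (nat_lit 57) (nat_lit 5) (nat_lit 290) (nat_lit 263) (nat_lit 227))))))) (XT.nd (nat_lit 780) (nat_lit 988) (nat_lit 0) (XT.nd (nat_lit 390) (nat_lit 456) (nat_lit 0) (XT.nd (nat_lit 156) (nat_lit 456) (nat_lit 0) (XT.nd (nat_lit 78) (nat_lit 76) (nat_lit 0) (XT.lf (nat_lit 0) (nat_lit 2318123119) (nat_lit 228) (nat_lit 7572477336) (nat_lit 304) (nat_lit 1147224965) (nat_lit 49) (nat_lit 5) (nat_lit 52) (nat_lit 5) (nat_lit 53) (nat_lit 5) (nat_lit 291) (nat_lit 263) (nat_lit 226)) (XT.lf (nat_lit 0) (nat_lit 1246884711) (nat_lit 304) (nat_lit 2827533271) (nat_lit 76) (nat_lit 7282222478) (nat_lit 48) (nat_lit 5) (nat_lit 52) (nat_lit 5) (nat_lit 49) (nat_lit 5) (nat_lit 292) (nat_lit 263) (nat_lit 225))) (XT.nd (nat_lit 78) (nat_lit 228) (nat_lit 0) (XT.lf (nat_lit 0) (nat_lit 3377237541) (nat_lit 228) (nat_lit 343617732) (nat_lit 304)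 (nat_lit 7969758472) (nat_lit 45) (nat_lit 5) (nat_lit 48) (nat_lit 5) (nat_lit 49) (nat_lit 5) (nat_lit 293) (nat_lit 263) (nat_lit 224)) (XT.nd (nat_lit 78) (nat_lit 228) (nat_lit 0) (XT.lf (nat_lit 0) (nat_lit 6370174765) (nat_lit 304) (nat_lit 2177643442) (nat_lit 76) (nat_lit 3490973851) (nat_lit 45) (nat_lit 5) (nat_lit 49) (nat_lit 5) (nat_lit 46) (nat_lit 5) (nat_lit 294) (nat_lit 263) (nat_lit 223)) (XT.lf (nat_lit 0) (nat_lit 4328659730) (nat_lit 228) (nat_lit 4846215060) (nat_lit 304) (nat_lit 3228443418) (nat_lit 42) (nat_lit 5) (nat_lit 45) (nat_lit 5) (nat_lit 46) (nat_lit 5) (nat_lit 295) (nat_lit 263) (nat_lit 222))))) (XT.nd (nat_lit 156) (nat_lit 152) (nat_lit 0) (XT.nd (nat_lit 78) (nat_lit 304) (nat_lit 0) (XT.lf (nat_lit 0) (nat_lit 11167868587) (nat_lit 228) (nat_lit 939853072) (nat_lit 304) (nat_lit 679034032) (nat_lit 42) (nat_lit 5) (nat_lit 45) (nat_lit 5) (nat_lit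 46) (nat_lit 5) (nat_lit 296) (nat_lit 263) (nat_lit 221)) (XT.lf (nat_lit 0) (nat_lit 2018992872) (nat_lit 304) (nat_lit 8007649984) (nat_lit 76) (nat_lit 3156981190) (nat_lit 38) (nat_lit 5) (nat_lit 42) (nat_lit 5) (nat_lit 39) (nat_lit 5) (nat_lit 297) (nat_lit 263) (nat_lit 220))) (XT.nd (nat_lit 78) (nat_lit 152) (nat_lit 0) (XT.lf (nat_lit 0) (nat_lit 4825842084) (nat_lit 304) (nat_lit 1326599424) (nat_lit 76) (nat_lit 7447570318) (nat_lit 38) (nat_lit 5) (nat_lit 42) (nat_lit 5) (nat_lit 39) (nat_lit 5) (nat_lit 298) (nat_lit 263) (nat_lit 219)) (XT.nd (nat_lit 78) (nat_lit 0) (nat_lit 0) (XT.lf (nat_lit 0) (nat_lit 5810250591) (nat_lit 152) (nat_lit 2009180737) (nat_lit 228) (nat_lit 6215534115) (nat_lit 36) (nat_lit 5) (nat_lit 38) (nat_lit 5) (nat_lit 39) (nat_lit 5) (nat_lit 299) (nat_lit 263) (nat_lit 218)) (XT.lf (nat_lit 0) (nat_lit 10978583384) (nat_lit 228) (nat_lit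 1242557777) (nat_lit 76) (nat_lit 2269794579) (nat_lit 36) (nat_lit 5) (nat_lit 39) (nat_lit 5) (nat_lit 37) (nat_lit 5) (nat_lit 300) (nat_lit 263) (nat_lit 217)))))) (XT.nd (nat_lit 390) (nat_lit 380) (nat_lit 0) (XT.nd (nat_lit 156) (nat_lit 304) (nat_lit 0) (XT.nd (nat_lit 78) (nat_lit 76) (nat_lit 0) (XT.lf (nat_lit 0) (nat_lit 6191958394) (nat_lit 228) (nat_lit 8191912598) (nat_lit 304) (nat_lit 581484823) (nat_lit 33) (nat_lit 5) (nat_lit 36) (nat_lit 5) (nat_lit 37) (nat_lit 5) (nat_lit 301) (nat_lit 263) (nat_lit 216)) (XT.lf (nat_lit 0) (nat_lit 2396298675) (nat_lit 304) (nat_lit 1522826274) (nat_lit 76) (nat_lit 11543465199) (nat_lit 32) (nat_lit 5) (nat_lit 36) (nat_lit 5) (nat_lit 33) (nat_lit 5) (nat_lit 302) (nat_lit 263) (nat_lit 215))) (XT.nd (nat_lit 78) (nat_lit 152) (nat_lit 0) (XT.lf (nat_lit 0) (nat_lit 5571664756) (nat_lit 228) (nat_lit 9771256542) (nat_lit 76)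 (nat_lit 637928484) (nat_lit 30) (nat_lit 5) (nat_lit 33) (nat_lit 5) (nat_lit 31) (nat_lit 5) (nat_lit 303) (nat_lit 263) (nat_lit 214)) (XT.nd (nat_lit 78) (nat_lit 152) (nat_lit 0) (XT.lf (nat_lit 0) (nat_lit 8957723854) (nat_lit 228) (nat_lit 2267021949) (nat_lit 76) (nat_lit 5297729853) (nat_lit 30) (nat_lit 5) (nat_lit 33) (nat_lit 5) (nat_lit 31) (nat_lit 5) (nat_lit 304) (nat_lit 263) (nat_lit 213)) (XT.lf (nat_lit 0) (nat_lit 5738845036) (nat_lit 152) (nat_lit 6827139543) (nat_lit 228) (nat_lit 4522600449) (nat_lit 28) (nat_lit 5) (nat_lit 30) (nat_lit 5) (nat_lit 31) (nat_lit 5) (nat_lit 305) (nat_lit 263) (nat_lit 212))))) (XT.nd (nat_lit 156) (nat_lit 152) (nat_lit 0) (XT.nd (nat_lit 78) (nat_lit 228) (nat_lit 0) (XT.lf (nat_lit 0) (nat_lit 14167376557) (nat_lit 152) (nat_lit 2189842229) (nat_lit 228) (nat_lit 1325697951) (nat_lit 28) (nat_lit 5) (nat_lit 30) (nat_lit 5)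 (nat_lit 31) (nat_lit 5) (nat_lit 306) (nat_lit 263) (nat_lit 211)) (XT.lf (nat_lit 0) (nat_lit 2049154012) (nat_lit 228) (nat_lit 13569985286) (nat_lit 76) (nat_lit 2682125402) (nat_lit 25) (nat_lit 5) (nat_lit 28) (nat_lit 5) (nat_lit 26) (nat_lit 5) (nat_lit 307) (nat_lit 263) (nat_lit 210))) (XT.nd (nat_lit 78) (nat_lit 152) (nat_lit 0) (XT.lf (nat_lit 0) (nat_lit 5610380068) (nat_lit 228) (nat_lit 5549047615) (nat_lit 76) (nat_lit 7786945338) (nat_lit 25) (nat_lit 5) (nat_lit 28) (nat_lit 5) (nat_lit 26) (nat_lit 5) (nat_lit 308) (nat_lit 263) (nat_lit 209)) (XT.nd (nat_lit 78) (nat_lit 0) (nat_lit 0) (XT.lf (nat_lit 0) (nat_lit 2913444205) (nat_lit 152) (nat_lit 6449111383) (nat_lit 228) (nat_lit 10260573694) (nat_lit 23) (nat_lit 5) (nat_lit 25) (nat_lit 5) (nat_lit 26) (nat_lit 5) (nat_lit 309) (nat_lit 263) (nat_lit 208)) (XT.lf (nat_lit 0) (nat_lit 11939820539) (nat_lit 152)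 (nat_lit 1424638454) (nat_lit 228) (nat_lit 6966193581) (nat_lit 23) (nat_lit 5) (nat_lit 25) (nat_lit 5) (nat_lit 26) (nat_lit 5) (nat_lit 310) (nat_lit 263) (nat_lit 207))))))))
noncomputable def xc117 : XT := (XT.nd (nat_lit 1560) (nat_lit 456) (nat_lit 0) (XT.nd (nat_lit 780) (nat_lit 304) (nat_lit 0) (XT.nd (nat_lit 390) (nat_lit 304) (nat_lit 0) (XT.nd (nat_lit 156) (nat_lit 152) (nat_lit 0) (XT.nd (nat_lit 78) (nat_lit 76) (nat_lit 0) (XT.lf (nat_lit 0) (nat_lit 240875260) (nat_lit 76) (nat_lit 17358831256) (nat_lit 152) (nat_lit 3472216567) (nat_lit 22) (nat_lit 5) (nat_lit 23) (nat_lit 5) (nat_lit 24) (nat_lit 4) (nat_lit 311) (nat_lit 263) (nat_lit 206)) (XT.lf (nat_lit 0) (nat_lit 327479434) (nat_lit 152) (nat_lit 12327317846) (nat_lit 76) (nat_lit 9188471454) (nat_lit 21) (nat_lit 5) (nat_lit 23) (nat_lit 5) (nat_lit 22) (nat_lit 5) (nat_lit 312) (nat_lit 263) (nat_lit 205)))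 (XT.nd (nat_lit 78) (nat_lit 152) (nat_lit 0) (XT.lf (nat_lit 0) (nat_lit 4171443351) (nat_lit 152) (nat_lit 3503792444) (nat_lit 76) (nat_lit 14976580113) (nat_lit 21) (nat_lit 5) (nat_lit 23) (nat_lit 5) (nat_lit 22) (nat_lit 5) (nat_lit 313) (nat_lit 263) (nat_lit 204)) (XT.nd (nat_lit 78) (nat_lit 0) (nat_lit 0) (XT.lf (nat_lit 0) (nat_lit 5903703176) (nat_lit 152) (nat_lit 2368430268) (nat_lit 228) (nat_lit 15225458159) (nat_lit 19) (nat_lit 5) (nat_lit 21) (nat_lit 5) (nat_lit 22) (nat_lit 5) (nat_lit 314) (nat_lit 263) (nat_lit 203)) (XT.lf (nat_lit 0) (nat_lit 12660863247) (nat_lit 228) (nat_lit 8576971644) (nat_lit 76) (nat_lit 3143697178) (nat_lit 19) (nat_lit 5) (nat_lit 22) (nat_lit 5) (nat_lit 20) (nat_lit 4) (nat_lit 315) (nat_lit 263) (nat_lit 202))))) (XT.nd (nat_lit 156) (nat_lit 228) (nat_lit 0) (XT.nd (nat_lit 78) (nat_lit 0) (nat_lit 0) (XT.lf (nat_lit 0) (nat_lit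 834376083) (nat_lit 76) (nat_lit 16460483362) (nat_lit 152) (nat_lit 8013543614) (nat_lit 18) (nat_lit 5) (nat_lit 19) (nat_lit 5) (nat_lit 20) (nat_lit 4) (nat_lit 316) (nat_lit 263) (nat_lit 201)) (XT.lf (nat_lit 0) (nat_lit 10970485283) (nat_lit 76) (nat_lit 11309860406) (nat_lit 152) (nat_lit 3995306207) (nat_lit 18) (nat_lit 5) (nat_lit 19) (nat_lit 5) (nat_lit 20) (nat_lit 4) (nat_lit 317) (nat_lit 263) (nat_lit 200))) (XT.nd (nat_lit 78) (nat_lit 152) (nat_lit 0) (XT.lf (nat_lit 0) (nat_lit 192006852) (nat_lit 152) (nat_lit 5723699219) (nat_lit 76) (nat_lit 21376637547) (nat_lit 17) (nat_lit 5) (nat_lit 19) (nat_lit 5) (nat_lit 18) (nat_lit 5) (nat_lit 318) (nat_lit 263) (nat_lit 199)) (XT.nd (nat_lit 78) (nat_lit 0) (nat_lit 0) (XT.lf (nat_lit 0) (nat_lit 4370916420) (nat_lit 152) (nat_lit 128245921) (nat_lit 228) (nat_lit 23855216047) (nat_lit 15) (nat_lit 5) (nat_lit 17) (nat_lit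 5) (nat_lit 18) (nat_lit 5) (nat_lit 319) (nat_lit 263) (nat_lit 198)) (XT.lf (nat_lit 0) (nat_lit 9189814521) (nat_lit 228) (nat_lit 14430738263) (nat_lit 76) (nat_lit 5840574753) (nat_lit 15) (nat_lit 5) (nat_lit 18) (nat_lit 5) (nat_lit 16) (nat_lit 4) (nat_lit 320) (nat_lit 263) (nat_lit 197)))))) (XT.nd (nat_lit 390) (nat_lit 76) (nat_lit 0) (XT.nd (nat_lit 156) (nat_lit 152) (nat_lit 0) (XT.nd (nat_lit 78) (nat_lit 76) (nat_lit 0) (XT.lf (nat_lit 0) (nat_lit 14094951328) (nat_lit 228) (nat_lit 4441131820) (nat_lit 76) (nat_lit 12088152048) (nat_lit 15) (nat_lit 5) (nat_lit 18) (nat_lit 5) (nat_lit 16) (nat_lit 4) (nat_lit 321) (nat_lit 263) (nat_lit 196)) (XT.lf (nat_lit 0) (nat_lit 6209899997) (nat_lit 76) (nat_lit 13111303326) (nat_lit 152) (nat_lit 12520519762) (nat_lit 14) (nat_lit 5) (nat_lit 15) (nat_lit 5) (nat_lit 16) (nat_lit 4) (nat_lit 322) (nat_lit 263) (nat_lit 195)))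 (XT.nd (nat_lit 78) (nat_lit 152) (nat_lit 0) (XT.lf (nat_lit 0) (nat_lit 17511452663) (nat_lit 76) (nat_lit 7351871483) (nat_lit 152) (nat_lit 8254050331) (nat_lit 14) (nat_lit 5) (nat_lit 15) (nat_lit 5) (nat_lit 16) (nat_lit 4) (nat_lit 323) (nat_lit 263) (nat_lit 194)) (XT.nd (nat_lit 78) (nat_lit 152) (nat_lit 0) (XT.lf (nat_lit 0) (nat_lit 29343590761) (nat_lit 76) (nat_lit 1319287403) (nat_lit 152) (nat_lit 3794930029) (nat_lit 14) (nat_lit 5) (nat_lit 15) (nat_lit 5) (nat_lit 16) (nat_lit 4) (nat_lit 324) (nat_lit 263) (nat_lit 193)) (XT.lf (nat_lit 0) (nat_lit 1013971864) (nat_lit 152) (nat_lit 29892353226) (nat_lit 76) (nat_lit 4950499591) (nat_lit 12) (nat_lit 5) (nat_lit 14) (nat_lit 5) (nat_lit 13) (nat_lit 4) (nat_lit 325) (nat_lit 263) (nat_lit 192))))) (XT.nd (nat_lit 156) (nat_lit 76) (nat_lit 0) (XT.nd (nat_lit 78) (nat_lit 0) (nat_lit 0) (XT.lf (nat_lit 0) (nat_lit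 6026555469) (nat_lit 152) (nat_lit 19665750348) (nat_lit 76) (nat_lit 11625850939) (nat_lit 12) (nat_lit 5) (nat_lit 14) (nat_lit 5) (nat_lit 13) (nat_lit 4) (nat_lit 326) (nat_lit 263) (nat_lit 191)) (XT.lf (nat_lit 0) (nat_lit 11271779565) (nat_lit 152) (nat_lit 8959891915) (nat_lit 76) (nat_lit 18621796645) (nat_lit 12) (nat_lit 5) (nat_lit 14) (nat_lit 5) (nat_lit 13) (nat_lit 4) (nat_lit 327) (nat_lit 263) (nat_lit 190))) (XT.nd (nat_lit 78) (nat_lit 0) (nat_lit 0) (XT.lf (nat_lit 0) (nat_lit 2325130921) (nat_lit 76) (nat_lit 14473303669) (nat_lit 152) (nat_lit 23666164611) (nat_lit 11) (nat_lit 5) (nat_lit 12) (nat_lit 5) (nat_lit 13) (nat_lit 4) (nat_lit 328) (nat_lit 263) (nat_lit 189)) (XT.nd (nat_lit 78) (nat_lit 0) (nat_lit 0) (XT.lf (nat_lit 0) (nat_lit 14455417585) (nat_lit 76) (nat_lit 8280959380) (nat_lit 152) (nat_lit 19413174161) (nat_lit 11) (nat_lit 5) (nat_lit 12)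 (nat_lit 5) (nat_lit 13) (nat_lit 4) (nat_lit 329) (nat_lit 263) (nat_lit 188)) (XT.lf (nat_lit 0) (nat_lit 27163595219) (nat_lit 76) (nat_lit 1791635043) (nat_lit 152) (nat_lit 14964331147) (nat_lit 11) (nat_lit 5) (nat_lit 12) (nat_lit 5) (nat_lit 13) (nat_lit 4) (nat_lit 330) (nat_lit 263) (nat_lit 187))))))) (XT.nd (nat_lit 780) (nat_lit 228) (nat_lit 0) (XT.nd (nat_lit 390) (nat_lit 76) (nat_lit 0) (XT.nd (nat_lit 156) (nat_lit 76) (nat_lit 0) (XT.nd (nat_lit 78) (nat_lit 76) (nat_lit 0) (XT.lf (nat_lit 0) (nat_lit 35548023291) (nat_lit 152) (nat_lit 5377144985) (nat_lit 0) (nat_lit 4849764983) (nat_lit 11) (nat_lit 5) (nat_lit 13) (nat_lit 4) (nat_lit 11) (nat_lit 4) (nat_lit 331) (nat_lit 263) (nat_lit 186)) (XT.lf (nat_lit 0) (nat_lit 6730133867) (nat_lit 76) (nat_lit 35860090509) (nat_lit 76) (nat_lit 5126871291) (nat_lit 10) (nat_lit 4) (nat_lit 11) (nat_lit 5) (nat_lit 11)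 (nat_lit 4) (nat_lit 332) (nat_lit 263) (nat_lit 185))) (XT.nd (nat_lit 78) (nat_lit 0) (nat_lit 0) (XT.lf (nat_lit 0) (nat_lit 298791191) (nat_lit 152) (nat_lit 30153993382) (nat_lit 76) (nat_lit 19299516692) (nat_lit 9) (nat_lit 5) (nat_lit 11) (nat_lit 5) (nat_lit 10) (nat_lit 4) (nat_lit 333) (nat_lit 263) (nat_lit 184)) (XT.nd (nat_lit 78) (nat_lit 0) (nat_lit 0) (XT.lf (nat_lit 0) (nat_lit 5809504398) (nat_lit 152) (nat_lit 18888741883) (nat_lit 76) (nat_lit 27187524274) (nat_lit 9) (nat_lit 5) (nat_lit 11) (nat_lit 5) (nat_lit 10) (nat_lit 4) (nat_lit 334) (nat_lit 263) (nat_lit 183)) (XT.lf (nat_lit 0) (nat_lit 11582480976) (nat_lit 152) (nat_lit 7084340447) (nat_lit 76) (nat_lit 35459764047) (nat_lit 9) (nat_lit 5) (nat_lit 11) (nat_lit 5) (nat_lit 10) (nat_lit 4) (nat_lit 335) (nat_lit 263) (nat_lit 182))))) (XT.nd (nat_lit 156) (nat_lit 0) (nat_lit 0) (XT.nd (nat_lit 78) (nat_lit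 0) (nat_lit 0) (XT.lf (nat_lit 0) (nat_lit 5462139209) (nat_lit 76) (nat_lit 12254606198) (nat_lit 152) (nat_lit 38759071912) (nat_lit 8) (nat_lit 5) (nat_lit 9) (nat_lit 5) (nat_lit 10) (nat_lit 4) (nat_lit 336) (nat_lit 263) (nat_lit 181)) (XT.lf (nat_lit 0) (nat_lit 18859301128) (nat_lit 76) (nat_lit 5406007551) (nat_lit 152) (nat_lit 34671830550) (nat_lit 8) (nat_lit 5) (nat_lit 9) (nat_lit 5) (nat_lit 10) (nat_lit 4) (nat_lit 337) (nat_lit 263) (nat_lit 180))) (XT.nd (nat_lit 78) (nat_lit 0) (nat_lit 0) (XT.lf (nat_lit 0) (nat_lit 31157216524) (nat_lit 152) (nat_lit 28645039116) (nat_lit 0) (nat_lit 1718483157) (nat_lit 8) (nat_lit 5) (nat_lit 10) (nat_lit 4) (nat_lit 8) (nat_lit 4) (nat_lit 338) (nat_lit 263) (nat_lit 179)) (XT.nd (nat_lit 78) (nat_lit 0) (nat_lit 0) (XT.lf (nat_lit 0) (nat_lit 38470959243) (nat_lit 152) (nat_lit 16750141200) (nat_lit 0) (nat_lit 9008562956) (nat_lit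 8) (nat_lit 5) (nat_lit 10) (nat_lit 4) (nat_lit 8) (nat_lit 4) (nat_lit 339) (nat_lit 263) (nat_lit 178)) (XT.lf (nat_lit 0) (nat_lit 46139547582) (nat_lit 152) (nat_lit 4280420240) (nat_lit 0) (nat_lit 16654615180) (nat_lit 8) (nat_lit 5) (nat_lit 10) (nat_lit 4) (nat_lit 8) (nat_lit 4) (nat_lit 340) (nat_lit 263) (nat_lit 177)))))) (XT.nd (nat_lit 390) (nat_lit 76) (nat_lit 0) (XT.nd (nat_lit 156) (nat_lit 76) (nat_lit 0) (XT.nd (nat_lit 78) (nat_lit 0) (nat_lit 0) (XT.lf (nat_lit 0) (nat_lit 9084576765) (nat_lit 76) (nat_lit 45238499022) (nat_lit 76) (nat_lit 15732103653) (nat_lit 7) (nat_lit 4) (nat_lit 8) (nat_lit 5) (nat_lit 8) (nat_lit 4) (nat_lit 341) (nat_lit 263) (nat_lit 176)) (XT.lf (nat_lit 0) (nat_lit 23247762973) (nat_lit 76) (nat_lit 39730383395) (nat_lit 76) (nat_lit 10203547106) (nat_lit 7) (nat_lit 4) (nat_lit 8) (nat_lit 5) (nat_lit 8) (nat_lit 4) (nat_lit 342) (nat_lit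 263) (nat_lit 175))) (XT.nd (nat_lit 78) (nat_lit 76) (nat_lit 0) (XT.lf (nat_lit 0) (nat_lit 38101330231) (nat_lit 76) (nat_lit 33954997370) (nat_lit 76) (nat_lit 4408693538) (nat_lit 7) (nat_lit 4) (nat_lit 8) (nat_lit 5) (nat_lit 8) (nat_lit 4) (nat_lit 343) (nat_lit 263) (nat_lit 174)) (XT.nd (nat_lit 78) (nat_lit 0) (nat_lit 0) (XT.lf (nat_lit 0) (nat_lit 1612923778) (nat_lit 152) (nat_lit 26258350603) (nat_lit 76) (nat_lit 52040404753) (nat_lit 6) (nat_lit 5) (nat_lit 8) (nat_lit 5) (nat_lit 7) (nat_lit 4) (nat_lit 344) (nat_lit 263) (nat_lit 173)) (XT.lf (nat_lit 0) (nat_lit 7778566112) (nat_lit 152) (nat_lit 13636441454) (nat_lit 76) (nat_lit 62112498518) (nat_lit 6) (nat_lit 5) (nat_lit 8) (nat_lit 5) (nat_lit 7) (nat_lit 4) (nat_lit 345) (nat_lit 263) (nat_lit 172))))) (XT.nd (nat_lit 234) (nat_lit 0) (nat_lit 0) (XT.nd (nat_lit 78) (nat_lit 76) (nat_lit 0) (XT.lf (nat_lit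 0) (nat_lit 14244019291) (nat_lit 152) (nat_lit 399079234) (nat_lit 76) (nat_lit 72681454179) (nat_lit 6) (nat_lit 5) (nat_lit 8) (nat_lit 5) (nat_lit 7) (nat_lit 4) (nat_lit 346) (nat_lit 263) (nat_lit 171)) (XT.nd (nat_lit 78) (nat_lit 0) (nat_lit 0) (XT.lf (nat_lit 0) (nat_lit 13931136970) (nat_lit 76) (nat_lit 7311044369) (nat_lit 152) (nat_lit 70058803036) (nat_lit 5) (nat_lit 5) (nat_lit 6) (nat_lit 5) (nat_lit 7) (nat_lit 4) (nat_lit 347) (nat_lit 263) (nat_lit 170)) (XT.lf (nat_lit 0) (nat_lit 28595154768) (nat_lit 152) (nat_lit 66505294967) (nat_lit 0) (nat_lit 375547047) (nat_lit 5) (nat_lit 5) (nat_lit 7) (nat_lit 4) (nat_lit 5) (nat_lit 4) (nat_lit 348) (nat_lit 263) (nat_lit 169)))) (XT.nd (nat_lit 78) (nat_lit 0) (nat_lit 0) (XT.lf (nat_lit 0) (nat_lit 36427994018) (nat_lit 152) (nat_lit 55231607967) (nat_lit 0) (nat_lit 8194551078) (nat_lit 5) (nat_lit 5) (nat_lit 7) (nat_lit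 4) (nat_lit 5) (nat_lit 4) (nat_lit 349) (nat_lit 263) (nat_lit 168)) (XT.nd (nat_lit 78) (nat_lit 0) (nat_lit 0) (XT.lf (nat_lit 0) (nat_lit 44645202815) (nat_lit 152) (nat_lit 43407798402) (nat_lit 0) (nat_lit 16398583476) (nat_lit 5) (nat_lit 5) (nat_lit 7) (nat_lit 4) (nat_lit 5) (nat_lit 4) (nat_lit 350) (nat_lit 263) (nat_lit 167)) (XT.lf (nat_lit 0) (nat_lit 53266345943) (nat_lit 152) (nat_lit 31005714345) (nat_lit 0) (nat_lit 25007177651) (nat_lit 5) (nat_lit 5) (nat_lit 7) (nat_lit 4) (nat_lit 5) (nat_lit 4) (nat_lit 351) (nat_lit 263) (nat_lit 166))))))))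
noncomputable def xc118 : XT := (XT.nd (nat_lit 1560) (nat_lit 76) (nat_lit 0) (XT.nd (nat_lit 780) (nat_lit 152) (nat_lit 0) (XT.nd (nat_lit 390) (nat_lit 0) (nat_lit 0) (XT.nd (nat_lit 156) (nat_lit 76) (nat_lit 0) (XT.nd (nat_lit 78) (nat_lit 0) (nat_lit 0) (XT.lf (nat_lit 0) (nat_lit 62311949932) (nat_lit 152) (nat_lit 17995827023) (nat_lit 0) (nat_lit 34040830257) (nat_lit 5) (nat_lit 5) (nat_lit 7) (nat_lit 4) (nat_lit 5) (nat_lit 4) (nat_lit 352) (nat_lit 263) (nat_lit 165)) (XT.lf (nat_lit 0) (nat_lit 71803551934) (nat_lit 152) (nat_lit 4347160514) (nat_lit 0) (nat_lit 43521049991) (nat_lit 5) (nat_lit 5) (nat_lit 7) (nat_lit 4) (nat_lit 5) (nat_lit 4) (nat_lit 353) (nat_lit 263) (nat_lit 164))) (XT.nd (nat_lit 78) (nat_lit 0) (nat_lit 0) (XT.lf (nat_lit 0) (nat_lit 10302527216) (nat_lit 76) (nat_lit 71622075110) (nat_lit 76) (nat_lit 43328732909) (nat_lit 4) (nat_lit 4) (nat_lit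 5) (nat_lit 5) (nat_lit 5) (nat_lit 4) (nat_lit 354) (nat_lit 263) (nat_lit 163)) (XT.nd (nat_lit 78) (nat_lit 0) (nat_lit 0) (XT.lf (nat_lit 0) (nat_lit 25824645574) (nat_lit 76) (nat_lit 66794811415) (nat_lit 76) (nat_lit 38491145161) (nat_lit 4) (nat_lit 4) (nat_lit 5) (nat_lit 5) (nat_lit 5) (nat_lit 4) (nat_lit 355) (nat_lit 263) (nat_lit 162)) (XT.lf (nat_lit 0) (nat_lit 42112415223) (nat_lit 76) (nat_lit 61731049148) (nat_lit 76) (nat_lit 33417550462) (nat_lit 4) (nat_lit 4) (nat_lit 5) (nat_lit 5) (nat_lit 5) (nat_lit 4) (nat_lit 356) (nat_lit 263) (nat_lit 161))))) (XT.nd (nat_lit 156) (nat_lit 0) (nat_lit 0) (XT.nd (nat_lit 78) (nat_lit 0) (nat_lit 0) (XT.lf (nat_lit 0) (nat_lit 59204616569) (nat_lit 76) (nat_lit 56418731731) (nat_lit 76) (nat_lit 28095868823) (nat_lit 4) (nat_lit 4) (nat_lit 5) (nat_lit 5) (nat_lit 5) (nat_lit 4) (nat_lit 357) (nat_lit 263) (nat_lit 160))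 (XT.lf (nat_lit 0) (nat_lit 77141945328) (nat_lit 76) (nat_lit 50845210789) (nat_lit 76) (nat_lit 22513429576) (nat_lit 4) (nat_lit 4) (nat_lit 5) (nat_lit 5) (nat_lit 5) (nat_lit 4) (nat_lit 358) (nat_lit 263) (nat_lit 159))) (XT.nd (nat_lit 78) (nat_lit 0) (nat_lit 0) (XT.lf (nat_lit 0) (nat_lit 95967109425) (nat_lit 76) (nat_lit 44997216035) (nat_lit 76) (nat_lit 16656941197) (nat_lit 4) (nat_lit 4) (nat_lit 5) (nat_lit 5) (nat_lit 5) (nat_lit 4) (nat_lit 359) (nat_lit 263) (nat_lit 158)) (XT.nd (nat_lit 78) (nat_lit 0) (nat_lit 0) (XT.lf (nat_lit 0) (nat_lit 115724930682) (nat_lit 76) (nat_lit 38860823671) (nat_lit 76) (nat_lit 10512459667) (nat_lit 4) (nat_lit 4) (nat_lit 5) (nat_lit 5) (nat_lit 5) (nat_lit 4) (nat_lit 360) (nat_lit 263) (nat_lit 157)) (XT.lf (nat_lit 0) (nat_lit 136462451528) (nat_lit 76) (nat_lit 32421423239) (nat_lit 76) (nat_lit 4065355267) (nat_lit 4) (nat_lit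 4) (nat_lit 5) (nat_lit 5) (nat_lit 5) (nat_lit 4) (nat_lit 361) (nat_lit 263) (nat_lit 156)))))) (XT.nd (nat_lit 390) (nat_lit 0) (nat_lit 0) (XT.nd (nat_lit 156) (nat_lit 76) (nat_lit 0) (XT.nd (nat_lit 78) (nat_lit 0) (nat_lit 0) (XT.lf (nat_lit 0) (nat_lit 2613314277) (nat_lit 152) (nat_lit 23006110816) (nat_lit 76) (nat_lit 155571474994) (nat_lit 3) (nat_lit 5) (nat_lit 5) (nat_lit 5) (nat_lit 4) (nat_lit 4) (nat_lit 362) (nat_lit 263) (nat_lit 155)) (XT.lf (nat_lit 0) (nat_lit 9485254849) (nat_lit 152) (nat_lit 8925620368) (nat_lit 76) (nat_lit 171430650135) (nat_lit 3) (nat_lit 5) (nat_lit 5) (nat_lit 5) (nat_lit 4) (nat_lit 4) (nat_lit 363) (nat_lit 263) (nat_lit 154))) (XT.nd (nat_lit 78) (nat_lit 0) (nat_lit 0) (XT.lf (nat_lit 0) (nat_lit 6045172678) (nat_lit 76) (nat_lit 10746154377) (nat_lit 152) (nat_lit 182128829979) (nat_lit 2) (nat_lit 5) (nat_lit 3) (nat_lit 5) (nat_lit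 4) (nat_lit 4) (nat_lit 364) (nat_lit 263) (nat_lit 153)) (XT.nd (nat_lit 78) (nat_lit 0) (nat_lit 0) (XT.lf (nat_lit 0) (nat_lit 22067293775) (nat_lit 76) (nat_lit 2542793851) (nat_lit 152) (nat_lit 183835265230) (nat_lit 2) (nat_lit 5) (nat_lit 3) (nat_lit 5) (nat_lit 4) (nat_lit 4) (nat_lit 365) (nat_lit 263) (nat_lit 152)) (XT.lf (nat_lit 0) (nat_lit 32910922944) (nat_lit 152) (nat_lit 179657952332) (nat_lit 0) (nat_lit 5873378067) (nat_lit 2) (nat_lit 5) (nat_lit 4) (nat_lit 4) (nat_lit 2) (nat_lit 4) (nat_lit 366) (nat_lit 263) (nat_lit 151))))) (XT.nd (nat_lit 156) (nat_lit 0) (nat_lit 0) (XT.nd (nat_lit 78) (nat_lit 0) (nat_lit 0) (XT.lf (nat_lit 0) (nat_lit 41665014253) (nat_lit 152) (nat_lit 172650081204) (nat_lit 0) (nat_lit 14621994309) (nat_lit 2) (nat_lit 5) (nat_lit 4) (nat_lit 4) (nat_lit 2) (nat_lit 4) (nat_lit 367) (nat_lit 263) (nat_lit 150)) (XT.lf (nat_lit 0) (nat_lit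 50853504491) (nat_lit 152) (nat_lit 165298060155) (nat_lit 0) (nat_lit 23805270198) (nat_lit 2) (nat_lit 5) (nat_lit 4) (nat_lit 4) (nat_lit 2) (nat_lit 4) (nat_lit 368) (nat_lit 263) (nat_lit 149))) (XT.nd (nat_lit 78) (nat_lit 0) (nat_lit 0) (XT.lf (nat_lit 0) (nat_lit 60498271015) (nat_lit 152) (nat_lit 157584384371) (nat_lit 0) (nat_lit 33445070676) (nat_lit 2) (nat_lit 5) (nat_lit 4) (nat_lit 4) (nat_lit 2) (nat_lit 4) (nat_lit 369) (nat_lit 263) (nat_lit 148)) (XT.nd (nat_lit 78) (nat_lit 0) (nat_lit 0) (XT.lf (nat_lit 0) (nat_lit 70622277555) (nat_lit 152) (nat_lit 149490687958) (nat_lit 0) (nat_lit 43564347648) (nat_lit 2) (nat_lit 5) (nat_lit 4) (nat_lit 4) (nat_lit 2) (nat_lit 4) (nat_lit 370) (nat_lit 263) (nat_lit 147)) (XT.lf (nat_lit 0) (nat_lit 81249628889) (nat_lit 152) (nat_lit 140997700210) (nat_lit 0) (nat_lit 54187194631) (nat_lit 2) (nat_lit 5) (nat_lit 4) (nat_lit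 4) (nat_lit 2) (nat_lit 4) (nat_lit 371) (nat_lit 263) (nat_lit 146))))))) (XT.nd (nat_lit 780) (nat_lit 76) (nat_lit 0) (XT.nd (nat_lit 390) (nat_lit 0) (nat_lit 0) (XT.nd (nat_lit 156) (nat_lit 0) (nat_lit 0) (XT.nd (nat_lit 78) (nat_lit 0) (nat_lit 0) (XT.lf (nat_lit 0) (nat_lit 92405628233) (nat_lit 152) (nat_lit 132085199728) (nat_lit 0) (nat_lit 65338904119) (nat_lit 2) (nat_lit 5) (nat_lit 4) (nat_lit 4) (nat_lit 2) (nat_lit 4) (nat_lit 372) (nat_lit 263) (nat_lit 145)) (XT.lf (nat_lit 0) (nat_lit 104116837492) (nat_lit 152) (nat_lit 122731966273) (nat_lit 0) (nat_lit 77046027799) (nat_lit 2) (nat_lit 5) (nat_lit 4) (nat_lit 4) (nat_lit 2) (nat_lit 4) (nat_lit 373) (nat_lit 263) (nat_lit 144))) (XT.nd (nat_lit 78) (nat_lit 0) (nat_lit 0) (XT.lf (nat_lit 0) (nat_lit 116411140497) (nat_lit 152) (nat_lit 112915730240) (nat_lit 0) (nat_lit 89336439776) (nat_lit 2) (nat_lit 5) (nat_lit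 4) (nat_lit 4) (nat_lit 2) (nat_lit 4) (nat_lit 374) (nat_lit 263) (nat_lit 143)) (XT.nd (nat_lit 78) (nat_lit 0) (nat_lit 0) (XT.lf (nat_lit 0) (nat_lit 129317809398) (nat_lit 152) (nat_lit 102613119641) (nat_lit 0) (nat_lit 102239402937) (nat_lit 2) (nat_lit 5) (nat_lit 4) (nat_lit 4) (nat_lit 2) (nat_lit 4) (nat_lit 375) (nat_lit 263) (nat_lit 142)) (XT.lf (nat_lit 0) (nat_lit 142867574359) (nat_lit 152) (nat_lit 91799604448) (nat_lit 0) (nat_lit 115785638621) (nat_lit 2) (nat_lit 5) (nat_lit 4) (nat_lit 4) (nat_lit 2) (nat_lit 4) (nat_lit 376) (nat_lit 263) (nat_lit 141))))) (XT.nd (nat_lit 156) (nat_lit 0) (nat_lit 0) (XT.nd (nat_lit 78) (nat_lit 0) (nat_lit 0) (XT.lf (nat_lit 0) (nat_lit 157092696724) (nat_lit 152) (nat_lit 80449438198) (nat_lit 0) (nat_lit 130007399771) (nat_lit 2) (nat_lit 5) (nat_lit 4) (nat_lit 4) (nat_lit 2) (nat_lit 4) (nat_lit 377) (nat_lit 263) (nat_lit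 140)) (XT.lf (nat_lit 0) (nat_lit 172027045834) (nat_lit 152) (nat_lit 68535596685) (nat_lit 0) (nat_lit 144938547723) (nat_lit 2) (nat_lit 5) (nat_lit 4) (nat_lit 4) (nat_lit 2) (nat_lit 4) (nat_lit 378) (nat_lit 263) (nat_lit 139))) (XT.nd (nat_lit 78) (nat_lit 0) (nat_lit 0) (XT.lf (nat_lit 0) (nat_lit 187706179662) (nat_lit 152) (nat_lit 56029713619) (nat_lit 0) (nat_lit 160614632829) (nat_lit 2) (nat_lit 5) (nat_lit 4) (nat_lit 4) (nat_lit 2) (nat_lit 4) (nat_lit 379) (nat_lit 263) (nat_lit 138)) (XT.nd (nat_lit 78) (nat_lit 0) (nat_lit 0) (XT.lf (nat_lit 0) (nat_lit 204167429479) (nat_lit 152) (nat_lit 42902013090) (nat_lit 0) (nat_lit 177072979101) (nat_lit 2) (nat_lit 5) (nat_lit 4) (nat_lit 4) (nat_lit 2) (nat_lit 4) (nat_lit 380) (nat_lit 263) (nat_lit 137)) (XT.lf (nat_lit 0) (nat_lit 221449988737) (nat_lit 152) (nat_lit 29121238666) (nat_lit 0) (nat_lit 194352773079) (nat_lit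 2) (nat_lit 5) (nat_lit 4) (nat_lit 4) (nat_lit 2) (nat_lit 4) (nat_lit 381) (nat_lit 263) (nat_lit 136)))))) (XT.nd (nat_lit 390) (nat_lit 0) (nat_lit 0) (XT.nd (nat_lit 156) (nat_lit 0) (nat_lit 0) (XT.nd (nat_lit 78) (nat_lit 76) (nat_lit 0) (XT.lf (nat_lit 0) (nat_lit 239595006386) (nat_lit 152) (nat_lit 14654578981) (nat_lit 0) (nat_lit 212495157128) (nat_lit 2) (nat_lit 5) (nat_lit 4) (nat_lit 4) (nat_lit 2) (nat_lit 4) (nat_lit 382) (nat_lit 263) (nat_lit 135)) (XT.lf (nat_lit 0) (nat_lit 550014285) (nat_lit 76) (nat_lit 258104257830) (nat_lit 76) (nat_lit 231001900380) (nat_lit 1) (nat_lit 4) (nat_lit 2) (nat_lit 5) (nat_lit 2) (nat_lit 4) (nat_lit 383) (nat_lit 263) (nat_lit 134))) (XT.nd (nat_lit 78) (nat_lit 0) (nat_lit 0) (XT.lf (nat_lit 0) (nat_lit 17020656252) (nat_lit 76) (nat_lit 261892466780) (nat_lit 76) (nat_lit 234787720577) (nat_lit 1) (nat_lit 4) (nat_lit 2) (nat_lit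 5) (nat_lit 2) (nat_lit 4) (nat_lit 384) (nat_lit 263) (nat_lit 133)) (XT.nd (nat_lit 78) (nat_lit 0) (nat_lit 0) (XT.lf (nat_lit 0) (nat_lit 34312016170) (nat_lit 76) (nat_lit 265871414149) (nat_lit 76) (nat_lit 238764392944) (nat_lit 1) (nat_lit 4) (nat_lit 2) (nat_lit 5) (nat_lit 2) (nat_lit 4) (nat_lit 385) (nat_lit 263) (nat_lit 132)) (XT.lf (nat_lit 0) (nat_lit 52465263944) (nat_lit 76) (nat_lit 270050573623) (nat_lit 76) (nat_lit 242941385748) (nat_lit 1) (nat_lit 4) (nat_lit 2) (nat_lit 5) (nat_lit 2) (nat_lit 4) (nat_lit 386) (nat_lit 263) (nat_lit 131))))) (XT.nd (nat_lit 31122) (nat_lit 0) (nat_lit 8740) (XT.nd (nat_lit 78) (nat_lit 0) (nat_lit 0) (XT.lf (nat_lit 0) (nat_lit 71523621592) (nat_lit 76) (nat_lit 274439895579) (nat_lit 76) (nat_lit 247328644210) (nat_lit 1) (nat_lit 4) (nat_lit 2) (nat_lit 5) (nat_lit 2) (nat_lit 4) (nat_lit 387) (nat_lit 263) (nat_lit 130)) (XT.nd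 (nat_lit 30966) (nat_lit 0) (nat_lit 9120) (XT.lf (nat_lit 0) (nat_lit 91532466157) (nat_lit 76) (nat_lit 279049830786) (nat_lit 76) (nat_lit 251936614183) (nat_lit 1) (nat_lit 4) (nat_lit 2) (nat_lit 5) (nat_lit 2) (nat_lit 4) (nat_lit 388) (nat_lit 263) (nat_lit 129)) (XT.lf (nat_lit 0) (nat_lit 526266370) (nat_lit 380) (nat_lit 1394868155) (nat_lit 380) (nat_lit 1394868155) (nat_lit 121) (nat_lit 3) (nat_lit 126) (nat_lit 3) (nat_lit 126) (nat_lit 5) (nat_lit 264) (nat_lit 264) (nat_lit 252)))) (XT.nd (nat_lit 78) (nat_lit 380) (nat_lit 0) (XT.lf (nat_lit 76) (nat_lit 256414591) (nat_lit 0) (nat_lit 2956597022) (nat_lit 380) (nat_lit 3470791231) (nat_lit 122) (nat_lit 5) (nat_lit 121) (nat_lit 3) (nat_lit 126) (nat_lit 5) (nat_lit 265) (nat_lit 264) (nat_lit 251)) (XT.nd (nat_lit 78) (nat_lit 380) (nat_lit 0) (XT.lf (nat_lit 76) (nat_lit 3477530777) (nat_lit 0) (nat_lit 1913713797)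 (nat_lit 380) (nat_lit 1351926049) (nat_lit 122) (nat_lit 5) (nat_lit 121) (nat_lit 3) (nat_lit 126) (nat_lit 5) (nat_lit 266) (nat_lit 264) (nat_lit 250)) (XT.lf (nat_lit 0) (nat_lit 711400203) (nat_lit 380) (nat_lit 34933746) (nat_lit 456) (nat_lit 6065592180) (nat_lit 116) (nat_lit 5) (nat_lit 121) (nat_lit 3) (nat_lit 122) (nat_lit 5) (nat_lit 267) (nat_lit 264) (nat_lit 249))))))))
noncomputable def xc119 : XT := (XT.nd (nat_lit 1560) (nat_lit 2584) (nat_lit 0) (XT.nd (nat_lit 780) (nat_lit 2356) (nat_lit 0) (XT.nd (nat_lit 390) (nat_lit 1596) (nat_lit 0) (XT.nd (nat_lit 156) (nat_lit 456) (nat_lit 0) (XT.nd (nat_lit 78) (nat_lit 0) (nat_lit 0) (XT.lf (nat_lit 0) (nat_lit 2767481059) (nat_lit 380) (nat_lit 3525580403) (nat_lit 456) (nat_lit 593602072) (nat_lit 117) (nat_lit 5) (nat_lit 122) (nat_lit 5) (nat_lit 123) (nat_lit 5) (nat_lit 268) (nat_lit 264) (nat_lit 248)) (XT.lf (nat_lit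 0) (nat_lit 4817772763) (nat_lit 380) (nat_lit 127285396) (nat_lit 456) (nat_lit 2025893455) (nat_lit 117) (nat_lit 5) (nat_lit 122) (nat_lit 5) (nat_lit 123) (nat_lit 5) (nat_lit 269) (nat_lit 264) (nat_lit 247))) (XT.nd (nat_lit 78) (nat_lit 456) (nat_lit 0) (XT.lf (nat_lit 76) (nat_lit 3477909506) (nat_lit 0) (nat_lit 3431322321) (nat_lit 456) (nat_lit 153655485) (nat_lit 118) (nat_lit 5) (nat_lit 117) (nat_lit 5) (nat_lit 123) (nat_lit 5) (nat_lit 270) (nat_lit 264) (nat_lit 246)) (XT.nd (nat_lit 78) (nat_lit 0) (nat_lit 76) (XT.lf (nat_lit 76) (nat_lit 870026) (nat_lit 0) (nat_lit 1771455941) (nat_lit 532) (nat_lit 5391468609) (nat_lit 112) (nat_lit 5) (nat_lit 111) (nat_lit 5) (nat_lit 118) (nat_lit 5) (nat_lit 271) (nat_lit 264) (nat_lit 245)) (XT.lf (nat_lit 0) (nat_lit 3741996610) (nat_lit 456) (nat_lit 3461571634) (nat_lit 76) (nat_lit 68741351) (nat_lit 112) (nat_lit 5) (nat_lit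 118) (nat_lit 5) (nat_lit 113) (nat_lit 5) (nat_lit 272) (nat_lit 264) (nat_lit 244))))) (XT.nd (nat_lit 156) (nat_lit 1140) (nat_lit 0) (XT.nd (nat_lit 78) (nat_lit 76) (nat_lit 0) (XT.lf (nat_lit 0) (nat_lit 327957834) (nat_lit 456) (nat_lit 5412821917) (nat_lit 532) (nat_lit 1649240156) (nat_lit 106) (nat_lit 5) (nat_lit 112) (nat_lit 5) (nat_lit 113) (nat_lit 5) (nat_lit 273) (nat_lit 264) (nat_lit 243)) (XT.lf (nat_lit 0) (nat_lit 273321666) (nat_lit 532) (nat_lit 3170312018) (nat_lit 76) (nat_lit 4072107367) (nat_lit 105) (nat_lit 5) (nat_lit 112) (nat_lit 5) (nat_lit 106) (nat_lit 5) (nat_lit 274) (nat_lit 264) (nat_lit 242))) (XT.nd (nat_lit 78) (nat_lit 608) (nat_lit 0) (XT.lf (nat_lit 0) (nat_lit 838964593) (nat_lit 532) (nat_lit 1313845355) (nat_lit 608) (nat_lit 5498035290) (nat_lit 98) (nat_lit 5) (nat_lit 105) (nat_lit 5) (nat_lit 106) (nat_lit 5) (nat_lit 275) (nat_lit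 264) (nat_lit 241)) (XT.nd (nat_lit 78) (nat_lit 608) (nat_lit 0) (XT.lf (nat_lit 0) (nat_lit 4102080612) (nat_lit 608) (nat_lit 2727365072) (nat_lit 76) (nat_lit 964716175) (nat_lit 98) (nat_lit 5) (nat_lit 106) (nat_lit 5) (nat_lit 99) (nat_lit 5) (nat_lit 276) (nat_lit 264) (nat_lit 240)) (XT.lf (nat_lit 0) (nat_lit 1511221446) (nat_lit 608) (nat_lit 4593997897) (nat_lit 684) (nat_lit 1841840574) (nat_lit 90) (nat_lit 5) (nat_lit 98) (nat_lit 5) (nat_lit 99) (nat_lit 5) (nat_lit 277) (nat_lit 264) (nat_lit 239)))))) (XT.nd (nat_lit 390) (nat_lit 1140) (nat_lit 0) (XT.nd (nat_lit 156) (nat_lit 456) (nat_lit 0) (XT.nd (nat_lit 78) (nat_lit 684) (nat_lit 0) (XT.lf (nat_lit 0) (nat_lit 57320942) (nat_lit 684) (nat_lit 2130044805) (nat_lit 76) (nat_lit 5922390329) (nat_lit 89) (nat_lit 5) (nat_lit 98) (nat_lit 5) (nat_lit 90) (nat_lit 5) (nat_lit 278) (nat_lit 264) (nat_lit 238)) (XT.lf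 (nat_lit 0) (nat_lit 1949786618) (nat_lit 760) (nat_lit 5926790141) (nat_lit 76) (nat_lit 404692101) (nat_lit 80) (nat_lit 5) (nat_lit 90) (nat_lit 5) (nat_lit 81) (nat_lit 5) (nat_lit 279) (nat_lit 264) (nat_lit 237))) (XT.nd (nat_lit 78) (nat_lit 456) (nat_lit 0) (XT.lf (nat_lit 0) (nat_lit 3929155475) (nat_lit 760) (nat_lit 1437015172) (nat_lit 76) (nat_lit 3095766659) (nat_lit 80) (nat_lit 5) (nat_lit 90) (nat_lit 5) (nat_lit 81) (nat_lit 5) (nat_lit 280) (nat_lit 264) (nat_lit 236)) (XT.nd (nat_lit 78) (nat_lit 0) (nat_lit 0) (XT.lf (nat_lit 0) (nat_lit 3308679816) (nat_lit 456) (nat_lit 2674048568) (nat_lit 532) (nat_lit 2670333792) (nat_lit 74) (nat_lit 5) (nat_lit 80) (nat_lit 5) (nat_lit 81) (nat_lit 5) (nat_lit 281) (nat_lit 264) (nat_lit 235)) (XT.lf (nat_lit 0) (nat_lit 8092182626) (nat_lit 532) (nat_lit 590908408) (nat_lit 76) (nat_lit 173168100) (nat_lit 74) (nat_lit 5)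 (nat_lit 81) (nat_lit 5) (nat_lit 75) (nat_lit 5) (nat_lit 282) (nat_lit 264) (nat_lit 234))))) (XT.nd (nat_lit 156) (nat_lit 380) (nat_lit 0) (XT.nd (nat_lit 78) (nat_lit 304) (nat_lit 0) (XT.lf (nat_lit 0) (nat_lit 1240940516) (nat_lit 456) (nat_lit 4663132390) (nat_lit 76) (nat_lit 3162583899) (nat_lit 68) (nat_lit 5) (nat_lit 74) (nat_lit 5) (nat_lit 69) (nat_lit 5) (nat_lit 283) (nat_lit 264) (nat_lit 233)) (XT.lf (nat_lit 0) (nat_lit 303402702) (nat_lit 304) (nat_lit 2962590784) (nat_lit 380) (nat_lit 6023833446) (nat_lit 64) (nat_lit 5) (nat_lit 68) (nat_lit 5) (nat_lit 69) (nat_lit 5) (nat_lit 284) (nat_lit 264) (nat_lit 232))) (XT.nd (nat_lit 78) (nat_lit 380) (nat_lit 0) (XT.lf (nat_lit 0) (nat_lit 5407148893) (nat_lit 380) (nat_lit 3920254471) (nat_lit 76) (nat_lit 196154493) (nat_lit 64) (nat_lit 5) (nat_lit 69) (nat_lit 5) (nat_lit 65) (nat_lit 5) (nat_lit 285) (nat_lit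 264) (nat_lit 231)) (XT.nd (nat_lit 78) (nat_lit 76) (nat_lit 0) (XT.lf (nat_lit 0) (nat_lit 1319612362) (nat_lit 304) (nat_lit 6340744456) (nat_lit 380) (nat_lit 2108506659) (nat_lit 60) (nat_lit 5) (nat_lit 64) (nat_lit 5) (nat_lit 65) (nat_lit 5) (nat_lit 286) (nat_lit 264) (nat_lit 230)) (XT.lf (nat_lit 0) (nat_lit 3884866) (nat_lit 380) (nat_lit 3140944360) (nat_lit 76) (nat_lit 6881526010) (nat_lit 59) (nat_lit 5) (nat_lit 64) (nat_lit 5) (nat_lit 60) (nat_lit 5) (nat_lit 287) (nat_lit 264) (nat_lit 229))))))) (XT.nd (nat_lit 780) (nat_lit 988) (nat_lit 0) (XT.nd (nat_lit 390) (nat_lit 760) (nat_lit 0) (XT.nd (nat_lit 156) (nat_lit 608) (nat_lit 0) (XT.nd (nat_lit 78) (nat_lit 0) (nat_lit 0) (XT.lf (nat_lit 0) (nat_lit 2132513870) (nat_lit 304) (nat_lit 7896179048) (nat_lit 76) (nat_lit 267345616) (nat_lit 56) (nat_lit 5) (nat_lit 60) (nat_lit 5) (nat_lit 57) (nat_lit 5) (nat_lit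 288) (nat_lit 264) (nat_lit 228)) (XT.lf (nat_lit 0) (nat_lit 4414435759) (nat_lit 304) (nat_lit 2374731801) (nat_lit 76) (nat_lit 3787808804) (nat_lit 56) (nat_lit 5) (nat_lit 60) (nat_lit 5) (nat_lit 57) (nat_lit 5) (nat_lit 289) (nat_lit 264) (nat_lit 227))) (XT.nd (nat_lit 78) (nat_lit 304) (nat_lit 0) (XT.lf (nat_lit 0) (nat_lit 3464621231) (nat_lit 304) (nat_lit 3343964407) (nat_lit 380) (nat_lit 4063576890) (nat_lit 52) (nat_lit 5) (nat_lit 56) (nat_lit 5) (nat_lit 57) (nat_lit 5) (nat_lit 290) (nat_lit 264) (nat_lit 226)) (XT.nd (nat_lit 78) (nat_lit 304) (nat_lit 0) (XT.lf (nat_lit 0) (nat_lit 9313020985) (nat_lit 380) (nat_lit 1577190172) (nat_lit 76) (nat_lit 292470838) (nat_lit 52) (nat_lit 5) (nat_lit 57) (nat_lit 5) (nat_lit 53) (nat_lit 5) (nat_lit 291) (nat_lit 264) (nat_lit 225)) (XT.lf (nat_lit 0) (nat_lit 495365087) (nat_lit 304) (nat_lit 6944204596) (nat_lit 76) (nat_lit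 4065147141) (nat_lit 48) (nat_lit 5) (nat_lit 52) (nat_lit 5) (nat_lit 49) (nat_lit 5) (nat_lit 292) (nat_lit 264) (nat_lit 224))))) (XT.nd (nat_lit 156) (nat_lit 532) (nat_lit 0) (XT.nd (nat_lit 78) (nat_lit 228) (nat_lit 0) (XT.lf (nat_lit 0) (nat_lit 2891511822) (nat_lit 304) (nat_lit 880647217) (nat_lit 76) (nat_lit 8070465619) (nat_lit 48) (nat_lit 5) (nat_lit 52) (nat_lit 5) (nat_lit 49) (nat_lit 5) (nat_lit 293) (nat_lit 264) (nat_lit 223)) (XT.lf (nat_lit 0) (nat_lit 5448328249) (nat_lit 304) (nat_lit 6597326127) (nat_lit 76) (nat_lit 149815039) (nat_lit 45) (nat_lit 5) (nat_lit 49) (nat_lit 5) (nat_lit 46) (nat_lit 5) (nat_lit 294) (nat_lit 264) (nat_lit 222))) (XT.nd (nat_lit 78) (nat_lit 532) (nat_lit 0) (XT.lf (nat_lit 0) (nat_lit 8162077112) (nat_lit 304) (nat_lit 261681985) (nat_lit 76) (nat_lit 4140823353) (nat_lit 45) (nat_lit 5) (nat_lit 49) (nat_lit 5) (nat_lit 46)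 (nat_lit 5) (nat_lit 295) (nat_lit 264) (nat_lit 221)) (XT.nd (nat_lit 78) (nat_lit 304) (nat_lit 0) (XT.lf (nat_lit 0) (nat_lit 6537277578) (nat_lit 228) (nat_lit 4530676550) (nat_lit 304) (nat_lit 1881451754) (nat_lit 42) (nat_lit 5) (nat_lit 45) (nat_lit 5) (nat_lit 46) (nat_lit 5) (nat_lit 296) (nat_lit 264) (nat_lit 220)) (XT.lf (nat_lit 0) (nat_lit 265229758) (nat_lit 228) (nat_lit 439350408) (nat_lit 304) (nat_lit 12650190690) (nat_lit 38) (nat_lit 5) (nat_lit 41) (nat_lit 5) (nat_lit 42) (nat_lit 5) (nat_lit 297) (nat_lit 264) (nat_lit 219)))))) (XT.nd (nat_lit 390) (nat_lit 532) (nat_lit 0) (XT.nd (nat_lit 156) (nat_lit 304) (nat_lit 0) (XT.nd (nat_lit 78) (nat_lit 152) (nat_lit 0) (XT.lf (nat_lit 0) (nat_lit 3482951973) (nat_lit 304) (nat_lit 6432956596) (nat_lit 76) (nat_lit 3856706291) (nat_lit 38) (nat_lit 5) (nat_lit 42) (nat_lit 5) (nat_lit 39) (nat_lit 5) (nat_lit 298)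 (nat_lit 264) (nat_lit 218)) (XT.lf (nat_lit 0) (nat_lit 504233892) (nat_lit 152) (nat_lit 5868877046) (nat_lit 228) (nat_lit 7839659867) (nat_lit 36) (nat_lit 5) (nat_lit 38) (nat_lit 5) (nat_lit 39) (nat_lit 5) (nat_lit 299) (nat_lit 264) (nat_lit 217))) (XT.nd (nat_lit 78) (nat_lit 304) (nat_lit 0) (XT.lf (nat_lit 0) (nat_lit 7951448668) (nat_lit 152) (nat_lit 1524138372) (nat_lit 228) (nat_lit 5196017205) (nat_lit 36) (nat_lit 5) (nat_lit 38) (nat_lit 5) (nat_lit 39) (nat_lit 5) (nat_lit 300) (nat_lit 264) (nat_lit 216)) (XT.nd (nat_lit 78) (nat_lit 76) (nat_lit 0) (XT.lf (nat_lit 0) (nat_lit 528076753) (nat_lit 228) (nat_lit 12221323856) (nat_lit 304) (nat_lit 2403225360) (nat_lit 33) (nat_lit 5) (nat_lit 36) (nat_lit 5) (nat_lit 37) (nat_lit 5) (nat_lit 301) (nat_lit 264) (nat_lit 215)) (XT.lf (nat_lit 0) (nat_lit 613756975) (nat_lit 304) (nat_lit 7374528555) (nat_lit 76) (nat_lit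 7663977659) (nat_lit 32) (nat_lit 5) (nat_lit 36) (nat_lit 5) (nat_lit 33) (nat_lit 5) (nat_lit 302) (nat_lit 264) (nat_lit 214))))) (XT.nd (nat_lit 234) (nat_lit 380) (nat_lit 0) (XT.nd (nat_lit 78) (nat_lit 0) (nat_lit 0) (XT.lf (nat_lit 0) (nat_lit 146685550) (nat_lit 152) (nat_lit 3519122360) (nat_lit 228) (nat_lit 12510904813) (nat_lit 30) (nat_lit 5) (nat_lit 32) (nat_lit 5) (nat_lit 33) (nat_lit 5) (nat_lit 303) (nat_lit 264) (nat_lit 213)) (XT.nd (nat_lit 78) (nat_lit 0) (nat_lit 0) (XT.lf (nat_lit 0) (nat_lit 6979020826) (nat_lit 228) (nat_lit 8498780057) (nat_lit 76) (nat_lit 1244203018) (nat_lit 30) (nat_lit 5) (nat_lit 33) (nat_lit 5) (nat_lit 31) (nat_lit 5) (nat_lit 304) (nat_lit 264) (nat_lit 212)) (XT.lf (nat_lit 0) (nat_lit 10480631792) (nat_lit 228) (nat_lit 703192750) (nat_lit 76) (nat_lit 6109643117) (nat_lit 30) (nat_lit 5) (nat_lit 33) (nat_lit 5) (nat_lit 31) (nat_lit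 5) (nat_lit 305) (nat_lit 264) (nat_lit 211)))) (XT.nd (nat_lit 78) (nat_lit 228) (nat_lit 0) (XT.lf (nat_lit 0) (nat_lit 7675916290) (nat_lit 152) (nat_lit 6567960889) (nat_lit 228) (nat_lit 3645342484) (nat_lit 28) (nat_lit 5) (nat_lit 30) (nat_lit 5) (nat_lit 31) (nat_lit 5) (nat_lit 306) (nat_lit 264) (nat_lit 210)) (XT.nd (nat_lit 78) (nat_lit 228) (nat_lit 0) (XT.lf (nat_lit 0) (nat_lit 16447296815) (nat_lit 152) (nat_lit 1727395644) (nat_lit 228) (nat_lit 341137147) (nat_lit 28) (nat_lit 5) (nat_lit 30) (nat_lit 5) (nat_lit 31) (nat_lit 5) (nat_lit 307) (nat_lit 264) (nat_lit 209)) (XT.lf (nat_lit 0) (nat_lit 3154225680) (nat_lit 228) (nat_lit 12626372787) (nat_lit 76) (nat_lit 3384462868) (nat_lit 25) (nat_lit 5) (nat_lit 28) (nat_lit 5) (nat_lit 26) (nat_lit 5) (nat_lit 308) (nat_lit 264) (nat_lit 208))))))))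
noncomputable def xc120 : XT := (XT.nd (nat_lit 1560) (nat_lit 532) (nat_lit 0) (XT.nd (nat_lit 780) (nat_lit 456) (nat_lit 0) (XT.nd (nat_lit 390) (nat_lit 228) (nat_lit 0) (XT.nd (nat_lit 156) (nat_lit 152) (nat_lit 0) (XT.nd (nat_lit 78) (nat_lit 152) (nat_lit 0) (XT.lf (nat_lit 0) (nat_lit 6845769517) (nat_lit 228) (nat_lit 4281631650) (nat_lit 76) (nat_lit 8717465172) (nat_lit 25) (nat_lit 5) (nat_lit 28) (nat_lit 5) (nat_lit 26) (nat_lit 5) (nat_lit 309) (nat_lit 264) (nat_lit 207)) (XT.lf (nat_lit 0) (nat_lit 4579067529) (nat_lit 152) (nat_lit 6184746959) (nat_lit 228) (nat_lit 9792784406) (nat_lit 23) (nat_lit 5) (nat_lit 25) (nat_lit 5) (nat_lit 26) (nat_lit 5) (nat_lit 310) (nat_lit 264) (nat_lit 206))) (XT.nd (nat_lit 78) (nat_lit 152) (nat_lit 0) (XT.lf (nat_lit 0) (nat_lit 13984384055) (nat_lit 152) (nat_lit 936994193) (nat_lit 228) (nat_lit 6380390906) (nat_lit 23) (nat_lit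 5) (nat_lit 25) (nat_lit 5) (nat_lit 26) (nat_lit 5) (nat_lit 311) (nat_lit 264) (nat_lit 205)) (XT.nd (nat_lit 78) (nat_lit 76) (nat_lit 0) (XT.lf (nat_lit 0) (nat_lit 1713242213) (nat_lit 76) (nat_lit 17643936917) (nat_lit 152) (nat_lit 2723531233) (nat_lit 22) (nat_lit 5) (nat_lit 23) (nat_lit 5) (nat_lit 24) (nat_lit 4) (nat_lit 312) (nat_lit 264) (nat_lit 204)) (XT.lf (nat_lit 0) (nat_lit 1194117144) (nat_lit 152) (nat_lit 11523938561) (nat_lit 76) (nat_lit 10174015652) (nat_lit 21) (nat_lit 5) (nat_lit 23) (nat_lit 5) (nat_lit 22) (nat_lit 5) (nat_lit 313) (nat_lit 264) (nat_lit 203))))) (XT.nd (nat_lit 156) (nat_lit 76) (nat_lit 0) (XT.nd (nat_lit 78) (nat_lit 152) (nat_lit 0) (XT.lf (nat_lit 0) (nat_lit 5189790508) (nat_lit 152) (nat_lit 2326843803) (nat_lit 76) (nat_lit 16226476381) (nat_lit 21) (nat_lit 5) (nat_lit 23) (nat_lit 5) (nat_lit 22) (nat_lit 5) (nat_lit 314) (nat_lit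 264) (nat_lit 202)) (XT.lf (nat_lit 0) (nat_lit 7529217917) (nat_lit 152) (nat_lit 1948506647) (nat_lit 228) (nat_lit 15154378574) (nat_lit 19) (nat_lit 5) (nat_lit 21) (nat_lit 5) (nat_lit 22) (nat_lit 5) (nat_lit 315) (nat_lit 264) (nat_lit 201))) (XT.nd (nat_lit 78) (nat_lit 76) (nat_lit 0) (XT.lf (nat_lit 0) (nat_lit 14056182146) (nat_lit 228) (nat_lit 7708398749) (nat_lit 76) (nat_lit 3797181778) (nat_lit 19) (nat_lit 5) (nat_lit 22) (nat_lit 5) (nat_lit 20) (nat_lit 4) (nat_lit 316) (nat_lit 264) (nat_lit 200)) (XT.nd (nat_lit 78) (nat_lit 0) (nat_lit 0) (XT.lf (nat_lit 0) (nat_lit 2152590212) (nat_lit 76) (nat_lit 16752918768) (nat_lit 152) (nat_lit 7630321560) (nat_lit 18) (nat_lit 5) (nat_lit 19) (nat_lit 5) (nat_lit 20) (nat_lit 4) (nat_lit 317) (nat_lit 264) (nat_lit 199)) (XT.lf (nat_lit 0) (nat_lit 12734719379) (nat_lit 76) (nat_lit 11370030796) (nat_lit 152) (nat_lit 3448500817)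 (nat_lit 18) (nat_lit 5) (nat_lit 19) (nat_lit 5) (nat_lit 20) (nat_lit 4) (nat_lit 318) (nat_lit 264) (nat_lit 198)))))) (XT.nd (nat_lit 390) (nat_lit 152) (nat_lit 0) (XT.nd (nat_lit 156) (nat_lit 76) (nat_lit 0) (XT.nd (nat_lit 78) (nat_lit 152) (nat_lit 0) (XT.lf (nat_lit 0) (nat_lit 889869838) (nat_lit 152) (nat_lit 4828705828) (nat_lit 76) (nat_lit 22903369609) (nat_lit 17) (nat_lit 5) (nat_lit 19) (nat_lit 5) (nat_lit 18) (nat_lit 5) (nat_lit 319) (nat_lit 264) (nat_lit 197)) (XT.lf (nat_lit 0) (nat_lit 5403277131) (nat_lit 228) (nat_lit 23991777037) (nat_lit 76) (nat_lit 342511598) (nat_lit 15) (nat_lit 5) (nat_lit 18) (nat_lit 5) (nat_lit 16) (nat_lit 4) (nat_lit 320) (nat_lit 264) (nat_lit 196))) (XT.nd (nat_lit 78) (nat_lit 76) (nat_lit 0) (XT.lf (nat_lit 0) (nat_lit 10298123404) (nat_lit 228) (nat_lit 14020126950) (nat_lit 76) (nat_lit 6582946264) (nat_lit 15) (nat_lit 5)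 (nat_lit 18) (nat_lit 5) (nat_lit 16) (nat_lit 4) (nat_lit 321) (nat_lit 264) (nat_lit 195)) (XT.nd (nat_lit 78) (nat_lit 76) (nat_lit 0) (XT.lf (nat_lit 0) (nat_lit 15417620949) (nat_lit 228) (nat_lit 3584952005) (nat_lit 76) (nat_lit 13121457530) (nat_lit 15) (nat_lit 5) (nat_lit 18) (nat_lit 5) (nat_lit 16) (nat_lit 4) (nat_lit 322) (nat_lit 264) (nat_lit 194)) (XT.lf (nat_lit 0) (nat_lit 7581240493) (nat_lit 76) (nat_lit 13311082962) (nat_lit 152) (nat_lit 12510737196) (nat_lit 14) (nat_lit 5) (nat_lit 15) (nat_lit 5) (nat_lit 16) (nat_lit 4) (nat_lit 323) (nat_lit 264) (nat_lit 193))))) (XT.nd (nat_lit 156) (nat_lit 152) (nat_lit 0) (XT.nd (nat_lit 78) (nat_lit 0) (nat_lit 0) (XT.lf (nat_lit 0) (nat_lit 19397354340) (nat_lit 76) (nat_lit 7285383600) (nat_lit 152) (nat_lit 8061220891) (nat_lit 14) (nat_lit 5) (nat_lit 15) (nat_lit 5) (nat_lit 16) (nat_lit 4) (nat_lit 324) (nat_lit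 264) (nat_lit 192)) (XT.lf (nat_lit 0) (nat_lit 31772988436) (nat_lit 76) (nat_lit 971840862) (nat_lit 152) (nat_lit 3407979430) (nat_lit 14) (nat_lit 5) (nat_lit 15) (nat_lit 5) (nat_lit 16) (nat_lit 4) (nat_lit 325) (nat_lit 264) (nat_lit 191))) (XT.nd (nat_lit 78) (nat_lit 0) (nat_lit 0) (XT.lf (nat_lit 0) (nat_lit 1617932337) (nat_lit 152) (nat_lit 30400481697) (nat_lit 76) (nat_lit 5603181064) (nat_lit 12) (nat_lit 5) (nat_lit 14) (nat_lit 5) (nat_lit 13) (nat_lit 4) (nat_lit 326) (nat_lit 264) (nat_lit 190)) (XT.nd (nat_lit 78) (nat_lit 0) (nat_lit 0) (XT.lf (nat_lit 0) (nat_lit 6854799318) (nat_lit 152) (nat_lit 19709524351) (nat_lit 76) (nat_lit 12593006812) (nat_lit 12) (nat_lit 5) (nat_lit 14) (nat_lit 5) (nat_lit 13) (nat_lit 4) (nat_lit 327) (nat_lit 264) (nat_lit 189)) (XT.lf (nat_lit 0) (nat_lit 12337193377) (nat_lit 152) (nat_lit 8513111735) (nat_lit 76) (nat_lit 19920375360)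 (nat_lit 12) (nat_lit 5) (nat_lit 14) (nat_lit 5) (nat_lit 13) (nat_lit 4) (nat_lit 328) (nat_lit 264) (nat_lit 188))))))) (XT.nd (nat_lit 780) (nat_lit 228) (nat_lit 0) (XT.nd (nat_lit 390) (nat_lit 152) (nat_lit 0) (XT.nd (nat_lit 156) (nat_lit 76) (nat_lit 0) (XT.nd (nat_lit 78) (nat_lit 0) (nat_lit 0) (XT.lf (nat_lit 0) (nat_lit 3321730392) (nat_lit 76) (nat_lit 14808298962) (nat_lit 152) (nat_lit 24332863950) (nat_lit 11) (nat_lit 5) (nat_lit 12) (nat_lit 5) (nat_lit 13) (nat_lit 4) (nat_lit 329) (nat_lit 264) (nat_lit 187)) (XT.lf (nat_lit 0) (nat_lit 16016610297) (nat_lit 76) (nat_lit 8324845549) (nat_lit 152) (nat_lit 19891824400) (nat_lit 11) (nat_lit 5) (nat_lit 12) (nat_lit 5) (nat_lit 13) (nat_lit 4) (nat_lit 330) (nat_lit 264) (nat_lit 186))) (XT.nd (nat_lit 78) (nat_lit 76) (nat_lit 0) (XT.lf (nat_lit 0) (nat_lit 29320271964) (nat_lit 76) (nat_lit 1528681747) (nat_lit 152)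 (nat_lit 15243968210) (nat_lit 11) (nat_lit 5) (nat_lit 12) (nat_lit 5) (nat_lit 13) (nat_lit 4) (nat_lit 331) (nat_lit 264) (nat_lit 185)) (XT.nd (nat_lit 78) (nat_lit 76) (nat_lit 0) (XT.lf (nat_lit 0) (nat_lit 37755392070) (nat_lit 152) (nat_lit 4869230347) (nat_lit 0) (nat_lit 5417254875) (nat_lit 11) (nat_lit 5) (nat_lit 13) (nat_lit 4) (nat_lit 11) (nat_lit 4) (nat_lit 332) (nat_lit 264) (nat_lit 184)) (XT.lf (nat_lit 0) (nat_lit 7830883870) (nat_lit 76) (nat_lit 37310276672) (nat_lit 76) (nat_lit 4940428900) (nat_lit 10) (nat_lit 4) (nat_lit 11) (nat_lit 5) (nat_lit 11) (nat_lit 4) (nat_lit 333) (nat_lit 264) (nat_lit 183))))) (XT.nd (nat_lit 156) (nat_lit 76) (nat_lit 0) (XT.nd (nat_lit 78) (nat_lit 0) (nat_lit 0) (XT.lf (nat_lit 0) (nat_lit 721934597) (nat_lit 152) (nat_lit 30920082396) (nat_lit 76) (nat_lit 20577226320) (nat_lit 9) (nat_lit 5) (nat_lit 11) (nat_lit 5) (nat_lit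 10) (nat_lit 4) (nat_lit 334) (nat_lit 264) (nat_lit 182)) (XT.lf (nat_lit 0) (nat_lit 6488745186) (nat_lit 152) (nat_lit 19126883115) (nat_lit 76) (nat_lit 28844742196) (nat_lit 9) (nat_lit 5) (nat_lit 11) (nat_lit 5) (nat_lit 10) (nat_lit 4) (nat_lit 335) (nat_lit 264) (nat_lit 181))) (XT.nd (nat_lit 78) (nat_lit 76) (nat_lit 0) (XT.lf (nat_lit 0) (nat_lit 12531857947) (nat_lit 152) (nat_lit 6765894744) (nat_lit 76) (nat_lit 37516411020) (nat_lit 9) (nat_lit 5) (nat_lit 11) (nat_lit 5) (nat_lit 10) (nat_lit 4) (nat_lit 336) (nat_lit 264) (nat_lit 180)) (XT.nd (nat_lit 78) (nat_lit 0) (nat_lit 0) (XT.lf (nat_lit 0) (nat_lit 6397059496) (nat_lit 76) (nat_lit 12568477773) (nat_lit 152) (nat_lit 40315696151) (nat_lit 8) (nat_lit 5) (nat_lit 9) (nat_lit 5) (nat_lit 10) (nat_lit 4) (nat_lit 337) (nat_lit 264) (nat_lit 179)) (XT.lf (nat_lit 0) (nat_lit 20432564591) (nat_lit 76) (nat_lit 5391680562)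 (nat_lit 152) (nat_lit 36042251262) (nat_lit 8) (nat_lit 5) (nat_lit 9) (nat_lit 5) (nat_lit 10) (nat_lit 4) (nat_lit 338) (nat_lit 264) (nat_lit 178)))))) (XT.nd (nat_lit 390) (nat_lit 152) (nat_lit 0) (XT.nd (nat_lit 156) (nat_lit 76) (nat_lit 0) (XT.nd (nat_lit 78) (nat_lit 0) (nat_lit 0) (XT.lf (nat_lit 0) (nat_lit 33048520084) (nat_lit 152) (nat_lit 29464572641) (nat_lit 0) (nat_lit 2066804947) (nat_lit 8) (nat_lit 5) (nat_lit 10) (nat_lit 4) (nat_lit 8) (nat_lit 4) (nat_lit 339) (nat_lit 264) (nat_lit 177)) (XT.lf (nat_lit 0) (nat_lit 40712071714) (nat_lit 152) (nat_lit 17004106898) (nat_lit 0) (nat_lit 9708893610) (nat_lit 8) (nat_lit 5) (nat_lit 10) (nat_lit 4) (nat_lit 8) (nat_lit 4) (nat_lit 340) (nat_lit 264) (nat_lit 176))) (XT.nd (nat_lit 78) (nat_lit 76) (nat_lit 0) (XT.lf (nat_lit 0) (nat_lit 48748967350) (nat_lit 152) (nat_lit 3938687574) (nat_lit 0) (nat_lit 17725348327)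 (nat_lit 8) (nat_lit 5) (nat_lit 10) (nat_lit 4) (nat_lit 8) (nat_lit 4) (nat_lit 341) (nat_lit 264) (nat_lit 175)) (XT.nd (nat_lit 78) (nat_lit 0) (nat_lit 0) (XT.lf (nat_lit 0) (nat_lit 10085595512) (nat_lit 76) (nat_lit 47250211357) (nat_lit 76) (nat_lit 16207124790) (nat_lit 7) (nat_lit 4) (nat_lit 8) (nat_lit 5) (nat_lit 8) (nat_lit 4) (nat_lit 342) (nat_lit 264) (nat_lit 174)) (XT.lf (nat_lit 0) (nat_lit 24930903416) (nat_lit 76) (nat_lit 41478604836) (nat_lit 76) (nat_lit 10416977751) (nat_lit 7) (nat_lit 4) (nat_lit 8) (nat_lit 5) (nat_lit 8) (nat_lit 4) (nat_lit 343) (nat_lit 264) (nat_lit 173))))) (XT.nd (nat_lit 156) (nat_lit 76) (nat_lit 0) (XT.nd (nat_lit 78) (nat_lit 76) (nat_lit 0) (XT.lf (nat_lit 0) (nat_lit 40502351309) (nat_lit 76) (nat_lit 35425797020) (nat_lit 76) (nat_lit 4346512300) (nat_lit 7) (nat_lit 4) (nat_lit 8) (nat_lit 5) (nat_lit 8) (nat_lit 4) (nat_lit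 344) (nat_lit 264) (nat_lit 172)) (XT.lf (nat_lit 0) (nat_lit 1954113243) (nat_lit 152) (nat_lit 27090169365) (nat_lit 76) (nat_lit 54849806969) (nat_lit 6) (nat_lit 5) (nat_lit 8) (nat_lit 5) (nat_lit 7) (nat_lit 4) (nat_lit 345) (nat_lit 264) (nat_lit 171))) (XT.nd (nat_lit 78) (nat_lit 76) (nat_lit 0) (XT.lf (nat_lit 0) (nat_lit 8415630872) (nat_lit 152) (nat_lit 13860074223) (nat_lit 76) (nat_lit 65415630091) (nat_lit 6) (nat_lit 5) (nat_lit 8) (nat_lit 5) (nat_lit 7) (nat_lit 4) (nat_lit 346) (nat_lit 264) (nat_lit 170)) (XT.nd (nat_lit 78) (nat_lit 0) (nat_lit 0) (XT.lf (nat_lit 0) (nat_lit 17910827) (nat_lit 76) (nat_lit 15174909498) (nat_lit 152) (nat_lit 76485997267) (nat_lit 5) (nat_lit 5) (nat_lit 6) (nat_lit 5) (nat_lit 7) (nat_lit 4) (nat_lit 347) (nat_lit 264) (nat_lit 169)) (XT.lf (nat_lit 0) (nat_lit 15057026346) (nat_lit 76) (nat_lit 7479034223) (nat_lit 152) (nat_lit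 73318258095) (nat_lit 5) (nat_lit 5) (nat_lit 6) (nat_lit 5) (nat_lit 7) (nat_lit 4) (nat_lit 348) (nat_lit 264) (nat_lit 168))))))))
noncomputable def xc121 : XT := (XT.nd (nat_lit 1560) (nat_lit 76) (nat_lit 0) (XT.nd (nat_lit 780) (nat_lit 152) (nat_lit 0) (XT.nd (nat_lit 390) (nat_lit 76) (nat_lit 0) (XT.nd (nat_lit 156) (nat_lit 0) (nat_lit 0) (XT.nd (nat_lit 78) (nat_lit 0) (nat_lit 0) (XT.lf (nat_lit 0) (nat_lit 30248583615) (nat_lit 152) (nat_lit 69413452140) (nat_lit 0) (nat_lit 576456909) (nat_lit 5) (nat_lit 5) (nat_lit 7) (nat_lit 4) (nat_lit 5) (nat_lit 4) (nat_lit 349) (nat_lit 264) (nat_lit 167)) (XT.lf (nat_lit 0) (nat_lit 38462413823) (nat_lit 152) (nat_lit 57595943055) (nat_lit 0) (nat_lit 8777738165) (nat_lit 5) (nat_lit 5) (nat_lit 7) (nat_lit 4) (nat_lit 5) (nat_lit 4) (nat_lit 350) (nat_lit 264) (nat_lit 166))) (XT.nd (nat_lit 78) (nat_lit 0) (nat_lit 0) (XT.lf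 (nat_lit 0) (nat_lit 47080339245) (nat_lit 152) (nat_lit 45199859456) (nat_lit 0) (nat_lit 17383712205) (nat_lit 5) (nat_lit 5) (nat_lit 7) (nat_lit 4) (nat_lit 5) (nat_lit 4) (nat_lit 351) (nat_lit 264) (nat_lit 165)) (XT.nd (nat_lit 78) (nat_lit 0) (nat_lit 0) (XT.lf (nat_lit 0) (nat_lit 56122878753) (nat_lit 152) (nat_lit 32195686855) (nat_lit 0) (nat_lit 26414869443) (nat_lit 5) (nat_lit 5) (nat_lit 7) (nat_lit 4) (nat_lit 5) (nat_lit 4) (nat_lit 352) (nat_lit 264) (nat_lit 164)) (XT.lf (nat_lit 0) (nat_lit 65611562203) (nat_lit 152) (nat_lit 18552462939) (nat_lit 0) (nat_lit 35892712637) (nat_lit 5) (nat_lit 5) (nat_lit 7) (nat_lit 4) (nat_lit 5) (nat_lit 4) (nat_lit 353) (nat_lit 264) (nat_lit 163))))) (XT.nd (nat_lit 156) (nat_lit 0) (nat_lit 0) (XT.nd (nat_lit 78) (nat_lit 76) (nat_lit 0) (XT.lf (nat_lit 0) (nat_lit 75568981698) (nat_lit 152) (nat_lit 4237703840) (nat_lit 0)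 (nat_lit 45839808077) (nat_lit 5) (nat_lit 5) (nat_lit 7) (nat_lit 4) (nat_lit 5) (nat_lit 4) (nat_lit 354) (nat_lit 264) (nat_lit 162)) (XT.lf (nat_lit 0) (nat_lit 11139197072) (nat_lit 76) (nat_lit 75053562391) (nat_lit 76) (nat_lit 45314556338) (nat_lit 4) (nat_lit 4) (nat_lit 5) (nat_lit 5) (nat_lit 5) (nat_lit 4) (nat_lit 355) (nat_lit 264) (nat_lit 161))) (XT.nd (nat_lit 78) (nat_lit 0) (nat_lit 0) (XT.lf (nat_lit 0) (nat_lit 27422109752) (nat_lit 76) (nat_lit 69992060105) (nat_lit 76) (nat_lit 40243689832) (nat_lit 4) (nat_lit 4) (nat_lit 5) (nat_lit 5) (nat_lit 5) (nat_lit 4) (nat_lit 356) (nat_lit 264) (nat_lit 160)) (XT.nd (nat_lit 78) (nat_lit 0) (nat_lit 0) (XT.lf (nat_lit 0) (nat_lit 44509685413) (nat_lit 76) (nat_lit 64681895052) (nat_lit 76) (nat_lit 34924606473) (nat_lit 4) (nat_lit 4) (nat_lit 5) (nat_lit 5) (nat_lit 5) (nat_lit 4) (nat_lit 357) (nat_lit 264) (nat_lit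 159)) (XT.lf (nat_lit 0) (nat_lit 62442608758) (nat_lit 76) (nat_lit 59110423981) (nat_lit 76) (nat_lit 29344641777) (nat_lit 4) (nat_lit 4) (nat_lit 5) (nat_lit 5) (nat_lit 5) (nat_lit 4) (nat_lit 358) (nat_lit 264) (nat_lit 158)))))) (XT.nd (nat_lit 390) (nat_lit 76) (nat_lit 0) (XT.nd (nat_lit 156) (nat_lit 76) (nat_lit 0) (XT.nd (nat_lit 78) (nat_lit 0) (nat_lit 0) (XT.lf (nat_lit 0) (nat_lit 81263577223) (nat_lit 76) (nat_lit 53264381484) (nat_lit 76) (nat_lit 23490510114) (nat_lit 4) (nat_lit 4) (nat_lit 5) (nat_lit 5) (nat_lit 5) (nat_lit 4) (nat_lit 359) (nat_lit 264) (nat_lit 157)) (XT.lf (nat_lit 0) (nat_lit 101017402639) (nat_lit 76) (nat_lit 47129848414) (nat_lit 76) (nat_lit 17348273075) (nat_lit 4) (nat_lit 4) (nat_lit 5) (nat_lit 5) (nat_lit 5) (nat_lit 4) (nat_lit 360) (nat_lit 264) (nat_lit 156))) (XT.nd (nat_lit 78) (nat_lit 76) (nat_lit 0) (XT.lf (nat_lit 0) (nat_lit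 121751117922) (nat_lit 76) (nat_lit 40692218737) (nat_lit 76) (nat_lit 10903306287) (nat_lit 4) (nat_lit 4) (nat_lit 5) (nat_lit 5) (nat_lit 5) (nat_lit 4) (nat_lit 361) (nat_lit 264) (nat_lit 155)) (XT.nd (nat_lit 78) (nat_lit 76) (nat_lit 0) (XT.lf (nat_lit 0) (nat_lit 143514089063) (nat_lit 76) (nat_lit 33936164766) (nat_lit 76) (nat_lit 4140264589) (nat_lit 4) (nat_lit 4) (nat_lit 5) (nat_lit 5) (nat_lit 5) (nat_lit 4) (nat_lit 362) (nat_lit 264) (nat_lit 154)) (XT.lf (nat_lit 0) (nat_lit 2862313485) (nat_lit 152) (nat_lit 23934812507) (nat_lit 76) (nat_lit 163447344508) (nat_lit 3) (nat_lit 5) (nat_lit 5) (nat_lit 5) (nat_lit 4) (nat_lit 4) (nat_lit 363) (nat_lit 264) (nat_lit 153))))) (XT.nd (nat_lit 156) (nat_lit 0) (nat_lit 0) (XT.nd (nat_lit 78) (nat_lit 76) (nat_lit 0) (XT.lf (nat_lit 0) (nat_lit 10072216158) (nat_lit 152) (nat_lit 9160850102) (nat_lit 76) (nat_lit 180094845274)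 (nat_lit 3) (nat_lit 5) (nat_lit 5) (nat_lit 5) (nat_lit 4) (nat_lit 4) (nat_lit 364) (nat_lit 264) (nat_lit 152)) (XT.lf (nat_lit 0) (nat_lit 6555078544) (nat_lit 76) (nat_lit 11186388788) (nat_lit 152) (nat_lit 191119116328) (nat_lit 2) (nat_lit 5) (nat_lit 3) (nat_lit 5) (nat_lit 4) (nat_lit 4) (nat_lit 365) (nat_lit 264) (nat_lit 151))) (XT.nd (nat_lit 78) (nat_lit 0) (nat_lit 0) (XT.lf (nat_lit 0) (nat_lit 23368417733) (nat_lit 76) (nat_lit 2577482774) (nat_lit 152) (nat_lit 192916404539) (nat_lit 2) (nat_lit 5) (nat_lit 3) (nat_lit 5) (nat_lit 4) (nat_lit 4) (nat_lit 366) (nat_lit 264) (nat_lit 150)) (XT.nd (nat_lit 78) (nat_lit 0) (nat_lit 0) (XT.lf (nat_lit 0) (nat_lit 34658137581) (nat_lit 152) (nat_lit 188448820132) (nat_lit 0) (nat_lit 6252277225) (nat_lit 2) (nat_lit 5) (nat_lit 4) (nat_lit 4) (nat_lit 2) (nat_lit 4) (nat_lit 367) (nat_lit 264) (nat_lit 149)) (XT.lf (nat_lit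 0) (nat_lit 43845092099) (nat_lit 152) (nat_lit 181099699725) (nat_lit 0) (nat_lit 15434265697) (nat_lit 2) (nat_lit 5) (nat_lit 4) (nat_lit 4) (nat_lit 2) (nat_lit 4) (nat_lit 368) (nat_lit 264) (nat_lit 148))))))) (XT.nd (nat_lit 780) (nat_lit 76) (nat_lit 0) (XT.nd (nat_lit 390) (nat_lit 0) (nat_lit 0) (XT.nd (nat_lit 156) (nat_lit 0) (nat_lit 0) (XT.nd (nat_lit 78) (nat_lit 0) (nat_lit 0) (XT.lf (nat_lit 0) (nat_lit 53488396033) (nat_lit 152) (nat_lit 173388786459) (nat_lit 0) (nat_lit 25072840062) (nat_lit 2) (nat_lit 5) (nat_lit 4) (nat_lit 4) (nat_lit 2) (nat_lit 4) (nat_lit 369) (nat_lit 264) (nat_lit 147)) (XT.lf (nat_lit 0) (nat_lit 63611009629) (nat_lit 152) (nat_lit 165297721014) (nat_lit 0) (nat_lit 35190949309) (nat_lit 2) (nat_lit 5) (nat_lit 4) (nat_lit 4) (nat_lit 2) (nat_lit 4) (nat_lit 370) (nat_lit 264) (nat_lit 146))) (XT.nd (nat_lit 78) (nat_lit 0) (nat_lit 0) (XT.lf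 (nat_lit 0) (nat_lit 74237034351) (nat_lit 152) (nat_lit 156807238951) (nat_lit 0) (nat_lit 45812684172) (nat_lit 2) (nat_lit 5) (nat_lit 4) (nat_lit 4) (nat_lit 2) (nat_lit 4) (nat_lit 371) (nat_lit 264) (nat_lit 145)) (XT.nd (nat_lit 78) (nat_lit 0) (nat_lit 0) (XT.lf (nat_lit 0) (nat_lit 85391770255) (nat_lit 152) (nat_lit 147897124835) (nat_lit 0) (nat_lit 56963334498) (nat_lit 2) (nat_lit 5) (nat_lit 4) (nat_lit 4) (nat_lit 2) (nat_lit 4) (nat_lit 372) (nat_lit 264) (nat_lit 144)) (XT.lf (nat_lit 0) (nat_lit 97101776237) (nat_lit 152) (nat_lit 138546164109) (nat_lit 0) (nat_lit 68669449453) (nat_lit 2) (nat_lit 5) (nat_lit 4) (nat_lit 4) (nat_lit 2) (nat_lit 4) (nat_lit 373) (nat_lit 264) (nat_lit 143))))) (XT.nd (nat_lit 156) (nat_lit 0) (nat_lit 0) (XT.nd (nat_lit 78) (nat_lit 0) (nat_lit 0) (XT.lf (nat_lit 0) (nat_lit 109394933265) (nat_lit 152) (nat_lit 128732092581) (nat_lit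 0) (nat_lit 80958900740) (nat_lit 2) (nat_lit 5) (nat_lit 4) (nat_lit 4) (nat_lit 2) (nat_lit 4) (nat_lit 374) (nat_lit 264) (nat_lit 142)) (XT.lf (nat_lit 0) (nat_lit 122300510758) (nat_lit 152) (nat_lit 118431543414) (nat_lit 0) (nat_lit 93860948957) (nat_lit 2) (nat_lit 5) (nat_lit 4) (nat_lit 4) (nat_lit 2) (nat_lit 4) (nat_lit 375) (nat_lit 264) (nat_lit 141))) (XT.nd (nat_lit 78) (nat_lit 0) (nat_lit 0) (XT.lf (nat_lit 0) (nat_lit 135849236283) (nat_lit 152) (nat_lit 107619991491) (nat_lit 0) (nat_lit 107406313266) (nat_lit 2) (nat_lit 5) (nat_lit 4) (nat_lit 4) (nat_lit 2) (nat_lit 4) (nat_lit 376) (nat_lit 264) (nat_lit 140)) (XT.nd (nat_lit 78) (nat_lit 0) (nat_lit 0) (XT.lf (nat_lit 0) (nat_lit 150073368710) (nat_lit 152) (nat_lit 96271695021) (nat_lit 0) (nat_lit 121627244535) (nat_lit 2) (nat_lit 5) (nat_lit 4) (nat_lit 4) (nat_lit 2) (nat_lit 4) (nat_lit 377) (nat_lit 264)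 (nat_lit 139)) (XT.lf (nat_lit 0) (nat_lit 165006775021) (nat_lit 152) (nat_lit 84359634251) (nat_lit 0) (nat_lit 136557602125) (nat_lit 2) (nat_lit 5) (nat_lit 4) (nat_lit 4) (nat_lit 2) (nat_lit 4) (nat_lit 378) (nat_lit 264) (nat_lit 138)))))) (XT.nd (nat_lit 390) (nat_lit 76) (nat_lit 0) (XT.nd (nat_lit 156) (nat_lit 0) (nat_lit 0) (XT.nd (nat_lit 78) (nat_lit 0) (nat_lit 0) (XT.lf (nat_lit 0) (nat_lit 180685010945) (nat_lit 152) (nat_lit 71855447132) (nat_lit 0) (nat_lit 152232934504) (nat_lit 2) (nat_lit 5) (nat_lit 4) (nat_lit 4) (nat_lit 2) (nat_lit 4) (nat_lit 379) (nat_lit 264) (nat_lit 137)) (XT.lf (nat_lit 0) (nat_lit 197145405616) (nat_lit 152) (nat_lit 58729361789) (nat_lit 0) (nat_lit 168690563895) (nat_lit 2) (nat_lit 5) (nat_lit 4) (nat_lit 4) (nat_lit 2) (nat_lit 4) (nat_lit 380) (nat_lit 264) (nat_lit 136))) (XT.nd (nat_lit 78) (nat_lit 0) (nat_lit 0) (XT.lf (nat_lit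 0) (nat_lit 214427150449) (nat_lit 152) (nat_lit 44950125638) (nat_lit 0) (nat_lit 185969675127) (nat_lit 2) (nat_lit 5) (nat_lit 4) (nat_lit 4) (nat_lit 2) (nat_lit 4) (nat_lit 381) (nat_lit 264) (nat_lit 135)) (XT.nd (nat_lit 78) (nat_lit 0) (nat_lit 0) (XT.lf (nat_lit 0) (nat_lit 232571392455) (nat_lit 152) (nat_lit 30484930975) (nat_lit 0) (nat_lit 204111408943) (nat_lit 2) (nat_lit 5) (nat_lit 4) (nat_lit 4) (nat_lit 2) (nat_lit 4) (nat_lit 382) (nat_lit 264) (nat_lit 134)) (XT.lf (nat_lit 0) (nat_lit 251621332212) (nat_lit 152) (nat_lit 15299336859) (nat_lit 0) (nat_lit 223158959946) (nat_lit 2) (nat_lit 5) (nat_lit 4) (nat_lit 4) (nat_lit 2) (nat_lit 4) (nat_lit 383) (nat_lit 264) (nat_lit 133))))) (XT.nd (nat_lit 234) (nat_lit 0) (nat_lit 0) (XT.nd (nat_lit 78) (nat_lit 0) (nat_lit 0) (XT.lf (nat_lit 0) (nat_lit 664067182) (nat_lit 76) (nat_lit 270968627485) (nat_lit 76) (nat_lit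 242503980216) (nat_lit 1) (nat_lit 4) (nat_lit 2) (nat_lit 5) (nat_lit 2) (nat_lit 4) (nat_lit 384) (nat_lit 264) (nat_lit 132)) (XT.nd (nat_lit 78) (nat_lit 0) (nat_lit 0) (XT.lf (nat_lit 0) (nat_lit 17954119715) (nat_lit 76) (nat_lit 274948191799) (nat_lit 76) (nat_lit 246481377861) (nat_lit 1) (nat_lit 4) (nat_lit 2) (nat_lit 5) (nat_lit 2) (nat_lit 4) (nat_lit 385) (nat_lit 264) (nat_lit 131)) (XT.lf (nat_lit 0) (nat_lit 36106122360) (nat_lit 76) (nat_lit 279127938838) (nat_lit 76) (nat_lit 250659061405) (nat_lit 1) (nat_lit 4) (nat_lit 2) (nat_lit 5) (nat_lit 2) (nat_lit 4) (nat_lit 386) (nat_lit 264) (nat_lit 130)))) (XT.nd (nat_lit 78) (nat_lit 0) (nat_lit 0) (XT.lf (nat_lit 0) (nat_lit 55163294171) (nat_lit 76) (nat_lit 283517820381) (nat_lit 76) (nat_lit 255046977715) (nat_lit 1) (nat_lit 4) (nat_lit 2) (nat_lit 5) (nat_lit 2) (nat_lit 4) (nat_lit 387) (nat_lit 264) (nat_lit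 129)) (XT.nd (nat_lit 31044) (nat_lit 0) (nat_lit 9120) (XT.lf (nat_lit 0) (nat_lit 75171009367) (nat_lit 76) (nat_lit 288128288527) (nat_lit 76) (nat_lit 259655574210) (nat_lit 1) (nat_lit 4) (nat_lit 2) (nat_lit 5) (nat_lit 2) (nat_lit 4) (nat_lit 388) (nat_lit 264) (nat_lit 128)) (XT.lf (nat_lit 0) (nat_lit 2649484090) (nat_lit 380) (nat_lit 360146507) (nat_lit 380) (nat_lit 360146507) (nat_lit 121) (nat_lit 3) (nat_lit 126) (nat_lit 3) (nat_lit 126) (nat_lit 5) (nat_lit 265) (nat_lit 265) (nat_lit 250))))))))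
noncomputable def xc122 : XT := (XT.nd (nat_lit 1560) (nat_lit 2736) (nat_lit 0) (XT.nd (nat_lit 780) (nat_lit 3116) (nat_lit 0) (XT.nd (nat_lit 390) (nat_lit 456) (nat_lit 0) (XT.nd (nat_lit 156) (nat_lit 380) (nat_lit 0) (XT.nd (nat_lit 78) (nat_lit 0) (nat_lit 0) (XT.lf (nat_lit 0) (nat_lit 579618241) (nat_lit 380) (nat_lit 4369725270) (nat_lit 456) (nat_lit 1853103170) (nat_lit 116) (nat_lit 5) (nat_lit 121) (nat_lit 3) (nat_lit 122) (nat_lit 5) (nat_lit 266) (nat_lit 265) (nat_lit 249)) (XT.lf (nat_lit 0) (nat_lit 2537632837) (nat_lit 380) (nat_lit 1195202755) (nat_lit 456) (nat_lit 3140610063) (nat_lit 116) (nat_lit 5) (nat_lit 121) (nat_lit 3) (nat_lit 122) (nat_lit 5) (nat_lit 267) (nat_lit 265) (nat_lit 248))) (XT.nd (nat_lit 78) (nat_lit 380) (nat_lit 0) (XT.lf (nat_lit 76) (nat_lit 2137992842) (nat_lit 0) (nat_lit 2367806583) (nat_lit 456) (nat_lit 2446966737) (nat_lit 117)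 (nat_lit 5) (nat_lit 116) (nat_lit 5) (nat_lit 122) (nat_lit 5) (nat_lit 268) (nat_lit 265) (nat_lit 247)) (XT.nd (nat_lit 78) (nat_lit 380) (nat_lit 0) (XT.lf (nat_lit 76) (nat_lit 5611965347) (nat_lit 0) (nat_lit 864237618) (nat_lit 456) (nat_lit 565024150) (nat_lit 117) (nat_lit 5) (nat_lit 116) (nat_lit 5) (nat_lit 122) (nat_lit 5) (nat_lit 269) (nat_lit 265) (nat_lit 246)) (XT.lf (nat_lit 0) (nat_lit 1298410952) (nat_lit 456) (nat_lit 5047553177) (nat_lit 532) (nat_lit 790749494) (nat_lit 111) (nat_lit 5) (nat_lit 117) (nat_lit 5) (nat_lit 118) (nat_lit 5) (nat_lit 270) (nat_lit 265) (nat_lit 245))))) (XT.nd (nat_lit 156) (nat_lit 456) (nat_lit 0) (XT.nd (nat_lit 78) (nat_lit 0) (nat_lit 0) (XT.lf (nat_lit 0) (nat_lit 3166757759) (nat_lit 456) (nat_lit 1500003777) (nat_lit 532) (nat_lit 2573529402) (nat_lit 111) (nat_lit 5) (nat_lit 117) (nat_lit 5) (nat_lit 118) (nat_lit 5) (nat_lit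 271) (nat_lit 265) (nat_lit 244)) (XT.lf (nat_lit 76) (nat_lit 2226138408) (nat_lit 0) (nat_lit 2834243176) (nat_lit 532) (nat_lit 2292373540) (nat_lit 112) (nat_lit 5) (nat_lit 111) (nat_lit 5) (nat_lit 118) (nat_lit 5) (nat_lit 272) (nat_lit 265) (nat_lit 243))) (XT.nd (nat_lit 78) (nat_lit 456) (nat_lit 0) (XT.lf (nat_lit 76) (nat_lit 6121759027) (nat_lit 0) (nat_lit 853258310) (nat_lit 532) (nat_lit 499795298) (nat_lit 112) (nat_lit 5) (nat_lit 111) (nat_lit 5) (nat_lit 118) (nat_lit 5) (nat_lit 273) (nat_lit 265) (nat_lit 242)) (XT.nd (nat_lit 78) (nat_lit 0) (nat_lit 0) (XT.lf (nat_lit 0) (nat_lit 1303218083) (nat_lit 532) (nat_lit 5023712613) (nat_lit 76) (nat_lit 1276970562) (nat_lit 105) (nat_lit 5) (nat_lit 112) (nat_lit 5) (nat_lit 106) (nat_lit 5) (nat_lit 274) (nat_lit 265) (nat_lit 241)) (XT.lf (nat_lit 0) (nat_lit 3124602000) (nat_lit 532) (nat_lit 1077003010) (nat_lit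 76) (nat_lit 3540426446) (nat_lit 105) (nat_lit 5) (nat_lit 112) (nat_lit 5) (nat_lit 106) (nat_lit 5) (nat_lit 275) (nat_lit 265) (nat_lit 240)))))) (XT.nd (nat_lit 390) (nat_lit 1216) (nat_lit 0) (XT.nd (nat_lit 156) (nat_lit 1368) (nat_lit 0) (XT.nd (nat_lit 78) (nat_lit 0) (nat_lit 0) (XT.lf (nat_lit 0) (nat_lit 3096417680) (nat_lit 532) (nat_lit 1901112768) (nat_lit 608) (nat_lit 2891749781) (nat_lit 98) (nat_lit 5) (nat_lit 105) (nat_lit 5) (nat_lit 106) (nat_lit 5) (nat_lit 276) (nat_lit 265) (nat_lit 239)) (XT.lf (nat_lit 0) (nat_lit 6906172027) (nat_lit 608) (nat_lit 608728204) (nat_lit 76) (nat_lit 532112476) (nat_lit 98) (nat_lit 5) (nat_lit 106) (nat_lit 5) (nat_lit 99) (nat_lit 5) (nat_lit 277) (nat_lit 265) (nat_lit 238))) (XT.nd (nat_lit 78) (nat_lit 684) (nat_lit 0) (XT.lf (nat_lit 0) (nat_lit 685344187) (nat_lit 684) (nat_lit 4417978074) (nat_lit 76) (nat_lit 3108465767)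 (nat_lit 89) (nat_lit 5) (nat_lit 98) (nat_lit 5) (nat_lit 90) (nat_lit 5) (nat_lit 278) (nat_lit 265) (nat_lit 237)) (XT.nd (nat_lit 78) (nat_lit 684) (nat_lit 0) (XT.lf (nat_lit 0) (nat_lit 2495785912) (nat_lit 684) (nat_lit 37063033) (nat_lit 76) (nat_lit 5854647706) (nat_lit 89) (nat_lit 5) (nat_lit 98) (nat_lit 5) (nat_lit 90) (nat_lit 5) (nat_lit 279) (nat_lit 265) (nat_lit 236)) (XT.lf (nat_lit 0) (nat_lit 4397723208) (nat_lit 760) (nat_lit 3932810844) (nat_lit 76) (nat_lit 241592760) (nat_lit 80) (nat_lit 5) (nat_lit 90) (nat_lit 5) (nat_lit 81) (nat_lit 5) (nat_lit 280) (nat_lit 265) (nat_lit 235))))) (XT.nd (nat_lit 156) (nat_lit 760) (nat_lit 0) (XT.nd (nat_lit 78) (nat_lit 0) (nat_lit 0) (XT.lf (nat_lit 0) (nat_lit 694622324) (nat_lit 456) (nat_lit 5680357125) (nat_lit 532) (nat_lit 2392173910) (nat_lit 74) (nat_lit 5) (nat_lit 80) (nat_lit 5) (nat_lit 81) (nat_lit 5) (nat_lit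 281) (nat_lit 265) (nat_lit 234)) (XT.lf (nat_lit 0) (nat_lit 5620188261) (nat_lit 456) (nat_lit 2827107730) (nat_lit 532) (nat_lit 524992969) (nat_lit 74) (nat_lit 5) (nat_lit 80) (nat_lit 5) (nat_lit 81) (nat_lit 5) (nat_lit 282) (nat_lit 265) (nat_lit 233))) (XT.nd (nat_lit 78) (nat_lit 304) (nat_lit 0) (XT.lf (nat_lit 0) (nat_lit 1349091628) (nat_lit 456) (nat_lit 7629199960) (nat_lit 76) (nat_lit 210446573) (nat_lit 68) (nat_lit 5) (nat_lit 74) (nat_lit 5) (nat_lit 69) (nat_lit 5) (nat_lit 283) (nat_lit 265) (nat_lit 232)) (XT.nd (nat_lit 78) (nat_lit 304) (nat_lit 0) (XT.lf (nat_lit 0) (nat_lit 3337145023) (nat_lit 456) (nat_lit 2707097168) (nat_lit 76) (nat_lit 3369586701) (nat_lit 68) (nat_lit 5) (nat_lit 74) (nat_lit 5) (nat_lit 69) (nat_lit 5) (nat_lit 284) (nat_lit 265) (nat_lit 231)) (XT.lf (nat_lit 0) (nat_lit 2472455133) (nat_lit 304) (nat_lit 2927759006) (nat_lit 380)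 (nat_lit 4251317254) (nat_lit 64) (nat_lit 5) (nat_lit 68) (nat_lit 5) (nat_lit 69) (nat_lit 5) (nat_lit 285) (nat_lit 265) (nat_lit 230))))))) (XT.nd (nat_lit 780) (nat_lit 1292) (nat_lit 0) (XT.nd (nat_lit 390) (nat_lit 836) (nat_lit 0) (XT.nd (nat_lit 156) (nat_lit 304) (nat_lit 0) (XT.nd (nat_lit 78) (nat_lit 304) (nat_lit 0) (XT.lf (nat_lit 0) (nat_lit 7557294450) (nat_lit 380) (nat_lit 1969778963) (nat_lit 76) (nat_lit 374634039) (nat_lit 64) (nat_lit 5) (nat_lit 69) (nat_lit 5) (nat_lit 65) (nat_lit 5) (nat_lit 286) (nat_lit 265) (nat_lit 229)) (XT.lf (nat_lit 0) (nat_lit 3497460433) (nat_lit 304) (nat_lit 6369160787) (nat_lit 380) (nat_lit 295676538) (nat_lit 60) (nat_lit 5) (nat_lit 64) (nat_lit 5) (nat_lit 65) (nat_lit 5) (nat_lit 287) (nat_lit 265) (nat_lit 228))) (XT.nd (nat_lit 78) (nat_lit 228) (nat_lit 0) (XT.lf (nat_lit 0) (nat_lit 1772516538) (nat_lit 380) (nat_lit 1224727766)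 (nat_lit 76) (nat_lit 7438517875) (nat_lit 59) (nat_lit 5) (nat_lit 64) (nat_lit 5) (nat_lit 60) (nat_lit 5) (nat_lit 288) (nat_lit 265) (nat_lit 227)) (XT.nd (nat_lit 78) (nat_lit 0) (nat_lit 0) (XT.lf (nat_lit 0) (nat_lit 3960267710) (nat_lit 304) (nat_lit 6167092100) (nat_lit 76) (nat_lit 594101437) (nat_lit 56) (nat_lit 5) (nat_lit 60) (nat_lit 5) (nat_lit 57) (nat_lit 5) (nat_lit 289) (nat_lit 265) (nat_lit 226)) (XT.lf (nat_lit 0) (nat_lit 6274327210) (nat_lit 304) (nat_lit 470710391) (nat_lit 76) (nat_lit 4275664520) (nat_lit 56) (nat_lit 5) (nat_lit 60) (nat_lit 5) (nat_lit 57) (nat_lit 5) (nat_lit 290) (nat_lit 265) (nat_lit 225))))) (XT.nd (nat_lit 156) (nat_lit 304) (nat_lit 0) (XT.nd (nat_lit 78) (nat_lit 228) (nat_lit 0) (XT.lf (nat_lit 0) (nat_lit 5627985164) (nat_lit 304) (nat_lit 3113215273) (nat_lit 380) (nat_lit 2591947058) (nat_lit 52) (nat_lit 5) (nat_lit 56) (nat_lit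 5) (nat_lit 57) (nat_lit 5) (nat_lit 291) (nat_lit 265) (nat_lit 224)) (XT.lf (nat_lit 0) (nat_lit 322405456) (nat_lit 228) (nat_lit 10983584602) (nat_lit 304) (nat_lit 356589770) (nat_lit 49) (nat_lit 5) (nat_lit 52) (nat_lit 5) (nat_lit 53) (nat_lit 5) (nat_lit 292) (nat_lit 265) (nat_lit 223))) (XT.nd (nat_lit 78) (nat_lit 228) (nat_lit 0) (XT.lf (nat_lit 0) (nat_lit 2027069413) (nat_lit 304) (nat_lit 5302593190) (nat_lit 76) (nat_lit 4672339752) (nat_lit 48) (nat_lit 5) (nat_lit 52) (nat_lit 5) (nat_lit 49) (nat_lit 5) (nat_lit 293) (nat_lit 265) (nat_lit 222)) (XT.nd (nat_lit 78) (nat_lit 0) (nat_lit 0) (XT.lf (nat_lit 0) (nat_lit 1001490207) (nat_lit 228) (nat_lit 3485410487) (nat_lit 304) (nat_lit 7872835004) (nat_lit 45) (nat_lit 5) (nat_lit 48) (nat_lit 5) (nat_lit 49) (nat_lit 5) (nat_lit 294) (nat_lit 265) (nat_lit 221)) (XT.lf (nat_lit 0) (nat_lit 7123976671) (nat_lit 304)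 (nat_lit 4998769930) (nat_lit 76) (nat_lit 609973229) (nat_lit 45) (nat_lit 5) (nat_lit 49) (nat_lit 5) (nat_lit 46) (nat_lit 5) (nat_lit 295) (nat_lit 265) (nat_lit 220)))))) (XT.nd (nat_lit 390) (nat_lit 608) (nat_lit 0) (XT.nd (nat_lit 156) (nat_lit 456) (nat_lit 0) (XT.nd (nat_lit 78) (nat_lit 0) (nat_lit 0) (XT.lf (nat_lit 0) (nat_lit 1613467822) (nat_lit 228) (nat_lit 8318315337) (nat_lit 304) (nat_lit 3190699298) (nat_lit 42) (nat_lit 5) (nat_lit 45) (nat_lit 5) (nat_lit 46) (nat_lit 5) (nat_lit 296) (nat_lit 265) (nat_lit 219)) (XT.lf (nat_lit 0) (nat_lit 8671111852) (nat_lit 228) (nat_lit 4251224651) (nat_lit 304) (nat_lit 607348529) (nat_lit 42) (nat_lit 5) (nat_lit 45) (nat_lit 5) (nat_lit 46) (nat_lit 5) (nat_lit 297) (nat_lit 265) (nat_lit 218))) (XT.nd (nat_lit 78) (nat_lit 152) (nat_lit 0) (XT.lf (nat_lit 0) (nat_lit 2030710954) (nat_lit 304) (nat_lit 11855791033) (nat_lit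 76) (nat_lit 69519546) (nat_lit 38) (nat_lit 5) (nat_lit 42) (nat_lit 5) (nat_lit 39) (nat_lit 5) (nat_lit 298) (nat_lit 265) (nat_lit 217)) (XT.nd (nat_lit 78) (nat_lit 152) (nat_lit 0) (XT.lf (nat_lit 0) (nat_lit 4893389330) (nat_lit 304) (nat_lit 4963152374) (nat_lit 76) (nat_lit 4541039148) (nat_lit 38) (nat_lit 5) (nat_lit 42) (nat_lit 5) (nat_lit 39) (nat_lit 5) (nat_lit 299) (nat_lit 265) (nat_lit 216)) (XT.lf (nat_lit 0) (nat_lit 2292003250) (nat_lit 152) (nat_lit 5604700516) (nat_lit 228) (nat_lit 6964696559) (nat_lit 36) (nat_lit 5) (nat_lit 38) (nat_lit 5) (nat_lit 39) (nat_lit 5) (nat_lit 300) (nat_lit 265) (nat_lit 215))))) (XT.nd (nat_lit 234) (nat_lit 304) (nat_lit 0) (XT.nd (nat_lit 78) (nat_lit 304) (nat_lit 0) (XT.lf (nat_lit 0) (nat_lit 10027647448) (nat_lit 152) (nat_lit 1069278260) (nat_lit 228) (nat_lit 4249202540) (nat_lit 36) (nat_lit 5) (nat_lit 38) (nat_lit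 5) (nat_lit 39) (nat_lit 5) (nat_lit 301) (nat_lit 265) (nat_lit 214)) (XT.nd (nat_lit 78) (nat_lit 76) (nat_lit 0) (XT.lf (nat_lit 0) (nat_lit 2255978297) (nat_lit 228) (nat_lit 12258267738) (nat_lit 304) (nat_lit 1338044136) (nat_lit 33) (nat_lit 5) (nat_lit 36) (nat_lit 5) (nat_lit 37) (nat_lit 5) (nat_lit 302) (nat_lit 265) (nat_lit 213)) (XT.lf (nat_lit 0) (nat_lit 1737210661) (nat_lit 304) (nat_lit 6085199474) (nat_lit 76) (nat_lit 8556378191) (nat_lit 32) (nat_lit 5) (nat_lit 36) (nat_lit 5) (nat_lit 33) (nat_lit 5) (nat_lit 303) (nat_lit 265) (nat_lit 212)))) (XT.nd (nat_lit 78) (nat_lit 152) (nat_lit 0) (XT.lf (nat_lit 0) (nat_lit 1785332506) (nat_lit 152) (nat_lit 3129964533) (nat_lit 228) (nat_lit 12015560690) (nat_lit 30) (nat_lit 5) (nat_lit 32) (nat_lit 5) (nat_lit 33) (nat_lit 5) (nat_lit 304) (nat_lit 265) (nat_lit 211)) (XT.nd (nat_lit 78) (nat_lit 152) (nat_lit 0) (XT.lf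 (nat_lit 0) (nat_lit 8351802100) (nat_lit 228) (nat_lit 7326404491) (nat_lit 76) (nat_lit 1827391045) (nat_lit 30) (nat_lit 5) (nat_lit 33) (nat_lit 5) (nat_lit 31) (nat_lit 5) (nat_lit 305) (nat_lit 265) (nat_lit 210)) (XT.lf (nat_lit 0) (nat_lit 808785778) (nat_lit 152) (nat_lit 11183581428) (nat_lit 228) (nat_lit 6115136313) (nat_lit 28) (nat_lit 5) (nat_lit 30) (nat_lit 5) (nat_lit 31) (nat_lit 5) (nat_lit 306) (nat_lit 265) (nat_lit 209))))))))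
noncomputable def xc123 : XT := (XT.nd (nat_lit 1560) (nat_lit 608) (nat_lit 0) (XT.nd (nat_lit 780) (nat_lit 380) (nat_lit 0) (XT.nd (nat_lit 390) (nat_lit 304) (nat_lit 0) (XT.nd (nat_lit 156) (nat_lit 304) (nat_lit 0) (XT.nd (nat_lit 78) (nat_lit 76) (nat_lit 0) (XT.lf (nat_lit 0) (nat_lit 9556427752) (nat_lit 152) (nat_lit 6351655414) (nat_lit 228) (nat_lit 2826804178) (nat_lit 28) (nat_lit 5) (nat_lit 30) (nat_lit 5) (nat_lit 31) (nat_lit 5) (nat_lit 307) (nat_lit 265) (nat_lit 208)) (XT.lf (nat_lit 0) (nat_lit 575911780) (nat_lit 228) (nat_lit 709335044) (nat_lit 76) (nat_lit 18109440006) (nat_lit 27) (nat_lit 5) (nat_lit 30) (nat_lit 5) (nat_lit 28) (nat_lit 5) (nat_lit 308) (nat_lit 265) (nat_lit 207))) (XT.nd (nat_lit 78) (nat_lit 152) (nat_lit 0) (XT.lf (nat_lit 0) (nat_lit 4221337388) (nat_lit 228) (nat_lit 11786388241) (nat_lit 76) (nat_lit 4069088456) (nat_lit 25) (nat_lit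 5) (nat_lit 28) (nat_lit 5) (nat_lit 26) (nat_lit 5) (nat_lit 309) (nat_lit 265) (nat_lit 206)) (XT.nd (nat_lit 78) (nat_lit 152) (nat_lit 0) (XT.lf (nat_lit 0) (nat_lit 8054153634) (nat_lit 228) (nat_lit 3094472103) (nat_lit 76) (nat_lit 9644197902) (nat_lit 25) (nat_lit 5) (nat_lit 28) (nat_lit 5) (nat_lit 26) (nat_lit 5) (nat_lit 310) (nat_lit 265) (nat_lit 205)) (XT.lf (nat_lit 0) (nat_lit 6186661371) (nat_lit 152) (nat_lit 5961721274) (nat_lit 228) (nat_lit 9392792813) (nat_lit 23) (nat_lit 5) (nat_lit 25) (nat_lit 5) (nat_lit 26) (nat_lit 5) (nat_lit 311) (nat_lit 265) (nat_lit 204))))) (XT.nd (nat_lit 156) (nat_lit 228) (nat_lit 0) (XT.nd (nat_lit 78) (nat_lit 76) (nat_lit 0) (XT.lf (nat_lit 0) (nat_lit 15996594178) (nat_lit 152) (nat_lit 476926729) (nat_lit 228) (nat_lit 5852143009) (nat_lit 23) (nat_lit 5) (nat_lit 25) (nat_lit 5) (nat_lit 26) (nat_lit 5) (nat_lit 312) (nat_lit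 265) (nat_lit 203)) (XT.lf (nat_lit 0) (nat_lit 3123460506) (nat_lit 76) (nat_lit 17997484419) (nat_lit 152) (nat_lit 2023157988) (nat_lit 22) (nat_lit 5) (nat_lit 23) (nat_lit 5) (nat_lit 24) (nat_lit 4) (nat_lit 313) (nat_lit 265) (nat_lit 202))) (XT.nd (nat_lit 78) (nat_lit 152) (nat_lit 0) (XT.lf (nat_lit 0) (nat_lit 2025037276) (nat_lit 152) (nat_lit 10812384761) (nat_lit 76) (nat_lit 11159923352) (nat_lit 21) (nat_lit 5) (nat_lit 23) (nat_lit 5) (nat_lit 22) (nat_lit 5) (nat_lit 314) (nat_lit 265) (nat_lit 201)) (XT.nd (nat_lit 78) (nat_lit 152) (nat_lit 0) (XT.lf (nat_lit 0) (nat_lit 6183769818) (nat_lit 152) (nat_lit 1216756728) (nat_lit 76) (nat_lit 17492282978) (nat_lit 21) (nat_lit 5) (nat_lit 23) (nat_lit 5) (nat_lit 22) (nat_lit 5) (nat_lit 315) (nat_lit 265) (nat_lit 200)) (XT.lf (nat_lit 0) (nat_lit 9112326960) (nat_lit 152) (nat_lit 1557637073) (nat_lit 228) (nat_lit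 15157129255) (nat_lit 19) (nat_lit 5) (nat_lit 21) (nat_lit 5) (nat_lit 22) (nat_lit 5) (nat_lit 316) (nat_lit 265) (nat_lit 199)))))) (XT.nd (nat_lit 390) (nat_lit 76) (nat_lit 0) (XT.nd (nat_lit 156) (nat_lit 228) (nat_lit 0) (XT.nd (nat_lit 78) (nat_lit 76) (nat_lit 0) (XT.lf (nat_lit 0) (nat_lit 15450397818) (nat_lit 228) (nat_lit 6917019161) (nat_lit 76) (nat_lit 4437199362) (nat_lit 19) (nat_lit 5) (nat_lit 22) (nat_lit 5) (nat_lit 20) (nat_lit 4) (nat_lit 317) (nat_lit 265) (nat_lit 198)) (XT.lf (nat_lit 0) (nat_lit 3418038610) (nat_lit 76) (nat_lit 17109305058) (nat_lit 152) (nat_lit 7300817924) (nat_lit 18) (nat_lit 5) (nat_lit 19) (nat_lit 5) (nat_lit 20) (nat_lit 4) (nat_lit 318) (nat_lit 265) (nat_lit 197))) (XT.nd (nat_lit 78) (nat_lit 228) (nat_lit 0) (XT.lf (nat_lit 0) (nat_lit 14474140004) (nat_lit 76) (nat_lit 11480189813) (nat_lit 152) (nat_lit 2943764226) (nat_lit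 18) (nat_lit 5) (nat_lit 19) (nat_lit 5) (nat_lit 20) (nat_lit 4) (nat_lit 319) (nat_lit 265) (nat_lit 196)) (XT.nd (nat_lit 78) (nat_lit 152) (nat_lit 0) (XT.lf (nat_lit 0) (nat_lit 1558637836) (nat_lit 152) (nat_lit 3998777535) (nat_lit 76) (nat_lit 24463867055) (nat_lit 17) (nat_lit 5) (nat_lit 19) (nat_lit 5) (nat_lit 18) (nat_lit 5) (nat_lit 320) (nat_lit 265) (nat_lit 195)) (XT.lf (nat_lit 0) (nat_lit 6291363042) (nat_lit 228) (nat_lit 24113129483) (nat_lit 76) (nat_lit 788535058) (nat_lit 15) (nat_lit 5) (nat_lit 18) (nat_lit 5) (nat_lit 16) (nat_lit 4) (nat_lit 321) (nat_lit 265) (nat_lit 194))))) (XT.nd (nat_lit 156) (nat_lit 76) (nat_lit 0) (XT.nd (nat_lit 78) (nat_lit 0) (nat_lit 0) (XT.lf (nat_lit 0) (nat_lit 11401526769) (nat_lit 228) (nat_lit 13694241482) (nat_lit 76) (nat_lit 7320567748) (nat_lit 15) (nat_lit 5) (nat_lit 18) (nat_lit 5) (nat_lit 16) (nat_lit 4) (nat_lit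 322) (nat_lit 265) (nat_lit 193)) (XT.lf (nat_lit 0) (nat_lit 16748975515) (nat_lit 228) (nat_lit 2786207400) (nat_lit 76) (nat_lit 14166553426) (nat_lit 15) (nat_lit 5) (nat_lit 18) (nat_lit 5) (nat_lit 16) (nat_lit 4) (nat_lit 323) (nat_lit 265) (nat_lit 192))) (XT.nd (nat_lit 78) (nat_lit 0) (nat_lit 0) (XT.lf (nat_lit 0) (nat_lit 8922520655) (nat_lit 76) (nat_lit 13563226198) (nat_lit 152) (nat_lit 12559576955) (nat_lit 14) (nat_lit 5) (nat_lit 15) (nat_lit 5) (nat_lit 16) (nat_lit 4) (nat_lit 324) (nat_lit 265) (nat_lit 191)) (XT.nd (nat_lit 78) (nat_lit 0) (nat_lit 0) (XT.lf (nat_lit 0) (nat_lit 21283620283) (nat_lit 76) (nat_lit 7255928102) (nat_lit 152) (nat_lit 7915046601) (nat_lit 14) (nat_lit 5) (nat_lit 15) (nat_lit 5) (nat_lit 16) (nat_lit 4) (nat_lit 325) (nat_lit 265) (nat_lit 190)) (XT.lf (nat_lit 0) (nat_lit 34234398073) (nat_lit 76) (nat_lit 645457021) (nat_lit 152)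 (nat_lit 3055297131) (nat_lit 14) (nat_lit 5) (nat_lit 15) (nat_lit 5) (nat_lit 16) (nat_lit 4) (nat_lit 326) (nat_lit 265) (nat_lit 189))))))) (XT.nd (nat_lit 780) (nat_lit 228) (nat_lit 0) (XT.nd (nat_lit 390) (nat_lit 152) (nat_lit 0) (XT.nd (nat_lit 156) (nat_lit 76) (nat_lit 0) (XT.nd (nat_lit 78) (nat_lit 0) (nat_lit 0) (XT.lf (nat_lit 0) (nat_lit 2200653788) (nat_lit 152) (nat_lit 31025731006) (nat_lit 76) (nat_lit 6250829000) (nat_lit 12) (nat_lit 5) (nat_lit 14) (nat_lit 5) (nat_lit 13) (nat_lit 4) (nat_lit 327) (nat_lit 265) (nat_lit 188)) (XT.lf (nat_lit 0) (nat_lit 7675467698) (nat_lit 152) (nat_lit 19842834115) (nat_lit 76) (nat_lit 13572646565) (nat_lit 12) (nat_lit 5) (nat_lit 14) (nat_lit 5) (nat_lit 13) (nat_lit 4) (nat_lit 328) (nat_lit 265) (nat_lit 187))) (XT.nd (nat_lit 78) (nat_lit 76) (nat_lit 0) (XT.lf (nat_lit 0) (nat_lit 13409222964) (nat_lit 152) (nat_lit 8127180224)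 (nat_lit 76) (nat_lit 21249717377) (nat_lit 12) (nat_lit 5) (nat_lit 14) (nat_lit 5) (nat_lit 13) (nat_lit 4) (nat_lit 329) (nat_lit 265) (nat_lit 186)) (XT.nd (nat_lit 78) (nat_lit 0) (nat_lit 0) (XT.lf (nat_lit 0) (nat_lit 4286313895) (nat_lit 76) (nat_lit 15196178862) (nat_lit 152) (nat_lit 25080927653) (nat_lit 11) (nat_lit 5) (nat_lit 12) (nat_lit 5) (nat_lit 13) (nat_lit 4) (nat_lit 330) (nat_lit 265) (nat_lit 185)) (XT.lf (nat_lit 0) (nat_lit 17577914129) (nat_lit 76) (nat_lit 8405340162) (nat_lit 152) (nat_lit 20440149436) (nat_lit 11) (nat_lit 5) (nat_lit 12) (nat_lit 5) (nat_lit 13) (nat_lit 4) (nat_lit 331) (nat_lit 265) (nat_lit 184))))) (XT.nd (nat_lit 156) (nat_lit 152) (nat_lit 0) (XT.nd (nat_lit 78) (nat_lit 0) (nat_lit 0) (XT.lf (nat_lit 0) (nat_lit 31510545865) (nat_lit 76) (nat_lit 1285356153) (nat_lit 152) (nat_lit 15581151207) (nat_lit 11) (nat_lit 5) (nat_lit 12)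 (nat_lit 5) (nat_lit 13) (nat_lit 4) (nat_lit 332) (nat_lit 265) (nat_lit 183)) (XT.lf (nat_lit 0) (nat_lit 40033154975) (nat_lit 152) (nat_lit 4408136864) (nat_lit 0) (nat_lit 5982903689) (nat_lit 11) (nat_lit 5) (nat_lit 13) (nat_lit 4) (nat_lit 11) (nat_lit 4) (nat_lit 333) (nat_lit 265) (nat_lit 182))) (XT.nd (nat_lit 78) (nat_lit 76) (nat_lit 0) (XT.lf (nat_lit 0) (nat_lit 8915619273) (nat_lit 76) (nat_lit 38864844146) (nat_lit 76) (nat_lit 4785830432) (nat_lit 10) (nat_lit 4) (nat_lit 11) (nat_lit 5) (nat_lit 11) (nat_lit 4) (nat_lit 334) (nat_lit 265) (nat_lit 181)) (XT.nd (nat_lit 78) (nat_lit 0) (nat_lit 0) (XT.lf (nat_lit 0) (nat_lit 1128284249) (nat_lit 152) (nat_lit 31793423790) (nat_lit 76) (nat_lit 21889746406) (nat_lit 9) (nat_lit 5) (nat_lit 11) (nat_lit 5) (nat_lit 10) (nat_lit 4) (nat_lit 335) (nat_lit 265) (nat_lit 180)) (XT.lf (nat_lit 0) (nat_lit 7165804276) (nat_lit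 152) (nat_lit 19442596104) (nat_lit 76) (nat_lit 30557130516) (nat_lit 9) (nat_lit 5) (nat_lit 11) (nat_lit 5) (nat_lit 10) (nat_lit 4) (nat_lit 336) (nat_lit 265) (nat_lit 179)))))) (XT.nd (nat_lit 390) (nat_lit 152) (nat_lit 0) (XT.nd (nat_lit 156) (nat_lit 0) (nat_lit 0) (XT.nd (nat_lit 78) (nat_lit 76) (nat_lit 0) (XT.lf (nat_lit 0) (nat_lit 13494281160) (nat_lit 152) (nat_lit 6494064560) (nat_lit 76) (nat_lit 39649518437) (nat_lit 9) (nat_lit 5) (nat_lit 11) (nat_lit 5) (nat_lit 10) (nat_lit 4) (nat_lit 337) (nat_lit 265) (nat_lit 178)) (XT.lf (nat_lit 0) (nat_lit 7317196667) (nat_lit 76) (nat_lit 12925827979) (nat_lit 152) (nat_lit 41985603991) (nat_lit 8) (nat_lit 5) (nat_lit 9) (nat_lit 5) (nat_lit 10) (nat_lit 4) (nat_lit 338) (nat_lit 265) (nat_lit 177))) (XT.nd (nat_lit 78) (nat_lit 0) (nat_lit 0) (XT.lf (nat_lit 0) (nat_lit 22025892055) (nat_lit 76) (nat_lit 5403099178) (nat_lit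 152) (nat_lit 37514957190) (nat_lit 8) (nat_lit 5) (nat_lit 9) (nat_lit 5) (nat_lit 10) (nat_lit 4) (nat_lit 339) (nat_lit 265) (nat_lit 176)) (XT.nd (nat_lit 78) (nat_lit 0) (nat_lit 0) (XT.lf (nat_lit 0) (nat_lit 35003388477) (nat_lit 152) (nat_lit 30382047595) (nat_lit 0) (nat_lit 2408147582) (nat_lit 8) (nat_lit 5) (nat_lit 10) (nat_lit 4) (nat_lit 8) (nat_lit 4) (nat_lit 340) (nat_lit 265) (nat_lit 175)) (XT.lf (nat_lit 0) (nat_lit 43035715670) (nat_lit 152) (nat_lit 17325023025) (nat_lit 0) (nat_lit 10421007231) (nat_lit 8) (nat_lit 5) (nat_lit 10) (nat_lit 4) (nat_lit 8) (nat_lit 4) (nat_lit 341) (nat_lit 265) (nat_lit 174))))) (XT.nd (nat_lit 234) (nat_lit 76) (nat_lit 0) (XT.nd (nat_lit 78) (nat_lit 76) (nat_lit 0) (XT.lf (nat_lit 0) (nat_lit 51460739880) (nat_lit 152) (nat_lit 3631536984) (nat_lit 0) (nat_lit 18827490924) (nat_lit 8) (nat_lit 5) (nat_lit 10) (nat_lit 4) (nat_lit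 8) (nat_lit 4) (nat_lit 342) (nat_lit 265) (nat_lit 173)) (XT.nd (nat_lit 78) (nat_lit 0) (nat_lit 0) (XT.lf (nat_lit 0) (nat_lit 11085829854) (nat_lit 76) (nat_lit 49385771706) (nat_lit 76) (nat_lit 16734865115) (nat_lit 7) (nat_lit 4) (nat_lit 8) (nat_lit 5) (nat_lit 8) (nat_lit 4) (nat_lit 343) (nat_lit 265) (nat_lit 172)) (XT.lf (nat_lit 0) (nat_lit 26649786269) (nat_lit 76) (nat_lit 43336392012) (nat_lit 76) (nat_lit 10668668625) (nat_lit 7) (nat_lit 4) (nat_lit 8) (nat_lit 5) (nat_lit 8) (nat_lit 4) (nat_lit 344) (nat_lit 265) (nat_lit 171)))) (XT.nd (nat_lit 78) (nat_lit 76) (nat_lit 0) (XT.lf (nat_lit 0) (nat_lit 42977314286) (nat_lit 76) (nat_lit 36991236332) (nat_lit 76) (nat_lit 4307496949) (nat_lit 7) (nat_lit 4) (nat_lit 8) (nat_lit 5) (nat_lit 8) (nat_lit 4) (nat_lit 345) (nat_lit 265) (nat_lit 170)) (XT.nd (nat_lit 78) (nat_lit 0) (nat_lit 0) (XT.lf (nat_lit 0) (nat_lit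 2288139338) (nat_lit 152) (nat_lit 28008307068) (nat_lit 76) (nat_lit 57780398886) (nat_lit 6) (nat_lit 5) (nat_lit 8) (nat_lit 5) (nat_lit 7) (nat_lit 4) (nat_lit 346) (nat_lit 265) (nat_lit 169)) (XT.lf (nat_lit 0) (nat_lit 9061479494) (nat_lit 152) (nat_lit 14137486730) (nat_lit 76) (nat_lit 68865555946) (nat_lit 6) (nat_lit 5) (nat_lit 8) (nat_lit 5) (nat_lit 7) (nat_lit 4) (nat_lit 347) (nat_lit 265) (nat_lit 168))))))))
noncomputable def xc124 : XT := (XT.nd (nat_lit 1560) (nat_lit 76) (nat_lit 0) (XT.nd (nat_lit 780) (nat_lit 152) (nat_lit 0) (XT.nd (nat_lit 390) (nat_lit 76) (nat_lit 0) (XT.nd (nat_lit 156) (nat_lit 0) (nat_lit 0) (XT.nd (nat_lit 78) (nat_lit 0) (nat_lit 0) (XT.lf (nat_lit 0) (nat_lit 427694489) (nat_lit 76) (nat_lit 15745500340) (nat_lit 152) (nat_lit 80078406566) (nat_lit 5) (nat_lit 5) (nat_lit 6) (nat_lit 5) (nat_lit 7) (nat_lit 4) (nat_lit 348) (nat_lit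 265) (nat_lit 167)) (XT.lf (nat_lit 0) (nat_lit 16199294921) (nat_lit 76) (nat_lit 7673791046) (nat_lit 152) (nat_lit 76763322844) (nat_lit 5) (nat_lit 5) (nat_lit 6) (nat_lit 5) (nat_lit 7) (nat_lit 4) (nat_lit 349) (nat_lit 265) (nat_lit 166))) (XT.nd (nat_lit 78) (nat_lit 0) (nat_lit 0) (XT.lf (nat_lit 0) (nat_lit 31963889086) (nat_lit 152) (nat_lit 72505795880) (nat_lit 0) (nat_lit 770479310) (nat_lit 5) (nat_lit 5) (nat_lit 7) (nat_lit 4) (nat_lit 5) (nat_lit 4) (nat_lit 350) (nat_lit 265) (nat_lit 165)) (XT.nd (nat_lit 78) (nat_lit 0) (nat_lit 0) (XT.lf (nat_lit 0) (nat_lit 40578750028) (nat_lit 152) (nat_lit 60115427002) (nat_lit 0) (nat_lit 9373957983) (nat_lit 5) (nat_lit 5) (nat_lit 7) (nat_lit 4) (nat_lit 5) (nat_lit 4) (nat_lit 351) (nat_lit 265) (nat_lit 164)) (XT.lf (nat_lit 0) (nat_lit 49618370983) (nat_lit 152) (nat_lit 47116696994) (nat_lit 0) (nat_lit 18402738681) (nat_lit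 5) (nat_lit 5) (nat_lit 7) (nat_lit 4) (nat_lit 5) (nat_lit 4) (nat_lit 352) (nat_lit 265) (nat_lit 163))))) (XT.nd (nat_lit 156) (nat_lit 76) (nat_lit 0) (XT.nd (nat_lit 78) (nat_lit 0) (nat_lit 0) (XT.lf (nat_lit 0) (nat_lit 59104274858) (nat_lit 152) (nat_lit 33478656498) (nat_lit 0) (nat_lit 27878318503) (nat_lit 5) (nat_lit 5) (nat_lit 7) (nat_lit 4) (nat_lit 5) (nat_lit 4) (nat_lit 353) (nat_lit 265) (nat_lit 162)) (XT.lf (nat_lit 0) (nat_lit 69059047139) (nat_lit 152) (nat_lit 19168833991) (nat_lit 0) (nat_lit 37823258351) (nat_lit 5) (nat_lit 5) (nat_lit 7) (nat_lit 4) (nat_lit 5) (nat_lit 4) (nat_lit 354) (nat_lit 265) (nat_lit 161))) (XT.nd (nat_lit 78) (nat_lit 76) (nat_lit 0) (XT.lf (nat_lit 0) (nat_lit 79506389664) (nat_lit 152) (nat_lit 4153158466) (nat_lit 0) (nat_lit 48261236655) (nat_lit 5) (nat_lit 5) (nat_lit 7) (nat_lit 4) (nat_lit 5) (nat_lit 4) (nat_lit 355) (nat_lit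 265) (nat_lit 160)) (XT.nd (nat_lit 78) (nat_lit 0) (nat_lit 0) (XT.lf (nat_lit 0) (nat_lit 11987806354) (nat_lit 76) (nat_lit 78670533957) (nat_lit 76) (nat_lit 47416462643) (nat_lit 4) (nat_lit 4) (nat_lit 5) (nat_lit 5) (nat_lit 5) (nat_lit 4) (nat_lit 356) (nat_lit 265) (nat_lit 159)) (XT.lf (nat_lit 0) (nat_lit 29070976601) (nat_lit 76) (nat_lit 73362418775) (nat_lit 76) (nat_lit 42099853835) (nat_lit 4) (nat_lit 4) (nat_lit 5) (nat_lit 5) (nat_lit 5) (nat_lit 4) (nat_lit 357) (nat_lit 265) (nat_lit 158)))))) (XT.nd (nat_lit 390) (nat_lit 152) (nat_lit 0) (XT.nd (nat_lit 156) (nat_lit 0) (nat_lit 0) (XT.nd (nat_lit 78) (nat_lit 0) (nat_lit 0) (XT.lf (nat_lit 0) (nat_lit 46999704313) (nat_lit 76) (nat_lit 67792899961) (nat_lit 76) (nat_lit 36522245855) (nat_lit 4) (nat_lit 4) (nat_lit 5) (nat_lit 5) (nat_lit 5) (nat_lit 4) (nat_lit 358) (nat_lit 265) (nat_lit 157)) (XT.lf (nat_lit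 0) (nat_lit 65816676938) (nat_lit 76) (nat_lit 61948716757) (nat_lit 76) (nat_lit 30670358684) (nat_lit 4) (nat_lit 4) (nat_lit 5) (nat_lit 5) (nat_lit 5) (nat_lit 4) (nat_lit 359) (nat_lit 265) (nat_lit 156))) (XT.nd (nat_lit 78) (nat_lit 0) (nat_lit 0) (XT.lf (nat_lit 0) (nat_lit 85566696791) (nat_lit 76) (nat_lit 55815954442) (nat_lit 76) (nat_lit 24530259256) (nat_lit 4) (nat_lit 4) (nat_lit 5) (nat_lit 5) (nat_lit 5) (nat_lit 4) (nat_lit 360) (nat_lit 265) (nat_lit 155)) (XT.nd (nat_lit 78) (nat_lit 0) (nat_lit 0) (XT.lf (nat_lit 0) (nat_lit 106296787730) (nat_lit 76) (nat_lit 49380011199) (nat_lit 76) (nat_lit 18087328287) (nat_lit 4) (nat_lit 4) (nat_lit 5) (nat_lit 5) (nat_lit 5) (nat_lit 4) (nat_lit 361) (nat_lit 265) (nat_lit 154)) (XT.lf (nat_lit 0) (nat_lit 128056307113) (nat_lit 76) (nat_lit 42625563355) (nat_lit 76) (nat_lit 11326225466) (nat_lit 4) (nat_lit 4) (nat_lit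 5) (nat_lit 5) (nat_lit 5) (nat_lit 4) (nat_lit 362) (nat_lit 265) (nat_lit 153))))) (XT.nd (nat_lit 156) (nat_lit 76) (nat_lit 0) (XT.nd (nat_lit 78) (nat_lit 76) (nat_lit 0) (XT.lf (nat_lit 0) (nat_lit 150897063320) (nat_lit 76) (nat_lit 35536528891) (nat_lit 76) (nat_lit 4230852929) (nat_lit 4) (nat_lit 4) (nat_lit 5) (nat_lit 5) (nat_lit 5) (nat_lit 4) (nat_lit 363) (nat_lit 265) (nat_lit 152)) (XT.lf (nat_lit 0) (nat_lit 3112761128) (nat_lit 152) (nat_lit 24930551909) (nat_lit 76) (nat_lit 171707961860) (nat_lit 3) (nat_lit 5) (nat_lit 5) (nat_lit 5) (nat_lit 4) (nat_lit 4) (nat_lit 364) (nat_lit 265) (nat_lit 151))) (XT.nd (nat_lit 78) (nat_lit 76) (nat_lit 0) (XT.lf (nat_lit 0) (nat_lit 10678047888) (nat_lit 152) (nat_lit 9427462870) (nat_lit 76) (nat_lit 189183635277) (nat_lit 3) (nat_lit 5) (nat_lit 5) (nat_lit 5) (nat_lit 4) (nat_lit 4) (nat_lit 365) (nat_lit 265) (nat_lit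 150)) (XT.nd (nat_lit 78) (nat_lit 0) (nat_lit 0) (XT.lf (nat_lit 0) (nat_lit 7071174632) (nat_lit 76) (nat_lit 11657659875) (nat_lit 152) (nat_lit 200569715998) (nat_lit 2) (nat_lit 5) (nat_lit 3) (nat_lit 5) (nat_lit 4) (nat_lit 4) (nat_lit 366) (nat_lit 265) (nat_lit 149)) (XT.lf (nat_lit 0) (nat_lit 24716212106) (nat_lit 76) (nat_lit 2622501339) (nat_lit 152) (nat_lit 202461885580) (nat_lit 2) (nat_lit 5) (nat_lit 3) (nat_lit 5) (nat_lit 4) (nat_lit 4) (nat_lit 367) (nat_lit 265) (nat_lit 148))))))) (XT.nd (nat_lit 780) (nat_lit 76) (nat_lit 0) (XT.nd (nat_lit 390) (nat_lit 0) (nat_lit 0) (XT.nd (nat_lit 156) (nat_lit 0) (nat_lit 0) (XT.nd (nat_lit 78) (nat_lit 0) (nat_lit 0) (XT.lf (nat_lit 0) (nat_lit 36483260777) (nat_lit 152) (nat_lit 197697084434) (nat_lit 0) (nat_lit 6642197440) (nat_lit 2) (nat_lit 5) (nat_lit 4) (nat_lit 4) (nat_lit 2) (nat_lit 4) (nat_lit 368) (nat_lit 265)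 (nat_lit 147)) (XT.lf (nat_lit 0) (nat_lit 46125171768) (nat_lit 152) (nat_lit 189988802136) (nat_lit 0) (nat_lit 16279604080) (nat_lit 2) (nat_lit 5) (nat_lit 4) (nat_lit 4) (nat_lit 2) (nat_lit 4) (nat_lit 369) (nat_lit 265) (nat_lit 146))) (XT.nd (nat_lit 78) (nat_lit 0) (nat_lit 0) (XT.lf (nat_lit 0) (nat_lit 56246458752) (nat_lit 152) (nat_lit 181900242376) (nat_lit 0) (nat_lit 26396601207) (nat_lit 2) (nat_lit 5) (nat_lit 4) (nat_lit 4) (nat_lit 2) (nat_lit 4) (nat_lit 370) (nat_lit 265) (nat_lit 145)) (XT.nd (nat_lit 78) (nat_lit 0) (nat_lit 0) (XT.lf (nat_lit 0) (nat_lit 66871220033) (nat_lit 152) (nat_lit 173412146679) (nat_lit 0) (nat_lit 37017276909) (nat_lit 2) (nat_lit 5) (nat_lit 4) (nat_lit 4) (nat_lit 2) (nat_lit 4) (nat_lit 371) (nat_lit 265) (nat_lit 144)) (XT.lf (nat_lit 0) (nat_lit 78024752661) (nat_lit 152) (nat_lit 164504305293) (nat_lit 0) (nat_lit 48166918510)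 (nat_lit 2) (nat_lit 5) (nat_lit 4) (nat_lit 4) (nat_lit 2) (nat_lit 4) (nat_lit 372) (nat_lit 265) (nat_lit 143))))) (XT.nd (nat_lit 156) (nat_lit 0) (nat_lit 0) (XT.nd (nat_lit 78) (nat_lit 0) (nat_lit 0) (XT.lf (nat_lit 0) (nat_lit 89733612665) (nat_lit 152) (nat_lit 155155509072) (nat_lit 0) (nat_lit 59872072774) (nat_lit 2) (nat_lit 5) (nat_lit 4) (nat_lit 4) (nat_lit 2) (nat_lit 4) (nat_lit 373) (nat_lit 265) (nat_lit 142)) (XT.lf (nat_lit 0) (nat_lit 102025678285) (nat_lit 152) (nat_lit 145343498976) (nat_lit 0) (nat_lit 72160609117) (nat_lit 2) (nat_lit 5) (nat_lit 4) (nat_lit 4) (nat_lit 2) (nat_lit 4) (nat_lit 374) (nat_lit 265) (nat_lit 141))) (XT.nd (nat_lit 78) (nat_lit 0) (nat_lit 0) (XT.lf (nat_lit 0) (nat_lit 114930216343) (nat_lit 152) (nat_lit 135044913079) (nat_lit 0) (nat_lit 85061785960) (nat_lit 2) (nat_lit 5) (nat_lit 4) (nat_lit 4) (nat_lit 2) (nat_lit 4) (nat_lit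 375) (nat_lit 265) (nat_lit 140)) (XT.nd (nat_lit 78) (nat_lit 0) (nat_lit 0) (XT.lf (nat_lit 0) (nat_lit 128477951929) (nat_lit 152) (nat_lit 124235230936) (nat_lit 0) (nat_lit 98606320388) (nat_lit 2) (nat_lit 5) (nat_lit 4) (nat_lit 4) (nat_lit 2) (nat_lit 4) (nat_lit 376) (nat_lit 265) (nat_lit 139)) (XT.lf (nat_lit 0) (nat_lit 142701141557) (nat_lit 152) (nat_lit 112888715209) (nat_lit 0) (nat_lit 112826461295) (nat_lit 2) (nat_lit 5) (nat_lit 4) (nat_lit 4) (nat_lit 2) (nat_lit 4) (nat_lit 377) (nat_lit 265) (nat_lit 138)))))) (XT.nd (nat_lit 390) (nat_lit 76) (nat_lit 0) (XT.nd (nat_lit 156) (nat_lit 0) (nat_lit 0) (XT.nd (nat_lit 78) (nat_lit 0) (nat_lit 0) (XT.lf (nat_lit 0) (nat_lit 157633649965) (nat_lit 152) (nat_lit 100978350385) (nat_lit 0) (nat_lit 127756066158) (nat_lit 2) (nat_lit 5) (nat_lit 4) (nat_lit 4) (nat_lit 2) (nat_lit 4) (nat_lit 378) (nat_lit 265) (nat_lit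 137)) (XT.lf (nat_lit 0) (nat_lit 173311030743) (nat_lit 152) (nat_lit 88475778452) (nat_lit 0) (nat_lit 143430681655) (nat_lit 2) (nat_lit 5) (nat_lit 4) (nat_lit 4) (nat_lit 2) (nat_lit 4) (nat_lit 379) (nat_lit 265) (nat_lit 136))) (XT.nd (nat_lit 78) (nat_lit 0) (nat_lit 0) (XT.lf (nat_lit 0) (nat_lit 189770610988) (nat_lit 152) (nat_lit 75351231382) (nat_lit 0) (nat_lit 159887628300) (nat_lit 2) (nat_lit 5) (nat_lit 4) (nat_lit 4) (nat_lit 2) (nat_lit 4) (nat_lit 380) (nat_lit 265) (nat_lit 135)) (XT.nd (nat_lit 78) (nat_lit 0) (nat_lit 0) (XT.lf (nat_lit 0) (nat_lit 207051580178) (nat_lit 152) (nat_lit 61573460253) (nat_lit 0) (nat_lit 177166089299) (nat_lit 2) (nat_lit 5) (nat_lit 4) (nat_lit 4) (nat_lit 2) (nat_lit 4) (nat_lit 381) (nat_lit 265) (nat_lit 134)) (XT.lf (nat_lit 0) (nat_lit 225195083478) (nat_lit 152) (nat_lit 47109660849) (nat_lit 0) (nat_lit 195307203845) (nat_lit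 2) (nat_lit 5) (nat_lit 4) (nat_lit 4) (nat_lit 2) (nat_lit 4) (nat_lit 382) (nat_lit 265) (nat_lit 133))))) (XT.nd (nat_lit 156) (nat_lit 76) (nat_lit 0) (XT.nd (nat_lit 78) (nat_lit 0) (nat_lit 0) (XT.lf (nat_lit 0) (nat_lit 244244319703) (nat_lit 152) (nat_lit 31925395551) (nat_lit 0) (nat_lit 214354165068) (nat_lit 2) (nat_lit 5) (nat_lit 4) (nat_lit 4) (nat_lit 2) (nat_lit 4) (nat_lit 383) (nat_lit 265) (nat_lit 132)) (XT.lf (nat_lit 0) (nat_lit 264244644180) (nat_lit 152) (nat_lit 15984511347) (nat_lit 0) (nat_lit 234352322875) (nat_lit 2) (nat_lit 5) (nat_lit 4) (nat_lit 4) (nat_lit 2) (nat_lit 4) (nat_lit 384) (nat_lit 265) (nat_lit 131))) (XT.nd (nat_lit 78) (nat_lit 0) (nat_lit 0) (XT.lf (nat_lit 0) (nat_lit 775775923) (nat_lit 76) (nat_lit 284480012841) (nat_lit 76) (nat_lit 254585628041) (nat_lit 1) (nat_lit 4) (nat_lit 2) (nat_lit 5) (nat_lit 2) (nat_lit 4) (nat_lit 385)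 (nat_lit 265) (nat_lit 130)) (XT.nd (nat_lit 78) (nat_lit 0) (nat_lit 0) (XT.lf (nat_lit 0) (nat_lit 18926592731) (nat_lit 76) (nat_lit 288660319466) (nat_lit 76) (nat_lit 258763969433) (nat_lit 1) (nat_lit 4) (nat_lit 2) (nat_lit 5) (nat_lit 2) (nat_lit 4) (nat_lit 386) (nat_lit 265) (nat_lit 129)) (XT.lf (nat_lit 0) (nat_lit 37982635173) (nat_lit 76) (nat_lit 293050733949) (nat_lit 76) (nat_lit 263152512265) (nat_lit 1) (nat_lit 4) (nat_lit 2) (nat_lit 5) (nat_lit 2) (nat_lit 4) (nat_lit 387) (nat_lit 265) (nat_lit 128))))))))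
noncomputable def xc125 : XT := (XT.nd (nat_lit 32604) (nat_lit 0) (nat_lit 2204) (XT.nd (nat_lit 31824) (nat_lit 0) (nat_lit 5092) (XT.nd (nat_lit 31434) (nat_lit 0) (nat_lit 7828) (XT.nd (nat_lit 31200) (nat_lit 0) (nat_lit 8284) (XT.nd (nat_lit 31122) (nat_lit 0) (nat_lit 8740) (XT.lf (nat_lit 0) (nat_lit 57989274780) (nat_lit 76) (nat_lit 297661709656) (nat_lit 76) (nat_lit 267761705448) (nat_lit 1) (nat_lit 4) (nat_lit 2) (nat_lit 5) (nat_lit 2) (nat_lit 4) (nat_lit 388) (nat_lit 265) (nat_lit 127)) (XT.lf (nat_lit 0) (nat_lit 613570005) (nat_lit 0) (nat_lit 613570005) (nat_lit 380) (nat_lit 2207551522) (nat_lit 116) (nat_lit 5) (nat_lit 116) (nat_lit 3) (nat_lit 121) (nat_lit 3) (nat_lit 266) (nat_lit 266) (nat_lit 248))) (XT.nd (nat_lit 78) (nat_lit 456) (nat_lit 0) (XT.lf (nat_lit 0) (nat_lit 4334048305) (nat_lit 380) (nat_lit 2481967380) (nat_lit 456) (nat_lit 128466059) (nat_lit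 116) (nat_lit 5) (nat_lit 121) (nat_lit 3) (nat_lit 122) (nat_lit 5) (nat_lit 267) (nat_lit 266) (nat_lit 247)) (XT.nd (nat_lit 78) (nat_lit 456) (nat_lit 0) (XT.lf (nat_lit 76) (nat_lit 775814839) (nat_lit 0) (nat_lit 5448859095) (nat_lit 456) (nat_lit 803183829) (nat_lit 117) (nat_lit 5) (nat_lit 116) (nat_lit 5) (nat_lit 122) (nat_lit 5) (nat_lit 268) (nat_lit 266) (nat_lit 246)) (XT.lf (nat_lit 0) (nat_lit 989098053) (nat_lit 456) (nat_lit 2916660689) (nat_lit 532) (nat_lit 3212636409) (nat_lit 110) (nat_lit 5) (nat_lit 116) (nat_lit 5) (nat_lit 117) (nat_lit 5) (nat_lit 269) (nat_lit 266) (nat_lit 245))))) (XT.nd (nat_lit 156) (nat_lit 456) (nat_lit 0) (XT.nd (nat_lit 78) (nat_lit 0) (nat_lit 0) (XT.lf (nat_lit 76) (nat_lit 524109849) (nat_lit 0) (nat_lit 2220432798) (nat_lit 532) (nat_lit 4473547406) (nat_lit 111) (nat_lit 5) (nat_lit 110) (nat_lit 5) (nat_lit 117) (nat_lit 5)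 (nat_lit 270) (nat_lit 266) (nat_lit 244)) (XT.lf (nat_lit 76) (nat_lit 4174238344) (nat_lit 0) (nat_lit 359401746) (nat_lit 532) (nat_lit 2792136571) (nat_lit 111) (nat_lit 5) (nat_lit 110) (nat_lit 5) (nat_lit 117) (nat_lit 5) (nat_lit 271) (nat_lit 266) (nat_lit 243))) (XT.nd (nat_lit 78) (nat_lit 532) (nat_lit 0) (XT.lf (nat_lit 76) (nat_lit 492181080) (nat_lit 0) (nat_lit 5854596342) (nat_lit 532) (nat_lit 1095627579) (nat_lit 112) (nat_lit 5) (nat_lit 111) (nat_lit 5) (nat_lit 118) (nat_lit 5) (nat_lit 272) (nat_lit 266) (nat_lit 242)) (XT.nd (nat_lit 78) (nat_lit 0) (nat_lit 0) (XT.lf (nat_lit 0) (nat_lit 627733703) (nat_lit 532) (nat_lit 3221231870) (nat_lit 608) (nat_lit 3717425213) (nat_lit 104) (nat_lit 5) (nat_lit 111) (nat_lit 5) (nat_lit 112) (nat_lit 5) (nat_lit 273) (nat_lit 266) (nat_lit 241)) (XT.lf (nat_lit 76) (nat_lit 630658553) (nat_lit 0) (nat_lit 1688044023) (nat_lit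 608) (nat_lit 5381309863) (nat_lit 105) (nat_lit 5) (nat_lit 104) (nat_lit 5) (nat_lit 112) (nat_lit 5) (nat_lit 274) (nat_lit 266) (nat_lit 240)))))) (XT.nd (nat_lit 390) (nat_lit 1596) (nat_lit 0) (XT.nd (nat_lit 156) (nat_lit 684) (nat_lit 0) (XT.nd (nat_lit 78) (nat_lit 532) (nat_lit 0) (XT.lf (nat_lit 0) (nat_lit 4070868750) (nat_lit 532) (nat_lit 3130303379) (nat_lit 76) (nat_lit 640546434) (nat_lit 105) (nat_lit 5) (nat_lit 112) (nat_lit 5) (nat_lit 106) (nat_lit 5) (nat_lit 275) (nat_lit 266) (nat_lit 239)) (XT.lf (nat_lit 0) (nat_lit 941760351) (nat_lit 532) (nat_lit 4927575041) (nat_lit 608) (nat_lit 2123464596) (nat_lit 98) (nat_lit 5) (nat_lit 105) (nat_lit 5) (nat_lit 106) (nat_lit 5) (nat_lit 276) (nat_lit 266) (nat_lit 238))) (XT.nd (nat_lit 78) (nat_lit 684) (nat_lit 0) (XT.lf (nat_lit 0) (nat_lit 5260766778) (nat_lit 532) (nat_lit 2469252439) (nat_lit 608) (nat_lit 423015480)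 (nat_lit 98) (nat_lit 5) (nat_lit 105) (nat_lit 5) (nat_lit 106) (nat_lit 5) (nat_lit 277) (nat_lit 266) (nat_lit 237)) (XT.nd (nat_lit 78) (nat_lit 0) (nat_lit 0) (XT.lf (nat_lit 0) (nat_lit 1265577828) (nat_lit 684) (nat_lit 6891821760) (nat_lit 76) (nat_lit 165675545) (nat_lit 89) (nat_lit 5) (nat_lit 98) (nat_lit 5) (nat_lit 90) (nat_lit 5) (nat_lit 278) (nat_lit 266) (nat_lit 236)) (XT.lf (nat_lit 0) (nat_lit 3039229418) (nat_lit 684) (nat_lit 2544130299) (nat_lit 76) (nat_lit 2917353683) (nat_lit 89) (nat_lit 5) (nat_lit 98) (nat_lit 5) (nat_lit 90) (nat_lit 5) (nat_lit 279) (nat_lit 266) (nat_lit 235))))) (XT.nd (nat_lit 156) (nat_lit 912) (nat_lit 0) (XT.nd (nat_lit 78) (nat_lit 0) (nat_lit 0) (XT.lf (nat_lit 0) (nat_lit 2020757512) (nat_lit 684) (nat_lit 2840527404) (nat_lit 760) (nat_lit 3828138579) (nat_lit 80) (nat_lit 5) (nat_lit 89) (nat_lit 5) (nat_lit 90) (nat_lit 5)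 (nat_lit 280) (nat_lit 266) (nat_lit 234)) (XT.lf (nat_lit 0) (nat_lit 6749534321) (nat_lit 760) (nat_lit 2052064716) (nat_lit 76) (nat_lit 87383104) (nat_lit 80) (nat_lit 5) (nat_lit 90) (nat_lit 5) (nat_lit 81) (nat_lit 5) (nat_lit 281) (nat_lit 266) (nat_lit 233))) (XT.nd (nat_lit 78) (nat_lit 456) (nat_lit 0) (XT.lf (nat_lit 0) (nat_lit 2773233874) (nat_lit 456) (nat_lit 5982809965) (nat_lit 532) (nat_lit 341442118) (nat_lit 74) (nat_lit 5) (nat_lit 80) (nat_lit 5) (nat_lit 81) (nat_lit 5) (nat_lit 282) (nat_lit 266) (nat_lit 232)) (XT.nd (nat_lit 78) (nat_lit 380) (nat_lit 0) (XT.lf (nat_lit 0) (nat_lit 1467234910) (nat_lit 532) (nat_lit 1493937001) (nat_lit 76) (nat_lit 6355667225) (nat_lit 73) (nat_lit 5) (nat_lit 80) (nat_lit 5) (nat_lit 74) (nat_lit 5) (nat_lit 283) (nat_lit 266) (nat_lit 231)) (XT.lf (nat_lit 0) (nat_lit 3353839049) (nat_lit 456) (nat_lit 5925715348) (nat_lit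 76) (nat_lit 267515194) (nat_lit 68) (nat_lit 5) (nat_lit 74) (nat_lit 5) (nat_lit 69) (nat_lit 5) (nat_lit 284) (nat_lit 266) (nat_lit 230))))))) (XT.nd (nat_lit 780) (nat_lit 1368) (nat_lit 0) (XT.nd (nat_lit 390) (nat_lit 608) (nat_lit 0) (XT.nd (nat_lit 156) (nat_lit 608) (nat_lit 0) (XT.nd (nat_lit 78) (nat_lit 304) (nat_lit 0) (XT.lf (nat_lit 0) (nat_lit 5349043074) (nat_lit 456) (nat_lit 856790493) (nat_lit 76) (nat_lit 3582395838) (nat_lit 68) (nat_lit 5) (nat_lit 74) (nat_lit 5) (nat_lit 69) (nat_lit 5) (nat_lit 285) (nat_lit 266) (nat_lit 229)) (XT.lf (nat_lit 0) (nat_lit 4549712625) (nat_lit 304) (nat_lit 2908195649) (nat_lit 380) (nat_lit 2582968954) (nat_lit 64) (nat_lit 5) (nat_lit 68) (nat_lit 5) (nat_lit 69) (nat_lit 5) (nat_lit 286) (nat_lit 266) (nat_lit 228))) (XT.nd (nat_lit 78) (nat_lit 608) (nat_lit 0) (XT.lf (nat_lit 0) (nat_lit 9640182403) (nat_lit 380) (nat_lit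 121339811) (nat_lit 76) (nat_lit 546356055) (nat_lit 64) (nat_lit 5) (nat_lit 69) (nat_lit 5) (nat_lit 65) (nat_lit 5) (nat_lit 287) (nat_lit 266) (nat_lit 227)) (XT.nd (nat_lit 78) (nat_lit 228) (nat_lit 0) (XT.lf (nat_lit 0) (nat_lit 1383702427) (nat_lit 380) (nat_lit 5018695072) (nat_lit 76) (nat_lit 4180723392) (nat_lit 59) (nat_lit 5) (nat_lit 64) (nat_lit 5) (nat_lit 60) (nat_lit 5) (nat_lit 288) (nat_lit 266) (nat_lit 226)) (XT.lf (nat_lit 0) (nat_lit 614205655) (nat_lit 228) (nat_lit 2860551060) (nat_lit 304) (nat_lit 7398948279) (nat_lit 56) (nat_lit 5) (nat_lit 59) (nat_lit 5) (nat_lit 60) (nat_lit 5) (nat_lit 289) (nat_lit 266) (nat_lit 225))))) (XT.nd (nat_lit 156) (nat_lit 304) (nat_lit 0) (XT.nd (nat_lit 78) (nat_lit 304) (nat_lit 0) (XT.lf (nat_lit 0) (nat_lit 5719395061) (nat_lit 304) (nat_lit 4549010515) (nat_lit 76) (nat_lit 908059152) (nat_lit 56) (nat_lit 5) (nat_lit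 60) (nat_lit 5) (nat_lit 57) (nat_lit 5) (nat_lit 290) (nat_lit 266) (nat_lit 224)) (XT.lf (nat_lit 0) (nat_lit 1384776725) (nat_lit 304) (nat_lit 6711662295) (nat_lit 380) (nat_lit 3397008069) (nat_lit 52) (nat_lit 5) (nat_lit 56) (nat_lit 5) (nat_lit 57) (nat_lit 5) (nat_lit 291) (nat_lit 266) (nat_lit 223))) (XT.nd (nat_lit 78) (nat_lit 304) (nat_lit 0) (XT.lf (nat_lit 0) (nat_lit 7714493602) (nat_lit 304) (nat_lit 2907926055) (nat_lit 380) (nat_lit 1202443571) (nat_lit 52) (nat_lit 5) (nat_lit 56) (nat_lit 5) (nat_lit 57) (nat_lit 5) (nat_lit 292) (nat_lit 266) (nat_lit 222)) (XT.nd (nat_lit 78) (nat_lit 0) (nat_lit 0) (XT.lf (nat_lit 0) (nat_lit 1072741707) (nat_lit 304) (nat_lit 10007221512) (nat_lit 76) (nat_lit 1091799496) (nat_lit 48) (nat_lit 5) (nat_lit 52) (nat_lit 5) (nat_lit 49) (nat_lit 5) (nat_lit 293) (nat_lit 266) (nat_lit 221)) (XT.lf (nat_lit 0) (nat_lit 3495258324)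 (nat_lit 304) (nat_lit 3763802998) (nat_lit 76) (nat_lit 5272337923) (nat_lit 48) (nat_lit 5) (nat_lit 52) (nat_lit 5) (nat_lit 49) (nat_lit 5) (nat_lit 294) (nat_lit 266) (nat_lit 220)))))) (XT.nd (nat_lit 390) (nat_lit 608) (nat_lit 0) (XT.nd (nat_lit 156) (nat_lit 532) (nat_lit 0) (XT.nd (nat_lit 78) (nat_lit 0) (nat_lit 0) (XT.lf (nat_lit 0) (nat_lit 2826389087) (nat_lit 228) (nat_lit 3214314661) (nat_lit 304) (nat_lit 6868296826) (nat_lit 45) (nat_lit 5) (nat_lit 48) (nat_lit 5) (nat_lit 49) (nat_lit 5) (nat_lit 295) (nat_lit 266) (nat_lit 219)) (XT.lf (nat_lit 0) (nat_lit 8752948301) (nat_lit 304) (nat_lit 3499572369) (nat_lit 76) (nat_lit 1051054600) (nat_lit 45) (nat_lit 5) (nat_lit 49) (nat_lit 5) (nat_lit 46) (nat_lit 5) (nat_lit 296) (nat_lit 266) (nat_lit 218))) (XT.nd (nat_lit 78) (nat_lit 304) (nat_lit 0) (XT.lf (nat_lit 0) (nat_lit 3415065399) (nat_lit 228) (nat_lit 8252339936)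 (nat_lit 304) (nat_lit 2047209679) (nat_lit 42) (nat_lit 5) (nat_lit 45) (nat_lit 5) (nat_lit 46) (nat_lit 5) (nat_lit 297) (nat_lit 266) (nat_lit 217)) (XT.nd (nat_lit 78) (nat_lit 228) (nat_lit 0) (XT.lf (nat_lit 0) (nat_lit 583951756) (nat_lit 304) (nat_lit 3411000652) (nat_lit 76) (nat_lit 10149801597) (nat_lit 41) (nat_lit 5) (nat_lit 45) (nat_lit 5) (nat_lit 42) (nat_lit 5) (nat_lit 298) (nat_lit 266) (nat_lit 216)) (XT.lf (nat_lit 0) (nat_lit 3309665319) (nat_lit 304) (nat_lit 10742435773) (nat_lit 76) (nat_lit 541088422) (nat_lit 38) (nat_lit 5) (nat_lit 42) (nat_lit 5) (nat_lit 39) (nat_lit 5) (nat_lit 299) (nat_lit 266) (nat_lit 215))))) (XT.nd (nat_lit 234) (nat_lit 456) (nat_lit 0) (XT.nd (nat_lit 78) (nat_lit 152) (nat_lit 0) (XT.lf (nat_lit 0) (nat_lit 6259410050) (nat_lit 304) (nat_lit 3586410173) (nat_lit 76) (nat_lit 5213893866) (nat_lit 38) (nat_lit 5) (nat_lit 42)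 (nat_lit 5) (nat_lit 39) (nat_lit 5) (nat_lit 300) (nat_lit 266) (nat_lit 214)) (XT.nd (nat_lit 78) (nat_lit 0) (nat_lit 0) (XT.lf (nat_lit 0) (nat_lit 4005295171) (nat_lit 152) (nat_lit 5379157417) (nat_lit 228) (nat_lit 6163773745) (nat_lit 36) (nat_lit 5) (nat_lit 38) (nat_lit 5) (nat_lit 39) (nat_lit 5) (nat_lit 301) (nat_lit 266) (nat_lit 213)) (XT.lf (nat_lit 0) (nat_lit 12051593400) (nat_lit 152) (nat_lit 641048721) (nat_lit 228) (nat_lit 3367226817) (nat_lit 36) (nat_lit 5) (nat_lit 38) (nat_lit 5) (nat_lit 39) (nat_lit 5) (nat_lit 302) (nat_lit 266) (nat_lit 212)))) (XT.nd (nat_lit 78) (nat_lit 228) (nat_lit 0) (XT.lf (nat_lit 0) (nat_lit 3912085789) (nat_lit 228) (nat_lit 12350435265) (nat_lit 304) (nat_lit 329805760) (nat_lit 33) (nat_lit 5) (nat_lit 36) (nat_lit 5) (nat_lit 37) (nat_lit 5) (nat_lit 303) (nat_lit 266) (nat_lit 211)) (XT.nd (nat_lit 78) (nat_lit 152) (nat_lit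 0) (XT.lf (nat_lit 0) (nat_lit 2815242023) (nat_lit 304) (nat_lit 4885554224) (nat_lit 76) (nat_lit 9446058007) (nat_lit 32) (nat_lit 5) (nat_lit 36) (nat_lit 5) (nat_lit 33) (nat_lit 5) (nat_lit 304) (nat_lit 266) (nat_lit 210)) (XT.lf (nat_lit 0) (nat_lit 3354247819) (nat_lit 152) (nat_lit 2773887751) (nat_lit 228) (nat_lit 11599659030) (nat_lit 30) (nat_lit 5) (nat_lit 32) (nat_lit 5) (nat_lit 33) (nat_lit 5) (nat_lit 305) (nat_lit 266) (nat_lit 209))))))))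
noncomputable def xc126 : XT := (XT.nd (nat_lit 1560) (nat_lit 532) (nat_lit 0) (XT.nd (nat_lit 780) (nat_lit 532) (nat_lit 0) (XT.nd (nat_lit 390) (nat_lit 304) (nat_lit 0) (XT.nd (nat_lit 156) (nat_lit 228) (nat_lit 0) (XT.nd (nat_lit 78) (nat_lit 152) (nat_lit 0) (XT.lf (nat_lit 0) (nat_lit 9698036408) (nat_lit 228) (nat_lit 6243913315) (nat_lit 76) (nat_lit 2391302889) (nat_lit 30) (nat_lit 5) (nat_lit 33) (nat_lit 5) (nat_lit 31) (nat_lit 5) (nat_lit 306) (nat_lit 266) (nat_lit 208)) (XT.lf (nat_lit 0) (nat_lit 2274668542) (nat_lit 152) (nat_lit 11223995242) (nat_lit 228) (nat_lit 5467745099) (nat_lit 28) (nat_lit 5) (nat_lit 30) (nat_lit 5) (nat_lit 31) (nat_lit 5) (nat_lit 307) (nat_lit 266) (nat_lit 207))) (XT.nd (nat_lit 78) (nat_lit 228) (nat_lit 0) (XT.lf (nat_lit 0) (nat_lit 11391814354) (nat_lit 152) (nat_lit 6175176035) (nat_lit 228) (nat_lit 2060384359) (nat_lit 28) (nat_lit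 5) (nat_lit 30) (nat_lit 5) (nat_lit 31) (nat_lit 5) (nat_lit 308) (nat_lit 266) (nat_lit 206)) (XT.nd (nat_lit 78) (nat_lit 0) (nat_lit 0) (XT.lf (nat_lit 0) (nat_lit 595839747) (nat_lit 152) (nat_lit 855033242) (nat_lit 228) (nat_lit 18870258667) (nat_lit 25) (nat_lit 5) (nat_lit 27) (nat_lit 5) (nat_lit 28) (nat_lit 5) (nat_lit 309) (nat_lit 266) (nat_lit 205)) (XT.lf (nat_lit 0) (nat_lit 5257257250) (nat_lit 228) (nat_lit 11041192291) (nat_lit 76) (nat_lit 4740028090) (nat_lit 25) (nat_lit 5) (nat_lit 28) (nat_lit 5) (nat_lit 26) (nat_lit 5) (nat_lit 310) (nat_lit 266) (nat_lit 204))))) (XT.nd (nat_lit 156) (nat_lit 152) (nat_lit 0) (XT.nd (nat_lit 78) (nat_lit 152) (nat_lit 0) (XT.lf (nat_lit 0) (nat_lit 9242435595) (nat_lit 228) (nat_lit 1978228697) (nat_lit 76) (nat_lit 10571631807) (nat_lit 25) (nat_lit 5) (nat_lit 28) (nat_lit 5) (nat_lit 26) (nat_lit 5) (nat_lit 311) (nat_lit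 266) (nat_lit 203)) (XT.lf (nat_lit 0) (nat_lit 7746461983) (nat_lit 152) (nat_lit 5777029077) (nat_lit 228) (nat_lit 9055511080) (nat_lit 23) (nat_lit 5) (nat_lit 25) (nat_lit 5) (nat_lit 26) (nat_lit 5) (nat_lit 312) (nat_lit 266) (nat_lit 202))) (XT.nd (nat_lit 78) (nat_lit 152) (nat_lit 0) (XT.lf (nat_lit 0) (nat_lit 17987345357) (nat_lit 152) (nat_lit 40984245) (nat_lit 228) (nat_lit 5376253614) (nat_lit 23) (nat_lit 5) (nat_lit 25) (nat_lit 5) (nat_lit 26) (nat_lit 5) (nat_lit 313) (nat_lit 266) (nat_lit 201)) (XT.nd (nat_lit 78) (nat_lit 76) (nat_lit 0) (XT.lf (nat_lit 0) (nat_lit 4481045035) (nat_lit 76) (nat_lit 18417858101) (nat_lit 152) (nat_lit 1365540553) (nat_lit 22) (nat_lit 5) (nat_lit 23) (nat_lit 5) (nat_lit 24) (nat_lit 4) (nat_lit 314) (nat_lit 266) (nat_lit 200)) (XT.lf (nat_lit 0) (nat_lit 2825803221) (nat_lit 152) (nat_lit 10184976129) (nat_lit 76) (nat_lit 12150760260)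 (nat_lit 21) (nat_lit 5) (nat_lit 23) (nat_lit 5) (nat_lit 22) (nat_lit 5) (nat_lit 315) (nat_lit 266) (nat_lit 199)))))) (XT.nd (nat_lit 390) (nat_lit 304) (nat_lit 0) (XT.nd (nat_lit 156) (nat_lit 76) (nat_lit 0) (XT.nd (nat_lit 78) (nat_lit 152) (nat_lit 0) (XT.lf (nat_lit 0) (nat_lit 7159162196) (nat_lit 152) (nat_lit 165187069) (nat_lit 76) (nat_lit 18779126404) (nat_lit 21) (nat_lit 5) (nat_lit 23) (nat_lit 5) (nat_lit 22) (nat_lit 5) (nat_lit 316) (nat_lit 266) (nat_lit 198)) (XT.lf (nat_lit 0) (nat_lit 10662408748) (nat_lit 152) (nat_lit 1192621052) (nat_lit 228) (nat_lit 15230207262) (nat_lit 19) (nat_lit 5) (nat_lit 21) (nat_lit 5) (nat_lit 22) (nat_lit 5) (nat_lit 317) (nat_lit 266) (nat_lit 197))) (XT.nd (nat_lit 78) (nat_lit 76) (nat_lit 0) (XT.lf (nat_lit 0) (nat_lit 16850043844) (nat_lit 228) (nat_lit 6195478259) (nat_lit 76) (nat_lit 5067366356) (nat_lit 19) (nat_lit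 5) (nat_lit 22) (nat_lit 5) (nat_lit 20) (nat_lit 4) (nat_lit 318) (nat_lit 266) (nat_lit 196)) (XT.nd (nat_lit 78) (nat_lit 0) (nat_lit 0) (XT.lf (nat_lit 0) (nat_lit 4639116403) (nat_lit 76) (nat_lit 17528253623) (nat_lit 152) (nat_lit 7020942980) (nat_lit 18) (nat_lit 5) (nat_lit 19) (nat_lit 5) (nat_lit 20) (nat_lit 4) (nat_lit 319) (nat_lit 266) (nat_lit 195)) (XT.lf (nat_lit 0) (nat_lit 16198014492) (nat_lit 76) (nat_lit 11638469125) (nat_lit 152) (nat_lit 2476746875) (nat_lit 18) (nat_lit 5) (nat_lit 19) (nat_lit 5) (nat_lit 20) (nat_lit 4) (nat_lit 320) (nat_lit 266) (nat_lit 194))))) (XT.nd (nat_lit 156) (nat_lit 76) (nat_lit 0) (XT.nd (nat_lit 78) (nat_lit 152) (nat_lit 0) (XT.lf (nat_lit 0) (nat_lit 2202805107) (nat_lit 152) (nat_lit 3226958058) (nat_lit 76) (nat_lit 26063776023) (nat_lit 17) (nat_lit 5) (nat_lit 19) (nat_lit 5) (nat_lit 18) (nat_lit 5) (nat_lit 321) (nat_lit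 266) (nat_lit 193)) (XT.lf (nat_lit 0) (nat_lit 7166404713) (nat_lit 228) (nat_lit 24340793753) (nat_lit 76) (nat_lit 1216984831) (nat_lit 15) (nat_lit 5) (nat_lit 18) (nat_lit 5) (nat_lit 16) (nat_lit 4) (nat_lit 322) (nat_lit 266) (nat_lit 192))) (XT.nd (nat_lit 78) (nat_lit 76) (nat_lit 0) (XT.lf (nat_lit 0) (nat_lit 12505387411) (nat_lit 228) (nat_lit 13447532409) (nat_lit 76) (nat_lit 8057094250) (nat_lit 15) (nat_lit 5) (nat_lit 18) (nat_lit 5) (nat_lit 16) (nat_lit 4) (nat_lit 323) (nat_lit 266) (nat_lit 191)) (XT.nd (nat_lit 78) (nat_lit 76) (nat_lit 0) (XT.lf (nat_lit 0) (nat_lit 18094790294) (nat_lit 228) (nat_lit 2038450011) (nat_lit 76) (nat_lit 15227736444) (nat_lit 15) (nat_lit 5) (nat_lit 18) (nat_lit 5) (nat_lit 16) (nat_lit 4) (nat_lit 324) (nat_lit 266) (nat_lit 190)) (XT.lf (nat_lit 0) (nat_lit 10241406902) (nat_lit 76) (nat_lit 13866411624) (nat_lit 152) (nat_lit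 12664474532) (nat_lit 14) (nat_lit 5) (nat_lit 15) (nat_lit 5) (nat_lit 16) (nat_lit 4) (nat_lit 325) (nat_lit 266) (nat_lit 189))))))) (XT.nd (nat_lit 780) (nat_lit 228) (nat_lit 0) (XT.nd (nat_lit 390) (nat_lit 152) (nat_lit 0) (XT.nd (nat_lit 156) (nat_lit 152) (nat_lit 0) (XT.nd (nat_lit 78) (nat_lit 0) (nat_lit 0) (XT.lf (nat_lit 0) (nat_lit 23179001502) (nat_lit 76) (nat_lit 7261604618) (nat_lit 152) (nat_lit 7812626293) (nat_lit 14) (nat_lit 5) (nat_lit 15) (nat_lit 5) (nat_lit 16) (nat_lit 4) (nat_lit 326) (nat_lit 266) (nat_lit 188)) (XT.lf (nat_lit 0) (nat_lit 36737737219) (nat_lit 76) (nat_lit 337615692) (nat_lit 152) (nat_lit 2733611855) (nat_lit 14) (nat_lit 5) (nat_lit 15) (nat_lit 5) (nat_lit 16) (nat_lit 4) (nat_lit 327) (nat_lit 266) (nat_lit 187))) (XT.nd (nat_lit 78) (nat_lit 0) (nat_lit 0) (XT.lf (nat_lit 0) (nat_lit 2765856395) (nat_lit 152) (nat_lit 31765430459)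 (nat_lit 76) (nat_lit 6896693699) (nat_lit 12) (nat_lit 5) (nat_lit 14) (nat_lit 5) (nat_lit 13) (nat_lit 4) (nat_lit 328) (nat_lit 266) (nat_lit 186)) (XT.nd (nat_lit 78) (nat_lit 0) (nat_lit 0) (XT.lf (nat_lit 0) (nat_lit 8492736243) (nat_lit 152) (nat_lit 20062035728) (nat_lit 76) (nat_lit 14568729607) (nat_lit 12) (nat_lit 5) (nat_lit 14) (nat_lit 5) (nat_lit 13) (nat_lit 4) (nat_lit 329) (nat_lit 266) (nat_lit 185)) (XT.lf (nat_lit 0) (nat_lit 14492536646) (nat_lit 152) (nat_lit 7797405813) (nat_lit 76) (nat_lit 22614537259) (nat_lit 12) (nat_lit 5) (nat_lit 14) (nat_lit 5) (nat_lit 13) (nat_lit 4) (nat_lit 330) (nat_lit 266) (nat_lit 184))))) (XT.nd (nat_lit 156) (nat_lit 76) (nat_lit 0) (XT.nd (nat_lit 78) (nat_lit 0) (nat_lit 0) (XT.lf (nat_lit 0) (nat_lit 5224889892) (nat_lit 76) (nat_lit 15636228124) (nat_lit 152) (nat_lit 25909958622) (nat_lit 11) (nat_lit 5) (nat_lit 12)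 (nat_lit 5) (nat_lit 13) (nat_lit 4) (nat_lit 331) (nat_lit 266) (nat_lit 183)) (XT.lf (nat_lit 0) (nat_lit 19146581553) (nat_lit 76) (nat_lit 8521074140) (nat_lit 152) (nat_lit 21057380323) (nat_lit 11) (nat_lit 5) (nat_lit 12) (nat_lit 5) (nat_lit 13) (nat_lit 4) (nat_lit 332) (nat_lit 266) (nat_lit 182))) (XT.nd (nat_lit 78) (nat_lit 76) (nat_lit 0) (XT.lf (nat_lit 0) (nat_lit 33742998603) (nat_lit 76) (nat_lit 1059592505) (nat_lit 152) (nat_lit 15974707257) (nat_lit 11) (nat_lit 5) (nat_lit 12) (nat_lit 5) (nat_lit 13) (nat_lit 4) (nat_lit 333) (nat_lit 266) (nat_lit 181)) (XT.nd (nat_lit 78) (nat_lit 76) (nat_lit 0) (XT.lf (nat_lit 0) (nat_lit 42388548145) (nat_lit 152) (nat_lit 3989491553) (nat_lit 0) (nat_lit 6549428529) (nat_lit 11) (nat_lit 5) (nat_lit 13) (nat_lit 4) (nat_lit 11) (nat_lit 4) (nat_lit 334) (nat_lit 266) (nat_lit 180)) (XT.lf (nat_lit 0) (nat_lit 9990145098)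 (nat_lit 76) (nat_lit 40526048838) (nat_lit 76) (nat_lit 4660840852) (nat_lit 10) (nat_lit 4) (nat_lit 11) (nat_lit 5) (nat_lit 11) (nat_lit 4) (nat_lit 335) (nat_lit 266) (nat_lit 179)))))) (XT.nd (nat_lit 390) (nat_lit 76) (nat_lit 0) (XT.nd (nat_lit 156) (nat_lit 76) (nat_lit 0) (XT.nd (nat_lit 78) (nat_lit 0) (nat_lit 0) (XT.lf (nat_lit 0) (nat_lit 1520528776) (nat_lit 152) (nat_lit 32772970059) (nat_lit 76) (nat_lit 23241520593) (nat_lit 9) (nat_lit 5) (nat_lit 11) (nat_lit 5) (nat_lit 10) (nat_lit 4) (nat_lit 336) (nat_lit 266) (nat_lit 178)) (XT.lf (nat_lit 0) (nat_lit 7843932886) (nat_lit 152) (nat_lit 19833654556) (nat_lit 76) (nat_lit 32330022152) (nat_lit 9) (nat_lit 5) (nat_lit 11) (nat_lit 5) (nat_lit 10) (nat_lit 4) (nat_lit 337) (nat_lit 266) (nat_lit 177))) (XT.nd (nat_lit 78) (nat_lit 76) (nat_lit 0) (XT.lf (nat_lit 0) (nat_lit 14473603213) (nat_lit 152) (nat_lit 6265366499)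 (nat_lit 76) (nat_lit 41865361131) (nat_lit 9) (nat_lit 5) (nat_lit 11) (nat_lit 5) (nat_lit 10) (nat_lit 4) (nat_lit 338) (nat_lit 266) (nat_lit 176)) (XT.nd (nat_lit 78) (nat_lit 0) (nat_lit 0) (XT.lf (nat_lit 0) (nat_lit 8227531962) (nat_lit 76) (nat_lit 13326247557) (nat_lit 152) (nat_lit 43771163585) (nat_lit 8) (nat_lit 5) (nat_lit 9) (nat_lit 5) (nat_lit 10) (nat_lit 4) (nat_lit 339) (nat_lit 266) (nat_lit 175)) (XT.lf (nat_lit 0) (nat_lit 23645734717) (nat_lit 76) (nat_lit 5439090498) (nat_lit 152) (nat_lit 39091923521) (nat_lit 8) (nat_lit 5) (nat_lit 9) (nat_lit 5) (nat_lit 10) (nat_lit 4) (nat_lit 340) (nat_lit 266) (nat_lit 174))))) (XT.nd (nat_lit 234) (nat_lit 76) (nat_lit 0) (XT.nd (nat_lit 78) (nat_lit 0) (nat_lit 0) (XT.lf (nat_lit 0) (nat_lit 37027882063) (nat_lit 152) (nat_lit 31397065006) (nat_lit 0) (nat_lit 2744430142) (nat_lit 8) (nat_lit 5) (nat_lit 10) (nat_lit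 4) (nat_lit 8) (nat_lit 4) (nat_lit 341) (nat_lit 266) (nat_lit 173)) (XT.nd (nat_lit 78) (nat_lit 0) (nat_lit 0) (XT.lf (nat_lit 0) (nat_lit 45448762560) (nat_lit 152) (nat_lit 17711193254) (nat_lit 0) (nat_lit 11147653004) (nat_lit 8) (nat_lit 5) (nat_lit 10) (nat_lit 4) (nat_lit 8) (nat_lit 4) (nat_lit 342) (nat_lit 266) (nat_lit 172)) (XT.lf (nat_lit 0) (nat_lit 54282596976) (nat_lit 152) (nat_lit 3355893906) (nat_lit 0) (nat_lit 19964670623) (nat_lit 8) (nat_lit 5) (nat_lit 10) (nat_lit 4) (nat_lit 8) (nat_lit 4) (nat_lit 343) (nat_lit 266) (nat_lit 171)))) (XT.nd (nat_lit 78) (nat_lit 0) (nat_lit 0) (XT.lf (nat_lit 0) (nat_lit 12089966758) (nat_lit 76) (nat_lit 51649209753) (nat_lit 76) (nat_lit 17315267405) (nat_lit 7) (nat_lit 4) (nat_lit 8) (nat_lit 5) (nat_lit 8) (nat_lit 4) (nat_lit 344) (nat_lit 266) (nat_lit 170)) (XT.nd (nat_lit 78) (nat_lit 0) (nat_lit 0) (XT.lf (nat_lit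 0) (nat_lit 28410699784) (nat_lit 76) (nat_lit 45307163481) (nat_lit 76) (nat_lit 10957967803) (nat_lit 7) (nat_lit 4) (nat_lit 8) (nat_lit 5) (nat_lit 8) (nat_lit 4) (nat_lit 345) (nat_lit 266) (nat_lit 169)) (XT.lf (nat_lit 0) (nat_lit 45534203049) (nat_lit 76) (nat_lit 38654085643) (nat_lit 76) (nat_lit 4290362984) (nat_lit 7) (nat_lit 4) (nat_lit 8) (nat_lit 5) (nat_lit 8) (nat_lit 4) (nat_lit 346) (nat_lit 266) (nat_lit 168))))))))
noncomputable def xc127 : XT := (XT.nd (nat_lit 1560) (nat_lit 152) (nat_lit 0) (XT.nd (nat_lit 780) (nat_lit 152) (nat_lit 0) (XT.nd (nat_lit 390) (nat_lit 0) (nat_lit 0) (XT.nd (nat_lit 156) (nat_lit 76) (nat_lit 0) (XT.nd (nat_lit 78) (nat_lit 0) (nat_lit 0) (XT.lf (nat_lit 0) (nat_lit 2616895904) (nat_lit 152) (nat_lit 29012921274) (nat_lit 76) (nat_lit 60840032498) (nat_lit 6) (nat_lit 5) (nat_lit 8) (nat_lit 5) (nat_lit 7) (nat_lit 4) (nat_lit 347)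 (nat_lit 266) (nat_lit 167)) (XT.lf (nat_lit 0) (nat_lit 9718695943) (nat_lit 152) (nat_lit 14467407593) (nat_lit 76) (nat_lit 72471322950) (nat_lit 6) (nat_lit 5) (nat_lit 8) (nat_lit 5) (nat_lit 7) (nat_lit 4) (nat_lit 348) (nat_lit 266) (nat_lit 166))) (XT.nd (nat_lit 78) (nat_lit 0) (nat_lit 0) (XT.lf (nat_lit 0) (nat_lit 819952793) (nat_lit 76) (nat_lit 16362113559) (nat_lit 152) (nat_lit 83871995317) (nat_lit 5) (nat_lit 5) (nat_lit 6) (nat_lit 5) (nat_lit 7) (nat_lit 4) (nat_lit 349) (nat_lit 266) (nat_lit 165)) (XT.nd (nat_lit 78) (nat_lit 0) (nat_lit 0) (XT.lf (nat_lit 0) (nat_lit 17362472599) (nat_lit 76) (nat_lit 7894945552) (nat_lit 152) (nat_lit 80401173198) (nat_lit 5) (nat_lit 5) (nat_lit 6) (nat_lit 5) (nat_lit 7) (nat_lit 4) (nat_lit 350) (nat_lit 266) (nat_lit 164)) (XT.lf (nat_lit 0) (nat_lit 33746098315) (nat_lit 152) (nat_lit 75787930239) (nat_lit 0) (nat_lit 958844142)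 (nat_lit 5) (nat_lit 5) (nat_lit 7) (nat_lit 4) (nat_lit 5) (nat_lit 4) (nat_lit 351) (nat_lit 266) (nat_lit 163))))) (XT.nd (nat_lit 156) (nat_lit 0) (nat_lit 0) (XT.nd (nat_lit 78) (nat_lit 0) (nat_lit 0) (XT.lf (nat_lit 0) (nat_lit 42782939696) (nat_lit 152) (nat_lit 62794383652) (nat_lit 0) (nat_lit 9985361469) (nat_lit 5) (nat_lit 5) (nat_lit 7) (nat_lit 4) (nat_lit 5) (nat_lit 4) (nat_lit 352) (nat_lit 266) (nat_lit 162)) (XT.lf (nat_lit 0) (nat_lit 52266196357) (nat_lit 152) (nat_lit 49161279748) (nat_lit 0) (nat_lit 19458785698) (nat_lit 5) (nat_lit 5) (nat_lit 7) (nat_lit 4) (nat_lit 5) (nat_lit 4) (nat_lit 353) (nat_lit 266) (nat_lit 161))) (XT.nd (nat_lit 78) (nat_lit 0) (nat_lit 0) (XT.lf (nat_lit 0) (nat_lit 62218447482) (nat_lit 152) (nat_lit 34856158756) (nat_lit 0) (nat_lit 29401672602) (nat_lit 5) (nat_lit 5) (nat_lit 7) (nat_lit 4) (nat_lit 5) (nat_lit 4) (nat_lit 354)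 (nat_lit 266) (nat_lit 160)) (XT.nd (nat_lit 78) (nat_lit 0) (nat_lit 0) (XT.lf (nat_lit 0) (nat_lit 72663388907) (nat_lit 152) (nat_lit 19844960865) (nat_lit 0) (nat_lit 39837695720) (nat_lit 5) (nat_lit 5) (nat_lit 7) (nat_lit 4) (nat_lit 5) (nat_lit 4) (nat_lit 355) (nat_lit 266) (nat_lit 159)) (XT.lf (nat_lit 0) (nat_lit 83625889538) (nat_lit 152) (nat_lit 4091945126) (nat_lit 0) (nat_lit 50791702728) (nat_lit 5) (nat_lit 5) (nat_lit 7) (nat_lit 4) (nat_lit 5) (nat_lit 4) (nat_lit 356) (nat_lit 266) (nat_lit 158)))))) (XT.nd (nat_lit 390) (nat_lit 76) (nat_lit 0) (XT.nd (nat_lit 156) (nat_lit 0) (nat_lit 0) (XT.nd (nat_lit 78) (nat_lit 0) (nat_lit 0) (XT.lf (nat_lit 0) (nat_lit 12851731301) (nat_lit 76) (nat_lit 82480970811) (nat_lit 76) (nat_lit 49638694834) (nat_lit 4) (nat_lit 4) (nat_lit 5) (nat_lit 5) (nat_lit 5) (nat_lit 4) (nat_lit 357) (nat_lit 266) (nat_lit 157)) (XT.lf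 (nat_lit 0) (nat_lit 30776463173) (nat_lit 76) (nat_lit 76913311290) (nat_lit 76) (nat_lit 44063331346) (nat_lit 4) (nat_lit 4) (nat_lit 5) (nat_lit 5) (nat_lit 5) (nat_lit 4) (nat_lit 358) (nat_lit 266) (nat_lit 156))) (XT.nd (nat_lit 78) (nat_lit 0) (nat_lit 0) (XT.lf (nat_lit 0) (nat_lit 49589630235) (nat_lit 76) (nat_lit 71070898842) (nat_lit 76) (nat_lit 38213581785) (nat_lit 4) (nat_lit 4) (nat_lit 5) (nat_lit 5) (nat_lit 5) (nat_lit 4) (nat_lit 359) (nat_lit 266) (nat_lit 155)) (XT.nd (nat_lit 78) (nat_lit 0) (nat_lit 0) (XT.lf (nat_lit 0) (nat_lit 69336025743) (nat_lit 76) (nat_lit 64939822960) (nat_lit 76) (nat_lit 32075518177) (nat_lit 4) (nat_lit 4) (nat_lit 5) (nat_lit 5) (nat_lit 5) (nat_lit 4) (nat_lit 360) (nat_lit 266) (nat_lit 154)) (XT.lf (nat_lit 0) (nat_lit 90062664925) (nat_lit 76) (nat_lit 58505485845) (nat_lit 76) (nat_lit 25634526084) (nat_lit 4) (nat_lit 4) (nat_lit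 5) (nat_lit 5) (nat_lit 5) (nat_lit 4) (nat_lit 361) (nat_lit 266) (nat_lit 153))))) (XT.nd (nat_lit 156) (nat_lit 76) (nat_lit 0) (XT.nd (nat_lit 78) (nat_lit 0) (nat_lit 0) (XT.lf (nat_lit 0) (nat_lit 111818896920) (nat_lit 76) (nat_lit 51752567645) (nat_lit 76) (nat_lit 18875269812) (nat_lit 4) (nat_lit 4) (nat_lit 5) (nat_lit 5) (nat_lit 5) (nat_lit 4) (nat_lit 362) (nat_lit 266) (nat_lit 152)) (XT.lf (nat_lit 0) (nat_lit 134656522281) (nat_lit 76) (nat_lit 44664989986) (nat_lit 76) (nat_lit 11781655892) (nat_lit 4) (nat_lit 4) (nat_lit 5) (nat_lit 5) (nat_lit 5) (nat_lit 4) (nat_lit 363) (nat_lit 266) (nat_lit 151))) (XT.nd (nat_lit 78) (nat_lit 76) (nat_lit 0) (XT.lf (nat_lit 0) (nat_lit 158629916308) (nat_lit 76) (nat_lit 37225877682) (nat_lit 76) (nat_lit 4336794768) (nat_lit 4) (nat_lit 4) (nat_lit 5) (nat_lit 5) (nat_lit 5) (nat_lit 4) (nat_lit 364) (nat_lit 266) (nat_lit 150))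 (XT.nd (nat_lit 78) (nat_lit 0) (nat_lit 0) (XT.lf (nat_lit 0) (nat_lit 3365752443) (nat_lit 152) (nat_lit 25994765469) (nat_lit 76) (nat_lit 180373405418) (nat_lit 3) (nat_lit 5) (nat_lit 5) (nat_lit 5) (nat_lit 4) (nat_lit 4) (nat_lit 365) (nat_lit 266) (nat_lit 149)) (XT.lf (nat_lit 0) (nat_lit 11304667672) (nat_lit 152) (nat_lit 9725203599) (nat_lit 76) (nat_lit 198719050818) (nat_lit 3) (nat_lit 5) (nat_lit 5) (nat_lit 5) (nat_lit 4) (nat_lit 4) (nat_lit 366) (nat_lit 266) (nat_lit 148))))))) (XT.nd (nat_lit 780) (nat_lit 76) (nat_lit 0) (XT.nd (nat_lit 390) (nat_lit 0) (nat_lit 0) (XT.nd (nat_lit 156) (nat_lit 0) (nat_lit 0) (XT.nd (nat_lit 78) (nat_lit 0) (nat_lit 0) (XT.lf (nat_lit 0) (nat_lit 7595565255) (nat_lit 76) (nat_lit 12160680417) (nat_lit 152) (nat_lit 210502640669) (nat_lit 2) (nat_lit 5) (nat_lit 3) (nat_lit 5) (nat_lit 4) (nat_lit 4) (nat_lit 367) (nat_lit 266) (nat_lit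 147)) (XT.lf (nat_lit 0) (nat_lit 26114719750) (nat_lit 76) (nat_lit 2677566929) (nat_lit 152) (nat_lit 212493969259) (nat_lit 2) (nat_lit 5) (nat_lit 3) (nat_lit 5) (nat_lit 4) (nat_lit 4) (nat_lit 368) (nat_lit 266) (nat_lit 146))) (XT.nd (nat_lit 78) (nat_lit 0) (nat_lit 0) (XT.lf (nat_lit 0) (nat_lit 38391066734) (nat_lit 152) (nat_lit 207423955251) (nat_lit 0) (nat_lit 7044426454) (nat_lit 2) (nat_lit 5) (nat_lit 4) (nat_lit 4) (nat_lit 2) (nat_lit 4) (nat_lit 369) (nat_lit 266) (nat_lit 145)) (XT.nd (nat_lit 78) (nat_lit 0) (nat_lit 0) (XT.lf (nat_lit 0) (nat_lit 48511090278) (nat_lit 152) (nat_lit 199337781857) (nat_lit 0) (nat_lit 17160364420) (nat_lit 2) (nat_lit 5) (nat_lit 4) (nat_lit 4) (nat_lit 2) (nat_lit 4) (nat_lit 370) (nat_lit 266) (nat_lit 144)) (XT.lf (nat_lit 0) (nat_lit 59134648282) (nat_lit 152) (nat_lit 190851958890) (nat_lit 0) (nat_lit 27780031396) (nat_lit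 2) (nat_lit 5) (nat_lit 4) (nat_lit 4) (nat_lit 2) (nat_lit 4) (nat_lit 371) (nat_lit 266) (nat_lit 143))))) (XT.nd (nat_lit 156) (nat_lit 0) (nat_lit 0) (XT.nd (nat_lit 78) (nat_lit 0) (nat_lit 0) (XT.lf (nat_lit 0) (nat_lit 70287034932) (nat_lit 152) (nat_lit 181946282008) (nat_lit 0) (nat_lit 38928712306) (nat_lit 2) (nat_lit 5) (nat_lit 4) (nat_lit 4) (nat_lit 2) (nat_lit 4) (nat_lit 372) (nat_lit 266) (nat_lit 142)) (XT.lf (nat_lit 0) (nat_lit 81994803529) (nat_lit 152) (nat_lit 172599547219) (nat_lit 0) (nat_lit 50632951627) (nat_lit 2) (nat_lit 5) (nat_lit 4) (nat_lit 4) (nat_lit 2) (nat_lit 4) (nat_lit 373) (nat_lit 266) (nat_lit 141))) (XT.nd (nat_lit 78) (nat_lit 0) (nat_lit 0) (XT.lf (nat_lit 0) (nat_lit 94285829713) (nat_lit 152) (nat_lit 162789500393) (nat_lit 0) (nat_lit 62920616595) (nat_lit 2) (nat_lit 5) (nat_lit 4) (nat_lit 4) (nat_lit 2) (nat_lit 4) (nat_lit 374) (nat_lit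 266) (nat_lit 140)) (XT.nd (nat_lit 78) (nat_lit 0) (nat_lit 0) (XT.lf (nat_lit 0) (nat_lit 107189377832) (nat_lit 152) (nat_lit 152492784276) (nat_lit 0) (nat_lit 75820963557) (nat_lit 2) (nat_lit 5) (nat_lit 4) (nat_lit 4) (nat_lit 2) (nat_lit 4) (nat_lit 375) (nat_lit 266) (nat_lit 139)) (XT.lf (nat_lit 0) (nat_lit 120736170620) (nat_lit 152) (nat_lit 141684882876) (nat_lit 0) (nat_lit 89364707623) (nat_lit 2) (nat_lit 5) (nat_lit 4) (nat_lit 4) (nat_lit 2) (nat_lit 4) (nat_lit 376) (nat_lit 266) (nat_lit 138)))))) (XT.nd (nat_lit 390) (nat_lit 76) (nat_lit 0) (XT.nd (nat_lit 156) (nat_lit 0) (nat_lit 0) (XT.nd (nat_lit 78) (nat_lit 0) (nat_lit 0) (XT.lf (nat_lit 0) (nat_lit 134958462345) (nat_lit 152) (nat_lit 130340063095) (nat_lit 0) (nat_lit 103584095803) (nat_lit 2) (nat_lit 5) (nat_lit 4) (nat_lit 4) (nat_lit 2) (nat_lit 4) (nat_lit 377) (nat_lit 266) (nat_lit 137)) (XT.lf (nat_lit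 0) (nat_lit 149890115606) (nat_lit 152) (nat_lit 118431313458) (nat_lit 0) (nat_lit 118512983783) (nat_lit 2) (nat_lit 5) (nat_lit 4) (nat_lit 4) (nat_lit 2) (nat_lit 4) (nat_lit 378) (nat_lit 266) (nat_lit 136))) (XT.nd (nat_lit 78) (nat_lit 0) (nat_lit 0) (XT.lf (nat_lit 0) (nat_lit 165566681959) (nat_lit 152) (nat_lit 105930279798) (nat_lit 0) (nat_lit 134186916536) (nat_lit 2) (nat_lit 5) (nat_lit 4) (nat_lit 4) (nat_lit 2) (nat_lit 4) (nat_lit 379) (nat_lit 266) (nat_lit 135)) (XT.nd (nat_lit 78) (nat_lit 0) (nat_lit 0) (XT.lf (nat_lit 0) (nat_lit 182025486562) (nat_lit 152) (nat_lit 92807197750) (nat_lit 0) (nat_lit 150643212948) (nat_lit 2) (nat_lit 5) (nat_lit 4) (nat_lit 4) (nat_lit 2) (nat_lit 4) (nat_lit 380) (nat_lit 266) (nat_lit 134)) (XT.lf (nat_lit 0) (nat_lit 199305717044) (nat_lit 152) (nat_lit 79030821880) (nat_lit 0) (nat_lit 167921054677) (nat_lit 2) (nat_lit 5)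 (nat_lit 4) (nat_lit 4) (nat_lit 2) (nat_lit 4) (nat_lit 381) (nat_lit 266) (nat_lit 133))))) (XT.nd (nat_lit 234) (nat_lit 76) (nat_lit 0) (XT.nd (nat_lit 78) (nat_lit 0) (nat_lit 0) (XT.lf (nat_lit 0) (nat_lit 217448516813) (nat_lit 152) (nat_lit 64568351293) (nat_lit 0) (nat_lit 186061579442) (nat_lit 2) (nat_lit 5) (nat_lit 4) (nat_lit 4) (nat_lit 2) (nat_lit 4) (nat_lit 382) (nat_lit 266) (nat_lit 132)) (XT.nd (nat_lit 78) (nat_lit 0) (nat_lit 0) (XT.lf (nat_lit 0) (nat_lit 236497083009) (nat_lit 152) (nat_lit 49385351536) (nat_lit 0) (nat_lit 205107978969) (nat_lit 2) (nat_lit 5) (nat_lit 4) (nat_lit 4) (nat_lit 2) (nat_lit 4) (nat_lit 383) (nat_lit 266) (nat_lit 131)) (XT.lf (nat_lit 0) (nat_lit 256496769362) (nat_lit 152) (nat_lit 33445672609) (nat_lit 0) (nat_lit 225105601828) (nat_lit 2) (nat_lit 5) (nat_lit 4) (nat_lit 4) (nat_lit 2) (nat_lit 4) (nat_lit 384) (nat_lit 266)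 (nat_lit 130)))) (XT.nd (nat_lit 78) (nat_lit 76) (nat_lit 0) (XT.lf (nat_lit 0) (nat_lit 277495194173) (nat_lit 152) (nat_lit 16711362896) (nat_lit 0) (nat_lit 246102061406) (nat_lit 2) (nat_lit 5) (nat_lit 4) (nat_lit 4) (nat_lit 2) (nat_lit 4) (nat_lit 385) (nat_lit 266) (nat_lit 129)) (XT.nd (nat_lit 78) (nat_lit 0) (nat_lit 0) (XT.lf (nat_lit 0) (nat_lit 885771414) (nat_lit 76) (nat_lit 298670411652) (nat_lit 76) (nat_lit 267275407233) (nat_lit 1) (nat_lit 4) (nat_lit 2) (nat_lit 5) (nat_lit 2) (nat_lit 4) (nat_lit 386) (nat_lit 266) (nat_lit 128)) (XT.lf (nat_lit 0) (nat_lit 19940738268) (nat_lit 76) (nat_lit 303061333695) (nat_lit 76) (nat_lit 271664546753) (nat_lit 1) (nat_lit 4) (nat_lit 2) (nat_lit 5) (nat_lit 2) (nat_lit 4) (nat_lit 387) (nat_lit 266) (nat_lit 127))))))))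
noncomputable def xc128 : XT := (XT.nd (nat_lit 1560) (nat_lit 2584) (nat_lit 0) (XT.nd (nat_lit 780) (nat_lit 2964) (nat_lit 0) (XT.nd (nat_lit 390) (nat_lit 456) (nat_lit 0) (XT.nd (nat_lit 156) (nat_lit 0) (nat_lit 76) (XT.nd (nat_lit 78) (nat_lit 532) (nat_lit 0) (XT.lf (nat_lit 0) (nat_lit 1538239057) (nat_lit 0) (nat_lit 1538239057) (nat_lit 380) (nat_lit 434922838) (nat_lit 116) (nat_lit 5) (nat_lit 116) (nat_lit 3) (nat_lit 121) (nat_lit 3) (nat_lit 267) (nat_lit 267) (nat_lit 246)) (XT.lf (nat_lit 0) (nat_lit 816443744) (nat_lit 532) (nat_lit 733219117) (nat_lit 532) (nat_lit 5560493031) (nat_lit 109) (nat_lit 3) (nat_lit 116) (nat_lit 3) (nat_lit 116) (nat_lit 5) (nat_lit 268) (nat_lit 267) (nat_lit 245))) (XT.nd (nat_lit 78) (nat_lit 0) (nat_lit 0) (XT.lf (nat_lit 0) (nat_lit 2494295888) (nat_lit 456) (nat_lit 4552680895) (nat_lit 532) (nat_lit 157679805) (nat_lit 110) (nat_lit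 5) (nat_lit 116) (nat_lit 5) (nat_lit 117) (nat_lit 5) (nat_lit 269) (nat_lit 267) (nat_lit 244)) (XT.nd (nat_lit 78) (nat_lit 0) (nat_lit 0) (XT.lf (nat_lit 0) (nat_lit 4191549780) (nat_lit 456) (nat_lit 1158877316) (nat_lit 532) (nat_lit 1956980755) (nat_lit 110) (nat_lit 5) (nat_lit 116) (nat_lit 5) (nat_lit 117) (nat_lit 5) (nat_lit 270) (nat_lit 267) (nat_lit 243)) (XT.lf (nat_lit 76) (nat_lit 2423228259) (nat_lit 0) (nat_lit 3490637060) (nat_lit 532) (nat_lit 1504708066) (nat_lit 111) (nat_lit 5) (nat_lit 110) (nat_lit 5) (nat_lit 117) (nat_lit 5) (nat_lit 271) (nat_lit 267) (nat_lit 242))))) (XT.nd (nat_lit 156) (nat_lit 0) (nat_lit 76) (XT.nd (nat_lit 78) (nat_lit 0) (nat_lit 76) (XT.lf (nat_lit 0) (nat_lit 105268068) (nat_lit 532) (nat_lit 1374304449) (nat_lit 608) (nat_lit 6059626014) (nat_lit 103) (nat_lit 5) (nat_lit 110) (nat_lit 5) (nat_lit 111) (nat_lit 5) (nat_lit 272)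 (nat_lit 267) (nat_lit 241)) (XT.lf (nat_lit 0) (nat_lit 1703256205) (nat_lit 532) (nat_lit 5256787546) (nat_lit 608) (nat_lit 706921377) (nat_lit 104) (nat_lit 5) (nat_lit 111) (nat_lit 5) (nat_lit 112) (nat_lit 5) (nat_lit 273) (nat_lit 267) (nat_lit 240))) (XT.nd (nat_lit 78) (nat_lit 0) (nat_lit 0) (XT.lf (nat_lit 0) (nat_lit 3341829811) (nat_lit 532) (nat_lit 1455639688) (nat_lit 608) (nat_lit 3005852085) (nat_lit 104) (nat_lit 5) (nat_lit 111) (nat_lit 5) (nat_lit 112) (nat_lit 5) (nat_lit 274) (nat_lit 267) (nat_lit 239)) (XT.nd (nat_lit 78) (nat_lit 0) (nat_lit 76) (XT.lf (nat_lit 76) (nat_lit 2557770195) (nat_lit 0) (nat_lit 2461424160) (nat_lit 608) (nat_lit 2929682996) (nat_lit 105) (nat_lit 5) (nat_lit 104) (nat_lit 5) (nat_lit 112) (nat_lit 5) (nat_lit 275) (nat_lit 267) (nat_lit 238)) (XT.lf (nat_lit 0) (nat_lit 6725650068) (nat_lit 532) (nat_lit 1341607785) (nat_lit 76)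 (nat_lit 37405814) (nat_lit 105) (nat_lit 5) (nat_lit 112) (nat_lit 5) (nat_lit 106) (nat_lit 5) (nat_lit 276) (nat_lit 267) (nat_lit 237)))))) (XT.nd (nat_lit 390) (nat_lit 1216) (nat_lit 0) (XT.nd (nat_lit 156) (nat_lit 1292) (nat_lit 0) (XT.nd (nat_lit 78) (nat_lit 0) (nat_lit 0) (XT.lf (nat_lit 0) (nat_lit 250942768) (nat_lit 608) (nat_lit 5369317409) (nat_lit 76) (nat_lit 2647492159) (nat_lit 97) (nat_lit 5) (nat_lit 105) (nat_lit 5) (nat_lit 98) (nat_lit 5) (nat_lit 277) (nat_lit 267) (nat_lit 236)) (XT.lf (nat_lit 0) (nat_lit 1864543419) (nat_lit 608) (nat_lit 1125695860) (nat_lit 76) (nat_lit 5450386081) (nat_lit 97) (nat_lit 5) (nat_lit 105) (nat_lit 5) (nat_lit 98) (nat_lit 5) (nat_lit 278) (nat_lit 267) (nat_lit 235))) (XT.nd (nat_lit 78) (nat_lit 684) (nat_lit 0) (XT.lf (nat_lit 0) (nat_lit 3379299180) (nat_lit 608) (nat_lit 161234888) (nat_lit 684) (nat_lit 5082698451) (nat_lit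 89) (nat_lit 5) (nat_lit 97) (nat_lit 5) (nat_lit 98) (nat_lit 5) (nat_lit 279) (nat_lit 267) (nat_lit 234)) (XT.nd (nat_lit 78) (nat_lit 684) (nat_lit 0) (XT.lf (nat_lit 0) (nat_lit 5295152814) (nat_lit 684) (nat_lit 771339826) (nat_lit 76) (nat_lit 2748903570) (nat_lit 89) (nat_lit 5) (nat_lit 98) (nat_lit 5) (nat_lit 90) (nat_lit 5) (nat_lit 280) (nat_lit 267) (nat_lit 233)) (XT.lf (nat_lit 0) (nat_lit 3991147263) (nat_lit 684) (nat_lit 3146160983) (nat_lit 760) (nat_lit 1880029172) (nat_lit 80) (nat_lit 5) (nat_lit 89) (nat_lit 5) (nat_lit 90) (nat_lit 5) (nat_lit 281) (nat_lit 267) (nat_lit 232))))) (XT.nd (nat_lit 156) (nat_lit 684) (nat_lit 0) (XT.nd (nat_lit 78) (nat_lit 532) (nat_lit 0) (XT.lf (nat_lit 0) (nat_lit 8960652285) (nat_lit 684) (nat_lit 61030384) (nat_lit 760) (nat_lit 210339475) (nat_lit 80) (nat_lit 5) (nat_lit 89) (nat_lit 5) (nat_lit 90) (nat_lit 5) (nat_lit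 282) (nat_lit 267) (nat_lit 231)) (XT.lf (nat_lit 0) (nat_lit 1558516966) (nat_lit 532) (nat_lit 4713760332) (nat_lit 76) (nat_lit 3180844166) (nat_lit 73) (nat_lit 5) (nat_lit 80) (nat_lit 5) (nat_lit 74) (nat_lit 5) (nat_lit 283) (nat_lit 267) (nat_lit 230))) (XT.nd (nat_lit 78) (nat_lit 304) (nat_lit 0) (XT.lf (nat_lit 0) (nat_lit 269621377) (nat_lit 380) (nat_lit 3090000535) (nat_lit 456) (nat_lit 6328069025) (nat_lit 68) (nat_lit 5) (nat_lit 73) (nat_lit 5) (nat_lit 74) (nat_lit 5) (nat_lit 284) (nat_lit 267) (nat_lit 229)) (XT.nd (nat_lit 78) (nat_lit 304) (nat_lit 0) (XT.lf (nat_lit 0) (nat_lit 5278712715) (nat_lit 456) (nat_lit 4330894892) (nat_lit 76) (nat_lit 323109813) (nat_lit 68) (nat_lit 5) (nat_lit 74) (nat_lit 5) (nat_lit 69) (nat_lit 5) (nat_lit 285) (nat_lit 267) (nat_lit 228)) (XT.lf (nat_lit 0) (nat_lit 931228660) (nat_lit 304) (nat_lit 6373312051) (nat_lit 380) (nat_lit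 2885034495) (nat_lit 64) (nat_lit 5) (nat_lit 68) (nat_lit 5) (nat_lit 69) (nat_lit 5) (nat_lit 286) (nat_lit 267) (nat_lit 227))))))) (XT.nd (nat_lit 780) (nat_lit 1140) (nat_lit 0) (XT.nd (nat_lit 390) (nat_lit 836) (nat_lit 0) (XT.nd (nat_lit 156) (nat_lit 228) (nat_lit 0) (XT.nd (nat_lit 78) (nat_lit 380) (nat_lit 0) (XT.lf (nat_lit 0) (nat_lit 6549202551) (nat_lit 304) (nat_lit 2903082703) (nat_lit 380) (nat_lit 1006072809) (nat_lit 64) (nat_lit 5) (nat_lit 68) (nat_lit 5) (nat_lit 69) (nat_lit 5) (nat_lit 287) (nat_lit 267) (nat_lit 226)) (XT.lf (nat_lit 0) (nat_lit 923294541) (nat_lit 380) (nat_lit 9063503461) (nat_lit 76) (nat_lit 753760081) (nat_lit 59) (nat_lit 5) (nat_lit 64) (nat_lit 5) (nat_lit 60) (nat_lit 5) (nat_lit 288) (nat_lit 267) (nat_lit 225))) (XT.nd (nat_lit 78) (nat_lit 228) (nat_lit 0) (XT.lf (nat_lit 0) (nat_lit 2980530290) (nat_lit 380) (nat_lit 3478666594)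 (nat_lit 76) (nat_lit 4573684031) (nat_lit 59) (nat_lit 5) (nat_lit 64) (nat_lit 5) (nat_lit 60) (nat_lit 5) (nat_lit 289) (nat_lit 267) (nat_lit 224)) (XT.nd (nat_lit 78) (nat_lit 0) (nat_lit 0) (XT.lf (nat_lit 0) (nat_lit 2406992666) (nat_lit 228) (nat_lit 2723910690) (nat_lit 304) (nat_lit 6209496082) (nat_lit 56) (nat_lit 5) (nat_lit 59) (nat_lit 5) (nat_lit 60) (nat_lit 5) (nat_lit 290) (nat_lit 267) (nat_lit 223)) (XT.lf (nat_lit 0) (nat_lit 7421341199) (nat_lit 304) (nat_lit 3029126627) (nat_lit 76) (nat_lit 1211287637) (nat_lit 56) (nat_lit 5) (nat_lit 60) (nat_lit 5) (nat_lit 57) (nat_lit 5) (nat_lit 291) (nat_lit 267) (nat_lit 222))))) (XT.nd (nat_lit 156) (nat_lit 456) (nat_lit 0) (XT.nd (nat_lit 78) (nat_lit 76) (nat_lit 0) (XT.lf (nat_lit 0) (nat_lit 3173167162) (nat_lit 304) (nat_lit 6703483523) (nat_lit 380) (nat_lit 2120095768) (nat_lit 52) (nat_lit 5) (nat_lit 56) (nat_lit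 5) (nat_lit 57) (nat_lit 5) (nat_lit 292) (nat_lit 267) (nat_lit 221)) (XT.lf (nat_lit 0) (nat_lit 111613060) (nat_lit 380) (nat_lit 2612426803) (nat_lit 76) (nat_lit 9624002239) (nat_lit 51) (nat_lit 5) (nat_lit 56) (nat_lit 5) (nat_lit 52) (nat_lit 5) (nat_lit 293) (nat_lit 267) (nat_lit 220))) (XT.nd (nat_lit 78) (nat_lit 228) (nat_lit 0) (XT.lf (nat_lit 0) (nat_lit 2428126830) (nat_lit 304) (nat_lit 8789563682) (nat_lit 76) (nat_lit 1495323931) (nat_lit 48) (nat_lit 5) (nat_lit 52) (nat_lit 5) (nat_lit 49) (nat_lit 5) (nat_lit 294) (nat_lit 267) (nat_lit 219)) (XT.nd (nat_lit 78) (nat_lit 228) (nat_lit 0) (XT.lf (nat_lit 0) (nat_lit 4909781276) (nat_lit 304) (nat_lit 2315784665) (nat_lit 76) (nat_lit 5868273353) (nat_lit 48) (nat_lit 5) (nat_lit 52) (nat_lit 5) (nat_lit 49) (nat_lit 5) (nat_lit 295) (nat_lit 267) (nat_lit 218)) (XT.lf (nat_lit 0) (nat_lit 4577526564) (nat_lit 228)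 (nat_lit 2971069986) (nat_lit 304) (nat_lit 5943521257) (nat_lit 45) (nat_lit 5) (nat_lit 48) (nat_lit 5) (nat_lit 49) (nat_lit 5) (nat_lit 296) (nat_lit 267) (nat_lit 217)))))) (XT.nd (nat_lit 390) (nat_lit 608) (nat_lit 0) (XT.nd (nat_lit 156) (nat_lit 304) (nat_lit 0) (XT.nd (nat_lit 78) (nat_lit 228) (nat_lit 0) (XT.lf (nat_lit 0) (nat_lit 10345038163) (nat_lit 304) (nat_lit 2088033021) (nat_lit 76) (nat_lit 1476017952) (nat_lit 45) (nat_lit 5) (nat_lit 49) (nat_lit 5) (nat_lit 46) (nat_lit 5) (nat_lit 297) (nat_lit 267) (nat_lit 216)) (XT.lf (nat_lit 0) (nat_lit 5146747635) (nat_lit 228) (nat_lit 8227867438) (nat_lit 304) (nat_lit 967688454) (nat_lit 42) (nat_lit 5) (nat_lit 45) (nat_lit 5) (nat_lit 46) (nat_lit 5) (nat_lit 298) (nat_lit 267) (nat_lit 215))) (XT.nd (nat_lit 78) (nat_lit 228) (nat_lit 0) (XT.lf (nat_lit 0) (nat_lit 1702724690) (nat_lit 304) (nat_lit 2057247144) (nat_lit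 76) (nat_lit 11035862861) (nat_lit 41) (nat_lit 5) (nat_lit 45) (nat_lit 5) (nat_lit 42) (nat_lit 5) (nat_lit 299) (nat_lit 267) (nat_lit 214)) (XT.nd (nat_lit 78) (nat_lit 0) (nat_lit 0) (XT.lf (nat_lit 0) (nat_lit 4543102160) (nat_lit 304) (nat_lit 9732033924) (nat_lit 76) (nat_lit 992716900) (nat_lit 38) (nat_lit 5) (nat_lit 42) (nat_lit 5) (nat_lit 39) (nat_lit 5) (nat_lit 300) (nat_lit 267) (nat_lit 213)) (XT.lf (nat_lit 0) (nat_lit 7589479196) (nat_lit 304) (nat_lit 2291898645) (nat_lit 76) (nat_lit 5878944805) (nat_lit 38) (nat_lit 5) (nat_lit 42) (nat_lit 5) (nat_lit 39) (nat_lit 5) (nat_lit 301) (nat_lit 267) (nat_lit 212))))) (XT.nd (nat_lit 156) (nat_lit 456) (nat_lit 0) (XT.nd (nat_lit 78) (nat_lit 0) (nat_lit 0) (XT.lf (nat_lit 0) (nat_lit 5655620482) (nat_lit 152) (nat_lit 5189359619) (nat_lit 228) (nat_lit 5429642575) (nat_lit 36) (nat_lit 5) (nat_lit 38) (nat_lit 5) (nat_lit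 39) (nat_lit 5) (nat_lit 302) (nat_lit 267) (nat_lit 211)) (XT.lf (nat_lit 0) (nat_lit 14035183120) (nat_lit 152) (nat_lit 236190996) (nat_lit 228) (nat_lit 2542902580) (nat_lit 36) (nat_lit 5) (nat_lit 38) (nat_lit 5) (nat_lit 39) (nat_lit 5) (nat_lit 303) (nat_lit 267) (nat_lit 210))) (XT.nd (nat_lit 78) (nat_lit 152) (nat_lit 0) (XT.lf (nat_lit 0) (nat_lit 608759804) (nat_lit 304) (nat_lit 11876555737) (nat_lit 76) (nat_lit 4888447005) (nat_lit 32) (nat_lit 5) (nat_lit 36) (nat_lit 5) (nat_lit 33) (nat_lit 5) (nat_lit 304) (nat_lit 267) (nat_lit 209)) (XT.nd (nat_lit 78) (nat_lit 152) (nat_lit 0) (XT.lf (nat_lit 0) (nat_lit 3855025283) (nat_lit 304) (nat_lit 3765745565) (nat_lit 76) (nat_lit 10337282365) (nat_lit 32) (nat_lit 5) (nat_lit 36) (nat_lit 5) (nat_lit 33) (nat_lit 5) (nat_lit 305) (nat_lit 267) (nat_lit 208)) (XT.lf (nat_lit 0) (nat_lit 4864045187) (nat_lit 152) (nat_lit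 2447661497) (nat_lit 228) (nat_lit 11257483528) (nat_lit 30) (nat_lit 5) (nat_lit 32) (nat_lit 5) (nat_lit 33) (nat_lit 5) (nat_lit 306) (nat_lit 267) (nat_lit 207))))))))
noncomputable def xc129 : XT := (XT.nd (nat_lit 1560) (nat_lit 532) (nat_lit 0) (XT.nd (nat_lit 780) (nat_lit 532) (nat_lit 0) (XT.nd (nat_lit 390) (nat_lit 304) (nat_lit 0) (XT.nd (nat_lit 156) (nat_lit 228) (nat_lit 0) (XT.nd (nat_lit 78) (nat_lit 152) (nat_lit 0) (XT.lf (nat_lit 0) (nat_lit 11025245894) (nat_lit 228) (nat_lit 5241994332) (nat_lit 76) (nat_lit 2939477822) (nat_lit 30) (nat_lit 5) (nat_lit 33) (nat_lit 5) (nat_lit 31) (nat_lit 5) (nat_lit 307) (nat_lit 267) (nat_lit 206)) (XT.lf (nat_lit 0) (nat_lit 3681321220) (nat_lit 152) (nat_lit 11314659623) (nat_lit 228) (nat_lit 4876598995) (nat_lit 28) (nat_lit 5) (nat_lit 30) (nat_lit 5) (nat_lit 31) (nat_lit 5) (nat_lit 308) (nat_lit 267) (nat_lit 205)))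 (XT.nd (nat_lit 78) (nat_lit 228) (nat_lit 0) (XT.lf (nat_lit 0) (nat_lit 13192756739) (nat_lit 152) (nat_lit 6035805902) (nat_lit 228) (nat_lit 1340038473) (nat_lit 28) (nat_lit 5) (nat_lit 30) (nat_lit 5) (nat_lit 31) (nat_lit 5) (nat_lit 309) (nat_lit 267) (nat_lit 204)) (XT.nd (nat_lit 78) (nat_lit 0) (nat_lit 0) (XT.lf (nat_lit 0) (nat_lit 1863970107) (nat_lit 152) (nat_lit 437839778) (nat_lit 228) (nat_lit 18995568683) (nat_lit 25) (nat_lit 5) (nat_lit 27) (nat_lit 5) (nat_lit 28) (nat_lit 5) (nat_lit 310) (nat_lit 267) (nat_lit 203)) (XT.lf (nat_lit 0) (nat_lit 6268286092) (nat_lit 228) (nat_lit 10382807134) (nat_lit 76) (nat_lit 5401052362) (nat_lit 25) (nat_lit 5) (nat_lit 28) (nat_lit 5) (nat_lit 26) (nat_lit 5) (nat_lit 311) (nat_lit 267) (nat_lit 202))))) (XT.nd (nat_lit 156) (nat_lit 152) (nat_lit 0) (XT.nd (nat_lit 78) (nat_lit 152) (nat_lit 0) (XT.lf (nat_lit 0) (nat_lit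 10417096402) (nat_lit 228) (nat_lit 924335587) (nat_lit 76) (nat_lit 11504044700) (nat_lit 25) (nat_lit 5) (nat_lit 28) (nat_lit 5) (nat_lit 26) (nat_lit 5) (nat_lit 312) (nat_lit 267) (nat_lit 201)) (XT.lf (nat_lit 0) (nat_lit 9267996005) (nat_lit 152) (nat_lit 5627986417) (nat_lit 228) (nat_lit 8776385162) (nat_lit 23) (nat_lit 5) (nat_lit 25) (nat_lit 5) (nat_lit 26) (nat_lit 5) (nat_lit 313) (nat_lit 267) (nat_lit 200))) (XT.nd (nat_lit 78) (nat_lit 152) (nat_lit 0) (XT.lf (nat_lit 0) (nat_lit 19598744270) (nat_lit 228) (nat_lit 4579848039) (nat_lit 76) (nat_lit 362037945) (nat_lit 23) (nat_lit 5) (nat_lit 26) (nat_lit 5) (nat_lit 24) (nat_lit 4) (nat_lit 314) (nat_lit 267) (nat_lit 199)) (XT.nd (nat_lit 78) (nat_lit 76) (nat_lit 0) (XT.lf (nat_lit 0) (nat_lit 5794812935) (nat_lit 76) (nat_lit 18903829882) (nat_lit 152) (nat_lit 745585984) (nat_lit 22) (nat_lit 5) (nat_lit 23) (nat_lit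 5) (nat_lit 24) (nat_lit 4) (nat_lit 315) (nat_lit 267) (nat_lit 198)) (XT.lf (nat_lit 0) (nat_lit 3601573275) (nat_lit 152) (nat_lit 9634789225) (nat_lit 76) (nat_lit 13150897584) (nat_lit 21) (nat_lit 5) (nat_lit 23) (nat_lit 5) (nat_lit 22) (nat_lit 5) (nat_lit 316) (nat_lit 267) (nat_lit 197)))))) (XT.nd (nat_lit 390) (nat_lit 304) (nat_lit 0) (XT.nd (nat_lit 156) (nat_lit 76) (nat_lit 0) (XT.nd (nat_lit 78) (nat_lit 0) (nat_lit 0) (XT.lf (nat_lit 0) (nat_lit 863166692) (nat_lit 152) (nat_lit 7271696629) (nat_lit 228) (nat_lit 19242296588) (nat_lit 19) (nat_lit 5) (nat_lit 21) (nat_lit 5) (nat_lit 22) (nat_lit 5) (nat_lit 317) (nat_lit 267) (nat_lit 196)) (XT.lf (nat_lit 0) (nat_lit 12188241602) (nat_lit 152) (nat_lit 850530677) (nat_lit 228) (nat_lit 15370603380) (nat_lit 19) (nat_lit 5) (nat_lit 21) (nat_lit 5) (nat_lit 22) (nat_lit 5) (nat_lit 318) (nat_lit 267) (nat_lit 195)))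 (XT.nd (nat_lit 78) (nat_lit 76) (nat_lit 0) (XT.lf (nat_lit 0) (nat_lit 18261367928) (nat_lit 228) (nat_lit 5537096290) (nat_lit 76) (nat_lit 5691081182) (nat_lit 19) (nat_lit 5) (nat_lit 22) (nat_lit 5) (nat_lit 20) (nat_lit 4) (nat_lit 319) (nat_lit 267) (nat_lit 194)) (XT.nd (nat_lit 78) (nat_lit 0) (nat_lit 0) (XT.lf (nat_lit 0) (nat_lit 5823612688) (nat_lit 76) (nat_lit 18008732800) (nat_lit 152) (nat_lit 6787032451) (nat_lit 18) (nat_lit 5) (nat_lit 19) (nat_lit 5) (nat_lit 20) (nat_lit 4) (nat_lit 320) (nat_lit 267) (nat_lit 193)) (XT.lf (nat_lit 0) (nat_lit 17915096612) (nat_lit 76) (nat_lit 11843313054) (nat_lit 152) (nat_lit 2043481668) (nat_lit 18) (nat_lit 5) (nat_lit 19) (nat_lit 5) (nat_lit 20) (nat_lit 4) (nat_lit 321) (nat_lit 267) (nat_lit 192))))) (XT.nd (nat_lit 156) (nat_lit 76) (nat_lit 0) (XT.nd (nat_lit 78) (nat_lit 152) (nat_lit 0) (XT.lf (nat_lit 0) (nat_lit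 2826537544) (nat_lit 152) (nat_lit 2506892489) (nat_lit 76) (nat_lit 27708656992) (nat_lit 17) (nat_lit 5) (nat_lit 19) (nat_lit 5) (nat_lit 18) (nat_lit 5) (nat_lit 322) (nat_lit 267) (nat_lit 191)) (XT.lf (nat_lit 0) (nat_lit 8033090951) (nat_lit 228) (nat_lit 24670765681) (nat_lit 76) (nat_lit 1630689419) (nat_lit 15) (nat_lit 5) (nat_lit 18) (nat_lit 5) (nat_lit 16) (nat_lit 4) (nat_lit 323) (nat_lit 267) (nat_lit 190))) (XT.nd (nat_lit 78) (nat_lit 76) (nat_lit 0) (XT.lf (nat_lit 0) (nat_lit 13614814880) (nat_lit 228) (nat_lit 13275082592) (nat_lit 76) (nat_lit 8796001674) (nat_lit 15) (nat_lit 5) (nat_lit 18) (nat_lit 5) (nat_lit 16) (nat_lit 4) (nat_lit 324) (nat_lit 267) (nat_lit 189)) (XT.nd (nat_lit 78) (nat_lit 76) (nat_lit 0) (XT.lf (nat_lit 0) (nat_lit 19460632759) (nat_lit 228) (nat_lit 1335775904) (nat_lit 76) (nat_lit 16309173468) (nat_lit 15) (nat_lit 5) (nat_lit 18)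 (nat_lit 5) (nat_lit 16) (nat_lit 4) (nat_lit 325) (nat_lit 267) (nat_lit 188)) (XT.lf (nat_lit 0) (nat_lit 11545096490) (nat_lit 76) (nat_lit 14219618025) (nat_lit 152) (nat_lit 12823248127) (nat_lit 14) (nat_lit 5) (nat_lit 15) (nat_lit 5) (nat_lit 16) (nat_lit 4) (nat_lit 326) (nat_lit 267) (nat_lit 187))))))) (XT.nd (nat_lit 780) (nat_lit 228) (nat_lit 0) (XT.nd (nat_lit 390) (nat_lit 152) (nat_lit 0) (XT.nd (nat_lit 156) (nat_lit 152) (nat_lit 0) (XT.nd (nat_lit 78) (nat_lit 0) (nat_lit 0) (XT.lf (nat_lit 0) (nat_lit 25091874665) (nat_lit 76) (nat_lit 7300766582) (nat_lit 152) (nat_lit 7751400339) (nat_lit 14) (nat_lit 5) (nat_lit 15) (nat_lit 5) (nat_lit 16) (nat_lit 4) (nat_lit 327) (nat_lit 267) (nat_lit 186)) (XT.lf (nat_lit 0) (nat_lit 39292646069) (nat_lit 76) (nat_lit 46002889) (nat_lit 152) (nat_lit 2439952192) (nat_lit 14) (nat_lit 5) (nat_lit 15) (nat_lit 5) (nat_lit 16)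 (nat_lit 4) (nat_lit 328) (nat_lit 267) (nat_lit 185))) (XT.nd (nat_lit 78) (nat_lit 0) (nat_lit 0) (XT.lf (nat_lit 0) (nat_lit 3317001749) (nat_lit 152) (nat_lit 32617568559) (nat_lit 76) (nat_lit 7543862397) (nat_lit 12) (nat_lit 5) (nat_lit 14) (nat_lit 5) (nat_lit 13) (nat_lit 4) (nat_lit 329) (nat_lit 267) (nat_lit 184)) (XT.nd (nat_lit 78) (nat_lit 0) (nat_lit 0) (XT.lf (nat_lit 0) (nat_lit 9310565944) (nat_lit 152) (nat_lit 20364058064) (nat_lit 76) (nat_lit 15585103243) (nat_lit 12) (nat_lit 5) (nat_lit 14) (nat_lit 5) (nat_lit 13) (nat_lit 4) (nat_lit 330) (nat_lit 267) (nat_lit 183)) (XT.lf (nat_lit 0) (nat_lit 15591632896) (nat_lit 152) (nat_lit 7519581389) (nat_lit 76) (nat_lit 24019489984) (nat_lit 12) (nat_lit 5) (nat_lit 14) (nat_lit 5) (nat_lit 13) (nat_lit 4) (nat_lit 331) (nat_lit 267) (nat_lit 182))))) (XT.nd (nat_lit 156) (nat_lit 76) (nat_lit 0) (XT.nd (nat_lit 78)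 (nat_lit 0) (nat_lit 0) (XT.lf (nat_lit 0) (nat_lit 6143059831) (nat_lit 76) (nat_lit 16128008074) (nat_lit 152) (nat_lit 26819955043) (nat_lit 11) (nat_lit 5) (nat_lit 12) (nat_lit 5) (nat_lit 13) (nat_lit 4) (nat_lit 332) (nat_lit 267) (nat_lit 181)) (XT.lf (nat_lit 0) (nat_lit 20729553911) (nat_lit 76) (nat_lit 8670907413) (nat_lit 152) (nat_lit 21743105044) (nat_lit 11) (nat_lit 5) (nat_lit 12) (nat_lit 5) (nat_lit 13) (nat_lit 4) (nat_lit 333) (nat_lit 267) (nat_lit 180))) (XT.nd (nat_lit 78) (nat_lit 76) (nat_lit 0) (XT.lf (nat_lit 0) (nat_lit 36025999276) (nat_lit 76) (nat_lit 849505049) (nat_lit 152) (nat_lit 16423781387) (nat_lit 11) (nat_lit 5) (nat_lit 12) (nat_lit 5) (nat_lit 13) (nat_lit 4) (nat_lit 334) (nat_lit 267) (nat_lit 179)) (XT.nd (nat_lit 78) (nat_lit 76) (nat_lit 0) (XT.lf (nat_lit 0) (nat_lit 44828824007) (nat_lit 152) (nat_lit 3609326988) (nat_lit 0) (nat_lit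 7119421185) (nat_lit 11) (nat_lit 5) (nat_lit 13) (nat_lit 4) (nat_lit 11) (nat_lit 4) (nat_lit 335) (nat_lit 267) (nat_lit 178)) (XT.lf (nat_lit 0) (nat_lit 11059942477) (nat_lit 76) (nat_lit 42296534940) (nat_lit 76) (nat_lit 4563469198) (nat_lit 10) (nat_lit 4) (nat_lit 11) (nat_lit 5) (nat_lit 11) (nat_lit 4) (nat_lit 336) (nat_lit 267) (nat_lit 177)))))) (XT.nd (nat_lit 390) (nat_lit 76) (nat_lit 0) (XT.nd (nat_lit 156) (nat_lit 76) (nat_lit 0) (XT.nd (nat_lit 78) (nat_lit 0) (nat_lit 0) (XT.lf (nat_lit 0) (nat_lit 1901163211) (nat_lit 152) (nat_lit 33858217273) (nat_lit 76) (nat_lit 24636963394) (nat_lit 9) (nat_lit 5) (nat_lit 11) (nat_lit 5) (nat_lit 10) (nat_lit 4) (nat_lit 337) (nat_lit 267) (nat_lit 176)) (XT.lf (nat_lit 0) (nat_lit 8526232383) (nat_lit 152) (nat_lit 20298288437) (nat_lit 76) (nat_lit 34168777328) (nat_lit 9) (nat_lit 5) (nat_lit 11) (nat_lit 5) (nat_lit 10)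 (nat_lit 4) (nat_lit 338) (nat_lit 267) (nat_lit 175))) (XT.nd (nat_lit 78) (nat_lit 76) (nat_lit 0) (XT.lf (nat_lit 0) (nat_lit 15473571805) (nat_lit 152) (nat_lit 6076683542) (nat_lit 76) (nat_lit 44170299729) (nat_lit 9) (nat_lit 5) (nat_lit 11) (nat_lit 5) (nat_lit 10) (nat_lit 4) (nat_lit 339) (nat_lit 267) (nat_lit 174)) (XT.nd (nat_lit 78) (nat_lit 0) (nat_lit 0) (XT.lf (nat_lit 0) (nat_lit 9132763854) (nat_lit 76) (nat_lit 13769546945) (nat_lit 152) (nat_lit 45675167928) (nat_lit 8) (nat_lit 5) (nat_lit 9) (nat_lit 5) (nat_lit 10) (nat_lit 4) (nat_lit 340) (nat_lit 267) (nat_lit 173)) (XT.lf (nat_lit 0) (nat_lit 25298359828) (nat_lit 76) (nat_lit 5498651699) (nat_lit 152) (nat_lit 40775516042) (nat_lit 8) (nat_lit 5) (nat_lit 9) (nat_lit 5) (nat_lit 10) (nat_lit 4) (nat_lit 341) (nat_lit 267) (nat_lit 172))))) (XT.nd (nat_lit 234) (nat_lit 76) (nat_lit 0) (XT.nd (nat_lit 78)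 (nat_lit 0) (nat_lit 0) (XT.lf (nat_lit 0) (nat_lit 39128096268) (nat_lit 152) (nat_lit 32509698330) (nat_lit 0) (nat_lit 3077456802) (nat_lit 8) (nat_lit 5) (nat_lit 10) (nat_lit 4) (nat_lit 8) (nat_lit 4) (nat_lit 342) (nat_lit 267) (nat_lit 171)) (XT.nd (nat_lit 78) (nat_lit 0) (nat_lit 0) (XT.lf (nat_lit 0) (nat_lit 47958172214) (nat_lit 152) (nat_lit 18161305367) (nat_lit 0) (nat_lit 11891516752) (nat_lit 8) (nat_lit 5) (nat_lit 10) (nat_lit 4) (nat_lit 8) (nat_lit 4) (nat_lit 343) (nat_lit 267) (nat_lit 170)) (XT.lf (nat_lit 0) (nat_lit 57222413992) (nat_lit 152) (nat_lit 3108976650) (nat_lit 0) (nat_lit 21140505200) (nat_lit 8) (nat_lit 5) (nat_lit 10) (nat_lit 4) (nat_lit 8) (nat_lit 4) (nat_lit 344) (nat_lit 267) (nat_lit 169)))) (XT.nd (nat_lit 78) (nat_lit 0) (nat_lit 0) (XT.lf (nat_lit 0) (nat_lit 13102488145) (nat_lit 76) (nat_lit 54044957735) (nat_lit 76) (nat_lit 17948521963)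 (nat_lit 7) (nat_lit 4) (nat_lit 8) (nat_lit 5) (nat_lit 8) (nat_lit 4) (nat_lit 345) (nat_lit 267) (nat_lit 168)) (XT.nd (nat_lit 78) (nat_lit 0) (nat_lit 0) (XT.lf (nat_lit 0) (nat_lit 30219828153) (nat_lit 76) (nat_lit 47394700220) (nat_lit 76) (nat_lit 11284429229) (nat_lit 7) (nat_lit 4) (nat_lit 8) (nat_lit 5) (nat_lit 8) (nat_lit 4) (nat_lit 346) (nat_lit 267) (nat_lit 167)) (XT.lf (nat_lit 0) (nat_lit 48181002135) (nat_lit 76) (nat_lit 40417436177) (nat_lit 76) (nat_lit 4293988786) (nat_lit 7) (nat_lit 4) (nat_lit 8) (nat_lit 5) (nat_lit 8) (nat_lit 4) (nat_lit 347) (nat_lit 267) (nat_lit 166))))))))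
noncomputable def xc130 : XT := (XT.nd (nat_lit 1560) (nat_lit 152) (nat_lit 0) (XT.nd (nat_lit 780) (nat_lit 152) (nat_lit 0) (XT.nd (nat_lit 390) (nat_lit 0) (nat_lit 0) (XT.nd (nat_lit 156) (nat_lit 76) (nat_lit 0) (XT.nd (nat_lit 78) (nat_lit 0) (nat_lit 0) (XT.lf (nat_lit 0) (nat_lit 2942162103) (nat_lit 152) (nat_lit 30104564030) (nat_lit 76) (nat_lit 64036785748) (nat_lit 6) (nat_lit 5) (nat_lit 8) (nat_lit 5) (nat_lit 7) (nat_lit 4) (nat_lit 348) (nat_lit 267) (nat_lit 165)) (XT.lf (nat_lit 0) (nat_lit 10389793983) (nat_lit 152) (nat_lit 14848870060) (nat_lit 76) (nat_lit 76242271598) (nat_lit 6) (nat_lit 5) (nat_lit 8) (nat_lit 5) (nat_lit 7) (nat_lit 4) (nat_lit 349) (nat_lit 267) (nat_lit 164))) (XT.nd (nat_lit 78) (nat_lit 0) (nat_lit 0) (XT.lf (nat_lit 0) (nat_lit 1197343701) (nat_lit 76) (nat_lit 17025423955) (nat_lit 152) (nat_lit 87874818142) (nat_lit 5) (nat_lit 5) (nat_lit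 6) (nat_lit 5) (nat_lit 7) (nat_lit 4) (nat_lit 350) (nat_lit 267) (nat_lit 163)) (XT.nd (nat_lit 78) (nat_lit 0) (nat_lit 0) (XT.lf (nat_lit 0) (nat_lit 18550970771) (nat_lit 76) (nat_lit 8142268751) (nat_lit 152) (nat_lit 84239539533) (nat_lit 5) (nat_lit 5) (nat_lit 6) (nat_lit 5) (nat_lit 7) (nat_lit 4) (nat_lit 351) (nat_lit 267) (nat_lit 162)) (XT.lf (nat_lit 0) (nat_lit 35600310056) (nat_lit 152) (nat_lit 79266074655) (nat_lit 0) (nat_lit 1142696432) (nat_lit 5) (nat_lit 5) (nat_lit 7) (nat_lit 4) (nat_lit 5) (nat_lit 4) (nat_lit 352) (nat_lit 267) (nat_lit 161))))) (XT.nd (nat_lit 156) (nat_lit 0) (nat_lit 0) (XT.nd (nat_lit 78) (nat_lit 0) (nat_lit 0) (XT.lf (nat_lit 0) (nat_lit 45081045562) (nat_lit 152) (nat_lit 65637672268) (nat_lit 0) (nat_lit 10614067716) (nat_lit 5) (nat_lit 5) (nat_lit 7) (nat_lit 4) (nat_lit 5) (nat_lit 4) (nat_lit 353) (nat_lit 267) (nat_lit 160)) (XT.lf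 (nat_lit 0) (nat_lit 55030895586) (nat_lit 152) (nat_lit 51337028910) (nat_lit 0) (nat_lit 20554999435) (nat_lit 5) (nat_lit 5) (nat_lit 7) (nat_lit 4) (nat_lit 5) (nat_lit 4) (nat_lit 354) (nat_lit 267) (nat_lit 159))) (XT.nd (nat_lit 78) (nat_lit 0) (nat_lit 0) (XT.lf (nat_lit 0) (nat_lit 65473550247) (nat_lit 152) (nat_lit 36330095432) (nat_lit 0) (nat_lit 30989160472) (nat_lit 5) (nat_lit 5) (nat_lit 7) (nat_lit 4) (nat_lit 5) (nat_lit 4) (nat_lit 355) (nat_lit 267) (nat_lit 158)) (XT.nd (nat_lit 78) (nat_lit 0) (nat_lit 0) (XT.lf (nat_lit 0) (nat_lit 76433873010) (nat_lit 152) (nat_lit 20581141039) (nat_lit 0) (nat_lit 41941394068) (nat_lit 5) (nat_lit 5) (nat_lit 7) (nat_lit 4) (nat_lit 5) (nat_lit 4) (nat_lit 356) (nat_lit 267) (nat_lit 157)) (XT.lf (nat_lit 0) (nat_lit 87937959881) (nat_lit 152) (nat_lit 4052668222) (nat_lit 0) (nat_lit 53437776970) (nat_lit 5) (nat_lit 5) (nat_lit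 7) (nat_lit 4) (nat_lit 5) (nat_lit 4) (nat_lit 357) (nat_lit 267) (nat_lit 156)))))) (XT.nd (nat_lit 390) (nat_lit 76) (nat_lit 0) (XT.nd (nat_lit 156) (nat_lit 0) (nat_lit 0) (XT.nd (nat_lit 78) (nat_lit 0) (nat_lit 0) (XT.lf (nat_lit 0) (nat_lit 13734258573) (nat_lit 76) (nat_lit 86493373235) (nat_lit 76) (nat_lit 51985853212) (nat_lit 4) (nat_lit 4) (nat_lit 5) (nat_lit 5) (nat_lit 5) (nat_lit 4) (nat_lit 358) (nat_lit 267) (nat_lit 155)) (XT.lf (nat_lit 0) (nat_lit 32543801290) (nat_lit 76) (nat_lit 80652647220) (nat_lit 76) (nat_lit 46138139471) (nat_lit 4) (nat_lit 4) (nat_lit 5) (nat_lit 5) (nat_lit 5) (nat_lit 4) (nat_lit 359) (nat_lit 267) (nat_lit 154))) (XT.nd (nat_lit 78) (nat_lit 0) (nat_lit 0) (XT.lf (nat_lit 0) (nat_lit 52286745041) (nat_lit 76) (nat_lit 74523177465) (nat_lit 76) (nat_lit 40002014739) (nat_lit 4) (nat_lit 4) (nat_lit 5) (nat_lit 5) (nat_lit 5) (nat_lit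 4) (nat_lit 360) (nat_lit 267) (nat_lit 153)) (XT.nd (nat_lit 78) (nat_lit 0) (nat_lit 0) (XT.lf (nat_lit 0) (nat_lit 73010096835) (nat_lit 76) (nat_lit 68090369994) (nat_lit 76) (nat_lit 33562869195) (nat_lit 4) (nat_lit 4) (nat_lit 5) (nat_lit 5) (nat_lit 5) (nat_lit 4) (nat_lit 361) (nat_lit 267) (nat_lit 152)) (XT.lf (nat_lit 0) (nat_lit 94763197984) (nat_lit 76) (nat_lit 61338908600) (nat_lit 76) (nat_lit 26805371541) (nat_lit 4) (nat_lit 4) (nat_lit 5) (nat_lit 5) (nat_lit 5) (nat_lit 4) (nat_lit 362) (nat_lit 267) (nat_lit 151))))) (XT.nd (nat_lit 156) (nat_lit 76) (nat_lit 0) (XT.nd (nat_lit 78) (nat_lit 0) (nat_lit 0) (XT.lf (nat_lit 0) (nat_lit 117597841588) (nat_lit 76) (nat_lit 54252718374) (nat_lit 76) (nat_lit 19713432495) (nat_lit 4) (nat_lit 4) (nat_lit 5) (nat_lit 5) (nat_lit 5) (nat_lit 4) (nat_lit 363) (nat_lit 267) (nat_lit 150)) (XT.lf (nat_lit 0) (nat_lit 141568395845)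 (nat_lit 76) (nat_lit 46814927434) (nat_lit 76) (nat_lit 12270166489) (nat_lit 4) (nat_lit 4) (nat_lit 5) (nat_lit 5) (nat_lit 5) (nat_lit 4) (nat_lit 364) (nat_lit 267) (nat_lit 149))) (XT.nd (nat_lit 78) (nat_lit 76) (nat_lit 0) (XT.lf (nat_lit 0) (nat_lit 166731933504) (nat_lit 76) (nat_lit 39007826755) (nat_lit 76) (nat_lit 4457851461) (nat_lit 4) (nat_lit 4) (nat_lit 5) (nat_lit 5) (nat_lit 5) (nat_lit 4) (nat_lit 365) (nat_lit 267) (nat_lit 148)) (XT.nd (nat_lit 78) (nat_lit 0) (nat_lit 0) (XT.lf (nat_lit 0) (nat_lit 3622342341) (nat_lit 152) (nat_lit 27129139539) (nat_lit 76) (nat_lit 189464679287) (nat_lit 3) (nat_lit 5) (nat_lit 5) (nat_lit 5) (nat_lit 4) (nat_lit 4) (nat_lit 366) (nat_lit 267) (nat_lit 147)) (XT.lf (nat_lit 0) (nat_lit 11953998461) (nat_lit 152) (nat_lit 10053974061) (nat_lit 76) (nat_lit 208724149643) (nat_lit 3) (nat_lit 5) (nat_lit 5) (nat_lit 5) (nat_lit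 4) (nat_lit 4) (nat_lit 367) (nat_lit 267) (nat_lit 146))))))) (XT.nd (nat_lit 780) (nat_lit 76) (nat_lit 0) (XT.nd (nat_lit 390) (nat_lit 0) (nat_lit 0) (XT.nd (nat_lit 156) (nat_lit 0) (nat_lit 0) (XT.nd (nat_lit 78) (nat_lit 0) (nat_lit 0) (XT.lf (nat_lit 0) (nat_lit 8130293079) (nat_lit 76) (nat_lit 12696276841) (nat_lit 152) (nat_lit 220941095940) (nat_lit 2) (nat_lit 5) (nat_lit 3) (nat_lit 5) (nat_lit 4) (nat_lit 4) (nat_lit 368) (nat_lit 267) (nat_lit 145)) (XT.lf (nat_lit 0) (nat_lit 27568026749) (nat_lit 76) (nat_lit 2742457087) (nat_lit 152) (nat_lit 223036118425) (nat_lit 2) (nat_lit 5) (nat_lit 3) (nat_lit 5) (nat_lit 4) (nat_lit 4) (nat_lit 369) (nat_lit 267) (nat_lit 144))) (XT.nd (nat_lit 78) (nat_lit 0) (nat_lit 0) (XT.lf (nat_lit 0) (nat_lit 40386486663) (nat_lit 152) (nat_lit 217651857408) (nat_lit 0) (nat_lit 7460247906) (nat_lit 2) (nat_lit 5) (nat_lit 4) (nat_lit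 4) (nat_lit 2) (nat_lit 4) (nat_lit 370) (nat_lit 267) (nat_lit 143)) (XT.nd (nat_lit 78) (nat_lit 0) (nat_lit 0) (XT.lf (nat_lit 0) (nat_lit 51008898689) (nat_lit 152) (nat_lit 209168198945) (nat_lit 0) (nat_lit 18078954192) (nat_lit 2) (nat_lit 5) (nat_lit 4) (nat_lit 4) (nat_lit 2) (nat_lit 4) (nat_lit 371) (nat_lit 267) (nat_lit 142)) (XT.lf (nat_lit 0) (nat_lit 62160193932) (nat_lit 152) (nat_lit 200264583496) (nat_lit 0) (nat_lit 29226720158) (nat_lit 2) (nat_lit 5) (nat_lit 4) (nat_lit 4) (nat_lit 2) (nat_lit 4) (nat_lit 372) (nat_lit 267) (nat_lit 141))))) (XT.nd (nat_lit 156) (nat_lit 0) (nat_lit 0) (XT.nd (nat_lit 78) (nat_lit 0) (nat_lit 0) (XT.lf (nat_lit 0) (nat_lit 73866923094) (nat_lit 152) (nat_lit 190919811976) (nat_lit 0) (nat_lit 40930088104) (nat_lit 2) (nat_lit 5) (nat_lit 4) (nat_lit 4) (nat_lit 2) (nat_lit 4) (nat_lit 373) (nat_lit 267) (nat_lit 140)) (XT.lf (nat_lit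 0) (nat_lit 86156959339) (nat_lit 152) (nat_lit 181111634931) (nat_lit 0) (nat_lit 53216923192) (nat_lit 2) (nat_lit 5) (nat_lit 4) (nat_lit 4) (nat_lit 2) (nat_lit 4) (nat_lit 374) (nat_lit 267) (nat_lit 139))) (XT.nd (nat_lit 78) (nat_lit 0) (nat_lit 0) (XT.lf (nat_lit 0) (nat_lit 99059564659) (nat_lit 152) (nat_lit 170816699557) (nat_lit 0) (nat_lit 66116479790) (nat_lit 2) (nat_lit 5) (nat_lit 4) (nat_lit 4) (nat_lit 2) (nat_lit 4) (nat_lit 375) (nat_lit 267) (nat_lit 138)) (XT.nd (nat_lit 78) (nat_lit 0) (nat_lit 0) (XT.lf (nat_lit 0) (nat_lit 112605459543) (nat_lit 152) (nat_lit 160010494103) (nat_lit 0) (nat_lit 79659471130) (nat_lit 2) (nat_lit 5) (nat_lit 4) (nat_lit 4) (nat_lit 2) (nat_lit 4) (nat_lit 376) (nat_lit 267) (nat_lit 137)) (XT.lf (nat_lit 0) (nat_lit 126826896122) (nat_lit 152) (nat_lit 148667289508) (nat_lit 0) (nat_lit 93878142428) (nat_lit 2) (nat_lit 5) (nat_lit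 4) (nat_lit 4) (nat_lit 2) (nat_lit 4) (nat_lit 377) (nat_lit 267) (nat_lit 136)))))) (XT.nd (nat_lit 390) (nat_lit 76) (nat_lit 0) (XT.nd (nat_lit 156) (nat_lit 0) (nat_lit 0) (XT.nd (nat_lit 78) (nat_lit 0) (nat_lit 0) (XT.lf (nat_lit 0) (nat_lit 141757734958) (nat_lit 152) (nat_lit 136760078144) (nat_lit 0) (nat_lit 108806347663) (nat_lit 2) (nat_lit 5) (nat_lit 4) (nat_lit 4) (nat_lit 2) (nat_lit 4) (nat_lit 378) (nat_lit 267) (nat_lit 135)) (XT.lf (nat_lit 0) (nat_lit 157433525668) (nat_lit 152) (nat_lit 124260509506) (nat_lit 0) (nat_lit 124479630183) (nat_lit 2) (nat_lit 5) (nat_lit 4) (nat_lit 4) (nat_lit 2) (nat_lit 4) (nat_lit 379) (nat_lit 267) (nat_lit 134))) (XT.nd (nat_lit 78) (nat_lit 0) (nat_lit 0) (XT.lf (nat_lit 0) (nat_lit 173891591563) (nat_lit 152) (nat_lit 111138822716) (nat_lit 0) (nat_lit 140935307325) (nat_lit 2) (nat_lit 5) (nat_lit 4) (nat_lit 4) (nat_lit 2)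 (nat_lit 4) (nat_lit 380) (nat_lit 267) (nat_lit 133)) (XT.nd (nat_lit 78) (nat_lit 0) (nat_lit 0) (XT.lf (nat_lit 0) (nat_lit 191171118515) (nat_lit 152) (nat_lit 97363775664) (nat_lit 0) (nat_lit 158212559273) (nat_lit 2) (nat_lit 5) (nat_lit 4) (nat_lit 4) (nat_lit 2) (nat_lit 4) (nat_lit 381) (nat_lit 267) (nat_lit 132)) (XT.lf (nat_lit 0) (nat_lit 209313248254) (nat_lit 152) (nat_lit 82902570619) (nat_lit 0) (nat_lit 176352522343) (nat_lit 2) (nat_lit 5) (nat_lit 4) (nat_lit 4) (nat_lit 2) (nat_lit 4) (nat_lit 382) (nat_lit 267) (nat_lit 131))))) (XT.nd (nat_lit 156) (nat_lit 76) (nat_lit 0) (XT.nd (nat_lit 78) (nat_lit 0) (nat_lit 0) (XT.lf (nat_lit 0) (nat_lit 228361176327) (nat_lit 152) (nat_lit 67720776139) (nat_lit 0) (nat_lit 195398386921) (nat_lit 2) (nat_lit 5) (nat_lit 4) (nat_lit 4) (nat_lit 2) (nat_lit 4) (nat_lit 383) (nat_lit 267) (nat_lit 130)) (XT.lf (nat_lit 0) (nat_lit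 248360254944) (nat_lit 152) (nat_lit 51782245095) (nat_lit 0) (nat_lit 215395500304) (nat_lit 2) (nat_lit 5) (nat_lit 4) (nat_lit 4) (nat_lit 2) (nat_lit 4) (nat_lit 384) (nat_lit 267) (nat_lit 129))) (XT.nd (nat_lit 78) (nat_lit 76) (nat_lit 0) (XT.lf (nat_lit 0) (nat_lit 269358100958) (nat_lit 152) (nat_lit 35049028603) (nat_lit 0) (nat_lit 236391474668) (nat_lit 2) (nat_lit 5) (nat_lit 4) (nat_lit 4) (nat_lit 2) (nat_lit 4) (nat_lit 385) (nat_lit 267) (nat_lit 128)) (XT.nd (nat_lit 78) (nat_lit 76) (nat_lit 0) (XT.lf (nat_lit 0) (nat_lit 291404709242) (nat_lit 152) (nat_lit 17481285673) (nat_lit 0) (nat_lit 258436300428) (nat_lit 2) (nat_lit 5) (nat_lit 4) (nat_lit 4) (nat_lit 2) (nat_lit 4) (nat_lit 386) (nat_lit 267) (nat_lit 127)) (XT.lf (nat_lit 0) (nat_lit 994646557) (nat_lit 76) (nat_lit 313573454383) (nat_lit 76) (nat_lit 280603347926) (nat_lit 1) (nat_lit 4) (nat_lit 2) (nat_lit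 5) (nat_lit 2) (nat_lit 4) (nat_lit 387) (nat_lit 267) (nat_lit 126))))))))
noncomputable def xc131 : XT := (XT.nd (nat_lit 1560) (nat_lit 2584) (nat_lit 0) (XT.nd (nat_lit 780) (nat_lit 2432) (nat_lit 0) (XT.nd (nat_lit 390) (nat_lit 532) (nat_lit 0) (XT.nd (nat_lit 156) (nat_lit 456) (nat_lit 0) (XT.nd (nat_lit 78) (nat_lit 0) (nat_lit 0) (XT.lf (nat_lit 0) (nat_lit 1211224648) (nat_lit 532) (nat_lit 1194289469) (nat_lit 532) (nat_lit 1194289469) (nat_lit 109) (nat_lit 3) (nat_lit 116) (nat_lit 3) (nat_lit 116) (nat_lit 5) (nat_lit 268) (nat_lit 268) (nat_lit 244)) (XT.lf (nat_lit 76) (nat_lit 917388051) (nat_lit 0) (nat_lit 3103300631) (nat_lit 532) (nat_lit 3277546652) (nat_lit 110) (nat_lit 5) (nat_lit 109) (nat_lit 3) (nat_lit 116) (nat_lit 5) (nat_lit 269) (nat_lit 268) (nat_lit 243))) (XT.nd (nat_lit 78) (nat_lit 456) (nat_lit 0) (XT.lf (nat_lit 76) (nat_lit 4418543940) (nat_lit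 0) (nat_lit 1222406045) (nat_lit 532) (nat_lit 1764026072) (nat_lit 110) (nat_lit 5) (nat_lit 109) (nat_lit 3) (nat_lit 116) (nat_lit 5) (nat_lit 270) (nat_lit 268) (nat_lit 242)) (XT.nd (nat_lit 78) (nat_lit 532) (nat_lit 0) (XT.lf (nat_lit 76) (nat_lit 526671801) (nat_lit 0) (nat_lit 6742539357) (nat_lit 532) (nat_lit 251766325) (nat_lit 111) (nat_lit 5) (nat_lit 110) (nat_lit 5) (nat_lit 117) (nat_lit 5) (nat_lit 271) (nat_lit 268) (nat_lit 241)) (XT.lf (nat_lit 0) (nat_lit 1273650655) (nat_lit 532) (nat_lit 3421361177) (nat_lit 608) (nat_lit 2947956352) (nat_lit 103) (nat_lit 5) (nat_lit 110) (nat_lit 5) (nat_lit 111) (nat_lit 5) (nat_lit 272) (nat_lit 268) (nat_lit 240))))) (XT.nd (nat_lit 156) (nat_lit 532) (nat_lit 0) (XT.nd (nat_lit 78) (nat_lit 0) (nat_lit 0) (XT.lf (nat_lit 76) (nat_lit 279333960) (nat_lit 0) (nat_lit 2505107332) (nat_lit 608) (nat_lit 4990768404) (nat_lit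 104) (nat_lit 5) (nat_lit 103) (nat_lit 5) (nat_lit 111) (nat_lit 5) (nat_lit 273) (nat_lit 268) (nat_lit 239)) (XT.lf (nat_lit 76) (nat_lit 4229034624) (nat_lit 0) (nat_lit 116159318) (nat_lit 608) (nat_lit 3570372819) (nat_lit 104) (nat_lit 5) (nat_lit 103) (nat_lit 5) (nat_lit 111) (nat_lit 5) (nat_lit 274) (nat_lit 268) (nat_lit 238))) (XT.nd (nat_lit 78) (nat_lit 608) (nat_lit 0) (XT.lf (nat_lit 76) (nat_lit 226354865) (nat_lit 0) (nat_lit 5719396998) (nat_lit 608) (nat_lit 2119315342) (nat_lit 105) (nat_lit 5) (nat_lit 104) (nat_lit 5) (nat_lit 112) (nat_lit 5) (nat_lit 275) (nat_lit 268) (nat_lit 237)) (XT.nd (nat_lit 78) (nat_lit 608) (nat_lit 0) (XT.lf (nat_lit 76) (nat_lit 4405004478) (nat_lit 0) (nat_lit 3209418666) (nat_lit 608) (nat_lit 608418974) (nat_lit 105) (nat_lit 5) (nat_lit 104) (nat_lit 5) (nat_lit 112) (nat_lit 5) (nat_lit 276) (nat_lit 268) (nat_lit 236)) (XT.lf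 (nat_lit 76) (nat_lit 343948508) (nat_lit 0) (nat_lit 534171353) (nat_lit 684) (nat_lit 7513237189) (nat_lit 97) (nat_lit 5) (nat_lit 96) (nat_lit 5) (nat_lit 105) (nat_lit 5) (nat_lit 277) (nat_lit 268) (nat_lit 235)))))) (XT.nd (nat_lit 390) (nat_lit 1216) (nat_lit 0) (XT.nd (nat_lit 156) (nat_lit 684) (nat_lit 0) (XT.nd (nat_lit 78) (nat_lit 608) (nat_lit 0) (XT.lf (nat_lit 0) (nat_lit 2448721887) (nat_lit 608) (nat_lit 3824211112) (nat_lit 76) (nat_lit 2293532852) (nat_lit 97) (nat_lit 5) (nat_lit 105) (nat_lit 5) (nat_lit 98) (nat_lit 5) (nat_lit 278) (nat_lit 268) (nat_lit 234)) (XT.lf (nat_lit 0) (nat_lit 563258732) (nat_lit 608) (nat_lit 3484479221) (nat_lit 684) (nat_lit 4705265544) (nat_lit 89) (nat_lit 5) (nat_lit 97) (nat_lit 5) (nat_lit 98) (nat_lit 5) (nat_lit 279) (nat_lit 268) (nat_lit 233))) (XT.nd (nat_lit 78) (nat_lit 684) (nat_lit 0) (XT.lf (nat_lit 0) (nat_lit 5247617476)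 (nat_lit 608) (nat_lit 478544787) (nat_lit 684) (nat_lit 3222892508) (nat_lit 89) (nat_lit 5) (nat_lit 97) (nat_lit 5) (nat_lit 98) (nat_lit 5) (nat_lit 280) (nat_lit 268) (nat_lit 232)) (XT.nd (nat_lit 78) (nat_lit 0) (nat_lit 0) (XT.lf (nat_lit 0) (nat_lit 943649124) (nat_lit 684) (nat_lit 6539349825) (nat_lit 760) (nat_lit 1672337124) (nat_lit 80) (nat_lit 5) (nat_lit 89) (nat_lit 5) (nat_lit 90) (nat_lit 5) (nat_lit 281) (nat_lit 268) (nat_lit 231)) (XT.lf (nat_lit 0) (nat_lit 5886261882) (nat_lit 684) (nat_lit 3451865593) (nat_lit 760) (nat_lit 33426243) (nat_lit 80) (nat_lit 5) (nat_lit 89) (nat_lit 5) (nat_lit 90) (nat_lit 5) (nat_lit 282) (nat_lit 268) (nat_lit 230))))) (XT.nd (nat_lit 156) (nat_lit 684) (nat_lit 0) (XT.nd (nat_lit 78) (nat_lit 0) (nat_lit 0) (XT.lf (nat_lit 0) (nat_lit 1442694156) (nat_lit 456) (nat_lit 155083562) (nat_lit 532) (nat_lit 8001400781) (nat_lit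 73) (nat_lit 5) (nat_lit 79) (nat_lit 5) (nat_lit 80) (nat_lit 5) (nat_lit 283) (nat_lit 268) (nat_lit 229)) (XT.lf (nat_lit 0) (nat_lit 3364838731) (nat_lit 532) (nat_lit 3206947719) (nat_lit 76) (nat_lit 3263724728) (nat_lit 73) (nat_lit 5) (nat_lit 80) (nat_lit 5) (nat_lit 74) (nat_lit 5) (nat_lit 284) (nat_lit 268) (nat_lit 228))) (XT.nd (nat_lit 78) (nat_lit 304) (nat_lit 0) (XT.lf (nat_lit 0) (nat_lit 1997498227) (nat_lit 380) (nat_lit 3202962652) (nat_lit 456) (nat_lit 4884308317) (nat_lit 68) (nat_lit 5) (nat_lit 73) (nat_lit 5) (nat_lit 74) (nat_lit 5) (nat_lit 285) (nat_lit 268) (nat_lit 227)) (XT.nd (nat_lit 78) (nat_lit 304) (nat_lit 0) (XT.lf (nat_lit 0) (nat_lit 7136463965) (nat_lit 456) (nat_lit 2832150546) (nat_lit 76) (nat_lit 377559053) (nat_lit 68) (nat_lit 5) (nat_lit 74) (nat_lit 5) (nat_lit 69) (nat_lit 5) (nat_lit 286) (nat_lit 268) (nat_lit 226)) (XT.lf (nat_lit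 0) (nat_lit 2665413231) (nat_lit 304) (nat_lit 6548622674) (nat_lit 380) (nat_lit 1404481846) (nat_lit 64) (nat_lit 5) (nat_lit 68) (nat_lit 5) (nat_lit 69) (nat_lit 5) (nat_lit 287) (nat_lit 268) (nat_lit 225))))))) (XT.nd (nat_lit 780) (nat_lit 1140) (nat_lit 0) (XT.nd (nat_lit 390) (nat_lit 836) (nat_lit 0) (XT.nd (nat_lit 156) (nat_lit 228) (nat_lit 0) (XT.nd (nat_lit 78) (nat_lit 304) (nat_lit 0) (XT.lf (nat_lit 0) (nat_lit 475339418) (nat_lit 380) (nat_lit 2428318765) (nat_lit 76) (nat_lit 8000533288) (nat_lit 63) (nat_lit 5) (nat_lit 68) (nat_lit 5) (nat_lit 64) (nat_lit 5) (nat_lit 288) (nat_lit 268) (nat_lit 224)) (XT.lf (nat_lit 0) (nat_lit 2424357117) (nat_lit 380) (nat_lit 7810999366) (nat_lit 76) (nat_lit 966614247) (nat_lit 59) (nat_lit 5) (nat_lit 64) (nat_lit 5) (nat_lit 60) (nat_lit 5) (nat_lit 289) (nat_lit 268) (nat_lit 223))) (XT.nd (nat_lit 78) (nat_lit 228) (nat_lit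 0) (XT.lf (nat_lit 0) (nat_lit 4515173803) (nat_lit 380) (nat_lit 2028143477) (nat_lit 76) (nat_lit 4969193148) (nat_lit 59) (nat_lit 5) (nat_lit 64) (nat_lit 5) (nat_lit 60) (nat_lit 5) (nat_lit 290) (nat_lit 268) (nat_lit 222)) (XT.nd (nat_lit 78) (nat_lit 0) (nat_lit 0) (XT.lf (nat_lit 0) (nat_lit 4125597835) (nat_lit 228) (nat_lit 2606439174) (nat_lit 304) (nat_lit 5105549471) (nat_lit 56) (nat_lit 5) (nat_lit 59) (nat_lit 5) (nat_lit 60) (nat_lit 5) (nat_lit 291) (nat_lit 268) (nat_lit 221)) (XT.lf (nat_lit 0) (nat_lit 9076740582) (nat_lit 304) (nat_lit 1595699137) (nat_lit 76) (nat_lit 1505707372) (nat_lit 56) (nat_lit 5) (nat_lit 60) (nat_lit 5) (nat_lit 57) (nat_lit 5) (nat_lit 292) (nat_lit 268) (nat_lit 220))))) (XT.nd (nat_lit 156) (nat_lit 456) (nat_lit 0) (XT.nd (nat_lit 78) (nat_lit 76) (nat_lit 0) (XT.lf (nat_lit 0) (nat_lit 4891146699) (nat_lit 304) (nat_lit 6726855534)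 (nat_lit 380) (nat_lit 913844134) (nat_lit 52) (nat_lit 5) (nat_lit 56) (nat_lit 5) (nat_lit 57) (nat_lit 5) (nat_lit 293) (nat_lit 268) (nat_lit 219)) (XT.lf (nat_lit 0) (nat_lit 1326961352) (nat_lit 380) (nat_lit 1215838061) (nat_lit 76) (nat_lit 10360014501) (nat_lit 51) (nat_lit 5) (nat_lit 56) (nat_lit 5) (nat_lit 52) (nat_lit 5) (nat_lit 294) (nat_lit 268) (nat_lit 218))) (XT.nd (nat_lit 78) (nat_lit 228) (nat_lit 0) (XT.lf (nat_lit 0) (nat_lit 3730257015) (nat_lit 304) (nat_lit 7670748073) (nat_lit 76) (nat_lit 1886583969) (nat_lit 48) (nat_lit 5) (nat_lit 52) (nat_lit 5) (nat_lit 49) (nat_lit 5) (nat_lit 295) (nat_lit 268) (nat_lit 217)) (XT.nd (nat_lit 78) (nat_lit 228) (nat_lit 0) (XT.lf (nat_lit 0) (nat_lit 6279769238) (nat_lit 304) (nat_lit 947484572) (nat_lit 76) (nat_lit 6463109727) (nat_lit 48) (nat_lit 5) (nat_lit 52) (nat_lit 5) (nat_lit 49) (nat_lit 5) (nat_lit 296)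 (nat_lit 268) (nat_lit 216)) (XT.lf (nat_lit 0) (nat_lit 6266555294) (nat_lit 228) (nat_lit 2753219487) (nat_lit 304) (nat_lit 5090411233) (nat_lit 45) (nat_lit 5) (nat_lit 48) (nat_lit 5) (nat_lit 49) (nat_lit 5) (nat_lit 297) (nat_lit 268) (nat_lit 215)))))) (XT.nd (nat_lit 390) (nat_lit 608) (nat_lit 0) (XT.nd (nat_lit 156) (nat_lit 228) (nat_lit 0) (XT.nd (nat_lit 78) (nat_lit 304) (nat_lit 0) (XT.lf (nat_lit 0) (nat_lit 11909403401) (nat_lit 304) (nat_lit 753416109) (nat_lit 76) (nat_lit 1887606261) (nat_lit 45) (nat_lit 5) (nat_lit 49) (nat_lit 5) (nat_lit 46) (nat_lit 5) (nat_lit 298) (nat_lit 268) (nat_lit 214)) (XT.lf (nat_lit 0) (nat_lit 54138606) (nat_lit 304) (nat_lit 8187752285) (nat_lit 76) (nat_lit 6764838134) (nat_lit 41) (nat_lit 5) (nat_lit 45) (nat_lit 5) (nat_lit 42) (nat_lit 5) (nat_lit 299) (nat_lit 268) (nat_lit 213))) (XT.nd (nat_lit 78) (nat_lit 228) (nat_lit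 0) (XT.lf (nat_lit 0) (nat_lit 2776137882) (nat_lit 304) (nat_lit 777521255) (nat_lit 76) (nat_lit 11931031228) (nat_lit 41) (nat_lit 5) (nat_lit 45) (nat_lit 5) (nat_lit 42) (nat_lit 5) (nat_lit 300) (nat_lit 268) (nat_lit 212)) (XT.nd (nat_lit 78) (nat_lit 0) (nat_lit 0) (XT.lf (nat_lit 0) (nat_lit 5738922642) (nat_lit 304) (nat_lit 8814986061) (nat_lit 76) (nat_lit 1427453931) (nat_lit 38) (nat_lit 5) (nat_lit 42) (nat_lit 5) (nat_lit 39) (nat_lit 5) (nat_lit 301) (nat_lit 268) (nat_lit 211)) (XT.lf (nat_lit 0) (nat_lit 8891491608) (nat_lit 304) (nat_lit 1069684474) (nat_lit 76) (nat_lit 6539655079) (nat_lit 38) (nat_lit 5) (nat_lit 42) (nat_lit 5) (nat_lit 39) (nat_lit 5) (nat_lit 302) (nat_lit 268) (nat_lit 210))))) (XT.nd (nat_lit 234) (nat_lit 152) (nat_lit 0) (XT.nd (nat_lit 78) (nat_lit 304) (nat_lit 0) (XT.lf (nat_lit 0) (nat_lit 7253649173) (nat_lit 152) (nat_lit 5032722685)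 (nat_lit 228) (nat_lit 4755709867) (nat_lit 36) (nat_lit 5) (nat_lit 38) (nat_lit 5) (nat_lit 39) (nat_lit 5) (nat_lit 303) (nat_lit 268) (nat_lit 209)) (XT.nd (nat_lit 78) (nat_lit 304) (nat_lit 0) (XT.lf (nat_lit 0) (nat_lit 15843584473) (nat_lit 228) (nat_lit 1623677998) (nat_lit 76) (nat_lit 143543647) (nat_lit 36) (nat_lit 5) (nat_lit 39) (nat_lit 5) (nat_lit 37) (nat_lit 5) (nat_lit 304) (nat_lit 268) (nat_lit 208)) (XT.lf (nat_lit 0) (nat_lit 1495408422) (nat_lit 304) (nat_lit 11171253647) (nat_lit 76) (nat_lit 5531842172) (nat_lit 32) (nat_lit 5) (nat_lit 36) (nat_lit 5) (nat_lit 33) (nat_lit 5) (nat_lit 305) (nat_lit 268) (nat_lit 207)))) (XT.nd (nat_lit 78) (nat_lit 152) (nat_lit 0) (XT.lf (nat_lit 0) (nat_lit 4863215240) (nat_lit 304) (nat_lit 2716766294) (nat_lit 76) (nat_lit 11234120594) (nat_lit 32) (nat_lit 5) (nat_lit 36) (nat_lit 5) (nat_lit 33) (nat_lit 5) (nat_lit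 306) (nat_lit 268) (nat_lit 206)) (XT.nd (nat_lit 78) (nat_lit 0) (nat_lit 0) (XT.lf (nat_lit 0) (nat_lit 6324558084) (nat_lit 152) (nat_lit 2148347845) (nat_lit 228) (nat_lit 10983932803) (nat_lit 30) (nat_lit 5) (nat_lit 32) (nat_lit 5) (nat_lit 33) (nat_lit 5) (nat_lit 307) (nat_lit 268) (nat_lit 205)) (XT.lf (nat_lit 0) (nat_lit 12340506073) (nat_lit 228) (nat_lit 4312153324) (nat_lit 76) (nat_lit 3475213426) (nat_lit 30) (nat_lit 5) (nat_lit 33) (nat_lit 5) (nat_lit 31) (nat_lit 5) (nat_lit 308) (nat_lit 268) (nat_lit 204))))))))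
noncomputable def xc132 : XT := (XT.nd (nat_lit 1560) (nat_lit 532) (nat_lit 0) (XT.nd (nat_lit 780) (nat_lit 380) (nat_lit 0) (XT.nd (nat_lit 390) (nat_lit 304) (nat_lit 0) (XT.nd (nat_lit 156) (nat_lit 380) (nat_lit 0) (XT.nd (nat_lit 78) (nat_lit 0) (nat_lit 0) (XT.lf (nat_lit 0) (nat_lit 5038103155) (nat_lit 152) (nat_lit 11453603143) (nat_lit 228) (nat_lit 4336271702) (nat_lit 28) (nat_lit 5) (nat_lit 30) (nat_lit 5) (nat_lit 31) (nat_lit 5) (nat_lit 309) (nat_lit 268) (nat_lit 203)) (XT.lf (nat_lit 0) (nat_lit 14969266837) (nat_lit 152) (nat_lit 5931130044) (nat_lit 228) (nat_lit 660223975) (nat_lit 28) (nat_lit 5) (nat_lit 30) (nat_lit 5) (nat_lit 31) (nat_lit 5) (nat_lit 310) (nat_lit 268) (nat_lit 202))) (XT.nd (nat_lit 78) (nat_lit 152) (nat_lit 0) (XT.lf (nat_lit 0) (nat_lit 3080378021) (nat_lit 152) (nat_lit 42547978) (nat_lit 228) (nat_lit 19203212953) (nat_lit 25) (nat_lit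 5) (nat_lit 27) (nat_lit 5) (nat_lit 28) (nat_lit 5) (nat_lit 311) (nat_lit 268) (nat_lit 201)) (XT.nd (nat_lit 78) (nat_lit 152) (nat_lit 0) (XT.lf (nat_lit 0) (nat_lit 7260308994) (nat_lit 228) (nat_lit 9804038400) (nat_lit 76) (nat_lit 6055706220) (nat_lit 25) (nat_lit 5) (nat_lit 28) (nat_lit 5) (nat_lit 26) (nat_lit 5) (nat_lit 312) (nat_lit 268) (nat_lit 200)) (XT.lf (nat_lit 0) (nat_lit 77557667) (nat_lit 152) (nat_lit 11507898350) (nat_lit 228) (nat_lit 12369187055) (nat_lit 23) (nat_lit 5) (nat_lit 25) (nat_lit 5) (nat_lit 26) (nat_lit 5) (nat_lit 313) (nat_lit 268) (nat_lit 199))))) (XT.nd (nat_lit 156) (nat_lit 304) (nat_lit 0) (XT.nd (nat_lit 78) (nat_lit 0) (nat_lit 0) (XT.lf (nat_lit 0) (nat_lit 10760158548) (nat_lit 152) (nat_lit 5512202868) (nat_lit 228) (nat_lit 8551348209) (nat_lit 23) (nat_lit 5) (nat_lit 25) (nat_lit 5) (nat_lit 26) (nat_lit 5) (nat_lit 314) (nat_lit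 268) (nat_lit 198)) (XT.lf (nat_lit 0) (nat_lit 21186091969) (nat_lit 228) (nat_lit 3804232877) (nat_lit 76) (nat_lit 746302259) (nat_lit 23) (nat_lit 5) (nat_lit 26) (nat_lit 5) (nat_lit 24) (nat_lit 4) (nat_lit 315) (nat_lit 268) (nat_lit 197))) (XT.nd (nat_lit 78) (nat_lit 228) (nat_lit 0) (XT.lf (nat_lit 0) (nat_lit 7072957799) (nat_lit 76) (nat_lit 19454535096) (nat_lit 152) (nat_lit 158618938) (nat_lit 22) (nat_lit 5) (nat_lit 23) (nat_lit 5) (nat_lit 24) (nat_lit 4) (nat_lit 316) (nat_lit 268) (nat_lit 196)) (XT.nd (nat_lit 78) (nat_lit 152) (nat_lit 0) (XT.lf (nat_lit 0) (nat_lit 4357143905) (nat_lit 152) (nat_lit 9155589266) (nat_lit 76) (nat_lit 14164541612) (nat_lit 21) (nat_lit 5) (nat_lit 23) (nat_lit 5) (nat_lit 22) (nat_lit 5) (nat_lit 317) (nat_lit 268) (nat_lit 195)) (XT.lf (nat_lit 0) (nat_lit 1851765424) (nat_lit 152) (nat_lit 7252689624) (nat_lit 228) (nat_lit 19612874041)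 (nat_lit 19) (nat_lit 5) (nat_lit 21) (nat_lit 5) (nat_lit 22) (nat_lit 5) (nat_lit 318) (nat_lit 268) (nat_lit 194)))))) (XT.nd (nat_lit 390) (nat_lit 228) (nat_lit 0) (XT.nd (nat_lit 156) (nat_lit 152) (nat_lit 0) (XT.nd (nat_lit 78) (nat_lit 0) (nat_lit 0) (XT.lf (nat_lit 0) (nat_lit 13698073108) (nat_lit 152) (nat_lit 528684033) (nat_lit 228) (nat_lit 15575764619) (nat_lit 19) (nat_lit 5) (nat_lit 21) (nat_lit 5) (nat_lit 22) (nat_lit 5) (nat_lit 319) (nat_lit 268) (nat_lit 193)) (XT.lf (nat_lit 0) (nat_lit 19690374548) (nat_lit 228) (nat_lit 4935805180) (nat_lit 76) (nat_lit 6311550441) (nat_lit 19) (nat_lit 5) (nat_lit 22) (nat_lit 5) (nat_lit 20) (nat_lit 4) (nat_lit 320) (nat_lit 268) (nat_lit 192))) (XT.nd (nat_lit 78) (nat_lit 76) (nat_lit 0) (XT.lf (nat_lit 0) (nat_lit 6978775604) (nat_lit 76) (nat_lit 18550046081) (nat_lit 152) (nat_lit 6595810216) (nat_lit 18) (nat_lit 5)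 (nat_lit 19) (nat_lit 5) (nat_lit 20) (nat_lit 4) (nat_lit 321) (nat_lit 268) (nat_lit 191)) (XT.nd (nat_lit 78) (nat_lit 76) (nat_lit 0) (XT.lf (nat_lit 0) (nat_lit 19633691710) (nat_lit 76) (nat_lit 12093456460) (nat_lit 152) (nat_lit 1640347315) (nat_lit 18) (nat_lit 5) (nat_lit 19) (nat_lit 5) (nat_lit 20) (nat_lit 4) (nat_lit 322) (nat_lit 268) (nat_lit 190)) (XT.lf (nat_lit 0) (nat_lit 3433707669) (nat_lit 152) (nat_lit 1832769111) (nat_lit 76) (nat_lit 29404014710) (nat_lit 17) (nat_lit 5) (nat_lit 19) (nat_lit 5) (nat_lit 18) (nat_lit 5) (nat_lit 323) (nat_lit 268) (nat_lit 189))))) (XT.nd (nat_lit 156) (nat_lit 76) (nat_lit 0) (XT.nd (nat_lit 78) (nat_lit 0) (nat_lit 0) (XT.lf (nat_lit 0) (nat_lit 8895848450) (nat_lit 228) (nat_lit 25099707358) (nat_lit 76) (nat_lit 2032274092) (nat_lit 15) (nat_lit 5) (nat_lit 18) (nat_lit 5) (nat_lit 16) (nat_lit 4) (nat_lit 324) (nat_lit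 268) (nat_lit 188)) (XT.lf (nat_lit 0) (nat_lit 14734701291) (nat_lit 228) (nat_lit 13172554238) (nat_lit 76) (nat_lit 9540611473) (nat_lit 15) (nat_lit 5) (nat_lit 18) (nat_lit 5) (nat_lit 16) (nat_lit 4) (nat_lit 325) (nat_lit 268) (nat_lit 187))) (XT.nd (nat_lit 78) (nat_lit 76) (nat_lit 0) (XT.lf (nat_lit 0) (nat_lit 20851898366) (nat_lit 228) (nat_lit 672771858) (nat_lit 76) (nat_lit 17414927109) (nat_lit 15) (nat_lit 5) (nat_lit 18) (nat_lit 5) (nat_lit 16) (nat_lit 4) (nat_lit 326) (nat_lit 268) (nat_lit 186)) (XT.nd (nat_lit 78) (nat_lit 0) (nat_lit 0) (XT.lf (nat_lit 0) (nat_lit 12840373303) (nat_lit 76) (nat_lit 14622105339) (nat_lit 152) (nat_lit 13034070277) (nat_lit 14) (nat_lit 5) (nat_lit 15) (nat_lit 5) (nat_lit 16) (nat_lit 4) (nat_lit 327) (nat_lit 268) (nat_lit 185)) (XT.lf (nat_lit 0) (nat_lit 27030298864) (nat_lit 76) (nat_lit 7372001494) (nat_lit 152) (nat_lit 7729122493)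 (nat_lit 14) (nat_lit 5) (nat_lit 15) (nat_lit 5) (nat_lit 16) (nat_lit 4) (nat_lit 328) (nat_lit 268) (nat_lit 184))))))) (XT.nd (nat_lit 780) (nat_lit 152) (nat_lit 0) (XT.nd (nat_lit 390) (nat_lit 152) (nat_lit 0) (XT.nd (nat_lit 156) (nat_lit 76) (nat_lit 0) (XT.nd (nat_lit 78) (nat_lit 152) (nat_lit 0) (XT.lf (nat_lit 0) (nat_lit 41680650255) (nat_lit 152) (nat_lit 1943723275) (nat_lit 0) (nat_lit 224099986) (nat_lit 14) (nat_lit 5) (nat_lit 16) (nat_lit 4) (nat_lit 14) (nat_lit 4) (nat_lit 329) (nat_lit 268) (nat_lit 183)) (XT.lf (nat_lit 0) (nat_lit 3857321254) (nat_lit 152) (nat_lit 33580752273) (nat_lit 76) (nat_lit 8195281379) (nat_lit 12) (nat_lit 5) (nat_lit 14) (nat_lit 5) (nat_lit 13) (nat_lit 4) (nat_lit 330) (nat_lit 268) (nat_lit 182))) (XT.nd (nat_lit 78) (nat_lit 76) (nat_lit 0) (XT.lf (nat_lit 0) (nat_lit 10132731782) (nat_lit 152) (nat_lit 20746361240) (nat_lit 76)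 (nat_lit 16625525893) (nat_lit 12) (nat_lit 5) (nat_lit 14) (nat_lit 5) (nat_lit 13) (nat_lit 4) (nat_lit 331) (nat_lit 268) (nat_lit 181)) (XT.nd (nat_lit 78) (nat_lit 76) (nat_lit 0) (XT.lf (nat_lit 0) (nat_lit 16710869341) (nat_lit 152) (nat_lit 7289941671) (nat_lit 76) (nat_lit 25469195425) (nat_lit 12) (nat_lit 5) (nat_lit 14) (nat_lit 5) (nat_lit 13) (nat_lit 4) (nat_lit 332) (nat_lit 268) (nat_lit 180)) (XT.lf (nat_lit 0) (nat_lit 7046063566) (nat_lit 76) (nat_lit 16671341397) (nat_lit 152) (nat_lit 27811291563) (nat_lit 11) (nat_lit 5) (nat_lit 12) (nat_lit 5) (nat_lit 13) (nat_lit 4) (nat_lit 333) (nat_lit 268) (nat_lit 179))))) (XT.nd (nat_lit 156) (nat_lit 152) (nat_lit 0) (XT.nd (nat_lit 78) (nat_lit 0) (nat_lit 0) (XT.lf (nat_lit 0) (nat_lit 22333508505) (nat_lit 76) (nat_lit 8853912707) (nat_lit 152) (nat_lit 22497249598) (nat_lit 11) (nat_lit 5) (nat_lit 12) (nat_lit 5)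 (nat_lit 13) (nat_lit 4) (nat_lit 334) (nat_lit 268) (nat_lit 178)) (XT.lf (nat_lit 0) (nat_lit 38367753429) (nat_lit 76) (nat_lit 653370705) (nat_lit 152) (nat_lit 16927817411) (nat_lit 11) (nat_lit 5) (nat_lit 12) (nat_lit 5) (nat_lit 13) (nat_lit 4) (nat_lit 335) (nat_lit 268) (nat_lit 177))) (XT.nd (nat_lit 78) (nat_lit 152) (nat_lit 0) (XT.lf (nat_lit 0) (nat_lit 47361284213) (nat_lit 152) (nat_lit 3264043549) (nat_lit 0) (nat_lit 7695366149) (nat_lit 11) (nat_lit 5) (nat_lit 13) (nat_lit 4) (nat_lit 11) (nat_lit 4) (nat_lit 336) (nat_lit 268) (nat_lit 176)) (XT.nd (nat_lit 78) (nat_lit 76) (nat_lit 0) (XT.lf (nat_lit 0) (nat_lit 12130209554) (nat_lit 76) (nat_lit 44179328725) (nat_lit 76) (nat_lit 4491947695) (nat_lit 10) (nat_lit 4) (nat_lit 11) (nat_lit 5) (nat_lit 11) (nat_lit 4) (nat_lit 337) (nat_lit 268) (nat_lit 175)) (XT.lf (nat_lit 0) (nat_lit 2272509802) (nat_lit 152)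 (nat_lit 35049176854) (nat_lit 76) (nat_lit 26080482106) (nat_lit 9) (nat_lit 5) (nat_lit 11) (nat_lit 5) (nat_lit 10) (nat_lit 4) (nat_lit 338) (nat_lit 268) (nat_lit 174)))))) (XT.nd (nat_lit 390) (nat_lit 76) (nat_lit 0) (XT.nd (nat_lit 156) (nat_lit 76) (nat_lit 0) (XT.nd (nat_lit 78) (nat_lit 0) (nat_lit 0) (XT.lf (nat_lit 0) (nat_lit 9215675841) (nat_lit 152) (nat_lit 20835154018) (nat_lit 76) (nat_lit 36078807187) (nat_lit 9) (nat_lit 5) (nat_lit 11) (nat_lit 5) (nat_lit 10) (nat_lit 4) (nat_lit 339) (nat_lit 268) (nat_lit 173)) (XT.lf (nat_lit 0) (nat_lit 16497852147) (nat_lit 152) (nat_lit 5925233109) (nat_lit 76) (nat_lit 46570806136) (nat_lit 9) (nat_lit 5) (nat_lit 11) (nat_lit 5) (nat_lit 10) (nat_lit 4) (nat_lit 340) (nat_lit 268) (nat_lit 172))) (XT.nd (nat_lit 78) (nat_lit 0) (nat_lit 0) (XT.lf (nat_lit 0) (nat_lit 10037343357) (nat_lit 76) (nat_lit 14255744937) (nat_lit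 152) (nat_lit 47700827606) (nat_lit 8) (nat_lit 5) (nat_lit 9) (nat_lit 5) (nat_lit 10) (nat_lit 4) (nat_lit 341) (nat_lit 268) (nat_lit 171)) (XT.nd (nat_lit 78) (nat_lit 0) (nat_lit 0) (XT.lf (nat_lit 0) (nat_lit 26989888590) (nat_lit 76) (nat_lit 5580937279) (nat_lit 152) (nat_lit 42568483541) (nat_lit 8) (nat_lit 5) (nat_lit 9) (nat_lit 5) (nat_lit 10) (nat_lit 4) (nat_lit 342) (nat_lit 268) (nat_lit 170)) (XT.lf (nat_lit 0) (nat_lit 41310188249) (nat_lit 152) (nat_lit 33720471295) (nat_lit 0) (nat_lit 3408930688) (nat_lit 8) (nat_lit 5) (nat_lit 10) (nat_lit 4) (nat_lit 8) (nat_lit 4) (nat_lit 343) (nat_lit 268) (nat_lit 169))))) (XT.nd (nat_lit 156) (nat_lit 76) (nat_lit 0) (XT.nd (nat_lit 78) (nat_lit 0) (nat_lit 0) (XT.lf (nat_lit 0) (nat_lit 50571020984) (nat_lit 152) (nat_lit 18674406873) (nat_lit 0) (nat_lit 12655236443) (nat_lit 8) (nat_lit 5) (nat_lit 10) (nat_lit 4) (nat_lit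 8) (nat_lit 4) (nat_lit 344) (nat_lit 268) (nat_lit 168)) (XT.lf (nat_lit 0) (nat_lit 60288239605) (nat_lit 152) (nat_lit 2888269518) (nat_lit 0) (nat_lit 22358619844) (nat_lit 8) (nat_lit 5) (nat_lit 10) (nat_lit 4) (nat_lit 8) (nat_lit 4) (nat_lit 345) (nat_lit 268) (nat_lit 167))) (XT.nd (nat_lit 78) (nat_lit 0) (nat_lit 0) (XT.lf (nat_lit 0) (nat_lit 14127701486) (nat_lit 76) (nat_lit 56577851874) (nat_lit 76) (nat_lit 18635055714) (nat_lit 7) (nat_lit 4) (nat_lit 8) (nat_lit 5) (nat_lit 8) (nat_lit 4) (nat_lit 346) (nat_lit 268) (nat_lit 166)) (XT.nd (nat_lit 78) (nat_lit 0) (nat_lit 0) (XT.lf (nat_lit 0) (nat_lit 32083285212) (nat_lit 76) (nat_lit 49603145948) (nat_lit 76) (nat_lit 11647800836) (nat_lit 7) (nat_lit 4) (nat_lit 8) (nat_lit 5) (nat_lit 8) (nat_lit 4) (nat_lit 347) (nat_lit 268) (nat_lit 165)) (XT.lf (nat_lit 0) (nat_lit 50925733814) (nat_lit 76) (nat_lit 42284699145)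 (nat_lit 76) (nat_lit 4317402650) (nat_lit 7) (nat_lit 4) (nat_lit 8) (nat_lit 5) (nat_lit 8) (nat_lit 4) (nat_lit 348) (nat_lit 268) (nat_lit 164))))))))
noncomputable def xc133 : XT := (XT.nd (nat_lit 1560) (nat_lit 76) (nat_lit 0) (XT.nd (nat_lit 780) (nat_lit 152) (nat_lit 0) (XT.nd (nat_lit 390) (nat_lit 0) (nat_lit 0) (XT.nd (nat_lit 156) (nat_lit 76) (nat_lit 0) (XT.nd (nat_lit 78) (nat_lit 0) (nat_lit 0) (XT.lf (nat_lit 0) (nat_lit 3265616154) (nat_lit 152) (nat_lit 31284165648) (nat_lit 76) (nat_lit 67378989322) (nat_lit 6) (nat_lit 5) (nat_lit 8) (nat_lit 5) (nat_lit 7) (nat_lit 4) (nat_lit 349) (nat_lit 268) (nat_lit 163)) (XT.lf (nat_lit 0) (nat_lit 11077232201) (nat_lit 152) (nat_lit 15281193007) (nat_lit 76) (nat_lit 80188065451) (nat_lit 6) (nat_lit 5) (nat_lit 8) (nat_lit 5) (nat_lit 7) (nat_lit 4) (nat_lit 350) (nat_lit 268) (nat_lit 162))) (XT.nd (nat_lit 78) (nat_lit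 0) (nat_lit 0) (XT.lf (nat_lit 0) (nat_lit 1562329498) (nat_lit 76) (nat_lit 17736291269) (nat_lit 152) (nat_lit 92095518740) (nat_lit 5) (nat_lit 5) (nat_lit 6) (nat_lit 5) (nat_lit 7) (nat_lit 4) (nat_lit 351) (nat_lit 268) (nat_lit 161)) (XT.nd (nat_lit 78) (nat_lit 0) (nat_lit 0) (XT.lf (nat_lit 0) (nat_lit 19769108464) (nat_lit 76) (nat_lit 8415664204) (nat_lit 152) (nat_lit 88286716215) (nat_lit 5) (nat_lit 5) (nat_lit 6) (nat_lit 5) (nat_lit 7) (nat_lit 4) (nat_lit 352) (nat_lit 268) (nat_lit 160)) (XT.lf (nat_lit 0) (nat_lit 37531714970) (nat_lit 152) (nat_lit 82947063563) (nat_lit 0) (nat_lit 1323105705) (nat_lit 5) (nat_lit 5) (nat_lit 7) (nat_lit 4) (nat_lit 5) (nat_lit 4) (nat_lit 353) (nat_lit 268) (nat_lit 159))))) (XT.nd (nat_lit 156) (nat_lit 0) (nat_lit 0) (XT.nd (nat_lit 78) (nat_lit 0) (nat_lit 0) (XT.lf (nat_lit 0) (nat_lit 47479278231) (nat_lit 152) (nat_lit 68650684618)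 (nat_lit 0) (nat_lit 11262175342) (nat_lit 5) (nat_lit 5) (nat_lit 7) (nat_lit 4) (nat_lit 5) (nat_lit 4) (nat_lit 354) (nat_lit 268) (nat_lit 158)) (XT.lf (nat_lit 0) (nat_lit 57919755023) (nat_lit 152) (nat_lit 53647812486) (nat_lit 0) (nat_lit 21694562968) (nat_lit 5) (nat_lit 5) (nat_lit 7) (nat_lit 4) (nat_lit 5) (nat_lit 4) (nat_lit 355) (nat_lit 268) (nat_lit 157))) (XT.nd (nat_lit 78) (nat_lit 0) (nat_lit 0) (XT.lf (nat_lit 0) (nat_lit 68878003625) (nat_lit 152) (nat_lit 37902726043) (nat_lit 0) (nat_lit 32645107601) (nat_lit 5) (nat_lit 5) (nat_lit 7) (nat_lit 4) (nat_lit 5) (nat_lit 4) (nat_lit 356) (nat_lit 268) (nat_lit 156)) (XT.nd (nat_lit 78) (nat_lit 0) (nat_lit 0) (XT.lf (nat_lit 0) (nat_lit 80380115104) (nat_lit 152) (nat_lit 21377936986) (nat_lit 0) (nat_lit 44139881968) (nat_lit 5) (nat_lit 5) (nat_lit 7) (nat_lit 4) (nat_lit 5) (nat_lit 4) (nat_lit 357) (nat_lit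 268) (nat_lit 155)) (XT.lf (nat_lit 0) (nat_lit 92453475439) (nat_lit 152) (nat_lit 4034100580) (nat_lit 0) (nat_lit 56206254577) (nat_lit 5) (nat_lit 5) (nat_lit 7) (nat_lit 4) (nat_lit 5) (nat_lit 4) (nat_lit 358) (nat_lit 268) (nat_lit 154)))))) (XT.nd (nat_lit 390) (nat_lit 76) (nat_lit 0) (XT.nd (nat_lit 156) (nat_lit 0) (nat_lit 0) (XT.nd (nat_lit 78) (nat_lit 0) (nat_lit 0) (XT.lf (nat_lit 0) (nat_lit 14638604796) (nat_lit 76) (nat_lit 90716775577) (nat_lit 76) (nat_lit 54462899738) (nat_lit 4) (nat_lit 4) (nat_lit 5) (nat_lit 5) (nat_lit 5) (nat_lit 4) (nat_lit 359) (nat_lit 268) (nat_lit 153)) (XT.lf (nat_lit 0) (nat_lit 34378261159) (nat_lit 76) (nat_lit 84588835467) (nat_lit 76) (nat_lit 48328621555) (nat_lit 4) (nat_lit 4) (nat_lit 5) (nat_lit 5) (nat_lit 5) (nat_lit 4) (nat_lit 360) (nat_lit 268) (nat_lit 152))) (XT.nd (nat_lit 78) (nat_lit 0) (nat_lit 0) (XT.lf (nat_lit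 0) (nat_lit 55098482106) (nat_lit 76) (nat_lit 78157484802) (nat_lit 76) (nat_lit 41891234629) (nat_lit 4) (nat_lit 4) (nat_lit 5) (nat_lit 5) (nat_lit 5) (nat_lit 4) (nat_lit 361) (nat_lit 268) (nat_lit 151)) (XT.nd (nat_lit 78) (nat_lit 0) (nat_lit 0) (XT.lf (nat_lit 0) (nat_lit 76848601498) (nat_lit 76) (nat_lit 71407410840) (nat_lit 76) (nat_lit 35135411848) (nat_lit 4) (nat_lit 4) (nat_lit 5) (nat_lit 5) (nat_lit 5) (nat_lit 4) (nat_lit 362) (nat_lit 268) (nat_lit 150)) (XT.lf (nat_lit 0) (nat_lit 99680405333) (nat_lit 76) (nat_lit 64322541979) (nat_lit 76) (nat_lit 28045067920) (nat_lit 4) (nat_lit 4) (nat_lit 5) (nat_lit 5) (nat_lit 5) (nat_lit 4) (nat_lit 363) (nat_lit 268) (nat_lit 149))))) (XT.nd (nat_lit 156) (nat_lit 76) (nat_lit 0) (XT.nd (nat_lit 78) (nat_lit 0) (nat_lit 0) (XT.lf (nat_lit 0) (nat_lit 123648255048) (nat_lit 76) (nat_lit 56886009482) (nat_lit 76) (nat_lit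 20603321074) (nat_lit 4) (nat_lit 4) (nat_lit 5) (nat_lit 5) (nat_lit 5) (nat_lit 4) (nat_lit 364) (nat_lit 268) (nat_lit 148)) (XT.lf (nat_lit 0) (nat_lit 148809216952) (nat_lit 76) (nat_lit 49080107319) (nat_lit 76) (nat_lit 12792452865) (nat_lit 4) (nat_lit 4) (nat_lit 5) (nat_lit 5) (nat_lit 5) (nat_lit 4) (nat_lit 365) (nat_lit 268) (nat_lit 147))) (XT.nd (nat_lit 78) (nat_lit 76) (nat_lit 0) (XT.lf (nat_lit 0) (nat_lit 175223198098) (nat_lit 76) (nat_lit 40886250010) (nat_lit 76) (nat_lit 4593865988) (nat_lit 4) (nat_lit 4) (nat_lit 5) (nat_lit 5) (nat_lit 5) (nat_lit 4) (nat_lit 366) (nat_lit 268) (nat_lit 146)) (XT.nd (nat_lit 78) (nat_lit 0) (nat_lit 0) (XT.lf (nat_lit 0) (nat_lit 3883552226) (nat_lit 152) (nat_lit 28335606308) (nat_lit 76) (nat_lit 199003766854) (nat_lit 3) (nat_lit 5) (nat_lit 5) (nat_lit 5) (nat_lit 4) (nat_lit 4) (nat_lit 367) (nat_lit 268) (nat_lit 145))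 (XT.lf (nat_lit 0) (nat_lit 12627977210) (nat_lit 152) (nat_lit 10413824947) (nat_lit 76) (nat_lit 219223074842) (nat_lit 3) (nat_lit 5) (nat_lit 5) (nat_lit 5) (nat_lit 4) (nat_lit 4) (nat_lit 368) (nat_lit 268) (nat_lit 144))))))) (XT.nd (nat_lit 780) (nat_lit 0) (nat_lit 0) (XT.nd (nat_lit 390) (nat_lit 0) (nat_lit 0) (XT.nd (nat_lit 156) (nat_lit 0) (nat_lit 0) (XT.nd (nat_lit 78) (nat_lit 0) (nat_lit 0) (XT.lf (nat_lit 0) (nat_lit 8677351553) (nat_lit 76) (nat_lit 13265387647) (nat_lit 152) (nat_lit 231909532360) (nat_lit 2) (nat_lit 5) (nat_lit 3) (nat_lit 5) (nat_lit 4) (nat_lit 4) (nat_lit 369) (nat_lit 268) (nat_lit 143)) (XT.lf (nat_lit 0) (nat_lit 29080279344) (nat_lit 76) (nat_lit 2817005621) (nat_lit 152) (nat_lit 234113049701) (nat_lit 2) (nat_lit 5) (nat_lit 3) (nat_lit 5) (nat_lit 4) (nat_lit 4) (nat_lit 370) (nat_lit 268) (nat_lit 142))) (XT.nd (nat_lit 78) (nat_lit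 0) (nat_lit 0) (XT.lf (nat_lit 0) (nat_lit 42474624232) (nat_lit 152) (nat_lit 228404476940) (nat_lit 0) (nat_lit 7890947493) (nat_lit 2) (nat_lit 5) (nat_lit 4) (nat_lit 4) (nat_lit 2) (nat_lit 4) (nat_lit 371) (nat_lit 268) (nat_lit 141)) (XT.nd (nat_lit 78) (nat_lit 0) (nat_lit 0) (XT.lf (nat_lit 0) (nat_lit 53624880039) (nat_lit 152) (nat_lit 219502824760) (nat_lit 0) (nat_lit 19037842084) (nat_lit 2) (nat_lit 5) (nat_lit 4) (nat_lit 4) (nat_lit 2) (nat_lit 4) (nat_lit 372) (nat_lit 268) (nat_lit 140)) (XT.lf (nat_lit 0) (nat_lit 65330619262) (nat_lit 152) (nat_lit 210159923021) (nat_lit 0) (nat_lit 30740380149) (nat_lit 2) (nat_lit 5) (nat_lit 4) (nat_lit 4) (nat_lit 2) (nat_lit 4) (nat_lit 373) (nat_lit 268) (nat_lit 139))))) (XT.nd (nat_lit 156) (nat_lit 0) (nat_lit 0) (XT.nd (nat_lit 78) (nat_lit 0) (nat_lit 0) (XT.lf (nat_lit 0) (nat_lit 77619712708) (nat_lit 152) (nat_lit 200353526719)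 (nat_lit 0) (nat_lit 43026424874) (nat_lit 2) (nat_lit 5) (nat_lit 4) (nat_lit 4) (nat_lit 2) (nat_lit 4) (nat_lit 374) (nat_lit 268) (nat_lit 138)) (XT.lf (nat_lit 0) (nat_lit 90521420125) (nat_lit 152) (nat_lit 190060287290) (nat_lit 0) (nat_lit 55925228746) (nat_lit 2) (nat_lit 5) (nat_lit 4) (nat_lit 4) (nat_lit 2) (nat_lit 4) (nat_lit 375) (nat_lit 268) (nat_lit 137))) (XT.nd (nat_lit 78) (nat_lit 0) (nat_lit 0) (XT.lf (nat_lit 0) (nat_lit 104066459863) (nat_lit 152) (nat_lit 179255697023) (nat_lit 0) (nat_lit 69467503204) (nat_lit 2) (nat_lit 5) (nat_lit 4) (nat_lit 4) (nat_lit 2) (nat_lit 4) (nat_lit 376) (nat_lit 268) (nat_lit 136)) (XT.nd (nat_lit 78) (nat_lit 0) (nat_lit 0) (XT.lf (nat_lit 0) (nat_lit 118287082017) (nat_lit 152) (nat_lit 167914030701) (nat_lit 0) (nat_lit 83685491757) (nat_lit 2) (nat_lit 5) (nat_lit 4) (nat_lit 4) (nat_lit 2) (nat_lit 4) (nat_lit 377) (nat_lit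 268) (nat_lit 135)) (XT.lf (nat_lit 0) (nat_lit 133217145210) (nat_lit 152) (nat_lit 156008284359) (nat_lit 0) (nat_lit 98613046759) (nat_lit 2) (nat_lit 5) (nat_lit 4) (nat_lit 4) (nat_lit 2) (nat_lit 4) (nat_lit 378) (nat_lit 268) (nat_lit 134)))))) (XT.nd (nat_lit 390) (nat_lit 0) (nat_lit 0) (XT.nd (nat_lit 156) (nat_lit 0) (nat_lit 0) (XT.nd (nat_lit 78) (nat_lit 0) (nat_lit 0) (XT.lf (nat_lit 0) (nat_lit 148892197212) (nat_lit 152) (nat_lit 143510110979) (nat_lit 0) (nat_lit 114285710009) (nat_lit 2) (nat_lit 5) (nat_lit 4) (nat_lit 4) (nat_lit 2) (nat_lit 4) (nat_lit 379) (nat_lit 268) (nat_lit 133)) (XT.lf (nat_lit 0) (nat_lit 165349559577) (nat_lit 152) (nat_lit 130389753008) (nat_lit 0) (nat_lit 130740797370) (nat_lit 2) (nat_lit 5) (nat_lit 4) (nat_lit 4) (nat_lit 2) (nat_lit 4) (nat_lit 380) (nat_lit 268) (nat_lit 132))) (XT.nd (nat_lit 78) (nat_lit 0) (nat_lit 0) (XT.lf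 (nat_lit 0) (nat_lit 182628416499) (nat_lit 152) (nat_lit 116615971497) (nat_lit 0) (nat_lit 148017487622) (nat_lit 2) (nat_lit 5) (nat_lit 4) (nat_lit 4) (nat_lit 2) (nat_lit 4) (nat_lit 381) (nat_lit 268) (nat_lit 131)) (XT.nd (nat_lit 78) (nat_lit 0) (nat_lit 0) (XT.lf (nat_lit 0) (nat_lit 200769908114) (nat_lit 152) (nat_lit 102155971728) (nat_lit 0) (nat_lit 166156915743) (nat_lit 2) (nat_lit 5) (nat_lit 4) (nat_lit 4) (nat_lit 2) (nat_lit 4) (nat_lit 382) (nat_lit 268) (nat_lit 130)) (XT.lf (nat_lit 0) (nat_lit 219817228451) (nat_lit 152) (nat_lit 86975325131) (nat_lit 0) (nat_lit 185202270847) (nat_lit 2) (nat_lit 5) (nat_lit 4) (nat_lit 4) (nat_lit 2) (nat_lit 4) (nat_lit 383) (nat_lit 268) (nat_lit 129))))) (XT.nd (nat_lit 234) (nat_lit 0) (nat_lit 0) (XT.nd (nat_lit 78) (nat_lit 0) (nat_lit 0) (XT.lf (nat_lit 0) (nat_lit 239815728271) (nat_lit 152) (nat_lit 71037887309) (nat_lit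 0) (nat_lit 205198899016) (nat_lit 2) (nat_lit 5) (nat_lit 4) (nat_lit 4) (nat_lit 2) (nat_lit 4) (nat_lit 384) (nat_lit 268) (nat_lit 128)) (XT.nd (nat_lit 78) (nat_lit 0) (nat_lit 0) (XT.lf (nat_lit 0) (nat_lit 260813023051) (nat_lit 152) (nat_lit 54305711981) (nat_lit 0) (nat_lit 226194411271) (nat_lit 2) (nat_lit 5) (nat_lit 4) (nat_lit 4) (nat_lit 2) (nat_lit 4) (nat_lit 385) (nat_lit 268) (nat_lit 127)) (XT.lf (nat_lit 0) (nat_lit 282859106349) (nat_lit 152) (nat_lit 36738960635) (nat_lit 0) (nat_lit 248238796927) (nat_lit 2) (nat_lit 5) (nat_lit 4) (nat_lit 4) (nat_lit 2) (nat_lit 4) (nat_lit 386) (nat_lit 268) (nat_lit 126)))) (XT.nd (nat_lit 31434) (nat_lit 0) (nat_lit 8132) (XT.lf (nat_lit 0) (nat_lit 306006468840) (nat_lit 152) (nat_lit 18295807673) (nat_lit 0) (nat_lit 271384542616) (nat_lit 2) (nat_lit 5) (nat_lit 4) (nat_lit 4) (nat_lit 2) (nat_lit 4) (nat_lit 387) (nat_lit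 268) (nat_lit 125)) (XT.nd (nat_lit 78) (nat_lit 0) (nat_lit 0) (XT.lf (nat_lit 0) (nat_lit 2771357191) (nat_lit 532) (nat_lit 464524906) (nat_lit 532) (nat_lit 464524906) (nat_lit 109) (nat_lit 3) (nat_lit 116) (nat_lit 3) (nat_lit 116) (nat_lit 5) (nat_lit 269) (nat_lit 269) (nat_lit 242)) (XT.lf (nat_lit 76) (nat_lit 2516748461) (nat_lit 0) (nat_lit 4585555308) (nat_lit 532) (nat_lit 408417731) (nat_lit 110) (nat_lit 5) (nat_lit 109) (nat_lit 3) (nat_lit 116) (nat_lit 5) (nat_lit 270) (nat_lit 269) (nat_lit 241))))))))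
noncomputable def xc134 : XT := (XT.nd (nat_lit 1560) (nat_lit 2356) (nat_lit 0) (XT.nd (nat_lit 780) (nat_lit 2280) (nat_lit 0) (XT.nd (nat_lit 390) (nat_lit 988) (nat_lit 0) (XT.nd (nat_lit 156) (nat_lit 0) (nat_lit 76) (XT.nd (nat_lit 78) (nat_lit 0) (nat_lit 0) (XT.lf (nat_lit 0) (nat_lit 1003180336) (nat_lit 532) (nat_lit 1527251567) (nat_lit 608) (nat_lit 5098816702) (nat_lit 102) (nat_lit 5) (nat_lit 109) (nat_lit 3) (nat_lit 110) (nat_lit 5) (nat_lit 271) (nat_lit 269) (nat_lit 240)) (XT.lf (nat_lit 76) (nat_lit 2125218103) (nat_lit 0) (nat_lit 293011622) (nat_lit 608) (nat_lit 5338043558) (nat_lit 103) (nat_lit 5) (nat_lit 102) (nat_lit 5) (nat_lit 110) (nat_lit 5) (nat_lit 272) (nat_lit 269) (nat_lit 239))) (XT.nd (nat_lit 78) (nat_lit 0) (nat_lit 0) (XT.lf (nat_lit 0) (nat_lit 3879760459) (nat_lit 532) (nat_lit 1960607140) (nat_lit 608) (nat_lit 2050719754) (nat_lit 103) (nat_lit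 5) (nat_lit 110) (nat_lit 5) (nat_lit 111) (nat_lit 5) (nat_lit 273) (nat_lit 269) (nat_lit 238)) (XT.nd (nat_lit 78) (nat_lit 0) (nat_lit 0) (XT.lf (nat_lit 76) (nat_lit 1898803042) (nat_lit 0) (nat_lit 3471286012) (nat_lit 608) (nat_lit 2664980911) (nat_lit 104) (nat_lit 5) (nat_lit 103) (nat_lit 5) (nat_lit 111) (nat_lit 5) (nat_lit 274) (nat_lit 269) (nat_lit 237)) (XT.lf (nat_lit 76) (nat_lit 5969536245) (nat_lit 0) (nat_lit 922846630) (nat_lit 608) (nat_lit 1296200114) (nat_lit 104) (nat_lit 5) (nat_lit 103) (nat_lit 5) (nat_lit 111) (nat_lit 5) (nat_lit 275) (nat_lit 269) (nat_lit 236))))) (XT.nd (nat_lit 156) (nat_lit 532) (nat_lit 0) (XT.nd (nat_lit 78) (nat_lit 0) (nat_lit 0) (XT.lf (nat_lit 0) (nat_lit 120955896) (nat_lit 608) (nat_lit 6477527550) (nat_lit 684) (nat_lit 1752140430) (nat_lit 96) (nat_lit 5) (nat_lit 104) (nat_lit 5) (nat_lit 105) (nat_lit 5) (nat_lit 276) (nat_lit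 269) (nat_lit 235)) (XT.lf (nat_lit 0) (nat_lit 1548287052) (nat_lit 608) (nat_lit 2362205410) (nat_lit 684) (nat_lit 4610243959) (nat_lit 96) (nat_lit 5) (nat_lit 104) (nat_lit 5) (nat_lit 105) (nat_lit 5) (nat_lit 277) (nat_lit 269) (nat_lit 234))) (XT.nd (nat_lit 78) (nat_lit 532) (nat_lit 0) (XT.lf (nat_lit 76) (nat_lit 1971299997) (nat_lit 0) (nat_lit 1039369740) (nat_lit 684) (nat_lit 5690668208) (nat_lit 97) (nat_lit 5) (nat_lit 96) (nat_lit 5) (nat_lit 105) (nat_lit 5) (nat_lit 278) (nat_lit 269) (nat_lit 233)) (XT.nd (nat_lit 78) (nat_lit 608) (nat_lit 0) (XT.lf (nat_lit 0) (nat_lit 4553227806) (nat_lit 608) (nat_lit 2370458251) (nat_lit 76) (nat_lit 1967090297) (nat_lit 97) (nat_lit 5) (nat_lit 105) (nat_lit 5) (nat_lit 98) (nat_lit 5) (nat_lit 279) (nat_lit 269) (nat_lit 232)) (XT.lf (nat_lit 0) (nat_lit 2209853418) (nat_lit 608) (nat_lit 3953225235) (nat_lit 684) (nat_lit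 2927251806) (nat_lit 89) (nat_lit 5) (nat_lit 97) (nat_lit 5) (nat_lit 98) (nat_lit 5) (nat_lit 280) (nat_lit 269) (nat_lit 231)))))) (XT.nd (nat_lit 390) (nat_lit 1064) (nat_lit 0) (XT.nd (nat_lit 156) (nat_lit 456) (nat_lit 0) (XT.nd (nat_lit 78) (nat_lit 760) (nat_lit 0) (XT.lf (nat_lit 0) (nat_lit 7051361921) (nat_lit 608) (nat_lit 782969220) (nat_lit 684) (nat_lit 1466630453) (nat_lit 89) (nat_lit 5) (nat_lit 97) (nat_lit 5) (nat_lit 98) (nat_lit 5) (nat_lit 281) (nat_lit 269) (nat_lit 230)) (XT.lf (nat_lit 0) (nat_lit 89288396) (nat_lit 760) (nat_lit 6916846836) (nat_lit 76) (nat_lit 2514847477) (nat_lit 79) (nat_lit 5) (nat_lit 89) (nat_lit 5) (nat_lit 80) (nat_lit 5) (nat_lit 282) (nat_lit 269) (nat_lit 229))) (XT.nd (nat_lit 78) (nat_lit 456) (nat_lit 0) (XT.lf (nat_lit 0) (nat_lit 1669874245) (nat_lit 760) (nat_lit 2060904554) (nat_lit 76) (nat_lit 6020341017) (nat_lit 79)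 (nat_lit 5) (nat_lit 89) (nat_lit 5) (nat_lit 80) (nat_lit 5) (nat_lit 283) (nat_lit 269) (nat_lit 228)) (XT.nd (nat_lit 78) (nat_lit 0) (nat_lit 0) (XT.lf (nat_lit 0) (nat_lit 3087156897) (nat_lit 456) (nat_lit 237770973) (nat_lit 532) (nat_lit 6668183096) (nat_lit 73) (nat_lit 5) (nat_lit 79) (nat_lit 5) (nat_lit 80) (nat_lit 5) (nat_lit 284) (nat_lit 269) (nat_lit 227)) (XT.lf (nat_lit 0) (nat_lit 5100786713) (nat_lit 532) (nat_lit 1786795668) (nat_lit 76) (nat_lit 3357830106) (nat_lit 73) (nat_lit 5) (nat_lit 80) (nat_lit 5) (nat_lit 74) (nat_lit 5) (nat_lit 285) (nat_lit 269) (nat_lit 226))))) (XT.nd (nat_lit 156) (nat_lit 684) (nat_lit 0) (XT.nd (nat_lit 78) (nat_lit 0) (nat_lit 0) (XT.lf (nat_lit 0) (nat_lit 3652380649) (nat_lit 380) (nat_lit 3325434676) (nat_lit 456) (nat_lit 3532002954) (nat_lit 68) (nat_lit 5) (nat_lit 73) (nat_lit 5) (nat_lit 74) (nat_lit 5) (nat_lit 286)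 (nat_lit 269) (nat_lit 225)) (XT.lf (nat_lit 0) (nat_lit 8938924908) (nat_lit 456) (nat_lit 1417940303) (nat_lit 76) (nat_lit 431170566) (nat_lit 68) (nat_lit 5) (nat_lit 74) (nat_lit 5) (nat_lit 69) (nat_lit 5) (nat_lit 287) (nat_lit 269) (nat_lit 224))) (XT.nd (nat_lit 78) (nat_lit 380) (nat_lit 0) (XT.lf (nat_lit 0) (nat_lit 4329407827) (nat_lit 304) (nat_lit 6746026616) (nat_lit 380) (nat_lit 960475) (nat_lit 64) (nat_lit 5) (nat_lit 68) (nat_lit 5) (nat_lit 69) (nat_lit 5) (nat_lit 288) (nat_lit 269) (nat_lit 223)) (XT.nd (nat_lit 78) (nat_lit 304) (nat_lit 0) (XT.lf (nat_lit 0) (nat_lit 1857750584) (nat_lit 380) (nat_lit 1044245790) (nat_lit 76) (nat_lit 8476738779) (nat_lit 63) (nat_lit 5) (nat_lit 68) (nat_lit 5) (nat_lit 64) (nat_lit 5) (nat_lit 289) (nat_lit 269) (nat_lit 222)) (XT.lf (nat_lit 0) (nat_lit 3865210210) (nat_lit 380) (nat_lit 6654447957) (nat_lit 76) (nat_lit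 1173825831) (nat_lit 59) (nat_lit 5) (nat_lit 64) (nat_lit 5) (nat_lit 60) (nat_lit 5) (nat_lit 290) (nat_lit 269) (nat_lit 221))))))) (XT.nd (nat_lit 780) (nat_lit 988) (nat_lit 0) (XT.nd (nat_lit 390) (nat_lit 532) (nat_lit 0) (XT.nd (nat_lit 156) (nat_lit 608) (nat_lit 0) (XT.nd (nat_lit 78) (nat_lit 228) (nat_lit 0) (XT.lf (nat_lit 0) (nat_lit 5997727957) (nat_lit 380) (nat_lit 656120768) (nat_lit 76) (nat_lit 5368967922) (nat_lit 59) (nat_lit 5) (nat_lit 64) (nat_lit 5) (nat_lit 60) (nat_lit 5) (nat_lit 291) (nat_lit 269) (nat_lit 220)) (XT.lf (nat_lit 0) (nat_lit 5781542612) (nat_lit 228) (nat_lit 2506677640) (nat_lit 304) (nat_lit 4077905026) (nat_lit 56) (nat_lit 5) (nat_lit 59) (nat_lit 5) (nat_lit 60) (nat_lit 5) (nat_lit 292) (nat_lit 269) (nat_lit 219))) (XT.nd (nat_lit 78) (nat_lit 608) (nat_lit 0) (XT.lf (nat_lit 0) (nat_lit 10695504888) (nat_lit 304) (nat_lit 237947748)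 (nat_lit 76) (nat_lit 1793106439) (nat_lit 56) (nat_lit 5) (nat_lit 60) (nat_lit 5) (nat_lit 57) (nat_lit 5) (nat_lit 293) (nat_lit 269) (nat_lit 218)) (XT.nd (nat_lit 78) (nat_lit 228) (nat_lit 0) (XT.lf (nat_lit 0) (nat_lit 223334469) (nat_lit 380) (nat_lit 6553267809) (nat_lit 76) (nat_lit 6322937563) (nat_lit 51) (nat_lit 5) (nat_lit 56) (nat_lit 5) (nat_lit 52) (nat_lit 5) (nat_lit 294) (nat_lit 269) (nat_lit 217)) (XT.lf (nat_lit 0) (nat_lit 112185227) (nat_lit 228) (nat_lit 2380170628) (nat_lit 304) (nat_lit 10998703656) (nat_lit 48) (nat_lit 5) (nat_lit 51) (nat_lit 5) (nat_lit 52) (nat_lit 5) (nat_lit 295) (nat_lit 269) (nat_lit 216))))) (XT.nd (nat_lit 156) (nat_lit 304) (nat_lit 0) (XT.nd (nat_lit 78) (nat_lit 228) (nat_lit 0) (XT.lf (nat_lit 0) (nat_lit 4987721198) (nat_lit 304) (nat_lit 6640867071) (nat_lit 76) (nat_lit 2267982412) (nat_lit 48) (nat_lit 5) (nat_lit 52) (nat_lit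 5) (nat_lit 49) (nat_lit 5) (nat_lit 296) (nat_lit 269) (nat_lit 215)) (XT.lf (nat_lit 0) (nat_lit 362868008) (nat_lit 228) (nat_lit 7256508728) (nat_lit 304) (nat_lit 6702461871) (nat_lit 45) (nat_lit 5) (nat_lit 48) (nat_lit 5) (nat_lit 49) (nat_lit 5) (nat_lit 297) (nat_lit 269) (nat_lit 214))) (XT.nd (nat_lit 78) (nat_lit 304) (nat_lit 0) (XT.lf (nat_lit 0) (nat_lit 7904284330) (nat_lit 228) (nat_lit 2558541234) (nat_lit 304) (nat_lit 4301588406) (nat_lit 45) (nat_lit 5) (nat_lit 48) (nat_lit 5) (nat_lit 49) (nat_lit 5) (nat_lit 298) (nat_lit 269) (nat_lit 213)) (XT.nd (nat_lit 78) (nat_lit 76) (nat_lit 0) (XT.lf (nat_lit 0) (nat_lit 531145309) (nat_lit 228) (nat_lit 12931783586) (nat_lit 304) (nat_lit 1765517071) (nat_lit 42) (nat_lit 5) (nat_lit 45) (nat_lit 5) (nat_lit 46) (nat_lit 5) (nat_lit 299) (nat_lit 269) (nat_lit 212)) (XT.lf (nat_lit 0) (nat_lit 998061686) (nat_lit 304)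 (nat_lit 7280389189) (nat_lit 76) (nat_lit 7430104064) (nat_lit 41) (nat_lit 5) (nat_lit 45) (nat_lit 5) (nat_lit 42) (nat_lit 5) (nat_lit 300) (nat_lit 269) (nat_lit 211)))))) (XT.nd (nat_lit 390) (nat_lit 608) (nat_lit 0) (XT.nd (nat_lit 156) (nat_lit 152) (nat_lit 0) (XT.nd (nat_lit 78) (nat_lit 0) (nat_lit 0) (XT.lf (nat_lit 0) (nat_lit 452121694) (nat_lit 228) (nat_lit 3366278302) (nat_lit 304) (nat_lit 12393971432) (nat_lit 38) (nat_lit 5) (nat_lit 41) (nat_lit 5) (nat_lit 42) (nat_lit 5) (nat_lit 301) (nat_lit 269) (nat_lit 210)) (XT.lf (nat_lit 0) (nat_lit 6904476824) (nat_lit 304) (nat_lit 7982583837) (nat_lit 76) (nat_lit 1848124755) (nat_lit 38) (nat_lit 5) (nat_lit 42) (nat_lit 5) (nat_lit 39) (nat_lit 5) (nat_lit 302) (nat_lit 269) (nat_lit 209))) (XT.nd (nat_lit 78) (nat_lit 0) (nat_lit 0) (XT.lf (nat_lit 0) (nat_lit 92311097) (nat_lit 152) (nat_lit 10081965896) (nat_lit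 228) (nat_lit 7108432854) (nat_lit 36) (nat_lit 5) (nat_lit 38) (nat_lit 5) (nat_lit 39) (nat_lit 5) (nat_lit 303) (nat_lit 269) (nat_lit 208)) (XT.nd (nat_lit 78) (nat_lit 0) (nat_lit 0) (XT.lf (nat_lit 0) (nat_lit 8809300036) (nat_lit 152) (nat_lit 4906939396) (nat_lit 228) (nat_lit 4135976234) (nat_lit 36) (nat_lit 5) (nat_lit 38) (nat_lit 5) (nat_lit 39) (nat_lit 5) (nat_lit 304) (nat_lit 269) (nat_lit 207)) (XT.lf (nat_lit 0) (nat_lit 17418088988) (nat_lit 228) (nat_lit 534341922) (nat_lit 76) (nat_lit 498663348) (nat_lit 36) (nat_lit 5) (nat_lit 39) (nat_lit 5) (nat_lit 37) (nat_lit 5) (nat_lit 305) (nat_lit 269) (nat_lit 206))))) (XT.nd (nat_lit 234) (nat_lit 152) (nat_lit 0) (XT.nd (nat_lit 78) (nat_lit 152) (nat_lit 0) (XT.lf (nat_lit 0) (nat_lit 2346787123) (nat_lit 304) (nat_lit 10551467234) (nat_lit 76) (nat_lit 6170314386) (nat_lit 32) (nat_lit 5) (nat_lit 36) (nat_lit 5)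 (nat_lit 33) (nat_lit 5) (nat_lit 306) (nat_lit 269) (nat_lit 205)) (XT.nd (nat_lit 78) (nat_lit 152) (nat_lit 0) (XT.lf (nat_lit 0) (nat_lit 5846002935) (nat_lit 304) (nat_lit 1730367375) (nat_lit 76) (nat_lit 12140474343) (nat_lit 32) (nat_lit 5) (nat_lit 36) (nat_lit 5) (nat_lit 33) (nat_lit 5) (nat_lit 307) (nat_lit 269) (nat_lit 204)) (XT.lf (nat_lit 0) (nat_lit 7744922620) (nat_lit 152) (nat_lit 1873273874) (nat_lit 228) (nat_lit 10774467402) (nat_lit 30) (nat_lit 5) (nat_lit 32) (nat_lit 5) (nat_lit 33) (nat_lit 5) (nat_lit 308) (nat_lit 269) (nat_lit 203)))) (XT.nd (nat_lit 78) (nat_lit 152) (nat_lit 0) (XT.lf (nat_lit 0) (nat_lit 13650499978) (nat_lit 228) (nat_lit 3446635617) (nat_lit 76) (nat_lit 4001592431) (nat_lit 30) (nat_lit 5) (nat_lit 33) (nat_lit 5) (nat_lit 31) (nat_lit 5) (nat_lit 309) (nat_lit 269) (nat_lit 202)) (XT.nd (nat_lit 78) (nat_lit 0) (nat_lit 0) (XT.lf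 (nat_lit 0) (nat_lit 6353696180) (nat_lit 152) (nat_lit 11639172678) (nat_lit 228) (nat_lit 3841831553) (nat_lit 28) (nat_lit 5) (nat_lit 30) (nat_lit 5) (nat_lit 31) (nat_lit 5) (nat_lit 310) (nat_lit 269) (nat_lit 201)) (XT.lf (nat_lit 0) (nat_lit 16730766244) (nat_lit 152) (nat_lit 5859009763) (nat_lit 228) (nat_lit 15850665) (nat_lit 28) (nat_lit 5) (nat_lit 30) (nat_lit 5) (nat_lit 31) (nat_lit 5) (nat_lit 311) (nat_lit 269) (nat_lit 200))))))))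
noncomputable def xc135 : XT := (XT.nd (nat_lit 1560) (nat_lit 532) (nat_lit 0) (XT.nd (nat_lit 780) (nat_lit 532) (nat_lit 0) (XT.nd (nat_lit 390) (nat_lit 304) (nat_lit 0) (XT.nd (nat_lit 156) (nat_lit 152) (nat_lit 0) (XT.nd (nat_lit 78) (nat_lit 0) (nat_lit 0) (XT.lf (nat_lit 0) (nat_lit 3924668695) (nat_lit 228) (nat_lit 19161723765) (nat_lit 76) (nat_lit 323041408) (nat_lit 25) (nat_lit 5) (nat_lit 28) (nat_lit 5) (nat_lit 26) (nat_lit 5) (nat_lit 312) (nat_lit 269) (nat_lit 199)) (XT.lf (nat_lit 0) (nat_lit 8238842447) (nat_lit 228) (nat_lit 9298404410) (nat_lit 76) (nat_lit 6707336193) (nat_lit 25) (nat_lit 5) (nat_lit 28) (nat_lit 5) (nat_lit 26) (nat_lit 5) (nat_lit 313) (nat_lit 269) (nat_lit 198))) (XT.nd (nat_lit 78) (nat_lit 0) (nat_lit 0) (XT.lf (nat_lit 0) (nat_lit 1061209591) (nat_lit 152) (nat_lit 11705023868) (nat_lit 228) (nat_lit 12355402397) (nat_lit 23) (nat_lit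 5) (nat_lit 25) (nat_lit 5) (nat_lit 26) (nat_lit 5) (nat_lit 314) (nat_lit 269) (nat_lit 197)) (XT.nd (nat_lit 78) (nat_lit 0) (nat_lit 0) (XT.lf (nat_lit 0) (nat_lit 12231284609) (nat_lit 152) (nat_lit 5427556440) (nat_lit 228) (nat_lit 8376778467) (nat_lit 23) (nat_lit 5) (nat_lit 25) (nat_lit 5) (nat_lit 26) (nat_lit 5) (nat_lit 315) (nat_lit 269) (nat_lit 196)) (XT.lf (nat_lit 0) (nat_lit 22796335784) (nat_lit 228) (nat_lit 3083235845) (nat_lit 76) (nat_lit 1115737478) (nat_lit 23) (nat_lit 5) (nat_lit 26) (nat_lit 5) (nat_lit 24) (nat_lit 4) (nat_lit 316) (nat_lit 269) (nat_lit 195))))) (XT.nd (nat_lit 156) (nat_lit 152) (nat_lit 0) (XT.nd (nat_lit 78) (nat_lit 0) (nat_lit 0) (XT.lf (nat_lit 0) (nat_lit 386868337) (nat_lit 152) (nat_lit 19676031026) (nat_lit 76) (nat_lit 7929697310) (nat_lit 21) (nat_lit 5) (nat_lit 23) (nat_lit 5) (nat_lit 22) (nat_lit 5) (nat_lit 317) (nat_lit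 269) (nat_lit 194)) (XT.lf (nat_lit 0) (nat_lit 5096989277) (nat_lit 152) (nat_lit 8741768348) (nat_lit 76) (nat_lit 15195761117) (nat_lit 21) (nat_lit 5) (nat_lit 23) (nat_lit 5) (nat_lit 22) (nat_lit 5) (nat_lit 318) (nat_lit 269) (nat_lit 193))) (XT.nd (nat_lit 78) (nat_lit 0) (nat_lit 0) (XT.lf (nat_lit 0) (nat_lit 2801896006) (nat_lit 152) (nat_lit 7268302031) (nat_lit 228) (nat_lit 20056975904) (nat_lit 19) (nat_lit 5) (nat_lit 21) (nat_lit 5) (nat_lit 22) (nat_lit 5) (nat_lit 319) (nat_lit 269) (nat_lit 192)) (XT.nd (nat_lit 78) (nat_lit 0) (nat_lit 0) (XT.lf (nat_lit 0) (nat_lit 15199683726) (nat_lit 152) (nat_lit 224621022) (nat_lit 228) (nat_lit 15843560623) (nat_lit 19) (nat_lit 5) (nat_lit 21) (nat_lit 5) (nat_lit 22) (nat_lit 5) (nat_lit 320) (nat_lit 269) (nat_lit 191)) (XT.lf (nat_lit 0) (nat_lit 21142864453) (nat_lit 228) (nat_lit 4386091198) (nat_lit 76) (nat_lit 6931812952)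 (nat_lit 19) (nat_lit 5) (nat_lit 22) (nat_lit 5) (nat_lit 20) (nat_lit 4) (nat_lit 321) (nat_lit 269) (nat_lit 190)))))) (XT.nd (nat_lit 390) (nat_lit 228) (nat_lit 0) (XT.nd (nat_lit 156) (nat_lit 228) (nat_lit 0) (XT.nd (nat_lit 78) (nat_lit 0) (nat_lit 0) (XT.lf (nat_lit 0) (nat_lit 8111371782) (nat_lit 76) (nat_lit 19151812912) (nat_lit 152) (nat_lit 6444354597) (nat_lit 18) (nat_lit 5) (nat_lit 19) (nat_lit 5) (nat_lit 20) (nat_lit 4) (nat_lit 322) (nat_lit 269) (nat_lit 189)) (XT.lf (nat_lit 0) (nat_lit 21361716674) (nat_lit 76) (nat_lit 12387905023) (nat_lit 152) (nat_lit 1264035034) (nat_lit 18) (nat_lit 5) (nat_lit 19) (nat_lit 5) (nat_lit 20) (nat_lit 4) (nat_lit 323) (nat_lit 269) (nat_lit 188))) (XT.nd (nat_lit 78) (nat_lit 152) (nat_lit 0) (XT.lf (nat_lit 0) (nat_lit 4027926611) (nat_lit 152) (nat_lit 1199266521) (nat_lit 76) (nat_lit 31155326438) (nat_lit 17) (nat_lit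 5) (nat_lit 19) (nat_lit 5) (nat_lit 18) (nat_lit 5) (nat_lit 324) (nat_lit 269) (nat_lit 187)) (XT.nd (nat_lit 78) (nat_lit 0) (nat_lit 0) (XT.lf (nat_lit 0) (nat_lit 9758874841) (nat_lit 228) (nat_lit 25624899885) (nat_lit 76) (nat_lit 2424182763) (nat_lit 15) (nat_lit 5) (nat_lit 18) (nat_lit 5) (nat_lit 16) (nat_lit 4) (nat_lit 325) (nat_lit 269) (nat_lit 186)) (XT.lf (nat_lit 0) (nat_lit 15869754421) (nat_lit 228) (nat_lit 13136141149) (nat_lit 76) (nat_lit 10294113444) (nat_lit 15) (nat_lit 5) (nat_lit 18) (nat_lit 5) (nat_lit 16) (nat_lit 4) (nat_lit 326) (nat_lit 269) (nat_lit 185))))) (XT.nd (nat_lit 156) (nat_lit 152) (nat_lit 0) (XT.nd (nat_lit 78) (nat_lit 76) (nat_lit 0) (XT.lf (nat_lit 0) (nat_lit 22273843823) (nat_lit 228) (nat_lit 44466831) (nat_lit 76) (nat_lit 18548979557) (nat_lit 15) (nat_lit 5) (nat_lit 18) (nat_lit 5) (nat_lit 16) (nat_lit 4) (nat_lit 327) (nat_lit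 269) (nat_lit 184)) (XT.lf (nat_lit 0) (nat_lit 14133659078) (nat_lit 76) (nat_lit 15073397828) (nat_lit 152) (nat_lit 13295442493) (nat_lit 14) (nat_lit 5) (nat_lit 15) (nat_lit 5) (nat_lit 16) (nat_lit 4) (nat_lit 328) (nat_lit 269) (nat_lit 183))) (XT.nd (nat_lit 78) (nat_lit 152) (nat_lit 0) (XT.lf (nat_lit 0) (nat_lit 29002068197) (nat_lit 76) (nat_lit 7474113209) (nat_lit 152) (nat_lit 7743834524) (nat_lit 14) (nat_lit 5) (nat_lit 15) (nat_lit 5) (nat_lit 16) (nat_lit 4) (nat_lit 329) (nat_lit 269) (nat_lit 182)) (XT.nd (nat_lit 78) (nat_lit 152) (nat_lit 0) (XT.lf (nat_lit 0) (nat_lit 44105565301) (nat_lit 152) (nat_lit 1437031512) (nat_lit 0) (nat_lit 480980288) (nat_lit 14) (nat_lit 5) (nat_lit 16) (nat_lit 4) (nat_lit 14) (nat_lit 4) (nat_lit 330) (nat_lit 269) (nat_lit 181)) (XT.lf (nat_lit 0) (nat_lit 4389842117) (nat_lit 152) (nat_lit 34654171099) (nat_lit 76) (nat_lit 8853776389)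 (nat_lit 12) (nat_lit 5) (nat_lit 14) (nat_lit 5) (nat_lit 13) (nat_lit 4) (nat_lit 331) (nat_lit 269) (nat_lit 180))))))) (XT.nd (nat_lit 780) (nat_lit 304) (nat_lit 0) (XT.nd (nat_lit 390) (nat_lit 152) (nat_lit 0) (XT.nd (nat_lit 156) (nat_lit 76) (nat_lit 0) (XT.nd (nat_lit 78) (nat_lit 0) (nat_lit 0) (XT.lf (nat_lit 0) (nat_lit 10962849134) (nat_lit 152) (nat_lit 21206899504) (nat_lit 76) (nat_lit 17693688798) (nat_lit 12) (nat_lit 5) (nat_lit 14) (nat_lit 5) (nat_lit 13) (nat_lit 4) (nat_lit 332) (nat_lit 269) (nat_lit 179)) (XT.lf (nat_lit 0) (nat_lit 17854489725) (nat_lit 152) (nat_lit 7105124660) (nat_lit 76) (nat_lit 26968261491) (nat_lit 12) (nat_lit 5) (nat_lit 14) (nat_lit 5) (nat_lit 13) (nat_lit 4) (nat_lit 333) (nat_lit 269) (nat_lit 178))) (XT.nd (nat_lit 78) (nat_lit 0) (nat_lit 0) (XT.lf (nat_lit 0) (nat_lit 7938820933) (nat_lit 76) (nat_lit 17266298870) (nat_lit 152)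 (nat_lit 28884703095) (nat_lit 11) (nat_lit 5) (nat_lit 12) (nat_lit 5) (nat_lit 13) (nat_lit 4) (nat_lit 334) (nat_lit 269) (nat_lit 177)) (XT.nd (nat_lit 78) (nat_lit 0) (nat_lit 0) (XT.lf (nat_lit 0) (nat_lit 23964902205) (nat_lit 76) (nat_lit 9069361107) (nat_lit 152) (nat_lit 23320061558) (nat_lit 11) (nat_lit 5) (nat_lit 12) (nat_lit 5) (nat_lit 13) (nat_lit 4) (nat_lit 335) (nat_lit 269) (nat_lit 176)) (XT.lf (nat_lit 0) (nat_lit 40776348982) (nat_lit 76) (nat_lit 469613302) (nat_lit 152) (nat_lit 17486541120) (nat_lit 11) (nat_lit 5) (nat_lit 12) (nat_lit 5) (nat_lit 13) (nat_lit 4) (nat_lit 336) (nat_lit 269) (nat_lit 175))))) (XT.nd (nat_lit 156) (nat_lit 76) (nat_lit 0) (XT.nd (nat_lit 78) (nat_lit 76) (nat_lit 0) (XT.lf (nat_lit 0) (nat_lit 49993311241) (nat_lit 152) (nat_lit 2950375170) (nat_lit 0) (nat_lit 8279657273) (nat_lit 11) (nat_lit 5) (nat_lit 13) (nat_lit 4) (nat_lit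 11) (nat_lit 4) (nat_lit 337) (nat_lit 269) (nat_lit 174)) (XT.lf (nat_lit 0) (nat_lit 13205899128) (nat_lit 76) (nat_lit 46177834425) (nat_lit 76) (nat_lit 4444712913) (nat_lit 10) (nat_lit 4) (nat_lit 11) (nat_lit 5) (nat_lit 11) (nat_lit 4) (nat_lit 338) (nat_lit 269) (nat_lit 173))) (XT.nd (nat_lit 78) (nat_lit 0) (nat_lit 0) (XT.lf (nat_lit 0) (nat_lit 2636737044) (nat_lit 152) (nat_lit 36346351087) (nat_lit 76) (nat_lit 27576497632) (nat_lit 9) (nat_lit 5) (nat_lit 11) (nat_lit 5) (nat_lit 10) (nat_lit 4) (nat_lit 339) (nat_lit 269) (nat_lit 172)) (XT.nd (nat_lit 78) (nat_lit 0) (nat_lit 0) (XT.lf (nat_lit 0) (nat_lit 9915127968) (nat_lit 152) (nat_lit 21443307329) (nat_lit 76) (nat_lit 38065596518) (nat_lit 9) (nat_lit 5) (nat_lit 11) (nat_lit 5) (nat_lit 10) (nat_lit 4) (nat_lit 340) (nat_lit 269) (nat_lit 171)) (XT.lf (nat_lit 0) (nat_lit 17550047930) (nat_lit 152) (nat_lit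 5808538202) (nat_lit 76) (nat_lit 49073488321) (nat_lit 9) (nat_lit 5) (nat_lit 11) (nat_lit 5) (nat_lit 10) (nat_lit 4) (nat_lit 341) (nat_lit 269) (nat_lit 170)))))) (XT.nd (nat_lit 390) (nat_lit 228) (nat_lit 0) (XT.nd (nat_lit 156) (nat_lit 0) (nat_lit 0) (XT.nd (nat_lit 78) (nat_lit 0) (nat_lit 0) (XT.lf (nat_lit 0) (nat_lit 10945506497) (nat_lit 76) (nat_lit 14785058845) (nat_lit 152) (nat_lit 49851765840) (nat_lit 8) (nat_lit 5) (nat_lit 9) (nat_lit 5) (nat_lit 10) (nat_lit 4) (nat_lit 342) (nat_lit 269) (nat_lit 169)) (XT.lf (nat_lit 0) (nat_lit 28726331565) (nat_lit 76) (nat_lit 5685247630) (nat_lit 152) (nat_lit 44473952341) (nat_lit 8) (nat_lit 5) (nat_lit 9) (nat_lit 5) (nat_lit 10) (nat_lit 4) (nat_lit 343) (nat_lit 269) (nat_lit 168))) (XT.nd (nat_lit 78) (nat_lit 0) (nat_lit 0) (XT.lf (nat_lit 0) (nat_lit 43580402575) (nat_lit 152) (nat_lit 35030338895) (nat_lit 0) (nat_lit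 3740466606) (nat_lit 8) (nat_lit 5) (nat_lit 10) (nat_lit 4) (nat_lit 8) (nat_lit 4) (nat_lit 344) (nat_lit 269) (nat_lit 167)) (XT.nd (nat_lit 78) (nat_lit 0) (nat_lit 0) (XT.lf (nat_lit 0) (nat_lit 53294529093) (nat_lit 152) (nat_lit 19249883440) (nat_lit 0) (nat_lit 13441416726) (nat_lit 8) (nat_lit 5) (nat_lit 10) (nat_lit 4) (nat_lit 8) (nat_lit 4) (nat_lit 345) (nat_lit 269) (nat_lit 166)) (XT.lf (nat_lit 0) (nat_lit 63488324976) (nat_lit 152) (nat_lit 2691498445) (nat_lit 0) (nat_lit 23622663657) (nat_lit 8) (nat_lit 5) (nat_lit 10) (nat_lit 4) (nat_lit 8) (nat_lit 4) (nat_lit 346) (nat_lit 269) (nat_lit 165))))) (XT.nd (nat_lit 234) (nat_lit 152) (nat_lit 0) (XT.nd (nat_lit 78) (nat_lit 0) (nat_lit 0) (XT.lf (nat_lit 0) (nat_lit 15169768132) (nat_lit 76) (nat_lit 59253135627) (nat_lit 76) (nat_lit 19375522924) (nat_lit 7) (nat_lit 4) (nat_lit 8) (nat_lit 5) (nat_lit 8) (nat_lit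 4) (nat_lit 347) (nat_lit 269) (nat_lit 164)) (XT.nd (nat_lit 78) (nat_lit 0) (nat_lit 0) (XT.lf (nat_lit 0) (nat_lit 34007146208) (nat_lit 76) (nat_lit 51937009111) (nat_lit 76) (nat_lit 12048014139) (nat_lit 7) (nat_lit 4) (nat_lit 8) (nat_lit 5) (nat_lit 8) (nat_lit 4) (nat_lit 348) (nat_lit 269) (nat_lit 163)) (XT.lf (nat_lit 0) (nat_lit 53776493586) (nat_lit 76) (nat_lit 44259606355) (nat_lit 76) (nat_lit 4359771127) (nat_lit 7) (nat_lit 4) (nat_lit 8) (nat_lit 5) (nat_lit 8) (nat_lit 4) (nat_lit 349) (nat_lit 269) (nat_lit 162)))) (XT.nd (nat_lit 78) (nat_lit 76) (nat_lit 0) (XT.lf (nat_lit 0) (nat_lit 3588847932) (nat_lit 152) (nat_lit 32553021020) (nat_lit 76) (nat_lit 70875253333) (nat_lit 6) (nat_lit 5) (nat_lit 8) (nat_lit 5) (nat_lit 7) (nat_lit 4) (nat_lit 350) (nat_lit 269) (nat_lit 161)) (XT.nd (nat_lit 78) (nat_lit 76) (nat_lit 0) (XT.lf (nat_lit 0) (nat_lit 11783428069)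 (nat_lit 152) (nat_lit 15763964171) (nat_lit 76) (nat_lit 84318720671) (nat_lit 6) (nat_lit 5) (nat_lit 8) (nat_lit 5) (nat_lit 7) (nat_lit 4) (nat_lit 351) (nat_lit 269) (nat_lit 160)) (XT.lf (nat_lit 0) (nat_lit 1917197547) (nat_lit 76) (nat_lit 18495755370) (nat_lit 152) (nat_lit 96543342015) (nat_lit 5) (nat_lit 5) (nat_lit 6) (nat_lit 5) (nat_lit 7) (nat_lit 4) (nat_lit 352) (nat_lit 269) (nat_lit 159))))))))
noncomputable def xc136 : XT := (XT.nd (nat_lit 1560) (nat_lit 0) (nat_lit 0) (XT.nd (nat_lit 780) (nat_lit 152) (nat_lit 0) (XT.nd (nat_lit 390) (nat_lit 76) (nat_lit 0) (XT.nd (nat_lit 156) (nat_lit 0) (nat_lit 0) (XT.nd (nat_lit 78) (nat_lit 0) (nat_lit 0) (XT.lf (nat_lit 0) (nat_lit 21021136815) (nat_lit 76) (nat_lit 8715161260) (nat_lit 152) (nat_lit 92551573301) (nat_lit 5) (nat_lit 5) (nat_lit 6) (nat_lit 5) (nat_lit 7) (nat_lit 4) (nat_lit 353) (nat_lit 269) (nat_lit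 158)) (XT.lf (nat_lit 0) (nat_lit 39545615377) (nat_lit 152) (nat_lit 86838348872) (nat_lit 0) (nat_lit 1501074552) (nat_lit 5) (nat_lit 5) (nat_lit 7) (nat_lit 4) (nat_lit 5) (nat_lit 4) (nat_lit 354) (nat_lit 269) (nat_lit 157))) (XT.nd (nat_lit 78) (nat_lit 0) (nat_lit 0) (XT.lf (nat_lit 0) (nat_lit 49984018008) (nat_lit 152) (nat_lit 71839344688) (nat_lit 0) (nat_lit 11931773215) (nat_lit 5) (nat_lit 5) (nat_lit 7) (nat_lit 4) (nat_lit 5) (nat_lit 4) (nat_lit 355) (nat_lit 269) (nat_lit 156)) (XT.nd (nat_lit 78) (nat_lit 0) (nat_lit 0) (XT.lf (nat_lit 0) (nat_lit 60940291218) (nat_lit 152) (nat_lit 56097942005) (nat_lit 0) (nat_lit 22880709313) (nat_lit 5) (nat_lit 5) (nat_lit 7) (nat_lit 4) (nat_lit 5) (nat_lit 4) (nat_lit 356) (nat_lit 269) (nat_lit 155)) (XT.lf (nat_lit 0) (nat_lit 72440521371) (nat_lit 152) (nat_lit 39576661292) (nat_lit 0) (nat_lit 34373951740) (nat_lit 5) (nat_lit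 5) (nat_lit 7) (nat_lit 4) (nat_lit 5) (nat_lit 4) (nat_lit 357) (nat_lit 269) (nat_lit 154))))) (XT.nd (nat_lit 156) (nat_lit 76) (nat_lit 0) (XT.nd (nat_lit 78) (nat_lit 0) (nat_lit 0) (XT.lf (nat_lit 0) (nat_lit 84512089968) (nat_lit 152) (nat_lit 22236166165) (nat_lit 0) (nat_lit 46438865360) (nat_lit 5) (nat_lit 5) (nat_lit 7) (nat_lit 4) (nat_lit 5) (nat_lit 4) (nat_lit 358) (nat_lit 269) (nat_lit 153)) (XT.lf (nat_lit 0) (nat_lit 97183738839) (nat_lit 152) (nat_lit 4035169733) (nat_lit 0) (nat_lit 59104176157) (nat_lit 5) (nat_lit 5) (nat_lit 7) (nat_lit 4) (nat_lit 5) (nat_lit 4) (nat_lit 359) (nat_lit 269) (nat_lit 152))) (XT.nd (nat_lit 78) (nat_lit 0) (nat_lit 0) (XT.lf (nat_lit 0) (nat_lit 15567934849) (nat_lit 76) (nat_lit 95160762819) (nat_lit 76) (nat_lit 57075163877) (nat_lit 4) (nat_lit 4) (nat_lit 5) (nat_lit 5) (nat_lit 5) (nat_lit 4) (nat_lit 360) (nat_lit 269) (nat_lit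 151)) (XT.nd (nat_lit 78) (nat_lit 0) (nat_lit 0) (XT.lf (nat_lit 0) (nat_lit 36285174039) (nat_lit 76) (nat_lit 88730799587) (nat_lit 76) (nat_lit 50639451825) (nat_lit 4) (nat_lit 4) (nat_lit 5) (nat_lit 5) (nat_lit 5) (nat_lit 4) (nat_lit 361) (nat_lit 269) (nat_lit 150)) (XT.lf (nat_lit 0) (nat_lit 58032453661) (nat_lit 76) (nat_lit 81982046990) (nat_lit 76) (nat_lit 43885224163) (nat_lit 4) (nat_lit 4) (nat_lit 5) (nat_lit 5) (nat_lit 5) (nat_lit 4) (nat_lit 362) (nat_lit 269) (nat_lit 149)))))) (XT.nd (nat_lit 390) (nat_lit 152) (nat_lit 0) (XT.nd (nat_lit 156) (nat_lit 0) (nat_lit 0) (XT.nd (nat_lit 78) (nat_lit 0) (nat_lit 0) (XT.lf (nat_lit 0) (nat_lit 80861552954) (nat_lit 76) (nat_lit 74898436571) (nat_lit 76) (nat_lit 36796399395) (nat_lit 4) (nat_lit 4) (nat_lit 5) (nat_lit 5) (nat_lit 5) (nat_lit 4) (nat_lit 363) (nat_lit 269) (nat_lit 148)) (XT.lf (nat_lit 0) (nat_lit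 104826826915) (nat_lit 76) (nat_lit 67463102591) (nat_lit 76) (nat_lit 29356099368) (nat_lit 4) (nat_lit 4) (nat_lit 5) (nat_lit 5) (nat_lit 5) (nat_lit 4) (nat_lit 364) (nat_lit 269) (nat_lit 147))) (XT.nd (nat_lit 78) (nat_lit 0) (nat_lit 0) (XT.lf (nat_lit 0) (nat_lit 129985335719) (nat_lit 76) (nat_lit 59658341873) (nat_lit 76) (nat_lit 21546609082) (nat_lit 4) (nat_lit 4) (nat_lit 5) (nat_lit 5) (nat_lit 5) (nat_lit 4) (nat_lit 365) (nat_lit 269) (nat_lit 146)) (XT.nd (nat_lit 78) (nat_lit 0) (nat_lit 0) (XT.lf (nat_lit 0) (nat_lit 156396980580) (nat_lit 76) (nat_lit 51465571654) (nat_lit 76) (nat_lit 13349334513) (nat_lit 4) (nat_lit 4) (nat_lit 5) (nat_lit 5) (nat_lit 5) (nat_lit 4) (nat_lit 366) (nat_lit 269) (nat_lit 145)) (XT.lf (nat_lit 0) (nat_lit 184124646365) (nat_lit 76) (nat_lit 42865285338) (nat_lit 76) (nat_lit 4744758339) (nat_lit 4) (nat_lit 4) (nat_lit 5) (nat_lit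 5) (nat_lit 5) (nat_lit 4) (nat_lit 367) (nat_lit 269) (nat_lit 144))))) (XT.nd (nat_lit 156) (nat_lit 76) (nat_lit 0) (XT.nd (nat_lit 78) (nat_lit 0) (nat_lit 0) (XT.lf (nat_lit 0) (nat_lit 4150376338) (nat_lit 152) (nat_lit 29616341083) (nat_lit 76) (nat_lit 209013686356) (nat_lit 3) (nat_lit 5) (nat_lit 5) (nat_lit 5) (nat_lit 4) (nat_lit 4) (nat_lit 368) (nat_lit 269) (nat_lit 143)) (XT.lf (nat_lit 0) (nat_lit 13328563215) (nat_lit 152) (nat_lit 10804949014) (nat_lit 76) (nat_lit 230241115402) (nat_lit 3) (nat_lit 5) (nat_lit 5) (nat_lit 5) (nat_lit 4) (nat_lit 4) (nat_lit 369) (nat_lit 269) (nat_lit 142))) (XT.nd (nat_lit 78) (nat_lit 0) (nat_lit 0) (XT.lf (nat_lit 0) (nat_lit 9238696519) (nat_lit 76) (nat_lit 13869062439) (nat_lit 152) (nat_lit 243433699791) (nat_lit 2) (nat_lit 5) (nat_lit 3) (nat_lit 5) (nat_lit 4) (nat_lit 4) (nat_lit 370) (nat_lit 269) (nat_lit 141)) (XT.nd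 (nat_lit 78) (nat_lit 0) (nat_lit 0) (XT.lf (nat_lit 0) (nat_lit 30655700347) (nat_lit 76) (nat_lit 2901099149) (nat_lit 152) (nat_lit 245750788675) (nat_lit 2) (nat_lit 5) (nat_lit 3) (nat_lit 5) (nat_lit 4) (nat_lit 4) (nat_lit 371) (nat_lit 269) (nat_lit 140)) (XT.lf (nat_lit 0) (nat_lit 44660771077) (nat_lit 152) (nat_lit 239706811137) (nat_lit 0) (nat_lit 8337818851) (nat_lit 2) (nat_lit 5) (nat_lit 4) (nat_lit 4) (nat_lit 2) (nat_lit 4) (nat_lit 372) (nat_lit 269) (nat_lit 139))))))) (XT.nd (nat_lit 780) (nat_lit 0) (nat_lit 0) (XT.nd (nat_lit 390) (nat_lit 0) (nat_lit 0) (XT.nd (nat_lit 156) (nat_lit 0) (nat_lit 0) (XT.nd (nat_lit 78) (nat_lit 0) (nat_lit 0) (XT.lf (nat_lit 0) (nat_lit 56365567501) (nat_lit 152) (nat_lit 230365690142) (nat_lit 0) (nat_lit 20039566553) (nat_lit 2) (nat_lit 5) (nat_lit 4) (nat_lit 4) (nat_lit 2) (nat_lit 4) (nat_lit 373) (nat_lit 269) (nat_lit 138))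 (XT.lf (nat_lit 0) (nat_lit 68653763044) (nat_lit 152) (nat_lit 220560989785) (nat_lit 0) (nat_lit 32324858552) (nat_lit 2) (nat_lit 5) (nat_lit 4) (nat_lit 4) (nat_lit 2) (nat_lit 4) (nat_lit 374) (nat_lit 269) (nat_lit 137))) (XT.nd (nat_lit 78) (nat_lit 0) (nat_lit 0) (XT.lf (nat_lit 0) (nat_lit 81554615315) (nat_lit 152) (nat_lit 210269365543) (nat_lit 0) (nat_lit 45222945542) (nat_lit 2) (nat_lit 5) (nat_lit 4) (nat_lit 4) (nat_lit 2) (nat_lit 4) (nat_lit 375) (nat_lit 269) (nat_lit 136)) (XT.nd (nat_lit 78) (nat_lit 0) (nat_lit 0) (XT.lf (nat_lit 0) (nat_lit 95098840627) (nat_lit 152) (nat_lit 199466313549) (nat_lit 0) (nat_lit 58764537254) (nat_lit 2) (nat_lit 5) (nat_lit 4) (nat_lit 4) (nat_lit 2) (nat_lit 4) (nat_lit 376) (nat_lit 269) (nat_lit 135)) (XT.lf (nat_lit 0) (nat_lit 109318687138) (nat_lit 152) (nat_lit 188126112249) (nat_lit 0) (nat_lit 72981875574) (nat_lit 2) (nat_lit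 5) (nat_lit 4) (nat_lit 4) (nat_lit 2) (nat_lit 4) (nat_lit 377) (nat_lit 269) (nat_lit 134))))) (XT.nd (nat_lit 156) (nat_lit 0) (nat_lit 0) (XT.nd (nat_lit 78) (nat_lit 0) (nat_lit 0) (XT.lf (nat_lit 0) (nat_lit 124248011624) (nat_lit 152) (nat_lit 176221761165) (nat_lit 0) (nat_lit 87908811307) (nat_lit 2) (nat_lit 5) (nat_lit 4) (nat_lit 4) (nat_lit 2) (nat_lit 4) (nat_lit 378) (nat_lit 269) (nat_lit 133)) (XT.lf (nat_lit 0) (nat_lit 139922360096) (nat_lit 152) (nat_lit 163724916604) (nat_lit 0) (nat_lit 103580884775) (nat_lit 2) (nat_lit 5) (nat_lit 4) (nat_lit 4) (nat_lit 2) (nat_lit 4) (nat_lit 379) (nat_lit 269) (nat_lit 132))) (XT.nd (nat_lit 78) (nat_lit 0) (nat_lit 0) (XT.lf (nat_lit 0) (nat_lit 156379052430) (nat_lit 152) (nat_lit 150605824173) (nat_lit 0) (nat_lit 120035410441) (nat_lit 2) (nat_lit 5) (nat_lit 4) (nat_lit 4) (nat_lit 2) (nat_lit 4) (nat_lit 380) (nat_lit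 269) (nat_lit 131)) (XT.nd (nat_lit 78) (nat_lit 0) (nat_lit 0) (XT.lf (nat_lit 0) (nat_lit 173657271229) (nat_lit 152) (nat_lit 136833247939) (nat_lit 0) (nat_lit 137311565745) (nat_lit 2) (nat_lit 5) (nat_lit 4) (nat_lit 4) (nat_lit 2) (nat_lit 4) (nat_lit 381) (nat_lit 269) (nat_lit 130)) (XT.lf (nat_lit 0) (nat_lit 191798155108) (nat_lit 152) (nat_lit 122374396054) (nat_lit 0) (nat_lit 155450484390) (nat_lit 2) (nat_lit 5) (nat_lit 4) (nat_lit 4) (nat_lit 2) (nat_lit 4) (nat_lit 382) (nat_lit 269) (nat_lit 129)))))) (XT.nd (nat_lit 31824) (nat_lit 0) (nat_lit 7600) (XT.nd (nat_lit 156) (nat_lit 0) (nat_lit 0) (XT.nd (nat_lit 78) (nat_lit 0) (nat_lit 0) (XT.lf (nat_lit 0) (nat_lit 210844896648) (nat_lit 152) (nat_lit 107194842679) (nat_lit 0) (nat_lit 174495354280) (nat_lit 2) (nat_lit 5) (nat_lit 4) (nat_lit 4) (nat_lit 2) (nat_lit 4) (nat_lit 383) (nat_lit 269) (nat_lit 128)) (XT.lf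 (nat_lit 0) (nat_lit 230842845234) (nat_lit 152) (nat_lit 91258446020) (nat_lit 0) (nat_lit 194491520341) (nat_lit 2) (nat_lit 5) (nat_lit 4) (nat_lit 4) (nat_lit 2) (nat_lit 4) (nat_lit 384) (nat_lit 269) (nat_lit 127))) (XT.nd (nat_lit 78) (nat_lit 0) (nat_lit 0) (XT.lf (nat_lit 0) (nat_lit 251839615028) (nat_lit 152) (nat_lit 74527262277) (nat_lit 0) (nat_lit 215486592492) (nat_lit 2) (nat_lit 5) (nat_lit 4) (nat_lit 4) (nat_lit 2) (nat_lit 4) (nat_lit 385) (nat_lit 269) (nat_lit 126)) (XT.nd (nat_lit 78) (nat_lit 0) (nat_lit 0) (XT.lf (nat_lit 0) (nat_lit 273885198340) (nat_lit 152) (nat_lit 56961455297) (nat_lit 0) (nat_lit 237530559002) (nat_lit 2) (nat_lit 5) (nat_lit 4) (nat_lit 4) (nat_lit 2) (nat_lit 4) (nat_lit 386) (nat_lit 269) (nat_lit 125)) (XT.lf (nat_lit 0) (nat_lit 297032084654) (nat_lit 152) (nat_lit 38519201730) (nat_lit 0) (nat_lit 260675905504) (nat_lit 2) (nat_lit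 5) (nat_lit 4) (nat_lit 4) (nat_lit 2) (nat_lit 4) (nat_lit 387) (nat_lit 269) (nat_lit 124))))) (XT.nd (nat_lit 156) (nat_lit 0) (nat_lit 0) (XT.nd (nat_lit 78) (nat_lit 0) (nat_lit 0) (XT.lf (nat_lit 0) (nat_lit 224646871) (nat_lit 0) (nat_lit 224646871) (nat_lit 532) (nat_lit 3363408466) (nat_lit 102) (nat_lit 5) (nat_lit 102) (nat_lit 3) (nat_lit 109) (nat_lit 3) (nat_lit 270) (nat_lit 270) (nat_lit 240)) (XT.lf (nat_lit 0) (nat_lit 2247862962) (nat_lit 532) (nat_lit 3732610894) (nat_lit 608) (nat_lit 1765716414) (nat_lit 102) (nat_lit 5) (nat_lit 109) (nat_lit 3) (nat_lit 110) (nat_lit 5) (nat_lit 271) (nat_lit 270) (nat_lit 239))) (XT.nd (nat_lit 78) (nat_lit 0) (nat_lit 0) (XT.lf (nat_lit 0) (nat_lit 3589507035) (nat_lit 532) (nat_lit 170885170) (nat_lit 608) (nat_lit 4116602571) (nat_lit 102) (nat_lit 5) (nat_lit 109) (nat_lit 3) (nat_lit 110) (nat_lit 5) (nat_lit 272) (nat_lit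 270) (nat_lit 238)) (XT.nd (nat_lit 78) (nat_lit 0) (nat_lit 76) (XT.lf (nat_lit 76) (nat_lit 3641099452) (nat_lit 0) (nat_lit 1335447677) (nat_lit 608) (nat_lit 3039090592) (nat_lit 103) (nat_lit 5) (nat_lit 102) (nat_lit 5) (nat_lit 110) (nat_lit 5) (nat_lit 273) (nat_lit 270) (nat_lit 237)) (XT.lf (nat_lit 0) (nat_lit 6379804964) (nat_lit 532) (nat_lit 578526752) (nat_lit 608) (nat_lit 1205741532) (nat_lit 103) (nat_lit 5) (nat_lit 110) (nat_lit 5) (nat_lit 111) (nat_lit 5) (nat_lit 274) (nat_lit 270) (nat_lit 236))))))))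
noncomputable def xc137 : XT := (XT.nd (nat_lit 1560) (nat_lit 2204) (nat_lit 0) (XT.nd (nat_lit 780) (nat_lit 2052) (nat_lit 0) (XT.nd (nat_lit 390) (nat_lit 1216) (nat_lit 0) (XT.nd (nat_lit 156) (nat_lit 0) (nat_lit 76) (XT.nd (nat_lit 78) (nat_lit 608) (nat_lit 0) (XT.lf (nat_lit 76) (nat_lit 3449981185) (nat_lit 0) (nat_lit 4407592547) (nat_lit 608) (nat_lit 462333437) (nat_lit 104) (nat_lit 5) (nat_lit 103) (nat_lit 5) (nat_lit 111) (nat_lit 5) (nat_lit 275) (nat_lit 270) (nat_lit 235)) (XT.lf (nat_lit 0) (nat_lit 836010934) (nat_lit 608) (nat_lit 845240953) (nat_lit 684) (nat_lit 6804737198) (nat_lit 95) (nat_lit 5) (nat_lit 103) (nat_lit 5) (nat_lit 104) (nat_lit 5) (nat_lit 276) (nat_lit 270) (nat_lit 234))) (XT.nd (nat_lit 78) (nat_lit 0) (nat_lit 0) (XT.lf (nat_lit 0) (nat_lit 2190508556) (nat_lit 608) (nat_lit 5242784850) (nat_lit 684) (nat_lit 1226531657) (nat_lit 96) (nat_lit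 5) (nat_lit 104) (nat_lit 5) (nat_lit 105) (nat_lit 5) (nat_lit 277) (nat_lit 270) (nat_lit 233)) (XT.nd (nat_lit 78) (nat_lit 0) (nat_lit 0) (XT.lf (nat_lit 0) (nat_lit 3590944133) (nat_lit 608) (nat_lit 995916559) (nat_lit 684) (nat_lit 4256741114) (nat_lit 96) (nat_lit 5) (nat_lit 104) (nat_lit 5) (nat_lit 105) (nat_lit 5) (nat_lit 278) (nat_lit 270) (nat_lit 232)) (XT.lf (nat_lit 76) (nat_lit 3530322197) (nat_lit 0) (nat_lit 1525342599) (nat_lit 684) (nat_lit 3981341445) (nat_lit 97) (nat_lit 5) (nat_lit 96) (nat_lit 5) (nat_lit 105) (nat_lit 5) (nat_lit 279) (nat_lit 270) (nat_lit 231))))) (XT.nd (nat_lit 156) (nat_lit 760) (nat_lit 0) (XT.nd (nat_lit 78) (nat_lit 608) (nat_lit 0) (XT.lf (nat_lit 0) (nat_lit 6578684955) (nat_lit 608) (nat_lit 996950853) (nat_lit 76) (nat_lit 1665336697) (nat_lit 97) (nat_lit 5) (nat_lit 105) (nat_lit 5) (nat_lit 98) (nat_lit 5) (nat_lit 280) (nat_lit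 270) (nat_lit 230)) (XT.lf (nat_lit 0) (nat_lit 3788311394) (nat_lit 608) (nat_lit 4418026681) (nat_lit 684) (nat_lit 1247512795) (nat_lit 89) (nat_lit 5) (nat_lit 97) (nat_lit 5) (nat_lit 98) (nat_lit 5) (nat_lit 281) (nat_lit 270) (nat_lit 229))) (XT.nd (nat_lit 78) (nat_lit 684) (nat_lit 0) (XT.lf (nat_lit 0) (nat_lit 192807325) (nat_lit 684) (nat_lit 880464293) (nat_lit 76) (nat_lit 8605919602) (nat_lit 88) (nat_lit 5) (nat_lit 97) (nat_lit 5) (nat_lit 89) (nat_lit 5) (nat_lit 282) (nat_lit 270) (nat_lit 228)) (XT.nd (nat_lit 78) (nat_lit 0) (nat_lit 0) (XT.lf (nat_lit 0) (nat_lit 1716465635) (nat_lit 760) (nat_lit 5740685460) (nat_lit 76) (nat_lit 2455081713) (nat_lit 79) (nat_lit 5) (nat_lit 89) (nat_lit 5) (nat_lit 80) (nat_lit 5) (nat_lit 283) (nat_lit 270) (nat_lit 227)) (XT.lf (nat_lit 0) (nat_lit 3298808737) (nat_lit 760) (nat_lit 714422433) (nat_lit 76) (nat_lit 6144683651)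 (nat_lit 79) (nat_lit 5) (nat_lit 89) (nat_lit 5) (nat_lit 80) (nat_lit 5) (nat_lit 284) (nat_lit 270) (nat_lit 226)))))) (XT.nd (nat_lit 390) (nat_lit 836) (nat_lit 0) (XT.nd (nat_lit 156) (nat_lit 760) (nat_lit 0) (XT.nd (nat_lit 78) (nat_lit 0) (nat_lit 0) (XT.lf (nat_lit 0) (nat_lit 4667662618) (nat_lit 456) (nat_lit 317626172) (nat_lit 532) (nat_lit 5429449191) (nat_lit 73) (nat_lit 5) (nat_lit 79) (nat_lit 5) (nat_lit 80) (nat_lit 5) (nat_lit 285) (nat_lit 270) (nat_lit 225)) (XT.lf (nat_lit 0) (nat_lit 6777781646) (nat_lit 532) (nat_lit 442575871) (nat_lit 76) (nat_lit 3463063236) (nat_lit 73) (nat_lit 5) (nat_lit 80) (nat_lit 5) (nat_lit 74) (nat_lit 5) (nat_lit 286) (nat_lit 270) (nat_lit 224))) (XT.nd (nat_lit 78) (nat_lit 380) (nat_lit 0) (XT.lf (nat_lit 0) (nat_lit 5245437333) (nat_lit 380) (nat_lit 3457533069) (nat_lit 456) (nat_lit 2260511691) (nat_lit 68) (nat_lit 5) (nat_lit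 73) (nat_lit 5) (nat_lit 74) (nat_lit 5) (nat_lit 287) (nat_lit 270) (nat_lit 223)) (XT.nd (nat_lit 78) (nat_lit 380) (nat_lit 0) (XT.lf (nat_lit 0) (nat_lit 10697107203) (nat_lit 456) (nat_lit 77664738) (nat_lit 76) (nat_lit 484233456) (nat_lit 68) (nat_lit 5) (nat_lit 74) (nat_lit 5) (nat_lit 69) (nat_lit 5) (nat_lit 288) (nat_lit 270) (nat_lit 222)) (XT.lf (nat_lit 0) (nat_lit 1292970631) (nat_lit 380) (nat_lit 5650521736) (nat_lit 76) (nat_lit 4619422236) (nat_lit 63) (nat_lit 5) (nat_lit 68) (nat_lit 5) (nat_lit 64) (nat_lit 5) (nat_lit 289) (nat_lit 270) (nat_lit 221))))) (XT.nd (nat_lit 156) (nat_lit 532) (nat_lit 0) (XT.nd (nat_lit 78) (nat_lit 0) (nat_lit 0) (XT.lf (nat_lit 0) (nat_lit 277961239) (nat_lit 304) (nat_lit 2909346964) (nat_lit 380) (nat_lit 8696050674) (nat_lit 59) (nat_lit 5) (nat_lit 63) (nat_lit 5) (nat_lit 64) (nat_lit 5) (nat_lit 290) (nat_lit 270) (nat_lit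 220)) (XT.lf (nat_lit 0) (nat_lit 5255418782) (nat_lit 380) (nat_lit 5583903799) (nat_lit 76) (nat_lit 1376626758) (nat_lit 59) (nat_lit 5) (nat_lit 64) (nat_lit 5) (nat_lit 60) (nat_lit 5) (nat_lit 291) (nat_lit 270) (nat_lit 219))) (XT.nd (nat_lit 78) (nat_lit 304) (nat_lit 0) (XT.lf (nat_lit 0) (nat_lit 668927385) (nat_lit 228) (nat_lit 6779081335) (nat_lit 304) (nat_lit 5116180036) (nat_lit 56) (nat_lit 5) (nat_lit 59) (nat_lit 5) (nat_lit 60) (nat_lit 5) (nat_lit 292) (nat_lit 270) (nat_lit 218)) (XT.nd (nat_lit 78) (nat_lit 304) (nat_lit 0) (XT.lf (nat_lit 0) (nat_lit 7385508527) (nat_lit 228) (nat_lit 2423319011) (nat_lit 304) (nat_lit 3118152278) (nat_lit 56) (nat_lit 5) (nat_lit 59) (nat_lit 5) (nat_lit 60) (nat_lit 5) (nat_lit 293) (nat_lit 270) (nat_lit 217)) (XT.lf (nat_lit 0) (nat_lit 1088894118) (nat_lit 304) (nat_lit 11215010083) (nat_lit 380) (nat_lit 1003261710) (nat_lit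 52) (nat_lit 5) (nat_lit 56) (nat_lit 5) (nat_lit 57) (nat_lit 5) (nat_lit 294) (nat_lit 270) (nat_lit 216))))))) (XT.nd (nat_lit 780) (nat_lit 988) (nat_lit 0) (XT.nd (nat_lit 390) (nat_lit 684) (nat_lit 0) (XT.nd (nat_lit 156) (nat_lit 228) (nat_lit 0) (XT.nd (nat_lit 78) (nat_lit 228) (nat_lit 0) (XT.lf (nat_lit 0) (nat_lit 1279543965) (nat_lit 380) (nat_lit 5561669709) (nat_lit 76) (nat_lit 6859200757) (nat_lit 51) (nat_lit 5) (nat_lit 56) (nat_lit 5) (nat_lit 52) (nat_lit 5) (nat_lit 295) (nat_lit 270) (nat_lit 215)) (XT.lf (nat_lit 0) (nat_lit 1415777567) (nat_lit 228) (nat_lit 2216740065) (nat_lit 304) (nat_lit 10480555500) (nat_lit 48) (nat_lit 5) (nat_lit 51) (nat_lit 5) (nat_lit 52) (nat_lit 5) (nat_lit 296) (nat_lit 270) (nat_lit 214))) (XT.nd (nat_lit 78) (nat_lit 228) (nat_lit 0) (XT.lf (nat_lit 0) (nat_lit 6208491687) (nat_lit 304) (nat_lit 5690898265) (nat_lit 76) (nat_lit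 2641761799) (nat_lit 48) (nat_lit 5) (nat_lit 52) (nat_lit 5) (nat_lit 49) (nat_lit 5) (nat_lit 297) (nat_lit 270) (nat_lit 213)) (XT.nd (nat_lit 78) (nat_lit 0) (nat_lit 0) (XT.lf (nat_lit 0) (nat_lit 1642345953) (nat_lit 228) (nat_lit 7302820614) (nat_lit 304) (nat_lit 6043924594) (nat_lit 45) (nat_lit 5) (nat_lit 48) (nat_lit 5) (nat_lit 49) (nat_lit 5) (nat_lit 298) (nat_lit 270) (nat_lit 212)) (XT.lf (nat_lit 0) (nat_lit 9500769541) (nat_lit 228) (nat_lit 2385026820) (nat_lit 304) (nat_lit 3570324616) (nat_lit 45) (nat_lit 5) (nat_lit 48) (nat_lit 5) (nat_lit 49) (nat_lit 5) (nat_lit 299) (nat_lit 270) (nat_lit 211))))) (XT.nd (nat_lit 156) (nat_lit 380) (nat_lit 0) (XT.nd (nat_lit 78) (nat_lit 76) (nat_lit 0) (XT.lf (nat_lit 0) (nat_lit 1780731264) (nat_lit 228) (nat_lit 13235901709) (nat_lit 304) (nat_lit 927757680) (nat_lit 42) (nat_lit 5) (nat_lit 45) (nat_lit 5) (nat_lit 46)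 (nat_lit 5) (nat_lit 300) (nat_lit 270) (nat_lit 210)) (XT.lf (nat_lit 0) (nat_lit 1901675564) (nat_lit 304) (nat_lit 6450076938) (nat_lit 76) (nat_lit 8098229696) (nat_lit 41) (nat_lit 5) (nat_lit 45) (nat_lit 5) (nat_lit 42) (nat_lit 5) (nat_lit 301) (nat_lit 270) (nat_lit 209))) (XT.nd (nat_lit 78) (nat_lit 152) (nat_lit 0) (XT.lf (nat_lit 0) (nat_lit 1649796074) (nat_lit 228) (nat_lit 3190927930) (nat_lit 304) (nat_lit 12139443464) (nat_lit 38) (nat_lit 5) (nat_lit 41) (nat_lit 5) (nat_lit 42) (nat_lit 5) (nat_lit 302) (nat_lit 270) (nat_lit 208)) (XT.nd (nat_lit 78) (nat_lit 152) (nat_lit 0) (XT.lf (nat_lit 0) (nat_lit 8046624066) (nat_lit 304) (nat_lit 7226927063) (nat_lit 76) (nat_lit 2257354692) (nat_lit 38) (nat_lit 5) (nat_lit 42) (nat_lit 5) (nat_lit 39) (nat_lit 5) (nat_lit 303) (nat_lit 270) (nat_lit 207)) (XT.lf (nat_lit 0) (nat_lit 1233087038) (nat_lit 152) (nat_lit 10226617121)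 (nat_lit 228) (nat_lit 6647169615) (nat_lit 36) (nat_lit 5) (nat_lit 38) (nat_lit 5) (nat_lit 39) (nat_lit 5) (nat_lit 304) (nat_lit 270) (nat_lit 206)))))) (XT.nd (nat_lit 390) (nat_lit 532) (nat_lit 0) (XT.nd (nat_lit 156) (nat_lit 228) (nat_lit 0) (XT.nd (nat_lit 78) (nat_lit 228) (nat_lit 0) (XT.lf (nat_lit 0) (nat_lit 10331822548) (nat_lit 152) (nat_lit 4809955822) (nat_lit 228) (nat_lit 3564979920) (nat_lit 36) (nat_lit 5) (nat_lit 38) (nat_lit 5) (nat_lit 39) (nat_lit 5) (nat_lit 305) (nat_lit 270) (nat_lit 205)) (XT.lf (nat_lit 0) (nat_lit 517190428) (nat_lit 228) (nat_lit 18489469901) (nat_lit 304) (nat_lit 330075001) (nat_lit 33) (nat_lit 5) (nat_lit 36) (nat_lit 5) (nat_lit 37) (nat_lit 5) (nat_lit 306) (nat_lit 270) (nat_lit 204))) (XT.nd (nat_lit 78) (nat_lit 152) (nat_lit 0) (XT.lf (nat_lit 0) (nat_lit 3168533082) (nat_lit 304) (nat_lit 10010243232) (nat_lit 76) (nat_lit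 6807066029) (nat_lit 32) (nat_lit 5) (nat_lit 36) (nat_lit 5) (nat_lit 33) (nat_lit 5) (nat_lit 307) (nat_lit 270) (nat_lit 203)) (XT.nd (nat_lit 78) (nat_lit 152) (nat_lit 0) (XT.lf (nat_lit 0) (nat_lit 6809166513) (nat_lit 304) (nat_lit 798983492) (nat_lit 76) (nat_lit 13060103702) (nat_lit 32) (nat_lit 5) (nat_lit 36) (nat_lit 5) (nat_lit 33) (nat_lit 5) (nat_lit 308) (nat_lit 270) (nat_lit 202)) (XT.lf (nat_lit 0) (nat_lit 9133653225) (nat_lit 152) (nat_lit 1620006627) (nat_lit 228) (nat_lit 10625061936) (nat_lit 30) (nat_lit 5) (nat_lit 32) (nat_lit 5) (nat_lit 33) (nat_lit 5) (nat_lit 309) (nat_lit 270) (nat_lit 201))))) (XT.nd (nat_lit 234) (nat_lit 304) (nat_lit 0) (XT.nd (nat_lit 78) (nat_lit 228) (nat_lit 0) (XT.lf (nat_lit 0) (nat_lit 14961567926) (nat_lit 228) (nat_lit 2638354814) (nat_lit 76) (nat_lit 4521507276) (nat_lit 30) (nat_lit 5) (nat_lit 33) (nat_lit 5) (nat_lit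 31) (nat_lit 5) (nat_lit 310) (nat_lit 270) (nat_lit 200)) (XT.nd (nat_lit 78) (nat_lit 76) (nat_lit 0) (XT.lf (nat_lit 0) (nat_lit 7636177241) (nat_lit 152) (nat_lit 11870010567) (nat_lit 228) (nat_lit 3388795026) (nat_lit 28) (nat_lit 5) (nat_lit 30) (nat_lit 5) (nat_lit 31) (nat_lit 5) (nat_lit 311) (nat_lit 270) (nat_lit 199)) (XT.lf (nat_lit 0) (nat_lit 578632321) (nat_lit 228) (nat_lit 5229127801) (nat_lit 76) (nat_lit 17897726389) (nat_lit 27) (nat_lit 5) (nat_lit 30) (nat_lit 5) (nat_lit 28) (nat_lit 5) (nat_lit 312) (nat_lit 270) (nat_lit 198)))) (XT.nd (nat_lit 78) (nat_lit 152) (nat_lit 0) (XT.lf (nat_lit 0) (nat_lit 4707109751) (nat_lit 228) (nat_lit 19171394801) (nat_lit 76) (nat_lit 671426490) (nat_lit 25) (nat_lit 5) (nat_lit 28) (nat_lit 5) (nat_lit 26) (nat_lit 5) (nat_lit 313) (nat_lit 270) (nat_lit 197)) (XT.nd (nat_lit 78) (nat_lit 152) (nat_lit 0) (XT.lf (nat_lit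 0) (nat_lit 9209077542) (nat_lit 228) (nat_lit 8860072105) (nat_lit 76) (nat_lit 7359115394) (nat_lit 25) (nat_lit 5) (nat_lit 28) (nat_lit 5) (nat_lit 26) (nat_lit 5) (nat_lit 314) (nat_lit 270) (nat_lit 196)) (XT.lf (nat_lit 0) (nat_lit 2002954007) (nat_lit 152) (nat_lit 11947173565) (nat_lit 228) (nat_lit 12399708562) (nat_lit 23) (nat_lit 5) (nat_lit 25) (nat_lit 5) (nat_lit 26) (nat_lit 5) (nat_lit 315) (nat_lit 270) (nat_lit 195))))))))
noncomputable def xc138 : XT := (XT.nd (nat_lit 1560) (nat_lit 456) (nat_lit 0) (XT.nd (nat_lit 780) (nat_lit 456) (nat_lit 0) (XT.nd (nat_lit 390) (nat_lit 152) (nat_lit 0) (XT.nd (nat_lit 156) (nat_lit 304) (nat_lit 0) (XT.nd (nat_lit 78) (nat_lit 0) (nat_lit 0) (XT.lf (nat_lit 0) (nat_lit 13689214493) (nat_lit 152) (nat_lit 5372170932) (nat_lit 228) (nat_lit 8249461243) (nat_lit 23) (nat_lit 5) (nat_lit 25) (nat_lit 5) (nat_lit 26) (nat_lit 5)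 (nat_lit 316) (nat_lit 270) (nat_lit 194)) (XT.lf (nat_lit 0) (nat_lit 24435870683) (nat_lit 228) (nat_lit 2410904508) (nat_lit 76) (nat_lit 1472767079) (nat_lit 23) (nat_lit 5) (nat_lit 26) (nat_lit 5) (nat_lit 24) (nat_lit 4) (nat_lit 317) (nat_lit 270) (nat_lit 193))) (XT.nd (nat_lit 78) (nat_lit 152) (nat_lit 0) (XT.lf (nat_lit 0) (nat_lit 903343352) (nat_lit 152) (nat_lit 19829736976) (nat_lit 76) (nat_lit 8633794009) (nat_lit 21) (nat_lit 5) (nat_lit 23) (nat_lit 5) (nat_lit 22) (nat_lit 5) (nat_lit 318) (nat_lit 270) (nat_lit 192)) (XT.nd (nat_lit 78) (nat_lit 152) (nat_lit 0) (XT.lf (nat_lit 0) (nat_lit 5825297406) (nat_lit 152) (nat_lit 8388289527) (nat_lit 76) (nat_lit 16248512824) (nat_lit 21) (nat_lit 5) (nat_lit 23) (nat_lit 5) (nat_lit 22) (nat_lit 5) (nat_lit 319) (nat_lit 270) (nat_lit 191)) (XT.lf (nat_lit 0) (nat_lit 3719806960) (nat_lit 152) (nat_lit 7316957882) (nat_lit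 228) (nat_lit 20573165436) (nat_lit 19) (nat_lit 5) (nat_lit 21) (nat_lit 5) (nat_lit 22) (nat_lit 5) (nat_lit 320) (nat_lit 270) (nat_lit 190))))) (XT.nd (nat_lit 156) (nat_lit 152) (nat_lit 0) (XT.nd (nat_lit 78) (nat_lit 0) (nat_lit 0) (XT.lf (nat_lit 0) (nat_lit 16637524510) (nat_lit 228) (nat_lit 16109332949) (nat_lit 76) (nat_lit 61872845) (nat_lit 19) (nat_lit 5) (nat_lit 22) (nat_lit 5) (nat_lit 20) (nat_lit 4) (nat_lit 321) (nat_lit 270) (nat_lit 189)) (XT.lf (nat_lit 0) (nat_lit 22624471329) (nat_lit 228) (nat_lit 3882942933) (nat_lit 76) (nat_lit 7554761866) (nat_lit 19) (nat_lit 5) (nat_lit 22) (nat_lit 5) (nat_lit 20) (nat_lit 4) (nat_lit 322) (nat_lit 270) (nat_lit 188))) (XT.nd (nat_lit 78) (nat_lit 76) (nat_lit 0) (XT.lf (nat_lit 0) (nat_lit 9227740731) (nat_lit 76) (nat_lit 19813951881) (nat_lit 152) (nat_lit 6330067901) (nat_lit 18) (nat_lit 5) (nat_lit 19) (nat_lit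 5) (nat_lit 20) (nat_lit 4) (nat_lit 323) (nat_lit 270) (nat_lit 187)) (XT.nd (nat_lit 78) (nat_lit 76) (nat_lit 0) (XT.lf (nat_lit 0) (nat_lit 23106755232) (nat_lit 76) (nat_lit 12725917725) (nat_lit 152) (nat_lit 911518284) (nat_lit 18) (nat_lit 5) (nat_lit 19) (nat_lit 5) (nat_lit 20) (nat_lit 4) (nat_lit 324) (nat_lit 270) (nat_lit 186)) (XT.lf (nat_lit 0) (nat_lit 4612573334) (nat_lit 152) (nat_lit 601505543) (nat_lit 76) (nat_lit 32968068716) (nat_lit 17) (nat_lit 5) (nat_lit 19) (nat_lit 5) (nat_lit 18) (nat_lit 5) (nat_lit 325) (nat_lit 270) (nat_lit 185)))))) (XT.nd (nat_lit 390) (nat_lit 228) (nat_lit 0) (XT.nd (nat_lit 156) (nat_lit 76) (nat_lit 0) (XT.nd (nat_lit 78) (nat_lit 0) (nat_lit 0) (XT.lf (nat_lit 0) (nat_lit 10626169122) (nat_lit 228) (nat_lit 26244201259) (nat_lit 76) (nat_lit 2808697994) (nat_lit 15) (nat_lit 5) (nat_lit 18) (nat_lit 5) (nat_lit 16) (nat_lit 4)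 (nat_lit 326) (nat_lit 270) (nat_lit 184)) (XT.lf (nat_lit 0) (nat_lit 17024528370) (nat_lit 228) (nat_lit 13162525712) (nat_lit 76) (nat_lit 11059586824) (nat_lit 15) (nat_lit 5) (nat_lit 18) (nat_lit 5) (nat_lit 16) (nat_lit 4) (nat_lit 327) (nat_lit 270) (nat_lit 183))) (XT.nd (nat_lit 78) (nat_lit 0) (nat_lit 0) (XT.lf (nat_lit 0) (nat_lit 572020428) (nat_lit 76) (nat_lit 23168528549) (nat_lit 152) (nat_lit 19152165335) (nat_lit 14) (nat_lit 5) (nat_lit 15) (nat_lit 5) (nat_lit 16) (nat_lit 4) (nat_lit 328) (nat_lit 270) (nat_lit 182)) (XT.nd (nat_lit 78) (nat_lit 0) (nat_lit 0) (XT.lf (nat_lit 0) (nat_lit 15431060499) (nat_lit 76) (nat_lit 15573269282) (nat_lit 152) (nat_lit 13606172624) (nat_lit 14) (nat_lit 5) (nat_lit 15) (nat_lit 5) (nat_lit 16) (nat_lit 4) (nat_lit 329) (nat_lit 270) (nat_lit 181)) (XT.lf (nat_lit 0) (nat_lit 31014760623) (nat_lit 76) (nat_lit 7606106071) (nat_lit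 152) (nat_lit 7793843399) (nat_lit 14) (nat_lit 5) (nat_lit 15) (nat_lit 5) (nat_lit 16) (nat_lit 4) (nat_lit 330) (nat_lit 270) (nat_lit 180))))) (XT.nd (nat_lit 156) (nat_lit 76) (nat_lit 0) (XT.nd (nat_lit 78) (nat_lit 152) (nat_lit 0) (XT.lf (nat_lit 0) (nat_lit 46620034073) (nat_lit 152) (nat_lit 961148007) (nat_lit 0) (nat_lit 727864045) (nat_lit 14) (nat_lit 5) (nat_lit 16) (nat_lit 4) (nat_lit 14) (nat_lit 4) (nat_lit 331) (nat_lit 270) (nat_lit 179)) (XT.lf (nat_lit 0) (nat_lit 4917411140) (nat_lit 152) (nat_lit 35837565560) (nat_lit 76) (nat_lit 9522071504) (nat_lit 12) (nat_lit 5) (nat_lit 14) (nat_lit 5) (nat_lit 13) (nat_lit 4) (nat_lit 332) (nat_lit 270) (nat_lit 178))) (XT.nd (nat_lit 78) (nat_lit 76) (nat_lit 0) (XT.lf (nat_lit 0) (nat_lit 11804398178) (nat_lit 152) (nat_lit 21744088199) (nat_lit 76) (nat_lit 18793236376) (nat_lit 12) (nat_lit 5) (nat_lit 14) (nat_lit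 5) (nat_lit 13) (nat_lit 4) (nat_lit 333) (nat_lit 270) (nat_lit 177)) (XT.nd (nat_lit 78) (nat_lit 76) (nat_lit 0) (XT.lf (nat_lit 0) (nat_lit 19026649057) (nat_lit 152) (nat_lit 6962136817) (nat_lit 76) (nat_lit 28521306127) (nat_lit 12) (nat_lit 5) (nat_lit 14) (nat_lit 5) (nat_lit 13) (nat_lit 4) (nat_lit 334) (nat_lit 270) (nat_lit 176)) (XT.lf (nat_lit 0) (nat_lit 8825969861) (nat_lit 76) (nat_lit 17913187875) (nat_lit 152) (nat_lit 30041271088) (nat_lit 11) (nat_lit 5) (nat_lit 12) (nat_lit 5) (nat_lit 13) (nat_lit 4) (nat_lit 335) (nat_lit 270) (nat_lit 175))))))) (XT.nd (nat_lit 780) (nat_lit 228) (nat_lit 0) (XT.nd (nat_lit 390) (nat_lit 76) (nat_lit 0) (XT.nd (nat_lit 156) (nat_lit 152) (nat_lit 0) (XT.nd (nat_lit 78) (nat_lit 0) (nat_lit 0) (XT.lf (nat_lit 0) (nat_lit 25630011964) (nat_lit 76) (nat_lit 9316709221) (nat_lit 152) (nat_lit 24212095911) (nat_lit 11) (nat_lit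 5) (nat_lit 12) (nat_lit 5) (nat_lit 13) (nat_lit 4) (nat_lit 336) (nat_lit 270) (nat_lit 174)) (XT.lf (nat_lit 0) (nat_lit 43259799429) (nat_lit 76) (nat_lit 296789261) (nat_lit 152) (nat_lit 18099945580) (nat_lit 11) (nat_lit 5) (nat_lit 12) (nat_lit 5) (nat_lit 13) (nat_lit 4) (nat_lit 337) (nat_lit 270) (nat_lit 173))) (XT.nd (nat_lit 78) (nat_lit 152) (nat_lit 0) (XT.lf (nat_lit 0) (nat_lit 52732398860) (nat_lit 152) (nat_lit 2665358276) (nat_lit 0) (nat_lit 8874613212) (nat_lit 11) (nat_lit 5) (nat_lit 13) (nat_lit 4) (nat_lit 11) (nat_lit 4) (nat_lit 338) (nat_lit 270) (nat_lit 172)) (XT.nd (nat_lit 78) (nat_lit 76) (nat_lit 0) (XT.lf (nat_lit 0) (nat_lit 14291753355) (nat_lit 76) (nat_lit 48295832055) (nat_lit 76) (nat_lit 4420388771) (nat_lit 10) (nat_lit 4) (nat_lit 11) (nat_lit 5) (nat_lit 11) (nat_lit 4) (nat_lit 339) (nat_lit 270) (nat_lit 171)) (XT.lf (nat_lit 0) (nat_lit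 2995877073) (nat_lit 152) (nat_lit 37750712079) (nat_lit 76) (nat_lit 29129464392) (nat_lit 9) (nat_lit 5) (nat_lit 11) (nat_lit 5) (nat_lit 10) (nat_lit 4) (nat_lit 340) (nat_lit 270) (nat_lit 170))))) (XT.nd (nat_lit 156) (nat_lit 76) (nat_lit 0) (XT.nd (nat_lit 78) (nat_lit 0) (nat_lit 0) (XT.lf (nat_lit 0) (nat_lit 10627363582) (nat_lit 152) (nat_lit 22122180731) (nat_lit 76) (nat_lit 40134725752) (nat_lit 9) (nat_lit 5) (nat_lit 11) (nat_lit 5) (nat_lit 10) (nat_lit 4) (nat_lit 341) (nat_lit 270) (nat_lit 169)) (XT.lf (nat_lit 0) (nat_lit 18633721008) (nat_lit 152) (nat_lit 5724401337) (nat_lit 76) (nat_lit 51685114554) (nat_lit 9) (nat_lit 5) (nat_lit 11) (nat_lit 5) (nat_lit 10) (nat_lit 4) (nat_lit 342) (nat_lit 270) (nat_lit 168))) (XT.nd (nat_lit 78) (nat_lit 0) (nat_lit 0) (XT.lf (nat_lit 0) (nat_lit 11861304246) (nat_lit 76) (nat_lit 15357896061) (nat_lit 152) (nat_lit 52132015678)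 (nat_lit 8) (nat_lit 5) (nat_lit 9) (nat_lit 5) (nat_lit 10) (nat_lit 4) (nat_lit 343) (nat_lit 270) (nat_lit 167)) (XT.nd (nat_lit 78) (nat_lit 0) (nat_lit 0) (XT.lf (nat_lit 0) (nat_lit 30513621881) (nat_lit 76) (nat_lit 5811018843) (nat_lit 152) (nat_lit 46495422859) (nat_lit 8) (nat_lit 5) (nat_lit 9) (nat_lit 5) (nat_lit 10) (nat_lit 4) (nat_lit 344) (nat_lit 270) (nat_lit 166)) (XT.lf (nat_lit 0) (nat_lit 45945096094) (nat_lit 152) (nat_lit 36440671291) (nat_lit 0) (nat_lit 4073602757) (nat_lit 8) (nat_lit 5) (nat_lit 10) (nat_lit 4) (nat_lit 8) (nat_lit 4) (nat_lit 345) (nat_lit 270) (nat_lit 165)))))) (XT.nd (nat_lit 390) (nat_lit 152) (nat_lit 0) (XT.nd (nat_lit 156) (nat_lit 76) (nat_lit 0) (XT.nd (nat_lit 78) (nat_lit 0) (nat_lit 0) (XT.lf (nat_lit 0) (nat_lit 56136087349) (nat_lit 152) (nat_lit 19887439947) (nat_lit 0) (nat_lit 14252642629) (nat_lit 8) (nat_lit 5) (nat_lit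 10) (nat_lit 4) (nat_lit 8) (nat_lit 4) (nat_lit 346) (nat_lit 270) (nat_lit 164)) (XT.lf (nat_lit 0) (nat_lit 66831152464) (nat_lit 152) (nat_lit 2516608924) (nat_lit 0) (nat_lit 24936325474) (nat_lit 8) (nat_lit 5) (nat_lit 10) (nat_lit 4) (nat_lit 8) (nat_lit 4) (nat_lit 347) (nat_lit 270) (nat_lit 163))) (XT.nd (nat_lit 78) (nat_lit 0) (nat_lit 0) (XT.lf (nat_lit 0) (nat_lit 16232729620) (nat_lit 76) (nat_lit 62076464661) (nat_lit 76) (nat_lit 20170797415) (nat_lit 7) (nat_lit 4) (nat_lit 8) (nat_lit 5) (nat_lit 8) (nat_lit 4) (nat_lit 348) (nat_lit 270) (nat_lit 162)) (XT.nd (nat_lit 78) (nat_lit 0) (nat_lit 0) (XT.lf (nat_lit 0) (nat_lit 35997477881) (nat_lit 76) (nat_lit 54401166474) (nat_lit 76) (nat_lit 12485175174) (nat_lit 7) (nat_lit 4) (nat_lit 8) (nat_lit 5) (nat_lit 8) (nat_lit 4) (nat_lit 349) (nat_lit 270) (nat_lit 161)) (XT.lf (nat_lit 0) (nat_lit 56741484325) (nat_lit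 76) (nat_lit 46346212299) (nat_lit 76) (nat_lit 4420388567) (nat_lit 7) (nat_lit 4) (nat_lit 8) (nat_lit 5) (nat_lit 8) (nat_lit 4) (nat_lit 350) (nat_lit 270) (nat_lit 160))))) (XT.nd (nat_lit 156) (nat_lit 76) (nat_lit 0) (XT.nd (nat_lit 78) (nat_lit 0) (nat_lit 0) (XT.lf (nat_lit 0) (nat_lit 3913370574) (nat_lit 152) (nat_lit 33912778275) (nat_lit 76) (nat_lit 74534494046) (nat_lit 6) (nat_lit 5) (nat_lit 8) (nat_lit 5) (nat_lit 7) (nat_lit 4) (nat_lit 351) (nat_lit 270) (nat_lit 159)) (XT.lf (nat_lit 0) (nat_lit 12510771135) (nat_lit 152) (nat_lit 16297025431) (nat_lit 76) (nat_lit 88644635796) (nat_lit 6) (nat_lit 5) (nat_lit 8) (nat_lit 5) (nat_lit 7) (nat_lit 4) (nat_lit 352) (nat_lit 270) (nat_lit 158))) (XT.nd (nat_lit 78) (nat_lit 0) (nat_lit 0) (XT.lf (nat_lit 0) (nat_lit 2264079261) (nat_lit 76) (nat_lit 19305032516) (nat_lit 152) (nat_lit 101228148426) (nat_lit 5) (nat_lit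 5) (nat_lit 6) (nat_lit 5) (nat_lit 7) (nat_lit 4) (nat_lit 353) (nat_lit 270) (nat_lit 157)) (XT.nd (nat_lit 78) (nat_lit 0) (nat_lit 0) (XT.lf (nat_lit 0) (nat_lit 22311262072) (nat_lit 76) (nat_lit 9040909206) (nat_lit 152) (nat_lit 97043570356) (nat_lit 5) (nat_lit 5) (nat_lit 6) (nat_lit 5) (nat_lit 7) (nat_lit 4) (nat_lit 354) (nat_lit 270) (nat_lit 156)) (XT.lf (nat_lit 0) (nat_lit 41647444588) (nat_lit 152) (nat_lit 90948005210) (nat_lit 0) (nat_lit 1677546476) (nat_lit 5) (nat_lit 5) (nat_lit 7) (nat_lit 4) (nat_lit 5) (nat_lit 4) (nat_lit 355) (nat_lit 270) (nat_lit 155))))))))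
noncomputable def xc139 : XT := (XT.nd (nat_lit 1560) (nat_lit 0) (nat_lit 0) (XT.nd (nat_lit 780) (nat_lit 152) (nat_lit 0) (XT.nd (nat_lit 390) (nat_lit 76) (nat_lit 0) (XT.nd (nat_lit 156) (nat_lit 0) (nat_lit 0) (XT.nd (nat_lit 78) (nat_lit 0) (nat_lit 0) (XT.lf (nat_lit 0) (nat_lit 52601836473) (nat_lit 152) (nat_lit 75210110870) (nat_lit 0) (nat_lit 12624950634) (nat_lit 5) (nat_lit 5) (nat_lit 7) (nat_lit 4) (nat_lit 5) (nat_lit 4) (nat_lit 356) (nat_lit 270) (nat_lit 154)) (XT.lf (nat_lit 0) (nat_lit 64100274888) (nat_lit 152) (nat_lit 58692171436) (nat_lit 0) (nat_lit 24116734072) (nat_lit 5) (nat_lit 5) (nat_lit 7) (nat_lit 4) (nat_lit 5) (nat_lit 4) (nat_lit 357) (nat_lit 270) (nat_lit 153))) (XT.nd (nat_lit 78) (nat_lit 0) (nat_lit 0) (XT.lf (nat_lit 0) (nat_lit 76170137067) (nat_lit 152) (nat_lit 41354858481) (nat_lit 0) (nat_lit 36180258178) (nat_lit 5) (nat_lit 5) (nat_lit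 7) (nat_lit 4) (nat_lit 5) (nat_lit 4) (nat_lit 358) (nat_lit 270) (nat_lit 152)) (XT.nd (nat_lit 78) (nat_lit 0) (nat_lit 0) (XT.lf (nat_lit 0) (nat_lit 88840160779) (nat_lit 152) (nat_lit 23156892687) (nat_lit 0) (nat_lit 48844245629) (nat_lit 5) (nat_lit 5) (nat_lit 7) (nat_lit 4) (nat_lit 5) (nat_lit 4) (nat_lit 359) (nat_lit 270) (nat_lit 151)) (XT.lf (nat_lit 0) (nat_lit 102140512745) (nat_lit 152) (nat_lit 4054945566) (nat_lit 0) (nat_lit 62138848776) (nat_lit 5) (nat_lit 5) (nat_lit 7) (nat_lit 4) (nat_lit 5) (nat_lit 4) (nat_lit 360) (nat_lit 270) (nat_lit 150))))) (XT.nd (nat_lit 156) (nat_lit 0) (nat_lit 0) (XT.nd (nat_lit 78) (nat_lit 0) (nat_lit 0) (XT.lf (nat_lit 0) (nat_lit 16525379041) (nat_lit 76) (nat_lit 99835488909) (nat_lit 76) (nat_lit 59828349874) (nat_lit 4) (nat_lit 4) (nat_lit 5) (nat_lit 5) (nat_lit 5) (nat_lit 4) (nat_lit 361) (nat_lit 270) (nat_lit 149))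 (XT.lf (nat_lit 0) (nat_lit 38269954121) (nat_lit 76) (nat_lit 93087994755) (nat_lit 76) (nat_lit 53075641371) (nat_lit 4) (nat_lit 4) (nat_lit 5) (nat_lit 5) (nat_lit 5) (nat_lit 4) (nat_lit 362) (nat_lit 270) (nat_lit 148))) (XT.nd (nat_lit 78) (nat_lit 0) (nat_lit 0) (XT.lf (nat_lit 0) (nat_lit 61096477659) (nat_lit 76) (nat_lit 86005582853) (nat_lit 76) (nat_lit 45988263423) (nat_lit 4) (nat_lit 4) (nat_lit 5) (nat_lit 5) (nat_lit 5) (nat_lit 4) (nat_lit 363) (nat_lit 270) (nat_lit 147)) (XT.nd (nat_lit 78) (nat_lit 0) (nat_lit 0) (XT.lf (nat_lit 0) (nat_lit 85059298521) (nat_lit 76) (nat_lit 78571390318) (nat_lit 76) (nat_lit 38549341319) (nat_lit 4) (nat_lit 4) (nat_lit 5) (nat_lit 5) (nat_lit 5) (nat_lit 4) (nat_lit 364) (nat_lit 270) (nat_lit 146)) (XT.lf (nat_lit 0) (nat_lit 110215471040) (nat_lit 76) (nat_lit 70767716690) (nat_lit 76) (nat_lit 30741163341) (nat_lit 4) (nat_lit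 4) (nat_lit 5) (nat_lit 5) (nat_lit 5) (nat_lit 4) (nat_lit 365) (nat_lit 270) (nat_lit 145)))))) (XT.nd (nat_lit 390) (nat_lit 76) (nat_lit 0) (XT.nd (nat_lit 156) (nat_lit 76) (nat_lit 0) (XT.nd (nat_lit 78) (nat_lit 0) (nat_lit 0) (XT.lf (nat_lit 0) (nat_lit 136624890867) (nat_lit 76) (nat_lit 62575981795) (nat_lit 76) (nat_lit 22545138588) (nat_lit 4) (nat_lit 4) (nat_lit 5) (nat_lit 5) (nat_lit 5) (nat_lit 4) (nat_lit 366) (nat_lit 270) (nat_lit 144)) (XT.lf (nat_lit 0) (nat_lit 164350437573) (nat_lit 76) (nat_lit 53976681501) (nat_lit 76) (nat_lit 13941752716) (nat_lit 4) (nat_lit 4) (nat_lit 5) (nat_lit 5) (nat_lit 5) (nat_lit 4) (nat_lit 367) (nat_lit 270) (nat_lit 143))) (XT.nd (nat_lit 78) (nat_lit 76) (nat_lit 0) (XT.lf (nat_lit 0) (nat_lit 193458124363) (nat_lit 76) (nat_lit 44949341286) (nat_lit 76) (nat_lit 4910521473) (nat_lit 4) (nat_lit 4) (nat_lit 5) (nat_lit 5) (nat_lit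 5) (nat_lit 4) (nat_lit 368) (nat_lit 270) (nat_lit 142)) (XT.nd (nat_lit 78) (nat_lit 0) (nat_lit 0) (XT.lf (nat_lit 0) (nat_lit 4423787673) (nat_lit 152) (nat_lit 30973760822) (nat_lit 76) (nat_lit 219518548596) (nat_lit 3) (nat_lit 5) (nat_lit 5) (nat_lit 5) (nat_lit 4) (nat_lit 4) (nat_lit 369) (nat_lit 270) (nat_lit 141)) (XT.lf (nat_lit 0) (nat_lit 14057746154) (nat_lit 152) (nat_lit 11227675212) (nat_lit 76) (nat_lit 241804769193) (nat_lit 3) (nat_lit 5) (nat_lit 5) (nat_lit 5) (nat_lit 4) (nat_lit 4) (nat_lit 370) (nat_lit 270) (nat_lit 140))))) (XT.nd (nat_lit 156) (nat_lit 0) (nat_lit 0) (XT.nd (nat_lit 78) (nat_lit 0) (nat_lit 0) (XT.lf (nat_lit 0) (nat_lit 9816257093) (nat_lit 76) (nat_lit 14508461510) (nat_lit 152) (nat_lit 255540705247) (nat_lit 2) (nat_lit 5) (nat_lit 3) (nat_lit 5) (nat_lit 4) (nat_lit 4) (nat_lit 371) (nat_lit 270) (nat_lit 139)) (XT.lf (nat_lit 0) (nat_lit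 32298605124) (nat_lit 76) (nat_lit 2994674059) (nat_lit 152) (nat_lit 257976728552) (nat_lit 2) (nat_lit 5) (nat_lit 3) (nat_lit 5) (nat_lit 4) (nat_lit 4) (nat_lit 372) (nat_lit 270) (nat_lit 138))) (XT.nd (nat_lit 78) (nat_lit 0) (nat_lit 0) (XT.lf (nat_lit 0) (nat_lit 46950422450) (nat_lit 152) (nat_lit 251585222307) (nat_lit 0) (nat_lit 8802169188) (nat_lit 2) (nat_lit 5) (nat_lit 4) (nat_lit 4) (nat_lit 2) (nat_lit 4) (nat_lit 373) (nat_lit 270) (nat_lit 137)) (XT.nd (nat_lit 78) (nat_lit 0) (nat_lit 0) (XT.lf (nat_lit 0) (nat_lit 59237762847) (nat_lit 152) (nat_lit 241782137137) (nat_lit 0) (nat_lit 21086744305) (nat_lit 2) (nat_lit 5) (nat_lit 4) (nat_lit 4) (nat_lit 2) (nat_lit 4) (nat_lit 374) (nat_lit 270) (nat_lit 136)) (XT.lf (nat_lit 0) (nat_lit 72137800692) (nat_lit 152) (nat_lit 231492051168) (nat_lit 0) (nat_lit 33984148550) (nat_lit 2) (nat_lit 5) (nat_lit 4) (nat_lit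 4) (nat_lit 2) (nat_lit 4) (nat_lit 375) (nat_lit 270) (nat_lit 135))))))) (XT.nd (nat_lit 780) (nat_lit 0) (nat_lit 0) (XT.nd (nat_lit 390) (nat_lit 0) (nat_lit 0) (XT.nd (nat_lit 156) (nat_lit 0) (nat_lit 0) (XT.nd (nat_lit 78) (nat_lit 0) (nat_lit 0) (XT.lf (nat_lit 0) (nat_lit 85681250362) (nat_lit 152) (nat_lit 220690464195) (nat_lit 0) (nat_lit 47525090029) (nat_lit 2) (nat_lit 5) (nat_lit 4) (nat_lit 4) (nat_lit 2) (nat_lit 4) (nat_lit 376) (nat_lit 270) (nat_lit 134)) (XT.lf (nat_lit 0) (nat_lit 99900358165) (nat_lit 152) (nat_lit 209351658155) (nat_lit 0) (nat_lit 61741809079) (nat_lit 2) (nat_lit 5) (nat_lit 4) (nat_lit 4) (nat_lit 2) (nat_lit 4) (nat_lit 377) (nat_lit 270) (nat_lit 133))) (XT.nd (nat_lit 78) (nat_lit 0) (nat_lit 0) (XT.lf (nat_lit 0) (nat_lit 114828979120) (nat_lit 152) (nat_lit 197448635889) (nat_lit 0) (nat_lit 76668155031) (nat_lit 2) (nat_lit 5) (nat_lit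 4) (nat_lit 4) (nat_lit 2) (nat_lit 4) (nat_lit 378) (nat_lit 270) (nat_lit 132)) (XT.nd (nat_lit 78) (nat_lit 0) (nat_lit 0) (XT.lf (nat_lit 0) (nat_lit 130502657562) (nat_lit 152) (nat_lit 184953056868) (nat_lit 0) (nat_lit 92339666803) (nat_lit 2) (nat_lit 5) (nat_lit 4) (nat_lit 4) (nat_lit 2) (nat_lit 4) (nat_lit 379) (nat_lit 270) (nat_lit 131)) (XT.lf (nat_lit 0) (nat_lit 146958711774) (nat_lit 152) (nat_lit 171835169715) (nat_lit 0) (nat_lit 108793657520) (nat_lit 2) (nat_lit 5) (nat_lit 4) (nat_lit 4) (nat_lit 2) (nat_lit 4) (nat_lit 380) (nat_lit 270) (nat_lit 130))))) (XT.nd (nat_lit 156) (nat_lit 0) (nat_lit 0) (XT.nd (nat_lit 78) (nat_lit 0) (nat_lit 0) (XT.lf (nat_lit 0) (nat_lit 164236322836) (nat_lit 152) (nat_lit 158063741364) (nat_lit 0) (nat_lit 126069303349) (nat_lit 2) (nat_lit 5) (nat_lit 4) (nat_lit 4) (nat_lit 2) (nat_lit 4) (nat_lit 381) (nat_lit 270) (nat_lit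 129)) (XT.lf (nat_lit 0) (nat_lit 182376627919) (nat_lit 152) (nat_lit 143605982700) (nat_lit 0) (nat_lit 144207736781) (nat_lit 2) (nat_lit 5) (nat_lit 4) (nat_lit 4) (nat_lit 2) (nat_lit 4) (nat_lit 382) (nat_lit 270) (nat_lit 128))) (XT.nd (nat_lit 78) (nat_lit 0) (nat_lit 0) (XT.lf (nat_lit 0) (nat_lit 201422818224) (nat_lit 152) (nat_lit 128427470488) (nat_lit 0) (nat_lit 163252144562) (nat_lit 2) (nat_lit 5) (nat_lit 4) (nat_lit 4) (nat_lit 2) (nat_lit 4) (nat_lit 383) (nat_lit 270) (nat_lit 127)) (XT.nd (nat_lit 78) (nat_lit 0) (nat_lit 0) (XT.lf (nat_lit 0) (nat_lit 221420241824) (nat_lit 152) (nat_lit 112492065414) (nat_lit 0) (nat_lit 183247870519) (nat_lit 2) (nat_lit 5) (nat_lit 4) (nat_lit 4) (nat_lit 2) (nat_lit 4) (nat_lit 384) (nat_lit 270) (nat_lit 126)) (XT.lf (nat_lit 0) (nat_lit 242416511632) (nat_lit 152) (nat_lit 95761826037) (nat_lit 0) (nat_lit 204242523525) (nat_lit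 2) (nat_lit 5) (nat_lit 4) (nat_lit 4) (nat_lit 2) (nat_lit 4) (nat_lit 385) (nat_lit 270) (nat_lit 125)))))) (XT.nd (nat_lit 31902) (nat_lit 0) (nat_lit 7068) (XT.nd (nat_lit 31668) (nat_lit 0) (nat_lit 7600) (XT.nd (nat_lit 78) (nat_lit 0) (nat_lit 0) (XT.lf (nat_lit 0) (nat_lit 264461618766) (nat_lit 152) (nat_lit 78196918453) (nat_lit 0) (nat_lit 226286090848) (nat_lit 2) (nat_lit 5) (nat_lit 4) (nat_lit 4) (nat_lit 2) (nat_lit 4) (nat_lit 386) (nat_lit 270) (nat_lit 124)) (XT.lf (nat_lit 0) (nat_lit 287608051577) (nat_lit 152) (nat_lit 59755521455) (nat_lit 0) (nat_lit 249431057172) (nat_lit 2) (nat_lit 5) (nat_lit 4) (nat_lit 4) (nat_lit 2) (nat_lit 4) (nat_lit 387) (nat_lit 270) (nat_lit 123))) (XT.nd (nat_lit 78) (nat_lit 0) (nat_lit 0) (XT.lf (nat_lit 0) (nat_lit 874909664) (nat_lit 0) (nat_lit 874909664) (nat_lit 532) (nat_lit 2186161009) (nat_lit 102) (nat_lit 5) (nat_lit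 102) (nat_lit 3) (nat_lit 109) (nat_lit 3) (nat_lit 271) (nat_lit 271) (nat_lit 238)) (XT.nd (nat_lit 78) (nat_lit 0) (nat_lit 0) (XT.lf (nat_lit 0) (nat_lit 4775653902) (nat_lit 532) (nat_lit 2554737652) (nat_lit 608) (nat_lit 675759410) (nat_lit 102) (nat_lit 5) (nat_lit 109) (nat_lit 3) (nat_lit 110) (nat_lit 5) (nat_lit 272) (nat_lit 271) (nat_lit 237)) (XT.lf (nat_lit 76) (nat_lit 1157133484) (nat_lit 0) (nat_lit 4930293848) (nat_lit 608) (nat_lit 2061229287) (nat_lit 103) (nat_lit 5) (nat_lit 102) (nat_lit 5) (nat_lit 110) (nat_lit 5) (nat_lit 273) (nat_lit 271) (nat_lit 236))))) (XT.nd (nat_lit 234) (nat_lit 0) (nat_lit 0) (XT.nd (nat_lit 78) (nat_lit 532) (nat_lit 0) (XT.lf (nat_lit 76) (nat_lit 5101721721) (nat_lit 0) (nat_lit 2334451783) (nat_lit 608) (nat_lit 863738869) (nat_lit 103) (nat_lit 5) (nat_lit 102) (nat_lit 5) (nat_lit 110) (nat_lit 5) (nat_lit 274) (nat_lit 271)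 (nat_lit 235)) (XT.nd (nat_lit 78) (nat_lit 0) (nat_lit 0) (XT.lf (nat_lit 0) (nat_lit 329983399) (nat_lit 608) (nat_lit 7707385162) (nat_lit 684) (nat_lit 423783263) (nat_lit 95) (nat_lit 5) (nat_lit 103) (nat_lit 5) (nat_lit 104) (nat_lit 5) (nat_lit 275) (nat_lit 271) (nat_lit 234)) (XT.lf (nat_lit 0) (nat_lit 1581001831) (nat_lit 608) (nat_lit 3712025002) (nat_lit 684) (nat_lit 3335554166) (nat_lit 95) (nat_lit 5) (nat_lit 103) (nat_lit 5) (nat_lit 104) (nat_lit 5) (nat_lit 276) (nat_lit 271) (nat_lit 233)))) (XT.nd (nat_lit 78) (nat_lit 0) (nat_lit 76) (XT.lf (nat_lit 76) (nat_lit 454489250) (nat_lit 0) (nat_lit 2383669992) (nat_lit 684) (nat_lit 5969202610) (nat_lit 96) (nat_lit 5) (nat_lit 95) (nat_lit 5) (nat_lit 104) (nat_lit 5) (nat_lit 277) (nat_lit 271) (nat_lit 232)) (XT.nd (nat_lit 78) (nat_lit 0) (nat_lit 0) (XT.lf (nat_lit 0) (nat_lit 4171693725) (nat_lit 608) (nat_lit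 4091210644) (nat_lit 684) (nat_lit 731653437) (nat_lit 96) (nat_lit 5) (nat_lit 104) (nat_lit 5) (nat_lit 105) (nat_lit 5) (nat_lit 278) (nat_lit 271) (nat_lit 231)) (XT.lf (nat_lit 76) (nat_lit 310623257) (nat_lit 0) (nat_lit 5247250869) (nat_lit 684) (nat_lit 3634085752) (nat_lit 97) (nat_lit 5) (nat_lit 96) (nat_lit 5) (nat_lit 105) (nat_lit 5) (nat_lit 279) (nat_lit 271) (nat_lit 230))))))))
noncomputable def xc140 : XT := (XT.nd (nat_lit 1560) (nat_lit 1824) (nat_lit 0) (XT.nd (nat_lit 780) (nat_lit 1368) (nat_lit 0) (XT.nd (nat_lit 390) (nat_lit 1216) (nat_lit 0) (XT.nd (nat_lit 156) (nat_lit 760) (nat_lit 0) (XT.nd (nat_lit 78) (nat_lit 532) (nat_lit 0) (XT.lf (nat_lit 76) (nat_lit 5031516039) (nat_lit 0) (nat_lit 1995264487) (nat_lit 684) (nat_lit 2371918565) (nat_lit 97) (nat_lit 5) (nat_lit 96) (nat_lit 5) (nat_lit 105) (nat_lit 5) (nat_lit 280) (nat_lit 271) (nat_lit 229))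 (XT.lf (nat_lit 0) (nat_lit 316651917) (nat_lit 608) (nat_lit 8226564859) (nat_lit 684) (nat_lit 1073985583) (nat_lit 89) (nat_lit 5) (nat_lit 97) (nat_lit 5) (nat_lit 98) (nat_lit 5) (nat_lit 281) (nat_lit 271) (nat_lit 228))) (XT.nd (nat_lit 78) (nat_lit 684) (nat_lit 0) (XT.lf (nat_lit 0) (nat_lit 335351318) (nat_lit 684) (nat_lit 4540201381) (nat_lit 76) (nat_lit 4968184114) (nat_lit 88) (nat_lit 5) (nat_lit 97) (nat_lit 5) (nat_lit 89) (nat_lit 5) (nat_lit 282) (nat_lit 271) (nat_lit 227)) (XT.nd (nat_lit 78) (nat_lit 0) (nat_lit 0) (XT.lf (nat_lit 0) (nat_lit 410719056) (nat_lit 684) (nat_lit 1325107913) (nat_lit 760) (nat_lit 8347165901) (nat_lit 79) (nat_lit 5) (nat_lit 88) (nat_lit 5) (nat_lit 89) (nat_lit 5) (nat_lit 283) (nat_lit 271) (nat_lit 226)) (XT.lf (nat_lit 0) (nat_lit 3274137279) (nat_lit 760) (nat_lit 4647217496) (nat_lit 76) (nat_lit 2409574450) (nat_lit 79) (nat_lit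 5) (nat_lit 89) (nat_lit 5) (nat_lit 80) (nat_lit 5) (nat_lit 284) (nat_lit 271) (nat_lit 225))))) (XT.nd (nat_lit 156) (nat_lit 760) (nat_lit 0) (XT.nd (nat_lit 78) (nat_lit 0) (nat_lit 0) (XT.lf (nat_lit 0) (nat_lit 583289384) (nat_lit 456) (nat_lit 4291326916) (nat_lit 532) (nat_lit 5717486327) (nat_lit 73) (nat_lit 5) (nat_lit 79) (nat_lit 5) (nat_lit 80) (nat_lit 5) (nat_lit 285) (nat_lit 271) (nat_lit 224)) (XT.lf (nat_lit 0) (nat_lit 6194603914) (nat_lit 456) (nat_lit 395155237) (nat_lit 532) (nat_lit 4274941550) (nat_lit 73) (nat_lit 5) (nat_lit 79) (nat_lit 5) (nat_lit 80) (nat_lit 5) (nat_lit 286) (nat_lit 271) (nat_lit 223))) (XT.nd (nat_lit 78) (nat_lit 380) (nat_lit 0) (XT.lf (nat_lit 0) (nat_lit 863204054) (nat_lit 380) (nat_lit 7556699353) (nat_lit 456) (nat_lit 2729656385) (nat_lit 68) (nat_lit 5) (nat_lit 73) (nat_lit 5) (nat_lit 74) (nat_lit 5) (nat_lit 287) (nat_lit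 271) (nat_lit 222)) (XT.nd (nat_lit 78) (nat_lit 380) (nat_lit 0) (XT.lf (nat_lit 0) (nat_lit 6787017728) (nat_lit 380) (nat_lit 3599413495) (nat_lit 456) (nat_lit 1060075680) (nat_lit 68) (nat_lit 5) (nat_lit 73) (nat_lit 5) (nat_lit 74) (nat_lit 5) (nat_lit 288) (nat_lit 271) (nat_lit 221)) (XT.lf (nat_lit 0) (nat_lit 659883842) (nat_lit 380) (nat_lit 10531509921) (nat_lit 76) (nat_lit 566993273) (nat_lit 63) (nat_lit 5) (nat_lit 68) (nat_lit 5) (nat_lit 64) (nat_lit 5) (nat_lit 289) (nat_lit 271) (nat_lit 220)))))) (XT.nd (nat_lit 390) (nat_lit 836) (nat_lit 0) (XT.nd (nat_lit 156) (nat_lit 228) (nat_lit 0) (XT.nd (nat_lit 78) (nat_lit 304) (nat_lit 0) (XT.lf (nat_lit 0) (nat_lit 2531267101) (nat_lit 380) (nat_lit 4632549895) (nat_lit 76) (nat_lit 4916199483) (nat_lit 63) (nat_lit 5) (nat_lit 68) (nat_lit 5) (nat_lit 64) (nat_lit 5) (nat_lit 290) (nat_lit 271) (nat_lit 219)) (XT.lf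 (nat_lit 0) (nat_lit 1571381455) (nat_lit 304) (nat_lit 2913029026) (nat_lit 380) (nat_lit 7933980490) (nat_lit 59) (nat_lit 5) (nat_lit 63) (nat_lit 5) (nat_lit 64) (nat_lit 5) (nat_lit 291) (nat_lit 271) (nat_lit 218))) (XT.nd (nat_lit 78) (nat_lit 228) (nat_lit 0) (XT.lf (nat_lit 0) (nat_lit 6603856896) (nat_lit 380) (nat_lit 4590294857) (nat_lit 76) (nat_lit 1576169783) (nat_lit 59) (nat_lit 5) (nat_lit 64) (nat_lit 5) (nat_lit 60) (nat_lit 5) (nat_lit 292) (nat_lit 271) (nat_lit 217)) (XT.nd (nat_lit 78) (nat_lit 0) (nat_lit 0) (XT.lf (nat_lit 0) (nat_lit 1954648787) (nat_lit 228) (nat_lit 6919280630) (nat_lit 304) (nat_lit 4263752848) (nat_lit 56) (nat_lit 5) (nat_lit 59) (nat_lit 5) (nat_lit 60) (nat_lit 5) (nat_lit 293) (nat_lit 271) (nat_lit 216)) (XT.lf (nat_lit 0) (nat_lit 8947426842) (nat_lit 228) (nat_lit 2355194703) (nat_lit 304) (nat_lit 2218596855) (nat_lit 56) (nat_lit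 5) (nat_lit 59) (nat_lit 5) (nat_lit 60) (nat_lit 5) (nat_lit 294) (nat_lit 271) (nat_lit 215))))) (XT.nd (nat_lit 156) (nat_lit 456) (nat_lit 0) (XT.nd (nat_lit 78) (nat_lit 76) (nat_lit 0) (XT.lf (nat_lit 0) (nat_lit 2365107770) (nat_lit 304) (nat_lit 11531455432) (nat_lit 380) (nat_lit 25237552) (nat_lit 52) (nat_lit 5) (nat_lit 56) (nat_lit 5) (nat_lit 57) (nat_lit 5) (nat_lit 295) (nat_lit 271) (nat_lit 214)) (XT.lf (nat_lit 0) (nat_lit 2291405764) (nat_lit 380) (nat_lit 4643144133) (nat_lit 76) (nat_lit 7401812782) (nat_lit 51) (nat_lit 5) (nat_lit 56) (nat_lit 5) (nat_lit 52) (nat_lit 5) (nat_lit 296) (nat_lit 271) (nat_lit 213))) (XT.nd (nat_lit 78) (nat_lit 228) (nat_lit 0) (XT.lf (nat_lit 0) (nat_lit 2663875361) (nat_lit 228) (nat_lit 2071396483) (nat_lit 304) (nat_lit 10035800202) (nat_lit 48) (nat_lit 5) (nat_lit 51) (nat_lit 5) (nat_lit 52) (nat_lit 5) (nat_lit 297) (nat_lit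 271) (nat_lit 212)) (XT.nd (nat_lit 78) (nat_lit 228) (nat_lit 0) (XT.lf (nat_lit 0) (nat_lit 7399990582) (nat_lit 304) (nat_lit 4812620358) (nat_lit 76) (nat_lit 3010022466) (nat_lit 48) (nat_lit 5) (nat_lit 52) (nat_lit 5) (nat_lit 49) (nat_lit 5) (nat_lit 298) (nat_lit 271) (nat_lit 211)) (XT.lf (nat_lit 0) (nat_lit 2868530864) (nat_lit 228) (nat_lit 7380874525) (nat_lit 304) (nat_lit 5444841576) (nat_lit 45) (nat_lit 5) (nat_lit 48) (nat_lit 5) (nat_lit 49) (nat_lit 5) (nat_lit 299) (nat_lit 271) (nat_lit 210))))))) (XT.nd (nat_lit 780) (nat_lit 684) (nat_lit 0) (XT.nd (nat_lit 390) (nat_lit 608) (nat_lit 0) (XT.nd (nat_lit 156) (nat_lit 304) (nat_lit 0) (XT.nd (nat_lit 78) (nat_lit 228) (nat_lit 0) (XT.lf (nat_lit 0) (nat_lit 11065396222) (nat_lit 228) (nat_lit 2230861856) (nat_lit 304) (nat_lit 2890479658) (nat_lit 45) (nat_lit 5) (nat_lit 48) (nat_lit 5) (nat_lit 49) (nat_lit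 5) (nat_lit 300) (nat_lit 271) (nat_lit 209)) (XT.lf (nat_lit 0) (nat_lit 2979090902) (nat_lit 228) (nat_lit 13587065451) (nat_lit 304) (nat_lit 134204299) (nat_lit 42) (nat_lit 5) (nat_lit 45) (nat_lit 5) (nat_lit 46) (nat_lit 5) (nat_lit 301) (nat_lit 271) (nat_lit 208))) (XT.nd (nat_lit 78) (nat_lit 228) (nat_lit 0) (XT.lf (nat_lit 0) (nat_lit 2771100199) (nat_lit 304) (nat_lit 5689286717) (nat_lit 76) (nat_lit 8772184653) (nat_lit 41) (nat_lit 5) (nat_lit 45) (nat_lit 5) (nat_lit 42) (nat_lit 5) (nat_lit 302) (nat_lit 271) (nat_lit 207)) (XT.nd (nat_lit 78) (nat_lit 0) (nat_lit 0) (XT.lf (nat_lit 0) (nat_lit 2798107461) (nat_lit 228) (nat_lit 3038760688) (nat_lit 304) (nat_lit 11953466395) (nat_lit 38) (nat_lit 5) (nat_lit 41) (nat_lit 5) (nat_lit 42) (nat_lit 5) (nat_lit 303) (nat_lit 271) (nat_lit 206)) (XT.lf (nat_lit 0) (nat_lit 9171788286) (nat_lit 304) (nat_lit 6540848504)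 (nat_lit 76) (nat_lit 2657590861) (nat_lit 38) (nat_lit 5) (nat_lit 42) (nat_lit 5) (nat_lit 39) (nat_lit 5) (nat_lit 304) (nat_lit 271) (nat_lit 205))))) (XT.nd (nat_lit 156) (nat_lit 456) (nat_lit 0) (XT.nd (nat_lit 78) (nat_lit 0) (nat_lit 0) (XT.lf (nat_lit 0) (nat_lit 2325272352) (nat_lit 152) (nat_lit 10411918888) (nat_lit 228) (nat_lit 6238770833) (nat_lit 36) (nat_lit 5) (nat_lit 38) (nat_lit 5) (nat_lit 39) (nat_lit 5) (nat_lit 305) (nat_lit 271) (nat_lit 204)) (XT.lf (nat_lit 0) (nat_lit 11829871734) (nat_lit 152) (nat_lit 4739949719) (nat_lit 228) (nat_lit 3037745809) (nat_lit 36) (nat_lit 5) (nat_lit 38) (nat_lit 5) (nat_lit 39) (nat_lit 5) (nat_lit 306) (nat_lit 271) (nat_lit 203))) (XT.nd (nat_lit 78) (nat_lit 152) (nat_lit 0) (XT.lf (nat_lit 0) (nat_lit 335377364) (nat_lit 304) (nat_lit 18737208830) (nat_lit 76) (nat_lit 1196823277) (nat_lit 32) (nat_lit 5) (nat_lit 36)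 (nat_lit 5) (nat_lit 33) (nat_lit 5) (nat_lit 307) (nat_lit 271) (nat_lit 202)) (XT.nd (nat_lit 78) (nat_lit 152) (nat_lit 0) (XT.lf (nat_lit 0) (nat_lit 3965877289) (nat_lit 304) (nat_lit 9541324677) (nat_lit 76) (nat_lit 7445138989) (nat_lit 32) (nat_lit 5) (nat_lit 36) (nat_lit 5) (nat_lit 33) (nat_lit 5) (nat_lit 308) (nat_lit 271) (nat_lit 201)) (XT.lf (nat_lit 0) (nat_lit 87123166) (nat_lit 152) (nat_lit 7672354816) (nat_lit 228) (nat_lit 13910888488) (nat_lit 30) (nat_lit 5) (nat_lit 32) (nat_lit 5) (nat_lit 33) (nat_lit 5) (nat_lit 309) (nat_lit 271) (nat_lit 200)))))) (XT.nd (nat_lit 390) (nat_lit 304) (nat_lit 0) (XT.nd (nat_lit 156) (nat_lit 380) (nat_lit 0) (XT.nd (nat_lit 78) (nat_lit 0) (nat_lit 0) (XT.lf (nat_lit 0) (nat_lit 10498711826) (nat_lit 152) (nat_lit 1386330368) (nat_lit 228) (nat_lit 10532161893) (nat_lit 30) (nat_lit 5) (nat_lit 32) (nat_lit 5) (nat_lit 33)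 (nat_lit 5) (nat_lit 310) (nat_lit 271) (nat_lit 199)) (XT.lf (nat_lit 0) (nat_lit 16279753306) (nat_lit 228) (nat_lit 1880828034) (nat_lit 76) (nat_lit 5037682616) (nat_lit 30) (nat_lit 5) (nat_lit 33) (nat_lit 5) (nat_lit 31) (nat_lit 5) (nat_lit 311) (nat_lit 271) (nat_lit 198))) (XT.nd (nat_lit 78) (nat_lit 228) (nat_lit 0) (XT.lf (nat_lit 0) (nat_lit 8893084745) (nat_lit 152) (nat_lit 12145034228) (nat_lit 228) (nat_lit 2973084570) (nat_lit 28) (nat_lit 5) (nat_lit 30) (nat_lit 5) (nat_lit 31) (nat_lit 5) (nat_lit 312) (nat_lit 271) (nat_lit 197)) (XT.nd (nat_lit 78) (nat_lit 152) (nat_lit 0) (XT.lf (nat_lit 0) (nat_lit 1147013220) (nat_lit 228) (nat_lit 4638687772) (nat_lit 76) (nat_lit 19077454868) (nat_lit 27) (nat_lit 5) (nat_lit 30) (nat_lit 5) (nat_lit 28) (nat_lit 5) (nat_lit 313) (nat_lit 271) (nat_lit 196)) (XT.lf (nat_lit 0) (nat_lit 5474172832) (nat_lit 228) (nat_lit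 19269724040) (nat_lit 76) (nat_lit 1006342950) (nat_lit 25) (nat_lit 5) (nat_lit 28) (nat_lit 5) (nat_lit 26) (nat_lit 5) (nat_lit 314) (nat_lit 271) (nat_lit 195))))) (XT.nd (nat_lit 156) (nat_lit 152) (nat_lit 0) (XT.nd (nat_lit 78) (nat_lit 152) (nat_lit 0) (XT.lf (nat_lit 0) (nat_lit 10175919604) (nat_lit 228) (nat_lit 8483799043) (nat_lit 76) (nat_lit 8014066531) (nat_lit 25) (nat_lit 5) (nat_lit 28) (nat_lit 5) (nat_lit 26) (nat_lit 5) (nat_lit 315) (nat_lit 271) (nat_lit 194)) (XT.lf (nat_lit 0) (nat_lit 2909164235) (nat_lit 152) (nat_lit 12233329072) (nat_lit 228) (nat_lit 12499545279) (nat_lit 23) (nat_lit 5) (nat_lit 25) (nat_lit 5) (nat_lit 26) (nat_lit 5) (nat_lit 316) (nat_lit 271) (nat_lit 193))) (XT.nd (nat_lit 78) (nat_lit 152) (nat_lit 0) (XT.lf (nat_lit 0) (nat_lit 15141353816) (nat_lit 152) (nat_lit 5344395506) (nat_lit 228) (nat_lit 8166554580) (nat_lit 23) (nat_lit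 5) (nat_lit 25) (nat_lit 5) (nat_lit 26) (nat_lit 5) (nat_lit 317) (nat_lit 271) (nat_lit 192)) (XT.nd (nat_lit 78) (nat_lit 152) (nat_lit 0) (XT.lf (nat_lit 0) (nat_lit 26110923274) (nat_lit 228) (nat_lit 1781796101) (nat_lit 76) (nat_lit 1819641466) (nat_lit 23) (nat_lit 5) (nat_lit 26) (nat_lit 5) (nat_lit 24) (nat_lit 4) (nat_lit 318) (nat_lit 271) (nat_lit 191)) (XT.lf (nat_lit 0) (nat_lit 1399423534) (nat_lit 152) (nat_lit 20068302645) (nat_lit 76) (nat_lit 9344496710) (nat_lit 21) (nat_lit 5) (nat_lit 23) (nat_lit 5) (nat_lit 22) (nat_lit 5) (nat_lit 319) (nat_lit 271) (nat_lit 190))))))))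
noncomputable def xc141 : XT := (XT.nd (nat_lit 1560) (nat_lit 456) (nat_lit 0) (XT.nd (nat_lit 780) (nat_lit 228) (nat_lit 0) (XT.nd (nat_lit 390) (nat_lit 304) (nat_lit 0) (XT.nd (nat_lit 156) (nat_lit 76) (nat_lit 0) (XT.nd (nat_lit 78) (nat_lit 152) (nat_lit 0) (XT.lf (nat_lit 0) (nat_lit 6546003242) (nat_lit 152) (nat_lit 8090636213) (nat_lit 76) (nat_lit 17326665133) (nat_lit 21) (nat_lit 5) (nat_lit 23) (nat_lit 5) (nat_lit 22) (nat_lit 5) (nat_lit 320) (nat_lit 271) (nat_lit 189)) (XT.lf (nat_lit 0) (nat_lit 4611299489) (nat_lit 152) (nat_lit 7397309858) (nat_lit 228) (nat_lit 21160409410) (nat_lit 19) (nat_lit 5) (nat_lit 21) (nat_lit 5) (nat_lit 22) (nat_lit 5) (nat_lit 321) (nat_lit 271) (nat_lit 188))) (XT.nd (nat_lit 78) (nat_lit 76) (nat_lit 0) (XT.lf (nat_lit 0) (nat_lit 17873651834) (nat_lit 228) (nat_lit 16226749286) (nat_lit 76) (nat_lit 328164836) (nat_lit 19) (nat_lit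 5) (nat_lit 22) (nat_lit 5) (nat_lit 20) (nat_lit 4) (nat_lit 322) (nat_lit 271) (nat_lit 187)) (XT.nd (nat_lit 78) (nat_lit 76) (nat_lit 0) (XT.lf (nat_lit 0) (nat_lit 24140695942) (nat_lit 228) (nat_lit 3421804070) (nat_lit 76) (nat_lit 8183165053) (nat_lit 19) (nat_lit 5) (nat_lit 22) (nat_lit 5) (nat_lit 20) (nat_lit 4) (nat_lit 323) (nat_lit 271) (nat_lit 186)) (XT.lf (nat_lit 0) (nat_lit 10333844648) (nat_lit 76) (nat_lit 20536666095) (nat_lit 152) (nat_lit 6250648914) (nat_lit 18) (nat_lit 5) (nat_lit 19) (nat_lit 5) (nat_lit 20) (nat_lit 4) (nat_lit 324) (nat_lit 271) (nat_lit 185))))) (XT.nd (nat_lit 156) (nat_lit 228) (nat_lit 0) (XT.nd (nat_lit 78) (nat_lit 76) (nat_lit 0) (XT.lf (nat_lit 0) (nat_lit 24876109070) (nat_lit 76) (nat_lit 13106991344) (nat_lit 152) (nat_lit 580025263) (nat_lit 18) (nat_lit 5) (nat_lit 19) (nat_lit 5) (nat_lit 20) (nat_lit 4) (nat_lit 325) (nat_lit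 271) (nat_lit 184)) (XT.lf (nat_lit 0) (nat_lit 5190821405) (nat_lit 152) (nat_lit 35005488) (nat_lit 76) (nat_lit 34847742861) (nat_lit 17) (nat_lit 5) (nat_lit 19) (nat_lit 5) (nat_lit 18) (nat_lit 5) (nat_lit 326) (nat_lit 271) (nat_lit 183))) (XT.nd (nat_lit 78) (nat_lit 76) (nat_lit 0) (XT.lf (nat_lit 0) (nat_lit 11501559700) (nat_lit 228) (nat_lit 26956008946) (nat_lit 76) (nat_lit 3187959282) (nat_lit 15) (nat_lit 5) (nat_lit 18) (nat_lit 5) (nat_lit 16) (nat_lit 4) (nat_lit 327) (nat_lit 271) (nat_lit 182)) (XT.nd (nat_lit 78) (nat_lit 76) (nat_lit 0) (XT.lf (nat_lit 0) (nat_lit 18203452047) (nat_lit 228) (nat_lit 13248840210) (nat_lit 76) (nat_lit 11840019868) (nat_lit 15) (nat_lit 5) (nat_lit 18) (nat_lit 5) (nat_lit 16) (nat_lit 4) (nat_lit 328) (nat_lit 271) (nat_lit 181)) (XT.lf (nat_lit 0) (nat_lit 1163210466) (nat_lit 76) (nat_lit 24085242178) (nat_lit 152) (nat_lit 19772590751)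 (nat_lit 14) (nat_lit 5) (nat_lit 15) (nat_lit 5) (nat_lit 16) (nat_lit 4) (nat_lit 329) (nat_lit 271) (nat_lit 180)))))) (XT.nd (nat_lit 390) (nat_lit 76) (nat_lit 0) (XT.nd (nat_lit 156) (nat_lit 152) (nat_lit 0) (XT.nd (nat_lit 78) (nat_lit 0) (nat_lit 0) (XT.lf (nat_lit 0) (nat_lit 16738412588) (nat_lit 76) (nat_lit 16121730081) (nat_lit 152) (nat_lit 13965354731) (nat_lit 14) (nat_lit 5) (nat_lit 15) (nat_lit 5) (nat_lit 16) (nat_lit 4) (nat_lit 330) (nat_lit 271) (nat_lit 179)) (XT.lf (nat_lit 0) (nat_lit 33075783477) (nat_lit 76) (nat_lit 7767170742) (nat_lit 152) (nat_lit 7877700784) (nat_lit 14) (nat_lit 5) (nat_lit 15) (nat_lit 5) (nat_lit 16) (nat_lit 4) (nat_lit 331) (nat_lit 271) (nat_lit 178))) (XT.nd (nat_lit 78) (nat_lit 152) (nat_lit 0) (XT.lf (nat_lit 0) (nat_lit 49231480681) (nat_lit 152) (nat_lit 512393543) (nat_lit 0) (nat_lit 966374927) (nat_lit 14) (nat_lit 5)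 (nat_lit 16) (nat_lit 4) (nat_lit 14) (nat_lit 4) (nat_lit 332) (nat_lit 271) (nat_lit 177)) (XT.nd (nat_lit 78) (nat_lit 0) (nat_lit 0) (XT.lf (nat_lit 0) (nat_lit 5442716542) (nat_lit 152) (nat_lit 37131199762) (nat_lit 76) (nat_lit 10202806640) (nat_lit 12) (nat_lit 5) (nat_lit 14) (nat_lit 5) (nat_lit 13) (nat_lit 4) (nat_lit 333) (nat_lit 271) (nat_lit 176)) (XT.lf (nat_lit 0) (nat_lit 12660746511) (nat_lit 152) (nat_lit 22356774442) (nat_lit 76) (nat_lit 19927785396) (nat_lit 12) (nat_lit 5) (nat_lit 14) (nat_lit 5) (nat_lit 13) (nat_lit 4) (nat_lit 334) (nat_lit 271) (nat_lit 175))))) (XT.nd (nat_lit 156) (nat_lit 0) (nat_lit 0) (XT.nd (nat_lit 78) (nat_lit 76) (nat_lit 0) (XT.lf (nat_lit 0) (nat_lit 20231437152) (nat_lit 152) (nat_lit 6858321594) (nat_lit 76) (nat_lit 30132978291) (nat_lit 12) (nat_lit 5) (nat_lit 14) (nat_lit 5) (nat_lit 13) (nat_lit 4) (nat_lit 335) (nat_lit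 271) (nat_lit 174)) (XT.lf (nat_lit 0) (nat_lit 9711901353) (nat_lit 76) (nat_lit 18612542563) (nat_lit 152) (nat_lit 31282412047) (nat_lit 11) (nat_lit 5) (nat_lit 12) (nat_lit 5) (nat_lit 13) (nat_lit 4) (nat_lit 336) (nat_lit 271) (nat_lit 173))) (XT.nd (nat_lit 78) (nat_lit 0) (nat_lit 0) (XT.lf (nat_lit 0) (nat_lit 27334972561) (nat_lit 76) (nat_lit 9595587819) (nat_lit 152) (nat_lit 25174202996) (nat_lit 11) (nat_lit 5) (nat_lit 12) (nat_lit 5) (nat_lit 13) (nat_lit 4) (nat_lit 337) (nat_lit 271) (nat_lit 172)) (XT.nd (nat_lit 78) (nat_lit 0) (nat_lit 0) (XT.lf (nat_lit 0) (nat_lit 45826084638) (nat_lit 76) (nat_lit 133574569) (nat_lit 152) (nat_lit 18768278373) (nat_lit 11) (nat_lit 5) (nat_lit 12) (nat_lit 5) (nat_lit 13) (nat_lit 4) (nat_lit 338) (nat_lit 271) (nat_lit 171)) (XT.lf (nat_lit 0) (nat_lit 55586181666) (nat_lit 152) (nat_lit 2406303602) (nat_lit 0) (nat_lit 9482491787)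 (nat_lit 11) (nat_lit 5) (nat_lit 13) (nat_lit 4) (nat_lit 11) (nat_lit 4) (nat_lit 339) (nat_lit 271) (nat_lit 170))))))) (XT.nd (nat_lit 780) (nat_lit 152) (nat_lit 0) (XT.nd (nat_lit 390) (nat_lit 76) (nat_lit 0) (XT.nd (nat_lit 156) (nat_lit 76) (nat_lit 0) (XT.nd (nat_lit 78) (nat_lit 76) (nat_lit 0) (XT.lf (nat_lit 0) (nat_lit 15392335827) (nat_lit 76) (nat_lit 50537477089) (nat_lit 76) (nat_lit 4417771214) (nat_lit 10) (nat_lit 4) (nat_lit 11) (nat_lit 5) (nat_lit 11) (nat_lit 4) (nat_lit 340) (nat_lit 271) (nat_lit 169)) (XT.lf (nat_lit 0) (nat_lit 3351841608) (nat_lit 152) (nat_lit 39263683908) (nat_lit 76) (nat_lit 30743889428) (nat_lit 9) (nat_lit 5) (nat_lit 11) (nat_lit 5) (nat_lit 10) (nat_lit 4) (nat_lit 341) (nat_lit 271) (nat_lit 168))) (XT.nd (nat_lit 78) (nat_lit 76) (nat_lit 0) (XT.lf (nat_lit 0) (nat_lit 11355084791) (nat_lit 152) (nat_lit 22871562363) (nat_lit 76)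 (nat_lit 42291892342) (nat_lit 9) (nat_lit 5) (nat_lit 11) (nat_lit 5) (nat_lit 10) (nat_lit 4) (nat_lit 342) (nat_lit 271) (nat_lit 167)) (XT.nd (nat_lit 78) (nat_lit 76) (nat_lit 0) (XT.lf (nat_lit 0) (nat_lit 19752409944) (nat_lit 152) (nat_lit 5670881018) (nat_lit 76) (nat_lit 54412637236) (nat_lit 9) (nat_lit 5) (nat_lit 11) (nat_lit 5) (nat_lit 10) (nat_lit 4) (nat_lit 343) (nat_lit 271) (nat_lit 166)) (XT.lf (nat_lit 0) (nat_lit 12788630161) (nat_lit 76) (nat_lit 15974846895) (nat_lit 152) (nat_lit 54546019224) (nat_lit 8) (nat_lit 5) (nat_lit 9) (nat_lit 5) (nat_lit 10) (nat_lit 4) (nat_lit 344) (nat_lit 271) (nat_lit 165))))) (XT.nd (nat_lit 156) (nat_lit 76) (nat_lit 0) (XT.nd (nat_lit 78) (nat_lit 0) (nat_lit 0) (XT.lf (nat_lit 0) (nat_lit 32357646501) (nat_lit 76) (nat_lit 5957813624) (nat_lit 152) (nat_lit 48636768062) (nat_lit 8) (nat_lit 5) (nat_lit 9) (nat_lit 5) (nat_lit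 10) (nat_lit 4) (nat_lit 345) (nat_lit 271) (nat_lit 164)) (XT.lf (nat_lit 0) (nat_lit 48410762138) (nat_lit 152) (nat_lit 37953240413) (nat_lit 0) (nat_lit 4409811529) (nat_lit 8) (nat_lit 5) (nat_lit 10) (nat_lit 4) (nat_lit 8) (nat_lit 4) (nat_lit 346) (nat_lit 271) (nat_lit 163))) (XT.nd (nat_lit 78) (nat_lit 76) (nat_lit 0) (XT.lf (nat_lit 0) (nat_lit 59103283373) (nat_lit 152) (nat_lit 20587083903) (nat_lit 0) (nat_lit 15091492508) (nat_lit 8) (nat_lit 5) (nat_lit 10) (nat_lit 4) (nat_lit 8) (nat_lit 4) (nat_lit 347) (nat_lit 271) (nat_lit 162)) (XT.nd (nat_lit 78) (nat_lit 76) (nat_lit 0) (XT.lf (nat_lit 0) (nat_lit 70325464045) (nat_lit 152) (nat_lit 2361745998) (nat_lit 0) (nat_lit 26303349127) (nat_lit 8) (nat_lit 5) (nat_lit 10) (nat_lit 4) (nat_lit 8) (nat_lit 4) (nat_lit 348) (nat_lit 271) (nat_lit 161)) (XT.lf (nat_lit 0) (nat_lit 17320532161) (nat_lit 76) (nat_lit 65053913520)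 (nat_lit 76) (nat_lit 21021966169) (nat_lit 7) (nat_lit 4) (nat_lit 8) (nat_lit 5) (nat_lit 8) (nat_lit 4) (nat_lit 349) (nat_lit 271) (nat_lit 160)))))) (XT.nd (nat_lit 390) (nat_lit 0) (nat_lit 0) (XT.nd (nat_lit 156) (nat_lit 152) (nat_lit 0) (XT.nd (nat_lit 78) (nat_lit 0) (nat_lit 0) (XT.lf (nat_lit 0) (nat_lit 38060367070) (nat_lit 76) (nat_lit 57000868252) (nat_lit 76) (nat_lit 12959556679) (nat_lit 7) (nat_lit 4) (nat_lit 8) (nat_lit 5) (nat_lit 8) (nat_lit 4) (nat_lit 350) (nat_lit 271) (nat_lit 159)) (XT.lf (nat_lit 0) (nat_lit 59829049299) (nat_lit 76) (nat_lit 48548897632) (nat_lit 76) (nat_lit 4498667754) (nat_lit 7) (nat_lit 4) (nat_lit 8) (nat_lit 5) (nat_lit 8) (nat_lit 4) (nat_lit 351) (nat_lit 271) (nat_lit 158))) (XT.nd (nat_lit 78) (nat_lit 76) (nat_lit 0) (XT.lf (nat_lit 0) (nat_lit 4240631162) (nat_lit 152) (nat_lit 35365429619) (nat_lit 76) (nat_lit 78365960740)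 (nat_lit 6) (nat_lit 5) (nat_lit 8) (nat_lit 5) (nat_lit 7) (nat_lit 4) (nat_lit 352) (nat_lit 271) (nat_lit 157)) (XT.nd (nat_lit 78) (nat_lit 76) (nat_lit 0) (XT.lf (nat_lit 0) (nat_lit 13261635463) (nat_lit 152) (nat_lit 16880459969) (nat_lit 76) (nat_lit 93176621863) (nat_lit 6) (nat_lit 5) (nat_lit 8) (nat_lit 5) (nat_lit 7) (nat_lit 4) (nat_lit 353) (nat_lit 271) (nat_lit 156)) (XT.lf (nat_lit 0) (nat_lit 2604967430) (nat_lit 76) (nat_lit 20165512602) (nat_lit 152) (nat_lit 106160430504) (nat_lit 5) (nat_lit 5) (nat_lit 6) (nat_lit 5) (nat_lit 7) (nat_lit 4) (nat_lit 354) (nat_lit 271) (nat_lit 155))))) (XT.nd (nat_lit 234) (nat_lit 0) (nat_lit 0) (XT.nd (nat_lit 78) (nat_lit 0) (nat_lit 0) (XT.lf (nat_lit 0) (nat_lit 23643667276) (nat_lit 76) (nat_lit 9393172248) (nat_lit 152) (nat_lit 101772772356) (nat_lit 5) (nat_lit 5) (nat_lit 6) (nat_lit 5) (nat_lit 7) (nat_lit 4) (nat_lit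 355) (nat_lit 271) (nat_lit 154)) (XT.nd (nat_lit 78) (nat_lit 0) (nat_lit 0) (XT.lf (nat_lit 0) (nat_lit 43842785927) (nat_lit 152) (nat_lit 95284737801) (nat_lit 0) (nat_lit 1853413093) (nat_lit 5) (nat_lit 5) (nat_lit 7) (nat_lit 4) (nat_lit 5) (nat_lit 4) (nat_lit 356) (nat_lit 271) (nat_lit 153)) (XT.lf (nat_lit 0) (nat_lit 55339517924) (nat_lit 152) (nat_lit 78769980538) (nat_lit 0) (nat_lit 13343807017) (nat_lit 5) (nat_lit 5) (nat_lit 7) (nat_lit 4) (nat_lit 5) (nat_lit 4) (nat_lit 357) (nat_lit 271) (nat_lit 152)))) (XT.nd (nat_lit 78) (nat_lit 0) (nat_lit 0) (XT.lf (nat_lit 0) (nat_lit 67407754944) (nat_lit 152) (nat_lit 61435698221) (nat_lit 0) (nat_lit 25406007777) (nat_lit 5) (nat_lit 5) (nat_lit 7) (nat_lit 4) (nat_lit 5) (nat_lit 4) (nat_lit 358) (nat_lit 271) (nat_lit 151)) (XT.nd (nat_lit 78) (nat_lit 0) (nat_lit 0) (XT.lf (nat_lit 0) (nat_lit 80076230885) (nat_lit 152)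 (nat_lit 43240618751) (nat_lit 0) (nat_lit 38068734898) (nat_lit 5) (nat_lit 5) (nat_lit 7) (nat_lit 4) (nat_lit 5) (nat_lit 4) (nat_lit 359) (nat_lit 271) (nat_lit 150)) (XT.lf (nat_lit 0) (nat_lit 93375108783) (nat_lit 152) (nat_lit 24141420509) (nat_lit 0) (nat_lit 51362137730) (nat_lit 5) (nat_lit 5) (nat_lit 7) (nat_lit 4) (nat_lit 5) (nat_lit 4) (nat_lit 360) (nat_lit 271) (nat_lit 149))))))))
noncomputable def xc142 : XT := (XT.nd (nat_lit 1560) (nat_lit 0) (nat_lit 0) (XT.nd (nat_lit 780) (nat_lit 76) (nat_lit 0) (XT.nd (nat_lit 390) (nat_lit 76) (nat_lit 0) (XT.nd (nat_lit 156) (nat_lit 0) (nat_lit 0) (XT.nd (nat_lit 78) (nat_lit 76) (nat_lit 0) (XT.lf (nat_lit 0) (nat_lit 107336052635) (nat_lit 152) (nat_lit 4092629213) (nat_lit 0) (nat_lit 65317867234) (nat_lit 5) (nat_lit 5) (nat_lit 7) (nat_lit 4) (nat_lit 5) (nat_lit 4) (nat_lit 361) (nat_lit 271) (nat_lit 148)) (XT.lf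 (nat_lit 0) (nat_lit 17514049308) (nat_lit 76) (nat_lit 104751696868) (nat_lit 76) (nat_lit 62728545420) (nat_lit 4) (nat_lit 4) (nat_lit 5) (nat_lit 5) (nat_lit 5) (nat_lit 4) (nat_lit 362) (nat_lit 271) (nat_lit 147))) (XT.nd (nat_lit 78) (nat_lit 0) (nat_lit 0) (XT.lf (nat_lit 0) (nat_lit 40338119746) (nat_lit 76) (nat_lit 97670426411) (nat_lit 76) (nat_lit 55642545394) (nat_lit 4) (nat_lit 4) (nat_lit 5) (nat_lit 5) (nat_lit 5) (nat_lit 4) (nat_lit 363) (nat_lit 271) (nat_lit 146)) (XT.nd (nat_lit 78) (nat_lit 0) (nat_lit 0) (XT.lf (nat_lit 0) (nat_lit 64298604322) (nat_lit 76) (nat_lit 90237320965) (nat_lit 76) (nat_lit 48204935598) (nat_lit 4) (nat_lit 4) (nat_lit 5) (nat_lit 5) (nat_lit 5) (nat_lit 4) (nat_lit 364) (nat_lit 271) (nat_lit 145)) (XT.lf (nat_lit 0) (nat_lit 89452551809) (nat_lit 76) (nat_lit 82434682661) (nat_lit 76) (nat_lit 40398007437) (nat_lit 4) (nat_lit 4)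 (nat_lit 5) (nat_lit 5) (nat_lit 5) (nat_lit 4) (nat_lit 365) (nat_lit 271) (nat_lit 144))))) (XT.nd (nat_lit 156) (nat_lit 76) (nat_lit 0) (XT.nd (nat_lit 78) (nat_lit 0) (nat_lit 0) (XT.lf (nat_lit 0) (nat_lit 115859852556) (nat_lit 76) (nat_lit 74243933789) (nat_lit 76) (nat_lit 32203172986) (nat_lit 4) (nat_lit 4) (nat_lit 5) (nat_lit 5) (nat_lit 5) (nat_lit 4) (nat_lit 366) (nat_lit 271) (nat_lit 143)) (XT.lf (nat_lit 0) (nat_lit 143583381090) (nat_lit 76) (nat_lit 65645572565) (nat_lit 76) (nat_lit 23600920735) (nat_lit 4) (nat_lit 4) (nat_lit 5) (nat_lit 5) (nat_lit 5) (nat_lit 4) (nat_lit 367) (nat_lit 271) (nat_lit 142))) (XT.nd (nat_lit 78) (nat_lit 76) (nat_lit 0) (XT.lf (nat_lit 0) (nat_lit 172689145813) (nat_lit 76) (nat_lit 56619126701) (nat_lit 76) (nat_lit 14570769130) (nat_lit 4) (nat_lit 4) (nat_lit 5) (nat_lit 5) (nat_lit 5) (nat_lit 4) (nat_lit 368) (nat_lit 271)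 (nat_lit 141)) (XT.nd (nat_lit 78) (nat_lit 76) (nat_lit 0) (XT.lf (nat_lit 0) (nat_lit 203246446163) (nat_lit 76) (nat_lit 47143104659) (nat_lit 76) (nat_lit 5091217812) (nat_lit 4) (nat_lit 4) (nat_lit 5) (nat_lit 5) (nat_lit 5) (nat_lit 4) (nat_lit 369) (nat_lit 271) (nat_lit 140)) (XT.lf (nat_lit 0) (nat_lit 4704743512) (nat_lit 152) (nat_lit 32410523861) (nat_lit 76) (nat_lit 230543616998) (nat_lit 3) (nat_lit 5) (nat_lit 5) (nat_lit 5) (nat_lit 4) (nat_lit 4) (nat_lit 370) (nat_lit 271) (nat_lit 139)))))) (XT.nd (nat_lit 390) (nat_lit 0) (nat_lit 0) (XT.nd (nat_lit 156) (nat_lit 0) (nat_lit 0) (XT.nd (nat_lit 78) (nat_lit 76) (nat_lit 0) (XT.lf (nat_lit 0) (nat_lit 14817553896) (nat_lit 152) (nat_lit 11682463732) (nat_lit 76) (nat_lit 253941808579) (nat_lit 3) (nat_lit 5) (nat_lit 5) (nat_lit 5) (nat_lit 4) (nat_lit 4) (nat_lit 371) (nat_lit 271) (nat_lit 138)) (XT.lf (nat_lit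 0) (nat_lit 10411945910) (nat_lit 76) (nat_lit 15184855968) (nat_lit 152) (nat_lit 268259074265) (nat_lit 2) (nat_lit 5) (nat_lit 3) (nat_lit 5) (nat_lit 4) (nat_lit 4) (nat_lit 372) (nat_lit 271) (nat_lit 137))) (XT.nd (nat_lit 78) (nat_lit 0) (nat_lit 0) (XT.lf (nat_lit 0) (nat_lit 34013417250) (nat_lit 76) (nat_lit 3097713841) (nat_lit 152) (nat_lit 270819692367) (nat_lit 2) (nat_lit 5) (nat_lit 3) (nat_lit 5) (nat_lit 4) (nat_lit 4) (nat_lit 373) (nat_lit 271) (nat_lit 136)) (XT.nd (nat_lit 78) (nat_lit 0) (nat_lit 0) (XT.lf (nat_lit 0) (nat_lit 49349293068) (nat_lit 152) (nat_lit 264067495316) (nat_lit 0) (nat_lit 9285324718) (nat_lit 2) (nat_lit 5) (nat_lit 4) (nat_lit 4) (nat_lit 2) (nat_lit 4) (nat_lit 374) (nat_lit 271) (nat_lit 135)) (XT.lf (nat_lit 0) (nat_lit 62248555271) (nat_lit 152) (nat_lit 253778874369) (nat_lit 0) (nat_lit 22182078730) (nat_lit 2) (nat_lit 5) (nat_lit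 4) (nat_lit 4) (nat_lit 2) (nat_lit 4) (nat_lit 375) (nat_lit 271) (nat_lit 134))))) (XT.nd (nat_lit 156) (nat_lit 0) (nat_lit 0) (XT.nd (nat_lit 78) (nat_lit 0) (nat_lit 0) (XT.lf (nat_lit 0) (nat_lit 75791266233) (nat_lit 152) (nat_lit 242978682655) (nat_lit 0) (nat_lit 35722400940) (nat_lit 2) (nat_lit 5) (nat_lit 4) (nat_lit 4) (nat_lit 2) (nat_lit 4) (nat_lit 376) (nat_lit 271) (nat_lit 133)) (XT.lf (nat_lit 0) (nat_lit 90009670506) (nat_lit 152) (nat_lit 231641205432) (nat_lit 0) (nat_lit 49938530209) (nat_lit 2) (nat_lit 5) (nat_lit 4) (nat_lit 4) (nat_lit 2) (nat_lit 4) (nat_lit 377) (nat_lit 271) (nat_lit 132))) (XT.nd (nat_lit 78) (nat_lit 0) (nat_lit 0) (XT.lf (nat_lit 0) (nat_lit 104937621431) (nat_lit 152) (nat_lit 219739448707) (nat_lit 0) (nat_lit 64864314464) (nat_lit 2) (nat_lit 5) (nat_lit 4) (nat_lit 4) (nat_lit 2) (nat_lit 4) (nat_lit 378) (nat_lit 271) (nat_lit 131))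 (XT.nd (nat_lit 78) (nat_lit 0) (nat_lit 0) (XT.lf (nat_lit 0) (nat_lit 120610661750) (nat_lit 152) (nat_lit 207245074964) (nat_lit 0) (nat_lit 80535291289) (nat_lit 2) (nat_lit 5) (nat_lit 4) (nat_lit 4) (nat_lit 2) (nat_lit 4) (nat_lit 379) (nat_lit 271) (nat_lit 130)) (XT.lf (nat_lit 0) (nat_lit 137066108225) (nat_lit 152) (nat_lit 194128335694) (nat_lit 0) (nat_lit 96988772531) (nat_lit 2) (nat_lit 5) (nat_lit 4) (nat_lit 4) (nat_lit 2) (nat_lit 4) (nat_lit 380) (nat_lit 271) (nat_lit 129))))))) (XT.nd (nat_lit 32370) (nat_lit 0) (nat_lit 5852) (XT.nd (nat_lit 390) (nat_lit 0) (nat_lit 0) (XT.nd (nat_lit 156) (nat_lit 0) (nat_lit 0) (XT.nd (nat_lit 78) (nat_lit 0) (nat_lit 0) (XT.lf (nat_lit 0) (nat_lit 154343140491) (nat_lit 152) (nat_lit 180358000564) (nat_lit 0) (nat_lit 114263933146) (nat_lit 2) (nat_lit 5) (nat_lit 4) (nat_lit 4) (nat_lit 2) (nat_lit 4) (nat_lit 381) (nat_lit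 271) (nat_lit 128)) (XT.lf (nat_lit 0) (nat_lit 172482894338) (nat_lit 152) (nat_lit 165901283064) (nat_lit 0) (nat_lit 132401904469) (nat_lit 2) (nat_lit 5) (nat_lit 4) (nat_lit 4) (nat_lit 2) (nat_lit 4) (nat_lit 382) (nat_lit 271) (nat_lit 127))) (XT.nd (nat_lit 78) (nat_lit 0) (nat_lit 0) (XT.lf (nat_lit 0) (nat_lit 191528559658) (nat_lit 152) (nat_lit 150723762437) (nat_lit 0) (nat_lit 151445872146) (nat_lit 2) (nat_lit 5) (nat_lit 4) (nat_lit 4) (nat_lit 2) (nat_lit 4) (nat_lit 383) (nat_lit 271) (nat_lit 126)) (XT.nd (nat_lit 78) (nat_lit 0) (nat_lit 0) (XT.lf (nat_lit 0) (nat_lit 211525483271) (nat_lit 152) (nat_lit 134789301729) (nat_lit 0) (nat_lit 171441178957) (nat_lit 2) (nat_lit 5) (nat_lit 4) (nat_lit 4) (nat_lit 2) (nat_lit 4) (nat_lit 384) (nat_lit 271) (nat_lit 125)) (XT.lf (nat_lit 0) (nat_lit 232521276902) (nat_lit 152) (nat_lit 118059961748) (nat_lit 0) (nat_lit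 192435432776) (nat_lit 2) (nat_lit 5) (nat_lit 4) (nat_lit 4) (nat_lit 2) (nat_lit 4) (nat_lit 385) (nat_lit 271) (nat_lit 124))))) (XT.nd (nat_lit 31746) (nat_lit 0) (nat_lit 6992) (XT.nd (nat_lit 78) (nat_lit 0) (nat_lit 0) (XT.lf (nat_lit 0) (nat_lit 254565930534) (nat_lit 152) (nat_lit 100495910732) (nat_lit 0) (nat_lit 214478619921) (nat_lit 2) (nat_lit 5) (nat_lit 4) (nat_lit 4) (nat_lit 2) (nat_lit 4) (nat_lit 386) (nat_lit 271) (nat_lit 123)) (XT.lf (nat_lit 0) (nat_lit 277711931438) (nat_lit 152) (nat_lit 82055329513) (nat_lit 0) (nat_lit 237623224171) (nat_lit 2) (nat_lit 5) (nat_lit 4) (nat_lit 4) (nat_lit 2) (nat_lit 4) (nat_lit 387) (nat_lit 271) (nat_lit 122))) (XT.nd (nat_lit 78) (nat_lit 608) (nat_lit 0) (XT.lf (nat_lit 0) (nat_lit 1498274601) (nat_lit 0) (nat_lit 1498274601) (nat_lit 532) (nat_lit 1075135381) (nat_lit 102) (nat_lit 5) (nat_lit 102) (nat_lit 3) (nat_lit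 109) (nat_lit 3) (nat_lit 272) (nat_lit 272) (nat_lit 236)) (XT.nd (nat_lit 78) (nat_lit 608) (nat_lit 0) (XT.lf (nat_lit 0) (nat_lit 6840037562) (nat_lit 0) (nat_lit 371028834) (nat_lit 532) (nat_lit 1079593342) (nat_lit 102) (nat_lit 5) (nat_lit 102) (nat_lit 3) (nat_lit 109) (nat_lit 3) (nat_lit 273) (nat_lit 272) (nat_lit 235)) (XT.lf (nat_lit 0) (nat_lit 50520943) (nat_lit 608) (nat_lit 6013271736) (nat_lit 684) (nat_lit 2381296758) (nat_lit 94) (nat_lit 5) (nat_lit 102) (nat_lit 5) (nat_lit 103) (nat_lit 5) (nat_lit 274) (nat_lit 272) (nat_lit 234)))))) (XT.nd (nat_lit 390) (nat_lit 1140) (nat_lit 0) (XT.nd (nat_lit 156) (nat_lit 0) (nat_lit 76) (XT.nd (nat_lit 78) (nat_lit 0) (nat_lit 0) (XT.lf (nat_lit 0) (nat_lit 1165473738) (nat_lit 608) (nat_lit 2111524425) (nat_lit 684) (nat_lit 5331294434) (nat_lit 94) (nat_lit 5) (nat_lit 102) (nat_lit 5) (nat_lit 103) (nat_lit 5) (nat_lit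 275) (nat_lit 272) (nat_lit 233)) (XT.lf (nat_lit 76) (nat_lit 2011529247) (nat_lit 0) (nat_lit 292776290) (nat_lit 684) (nat_lit 6477103431) (nat_lit 95) (nat_lit 5) (nat_lit 94) (nat_lit 5) (nat_lit 103) (nat_lit 5) (nat_lit 276) (nat_lit 272) (nat_lit 232))) (XT.nd (nat_lit 78) (nat_lit 0) (nat_lit 0) (XT.lf (nat_lit 0) (nat_lit 3520291838) (nat_lit 608) (nat_lit 2633392198) (nat_lit 684) (nat_lit 2808638496) (nat_lit 95) (nat_lit 5) (nat_lit 103) (nat_lit 5) (nat_lit 104) (nat_lit 5) (nat_lit 277) (nat_lit 272) (nat_lit 231)) (XT.nd (nat_lit 78) (nat_lit 0) (nat_lit 76) (XT.lf (nat_lit 76) (nat_lit 1721056895) (nat_lit 0) (nat_lit 3050087249) (nat_lit 684) (nat_lit 4382579075) (nat_lit 96) (nat_lit 5) (nat_lit 95) (nat_lit 5) (nat_lit 104) (nat_lit 5) (nat_lit 278) (nat_lit 272) (nat_lit 230)) (XT.lf (nat_lit 0) (nat_lit 6077928971) (nat_lit 608) (nat_lit 3013491404) (nat_lit 684)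 (nat_lit 263741957) (nat_lit 96) (nat_lit 5) (nat_lit 104) (nat_lit 5) (nat_lit 105) (nat_lit 5) (nat_lit 279) (nat_lit 272) (nat_lit 229))))) (XT.nd (nat_lit 234) (nat_lit 684) (nat_lit 0) (XT.nd (nat_lit 78) (nat_lit 608) (nat_lit 0) (XT.lf (nat_lit 76) (nat_lit 1587752260) (nat_lit 0) (nat_lit 5884522706) (nat_lit 684) (nat_lit 2093418656) (nat_lit 97) (nat_lit 5) (nat_lit 96) (nat_lit 5) (nat_lit 105) (nat_lit 5) (nat_lit 280) (nat_lit 272) (nat_lit 228)) (XT.nd (nat_lit 78) (nat_lit 608) (nat_lit 0) (XT.lf (nat_lit 76) (nat_lit 6484613594) (nat_lit 0) (nat_lit 2452084182) (nat_lit 684) (nat_lit 850160795) (nat_lit 97) (nat_lit 5) (nat_lit 96) (nat_lit 5) (nat_lit 105) (nat_lit 5) (nat_lit 281) (nat_lit 272) (nat_lit 227)) (XT.lf (nat_lit 0) (nat_lit 435374898) (nat_lit 684) (nat_lit 8425910653) (nat_lit 76) (nat_lit 1157819954) (nat_lit 88) (nat_lit 5) (nat_lit 97) (nat_lit 5) (nat_lit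 89) (nat_lit 5) (nat_lit 282) (nat_lit 272) (nat_lit 226)))) (XT.nd (nat_lit 78) (nat_lit 684) (nat_lit 0) (XT.lf (nat_lit 0) (nat_lit 1806372982) (nat_lit 684) (nat_lit 3508105746) (nat_lit 76) (nat_lit 4945409415) (nat_lit 88) (nat_lit 5) (nat_lit 97) (nat_lit 5) (nat_lit 89) (nat_lit 5) (nat_lit 283) (nat_lit 272) (nat_lit 225)) (XT.nd (nat_lit 78) (nat_lit 0) (nat_lit 0) (XT.lf (nat_lit 0) (nat_lit 1670052557) (nat_lit 684) (nat_lit 1556910766) (nat_lit 760) (nat_lit 7286797363) (nat_lit 79) (nat_lit 5) (nat_lit 88) (nat_lit 5) (nat_lit 89) (nat_lit 5) (nat_lit 284) (nat_lit 272) (nat_lit 224)) (XT.lf (nat_lit 0) (nat_lit 4772853995) (nat_lit 760) (nat_lit 3627422146) (nat_lit 76) (nat_lit 2377435168) (nat_lit 79) (nat_lit 5) (nat_lit 89) (nat_lit 5) (nat_lit 80) (nat_lit 5) (nat_lit 285) (nat_lit 272) (nat_lit 223))))))))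
noncomputable def xc143 : XT := (XT.nd (nat_lit 1560) (nat_lit 1520) (nat_lit 0) (XT.nd (nat_lit 780) (nat_lit 1368) (nat_lit 0) (XT.nd (nat_lit 390) (nat_lit 532) (nat_lit 0) (XT.nd (nat_lit 156) (nat_lit 760) (nat_lit 0) (XT.nd (nat_lit 78) (nat_lit 0) (nat_lit 0) (XT.lf (nat_lit 0) (nat_lit 1844414010) (nat_lit 456) (nat_lit 4564605411) (nat_lit 532) (nat_lit 4645284358) (nat_lit 73) (nat_lit 5) (nat_lit 79) (nat_lit 5) (nat_lit 80) (nat_lit 5) (nat_lit 286) (nat_lit 272) (nat_lit 222)) (XT.lf (nat_lit 0) (nat_lit 7677629497) (nat_lit 456) (nat_lit 470829330) (nat_lit 532) (nat_lit 3195282642) (nat_lit 73) (nat_lit 5) (nat_lit 79) (nat_lit 5) (nat_lit 80) (nat_lit 5) (nat_lit 287) (nat_lit 272) (nat_lit 221))) (XT.nd (nat_lit 78) (nat_lit 380) (nat_lit 0) (XT.lf (nat_lit 0) (nat_lit 2124753331) (nat_lit 380) (nat_lit 7905014103) (nat_lit 456) (nat_lit 1615223398) (nat_lit 68) (nat_lit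 5) (nat_lit 73) (nat_lit 5) (nat_lit 74) (nat_lit 5) (nat_lit 288) (nat_lit 272) (nat_lit 220)) (XT.nd (nat_lit 78) (nat_lit 304) (nat_lit 0) (XT.lf (nat_lit 0) (nat_lit 75763827) (nat_lit 456) (nat_lit 3674222752) (nat_lit 76) (nat_lit 8209692235) (nat_lit 67) (nat_lit 5) (nat_lit 73) (nat_lit 5) (nat_lit 68) (nat_lit 5) (nat_lit 289) (nat_lit 272) (nat_lit 219)) (XT.lf (nat_lit 0) (nat_lit 1810637976) (nat_lit 380) (nat_lit 9819515963) (nat_lit 76) (nat_lit 658015446) (nat_lit 63) (nat_lit 5) (nat_lit 68) (nat_lit 5) (nat_lit 64) (nat_lit 5) (nat_lit 290) (nat_lit 272) (nat_lit 218))))) (XT.nd (nat_lit 156) (nat_lit 228) (nat_lit 0) (XT.nd (nat_lit 78) (nat_lit 304) (nat_lit 0) (XT.lf (nat_lit 0) (nat_lit 3722363734) (nat_lit 380) (nat_lit 3684587433) (nat_lit 76) (nat_lit 5221697561) (nat_lit 63) (nat_lit 5) (nat_lit 68) (nat_lit 5) (nat_lit 64) (nat_lit 5) (nat_lit 291) (nat_lit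 272) (nat_lit 217)) (XT.lf (nat_lit 0) (nat_lit 2810514840) (nat_lit 304) (nat_lit 2930077044) (nat_lit 380) (nat_lit 7245080677) (nat_lit 59) (nat_lit 5) (nat_lit 63) (nat_lit 5) (nat_lit 64) (nat_lit 5) (nat_lit 292) (nat_lit 272) (nat_lit 216))) (XT.nd (nat_lit 78) (nat_lit 228) (nat_lit 0) (XT.lf (nat_lit 0) (nat_lit 7918781873) (nat_lit 380) (nat_lit 3665338732) (nat_lit 76) (nat_lit 1773537625) (nat_lit 59) (nat_lit 5) (nat_lit 64) (nat_lit 5) (nat_lit 60) (nat_lit 5) (nat_lit 293) (nat_lit 272) (nat_lit 215)) (XT.nd (nat_lit 78) (nat_lit 0) (nat_lit 0) (XT.lf (nat_lit 0) (nat_lit 3188231597) (nat_lit 228) (nat_lit 7084968225) (nat_lit 304) (nat_lit 3471737597) (nat_lit 56) (nat_lit 5) (nat_lit 59) (nat_lit 5) (nat_lit 60) (nat_lit 5) (nat_lit 294) (nat_lit 272) (nat_lit 214)) (XT.lf (nat_lit 0) (nat_lit 10476560441) (nat_lit 228) (nat_lit 2301262593) (nat_lit 304) (nat_lit 1372190609)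 (nat_lit 56) (nat_lit 5) (nat_lit 59) (nat_lit 5) (nat_lit 60) (nat_lit 5) (nat_lit 295) (nat_lit 272) (nat_lit 213)))))) (XT.nd (nat_lit 390) (nat_lit 532) (nat_lit 0) (XT.nd (nat_lit 156) (nat_lit 456) (nat_lit 0) (XT.nd (nat_lit 78) (nat_lit 0) (nat_lit 0) (XT.lf (nat_lit 0) (nat_lit 877095955) (nat_lit 380) (nat_lit 10994486225) (nat_lit 76) (nat_lit 2699593607) (nat_lit 51) (nat_lit 5) (nat_lit 56) (nat_lit 5) (nat_lit 52) (nat_lit 5) (nat_lit 296) (nat_lit 272) (nat_lit 212)) (XT.lf (nat_lit 0) (nat_lit 3265735327) (nat_lit 380) (nat_lit 3789941648) (nat_lit 76) (nat_lit 7952993660) (nat_lit 51) (nat_lit 5) (nat_lit 56) (nat_lit 5) (nat_lit 52) (nat_lit 5) (nat_lit 297) (nat_lit 272) (nat_lit 211))) (XT.nd (nat_lit 78) (nat_lit 228) (nat_lit 0) (XT.lf (nat_lit 0) (nat_lit 3864923020) (nat_lit 228) (nat_lit 1942602965) (nat_lit 304) (nat_lit 9658875406) (nat_lit 48) (nat_lit 5)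 (nat_lit 51) (nat_lit 5) (nat_lit 52) (nat_lit 5) (nat_lit 298) (nat_lit 272) (nat_lit 210)) (XT.nd (nat_lit 78) (nat_lit 228) (nat_lit 0) (XT.lf (nat_lit 0) (nat_lit 8569150485) (nat_lit 304) (nat_lit 3998536799) (nat_lit 76) (nat_lit 3374739079) (nat_lit 48) (nat_lit 5) (nat_lit 52) (nat_lit 5) (nat_lit 49) (nat_lit 5) (nat_lit 299) (nat_lit 272) (nat_lit 209)) (XT.lf (nat_lit 0) (nat_lit 4049660458) (nat_lit 228) (nat_lit 7489521770) (nat_lit 304) (nat_lit 4899596809) (nat_lit 45) (nat_lit 5) (nat_lit 48) (nat_lit 5) (nat_lit 49) (nat_lit 5) (nat_lit 300) (nat_lit 272) (nat_lit 208))))) (XT.nd (nat_lit 156) (nat_lit 228) (nat_lit 0) (XT.nd (nat_lit 78) (nat_lit 304) (nat_lit 0) (XT.lf (nat_lit 0) (nat_lit 12606954653) (nat_lit 228) (nat_lit 2094408300) (nat_lit 304) (nat_lit 2256444740) (nat_lit 45) (nat_lit 5) (nat_lit 48) (nat_lit 5) (nat_lit 49) (nat_lit 5) (nat_lit 301) (nat_lit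 272) (nat_lit 207)) (XT.lf (nat_lit 0) (nat_lit 601063112) (nat_lit 304) (nat_lit 13373424531) (nat_lit 76) (nat_lit 3522991769) (nat_lit 41) (nat_lit 5) (nat_lit 45) (nat_lit 5) (nat_lit 42) (nat_lit 5) (nat_lit 302) (nat_lit 272) (nat_lit 206))) (XT.nd (nat_lit 78) (nat_lit 228) (nat_lit 0) (XT.lf (nat_lit 0) (nat_lit 3612005192) (nat_lit 304) (nat_lit 4991171400) (nat_lit 76) (nat_lit 9454824247) (nat_lit 41) (nat_lit 5) (nat_lit 45) (nat_lit 5) (nat_lit 42) (nat_lit 5) (nat_lit 303) (nat_lit 272) (nat_lit 205)) (XT.nd (nat_lit 78) (nat_lit 0) (nat_lit 0) (XT.lf (nat_lit 0) (nat_lit 3904744429) (nat_lit 228) (nat_lit 2907965263) (nat_lit 304) (nat_lit 11831911377) (nat_lit 38) (nat_lit 5) (nat_lit 41) (nat_lit 5) (nat_lit 42) (nat_lit 5) (nat_lit 304) (nat_lit 272) (nat_lit 204)) (XT.lf (nat_lit 0) (nat_lit 10286008554) (nat_lit 304) (nat_lit 5917845658) (nat_lit 76) (nat_lit 3051122045)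 (nat_lit 38) (nat_lit 5) (nat_lit 42) (nat_lit 5) (nat_lit 39) (nat_lit 5) (nat_lit 305) (nat_lit 272) (nat_lit 203))))))) (XT.nd (nat_lit 780) (nat_lit 532) (nat_lit 0) (XT.nd (nat_lit 390) (nat_lit 380) (nat_lit 0) (XT.nd (nat_lit 156) (nat_lit 456) (nat_lit 0) (XT.nd (nat_lit 78) (nat_lit 0) (nat_lit 0) (XT.lf (nat_lit 0) (nat_lit 3376257930) (nat_lit 152) (nat_lit 10636796838) (nat_lit 228) (nat_lit 5878820701) (nat_lit 36) (nat_lit 5) (nat_lit 38) (nat_lit 5) (nat_lit 39) (nat_lit 5) (nat_lit 306) (nat_lit 272) (nat_lit 202)) (XT.lf (nat_lit 0) (nat_lit 13311576713) (nat_lit 152) (nat_lit 4695311020) (nat_lit 228) (nat_lit 2549739125) (nat_lit 36) (nat_lit 5) (nat_lit 38) (nat_lit 5) (nat_lit 39) (nat_lit 5) (nat_lit 307) (nat_lit 272) (nat_lit 201))) (XT.nd (nat_lit 78) (nat_lit 152) (nat_lit 0) (XT.lf (nat_lit 0) (nat_lit 960639140) (nat_lit 304) (nat_lit 18750801923) (nat_lit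 76) (nat_lit 1540206973) (nat_lit 32) (nat_lit 5) (nat_lit 36) (nat_lit 5) (nat_lit 33) (nat_lit 5) (nat_lit 308) (nat_lit 272) (nat_lit 200)) (XT.nd (nat_lit 78) (nat_lit 152) (nat_lit 0) (XT.lf (nat_lit 0) (nat_lit 4743688209) (nat_lit 304) (nat_lit 9139088674) (nat_lit 76) (nat_lit 8087436445) (nat_lit 32) (nat_lit 5) (nat_lit 36) (nat_lit 5) (nat_lit 33) (nat_lit 5) (nat_lit 309) (nat_lit 272) (nat_lit 199)) (XT.lf (nat_lit 0) (nat_lit 956599268) (nat_lit 152) (nat_lit 7756280566) (nat_lit 228) (nat_lit 14012001351) (nat_lit 30) (nat_lit 5) (nat_lit 32) (nat_lit 5) (nat_lit 33) (nat_lit 5) (nat_lit 310) (nat_lit 272) (nat_lit 198))))) (XT.nd (nat_lit 156) (nat_lit 380) (nat_lit 0) (XT.nd (nat_lit 78) (nat_lit 0) (nat_lit 0) (XT.lf (nat_lit 0) (nat_lit 11847571173) (nat_lit 152) (nat_lit 1170225942) (nat_lit 228) (nat_lit 10492644691) (nat_lit 30) (nat_lit 5) (nat_lit 32) (nat_lit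 5) (nat_lit 33) (nat_lit 5) (nat_lit 311) (nat_lit 272) (nat_lit 197)) (XT.lf (nat_lit 0) (nat_lit 17610844812) (nat_lit 228) (nat_lit 1168117036) (nat_lit 76) (nat_lit 5552695976) (nat_lit 30) (nat_lit 5) (nat_lit 33) (nat_lit 5) (nat_lit 31) (nat_lit 5) (nat_lit 312) (nat_lit 272) (nat_lit 196))) (XT.nd (nat_lit 78) (nat_lit 228) (nat_lit 0) (XT.lf (nat_lit 0) (nat_lit 10131479246) (nat_lit 152) (nat_lit 12463418033) (nat_lit 228) (nat_lit 2590990311) (nat_lit 28) (nat_lit 5) (nat_lit 30) (nat_lit 5) (nat_lit 31) (nat_lit 5) (nat_lit 313) (nat_lit 272) (nat_lit 195)) (XT.nd (nat_lit 78) (nat_lit 152) (nat_lit 0) (XT.lf (nat_lit 0) (nat_lit 1693660283) (nat_lit 228) (nat_lit 4097926996) (nat_lit 76) (nat_lit 20289687848) (nat_lit 27) (nat_lit 5) (nat_lit 30) (nat_lit 5) (nat_lit 28) (nat_lit 5) (nat_lit 314) (nat_lit 272) (nat_lit 194)) (XT.lf (nat_lit 0) (nat_lit 6230155935) (nat_lit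 228) (nat_lit 19452946750) (nat_lit 76) (nat_lit 1329989018) (nat_lit 25) (nat_lit 5) (nat_lit 28) (nat_lit 5) (nat_lit 26) (nat_lit 5) (nat_lit 315) (nat_lit 272) (nat_lit 193)))))) (XT.nd (nat_lit 390) (nat_lit 228) (nat_lit 0) (XT.nd (nat_lit 156) (nat_lit 152) (nat_lit 0) (XT.nd (nat_lit 78) (nat_lit 152) (nat_lit 0) (XT.lf (nat_lit 0) (nat_lit 11144024594) (nat_lit 228) (nat_lit 8164880907) (nat_lit 76) (nat_lit 8675083115) (nat_lit 25) (nat_lit 5) (nat_lit 28) (nat_lit 5) (nat_lit 26) (nat_lit 5) (nat_lit 316) (nat_lit 272) (nat_lit 192)) (XT.lf (nat_lit 0) (nat_lit 3785744921) (nat_lit 152) (nat_lit 12562725075) (nat_lit 228) (nat_lit 12652732328) (nat_lit 23) (nat_lit 5) (nat_lit 25) (nat_lit 5) (nat_lit 26) (nat_lit 5) (nat_lit 317) (nat_lit 272) (nat_lit 191))) (XT.nd (nat_lit 78) (nat_lit 152) (nat_lit 0) (XT.lf (nat_lit 0) (nat_lit 16594728625) (nat_lit 152) (nat_lit 5342786281)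 (nat_lit 228) (nat_lit 8125558295) (nat_lit 23) (nat_lit 5) (nat_lit 25) (nat_lit 5) (nat_lit 26) (nat_lit 5) (nat_lit 318) (nat_lit 272) (nat_lit 190)) (XT.nd (nat_lit 78) (nat_lit 152) (nat_lit 0) (XT.lf (nat_lit 0) (nat_lit 27827588763) (nat_lit 228) (nat_lit 1190927963) (nat_lit 76) (nat_lit 2158456676) (nat_lit 23) (nat_lit 5) (nat_lit 26) (nat_lit 5) (nat_lit 24) (nat_lit 4) (nat_lit 319) (nat_lit 272) (nat_lit 189)) (XT.lf (nat_lit 0) (nat_lit 1878386106) (nat_lit 152) (nat_lit 20388796072) (nat_lit 76) (nat_lit 10064794562) (nat_lit 21) (nat_lit 5) (nat_lit 23) (nat_lit 5) (nat_lit 22) (nat_lit 5) (nat_lit 320) (nat_lit 272) (nat_lit 188))))) (XT.nd (nat_lit 234) (nat_lit 76) (nat_lit 0) (XT.nd (nat_lit 78) (nat_lit 152) (nat_lit 0) (XT.lf (nat_lit 0) (nat_lit 7262819019) (nat_lit 152) (nat_lit 7844766399) (nat_lit 76) (nat_lit 18434020310) (nat_lit 21) (nat_lit 5) (nat_lit 23)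 (nat_lit 5) (nat_lit 22) (nat_lit 5) (nat_lit 321) (nat_lit 272) (nat_lit 187)) (XT.nd (nat_lit 78) (nat_lit 0) (nat_lit 0) (XT.lf (nat_lit 0) (nat_lit 5481775739) (nat_lit 152) (nat_lit 7508222136) (nat_lit 228) (nat_lit 21818054100) (nat_lit 19) (nat_lit 5) (nat_lit 21) (nat_lit 5) (nat_lit 22) (nat_lit 5) (nat_lit 322) (nat_lit 272) (nat_lit 186)) (XT.lf (nat_lit 0) (nat_lit 19134002089) (nat_lit 228) (nat_lit 16414004837) (nat_lit 76) (nat_lit 583301739) (nat_lit 19) (nat_lit 5) (nat_lit 22) (nat_lit 5) (nat_lit 20) (nat_lit 4) (nat_lit 323) (nat_lit 272) (nat_lit 185)))) (XT.nd (nat_lit 78) (nat_lit 76) (nat_lit 0) (XT.lf (nat_lit 0) (nat_lit 25696938037) (nat_lit 228) (nat_lit 2998530546) (nat_lit 76) (nat_lit 8819683936) (nat_lit 19) (nat_lit 5) (nat_lit 22) (nat_lit 5) (nat_lit 20) (nat_lit 4) (nat_lit 324) (nat_lit 272) (nat_lit 184)) (XT.nd (nat_lit 78) (nat_lit 0) (nat_lit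 0) (XT.lf (nat_lit 0) (nat_lit 11435314097) (nat_lit 76) (nat_lit 21320430574) (nat_lit 152) (nat_lit 6204068088) (nat_lit 18) (nat_lit 5) (nat_lit 19) (nat_lit 5) (nat_lit 20) (nat_lit 4) (nat_lit 325) (nat_lit 272) (nat_lit 183)) (XT.lf (nat_lit 0) (nat_lit 26676845206) (nat_lit 76) (nat_lit 13530846792) (nat_lit 152) (nat_lit 267013887) (nat_lit 18) (nat_lit 5) (nat_lit 19) (nat_lit 5) (nat_lit 20) (nat_lit 4) (nat_lit 326) (nat_lit 272) (nat_lit 182))))))))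
noncomputable def xc144 : XT := (XT.nd (nat_lit 1560) (nat_lit 304) (nat_lit 0) (XT.nd (nat_lit 780) (nat_lit 304) (nat_lit 0) (XT.nd (nat_lit 390) (nat_lit 152) (nat_lit 0) (XT.nd (nat_lit 156) (nat_lit 76) (nat_lit 0) (XT.nd (nat_lit 78) (nat_lit 0) (nat_lit 0) (XT.lf (nat_lit 0) (nat_lit 521031925) (nat_lit 152) (nat_lit 5252766366) (nat_lit 228) (nat_lit 36287002197) (nat_lit 15) (nat_lit 5) (nat_lit 17) (nat_lit 5) (nat_lit 18) (nat_lit 5) (nat_lit 327) (nat_lit 272) (nat_lit 181)) (XT.lf (nat_lit 0) (nat_lit 12388730312) (nat_lit 228) (nat_lit 27759226739) (nat_lit 76) (nat_lit 3563979820) (nat_lit 15) (nat_lit 5) (nat_lit 18) (nat_lit 5) (nat_lit 16) (nat_lit 4) (nat_lit 328) (nat_lit 272) (nat_lit 180))) (XT.nd (nat_lit 78) (nat_lit 76) (nat_lit 0) (XT.lf (nat_lit 0) (nat_lit 19410855722) (nat_lit 228) (nat_lit 13392632074) (nat_lit 76) (nat_lit 12638328074) (nat_lit 15) (nat_lit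 5) (nat_lit 18) (nat_lit 5) (nat_lit 16) (nat_lit 4) (nat_lit 329) (nat_lit 272) (nat_lit 179)) (XT.nd (nat_lit 78) (nat_lit 0) (nat_lit 0) (XT.lf (nat_lit 0) (nat_lit 1731655811) (nat_lit 76) (nat_lit 25070263654) (nat_lit 152) (nat_lit 20455385503) (nat_lit 14) (nat_lit 5) (nat_lit 15) (nat_lit 5) (nat_lit 16) (nat_lit 4) (nat_lit 330) (nat_lit 272) (nat_lit 178)) (XT.lf (nat_lit 0) (nat_lit 18061318762) (nat_lit 76) (nat_lit 16719015982) (nat_lit 152) (nat_lit 14372351243) (nat_lit 14) (nat_lit 5) (nat_lit 15) (nat_lit 5) (nat_lit 16) (nat_lit 4) (nat_lit 331) (nat_lit 272) (nat_lit 177))))) (XT.nd (nat_lit 156) (nat_lit 152) (nat_lit 0) (XT.nd (nat_lit 78) (nat_lit 0) (nat_lit 0) (XT.lf (nat_lit 0) (nat_lit 35192416026) (nat_lit 76) (nat_lit 7956671562) (nat_lit 152) (nat_lit 7994184657) (nat_lit 14) (nat_lit 5) (nat_lit 15) (nat_lit 5) (nat_lit 16) (nat_lit 4) (nat_lit 332) (nat_lit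 272) (nat_lit 176)) (XT.lf (nat_lit 0) (nat_lit 51947426511) (nat_lit 152) (nat_lit 87390213) (nat_lit 0) (nat_lit 1198020367) (nat_lit 14) (nat_lit 5) (nat_lit 16) (nat_lit 4) (nat_lit 14) (nat_lit 4) (nat_lit 333) (nat_lit 272) (nat_lit 175))) (XT.nd (nat_lit 78) (nat_lit 0) (nat_lit 0) (XT.lf (nat_lit 0) (nat_lit 5968308012) (nat_lit 152) (nat_lit 38535837686) (nat_lit 76) (nat_lit 10898553830) (nat_lit 12) (nat_lit 5) (nat_lit 14) (nat_lit 5) (nat_lit 13) (nat_lit 4) (nat_lit 334) (nat_lit 272) (nat_lit 174)) (XT.nd (nat_lit 78) (nat_lit 0) (nat_lit 0) (XT.lf (nat_lit 0) (nat_lit 13535170162) (nat_lit 152) (nat_lit 23044211198) (nat_lit 76) (nat_lit 21100943102) (nat_lit 12) (nat_lit 5) (nat_lit 14) (nat_lit 5) (nat_lit 13) (nat_lit 4) (nat_lit 335) (nat_lit 272) (nat_lit 173)) (XT.lf (nat_lit 0) (nat_lit 21472900748) (nat_lit 152) (nat_lit 6791331039) (nat_lit 76) (nat_lit 31807978097)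 (nat_lit 12) (nat_lit 5) (nat_lit 14) (nat_lit 5) (nat_lit 13) (nat_lit 4) (nat_lit 336) (nat_lit 272) (nat_lit 172)))))) (XT.nd (nat_lit 390) (nat_lit 152) (nat_lit 0) (XT.nd (nat_lit 156) (nat_lit 76) (nat_lit 0) (XT.nd (nat_lit 78) (nat_lit 0) (nat_lit 0) (XT.lf (nat_lit 0) (nat_lit 10600791658) (nat_lit 76) (nat_lit 19365115536) (nat_lit 152) (nat_lit 32609868163) (nat_lit 11) (nat_lit 5) (nat_lit 12) (nat_lit 5) (nat_lit 13) (nat_lit 4) (nat_lit 337) (nat_lit 272) (nat_lit 171)) (XT.lf (nat_lit 0) (nat_lit 29085811891) (nat_lit 76) (nat_lit 9905791824) (nat_lit 152) (nat_lit 26207518398) (nat_lit 11) (nat_lit 5) (nat_lit 12) (nat_lit 5) (nat_lit 13) (nat_lit 4) (nat_lit 338) (nat_lit 272) (nat_lit 170))) (XT.nd (nat_lit 78) (nat_lit 76) (nat_lit 0) (XT.lf (nat_lit 0) (nat_lit 48462274195) (nat_lit 152) (nat_lit 19471115284) (nat_lit 0) (nat_lit 20567030) (nat_lit 11) (nat_lit 5)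 (nat_lit 13) (nat_lit 4) (nat_lit 11) (nat_lit 4) (nat_lit 339) (nat_lit 272) (nat_lit 169)) (XT.nd (nat_lit 78) (nat_lit 76) (nat_lit 0) (XT.lf (nat_lit 0) (nat_lit 58562463868) (nat_lit 152) (nat_lit 2170770631) (nat_lit 0) (nat_lit 10105503373) (nat_lit 11) (nat_lit 5) (nat_lit 13) (nat_lit 4) (nat_lit 11) (nat_lit 4) (nat_lit 340) (nat_lit 272) (nat_lit 168)) (XT.lf (nat_lit 0) (nat_lit 16512061283) (nat_lit 76) (nat_lit 52907301902) (nat_lit 76) (nat_lit 4435814427) (nat_lit 10) (nat_lit 4) (nat_lit 11) (nat_lit 5) (nat_lit 11) (nat_lit 4) (nat_lit 341) (nat_lit 272) (nat_lit 167))))) (XT.nd (nat_lit 156) (nat_lit 76) (nat_lit 0) (XT.nd (nat_lit 78) (nat_lit 0) (nat_lit 0) (XT.lf (nat_lit 0) (nat_lit 3706436573) (nat_lit 152) (nat_lit 40887127717) (nat_lit 76) (nat_lit 32424350854) (nat_lit 9) (nat_lit 5) (nat_lit 11) (nat_lit 5) (nat_lit 10) (nat_lit 4) (nat_lit 342) (nat_lit 272)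 (nat_lit 166)) (XT.lf (nat_lit 0) (nat_lit 12100937016) (nat_lit 152) (nat_lit 23691578209) (nat_lit 76) (nat_lit 44542931677) (nat_lit 9) (nat_lit 5) (nat_lit 11) (nat_lit 5) (nat_lit 10) (nat_lit 4) (nat_lit 343) (nat_lit 272) (nat_lit 165))) (XT.nd (nat_lit 78) (nat_lit 76) (nat_lit 0) (XT.lf (nat_lit 0) (nat_lit 20909647571) (nat_lit 152) (nat_lit 5646270524) (nat_lit 76) (nat_lit 57263216449) (nat_lit 9) (nat_lit 5) (nat_lit 11) (nat_lit 5) (nat_lit 10) (nat_lit 4) (nat_lit 344) (nat_lit 272) (nat_lit 164)) (XT.nd (nat_lit 78) (nat_lit 0) (nat_lit 0) (XT.lf (nat_lit 0) (nat_lit 13731245979) (nat_lit 76) (nat_lit 16636678609) (nat_lit 152) (nat_lit 57098628814) (nat_lit 8) (nat_lit 5) (nat_lit 9) (nat_lit 5) (nat_lit 10) (nat_lit 4) (nat_lit 345) (nat_lit 272) (nat_lit 163)) (XT.lf (nat_lit 0) (nat_lit 34264275788) (nat_lit 76) (nat_lit 6125313229) (nat_lit 152) (nat_lit 50902233729)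 (nat_lit 8) (nat_lit 5) (nat_lit 9) (nat_lit 5) (nat_lit 10) (nat_lit 4) (nat_lit 346) (nat_lit 272) (nat_lit 162))))))) (XT.nd (nat_lit 780) (nat_lit 76) (nat_lit 0) (XT.nd (nat_lit 390) (nat_lit 152) (nat_lit 0) (XT.nd (nat_lit 156) (nat_lit 76) (nat_lit 0) (XT.nd (nat_lit 78) (nat_lit 0) (nat_lit 0) (XT.lf (nat_lit 0) (nat_lit 50984054203) (nat_lit 152) (nat_lit 39570209061) (nat_lit 0) (nat_lit 4750509484) (nat_lit 8) (nat_lit 5) (nat_lit 10) (nat_lit 4) (nat_lit 8) (nat_lit 4) (nat_lit 347) (nat_lit 272) (nat_lit 161)) (XT.lf (nat_lit 0) (nat_lit 62203927501) (nat_lit 152) (nat_lit 21349111077) (nat_lit 0) (nat_lit 15960550351) (nat_lit 8) (nat_lit 5) (nat_lit 10) (nat_lit 4) (nat_lit 8) (nat_lit 4) (nat_lit 348) (nat_lit 272) (nat_lit 160))) (XT.nd (nat_lit 78) (nat_lit 76) (nat_lit 0) (XT.lf (nat_lit 0) (nat_lit 73980289591) (nat_lit 152) (nat_lit 2225236134) (nat_lit 0) (nat_lit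 27727548219) (nat_lit 8) (nat_lit 5) (nat_lit 10) (nat_lit 4) (nat_lit 8) (nat_lit 4) (nat_lit 349) (nat_lit 272) (nat_lit 159)) (XT.nd (nat_lit 78) (nat_lit 0) (nat_lit 0) (XT.lf (nat_lit 0) (nat_lit 18437049527) (nat_lit 76) (nat_lit 68191983914) (nat_lit 76) (nat_lit 21930324236) (nat_lit 7) (nat_lit 4) (nat_lit 8) (nat_lit 5) (nat_lit 8) (nat_lit 4) (nat_lit 350) (nat_lit 272) (nat_lit 158)) (XT.lf (nat_lit 0) (nat_lit 40201948050) (nat_lit 76) (nat_lit 59741744729) (nat_lit 76) (nat_lit 13471591426) (nat_lit 7) (nat_lit 4) (nat_lit 8) (nat_lit 5) (nat_lit 8) (nat_lit 4) (nat_lit 351) (nat_lit 272) (nat_lit 157))))) (XT.nd (nat_lit 156) (nat_lit 76) (nat_lit 0) (XT.nd (nat_lit 78) (nat_lit 76) (nat_lit 0) (XT.lf (nat_lit 0) (nat_lit 63047704265) (nat_lit 76) (nat_lit 50872374004) (nat_lit 76) (nat_lit 4594131535) (nat_lit 7) (nat_lit 4) (nat_lit 8) (nat_lit 5) (nat_lit 8) (nat_lit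 4) (nat_lit 352) (nat_lit 272) (nat_lit 156)) (XT.lf (nat_lit 0) (nat_lit 4572020597) (nat_lit 152) (nat_lit 36913304210) (nat_lit 76) (nat_lit 82379262851) (nat_lit 6) (nat_lit 5) (nat_lit 8) (nat_lit 5) (nat_lit 7) (nat_lit 4) (nat_lit 353) (nat_lit 272) (nat_lit 155))) (XT.nd (nat_lit 78) (nat_lit 76) (nat_lit 0) (XT.lf (nat_lit 0) (nat_lit 14038391404) (nat_lit 152) (nat_lit 17514581169) (nat_lit 76) (nat_lit 97925933027) (nat_lit 6) (nat_lit 5) (nat_lit 8) (nat_lit 5) (nat_lit 7) (nat_lit 4) (nat_lit 354) (nat_lit 272) (nat_lit 154)) (XT.nd (nat_lit 78) (nat_lit 0) (nat_lit 0) (XT.lf (nat_lit 0) (nat_lit 2941732088) (nat_lit 76) (nat_lit 21078757357) (nat_lit 152) (nat_lit 111351331537) (nat_lit 5) (nat_lit 5) (nat_lit 6) (nat_lit 5) (nat_lit 7) (nat_lit 4) (nat_lit 355) (nat_lit 272) (nat_lit 153)) (XT.lf (nat_lit 0) (nat_lit 25022532817) (nat_lit 76) (nat_lit 9772325265) (nat_lit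 152) (nat_lit 106749867648) (nat_lit 5) (nat_lit 5) (nat_lit 6) (nat_lit 5) (nat_lit 7) (nat_lit 4) (nat_lit 356) (nat_lit 272) (nat_lit 152)))))) (XT.nd (nat_lit 390) (nat_lit 76) (nat_lit 0) (XT.nd (nat_lit 156) (nat_lit 0) (nat_lit 0) (XT.nd (nat_lit 78) (nat_lit 0) (nat_lit 0) (XT.lf (nat_lit 0) (nat_lit 46137391536) (nat_lit 152) (nat_lit 99857892905) (nat_lit 0) (nat_lit 2029520749) (nat_lit 5) (nat_lit 5) (nat_lit 7) (nat_lit 4) (nat_lit 5) (nat_lit 4) (nat_lit 357) (nat_lit 272) (nat_lit 151)) (XT.lf (nat_lit 0) (nat_lit 58204080785) (nat_lit 152) (nat_lit 82526496911) (nat_lit 0) (nat_lit 14090461179) (nat_lit 5) (nat_lit 5) (nat_lit 7) (nat_lit 4) (nat_lit 5) (nat_lit 4) (nat_lit 358) (nat_lit 272) (nat_lit 150))) (XT.nd (nat_lit 78) (nat_lit 0) (nat_lit 0) (XT.lf (nat_lit 0) (nat_lit 70871082657) (nat_lit 152) (nat_lit 64334166319) (nat_lit 0) (nat_lit 26751987985) (nat_lit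 5) (nat_lit 5) (nat_lit 7) (nat_lit 4) (nat_lit 5) (nat_lit 4) (nat_lit 359) (nat_lit 272) (nat_lit 149)) (XT.nd (nat_lit 78) (nat_lit 0) (nat_lit 0) (XT.lf (nat_lit 0) (nat_lit 84168556682) (nat_lit 152) (nat_lit 45237586057) (nat_lit 0) (nat_lit 40044247661) (nat_lit 5) (nat_lit 5) (nat_lit 7) (nat_lit 4) (nat_lit 5) (nat_lit 4) (nat_lit 360) (nat_lit 272) (nat_lit 148)) (XT.lf (nat_lit 0) (nat_lit 98128163511) (nat_lit 152) (nat_lit 25191288075) (nat_lit 0) (nat_lit 53998888444) (nat_lit 5) (nat_lit 5) (nat_lit 7) (nat_lit 4) (nat_lit 5) (nat_lit 4) (nat_lit 361) (nat_lit 272) (nat_lit 147))))) (XT.nd (nat_lit 156) (nat_lit 0) (nat_lit 0) (XT.nd (nat_lit 78) (nat_lit 76) (nat_lit 0) (XT.lf (nat_lit 0) (nat_lit 112783140304) (nat_lit 152) (nat_lit 4147543094) (nat_lit 0) (nat_lit 68649135669) (nat_lit 5) (nat_lit 5) (nat_lit 7) (nat_lit 4) (nat_lit 5) (nat_lit 4) (nat_lit 362) (nat_lit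 272) (nat_lit 146)) (XT.lf (nat_lit 0) (nat_lit 18537054553) (nat_lit 76) (nat_lit 109920740680) (nat_lit 76) (nat_lit 65782231695) (nat_lit 4) (nat_lit 4) (nat_lit 5) (nat_lit 5) (nat_lit 5) (nat_lit 4) (nat_lit 363) (nat_lit 272) (nat_lit 145))) (XT.nd (nat_lit 78) (nat_lit 0) (nat_lit 0) (XT.lf (nat_lit 0) (nat_lit 42495314095) (nat_lit 76) (nat_lit 102488670559) (nat_lit 76) (nat_lit 58345871716) (nat_lit 4) (nat_lit 4) (nat_lit 5) (nat_lit 5) (nat_lit 5) (nat_lit 4) (nat_lit 364) (nat_lit 272) (nat_lit 144)) (XT.nd (nat_lit 78) (nat_lit 0) (nat_lit 0) (XT.lf (nat_lit 0) (nat_lit 67647142502) (nat_lit 76) (nat_lit 94687018278) (nat_lit 76) (nat_lit 50540133856) (nat_lit 4) (nat_lit 4) (nat_lit 5) (nat_lit 5) (nat_lit 5) (nat_lit 4) (nat_lit 365) (nat_lit 272) (nat_lit 143)) (XT.lf (nat_lit 0) (nat_lit 94052425079) (nat_lit 76) (nat_lit 86497208475) (nat_lit 76) (nat_lit 42346433026)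 (nat_lit 4) (nat_lit 4) (nat_lit 5) (nat_lit 5) (nat_lit 5) (nat_lit 4) (nat_lit 366) (nat_lit 272) (nat_lit 142))))))))
noncomputable def xc145 : XT := (XT.nd (nat_lit 33306) (nat_lit 0) (nat_lit 4332) (XT.nd (nat_lit 780) (nat_lit 0) (nat_lit 0) (XT.nd (nat_lit 390) (nat_lit 76) (nat_lit 0) (XT.nd (nat_lit 156) (nat_lit 76) (nat_lit 0) (XT.nd (nat_lit 78) (nat_lit 0) (nat_lit 0) (XT.lf (nat_lit 0) (nat_lit 121774031545) (nat_lit 76) (nat_lit 77899741603) (nat_lit 76) (nat_lit 33745260413) (nat_lit 4) (nat_lit 4) (nat_lit 5) (nat_lit 5) (nat_lit 5) (nat_lit 4) (nat_lit 367) (nat_lit 272) (nat_lit 141)) (XT.lf (nat_lit 0) (nat_lit 150877965727) (nat_lit 76) (nat_lit 68874147502) (nat_lit 76) (nat_lit 24716137036) (nat_lit 4) (nat_lit 4) (nat_lit 5) (nat_lit 5) (nat_lit 5) (nat_lit 4) (nat_lit 368) (nat_lit 272) (nat_lit 140))) (XT.nd (nat_lit 78) (nat_lit 76) (nat_lit 0) (XT.lf (nat_lit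 0) (nat_lit 181433522706) (nat_lit 76) (nat_lit 59398936663) (nat_lit 76) (nat_lit 15237564982) (nat_lit 4) (nat_lit 4) (nat_lit 5) (nat_lit 5) (nat_lit 5) (nat_lit 4) (nat_lit 369) (nat_lit 272) (nat_lit 139)) (XT.nd (nat_lit 78) (nat_lit 76) (nat_lit 0) (XT.lf (nat_lit 0) (nat_lit 213513453807) (nat_lit 76) (nat_lit 49451549061) (nat_lit 76) (nat_lit 5286976221) (nat_lit 4) (nat_lit 4) (nat_lit 5) (nat_lit 5) (nat_lit 5) (nat_lit 4) (nat_lit 370) (nat_lit 272) (nat_lit 138)) (XT.lf (nat_lit 0) (nat_lit 4994190625) (nat_lit 152) (nat_lit 33929530777) (nat_lit 76) (nat_lit 242115370159) (nat_lit 3) (nat_lit 5) (nat_lit 5) (nat_lit 5) (nat_lit 4) (nat_lit 4) (nat_lit 371) (nat_lit 272) (nat_lit 137))))) (XT.nd (nat_lit 156) (nat_lit 0) (nat_lit 0) (XT.nd (nat_lit 78) (nat_lit 76) (nat_lit 0) (XT.lf (nat_lit 0) (nat_lit 15610060103) (nat_lit 152) (nat_lit 12169901893) (nat_lit 76) (nat_lit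 266681348828) (nat_lit 3) (nat_lit 5) (nat_lit 5) (nat_lit 5) (nat_lit 4) (nat_lit 4) (nat_lit 372) (nat_lit 272) (nat_lit 136)) (XT.lf (nat_lit 0) (nat_lit 11027668795) (nat_lit 76) (nat_lit 15899628366) (nat_lit 152) (nat_lit 281618815966) (nat_lit 2) (nat_lit 5) (nat_lit 3) (nat_lit 5) (nat_lit 4) (nat_lit 4) (nat_lit 373) (nat_lit 272) (nat_lit 135))) (XT.nd (nat_lit 78) (nat_lit 0) (nat_lit 0) (XT.lf (nat_lit 0) (nat_lit 35804683912) (nat_lit 76) (nat_lit 3210246770) (nat_lit 152) (nat_lit 284309998878) (nat_lit 2) (nat_lit 5) (nat_lit 3) (nat_lit 5) (nat_lit 4) (nat_lit 4) (nat_lit 374) (nat_lit 272) (nat_lit 134)) (XT.nd (nat_lit 78) (nat_lit 0) (nat_lit 0) (XT.lf (nat_lit 0) (nat_lit 51863333228) (nat_lit 152) (nat_lit 277182899011) (nat_lit 0) (nat_lit 9788635916) (nat_lit 2) (nat_lit 5) (nat_lit 4) (nat_lit 4) (nat_lit 2) (nat_lit 4) (nat_lit 375) (nat_lit 272) (nat_lit 133))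 (XT.lf (nat_lit 0) (nat_lit 65405340660) (nat_lit 152) (nat_lit 266384036115) (nat_lit 0) (nat_lit 23328368345) (nat_lit 2) (nat_lit 5) (nat_lit 4) (nat_lit 4) (nat_lit 2) (nat_lit 4) (nat_lit 376) (nat_lit 272) (nat_lit 132)))))) (XT.nd (nat_lit 390) (nat_lit 0) (nat_lit 0) (XT.nd (nat_lit 156) (nat_lit 0) (nat_lit 0) (XT.nd (nat_lit 78) (nat_lit 0) (nat_lit 0) (XT.lf (nat_lit 0) (nat_lit 79623074902) (nat_lit 152) (nat_lit 255047824433) (nat_lit 0) (nat_lit 37543935918) (nat_lit 2) (nat_lit 5) (nat_lit 4) (nat_lit 4) (nat_lit 2) (nat_lit 4) (nat_lit 377) (nat_lit 272) (nat_lit 131)) (XT.lf (nat_lit 0) (nat_lit 94550387705) (nat_lit 152) (nat_lit 243147272985) (nat_lit 0) (nat_lit 52469185225) (nat_lit 2) (nat_lit 5) (nat_lit 4) (nat_lit 4) (nat_lit 2) (nat_lit 4) (nat_lit 378) (nat_lit 272) (nat_lit 130))) (XT.nd (nat_lit 78) (nat_lit 0) (nat_lit 0) (XT.lf (nat_lit 0) (nat_lit 110222820287)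 (nat_lit 152) (nat_lit 230654047124) (nat_lit 0) (nat_lit 68139652575) (nat_lit 2) (nat_lit 5) (nat_lit 4) (nat_lit 4) (nat_lit 2) (nat_lit 4) (nat_lit 379) (nat_lit 272) (nat_lit 129)) (XT.nd (nat_lit 78) (nat_lit 0) (nat_lit 0) (XT.lf (nat_lit 0) (nat_lit 126677687966) (nat_lit 152) (nat_lit 217538401076) (nat_lit 0) (nat_lit 84592648602) (nat_lit 2) (nat_lit 5) (nat_lit 4) (nat_lit 4) (nat_lit 2) (nat_lit 4) (nat_lit 380) (nat_lit 272) (nat_lit 128)) (XT.lf (nat_lit 0) (nat_lit 143954168996) (nat_lit 152) (nat_lit 203769107110) (nat_lit 0) (nat_lit 101867347109) (nat_lit 2) (nat_lit 5) (nat_lit 4) (nat_lit 4) (nat_lit 2) (nat_lit 4) (nat_lit 381) (nat_lit 272) (nat_lit 127))))) (XT.nd (nat_lit 156) (nat_lit 0) (nat_lit 0) (XT.nd (nat_lit 78) (nat_lit 0) (nat_lit 0) (XT.lf (nat_lit 0) (nat_lit 162093397858) (nat_lit 152) (nat_lit 189313381195) (nat_lit 0) (nat_lit 120004878328) (nat_lit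 2) (nat_lit 5) (nat_lit 4) (nat_lit 4) (nat_lit 2) (nat_lit 4) (nat_lit 382) (nat_lit 272) (nat_lit 126)) (XT.lf (nat_lit 0) (nat_lit 181138563191) (nat_lit 152) (nat_lit 174136804933) (nat_lit 0) (nat_lit 139048426859) (nat_lit 2) (nat_lit 5) (nat_lit 4) (nat_lit 4) (nat_lit 2) (nat_lit 4) (nat_lit 383) (nat_lit 272) (nat_lit 125))) (XT.nd (nat_lit 78) (nat_lit 0) (nat_lit 0) (XT.lf (nat_lit 0) (nat_lit 201135010627) (nat_lit 152) (nat_lit 158203243622) (nat_lit 0) (nat_lit 159043334484) (nat_lit 2) (nat_lit 5) (nat_lit 4) (nat_lit 4) (nat_lit 2) (nat_lit 4) (nat_lit 384) (nat_lit 272) (nat_lit 124)) (XT.nd (nat_lit 78) (nat_lit 0) (nat_lit 0) (XT.lf (nat_lit 0) (nat_lit 222130350756) (nat_lit 152) (nat_lit 141474760209) (nat_lit 0) (nat_lit 180037208125) (nat_lit 2) (nat_lit 5) (nat_lit 4) (nat_lit 4) (nat_lit 2) (nat_lit 4) (nat_lit 385) (nat_lit 272) (nat_lit 123)) (XT.lf (nat_lit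 0) (nat_lit 244174572481) (nat_lit 152) (nat_lit 123911524972) (nat_lit 0) (nat_lit 202080033195) (nat_lit 2) (nat_lit 5) (nat_lit 4) (nat_lit 4) (nat_lit 2) (nat_lit 4) (nat_lit 386) (nat_lit 272) (nat_lit 122))))))) (XT.nd (nat_lit 780) (nat_lit 2128) (nat_lit 0) (XT.nd (nat_lit 390) (nat_lit 456) (nat_lit 0) (XT.nd (nat_lit 156) (nat_lit 0) (nat_lit 76) (XT.nd (nat_lit 78) (nat_lit 684) (nat_lit 0) (XT.lf (nat_lit 0) (nat_lit 2098920263) (nat_lit 0) (nat_lit 2098920263) (nat_lit 532) (nat_lit 22013530) (nat_lit 102) (nat_lit 5) (nat_lit 102) (nat_lit 3) (nat_lit 109) (nat_lit 3) (nat_lit 273) (nat_lit 273) (nat_lit 234)) (XT.lf (nat_lit 0) (nat_lit 943568579) (nat_lit 684) (nat_lit 431426061) (nat_lit 684) (nat_lit 7223885226) (nat_lit 93) (nat_lit 3) (nat_lit 102) (nat_lit 3) (nat_lit 102) (nat_lit 5) (nat_lit 274) (nat_lit 273) (nat_lit 233))) (XT.nd (nat_lit 78) (nat_lit 0) (nat_lit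 0) (XT.lf (nat_lit 0) (nat_lit 1999115811) (nat_lit 608) (nat_lit 5140205697) (nat_lit 684) (nat_lit 1625809660) (nat_lit 94) (nat_lit 5) (nat_lit 102) (nat_lit 5) (nat_lit 103) (nat_lit 5) (nat_lit 275) (nat_lit 273) (nat_lit 232)) (XT.nd (nat_lit 78) (nat_lit 0) (nat_lit 0) (XT.lf (nat_lit 0) (nat_lit 3077146302) (nat_lit 608) (nat_lit 1099262908) (nat_lit 684) (nat_lit 4764952551) (nat_lit 94) (nat_lit 5) (nat_lit 102) (nat_lit 5) (nat_lit 103) (nat_lit 5) (nat_lit 276) (nat_lit 273) (nat_lit 231)) (XT.lf (nat_lit 76) (nat_lit 3211913807) (nat_lit 0) (nat_lit 989919881) (nat_lit 684) (nat_lit 4925077206) (nat_lit 95) (nat_lit 5) (nat_lit 94) (nat_lit 5) (nat_lit 103) (nat_lit 5) (nat_lit 277) (nat_lit 273) (nat_lit 230))))) (XT.nd (nat_lit 156) (nat_lit 608) (nat_lit 0) (XT.nd (nat_lit 78) (nat_lit 0) (nat_lit 0) (XT.lf (nat_lit 0) (nat_lit 5383598869) (nat_lit 608) (nat_lit 1618364253)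 (nat_lit 684) (nat_lit 2319870076) (nat_lit 95) (nat_lit 5) (nat_lit 103) (nat_lit 5) (nat_lit 104) (nat_lit 5) (nat_lit 278) (nat_lit 273) (nat_lit 229)) (XT.lf (nat_lit 76) (nat_lit 2935312172) (nat_lit 0) (nat_lit 3698948761) (nat_lit 684) (nat_lit 2891881575) (nat_lit 96) (nat_lit 5) (nat_lit 95) (nat_lit 5) (nat_lit 104) (nat_lit 5) (nat_lit 279) (nat_lit 273) (nat_lit 228))) (XT.nd (nat_lit 78) (nat_lit 608) (nat_lit 0) (XT.lf (nat_lit 76) (nat_lit 7737922910) (nat_lit 0) (nat_lit 186635514) (nat_lit 684) (nat_lit 1817378810) (nat_lit 96) (nat_lit 5) (nat_lit 95) (nat_lit 5) (nat_lit 104) (nat_lit 5) (nat_lit 280) (nat_lit 273) (nat_lit 227)) (XT.nd (nat_lit 78) (nat_lit 684) (nat_lit 0) (XT.lf (nat_lit 76) (nat_lit 2811446305) (nat_lit 0) (nat_lit 6518802623) (nat_lit 684) (nat_lit 635847972) (nat_lit 97) (nat_lit 5) (nat_lit 96) (nat_lit 5) (nat_lit 105) (nat_lit 5) (nat_lit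 281) (nat_lit 273) (nat_lit 226)) (XT.lf (nat_lit 0) (nat_lit 576130837) (nat_lit 684) (nat_lit 2312661243) (nat_lit 760) (nat_lit 7312772031) (nat_lit 87) (nat_lit 5) (nat_lit 96) (nat_lit 5) (nat_lit 97) (nat_lit 5) (nat_lit 282) (nat_lit 273) (nat_lit 225)))))) (XT.nd (nat_lit 390) (nat_lit 1064) (nat_lit 0) (XT.nd (nat_lit 156) (nat_lit 1140) (nat_lit 0) (XT.nd (nat_lit 78) (nat_lit 0) (nat_lit 0) (XT.lf (nat_lit 0) (nat_lit 1842147546) (nat_lit 684) (nat_lit 7648057896) (nat_lit 76) (nat_lit 957440566) (nat_lit 88) (nat_lit 5) (nat_lit 97) (nat_lit 5) (nat_lit 89) (nat_lit 5) (nat_lit 283) (nat_lit 273) (nat_lit 224)) (XT.lf (nat_lit 0) (nat_lit 3215742967) (nat_lit 684) (nat_lit 2541465042) (nat_lit 76) (nat_lit 4946708089) (nat_lit 88) (nat_lit 5) (nat_lit 97) (nat_lit 5) (nat_lit 89) (nat_lit 5) (nat_lit 284) (nat_lit 273) (nat_lit 223))) (XT.nd (nat_lit 78) (nat_lit 456) (nat_lit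 0) (XT.lf (nat_lit 0) (nat_lit 2877181079) (nat_lit 684) (nat_lit 1784912727) (nat_lit 760) (nat_lit 6310795433) (nat_lit 79) (nat_lit 5) (nat_lit 88) (nat_lit 5) (nat_lit 89) (nat_lit 5) (nat_lit 285) (nat_lit 273) (nat_lit 222)) (XT.nd (nat_lit 78) (nat_lit 456) (nat_lit 0) (XT.lf (nat_lit 0) (nat_lit 6222389984) (nat_lit 760) (nat_lit 2673050645) (nat_lit 76) (nat_lit 2357877898) (nat_lit 79) (nat_lit 5) (nat_lit 89) (nat_lit 5) (nat_lit 80) (nat_lit 5) (nat_lit 286) (nat_lit 273) (nat_lit 221)) (XT.lf (nat_lit 0) (nat_lit 3054058889) (nat_lit 456) (nat_lit 4846089331) (nat_lit 532) (nat_lit 3645733351) (nat_lit 73) (nat_lit 5) (nat_lit 79) (nat_lit 5) (nat_lit 80) (nat_lit 5) (nat_lit 287) (nat_lit 273) (nat_lit 220))))) (XT.nd (nat_lit 234) (nat_lit 608) (nat_lit 0) (XT.nd (nat_lit 78) (nat_lit 456) (nat_lit 0) (XT.lf (nat_lit 0) (nat_lit 9125724475) (nat_lit 456) (nat_lit 545088558)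 (nat_lit 532) (nat_lit 2181889416) (nat_lit 73) (nat_lit 5) (nat_lit 79) (nat_lit 5) (nat_lit 80) (nat_lit 5) (nat_lit 288) (nat_lit 273) (nat_lit 219)) (XT.nd (nat_lit 78) (nat_lit 76) (nat_lit 0) (XT.lf (nat_lit 0) (nat_lit 3336105803) (nat_lit 380) (nat_lit 8273489102) (nat_lit 456) (nat_lit 561367057) (nat_lit 68) (nat_lit 5) (nat_lit 73) (nat_lit 5) (nat_lit 74) (nat_lit 5) (nat_lit 289) (nat_lit 273) (nat_lit 218)) (XT.lf (nat_lit 0) (nat_lit 1125554557) (nat_lit 456) (nat_lit 2768716119) (nat_lit 76) (nat_lit 8608950042) (nat_lit 67) (nat_lit 5) (nat_lit 73) (nat_lit 5) (nat_lit 68) (nat_lit 5) (nat_lit 290) (nat_lit 273) (nat_lit 217)))) (XT.nd (nat_lit 78) (nat_lit 304) (nat_lit 0) (XT.lf (nat_lit 0) (nat_lit 2915011092) (nat_lit 380) (nat_lit 9187072754) (nat_lit 76) (nat_lit 747762032) (nat_lit 63) (nat_lit 5) (nat_lit 68) (nat_lit 5) (nat_lit 64) (nat_lit 5) (nat_lit 291)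 (nat_lit 273) (nat_lit 216)) (XT.nd (nat_lit 78) (nat_lit 304) (nat_lit 0) (XT.lf (nat_lit 0) (nat_lit 4874044985) (nat_lit 380) (nat_lit 2798893942) (nat_lit 76) (nat_lit 5536921309) (nat_lit 63) (nat_lit 5) (nat_lit 68) (nat_lit 5) (nat_lit 64) (nat_lit 5) (nat_lit 292) (nat_lit 273) (nat_lit 215)) (XT.lf (nat_lit 0) (nat_lit 4003706625) (nat_lit 304) (nat_lit 2959933790) (nat_lit 380) (nat_lit 6622664563) (nat_lit 59) (nat_lit 5) (nat_lit 63) (nat_lit 5) (nat_lit 64) (nat_lit 5) (nat_lit 293) (nat_lit 273) (nat_lit 214))))))))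
noncomputable def xc146 : XT := (XT.nd (nat_lit 1560) (nat_lit 1216) (nat_lit 0) (XT.nd (nat_lit 780) (nat_lit 836) (nat_lit 0) (XT.nd (nat_lit 390) (nat_lit 760) (nat_lit 0) (XT.nd (nat_lit 156) (nat_lit 380) (nat_lit 0) (XT.nd (nat_lit 78) (nat_lit 228) (nat_lit 0) (XT.lf (nat_lit 0) (nat_lit 9207902039) (nat_lit 380) (nat_lit 2801466559) (nat_lit 76) (nat_lit 1969751334) (nat_lit 59) (nat_lit 5) (nat_lit 64) (nat_lit 5) (nat_lit 60) (nat_lit 5) (nat_lit 294) (nat_lit 273) (nat_lit 213)) (XT.lf (nat_lit 0) (nat_lit 4377892945) (nat_lit 228) (nat_lit 7275700593) (nat_lit 304) (nat_lit 2733575822) (nat_lit 56) (nat_lit 5) (nat_lit 59) (nat_lit 5) (nat_lit 60) (nat_lit 5) (nat_lit 295) (nat_lit 273) (nat_lit 212))) (XT.nd (nat_lit 78) (nat_lit 380) (nat_lit 0) (XT.lf (nat_lit 0) (nat_lit 11981578719) (nat_lit 228) (nat_lit 2260596159) (nat_lit 304) (nat_lit 572468086) (nat_lit 56) (nat_lit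 5) (nat_lit 59) (nat_lit 5) (nat_lit 60) (nat_lit 5) (nat_lit 296) (nat_lit 273) (nat_lit 211)) (XT.nd (nat_lit 78) (nat_lit 0) (nat_lit 0) (XT.lf (nat_lit 0) (nat_lit 1739769110) (nat_lit 380) (nat_lit 10510534639) (nat_lit 76) (nat_lit 3007040181) (nat_lit 51) (nat_lit 5) (nat_lit 56) (nat_lit 5) (nat_lit 52) (nat_lit 5) (nat_lit 297) (nat_lit 273) (nat_lit 210)) (XT.lf (nat_lit 0) (nat_lit 4208849099) (nat_lit 380) (nat_lit 2994985494) (nat_lit 76) (nat_lit 8514897527) (nat_lit 51) (nat_lit 5) (nat_lit 56) (nat_lit 5) (nat_lit 52) (nat_lit 5) (nat_lit 298) (nat_lit 273) (nat_lit 209))))) (XT.nd (nat_lit 156) (nat_lit 532) (nat_lit 0) (XT.nd (nat_lit 78) (nat_lit 0) (nat_lit 0) (XT.lf (nat_lit 0) (nat_lit 5026744129) (nat_lit 228) (nat_lit 1828972712) (nat_lit 304) (nat_lit 9344798944) (nat_lit 48) (nat_lit 5) (nat_lit 51) (nat_lit 5) (nat_lit 52) (nat_lit 5) (nat_lit 299) (nat_lit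 273) (nat_lit 208)) (XT.lf (nat_lit 0) (nat_lit 9722470026) (nat_lit 304) (nat_lit 3241806427) (nat_lit 76) (nat_lit 3737775797) (nat_lit 48) (nat_lit 5) (nat_lit 52) (nat_lit 5) (nat_lit 49) (nat_lit 5) (nat_lit 300) (nat_lit 273) (nat_lit 207))) (XT.nd (nat_lit 78) (nat_lit 304) (nat_lit 0) (XT.lf (nat_lit 0) (nat_lit 5193370738) (nat_lit 228) (nat_lit 7627810575) (nat_lit 304) (nat_lit 4403091981) (nat_lit 45) (nat_lit 5) (nat_lit 48) (nat_lit 5) (nat_lit 49) (nat_lit 5) (nat_lit 301) (nat_lit 273) (nat_lit 206)) (XT.nd (nat_lit 78) (nat_lit 304) (nat_lit 0) (XT.lf (nat_lit 0) (nat_lit 14133709297) (nat_lit 228) (nat_lit 1974188444) (nat_lit 304) (nat_lit 1663091103) (nat_lit 45) (nat_lit 5) (nat_lit 48) (nat_lit 5) (nat_lit 49) (nat_lit 5) (nat_lit 302) (nat_lit 273) (nat_lit 205)) (XT.lf (nat_lit 0) (nat_lit 1300021013) (nat_lit 304) (nat_lit 13106305612) (nat_lit 76) (nat_lit 3931551225)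 (nat_lit 41) (nat_lit 5) (nat_lit 45) (nat_lit 5) (nat_lit 42) (nat_lit 5) (nat_lit 303) (nat_lit 273) (nat_lit 204)))))) (XT.nd (nat_lit 390) (nat_lit 456) (nat_lit 0) (XT.nd (nat_lit 156) (nat_lit 152) (nat_lit 0) (XT.nd (nat_lit 78) (nat_lit 228) (nat_lit 0) (XT.lf (nat_lit 0) (nat_lit 4429657590) (nat_lit 304) (nat_lit 4349501259) (nat_lit 76) (nat_lit 10148908190) (nat_lit 41) (nat_lit 5) (nat_lit 45) (nat_lit 5) (nat_lit 42) (nat_lit 5) (nat_lit 304) (nat_lit 273) (nat_lit 203)) (XT.lf (nat_lit 0) (nat_lit 4976835704) (nat_lit 228) (nat_lit 2796915944) (nat_lit 304) (nat_lit 11771145642) (nat_lit 38) (nat_lit 5) (nat_lit 41) (nat_lit 5) (nat_lit 42) (nat_lit 5) (nat_lit 305) (nat_lit 273) (nat_lit 202))) (XT.nd (nat_lit 78) (nat_lit 152) (nat_lit 0) (XT.lf (nat_lit 0) (nat_lit 11394985494) (nat_lit 304) (nat_lit 5352018873) (nat_lit 76) (nat_lit 3440096869) (nat_lit 38) (nat_lit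 5) (nat_lit 42) (nat_lit 5) (nat_lit 39) (nat_lit 5) (nat_lit 306) (nat_lit 273) (nat_lit 201)) (XT.nd (nat_lit 78) (nat_lit 0) (nat_lit 0) (XT.lf (nat_lit 0) (nat_lit 4392891199) (nat_lit 152) (nat_lit 10900411742) (nat_lit 228) (nat_lit 5563338903) (nat_lit 36) (nat_lit 5) (nat_lit 38) (nat_lit 5) (nat_lit 39) (nat_lit 5) (nat_lit 307) (nat_lit 273) (nat_lit 200)) (XT.lf (nat_lit 0) (nat_lit 14784603522) (nat_lit 152) (nat_lit 4674624249) (nat_lit 228) (nat_lit 2096823383) (nat_lit 36) (nat_lit 5) (nat_lit 38) (nat_lit 5) (nat_lit 39) (nat_lit 5) (nat_lit 308) (nat_lit 273) (nat_lit 199))))) (XT.nd (nat_lit 156) (nat_lit 152) (nat_lit 0) (XT.nd (nat_lit 78) (nat_lit 0) (nat_lit 0) (XT.lf (nat_lit 0) (nat_lit 1560592102) (nat_lit 304) (nat_lit 18850911317) (nat_lit 76) (nat_lit 1874398756) (nat_lit 32) (nat_lit 5) (nat_lit 36) (nat_lit 5) (nat_lit 33) (nat_lit 5) (nat_lit 309) (nat_lit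 273) (nat_lit 198)) (XT.lf (nat_lit 0) (nat_lit 5506511671) (nat_lit 304) (nat_lit 8798490058) (nat_lit 76) (nat_lit 8736742967) (nat_lit 32) (nat_lit 5) (nat_lit 36) (nat_lit 5) (nat_lit 33) (nat_lit 5) (nat_lit 310) (nat_lit 273) (nat_lit 197))) (XT.nd (nat_lit 78) (nat_lit 0) (nat_lit 0) (XT.lf (nat_lit 0) (nat_lit 1789118522) (nat_lit 152) (nat_lit 7872265124) (nat_lit 228) (nat_lit 14173434470) (nat_lit 30) (nat_lit 5) (nat_lit 32) (nat_lit 5) (nat_lit 33) (nat_lit 5) (nat_lit 311) (nat_lit 273) (nat_lit 196)) (XT.nd (nat_lit 78) (nat_lit 0) (nat_lit 0) (XT.lf (nat_lit 0) (nat_lit 13187272865) (nat_lit 152) (nat_lit 969852029) (nat_lit 228) (nat_lit 10503784593) (nat_lit 30) (nat_lit 5) (nat_lit 32) (nat_lit 5) (nat_lit 33) (nat_lit 5) (nat_lit 312) (nat_lit 273) (nat_lit 195)) (XT.lf (nat_lit 0) (nat_lit 18960415479) (nat_lit 228) (nat_lit 494774680) (nat_lit 76) (nat_lit 6068996743)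 (nat_lit 30) (nat_lit 5) (nat_lit 33) (nat_lit 5) (nat_lit 31) (nat_lit 5) (nat_lit 313) (nat_lit 273) (nat_lit 194))))))) (XT.nd (nat_lit 780) (nat_lit 380) (nat_lit 0) (XT.nd (nat_lit 390) (nat_lit 304) (nat_lit 0) (XT.nd (nat_lit 156) (nat_lit 304) (nat_lit 0) (XT.nd (nat_lit 78) (nat_lit 76) (nat_lit 0) (XT.lf (nat_lit 0) (nat_lit 11357999026) (nat_lit 152) (nat_lit 12824577228) (nat_lit 228) (nat_lit 2239135302) (nat_lit 28) (nat_lit 5) (nat_lit 30) (nat_lit 5) (nat_lit 31) (nat_lit 5) (nat_lit 314) (nat_lit 273) (nat_lit 193)) (XT.lf (nat_lit 0) (nat_lit 2222149557) (nat_lit 228) (nat_lit 3601966054) (nat_lit 76) (nat_lit 21538512590) (nat_lit 27) (nat_lit 5) (nat_lit 30) (nat_lit 5) (nat_lit 28) (nat_lit 5) (nat_lit 315) (nat_lit 273) (nat_lit 192))) (XT.nd (nat_lit 78) (nat_lit 152) (nat_lit 0) (XT.lf (nat_lit 0) (nat_lit 6979100885) (nat_lit 228) (nat_lit 19717872098) (nat_lit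 76) (nat_lit 1644405857) (nat_lit 25) (nat_lit 5) (nat_lit 28) (nat_lit 5) (nat_lit 26) (nat_lit 5) (nat_lit 316) (nat_lit 273) (nat_lit 191)) (XT.nd (nat_lit 78) (nat_lit 152) (nat_lit 0) (XT.lf (nat_lit 0) (nat_lit 12117832637) (nat_lit 228) (nat_lit 7899104010) (nat_lit 76) (nat_lit 9344949069) (nat_lit 25) (nat_lit 5) (nat_lit 28) (nat_lit 5) (nat_lit 26) (nat_lit 5) (nat_lit 317) (nat_lit 273) (nat_lit 190)) (XT.lf (nat_lit 0) (nat_lit 4638181803) (nat_lit 152) (nat_lit 12934833709) (nat_lit 228) (nat_lit 12857441312) (nat_lit 23) (nat_lit 5) (nat_lit 25) (nat_lit 5) (nat_lit 26) (nat_lit 5) (nat_lit 318) (nat_lit 273) (nat_lit 189))))) (XT.nd (nat_lit 156) (nat_lit 304) (nat_lit 0) (XT.nd (nat_lit 78) (nat_lit 0) (nat_lit 0) (XT.lf (nat_lit 0) (nat_lit 18056036138) (nat_lit 152) (nat_lit 5366089767) (nat_lit 228) (nat_lit 8124286084) (nat_lit 23) (nat_lit 5) (nat_lit 25) (nat_lit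 5) (nat_lit 26) (nat_lit 5) (nat_lit 319) (nat_lit 273) (nat_lit 188)) (XT.lf (nat_lit 0) (nat_lit 29591865549) (nat_lit 228) (nat_lit 633732463) (nat_lit 76) (nat_lit 2491171470) (nat_lit 23) (nat_lit 5) (nat_lit 26) (nat_lit 5) (nat_lit 24) (nat_lit 4) (nat_lit 320) (nat_lit 273) (nat_lit 187))) (XT.nd (nat_lit 78) (nat_lit 152) (nat_lit 0) (XT.lf (nat_lit 0) (nat_lit 2343272664) (nat_lit 152) (nat_lit 20788805758) (nat_lit 76) (nat_lit 10797578976) (nat_lit 21) (nat_lit 5) (nat_lit 23) (nat_lit 5) (nat_lit 22) (nat_lit 5) (nat_lit 321) (nat_lit 273) (nat_lit 186)) (XT.nd (nat_lit 78) (nat_lit 152) (nat_lit 0) (XT.lf (nat_lit 0) (nat_lit 7979262115) (nat_lit 152) (nat_lit 7647071274) (nat_lit 76) (nat_lit 19574335312) (nat_lit 21) (nat_lit 5) (nat_lit 23) (nat_lit 5) (nat_lit 22) (nat_lit 5) (nat_lit 322) (nat_lit 273) (nat_lit 185)) (XT.lf (nat_lit 0) (nat_lit 6336282916) (nat_lit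 152) (nat_lit 7648755044) (nat_lit 228) (nat_lit 22545804169) (nat_lit 19) (nat_lit 5) (nat_lit 21) (nat_lit 5) (nat_lit 22) (nat_lit 5) (nat_lit 323) (nat_lit 273) (nat_lit 184)))))) (XT.nd (nat_lit 390) (nat_lit 76) (nat_lit 0) (XT.nd (nat_lit 156) (nat_lit 304) (nat_lit 0) (XT.nd (nat_lit 78) (nat_lit 0) (nat_lit 0) (XT.lf (nat_lit 0) (nat_lit 20423280572) (nat_lit 228) (nat_lit 16668644386) (nat_lit 76) (nat_lit 829000759) (nat_lit 19) (nat_lit 5) (nat_lit 22) (nat_lit 5) (nat_lit 20) (nat_lit 4) (nat_lit 324) (nat_lit 273) (nat_lit 183)) (XT.lf (nat_lit 0) (nat_lit 27298526253) (nat_lit 228) (nat_lit 2609351651) (nat_lit 76) (nat_lit 9466890926) (nat_lit 19) (nat_lit 5) (nat_lit 22) (nat_lit 5) (nat_lit 20) (nat_lit 4) (nat_lit 325) (nat_lit 273) (nat_lit 182))) (XT.nd (nat_lit 78) (nat_lit 228) (nat_lit 0) (XT.lf (nat_lit 0) (nat_lit 12537489975) (nat_lit 76) (nat_lit 22165981513)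 (nat_lit 152) (nat_lit 6188545169) (nat_lit 18) (nat_lit 5) (nat_lit 19) (nat_lit 5) (nat_lit 20) (nat_lit 4) (nat_lit 326) (nat_lit 273) (nat_lit 181)) (XT.nd (nat_lit 78) (nat_lit 152) (nat_lit 0) (XT.lf (nat_lit 0) (nat_lit 28895546) (nat_lit 152) (nat_lit 13968032234) (nat_lit 76) (nat_lit 28486455105) (nat_lit 17) (nat_lit 5) (nat_lit 19) (nat_lit 5) (nat_lit 18) (nat_lit 5) (nat_lit 327) (nat_lit 273) (nat_lit 180)) (XT.lf (nat_lit 0) (nat_lit 1054115720) (nat_lit 152) (nat_lit 5302276022) (nat_lit 228) (nat_lit 37792503286) (nat_lit 15) (nat_lit 5) (nat_lit 17) (nat_lit 5) (nat_lit 18) (nat_lit 5) (nat_lit 328) (nat_lit 273) (nat_lit 179))))) (XT.nd (nat_lit 156) (nat_lit 76) (nat_lit 0) (XT.nd (nat_lit 78) (nat_lit 0) (nat_lit 0) (XT.lf (nat_lit 0) (nat_lit 13291244040) (nat_lit 228) (nat_lit 28653235555) (nat_lit 76) (nat_lit 3938661872) (nat_lit 15) (nat_lit 5) (nat_lit 18)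 (nat_lit 5) (nat_lit 16) (nat_lit 4) (nat_lit 329) (nat_lit 273) (nat_lit 178)) (XT.lf (nat_lit 0) (nat_lit 20650995854) (nat_lit 228) (nat_lit 13591832705) (nat_lit 76) (nat_lit 13457371202) (nat_lit 15) (nat_lit 5) (nat_lit 18) (nat_lit 5) (nat_lit 16) (nat_lit 4) (nat_lit 330) (nat_lit 273) (nat_lit 177))) (XT.nd (nat_lit 78) (nat_lit 0) (nat_lit 0) (XT.lf (nat_lit 0) (nat_lit 2281081978) (nat_lit 76) (nat_lit 26124919120) (nat_lit 152) (nat_lit 21200753613) (nat_lit 14) (nat_lit 5) (nat_lit 15) (nat_lit 5) (nat_lit 16) (nat_lit 4) (nat_lit 331) (nat_lit 273) (nat_lit 176)) (XT.nd (nat_lit 78) (nat_lit 0) (nat_lit 0) (XT.lf (nat_lit 0) (nat_lit 19405187915) (nat_lit 76) (nat_lit 17365578479) (nat_lit 152) (nat_lit 14826777218) (nat_lit 14) (nat_lit 5) (nat_lit 15) (nat_lit 5) (nat_lit 16) (nat_lit 4) (nat_lit 332) (nat_lit 273) (nat_lit 175)) (XT.lf (nat_lit 0) (nat_lit 37371849414)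 (nat_lit 76) (nat_lit 8174135328) (nat_lit 152) (nat_lit 8142282855) (nat_lit 14) (nat_lit 5) (nat_lit 15) (nat_lit 5) (nat_lit 16) (nat_lit 4) (nat_lit 333) (nat_lit 273) (nat_lit 174))))))))
noncomputable def xc147 : XT := (XT.nd (nat_lit 1560) (nat_lit 380) (nat_lit 0) (XT.nd (nat_lit 780) (nat_lit 152) (nat_lit 0) (XT.nd (nat_lit 390) (nat_lit 152) (nat_lit 0) (XT.nd (nat_lit 156) (nat_lit 76) (nat_lit 0) (XT.nd (nat_lit 78) (nat_lit 76) (nat_lit 0) (XT.lf (nat_lit 0) (nat_lit 327449040) (nat_lit 76) (nat_lit 54453183910) (nat_lit 76) (nat_lit 1101867457) (nat_lit 13) (nat_lit 4) (nat_lit 14) (nat_lit 5) (nat_lit 14) (nat_lit 4) (nat_lit 334) (nat_lit 273) (nat_lit 173)) (XT.lf (nat_lit 0) (nat_lit 6496615151) (nat_lit 152) (nat_lit 40052722936) (nat_lit 76) (nat_lit 11611832413) (nat_lit 12) (nat_lit 5) (nat_lit 14) (nat_lit 5) (nat_lit 13) (nat_lit 4) (nat_lit 335) (nat_lit 273)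 (nat_lit 172))) (XT.nd (nat_lit 78) (nat_lit 76) (nat_lit 0) (XT.lf (nat_lit 0) (nat_lit 14430873183) (nat_lit 152) (nat_lit 23806034487) (nat_lit 76) (nat_lit 22316324439) (nat_lit 12) (nat_lit 5) (nat_lit 14) (nat_lit 5) (nat_lit 13) (nat_lit 4) (nat_lit 336) (nat_lit 273) (nat_lit 171)) (XT.nd (nat_lit 78) (nat_lit 76) (nat_lit 0) (XT.lf (nat_lit 0) (nat_lit 22755064369) (nat_lit 152) (nat_lit 6759100191) (nat_lit 76) (nat_lit 33551076223) (nat_lit 12) (nat_lit 5) (nat_lit 14) (nat_lit 5) (nat_lit 13) (nat_lit 4) (nat_lit 337) (nat_lit 273) (nat_lit 170)) (XT.lf (nat_lit 0) (nat_lit 11496631909) (nat_lit 76) (nat_lit 20171870946) (nat_lit 152) (nat_lit 34025699906) (nat_lit 11) (nat_lit 5) (nat_lit 12) (nat_lit 5) (nat_lit 13) (nat_lit 4) (nat_lit 338) (nat_lit 273) (nat_lit 169))))) (XT.nd (nat_lit 156) (nat_lit 152) (nat_lit 0) (XT.nd (nat_lit 78) (nat_lit 0) (nat_lit 0) (XT.lf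 (nat_lit 0) (nat_lit 30888484075) (nat_lit 76) (nat_lit 10247271542) (nat_lit 152) (nat_lit 27313454636) (nat_lit 11) (nat_lit 5) (nat_lit 12) (nat_lit 5) (nat_lit 13) (nat_lit 4) (nat_lit 339) (nat_lit 273) (nat_lit 168)) (XT.lf (nat_lit 0) (nat_lit 51072981351) (nat_lit 152) (nat_lit 20105768046) (nat_lit 0) (nat_lit 163392522) (nat_lit 11) (nat_lit 5) (nat_lit 13) (nat_lit 4) (nat_lit 11) (nat_lit 4) (nat_lit 340) (nat_lit 273) (nat_lit 167))) (XT.nd (nat_lit 78) (nat_lit 152) (nat_lit 0) (XT.lf (nat_lit 0) (nat_lit 61669247486) (nat_lit 152) (nat_lit 1956544399) (nat_lit 0) (nat_lit 10745823438) (nat_lit 11) (nat_lit 5) (nat_lit 13) (nat_lit 4) (nat_lit 11) (nat_lit 4) (nat_lit 341) (nat_lit 273) (nat_lit 166)) (XT.nd (nat_lit 78) (nat_lit 76) (nat_lit 0) (XT.lf (nat_lit 0) (nat_lit 17655223228) (nat_lit 76) (nat_lit 55410218886) (nat_lit 76) (nat_lit 4473618438) (nat_lit 10) (nat_lit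 4) (nat_lit 11) (nat_lit 5) (nat_lit 11) (nat_lit 4) (nat_lit 342) (nat_lit 273) (nat_lit 165)) (XT.lf (nat_lit 0) (nat_lit 4061375532) (nat_lit 152) (nat_lit 42623329558) (nat_lit 76) (nat_lit 34175515748) (nat_lit 9) (nat_lit 5) (nat_lit 11) (nat_lit 5) (nat_lit 10) (nat_lit 4) (nat_lit 343) (nat_lit 273) (nat_lit 164)))))) (XT.nd (nat_lit 390) (nat_lit 76) (nat_lit 0) (XT.nd (nat_lit 156) (nat_lit 76) (nat_lit 0) (XT.nd (nat_lit 78) (nat_lit 0) (nat_lit 0) (XT.lf (nat_lit 0) (nat_lit 12867523991) (nat_lit 152) (nat_lit 24582676600) (nat_lit 76) (nat_lit 46893837643) (nat_lit 9) (nat_lit 5) (nat_lit 11) (nat_lit 5) (nat_lit 10) (nat_lit 4) (nat_lit 344) (nat_lit 273) (nat_lit 163)) (XT.lf (nat_lit 0) (nat_lit 22108977686) (nat_lit 152) (nat_lit 5649078794) (nat_lit 76) (nat_lit 60244243349) (nat_lit 9) (nat_lit 5) (nat_lit 11) (nat_lit 5) (nat_lit 10) (nat_lit 4) (nat_lit 345) (nat_lit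 273) (nat_lit 162))) (XT.nd (nat_lit 78) (nat_lit 0) (nat_lit 0) (XT.lf (nat_lit 0) (nat_lit 14692805385) (nat_lit 76) (nat_lit 17344330562) (nat_lit 152) (nat_lit 59795110030) (nat_lit 8) (nat_lit 5) (nat_lit 9) (nat_lit 5) (nat_lit 10) (nat_lit 4) (nat_lit 346) (nat_lit 273) (nat_lit 161)) (XT.nd (nat_lit 78) (nat_lit 0) (nat_lit 0) (XT.lf (nat_lit 0) (nat_lit 36239391584) (nat_lit 76) (nat_lit 6313310340) (nat_lit 152) (nat_lit 53296440441) (nat_lit 8) (nat_lit 5) (nat_lit 9) (nat_lit 5) (nat_lit 10) (nat_lit 4) (nat_lit 347) (nat_lit 273) (nat_lit 160)) (XT.lf (nat_lit 0) (nat_lit 53671809256) (nat_lit 152) (nat_lit 41294122350) (nat_lit 0) (nat_lit 5097066595) (nat_lit 8) (nat_lit 5) (nat_lit 10) (nat_lit 4) (nat_lit 8) (nat_lit 4) (nat_lit 348) (nat_lit 273) (nat_lit 159))))) (XT.nd (nat_lit 156) (nat_lit 76) (nat_lit 0) (XT.nd (nat_lit 78) (nat_lit 0) (nat_lit 0) (XT.lf (nat_lit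 0) (nat_lit 65446078489) (nat_lit 152) (nat_lit 22174093142) (nat_lit 0) (nat_lit 16862417521) (nat_lit 8) (nat_lit 5) (nat_lit 10) (nat_lit 4) (nat_lit 8) (nat_lit 4) (nat_lit 349) (nat_lit 273) (nat_lit 158)) (XT.lf (nat_lit 0) (nat_lit 77804975130) (nat_lit 152) (nat_lit 2105570809) (nat_lit 0) (nat_lit 29212820538) (nat_lit 8) (nat_lit 5) (nat_lit 10) (nat_lit 4) (nat_lit 8) (nat_lit 4) (nat_lit 350) (nat_lit 273) (nat_lit 157))) (XT.nd (nat_lit 78) (nat_lit 0) (nat_lit 0) (XT.lf (nat_lit 0) (nat_lit 19586104504) (nat_lit 76) (nat_lit 71497614600) (nat_lit 76) (nat_lit 22897370841) (nat_lit 7) (nat_lit 4) (nat_lit 8) (nat_lit 5) (nat_lit 8) (nat_lit 4) (nat_lit 351) (nat_lit 273) (nat_lit 156)) (XT.nd (nat_lit 78) (nat_lit 0) (nat_lit 0) (XT.lf (nat_lit 0) (nat_lit 42428428787) (nat_lit 76) (nat_lit 62629814336) (nat_lit 76) (nat_lit 14021866610) (nat_lit 7) (nat_lit 4) (nat_lit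 8) (nat_lit 5) (nat_lit 8) (nat_lit 4) (nat_lit 352) (nat_lit 273) (nat_lit 155)) (XT.lf (nat_lit 0) (nat_lit 66406168845) (nat_lit 76) (nat_lit 53321690200) (nat_lit 76) (nat_lit 4706405362) (nat_lit 7) (nat_lit 4) (nat_lit 8) (nat_lit 5) (nat_lit 8) (nat_lit 4) (nat_lit 353) (nat_lit 273) (nat_lit 154))))))) (XT.nd (nat_lit 780) (nat_lit 228) (nat_lit 0) (XT.nd (nat_lit 390) (nat_lit 0) (nat_lit 0) (XT.nd (nat_lit 156) (nat_lit 76) (nat_lit 0) (XT.nd (nat_lit 78) (nat_lit 0) (nat_lit 0) (XT.lf (nat_lit 0) (nat_lit 4908882740) (nat_lit 152) (nat_lit 38559062946) (nat_lit 76) (nat_lit 86584397489) (nat_lit 6) (nat_lit 5) (nat_lit 8) (nat_lit 5) (nat_lit 7) (nat_lit 4) (nat_lit 354) (nat_lit 273) (nat_lit 153)) (XT.lf (nat_lit 0) (nat_lit 14843416796) (nat_lit 152) (nat_lit 18199923108) (nat_lit 76) (nat_lit 102904297770) (nat_lit 6) (nat_lit 5) (nat_lit 8) (nat_lit 5) (nat_lit 7) (nat_lit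 4) (nat_lit 355) (nat_lit 273) (nat_lit 152))) (XT.nd (nat_lit 78) (nat_lit 0) (nat_lit 0) (XT.lf (nat_lit 0) (nat_lit 3276135052) (nat_lit 76) (nat_lit 22046499419) (nat_lit 152) (nat_lit 116812666374) (nat_lit 5) (nat_lit 5) (nat_lit 6) (nat_lit 5) (nat_lit 7) (nat_lit 4) (nat_lit 356) (nat_lit 273) (nat_lit 151)) (XT.nd (nat_lit 78) (nat_lit 0) (nat_lit 0) (XT.lf (nat_lit 0) (nat_lit 26452055991) (nat_lit 76) (nat_lit 10178850285) (nat_lit 152) (nat_lit 111986187945) (nat_lit 5) (nat_lit 5) (nat_lit 6) (nat_lit 5) (nat_lit 7) (nat_lit 4) (nat_lit 357) (nat_lit 273) (nat_lit 150)) (XT.lf (nat_lit 0) (nat_lit 48537201078) (nat_lit 152) (nat_lit 104677470737) (nat_lit 0) (nat_lit 2206676606) (nat_lit 5) (nat_lit 5) (nat_lit 7) (nat_lit 4) (nat_lit 5) (nat_lit 4) (nat_lit 358) (nat_lit 273) (nat_lit 149))))) (XT.nd (nat_lit 156) (nat_lit 0) (nat_lit 0) (XT.nd (nat_lit 78) (nat_lit 0)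 (nat_lit 0) (XT.lf (nat_lit 0) (nat_lit 61202799077) (nat_lit 152) (nat_lit 86487758125) (nat_lit 0) (nat_lit 14867060257) (nat_lit 5) (nat_lit 5) (nat_lit 7) (nat_lit 4) (nat_lit 5) (nat_lit 4) (nat_lit 359) (nat_lit 273) (nat_lit 148)) (XT.lf (nat_lit 0) (nat_lit 74498936079) (nat_lit 152) (nat_lit 67393671177) (nat_lit 0) (nat_lit 28158231212) (nat_lit 5) (nat_lit 5) (nat_lit 7) (nat_lit 4) (nat_lit 5) (nat_lit 4) (nat_lit 360) (nat_lit 273) (nat_lit 147))) (XT.nd (nat_lit 78) (nat_lit 0) (nat_lit 0) (XT.lf (nat_lit 0) (nat_lit 88457269553) (nat_lit 152) (nat_lit 47349747780) (nat_lit 0) (nat_lit 42111835118) (nat_lit 5) (nat_lit 5) (nat_lit 7) (nat_lit 4) (nat_lit 5) (nat_lit 4) (nat_lit 361) (nat_lit 273) (nat_lit 146)) (XT.nd (nat_lit 78) (nat_lit 0) (nat_lit 0) (XT.lf (nat_lit 0) (nat_lit 103111033627) (nat_lit 152) (nat_lit 26308264308) (nat_lit 0) (nat_lit 56761094841) (nat_lit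 5) (nat_lit 5) (nat_lit 7) (nat_lit 4) (nat_lit 5) (nat_lit 4) (nat_lit 362) (nat_lit 273) (nat_lit 145)) (XT.lf (nat_lit 0) (nat_lit 118495118214) (nat_lit 152) (nat_lit 4219121991) (nat_lit 0) (nat_lit 72140889571) (nat_lit 5) (nat_lit 5) (nat_lit 7) (nat_lit 4) (nat_lit 5) (nat_lit 4) (nat_lit 363) (nat_lit 273) (nat_lit 144)))))) (XT.nd (nat_lit 390) (nat_lit 152) (nat_lit 0) (XT.nd (nat_lit 156) (nat_lit 0) (nat_lit 0) (XT.nd (nat_lit 78) (nat_lit 0) (nat_lit 0) (XT.lf (nat_lit 0) (nat_lit 19597515244) (nat_lit 76) (nat_lit 115354608979) (nat_lit 76) (nat_lit 68996294757) (nat_lit 4) (nat_lit 4) (nat_lit 5) (nat_lit 5) (nat_lit 5) (nat_lit 4) (nat_lit 364) (nat_lit 273) (nat_lit 143)) (XT.lf (nat_lit 0) (nat_lit 44747325480) (nat_lit 76) (nat_lit 107553895767) (nat_lit 76) (nat_lit 61191690518) (nat_lit 4) (nat_lit 4) (nat_lit 5) (nat_lit 5) (nat_lit 5) (nat_lit 4) (nat_lit 365)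 (nat_lit 273) (nat_lit 142))) (XT.nd (nat_lit 78) (nat_lit 0) (nat_lit 0) (XT.lf (nat_lit 0) (nat_lit 71150685989) (nat_lit 76) (nat_lit 99364980316) (nat_lit 76) (nat_lit 52999069327) (nat_lit 4) (nat_lit 4) (nat_lit 5) (nat_lit 5) (nat_lit 5) (nat_lit 4) (nat_lit 366) (nat_lit 273) (nat_lit 141)) (XT.nd (nat_lit 78) (nat_lit 0) (nat_lit 0) (XT.lf (nat_lit 0) (nat_lit 98870461915) (nat_lit 76) (nat_lit 90768365207) (nat_lit 76) (nat_lit 44398924942) (nat_lit 4) (nat_lit 4) (nat_lit 5) (nat_lit 5) (nat_lit 5) (nat_lit 4) (nat_lit 367) (nat_lit 273) (nat_lit 140)) (XT.lf (nat_lit 0) (nat_lit 127972652725) (nat_lit 76) (nat_lit 81743582310) (nat_lit 76) (nat_lit 35370780829) (nat_lit 4) (nat_lit 4) (nat_lit 5) (nat_lit 5) (nat_lit 5) (nat_lit 4) (nat_lit 368) (nat_lit 273) (nat_lit 139))))) (XT.nd (nat_lit 234) (nat_lit 152) (nat_lit 0) (XT.nd (nat_lit 78) (nat_lit 0) (nat_lit 0) (XT.lf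 (nat_lit 0) (nat_lit 158526549349) (nat_lit 76) (nat_lit 72269144046) (nat_lit 76) (nat_lit 25893141407) (nat_lit 4) (nat_lit 4) (nat_lit 5) (nat_lit 5) (nat_lit 5) (nat_lit 4) (nat_lit 369) (nat_lit 273) (nat_lit 138)) (XT.nd (nat_lit 78) (nat_lit 0) (nat_lit 0) (XT.lf (nat_lit 0) (nat_lit 190604899161) (nat_lit 76) (nat_lit 62322492229) (nat_lit 76) (nat_lit 15943440868) (nat_lit 4) (nat_lit 4) (nat_lit 5) (nat_lit 5) (nat_lit 5) (nat_lit 4) (nat_lit 370) (nat_lit 273) (nat_lit 137)) (XT.lf (nat_lit 0) (nat_lit 224284079183) (nat_lit 76) (nat_lit 51879944354) (nat_lit 76) (nat_lit 5497989449) (nat_lit 4) (nat_lit 4) (nat_lit 5) (nat_lit 5) (nat_lit 5) (nat_lit 4) (nat_lit 371) (nat_lit 273) (nat_lit 136)))) (XT.nd (nat_lit 78) (nat_lit 76) (nat_lit 0) (XT.lf (nat_lit 0) (nat_lit 5293070168) (nat_lit 152) (nat_lit 35533926340) (nat_lit 76) (nat_lit 254261567066) (nat_lit 3) (nat_lit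 5) (nat_lit 5) (nat_lit 5) (nat_lit 4) (nat_lit 4) (nat_lit 372) (nat_lit 273) (nat_lit 135)) (XT.nd (nat_lit 78) (nat_lit 76) (nat_lit 0) (XT.lf (nat_lit 0) (nat_lit 16437391690) (nat_lit 152) (nat_lit 12690700820) (nat_lit 76) (nat_lit 280053919507) (nat_lit 3) (nat_lit 5) (nat_lit 5) (nat_lit 5) (nat_lit 4) (nat_lit 4) (nat_lit 373) (nat_lit 273) (nat_lit 134)) (XT.lf (nat_lit 0) (nat_lit 11665333949) (nat_lit 76) (nat_lit 16654273819) (nat_lit 152) (nat_lit 295651491900) (nat_lit 2) (nat_lit 5) (nat_lit 3) (nat_lit 5) (nat_lit 4) (nat_lit 4) (nat_lit 374) (nat_lit 273) (nat_lit 133))))))))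
noncomputable def xc148 : XT := (XT.nd (nat_lit 33384) (nat_lit 0) (nat_lit 3496) (XT.nd (nat_lit 780) (nat_lit 0) (nat_lit 0) (XT.nd (nat_lit 390) (nat_lit 0) (nat_lit 0) (XT.nd (nat_lit 156) (nat_lit 0) (nat_lit 0) (XT.nd (nat_lit 78) (nat_lit 0) (nat_lit 0) (XT.lf (nat_lit 0) (nat_lit 37677091168) (nat_lit 76) (nat_lit 3332343904) (nat_lit 152) (nat_lit 298479532284) (nat_lit 2) (nat_lit 5) (nat_lit 3) (nat_lit 5) (nat_lit 4) (nat_lit 4) (nat_lit 375) (nat_lit 273) (nat_lit 132)) (XT.lf (nat_lit 0) (nat_lit 54498745247) (nat_lit 152) (nat_lit 290962251606) (nat_lit 0) (nat_lit 10313482644) (nat_lit 2) (nat_lit 5) (nat_lit 4) (nat_lit 4) (nat_lit 2) (nat_lit 4) (nat_lit 376) (nat_lit 273) (nat_lit 131))) (XT.nd (nat_lit 78) (nat_lit 0) (nat_lit 0) (XT.lf (nat_lit 0) (nat_lit 68715841366) (nat_lit 152) (nat_lit 279627245201) (nat_lit 0) (nat_lit 24528515268) (nat_lit 2) (nat_lit 5)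 (nat_lit 4) (nat_lit 4) (nat_lit 2) (nat_lit 4) (nat_lit 377) (nat_lit 273) (nat_lit 130)) (XT.nd (nat_lit 78) (nat_lit 0) (nat_lit 0) (XT.lf (nat_lit 0) (nat_lit 83642546432) (nat_lit 152) (nat_lit 267727841636) (nat_lit 0) (nat_lit 39453255101) (nat_lit 2) (nat_lit 5) (nat_lit 4) (nat_lit 4) (nat_lit 2) (nat_lit 4) (nat_lit 378) (nat_lit 273) (nat_lit 129)) (XT.lf (nat_lit 0) (nat_lit 99314400218) (nat_lit 152) (nat_lit 255235708998) (nat_lit 0) (nat_lit 55123237236) (nat_lit 2) (nat_lit 5) (nat_lit 4) (nat_lit 4) (nat_lit 2) (nat_lit 4) (nat_lit 379) (nat_lit 273) (nat_lit 128))))) (XT.nd (nat_lit 156) (nat_lit 0) (nat_lit 0) (XT.nd (nat_lit 78) (nat_lit 0) (nat_lit 0) (XT.lf (nat_lit 0) (nat_lit 115768716662) (nat_lit 152) (nat_lit 242121104113) (nat_lit 0) (nat_lit 71575771155) (nat_lit 2) (nat_lit 5) (nat_lit 4) (nat_lit 4) (nat_lit 2) (nat_lit 4) (nat_lit 380) (nat_lit 273) (nat_lit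 127)) (XT.lf (nat_lit 0) (nat_lit 133044672707) (nat_lit 152) (nat_lit 228352801732) (nat_lit 0) (nat_lit 88850029558) (nat_lit 2) (nat_lit 5) (nat_lit 4) (nat_lit 4) (nat_lit 2) (nat_lit 4) (nat_lit 381) (nat_lit 273) (nat_lit 126))) (XT.nd (nat_lit 78) (nat_lit 0) (nat_lit 0) (XT.lf (nat_lit 0) (nat_lit 151183401582) (nat_lit 152) (nat_lit 213898020182) (nat_lit 0) (nat_lit 106987141631) (nat_lit 2) (nat_lit 5) (nat_lit 4) (nat_lit 4) (nat_lit 2) (nat_lit 4) (nat_lit 382) (nat_lit 273) (nat_lit 125)) (XT.nd (nat_lit 78) (nat_lit 0) (nat_lit 0) (XT.lf (nat_lit 0) (nat_lit 170228090738) (nat_lit 152) (nat_lit 198722343317) (nat_lit 0) (nat_lit 126030290975) (nat_lit 2) (nat_lit 5) (nat_lit 4) (nat_lit 4) (nat_lit 2) (nat_lit 4) (nat_lit 383) (nat_lit 273) (nat_lit 124)) (XT.lf (nat_lit 0) (nat_lit 190224084672) (nat_lit 152) (nat_lit 182789638573) (nat_lit 0) (nat_lit 146024818422) (nat_lit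 2) (nat_lit 5) (nat_lit 4) (nat_lit 4) (nat_lit 2) (nat_lit 4) (nat_lit 384) (nat_lit 273) (nat_lit 123)))))) (XT.nd (nat_lit 32214) (nat_lit 0) (nat_lit 6992) (XT.nd (nat_lit 31980) (nat_lit 0) (nat_lit 6916) (XT.nd (nat_lit 78) (nat_lit 0) (nat_lit 0) (XT.lf (nat_lit 0) (nat_lit 211218992893) (nat_lit 152) (nat_lit 166061970939) (nat_lit 0) (nat_lit 167018329988) (nat_lit 2) (nat_lit 5) (nat_lit 4) (nat_lit 4) (nat_lit 2) (nat_lit 4) (nat_lit 385) (nat_lit 273) (nat_lit 122)) (XT.lf (nat_lit 0) (nat_lit 233262803278) (nat_lit 152) (nat_lit 148499512635) (nat_lit 0) (nat_lit 189060810227) (nat_lit 2) (nat_lit 5) (nat_lit 4) (nat_lit 4) (nat_lit 2) (nat_lit 4) (nat_lit 386) (nat_lit 273) (nat_lit 121))) (XT.nd (nat_lit 78) (nat_lit 0) (nat_lit 0) (XT.lf (nat_lit 0) (nat_lit 949463769) (nat_lit 684) (nat_lit 1715177237) (nat_lit 684) (nat_lit 1715177237) (nat_lit 93) (nat_lit 3) (nat_lit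 102) (nat_lit 3) (nat_lit 102) (nat_lit 5) (nat_lit 274) (nat_lit 274) (nat_lit 232)) (XT.nd (nat_lit 78) (nat_lit 0) (nat_lit 76) (XT.lf (nat_lit 76) (nat_lit 538411092) (nat_lit 0) (nat_lit 2311862361) (nat_lit 684) (nat_lit 6080898561) (nat_lit 94) (nat_lit 5) (nat_lit 93) (nat_lit 3) (nat_lit 102) (nat_lit 5) (nat_lit 275) (nat_lit 274) (nat_lit 231)) (XT.lf (nat_lit 0) (nat_lit 3864213389) (nat_lit 608) (nat_lit 4332608612) (nat_lit 684) (nat_lit 913855758) (nat_lit 94) (nat_lit 5) (nat_lit 102) (nat_lit 5) (nat_lit 103) (nat_lit 5) (nat_lit 276) (nat_lit 274) (nat_lit 230))))) (XT.nd (nat_lit 156) (nat_lit 0) (nat_lit 76) (XT.nd (nat_lit 78) (nat_lit 0) (nat_lit 0) (XT.lf (nat_lit 0) (nat_lit 4912091034) (nat_lit 608) (nat_lit 140314272) (nat_lit 684) (nat_lit 4247729335) (nat_lit 94) (nat_lit 5) (nat_lit 102) (nat_lit 5) (nat_lit 103) (nat_lit 5) (nat_lit 277) (nat_lit 274) (nat_lit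 229)) (XT.lf (nat_lit 76) (nat_lit 4370067862) (nat_lit 0) (nat_lit 1658467827) (nat_lit 684) (nat_lit 3469851341) (nat_lit 95) (nat_lit 5) (nat_lit 94) (nat_lit 5) (nat_lit 103) (nat_lit 5) (nat_lit 278) (nat_lit 274) (nat_lit 228))) (XT.nd (nat_lit 78) (nat_lit 0) (nat_lit 0) (XT.lf (nat_lit 0) (nat_lit 7183202795) (nat_lit 608) (nat_lit 659193981) (nat_lit 684) (nat_lit 1865160320) (nat_lit 95) (nat_lit 5) (nat_lit 103) (nat_lit 5) (nat_lit 104) (nat_lit 5) (nat_lit 279) (nat_lit 274) (nat_lit 227)) (XT.nd (nat_lit 78) (nat_lit 0) (nat_lit 0) (XT.lf (nat_lit 76) (nat_lit 4105390645) (nat_lit 0) (nat_lit 4334106766) (nat_lit 684) (nat_lit 1485612657) (nat_lit 96) (nat_lit 5) (nat_lit 95) (nat_lit 5) (nat_lit 104) (nat_lit 5) (nat_lit 280) (nat_lit 274) (nat_lit 226)) (XT.lf (nat_lit 76) (nat_lit 9099402736) (nat_lit 0) (nat_lit 624739258) (nat_lit 684) (nat_lit 431235372) (nat_lit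 96) (nat_lit 5) (nat_lit 95) (nat_lit 5) (nat_lit 104) (nat_lit 5) (nat_lit 281) (nat_lit 274) (nat_lit 225))))))) (XT.nd (nat_lit 780) (nat_lit 1444) (nat_lit 0) (XT.nd (nat_lit 390) (nat_lit 912) (nat_lit 0) (XT.nd (nat_lit 156) (nat_lit 608) (nat_lit 0) (XT.nd (nat_lit 78) (nat_lit 0) (nat_lit 0) (XT.lf (nat_lit 0) (nat_lit 725374666) (nat_lit 684) (nat_lit 6415522320) (nat_lit 760) (nat_lit 3252279048) (nat_lit 87) (nat_lit 5) (nat_lit 96) (nat_lit 5) (nat_lit 97) (nat_lit 5) (nat_lit 282) (nat_lit 274) (nat_lit 224)) (XT.lf (nat_lit 0) (nat_lit 1911267261) (nat_lit 684) (nat_lit 1393592337) (nat_lit 760) (nat_lit 7338452341) (nat_lit 87) (nat_lit 5) (nat_lit 96) (nat_lit 5) (nat_lit 97) (nat_lit 5) (nat_lit 283) (nat_lit 274) (nat_lit 223))) (XT.nd (nat_lit 78) (nat_lit 684) (nat_lit 0) (XT.lf (nat_lit 0) (nat_lit 3190494291) (nat_lit 684) (nat_lit 6942797942) (nat_lit 76) (nat_lit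 771053741) (nat_lit 88) (nat_lit 5) (nat_lit 97) (nat_lit 5) (nat_lit 89) (nat_lit 5) (nat_lit 284) (nat_lit 274) (nat_lit 222)) (XT.nd (nat_lit 78) (nat_lit 684) (nat_lit 0) (XT.lf (nat_lit 0) (nat_lit 4572948561) (nat_lit 684) (nat_lit 1632668915) (nat_lit 76) (nat_lit 4970939824) (nat_lit 88) (nat_lit 5) (nat_lit 97) (nat_lit 5) (nat_lit 89) (nat_lit 5) (nat_lit 285) (nat_lit 274) (nat_lit 221)) (XT.lf (nat_lit 0) (nat_lit 4040201941) (nat_lit 684) (nat_lit 2010354665) (nat_lit 760) (nat_lit 5410605682) (nat_lit 79) (nat_lit 5) (nat_lit 88) (nat_lit 5) (nat_lit 89) (nat_lit 5) (nat_lit 286) (nat_lit 274) (nat_lit 220))))) (XT.nd (nat_lit 156) (nat_lit 456) (nat_lit 0) (XT.nd (nat_lit 78) (nat_lit 456) (nat_lit 0) (XT.lf (nat_lit 0) (nat_lit 7631825393) (nat_lit 760) (nat_lit 1776551153) (nat_lit 76) (nat_lit 2350212584) (nat_lit 79) (nat_lit 5) (nat_lit 89) (nat_lit 5) (nat_lit 80)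 (nat_lit 5) (nat_lit 287) (nat_lit 274) (nat_lit 219)) (XT.lf (nat_lit 0) (nat_lit 4220298503) (nat_lit 456) (nat_lit 5136696427) (nat_lit 532) (nat_lit 2710727297) (nat_lit 73) (nat_lit 5) (nat_lit 79) (nat_lit 5) (nat_lit 80) (nat_lit 5) (nat_lit 288) (nat_lit 274) (nat_lit 218))) (XT.nd (nat_lit 78) (nat_lit 456) (nat_lit 0) (XT.lf (nat_lit 0) (nat_lit 10547283717) (nat_lit 456) (nat_lit 618345491) (nat_lit 532) (nat_lit 1226895581) (nat_lit 73) (nat_lit 5) (nat_lit 79) (nat_lit 5) (nat_lit 80) (nat_lit 5) (nat_lit 289) (nat_lit 274) (nat_lit 217)) (XT.nd (nat_lit 78) (nat_lit 0) (nat_lit 0) (XT.lf (nat_lit 0) (nat_lit 425623096) (nat_lit 456) (nat_lit 8230045971) (nat_lit 76) (nat_lit 4072451570) (nat_lit 67) (nat_lit 5) (nat_lit 73) (nat_lit 5) (nat_lit 68) (nat_lit 5) (nat_lit 290) (nat_lit 274) (nat_lit 216)) (XT.lf (nat_lit 0) (nat_lit 2130587421) (nat_lit 456) (nat_lit 1919199299)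 (nat_lit 76) (nat_lit 9029214500) (nat_lit 67) (nat_lit 5) (nat_lit 73) (nat_lit 5) (nat_lit 68) (nat_lit 5) (nat_lit 291) (nat_lit 274) (nat_lit 215)))))) (XT.nd (nat_lit 390) (nat_lit 608) (nat_lit 0) (XT.nd (nat_lit 156) (nat_lit 532) (nat_lit 0) (XT.nd (nat_lit 78) (nat_lit 0) (nat_lit 0) (XT.lf (nat_lit 0) (nat_lit 3980345517) (nat_lit 380) (nat_lit 8627452237) (nat_lit 76) (nat_lit 836710962) (nat_lit 63) (nat_lit 5) (nat_lit 68) (nat_lit 5) (nat_lit 64) (nat_lit 5) (nat_lit 292) (nat_lit 274) (nat_lit 214)) (XT.lf (nat_lit 0) (nat_lit 5993541397) (nat_lit 380) (nat_lit 1968387062) (nat_lit 76) (nat_lit 5862872926) (nat_lit 63) (nat_lit 5) (nat_lit 68) (nat_lit 5) (nat_lit 64) (nat_lit 5) (nat_lit 293) (nat_lit 274) (nat_lit 213))) (XT.nd (nat_lit 78) (nat_lit 228) (nat_lit 0) (XT.lf (nat_lit 0) (nat_lit 5158691088) (nat_lit 304) (nat_lit 3002128117) (nat_lit 380) (nat_lit 6060672941)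 (nat_lit 59) (nat_lit 5) (nat_lit 63) (nat_lit 5) (nat_lit 64) (nat_lit 5) (nat_lit 294) (nat_lit 274) (nat_lit 212)) (XT.nd (nat_lit 78) (nat_lit 228) (nat_lit 0) (XT.lf (nat_lit 0) (nat_lit 10478438703) (nat_lit 380) (nat_lit 1991753847) (nat_lit 76) (nat_lit 2165777974) (nat_lit 59) (nat_lit 5) (nat_lit 64) (nat_lit 5) (nat_lit 60) (nat_lit 5) (nat_lit 295) (nat_lit 274) (nat_lit 211)) (XT.lf (nat_lit 0) (nat_lit 5531254503) (nat_lit 228) (nat_lit 7491171752) (nat_lit 304) (nat_lit 2043271705) (nat_lit 56) (nat_lit 5) (nat_lit 59) (nat_lit 5) (nat_lit 60) (nat_lit 5) (nat_lit 296) (nat_lit 274) (nat_lit 210))))) (XT.nd (nat_lit 156) (nat_lit 228) (nat_lit 0) (XT.nd (nat_lit 78) (nat_lit 304) (nat_lit 0) (XT.lf (nat_lit 0) (nat_lit 180541752) (nat_lit 304) (nat_lit 2048775347) (nat_lit 76) (nat_lit 13287026827) (nat_lit 55) (nat_lit 5) (nat_lit 59) (nat_lit 5) (nat_lit 56) (nat_lit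 5) (nat_lit 297) (nat_lit 274) (nat_lit 209)) (XT.lf (nat_lit 0) (nat_lit 2569449953) (nat_lit 380) (nat_lit 10098486861) (nat_lit 76) (nat_lit 3313824747) (nat_lit 51) (nat_lit 5) (nat_lit 56) (nat_lit 5) (nat_lit 52) (nat_lit 5) (nat_lit 298) (nat_lit 274) (nat_lit 208))) (XT.nd (nat_lit 78) (nat_lit 228) (nat_lit 0) (XT.lf (nat_lit 0) (nat_lit 5126617638) (nat_lit 380) (nat_lit 2251806664) (nat_lit 76) (nat_lit 9089625790) (nat_lit 51) (nat_lit 5) (nat_lit 56) (nat_lit 5) (nat_lit 52) (nat_lit 5) (nat_lit 299) (nat_lit 274) (nat_lit 207)) (XT.nd (nat_lit 78) (nat_lit 0) (nat_lit 0) (XT.lf (nat_lit 0) (nat_lit 6156607374) (nat_lit 228) (nat_lit 1729255451) (nat_lit 304) (nat_lit 9089118046) (nat_lit 48) (nat_lit 5) (nat_lit 51) (nat_lit 5) (nat_lit 52) (nat_lit 5) (nat_lit 300) (nat_lit 274) (nat_lit 206)) (XT.lf (nat_lit 0) (nat_lit 10866064744) (nat_lit 304) (nat_lit 2536180456)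 (nat_lit 76) (nat_lit 4100900201) (nat_lit 48) (nat_lit 5) (nat_lit 52) (nat_lit 5) (nat_lit 49) (nat_lit 5) (nat_lit 301) (nat_lit 274) (nat_lit 205))))))))
noncomputable def xc149 : XT := (XT.nd (nat_lit 1560) (nat_lit 912) (nat_lit 0) (XT.nd (nat_lit 780) (nat_lit 684) (nat_lit 0) (XT.nd (nat_lit 390) (nat_lit 456) (nat_lit 0) (XT.nd (nat_lit 156) (nat_lit 532) (nat_lit 0) (XT.nd (nat_lit 78) (nat_lit 0) (nat_lit 0) (XT.lf (nat_lit 0) (nat_lit 6306760143) (nat_lit 228) (nat_lit 7794972274) (nat_lit 304) (nat_lit 3950698129) (nat_lit 45) (nat_lit 5) (nat_lit 48) (nat_lit 5) (nat_lit 49) (nat_lit 5) (nat_lit 302) (nat_lit 274) (nat_lit 204)) (XT.lf (nat_lit 0) (nat_lit 15653462255) (nat_lit 228) (nat_lit 1868870410) (nat_lit 304) (nat_lit 1105723324) (nat_lit 45) (nat_lit 5) (nat_lit 48) (nat_lit 5) (nat_lit 49) (nat_lit 5) (nat_lit 303) (nat_lit 274) (nat_lit 203))) (XT.nd (nat_lit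 78) (nat_lit 228) (nat_lit 0) (XT.lf (nat_lit 0) (nat_lit 1971738387) (nat_lit 304) (nat_lit 12912831644) (nat_lit 76) (nat_lit 4338931387) (nat_lit 41) (nat_lit 5) (nat_lit 45) (nat_lit 5) (nat_lit 42) (nat_lit 5) (nat_lit 304) (nat_lit 274) (nat_lit 202)) (XT.nd (nat_lit 78) (nat_lit 228) (nat_lit 0) (XT.lf (nat_lit 0) (nat_lit 5228965539) (nat_lit 304) (nat_lit 3758605609) (nat_lit 76) (nat_lit 10857117982) (nat_lit 41) (nat_lit 5) (nat_lit 45) (nat_lit 5) (nat_lit 42) (nat_lit 5) (nat_lit 305) (nat_lit 274) (nat_lit 201)) (XT.lf (nat_lit 0) (nat_lit 6021009964) (nat_lit 228) (nat_lit 2704156224) (nat_lit 304) (nat_lit 11767991991) (nat_lit 38) (nat_lit 5) (nat_lit 41) (nat_lit 5) (nat_lit 42) (nat_lit 5) (nat_lit 306) (nat_lit 274) (nat_lit 200))))) (XT.nd (nat_lit 156) (nat_lit 304) (nat_lit 0) (XT.nd (nat_lit 78) (nat_lit 152) (nat_lit 0) (XT.lf (nat_lit 0) (nat_lit 12504123895)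 (nat_lit 304) (nat_lit 4838015221) (nat_lit 76) (nat_lit 3826540462) (nat_lit 38) (nat_lit 5) (nat_lit 42) (nat_lit 5) (nat_lit 39) (nat_lit 5) (nat_lit 307) (nat_lit 274) (nat_lit 199)) (XT.lf (nat_lit 0) (nat_lit 5381533830) (nat_lit 152) (nat_lit 11202144403) (nat_lit 228) (nat_lit 5288741373) (nat_lit 36) (nat_lit 5) (nat_lit 38) (nat_lit 5) (nat_lit 39) (nat_lit 5) (nat_lit 308) (nat_lit 274) (nat_lit 198))) (XT.nd (nat_lit 78) (nat_lit 304) (nat_lit 0) (XT.lf (nat_lit 0) (nat_lit 16256212813) (nat_lit 152) (nat_lit 4676652675) (nat_lit 228) (nat_lit 1675222195) (nat_lit 36) (nat_lit 5) (nat_lit 38) (nat_lit 5) (nat_lit 39) (nat_lit 5) (nat_lit 309) (nat_lit 274) (nat_lit 197)) (XT.nd (nat_lit 78) (nat_lit 0) (nat_lit 0) (XT.lf (nat_lit 0) (nat_lit 2139230328) (nat_lit 304) (nat_lit 19033882550) (nat_lit 76) (nat_lit 2201389837) (nat_lit 32) (nat_lit 5) (nat_lit 36) (nat_lit 5)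 (nat_lit 33) (nat_lit 5) (nat_lit 310) (nat_lit 274) (nat_lit 196)) (XT.lf (nat_lit 0) (nat_lit 6258607370) (nat_lit 304) (nat_lit 8515010435) (nat_lit 76) (nat_lit 9395743108) (nat_lit 32) (nat_lit 5) (nat_lit 36) (nat_lit 5) (nat_lit 33) (nat_lit 5) (nat_lit 311) (nat_lit 274) (nat_lit 195)))))) (XT.nd (nat_lit 390) (nat_lit 304) (nat_lit 0) (XT.nd (nat_lit 156) (nat_lit 228) (nat_lit 0) (XT.nd (nat_lit 78) (nat_lit 0) (nat_lit 0) (XT.lf (nat_lit 0) (nat_lit 2590310766) (nat_lit 152) (nat_lit 8019321038) (nat_lit 228) (nat_lit 14393065877) (nat_lit 30) (nat_lit 5) (nat_lit 32) (nat_lit 5) (nat_lit 33) (nat_lit 5) (nat_lit 312) (nat_lit 274) (nat_lit 194)) (XT.lf (nat_lit 0) (nat_lit 14524480621) (nat_lit 152) (nat_lit 783528114) (nat_lit 228) (nat_lit 10563221141) (nat_lit 30) (nat_lit 5) (nat_lit 32) (nat_lit 5) (nat_lit 33) (nat_lit 5) (nat_lit 313) (nat_lit 274) (nat_lit 193)))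 (XT.nd (nat_lit 78) (nat_lit 76) (nat_lit 0) (XT.lf (nat_lit 0) (nat_lit 148971809) (nat_lit 152) (nat_lit 20187212919) (nat_lit 228) (nat_lit 6442277707) (nat_lit 28) (nat_lit 5) (nat_lit 30) (nat_lit 5) (nat_lit 31) (nat_lit 5) (nat_lit 314) (nat_lit 274) (nat_lit 192)) (XT.nd (nat_lit 78) (nat_lit 76) (nat_lit 0) (XT.lf (nat_lit 0) (nat_lit 12578911057) (nat_lit 152) (nat_lit 13228153748) (nat_lit 228) (nat_lit 1914443973) (nat_lit 28) (nat_lit 5) (nat_lit 30) (nat_lit 5) (nat_lit 31) (nat_lit 5) (nat_lit 315) (nat_lit 274) (nat_lit 191)) (XT.lf (nat_lit 0) (nat_lit 2735802395) (nat_lit 228) (nat_lit 3146366132) (nat_lit 76) (nat_lit 22827991825) (nat_lit 27) (nat_lit 5) (nat_lit 30) (nat_lit 5) (nat_lit 28) (nat_lit 5) (nat_lit 316) (nat_lit 274) (nat_lit 190))))) (XT.nd (nat_lit 156) (nat_lit 152) (nat_lit 0) (XT.nd (nat_lit 78) (nat_lit 0) (nat_lit 0) (XT.lf (nat_lit 0) (nat_lit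 7724824322) (nat_lit 228) (nat_lit 20061840997) (nat_lit 76) (nat_lit 1951494530) (nat_lit 25) (nat_lit 5) (nat_lit 28) (nat_lit 5) (nat_lit 26) (nat_lit 5) (nat_lit 317) (nat_lit 274) (nat_lit 189)) (XT.lf (nat_lit 0) (nat_lit 13101598928) (nat_lit 228) (nat_lit 7682702348) (nat_lit 76) (nat_lit 10026356884) (nat_lit 25) (nat_lit 5) (nat_lit 28) (nat_lit 5) (nat_lit 26) (nat_lit 5) (nat_lit 318) (nat_lit 274) (nat_lit 188))) (XT.nd (nat_lit 78) (nat_lit 0) (nat_lit 0) (XT.lf (nat_lit 0) (nat_lit 5471587162) (nat_lit 152) (nat_lit 13349350797) (nat_lit 228) (nat_lit 13112170400) (nat_lit 23) (nat_lit 5) (nat_lit 25) (nat_lit 5) (nat_lit 26) (nat_lit 5) (nat_lit 319) (nat_lit 274) (nat_lit 187)) (XT.nd (nat_lit 78) (nat_lit 0) (nat_lit 0) (XT.lf (nat_lit 0) (nat_lit 19531691534) (nat_lit 152) (nat_lit 5413227972) (nat_lit 228) (nat_lit 8160840409) (nat_lit 23) (nat_lit 5) (nat_lit 25)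 (nat_lit 5) (nat_lit 26) (nat_lit 5) (nat_lit 320) (nat_lit 274) (nat_lit 186)) (XT.lf (nat_lit 0) (nat_lit 31409687713) (nat_lit 228) (nat_lit 106016003) (nat_lit 76) (nat_lit 2819622978) (nat_lit 23) (nat_lit 5) (nat_lit 26) (nat_lit 5) (nat_lit 24) (nat_lit 4) (nat_lit 321) (nat_lit 274) (nat_lit 185))))))) (XT.nd (nat_lit 780) (nat_lit 304) (nat_lit 0) (XT.nd (nat_lit 390) (nat_lit 304) (nat_lit 0) (XT.nd (nat_lit 156) (nat_lit 152) (nat_lit 0) (XT.nd (nat_lit 78) (nat_lit 0) (nat_lit 0) (XT.lf (nat_lit 0) (nat_lit 2796914531) (nat_lit 152) (nat_lit 21266404669) (nat_lit 76) (nat_lit 11545661722) (nat_lit 21) (nat_lit 5) (nat_lit 23) (nat_lit 5) (nat_lit 22) (nat_lit 5) (nat_lit 322) (nat_lit 274) (nat_lit 184)) (XT.lf (nat_lit 0) (nat_lit 8698680682) (nat_lit 152) (nat_lit 7494337812) (nat_lit 76) (nat_lit 20751341408) (nat_lit 21) (nat_lit 5) (nat_lit 23) (nat_lit 5) (nat_lit 22)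 (nat_lit 5) (nat_lit 323) (nat_lit 274) (nat_lit 183))) (XT.nd (nat_lit 78) (nat_lit 0) (nat_lit 0) (XT.lf (nat_lit 0) (nat_lit 7179553652) (nat_lit 152) (nat_lit 7818151346) (nat_lit 228) (nat_lit 23343704232) (nat_lit 19) (nat_lit 5) (nat_lit 21) (nat_lit 5) (nat_lit 22) (nat_lit 5) (nat_lit 324) (nat_lit 274) (nat_lit 182)) (XT.nd (nat_lit 78) (nat_lit 0) (nat_lit 0) (XT.lf (nat_lit 0) (nat_lit 21746102995) (nat_lit 228) (nat_lit 16988642870) (nat_lit 76) (nat_lit 1066853458) (nat_lit 19) (nat_lit 5) (nat_lit 22) (nat_lit 5) (nat_lit 20) (nat_lit 4) (nat_lit 325) (nat_lit 274) (nat_lit 181)) (XT.lf (nat_lit 0) (nat_lit 28950746274) (nat_lit 228) (nat_lit 2250834724) (nat_lit 76) (nat_lit 10127285625) (nat_lit 19) (nat_lit 5) (nat_lit 22) (nat_lit 5) (nat_lit 20) (nat_lit 4) (nat_lit 326) (nat_lit 274) (nat_lit 180))))) (XT.nd (nat_lit 156) (nat_lit 152) (nat_lit 0) (XT.nd (nat_lit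 78) (nat_lit 76) (nat_lit 0) (XT.lf (nat_lit 0) (nat_lit 13645462136) (nat_lit 76) (nat_lit 23074307264) (nat_lit 152) (nat_lit 6202529050) (nat_lit 18) (nat_lit 5) (nat_lit 19) (nat_lit 5) (nat_lit 20) (nat_lit 4) (nat_lit 327) (nat_lit 274) (nat_lit 179)) (XT.lf (nat_lit 0) (nat_lit 302709223) (nat_lit 152) (nat_lit 14199001463) (nat_lit 76) (nat_lit 30091984512) (nat_lit 17) (nat_lit 5) (nat_lit 19) (nat_lit 5) (nat_lit 18) (nat_lit 5) (nat_lit 328) (nat_lit 274) (nat_lit 178))) (XT.nd (nat_lit 78) (nat_lit 0) (nat_lit 0) (XT.lf (nat_lit 0) (nat_lit 1566714657) (nat_lit 152) (nat_lit 5374075845) (nat_lit 228) (nat_lit 39401993284) (nat_lit 15) (nat_lit 5) (nat_lit 17) (nat_lit 5) (nat_lit 18) (nat_lit 5) (nat_lit 329) (nat_lit 274) (nat_lit 177)) (XT.nd (nat_lit 78) (nat_lit 0) (nat_lit 0) (XT.lf (nat_lit 0) (nat_lit 14212565618) (nat_lit 228) (nat_lit 29637867835) (nat_lit 76) (nat_lit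 4313810893) (nat_lit 15) (nat_lit 5) (nat_lit 18) (nat_lit 5) (nat_lit 16) (nat_lit 4) (nat_lit 330) (nat_lit 274) (nat_lit 176)) (XT.lf (nat_lit 0) (nat_lit 21928078386) (nat_lit 228) (nat_lit 13844729581) (nat_lit 76) (nat_lit 14299969217) (nat_lit 15) (nat_lit 5) (nat_lit 18) (nat_lit 5) (nat_lit 16) (nat_lit 4) (nat_lit 331) (nat_lit 274) (nat_lit 175)))))) (XT.nd (nat_lit 390) (nat_lit 76) (nat_lit 0) (XT.nd (nat_lit 156) (nat_lit 152) (nat_lit 0) (XT.nd (nat_lit 78) (nat_lit 0) (nat_lit 0) (XT.lf (nat_lit 0) (nat_lit 2814948663) (nat_lit 76) (nat_lit 27250795264) (nat_lit 152) (nat_lit 22009180258) (nat_lit 14) (nat_lit 5) (nat_lit 15) (nat_lit 5) (nat_lit 16) (nat_lit 4) (nat_lit 332) (nat_lit 274) (nat_lit 174)) (XT.lf (nat_lit 0) (nat_lit 20775268821) (nat_lit 76) (nat_lit 18062076630) (nat_lit 152) (nat_lit 15328486522) (nat_lit 14) (nat_lit 5) (nat_lit 15) (nat_lit 5) (nat_lit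 16) (nat_lit 4) (nat_lit 333) (nat_lit 274) (nat_lit 173))) (XT.nd (nat_lit 78) (nat_lit 152) (nat_lit 0) (XT.lf (nat_lit 0) (nat_lit 39621224275) (nat_lit 76) (nat_lit 8419241359) (nat_lit 152) (nat_lit 8321178372) (nat_lit 14) (nat_lit 5) (nat_lit 15) (nat_lit 5) (nat_lit 16) (nat_lit 4) (nat_lit 334) (nat_lit 274) (nat_lit 172)) (XT.nd (nat_lit 78) (nat_lit 76) (nat_lit 0) (XT.lf (nat_lit 0) (nat_lit 726808118) (nat_lit 76) (nat_lit 57008108279) (nat_lit 76) (nat_lit 930777023) (nat_lit 13) (nat_lit 4) (nat_lit 14) (nat_lit 5) (nat_lit 14) (nat_lit 4) (nat_lit 335) (nat_lit 274) (nat_lit 171)) (XT.lf (nat_lit 0) (nat_lit 7029964492) (nat_lit 152) (nat_lit 41683561682) (nat_lit 76) (nat_lit 12345123255) (nat_lit 12) (nat_lit 5) (nat_lit 14) (nat_lit 5) (nat_lit 13) (nat_lit 4) (nat_lit 336) (nat_lit 274) (nat_lit 170))))) (XT.nd (nat_lit 234) (nat_lit 0) (nat_lit 0) (XT.nd (nat_lit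 78) (nat_lit 76) (nat_lit 0) (XT.lf (nat_lit 0) (nat_lit 15351005970) (nat_lit 152) (nat_lit 24642243449) (nat_lit 76) (nat_lit 23577568491) (nat_lit 12) (nat_lit 5) (nat_lit 14) (nat_lit 5) (nat_lit 13) (nat_lit 4) (nat_lit 337) (nat_lit 274) (nat_lit 169)) (XT.nd (nat_lit 78) (nat_lit 76) (nat_lit 0) (XT.lf (nat_lit 0) (nat_lit 24081950090) (nat_lit 152) (nat_lit 6759823998) (nat_lit 76) (nat_lit 35367132729) (nat_lit 12) (nat_lit 5) (nat_lit 14) (nat_lit 5) (nat_lit 13) (nat_lit 4) (nat_lit 338) (nat_lit 274) (nat_lit 168)) (XT.lf (nat_lit 0) (nat_lit 12403255494) (nat_lit 76) (nat_lit 21033978899) (nat_lit 152) (nat_lit 35532280443) (nat_lit 11) (nat_lit 5) (nat_lit 12) (nat_lit 5) (nat_lit 13) (nat_lit 4) (nat_lit 339) (nat_lit 274) (nat_lit 167)))) (XT.nd (nat_lit 78) (nat_lit 0) (nat_lit 0) (XT.lf (nat_lit 0) (nat_lit 32748900650) (nat_lit 76) (nat_lit 10620125029) (nat_lit 152)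 (nat_lit 28493694551) (nat_lit 11) (nat_lit 5) (nat_lit 12) (nat_lit 5) (nat_lit 13) (nat_lit 4) (nat_lit 340) (nat_lit 274) (nat_lit 166)) (XT.nd (nat_lit 78) (nat_lit 0) (nat_lit 0) (XT.lf (nat_lit 0) (nat_lit 53796783204) (nat_lit 152) (nat_lit 20803661436) (nat_lit 0) (nat_lit 300176334) (nat_lit 11) (nat_lit 5) (nat_lit 13) (nat_lit 4) (nat_lit 11) (nat_lit 4) (nat_lit 341) (nat_lit 274) (nat_lit 165)) (XT.lf (nat_lit 0) (nat_lit 64914760133) (nat_lit 152) (nat_lit 1761614464) (nat_lit 0) (nat_lit 11405604310) (nat_lit 11) (nat_lit 5) (nat_lit 13) (nat_lit 4) (nat_lit 11) (nat_lit 4) (nat_lit 342) (nat_lit 274) (nat_lit 164))))))))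
noncomputable def xc150 : XT := (XT.nd (nat_lit 1560) (nat_lit 228) (nat_lit 0) (XT.nd (nat_lit 780) (nat_lit 152) (nat_lit 0) (XT.nd (nat_lit 390) (nat_lit 76) (nat_lit 0) (XT.nd (nat_lit 156) (nat_lit 76) (nat_lit 0) (XT.nd (nat_lit 78) (nat_lit 76) (nat_lit 0) (XT.lf (nat_lit 0) (nat_lit 18826019654) (nat_lit 76) (nat_lit 58051525195) (nat_lit 76) (nat_lit 4530417991) (nat_lit 10) (nat_lit 4) (nat_lit 11) (nat_lit 5) (nat_lit 11) (nat_lit 4) (nat_lit 343) (nat_lit 274) (nat_lit 163)) (XT.lf (nat_lit 0) (nat_lit 4418292045) (nat_lit 152) (nat_lit 44474990780) (nat_lit 76) (nat_lit 36002157613) (nat_lit 9) (nat_lit 5) (nat_lit 11) (nat_lit 5) (nat_lit 10) (nat_lit 4) (nat_lit 344) (nat_lit 274) (nat_lit 162))) (XT.nd (nat_lit 78) (nat_lit 76) (nat_lit 0) (XT.lf (nat_lit 0) (nat_lit 13657421844) (nat_lit 152) (nat_lit 25545614948) (nat_lit 76) (nat_lit 49350782932) (nat_lit 9) (nat_lit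 5) (nat_lit 11) (nat_lit 5) (nat_lit 10) (nat_lit 4) (nat_lit 345) (nat_lit 274) (nat_lit 161)) (XT.nd (nat_lit 78) (nat_lit 76) (nat_lit 0) (XT.lf (nat_lit 0) (nat_lit 23353971003) (nat_lit 152) (nat_lit 5678013227) (nat_lit 76) (nat_lit 63363363524) (nat_lit 9) (nat_lit 5) (nat_lit 11) (nat_lit 5) (nat_lit 10) (nat_lit 4) (nat_lit 346) (nat_lit 274) (nat_lit 160)) (XT.lf (nat_lit 0) (nat_lit 15676876137) (nat_lit 76) (nat_lit 18098910376) (nat_lit 152) (nat_lit 62641146508) (nat_lit 8) (nat_lit 5) (nat_lit 9) (nat_lit 5) (nat_lit 10) (nat_lit 4) (nat_lit 347) (nat_lit 274) (nat_lit 159))))) (XT.nd (nat_lit 156) (nat_lit 76) (nat_lit 0) (XT.nd (nat_lit 78) (nat_lit 0) (nat_lit 0) (XT.lf (nat_lit 0) (nat_lit 38288914004) (nat_lit 76) (nat_lit 6521702796) (nat_lit 152) (nat_lit 55824387202) (nat_lit 8) (nat_lit 5) (nat_lit 9) (nat_lit 5) (nat_lit 10) (nat_lit 4) (nat_lit 348) (nat_lit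 274) (nat_lit 158)) (XT.lf (nat_lit 0) (nat_lit 56481070779) (nat_lit 152) (nat_lit 43127901336) (nat_lit 0) (nat_lit 5450814832) (nat_lit 8) (nat_lit 5) (nat_lit 10) (nat_lit 4) (nat_lit 8) (nat_lit 4) (nat_lit 349) (nat_lit 274) (nat_lit 157))) (XT.nd (nat_lit 78) (nat_lit 76) (nat_lit 0) (XT.lf (nat_lit 0) (nat_lit 68838069137) (nat_lit 152) (nat_lit 23062867196) (nat_lit 0) (nat_lit 17799724024) (nat_lit 8) (nat_lit 5) (nat_lit 10) (nat_lit 4) (nat_lit 8) (nat_lit 4) (nat_lit 350) (nat_lit 274) (nat_lit 156)) (XT.nd (nat_lit 78) (nat_lit 76) (nat_lit 0) (XT.lf (nat_lit 0) (nat_lit 81809211242) (nat_lit 152) (nat_lit 2001391633) (nat_lit 0) (nat_lit 30763162161) (nat_lit 8) (nat_lit 5) (nat_lit 10) (nat_lit 4) (nat_lit 8) (nat_lit 4) (nat_lit 351) (nat_lit 274) (nat_lit 155)) (XT.lf (nat_lit 0) (nat_lit 20771489096) (nat_lit 76) (nat_lit 74978192826) (nat_lit 76) (nat_lit 23924806633)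 (nat_lit 7) (nat_lit 4) (nat_lit 8) (nat_lit 5) (nat_lit 8) (nat_lit 4) (nat_lit 352) (nat_lit 274) (nat_lit 154)))))) (XT.nd (nat_lit 390) (nat_lit 0) (nat_lit 0) (XT.nd (nat_lit 156) (nat_lit 152) (nat_lit 0) (XT.nd (nat_lit 78) (nat_lit 0) (nat_lit 0) (XT.lf (nat_lit 0) (nat_lit 44746116289) (nat_lit 76) (nat_lit 65671493145) (nat_lit 76) (nat_lit 14611119226) (nat_lit 7) (nat_lit 4) (nat_lit 8) (nat_lit 5) (nat_lit 8) (nat_lit 4) (nat_lit 353) (nat_lit 274) (nat_lit 153)) (XT.lf (nat_lit 0) (nat_lit 69913397347) (nat_lit 76) (nat_lit 55902239560) (nat_lit 76) (nat_lit 4835210664) (nat_lit 7) (nat_lit 4) (nat_lit 8) (nat_lit 5) (nat_lit 8) (nat_lit 4) (nat_lit 354) (nat_lit 274) (nat_lit 152))) (XT.nd (nat_lit 78) (nat_lit 76) (nat_lit 0) (XT.lf (nat_lit 0) (nat_lit 5252522898) (nat_lit 152) (nat_lit 40305695027) (nat_lit 76) (nat_lit 90991777450) (nat_lit 6) (nat_lit 5) (nat_lit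 8) (nat_lit 5) (nat_lit 7) (nat_lit 4) (nat_lit 355) (nat_lit 274) (nat_lit 151)) (XT.nd (nat_lit 78) (nat_lit 76) (nat_lit 0) (XT.lf (nat_lit 0) (nat_lit 15679107656) (nat_lit 152) (nat_lit 18937232534) (nat_lit 76) (nat_lit 108123950836) (nat_lit 6) (nat_lit 5) (nat_lit 8) (nat_lit 5) (nat_lit 7) (nat_lit 4) (nat_lit 356) (nat_lit 274) (nat_lit 150)) (XT.lf (nat_lit 0) (nat_lit 3609843264) (nat_lit 76) (nat_lit 23070642254) (nat_lit 152) (nat_lit 122556944374) (nat_lit 5) (nat_lit 5) (nat_lit 6) (nat_lit 5) (nat_lit 7) (nat_lit 4) (nat_lit 357) (nat_lit 274) (nat_lit 149))))) (XT.nd (nat_lit 156) (nat_lit 0) (nat_lit 0) (XT.nd (nat_lit 78) (nat_lit 0) (nat_lit 0) (XT.lf (nat_lit 0) (nat_lit 27936469704) (nat_lit 76) (nat_lit 10613333622) (nat_lit 152) (nat_lit 117493730372) (nat_lit 5) (nat_lit 5) (nat_lit 6) (nat_lit 5) (nat_lit 7) (nat_lit 4) (nat_lit 358) (nat_lit 274) (nat_lit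 148)) (XT.lf (nat_lit 0) (nat_lit 51048360421) (nat_lit 152) (nat_lit 109754140815) (nat_lit 0) (nat_lit 2385654264) (nat_lit 5) (nat_lit 5) (nat_lit 7) (nat_lit 4) (nat_lit 5) (nat_lit 4) (nat_lit 359) (nat_lit 274) (nat_lit 147))) (XT.nd (nat_lit 78) (nat_lit 0) (nat_lit 0) (XT.lf (nat_lit 0) (nat_lit 64343224068) (nat_lit 152) (nat_lit 90662428452) (nat_lit 0) (nat_lit 15675788343) (nat_lit 5) (nat_lit 5) (nat_lit 7) (nat_lit 4) (nat_lit 5) (nat_lit 4) (nat_lit 360) (nat_lit 274) (nat_lit 146)) (XT.nd (nat_lit 78) (nat_lit 0) (nat_lit 0) (XT.lf (nat_lit 0) (nat_lit 78300344823) (nat_lit 152) (nat_lit 70620766565) (nat_lit 0) (nat_lit 29628404748) (nat_lit 5) (nat_lit 5) (nat_lit 7) (nat_lit 4) (nat_lit 5) (nat_lit 4) (nat_lit 361) (nat_lit 274) (nat_lit 145)) (XT.lf (nat_lit 0) (nat_lit 92952953926) (nat_lit 152) (nat_lit 49581436911) (nat_lit 0) (nat_lit 44276723993) (nat_lit 5)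 (nat_lit 5) (nat_lit 7) (nat_lit 4) (nat_lit 5) (nat_lit 4) (nat_lit 362) (nat_lit 274) (nat_lit 144))))))) (XT.nd (nat_lit 780) (nat_lit 152) (nat_lit 0) (XT.nd (nat_lit 390) (nat_lit 0) (nat_lit 0) (XT.nd (nat_lit 156) (nat_lit 76) (nat_lit 0) (XT.nd (nat_lit 78) (nat_lit 0) (nat_lit 0) (XT.lf (nat_lit 0) (nat_lit 108335938541) (nat_lit 152) (nat_lit 27494345849) (nat_lit 0) (nat_lit 59655623030) (nat_lit 5) (nat_lit 5) (nat_lit 7) (nat_lit 4) (nat_lit 5) (nat_lit 4) (nat_lit 363) (nat_lit 274) (nat_lit 143)) (XT.lf (nat_lit 0) (nat_lit 124485924824) (nat_lit 152) (nat_lit 4306905067) (nat_lit 0) (nat_lit 75801718285) (nat_lit 5) (nat_lit 5) (nat_lit 7) (nat_lit 4) (nat_lit 5) (nat_lit 4) (nat_lit 364) (nat_lit 274) (nat_lit 142))) (XT.nd (nat_lit 78) (nat_lit 0) (nat_lit 0) (XT.lf (nat_lit 0) (nat_lit 20698577368) (nat_lit 76) (nat_lit 121065950552) (nat_lit 76) (nat_lit 72378038273)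 (nat_lit 4) (nat_lit 4) (nat_lit 5) (nat_lit 5) (nat_lit 5) (nat_lit 4) (nat_lit 365) (nat_lit 274) (nat_lit 141)) (XT.nd (nat_lit 78) (nat_lit 0) (nat_lit 0) (XT.lf (nat_lit 0) (nat_lit 47100107336) (nat_lit 76) (nat_lit 112877886864) (nat_lit 76) (nat_lit 64186445309) (nat_lit 4) (nat_lit 4) (nat_lit 5) (nat_lit 5) (nat_lit 5) (nat_lit 4) (nat_lit 366) (nat_lit 274) (nat_lit 140)) (XT.lf (nat_lit 0) (nat_lit 74818139891) (nat_lit 76) (nat_lit 104282082959) (nat_lit 76) (nat_lit 55587280188) (nat_lit 4) (nat_lit 4) (nat_lit 5) (nat_lit 5) (nat_lit 5) (nat_lit 4) (nat_lit 367) (nat_lit 274) (nat_lit 139))))) (XT.nd (nat_lit 156) (nat_lit 0) (nat_lit 0) (XT.nd (nat_lit 78) (nat_lit 0) (nat_lit 0) (XT.lf (nat_lit 0) (nat_lit 103918670346) (nat_lit 76) (nat_lit 95258072637) (nat_lit 76) (nat_lit 46560068708) (nat_lit 4) (nat_lit 4) (nat_lit 5) (nat_lit 5) (nat_lit 5) (nat_lit 4) (nat_lit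 368) (nat_lit 274) (nat_lit 138)) (XT.lf (nat_lit 0) (nat_lit 134470985681) (nat_lit 76) (nat_lit 85784370158) (nat_lit 76) (nat_lit 37083317507) (nat_lit 4) (nat_lit 4) (nat_lit 5) (nat_lit 5) (nat_lit 5) (nat_lit 4) (nat_lit 369) (nat_lit 274) (nat_lit 137))) (XT.nd (nat_lit 78) (nat_lit 0) (nat_lit 0) (XT.lf (nat_lit 0) (nat_lit 166547829502) (nat_lit 76) (nat_lit 75838419089) (nat_lit 76) (nat_lit 27134462894) (nat_lit 4) (nat_lit 4) (nat_lit 5) (nat_lit 5) (nat_lit 5) (nat_lit 4) (nat_lit 370) (nat_lit 274) (nat_lit 136)) (XT.nd (nat_lit 78) (nat_lit 0) (nat_lit 0) (XT.lf (nat_lit 0) (nat_lit 200225575248) (nat_lit 76) (nat_lit 65396538593) (nat_lit 76) (nat_lit 16689817118) (nat_lit 4) (nat_lit 4) (nat_lit 5) (nat_lit 5) (nat_lit 5) (nat_lit 4) (nat_lit 371) (nat_lit 274) (nat_lit 135)) (XT.lf (nat_lit 0) (nat_lit 235584408027) (nat_lit 76) (nat_lit 54433867051) (nat_lit 76) (nat_lit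 5724511975) (nat_lit 4) (nat_lit 4) (nat_lit 5) (nat_lit 5) (nat_lit 5) (nat_lit 4) (nat_lit 372) (nat_lit 274) (nat_lit 134)))))) (XT.nd (nat_lit 390) (nat_lit 0) (nat_lit 0) (XT.nd (nat_lit 156) (nat_lit 76) (nat_lit 0) (XT.nd (nat_lit 78) (nat_lit 0) (nat_lit 0) (XT.lf (nat_lit 0) (nat_lit 5602322326) (nat_lit 152) (nat_lit 37227102497) (nat_lit 76) (nat_lit 267011315170) (nat_lit 3) (nat_lit 5) (nat_lit 5) (nat_lit 5) (nat_lit 4) (nat_lit 4) (nat_lit 373) (nat_lit 274) (nat_lit 133)) (XT.lf (nat_lit 0) (nat_lit 17301736179) (nat_lit 152) (nat_lit 13245692851) (nat_lit 76) (nat_lit 294091539054) (nat_lit 3) (nat_lit 5) (nat_lit 5) (nat_lit 5) (nat_lit 4) (nat_lit 4) (nat_lit 374) (nat_lit 274) (nat_lit 132))) (XT.nd (nat_lit 78) (nat_lit 0) (nat_lit 0) (XT.lf (nat_lit 0) (nat_lit 12326860704) (nat_lit 76) (nat_lit 17450401601) (nat_lit 152) (nat_lit 310390288840) (nat_lit 2) (nat_lit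 5) (nat_lit 3) (nat_lit 5) (nat_lit 4) (nat_lit 4) (nat_lit 375) (nat_lit 274) (nat_lit 131)) (XT.nd (nat_lit 78) (nat_lit 0) (nat_lit 0) (XT.lf (nat_lit 0) (nat_lit 39635479115) (nat_lit 76) (nat_lit 3464117376) (nat_lit 152) (nat_lit 313361815894) (nat_lit 2) (nat_lit 5) (nat_lit 3) (nat_lit 5) (nat_lit 4) (nat_lit 4) (nat_lit 376) (nat_lit 274) (nat_lit 130)) (XT.lf (nat_lit 0) (nat_lit 57262000294) (nat_lit 152) (nat_lit 305437990168) (nat_lit 0) (nat_lit 10861279163) (nat_lit 2) (nat_lit 5) (nat_lit 4) (nat_lit 4) (nat_lit 2) (nat_lit 4) (nat_lit 377) (nat_lit 274) (nat_lit 129))))) (XT.nd (nat_lit 234) (nat_lit 0) (nat_lit 0) (XT.nd (nat_lit 78) (nat_lit 0) (nat_lit 0) (XT.lf (nat_lit 0) (nat_lit 72188126563) (nat_lit 152) (nat_lit 293539679825) (nat_lit 0) (nat_lit 25785533781) (nat_lit 2) (nat_lit 5) (nat_lit 4) (nat_lit 4) (nat_lit 2) (nat_lit 4) (nat_lit 378) (nat_lit 274)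 (nat_lit 128)) (XT.nd (nat_lit 78) (nat_lit 0) (nat_lit 0) (XT.lf (nat_lit 0) (nat_lit 87859429114) (nat_lit 152) (nat_lit 281048588350) (nat_lit 0) (nat_lit 41455053808) (nat_lit 2) (nat_lit 5) (nat_lit 4) (nat_lit 4) (nat_lit 2) (nat_lit 4) (nat_lit 379) (nat_lit 274) (nat_lit 127)) (XT.lf (nat_lit 0) (nat_lit 104313220572) (nat_lit 152) (nat_lit 267934975050) (nat_lit 0) (nat_lit 57907147623) (nat_lit 2) (nat_lit 5) (nat_lit 4) (nat_lit 4) (nat_lit 2) (nat_lit 4) (nat_lit 380) (nat_lit 274) (nat_lit 126)))) (XT.nd (nat_lit 78) (nat_lit 0) (nat_lit 0) (XT.lf (nat_lit 0) (nat_lit 121588676631) (nat_lit 152) (nat_lit 254167617035) (nat_lit 0) (nat_lit 75180986880) (nat_lit 2) (nat_lit 5) (nat_lit 4) (nat_lit 4) (nat_lit 2) (nat_lit 4) (nat_lit 381) (nat_lit 274) (nat_lit 125)) (XT.nd (nat_lit 78) (nat_lit 0) (nat_lit 0) (XT.lf (nat_lit 0) (nat_lit 139726929329) (nat_lit 152) (nat_lit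 239713734881) (nat_lit 0) (nat_lit 93317699767) (nat_lit 2) (nat_lit 5) (nat_lit 4) (nat_lit 4) (nat_lit 2) (nat_lit 4) (nat_lit 382) (nat_lit 274) (nat_lit 124)) (XT.lf (nat_lit 0) (nat_lit 158771164982) (nat_lit 152) (nat_lit 224538914584) (nat_lit 0) (nat_lit 112360468933) (nat_lit 2) (nat_lit 5) (nat_lit 4) (nat_lit 4) (nat_lit 2) (nat_lit 4) (nat_lit 383) (nat_lit 274) (nat_lit 123))))))))
noncomputable def xc151 : XT := (XT.nd (nat_lit 33462) (nat_lit 0) (nat_lit 2280) (XT.nd (nat_lit 32682) (nat_lit 0) (nat_lit 4940) (XT.nd (nat_lit 32292) (nat_lit 0) (nat_lit 6992) (XT.nd (nat_lit 156) (nat_lit 0) (nat_lit 0) (XT.nd (nat_lit 78) (nat_lit 0) (nat_lit 0) (XT.lf (nat_lit 0) (nat_lit 178766727009) (nat_lit 152) (nat_lit 208607025620) (nat_lit 0) (nat_lit 132354634305) (nat_lit 2) (nat_lit 5) (nat_lit 4) (nat_lit 4) (nat_lit 2) (nat_lit 4) (nat_lit 384) (nat_lit 274) (nat_lit 122))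 (XT.lf (nat_lit 0) (nat_lit 199761223890) (nat_lit 152) (nat_lit 191880134918) (nat_lit 0) (nat_lit 153347801039) (nat_lit 2) (nat_lit 5) (nat_lit 4) (nat_lit 4) (nat_lit 2) (nat_lit 4) (nat_lit 385) (nat_lit 274) (nat_lit 121))) (XT.nd (nat_lit 31980) (nat_lit 0) (nat_lit 6916) (XT.lf (nat_lit 0) (nat_lit 221804642523) (nat_lit 152) (nat_lit 174318416549) (nat_lit 0) (nat_lit 175389952865) (nat_lit 2) (nat_lit 5) (nat_lit 4) (nat_lit 4) (nat_lit 2) (nat_lit 4) (nat_lit 386) (nat_lit 274) (nat_lit 120)) (XT.nd (nat_lit 78) (nat_lit 0) (nat_lit 0) (XT.lf (nat_lit 0) (nat_lit 1878422834) (nat_lit 684) (nat_lit 1337042795) (nat_lit 684) (nat_lit 1337042795) (nat_lit 93) (nat_lit 3) (nat_lit 102) (nat_lit 3) (nat_lit 102) (nat_lit 5) (nat_lit 275) (nat_lit 275) (nat_lit 230)) (XT.lf (nat_lit 76) (nat_lit 1478153955) (nat_lit 0) (nat_lit 3207905600) (nat_lit 684) (nat_lit 4602766600) (nat_lit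 94) (nat_lit 5) (nat_lit 93) (nat_lit 3) (nat_lit 102) (nat_lit 5) (nat_lit 276) (nat_lit 275) (nat_lit 229))))) (XT.nd (nat_lit 156) (nat_lit 0) (nat_lit 0) (XT.nd (nat_lit 78) (nat_lit 0) (nat_lit 0) (XT.lf (nat_lit 0) (nat_lit 5658459693) (nat_lit 608) (nat_lit 3583608774) (nat_lit 684) (nat_lit 240052504) (nat_lit 94) (nat_lit 5) (nat_lit 102) (nat_lit 5) (nat_lit 103) (nat_lit 5) (nat_lit 277) (nat_lit 275) (nat_lit 228)) (XT.lf (nat_lit 76) (nat_lit 797854205) (nat_lit 0) (nat_lit 5897093963) (nat_lit 684) (nat_lit 2989484012) (nat_lit 95) (nat_lit 5) (nat_lit 94) (nat_lit 5) (nat_lit 103) (nat_lit 5) (nat_lit 278) (nat_lit 275) (nat_lit 227))) (XT.nd (nat_lit 78) (nat_lit 0) (nat_lit 76) (XT.lf (nat_lit 76) (nat_lit 5493386099) (nat_lit 0) (nat_lit 2302889587) (nat_lit 684) (nat_lit 2100051641) (nat_lit 95) (nat_lit 5) (nat_lit 94) (nat_lit 5) (nat_lit 103) (nat_lit 5) (nat_lit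 279) (nat_lit 275) (nat_lit 226)) (XT.nd (nat_lit 78) (nat_lit 0) (nat_lit 0) (XT.lf (nat_lit 76) (nat_lit 259544273) (nat_lit 0) (nat_lit 8675010540) (nat_lit 684) (nat_lit 1185281596) (nat_lit 96) (nat_lit 5) (nat_lit 95) (nat_lit 5) (nat_lit 104) (nat_lit 5) (nat_lit 280) (nat_lit 275) (nat_lit 225)) (XT.lf (nat_lit 76) (nat_lit 5238835111) (nat_lit 0) (nat_lit 4959166359) (nat_lit 684) (nat_lit 153214834) (nat_lit 96) (nat_lit 5) (nat_lit 95) (nat_lit 5) (nat_lit 104) (nat_lit 5) (nat_lit 281) (nat_lit 275) (nat_lit 224)))))) (XT.nd (nat_lit 390) (nat_lit 1444) (nat_lit 0) (XT.nd (nat_lit 156) (nat_lit 0) (nat_lit 76) (XT.nd (nat_lit 78) (nat_lit 0) (nat_lit 76) (XT.lf (nat_lit 0) (nat_lit 858510394) (nat_lit 684) (nat_lit 171835352) (nat_lit 760) (nat_lit 9565299316) (nat_lit 86) (nat_lit 5) (nat_lit 95) (nat_lit 5) (nat_lit 96) (nat_lit 5) (nat_lit 282) (nat_lit 275) (nat_lit 223))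 (XT.lf (nat_lit 0) (nat_lit 2005767097) (nat_lit 684) (nat_lit 5750867990) (nat_lit 760) (nat_lit 3091123199) (nat_lit 87) (nat_lit 5) (nat_lit 96) (nat_lit 5) (nat_lit 97) (nat_lit 5) (nat_lit 283) (nat_lit 275) (nat_lit 222))) (XT.nd (nat_lit 78) (nat_lit 0) (nat_lit 76) (XT.lf (nat_lit 0) (nat_lit 3191710335) (nat_lit 684) (nat_lit 524766766) (nat_lit 760) (nat_lit 7397022767) (nat_lit 87) (nat_lit 5) (nat_lit 96) (nat_lit 5) (nat_lit 97) (nat_lit 5) (nat_lit 284) (nat_lit 275) (nat_lit 221)) (XT.nd (nat_lit 78) (nat_lit 0) (nat_lit 0) (XT.lf (nat_lit 0) (nat_lit 4489465145) (nat_lit 684) (nat_lit 6303395574) (nat_lit 76) (nat_lit 597126742) (nat_lit 88) (nat_lit 5) (nat_lit 97) (nat_lit 5) (nat_lit 89) (nat_lit 5) (nat_lit 285) (nat_lit 275) (nat_lit 220)) (XT.lf (nat_lit 0) (nat_lit 5886782788) (nat_lit 684) (nat_lit 774738298) (nat_lit 76) (nat_lit 5017125209) (nat_lit 88) (nat_lit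 5) (nat_lit 97) (nat_lit 5) (nat_lit 89) (nat_lit 5) (nat_lit 286) (nat_lit 275) (nat_lit 219))))) (XT.nd (nat_lit 156) (nat_lit 912) (nat_lit 0) (XT.nd (nat_lit 78) (nat_lit 0) (nat_lit 0) (XT.lf (nat_lit 0) (nat_lit 5166621842) (nat_lit 684) (nat_lit 2234406459) (nat_lit 760) (nat_lit 4578433452) (nat_lit 79) (nat_lit 5) (nat_lit 88) (nat_lit 5) (nat_lit 89) (nat_lit 5) (nat_lit 287) (nat_lit 275) (nat_lit 218)) (XT.lf (nat_lit 0) (nat_lit 9009621569) (nat_lit 760) (nat_lit 931000456) (nat_lit 76) (nat_lit 2353837309) (nat_lit 79) (nat_lit 5) (nat_lit 89) (nat_lit 5) (nat_lit 80) (nat_lit 5) (nat_lit 288) (nat_lit 275) (nat_lit 217))) (XT.nd (nat_lit 78) (nat_lit 456) (nat_lit 0) (XT.lf (nat_lit 0) (nat_lit 5350621065) (nat_lit 456) (nat_lit 5437343157) (nat_lit 532) (nat_lit 1832846228) (nat_lit 73) (nat_lit 5) (nat_lit 79) (nat_lit 5) (nat_lit 80) (nat_lit 5) (nat_lit 289) (nat_lit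 275) (nat_lit 216)) (XT.nd (nat_lit 78) (nat_lit 456) (nat_lit 0) (XT.lf (nat_lit 0) (nat_lit 11950178986) (nat_lit 456) (nat_lit 690988393) (nat_lit 532) (nat_lit 323080899) (nat_lit 73) (nat_lit 5) (nat_lit 79) (nat_lit 5) (nat_lit 80) (nat_lit 5) (nat_lit 290) (nat_lit 275) (nat_lit 215)) (XT.lf (nat_lit 0) (nat_lit 1350480572) (nat_lit 456) (nat_lit 7700641007) (nat_lit 76) (nat_lit 4266376012) (nat_lit 67) (nat_lit 5) (nat_lit 73) (nat_lit 5) (nat_lit 68) (nat_lit 5) (nat_lit 291) (nat_lit 275) (nat_lit 214))))))) (XT.nd (nat_lit 780) (nat_lit 1216) (nat_lit 0) (XT.nd (nat_lit 390) (nat_lit 836) (nat_lit 0) (XT.nd (nat_lit 156) (nat_lit 304) (nat_lit 0) (XT.nd (nat_lit 78) (nat_lit 304) (nat_lit 0) (XT.lf (nat_lit 0) (nat_lit 3097665669) (nat_lit 456) (nat_lit 1119057109) (nat_lit 76) (nat_lit 9471438905) (nat_lit 67) (nat_lit 5) (nat_lit 73) (nat_lit 5) (nat_lit 68) (nat_lit 5)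 (nat_lit 292) (nat_lit 275) (nat_lit 213)) (XT.lf (nat_lit 0) (nat_lit 5013452471) (nat_lit 380) (nat_lit 8134585252) (nat_lit 76) (nat_lit 925313701) (nat_lit 63) (nat_lit 5) (nat_lit 68) (nat_lit 5) (nat_lit 64) (nat_lit 5) (nat_lit 293) (nat_lit 275) (nat_lit 212))) (XT.nd (nat_lit 78) (nat_lit 304) (nat_lit 0) (XT.lf (nat_lit 0) (nat_lit 7087589589) (nat_lit 380) (nat_lit 1186578228) (nat_lit 76) (nat_lit 6200556754) (nat_lit 63) (nat_lit 5) (nat_lit 68) (nat_lit 5) (nat_lit 64) (nat_lit 5) (nat_lit 294) (nat_lit 275) (nat_lit 211)) (XT.nd (nat_lit 78) (nat_lit 0) (nat_lit 0) (XT.lf (nat_lit 0) (nat_lit 6282656601) (nat_lit 304) (nat_lit 3056268660) (nat_lit 380) (nat_lit 5553616021) (nat_lit 59) (nat_lit 5) (nat_lit 63) (nat_lit 5) (nat_lit 64) (nat_lit 5) (nat_lit 295) (nat_lit 275) (nat_lit 210)) (XT.lf (nat_lit 0) (nat_lit 11737182916) (nat_lit 380) (nat_lit 1229857603) (nat_lit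 76) (nat_lit 2362537688) (nat_lit 59) (nat_lit 5) (nat_lit 64) (nat_lit 5) (nat_lit 60) (nat_lit 5) (nat_lit 296) (nat_lit 275) (nat_lit 209))))) (XT.nd (nat_lit 156) (nat_lit 532) (nat_lit 0) (XT.nd (nat_lit 78) (nat_lit 76) (nat_lit 0) (XT.lf (nat_lit 0) (nat_lit 6655406263) (nat_lit 228) (nat_lit 7731205287) (nat_lit 304) (nat_lit 1395337415) (nat_lit 56) (nat_lit 5) (nat_lit 59) (nat_lit 5) (nat_lit 60) (nat_lit 5) (nat_lit 297) (nat_lit 275) (nat_lit 208)) (XT.lf (nat_lit 0) (nat_lit 881083181) (nat_lit 304) (nat_lit 1319869544) (nat_lit 76) (nat_lit 14055380348) (nat_lit 55) (nat_lit 5) (nat_lit 59) (nat_lit 5) (nat_lit 56) (nat_lit 5) (nat_lit 298) (nat_lit 275) (nat_lit 207))) (XT.nd (nat_lit 78) (nat_lit 228) (nat_lit 0) (XT.lf (nat_lit 0) (nat_lit 3371566339) (nat_lit 380) (nat_lit 9753003484) (nat_lit 76) (nat_lit 3621404924) (nat_lit 51) (nat_lit 5) (nat_lit 56) (nat_lit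 5) (nat_lit 52) (nat_lit 5) (nat_lit 299) (nat_lit 275) (nat_lit 206)) (XT.nd (nat_lit 78) (nat_lit 228) (nat_lit 0) (XT.lf (nat_lit 0) (nat_lit 6024514128) (nat_lit 380) (nat_lit 1554484883) (nat_lit 76) (nat_lit 9679239403) (nat_lit 51) (nat_lit 5) (nat_lit 56) (nat_lit 5) (nat_lit 52) (nat_lit 5) (nat_lit 300) (nat_lit 275) (nat_lit 205)) (XT.lf (nat_lit 0) (nat_lit 7261286758) (nat_lit 228) (nat_lit 1642325120) (nat_lit 304) (nat_lit 8887863431) (nat_lit 48) (nat_lit 5) (nat_lit 51) (nat_lit 5) (nat_lit 52) (nat_lit 5) (nat_lit 301) (nat_lit 275) (nat_lit 204)))))) (XT.nd (nat_lit 390) (nat_lit 684) (nat_lit 0) (XT.nd (nat_lit 156) (nat_lit 304) (nat_lit 0) (XT.nd (nat_lit 78) (nat_lit 228) (nat_lit 0) (XT.lf (nat_lit 0) (nat_lit 12005713756) (nat_lit 304) (nat_lit 1875945223) (nat_lit 76) (nat_lit 4465796107) (nat_lit 48) (nat_lit 5) (nat_lit 52) (nat_lit 5) (nat_lit 49) (nat_lit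 5) (nat_lit 302) (nat_lit 275) (nat_lit 203)) (XT.lf (nat_lit 0) (nat_lit 7396448144) (nat_lit 228) (nat_lit 7990409025) (nat_lit 304) (nat_lit 3538211765) (nat_lit 45) (nat_lit 5) (nat_lit 48) (nat_lit 5) (nat_lit 49) (nat_lit 5) (nat_lit 303) (nat_lit 275) (nat_lit 202))) (XT.nd (nat_lit 78) (nat_lit 304) (nat_lit 0) (XT.lf (nat_lit 0) (nat_lit 17173611553) (nat_lit 228) (nat_lit 1777255013) (nat_lit 304) (nat_lit 580036851) (nat_lit 45) (nat_lit 5) (nat_lit 48) (nat_lit 5) (nat_lit 49) (nat_lit 5) (nat_lit 304) (nat_lit 275) (nat_lit 201)) (XT.nd (nat_lit 78) (nat_lit 0) (nat_lit 0) (XT.lf (nat_lit 0) (nat_lit 2620634896) (nat_lit 304) (nat_lit 12788596357) (nat_lit 76) (nat_lit 4747082130) (nat_lit 41) (nat_lit 5) (nat_lit 45) (nat_lit 5) (nat_lit 42) (nat_lit 5) (nat_lit 305) (nat_lit 275) (nat_lit 200)) (XT.lf (nat_lit 0) (nat_lit 6014518187) (nat_lit 304) (nat_lit 3213319824)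 (nat_lit 76) (nat_lit 11582073093) (nat_lit 41) (nat_lit 5) (nat_lit 45) (nat_lit 5) (nat_lit 42) (nat_lit 5) (nat_lit 306) (nat_lit 275) (nat_lit 199))))) (XT.nd (nat_lit 234) (nat_lit 304) (nat_lit 0) (XT.nd (nat_lit 78) (nat_lit 152) (nat_lit 0) (XT.lf (nat_lit 0) (nat_lit 7043450463) (nat_lit 228) (nat_lit 2628383975) (nat_lit 304) (nat_lit 11819692331) (nat_lit 38) (nat_lit 5) (nat_lit 41) (nat_lit 5) (nat_lit 42) (nat_lit 5) (nat_lit 307) (nat_lit 275) (nat_lit 198)) (XT.nd (nat_lit 78) (nat_lit 152) (nat_lit 0) (XT.lf (nat_lit 0) (nat_lit 13618571927) (nat_lit 304) (nat_lit 4370977572) (nat_lit 76) (nat_lit 4212369753) (nat_lit 38) (nat_lit 5) (nat_lit 42) (nat_lit 5) (nat_lit 39) (nat_lit 5) (nat_lit 308) (nat_lit 275) (nat_lit 197)) (XT.lf (nat_lit 0) (nat_lit 6348114440) (nat_lit 152) (nat_lit 11541582303) (nat_lit 228) (nat_lit 5051804769) (nat_lit 36) (nat_lit 5) (nat_lit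 38) (nat_lit 5) (nat_lit 39) (nat_lit 5) (nat_lit 309) (nat_lit 275) (nat_lit 196)))) (XT.nd (nat_lit 78) (nat_lit 304) (nat_lit 0) (XT.lf (nat_lit 0) (nat_lit 17733312900) (nat_lit 152) (nat_lit 4700324051) (nat_lit 228) (nat_lit 1281484569) (nat_lit 36) (nat_lit 5) (nat_lit 38) (nat_lit 5) (nat_lit 39) (nat_lit 5) (nat_lit 310) (nat_lit 275) (nat_lit 195)) (XT.nd (nat_lit 78) (nat_lit 0) (nat_lit 0) (XT.lf (nat_lit 0) (nat_lit 2700258621) (nat_lit 304) (nat_lit 19296620367) (nat_lit 76) (nat_lit 2523043131) (nat_lit 32) (nat_lit 5) (nat_lit 36) (nat_lit 5) (nat_lit 33) (nat_lit 5) (nat_lit 311) (nat_lit 275) (nat_lit 194)) (XT.lf (nat_lit 0) (nat_lit 7003982288) (nat_lit 304) (nat_lit 8284612089) (nat_lit 76) (nat_lit 10067038647) (nat_lit 32) (nat_lit 5) (nat_lit 36) (nat_lit 5) (nat_lit 33) (nat_lit 5) (nat_lit 312) (nat_lit 275) (nat_lit 193))))))))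
noncomputable def xc152 : XT := (XT.nd (nat_lit 1560) (nat_lit 532) (nat_lit 0) (XT.nd (nat_lit 780) (nat_lit 532) (nat_lit 0) (XT.nd (nat_lit 390) (nat_lit 380) (nat_lit 0) (XT.nd (nat_lit 156) (nat_lit 228) (nat_lit 0) (XT.nd (nat_lit 78) (nat_lit 0) (nat_lit 0) (XT.lf (nat_lit 0) (nat_lit 3365392125) (nat_lit 152) (nat_lit 8196652311) (nat_lit 228) (nat_lit 14669145188) (nat_lit 30) (nat_lit 5) (nat_lit 32) (nat_lit 5) (nat_lit 33) (nat_lit 5) (nat_lit 313) (nat_lit 275) (nat_lit 192)) (XT.lf (nat_lit 0) (nat_lit 15865529244) (nat_lit 152) (nat_lit 609719017) (nat_lit 228) (nat_lit 10668930785) (nat_lit 30) (nat_lit 5) (nat_lit 32) (nat_lit 5) (nat_lit 33) (nat_lit 5) (nat_lit 314) (nat_lit 275) (nat_lit 191))) (XT.nd (nat_lit 78) (nat_lit 76) (nat_lit 0) (XT.lf (nat_lit 0) (nat_lit 778336666) (nat_lit 152) (nat_lit 20970238002) (nat_lit 228) (nat_lit 6348536264) (nat_lit 28) (nat_lit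 5) (nat_lit 30) (nat_lit 5) (nat_lit 31) (nat_lit 5) (nat_lit 315) (nat_lit 275) (nat_lit 190)) (XT.nd (nat_lit 78) (nat_lit 76) (nat_lit 0) (XT.lf (nat_lit 0) (nat_lit 13800157816) (nat_lit 152) (nat_lit 13674003756) (nat_lit 228) (nat_lit 1614113478) (nat_lit 28) (nat_lit 5) (nat_lit 30) (nat_lit 5) (nat_lit 31) (nat_lit 5) (nat_lit 316) (nat_lit 275) (nat_lit 189)) (XT.lf (nat_lit 0) (nat_lit 3237713023) (nat_lit 228) (nat_lit 2727087410) (nat_lit 76) (nat_lit 24162183802) (nat_lit 27) (nat_lit 5) (nat_lit 30) (nat_lit 5) (nat_lit 28) (nat_lit 5) (nat_lit 317) (nat_lit 275) (nat_lit 188))))) (XT.nd (nat_lit 156) (nat_lit 228) (nat_lit 0) (XT.nd (nat_lit 78) (nat_lit 0) (nat_lit 0) (XT.lf (nat_lit 0) (nat_lit 8470946166) (nat_lit 228) (nat_lit 20482688415) (nat_lit 76) (nat_lit 2253031505) (nat_lit 25) (nat_lit 5) (nat_lit 28) (nat_lit 5) (nat_lit 26) (nat_lit 5) (nat_lit 318) (nat_lit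 275) (nat_lit 187)) (XT.lf (nat_lit 0) (nat_lit 14099422330) (nat_lit 228) (nat_lit 7512318768) (nat_lit 76) (nat_lit 10721924490) (nat_lit 25) (nat_lit 5) (nat_lit 28) (nat_lit 5) (nat_lit 26) (nat_lit 5) (nat_lit 319) (nat_lit 275) (nat_lit 186))) (XT.nd (nat_lit 78) (nat_lit 76) (nat_lit 0) (XT.lf (nat_lit 0) (nat_lit 6290741367) (nat_lit 152) (nat_lit 13806183781) (nat_lit 228) (nat_lit 13415721798) (nat_lit 23) (nat_lit 5) (nat_lit 25) (nat_lit 5) (nat_lit 26) (nat_lit 5) (nat_lit 320) (nat_lit 275) (nat_lit 185)) (XT.nd (nat_lit 78) (nat_lit 76) (nat_lit 0) (XT.lf (nat_lit 0) (nat_lit 21027871203) (nat_lit 152) (nat_lit 5483285031) (nat_lit 228) (nat_lit 8233589932) (nat_lit 23) (nat_lit 5) (nat_lit 25) (nat_lit 5) (nat_lit 26) (nat_lit 5) (nat_lit 321) (nat_lit 275) (nat_lit 184)) (XT.lf (nat_lit 0) (nat_lit 409174419) (nat_lit 76) (nat_lit 32884169609) (nat_lit 152) (nat_lit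 2742754970) (nat_lit 22) (nat_lit 5) (nat_lit 23) (nat_lit 5) (nat_lit 24) (nat_lit 4) (nat_lit 322) (nat_lit 275) (nat_lit 183)))))) (XT.nd (nat_lit 390) (nat_lit 304) (nat_lit 0) (XT.nd (nat_lit 156) (nat_lit 152) (nat_lit 0) (XT.nd (nat_lit 78) (nat_lit 0) (nat_lit 0) (XT.lf (nat_lit 0) (nat_lit 3241955934) (nat_lit 152) (nat_lit 21820118211) (nat_lit 76) (nat_lit 12311791790) (nat_lit 21) (nat_lit 5) (nat_lit 23) (nat_lit 5) (nat_lit 22) (nat_lit 5) (nat_lit 323) (nat_lit 275) (nat_lit 182)) (XT.lf (nat_lit 0) (nat_lit 9424277265) (nat_lit 152) (nat_lit 7383714996) (nat_lit 76) (nat_lit 21968762747) (nat_lit 21) (nat_lit 5) (nat_lit 23) (nat_lit 5) (nat_lit 22) (nat_lit 5) (nat_lit 324) (nat_lit 275) (nat_lit 181))) (XT.nd (nat_lit 78) (nat_lit 0) (nat_lit 0) (XT.lf (nat_lit 0) (nat_lit 8016042980) (nat_lit 152) (nat_lit 8015824038) (nat_lit 228) (nat_lit 24212122872) (nat_lit 19)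 (nat_lit 5) (nat_lit 21) (nat_lit 5) (nat_lit 22) (nat_lit 5) (nat_lit 325) (nat_lit 275) (nat_lit 180)) (XT.nd (nat_lit 78) (nat_lit 0) (nat_lit 0) (XT.lf (nat_lit 0) (nat_lit 23107021200) (nat_lit 228) (nat_lit 17372375481) (nat_lit 76) (nat_lit 1298339133) (nat_lit 19) (nat_lit 5) (nat_lit 22) (nat_lit 5) (nat_lit 20) (nat_lit 4) (nat_lit 326) (nat_lit 275) (nat_lit 179)) (XT.lf (nat_lit 0) (nat_lit 30658867450) (nat_lit 228) (nat_lit 1919853096) (nat_lit 76) (nat_lit 10803309909) (nat_lit 19) (nat_lit 5) (nat_lit 22) (nat_lit 5) (nat_lit 20) (nat_lit 4) (nat_lit 327) (nat_lit 275) (nat_lit 178))))) (XT.nd (nat_lit 156) (nat_lit 152) (nat_lit 0) (XT.nd (nat_lit 78) (nat_lit 76) (nat_lit 0) (XT.lf (nat_lit 0) (nat_lit 14764105005) (nat_lit 76) (nat_lit 24046640928) (nat_lit 152) (nat_lit 6244679650) (nat_lit 18) (nat_lit 5) (nat_lit 19) (nat_lit 5) (nat_lit 20) (nat_lit 4) (nat_lit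 328) (nat_lit 275) (nat_lit 177)) (XT.lf (nat_lit 0) (nat_lit 564891304) (nat_lit 152) (nat_lit 14484976585) (nat_lit 76) (nat_lit 31760943513) (nat_lit 17) (nat_lit 5) (nat_lit 19) (nat_lit 5) (nat_lit 18) (nat_lit 5) (nat_lit 329) (nat_lit 275) (nat_lit 176))) (XT.nd (nat_lit 78) (nat_lit 0) (nat_lit 0) (XT.lf (nat_lit 0) (nat_lit 2062187035) (nat_lit 152) (nat_lit 5467438160) (nat_lit 228) (nat_lit 41118002094) (nat_lit 15) (nat_lit 5) (nat_lit 17) (nat_lit 5) (nat_lit 18) (nat_lit 5) (nat_lit 330) (nat_lit 275) (nat_lit 175)) (XT.nd (nat_lit 78) (nat_lit 0) (nat_lit 0) (XT.lf (nat_lit 0) (nat_lit 15156082223) (nat_lit 228) (nat_lit 30713385265) (nat_lit 76) (nat_lit 4691148538) (nat_lit 15) (nat_lit 5) (nat_lit 18) (nat_lit 5) (nat_lit 16) (nat_lit 4) (nat_lit 331) (nat_lit 275) (nat_lit 174)) (XT.lf (nat_lit 0) (nat_lit 23246280709) (nat_lit 228) (nat_lit 14149941335) (nat_lit 76)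 (nat_lit 15168917297) (nat_lit 15) (nat_lit 5) (nat_lit 18) (nat_lit 5) (nat_lit 16) (nat_lit 4) (nat_lit 332) (nat_lit 275) (nat_lit 173))))))) (XT.nd (nat_lit 780) (nat_lit 228) (nat_lit 0) (XT.nd (nat_lit 390) (nat_lit 76) (nat_lit 0) (XT.nd (nat_lit 156) (nat_lit 152) (nat_lit 0) (XT.nd (nat_lit 78) (nat_lit 0) (nat_lit 0) (XT.lf (nat_lit 0) (nat_lit 3336478487) (nat_lit 76) (nat_lit 28449734292) (nat_lit 152) (nat_lit 22881420645) (nat_lit 14) (nat_lit 5) (nat_lit 15) (nat_lit 5) (nat_lit 16) (nat_lit 4) (nat_lit 333) (nat_lit 275) (nat_lit 172)) (XT.lf (nat_lit 0) (nat_lit 22176682158) (nat_lit 76) (nat_lit 18809370237) (nat_lit 152) (nat_lit 15877559776) (nat_lit 14) (nat_lit 5) (nat_lit 15) (nat_lit 5) (nat_lit 16) (nat_lit 4) (nat_lit 334) (nat_lit 275) (nat_lit 171))) (XT.nd (nat_lit 78) (nat_lit 152) (nat_lit 0) (XT.lf (nat_lit 0) (nat_lit 41947666343) (nat_lit 76) (nat_lit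 8691812737) (nat_lit 152) (nat_lit 8530236270) (nat_lit 14) (nat_lit 5) (nat_lit 15) (nat_lit 5) (nat_lit 16) (nat_lit 4) (nat_lit 335) (nat_lit 275) (nat_lit 170)) (XT.nd (nat_lit 78) (nat_lit 76) (nat_lit 0) (XT.lf (nat_lit 0) (nat_lit 1110528684) (nat_lit 76) (nat_lit 59706373261) (nat_lit 76) (nat_lit 772160493) (nat_lit 13) (nat_lit 4) (nat_lit 14) (nat_lit 5) (nat_lit 14) (nat_lit 4) (nat_lit 336) (nat_lit 275) (nat_lit 169)) (XT.lf (nat_lit 0) (nat_lit 7570595219) (nat_lit 152) (nat_lit 43430508563) (nat_lit 76) (nat_lit 13100882112) (nat_lit 12) (nat_lit 5) (nat_lit 14) (nat_lit 5) (nat_lit 13) (nat_lit 4) (nat_lit 337) (nat_lit 275) (nat_lit 168))))) (XT.nd (nat_lit 156) (nat_lit 76) (nat_lit 0) (XT.nd (nat_lit 78) (nat_lit 0) (nat_lit 0) (XT.lf (nat_lit 0) (nat_lit 16298682461) (nat_lit 152) (nat_lit 25553183047) (nat_lit 76) (nat_lit 24888354244) (nat_lit 12) (nat_lit 5) (nat_lit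 14) (nat_lit 5) (nat_lit 13) (nat_lit 4) (nat_lit 338) (nat_lit 275) (nat_lit 167)) (XT.lf (nat_lit 0) (nat_lit 25457596350) (nat_lit 152) (nat_lit 6791936556) (nat_lit 76) (nat_lit 37261115392) (nat_lit 12) (nat_lit 5) (nat_lit 14) (nat_lit 5) (nat_lit 13) (nat_lit 4) (nat_lit 339) (nat_lit 275) (nat_lit 166))) (XT.nd (nat_lit 78) (nat_lit 0) (nat_lit 0) (XT.lf (nat_lit 0) (nat_lit 13324363384) (nat_lit 76) (nat_lit 21952811092) (nat_lit 152) (nat_lit 37132291782) (nat_lit 11) (nat_lit 5) (nat_lit 12) (nat_lit 5) (nat_lit 13) (nat_lit 4) (nat_lit 340) (nat_lit 275) (nat_lit 165)) (XT.nd (nat_lit 78) (nat_lit 0) (nat_lit 0) (XT.lf (nat_lit 0) (nat_lit 34672960078) (nat_lit 76) (nat_lit 11024591517) (nat_lit 152) (nat_lit 29750186247) (nat_lit 11) (nat_lit 5) (nat_lit 12) (nat_lit 5) (nat_lit 13) (nat_lit 4) (nat_lit 341) (nat_lit 275) (nat_lit 164)) (XT.lf (nat_lit 0) (nat_lit 56640955957)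 (nat_lit 152) (nat_lit 21565028169) (nat_lit 0) (nat_lit 431842009) (nat_lit 11) (nat_lit 5) (nat_lit 13) (nat_lit 4) (nat_lit 11) (nat_lit 4) (nat_lit 342) (nat_lit 275) (nat_lit 163)))))) (XT.nd (nat_lit 390) (nat_lit 76) (nat_lit 0) (XT.nd (nat_lit 156) (nat_lit 76) (nat_lit 0) (XT.nd (nat_lit 78) (nat_lit 76) (nat_lit 0) (XT.lf (nat_lit 0) (nat_lit 68307482513) (nat_lit 152) (nat_lit 1584155818) (nat_lit 0) (nat_lit 12086986296) (nat_lit 11) (nat_lit 5) (nat_lit 13) (nat_lit 4) (nat_lit 11) (nat_lit 4) (nat_lit 343) (nat_lit 275) (nat_lit 162)) (XT.lf (nat_lit 0) (nat_lit 20028577114) (nat_lit 76) (nat_lit 60836909042) (nat_lit 76) (nat_lit 4605572568) (nat_lit 10) (nat_lit 4) (nat_lit 11) (nat_lit 5) (nat_lit 11) (nat_lit 4) (nat_lit 344) (nat_lit 275) (nat_lit 161))) (XT.nd (nat_lit 78) (nat_lit 0) (nat_lit 0) (XT.lf (nat_lit 0) (nat_lit 4778751080) (nat_lit 152) (nat_lit 46445220812)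 (nat_lit 76) (nat_lit 37909173501) (nat_lit 9) (nat_lit 5) (nat_lit 11) (nat_lit 5) (nat_lit 10) (nat_lit 4) (nat_lit 345) (nat_lit 275) (nat_lit 160)) (XT.nd (nat_lit 78) (nat_lit 0) (nat_lit 0) (XT.lf (nat_lit 0) (nat_lit 14473192396) (nat_lit 152) (nat_lit 26581448546) (nat_lit 76) (nat_lit 51920139229) (nat_lit 9) (nat_lit 5) (nat_lit 11) (nat_lit 5) (nat_lit 10) (nat_lit 4) (nat_lit 346) (nat_lit 275) (nat_lit 159)) (XT.lf (nat_lit 0) (nat_lit 24648240467) (nat_lit 152) (nat_lit 5731964222) (nat_lit 76) (nat_lit 66628500414) (nat_lit 9) (nat_lit 5) (nat_lit 11) (nat_lit 5) (nat_lit 10) (nat_lit 4) (nat_lit 347) (nat_lit 275) (nat_lit 158))))) (XT.nd (nat_lit 156) (nat_lit 0) (nat_lit 0) (XT.nd (nat_lit 78) (nat_lit 0) (nat_lit 0) (XT.lf (nat_lit 0) (nat_lit 16686960744) (nat_lit 76) (nat_lit 18901691075) (nat_lit 152) (nat_lit 65642846442) (nat_lit 8) (nat_lit 5) (nat_lit 9) (nat_lit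 5) (nat_lit 10) (nat_lit 4) (nat_lit 348) (nat_lit 275) (nat_lit 157)) (XT.lf (nat_lit 0) (nat_lit 40418827133) (nat_lit 76) (nat_lit 6750488108) (nat_lit 152) (nat_lit 58491456666) (nat_lit 8) (nat_lit 5) (nat_lit 9) (nat_lit 5) (nat_lit 10) (nat_lit 4) (nat_lit 349) (nat_lit 275) (nat_lit 156))) (XT.nd (nat_lit 78) (nat_lit 0) (nat_lit 0) (XT.lf (nat_lit 0) (nat_lit 59419111673) (nat_lit 152) (nat_lit 45074838686) (nat_lit 0) (nat_lit 5813056170) (nat_lit 8) (nat_lit 5) (nat_lit 10) (nat_lit 4) (nat_lit 8) (nat_lit 4) (nat_lit 350) (nat_lit 275) (nat_lit 155)) (XT.nd (nat_lit 78) (nat_lit 0) (nat_lit 0) (XT.lf (nat_lit 0) (nat_lit 72388531980) (nat_lit 152) (nat_lit 24016527017) (nat_lit 0) (nat_lit 18775139365) (nat_lit 8) (nat_lit 5) (nat_lit 10) (nat_lit 4) (nat_lit 8) (nat_lit 4) (nat_lit 351) (nat_lit 275) (nat_lit 154)) (XT.lf (nat_lit 0) (nat_lit 86003061696) (nat_lit 152) (nat_lit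 1911476891) (nat_lit 0) (nat_lit 32382681355) (nat_lit 8) (nat_lit 5) (nat_lit 10) (nat_lit 4) (nat_lit 8) (nat_lit 4) (nat_lit 352) (nat_lit 275) (nat_lit 153))))))))
noncomputable def xc153 : XT := (XT.nd (nat_lit 1560) (nat_lit 152) (nat_lit 0) (XT.nd (nat_lit 780) (nat_lit 76) (nat_lit 0) (XT.nd (nat_lit 390) (nat_lit 76) (nat_lit 0) (XT.nd (nat_lit 156) (nat_lit 76) (nat_lit 0) (XT.nd (nat_lit 78) (nat_lit 0) (nat_lit 0) (XT.lf (nat_lit 0) (nat_lit 21996983611) (nat_lit 76) (nat_lit 78641567317) (nat_lit 76) (nat_lit 25014531999) (nat_lit 7) (nat_lit 4) (nat_lit 8) (nat_lit 5) (nat_lit 8) (nat_lit 4) (nat_lit 353) (nat_lit 275) (nat_lit 152)) (XT.lf (nat_lit 0) (nat_lit 47161441209) (nat_lit 76) (nat_lit 68873605754) (nat_lit 76) (nat_lit 15240232363) (nat_lit 7) (nat_lit 4) (nat_lit 8) (nat_lit 5) (nat_lit 8) (nat_lit 4) (nat_lit 354) (nat_lit 275) (nat_lit 151))) (XT.nd (nat_lit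 78) (nat_lit 76) (nat_lit 0) (XT.lf (nat_lit 0) (nat_lit 73578609219) (nat_lit 76) (nat_lit 58619768635) (nat_lit 76) (nat_lit 4980358983) (nat_lit 7) (nat_lit 4) (nat_lit 8) (nat_lit 5) (nat_lit 8) (nat_lit 4) (nat_lit 355) (nat_lit 275) (nat_lit 150)) (XT.nd (nat_lit 78) (nat_lit 0) (nat_lit 0) (XT.lf (nat_lit 0) (nat_lit 5604215729) (nat_lit 152) (nat_lit 42156516226) (nat_lit 76) (nat_lit 95612259825) (nat_lit 6) (nat_lit 5) (nat_lit 8) (nat_lit 5) (nat_lit 7) (nat_lit 4) (nat_lit 356) (nat_lit 275) (nat_lit 149)) (XT.lf (nat_lit 0) (nat_lit 16547888454) (nat_lit 152) (nat_lit 19727462206) (nat_lit 76) (nat_lit 113597665999) (nat_lit 6) (nat_lit 5) (nat_lit 8) (nat_lit 5) (nat_lit 7) (nat_lit 4) (nat_lit 357) (nat_lit 275) (nat_lit 148))))) (XT.nd (nat_lit 156) (nat_lit 0) (nat_lit 0) (XT.nd (nat_lit 78) (nat_lit 0) (nat_lit 0) (XT.lf (nat_lit 0) (nat_lit 3944441060) (nat_lit 76)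 (nat_lit 24153260865) (nat_lit 152) (nat_lit 128597394478) (nat_lit 5) (nat_lit 5) (nat_lit 6) (nat_lit 5) (nat_lit 7) (nat_lit 4) (nat_lit 358) (nat_lit 275) (nat_lit 147)) (XT.lf (nat_lit 0) (nat_lit 29480060458) (nat_lit 76) (nat_lit 11076463634) (nat_lit 152) (nat_lit 123285181543) (nat_lit 5) (nat_lit 5) (nat_lit 6) (nat_lit 5) (nat_lit 7) (nat_lit 4) (nat_lit 359) (nat_lit 275) (nat_lit 146))) (XT.nd (nat_lit 78) (nat_lit 0) (nat_lit 0) (XT.lf (nat_lit 0) (nat_lit 53677240382) (nat_lit 152) (nat_lit 115099259685) (nat_lit 0) (nat_lit 2567198952) (nat_lit 5) (nat_lit 5) (nat_lit 7) (nat_lit 4) (nat_lit 5) (nat_lit 4) (nat_lit 360) (nat_lit 275) (nat_lit 145)) (XT.nd (nat_lit 78) (nat_lit 0) (nat_lit 0) (XT.lf (nat_lit 0) (nat_lit 67633206166) (nat_lit 152) (nat_lit 95059751616) (nat_lit 0) (nat_lit 16518874879) (nat_lit 5) (nat_lit 5) (nat_lit 7) (nat_lit 4) (nat_lit 5) (nat_lit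 4) (nat_lit 361) (nat_lit 275) (nat_lit 144)) (XT.lf (nat_lit 0) (nat_lit 82284715297) (nat_lit 152) (nat_lit 74022473218) (nat_lit 0) (nat_lit 31166298432) (nat_lit 5) (nat_lit 5) (nat_lit 7) (nat_lit 4) (nat_lit 5) (nat_lit 4) (nat_lit 362) (nat_lit 275) (nat_lit 143)))))) (XT.nd (nat_lit 390) (nat_lit 0) (nat_lit 0) (XT.nd (nat_lit 156) (nat_lit 76) (nat_lit 0) (XT.nd (nat_lit 78) (nat_lit 0) (nat_lit 0) (XT.lf (nat_lit 0) (nat_lit 97666652321) (nat_lit 152) (nat_lit 51937335733) (nat_lit 0) (nat_lit 46544344428) (nat_lit 5) (nat_lit 5) (nat_lit 7) (nat_lit 4) (nat_lit 5) (nat_lit 4) (nat_lit 363) (nat_lit 275) (nat_lit 142)) (XT.lf (nat_lit 0) (nat_lit 113815640896) (nat_lit 152) (nat_lit 28751755501) (nat_lit 0) (nat_lit 62689627262) (nat_lit 5) (nat_lit 5) (nat_lit 7) (nat_lit 4) (nat_lit 5) (nat_lit 4) (nat_lit 364) (nat_lit 275) (nat_lit 141))) (XT.nd (nat_lit 78) (nat_lit 76)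 (nat_lit 0) (XT.lf (nat_lit 0) (nat_lit 130770130995) (nat_lit 152) (nat_lit 4410528757) (nat_lit 0) (nat_lit 79640588086) (nat_lit 5) (nat_lit 5) (nat_lit 7) (nat_lit 4) (nat_lit 5) (nat_lit 4) (nat_lit 365) (nat_lit 275) (nat_lit 140)) (XT.nd (nat_lit 78) (nat_lit 0) (nat_lit 0) (XT.lf (nat_lit 0) (nat_lit 21843425839) (nat_lit 76) (nat_lit 127068101707) (nat_lit 76) (nat_lit 75935197582) (nat_lit 4) (nat_lit 4) (nat_lit 5) (nat_lit 5) (nat_lit 5) (nat_lit 4) (nat_lit 366) (nat_lit 275) (nat_lit 139)) (XT.lf (nat_lit 0) (nat_lit 49559798039) (nat_lit 76) (nat_lit 118473070377) (nat_lit 76) (nat_lit 67336965094) (nat_lit 4) (nat_lit 4) (nat_lit 5) (nat_lit 5) (nat_lit 5) (nat_lit 4) (nat_lit 367) (nat_lit 275) (nat_lit 138))))) (XT.nd (nat_lit 156) (nat_lit 0) (nat_lit 0) (XT.nd (nat_lit 78) (nat_lit 0) (nat_lit 0) (XT.lf (nat_lit 0) (nat_lit 78658747205) (nat_lit 76) (nat_lit 109449795840)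 (nat_lit 76) (nat_lit 58310641835) (nat_lit 4) (nat_lit 4) (nat_lit 5) (nat_lit 5) (nat_lit 5) (nat_lit 4) (nat_lit 368) (nat_lit 275) (nat_lit 137)) (XT.lf (nat_lit 0) (nat_lit 109209556549) (nat_lit 76) (nat_lit 99976794109) (nat_lit 76) (nat_lit 48834736560) (nat_lit 4) (nat_lit 4) (nat_lit 5) (nat_lit 5) (nat_lit 5) (nat_lit 4) (nat_lit 369) (nat_lit 275) (nat_lit 136))) (XT.nd (nat_lit 78) (nat_lit 0) (nat_lit 0) (XT.lf (nat_lit 0) (nat_lit 141284966094) (nat_lit 76) (nat_lit 90031510419) (nat_lit 76) (nat_lit 38886687589) (nat_lit 4) (nat_lit 4) (nat_lit 5) (nat_lit 5) (nat_lit 5) (nat_lit 4) (nat_lit 370) (nat_lit 275) (nat_lit 135)) (XT.nd (nat_lit 78) (nat_lit 0) (nat_lit 0) (XT.lf (nat_lit 0) (nat_lit 174961345862) (nat_lit 76) (nat_lit 79590265522) (nat_lit 76) (nat_lit 28442809092) (nat_lit 4) (nat_lit 4) (nat_lit 5) (nat_lit 5) (nat_lit 5) (nat_lit 4) (nat_lit 371) (nat_lit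 275) (nat_lit 134)) (XT.lf (nat_lit 0) (nat_lit 210318877710) (nat_lit 76) (nat_lit 68628199312) (nat_lit 76) (nat_lit 17478234691) (nat_lit 4) (nat_lit 4) (nat_lit 5) (nat_lit 5) (nat_lit 5) (nat_lit 4) (nat_lit 372) (nat_lit 275) (nat_lit 133))))))) (XT.nd (nat_lit 780) (nat_lit 0) (nat_lit 0) (XT.nd (nat_lit 390) (nat_lit 0) (nat_lit 0) (XT.nd (nat_lit 156) (nat_lit 76) (nat_lit 0) (XT.nd (nat_lit 78) (nat_lit 76) (nat_lit 0) (XT.lf (nat_lit 0) (nat_lit 247441746237) (nat_lit 76) (nat_lit 57119211631) (nat_lit 76) (nat_lit 5966858257) (nat_lit 4) (nat_lit 4) (nat_lit 5) (nat_lit 5) (nat_lit 5) (nat_lit 4) (nat_lit 373) (nat_lit 275) (nat_lit 132)) (XT.lf (nat_lit 0) (nat_lit 5922890733) (nat_lit 152) (nat_lit 39012702374) (nat_lit 76) (nat_lit 280395141473) (nat_lit 3) (nat_lit 5) (nat_lit 5) (nat_lit 5) (nat_lit 4) (nat_lit 4) (nat_lit 374) (nat_lit 275) (nat_lit 131))) (XT.nd (nat_lit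 78) (nat_lit 76) (nat_lit 0) (XT.lf (nat_lit 0) (nat_lit 18205348979) (nat_lit 152) (nat_lit 13835829639) (nat_lit 76) (nat_lit 308827792716) (nat_lit 3) (nat_lit 5) (nat_lit 5) (nat_lit 5) (nat_lit 4) (nat_lit 4) (nat_lit 375) (nat_lit 275) (nat_lit 130)) (XT.nd (nat_lit 78) (nat_lit 0) (nat_lit 0) (XT.lf (nat_lit 0) (nat_lit 13014187919) (nat_lit 76) (nat_lit 18289737183) (nat_lit 152) (nat_lit 325870095659) (nat_lit 2) (nat_lit 5) (nat_lit 3) (nat_lit 5) (nat_lit 4) (nat_lit 4) (nat_lit 376) (nat_lit 275) (nat_lit 129)) (XT.lf (nat_lit 0) (nat_lit 41684857051) (nat_lit 76) (nat_lit 3605718961) (nat_lit 152) (nat_lit 328992089905) (nat_lit 2) (nat_lit 5) (nat_lit 3) (nat_lit 5) (nat_lit 4) (nat_lit 4) (nat_lit 377) (nat_lit 275) (nat_lit 128))))) (XT.nd (nat_lit 156) (nat_lit 0) (nat_lit 0) (XT.nd (nat_lit 78) (nat_lit 0) (nat_lit 0) (XT.lf (nat_lit 0) (nat_lit 60159855669) (nat_lit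 152) (nat_lit 320644244309) (nat_lit 0) (nat_lit 11433479073) (nat_lit 2) (nat_lit 5) (nat_lit 4) (nat_lit 4) (nat_lit 2) (nat_lit 4) (nat_lit 378) (nat_lit 275) (nat_lit 127)) (XT.lf (nat_lit 0) (nat_lit 75830633234) (nat_lit 152) (nat_lit 308154144418) (nat_lit 0) (nat_lit 27102558996) (nat_lit 2) (nat_lit 5) (nat_lit 4) (nat_lit 4) (nat_lit 2) (nat_lit 4) (nat_lit 379) (nat_lit 275) (nat_lit 126))) (XT.nd (nat_lit 78) (nat_lit 0) (nat_lit 0) (XT.lf (nat_lit 0) (nat_lit 92283924706) (nat_lit 152) (nat_lit 295041475484) (nat_lit 0) (nat_lit 43554233665) (nat_lit 2) (nat_lit 5) (nat_lit 4) (nat_lit 4) (nat_lit 2) (nat_lit 4) (nat_lit 380) (nat_lit 275) (nat_lit 125)) (XT.nd (nat_lit 78) (nat_lit 0) (nat_lit 0) (XT.lf (nat_lit 0) (nat_lit 109558904587) (nat_lit 152) (nat_lit 281275016865) (nat_lit 0) (nat_lit 60827673735) (nat_lit 2) (nat_lit 5) (nat_lit 4) (nat_lit 4) (nat_lit 2) (nat_lit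 4) (nat_lit 381) (nat_lit 275) (nat_lit 124)) (XT.lf (nat_lit 0) (nat_lit 127696703783) (nat_lit 152) (nat_lit 266821991280) (nat_lit 0) (nat_lit 78964006444) (nat_lit 2) (nat_lit 5) (nat_lit 4) (nat_lit 4) (nat_lit 2) (nat_lit 4) (nat_lit 382) (nat_lit 275) (nat_lit 123)))))) (XT.nd (nat_lit 32370) (nat_lit 0) (nat_lit 6384) (XT.nd (nat_lit 156) (nat_lit 0) (nat_lit 0) (XT.nd (nat_lit 78) (nat_lit 0) (nat_lit 0) (XT.lf (nat_lit 0) (nat_lit 146740507529) (nat_lit 152) (nat_lit 251647986762) (nat_lit 0) (nat_lit 98006413535) (nat_lit 2) (nat_lit 5) (nat_lit 4) (nat_lit 4) (nat_lit 2) (nat_lit 4) (nat_lit 383) (nat_lit 275) (nat_lit 122)) (XT.lf (nat_lit 0) (nat_lit 166735658216) (nat_lit 152) (nat_lit 235716874729) (nat_lit 0) (nat_lit 118000234075) (nat_lit 2) (nat_lit 5) (nat_lit 4) (nat_lit 4) (nat_lit 2) (nat_lit 4) (nat_lit 384) (nat_lit 275) (nat_lit 121))) (XT.nd (nat_lit 78) (nat_lit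 0) (nat_lit 0) (XT.lf (nat_lit 0) (nat_lit 187729763345) (nat_lit 152) (nat_lit 218990723963) (nat_lit 0) (nat_lit 138993072397) (nat_lit 2) (nat_lit 5) (nat_lit 4) (nat_lit 4) (nat_lit 2) (nat_lit 4) (nat_lit 385) (nat_lit 275) (nat_lit 120)) (XT.nd (nat_lit 32058) (nat_lit 0) (nat_lit 6916) (XT.lf (nat_lit 0) (nat_lit 209772808880) (nat_lit 152) (nat_lit 201429710295) (nat_lit 0) (nat_lit 161034911450) (nat_lit 2) (nat_lit 5) (nat_lit 4) (nat_lit 4) (nat_lit 2) (nat_lit 4) (nat_lit 386) (nat_lit 275) (nat_lit 119)) (XT.lf (nat_lit 0) (nat_lit 2771877650) (nat_lit 684) (nat_lit 983130032) (nat_lit 684) (nat_lit 983130032) (nat_lit 93) (nat_lit 3) (nat_lit 102) (nat_lit 3) (nat_lit 102) (nat_lit 5) (nat_lit 276) (nat_lit 276) (nat_lit 228))))) (XT.nd (nat_lit 234) (nat_lit 532) (nat_lit 0) (XT.nd (nat_lit 78) (nat_lit 0) (nat_lit 0) (XT.lf (nat_lit 76) (nat_lit 2380018396) (nat_lit 0)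 (nat_lit 4076192147) (nat_lit 684) (nat_lit 3216417956) (nat_lit 94) (nat_lit 5) (nat_lit 93) (nat_lit 3) (nat_lit 102) (nat_lit 5) (nat_lit 277) (nat_lit 276) (nat_lit 227)) (XT.nd (nat_lit 78) (nat_lit 0) (nat_lit 76) (XT.lf (nat_lit 76) (nat_lit 6986236715) (nat_lit 0) (nat_lit 413792947) (nat_lit 684) (nat_lit 2479601615) (nat_lit 94) (nat_lit 5) (nat_lit 93) (nat_lit 3) (nat_lit 102) (nat_lit 5) (nat_lit 278) (nat_lit 276) (nat_lit 226)) (XT.lf (nat_lit 76) (nat_lit 1699475338) (nat_lit 0) (nat_lit 6726709012) (nat_lit 684) (nat_lit 1669156053) (nat_lit 95) (nat_lit 5) (nat_lit 94) (nat_lit 5) (nat_lit 103) (nat_lit 5) (nat_lit 279) (nat_lit 276) (nat_lit 225)))) (XT.nd (nat_lit 78) (nat_lit 608) (nat_lit 0) (XT.lf (nat_lit 76) (nat_lit 6588749140) (nat_lit 0) (nat_lit 2927329639) (nat_lit 684) (nat_lit 805242642) (nat_lit 95) (nat_lit 5) (nat_lit 94) (nat_lit 5) (nat_lit 103) (nat_lit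 5) (nat_lit 280) (nat_lit 276) (nat_lit 224)) (XT.nd (nat_lit 78) (nat_lit 0) (nat_lit 0) (XT.lf (nat_lit 0) (nat_lit 92102757) (nat_lit 684) (nat_lit 9404007320) (nat_lit 760) (nat_lit 1062835052) (nat_lit 86) (nat_lit 5) (nat_lit 95) (nat_lit 5) (nat_lit 96) (nat_lit 5) (nat_lit 281) (nat_lit 276) (nat_lit 223)) (XT.lf (nat_lit 0) (nat_lit 1079335541) (nat_lit 684) (nat_lit 4479899413) (nat_lit 760) (nat_lit 5245044282) (nat_lit 86) (nat_lit 5) (nat_lit 95) (nat_lit 5) (nat_lit 96) (nat_lit 5) (nat_lit 282) (nat_lit 276) (nat_lit 222))))))))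
noncomputable def xc154 : XT := (XT.nd (nat_lit 1560) (nat_lit 1976) (nat_lit 0) (XT.nd (nat_lit 780) (nat_lit 1444) (nat_lit 0) (XT.nd (nat_lit 390) (nat_lit 912) (nat_lit 0) (XT.nd (nat_lit 156) (nat_lit 532) (nat_lit 0) (XT.nd (nat_lit 78) (nat_lit 0) (nat_lit 76) (XT.lf (nat_lit 76) (nat_lit 684912571) (nat_lit 0) (nat_lit 1403466362) (nat_lit 760) (nat_lit 8974967550) (nat_lit 87) (nat_lit 5) (nat_lit 86) (nat_lit 5) (nat_lit 96) (nat_lit 5) (nat_lit 283) (nat_lit 276) (nat_lit 221)) (XT.lf (nat_lit 0) (nat_lit 3234512319) (nat_lit 684) (nat_lit 5144596926) (nat_lit 760) (nat_lit 2952010606) (nat_lit 87) (nat_lit 5) (nat_lit 96) (nat_lit 5) (nat_lit 97) (nat_lit 5) (nat_lit 284) (nat_lit 276) (nat_lit 220))) (XT.nd (nat_lit 78) (nat_lit 608) (nat_lit 0) (XT.lf (nat_lit 76) (nat_lit 310174279) (nat_lit 0) (nat_lit 4120685089) (nat_lit 760) (nat_lit 7181857789) (nat_lit 88) (nat_lit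 5) (nat_lit 87) (nat_lit 5) (nat_lit 97) (nat_lit 5) (nat_lit 285) (nat_lit 276) (nat_lit 219)) (XT.nd (nat_lit 78) (nat_lit 684) (nat_lit 0) (XT.lf (nat_lit 0) (nat_lit 5747449639) (nat_lit 684) (nat_lit 5723742435) (nat_lit 76) (nat_lit 434257740) (nat_lit 88) (nat_lit 5) (nat_lit 97) (nat_lit 5) (nat_lit 89) (nat_lit 5) (nat_lit 286) (nat_lit 276) (nat_lit 218)) (XT.lf (nat_lit 0) (nat_lit 40017911) (nat_lit 684) (nat_lit 7126025224) (nat_lit 760) (nat_lit 5045040409) (nat_lit 79) (nat_lit 5) (nat_lit 88) (nat_lit 5) (nat_lit 89) (nat_lit 5) (nat_lit 287) (nat_lit 276) (nat_lit 217))))) (XT.nd (nat_lit 156) (nat_lit 912) (nat_lit 0) (XT.nd (nat_lit 78) (nat_lit 0) (nat_lit 0) (XT.lf (nat_lit 0) (nat_lit 6263419876) (nat_lit 684) (nat_lit 2458175817) (nat_lit 760) (nat_lit 3807171438) (nat_lit 79) (nat_lit 5) (nat_lit 88) (nat_lit 5) (nat_lit 89) (nat_lit 5) (nat_lit 288) (nat_lit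 276) (nat_lit 216)) (XT.lf (nat_lit 0) (nat_lit 10363689864) (nat_lit 760) (nat_lit 130041859) (nat_lit 76) (nat_lit 2368231302) (nat_lit 79) (nat_lit 5) (nat_lit 89) (nat_lit 5) (nat_lit 80) (nat_lit 5) (nat_lit 289) (nat_lit 276) (nat_lit 215))) (XT.nd (nat_lit 78) (nat_lit 456) (nat_lit 0) (XT.lf (nat_lit 0) (nat_lit 6451991245) (nat_lit 456) (nat_lit 5748949008) (nat_lit 532) (nat_lit 1005289052) (nat_lit 73) (nat_lit 5) (nat_lit 79) (nat_lit 5) (nat_lit 80) (nat_lit 5) (nat_lit 290) (nat_lit 276) (nat_lit 214)) (XT.nd (nat_lit 78) (nat_lit 380) (nat_lit 0) (XT.lf (nat_lit 0) (nat_lit 519031609) (nat_lit 532) (nat_lit 235562527) (nat_lit 76) (nat_lit 12813998776) (nat_lit 72) (nat_lit 5) (nat_lit 79) (nat_lit 5) (nat_lit 73) (nat_lit 5) (nat_lit 291) (nat_lit 276) (nat_lit 213)) (XT.lf (nat_lit 0) (nat_lit 2237574959) (nat_lit 456) (nat_lit 7232242433) (nat_lit 76) (nat_lit 4470898317)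 (nat_lit 67) (nat_lit 5) (nat_lit 73) (nat_lit 5) (nat_lit 68) (nat_lit 5) (nat_lit 292) (nat_lit 276) (nat_lit 212)))))) (XT.nd (nat_lit 390) (nat_lit 836) (nat_lit 0) (XT.nd (nat_lit 156) (nat_lit 304) (nat_lit 0) (XT.nd (nat_lit 78) (nat_lit 304) (nat_lit 0) (XT.lf (nat_lit 0) (nat_lit 4033092151) (nat_lit 456) (nat_lit 362218894) (nat_lit 76) (nat_lit 9936633235) (nat_lit 67) (nat_lit 5) (nat_lit 73) (nat_lit 5) (nat_lit 68) (nat_lit 5) (nat_lit 293) (nat_lit 276) (nat_lit 211)) (XT.lf (nat_lit 0) (nat_lit 6020669020) (nat_lit 380) (nat_lit 7703001955) (nat_lit 76) (nat_lit 1013998607) (nat_lit 63) (nat_lit 5) (nat_lit 68) (nat_lit 5) (nat_lit 64) (nat_lit 5) (nat_lit 294) (nat_lit 276) (nat_lit 210))) (XT.nd (nat_lit 78) (nat_lit 304) (nat_lit 0) (XT.lf (nat_lit 0) (nat_lit 8162487093) (nat_lit 380) (nat_lit 447514225) (nat_lit 76) (nat_lit 6550983850) (nat_lit 63) (nat_lit 5) (nat_lit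 68) (nat_lit 5) (nat_lit 64) (nat_lit 5) (nat_lit 295) (nat_lit 276) (nat_lit 209)) (XT.nd (nat_lit 78) (nat_lit 0) (nat_lit 0) (XT.lf (nat_lit 0) (nat_lit 7382305040) (nat_lit 304) (nat_lit 3122038227) (nat_lit 380) (nat_lit 5096520798) (nat_lit 59) (nat_lit 5) (nat_lit 63) (nat_lit 5) (nat_lit 64) (nat_lit 5) (nat_lit 296) (nat_lit 276) (nat_lit 208)) (XT.lf (nat_lit 0) (nat_lit 12990547530) (nat_lit 380) (nat_lit 509959157) (nat_lit 76) (nat_lit 2560910209) (nat_lit 59) (nat_lit 5) (nat_lit 64) (nat_lit 5) (nat_lit 60) (nat_lit 5) (nat_lit 297) (nat_lit 276) (nat_lit 207))))) (XT.nd (nat_lit 156) (nat_lit 532) (nat_lit 0) (XT.nd (nat_lit 78) (nat_lit 76) (nat_lit 0) (XT.lf (nat_lit 0) (nat_lit 7756964816) (nat_lit 228) (nat_lit 7995747363) (nat_lit 304) (nat_lit 784743401) (nat_lit 56) (nat_lit 5) (nat_lit 59) (nat_lit 5) (nat_lit 60) (nat_lit 5) (nat_lit 298) (nat_lit 276) (nat_lit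 206)) (XT.lf (nat_lit 0) (nat_lit 1552361233) (nat_lit 304) (nat_lit 631808990) (nat_lit 76) (nat_lit 14852482409) (nat_lit 55) (nat_lit 5) (nat_lit 59) (nat_lit 5) (nat_lit 56) (nat_lit 5) (nat_lit 299) (nat_lit 276) (nat_lit 205))) (XT.nd (nat_lit 78) (nat_lit 228) (nat_lit 0) (XT.lf (nat_lit 0) (nat_lit 4151159521) (nat_lit 380) (nat_lit 9469308789) (nat_lit 76) (nat_lit 3931172621) (nat_lit 51) (nat_lit 5) (nat_lit 56) (nat_lit 5) (nat_lit 52) (nat_lit 5) (nat_lit 300) (nat_lit 276) (nat_lit 204)) (XT.nd (nat_lit 78) (nat_lit 228) (nat_lit 0) (XT.lf (nat_lit 0) (nat_lit 6907658753) (nat_lit 380) (nat_lit 897594965) (nat_lit 76) (nat_lit 10285770375) (nat_lit 51) (nat_lit 5) (nat_lit 56) (nat_lit 5) (nat_lit 52) (nat_lit 5) (nat_lit 301) (nat_lit 276) (nat_lit 203)) (XT.lf (nat_lit 0) (nat_lit 8347116642) (nat_lit 228) (nat_lit 1567168720) (nat_lit 304) (nat_lit 8737507834) (nat_lit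 48) (nat_lit 5) (nat_lit 51) (nat_lit 5) (nat_lit 52) (nat_lit 5) (nat_lit 302) (nat_lit 276) (nat_lit 202))))))) (XT.nd (nat_lit 780) (nat_lit 760) (nat_lit 0) (XT.nd (nat_lit 390) (nat_lit 684) (nat_lit 0) (XT.nd (nat_lit 156) (nat_lit 304) (nat_lit 0) (XT.nd (nat_lit 78) (nat_lit 228) (nat_lit 0) (XT.lf (nat_lit 0) (nat_lit 13146902641) (nat_lit 304) (nat_lit 1255870144) (nat_lit 76) (nat_lit 4834075388) (nat_lit 48) (nat_lit 5) (nat_lit 52) (nat_lit 5) (nat_lit 49) (nat_lit 5) (nat_lit 303) (nat_lit 276) (nat_lit 201)) (XT.lf (nat_lit 0) (nat_lit 8468628822) (nat_lit 228) (nat_lit 8213682888) (nat_lit 304) (nat_lit 3161815077) (nat_lit 45) (nat_lit 5) (nat_lit 48) (nat_lit 5) (nat_lit 49) (nat_lit 5) (nat_lit 304) (nat_lit 276) (nat_lit 200))) (XT.nd (nat_lit 78) (nat_lit 304) (nat_lit 0) (XT.lf (nat_lit 0) (nat_lit 18701204769) (nat_lit 228) (nat_lit 1698263871) (nat_lit 304) (nat_lit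 82079384) (nat_lit 45) (nat_lit 5) (nat_lit 48) (nat_lit 5) (nat_lit 49) (nat_lit 5) (nat_lit 305) (nat_lit 276) (nat_lit 199)) (XT.nd (nat_lit 78) (nat_lit 0) (nat_lit 0) (XT.lf (nat_lit 0) (nat_lit 3250813660) (nat_lit 304) (nat_lit 12729725160) (nat_lit 76) (nat_lit 5157864058) (nat_lit 41) (nat_lit 5) (nat_lit 45) (nat_lit 5) (nat_lit 42) (nat_lit 5) (nat_lit 306) (nat_lit 276) (nat_lit 198)) (XT.lf (nat_lit 0) (nat_lit 6790622211) (nat_lit 304) (nat_lit 2708937229) (nat_lit 76) (nat_lit 12326346102) (nat_lit 41) (nat_lit 5) (nat_lit 45) (nat_lit 5) (nat_lit 42) (nat_lit 5) (nat_lit 307) (nat_lit 276) (nat_lit 197))))) (XT.nd (nat_lit 156) (nat_lit 456) (nat_lit 0) (XT.nd (nat_lit 78) (nat_lit 0) (nat_lit 0) (XT.lf (nat_lit 0) (nat_lit 8049944982) (nat_lit 228) (nat_lit 2568438039) (nat_lit 304) (nat_lit 11923874898) (nat_lit 38) (nat_lit 5) (nat_lit 41) (nat_lit 5) (nat_lit 42)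 (nat_lit 5) (nat_lit 308) (nat_lit 276) (nat_lit 196)) (XT.lf (nat_lit 0) (nat_lit 14743257293) (nat_lit 304) (nat_lit 3946498415) (nat_lit 76) (nat_lit 4599407531) (nat_lit 38) (nat_lit 5) (nat_lit 42) (nat_lit 5) (nat_lit 39) (nat_lit 5) (nat_lit 309) (nat_lit 276) (nat_lit 195))) (XT.nd (nat_lit 78) (nat_lit 304) (nat_lit 0) (XT.lf (nat_lit 0) (nat_lit 7298176778) (nat_lit 152) (nat_lit 11918507839) (nat_lit 228) (nat_lit 4849634307) (nat_lit 36) (nat_lit 5) (nat_lit 38) (nat_lit 5) (nat_lit 39) (nat_lit 5) (nat_lit 310) (nat_lit 276) (nat_lit 194)) (XT.nd (nat_lit 78) (nat_lit 304) (nat_lit 0) (XT.lf (nat_lit 0) (nat_lit 19222508656) (nat_lit 152) (nat_lit 4744717798) (nat_lit 228) (nat_lit 912453367) (nat_lit 36) (nat_lit 5) (nat_lit 38) (nat_lit 5) (nat_lit 39) (nat_lit 5) (nat_lit 311) (nat_lit 276) (nat_lit 193)) (XT.lf (nat_lit 0) (nat_lit 3247123504) (nat_lit 304) (nat_lit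 19636547702) (nat_lit 76) (nat_lit 2841108034) (nat_lit 32) (nat_lit 5) (nat_lit 36) (nat_lit 5) (nat_lit 33) (nat_lit 5) (nat_lit 312) (nat_lit 276) (nat_lit 192)))))) (XT.nd (nat_lit 390) (nat_lit 456) (nat_lit 0) (XT.nd (nat_lit 156) (nat_lit 152) (nat_lit 0) (XT.nd (nat_lit 78) (nat_lit 152) (nat_lit 0) (XT.lf (nat_lit 0) (nat_lit 7746421357) (nat_lit 304) (nat_lit 8103696328) (nat_lit 76) (nat_lit 10753164623) (nat_lit 32) (nat_lit 5) (nat_lit 36) (nat_lit 5) (nat_lit 33) (nat_lit 5) (nat_lit 313) (nat_lit 276) (nat_lit 191)) (XT.lf (nat_lit 0) (nat_lit 4119208962) (nat_lit 152) (nat_lit 8403641591) (nat_lit 228) (nat_lit 15000267768) (nat_lit 30) (nat_lit 5) (nat_lit 32) (nat_lit 5) (nat_lit 33) (nat_lit 5) (nat_lit 314) (nat_lit 276) (nat_lit 190))) (XT.nd (nat_lit 78) (nat_lit 152) (nat_lit 0) (XT.lf (nat_lit 0) (nat_lit 17216469735) (nat_lit 152) (nat_lit 447020838) (nat_lit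 228) (nat_lit 10819201440) (nat_lit 30) (nat_lit 5) (nat_lit 32) (nat_lit 5) (nat_lit 33) (nat_lit 5) (nat_lit 315) (nat_lit 276) (nat_lit 189)) (XT.nd (nat_lit 78) (nat_lit 0) (nat_lit 0) (XT.lf (nat_lit 0) (nat_lit 1381349886) (nat_lit 152) (nat_lit 21813456874) (nat_lit 228) (nat_lit 6288770036) (nat_lit 28) (nat_lit 5) (nat_lit 30) (nat_lit 5) (nat_lit 31) (nat_lit 5) (nat_lit 316) (nat_lit 276) (nat_lit 188)) (XT.lf (nat_lit 0) (nat_lit 15027400361) (nat_lit 152) (nat_lit 14162186774) (nat_lit 228) (nat_lit 1335587685) (nat_lit 28) (nat_lit 5) (nat_lit 30) (nat_lit 5) (nat_lit 31) (nat_lit 5) (nat_lit 317) (nat_lit 276) (nat_lit 187))))) (XT.nd (nat_lit 234) (nat_lit 228) (nat_lit 0) (XT.nd (nat_lit 78) (nat_lit 152) (nat_lit 0) (XT.lf (nat_lit 0) (nat_lit 3730773738) (nat_lit 228) (nat_lit 2340451278) (nat_lit 76) (nat_lit 25545161370) (nat_lit 27) (nat_lit 5) (nat_lit 30) (nat_lit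 5) (nat_lit 28) (nat_lit 5) (nat_lit 318) (nat_lit 276) (nat_lit 186)) (XT.nd (nat_lit 78) (nat_lit 0) (nat_lit 0) (XT.lf (nat_lit 0) (nat_lit 9220915813) (nat_lit 228) (nat_lit 20978709791) (nat_lit 76) (nat_lit 2550682853) (nat_lit 25) (nat_lit 5) (nat_lit 28) (nat_lit 5) (nat_lit 26) (nat_lit 5) (nat_lit 319) (nat_lit 276) (nat_lit 185)) (XT.lf (nat_lit 0) (nat_lit 15115271864) (nat_lit 228) (nat_lit 7384969902) (nat_lit 76) (nat_lit 11434210973) (nat_lit 25) (nat_lit 5) (nat_lit 28) (nat_lit 5) (nat_lit 26) (nat_lit 5) (nat_lit 320) (nat_lit 276) (nat_lit 184)))) (XT.nd (nat_lit 78) (nat_lit 76) (nat_lit 0) (XT.lf (nat_lit 0) (nat_lit 7100130905) (nat_lit 152) (nat_lit 14305441218) (nat_lit 228) (nat_lit 13767181700) (nat_lit 23) (nat_lit 5) (nat_lit 25) (nat_lit 5) (nat_lit 26) (nat_lit 5) (nat_lit 321) (nat_lit 276) (nat_lit 183)) (XT.nd (nat_lit 78) (nat_lit 76) (nat_lit 0) (XT.lf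 (nat_lit 0) (nat_lit 22550552829) (nat_lit 152) (nat_lit 5575495234) (nat_lit 228) (nat_lit 8341149250) (nat_lit 23) (nat_lit 5) (nat_lit 25) (nat_lit 5) (nat_lit 26) (nat_lit 5) (nat_lit 322) (nat_lit 276) (nat_lit 182)) (XT.lf (nat_lit 0) (nat_lit 905072468) (nat_lit 76) (nat_lit 34338623444) (nat_lit 152) (nat_lit 2579619553) (nat_lit 22) (nat_lit 5) (nat_lit 23) (nat_lit 5) (nat_lit 24) (nat_lit 4) (nat_lit 323) (nat_lit 276) (nat_lit 181))))))))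
noncomputable def xc155 : XT := (XT.nd (nat_lit 1560) (nat_lit 456) (nat_lit 0) (XT.nd (nat_lit 780) (nat_lit 304) (nat_lit 0) (XT.nd (nat_lit 390) (nat_lit 304) (nat_lit 0) (XT.nd (nat_lit 156) (nat_lit 152) (nat_lit 0) (XT.nd (nat_lit 78) (nat_lit 0) (nat_lit 0) (XT.lf (nat_lit 0) (nat_lit 3680875206) (nat_lit 152) (nat_lit 22448895831) (nat_lit 76) (nat_lit 13098671158) (nat_lit 21) (nat_lit 5) (nat_lit 23) (nat_lit 5) (nat_lit 22) (nat_lit 5) (nat_lit 324) (nat_lit 276) (nat_lit 180)) (XT.lf (nat_lit 0) (nat_lit 10159130629) (nat_lit 152) (nat_lit 7312683326) (nat_lit 76) (nat_lit 23230334007) (nat_lit 21) (nat_lit 5) (nat_lit 23) (nat_lit 5) (nat_lit 22) (nat_lit 5) (nat_lit 325) (nat_lit 276) (nat_lit 179))) (XT.nd (nat_lit 78) (nat_lit 0) (nat_lit 0) (XT.lf (nat_lit 0) (nat_lit 8849962269) (nat_lit 152) (nat_lit 8241345511) (nat_lit 228) (nat_lit 25151738927) (nat_lit 19) (nat_lit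 5) (nat_lit 21) (nat_lit 5) (nat_lit 22) (nat_lit 5) (nat_lit 326) (nat_lit 276) (nat_lit 178)) (XT.nd (nat_lit 78) (nat_lit 0) (nat_lit 0) (XT.lf (nat_lit 0) (nat_lit 24510547367) (nat_lit 228) (nat_lit 17818591050) (nat_lit 76) (nat_lit 1524837045) (nat_lit 19) (nat_lit 5) (nat_lit 22) (nat_lit 5) (nat_lit 20) (nat_lit 4) (nat_lit 327) (nat_lit 276) (nat_lit 177)) (XT.lf (nat_lit 0) (nat_lit 32428168067) (nat_lit 228) (nat_lit 1613556984) (nat_lit 76) (nat_lit 11497362028) (nat_lit 19) (nat_lit 5) (nat_lit 22) (nat_lit 5) (nat_lit 20) (nat_lit 4) (nat_lit 328) (nat_lit 276) (nat_lit 176))))) (XT.nd (nat_lit 156) (nat_lit 152) (nat_lit 0) (XT.nd (nat_lit 78) (nat_lit 76) (nat_lit 0) (XT.lf (nat_lit 0) (nat_lit 15898110493) (nat_lit 76) (nat_lit 25084454425) (nat_lit 152) (nat_lit 6313851635) (nat_lit 18) (nat_lit 5) (nat_lit 19) (nat_lit 5) (nat_lit 20) (nat_lit 4) (nat_lit 329) (nat_lit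 276) (nat_lit 175)) (XT.lf (nat_lit 0) (nat_lit 817214437) (nat_lit 152) (nat_lit 14824667636) (nat_lit 76) (nat_lit 33498069849) (nat_lit 17) (nat_lit 5) (nat_lit 19) (nat_lit 5) (nat_lit 18) (nat_lit 5) (nat_lit 330) (nat_lit 276) (nat_lit 174))) (XT.nd (nat_lit 78) (nat_lit 0) (nat_lit 0) (XT.lf (nat_lit 0) (nat_lit 2543651621) (nat_lit 152) (nat_lit 5581770179) (nat_lit 228) (nat_lit 42943434304) (nat_lit 15) (nat_lit 5) (nat_lit 17) (nat_lit 5) (nat_lit 18) (nat_lit 5) (nat_lit 331) (nat_lit 276) (nat_lit 173)) (XT.nd (nat_lit 78) (nat_lit 0) (nat_lit 0) (XT.lf (nat_lit 0) (nat_lit 16125122909) (nat_lit 228) (nat_lit 31880459552) (nat_lit 76) (nat_lit 5072324649) (nat_lit 15) (nat_lit 5) (nat_lit 18) (nat_lit 5) (nat_lit 16) (nat_lit 4) (nat_lit 332) (nat_lit 276) (nat_lit 172)) (XT.lf (nat_lit 0) (nat_lit 24609772435) (nat_lit 228) (nat_lit 14506395567) (nat_lit 76) (nat_lit 16067000005)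 (nat_lit 15) (nat_lit 5) (nat_lit 18) (nat_lit 5) (nat_lit 16) (nat_lit 4) (nat_lit 333) (nat_lit 276) (nat_lit 171)))))) (XT.nd (nat_lit 390) (nat_lit 76) (nat_lit 0) (XT.nd (nat_lit 156) (nat_lit 152) (nat_lit 0) (XT.nd (nat_lit 78) (nat_lit 0) (nat_lit 0) (XT.lf (nat_lit 0) (nat_lit 3848683265) (nat_lit 76) (nat_lit 29723830316) (nat_lit 152) (nat_lit 23818490657) (nat_lit 14) (nat_lit 5) (nat_lit 15) (nat_lit 5) (nat_lit 16) (nat_lit 4) (nat_lit 334) (nat_lit 276) (nat_lit 170)) (XT.lf (nat_lit 0) (nat_lit 23614450412) (nat_lit 76) (nat_lit 19608514282) (nat_lit 152) (nat_lit 16474293936) (nat_lit 14) (nat_lit 5) (nat_lit 15) (nat_lit 5) (nat_lit 16) (nat_lit 4) (nat_lit 335) (nat_lit 276) (nat_lit 169))) (XT.nd (nat_lit 78) (nat_lit 152) (nat_lit 0) (XT.lf (nat_lit 0) (nat_lit 44358320275) (nat_lit 76) (nat_lit 8991808643) (nat_lit 152) (nat_lit 8768992055) (nat_lit 14) (nat_lit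 5) (nat_lit 15) (nat_lit 5) (nat_lit 16) (nat_lit 4) (nat_lit 336) (nat_lit 276) (nat_lit 168)) (XT.nd (nat_lit 78) (nat_lit 76) (nat_lit 0) (XT.lf (nat_lit 0) (nat_lit 1481139164) (nat_lit 76) (nat_lit 62553696067) (nat_lit 76) (nat_lit 624686539) (nat_lit 13) (nat_lit 4) (nat_lit 14) (nat_lit 5) (nat_lit 14) (nat_lit 4) (nat_lit 337) (nat_lit 276) (nat_lit 167)) (XT.lf (nat_lit 0) (nat_lit 8120673735) (nat_lit 152) (nat_lit 45296155350) (nat_lit 76) (nat_lit 13881552245) (nat_lit 12) (nat_lit 5) (nat_lit 14) (nat_lit 5) (nat_lit 13) (nat_lit 4) (nat_lit 338) (nat_lit 276) (nat_lit 166))))) (XT.nd (nat_lit 156) (nat_lit 76) (nat_lit 0) (XT.nd (nat_lit 78) (nat_lit 0) (nat_lit 0) (XT.lf (nat_lit 0) (nat_lit 17276996351) (nat_lit 152) (nat_lit 26539529207) (nat_lit 76) (nat_lit 26252415791) (nat_lit 12) (nat_lit 5) (nat_lit 14) (nat_lit 5) (nat_lit 13) (nat_lit 4) (nat_lit 339) (nat_lit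 276) (nat_lit 165)) (XT.lf (nat_lit 0) (nat_lit 26886075945) (nat_lit 152) (nat_lit 6854092439) (nat_lit 76) (nat_lit 39238117672) (nat_lit 12) (nat_lit 5) (nat_lit 14) (nat_lit 5) (nat_lit 13) (nat_lit 4) (nat_lit 340) (nat_lit 276) (nat_lit 164))) (XT.nd (nat_lit 78) (nat_lit 0) (nat_lit 0) (XT.lf (nat_lit 0) (nat_lit 14263547644) (nat_lit 76) (nat_lit 22929937586) (nat_lit 152) (nat_lit 38828722532) (nat_lit 11) (nat_lit 5) (nat_lit 12) (nat_lit 5) (nat_lit 13) (nat_lit 4) (nat_lit 341) (nat_lit 276) (nat_lit 163)) (XT.nd (nat_lit 78) (nat_lit 0) (nat_lit 0) (XT.lf (nat_lit 0) (nat_lit 36666575787) (nat_lit 76) (nat_lit 11461045797) (nat_lit 152) (nat_lit 31085139521) (nat_lit 11) (nat_lit 5) (nat_lit 12) (nat_lit 5) (nat_lit 13) (nat_lit 4) (nat_lit 342) (nat_lit 276) (nat_lit 162)) (XT.lf (nat_lit 0) (nat_lit 59612988873) (nat_lit 152) (nat_lit 22390384940) (nat_lit 0) (nat_lit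 559245319) (nat_lit 11) (nat_lit 5) (nat_lit 13) (nat_lit 4) (nat_lit 11) (nat_lit 4) (nat_lit 343) (nat_lit 276) (nat_lit 161))))))) (XT.nd (nat_lit 780) (nat_lit 228) (nat_lit 0) (XT.nd (nat_lit 390) (nat_lit 76) (nat_lit 0) (XT.nd (nat_lit 156) (nat_lit 76) (nat_lit 0) (XT.nd (nat_lit 78) (nat_lit 76) (nat_lit 0) (XT.lf (nat_lit 0) (nat_lit 71856175798) (nat_lit 152) (nat_lit 1422511573) (nat_lit 0) (nat_lit 12792108191) (nat_lit 11) (nat_lit 5) (nat_lit 13) (nat_lit 4) (nat_lit 11) (nat_lit 4) (nat_lit 344) (nat_lit 276) (nat_lit 160)) (XT.lf (nat_lit 0) (nat_lit 21266973295) (nat_lit 76) (nat_lit 63772457521) (nat_lit 76) (nat_lit 4698557481) (nat_lit 10) (nat_lit 4) (nat_lit 11) (nat_lit 5) (nat_lit 11) (nat_lit 4) (nat_lit 345) (nat_lit 276) (nat_lit 159))) (XT.nd (nat_lit 78) (nat_lit 0) (nat_lit 0) (XT.lf (nat_lit 0) (nat_lit 5144259548) (nat_lit 152) (nat_lit 48537532187) (nat_lit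 76) (nat_lit 39901600890) (nat_lit 9) (nat_lit 5) (nat_lit 11) (nat_lit 5) (nat_lit 10) (nat_lit 4) (nat_lit 346) (nat_lit 276) (nat_lit 158)) (XT.nd (nat_lit 78) (nat_lit 0) (nat_lit 0) (XT.lf (nat_lit 0) (nat_lit 15317395743) (nat_lit 152) (nat_lit 27691521292) (nat_lit 76) (nat_lit 54608497346) (nat_lit 9) (nat_lit 5) (nat_lit 11) (nat_lit 5) (nat_lit 10) (nat_lit 4) (nat_lit 347) (nat_lit 276) (nat_lit 157)) (XT.lf (nat_lit 0) (nat_lit 25995456040) (nat_lit 152) (nat_lit 5809991308) (nat_lit 76) (nat_lit 70047878917) (nat_lit 9) (nat_lit 5) (nat_lit 11) (nat_lit 5) (nat_lit 10) (nat_lit 4) (nat_lit 348) (nat_lit 276) (nat_lit 156))))) (XT.nd (nat_lit 156) (nat_lit 0) (nat_lit 0) (XT.nd (nat_lit 78) (nat_lit 0) (nat_lit 0) (XT.lf (nat_lit 0) (nat_lit 17726515857) (nat_lit 76) (nat_lit 19754109125) (nat_lit 152) (nat_lit 68806750768) (nat_lit 8) (nat_lit 5) (nat_lit 9) (nat_lit 5)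 (nat_lit 10) (nat_lit 4) (nat_lit 349) (nat_lit 276) (nat_lit 155)) (XT.lf (nat_lit 0) (nat_lit 42635203799) (nat_lit 76) (nat_lit 6999758700) (nat_lit 152) (nat_lit 61303421883) (nat_lit 8) (nat_lit 5) (nat_lit 9) (nat_lit 5) (nat_lit 10) (nat_lit 4) (nat_lit 350) (nat_lit 276) (nat_lit 154))) (XT.nd (nat_lit 78) (nat_lit 0) (nat_lit 0) (XT.lf (nat_lit 0) (nat_lit 62493457148) (nat_lit 152) (nat_lit 47138596297) (nat_lit 0) (nat_lit 6185070064) (nat_lit 8) (nat_lit 5) (nat_lit 10) (nat_lit 4) (nat_lit 8) (nat_lit 4) (nat_lit 351) (nat_lit 276) (nat_lit 153)) (XT.nd (nat_lit 78) (nat_lit 0) (nat_lit 0) (XT.lf (nat_lit 0) (nat_lit 76106425142) (nat_lit 152) (nat_lit 25036415917) (nat_lit 0) (nat_lit 19791383081) (nat_lit 8) (nat_lit 5) (nat_lit 10) (nat_lit 4) (nat_lit 8) (nat_lit 4) (nat_lit 352) (nat_lit 276) (nat_lit 152)) (XT.lf (nat_lit 0) (nat_lit 90396992460) (nat_lit 152) (nat_lit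 1834729354) (nat_lit 0) (nat_lit 34075612325) (nat_lit 8) (nat_lit 5) (nat_lit 10) (nat_lit 4) (nat_lit 8) (nat_lit 4) (nat_lit 353) (nat_lit 276) (nat_lit 151)))))) (XT.nd (nat_lit 390) (nat_lit 76) (nat_lit 0) (XT.nd (nat_lit 156) (nat_lit 76) (nat_lit 0) (XT.nd (nat_lit 78) (nat_lit 0) (nat_lit 0) (XT.lf (nat_lit 0) (nat_lit 23266374796) (nat_lit 76) (nat_lit 82496062780) (nat_lit 76) (nat_lit 26168646385) (nat_lit 7) (nat_lit 4) (nat_lit 8) (nat_lit 5) (nat_lit 8) (nat_lit 4) (nat_lit 354) (nat_lit 276) (nat_lit 150)) (XT.lf (nat_lit 0) (nat_lit 49680981845) (nat_lit 76) (nat_lit 72243397563) (nat_lit 76) (nat_lit 15910232349) (nat_lit 7) (nat_lit 4) (nat_lit 8) (nat_lit 5) (nat_lit 8) (nat_lit 4) (nat_lit 355) (nat_lit 276) (nat_lit 149))) (XT.nd (nat_lit 78) (nat_lit 76) (nat_lit 0) (XT.lf (nat_lit 0) (nat_lit 77411319276) (nat_lit 76) (nat_lit 61480387087) (nat_lit 76) (nat_lit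 5141746806) (nat_lit 7) (nat_lit 4) (nat_lit 8) (nat_lit 5) (nat_lit 8) (nat_lit 4) (nat_lit 356) (nat_lit 276) (nat_lit 148)) (XT.nd (nat_lit 78) (nat_lit 0) (nat_lit 0) (XT.lf (nat_lit 0) (nat_lit 5965212624) (nat_lit 152) (nat_lit 44115168748) (nat_lit 76) (nat_lit 100457175314) (nat_lit 6) (nat_lit 5) (nat_lit 8) (nat_lit 5) (nat_lit 7) (nat_lit 4) (nat_lit 357) (nat_lit 276) (nat_lit 147)) (XT.lf (nat_lit 0) (nat_lit 17452222028) (nat_lit 152) (nat_lit 20571765517) (nat_lit 76) (nat_lit 119338789773) (nat_lit 6) (nat_lit 5) (nat_lit 8) (nat_lit 5) (nat_lit 7) (nat_lit 4) (nat_lit 358) (nat_lit 276) (nat_lit 146))))) (XT.nd (nat_lit 234) (nat_lit 0) (nat_lit 0) (XT.nd (nat_lit 78) (nat_lit 0) (nat_lit 0) (XT.lf (nat_lit 0) (nat_lit 4281441464) (nat_lit 76) (nat_lit 25296603271) (nat_lit 152) (nat_lit 134947992442) (nat_lit 5) (nat_lit 5) (nat_lit 6) (nat_lit 5) (nat_lit 7) (nat_lit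 4) (nat_lit 359) (nat_lit 276) (nat_lit 145)) (XT.nd (nat_lit 78) (nat_lit 0) (nat_lit 0) (XT.lf (nat_lit 0) (nat_lit 31087185721) (nat_lit 76) (nat_lit 11569029066) (nat_lit 152) (nat_lit 129373943706) (nat_lit 5) (nat_lit 5) (nat_lit 6) (nat_lit 5) (nat_lit 7) (nat_lit 4) (nat_lit 360) (nat_lit 276) (nat_lit 144)) (XT.lf (nat_lit 0) (nat_lit 56430455634) (nat_lit 152) (nat_lit 120724890995) (nat_lit 0) (nat_lit 2752032347) (nat_lit 5) (nat_lit 5) (nat_lit 7) (nat_lit 4) (nat_lit 5) (nat_lit 4) (nat_lit 361) (nat_lit 276) (nat_lit 143)))) (XT.nd (nat_lit 78) (nat_lit 0) (nat_lit 0) (XT.lf (nat_lit 0) (nat_lit 71080917173) (nat_lit 152) (nat_lit 99689566174) (nat_lit 0) (nat_lit 17398602858) (nat_lit 5) (nat_lit 5) (nat_lit 7) (nat_lit 4) (nat_lit 5) (nat_lit 4) (nat_lit 362) (nat_lit 276) (nat_lit 142)) (XT.nd (nat_lit 78) (nat_lit 0) (nat_lit 0) (XT.lf (nat_lit 0) (nat_lit 86461856489)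 (nat_lit 152) (nat_lit 77606289238) (nat_lit 0) (nat_lit 32775836434) (nat_lit 5) (nat_lit 5) (nat_lit 7) (nat_lit 4) (nat_lit 5) (nat_lit 4) (nat_lit 363) (nat_lit 276) (nat_lit 141)) (XT.lf (nat_lit 0) (nat_lit 102609894867) (nat_lit 152) (nat_lit 54422480957) (nat_lit 0) (nat_lit 48920345536) (nat_lit 5) (nat_lit 5) (nat_lit 7) (nat_lit 4) (nat_lit 5) (nat_lit 4) (nat_lit 364) (nat_lit 276) (nat_lit 140))))))))
noncomputable def xc156 : XT := (XT.nd (nat_lit 1560) (nat_lit 0) (nat_lit 0) (XT.nd (nat_lit 780) (nat_lit 152) (nat_lit 0) (XT.nd (nat_lit 390) (nat_lit 0) (nat_lit 0) (XT.nd (nat_lit 156) (nat_lit 76) (nat_lit 0) (XT.nd (nat_lit 78) (nat_lit 0) (nat_lit 0) (XT.lf (nat_lit 0) (nat_lit 119563480017) (nat_lit 152) (nat_lit 30082941787) (nat_lit 0) (nat_lit 65870569470) (nat_lit 5) (nat_lit 5) (nat_lit 7) (nat_lit 4) (nat_lit 5) (nat_lit 4) (nat_lit 365) (nat_lit 276) (nat_lit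 139)) (XT.lf (nat_lit 0) (nat_lit 137362977618) (nat_lit 152) (nat_lit 4529720444) (nat_lit 0) (nat_lit 83666865913) (nat_lit 5) (nat_lit 5) (nat_lit 7) (nat_lit 4) (nat_lit 5) (nat_lit 4) (nat_lit 366) (nat_lit 276) (nat_lit 138))) (XT.nd (nat_lit 78) (nat_lit 0) (nat_lit 0) (XT.lf (nat_lit 0) (nat_lit 23035297450) (nat_lit 76) (nat_lit 133375115525) (nat_lit 76) (nat_lit 79675955098) (nat_lit 4) (nat_lit 4) (nat_lit 5) (nat_lit 5) (nat_lit 5) (nat_lit 4) (nat_lit 367) (nat_lit 276) (nat_lit 137)) (XT.nd (nat_lit 78) (nat_lit 0) (nat_lit 0) (XT.lf (nat_lit 0) (nat_lit 52132740626) (nat_lit 76) (nat_lit 124352541736) (nat_lit 76) (nat_lit 70650477765) (nat_lit 4) (nat_lit 4) (nat_lit 5) (nat_lit 5) (nat_lit 5) (nat_lit 4) (nat_lit 368) (nat_lit 276) (nat_lit 136)) (XT.lf (nat_lit 0) (nat_lit 82682115694) (nat_lit 76) (nat_lit 114880207384) (nat_lit 76) (nat_lit 61175378133) (nat_lit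 4) (nat_lit 4) (nat_lit 5) (nat_lit 5) (nat_lit 5) (nat_lit 4) (nat_lit 369) (nat_lit 276) (nat_lit 135))))) (XT.nd (nat_lit 156) (nat_lit 0) (nat_lit 0) (XT.nd (nat_lit 78) (nat_lit 0) (nat_lit 0) (XT.lf (nat_lit 0) (nat_lit 114756159261) (nat_lit 76) (nat_lit 104935559293) (nat_lit 76) (nat_lit 51228096441) (nat_lit 4) (nat_lit 4) (nat_lit 5) (nat_lit 5) (nat_lit 5) (nat_lit 4) (nat_lit 370) (nat_lit 276) (nat_lit 134)) (XT.lf (nat_lit 0) (nat_lit 148431238098) (nat_lit 76) (nat_lit 94494919729) (nat_lit 76) (nat_lit 40784948686) (nat_lit 4) (nat_lit 4) (nat_lit 5) (nat_lit 5) (nat_lit 5) (nat_lit 4) (nat_lit 371) (nat_lit 276) (nat_lit 133))) (XT.nd (nat_lit 78) (nat_lit 0) (nat_lit 0) (XT.lf (nat_lit 0) (nat_lit 183787530964) (nat_lit 76) (nat_lit 83533430026) (nat_lit 76) (nat_lit 29821070230) (nat_lit 4) (nat_lit 4) (nat_lit 5) (nat_lit 5) (nat_lit 5) (nat_lit 4) (nat_lit 372)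 (nat_lit 276) (nat_lit 132)) (XT.nd (nat_lit 78) (nat_lit 0) (nat_lit 0) (XT.lf (nat_lit 0) (nat_lit 220909219509) (nat_lit 76) (nat_lit 72024991400) (nat_lit 76) (nat_lit 18310356600) (nat_lit 4) (nat_lit 4) (nat_lit 5) (nat_lit 5) (nat_lit 5) (nat_lit 4) (nat_lit 373) (nat_lit 276) (nat_lit 131)) (XT.lf (nat_lit 0) (nat_lit 259884688705) (nat_lit 76) (nat_lit 59942202805) (nat_lit 76) (nat_lit 6225401336) (nat_lit 4) (nat_lit 4) (nat_lit 5) (nat_lit 5) (nat_lit 5) (nat_lit 4) (nat_lit 374) (nat_lit 276) (nat_lit 130)))))) (XT.nd (nat_lit 390) (nat_lit 0) (nat_lit 0) (XT.nd (nat_lit 156) (nat_lit 76) (nat_lit 0) (XT.nd (nat_lit 78) (nat_lit 0) (nat_lit 0) (XT.lf (nat_lit 0) (nat_lit 6255726689) (nat_lit 152) (nat_lit 40894625251) (nat_lit 76) (nat_lit 294445066841) (nat_lit 3) (nat_lit 5) (nat_lit 5) (nat_lit 5) (nat_lit 4) (nat_lit 4) (nat_lit 375) (nat_lit 276) (nat_lit 129)) (XT.lf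 (nat_lit 0) (nat_lit 19150560637) (nat_lit 152) (nat_lit 14462180890) (nat_lit 76) (nat_lit 324297914060) (nat_lit 3) (nat_lit 5) (nat_lit 5) (nat_lit 5) (nat_lit 4) (nat_lit 4) (nat_lit 376) (nat_lit 276) (nat_lit 128))) (XT.nd (nat_lit 78) (nat_lit 0) (nat_lit 0) (XT.lf (nat_lit 0) (nat_lit 13729282058) (nat_lit 76) (nat_lit 19174124725) (nat_lit 152) (nat_lit 342127584457) (nat_lit 2) (nat_lit 5) (nat_lit 3) (nat_lit 5) (nat_lit 4) (nat_lit 4) (nat_lit 377) (nat_lit 276) (nat_lit 127)) (XT.nd (nat_lit 78) (nat_lit 0) (nat_lit 0) (XT.lf (nat_lit 0) (nat_lit 43830418707) (nat_lit 76) (nat_lit 3757338892) (nat_lit 152) (nat_lit 345407393462) (nat_lit 2) (nat_lit 5) (nat_lit 3) (nat_lit 5) (nat_lit 4) (nat_lit 4) (nat_lit 378) (nat_lit 276) (nat_lit 126)) (XT.lf (nat_lit 0) (nat_lit 63199372588) (nat_lit 152) (nat_lit 336616914240) (nat_lit 0) (nat_lit 12031580193) (nat_lit 2) (nat_lit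 5) (nat_lit 4) (nat_lit 4) (nat_lit 2) (nat_lit 4) (nat_lit 379) (nat_lit 276) (nat_lit 125))))) (XT.nd (nat_lit 156) (nat_lit 0) (nat_lit 0) (XT.nd (nat_lit 78) (nat_lit 0) (nat_lit 0) (XT.lf (nat_lit 0) (nat_lit 79652187882) (nat_lit 152) (nat_lit 323505144702) (nat_lit 0) (nat_lit 28482855676) (nat_lit 2) (nat_lit 5) (nat_lit 4) (nat_lit 4) (nat_lit 2) (nat_lit 4) (nat_lit 380) (nat_lit 276) (nat_lit 124)) (XT.lf (nat_lit 0) (nat_lit 96926714262) (nat_lit 152) (nat_lit 309739542651) (nat_lit 0) (nat_lit 45755915568) (nat_lit 2) (nat_lit 5) (nat_lit 4) (nat_lit 4) (nat_lit 2) (nat_lit 4) (nat_lit 381) (nat_lit 276) (nat_lit 123))) (XT.nd (nat_lit 78) (nat_lit 0) (nat_lit 0) (XT.lf (nat_lit 0) (nat_lit 115064081551) (nat_lit 152) (nat_lit 295287332845) (nat_lit 0) (nat_lit 63891886202) (nat_lit 2) (nat_lit 5) (nat_lit 4) (nat_lit 4) (nat_lit 2) (nat_lit 4) (nat_lit 382) (nat_lit 276)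 (nat_lit 122)) (XT.nd (nat_lit 78) (nat_lit 0) (nat_lit 0) (XT.lf (nat_lit 0) (nat_lit 134107473957) (nat_lit 152) (nat_lit 280114105259) (nat_lit 0) (nat_lit 82933948462) (nat_lit 2) (nat_lit 5) (nat_lit 4) (nat_lit 4) (nat_lit 2) (nat_lit 4) (nat_lit 383) (nat_lit 276) (nat_lit 121)) (XT.lf (nat_lit 0) (nat_lit 154102232891) (nat_lit 152) (nat_lit 264183733162) (nat_lit 0) (nat_lit 102927440589) (nat_lit 2) (nat_lit 5) (nat_lit 4) (nat_lit 4) (nat_lit 2) (nat_lit 4) (nat_lit 384) (nat_lit 276) (nat_lit 120))))))) (XT.nd (nat_lit 32838) (nat_lit 0) (nat_lit 4636) (XT.nd (nat_lit 32448) (nat_lit 0) (nat_lit 6308) (XT.nd (nat_lit 32214) (nat_lit 0) (nat_lit 6916) (XT.nd (nat_lit 78) (nat_lit 0) (nat_lit 0) (XT.lf (nat_lit 0) (nat_lit 175095964923) (nat_lit 152) (nat_lit 247458287097) (nat_lit 0) (nat_lit 123919966138) (nat_lit 2) (nat_lit 5) (nat_lit 4) (nat_lit 4) (nat_lit 2) (nat_lit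 4) (nat_lit 385) (nat_lit 276) (nat_lit 119)) (XT.lf (nat_lit 0) (nat_lit 197138655127) (nat_lit 152) (nat_lit 229897944572) (nat_lit 0) (nat_lit 145961507311) (nat_lit 2) (nat_lit 5) (nat_lit 4) (nat_lit 4) (nat_lit 2) (nat_lit 4) (nat_lit 386) (nat_lit 276) (nat_lit 118))) (XT.nd (nat_lit 78) (nat_lit 0) (nat_lit 0) (XT.lf (nat_lit 0) (nat_lit 3635672144) (nat_lit 684) (nat_lit 650640364) (nat_lit 684) (nat_lit 650640364) (nat_lit 93) (nat_lit 3) (nat_lit 102) (nat_lit 3) (nat_lit 102) (nat_lit 5) (nat_lit 277) (nat_lit 277) (nat_lit 226)) (XT.nd (nat_lit 78) (nat_lit 0) (nat_lit 0) (XT.lf (nat_lit 76) (nat_lit 3250000488) (nat_lit 0) (nat_lit 4922080001) (nat_lit 684) (nat_lit 1911037517) (nat_lit 94) (nat_lit 5) (nat_lit 93) (nat_lit 3) (nat_lit 102) (nat_lit 5) (nat_lit 278) (nat_lit 277) (nat_lit 225)) (XT.lf (nat_lit 76) (nat_lit 8050768715) (nat_lit 0) (nat_lit 1045985686) (nat_lit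 684) (nat_lit 1207199470) (nat_lit 94) (nat_lit 5) (nat_lit 93) (nat_lit 3) (nat_lit 102) (nat_lit 5) (nat_lit 279) (nat_lit 277) (nat_lit 224))))) (XT.nd (nat_lit 156) (nat_lit 0) (nat_lit 76) (XT.nd (nat_lit 78) (nat_lit 684) (nat_lit 0) (XT.lf (nat_lit 76) (nat_lit 2566062186) (nat_lit 0) (nat_lit 7548087865) (nat_lit 684) (nat_lit 419459969) (nat_lit 95) (nat_lit 5) (nat_lit 94) (nat_lit 5) (nat_lit 103) (nat_lit 5) (nat_lit 280) (nat_lit 277) (nat_lit 223)) (XT.lf (nat_lit 0) (nat_lit 410589644) (nat_lit 684) (nat_lit 3118099039) (nat_lit 760) (nat_lit 7245036829) (nat_lit 85) (nat_lit 5) (nat_lit 94) (nat_lit 5) (nat_lit 95) (nat_lit 5) (nat_lit 281) (nat_lit 277) (nat_lit 222))) (XT.nd (nat_lit 78) (nat_lit 0) (nat_lit 0) (XT.lf (nat_lit 0) (nat_lit 1272957509) (nat_lit 684) (nat_lit 9030789475) (nat_lit 760) (nat_lit 721599240) (nat_lit 86) (nat_lit 5) (nat_lit 95) (nat_lit 5)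 (nat_lit 96) (nat_lit 5) (nat_lit 282) (nat_lit 277) (nat_lit 221)) (XT.nd (nat_lit 78) (nat_lit 0) (nat_lit 0) (XT.lf (nat_lit 0) (nat_lit 2253540046) (nat_lit 684) (nat_lit 3900638944) (nat_lit 760) (nat_lit 5131698815) (nat_lit 86) (nat_lit 5) (nat_lit 95) (nat_lit 5) (nat_lit 96) (nat_lit 5) (nat_lit 283) (nat_lit 277) (nat_lit 220)) (XT.lf (nat_lit 76) (nat_lit 1509457906) (nat_lit 0) (nat_lit 1762571841) (nat_lit 760) (nat_lit 8288042937) (nat_lit 87) (nat_lit 5) (nat_lit 86) (nat_lit 5) (nat_lit 96) (nat_lit 5) (nat_lit 284) (nat_lit 277) (nat_lit 219)))))) (XT.nd (nat_lit 390) (nat_lit 1216) (nat_lit 0) (XT.nd (nat_lit 156) (nat_lit 608) (nat_lit 0) (XT.nd (nat_lit 78) (nat_lit 0) (nat_lit 0) (XT.lf (nat_lit 0) (nat_lit 4419781580) (nat_lit 684) (nat_lit 4591110705) (nat_lit 760) (nat_lit 2833244920) (nat_lit 87) (nat_lit 5) (nat_lit 96) (nat_lit 5) (nat_lit 97) (nat_lit 5) (nat_lit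 285) (nat_lit 277) (nat_lit 218)) (XT.lf (nat_lit 76) (nat_lit 1123322994) (nat_lit 0) (nat_lit 4516336209) (nat_lit 760) (nat_lit 6502081962) (nat_lit 88) (nat_lit 5) (nat_lit 87) (nat_lit 5) (nat_lit 97) (nat_lit 5) (nat_lit 286) (nat_lit 277) (nat_lit 217))) (XT.nd (nat_lit 78) (nat_lit 684) (nat_lit 0) (XT.lf (nat_lit 0) (nat_lit 6972247279) (nat_lit 684) (nat_lit 5198298794) (nat_lit 76) (nat_lit 281163064) (nat_lit 88) (nat_lit 5) (nat_lit 97) (nat_lit 5) (nat_lit 89) (nat_lit 5) (nat_lit 287) (nat_lit 277) (nat_lit 216)) (XT.nd (nat_lit 78) (nat_lit 0) (nat_lit 0) (XT.lf (nat_lit 0) (nat_lit 840558751) (nat_lit 684) (nat_lit 7589039852) (nat_lit 760) (nat_lit 4344736537) (nat_lit 79) (nat_lit 5) (nat_lit 88) (nat_lit 5) (nat_lit 89) (nat_lit 5) (nat_lit 288) (nat_lit 277) (nat_lit 215)) (XT.lf (nat_lit 0) (nat_lit 7337105103) (nat_lit 684) (nat_lit 2682716386) (nat_lit 760) (nat_lit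 3090333922) (nat_lit 79) (nat_lit 5) (nat_lit 88) (nat_lit 5) (nat_lit 89) (nat_lit 5) (nat_lit 289) (nat_lit 277) (nat_lit 214))))) (XT.nd (nat_lit 156) (nat_lit 760) (nat_lit 0) (XT.nd (nat_lit 78) (nat_lit 0) (nat_lit 0) (XT.lf (nat_lit 0) (nat_lit 653073789) (nat_lit 456) (nat_lit 11058577122) (nat_lit 532) (nat_lit 1750071175) (nat_lit 73) (nat_lit 5) (nat_lit 79) (nat_lit 5) (nat_lit 80) (nat_lit 5) (nat_lit 290) (nat_lit 277) (nat_lit 213)) (XT.lf (nat_lit 0) (nat_lit 7530907475) (nat_lit 456) (nat_lit 6072440625) (nat_lit 532) (nat_lit 221812474) (nat_lit 73) (nat_lit 5) (nat_lit 79) (nat_lit 5) (nat_lit 80) (nat_lit 5) (nat_lit 291) (nat_lit 277) (nat_lit 212))) (XT.nd (nat_lit 78) (nat_lit 304) (nat_lit 0) (XT.lf (nat_lit 0) (nat_lit 516504852) (nat_lit 380) (nat_lit 805167293) (nat_lit 456) (nat_lit 12884917638) (nat_lit 67) (nat_lit 5) (nat_lit 72) (nat_lit 5) (nat_lit 73)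 (nat_lit 5) (nat_lit 292) (nat_lit 277) (nat_lit 211)) (XT.nd (nat_lit 78) (nat_lit 304) (nat_lit 0) (XT.lf (nat_lit 0) (nat_lit 3092828182) (nat_lit 456) (nat_lit 6819767821) (nat_lit 76) (nat_lit 4686464551) (nat_lit 67) (nat_lit 5) (nat_lit 73) (nat_lit 5) (nat_lit 68) (nat_lit 5) (nat_lit 293) (nat_lit 277) (nat_lit 210)) (XT.lf (nat_lit 0) (nat_lit 368696202) (nat_lit 304) (nat_lit 4579782628) (nat_lit 380) (nat_lit 10062926331) (nat_lit 63) (nat_lit 5) (nat_lit 67) (nat_lit 5) (nat_lit 68) (nat_lit 5) (nat_lit 294) (nat_lit 277) (nat_lit 209))))))))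
noncomputable def xc157 : XT := (XT.nd (nat_lit 1560) (nat_lit 1368) (nat_lit 0) (XT.nd (nat_lit 780) (nat_lit 1216) (nat_lit 0) (XT.nd (nat_lit 390) (nat_lit 608) (nat_lit 0) (XT.nd (nat_lit 156) (nat_lit 228) (nat_lit 0) (XT.nd (nat_lit 78) (nat_lit 304) (nat_lit 0) (XT.lf (nat_lit 0) (nat_lit 7007910114) (nat_lit 380) (nat_lit 7327777849) (nat_lit 76) (nat_lit 1103174022) (nat_lit 63) (nat_lit 5) (nat_lit 68) (nat_lit 5) (nat_lit 64) (nat_lit 5) (nat_lit 295) (nat_lit 277) (nat_lit 208)) (XT.lf (nat_lit 0) (nat_lit 262683483) (nat_lit 304) (nat_lit 8965560278) (nat_lit 380) (nat_lit 6656594103) (nat_lit 59) (nat_lit 5) (nat_lit 63) (nat_lit 5) (nat_lit 64) (nat_lit 5) (nat_lit 296) (nat_lit 277) (nat_lit 207))) (XT.nd (nat_lit 78) (nat_lit 228) (nat_lit 0) (XT.lf (nat_lit 0) (nat_lit 8463906105) (nat_lit 304) (nat_lit 3199188786) (nat_lit 380) (nat_lit 4684883323) (nat_lit 59) (nat_lit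 5) (nat_lit 63) (nat_lit 5) (nat_lit 64) (nat_lit 5) (nat_lit 297) (nat_lit 277) (nat_lit 206)) (XT.nd (nat_lit 78) (nat_lit 0) (nat_lit 0) (XT.lf (nat_lit 0) (nat_lit 179017529) (nat_lit 228) (nat_lit 14068392449) (nat_lit 304) (nat_lit 2585518314) (nat_lit 56) (nat_lit 5) (nat_lit 59) (nat_lit 5) (nat_lit 60) (nat_lit 5) (nat_lit 298) (nat_lit 277) (nat_lit 205)) (XT.lf (nat_lit 0) (nat_lit 8842126653) (nat_lit 228) (nat_lit 8284860637) (nat_lit 304) (nat_lit 206873193) (nat_lit 56) (nat_lit 5) (nat_lit 59) (nat_lit 5) (nat_lit 60) (nat_lit 5) (nat_lit 299) (nat_lit 277) (nat_lit 204))))) (XT.nd (nat_lit 156) (nat_lit 228) (nat_lit 0) (XT.nd (nat_lit 78) (nat_lit 0) (nat_lit 0) (XT.lf (nat_lit 0) (nat_lit 21229264) (nat_lit 304) (nat_lit 2177992039) (nat_lit 380) (nat_lit 15659771564) (nat_lit 51) (nat_lit 5) (nat_lit 55) (nat_lit 5) (nat_lit 56) (nat_lit 5) (nat_lit 300) (nat_lit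 277) (nat_lit 203)) (XT.lf (nat_lit 0) (nat_lit 4912925992) (nat_lit 380) (nat_lit 9243141693) (nat_lit 76) (nat_lit 4244463635) (nat_lit 51) (nat_lit 5) (nat_lit 56) (nat_lit 5) (nat_lit 52) (nat_lit 5) (nat_lit 301) (nat_lit 277) (nat_lit 202))) (XT.nd (nat_lit 78) (nat_lit 228) (nat_lit 0) (XT.lf (nat_lit 0) (nat_lit 7780859305) (nat_lit 380) (nat_lit 276158014) (nat_lit 76) (nat_lit 10911232591) (nat_lit 51) (nat_lit 5) (nat_lit 56) (nat_lit 5) (nat_lit 52) (nat_lit 5) (nat_lit 302) (nat_lit 277) (nat_lit 201)) (XT.nd (nat_lit 78) (nat_lit 0) (nat_lit 0) (XT.lf (nat_lit 0) (nat_lit 9420042131) (nat_lit 228) (nat_lit 1502876220) (nat_lit 304) (nat_lit 8634928560) (nat_lit 48) (nat_lit 5) (nat_lit 51) (nat_lit 5) (nat_lit 52) (nat_lit 5) (nat_lit 303) (nat_lit 277) (nat_lit 200)) (XT.lf (nat_lit 0) (nat_lit 14294862917) (nat_lit 304) (nat_lit 671160394) (nat_lit 76) (nat_lit 5207288886)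 (nat_lit 48) (nat_lit 5) (nat_lit 52) (nat_lit 5) (nat_lit 49) (nat_lit 5) (nat_lit 304) (nat_lit 277) (nat_lit 199)))))) (XT.nd (nat_lit 390) (nat_lit 456) (nat_lit 0) (XT.nd (nat_lit 156) (nat_lit 456) (nat_lit 0) (XT.nd (nat_lit 78) (nat_lit 76) (nat_lit 0) (XT.lf (nat_lit 0) (nat_lit 9529119920) (nat_lit 228) (nat_lit 8464506182) (nat_lit 304) (nat_lit 2818039822) (nat_lit 45) (nat_lit 5) (nat_lit 48) (nat_lit 5) (nat_lit 49) (nat_lit 5) (nat_lit 305) (nat_lit 277) (nat_lit 198)) (XT.lf (nat_lit 0) (nat_lit 379244731) (nat_lit 304) (nat_lit 1245261211) (nat_lit 76) (nat_lit 19857321066) (nat_lit 44) (nat_lit 5) (nat_lit 48) (nat_lit 5) (nat_lit 45) (nat_lit 5) (nat_lit 306) (nat_lit 277) (nat_lit 197))) (XT.nd (nat_lit 78) (nat_lit 228) (nat_lit 0) (XT.lf (nat_lit 0) (nat_lit 3866095405) (nat_lit 304) (nat_lit 12732831813) (nat_lit 76) (nat_lit 5573061407) (nat_lit 41) (nat_lit 5)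 (nat_lit 45) (nat_lit 5) (nat_lit 42) (nat_lit 5) (nat_lit 307) (nat_lit 277) (nat_lit 196)) (XT.nd (nat_lit 78) (nat_lit 228) (nat_lit 0) (XT.lf (nat_lit 0) (nat_lit 7561335284) (nat_lit 304) (nat_lit 2241165419) (nat_lit 76) (nat_lit 13092476879) (nat_lit 41) (nat_lit 5) (nat_lit 45) (nat_lit 5) (nat_lit 42) (nat_lit 5) (nat_lit 308) (nat_lit 277) (nat_lit 195)) (XT.lf (nat_lit 0) (nat_lit 9045931569) (nat_lit 228) (nat_lit 2523286123) (nat_lit 304) (nat_lit 12078524835) (nat_lit 38) (nat_lit 5) (nat_lit 41) (nat_lit 5) (nat_lit 42) (nat_lit 5) (nat_lit 309) (nat_lit 277) (nat_lit 194))))) (XT.nd (nat_lit 156) (nat_lit 304) (nat_lit 0) (XT.nd (nat_lit 78) (nat_lit 152) (nat_lit 0) (XT.lf (nat_lit 0) (nat_lit 15882920628) (nat_lit 304) (nat_lit 3560577952) (nat_lit 76) (nat_lit 4989395405) (nat_lit 38) (nat_lit 5) (nat_lit 42) (nat_lit 5) (nat_lit 39) (nat_lit 5) (nat_lit 310) (nat_lit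 277) (nat_lit 193)) (XT.lf (nat_lit 0) (nat_lit 8236923817) (nat_lit 152) (nat_lit 12332888035) (nat_lit 228) (nat_lit 4679634660) (nat_lit 36) (nat_lit 5) (nat_lit 38) (nat_lit 5) (nat_lit 39) (nat_lit 5) (nat_lit 311) (nat_lit 277) (nat_lit 192))) (XT.nd (nat_lit 78) (nat_lit 304) (nat_lit 0) (XT.lf (nat_lit 0) (nat_lit 20730146660) (nat_lit 152) (nat_lit 4809053501) (nat_lit 228) (nat_lit 565236644) (nat_lit 36) (nat_lit 5) (nat_lit 38) (nat_lit 5) (nat_lit 39) (nat_lit 5) (nat_lit 312) (nat_lit 277) (nat_lit 191)) (XT.nd (nat_lit 78) (nat_lit 0) (nat_lit 0) (XT.lf (nat_lit 0) (nat_lit 3783041540) (nat_lit 304) (nat_lit 20051569025) (nat_lit 76) (nat_lit 3157233954) (nat_lit 32) (nat_lit 5) (nat_lit 36) (nat_lit 5) (nat_lit 33) (nat_lit 5) (nat_lit 313) (nat_lit 277) (nat_lit 190)) (XT.lf (nat_lit 0) (nat_lit 8489515625) (nat_lit 304) (nat_lit 7969065847) (nat_lit 76) (nat_lit 11456604301)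 (nat_lit 32) (nat_lit 5) (nat_lit 36) (nat_lit 5) (nat_lit 33) (nat_lit 5) (nat_lit 314) (nat_lit 277) (nat_lit 189))))))) (XT.nd (nat_lit 780) (nat_lit 608) (nat_lit 0) (XT.nd (nat_lit 390) (nat_lit 380) (nat_lit 0) (XT.nd (nat_lit 156) (nat_lit 228) (nat_lit 0) (XT.nd (nat_lit 78) (nat_lit 0) (nat_lit 0) (XT.lf (nat_lit 0) (nat_lit 4856278009) (nat_lit 152) (nat_lit 8639838785) (nat_lit 228) (nat_lit 15385351743) (nat_lit 30) (nat_lit 5) (nat_lit 32) (nat_lit 5) (nat_lit 33) (nat_lit 5) (nat_lit 315) (nat_lit 277) (nat_lit 188)) (XT.lf (nat_lit 0) (nat_lit 18583110935) (nat_lit 152) (nat_lit 294148180) (nat_lit 228) (nat_lit 11012609689) (nat_lit 30) (nat_lit 5) (nat_lit 32) (nat_lit 5) (nat_lit 33) (nat_lit 5) (nat_lit 316) (nat_lit 277) (nat_lit 187))) (XT.nd (nat_lit 78) (nat_lit 76) (nat_lit 0) (XT.lf (nat_lit 0) (nat_lit 1962069431) (nat_lit 152) (nat_lit 22717922890) (nat_lit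 228) (nat_lit 6261083331) (nat_lit 28) (nat_lit 5) (nat_lit 30) (nat_lit 5) (nat_lit 31) (nat_lit 5) (nat_lit 317) (nat_lit 277) (nat_lit 186)) (XT.nd (nat_lit 78) (nat_lit 76) (nat_lit 0) (XT.lf (nat_lit 0) (nat_lit 16266058047) (nat_lit 152) (nat_lit 14692956277) (nat_lit 228) (nat_lit 1076533538) (nat_lit 28) (nat_lit 5) (nat_lit 30) (nat_lit 5) (nat_lit 31) (nat_lit 5) (nat_lit 318) (nat_lit 277) (nat_lit 185)) (XT.lf (nat_lit 0) (nat_lit 4217697971) (nat_lit 228) (nat_lit 1983106040) (nat_lit 76) (nat_lit 26981030211) (nat_lit 27) (nat_lit 5) (nat_lit 30) (nat_lit 5) (nat_lit 28) (nat_lit 5) (nat_lit 319) (nat_lit 277) (nat_lit 184))))) (XT.nd (nat_lit 156) (nat_lit 228) (nat_lit 0) (XT.nd (nat_lit 78) (nat_lit 0) (nat_lit 0) (XT.lf (nat_lit 0) (nat_lit 9978036287) (nat_lit 228) (nat_lit 21548631181) (nat_lit 76) (nat_lit 2846017243) (nat_lit 25) (nat_lit 5) (nat_lit 28) (nat_lit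 5) (nat_lit 26) (nat_lit 5) (nat_lit 320) (nat_lit 277) (nat_lit 183)) (XT.lf (nat_lit 0) (nat_lit 16153011347) (nat_lit 228) (nat_lit 7298014493) (nat_lit 76) (nat_lit 12165731281) (nat_lit 25) (nat_lit 5) (nat_lit 28) (nat_lit 5) (nat_lit 26) (nat_lit 5) (nat_lit 321) (nat_lit 277) (nat_lit 182))) (XT.nd (nat_lit 78) (nat_lit 76) (nat_lit 0) (XT.lf (nat_lit 0) (nat_lit 7903983227) (nat_lit 152) (nat_lit 14847423709) (nat_lit 228) (nat_lit 14165902519) (nat_lit 23) (nat_lit 5) (nat_lit 25) (nat_lit 5) (nat_lit 26) (nat_lit 5) (nat_lit 322) (nat_lit 277) (nat_lit 181)) (XT.nd (nat_lit 78) (nat_lit 76) (nat_lit 0) (XT.lf (nat_lit 0) (nat_lit 24105552639) (nat_lit 152) (nat_lit 5689232309) (nat_lit 228) (nat_lit 8482360745) (nat_lit 23) (nat_lit 5) (nat_lit 25) (nat_lit 5) (nat_lit 26) (nat_lit 5) (nat_lit 323) (nat_lit 277) (nat_lit 180)) (XT.lf (nat_lit 0) (nat_lit 1381563577) (nat_lit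 76) (nat_lit 35883441559) (nat_lit 152) (nat_lit 2436243917) (nat_lit 22) (nat_lit 5) (nat_lit 23) (nat_lit 5) (nat_lit 24) (nat_lit 4) (nat_lit 324) (nat_lit 277) (nat_lit 179)))))) (XT.nd (nat_lit 390) (nat_lit 380) (nat_lit 0) (XT.nd (nat_lit 156) (nat_lit 152) (nat_lit 0) (XT.nd (nat_lit 78) (nat_lit 0) (nat_lit 0) (XT.lf (nat_lit 0) (nat_lit 4116004205) (nat_lit 152) (nat_lit 23152085936) (nat_lit 76) (nat_lit 13908969595) (nat_lit 21) (nat_lit 5) (nat_lit 23) (nat_lit 5) (nat_lit 22) (nat_lit 5) (nat_lit 325) (nat_lit 277) (nat_lit 178)) (XT.lf (nat_lit 0) (nat_lit 10906215959) (nat_lit 152) (nat_lit 7279027315) (nat_lit 76) (nat_lit 24539817259) (nat_lit 21) (nat_lit 5) (nat_lit 23) (nat_lit 5) (nat_lit 22) (nat_lit 5) (nat_lit 326) (nat_lit 277) (nat_lit 177))) (XT.nd (nat_lit 78) (nat_lit 0) (nat_lit 0) (XT.lf (nat_lit 0) (nat_lit 9685310395) (nat_lit 152) (nat_lit 8494437976)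 (nat_lit 228) (nat_lit 26163529876) (nat_lit 19) (nat_lit 5) (nat_lit 21) (nat_lit 5) (nat_lit 22) (nat_lit 5) (nat_lit 327) (nat_lit 277) (nat_lit 176)) (XT.nd (nat_lit 78) (nat_lit 0) (nat_lit 0) (XT.lf (nat_lit 0) (nat_lit 25961176874) (nat_lit 228) (nat_lit 18326388444) (nat_lit 76) (nat_lit 1747637586) (nat_lit 19) (nat_lit 5) (nat_lit 22) (nat_lit 5) (nat_lit 20) (nat_lit 4) (nat_lit 328) (nat_lit 277) (nat_lit 175)) (XT.lf (nat_lit 0) (nat_lit 34263959459) (nat_lit 228) (nat_lit 1329347064) (nat_lit 76) (nat_lit 12211809834) (nat_lit 19) (nat_lit 5) (nat_lit 22) (nat_lit 5) (nat_lit 20) (nat_lit 4) (nat_lit 329) (nat_lit 277) (nat_lit 174))))) (XT.nd (nat_lit 234) (nat_lit 76) (nat_lit 0) (XT.nd (nat_lit 78) (nat_lit 228) (nat_lit 0) (XT.lf (nat_lit 0) (nat_lit 17052018501) (nat_lit 76) (nat_lit 26189453973) (nat_lit 152) (nat_lit 6409079820) (nat_lit 18) (nat_lit 5) (nat_lit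 19) (nat_lit 5) (nat_lit 20) (nat_lit 4) (nat_lit 330) (nat_lit 277) (nat_lit 173)) (XT.nd (nat_lit 78) (nat_lit 152) (nat_lit 0) (XT.lf (nat_lit 0) (nat_lit 1061321025) (nat_lit 152) (nat_lit 15217095776) (nat_lit 76) (nat_lit 35308192536) (nat_lit 17) (nat_lit 5) (nat_lit 19) (nat_lit 5) (nat_lit 18) (nat_lit 5) (nat_lit 331) (nat_lit 277) (nat_lit 172)) (XT.lf (nat_lit 0) (nat_lit 3014013552) (nat_lit 152) (nat_lit 5716604821) (nat_lit 228) (nat_lit 44881564845) (nat_lit 15) (nat_lit 5) (nat_lit 17) (nat_lit 5) (nat_lit 18) (nat_lit 5) (nat_lit 332) (nat_lit 277) (nat_lit 171)))) (XT.nd (nat_lit 78) (nat_lit 76) (nat_lit 0) (XT.lf (nat_lit 0) (nat_lit 17122976854) (nat_lit 228) (nat_lit 33140156021) (nat_lit 76) (nat_lit 5458928351) (nat_lit 15) (nat_lit 5) (nat_lit 18) (nat_lit 5) (nat_lit 16) (nat_lit 4) (nat_lit 333) (nat_lit 277) (nat_lit 170)) (XT.nd (nat_lit 78) (nat_lit 76)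 (nat_lit 0) (XT.lf (nat_lit 0) (nat_lit 26022735152) (nat_lit 228) (nat_lit 14913309146) (nat_lit 76) (nat_lit 16997004738) (nat_lit 15) (nat_lit 5) (nat_lit 18) (nat_lit 5) (nat_lit 16) (nat_lit 4) (nat_lit 334) (nat_lit 277) (nat_lit 169)) (XT.lf (nat_lit 0) (nat_lit 4354388043) (nat_lit 76) (nat_lit 31075427101) (nat_lit 152) (nat_lit 24821659161) (nat_lit 14) (nat_lit 5) (nat_lit 15) (nat_lit 5) (nat_lit 16) (nat_lit 4) (nat_lit 335) (nat_lit 277) (nat_lit 168))))))))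
noncomputable def xc158 : XT := (XT.nd (nat_lit 1560) (nat_lit 304) (nat_lit 0) (XT.nd (nat_lit 780) (nat_lit 304) (nat_lit 0) (XT.nd (nat_lit 390) (nat_lit 76) (nat_lit 0) (XT.nd (nat_lit 156) (nat_lit 152) (nat_lit 0) (XT.nd (nat_lit 78) (nat_lit 0) (nat_lit 0) (XT.lf (nat_lit 0) (nat_lit 25093525900) (nat_lit 76) (nat_lit 20460754539) (nat_lit 152) (nat_lit 17119193367) (nat_lit 14) (nat_lit 5) (nat_lit 15) (nat_lit 5) (nat_lit 16) (nat_lit 4) (nat_lit 336) (nat_lit 277) (nat_lit 167)) (XT.lf (nat_lit 0) (nat_lit 46860381972) (nat_lit 76) (nat_lit 9319317687) (nat_lit 152) (nat_lit 9037141405) (nat_lit 14) (nat_lit 5) (nat_lit 15) (nat_lit 5) (nat_lit 16) (nat_lit 4) (nat_lit 337) (nat_lit 277) (nat_lit 166))) (XT.nd (nat_lit 78) (nat_lit 76) (nat_lit 0) (XT.lf (nat_lit 0) (nat_lit 1840986640) (nat_lit 76) (nat_lit 65556214561) (nat_lit 76) (nat_lit 487139027) (nat_lit 13) (nat_lit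 4) (nat_lit 14) (nat_lit 5) (nat_lit 14) (nat_lit 4) (nat_lit 338) (nat_lit 277) (nat_lit 165)) (XT.nd (nat_lit 78) (nat_lit 0) (nat_lit 0) (XT.lf (nat_lit 0) (nat_lit 8682307200) (nat_lit 152) (nat_lit 47283522173) (nat_lit 76) (nat_lit 14689576367) (nat_lit 12) (nat_lit 5) (nat_lit 14) (nat_lit 5) (nat_lit 13) (nat_lit 4) (nat_lit 339) (nat_lit 277) (nat_lit 164)) (XT.lf (nat_lit 0) (nat_lit 18289036433) (nat_lit 152) (nat_lit 27602276197) (nat_lit 76) (nat_lit 27673557066) (nat_lit 12) (nat_lit 5) (nat_lit 14) (nat_lit 5) (nat_lit 13) (nat_lit 4) (nat_lit 340) (nat_lit 277) (nat_lit 163))))) (XT.nd (nat_lit 156) (nat_lit 0) (nat_lit 0) (XT.nd (nat_lit 78) (nat_lit 76) (nat_lit 0) (XT.lf (nat_lit 0) (nat_lit 28371513327) (nat_lit 152) (nat_lit 6945149945) (nat_lit 76) (nat_lit 41303376399) (nat_lit 12) (nat_lit 5) (nat_lit 14) (nat_lit 5) (nat_lit 13) (nat_lit 4) (nat_lit 341) (nat_lit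 277) (nat_lit 162)) (XT.lf (nat_lit 0) (nat_lit 15224313318) (nat_lit 76) (nat_lit 23967124660) (nat_lit 152) (nat_lit 40624867194) (nat_lit 11) (nat_lit 5) (nat_lit 12) (nat_lit 5) (nat_lit 13) (nat_lit 4) (nat_lit 342) (nat_lit 277) (nat_lit 161))) (XT.nd (nat_lit 78) (nat_lit 0) (nat_lit 0) (XT.lf (nat_lit 0) (nat_lit 38735702949) (nat_lit 76) (nat_lit 11929993510) (nat_lit 152) (nat_lit 32501023674) (nat_lit 11) (nat_lit 5) (nat_lit 12) (nat_lit 5) (nat_lit 13) (nat_lit 4) (nat_lit 343) (nat_lit 277) (nat_lit 160)) (XT.nd (nat_lit 78) (nat_lit 0) (nat_lit 0) (XT.lf (nat_lit 0) (nat_lit 62720608945) (nat_lit 152) (nat_lit 23280521296) (nat_lit 0) (nat_lit 683181470) (nat_lit 11) (nat_lit 5) (nat_lit 13) (nat_lit 4) (nat_lit 11) (nat_lit 4) (nat_lit 344) (nat_lit 277) (nat_lit 159)) (XT.lf (nat_lit 0) (nat_lit 75569908996) (nat_lit 152) (nat_lit 1275177255) (nat_lit 0) (nat_lit 13523117301)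 (nat_lit 11) (nat_lit 5) (nat_lit 13) (nat_lit 4) (nat_lit 11) (nat_lit 4) (nat_lit 345) (nat_lit 277) (nat_lit 158)))))) (XT.nd (nat_lit 390) (nat_lit 76) (nat_lit 0) (XT.nd (nat_lit 156) (nat_lit 76) (nat_lit 0) (XT.nd (nat_lit 78) (nat_lit 76) (nat_lit 0) (XT.lf (nat_lit 0) (nat_lit 22545258310) (nat_lit 76) (nat_lit 66864665909) (nat_lit 76) (nat_lit 4808955908) (nat_lit 10) (nat_lit 4) (nat_lit 11) (nat_lit 5) (nat_lit 11) (nat_lit 4) (nat_lit 346) (nat_lit 277) (nat_lit 157)) (XT.lf (nat_lit 0) (nat_lit 5516276075) (nat_lit 152) (nat_lit 50755837671) (nat_lit 76) (nat_lit 41984634416) (nat_lit 9) (nat_lit 5) (nat_lit 11) (nat_lit 5) (nat_lit 10) (nat_lit 4) (nat_lit 347) (nat_lit 277) (nat_lit 156))) (XT.nd (nat_lit 78) (nat_lit 76) (nat_lit 0) (XT.lf (nat_lit 0) (nat_lit 16192602245) (nat_lit 152) (nat_lit 28877458189) (nat_lit 76) (nat_lit 57422687434) (nat_lit 9) (nat_lit 5)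 (nat_lit 11) (nat_lit 5) (nat_lit 10) (nat_lit 4) (nat_lit 348) (nat_lit 277) (nat_lit 155)) (XT.nd (nat_lit 78) (nat_lit 76) (nat_lit 0) (XT.lf (nat_lit 0) (nat_lit 27399359046) (nat_lit 152) (nat_lit 5911310714) (nat_lit 76) (nat_lit 73630049263) (nat_lit 9) (nat_lit 5) (nat_lit 11) (nat_lit 5) (nat_lit 10) (nat_lit 4) (nat_lit 349) (nat_lit 277) (nat_lit 154)) (XT.lf (nat_lit 0) (nat_lit 18798970516) (nat_lit 76) (nat_lit 20657763331) (nat_lit 152) (nat_lit 72139842958) (nat_lit 8) (nat_lit 5) (nat_lit 9) (nat_lit 5) (nat_lit 10) (nat_lit 4) (nat_lit 350) (nat_lit 277) (nat_lit 153))))) (XT.nd (nat_lit 156) (nat_lit 76) (nat_lit 0) (XT.nd (nat_lit 78) (nat_lit 0) (nat_lit 0) (XT.lf (nat_lit 0) (nat_lit 44944229576) (nat_lit 76) (nat_lit 7269697825) (nat_lit 152) (nat_lit 64266454550) (nat_lit 8) (nat_lit 5) (nat_lit 9) (nat_lit 5) (nat_lit 10) (nat_lit 4) (nat_lit 351) (nat_lit 277)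 (nat_lit 152)) (XT.lf (nat_lit 0) (nat_lit 65711907685) (nat_lit 152) (nat_lit 49323204730) (nat_lit 0) (nat_lit 6568120471) (nat_lit 8) (nat_lit 5) (nat_lit 10) (nat_lit 4) (nat_lit 8) (nat_lit 4) (nat_lit 352) (nat_lit 277) (nat_lit 151))) (XT.nd (nat_lit 78) (nat_lit 76) (nat_lit 0) (XT.lf (nat_lit 0) (nat_lit 80001058475) (nat_lit 152) (nat_lit 26124121111) (nat_lit 0) (nat_lit 20851235000) (nat_lit 8) (nat_lit 5) (nat_lit 10) (nat_lit 4) (nat_lit 8) (nat_lit 4) (nat_lit 353) (nat_lit 277) (nat_lit 150)) (XT.nd (nat_lit 78) (nat_lit 76) (nat_lit 0) (XT.lf (nat_lit 0) (nat_lit 95001901203) (nat_lit 152) (nat_lit 1770165249) (nat_lit 0) (nat_lit 35846328908) (nat_lit 8) (nat_lit 5) (nat_lit 10) (nat_lit 4) (nat_lit 8) (nat_lit 4) (nat_lit 354) (nat_lit 277) (nat_lit 149)) (XT.lf (nat_lit 0) (nat_lit 24583473131) (nat_lit 76) (nat_lit 86550495939) (nat_lit 76) (nat_lit 27389448578)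 (nat_lit 7) (nat_lit 4) (nat_lit 8) (nat_lit 5) (nat_lit 8) (nat_lit 4) (nat_lit 355) (nat_lit 277) (nat_lit 148))))))) (XT.nd (nat_lit 780) (nat_lit 152) (nat_lit 0) (XT.nd (nat_lit 390) (nat_lit 0) (nat_lit 0) (XT.nd (nat_lit 156) (nat_lit 152) (nat_lit 0) (XT.nd (nat_lit 78) (nat_lit 0) (nat_lit 0) (XT.lf (nat_lit 0) (nat_lit 52311487695) (nat_lit 76) (nat_lit 75788548413) (nat_lit 76) (nat_lit 16622286703) (nat_lit 7) (nat_lit 4) (nat_lit 8) (nat_lit 5) (nat_lit 8) (nat_lit 4) (nat_lit 356) (nat_lit 277) (nat_lit 147)) (XT.lf (nat_lit 0) (nat_lit 81421367866) (nat_lit 76) (nat_lit 64490578795) (nat_lit 76) (nat_lit 5319351039) (nat_lit 7) (nat_lit 4) (nat_lit 8) (nat_lit 5) (nat_lit 8) (nat_lit 4) (nat_lit 357) (nat_lit 277) (nat_lit 146))) (XT.nd (nat_lit 78) (nat_lit 76) (nat_lit 0) (XT.lf (nat_lit 0) (nat_lit 6336748638) (nat_lit 152) (nat_lit 46185622614) (nat_lit 76) (nat_lit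 105538358339) (nat_lit 6) (nat_lit 5) (nat_lit 8) (nat_lit 5) (nat_lit 7) (nat_lit 4) (nat_lit 358) (nat_lit 277) (nat_lit 145)) (XT.nd (nat_lit 78) (nat_lit 76) (nat_lit 0) (XT.lf (nat_lit 0) (nat_lit 18394619208) (nat_lit 152) (nat_lit 21471492296) (nat_lit 76) (nat_lit 125361276176) (nat_lit 6) (nat_lit 5) (nat_lit 8) (nat_lit 5) (nat_lit 7) (nat_lit 4) (nat_lit 359) (nat_lit 277) (nat_lit 144)) (XT.lf (nat_lit 0) (nat_lit 4622296622) (nat_lit 76) (nat_lit 26503092721) (nat_lit 152) (nat_lit 141623490242) (nat_lit 5) (nat_lit 5) (nat_lit 6) (nat_lit 5) (nat_lit 7) (nat_lit 4) (nat_lit 360) (nat_lit 277) (nat_lit 143))))) (XT.nd (nat_lit 156) (nat_lit 0) (nat_lit 0) (XT.nd (nat_lit 78) (nat_lit 0) (nat_lit 0) (XT.lf (nat_lit 0) (nat_lit 32762290802) (nat_lit 76) (nat_lit 12091917935) (nat_lit 152) (nat_lit 135774162966) (nat_lit 5) (nat_lit 5) (nat_lit 6) (nat_lit 5) (nat_lit 7) (nat_lit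 4) (nat_lit 361) (nat_lit 277) (nat_lit 142)) (XT.lf (nat_lit 0) (nat_lit 59314883843) (nat_lit 152) (nat_lit 126643827903) (nat_lit 0) (nat_lit 2940857045) (nat_lit 5) (nat_lit 5) (nat_lit 7) (nat_lit 4) (nat_lit 5) (nat_lit 4) (nat_lit 362) (nat_lit 277) (nat_lit 141))) (XT.nd (nat_lit 78) (nat_lit 0) (nat_lit 0) (XT.lf (nat_lit 0) (nat_lit 74694872962) (nat_lit 152) (nat_lit 104562322919) (nat_lit 0) (nat_lit 18317316887) (nat_lit 5) (nat_lit 5) (nat_lit 7) (nat_lit 4) (nat_lit 5) (nat_lit 4) (nat_lit 363) (nat_lit 277) (nat_lit 140)) (XT.nd (nat_lit 78) (nat_lit 0) (nat_lit 0) (XT.lf (nat_lit 0) (nat_lit 90842006390) (nat_lit 152) (nat_lit 81380202212) (nat_lit 0) (nat_lit 34461089100) (nat_lit 5) (nat_lit 5) (nat_lit 7) (nat_lit 4) (nat_lit 5) (nat_lit 4) (nat_lit 364) (nat_lit 277) (nat_lit 139)) (XT.lf (nat_lit 0) (nat_lit 107794729684) (nat_lit 152) (nat_lit 57042270254) (nat_lit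 0) (nat_lit 51410611235) (nat_lit 5) (nat_lit 5) (nat_lit 7) (nat_lit 4) (nat_lit 5) (nat_lit 4) (nat_lit 365) (nat_lit 277) (nat_lit 138)))))) (XT.nd (nat_lit 390) (nat_lit 76) (nat_lit 0) (XT.nd (nat_lit 156) (nat_lit 76) (nat_lit 0) (XT.nd (nat_lit 78) (nat_lit 0) (nat_lit 0) (XT.lf (nat_lit 0) (nat_lit 125593406469) (nat_lit 152) (nat_lit 31490579590) (nat_lit 0) (nat_lit 69206239299) (nat_lit 5) (nat_lit 5) (nat_lit 7) (nat_lit 4) (nat_lit 5) (nat_lit 4) (nat_lit 366) (nat_lit 277) (nat_lit 137)) (XT.lf (nat_lit 0) (nat_lit 144280414547) (nat_lit 152) (nat_lit 4664292860) (nat_lit 0) (nat_lit 87890343833) (nat_lit 5) (nat_lit 5) (nat_lit 7) (nat_lit 4) (nat_lit 5) (nat_lit 4) (nat_lit 367) (nat_lit 277) (nat_lit 136))) (XT.nd (nat_lit 78) (nat_lit 0) (nat_lit 0) (XT.lf (nat_lit 0) (nat_lit 24277493452) (nat_lit 76) (nat_lit 140001793054) (nat_lit 76) (nat_lit 83608957059) (nat_lit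 4) (nat_lit 4) (nat_lit 5) (nat_lit 5) (nat_lit 5) (nat_lit 4) (nat_lit 368) (nat_lit 277) (nat_lit 135)) (XT.nd (nat_lit 78) (nat_lit 0) (nat_lit 0) (XT.lf (nat_lit 0) (nat_lit 54825502542) (nat_lit 76) (nat_lit 130530094302) (nat_lit 76) (nat_lit 74134624706) (nat_lit 4) (nat_lit 4) (nat_lit 5) (nat_lit 5) (nat_lit 5) (nat_lit 4) (nat_lit 369) (nat_lit 277) (nat_lit 134)) (XT.lf (nat_lit 0) (nat_lit 86898245178) (nat_lit 76) (nat_lit 120586051543) (nat_lit 76) (nat_lit 64188073757) (nat_lit 4) (nat_lit 4) (nat_lit 5) (nat_lit 5) (nat_lit 5) (nat_lit 4) (nat_lit 370) (nat_lit 277) (nat_lit 133))))) (XT.nd (nat_lit 234) (nat_lit 76) (nat_lit 0) (XT.nd (nat_lit 78) (nat_lit 0) (nat_lit 0) (XT.lf (nat_lit 0) (nat_lit 120572085033) (nat_lit 76) (nat_lit 110145988486) (nat_lit 76) (nat_lit 53745621946) (nat_lit 4) (nat_lit 4) (nat_lit 5) (nat_lit 5) (nat_lit 5) (nat_lit 4) (nat_lit 371)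 (nat_lit 277) (nat_lit 132)) (XT.nd (nat_lit 78) (nat_lit 0) (nat_lit 0) (XT.lf (nat_lit 0) (nat_lit 155927197917) (nat_lit 76) (nat_lit 99185047837) (nat_lit 76) (nat_lit 42782406295) (nat_lit 4) (nat_lit 4) (nat_lit 5) (nat_lit 5) (nat_lit 5) (nat_lit 4) (nat_lit 372) (nat_lit 277) (nat_lit 131)) (XT.lf (nat_lit 0) (nat_lit 193047762668) (nat_lit 76) (nat_lit 87677132120) (nat_lit 76) (nat_lit 31272323908) (nat_lit 4) (nat_lit 4) (nat_lit 5) (nat_lit 5) (nat_lit 5) (nat_lit 4) (nat_lit 373) (nat_lit 277) (nat_lit 130)))) (XT.nd (nat_lit 78) (nat_lit 76) (nat_lit 0) (XT.lf (nat_lit 0) (nat_lit 232022161585) (nat_lit 76) (nat_lit 75594841534) (nat_lit 76) (nat_lit 19187969827) (nat_lit 4) (nat_lit 4) (nat_lit 5) (nat_lit 5) (nat_lit 5) (nat_lit 4) (nat_lit 374) (nat_lit 277) (nat_lit 129)) (XT.nd (nat_lit 78) (nat_lit 76) (nat_lit 0) (XT.lf (nat_lit 0) (nat_lit 272943190855) (nat_lit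 76) (nat_lit 62909408721) (nat_lit 76) (nat_lit 6500571780) (nat_lit 4) (nat_lit 4) (nat_lit 5) (nat_lit 5) (nat_lit 5) (nat_lit 4) (nat_lit 375) (nat_lit 277) (nat_lit 128)) (XT.lf (nat_lit 0) (nat_lit 6601793222) (nat_lit 152) (nat_lit 42877032484) (nat_lit 76) (nat_lit 309194683715) (nat_lit 3) (nat_lit 5) (nat_lit 5) (nat_lit 5) (nat_lit 4) (nat_lit 4) (nat_lit 376) (nat_lit 277) (nat_lit 127))))))))
noncomputable def xc159 : XT := (XT.nd (nat_lit 33774) (nat_lit 0) (nat_lit 2964) (XT.nd (nat_lit 32994) (nat_lit 0) (nat_lit 6308) (XT.nd (nat_lit 390) (nat_lit 0) (nat_lit 0) (XT.nd (nat_lit 156) (nat_lit 0) (nat_lit 0) (XT.nd (nat_lit 78) (nat_lit 76) (nat_lit 0) (XT.lf (nat_lit 0) (nat_lit 20139784096) (nat_lit 152) (nat_lit 15125933716) (nat_lit 76) (nat_lit 340538870270) (nat_lit 3) (nat_lit 5) (nat_lit 5) (nat_lit 5) (nat_lit 4) (nat_lit 4) (nat_lit 377) (nat_lit 277) (nat_lit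 126)) (XT.lf (nat_lit 0) (nat_lit 14474145021) (nat_lit 76) (nat_lit 20105529992) (nat_lit 152) (nat_lit 359201296120) (nat_lit 2) (nat_lit 5) (nat_lit 3) (nat_lit 5) (nat_lit 4) (nat_lit 4) (nat_lit 378) (nat_lit 277) (nat_lit 125))) (XT.nd (nat_lit 78) (nat_lit 0) (nat_lit 0) (XT.lf (nat_lit 0) (nat_lit 46077557604) (nat_lit 76) (nat_lit 3919204914) (nat_lit 152) (nat_lit 362646651173) (nat_lit 2) (nat_lit 5) (nat_lit 3) (nat_lit 5) (nat_lit 4) (nat_lit 4) (nat_lit 379) (nat_lit 277) (nat_lit 124)) (XT.nd (nat_lit 78) (nat_lit 0) (nat_lit 0) (XT.lf (nat_lit 0) (nat_lit 66387934538) (nat_lit 152) (nat_lit 353393753346) (nat_lit 0) (nat_lit 12657129423) (nat_lit 2) (nat_lit 5) (nat_lit 4) (nat_lit 4) (nat_lit 2) (nat_lit 4) (nat_lit 380) (nat_lit 277) (nat_lit 123)) (XT.lf (nat_lit 0) (nat_lit 83662029011) (nat_lit 152) (nat_lit 339628967074) (nat_lit 0) (nat_lit 29929827240) (nat_lit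 2) (nat_lit 5) (nat_lit 4) (nat_lit 4) (nat_lit 2) (nat_lit 4) (nat_lit 381) (nat_lit 277) (nat_lit 122))))) (XT.nd (nat_lit 156) (nat_lit 0) (nat_lit 0) (XT.nd (nat_lit 78) (nat_lit 0) (nat_lit 0) (XT.lf (nat_lit 0) (nat_lit 101798984960) (nat_lit 152) (nat_lit 325177534200) (nat_lit 0) (nat_lit 48065453042) (nat_lit 2) (nat_lit 5) (nat_lit 4) (nat_lit 4) (nat_lit 2) (nat_lit 4) (nat_lit 382) (nat_lit 277) (nat_lit 121)) (XT.lf (nat_lit 0) (nat_lit 120841985614) (nat_lit 152) (nat_lit 310005046550) (nat_lit 0) (nat_lit 67107186889) (nat_lit 2) (nat_lit 5) (nat_lit 4) (nat_lit 4) (nat_lit 2) (nat_lit 4) (nat_lit 383) (nat_lit 277) (nat_lit 120))) (XT.nd (nat_lit 78) (nat_lit 0) (nat_lit 0) (XT.lf (nat_lit 0) (nat_lit 140836371451) (nat_lit 152) (nat_lit 294075379153) (nat_lit 0) (nat_lit 87100366244) (nat_lit 2) (nat_lit 5) (nat_lit 4) (nat_lit 4) (nat_lit 2) (nat_lit 4) (nat_lit 384)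 (nat_lit 277) (nat_lit 119)) (XT.nd (nat_lit 32292) (nat_lit 0) (nat_lit 6916) (XT.lf (nat_lit 0) (nat_lit 161829748151) (nat_lit 152) (nat_lit 277350604231) (nat_lit 0) (nat_lit 108092593913) (nat_lit 2) (nat_lit 5) (nat_lit 4) (nat_lit 4) (nat_lit 2) (nat_lit 4) (nat_lit 385) (nat_lit 277) (nat_lit 118)) (XT.lf (nat_lit 0) (nat_lit 4475234083) (nat_lit 684) (nat_lit 337008056) (nat_lit 684) (nat_lit 337008056) (nat_lit 93) (nat_lit 3) (nat_lit 102) (nat_lit 3) (nat_lit 102) (nat_lit 5) (nat_lit 278) (nat_lit 278) (nat_lit 224)))))) (XT.nd (nat_lit 390) (nat_lit 0) (nat_lit 76) (XT.nd (nat_lit 156) (nat_lit 608) (nat_lit 0) (XT.nd (nat_lit 78) (nat_lit 0) (nat_lit 0) (XT.lf (nat_lit 76) (nat_lit 4093662574) (nat_lit 0) (nat_lit 5750567898) (nat_lit 684) (nat_lit 676701559) (nat_lit 94) (nat_lit 5) (nat_lit 93) (nat_lit 3) (nat_lit 102) (nat_lit 5) (nat_lit 279) (nat_lit 278) (nat_lit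 223)) (XT.lf (nat_lit 76) (nat_lit 9102032924) (nat_lit 0) (nat_lit 1652936301) (nat_lit 684) (nat_lit 999602) (nat_lit 94) (nat_lit 5) (nat_lit 93) (nat_lit 3) (nat_lit 102) (nat_lit 5) (nat_lit 280) (nat_lit 278) (nat_lit 222))) (XT.nd (nat_lit 78) (nat_lit 0) (nat_lit 0) (XT.lf (nat_lit 0) (nat_lit 744171243) (nat_lit 684) (nat_lit 7608666779) (nat_lit 760) (nat_lit 2646537258) (nat_lit 85) (nat_lit 5) (nat_lit 94) (nat_lit 5) (nat_lit 95) (nat_lit 5) (nat_lit 281) (nat_lit 278) (nat_lit 221)) (XT.nd (nat_lit 78) (nat_lit 0) (nat_lit 76) (XT.lf (nat_lit 0) (nat_lit 1545888276) (nat_lit 684) (nat_lit 2559354415) (nat_lit 760) (nat_lit 7148827135) (nat_lit 85) (nat_lit 5) (nat_lit 94) (nat_lit 5) (nat_lit 95) (nat_lit 5) (nat_lit 282) (nat_lit 278) (nat_lit 220)) (XT.lf (nat_lit 0) (nat_lit 2403498459) (nat_lit 684) (nat_lit 8717323768) (nat_lit 760) (nat_lit 399967125) (nat_lit 86)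 (nat_lit 5) (nat_lit 95) (nat_lit 5) (nat_lit 96) (nat_lit 5) (nat_lit 283) (nat_lit 278) (nat_lit 219))))) (XT.nd (nat_lit 156) (nat_lit 0) (nat_lit 76) (XT.nd (nat_lit 78) (nat_lit 0) (nat_lit 0) (XT.lf (nat_lit 0) (nat_lit 3382305691) (nat_lit 684) (nat_lit 3367094529) (nat_lit 760) (nat_lit 5047605587) (nat_lit 86) (nat_lit 5) (nat_lit 95) (nat_lit 5) (nat_lit 96) (nat_lit 5) (nat_lit 284) (nat_lit 278) (nat_lit 218)) (XT.lf (nat_lit 76) (nat_lit 2301755932) (nat_lit 0) (nat_lit 2112770420) (nat_lit 760) (nat_lit 7672356204) (nat_lit 87) (nat_lit 5) (nat_lit 86) (nat_lit 5) (nat_lit 96) (nat_lit 5) (nat_lit 285) (nat_lit 278) (nat_lit 217))) (XT.nd (nat_lit 78) (nat_lit 0) (nat_lit 0) (XT.lf (nat_lit 0) (nat_lit 5569154917) (nat_lit 684) (nat_lit 4085322869) (nat_lit 760) (nat_lit 2733305155) (nat_lit 87) (nat_lit 5) (nat_lit 96) (nat_lit 5) (nat_lit 97) (nat_lit 5) (nat_lit 286)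 (nat_lit 278) (nat_lit 216)) (XT.nd (nat_lit 78) (nat_lit 0) (nat_lit 76) (XT.lf (nat_lit 76) (nat_lit 1902972138) (nat_lit 0) (nat_lit 4914141106) (nat_lit 760) (nat_lit 5884901510) (nat_lit 88) (nat_lit 5) (nat_lit 87) (nat_lit 5) (nat_lit 97) (nat_lit 5) (nat_lit 287) (nat_lit 278) (nat_lit 215)) (XT.lf (nat_lit 0) (nat_lit 8171131895) (nat_lit 684) (nat_lit 4722040705) (nat_lit 76) (nat_lit 136665604) (nat_lit 88) (nat_lit 5) (nat_lit 97) (nat_lit 5) (nat_lit 89) (nat_lit 5) (nat_lit 288) (nat_lit 278) (nat_lit 214))))))) (XT.nd (nat_lit 780) (nat_lit 1368) (nat_lit 0) (XT.nd (nat_lit 390) (nat_lit 608) (nat_lit 0) (XT.nd (nat_lit 156) (nat_lit 912) (nat_lit 0) (XT.nd (nat_lit 78) (nat_lit 0) (nat_lit 0) (XT.lf (nat_lit 0) (nat_lit 1606885959) (nat_lit 684) (nat_lit 8065284014) (nat_lit 760) (nat_lit 3697977090) (nat_lit 79) (nat_lit 5) (nat_lit 88) (nat_lit 5) (nat_lit 89) (nat_lit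 5) (nat_lit 289) (nat_lit 278) (nat_lit 213)) (XT.lf (nat_lit 0) (nat_lit 8393769187) (nat_lit 684) (nat_lit 2909035223) (nat_lit 760) (nat_lit 2421997024) (nat_lit 79) (nat_lit 5) (nat_lit 88) (nat_lit 5) (nat_lit 89) (nat_lit 5) (nat_lit 290) (nat_lit 278) (nat_lit 212))) (XT.nd (nat_lit 78) (nat_lit 456) (nat_lit 0) (XT.lf (nat_lit 0) (nat_lit 1406029067) (nat_lit 456) (nat_lit 11645833755) (nat_lit 532) (nat_lit 1043535656) (nat_lit 73) (nat_lit 5) (nat_lit 79) (nat_lit 5) (nat_lit 80) (nat_lit 5) (nat_lit 291) (nat_lit 278) (nat_lit 211)) (XT.nd (nat_lit 78) (nat_lit 380) (nat_lit 0) (XT.lf (nat_lit 0) (nat_lit 506574939) (nat_lit 532) (nat_lit 5893601746) (nat_lit 76) (nat_lit 8078300330) (nat_lit 72) (nat_lit 5) (nat_lit 79) (nat_lit 5) (nat_lit 73) (nat_lit 5) (nat_lit 292) (nat_lit 278) (nat_lit 210)) (XT.lf (nat_lit 0) (nat_lit 1242578353) (nat_lit 380) (nat_lit 853275650)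 (nat_lit 456) (nat_lit 12784210626) (nat_lit 67) (nat_lit 5) (nat_lit 72) (nat_lit 5) (nat_lit 73) (nat_lit 5) (nat_lit 293) (nat_lit 278) (nat_lit 209))))) (XT.nd (nat_lit 156) (nat_lit 304) (nat_lit 0) (XT.nd (nat_lit 78) (nat_lit 304) (nat_lit 0) (XT.lf (nat_lit 0) (nat_lit 3921732154) (nat_lit 456) (nat_lit 6458636726) (nat_lit 76) (nat_lit 4913550880) (nat_lit 67) (nat_lit 5) (nat_lit 73) (nat_lit 5) (nat_lit 68) (nat_lit 5) (nat_lit 294) (nat_lit 278) (nat_lit 208)) (XT.lf (nat_lit 0) (nat_lit 1077925991) (nat_lit 304) (nat_lit 4770916847) (nat_lit 380) (nat_lit 9879170630) (nat_lit 63) (nat_lit 5) (nat_lit 67) (nat_lit 5) (nat_lit 68) (nat_lit 5) (nat_lit 295) (nat_lit 278) (nat_lit 207))) (XT.nd (nat_lit 78) (nat_lit 304) (nat_lit 0) (XT.lf (nat_lit 0) (nat_lit 7980716180) (nat_lit 380) (nat_lit 7004484924) (nat_lit 76) (nat_lit 1193231121) (nat_lit 63) (nat_lit 5) (nat_lit 68)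 (nat_lit 5) (nat_lit 64) (nat_lit 5) (nat_lit 296) (nat_lit 278) (nat_lit 206)) (XT.nd (nat_lit 78) (nat_lit 0) (nat_lit 0) (XT.lf (nat_lit 0) (nat_lit 954375574) (nat_lit 304) (nat_lit 9338646527) (nat_lit 380) (nat_lit 6354696652) (nat_lit 59) (nat_lit 5) (nat_lit 63) (nat_lit 5) (nat_lit 64) (nat_lit 5) (nat_lit 297) (nat_lit 278) (nat_lit 205)) (XT.lf (nat_lit 0) (nat_lit 9533347046) (nat_lit 304) (nat_lit 3287537021) (nat_lit 380) (nat_lit 4314625435) (nat_lit 59) (nat_lit 5) (nat_lit 63) (nat_lit 5) (nat_lit 64) (nat_lit 5) (nat_lit 298) (nat_lit 278) (nat_lit 204)))))) (XT.nd (nat_lit 390) (nat_lit 532) (nat_lit 0) (XT.nd (nat_lit 156) (nat_lit 532) (nat_lit 0) (XT.nd (nat_lit 78) (nat_lit 76) (nat_lit 0) (XT.lf (nat_lit 0) (nat_lit 852076593) (nat_lit 228) (nat_lit 14666408172) (nat_lit 304) (nat_lit 2127072917) (nat_lit 56) (nat_lit 5) (nat_lit 59) (nat_lit 5) (nat_lit 60) (nat_lit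 5) (nat_lit 299) (nat_lit 278) (nat_lit 203)) (XT.lf (nat_lit 0) (nat_lit 331555024) (nat_lit 304) (nat_lit 8261548934) (nat_lit 76) (nat_lit 9579546904) (nat_lit 55) (nat_lit 5) (nat_lit 59) (nat_lit 5) (nat_lit 56) (nat_lit 5) (nat_lit 300) (nat_lit 278) (nat_lit 202))) (XT.nd (nat_lit 78) (nat_lit 228) (nat_lit 0) (XT.lf (nat_lit 0) (nat_lit 663164818) (nat_lit 304) (nat_lit 2172042040) (nat_lit 380) (nat_lit 15889499920) (nat_lit 51) (nat_lit 5) (nat_lit 55) (nat_lit 5) (nat_lit 56) (nat_lit 5) (nat_lit 301) (nat_lit 278) (nat_lit 201)) (XT.nd (nat_lit 78) (nat_lit 228) (nat_lit 0) (XT.lf (nat_lit 0) (nat_lit 5661255733) (nat_lit 380) (nat_lit 9070711444) (nat_lit 76) (nat_lit 4562566528) (nat_lit 51) (nat_lit 5) (nat_lit 56) (nat_lit 5) (nat_lit 52) (nat_lit 5) (nat_lit 302) (nat_lit 278) (nat_lit 200)) (XT.lf (nat_lit 0) (nat_lit 324798556) (nat_lit 228) (nat_lit 8328920864) (nat_lit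 304) (nat_lit 11237904500) (nat_lit 48) (nat_lit 5) (nat_lit 51) (nat_lit 5) (nat_lit 52) (nat_lit 5) (nat_lit 303) (nat_lit 278) (nat_lit 199))))) (XT.nd (nat_lit 234) (nat_lit 304) (nat_lit 0) (XT.nd (nat_lit 78) (nat_lit 228) (nat_lit 0) (XT.lf (nat_lit 0) (nat_lit 10485665242) (nat_lit 228) (nat_lit 1448631428) (nat_lit 304) (nat_lit 8577373704) (nat_lit 48) (nat_lit 5) (nat_lit 51) (nat_lit 5) (nat_lit 52) (nat_lit 5) (nat_lit 304) (nat_lit 278) (nat_lit 198)) (XT.nd (nat_lit 78) (nat_lit 228) (nat_lit 0) (XT.lf (nat_lit 0) (nat_lit 15454608462) (nat_lit 304) (nat_lit 117413872) (nat_lit 76) (nat_lit 5586936530) (nat_lit 48) (nat_lit 5) (nat_lit 52) (nat_lit 5) (nat_lit 49) (nat_lit 5) (nat_lit 305) (nat_lit 278) (nat_lit 197)) (XT.lf (nat_lit 0) (nat_lit 10583407804) (nat_lit 228) (nat_lit 8742732987) (nat_lit 304) (nat_lit 2503734548) (nat_lit 45) (nat_lit 5) (nat_lit 48) (nat_lit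 5) (nat_lit 49) (nat_lit 5) (nat_lit 306) (nat_lit 278) (nat_lit 196)))) (XT.nd (nat_lit 78) (nat_lit 228) (nat_lit 0) (XT.lf (nat_lit 0) (nat_lit 817862005) (nat_lit 304) (nat_lit 742668359) (nat_lit 76) (nat_lit 20973741104) (nat_lit 44) (nat_lit 5) (nat_lit 48) (nat_lit 5) (nat_lit 45) (nat_lit 5) (nat_lit 307) (nat_lit 278) (nat_lit 195)) (XT.nd (nat_lit 78) (nat_lit 0) (nat_lit 0) (XT.lf (nat_lit 0) (nat_lit 4470049664) (nat_lit 304) (nat_lit 12794979430) (nat_lit 76) (nat_lit 5994393975) (nat_lit 41) (nat_lit 5) (nat_lit 45) (nat_lit 5) (nat_lit 42) (nat_lit 5) (nat_lit 308) (nat_lit 278) (nat_lit 194)) (XT.lf (nat_lit 0) (nat_lit 8330496800) (nat_lit 304) (nat_lit 1806086573) (nat_lit 76) (nat_lit 13882985959) (nat_lit 41) (nat_lit 5) (nat_lit 45) (nat_lit 5) (nat_lit 42) (nat_lit 5) (nat_lit 309) (nat_lit 278) (nat_lit 193))))))))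
noncomputable def xc160 : XT := (XT.nd (nat_lit 1560) (nat_lit 760) (nat_lit 0) (XT.nd (nat_lit 780) (nat_lit 684) (nat_lit 0) (XT.nd (nat_lit 390) (nat_lit 304) (nat_lit 0) (XT.nd (nat_lit 156) (nat_lit 456) (nat_lit 0) (XT.nd (nat_lit 78) (nat_lit 0) (nat_lit 0) (XT.lf (nat_lit 0) (nat_lit 10036540473) (nat_lit 228) (nat_lit 2492013860) (nat_lit 304) (nat_lit 12281957826) (nat_lit 38) (nat_lit 5) (nat_lit 41) (nat_lit 5) (nat_lit 42) (nat_lit 5) (nat_lit 310) (nat_lit 278) (nat_lit 192)) (XT.lf (nat_lit 0) (nat_lit 17042146452) (nat_lit 304) (nat_lit 3209586094) (nat_lit 76) (nat_lit 5384005762) (nat_lit 38) (nat_lit 5) (nat_lit 42) (nat_lit 5) (nat_lit 39) (nat_lit 5) (nat_lit 311) (nat_lit 278) (nat_lit 191))) (XT.nd (nat_lit 78) (nat_lit 304) (nat_lit 0) (XT.lf (nat_lit 0) (nat_lit 9169258172) (nat_lit 152) (nat_lit 12784865592) (nat_lit 228) (nat_lit 4539483639) (nat_lit 36) (nat_lit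 5) (nat_lit 38) (nat_lit 5) (nat_lit 39) (nat_lit 5) (nat_lit 312) (nat_lit 278) (nat_lit 190)) (XT.nd (nat_lit 78) (nat_lit 304) (nat_lit 0) (XT.lf (nat_lit 0) (nat_lit 22262357006) (nat_lit 152) (nat_lit 4892680610) (nat_lit 228) (nat_lit 237181567) (nat_lit 36) (nat_lit 5) (nat_lit 38) (nat_lit 5) (nat_lit 39) (nat_lit 5) (nat_lit 313) (nat_lit 278) (nat_lit 189)) (XT.lf (nat_lit 0) (nat_lit 4311025237) (nat_lit 304) (nat_lit 20540037669) (nat_lit 76) (nat_lit 3472982743) (nat_lit 32) (nat_lit 5) (nat_lit 36) (nat_lit 5) (nat_lit 33) (nat_lit 5) (nat_lit 314) (nat_lit 278) (nat_lit 188))))) (XT.nd (nat_lit 156) (nat_lit 152) (nat_lit 0) (XT.nd (nat_lit 78) (nat_lit 152) (nat_lit 0) (XT.lf (nat_lit 0) (nat_lit 9236688187) (nat_lit 304) (nat_lit 7877890752) (nat_lit 76) (nat_lit 12179803174) (nat_lit 32) (nat_lit 5) (nat_lit 36) (nat_lit 5) (nat_lit 33) (nat_lit 5) (nat_lit 315) (nat_lit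 278) (nat_lit 187)) (XT.lf (nat_lit 0) (nat_lit 5580823064) (nat_lit 152) (nat_lit 8904951010) (nat_lit 228) (nat_lit 15823617594) (nat_lit 30) (nat_lit 5) (nat_lit 32) (nat_lit 5) (nat_lit 33) (nat_lit 5) (nat_lit 316) (nat_lit 278) (nat_lit 186))) (XT.nd (nat_lit 78) (nat_lit 152) (nat_lit 0) (XT.lf (nat_lit 0) (nat_lit 19971058058) (nat_lit 152) (nat_lit 149922527) (nat_lit 228) (nat_lit 11248000425) (nat_lit 30) (nat_lit 5) (nat_lit 32) (nat_lit 5) (nat_lit 33) (nat_lit 5) (nat_lit 317) (nat_lit 278) (nat_lit 185)) (XT.nd (nat_lit 78) (nat_lit 0) (nat_lit 0) (XT.lf (nat_lit 0) (nat_lit 2524256396) (nat_lit 152) (nat_lit 23684923952) (nat_lit 228) (nat_lit 6263819849) (nat_lit 28) (nat_lit 5) (nat_lit 30) (nat_lit 5) (nat_lit 31) (nat_lit 5) (nat_lit 318) (nat_lit 278) (nat_lit 184)) (XT.lf (nat_lit 0) (nat_lit 17521345228) (nat_lit 152) (nat_lit 15266751631) (nat_lit 228) (nat_lit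 834819597) (nat_lit 28) (nat_lit 5) (nat_lit 30) (nat_lit 5) (nat_lit 31) (nat_lit 5) (nat_lit 319) (nat_lit 278) (nat_lit 183)))))) (XT.nd (nat_lit 390) (nat_lit 304) (nat_lit 0) (XT.nd (nat_lit 156) (nat_lit 152) (nat_lit 0) (XT.nd (nat_lit 78) (nat_lit 152) (nat_lit 0) (XT.lf (nat_lit 0) (nat_lit 4701041414) (nat_lit 228) (nat_lit 1651995761) (nat_lit 76) (nat_lit 28473946369) (nat_lit 27) (nat_lit 5) (nat_lit 30) (nat_lit 5) (nat_lit 28) (nat_lit 5) (nat_lit 320) (nat_lit 278) (nat_lit 182)) (XT.lf (nat_lit 0) (nat_lit 10745486567) (nat_lit 228) (nat_lit 22191582831) (nat_lit 76) (nat_lit 3140517875) (nat_lit 25) (nat_lit 5) (nat_lit 28) (nat_lit 5) (nat_lit 26) (nat_lit 5) (nat_lit 321) (nat_lit 278) (nat_lit 181))) (XT.nd (nat_lit 78) (nat_lit 152) (nat_lit 0) (XT.lf (nat_lit 0) (nat_lit 17216422358) (nat_lit 228) (nat_lit 7249124828) (nat_lit 76) (nat_lit 12918970008) (nat_lit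 25) (nat_lit 5) (nat_lit 28) (nat_lit 5) (nat_lit 26) (nat_lit 5) (nat_lit 322) (nat_lit 278) (nat_lit 180)) (XT.nd (nat_lit 78) (nat_lit 0) (nat_lit 0) (XT.lf (nat_lit 0) (nat_lit 8706298739) (nat_lit 152) (nat_lit 15432616146) (nat_lit 228) (nat_lit 14611487200) (nat_lit 23) (nat_lit 5) (nat_lit 25) (nat_lit 5) (nat_lit 26) (nat_lit 5) (nat_lit 323) (nat_lit 278) (nat_lit 179)) (XT.lf (nat_lit 0) (nat_lit 25698560129) (nat_lit 152) (nat_lit 5823999878) (nat_lit 228) (nat_lit 8656278359) (nat_lit 23) (nat_lit 5) (nat_lit 25) (nat_lit 5) (nat_lit 26) (nat_lit 5) (nat_lit 324) (nat_lit 278) (nat_lit 178))))) (XT.nd (nat_lit 156) (nat_lit 152) (nat_lit 0) (XT.nd (nat_lit 78) (nat_lit 76) (nat_lit 0) (XT.lf (nat_lit 0) (nat_lit 1841786868) (nat_lit 76) (nat_lit 37521502021) (nat_lit 152) (nat_lit 2311020637) (nat_lit 22) (nat_lit 5) (nat_lit 23) (nat_lit 5) (nat_lit 24) (nat_lit 4) (nat_lit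 325) (nat_lit 278) (nat_lit 177)) (XT.lf (nat_lit 0) (nat_lit 4549546128) (nat_lit 152) (nat_lit 23929413874) (nat_lit 76) (nat_lit 14745338600) (nat_lit 21) (nat_lit 5) (nat_lit 23) (nat_lit 5) (nat_lit 22) (nat_lit 5) (nat_lit 326) (nat_lit 278) (nat_lit 176))) (XT.nd (nat_lit 78) (nat_lit 152) (nat_lit 0) (XT.lf (nat_lit 0) (nat_lit 11668423626) (nat_lit 152) (nat_lit 7280810720) (nat_lit 76) (nat_lit 25901018146) (nat_lit 21) (nat_lit 5) (nat_lit 23) (nat_lit 5) (nat_lit 22) (nat_lit 5) (nat_lit 327) (nat_lit 278) (nat_lit 175)) (XT.nd (nat_lit 78) (nat_lit 0) (nat_lit 0) (XT.lf (nat_lit 0) (nat_lit 10525902457) (nat_lit 152) (nat_lit 8774965036) (nat_lit 228) (nat_lit 27248762153) (nat_lit 19) (nat_lit 5) (nat_lit 21) (nat_lit 5) (nat_lit 22) (nat_lit 5) (nat_lit 328) (nat_lit 278) (nat_lit 174)) (XT.lf (nat_lit 0) (nat_lit 27463409992) (nat_lit 228) (nat_lit 18895195705) (nat_lit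 76) (nat_lit 1967952517) (nat_lit 19) (nat_lit 5) (nat_lit 22) (nat_lit 5) (nat_lit 20) (nat_lit 4) (nat_lit 329) (nat_lit 278) (nat_lit 173))))))) (XT.nd (nat_lit 780) (nat_lit 304) (nat_lit 0) (XT.nd (nat_lit 390) (nat_lit 152) (nat_lit 0) (XT.nd (nat_lit 156) (nat_lit 228) (nat_lit 0) (XT.nd (nat_lit 78) (nat_lit 76) (nat_lit 0) (XT.lf (nat_lit 0) (nat_lit 36171609123) (nat_lit 228) (nat_lit 1064850454) (nat_lit 76) (nat_lit 12949003231) (nat_lit 19) (nat_lit 5) (nat_lit 22) (nat_lit 5) (nat_lit 20) (nat_lit 4) (nat_lit 330) (nat_lit 278) (nat_lit 172)) (XT.lf (nat_lit 0) (nat_lit 18230245261) (nat_lit 76) (nat_lit 27363576855) (nat_lit 152) (nat_lit 6529566104) (nat_lit 18) (nat_lit 5) (nat_lit 19) (nat_lit 5) (nat_lit 20) (nat_lit 4) (nat_lit 331) (nat_lit 278) (nat_lit 171))) (XT.nd (nat_lit 78) (nat_lit 152) (nat_lit 0) (XT.lf (nat_lit 0) (nat_lit 1298737068) (nat_lit 152) (nat_lit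 15661573929) (nat_lit 76) (nat_lit 37196249957) (nat_lit 17) (nat_lit 5) (nat_lit 19) (nat_lit 5) (nat_lit 18) (nat_lit 5) (nat_lit 332) (nat_lit 278) (nat_lit 170)) (XT.nd (nat_lit 78) (nat_lit 0) (nat_lit 0) (XT.lf (nat_lit 0) (nat_lit 3475988017) (nat_lit 152) (nat_lit 5871592552) (nat_lit 228) (nat_lit 46936036580) (nat_lit 15) (nat_lit 5) (nat_lit 17) (nat_lit 5) (nat_lit 18) (nat_lit 5) (nat_lit 333) (nat_lit 278) (nat_lit 169)) (XT.lf (nat_lit 0) (nat_lit 18152910550) (nat_lit 228) (nat_lit 34493919823) (nat_lit 76) (nat_lit 5852498323) (nat_lit 15) (nat_lit 5) (nat_lit 18) (nat_lit 5) (nat_lit 16) (nat_lit 4) (nat_lit 334) (nat_lit 278) (nat_lit 168))))) (XT.nd (nat_lit 156) (nat_lit 76) (nat_lit 0) (XT.nd (nat_lit 78) (nat_lit 76) (nat_lit 0) (XT.lf (nat_lit 0) (nat_lit 27489381293) (nat_lit 228) (nat_lit 15370170795) (nat_lit 76) (nat_lit 17961734551) (nat_lit 15) (nat_lit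 5) (nat_lit 18) (nat_lit 5) (nat_lit 16) (nat_lit 4) (nat_lit 335) (nat_lit 278) (nat_lit 167)) (XT.lf (nat_lit 0) (nat_lit 4856253128) (nat_lit 76) (nat_lit 32507117068) (nat_lit 152) (nat_lit 25892441867) (nat_lit 14) (nat_lit 5) (nat_lit 15) (nat_lit 5) (nat_lit 16) (nat_lit 4) (nat_lit 336) (nat_lit 278) (nat_lit 166))) (XT.nd (nat_lit 78) (nat_lit 76) (nat_lit 0) (XT.lf (nat_lit 0) (nat_lit 26618817131) (nat_lit 76) (nat_lit 21367524277) (nat_lit 152) (nat_lit 17812962319) (nat_lit 14) (nat_lit 5) (nat_lit 15) (nat_lit 5) (nat_lit 16) (nat_lit 4) (nat_lit 337) (nat_lit 278) (nat_lit 165)) (XT.nd (nat_lit 78) (nat_lit 76) (nat_lit 0) (XT.lf (nat_lit 0) (nat_lit 49461129581) (nat_lit 76) (nat_lit 9674552154) (nat_lit 152) (nat_lit 9334531127) (nat_lit 14) (nat_lit 5) (nat_lit 15) (nat_lit 5) (nat_lit 16) (nat_lit 4) (nat_lit 338) (nat_lit 278) (nat_lit 164)) (XT.lf (nat_lit 0) (nat_lit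 2192256396) (nat_lit 76) (nat_lit 68720495756) (nat_lit 76) (nat_lit 358405874) (nat_lit 13) (nat_lit 4) (nat_lit 14) (nat_lit 5) (nat_lit 14) (nat_lit 4) (nat_lit 339) (nat_lit 278) (nat_lit 163)))))) (XT.nd (nat_lit 390) (nat_lit 152) (nat_lit 0) (XT.nd (nat_lit 156) (nat_lit 76) (nat_lit 0) (XT.nd (nat_lit 78) (nat_lit 0) (nat_lit 0) (XT.lf (nat_lit 0) (nat_lit 9257556145) (nat_lit 152) (nat_lit 49396051166) (nat_lit 76) (nat_lit 15527408029) (nat_lit 12) (nat_lit 5) (nat_lit 14) (nat_lit 5) (nat_lit 13) (nat_lit 4) (nat_lit 340) (nat_lit 278) (nat_lit 162)) (XT.lf (nat_lit 0) (nat_lit 19337901193) (nat_lit 152) (nat_lit 28742726087) (nat_lit 76) (nat_lit 29155666199) (nat_lit 12) (nat_lit 5) (nat_lit 14) (nat_lit 5) (nat_lit 13) (nat_lit 4) (nat_lit 341) (nat_lit 278) (nat_lit 161))) (XT.nd (nat_lit 78) (nat_lit 76) (nat_lit 0) (XT.lf (nat_lit 0) (nat_lit 29918101316) (nat_lit 152)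 (nat_lit 7064156091) (nat_lit 76) (nat_lit 43462289294) (nat_lit 12) (nat_lit 5) (nat_lit 14) (nat_lit 5) (nat_lit 13) (nat_lit 4) (nat_lit 342) (nat_lit 278) (nat_lit 160)) (XT.nd (nat_lit 78) (nat_lit 0) (nat_lit 0) (XT.lf (nat_lit 0) (nat_lit 16210098862) (nat_lit 76) (nat_lit 25066333677) (nat_lit 152) (nat_lit 42524326912) (nat_lit 11) (nat_lit 5) (nat_lit 12) (nat_lit 5) (nat_lit 13) (nat_lit 4) (nat_lit 343) (nat_lit 278) (nat_lit 159)) (XT.lf (nat_lit 0) (nat_lit 40886364171) (nat_lit 76) (nat_lit 12432067266) (nat_lit 152) (nat_lit 34000566628) (nat_lit 11) (nat_lit 5) (nat_lit 12) (nat_lit 5) (nat_lit 13) (nat_lit 4) (nat_lit 344) (nat_lit 278) (nat_lit 158))))) (XT.nd (nat_lit 156) (nat_lit 152) (nat_lit 0) (XT.nd (nat_lit 78) (nat_lit 0) (nat_lit 0) (XT.lf (nat_lit 0) (nat_lit 65971805495) (nat_lit 152) (nat_lit 24236490316) (nat_lit 0) (nat_lit 804391688) (nat_lit 11) (nat_lit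 5) (nat_lit 13) (nat_lit 4) (nat_lit 11) (nat_lit 4) (nat_lit 345) (nat_lit 278) (nat_lit 157)) (XT.lf (nat_lit 0) (nat_lit 79458086449) (nat_lit 152) (nat_lit 1140786551) (nat_lit 0) (nat_lit 14282179017) (nat_lit 11) (nat_lit 5) (nat_lit 13) (nat_lit 4) (nat_lit 11) (nat_lit 4) (nat_lit 346) (nat_lit 278) (nat_lit 156))) (XT.nd (nat_lit 78) (nat_lit 76) (nat_lit 0) (XT.lf (nat_lit 0) (nat_lit 23867474831) (nat_lit 76) (nat_lit 70120448422) (nat_lit 76) (nat_lit 4936451824) (nat_lit 10) (nat_lit 4) (nat_lit 11) (nat_lit 5) (nat_lit 11) (nat_lit 4) (nat_lit 347) (nat_lit 278) (nat_lit 155)) (XT.nd (nat_lit 78) (nat_lit 0) (nat_lit 0) (XT.lf (nat_lit 0) (nat_lit 5896220083) (nat_lit 152) (nat_lit 53104449395) (nat_lit 76) (nat_lit 44163642538) (nat_lit 9) (nat_lit 5) (nat_lit 11) (nat_lit 5) (nat_lit 10) (nat_lit 4) (nat_lit 348) (nat_lit 278) (nat_lit 154)) (XT.lf (nat_lit 0) (nat_lit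 17101403980) (nat_lit 152) (nat_lit 30141159518) (nat_lit 76) (nat_lit 60369799331) (nat_lit 9) (nat_lit 5) (nat_lit 11) (nat_lit 5) (nat_lit 10) (nat_lit 4) (nat_lit 349) (nat_lit 278) (nat_lit 153))))))))
noncomputable def xc161 : XT := (XT.nd (nat_lit 1560) (nat_lit 152) (nat_lit 0) (XT.nd (nat_lit 780) (nat_lit 152) (nat_lit 0) (XT.nd (nat_lit 390) (nat_lit 152) (nat_lit 0) (XT.nd (nat_lit 156) (nat_lit 0) (nat_lit 0) (XT.nd (nat_lit 78) (nat_lit 76) (nat_lit 0) (XT.lf (nat_lit 0) (nat_lit 28863776163) (nat_lit 152) (nat_lit 6035284268) (nat_lit 76) (nat_lit 77383911274) (nat_lit 9) (nat_lit 5) (nat_lit 11) (nat_lit 5) (nat_lit 10) (nat_lit 4) (nat_lit 350) (nat_lit 278) (nat_lit 152)) (XT.lf (nat_lit 0) (nat_lit 19907743410) (nat_lit 76) (nat_lit 21614414536) (nat_lit 152) (nat_lit 75649560413) (nat_lit 8) (nat_lit 5) (nat_lit 9) (nat_lit 5) (nat_lit 10) (nat_lit 4) (nat_lit 351)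 (nat_lit 278) (nat_lit 151))) (XT.nd (nat_lit 78) (nat_lit 0) (nat_lit 0) (XT.lf (nat_lit 0) (nat_lit 47352226168) (nat_lit 76) (nat_lit 7560576086) (nat_lit 152) (nat_lit 67387134713) (nat_lit 8) (nat_lit 5) (nat_lit 9) (nat_lit 5) (nat_lit 10) (nat_lit 4) (nat_lit 352) (nat_lit 278) (nat_lit 150)) (XT.nd (nat_lit 78) (nat_lit 0) (nat_lit 0) (XT.lf (nat_lit 0) (nat_lit 69082562189) (nat_lit 152) (nat_lit 51633064394) (nat_lit 0) (nat_lit 6963462460) (nat_lit 8) (nat_lit 5) (nat_lit 10) (nat_lit 4) (nat_lit 8) (nat_lit 4) (nat_lit 353) (nat_lit 278) (nat_lit 149)) (XT.lf (nat_lit 0) (nat_lit 84082120084) (nat_lit 152) (nat_lit 27281469479) (nat_lit 0) (nat_lit 21957545289) (nat_lit 8) (nat_lit 5) (nat_lit 10) (nat_lit 4) (nat_lit 8) (nat_lit 4) (nat_lit 354) (nat_lit 278) (nat_lit 148))))) (XT.nd (nat_lit 156) (nat_lit 76) (nat_lit 0) (XT.nd (nat_lit 78) (nat_lit 76) (nat_lit 0) (XT.lf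 (nat_lit 0) (nat_lit 99829147392) (nat_lit 152) (nat_lit 1716904285) (nat_lit 0) (nat_lit 37699358248) (nat_lit 8) (nat_lit 5) (nat_lit 10) (nat_lit 4) (nat_lit 8) (nat_lit 4) (nat_lit 355) (nat_lit 278) (nat_lit 147)) (XT.lf (nat_lit 0) (nat_lit 25952129415) (nat_lit 76) (nat_lit 90814193089) (nat_lit 76) (nat_lit 28679437899) (nat_lit 7) (nat_lit 4) (nat_lit 8) (nat_lit 5) (nat_lit 8) (nat_lit 4) (nat_lit 356) (nat_lit 278) (nat_lit 146))) (XT.nd (nat_lit 78) (nat_lit 76) (nat_lit 0) (XT.lf (nat_lit 0) (nat_lit 55059902677) (nat_lit 76) (nat_lit 79517187599) (nat_lit 76) (nat_lit 17377702841) (nat_lit 7) (nat_lit 4) (nat_lit 8) (nat_lit 5) (nat_lit 8) (nat_lit 4) (nat_lit 357) (nat_lit 278) (nat_lit 145)) (XT.nd (nat_lit 78) (nat_lit 76) (nat_lit 0) (XT.lf (nat_lit 0) (nat_lit 85618951114) (nat_lit 76) (nat_lit 67657214178) (nat_lit 76) (nat_lit 5513225069) (nat_lit 7) (nat_lit 4)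 (nat_lit 8) (nat_lit 5) (nat_lit 8) (nat_lit 4) (nat_lit 358) (nat_lit 278) (nat_lit 144)) (XT.lf (nat_lit 0) (nat_lit 6720049002) (nat_lit 152) (nat_lit 48372178510) (nat_lit 76) (nat_lit 110868178080) (nat_lit 6) (nat_lit 5) (nat_lit 8) (nat_lit 5) (nat_lit 7) (nat_lit 4) (nat_lit 359) (nat_lit 278) (nat_lit 143)))))) (XT.nd (nat_lit 390) (nat_lit 76) (nat_lit 0) (XT.nd (nat_lit 156) (nat_lit 0) (nat_lit 0) (XT.nd (nat_lit 78) (nat_lit 76) (nat_lit 0) (XT.lf (nat_lit 0) (nat_lit 19377648199) (nat_lit 152) (nat_lit 22428185735) (nat_lit 76) (nat_lit 131679722673) (nat_lit 6) (nat_lit 5) (nat_lit 8) (nat_lit 5) (nat_lit 7) (nat_lit 4) (nat_lit 360) (nat_lit 278) (nat_lit 142)) (XT.lf (nat_lit 0) (nat_lit 4968407449) (nat_lit 76) (nat_lit 27775330609) (nat_lit 152) (nat_lit 148639447681) (nat_lit 5) (nat_lit 5) (nat_lit 6) (nat_lit 5) (nat_lit 7) (nat_lit 4) (nat_lit 361) (nat_lit 278)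 (nat_lit 141))) (XT.nd (nat_lit 78) (nat_lit 0) (nat_lit 0) (XT.lf (nat_lit 0) (nat_lit 34509925338) (nat_lit 76) (nat_lit 12646116930) (nat_lit 152) (nat_lit 142500759616) (nat_lit 5) (nat_lit 5) (nat_lit 6) (nat_lit 5) (nat_lit 7) (nat_lit 4) (nat_lit 362) (nat_lit 278) (nat_lit 140)) (XT.nd (nat_lit 78) (nat_lit 0) (nat_lit 0) (XT.lf (nat_lit 0) (nat_lit 62337685112) (nat_lit 152) (nat_lit 132869617810) (nat_lit 0) (nat_lit 3134360741) (nat_lit 5) (nat_lit 5) (nat_lit 7) (nat_lit 4) (nat_lit 5) (nat_lit 4) (nat_lit 363) (nat_lit 278) (nat_lit 139)) (XT.lf (nat_lit 0) (nat_lit 78483956683) (nat_lit 152) (nat_lit 109689104314) (nat_lit 0) (nat_lit 19277431155) (nat_lit 5) (nat_lit 5) (nat_lit 7) (nat_lit 4) (nat_lit 5) (nat_lit 4) (nat_lit 364) (nat_lit 278) (nat_lit 138))))) (XT.nd (nat_lit 156) (nat_lit 76) (nat_lit 0) (XT.nd (nat_lit 78) (nat_lit 0) (nat_lit 0) (XT.lf (nat_lit 0)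 (nat_lit 95435859161) (nat_lit 152) (nat_lit 85352703035) (nat_lit 0) (nat_lit 36226284910) (nat_lit 5) (nat_lit 5) (nat_lit 7) (nat_lit 4) (nat_lit 5) (nat_lit 4) (nat_lit 365) (nat_lit 278) (nat_lit 137)) (XT.lf (nat_lit 0) (nat_lit 113233754216) (nat_lit 152) (nat_lit 59802470160) (nat_lit 0) (nat_lit 54021276421) (nat_lit 5) (nat_lit 5) (nat_lit 7) (nat_lit 4) (nat_lit 5) (nat_lit 4) (nat_lit 366) (nat_lit 278) (nat_lit 136))) (XT.nd (nat_lit 78) (nat_lit 76) (nat_lit 0) (XT.lf (nat_lit 0) (nat_lit 131920017790) (nat_lit 152) (nat_lit 32977571801) (nat_lit 0) (nat_lit 72704774715) (nat_lit 5) (nat_lit 5) (nat_lit 7) (nat_lit 4) (nat_lit 5) (nat_lit 4) (nat_lit 367) (nat_lit 278) (nat_lit 135)) (XT.nd (nat_lit 78) (nat_lit 76) (nat_lit 0) (XT.lf (nat_lit 0) (nat_lit 151539140987) (nat_lit 152) (nat_lit 4814139153) (nat_lit 0) (nat_lit 92321264312) (nat_lit 5) (nat_lit 5) (nat_lit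 7) (nat_lit 4) (nat_lit 5) (nat_lit 4) (nat_lit 368) (nat_lit 278) (nat_lit 134)) (XT.lf (nat_lit 0) (nat_lit 25573391824) (nat_lit 76) (nat_lit 146963716496) (nat_lit 76) (nat_lit 87743331630) (nat_lit 4) (nat_lit 4) (nat_lit 5) (nat_lit 5) (nat_lit 5) (nat_lit 4) (nat_lit 369) (nat_lit 278) (nat_lit 133))))))) (XT.nd (nat_lit 780) (nat_lit 0) (nat_lit 0) (XT.nd (nat_lit 390) (nat_lit 152) (nat_lit 0) (XT.nd (nat_lit 156) (nat_lit 0) (nat_lit 0) (XT.nd (nat_lit 78) (nat_lit 0) (nat_lit 0) (XT.lf (nat_lit 0) (nat_lit 57644895478) (nat_lit 76) (nat_lit 137020250245) (nat_lit 76) (nat_lit 77797476625) (nat_lit 4) (nat_lit 4) (nat_lit 5) (nat_lit 5) (nat_lit 5) (nat_lit 4) (nat_lit 370) (nat_lit 278) (nat_lit 132)) (XT.lf (nat_lit 0) (nat_lit 91317555351) (nat_lit 76) (nat_lit 126580736242) (nat_lit 76) (nat_lit 67355687619) (nat_lit 4) (nat_lit 4) (nat_lit 5) (nat_lit 5) (nat_lit 5) (nat_lit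 4) (nat_lit 371) (nat_lit 278) (nat_lit 131))) (XT.nd (nat_lit 78) (nat_lit 0) (nat_lit 0) (XT.lf (nat_lit 0) (nat_lit 126671544441) (nat_lit 76) (nat_lit 115620318502) (nat_lit 76) (nat_lit 56393103210) (nat_lit 4) (nat_lit 4) (nat_lit 5) (nat_lit 5) (nat_lit 5) (nat_lit 4) (nat_lit 372) (nat_lit 278) (nat_lit 130)) (XT.nd (nat_lit 78) (nat_lit 0) (nat_lit 0) (XT.lf (nat_lit 0) (nat_lit 163791038913) (nat_lit 76) (nat_lit 104112900793) (nat_lit 76) (nat_lit 44883622006) (nat_lit 4) (nat_lit 4) (nat_lit 5) (nat_lit 5) (nat_lit 5) (nat_lit 4) (nat_lit 373) (nat_lit 278) (nat_lit 129)) (XT.lf (nat_lit 0) (nat_lit 202764418517) (nat_lit 76) (nat_lit 92031084501) (nat_lit 76) (nat_lit 32799840481) (nat_lit 4) (nat_lit 4) (nat_lit 5) (nat_lit 5) (nat_lit 5) (nat_lit 4) (nat_lit 374) (nat_lit 278) (nat_lit 128))))) (XT.nd (nat_lit 156) (nat_lit 152) (nat_lit 0) (XT.nd (nat_lit 78) (nat_lit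 0) (nat_lit 0) (XT.lf (nat_lit 0) (nat_lit 243684477012) (nat_lit 76) (nat_lit 79346103396) (nat_lit 76) (nat_lit 20112987725) (nat_lit 4) (nat_lit 4) (nat_lit 5) (nat_lit 5) (nat_lit 5) (nat_lit 4) (nat_lit 375) (nat_lit 278) (nat_lit 127)) (XT.lf (nat_lit 0) (nat_lit 286648643110) (nat_lit 76) (nat_lit 66027755143) (nat_lit 76) (nat_lit 6792856948) (nat_lit 4) (nat_lit 4) (nat_lit 5) (nat_lit 5) (nat_lit 5) (nat_lit 4) (nat_lit 376) (nat_lit 278) (nat_lit 126))) (XT.nd (nat_lit 78) (nat_lit 76) (nat_lit 0) (XT.lf (nat_lit 0) (nat_lit 6962069005) (nat_lit 152) (nat_lit 44964354376) (nat_lit 76) (nat_lit 324679237431) (nat_lit 3) (nat_lit 5) (nat_lit 5) (nat_lit 5) (nat_lit 4) (nat_lit 4) (nat_lit 377) (nat_lit 278) (nat_lit 125)) (XT.nd (nat_lit 78) (nat_lit 76) (nat_lit 0) (XT.lf (nat_lit 0) (nat_lit 21175521988) (nat_lit 152) (nat_lit 15828392562) (nat_lit 76) (nat_lit 357589451432)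 (nat_lit 3) (nat_lit 5) (nat_lit 5) (nat_lit 5) (nat_lit 4) (nat_lit 4) (nat_lit 378) (nat_lit 278) (nat_lit 124)) (XT.lf (nat_lit 0) (nat_lit 15250821760) (nat_lit 76) (nat_lit 21086043708) (nat_lit 152) (nat_lit 377131730486) (nat_lit 2) (nat_lit 5) (nat_lit 3) (nat_lit 5) (nat_lit 4) (nat_lit 4) (nat_lit 379) (nat_lit 278) (nat_lit 123)))))) (XT.nd (nat_lit 390) (nat_lit 0) (nat_lit 0) (XT.nd (nat_lit 156) (nat_lit 0) (nat_lit 0) (XT.nd (nat_lit 78) (nat_lit 0) (nat_lit 0) (XT.lf (nat_lit 0) (nat_lit 48431882615) (nat_lit 76) (nat_lit 4091581557) (nat_lit 152) (nat_lit 380750764266) (nat_lit 2) (nat_lit 5) (nat_lit 3) (nat_lit 5) (nat_lit 4) (nat_lit 4) (nat_lit 380) (nat_lit 278) (nat_lit 122)) (XT.lf (nat_lit 0) (nat_lit 69733266250) (nat_lit 152) (nat_lit 371014455429) (nat_lit 0) (nat_lit 13311727590) (nat_lit 2) (nat_lit 5) (nat_lit 4) (nat_lit 4) (nat_lit 2) (nat_lit 4) (nat_lit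 381) (nat_lit 278) (nat_lit 121))) (XT.nd (nat_lit 78) (nat_lit 0) (nat_lit 0) (XT.lf (nat_lit 0) (nat_lit 87869830447) (nat_lit 152) (nat_lit 356563762490) (nat_lit 0) (nat_lit 31447024979) (nat_lit 2) (nat_lit 5) (nat_lit 4) (nat_lit 4) (nat_lit 2) (nat_lit 4) (nat_lit 382) (nat_lit 278) (nat_lit 120)) (XT.nd (nat_lit 78) (nat_lit 0) (nat_lit 0) (XT.lf (nat_lit 0) (nat_lit 106912458003) (nat_lit 152) (nat_lit 341391979541) (nat_lit 0) (nat_lit 50488446053) (nat_lit 2) (nat_lit 5) (nat_lit 4) (nat_lit 4) (nat_lit 2) (nat_lit 4) (nat_lit 383) (nat_lit 278) (nat_lit 119)) (XT.lf (nat_lit 0) (nat_lit 126906488509) (nat_lit 152) (nat_lit 325462983288) (nat_lit 0) (nat_lit 70481327528) (nat_lit 2) (nat_lit 5) (nat_lit 4) (nat_lit 4) (nat_lit 2) (nat_lit 4) (nat_lit 384) (nat_lit 278) (nat_lit 118))))) (XT.nd (nat_lit 32526) (nat_lit 0) (nat_lit 6232) (XT.nd (nat_lit 32370) (nat_lit 0) (nat_lit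 6232) (XT.lf (nat_lit 0) (nat_lit 147899526799) (nat_lit 152) (nat_lit 308738847550) (nat_lit 0) (nat_lit 91473271503) (nat_lit 2) (nat_lit 5) (nat_lit 4) (nat_lit 4) (nat_lit 2) (nat_lit 4) (nat_lit 385) (nat_lit 278) (nat_lit 117)) (XT.nd (nat_lit 78) (nat_lit 684) (nat_lit 0) (XT.lf (nat_lit 0) (nat_lit 5295620125) (nat_lit 684) (nat_lit 39877211) (nat_lit 684) (nat_lit 39877211) (nat_lit 93) (nat_lit 3) (nat_lit 102) (nat_lit 3) (nat_lit 102) (nat_lit 5) (nat_lit 279) (nat_lit 279) (nat_lit 222)) (XT.lf (nat_lit 0) (nat_lit 479844988) (nat_lit 684) (nat_lit 6078364259) (nat_lit 760) (nat_lit 4428208376) (nat_lit 84) (nat_lit 5) (nat_lit 93) (nat_lit 3) (nat_lit 94) (nat_lit 5) (nat_lit 280) (nat_lit 279) (nat_lit 221)))) (XT.nd (nat_lit 78) (nat_lit 0) (nat_lit 76) (XT.lf (nat_lit 0) (nat_lit 1111022121) (nat_lit 684) (nat_lit 1108830404) (nat_lit 760) (nat_lit 9015710150) (nat_lit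 84) (nat_lit 5) (nat_lit 93) (nat_lit 3) (nat_lit 94) (nat_lit 5) (nat_lit 281) (nat_lit 279) (nat_lit 220)) (XT.nd (nat_lit 78) (nat_lit 0) (nat_lit 0) (XT.lf (nat_lit 0) (nat_lit 1843064709) (nat_lit 684) (nat_lit 7308481474) (nat_lit 760) (nat_lit 2342234086) (nat_lit 85) (nat_lit 5) (nat_lit 94) (nat_lit 5) (nat_lit 95) (nat_lit 5) (nat_lit 282) (nat_lit 279) (nat_lit 219)) (XT.lf (nat_lit 0) (nat_lit 2634311169) (nat_lit 684) (nat_lit 2039113903) (nat_lit 760) (nat_lit 7090430363) (nat_lit 85) (nat_lit 5) (nat_lit 94) (nat_lit 5) (nat_lit 95) (nat_lit 5) (nat_lit 283) (nat_lit 279) (nat_lit 218))))))))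
noncomputable def xc162 : XT := (XT.nd (nat_lit 1560) (nat_lit 1976) (nat_lit 0) (XT.nd (nat_lit 780) (nat_lit 1596) (nat_lit 0) (XT.nd (nat_lit 390) (nat_lit 1064) (nat_lit 0) (XT.nd (nat_lit 156) (nat_lit 0) (nat_lit 0) (XT.nd (nat_lit 78) (nat_lit 0) (nat_lit 0) (XT.lf (nat_lit 0) (nat_lit 3491376850) (nat_lit 684) (nat_lit 8459307706) (nat_lit 760) (nat_lit 95510082) (nat_lit 86) (nat_lit 5) (nat_lit 95) (nat_lit 5) (nat_lit 96) (nat_lit 5) (nat_lit 284) (nat_lit 279) (nat_lit 217)) (XT.lf (nat_lit 0) (nat_lit 4473043326) (nat_lit 684) (nat_lit 2874609018) (nat_lit 760) (nat_lit 4990980725) (nat_lit 86) (nat_lit 5) (nat_lit 95) (nat_lit 5) (nat_lit 96) (nat_lit 5) (nat_lit 285) (nat_lit 279) (nat_lit 216))) (XT.nd (nat_lit 78) (nat_lit 0) (nat_lit 76) (XT.lf (nat_lit 76) (nat_lit 3067025253) (nat_lit 0) (nat_lit 2456114145) (nat_lit 760) (nat_lit 7121653034) (nat_lit 87) (nat_lit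 5) (nat_lit 86) (nat_lit 5) (nat_lit 96) (nat_lit 5) (nat_lit 286) (nat_lit 279) (nat_lit 215)) (XT.nd (nat_lit 78) (nat_lit 0) (nat_lit 0) (XT.lf (nat_lit 0) (nat_lit 6689684552) (nat_lit 684) (nat_lit 3622610898) (nat_lit 760) (nat_lit 2650830267) (nat_lit 87) (nat_lit 5) (nat_lit 96) (nat_lit 5) (nat_lit 97) (nat_lit 5) (nat_lit 287) (nat_lit 279) (nat_lit 214)) (XT.lf (nat_lit 76) (nat_lit 2654341148) (nat_lit 0) (nat_lit 5315846426) (nat_lit 760) (nat_lit 5324466721) (nat_lit 88) (nat_lit 5) (nat_lit 87) (nat_lit 5) (nat_lit 97) (nat_lit 5) (nat_lit 288) (nat_lit 279) (nat_lit 213))))) (XT.nd (nat_lit 156) (nat_lit 532) (nat_lit 0) (XT.nd (nat_lit 78) (nat_lit 608) (nat_lit 0) (XT.lf (nat_lit 76) (nat_lit 9350589411) (nat_lit 0) (nat_lit 326169) (nat_lit 760) (nat_lit 4290091026) (nat_lit 88) (nat_lit 5) (nat_lit 87) (nat_lit 5) (nat_lit 97) (nat_lit 5) (nat_lit 289) (nat_lit 279)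 (nat_lit 212)) (XT.lf (nat_lit 0) (nat_lit 2344191045) (nat_lit 684) (nat_lit 8556341565) (nat_lit 760) (nat_lit 3099205855) (nat_lit 79) (nat_lit 5) (nat_lit 88) (nat_lit 5) (nat_lit 89) (nat_lit 5) (nat_lit 290) (nat_lit 279) (nat_lit 211))) (XT.nd (nat_lit 78) (nat_lit 532) (nat_lit 0) (XT.lf (nat_lit 0) (nat_lit 9439134588) (nat_lit 684) (nat_lit 3138099699) (nat_lit 760) (nat_lit 1796744409) (nat_lit 79) (nat_lit 5) (nat_lit 88) (nat_lit 5) (nat_lit 89) (nat_lit 5) (nat_lit 291) (nat_lit 279) (nat_lit 210)) (XT.nd (nat_lit 78) (nat_lit 76) (nat_lit 0) (XT.lf (nat_lit 0) (nat_lit 2129665294) (nat_lit 456) (nat_lit 12259261749) (nat_lit 532) (nat_lit 375495589) (nat_lit 73) (nat_lit 5) (nat_lit 79) (nat_lit 5) (nat_lit 80) (nat_lit 5) (nat_lit 292) (nat_lit 279) (nat_lit 209)) (XT.lf (nat_lit 0) (nat_lit 1195870746) (nat_lit 532) (nat_lit 5542723795) (nat_lit 76) (nat_lit 8429227278)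 (nat_lit 72) (nat_lit 5) (nat_lit 79) (nat_lit 5) (nat_lit 73) (nat_lit 5) (nat_lit 293) (nat_lit 279) (nat_lit 208)))))) (XT.nd (nat_lit 390) (nat_lit 608) (nat_lit 0) (XT.nd (nat_lit 156) (nat_lit 608) (nat_lit 0) (XT.nd (nat_lit 78) (nat_lit 0) (nat_lit 0) (XT.lf (nat_lit 0) (nat_lit 1939853083) (nat_lit 380) (nat_lit 903059608) (nat_lit 456) (nat_lit 12747726924) (nat_lit 67) (nat_lit 5) (nat_lit 72) (nat_lit 5) (nat_lit 73) (nat_lit 5) (nat_lit 294) (nat_lit 279) (nat_lit 207)) (XT.lf (nat_lit 0) (nat_lit 4729394782) (nat_lit 456) (nat_lit 6144725490) (nat_lit 76) (nat_lit 5152664344) (nat_lit 67) (nat_lit 5) (nat_lit 73) (nat_lit 5) (nat_lit 68) (nat_lit 5) (nat_lit 295) (nat_lit 279) (nat_lit 206))) (XT.nd (nat_lit 78) (nat_lit 304) (nat_lit 0) (XT.lf (nat_lit 0) (nat_lit 1758393700) (nat_lit 304) (nat_lit 4975127169) (nat_lit 380) (nat_lit 9750088783) (nat_lit 63) (nat_lit 5)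 (nat_lit 67) (nat_lit 5) (nat_lit 68) (nat_lit 5) (nat_lit 296) (nat_lit 279) (nat_lit 205)) (XT.nd (nat_lit 78) (nat_lit 304) (nat_lit 0) (XT.lf (nat_lit 0) (nat_lit 8944296714) (nat_lit 380) (nat_lit 6729147431) (nat_lit 76) (nat_lit 1284546553) (nat_lit 63) (nat_lit 5) (nat_lit 68) (nat_lit 5) (nat_lit 64) (nat_lit 5) (nat_lit 297) (nat_lit 279) (nat_lit 204)) (XT.lf (nat_lit 0) (nat_lit 1617566386) (nat_lit 304) (nat_lit 9737377707) (nat_lit 380) (nat_lit 6096715243) (nat_lit 59) (nat_lit 5) (nat_lit 63) (nat_lit 5) (nat_lit 64) (nat_lit 5) (nat_lit 298) (nat_lit 279) (nat_lit 203))))) (XT.nd (nat_lit 156) (nat_lit 380) (nat_lit 0) (XT.nd (nat_lit 78) (nat_lit 228) (nat_lit 0) (XT.lf (nat_lit 0) (nat_lit 10596178240) (nat_lit 304) (nat_lit 3386960399) (nat_lit 380) (nat_lit 3982055525) (nat_lit 59) (nat_lit 5) (nat_lit 63) (nat_lit 5) (nat_lit 64) (nat_lit 5) (nat_lit 299) (nat_lit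 279) (nat_lit 202)) (XT.lf (nat_lit 0) (nat_lit 1497046125) (nat_lit 228) (nat_lit 15304124137) (nat_lit 304) (nat_lit 1700346007) (nat_lit 56) (nat_lit 5) (nat_lit 59) (nat_lit 5) (nat_lit 60) (nat_lit 5) (nat_lit 300) (nat_lit 279) (nat_lit 201))) (XT.nd (nat_lit 78) (nat_lit 304) (nat_lit 0) (XT.lf (nat_lit 0) (nat_lit 839579107) (nat_lit 304) (nat_lit 8083805316) (nat_lit 76) (nat_lit 10132436656) (nat_lit 55) (nat_lit 5) (nat_lit 59) (nat_lit 5) (nat_lit 56) (nat_lit 5) (nat_lit 301) (nat_lit 279) (nat_lit 200)) (XT.nd (nat_lit 78) (nat_lit 0) (nat_lit 0) (XT.lf (nat_lit 0) (nat_lit 1277614752) (nat_lit 304) (nat_lit 2176472167) (nat_lit 380) (nat_lit 16182151585) (nat_lit 51) (nat_lit 5) (nat_lit 55) (nat_lit 5) (nat_lit 56) (nat_lit 5) (nat_lit 302) (nat_lit 279) (nat_lit 199)) (XT.lf (nat_lit 0) (nat_lit 6400267219) (nat_lit 380) (nat_lit 8948657598) (nat_lit 76) (nat_lit 4886730874)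 (nat_lit 51) (nat_lit 5) (nat_lit 56) (nat_lit 5) (nat_lit 52) (nat_lit 5) (nat_lit 303) (nat_lit 279) (nat_lit 198))))))) (XT.nd (nat_lit 780) (nat_lit 836) (nat_lit 0) (XT.nd (nat_lit 390) (nat_lit 608) (nat_lit 0) (XT.nd (nat_lit 156) (nat_lit 304) (nat_lit 0) (XT.nd (nat_lit 78) (nat_lit 0) (nat_lit 0) (XT.lf (nat_lit 0) (nat_lit 907344202) (nat_lit 228) (nat_lit 8622139666) (nat_lit 304) (nat_lit 11333798502) (nat_lit 48) (nat_lit 5) (nat_lit 51) (nat_lit 5) (nat_lit 52) (nat_lit 5) (nat_lit 304) (nat_lit 279) (nat_lit 197)) (XT.lf (nat_lit 0) (nat_lit 11549287283) (nat_lit 228) (nat_lit 1403703722) (nat_lit 304) (nat_lit 8562431701) (nat_lit 48) (nat_lit 5) (nat_lit 51) (nat_lit 5) (nat_lit 52) (nat_lit 5) (nat_lit 305) (nat_lit 279) (nat_lit 196))) (XT.nd (nat_lit 78) (nat_lit 76) (nat_lit 0) (XT.lf (nat_lit 0) (nat_lit 422955173) (nat_lit 228) (nat_lit 16214617521) (nat_lit 304)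 (nat_lit 5558125078) (nat_lit 45) (nat_lit 5) (nat_lit 48) (nat_lit 5) (nat_lit 49) (nat_lit 5) (nat_lit 306) (nat_lit 279) (nat_lit 195)) (XT.nd (nat_lit 78) (nat_lit 76) (nat_lit 0) (XT.lf (nat_lit 0) (nat_lit 11636688750) (nat_lit 228) (nat_lit 9048351718) (nat_lit 304) (nat_lit 2216034868) (nat_lit 45) (nat_lit 5) (nat_lit 48) (nat_lit 5) (nat_lit 49) (nat_lit 5) (nat_lit 307) (nat_lit 279) (nat_lit 194)) (XT.lf (nat_lit 0) (nat_lit 1239394595) (nat_lit 304) (nat_lit 267460814) (nat_lit 76) (nat_lit 22134495266) (nat_lit 44) (nat_lit 5) (nat_lit 48) (nat_lit 5) (nat_lit 45) (nat_lit 5) (nat_lit 308) (nat_lit 279) (nat_lit 193))))) (XT.nd (nat_lit 156) (nat_lit 380) (nat_lit 0) (XT.nd (nat_lit 78) (nat_lit 0) (nat_lit 0) (XT.lf (nat_lit 0) (nat_lit 5066023339) (nat_lit 304) (nat_lit 12913645433) (nat_lit 76) (nat_lit 6423528185) (nat_lit 41) (nat_lit 5) (nat_lit 45) (nat_lit 5) (nat_lit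 42) (nat_lit 5) (nat_lit 309) (nat_lit 279) (nat_lit 192)) (XT.lf (nat_lit 0) (nat_lit 9101756108) (nat_lit 304) (nat_lit 1400121407) (nat_lit 76) (nat_lit 14700387172) (nat_lit 41) (nat_lit 5) (nat_lit 45) (nat_lit 5) (nat_lit 42) (nat_lit 5) (nat_lit 310) (nat_lit 279) (nat_lit 191))) (XT.nd (nat_lit 78) (nat_lit 152) (nat_lit 0) (XT.lf (nat_lit 0) (nat_lit 11026632644) (nat_lit 228) (nat_lit 2473814944) (nat_lit 304) (nat_lit 12532796533) (nat_lit 38) (nat_lit 5) (nat_lit 41) (nat_lit 5) (nat_lit 42) (nat_lit 5) (nat_lit 311) (nat_lit 279) (nat_lit 190)) (XT.nd (nat_lit 78) (nat_lit 152) (nat_lit 0) (XT.lf (nat_lit 0) (nat_lit 18225391908) (nat_lit 304) (nat_lit 2890227978) (nat_lit 76) (nat_lit 5784852841) (nat_lit 38) (nat_lit 5) (nat_lit 42) (nat_lit 5) (nat_lit 39) (nat_lit 5) (nat_lit 312) (nat_lit 279) (nat_lit 189)) (XT.lf (nat_lit 0) (nat_lit 10099819188) (nat_lit 152) (nat_lit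 13274751190) (nat_lit 228) (nat_lit 4427108384) (nat_lit 36) (nat_lit 5) (nat_lit 38) (nat_lit 5) (nat_lit 39) (nat_lit 5) (nat_lit 313) (nat_lit 279) (nat_lit 188)))))) (XT.nd (nat_lit 390) (nat_lit 380) (nat_lit 0) (XT.nd (nat_lit 156) (nat_lit 152) (nat_lit 0) (XT.nd (nat_lit 78) (nat_lit 228) (nat_lit 0) (XT.lf (nat_lit 0) (nat_lit 71776053) (nat_lit 228) (nat_lit 4922077613) (nat_lit 76) (nat_lit 23752100486) (nat_lit 35) (nat_lit 5) (nat_lit 38) (nat_lit 5) (nat_lit 36) (nat_lit 5) (nat_lit 314) (nat_lit 279) (nat_lit 187)) (XT.lf (nat_lit 0) (nat_lit 4833906766) (nat_lit 304) (nat_lit 21100726803) (nat_lit 76) (nat_lit 3789840127) (nat_lit 32) (nat_lit 5) (nat_lit 36) (nat_lit 5) (nat_lit 33) (nat_lit 5) (nat_lit 315) (nat_lit 279) (nat_lit 186))) (XT.nd (nat_lit 78) (nat_lit 152) (nat_lit 0) (XT.lf (nat_lit 0) (nat_lit 9991218089) (nat_lit 304) (nat_lit 7827677909) (nat_lit 76)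 (nat_lit 12925182139) (nat_lit 32) (nat_lit 5) (nat_lit 36) (nat_lit 5) (nat_lit 33) (nat_lit 5) (nat_lit 316) (nat_lit 279) (nat_lit 185)) (XT.nd (nat_lit 78) (nat_lit 0) (nat_lit 0) (XT.lf (nat_lit 0) (nat_lit 6296808576) (nat_lit 152) (nat_lit 9198833740) (nat_lit 228) (nat_lit 16314570142) (nat_lit 30) (nat_lit 5) (nat_lit 32) (nat_lit 5) (nat_lit 33) (nat_lit 5) (nat_lit 317) (nat_lit 279) (nat_lit 184)) (XT.lf (nat_lit 0) (nat_lit 21385748445) (nat_lit 152) (nat_lit 13261682) (nat_lit 228) (nat_lit 11524468702) (nat_lit 30) (nat_lit 5) (nat_lit 32) (nat_lit 5) (nat_lit 33) (nat_lit 5) (nat_lit 318) (nat_lit 279) (nat_lit 183))))) (XT.nd (nat_lit 156) (nat_lit 228) (nat_lit 0) (XT.nd (nat_lit 78) (nat_lit 0) (nat_lit 0) (XT.lf (nat_lit 0) (nat_lit 3071406625) (nat_lit 152) (nat_lit 24715977331) (nat_lit 228) (nat_lit 6295543587) (nat_lit 28) (nat_lit 5) (nat_lit 30) (nat_lit 5)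 (nat_lit 31) (nat_lit 5) (nat_lit 319) (nat_lit 279) (nat_lit 182)) (XT.lf (nat_lit 0) (nat_lit 18798305260) (nat_lit 152) (nat_lit 15884191290) (nat_lit 228) (nat_lit 608496525) (nat_lit 28) (nat_lit 5) (nat_lit 30) (nat_lit 5) (nat_lit 31) (nat_lit 5) (nat_lit 320) (nat_lit 279) (nat_lit 181))) (XT.nd (nat_lit 78) (nat_lit 152) (nat_lit 0) (XT.lf (nat_lit 0) (nat_lit 5183221417) (nat_lit 228) (nat_lit 1344331984) (nat_lit 76) (nat_lit 30028133163) (nat_lit 27) (nat_lit 5) (nat_lit 30) (nat_lit 5) (nat_lit 28) (nat_lit 5) (nat_lit 321) (nat_lit 279) (nat_lit 180)) (XT.nd (nat_lit 78) (nat_lit 0) (nat_lit 0) (XT.lf (nat_lit 0) (nat_lit 11526342271) (nat_lit 228) (nat_lit 22907075888) (nat_lit 76) (nat_lit 3435593448) (nat_lit 25) (nat_lit 5) (nat_lit 28) (nat_lit 5) (nat_lit 26) (nat_lit 5) (nat_lit 322) (nat_lit 279) (nat_lit 179)) (XT.lf (nat_lit 0) (nat_lit 18309225737) (nat_lit 228)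 (nat_lit 7236260989) (nat_lit 76) (nat_lit 13696394392) (nat_lit 25) (nat_lit 5) (nat_lit 28) (nat_lit 5) (nat_lit 26) (nat_lit 5) (nat_lit 323) (nat_lit 279) (nat_lit 178))))))))
noncomputable def xc163 : XT := (XT.nd (nat_lit 1560) (nat_lit 532) (nat_lit 0) (XT.nd (nat_lit 780) (nat_lit 380) (nat_lit 0) (XT.nd (nat_lit 390) (nat_lit 304) (nat_lit 0) (XT.nd (nat_lit 156) (nat_lit 152) (nat_lit 0) (XT.nd (nat_lit 78) (nat_lit 0) (nat_lit 0) (XT.lf (nat_lit 0) (nat_lit 9510880207) (nat_lit 152) (nat_lit 16061681194) (nat_lit 228) (nat_lit 15103775442) (nat_lit 23) (nat_lit 5) (nat_lit 25) (nat_lit 5) (nat_lit 26) (nat_lit 5) (nat_lit 324) (nat_lit 279) (nat_lit 177)) (XT.lf (nat_lit 0) (nat_lit 27335170546) (nat_lit 152) (nat_lit 5979422959) (nat_lit 228) (nat_lit 8862153116) (nat_lit 23) (nat_lit 5) (nat_lit 25) (nat_lit 5) (nat_lit 26) (nat_lit 5) (nat_lit 325) (nat_lit 279) (nat_lit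 176))) (XT.nd (nat_lit 78) (nat_lit 76) (nat_lit 0) (XT.lf (nat_lit 0) (nat_lit 2288656358) (nat_lit 76) (nat_lit 39255979283) (nat_lit 152) (nat_lit 2202503209) (nat_lit 22) (nat_lit 5) (nat_lit 23) (nat_lit 5) (nat_lit 24) (nat_lit 4) (nat_lit 326) (nat_lit 279) (nat_lit 175)) (XT.nd (nat_lit 78) (nat_lit 0) (nat_lit 0) (XT.lf (nat_lit 0) (nat_lit 4983591881) (nat_lit 152) (nat_lit 24780962700) (nat_lit 76) (nat_lit 15610424600) (nat_lit 21) (nat_lit 5) (nat_lit 23) (nat_lit 5) (nat_lit 22) (nat_lit 5) (nat_lit 327) (nat_lit 279) (nat_lit 174)) (XT.lf (nat_lit 0) (nat_lit 12448576662) (nat_lit 152) (nat_lit 7316354239) (nat_lit 76) (nat_lit 27317801501) (nat_lit 21) (nat_lit 5) (nat_lit 23) (nat_lit 5) (nat_lit 22) (nat_lit 5) (nat_lit 328) (nat_lit 279) (nat_lit 173))))) (XT.nd (nat_lit 156) (nat_lit 152) (nat_lit 0) (XT.nd (nat_lit 78) (nat_lit 0) (nat_lit 0) (XT.lf (nat_lit 0) (nat_lit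 11375396258) (nat_lit 152) (nat_lit 9082924318) (nat_lit 228) (nat_lit 28408983285) (nat_lit 19) (nat_lit 5) (nat_lit 21) (nat_lit 5) (nat_lit 22) (nat_lit 5) (nat_lit 329) (nat_lit 279) (nat_lit 172)) (XT.lf (nat_lit 0) (nat_lit 29021772578) (nat_lit 228) (nat_lit 19524751715) (nat_lit 76) (nat_lit 2186924339) (nat_lit 19) (nat_lit 5) (nat_lit 22) (nat_lit 5) (nat_lit 20) (nat_lit 4) (nat_lit 330) (nat_lit 279) (nat_lit 171))) (XT.nd (nat_lit 78) (nat_lit 152) (nat_lit 0) (XT.lf (nat_lit 0) (nat_lit 38156562994) (nat_lit 228) (nat_lit 817898905) (nat_lit 76) (nat_lit 13711285961) (nat_lit 19) (nat_lit 5) (nat_lit 22) (nat_lit 5) (nat_lit 20) (nat_lit 4) (nat_lit 331) (nat_lit 279) (nat_lit 170)) (XT.nd (nat_lit 78) (nat_lit 76) (nat_lit 0) (XT.lf (nat_lit 0) (nat_lit 19437109755) (nat_lit 76) (nat_lit 28608989423) (nat_lit 152) (nat_lit 6674667805) (nat_lit 18) (nat_lit 5) (nat_lit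 19) (nat_lit 5) (nat_lit 20) (nat_lit 4) (nat_lit 332) (nat_lit 279) (nat_lit 169)) (XT.lf (nat_lit 0) (nat_lit 1530884799) (nat_lit 152) (nat_lit 16157689690) (nat_lit 76) (nat_lit 39167307620) (nat_lit 17) (nat_lit 5) (nat_lit 19) (nat_lit 5) (nat_lit 18) (nat_lit 5) (nat_lit 333) (nat_lit 279) (nat_lit 168)))))) (XT.nd (nat_lit 390) (nat_lit 152) (nat_lit 0) (XT.nd (nat_lit 156) (nat_lit 76) (nat_lit 0) (XT.nd (nat_lit 78) (nat_lit 0) (nat_lit 0) (XT.lf (nat_lit 0) (nat_lit 3932121919) (nat_lit 152) (nat_lit 6046494166) (nat_lit 228) (nat_lit 49110859718) (nat_lit 15) (nat_lit 5) (nat_lit 17) (nat_lit 5) (nat_lit 18) (nat_lit 5) (nat_lit 334) (nat_lit 279) (nat_lit 167)) (XT.lf (nat_lit 0) (nat_lit 19218184061) (nat_lit 228) (nat_lit 35943564567) (nat_lit 76) (nat_lit 6254532360) (nat_lit 15) (nat_lit 5) (nat_lit 18) (nat_lit 5) (nat_lit 16) (nat_lit 4) (nat_lit 335) (nat_lit 279)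 (nat_lit 166))) (XT.nd (nat_lit 78) (nat_lit 76) (nat_lit 0) (XT.lf (nat_lit 0) (nat_lit 29013972247) (nat_lit 228) (nat_lit 15876725767) (nat_lit 76) (nat_lit 18964020440) (nat_lit 15) (nat_lit 5) (nat_lit 18) (nat_lit 5) (nat_lit 16) (nat_lit 4) (nat_lit 336) (nat_lit 279) (nat_lit 165)) (XT.nd (nat_lit 78) (nat_lit 0) (nat_lit 0) (XT.lf (nat_lit 0) (nat_lit 5356794295) (nat_lit 76) (nat_lit 34021741504) (nat_lit 152) (nat_lit 27032596611) (nat_lit 14) (nat_lit 5) (nat_lit 15) (nat_lit 5) (nat_lit 16) (nat_lit 4) (nat_lit 337) (nat_lit 279) (nat_lit 164)) (XT.lf (nat_lit 0) (nat_lit 28195213712) (nat_lit 76) (nat_lit 22330441998) (nat_lit 152) (nat_lit 18556498674) (nat_lit 14) (nat_lit 5) (nat_lit 15) (nat_lit 5) (nat_lit 16) (nat_lit 4) (nat_lit 338) (nat_lit 279) (nat_lit 163))))) (XT.nd (nat_lit 156) (nat_lit 76) (nat_lit 0) (XT.nd (nat_lit 78) (nat_lit 76) (nat_lit 0) (XT.lf (nat_lit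 0) (nat_lit 52167953416) (nat_lit 76) (nat_lit 10057843101) (nat_lit 152) (nat_lit 9661151244) (nat_lit 14) (nat_lit 5) (nat_lit 15) (nat_lit 5) (nat_lit 16) (nat_lit 4) (nat_lit 339) (nat_lit 279) (nat_lit 162)) (XT.lf (nat_lit 0) (nat_lit 2536989782) (nat_lit 76) (nat_lit 72053545911) (nat_lit 76) (nat_lit 237468931) (nat_lit 13) (nat_lit 4) (nat_lit 14) (nat_lit 5) (nat_lit 14) (nat_lit 4) (nat_lit 340) (nat_lit 279) (nat_lit 161))) (XT.nd (nat_lit 78) (nat_lit 0) (nat_lit 0) (XT.lf (nat_lit 0) (nat_lit 9848446275) (nat_lit 152) (nat_lit 51637602372) (nat_lit 76) (nat_lit 16397522506) (nat_lit 12) (nat_lit 5) (nat_lit 14) (nat_lit 5) (nat_lit 13) (nat_lit 4) (nat_lit 341) (nat_lit 279) (nat_lit 160)) (XT.nd (nat_lit 78) (nat_lit 0) (nat_lit 0) (XT.lf (nat_lit 0) (nat_lit 20426712750) (nat_lit 152) (nat_lit 29962480151) (nat_lit 76) (nat_lit 30702729581) (nat_lit 12) (nat_lit 5) (nat_lit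 14) (nat_lit 5) (nat_lit 13) (nat_lit 4) (nat_lit 342) (nat_lit 279) (nat_lit 159)) (XT.lf (nat_lit 0) (nat_lit 31530117332) (nat_lit 152) (nat_lit 7210333191) (nat_lit 76) (nat_lit 45720432399) (nat_lit 12) (nat_lit 5) (nat_lit 14) (nat_lit 5) (nat_lit 13) (nat_lit 4) (nat_lit 343) (nat_lit 279) (nat_lit 158))))))) (XT.nd (nat_lit 780) (nat_lit 228) (nat_lit 0) (XT.nd (nat_lit 390) (nat_lit 152) (nat_lit 0) (XT.nd (nat_lit 156) (nat_lit 76) (nat_lit 0) (XT.nd (nat_lit 78) (nat_lit 0) (nat_lit 0) (XT.lf (nat_lit 0) (nat_lit 17224295305) (nat_lit 76) (nat_lit 26229720913) (nat_lit 152) (nat_lit 44531011611) (nat_lit 11) (nat_lit 5) (nat_lit 12) (nat_lit 5) (nat_lit 13) (nat_lit 4) (nat_lit 344) (nat_lit 279) (nat_lit 157)) (XT.lf (nat_lit 0) (nat_lit 43124674284) (nat_lit 76) (nat_lit 12968023536) (nat_lit 152) (nat_lit 35586755295) (nat_lit 11) (nat_lit 5) (nat_lit 12) (nat_lit 5) (nat_lit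 13) (nat_lit 4) (nat_lit 345) (nat_lit 279) (nat_lit 156))) (XT.nd (nat_lit 78) (nat_lit 76) (nat_lit 0) (XT.lf (nat_lit 0) (nat_lit 69374854820) (nat_lit 152) (nat_lit 25259600960) (nat_lit 0) (nat_lit 923569226) (nat_lit 11) (nat_lit 5) (nat_lit 13) (nat_lit 4) (nat_lit 11) (nat_lit 4) (nat_lit 346) (nat_lit 279) (nat_lit 155)) (XT.nd (nat_lit 78) (nat_lit 76) (nat_lit 0) (XT.lf (nat_lit 0) (nat_lit 83530475581) (nat_lit 152) (nat_lit 1018098382) (nat_lit 0) (nat_lit 15071486019) (nat_lit 11) (nat_lit 5) (nat_lit 13) (nat_lit 4) (nat_lit 11) (nat_lit 4) (nat_lit 347) (nat_lit 279) (nat_lit 154)) (XT.lf (nat_lit 0) (nat_lit 25237677239) (nat_lit 76) (nat_lit 73547150405) (nat_lit 76) (nat_lit 5080823730) (nat_lit 10) (nat_lit 4) (nat_lit 11) (nat_lit 5) (nat_lit 11) (nat_lit 4) (nat_lit 348) (nat_lit 279) (nat_lit 153))))) (XT.nd (nat_lit 156) (nat_lit 76) (nat_lit 0) (XT.nd (nat_lit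 78) (nat_lit 0) (nat_lit 0) (XT.lf (nat_lit 0) (nat_lit 6285480251) (nat_lit 152) (nat_lit 55588079884) (nat_lit 76) (nat_lit 46444184212) (nat_lit 9) (nat_lit 5) (nat_lit 11) (nat_lit 5) (nat_lit 10) (nat_lit 4) (nat_lit 349) (nat_lit 279) (nat_lit 152)) (XT.lf (nat_lit 0) (nat_lit 18046425764) (nat_lit 152) (nat_lit 31484796560) (nat_lit 76) (nat_lit 63457203152) (nat_lit 9) (nat_lit 5) (nat_lit 11) (nat_lit 5) (nat_lit 10) (nat_lit 4) (nat_lit 350) (nat_lit 279) (nat_lit 151))) (XT.nd (nat_lit 78) (nat_lit 76) (nat_lit 0) (XT.lf (nat_lit 0) (nat_lit 30392633148) (nat_lit 152) (nat_lit 6181409497) (nat_lit 76) (nat_lit 81318739080) (nat_lit 9) (nat_lit 5) (nat_lit 11) (nat_lit 5) (nat_lit 10) (nat_lit 4) (nat_lit 351) (nat_lit 279) (nat_lit 150)) (XT.nd (nat_lit 78) (nat_lit 0) (nat_lit 0) (XT.lf (nat_lit 0) (nat_lit 21056259260) (nat_lit 76) (nat_lit 22625986091) (nat_lit 152) (nat_lit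 79343807420) (nat_lit 8) (nat_lit 5) (nat_lit 9) (nat_lit 5) (nat_lit 10) (nat_lit 4) (nat_lit 352) (nat_lit 279) (nat_lit 149)) (XT.lf (nat_lit 0) (nat_lit 49865674314) (nat_lit 76) (nat_lit 7872748537) (nat_lit 152) (nat_lit 70672461912) (nat_lit 8) (nat_lit 5) (nat_lit 9) (nat_lit 5) (nat_lit 10) (nat_lit 4) (nat_lit 353) (nat_lit 279) (nat_lit 148)))))) (XT.nd (nat_lit 390) (nat_lit 152) (nat_lit 0) (XT.nd (nat_lit 156) (nat_lit 76) (nat_lit 0) (XT.nd (nat_lit 78) (nat_lit 0) (nat_lit 0) (XT.lf (nat_lit 0) (nat_lit 72613841428) (nat_lit 152) (nat_lit 54072948387) (nat_lit 0) (nat_lit 7372348478) (nat_lit 8) (nat_lit 5) (nat_lit 10) (nat_lit 4) (nat_lit 8) (nat_lit 4) (nat_lit 354) (nat_lit 279) (nat_lit 147)) (XT.lf (nat_lit 0) (nat_lit 88359703354) (nat_lit 152) (nat_lit 28510524641) (nat_lit 0) (nat_lit 23113244358) (nat_lit 8) (nat_lit 5) (nat_lit 10) (nat_lit 4) (nat_lit 8) (nat_lit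 4) (nat_lit 355) (nat_lit 279) (nat_lit 146))) (XT.nd (nat_lit 78) (nat_lit 76) (nat_lit 0) (XT.lf (nat_lit 0) (nat_lit 104890583110) (nat_lit 152) (nat_lit 1674160631) (nat_lit 0) (nat_lit 39639394545) (nat_lit 8) (nat_lit 5) (nat_lit 10) (nat_lit 4) (nat_lit 8) (nat_lit 4) (nat_lit 356) (nat_lit 279) (nat_lit 145)) (XT.nd (nat_lit 78) (nat_lit 0) (nat_lit 0) (XT.lf (nat_lit 0) (nat_lit 27376250739) (nat_lit 76) (nat_lit 95297009187) (nat_lit 76) (nat_lit 30041316273) (nat_lit 7) (nat_lit 4) (nat_lit 8) (nat_lit 5) (nat_lit 8) (nat_lit 4) (nat_lit 357) (nat_lit 279) (nat_lit 144)) (XT.lf (nat_lit 0) (nat_lit 57933388148) (nat_lit 76) (nat_lit 83437910258) (nat_lit 76) (nat_lit 18177927486) (nat_lit 7) (nat_lit 4) (nat_lit 8) (nat_lit 5) (nat_lit 8) (nat_lit 4) (nat_lit 358) (nat_lit 279) (nat_lit 143))))) (XT.nd (nat_lit 234) (nat_lit 76) (nat_lit 0) (XT.nd (nat_lit 78) (nat_lit 76)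 (nat_lit 0) (XT.lf (nat_lit 0) (nat_lit 90014651371) (nat_lit 76) (nat_lit 70987563724) (nat_lit 76) (nat_lit 5723495373) (nat_lit 7) (nat_lit 4) (nat_lit 8) (nat_lit 5) (nat_lit 8) (nat_lit 4) (nat_lit 359) (nat_lit 279) (nat_lit 142)) (XT.nd (nat_lit 78) (nat_lit 0) (nat_lit 0) (XT.lf (nat_lit 0) (nat_lit 7116335291) (nat_lit 152) (nat_lit 50679472030) (nat_lit 76) (nat_lit 116459570497) (nat_lit 6) (nat_lit 5) (nat_lit 8) (nat_lit 5) (nat_lit 7) (nat_lit 4) (nat_lit 360) (nat_lit 279) (nat_lit 141)) (XT.lf (nat_lit 0) (nat_lit 20403943789) (nat_lit 152) (nat_lit 23443580350) (nat_lit 76) (nat_lit 138309407391) (nat_lit 6) (nat_lit 5) (nat_lit 8) (nat_lit 5) (nat_lit 7) (nat_lit 4) (nat_lit 361) (nat_lit 279) (nat_lit 140)))) (XT.nd (nat_lit 78) (nat_lit 0) (nat_lit 0) (XT.lf (nat_lit 0) (nat_lit 5321132580) (nat_lit 76) (nat_lit 29116100090) (nat_lit 152) (nat_lit 156012266258) (nat_lit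 5) (nat_lit 5) (nat_lit 6) (nat_lit 5) (nat_lit 7) (nat_lit 4) (nat_lit 362) (nat_lit 279) (nat_lit 139)) (XT.nd (nat_lit 78) (nat_lit 0) (nat_lit 0) (XT.lf (nat_lit 0) (nat_lit 36334759470) (nat_lit 76) (nat_lit 13232711300) (nat_lit 152) (nat_lit 149569460637) (nat_lit 5) (nat_lit 5) (nat_lit 6) (nat_lit 5) (nat_lit 7) (nat_lit 4) (nat_lit 363) (nat_lit 279) (nat_lit 138)) (XT.lf (nat_lit 0) (nat_lit 65506321818) (nat_lit 152) (nat_lit 139416589413) (nat_lit 0) (nat_lit 3333220134) (nat_lit 5) (nat_lit 5) (nat_lit 7) (nat_lit 4) (nat_lit 5) (nat_lit 4) (nat_lit 364) (nat_lit 279) (nat_lit 137))))))))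
noncomputable def xc164 : XT := (XT.nd (nat_lit 1560) (nat_lit 0) (nat_lit 0) (XT.nd (nat_lit 780) (nat_lit 152) (nat_lit 0) (XT.nd (nat_lit 390) (nat_lit 76) (nat_lit 0) (XT.nd (nat_lit 156) (nat_lit 0) (nat_lit 0) (XT.nd (nat_lit 78) (nat_lit 0) (nat_lit 0) (XT.lf (nat_lit 0) (nat_lit 82457442566) (nat_lit 152) (nat_lit 115081645924) (nat_lit 0) (nat_lit 20281437337) (nat_lit 5) (nat_lit 5) (nat_lit 7) (nat_lit 4) (nat_lit 5) (nat_lit 4) (nat_lit 365) (nat_lit 279) (nat_lit 136)) (XT.lf (nat_lit 0) (nat_lit 100254593117) (nat_lit 152) (nat_lit 89532801419) (nat_lit 0) (nat_lit 38075822608) (nat_lit 5) (nat_lit 5) (nat_lit 7) (nat_lit 4) (nat_lit 5) (nat_lit 4) (nat_lit 366) (nat_lit 279) (nat_lit 135))) (XT.nd (nat_lit 78) (nat_lit 0) (nat_lit 0) (XT.lf (nat_lit 0) (nat_lit 118940147639) (nat_lit 152) (nat_lit 62709225318) (nat_lit 0) (nat_lit 56758743530) (nat_lit 5) (nat_lit 5) (nat_lit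 7) (nat_lit 4) (nat_lit 5) (nat_lit 4) (nat_lit 367) (nat_lit 279) (nat_lit 134)) (XT.nd (nat_lit 78) (nat_lit 0) (nat_lit 0) (XT.lf (nat_lit 0) (nat_lit 138558595549) (nat_lit 152) (nat_lit 34547051962) (nat_lit 0) (nat_lit 76374683248) (nat_lit 5) (nat_lit 5) (nat_lit 7) (nat_lit 4) (nat_lit 5) (nat_lit 4) (nat_lit 368) (nat_lit 279) (nat_lit 133)) (XT.lf (nat_lit 0) (nat_lit 159156647436) (nat_lit 152) (nat_lit 4979228559) (nat_lit 0) (nat_lit 96970346382) (nat_lit 5) (nat_lit 5) (nat_lit 7) (nat_lit 4) (nat_lit 5) (nat_lit 4) (nat_lit 369) (nat_lit 279) (nat_lit 132))))) (XT.nd (nat_lit 156) (nat_lit 0) (nat_lit 0) (XT.nd (nat_lit 78) (nat_lit 0) (nat_lit 0) (XT.lf (nat_lit 0) (nat_lit 26926459329) (nat_lit 76) (nat_lit 154277284443) (nat_lit 76) (nat_lit 92088708386) (nat_lit 4) (nat_lit 4) (nat_lit 5) (nat_lit 5) (nat_lit 5) (nat_lit 4) (nat_lit 370) (nat_lit 279) (nat_lit 131))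 (XT.lf (nat_lit 0) (nat_lit 60597995408) (nat_lit 76) (nat_lit 143838293349) (nat_lit 76) (nat_lit 81647550623) (nat_lit 4) (nat_lit 4) (nat_lit 5) (nat_lit 5) (nat_lit 5) (nat_lit 4) (nat_lit 371) (nat_lit 279) (nat_lit 130))) (XT.nd (nat_lit 78) (nat_lit 0) (nat_lit 0) (XT.lf (nat_lit 0) (nat_lit 95950914219) (nat_lit 76) (nat_lit 132878373618) (nat_lit 76) (nat_lit 70685567397) (nat_lit 4) (nat_lit 4) (nat_lit 5) (nat_lit 5) (nat_lit 5) (nat_lit 4) (nat_lit 372) (nat_lit 279) (nat_lit 129)) (XT.nd (nat_lit 78) (nat_lit 0) (nat_lit 0) (XT.lf (nat_lit 0) (nat_lit 133069389378) (nat_lit 76) (nat_lit 121371430203) (nat_lit 76) (nat_lit 59176658748) (nat_lit 4) (nat_lit 4) (nat_lit 5) (nat_lit 5) (nat_lit 5) (nat_lit 4) (nat_lit 373) (nat_lit 279) (nat_lit 128)) (XT.lf (nat_lit 0) (nat_lit 172041798206) (nat_lit 76) (nat_lit 109290065619) (nat_lit 76) (nat_lit 47093422514) (nat_lit 4)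 (nat_lit 4) (nat_lit 5) (nat_lit 5) (nat_lit 5) (nat_lit 4) (nat_lit 374) (nat_lit 279) (nat_lit 127)))))) (XT.nd (nat_lit 390) (nat_lit 76) (nat_lit 0) (XT.nd (nat_lit 156) (nat_lit 76) (nat_lit 0) (XT.nd (nat_lit 78) (nat_lit 0) (nat_lit 0) (XT.lf (nat_lit 0) (nat_lit 212960932154) (nat_lit 76) (nat_lit 96605514713) (nat_lit 76) (nat_lit 34407089083) (nat_lit 4) (nat_lit 4) (nat_lit 5) (nat_lit 5) (nat_lit 5) (nat_lit 4) (nat_lit 375) (nat_lit 279) (nat_lit 126)) (XT.lf (nat_lit 0) (nat_lit 255924217731) (nat_lit 76) (nat_lit 83287576172) (nat_lit 76) (nat_lit 21087452900) (nat_lit 4) (nat_lit 4) (nat_lit 5) (nat_lit 5) (nat_lit 5) (nat_lit 4) (nat_lit 376) (nat_lit 279) (nat_lit 125))) (XT.nd (nat_lit 78) (nat_lit 76) (nat_lit 0) (XT.lf (nat_lit 0) (nat_lit 301033948473) (nat_lit 76) (nat_lit 69304540621) (nat_lit 76) (nat_lit 7102800547) (nat_lit 4) (nat_lit 4) (nat_lit 5) (nat_lit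 5) (nat_lit 5) (nat_lit 4) (nat_lit 377) (nat_lit 279) (nat_lit 124)) (XT.nd (nat_lit 78) (nat_lit 0) (nat_lit 0) (XT.lf (nat_lit 0) (nat_lit 7337552157) (nat_lit 152) (nat_lit 47161297962) (nat_lit 76) (nat_lit 340935711348) (nat_lit 3) (nat_lit 5) (nat_lit 5) (nat_lit 5) (nat_lit 4) (nat_lit 4) (nat_lit 378) (nat_lit 279) (nat_lit 123)) (XT.lf (nat_lit 0) (nat_lit 22260373995) (nat_lit 152) (nat_lit 16570979683) (nat_lit 76) (nat_lit 375490364047) (nat_lit 3) (nat_lit 5) (nat_lit 5) (nat_lit 5) (nat_lit 4) (nat_lit 4) (nat_lit 379) (nat_lit 279) (nat_lit 122))))) (XT.nd (nat_lit 156) (nat_lit 0) (nat_lit 0) (XT.nd (nat_lit 78) (nat_lit 0) (nat_lit 0) (XT.lf (nat_lit 0) (nat_lit 16061407735) (nat_lit 76) (nat_lit 22117885319) (nat_lit 152) (nat_lit 395961441328) (nat_lit 2) (nat_lit 5) (nat_lit 3) (nat_lit 5) (nat_lit 4) (nat_lit 4) (nat_lit 380) (nat_lit 279) (nat_lit 121)) (XT.lf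 (nat_lit 0) (nat_lit 50899233781) (nat_lit 76) (nat_lit 4274769611) (nat_lit 152) (nat_lit 399762706591) (nat_lit 2) (nat_lit 5) (nat_lit 3) (nat_lit 5) (nat_lit 4) (nat_lit 4) (nat_lit 381) (nat_lit 279) (nat_lit 120))) (XT.nd (nat_lit 78) (nat_lit 0) (nat_lit 0) (XT.lf (nat_lit 0) (nat_lit 73243453358) (nat_lit 152) (nat_lit 389520746831) (nat_lit 0) (nat_lit 13997034328) (nat_lit 2) (nat_lit 5) (nat_lit 4) (nat_lit 4) (nat_lit 2) (nat_lit 4) (nat_lit 382) (nat_lit 279) (nat_lit 119)) (XT.nd (nat_lit 78) (nat_lit 0) (nat_lit 0) (XT.lf (nat_lit 0) (nat_lit 92285725584) (nat_lit 152) (nat_lit 374349635025) (nat_lit 0) (nat_lit 33038157523) (nat_lit 2) (nat_lit 5) (nat_lit 4) (nat_lit 4) (nat_lit 2) (nat_lit 4) (nat_lit 383) (nat_lit 279) (nat_lit 118)) (XT.lf (nat_lit 0) (nat_lit 112279417680) (nat_lit 152) (nat_lit 358421277956) (nat_lit 0) (nat_lit 53030755303) (nat_lit 2) (nat_lit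 5) (nat_lit 4) (nat_lit 4) (nat_lit 2) (nat_lit 4) (nat_lit 384) (nat_lit 279) (nat_lit 117))))))) (XT.nd (nat_lit 33150) (nat_lit 0) (nat_lit 4636) (XT.nd (nat_lit 32760) (nat_lit 0) (nat_lit 6308) (XT.nd (nat_lit 32526) (nat_lit 0) (nat_lit 6232) (XT.nd (nat_lit 32448) (nat_lit 0) (nat_lit 6232) (XT.lf (nat_lit 0) (nat_lit 133272133674) (nat_lit 152) (nat_lit 341697750965) (nat_lit 0) (nat_lit 74022429092) (nat_lit 2) (nat_lit 5) (nat_lit 4) (nat_lit 4) (nat_lit 2) (nat_lit 4) (nat_lit 385) (nat_lit 279) (nat_lit 116)) (XT.lf (nat_lit 0) (nat_lit 239001124) (nat_lit 0) (nat_lit 239001124) (nat_lit 684) (nat_lit 5136951439) (nat_lit 84) (nat_lit 5) (nat_lit 84) (nat_lit 3) (nat_lit 93) (nat_lit 3) (nat_lit 280) (nat_lit 280) (nat_lit 220))) (XT.nd (nat_lit 78) (nat_lit 0) (nat_lit 0) (XT.lf (nat_lit 0) (nat_lit 1562921152) (nat_lit 684) (nat_lit 5784391132) (nat_lit 760) (nat_lit 4132992495)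 (nat_lit 84) (nat_lit 5) (nat_lit 93) (nat_lit 3) (nat_lit 94) (nat_lit 5) (nat_lit 281) (nat_lit 280) (nat_lit 219)) (XT.nd (nat_lit 78) (nat_lit 0) (nat_lit 76) (XT.lf (nat_lit 0) (nat_lit 2175224575) (nat_lit 684) (nat_lit 594851600) (nat_lit 760) (nat_lit 8974470610) (nat_lit 84) (nat_lit 5) (nat_lit 93) (nat_lit 3) (nat_lit 94) (nat_lit 5) (nat_lit 282) (nat_lit 280) (nat_lit 218)) (XT.lf (nat_lit 0) (nat_lit 2898197449) (nat_lit 684) (nat_lit 7056564374) (nat_lit 760) (nat_lit 2063309478) (nat_lit 85) (nat_lit 5) (nat_lit 94) (nat_lit 5) (nat_lit 95) (nat_lit 5) (nat_lit 283) (nat_lit 280) (nat_lit 217))))) (XT.nd (nat_lit 156) (nat_lit 0) (nat_lit 76) (XT.nd (nat_lit 78) (nat_lit 0) (nat_lit 0) (XT.lf (nat_lit 0) (nat_lit 3683150065) (nat_lit 684) (nat_lit 1553125623) (nat_lit 760) (nat_lit 7067774441) (nat_lit 85) (nat_lit 5) (nat_lit 94) (nat_lit 5) (nat_lit 95) (nat_lit 5)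 (nat_lit 284) (nat_lit 280) (nat_lit 216)) (XT.lf (nat_lit 76) (nat_lit 4346390672) (nat_lit 0) (nat_lit 200419706) (nat_lit 760) (nat_lit 8055610843) (nat_lit 86) (nat_lit 5) (nat_lit 85) (nat_lit 5) (nat_lit 95) (nat_lit 5) (nat_lit 285) (nat_lit 280) (nat_lit 215))) (XT.nd (nat_lit 78) (nat_lit 0) (nat_lit 0) (XT.lf (nat_lit 0) (nat_lit 5532634133) (nat_lit 684) (nat_lit 2418937892) (nat_lit 760) (nat_lit 4960252989) (nat_lit 86) (nat_lit 5) (nat_lit 95) (nat_lit 5) (nat_lit 96) (nat_lit 5) (nat_lit 286) (nat_lit 280) (nat_lit 214)) (XT.nd (nat_lit 78) (nat_lit 0) (nat_lit 76) (XT.lf (nat_lit 76) (nat_lit 3810110325) (nat_lit 0) (nat_lit 2794525479) (nat_lit 760) (nat_lit 6630279015) (nat_lit 87) (nat_lit 5) (nat_lit 86) (nat_lit 5) (nat_lit 96) (nat_lit 5) (nat_lit 287) (nat_lit 280) (nat_lit 213)) (XT.lf (nat_lit 0) (nat_lit 7787952807) (nat_lit 684) (nat_lit 3198772631) (nat_lit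 760) (nat_lit 2584605209) (nat_lit 87) (nat_lit 5) (nat_lit 96) (nat_lit 5) (nat_lit 97) (nat_lit 5) (nat_lit 288) (nat_lit 280) (nat_lit 212)))))) (XT.nd (nat_lit 390) (nat_lit 684) (nat_lit 0) (XT.nd (nat_lit 156) (nat_lit 1140) (nat_lit 0) (XT.nd (nat_lit 78) (nat_lit 0) (nat_lit 0) (XT.lf (nat_lit 76) (nat_lit 3382269456) (nat_lit 0) (nat_lit 5723133772) (nat_lit 760) (nat_lit 4815470226) (nat_lit 88) (nat_lit 5) (nat_lit 87) (nat_lit 5) (nat_lit 97) (nat_lit 5) (nat_lit 289) (nat_lit 280) (nat_lit 211)) (XT.lf (nat_lit 76) (nat_lit 10384986738) (nat_lit 0) (nat_lit 135099643) (nat_lit 760) (nat_lit 3766290976) (nat_lit 88) (nat_lit 5) (nat_lit 87) (nat_lit 5) (nat_lit 97) (nat_lit 5) (nat_lit 290) (nat_lit 280) (nat_lit 210))) (XT.nd (nat_lit 78) (nat_lit 532) (nat_lit 0) (XT.lf (nat_lit 0) (nat_lit 3057283399) (nat_lit 684) (nat_lit 9063789800) (nat_lit 760) (nat_lit 2543354275)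 (nat_lit 79) (nat_lit 5) (nat_lit 88) (nat_lit 5) (nat_lit 89) (nat_lit 5) (nat_lit 291) (nat_lit 280) (nat_lit 209)) (XT.nd (nat_lit 78) (nat_lit 532) (nat_lit 0) (XT.lf (nat_lit 0) (nat_lit 10478598748) (nat_lit 684) (nat_lit 3370843882) (nat_lit 760) (nat_lit 1209617941) (nat_lit 79) (nat_lit 5) (nat_lit 88) (nat_lit 5) (nat_lit 89) (nat_lit 5) (nat_lit 292) (nat_lit 280) (nat_lit 208)) (XT.lf (nat_lit 0) (nat_lit 250698326) (nat_lit 532) (nat_lit 12645522360) (nat_lit 76) (nat_lit 2573798435) (nat_lit 72) (nat_lit 5) (nat_lit 79) (nat_lit 5) (nat_lit 73) (nat_lit 5) (nat_lit 293) (nat_lit 280) (nat_lit 207))))) (XT.nd (nat_lit 156) (nat_lit 304) (nat_lit 0) (XT.nd (nat_lit 78) (nat_lit 380) (nat_lit 0) (XT.lf (nat_lit 0) (nat_lit 1857901980) (nat_lit 532) (nat_lit 5234319813) (nat_lit 76) (nat_lit 8802626901) (nat_lit 72) (nat_lit 5) (nat_lit 79) (nat_lit 5) (nat_lit 73) (nat_lit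 5) (nat_lit 294) (nat_lit 280) (nat_lit 206)) (XT.lf (nat_lit 0) (nat_lit 2612941712) (nat_lit 380) (nat_lit 954670796) (nat_lit 456) (nat_lit 12772238681) (nat_lit 67) (nat_lit 5) (nat_lit 72) (nat_lit 5) (nat_lit 73) (nat_lit 5) (nat_lit 295) (nat_lit 280) (nat_lit 205))) (XT.nd (nat_lit 78) (nat_lit 304) (nat_lit 0) (XT.lf (nat_lit 0) (nat_lit 5520581999) (nat_lit 456) (nat_lit 5874326326) (nat_lit 76) (nat_lit 5404343746) (nat_lit 67) (nat_lit 5) (nat_lit 73) (nat_lit 5) (nat_lit 68) (nat_lit 5) (nat_lit 296) (nat_lit 280) (nat_lit 204)) (XT.nd (nat_lit 78) (nat_lit 0) (nat_lit 0) (XT.lf (nat_lit 0) (nat_lit 2414632123) (nat_lit 304) (nat_lit 5192740198) (nat_lit 380) (nat_lit 9672477232) (nat_lit 63) (nat_lit 5) (nat_lit 67) (nat_lit 5) (nat_lit 68) (nat_lit 5) (nat_lit 297) (nat_lit 280) (nat_lit 203)) (XT.lf (nat_lit 0) (nat_lit 9903570258) (nat_lit 380) (nat_lit 6498201865) (nat_lit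 76) (nat_lit 1377484880) (nat_lit 63) (nat_lit 5) (nat_lit 68) (nat_lit 5) (nat_lit 64) (nat_lit 5) (nat_lit 298) (nat_lit 280) (nat_lit 202))))))))
noncomputable def xc165 : XT := (XT.nd (nat_lit 1560) (nat_lit 1216) (nat_lit 0) (XT.nd (nat_lit 780) (nat_lit 1140) (nat_lit 0) (XT.nd (nat_lit 390) (nat_lit 456) (nat_lit 0) (XT.nd (nat_lit 156) (nat_lit 608) (nat_lit 0) (XT.nd (nat_lit 78) (nat_lit 0) (nat_lit 0) (XT.lf (nat_lit 0) (nat_lit 2256695983) (nat_lit 304) (nat_lit 10162386142) (nat_lit 380) (nat_lit 5879359402) (nat_lit 59) (nat_lit 5) (nat_lit 63) (nat_lit 5) (nat_lit 64) (nat_lit 5) (nat_lit 299) (nat_lit 280) (nat_lit 201)) (XT.lf (nat_lit 0) (nat_lit 11657655035) (nat_lit 304) (nat_lit 3497393704) (nat_lit 380) (nat_lit 3683832965) (nat_lit 59) (nat_lit 5) (nat_lit 63) (nat_lit 5) (nat_lit 64) (nat_lit 5) (nat_lit 300) (nat_lit 280) (nat_lit 200))) (XT.nd (nat_lit 78) (nat_lit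 380) (nat_lit 0) (XT.lf (nat_lit 0) (nat_lit 2118261880) (nat_lit 228) (nat_lit 15982614296) (nat_lit 304) (nat_lit 1301843528) (nat_lit 56) (nat_lit 5) (nat_lit 59) (nat_lit 5) (nat_lit 60) (nat_lit 5) (nat_lit 301) (nat_lit 280) (nat_lit 199)) (XT.nd (nat_lit 78) (nat_lit 304) (nat_lit 0) (XT.lf (nat_lit 0) (nat_lit 1327314373) (nat_lit 304) (nat_lit 7952103459) (nat_lit 76) (nat_lit 10706099222) (nat_lit 55) (nat_lit 5) (nat_lit 59) (nat_lit 5) (nat_lit 56) (nat_lit 5) (nat_lit 302) (nat_lit 280) (nat_lit 198)) (XT.lf (nat_lit 0) (nat_lit 1868744190) (nat_lit 304) (nat_lit 2190808724) (nat_lit 380) (nat_lit 16536090610) (nat_lit 51) (nat_lit 5) (nat_lit 55) (nat_lit 5) (nat_lit 56) (nat_lit 5) (nat_lit 303) (nat_lit 280) (nat_lit 197))))) (XT.nd (nat_lit 156) (nat_lit 228) (nat_lit 0) (XT.nd (nat_lit 78) (nat_lit 228) (nat_lit 0) (XT.lf (nat_lit 0) (nat_lit 7133839492) (nat_lit 380)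 (nat_lit 8874013908) (nat_lit 76) (nat_lit 5218174918) (nat_lit 51) (nat_lit 5) (nat_lit 56) (nat_lit 5) (nat_lit 52) (nat_lit 5) (nat_lit 304) (nat_lit 280) (nat_lit 196)) (XT.lf (nat_lit 0) (nat_lit 1466367392) (nat_lit 228) (nat_lit 8941475908) (nat_lit 304) (nat_lit 11477811582) (nat_lit 48) (nat_lit 5) (nat_lit 51) (nat_lit 5) (nat_lit 52) (nat_lit 5) (nat_lit 305) (nat_lit 280) (nat_lit 195))) (XT.nd (nat_lit 78) (nat_lit 228) (nat_lit 0) (XT.lf (nat_lit 0) (nat_lit 12615947818) (nat_lit 228) (nat_lit 1367440583) (nat_lit 304) (nat_lit 8588003909) (nat_lit 48) (nat_lit 5) (nat_lit 51) (nat_lit 5) (nat_lit 52) (nat_lit 5) (nat_lit 306) (nat_lit 280) (nat_lit 194)) (XT.nd (nat_lit 78) (nat_lit 0) (nat_lit 0) (XT.lf (nat_lit 0) (nat_lit 943255842) (nat_lit 228) (nat_lit 16900093238) (nat_lit 304) (nat_lit 5442806181) (nat_lit 45) (nat_lit 5) (nat_lit 48) (nat_lit 5) (nat_lit 49) (nat_lit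 5) (nat_lit 307) (nat_lit 280) (nat_lit 193)) (XT.lf (nat_lit 0) (nat_lit 12693906911) (nat_lit 228) (nat_lit 9381478676) (nat_lit 304) (nat_lit 1952336468) (nat_lit 45) (nat_lit 5) (nat_lit 48) (nat_lit 5) (nat_lit 49) (nat_lit 5) (nat_lit 308) (nat_lit 280) (nat_lit 192)))))) (XT.nd (nat_lit 390) (nat_lit 608) (nat_lit 0) (XT.nd (nat_lit 156) (nat_lit 228) (nat_lit 0) (XT.nd (nat_lit 78) (nat_lit 0) (nat_lit 0) (XT.lf (nat_lit 0) (nat_lit 189954223) (nat_lit 228) (nat_lit 1459627057) (nat_lit 304) (nat_lit 23155879693) (nat_lit 41) (nat_lit 5) (nat_lit 44) (nat_lit 5) (nat_lit 45) (nat_lit 5) (nat_lit 309) (nat_lit 280) (nat_lit 191)) (XT.lf (nat_lit 0) (nat_lit 5657166856) (nat_lit 304) (nat_lit 13086690091) (nat_lit 76) (nat_lit 6862087370) (nat_lit 41) (nat_lit 5) (nat_lit 45) (nat_lit 5) (nat_lit 42) (nat_lit 5) (nat_lit 310) (nat_lit 280) (nat_lit 190))) (XT.nd (nat_lit 78) (nat_lit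 228) (nat_lit 0) (XT.lf (nat_lit 0) (nat_lit 9878598533) (nat_lit 304) (nat_lit 1019996417) (nat_lit 76) (nat_lit 15547199651) (nat_lit 41) (nat_lit 5) (nat_lit 45) (nat_lit 5) (nat_lit 42) (nat_lit 5) (nat_lit 311) (nat_lit 280) (nat_lit 189)) (XT.nd (nat_lit 78) (nat_lit 0) (nat_lit 0) (XT.lf (nat_lit 0) (nat_lit 12020835159) (nat_lit 228) (nat_lit 2467982235) (nat_lit 304) (nat_lit 12829949571) (nat_lit 38) (nat_lit 5) (nat_lit 41) (nat_lit 5) (nat_lit 42) (nat_lit 5) (nat_lit 312) (nat_lit 280) (nat_lit 188)) (XT.lf (nat_lit 0) (nat_lit 19437013551) (nat_lit 304) (nat_lit 2599512691) (nat_lit 76) (nat_lit 6193503003) (nat_lit 38) (nat_lit 5) (nat_lit 42) (nat_lit 5) (nat_lit 39) (nat_lit 5) (nat_lit 313) (nat_lit 280) (nat_lit 187))))) (XT.nd (nat_lit 156) (nat_lit 380) (nat_lit 0) (XT.nd (nat_lit 78) (nat_lit 76) (nat_lit 0) (XT.lf (nat_lit 0) (nat_lit 11033017047) (nat_lit 152)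 (nat_lit 13803016929) (nat_lit 228) (nat_lit 4340663860) (nat_lit 36) (nat_lit 5) (nat_lit 38) (nat_lit 5) (nat_lit 39) (nat_lit 5) (nat_lit 314) (nat_lit 280) (nat_lit 186)) (XT.lf (nat_lit 0) (nat_lit 359125258) (nat_lit 228) (nat_lit 4750594691) (nat_lit 76) (nat_lit 25058955584) (nat_lit 35) (nat_lit 5) (nat_lit 38) (nat_lit 5) (nat_lit 36) (nat_lit 5) (nat_lit 315) (nat_lit 280) (nat_lit 185))) (XT.nd (nat_lit 78) (nat_lit 152) (nat_lit 0) (XT.lf (nat_lit 0) (nat_lit 5354359716) (nat_lit 304) (nat_lit 21732803732) (nat_lit 76) (nat_lit 4109226234) (nat_lit 32) (nat_lit 5) (nat_lit 36) (nat_lit 5) (nat_lit 33) (nat_lit 5) (nat_lit 316) (nat_lit 280) (nat_lit 184)) (XT.nd (nat_lit 78) (nat_lit 152) (nat_lit 0) (XT.lf (nat_lit 0) (nat_lit 10756262434) (nat_lit 304) (nat_lit 7816243318) (nat_lit 76) (nat_lit 13695149913) (nat_lit 32) (nat_lit 5) (nat_lit 36) (nat_lit 5) (nat_lit 33)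 (nat_lit 5) (nat_lit 317) (nat_lit 280) (nat_lit 183)) (XT.lf (nat_lit 0) (nat_lit 7007970419) (nat_lit 152) (nat_lit 9521483073) (nat_lit 228) (nat_lit 16857982702) (nat_lit 30) (nat_lit 5) (nat_lit 32) (nat_lit 5) (nat_lit 33) (nat_lit 5) (nat_lit 318) (nat_lit 280) (nat_lit 182))))))) (XT.nd (nat_lit 780) (nat_lit 532) (nat_lit 0) (XT.nd (nat_lit 390) (nat_lit 304) (nat_lit 0) (XT.nd (nat_lit 156) (nat_lit 228) (nat_lit 0) (XT.nd (nat_lit 78) (nat_lit 152) (nat_lit 0) (XT.lf (nat_lit 0) (nat_lit 22717479018) (nat_lit 228) (nat_lit 11726337801) (nat_lit 76) (nat_lit 113090571) (nat_lit 30) (nat_lit 5) (nat_lit 33) (nat_lit 5) (nat_lit 31) (nat_lit 5) (nat_lit 319) (nat_lit 280) (nat_lit 181)) (XT.lf (nat_lit 0) (nat_lit 3606779595) (nat_lit 152) (nat_lit 25812825796) (nat_lit 228) (nat_lit 6355021669) (nat_lit 28) (nat_lit 5) (nat_lit 30) (nat_lit 5) (nat_lit 31) (nat_lit 5) (nat_lit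 320) (nat_lit 280) (nat_lit 180))) (XT.nd (nat_lit 78) (nat_lit 228) (nat_lit 0) (XT.lf (nat_lit 0) (nat_lit 20101842084) (nat_lit 152) (nat_lit 16546067139) (nat_lit 228) (nat_lit 395779354) (nat_lit 28) (nat_lit 5) (nat_lit 30) (nat_lit 5) (nat_lit 31) (nat_lit 5) (nat_lit 321) (nat_lit 280) (nat_lit 179)) (XT.nd (nat_lit 78) (nat_lit 152) (nat_lit 0) (XT.lf (nat_lit 0) (nat_lit 5666534807) (nat_lit 228) (nat_lit 1057568025) (nat_lit 76) (nat_lit 31647897622) (nat_lit 27) (nat_lit 5) (nat_lit 30) (nat_lit 5) (nat_lit 28) (nat_lit 5) (nat_lit 322) (nat_lit 280) (nat_lit 178)) (XT.lf (nat_lit 0) (nat_lit 12323594872) (nat_lit 228) (nat_lit 23694981986) (nat_lit 76) (nat_lit 3732588248) (nat_lit 25) (nat_lit 5) (nat_lit 28) (nat_lit 5) (nat_lit 26) (nat_lit 5) (nat_lit 323) (nat_lit 280) (nat_lit 177))))) (XT.nd (nat_lit 156) (nat_lit 152) (nat_lit 0) (XT.nd (nat_lit 78) (nat_lit 152)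 (nat_lit 0) (XT.lf (nat_lit 0) (nat_lit 19435101774) (nat_lit 228) (nat_lit 7257647661) (nat_lit 76) (nat_lit 14500466615) (nat_lit 25) (nat_lit 5) (nat_lit 28) (nat_lit 5) (nat_lit 26) (nat_lit 5) (nat_lit 324) (nat_lit 280) (nat_lit 176)) (XT.lf (nat_lit 0) (nat_lit 10321359847) (nat_lit 152) (nat_lit 16735453908) (nat_lit 228) (nat_lit 15642831680) (nat_lit 23) (nat_lit 5) (nat_lit 25) (nat_lit 5) (nat_lit 26) (nat_lit 5) (nat_lit 325) (nat_lit 280) (nat_lit 175))) (XT.nd (nat_lit 78) (nat_lit 152) (nat_lit 0) (XT.lf (nat_lit 0) (nat_lit 29020915387) (nat_lit 152) (nat_lit 6155240445) (nat_lit 228) (nat_lit 9099420264) (nat_lit 23) (nat_lit 5) (nat_lit 25) (nat_lit 5) (nat_lit 26) (nat_lit 5) (nat_lit 326) (nat_lit 280) (nat_lit 174)) (XT.nd (nat_lit 78) (nat_lit 76) (nat_lit 0) (XT.lf (nat_lit 0) (nat_lit 2724885227) (nat_lit 76) (nat_lit 41090344834) (nat_lit 152) (nat_lit 2109391672)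 (nat_lit 22) (nat_lit 5) (nat_lit 23) (nat_lit 5) (nat_lit 24) (nat_lit 4) (nat_lit 327) (nat_lit 280) (nat_lit 173)) (XT.lf (nat_lit 0) (nat_lit 5420135146) (nat_lit 152) (nat_lit 25707156533) (nat_lit 76) (nat_lit 16506881495) (nat_lit 21) (nat_lit 5) (nat_lit 23) (nat_lit 5) (nat_lit 22) (nat_lit 5) (nat_lit 328) (nat_lit 280) (nat_lit 172)))))) (XT.nd (nat_lit 390) (nat_lit 304) (nat_lit 0) (XT.nd (nat_lit 156) (nat_lit 76) (nat_lit 0) (XT.nd (nat_lit 78) (nat_lit 152) (nat_lit 0) (XT.lf (nat_lit 0) (nat_lit 13249447086) (nat_lit 152) (nat_lit 7384215473) (nat_lit 76) (nat_lit 28794106495) (nat_lit 21) (nat_lit 5) (nat_lit 23) (nat_lit 5) (nat_lit 22) (nat_lit 5) (nat_lit 329) (nat_lit 280) (nat_lit 171)) (XT.lf (nat_lit 0) (nat_lit 12237316799) (nat_lit 152) (nat_lit 9418441083) (nat_lit 228) (nat_lit 29646015691) (nat_lit 19) (nat_lit 5) (nat_lit 21) (nat_lit 5) (nat_lit 22) (nat_lit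 5) (nat_lit 330) (nat_lit 280) (nat_lit 170))) (XT.nd (nat_lit 78) (nat_lit 76) (nat_lit 0) (XT.lf (nat_lit 0) (nat_lit 30640835888) (nat_lit 228) (nat_lit 20215090186) (nat_lit 76) (nat_lit 2405634907) (nat_lit 19) (nat_lit 5) (nat_lit 22) (nat_lit 5) (nat_lit 20) (nat_lit 4) (nat_lit 331) (nat_lit 280) (nat_lit 169)) (XT.nd (nat_lit 78) (nat_lit 76) (nat_lit 0) (XT.lf (nat_lit 0) (nat_lit 40224367031) (nat_lit 228) (nat_lit 586508979) (nat_lit 76) (nat_lit 14501006783) (nat_lit 19) (nat_lit 5) (nat_lit 22) (nat_lit 5) (nat_lit 20) (nat_lit 4) (nat_lit 332) (nat_lit 280) (nat_lit 168)) (XT.lf (nat_lit 0) (nat_lit 20676858423) (nat_lit 76) (nat_lit 29928086265) (nat_lit 152) (nat_lit 6843887267) (nat_lit 18) (nat_lit 5) (nat_lit 19) (nat_lit 5) (nat_lit 20) (nat_lit 4) (nat_lit 333) (nat_lit 280) (nat_lit 167))))) (XT.nd (nat_lit 234) (nat_lit 76) (nat_lit 0) (XT.nd (nat_lit 78) (nat_lit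 152) (nat_lit 0) (XT.lf (nat_lit 0) (nat_lit 1759094233) (nat_lit 152) (nat_lit 16705290334) (nat_lit 76) (nat_lit 41226575645) (nat_lit 17) (nat_lit 5) (nat_lit 19) (nat_lit 5) (nat_lit 18) (nat_lit 5) (nat_lit 334) (nat_lit 280) (nat_lit 166)) (XT.nd (nat_lit 78) (nat_lit 0) (nat_lit 0) (XT.lf (nat_lit 0) (nat_lit 4384813730) (nat_lit 152) (nat_lit 6241174417) (nat_lit 228) (nat_lit 51410412961) (nat_lit 15) (nat_lit 5) (nat_lit 17) (nat_lit 5) (nat_lit 18) (nat_lit 5) (nat_lit 335) (nat_lit 280) (nat_lit 165)) (XT.lf (nat_lit 0) (nat_lit 20322066493) (nat_lit 228) (nat_lit 37491263207) (nat_lit 76) (nat_lit 6666496275) (nat_lit 15) (nat_lit 5) (nat_lit 18) (nat_lit 5) (nat_lit 16) (nat_lit 4) (nat_lit 336) (nat_lit 280) (nat_lit 164)))) (XT.nd (nat_lit 78) (nat_lit 76) (nat_lit 0) (XT.lf (nat_lit 0) (nat_lit 30600835839) (nat_lit 228) (nat_lit 16432962447) (nat_lit 76) (nat_lit 20006733174)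 (nat_lit 15) (nat_lit 5) (nat_lit 18) (nat_lit 5) (nat_lit 16) (nat_lit 4) (nat_lit 337) (nat_lit 280) (nat_lit 163)) (XT.nd (nat_lit 78) (nat_lit 0) (nat_lit 0) (XT.lf (nat_lit 0) (nat_lit 5858401367) (nat_lit 76) (nat_lit 35622391919) (nat_lit 152) (nat_lit 28244120003) (nat_lit 14) (nat_lit 5) (nat_lit 15) (nat_lit 5) (nat_lit 16) (nat_lit 4) (nat_lit 338) (nat_lit 280) (nat_lit 162)) (XT.lf (nat_lit 0) (nat_lit 29827609975) (nat_lit 76) (nat_lit 23351310135) (nat_lit 152) (nat_lit 19350888904) (nat_lit 14) (nat_lit 5) (nat_lit 15) (nat_lit 5) (nat_lit 16) (nat_lit 4) (nat_lit 339) (nat_lit 280) (nat_lit 161))))))))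
noncomputable def xc166 : XT := (XT.nd (nat_lit 1560) (nat_lit 304) (nat_lit 0) (XT.nd (nat_lit 780) (nat_lit 228) (nat_lit 0) (XT.nd (nat_lit 390) (nat_lit 152) (nat_lit 0) (XT.nd (nat_lit 156) (nat_lit 76) (nat_lit 0) (XT.nd (nat_lit 78) (nat_lit 76) (nat_lit 0) (XT.lf (nat_lit 0) (nat_lit 54988384971) (nat_lit 76) (nat_lit 10469636245) (nat_lit 152) (nat_lit 10017128136) (nat_lit 14) (nat_lit 5) (nat_lit 15) (nat_lit 5) (nat_lit 16) (nat_lit 4) (nat_lit 340) (nat_lit 280) (nat_lit 160)) (XT.lf (nat_lit 0) (nat_lit 2877100555) (nat_lit 76) (nat_lit 75562822179) (nat_lit 76) (nat_lit 123394770) (nat_lit 13) (nat_lit 4) (nat_lit 14) (nat_lit 5) (nat_lit 14) (nat_lit 4) (nat_lit 341) (nat_lit 280) (nat_lit 159))) (XT.nd (nat_lit 78) (nat_lit 0) (nat_lit 0) (XT.lf (nat_lit 0) (nat_lit 10456979538) (nat_lit 152) (nat_lit 54012451786) (nat_lit 76) (nat_lit 17302427272) (nat_lit 12) (nat_lit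 5) (nat_lit 14) (nat_lit 5) (nat_lit 13) (nat_lit 4) (nat_lit 342) (nat_lit 280) (nat_lit 158)) (XT.nd (nat_lit 78) (nat_lit 0) (nat_lit 0) (XT.lf (nat_lit 0) (nat_lit 21558630244) (nat_lit 152) (nat_lit 31263432059) (nat_lit 76) (nat_lit 32318845718) (nat_lit 12) (nat_lit 5) (nat_lit 14) (nat_lit 5) (nat_lit 13) (nat_lit 4) (nat_lit 343) (nat_lit 280) (nat_lit 157)) (XT.lf (nat_lit 0) (nat_lit 33211939253) (nat_lit 152) (nat_lit 7383066898) (nat_lit 76) (nat_lit 48083577502) (nat_lit 12) (nat_lit 5) (nat_lit 14) (nat_lit 5) (nat_lit 13) (nat_lit 4) (nat_lit 344) (nat_lit 280) (nat_lit 156))))) (XT.nd (nat_lit 156) (nat_lit 76) (nat_lit 0) (XT.nd (nat_lit 78) (nat_lit 0) (nat_lit 0) (XT.lf (nat_lit 0) (nat_lit 18270264265) (nat_lit 76) (nat_lit 27459638299) (nat_lit 152) (nat_lit 46649143463) (nat_lit 11) (nat_lit 5) (nat_lit 12) (nat_lit 5) (nat_lit 13) (nat_lit 4) (nat_lit 345) (nat_lit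 280) (nat_lit 155)) (XT.lf (nat_lit 0) (nat_lit 45456864375) (nat_lit 76) (nat_lit 13538740275) (nat_lit 152) (nat_lit 37262837129) (nat_lit 11) (nat_lit 5) (nat_lit 12) (nat_lit 5) (nat_lit 13) (nat_lit 4) (nat_lit 346) (nat_lit 280) (nat_lit 154))) (XT.nd (nat_lit 78) (nat_lit 76) (nat_lit 0) (XT.lf (nat_lit 0) (nat_lit 72938344999) (nat_lit 152) (nat_lit 26351411962) (nat_lit 0) (nat_lit 1041364878) (nat_lit 11) (nat_lit 5) (nat_lit 13) (nat_lit 4) (nat_lit 11) (nat_lit 4) (nat_lit 347) (nat_lit 280) (nat_lit 153)) (XT.nd (nat_lit 78) (nat_lit 76) (nat_lit 0) (XT.lf (nat_lit 0) (nat_lit 87797235015) (nat_lit 152) (nat_lit 905985162) (nat_lit 0) (nat_lit 15893267169) (nat_lit 11) (nat_lit 5) (nat_lit 13) (nat_lit 4) (nat_lit 11) (nat_lit 4) (nat_lit 348) (nat_lit 280) (nat_lit 152)) (XT.lf (nat_lit 0) (nat_lit 26659949915) (nat_lit 76) (nat_lit 77152561950) (nat_lit 76) (nat_lit 5241939126)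 (nat_lit 10) (nat_lit 4) (nat_lit 11) (nat_lit 5) (nat_lit 11) (nat_lit 4) (nat_lit 349) (nat_lit 280) (nat_lit 151)))))) (XT.nd (nat_lit 390) (nat_lit 76) (nat_lit 0) (XT.nd (nat_lit 156) (nat_lit 76) (nat_lit 0) (XT.nd (nat_lit 78) (nat_lit 0) (nat_lit 0) (XT.lf (nat_lit 0) (nat_lit 6685422441) (nat_lit 152) (nat_lit 58211844893) (nat_lit 76) (nat_lit 48832025665) (nat_lit 9) (nat_lit 5) (nat_lit 11) (nat_lit 5) (nat_lit 10) (nat_lit 4) (nat_lit 350) (nat_lit 280) (nat_lit 150)) (XT.lf (nat_lit 0) (nat_lit 19030335792) (nat_lit 152) (nat_lit 32910808783) (nat_lit 76) (nat_lit 66692570207) (nat_lit 9) (nat_lit 5) (nat_lit 11) (nat_lit 5) (nat_lit 10) (nat_lit 4) (nat_lit 351) (nat_lit 280) (nat_lit 149))) (XT.nd (nat_lit 78) (nat_lit 76) (nat_lit 0) (XT.lf (nat_lit 0) (nat_lit 31989968367) (nat_lit 152) (nat_lit 6349310824) (nat_lit 76) (nat_lit 85444206413) (nat_lit 9) (nat_lit 5)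 (nat_lit 11) (nat_lit 5) (nat_lit 10) (nat_lit 4) (nat_lit 352) (nat_lit 280) (nat_lit 148)) (XT.nd (nat_lit 78) (nat_lit 0) (nat_lit 0) (XT.lf (nat_lit 0) (nat_lit 22247964449) (nat_lit 76) (nat_lit 23694565059) (nat_lit 152) (nat_lit 83230969661) (nat_lit 8) (nat_lit 5) (nat_lit 9) (nat_lit 5) (nat_lit 10) (nat_lit 4) (nat_lit 353) (nat_lit 280) (nat_lit 147)) (XT.lf (nat_lit 0) (nat_lit 52491236340) (nat_lit 76) (nat_lit 8206652309) (nat_lit 152) (nat_lit 74129867741) (nat_lit 8) (nat_lit 5) (nat_lit 9) (nat_lit 5) (nat_lit 10) (nat_lit 4) (nat_lit 354) (nat_lit 280) (nat_lit 146))))) (XT.nd (nat_lit 156) (nat_lit 76) (nat_lit 0) (XT.nd (nat_lit 78) (nat_lit 0) (nat_lit 0) (XT.lf (nat_lit 0) (nat_lit 76314511848) (nat_lit 152) (nat_lit 56648006938) (nat_lit 0) (nat_lit 7796034287) (nat_lit 8) (nat_lit 5) (nat_lit 10) (nat_lit 4) (nat_lit 8) (nat_lit 4) (nat_lit 355) (nat_lit 280)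 (nat_lit 145)) (XT.lf (nat_lit 0) (nat_lit 92844334568) (nat_lit 152) (nat_lit 29813585284) (nat_lit 0) (nat_lit 24321352657) (nat_lit 8) (nat_lit 5) (nat_lit 10) (nat_lit 4) (nat_lit 8) (nat_lit 4) (nat_lit 356) (nat_lit 280) (nat_lit 144))) (XT.nd (nat_lit 78) (nat_lit 76) (nat_lit 0) (XT.lf (nat_lit 0) (nat_lit 110198584690) (nat_lit 152) (nat_lit 1641234768) (nat_lit 0) (nat_lit 41671312921) (nat_lit 8) (nat_lit 5) (nat_lit 10) (nat_lit 4) (nat_lit 8) (nat_lit 4) (nat_lit 357) (nat_lit 280) (nat_lit 143)) (XT.nd (nat_lit 78) (nat_lit 0) (nat_lit 0) (XT.lf (nat_lit 0) (nat_lit 28859815979) (nat_lit 76) (nat_lit 100009348484) (nat_lit 76) (nat_lit 31477991137) (nat_lit 7) (nat_lit 4) (nat_lit 8) (nat_lit 5) (nat_lit 8) (nat_lit 4) (nat_lit 358) (nat_lit 280) (nat_lit 142)) (XT.lf (nat_lit 0) (nat_lit 60939345843) (nat_lit 76) (nat_lit 87559795140) (nat_lit 76) (nat_lit 19024546766)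 (nat_lit 7) (nat_lit 4) (nat_lit 8) (nat_lit 5) (nat_lit 8) (nat_lit 4) (nat_lit 359) (nat_lit 280) (nat_lit 141))))))) (XT.nd (nat_lit 780) (nat_lit 152) (nat_lit 0) (XT.nd (nat_lit 390) (nat_lit 0) (nat_lit 0) (XT.nd (nat_lit 156) (nat_lit 76) (nat_lit 0) (XT.nd (nat_lit 78) (nat_lit 76) (nat_lit 0) (XT.lf (nat_lit 0) (nat_lit 94619468024) (nat_lit 76) (nat_lit 74489312738) (nat_lit 76) (nat_lit 5950358623) (nat_lit 7) (nat_lit 4) (nat_lit 8) (nat_lit 5) (nat_lit 8) (nat_lit 4) (nat_lit 360) (nat_lit 280) (nat_lit 140)) (XT.lf (nat_lit 0) (nat_lit 7526831274) (nat_lit 152) (nat_lit 53112479277) (nat_lit 76) (nat_lit 122326071483) (nat_lit 6) (nat_lit 5) (nat_lit 8) (nat_lit 5) (nat_lit 7) (nat_lit 4) (nat_lit 361) (nat_lit 280) (nat_lit 139))) (XT.nd (nat_lit 78) (nat_lit 76) (nat_lit 0) (XT.lf (nat_lit 0) (nat_lit 21476216425) (nat_lit 152) (nat_lit 24519600935) (nat_lit 76) (nat_lit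 145266327723) (nat_lit 6) (nat_lit 5) (nat_lit 8) (nat_lit 5) (nat_lit 7) (nat_lit 4) (nat_lit 362) (nat_lit 280) (nat_lit 138)) (XT.nd (nat_lit 78) (nat_lit 0) (nat_lit 0) (XT.lf (nat_lit 0) (nat_lit 5681796699) (nat_lit 76) (nat_lit 30528370356) (nat_lit 152) (nat_lit 163759225324) (nat_lit 5) (nat_lit 5) (nat_lit 6) (nat_lit 5) (nat_lit 7) (nat_lit 4) (nat_lit 363) (nat_lit 280) (nat_lit 137)) (XT.lf (nat_lit 0) (nat_lit 38241599815) (nat_lit 76) (nat_lit 13852885209) (nat_lit 152) (nat_lit 156996834386) (nat_lit 5) (nat_lit 5) (nat_lit 6) (nat_lit 5) (nat_lit 7) (nat_lit 4) (nat_lit 364) (nat_lit 280) (nat_lit 136))))) (XT.nd (nat_lit 156) (nat_lit 0) (nat_lit 0) (XT.nd (nat_lit 78) (nat_lit 0) (nat_lit 0) (XT.lf (nat_lit 0) (nat_lit 68828578907) (nat_lit 152) (nat_lit 146299882116) (nat_lit 0) (nat_lit 3538104592) (nat_lit 5) (nat_lit 5) (nat_lit 7) (nat_lit 4) (nat_lit 5) (nat_lit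 4) (nat_lit 365) (nat_lit 280) (nat_lit 135)) (XT.lf (nat_lit 0) (nat_lit 86625020407) (nat_lit 152) (nat_lit 120752359869) (nat_lit 0) (nat_lit 21331912491) (nat_lit 5) (nat_lit 5) (nat_lit 7) (nat_lit 4) (nat_lit 5) (nat_lit 4) (nat_lit 366) (nat_lit 280) (nat_lit 134))) (XT.nd (nat_lit 78) (nat_lit 0) (nat_lit 0) (XT.lf (nat_lit 0) (nat_lit 105309899642) (nat_lit 152) (nat_lit 93930043061) (nat_lit 0) (nat_lit 40014283535) (nat_lit 5) (nat_lit 5) (nat_lit 7) (nat_lit 4) (nat_lit 5) (nat_lit 4) (nat_lit 367) (nat_lit 280) (nat_lit 133)) (XT.nd (nat_lit 78) (nat_lit 0) (nat_lit 0) (XT.lf (nat_lit 0) (nat_lit 124927704421) (nat_lit 152) (nat_lit 65769069032) (nat_lit 0) (nat_lit 59629699561) (nat_lit 5) (nat_lit 5) (nat_lit 7) (nat_lit 4) (nat_lit 5) (nat_lit 4) (nat_lit 368) (nat_lit 280) (nat_lit 132)) (XT.lf (nat_lit 0) (nat_lit 145525143802) (nat_lit 152) (nat_lit 36202387845) (nat_lit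 0) (nat_lit 80224863939) (nat_lit 5) (nat_lit 5) (nat_lit 7) (nat_lit 4) (nat_lit 5) (nat_lit 4) (nat_lit 369) (nat_lit 280) (nat_lit 131)))))) (XT.nd (nat_lit 390) (nat_lit 76) (nat_lit 0) (XT.nd (nat_lit 156) (nat_lit 0) (nat_lit 0) (XT.nd (nat_lit 78) (nat_lit 76) (nat_lit 0) (XT.lf (nat_lit 0) (nat_lit 167151259308) (nat_lit 152) (nat_lit 5159602638) (nat_lit 0) (nat_lit 101848812776) (nat_lit 5) (nat_lit 5) (nat_lit 7) (nat_lit 4) (nat_lit 5) (nat_lit 4) (nat_lit 370) (nat_lit 280) (nat_lit 130)) (XT.lf (nat_lit 0) (nat_lit 28340263396) (nat_lit 76) (nat_lit 161959749229) (nat_lit 76) (nat_lit 96655239202) (nat_lit 4) (nat_lit 4) (nat_lit 5) (nat_lit 5) (nat_lit 5) (nat_lit 4) (nat_lit 371) (nat_lit 280) (nat_lit 129))) (XT.nd (nat_lit 78) (nat_lit 0) (nat_lit 0) (XT.lf (nat_lit 0) (nat_lit 63692162893) (nat_lit 76) (nat_lit 151000303792) (nat_lit 76) (nat_lit 85693828531) (nat_lit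 4) (nat_lit 4) (nat_lit 5) (nat_lit 5) (nat_lit 5) (nat_lit 4) (nat_lit 372) (nat_lit 280) (nat_lit 128)) (XT.nd (nat_lit 78) (nat_lit 0) (nat_lit 0) (XT.lf (nat_lit 0) (nat_lit 100809667278) (nat_lit 76) (nat_lit 139493812085) (nat_lit 76) (nat_lit 74185465174) (nat_lit 4) (nat_lit 4) (nat_lit 5) (nat_lit 5) (nat_lit 5) (nat_lit 4) (nat_lit 373) (nat_lit 280) (nat_lit 127)) (XT.lf (nat_lit 0) (nat_lit 139781151559) (nat_lit 76) (nat_lit 127412877699) (nat_lit 76) (nat_lit 62102748264) (nat_lit 4) (nat_lit 4) (nat_lit 5) (nat_lit 5) (nat_lit 5) (nat_lit 4) (nat_lit 374) (nat_lit 280) (nat_lit 126))))) (XT.nd (nat_lit 234) (nat_lit 76) (nat_lit 0) (XT.nd (nat_lit 78) (nat_lit 0) (nat_lit 0) (XT.lf (nat_lit 0) (nat_lit 180699404985) (nat_lit 76) (nat_lit 114728736506) (nat_lit 76) (nat_lit 49416909428) (nat_lit 4) (nat_lit 4) (nat_lit 5) (nat_lit 5) (nat_lit 5) (nat_lit 4) (nat_lit 375)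 (nat_lit 280) (nat_lit 125)) (XT.nd (nat_lit 78) (nat_lit 0) (nat_lit 0) (XT.lf (nat_lit 0) (nat_lit 223661851970) (nat_lit 76) (nat_lit 101411188169) (nat_lit 76) (nat_lit 36097744289) (nat_lit 4) (nat_lit 4) (nat_lit 5) (nat_lit 5) (nat_lit 5) (nat_lit 4) (nat_lit 376) (nat_lit 280) (nat_lit 124)) (XT.lf (nat_lit 0) (nat_lit 268770784054) (nat_lit 76) (nat_lit 87428524238) (nat_lit 76) (nat_lit 22113540547) (nat_lit 4) (nat_lit 4) (nat_lit 5) (nat_lit 5) (nat_lit 5) (nat_lit 4) (nat_lit 377) (nat_lit 280) (nat_lit 123)))) (XT.nd (nat_lit 78) (nat_lit 76) (nat_lit 0) (XT.lf (nat_lit 0) (nat_lit 316133603456) (nat_lit 76) (nat_lit 72747452659) (nat_lit 76) (nat_lit 7431002480) (nat_lit 4) (nat_lit 4) (nat_lit 5) (nat_lit 5) (nat_lit 5) (nat_lit 4) (nat_lit 378) (nat_lit 280) (nat_lit 122)) (XT.nd (nat_lit 78) (nat_lit 0) (nat_lit 0) (XT.lf (nat_lit 0) (nat_lit 7729263962) (nat_lit 152)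 (nat_lit 49472855709) (nat_lit 76) (nat_lit 358002916005) (nat_lit 3) (nat_lit 5) (nat_lit 5) (nat_lit 5) (nat_lit 4) (nat_lit 4) (nat_lit 379) (nat_lit 280) (nat_lit 121)) (XT.lf (nat_lit 0) (nat_lit 23397044310) (nat_lit 152) (nat_lit 17355236143) (nat_lit 76) (nat_lit 394284329001) (nat_lit 3) (nat_lit 5) (nat_lit 5) (nat_lit 5) (nat_lit 4) (nat_lit 4) (nat_lit 380) (nat_lit 280) (nat_lit 120))))))))
noncomputable def xc167 : XT := (XT.nd (nat_lit 34008) (nat_lit 0) (nat_lit 2508) (XT.nd (nat_lit 33228) (nat_lit 0) (nat_lit 5320) (XT.nd (nat_lit 32838) (nat_lit 0) (nat_lit 6232) (XT.nd (nat_lit 156) (nat_lit 0) (nat_lit 0) (XT.nd (nat_lit 78) (nat_lit 0) (nat_lit 0) (XT.lf (nat_lit 0) (nat_lit 16908056250) (nat_lit 76) (nat_lit 23203407182) (nat_lit 152) (nat_lit 415735136359) (nat_lit 2) (nat_lit 5) (nat_lit 3) (nat_lit 5) (nat_lit 4) (nat_lit 4) (nat_lit 381) (nat_lit 280) (nat_lit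 119)) (XT.lf (nat_lit 0) (nat_lit 53485698450) (nat_lit 76) (nat_lit 4469105803) (nat_lit 152) (nat_lit 419727625696) (nat_lit 2) (nat_lit 5) (nat_lit 3) (nat_lit 5) (nat_lit 4) (nat_lit 4) (nat_lit 382) (nat_lit 280) (nat_lit 118))) (XT.nd (nat_lit 78) (nat_lit 0) (nat_lit 0) (XT.lf (nat_lit 0) (nat_lit 76926962802) (nat_lit 152) (nat_lit 408956483611) (nat_lit 0) (nat_lit 14714772992) (nat_lit 2) (nat_lit 5) (nat_lit 4) (nat_lit 4) (nat_lit 2) (nat_lit 4) (nat_lit 383) (nat_lit 280) (nat_lit 117)) (XT.nd (nat_lit 78) (nat_lit 0) (nat_lit 0) (XT.lf (nat_lit 0) (nat_lit 96920332602) (nat_lit 152) (nat_lit 393028735289) (nat_lit 0) (nat_lit 34707100586) (nat_lit 2) (nat_lit 5) (nat_lit 4) (nat_lit 4) (nat_lit 2) (nat_lit 4) (nat_lit 384) (nat_lit 280) (nat_lit 116)) (XT.lf (nat_lit 0) (nat_lit 117912741649) (nat_lit 152) (nat_lit 376305788057) (nat_lit 0) (nat_lit 55698517056) (nat_lit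 2) (nat_lit 5) (nat_lit 4) (nat_lit 4) (nat_lit 2) (nat_lit 4) (nat_lit 385) (nat_lit 280) (nat_lit 115))))) (XT.nd (nat_lit 156) (nat_lit 0) (nat_lit 0) (XT.nd (nat_lit 78) (nat_lit 0) (nat_lit 0) (XT.lf (nat_lit 0) (nat_lit 505097989) (nat_lit 0) (nat_lit 505097989) (nat_lit 684) (nat_lit 4858909984) (nat_lit 84) (nat_lit 5) (nat_lit 84) (nat_lit 3) (nat_lit 93) (nat_lit 3) (nat_lit 281) (nat_lit 281) (nat_lit 218)) (XT.lf (nat_lit 0) (nat_lit 2601687541) (nat_lit 684) (nat_lit 5531305618) (nat_lit 760) (nat_lit 3871046837) (nat_lit 84) (nat_lit 5) (nat_lit 93) (nat_lit 3) (nat_lit 94) (nat_lit 5) (nat_lit 282) (nat_lit 281) (nat_lit 217))) (XT.nd (nat_lit 78) (nat_lit 0) (nat_lit 76) (XT.lf (nat_lit 0) (nat_lit 3198862309) (nat_lit 684) (nat_lit 108113161) (nat_lit 760) (nat_lit 8976912918) (nat_lit 84) (nat_lit 5) (nat_lit 93) (nat_lit 3) (nat_lit 94) (nat_lit 5) (nat_lit 283) (nat_lit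 281) (nat_lit 216)) (XT.nd (nat_lit 78) (nat_lit 0) (nat_lit 0) (XT.lf (nat_lit 0) (nat_lit 3916558120) (nat_lit 684) (nat_lit 6849445950) (nat_lit 760) (nat_lit 1807258341) (nat_lit 85) (nat_lit 5) (nat_lit 94) (nat_lit 5) (nat_lit 95) (nat_lit 5) (nat_lit 284) (nat_lit 281) (nat_lit 215)) (XT.lf (nat_lit 0) (nat_lit 4699165471) (nat_lit 684) (nat_lit 1097499388) (nat_lit 760) (nat_lit 7079052105) (nat_lit 85) (nat_lit 5) (nat_lit 94) (nat_lit 5) (nat_lit 95) (nat_lit 5) (nat_lit 285) (nat_lit 281) (nat_lit 214)))))) (XT.nd (nat_lit 390) (nat_lit 988) (nat_lit 0) (XT.nd (nat_lit 156) (nat_lit 0) (nat_lit 76) (XT.nd (nat_lit 78) (nat_lit 0) (nat_lit 76) (XT.lf (nat_lit 76) (nat_lit 5088391392) (nat_lit 0) (nat_lit 486196871) (nat_lit 760) (nat_lit 7616081889) (nat_lit 86) (nat_lit 5) (nat_lit 85) (nat_lit 5) (nat_lit 95) (nat_lit 5) (nat_lit 286) (nat_lit 281) (nat_lit 213)) (XT.lf (nat_lit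 0) (nat_lit 6567486829) (nat_lit 684) (nat_lit 1996209888) (nat_lit 760) (nat_lit 4954046343) (nat_lit 86) (nat_lit 5) (nat_lit 95) (nat_lit 5) (nat_lit 96) (nat_lit 5) (nat_lit 287) (nat_lit 281) (nat_lit 212))) (XT.nd (nat_lit 78) (nat_lit 0) (nat_lit 76) (XT.lf (nat_lit 76) (nat_lit 4535521791) (nat_lit 0) (nat_lit 3129812412) (nat_lit 760) (nat_lit 6193124784) (nat_lit 87) (nat_lit 5) (nat_lit 86) (nat_lit 5) (nat_lit 96) (nat_lit 5) (nat_lit 288) (nat_lit 281) (nat_lit 211)) (XT.nd (nat_lit 78) (nat_lit 0) (nat_lit 0) (XT.lf (nat_lit 0) (nat_lit 8870125074) (nat_lit 684) (nat_lit 2809986717) (nat_lit 760) (nat_lit 2533548329) (nat_lit 87) (nat_lit 5) (nat_lit 96) (nat_lit 5) (nat_lit 97) (nat_lit 5) (nat_lit 289) (nat_lit 281) (nat_lit 210)) (XT.lf (nat_lit 76) (nat_lit 4091257078) (nat_lit 0) (nat_lit 6137630618) (nat_lit 760) (nat_lit 4353096498) (nat_lit 88) (nat_lit 5) (nat_lit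 87) (nat_lit 5) (nat_lit 97) (nat_lit 5) (nat_lit 290) (nat_lit 281) (nat_lit 209))))) (XT.nd (nat_lit 156) (nat_lit 532) (nat_lit 0) (XT.nd (nat_lit 78) (nat_lit 608) (nat_lit 0) (XT.lf (nat_lit 76) (nat_lit 11418401932) (nat_lit 0) (nat_lit 264083347) (nat_lit 760) (nat_lit 3284941487) (nat_lit 88) (nat_lit 5) (nat_lit 87) (nat_lit 5) (nat_lit 97) (nat_lit 5) (nat_lit 291) (nat_lit 281) (nat_lit 208)) (XT.lf (nat_lit 0) (nat_lit 3750630836) (nat_lit 684) (nat_lit 9589207097) (nat_lit 760) (nat_lit 2025794666) (nat_lit 79) (nat_lit 5) (nat_lit 88) (nat_lit 5) (nat_lit 89) (nat_lit 5) (nat_lit 292) (nat_lit 281) (nat_lit 207))) (XT.nd (nat_lit 78) (nat_lit 532) (nat_lit 0) (XT.lf (nat_lit 0) (nat_lit 11517274654) (nat_lit 684) (nat_lit 3608174463) (nat_lit 760) (nat_lit 656072817) (nat_lit 79) (nat_lit 5) (nat_lit 88) (nat_lit 5) (nat_lit 89) (nat_lit 5) (nat_lit 293) (nat_lit 281) (nat_lit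 206)) (XT.nd (nat_lit 78) (nat_lit 0) (nat_lit 0) (XT.lf (nat_lit 0) (nat_lit 836792953) (nat_lit 532) (nat_lit 12720141172) (nat_lit 76) (nat_lit 2656715270) (nat_lit 72) (nat_lit 5) (nat_lit 79) (nat_lit 5) (nat_lit 73) (nat_lit 5) (nat_lit 294) (nat_lit 281) (nat_lit 205)) (XT.lf (nat_lit 0) (nat_lit 2497044422) (nat_lit 532) (nat_lit 4964933607) (nat_lit 76) (nat_lit 9199164831) (nat_lit 72) (nat_lit 5) (nat_lit 79) (nat_lit 5) (nat_lit 73) (nat_lit 5) (nat_lit 295) (nat_lit 281) (nat_lit 204))))))) (XT.nd (nat_lit 780) (nat_lit 1216) (nat_lit 0) (XT.nd (nat_lit 390) (nat_lit 608) (nat_lit 0) (XT.nd (nat_lit 156) (nat_lit 608) (nat_lit 0) (XT.nd (nat_lit 78) (nat_lit 0) (nat_lit 0) (XT.lf (nat_lit 0) (nat_lit 3266124829) (nat_lit 380) (nat_lit 1008262122) (nat_lit 456) (nat_lit 12854955297) (nat_lit 67) (nat_lit 5) (nat_lit 72) (nat_lit 5) (nat_lit 73) (nat_lit 5) (nat_lit 296) (nat_lit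 281) (nat_lit 203)) (XT.lf (nat_lit 0) (nat_lit 6299756205) (nat_lit 456) (nat_lit 5644110271) (nat_lit 76) (nat_lit 5669160648) (nat_lit 67) (nat_lit 5) (nat_lit 73) (nat_lit 5) (nat_lit 68) (nat_lit 5) (nat_lit 297) (nat_lit 281) (nat_lit 202))) (XT.nd (nat_lit 78) (nat_lit 304) (nat_lit 0) (XT.lf (nat_lit 0) (nat_lit 3050845578) (nat_lit 304) (nat_lit 5424129290) (nat_lit 380) (nat_lit 9643524232) (nat_lit 63) (nat_lit 5) (nat_lit 67) (nat_lit 5) (nat_lit 68) (nat_lit 5) (nat_lit 298) (nat_lit 281) (nat_lit 201)) (XT.nd (nat_lit 78) (nat_lit 304) (nat_lit 0) (XT.lf (nat_lit 0) (nat_lit 10863201114) (nat_lit 380) (nat_lit 6308460767) (nat_lit 76) (nat_lit 1472400846) (nat_lit 63) (nat_lit 5) (nat_lit 68) (nat_lit 5) (nat_lit 64) (nat_lit 5) (nat_lit 299) (nat_lit 281) (nat_lit 200)) (XT.lf (nat_lit 0) (nat_lit 2875881147) (nat_lit 304) (nat_lit 10614396197) (nat_lit 380) (nat_lit 5699684196)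 (nat_lit 59) (nat_lit 5) (nat_lit 63) (nat_lit 5) (nat_lit 64) (nat_lit 5) (nat_lit 300) (nat_lit 281) (nat_lit 199))))) (XT.nd (nat_lit 156) (nat_lit 380) (nat_lit 0) (XT.nd (nat_lit 78) (nat_lit 228) (nat_lit 0) (XT.lf (nat_lit 0) (nat_lit 12722776230) (nat_lit 304) (nat_lit 3618826006) (nat_lit 380) (nat_lit 3416935874) (nat_lit 59) (nat_lit 5) (nat_lit 63) (nat_lit 5) (nat_lit 64) (nat_lit 5) (nat_lit 301) (nat_lit 281) (nat_lit 198)) (XT.lf (nat_lit 0) (nat_lit 2719742728) (nat_lit 228) (nat_lit 16703090998) (nat_lit 304) (nat_lit 928369012) (nat_lit 56) (nat_lit 5) (nat_lit 59) (nat_lit 5) (nat_lit 60) (nat_lit 5) (nat_lit 302) (nat_lit 281) (nat_lit 197))) (XT.nd (nat_lit 78) (nat_lit 304) (nat_lit 0) (XT.lf (nat_lit 0) (nat_lit 1797994206) (nat_lit 304) (nat_lit 7863638680) (nat_lit 76) (nat_lit 11302212104) (nat_lit 55) (nat_lit 5) (nat_lit 59) (nat_lit 5) (nat_lit 56) (nat_lit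 5) (nat_lit 303) (nat_lit 281) (nat_lit 196)) (XT.nd (nat_lit 78) (nat_lit 0) (nat_lit 0) (XT.lf (nat_lit 0) (nat_lit 2440411514) (nat_lit 304) (nat_lit 2214646619) (nat_lit 380) (nat_lit 16950043844) (nat_lit 51) (nat_lit 5) (nat_lit 55) (nat_lit 5) (nat_lit 56) (nat_lit 5) (nat_lit 304) (nat_lit 281) (nat_lit 195)) (XT.lf (nat_lit 0) (nat_lit 7865641590) (nat_lit 380) (nat_lit 8844175765) (nat_lit 76) (nat_lit 5558092735) (nat_lit 51) (nat_lit 5) (nat_lit 56) (nat_lit 5) (nat_lit 52) (nat_lit 5) (nat_lit 305) (nat_lit 281) (nat_lit 194)))))) (XT.nd (nat_lit 390) (nat_lit 456) (nat_lit 0) (XT.nd (nat_lit 156) (nat_lit 532) (nat_lit 0) (XT.nd (nat_lit 78) (nat_lit 0) (nat_lit 0) (XT.lf (nat_lit 0) (nat_lit 2005586877) (nat_lit 228) (nat_lit 9287170347) (nat_lit 304) (nat_lit 11668321801) (nat_lit 48) (nat_lit 5) (nat_lit 51) (nat_lit 5) (nat_lit 52) (nat_lit 5) (nat_lit 306) (nat_lit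 281) (nat_lit 193)) (XT.lf (nat_lit 0) (nat_lit 13690460557) (nat_lit 228) (nat_lit 1339260844) (nat_lit 304) (nat_lit 8652279953) (nat_lit 48) (nat_lit 5) (nat_lit 51) (nat_lit 5) (nat_lit 52) (nat_lit 5) (nat_lit 307) (nat_lit 281) (nat_lit 192))) (XT.nd (nat_lit 78) (nat_lit 304) (nat_lit 0) (XT.lf (nat_lit 0) (nat_lit 1443165038) (nat_lit 228) (nat_lit 17631487778) (nat_lit 304) (nat_lit 5358279687) (nat_lit 45) (nat_lit 5) (nat_lit 48) (nat_lit 5) (nat_lit 49) (nat_lit 5) (nat_lit 308) (nat_lit 281) (nat_lit 191)) (XT.nd (nat_lit 78) (nat_lit 304) (nat_lit 0) (XT.lf (nat_lit 0) (nat_lit 13759789308) (nat_lit 228) (nat_lit 9742352494) (nat_lit 304) (nat_lit 1710270622) (nat_lit 45) (nat_lit 5) (nat_lit 48) (nat_lit 5) (nat_lit 49) (nat_lit 5) (nat_lit 309) (nat_lit 281) (nat_lit 190)) (XT.lf (nat_lit 0) (nat_lit 634892944) (nat_lit 228) (nat_lit 1417118904) (nat_lit 304) (nat_lit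 23977229007) (nat_lit 41) (nat_lit 5) (nat_lit 44) (nat_lit 5) (nat_lit 45) (nat_lit 5) (nat_lit 310) (nat_lit 281) (nat_lit 189))))) (XT.nd (nat_lit 234) (nat_lit 228) (nat_lit 0) (XT.nd (nat_lit 78) (nat_lit 228) (nat_lit 0) (XT.lf (nat_lit 0) (nat_lit 6246458170) (nat_lit 304) (nat_lit 13312328347) (nat_lit 76) (nat_lit 7311661377) (nat_lit 41) (nat_lit 5) (nat_lit 45) (nat_lit 5) (nat_lit 42) (nat_lit 5) (nat_lit 311) (nat_lit 281) (nat_lit 188)) (XT.nd (nat_lit 78) (nat_lit 228) (nat_lit 0) (XT.lf (nat_lit 0) (nat_lit 10664369384) (nat_lit 304) (nat_lit 662714097) (nat_lit 76) (nat_lit 16425959289) (nat_lit 41) (nat_lit 5) (nat_lit 45) (nat_lit 5) (nat_lit 42) (nat_lit 5) (nat_lit 312) (nat_lit 281) (nat_lit 187)) (XT.lf (nat_lit 0) (nat_lit 13023573862) (nat_lit 228) (nat_lit 2473899755) (nat_lit 304) (nat_lit 13172592820) (nat_lit 38) (nat_lit 5) (nat_lit 41) (nat_lit 5) (nat_lit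 42) (nat_lit 5) (nat_lit 313) (nat_lit 281) (nat_lit 186)))) (XT.nd (nat_lit 78) (nat_lit 228) (nat_lit 0) (XT.lf (nat_lit 0) (nat_lit 20681292391) (nat_lit 304) (nat_lit 2334724892) (nat_lit 76) (nat_lit 6611484294) (nat_lit 38) (nat_lit 5) (nat_lit 42) (nat_lit 5) (nat_lit 39) (nat_lit 5) (nat_lit 314) (nat_lit 281) (nat_lit 185)) (XT.nd (nat_lit 78) (nat_lit 76) (nat_lit 0) (XT.lf (nat_lit 0) (nat_lit 11973064181) (nat_lit 152) (nat_lit 14370290841) (nat_lit 228) (nat_lit 4278513432) (nat_lit 36) (nat_lit 5) (nat_lit 38) (nat_lit 5) (nat_lit 39) (nat_lit 5) (nat_lit 315) (nat_lit 281) (nat_lit 184)) (XT.lf (nat_lit 0) (nat_lit 634460571) (nat_lit 228) (nat_lit 4609360885) (nat_lit 76) (nat_lit 26420066695) (nat_lit 35) (nat_lit 5) (nat_lit 38) (nat_lit 5) (nat_lit 36) (nat_lit 5) (nat_lit 316) (nat_lit 281) (nat_lit 183))))))))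
noncomputable def xc168 : XT := (XT.nd (nat_lit 1560) (nat_lit 532) (nat_lit 0) (XT.nd (nat_lit 780) (nat_lit 608) (nat_lit 0) (XT.nd (nat_lit 390) (nat_lit 380) (nat_lit 0) (XT.nd (nat_lit 156) (nat_lit 304) (nat_lit 0) (XT.nd (nat_lit 78) (nat_lit 0) (nat_lit 0) (XT.lf (nat_lit 0) (nat_lit 5874919074) (nat_lit 304) (nat_lit 22435807266) (nat_lit 76) (nat_lit 4432505324) (nat_lit 32) (nat_lit 5) (nat_lit 36) (nat_lit 5) (nat_lit 33) (nat_lit 5) (nat_lit 317) (nat_lit 281) (nat_lit 182)) (XT.lf (nat_lit 0) (nat_lit 11534876862) (nat_lit 304) (nat_lit 7841687243) (nat_lit 76) (nat_lit 14492114817) (nat_lit 32) (nat_lit 5) (nat_lit 36) (nat_lit 5) (nat_lit 33) (nat_lit 5) (nat_lit 318) (nat_lit 281) (nat_lit 181))) (XT.nd (nat_lit 78) (nat_lit 152) (nat_lit 0) (XT.lf (nat_lit 0) (nat_lit 7717844145) (nat_lit 152) (nat_lit 9873029014) (nat_lit 228) (nat_lit 17453883246) (nat_lit 30) (nat_lit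 5) (nat_lit 32) (nat_lit 5) (nat_lit 33) (nat_lit 5) (nat_lit 319) (nat_lit 281) (nat_lit 180)) (XT.nd (nat_lit 78) (nat_lit 152) (nat_lit 0) (XT.lf (nat_lit 0) (nat_lit 24078963661) (nat_lit 228) (nat_lit 11960671291) (nat_lit 76) (nat_lit 233547511) (nat_lit 30) (nat_lit 5) (nat_lit 33) (nat_lit 5) (nat_lit 31) (nat_lit 5) (nat_lit 320) (nat_lit 281) (nat_lit 179)) (XT.lf (nat_lit 0) (nat_lit 4133424823) (nat_lit 152) (nat_lit 26977434975) (nat_lit 228) (nat_lit 6441208945) (nat_lit 28) (nat_lit 5) (nat_lit 30) (nat_lit 5) (nat_lit 31) (nat_lit 5) (nat_lit 321) (nat_lit 281) (nat_lit 178))))) (XT.nd (nat_lit 156) (nat_lit 304) (nat_lit 0) (XT.nd (nat_lit 78) (nat_lit 76) (nat_lit 0) (XT.lf (nat_lit 0) (nat_lit 21436749662) (nat_lit 152) (nat_lit 17253339914) (nat_lit 228) (nat_lit 195031362) (nat_lit 28) (nat_lit 5) (nat_lit 30) (nat_lit 5) (nat_lit 31) (nat_lit 5) (nat_lit 322) (nat_lit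 281) (nat_lit 177)) (XT.lf (nat_lit 0) (nat_lit 6153174308) (nat_lit 228) (nat_lit 789375626) (nat_lit 76) (nat_lit 33337646517) (nat_lit 27) (nat_lit 5) (nat_lit 30) (nat_lit 5) (nat_lit 28) (nat_lit 5) (nat_lit 323) (nat_lit 281) (nat_lit 176))) (XT.nd (nat_lit 78) (nat_lit 152) (nat_lit 0) (XT.lf (nat_lit 0) (nat_lit 13140169615) (nat_lit 228) (nat_lit 24555515488) (nat_lit 76) (nat_lit 4032791473) (nat_lit 25) (nat_lit 5) (nat_lit 28) (nat_lit 5) (nat_lit 26) (nat_lit 5) (nat_lit 324) (nat_lit 281) (nat_lit 175)) (XT.nd (nat_lit 78) (nat_lit 152) (nat_lit 0) (XT.lf (nat_lit 0) (nat_lit 20597709244) (nat_lit 228) (nat_lit 7311753284) (nat_lit 76) (nat_lit 15333655481) (nat_lit 25) (nat_lit 5) (nat_lit 28) (nat_lit 5) (nat_lit 26) (nat_lit 5) (nat_lit 325) (nat_lit 281) (nat_lit 174)) (XT.lf (nat_lit 0) (nat_lit 11141224328) (nat_lit 152) (nat_lit 17454937402) (nat_lit 228) (nat_lit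 16228934685) (nat_lit 23) (nat_lit 5) (nat_lit 25) (nat_lit 5) (nat_lit 26) (nat_lit 5) (nat_lit 326) (nat_lit 281) (nat_lit 173)))))) (XT.nd (nat_lit 390) (nat_lit 304) (nat_lit 0) (XT.nd (nat_lit 156) (nat_lit 228) (nat_lit 0) (XT.nd (nat_lit 78) (nat_lit 76) (nat_lit 0) (XT.lf (nat_lit 0) (nat_lit 30761291146) (nat_lit 152) (nat_lit 6351298465) (nat_lit 228) (nat_lit 9367687869) (nat_lit 23) (nat_lit 5) (nat_lit 25) (nat_lit 5) (nat_lit 26) (nat_lit 5) (nat_lit 327) (nat_lit 281) (nat_lit 172)) (XT.lf (nat_lit 0) (nat_lit 3153007993) (nat_lit 76) (nat_lit 43028369184) (nat_lit 152) (nat_lit 2030519579) (nat_lit 22) (nat_lit 5) (nat_lit 23) (nat_lit 5) (nat_lit 24) (nat_lit 4) (nat_lit 328) (nat_lit 281) (nat_lit 171))) (XT.nd (nat_lit 78) (nat_lit 152) (nat_lit 0) (XT.lf (nat_lit 0) (nat_lit 5861086276) (nat_lit 152) (nat_lit 26708746286) (nat_lit 76) (nat_lit 17437382636) (nat_lit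 21) (nat_lit 5) (nat_lit 23) (nat_lit 5) (nat_lit 22) (nat_lit 5) (nat_lit 329) (nat_lit 281) (nat_lit 170)) (XT.nd (nat_lit 78) (nat_lit 152) (nat_lit 0) (XT.lf (nat_lit 0) (nat_lit 14073771224) (nat_lit 152) (nat_lit 7483170938) (nat_lit 76) (nat_lit 30333961406) (nat_lit 21) (nat_lit 5) (nat_lit 23) (nat_lit 5) (nat_lit 22) (nat_lit 5) (nat_lit 330) (nat_lit 281) (nat_lit 169)) (XT.lf (nat_lit 0) (nat_lit 13115078991) (nat_lit 152) (nat_lit 9781762728) (nat_lit 228) (nat_lit 30961952069) (nat_lit 19) (nat_lit 5) (nat_lit 21) (nat_lit 5) (nat_lit 22) (nat_lit 5) (nat_lit 331) (nat_lit 281) (nat_lit 168))))) (XT.nd (nat_lit 156) (nat_lit 304) (nat_lit 0) (XT.nd (nat_lit 78) (nat_lit 0) (nat_lit 0) (XT.lf (nat_lit 0) (nat_lit 32325235670) (nat_lit 228) (nat_lit 20966525770) (nat_lit 76) (nat_lit 2625113342) (nat_lit 19) (nat_lit 5) (nat_lit 22) (nat_lit 5) (nat_lit 20) (nat_lit 4) (nat_lit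 332) (nat_lit 281) (nat_lit 167)) (XT.lf (nat_lit 0) (nat_lit 42380688227) (nat_lit 228) (nat_lit 368864022) (nat_lit 76) (nat_lit 15320530160) (nat_lit 19) (nat_lit 5) (nat_lit 22) (nat_lit 5) (nat_lit 20) (nat_lit 4) (nat_lit 333) (nat_lit 281) (nat_lit 166))) (XT.nd (nat_lit 78) (nat_lit 228) (nat_lit 0) (XT.lf (nat_lit 0) (nat_lit 21953688356) (nat_lit 76) (nat_lit 31323490460) (nat_lit 152) (nat_lit 7036862649) (nat_lit 18) (nat_lit 5) (nat_lit 19) (nat_lit 5) (nat_lit 20) (nat_lit 4) (nat_lit 334) (nat_lit 281) (nat_lit 165)) (XT.nd (nat_lit 78) (nat_lit 152) (nat_lit 0) (XT.lf (nat_lit 0) (nat_lit 1984613747) (nat_lit 152) (nat_lit 17304469733) (nat_lit 76) (nat_lit 43379426100) (nat_lit 17) (nat_lit 5) (nat_lit 19) (nat_lit 5) (nat_lit 18) (nat_lit 5) (nat_lit 335) (nat_lit 281) (nat_lit 164)) (XT.lf (nat_lit 0) (nat_lit 4836331709) (nat_lit 152) (nat_lit 6455596442) (nat_lit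 228) (nat_lit 53839446313) (nat_lit 15) (nat_lit 5) (nat_lit 17) (nat_lit 5) (nat_lit 18) (nat_lit 5) (nat_lit 336) (nat_lit 281) (nat_lit 163))))))) (XT.nd (nat_lit 780) (nat_lit 228) (nat_lit 0) (XT.nd (nat_lit 390) (nat_lit 228) (nat_lit 0) (XT.nd (nat_lit 156) (nat_lit 76) (nat_lit 0) (XT.nd (nat_lit 78) (nat_lit 0) (nat_lit 0) (XT.lf (nat_lit 0) (nat_lit 21467850750) (nat_lit 228) (nat_lit 39139541026) (nat_lit 76) (nat_lit 7089832242) (nat_lit 15) (nat_lit 5) (nat_lit 18) (nat_lit 5) (nat_lit 16) (nat_lit 4) (nat_lit 337) (nat_lit 281) (nat_lit 162)) (XT.lf (nat_lit 0) (nat_lit 32254383281) (nat_lit 228) (nat_lit 17039100721) (nat_lit 76) (nat_lit 21092794741) (nat_lit 15) (nat_lit 5) (nat_lit 18) (nat_lit 5) (nat_lit 16) (nat_lit 4) (nat_lit 338) (nat_lit 281) (nat_lit 161))) (XT.nd (nat_lit 78) (nat_lit 0) (nat_lit 0) (XT.lf (nat_lit 0) (nat_lit 6363355318) (nat_lit 76) (nat_lit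 37312412503) (nat_lit 152) (nat_lit 29529245333) (nat_lit 14) (nat_lit 5) (nat_lit 15) (nat_lit 5) (nat_lit 16) (nat_lit 4) (nat_lit 339) (nat_lit 281) (nat_lit 160)) (XT.nd (nat_lit 78) (nat_lit 0) (nat_lit 0) (XT.lf (nat_lit 0) (nat_lit 31520927506) (nat_lit 76) (nat_lit 24432114679) (nat_lit 152) (nat_lit 20197404139) (nat_lit 14) (nat_lit 5) (nat_lit 15) (nat_lit 5) (nat_lit 16) (nat_lit 4) (nat_lit 340) (nat_lit 281) (nat_lit 159)) (XT.lf (nat_lit 0) (nat_lit 57930125202) (nat_lit 76) (nat_lit 10910488568) (nat_lit 152) (nat_lit 10402718628) (nat_lit 14) (nat_lit 5) (nat_lit 15) (nat_lit 5) (nat_lit 16) (nat_lit 4) (nat_lit 341) (nat_lit 281) (nat_lit 158))))) (XT.nd (nat_lit 156) (nat_lit 76) (nat_lit 0) (XT.nd (nat_lit 78) (nat_lit 76) (nat_lit 0) (XT.lf (nat_lit 0) (nat_lit 3214389854) (nat_lit 76) (nat_lit 79256245802) (nat_lit 76) (nat_lit 15326316) (nat_lit 13) (nat_lit 4)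 (nat_lit 14) (nat_lit 5) (nat_lit 14) (nat_lit 4) (nat_lit 342) (nat_lit 281) (nat_lit 157)) (XT.lf (nat_lit 0) (nat_lit 11085144569) (nat_lit 152) (nat_lit 56525291423) (nat_lit 76) (nat_lit 18244672118) (nat_lit 12) (nat_lit 5) (nat_lit 14) (nat_lit 5) (nat_lit 13) (nat_lit 4) (nat_lit 343) (nat_lit 281) (nat_lit 156))) (XT.nd (nat_lit 78) (nat_lit 76) (nat_lit 0) (XT.lf (nat_lit 0) (nat_lit 22736862761) (nat_lit 152) (nat_lit 32647762755) (nat_lit 76) (nat_lit 34008238940) (nat_lit 12) (nat_lit 5) (nat_lit 14) (nat_lit 5) (nat_lit 13) (nat_lit 4) (nat_lit 344) (nat_lit 281) (nat_lit 155)) (XT.nd (nat_lit 78) (nat_lit 76) (nat_lit 0) (XT.lf (nat_lit 0) (nat_lit 34968060981) (nat_lit 152) (nat_lit 7581895570) (nat_lit 76) (nat_lit 50557709650) (nat_lit 12) (nat_lit 5) (nat_lit 14) (nat_lit 5) (nat_lit 13) (nat_lit 4) (nat_lit 345) (nat_lit 281) (nat_lit 154)) (XT.lf (nat_lit 0) (nat_lit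 19351354979) (nat_lit 76) (nat_lit 28758635035) (nat_lit 152) (nat_lit 48883261654) (nat_lit 11) (nat_lit 5) (nat_lit 12) (nat_lit 5) (nat_lit 13) (nat_lit 4) (nat_lit 346) (nat_lit 281) (nat_lit 153)))))) (XT.nd (nat_lit 390) (nat_lit 76) (nat_lit 0) (XT.nd (nat_lit 156) (nat_lit 152) (nat_lit 0) (XT.nd (nat_lit 78) (nat_lit 0) (nat_lit 0) (XT.lf (nat_lit 0) (nat_lit 47889305213) (nat_lit 76) (nat_lit 14145215213) (nat_lit 152) (nat_lit 39032322812) (nat_lit 11) (nat_lit 5) (nat_lit 12) (nat_lit 5) (nat_lit 13) (nat_lit 4) (nat_lit 347) (nat_lit 281) (nat_lit 152)) (XT.lf (nat_lit 0) (nat_lit 76671200968) (nat_lit 152) (nat_lit 27513727191) (nat_lit 0) (nat_lit 1158392026) (nat_lit 11) (nat_lit 5) (nat_lit 13) (nat_lit 4) (nat_lit 11) (nat_lit 4) (nat_lit 348) (nat_lit 281) (nat_lit 151))) (XT.nd (nat_lit 78) (nat_lit 152) (nat_lit 0) (XT.lf (nat_lit 0) (nat_lit 92268943165) (nat_lit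 152) (nat_lit 803422163) (nat_lit 0) (nat_lit 16749796150) (nat_lit 11) (nat_lit 5) (nat_lit 13) (nat_lit 4) (nat_lit 11) (nat_lit 4) (nat_lit 349) (nat_lit 281) (nat_lit 150)) (XT.nd (nat_lit 78) (nat_lit 76) (nat_lit 0) (XT.lf (nat_lit 0) (nat_lit 28138424792) (nat_lit 76) (nat_lit 80944932926) (nat_lit 76) (nat_lit 5419749650) (nat_lit 10) (nat_lit 4) (nat_lit 11) (nat_lit 5) (nat_lit 11) (nat_lit 4) (nat_lit 350) (nat_lit 281) (nat_lit 149)) (XT.lf (nat_lit 0) (nat_lit 7097397124) (nat_lit 152) (nat_lit 60981267990) (nat_lit 76) (nat_lit 51333157327) (nat_lit 9) (nat_lit 5) (nat_lit 11) (nat_lit 5) (nat_lit 10) (nat_lit 4) (nat_lit 351) (nat_lit 281) (nat_lit 148))))) (XT.nd (nat_lit 156) (nat_lit 76) (nat_lit 0) (XT.nd (nat_lit 78) (nat_lit 0) (nat_lit 0) (XT.lf (nat_lit 0) (nat_lit 20055855973) (nat_lit 152) (nat_lit 34421902415) (nat_lit 76) (nat_lit 70083894316) (nat_lit 9) (nat_lit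 5) (nat_lit 11) (nat_lit 5) (nat_lit 10) (nat_lit 4) (nat_lit 352) (nat_lit 281) (nat_lit 147)) (XT.lf (nat_lit 0) (nat_lit 33659946206) (nat_lit 152) (nat_lit 6538731787) (nat_lit 76) (nat_lit 89770412542) (nat_lit 9) (nat_lit 5) (nat_lit 11) (nat_lit 5) (nat_lit 10) (nat_lit 4) (nat_lit 353) (nat_lit 281) (nat_lit 146))) (XT.nd (nat_lit 78) (nat_lit 0) (nat_lit 0) (XT.lf (nat_lit 0) (nat_lit 23486342014) (nat_lit 76) (nat_lit 24822404117) (nat_lit 152) (nat_lit 87319930271) (nat_lit 8) (nat_lit 5) (nat_lit 9) (nat_lit 5) (nat_lit 10) (nat_lit 4) (nat_lit 354) (nat_lit 281) (nat_lit 145)) (XT.nd (nat_lit 78) (nat_lit 0) (nat_lit 0) (XT.lf (nat_lit 0) (nat_lit 55235778483) (nat_lit 76) (nat_lit 8562804739) (nat_lit 152) (nat_lit 77767229820) (nat_lit 8) (nat_lit 5) (nat_lit 9) (nat_lit 5) (nat_lit 10) (nat_lit 4) (nat_lit 355) (nat_lit 281) (nat_lit 144)) (XT.lf (nat_lit 0) (nat_lit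 80193709865) (nat_lit 152) (nat_lit 59363773391) (nat_lit 0) (nat_lit 8235784650) (nat_lit 8) (nat_lit 5) (nat_lit 10) (nat_lit 4) (nat_lit 8) (nat_lit 4) (nat_lit 356) (nat_lit 281) (nat_lit 143))))))))
noncomputable def xc169 : XT := (XT.nd (nat_lit 1560) (nat_lit 152) (nat_lit 0) (XT.nd (nat_lit 780) (nat_lit 76) (nat_lit 0) (XT.nd (nat_lit 390) (nat_lit 152) (nat_lit 0) (XT.nd (nat_lit 156) (nat_lit 76) (nat_lit 0) (XT.nd (nat_lit 78) (nat_lit 0) (nat_lit 0) (XT.lf (nat_lit 0) (nat_lit 97547001225) (nat_lit 152) (nat_lit 31193184649) (nat_lit 0) (nat_lit 25584990432) (nat_lit 8) (nat_lit 5) (nat_lit 10) (nat_lit 4) (nat_lit 8) (nat_lit 4) (nat_lit 357) (nat_lit 281) (nat_lit 142)) (XT.lf (nat_lit 0) (nat_lit 115766085285) (nat_lit 152) (nat_lit 1617506127) (nat_lit 0) (nat_lit 43800183464) (nat_lit 8) (nat_lit 5) (nat_lit 10) (nat_lit 4) (nat_lit 8) (nat_lit 4) (nat_lit 358) (nat_lit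 281) (nat_lit 141))) (XT.nd (nat_lit 78) (nat_lit 0) (nat_lit 0) (XT.lf (nat_lit 0) (nat_lit 30406890861) (nat_lit 76) (nat_lit 104962186736) (nat_lit 76) (nat_lit 32992579175) (nat_lit 7) (nat_lit 4) (nat_lit 8) (nat_lit 5) (nat_lit 8) (nat_lit 4) (nat_lit 359) (nat_lit 281) (nat_lit 140)) (XT.nd (nat_lit 78) (nat_lit 0) (nat_lit 0) (XT.lf (nat_lit 0) (nat_lit 64085440834) (nat_lit 76) (nat_lit 91892423781) (nat_lit 76) (nat_lit 19919286943) (nat_lit 7) (nat_lit 4) (nat_lit 8) (nat_lit 5) (nat_lit 8) (nat_lit 4) (nat_lit 360) (nat_lit 281) (nat_lit 139)) (XT.lf (nat_lit 0) (nat_lit 99444848757) (nat_lit 76) (nat_lit 78170577312) (nat_lit 76) (nat_lit 6194079259) (nat_lit 7) (nat_lit 4) (nat_lit 8) (nat_lit 5) (nat_lit 8) (nat_lit 4) (nat_lit 361) (nat_lit 281) (nat_lit 138))))) (XT.nd (nat_lit 156) (nat_lit 76) (nat_lit 0) (XT.nd (nat_lit 78) (nat_lit 0) (nat_lit 0) (XT.lf (nat_lit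 0) (nat_lit 7952768501) (nat_lit 152) (nat_lit 55676523782) (nat_lit 76) (nat_lit 128481851212) (nat_lit 6) (nat_lit 5) (nat_lit 8) (nat_lit 5) (nat_lit 7) (nat_lit 4) (nat_lit 362) (nat_lit 281) (nat_lit 137)) (XT.lf (nat_lit 0) (nat_lit 22597261211) (nat_lit 152) (nat_lit 25658362448) (nat_lit 76) (nat_lit 152567240448) (nat_lit 6) (nat_lit 5) (nat_lit 8) (nat_lit 5) (nat_lit 7) (nat_lit 4) (nat_lit 363) (nat_lit 281) (nat_lit 136))) (XT.nd (nat_lit 78) (nat_lit 0) (nat_lit 0) (XT.lf (nat_lit 0) (nat_lit 6051698316) (nat_lit 76) (nat_lit 32015301582) (nat_lit 152) (nat_lit 171898520606) (nat_lit 5) (nat_lit 5) (nat_lit 6) (nat_lit 5) (nat_lit 7) (nat_lit 4) (nat_lit 364) (nat_lit 281) (nat_lit 135)) (XT.nd (nat_lit 78) (nat_lit 0) (nat_lit 0) (XT.lf (nat_lit 0) (nat_lit 40235405313) (nat_lit 76) (nat_lit 14507922525) (nat_lit 152) (nat_lit 164800327550) (nat_lit 5) (nat_lit 5) (nat_lit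 6) (nat_lit 5) (nat_lit 7) (nat_lit 4) (nat_lit 365) (nat_lit 281) (nat_lit 134)) (XT.lf (nat_lit 0) (nat_lit 72312584722) (nat_lit 152) (nat_lit 153535477793) (nat_lit 0) (nat_lit 3749679619) (nat_lit 5) (nat_lit 5) (nat_lit 7) (nat_lit 4) (nat_lit 5) (nat_lit 4) (nat_lit 366) (nat_lit 281) (nat_lit 133)))))) (XT.nd (nat_lit 390) (nat_lit 76) (nat_lit 0) (XT.nd (nat_lit 156) (nat_lit 0) (nat_lit 0) (XT.nd (nat_lit 78) (nat_lit 0) (nat_lit 0) (XT.lf (nat_lit 0) (nat_lit 90996820826) (nat_lit 152) (nat_lit 126714360311) (nat_lit 0) (nat_lit 22431526970) (nat_lit 5) (nat_lit 5) (nat_lit 7) (nat_lit 4) (nat_lit 5) (nat_lit 4) (nat_lit 367) (nat_lit 281) (nat_lit 132)) (XT.lf (nat_lit 0) (nat_lit 110614013099) (nat_lit 152) (nat_lit 98554528499) (nat_lit 0) (nat_lit 42046444240) (nat_lit 5) (nat_lit 5) (nat_lit 7) (nat_lit 4) (nat_lit 5) (nat_lit 4) (nat_lit 368) (nat_lit 281) (nat_lit 131)))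 (XT.nd (nat_lit 78) (nat_lit 0) (nat_lit 0) (XT.lf (nat_lit 0) (nat_lit 131210869142) (nat_lit 152) (nat_lit 68988935136) (nat_lit 0) (nat_lit 62641133613) (nat_lit 5) (nat_lit 5) (nat_lit 7) (nat_lit 4) (nat_lit 5) (nat_lit 4) (nat_lit 369) (nat_lit 281) (nat_lit 130)) (XT.nd (nat_lit 78) (nat_lit 0) (nat_lit 0) (XT.lf (nat_lit 0) (nat_lit 152836429088) (nat_lit 152) (nat_lit 37947185953) (nat_lit 0) (nat_lit 84264630064) (nat_lit 5) (nat_lit 5) (nat_lit 7) (nat_lit 4) (nat_lit 5) (nat_lit 4) (nat_lit 370) (nat_lit 281) (nat_lit 129)) (XT.lf (nat_lit 0) (nat_lit 175542182365) (nat_lit 152) (nat_lit 5355372024) (nat_lit 0) (nat_lit 106968418108) (nat_lit 5) (nat_lit 5) (nat_lit 7) (nat_lit 4) (nat_lit 5) (nat_lit 4) (nat_lit 371) (nat_lit 281) (nat_lit 128))))) (XT.nd (nat_lit 156) (nat_lit 0) (nat_lit 0) (XT.nd (nat_lit 78) (nat_lit 0) (nat_lit 0) (XT.lf (nat_lit 0) (nat_lit 29818483913)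 (nat_lit 76) (nat_lit 170029256476) (nat_lit 76) (nat_lit 101453620569) (nat_lit 4) (nat_lit 4) (nat_lit 5) (nat_lit 5) (nat_lit 5) (nat_lit 4) (nat_lit 372) (nat_lit 281) (nat_lit 127)) (XT.lf (nat_lit 0) (nat_lit 66935063750) (nat_lit 76) (nat_lit 158523194968) (nat_lit 76) (nat_lit 89945776536) (nat_lit 4) (nat_lit 4) (nat_lit 5) (nat_lit 5) (nat_lit 5) (nat_lit 4) (nat_lit 373) (nat_lit 281) (nat_lit 126))) (XT.nd (nat_lit 78) (nat_lit 0) (nat_lit 0) (XT.lf (nat_lit 0) (nat_lit 105905667510) (nat_lit 76) (nat_lit 146442670295) (nat_lit 76) (nat_lit 77863554221) (nat_lit 4) (nat_lit 4) (nat_lit 5) (nat_lit 5) (nat_lit 5) (nat_lit 4) (nat_lit 374) (nat_lit 281) (nat_lit 125)) (XT.nd (nat_lit 78) (nat_lit 0) (nat_lit 0) (XT.lf (nat_lit 0) (nat_lit 146823082345) (nat_lit 76) (nat_lit 133758919305) (nat_lit 76) (nat_lit 65178186428) (nat_lit 4) (nat_lit 4) (nat_lit 5) (nat_lit 5) (nat_lit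 5) (nat_lit 4) (nat_lit 375) (nat_lit 281) (nat_lit 124)) (XT.lf (nat_lit 0) (nat_lit 189784730671) (nat_lit 76) (nat_lit 120441742589) (nat_lit 76) (nat_lit 51859469901) (nat_lit 4) (nat_lit 4) (nat_lit 5) (nat_lit 5) (nat_lit 5) (nat_lit 4) (nat_lit 376) (nat_lit 281) (nat_lit 123))))))) (XT.nd (nat_lit 33306) (nat_lit 0) (nat_lit 5852) (XT.nd (nat_lit 390) (nat_lit 76) (nat_lit 0) (XT.nd (nat_lit 156) (nat_lit 76) (nat_lit 0) (XT.nd (nat_lit 78) (nat_lit 0) (nat_lit 0) (XT.lf (nat_lit 0) (nat_lit 234892902127) (nat_lit 76) (nat_lit 106459432584) (nat_lit 76) (nat_lit 37875693409) (nat_lit 4) (nat_lit 4) (nat_lit 5) (nat_lit 5) (nat_lit 5) (nat_lit 4) (nat_lit 377) (nat_lit 281) (nat_lit 122)) (XT.lf (nat_lit 0) (nat_lit 282254997122) (nat_lit 76) (nat_lit 91778698076) (nat_lit 76) (nat_lit 23193562246) (nat_lit 4) (nat_lit 4) (nat_lit 5) (nat_lit 5) (nat_lit 5) (nat_lit 4) (nat_lit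 378) (nat_lit 281) (nat_lit 121))) (XT.nd (nat_lit 78) (nat_lit 76) (nat_lit 0) (XT.lf (nat_lit 0) (nat_lit 331983782547) (nat_lit 76) (nat_lit 76364584935) (nat_lit 76) (nat_lit 7778118959) (nat_lit 4) (nat_lit 4) (nat_lit 5) (nat_lit 5) (nat_lit 5) (nat_lit 4) (nat_lit 379) (nat_lit 281) (nat_lit 120)) (XT.nd (nat_lit 78) (nat_lit 0) (nat_lit 0) (XT.lf (nat_lit 0) (nat_lit 8138252509) (nat_lit 152) (nat_lit 51904315139) (nat_lit 76) (nat_lit 375921582521) (nat_lit 3) (nat_lit 5) (nat_lit 5) (nat_lit 5) (nat_lit 4) (nat_lit 4) (nat_lit 380) (nat_lit 281) (nat_lit 119)) (XT.lf (nat_lit 0) (nat_lit 24588349239) (nat_lit 152) (nat_lit 18182823325) (nat_lit 76) (nat_lit 414016184228) (nat_lit 3) (nat_lit 5) (nat_lit 5) (nat_lit 5) (nat_lit 4) (nat_lit 4) (nat_lit 381) (nat_lit 281) (nat_lit 118))))) (XT.nd (nat_lit 156) (nat_lit 0) (nat_lit 0) (XT.nd (nat_lit 78) (nat_lit 0) (nat_lit 0)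 (XT.lf (nat_lit 0) (nat_lit 17792985710) (nat_lit 76) (nat_lit 24345099171) (nat_lit 152) (nat_lit 436499782486) (nat_lit 2) (nat_lit 5) (nat_lit 3) (nat_lit 5) (nat_lit 4) (nat_lit 4) (nat_lit 382) (nat_lit 281) (nat_lit 117)) (XT.lf (nat_lit 0) (nat_lit 56197627798) (nat_lit 76) (nat_lit 4674962645) (nat_lit 152) (nat_lit 440692949180) (nat_lit 2) (nat_lit 5) (nat_lit 3) (nat_lit 5) (nat_lit 4) (nat_lit 4) (nat_lit 383) (nat_lit 281) (nat_lit 116))) (XT.nd (nat_lit 78) (nat_lit 0) (nat_lit 0) (XT.lf (nat_lit 0) (nat_lit 80792664028) (nat_lit 152) (nat_lit 429367753995) (nat_lit 0) (nat_lit 15466735629) (nat_lit 2) (nat_lit 5) (nat_lit 4) (nat_lit 4) (nat_lit 2) (nat_lit 4) (nat_lit 384) (nat_lit 281) (nat_lit 115)) (XT.nd (nat_lit 32604) (nat_lit 0) (nat_lit 6232) (XT.lf (nat_lit 0) (nat_lit 101784780742) (nat_lit 152) (nat_lit 412645358914) (nat_lit 0) (nat_lit 36457907033) (nat_lit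 2) (nat_lit 5) (nat_lit 4) (nat_lit 4) (nat_lit 2) (nat_lit 4) (nat_lit 385) (nat_lit 281) (nat_lit 114)) (XT.lf (nat_lit 0) (nat_lit 760871536) (nat_lit 0) (nat_lit 760871536) (nat_lit 684) (nat_lit 4616695368) (nat_lit 84) (nat_lit 5) (nat_lit 84) (nat_lit 3) (nat_lit 93) (nat_lit 3) (nat_lit 282) (nat_lit 282) (nat_lit 216)))))) (XT.nd (nat_lit 390) (nat_lit 380) (nat_lit 0) (XT.nd (nat_lit 156) (nat_lit 0) (nat_lit 76) (XT.nd (nat_lit 78) (nat_lit 0) (nat_lit 0) (XT.lf (nat_lit 0) (nat_lit 3603082876) (nat_lit 684) (nat_lit 5315984213) (nat_lit 760) (nat_lit 3639569443) (nat_lit 84) (nat_lit 5) (nat_lit 93) (nat_lit 3) (nat_lit 94) (nat_lit 5) (nat_lit 283) (nat_lit 282) (nat_lit 215)) (XT.lf (nat_lit 76) (nat_lit 366680765) (nat_lit 0) (nat_lit 3827669534) (nat_lit 760) (nat_lit 8660012489) (nat_lit 85) (nat_lit 5) (nat_lit 84) (nat_lit 5) (nat_lit 94) (nat_lit 5) (nat_lit 284)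 (nat_lit 282) (nat_lit 214))) (XT.nd (nat_lit 78) (nat_lit 0) (nat_lit 0) (XT.lf (nat_lit 0) (nat_lit 4904631647) (nat_lit 684) (nat_lit 6684030136) (nat_lit 760) (nat_lit 1571801204) (nat_lit 85) (nat_lit 5) (nat_lit 94) (nat_lit 5) (nat_lit 95) (nat_lit 5) (nat_lit 285) (nat_lit 282) (nat_lit 213)) (XT.nd (nat_lit 78) (nat_lit 0) (nat_lit 0) (XT.lf (nat_lit 0) (nat_lit 5688643385) (nat_lit 684) (nat_lit 668671394) (nat_lit 760) (nat_lit 7122699897) (nat_lit 85) (nat_lit 5) (nat_lit 94) (nat_lit 5) (nat_lit 95) (nat_lit 5) (nat_lit 286) (nat_lit 282) (nat_lit 212)) (XT.lf (nat_lit 76) (nat_lit 5818712264) (nat_lit 0) (nat_lit 760625698) (nat_lit 760) (nat_lit 7232886440) (nat_lit 86) (nat_lit 5) (nat_lit 85) (nat_lit 5) (nat_lit 95) (nat_lit 5) (nat_lit 287) (nat_lit 282) (nat_lit 211))))) (XT.nd (nat_lit 234) (nat_lit 532) (nat_lit 0) (XT.nd (nat_lit 78) (nat_lit 0) (nat_lit 0) (XT.lf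 (nat_lit 0) (nat_lit 7583589959) (nat_lit 684) (nat_lit 1602891222) (nat_lit 760) (nat_lit 4971164266) (nat_lit 86) (nat_lit 5) (nat_lit 95) (nat_lit 5) (nat_lit 96) (nat_lit 5) (nat_lit 288) (nat_lit 282) (nat_lit 210)) (XT.nd (nat_lit 78) (nat_lit 0) (nat_lit 76) (XT.lf (nat_lit 76) (nat_lit 5247473344) (nat_lit 0) (nat_lit 3463682316) (nat_lit 760) (nat_lit 5805576322) (nat_lit 87) (nat_lit 5) (nat_lit 86) (nat_lit 5) (nat_lit 96) (nat_lit 5) (nat_lit 289) (nat_lit 282) (nat_lit 209)) (XT.lf (nat_lit 0) (nat_lit 9941998337) (nat_lit 684) (nat_lit 2452776714) (nat_lit 760) (nat_lit 2496699995) (nat_lit 87) (nat_lit 5) (nat_lit 96) (nat_lit 5) (nat_lit 97) (nat_lit 5) (nat_lit 290) (nat_lit 282) (nat_lit 208)))) (XT.nd (nat_lit 78) (nat_lit 608) (nat_lit 0) (XT.lf (nat_lit 76) (nat_lit 4785501701) (nat_lit 0) (nat_lit 6560920456) (nat_lit 760) (nat_lit 3932976049) (nat_lit 88) (nat_lit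 5) (nat_lit 87) (nat_lit 5) (nat_lit 97) (nat_lit 5) (nat_lit 291) (nat_lit 282) (nat_lit 207)) (XT.nd (nat_lit 78) (nat_lit 608) (nat_lit 0) (XT.lf (nat_lit 76) (nat_lit 12455685618) (nat_lit 0) (nat_lit 388152569) (nat_lit 760) (nat_lit 2841783539) (nat_lit 88) (nat_lit 5) (nat_lit 87) (nat_lit 5) (nat_lit 97) (nat_lit 5) (nat_lit 292) (nat_lit 282) (nat_lit 206)) (XT.lf (nat_lit 0) (nat_lit 4428396634) (nat_lit 684) (nat_lit 10134180202) (nat_lit 760) (nat_lit 1542297713) (nat_lit 79) (nat_lit 5) (nat_lit 88) (nat_lit 5) (nat_lit 89) (nat_lit 5) (nat_lit 293) (nat_lit 282) (nat_lit 205))))))))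
noncomputable def xc170 : XT := (XT.nd (nat_lit 1560) (nat_lit 1672) (nat_lit 0) (XT.nd (nat_lit 780) (nat_lit 1140) (nat_lit 0) (XT.nd (nat_lit 390) (nat_lit 836) (nat_lit 0) (XT.nd (nat_lit 156) (nat_lit 380) (nat_lit 0) (XT.nd (nat_lit 78) (nat_lit 532) (nat_lit 0) (XT.lf (nat_lit 0) (nat_lit 12560028154) (nat_lit 684) (nat_lit 3850976282) (nat_lit 760) (nat_lit 131936756) (nat_lit 79) (nat_lit 5) (nat_lit 88) (nat_lit 5) (nat_lit 89) (nat_lit 5) (nat_lit 294) (nat_lit 282) (nat_lit 204)) (XT.lf (nat_lit 0) (nat_lit 1398868166) (nat_lit 532) (nat_lit 12850336615) (nat_lit 76) (nat_lit 2748033495) (nat_lit 72) (nat_lit 5) (nat_lit 79) (nat_lit 5) (nat_lit 73) (nat_lit 5) (nat_lit 295) (nat_lit 282) (nat_lit 203))) (XT.nd (nat_lit 78) (nat_lit 380) (nat_lit 0) (XT.lf (nat_lit 0) (nat_lit 3117359087) (nat_lit 532) (nat_lit 4731454940) (nat_lit 76) (nat_lit 9619582559) (nat_lit 72) (nat_lit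 5) (nat_lit 79) (nat_lit 5) (nat_lit 73) (nat_lit 5) (nat_lit 296) (nat_lit 282) (nat_lit 202)) (XT.nd (nat_lit 78) (nat_lit 0) (nat_lit 0) (XT.lf (nat_lit 0) (nat_lit 3903386655) (nat_lit 380) (nat_lit 1063988412) (nat_lit 456) (nat_lit 12993489621) (nat_lit 67) (nat_lit 5) (nat_lit 72) (nat_lit 5) (nat_lit 73) (nat_lit 5) (nat_lit 297) (nat_lit 282) (nat_lit 201)) (XT.lf (nat_lit 0) (nat_lit 7071111458) (nat_lit 456) (nat_lit 5451093679) (nat_lit 76) (nat_lit 5947720463) (nat_lit 67) (nat_lit 5) (nat_lit 73) (nat_lit 5) (nat_lit 68) (nat_lit 5) (nat_lit 298) (nat_lit 282) (nat_lit 200))))) (XT.nd (nat_lit 156) (nat_lit 532) (nat_lit 0) (XT.nd (nat_lit 78) (nat_lit 0) (nat_lit 0) (XT.lf (nat_lit 0) (nat_lit 3670945090) (nat_lit 304) (nat_lit 5669714060) (nat_lit 380) (nat_lit 9660778121) (nat_lit 63) (nat_lit 5) (nat_lit 67) (nat_lit 5) (nat_lit 68) (nat_lit 5) (nat_lit 299) (nat_lit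 282) (nat_lit 199)) (XT.lf (nat_lit 0) (nat_lit 11827633137) (nat_lit 380) (nat_lit 6157080004) (nat_lit 76) (nat_lit 1569641498) (nat_lit 63) (nat_lit 5) (nat_lit 68) (nat_lit 5) (nat_lit 64) (nat_lit 5) (nat_lit 300) (nat_lit 282) (nat_lit 198))) (XT.nd (nat_lit 78) (nat_lit 228) (nat_lit 0) (XT.lf (nat_lit 0) (nat_lit 3478949912) (nat_lit 304) (nat_lit 11094223261) (nat_lit 380) (nat_lit 5555060082) (nat_lit 59) (nat_lit 5) (nat_lit 63) (nat_lit 5) (nat_lit 64) (nat_lit 5) (nat_lit 301) (nat_lit 282) (nat_lit 197)) (XT.nd (nat_lit 78) (nat_lit 228) (nat_lit 0) (XT.lf (nat_lit 0) (nat_lit 13796319525) (nat_lit 304) (nat_lit 3751298025) (nat_lit 380) (nat_lit 3178631883) (nat_lit 59) (nat_lit 5) (nat_lit 63) (nat_lit 5) (nat_lit 64) (nat_lit 5) (nat_lit 302) (nat_lit 282) (nat_lit 196)) (XT.lf (nat_lit 0) (nat_lit 3305224426) (nat_lit 228) (nat_lit 17466904040) (nat_lit 304) (nat_lit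 576994544) (nat_lit 56) (nat_lit 5) (nat_lit 59) (nat_lit 5) (nat_lit 60) (nat_lit 5) (nat_lit 303) (nat_lit 282) (nat_lit 195)))))) (XT.nd (nat_lit 390) (nat_lit 532) (nat_lit 0) (XT.nd (nat_lit 156) (nat_lit 228) (nat_lit 0) (XT.nd (nat_lit 78) (nat_lit 304) (nat_lit 0) (XT.lf (nat_lit 0) (nat_lit 2254618736) (nat_lit 304) (nat_lit 7815940839) (nat_lit 76) (nat_lit 11922477285) (nat_lit 55) (nat_lit 5) (nat_lit 59) (nat_lit 5) (nat_lit 56) (nat_lit 5) (nat_lit 304) (nat_lit 282) (nat_lit 194)) (XT.lf (nat_lit 0) (nat_lit 2996200901) (nat_lit 304) (nat_lit 2247644219) (nat_lit 380) (nat_lit 17423077740) (nat_lit 51) (nat_lit 5) (nat_lit 55) (nat_lit 5) (nat_lit 56) (nat_lit 5) (nat_lit 305) (nat_lit 282) (nat_lit 193))) (XT.nd (nat_lit 78) (nat_lit 228) (nat_lit 0) (XT.lf (nat_lit 0) (nat_lit 8599159610) (nat_lit 380) (nat_lit 8856870867) (nat_lit 76) (nat_lit 5907660929) (nat_lit 51)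 (nat_lit 5) (nat_lit 56) (nat_lit 5) (nat_lit 52) (nat_lit 5) (nat_lit 306) (nat_lit 282) (nat_lit 192)) (XT.nd (nat_lit 78) (nat_lit 0) (nat_lit 0) (XT.lf (nat_lit 0) (nat_lit 2528452267) (nat_lit 228) (nat_lit 9659574800) (nat_lit 304) (nat_lit 11904000604) (nat_lit 48) (nat_lit 5) (nat_lit 51) (nat_lit 5) (nat_lit 52) (nat_lit 5) (nat_lit 307) (nat_lit 282) (nat_lit 191)) (XT.lf (nat_lit 0) (nat_lit 14777446486) (nat_lit 228) (nat_lit 1318648587) (nat_lit 304) (nat_lit 8753715582) (nat_lit 48) (nat_lit 5) (nat_lit 51) (nat_lit 5) (nat_lit 52) (nat_lit 5) (nat_lit 308) (nat_lit 282) (nat_lit 190))))) (XT.nd (nat_lit 156) (nat_lit 304) (nat_lit 0) (XT.nd (nat_lit 78) (nat_lit 0) (nat_lit 0) (XT.lf (nat_lit 0) (nat_lit 1925977624) (nat_lit 228) (nat_lit 18410014437) (nat_lit 304) (nat_lit 5302686367) (nat_lit 45) (nat_lit 5) (nat_lit 48) (nat_lit 5) (nat_lit 49) (nat_lit 5) (nat_lit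 309) (nat_lit 282) (nat_lit 189)) (XT.lf (nat_lit 0) (nat_lit 14838878140) (nat_lit 228) (nat_lit 10131329423) (nat_lit 304) (nat_lit 1487681958) (nat_lit 45) (nat_lit 5) (nat_lit 48) (nat_lit 5) (nat_lit 49) (nat_lit 5) (nat_lit 310) (nat_lit 282) (nat_lit 188))) (XT.nd (nat_lit 78) (nat_lit 0) (nat_lit 0) (XT.lf (nat_lit 0) (nat_lit 1061595424) (nat_lit 228) (nat_lit 1383222464) (nat_lit 304) (nat_lit 24870925224) (nat_lit 41) (nat_lit 5) (nat_lit 44) (nat_lit 5) (nat_lit 45) (nat_lit 5) (nat_lit 311) (nat_lit 282) (nat_lit 187)) (XT.nd (nat_lit 78) (nat_lit 0) (nat_lit 0) (XT.lf (nat_lit 0) (nat_lit 6836724817) (nat_lit 304) (nat_lit 13589104630) (nat_lit 76) (nat_lit 7773815546) (nat_lit 41) (nat_lit 5) (nat_lit 45) (nat_lit 5) (nat_lit 42) (nat_lit 5) (nat_lit 312) (nat_lit 282) (nat_lit 186)) (XT.lf (nat_lit 0) (nat_lit 11462296176) (nat_lit 304) (nat_lit 325525864) (nat_lit 76)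 (nat_lit 17339229730) (nat_lit 41) (nat_lit 5) (nat_lit 45) (nat_lit 5) (nat_lit 42) (nat_lit 5) (nat_lit 313) (nat_lit 282) (nat_lit 185))))))) (XT.nd (nat_lit 780) (nat_lit 684) (nat_lit 0) (XT.nd (nat_lit 390) (nat_lit 304) (nat_lit 0) (XT.nd (nat_lit 156) (nat_lit 456) (nat_lit 0) (XT.nd (nat_lit 78) (nat_lit 0) (nat_lit 0) (XT.lf (nat_lit 0) (nat_lit 14039103526) (nat_lit 228) (nat_lit 2491035475) (nat_lit 304) (nat_lit 13560152865) (nat_lit 38) (nat_lit 5) (nat_lit 41) (nat_lit 5) (nat_lit 42) (nat_lit 5) (nat_lit 314) (nat_lit 282) (nat_lit 184)) (XT.lf (nat_lit 0) (nat_lit 21962457384) (nat_lit 304) (nat_lit 2093399066) (nat_lit 76) (nat_lit 7040295370) (nat_lit 38) (nat_lit 5) (nat_lit 42) (nat_lit 5) (nat_lit 39) (nat_lit 5) (nat_lit 315) (nat_lit 282) (nat_lit 183))) (XT.nd (nat_lit 78) (nat_lit 304) (nat_lit 0) (XT.lf (nat_lit 0) (nat_lit 12924004267) (nat_lit 152) (nat_lit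 14977352381) (nat_lit 228) (nat_lit 4239211329) (nat_lit 36) (nat_lit 5) (nat_lit 38) (nat_lit 5) (nat_lit 39) (nat_lit 5) (nat_lit 316) (nat_lit 282) (nat_lit 182)) (XT.nd (nat_lit 78) (nat_lit 228) (nat_lit 0) (XT.lf (nat_lit 0) (nat_lit 899633984) (nat_lit 228) (nat_lit 4496279232) (nat_lit 76) (nat_lit 27839177360) (nat_lit 35) (nat_lit 5) (nat_lit 38) (nat_lit 5) (nat_lit 36) (nat_lit 5) (nat_lit 317) (nat_lit 282) (nat_lit 181)) (XT.lf (nat_lit 0) (nat_lit 6397999605) (nat_lit 304) (nat_lit 23209627875) (nat_lit 76) (nat_lit 4760994788) (nat_lit 32) (nat_lit 5) (nat_lit 36) (nat_lit 5) (nat_lit 33) (nat_lit 5) (nat_lit 318) (nat_lit 282) (nat_lit 180))))) (XT.nd (nat_lit 156) (nat_lit 152) (nat_lit 0) (XT.nd (nat_lit 78) (nat_lit 152) (nat_lit 0) (XT.lf (nat_lit 0) (nat_lit 12330034588) (nat_lit 304) (nat_lit 7902371840) (nat_lit 76) (nat_lit 15318495985) (nat_lit 32) (nat_lit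 5) (nat_lit 36) (nat_lit 5) (nat_lit 33) (nat_lit 5) (nat_lit 319) (nat_lit 282) (nat_lit 179)) (XT.lf (nat_lit 0) (nat_lit 8429790960) (nat_lit 152) (nat_lit 10253729705) (nat_lit 228) (nat_lit 18102542404) (nat_lit 30) (nat_lit 5) (nat_lit 32) (nat_lit 5) (nat_lit 33) (nat_lit 5) (nat_lit 320) (nat_lit 282) (nat_lit 178))) (XT.nd (nat_lit 78) (nat_lit 152) (nat_lit 0) (XT.lf (nat_lit 0) (nat_lit 25487547393) (nat_lit 228) (nat_lit 12239445536) (nat_lit 76) (nat_lit 349354058) (nat_lit 30) (nat_lit 5) (nat_lit 33) (nat_lit 5) (nat_lit 31) (nat_lit 5) (nat_lit 321) (nat_lit 282) (nat_lit 177)) (XT.nd (nat_lit 78) (nat_lit 0) (nat_lit 0) (XT.lf (nat_lit 0) (nat_lit 4654206039) (nat_lit 152) (nat_lit 28211991884) (nat_lit 228) (nat_lit 6553234193) (nat_lit 28) (nat_lit 5) (nat_lit 30) (nat_lit 5) (nat_lit 31) (nat_lit 5) (nat_lit 322) (nat_lit 282) (nat_lit 176)) (XT.lf (nat_lit 0) (nat_lit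 22807739503) (nat_lit 152) (nat_lit 18007135634) (nat_lit 228) (nat_lit 4749407) (nat_lit 28) (nat_lit 5) (nat_lit 30) (nat_lit 5) (nat_lit 31) (nat_lit 5) (nat_lit 323) (nat_lit 282) (nat_lit 175)))))) (XT.nd (nat_lit 390) (nat_lit 304) (nat_lit 0) (XT.nd (nat_lit 156) (nat_lit 152) (nat_lit 0) (XT.nd (nat_lit 78) (nat_lit 152) (nat_lit 0) (XT.lf (nat_lit 0) (nat_lit 6645243692) (nat_lit 228) (nat_lit 537623726) (nat_lit 76) (nat_lit 35101902099) (nat_lit 27) (nat_lit 5) (nat_lit 30) (nat_lit 5) (nat_lit 28) (nat_lit 5) (nat_lit 324) (nat_lit 282) (nat_lit 174)) (XT.lf (nat_lit 0) (nat_lit 13978942268) (nat_lit 228) (nat_lit 25489218158) (nat_lit 76) (nat_lit 4337445842) (nat_lit 25) (nat_lit 5) (nat_lit 28) (nat_lit 5) (nat_lit 26) (nat_lit 5) (nat_lit 325) (nat_lit 282) (nat_lit 173))) (XT.nd (nat_lit 78) (nat_lit 152) (nat_lit 0) (XT.lf (nat_lit 0) (nat_lit 21800703441) (nat_lit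 228) (nat_lit 7397271325) (nat_lit 76) (nat_lit 16198447584) (nat_lit 25) (nat_lit 5) (nat_lit 28) (nat_lit 5) (nat_lit 26) (nat_lit 5) (nat_lit 326) (nat_lit 282) (nat_lit 172)) (XT.nd (nat_lit 78) (nat_lit 0) (nat_lit 0) (XT.lf (nat_lit 0) (nat_lit 11973837916) (nat_lit 152) (nat_lit 18221299508) (nat_lit 228) (nat_lit 16862568650) (nat_lit 23) (nat_lit 5) (nat_lit 25) (nat_lit 5) (nat_lit 26) (nat_lit 5) (nat_lit 327) (nat_lit 282) (nat_lit 171)) (XT.lf (nat_lit 0) (nat_lit 32561786533) (nat_lit 152) (nat_lit 6567544565) (nat_lit 228) (nat_lit 9666726767) (nat_lit 23) (nat_lit 5) (nat_lit 25) (nat_lit 5) (nat_lit 26) (nat_lit 5) (nat_lit 328) (nat_lit 282) (nat_lit 170))))) (XT.nd (nat_lit 156) (nat_lit 152) (nat_lit 0) (XT.nd (nat_lit 78) (nat_lit 76) (nat_lit 0) (XT.lf (nat_lit 0) (nat_lit 3575400801) (nat_lit 76) (nat_lit 45074125156) (nat_lit 152) (nat_lit 1964842224) (nat_lit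 22) (nat_lit 5) (nat_lit 23) (nat_lit 5) (nat_lit 24) (nat_lit 4) (nat_lit 329) (nat_lit 282) (nat_lit 169)) (XT.lf (nat_lit 0) (nat_lit 6308285146) (nat_lit 152) (nat_lit 27786797592) (nat_lit 76) (nat_lit 18404632326) (nat_lit 21) (nat_lit 5) (nat_lit 23) (nat_lit 5) (nat_lit 22) (nat_lit 5) (nat_lit 330) (nat_lit 282) (nat_lit 168))) (XT.nd (nat_lit 78) (nat_lit 152) (nat_lit 0) (XT.lf (nat_lit 0) (nat_lit 14924264124) (nat_lit 152) (nat_lit 7612199954) (nat_lit 76) (nat_lit 31941498103) (nat_lit 21) (nat_lit 5) (nat_lit 23) (nat_lit 5) (nat_lit 22) (nat_lit 5) (nat_lit 331) (nat_lit 282) (nat_lit 167)) (XT.nd (nat_lit 78) (nat_lit 0) (nat_lit 0) (XT.lf (nat_lit 0) (nat_lit 14012008770) (nat_lit 152) (nat_lit 10173254121) (nat_lit 228) (nat_lit 32359152252) (nat_lit 19) (nat_lit 5) (nat_lit 21) (nat_lit 5) (nat_lit 22) (nat_lit 5) (nat_lit 332) (nat_lit 282) (nat_lit 166)) (XT.lf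 (nat_lit 0) (nat_lit 34079690639) (nat_lit 228) (nat_lit 21779642148) (nat_lit 76) (nat_lit 2846343330) (nat_lit 19) (nat_lit 5) (nat_lit 22) (nat_lit 5) (nat_lit 20) (nat_lit 4) (nat_lit 333) (nat_lit 282) (nat_lit 165))))))))
noncomputable def xc171 : XT := (XT.nd (nat_lit 1560) (nat_lit 380) (nat_lit 0) (XT.nd (nat_lit 780) (nat_lit 228) (nat_lit 0) (XT.nd (nat_lit 390) (nat_lit 228) (nat_lit 0) (XT.nd (nat_lit 156) (nat_lit 228) (nat_lit 0) (XT.nd (nat_lit 78) (nat_lit 76) (nat_lit 0) (XT.lf (nat_lit 0) (nat_lit 44631335197) (nat_lit 228) (nat_lit 163297785) (nat_lit 76) (nat_lit 16172246498) (nat_lit 19) (nat_lit 5) (nat_lit 22) (nat_lit 5) (nat_lit 20) (nat_lit 4) (nat_lit 334) (nat_lit 282) (nat_lit 164)) (XT.lf (nat_lit 0) (nat_lit 23271769156) (nat_lit 76) (nat_lit 32798054900) (nat_lit 152) (nat_lit 7253359766) (nat_lit 18) (nat_lit 5) (nat_lit 19) (nat_lit 5) (nat_lit 20)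 (nat_lit 4) (nat_lit 335) (nat_lit 282) (nat_lit 163))) (XT.nd (nat_lit 78) (nat_lit 152) (nat_lit 0) (XT.lf (nat_lit 0) (nat_lit 2208619766) (nat_lit 152) (nat_lit 17955557060) (nat_lit 76) (nat_lit 45631410261) (nat_lit 17) (nat_lit 5) (nat_lit 19) (nat_lit 5) (nat_lit 18) (nat_lit 5) (nat_lit 336) (nat_lit 282) (nat_lit 162)) (XT.nd (nat_lit 78) (nat_lit 0) (nat_lit 0) (XT.lf (nat_lit 0) (nat_lit 5288830645) (nat_lit 152) (nat_lit 6689816904) (nat_lit 228) (nat_lit 56403085482) (nat_lit 15) (nat_lit 5) (nat_lit 17) (nat_lit 5) (nat_lit 18) (nat_lit 5) (nat_lit 337) (nat_lit 282) (nat_lit 161)) (XT.lf (nat_lit 0) (nat_lit 22658867717) (nat_lit 228) (nat_lit 40891270603) (nat_lit 76) (nat_lit 7525966625) (nat_lit 15) (nat_lit 5) (nat_lit 18) (nat_lit 5) (nat_lit 16) (nat_lit 4) (nat_lit 338) (nat_lit 282) (nat_lit 160))))) (XT.nd (nat_lit 156) (nat_lit 152) (nat_lit 0) (XT.nd (nat_lit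 78) (nat_lit 76) (nat_lit 0) (XT.lf (nat_lit 0) (nat_lit 33979125711) (nat_lit 228) (nat_lit 17695581971) (nat_lit 76) (nat_lit 22225189497) (nat_lit 15) (nat_lit 5) (nat_lit 18) (nat_lit 5) (nat_lit 16) (nat_lit 4) (nat_lit 339) (nat_lit 282) (nat_lit 159)) (XT.lf (nat_lit 0) (nat_lit 6873844067) (nat_lit 76) (nat_lit 39095403640) (nat_lit 152) (nat_lit 30890441685) (nat_lit 14) (nat_lit 5) (nat_lit 15) (nat_lit 5) (nat_lit 16) (nat_lit 4) (nat_lit 340) (nat_lit 282) (nat_lit 158))) (XT.nd (nat_lit 78) (nat_lit 152) (nat_lit 0) (XT.lf (nat_lit 0) (nat_lit 33280136722) (nat_lit 76) (nat_lit 25575025662) (nat_lit 152) (nat_lit 21097497285) (nat_lit 14) (nat_lit 5) (nat_lit 15) (nat_lit 5) (nat_lit 16) (nat_lit 4) (nat_lit 341) (nat_lit 282) (nat_lit 157)) (XT.nd (nat_lit 78) (nat_lit 152) (nat_lit 0) (XT.lf (nat_lit 0) (nat_lit 61001072262) (nat_lit 76) (nat_lit 11381065614) (nat_lit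 152) (nat_lit 10818304978) (nat_lit 14) (nat_lit 5) (nat_lit 15) (nat_lit 5) (nat_lit 16) (nat_lit 4) (nat_lit 342) (nat_lit 282) (nat_lit 156)) (XT.lf (nat_lit 0) (nat_lit 84723436) (nat_lit 152) (nat_lit 83056058567) (nat_lit 76) (nat_lit 3464401664) (nat_lit 12) (nat_lit 5) (nat_lit 14) (nat_lit 5) (nat_lit 13) (nat_lit 4) (nat_lit 343) (nat_lit 282) (nat_lit 155)))))) (XT.nd (nat_lit 390) (nat_lit 152) (nat_lit 0) (XT.nd (nat_lit 156) (nat_lit 76) (nat_lit 0) (XT.nd (nat_lit 78) (nat_lit 0) (nat_lit 0) (XT.lf (nat_lit 0) (nat_lit 11734926564) (nat_lit 152) (nat_lit 59181231321) (nat_lit 76) (nat_lit 19226858997) (nat_lit 12) (nat_lit 5) (nat_lit 14) (nat_lit 5) (nat_lit 13) (nat_lit 4) (nat_lit 344) (nat_lit 282) (nat_lit 154)) (XT.lf (nat_lit 0) (nat_lit 23964681866) (nat_lit 152) (nat_lit 34117936919) (nat_lit 76) (nat_lit 35775273051) (nat_lit 12) (nat_lit 5) (nat_lit 14) (nat_lit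 5) (nat_lit 13) (nat_lit 4) (nat_lit 345) (nat_lit 282) (nat_lit 153))) (XT.nd (nat_lit 78) (nat_lit 76) (nat_lit 0) (XT.lf (nat_lit 0) (nat_lit 36803107809) (nat_lit 152) (nat_lit 7806500849) (nat_lit 76) (nat_lit 53149044813) (nat_lit 12) (nat_lit 5) (nat_lit 14) (nat_lit 5) (nat_lit 13) (nat_lit 4) (nat_lit 346) (nat_lit 282) (nat_lit 152)) (XT.nd (nat_lit 78) (nat_lit 0) (nat_lit 0) (XT.lf (nat_lit 0) (nat_lit 20470920462) (nat_lit 76) (nat_lit 30129460048) (nat_lit 152) (nat_lit 51238228382) (nat_lit 11) (nat_lit 5) (nat_lit 12) (nat_lit 5) (nat_lit 13) (nat_lit 4) (nat_lit 347) (nat_lit 282) (nat_lit 151)) (XT.lf (nat_lit 0) (nat_lit 50428530220) (nat_lit 76) (nat_lit 14788564795) (nat_lit 152) (nat_lit 40898990042) (nat_lit 11) (nat_lit 5) (nat_lit 12) (nat_lit 5) (nat_lit 13) (nat_lit 4) (nat_lit 348) (nat_lit 282) (nat_lit 150))))) (XT.nd (nat_lit 156) (nat_lit 152) (nat_lit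 0) (XT.nd (nat_lit 78) (nat_lit 0) (nat_lit 0) (XT.lf (nat_lit 0) (nat_lit 80582709968) (nat_lit 152) (nat_lit 28748592353) (nat_lit 0) (nat_lit 1275231268) (nat_lit 11) (nat_lit 5) (nat_lit 13) (nat_lit 4) (nat_lit 11) (nat_lit 4) (nat_lit 349) (nat_lit 282) (nat_lit 149)) (XT.lf (nat_lit 0) (nat_lit 96956627421) (nat_lit 152) (nat_lit 709477846) (nat_lit 0) (nat_lit 17643399901) (nat_lit 11) (nat_lit 5) (nat_lit 13) (nat_lit 4) (nat_lit 11) (nat_lit 4) (nat_lit 350) (nat_lit 282) (nat_lit 148))) (XT.nd (nat_lit 78) (nat_lit 76) (nat_lit 0) (XT.lf (nat_lit 0) (nat_lit 29677298306) (nat_lit 76) (nat_lit 84932989441) (nat_lit 76) (nat_lit 5614286855) (nat_lit 10) (nat_lit 4) (nat_lit 11) (nat_lit 5) (nat_lit 11) (nat_lit 4) (nat_lit 351) (nat_lit 282) (nat_lit 147)) (XT.nd (nat_lit 78) (nat_lit 0) (nat_lit 0) (XT.lf (nat_lit 0) (nat_lit 7522746401) (nat_lit 152) (nat_lit 63902286811)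 (nat_lit 76) (nat_lit 53953811002) (nat_lit 9) (nat_lit 5) (nat_lit 11) (nat_lit 5) (nat_lit 10) (nat_lit 4) (nat_lit 352) (nat_lit 282) (nat_lit 146)) (XT.lf (nat_lit 0) (nat_lit 21125772030) (nat_lit 152) (nat_lit 36021050318) (nat_lit 76) (nat_lit 73639513611) (nat_lit 9) (nat_lit 5) (nat_lit 11) (nat_lit 5) (nat_lit 10) (nat_lit 4) (nat_lit 353) (nat_lit 282) (nat_lit 145))))))) (XT.nd (nat_lit 780) (nat_lit 152) (nat_lit 0) (XT.nd (nat_lit 390) (nat_lit 152) (nat_lit 0) (XT.nd (nat_lit 156) (nat_lit 0) (nat_lit 0) (XT.nd (nat_lit 78) (nat_lit 76) (nat_lit 0) (XT.lf (nat_lit 0) (nat_lit 35406870429) (nat_lit 152) (nat_lit 6749528169) (nat_lit 76) (nat_lit 94307908959) (nat_lit 9) (nat_lit 5) (nat_lit 11) (nat_lit 5) (nat_lit 10) (nat_lit 4) (nat_lit 354) (nat_lit 282) (nat_lit 144)) (XT.lf (nat_lit 0) (nat_lit 24774926093) (nat_lit 76) (nat_lit 26011924146) (nat_lit 152) (nat_lit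 91620087443) (nat_lit 8) (nat_lit 5) (nat_lit 9) (nat_lit 5) (nat_lit 10) (nat_lit 4) (nat_lit 355) (nat_lit 282) (nat_lit 143))) (XT.nd (nat_lit 78) (nat_lit 0) (nat_lit 0) (XT.lf (nat_lit 0) (nat_lit 58106393101) (nat_lit 76) (nat_lit 8941801951) (nat_lit 152) (nat_lit 81592887177) (nat_lit 8) (nat_lit 5) (nat_lit 9) (nat_lit 5) (nat_lit 10) (nat_lit 4) (nat_lit 356) (nat_lit 282) (nat_lit 142)) (XT.nd (nat_lit 78) (nat_lit 0) (nat_lit 0) (XT.lf (nat_lit 0) (nat_lit 84260966718) (nat_lit 152) (nat_lit 62226171680) (nat_lit 0) (nat_lit 8692878779) (nat_lit 8) (nat_lit 5) (nat_lit 10) (nat_lit 4) (nat_lit 8) (nat_lit 4) (nat_lit 357) (nat_lit 282) (nat_lit 141)) (XT.lf (nat_lit 0) (nat_lit 102479181153) (nat_lit 152) (nat_lit 32652091139) (nat_lit 0) (nat_lit 26907387474) (nat_lit 8) (nat_lit 5) (nat_lit 10) (nat_lit 4) (nat_lit 8) (nat_lit 4) (nat_lit 358) (nat_lit 282) (nat_lit 140)))))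 (XT.nd (nat_lit 156) (nat_lit 76) (nat_lit 0) (XT.nd (nat_lit 78) (nat_lit 76) (nat_lit 0) (XT.lf (nat_lit 0) (nat_lit 121606608470) (nat_lit 152) (nat_lit 1602426440) (nat_lit 0) (nat_lit 46031285514) (nat_lit 8) (nat_lit 5) (nat_lit 10) (nat_lit 4) (nat_lit 8) (nat_lit 4) (nat_lit 359) (nat_lit 282) (nat_lit 139)) (XT.lf (nat_lit 0) (nat_lit 32021642736) (nat_lit 76) (nat_lit 110167095009) (nat_lit 76) (nat_lit 34588410838) (nat_lit 7) (nat_lit 4) (nat_lit 8) (nat_lit 5) (nat_lit 8) (nat_lit 4) (nat_lit 360) (nat_lit 282) (nat_lit 138))) (XT.nd (nat_lit 78) (nat_lit 76) (nat_lit 0) (XT.lf (nat_lit 0) (nat_lit 67379624620) (nat_lit 76) (nat_lit 96445901100) (nat_lit 76) (nat_lit 20864015771) (nat_lit 7) (nat_lit 4) (nat_lit 8) (nat_lit 5) (nat_lit 8) (nat_lit 4) (nat_lit 361) (nat_lit 282) (nat_lit 137)) (XT.nd (nat_lit 78) (nat_lit 76) (nat_lit 0) (XT.lf (nat_lit 0) (nat_lit 104502721428)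 (nat_lit 76) (nat_lit 82039921539) (nat_lit 76) (nat_lit 6454987489) (nat_lit 7) (nat_lit 4) (nat_lit 8) (nat_lit 5) (nat_lit 8) (nat_lit 4) (nat_lit 362) (nat_lit 282) (nat_lit 136)) (XT.lf (nat_lit 0) (nat_lit 8395391655) (nat_lit 152) (nat_lit 58377284701) (nat_lit 76) (nat_lit 134941749809) (nat_lit 6) (nat_lit 5) (nat_lit 8) (nat_lit 5) (nat_lit 7) (nat_lit 4) (nat_lit 363) (nat_lit 282) (nat_lit 135)))))) (XT.nd (nat_lit 390) (nat_lit 76) (nat_lit 0) (XT.nd (nat_lit 156) (nat_lit 0) (nat_lit 0) (XT.nd (nat_lit 78) (nat_lit 76) (nat_lit 0) (XT.lf (nat_lit 0) (nat_lit 23769966870) (nat_lit 152) (nat_lit 26862170790) (nat_lit 76) (nat_lit 160229703457) (nat_lit 6) (nat_lit 5) (nat_lit 8) (nat_lit 5) (nat_lit 7) (nat_lit 4) (nat_lit 364) (nat_lit 282) (nat_lit 134)) (XT.lf (nat_lit 0) (nat_lit 6432117048) (nat_lit 76) (nat_lit 33580250524) (nat_lit 152) (nat_lit 180449305154) (nat_lit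 5) (nat_lit 5) (nat_lit 6) (nat_lit 5) (nat_lit 7) (nat_lit 4) (nat_lit 365) (nat_lit 282) (nat_lit 133))) (XT.nd (nat_lit 78) (nat_lit 0) (nat_lit 0) (XT.lf (nat_lit 0) (nat_lit 42321303023) (nat_lit 76) (nat_lit 15199208045) (nat_lit 152) (nat_lit 172998304421) (nat_lit 5) (nat_lit 5) (nat_lit 6) (nat_lit 5) (nat_lit 7) (nat_lit 4) (nat_lit 366) (nat_lit 282) (nat_lit 132)) (XT.nd (nat_lit 78) (nat_lit 0) (nat_lit 0) (XT.lf (nat_lit 0) (nat_lit 75966832433) (nat_lit 152) (nat_lit 161140234967) (nat_lit 0) (nat_lit 3968610128) (nat_lit 5) (nat_lit 5) (nat_lit 7) (nat_lit 4) (nat_lit 5) (nat_lit 4) (nat_lit 367) (nat_lit 282) (nat_lit 131)) (XT.lf (nat_lit 0) (nat_lit 95583441368) (nat_lit 152) (nat_lit 132981490979) (nat_lit 0) (nat_lit 23583052393) (nat_lit 5) (nat_lit 5) (nat_lit 7) (nat_lit 4) (nat_lit 5) (nat_lit 4) (nat_lit 368) (nat_lit 282) (nat_lit 130))))) (XT.nd (nat_lit 234)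 (nat_lit 76) (nat_lit 0) (XT.nd (nat_lit 78) (nat_lit 0) (nat_lit 0) (XT.lf (nat_lit 0) (nat_lit 116179741850) (nat_lit 152) (nat_lit 103416933639) (nat_lit 0) (nat_lit 44177289381) (nat_lit 5) (nat_lit 5) (nat_lit 7) (nat_lit 4) (nat_lit 5) (nat_lit 4) (nat_lit 369) (nat_lit 282) (nat_lit 129)) (XT.nd (nat_lit 78) (nat_lit 0) (nat_lit 0) (XT.lf (nat_lit 0) (nat_lit 137804772690) (nat_lit 152) (nat_lit 72376171146) (nat_lit 0) (nat_lit 65800354988) (nat_lit 5) (nat_lit 5) (nat_lit 7) (nat_lit 4) (nat_lit 5) (nat_lit 4) (nat_lit 370) (nat_lit 282) (nat_lit 128)) (XT.lf (nat_lit 0) (nat_lit 160510022057) (nat_lit 152) (nat_lit 39785296920) (nat_lit 0) (nat_lit 88503732704) (nat_lit 5) (nat_lit 5) (nat_lit 7) (nat_lit 4) (nat_lit 5) (nat_lit 4) (nat_lit 371) (nat_lit 282) (nat_lit 127)))) (XT.nd (nat_lit 78) (nat_lit 76) (nat_lit 0) (XT.lf (nat_lit 0) (nat_lit 184349550069) (nat_lit 152)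 (nat_lit 5566713644) (nat_lit 0) (nat_lit 112341478191) (nat_lit 5) (nat_lit 5) (nat_lit 7) (nat_lit 4) (nat_lit 5) (nat_lit 4) (nat_lit 372) (nat_lit 282) (nat_lit 126)) (XT.nd (nat_lit 78) (nat_lit 0) (nat_lit 0) (XT.lf (nat_lit 0) (nat_lit 31364924978) (nat_lit 76) (nat_lit 178504886907) (nat_lit 76) (nat_lit 106495117386) (nat_lit 4) (nat_lit 4) (nat_lit 5) (nat_lit 5) (nat_lit 5) (nat_lit 4) (nat_lit 373) (nat_lit 282) (nat_lit 125)) (XT.lf (nat_lit 0) (nat_lit 70334690146) (nat_lit 76) (nat_lit 166424752437) (nat_lit 76) (nat_lit 94413366114) (nat_lit 4) (nat_lit 4) (nat_lit 5) (nat_lit 5) (nat_lit 5) (nat_lit 4) (nat_lit 374) (nat_lit 282) (nat_lit 124))))))))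
noncomputable def xc172 : XT := (XT.nd (nat_lit 34242) (nat_lit 0) (nat_lit 2964) (XT.nd (nat_lit 33462) (nat_lit 0) (nat_lit 6232) (XT.nd (nat_lit 390) (nat_lit 152) (nat_lit 0) (XT.nd (nat_lit 156) (nat_lit 0) (nat_lit 0) (XT.nd (nat_lit 78) (nat_lit 0) (nat_lit 0) (XT.lf (nat_lit 0) (nat_lit 111251306322) (nat_lit 76) (nat_lit 153741373068) (nat_lit 76) (nat_lit 81728446934) (nat_lit 4) (nat_lit 4) (nat_lit 5) (nat_lit 5) (nat_lit 5) (nat_lit 4) (nat_lit 375) (nat_lit 282) (nat_lit 123)) (XT.lf (nat_lit 0) (nat_lit 154212194021) (nat_lit 76) (nat_lit 140424550277) (nat_lit 76) (nat_lit 68410157656) (nat_lit 4) (nat_lit 4) (nat_lit 5) (nat_lit 5) (nat_lit 5) (nat_lit 4) (nat_lit 376) (nat_lit 282) (nat_lit 122))) (XT.nd (nat_lit 78) (nat_lit 0) (nat_lit 0) (XT.lf (nat_lit 0) (nat_lit 199319641070) (nat_lit 76) (nat_lit 126442577344) (nat_lit 76) (nat_lit 54426788068) (nat_lit 4) (nat_lit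 4) (nat_lit 5) (nat_lit 5) (nat_lit 5) (nat_lit 4) (nat_lit 377) (nat_lit 282) (nat_lit 121)) (XT.nd (nat_lit 78) (nat_lit 0) (nat_lit 0) (XT.lf (nat_lit 0) (nat_lit 246681046153) (nat_lit 76) (nat_lit 111762163857) (nat_lit 76) (nat_lit 39745044434) (nat_lit 4) (nat_lit 4) (nat_lit 5) (nat_lit 5) (nat_lit 5) (nat_lit 4) (nat_lit 378) (nat_lit 282) (nat_lit 120)) (XT.lf (nat_lit 0) (nat_lit 296409174520) (nat_lit 76) (nat_lit 96348356450) (nat_lit 76) (nat_lit 24329970220) (nat_lit 4) (nat_lit 4) (nat_lit 5) (nat_lit 5) (nat_lit 5) (nat_lit 4) (nat_lit 379) (nat_lit 282) (nat_lit 119))))) (XT.nd (nat_lit 156) (nat_lit 76) (nat_lit 0) (XT.nd (nat_lit 78) (nat_lit 76) (nat_lit 0) (XT.lf (nat_lit 0) (nat_lit 348622426477) (nat_lit 76) (nat_lit 80164455582) (nat_lit 76) (nat_lit 8144862870) (nat_lit 4) (nat_lit 4) (nat_lit 5) (nat_lit 5) (nat_lit 5) (nat_lit 4) (nat_lit 380) (nat_lit 282)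 (nat_lit 118)) (XT.lf (nat_lit 0) (nat_lit 8565596290) (nat_lit 152) (nat_lit 54461269348) (nat_lit 76) (nat_lit 394734460482) (nat_lit 3) (nat_lit 5) (nat_lit 5) (nat_lit 5) (nat_lit 4) (nat_lit 4) (nat_lit 381) (nat_lit 282) (nat_lit 117))) (XT.nd (nat_lit 78) (nat_lit 76) (nat_lit 0) (XT.lf (nat_lit 0) (nat_lit 25837224944) (nat_lit 152) (nat_lit 19055524922) (nat_lit 76) (nat_lit 434732992330) (nat_lit 3) (nat_lit 5) (nat_lit 5) (nat_lit 5) (nat_lit 4) (nat_lit 4) (nat_lit 382) (nat_lit 282) (nat_lit 116)) (XT.nd (nat_lit 78) (nat_lit 0) (nat_lit 0) (XT.lf (nat_lit 0) (nat_lit 18718486829) (nat_lit 76) (nat_lit 25545593703) (nat_lit 152) (nat_lit 458304716563) (nat_lit 2) (nat_lit 5) (nat_lit 3) (nat_lit 5) (nat_lit 4) (nat_lit 4) (nat_lit 383) (nat_lit 282) (nat_lit 115)) (XT.lf (nat_lit 0) (nat_lit 59041653792) (nat_lit 76) (nat_lit 4892748467) (nat_lit 152) (nat_lit 462708496594)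 (nat_lit 2) (nat_lit 5) (nat_lit 3) (nat_lit 5) (nat_lit 4) (nat_lit 4) (nat_lit 384) (nat_lit 282) (nat_lit 114)))))) (XT.nd (nat_lit 390) (nat_lit 0) (nat_lit 76) (XT.nd (nat_lit 156) (nat_lit 0) (nat_lit 0) (XT.nd (nat_lit 78) (nat_lit 0) (nat_lit 0) (XT.lf (nat_lit 0) (nat_lit 1008002322) (nat_lit 0) (nat_lit 1008002322) (nat_lit 684) (nat_lit 4407475611) (nat_lit 84) (nat_lit 5) (nat_lit 84) (nat_lit 3) (nat_lit 93) (nat_lit 3) (nat_lit 283) (nat_lit 283) (nat_lit 214)) (XT.lf (nat_lit 0) (nat_lit 4573541744) (nat_lit 684) (nat_lit 5135627700) (nat_lit 760) (nat_lit 3436033416) (nat_lit 84) (nat_lit 5) (nat_lit 93) (nat_lit 3) (nat_lit 94) (nat_lit 5) (nat_lit 284) (nat_lit 283) (nat_lit 213))) (XT.nd (nat_lit 78) (nat_lit 0) (nat_lit 76) (XT.lf (nat_lit 76) (nat_lit 823974467) (nat_lit 0) (nat_lit 4339617903) (nat_lit 760) (nat_lit 8293750174) (nat_lit 85) (nat_lit 5) (nat_lit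 84) (nat_lit 5) (nat_lit 94) (nat_lit 5) (nat_lit 285) (nat_lit 283) (nat_lit 212)) (XT.nd (nat_lit 78) (nat_lit 0) (nat_lit 0) (XT.lf (nat_lit 0) (nat_lit 5868453363) (nat_lit 684) (nat_lit 6557562154) (nat_lit 760) (nat_lit 1354862870) (nat_lit 85) (nat_lit 5) (nat_lit 94) (nat_lit 5) (nat_lit 95) (nat_lit 5) (nat_lit 286) (nat_lit 283) (nat_lit 211)) (XT.lf (nat_lit 0) (nat_lit 6657447109) (nat_lit 684) (nat_lit 263372117) (nat_lit 760) (nat_lit 7197379278) (nat_lit 85) (nat_lit 5) (nat_lit 94) (nat_lit 5) (nat_lit 95) (nat_lit 5) (nat_lit 287) (nat_lit 283) (nat_lit 210))))) (XT.nd (nat_lit 156) (nat_lit 0) (nat_lit 76) (XT.nd (nat_lit 78) (nat_lit 0) (nat_lit 76) (XT.lf (nat_lit 76) (nat_lit 6541304387) (nat_lit 0) (nat_lit 1025522274) (nat_lit 760) (nat_lit 6901560654) (nat_lit 86) (nat_lit 5) (nat_lit 85) (nat_lit 5) (nat_lit 95) (nat_lit 5) (nat_lit 288) (nat_lit 283) (nat_lit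 209)) (XT.lf (nat_lit 0) (nat_lit 8586559741) (nat_lit 684) (nat_lit 1235753098) (nat_lit 760) (nat_lit 5010575637) (nat_lit 86) (nat_lit 5) (nat_lit 95) (nat_lit 5) (nat_lit 96) (nat_lit 5) (nat_lit 289) (nat_lit 283) (nat_lit 208))) (XT.nd (nat_lit 78) (nat_lit 0) (nat_lit 76) (XT.lf (nat_lit 76) (nat_lit 5949915460) (nat_lit 0) (nat_lit 3797754670) (nat_lit 760) (nat_lit 5463469922) (nat_lit 87) (nat_lit 5) (nat_lit 86) (nat_lit 5) (nat_lit 96) (nat_lit 5) (nat_lit 290) (nat_lit 283) (nat_lit 207)) (XT.nd (nat_lit 78) (nat_lit 0) (nat_lit 0) (XT.lf (nat_lit 0) (nat_lit 11009045654) (nat_lit 684) (nat_lit 2123978509) (nat_lit 760) (nat_lit 2473212319) (nat_lit 87) (nat_lit 5) (nat_lit 96) (nat_lit 5) (nat_lit 97) (nat_lit 5) (nat_lit 291) (nat_lit 283) (nat_lit 206)) (XT.lf (nat_lit 76) (nat_lit 5468932585) (nat_lit 0) (nat_lit 6994552245) (nat_lit 760) (nat_lit 3551143877) (nat_lit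 88) (nat_lit 5) (nat_lit 87) (nat_lit 5) (nat_lit 97) (nat_lit 5) (nat_lit 292) (nat_lit 283) (nat_lit 205))))))) (XT.nd (nat_lit 780) (nat_lit 1368) (nat_lit 0) (XT.nd (nat_lit 390) (nat_lit 988) (nat_lit 0) (XT.nd (nat_lit 156) (nat_lit 532) (nat_lit 0) (XT.nd (nat_lit 78) (nat_lit 608) (nat_lit 0) (XT.lf (nat_lit 76) (nat_lit 13501475422) (nat_lit 0) (nat_lit 508118070) (nat_lit 760) (nat_lit 2432938455) (nat_lit 88) (nat_lit 5) (nat_lit 87) (nat_lit 5) (nat_lit 97) (nat_lit 5) (nat_lit 293) (nat_lit 283) (nat_lit 204)) (XT.lf (nat_lit 0) (nat_lit 5094473387) (nat_lit 684) (nat_lit 10700311208) (nat_lit 760) (nat_lit 1088993835) (nat_lit 79) (nat_lit 5) (nat_lit 88) (nat_lit 5) (nat_lit 89) (nat_lit 5) (nat_lit 294) (nat_lit 283) (nat_lit 203))) (XT.nd (nat_lit 78) (nat_lit 456) (nat_lit 0) (XT.lf (nat_lit 0) (nat_lit 354892775) (nat_lit 760) (nat_lit 3739214416) (nat_lit 76) (nat_lit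 13250609287) (nat_lit 78) (nat_lit 5) (nat_lit 88) (nat_lit 5) (nat_lit 79) (nat_lit 5) (nat_lit 295) (nat_lit 283) (nat_lit 202)) (XT.nd (nat_lit 78) (nat_lit 0) (nat_lit 0) (XT.lf (nat_lit 0) (nat_lit 1940680567) (nat_lit 532) (nat_lit 13034067400) (nat_lit 76) (nat_lit 2847777539) (nat_lit 72) (nat_lit 5) (nat_lit 79) (nat_lit 5) (nat_lit 73) (nat_lit 5) (nat_lit 296) (nat_lit 283) (nat_lit 201)) (XT.lf (nat_lit 0) (nat_lit 3722626082) (nat_lit 532) (nat_lit 4531088596) (nat_lit 76) (nat_lit 10064697276) (nat_lit 72) (nat_lit 5) (nat_lit 79) (nat_lit 5) (nat_lit 73) (nat_lit 5) (nat_lit 297) (nat_lit 283) (nat_lit 200))))) (XT.nd (nat_lit 156) (nat_lit 608) (nat_lit 0) (XT.nd (nat_lit 78) (nat_lit 0) (nat_lit 0) (XT.lf (nat_lit 0) (nat_lit 4528447675) (nat_lit 380) (nat_lit 1122007047) (nat_lit 456) (nat_lit 13185827648) (nat_lit 67) (nat_lit 5) (nat_lit 72) (nat_lit 5) (nat_lit 73)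 (nat_lit 5) (nat_lit 298) (nat_lit 283) (nat_lit 199)) (XT.lf (nat_lit 0) (nat_lit 7838605754) (nat_lit 456) (nat_lit 5292607905) (nat_lit 76) (nat_lit 6240663658) (nat_lit 67) (nat_lit 5) (nat_lit 73) (nat_lit 5) (nat_lit 68) (nat_lit 5) (nat_lit 299) (nat_lit 283) (nat_lit 198))) (XT.nd (nat_lit 78) (nat_lit 304) (nat_lit 0) (XT.lf (nat_lit 0) (nat_lit 4278580537) (nat_lit 304) (nat_lit 5929960131) (nat_lit 380) (nat_lit 9722118774) (nat_lit 63) (nat_lit 5) (nat_lit 67) (nat_lit 5) (nat_lit 68) (nat_lit 5) (nat_lit 300) (nat_lit 283) (nat_lit 197)) (XT.nd (nat_lit 78) (nat_lit 304) (nat_lit 0) (XT.lf (nat_lit 0) (nat_lit 12801120885) (nat_lit 380) (nat_lit 6041529196) (nat_lit 76) (nat_lit 1669548162) (nat_lit 63) (nat_lit 5) (nat_lit 68) (nat_lit 5) (nat_lit 64) (nat_lit 5) (nat_lit 301) (nat_lit 283) (nat_lit 196)) (XT.lf (nat_lit 0) (nat_lit 4069473107) (nat_lit 304) (nat_lit 11602773203)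 (nat_lit 380) (nat_lit 5443145672) (nat_lit 59) (nat_lit 5) (nat_lit 63) (nat_lit 5) (nat_lit 64) (nat_lit 5) (nat_lit 302) (nat_lit 283) (nat_lit 195)))))) (XT.nd (nat_lit 390) (nat_lit 760) (nat_lit 0) (XT.nd (nat_lit 156) (nat_lit 380) (nat_lit 0) (XT.nd (nat_lit 78) (nat_lit 228) (nat_lit 0) (XT.lf (nat_lit 0) (nat_lit 14882874262) (nat_lit 304) (nat_lit 3894899859) (nat_lit 380) (nat_lit 2966451654) (nat_lit 59) (nat_lit 5) (nat_lit 63) (nat_lit 5) (nat_lit 64) (nat_lit 5) (nat_lit 303) (nat_lit 283) (nat_lit 194)) (XT.lf (nat_lit 0) (nat_lit 3878190465) (nat_lit 228) (nat_lit 18275540392) (nat_lit 304) (nat_lit 245034368) (nat_lit 56) (nat_lit 5) (nat_lit 59) (nat_lit 5) (nat_lit 60) (nat_lit 5) (nat_lit 304) (nat_lit 283) (nat_lit 193))) (XT.nd (nat_lit 78) (nat_lit 304) (nat_lit 0) (XT.lf (nat_lit 0) (nat_lit 2699979895) (nat_lit 304) (nat_lit 7806846929) (nat_lit 76) (nat_lit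 12568627976) (nat_lit 55) (nat_lit 5) (nat_lit 59) (nat_lit 5) (nat_lit 56) (nat_lit 5) (nat_lit 305) (nat_lit 283) (nat_lit 192)) (XT.nd (nat_lit 78) (nat_lit 0) (nat_lit 0) (XT.lf (nat_lit 0) (nat_lit 3539452044) (nat_lit 304) (nat_lit 2289518737) (nat_lit 380) (nat_lit 17954577844) (nat_lit 51) (nat_lit 5) (nat_lit 55) (nat_lit 5) (nat_lit 56) (nat_lit 5) (nat_lit 306) (nat_lit 283) (nat_lit 191)) (XT.lf (nat_lit 0) (nat_lit 9337721617) (nat_lit 380) (nat_lit 8910132836) (nat_lit 76) (nat_lit 6268044933) (nat_lit 51) (nat_lit 5) (nat_lit 56) (nat_lit 5) (nat_lit 52) (nat_lit 5) (nat_lit 307) (nat_lit 283) (nat_lit 190))))) (XT.nd (nat_lit 156) (nat_lit 532) (nat_lit 0) (XT.nd (nat_lit 78) (nat_lit 0) (nat_lit 0) (XT.lf (nat_lit 0) (nat_lit 3038172881) (nat_lit 228) (nat_lit 10059148492) (nat_lit 304) (nat_lit 12183792664) (nat_lit 48) (nat_lit 5) (nat_lit 51) (nat_lit 5) (nat_lit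 52) (nat_lit 5) (nat_lit 308) (nat_lit 283) (nat_lit 189)) (XT.lf (nat_lit 0) (nat_lit 15881364525) (nat_lit 228) (nat_lit 1305147638) (nat_lit 304) (nat_lit 8891012818) (nat_lit 48) (nat_lit 5) (nat_lit 51) (nat_lit 5) (nat_lit 52) (nat_lit 5) (nat_lit 309) (nat_lit 283) (nat_lit 188))) (XT.nd (nat_lit 78) (nat_lit 304) (nat_lit 0) (XT.lf (nat_lit 0) (nat_lit 2394752092) (nat_lit 228) (nat_lit 19237047830) (nat_lit 304) (nat_lit 5274390024) (nat_lit 45) (nat_lit 5) (nat_lit 48) (nat_lit 5) (nat_lit 49) (nat_lit 5) (nat_lit 310) (nat_lit 283) (nat_lit 187)) (XT.nd (nat_lit 78) (nat_lit 304) (nat_lit 0) (XT.lf (nat_lit 0) (nat_lit 15935560701) (nat_lit 228) (nat_lit 10548879391) (nat_lit 304) (nat_lit 1282608283) (nat_lit 45) (nat_lit 5) (nat_lit 48) (nat_lit 5) (nat_lit 49) (nat_lit 5) (nat_lit 311) (nat_lit 283) (nat_lit 186)) (XT.lf (nat_lit 0) (nat_lit 1472913592) (nat_lit 228) (nat_lit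 1357370085) (nat_lit 304) (nat_lit 25837677623) (nat_lit 41) (nat_lit 5) (nat_lit 44) (nat_lit 5) (nat_lit 45) (nat_lit 5) (nat_lit 312) (nat_lit 283) (nat_lit 185))))))))
noncomputable def xc173 : XT := (XT.nd (nat_lit 1560) (nat_lit 912) (nat_lit 0) (XT.nd (nat_lit 780) (nat_lit 684) (nat_lit 0) (XT.nd (nat_lit 390) (nat_lit 456) (nat_lit 0) (XT.nd (nat_lit 156) (nat_lit 380) (nat_lit 0) (XT.nd (nat_lit 78) (nat_lit 0) (nat_lit 0) (XT.lf (nat_lit 0) (nat_lit 7430664221) (nat_lit 304) (nat_lit 13915870397) (nat_lit 76) (nat_lit 8250099158) (nat_lit 41) (nat_lit 5) (nat_lit 45) (nat_lit 5) (nat_lit 42) (nat_lit 5) (nat_lit 313) (nat_lit 283) (nat_lit 184)) (XT.lf (nat_lit 0) (nat_lit 12275509236) (nat_lit 304) (nat_lit 5907429) (nat_lit 76) (nat_lit 18289612964) (nat_lit 41) (nat_lit 5) (nat_lit 45) (nat_lit 5) (nat_lit 42) (nat_lit 5) (nat_lit 314) (nat_lit 283) (nat_lit 183))) (XT.nd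 (nat_lit 78) (nat_lit 152) (nat_lit 0) (XT.lf (nat_lit 0) (nat_lit 15071535773) (nat_lit 228) (nat_lit 2518934852) (nat_lit 304) (nat_lit 13992292393) (nat_lit 38) (nat_lit 5) (nat_lit 41) (nat_lit 5) (nat_lit 42) (nat_lit 5) (nat_lit 315) (nat_lit 283) (nat_lit 182)) (XT.nd (nat_lit 78) (nat_lit 152) (nat_lit 0) (XT.lf (nat_lit 0) (nat_lit 23284707576) (nat_lit 304) (nat_lit 1873296166) (nat_lit 76) (nat_lit 7481413869) (nat_lit 38) (nat_lit 5) (nat_lit 42) (nat_lit 5) (nat_lit 39) (nat_lit 5) (nat_lit 316) (nat_lit 283) (nat_lit 181)) (XT.lf (nat_lit 0) (nat_lit 13889739062) (nat_lit 152) (nat_lit 15625128841) (nat_lit 228) (nat_lit 4221486839) (nat_lit 36) (nat_lit 5) (nat_lit 38) (nat_lit 5) (nat_lit 39) (nat_lit 5) (nat_lit 317) (nat_lit 283) (nat_lit 180))))) (XT.nd (nat_lit 156) (nat_lit 152) (nat_lit 0) (XT.nd (nat_lit 78) (nat_lit 228) (nat_lit 0) (XT.lf (nat_lit 0) (nat_lit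 1156362065) (nat_lit 228) (nat_lit 4409483492) (nat_lit 76) (nat_lit 29320122469) (nat_lit 35) (nat_lit 5) (nat_lit 38) (nat_lit 5) (nat_lit 36) (nat_lit 5) (nat_lit 318) (nat_lit 283) (nat_lit 179)) (XT.lf (nat_lit 0) (nat_lit 6925912807) (nat_lit 304) (nat_lit 24054490445) (nat_lit 76) (nat_lit 5095973506) (nat_lit 32) (nat_lit 5) (nat_lit 36) (nat_lit 5) (nat_lit 33) (nat_lit 5) (nat_lit 319) (nat_lit 283) (nat_lit 178))) (XT.nd (nat_lit 78) (nat_lit 152) (nat_lit 0) (XT.lf (nat_lit 0) (nat_lit 13144644149) (nat_lit 304) (nat_lit 7996901076) (nat_lit 76) (nat_lit 16176734096) (nat_lit 32) (nat_lit 5) (nat_lit 36) (nat_lit 5) (nat_lit 33) (nat_lit 5) (nat_lit 320) (nat_lit 283) (nat_lit 177)) (XT.nd (nat_lit 78) (nat_lit 0) (nat_lit 0) (XT.lf (nat_lit 0) (nat_lit 9147021649) (nat_lit 152) (nat_lit 10663966522) (nat_lit 228) (nat_lit 18804463172) (nat_lit 30) (nat_lit 5) (nat_lit 32)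 (nat_lit 5) (nat_lit 33) (nat_lit 5) (nat_lit 321) (nat_lit 283) (nat_lit 176)) (XT.lf (nat_lit 0) (nat_lit 26947535238) (nat_lit 228) (nat_lit 12561840199) (nat_lit 76) (nat_lit 461269989) (nat_lit 30) (nat_lit 5) (nat_lit 33) (nat_lit 5) (nat_lit 31) (nat_lit 5) (nat_lit 322) (nat_lit 283) (nat_lit 175)))))) (XT.nd (nat_lit 390) (nat_lit 304) (nat_lit 0) (XT.nd (nat_lit 156) (nat_lit 152) (nat_lit 0) (XT.nd (nat_lit 78) (nat_lit 76) (nat_lit 0) (XT.lf (nat_lit 0) (nat_lit 5171823349) (nat_lit 152) (nat_lit 29518904549) (nat_lit 228) (nat_lit 6690387785) (nat_lit 28) (nat_lit 5) (nat_lit 30) (nat_lit 5) (nat_lit 31) (nat_lit 5) (nat_lit 323) (nat_lit 283) (nat_lit 174)) (XT.lf (nat_lit 0) (nat_lit 170801940) (nat_lit 228) (nat_lit 18635048405) (nat_lit 76) (nat_lit 24045771931) (nat_lit 27) (nat_lit 5) (nat_lit 30) (nat_lit 5) (nat_lit 28) (nat_lit 5) (nat_lit 324) (nat_lit 283) (nat_lit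 173))) (XT.nd (nat_lit 78) (nat_lit 152) (nat_lit 0) (XT.lf (nat_lit 0) (nat_lit 7144771788) (nat_lit 228) (nat_lit 300359170) (nat_lit 76) (nat_lit 36945317617) (nat_lit 27) (nat_lit 5) (nat_lit 30) (nat_lit 5) (nat_lit 28) (nat_lit 5) (nat_lit 325) (nat_lit 283) (nat_lit 172)) (XT.nd (nat_lit 78) (nat_lit 0) (nat_lit 0) (XT.lf (nat_lit 0) (nat_lit 14842754844) (nat_lit 228) (nat_lit 26496946092) (nat_lit 76) (nat_lit 4647755590) (nat_lit 25) (nat_lit 5) (nat_lit 28) (nat_lit 5) (nat_lit 26) (nat_lit 5) (nat_lit 326) (nat_lit 283) (nat_lit 171)) (XT.lf (nat_lit 0) (nat_lit 23047753340) (nat_lit 228) (nat_lit 7513103487) (nat_lit 76) (nat_lit 17097358017) (nat_lit 25) (nat_lit 5) (nat_lit 28) (nat_lit 5) (nat_lit 26) (nat_lit 5) (nat_lit 327) (nat_lit 283) (nat_lit 170))))) (XT.nd (nat_lit 156) (nat_lit 152) (nat_lit 0) (XT.nd (nat_lit 78) (nat_lit 0) (nat_lit 0) (XT.lf (nat_lit 0) (nat_lit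 12822463935) (nat_lit 152) (nat_lit 19035870366) (nat_lit 228) (nat_lit 17544415658) (nat_lit 23) (nat_lit 5) (nat_lit 25) (nat_lit 5) (nat_lit 26) (nat_lit 5) (nat_lit 328) (nat_lit 283) (nat_lit 169)) (XT.lf (nat_lit 0) (nat_lit 34427908359) (nat_lit 152) (nat_lit 6804022634) (nat_lit 228) (nat_lit 9996461749) (nat_lit 23) (nat_lit 5) (nat_lit 25) (nat_lit 5) (nat_lit 26) (nat_lit 5) (nat_lit 329) (nat_lit 283) (nat_lit 168))) (XT.nd (nat_lit 78) (nat_lit 76) (nat_lit 0) (XT.lf (nat_lit 0) (nat_lit 3994300009) (nat_lit 76) (nat_lit 47231992424) (nat_lit 152) (nat_lit 1911425982) (nat_lit 22) (nat_lit 5) (nat_lit 23) (nat_lit 5) (nat_lit 24) (nat_lit 4) (nat_lit 330) (nat_lit 283) (nat_lit 167)) (XT.nd (nat_lit 78) (nat_lit 0) (nat_lit 0) (XT.lf (nat_lit 0) (nat_lit 6763513059) (nat_lit 152) (nat_lit 28942680775) (nat_lit 76) (nat_lit 19411376920) (nat_lit 21) (nat_lit 5) (nat_lit 23)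 (nat_lit 5) (nat_lit 22) (nat_lit 5) (nat_lit 331) (nat_lit 283) (nat_lit 166)) (XT.lf (nat_lit 0) (nat_lit 15803633193) (nat_lit 152) (nat_lit 7770470240) (nat_lit 76) (nat_lit 33620966321) (nat_lit 21) (nat_lit 5) (nat_lit 23) (nat_lit 5) (nat_lit 22) (nat_lit 5) (nat_lit 332) (nat_lit 283) (nat_lit 165))))))) (XT.nd (nat_lit 780) (nat_lit 380) (nat_lit 0) (XT.nd (nat_lit 390) (nat_lit 228) (nat_lit 0) (XT.nd (nat_lit 156) (nat_lit 152) (nat_lit 0) (XT.nd (nat_lit 78) (nat_lit 0) (nat_lit 0) (XT.lf (nat_lit 0) (nat_lit 14931362796) (nat_lit 152) (nat_lit 10593393704) (nat_lit 228) (nat_lit 33840241455) (nat_lit 19) (nat_lit 5) (nat_lit 21) (nat_lit 5) (nat_lit 22) (nat_lit 5) (nat_lit 333) (nat_lit 283) (nat_lit 164)) (XT.lf (nat_lit 0) (nat_lit 35909020464) (nat_lit 228) (nat_lit 22655281934) (nat_lit 76) (nat_lit 3070269859) (nat_lit 19) (nat_lit 5) (nat_lit 22) (nat_lit 5) (nat_lit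 20) (nat_lit 4) (nat_lit 334) (nat_lit 283) (nat_lit 163))) (XT.nd (nat_lit 78) (nat_lit 76) (nat_lit 0) (XT.lf (nat_lit 0) (nat_lit 32769311) (nat_lit 76) (nat_lit 46950020736) (nat_lit 152) (nat_lit 17026324335) (nat_lit 18) (nat_lit 5) (nat_lit 19) (nat_lit 5) (nat_lit 20) (nat_lit 4) (nat_lit 335) (nat_lit 283) (nat_lit 162)) (XT.nd (nat_lit 78) (nat_lit 76) (nat_lit 0) (XT.lf (nat_lit 0) (nat_lit 24635263630) (nat_lit 76) (nat_lit 34354864598) (nat_lit 152) (nat_lit 7493264929) (nat_lit 18) (nat_lit 5) (nat_lit 19) (nat_lit 5) (nat_lit 20) (nat_lit 4) (nat_lit 336) (nat_lit 283) (nat_lit 161)) (XT.lf (nat_lit 0) (nat_lit 2432225657) (nat_lit 152) (nat_lit 18659107103) (nat_lit 76) (nat_lit 47988275880) (nat_lit 17) (nat_lit 5) (nat_lit 19) (nat_lit 5) (nat_lit 18) (nat_lit 5) (nat_lit 337) (nat_lit 283) (nat_lit 160))))) (XT.nd (nat_lit 156) (nat_lit 76) (nat_lit 0) (XT.nd (nat_lit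 78) (nat_lit 0) (nat_lit 0) (XT.lf (nat_lit 0) (nat_lit 5744367281) (nat_lit 152) (nat_lit 6943981798) (nat_lit 228) (nat_lit 59106837808) (nat_lit 15) (nat_lit 5) (nat_lit 17) (nat_lit 5) (nat_lit 18) (nat_lit 5) (nat_lit 338) (nat_lit 283) (nat_lit 159)) (XT.lf (nat_lit 0) (nat_lit 23898499927) (nat_lit 228) (nat_lit 42749668623) (nat_lit 76) (nat_lit 7976317355) (nat_lit 15) (nat_lit 5) (nat_lit 18) (nat_lit 5) (nat_lit 16) (nat_lit 4) (nat_lit 339) (nat_lit 283) (nat_lit 158))) (XT.nd (nat_lit 78) (nat_lit 76) (nat_lit 0) (XT.lf (nat_lit 0) (nat_lit 35779690401) (nat_lit 228) (nat_lit 18403060584) (nat_lit 76) (nat_lit 23406975066) (nat_lit 15) (nat_lit 5) (nat_lit 18) (nat_lit 5) (nat_lit 16) (nat_lit 4) (nat_lit 340) (nat_lit 283) (nat_lit 157)) (XT.nd (nat_lit 78) (nat_lit 0) (nat_lit 0) (XT.lf (nat_lit 0) (nat_lit 7391977071) (nat_lit 76) (nat_lit 40975226440) (nat_lit 152) (nat_lit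 32330414187) (nat_lit 14) (nat_lit 5) (nat_lit 15) (nat_lit 5) (nat_lit 16) (nat_lit 4) (nat_lit 341) (nat_lit 283) (nat_lit 156)) (XT.lf (nat_lit 0) (nat_lit 35110277654) (nat_lit 76) (nat_lit 26782398485) (nat_lit 152) (nat_lit 22052801119) (nat_lit 14) (nat_lit 5) (nat_lit 15) (nat_lit 5) (nat_lit 16) (nat_lit 4) (nat_lit 342) (nat_lit 283) (nat_lit 155)))))) (XT.nd (nat_lit 390) (nat_lit 228) (nat_lit 0) (XT.nd (nat_lit 156) (nat_lit 0) (nat_lit 0) (XT.nd (nat_lit 78) (nat_lit 152) (nat_lit 0) (XT.lf (nat_lit 0) (nat_lit 64209348824) (nat_lit 76) (nat_lit 11882139410) (nat_lit 152) (nat_lit 11264390674) (nat_lit 14) (nat_lit 5) (nat_lit 15) (nat_lit 5) (nat_lit 16) (nat_lit 4) (nat_lit 343) (nat_lit 283) (nat_lit 154)) (XT.lf (nat_lit 0) (nat_lit 179935575) (nat_lit 152) (nat_lit 87046647521) (nat_lit 76) (nat_lit 3704243912) (nat_lit 12) (nat_lit 5) (nat_lit 14) (nat_lit 5) (nat_lit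 13) (nat_lit 4) (nat_lit 344) (nat_lit 283) (nat_lit 153))) (XT.nd (nat_lit 78) (nat_lit 0) (nat_lit 0) (XT.lf (nat_lit 0) (nat_lit 12408316670) (nat_lit 152) (nat_lit 61985803388) (nat_lit 76) (nat_lit 20251651627) (nat_lit 12) (nat_lit 5) (nat_lit 14) (nat_lit 5) (nat_lit 13) (nat_lit 4) (nat_lit 345) (nat_lit 283) (nat_lit 152)) (XT.nd (nat_lit 78) (nat_lit 0) (nat_lit 0) (XT.lf (nat_lit 0) (nat_lit 25245433844) (nat_lit 152) (nat_lit 35676700908) (nat_lit 76) (nat_lit 37624464971) (nat_lit 12) (nat_lit 5) (nat_lit 14) (nat_lit 5) (nat_lit 13) (nat_lit 4) (nat_lit 346) (nat_lit 283) (nat_lit 151)) (XT.lf (nat_lit 0) (nat_lit 38721851661) (nat_lit 152) (nat_lit 8056699361) (nat_lit 76) (nat_lit 55864047784) (nat_lit 12) (nat_lit 5) (nat_lit 14) (nat_lit 5) (nat_lit 13) (nat_lit 4) (nat_lit 347) (nat_lit 283) (nat_lit 150))))) (XT.nd (nat_lit 234) (nat_lit 152) (nat_lit 0) (XT.nd (nat_lit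 78) (nat_lit 0) (nat_lit 0) (XT.lf (nat_lit 0) (nat_lit 21632332910) (nat_lit 76) (nat_lit 31575065260) (nat_lit 152) (nat_lit 53719236077) (nat_lit 11) (nat_lit 5) (nat_lit 12) (nat_lit 5) (nat_lit 13) (nat_lit 4) (nat_lit 348) (nat_lit 283) (nat_lit 149)) (XT.nd (nat_lit 78) (nat_lit 0) (nat_lit 0) (XT.lf (nat_lit 0) (nat_lit 53081258088) (nat_lit 76) (nat_lit 15470023711) (nat_lit 152) (nat_lit 42866888379) (nat_lit 11) (nat_lit 5) (nat_lit 12) (nat_lit 5) (nat_lit 13) (nat_lit 4) (nat_lit 349) (nat_lit 283) (nat_lit 148)) (XT.lf (nat_lit 0) (nat_lit 84682547463) (nat_lit 152) (nat_lit 30058292994) (nat_lit 0) (nat_lit 1392434682) (nat_lit 11) (nat_lit 5) (nat_lit 13) (nat_lit 4) (nat_lit 11) (nat_lit 4) (nat_lit 350) (nat_lit 283) (nat_lit 147)))) (XT.nd (nat_lit 78) (nat_lit 152) (nat_lit 0) (XT.lf (nat_lit 0) (nat_lit 101871794027) (nat_lit 152) (nat_lit 623305093) (nat_lit 0)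 (nat_lit 18576466897) (nat_lit 11) (nat_lit 5) (nat_lit 13) (nat_lit 4) (nat_lit 11) (nat_lit 4) (nat_lit 351) (nat_lit 283) (nat_lit 146)) (XT.nd (nat_lit 78) (nat_lit 76) (nat_lit 0) (XT.lf (nat_lit 0) (nat_lit 31280847823) (nat_lit 76) (nat_lit 89125951718) (nat_lit 76) (nat_lit 5825658542) (nat_lit 10) (nat_lit 4) (nat_lit 11) (nat_lit 5) (nat_lit 11) (nat_lit 4) (nat_lit 352) (nat_lit 283) (nat_lit 145)) (XT.lf (nat_lit 0) (nat_lit 7962810633) (nat_lit 152) (nat_lit 66981260944) (nat_lit 76) (nat_lit 56700477342) (nat_lit 9) (nat_lit 5) (nat_lit 11) (nat_lit 5) (nat_lit 10) (nat_lit 4) (nat_lit 353) (nat_lit 283) (nat_lit 144))))))))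
noncomputable def xc174 : XT := (XT.nd (nat_lit 1560) (nat_lit 228) (nat_lit 0) (XT.nd (nat_lit 780) (nat_lit 152) (nat_lit 0) (XT.nd (nat_lit 390) (nat_lit 76) (nat_lit 0) (XT.nd (nat_lit 156) (nat_lit 76) (nat_lit 0) (XT.nd (nat_lit 78) (nat_lit 0) (nat_lit 0) (XT.lf (nat_lit 0) (nat_lit 22242943405) (nat_lit 152) (nat_lit 37711493113) (nat_lit 76) (nat_lit 77368132901) (nat_lit 9) (nat_lit 5) (nat_lit 11) (nat_lit 5) (nat_lit 10) (nat_lit 4) (nat_lit 354) (nat_lit 283) (nat_lit 143)) (XT.lf (nat_lit 0) (nat_lit 37235197544) (nat_lit 152) (nat_lit 6981661986) (nat_lit 76) (nat_lit 99067726892) (nat_lit 9) (nat_lit 5) (nat_lit 11) (nat_lit 5) (nat_lit 10) (nat_lit 4) (nat_lit 355) (nat_lit 283) (nat_lit 142))) (XT.nd (nat_lit 78) (nat_lit 0) (nat_lit 0) (XT.lf (nat_lit 0) (nat_lit 26117315915) (nat_lit 76) (nat_lit 27265717473) (nat_lit 152) (nat_lit 96141373593) (nat_lit 8) (nat_lit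 5) (nat_lit 9) (nat_lit 5) (nat_lit 10) (nat_lit 4) (nat_lit 356) (nat_lit 283) (nat_lit 141)) (XT.nd (nat_lit 78) (nat_lit 0) (nat_lit 0) (XT.lf (nat_lit 0) (nat_lit 61110420868) (nat_lit 76) (nat_lit 9344317876) (nat_lit 152) (nat_lit 85615657038) (nat_lit 8) (nat_lit 5) (nat_lit 9) (nat_lit 5) (nat_lit 10) (nat_lit 4) (nat_lit 357) (nat_lit 283) (nat_lit 140)) (XT.lf (nat_lit 0) (nat_lit 88526233975) (nat_lit 152) (nat_lit 65241525271) (nat_lit 0) (nat_lit 9168615595) (nat_lit 8) (nat_lit 5) (nat_lit 10) (nat_lit 4) (nat_lit 8) (nat_lit 4) (nat_lit 358) (nat_lit 283) (nat_lit 139))))) (XT.nd (nat_lit 156) (nat_lit 76) (nat_lit 0) (XT.nd (nat_lit 78) (nat_lit 0) (nat_lit 0) (XT.lf (nat_lit 0) (nat_lit 107652872516) (nat_lit 152) (nat_lit 34193309988) (nat_lit 0) (nat_lit 28291892921) (nat_lit 8) (nat_lit 5) (nat_lit 10) (nat_lit 4) (nat_lit 8) (nat_lit 4) (nat_lit 359) (nat_lit 283)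 (nat_lit 138)) (XT.lf (nat_lit 0) (nat_lit 127734302994) (nat_lit 152) (nat_lit 1595513754) (nat_lit 0) (nat_lit 48370122241) (nat_lit 8) (nat_lit 5) (nat_lit 10) (nat_lit 4) (nat_lit 8) (nat_lit 4) (nat_lit 360) (nat_lit 283) (nat_lit 137))) (XT.nd (nat_lit 78) (nat_lit 0) (nat_lit 0) (XT.lf (nat_lit 0) (nat_lit 33708355106) (nat_lit 76) (nat_lit 115636265122) (nat_lit 76) (nat_lit 36269035647) (nat_lit 7) (nat_lit 4) (nat_lit 8) (nat_lit 5) (nat_lit 8) (nat_lit 4) (nat_lit 361) (nat_lit 283) (nat_lit 136)) (XT.nd (nat_lit 78) (nat_lit 0) (nat_lit 0) (XT.lf (nat_lit 0) (nat_lit 70830158455) (nat_lit 76) (nat_lit 101230877452) (nat_lit 76) (nat_lit 21860744432) (nat_lit 7) (nat_lit 4) (nat_lit 8) (nat_lit 5) (nat_lit 8) (nat_lit 4) (nat_lit 362) (nat_lit 283) (nat_lit 135)) (XT.lf (nat_lit 0) (nat_lit 109805526645) (nat_lit 76) (nat_lit 86106375995) (nat_lit 76) (nat_lit 6733477695)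 (nat_lit 7) (nat_lit 4) (nat_lit 8) (nat_lit 5) (nat_lit 8) (nat_lit 4) (nat_lit 363) (nat_lit 283) (nat_lit 134)))))) (XT.nd (nat_lit 390) (nat_lit 0) (nat_lit 0) (XT.nd (nat_lit 156) (nat_lit 76) (nat_lit 0) (XT.nd (nat_lit 78) (nat_lit 0) (nat_lit 0) (XT.lf (nat_lit 0) (nat_lit 8855963713) (nat_lit 152) (nat_lit 61220806288) (nat_lit 76) (nat_lit 141721314430) (nat_lit 6) (nat_lit 5) (nat_lit 8) (nat_lit 5) (nat_lit 7) (nat_lit 4) (nat_lit 364) (nat_lit 283) (nat_lit 133)) (XT.lf (nat_lit 0) (nat_lit 24997324714) (nat_lit 152) (nat_lit 28133524427) (nat_lit 76) (nat_lit 168272119230) (nat_lit 6) (nat_lit 5) (nat_lit 8) (nat_lit 5) (nat_lit 7) (nat_lit 4) (nat_lit 365) (nat_lit 283) (nat_lit 132))) (XT.nd (nat_lit 78) (nat_lit 0) (nat_lit 0) (XT.lf (nat_lit 0) (nat_lit 6824320467) (nat_lit 76) (nat_lit 35226776758) (nat_lit 152) (nat_lit 189431732787) (nat_lit 5) (nat_lit 5) (nat_lit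 6) (nat_lit 5) (nat_lit 7) (nat_lit 4) (nat_lit 366) (nat_lit 283) (nat_lit 131)) (XT.nd (nat_lit 78) (nat_lit 0) (nat_lit 0) (XT.lf (nat_lit 0) (nat_lit 44504603951) (nat_lit 76) (nat_lit 15928229121) (nat_lit 152) (nat_lit 181610088570) (nat_lit 5) (nat_lit 5) (nat_lit 6) (nat_lit 5) (nat_lit 7) (nat_lit 4) (nat_lit 367) (nat_lit 283) (nat_lit 130)) (XT.lf (nat_lit 0) (nat_lit 79800202151) (nat_lit 152) (nat_lit 169131925431) (nat_lit 0) (nat_lit 4195563563) (nat_lit 5) (nat_lit 5) (nat_lit 7) (nat_lit 4) (nat_lit 5) (nat_lit 4) (nat_lit 368) (nat_lit 283) (nat_lit 129))))) (XT.nd (nat_lit 156) (nat_lit 0) (nat_lit 0) (XT.nd (nat_lit 78) (nat_lit 0) (nat_lit 0) (XT.lf (nat_lit 0) (nat_lit 100395973527) (nat_lit 152) (nat_lit 139568354781) (nat_lit 0) (nat_lit 24789369706) (nat_lit 5) (nat_lit 5) (nat_lit 7) (nat_lit 4) (nat_lit 5) (nat_lit 4) (nat_lit 369) (nat_lit 283) (nat_lit 128))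 (XT.lf (nat_lit 0) (nat_lit 122020500458) (nat_lit 152) (nat_lit 108528531991) (nat_lit 0) (nat_lit 46412024986) (nat_lit 5) (nat_lit 5) (nat_lit 7) (nat_lit 4) (nat_lit 5) (nat_lit 4) (nat_lit 370) (nat_lit 283) (nat_lit 127))) (XT.nd (nat_lit 78) (nat_lit 0) (nat_lit 0) (XT.lf (nat_lit 0) (nat_lit 144725269911) (nat_lit 152) (nat_lit 75938552722) (nat_lit 0) (nat_lit 69115011915) (nat_lit 5) (nat_lit 5) (nat_lit 7) (nat_lit 4) (nat_lit 5) (nat_lit 4) (nat_lit 371) (nat_lit 283) (nat_lit 126)) (XT.nd (nat_lit 78) (nat_lit 0) (nat_lit 0) (XT.lf (nat_lit 0) (nat_lit 168564340861) (nat_lit 152) (nat_lit 41720821784) (nat_lit 0) (nat_lit 92952385223) (nat_lit 5) (nat_lit 5) (nat_lit 7) (nat_lit 4) (nat_lit 5) (nat_lit 4) (nat_lit 372) (nat_lit 283) (nat_lit 125)) (XT.lf (nat_lit 0) (nat_lit 193594473002) (nat_lit 152) (nat_lit 5793868391) (nat_lit 0) (nat_lit 117980900561) (nat_lit 5) (nat_lit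 5) (nat_lit 7) (nat_lit 4) (nat_lit 5) (nat_lit 4) (nat_lit 373) (nat_lit 283) (nat_lit 124))))))) (XT.nd (nat_lit 780) (nat_lit 76) (nat_lit 0) (XT.nd (nat_lit 390) (nat_lit 76) (nat_lit 0) (XT.nd (nat_lit 156) (nat_lit 0) (nat_lit 0) (XT.nd (nat_lit 78) (nat_lit 0) (nat_lit 0) (XT.lf (nat_lit 0) (nat_lit 32983526663) (nat_lit 76) (nat_lit 187406700509) (nat_lit 76) (nat_lit 111791588257) (nat_lit 4) (nat_lit 4) (nat_lit 5) (nat_lit 5) (nat_lit 5) (nat_lit 4) (nat_lit 374) (nat_lit 283) (nat_lit 123)) (XT.lf (nat_lit 0) (nat_lit 73899382212) (nat_lit 76) (nat_lit 174723675066) (nat_lit 76) (nat_lit 99107096326) (nat_lit 4) (nat_lit 4) (nat_lit 5) (nat_lit 5) (nat_lit 5) (nat_lit 4) (nat_lit 375) (nat_lit 283) (nat_lit 122))) (XT.nd (nat_lit 78) (nat_lit 0) (nat_lit 0) (XT.lf (nat_lit 0) (nat_lit 116859545503) (nat_lit 76) (nat_lit 161407189347) (nat_lit 76) (nat_lit 85789213953) (nat_lit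 4) (nat_lit 4) (nat_lit 5) (nat_lit 5) (nat_lit 5) (nat_lit 4) (nat_lit 376) (nat_lit 283) (nat_lit 121)) (XT.nd (nat_lit 78) (nat_lit 0) (nat_lit 0) (XT.lf (nat_lit 0) (nat_lit 161966302641) (nat_lit 76) (nat_lit 147425537435) (nat_lit 76) (nat_lit 71806231893) (nat_lit 4) (nat_lit 4) (nat_lit 5) (nat_lit 5) (nat_lit 5) (nat_lit 4) (nat_lit 377) (nat_lit 283) (nat_lit 120)) (XT.lf (nat_lit 0) (nat_lit 209327050665) (nat_lit 76) (nat_lit 132745429681) (nat_lit 76) (nat_lit 57124857333) (nat_lit 4) (nat_lit 4) (nat_lit 5) (nat_lit 5) (nat_lit 5) (nat_lit 4) (nat_lit 378) (nat_lit 283) (nat_lit 119))))) (XT.nd (nat_lit 156) (nat_lit 76) (nat_lit 0) (XT.nd (nat_lit 78) (nat_lit 0) (nat_lit 0) (XT.lf (nat_lit 0) (nat_lit 259054553262) (nat_lit 76) (nat_lit 117331913450) (nat_lit 76) (nat_lit 41710134619) (nat_lit 4) (nat_lit 4) (nat_lit 5) (nat_lit 5) (nat_lit 5) (nat_lit 4) (nat_lit 379)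 (nat_lit 283) (nat_lit 118)) (XT.lf (nat_lit 0) (nat_lit 311267209248) (nat_lit 76) (nat_lit 101148289892) (nat_lit 76) (nat_lit 25525362030) (nat_lit 4) (nat_lit 4) (nat_lit 5) (nat_lit 5) (nat_lit 5) (nat_lit 4) (nat_lit 380) (nat_lit 283) (nat_lit 117))) (XT.nd (nat_lit 78) (nat_lit 76) (nat_lit 0) (XT.lf (nat_lit 0) (nat_lit 366089334469) (nat_lit 76) (nat_lit 84156026570) (nat_lit 76) (nat_lit 8532004393) (nat_lit 4) (nat_lit 4) (nat_lit 5) (nat_lit 5) (nat_lit 5) (nat_lit 4) (nat_lit 381) (nat_lit 283) (nat_lit 116)) (XT.nd (nat_lit 78) (nat_lit 0) (nat_lit 0) (XT.lf (nat_lit 0) (nat_lit 9012407764) (nat_lit 152) (nat_lit 57149628464) (nat_lit 76) (nat_lit 414486420545) (nat_lit 3) (nat_lit 5) (nat_lit 5) (nat_lit 5) (nat_lit 4) (nat_lit 4) (nat_lit 382) (nat_lit 283) (nat_lit 115)) (XT.lf (nat_lit 0) (nat_lit 27146735392) (nat_lit 152) (nat_lit 19975249405) (nat_lit 76) (nat_lit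 456484153411) (nat_lit 3) (nat_lit 5) (nat_lit 5) (nat_lit 5) (nat_lit 4) (nat_lit 4) (nat_lit 383) (nat_lit 283) (nat_lit 114)))))) (XT.nd (nat_lit 33150) (nat_lit 0) (nat_lit 6308) (XT.nd (nat_lit 32916) (nat_lit 0) (nat_lit 6232) (XT.nd (nat_lit 32838) (nat_lit 0) (nat_lit 6232) (XT.lf (nat_lit 0) (nat_lit 19686929841) (nat_lit 76) (nat_lit 26807671188) (nat_lit 152) (nat_lit 481201761871) (nat_lit 2) (nat_lit 5) (nat_lit 3) (nat_lit 5) (nat_lit 4) (nat_lit 4) (nat_lit 384) (nat_lit 283) (nat_lit 113)) (XT.lf (nat_lit 0) (nat_lit 1248050700) (nat_lit 0) (nat_lit 1248050700) (nat_lit 684) (nat_lit 4228706964) (nat_lit 84) (nat_lit 5) (nat_lit 84) (nat_lit 3) (nat_lit 93) (nat_lit 3) (nat_lit 284) (nat_lit 284) (nat_lit 212))) (XT.nd (nat_lit 78) (nat_lit 0) (nat_lit 0) (XT.lf (nat_lit 0) (nat_lit 5519048512) (nat_lit 684) (nat_lit 4987732692) (nat_lit 760) (nat_lit 3258162071) (nat_lit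 84) (nat_lit 5) (nat_lit 93) (nat_lit 3) (nat_lit 94) (nat_lit 5) (nat_lit 285) (nat_lit 284) (nat_lit 211)) (XT.nd (nat_lit 78) (nat_lit 0) (nat_lit 76) (XT.lf (nat_lit 76) (nat_lit 1263322545) (nat_lit 0) (nat_lit 4847360605) (nat_lit 760) (nat_lit 7983482636) (nat_lit 85) (nat_lit 5) (nat_lit 84) (nat_lit 5) (nat_lit 94) (nat_lit 5) (nat_lit 286) (nat_lit 284) (nat_lit 210)) (XT.lf (nat_lit 0) (nat_lit 6813658464) (nat_lit 684) (nat_lit 6467599455) (nat_lit 760) (nat_lit 1154553048) (nat_lit 85) (nat_lit 5) (nat_lit 94) (nat_lit 5) (nat_lit 95) (nat_lit 5) (nat_lit 287) (nat_lit 284) (nat_lit 209))))) (XT.nd (nat_lit 234) (nat_lit 0) (nat_lit 76) (XT.nd (nat_lit 78) (nat_lit 0) (nat_lit 0) (XT.lf (nat_lit 76) (nat_lit 125417029) (nat_lit 0) (nat_lit 7487605721) (nat_lit 760) (nat_lit 7178500786) (nat_lit 86) (nat_lit 5) (nat_lit 85) (nat_lit 5) (nat_lit 95) (nat_lit 5) (nat_lit 288)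 (nat_lit 284) (nat_lit 208)) (XT.nd (nat_lit 78) (nat_lit 0) (nat_lit 76) (XT.lf (nat_lit 76) (nat_lit 7259894786) (nat_lit 0) (nat_lit 1282571894) (nat_lit 760) (nat_lit 6618094372) (nat_lit 86) (nat_lit 5) (nat_lit 85) (nat_lit 5) (nat_lit 95) (nat_lit 5) (nat_lit 289) (nat_lit 284) (nat_lit 207)) (XT.lf (nat_lit 0) (nat_lit 9581683904) (nat_lit 684) (nat_lit 891842172) (nat_lit 760) (nat_lit 5071402067) (nat_lit 86) (nat_lit 5) (nat_lit 95) (nat_lit 5) (nat_lit 96) (nat_lit 5) (nat_lit 290) (nat_lit 284) (nat_lit 206)))) (XT.nd (nat_lit 78) (nat_lit 0) (nat_lit 76) (XT.lf (nat_lit 76) (nat_lit 6646566288) (nat_lit 0) (nat_lit 4133572779) (nat_lit 760) (nat_lit 5163051386) (nat_lit 87) (nat_lit 5) (nat_lit 86) (nat_lit 5) (nat_lit 96) (nat_lit 5) (nat_lit 291) (nat_lit 284) (nat_lit 205)) (XT.nd (nat_lit 78) (nat_lit 0) (nat_lit 0) (XT.lf (nat_lit 0) (nat_lit 12076457030) (nat_lit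 684) (nat_lit 1820710730) (nat_lit 760) (nat_lit 2462339895) (nat_lit 87) (nat_lit 5) (nat_lit 96) (nat_lit 5) (nat_lit 97) (nat_lit 5) (nat_lit 292) (nat_lit 284) (nat_lit 204)) (XT.lf (nat_lit 76) (nat_lit 6145241617) (nat_lit 0) (nat_lit 7440049259) (nat_lit 760) (nat_lit 3204001775) (nat_lit 88) (nat_lit 5) (nat_lit 87) (nat_lit 5) (nat_lit 97) (nat_lit 5) (nat_lit 293) (nat_lit 284) (nat_lit 203))))))))
noncomputable def xc175 : XT := (XT.nd (nat_lit 1560) (nat_lit 1672) (nat_lit 0) (XT.nd (nat_lit 780) (nat_lit 1368) (nat_lit 0) (XT.nd (nat_lit 390) (nat_lit 988) (nat_lit 0) (XT.nd (nat_lit 156) (nat_lit 532) (nat_lit 0) (XT.nd (nat_lit 78) (nat_lit 608) (nat_lit 0) (XT.lf (nat_lit 76) (nat_lit 14560227672) (nat_lit 0) (nat_lit 624732927) (nat_lit 760) (nat_lit 2054871762) (nat_lit 88) (nat_lit 5) (nat_lit 87) (nat_lit 5) (nat_lit 97) (nat_lit 5) (nat_lit 294) (nat_lit 284) (nat_lit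 202)) (XT.lf (nat_lit 0) (nat_lit 5752513991) (nat_lit 684) (nat_lit 11289224270) (nat_lit 760) (nat_lit 662338072) (nat_lit 79) (nat_lit 5) (nat_lit 88) (nat_lit 5) (nat_lit 89) (nat_lit 5) (nat_lit 295) (nat_lit 284) (nat_lit 201))) (XT.nd (nat_lit 78) (nat_lit 456) (nat_lit 0) (XT.lf (nat_lit 0) (nat_lit 816167962) (nat_lit 760) (nat_lit 3526464138) (nat_lit 76) (nat_lit 13846209166) (nat_lit 78) (nat_lit 5) (nat_lit 88) (nat_lit 5) (nat_lit 79) (nat_lit 5) (nat_lit 296) (nat_lit 284) (nat_lit 200)) (XT.nd (nat_lit 78) (nat_lit 0) (nat_lit 0) (XT.lf (nat_lit 0) (nat_lit 2465713683) (nat_lit 532) (nat_lit 13269638303) (nat_lit 76) (nat_lit 2956009834) (nat_lit 72) (nat_lit 5) (nat_lit 79) (nat_lit 5) (nat_lit 73) (nat_lit 5) (nat_lit 297) (nat_lit 284) (nat_lit 199)) (XT.lf (nat_lit 0) (nat_lit 4316375564) (nat_lit 532) (nat_lit 4361326389) (nat_lit 76) (nat_lit 10535402062) (nat_lit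 72) (nat_lit 5) (nat_lit 79) (nat_lit 5) (nat_lit 73) (nat_lit 5) (nat_lit 298) (nat_lit 284) (nat_lit 198))))) (XT.nd (nat_lit 156) (nat_lit 608) (nat_lit 0) (XT.nd (nat_lit 78) (nat_lit 0) (nat_lit 0) (XT.lf (nat_lit 0) (nat_lit 5144794491) (nat_lit 380) (nat_lit 1182478569) (nat_lit 456) (nat_lit 13430301384) (nat_lit 67) (nat_lit 5) (nat_lit 72) (nat_lit 5) (nat_lit 73) (nat_lit 5) (nat_lit 299) (nat_lit 284) (nat_lit 197)) (XT.lf (nat_lit 0) (nat_lit 8605990666) (nat_lit 456) (nat_lit 5166271898) (nat_lit 76) (nat_lit 6548667064) (nat_lit 67) (nat_lit 5) (nat_lit 73) (nat_lit 5) (nat_lit 68) (nat_lit 5) (nat_lit 300) (nat_lit 284) (nat_lit 196))) (XT.nd (nat_lit 78) (nat_lit 304) (nat_lit 0) (XT.lf (nat_lit 0) (nat_lit 4877170056) (nat_lit 304) (nat_lit 6205379106) (nat_lit 380) (nat_lit 9825731967) (nat_lit 63) (nat_lit 5) (nat_lit 67) (nat_lit 5) (nat_lit 68) (nat_lit 5) (nat_lit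 301) (nat_lit 284) (nat_lit 195)) (XT.nd (nat_lit 78) (nat_lit 304) (nat_lit 0) (XT.lf (nat_lit 0) (nat_lit 13787758419) (nat_lit 380) (nat_lit 5959565014) (nat_lit 76) (nat_lit 1772458304) (nat_lit 63) (nat_lit 5) (nat_lit 68) (nat_lit 5) (nat_lit 64) (nat_lit 5) (nat_lit 302) (nat_lit 284) (nat_lit 194)) (XT.lf (nat_lit 0) (nat_lit 4650793201) (nat_lit 304) (nat_lit 12141042276) (nat_lit 380) (nat_lit 5361863124) (nat_lit 59) (nat_lit 5) (nat_lit 63) (nat_lit 5) (nat_lit 64) (nat_lit 5) (nat_lit 303) (nat_lit 284) (nat_lit 193)))))) (XT.nd (nat_lit 390) (nat_lit 760) (nat_lit 0) (XT.nd (nat_lit 156) (nat_lit 304) (nat_lit 0) (XT.nd (nat_lit 78) (nat_lit 304) (nat_lit 0) (XT.lf (nat_lit 0) (nat_lit 15986871726) (nat_lit 304) (nat_lit 4049769054) (nat_lit 380) (nat_lit 2778164874) (nat_lit 59) (nat_lit 5) (nat_lit 63) (nat_lit 5) (nat_lit 64) (nat_lit 5) (nat_lit 304) (nat_lit 284) (nat_lit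 192)) (XT.lf (nat_lit 0) (nat_lit 67739361) (nat_lit 304) (nat_lit 19061738016) (nat_lit 76) (nat_lit 4373013716) (nat_lit 55) (nat_lit 5) (nat_lit 59) (nat_lit 5) (nat_lit 56) (nat_lit 5) (nat_lit 305) (nat_lit 284) (nat_lit 191))) (XT.nd (nat_lit 78) (nat_lit 304) (nat_lit 0) (XT.lf (nat_lit 0) (nat_lit 3136684306) (nat_lit 304) (nat_lit 7834476393) (nat_lit 76) (nat_lit 13242435182) (nat_lit 55) (nat_lit 5) (nat_lit 59) (nat_lit 5) (nat_lit 56) (nat_lit 5) (nat_lit 306) (nat_lit 284) (nat_lit 190)) (XT.nd (nat_lit 78) (nat_lit 0) (nat_lit 0) (XT.lf (nat_lit 0) (nat_lit 4073287321) (nat_lit 304) (nat_lit 2340042119) (nat_lit 380) (nat_lit 18544230742) (nat_lit 51) (nat_lit 5) (nat_lit 55) (nat_lit 5) (nat_lit 56) (nat_lit 5) (nat_lit 307) (nat_lit 284) (nat_lit 189)) (XT.lf (nat_lit 0) (nat_lit 10084520648) (nat_lit 380) (nat_lit 9002277506) (nat_lit 76) (nat_lit 6640404965) (nat_lit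 51) (nat_lit 5) (nat_lit 56) (nat_lit 5) (nat_lit 52) (nat_lit 5) (nat_lit 308) (nat_lit 284) (nat_lit 188))))) (XT.nd (nat_lit 156) (nat_lit 532) (nat_lit 0) (XT.nd (nat_lit 78) (nat_lit 0) (nat_lit 0) (XT.lf (nat_lit 0) (nat_lit 3537744111) (nat_lit 228) (nat_lit 10486455080) (nat_lit 304) (nat_lit 12506897971) (nat_lit 48) (nat_lit 5) (nat_lit 51) (nat_lit 5) (nat_lit 52) (nat_lit 5) (nat_lit 309) (nat_lit 284) (nat_lit 187)) (XT.lf (nat_lit 0) (nat_lit 17006539976) (nat_lit 228) (nat_lit 1298356604) (nat_lit 304) (nat_lit 9063102196) (nat_lit 48) (nat_lit 5) (nat_lit 51) (nat_lit 5) (nat_lit 52) (nat_lit 5) (nat_lit 310) (nat_lit 284) (nat_lit 186))) (XT.nd (nat_lit 78) (nat_lit 304) (nat_lit 0) (XT.lf (nat_lit 0) (nat_lit 2852336034) (nat_lit 228) (nat_lit 20114122599) (nat_lit 304) (nat_lit 5271959266) (nat_lit 45) (nat_lit 5) (nat_lit 48) (nat_lit 5) (nat_lit 49) (nat_lit 5) (nat_lit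 311) (nat_lit 284) (nat_lit 185)) (XT.nd (nat_lit 78) (nat_lit 304) (nat_lit 0) (XT.lf (nat_lit 0) (nat_lit 17054097152) (nat_lit 228) (nat_lit 10995582768) (nat_lit 304) (nat_lit 1093262259) (nat_lit 45) (nat_lit 5) (nat_lit 48) (nat_lit 5) (nat_lit 49) (nat_lit 5) (nat_lit 312) (nat_lit 284) (nat_lit 184)) (XT.lf (nat_lit 0) (nat_lit 1871492058) (nat_lit 228) (nat_lit 1339058542) (nat_lit 304) (nat_lit 26878501311) (nat_lit 41) (nat_lit 5) (nat_lit 44) (nat_lit 5) (nat_lit 45) (nat_lit 5) (nat_lit 313) (nat_lit 284) (nat_lit 183))))))) (XT.nd (nat_lit 780) (nat_lit 836) (nat_lit 0) (XT.nd (nat_lit 390) (nat_lit 456) (nat_lit 0) (XT.nd (nat_lit 156) (nat_lit 152) (nat_lit 0) (XT.nd (nat_lit 78) (nat_lit 228) (nat_lit 0) (XT.lf (nat_lit 0) (nat_lit 8030862433) (nat_lit 304) (nat_lit 14291764176) (nat_lit 76) (nat_lit 8742053399) (nat_lit 41) (nat_lit 5) (nat_lit 45) (nat_lit 5) (nat_lit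 42) (nat_lit 5) (nat_lit 314) (nat_lit 284) (nat_lit 182)) (XT.lf (nat_lit 0) (nat_lit 308332173) (nat_lit 228) (nat_lit 12803542645) (nat_lit 304) (nat_lit 18976241352) (nat_lit 38) (nat_lit 5) (nat_lit 41) (nat_lit 5) (nat_lit 42) (nat_lit 5) (nat_lit 315) (nat_lit 284) (nat_lit 181))) (XT.nd (nat_lit 78) (nat_lit 152) (nat_lit 0) (XT.lf (nat_lit 0) (nat_lit 16124865007) (nat_lit 228) (nat_lit 2557215022) (nat_lit 304) (nat_lit 14468897385) (nat_lit 38) (nat_lit 5) (nat_lit 41) (nat_lit 5) (nat_lit 42) (nat_lit 5) (nat_lit 316) (nat_lit 284) (nat_lit 180)) (XT.nd (nat_lit 78) (nat_lit 152) (nat_lit 0) (XT.lf (nat_lit 0) (nat_lit 24652233044) (nat_lit 304) (nat_lit 1672382422) (nat_lit 76) (nat_lit 7936304272) (nat_lit 38) (nat_lit 5) (nat_lit 42) (nat_lit 5) (nat_lit 39) (nat_lit 5) (nat_lit 317) (nat_lit 284) (nat_lit 179)) (XT.lf (nat_lit 0) (nat_lit 14874053300) (nat_lit 152) (nat_lit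 16314692623) (nat_lit 228) (nat_lit 4224230064) (nat_lit 36) (nat_lit 5) (nat_lit 38) (nat_lit 5) (nat_lit 39) (nat_lit 5) (nat_lit 318) (nat_lit 284) (nat_lit 178))))) (XT.nd (nat_lit 156) (nat_lit 152) (nat_lit 0) (XT.nd (nat_lit 78) (nat_lit 228) (nat_lit 0) (XT.lf (nat_lit 0) (nat_lit 1406240378) (nat_lit 228) (nat_lit 4347318481) (nat_lit 76) (nat_lit 30866841736) (nat_lit 35) (nat_lit 5) (nat_lit 38) (nat_lit 5) (nat_lit 36) (nat_lit 5) (nat_lit 319) (nat_lit 284) (nat_lit 177)) (XT.lf (nat_lit 0) (nat_lit 7460882572) (nat_lit 304) (nat_lit 24970939390) (nat_lit 76) (nat_lit 5438689621) (nat_lit 32) (nat_lit 5) (nat_lit 36) (nat_lit 5) (nat_lit 33) (nat_lit 5) (nat_lit 320) (nat_lit 284) (nat_lit 176))) (XT.nd (nat_lit 78) (nat_lit 152) (nat_lit 0) (XT.lf (nat_lit 0) (nat_lit 13981565998) (nat_lit 304) (nat_lit 8124102722) (nat_lit 76) (nat_lit 17069301696) (nat_lit 32) (nat_lit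 5) (nat_lit 36) (nat_lit 5) (nat_lit 33) (nat_lit 5) (nat_lit 321) (nat_lit 284) (nat_lit 175)) (XT.nd (nat_lit 78) (nat_lit 0) (nat_lit 0) (XT.lf (nat_lit 0) (nat_lit 9872618665) (nat_lit 152) (nat_lit 11104239979) (nat_lit 228) (nat_lit 19560372178) (nat_lit 30) (nat_lit 5) (nat_lit 32) (nat_lit 5) (nat_lit 33) (nat_lit 5) (nat_lit 322) (nat_lit 284) (nat_lit 174)) (XT.lf (nat_lit 0) (nat_lit 28463266172) (nat_lit 228) (nat_lit 12927276777) (nat_lit 76) (nat_lit 570000815) (nat_lit 30) (nat_lit 5) (nat_lit 33) (nat_lit 5) (nat_lit 31) (nat_lit 5) (nat_lit 323) (nat_lit 284) (nat_lit 173)))))) (XT.nd (nat_lit 390) (nat_lit 456) (nat_lit 0) (XT.nd (nat_lit 156) (nat_lit 152) (nat_lit 0) (XT.nd (nat_lit 78) (nat_lit 76) (nat_lit 0) (XT.lf (nat_lit 0) (nat_lit 5688833570) (nat_lit 152) (nat_lit 30900802675) (nat_lit 228) (nat_lit 6852110696) (nat_lit 28) (nat_lit 5) (nat_lit 30) (nat_lit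 5) (nat_lit 31) (nat_lit 5) (nat_lit 324) (nat_lit 284) (nat_lit 172)) (XT.lf (nat_lit 0) (nat_lit 338642905) (nat_lit 228) (nat_lit 19315233452) (nat_lit 76) (nat_lit 25332175207) (nat_lit 27) (nat_lit 5) (nat_lit 30) (nat_lit 5) (nat_lit 28) (nat_lit 5) (nat_lit 325) (nat_lit 284) (nat_lit 171))) (XT.nd (nat_lit 78) (nat_lit 152) (nat_lit 0) (XT.lf (nat_lit 0) (nat_lit 7653725490) (nat_lit 228) (nat_lit 75789154) (nat_lit 76) (nat_lit 38872692716) (nat_lit 27) (nat_lit 5) (nat_lit 30) (nat_lit 5) (nat_lit 28) (nat_lit 5) (nat_lit 326) (nat_lit 284) (nat_lit 170)) (XT.nd (nat_lit 78) (nat_lit 0) (nat_lit 0) (XT.lf (nat_lit 0) (nat_lit 15734430421) (nat_lit 228) (nat_lit 27579858725) (nat_lit 76) (nat_lit 4964893897) (nat_lit 25) (nat_lit 5) (nat_lit 28) (nat_lit 5) (nat_lit 26) (nat_lit 5) (nat_lit 327) (nat_lit 284) (nat_lit 169)) (XT.lf (nat_lit 0) (nat_lit 24342557992) (nat_lit 228)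 (nat_lit 7658344690) (nat_lit 76) (nat_lit 18032940706) (nat_lit 25) (nat_lit 5) (nat_lit 28) (nat_lit 5) (nat_lit 26) (nat_lit 5) (nat_lit 328) (nat_lit 284) (nat_lit 168))))) (XT.nd (nat_lit 234) (nat_lit 228) (nat_lit 0) (XT.nd (nat_lit 78) (nat_lit 76) (nat_lit 0) (XT.lf (nat_lit 0) (nat_lit 13690284750) (nat_lit 152) (nat_lit 19900140876) (nat_lit 228) (nat_lit 18275349435) (nat_lit 23) (nat_lit 5) (nat_lit 25) (nat_lit 5) (nat_lit 26) (nat_lit 5) (nat_lit 329) (nat_lit 284) (nat_lit 167)) (XT.nd (nat_lit 78) (nat_lit 76) (nat_lit 0) (XT.lf (nat_lit 0) (nat_lit 36365206270) (nat_lit 152) (nat_lit 7060868520) (nat_lit 228) (nat_lit 10356963879) (nat_lit 23) (nat_lit 5) (nat_lit 25) (nat_lit 5) (nat_lit 26) (nat_lit 5) (nat_lit 330) (nat_lit 284) (nat_lit 166)) (XT.lf (nat_lit 0) (nat_lit 4411819244) (nat_lit 76) (nat_lit 49506663255) (nat_lit 152) (nat_lit 1869438684) (nat_lit 22)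 (nat_lit 5) (nat_lit 23) (nat_lit 5) (nat_lit 24) (nat_lit 4) (nat_lit 331) (nat_lit 284) (nat_lit 165)))) (XT.nd (nat_lit 78) (nat_lit 152) (nat_lit 0) (XT.lf (nat_lit 0) (nat_lit 7228503819) (nat_lit 152) (nat_lit 30178062707) (nat_lit 76) (nat_lit 20460415587) (nat_lit 21) (nat_lit 5) (nat_lit 23) (nat_lit 5) (nat_lit 22) (nat_lit 5) (nat_lit 332) (nat_lit 284) (nat_lit 164)) (XT.nd (nat_lit 78) (nat_lit 152) (nat_lit 0) (XT.lf (nat_lit 0) (nat_lit 16714591145) (nat_lit 152) (nat_lit 7957325080) (nat_lit 76) (nat_lit 35376747800) (nat_lit 21) (nat_lit 5) (nat_lit 23) (nat_lit 5) (nat_lit 22) (nat_lit 5) (nat_lit 333) (nat_lit 284) (nat_lit 163)) (XT.lf (nat_lit 0) (nat_lit 15876346888) (nat_lit 152) (nat_lit 11042770307) (nat_lit 228) (nat_lit 35408109846) (nat_lit 19) (nat_lit 5) (nat_lit 21) (nat_lit 5) (nat_lit 22) (nat_lit 5) (nat_lit 334) (nat_lit 284) (nat_lit 162))))))))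
noncomputable def xc176 : XT := (XT.nd (nat_lit 1560) (nat_lit 304) (nat_lit 0) (XT.nd (nat_lit 780) (nat_lit 380) (nat_lit 0) (XT.nd (nat_lit 390) (nat_lit 76) (nat_lit 0) (XT.nd (nat_lit 156) (nat_lit 228) (nat_lit 0) (XT.nd (nat_lit 78) (nat_lit 76) (nat_lit 0) (XT.lf (nat_lit 0) (nat_lit 37818163364) (nat_lit 228) (nat_lit 23594538256) (nat_lit 76) (nat_lit 3297805449) (nat_lit 19) (nat_lit 5) (nat_lit 22) (nat_lit 5) (nat_lit 20) (nat_lit 4) (nat_lit 335) (nat_lit 284) (nat_lit 161)) (XT.lf (nat_lit 0) (nat_lit 224794458) (nat_lit 76) (nat_lit 49218385538) (nat_lit 152) (nat_lit 17760723575) (nat_lit 18) (nat_lit 5) (nat_lit 19) (nat_lit 5) (nat_lit 20) (nat_lit 4) (nat_lit 336) (nat_lit 284) (nat_lit 160))) (XT.nd (nat_lit 78) (nat_lit 228) (nat_lit 0) (XT.lf (nat_lit 0) (nat_lit 26048347461) (nat_lit 76) (nat_lit 35997239985) (nat_lit 152) (nat_lit 7756578674) (nat_lit 18) (nat_lit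 5) (nat_lit 19) (nat_lit 5) (nat_lit 20) (nat_lit 4) (nat_lit 337) (nat_lit 284) (nat_lit 159)) (XT.nd (nat_lit 78) (nat_lit 152) (nat_lit 0) (XT.lf (nat_lit 0) (nat_lit 2656489914) (nat_lit 152) (nat_lit 19415892108) (nat_lit 76) (nat_lit 50455984556) (nat_lit 17) (nat_lit 5) (nat_lit 19) (nat_lit 5) (nat_lit 18) (nat_lit 5) (nat_lit 338) (nat_lit 284) (nat_lit 158)) (XT.lf (nat_lit 0) (nat_lit 6204914537) (nat_lit 152) (nat_lit 7218322882) (nat_lit 228) (nat_lit 61956599700) (nat_lit 15) (nat_lit 5) (nat_lit 17) (nat_lit 5) (nat_lit 18) (nat_lit 5) (nat_lit 339) (nat_lit 284) (nat_lit 157))))) (XT.nd (nat_lit 156) (nat_lit 76) (nat_lit 0) (XT.nd (nat_lit 78) (nat_lit 0) (nat_lit 0) (XT.lf (nat_lit 0) (nat_lit 25190194832) (nat_lit 228) (nat_lit 44718294448) (nat_lit 76) (nat_lit 8442300931) (nat_lit 15) (nat_lit 5) (nat_lit 18) (nat_lit 5) (nat_lit 16) (nat_lit 4) (nat_lit 340) (nat_lit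 284) (nat_lit 156)) (XT.lf (nat_lit 0) (nat_lit 37660836738) (nat_lit 228) (nat_lit 19162396846) (nat_lit 76) (nat_lit 24641293066) (nat_lit 15) (nat_lit 5) (nat_lit 18) (nat_lit 5) (nat_lit 16) (nat_lit 4) (nat_lit 341) (nat_lit 284) (nat_lit 155))) (XT.nd (nat_lit 78) (nat_lit 0) (nat_lit 0) (XT.lf (nat_lit 0) (nat_lit 7919798873) (nat_lit 76) (nat_lit 42956008277) (nat_lit 152) (nat_lit 33852105344) (nat_lit 14) (nat_lit 5) (nat_lit 15) (nat_lit 5) (nat_lit 16) (nat_lit 4) (nat_lit 342) (nat_lit 284) (nat_lit 154)) (XT.nd (nat_lit 78) (nat_lit 0) (nat_lit 0) (XT.lf (nat_lit 0) (nat_lit 37016480059) (nat_lit 76) (nat_lit 28056776043) (nat_lit 152) (nat_lit 23065127315) (nat_lit 14) (nat_lit 5) (nat_lit 15) (nat_lit 5) (nat_lit 16) (nat_lit 4) (nat_lit 343) (nat_lit 284) (nat_lit 153)) (XT.lf (nat_lit 0) (nat_lit 67563329144) (nat_lit 76) (nat_lit 12414586984) (nat_lit 152) (nat_lit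 11741597008) (nat_lit 14) (nat_lit 5) (nat_lit 15) (nat_lit 5) (nat_lit 16) (nat_lit 4) (nat_lit 344) (nat_lit 284) (nat_lit 152)))))) (XT.nd (nat_lit 390) (nat_lit 152) (nat_lit 0) (XT.nd (nat_lit 156) (nat_lit 76) (nat_lit 0) (XT.nd (nat_lit 78) (nat_lit 0) (nat_lit 0) (XT.lf (nat_lit 0) (nat_lit 271450238) (nat_lit 152) (nat_lit 91251847040) (nat_lit 76) (nat_lit 3949884375) (nat_lit 12) (nat_lit 5) (nat_lit 14) (nat_lit 5) (nat_lit 13) (nat_lit 4) (nat_lit 345) (nat_lit 284) (nat_lit 151)) (XT.lf (nat_lit 0) (nat_lit 13107320965) (nat_lit 152) (nat_lit 64944967027) (nat_lit 76) (nat_lit 21321784939) (nat_lit 12) (nat_lit 5) (nat_lit 14) (nat_lit 5) (nat_lit 13) (nat_lit 4) (nat_lit 346) (nat_lit 284) (nat_lit 150))) (XT.nd (nat_lit 78) (nat_lit 76) (nat_lit 0) (XT.lf (nat_lit 0) (nat_lit 26582551690) (nat_lit 152) (nat_lit 37327082115) (nat_lit 76) (nat_lit 39560498439) (nat_lit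 12) (nat_lit 5) (nat_lit 14) (nat_lit 5) (nat_lit 13) (nat_lit 4) (nat_lit 347) (nat_lit 284) (nat_lit 149)) (XT.nd (nat_lit 78) (nat_lit 76) (nat_lit 0) (XT.lf (nat_lit 0) (nat_lit 40729226295) (nat_lit 152) (nat_lit 8332435436) (nat_lit 76) (nat_lit 58709450382) (nat_lit 12) (nat_lit 5) (nat_lit 14) (nat_lit 5) (nat_lit 13) (nat_lit 4) (nat_lit 348) (nat_lit 284) (nat_lit 148)) (XT.lf (nat_lit 0) (nat_lit 22838998466) (nat_lit 76) (nat_lit 33098609644) (nat_lit 152) (nat_lit 56331815818) (nat_lit 11) (nat_lit 5) (nat_lit 12) (nat_lit 5) (nat_lit 13) (nat_lit 4) (nat_lit 349) (nat_lit 284) (nat_lit 147))))) (XT.nd (nat_lit 156) (nat_lit 152) (nat_lit 0) (XT.nd (nat_lit 78) (nat_lit 0) (nat_lit 0) (XT.lf (nat_lit 0) (nat_lit 55854415194) (nat_lit 76) (nat_lit 16190945011) (nat_lit 152) (nat_lit 44940345119) (nat_lit 11) (nat_lit 5) (nat_lit 12) (nat_lit 5) (nat_lit 13) (nat_lit 4) (nat_lit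 350) (nat_lit 284) (nat_lit 146)) (XT.lf (nat_lit 0) (nat_lit 88980803632) (nat_lit 152) (nat_lit 31445353696) (nat_lit 0) (nat_lit 1510529750) (nat_lit 11) (nat_lit 5) (nat_lit 13) (nat_lit 4) (nat_lit 11) (nat_lit 4) (nat_lit 351) (nat_lit 284) (nat_lit 145))) (XT.nd (nat_lit 78) (nat_lit 152) (nat_lit 0) (XT.lf (nat_lit 0) (nat_lit 107026458771) (nat_lit 152) (nat_lit 544133255) (nat_lit 0) (nat_lit 19551455322) (nat_lit 11) (nat_lit 5) (nat_lit 13) (nat_lit 4) (nat_lit 11) (nat_lit 4) (nat_lit 352) (nat_lit 284) (nat_lit 144)) (XT.nd (nat_lit 78) (nat_lit 76) (nat_lit 0) (XT.lf (nat_lit 0) (nat_lit 32953447677) (nat_lit 76) (nat_lit 93533553436) (nat_lit 76) (nat_lit 6054045636) (nat_lit 10) (nat_lit 4) (nat_lit 11) (nat_lit 5) (nat_lit 11) (nat_lit 4) (nat_lit 353) (nat_lit 284) (nat_lit 143)) (XT.lf (nat_lit 0) (nat_lit 8418934759) (nat_lit 152) (nat_lit 70224981400) (nat_lit 76)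 (nat_lit 59579923694) (nat_lit 9) (nat_lit 5) (nat_lit 11) (nat_lit 5) (nat_lit 10) (nat_lit 4) (nat_lit 354) (nat_lit 284) (nat_lit 142))))))) (XT.nd (nat_lit 780) (nat_lit 152) (nat_lit 0) (XT.nd (nat_lit 390) (nat_lit 76) (nat_lit 0) (XT.nd (nat_lit 156) (nat_lit 76) (nat_lit 0) (XT.nd (nat_lit 78) (nat_lit 0) (nat_lit 0) (XT.lf (nat_lit 0) (nat_lit 23410313046) (nat_lit 152) (nat_lit 39496741491) (nat_lit 76) (nat_lit 81278846675) (nat_lit 9) (nat_lit 5) (nat_lit 11) (nat_lit 5) (nat_lit 10) (nat_lit 4) (nat_lit 355) (nat_lit 284) (nat_lit 141)) (XT.lf (nat_lit 0) (nat_lit 39149550250) (nat_lit 152) (nat_lit 7235196249) (nat_lit 76) (nat_lit 104061405740) (nat_lit 9) (nat_lit 5) (nat_lit 11) (nat_lit 5) (nat_lit 10) (nat_lit 4) (nat_lit 356) (nat_lit 284) (nat_lit 140))) (XT.nd (nat_lit 78) (nat_lit 0) (nat_lit 0) (XT.lf (nat_lit 0) (nat_lit 27517189436) (nat_lit 76) (nat_lit 28586551753)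 (nat_lit 152) (nat_lit 100894276084) (nat_lit 8) (nat_lit 5) (nat_lit 9) (nat_lit 5) (nat_lit 10) (nat_lit 4) (nat_lit 357) (nat_lit 284) (nat_lit 139)) (XT.nd (nat_lit 78) (nat_lit 0) (nat_lit 0) (XT.lf (nat_lit 0) (nat_lit 64255473078) (nat_lit 76) (nat_lit 9771103681) (nat_lit 152) (nat_lit 89844853044) (nat_lit 8) (nat_lit 5) (nat_lit 9) (nat_lit 5) (nat_lit 10) (nat_lit 4) (nat_lit 358) (nat_lit 284) (nat_lit 138)) (XT.lf (nat_lit 0) (nat_lit 92999909774) (nat_lit 152) (nat_lit 68416567527) (nat_lit 0) (nat_lit 9664318826) (nat_lit 8) (nat_lit 5) (nat_lit 10) (nat_lit 4) (nat_lit 8) (nat_lit 4) (nat_lit 359) (nat_lit 284) (nat_lit 137))))) (XT.nd (nat_lit 156) (nat_lit 76) (nat_lit 0) (XT.nd (nat_lit 78) (nat_lit 0) (nat_lit 0) (XT.lf (nat_lit 0) (nat_lit 113080624809) (nat_lit 152) (nat_lit 35820085957) (nat_lit 0) (nat_lit 29741985139) (nat_lit 8) (nat_lit 5) (nat_lit 10) (nat_lit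 4) (nat_lit 8) (nat_lit 4) (nat_lit 360) (nat_lit 284) (nat_lit 136)) (XT.lf (nat_lit 0) (nat_lit 134163978779) (nat_lit 152) (nat_lit 1596347032) (nat_lit 0) (nat_lit 50822435564) (nat_lit 8) (nat_lit 5) (nat_lit 10) (nat_lit 4) (nat_lit 8) (nat_lit 4) (nat_lit 361) (nat_lit 284) (nat_lit 135))) (XT.nd (nat_lit 78) (nat_lit 0) (nat_lit 0) (XT.lf (nat_lit 0) (nat_lit 35471442007) (nat_lit 76) (nat_lit 121382536756) (nat_lit 76) (nat_lit 38038228261) (nat_lit 7) (nat_lit 4) (nat_lit 8) (nat_lit 5) (nat_lit 8) (nat_lit 4) (nat_lit 362) (nat_lit 284) (nat_lit 134)) (XT.nd (nat_lit 78) (nat_lit 0) (nat_lit 0) (XT.lf (nat_lit 0) (nat_lit 74445636992) (nat_lit 76) (nat_lit 106258572161) (nat_lit 76) (nat_lit 22911630065) (nat_lit 7) (nat_lit 4) (nat_lit 8) (nat_lit 5) (nat_lit 8) (nat_lit 4) (nat_lit 363) (nat_lit 284) (nat_lit 133)) (XT.lf (nat_lit 0) (nat_lit 115366251182) (nat_lit 76) (nat_lit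 90379457496) (nat_lit 76) (nat_lit 7030007209) (nat_lit 7) (nat_lit 4) (nat_lit 8) (nat_lit 5) (nat_lit 8) (nat_lit 4) (nat_lit 364) (nat_lit 284) (nat_lit 132)))))) (XT.nd (nat_lit 390) (nat_lit 0) (nat_lit 0) (XT.nd (nat_lit 156) (nat_lit 76) (nat_lit 0) (XT.nd (nat_lit 78) (nat_lit 0) (nat_lit 0) (XT.lf (nat_lit 0) (nat_lit 9335770946) (nat_lit 152) (nat_lit 64213508600) (nat_lit 76) (nat_lit 148836837866) (nat_lit 6) (nat_lit 5) (nat_lit 8) (nat_lit 5) (nat_lit 7) (nat_lit 4) (nat_lit 365) (nat_lit 284) (nat_lit 131)) (XT.lf (nat_lit 0) (nat_lit 26282437661) (nat_lit 152) (nat_lit 29475116836) (nat_lit 76) (nat_lit 176713780158) (nat_lit 6) (nat_lit 5) (nat_lit 8) (nat_lit 5) (nat_lit 7) (nat_lit 4) (nat_lit 366) (nat_lit 284) (nat_lit 130))) (XT.nd (nat_lit 78) (nat_lit 0) (nat_lit 0) (XT.lf (nat_lit 0) (nat_lit 7229570563) (nat_lit 76) (nat_lit 36958649571) (nat_lit 152) (nat_lit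 198867004120) (nat_lit 5) (nat_lit 5) (nat_lit 6) (nat_lit 5) (nat_lit 7) (nat_lit 4) (nat_lit 367) (nat_lit 284) (nat_lit 129)) (XT.nd (nat_lit 78) (nat_lit 0) (nat_lit 0) (XT.lf (nat_lit 0) (nat_lit 46790818980) (nat_lit 76) (nat_lit 16696577696) (nat_lit 152) (nat_lit 190656006993) (nat_lit 5) (nat_lit 5) (nat_lit 6) (nat_lit 5) (nat_lit 7) (nat_lit 4) (nat_lit 368) (nat_lit 284) (nat_lit 128)) (XT.lf (nat_lit 0) (nat_lit 83821983774) (nat_lit 152) (nat_lit 177529273373) (nat_lit 0) (nat_lit 4431212878) (nat_lit 5) (nat_lit 5) (nat_lit 7) (nat_lit 4) (nat_lit 5) (nat_lit 4) (nat_lit 369) (nat_lit 284) (nat_lit 127))))) (XT.nd (nat_lit 156) (nat_lit 0) (nat_lit 0) (XT.nd (nat_lit 78) (nat_lit 0) (nat_lit 0) (XT.lf (nat_lit 0) (nat_lit 105446030790) (nat_lit 152) (nat_lit 146490345539) (nat_lit 0) (nat_lit 26053477369) (nat_lit 5) (nat_lit 5) (nat_lit 7) (nat_lit 4) (nat_lit 5) (nat_lit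 4) (nat_lit 370) (nat_lit 284) (nat_lit 126)) (XT.lf (nat_lit 0) (nat_lit 128150343182) (nat_lit 152) (nat_lit 113901218609) (nat_lit 0) (nat_lit 48756092119) (nat_lit 5) (nat_lit 5) (nat_lit 7) (nat_lit 4) (nat_lit 5) (nat_lit 4) (nat_lit 371) (nat_lit 284) (nat_lit 125))) (XT.nd (nat_lit 78) (nat_lit 0) (nat_lit 0) (XT.lf (nat_lit 0) (nat_lit 151988978836) (nat_lit 152) (nat_lit 79684299423) (nat_lit 0) (nat_lit 72593110971) (nat_lit 5) (nat_lit 5) (nat_lit 7) (nat_lit 4) (nat_lit 5) (nat_lit 4) (nat_lit 372) (nat_lit 284) (nat_lit 124)) (XT.nd (nat_lit 78) (nat_lit 0) (nat_lit 0) (XT.lf (nat_lit 0) (nat_lit 177018696409) (nat_lit 152) (nat_lit 43758119126) (nat_lit 0) (nat_lit 97621288732) (nat_lit 5) (nat_lit 5) (nat_lit 7) (nat_lit 4) (nat_lit 5) (nat_lit 4) (nat_lit 373) (nat_lit 284) (nat_lit 123)) (XT.lf (nat_lit 0) (nat_lit 203299090465) (nat_lit 152) (nat_lit 6037139193) (nat_lit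 0) (nat_lit 123900216302) (nat_lit 5) (nat_lit 5) (nat_lit 7) (nat_lit 4) (nat_lit 5) (nat_lit 4) (nat_lit 374) (nat_lit 284) (nat_lit 122))))))))
noncomputable def xc177 : XT := (XT.nd (nat_lit 34398) (nat_lit 0) (nat_lit 2888) (XT.nd (nat_lit 33618) (nat_lit 0) (nat_lit 6156) (XT.nd (nat_lit 390) (nat_lit 76) (nat_lit 0) (XT.nd (nat_lit 156) (nat_lit 0) (nat_lit 0) (XT.nd (nat_lit 78) (nat_lit 0) (nat_lit 0) (XT.lf (nat_lit 0) (nat_lit 34678376861) (nat_lit 76) (nat_lit 196755783161) (nat_lit 76) (nat_lit 117355512342) (nat_lit 4) (nat_lit 4) (nat_lit 5) (nat_lit 5) (nat_lit 5) (nat_lit 4) (nat_lit 375) (nat_lit 284) (nat_lit 121)) (XT.lf (nat_lit 0) (nat_lit 77637850241) (nat_lit 76) (nat_lit 183439618463) (nat_lit 76) (nat_lit 104038017497) (nat_lit 4) (nat_lit 4) (nat_lit 5) (nat_lit 5) (nat_lit 5) (nat_lit 4) (nat_lit 376) (nat_lit 284) (nat_lit 120))) (XT.nd (nat_lit 78) (nat_lit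 0) (nat_lit 0) (XT.lf (nat_lit 0) (nat_lit 122743950320) (nat_lit 76) (nat_lit 169458272284) (nat_lit 76) (nat_lit 90055404512) (nat_lit 4) (nat_lit 4) (nat_lit 5) (nat_lit 5) (nat_lit 5) (nat_lit 4) (nat_lit 377) (nat_lit 284) (nat_lit 119)) (XT.nd (nat_lit 78) (nat_lit 0) (nat_lit 0) (XT.lf (nat_lit 0) (nat_lit 170104072575) (nat_lit 76) (nat_lit 154778455706) (nat_lit 76) (nat_lit 75374381451) (nat_lit 4) (nat_lit 4) (nat_lit 5) (nat_lit 5) (nat_lit 5) (nat_lit 4) (nat_lit 378) (nat_lit 284) (nat_lit 118)) (XT.lf (nat_lit 0) (nat_lit 219830979201) (nat_lit 76) (nat_lit 139365216785) (nat_lit 76) (nat_lit 59959993498) (nat_lit 4) (nat_lit 4) (nat_lit 5) (nat_lit 5) (nat_lit 5) (nat_lit 4) (nat_lit 379) (nat_lit 284) (nat_lit 117))))) (XT.nd (nat_lit 156) (nat_lit 76) (nat_lit 0) (XT.nd (nat_lit 78) (nat_lit 0) (nat_lit 0) (XT.lf (nat_lit 0) (nat_lit 272043067594) (nat_lit 76) (nat_lit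 123181857331) (nat_lit 76) (nat_lit 43775539730) (nat_lit 4) (nat_lit 4) (nat_lit 5) (nat_lit 5) (nat_lit 5) (nat_lit 4) (nat_lit 380) (nat_lit 284) (nat_lit 116)) (XT.lf (nat_lit 0) (nat_lit 326864652252) (nat_lit 76) (nat_lit 106189845538) (nat_lit 76) (nat_lit 26782485731) (nat_lit 4) (nat_lit 4) (nat_lit 5) (nat_lit 5) (nat_lit 5) (nat_lit 4) (nat_lit 381) (nat_lit 284) (nat_lit 115))) (XT.nd (nat_lit 78) (nat_lit 76) (nat_lit 0) (XT.lf (nat_lit 0) (nat_lit 384426260756) (nat_lit 76) (nat_lit 88348724233) (nat_lit 76) (nat_lit 8940371850) (nat_lit 4) (nat_lit 4) (nat_lit 5) (nat_lit 5) (nat_lit 5) (nat_lit 4) (nat_lit 382) (nat_lit 284) (nat_lit 114)) (XT.nd (nat_lit 78) (nat_lit 0) (nat_lit 0) (XT.lf (nat_lit 0) (nat_lit 9479836915) (nat_lit 152) (nat_lit 59975632017) (nat_lit 76) (nat_lit 435224562015) (nat_lit 3) (nat_lit 5) (nat_lit 5) (nat_lit 5) (nat_lit 4) (nat_lit 4) (nat_lit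 383) (nat_lit 284) (nat_lit 113)) (XT.lf (nat_lit 0) (nat_lit 28520080506) (nat_lit 152) (nat_lit 20944032951) (nat_lit 76) (nat_lit 479321523409) (nat_lit 3) (nat_lit 5) (nat_lit 5) (nat_lit 5) (nat_lit 4) (nat_lit 4) (nat_lit 384) (nat_lit 284) (nat_lit 112)))))) (XT.nd (nat_lit 390) (nat_lit 0) (nat_lit 76) (XT.nd (nat_lit 156) (nat_lit 0) (nat_lit 0) (XT.nd (nat_lit 78) (nat_lit 0) (nat_lit 0) (XT.lf (nat_lit 0) (nat_lit 1482469799) (nat_lit 0) (nat_lit 1482469799) (nat_lit 684) (nat_lit 4078108364) (nat_lit 84) (nat_lit 5) (nat_lit 84) (nat_lit 3) (nat_lit 93) (nat_lit 3) (nat_lit 285) (nat_lit 285) (nat_lit 210)) (XT.lf (nat_lit 0) (nat_lit 6445186590) (nat_lit 684) (nat_lit 4870065909) (nat_lit 760) (nat_lit 3103906442) (nat_lit 84) (nat_lit 5) (nat_lit 93) (nat_lit 3) (nat_lit 94) (nat_lit 5) (nat_lit 286) (nat_lit 285) (nat_lit 209))) (XT.nd (nat_lit 78) (nat_lit 0) (nat_lit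 76) (XT.lf (nat_lit 76) (nat_lit 1687621874) (nat_lit 0) (nat_lit 5353458166) (nat_lit 760) (nat_lit 7725101170) (nat_lit 85) (nat_lit 5) (nat_lit 84) (nat_lit 5) (nat_lit 94) (nat_lit 5) (nat_lit 287) (nat_lit 285) (nat_lit 208)) (XT.nd (nat_lit 78) (nat_lit 0) (nat_lit 0) (XT.lf (nat_lit 0) (nat_lit 7745527268) (nat_lit 684) (nat_lit 6411985500) (nat_lit 760) (nat_lit 969148760) (nat_lit 85) (nat_lit 5) (nat_lit 94) (nat_lit 5) (nat_lit 95) (nat_lit 5) (nat_lit 288) (nat_lit 285) (nat_lit 207)) (XT.lf (nat_lit 76) (nat_lit 504569004) (nat_lit 0) (nat_lit 8057960776) (nat_lit 760) (nat_lit 6938812191) (nat_lit 86) (nat_lit 5) (nat_lit 85) (nat_lit 5) (nat_lit 95) (nat_lit 5) (nat_lit 289) (nat_lit 285) (nat_lit 206))))) (XT.nd (nat_lit 156) (nat_lit 0) (nat_lit 76) (XT.nd (nat_lit 78) (nat_lit 0) (nat_lit 76) (XT.lf (nat_lit 76) (nat_lit 7978014404) (nat_lit 0) (nat_lit 1533343126)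 (nat_lit 760) (nat_lit 6378890868) (nat_lit 86) (nat_lit 5) (nat_lit 85) (nat_lit 5) (nat_lit 95) (nat_lit 5) (nat_lit 290) (nat_lit 285) (nat_lit 205)) (XT.lf (nat_lit 0) (nat_lit 10573961910) (nat_lit 684) (nat_lit 568453709) (nat_lit 760) (nat_lit 5152906545) (nat_lit 86) (nat_lit 5) (nat_lit 95) (nat_lit 5) (nat_lit 96) (nat_lit 5) (nat_lit 291) (nat_lit 285) (nat_lit 204))) (XT.nd (nat_lit 78) (nat_lit 0) (nat_lit 76) (XT.lf (nat_lit 76) (nat_lit 7340940004) (nat_lit 0) (nat_lit 4472614570) (nat_lit 760) (nat_lit 4900939073) (nat_lit 87) (nat_lit 5) (nat_lit 86) (nat_lit 5) (nat_lit 96) (nat_lit 5) (nat_lit 292) (nat_lit 285) (nat_lit 203)) (XT.nd (nat_lit 78) (nat_lit 0) (nat_lit 0) (XT.lf (nat_lit 0) (nat_lit 13149177019) (nat_lit 684) (nat_lit 1540347895) (nat_lit 760) (nat_lit 2463431457) (nat_lit 87) (nat_lit 5) (nat_lit 96) (nat_lit 5) (nat_lit 97) (nat_lit 5) (nat_lit 293)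 (nat_lit 285) (nat_lit 202)) (XT.lf (nat_lit 76) (nat_lit 6817911773) (nat_lit 0) (nat_lit 7898917393) (nat_lit 760) (nat_lit 2888284135) (nat_lit 88) (nat_lit 5) (nat_lit 87) (nat_lit 5) (nat_lit 97) (nat_lit 5) (nat_lit 294) (nat_lit 285) (nat_lit 201))))))) (XT.nd (nat_lit 780) (nat_lit 1368) (nat_lit 0) (XT.nd (nat_lit 390) (nat_lit 988) (nat_lit 0) (XT.nd (nat_lit 156) (nat_lit 532) (nat_lit 0) (XT.nd (nat_lit 78) (nat_lit 608) (nat_lit 0) (XT.lf (nat_lit 76) (nat_lit 15636246746) (nat_lit 0) (nat_lit 738698784) (nat_lit 760) (nat_lit 1704360370) (nat_lit 88) (nat_lit 5) (nat_lit 87) (nat_lit 5) (nat_lit 97) (nat_lit 5) (nat_lit 295) (nat_lit 285) (nat_lit 200)) (XT.lf (nat_lit 0) (nat_lit 6405960041) (nat_lit 684) (nat_lit 11902572106) (nat_lit 760) (nat_lit 259078146) (nat_lit 79) (nat_lit 5) (nat_lit 88) (nat_lit 5) (nat_lit 89) (nat_lit 5) (nat_lit 296) (nat_lit 285) (nat_lit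 199))) (XT.nd (nat_lit 78) (nat_lit 456) (nat_lit 0) (XT.lf (nat_lit 0) (nat_lit 1259271641) (nat_lit 760) (nat_lit 3340237687) (nat_lit 76) (nat_lit 14477811610) (nat_lit 78) (nat_lit 5) (nat_lit 88) (nat_lit 5) (nat_lit 79) (nat_lit 5) (nat_lit 297) (nat_lit 285) (nat_lit 198)) (XT.nd (nat_lit 78) (nat_lit 0) (nat_lit 0) (XT.lf (nat_lit 0) (nat_lit 2977207156) (nat_lit 532) (nat_lit 13555675803) (nat_lit 76) (nat_lit 3072829299) (nat_lit 72) (nat_lit 5) (nat_lit 79) (nat_lit 5) (nat_lit 73) (nat_lit 5) (nat_lit 298) (nat_lit 285) (nat_lit 197)) (XT.lf (nat_lit 0) (nat_lit 4901916046) (nat_lit 532) (nat_lit 4219921837) (nat_lit 76) (nat_lit 11032666426) (nat_lit 72) (nat_lit 5) (nat_lit 79) (nat_lit 5) (nat_lit 73) (nat_lit 5) (nat_lit 299) (nat_lit 285) (nat_lit 196))))) (XT.nd (nat_lit 156) (nat_lit 608) (nat_lit 0) (XT.nd (nat_lit 78) (nat_lit 0) (nat_lit 0) (XT.lf (nat_lit 0) (nat_lit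 5755707169) (nat_lit 380) (nat_lit 1245567277) (nat_lit 456) (nat_lit 13725564621) (nat_lit 67) (nat_lit 5) (nat_lit 72) (nat_lit 5) (nat_lit 73) (nat_lit 5) (nat_lit 300) (nat_lit 285) (nat_lit 195)) (XT.lf (nat_lit 0) (nat_lit 9376838612) (nat_lit 456) (nat_lit 5069967441) (nat_lit 76) (nat_lit 6872445292) (nat_lit 67) (nat_lit 5) (nat_lit 73) (nat_lit 5) (nat_lit 68) (nat_lit 5) (nat_lit 301) (nat_lit 285) (nat_lit 194))) (XT.nd (nat_lit 78) (nat_lit 304) (nat_lit 0) (XT.lf (nat_lit 0) (nat_lit 5469926965) (nat_lit 304) (nat_lit 6496528759) (nat_lit 380) (nat_lit 9970086369) (nat_lit 63) (nat_lit 5) (nat_lit 67) (nat_lit 5) (nat_lit 68) (nat_lit 5) (nat_lit 302) (nat_lit 285) (nat_lit 193)) (XT.nd (nat_lit 78) (nat_lit 304) (nat_lit 0) (XT.lf (nat_lit 0) (nat_lit 14791505968) (nat_lit 380) (nat_lit 5909207081) (nat_lit 76) (nat_lit 1878707282) (nat_lit 63) (nat_lit 5) (nat_lit 68)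 (nat_lit 5) (nat_lit 64) (nat_lit 5) (nat_lit 303) (nat_lit 285) (nat_lit 192)) (XT.lf (nat_lit 0) (nat_lit 5226050719) (nat_lit 304) (nat_lit 12710117439) (nat_lit 380) (nat_lit 5309375935) (nat_lit 59) (nat_lit 5) (nat_lit 63) (nat_lit 5) (nat_lit 64) (nat_lit 5) (nat_lit 304) (nat_lit 285) (nat_lit 191)))))) (XT.nd (nat_lit 390) (nat_lit 760) (nat_lit 0) (XT.nd (nat_lit 156) (nat_lit 304) (nat_lit 0) (XT.nd (nat_lit 78) (nat_lit 304) (nat_lit 0) (XT.lf (nat_lit 0) (nat_lit 17112613272) (nat_lit 304) (nat_lit 4216088983) (nat_lit 380) (nat_lit 2611758503) (nat_lit 59) (nat_lit 5) (nat_lit 63) (nat_lit 5) (nat_lit 64) (nat_lit 5) (nat_lit 305) (nat_lit 285) (nat_lit 190)) (XT.lf (nat_lit 0) (nat_lit 358464822) (nat_lit 304) (nat_lit 19669384076) (nat_lit 76) (nat_lit 4634879455) (nat_lit 55) (nat_lit 5) (nat_lit 59) (nat_lit 5) (nat_lit 56) (nat_lit 5) (nat_lit 306) (nat_lit 285) (nat_lit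 189))) (XT.nd (nat_lit 78) (nat_lit 304) (nat_lit 0) (XT.lf (nat_lit 0) (nat_lit 3567174228) (nat_lit 304) (nat_lit 7897208936) (nat_lit 76) (nat_lit 13945714135) (nat_lit 55) (nat_lit 5) (nat_lit 59) (nat_lit 5) (nat_lit 56) (nat_lit 5) (nat_lit 307) (nat_lit 285) (nat_lit 188)) (XT.nd (nat_lit 78) (nat_lit 0) (nat_lit 0) (XT.lf (nat_lit 0) (nat_lit 4600636652) (nat_lit 304) (nat_lit 2399037371) (nat_lit 380) (nat_lit 19192008271) (nat_lit 51) (nat_lit 5) (nat_lit 55) (nat_lit 5) (nat_lit 56) (nat_lit 5) (nat_lit 308) (nat_lit 285) (nat_lit 187)) (XT.lf (nat_lit 0) (nat_lit 10842635977) (nat_lit 380) (nat_lit 9131881655) (nat_lit 76) (nat_lit 7025901663) (nat_lit 51) (nat_lit 5) (nat_lit 56) (nat_lit 5) (nat_lit 52) (nat_lit 5) (nat_lit 309) (nat_lit 285) (nat_lit 186))))) (XT.nd (nat_lit 234) (nat_lit 304) (nat_lit 0) (XT.nd (nat_lit 78) (nat_lit 228) (nat_lit 0) (XT.lf (nat_lit 0)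 (nat_lit 4029971530) (nat_lit 228) (nat_lit 10942160295) (nat_lit 304) (nat_lit 12872755952) (nat_lit 48) (nat_lit 5) (nat_lit 51) (nat_lit 5) (nat_lit 52) (nat_lit 5) (nat_lit 310) (nat_lit 285) (nat_lit 185)) (XT.nd (nat_lit 78) (nat_lit 228) (nat_lit 0) (XT.lf (nat_lit 0) (nat_lit 18157190988) (nat_lit 228) (nat_lit 1297924397) (nat_lit 304) (nat_lit 9269126908) (nat_lit 48) (nat_lit 5) (nat_lit 51) (nat_lit 5) (nat_lit 52) (nat_lit 5) (nat_lit 311) (nat_lit 285) (nat_lit 184)) (XT.lf (nat_lit 0) (nat_lit 3301389423) (nat_lit 228) (nat_lit 21042932927) (nat_lit 304) (nat_lit 5294151097) (nat_lit 45) (nat_lit 5) (nat_lit 48) (nat_lit 5) (nat_lit 49) (nat_lit 5) (nat_lit 312) (nat_lit 285) (nat_lit 183)))) (XT.nd (nat_lit 78) (nat_lit 304) (nat_lit 0) (XT.lf (nat_lit 0) (nat_lit 18198646379) (nat_lit 228) (nat_lit 11472127809) (nat_lit 304) (nat_lit 918014771) (nat_lit 45) (nat_lit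 5) (nat_lit 48) (nat_lit 5) (nat_lit 49) (nat_lit 5) (nat_lit 313) (nat_lit 285) (nat_lit 182)) (XT.nd (nat_lit 78) (nat_lit 0) (nat_lit 0) (XT.lf (nat_lit 0) (nat_lit 2259790276) (nat_lit 228) (nat_lit 1327843626) (nat_lit 304) (nat_lit 27994707381) (nat_lit 41) (nat_lit 5) (nat_lit 44) (nat_lit 5) (nat_lit 45) (nat_lit 5) (nat_lit 314) (nat_lit 285) (nat_lit 181)) (XT.lf (nat_lit 0) (nat_lit 8639811452) (nat_lit 304) (nat_lit 14716193890) (nat_lit 76) (nat_lit 9251218911) (nat_lit 41) (nat_lit 5) (nat_lit 45) (nat_lit 5) (nat_lit 42) (nat_lit 5) (nat_lit 315) (nat_lit 285) (nat_lit 180))))))))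
noncomputable def xc178 : XT := (XT.nd (nat_lit 1560) (nat_lit 760) (nat_lit 0) (XT.nd (nat_lit 780) (nat_lit 684) (nat_lit 0) (XT.nd (nat_lit 390) (nat_lit 532) (nat_lit 0) (XT.nd (nat_lit 156) (nat_lit 228) (nat_lit 0) (XT.nd (nat_lit 78) (nat_lit 0) (nat_lit 0) (XT.lf (nat_lit 0) (nat_lit 609227301) (nat_lit 228) (nat_lit 13360227803) (nat_lit 304) (nat_lit 19712663298) (nat_lit 38) (nat_lit 5) (nat_lit 41) (nat_lit 5) (nat_lit 42) (nat_lit 5) (nat_lit 316) (nat_lit 285) (nat_lit 179)) (XT.lf (nat_lit 0) (nat_lit 17202992562) (nat_lit 228) (nat_lit 2605559607) (nat_lit 304) (nat_lit 14990065948) (nat_lit 38) (nat_lit 5) (nat_lit 41) (nat_lit 5) (nat_lit 42) (nat_lit 5) (nat_lit 317) (nat_lit 285) (nat_lit 178))) (XT.nd (nat_lit 78) (nat_lit 228) (nat_lit 0) (XT.lf (nat_lit 0) (nat_lit 26069234799) (nat_lit 304) (nat_lit 1488810112) (nat_lit 76) (nat_lit 8406425345) (nat_lit 38) (nat_lit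 5) (nat_lit 42) (nat_lit 5) (nat_lit 39) (nat_lit 5) (nat_lit 318) (nat_lit 285) (nat_lit 177)) (XT.nd (nat_lit 78) (nat_lit 76) (nat_lit 0) (XT.lf (nat_lit 0) (nat_lit 15880637856) (nat_lit 152) (nat_lit 17047259308) (nat_lit 228) (nat_lit 4246479103) (nat_lit 36) (nat_lit 5) (nat_lit 38) (nat_lit 5) (nat_lit 39) (nat_lit 5) (nat_lit 319) (nat_lit 285) (nat_lit 176)) (XT.lf (nat_lit 0) (nat_lit 1650756668) (nat_lit 228) (nat_lit 4308322332) (nat_lit 76) (nat_lit 32483393023) (nat_lit 35) (nat_lit 5) (nat_lit 38) (nat_lit 5) (nat_lit 36) (nat_lit 5) (nat_lit 320) (nat_lit 285) (nat_lit 175))))) (XT.nd (nat_lit 156) (nat_lit 304) (nat_lit 0) (XT.nd (nat_lit 78) (nat_lit 0) (nat_lit 0) (XT.lf (nat_lit 0) (nat_lit 8005059693) (nat_lit 304) (nat_lit 25959825972) (nat_lit 76) (nat_lit 5790367813) (nat_lit 32) (nat_lit 5) (nat_lit 36) (nat_lit 5) (nat_lit 33) (nat_lit 5) (nat_lit 321) (nat_lit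 285) (nat_lit 174)) (XT.lf (nat_lit 0) (nat_lit 14843628101) (nat_lit 304) (nat_lit 8283012251) (nat_lit 76) (nat_lit 17998713172) (nat_lit 32) (nat_lit 5) (nat_lit 36) (nat_lit 5) (nat_lit 33) (nat_lit 5) (nat_lit 322) (nat_lit 285) (nat_lit 173))) (XT.nd (nat_lit 78) (nat_lit 152) (nat_lit 0) (XT.lf (nat_lit 0) (nat_lit 10609556566) (nat_lit 152) (nat_lit 11575166382) (nat_lit 228) (nat_lit 20371212418) (nat_lit 30) (nat_lit 5) (nat_lit 32) (nat_lit 5) (nat_lit 33) (nat_lit 5) (nat_lit 323) (nat_lit 285) (nat_lit 172)) (XT.nd (nat_lit 78) (nat_lit 152) (nat_lit 0) (XT.lf (nat_lit 0) (nat_lit 30039131678) (nat_lit 228) (nat_lit 13335404396) (nat_lit 76) (nat_lit 676203647) (nat_lit 30) (nat_lit 5) (nat_lit 33) (nat_lit 5) (nat_lit 31) (nat_lit 5) (nat_lit 324) (nat_lit 285) (nat_lit 171)) (XT.lf (nat_lit 0) (nat_lit 6207668949) (nat_lit 152) (nat_lit 32360539315) (nat_lit 228) (nat_lit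 7037984732) (nat_lit 28) (nat_lit 5) (nat_lit 30) (nat_lit 5) (nat_lit 31) (nat_lit 5) (nat_lit 325) (nat_lit 285) (nat_lit 170)))))) (XT.nd (nat_lit 390) (nat_lit 304) (nat_lit 0) (XT.nd (nat_lit 156) (nat_lit 152) (nat_lit 0) (XT.nd (nat_lit 78) (nat_lit 152) (nat_lit 0) (XT.lf (nat_lit 0) (nat_lit 500065634) (nat_lit 228) (nat_lit 20052816100) (nat_lit 76) (nat_lit 26675078461) (nat_lit 27) (nat_lit 5) (nat_lit 30) (nat_lit 5) (nat_lit 28) (nat_lit 5) (nat_lit 326) (nat_lit 285) (nat_lit 169)) (XT.lf (nat_lit 0) (nat_lit 142288876) (nat_lit 152) (nat_lit 8033954495) (nat_lit 228) (nat_lit 40748921426) (nat_lit 25) (nat_lit 5) (nat_lit 27) (nat_lit 5) (nat_lit 28) (nat_lit 5) (nat_lit 327) (nat_lit 285) (nat_lit 168))) (XT.nd (nat_lit 78) (nat_lit 152) (nat_lit 0) (XT.lf (nat_lit 0) (nat_lit 16656787166) (nat_lit 228) (nat_lit 28739409784) (nat_lit 76) (nat_lit 5290009819) (nat_lit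 25) (nat_lit 5) (nat_lit 28) (nat_lit 5) (nat_lit 26) (nat_lit 5) (nat_lit 328) (nat_lit 285) (nat_lit 167)) (XT.nd (nat_lit 78) (nat_lit 152) (nat_lit 0) (XT.lf (nat_lit 0) (nat_lit 25688862295) (nat_lit 228) (nat_lit 7832269659) (nat_lit 76) (nat_lit 19007798433) (nat_lit 25) (nat_lit 5) (nat_lit 28) (nat_lit 5) (nat_lit 26) (nat_lit 5) (nat_lit 329) (nat_lit 285) (nat_lit 166)) (XT.lf (nat_lit 0) (nat_lit 14580420409) (nat_lit 152) (nat_lit 20815761971) (nat_lit 228) (nat_lit 19056430280) (nat_lit 23) (nat_lit 5) (nat_lit 25) (nat_lit 5) (nat_lit 26) (nat_lit 5) (nat_lit 330) (nat_lit 285) (nat_lit 165))))) (XT.nd (nat_lit 156) (nat_lit 228) (nat_lit 0) (XT.nd (nat_lit 78) (nat_lit 76) (nat_lit 0) (XT.lf (nat_lit 0) (nat_lit 38379296509) (nat_lit 152) (nat_lit 7338306280) (nat_lit 228) (nat_lit 10748443857) (nat_lit 23) (nat_lit 5) (nat_lit 25) (nat_lit 5) (nat_lit 26) (nat_lit 5)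 (nat_lit 331) (nat_lit 285) (nat_lit 164)) (XT.lf (nat_lit 0) (nat_lit 4829965067) (nat_lit 76) (nat_lit 51903149444) (nat_lit 152) (nat_lit 1838140916) (nat_lit 22) (nat_lit 5) (nat_lit 23) (nat_lit 5) (nat_lit 24) (nat_lit 4) (nat_lit 332) (nat_lit 285) (nat_lit 163))) (XT.nd (nat_lit 78) (nat_lit 152) (nat_lit 0) (XT.lf (nat_lit 0) (nat_lit 7704954051) (nat_lit 152) (nat_lit 31494900441) (nat_lit 76) (nat_lit 21554610808) (nat_lit 21) (nat_lit 5) (nat_lit 23) (nat_lit 5) (nat_lit 22) (nat_lit 5) (nat_lit 333) (nat_lit 285) (nat_lit 162)) (XT.nd (nat_lit 78) (nat_lit 152) (nat_lit 0) (XT.lf (nat_lit 0) (nat_lit 17659868360) (nat_lit 152) (nat_lit 8172271903) (nat_lit 76) (nat_lit 37213370372) (nat_lit 21) (nat_lit 5) (nat_lit 23) (nat_lit 5) (nat_lit 22) (nat_lit 5) (nat_lit 334) (nat_lit 285) (nat_lit 161)) (XT.lf (nat_lit 0) (nat_lit 16850133349) (nat_lit 152) (nat_lit 11522080630)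 (nat_lit 228) (nat_lit 37065913360) (nat_lit 19) (nat_lit 5) (nat_lit 21) (nat_lit 5) (nat_lit 22) (nat_lit 5) (nat_lit 335) (nat_lit 285) (nat_lit 160))))))) (XT.nd (nat_lit 780) (nat_lit 380) (nat_lit 0) (XT.nd (nat_lit 390) (nat_lit 76) (nat_lit 0) (XT.nd (nat_lit 156) (nat_lit 228) (nat_lit 0) (XT.nd (nat_lit 78) (nat_lit 76) (nat_lit 0) (XT.lf (nat_lit 0) (nat_lit 39812193415) (nat_lit 228) (nat_lit 24598747912) (nat_lit 76) (nat_lit 3529835946) (nat_lit 19) (nat_lit 5) (nat_lit 22) (nat_lit 5) (nat_lit 20) (nat_lit 4) (nat_lit 336) (nat_lit 285) (nat_lit 159)) (XT.lf (nat_lit 0) (nat_lit 408720513) (nat_lit 76) (nat_lit 51607525917) (nat_lit 152) (nat_lit 18542712609) (nat_lit 18) (nat_lit 5) (nat_lit 19) (nat_lit 5) (nat_lit 20) (nat_lit 4) (nat_lit 337) (nat_lit 285) (nat_lit 158))) (XT.nd (nat_lit 78) (nat_lit 228) (nat_lit 0) (XT.lf (nat_lit 0) (nat_lit 27515228008) (nat_lit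 76) (nat_lit 37728741129) (nat_lit 152) (nat_lit 8043410327) (nat_lit 18) (nat_lit 5) (nat_lit 19) (nat_lit 5) (nat_lit 20) (nat_lit 4) (nat_lit 338) (nat_lit 285) (nat_lit 157)) (XT.nd (nat_lit 78) (nat_lit 152) (nat_lit 0) (XT.lf (nat_lit 0) (nat_lit 2882423682) (nat_lit 152) (nat_lit 20226895014) (nat_lit 76) (nat_lit 53040729254) (nat_lit 17) (nat_lit 5) (nat_lit 19) (nat_lit 5) (nat_lit 18) (nat_lit 5) (nat_lit 339) (nat_lit 285) (nat_lit 156)) (XT.lf (nat_lit 0) (nat_lit 6672374678) (nat_lit 152) (nat_lit 7513154667) (nat_lit 228) (nat_lit 64958665515) (nat_lit 15) (nat_lit 5) (nat_lit 17) (nat_lit 5) (nat_lit 18) (nat_lit 5) (nat_lit 340) (nat_lit 285) (nat_lit 155))))) (XT.nd (nat_lit 156) (nat_lit 76) (nat_lit 0) (XT.nd (nat_lit 78) (nat_lit 0) (nat_lit 0) (XT.lf (nat_lit 0) (nat_lit 26537477733) (nat_lit 228) (nat_lit 46801050345) (nat_lit 76) (nat_lit 8925339070) (nat_lit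 15) (nat_lit 5) (nat_lit 18) (nat_lit 5) (nat_lit 16) (nat_lit 4) (nat_lit 341) (nat_lit 285) (nat_lit 154)) (XT.lf (nat_lit 0) (nat_lit 39627472061) (nat_lit 228) (nat_lit 19974651139) (nat_lit 76) (nat_lit 25931379712) (nat_lit 15) (nat_lit 5) (nat_lit 18) (nat_lit 5) (nat_lit 16) (nat_lit 4) (nat_lit 342) (nat_lit 285) (nat_lit 153))) (XT.nd (nat_lit 78) (nat_lit 0) (nat_lit 0) (XT.lf (nat_lit 0) (nat_lit 8459301695) (nat_lit 76) (nat_lit 45042149294) (nat_lit 152) (nat_lit 35458697411) (nat_lit 14) (nat_lit 5) (nat_lit 15) (nat_lit 5) (nat_lit 16) (nat_lit 4) (nat_lit 343) (nat_lit 285) (nat_lit 152)) (XT.nd (nat_lit 78) (nat_lit 0) (nat_lit 0) (XT.lf (nat_lit 0) (nat_lit 39003982994) (nat_lit 76) (nat_lit 29400891610) (nat_lit 152) (nat_lit 24136466348) (nat_lit 14) (nat_lit 5) (nat_lit 15) (nat_lit 5) (nat_lit 16) (nat_lit 4) (nat_lit 344) (nat_lit 285) (nat_lit 151)) (XT.lf (nat_lit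 0) (nat_lit 71071666012) (nat_lit 76) (nat_lit 12979389443) (nat_lit 152) (nat_lit 12250660350) (nat_lit 14) (nat_lit 5) (nat_lit 15) (nat_lit 5) (nat_lit 16) (nat_lit 4) (nat_lit 345) (nat_lit 285) (nat_lit 150)))))) (XT.nd (nat_lit 390) (nat_lit 152) (nat_lit 0) (XT.nd (nat_lit 156) (nat_lit 76) (nat_lit 0) (XT.nd (nat_lit 78) (nat_lit 0) (nat_lit 0) (XT.lf (nat_lit 0) (nat_lit 359868904) (nat_lit 152) (nat_lit 95680985554) (nat_lit 76) (nat_lit 4202188813) (nat_lit 12) (nat_lit 5) (nat_lit 14) (nat_lit 5) (nat_lit 13) (nat_lit 4) (nat_lit 346) (nat_lit 285) (nat_lit 149)) (XT.lf (nat_lit 0) (nat_lit 13833969065) (nat_lit 152) (nat_lit 68065116485) (nat_lit 76) (nat_lit 22440074395) (nat_lit 12) (nat_lit 5) (nat_lit 14) (nat_lit 5) (nat_lit 13) (nat_lit 4) (nat_lit 347) (nat_lit 285) (nat_lit 148))) (XT.nd (nat_lit 78) (nat_lit 76) (nat_lit 0) (XT.lf (nat_lit 0) (nat_lit 27979566942)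 (nat_lit 152) (nat_lit 39072389656) (nat_lit 76) (nat_lit 41588237846) (nat_lit 12) (nat_lit 5) (nat_lit 14) (nat_lit 5) (nat_lit 13) (nat_lit 4) (nat_lit 348) (nat_lit 285) (nat_lit 147)) (XT.nd (nat_lit 78) (nat_lit 76) (nat_lit 0) (XT.lf (nat_lit 0) (nat_lit 42830342531) (nat_lit 152) (nat_lit 8633774765) (nat_lit 76) (nat_lit 61692270030) (nat_lit 12) (nat_lit 5) (nat_lit 14) (nat_lit 5) (nat_lit 13) (nat_lit 4) (nat_lit 349) (nat_lit 285) (nat_lit 146)) (XT.lf (nat_lit 0) (nat_lit 24094371439) (nat_lit 76) (nat_lit 34703464044) (nat_lit 152) (nat_lit 59081846915) (nat_lit 11) (nat_lit 5) (nat_lit 12) (nat_lit 5) (nat_lit 13) (nat_lit 4) (nat_lit 350) (nat_lit 285) (nat_lit 145))))) (XT.nd (nat_lit 156) (nat_lit 152) (nat_lit 0) (XT.nd (nat_lit 78) (nat_lit 0) (nat_lit 0) (XT.lf (nat_lit 0) (nat_lit 58755157905) (nat_lit 76) (nat_lit 16952800755) (nat_lit 152) (nat_lit 47123972190)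 (nat_lit 11) (nat_lit 5) (nat_lit 12) (nat_lit 5) (nat_lit 13) (nat_lit 4) (nat_lit 351) (nat_lit 285) (nat_lit 144)) (XT.lf (nat_lit 0) (nat_lit 93488010521) (nat_lit 152) (nat_lit 32912538436) (nat_lit 0) (nat_lit 1630022981) (nat_lit 11) (nat_lit 5) (nat_lit 13) (nat_lit 4) (nat_lit 11) (nat_lit 4) (nat_lit 352) (nat_lit 285) (nat_lit 143))) (XT.nd (nat_lit 78) (nat_lit 152) (nat_lit 0) (XT.lf (nat_lit 0) (nat_lit 112433178575) (nat_lit 152) (nat_lit 471260922) (nat_lit 0) (nat_lit 20570901176) (nat_lit 11) (nat_lit 5) (nat_lit 13) (nat_lit 4) (nat_lit 11) (nat_lit 4) (nat_lit 353) (nat_lit 285) (nat_lit 142)) (XT.nd (nat_lit 78) (nat_lit 76) (nat_lit 0) (XT.lf (nat_lit 0) (nat_lit 34699584879) (nat_lit 76) (nat_lit 98166062520) (nat_lit 76) (nat_lit 6299699543) (nat_lit 10) (nat_lit 4) (nat_lit 11) (nat_lit 5) (nat_lit 11) (nat_lit 4) (nat_lit 354) (nat_lit 285) (nat_lit 141)) (XT.lf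 (nat_lit 0) (nat_lit 8892474326) (nat_lit 152) (nat_lit 73640681634) (nat_lit 76) (nat_lit 62599212382) (nat_lit 9) (nat_lit 5) (nat_lit 11) (nat_lit 5) (nat_lit 10) (nat_lit 4) (nat_lit 355) (nat_lit 285) (nat_lit 140))))))))
noncomputable def xc179 : XT := (XT.nd (nat_lit 1560) (nat_lit 76) (nat_lit 0) (XT.nd (nat_lit 780) (nat_lit 152) (nat_lit 0) (XT.nd (nat_lit 390) (nat_lit 76) (nat_lit 0) (XT.nd (nat_lit 156) (nat_lit 76) (nat_lit 0) (XT.nd (nat_lit 78) (nat_lit 0) (nat_lit 0) (XT.lf (nat_lit 0) (nat_lit 24630917107) (nat_lit 152) (nat_lit 41380579674) (nat_lit 76) (nat_lit 85381162822) (nat_lit 9) (nat_lit 5) (nat_lit 11) (nat_lit 5) (nat_lit 10) (nat_lit 4) (nat_lit 356) (nat_lit 285) (nat_lit 139)) (XT.lf (nat_lit 0) (nat_lit 41154731009) (nat_lit 152) (nat_lit 7510290451) (nat_lit 76) (nat_lit 109301022515) (nat_lit 9) (nat_lit 5) (nat_lit 11) (nat_lit 5) (nat_lit 10) (nat_lit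 4) (nat_lit 357) (nat_lit 285) (nat_lit 138))) (XT.nd (nat_lit 78) (nat_lit 0) (nat_lit 0) (XT.lf (nat_lit 0) (nat_lit 28978316686) (nat_lit 76) (nat_lit 29977374495) (nat_lit 152) (nat_lit 105889859558) (nat_lit 8) (nat_lit 5) (nat_lit 9) (nat_lit 5) (nat_lit 10) (nat_lit 4) (nat_lit 358) (nat_lit 285) (nat_lit 137)) (XT.nd (nat_lit 78) (nat_lit 0) (nat_lit 0) (XT.lf (nat_lit 0) (nat_lit 67549454140) (nat_lit 76) (nat_lit 10222987583) (nat_lit 152) (nat_lit 94290304905) (nat_lit 8) (nat_lit 5) (nat_lit 9) (nat_lit 5) (nat_lit 10) (nat_lit 4) (nat_lit 359) (nat_lit 285) (nat_lit 136)) (XT.lf (nat_lit 0) (nat_lit 97692865899) (nat_lit 152) (nat_lit 71758453493) (nat_lit 0) (nat_lit 10181341979) (nat_lit 8) (nat_lit 5) (nat_lit 10) (nat_lit 4) (nat_lit 8) (nat_lit 4) (nat_lit 360) (nat_lit 285) (nat_lit 135))))) (XT.nd (nat_lit 156) (nat_lit 76) (nat_lit 0) (XT.nd (nat_lit 78) (nat_lit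 0) (nat_lit 0) (XT.lf (nat_lit 0) (nat_lit 118775570941) (nat_lit 152) (nat_lit 37535907007) (nat_lit 0) (nat_lit 31261281740) (nat_lit 8) (nat_lit 5) (nat_lit 10) (nat_lit 4) (nat_lit 8) (nat_lit 4) (nat_lit 361) (nat_lit 285) (nat_lit 134)) (XT.lf (nat_lit 0) (nat_lit 140911144281) (nat_lit 152) (nat_lit 1604561290) (nat_lit 0) (nat_lit 53394221480) (nat_lit 8) (nat_lit 5) (nat_lit 10) (nat_lit 4) (nat_lit 8) (nat_lit 4) (nat_lit 362) (nat_lit 285) (nat_lit 133))) (XT.nd (nat_lit 78) (nat_lit 0) (nat_lit 0) (XT.lf (nat_lit 0) (nat_lit 37315462313) (nat_lit 76) (nat_lit 127419426295) (nat_lit 76) (nat_lit 39899995303) (nat_lit 7) (nat_lit 4) (nat_lit 8) (nat_lit 5) (nat_lit 8) (nat_lit 4) (nat_lit 363) (nat_lit 285) (nat_lit 132)) (XT.nd (nat_lit 78) (nat_lit 0) (nat_lit 0) (XT.lf (nat_lit 0) (nat_lit 78235012370) (nat_lit 76) (nat_lit 111540798580) (nat_lit 76) (nat_lit 24018978835)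 (nat_lit 7) (nat_lit 4) (nat_lit 8) (nat_lit 5) (nat_lit 8) (nat_lit 4) (nat_lit 364) (nat_lit 285) (nat_lit 131)) (XT.lf (nat_lit 0) (nat_lit 121198462340) (nat_lit 76) (nat_lit 94869190190) (nat_lit 76) (nat_lit 7345095442) (nat_lit 7) (nat_lit 4) (nat_lit 8) (nat_lit 5) (nat_lit 8) (nat_lit 4) (nat_lit 365) (nat_lit 285) (nat_lit 130)))))) (XT.nd (nat_lit 390) (nat_lit 0) (nat_lit 0) (XT.nd (nat_lit 156) (nat_lit 76) (nat_lit 0) (XT.nd (nat_lit 78) (nat_lit 0) (nat_lit 0) (XT.lf (nat_lit 0) (nat_lit 9836127790) (nat_lit 152) (nat_lit 67362199447) (nat_lit 76) (nat_lit 156305398775) (nat_lit 6) (nat_lit 5) (nat_lit 8) (nat_lit 5) (nat_lit 7) (nat_lit 4) (nat_lit 366) (nat_lit 285) (nat_lit 129)) (XT.lf (nat_lit 0) (nat_lit 27628529351) (nat_lit 152) (nat_lit 30889839742) (nat_lit 76) (nat_lit 185574915848) (nat_lit 6) (nat_lit 5) (nat_lit 8) (nat_lit 5) (nat_lit 7) (nat_lit 4) (nat_lit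 367) (nat_lit 285) (nat_lit 128))) (XT.nd (nat_lit 78) (nat_lit 0) (nat_lit 0) (XT.lf (nat_lit 0) (nat_lit 7649129884) (nat_lit 76) (nat_lit 38779855496) (nat_lit 152) (nat_lit 208777415273) (nat_lit 5) (nat_lit 5) (nat_lit 6) (nat_lit 5) (nat_lit 7) (nat_lit 4) (nat_lit 368) (nat_lit 285) (nat_lit 127)) (XT.nd (nat_lit 78) (nat_lit 0) (nat_lit 0) (XT.lf (nat_lit 0) (nat_lit 49185674969) (nat_lit 76) (nat_lit 17505952721) (nat_lit 152) (nat_lit 200157436815) (nat_lit 5) (nat_lit 5) (nat_lit 6) (nat_lit 5) (nat_lit 7) (nat_lit 4) (nat_lit 369) (nat_lit 285) (nat_lit 126)) (XT.lf (nat_lit 0) (nat_lit 88041900663) (nat_lit 152) (nat_lit 186351997059) (nat_lit 0) (nat_lit 4676239405) (nat_lit 5) (nat_lit 5) (nat_lit 7) (nat_lit 4) (nat_lit 5) (nat_lit 4) (nat_lit 370) (nat_lit 285) (nat_lit 125))))) (XT.nd (nat_lit 156) (nat_lit 0) (nat_lit 0) (XT.nd (nat_lit 78) (nat_lit 0) (nat_lit 0)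 (XT.lf (nat_lit 0) (nat_lit 110745777759) (nat_lit 152) (nat_lit 153763681881) (nat_lit 0) (nat_lit 27378499698) (nat_lit 5) (nat_lit 5) (nat_lit 7) (nat_lit 4) (nat_lit 5) (nat_lit 4) (nat_lit 371) (nat_lit 285) (nat_lit 124)) (XT.lf (nat_lit 0) (nat_lit 134583998845) (nat_lit 152) (nat_lit 119547535791) (nat_lit 0) (nat_lit 51215180973) (nat_lit 5) (nat_lit 5) (nat_lit 7) (nat_lit 4) (nat_lit 5) (nat_lit 4) (nat_lit 372) (nat_lit 285) (nat_lit 123))) (XT.nd (nat_lit 78) (nat_lit 0) (nat_lit 0) (XT.lf (nat_lit 0) (nat_lit 159613321591) (nat_lit 152) (nat_lit 83622091777) (nat_lit 0) (nat_lit 76243037232) (nat_lit 5) (nat_lit 5) (nat_lit 7) (nat_lit 4) (nat_lit 5) (nat_lit 4) (nat_lit 373) (nat_lit 285) (nat_lit 122)) (XT.nd (nat_lit 78) (nat_lit 0) (nat_lit 0) (XT.lf (nat_lit 0) (nat_lit 185893339623) (nat_lit 152) (nat_lit 45901813066) (nat_lit 0) (nat_lit 102521658609) (nat_lit 5)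 (nat_lit 5) (nat_lit 7) (nat_lit 4) (nat_lit 5) (nat_lit 4) (nat_lit 374) (nat_lit 285) (nat_lit 121)) (XT.lf (nat_lit 0) (nat_lit 213486624412) (nat_lit 152) (nat_lit 6296889471) (nat_lit 0) (nat_lit 130113613251) (nat_lit 5) (nat_lit 5) (nat_lit 7) (nat_lit 4) (nat_lit 5) (nat_lit 4) (nat_lit 375) (nat_lit 285) (nat_lit 120))))))) (XT.nd (nat_lit 33774) (nat_lit 0) (nat_lit 5624) (XT.nd (nat_lit 390) (nat_lit 0) (nat_lit 0) (XT.nd (nat_lit 156) (nat_lit 0) (nat_lit 0) (XT.nd (nat_lit 78) (nat_lit 0) (nat_lit 0) (XT.lf (nat_lit 0) (nat_lit 36453723246) (nat_lit 76) (nat_lit 206574295789) (nat_lit 76) (nat_lit 123200017821) (nat_lit 4) (nat_lit 4) (nat_lit 5) (nat_lit 5) (nat_lit 5) (nat_lit 4) (nat_lit 376) (nat_lit 285) (nat_lit 119)) (XT.lf (nat_lit 0) (nat_lit 81559197555) (nat_lit 76) (nat_lit 192593240786) (nat_lit 76) (nat_lit 109217756335) (nat_lit 4) (nat_lit 4) (nat_lit 5)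 (nat_lit 5) (nat_lit 5) (nat_lit 4) (nat_lit 377) (nat_lit 285) (nat_lit 118))) (XT.nd (nat_lit 78) (nat_lit 0) (nat_lit 0) (XT.lf (nat_lit 0) (nat_lit 128918723838) (nat_lit 76) (nat_lit 177913701518) (nat_lit 76) (nat_lit 94537068036) (nat_lit 4) (nat_lit 4) (nat_lit 5) (nat_lit 5) (nat_lit 5) (nat_lit 4) (nat_lit 378) (nat_lit 285) (nat_lit 117)) (XT.nd (nat_lit 78) (nat_lit 0) (nat_lit 0) (XT.lf (nat_lit 0) (nat_lit 178645062872) (nat_lit 76) (nat_lit 162500726700) (nat_lit 76) (nat_lit 79122998903) (nat_lit 4) (nat_lit 4) (nat_lit 5) (nat_lit 5) (nat_lit 5) (nat_lit 4) (nat_lit 379) (nat_lit 285) (nat_lit 116)) (XT.lf (nat_lit 0) (nat_lit 230856610702) (nat_lit 76) (nat_lit 146317618775) (nat_lit 76) (nat_lit 62938848773) (nat_lit 4) (nat_lit 4) (nat_lit 5) (nat_lit 5) (nat_lit 5) (nat_lit 4) (nat_lit 380) (nat_lit 285) (nat_lit 115))))) (XT.nd (nat_lit 156) (nat_lit 0) (nat_lit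 0) (XT.nd (nat_lit 78) (nat_lit 0) (nat_lit 0) (XT.lf (nat_lit 0) (nat_lit 285677680537) (nat_lit 76) (nat_lit 129325846532) (nat_lit 76) (nat_lit 45946083954) (nat_lit 4) (nat_lit 4) (nat_lit 5) (nat_lit 5) (nat_lit 5) (nat_lit 4) (nat_lit 381) (nat_lit 285) (nat_lit 114)) (XT.lf (nat_lit 0) (nat_lit 343238798734) (nat_lit 76) (nat_lit 111484953371) (nat_lit 76) (nat_lit 28104245482) (nat_lit 4) (nat_lit 4) (nat_lit 5) (nat_lit 5) (nat_lit 5) (nat_lit 4) (nat_lit 382) (nat_lit 285) (nat_lit 113))) (XT.nd (nat_lit 33072) (nat_lit 0) (nat_lit 6080) (XT.lf (nat_lit 0) (nat_lit 403677015574) (nat_lit 76) (nat_lit 92752460975) (nat_lit 76) (nat_lit 9370852790) (nat_lit 4) (nat_lit 4) (nat_lit 5) (nat_lit 5) (nat_lit 5) (nat_lit 4) (nat_lit 383) (nat_lit 285) (nat_lit 112)) (XT.nd (nat_lit 78) (nat_lit 0) (nat_lit 0) (XT.lf (nat_lit 0) (nat_lit 1712617383) (nat_lit 0) (nat_lit 1712617383)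 (nat_lit 684) (nat_lit 3953638319) (nat_lit 84) (nat_lit 5) (nat_lit 84) (nat_lit 3) (nat_lit 93) (nat_lit 3) (nat_lit 286) (nat_lit 286) (nat_lit 208)) (XT.lf (nat_lit 0) (nat_lit 7357183472) (nat_lit 684) (nat_lit 4780640934) (nat_lit 760) (nat_lit 2971424909) (nat_lit 84) (nat_lit 5) (nat_lit 93) (nat_lit 3) (nat_lit 94) (nat_lit 5) (nat_lit 287) (nat_lit 286) (nat_lit 207)))))) (XT.nd (nat_lit 390) (nat_lit 456) (nat_lit 0) (XT.nd (nat_lit 156) (nat_lit 0) (nat_lit 76) (XT.nd (nat_lit 78) (nat_lit 0) (nat_lit 76) (XT.lf (nat_lit 76) (nat_lit 2099561427) (nat_lit 0) (nat_lit 5860341532) (nat_lit 760) (nat_lit 7514933917) (nat_lit 85) (nat_lit 5) (nat_lit 84) (nat_lit 5) (nat_lit 94) (nat_lit 5) (nat_lit 288) (nat_lit 286) (nat_lit 206)) (XT.lf (nat_lit 0) (nat_lit 8669026653) (nat_lit 684) (nat_lit 6388826110) (nat_lit 760) (nat_lit 797078360) (nat_lit 85) (nat_lit 5) (nat_lit 94)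 (nat_lit 5) (nat_lit 95) (nat_lit 5) (nat_lit 289) (nat_lit 286) (nat_lit 205))) (XT.nd (nat_lit 78) (nat_lit 0) (nat_lit 0) (XT.lf (nat_lit 76) (nat_lit 868011625) (nat_lit 0) (nat_lit 8638613706) (nat_lit 760) (nat_lit 6742792589) (nat_lit 86) (nat_lit 5) (nat_lit 85) (nat_lit 5) (nat_lit 95) (nat_lit 5) (nat_lit 290) (nat_lit 286) (nat_lit 204)) (XT.nd (nat_lit 78) (nat_lit 0) (nat_lit 76) (XT.lf (nat_lit 76) (nat_lit 8699023859) (nat_lit 0) (nat_lit 1779300655) (nat_lit 760) (nat_lit 6180730447) (nat_lit 86) (nat_lit 5) (nat_lit 85) (nat_lit 5) (nat_lit 95) (nat_lit 5) (nat_lit 291) (nat_lit 286) (nat_lit 203)) (XT.lf (nat_lit 0) (nat_lit 11568141920) (nat_lit 684) (nat_lit 263107168) (nat_lit 760) (nat_lit 5254483278) (nat_lit 86) (nat_lit 5) (nat_lit 95) (nat_lit 5) (nat_lit 96) (nat_lit 5) (nat_lit 292) (nat_lit 286) (nat_lit 202))))) (XT.nd (nat_lit 234) (nat_lit 608) (nat_lit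 0) (XT.nd (nat_lit 78) (nat_lit 0) (nat_lit 76) (XT.lf (nat_lit 76) (nat_lit 8036372856) (nat_lit 0) (nat_lit 4816302579) (nat_lit 760) (nat_lit 4674090442) (nat_lit 87) (nat_lit 5) (nat_lit 86) (nat_lit 5) (nat_lit 96) (nat_lit 5) (nat_lit 293) (nat_lit 286) (nat_lit 201)) (XT.nd (nat_lit 78) (nat_lit 0) (nat_lit 0) (XT.lf (nat_lit 0) (nat_lit 14231939395) (nat_lit 684) (nat_lit 1280496018) (nat_lit 760) (nat_lit 2475922365) (nat_lit 87) (nat_lit 5) (nat_lit 96) (nat_lit 5) (nat_lit 97) (nat_lit 5) (nat_lit 294) (nat_lit 286) (nat_lit 200)) (XT.lf (nat_lit 76) (nat_lit 7490243257) (nat_lit 0) (nat_lit 8372652986) (nat_lit 760) (nat_lit 2601026932) (nat_lit 88) (nat_lit 5) (nat_lit 87) (nat_lit 5) (nat_lit 97) (nat_lit 5) (nat_lit 295) (nat_lit 286) (nat_lit 199)))) (XT.nd (nat_lit 78) (nat_lit 684) (nat_lit 0) (XT.lf (nat_lit 76) (nat_lit 16733712317) (nat_lit 0) (nat_lit 850671556)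 (nat_lit 760) (nat_lit 1378462761) (nat_lit 88) (nat_lit 5) (nat_lit 87) (nat_lit 5) (nat_lit 97) (nat_lit 5) (nat_lit 296) (nat_lit 286) (nat_lit 198)) (XT.nd (nat_lit 78) (nat_lit 0) (nat_lit 0) (XT.lf (nat_lit 0) (nat_lit 119813034) (nat_lit 760) (nat_lit 12420200193) (nat_lit 76) (nat_lit 6936225757) (nat_lit 78) (nat_lit 5) (nat_lit 88) (nat_lit 5) (nat_lit 79) (nat_lit 5) (nat_lit 297) (nat_lit 286) (nat_lit 197)) (XT.lf (nat_lit 0) (nat_lit 1687128903) (nat_lit 760) (nat_lit 3178406343) (nat_lit 76) (nat_lit 15146638233) (nat_lit 78) (nat_lit 5) (nat_lit 88) (nat_lit 5) (nat_lit 79) (nat_lit 5) (nat_lit 298) (nat_lit 286) (nat_lit 196))))))))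
noncomputable def xc180 : XT := (XT.nd (nat_lit 1560) (nat_lit 1520) (nat_lit 0) (XT.nd (nat_lit 780) (nat_lit 1292) (nat_lit 0) (XT.nd (nat_lit 390) (nat_lit 608) (nat_lit 0) (XT.nd (nat_lit 156) (nat_lit 684) (nat_lit 0) (XT.nd (nat_lit 78) (nat_lit 0) (nat_lit 0) (XT.lf (nat_lit 0) (nat_lit 3478183422) (nat_lit 532) (nat_lit 13891106382) (nat_lit 76) (nat_lit 3198370060) (nat_lit 72) (nat_lit 5) (nat_lit 79) (nat_lit 5) (nat_lit 73) (nat_lit 5) (nat_lit 299) (nat_lit 286) (nat_lit 195)) (XT.lf (nat_lit 0) (nat_lit 5482360332) (nat_lit 532) (nat_lit 4104867252) (nat_lit 76) (nat_lit 11557537171) (nat_lit 72) (nat_lit 5) (nat_lit 79) (nat_lit 5) (nat_lit 73) (nat_lit 5) (nat_lit 300) (nat_lit 286) (nat_lit 194))) (XT.nd (nat_lit 78) (nat_lit 304) (nat_lit 0) (XT.lf (nat_lit 0) (nat_lit 6364284323) (nat_lit 380) (nat_lit 1311441813) (nat_lit 456) (nat_lit 14070571348) (nat_lit 67) (nat_lit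 5) (nat_lit 72) (nat_lit 5) (nat_lit 73) (nat_lit 5) (nat_lit 301) (nat_lit 286) (nat_lit 193)) (XT.nd (nat_lit 78) (nat_lit 304) (nat_lit 0) (XT.lf (nat_lit 0) (nat_lit 10154567991) (nat_lit 456) (nat_lit 5001816787) (nat_lit 76) (nat_lit 7212752250) (nat_lit 67) (nat_lit 5) (nat_lit 73) (nat_lit 5) (nat_lit 68) (nat_lit 5) (nat_lit 302) (nat_lit 286) (nat_lit 192)) (XT.lf (nat_lit 0) (nat_lit 6059884452) (nat_lit 304) (nat_lit 6804013425) (nat_lit 380) (nat_lit 10153912959) (nat_lit 63) (nat_lit 5) (nat_lit 67) (nat_lit 5) (nat_lit 68) (nat_lit 5) (nat_lit 303) (nat_lit 286) (nat_lit 191))))) (XT.nd (nat_lit 156) (nat_lit 304) (nat_lit 0) (XT.nd (nat_lit 78) (nat_lit 304) (nat_lit 0) (XT.lf (nat_lit 0) (nat_lit 15816214715) (nat_lit 380) (nat_lit 5888716248) (nat_lit 76) (nat_lit 1988630004) (nat_lit 63) (nat_lit 5) (nat_lit 68) (nat_lit 5) (nat_lit 64) (nat_lit 5) (nat_lit 304) (nat_lit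 286) (nat_lit 190)) (XT.lf (nat_lit 0) (nat_lit 5798208455) (nat_lit 304) (nat_lit 13311177097) (nat_lit 380) (nat_lit 5284068908) (nat_lit 59) (nat_lit 5) (nat_lit 63) (nat_lit 5) (nat_lit 64) (nat_lit 5) (nat_lit 305) (nat_lit 286) (nat_lit 189))) (XT.nd (nat_lit 78) (nat_lit 304) (nat_lit 0) (XT.lf (nat_lit 0) (nat_lit 18264296508) (nat_lit 304) (nat_lit 4394087514) (nat_lit 380) (nat_lit 2465417072) (nat_lit 59) (nat_lit 5) (nat_lit 63) (nat_lit 5) (nat_lit 64) (nat_lit 5) (nat_lit 306) (nat_lit 286) (nat_lit 188)) (XT.nd (nat_lit 78) (nat_lit 0) (nat_lit 0) (XT.lf (nat_lit 0) (nat_lit 637012545) (nat_lit 304) (nat_lit 20339528255) (nat_lit 76) (nat_lit 4905820756) (nat_lit 55) (nat_lit 5) (nat_lit 59) (nat_lit 5) (nat_lit 56) (nat_lit 5) (nat_lit 307) (nat_lit 286) (nat_lit 187)) (XT.lf (nat_lit 0) (nat_lit 3993746733) (nat_lit 304) (nat_lit 7993664598) (nat_lit 76) (nat_lit 14680330630)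 (nat_lit 55) (nat_lit 5) (nat_lit 59) (nat_lit 5) (nat_lit 56) (nat_lit 5) (nat_lit 308) (nat_lit 286) (nat_lit 186)))))) (XT.nd (nat_lit 390) (nat_lit 532) (nat_lit 0) (XT.nd (nat_lit 156) (nat_lit 456) (nat_lit 0) (XT.nd (nat_lit 78) (nat_lit 0) (nat_lit 0) (XT.lf (nat_lit 0) (nat_lit 5124260290) (nat_lit 304) (nat_lit 2466375314) (nat_lit 380) (nat_lit 19898153802) (nat_lit 51) (nat_lit 5) (nat_lit 55) (nat_lit 5) (nat_lit 56) (nat_lit 5) (nat_lit 309) (nat_lit 286) (nat_lit 185)) (XT.lf (nat_lit 0) (nat_lit 11615052853) (nat_lit 380) (nat_lit 9297763969) (nat_lit 76) (nat_lit 7425701462) (nat_lit 51) (nat_lit 5) (nat_lit 56) (nat_lit 5) (nat_lit 52) (nat_lit 5) (nat_lit 310) (nat_lit 286) (nat_lit 184))) (XT.nd (nat_lit 78) (nat_lit 228) (nat_lit 0) (XT.lf (nat_lit 0) (nat_lit 4517492976) (nat_lit 228) (nat_lit 11427030179) (nat_lit 304) (nat_lit 13281031466) (nat_lit 48) (nat_lit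 5) (nat_lit 51) (nat_lit 5) (nat_lit 52) (nat_lit 5) (nat_lit 311) (nat_lit 286) (nat_lit 183)) (XT.nd (nat_lit 78) (nat_lit 228) (nat_lit 0) (XT.lf (nat_lit 0) (nat_lit 19337453270) (nat_lit 228) (nat_lit 1303546206) (nat_lit 304) (nat_lit 9508428697) (nat_lit 48) (nat_lit 5) (nat_lit 51) (nat_lit 5) (nat_lit 52) (nat_lit 5) (nat_lit 312) (nat_lit 286) (nat_lit 182)) (XT.lf (nat_lit 0) (nat_lit 3744405912) (nat_lit 228) (nat_lit 22025332814) (nat_lit 304) (nat_lit 5339896175) (nat_lit 45) (nat_lit 5) (nat_lit 48) (nat_lit 5) (nat_lit 49) (nat_lit 5) (nat_lit 313) (nat_lit 286) (nat_lit 181))))) (XT.nd (nat_lit 156) (nat_lit 228) (nat_lit 0) (XT.nd (nat_lit 78) (nat_lit 304) (nat_lit 0) (XT.lf (nat_lit 0) (nat_lit 19373290143) (nat_lit 228) (nat_lit 11979308714) (nat_lit 304) (nat_lit 755379817) (nat_lit 45) (nat_lit 5) (nat_lit 48) (nat_lit 5) (nat_lit 49) (nat_lit 5) (nat_lit 314)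 (nat_lit 286) (nat_lit 180)) (XT.lf (nat_lit 0) (nat_lit 2640102797) (nat_lit 228) (nat_lit 1323335270) (nat_lit 304) (nat_lit 29187894908) (nat_lit 41) (nat_lit 5) (nat_lit 44) (nat_lit 5) (nat_lit 45) (nat_lit 5) (nat_lit 315) (nat_lit 286) (nat_lit 179))) (XT.nd (nat_lit 78) (nat_lit 228) (nat_lit 0) (XT.lf (nat_lit 0) (nat_lit 9259925287) (nat_lit 304) (nat_lit 15188821276) (nat_lit 76) (nat_lit 9779142978) (nat_lit 41) (nat_lit 5) (nat_lit 45) (nat_lit 5) (nat_lit 42) (nat_lit 5) (nat_lit 316) (nat_lit 286) (nat_lit 178)) (XT.nd (nat_lit 78) (nat_lit 0) (nat_lit 0) (XT.lf (nat_lit 0) (nat_lit 898626099) (nat_lit 228) (nat_lit 13952509511) (nat_lit 304) (nat_lit 20505652361) (nat_lit 38) (nat_lit 5) (nat_lit 41) (nat_lit 5) (nat_lit 42) (nat_lit 5) (nat_lit 317) (nat_lit 286) (nat_lit 177)) (XT.lf (nat_lit 0) (nat_lit 18309749268) (nat_lit 228) (nat_lit 2663714081) (nat_lit 304)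 (nat_lit 15556098673) (nat_lit 38) (nat_lit 5) (nat_lit 41) (nat_lit 5) (nat_lit 42) (nat_lit 5) (nat_lit 318) (nat_lit 286) (nat_lit 176))))))) (XT.nd (nat_lit 780) (nat_lit 532) (nat_lit 0) (XT.nd (nat_lit 390) (nat_lit 532) (nat_lit 0) (XT.nd (nat_lit 156) (nat_lit 304) (nat_lit 0) (XT.nd (nat_lit 78) (nat_lit 152) (nat_lit 0) (XT.lf (nat_lit 0) (nat_lit 27539943798) (nat_lit 304) (nat_lit 1320900114) (nat_lit 76) (nat_lit 8893237187) (nat_lit 38) (nat_lit 5) (nat_lit 42) (nat_lit 5) (nat_lit 39) (nat_lit 5) (nat_lit 319) (nat_lit 286) (nat_lit 175)) (XT.lf (nat_lit 0) (nat_lit 16913111374) (nat_lit 152) (nat_lit 17824186495) (nat_lit 228) (nat_lit 4287408532) (nat_lit 36) (nat_lit 5) (nat_lit 38) (nat_lit 5) (nat_lit 39) (nat_lit 5) (nat_lit 320) (nat_lit 286) (nat_lit 174))) (XT.nd (nat_lit 78) (nat_lit 228) (nat_lit 0) (XT.lf (nat_lit 0) (nat_lit 1891302912) (nat_lit 228) (nat_lit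 4291210491) (nat_lit 76) (nat_lit 34173965577) (nat_lit 35) (nat_lit 5) (nat_lit 38) (nat_lit 5) (nat_lit 36) (nat_lit 5) (nat_lit 321) (nat_lit 286) (nat_lit 173)) (XT.nd (nat_lit 78) (nat_lit 0) (nat_lit 0) (XT.lf (nat_lit 0) (nat_lit 8560535347) (nat_lit 304) (nat_lit 27022297644) (nat_lit 76) (nat_lit 6152216099) (nat_lit 32) (nat_lit 5) (nat_lit 36) (nat_lit 5) (nat_lit 33) (nat_lit 5) (nat_lit 322) (nat_lit 286) (nat_lit 172)) (XT.lf (nat_lit 0) (nat_lit 15733640619) (nat_lit 304) (nat_lit 8472858458) (nat_lit 76) (nat_lit 18967534445) (nat_lit 32) (nat_lit 5) (nat_lit 36) (nat_lit 5) (nat_lit 33) (nat_lit 5) (nat_lit 323) (nat_lit 286) (nat_lit 171))))) (XT.nd (nat_lit 156) (nat_lit 380) (nat_lit 0) (XT.nd (nat_lit 78) (nat_lit 0) (nat_lit 0) (XT.lf (nat_lit 0) (nat_lit 11360720987) (nat_lit 152) (nat_lit 12077475181) (nat_lit 228) (nat_lit 21238137330) (nat_lit 30) (nat_lit 5)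 (nat_lit 32) (nat_lit 5) (nat_lit 33) (nat_lit 5) (nat_lit 324) (nat_lit 286) (nat_lit 170)) (XT.lf (nat_lit 0) (nat_lit 31679593656) (nat_lit 228) (nat_lit 13786087342) (nat_lit 76) (nat_lit 780492551) (nat_lit 30) (nat_lit 5) (nat_lit 33) (nat_lit 5) (nat_lit 31) (nat_lit 5) (nat_lit 325) (nat_lit 286) (nat_lit 169))) (XT.nd (nat_lit 78) (nat_lit 228) (nat_lit 0) (XT.lf (nat_lit 0) (nat_lit 6730654392) (nat_lit 152) (nat_lit 33901193497) (nat_lit 228) (nat_lit 7247723878) (nat_lit 28) (nat_lit 5) (nat_lit 30) (nat_lit 5) (nat_lit 31) (nat_lit 5) (nat_lit 326) (nat_lit 286) (nat_lit 168)) (XT.nd (nat_lit 78) (nat_lit 152) (nat_lit 0) (XT.lf (nat_lit 0) (nat_lit 656126134) (nat_lit 228) (nat_lit 20848491805) (nat_lit 76) (nat_lit 28078033739) (nat_lit 27) (nat_lit 5) (nat_lit 30) (nat_lit 5) (nat_lit 28) (nat_lit 5) (nat_lit 327) (nat_lit 286) (nat_lit 167)) (XT.lf (nat_lit 0) (nat_lit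 353030274) (nat_lit 152) (nat_lit 8360020852) (nat_lit 228) (nat_lit 42651825783) (nat_lit 25) (nat_lit 5) (nat_lit 27) (nat_lit 5) (nat_lit 28) (nat_lit 5) (nat_lit 328) (nat_lit 286) (nat_lit 166)))))) (XT.nd (nat_lit 390) (nat_lit 304) (nat_lit 0) (XT.nd (nat_lit 156) (nat_lit 228) (nat_lit 0) (XT.nd (nat_lit 78) (nat_lit 0) (nat_lit 0) (XT.lf (nat_lit 0) (nat_lit 17612651670) (nat_lit 228) (nat_lit 29977340020) (nat_lit 76) (nat_lit 5624234778) (nat_lit 25) (nat_lit 5) (nat_lit 28) (nat_lit 5) (nat_lit 26) (nat_lit 5) (nat_lit 329) (nat_lit 286) (nat_lit 165)) (XT.lf (nat_lit 0) (nat_lit 27090472216) (nat_lit 228) (nat_lit 8034320997) (nat_lit 76) (nat_lit 20024592610) (nat_lit 25) (nat_lit 5) (nat_lit 28) (nat_lit 5) (nat_lit 26) (nat_lit 5) (nat_lit 330) (nat_lit 286) (nat_lit 164))) (XT.nd (nat_lit 78) (nat_lit 76) (nat_lit 0) (XT.lf (nat_lit 0) (nat_lit 15495946121) (nat_lit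 152) (nat_lit 21784544673) (nat_lit 228) (nat_lit 19888901112) (nat_lit 23) (nat_lit 5) (nat_lit 25) (nat_lit 5) (nat_lit 26) (nat_lit 5) (nat_lit 331) (nat_lit 286) (nat_lit 163)) (XT.nd (nat_lit 78) (nat_lit 76) (nat_lit 0) (XT.lf (nat_lit 0) (nat_lit 40475884850) (nat_lit 152) (nat_lit 7636645027) (nat_lit 228) (nat_lit 11171246352) (nat_lit 23) (nat_lit 5) (nat_lit 25) (nat_lit 5) (nat_lit 26) (nat_lit 5) (nat_lit 332) (nat_lit 286) (nat_lit 162)) (XT.lf (nat_lit 0) (nat_lit 5250651403) (nat_lit 76) (nat_lit 54426790386) (nat_lit 152) (nat_lit 1816878163) (nat_lit 22) (nat_lit 5) (nat_lit 23) (nat_lit 5) (nat_lit 24) (nat_lit 4) (nat_lit 333) (nat_lit 286) (nat_lit 161))))) (XT.nd (nat_lit 156) (nat_lit 228) (nat_lit 0) (XT.nd (nat_lit 78) (nat_lit 0) (nat_lit 0) (XT.lf (nat_lit 0) (nat_lit 8194532856) (nat_lit 152) (nat_lit 32895436481) (nat_lit 76) (nat_lit 22696898665) (nat_lit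 21) (nat_lit 5) (nat_lit 23) (nat_lit 5) (nat_lit 22) (nat_lit 5) (nat_lit 334) (nat_lit 286) (nat_lit 160)) (XT.lf (nat_lit 0) (nat_lit 18642224733) (nat_lit 152) (nat_lit 8414972182) (nat_lit 76) (nat_lit 39135522049) (nat_lit 21) (nat_lit 5) (nat_lit 23) (nat_lit 5) (nat_lit 22) (nat_lit 5) (nat_lit 335) (nat_lit 286) (nat_lit 159))) (XT.nd (nat_lit 78) (nat_lit 76) (nat_lit 0) (XT.lf (nat_lit 0) (nat_lit 17855877312) (nat_lit 152) (nat_lit 12032127344) (nat_lit 228) (nat_lit 38817075714) (nat_lit 19) (nat_lit 5) (nat_lit 21) (nat_lit 5) (nat_lit 22) (nat_lit 5) (nat_lit 336) (nat_lit 286) (nat_lit 158)) (XT.nd (nat_lit 78) (nat_lit 76) (nat_lit 0) (XT.lf (nat_lit 0) (nat_lit 41896337674) (nat_lit 228) (nat_lit 25669485983) (nat_lit 76) (nat_lit 3767225906) (nat_lit 19) (nat_lit 5) (nat_lit 22) (nat_lit 5) (nat_lit 20) (nat_lit 4) (nat_lit 337) (nat_lit 286) (nat_lit 157)) (XT.lf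 (nat_lit 0) (nat_lit 585788133) (nat_lit 76) (nat_lit 54122796637) (nat_lit 152) (nat_lit 19373660354) (nat_lit 18) (nat_lit 5) (nat_lit 19) (nat_lit 5) (nat_lit 20) (nat_lit 4) (nat_lit 338) (nat_lit 286) (nat_lit 156))))))))
noncomputable def xc181 : XT := (XT.nd (nat_lit 1560) (nat_lit 380) (nat_lit 0) (XT.nd (nat_lit 780) (nat_lit 228) (nat_lit 0) (XT.nd (nat_lit 390) (nat_lit 228) (nat_lit 0) (XT.nd (nat_lit 156) (nat_lit 152) (nat_lit 0) (XT.nd (nat_lit 78) (nat_lit 76) (nat_lit 0) (XT.lf (nat_lit 0) (nat_lit 29040162355) (nat_lit 76) (nat_lit 39553172875) (nat_lit 152) (nat_lit 8353973333) (nat_lit 18) (nat_lit 5) (nat_lit 19) (nat_lit 5) (nat_lit 20) (nat_lit 4) (nat_lit 339) (nat_lit 286) (nat_lit 155)) (XT.lf (nat_lit 0) (nat_lit 3110997722) (nat_lit 152) (nat_lit 21093303982) (nat_lit 76) (nat_lit 55748952085) (nat_lit 17) (nat_lit 5) (nat_lit 19) (nat_lit 5) (nat_lit 18)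 (nat_lit 5) (nat_lit 340) (nat_lit 286) (nat_lit 154))) (XT.nd (nat_lit 78) (nat_lit 0) (nat_lit 0) (XT.lf (nat_lit 0) (nat_lit 7148591521) (nat_lit 152) (nat_lit 7828871939) (nat_lit 228) (nat_lit 68119737865) (nat_lit 15) (nat_lit 5) (nat_lit 17) (nat_lit 5) (nat_lit 18) (nat_lit 5) (nat_lit 341) (nat_lit 286) (nat_lit 153)) (XT.nd (nat_lit 78) (nat_lit 0) (nat_lit 0) (XT.lf (nat_lit 0) (nat_lit 27943964463) (nat_lit 228) (nat_lit 49002183292) (nat_lit 76) (nat_lit 9426865064) (nat_lit 15) (nat_lit 5) (nat_lit 18) (nat_lit 5) (nat_lit 16) (nat_lit 4) (nat_lit 342) (nat_lit 286) (nat_lit 152)) (XT.lf (nat_lit 0) (nat_lit 41684667419) (nat_lit 228) (nat_lit 20841079344) (nat_lit 76) (nat_lit 27280576355) (nat_lit 15) (nat_lit 5) (nat_lit 18) (nat_lit 5) (nat_lit 16) (nat_lit 4) (nat_lit 343) (nat_lit 286) (nat_lit 151))))) (XT.nd (nat_lit 156) (nat_lit 152) (nat_lit 0) (XT.nd (nat_lit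 78) (nat_lit 0) (nat_lit 0) (XT.lf (nat_lit 0) (nat_lit 9012437191) (nat_lit 76) (nat_lit 47238329868) (nat_lit 152) (nat_lit 37153615774) (nat_lit 14) (nat_lit 5) (nat_lit 15) (nat_lit 5) (nat_lit 16) (nat_lit 4) (nat_lit 344) (nat_lit 286) (nat_lit 150)) (XT.lf (nat_lit 0) (nat_lit 41078153963) (nat_lit 76) (nat_lit 30817672486) (nat_lit 152) (nat_lit 25268988229) (nat_lit 14) (nat_lit 5) (nat_lit 15) (nat_lit 5) (nat_lit 16) (nat_lit 4) (nat_lit 345) (nat_lit 286) (nat_lit 149))) (XT.nd (nat_lit 78) (nat_lit 152) (nat_lit 0) (XT.lf (nat_lit 0) (nat_lit 74743317713) (nat_lit 76) (nat_lit 13577631576) (nat_lit 152) (nat_lit 12792430096) (nat_lit 14) (nat_lit 5) (nat_lit 15) (nat_lit 5) (nat_lit 16) (nat_lit 4) (nat_lit 346) (nat_lit 286) (nat_lit 148)) (XT.nd (nat_lit 78) (nat_lit 0) (nat_lit 0) (XT.lf (nat_lit 0) (nat_lit 445750017) (nat_lit 152) (nat_lit 100343988266) (nat_lit 76)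 (nat_lit 4462012738) (nat_lit 12) (nat_lit 5) (nat_lit 14) (nat_lit 5) (nat_lit 13) (nat_lit 4) (nat_lit 347) (nat_lit 286) (nat_lit 147)) (XT.lf (nat_lit 0) (nat_lit 14590322439) (nat_lit 152) (nat_lit 71353089866) (nat_lit 76) (nat_lit 23609425243) (nat_lit 12) (nat_lit 5) (nat_lit 14) (nat_lit 5) (nat_lit 13) (nat_lit 4) (nat_lit 348) (nat_lit 286) (nat_lit 146)))))) (XT.nd (nat_lit 390) (nat_lit 152) (nat_lit 0) (XT.nd (nat_lit 156) (nat_lit 76) (nat_lit 0) (XT.nd (nat_lit 78) (nat_lit 0) (nat_lit 0) (XT.lf (nat_lit 0) (nat_lit 29440121405) (nat_lit 152) (nat_lit 40916216336) (nat_lit 76) (nat_lit 43712742241) (nat_lit 12) (nat_lit 5) (nat_lit 14) (nat_lit 5) (nat_lit 13) (nat_lit 4) (nat_lit 349) (nat_lit 286) (nat_lit 145)) (XT.lf (nat_lit 0) (nat_lit 45030503577) (nat_lit 152) (nat_lit 8960898929) (nat_lit 76) (nat_lit 64819828773) (nat_lit 12) (nat_lit 5) (nat_lit 14) (nat_lit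 5) (nat_lit 13) (nat_lit 4) (nat_lit 350) (nat_lit 286) (nat_lit 144))) (XT.nd (nat_lit 78) (nat_lit 0) (nat_lit 0) (XT.lf (nat_lit 0) (nat_lit 25401968059) (nat_lit 76) (nat_lit 36393216765) (nat_lit 152) (nat_lit 61975567656) (nat_lit 11) (nat_lit 5) (nat_lit 12) (nat_lit 5) (nat_lit 13) (nat_lit 4) (nat_lit 351) (nat_lit 286) (nat_lit 143)) (XT.nd (nat_lit 78) (nat_lit 0) (nat_lit 0) (XT.lf (nat_lit 0) (nat_lit 61790894894) (nat_lit 76) (nat_lit 17757183191) (nat_lit 152) (nat_lit 49422674034) (nat_lit 11) (nat_lit 5) (nat_lit 12) (nat_lit 5) (nat_lit 13) (nat_lit 4) (nat_lit 352) (nat_lit 286) (nat_lit 142)) (XT.lf (nat_lit 0) (nat_lit 98215169966) (nat_lit 152) (nat_lit 34462852028) (nat_lit 0) (nat_lit 1751403262) (nat_lit 11) (nat_lit 5) (nat_lit 13) (nat_lit 4) (nat_lit 11) (nat_lit 4) (nat_lit 353) (nat_lit 286) (nat_lit 141))))) (XT.nd (nat_lit 156) (nat_lit 76) (nat_lit 0)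 (XT.nd (nat_lit 78) (nat_lit 76) (nat_lit 0) (XT.lf (nat_lit 0) (nat_lit 118105084092) (nat_lit 152) (nat_lit 404049369) (nat_lit 0) (nat_lit 21637426361) (nat_lit 11) (nat_lit 5) (nat_lit 13) (nat_lit 4) (nat_lit 11) (nat_lit 4) (nat_lit 354) (nat_lit 286) (nat_lit 140)) (XT.lf (nat_lit 0) (nat_lit 36523874616) (nat_lit 76) (nat_lit 103034303434) (nat_lit 76) (nat_lit 6562939962) (nat_lit 10) (nat_lit 4) (nat_lit 11) (nat_lit 5) (nat_lit 11) (nat_lit 4) (nat_lit 355) (nat_lit 286) (nat_lit 139))) (XT.nd (nat_lit 78) (nat_lit 0) (nat_lit 0) (XT.lf (nat_lit 0) (nat_lit 9384801289) (nat_lit 152) (nat_lit 77236050105) (nat_lit 76) (nat_lit 65765719490) (nat_lit 9) (nat_lit 5) (nat_lit 11) (nat_lit 5) (nat_lit 10) (nat_lit 4) (nat_lit 356) (nat_lit 286) (nat_lit 138)) (XT.nd (nat_lit 78) (nat_lit 0) (nat_lit 0) (XT.lf (nat_lit 0) (nat_lit 25907894625) (nat_lit 152) (nat_lit 43367069981)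 (nat_lit 76) (nat_lit 89685027142) (nat_lit 9) (nat_lit 5) (nat_lit 11) (nat_lit 5) (nat_lit 10) (nat_lit 4) (nat_lit 357) (nat_lit 286) (nat_lit 137)) (XT.lf (nat_lit 0) (nat_lit 43255735810) (nat_lit 152) (nat_lit 7807196710) (nat_lit 76) (nat_lit 114799222384) (nat_lit 9) (nat_lit 5) (nat_lit 11) (nat_lit 5) (nat_lit 10) (nat_lit 4) (nat_lit 358) (nat_lit 286) (nat_lit 136))))))) (XT.nd (nat_lit 780) (nat_lit 152) (nat_lit 0) (XT.nd (nat_lit 390) (nat_lit 152) (nat_lit 0) (XT.nd (nat_lit 156) (nat_lit 0) (nat_lit 0) (XT.nd (nat_lit 78) (nat_lit 0) (nat_lit 0) (XT.lf (nat_lit 0) (nat_lit 30504572909) (nat_lit 76) (nat_lit 31441318189) (nat_lit 152) (nat_lit 111139789879) (nat_lit 8) (nat_lit 5) (nat_lit 9) (nat_lit 5) (nat_lit 10) (nat_lit 4) (nat_lit 359) (nat_lit 286) (nat_lit 135)) (XT.lf (nat_lit 0) (nat_lit 71000584360) (nat_lit 76) (nat_lit 10700875029) (nat_lit 152) (nat_lit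 98962379525) (nat_lit 8) (nat_lit 5) (nat_lit 9) (nat_lit 5) (nat_lit 10) (nat_lit 4) (nat_lit 360) (nat_lit 286) (nat_lit 134))) (XT.nd (nat_lit 78) (nat_lit 0) (nat_lit 0) (XT.lf (nat_lit 0) (nat_lit 102616475756) (nat_lit 152) (nat_lit 75274773075) (nat_lit 0) (nat_lit 10721073215) (nat_lit 8) (nat_lit 5) (nat_lit 10) (nat_lit 4) (nat_lit 8) (nat_lit 4) (nat_lit 361) (nat_lit 286) (nat_lit 133)) (XT.nd (nat_lit 78) (nat_lit 0) (nat_lit 0) (XT.lf (nat_lit 0) (nat_lit 124751460500) (nat_lit 152) (nat_lit 39344508935) (nat_lit 0) (nat_lit 32853549768) (nat_lit 8) (nat_lit 5) (nat_lit 10) (nat_lit 4) (nat_lit 8) (nat_lit 4) (nat_lit 362) (nat_lit 286) (nat_lit 132)) (XT.lf (nat_lit 0) (nat_lit 147992045316) (nat_lit 152) (nat_lit 1619843238) (nat_lit 0) (nat_lit 56091745831) (nat_lit 8) (nat_lit 5) (nat_lit 10) (nat_lit 4) (nat_lit 8) (nat_lit 4) (nat_lit 363) (nat_lit 286) (nat_lit 131)))))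 (XT.nd (nat_lit 156) (nat_lit 76) (nat_lit 0) (XT.nd (nat_lit 78) (nat_lit 0) (nat_lit 0) (XT.lf (nat_lit 0) (nat_lit 39245134027) (nat_lit 76) (nat_lit 133761157430) (nat_lit 76) (nat_lit 41858582941) (nat_lit 7) (nat_lit 4) (nat_lit 8) (nat_lit 5) (nat_lit 8) (nat_lit 4) (nat_lit 364) (nat_lit 286) (nat_lit 130)) (XT.lf (nat_lit 0) (nat_lit 82207618797) (nat_lit 76) (nat_lit 117089990718) (nat_lit 76) (nat_lit 25185249560) (nat_lit 7) (nat_lit 4) (nat_lit 8) (nat_lit 5) (nat_lit 8) (nat_lit 4) (nat_lit 365) (nat_lit 286) (nat_lit 129))) (XT.nd (nat_lit 78) (nat_lit 76) (nat_lit 0) (XT.lf (nat_lit 0) (nat_lit 127316343369) (nat_lit 76) (nat_lit 99586127994) (nat_lit 76) (nat_lit 7679323341) (nat_lit 7) (nat_lit 4) (nat_lit 8) (nat_lit 5) (nat_lit 8) (nat_lit 4) (nat_lit 366) (nat_lit 286) (nat_lit 128)) (XT.nd (nat_lit 78) (nat_lit 0) (nat_lit 0) (XT.lf (nat_lit 0) (nat_lit 10358381615)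 (nat_lit 152) (nat_lit 70674087575) (nat_lit 76) (nat_lit 164144903648) (nat_lit 6) (nat_lit 5) (nat_lit 8) (nat_lit 5) (nat_lit 7) (nat_lit 4) (nat_lit 367) (nat_lit 286) (nat_lit 127)) (XT.lf (nat_lit 0) (nat_lit 29038953376) (nat_lit 152) (nat_lit 32380787115) (nat_lit 76) (nat_lit 194876742530) (nat_lit 6) (nat_lit 5) (nat_lit 8) (nat_lit 5) (nat_lit 7) (nat_lit 4) (nat_lit 368) (nat_lit 286) (nat_lit 126)))))) (XT.nd (nat_lit 390) (nat_lit 76) (nat_lit 0) (XT.nd (nat_lit 156) (nat_lit 0) (nat_lit 0) (XT.nd (nat_lit 78) (nat_lit 0) (nat_lit 0) (XT.lf (nat_lit 0) (nat_lit 8084267368) (nat_lit 76) (nat_lit 40694606499) (nat_lit 152) (nat_lit 219186409344) (nat_lit 5) (nat_lit 5) (nat_lit 6) (nat_lit 5) (nat_lit 7) (nat_lit 4) (nat_lit 369) (nat_lit 286) (nat_lit 125)) (XT.lf (nat_lit 0) (nat_lit 51695131090) (nat_lit 76) (nat_lit 18358162955) (nat_lit 152) (nat_lit 210136854663) (nat_lit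 5) (nat_lit 5) (nat_lit 6) (nat_lit 5) (nat_lit 7) (nat_lit 4) (nat_lit 370) (nat_lit 286) (nat_lit 124))) (XT.nd (nat_lit 78) (nat_lit 0) (nat_lit 0) (XT.lf (nat_lit 0) (nat_lit 92470134201) (nat_lit 152) (nat_lit 195620853164) (nat_lit 0) (nat_lit 4931335623) (nat_lit 5) (nat_lit 5) (nat_lit 7) (nat_lit 4) (nat_lit 5) (nat_lit 4) (nat_lit 371) (nat_lit 286) (nat_lit 123)) (XT.nd (nat_lit 78) (nat_lit 0) (nat_lit 0) (XT.lf (nat_lit 0) (nat_lit 116307960460) (nat_lit 152) (nat_lit 161405443358) (nat_lit 0) (nat_lit 28767695396) (nat_lit 5) (nat_lit 5) (nat_lit 7) (nat_lit 4) (nat_lit 5) (nat_lit 4) (nat_lit 372) (nat_lit 286) (nat_lit 122)) (XT.lf (nat_lit 0) (nat_lit 141336907181) (nat_lit 152) (nat_lit 125480700565) (nat_lit 0) (nat_lit 53795245462) (nat_lit 5) (nat_lit 5) (nat_lit 7) (nat_lit 4) (nat_lit 5) (nat_lit 4) (nat_lit 373) (nat_lit 286) (nat_lit 121))))) (XT.nd (nat_lit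 234) (nat_lit 76) (nat_lit 0) (XT.nd (nat_lit 78) (nat_lit 0) (nat_lit 0) (XT.lf (nat_lit 0) (nat_lit 167616567094) (nat_lit 152) (nat_lit 87761089684) (nat_lit 0) (nat_lit 80073575227) (nat_lit 5) (nat_lit 5) (nat_lit 7) (nat_lit 4) (nat_lit 5) (nat_lit 4) (nat_lit 374) (nat_lit 286) (nat_lit 120)) (XT.nd (nat_lit 78) (nat_lit 0) (nat_lit 0) (XT.lf (nat_lit 0) (nat_lit 195209510816) (nat_lit 152) (nat_lit 48156802117) (nat_lit 0) (nat_lit 107665252143) (nat_lit 5) (nat_lit 5) (nat_lit 7) (nat_lit 4) (nat_lit 5) (nat_lit 4) (nat_lit 375) (nat_lit 286) (nat_lit 119)) (XT.lf (nat_lit 0) (nat_lit 224181435834) (nat_lit 152) (nat_lit 6573541942) (nat_lit 0) (nat_lit 136635970678) (nat_lit 5) (nat_lit 5) (nat_lit 7) (nat_lit 4) (nat_lit 5) (nat_lit 4) (nat_lit 376) (nat_lit 286) (nat_lit 118)))) (XT.nd (nat_lit 78) (nat_lit 0) (nat_lit 0) (XT.lf (nat_lit 0) (nat_lit 38313985411) (nat_lit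 76) (nat_lit 216885526197) (nat_lit 76) (nat_lit 129338912010) (nat_lit 4) (nat_lit 4) (nat_lit 5) (nat_lit 5) (nat_lit 5) (nat_lit 4) (nat_lit 377) (nat_lit 286) (nat_lit 117)) (XT.nd (nat_lit 78) (nat_lit 0) (nat_lit 0) (XT.lf (nat_lit 0) (nat_lit 85672944102) (nat_lit 76) (nat_lit 202206251034) (nat_lit 76) (nat_lit 114658542532) (nat_lit 4) (nat_lit 4) (nat_lit 5) (nat_lit 5) (nat_lit 5) (nat_lit 4) (nat_lit 378) (nat_lit 286) (nat_lit 116)) (XT.lf (nat_lit 0) (nat_lit 135398742572) (nat_lit 76) (nat_lit 186793527745) (nat_lit 76) (nat_lit 99244777037) (nat_lit 4) (nat_lit 4) (nat_lit 5) (nat_lit 5) (nat_lit 5) (nat_lit 4) (nat_lit 379) (nat_lit 286) (nat_lit 115))))))))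
noncomputable def xc182 : XT := (XT.nd (nat_lit 34632) (nat_lit 0) (nat_lit 2128) (XT.nd (nat_lit 33852) (nat_lit 0) (nat_lit 4788) (XT.nd (nat_lit 33462) (nat_lit 0) (nat_lit 6080) (XT.nd (nat_lit 156) (nat_lit 0) (nat_lit 0) (XT.nd (nat_lit 78) (nat_lit 0) (nat_lit 0) (XT.lf (nat_lit 0) (nat_lit 187609775579) (nat_lit 76) (nat_lit 170610659370) (nat_lit 76) (nat_lit 83060916086) (nat_lit 4) (nat_lit 4) (nat_lit 5) (nat_lit 5) (nat_lit 5) (nat_lit 4) (nat_lit 380) (nat_lit 286) (nat_lit 114)) (XT.lf (nat_lit 0) (nat_lit 242430355107) (nat_lit 76) (nat_lit 153619115270) (nat_lit 76) (nat_lit 66068426676) (nat_lit 4) (nat_lit 4) (nat_lit 5) (nat_lit 5) (nat_lit 5) (nat_lit 4) (nat_lit 381) (nat_lit 286) (nat_lit 113))) (XT.nd (nat_lit 78) (nat_lit 0) (nat_lit 0) (XT.lf (nat_lit 0) (nat_lit 299991006345) (nat_lit 76) (nat_lit 135778439389) (nat_lit 76) (nat_lit 48226850498) (nat_lit 4)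 (nat_lit 4) (nat_lit 5) (nat_lit 5) (nat_lit 5) (nat_lit 4) (nat_lit 382) (nat_lit 286) (nat_lit 112)) (XT.nd (nat_lit 33150) (nat_lit 0) (nat_lit 6080) (XT.lf (nat_lit 0) (nat_lit 360428778462) (nat_lit 76) (nat_lit 117046153925) (nat_lit 76) (nat_lit 29493707610) (nat_lit 4) (nat_lit 4) (nat_lit 5) (nat_lit 5) (nat_lit 5) (nat_lit 4) (nat_lit 383) (nat_lit 286) (nat_lit 111)) (XT.lf (nat_lit 0) (nat_lit 1939766705) (nat_lit 0) (nat_lit 1939766705) (nat_lit 684) (nat_lit 3853474011) (nat_lit 84) (nat_lit 5) (nat_lit 84) (nat_lit 3) (nat_lit 93) (nat_lit 3) (nat_lit 287) (nat_lit 287) (nat_lit 206))))) (XT.nd (nat_lit 156) (nat_lit 0) (nat_lit 76) (XT.nd (nat_lit 78) (nat_lit 0) (nat_lit 0) (XT.lf (nat_lit 0) (nat_lit 8259951991) (nat_lit 684) (nat_lit 4717697225) (nat_lit 760) (nat_lit 2859064767) (nat_lit 84) (nat_lit 5) (nat_lit 93) (nat_lit 3) (nat_lit 94) (nat_lit 5) (nat_lit 288)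 (nat_lit 287) (nat_lit 205)) (XT.lf (nat_lit 76) (nat_lit 2501644677) (nat_lit 0) (nat_lit 6370329546) (nat_lit 760) (nat_lit 7349707995) (nat_lit 85) (nat_lit 5) (nat_lit 84) (nat_lit 5) (nat_lit 94) (nat_lit 5) (nat_lit 289) (nat_lit 287) (nat_lit 204))) (XT.nd (nat_lit 78) (nat_lit 0) (nat_lit 0) (XT.lf (nat_lit 0) (nat_lit 9588848073) (nat_lit 684) (nat_lit 6396468172) (nat_lit 760) (nat_lit 636907028) (nat_lit 85) (nat_lit 5) (nat_lit 94) (nat_lit 5) (nat_lit 95) (nat_lit 5) (nat_lit 290) (nat_lit 287) (nat_lit 203)) (XT.nd (nat_lit 78) (nat_lit 0) (nat_lit 0) (XT.lf (nat_lit 76) (nat_lit 1218182429) (nat_lit 0) (nat_lit 9231773318) (nat_lit 760) (nat_lit 6587451301) (nat_lit 86) (nat_lit 5) (nat_lit 85) (nat_lit 5) (nat_lit 95) (nat_lit 5) (nat_lit 291) (nat_lit 287) (nat_lit 202)) (XT.lf (nat_lit 76) (nat_lit 9426137168) (nat_lit 0) (nat_lit 2021817047) (nat_lit 760) (nat_lit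 6020737524) (nat_lit 86) (nat_lit 5) (nat_lit 85) (nat_lit 5) (nat_lit 95) (nat_lit 5) (nat_lit 292) (nat_lit 287) (nat_lit 201)))))) (XT.nd (nat_lit 390) (nat_lit 1444) (nat_lit 0) (XT.nd (nat_lit 156) (nat_lit 0) (nat_lit 76) (XT.nd (nat_lit 78) (nat_lit 0) (nat_lit 0) (XT.lf (nat_lit 76) (nat_lit 27351416) (nat_lit 0) (nat_lit 12541830450) (nat_lit 760) (nat_lit 5348724242) (nat_lit 87) (nat_lit 5) (nat_lit 86) (nat_lit 5) (nat_lit 96) (nat_lit 5) (nat_lit 293) (nat_lit 287) (nat_lit 200)) (XT.lf (nat_lit 76) (nat_lit 8736047146) (nat_lit 0) (nat_lit 5166013200) (nat_lit 760) (nat_lit 4479771758) (nat_lit 87) (nat_lit 5) (nat_lit 86) (nat_lit 5) (nat_lit 96) (nat_lit 5) (nat_lit 294) (nat_lit 287) (nat_lit 199))) (XT.nd (nat_lit 78) (nat_lit 0) (nat_lit 0) (XT.lf (nat_lit 0) (nat_lit 15329299200) (nat_lit 684) (nat_lit 1038970460) (nat_lit 760) (nat_lit 2499327858) (nat_lit 87) (nat_lit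 5) (nat_lit 96) (nat_lit 5) (nat_lit 97) (nat_lit 5) (nat_lit 295) (nat_lit 287) (nat_lit 198)) (XT.nd (nat_lit 78) (nat_lit 0) (nat_lit 0) (XT.lf (nat_lit 76) (nat_lit 8165377548) (nat_lit 0) (nat_lit 8862750238) (nat_lit 760) (nat_lit 2339539586) (nat_lit 88) (nat_lit 5) (nat_lit 87) (nat_lit 5) (nat_lit 97) (nat_lit 5) (nat_lit 296) (nat_lit 287) (nat_lit 197)) (XT.lf (nat_lit 76) (nat_lit 17856704721) (nat_lit 0) (nat_lit 961266659) (nat_lit 760) (nat_lit 1074491905) (nat_lit 88) (nat_lit 5) (nat_lit 87) (nat_lit 5) (nat_lit 97) (nat_lit 5) (nat_lit 297) (nat_lit 287) (nat_lit 196))))) (XT.nd (nat_lit 156) (nat_lit 836) (nat_lit 0) (XT.nd (nat_lit 78) (nat_lit 0) (nat_lit 0) (XT.lf (nat_lit 0) (nat_lit 473321476) (nat_lit 760) (nat_lit 12728026176) (nat_lit 76) (nat_lit 7230595180) (nat_lit 78) (nat_lit 5) (nat_lit 88) (nat_lit 5) (nat_lit 79) (nat_lit 5) (nat_lit 298) (nat_lit 287)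 (nat_lit 195)) (XT.lf (nat_lit 0) (nat_lit 2102454672) (nat_lit 760) (nat_lit 3039056159) (nat_lit 76) (nat_lit 15854025511) (nat_lit 78) (nat_lit 5) (nat_lit 88) (nat_lit 5) (nat_lit 79) (nat_lit 5) (nat_lit 299) (nat_lit 287) (nat_lit 194))) (XT.nd (nat_lit 78) (nat_lit 380) (nat_lit 0) (XT.lf (nat_lit 0) (nat_lit 3971472101) (nat_lit 532) (nat_lit 14275137246) (nat_lit 76) (nat_lit 3332800395) (nat_lit 72) (nat_lit 5) (nat_lit 79) (nat_lit 5) (nat_lit 73) (nat_lit 5) (nat_lit 300) (nat_lit 287) (nat_lit 193)) (XT.nd (nat_lit 78) (nat_lit 380) (nat_lit 0) (XT.lf (nat_lit 0) (nat_lit 6060649310) (nat_lit 532) (nat_lit 4014373039) (nat_lit 76) (nat_lit 12111139585) (nat_lit 72) (nat_lit 5) (nat_lit 79) (nat_lit 5) (nat_lit 73) (nat_lit 5) (nat_lit 301) (nat_lit 287) (nat_lit 192)) (XT.lf (nat_lit 0) (nat_lit 6973466154) (nat_lit 380) (nat_lit 1380275738) (nat_lit 456) (nat_lit 14464556602)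 (nat_lit 67) (nat_lit 5) (nat_lit 72) (nat_lit 5) (nat_lit 73) (nat_lit 5) (nat_lit 302) (nat_lit 287) (nat_lit 191))))))) (XT.nd (nat_lit 780) (nat_lit 1216) (nat_lit 0) (XT.nd (nat_lit 390) (nat_lit 836) (nat_lit 0) (XT.nd (nat_lit 156) (nat_lit 304) (nat_lit 0) (XT.nd (nat_lit 78) (nat_lit 304) (nat_lit 0) (XT.lf (nat_lit 0) (nat_lit 10942466412) (nat_lit 456) (nat_lit 4960162477) (nat_lit 76) (nat_lit 7570382781) (nat_lit 67) (nat_lit 5) (nat_lit 73) (nat_lit 5) (nat_lit 68) (nat_lit 5) (nat_lit 303) (nat_lit 287) (nat_lit 190)) (XT.lf (nat_lit 0) (nat_lit 6649918257) (nat_lit 304) (nat_lit 7128484599) (nat_lit 380) (nat_lit 10376186630) (nat_lit 63) (nat_lit 5) (nat_lit 67) (nat_lit 5) (nat_lit 68) (nat_lit 5) (nat_lit 304) (nat_lit 287) (nat_lit 189))) (XT.nd (nat_lit 78) (nat_lit 304) (nat_lit 0) (XT.lf (nat_lit 0) (nat_lit 16865649894) (nat_lit 380) (nat_lit 5896575020) (nat_lit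 76) (nat_lit 2102562510) (nat_lit 63) (nat_lit 5) (nat_lit 68) (nat_lit 5) (nat_lit 64) (nat_lit 5) (nat_lit 305) (nat_lit 287) (nat_lit 188)) (XT.nd (nat_lit 78) (nat_lit 0) (nat_lit 0) (XT.lf (nat_lit 0) (nat_lit 6370073708) (nat_lit 304) (nat_lit 13945492221) (nat_lit 380) (nat_lit 5284530110) (nat_lit 59) (nat_lit 5) (nat_lit 63) (nat_lit 5) (nat_lit 64) (nat_lit 5) (nat_lit 306) (nat_lit 287) (nat_lit 187)) (XT.lf (nat_lit 0) (nat_lit 19446039743) (nat_lit 304) (nat_lit 4584035955) (nat_lit 380) (nat_lit 2337504836) (nat_lit 59) (nat_lit 5) (nat_lit 63) (nat_lit 5) (nat_lit 64) (nat_lit 5) (nat_lit 307) (nat_lit 287) (nat_lit 186))))) (XT.nd (nat_lit 156) (nat_lit 532) (nat_lit 0) (XT.nd (nat_lit 78) (nat_lit 0) (nat_lit 0) (XT.lf (nat_lit 0) (nat_lit 905257261) (nat_lit 304) (nat_lit 21072309634) (nat_lit 76) (nat_lit 5186664926) (nat_lit 55) (nat_lit 5) (nat_lit 59) (nat_lit 5)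 (nat_lit 56) (nat_lit 5) (nat_lit 308) (nat_lit 287) (nat_lit 185)) (XT.lf (nat_lit 0) (nat_lit 4418571297) (nat_lit 304) (nat_lit 8122685890) (nat_lit 76) (nat_lit 15448207288) (nat_lit 55) (nat_lit 5) (nat_lit 59) (nat_lit 5) (nat_lit 56) (nat_lit 5) (nat_lit 309) (nat_lit 287) (nat_lit 184))) (XT.nd (nat_lit 78) (nat_lit 228) (nat_lit 0) (XT.lf (nat_lit 0) (nat_lit 5646769727) (nat_lit 304) (nat_lit 2541971698) (nat_lit 380) (nat_lit 20663170442) (nat_lit 51) (nat_lit 5) (nat_lit 55) (nat_lit 5) (nat_lit 56) (nat_lit 5) (nat_lit 310) (nat_lit 287) (nat_lit 183)) (XT.nd (nat_lit 78) (nat_lit 228) (nat_lit 0) (XT.lf (nat_lit 0) (nat_lit 12404680848) (nat_lit 380) (nat_lit 9498968023) (nat_lit 76) (nat_lit 7840981742) (nat_lit 51) (nat_lit 5) (nat_lit 56) (nat_lit 5) (nat_lit 52) (nat_lit 5) (nat_lit 311) (nat_lit 287) (nat_lit 182)) (XT.lf (nat_lit 0) (nat_lit 5002798799) (nat_lit 228)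 (nat_lit 11941929869) (nat_lit 304) (nat_lit 13731602510) (nat_lit 48) (nat_lit 5) (nat_lit 51) (nat_lit 5) (nat_lit 52) (nat_lit 5) (nat_lit 312) (nat_lit 287) (nat_lit 181)))))) (XT.nd (nat_lit 390) (nat_lit 684) (nat_lit 0) (XT.nd (nat_lit 156) (nat_lit 304) (nat_lit 0) (XT.nd (nat_lit 78) (nat_lit 228) (nat_lit 0) (XT.lf (nat_lit 0) (nat_lit 20551403243) (nat_lit 228) (nat_lit 1314959879) (nat_lit 304) (nat_lit 9780535342) (nat_lit 48) (nat_lit 5) (nat_lit 51) (nat_lit 5) (nat_lit 52) (nat_lit 5) (nat_lit 313) (nat_lit 287) (nat_lit 180)) (XT.lf (nat_lit 0) (nat_lit 4183732346) (nat_lit 228) (nat_lit 23063337087) (nat_lit 304) (nat_lit 5408285562) (nat_lit 45) (nat_lit 5) (nat_lit 48) (nat_lit 5) (nat_lit 49) (nat_lit 5) (nat_lit 314) (nat_lit 287) (nat_lit 179))) (XT.nd (nat_lit 78) (nat_lit 304) (nat_lit 0) (XT.lf (nat_lit 0) (nat_lit 20582055735) (nat_lit 228) (nat_lit 12518024276)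 (nat_lit 304) (nat_lit 604000787) (nat_lit 45) (nat_lit 5) (nat_lit 48) (nat_lit 5) (nat_lit 49) (nat_lit 5) (nat_lit 315) (nat_lit 287) (nat_lit 178)) (XT.nd (nat_lit 78) (nat_lit 0) (nat_lit 0) (XT.lf (nat_lit 0) (nat_lit 3014577785) (nat_lit 228) (nat_lit 1325193155) (nat_lit 304) (nat_lit 30459944672) (nat_lit 41) (nat_lit 5) (nat_lit 44) (nat_lit 5) (nat_lit 45) (nat_lit 5) (nat_lit 316) (nat_lit 287) (nat_lit 177)) (XT.lf (nat_lit 0) (nat_lit 9893554895) (nat_lit 304) (nat_lit 15709548228) (nat_lit 76) (nat_lit 10327386406) (nat_lit 41) (nat_lit 5) (nat_lit 45) (nat_lit 5) (nat_lit 42) (nat_lit 5) (nat_lit 317) (nat_lit 287) (nat_lit 176))))) (XT.nd (nat_lit 234) (nat_lit 456) (nat_lit 0) (XT.nd (nat_lit 78) (nat_lit 0) (nat_lit 0) (XT.lf (nat_lit 0) (nat_lit 1178421288) (nat_lit 228) (nat_lit 14581445933) (nat_lit 304) (nat_lit 21356201101) (nat_lit 38) (nat_lit 5) (nat_lit 41)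 (nat_lit 5) (nat_lit 42) (nat_lit 5) (nat_lit 318) (nat_lit 287) (nat_lit 175)) (XT.nd (nat_lit 78) (nat_lit 0) (nat_lit 0) (XT.lf (nat_lit 0) (nat_lit 19448916622) (nat_lit 228) (nat_lit 2731481639) (nat_lit 304) (nat_lit 16167490389) (nat_lit 38) (nat_lit 5) (nat_lit 41) (nat_lit 5) (nat_lit 42) (nat_lit 5) (nat_lit 319) (nat_lit 287) (nat_lit 174)) (XT.lf (nat_lit 0) (nat_lit 29068639183) (nat_lit 304) (nat_lit 1167126069) (nat_lit 76) (nat_lit 9398207958) (nat_lit 38) (nat_lit 5) (nat_lit 42) (nat_lit 5) (nat_lit 39) (nat_lit 5) (nat_lit 320) (nat_lit 287) (nat_lit 173)))) (XT.nd (nat_lit 78) (nat_lit 304) (nat_lit 0) (XT.lf (nat_lit 0) (nat_lit 17975040525) (nat_lit 152) (nat_lit 18646973344) (nat_lit 228) (nat_lit 4346319072) (nat_lit 36) (nat_lit 5) (nat_lit 38) (nat_lit 5) (nat_lit 39) (nat_lit 5) (nat_lit 321) (nat_lit 287) (nat_lit 172)) (XT.nd (nat_lit 78) (nat_lit 228) (nat_lit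 0) (XT.lf (nat_lit 0) (nat_lit 2129186343) (nat_lit 228) (nat_lit 4294861303) (nat_lit 76) (nat_lit 35942893247) (nat_lit 35) (nat_lit 5) (nat_lit 38) (nat_lit 5) (nat_lit 36) (nat_lit 5) (nat_lit 322) (nat_lit 287) (nat_lit 171)) (XT.lf (nat_lit 0) (nat_lit 9129353651) (nat_lit 304) (nat_lit 28159789283) (nat_lit 76) (nat_lit 6525432251) (nat_lit 32) (nat_lit 5) (nat_lit 36) (nat_lit 5) (nat_lit 33) (nat_lit 5) (nat_lit 323) (nat_lit 287) (nat_lit 170))))))))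
noncomputable def xc183 : XT := (XT.nd (nat_lit 1560) (nat_lit 532) (nat_lit 0) (XT.nd (nat_lit 780) (nat_lit 608) (nat_lit 0) (XT.nd (nat_lit 390) (nat_lit 304) (nat_lit 0) (XT.nd (nat_lit 156) (nat_lit 228) (nat_lit 0) (XT.nd (nat_lit 78) (nat_lit 152) (nat_lit 0) (XT.lf (nat_lit 0) (nat_lit 16654409828) (nat_lit 304) (nat_lit 8693050673) (nat_lit 76) (nat_lit 19978392451) (nat_lit 32) (nat_lit 5) (nat_lit 36) (nat_lit 5) (nat_lit 33) (nat_lit 5) (nat_lit 324) (nat_lit 287) (nat_lit 169)) (XT.lf (nat_lit 0) (nat_lit 12128926282) (nat_lit 152) (nat_lit 12612006972) (nat_lit 228) (nat_lit 22162506139) (nat_lit 30) (nat_lit 5) (nat_lit 32) (nat_lit 5) (nat_lit 33) (nat_lit 5) (nat_lit 325) (nat_lit 287) (nat_lit 168))) (XT.nd (nat_lit 78) (nat_lit 228) (nat_lit 0) (XT.lf (nat_lit 0) (nat_lit 33389201815) (nat_lit 228) (nat_lit 14279394181) (nat_lit 76) (nat_lit 883443457) (nat_lit 30)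 (nat_lit 5) (nat_lit 33) (nat_lit 5) (nat_lit 31) (nat_lit 5) (nat_lit 326) (nat_lit 287) (nat_lit 167)) (XT.nd (nat_lit 78) (nat_lit 76) (nat_lit 0) (XT.lf (nat_lit 0) (nat_lit 7260023388) (nat_lit 152) (nat_lit 35526073777) (nat_lit 228) (nat_lit 7481166680) (nat_lit 28) (nat_lit 5) (nat_lit 30) (nat_lit 5) (nat_lit 31) (nat_lit 5) (nat_lit 327) (nat_lit 287) (nat_lit 166)) (XT.lf (nat_lit 0) (nat_lit 807805202) (nat_lit 228) (nat_lit 21703192947) (nat_lit 76) (nat_lit 29544703095) (nat_lit 27) (nat_lit 5) (nat_lit 30) (nat_lit 5) (nat_lit 28) (nat_lit 5) (nat_lit 328) (nat_lit 287) (nat_lit 165))))) (XT.nd (nat_lit 156) (nat_lit 152) (nat_lit 0) (XT.nd (nat_lit 78) (nat_lit 0) (nat_lit 0) (XT.lf (nat_lit 0) (nat_lit 555377438) (nat_lit 152) (nat_lit 8709422014) (nat_lit 228) (nat_lit 44662383771) (nat_lit 25) (nat_lit 5) (nat_lit 27) (nat_lit 5) (nat_lit 28) (nat_lit 5) (nat_lit 329)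 (nat_lit 287) (nat_lit 164)) (XT.lf (nat_lit 0) (nat_lit 18604871688) (nat_lit 228) (nat_lit 31295671645) (nat_lit 76) (nat_lit 5968688665) (nat_lit 25) (nat_lit 5) (nat_lit 28) (nat_lit 5) (nat_lit 26) (nat_lit 5) (nat_lit 330) (nat_lit 287) (nat_lit 163))) (XT.nd (nat_lit 78) (nat_lit 152) (nat_lit 0) (XT.lf (nat_lit 0) (nat_lit 28551269574) (nat_lit 228) (nat_lit 8264098594) (nat_lit 76) (nat_lit 21086052858) (nat_lit 25) (nat_lit 5) (nat_lit 28) (nat_lit 5) (nat_lit 26) (nat_lit 5) (nat_lit 331) (nat_lit 287) (nat_lit 162)) (XT.nd (nat_lit 78) (nat_lit 0) (nat_lit 0) (XT.lf (nat_lit 0) (nat_lit 16439908680) (nat_lit 152) (nat_lit 22808460890) (nat_lit 228) (nat_lit 20774184551) (nat_lit 23) (nat_lit 5) (nat_lit 25) (nat_lit 5) (nat_lit 26) (nat_lit 5) (nat_lit 332) (nat_lit 287) (nat_lit 161)) (XT.lf (nat_lit 0) (nat_lit 42660788857) (nat_lit 152) (nat_lit 7956276310) (nat_lit 228)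 (nat_lit 11625845226) (nat_lit 23) (nat_lit 5) (nat_lit 25) (nat_lit 5) (nat_lit 26) (nat_lit 5) (nat_lit 333) (nat_lit 287) (nat_lit 160)))))) (XT.nd (nat_lit 390) (nat_lit 304) (nat_lit 0) (XT.nd (nat_lit 156) (nat_lit 152) (nat_lit 0) (XT.nd (nat_lit 78) (nat_lit 76) (nat_lit 0) (XT.lf (nat_lit 0) (nat_lit 5675712846) (nat_lit 76) (nat_lit 57083262304) (nat_lit 152) (nat_lit 1805073729) (nat_lit 22) (nat_lit 5) (nat_lit 23) (nat_lit 5) (nat_lit 24) (nat_lit 4) (nat_lit 334) (nat_lit 287) (nat_lit 159)) (XT.lf (nat_lit 0) (nat_lit 8698890885) (nat_lit 152) (nat_lit 34382195623) (nat_lit 76) (nat_lit 23890298987) (nat_lit 21) (nat_lit 5) (nat_lit 23) (nat_lit 5) (nat_lit 22) (nat_lit 5) (nat_lit 335) (nat_lit 287) (nat_lit 158))) (XT.nd (nat_lit 78) (nat_lit 152) (nat_lit 0) (XT.lf (nat_lit 0) (nat_lit 19664461099) (nat_lit 152) (nat_lit 8685232523) (nat_lit 76) (nat_lit 41148065189)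 (nat_lit 21) (nat_lit 5) (nat_lit 23) (nat_lit 5) (nat_lit 22) (nat_lit 5) (nat_lit 336) (nat_lit 287) (nat_lit 157)) (XT.nd (nat_lit 78) (nat_lit 0) (nat_lit 0) (XT.lf (nat_lit 0) (nat_lit 18896732215) (nat_lit 152) (nat_lit 12573817778) (nat_lit 228) (nat_lit 40665291573) (nat_lit 19) (nat_lit 5) (nat_lit 21) (nat_lit 5) (nat_lit 22) (nat_lit 5) (nat_lit 337) (nat_lit 287) (nat_lit 156)) (XT.lf (nat_lit 0) (nat_lit 44075993186) (nat_lit 228) (nat_lit 26808561801) (nat_lit 76) (nat_lit 4010823629) (nat_lit 19) (nat_lit 5) (nat_lit 22) (nat_lit 5) (nat_lit 20) (nat_lit 4) (nat_lit 338) (nat_lit 287) (nat_lit 155))))) (XT.nd (nat_lit 156) (nat_lit 228) (nat_lit 0) (XT.nd (nat_lit 78) (nat_lit 0) (nat_lit 0) (XT.lf (nat_lit 0) (nat_lit 757147013) (nat_lit 76) (nat_lit 56769883792) (nat_lit 152) (nat_lit 20255098123) (nat_lit 18) (nat_lit 5) (nat_lit 19) (nat_lit 5) (nat_lit 20) (nat_lit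 4) (nat_lit 339) (nat_lit 287) (nat_lit 154)) (XT.lf (nat_lit 0) (nat_lit 30627474733) (nat_lit 76) (nat_lit 41474590874) (nat_lit 152) (nat_lit 8688581287) (nat_lit 18) (nat_lit 5) (nat_lit 19) (nat_lit 5) (nat_lit 20) (nat_lit 4) (nat_lit 340) (nat_lit 287) (nat_lit 153))) (XT.nd (nat_lit 78) (nat_lit 152) (nat_lit 0) (XT.lf (nat_lit 0) (nat_lit 3343148837) (nat_lit 152) (nat_lit 22016508155) (nat_lit 76) (nat_lit 58587362381) (nat_lit 17) (nat_lit 5) (nat_lit 19) (nat_lit 5) (nat_lit 18) (nat_lit 5) (nat_lit 341) (nat_lit 287) (nat_lit 152)) (XT.nd (nat_lit 78) (nat_lit 0) (nat_lit 0) (XT.lf (nat_lit 0) (nat_lit 7635361785) (nat_lit 152) (nat_lit 8165947771) (nat_lit 228) (nat_lit 71446939338) (nat_lit 15) (nat_lit 5) (nat_lit 17) (nat_lit 5) (nat_lit 18) (nat_lit 5) (nat_lit 342) (nat_lit 287) (nat_lit 151)) (XT.lf (nat_lit 0) (nat_lit 29413373882) (nat_lit 228) (nat_lit 51326288311)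 (nat_lit 76) (nat_lit 9948329895) (nat_lit 15) (nat_lit 5) (nat_lit 18) (nat_lit 5) (nat_lit 16) (nat_lit 4) (nat_lit 343) (nat_lit 287) (nat_lit 150))))))) (XT.nd (nat_lit 780) (nat_lit 228) (nat_lit 0) (XT.nd (nat_lit 390) (nat_lit 76) (nat_lit 0) (XT.nd (nat_lit 156) (nat_lit 152) (nat_lit 0) (XT.nd (nat_lit 78) (nat_lit 76) (nat_lit 0) (XT.lf (nat_lit 0) (nat_lit 43837673358) (nat_lit 228) (nat_lit 21763129363) (nat_lit 76) (nat_lit 28692340009) (nat_lit 15) (nat_lit 5) (nat_lit 18) (nat_lit 5) (nat_lit 16) (nat_lit 4) (nat_lit 344) (nat_lit 287) (nat_lit 149)) (XT.lf (nat_lit 0) (nat_lit 9581127451) (nat_lit 76) (nat_lit 49549519023) (nat_lit 152) (nat_lit 38940533291) (nat_lit 14) (nat_lit 5) (nat_lit 15) (nat_lit 5) (nat_lit 16) (nat_lit 4) (nat_lit 345) (nat_lit 287) (nat_lit 148))) (XT.nd (nat_lit 78) (nat_lit 152) (nat_lit 0) (XT.lf (nat_lit 0) (nat_lit 43244507757) (nat_lit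 76) (nat_lit 32310244359) (nat_lit 152) (nat_lit 26465044048) (nat_lit 14) (nat_lit 5) (nat_lit 15) (nat_lit 5) (nat_lit 16) (nat_lit 4) (nat_lit 346) (nat_lit 287) (nat_lit 147)) (XT.nd (nat_lit 78) (nat_lit 152) (nat_lit 0) (XT.lf (nat_lit 0) (nat_lit 78587575118) (nat_lit 76) (nat_lit 14210501964) (nat_lit 152) (nat_lit 13367867226) (nat_lit 14) (nat_lit 5) (nat_lit 15) (nat_lit 5) (nat_lit 16) (nat_lit 4) (nat_lit 347) (nat_lit 287) (nat_lit 146)) (XT.lf (nat_lit 0) (nat_lit 529613633) (nat_lit 152) (nat_lit 105251394877) (nat_lit 76) (nat_lit 4730205879) (nat_lit 12) (nat_lit 5) (nat_lit 14) (nat_lit 5) (nat_lit 13) (nat_lit 4) (nat_lit 348) (nat_lit 287) (nat_lit 145))))) (XT.nd (nat_lit 156) (nat_lit 76) (nat_lit 0) (XT.nd (nat_lit 78) (nat_lit 0) (nat_lit 0) (XT.lf (nat_lit 0) (nat_lit 15378482481) (nat_lit 152) (nat_lit 74816179785) (nat_lit 76) (nat_lit 24832841747) (nat_lit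 12) (nat_lit 5) (nat_lit 14) (nat_lit 5) (nat_lit 13) (nat_lit 4) (nat_lit 349) (nat_lit 287) (nat_lit 144)) (XT.lf (nat_lit 0) (nat_lit 30967978827) (nat_lit 152) (nat_lit 42862441844) (nat_lit 76) (nat_lit 45939279583) (nat_lit 12) (nat_lit 5) (nat_lit 14) (nat_lit 5) (nat_lit 13) (nat_lit 4) (nat_lit 350) (nat_lit 287) (nat_lit 143))) (XT.nd (nat_lit 78) (nat_lit 76) (nat_lit 0) (XT.lf (nat_lit 0) (nat_lit 47335220520) (nat_lit 152) (nat_lit 9314100724) (nat_lit 76) (nat_lit 68099772811) (nat_lit 12) (nat_lit 5) (nat_lit 14) (nat_lit 5) (nat_lit 13) (nat_lit 4) (nat_lit 351) (nat_lit 287) (nat_lit 142)) (XT.nd (nat_lit 78) (nat_lit 0) (nat_lit 0) (XT.lf (nat_lit 0) (nat_lit 26765379885) (nat_lit 76) (nat_lit 38171679887) (nat_lit 152) (nat_lit 65019587214) (nat_lit 11) (nat_lit 5) (nat_lit 12) (nat_lit 5) (nat_lit 13) (nat_lit 4) (nat_lit 352) (nat_lit 287) (nat_lit 141)) (XT.lf (nat_lit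 0) (nat_lit 64969309566) (nat_lit 76) (nat_lit 18605806430) (nat_lit 152) (nat_lit 51841656474) (nat_lit 11) (nat_lit 5) (nat_lit 12) (nat_lit 5) (nat_lit 13) (nat_lit 4) (nat_lit 353) (nat_lit 287) (nat_lit 140)))))) (XT.nd (nat_lit 390) (nat_lit 76) (nat_lit 0) (XT.nd (nat_lit 156) (nat_lit 152) (nat_lit 0) (XT.nd (nat_lit 78) (nat_lit 0) (nat_lit 0) (XT.lf (nat_lit 0) (nat_lit 103173782359) (nat_lit 152) (nat_lit 36099542630) (nat_lit 0) (nat_lit 1875144973) (nat_lit 11) (nat_lit 5) (nat_lit 13) (nat_lit 4) (nat_lit 11) (nat_lit 4) (nat_lit 354) (nat_lit 287) (nat_lit 139)) (XT.lf (nat_lit 0) (nat_lit 124055913435) (nat_lit 152) (nat_lit 341916600) (nat_lit 0) (nat_lit 22753746772) (nat_lit 11) (nat_lit 5) (nat_lit 13) (nat_lit 4) (nat_lit 11) (nat_lit 4) (nat_lit 355) (nat_lit 287) (nat_lit 138))) (XT.nd (nat_lit 78) (nat_lit 76) (nat_lit 0) (XT.lf (nat_lit 0) (nat_lit 38431075596)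 (nat_lit 76) (nat_lit 108149681000) (nat_lit 76) (nat_lit 6844153121) (nat_lit 10) (nat_lit 4) (nat_lit 11) (nat_lit 5) (nat_lit 11) (nat_lit 4) (nat_lit 356) (nat_lit 287) (nat_lit 137)) (XT.nd (nat_lit 78) (nat_lit 0) (nat_lit 0) (XT.lf (nat_lit 0) (nat_lit 9897309604) (nat_lit 152) (nat_lit 81019244347) (nat_lit 76) (nat_lit 69087154207) (nat_lit 9) (nat_lit 5) (nat_lit 11) (nat_lit 5) (nat_lit 10) (nat_lit 4) (nat_lit 357) (nat_lit 287) (nat_lit 136)) (XT.lf (nat_lit 0) (nat_lit 27244497214) (nat_lit 152) (nat_lit 45460558467) (nat_lit 76) (nat_lit 94200848730) (nat_lit 9) (nat_lit 5) (nat_lit 11) (nat_lit 5) (nat_lit 10) (nat_lit 4) (nat_lit 358) (nat_lit 287) (nat_lit 135))))) (XT.nd (nat_lit 234) (nat_lit 0) (nat_lit 0) (XT.nd (nat_lit 78) (nat_lit 76) (nat_lit 0) (XT.lf (nat_lit 0) (nat_lit 45457768179) (nat_lit 152) (nat_lit 8126256533) (nat_lit 76) (nat_lit 120569250389) (nat_lit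 9) (nat_lit 5) (nat_lit 11) (nat_lit 5) (nat_lit 10) (nat_lit 4) (nat_lit 359) (nat_lit 287) (nat_lit 134)) (XT.nd (nat_lit 78) (nat_lit 0) (nat_lit 0) (XT.lf (nat_lit 0) (nat_lit 32099951567) (nat_lit 76) (nat_lit 32981706066) (nat_lit 152) (nat_lit 116656359729) (nat_lit 8) (nat_lit 5) (nat_lit 9) (nat_lit 5) (nat_lit 10) (nat_lit 4) (nat_lit 360) (nat_lit 287) (nat_lit 133)) (XT.lf (nat_lit 0) (nat_lit 74617423113) (nat_lit 76) (nat_lit 11205749225) (nat_lit 152) (nat_lit 103872003602) (nat_lit 8) (nat_lit 5) (nat_lit 9) (nat_lit 5) (nat_lit 10) (nat_lit 4) (nat_lit 361) (nat_lit 287) (nat_lit 132)))) (XT.nd (nat_lit 78) (nat_lit 0) (nat_lit 0) (XT.lf (nat_lit 0) (nat_lit 107782643365) (nat_lit 152) (nat_lit 78973565612) (nat_lit 0) (nat_lit 11284940152) (nat_lit 8) (nat_lit 5) (nat_lit 10) (nat_lit 4) (nat_lit 8) (nat_lit 4) (nat_lit 362) (nat_lit 287) (nat_lit 131)) (XT.nd (nat_lit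 78) (nat_lit 0) (nat_lit 0) (XT.lf (nat_lit 0) (nat_lit 131022694307) (nat_lit 152) (nat_lit 41249880937) (nat_lit 0) (nat_lit 34522716091) (nat_lit 8) (nat_lit 5) (nat_lit 10) (nat_lit 4) (nat_lit 8) (nat_lit 4) (nat_lit 363) (nat_lit 287) (nat_lit 130)) (XT.lf (nat_lit 0) (nat_lit 155423705470) (nat_lit 152) (nat_lit 1641927358) (nat_lit 0) (nat_lit 58921560584) (nat_lit 8) (nat_lit 5) (nat_lit 10) (nat_lit 4) (nat_lit 8) (nat_lit 4) (nat_lit 364) (nat_lit 287) (nat_lit 129))))))))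
noncomputable def xc184 : XT := (XT.nd (nat_lit 34710) (nat_lit 0) (nat_lit 4180) (XT.nd (nat_lit 780) (nat_lit 76) (nat_lit 0) (XT.nd (nat_lit 390) (nat_lit 76) (nat_lit 0) (XT.nd (nat_lit 156) (nat_lit 76) (nat_lit 0) (XT.nd (nat_lit 78) (nat_lit 0) (nat_lit 0) (XT.lf (nat_lit 0) (nat_lit 41265348640) (nat_lit 76) (nat_lit 140422693596) (nat_lit 76) (nat_lit 43918485215) (nat_lit 7) (nat_lit 4) (nat_lit 8) (nat_lit 5) (nat_lit 8) (nat_lit 4) (nat_lit 365) (nat_lit 287) (nat_lit 128)) (XT.lf (nat_lit 0) (nat_lit 86373197748) (nat_lit 76) (nat_lit 122919231487) (nat_lit 76) (nat_lit 26413057873) (nat_lit 7) (nat_lit 4) (nat_lit 8) (nat_lit 5) (nat_lit 8) (nat_lit 4) (nat_lit 366) (nat_lit 287) (nat_lit 127))) (XT.nd (nat_lit 78) (nat_lit 76) (nat_lit 0) (XT.lf (nat_lit 0) (nat_lit 133734730072) (nat_lit 76) (nat_lit 104541378426) (nat_lit 76) (nat_lit 8033333161) (nat_lit 7) (nat_lit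 4) (nat_lit 8) (nat_lit 5) (nat_lit 8) (nat_lit 4) (nat_lit 367) (nat_lit 287) (nat_lit 126)) (XT.nd (nat_lit 78) (nat_lit 0) (nat_lit 0) (XT.lf (nat_lit 0) (nat_lit 10903917416) (nat_lit 152) (nat_lit 74156797084) (nat_lit 76) (nat_lit 172374130631) (nat_lit 6) (nat_lit 5) (nat_lit 8) (nat_lit 5) (nat_lit 7) (nat_lit 4) (nat_lit 368) (nat_lit 287) (nat_lit 125)) (XT.lf (nat_lit 0) (nat_lit 30517202684) (nat_lit 152) (nat_lit 33951259928) (nat_lit 76) (nat_lit 204641514705) (nat_lit 6) (nat_lit 5) (nat_lit 8) (nat_lit 5) (nat_lit 7) (nat_lit 4) (nat_lit 369) (nat_lit 287) (nat_lit 124))))) (XT.nd (nat_lit 156) (nat_lit 0) (nat_lit 0) (XT.nd (nat_lit 78) (nat_lit 0) (nat_lit 0) (XT.lf (nat_lit 0) (nat_lit 8536263948) (nat_lit 76) (nat_lit 42707348823) (nat_lit 152) (nat_lit 230118630770) (nat_lit 5) (nat_lit 5) (nat_lit 6) (nat_lit 5) (nat_lit 7) (nat_lit 4) (nat_lit 370) (nat_lit 287)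 (nat_lit 123)) (XT.lf (nat_lit 0) (nat_lit 54325395465) (nat_lit 76) (nat_lit 19255130149) (nat_lit 152) (nat_lit 220617888786) (nat_lit 5) (nat_lit 5) (nat_lit 6) (nat_lit 5) (nat_lit 7) (nat_lit 4) (nat_lit 371) (nat_lit 287) (nat_lit 122))) (XT.nd (nat_lit 78) (nat_lit 0) (nat_lit 0) (XT.lf (nat_lit 0) (nat_lit 97117349305) (nat_lit 152) (nat_lit 205357683806) (nat_lit 0) (nat_lit 5197207845) (nat_lit 5) (nat_lit 5) (nat_lit 7) (nat_lit 4) (nat_lit 5) (nat_lit 4) (nat_lit 372) (nat_lit 287) (nat_lit 121)) (XT.nd (nat_lit 78) (nat_lit 0) (nat_lit 0) (XT.lf (nat_lit 0) (nat_lit 122145937906) (nat_lit 152) (nat_lit 169433608844) (nat_lit 0) (nat_lit 30224466300) (nat_lit 5) (nat_lit 5) (nat_lit 7) (nat_lit 4) (nat_lit 5) (nat_lit 4) (nat_lit 373) (nat_lit 287) (nat_lit 120)) (XT.lf (nat_lit 0) (nat_lit 148425256753) (nat_lit 152) (nat_lit 131714633991) (nat_lit 0) (nat_lit 56502518339)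 (nat_lit 5) (nat_lit 5) (nat_lit 7) (nat_lit 4) (nat_lit 5) (nat_lit 4) (nat_lit 374) (nat_lit 287) (nat_lit 119)))))) (XT.nd (nat_lit 390) (nat_lit 0) (nat_lit 0) (XT.nd (nat_lit 156) (nat_lit 76) (nat_lit 0) (XT.nd (nat_lit 78) (nat_lit 0) (nat_lit 0) (XT.lf (nat_lit 0) (nat_lit 176017875650) (nat_lit 152) (nat_lit 92110952166) (nat_lit 0) (nat_lit 84093930754) (nat_lit 5) (nat_lit 5) (nat_lit 7) (nat_lit 4) (nat_lit 5) (nat_lit 4) (nat_lit 375) (nat_lit 287) (nat_lit 118)) (XT.lf (nat_lit 0) (nat_lit 204989491311) (nat_lit 152) (nat_lit 50528268888) (nat_lit 0) (nat_lit 113064397384) (nat_lit 5) (nat_lit 5) (nat_lit 7) (nat_lit 4) (nat_lit 5) (nat_lit 4) (nat_lit 376) (nat_lit 287) (nat_lit 117))) (XT.nd (nat_lit 78) (nat_lit 76) (nat_lit 0) (XT.lf (nat_lit 0) (nat_lit 235409083773) (nat_lit 152) (nat_lit 6867577768) (nat_lit 0) (nat_lit 143482895530) (nat_lit 5) (nat_lit 5) (nat_lit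 7) (nat_lit 4) (nat_lit 5) (nat_lit 4) (nat_lit 377) (nat_lit 287) (nat_lit 116)) (XT.nd (nat_lit 78) (nat_lit 0) (nat_lit 0) (XT.lf (nat_lit 0) (nat_lit 40263767223) (nat_lit 76) (nat_lit 227713943658) (nat_lit 76) (nat_lit 135786713211) (nat_lit 4) (nat_lit 4) (nat_lit 5) (nat_lit 5) (nat_lit 5) (nat_lit 4) (nat_lit 378) (nat_lit 287) (nat_lit 115)) (XT.lf (nat_lit 0) (nat_lit 89989050870) (nat_lit 76) (nat_lit 212301459920) (nat_lit 76) (nat_lit 120373236896) (nat_lit 4) (nat_lit 4) (nat_lit 5) (nat_lit 5) (nat_lit 5) (nat_lit 4) (nat_lit 379) (nat_lit 287) (nat_lit 114))))) (XT.nd (nat_lit 156) (nat_lit 0) (nat_lit 0) (XT.nd (nat_lit 78) (nat_lit 0) (nat_lit 0) (XT.lf (nat_lit 0) (nat_lit 142199593570) (nat_lit 76) (nat_lit 196118819689) (nat_lit 76) (nat_lit 104189651354) (nat_lit 4) (nat_lit 4) (nat_lit 5) (nat_lit 5) (nat_lit 5) (nat_lit 4) (nat_lit 380) (nat_lit 287) (nat_lit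 113)) (XT.lf (nat_lit 0) (nat_lit 197019706139) (nat_lit 76) (nat_lit 179127492869) (nat_lit 76) (nat_lit 87197424238) (nat_lit 4) (nat_lit 4) (nat_lit 5) (nat_lit 5) (nat_lit 5) (nat_lit 4) (nat_lit 381) (nat_lit 287) (nat_lit 112))) (XT.nd (nat_lit 78) (nat_lit 0) (nat_lit 0) (XT.lf (nat_lit 0) (nat_lit 254579912653) (nat_lit 76) (nat_lit 161287023920) (nat_lit 76) (nat_lit 69356097864) (nat_lit 4) (nat_lit 4) (nat_lit 5) (nat_lit 5) (nat_lit 5) (nat_lit 4) (nat_lit 382) (nat_lit 287) (nat_lit 111)) (XT.nd (nat_lit 33228) (nat_lit 0) (nat_lit 6080) (XT.lf (nat_lit 0) (nat_lit 315017261225) (nat_lit 76) (nat_lit 142554935535) (nat_lit 76) (nat_lit 50623192885) (nat_lit 4) (nat_lit 4) (nat_lit 5) (nat_lit 5) (nat_lit 5) (nat_lit 4) (nat_lit 383) (nat_lit 287) (nat_lit 110)) (XT.lf (nat_lit 0) (nat_lit 2165116449) (nat_lit 0) (nat_lit 2165116449) (nat_lit 684) (nat_lit 3775992405) (nat_lit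 84) (nat_lit 5) (nat_lit 84) (nat_lit 3) (nat_lit 93) (nat_lit 3) (nat_lit 288) (nat_lit 288) (nat_lit 204))))))) (XT.nd (nat_lit 780) (nat_lit 1900) (nat_lit 0) (XT.nd (nat_lit 390) (nat_lit 0) (nat_lit 152) (XT.nd (nat_lit 156) (nat_lit 0) (nat_lit 76) (XT.nd (nat_lit 78) (nat_lit 0) (nat_lit 0) (XT.lf (nat_lit 0) (nat_lit 9158128135) (nat_lit 684) (nat_lit 4679681174) (nat_lit 760) (nat_lit 2765345545) (nat_lit 84) (nat_lit 5) (nat_lit 93) (nat_lit 3) (nat_lit 94) (nat_lit 5) (nat_lit 289) (nat_lit 288) (nat_lit 203)) (XT.lf (nat_lit 76) (nat_lit 2896210066) (nat_lit 0) (nat_lit 6885645060) (nat_lit 760) (nat_lit 7226515284) (nat_lit 85) (nat_lit 5) (nat_lit 84) (nat_lit 5) (nat_lit 94) (nat_lit 5) (nat_lit 290) (nat_lit 288) (nat_lit 202))) (XT.nd (nat_lit 78) (nat_lit 0) (nat_lit 0) (XT.lf (nat_lit 0) (nat_lit 10509442483) (nat_lit 684) (nat_lit 6433480476) (nat_lit 760) (nat_lit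 487323582) (nat_lit 85) (nat_lit 5) (nat_lit 94) (nat_lit 5) (nat_lit 95) (nat_lit 5) (nat_lit 291) (nat_lit 288) (nat_lit 201)) (XT.nd (nat_lit 78) (nat_lit 0) (nat_lit 0) (XT.lf (nat_lit 76) (nat_lit 1557341185) (nat_lit 0) (nat_lit 9839601374) (nat_lit 760) (nat_lit 6470129156) (nat_lit 86) (nat_lit 5) (nat_lit 85) (nat_lit 5) (nat_lit 95) (nat_lit 5) (nat_lit 292) (nat_lit 288) (nat_lit 200)) (XT.lf (nat_lit 76) (nat_lit 10162443680) (nat_lit 0) (nat_lit 2262183508) (nat_lit 760) (nat_lit 5896350867) (nat_lit 86) (nat_lit 5) (nat_lit 85) (nat_lit 5) (nat_lit 95) (nat_lit 5) (nat_lit 293) (nat_lit 288) (nat_lit 199))))) (XT.nd (nat_lit 156) (nat_lit 0) (nat_lit 76) (XT.nd (nat_lit 78) (nat_lit 0) (nat_lit 0) (XT.lf (nat_lit 76) (nat_lit 312391032) (nat_lit 0) (nat_lit 13272631965) (nat_lit 760) (nat_lit 5208519305) (nat_lit 87) (nat_lit 5) (nat_lit 86) (nat_lit 5) (nat_lit 96) (nat_lit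 5) (nat_lit 294) (nat_lit 288) (nat_lit 198)) (XT.lf (nat_lit 76) (nat_lit 9443013356) (nat_lit 0) (nat_lit 5523085282) (nat_lit 760) (nat_lit 4315530681) (nat_lit 87) (nat_lit 5) (nat_lit 86) (nat_lit 5) (nat_lit 96) (nat_lit 5) (nat_lit 295) (nat_lit 288) (nat_lit 197))) (XT.nd (nat_lit 78) (nat_lit 0) (nat_lit 0) (XT.lf (nat_lit 0) (nat_lit 16445662423) (nat_lit 684) (nat_lit 813775800) (nat_lit 760) (nat_lit 2533236994) (nat_lit 87) (nat_lit 5) (nat_lit 96) (nat_lit 5) (nat_lit 97) (nat_lit 5) (nat_lit 296) (nat_lit 288) (nat_lit 196)) (XT.nd (nat_lit 78) (nat_lit 0) (nat_lit 0) (XT.lf (nat_lit 76) (nat_lit 8846319557) (nat_lit 0) (nat_lit 9370708251) (nat_lit 760) (nat_lit 2101379428) (nat_lit 88) (nat_lit 5) (nat_lit 87) (nat_lit 5) (nat_lit 97) (nat_lit 5) (nat_lit 297) (nat_lit 288) (nat_lit 195)) (XT.lf (nat_lit 76) (nat_lit 19009228654) (nat_lit 0) (nat_lit 1071063803) (nat_lit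 760) (nat_lit 789990656) (nat_lit 88) (nat_lit 5) (nat_lit 87) (nat_lit 5) (nat_lit 97) (nat_lit 5) (nat_lit 298) (nat_lit 288) (nat_lit 194)))))) (XT.nd (nat_lit 390) (nat_lit 608) (nat_lit 0) (XT.nd (nat_lit 156) (nat_lit 836) (nat_lit 0) (XT.nd (nat_lit 78) (nat_lit 0) (nat_lit 0) (XT.lf (nat_lit 0) (nat_lit 812196429) (nat_lit 760) (nat_lit 13080360341) (nat_lit 76) (nat_lit 7544558622) (nat_lit 78) (nat_lit 5) (nat_lit 88) (nat_lit 5) (nat_lit 79) (nat_lit 5) (nat_lit 299) (nat_lit 288) (nat_lit 193)) (XT.lf (nat_lit 0) (nat_lit 2507776339) (nat_lit 760) (nat_lit 2920468830) (nat_lit 76) (nat_lit 16601425532) (nat_lit 78) (nat_lit 5) (nat_lit 88) (nat_lit 5) (nat_lit 79) (nat_lit 5) (nat_lit 300) (nat_lit 288) (nat_lit 192))) (XT.nd (nat_lit 78) (nat_lit 380) (nat_lit 0) (XT.lf (nat_lit 0) (nat_lit 4459732335) (nat_lit 532) (nat_lit 14707239274) (nat_lit 76) (nat_lit 3476321896)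 (nat_lit 72) (nat_lit 5) (nat_lit 79) (nat_lit 5) (nat_lit 73) (nat_lit 5) (nat_lit 301) (nat_lit 288) (nat_lit 191)) (XT.nd (nat_lit 78) (nat_lit 380) (nat_lit 0) (XT.lf (nat_lit 0) (nat_lit 6639573803) (nat_lit 532) (nat_lit 3946848992) (nat_lit 76) (nat_lit 12694678927) (nat_lit 72) (nat_lit 5) (nat_lit 79) (nat_lit 5) (nat_lit 73) (nat_lit 5) (nat_lit 302) (nat_lit 288) (nat_lit 190)) (XT.lf (nat_lit 0) (nat_lit 7586055666) (nat_lit 380) (nat_lit 1452248104) (nat_lit 456) (nat_lit 14907019521) (nat_lit 67) (nat_lit 5) (nat_lit 72) (nat_lit 5) (nat_lit 73) (nat_lit 5) (nat_lit 303) (nat_lit 288) (nat_lit 189))))) (XT.nd (nat_lit 156) (nat_lit 304) (nat_lit 0) (XT.nd (nat_lit 78) (nat_lit 304) (nat_lit 0) (XT.lf (nat_lit 0) (nat_lit 11743712201) (nat_lit 456) (nat_lit 4943549151) (nat_lit 76) (nat_lit 7946174409) (nat_lit 67) (nat_lit 5) (nat_lit 73) (nat_lit 5) (nat_lit 68) (nat_lit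 5) (nat_lit 304) (nat_lit 288) (nat_lit 188)) (XT.lf (nat_lit 0) (nat_lit 7242767532) (nat_lit 304) (nat_lit 7470641711) (nat_lit 380) (nat_lit 10636109816) (nat_lit 63) (nat_lit 5) (nat_lit 67) (nat_lit 5) (nat_lit 68) (nat_lit 5) (nat_lit 305) (nat_lit 288) (nat_lit 187))) (XT.nd (nat_lit 78) (nat_lit 304) (nat_lit 0) (XT.lf (nat_lit 0) (nat_lit 17943512383) (nat_lit 380) (nat_lit 5931469947) (nat_lit 76) (nat_lit 2220843474) (nat_lit 63) (nat_lit 5) (nat_lit 68) (nat_lit 5) (nat_lit 64) (nat_lit 5) (nat_lit 306) (nat_lit 288) (nat_lit 186)) (XT.nd (nat_lit 78) (nat_lit 0) (nat_lit 0) (XT.lf (nat_lit 0) (nat_lit 6944318736) (nat_lit 304) (nat_lit 14614427847) (nat_lit 380) (nat_lit 5309534625) (nat_lit 59) (nat_lit 5) (nat_lit 63) (nat_lit 5) (nat_lit 64) (nat_lit 5) (nat_lit 307) (nat_lit 288) (nat_lit 185)) (XT.lf (nat_lit 0) (nat_lit 20661904913) (nat_lit 304) (nat_lit 4786248243)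 (nat_lit 380) (nat_lit 2226549612) (nat_lit 59) (nat_lit 5) (nat_lit 63) (nat_lit 5) (nat_lit 64) (nat_lit 5) (nat_lit 308) (nat_lit 288) (nat_lit 184))))))))
noncomputable def xc185 : XT := (XT.nd (nat_lit 1560) (nat_lit 1216) (nat_lit 0) (XT.nd (nat_lit 780) (nat_lit 988) (nat_lit 0) (XT.nd (nat_lit 390) (nat_lit 532) (nat_lit 0) (XT.nd (nat_lit 156) (nat_lit 532) (nat_lit 0) (XT.nd (nat_lit 78) (nat_lit 0) (nat_lit 0) (XT.lf (nat_lit 0) (nat_lit 1164936531) (nat_lit 304) (nat_lit 21868151842) (nat_lit 76) (nat_lit 5478245910) (nat_lit 55) (nat_lit 5) (nat_lit 59) (nat_lit 5) (nat_lit 56) (nat_lit 5) (nat_lit 309) (nat_lit 288) (nat_lit 183)) (XT.lf (nat_lit 0) (nat_lit 4843705963) (nat_lit 304) (nat_lit 8283321829) (nat_lit 76) (nat_lit 16251329784) (nat_lit 55) (nat_lit 5) (nat_lit 59) (nat_lit 5) (nat_lit 56) (nat_lit 5) (nat_lit 310) (nat_lit 288) (nat_lit 182))) (XT.nd (nat_lit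 78) (nat_lit 228) (nat_lit 0) (XT.lf (nat_lit 0) (nat_lit 6170646918) (nat_lit 304) (nat_lit 2625784676) (nat_lit 380) (nat_lit 21487811005) (nat_lit 51) (nat_lit 5) (nat_lit 55) (nat_lit 5) (nat_lit 56) (nat_lit 5) (nat_lit 311) (nat_lit 288) (nat_lit 181)) (XT.nd (nat_lit 78) (nat_lit 228) (nat_lit 0) (XT.lf (nat_lit 0) (nat_lit 13214370993) (nat_lit 380) (nat_lit 9734747132) (nat_lit 76) (nat_lit 8272935779) (nat_lit 51) (nat_lit 5) (nat_lit 56) (nat_lit 5) (nat_lit 52) (nat_lit 5) (nat_lit 312) (nat_lit 288) (nat_lit 180)) (XT.lf (nat_lit 0) (nat_lit 5488250462) (nat_lit 228) (nat_lit 12487822898) (nat_lit 304) (nat_lit 14224549502) (nat_lit 48) (nat_lit 5) (nat_lit 51) (nat_lit 5) (nat_lit 52) (nat_lit 5) (nat_lit 313) (nat_lit 288) (nat_lit 179))))) (XT.nd (nat_lit 156) (nat_lit 304) (nat_lit 0) (XT.nd (nat_lit 78) (nat_lit 228) (nat_lit 0) (XT.lf (nat_lit 0) (nat_lit 21803079808)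 (nat_lit 228) (nat_lit 1331942669) (nat_lit 304) (nat_lit 10085149601) (nat_lit 48) (nat_lit 5) (nat_lit 51) (nat_lit 5) (nat_lit 52) (nat_lit 5) (nat_lit 314) (nat_lit 288) (nat_lit 178)) (XT.lf (nat_lit 0) (nat_lit 4621586663) (nat_lit 228) (nat_lit 24159123110) (nat_lit 304) (nat_lit 5498558868) (nat_lit 45) (nat_lit 5) (nat_lit 48) (nat_lit 5) (nat_lit 49) (nat_lit 5) (nat_lit 315) (nat_lit 288) (nat_lit 177))) (XT.nd (nat_lit 78) (nat_lit 304) (nat_lit 0) (XT.lf (nat_lit 0) (nat_lit 21828937283) (nat_lit 228) (nat_lit 13089277079) (nat_lit 304) (nat_lit 462637995) (nat_lit 45) (nat_lit 5) (nat_lit 48) (nat_lit 5) (nat_lit 49) (nat_lit 5) (nat_lit 316) (nat_lit 288) (nat_lit 176)) (XT.nd (nat_lit 78) (nat_lit 0) (nat_lit 0) (XT.lf (nat_lit 0) (nat_lit 3385233974) (nat_lit 228) (nat_lit 1333122765) (nat_lit 304) (nat_lit 31813014485) (nat_lit 41) (nat_lit 5) (nat_lit 44) (nat_lit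 5) (nat_lit 45) (nat_lit 5) (nat_lit 317) (nat_lit 288) (nat_lit 175)) (XT.lf (nat_lit 0) (nat_lit 10543002114) (nat_lit 304) (nat_lit 16278504903) (nat_lit 76) (nat_lit 10897530128) (nat_lit 41) (nat_lit 5) (nat_lit 45) (nat_lit 5) (nat_lit 42) (nat_lit 5) (nat_lit 318) (nat_lit 288) (nat_lit 174)))))) (XT.nd (nat_lit 390) (nat_lit 532) (nat_lit 0) (XT.nd (nat_lit 156) (nat_lit 228) (nat_lit 0) (XT.nd (nat_lit 78) (nat_lit 0) (nat_lit 0) (XT.lf (nat_lit 0) (nat_lit 1450370819) (nat_lit 228) (nat_lit 15248215233) (nat_lit 304) (nat_lit 22265522377) (nat_lit 38) (nat_lit 5) (nat_lit 41) (nat_lit 5) (nat_lit 42) (nat_lit 5) (nat_lit 319) (nat_lit 288) (nat_lit 173)) (XT.lf (nat_lit 0) (nat_lit 20624246707) (nat_lit 228) (nat_lit 2808719534) (nat_lit 304) (nat_lit 16824923215) (nat_lit 38) (nat_lit 5) (nat_lit 41) (nat_lit 5) (nat_lit 42) (nat_lit 5) (nat_lit 320) (nat_lit 288) (nat_lit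 172))) (XT.nd (nat_lit 78) (nat_lit 228) (nat_lit 0) (XT.lf (nat_lit 0) (nat_lit 30659665876) (nat_lit 304) (nat_lit 1026100013) (nat_lit 76) (nat_lit 9922820317) (nat_lit 38) (nat_lit 5) (nat_lit 42) (nat_lit 5) (nat_lit 39) (nat_lit 5) (nat_lit 321) (nat_lit 288) (nat_lit 171)) (XT.nd (nat_lit 78) (nat_lit 76) (nat_lit 0) (XT.lf (nat_lit 0) (nat_lit 19069959066) (nat_lit 152) (nat_lit 19517260810) (nat_lit 228) (nat_lit 4422628325) (nat_lit 36) (nat_lit 5) (nat_lit 38) (nat_lit 5) (nat_lit 39) (nat_lit 5) (nat_lit 322) (nat_lit 288) (nat_lit 170)) (XT.lf (nat_lit 0) (nat_lit 2365639570) (nat_lit 228) (nat_lit 4318303042) (nat_lit 76) (nat_lit 37794667742) (nat_lit 35) (nat_lit 5) (nat_lit 38) (nat_lit 5) (nat_lit 36) (nat_lit 5) (nat_lit 323) (nat_lit 288) (nat_lit 169))))) (XT.nd (nat_lit 156) (nat_lit 304) (nat_lit 0) (XT.nd (nat_lit 78) (nat_lit 0) (nat_lit 0) (XT.lf (nat_lit 0)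 (nat_lit 9713523408) (nat_lit 304) (nat_lit 29374016168) (nat_lit 76) (nat_lit 6911209848) (nat_lit 32) (nat_lit 5) (nat_lit 36) (nat_lit 5) (nat_lit 33) (nat_lit 5) (nat_lit 324) (nat_lit 288) (nat_lit 168)) (XT.lf (nat_lit 0) (nat_lit 17608751342) (nat_lit 304) (nat_lit 8943167416) (nat_lit 76) (nat_lit 21033984440) (nat_lit 32) (nat_lit 5) (nat_lit 36) (nat_lit 5) (nat_lit 33) (nat_lit 5) (nat_lit 325) (nat_lit 288) (nat_lit 167))) (XT.nd (nat_lit 78) (nat_lit 152) (nat_lit 0) (XT.lf (nat_lit 0) (nat_lit 12916932002) (nat_lit 152) (nat_lit 13179712111) (nat_lit 228) (nat_lit 23145880372) (nat_lit 30) (nat_lit 5) (nat_lit 32) (nat_lit 5) (nat_lit 33) (nat_lit 5) (nat_lit 326) (nat_lit 288) (nat_lit 166)) (XT.nd (nat_lit 78) (nat_lit 152) (nat_lit 0) (XT.lf (nat_lit 0) (nat_lit 35172610636) (nat_lit 228) (nat_lit 14815588355) (nat_lit 76) (nat_lit 985598649) (nat_lit 30) (nat_lit 5)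 (nat_lit 33) (nat_lit 5) (nat_lit 31) (nat_lit 5) (nat_lit 327) (nat_lit 288) (nat_lit 165)) (XT.lf (nat_lit 0) (nat_lit 7797932746) (nat_lit 152) (nat_lit 37238722686) (nat_lit 228) (nat_lit 7738269556) (nat_lit 28) (nat_lit 5) (nat_lit 30) (nat_lit 5) (nat_lit 31) (nat_lit 5) (nat_lit 328) (nat_lit 288) (nat_lit 164))))))) (XT.nd (nat_lit 780) (nat_lit 532) (nat_lit 0) (XT.nd (nat_lit 390) (nat_lit 304) (nat_lit 0) (XT.nd (nat_lit 156) (nat_lit 152) (nat_lit 0) (XT.nd (nat_lit 78) (nat_lit 152) (nat_lit 0) (XT.lf (nat_lit 0) (nat_lit 956016560) (nat_lit 228) (nat_lit 22618081894) (nat_lit 76) (nat_lit 31078870376) (nat_lit 27) (nat_lit 5) (nat_lit 30) (nat_lit 5) (nat_lit 28) (nat_lit 5) (nat_lit 329) (nat_lit 288) (nat_lit 163)) (XT.lf (nat_lit 0) (nat_lit 750670709) (nat_lit 152) (nat_lit 9082671001) (nat_lit 228) (nat_lit 46784815158) (nat_lit 25) (nat_lit 5) (nat_lit 27) (nat_lit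 5) (nat_lit 28) (nat_lit 5) (nat_lit 330) (nat_lit 288) (nat_lit 162))) (XT.nd (nat_lit 78) (nat_lit 152) (nat_lit 0) (XT.lf (nat_lit 0) (nat_lit 19636328365) (nat_lit 228) (nat_lit 32696704319) (nat_lit 76) (nat_lit 6324485591) (nat_lit 25) (nat_lit 5) (nat_lit 28) (nat_lit 5) (nat_lit 26) (nat_lit 5) (nat_lit 331) (nat_lit 288) (nat_lit 161)) (XT.nd (nat_lit 78) (nat_lit 152) (nat_lit 0) (XT.lf (nat_lit 0) (nat_lit 30075226474) (nat_lit 228) (nat_lit 8521350277) (nat_lit 76) (nat_lit 22194986447) (nat_lit 25) (nat_lit 5) (nat_lit 28) (nat_lit 5) (nat_lit 26) (nat_lit 5) (nat_lit 332) (nat_lit 288) (nat_lit 160)) (XT.lf (nat_lit 0) (nat_lit 17415341984) (nat_lit 152) (nat_lit 23889644918) (nat_lit 228) (nat_lit 21713880975) (nat_lit 23) (nat_lit 5) (nat_lit 25) (nat_lit 5) (nat_lit 26) (nat_lit 5) (nat_lit 333) (nat_lit 288) (nat_lit 159))))) (XT.nd (nat_lit 156) (nat_lit 228) (nat_lit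 0) (XT.nd (nat_lit 78) (nat_lit 76) (nat_lit 0) (XT.lf (nat_lit 0) (nat_lit 44939959605) (nat_lit 152) (nat_lit 8297672014) (nat_lit 228) (nat_lit 12112839579) (nat_lit 23) (nat_lit 5) (nat_lit 25) (nat_lit 5) (nat_lit 26) (nat_lit 5) (nat_lit 334) (nat_lit 288) (nat_lit 158)) (XT.lf (nat_lit 0) (nat_lit 6106916968) (nat_lit 76) (nat_lit 59878588592) (nat_lit 152) (nat_lit 1802222342) (nat_lit 22) (nat_lit 5) (nat_lit 23) (nat_lit 5) (nat_lit 24) (nat_lit 4) (nat_lit 335) (nat_lit 288) (nat_lit 157))) (XT.nd (nat_lit 78) (nat_lit 152) (nat_lit 0) (XT.lf (nat_lit 0) (nat_lit 9219668886) (nat_lit 152) (nat_lit 35957983244) (nat_lit 76) (nat_lit 25137925400) (nat_lit 21) (nat_lit 5) (nat_lit 23) (nat_lit 5) (nat_lit 22) (nat_lit 5) (nat_lit 336) (nat_lit 288) (nat_lit 156)) (XT.nd (nat_lit 78) (nat_lit 152) (nat_lit 0) (XT.lf (nat_lit 0) (nat_lit 20729430303) (nat_lit 152) (nat_lit 8982996854)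 (nat_lit 76) (nat_lit 43256050795) (nat_lit 21) (nat_lit 5) (nat_lit 23) (nat_lit 5) (nat_lit 22) (nat_lit 5) (nat_lit 337) (nat_lit 288) (nat_lit 155)) (XT.lf (nat_lit 0) (nat_lit 19975864552) (nat_lit 152) (nat_lit 13148163148) (nat_lit 228) (nat_lit 42614530821) (nat_lit 19) (nat_lit 5) (nat_lit 21) (nat_lit 5) (nat_lit 22) (nat_lit 5) (nat_lit 338) (nat_lit 288) (nat_lit 154)))))) (XT.nd (nat_lit 390) (nat_lit 228) (nat_lit 0) (XT.nd (nat_lit 156) (nat_lit 228) (nat_lit 0) (XT.nd (nat_lit 78) (nat_lit 76) (nat_lit 0) (XT.lf (nat_lit 0) (nat_lit 46356743982) (nat_lit 228) (nat_lit 28018016212) (nat_lit 76) (nat_lit 4261465880) (nat_lit 19) (nat_lit 5) (nat_lit 22) (nat_lit 5) (nat_lit 20) (nat_lit 4) (nat_lit 339) (nat_lit 288) (nat_lit 153)) (XT.lf (nat_lit 0) (nat_lit 923865564) (nat_lit 76) (nat_lit 59554815463) (nat_lit 152) (nat_lit 21188719017) (nat_lit 18) (nat_lit 5) (nat_lit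 19) (nat_lit 5) (nat_lit 20) (nat_lit 4) (nat_lit 340) (nat_lit 288) (nat_lit 152))) (XT.nd (nat_lit 78) (nat_lit 228) (nat_lit 0) (XT.lf (nat_lit 0) (nat_lit 32281573423) (nat_lit 76) (nat_lit 43497308495) (nat_lit 152) (nat_lit 9047644626) (nat_lit 18) (nat_lit 5) (nat_lit 19) (nat_lit 5) (nat_lit 20) (nat_lit 4) (nat_lit 341) (nat_lit 288) (nat_lit 151)) (XT.nd (nat_lit 78) (nat_lit 152) (nat_lit 0) (XT.lf (nat_lit 0) (nat_lit 3579785852) (nat_lit 152) (nat_lit 22998094536) (nat_lit 76) (nat_lit 61562955164) (nat_lit 17) (nat_lit 5) (nat_lit 19) (nat_lit 5) (nat_lit 18) (nat_lit 5) (nat_lit 342) (nat_lit 288) (nat_lit 150)) (XT.lf (nat_lit 0) (nat_lit 8134445691) (nat_lit 152) (nat_lit 8524931994) (nat_lit 228) (nat_lit 74947825606) (nat_lit 15) (nat_lit 5) (nat_lit 17) (nat_lit 5) (nat_lit 18) (nat_lit 5) (nat_lit 343) (nat_lit 288) (nat_lit 149))))) (XT.nd (nat_lit 234) (nat_lit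 152) (nat_lit 0) (XT.nd (nat_lit 78) (nat_lit 76) (nat_lit 0) (XT.lf (nat_lit 0) (nat_lit 30949540260) (nat_lit 228) (nat_lit 53778313253) (nat_lit 76) (nat_lit 10491208139) (nat_lit 15) (nat_lit 5) (nat_lit 18) (nat_lit 5) (nat_lit 16) (nat_lit 4) (nat_lit 344) (nat_lit 288) (nat_lit 148)) (XT.nd (nat_lit 78) (nat_lit 76) (nat_lit 0) (XT.lf (nat_lit 0) (nat_lit 46091935772) (nat_lit 228) (nat_lit 22742438713) (nat_lit 76) (nat_lit 30170253914) (nat_lit 15) (nat_lit 5) (nat_lit 18) (nat_lit 5) (nat_lit 16) (nat_lit 4) (nat_lit 345) (nat_lit 288) (nat_lit 147)) (XT.lf (nat_lit 0) (nat_lit 10167275343) (nat_lit 76) (nat_lit 51980983783) (nat_lit 152) (nat_lit 40823375581) (nat_lit 14) (nat_lit 5) (nat_lit 15) (nat_lit 5) (nat_lit 16) (nat_lit 4) (nat_lit 346) (nat_lit 288) (nat_lit 146)))) (XT.nd (nat_lit 78) (nat_lit 152) (nat_lit 0) (XT.lf (nat_lit 0) (nat_lit 45508725068) (nat_lit 76)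 (nat_lit 33881936395) (nat_lit 152) (nat_lit 27727168275) (nat_lit 14) (nat_lit 5) (nat_lit 15) (nat_lit 5) (nat_lit 16) (nat_lit 4) (nat_lit 347) (nat_lit 288) (nat_lit 145)) (XT.nd (nat_lit 78) (nat_lit 152) (nat_lit 0) (XT.lf (nat_lit 0) (nat_lit 82614089039) (nat_lit 76) (nat_lit 14879293556) (nat_lit 152) (nat_lit 13978043468) (nat_lit 14) (nat_lit 5) (nat_lit 15) (nat_lit 5) (nat_lit 16) (nat_lit 4) (nat_lit 348) (nat_lit 288) (nat_lit 144)) (XT.lf (nat_lit 0) (nat_lit 611945667) (nat_lit 152) (nat_lit 110414379312) (nat_lit 76) (nat_lit 5007616402) (nat_lit 12) (nat_lit 5) (nat_lit 14) (nat_lit 5) (nat_lit 13) (nat_lit 4) (nat_lit 349) (nat_lit 288) (nat_lit 143))))))))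
noncomputable def xc186 : XT := (XT.nd (nat_lit 1560) (nat_lit 152) (nat_lit 0) (XT.nd (nat_lit 780) (nat_lit 228) (nat_lit 0) (XT.nd (nat_lit 390) (nat_lit 152) (nat_lit 0) (XT.nd (nat_lit 156) (nat_lit 76) (nat_lit 0) (XT.nd (nat_lit 78) (nat_lit 0) (nat_lit 0) (XT.lf (nat_lit 0) (nat_lit 16200598369) (nat_lit 152) (nat_lit 78462145623) (nat_lit 76) (nat_lit 26113436434) (nat_lit 12) (nat_lit 5) (nat_lit 14) (nat_lit 5) (nat_lit 13) (nat_lit 4) (nat_lit 350) (nat_lit 288) (nat_lit 142)) (XT.lf (nat_lit 0) (nat_lit 32567036591) (nat_lit 152) (nat_lit 44915237125) (nat_lit 76) (nat_lit 48273341276) (nat_lit 12) (nat_lit 5) (nat_lit 14) (nat_lit 5) (nat_lit 13) (nat_lit 4) (nat_lit 351) (nat_lit 288) (nat_lit 141))) (XT.nd (nat_lit 78) (nat_lit 76) (nat_lit 0) (XT.lf (nat_lit 0) (nat_lit 49750228044) (nat_lit 152) (nat_lit 9693780226) (nat_lit 76) (nat_lit 71540092608) (nat_lit 12) (nat_lit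 5) (nat_lit 14) (nat_lit 5) (nat_lit 13) (nat_lit 4) (nat_lit 352) (nat_lit 288) (nat_lit 140)) (XT.nd (nat_lit 78) (nat_lit 0) (nat_lit 0) (XT.lf (nat_lit 0) (nat_lit 28188286905) (nat_lit 76) (nat_lit 40042896338) (nat_lit 152) (nat_lit 68220898706) (nat_lit 11) (nat_lit 5) (nat_lit 12) (nat_lit 5) (nat_lit 13) (nat_lit 4) (nat_lit 353) (nat_lit 288) (nat_lit 139)) (XT.lf (nat_lit 0) (nat_lit 68298382687) (nat_lit 76) (nat_lit 19500508616) (nat_lit 152) (nat_lit 54386436565) (nat_lit 11) (nat_lit 5) (nat_lit 12) (nat_lit 5) (nat_lit 13) (nat_lit 4) (nat_lit 354) (nat_lit 288) (nat_lit 138))))) (XT.nd (nat_lit 156) (nat_lit 152) (nat_lit 0) (XT.nd (nat_lit 78) (nat_lit 0) (nat_lit 0) (XT.lf (nat_lit 0) (nat_lit 108375876370) (nat_lit 152) (nat_lit 37826105250) (nat_lit 0) (nat_lit 2001710882) (nat_lit 11) (nat_lit 5) (nat_lit 13) (nat_lit 4) (nat_lit 11) (nat_lit 4) (nat_lit 355) (nat_lit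 288) (nat_lit 137)) (XT.lf (nat_lit 0) (nat_lit 130300047100) (nat_lit 152) (nat_lit 284331943) (nat_lit 0) (nat_lit 23922680454) (nat_lit 11) (nat_lit 5) (nat_lit 13) (nat_lit 4) (nat_lit 11) (nat_lit 4) (nat_lit 356) (nat_lit 288) (nat_lit 136))) (XT.nd (nat_lit 78) (nat_lit 76) (nat_lit 0) (XT.lf (nat_lit 0) (nat_lit 40426105340) (nat_lit 76) (nat_lit 113524205769) (nat_lit 76) (nat_lit 7143790402) (nat_lit 10) (nat_lit 4) (nat_lit 11) (nat_lit 5) (nat_lit 11) (nat_lit 4) (nat_lit 357) (nat_lit 288) (nat_lit 135)) (XT.nd (nat_lit 78) (nat_lit 0) (nat_lit 0) (XT.lf (nat_lit 0) (nat_lit 10431420663) (nat_lit 152) (nat_lit 84998906552) (nat_lit 76) (nat_lit 72571578803) (nat_lit 9) (nat_lit 5) (nat_lit 11) (nat_lit 5) (nat_lit 10) (nat_lit 4) (nat_lit 358) (nat_lit 288) (nat_lit 134)) (XT.lf (nat_lit 0) (nat_lit 28644098816) (nat_lit 152) (nat_lit 47665681617) (nat_lit 76) (nat_lit 98939526297)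 (nat_lit 9) (nat_lit 5) (nat_lit 11) (nat_lit 5) (nat_lit 10) (nat_lit 4) (nat_lit 359) (nat_lit 288) (nat_lit 133)))))) (XT.nd (nat_lit 390) (nat_lit 152) (nat_lit 0) (XT.nd (nat_lit 156) (nat_lit 0) (nat_lit 0) (XT.nd (nat_lit 78) (nat_lit 76) (nat_lit 0) (XT.lf (nat_lit 0) (nat_lit 47766253485) (nat_lit 152) (nat_lit 8467898147) (nat_lit 76) (nat_lit 126624984461) (nat_lit 9) (nat_lit 5) (nat_lit 11) (nat_lit 5) (nat_lit 10) (nat_lit 4) (nat_lit 360) (nat_lit 288) (nat_lit 132)) (XT.lf (nat_lit 0) (nat_lit 33768577274) (nat_lit 76) (nat_lit 34602058460) (nat_lit 152) (nat_lit 122452515906) (nat_lit 8) (nat_lit 5) (nat_lit 9) (nat_lit 5) (nat_lit 10) (nat_lit 4) (nat_lit 361) (nat_lit 288) (nat_lit 131))) (XT.nd (nat_lit 78) (nat_lit 0) (nat_lit 0) (XT.lf (nat_lit 0) (nat_lit 78408892487) (nat_lit 76) (nat_lit 11738672011) (nat_lit 152) (nat_lit 109030687774) (nat_lit 8) (nat_lit 5)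 (nat_lit 9) (nat_lit 5) (nat_lit 10) (nat_lit 4) (nat_lit 362) (nat_lit 288) (nat_lit 130)) (XT.nd (nat_lit 78) (nat_lit 0) (nat_lit 0) (XT.lf (nat_lit 0) (nat_lit 113203833421) (nat_lit 152) (nat_lit 82863335850) (nat_lit 0) (nat_lit 11874414622) (nat_lit 8) (nat_lit 5) (nat_lit 10) (nat_lit 4) (nat_lit 8) (nat_lit 4) (nat_lit 363) (nat_lit 288) (nat_lit 129)) (XT.lf (nat_lit 0) (nat_lit 137604360344) (nat_lit 152) (nat_lit 43256272087) (nat_lit 0) (nat_lit 36272878049) (nat_lit 8) (nat_lit 5) (nat_lit 10) (nat_lit 4) (nat_lit 8) (nat_lit 4) (nat_lit 364) (nat_lit 288) (nat_lit 128))))) (XT.nd (nat_lit 156) (nat_lit 76) (nat_lit 0) (XT.nd (nat_lit 78) (nat_lit 76) (nat_lit 0) (XT.lf (nat_lit 0) (nat_lit 163223968192) (nat_lit 152) (nat_lit 1670592395) (nat_lit 0) (nat_lit 61890520664) (nat_lit 8) (nat_lit 5) (nat_lit 10) (nat_lit 4) (nat_lit 8) (nat_lit 4) (nat_lit 365) (nat_lit 288)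 (nat_lit 127)) (XT.lf (nat_lit 0) (nat_lit 43381185607) (nat_lit 76) (nat_lit 147419772307) (nat_lit 76) (nat_lit 46084453129) (nat_lit 7) (nat_lit 4) (nat_lit 8) (nat_lit 5) (nat_lit 8) (nat_lit 4) (nat_lit 366) (nat_lit 288) (nat_lit 126))) (XT.nd (nat_lit 78) (nat_lit 76) (nat_lit 0) (XT.lf (nat_lit 0) (nat_lit 90741923860) (nat_lit 76) (nat_lit 129042282615) (nat_lit 76) (nat_lit 27705180912) (nat_lit 7) (nat_lit 4) (nat_lit 8) (nat_lit 5) (nat_lit 8) (nat_lit 4) (nat_lit 367) (nat_lit 288) (nat_lit 125)) (XT.nd (nat_lit 78) (nat_lit 76) (nat_lit 0) (XT.lf (nat_lit 0) (nat_lit 140469148694) (nat_lit 76) (nat_lit 109746627874) (nat_lit 76) (nat_lit 8407828529) (nat_lit 7) (nat_lit 4) (nat_lit 8) (nat_lit 5) (nat_lit 8) (nat_lit 4) (nat_lit 368) (nat_lit 288) (nat_lit 124)) (XT.lf (nat_lit 0) (nat_lit 11474162467) (nat_lit 152) (nat_lit 77818383088) (nat_lit 76) (nat_lit 181012775303)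 (nat_lit 6) (nat_lit 5) (nat_lit 8) (nat_lit 5) (nat_lit 7) (nat_lit 4) (nat_lit 369) (nat_lit 288) (nat_lit 123))))))) (XT.nd (nat_lit 780) (nat_lit 0) (nat_lit 0) (XT.nd (nat_lit 390) (nat_lit 76) (nat_lit 0) (XT.nd (nat_lit 156) (nat_lit 0) (nat_lit 0) (XT.nd (nat_lit 78) (nat_lit 76) (nat_lit 0) (XT.lf (nat_lit 0) (nat_lit 32066919180) (nat_lit 152) (nat_lit 35604771639) (nat_lit 76) (nat_lit 214892579146) (nat_lit 6) (nat_lit 5) (nat_lit 8) (nat_lit 5) (nat_lit 7) (nat_lit 4) (nat_lit 370) (nat_lit 288) (nat_lit 122)) (XT.lf (nat_lit 0) (nat_lit 9006417927) (nat_lit 76) (nat_lit 44822772498) (nat_lit 152) (nat_lit 241599982680) (nat_lit 5) (nat_lit 5) (nat_lit 6) (nat_lit 5) (nat_lit 7) (nat_lit 4) (nat_lit 371) (nat_lit 288) (nat_lit 121))) (XT.nd (nat_lit 78) (nat_lit 0) (nat_lit 0) (XT.lf (nat_lit 0) (nat_lit 57082942172) (nat_lit 76) (nat_lit 20198892594) (nat_lit 152) (nat_lit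 231625374055) (nat_lit 5) (nat_lit 5) (nat_lit 6) (nat_lit 5) (nat_lit 7) (nat_lit 4) (nat_lit 372) (nat_lit 288) (nat_lit 120)) (XT.nd (nat_lit 78) (nat_lit 0) (nat_lit 0) (XT.lf (nat_lit 0) (nat_lit 101994720982) (nat_lit 152) (nat_lit 215585466395) (nat_lit 0) (nat_lit 5474578841) (nat_lit 5) (nat_lit 5) (nat_lit 7) (nat_lit 4) (nat_lit 5) (nat_lit 4) (nat_lit 373) (nat_lit 288) (nat_lit 119)) (XT.lf (nat_lit 0) (nat_lit 128273715004) (nat_lit 152) (nat_lit 177867097284) (nat_lit 0) (nat_lit 31752366380) (nat_lit 5) (nat_lit 5) (nat_lit 7) (nat_lit 4) (nat_lit 5) (nat_lit 4) (nat_lit 374) (nat_lit 288) (nat_lit 118))))) (XT.nd (nat_lit 156) (nat_lit 76) (nat_lit 0) (XT.nd (nat_lit 78) (nat_lit 0) (nat_lit 0) (XT.lf (nat_lit 0) (nat_lit 155866024544) (nat_lit 152) (nat_lit 138263992355) (nat_lit 0) (nat_lit 59343526890) (nat_lit 5) (nat_lit 5) (nat_lit 7) (nat_lit 4) (nat_lit 5) (nat_lit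 4) (nat_lit 375) (nat_lit 288) (nat_lit 117)) (XT.lf (nat_lit 0) (nat_lit 184837345580) (nat_lit 152) (nat_lit 96681858503) (nat_lit 0) (nat_lit 88313753610) (nat_lit 5) (nat_lit 5) (nat_lit 7) (nat_lit 4) (nat_lit 5) (nat_lit 4) (nat_lit 376) (nat_lit 288) (nat_lit 116))) (XT.nd (nat_lit 78) (nat_lit 76) (nat_lit 0) (XT.lf (nat_lit 0) (nat_lit 215256657446) (nat_lit 152) (nat_lit 53021690645) (nat_lit 0) (nat_lit 118732023270) (nat_lit 5) (nat_lit 5) (nat_lit 7) (nat_lit 4) (nat_lit 5) (nat_lit 4) (nat_lit 377) (nat_lit 288) (nat_lit 115)) (XT.nd (nat_lit 78) (nat_lit 76) (nat_lit 0) (XT.lf (nat_lit 0) (nat_lit 247196387074) (nat_lit 152) (nat_lit 7179536002) (nat_lit 0) (nat_lit 150670760323) (nat_lit 5) (nat_lit 5) (nat_lit 7) (nat_lit 4) (nat_lit 5) (nat_lit 4) (nat_lit 378) (nat_lit 288) (nat_lit 114)) (XT.lf (nat_lit 0) (nat_lit 42307869453) (nat_lit 76) (nat_lit 239085256398)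 (nat_lit 76) (nat_lit 142558684335) (nat_lit 4) (nat_lit 4) (nat_lit 5) (nat_lit 5) (nat_lit 5) (nat_lit 4) (nat_lit 379) (nat_lit 288) (nat_lit 113)))))) (XT.nd (nat_lit 33618) (nat_lit 0) (nat_lit 6080) (XT.nd (nat_lit 156) (nat_lit 0) (nat_lit 0) (XT.nd (nat_lit 78) (nat_lit 0) (nat_lit 0) (XT.lf (nat_lit 0) (nat_lit 94517945194) (nat_lit 76) (nat_lit 222902833446) (nat_lit 76) (nat_lit 126375361088) (nat_lit 4) (nat_lit 4) (nat_lit 5) (nat_lit 5) (nat_lit 5) (nat_lit 4) (nat_lit 380) (nat_lit 288) (nat_lit 112)) (XT.lf (nat_lit 0) (nat_lit 149337613040) (nat_lit 76) (nat_lit 205911713559) (nat_lit 76) (nat_lit 109383383776) (nat_lit 4) (nat_lit 4) (nat_lit 5) (nat_lit 5) (nat_lit 5) (nat_lit 4) (nat_lit 381) (nat_lit 288) (nat_lit 111))) (XT.nd (nat_lit 78) (nat_lit 0) (nat_lit 0) (XT.lf (nat_lit 0) (nat_lit 206897396009) (nat_lit 76) (nat_lit 188071441689) (nat_lit 76) (nat_lit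 91542295311) (nat_lit 4) (nat_lit 4) (nat_lit 5) (nat_lit 5) (nat_lit 5) (nat_lit 4) (nat_lit 382) (nat_lit 288) (nat_lit 110)) (XT.nd (nat_lit 33306) (nat_lit 0) (nat_lit 6080) (XT.lf (nat_lit 0) (nat_lit 267334341203) (nat_lit 76) (nat_lit 169339540999) (nat_lit 76) (nat_lit 72809616911) (nat_lit 4) (nat_lit 4) (nat_lit 5) (nat_lit 5) (nat_lit 5) (nat_lit 4) (nat_lit 383) (nat_lit 288) (nat_lit 109)) (XT.lf (nat_lit 0) (nat_lit 2389799853) (nat_lit 0) (nat_lit 2389799853) (nat_lit 684) (nat_lit 3719753199) (nat_lit 84) (nat_lit 5) (nat_lit 84) (nat_lit 3) (nat_lit 93) (nat_lit 3) (nat_lit 289) (nat_lit 289) (nat_lit 202))))) (XT.nd (nat_lit 234) (nat_lit 0) (nat_lit 76) (XT.nd (nat_lit 78) (nat_lit 0) (nat_lit 0) (XT.lf (nat_lit 0) (nat_lit 10056105784) (nat_lit 684) (nat_lit 4665229032) (nat_lit 760) (nat_lit 2688943923) (nat_lit 84) (nat_lit 5) (nat_lit 93) (nat_lit 3) (nat_lit 94)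 (nat_lit 5) (nat_lit 290) (nat_lit 289) (nat_lit 201)) (XT.nd (nat_lit 78) (nat_lit 0) (nat_lit 76) (XT.lf (nat_lit 76) (nat_lit 3285449735) (nat_lit 0) (nat_lit 7408429840) (nat_lit 760) (nat_lit 7142781536) (nat_lit 85) (nat_lit 5) (nat_lit 84) (nat_lit 5) (nat_lit 94) (nat_lit 5) (nat_lit 291) (nat_lit 289) (nat_lit 200)) (XT.lf (nat_lit 0) (nat_lit 11435052482) (nat_lit 684) (nat_lit 6498636491) (nat_lit 760) (nat_lit 347128493) (nat_lit 85) (nat_lit 5) (nat_lit 94) (nat_lit 5) (nat_lit 95) (nat_lit 5) (nat_lit 292) (nat_lit 289) (nat_lit 199)))) (XT.nd (nat_lit 78) (nat_lit 0) (nat_lit 0) (XT.lf (nat_lit 76) (nat_lit 1887588866) (nat_lit 0) (nat_lit 10464224880) (nat_lit 760) (nat_lit 6388470344) (nat_lit 86) (nat_lit 5) (nat_lit 85) (nat_lit 5) (nat_lit 95) (nat_lit 5) (nat_lit 293) (nat_lit 289) (nat_lit 198)) (XT.nd (nat_lit 78) (nat_lit 0) (nat_lit 76) (XT.lf (nat_lit 76) (nat_lit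 10910928360) (nat_lit 0) (nat_lit 2501619767) (nat_lit 760) (nat_lit 5805296725) (nat_lit 86) (nat_lit 5) (nat_lit 85) (nat_lit 5) (nat_lit 95) (nat_lit 5) (nat_lit 294) (nat_lit 289) (nat_lit 197)) (XT.lf (nat_lit 76) (nat_lit 585309491) (nat_lit 0) (nat_lit 14030331584) (nat_lit 760) (nat_lit 5099202732) (nat_lit 87) (nat_lit 5) (nat_lit 86) (nat_lit 5) (nat_lit 96) (nat_lit 5) (nat_lit 295) (nat_lit 289) (nat_lit 196))))))))
noncomputable def xc187 : XT := (XT.nd (nat_lit 1560) (nat_lit 1976) (nat_lit 0) (XT.nd (nat_lit 780) (nat_lit 1444) (nat_lit 0) (XT.nd (nat_lit 390) (nat_lit 836) (nat_lit 0) (XT.nd (nat_lit 156) (nat_lit 608) (nat_lit 0) (XT.nd (nat_lit 78) (nat_lit 0) (nat_lit 76) (XT.lf (nat_lit 76) (nat_lit 10160210603) (nat_lit 0) (nat_lit 5888828138) (nat_lit 760) (nat_lit 4179171464) (nat_lit 87) (nat_lit 5) (nat_lit 86) (nat_lit 5) (nat_lit 96) (nat_lit 5) (nat_lit 296)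 (nat_lit 289) (nat_lit 195)) (XT.lf (nat_lit 0) (nat_lit 17585313583) (nat_lit 684) (nat_lit 603087553) (nat_lit 760) (nat_lit 2577307228) (nat_lit 87) (nat_lit 5) (nat_lit 96) (nat_lit 5) (nat_lit 97) (nat_lit 5) (nat_lit 297) (nat_lit 289) (nat_lit 194))) (XT.nd (nat_lit 78) (nat_lit 684) (nat_lit 0) (XT.lf (nat_lit 76) (nat_lit 9535958103) (nat_lit 0) (nat_lit 9898037769) (nat_lit 760) (nat_lit 1884328548) (nat_lit 88) (nat_lit 5) (nat_lit 87) (nat_lit 5) (nat_lit 97) (nat_lit 5) (nat_lit 298) (nat_lit 289) (nat_lit 193)) (XT.nd (nat_lit 78) (nat_lit 684) (nat_lit 0) (XT.lf (nat_lit 76) (nat_lit 20195235390) (nat_lit 0) (nat_lit 1180611379) (nat_lit 760) (nat_lit 522709377) (nat_lit 88) (nat_lit 5) (nat_lit 87) (nat_lit 5) (nat_lit 97) (nat_lit 5) (nat_lit 299) (nat_lit 289) (nat_lit 192)) (XT.lf (nat_lit 0) (nat_lit 1138709996) (nat_lit 760) (nat_lit 13476721085) (nat_lit 76) (nat_lit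 7878642501) (nat_lit 78) (nat_lit 5) (nat_lit 88) (nat_lit 5) (nat_lit 79) (nat_lit 5) (nat_lit 300) (nat_lit 289) (nat_lit 191))))) (XT.nd (nat_lit 156) (nat_lit 380) (nat_lit 0) (XT.nd (nat_lit 78) (nat_lit 456) (nat_lit 0) (XT.lf (nat_lit 0) (nat_lit 2905454437) (nat_lit 760) (nat_lit 2821104392) (nat_lit 76) (nat_lit 17390407235) (nat_lit 78) (nat_lit 5) (nat_lit 88) (nat_lit 5) (nat_lit 79) (nat_lit 5) (nat_lit 301) (nat_lit 289) (nat_lit 190)) (XT.lf (nat_lit 0) (nat_lit 4945473264) (nat_lit 532) (nat_lit 15187132001) (nat_lit 76) (nat_lit 3629168813) (nat_lit 72) (nat_lit 5) (nat_lit 79) (nat_lit 5) (nat_lit 73) (nat_lit 5) (nat_lit 302) (nat_lit 289) (nat_lit 189))) (XT.nd (nat_lit 78) (nat_lit 380) (nat_lit 0) (XT.lf (nat_lit 0) (nat_lit 7221794695) (nat_lit 532) (nat_lit 3900887406) (nat_lit 76) (nat_lit 13309442228) (nat_lit 72) (nat_lit 5) (nat_lit 79) (nat_lit 5) (nat_lit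 73) (nat_lit 5) (nat_lit 303) (nat_lit 289) (nat_lit 188)) (XT.nd (nat_lit 78) (nat_lit 0) (nat_lit 0) (XT.lf (nat_lit 0) (nat_lit 8204738226) (nat_lit 380) (nat_lit 1527544029) (nat_lit 456) (nat_lit 15397708447) (nat_lit 67) (nat_lit 5) (nat_lit 72) (nat_lit 5) (nat_lit 73) (nat_lit 5) (nat_lit 304) (nat_lit 289) (nat_lit 187)) (XT.lf (nat_lit 0) (nat_lit 12561394381) (nat_lit 456) (nat_lit 4950707153) (nat_lit 76) (nat_lit 8341009197) (nat_lit 67) (nat_lit 5) (nat_lit 73) (nat_lit 5) (nat_lit 68) (nat_lit 5) (nat_lit 305) (nat_lit 289) (nat_lit 186)))))) (XT.nd (nat_lit 390) (nat_lit 532) (nat_lit 0) (XT.nd (nat_lit 156) (nat_lit 608) (nat_lit 0) (XT.nd (nat_lit 78) (nat_lit 0) (nat_lit 0) (XT.lf (nat_lit 0) (nat_lit 7841054083) (nat_lit 304) (nat_lit 7831233100) (nat_lit 380) (nat_lit 10933097940) (nat_lit 63) (nat_lit 5) (nat_lit 67) (nat_lit 5) (nat_lit 68) (nat_lit 5) (nat_lit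 306) (nat_lit 289) (nat_lit 185)) (XT.lf (nat_lit 0) (nat_lit 19053458972) (nat_lit 380) (nat_lit 5992275804) (nat_lit 76) (nat_lit 2343815661) (nat_lit 63) (nat_lit 5) (nat_lit 68) (nat_lit 5) (nat_lit 64) (nat_lit 5) (nat_lit 307) (nat_lit 289) (nat_lit 184))) (XT.nd (nat_lit 78) (nat_lit 304) (nat_lit 0) (XT.lf (nat_lit 0) (nat_lit 7523499609) (nat_lit 304) (nat_lit 15319444945) (nat_lit 380) (nat_lit 5358029960) (nat_lit 59) (nat_lit 5) (nat_lit 63) (nat_lit 5) (nat_lit 64) (nat_lit 5) (nat_lit 308) (nat_lit 289) (nat_lit 183)) (XT.nd (nat_lit 78) (nat_lit 304) (nat_lit 0) (XT.lf (nat_lit 0) (nat_lit 21915919146) (nat_lit 304) (nat_lit 5001080375) (nat_lit 380) (nat_lit 2131228143) (nat_lit 59) (nat_lit 5) (nat_lit 63) (nat_lit 5) (nat_lit 64) (nat_lit 5) (nat_lit 309) (nat_lit 289) (nat_lit 182)) (XT.lf (nat_lit 0) (nat_lit 1417665360) (nat_lit 304) (nat_lit 22727751476) (nat_lit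 76) (nat_lit 5781407856) (nat_lit 55) (nat_lit 5) (nat_lit 59) (nat_lit 5) (nat_lit 56) (nat_lit 5) (nat_lit 310) (nat_lit 289) (nat_lit 181))))) (XT.nd (nat_lit 156) (nat_lit 228) (nat_lit 0) (XT.nd (nat_lit 78) (nat_lit 304) (nat_lit 0) (XT.lf (nat_lit 0) (nat_lit 5271112216) (nat_lit 304) (nat_lit 8474813675) (nat_lit 76) (nat_lit 17091753082) (nat_lit 55) (nat_lit 5) (nat_lit 59) (nat_lit 5) (nat_lit 56) (nat_lit 5) (nat_lit 311) (nat_lit 289) (nat_lit 180)) (XT.lf (nat_lit 0) (nat_lit 6698261989) (nat_lit 304) (nat_lit 2717812588) (nat_lit 380) (nat_lit 22373069619) (nat_lit 51) (nat_lit 5) (nat_lit 55) (nat_lit 5) (nat_lit 56) (nat_lit 5) (nat_lit 312) (nat_lit 289) (nat_lit 179))) (XT.nd (nat_lit 78) (nat_lit 228) (nat_lit 0) (XT.lf (nat_lit 0) (nat_lit 14046931812) (nat_lit 380) (nat_lit 10004550891) (nat_lit 76) (nat_lit 8722777534) (nat_lit 51) (nat_lit 5) (nat_lit 56) (nat_lit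 5) (nat_lit 52) (nat_lit 5) (nat_lit 313) (nat_lit 289) (nat_lit 178)) (XT.nd (nat_lit 78) (nat_lit 0) (nat_lit 0) (XT.lf (nat_lit 0) (nat_lit 5976097654) (nat_lit 228) (nat_lit 13065770992) (nat_lit 304) (nat_lit 14760146017) (nat_lit 48) (nat_lit 5) (nat_lit 51) (nat_lit 5) (nat_lit 52) (nat_lit 5) (nat_lit 314) (nat_lit 289) (nat_lit 177)) (XT.lf (nat_lit 0) (nat_lit 23096504911) (nat_lit 228) (nat_lit 1354308325) (nat_lit 304) (nat_lit 10422139501) (nat_lit 48) (nat_lit 5) (nat_lit 51) (nat_lit 5) (nat_lit 52) (nat_lit 5) (nat_lit 315) (nat_lit 289) (nat_lit 176))))))) (XT.nd (nat_lit 780) (nat_lit 760) (nat_lit 0) (XT.nd (nat_lit 390) (nat_lit 456) (nat_lit 0) (XT.nd (nat_lit 156) (nat_lit 532) (nat_lit 0) (XT.nd (nat_lit 78) (nat_lit 0) (nat_lit 0) (XT.lf (nat_lit 0) (nat_lit 5060074341) (nat_lit 228) (nat_lit 25315033159) (nat_lit 304) (nat_lit 5610093639) (nat_lit 45) (nat_lit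 5) (nat_lit 48) (nat_lit 5) (nat_lit 49) (nat_lit 5) (nat_lit 316) (nat_lit 289) (nat_lit 175)) (XT.lf (nat_lit 0) (nat_lit 23117915903) (nat_lit 228) (nat_lit 13694173213) (nat_lit 304) (nat_lit 330157350) (nat_lit 45) (nat_lit 5) (nat_lit 48) (nat_lit 5) (nat_lit 49) (nat_lit 5) (nat_lit 317) (nat_lit 289) (nat_lit 174))) (XT.nd (nat_lit 78) (nat_lit 228) (nat_lit 0) (XT.lf (nat_lit 0) (nat_lit 3753976217) (nat_lit 228) (nat_lit 1346871830) (nat_lit 304) (nat_lit 33249536030) (nat_lit 41) (nat_lit 5) (nat_lit 44) (nat_lit 5) (nat_lit 45) (nat_lit 5) (nat_lit 318) (nat_lit 289) (nat_lit 173)) (XT.nd (nat_lit 78) (nat_lit 228) (nat_lit 0) (XT.lf (nat_lit 0) (nat_lit 11210532694) (nat_lit 304) (nat_lit 16896039458) (nat_lit 76) (nat_lit 11491181603) (nat_lit 41) (nat_lit 5) (nat_lit 45) (nat_lit 5) (nat_lit 42) (nat_lit 5) (nat_lit 319) (nat_lit 289) (nat_lit 172)) (XT.lf (nat_lit 0)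 (nat_lit 1716112459) (nat_lit 228) (nat_lit 15954115340) (nat_lit 304) (nat_lit 23235044502) (nat_lit 38) (nat_lit 5) (nat_lit 41) (nat_lit 5) (nat_lit 42) (nat_lit 5) (nat_lit 320) (nat_lit 289) (nat_lit 171))))) (XT.nd (nat_lit 156) (nat_lit 456) (nat_lit 0) (XT.nd (nat_lit 78) (nat_lit 0) (nat_lit 0) (XT.lf (nat_lit 0) (nat_lit 21839481041) (nat_lit 228) (nat_lit 2895335839) (nat_lit 304) (nat_lit 17529260809) (nat_lit 38) (nat_lit 5) (nat_lit 41) (nat_lit 5) (nat_lit 42) (nat_lit 5) (nat_lit 321) (nat_lit 289) (nat_lit 170)) (XT.lf (nat_lit 0) (nat_lit 32317451649) (nat_lit 304) (nat_lit 896559336) (nat_lit 76) (nat_lit 10468577623) (nat_lit 38) (nat_lit 5) (nat_lit 42) (nat_lit 5) (nat_lit 39) (nat_lit 5) (nat_lit 322) (nat_lit 289) (nat_lit 169))) (XT.nd (nat_lit 78) (nat_lit 304) (nat_lit 0) (XT.lf (nat_lit 0) (nat_lit 20201385831) (nat_lit 152) (nat_lit 20436832511) (nat_lit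 228) (nat_lit 4515862508) (nat_lit 36) (nat_lit 5) (nat_lit 38) (nat_lit 5) (nat_lit 39) (nat_lit 5) (nat_lit 323) (nat_lit 289) (nat_lit 168)) (XT.nd (nat_lit 78) (nat_lit 228) (nat_lit 0) (XT.lf (nat_lit 0) (nat_lit 2601829856) (nat_lit 228) (nat_lit 4360702252) (nat_lit 76) (nat_lit 39733951997) (nat_lit 35) (nat_lit 5) (nat_lit 38) (nat_lit 5) (nat_lit 36) (nat_lit 5) (nat_lit 324) (nat_lit 289) (nat_lit 167)) (XT.lf (nat_lit 0) (nat_lit 10315029124) (nat_lit 304) (nat_lit 30666968605) (nat_lit 76) (nat_lit 7310744023) (nat_lit 32) (nat_lit 5) (nat_lit 36) (nat_lit 5) (nat_lit 33) (nat_lit 5) (nat_lit 325) (nat_lit 289) (nat_lit 166)))))) (XT.nd (nat_lit 390) (nat_lit 380) (nat_lit 0) (XT.nd (nat_lit 156) (nat_lit 228) (nat_lit 0) (XT.nd (nat_lit 78) (nat_lit 152) (nat_lit 0) (XT.lf (nat_lit 0) (nat_lit 18599502762) (nat_lit 304) (nat_lit 9222946386) (nat_lit 76) (nat_lit 22137087168)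 (nat_lit 32) (nat_lit 5) (nat_lit 36) (nat_lit 5) (nat_lit 33) (nat_lit 5) (nat_lit 326) (nat_lit 289) (nat_lit 165)) (XT.lf (nat_lit 0) (nat_lit 13727458336) (nat_lit 152) (nat_lit 13781649908) (nat_lit 228) (nat_lit 24190021490) (nat_lit 30) (nat_lit 5) (nat_lit 32) (nat_lit 5) (nat_lit 33) (nat_lit 5) (nat_lit 327) (nat_lit 289) (nat_lit 164))) (XT.nd (nat_lit 78) (nat_lit 228) (nat_lit 0) (XT.lf (nat_lit 0) (nat_lit 37034596026) (nat_lit 228) (nat_lit 15395120122) (nat_lit 76) (nat_lit 1087470889) (nat_lit 30) (nat_lit 5) (nat_lit 33) (nat_lit 5) (nat_lit 31) (nat_lit 5) (nat_lit 328) (nat_lit 289) (nat_lit 163)) (XT.nd (nat_lit 78) (nat_lit 76) (nat_lit 0) (XT.lf (nat_lit 0) (nat_lit 8346476265) (nat_lit 152) (nat_lit 39042922058) (nat_lit 228) (nat_lit 8019100985) (nat_lit 28) (nat_lit 5) (nat_lit 30) (nat_lit 5) (nat_lit 31) (nat_lit 5) (nat_lit 329) (nat_lit 289) (nat_lit 162))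 (XT.lf (nat_lit 0) (nat_lit 1101614302) (nat_lit 228) (nat_lit 23594545444) (nat_lit 76) (nat_lit 32684453011) (nat_lit 27) (nat_lit 5) (nat_lit 30) (nat_lit 5) (nat_lit 28) (nat_lit 5) (nat_lit 330) (nat_lit 289) (nat_lit 161))))) (XT.nd (nat_lit 234) (nat_lit 228) (nat_lit 0) (XT.nd (nat_lit 78) (nat_lit 0) (nat_lit 0) (XT.lf (nat_lit 0) (nat_lit 940153813) (nat_lit 152) (nat_lit 9480367260) (nat_lit 228) (nat_lit 49023658817) (nat_lit 25) (nat_lit 5) (nat_lit 27) (nat_lit 5) (nat_lit 28) (nat_lit 5) (nat_lit 331) (nat_lit 289) (nat_lit 160)) (XT.nd (nat_lit 78) (nat_lit 0) (nat_lit 0) (XT.lf (nat_lit 0) (nat_lit 20709948042) (nat_lit 228) (nat_lit 34183012635) (nat_lit 76) (nat_lit 6692739343) (nat_lit 25) (nat_lit 5) (nat_lit 28) (nat_lit 5) (nat_lit 26) (nat_lit 5) (nat_lit 332) (nat_lit 289) (nat_lit 159)) (XT.lf (nat_lit 0) (nat_lit 31666419472) (nat_lit 228) (nat_lit 8805963600)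 (nat_lit 76) (nat_lit 23354287647) (nat_lit 25) (nat_lit 5) (nat_lit 28) (nat_lit 5) (nat_lit 26) (nat_lit 5) (nat_lit 333) (nat_lit 289) (nat_lit 158)))) (XT.nd (nat_lit 78) (nat_lit 76) (nat_lit 0) (XT.lf (nat_lit 0) (nat_lit 18425281756) (nat_lit 152) (nat_lit 25030395629) (nat_lit 228) (nat_lit 22709767492) (nat_lit 23) (nat_lit 5) (nat_lit 25) (nat_lit 5) (nat_lit 26) (nat_lit 5) (nat_lit 334) (nat_lit 289) (nat_lit 157)) (XT.nd (nat_lit 78) (nat_lit 76) (nat_lit 0) (XT.lf (nat_lit 0) (nat_lit 47319502987) (nat_lit 152) (nat_lit 8661382724) (nat_lit 228) (nat_lit 12632950575) (nat_lit 23) (nat_lit 5) (nat_lit 25) (nat_lit 5) (nat_lit 26) (nat_lit 5) (nat_lit 335) (nat_lit 289) (nat_lit 156)) (XT.lf (nat_lit 0) (nat_lit 6545975722) (nat_lit 76) (nat_lit 62819151286) (nat_lit 152) (nat_lit 1807884413) (nat_lit 22) (nat_lit 5) (nat_lit 23) (nat_lit 5) (nat_lit 24) (nat_lit 4) (nat_lit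 336) (nat_lit 289) (nat_lit 155))))))))
noncomputable def xc188 : XT := (XT.nd (nat_lit 1560) (nat_lit 456) (nat_lit 0) (XT.nd (nat_lit 780) (nat_lit 304) (nat_lit 0) (XT.nd (nat_lit 390) (nat_lit 228) (nat_lit 0) (XT.nd (nat_lit 156) (nat_lit 228) (nat_lit 0) (XT.nd (nat_lit 78) (nat_lit 0) (nat_lit 0) (XT.lf (nat_lit 0) (nat_lit 9758505805) (nat_lit 152) (nat_lit 37625884982) (nat_lit 76) (nat_lit 26442995333) (nat_lit 21) (nat_lit 5) (nat_lit 23) (nat_lit 5) (nat_lit 22) (nat_lit 5) (nat_lit 337) (nat_lit 289) (nat_lit 154)) (XT.lf (nat_lit 0) (nat_lit 21840047985) (nat_lit 152) (nat_lit 9308339626) (nat_lit 76) (nat_lit 45464733014) (nat_lit 21) (nat_lit 5) (nat_lit 23) (nat_lit 5) (nat_lit 22) (nat_lit 5) (nat_lit 338) (nat_lit 289) (nat_lit 153))) (XT.nd (nat_lit 78) (nat_lit 76) (nat_lit 0) (XT.lf (nat_lit 0) (nat_lit 21096467963) (nat_lit 152) (nat_lit 13756278318) (nat_lit 228)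 (nat_lit 44669043911) (nat_lit 19) (nat_lit 5) (nat_lit 21) (nat_lit 5) (nat_lit 22) (nat_lit 5) (nat_lit 339) (nat_lit 289) (nat_lit 152)) (XT.nd (nat_lit 78) (nat_lit 76) (nat_lit 0) (XT.lf (nat_lit 0) (nat_lit 48744378130) (nat_lit 228) (nat_lit 29300120035) (nat_lit 76) (nat_lit 4519982320) (nat_lit 19) (nat_lit 5) (nat_lit 22) (nat_lit 5) (nat_lit 20) (nat_lit 4) (nat_lit 340) (nat_lit 289) (nat_lit 151)) (XT.lf (nat_lit 0) (nat_lit 1086939750) (nat_lit 76) (nat_lit 62483973452) (nat_lit 152) (nat_lit 22176378087) (nat_lit 18) (nat_lit 5) (nat_lit 19) (nat_lit 5) (nat_lit 20) (nat_lit 4) (nat_lit 341) (nat_lit 289) (nat_lit 150))))) (XT.nd (nat_lit 156) (nat_lit 152) (nat_lit 0) (XT.nd (nat_lit 78) (nat_lit 76) (nat_lit 0) (XT.lf (nat_lit 0) (nat_lit 34006967244) (nat_lit 76) (nat_lit 45625904602) (nat_lit 152) (nat_lit 9431667922) (nat_lit 18) (nat_lit 5) (nat_lit 19) (nat_lit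 5) (nat_lit 20) (nat_lit 4) (nat_lit 342) (nat_lit 289) (nat_lit 149)) (XT.lf (nat_lit 0) (nat_lit 3821795166) (nat_lit 152) (nat_lit 24039845950) (nat_lit 76) (nat_lit 64683030055) (nat_lit 17) (nat_lit 5) (nat_lit 19) (nat_lit 5) (nat_lit 18) (nat_lit 5) (nat_lit 343) (nat_lit 289) (nat_lit 148))) (XT.nd (nat_lit 78) (nat_lit 0) (nat_lit 0) (XT.lf (nat_lit 0) (nat_lit 8647576879) (nat_lit 152) (nat_lit 8906450098) (nat_lit 228) (nat_lit 78630399927) (nat_lit 15) (nat_lit 5) (nat_lit 17) (nat_lit 5) (nat_lit 18) (nat_lit 5) (nat_lit 344) (nat_lit 289) (nat_lit 147)) (XT.nd (nat_lit 78) (nat_lit 0) (nat_lit 0) (XT.lf (nat_lit 0) (nat_lit 32556425602) (nat_lit 228) (nat_lit 56363564994) (nat_lit 76) (nat_lit 11057003693) (nat_lit 15) (nat_lit 5) (nat_lit 18) (nat_lit 5) (nat_lit 16) (nat_lit 4) (nat_lit 345) (nat_lit 289) (nat_lit 146)) (XT.lf (nat_lit 0) (nat_lit 48453111922) (nat_lit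 228) (nat_lit 23780833104) (nat_lit 76) (nat_lit 31718038178) (nat_lit 15) (nat_lit 5) (nat_lit 18) (nat_lit 5) (nat_lit 16) (nat_lit 4) (nat_lit 346) (nat_lit 289) (nat_lit 145)))))) (XT.nd (nat_lit 390) (nat_lit 76) (nat_lit 0) (XT.nd (nat_lit 156) (nat_lit 152) (nat_lit 0) (XT.nd (nat_lit 78) (nat_lit 0) (nat_lit 0) (XT.lf (nat_lit 0) (nat_lit 10772774275) (nat_lit 76) (nat_lit 54538299465) (nat_lit 152) (nat_lit 42806327241) (nat_lit 14) (nat_lit 5) (nat_lit 15) (nat_lit 5) (nat_lit 16) (nat_lit 4) (nat_lit 347) (nat_lit 289) (nat_lit 144)) (XT.lf (nat_lit 0) (nat_lit 47876671003) (nat_lit 76) (nat_lit 35536287018) (nat_lit 152) (nat_lit 29058081813) (nat_lit 14) (nat_lit 5) (nat_lit 15) (nat_lit 5) (nat_lit 16) (nat_lit 4) (nat_lit 348) (nat_lit 289) (nat_lit 143))) (XT.nd (nat_lit 78) (nat_lit 152) (nat_lit 0) (XT.lf (nat_lit 0) (nat_lit 86832897949) (nat_lit 76) (nat_lit 15585404712)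 (nat_lit 152) (nat_lit 14624140998) (nat_lit 14) (nat_lit 5) (nat_lit 15) (nat_lit 5) (nat_lit 16) (nat_lit 4) (nat_lit 349) (nat_lit 289) (nat_lit 142)) (XT.nd (nat_lit 78) (nat_lit 0) (nat_lit 0) (XT.lf (nat_lit 0) (nat_lit 693201773) (nat_lit 152) (nat_lit 115844771467) (nat_lit 76) (nat_lit 5295094937) (nat_lit 12) (nat_lit 5) (nat_lit 14) (nat_lit 5) (nat_lit 13) (nat_lit 4) (nat_lit 350) (nat_lit 289) (nat_lit 141)) (XT.lf (nat_lit 0) (nat_lit 17058874786) (nat_lit 152) (nat_lit 82299227371) (nat_lit 76) (nat_lit 27454439412) (nat_lit 12) (nat_lit 5) (nat_lit 14) (nat_lit 5) (nat_lit 13) (nat_lit 4) (nat_lit 351) (nat_lit 289) (nat_lit 140))))) (XT.nd (nat_lit 156) (nat_lit 76) (nat_lit 0) (XT.nd (nat_lit 78) (nat_lit 0) (nat_lit 0) (XT.lf (nat_lit 0) (nat_lit 34241337467) (nat_lit 152) (nat_lit 47079069902) (nat_lit 76) (nat_lit 50720657060) (nat_lit 12) (nat_lit 5) (nat_lit 14)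 (nat_lit 5) (nat_lit 13) (nat_lit 4) (nat_lit 352) (nat_lit 289) (nat_lit 139)) (XT.lf (nat_lit 0) (nat_lit 52281500442) (nat_lit 152) (nat_lit 10100441542) (nat_lit 76) (nat_lit 75149143639) (nat_lit 12) (nat_lit 5) (nat_lit 14) (nat_lit 5) (nat_lit 13) (nat_lit 4) (nat_lit 353) (nat_lit 289) (nat_lit 138))) (XT.nd (nat_lit 78) (nat_lit 0) (nat_lit 0) (XT.lf (nat_lit 0) (nat_lit 29674470434) (nat_lit 76) (nat_lit 42011147692) (nat_lit 152) (nat_lit 71586893421) (nat_lit 11) (nat_lit 5) (nat_lit 12) (nat_lit 5) (nat_lit 13) (nat_lit 4) (nat_lit 354) (nat_lit 289) (nat_lit 137)) (XT.nd (nat_lit 78) (nat_lit 0) (nat_lit 0) (XT.lf (nat_lit 0) (nat_lit 71786415330) (nat_lit 76) (nat_lit 20443254558) (nat_lit 152) (nat_lit 57062853422) (nat_lit 11) (nat_lit 5) (nat_lit 12) (nat_lit 5) (nat_lit 13) (nat_lit 4) (nat_lit 355) (nat_lit 289) (nat_lit 136)) (XT.lf (nat_lit 0) (nat_lit 113834039706)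 (nat_lit 152) (nat_lit 39646286239) (nat_lit 0) (nat_lit 2131554848) (nat_lit 11) (nat_lit 5) (nat_lit 13) (nat_lit 4) (nat_lit 11) (nat_lit 4) (nat_lit 356) (nat_lit 289) (nat_lit 135))))))) (XT.nd (nat_lit 780) (nat_lit 228) (nat_lit 0) (XT.nd (nat_lit 390) (nat_lit 76) (nat_lit 0) (XT.nd (nat_lit 156) (nat_lit 76) (nat_lit 0) (XT.nd (nat_lit 78) (nat_lit 76) (nat_lit 0) (XT.lf (nat_lit 0) (nat_lit 136852544233) (nat_lit 152) (nat_lit 230811136) (nat_lit 0) (nat_lit 25147155832) (nat_lit 11) (nat_lit 5) (nat_lit 13) (nat_lit 4) (nat_lit 11) (nat_lit 4) (nat_lit 357) (nat_lit 289) (nat_lit 134)) (XT.lf (nat_lit 0) (nat_lit 42514055471) (nat_lit 76) (nat_lit 119170521019) (nat_lit 76) (nat_lit 7462367337) (nat_lit 10) (nat_lit 4) (nat_lit 11) (nat_lit 5) (nat_lit 11) (nat_lit 4) (nat_lit 358) (nat_lit 289) (nat_lit 133))) (XT.nd (nat_lit 78) (nat_lit 0) (nat_lit 0) (XT.lf (nat_lit 0)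 (nat_lit 10988588592) (nat_lit 152) (nat_lit 89184180667) (nat_lit 76) (nat_lit 76227429296) (nat_lit 9) (nat_lit 5) (nat_lit 11) (nat_lit 5) (nat_lit 10) (nat_lit 4) (nat_lit 359) (nat_lit 289) (nat_lit 132)) (XT.nd (nat_lit 78) (nat_lit 0) (nat_lit 0) (XT.lf (nat_lit 0) (nat_lit 30110205564) (nat_lit 152) (nat_lit 49987374066) (nat_lit 76) (nat_lit 103912475519) (nat_lit 9) (nat_lit 5) (nat_lit 11) (nat_lit 5) (nat_lit 10) (nat_lit 4) (nat_lit 360) (nat_lit 289) (nat_lit 131)) (XT.lf (nat_lit 0) (nat_lit 50186853594) (nat_lit 152) (nat_lit 8832634358) (nat_lit 76) (nat_lit 132980969786) (nat_lit 9) (nat_lit 5) (nat_lit 11) (nat_lit 5) (nat_lit 10) (nat_lit 4) (nat_lit 361) (nat_lit 289) (nat_lit 130))))) (XT.nd (nat_lit 156) (nat_lit 0) (nat_lit 0) (XT.nd (nat_lit 78) (nat_lit 0) (nat_lit 0) (XT.lf (nat_lit 0) (nat_lit 35514718727) (nat_lit 76) (nat_lit 36306099788) (nat_lit 152) (nat_lit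 128541888361) (nat_lit 8) (nat_lit 5) (nat_lit 9) (nat_lit 5) (nat_lit 10) (nat_lit 4) (nat_lit 362) (nat_lit 289) (nat_lit 129)) (XT.lf (nat_lit 0) (nat_lit 82384301482) (nat_lit 76) (nat_lit 12300785045) (nat_lit 152) (nat_lit 114450552314) (nat_lit 8) (nat_lit 5) (nat_lit 9) (nat_lit 5) (nat_lit 10) (nat_lit 4) (nat_lit 363) (nat_lit 289) (nat_lit 128))) (XT.nd (nat_lit 78) (nat_lit 0) (nat_lit 0) (XT.lf (nat_lit 0) (nat_lit 118893102542) (nat_lit 152) (nat_lit 86953071312) (nat_lit 0) (nat_lit 12491017404) (nat_lit 8) (nat_lit 5) (nat_lit 10) (nat_lit 4) (nat_lit 8) (nat_lit 4) (nat_lit 364) (nat_lit 289) (nat_lit 127)) (XT.nd (nat_lit 78) (nat_lit 0) (nat_lit 0) (XT.lf (nat_lit 0) (nat_lit 144512271170) (nat_lit 152) (nat_lit 45368198710) (nat_lit 0) (nat_lit 38108314382) (nat_lit 8) (nat_lit 5) (nat_lit 10) (nat_lit 4) (nat_lit 8) (nat_lit 4) (nat_lit 365) (nat_lit 289) (nat_lit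 126)) (XT.lf (nat_lit 0) (nat_lit 171411540705) (nat_lit 152) (nat_lit 1705658223) (nat_lit 0) (nat_lit 65005801393) (nat_lit 8) (nat_lit 5) (nat_lit 10) (nat_lit 4) (nat_lit 8) (nat_lit 4) (nat_lit 366) (nat_lit 289) (nat_lit 125)))))) (XT.nd (nat_lit 390) (nat_lit 76) (nat_lit 0) (XT.nd (nat_lit 156) (nat_lit 76) (nat_lit 0) (XT.nd (nat_lit 78) (nat_lit 0) (nat_lit 0) (XT.lf (nat_lit 0) (nat_lit 45597927006) (nat_lit 76) (nat_lit 154768941450) (nat_lit 76) (nat_lit 48361504495) (nat_lit 7) (nat_lit 4) (nat_lit 8) (nat_lit 5) (nat_lit 8) (nat_lit 4) (nat_lit 367) (nat_lit 289) (nat_lit 124)) (XT.lf (nat_lit 0) (nat_lit 95324431594) (nat_lit 76) (nat_lit 135473616296) (nat_lit 76) (nat_lit 29064562539) (nat_lit 7) (nat_lit 4) (nat_lit 8) (nat_lit 5) (nat_lit 8) (nat_lit 4) (nat_lit 368) (nat_lit 289) (nat_lit 123))) (XT.nd (nat_lit 78) (nat_lit 76) (nat_lit 0) (XT.lf (nat_lit 0) (nat_lit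 147535855215) (nat_lit 76) (nat_lit 115214168363) (nat_lit 76) (nat_lit 8803574794) (nat_lit 7) (nat_lit 4) (nat_lit 8) (nat_lit 5) (nat_lit 8) (nat_lit 4) (nat_lit 369) (nat_lit 289) (nat_lit 122)) (XT.nd (nat_lit 78) (nat_lit 0) (nat_lit 0) (XT.lf (nat_lit 0) (nat_lit 12070590936) (nat_lit 152) (nat_lit 81667348637) (nat_lit 76) (nat_lit 190081498550) (nat_lit 6) (nat_lit 5) (nat_lit 8) (nat_lit 5) (nat_lit 7) (nat_lit 4) (nat_lit 370) (nat_lit 289) (nat_lit 121)) (XT.lf (nat_lit 0) (nat_lit 33691903562) (nat_lit 152) (nat_lit 37345054406) (nat_lit 76) (nat_lit 225654431419) (nat_lit 6) (nat_lit 5) (nat_lit 8) (nat_lit 5) (nat_lit 7) (nat_lit 4) (nat_lit 371) (nat_lit 289) (nat_lit 120))))) (XT.nd (nat_lit 156) (nat_lit 0) (nat_lit 0) (XT.nd (nat_lit 78) (nat_lit 0) (nat_lit 0) (XT.lf (nat_lit 0) (nat_lit 9496050190) (nat_lit 76) (nat_lit 47045821540) (nat_lit 152) (nat_lit 253657687366)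 (nat_lit 5) (nat_lit 5) (nat_lit 6) (nat_lit 5) (nat_lit 7) (nat_lit 4) (nat_lit 372) (nat_lit 289) (nat_lit 119)) (XT.lf (nat_lit 0) (nat_lit 59974528678) (nat_lit 76) (nat_lit 21191609050) (nat_lit 152) (nat_lit 243185409950) (nat_lit 5) (nat_lit 5) (nat_lit 6) (nat_lit 5) (nat_lit 7) (nat_lit 4) (nat_lit 373) (nat_lit 289) (nat_lit 118))) (XT.nd (nat_lit 78) (nat_lit 0) (nat_lit 0) (XT.lf (nat_lit 0) (nat_lit 107113961985) (nat_lit 152) (nat_lit 226328366379) (nat_lit 0) (nat_lit 5764190417) (nat_lit 5) (nat_lit 5) (nat_lit 7) (nat_lit 4) (nat_lit 5) (nat_lit 4) (nat_lit 374) (nat_lit 289) (nat_lit 117)) (XT.nd (nat_lit 78) (nat_lit 0) (nat_lit 0) (XT.lf (nat_lit 0) (nat_lit 134705976901) (nat_lit 152) (nat_lit 186725810876) (nat_lit 0) (nat_lit 33355111017) (nat_lit 5) (nat_lit 5) (nat_lit 7) (nat_lit 4) (nat_lit 5) (nat_lit 4) (nat_lit 375) (nat_lit 289) (nat_lit 116)) (XT.lf (nat_lit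 0) (nat_lit 163677017340) (nat_lit 152) (nat_lit 145144200286) (nat_lit 0) (nat_lit 62325109251) (nat_lit 5) (nat_lit 5) (nat_lit 7) (nat_lit 4) (nat_lit 5) (nat_lit 4) (nat_lit 376) (nat_lit 289) (nat_lit 115))))))))
noncomputable def xc189 : XT := (XT.nd (nat_lit 34944) (nat_lit 0) (nat_lit 2432) (XT.nd (nat_lit 34164) (nat_lit 0) (nat_lit 5168) (XT.nd (nat_lit 390) (nat_lit 0) (nat_lit 0) (XT.nd (nat_lit 156) (nat_lit 76) (nat_lit 0) (XT.nd (nat_lit 78) (nat_lit 0) (nat_lit 0) (XT.lf (nat_lit 0) (nat_lit 194096061972) (nat_lit 152) (nat_lit 101484530773) (nat_lit 0) (nat_lit 92743161306) (nat_lit 5) (nat_lit 5) (nat_lit 7) (nat_lit 4) (nat_lit 5) (nat_lit 4) (nat_lit 377) (nat_lit 289) (nat_lit 114)) (XT.lf (nat_lit 0) (nat_lit 226035537092) (nat_lit 152) (nat_lit 55642850744) (nat_lit 0) (nat_lit 124681691116) (nat_lit 5) (nat_lit 5) (nat_lit 7) (nat_lit 4) (nat_lit 5) (nat_lit 4)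 (nat_lit 378) (nat_lit 289) (nat_lit 113))) (XT.nd (nat_lit 78) (nat_lit 76) (nat_lit 0) (XT.lf (nat_lit 0) (nat_lit 259571489070) (nat_lit 152) (nat_lit 7510013342) (nat_lit 0) (nat_lit 158216742798) (nat_lit 5) (nat_lit 5) (nat_lit 7) (nat_lit 4) (nat_lit 5) (nat_lit 4) (nat_lit 379) (nat_lit 289) (nat_lit 112)) (XT.nd (nat_lit 78) (nat_lit 0) (nat_lit 0) (XT.lf (nat_lit 0) (nat_lit 44451302717) (nat_lit 76) (nat_lit 251026472104) (nat_lit 76) (nat_lit 149670868407) (nat_lit 4) (nat_lit 4) (nat_lit 5) (nat_lit 5) (nat_lit 5) (nat_lit 4) (nat_lit 380) (nat_lit 289) (nat_lit 111)) (XT.lf (nat_lit 0) (nat_lit 99270547017) (nat_lit 76) (nat_lit 234035549295) (nat_lit 76) (nat_lit 132679129003) (nat_lit 4) (nat_lit 4) (nat_lit 5) (nat_lit 5) (nat_lit 5) (nat_lit 4) (nat_lit 381) (nat_lit 289) (nat_lit 110))))) (XT.nd (nat_lit 33540) (nat_lit 0) (nat_lit 6080) (XT.nd (nat_lit 33462) (nat_lit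 0) (nat_lit 6080) (XT.lf (nat_lit 0) (nat_lit 156829926609) (nat_lit 76) (nat_lit 216195465120) (nat_lit 76) (nat_lit 114838267118) (nat_lit 4) (nat_lit 4) (nat_lit 5) (nat_lit 5) (nat_lit 5) (nat_lit 4) (nat_lit 382) (nat_lit 289) (nat_lit 109)) (XT.lf (nat_lit 0) (nat_lit 2614893094) (nat_lit 0) (nat_lit 2614893094) (nat_lit 684) (nat_lit 3683483420) (nat_lit 84) (nat_lit 5) (nat_lit 84) (nat_lit 3) (nat_lit 93) (nat_lit 3) (nat_lit 290) (nat_lit 290) (nat_lit 200))) (XT.nd (nat_lit 78) (nat_lit 0) (nat_lit 0) (XT.lf (nat_lit 0) (nat_lit 10958068662) (nat_lit 684) (nat_lit 4673151525) (nat_lit 760) (nat_lit 2628680101) (nat_lit 84) (nat_lit 5) (nat_lit 93) (nat_lit 3) (nat_lit 94) (nat_lit 5) (nat_lit 291) (nat_lit 290) (nat_lit 199)) (XT.nd (nat_lit 78) (nat_lit 0) (nat_lit 76) (XT.lf (nat_lit 76) (nat_lit 3671426681) (nat_lit 0) (nat_lit 7940758386) (nat_lit 760) (nat_lit 7096238517)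 (nat_lit 85) (nat_lit 5) (nat_lit 84) (nat_lit 5) (nat_lit 94) (nat_lit 5) (nat_lit 292) (nat_lit 290) (nat_lit 198)) (XT.lf (nat_lit 0) (nat_lit 12369741953) (nat_lit 684) (nat_lit 6590898920) (nat_lit 760) (nat_lit 215222996) (nat_lit 85) (nat_lit 5) (nat_lit 94) (nat_lit 5) (nat_lit 95) (nat_lit 5) (nat_lit 293) (nat_lit 290) (nat_lit 197)))))) (XT.nd (nat_lit 390) (nat_lit 988) (nat_lit 0) (XT.nd (nat_lit 156) (nat_lit 0) (nat_lit 76) (XT.nd (nat_lit 78) (nat_lit 0) (nat_lit 0) (XT.lf (nat_lit 76) (nat_lit 2210884973) (nat_lit 0) (nat_lit 11107747631) (nat_lit 760) (nat_lit 6340397018) (nat_lit 86) (nat_lit 5) (nat_lit 85) (nat_lit 5) (nat_lit 95) (nat_lit 5) (nat_lit 294) (nat_lit 290) (nat_lit 196)) (XT.lf (nat_lit 76) (nat_lit 11674490648) (nat_lit 0) (nat_lit 2741283144) (nat_lit 760) (nat_lit 5745564568) (nat_lit 86) (nat_lit 5) (nat_lit 85) (nat_lit 5) (nat_lit 95) (nat_lit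 5) (nat_lit 295) (nat_lit 290) (nat_lit 195))) (XT.nd (nat_lit 78) (nat_lit 0) (nat_lit 0) (XT.lf (nat_lit 76) (nat_lit 847952660) (nat_lit 0) (nat_lit 14817170631) (nat_lit 760) (nat_lit 5018795487) (nat_lit 87) (nat_lit 5) (nat_lit 86) (nat_lit 5) (nat_lit 96) (nat_lit 5) (nat_lit 296) (nat_lit 290) (nat_lit 194)) (XT.nd (nat_lit 78) (nat_lit 0) (nat_lit 76) (XT.lf (nat_lit 76) (nat_lit 10890485603) (nat_lit 0) (nat_lit 6264529038) (nat_lit 760) (nat_lit 4068732531) (nat_lit 87) (nat_lit 5) (nat_lit 86) (nat_lit 5) (nat_lit 96) (nat_lit 5) (nat_lit 297) (nat_lit 290) (nat_lit 193)) (XT.lf (nat_lit 0) (nat_lit 18752441429) (nat_lit 684) (nat_lit 405235549) (nat_lit 760) (nat_lit 2631259559) (nat_lit 87) (nat_lit 5) (nat_lit 96) (nat_lit 5) (nat_lit 97) (nat_lit 5) (nat_lit 298) (nat_lit 290) (nat_lit 192))))) (XT.nd (nat_lit 156) (nat_lit 1140) (nat_lit 0) (XT.nd (nat_lit 78) (nat_lit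 0) (nat_lit 0) (XT.lf (nat_lit 76) (nat_lit 10237084868) (nat_lit 0) (nat_lit 10446267644) (nat_lit 760) (nat_lit 1686372774) (nat_lit 88) (nat_lit 5) (nat_lit 87) (nat_lit 5) (nat_lit 97) (nat_lit 5) (nat_lit 299) (nat_lit 290) (nat_lit 191)) (XT.lf (nat_lit 76) (nat_lit 21418643693) (nat_lit 0) (nat_lit 1290430507) (nat_lit 760) (nat_lit 270585607) (nat_lit 88) (nat_lit 5) (nat_lit 87) (nat_lit 5) (nat_lit 97) (nat_lit 5) (nat_lit 300) (nat_lit 290) (nat_lit 190))) (XT.nd (nat_lit 78) (nat_lit 456) (nat_lit 0) (XT.lf (nat_lit 0) (nat_lit 1454968622) (nat_lit 760) (nat_lit 13916854396) (nat_lit 76) (nat_lit 8233441699) (nat_lit 78) (nat_lit 5) (nat_lit 88) (nat_lit 5) (nat_lit 79) (nat_lit 5) (nat_lit 301) (nat_lit 290) (nat_lit 189)) (XT.nd (nat_lit 78) (nat_lit 456) (nat_lit 0) (XT.lf (nat_lit 0) (nat_lit 3297701565) (nat_lit 760) (nat_lit 2739585571) (nat_lit 76) (nat_lit 18222658142)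 (nat_lit 78) (nat_lit 5) (nat_lit 88) (nat_lit 5) (nat_lit 79) (nat_lit 5) (nat_lit 302) (nat_lit 290) (nat_lit 188)) (XT.lf (nat_lit 0) (nat_lit 5431072834) (nat_lit 532) (nat_lit 15714770472) (nat_lit 76) (nat_lit 3791607591) (nat_lit 72) (nat_lit 5) (nat_lit 79) (nat_lit 5) (nat_lit 73) (nat_lit 5) (nat_lit 303) (nat_lit 290) (nat_lit 187))))))) (XT.nd (nat_lit 780) (nat_lit 1140) (nat_lit 0) (XT.nd (nat_lit 390) (nat_lit 912) (nat_lit 0) (XT.nd (nat_lit 156) (nat_lit 304) (nat_lit 0) (XT.nd (nat_lit 78) (nat_lit 380) (nat_lit 0) (XT.lf (nat_lit 0) (nat_lit 7809861483) (nat_lit 532) (nat_lit 3875247844) (nat_lit 76) (nat_lit 13956800374) (nat_lit 72) (nat_lit 5) (nat_lit 79) (nat_lit 5) (nat_lit 73) (nat_lit 5) (nat_lit 304) (nat_lit 290) (nat_lit 186)) (XT.lf (nat_lit 0) (nat_lit 8832099652) (nat_lit 380) (nat_lit 1606355261) (nat_lit 456) (nat_lit 15936607883) (nat_lit 67) (nat_lit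 5) (nat_lit 72) (nat_lit 5) (nat_lit 73) (nat_lit 5) (nat_lit 305) (nat_lit 290) (nat_lit 185))) (XT.nd (nat_lit 78) (nat_lit 304) (nat_lit 0) (XT.lf (nat_lit 0) (nat_lit 13398531284) (nat_lit 456) (nat_lit 4980537789) (nat_lit 76) (nat_lit 8755815727) (nat_lit 67) (nat_lit 5) (nat_lit 73) (nat_lit 5) (nat_lit 68) (nat_lit 5) (nat_lit 306) (nat_lit 290) (nat_lit 184)) (XT.nd (nat_lit 78) (nat_lit 0) (nat_lit 0) (XT.lf (nat_lit 0) (nat_lit 8447300143) (nat_lit 304) (nat_lit 8211057161) (nat_lit 380) (nat_lit 11266766564) (nat_lit 63) (nat_lit 5) (nat_lit 67) (nat_lit 5) (nat_lit 68) (nat_lit 5) (nat_lit 307) (nat_lit 290) (nat_lit 183)) (XT.lf (nat_lit 0) (nat_lit 20199121462) (nat_lit 380) (nat_lit 6078041395) (nat_lit 76) (nat_lit 2471827317) (nat_lit 63) (nat_lit 5) (nat_lit 68) (nat_lit 5) (nat_lit 64) (nat_lit 5) (nat_lit 308) (nat_lit 290) (nat_lit 182))))) (XT.nd (nat_lit 156)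 (nat_lit 608) (nat_lit 0) (XT.nd (nat_lit 78) (nat_lit 0) (nat_lit 0) (XT.lf (nat_lit 0) (nat_lit 8110073625) (nat_lit 304) (nat_lit 16062102639) (nat_lit 380) (nat_lit 5429122935) (nat_lit 59) (nat_lit 5) (nat_lit 63) (nat_lit 5) (nat_lit 64) (nat_lit 5) (nat_lit 309) (nat_lit 290) (nat_lit 181)) (XT.lf (nat_lit 0) (nat_lit 23212095137) (nat_lit 304) (nat_lit 5228930057) (nat_lit 380) (nat_lit 2050352862) (nat_lit 59) (nat_lit 5) (nat_lit 63) (nat_lit 5) (nat_lit 64) (nat_lit 5) (nat_lit 310) (nat_lit 290) (nat_lit 180))) (XT.nd (nat_lit 78) (nat_lit 304) (nat_lit 0) (XT.lf (nat_lit 0) (nat_lit 1664949536) (nat_lit 304) (nat_lit 23652068340) (nat_lit 76) (nat_lit 6097008543) (nat_lit 55) (nat_lit 5) (nat_lit 59) (nat_lit 5) (nat_lit 56) (nat_lit 5) (nat_lit 311) (nat_lit 290) (nat_lit 179)) (XT.nd (nat_lit 78) (nat_lit 304) (nat_lit 0) (XT.lf (nat_lit 0) (nat_lit 5702668692) (nat_lit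 304) (nat_lit 8696582254) (nat_lit 76) (nat_lit 17971607683) (nat_lit 55) (nat_lit 5) (nat_lit 59) (nat_lit 5) (nat_lit 56) (nat_lit 5) (nat_lit 312) (nat_lit 290) (nat_lit 178)) (XT.lf (nat_lit 0) (nat_lit 7231889579) (nat_lit 304) (nat_lit 2818092042) (nat_lit 380) (nat_lit 23320174859) (nat_lit 51) (nat_lit 5) (nat_lit 55) (nat_lit 5) (nat_lit 56) (nat_lit 5) (nat_lit 313) (nat_lit 290) (nat_lit 177)))))) (XT.nd (nat_lit 390) (nat_lit 684) (nat_lit 0) (XT.nd (nat_lit 156) (nat_lit 228) (nat_lit 0) (XT.nd (nat_lit 78) (nat_lit 228) (nat_lit 0) (XT.lf (nat_lit 0) (nat_lit 14905144407) (nat_lit 380) (nat_lit 10308013267) (nat_lit 76) (nat_lit 9191746311) (nat_lit 51) (nat_lit 5) (nat_lit 56) (nat_lit 5) (nat_lit 52) (nat_lit 5) (nat_lit 314) (nat_lit 290) (nat_lit 176)) (XT.lf (nat_lit 0) (nat_lit 6468494074) (nat_lit 228) (nat_lit 13676934325) (nat_lit 304) (nat_lit 15338850860) (nat_lit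 48) (nat_lit 5) (nat_lit 51) (nat_lit 5) (nat_lit 52) (nat_lit 5) (nat_lit 315) (nat_lit 290) (nat_lit 175))) (XT.nd (nat_lit 78) (nat_lit 228) (nat_lit 0) (XT.lf (nat_lit 0) (nat_lit 24435703049) (nat_lit 228) (nat_lit 1381904488) (nat_lit 304) (nat_lit 10791529849) (nat_lit 48) (nat_lit 5) (nat_lit 51) (nat_lit 5) (nat_lit 52) (nat_lit 5) (nat_lit 316) (nat_lit 290) (nat_lit 174)) (XT.nd (nat_lit 78) (nat_lit 0) (nat_lit 0) (XT.lf (nat_lit 0) (nat_lit 5501203540) (nat_lit 228) (nat_lit 26533577465) (nat_lit 304) (nat_lit 5742395897) (nat_lit 45) (nat_lit 5) (nat_lit 48) (nat_lit 5) (nat_lit 49) (nat_lit 5) (nat_lit 317) (nat_lit 290) (nat_lit 173)) (XT.lf (nat_lit 0) (nat_lit 24452978825) (nat_lit 228) (nat_lit 14333922490) (nat_lit 304) (nat_lit 205520053) (nat_lit 45) (nat_lit 5) (nat_lit 48) (nat_lit 5) (nat_lit 49) (nat_lit 5) (nat_lit 318) (nat_lit 290) (nat_lit 172))))) (XT.nd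 (nat_lit 234) (nat_lit 152) (nat_lit 0) (XT.nd (nat_lit 78) (nat_lit 228) (nat_lit 0) (XT.lf (nat_lit 0) (nat_lit 4122609761) (nat_lit 228) (nat_lit 1366227146) (nat_lit 304) (nat_lit 34772213122) (nat_lit 41) (nat_lit 5) (nat_lit 44) (nat_lit 5) (nat_lit 45) (nat_lit 5) (nat_lit 319) (nat_lit 290) (nat_lit 171)) (XT.nd (nat_lit 78) (nat_lit 228) (nat_lit 0) (XT.lf (nat_lit 0) (nat_lit 11898388558) (nat_lit 304) (nat_lit 17562709285) (nat_lit 76) (nat_lit 12109981016) (nat_lit 41) (nat_lit 5) (nat_lit 45) (nat_lit 5) (nat_lit 42) (nat_lit 5) (nat_lit 320) (nat_lit 290) (nat_lit 170)) (XT.lf (nat_lit 0) (nat_lit 1977177128) (nat_lit 228) (nat_lit 16700564277) (nat_lit 304) (nat_lit 24266407616) (nat_lit 38) (nat_lit 5) (nat_lit 41) (nat_lit 5) (nat_lit 42) (nat_lit 5) (nat_lit 321) (nat_lit 290) (nat_lit 169)))) (XT.nd (nat_lit 78) (nat_lit 152) (nat_lit 0) (XT.lf (nat_lit 0) (nat_lit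 23098368471) (nat_lit 228) (nat_lit 2991286603) (nat_lit 304) (nat_lit 18281543744) (nat_lit 38) (nat_lit 5) (nat_lit 41) (nat_lit 5) (nat_lit 42) (nat_lit 5) (nat_lit 322) (nat_lit 290) (nat_lit 168)) (XT.nd (nat_lit 78) (nat_lit 152) (nat_lit 0) (XT.lf (nat_lit 0) (nat_lit 34046523760) (nat_lit 304) (nat_lit 777354943) (nat_lit 76) (nat_lit 11037009943) (nat_lit 38) (nat_lit 5) (nat_lit 42) (nat_lit 5) (nat_lit 39) (nat_lit 5) (nat_lit 323) (nat_lit 290) (nat_lit 167)) (XT.lf (nat_lit 0) (nat_lit 21372841800) (nat_lit 152) (nat_lit 21407616232) (nat_lit 228) (nat_lit 4625649072) (nat_lit 36) (nat_lit 5) (nat_lit 38) (nat_lit 5) (nat_lit 39) (nat_lit 5) (nat_lit 324) (nat_lit 290) (nat_lit 166))))))))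
noncomputable def xc190 : XT := (XT.nd (nat_lit 1560) (nat_lit 684) (nat_lit 0) (XT.nd (nat_lit 780) (nat_lit 608) (nat_lit 0) (XT.nd (nat_lit 390) (nat_lit 380) (nat_lit 0) (XT.nd (nat_lit 156) (nat_lit 152) (nat_lit 0) (XT.nd (nat_lit 78) (nat_lit 228) (nat_lit 0) (XT.lf (nat_lit 0) (nat_lit 2838867661) (nat_lit 228) (nat_lit 4421353291) (nat_lit 76) (nat_lit 41765593696) (nat_lit 35) (nat_lit 5) (nat_lit 38) (nat_lit 5) (nat_lit 36) (nat_lit 5) (nat_lit 325) (nat_lit 290) (nat_lit 165)) (XT.lf (nat_lit 0) (nat_lit 10935841392) (nat_lit 304) (nat_lit 32040908082) (nat_lit 76) (nat_lit 7725236944) (nat_lit 32) (nat_lit 5) (nat_lit 36) (nat_lit 5) (nat_lit 33) (nat_lit 5) (nat_lit 326) (nat_lit 290) (nat_lit 164))) (XT.nd (nat_lit 78) (nat_lit 152) (nat_lit 0) (XT.lf (nat_lit 0) (nat_lit 19629535817) (nat_lit 304) (nat_lit 9532275655) (nat_lit 76) (nat_lit 23290566022) (nat_lit 32) (nat_lit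 5) (nat_lit 36) (nat_lit 5) (nat_lit 33) (nat_lit 5) (nat_lit 327) (nat_lit 290) (nat_lit 163)) (XT.nd (nat_lit 78) (nat_lit 0) (nat_lit 0) (XT.lf (nat_lit 0) (nat_lit 14563200625) (nat_lit 152) (nat_lit 14418988359) (nat_lit 228) (nat_lit 25296889548) (nat_lit 30) (nat_lit 5) (nat_lit 32) (nat_lit 5) (nat_lit 33) (nat_lit 5) (nat_lit 328) (nat_lit 290) (nat_lit 162)) (XT.lf (nat_lit 0) (nat_lit 38980071730) (nat_lit 228) (nat_lit 16018619756) (nat_lit 76) (nat_lit 1189547206) (nat_lit 30) (nat_lit 5) (nat_lit 33) (nat_lit 5) (nat_lit 31) (nat_lit 5) (nat_lit 329) (nat_lit 290) (nat_lit 161))))) (XT.nd (nat_lit 156) (nat_lit 152) (nat_lit 0) (XT.nd (nat_lit 78) (nat_lit 76) (nat_lit 0) (XT.lf (nat_lit 0) (nat_lit 8907697478) (nat_lit 152) (nat_lit 40942699216) (nat_lit 228) (nat_lit 8323836490) (nat_lit 28) (nat_lit 5) (nat_lit 30) (nat_lit 5) (nat_lit 31) (nat_lit 5) (nat_lit 330) (nat_lit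 290) (nat_lit 160)) (XT.lf (nat_lit 0) (nat_lit 1245399702) (nat_lit 228) (nat_lit 24634190589) (nat_lit 76) (nat_lit 34365513863) (nat_lit 27) (nat_lit 5) (nat_lit 30) (nat_lit 5) (nat_lit 28) (nat_lit 5) (nat_lit 331) (nat_lit 290) (nat_lit 159))) (XT.nd (nat_lit 78) (nat_lit 0) (nat_lit 0) (XT.lf (nat_lit 0) (nat_lit 1124984242) (nat_lit 152) (nat_lit 9903195336) (nat_lit 228) (nat_lit 51383778630) (nat_lit 25) (nat_lit 5) (nat_lit 27) (nat_lit 5) (nat_lit 28) (nat_lit 5) (nat_lit 332) (nat_lit 290) (nat_lit 158)) (XT.nd (nat_lit 78) (nat_lit 0) (nat_lit 0) (XT.lf (nat_lit 0) (nat_lit 21828713706) (nat_lit 228) (nat_lit 35757444989) (nat_lit 76) (nat_lit 7074568575) (nat_lit 25) (nat_lit 5) (nat_lit 28) (nat_lit 5) (nat_lit 26) (nat_lit 5) (nat_lit 333) (nat_lit 290) (nat_lit 157)) (XT.lf (nat_lit 0) (nat_lit 33329043552) (nat_lit 228) (nat_lit 9117958659) (nat_lit 76) (nat_lit 24566947044)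 (nat_lit 25) (nat_lit 5) (nat_lit 28) (nat_lit 5) (nat_lit 26) (nat_lit 5) (nat_lit 334) (nat_lit 290) (nat_lit 156)))))) (XT.nd (nat_lit 390) (nat_lit 304) (nat_lit 0) (XT.nd (nat_lit 156) (nat_lit 152) (nat_lit 0) (XT.nd (nat_lit 78) (nat_lit 0) (nat_lit 0) (XT.lf (nat_lit 0) (nat_lit 19472779560) (nat_lit 152) (nat_lit 26233179324) (nat_lit 228) (nat_lit 23763797788) (nat_lit 23) (nat_lit 5) (nat_lit 25) (nat_lit 5) (nat_lit 26) (nat_lit 5) (nat_lit 335) (nat_lit 290) (nat_lit 155)) (XT.lf (nat_lit 0) (nat_lit 49805700723) (nat_lit 152) (nat_lit 9048036540) (nat_lit 228) (nat_lit 13187018982) (nat_lit 23) (nat_lit 5) (nat_lit 25) (nat_lit 5) (nat_lit 26) (nat_lit 5) (nat_lit 336) (nat_lit 290) (nat_lit 154))) (XT.nd (nat_lit 78) (nat_lit 76) (nat_lit 0) (XT.lf (nat_lit 0) (nat_lit 6994556056) (nat_lit 76) (nat_lit 65911703648) (nat_lit 152) (nat_lit 1821680860) (nat_lit 22) (nat_lit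 5) (nat_lit 23) (nat_lit 5) (nat_lit 24) (nat_lit 4) (nat_lit 337) (nat_lit 290) (nat_lit 153)) (XT.nd (nat_lit 78) (nat_lit 0) (nat_lit 0) (XT.lf (nat_lit 0) (nat_lit 10317046493) (nat_lit 152) (nat_lit 39389267735) (nat_lit 76) (nat_lit 27808840033) (nat_lit 21) (nat_lit 5) (nat_lit 23) (nat_lit 5) (nat_lit 22) (nat_lit 5) (nat_lit 338) (nat_lit 290) (nat_lit 152)) (XT.lf (nat_lit 0) (nat_lit 22999303144) (nat_lit 152) (nat_lit 9661459944) (nat_lit 76) (nat_lit 47779583886) (nat_lit 21) (nat_lit 5) (nat_lit 23) (nat_lit 5) (nat_lit 22) (nat_lit 5) (nat_lit 339) (nat_lit 290) (nat_lit 151))))) (XT.nd (nat_lit 156) (nat_lit 152) (nat_lit 0) (XT.nd (nat_lit 78) (nat_lit 0) (nat_lit 0) (XT.lf (nat_lit 0) (nat_lit 22261776787) (nat_lit 152) (nat_lit 14399382042) (nat_lit 228) (nat_lit 46833368259) (nat_lit 19) (nat_lit 5) (nat_lit 21) (nat_lit 5) (nat_lit 22) (nat_lit 5) (nat_lit 340) (nat_lit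 290) (nat_lit 150)) (XT.lf (nat_lit 0) (nat_lit 51244904928) (nat_lit 228) (nat_lit 30657373667) (nat_lit 76) (nat_lit 4787199710) (nat_lit 19) (nat_lit 5) (nat_lit 22) (nat_lit 5) (nat_lit 20) (nat_lit 4) (nat_lit 341) (nat_lit 290) (nat_lit 149))) (XT.nd (nat_lit 78) (nat_lit 76) (nat_lit 0) (XT.lf (nat_lit 0) (nat_lit 1247301166) (nat_lit 76) (nat_lit 65564106108) (nat_lit 152) (nat_lit 23220093244) (nat_lit 18) (nat_lit 5) (nat_lit 19) (nat_lit 5) (nat_lit 20) (nat_lit 4) (nat_lit 342) (nat_lit 290) (nat_lit 148)) (XT.nd (nat_lit 78) (nat_lit 76) (nat_lit 0) (XT.lf (nat_lit 0) (nat_lit 35808281728) (nat_lit 76) (nat_lit 47865232198) (nat_lit 152) (nat_lit 9841247750) (nat_lit 18) (nat_lit 5) (nat_lit 19) (nat_lit 5) (nat_lit 20) (nat_lit 4) (nat_lit 343) (nat_lit 290) (nat_lit 147)) (XT.lf (nat_lit 0) (nat_lit 4070045941) (nat_lit 152) (nat_lit 25143740005) (nat_lit 76) (nat_lit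 67955210703) (nat_lit 17) (nat_lit 5) (nat_lit 19) (nat_lit 5) (nat_lit 18) (nat_lit 5) (nat_lit 344) (nat_lit 290) (nat_lit 146))))))) (XT.nd (nat_lit 780) (nat_lit 304) (nat_lit 0) (XT.nd (nat_lit 390) (nat_lit 152) (nat_lit 0) (XT.nd (nat_lit 156) (nat_lit 76) (nat_lit 0) (XT.nd (nat_lit 78) (nat_lit 0) (nat_lit 0) (XT.lf (nat_lit 0) (nat_lit 9176471736) (nat_lit 152) (nat_lit 9311202539) (nat_lit 228) (nat_lit 82503129029) (nat_lit 15) (nat_lit 5) (nat_lit 17) (nat_lit 5) (nat_lit 18) (nat_lit 5) (nat_lit 345) (nat_lit 290) (nat_lit 145)) (XT.lf (nat_lit 0) (nat_lit 34238131988) (nat_lit 228) (nat_lit 59087717010) (nat_lit 76) (nat_lit 11647255371) (nat_lit 15) (nat_lit 5) (nat_lit 18) (nat_lit 5) (nat_lit 16) (nat_lit 4) (nat_lit 346) (nat_lit 290) (nat_lit 144))) (XT.nd (nat_lit 78) (nat_lit 76) (nat_lit 0) (XT.lf (nat_lit 0) (nat_lit 50927086667) (nat_lit 228) (nat_lit 24880325966)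 (nat_lit 76) (nat_lit 33339560557) (nat_lit 15) (nat_lit 5) (nat_lit 18) (nat_lit 5) (nat_lit 16) (nat_lit 4) (nat_lit 347) (nat_lit 290) (nat_lit 143)) (XT.nd (nat_lit 78) (nat_lit 0) (nat_lit 0) (XT.lf (nat_lit 0) (nat_lit 11399517447) (nat_lit 76) (nat_lit 57227360918) (nat_lit 152) (nat_lit 44893838959) (nat_lit 14) (nat_lit 5) (nat_lit 15) (nat_lit 5) (nat_lit 16) (nat_lit 4) (nat_lit 348) (nat_lit 290) (nat_lit 142)) (XT.lf (nat_lit 0) (nat_lit 50354413561) (nat_lit 76) (nat_lit 37277050396) (nat_lit 152) (nat_lit 30460695768) (nat_lit 14) (nat_lit 5) (nat_lit 15) (nat_lit 5) (nat_lit 16) (nat_lit 4) (nat_lit 349) (nat_lit 290) (nat_lit 141))))) (XT.nd (nat_lit 156) (nat_lit 0) (nat_lit 0) (XT.nd (nat_lit 78) (nat_lit 152) (nat_lit 0) (XT.lf (nat_lit 0) (nat_lit 91254456187) (nat_lit 76) (nat_lit 16330340689) (nat_lit 152) (nat_lit 15307452680) (nat_lit 14) (nat_lit 5) (nat_lit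 15) (nat_lit 5) (nat_lit 16) (nat_lit 4) (nat_lit 350) (nat_lit 290) (nat_lit 140)) (XT.lf (nat_lit 0) (nat_lit 773810908) (nat_lit 152) (nat_lit 121555080960) (nat_lit 76) (nat_lit 5593498404) (nat_lit 12) (nat_lit 5) (nat_lit 14) (nat_lit 5) (nat_lit 13) (nat_lit 4) (nat_lit 351) (nat_lit 290) (nat_lit 139))) (XT.nd (nat_lit 78) (nat_lit 0) (nat_lit 0) (XT.lf (nat_lit 0) (nat_lit 17955579521) (nat_lit 152) (nat_lit 86336161044) (nat_lit 76) (nat_lit 28859207782) (nat_lit 12) (nat_lit 5) (nat_lit 14) (nat_lit 5) (nat_lit 13) (nat_lit 4) (nat_lit 352) (nat_lit 290) (nat_lit 138)) (XT.nd (nat_lit 78) (nat_lit 0) (nat_lit 0) (XT.lf (nat_lit 0) (nat_lit 35995081479) (nat_lit 152) (nat_lit 49358711306) (nat_lit 76) (nat_lit 53287210294) (nat_lit 12) (nat_lit 5) (nat_lit 14) (nat_lit 5) (nat_lit 13) (nat_lit 4) (nat_lit 353) (nat_lit 290) (nat_lit 137)) (XT.lf (nat_lit 0) (nat_lit 54935267977)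 (nat_lit 152) (nat_lit 10534690200) (nat_lit 76) (nat_lit 78935667850) (nat_lit 12) (nat_lit 5) (nat_lit 14) (nat_lit 5) (nat_lit 13) (nat_lit 4) (nat_lit 354) (nat_lit 290) (nat_lit 136)))))) (XT.nd (nat_lit 390) (nat_lit 152) (nat_lit 0) (XT.nd (nat_lit 156) (nat_lit 76) (nat_lit 0) (XT.nd (nat_lit 78) (nat_lit 0) (nat_lit 0) (XT.lf (nat_lit 0) (nat_lit 31227825869) (nat_lit 76) (nat_lit 44080962707) (nat_lit 152) (nat_lit 75125376214) (nat_lit 11) (nat_lit 5) (nat_lit 12) (nat_lit 5) (nat_lit 13) (nat_lit 4) (nat_lit 355) (nat_lit 290) (nat_lit 135)) (XT.lf (nat_lit 0) (nat_lit 75442052204) (nat_lit 76) (nat_lit 21436138838) (nat_lit 152) (nat_lit 59877080018) (nat_lit 11) (nat_lit 5) (nat_lit 12) (nat_lit 5) (nat_lit 13) (nat_lit 4) (nat_lit 356) (nat_lit 290) (nat_lit 134))) (XT.nd (nat_lit 78) (nat_lit 76) (nat_lit 0) (XT.lf (nat_lit 0) (nat_lit 119561451004) (nat_lit 152) (nat_lit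 41564088738) (nat_lit 0) (nat_lit 2265124357) (nat_lit 11) (nat_lit 5) (nat_lit 13) (nat_lit 4) (nat_lit 11) (nat_lit 4) (nat_lit 357) (nat_lit 290) (nat_lit 133)) (XT.nd (nat_lit 78) (nat_lit 76) (nat_lit 0) (XT.lf (nat_lit 0) (nat_lit 143729180314) (nat_lit 152) (nat_lit 180911871) (nat_lit 0) (nat_lit 26430220067) (nat_lit 11) (nat_lit 5) (nat_lit 13) (nat_lit 4) (nat_lit 11) (nat_lit 4) (nat_lit 358) (nat_lit 290) (nat_lit 132)) (XT.lf (nat_lit 0) (nat_lit 44700207102) (nat_lit 76) (nat_lit 125101931388) (nat_lit 76) (nat_lit 7800462950) (nat_lit 10) (nat_lit 4) (nat_lit 11) (nat_lit 5) (nat_lit 11) (nat_lit 4) (nat_lit 359) (nat_lit 290) (nat_lit 131))))) (XT.nd (nat_lit 234) (nat_lit 76) (nat_lit 0) (XT.nd (nat_lit 78) (nat_lit 0) (nat_lit 0) (XT.lf (nat_lit 0) (nat_lit 11570305457) (nat_lit 152) (nat_lit 93584731003) (nat_lit 76) (nat_lit 80063536863) (nat_lit 9) (nat_lit 5) (nat_lit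 11) (nat_lit 5) (nat_lit 10) (nat_lit 4) (nat_lit 360) (nat_lit 290) (nat_lit 130)) (XT.nd (nat_lit 78) (nat_lit 0) (nat_lit 0) (XT.lf (nat_lit 0) (nat_lit 31646465780) (nat_lit 152) (nat_lit 52430877344) (nat_lit 76) (nat_lit 109131657487) (nat_lit 9) (nat_lit 5) (nat_lit 11) (nat_lit 5) (nat_lit 10) (nat_lit 4) (nat_lit 361) (nat_lit 290) (nat_lit 129)) (XT.lf (nat_lit 0) (nat_lit 52725481929) (nat_lit 152) (nat_lit 9221060909) (nat_lit 76) (nat_lit 139652454649) (nat_lit 9) (nat_lit 5) (nat_lit 11) (nat_lit 5) (nat_lit 10) (nat_lit 4) (nat_lit 362) (nat_lit 290) (nat_lit 128)))) (XT.nd (nat_lit 78) (nat_lit 0) (nat_lit 0) (XT.lf (nat_lit 0) (nat_lit 37342801682) (nat_lit 76) (nat_lit 38097766142) (nat_lit 152) (nat_lit 134938821018) (nat_lit 8) (nat_lit 5) (nat_lit 9) (nat_lit 5) (nat_lit 10) (nat_lit 4) (nat_lit 363) (nat_lit 290) (nat_lit 127)) (XT.nd (nat_lit 78) (nat_lit 0) (nat_lit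 0) (XT.lf (nat_lit 0) (nat_lit 86553370860) (nat_lit 76) (nat_lit 12893311311) (nat_lit 152) (nat_lit 120144354443) (nat_lit 8) (nat_lit 5) (nat_lit 9) (nat_lit 5) (nat_lit 10) (nat_lit 4) (nat_lit 364) (nat_lit 290) (nat_lit 126)) (XT.lf (nat_lit 0) (nat_lit 124864131772) (nat_lit 152) (nat_lit 91252261086) (nat_lit 0) (nat_lit 13136322970) (nat_lit 8) (nat_lit 5) (nat_lit 10) (nat_lit 4) (nat_lit 8) (nat_lit 4) (nat_lit 365) (nat_lit 290) (nat_lit 125))))))))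
noncomputable def xc191 : XT := (XT.nd (nat_lit 35022) (nat_lit 0) (nat_lit 3572) (XT.nd (nat_lit 780) (nat_lit 76) (nat_lit 0) (XT.nd (nat_lit 390) (nat_lit 152) (nat_lit 0) (XT.nd (nat_lit 156) (nat_lit 76) (nat_lit 0) (XT.nd (nat_lit 78) (nat_lit 0) (nat_lit 0) (XT.lf (nat_lit 0) (nat_lit 151763002922) (nat_lit 152) (nat_lit 47590452653) (nat_lit 0) (nat_lit 40033496477) (nat_lit 8) (nat_lit 5) (nat_lit 10) (nat_lit 4) (nat_lit 8) (nat_lit 4) (nat_lit 366) (nat_lit 290) (nat_lit 124)) (XT.lf (nat_lit 0) (nat_lit 180006039830) (nat_lit 152) (nat_lit 1746983046) (nat_lit 0) (nat_lit 68274916583) (nat_lit 8) (nat_lit 5) (nat_lit 10) (nat_lit 4) (nat_lit 8) (nat_lit 4) (nat_lit 367) (nat_lit 290) (nat_lit 123))) (XT.nd (nat_lit 78) (nat_lit 0) (nat_lit 0) (XT.lf (nat_lit 0) (nat_lit 47921072443) (nat_lit 76) (nat_lit 162487597618) (nat_lit 76) (nat_lit 50754934559) (nat_lit 7) (nat_lit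 4) (nat_lit 8) (nat_lit 5) (nat_lit 8) (nat_lit 4) (nat_lit 368) (nat_lit 290) (nat_lit 122)) (XT.nd (nat_lit 78) (nat_lit 0) (nat_lit 0) (XT.lf (nat_lit 0) (nat_lit 100131842780) (nat_lit 76) (nat_lit 142228448630) (nat_lit 76) (nat_lit 30494319084) (nat_lit 7) (nat_lit 4) (nat_lit 8) (nat_lit 5) (nat_lit 8) (nat_lit 4) (nat_lit 369) (nat_lit 290) (nat_lit 121)) (XT.lf (nat_lit 0) (nat_lit 154951876173) (nat_lit 76) (nat_lit 120956925847) (nat_lit 76) (nat_lit 9221399647) (nat_lit 7) (nat_lit 4) (nat_lit 8) (nat_lit 5) (nat_lit 8) (nat_lit 4) (nat_lit 370) (nat_lit 290) (nat_lit 120))))) (XT.nd (nat_lit 156) (nat_lit 76) (nat_lit 0) (XT.nd (nat_lit 78) (nat_lit 0) (nat_lit 0) (XT.lf (nat_lit 0) (nat_lit 12694728505) (nat_lit 152) (nat_lit 85712662911) (nat_lit 76) (nat_lit 199601976635) (nat_lit 6) (nat_lit 5) (nat_lit 8) (nat_lit 5) (nat_lit 7) (nat_lit 4) (nat_lit 371) (nat_lit 290)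 (nat_lit 119)) (XT.lf (nat_lit 0) (nat_lit 35396125429) (nat_lit 152) (nat_lit 39176066024) (nat_lit 76) (nat_lit 236952775045) (nat_lit 6) (nat_lit 5) (nat_lit 8) (nat_lit 5) (nat_lit 7) (nat_lit 4) (nat_lit 372) (nat_lit 290) (nat_lit 118))) (XT.nd (nat_lit 78) (nat_lit 0) (nat_lit 0) (XT.lf (nat_lit 0) (nat_lit 10006509267) (nat_lit 76) (nat_lit 49381704832) (nat_lit 152) (nat_lit 266320350013) (nat_lit 5) (nat_lit 5) (nat_lit 6) (nat_lit 5) (nat_lit 7) (nat_lit 4) (nat_lit 373) (nat_lit 290) (nat_lit 117)) (XT.nd (nat_lit 78) (nat_lit 0) (nat_lit 0) (XT.lf (nat_lit 0) (nat_lit 63007213748) (nat_lit 76) (nat_lit 22235563040) (nat_lit 152) (nat_lit 255325421666) (nat_lit 5) (nat_lit 5) (nat_lit 6) (nat_lit 5) (nat_lit 7) (nat_lit 4) (nat_lit 374) (nat_lit 290) (nat_lit 116)) (XT.lf (nat_lit 0) (nat_lit 112487351653) (nat_lit 152) (nat_lit 237611793011) (nat_lit 0) (nat_lit 6066805954)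 (nat_lit 5) (nat_lit 5) (nat_lit 7) (nat_lit 4) (nat_lit 5) (nat_lit 4) (nat_lit 375) (nat_lit 290) (nat_lit 115)))))) (XT.nd (nat_lit 390) (nat_lit 76) (nat_lit 0) (XT.nd (nat_lit 156) (nat_lit 0) (nat_lit 0) (XT.nd (nat_lit 78) (nat_lit 0) (nat_lit 0) (XT.lf (nat_lit 0) (nat_lit 141458124859) (nat_lit 152) (nat_lit 196030680766) (nat_lit 0) (nat_lit 35036586584) (nat_lit 5) (nat_lit 5) (nat_lit 7) (nat_lit 4) (nat_lit 5) (nat_lit 4) (nat_lit 376) (nat_lit 290) (nat_lit 114)) (XT.lf (nat_lit 0) (nat_lit 171876914982) (nat_lit 152) (nat_lit 152371485867) (nat_lit 0) (nat_lit 65454431396) (nat_lit 5) (nat_lit 5) (nat_lit 7) (nat_lit 4) (nat_lit 5) (nat_lit 4) (nat_lit 377) (nat_lit 290) (nat_lit 113))) (XT.nd (nat_lit 78) (nat_lit 0) (nat_lit 0) (XT.lf (nat_lit 0) (nat_lit 203816147713) (nat_lit 152) (nat_lit 106530257852) (nat_lit 0) (nat_lit 97392763831) (nat_lit 5) (nat_lit 5) (nat_lit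 7) (nat_lit 4) (nat_lit 5) (nat_lit 4) (nat_lit 378) (nat_lit 290) (nat_lit 112)) (XT.nd (nat_lit 78) (nat_lit 0) (nat_lit 0) (XT.lf (nat_lit 0) (nat_lit 237351868844) (nat_lit 152) (nat_lit 58397850939) (nat_lit 0) (nat_lit 130927627537) (nat_lit 5) (nat_lit 5) (nat_lit 7) (nat_lit 4) (nat_lit 5) (nat_lit 4) (nat_lit 379) (nat_lit 290) (nat_lit 111)) (XT.lf (nat_lit 0) (nat_lit 272563925331) (nat_lit 152) (nat_lit 7859664159) (nat_lit 0) (nat_lit 166138867429) (nat_lit 5) (nat_lit 5) (nat_lit 7) (nat_lit 4) (nat_lit 5) (nat_lit 4) (nat_lit 380) (nat_lit 290) (nat_lit 110))))) (XT.nd (nat_lit 33618) (nat_lit 0) (nat_lit 6080) (XT.nd (nat_lit 78) (nat_lit 0) (nat_lit 0) (XT.lf (nat_lit 0) (nat_lit 46699300770) (nat_lit 76) (nat_lit 263565961592) (nat_lit 76) (nat_lit 157140125981) (nat_lit 4) (nat_lit 4) (nat_lit 5) (nat_lit 5) (nat_lit 5) (nat_lit 4) (nat_lit 381) (nat_lit 290) (nat_lit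 109)) (XT.lf (nat_lit 0) (nat_lit 104258296194) (nat_lit 76) (nat_lit 245726056172) (nat_lit 76) (nat_lit 139299479885) (nat_lit 4) (nat_lit 4) (nat_lit 5) (nat_lit 5) (nat_lit 5) (nat_lit 4) (nat_lit 382) (nat_lit 290) (nat_lit 108))) (XT.nd (nat_lit 78) (nat_lit 0) (nat_lit 0) (XT.lf (nat_lit 0) (nat_lit 2841423008) (nat_lit 0) (nat_lit 2841423008) (nat_lit 684) (nat_lit 3666063543) (nat_lit 84) (nat_lit 5) (nat_lit 84) (nat_lit 3) (nat_lit 93) (nat_lit 3) (nat_lit 291) (nat_lit 291) (nat_lit 198)) (XT.nd (nat_lit 78) (nat_lit 0) (nat_lit 0) (XT.lf (nat_lit 0) (nat_lit 11868019795) (nat_lit 684) (nat_lit 4702420024) (nat_lit 760) (nat_lit 2583505472) (nat_lit 84) (nat_lit 5) (nat_lit 93) (nat_lit 3) (nat_lit 94) (nat_lit 5) (nat_lit 292) (nat_lit 291) (nat_lit 197)) (XT.lf (nat_lit 76) (nat_lit 4056090494) (nat_lit 0) (nat_lit 8484650776) (nat_lit 760) (nat_lit 7084898881) (nat_lit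 85) (nat_lit 5) (nat_lit 84) (nat_lit 5) (nat_lit 94) (nat_lit 5) (nat_lit 293) (nat_lit 291) (nat_lit 196))))))) (XT.nd (nat_lit 780) (nat_lit 2052) (nat_lit 0) (XT.nd (nat_lit 390) (nat_lit 532) (nat_lit 0) (XT.nd (nat_lit 156) (nat_lit 0) (nat_lit 0) (XT.nd (nat_lit 78) (nat_lit 0) (nat_lit 0) (XT.lf (nat_lit 0) (nat_lit 13317423470) (nat_lit 684) (nat_lit 6709405866) (nat_lit 760) (nat_lit 90599184) (nat_lit 85) (nat_lit 5) (nat_lit 94) (nat_lit 5) (nat_lit 95) (nat_lit 5) (nat_lit 294) (nat_lit 291) (nat_lit 195)) (XT.lf (nat_lit 76) (nat_lit 2529063383) (nat_lit 0) (nat_lit 11772261097) (nat_lit 760) (nat_lit 6324086399) (nat_lit 86) (nat_lit 5) (nat_lit 85) (nat_lit 5) (nat_lit 95) (nat_lit 5) (nat_lit 295) (nat_lit 291) (nat_lit 194))) (XT.nd (nat_lit 78) (nat_lit 0) (nat_lit 76) (XT.lf (nat_lit 76) (nat_lit 12455962002) (nat_lit 0) (nat_lit 2982276905) (nat_lit 760) (nat_lit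 5715385205) (nat_lit 86) (nat_lit 5) (nat_lit 85) (nat_lit 5) (nat_lit 95) (nat_lit 5) (nat_lit 296) (nat_lit 291) (nat_lit 193)) (XT.nd (nat_lit 78) (nat_lit 0) (nat_lit 0) (XT.lf (nat_lit 76) (nat_lit 1102030741) (nat_lit 0) (nat_lit 15635419157) (nat_lit 760) (nat_lit 4965547160) (nat_lit 87) (nat_lit 5) (nat_lit 86) (nat_lit 5) (nat_lit 96) (nat_lit 5) (nat_lit 297) (nat_lit 291) (nat_lit 192)) (XT.lf (nat_lit 76) (nat_lit 11636610310) (nat_lit 0) (nat_lit 6651460246) (nat_lit 760) (nat_lit 3982466203) (nat_lit 87) (nat_lit 5) (nat_lit 86) (nat_lit 5) (nat_lit 96) (nat_lit 5) (nat_lit 298) (nat_lit 291) (nat_lit 191))))) (XT.nd (nat_lit 156) (nat_lit 684) (nat_lit 0) (XT.nd (nat_lit 78) (nat_lit 0) (nat_lit 0) (XT.lf (nat_lit 0) (nat_lit 19951162971) (nat_lit 684) (nat_lit 218688816) (nat_lit 760) (nat_lit 2694874210) (nat_lit 87) (nat_lit 5) (nat_lit 96) (nat_lit 5) (nat_lit 97)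 (nat_lit 5) (nat_lit 299) (nat_lit 291) (nat_lit 190)) (XT.lf (nat_lit 76) (nat_lit 10952412001) (nat_lit 0) (nat_lit 11016951082) (nat_lit 760) (nat_lit 1505682613) (nat_lit 88) (nat_lit 5) (nat_lit 87) (nat_lit 5) (nat_lit 97) (nat_lit 5) (nat_lit 300) (nat_lit 291) (nat_lit 189))) (XT.nd (nat_lit 78) (nat_lit 684) (nat_lit 0) (XT.lf (nat_lit 76) (nat_lit 22683359582) (nat_lit 0) (nat_lit 1401018752) (nat_lit 760) (nat_lit 31725554) (nat_lit 88) (nat_lit 5) (nat_lit 87) (nat_lit 5) (nat_lit 97) (nat_lit 5) (nat_lit 301) (nat_lit 291) (nat_lit 188)) (XT.nd (nat_lit 78) (nat_lit 0) (nat_lit 0) (XT.lf (nat_lit 0) (nat_lit 1762930772) (nat_lit 760) (nat_lit 14400721839) (nat_lit 76) (nat_lit 8609619065) (nat_lit 78) (nat_lit 5) (nat_lit 88) (nat_lit 5) (nat_lit 79) (nat_lit 5) (nat_lit 302) (nat_lit 291) (nat_lit 187)) (XT.lf (nat_lit 0) (nat_lit 3686599709) (nat_lit 760) (nat_lit 2674683634)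 (nat_lit 76) (nat_lit 19099986556) (nat_lit 78) (nat_lit 5) (nat_lit 88) (nat_lit 5) (nat_lit 79) (nat_lit 5) (nat_lit 303) (nat_lit 291) (nat_lit 186)))))) (XT.nd (nat_lit 390) (nat_lit 912) (nat_lit 0) (XT.nd (nat_lit 156) (nat_lit 684) (nat_lit 0) (XT.nd (nat_lit 78) (nat_lit 0) (nat_lit 0) (XT.lf (nat_lit 0) (nat_lit 5918795098) (nat_lit 532) (nat_lit 16290333822) (nat_lit 76) (nat_lit 3963936575) (nat_lit 72) (nat_lit 5) (nat_lit 79) (nat_lit 5) (nat_lit 73) (nat_lit 5) (nat_lit 304) (nat_lit 291) (nat_lit 185)) (XT.lf (nat_lit 0) (nat_lit 8406229437) (nat_lit 532) (nat_lit 3868843404) (nat_lit 76) (nat_lit 14638210493) (nat_lit 72) (nat_lit 5) (nat_lit 79) (nat_lit 5) (nat_lit 73) (nat_lit 5) (nat_lit 305) (nat_lit 291) (nat_lit 184))) (XT.nd (nat_lit 78) (nat_lit 304) (nat_lit 0) (XT.lf (nat_lit 0) (nat_lit 9470642969) (nat_lit 380) (nat_lit 1688880762) (nat_lit 456) (nat_lit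 16523927178) (nat_lit 67) (nat_lit 5) (nat_lit 72) (nat_lit 5) (nat_lit 73) (nat_lit 5) (nat_lit 306) (nat_lit 291) (nat_lit 183)) (XT.nd (nat_lit 78) (nat_lit 304) (nat_lit 0) (XT.lf (nat_lit 0) (nat_lit 14258087947) (nat_lit 456) (nat_lit 5032100078) (nat_lit 76) (nat_lit 9191571202) (nat_lit 67) (nat_lit 5) (nat_lit 73) (nat_lit 5) (nat_lit 68) (nat_lit 5) (nat_lit 307) (nat_lit 291) (nat_lit 182)) (XT.lf (nat_lit 0) (nat_lit 9063944837) (nat_lit 304) (nat_lit 8610963676) (nat_lit 380) (nat_lit 11636920064) (nat_lit 63) (nat_lit 5) (nat_lit 67) (nat_lit 5) (nat_lit 68) (nat_lit 5) (nat_lit 308) (nat_lit 291) (nat_lit 181))))) (XT.nd (nat_lit 234) (nat_lit 608) (nat_lit 0) (XT.nd (nat_lit 78) (nat_lit 304) (nat_lit 0) (XT.lf (nat_lit 0) (nat_lit 21384124739) (nat_lit 380) (nat_lit 6187976843) (nat_lit 76) (nat_lit 2605233535) (nat_lit 63) (nat_lit 5) (nat_lit 68) (nat_lit 5) (nat_lit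 64) (nat_lit 5) (nat_lit 309) (nat_lit 291) (nat_lit 180)) (XT.nd (nat_lit 78) (nat_lit 0) (nat_lit 0) (XT.lf (nat_lit 0) (nat_lit 8706415433) (nat_lit 304) (nat_lit 16844060783) (nat_lit 380) (nat_lit 5522067950) (nat_lit 59) (nat_lit 5) (nat_lit 63) (nat_lit 5) (nat_lit 64) (nat_lit 5) (nat_lit 310) (nat_lit 291) (nat_lit 179)) (XT.lf (nat_lit 0) (nat_lit 24554450491) (nat_lit 304) (nat_lit 5470236572) (nat_lit 380) (nat_lit 1982859903) (nat_lit 59) (nat_lit 5) (nat_lit 63) (nat_lit 5) (nat_lit 64) (nat_lit 5) (nat_lit 311) (nat_lit 291) (nat_lit 178)))) (XT.nd (nat_lit 78) (nat_lit 304) (nat_lit 0) (XT.lf (nat_lit 0) (nat_lit 1908197837) (nat_lit 304) (nat_lit 24642317372) (nat_lit 76) (nat_lit 6425922729) (nat_lit 55) (nat_lit 5) (nat_lit 59) (nat_lit 5) (nat_lit 56) (nat_lit 5) (nat_lit 312) (nat_lit 291) (nat_lit 177)) (XT.nd (nat_lit 78) (nat_lit 304) (nat_lit 0) (XT.lf (nat_lit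 0) (nat_lit 6140183864) (nat_lit 304) (nat_lit 8948216714) (nat_lit 76) (nat_lit 18893105933) (nat_lit 55) (nat_lit 5) (nat_lit 59) (nat_lit 5) (nat_lit 56) (nat_lit 5) (nat_lit 313) (nat_lit 291) (nat_lit 176)) (XT.lf (nat_lit 0) (nat_lit 7773723959) (nat_lit 304) (nat_lit 2926696257) (nat_lit 380) (nat_lit 24330584290) (nat_lit 51) (nat_lit 5) (nat_lit 55) (nat_lit 5) (nat_lit 56) (nat_lit 5) (nat_lit 314) (nat_lit 291) (nat_lit 175))))))))
noncomputable def xc192 : XT := (XT.nd (nat_lit 1560) (nat_lit 988) (nat_lit 0) (XT.nd (nat_lit 780) (nat_lit 988) (nat_lit 0) (XT.nd (nat_lit 390) (nat_lit 532) (nat_lit 0) (XT.nd (nat_lit 156) (nat_lit 228) (nat_lit 0) (XT.nd (nat_lit 78) (nat_lit 228) (nat_lit 0) (XT.lf (nat_lit 0) (nat_lit 15791776688) (nat_lit 380) (nat_lit 10644942122) (nat_lit 76) (nat_lit 9681111315) (nat_lit 51) (nat_lit 5) (nat_lit 56) (nat_lit 5) (nat_lit 52) (nat_lit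 5) (nat_lit 315) (nat_lit 291) (nat_lit 174)) (XT.lf (nat_lit 0) (nat_lit 6967512008) (nat_lit 228) (nat_lit 14322572228) (nat_lit 304) (nat_lit 15961301378) (nat_lit 48) (nat_lit 5) (nat_lit 51) (nat_lit 5) (nat_lit 52) (nat_lit 5) (nat_lit 316) (nat_lit 291) (nat_lit 173))) (XT.nd (nat_lit 78) (nat_lit 228) (nat_lit 0) (XT.lf (nat_lit 0) (nat_lit 25824719850) (nat_lit 228) (nat_lit 1414610366) (nat_lit 304) (nat_lit 11193494889) (nat_lit 48) (nat_lit 5) (nat_lit 51) (nat_lit 5) (nat_lit 52) (nat_lit 5) (nat_lit 317) (nat_lit 291) (nat_lit 172)) (XT.nd (nat_lit 78) (nat_lit 0) (nat_lit 0) (XT.lf (nat_lit 0) (nat_lit 5946899075) (nat_lit 228) (nat_lit 27817437878) (nat_lit 304) (nat_lit 5895091725) (nat_lit 45) (nat_lit 5) (nat_lit 48) (nat_lit 5) (nat_lit 49) (nat_lit 5) (nat_lit 318) (nat_lit 291) (nat_lit 171)) (XT.lf (nat_lit 0) (nat_lit 25838137631) (nat_lit 228) (nat_lit 15009839129)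 (nat_lit 304) (nat_lit 87773230) (nat_lit 45) (nat_lit 5) (nat_lit 48) (nat_lit 5) (nat_lit 49) (nat_lit 5) (nat_lit 319) (nat_lit 291) (nat_lit 170))))) (XT.nd (nat_lit 156) (nat_lit 228) (nat_lit 0) (XT.nd (nat_lit 78) (nat_lit 0) (nat_lit 0) (XT.lf (nat_lit 0) (nat_lit 4492853387) (nat_lit 228) (nat_lit 1391011724) (nat_lit 304) (nat_lit 36384021320) (nat_lit 41) (nat_lit 5) (nat_lit 44) (nat_lit 5) (nat_lit 45) (nat_lit 5) (nat_lit 320) (nat_lit 291) (nat_lit 169)) (XT.lf (nat_lit 0) (nat_lit 12608799350) (nat_lit 304) (nat_lit 18279273642) (nat_lit 76) (nat_lit 12755607354) (nat_lit 41) (nat_lit 5) (nat_lit 45) (nat_lit 5) (nat_lit 42) (nat_lit 5) (nat_lit 321) (nat_lit 291) (nat_lit 168))) (XT.nd (nat_lit 78) (nat_lit 0) (nat_lit 0) (XT.lf (nat_lit 0) (nat_lit 2235001106) (nat_lit 228) (nat_lit 17489101036) (nat_lit 304) (nat_lit 25361461230) (nat_lit 38) (nat_lit 5) (nat_lit 41)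 (nat_lit 5) (nat_lit 42) (nat_lit 5) (nat_lit 322) (nat_lit 291) (nat_lit 167)) (XT.nd (nat_lit 78) (nat_lit 0) (nat_lit 0) (XT.lf (nat_lit 0) (nat_lit 24404682248) (nat_lit 228) (nat_lit 3096573357) (nat_lit 304) (nat_lit 19082985915) (nat_lit 38) (nat_lit 5) (nat_lit 41) (nat_lit 5) (nat_lit 42) (nat_lit 5) (nat_lit 323) (nat_lit 291) (nat_lit 166)) (XT.lf (nat_lit 0) (nat_lit 35851525257) (nat_lit 304) (nat_lit 667440504) (nat_lit 76) (nat_lit 11629679886) (nat_lit 38) (nat_lit 5) (nat_lit 42) (nat_lit 5) (nat_lit 39) (nat_lit 5) (nat_lit 324) (nat_lit 291) (nat_lit 165)))))) (XT.nd (nat_lit 390) (nat_lit 380) (nat_lit 0) (XT.nd (nat_lit 156) (nat_lit 380) (nat_lit 0) (XT.nd (nat_lit 78) (nat_lit 76) (nat_lit 0) (XT.lf (nat_lit 0) (nat_lit 22587866364) (nat_lit 152) (nat_lit 22431686019) (nat_lit 228) (nat_lit 4751710155) (nat_lit 36) (nat_lit 5) (nat_lit 38) (nat_lit 5) (nat_lit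 39) (nat_lit 5) (nat_lit 325) (nat_lit 291) (nat_lit 164)) (XT.lf (nat_lit 0) (nat_lit 3077814501) (nat_lit 228) (nat_lit 4499668960) (nat_lit 76) (nat_lit 43894639003) (nat_lit 35) (nat_lit 5) (nat_lit 38) (nat_lit 5) (nat_lit 36) (nat_lit 5) (nat_lit 326) (nat_lit 291) (nat_lit 163))) (XT.nd (nat_lit 78) (nat_lit 152) (nat_lit 0) (XT.lf (nat_lit 0) (nat_lit 11577926716) (nat_lit 304) (nat_lit 33498364866) (nat_lit 76) (nat_lit 8155903073) (nat_lit 32) (nat_lit 5) (nat_lit 36) (nat_lit 5) (nat_lit 33) (nat_lit 5) (nat_lit 327) (nat_lit 291) (nat_lit 162)) (XT.nd (nat_lit 78) (nat_lit 152) (nat_lit 0) (XT.lf (nat_lit 0) (nat_lit 20701768087) (nat_lit 304) (nat_lit 9871185990) (nat_lit 76) (nat_lit 24497384115) (nat_lit 32) (nat_lit 5) (nat_lit 36) (nat_lit 5) (nat_lit 33) (nat_lit 5) (nat_lit 328) (nat_lit 291) (nat_lit 161)) (XT.lf (nat_lit 0) (nat_lit 15426843081) (nat_lit 152) (nat_lit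 15093004403) (nat_lit 228) (nat_lit 26468642854) (nat_lit 30) (nat_lit 5) (nat_lit 32) (nat_lit 5) (nat_lit 33) (nat_lit 5) (nat_lit 329) (nat_lit 291) (nat_lit 160))))) (XT.nd (nat_lit 156) (nat_lit 228) (nat_lit 0) (XT.nd (nat_lit 78) (nat_lit 152) (nat_lit 0) (XT.lf (nat_lit 0) (nat_lit 41014105613) (nat_lit 228) (nat_lit 16686891902) (nat_lit 76) (nat_lit 1292292388) (nat_lit 30) (nat_lit 5) (nat_lit 33) (nat_lit 5) (nat_lit 31) (nat_lit 5) (nat_lit 330) (nat_lit 291) (nat_lit 159)) (XT.lf (nat_lit 0) (nat_lit 9483601534) (nat_lit 152) (nat_lit 42942334000) (nat_lit 228) (nat_lit 8652754351) (nat_lit 28) (nat_lit 5) (nat_lit 30) (nat_lit 5) (nat_lit 31) (nat_lit 5) (nat_lit 331) (nat_lit 291) (nat_lit 158))) (XT.nd (nat_lit 78) (nat_lit 152) (nat_lit 0) (XT.lf (nat_lit 0) (nat_lit 1388127450) (nat_lit 228) (nat_lit 25738841500) (nat_lit 76) (nat_lit 36126273185) (nat_lit 27) (nat_lit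 5) (nat_lit 30) (nat_lit 5) (nat_lit 28) (nat_lit 5) (nat_lit 332) (nat_lit 291) (nat_lit 157)) (XT.nd (nat_lit 78) (nat_lit 0) (nat_lit 0) (XT.lf (nat_lit 0) (nat_lit 1306242740) (nat_lit 152) (nat_lit 10351924004) (nat_lit 228) (nat_lit 53870370620) (nat_lit 25) (nat_lit 5) (nat_lit 27) (nat_lit 5) (nat_lit 28) (nat_lit 5) (nat_lit 333) (nat_lit 291) (nat_lit 156)) (XT.lf (nat_lit 0) (nat_lit 22995676159) (nat_lit 228) (nat_lit 37423123790) (nat_lit 76) (nat_lit 7471101779) (nat_lit 25) (nat_lit 5) (nat_lit 28) (nat_lit 5) (nat_lit 26) (nat_lit 5) (nat_lit 334) (nat_lit 291) (nat_lit 155))))))) (XT.nd (nat_lit 780) (nat_lit 456) (nat_lit 0) (XT.nd (nat_lit 390) (nat_lit 228) (nat_lit 0) (XT.nd (nat_lit 156) (nat_lit 152) (nat_lit 0) (XT.nd (nat_lit 78) (nat_lit 152) (nat_lit 0) (XT.lf (nat_lit 0) (nat_lit 35067425985) (nat_lit 228) (nat_lit 9457481879) (nat_lit 76) (nat_lit 25836060849)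 (nat_lit 25) (nat_lit 5) (nat_lit 28) (nat_lit 5) (nat_lit 26) (nat_lit 5) (nat_lit 335) (nat_lit 291) (nat_lit 154)) (XT.lf (nat_lit 0) (nat_lit 20560916239) (nat_lit 152) (nat_lit 27500633223) (nat_lit 228) (nat_lit 24878102799) (nat_lit 23) (nat_lit 5) (nat_lit 25) (nat_lit 5) (nat_lit 26) (nat_lit 5) (nat_lit 336) (nat_lit 291) (nat_lit 153))) (XT.nd (nat_lit 78) (nat_lit 152) (nat_lit 0) (XT.lf (nat_lit 0) (nat_lit 52405031190) (nat_lit 152) (nat_lit 9458338303) (nat_lit 228) (nat_lit 13776003380) (nat_lit 23) (nat_lit 5) (nat_lit 25) (nat_lit 5) (nat_lit 26) (nat_lit 5) (nat_lit 337) (nat_lit 291) (nat_lit 152)) (XT.nd (nat_lit 78) (nat_lit 76) (nat_lit 0) (XT.lf (nat_lit 0) (nat_lit 7454289797) (nat_lit 76) (nat_lit 69163383884) (nat_lit 152) (nat_lit 1843288464) (nat_lit 22) (nat_lit 5) (nat_lit 23) (nat_lit 5) (nat_lit 24) (nat_lit 4) (nat_lit 338) (nat_lit 291) (nat_lit 151))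 (XT.lf (nat_lit 0) (nat_lit 10896949064) (nat_lit 152) (nat_lit 41251781919) (nat_lit 76) (nat_lit 29238914627) (nat_lit 21) (nat_lit 5) (nat_lit 23) (nat_lit 5) (nat_lit 22) (nat_lit 5) (nat_lit 339) (nat_lit 291) (nat_lit 150))))) (XT.nd (nat_lit 156) (nat_lit 76) (nat_lit 0) (XT.nd (nat_lit 78) (nat_lit 152) (nat_lit 0) (XT.lf (nat_lit 0) (nat_lit 24210268536) (nat_lit 152) (nat_lit 10042676558) (nat_lit 76) (nat_lit 50206308406) (nat_lit 21) (nat_lit 5) (nat_lit 23) (nat_lit 5) (nat_lit 22) (nat_lit 5) (nat_lit 340) (nat_lit 291) (nat_lit 149)) (XT.lf (nat_lit 0) (nat_lit 23475079165) (nat_lit 152) (nat_lit 15078797681) (nat_lit 228) (nat_lit 49112335677) (nat_lit 19) (nat_lit 5) (nat_lit 21) (nat_lit 5) (nat_lit 22) (nat_lit 5) (nat_lit 341) (nat_lit 291) (nat_lit 148))) (XT.nd (nat_lit 78) (nat_lit 76) (nat_lit 0) (XT.lf (nat_lit 0) (nat_lit 53864572297) (nat_lit 228) (nat_lit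 32092507775) (nat_lit 76) (nat_lit 5063945884) (nat_lit 19) (nat_lit 5) (nat_lit 22) (nat_lit 5) (nat_lit 20) (nat_lit 4) (nat_lit 342) (nat_lit 291) (nat_lit 147)) (XT.nd (nat_lit 78) (nat_lit 0) (nat_lit 0) (XT.lf (nat_lit 0) (nat_lit 1405824436) (nat_lit 76) (nat_lit 68802342238) (nat_lit 152) (nat_lit 24322046888) (nat_lit 18) (nat_lit 5) (nat_lit 19) (nat_lit 5) (nat_lit 20) (nat_lit 4) (nat_lit 343) (nat_lit 291) (nat_lit 146)) (XT.lf (nat_lit 0) (nat_lit 37690275064) (nat_lit 76) (nat_lit 50220427925) (nat_lit 152) (nat_lit 10277071072) (nat_lit 18) (nat_lit 5) (nat_lit 19) (nat_lit 5) (nat_lit 20) (nat_lit 4) (nat_lit 344) (nat_lit 291) (nat_lit 145)))))) (XT.nd (nat_lit 390) (nat_lit 152) (nat_lit 0) (XT.nd (nat_lit 156) (nat_lit 76) (nat_lit 0) (XT.nd (nat_lit 78) (nat_lit 152) (nat_lit 0) (XT.lf (nat_lit 0) (nat_lit 4325394965) (nat_lit 152) (nat_lit 26311949008) (nat_lit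 76) (nat_lit 71387464794) (nat_lit 17) (nat_lit 5) (nat_lit 19) (nat_lit 5) (nat_lit 18) (nat_lit 5) (nat_lit 345) (nat_lit 291) (nat_lit 144)) (XT.lf (nat_lit 0) (nat_lit 9722838191) (nat_lit 152) (nat_lit 9739964423) (nat_lit 228) (nat_lit 86574960407) (nat_lit 15) (nat_lit 5) (nat_lit 17) (nat_lit 5) (nat_lit 18) (nat_lit 5) (nat_lit 346) (nat_lit 291) (nat_lit 143))) (XT.nd (nat_lit 78) (nat_lit 76) (nat_lit 0) (XT.lf (nat_lit 0) (nat_lit 35998913967) (nat_lit 228) (nat_lit 61956818295) (nat_lit 76) (nat_lit 12263542397) (nat_lit 15) (nat_lit 5) (nat_lit 18) (nat_lit 5) (nat_lit 16) (nat_lit 4) (nat_lit 347) (nat_lit 291) (nat_lit 142)) (XT.nd (nat_lit 78) (nat_lit 76) (nat_lit 0) (XT.lf (nat_lit 0) (nat_lit 53519988981) (nat_lit 228) (nat_lit 26043118869) (nat_lit 76) (nat_lit 35038847401) (nat_lit 15) (nat_lit 5) (nat_lit 18) (nat_lit 5) (nat_lit 16) (nat_lit 4) (nat_lit 348) (nat_lit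 291) (nat_lit 141)) (XT.lf (nat_lit 0) (nat_lit 12049406660) (nat_lit 76) (nat_lit 60054394704) (nat_lit 152) (nat_lit 47090635539) (nat_lit 14) (nat_lit 5) (nat_lit 15) (nat_lit 5) (nat_lit 16) (nat_lit 4) (nat_lit 349) (nat_lit 291) (nat_lit 140))))) (XT.nd (nat_lit 156) (nat_lit 152) (nat_lit 0) (XT.nd (nat_lit 78) (nat_lit 0) (nat_lit 0) (XT.lf (nat_lit 0) (nat_lit 52948242182) (nat_lit 76) (nat_lit 39108203622) (nat_lit 152) (nat_lit 31938115920) (nat_lit 14) (nat_lit 5) (nat_lit 15) (nat_lit 5) (nat_lit 16) (nat_lit 4) (nat_lit 350) (nat_lit 291) (nat_lit 139)) (XT.lf (nat_lit 0) (nat_lit 95889662752) (nat_lit 76) (nat_lit 17115715538) (nat_lit 152) (nat_lit 16029382804) (nat_lit 14) (nat_lit 5) (nat_lit 15) (nat_lit 5) (nat_lit 16) (nat_lit 4) (nat_lit 351) (nat_lit 291) (nat_lit 138))) (XT.nd (nat_lit 78) (nat_lit 0) (nat_lit 0) (XT.lf (nat_lit 0) (nat_lit 854178592) (nat_lit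 152) (nat_lit 127558522918) (nat_lit 76) (nat_lit 5903693705) (nat_lit 12) (nat_lit 5) (nat_lit 14) (nat_lit 5) (nat_lit 13) (nat_lit 4) (nat_lit 352) (nat_lit 291) (nat_lit 137)) (XT.nd (nat_lit 78) (nat_lit 0) (nat_lit 0) (XT.lf (nat_lit 0) (nat_lit 18893051010) (nat_lit 152) (nat_lit 90582195676) (nat_lit 76) (nat_lit 30331235201) (nat_lit 12) (nat_lit 5) (nat_lit 14) (nat_lit 5) (nat_lit 13) (nat_lit 4) (nat_lit 353) (nat_lit 291) (nat_lit 136)) (XT.lf (nat_lit 0) (nat_lit 37832637946) (nat_lit 152) (nat_lit 51759243615) (nat_lit 76) (nat_lit 55979253695) (nat_lit 12) (nat_lit 5) (nat_lit 14) (nat_lit 5) (nat_lit 13) (nat_lit 4) (nat_lit 354) (nat_lit 291) (nat_lit 135))))))))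
noncomputable def xc193 : XT := (XT.nd (nat_lit 1560) (nat_lit 76) (nat_lit 0) (XT.nd (nat_lit 780) (nat_lit 228) (nat_lit 0) (XT.nd (nat_lit 390) (nat_lit 228) (nat_lit 0) (XT.nd (nat_lit 156) (nat_lit 0) (nat_lit 0) (XT.nd (nat_lit 78) (nat_lit 76) (nat_lit 0) (XT.lf (nat_lit 0) (nat_lit 57718033656) (nat_lit 152) (nat_lit 10997231132) (nat_lit 76) (nat_lit 82908815895) (nat_lit 12) (nat_lit 5) (nat_lit 14) (nat_lit 5) (nat_lit 13) (nat_lit 4) (nat_lit 355) (nat_lit 291) (nat_lit 134)) (XT.lf (nat_lit 0) (nat_lit 32852375360) (nat_lit 76) (nat_lit 46257126606) (nat_lit 152) (nat_lit 78844582096) (nat_lit 11) (nat_lit 5) (nat_lit 12) (nat_lit 5) (nat_lit 13) (nat_lit 4) (nat_lit 356) (nat_lit 291) (nat_lit 133))) (XT.nd (nat_lit 78) (nat_lit 0) (nat_lit 0) (XT.lf (nat_lit 0) (nat_lit 79274305479) (nat_lit 76) (nat_lit 22481389365) (nat_lit 152) (nat_lit 62835635992) (nat_lit 11) (nat_lit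 5) (nat_lit 12) (nat_lit 5) (nat_lit 13) (nat_lit 4) (nat_lit 357) (nat_lit 291) (nat_lit 132)) (XT.nd (nat_lit 78) (nat_lit 0) (nat_lit 0) (XT.lf (nat_lit 0) (nat_lit 125571912953) (nat_lit 152) (nat_lit 43583779058) (nat_lit 0) (nat_lit 2402862903) (nat_lit 11) (nat_lit 5) (nat_lit 13) (nat_lit 4) (nat_lit 11) (nat_lit 4) (nat_lit 358) (nat_lit 291) (nat_lit 131)) (XT.lf (nat_lit 0) (nat_lit 150946486377) (nat_lit 152) (nat_lit 134229735) (nat_lit 0) (nat_lit 27775047573) (nat_lit 11) (nat_lit 5) (nat_lit 13) (nat_lit 4) (nat_lit 11) (nat_lit 4) (nat_lit 359) (nat_lit 291) (nat_lit 130))))) (XT.nd (nat_lit 156) (nat_lit 76) (nat_lit 0) (XT.nd (nat_lit 78) (nat_lit 76) (nat_lit 0) (XT.lf (nat_lit 0) (nat_lit 46990046352) (nat_lit 76) (nat_lit 131332433235) (nat_lit 76) (nat_lit 8158719428) (nat_lit 10) (nat_lit 4) (nat_lit 11) (nat_lit 5) (nat_lit 11) (nat_lit 4) (nat_lit 360) (nat_lit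 291) (nat_lit 129)) (XT.lf (nat_lit 0) (nat_lit 12178106385) (nat_lit 152) (nat_lit 98210762386) (nat_lit 76) (nat_lit 84089150080) (nat_lit 9) (nat_lit 5) (nat_lit 11) (nat_lit 5) (nat_lit 10) (nat_lit 4) (nat_lit 361) (nat_lit 291) (nat_lit 128))) (XT.nd (nat_lit 78) (nat_lit 76) (nat_lit 0) (XT.lf (nat_lit 0) (nat_lit 33256680169) (nat_lit 152) (nat_lit 55001749624) (nat_lit 76) (nat_lit 114609608336) (nat_lit 9) (nat_lit 5) (nat_lit 11) (nat_lit 5) (nat_lit 10) (nat_lit 4) (nat_lit 362) (nat_lit 291) (nat_lit 127)) (XT.nd (nat_lit 78) (nat_lit 76) (nat_lit 0) (XT.lf (nat_lit 0) (nat_lit 55388318978) (nat_lit 152) (nat_lit 9633855299) (nat_lit 76) (nat_lit 146655427834) (nat_lit 9) (nat_lit 5) (nat_lit 11) (nat_lit 5) (nat_lit 10) (nat_lit 4) (nat_lit 363) (nat_lit 291) (nat_lit 126)) (XT.lf (nat_lit 0) (nat_lit 39257422056) (nat_lit 76) (nat_lit 39981213510) (nat_lit 152) (nat_lit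 141658404463) (nat_lit 8) (nat_lit 5) (nat_lit 9) (nat_lit 5) (nat_lit 10) (nat_lit 4) (nat_lit 364) (nat_lit 291) (nat_lit 125)))))) (XT.nd (nat_lit 390) (nat_lit 152) (nat_lit 0) (XT.nd (nat_lit 156) (nat_lit 76) (nat_lit 0) (XT.nd (nat_lit 78) (nat_lit 0) (nat_lit 0) (XT.lf (nat_lit 0) (nat_lit 90926258726) (nat_lit 76) (nat_lit 13517556935) (nat_lit 152) (nat_lit 126125517303) (nat_lit 8) (nat_lit 5) (nat_lit 9) (nat_lit 5) (nat_lit 10) (nat_lit 4) (nat_lit 365) (nat_lit 291) (nat_lit 124)) (XT.lf (nat_lit 0) (nat_lit 131131260450) (nat_lit 152) (nat_lit 95770916052) (nat_lit 0) (nat_lit 13811964238) (nat_lit 8) (nat_lit 5) (nat_lit 10) (nat_lit 4) (nat_lit 8) (nat_lit 4) (nat_lit 366) (nat_lit 291) (nat_lit 123))) (XT.nd (nat_lit 78) (nat_lit 76) (nat_lit 0) (XT.lf (nat_lit 0) (nat_lit 159373936011) (nat_lit 152) (nat_lit 49928110440) (nat_lit 0) (nat_lit 42053099987) (nat_lit 8)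 (nat_lit 5) (nat_lit 10) (nat_lit 4) (nat_lit 8) (nat_lit 4) (nat_lit 367) (nat_lit 291) (nat_lit 122)) (XT.nd (nat_lit 78) (nat_lit 76) (nat_lit 0) (XT.lf (nat_lit 0) (nat_lit 189028039862) (nat_lit 152) (nat_lit 1794460917) (nat_lit 0) (nat_lit 71705737351) (nat_lit 8) (nat_lit 5) (nat_lit 10) (nat_lit 4) (nat_lit 8) (nat_lit 4) (nat_lit 368) (nat_lit 291) (nat_lit 121)) (XT.lf (nat_lit 0) (nat_lit 50356354261) (nat_lit 76) (nat_lit 170594026565) (nat_lit 76) (nat_lit 53270327399) (nat_lit 7) (nat_lit 4) (nat_lit 8) (nat_lit 5) (nat_lit 8) (nat_lit 4) (nat_lit 369) (nat_lit 291) (nat_lit 120))))) (XT.nd (nat_lit 156) (nat_lit 152) (nat_lit 0) (XT.nd (nat_lit 78) (nat_lit 0) (nat_lit 0) (XT.lf (nat_lit 0) (nat_lit 105175795106) (nat_lit 76) (nat_lit 149322774934) (nat_lit 76) (nat_lit 31997745621) (nat_lit 7) (nat_lit 4) (nat_lit 8) (nat_lit 5) (nat_lit 8) (nat_lit 4) (nat_lit 370)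 (nat_lit 291) (nat_lit 119)) (XT.lf (nat_lit 0) (nat_lit 162735051112) (nat_lit 76) (nat_lit 126988490113) (nat_lit 76) (nat_lit 9662193994) (nat_lit 7) (nat_lit 4) (nat_lit 8) (nat_lit 5) (nat_lit 8) (nat_lit 4) (nat_lit 371) (nat_lit 291) (nat_lit 118))) (XT.nd (nat_lit 78) (nat_lit 76) (nat_lit 0) (XT.lf (nat_lit 0) (nat_lit 13348157014) (nat_lit 152) (nat_lit 89963780722) (nat_lit 76) (nat_lit 209596953615) (nat_lit 6) (nat_lit 5) (nat_lit 8) (nat_lit 5) (nat_lit 7) (nat_lit 4) (nat_lit 372) (nat_lit 291) (nat_lit 117)) (XT.nd (nat_lit 78) (nat_lit 76) (nat_lit 0) (XT.lf (nat_lit 0) (nat_lit 37183733685) (nat_lit 152) (nat_lit 41101997578) (nat_lit 76) (nat_lit 248814583461) (nat_lit 6) (nat_lit 5) (nat_lit 8) (nat_lit 5) (nat_lit 7) (nat_lit 4) (nat_lit 373) (nat_lit 291) (nat_lit 116)) (XT.lf (nat_lit 0) (nat_lit 10539176289) (nat_lit 76) (nat_lit 51835907729) (nat_lit 152) (nat_lit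 279618025816) (nat_lit 5) (nat_lit 5) (nat_lit 6) (nat_lit 5) (nat_lit 7) (nat_lit 4) (nat_lit 374) (nat_lit 291) (nat_lit 115))))))) (XT.nd (nat_lit 34320) (nat_lit 0) (nat_lit 5548) (XT.nd (nat_lit 390) (nat_lit 76) (nat_lit 0) (XT.nd (nat_lit 156) (nat_lit 0) (nat_lit 0) (XT.nd (nat_lit 78) (nat_lit 0) (nat_lit 0) (XT.lf (nat_lit 0) (nat_lit 66188375919) (nat_lit 76) (nat_lit 23333167530) (nat_lit 152) (nat_lit 268074224466) (nat_lit 5) (nat_lit 5) (nat_lit 6) (nat_lit 5) (nat_lit 7) (nat_lit 4) (nat_lit 375) (nat_lit 291) (nat_lit 114)) (XT.lf (nat_lit 0) (nat_lit 118127766010) (nat_lit 152) (nat_lit 249462458229) (nat_lit 0) (nat_lit 6383212934) (nat_lit 5) (nat_lit 5) (nat_lit 7) (nat_lit 4) (nat_lit 5) (nat_lit 4) (nat_lit 376) (nat_lit 291) (nat_lit 113))) (XT.nd (nat_lit 78) (nat_lit 0) (nat_lit 0) (XT.lf (nat_lit 0) (nat_lit 148546313744) (nat_lit 152) (nat_lit 205803715344)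 (nat_lit 0) (nat_lit 36800860372) (nat_lit 5) (nat_lit 5) (nat_lit 7) (nat_lit 4) (nat_lit 5) (nat_lit 4) (nat_lit 377) (nat_lit 291) (nat_lit 112)) (XT.nd (nat_lit 78) (nat_lit 0) (nat_lit 0) (XT.lf (nat_lit 0) (nat_lit 180485315628) (nat_lit 152) (nat_lit 159962917818) (nat_lit 0) (nat_lit 68739004831) (nat_lit 5) (nat_lit 5) (nat_lit 7) (nat_lit 4) (nat_lit 5) (nat_lit 4) (nat_lit 378) (nat_lit 291) (nat_lit 111)) (XT.lf (nat_lit 0) (nat_lit 214020816905) (nat_lit 152) (nat_lit 111830920895) (nat_lit 0) (nat_lit 102273689513) (nat_lit 5) (nat_lit 5) (nat_lit 7) (nat_lit 4) (nat_lit 5) (nat_lit 4) (nat_lit 379) (nat_lit 291) (nat_lit 110))))) (XT.nd (nat_lit 156) (nat_lit 76) (nat_lit 0) (XT.nd (nat_lit 78) (nat_lit 0) (nat_lit 0) (XT.lf (nat_lit 0) (nat_lit 249232664007) (nat_lit 152) (nat_lit 61293124581) (nat_lit 0) (nat_lit 137484758906) (nat_lit 5) (nat_lit 5) (nat_lit 7) (nat_lit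 4) (nat_lit 5) (nat_lit 4) (nat_lit 380) (nat_lit 291) (nat_lit 109)) (XT.lf (nat_lit 0) (nat_lit 286204694665) (nat_lit 152) (nat_lit 8229200791) (nat_lit 0) (nat_lit 174456048888) (nat_lit 5) (nat_lit 5) (nat_lit 7) (nat_lit 4) (nat_lit 5) (nat_lit 4) (nat_lit 381) (nat_lit 291) (nat_lit 108))) (XT.nd (nat_lit 33618) (nat_lit 0) (nat_lit 6080) (XT.lf (nat_lit 0) (nat_lit 49057334214) (nat_lit 76) (nat_lit 276733525778) (nat_lit 76) (nat_lit 164984174596) (nat_lit 4) (nat_lit 4) (nat_lit 5) (nat_lit 5) (nat_lit 5) (nat_lit 4) (nat_lit 382) (nat_lit 291) (nat_lit 107)) (XT.nd (nat_lit 78) (nat_lit 0) (nat_lit 0) (XT.lf (nat_lit 0) (nat_lit 3070374212) (nat_lit 0) (nat_lit 3070374212) (nat_lit 684) (nat_lit 3666514975) (nat_lit 84) (nat_lit 5) (nat_lit 84) (nat_lit 3) (nat_lit 93) (nat_lit 3) (nat_lit 292) (nat_lit 292) (nat_lit 196)) (XT.lf (nat_lit 0) (nat_lit 12789808721) (nat_lit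 684) (nat_lit 4752154107) (nat_lit 760) (nat_lit 2552491508) (nat_lit 84) (nat_lit 5) (nat_lit 93) (nat_lit 3) (nat_lit 94) (nat_lit 5) (nat_lit 293) (nat_lit 292) (nat_lit 195)))))) (XT.nd (nat_lit 390) (nat_lit 532) (nat_lit 0) (XT.nd (nat_lit 156) (nat_lit 0) (nat_lit 76) (XT.nd (nat_lit 78) (nat_lit 0) (nat_lit 0) (XT.lf (nat_lit 76) (nat_lit 4441291826) (nat_lit 0) (nat_lit 9042084648) (nat_lit 760) (nat_lit 7107033565) (nat_lit 85) (nat_lit 5) (nat_lit 84) (nat_lit 5) (nat_lit 94) (nat_lit 5) (nat_lit 294) (nat_lit 292) (nat_lit 194)) (XT.lf (nat_lit 76) (nat_lit 14253746090) (nat_lit 0) (nat_lit 28583870) (nat_lit 760) (nat_lit 6825320875) (nat_lit 85) (nat_lit 5) (nat_lit 84) (nat_lit 5) (nat_lit 94) (nat_lit 5) (nat_lit 295) (nat_lit 292) (nat_lit 193))) (XT.nd (nat_lit 78) (nat_lit 0) (nat_lit 0) (XT.lf (nat_lit 76) (nat_lit 2843846858) (nat_lit 0) (nat_lit 12459854727) (nat_lit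 760) (nat_lit 6337950156) (nat_lit 86) (nat_lit 5) (nat_lit 85) (nat_lit 5) (nat_lit 95) (nat_lit 5) (nat_lit 296) (nat_lit 292) (nat_lit 192)) (XT.nd (nat_lit 78) (nat_lit 0) (nat_lit 76) (XT.lf (nat_lit 76) (nat_lit 13258122297) (nat_lit 0) (nat_lit 3225657964) (nat_lit 760) (nat_lit 5713211073) (nat_lit 86) (nat_lit 5) (nat_lit 85) (nat_lit 5) (nat_lit 95) (nat_lit 5) (nat_lit 297) (nat_lit 292) (nat_lit 191)) (XT.lf (nat_lit 76) (nat_lit 1349132684) (nat_lit 0) (nat_lit 16487385120) (nat_lit 760) (nat_lit 4937916943) (nat_lit 87) (nat_lit 5) (nat_lit 86) (nat_lit 5) (nat_lit 96) (nat_lit 5) (nat_lit 298) (nat_lit 292) (nat_lit 190))))) (XT.nd (nat_lit 234) (nat_lit 684) (nat_lit 0) (XT.nd (nat_lit 78) (nat_lit 0) (nat_lit 76) (XT.lf (nat_lit 76) (nat_lit 12401298355) (nat_lit 0) (nat_lit 7050885644) (nat_lit 760) (nat_lit 3918820395) (nat_lit 87) (nat_lit 5) (nat_lit 86) (nat_lit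 5) (nat_lit 96) (nat_lit 5) (nat_lit 299) (nat_lit 292) (nat_lit 189)) (XT.nd (nat_lit 78) (nat_lit 0) (nat_lit 0) (XT.lf (nat_lit 0) (nat_lit 21185546037) (nat_lit 684) (nat_lit 42041842) (nat_lit 760) (nat_lit 2767986784) (nat_lit 87) (nat_lit 5) (nat_lit 96) (nat_lit 5) (nat_lit 97) (nat_lit 5) (nat_lit 300) (nat_lit 292) (nat_lit 188)) (XT.lf (nat_lit 76) (nat_lit 11684588509) (nat_lit 0) (nat_lit 11611671702) (nat_lit 760) (nat_lit 1340595951) (nat_lit 88) (nat_lit 5) (nat_lit 87) (nat_lit 5) (nat_lit 97) (nat_lit 5) (nat_lit 301) (nat_lit 292) (nat_lit 187)))) (XT.nd (nat_lit 78) (nat_lit 0) (nat_lit 76) (XT.lf (nat_lit 0) (nat_lit 189351903) (nat_lit 760) (nat_lit 1320294893) (nat_lit 836) (nat_lit 23800736423) (nat_lit 77) (nat_lit 5) (nat_lit 87) (nat_lit 5) (nat_lit 88) (nat_lit 5) (nat_lit 302) (nat_lit 292) (nat_lit 186)) (XT.nd (nat_lit 78) (nat_lit 0) (nat_lit 0) (XT.lf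 (nat_lit 0) (nat_lit 2064423088) (nat_lit 760) (nat_lit 14928490107) (nat_lit 76) (nat_lit 9007905263) (nat_lit 78) (nat_lit 5) (nat_lit 88) (nat_lit 5) (nat_lit 79) (nat_lit 5) (nat_lit 303) (nat_lit 292) (nat_lit 185)) (XT.lf (nat_lit 0) (nat_lit 4074116149) (nat_lit 760) (nat_lit 2625305602) (nat_lit 76) (nat_lit 20024324211) (nat_lit 78) (nat_lit 5) (nat_lit 88) (nat_lit 5) (nat_lit 79) (nat_lit 5) (nat_lit 304) (nat_lit 292) (nat_lit 184))))))))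
noncomputable def xc194 : XT := (XT.nd (nat_lit 1560) (nat_lit 1520) (nat_lit 0) (XT.nd (nat_lit 780) (nat_lit 1292) (nat_lit 0) (XT.nd (nat_lit 390) (nat_lit 608) (nat_lit 0) (XT.nd (nat_lit 156) (nat_lit 684) (nat_lit 0) (XT.nd (nat_lit 78) (nat_lit 0) (nat_lit 0) (XT.lf (nat_lit 0) (nat_lit 6410806166) (nat_lit 532) (nat_lit 16914215435) (nat_lit 76) (nat_lit 4146485881) (nat_lit 72) (nat_lit 5) (nat_lit 79) (nat_lit 5) (nat_lit 73) (nat_lit 5) (nat_lit 305) (nat_lit 292) (nat_lit 183)) (XT.lf (nat_lit 0) (nat_lit 9013275492) (nat_lit 532) (nat_lit 3880728357) (nat_lit 76) (nat_lit 15355218615) (nat_lit 72) (nat_lit 5) (nat_lit 79) (nat_lit 5) (nat_lit 73) (nat_lit 5) (nat_lit 306) (nat_lit 292) (nat_lit 182))) (XT.nd (nat_lit 78) (nat_lit 304) (nat_lit 0) (XT.lf (nat_lit 0) (nat_lit 10122803993) (nat_lit 380) (nat_lit 1775327283) (nat_lit 456) (nat_lit 17160090793) (nat_lit 67) (nat_lit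 5) (nat_lit 72) (nat_lit 5) (nat_lit 73) (nat_lit 5) (nat_lit 307) (nat_lit 292) (nat_lit 181)) (XT.nd (nat_lit 78) (nat_lit 304) (nat_lit 0) (XT.lf (nat_lit 0) (nat_lit 15142992433) (nat_lit 456) (nat_lit 5104598868) (nat_lit 76) (nat_lit 9649303675) (nat_lit 67) (nat_lit 5) (nat_lit 73) (nat_lit 5) (nat_lit 68) (nat_lit 5) (nat_lit 308) (nat_lit 292) (nat_lit 180)) (XT.lf (nat_lit 0) (nat_lit 9693359483) (nat_lit 304) (nat_lit 9031855313) (nat_lit 380) (nat_lit 12043541733) (nat_lit 63) (nat_lit 5) (nat_lit 67) (nat_lit 5) (nat_lit 68) (nat_lit 5) (nat_lit 309) (nat_lit 292) (nat_lit 179))))) (XT.nd (nat_lit 156) (nat_lit 304) (nat_lit 0) (XT.nd (nat_lit 78) (nat_lit 304) (nat_lit 0) (XT.lf (nat_lit 0) (nat_lit 22612103949) (nat_lit 380) (nat_lit 6321442242) (nat_lit 76) (nat_lit 2744397571) (nat_lit 63) (nat_lit 5) (nat_lit 68) (nat_lit 5) (nat_lit 64) (nat_lit 5) (nat_lit 310) (nat_lit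 292) (nat_lit 178)) (XT.lf (nat_lit 0) (nat_lit 9314832012) (nat_lit 304) (nat_lit 17667082882) (nat_lit 380) (nat_lit 5636256489) (nat_lit 59) (nat_lit 5) (nat_lit 63) (nat_lit 5) (nat_lit 64) (nat_lit 5) (nat_lit 311) (nat_lit 292) (nat_lit 177))) (XT.nd (nat_lit 78) (nat_lit 304) (nat_lit 0) (XT.lf (nat_lit 0) (nat_lit 25947026165) (nat_lit 304) (nat_lit 5725480839) (nat_lit 380) (nat_lit 1927798271) (nat_lit 59) (nat_lit 5) (nat_lit 63) (nat_lit 5) (nat_lit 64) (nat_lit 5) (nat_lit 312) (nat_lit 292) (nat_lit 176)) (XT.nd (nat_lit 78) (nat_lit 0) (nat_lit 0) (XT.lf (nat_lit 0) (nat_lit 2148733193) (nat_lit 304) (nat_lit 25699962142) (nat_lit 76) (nat_lit 6769045404) (nat_lit 55) (nat_lit 5) (nat_lit 59) (nat_lit 5) (nat_lit 56) (nat_lit 5) (nat_lit 313) (nat_lit 292) (nat_lit 175)) (XT.lf (nat_lit 0) (nat_lit 6585407785) (nat_lit 304) (nat_lit 9229464599) (nat_lit 76) (nat_lit 19858548410)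 (nat_lit 55) (nat_lit 5) (nat_lit 59) (nat_lit 5) (nat_lit 56) (nat_lit 5) (nat_lit 314) (nat_lit 292) (nat_lit 174)))))) (XT.nd (nat_lit 390) (nat_lit 532) (nat_lit 0) (XT.nd (nat_lit 156) (nat_lit 456) (nat_lit 0) (XT.nd (nat_lit 78) (nat_lit 0) (nat_lit 0) (XT.lf (nat_lit 0) (nat_lit 8325893059) (nat_lit 304) (nat_lit 3043733668) (nat_lit 380) (nat_lit 25405980343) (nat_lit 51) (nat_lit 5) (nat_lit 55) (nat_lit 5) (nat_lit 56) (nat_lit 5) (nat_lit 315) (nat_lit 292) (nat_lit 173)) (XT.lf (nat_lit 0) (nat_lit 16709596870) (nat_lit 380) (nat_lit 11015310038) (nat_lit 76) (nat_lit 10192176121) (nat_lit 51) (nat_lit 5) (nat_lit 56) (nat_lit 5) (nat_lit 52) (nat_lit 5) (nat_lit 316) (nat_lit 292) (nat_lit 172))) (XT.nd (nat_lit 78) (nat_lit 228) (nat_lit 0) (XT.lf (nat_lit 0) (nat_lit 7475155845) (nat_lit 228) (nat_lit 15004044319) (nat_lit 304) (nat_lit 16628307920) (nat_lit 48) (nat_lit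 5) (nat_lit 51) (nat_lit 5) (nat_lit 52) (nat_lit 5) (nat_lit 317) (nat_lit 292) (nat_lit 171)) (XT.nd (nat_lit 78) (nat_lit 228) (nat_lit 0) (XT.lf (nat_lit 0) (nat_lit 27267639877) (nat_lit 228) (nat_lit 1452334675) (nat_lit 304) (nat_lit 11628351989) (nat_lit 48) (nat_lit 5) (nat_lit 51) (nat_lit 5) (nat_lit 52) (nat_lit 5) (nat_lit 318) (nat_lit 292) (nat_lit 170)) (XT.lf (nat_lit 0) (nat_lit 6399015328) (nat_lit 228) (nat_lit 29169472166) (nat_lit 304) (nat_lit 6067919811) (nat_lit 45) (nat_lit 5) (nat_lit 48) (nat_lit 5) (nat_lit 49) (nat_lit 5) (nat_lit 319) (nat_lit 292) (nat_lit 169))))) (XT.nd (nat_lit 156) (nat_lit 228) (nat_lit 0) (XT.nd (nat_lit 78) (nat_lit 228) (nat_lit 0) (XT.lf (nat_lit 0) (nat_lit 23191760) (nat_lit 304) (nat_lit 15699758365) (nat_lit 76) (nat_lit 27253861226) (nat_lit 44) (nat_lit 5) (nat_lit 48) (nat_lit 5) (nat_lit 45) (nat_lit 5) (nat_lit 320) (nat_lit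 292) (nat_lit 168)) (XT.lf (nat_lit 0) (nat_lit 4866351509) (nat_lit 228) (nat_lit 1421082237) (nat_lit 304) (nat_lit 38088208819) (nat_lit 41) (nat_lit 5) (nat_lit 44) (nat_lit 5) (nat_lit 45) (nat_lit 5) (nat_lit 321) (nat_lit 292) (nat_lit 167))) (XT.nd (nat_lit 78) (nat_lit 228) (nat_lit 0) (XT.lf (nat_lit 0) (nat_lit 13343993389) (nat_lit 304) (nat_lit 19046687567) (nat_lit 76) (nat_lit 13429784354) (nat_lit 41) (nat_lit 5) (nat_lit 45) (nat_lit 5) (nat_lit 42) (nat_lit 5) (nat_lit 322) (nat_lit 292) (nat_lit 166)) (XT.nd (nat_lit 78) (nat_lit 0) (nat_lit 0) (XT.lf (nat_lit 0) (nat_lit 2490937213) (nat_lit 228) (nat_lit 18321386967) (nat_lit 304) (nat_lit 26522262848) (nat_lit 38) (nat_lit 5) (nat_lit 41) (nat_lit 5) (nat_lit 42) (nat_lit 5) (nat_lit 323) (nat_lit 292) (nat_lit 165)) (XT.lf (nat_lit 0) (nat_lit 25762236410) (nat_lit 228) (nat_lit 3211240957) (nat_lit 304) (nat_lit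 19934971931) (nat_lit 38) (nat_lit 5) (nat_lit 41) (nat_lit 5) (nat_lit 42) (nat_lit 5) (nat_lit 324) (nat_lit 292) (nat_lit 164))))))) (XT.nd (nat_lit 780) (nat_lit 532) (nat_lit 0) (XT.nd (nat_lit 390) (nat_lit 532) (nat_lit 0) (XT.nd (nat_lit 156) (nat_lit 304) (nat_lit 0) (XT.nd (nat_lit 78) (nat_lit 152) (nat_lit 0) (XT.lf (nat_lit 0) (nat_lit 37737231052) (nat_lit 304) (nat_lit 565862700) (nat_lit 76) (nat_lit 12248188320) (nat_lit 38) (nat_lit 5) (nat_lit 42) (nat_lit 5) (nat_lit 39) (nat_lit 5) (nat_lit 325) (nat_lit 292) (nat_lit 163)) (XT.lf (nat_lit 0) (nat_lit 23850032900) (nat_lit 152) (nat_lit 23511264856) (nat_lit 228) (nat_lit 4893856777) (nat_lit 36) (nat_lit 5) (nat_lit 38) (nat_lit 5) (nat_lit 39) (nat_lit 5) (nat_lit 326) (nat_lit 292) (nat_lit 162))) (XT.nd (nat_lit 78) (nat_lit 228) (nat_lit 0) (XT.lf (nat_lit 0) (nat_lit 3319690221) (nat_lit 228) (nat_lit 4595172141)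 (nat_lit 76) (nat_lit 46126346574) (nat_lit 35) (nat_lit 5) (nat_lit 38) (nat_lit 5) (nat_lit 36) (nat_lit 5) (nat_lit 327) (nat_lit 292) (nat_lit 161)) (XT.nd (nat_lit 78) (nat_lit 0) (nat_lit 0) (XT.lf (nat_lit 0) (nat_lit 12243256842) (nat_lit 304) (nat_lit 35042136969) (nat_lit 76) (nat_lit 8603974219) (nat_lit 32) (nat_lit 5) (nat_lit 36) (nat_lit 5) (nat_lit 33) (nat_lit 5) (nat_lit 328) (nat_lit 292) (nat_lit 160)) (XT.lf (nat_lit 0) (nat_lit 21819174387) (nat_lit 304) (nat_lit 10239844203) (nat_lit 76) (nat_lit 25760611409) (nat_lit 32) (nat_lit 5) (nat_lit 36) (nat_lit 5) (nat_lit 33) (nat_lit 5) (nat_lit 329) (nat_lit 292) (nat_lit 159))))) (XT.nd (nat_lit 156) (nat_lit 380) (nat_lit 0) (XT.nd (nat_lit 78) (nat_lit 0) (nat_lit 0) (XT.lf (nat_lit 0) (nat_lit 16321071787) (nat_lit 152) (nat_lit 15805084670) (nat_lit 228) (nat_lit 27707638560) (nat_lit 30) (nat_lit 5) (nat_lit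 32) (nat_lit 5) (nat_lit 33) (nat_lit 5) (nat_lit 330) (nat_lit 292) (nat_lit 158)) (XT.lf (nat_lit 0) (nat_lit 43141935880) (nat_lit 228) (nat_lit 17400911017) (nat_lit 76) (nat_lit 1396152197) (nat_lit 30) (nat_lit 5) (nat_lit 33) (nat_lit 5) (nat_lit 31) (nat_lit 5) (nat_lit 331) (nat_lit 292) (nat_lit 157))) (XT.nd (nat_lit 78) (nat_lit 228) (nat_lit 0) (XT.lf (nat_lit 0) (nat_lit 10076166357) (nat_lit 152) (nat_lit 45046366639) (nat_lit 228) (nat_lit 9006232011) (nat_lit 28) (nat_lit 5) (nat_lit 30) (nat_lit 5) (nat_lit 31) (nat_lit 5) (nat_lit 332) (nat_lit 292) (nat_lit 156)) (XT.nd (nat_lit 78) (nat_lit 152) (nat_lit 0) (XT.lf (nat_lit 0) (nat_lit 1530511386) (nat_lit 228) (nat_lit 26910537663) (nat_lit 76) (nat_lit 37971120748) (nat_lit 27) (nat_lit 5) (nat_lit 30) (nat_lit 5) (nat_lit 28) (nat_lit 5) (nat_lit 333) (nat_lit 292) (nat_lit 155)) (XT.lf (nat_lit 0) (nat_lit 1484941984)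 (nat_lit 152) (nat_lit 10827405828) (nat_lit 228) (nat_lit 56488971290) (nat_lit 25) (nat_lit 5) (nat_lit 27) (nat_lit 5) (nat_lit 28) (nat_lit 5) (nat_lit 334) (nat_lit 292) (nat_lit 154)))))) (XT.nd (nat_lit 390) (nat_lit 304) (nat_lit 0) (XT.nd (nat_lit 156) (nat_lit 228) (nat_lit 0) (XT.nd (nat_lit 78) (nat_lit 0) (nat_lit 0) (XT.lf (nat_lit 0) (nat_lit 24213964972) (nat_lit 228) (nat_lit 39183446919) (nat_lit 76) (nat_lit 7883482061) (nat_lit 25) (nat_lit 5) (nat_lit 28) (nat_lit 5) (nat_lit 26) (nat_lit 5) (nat_lit 335) (nat_lit 292) (nat_lit 153)) (XT.lf (nat_lit 0) (nat_lit 36886040146) (nat_lit 228) (nat_lit 9824800677) (nat_lit 76) (nat_lit 27164840266) (nat_lit 25) (nat_lit 5) (nat_lit 28) (nat_lit 5) (nat_lit 26) (nat_lit 5) (nat_lit 336) (nat_lit 292) (nat_lit 152))) (XT.nd (nat_lit 78) (nat_lit 76) (nat_lit 0) (XT.lf (nat_lit 0) (nat_lit 21692814842) (nat_lit 152) (nat_lit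 28835569586) (nat_lit 228) (nat_lit 26054992176) (nat_lit 23) (nat_lit 5) (nat_lit 25) (nat_lit 5) (nat_lit 26) (nat_lit 5) (nat_lit 337) (nat_lit 292) (nat_lit 151)) (XT.nd (nat_lit 78) (nat_lit 76) (nat_lit 0) (XT.lf (nat_lit 0) (nat_lit 55124190169) (nat_lit 152) (nat_lit 9893069220) (nat_lit 228) (nat_lit 14400979012) (nat_lit 23) (nat_lit 5) (nat_lit 25) (nat_lit 5) (nat_lit 26) (nat_lit 5) (nat_lit 338) (nat_lit 292) (nat_lit 150)) (XT.lf (nat_lit 0) (nat_lit 7926782916) (nat_lit 76) (nat_lit 72581729998) (nat_lit 152) (nat_lit 1872435709) (nat_lit 22) (nat_lit 5) (nat_lit 23) (nat_lit 5) (nat_lit 24) (nat_lit 4) (nat_lit 339) (nat_lit 292) (nat_lit 149))))) (XT.nd (nat_lit 156) (nat_lit 228) (nat_lit 0) (XT.nd (nat_lit 78) (nat_lit 0) (nat_lit 0) (XT.lf (nat_lit 0) (nat_lit 11499891979) (nat_lit 152) (nat_lit 43217364936) (nat_lit 76) (nat_lit 30736808287) (nat_lit 21) (nat_lit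 5) (nat_lit 23) (nat_lit 5) (nat_lit 22) (nat_lit 5) (nat_lit 340) (nat_lit 292) (nat_lit 148)) (XT.lf (nat_lit 0) (nat_lit 25476110974) (nat_lit 152) (nat_lit 10452423643) (nat_lit 76) (nat_lit 52750859950) (nat_lit 21) (nat_lit 5) (nat_lit 23) (nat_lit 5) (nat_lit 22) (nat_lit 5) (nat_lit 341) (nat_lit 292) (nat_lit 147))) (XT.nd (nat_lit 78) (nat_lit 76) (nat_lit 0) (XT.lf (nat_lit 0) (nat_lit 24739729757) (nat_lit 152) (nat_lit 15795954379) (nat_lit 228) (nat_lit 51511080810) (nat_lit 19) (nat_lit 5) (nat_lit 21) (nat_lit 5) (nat_lit 22) (nat_lit 5) (nat_lit 342) (nat_lit 292) (nat_lit 146)) (XT.nd (nat_lit 78) (nat_lit 76) (nat_lit 0) (XT.lf (nat_lit 0) (nat_lit 56609884471) (nat_lit 228) (nat_lit 33608485022) (nat_lit 76) (nat_lit 5351053554) (nat_lit 19) (nat_lit 5) (nat_lit 22) (nat_lit 5) (nat_lit 20) (nat_lit 4) (nat_lit 343) (nat_lit 292) (nat_lit 145)) (XT.lf (nat_lit 0)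 (nat_lit 1563333990) (nat_lit 76) (nat_lit 72206206128) (nat_lit 152) (nat_lit 25484588218) (nat_lit 18) (nat_lit 5) (nat_lit 19) (nat_lit 5) (nat_lit 20) (nat_lit 4) (nat_lit 344) (nat_lit 292) (nat_lit 144))))))))
noncomputable def xc195 : XT := (XT.nd (nat_lit 1560) (nat_lit 304) (nat_lit 0) (XT.nd (nat_lit 780) (nat_lit 228) (nat_lit 0) (XT.nd (nat_lit 390) (nat_lit 228) (nat_lit 0) (XT.nd (nat_lit 156) (nat_lit 152) (nat_lit 0) (XT.nd (nat_lit 78) (nat_lit 76) (nat_lit 0) (XT.lf (nat_lit 0) (nat_lit 39657853895) (nat_lit 76) (nat_lit 52696922445) (nat_lit 152) (nat_lit 10739914136) (nat_lit 18) (nat_lit 5) (nat_lit 19) (nat_lit 5) (nat_lit 20) (nat_lit 4) (nat_lit 345) (nat_lit 292) (nat_lit 143)) (XT.lf (nat_lit 0) (nat_lit 4588691224) (nat_lit 152) (nat_lit 27546840792) (nat_lit 76) (nat_lit 74988124706) (nat_lit 17) (nat_lit 5) (nat_lit 19) (nat_lit 5) (nat_lit 18) (nat_lit 5)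 (nat_lit 346) (nat_lit 292) (nat_lit 142))) (XT.nd (nat_lit 78) (nat_lit 0) (nat_lit 0) (XT.lf (nat_lit 0) (nat_lit 10288384063) (nat_lit 152) (nat_lit 10193585552) (nat_lit 228) (nat_lit 90855341014) (nat_lit 15) (nat_lit 5) (nat_lit 17) (nat_lit 5) (nat_lit 18) (nat_lit 5) (nat_lit 347) (nat_lit 292) (nat_lit 141)) (XT.nd (nat_lit 78) (nat_lit 0) (nat_lit 0) (XT.lf (nat_lit 0) (nat_lit 37843191076) (nat_lit 228) (nat_lit 64977303596) (nat_lit 76) (nat_lit 12907489818) (nat_lit 15) (nat_lit 5) (nat_lit 18) (nat_lit 5) (nat_lit 16) (nat_lit 4) (nat_lit 348) (nat_lit 292) (nat_lit 140)) (XT.lf (nat_lit 0) (nat_lit 56238208820) (nat_lit 228) (nat_lit 27271602798) (nat_lit 76) (nat_lit 36820094820) (nat_lit 15) (nat_lit 5) (nat_lit 18) (nat_lit 5) (nat_lit 16) (nat_lit 4) (nat_lit 349) (nat_lit 292) (nat_lit 139))))) (XT.nd (nat_lit 156) (nat_lit 152) (nat_lit 0) (XT.nd (nat_lit 78) (nat_lit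 0) (nat_lit 0) (XT.lf (nat_lit 0) (nat_lit 12724360749) (nat_lit 76) (nat_lit 63025972254) (nat_lit 152) (nat_lit 49401724806) (nat_lit 14) (nat_lit 5) (nat_lit 15) (nat_lit 5) (nat_lit 16) (nat_lit 4) (nat_lit 350) (nat_lit 292) (nat_lit 138)) (XT.lf (nat_lit 0) (nat_lit 55664686440) (nat_lit 76) (nat_lit 41033954579) (nat_lit 152) (nat_lit 33493647896) (nat_lit 14) (nat_lit 5) (nat_lit 15) (nat_lit 5) (nat_lit 16) (nat_lit 4) (nat_lit 351) (nat_lit 292) (nat_lit 137))) (XT.nd (nat_lit 78) (nat_lit 152) (nat_lit 0) (XT.lf (nat_lit 0) (nat_lit 100749890793) (nat_lit 76) (nat_lit 17943254435) (nat_lit 152) (nat_lit 16791448306) (nat_lit 14) (nat_lit 5) (nat_lit 15) (nat_lit 5) (nat_lit 16) (nat_lit 4) (nat_lit 352) (nat_lit 292) (nat_lit 136)) (XT.nd (nat_lit 78) (nat_lit 0) (nat_lit 0) (XT.lf (nat_lit 0) (nat_lit 934689915) (nat_lit 152) (nat_lit 133869045807) (nat_lit 76) (nat_lit 6226561276)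 (nat_lit 12) (nat_lit 5) (nat_lit 14) (nat_lit 5) (nat_lit 13) (nat_lit 4) (nat_lit 353) (nat_lit 292) (nat_lit 135)) (XT.lf (nat_lit 0) (nat_lit 19873705840) (nat_lit 152) (nat_lit 95047111882) (nat_lit 76) (nat_lit 31874161614) (nat_lit 12) (nat_lit 5) (nat_lit 14) (nat_lit 5) (nat_lit 13) (nat_lit 4) (nat_lit 354) (nat_lit 292) (nat_lit 134)))))) (XT.nd (nat_lit 390) (nat_lit 152) (nat_lit 0) (XT.nd (nat_lit 156) (nat_lit 76) (nat_lit 0) (XT.nd (nat_lit 78) (nat_lit 0) (nat_lit 0) (XT.lf (nat_lit 0) (nat_lit 39758557729) (nat_lit 152) (nat_lit 54286069054) (nat_lit 76) (nat_lit 58803325572) (nat_lit 12) (nat_lit 5) (nat_lit 14) (nat_lit 5) (nat_lit 13) (nat_lit 4) (nat_lit 355) (nat_lit 292) (nat_lit 133)) (XT.lf (nat_lit 0) (nat_lit 60636590468) (nat_lit 152) (nat_lit 11488867221) (nat_lit 76) (nat_lit 87078170207) (nat_lit 12) (nat_lit 5) (nat_lit 14) (nat_lit 5) (nat_lit 13) (nat_lit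 4) (nat_lit 356) (nat_lit 292) (nat_lit 132))) (XT.nd (nat_lit 78) (nat_lit 0) (nat_lit 0) (XT.lf (nat_lit 0) (nat_lit 34552280475) (nat_lit 76) (nat_lit 48544691113) (nat_lit 152) (nat_lit 82753194033) (nat_lit 11) (nat_lit 5) (nat_lit 12) (nat_lit 5) (nat_lit 13) (nat_lit 4) (nat_lit 357) (nat_lit 292) (nat_lit 131)) (XT.nd (nat_lit 78) (nat_lit 0) (nat_lit 0) (XT.lf (nat_lit 0) (nat_lit 83292579179) (nat_lit 76) (nat_lit 23581371382) (nat_lit 152) (nat_lit 65945401441) (nat_lit 11) (nat_lit 5) (nat_lit 12) (nat_lit 5) (nat_lit 13) (nat_lit 4) (nat_lit 358) (nat_lit 292) (nat_lit 130)) (XT.lf (nat_lit 0) (nat_lit 131879886741) (nat_lit 152) (nat_lit 45709893983) (nat_lit 0) (nat_lit 2545212241) (nat_lit 11) (nat_lit 5) (nat_lit 13) (nat_lit 4) (nat_lit 11) (nat_lit 4) (nat_lit 359) (nat_lit 292) (nat_lit 129))))) (XT.nd (nat_lit 156) (nat_lit 76) (nat_lit 0) (XT.nd (nat_lit 78) (nat_lit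 76) (nat_lit 0) (XT.lf (nat_lit 0) (nat_lit 158521789877) (nat_lit 152) (nat_lit 90394529) (nat_lit 0) (nat_lit 29184948707) (nat_lit 11) (nat_lit 5) (nat_lit 13) (nat_lit 4) (nat_lit 11) (nat_lit 4) (nat_lit 360) (nat_lit 292) (nat_lit 128)) (XT.lf (nat_lit 0) (nat_lit 49389280094) (nat_lit 76) (nat_lit 137876746759) (nat_lit 76) (nat_lit 8537842094) (nat_lit 10) (nat_lit 4) (nat_lit 11) (nat_lit 5) (nat_lit 11) (nat_lit 4) (nat_lit 361) (nat_lit 292) (nat_lit 127))) (XT.nd (nat_lit 78) (nat_lit 0) (nat_lit 0) (XT.lf (nat_lit 0) (nat_lit 12813574657) (nat_lit 152) (nat_lit 103073041851) (nat_lit 76) (nat_lit 88313958036) (nat_lit 9) (nat_lit 5) (nat_lit 11) (nat_lit 5) (nat_lit 10) (nat_lit 4) (nat_lit 362) (nat_lit 292) (nat_lit 126)) (XT.nd (nat_lit 78) (nat_lit 0) (nat_lit 0) (XT.lf (nat_lit 0) (nat_lit 34944812227) (nat_lit 152) (nat_lit 57705876481) (nat_lit 76) (nat_lit 120359470136)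 (nat_lit 9) (nat_lit 5) (nat_lit 11) (nat_lit 5) (nat_lit 10) (nat_lit 4) (nat_lit 363) (nat_lit 292) (nat_lit 125)) (XT.lf (nat_lit 0) (nat_lit 58181828308) (nat_lit 152) (nat_lit 10071776041) (nat_lit 76) (nat_lit 154006657686) (nat_lit 9) (nat_lit 5) (nat_lit 11) (nat_lit 5) (nat_lit 10) (nat_lit 4) (nat_lit 364) (nat_lit 292) (nat_lit 124))))))) (XT.nd (nat_lit 780) (nat_lit 76) (nat_lit 0) (XT.nd (nat_lit 390) (nat_lit 152) (nat_lit 0) (XT.nd (nat_lit 156) (nat_lit 0) (nat_lit 0) (XT.nd (nat_lit 78) (nat_lit 0) (nat_lit 0) (XT.lf (nat_lit 0) (nat_lit 41263359181) (nat_lit 76) (nat_lit 41960826622) (nat_lit 152) (nat_lit 148716510531) (nat_lit 8) (nat_lit 5) (nat_lit 9) (nat_lit 5) (nat_lit 10) (nat_lit 4) (nat_lit 365) (nat_lit 292) (nat_lit 123)) (XT.lf (nat_lit 0) (nat_lit 95513586922) (nat_lit 76) (nat_lit 14174913292) (nat_lit 152) (nat_lit 132408160639) (nat_lit 8) (nat_lit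 5) (nat_lit 9) (nat_lit 5) (nat_lit 10) (nat_lit 4) (nat_lit 366) (nat_lit 292) (nat_lit 122))) (XT.nd (nat_lit 78) (nat_lit 0) (nat_lit 0) (XT.lf (nat_lit 0) (nat_lit 137709521513) (nat_lit 152) (nat_lit 100519590573) (nat_lit 0) (nat_lit 14519637390) (nat_lit 8) (nat_lit 5) (nat_lit 10) (nat_lit 4) (nat_lit 8) (nat_lit 4) (nat_lit 367) (nat_lit 292) (nat_lit 121)) (XT.nd (nat_lit 78) (nat_lit 0) (nat_lit 0) (XT.lf (nat_lit 0) (nat_lit 167363297611) (nat_lit 152) (nat_lit 52386543313) (nat_lit 0) (nat_lit 44172016834) (nat_lit 8) (nat_lit 5) (nat_lit 10) (nat_lit 4) (nat_lit 8) (nat_lit 4) (nat_lit 368) (nat_lit 292) (nat_lit 120)) (XT.lf (nat_lit 0) (nat_lit 198499122617) (nat_lit 152) (nat_lit 1848019535) (nat_lit 0) (nat_lit 75306511692) (nat_lit 8) (nat_lit 5) (nat_lit 10) (nat_lit 4) (nat_lit 8) (nat_lit 4) (nat_lit 369) (nat_lit 292) (nat_lit 119))))) (XT.nd (nat_lit 156) (nat_lit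 76) (nat_lit 0) (XT.nd (nat_lit 78) (nat_lit 0) (nat_lit 0) (XT.lf (nat_lit 0) (nat_lit 52909753105) (nat_lit 76) (nat_lit 179107445866) (nat_lit 76) (nat_lit 55913568134) (nat_lit 7) (nat_lit 4) (nat_lit 8) (nat_lit 5) (nat_lit 8) (nat_lit 4) (nat_lit 370) (nat_lit 292) (nat_lit 118)) (XT.lf (nat_lit 0) (nat_lit 110468471652) (nat_lit 76) (nat_lit 156773406989) (nat_lit 76) (nat_lit 33578322774) (nat_lit 7) (nat_lit 4) (nat_lit 8) (nat_lit 5) (nat_lit 8) (nat_lit 4) (nat_lit 371) (nat_lit 292) (nat_lit 117))) (XT.nd (nat_lit 78) (nat_lit 76) (nat_lit 0) (XT.lf (nat_lit 0) (nat_lit 170904076802) (nat_lit 76) (nat_lit 133323146341) (nat_lit 76) (nat_lit 10126913095) (nat_lit 7) (nat_lit 4) (nat_lit 8) (nat_lit 5) (nat_lit 8) (nat_lit 4) (nat_lit 372) (nat_lit 292) (nat_lit 116)) (XT.nd (nat_lit 78) (nat_lit 0) (nat_lit 0) (XT.lf (nat_lit 0) (nat_lit 14032519136) (nat_lit 152) (nat_lit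 94430663331) (nat_lit 76) (nat_lit 220090296214) (nat_lit 6) (nat_lit 5) (nat_lit 8) (nat_lit 5) (nat_lit 7) (nat_lit 4) (nat_lit 373) (nat_lit 292) (nat_lit 115)) (XT.lf (nat_lit 0) (nat_lit 39059067294) (nat_lit 152) (nat_lit 43127281812) (nat_lit 76) (nat_lit 261268164938) (nat_lit 6) (nat_lit 5) (nat_lit 8) (nat_lit 5) (nat_lit 7) (nat_lit 4) (nat_lit 374) (nat_lit 292) (nat_lit 114)))))) (XT.nd (nat_lit 390) (nat_lit 0) (nat_lit 0) (XT.nd (nat_lit 156) (nat_lit 0) (nat_lit 0) (XT.nd (nat_lit 78) (nat_lit 0) (nat_lit 0) (XT.lf (nat_lit 0) (nat_lit 11095469850) (nat_lit 76) (nat_lit 54414204389) (nat_lit 152) (nat_lit 293582290647) (nat_lit 5) (nat_lit 5) (nat_lit 6) (nat_lit 5) (nat_lit 7) (nat_lit 4) (nat_lit 375) (nat_lit 292) (nat_lit 113)) (XT.lf (nat_lit 0) (nat_lit 69525732569) (nat_lit 76) (nat_lit 24486969978) (nat_lit 152) (nat_lit 281462091441) (nat_lit 5) (nat_lit 5) (nat_lit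 6) (nat_lit 5) (nat_lit 7) (nat_lit 4) (nat_lit 376) (nat_lit 292) (nat_lit 112))) (XT.nd (nat_lit 78) (nat_lit 0) (nat_lit 0) (XT.lf (nat_lit 0) (nat_lit 124048709208) (nat_lit 152) (nat_lit 261908438798) (nat_lit 0) (nat_lit 6714225447) (nat_lit 5) (nat_lit 5) (nat_lit 7) (nat_lit 4) (nat_lit 5) (nat_lit 4) (nat_lit 377) (nat_lit 292) (nat_lit 111)) (XT.nd (nat_lit 78) (nat_lit 0) (nat_lit 0) (XT.lf (nat_lit 0) (nat_lit 155987491238) (nat_lit 152) (nat_lit 216068051261) (nat_lit 0) (nat_lit 38652190882) (nat_lit 5) (nat_lit 5) (nat_lit 7) (nat_lit 4) (nat_lit 5) (nat_lit 4) (nat_lit 378) (nat_lit 292) (nat_lit 110)) (XT.lf (nat_lit 0) (nat_lit 189522783130) (nat_lit 152) (nat_lit 167936444804) (nat_lit 0) (nat_lit 72186705064) (nat_lit 5) (nat_lit 5) (nat_lit 7) (nat_lit 4) (nat_lit 5) (nat_lit 4) (nat_lit 379) (nat_lit 292) (nat_lit 109))))) (XT.nd (nat_lit 33930) (nat_lit 0) (nat_lit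 6004) (XT.nd (nat_lit 78) (nat_lit 0) (nat_lit 0) (XT.lf (nat_lit 0) (nat_lit 224734430818) (nat_lit 152) (nat_lit 117399020363) (nat_lit 0) (nat_lit 107397612076) (nat_lit 5) (nat_lit 5) (nat_lit 7) (nat_lit 4) (nat_lit 5) (nat_lit 4) (nat_lit 380) (nat_lit 292) (nat_lit 108)) (XT.nd (nat_lit 33774) (nat_lit 0) (nat_lit 6004) (XT.lf (nat_lit 0) (nat_lit 261706271557) (nat_lit 152) (nat_lit 64335450738) (nat_lit 0) (nat_lit 144368747410) (nat_lit 5) (nat_lit 5) (nat_lit 7) (nat_lit 4) (nat_lit 5) (nat_lit 4) (nat_lit 381) (nat_lit 292) (nat_lit 107)) (XT.lf (nat_lit 0) (nat_lit 3302695693) (nat_lit 0) (nat_lit 3302695693) (nat_lit 684) (nat_lit 3683988801) (nat_lit 84) (nat_lit 5) (nat_lit 84) (nat_lit 3) (nat_lit 93) (nat_lit 3) (nat_lit 293) (nat_lit 293) (nat_lit 194)))) (XT.nd (nat_lit 78) (nat_lit 0) (nat_lit 0) (XT.lf (nat_lit 0) (nat_lit 13727156695) (nat_lit 684) (nat_lit 4821610412)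 (nat_lit 760) (nat_lit 2534819723) (nat_lit 84) (nat_lit 5) (nat_lit 93) (nat_lit 3) (nat_lit 94) (nat_lit 5) (nat_lit 294) (nat_lit 293) (nat_lit 193)) (XT.nd (nat_lit 78) (nat_lit 0) (nat_lit 0) (XT.lf (nat_lit 76) (nat_lit 4828795698) (nat_lit 0) (nat_lit 9615006417) (nat_lit 760) (nat_lit 7161151448) (nat_lit 85) (nat_lit 5) (nat_lit 84) (nat_lit 5) (nat_lit 94) (nat_lit 5) (nat_lit 295) (nat_lit 293) (nat_lit 192)) (XT.lf (nat_lit 76) (nat_lit 15123994614) (nat_lit 0) (nat_lit 145077384) (nat_lit 760) (nat_lit 6879697589) (nat_lit 85) (nat_lit 5) (nat_lit 84) (nat_lit 5) (nat_lit 94) (nat_lit 5) (nat_lit 296) (nat_lit 293) (nat_lit 191))))))))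
noncomputable def xc196 : XT := (XT.nd (nat_lit 1560) (nat_lit 1976) (nat_lit 0) (XT.nd (nat_lit 780) (nat_lit 1596) (nat_lit 0) (XT.nd (nat_lit 390) (nat_lit 988) (nat_lit 0) (XT.nd (nat_lit 156) (nat_lit 0) (nat_lit 76) (XT.nd (nat_lit 78) (nat_lit 0) (nat_lit 0) (XT.lf (nat_lit 76) (nat_lit 3156860340) (nat_lit 0) (nat_lit 13172625763) (nat_lit 760) (nat_lit 6380615861) (nat_lit 86) (nat_lit 5) (nat_lit 85) (nat_lit 5) (nat_lit 95) (nat_lit 5) (nat_lit 297) (nat_lit 293) (nat_lit 190)) (XT.lf (nat_lit 76) (nat_lit 14083715211) (nat_lit 0) (nat_lit 3472444005) (nat_lit 760) (nat_lit 5737698481) (nat_lit 86) (nat_lit 5) (nat_lit 85) (nat_lit 5) (nat_lit 95) (nat_lit 5) (nat_lit 298) (nat_lit 293) (nat_lit 189))) (XT.nd (nat_lit 78) (nat_lit 0) (nat_lit 0) (XT.lf (nat_lit 76) (nat_lit 1590739347) (nat_lit 0) (nat_lit 17375423315) (nat_lit 760) (nat_lit 4934556486) (nat_lit 87) (nat_lit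 5) (nat_lit 86) (nat_lit 5) (nat_lit 96) (nat_lit 5) (nat_lit 299) (nat_lit 293) (nat_lit 188)) (XT.nd (nat_lit 78) (nat_lit 0) (nat_lit 76) (XT.lf (nat_lit 76) (nat_lit 13187220443) (nat_lit 0) (nat_lit 7464067012) (nat_lit 760) (nat_lit 3876422077) (nat_lit 87) (nat_lit 5) (nat_lit 86) (nat_lit 5) (nat_lit 96) (nat_lit 5) (nat_lit 300) (nat_lit 293) (nat_lit 187)) (XT.lf (nat_lit 76) (nat_lit 130163999) (nat_lit 0) (nat_lit 22331498745) (nat_lit 760) (nat_lit 2722353092) (nat_lit 88) (nat_lit 5) (nat_lit 87) (nat_lit 5) (nat_lit 97) (nat_lit 5) (nat_lit 301) (nat_lit 293) (nat_lit 186))))) (XT.nd (nat_lit 156) (nat_lit 380) (nat_lit 0) (XT.nd (nat_lit 78) (nat_lit 760) (nat_lit 0) (XT.lf (nat_lit 76) (nat_lit 12436215584) (nat_lit 0) (nat_lit 12232049452) (nat_lit 760) (nat_lit 1189602353) (nat_lit 88) (nat_lit 5) (nat_lit 87) (nat_lit 5) (nat_lit 97) (nat_lit 5) (nat_lit 302) (nat_lit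 293) (nat_lit 185)) (XT.lf (nat_lit 0) (nat_lit 399815007) (nat_lit 760) (nat_lit 1219809377) (nat_lit 836) (nat_lit 24945800112) (nat_lit 77) (nat_lit 5) (nat_lit 87) (nat_lit 5) (nat_lit 88) (nat_lit 5) (nat_lit 303) (nat_lit 293) (nat_lit 184))) (XT.nd (nat_lit 78) (nat_lit 456) (nat_lit 0) (XT.lf (nat_lit 0) (nat_lit 2361155151) (nat_lit 760) (nat_lit 15500522028) (nat_lit 76) (nat_lit 9429098933) (nat_lit 78) (nat_lit 5) (nat_lit 88) (nat_lit 5) (nat_lit 79) (nat_lit 5) (nat_lit 304) (nat_lit 293) (nat_lit 183)) (XT.nd (nat_lit 78) (nat_lit 456) (nat_lit 0) (XT.lf (nat_lit 0) (nat_lit 4462118060) (nat_lit 760) (nat_lit 2590482706) (nat_lit 76) (nat_lit 20997729381) (nat_lit 78) (nat_lit 5) (nat_lit 88) (nat_lit 5) (nat_lit 79) (nat_lit 5) (nat_lit 305) (nat_lit 293) (nat_lit 182)) (XT.lf (nat_lit 0) (nat_lit 6909188936) (nat_lit 532) (nat_lit 17587014571) (nat_lit 76) (nat_lit 4339617409)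 (nat_lit 72) (nat_lit 5) (nat_lit 79) (nat_lit 5) (nat_lit 73) (nat_lit 5) (nat_lit 306) (nat_lit 293) (nat_lit 181)))))) (XT.nd (nat_lit 390) (nat_lit 912) (nat_lit 0) (XT.nd (nat_lit 156) (nat_lit 304) (nat_lit 0) (XT.nd (nat_lit 78) (nat_lit 380) (nat_lit 0) (XT.lf (nat_lit 0) (nat_lit 9633313039) (nat_lit 532) (nat_lit 3910087026) (nat_lit 76) (nat_lit 16109462626) (nat_lit 72) (nat_lit 5) (nat_lit 79) (nat_lit 5) (nat_lit 73) (nat_lit 5) (nat_lit 307) (nat_lit 293) (nat_lit 180)) (XT.lf (nat_lit 0) (nat_lit 10790965848) (nat_lit 380) (nat_lit 1865909958) (nat_lit 456) (nat_lit 17845730033) (nat_lit 67) (nat_lit 5) (nat_lit 72) (nat_lit 5) (nat_lit 73) (nat_lit 5) (nat_lit 308) (nat_lit 293) (nat_lit 179))) (XT.nd (nat_lit 78) (nat_lit 304) (nat_lit 0) (XT.lf (nat_lit 0) (nat_lit 16056151206) (nat_lit 456) (nat_lit 5197374196) (nat_lit 76) (nat_lit 10130094404) (nat_lit 67) (nat_lit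 5) (nat_lit 73) (nat_lit 5) (nat_lit 68) (nat_lit 5) (nat_lit 309) (nat_lit 293) (nat_lit 178)) (XT.nd (nat_lit 78) (nat_lit 0) (nat_lit 0) (XT.lf (nat_lit 0) (nat_lit 10337861837) (nat_lit 304) (nat_lit 9474689306) (nat_lit 380) (nat_lit 12486785184) (nat_lit 63) (nat_lit 5) (nat_lit 67) (nat_lit 5) (nat_lit 68) (nat_lit 5) (nat_lit 310) (nat_lit 293) (nat_lit 177)) (XT.lf (nat_lit 0) (nat_lit 23886720914) (nat_lit 380) (nat_lit 6477937535) (nat_lit 76) (nat_lit 2889692152) (nat_lit 63) (nat_lit 5) (nat_lit 68) (nat_lit 5) (nat_lit 64) (nat_lit 5) (nat_lit 311) (nat_lit 293) (nat_lit 176))))) (XT.nd (nat_lit 156) (nat_lit 608) (nat_lit 0) (XT.nd (nat_lit 78) (nat_lit 0) (nat_lit 0) (XT.lf (nat_lit 0) (nat_lit 9937576612) (nat_lit 304) (nat_lit 18533039348) (nat_lit 380) (nat_lit 5771207763) (nat_lit 59) (nat_lit 5) (nat_lit 63) (nat_lit 5) (nat_lit 64) (nat_lit 5) (nat_lit 312) (nat_lit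 293) (nat_lit 175)) (XT.lf (nat_lit 0) (nat_lit 27393904140) (nat_lit 304) (nat_lit 5995185663) (nat_lit 380) (nat_lit 1884320041) (nat_lit 59) (nat_lit 5) (nat_lit 63) (nat_lit 5) (nat_lit 64) (nat_lit 5) (nat_lit 313) (nat_lit 293) (nat_lit 174))) (XT.nd (nat_lit 78) (nat_lit 304) (nat_lit 0) (XT.lf (nat_lit 0) (nat_lit 2387802927) (nat_lit 304) (nat_lit 26826709820) (nat_lit 76) (nat_lit 7127294989) (nat_lit 55) (nat_lit 5) (nat_lit 59) (nat_lit 5) (nat_lit 56) (nat_lit 5) (nat_lit 314) (nat_lit 293) (nat_lit 173)) (XT.nd (nat_lit 78) (nat_lit 304) (nat_lit 0) (XT.lf (nat_lit 0) (nat_lit 7040043006) (nat_lit 304) (nat_lit 9540223135) (nat_lit 76) (nat_lit 20870330415) (nat_lit 55) (nat_lit 5) (nat_lit 59) (nat_lit 5) (nat_lit 56) (nat_lit 5) (nat_lit 315) (nat_lit 293) (nat_lit 172)) (XT.lf (nat_lit 0) (nat_lit 8890471525) (nat_lit 304) (nat_lit 3169346743) (nat_lit 380) (nat_lit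 26548267421) (nat_lit 51) (nat_lit 5) (nat_lit 55) (nat_lit 5) (nat_lit 56) (nat_lit 5) (nat_lit 316) (nat_lit 293) (nat_lit 171))))))) (XT.nd (nat_lit 780) (nat_lit 988) (nat_lit 0) (XT.nd (nat_lit 390) (nat_lit 456) (nat_lit 0) (XT.nd (nat_lit 156) (nat_lit 304) (nat_lit 0) (XT.nd (nat_lit 78) (nat_lit 228) (nat_lit 0) (XT.lf (nat_lit 0) (nat_lit 17661386326) (nat_lit 380) (nat_lit 11419246341) (nat_lit 76) (nat_lit 10726283105) (nat_lit 51) (nat_lit 5) (nat_lit 56) (nat_lit 5) (nat_lit 52) (nat_lit 5) (nat_lit 317) (nat_lit 293) (nat_lit 170)) (XT.lf (nat_lit 0) (nat_lit 7993374622) (nat_lit 228) (nat_lit 15722812050) (nat_lit 304) (nat_lit 17340849370) (nat_lit 48) (nat_lit 5) (nat_lit 51) (nat_lit 5) (nat_lit 52) (nat_lit 5) (nat_lit 318) (nat_lit 293) (nat_lit 169))) (XT.nd (nat_lit 78) (nat_lit 304) (nat_lit 0) (XT.lf (nat_lit 0) (nat_lit 28768603761) (nat_lit 228) (nat_lit 1495013804)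 (nat_lit 304) (nat_lit 12096556306) (nat_lit 48) (nat_lit 5) (nat_lit 51) (nat_lit 5) (nat_lit 52) (nat_lit 5) (nat_lit 319) (nat_lit 293) (nat_lit 168)) (XT.nd (nat_lit 78) (nat_lit 76) (nat_lit 0) (XT.lf (nat_lit 0) (nat_lit 6859348226) (nat_lit 228) (nat_lit 30592718922) (nat_lit 304) (nat_lit 6260724871) (nat_lit 45) (nat_lit 5) (nat_lit 48) (nat_lit 5) (nat_lit 49) (nat_lit 5) (nat_lit 320) (nat_lit 293) (nat_lit 167)) (XT.lf (nat_lit 0) (nat_lit 126304996) (nat_lit 304) (nat_lit 16347516618) (nat_lit 76) (nat_lit 28646571273) (nat_lit 44) (nat_lit 5) (nat_lit 48) (nat_lit 5) (nat_lit 45) (nat_lit 5) (nat_lit 321) (nat_lit 293) (nat_lit 166))))) (XT.nd (nat_lit 156) (nat_lit 228) (nat_lit 0) (XT.nd (nat_lit 78) (nat_lit 0) (nat_lit 0) (XT.lf (nat_lit 0) (nat_lit 5244685369) (nat_lit 228) (nat_lit 1456326760) (nat_lit 304) (nat_lit 39888298564) (nat_lit 41) (nat_lit 5) (nat_lit 44)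 (nat_lit 5) (nat_lit 45) (nat_lit 5) (nat_lit 322) (nat_lit 293) (nat_lit 165)) (XT.lf (nat_lit 0) (nat_lit 14106208089) (nat_lit 304) (nat_lit 19866096995) (nat_lit 76) (nat_lit 14134286390) (nat_lit 41) (nat_lit 5) (nat_lit 45) (nat_lit 5) (nat_lit 42) (nat_lit 5) (nat_lit 323) (nat_lit 293) (nat_lit 164))) (XT.nd (nat_lit 78) (nat_lit 0) (nat_lit 0) (XT.lf (nat_lit 0) (nat_lit 2746265073) (nat_lit 228) (nat_lit 19199207680) (nat_lit 304) (nat_lit 27751077628) (nat_lit 38) (nat_lit 5) (nat_lit 41) (nat_lit 5) (nat_lit 42) (nat_lit 5) (nat_lit 324) (nat_lit 293) (nat_lit 163)) (XT.nd (nat_lit 78) (nat_lit 0) (nat_lit 0) (XT.lf (nat_lit 0) (nat_lit 27174901562) (nat_lit 228) (nat_lit 3335375734) (nat_lit 304) (nat_lit 20839055421) (nat_lit 38) (nat_lit 5) (nat_lit 41) (nat_lit 5) (nat_lit 42) (nat_lit 5) (nat_lit 325) (nat_lit 293) (nat_lit 162)) (XT.lf (nat_lit 0) (nat_lit 39708563836)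 (nat_lit 304) (nat_lit 471752362) (nat_lit 76) (nat_lit 12894179995) (nat_lit 38) (nat_lit 5) (nat_lit 42) (nat_lit 5) (nat_lit 39) (nat_lit 5) (nat_lit 326) (nat_lit 293) (nat_lit 161)))))) (XT.nd (nat_lit 390) (nat_lit 380) (nat_lit 0) (XT.nd (nat_lit 156) (nat_lit 380) (nat_lit 0) (XT.nd (nat_lit 78) (nat_lit 76) (nat_lit 0) (XT.lf (nat_lit 0) (nat_lit 25162963769) (nat_lit 152) (nat_lit 24648727904) (nat_lit 228) (nat_lit 5051983734) (nat_lit 36) (nat_lit 5) (nat_lit 38) (nat_lit 5) (nat_lit 39) (nat_lit 5) (nat_lit 327) (nat_lit 293) (nat_lit 160)) (XT.lf (nat_lit 0) (nat_lit 3565479716) (nat_lit 228) (nat_lit 4707488328) (nat_lit 76) (nat_lit 48466201881) (nat_lit 35) (nat_lit 5) (nat_lit 38) (nat_lit 5) (nat_lit 36) (nat_lit 5) (nat_lit 328) (nat_lit 293) (nat_lit 159))) (XT.nd (nat_lit 78) (nat_lit 152) (nat_lit 0) (XT.lf (nat_lit 0) (nat_lit 12933817680) (nat_lit 304) (nat_lit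 36675290402) (nat_lit 76) (nat_lit 9070704442) (nat_lit 32) (nat_lit 5) (nat_lit 36) (nat_lit 5) (nat_lit 33) (nat_lit 5) (nat_lit 329) (nat_lit 293) (nat_lit 158)) (XT.nd (nat_lit 78) (nat_lit 152) (nat_lit 0) (XT.lf (nat_lit 0) (nat_lit 22984797865) (nat_lit 304) (nat_lit 10638547446) (nat_lit 76) (nat_lit 27083433896) (nat_lit 32) (nat_lit 5) (nat_lit 36) (nat_lit 5) (nat_lit 33) (nat_lit 5) (nat_lit 330) (nat_lit 293) (nat_lit 157)) (XT.lf (nat_lit 0) (nat_lit 17248587102) (nat_lit 152) (nat_lit 16556726701) (nat_lit 228) (nat_lit 29016434151) (nat_lit 30) (nat_lit 5) (nat_lit 32) (nat_lit 5) (nat_lit 33) (nat_lit 5) (nat_lit 331) (nat_lit 293) (nat_lit 156))))) (XT.nd (nat_lit 156) (nat_lit 228) (nat_lit 0) (XT.nd (nat_lit 78) (nat_lit 152) (nat_lit 0) (XT.lf (nat_lit 0) (nat_lit 45368987310) (nat_lit 228) (nat_lit 18161817811) (nat_lit 76) (nat_lit 1501556351) (nat_lit 30) (nat_lit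 5) (nat_lit 33) (nat_lit 5) (nat_lit 31) (nat_lit 5) (nat_lit 332) (nat_lit 293) (nat_lit 155)) (XT.lf (nat_lit 0) (nat_lit 10687353130) (nat_lit 152) (nat_lit 47259606458) (nat_lit 228) (nat_lit 9384743105) (nat_lit 28) (nat_lit 5) (nat_lit 30) (nat_lit 5) (nat_lit 31) (nat_lit 5) (nat_lit 333) (nat_lit 293) (nat_lit 154))) (XT.nd (nat_lit 78) (nat_lit 152) (nat_lit 0) (XT.lf (nat_lit 0) (nat_lit 1673229757) (nat_lit 228) (nat_lit 28151533106) (nat_lit 76) (nat_lit 39904628172) (nat_lit 27) (nat_lit 5) (nat_lit 30) (nat_lit 5) (nat_lit 28) (nat_lit 5) (nat_lit 334) (nat_lit 293) (nat_lit 153)) (XT.nd (nat_lit 78) (nat_lit 0) (nat_lit 0) (XT.lf (nat_lit 0) (nat_lit 1662034532) (nat_lit 152) (nat_lit 11330577140) (nat_lit 228) (nat_lit 59245467146) (nat_lit 25) (nat_lit 5) (nat_lit 27) (nat_lit 5) (nat_lit 28) (nat_lit 5) (nat_lit 335) (nat_lit 293) (nat_lit 152)) (XT.lf (nat_lit 0) (nat_lit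 25486799279) (nat_lit 228) (nat_lit 41042090412) (nat_lit 76) (nat_lit 8312871759) (nat_lit 25) (nat_lit 5) (nat_lit 28) (nat_lit 5) (nat_lit 26) (nat_lit 5) (nat_lit 336) (nat_lit 293) (nat_lit 151))))))))
noncomputable def xc197 : XT := (XT.nd (nat_lit 1560) (nat_lit 532) (nat_lit 0) (XT.nd (nat_lit 780) (nat_lit 456) (nat_lit 0) (XT.nd (nat_lit 390) (nat_lit 228) (nat_lit 0) (XT.nd (nat_lit 156) (nat_lit 152) (nat_lit 0) (XT.nd (nat_lit 78) (nat_lit 152) (nat_lit 0) (XT.lf (nat_lit 0) (nat_lit 38789519352) (nat_lit 228) (nat_lit 10220298946) (nat_lit 76) (nat_lit 28556620940) (nat_lit 25) (nat_lit 5) (nat_lit 28) (nat_lit 5) (nat_lit 26) (nat_lit 5) (nat_lit 337) (nat_lit 293) (nat_lit 150)) (XT.lf (nat_lit 0) (nat_lit 22871653127) (nat_lit 152) (nat_lit 30240980447) (nat_lit 228) (nat_lit 27296956512) (nat_lit 23) (nat_lit 5) (nat_lit 25) (nat_lit 5) (nat_lit 26) (nat_lit 5) (nat_lit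 338) (nat_lit 293) (nat_lit 149))) (XT.nd (nat_lit 78) (nat_lit 152) (nat_lit 0) (XT.lf (nat_lit 0) (nat_lit 57970111623) (nat_lit 152) (nat_lit 10353086854) (nat_lit 228) (nat_lit 15063137227) (nat_lit 23) (nat_lit 5) (nat_lit 25) (nat_lit 5) (nat_lit 26) (nat_lit 5) (nat_lit 339) (nat_lit 293) (nat_lit 148)) (XT.nd (nat_lit 78) (nat_lit 76) (nat_lit 0) (XT.lf (nat_lit 0) (nat_lit 8413624220) (nat_lit 76) (nat_lit 76174695791) (nat_lit 152) (nat_lit 1908899056) (nat_lit 22) (nat_lit 5) (nat_lit 23) (nat_lit 5) (nat_lit 24) (nat_lit 4) (nat_lit 340) (nat_lit 293) (nat_lit 147)) (XT.lf (nat_lit 0) (nat_lit 12127580874) (nat_lit 152) (nat_lit 45290245809) (nat_lit 76) (nat_lit 32306254533) (nat_lit 21) (nat_lit 5) (nat_lit 23) (nat_lit 5) (nat_lit 22) (nat_lit 5) (nat_lit 341) (nat_lit 293) (nat_lit 146))))) (XT.nd (nat_lit 156) (nat_lit 76) (nat_lit 0) (XT.nd (nat_lit 78) (nat_lit 152)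 (nat_lit 0) (XT.lf (nat_lit 0) (nat_lit 26800101567) (nat_lit 152) (nat_lit 10891247326) (nat_lit 76) (nat_lit 55419456120) (nat_lit 21) (nat_lit 5) (nat_lit 23) (nat_lit 5) (nat_lit 22) (nat_lit 5) (nat_lit 342) (nat_lit 293) (nat_lit 145)) (XT.lf (nat_lit 0) (nat_lit 26059162171) (nat_lit 152) (nat_lit 16552388664) (nat_lit 228) (nat_lit 54035050587) (nat_lit 19) (nat_lit 5) (nat_lit 21) (nat_lit 5) (nat_lit 22) (nat_lit 5) (nat_lit 343) (nat_lit 293) (nat_lit 144))) (XT.nd (nat_lit 78) (nat_lit 76) (nat_lit 0) (XT.lf (nat_lit 0) (nat_lit 59487620017) (nat_lit 228) (nat_lit 35208502796) (nat_lit 76) (nat_lit 5649363942) (nat_lit 19) (nat_lit 5) (nat_lit 22) (nat_lit 5) (nat_lit 20) (nat_lit 4) (nat_lit 344) (nat_lit 293) (nat_lit 143)) (XT.nd (nat_lit 78) (nat_lit 0) (nat_lit 0) (XT.lf (nat_lit 0) (nat_lit 1720610288) (nat_lit 76) (nat_lit 75783633695) (nat_lit 152) (nat_lit 26710236210)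 (nat_lit 18) (nat_lit 5) (nat_lit 19) (nat_lit 5) (nat_lit 20) (nat_lit 4) (nat_lit 345) (nat_lit 293) (nat_lit 142)) (XT.lf (nat_lit 0) (nat_lit 41716089065) (nat_lit 76) (nat_lit 55300451671) (nat_lit 152) (nat_lit 11230641825) (nat_lit 18) (nat_lit 5) (nat_lit 19) (nat_lit 5) (nat_lit 20) (nat_lit 4) (nat_lit 346) (nat_lit 293) (nat_lit 141)))))) (XT.nd (nat_lit 390) (nat_lit 152) (nat_lit 0) (XT.nd (nat_lit 156) (nat_lit 76) (nat_lit 0) (XT.nd (nat_lit 78) (nat_lit 152) (nat_lit 0) (XT.lf (nat_lit 0) (nat_lit 4860780216) (nat_lit 152) (nat_lit 28850980412) (nat_lit 76) (nat_lit 78765908875) (nat_lit 17) (nat_lit 5) (nat_lit 19) (nat_lit 5) (nat_lit 18) (nat_lit 5) (nat_lit 347) (nat_lit 293) (nat_lit 140)) (XT.lf (nat_lit 0) (nat_lit 10874825001) (nat_lit 152) (nat_lit 10672990824) (nat_lit 228) (nat_lit 95354237395) (nat_lit 15) (nat_lit 5) (nat_lit 17) (nat_lit 5) (nat_lit 18)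 (nat_lit 5) (nat_lit 348) (nat_lit 293) (nat_lit 139))) (XT.nd (nat_lit 78) (nat_lit 76) (nat_lit 0) (XT.lf (nat_lit 0) (nat_lit 39775560526) (nat_lit 228) (nat_lit 68156004953) (nat_lit 76) (nat_lit 13580773880) (nat_lit 15) (nat_lit 5) (nat_lit 18) (nat_lit 5) (nat_lit 16) (nat_lit 4) (nat_lit 349) (nat_lit 293) (nat_lit 138)) (XT.nd (nat_lit 78) (nat_lit 76) (nat_lit 0) (XT.lf (nat_lit 0) (nat_lit 59088414400) (nat_lit 228) (nat_lit 28568360250) (nat_lit 76) (nat_lit 38687680104) (nat_lit 15) (nat_lit 5) (nat_lit 18) (nat_lit 5) (nat_lit 16) (nat_lit 4) (nat_lit 350) (nat_lit 293) (nat_lit 137)) (XT.lf (nat_lit 0) (nat_lit 13426323689) (nat_lit 76) (nat_lit 66149023987) (nat_lit 152) (nat_lit 51832407408) (nat_lit 14) (nat_lit 5) (nat_lit 15) (nat_lit 5) (nat_lit 16) (nat_lit 4) (nat_lit 351) (nat_lit 293) (nat_lit 136))))) (XT.nd (nat_lit 156) (nat_lit 152) (nat_lit 0) (XT.nd (nat_lit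 78) (nat_lit 0) (nat_lit 0) (XT.lf (nat_lit 0) (nat_lit 58510534955) (nat_lit 76) (nat_lit 43058750517) (nat_lit 152) (nat_lit 35130803017) (nat_lit 14) (nat_lit 5) (nat_lit 15) (nat_lit 5) (nat_lit 16) (nat_lit 4) (nat_lit 352) (nat_lit 293) (nat_lit 135)) (XT.lf (nat_lit 0) (nat_lit 105847017898) (nat_lit 76) (nat_lit 18814796404) (nat_lit 152) (nat_lit 17595280460) (nat_lit 14) (nat_lit 5) (nat_lit 15) (nat_lit 5) (nat_lit 16) (nat_lit 4) (nat_lit 353) (nat_lit 293) (nat_lit 134))) (XT.nd (nat_lit 78) (nat_lit 0) (nat_lit 0) (XT.lf (nat_lit 0) (nat_lit 1015712296) (nat_lit 152) (nat_lit 140501361356) (nat_lit 76) (nat_lit 6562998532) (nat_lit 12) (nat_lit 5) (nat_lit 14) (nat_lit 5) (nat_lit 13) (nat_lit 4) (nat_lit 354) (nat_lit 293) (nat_lit 133)) (XT.nd (nat_lit 78) (nat_lit 0) (nat_lit 0) (XT.lf (nat_lit 0) (nat_lit 20900046261) (nat_lit 152) (nat_lit 99741242009) (nat_lit 76)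 (nat_lit 33491783212) (nat_lit 12) (nat_lit 5) (nat_lit 14) (nat_lit 5) (nat_lit 13) (nat_lit 4) (nat_lit 355) (nat_lit 293) (nat_lit 132)) (XT.lf (nat_lit 0) (nat_lit 41777585738) (nat_lit 152) (nat_lit 56944919681) (nat_lit 76) (nat_lit 61766266629) (nat_lit 12) (nat_lit 5) (nat_lit 14) (nat_lit 5) (nat_lit 13) (nat_lit 4) (nat_lit 356) (nat_lit 293) (nat_lit 131))))))) (XT.nd (nat_lit 780) (nat_lit 228) (nat_lit 0) (XT.nd (nat_lit 390) (nat_lit 228) (nat_lit 0) (XT.nd (nat_lit 156) (nat_lit 0) (nat_lit 0) (XT.nd (nat_lit 78) (nat_lit 76) (nat_lit 0) (XT.lf (nat_lit 0) (nat_lit 63698039156) (nat_lit 152) (nat_lit 12010498366) (nat_lit 76) (nat_lit 91453768983) (nat_lit 12) (nat_lit 5) (nat_lit 14) (nat_lit 5) (nat_lit 13) (nat_lit 4) (nat_lit 357) (nat_lit 293) (nat_lit 130)) (XT.lf (nat_lit 0) (nat_lit 36331854905) (nat_lit 76) (nat_lit 50948985238) (nat_lit 152) (nat_lit 86860361972)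 (nat_lit 11) (nat_lit 5) (nat_lit 12) (nat_lit 5) (nat_lit 13) (nat_lit 4) (nat_lit 358) (nat_lit 293) (nat_lit 129))) (XT.nd (nat_lit 78) (nat_lit 0) (nat_lit 0) (XT.lf (nat_lit 0) (nat_lit 87506694238) (nat_lit 76) (nat_lit 24738591923) (nat_lit 152) (nat_lit 69213631739) (nat_lit 11) (nat_lit 5) (nat_lit 12) (nat_lit 5) (nat_lit 13) (nat_lit 4) (nat_lit 359) (nat_lit 293) (nat_lit 128)) (XT.nd (nat_lit 78) (nat_lit 0) (nat_lit 0) (XT.lf (nat_lit 0) (nat_lit 138500527917) (nat_lit 152) (nat_lit 47947248974) (nat_lit 0) (nat_lit 2692614524) (nat_lit 11) (nat_lit 5) (nat_lit 13) (nat_lit 4) (nat_lit 11) (nat_lit 4) (nat_lit 360) (nat_lit 293) (nat_lit 127)) (XT.lf (nat_lit 0) (nat_lit 166473257313) (nat_lit 152) (nat_lit 49066914) (nat_lit 0) (nat_lit 30663378687) (nat_lit 11) (nat_lit 5) (nat_lit 13) (nat_lit 4) (nat_lit 11) (nat_lit 4) (nat_lit 361) (nat_lit 293) (nat_lit 126)))))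 (XT.nd (nat_lit 156) (nat_lit 76) (nat_lit 0) (XT.nd (nat_lit 78) (nat_lit 76) (nat_lit 0) (XT.lf (nat_lit 0) (nat_lit 51903851967) (nat_lit 76) (nat_lit 144750349958) (nat_lit 76) (nat_lit 8938599681) (nat_lit 10) (nat_lit 4) (nat_lit 11) (nat_lit 5) (nat_lit 11) (nat_lit 4) (nat_lit 362) (nat_lit 293) (nat_lit 125)) (XT.lf (nat_lit 0) (nat_lit 13478346770) (nat_lit 152) (nat_lit 108182921921) (nat_lit 76) (nat_lit 92748114398) (nat_lit 9) (nat_lit 5) (nat_lit 11) (nat_lit 5) (nat_lit 10) (nat_lit 4) (nat_lit 363) (nat_lit 293) (nat_lit 124))) (XT.nd (nat_lit 78) (nat_lit 76) (nat_lit 0) (XT.lf (nat_lit 0) (nat_lit 36714998916) (nat_lit 152) (nat_lit 60549482665) (nat_lit 76) (nat_lit 126395023129) (nat_lit 9) (nat_lit 5) (nat_lit 11) (nat_lit 5) (nat_lit 10) (nat_lit 4) (nat_lit 364) (nat_lit 293) (nat_lit 123)) (XT.nd (nat_lit 78) (nat_lit 76) (nat_lit 0) (XT.lf (nat_lit 0) (nat_lit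 61112773130) (nat_lit 152) (nat_lit 10535662329) (nat_lit 76) (nat_lit 161723732937) (nat_lit 9) (nat_lit 5) (nat_lit 11) (nat_lit 5) (nat_lit 10) (nat_lit 4) (nat_lit 365) (nat_lit 293) (nat_lit 122)) (XT.lf (nat_lit 0) (nat_lit 43365589292) (nat_lit 76) (nat_lit 44041228439) (nat_lit 152) (nat_lit 156129828888) (nat_lit 8) (nat_lit 5) (nat_lit 9) (nat_lit 5) (nat_lit 10) (nat_lit 4) (nat_lit 366) (nat_lit 293) (nat_lit 121)))))) (XT.nd (nat_lit 390) (nat_lit 152) (nat_lit 0) (XT.nd (nat_lit 156) (nat_lit 76) (nat_lit 0) (XT.nd (nat_lit 78) (nat_lit 0) (nat_lit 0) (XT.lf (nat_lit 0) (nat_lit 100326468317) (nat_lit 76) (nat_lit 14866859420) (nat_lit 152) (nat_lit 139007133271) (nat_lit 8) (nat_lit 5) (nat_lit 9) (nat_lit 5) (nat_lit 10) (nat_lit 4) (nat_lit 367) (nat_lit 293) (nat_lit 120)) (XT.lf (nat_lit 0) (nat_lit 144614678351) (nat_lit 152) (nat_lit 105509405674) (nat_lit 0) (nat_lit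 15261106732) (nat_lit 8) (nat_lit 5) (nat_lit 10) (nat_lit 4) (nat_lit 8) (nat_lit 4) (nat_lit 368) (nat_lit 293) (nat_lit 119))) (XT.nd (nat_lit 78) (nat_lit 76) (nat_lit 0) (XT.lf (nat_lit 0) (nat_lit 175750206075) (nat_lit 152) (nat_lit 54971428166) (nat_lit 0) (nat_lit 46395367650) (nat_lit 8) (nat_lit 5) (nat_lit 10) (nat_lit 4) (nat_lit 8) (nat_lit 4) (nat_lit 369) (nat_lit 293) (nat_lit 118)) (XT.nd (nat_lit 78) (nat_lit 76) (nat_lit 0) (XT.lf (nat_lit 0) (nat_lit 208441929779) (nat_lit 152) (nat_lit 1907618310) (nat_lit 0) (nat_lit 79085884871) (nat_lit 8) (nat_lit 5) (nat_lit 10) (nat_lit 4) (nat_lit 8) (nat_lit 4) (nat_lit 370) (nat_lit 293) (nat_lit 117)) (XT.lf (nat_lit 0) (nat_lit 55587513894) (nat_lit 76) (nat_lit 188048049882) (nat_lit 76) (nat_lit 58690855943) (nat_lit 7) (nat_lit 4) (nat_lit 8) (nat_lit 5) (nat_lit 8) (nat_lit 4) (nat_lit 371) (nat_lit 293) (nat_lit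 116))))) (XT.nd (nat_lit 234) (nat_lit 76) (nat_lit 0) (XT.nd (nat_lit 78) (nat_lit 76) (nat_lit 0) (XT.lf (nat_lit 0) (nat_lit 116022631553) (nat_lit 76) (nat_lit 164598012311) (nat_lit 76) (nat_lit 35239724057) (nat_lit 7) (nat_lit 4) (nat_lit 8) (nat_lit 5) (nat_lit 8) (nat_lit 4) (nat_lit 372) (nat_lit 293) (nat_lit 115)) (XT.nd (nat_lit 78) (nat_lit 76) (nat_lit 0) (XT.lf (nat_lit 0) (nat_lit 179478553326) (nat_lit 76) (nat_lit 139975908394) (nat_lit 76) (nat_lit 10616577935) (nat_lit 7) (nat_lit 4) (nat_lit 8) (nat_lit 5) (nat_lit 8) (nat_lit 4) (nat_lit 373) (nat_lit 293) (nat_lit 114)) (XT.lf (nat_lit 0) (nat_lit 14749523116) (nat_lit 152) (nat_lit 99123800646) (nat_lit 76) (nat_lit 231107051314) (nat_lit 6) (nat_lit 5) (nat_lit 8) (nat_lit 5) (nat_lit 7) (nat_lit 4) (nat_lit 374) (nat_lit 293) (nat_lit 113)))) (XT.nd (nat_lit 78) (nat_lit 76) (nat_lit 0) (XT.lf (nat_lit 0) (nat_lit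 41026666395) (nat_lit 152) (nat_lit 45256602235) (nat_lit 76) (nat_lit 274343230603) (nat_lit 6) (nat_lit 5) (nat_lit 8) (nat_lit 5) (nat_lit 7) (nat_lit 4) (nat_lit 375) (nat_lit 293) (nat_lit 112)) (XT.nd (nat_lit 78) (nat_lit 0) (nat_lit 0) (XT.lf (nat_lit 0) (nat_lit 11676850823) (nat_lit 76) (nat_lit 57122670867) (nat_lit 152) (nat_lit 308246315419) (nat_lit 5) (nat_lit 5) (nat_lit 6) (nat_lit 5) (nat_lit 7) (nat_lit 4) (nat_lit 376) (nat_lit 293) (nat_lit 111)) (XT.lf (nat_lit 0) (nat_lit 73027359655) (nat_lit 76) (nat_lit 25699657770) (nat_lit 152) (nat_lit 295520824813) (nat_lit 5) (nat_lit 5) (nat_lit 6) (nat_lit 5) (nat_lit 7) (nat_lit 4) (nat_lit 377) (nat_lit 293) (nat_lit 110))))))))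
noncomputable def xc198 : XT := (XT.nd (nat_lit 35334) (nat_lit 0) (nat_lit 2052) (XT.nd (nat_lit 34554) (nat_lit 0) (nat_lit 4712) (XT.nd (nat_lit 34164) (nat_lit 0) (nat_lit 6004) (XT.nd (nat_lit 156) (nat_lit 0) (nat_lit 0) (XT.nd (nat_lit 78) (nat_lit 0) (nat_lit 0) (XT.lf (nat_lit 0) (nat_lit 130264346389) (nat_lit 152) (nat_lit 274979241833) (nat_lit 0) (nat_lit 7060686711) (nat_lit 5) (nat_lit 5) (nat_lit 7) (nat_lit 4) (nat_lit 5) (nat_lit 4) (nat_lit 378) (nat_lit 293) (nat_lit 109)) (XT.lf (nat_lit 0) (nat_lit 163799438867) (nat_lit 152) (nat_lit 226848007248) (nat_lit 0) (nat_lit 40595038513) (nat_lit 5) (nat_lit 5) (nat_lit 7) (nat_lit 4) (nat_lit 5) (nat_lit 4) (nat_lit 379) (nat_lit 293) (nat_lit 108))) (XT.nd (nat_lit 78) (nat_lit 0) (nat_lit 0) (XT.lf (nat_lit 0) (nat_lit 199010896637) (nat_lit 152) (nat_lit 176310936972) (nat_lit 0) (nat_lit 75805790877) (nat_lit 5)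 (nat_lit 5) (nat_lit 7) (nat_lit 4) (nat_lit 5) (nat_lit 4) (nat_lit 380) (nat_lit 293) (nat_lit 107)) (XT.nd (nat_lit 33852) (nat_lit 0) (nat_lit 6004) (XT.lf (nat_lit 0) (nat_lit 235982556502) (nat_lit 152) (nat_lit 123247704646) (nat_lit 0) (nat_lit 112776778927) (nat_lit 5) (nat_lit 5) (nat_lit 7) (nat_lit 4) (nat_lit 5) (nat_lit 4) (nat_lit 381) (nat_lit 293) (nat_lit 106)) (XT.lf (nat_lit 0) (nat_lit 3539306913) (nat_lit 0) (nat_lit 3539306913) (nat_lit 684) (nat_lit 3717755658) (nat_lit 84) (nat_lit 5) (nat_lit 84) (nat_lit 3) (nat_lit 93) (nat_lit 3) (nat_lit 294) (nat_lit 294) (nat_lit 192))))) (XT.nd (nat_lit 156) (nat_lit 0) (nat_lit 0) (XT.nd (nat_lit 78) (nat_lit 0) (nat_lit 0) (XT.lf (nat_lit 0) (nat_lit 14683680098) (nat_lit 684) (nat_lit 4910172656) (nat_lit 760) (nat_lit 2529772627) (nat_lit 84) (nat_lit 5) (nat_lit 93) (nat_lit 3) (nat_lit 94) (nat_lit 5) (nat_lit 295)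 (nat_lit 294) (nat_lit 191)) (XT.lf (nat_lit 76) (nat_lit 5220293787) (nat_lit 0) (nat_lit 10205341805) (nat_lit 760) (nat_lit 7245981087) (nat_lit 85) (nat_lit 5) (nat_lit 84) (nat_lit 5) (nat_lit 94) (nat_lit 5) (nat_lit 296) (nat_lit 294) (nat_lit 190))) (XT.nd (nat_lit 78) (nat_lit 0) (nat_lit 76) (XT.lf (nat_lit 76) (nat_lit 16023107016) (nat_lit 0) (nat_lit 256697984) (nat_lit 760) (nat_lit 6963465390) (nat_lit 85) (nat_lit 5) (nat_lit 84) (nat_lit 5) (nat_lit 94) (nat_lit 5) (nat_lit 297) (nat_lit 294) (nat_lit 189)) (XT.nd (nat_lit 78) (nat_lit 0) (nat_lit 0) (XT.lf (nat_lit 76) (nat_lit 3469643166) (nat_lit 0) (nat_lit 13912688615) (nat_lit 760) (nat_lit 6450910325) (nat_lit 86) (nat_lit 5) (nat_lit 85) (nat_lit 5) (nat_lit 95) (nat_lit 5) (nat_lit 298) (nat_lit 294) (nat_lit 188)) (XT.lf (nat_lit 76) (nat_lit 14935462694) (nat_lit 0) (nat_lit 3723620075) (nat_lit 760) (nat_lit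 5787691663) (nat_lit 86) (nat_lit 5) (nat_lit 85) (nat_lit 5) (nat_lit 95) (nat_lit 5) (nat_lit 299) (nat_lit 294) (nat_lit 187)))))) (XT.nd (nat_lit 390) (nat_lit 760) (nat_lit 0) (XT.nd (nat_lit 156) (nat_lit 684) (nat_lit 0) (XT.nd (nat_lit 78) (nat_lit 0) (nat_lit 0) (XT.lf (nat_lit 76) (nat_lit 1828235523) (nat_lit 0) (nat_lit 18301944086) (nat_lit 760) (nat_lit 4954294466) (nat_lit 87) (nat_lit 5) (nat_lit 86) (nat_lit 5) (nat_lit 96) (nat_lit 5) (nat_lit 300) (nat_lit 294) (nat_lit 186)) (XT.lf (nat_lit 76) (nat_lit 13997018807) (nat_lit 0) (nat_lit 7892269986) (nat_lit 760) (nat_lit 3854062377) (nat_lit 87) (nat_lit 5) (nat_lit 86) (nat_lit 5) (nat_lit 96) (nat_lit 5) (nat_lit 301) (nat_lit 294) (nat_lit 185))) (XT.nd (nat_lit 78) (nat_lit 760) (nat_lit 0) (XT.lf (nat_lit 76) (nat_lit 296098532) (nat_lit 0) (nat_lit 23485972886) (nat_lit 760) (nat_lit 2650829418) (nat_lit 88)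 (nat_lit 5) (nat_lit 87) (nat_lit 5) (nat_lit 97) (nat_lit 5) (nat_lit 302) (nat_lit 294) (nat_lit 184)) (XT.nd (nat_lit 78) (nat_lit 760) (nat_lit 0) (XT.lf (nat_lit 76) (nat_lit 13209860966) (nat_lit 0) (nat_lit 12879746405) (nat_lit 760) (nat_lit 1051328824) (nat_lit 88) (nat_lit 5) (nat_lit 87) (nat_lit 5) (nat_lit 97) (nat_lit 5) (nat_lit 303) (nat_lit 294) (nat_lit 183)) (XT.lf (nat_lit 0) (nat_lit 602114610) (nat_lit 760) (nat_lit 1129779200) (nat_lit 836) (nat_lit 26152298160) (nat_lit 77) (nat_lit 5) (nat_lit 87) (nat_lit 5) (nat_lit 88) (nat_lit 5) (nat_lit 304) (nat_lit 294) (nat_lit 182))))) (XT.nd (nat_lit 156) (nat_lit 836) (nat_lit 0) (XT.nd (nat_lit 78) (nat_lit 0) (nat_lit 0) (XT.lf (nat_lit 0) (nat_lit 2654733008) (nat_lit 760) (nat_lit 16117368914) (nat_lit 76) (nat_lit 9874067174) (nat_lit 78) (nat_lit 5) (nat_lit 88) (nat_lit 5) (nat_lit 79) (nat_lit 5) (nat_lit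 305) (nat_lit 294) (nat_lit 181)) (XT.lf (nat_lit 0) (nat_lit 4852385962) (nat_lit 760) (nat_lit 2569359970) (nat_lit 76) (nat_lit 22022390416) (nat_lit 78) (nat_lit 5) (nat_lit 88) (nat_lit 5) (nat_lit 79) (nat_lit 5) (nat_lit 306) (nat_lit 294) (nat_lit 180))) (XT.nd (nat_lit 78) (nat_lit 380) (nat_lit 0) (XT.lf (nat_lit 0) (nat_lit 7415956737) (nat_lit 532) (nat_lit 18309529349) (nat_lit 76) (nat_lit 4543725023) (nat_lit 72) (nat_lit 5) (nat_lit 79) (nat_lit 5) (nat_lit 73) (nat_lit 5) (nat_lit 307) (nat_lit 294) (nat_lit 179)) (XT.nd (nat_lit 78) (nat_lit 380) (nat_lit 0) (XT.lf (nat_lit 0) (nat_lit 10268605696) (nat_lit 532) (nat_lit 3956223806) (nat_lit 76) (nat_lit 16902675513) (nat_lit 72) (nat_lit 5) (nat_lit 79) (nat_lit 5) (nat_lit 73) (nat_lit 5) (nat_lit 308) (nat_lit 294) (nat_lit 178)) (XT.lf (nat_lit 0) (nat_lit 11477472558) (nat_lit 380) (nat_lit 1960852904) (nat_lit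 456) (nat_lit 18581676127) (nat_lit 67) (nat_lit 5) (nat_lit 72) (nat_lit 5) (nat_lit 73) (nat_lit 5) (nat_lit 309) (nat_lit 294) (nat_lit 177))))))) (XT.nd (nat_lit 780) (nat_lit 1216) (nat_lit 0) (XT.nd (nat_lit 390) (nat_lit 836) (nat_lit 0) (XT.nd (nat_lit 156) (nat_lit 304) (nat_lit 0) (XT.nd (nat_lit 78) (nat_lit 304) (nat_lit 0) (XT.lf (nat_lit 0) (nat_lit 17000463666) (nat_lit 456) (nat_lit 5309891781) (nat_lit 76) (nat_lit 10635080344) (nat_lit 67) (nat_lit 5) (nat_lit 73) (nat_lit 5) (nat_lit 68) (nat_lit 5) (nat_lit 310) (nat_lit 294) (nat_lit 176)) (XT.lf (nat_lit 0) (nat_lit 10999729423) (nat_lit 304) (nat_lit 9940479306) (nat_lit 380) (nat_lit 12966966950) (nat_lit 63) (nat_lit 5) (nat_lit 67) (nat_lit 5) (nat_lit 68) (nat_lit 5) (nat_lit 311) (nat_lit 294) (nat_lit 175))) (XT.nd (nat_lit 78) (nat_lit 304) (nat_lit 0) (XT.lf (nat_lit 0) (nat_lit 25211679878) (nat_lit 380)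 (nat_lit 6657093533) (nat_lit 76) (nat_lit 3041500752) (nat_lit 63) (nat_lit 5) (nat_lit 68) (nat_lit 5) (nat_lit 64) (nat_lit 5) (nat_lit 312) (nat_lit 294) (nat_lit 174)) (XT.nd (nat_lit 78) (nat_lit 0) (nat_lit 0) (XT.lf (nat_lit 0) (nat_lit 10576861792) (nat_lit 304) (nat_lit 19443911108) (nat_lit 380) (nat_lit 5926560396) (nat_lit 59) (nat_lit 5) (nat_lit 63) (nat_lit 5) (nat_lit 64) (nat_lit 5) (nat_lit 313) (nat_lit 294) (nat_lit 173)) (XT.lf (nat_lit 0) (nat_lit 28899224441) (nat_lit 304) (nat_lit 6279916177) (nat_lit 380) (nat_lit 1851671515) (nat_lit 59) (nat_lit 5) (nat_lit 63) (nat_lit 5) (nat_lit 64) (nat_lit 5) (nat_lit 314) (nat_lit 294) (nat_lit 172))))) (XT.nd (nat_lit 156) (nat_lit 532) (nat_lit 0) (XT.nd (nat_lit 78) (nat_lit 0) (nat_lit 0) (XT.lf (nat_lit 0) (nat_lit 2626588152) (nat_lit 304) (nat_lit 28024507507) (nat_lit 76) (nat_lit 7501616486) (nat_lit 55) (nat_lit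 5) (nat_lit 59) (nat_lit 5) (nat_lit 56) (nat_lit 5) (nat_lit 315) (nat_lit 294) (nat_lit 171)) (XT.lf (nat_lit 0) (nat_lit 7505754755) (nat_lit 304) (nat_lit 9880531621) (nat_lit 76) (nat_lit 21930948600) (nat_lit 55) (nat_lit 5) (nat_lit 59) (nat_lit 5) (nat_lit 56) (nat_lit 5) (nat_lit 316) (nat_lit 294) (nat_lit 170))) (XT.nd (nat_lit 78) (nat_lit 228) (nat_lit 0) (XT.lf (nat_lit 0) (nat_lit 9469492890) (nat_lit 304) (nat_lit 3303711035) (nat_lit 380) (nat_lit 27759570190) (nat_lit 51) (nat_lit 5) (nat_lit 55) (nat_lit 5) (nat_lit 56) (nat_lit 5) (nat_lit 317) (nat_lit 294) (nat_lit 169)) (XT.nd (nat_lit 78) (nat_lit 228) (nat_lit 0) (XT.lf (nat_lit 0) (nat_lit 18649951889) (nat_lit 380) (nat_lit 11857030247) (nat_lit 76) (nat_lit 11284817829) (nat_lit 51) (nat_lit 5) (nat_lit 56) (nat_lit 5) (nat_lit 52) (nat_lit 5) (nat_lit 318) (nat_lit 294) (nat_lit 168)) (XT.lf (nat_lit 0) (nat_lit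 8524073725) (nat_lit 228) (nat_lit 16480440648) (nat_lit 304) (nat_lit 18100069664) (nat_lit 48) (nat_lit 5) (nat_lit 51) (nat_lit 5) (nat_lit 52) (nat_lit 5) (nat_lit 319) (nat_lit 294) (nat_lit 167)))))) (XT.nd (nat_lit 390) (nat_lit 684) (nat_lit 0) (XT.nd (nat_lit 156) (nat_lit 304) (nat_lit 0) (XT.nd (nat_lit 78) (nat_lit 228) (nat_lit 0) (XT.lf (nat_lit 0) (nat_lit 30331824780) (nat_lit 228) (nat_lit 1542610204) (nat_lit 304) (nat_lit 12598696337) (nat_lit 48) (nat_lit 5) (nat_lit 51) (nat_lit 5) (nat_lit 52) (nat_lit 5) (nat_lit 320) (nat_lit 294) (nat_lit 166)) (XT.lf (nat_lit 0) (nat_lit 7329646369) (nat_lit 228) (nat_lit 32090403074) (nat_lit 304) (nat_lit 6473451881) (nat_lit 45) (nat_lit 5) (nat_lit 48) (nat_lit 5) (nat_lit 49) (nat_lit 5) (nat_lit 321) (nat_lit 294) (nat_lit 165))) (XT.nd (nat_lit 78) (nat_lit 228) (nat_lit 0) (XT.lf (nat_lit 0) (nat_lit 225095209) (nat_lit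 304) (nat_lit 17040421096) (nat_lit 76) (nat_lit 30106126128) (nat_lit 44) (nat_lit 5) (nat_lit 48) (nat_lit 5) (nat_lit 45) (nat_lit 5) (nat_lit 322) (nat_lit 294) (nat_lit 164)) (XT.nd (nat_lit 78) (nat_lit 0) (nat_lit 0) (XT.lf (nat_lit 0) (nat_lit 5629383387) (nat_lit 228) (nat_lit 1496662744) (nat_lit 304) (nat_lit 41788091546) (nat_lit 41) (nat_lit 5) (nat_lit 44) (nat_lit 5) (nat_lit 45) (nat_lit 5) (nat_lit 323) (nat_lit 294) (nat_lit 163)) (XT.lf (nat_lit 0) (nat_lit 14897699928) (nat_lit 304) (nat_lit 20738834997) (nat_lit 76) (nat_lit 14870944309) (nat_lit 41) (nat_lit 5) (nat_lit 45) (nat_lit 5) (nat_lit 42) (nat_lit 5) (nat_lit 324) (nat_lit 294) (nat_lit 162))))) (XT.nd (nat_lit 234) (nat_lit 456) (nat_lit 0) (XT.nd (nat_lit 78) (nat_lit 0) (nat_lit 0) (XT.lf (nat_lit 0) (nat_lit 3002200548) (nat_lit 228) (nat_lit 20124475424) (nat_lit 304) (nat_lit 29050379027) (nat_lit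 38) (nat_lit 5) (nat_lit 41) (nat_lit 5) (nat_lit 42) (nat_lit 5) (nat_lit 325) (nat_lit 294) (nat_lit 161)) (XT.nd (nat_lit 78) (nat_lit 0) (nat_lit 0) (XT.lf (nat_lit 0) (nat_lit 28646620185) (nat_lit 228) (nat_lit 3469103911) (nat_lit 304) (nat_lit 21796958209) (nat_lit 38) (nat_lit 5) (nat_lit 41) (nat_lit 5) (nat_lit 42) (nat_lit 5) (nat_lit 326) (nat_lit 294) (nat_lit 160)) (XT.lf (nat_lit 0) (nat_lit 41770609924) (nat_lit 304) (nat_lit 384316422) (nat_lit 76) (nat_lit 13569349093) (nat_lit 38) (nat_lit 5) (nat_lit 42) (nat_lit 5) (nat_lit 39) (nat_lit 5) (nat_lit 327) (nat_lit 294) (nat_lit 159)))) (XT.nd (nat_lit 78) (nat_lit 304) (nat_lit 0) (XT.lf (nat_lit 0) (nat_lit 26530344813) (nat_lit 152) (nat_lit 25846606300) (nat_lit 228) (nat_lit 5226065114) (nat_lit 36) (nat_lit 5) (nat_lit 38) (nat_lit 5) (nat_lit 39) (nat_lit 5) (nat_lit 328) (nat_lit 294) (nat_lit 158)) (XT.nd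 (nat_lit 78) (nat_lit 228) (nat_lit 0) (XT.lf (nat_lit 0) (nat_lit 3816139175) (nat_lit 228) (nat_lit 4836339008) (nat_lit 76) (nat_lit 50919931910) (nat_lit 35) (nat_lit 5) (nat_lit 38) (nat_lit 5) (nat_lit 36) (nat_lit 5) (nat_lit 329) (nat_lit 294) (nat_lit 157)) (XT.lf (nat_lit 0) (nat_lit 13651617857) (nat_lit 304) (nat_lit 38401160667) (nat_lit 76) (nat_lit 9557374823) (nat_lit 32) (nat_lit 5) (nat_lit 36) (nat_lit 5) (nat_lit 33) (nat_lit 5) (nat_lit 330) (nat_lit 294) (nat_lit 156))))))))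
noncomputable def xc199 : XT := (XT.nd (nat_lit 1560) (nat_lit 532) (nat_lit 0) (XT.nd (nat_lit 780) (nat_lit 608) (nat_lit 0) (XT.nd (nat_lit 390) (nat_lit 304) (nat_lit 0) (XT.nd (nat_lit 156) (nat_lit 228) (nat_lit 0) (XT.nd (nat_lit 78) (nat_lit 152) (nat_lit 0) (XT.lf (nat_lit 0) (nat_lit 24201760894) (nat_lit 304) (nat_lit 11067718386) (nat_lit 76) (nat_lit 28469162885) (nat_lit 32) (nat_lit 5) (nat_lit 36) (nat_lit 5) (nat_lit 33) (nat_lit 5) (nat_lit 331) (nat_lit 294) (nat_lit 155)) (XT.lf (nat_lit 0) (nat_lit 18212115528) (nat_lit 152) (nat_lit 17349540630) (nat_lit 228) (nat_lit 30397789793) (nat_lit 30) (nat_lit 5) (nat_lit 32) (nat_lit 5) (nat_lit 33) (nat_lit 5) (nat_lit 332) (nat_lit 294) (nat_lit 154))) (XT.nd (nat_lit 78) (nat_lit 228) (nat_lit 0) (XT.lf (nat_lit 0) (nat_lit 47700887593) (nat_lit 228) (nat_lit 18970916631) (nat_lit 76) (nat_lit 1608921283) (nat_lit 30)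 (nat_lit 5) (nat_lit 33) (nat_lit 5) (nat_lit 31) (nat_lit 5) (nat_lit 333) (nat_lit 294) (nat_lit 153)) (XT.nd (nat_lit 78) (nat_lit 76) (nat_lit 0) (XT.lf (nat_lit 0) (nat_lit 11319116210) (nat_lit 152) (nat_lit 49587141417) (nat_lit 228) (nat_lit 9788855085) (nat_lit 28) (nat_lit 5) (nat_lit 30) (nat_lit 5) (nat_lit 31) (nat_lit 5) (nat_lit 334) (nat_lit 294) (nat_lit 152)) (XT.lf (nat_lit 0) (nat_lit 1816930066) (nat_lit 228) (nat_lit 29464296664) (nat_lit 76) (nat_lit 41931561519) (nat_lit 27) (nat_lit 5) (nat_lit 30) (nat_lit 5) (nat_lit 28) (nat_lit 5) (nat_lit 335) (nat_lit 294) (nat_lit 151))))) (XT.nd (nat_lit 156) (nat_lit 152) (nat_lit 0) (XT.nd (nat_lit 78) (nat_lit 0) (nat_lit 0) (XT.lf (nat_lit 0) (nat_lit 1838420113) (nat_lit 152) (nat_lit 11862458396) (nat_lit 228) (nat_lit 62146105394) (nat_lit 25) (nat_lit 5) (nat_lit 27) (nat_lit 5) (nat_lit 28) (nat_lit 5) (nat_lit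 336) (nat_lit 294) (nat_lit 150)) (XT.lf (nat_lit 0) (nat_lit 26817498480) (nat_lit 228) (nat_lit 43003012300) (nat_lit 76) (nat_lit 8760456929) (nat_lit 25) (nat_lit 5) (nat_lit 28) (nat_lit 5) (nat_lit 26) (nat_lit 5) (nat_lit 337) (nat_lit 294) (nat_lit 149))) (XT.nd (nat_lit 78) (nat_lit 152) (nat_lit 0) (XT.lf (nat_lit 0) (nat_lit 40782670783) (nat_lit 228) (nat_lit 10644473291) (nat_lit 76) (nat_lit 30014872542) (nat_lit 25) (nat_lit 5) (nat_lit 28) (nat_lit 5) (nat_lit 26) (nat_lit 5) (nat_lit 338) (nat_lit 294) (nat_lit 148)) (XT.nd (nat_lit 78) (nat_lit 0) (nat_lit 0) (XT.lf (nat_lit 0) (nat_lit 24100675731) (nat_lit 152) (nat_lit 31720042968) (nat_lit 228) (nat_lit 28606670304) (nat_lit 23) (nat_lit 5) (nat_lit 25) (nat_lit 5) (nat_lit 26) (nat_lit 5) (nat_lit 339) (nat_lit 294) (nat_lit 147)) (XT.lf (nat_lit 0) (nat_lit 60949988583) (nat_lit 152) (nat_lit 10839325481) (nat_lit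 228) (nat_lit 15763785485) (nat_lit 23) (nat_lit 5) (nat_lit 25) (nat_lit 5) (nat_lit 26) (nat_lit 5) (nat_lit 340) (nat_lit 294) (nat_lit 146)))))) (XT.nd (nat_lit 390) (nat_lit 304) (nat_lit 0) (XT.nd (nat_lit 156) (nat_lit 152) (nat_lit 0) (XT.nd (nat_lit 78) (nat_lit 76) (nat_lit 0) (XT.lf (nat_lit 0) (nat_lit 8916393556) (nat_lit 76) (nat_lit 79950668034) (nat_lit 152) (nat_lit 1952499621) (nat_lit 22) (nat_lit 5) (nat_lit 23) (nat_lit 5) (nat_lit 24) (nat_lit 4) (nat_lit 341) (nat_lit 294) (nat_lit 145)) (XT.lf (nat_lit 0) (nat_lit 12781755198) (nat_lit 152) (nat_lit 47474950957) (nat_lit 76) (nat_lit 33951141710) (nat_lit 21) (nat_lit 5) (nat_lit 23) (nat_lit 5) (nat_lit 22) (nat_lit 5) (nat_lit 342) (nat_lit 294) (nat_lit 144))) (XT.nd (nat_lit 78) (nat_lit 152) (nat_lit 0) (XT.lf (nat_lit 0) (nat_lit 28185625960) (nat_lit 152) (nat_lit 11359802891) (nat_lit 76) (nat_lit 58218595069)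 (nat_lit 21) (nat_lit 5) (nat_lit 23) (nat_lit 5) (nat_lit 22) (nat_lit 5) (nat_lit 343) (nat_lit 294) (nat_lit 143)) (XT.nd (nat_lit 78) (nat_lit 0) (nat_lit 0) (XT.lf (nat_lit 0) (nat_lit 27436901165) (nat_lit 152) (nat_lit 17349746479) (nat_lit 228) (nat_lit 56690014668) (nat_lit 19) (nat_lit 5) (nat_lit 21) (nat_lit 5) (nat_lit 22) (nat_lit 5) (nat_lit 344) (nat_lit 294) (nat_lit 142)) (XT.lf (nat_lit 0) (nat_lit 62504850290) (nat_lit 228) (nat_lit 36895996890) (nat_lit 76) (nat_lit 5959730289) (nat_lit 19) (nat_lit 5) (nat_lit 22) (nat_lit 5) (nat_lit 20) (nat_lit 4) (nat_lit 345) (nat_lit 294) (nat_lit 141))))) (XT.nd (nat_lit 156) (nat_lit 228) (nat_lit 0) (XT.nd (nat_lit 78) (nat_lit 0) (nat_lit 0) (XT.lf (nat_lit 0) (nat_lit 1878395541) (nat_lit 76) (nat_lit 79542989765) (nat_lit 152) (nat_lit 28001683242) (nat_lit 18) (nat_lit 5) (nat_lit 19) (nat_lit 5) (nat_lit 20) (nat_lit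 4) (nat_lit 346) (nat_lit 294) (nat_lit 140)) (XT.lf (nat_lit 0) (nat_lit 43870231364) (nat_lit 76) (nat_lit 58037068908) (nat_lit 152) (nat_lit 11750207460) (nat_lit 18) (nat_lit 5) (nat_lit 19) (nat_lit 5) (nat_lit 20) (nat_lit 4) (nat_lit 347) (nat_lit 294) (nat_lit 139))) (XT.nd (nat_lit 78) (nat_lit 152) (nat_lit 0) (XT.lf (nat_lit 0) (nat_lit 5142508052) (nat_lit 152) (nat_lit 30227132681) (nat_lit 76) (nat_lit 82729943942) (nat_lit 17) (nat_lit 5) (nat_lit 19) (nat_lit 5) (nat_lit 18) (nat_lit 5) (nat_lit 348) (nat_lit 294) (nat_lit 138)) (XT.nd (nat_lit 78) (nat_lit 0) (nat_lit 0) (XT.lf (nat_lit 0) (nat_lit 11483892088) (nat_lit 152) (nat_lit 11179180949) (nat_lit 228) (nat_lit 100082157274) (nat_lit 15) (nat_lit 5) (nat_lit 17) (nat_lit 5) (nat_lit 18) (nat_lit 5) (nat_lit 349) (nat_lit 294) (nat_lit 137)) (XT.lf (nat_lit 0) (nat_lit 41800810113) (nat_lit 228) (nat_lit 71500164545)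 (nat_lit 76) (nat_lit 14285127377) (nat_lit 15) (nat_lit 5) (nat_lit 18) (nat_lit 5) (nat_lit 16) (nat_lit 4) (nat_lit 350) (nat_lit 294) (nat_lit 136))))))) (XT.nd (nat_lit 780) (nat_lit 228) (nat_lit 0) (XT.nd (nat_lit 390) (nat_lit 76) (nat_lit 0) (XT.nd (nat_lit 156) (nat_lit 152) (nat_lit 0) (XT.nd (nat_lit 78) (nat_lit 76) (nat_lit 0) (XT.lf (nat_lit 0) (nat_lit 62077569940) (nat_lit 228) (nat_lit 29936168114) (nat_lit 76) (nat_lit 40646173446) (nat_lit 15) (nat_lit 5) (nat_lit 18) (nat_lit 5) (nat_lit 16) (nat_lit 4) (nat_lit 351) (nat_lit 294) (nat_lit 135)) (XT.lf (nat_lit 0) (nat_lit 14157272439) (nat_lit 76) (nat_lit 69430854433) (nat_lit 152) (nat_lit 54388287517) (nat_lit 14) (nat_lit 5) (nat_lit 15) (nat_lit 5) (nat_lit 16) (nat_lit 4) (nat_lit 352) (nat_lit 294) (nat_lit 134))) (XT.nd (nat_lit 78) (nat_lit 152) (nat_lit 0) (XT.lf (nat_lit 0) (nat_lit 61492854622) (nat_lit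 76) (nat_lit 45187287326) (nat_lit 152) (nat_lit 36853304823) (nat_lit 14) (nat_lit 5) (nat_lit 15) (nat_lit 5) (nat_lit 16) (nat_lit 4) (nat_lit 353) (nat_lit 294) (nat_lit 133)) (XT.nd (nat_lit 78) (nat_lit 152) (nat_lit 0) (XT.lf (nat_lit 0) (nat_lit 111193457287) (nat_lit 76) (nat_lit 19732297446) (nat_lit 152) (nat_lit 18442627013) (nat_lit 14) (nat_lit 5) (nat_lit 15) (nat_lit 5) (nat_lit 16) (nat_lit 4) (nat_lit 354) (nat_lit 294) (nat_lit 132)) (XT.lf (nat_lit 0) (nat_lit 1097598034) (nat_lit 152) (nat_lit 147470976598) (nat_lit 76) (nat_lit 6913923237) (nat_lit 12) (nat_lit 5) (nat_lit 14) (nat_lit 5) (nat_lit 13) (nat_lit 4) (nat_lit 355) (nat_lit 294) (nat_lit 131))))) (XT.nd (nat_lit 156) (nat_lit 76) (nat_lit 0) (XT.nd (nat_lit 78) (nat_lit 0) (nat_lit 0) (XT.lf (nat_lit 0) (nat_lit 21974667739) (nat_lit 152) (nat_lit 104675491894) (nat_lit 76) (nat_lit 35188062638) (nat_lit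 12) (nat_lit 5) (nat_lit 14) (nat_lit 5) (nat_lit 13) (nat_lit 4) (nat_lit 356) (nat_lit 294) (nat_lit 130)) (XT.lf (nat_lit 0) (nat_lit 43894673753) (nat_lit 152) (nat_lit 59741868317) (nat_lit 76) (nat_lit 64875237356) (nat_lit 12) (nat_lit 5) (nat_lit 14) (nat_lit 5) (nat_lit 13) (nat_lit 4) (nat_lit 357) (nat_lit 294) (nat_lit 129))) (XT.nd (nat_lit 78) (nat_lit 76) (nat_lit 0) (XT.lf (nat_lit 0) (nat_lit 66909806569) (nat_lit 152) (nat_lit 12563121049) (nat_lit 76) (nat_lit 96046131142) (nat_lit 12) (nat_lit 5) (nat_lit 14) (nat_lit 5) (nat_lit 13) (nat_lit 4) (nat_lit 358) (nat_lit 294) (nat_lit 128)) (XT.nd (nat_lit 78) (nat_lit 0) (nat_lit 0) (XT.lf (nat_lit 0) (nat_lit 38195577270) (nat_lit 76) (nat_lit 53475626854) (nat_lit 152) (nat_lit 91175723143) (nat_lit 11) (nat_lit 5) (nat_lit 12) (nat_lit 5) (nat_lit 13) (nat_lit 4) (nat_lit 359) (nat_lit 294) (nat_lit 127)) (XT.lf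 (nat_lit 0) (nat_lit 91926914302) (nat_lit 76) (nat_lit 25955704713) (nat_lit 152) (nat_lit 72647973395) (nat_lit 11) (nat_lit 5) (nat_lit 12) (nat_lit 5) (nat_lit 13) (nat_lit 4) (nat_lit 360) (nat_lit 294) (nat_lit 126)))))) (XT.nd (nat_lit 390) (nat_lit 76) (nat_lit 0) (XT.nd (nat_lit 156) (nat_lit 152) (nat_lit 0) (XT.nd (nat_lit 78) (nat_lit 0) (nat_lit 0) (XT.lf (nat_lit 0) (nat_lit 145449723782) (nat_lit 152) (nat_lit 50300947289) (nat_lit 0) (nat_lit 2845514340) (nat_lit 11) (nat_lit 5) (nat_lit 13) (nat_lit 4) (nat_lit 11) (nat_lit 4) (nat_lit 361) (nat_lit 294) (nat_lit 125)) (XT.lf (nat_lit 0) (nat_lit 174819938720) (nat_lit 152) (nat_lit 9935370) (nat_lit 0) (nat_lit 32213946754) (nat_lit 11) (nat_lit 5) (nat_lit 13) (nat_lit 4) (nat_lit 11) (nat_lit 4) (nat_lit 362) (nat_lit 294) (nat_lit 124))) (XT.nd (nat_lit 78) (nat_lit 76) (nat_lit 0) (XT.lf (nat_lit 0) (nat_lit 54539958731)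 (nat_lit 76) (nat_lit 151969514495) (nat_lit 76) (nat_lit 9361824887) (nat_lit 10) (nat_lit 4) (nat_lit 11) (nat_lit 5) (nat_lit 11) (nat_lit 4) (nat_lit 363) (nat_lit 294) (nat_lit 123)) (XT.nd (nat_lit 78) (nat_lit 0) (nat_lit 0) (XT.lf (nat_lit 0) (nat_lit 14174117516) (nat_lit 152) (nat_lit 113552365502) (nat_lit 76) (nat_lit 97402262485) (nat_lit 9) (nat_lit 5) (nat_lit 11) (nat_lit 5) (nat_lit 10) (nat_lit 4) (nat_lit 364) (nat_lit 294) (nat_lit 122)) (XT.lf (nat_lit 0) (nat_lit 38571561630) (nat_lit 152) (nat_lit 63539144879) (nat_lit 76) (nat_lit 132730719397) (nat_lit 9) (nat_lit 5) (nat_lit 11) (nat_lit 5) (nat_lit 10) (nat_lit 4) (nat_lit 365) (nat_lit 294) (nat_lit 121))))) (XT.nd (nat_lit 234) (nat_lit 0) (nat_lit 0) (XT.nd (nat_lit 78) (nat_lit 76) (nat_lit 0) (XT.lf (nat_lit 0) (nat_lit 64188233470) (nat_lit 152) (nat_lit 11026434094) (nat_lit 76) (nat_lit 169825105405)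 (nat_lit 9) (nat_lit 5) (nat_lit 11) (nat_lit 5) (nat_lit 10) (nat_lit 4) (nat_lit 366) (nat_lit 294) (nat_lit 120)) (XT.nd (nat_lit 78) (nat_lit 0) (nat_lit 0) (XT.lf (nat_lit 0) (nat_lit 45569299279) (nat_lit 76) (nat_lit 46227290302) (nat_lit 152) (nat_lit 163915905665) (nat_lit 8) (nat_lit 5) (nat_lit 9) (nat_lit 5) (nat_lit 10) (nat_lit 4) (nat_lit 367) (nat_lit 294) (nat_lit 119)) (XT.lf (nat_lit 0) (nat_lit 105376535088) (nat_lit 76) (nat_lit 15594964716) (nat_lit 152) (nat_lit 145938047395) (nat_lit 8) (nat_lit 5) (nat_lit 9) (nat_lit 5) (nat_lit 10) (nat_lit 4) (nat_lit 368) (nat_lit 294) (nat_lit 118)))) (XT.nd (nat_lit 78) (nat_lit 0) (nat_lit 0) (XT.lf (nat_lit 0) (nat_lit 151863263300) (nat_lit 152) (nat_lit 110752073756) (nat_lit 0) (nat_lit 16038209663) (nat_lit 8) (nat_lit 5) (nat_lit 10) (nat_lit 4) (nat_lit 8) (nat_lit 4) (nat_lit 369) (nat_lit 294) (nat_lit 117)) (XT.nd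 (nat_lit 78) (nat_lit 0) (nat_lit 0) (XT.lf (nat_lit 0) (nat_lit 184554717361) (nat_lit 152) (nat_lit 57688759382) (nat_lit 0) (nat_lit 48728514694) (nat_lit 8) (nat_lit 5) (nat_lit 10) (nat_lit 4) (nat_lit 8) (nat_lit 4) (nat_lit 370) (nat_lit 294) (nat_lit 116)) (XT.lf (nat_lit 0) (nat_lit 218880217680) (nat_lit 152) (nat_lit 1973246661) (nat_lit 0) (nat_lit 83052920697) (nat_lit 8) (nat_lit 5) (nat_lit 10) (nat_lit 4) (nat_lit 8) (nat_lit 4) (nat_lit 371) (nat_lit 294) (nat_lit 115))))))))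
noncomputable def xc200 : XT := (XT.nd (nat_lit 35490) (nat_lit 0) (nat_lit 2736) (XT.nd (nat_lit 34710) (nat_lit 0) (nat_lit 5472) (XT.nd (nat_lit 390) (nat_lit 76) (nat_lit 0) (XT.nd (nat_lit 156) (nat_lit 76) (nat_lit 0) (XT.nd (nat_lit 78) (nat_lit 0) (nat_lit 0) (XT.lf (nat_lit 0) (nat_lit 58396162273) (nat_lit 76) (nat_lit 197437057112) (nat_lit 76) (nat_lit 61608717925) (nat_lit 7) (nat_lit 4) (nat_lit 8) (nat_lit 5) (nat_lit 8) (nat_lit 4) (nat_lit 372) (nat_lit 294) (nat_lit 114)) (XT.lf (nat_lit 0) (nat_lit 121851641877) (nat_lit 76) (nat_lit 172815155533) (nat_lit 76) (nat_lit 36985823769) (nat_lit 7) (nat_lit 4) (nat_lit 8) (nat_lit 5) (nat_lit 8) (nat_lit 4) (nat_lit 373) (nat_lit 294) (nat_lit 113))) (XT.nd (nat_lit 78) (nat_lit 76) (nat_lit 0) (XT.lf (nat_lit 0) (nat_lit 188479032180) (nat_lit 76) (nat_lit 146962553915) (nat_lit 76) (nat_lit 11132276840) (nat_lit 7) (nat_lit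 4) (nat_lit 8) (nat_lit 5) (nat_lit 8) (nat_lit 4) (nat_lit 374) (nat_lit 294) (nat_lit 112)) (XT.nd (nat_lit 78) (nat_lit 0) (nat_lit 0) (XT.lf (nat_lit 0) (nat_lit 15500947593) (nat_lit 152) (nat_lit 104054234804) (nat_lit 76) (nat_lit 242673506182) (nat_lit 6) (nat_lit 5) (nat_lit 8) (nat_lit 5) (nat_lit 7) (nat_lit 4) (nat_lit 375) (nat_lit 294) (nat_lit 111)) (XT.lf (nat_lit 0) (nat_lit 43091283830) (nat_lit 152) (nat_lit 47494902942) (nat_lit 76) (nat_lit 288070965754) (nat_lit 6) (nat_lit 5) (nat_lit 8) (nat_lit 5) (nat_lit 7) (nat_lit 4) (nat_lit 376) (nat_lit 294) (nat_lit 110))))) (XT.nd (nat_lit 156) (nat_lit 0) (nat_lit 0) (XT.nd (nat_lit 78) (nat_lit 0) (nat_lit 0) (XT.lf (nat_lit 0) (nat_lit 12284827133) (nat_lit 76) (nat_lit 59967698975) (nat_lit 152) (nat_lit 323644944333) (nat_lit 5) (nat_lit 5) (nat_lit 6) (nat_lit 5) (nat_lit 7) (nat_lit 4) (nat_lit 377) (nat_lit 294)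 (nat_lit 109)) (XT.lf (nat_lit 0) (nat_lit 76701712179) (nat_lit 76) (nat_lit 26974064054) (nat_lit 152) (nat_lit 310283830952) (nat_lit 5) (nat_lit 5) (nat_lit 6) (nat_lit 5) (nat_lit 7) (nat_lit 4) (nat_lit 378) (nat_lit 294) (nat_lit 108))) (XT.nd (nat_lit 78) (nat_lit 0) (nat_lit 0) (XT.lf (nat_lit 0) (nat_lit 136789538059) (nat_lit 152) (nat_lit 288705873852) (nat_lit 0) (nat_lit 7423471606) (nat_lit 5) (nat_lit 5) (nat_lit 7) (nat_lit 4) (nat_lit 5) (nat_lit 4) (nat_lit 379) (nat_lit 294) (nat_lit 107)) (XT.nd (nat_lit 34008) (nat_lit 0) (nat_lit 6004) (XT.lf (nat_lit 0) (nat_lit 172000814953) (nat_lit 152) (nat_lit 238169140875) (nat_lit 0) (nat_lit 42634076686) (nat_lit 5) (nat_lit 5) (nat_lit 7) (nat_lit 4) (nat_lit 5) (nat_lit 4) (nat_lit 380) (nat_lit 294) (nat_lit 106)) (XT.lf (nat_lit 0) (nat_lit 3781103492) (nat_lit 0) (nat_lit 3781103492) (nat_lit 684) (nat_lit 3767196653)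 (nat_lit 84) (nat_lit 5) (nat_lit 84) (nat_lit 3) (nat_lit 93) (nat_lit 3) (nat_lit 295) (nat_lit 295) (nat_lit 190)))))) (XT.nd (nat_lit 390) (nat_lit 532) (nat_lit 0) (XT.nd (nat_lit 156) (nat_lit 0) (nat_lit 0) (XT.nd (nat_lit 78) (nat_lit 0) (nat_lit 0) (XT.lf (nat_lit 0) (nat_lit 15662912237) (nat_lit 684) (nat_lit 5017342716) (nat_lit 760) (nat_lit 2536725583) (nat_lit 84) (nat_lit 5) (nat_lit 93) (nat_lit 3) (nat_lit 94) (nat_lit 5) (nat_lit 296) (nat_lit 295) (nat_lit 189)) (XT.lf (nat_lit 76) (nat_lit 5617415782) (nat_lit 0) (nat_lit 10815005782) (nat_lit 760) (nat_lit 7360454352) (nat_lit 85) (nat_lit 5) (nat_lit 84) (nat_lit 5) (nat_lit 94) (nat_lit 5) (nat_lit 297) (nat_lit 295) (nat_lit 188))) (XT.nd (nat_lit 78) (nat_lit 0) (nat_lit 76) (XT.lf (nat_lit 76) (nat_lit 16953888372) (nat_lit 0) (nat_lit 364196584) (nat_lit 760) (nat_lit 7075614098) (nat_lit 85) (nat_lit 5) (nat_lit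 84) (nat_lit 5) (nat_lit 94) (nat_lit 5) (nat_lit 298) (nat_lit 295) (nat_lit 187)) (XT.nd (nat_lit 78) (nat_lit 0) (nat_lit 0) (XT.lf (nat_lit 76) (nat_lit 3783660298) (nat_lit 0) (nat_lit 14682183875) (nat_lit 760) (nat_lit 6547844659) (nat_lit 86) (nat_lit 5) (nat_lit 85) (nat_lit 5) (nat_lit 95) (nat_lit 5) (nat_lit 299) (nat_lit 295) (nat_lit 186)) (XT.lf (nat_lit 76) (nat_lit 15816078661) (nat_lit 0) (nat_lit 3980144726) (nat_lit 760) (nat_lit 5862208453) (nat_lit 86) (nat_lit 5) (nat_lit 85) (nat_lit 5) (nat_lit 95) (nat_lit 5) (nat_lit 300) (nat_lit 295) (nat_lit 185))))) (XT.nd (nat_lit 156) (nat_lit 684) (nat_lit 0) (XT.nd (nat_lit 78) (nat_lit 0) (nat_lit 0) (XT.lf (nat_lit 76) (nat_lit 2062920959) (nat_lit 0) (nat_lit 19269421884) (nat_lit 760) (nat_lit 4996122708) (nat_lit 87) (nat_lit 5) (nat_lit 86) (nat_lit 5) (nat_lit 96) (nat_lit 5) (nat_lit 301) (nat_lit 295) (nat_lit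 184)) (XT.lf (nat_lit 76) (nat_lit 14833320852) (nat_lit 0) (nat_lit 8336769765) (nat_lit 760) (nat_lit 3850683133) (nat_lit 87) (nat_lit 5) (nat_lit 86) (nat_lit 5) (nat_lit 96) (nat_lit 5) (nat_lit 302) (nat_lit 295) (nat_lit 183))) (XT.nd (nat_lit 78) (nat_lit 760) (nat_lit 0) (XT.lf (nat_lit 76) (nat_lit 455507842) (nat_lit 0) (nat_lit 24694647226) (nat_lit 760) (nat_lit 2595034083) (nat_lit 88) (nat_lit 5) (nat_lit 87) (nat_lit 5) (nat_lit 97) (nat_lit 5) (nat_lit 303) (nat_lit 295) (nat_lit 182)) (XT.nd (nat_lit 78) (nat_lit 760) (nat_lit 0) (XT.lf (nat_lit 76) (nat_lit 14008072475) (nat_lit 0) (nat_lit 13556472483) (nat_lit 760) (nat_lit 924526879) (nat_lit 88) (nat_lit 5) (nat_lit 87) (nat_lit 5) (nat_lit 97) (nat_lit 5) (nat_lit 304) (nat_lit 295) (nat_lit 181)) (XT.lf (nat_lit 0) (nat_lit 797579843) (nat_lit 760) (nat_lit 1049287983) (nat_lit 836) (nat_lit 27422913560) (nat_lit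 77) (nat_lit 5) (nat_lit 87) (nat_lit 5) (nat_lit 88) (nat_lit 5) (nat_lit 305) (nat_lit 295) (nat_lit 180))))))) (XT.nd (nat_lit 780) (nat_lit 1368) (nat_lit 0) (XT.nd (nat_lit 390) (nat_lit 608) (nat_lit 0) (XT.nd (nat_lit 156) (nat_lit 836) (nat_lit 0) (XT.nd (nat_lit 78) (nat_lit 0) (nat_lit 0) (XT.lf (nat_lit 0) (nat_lit 2946671562) (nat_lit 760) (nat_lit 16779764148) (nat_lit 76) (nat_lit 10343746310) (nat_lit 78) (nat_lit 5) (nat_lit 88) (nat_lit 5) (nat_lit 79) (nat_lit 5) (nat_lit 306) (nat_lit 295) (nat_lit 179)) (XT.lf (nat_lit 0) (nat_lit 5246626121) (nat_lit 760) (nat_lit 2561186815) (nat_lit 76) (nat_lit 23100629725) (nat_lit 78) (nat_lit 5) (nat_lit 88) (nat_lit 5) (nat_lit 79) (nat_lit 5) (nat_lit 307) (nat_lit 295) (nat_lit 178))) (XT.nd (nat_lit 78) (nat_lit 380) (nat_lit 0) (XT.lf (nat_lit 0) (nat_lit 7933066007) (nat_lit 532) (nat_lit 19082750986) (nat_lit 76) (nat_lit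 4759234852) (nat_lit 72) (nat_lit 5) (nat_lit 79) (nat_lit 5) (nat_lit 73) (nat_lit 5) (nat_lit 308) (nat_lit 295) (nat_lit 177)) (XT.nd (nat_lit 78) (nat_lit 380) (nat_lit 0) (XT.lf (nat_lit 0) (nat_lit 10921380202) (nat_lit 532) (nat_lit 4018554205) (nat_lit 76) (nat_lit 17736688886) (nat_lit 72) (nat_lit 5) (nat_lit 79) (nat_lit 5) (nat_lit 73) (nat_lit 5) (nat_lit 309) (nat_lit 295) (nat_lit 176)) (XT.lf (nat_lit 0) (nat_lit 12184641803) (nat_lit 380) (nat_lit 2060389833) (nat_lit 456) (nat_lit 19368954575) (nat_lit 67) (nat_lit 5) (nat_lit 72) (nat_lit 5) (nat_lit 73) (nat_lit 5) (nat_lit 310) (nat_lit 295) (nat_lit 175))))) (XT.nd (nat_lit 156) (nat_lit 304) (nat_lit 0) (XT.nd (nat_lit 78) (nat_lit 304) (nat_lit 0) (XT.lf (nat_lit 0) (nat_lit 17978835964) (nat_lit 456) (nat_lit 5441734556) (nat_lit 76) (nat_lit 11165456783) (nat_lit 67) (nat_lit 5) (nat_lit 73) (nat_lit 5) (nat_lit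 68) (nat_lit 5) (nat_lit 311) (nat_lit 295) (nat_lit 174)) (XT.lf (nat_lit 0) (nat_lit 11681212034) (nat_lit 304) (nat_lit 10430297407) (nat_lit 380) (nat_lit 13484560201) (nat_lit 63) (nat_lit 5) (nat_lit 67) (nat_lit 5) (nat_lit 68) (nat_lit 5) (nat_lit 312) (nat_lit 295) (nat_lit 173))) (XT.nd (nat_lit 78) (nat_lit 304) (nat_lit 0) (XT.lf (nat_lit 0) (nat_lit 26590742710) (nat_lit 380) (nat_lit 6858663965) (nat_lit 76) (nat_lit 3200218867) (nat_lit 63) (nat_lit 5) (nat_lit 68) (nat_lit 5) (nat_lit 64) (nat_lit 5) (nat_lit 313) (nat_lit 295) (nat_lit 172)) (XT.nd (nat_lit 78) (nat_lit 0) (nat_lit 0) (XT.lf (nat_lit 0) (nat_lit 11234871638) (nat_lit 304) (nat_lit 20401793550) (nat_lit 380) (nat_lit 6102065055) (nat_lit 59) (nat_lit 5) (nat_lit 63) (nat_lit 5) (nat_lit 64) (nat_lit 5) (nat_lit 314) (nat_lit 295) (nat_lit 171)) (XT.lf (nat_lit 0) (nat_lit 30467201622) (nat_lit 304) (nat_lit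 6580280450) (nat_lit 380) (nat_lit 1829185223) (nat_lit 59) (nat_lit 5) (nat_lit 63) (nat_lit 5) (nat_lit 64) (nat_lit 5) (nat_lit 315) (nat_lit 295) (nat_lit 170)))))) (XT.nd (nat_lit 390) (nat_lit 532) (nat_lit 0) (XT.nd (nat_lit 156) (nat_lit 532) (nat_lit 0) (XT.nd (nat_lit 78) (nat_lit 0) (nat_lit 0) (XT.lf (nat_lit 0) (nat_lit 2866212415) (nat_lit 304) (nat_lit 29295539863) (nat_lit 76) (nat_lit 7892984609) (nat_lit 55) (nat_lit 5) (nat_lit 59) (nat_lit 5) (nat_lit 56) (nat_lit 5) (nat_lit 316) (nat_lit 295) (nat_lit 169)) (XT.lf (nat_lit 0) (nat_lit 7984180451) (nat_lit 304) (nat_lit 10250564850) (nat_lit 76) (nat_lit 23043007744) (nat_lit 55) (nat_lit 5) (nat_lit 59) (nat_lit 5) (nat_lit 56) (nat_lit 5) (nat_lit 317) (nat_lit 295) (nat_lit 168))) (XT.nd (nat_lit 78) (nat_lit 228) (nat_lit 0) (XT.lf (nat_lit 0) (nat_lit 10064960993) (nat_lit 304) (nat_lit 3447034414) (nat_lit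 380) (nat_lit 29042232961) (nat_lit 51) (nat_lit 5) (nat_lit 55) (nat_lit 5) (nat_lit 56) (nat_lit 5) (nat_lit 318) (nat_lit 295) (nat_lit 167)) (XT.nd (nat_lit 78) (nat_lit 228) (nat_lit 0) (XT.lf (nat_lit 0) (nat_lit 19678137689) (nat_lit 380) (nat_lit 12329085015) (nat_lit 76) (nat_lit 11869213432) (nat_lit 51) (nat_lit 5) (nat_lit 56) (nat_lit 5) (nat_lit 52) (nat_lit 5) (nat_lit 319) (nat_lit 295) (nat_lit 166)) (XT.lf (nat_lit 0) (nat_lit 9069125822) (nat_lit 228) (nat_lit 17278601451) (nat_lit 304) (nat_lit 18907275257) (nat_lit 48) (nat_lit 5) (nat_lit 51) (nat_lit 5) (nat_lit 52) (nat_lit 5) (nat_lit 320) (nat_lit 295) (nat_lit 165))))) (XT.nd (nat_lit 156) (nat_lit 304) (nat_lit 0) (XT.nd (nat_lit 78) (nat_lit 228) (nat_lit 0) (XT.lf (nat_lit 0) (nat_lit 31961604981) (nat_lit 228) (nat_lit 1595110972) (nat_lit 304) (nat_lit 13135490306) (nat_lit 48) (nat_lit 5) (nat_lit 51)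 (nat_lit 5) (nat_lit 52) (nat_lit 5) (nat_lit 321) (nat_lit 295) (nat_lit 164)) (XT.lf (nat_lit 0) (nat_lit 7811621414) (nat_lit 228) (nat_lit 33665942008) (nat_lit 304) (nat_lit 6706141043) (nat_lit 45) (nat_lit 5) (nat_lit 48) (nat_lit 5) (nat_lit 49) (nat_lit 5) (nat_lit 322) (nat_lit 295) (nat_lit 163))) (XT.nd (nat_lit 78) (nat_lit 228) (nat_lit 0) (XT.lf (nat_lit 0) (nat_lit 320227488) (nat_lit 304) (nat_lit 17779542966) (nat_lit 76) (nat_lit 31636127483) (nat_lit 44) (nat_lit 5) (nat_lit 48) (nat_lit 5) (nat_lit 45) (nat_lit 5) (nat_lit 323) (nat_lit 295) (nat_lit 162)) (XT.nd (nat_lit 78) (nat_lit 0) (nat_lit 0) (XT.lf (nat_lit 0) (nat_lit 6021930787) (nat_lit 228) (nat_lit 1542035244) (nat_lit 304) (nat_lit 43791671229) (nat_lit 41) (nat_lit 5) (nat_lit 44) (nat_lit 5) (nat_lit 45) (nat_lit 5) (nat_lit 324) (nat_lit 295) (nat_lit 161)) (XT.lf (nat_lit 0) (nat_lit 15720754025)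 (nat_lit 304) (nat_lit 21666419062) (nat_lit 76) (nat_lit 15641651251) (nat_lit 41) (nat_lit 5) (nat_lit 45) (nat_lit 5) (nat_lit 42) (nat_lit 5) (nat_lit 325) (nat_lit 295) (nat_lit 160))))))))
noncomputable def xc201 : XT := (XT.nd (nat_lit 1560) (nat_lit 760) (nat_lit 0) (XT.nd (nat_lit 780) (nat_lit 684) (nat_lit 0) (XT.nd (nat_lit 390) (nat_lit 532) (nat_lit 0) (XT.nd (nat_lit 156) (nat_lit 228) (nat_lit 0) (XT.nd (nat_lit 78) (nat_lit 0) (nat_lit 0) (XT.lf (nat_lit 0) (nat_lit 3259904427) (nat_lit 228) (nat_lit 21099231949) (nat_lit 304) (nat_lit 30422850376) (nat_lit 38) (nat_lit 5) (nat_lit 41) (nat_lit 5) (nat_lit 42) (nat_lit 5) (nat_lit 326) (nat_lit 295) (nat_lit 159)) (XT.lf (nat_lit 0) (nat_lit 30181421529) (nat_lit 228) (nat_lit 3612590300) (nat_lit 304) (nat_lit 22810570307) (nat_lit 38) (nat_lit 5) (nat_lit 41) (nat_lit 5) (nat_lit 42) (nat_lit 5) (nat_lit 327) (nat_lit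 295) (nat_lit 158))) (XT.nd (nat_lit 78) (nat_lit 228) (nat_lit 0) (XT.lf (nat_lit 0) (nat_lit 43928635111) (nat_lit 304) (nat_lit 302830603) (nat_lit 76) (nat_lit 14275444755) (nat_lit 38) (nat_lit 5) (nat_lit 42) (nat_lit 5) (nat_lit 39) (nat_lit 5) (nat_lit 328) (nat_lit 295) (nat_lit 157)) (XT.nd (nat_lit 78) (nat_lit 76) (nat_lit 0) (XT.lf (nat_lit 0) (nat_lit 27955939474) (nat_lit 152) (nat_lit 27107591491) (nat_lit 228) (nat_lit 5416150404) (nat_lit 36) (nat_lit 5) (nat_lit 38) (nat_lit 5) (nat_lit 39) (nat_lit 5) (nat_lit 329) (nat_lit 295) (nat_lit 156)) (XT.lf (nat_lit 0) (nat_lit 4072601891) (nat_lit 228) (nat_lit 4981535790) (nat_lit 76) (nat_lit 53493520283) (nat_lit 35) (nat_lit 5) (nat_lit 38) (nat_lit 5) (nat_lit 36) (nat_lit 5) (nat_lit 330) (nat_lit 295) (nat_lit 155))))) (XT.nd (nat_lit 156) (nat_lit 304) (nat_lit 0) (XT.nd (nat_lit 78) (nat_lit 0) (nat_lit 0) (XT.lf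 (nat_lit 0) (nat_lit 14398696975) (nat_lit 304) (nat_lit 40223355432) (nat_lit 76) (nat_lit 10065298130) (nat_lit 32) (nat_lit 5) (nat_lit 36) (nat_lit 5) (nat_lit 33) (nat_lit 5) (nat_lit 331) (nat_lit 295) (nat_lit 154)) (XT.lf (nat_lit 0) (nat_lit 25473275820) (nat_lit 304) (nat_lit 11527901192) (nat_lit 76) (nat_lit 29921244425) (nat_lit 32) (nat_lit 5) (nat_lit 36) (nat_lit 5) (nat_lit 33) (nat_lit 5) (nat_lit 332) (nat_lit 295) (nat_lit 153))) (XT.nd (nat_lit 78) (nat_lit 152) (nat_lit 0) (XT.lf (nat_lit 0) (nat_lit 19214421142) (nat_lit 152) (nat_lit 18185251307) (nat_lit 228) (nat_lit 31854671514) (nat_lit 30) (nat_lit 5) (nat_lit 32) (nat_lit 5) (nat_lit 33) (nat_lit 5) (nat_lit 333) (nat_lit 295) (nat_lit 152)) (XT.nd (nat_lit 78) (nat_lit 152) (nat_lit 0) (XT.lf (nat_lit 0) (nat_lit 50143483825) (nat_lit 228) (nat_lit 19829673737) (nat_lit 76) (nat_lit 1718652712) (nat_lit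 30) (nat_lit 5) (nat_lit 33) (nat_lit 5) (nat_lit 31) (nat_lit 5) (nat_lit 334) (nat_lit 295) (nat_lit 151)) (XT.lf (nat_lit 0) (nat_lit 11973412541) (nat_lit 152) (nat_lit 52034348498) (nat_lit 228) (nat_lit 10219227386) (nat_lit 28) (nat_lit 5) (nat_lit 30) (nat_lit 5) (nat_lit 31) (nat_lit 5) (nat_lit 335) (nat_lit 295) (nat_lit 150)))))) (XT.nd (nat_lit 390) (nat_lit 304) (nat_lit 0) (XT.nd (nat_lit 156) (nat_lit 152) (nat_lit 0) (XT.nd (nat_lit 78) (nat_lit 152) (nat_lit 0) (XT.lf (nat_lit 0) (nat_lit 1962233551) (nat_lit 228) (nat_lit 30851513223) (nat_lit 76) (nat_lit 44056894187) (nat_lit 27) (nat_lit 5) (nat_lit 30) (nat_lit 5) (nat_lit 28) (nat_lit 5) (nat_lit 336) (nat_lit 295) (nat_lit 149)) (XT.lf (nat_lit 0) (nat_lit 2014952324) (nat_lit 152) (nat_lit 12424154920) (nat_lit 228) (nat_lit 65197505802) (nat_lit 25) (nat_lit 5) (nat_lit 27) (nat_lit 5) (nat_lit 28) (nat_lit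 5) (nat_lit 337) (nat_lit 295) (nat_lit 148))) (XT.nd (nat_lit 78) (nat_lit 152) (nat_lit 0) (XT.lf (nat_lit 0) (nat_lit 28209492893) (nat_lit 228) (nat_lit 45070457579) (nat_lit 76) (nat_lit 9227451732) (nat_lit 25) (nat_lit 5) (nat_lit 28) (nat_lit 5) (nat_lit 26) (nat_lit 5) (nat_lit 338) (nat_lit 295) (nat_lit 147)) (XT.nd (nat_lit 78) (nat_lit 152) (nat_lit 0) (XT.lf (nat_lit 0) (nat_lit 42870489551) (nat_lit 228) (nat_lit 11097929969) (nat_lit 76) (nat_lit 31543208509) (nat_lit 25) (nat_lit 5) (nat_lit 28) (nat_lit 5) (nat_lit 26) (nat_lit 5) (nat_lit 339) (nat_lit 295) (nat_lit 146)) (XT.lf (nat_lit 0) (nat_lit 25383206069) (nat_lit 152) (nat_lit 33276125387) (nat_lit 228) (nat_lit 29986995625) (nat_lit 23) (nat_lit 5) (nat_lit 25) (nat_lit 5) (nat_lit 26) (nat_lit 5) (nat_lit 340) (nat_lit 295) (nat_lit 145))))) (XT.nd (nat_lit 156) (nat_lit 228) (nat_lit 0) (XT.nd (nat_lit 78)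 (nat_lit 76) (nat_lit 0) (XT.lf (nat_lit 0) (nat_lit 64071294251) (nat_lit 152) (nat_lit 11352796775) (nat_lit 228) (nat_lit 16504347907) (nat_lit 23) (nat_lit 5) (nat_lit 25) (nat_lit 5) (nat_lit 26) (nat_lit 5) (nat_lit 341) (nat_lit 295) (nat_lit 144)) (XT.lf (nat_lit 0) (nat_lit 9436669584) (nat_lit 76) (nat_lit 83918484840) (nat_lit 152) (nat_lit 2003100213) (nat_lit 22) (nat_lit 5) (nat_lit 23) (nat_lit 5) (nat_lit 24) (nat_lit 4) (nat_lit 342) (nat_lit 295) (nat_lit 143))) (XT.nd (nat_lit 78) (nat_lit 152) (nat_lit 0) (XT.lf (nat_lit 0) (nat_lit 13464194687) (nat_lit 152) (nat_lit 49776311075) (nat_lit 76) (nat_lit 35675523694) (nat_lit 21) (nat_lit 5) (nat_lit 23) (nat_lit 5) (nat_lit 22) (nat_lit 5) (nat_lit 343) (nat_lit 295) (nat_lit 142)) (XT.nd (nat_lit 78) (nat_lit 152) (nat_lit 0) (XT.lf (nat_lit 0) (nat_lit 29636194618) (nat_lit 152) (nat_lit 11858852626) (nat_lit 76)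 (nat_lit 61155072345) (nat_lit 21) (nat_lit 5) (nat_lit 23) (nat_lit 5) (nat_lit 22) (nat_lit 5) (nat_lit 344) (nat_lit 295) (nat_lit 141)) (XT.lf (nat_lit 0) (nat_lit 28876574691) (nat_lit 152) (nat_lit 18189785624) (nat_lit 228) (nat_lit 59482076900) (nat_lit 19) (nat_lit 5) (nat_lit 21) (nat_lit 5) (nat_lit 22) (nat_lit 5) (nat_lit 345) (nat_lit 295) (nat_lit 140))))))) (XT.nd (nat_lit 780) (nat_lit 380) (nat_lit 0) (XT.nd (nat_lit 390) (nat_lit 76) (nat_lit 0) (XT.nd (nat_lit 156) (nat_lit 228) (nat_lit 0) (XT.nd (nat_lit 78) (nat_lit 76) (nat_lit 0) (XT.lf (nat_lit 0) (nat_lit 65668958358) (nat_lit 228) (nat_lit 38674646127) (nat_lit 76) (nat_lit 6283021248) (nat_lit 19) (nat_lit 5) (nat_lit 22) (nat_lit 5) (nat_lit 20) (nat_lit 4) (nat_lit 346) (nat_lit 295) (nat_lit 139)) (XT.lf (nat_lit 0) (nat_lit 2037398980) (nat_lit 76) (nat_lit 83493086541) (nat_lit 152) (nat_lit 29361799350)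 (nat_lit 18) (nat_lit 5) (nat_lit 19) (nat_lit 5) (nat_lit 20) (nat_lit 4) (nat_lit 347) (nat_lit 295) (nat_lit 138))) (XT.nd (nat_lit 78) (nat_lit 228) (nat_lit 0) (XT.lf (nat_lit 0) (nat_lit 46125727373) (nat_lit 76) (nat_lit 60913157866) (nat_lit 152) (nat_lit 12299653021) (nat_lit 18) (nat_lit 5) (nat_lit 19) (nat_lit 5) (nat_lit 20) (nat_lit 4) (nat_lit 348) (nat_lit 295) (nat_lit 137)) (XT.nd (nat_lit 78) (nat_lit 152) (nat_lit 0) (XT.lf (nat_lit 0) (nat_lit 5434725361) (nat_lit 152) (nat_lit 31678265504) (nat_lit 76) (nat_lit 86889787735) (nat_lit 17) (nat_lit 5) (nat_lit 19) (nat_lit 5) (nat_lit 18) (nat_lit 5) (nat_lit 349) (nat_lit 295) (nat_lit 136)) (XT.lf (nat_lit 0) (nat_lit 12117339151) (nat_lit 152) (nat_lit 11713233496) (nat_lit 228) (nat_lit 105050172629) (nat_lit 15) (nat_lit 5) (nat_lit 17) (nat_lit 5) (nat_lit 18) (nat_lit 5) (nat_lit 350) (nat_lit 295) (nat_lit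 135))))) (XT.nd (nat_lit 156) (nat_lit 76) (nat_lit 0) (XT.nd (nat_lit 78) (nat_lit 0) (nat_lit 0) (XT.lf (nat_lit 0) (nat_lit 43923931399) (nat_lit 228) (nat_lit 75017448821) (nat_lit 76) (nat_lit 15022345018) (nat_lit 15) (nat_lit 5) (nat_lit 18) (nat_lit 5) (nat_lit 16) (nat_lit 4) (nat_lit 351) (nat_lit 295) (nat_lit 134)) (XT.lf (nat_lit 0) (nat_lit 65212953943) (nat_lit 228) (nat_lit 31378001329) (nat_lit 76) (nat_lit 42700349997) (nat_lit 15) (nat_lit 5) (nat_lit 18) (nat_lit 5) (nat_lit 16) (nat_lit 4) (nat_lit 352) (nat_lit 295) (nat_lit 133))) (XT.nd (nat_lit 78) (nat_lit 0) (nat_lit 0) (XT.lf (nat_lit 0) (nat_lit 14919224555) (nat_lit 76) (nat_lit 72879158377) (nat_lit 152) (nat_lit 57075284423) (nat_lit 14) (nat_lit 5) (nat_lit 15) (nat_lit 5) (nat_lit 16) (nat_lit 4) (nat_lit 353) (nat_lit 295) (nat_lit 132)) (XT.nd (nat_lit 78) (nat_lit 0) (nat_lit 0) (XT.lf (nat_lit 0)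 (nat_lit 64619010205) (nat_lit 76) (nat_lit 47424519522) (nat_lit 152) (nat_lit 38665096283) (nat_lit 14) (nat_lit 5) (nat_lit 15) (nat_lit 5) (nat_lit 16) (nat_lit 4) (nat_lit 354) (nat_lit 295) (nat_lit 131)) (XT.lf (nat_lit 0) (nat_lit 116802190011) (nat_lit 76) (nat_lit 20697834061) (nat_lit 152) (nat_lit 19335354762) (nat_lit 14) (nat_lit 5) (nat_lit 15) (nat_lit 5) (nat_lit 16) (nat_lit 4) (nat_lit 355) (nat_lit 295) (nat_lit 130)))))) (XT.nd (nat_lit 390) (nat_lit 152) (nat_lit 0) (XT.nd (nat_lit 156) (nat_lit 76) (nat_lit 0) (XT.nd (nat_lit 78) (nat_lit 0) (nat_lit 0) (XT.lf (nat_lit 0) (nat_lit 1180686664) (nat_lit 152) (nat_lit 154794228079) (nat_lit 76) (nat_lit 7280276795) (nat_lit 12) (nat_lit 5) (nat_lit 14) (nat_lit 5) (nat_lit 13) (nat_lit 4) (nat_lit 356) (nat_lit 295) (nat_lit 129)) (XT.lf (nat_lit 0) (nat_lit 23100266581) (nat_lit 152) (nat_lit 109861364252) (nat_lit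 76) (nat_lit 36967139479) (nat_lit 12) (nat_lit 5) (nat_lit 14) (nat_lit 5) (nat_lit 13) (nat_lit 4) (nat_lit 357) (nat_lit 295) (nat_lit 128))) (XT.nd (nat_lit 78) (nat_lit 76) (nat_lit 0) (XT.lf (nat_lit 0) (nat_lit 46114993589) (nat_lit 152) (nat_lit 62683340555) (nat_lit 76) (nat_lit 68137736090) (nat_lit 12) (nat_lit 5) (nat_lit 14) (nat_lit 5) (nat_lit 13) (nat_lit 4) (nat_lit 358) (nat_lit 295) (nat_lit 127)) (XT.nd (nat_lit 78) (nat_lit 76) (nat_lit 0) (XT.lf (nat_lit 0) (nat_lit 70279664657) (nat_lit 152) (nat_lit 13147828361) (nat_lit 76) (nat_lit 100866282334) (nat_lit 12) (nat_lit 5) (nat_lit 14) (nat_lit 5) (nat_lit 13) (nat_lit 4) (nat_lit 359) (nat_lit 295) (nat_lit 126)) (XT.lf (nat_lit 0) (nat_lit 40148104087) (nat_lit 76) (nat_lit 56130535048) (nat_lit 152) (nat_lit 95709423651) (nat_lit 11) (nat_lit 5) (nat_lit 12) (nat_lit 5) (nat_lit 13) (nat_lit 4) (nat_lit 360)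 (nat_lit 295) (nat_lit 125))))) (XT.nd (nat_lit 234) (nat_lit 76) (nat_lit 0) (XT.nd (nat_lit 78) (nat_lit 76) (nat_lit 0) (XT.lf (nat_lit 0) (nat_lit 96563972355) (nat_lit 76) (nat_lit 27235515522) (nat_lit 152) (nat_lit 76256480971) (nat_lit 11) (nat_lit 5) (nat_lit 12) (nat_lit 5) (nat_lit 13) (nat_lit 4) (nat_lit 361) (nat_lit 295) (nat_lit 124)) (XT.nd (nat_lit 78) (nat_lit 76) (nat_lit 0) (XT.lf (nat_lit 0) (nat_lit 152744132391) (nat_lit 152) (nat_lit 52776389996) (nat_lit 0) (nat_lit 3004360660) (nat_lit 11) (nat_lit 5) (nat_lit 13) (nat_lit 4) (nat_lit 11) (nat_lit 4) (nat_lit 362) (nat_lit 295) (nat_lit 123)) (XT.lf (nat_lit 0) (nat_lit 28188799) (nat_lit 76) (nat_lit 183554065458) (nat_lit 76) (nat_lit 33812676925) (nat_lit 10) (nat_lit 4) (nat_lit 11) (nat_lit 5) (nat_lit 11) (nat_lit 4) (nat_lit 363) (nat_lit 295) (nat_lit 122)))) (XT.nd (nat_lit 78) (nat_lit 76) (nat_lit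 0) (XT.lf (nat_lit 0) (nat_lit 57304067022) (nat_lit 76) (nat_lit 159551343543) (nat_lit 76) (nat_lit 9808415199) (nat_lit 10) (nat_lit 4) (nat_lit 11) (nat_lit 5) (nat_lit 11) (nat_lit 4) (nat_lit 364) (nat_lit 295) (nat_lit 121)) (XT.nd (nat_lit 78) (nat_lit 0) (nat_lit 0) (XT.lf (nat_lit 0) (nat_lit 14902645076) (nat_lit 152) (nat_lit 119193972426) (nat_lit 76) (nat_lit 102287561430) (nat_lit 9) (nat_lit 5) (nat_lit 11) (nat_lit 5) (nat_lit 10) (nat_lit 4) (nat_lit 365) (nat_lit 295) (nat_lit 120)) (XT.lf (nat_lit 0) (nat_lit 40519017506) (nat_lit 152) (nat_lit 66681805598) (nat_lit 76) (nat_lit 139381718054) (nat_lit 9) (nat_lit 5) (nat_lit 11) (nat_lit 5) (nat_lit 10) (nat_lit 4) (nat_lit 366) (nat_lit 295) (nat_lit 119))))))))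
noncomputable def xc202 : XT := (XT.nd (nat_lit 35568) (nat_lit 0) (nat_lit 3268) (XT.nd (nat_lit 780) (nat_lit 76) (nat_lit 0) (XT.nd (nat_lit 390) (nat_lit 152) (nat_lit 0) (XT.nd (nat_lit 156) (nat_lit 0) (nat_lit 0) (XT.nd (nat_lit 78) (nat_lit 76) (nat_lit 0) (XT.lf (nat_lit 0) (nat_lit 67415623996) (nat_lit 152) (nat_lit 11545092441) (nat_lit 76) (nat_lit 178330134663) (nat_lit 9) (nat_lit 5) (nat_lit 11) (nat_lit 5) (nat_lit 10) (nat_lit 4) (nat_lit 367) (nat_lit 295) (nat_lit 118)) (XT.lf (nat_lit 0) (nat_lit 47879900772) (nat_lit 76) (nat_lit 48524142746) (nat_lit 152) (nat_lit 172093184244) (nat_lit 8) (nat_lit 5) (nat_lit 9) (nat_lit 5) (nat_lit 10) (nat_lit 4) (nat_lit 368) (nat_lit 295) (nat_lit 117))) (XT.nd (nat_lit 78) (nat_lit 0) (nat_lit 0) (XT.lf (nat_lit 0) (nat_lit 110675968061) (nat_lit 76) (nat_lit 16360891931) (nat_lit 152) (nat_lit 153217314808) (nat_lit 8) (nat_lit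 5) (nat_lit 9) (nat_lit 5) (nat_lit 10) (nat_lit 4) (nat_lit 369) (nat_lit 295) (nat_lit 116)) (XT.nd (nat_lit 78) (nat_lit 0) (nat_lit 0) (XT.lf (nat_lit 0) (nat_lit 159472617876) (nat_lit 152) (nat_lit 116259924879) (nat_lit 0) (nat_lit 16852861729) (nat_lit 8) (nat_lit 5) (nat_lit 10) (nat_lit 4) (nat_lit 8) (nat_lit 4) (nat_lit 370) (nat_lit 295) (nat_lit 115)) (XT.lf (nat_lit 0) (nat_lit 193797873621) (nat_lit 152) (nat_lit 60544861576) (nat_lit 0) (nat_lit 51177075269) (nat_lit 8) (nat_lit 5) (nat_lit 10) (nat_lit 4) (nat_lit 8) (nat_lit 4) (nat_lit 371) (nat_lit 295) (nat_lit 114))))) (XT.nd (nat_lit 156) (nat_lit 76) (nat_lit 0) (XT.nd (nat_lit 78) (nat_lit 76) (nat_lit 0) (XT.lf (nat_lit 0) (nat_lit 229838914652) (nat_lit 152) (nat_lit 2044922541) (nat_lit 0) (nat_lit 87217123723) (nat_lit 8) (nat_lit 5) (nat_lit 10) (nat_lit 4) (nat_lit 8) (nat_lit 4) (nat_lit 372) (nat_lit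 295) (nat_lit 113)) (XT.lf (nat_lit 0) (nat_lit 61342521574) (nat_lit 76) (nat_lit 207296760069) (nat_lit 76) (nat_lit 64674023830) (nat_lit 7) (nat_lit 4) (nat_lit 8) (nat_lit 5) (nat_lit 8) (nat_lit 4) (nat_lit 373) (nat_lit 295) (nat_lit 112))) (XT.nd (nat_lit 78) (nat_lit 76) (nat_lit 0) (XT.lf (nat_lit 0) (nat_lit 127969510817) (nat_lit 76) (nat_lit 181444341978) (nat_lit 76) (nat_lit 38820705442) (nat_lit 7) (nat_lit 4) (nat_lit 8) (nat_lit 5) (nat_lit 8) (nat_lit 4) (nat_lit 374) (nat_lit 295) (nat_lit 111)) (XT.nd (nat_lit 78) (nat_lit 76) (nat_lit 0) (XT.lf (nat_lit 0) (nat_lit 197927066498) (nat_lit 76) (nat_lit 154299661295) (nat_lit 76) (nat_lit 11675167335) (nat_lit 7) (nat_lit 4) (nat_lit 8) (nat_lit 5) (nat_lit 8) (nat_lit 4) (nat_lit 375) (nat_lit 295) (nat_lit 110)) (XT.lf (nat_lit 0) (nat_lit 16288646511) (nat_lit 152) (nat_lit 109233585207) (nat_lit 76) (nat_lit 254817251607)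 (nat_lit 6) (nat_lit 5) (nat_lit 8) (nat_lit 5) (nat_lit 7) (nat_lit 4) (nat_lit 376) (nat_lit 295) (nat_lit 109)))))) (XT.nd (nat_lit 34398) (nat_lit 0) (nat_lit 6004) (XT.nd (nat_lit 156) (nat_lit 0) (nat_lit 0) (XT.nd (nat_lit 78) (nat_lit 76) (nat_lit 0) (XT.lf (nat_lit 0) (nat_lit 45257897106) (nat_lit 152) (nat_lit 49847399196) (nat_lit 76) (nat_lit 302484104629) (nat_lit 6) (nat_lit 5) (nat_lit 8) (nat_lit 5) (nat_lit 7) (nat_lit 4) (nat_lit 377) (nat_lit 295) (nat_lit 108)) (XT.lf (nat_lit 0) (nat_lit 12920958529) (nat_lit 76) (nat_lit 62956010967) (nat_lit 152) (nat_lit 339814777167) (nat_lit 5) (nat_lit 5) (nat_lit 6) (nat_lit 5) (nat_lit 7) (nat_lit 4) (nat_lit 378) (nat_lit 295) (nat_lit 107))) (XT.nd (nat_lit 78) (nat_lit 0) (nat_lit 0) (XT.lf (nat_lit 0) (nat_lit 80557645445) (nat_lit 76) (nat_lit 28313173964) (nat_lit 152) (nat_lit 325786199278) (nat_lit 5) (nat_lit 5)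 (nat_lit 6) (nat_lit 5) (nat_lit 7) (nat_lit 4) (nat_lit 379) (nat_lit 295) (nat_lit 106)) (XT.nd (nat_lit 34086) (nat_lit 0) (nat_lit 6004) (XT.lf (nat_lit 0) (nat_lit 143639876050) (nat_lit 152) (nat_lit 303120913510) (nat_lit 0) (nat_lit 7803489231) (nat_lit 5) (nat_lit 5) (nat_lit 7) (nat_lit 4) (nat_lit 5) (nat_lit 4) (nat_lit 380) (nat_lit 295) (nat_lit 105)) (XT.lf (nat_lit 0) (nat_lit 4028962507) (nat_lit 0) (nat_lit 4028962507) (nat_lit 684) (nat_lit 3831795228) (nat_lit 84) (nat_lit 5) (nat_lit 84) (nat_lit 3) (nat_lit 93) (nat_lit 3) (nat_lit 296) (nat_lit 296) (nat_lit 188))))) (XT.nd (nat_lit 156) (nat_lit 0) (nat_lit 0) (XT.nd (nat_lit 78) (nat_lit 0) (nat_lit 0) (XT.lf (nat_lit 0) (nat_lit 16668323731) (nat_lit 684) (nat_lit 5142732688) (nat_lit 760) (nat_lit 2555139482) (nat_lit 84) (nat_lit 5) (nat_lit 93) (nat_lit 3) (nat_lit 94) (nat_lit 5) (nat_lit 297) (nat_lit 296)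 (nat_lit 187)) (XT.lf (nat_lit 76) (nat_lit 6021739910) (nat_lit 0) (nat_lit 11445911977) (nat_lit 760) (nat_lit 7503691774) (nat_lit 85) (nat_lit 5) (nat_lit 84) (nat_lit 5) (nat_lit 94) (nat_lit 5) (nat_lit 298) (nat_lit 296) (nat_lit 186))) (XT.nd (nat_lit 78) (nat_lit 0) (nat_lit 76) (XT.lf (nat_lit 76) (nat_lit 17919157399) (nat_lit 0) (nat_lit 468269181) (nat_lit 760) (nat_lit 7215313569) (nat_lit 85) (nat_lit 5) (nat_lit 84) (nat_lit 5) (nat_lit 94) (nat_lit 5) (nat_lit 299) (nat_lit 296) (nat_lit 185)) (XT.nd (nat_lit 78) (nat_lit 0) (nat_lit 0) (XT.lf (nat_lit 76) (nat_lit 4100312676) (nat_lit 0) (nat_lit 15483287018) (nat_lit 760) (nat_lit 6670600898) (nat_lit 86) (nat_lit 5) (nat_lit 85) (nat_lit 5) (nat_lit 95) (nat_lit 5) (nat_lit 300) (nat_lit 296) (nat_lit 184)) (XT.lf (nat_lit 76) (nat_lit 16728281988) (nat_lit 0) (nat_lit 4242955724) (nat_lit 760) (nat_lit 5960427454)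 (nat_lit 86) (nat_lit 5) (nat_lit 85) (nat_lit 5) (nat_lit 95) (nat_lit 5) (nat_lit 301) (nat_lit 296) (nat_lit 183))))))) (XT.nd (nat_lit 780) (nat_lit 1444) (nat_lit 0) (XT.nd (nat_lit 390) (nat_lit 760) (nat_lit 0) (XT.nd (nat_lit 156) (nat_lit 684) (nat_lit 0) (XT.nd (nat_lit 78) (nat_lit 0) (nat_lit 0) (XT.lf (nat_lit 76) (nat_lit 2296020439) (nat_lit 0) (nat_lit 20280403721) (nat_lit 760) (nat_lit 5059183737) (nat_lit 87) (nat_lit 5) (nat_lit 86) (nat_lit 5) (nat_lit 96) (nat_lit 5) (nat_lit 302) (nat_lit 296) (nat_lit 182)) (XT.lf (nat_lit 76) (nat_lit 15698752068) (nat_lit 0) (nat_lit 8798856580) (nat_lit 760) (nat_lit 3865364807) (nat_lit 87) (nat_lit 5) (nat_lit 86) (nat_lit 5) (nat_lit 96) (nat_lit 5) (nat_lit 303) (nat_lit 296) (nat_lit 181))) (XT.nd (nat_lit 78) (nat_lit 760) (nat_lit 0) (XT.lf (nat_lit 76) (nat_lit 609443673) (nat_lit 0) (nat_lit 25960559357) (nat_lit 760)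 (nat_lit 2553958752) (nat_lit 88) (nat_lit 5) (nat_lit 87) (nat_lit 5) (nat_lit 97) (nat_lit 5) (nat_lit 304) (nat_lit 296) (nat_lit 180)) (XT.nd (nat_lit 78) (nat_lit 760) (nat_lit 0) (XT.lf (nat_lit 76) (nat_lit 14833390802) (nat_lit 0) (nat_lit 14263991126) (nat_lit 760) (nat_lit 808060809) (nat_lit 88) (nat_lit 5) (nat_lit 87) (nat_lit 5) (nat_lit 97) (nat_lit 5) (nat_lit 305) (nat_lit 296) (nat_lit 179)) (XT.lf (nat_lit 0) (nat_lit 987444779) (nat_lit 760) (nat_lit 977507324) (nat_lit 836) (nat_lit 28760499594) (nat_lit 77) (nat_lit 5) (nat_lit 87) (nat_lit 5) (nat_lit 88) (nat_lit 5) (nat_lit 306) (nat_lit 296) (nat_lit 178))))) (XT.nd (nat_lit 156) (nat_lit 836) (nat_lit 0) (XT.nd (nat_lit 78) (nat_lit 0) (nat_lit 0) (XT.lf (nat_lit 0) (nat_lit 3238405960) (nat_lit 760) (nat_lit 17488617924) (nat_lit 76) (nat_lit 10839142948) (nat_lit 78) (nat_lit 5) (nat_lit 88) (nat_lit 5) (nat_lit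 79) (nat_lit 5) (nat_lit 307) (nat_lit 296) (nat_lit 177)) (XT.lf (nat_lit 0) (nat_lit 5646482017) (nat_lit 760) (nat_lit 2565308601) (nat_lit 76) (nat_lit 24234908185) (nat_lit 78) (nat_lit 5) (nat_lit 88) (nat_lit 5) (nat_lit 79) (nat_lit 5) (nat_lit 308) (nat_lit 296) (nat_lit 176))) (XT.nd (nat_lit 78) (nat_lit 380) (nat_lit 0) (XT.lf (nat_lit 0) (nat_lit 8462428090) (nat_lit 532) (nat_lit 19907859211) (nat_lit 76) (nat_lit 4986605734) (nat_lit 72) (nat_lit 5) (nat_lit 79) (nat_lit 5) (nat_lit 73) (nat_lit 5) (nat_lit 309) (nat_lit 296) (nat_lit 175)) (XT.nd (nat_lit 78) (nat_lit 380) (nat_lit 0) (XT.lf (nat_lit 0) (nat_lit 11593838529) (nat_lit 532) (nat_lit 4096596844) (nat_lit 76) (nat_lit 18613436797) (nat_lit 72) (nat_lit 5) (nat_lit 79) (nat_lit 5) (nat_lit 73) (nat_lit 5) (nat_lit 310) (nat_lit 296) (nat_lit 174)) (XT.lf (nat_lit 0) (nat_lit 12914776947) (nat_lit 380) (nat_lit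 2164764684) (nat_lit 456) (nat_lit 20208780663) (nat_lit 67) (nat_lit 5) (nat_lit 72) (nat_lit 5) (nat_lit 73) (nat_lit 5) (nat_lit 311) (nat_lit 296) (nat_lit 173)))))) (XT.nd (nat_lit 390) (nat_lit 836) (nat_lit 0) (XT.nd (nat_lit 156) (nat_lit 304) (nat_lit 0) (XT.nd (nat_lit 78) (nat_lit 304) (nat_lit 0) (XT.lf (nat_lit 0) (nat_lit 18994194193) (nat_lit 456) (nat_lit 5592595148) (nat_lit 76) (nat_lit 11722480118) (nat_lit 67) (nat_lit 5) (nat_lit 73) (nat_lit 5) (nat_lit 68) (nat_lit 5) (nat_lit 312) (nat_lit 296) (nat_lit 172)) (XT.lf (nat_lit 0) (nat_lit 12384543510) (nat_lit 304) (nat_lit 10945276346) (nat_lit 380) (nat_lit 14040189485) (nat_lit 63) (nat_lit 5) (nat_lit 67) (nat_lit 5) (nat_lit 68) (nat_lit 5) (nat_lit 313) (nat_lit 296) (nat_lit 171))) (XT.nd (nat_lit 78) (nat_lit 304) (nat_lit 0) (XT.lf (nat_lit 0) (nat_lit 28027743643) (nat_lit 380) (nat_lit 7082518484) (nat_lit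 76) (nat_lit 3366255278) (nat_lit 63) (nat_lit 5) (nat_lit 68) (nat_lit 5) (nat_lit 64) (nat_lit 5) (nat_lit 314) (nat_lit 296) (nat_lit 170)) (XT.nd (nat_lit 78) (nat_lit 0) (nat_lit 0) (XT.lf (nat_lit 0) (nat_lit 11913773275) (nat_lit 304) (nat_lit 21408900812) (nat_lit 380) (nat_lit 6297577958) (nat_lit 59) (nat_lit 5) (nat_lit 63) (nat_lit 5) (nat_lit 64) (nat_lit 5) (nat_lit 315) (nat_lit 296) (nat_lit 169)) (XT.lf (nat_lit 0) (nat_lit 32102140803) (nat_lit 304) (nat_lit 6896930267) (nat_lit 380) (nat_lit 1816272722) (nat_lit 59) (nat_lit 5) (nat_lit 63) (nat_lit 5) (nat_lit 64) (nat_lit 5) (nat_lit 316) (nat_lit 296) (nat_lit 168))))) (XT.nd (nat_lit 156) (nat_lit 532) (nat_lit 0) (XT.nd (nat_lit 78) (nat_lit 0) (nat_lit 0) (XT.lf (nat_lit 0) (nat_lit 3107749662) (nat_lit 304) (nat_lit 30642227950) (nat_lit 76) (nat_lit 8302406900) (nat_lit 55) (nat_lit 5) (nat_lit 59) (nat_lit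 5) (nat_lit 56) (nat_lit 5) (nat_lit 317) (nat_lit 296) (nat_lit 167)) (XT.lf (nat_lit 0) (nat_lit 8476938641) (nat_lit 304) (nat_lit 10650627467) (nat_lit 76) (nat_lit 24209227713) (nat_lit 55) (nat_lit 5) (nat_lit 59) (nat_lit 5) (nat_lit 56) (nat_lit 5) (nat_lit 318) (nat_lit 296) (nat_lit 166))) (XT.nd (nat_lit 78) (nat_lit 228) (nat_lit 0) (XT.lf (nat_lit 0) (nat_lit 10678860707) (nat_lit 304) (nat_lit 3599556499) (nat_lit 380) (nat_lit 30398820129) (nat_lit 51) (nat_lit 5) (nat_lit 55) (nat_lit 5) (nat_lit 56) (nat_lit 5) (nat_lit 319) (nat_lit 296) (nat_lit 165)) (XT.nd (nat_lit 78) (nat_lit 228) (nat_lit 0) (XT.lf (nat_lit 0) (nat_lit 20748836597) (nat_lit 380) (nat_lit 12835973057) (nat_lit 76) (nat_lit 12480955021) (nat_lit 51) (nat_lit 5) (nat_lit 56) (nat_lit 5) (nat_lit 52) (nat_lit 5) (nat_lit 320) (nat_lit 296) (nat_lit 164)) (XT.lf (nat_lit 0) (nat_lit 9630381124) (nat_lit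 228) (nat_lit 18119074627) (nat_lit 304) (nat_lit 19763933451) (nat_lit 48) (nat_lit 5) (nat_lit 51) (nat_lit 5) (nat_lit 52) (nat_lit 5) (nat_lit 321) (nat_lit 296) (nat_lit 163))))))))
noncomputable def xc203 : XT := (XT.nd (nat_lit 1560) (nat_lit 912) (nat_lit 0) (XT.nd (nat_lit 780) (nat_lit 912) (nat_lit 0) (XT.nd (nat_lit 390) (nat_lit 456) (nat_lit 0) (XT.nd (nat_lit 156) (nat_lit 304) (nat_lit 0) (XT.nd (nat_lit 78) (nat_lit 228) (nat_lit 0) (XT.lf (nat_lit 0) (nat_lit 33662350955) (nat_lit 228) (nat_lit 1652526619) (nat_lit 304) (nat_lit 13707783326) (nat_lit 48) (nat_lit 5) (nat_lit 51) (nat_lit 5) (nat_lit 52) (nat_lit 5) (nat_lit 322) (nat_lit 296) (nat_lit 162)) (XT.lf (nat_lit 0) (nat_lit 8306957793) (nat_lit 228) (nat_lit 35322952288) (nat_lit 304) (nat_lit 6958923440) (nat_lit 45) (nat_lit 5) (nat_lit 48) (nat_lit 5) (nat_lit 49) (nat_lit 5) (nat_lit 323) (nat_lit 296)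 (nat_lit 161))) (XT.nd (nat_lit 78) (nat_lit 228) (nat_lit 0) (XT.lf (nat_lit 0) (nat_lit 412318244) (nat_lit 304) (nat_lit 18566117224) (nat_lit 76) (nat_lit 33240332994) (nat_lit 44) (nat_lit 5) (nat_lit 48) (nat_lit 5) (nat_lit 45) (nat_lit 5) (nat_lit 324) (nat_lit 296) (nat_lit 160)) (XT.nd (nat_lit 78) (nat_lit 0) (nat_lit 0) (XT.lf (nat_lit 0) (nat_lit 6423778557) (nat_lit 228) (nat_lit 1592415339) (nat_lit 304) (nat_lit 45903409081) (nat_lit 41) (nat_lit 5) (nat_lit 44) (nat_lit 5) (nat_lit 45) (nat_lit 5) (nat_lit 325) (nat_lit 296) (nat_lit 159)) (XT.lf (nat_lit 0) (nat_lit 16577693406) (nat_lit 304) (nat_lit 22650549371) (nat_lit 76) (nat_lit 16448368487) (nat_lit 41) (nat_lit 5) (nat_lit 45) (nat_lit 5) (nat_lit 42) (nat_lit 5) (nat_lit 326) (nat_lit 296) (nat_lit 158))))) (XT.nd (nat_lit 156) (nat_lit 228) (nat_lit 0) (XT.nd (nat_lit 78) (nat_lit 0) (nat_lit 0) (XT.lf (nat_lit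 0) (nat_lit 3520490443) (nat_lit 228) (nat_lit 22125651826) (nat_lit 304) (nat_lit 31871387359) (nat_lit 38) (nat_lit 5) (nat_lit 41) (nat_lit 5) (nat_lit 42) (nat_lit 5) (nat_lit 327) (nat_lit 296) (nat_lit 157)) (XT.lf (nat_lit 0) (nat_lit 31783436220) (nat_lit 228) (nat_lit 3766037224) (nat_lit 304) (nat_lit 23881950693) (nat_lit 38) (nat_lit 5) (nat_lit 41) (nat_lit 5) (nat_lit 42) (nat_lit 5) (nat_lit 328) (nat_lit 296) (nat_lit 156))) (XT.nd (nat_lit 78) (nat_lit 228) (nat_lit 0) (XT.lf (nat_lit 0) (nat_lit 46188100599) (nat_lit 304) (nat_lit 226632777) (nat_lit 76) (nat_lit 15014276591) (nat_lit 38) (nat_lit 5) (nat_lit 42) (nat_lit 5) (nat_lit 39) (nat_lit 5) (nat_lit 329) (nat_lit 296) (nat_lit 155)) (XT.nd (nat_lit 78) (nat_lit 76) (nat_lit 0) (XT.lf (nat_lit 0) (nat_lit 29443602588) (nat_lit 152) (nat_lit 28434540114) (nat_lit 228) (nat_lit 5622361130) (nat_lit 36) (nat_lit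 5) (nat_lit 38) (nat_lit 5) (nat_lit 39) (nat_lit 5) (nat_lit 330) (nat_lit 296) (nat_lit 154)) (XT.lf (nat_lit 0) (nat_lit 4335783694) (nat_lit 228) (nat_lit 5142975237) (nat_lit 76) (nat_lit 56193222853) (nat_lit 35) (nat_lit 5) (nat_lit 38) (nat_lit 5) (nat_lit 36) (nat_lit 5) (nat_lit 331) (nat_lit 296) (nat_lit 153)))))) (XT.nd (nat_lit 390) (nat_lit 380) (nat_lit 0) (XT.nd (nat_lit 156) (nat_lit 304) (nat_lit 0) (XT.nd (nat_lit 78) (nat_lit 0) (nat_lit 0) (XT.lf (nat_lit 0) (nat_lit 15177133615) (nat_lit 304) (nat_lit 42145758333) (nat_lit 76) (nat_lit 10595823414) (nat_lit 32) (nat_lit 5) (nat_lit 36) (nat_lit 5) (nat_lit 33) (nat_lit 5) (nat_lit 332) (nat_lit 296) (nat_lit 152)) (XT.lf (nat_lit 0) (nat_lit 26802655603) (nat_lit 304) (nat_lit 12019758280) (nat_lit 76) (nat_lit 31443268910) (nat_lit 32) (nat_lit 5) (nat_lit 36) (nat_lit 5) (nat_lit 33) (nat_lit 5) (nat_lit 333)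 (nat_lit 296) (nat_lit 151))) (XT.nd (nat_lit 78) (nat_lit 152) (nat_lit 0) (XT.lf (nat_lit 0) (nat_lit 20258316655) (nat_lit 152) (nat_lit 19065700852) (nat_lit 228) (nat_lit 33390255186) (nat_lit 30) (nat_lit 5) (nat_lit 32) (nat_lit 5) (nat_lit 33) (nat_lit 5) (nat_lit 334) (nat_lit 296) (nat_lit 150)) (XT.nd (nat_lit 78) (nat_lit 152) (nat_lit 0) (XT.lf (nat_lit 0) (nat_lit 52702859242) (nat_lit 228) (nat_lit 20739716403) (nat_lit 76) (nat_lit 1831148036) (nat_lit 30) (nat_lit 5) (nat_lit 33) (nat_lit 5) (nat_lit 31) (nat_lit 5) (nat_lit 335) (nat_lit 296) (nat_lit 149)) (XT.lf (nat_lit 0) (nat_lit 12652210624) (nat_lit 152) (nat_lit 54606904935) (nat_lit 228) (nat_lit 10676610112) (nat_lit 28) (nat_lit 5) (nat_lit 30) (nat_lit 5) (nat_lit 31) (nat_lit 5) (nat_lit 336) (nat_lit 296) (nat_lit 148))))) (XT.nd (nat_lit 156) (nat_lit 152) (nat_lit 0) (XT.nd (nat_lit 78) (nat_lit 152)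 (nat_lit 0) (XT.lf (nat_lit 0) (nat_lit 2109739316) (nat_lit 228) (nat_lit 32316085914) (nat_lit 76) (nat_lit 46285820159) (nat_lit 27) (nat_lit 5) (nat_lit 30) (nat_lit 5) (nat_lit 28) (nat_lit 5) (nat_lit 337) (nat_lit 296) (nat_lit 147)) (XT.lf (nat_lit 0) (nat_lit 2192444797) (nat_lit 152) (nat_lit 13016857999) (nat_lit 228) (nat_lit 68406673735) (nat_lit 25) (nat_lit 5) (nat_lit 27) (nat_lit 5) (nat_lit 28) (nat_lit 5) (nat_lit 338) (nat_lit 296) (nat_lit 146))) (XT.nd (nat_lit 78) (nat_lit 152) (nat_lit 0) (XT.lf (nat_lit 0) (nat_lit 29666334422) (nat_lit 228) (nat_lit 47248964280) (nat_lit 76) (nat_lit 9715102738) (nat_lit 25) (nat_lit 5) (nat_lit 28) (nat_lit 5) (nat_lit 26) (nat_lit 5) (nat_lit 339) (nat_lit 296) (nat_lit 145)) (XT.nd (nat_lit 78) (nat_lit 152) (nat_lit 0) (XT.lf (nat_lit 0) (nat_lit 45058172965) (nat_lit 228) (nat_lit 11581382489) (nat_lit 76) (nat_lit 33145396000)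 (nat_lit 25) (nat_lit 5) (nat_lit 28) (nat_lit 5) (nat_lit 26) (nat_lit 5) (nat_lit 340) (nat_lit 296) (nat_lit 144)) (XT.lf (nat_lit 0) (nat_lit 26722658029) (nat_lit 152) (nat_lit 34912793580) (nat_lit 228) (nat_lit 31440986500) (nat_lit 23) (nat_lit 5) (nat_lit 25) (nat_lit 5) (nat_lit 26) (nat_lit 5) (nat_lit 341) (nat_lit 296) (nat_lit 143))))))) (XT.nd (nat_lit 780) (nat_lit 304) (nat_lit 0) (XT.nd (nat_lit 390) (nat_lit 304) (nat_lit 0) (XT.nd (nat_lit 156) (nat_lit 228) (nat_lit 0) (XT.nd (nat_lit 78) (nat_lit 76) (nat_lit 0) (XT.lf (nat_lit 0) (nat_lit 67341803399) (nat_lit 152) (nat_lit 11894590827) (nat_lit 228) (nat_lit 17286366345) (nat_lit 23) (nat_lit 5) (nat_lit 25) (nat_lit 5) (nat_lit 26) (nat_lit 5) (nat_lit 342) (nat_lit 296) (nat_lit 142)) (XT.lf (nat_lit 0) (nat_lit 9976037167) (nat_lit 76) (nat_lit 88087455254) (nat_lit 152) (nat_lit 2060602717) (nat_lit 22) (nat_lit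 5) (nat_lit 23) (nat_lit 5) (nat_lit 24) (nat_lit 4) (nat_lit 343) (nat_lit 296) (nat_lit 141))) (XT.nd (nat_lit 78) (nat_lit 152) (nat_lit 0) (XT.lf (nat_lit 0) (nat_lit 14176725716) (nat_lit 152) (nat_lit 52199469096) (nat_lit 76) (nat_lit 37483630852) (nat_lit 21) (nat_lit 5) (nat_lit 23) (nat_lit 5) (nat_lit 22) (nat_lit 5) (nat_lit 344) (nat_lit 296) (nat_lit 140)) (XT.nd (nat_lit 78) (nat_lit 152) (nat_lit 0) (XT.lf (nat_lit 0) (nat_lit 31155453201) (nat_lit 152) (nat_lit 12389264274) (nat_lit 76) (nat_lit 64235998318) (nat_lit 21) (nat_lit 5) (nat_lit 23) (nat_lit 5) (nat_lit 22) (nat_lit 5) (nat_lit 345) (nat_lit 296) (nat_lit 139)) (XT.lf (nat_lit 0) (nat_lit 30381925845) (nat_lit 152) (nat_lit 19074378597) (nat_lit 228) (nat_lit 62417687773) (nat_lit 19) (nat_lit 5) (nat_lit 21) (nat_lit 5) (nat_lit 22) (nat_lit 5) (nat_lit 346) (nat_lit 296) (nat_lit 138))))) (XT.nd (nat_lit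 156) (nat_lit 228) (nat_lit 0) (XT.nd (nat_lit 78) (nat_lit 76) (nat_lit 0) (XT.lf (nat_lit 0) (nat_lit 68987658478) (nat_lit 228) (nat_lit 40548377882) (nat_lit 76) (nat_lit 6620124188) (nat_lit 19) (nat_lit 5) (nat_lit 22) (nat_lit 5) (nat_lit 20) (nat_lit 4) (nat_lit 347) (nat_lit 296) (nat_lit 137)) (XT.lf (nat_lit 0) (nat_lit 2198301730) (nat_lit 76) (nat_lit 87643203262) (nat_lit 152) (nat_lit 30793637115) (nat_lit 18) (nat_lit 5) (nat_lit 19) (nat_lit 5) (nat_lit 20) (nat_lit 4) (nat_lit 348) (nat_lit 296) (nat_lit 136))) (XT.nd (nat_lit 78) (nat_lit 228) (nat_lit 0) (XT.lf (nat_lit 0) (nat_lit 48488235456) (nat_lit 76) (nat_lit 63935446610) (nat_lit 152) (nat_lit 12880109764) (nat_lit 18) (nat_lit 5) (nat_lit 19) (nat_lit 5) (nat_lit 20) (nat_lit 4) (nat_lit 349) (nat_lit 296) (nat_lit 135)) (XT.nd (nat_lit 78) (nat_lit 152) (nat_lit 0) (XT.lf (nat_lit 0) (nat_lit 5738291022)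 (nat_lit 152) (nat_lit 33207554007) (nat_lit 76) (nat_lit 91255453173) (nat_lit 17) (nat_lit 5) (nat_lit 19) (nat_lit 5) (nat_lit 18) (nat_lit 5) (nat_lit 350) (nat_lit 296) (nat_lit 134)) (XT.lf (nat_lit 0) (nat_lit 12776949836) (nat_lit 152) (nat_lit 12276304242) (nat_lit 228) (nat_lit 110269944291) (nat_lit 15) (nat_lit 5) (nat_lit 17) (nat_lit 5) (nat_lit 18) (nat_lit 5) (nat_lit 351) (nat_lit 296) (nat_lit 133)))))) (XT.nd (nat_lit 390) (nat_lit 228) (nat_lit 0) (XT.nd (nat_lit 156) (nat_lit 76) (nat_lit 0) (XT.nd (nat_lit 78) (nat_lit 0) (nat_lit 0) (XT.lf (nat_lit 0) (nat_lit 46150133213) (nat_lit 228) (nat_lit 78715963937) (nat_lit 76) (nat_lit 15794288820) (nat_lit 15) (nat_lit 5) (nat_lit 18) (nat_lit 5) (nat_lit 16) (nat_lit 4) (nat_lit 352) (nat_lit 296) (nat_lit 132)) (XT.lf (nat_lit 0) (nat_lit 68502178062) (nat_lit 228) (nat_lit 32897037276) (nat_lit 76) (nat_lit 44855202307)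 (nat_lit 15) (nat_lit 5) (nat_lit 18) (nat_lit 5) (nat_lit 16) (nat_lit 4) (nat_lit 353) (nat_lit 296) (nat_lit 131))) (XT.nd (nat_lit 78) (nat_lit 0) (nat_lit 0) (XT.lf (nat_lit 0) (nat_lit 15714245642) (nat_lit 76) (nat_lit 76502038039) (nat_lit 152) (nat_lit 59899645043) (nat_lit 14) (nat_lit 5) (nat_lit 15) (nat_lit 5) (nat_lit 16) (nat_lit 4) (nat_lit 354) (nat_lit 296) (nat_lit 130)) (XT.nd (nat_lit 78) (nat_lit 0) (nat_lit 0) (XT.lf (nat_lit 0) (nat_lit 67896684391) (nat_lit 76) (nat_lit 49775670968) (nat_lit 152) (nat_lit 40570347668) (nat_lit 14) (nat_lit 5) (nat_lit 15) (nat_lit 5) (nat_lit 16) (nat_lit 4) (nat_lit 355) (nat_lit 296) (nat_lit 129)) (XT.lf (nat_lit 0) (nat_lit 122686798250) (nat_lit 76) (nat_lit 21713607164) (nat_lit 152) (nat_lit 20275452567) (nat_lit 14) (nat_lit 5) (nat_lit 15) (nat_lit 5) (nat_lit 16) (nat_lit 4) (nat_lit 356) (nat_lit 296) (nat_lit 128)))))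 (XT.nd (nat_lit 234) (nat_lit 76) (nat_lit 0) (XT.nd (nat_lit 78) (nat_lit 0) (nat_lit 0) (XT.lf (nat_lit 0) (nat_lit 1265307145) (nat_lit 152) (nat_lit 162488318306) (nat_lit 76) (nat_lit 7663027501) (nat_lit 12) (nat_lit 5) (nat_lit 14) (nat_lit 5) (nat_lit 13) (nat_lit 4) (nat_lit 357) (nat_lit 296) (nat_lit 127)) (XT.nd (nat_lit 78) (nat_lit 0) (nat_lit 0) (XT.lf (nat_lit 0) (nat_lit 24279647670) (nat_lit 152) (nat_lit 115310983725) (nat_lit 76) (nat_lit 38833341088) (nat_lit 12) (nat_lit 5) (nat_lit 14) (nat_lit 5) (nat_lit 13) (nat_lit 4) (nat_lit 358) (nat_lit 296) (nat_lit 126)) (XT.lf (nat_lit 0) (nat_lit 48443950659) (nat_lit 152) (nat_lit 65776127830) (nat_lit 76) (nat_lit 71561617785) (nat_lit 12) (nat_lit 5) (nat_lit 14) (nat_lit 5) (nat_lit 13) (nat_lit 4) (nat_lit 359) (nat_lit 296) (nat_lit 125)))) (XT.nd (nat_lit 78) (nat_lit 76) (nat_lit 0) (XT.lf (nat_lit 0) (nat_lit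 73815750167) (nat_lit 152) (nat_lit 13765810490) (nat_lit 76) (nat_lit 105925782060) (nat_lit 12) (nat_lit 5) (nat_lit 14) (nat_lit 5) (nat_lit 13) (nat_lit 4) (nat_lit 360) (nat_lit 296) (nat_lit 124)) (XT.nd (nat_lit 78) (nat_lit 0) (nat_lit 0) (XT.lf (nat_lit 0) (nat_lit 42194282946) (nat_lit 76) (nat_lit 58919943299) (nat_lit 152) (nat_lit 100472141411) (nat_lit 11) (nat_lit 5) (nat_lit 12) (nat_lit 5) (nat_lit 13) (nat_lit 4) (nat_lit 361) (nat_lit 296) (nat_lit 123)) (XT.lf (nat_lit 0) (nat_lit 101429098263) (nat_lit 76) (nat_lit 28580987962) (nat_lit 152) (nat_lit 80047635093) (nat_lit 11) (nat_lit 5) (nat_lit 12) (nat_lit 5) (nat_lit 13) (nat_lit 4) (nat_lit 362) (nat_lit 296) (nat_lit 122))))))))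
noncomputable def xc204 : XT := (XT.nd (nat_lit 35646) (nat_lit 0) (nat_lit 3800) (XT.nd (nat_lit 780) (nat_lit 228) (nat_lit 0) (XT.nd (nat_lit 390) (nat_lit 76) (nat_lit 0) (XT.nd (nat_lit 156) (nat_lit 76) (nat_lit 0) (XT.nd (nat_lit 78) (nat_lit 76) (nat_lit 0) (XT.lf (nat_lit 0) (nat_lit 160401223292) (nat_lit 152) (nat_lit 55379286905) (nat_lit 0) (nat_lit 3169608719) (nat_lit 11) (nat_lit 5) (nat_lit 13) (nat_lit 4) (nat_lit 11) (nat_lit 4) (nat_lit 363) (nat_lit 296) (nat_lit 121)) (XT.lf (nat_lit 0) (nat_lit 64941434) (nat_lit 76) (nat_lit 192715914754) (nat_lit 76) (nat_lit 35482833693) (nat_lit 10) (nat_lit 4) (nat_lit 11) (nat_lit 5) (nat_lit 11) (nat_lit 4) (nat_lit 364) (nat_lit 296) (nat_lit 120))) (XT.nd (nat_lit 78) (nat_lit 76) (nat_lit 0) (XT.lf (nat_lit 0) (nat_lit 60202930558) (nat_lit 76) (nat_lit 167513811695) (nat_lit 76) (nat_lit 10279333979) (nat_lit 10) (nat_lit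 4) (nat_lit 11) (nat_lit 5) (nat_lit 11) (nat_lit 4) (nat_lit 365) (nat_lit 296) (nat_lit 119)) (XT.nd (nat_lit 78) (nat_lit 0) (nat_lit 0) (XT.lf (nat_lit 0) (nat_lit 15665756181) (nat_lit 152) (nat_lit 125121007690) (nat_lit 76) (nat_lit 107415713489) (nat_lit 9) (nat_lit 5) (nat_lit 11) (nat_lit 5) (nat_lit 10) (nat_lit 4) (nat_lit 366) (nat_lit 296) (nat_lit 118)) (XT.lf (nat_lit 0) (nat_lit 42562091097) (nat_lit 152) (nat_lit 69984787919) (nat_lit 76) (nat_lit 146363922039) (nat_lit 9) (nat_lit 5) (nat_lit 11) (nat_lit 5) (nat_lit 10) (nat_lit 4) (nat_lit 367) (nat_lit 296) (nat_lit 117))))) (XT.nd (nat_lit 156) (nat_lit 0) (nat_lit 0) (XT.nd (nat_lit 78) (nat_lit 76) (nat_lit 0) (XT.lf (nat_lit 0) (nat_lit 70802712544) (nat_lit 152) (nat_lit 12092720436) (nat_lit 76) (nat_lit 187259134808) (nat_lit 9) (nat_lit 5) (nat_lit 11) (nat_lit 5) (nat_lit 10) (nat_lit 4) (nat_lit 368) (nat_lit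 296) (nat_lit 116)) (XT.lf (nat_lit 0) (nat_lit 50303044590) (nat_lit 76) (nat_lit 50937187006) (nat_lit 152) (nat_lit 180681048259) (nat_lit 8) (nat_lit 5) (nat_lit 9) (nat_lit 5) (nat_lit 10) (nat_lit 4) (nat_lit 369) (nat_lit 296) (nat_lit 115))) (XT.nd (nat_lit 78) (nat_lit 0) (nat_lit 0) (XT.lf (nat_lit 0) (nat_lit 116237527206) (nat_lit 76) (nat_lit 17166400454) (nat_lit 152) (nat_lit 160862185123) (nat_lit 8) (nat_lit 5) (nat_lit 9) (nat_lit 5) (nat_lit 10) (nat_lit 4) (nat_lit 370) (nat_lit 296) (nat_lit 114)) (XT.nd (nat_lit 78) (nat_lit 0) (nat_lit 0) (XT.lf (nat_lit 0) (nat_lit 167460934858) (nat_lit 152) (nat_lit 122045934671) (nat_lit 0) (nat_lit 17707061806) (nat_lit 8) (nat_lit 5) (nat_lit 10) (nat_lit 4) (nat_lit 8) (nat_lit 4) (nat_lit 371) (nat_lit 296) (nat_lit 113)) (XT.lf (nat_lit 0) (nat_lit 203501754053) (nat_lit 152) (nat_lit 63546403271) (nat_lit 0) (nat_lit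 53746935690) (nat_lit 8) (nat_lit 5) (nat_lit 10) (nat_lit 4) (nat_lit 8) (nat_lit 4) (nat_lit 372) (nat_lit 296) (nat_lit 112)))))) (XT.nd (nat_lit 390) (nat_lit 76) (nat_lit 0) (XT.nd (nat_lit 156) (nat_lit 76) (nat_lit 0) (XT.nd (nat_lit 78) (nat_lit 76) (nat_lit 0) (XT.lf (nat_lit 0) (nat_lit 241344181099) (nat_lit 152) (nat_lit 2122691160) (nat_lit 0) (nat_lit 91588462441) (nat_lit 8) (nat_lit 5) (nat_lit 10) (nat_lit 4) (nat_lit 8) (nat_lit 4) (nat_lit 373) (nat_lit 296) (nat_lit 111)) (XT.lf (nat_lit 0) (nat_lit 64433730363) (nat_lit 76) (nat_lit 217650577756) (nat_lit 76) (nat_lit 67894001674) (nat_lit 7) (nat_lit 4) (nat_lit 8) (nat_lit 5) (nat_lit 8) (nat_lit 4) (nat_lit 374) (nat_lit 296) (nat_lit 110))) (XT.nd (nat_lit 78) (nat_lit 76) (nat_lit 0) (XT.lf (nat_lit 0) (nat_lit 134390922271) (nat_lit 76) (nat_lit 190506063537) (nat_lit 76) (nat_lit 40748670859) (nat_lit 7) (nat_lit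 4) (nat_lit 8) (nat_lit 5) (nat_lit 8) (nat_lit 4) (nat_lit 375) (nat_lit 296) (nat_lit 109)) (XT.nd (nat_lit 78) (nat_lit 76) (nat_lit 0) (XT.lf (nat_lit 0) (nat_lit 207845263551) (nat_lit 76) (nat_lit 162004648608) (nat_lit 76) (nat_lit 12246478220) (nat_lit 7) (nat_lit 4) (nat_lit 8) (nat_lit 5) (nat_lit 8) (nat_lit 4) (nat_lit 376) (nat_lit 296) (nat_lit 108)) (XT.lf (nat_lit 0) (nat_lit 17114554154) (nat_lit 152) (nat_lit 114674075046) (nat_lit 76) (nat_lit 267567248080) (nat_lit 6) (nat_lit 5) (nat_lit 8) (nat_lit 5) (nat_lit 7) (nat_lit 4) (nat_lit 377) (nat_lit 296) (nat_lit 107))))) (XT.nd (nat_lit 156) (nat_lit 0) (nat_lit 0) (XT.nd (nat_lit 78) (nat_lit 76) (nat_lit 0) (XT.lf (nat_lit 0) (nat_lit 47531720835) (nat_lit 152) (nat_lit 52319588755) (nat_lit 76) (nat_lit 317617008805) (nat_lit 6) (nat_lit 5) (nat_lit 8) (nat_lit 5) (nat_lit 7) (nat_lit 4) (nat_lit 378) (nat_lit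 296) (nat_lit 106)) (XT.lf (nat_lit 0) (nat_lit 13586861367) (nat_lit 76) (nat_lit 66094675047) (nat_lit 152) (nat_lit 356794255814) (nat_lit 5) (nat_lit 5) (nat_lit 6) (nat_lit 5) (nat_lit 7) (nat_lit 4) (nat_lit 379) (nat_lit 296) (nat_lit 105))) (XT.nd (nat_lit 34164) (nat_lit 0) (nat_lit 6004) (XT.lf (nat_lit 0) (nat_lit 84604437157) (nat_lit 76) (nat_lit 29720131264) (nat_lit 152) (nat_lit 342064785231) (nat_lit 5) (nat_lit 5) (nat_lit 6) (nat_lit 5) (nat_lit 7) (nat_lit 4) (nat_lit 380) (nat_lit 296) (nat_lit 104)) (XT.nd (nat_lit 78) (nat_lit 0) (nat_lit 0) (XT.lf (nat_lit 0) (nat_lit 4283747449) (nat_lit 0) (nat_lit 4283747449) (nat_lit 684) (nat_lit 3911129880) (nat_lit 84) (nat_lit 5) (nat_lit 84) (nat_lit 3) (nat_lit 93) (nat_lit 3) (nat_lit 297) (nat_lit 297) (nat_lit 186)) (XT.lf (nat_lit 0) (nat_lit 17703341624) (nat_lit 684) (nat_lit 5286057836) (nat_lit 760) (nat_lit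 2584554160) (nat_lit 84) (nat_lit 5) (nat_lit 93) (nat_lit 3) (nat_lit 94) (nat_lit 5) (nat_lit 298) (nat_lit 297) (nat_lit 185))))))) (XT.nd (nat_lit 780) (nat_lit 1672) (nat_lit 0) (XT.nd (nat_lit 390) (nat_lit 532) (nat_lit 0) (XT.nd (nat_lit 156) (nat_lit 0) (nat_lit 76) (XT.nd (nat_lit 78) (nat_lit 0) (nat_lit 0) (XT.lf (nat_lit 76) (nat_lit 6434802723) (nat_lit 0) (nat_lit 12099981640) (nat_lit 760) (nat_lit 7674989472) (nat_lit 85) (nat_lit 5) (nat_lit 84) (nat_lit 5) (nat_lit 94) (nat_lit 5) (nat_lit 299) (nat_lit 297) (nat_lit 184)) (XT.lf (nat_lit 76) (nat_lit 18921758904) (nat_lit 0) (nat_lit 569562702) (nat_lit 760) (nat_lit 7381901256) (nat_lit 85) (nat_lit 5) (nat_lit 84) (nat_lit 5) (nat_lit 94) (nat_lit 5) (nat_lit 300) (nat_lit 297) (nat_lit 183))) (XT.nd (nat_lit 78) (nat_lit 0) (nat_lit 0) (XT.lf (nat_lit 76) (nat_lit 4420946781) (nat_lit 0) (nat_lit 16318216856) (nat_lit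 760) (nat_lit 6818520065) (nat_lit 86) (nat_lit 5) (nat_lit 85) (nat_lit 5) (nat_lit 95) (nat_lit 5) (nat_lit 301) (nat_lit 297) (nat_lit 182)) (XT.nd (nat_lit 78) (nat_lit 0) (nat_lit 76) (XT.lf (nat_lit 76) (nat_lit 17674808917) (nat_lit 0) (nat_lit 4512975402) (nat_lit 760) (nat_lit 6081676561) (nat_lit 86) (nat_lit 5) (nat_lit 85) (nat_lit 5) (nat_lit 95) (nat_lit 5) (nat_lit 302) (nat_lit 297) (nat_lit 181)) (XT.lf (nat_lit 76) (nat_lit 2528693055) (nat_lit 0) (nat_lit 21337517551) (nat_lit 760) (nat_lit 5142759607) (nat_lit 87) (nat_lit 5) (nat_lit 86) (nat_lit 5) (nat_lit 96) (nat_lit 5) (nat_lit 303) (nat_lit 297) (nat_lit 180))))) (XT.nd (nat_lit 156) (nat_lit 684) (nat_lit 0) (XT.nd (nat_lit 78) (nat_lit 0) (nat_lit 76) (XT.lf (nat_lit 76) (nat_lit 16595948333) (nat_lit 0) (nat_lit 9279840975) (nat_lit 760) (nat_lit 3897315603) (nat_lit 87) (nat_lit 5) (nat_lit 86) (nat_lit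 5) (nat_lit 96) (nat_lit 5) (nat_lit 304) (nat_lit 297) (nat_lit 179)) (XT.lf (nat_lit 76) (nat_lit 758882241) (nat_lit 0) (nat_lit 27286868295) (nat_lit 760) (nat_lit 2526711533) (nat_lit 88) (nat_lit 5) (nat_lit 87) (nat_lit 5) (nat_lit 97) (nat_lit 5) (nat_lit 305) (nat_lit 297) (nat_lit 178))) (XT.nd (nat_lit 78) (nat_lit 760) (nat_lit 0) (XT.lf (nat_lit 76) (nat_lit 15688361660) (nat_lit 0) (nat_lit 15004124939) (nat_lit 760) (nat_lit 700897033) (nat_lit 88) (nat_lit 5) (nat_lit 87) (nat_lit 5) (nat_lit 97) (nat_lit 5) (nat_lit 306) (nat_lit 297) (nat_lit 177)) (XT.nd (nat_lit 78) (nat_lit 0) (nat_lit 76) (XT.lf (nat_lit 0) (nat_lit 1172858691) (nat_lit 760) (nat_lit 913688760) (nat_lit 836) (nat_lit 30168084988) (nat_lit 77) (nat_lit 5) (nat_lit 87) (nat_lit 5) (nat_lit 88) (nat_lit 5) (nat_lit 307) (nat_lit 297) (nat_lit 176)) (XT.lf (nat_lit 0) (nat_lit 3531302058) (nat_lit 760)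 (nat_lit 18245013055) (nat_lit 76) (nat_lit 11361335308) (nat_lit 78) (nat_lit 5) (nat_lit 88) (nat_lit 5) (nat_lit 79) (nat_lit 5) (nat_lit 308) (nat_lit 297) (nat_lit 175)))))) (XT.nd (nat_lit 390) (nat_lit 912) (nat_lit 0) (XT.nd (nat_lit 156) (nat_lit 380) (nat_lit 0) (XT.nd (nat_lit 78) (nat_lit 456) (nat_lit 0) (XT.lf (nat_lit 0) (nat_lit 6053544975) (nat_lit 760) (nat_lit 2581159016) (nat_lit 76) (nat_lit 25427829987) (nat_lit 78) (nat_lit 5) (nat_lit 88) (nat_lit 5) (nat_lit 79) (nat_lit 5) (nat_lit 309) (nat_lit 297) (nat_lit 174)) (XT.lf (nat_lit 0) (nat_lit 9005920272) (nat_lit 532) (nat_lit 20786218770) (nat_lit 76) (nat_lit 5226329799) (nat_lit 72) (nat_lit 5) (nat_lit 79) (nat_lit 5) (nat_lit 73) (nat_lit 5) (nat_lit 310) (nat_lit 297) (nat_lit 173))) (XT.nd (nat_lit 78) (nat_lit 380) (nat_lit 0) (XT.lf (nat_lit 0) (nat_lit 12288169291) (nat_lit 532) (nat_lit 4189966304)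 (nat_lit 76) (nat_lit 19534959854) (nat_lit 72) (nat_lit 5) (nat_lit 79) (nat_lit 5) (nat_lit 73) (nat_lit 5) (nat_lit 311) (nat_lit 297) (nat_lit 172)) (XT.nd (nat_lit 78) (nat_lit 0) (nat_lit 0) (XT.lf (nat_lit 0) (nat_lit 13670178428) (nat_lit 380) (nat_lit 2274232269) (nat_lit 456) (nat_lit 21102556077) (nat_lit 67) (nat_lit 5) (nat_lit 72) (nat_lit 5) (nat_lit 73) (nat_lit 5) (nat_lit 312) (nat_lit 297) (nat_lit 171)) (XT.lf (nat_lit 0) (nat_lit 20049497038) (nat_lit 456) (nat_lit 5762269227) (nat_lit 76) (nat_lit 12307470786) (nat_lit 67) (nat_lit 5) (nat_lit 73) (nat_lit 5) (nat_lit 68) (nat_lit 5) (nat_lit 313) (nat_lit 297) (nat_lit 170))))) (XT.nd (nat_lit 156) (nat_lit 608) (nat_lit 0) (XT.nd (nat_lit 78) (nat_lit 0) (nat_lit 0) (XT.lf (nat_lit 0) (nat_lit 13111952886) (nat_lit 304) (nat_lit 11486611881) (nat_lit 380) (nat_lit 14634626418) (nat_lit 63) (nat_lit 5) (nat_lit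 67) (nat_lit 5) (nat_lit 68) (nat_lit 5) (nat_lit 314) (nat_lit 297) (nat_lit 169)) (XT.lf (nat_lit 0) (nat_lit 29526603658) (nat_lit 380) (nat_lit 7328636536) (nat_lit 76) (nat_lit 3540033318) (nat_lit 63) (nat_lit 5) (nat_lit 68) (nat_lit 5) (nat_lit 64) (nat_lit 5) (nat_lit 315) (nat_lit 297) (nat_lit 168))) (XT.nd (nat_lit 78) (nat_lit 304) (nat_lit 0) (XT.lf (nat_lit 0) (nat_lit 12615727749) (nat_lit 304) (nat_lit 22467570419) (nat_lit 380) (nat_lit 6513055178) (nat_lit 59) (nat_lit 5) (nat_lit 63) (nat_lit 5) (nat_lit 64) (nat_lit 5) (nat_lit 316) (nat_lit 297) (nat_lit 167)) (XT.nd (nat_lit 78) (nat_lit 304) (nat_lit 0) (XT.lf (nat_lit 0) (nat_lit 33808453377) (nat_lit 304) (nat_lit 7230562081) (nat_lit 380) (nat_lit 1812418094) (nat_lit 59) (nat_lit 5) (nat_lit 63) (nat_lit 5) (nat_lit 64) (nat_lit 5) (nat_lit 317) (nat_lit 297) (nat_lit 166)) (XT.lf (nat_lit 0) (nat_lit 3352231591)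 (nat_lit 304) (nat_lit 32067229228) (nat_lit 76) (nat_lit 8730926847) (nat_lit 55) (nat_lit 5) (nat_lit 59) (nat_lit 5) (nat_lit 56) (nat_lit 5) (nat_lit 318) (nat_lit 297) (nat_lit 165))))))))
noncomputable def xc205 : XT := (XT.nd (nat_lit 1560) (nat_lit 1140) (nat_lit 0) (XT.nd (nat_lit 780) (nat_lit 836) (nat_lit 0) (XT.nd (nat_lit 390) (nat_lit 760) (nat_lit 0) (XT.nd (nat_lit 156) (nat_lit 228) (nat_lit 0) (XT.nd (nat_lit 78) (nat_lit 304) (nat_lit 0) (XT.lf (nat_lit 0) (nat_lit 8985637426) (nat_lit 304) (nat_lit 11081149203) (nat_lit 76) (nat_lit 25432450624) (nat_lit 55) (nat_lit 5) (nat_lit 59) (nat_lit 5) (nat_lit 56) (nat_lit 5) (nat_lit 319) (nat_lit 297) (nat_lit 164)) (XT.lf (nat_lit 0) (nat_lit 11313168063) (nat_lit 304) (nat_lit 3761548260) (nat_lit 380) (nat_lit 31832117617) (nat_lit 51) (nat_lit 5) (nat_lit 55) (nat_lit 5) (nat_lit 56) (nat_lit 5) (nat_lit 320) (nat_lit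 297) (nat_lit 163))) (XT.nd (nat_lit 78) (nat_lit 228) (nat_lit 0) (XT.lf (nat_lit 0) (nat_lit 21865001351) (nat_lit 380) (nat_lit 13378391929) (nat_lit 76) (nat_lit 13121584103) (nat_lit 51) (nat_lit 5) (nat_lit 56) (nat_lit 5) (nat_lit 52) (nat_lit 5) (nat_lit 321) (nat_lit 297) (nat_lit 162)) (XT.nd (nat_lit 78) (nat_lit 0) (nat_lit 0) (XT.lf (nat_lit 0) (nat_lit 10209677062) (nat_lit 228) (nat_lit 19003752262) (nat_lit 304) (nat_lit 20671671557) (nat_lit 48) (nat_lit 5) (nat_lit 51) (nat_lit 5) (nat_lit 52) (nat_lit 5) (nat_lit 322) (nat_lit 297) (nat_lit 161)) (XT.lf (nat_lit 0) (nat_lit 35438589342) (nat_lit 228) (nat_lit 1714890001) (nat_lit 304) (nat_lit 14316545287) (nat_lit 48) (nat_lit 5) (nat_lit 51) (nat_lit 5) (nat_lit 52) (nat_lit 5) (nat_lit 323) (nat_lit 297) (nat_lit 160))))) (XT.nd (nat_lit 156) (nat_lit 456) (nat_lit 0) (XT.nd (nat_lit 78) (nat_lit 76) (nat_lit 0)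 (XT.lf (nat_lit 0) (nat_lit 8817321835) (nat_lit 228) (nat_lit 37065256982) (nat_lit 304) (nat_lit 7232017318) (nat_lit 45) (nat_lit 5) (nat_lit 48) (nat_lit 5) (nat_lit 49) (nat_lit 5) (nat_lit 324) (nat_lit 297) (nat_lit 159)) (XT.lf (nat_lit 0) (nat_lit 501940398) (nat_lit 304) (nat_lit 19401540646) (nat_lit 76) (nat_lit 34922666322) (nat_lit 44) (nat_lit 5) (nat_lit 48) (nat_lit 5) (nat_lit 45) (nat_lit 5) (nat_lit 325) (nat_lit 297) (nat_lit 158))) (XT.nd (nat_lit 78) (nat_lit 228) (nat_lit 0) (XT.lf (nat_lit 0) (nat_lit 6836351820) (nat_lit 228) (nat_lit 1647798766) (nat_lit 304) (nat_lit 48127971182) (nat_lit 41) (nat_lit 5) (nat_lit 44) (nat_lit 5) (nat_lit 45) (nat_lit 5) (nat_lit 326) (nat_lit 297) (nat_lit 157)) (XT.nd (nat_lit 78) (nat_lit 228) (nat_lit 0) (XT.lf (nat_lit 0) (nat_lit 17470887989) (nat_lit 304) (nat_lit 23693108001) (nat_lit 76) (nat_lit 17293131286) (nat_lit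 41) (nat_lit 5) (nat_lit 45) (nat_lit 5) (nat_lit 42) (nat_lit 5) (nat_lit 327) (nat_lit 297) (nat_lit 156)) (XT.lf (nat_lit 0) (nat_lit 3785032693) (nat_lit 228) (nat_lit 23206046235) (nat_lit 304) (nat_lit 33399101365) (nat_lit 38) (nat_lit 5) (nat_lit 41) (nat_lit 5) (nat_lit 42) (nat_lit 5) (nat_lit 328) (nat_lit 297) (nat_lit 155)))))) (XT.nd (nat_lit 390) (nat_lit 380) (nat_lit 0) (XT.nd (nat_lit 156) (nat_lit 456) (nat_lit 0) (XT.nd (nat_lit 78) (nat_lit 0) (nat_lit 0) (XT.lf (nat_lit 0) (nat_lit 33456910629) (nat_lit 228) (nat_lit 3929683674) (nat_lit 304) (nat_lit 25013328837) (nat_lit 38) (nat_lit 5) (nat_lit 41) (nat_lit 5) (nat_lit 42) (nat_lit 5) (nat_lit 329) (nat_lit 297) (nat_lit 154)) (XT.lf (nat_lit 0) (nat_lit 48554679083) (nat_lit 304) (nat_lit 155116928) (nat_lit 76) (nat_lit 15787720215) (nat_lit 38) (nat_lit 5) (nat_lit 42) (nat_lit 5) (nat_lit 39) (nat_lit 5)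 (nat_lit 330) (nat_lit 297) (nat_lit 153))) (XT.nd (nat_lit 78) (nat_lit 304) (nat_lit 0) (XT.lf (nat_lit 0) (nat_lit 30997293956) (nat_lit 152) (nat_lit 29830479408) (nat_lit 228) (nat_lit 5844887990) (nat_lit 36) (nat_lit 5) (nat_lit 38) (nat_lit 5) (nat_lit 39) (nat_lit 5) (nat_lit 331) (nat_lit 297) (nat_lit 152)) (XT.nd (nat_lit 78) (nat_lit 228) (nat_lit 0) (XT.lf (nat_lit 0) (nat_lit 4606588033) (nat_lit 228) (nat_lit 5320634347) (nat_lit 76) (nat_lit 59025583819) (nat_lit 35) (nat_lit 5) (nat_lit 38) (nat_lit 5) (nat_lit 36) (nat_lit 5) (nat_lit 332) (nat_lit 297) (nat_lit 151)) (XT.lf (nat_lit 0) (nat_lit 15989053145) (nat_lit 304) (nat_lit 44172533896) (nat_lit 76) (nat_lit 11150340550) (nat_lit 32) (nat_lit 5) (nat_lit 36) (nat_lit 5) (nat_lit 33) (nat_lit 5) (nat_lit 333) (nat_lit 297) (nat_lit 150))))) (XT.nd (nat_lit 156) (nat_lit 228) (nat_lit 0) (XT.nd (nat_lit 78) (nat_lit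 152) (nat_lit 0) (XT.lf (nat_lit 0) (nat_lit 28193324430) (nat_lit 304) (nat_lit 12544067761) (nat_lit 76) (nat_lit 33038980894) (nat_lit 32) (nat_lit 5) (nat_lit 36) (nat_lit 5) (nat_lit 33) (nat_lit 5) (nat_lit 334) (nat_lit 297) (nat_lit 149)) (XT.lf (nat_lit 0) (nat_lit 21346674171) (nat_lit 152) (nat_lit 19992851636) (nat_lit 228) (nat_lit 35007931298) (nat_lit 30) (nat_lit 5) (nat_lit 32) (nat_lit 5) (nat_lit 33) (nat_lit 5) (nat_lit 335) (nat_lit 297) (nat_lit 148))) (XT.nd (nat_lit 78) (nat_lit 228) (nat_lit 0) (XT.lf (nat_lit 0) (nat_lit 55385350256) (nat_lit 228) (nat_lit 21702832817) (nat_lit 76) (nat_lit 1946798580) (nat_lit 30) (nat_lit 5) (nat_lit 33) (nat_lit 5) (nat_lit 31) (nat_lit 5) (nat_lit 336) (nat_lit 297) (nat_lit 147)) (XT.nd (nat_lit 78) (nat_lit 76) (nat_lit 0) (XT.lf (nat_lit 0) (nat_lit 13357499120) (nat_lit 152) (nat_lit 57310800306) (nat_lit 228) (nat_lit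 11161843209) (nat_lit 28) (nat_lit 5) (nat_lit 30) (nat_lit 5) (nat_lit 31) (nat_lit 5) (nat_lit 337) (nat_lit 297) (nat_lit 146)) (XT.lf (nat_lit 0) (nat_lit 2260028175) (nat_lit 228) (nat_lit 33861139217) (nat_lit 76) (nat_lit 48623767641) (nat_lit 27) (nat_lit 5) (nat_lit 30) (nat_lit 5) (nat_lit 28) (nat_lit 5) (nat_lit 338) (nat_lit 297) (nat_lit 145))))))) (XT.nd (nat_lit 780) (nat_lit 532) (nat_lit 0) (XT.nd (nat_lit 390) (nat_lit 304) (nat_lit 0) (XT.nd (nat_lit 156) (nat_lit 152) (nat_lit 0) (XT.nd (nat_lit 78) (nat_lit 0) (nat_lit 0) (XT.lf (nat_lit 0) (nat_lit 2371676885) (nat_lit 152) (nat_lit 13641846325) (nat_lit 228) (nat_lit 71781014354) (nat_lit 25) (nat_lit 5) (nat_lit 27) (nat_lit 5) (nat_lit 28) (nat_lit 5) (nat_lit 339) (nat_lit 297) (nat_lit 144)) (XT.lf (nat_lit 0) (nat_lit 31191707274) (nat_lit 228) (nat_lit 49543370609) (nat_lit 76) (nat_lit 10224693175) (nat_lit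 25) (nat_lit 5) (nat_lit 28) (nat_lit 5) (nat_lit 26) (nat_lit 5) (nat_lit 340) (nat_lit 297) (nat_lit 143))) (XT.nd (nat_lit 78) (nat_lit 152) (nat_lit 0) (XT.lf (nat_lit 0) (nat_lit 47351135071) (nat_lit 228) (nat_lit 12095649818) (nat_lit 76) (nat_lit 34825366086) (nat_lit 25) (nat_lit 5) (nat_lit 28) (nat_lit 5) (nat_lit 26) (nat_lit 5) (nat_lit 341) (nat_lit 297) (nat_lit 142)) (XT.nd (nat_lit 78) (nat_lit 0) (nat_lit 0) (XT.lf (nat_lit 0) (nat_lit 28122547535) (nat_lit 152) (nat_lit 36633818224) (nat_lit 228) (nat_lit 32971893960) (nat_lit 23) (nat_lit 5) (nat_lit 25) (nat_lit 5) (nat_lit 26) (nat_lit 5) (nat_lit 342) (nat_lit 297) (nat_lit 141)) (XT.lf (nat_lit 0) (nat_lit 70769614145) (nat_lit 152) (nat_lit 12465877478) (nat_lit 228) (nat_lit 18111501933) (nat_lit 23) (nat_lit 5) (nat_lit 25) (nat_lit 5) (nat_lit 26) (nat_lit 5) (nat_lit 343) (nat_lit 297) (nat_lit 140))))) (XT.nd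 (nat_lit 156) (nat_lit 152) (nat_lit 0) (XT.nd (nat_lit 78) (nat_lit 76) (nat_lit 0) (XT.lf (nat_lit 0) (nat_lit 10536094448) (nat_lit 76) (nat_lit 92467380100) (nat_lit 152) (nat_lit 2124945772) (nat_lit 22) (nat_lit 5) (nat_lit 23) (nat_lit 5) (nat_lit 24) (nat_lit 4) (nat_lit 344) (nat_lit 297) (nat_lit 139)) (XT.lf (nat_lit 0) (nat_lit 14921227576) (nat_lit 152) (nat_lit 54749889233) (nat_lit 76) (nat_lit 39379881305) (nat_lit 21) (nat_lit 5) (nat_lit 23) (nat_lit 5) (nat_lit 22) (nat_lit 5) (nat_lit 345) (nat_lit 297) (nat_lit 138))) (XT.nd (nat_lit 78) (nat_lit 152) (nat_lit 0) (XT.lf (nat_lit 0) (nat_lit 32747193075) (nat_lit 152) (nat_lit 12952010042) (nat_lit 76) (nat_lit 67468816244) (nat_lit 21) (nat_lit 5) (nat_lit 23) (nat_lit 5) (nat_lit 22) (nat_lit 5) (nat_lit 346) (nat_lit 297) (nat_lit 137)) (XT.nd (nat_lit 78) (nat_lit 0) (nat_lit 0) (XT.lf (nat_lit 0) (nat_lit 31956824786)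 (nat_lit 152) (nat_lit 20005515841) (nat_lit 228) (nat_lit 65503657902) (nat_lit 19) (nat_lit 5) (nat_lit 21) (nat_lit 5) (nat_lit 22) (nat_lit 5) (nat_lit 347) (nat_lit 297) (nat_lit 136)) (XT.lf (nat_lit 0) (nat_lit 72469016189) (nat_lit 228) (nat_lit 42521374507) (nat_lit 76) (nat_lit 6971948426) (nat_lit 19) (nat_lit 5) (nat_lit 22) (nat_lit 5) (nat_lit 20) (nat_lit 4) (nat_lit 348) (nat_lit 297) (nat_lit 135)))))) (XT.nd (nat_lit 390) (nat_lit 228) (nat_lit 0) (XT.nd (nat_lit 156) (nat_lit 228) (nat_lit 0) (XT.nd (nat_lit 78) (nat_lit 0) (nat_lit 0) (XT.lf (nat_lit 0) (nat_lit 2361761307) (nat_lit 76) (nat_lit 92003107092) (nat_lit 152) (nat_lit 32300437155) (nat_lit 18) (nat_lit 5) (nat_lit 19) (nat_lit 5) (nat_lit 20) (nat_lit 4) (nat_lit 349) (nat_lit 297) (nat_lit 134)) (XT.lf (nat_lit 0) (nat_lit 50963641982) (nat_lit 76) (nat_lit 67111022433) (nat_lit 152) (nat_lit 13492799237)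 (nat_lit 18) (nat_lit 5) (nat_lit 19) (nat_lit 5) (nat_lit 20) (nat_lit 4) (nat_lit 350) (nat_lit 297) (nat_lit 133))) (XT.nd (nat_lit 78) (nat_lit 152) (nat_lit 0) (XT.lf (nat_lit 0) (nat_lit 6054075771) (nat_lit 152) (nat_lit 34818385429) (nat_lit 76) (nat_lit 95837433134) (nat_lit 17) (nat_lit 5) (nat_lit 19) (nat_lit 5) (nat_lit 18) (nat_lit 5) (nat_lit 351) (nat_lit 297) (nat_lit 132)) (XT.nd (nat_lit 78) (nat_lit 0) (nat_lit 0) (XT.lf (nat_lit 0) (nat_lit 13464544473) (nat_lit 152) (nat_lit 12869628815) (nat_lit 228) (nat_lit 115753748109) (nat_lit 15) (nat_lit 5) (nat_lit 17) (nat_lit 5) (nat_lit 18) (nat_lit 5) (nat_lit 352) (nat_lit 297) (nat_lit 131)) (XT.lf (nat_lit 0) (nat_lit 48484855513) (nat_lit 228) (nat_lit 82604272497) (nat_lit 76) (nat_lit 16602893557) (nat_lit 15) (nat_lit 5) (nat_lit 18) (nat_lit 5) (nat_lit 16) (nat_lit 4) (nat_lit 353) (nat_lit 297) (nat_lit 130)))))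 (XT.nd (nat_lit 234) (nat_lit 152) (nat_lit 0) (XT.nd (nat_lit 78) (nat_lit 76) (nat_lit 0) (XT.lf (nat_lit 0) (nat_lit 71953206622) (nat_lit 228) (nat_lit 34496660914) (nat_lit 76) (nat_lit 47115953181) (nat_lit 15) (nat_lit 5) (nat_lit 18) (nat_lit 5) (nat_lit 16) (nat_lit 4) (nat_lit 354) (nat_lit 297) (nat_lit 129)) (XT.nd (nat_lit 78) (nat_lit 0) (nat_lit 0) (XT.lf (nat_lit 0) (nat_lit 16544456663) (nat_lit 76) (nat_lit 80308021340) (nat_lit 152) (nat_lit 62867957362) (nat_lit 14) (nat_lit 5) (nat_lit 15) (nat_lit 5) (nat_lit 16) (nat_lit 4) (nat_lit 355) (nat_lit 297) (nat_lit 128)) (XT.lf (nat_lit 0) (nat_lit 71333898361) (nat_lit 76) (nat_lit 52246246326) (nat_lit 152) (nat_lit 42573465115) (nat_lit 14) (nat_lit 5) (nat_lit 15) (nat_lit 5) (nat_lit 16) (nat_lit 4) (nat_lit 356) (nat_lit 297) (nat_lit 127)))) (XT.nd (nat_lit 78) (nat_lit 152) (nat_lit 0) (XT.lf (nat_lit 0) (nat_lit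 128861499830) (nat_lit 76) (nat_lit 22781946388) (nat_lit 152) (nat_lit 21265034780) (nat_lit 14) (nat_lit 5) (nat_lit 15) (nat_lit 5) (nat_lit 16) (nat_lit 4) (nat_lit 357) (nat_lit 297) (nat_lit 126)) (XT.nd (nat_lit 78) (nat_lit 0) (nat_lit 0) (XT.lf (nat_lit 0) (nat_lit 1351779893) (nat_lit 152) (nat_lit 170571354469) (nat_lit 76) (nat_lit 8063173766) (nat_lit 12) (nat_lit 5) (nat_lit 14) (nat_lit 5) (nat_lit 13) (nat_lit 4) (nat_lit 358) (nat_lit 297) (nat_lit 125)) (XT.lf (nat_lit 0) (nat_lit 25515732330) (nat_lit 152) (nat_lit 121037123623) (nat_lit 76) (nat_lit 40791193752) (nat_lit 12) (nat_lit 5) (nat_lit 14) (nat_lit 5) (nat_lit 13) (nat_lit 4) (nat_lit 359) (nat_lit 297) (nat_lit 124))))))))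
noncomputable def xc206 : XT := (XT.nd (nat_lit 35802) (nat_lit 0) (nat_lit 4028) (XT.nd (nat_lit 780) (nat_lit 228) (nat_lit 0) (XT.nd (nat_lit 390) (nat_lit 152) (nat_lit 0) (XT.nd (nat_lit 156) (nat_lit 76) (nat_lit 0) (XT.nd (nat_lit 78) (nat_lit 0) (nat_lit 0) (XT.lf (nat_lit 0) (nat_lit 50887197979) (nat_lit 152) (nat_lit 69027401566) (nat_lit 76) (nat_lit 75155113541) (nat_lit 12) (nat_lit 5) (nat_lit 14) (nat_lit 5) (nat_lit 13) (nat_lit 4) (nat_lit 360) (nat_lit 297) (nat_lit 123)) (XT.lf (nat_lit 0) (nat_lit 77526585091) (nat_lit 152) (nat_lit 14418355629) (nat_lit 76) (nat_lit 111236751988) (nat_lit 12) (nat_lit 5) (nat_lit 14) (nat_lit 5) (nat_lit 13) (nat_lit 4) (nat_lit 361) (nat_lit 297) (nat_lit 122))) (XT.nd (nat_lit 78) (nat_lit 0) (nat_lit 0) (XT.lf (nat_lit 0) (nat_lit 44339165941) (nat_lit 76) (nat_lit 61850413478) (nat_lit 152) (nat_lit 105475110457) (nat_lit 11)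 (nat_lit 5) (nat_lit 12) (nat_lit 5) (nat_lit 13) (nat_lit 4) (nat_lit 362) (nat_lit 297) (nat_lit 121)) (XT.nd (nat_lit 78) (nat_lit 0) (nat_lit 0) (XT.lf (nat_lit 0) (nat_lit 106534047316) (nat_lit 76) (nat_lit 29995249755) (nat_lit 152) (nat_lit 84030361586) (nat_lit 11) (nat_lit 5) (nat_lit 12) (nat_lit 5) (nat_lit 13) (nat_lit 4) (nat_lit 363) (nat_lit 297) (nat_lit 120)) (XT.lf (nat_lit 0) (nat_lit 168439320087) (nat_lit 152) (nat_lit 58115668401) (nat_lit 0) (nat_lit 3341721831) (nat_lit 11) (nat_lit 5) (nat_lit 13) (nat_lit 4) (nat_lit 11) (nat_lit 4) (nat_lit 364) (nat_lit 297) (nat_lit 119))))) (XT.nd (nat_lit 156) (nat_lit 76) (nat_lit 0) (XT.nd (nat_lit 78) (nat_lit 0) (nat_lit 0) (XT.lf (nat_lit 0) (nat_lit 100245825) (nat_lit 76) (nat_lit 202337330467) (nat_lit 76) (nat_lit 37238402064) (nat_lit 10) (nat_lit 4) (nat_lit 11) (nat_lit 5) (nat_lit 11) (nat_lit 4) (nat_lit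 365) (nat_lit 297) (nat_lit 118)) (XT.lf (nat_lit 0) (nat_lit 63243607867) (nat_lit 76) (nat_lit 175875807018) (nat_lit 76) (nat_lit 10775611808) (nat_lit 10) (nat_lit 4) (nat_lit 11) (nat_lit 5) (nat_lit 11) (nat_lit 4) (nat_lit 366) (nat_lit 297) (nat_lit 117))) (XT.nd (nat_lit 78) (nat_lit 0) (nat_lit 0) (XT.lf (nat_lit 0) (nat_lit 16465351339) (nat_lit 152) (nat_lit 131347431447) (nat_lit 76) (nat_lit 112798992576) (nat_lit 9) (nat_lit 5) (nat_lit 11) (nat_lit 5) (nat_lit 10) (nat_lit 4) (nat_lit 367) (nat_lit 297) (nat_lit 116)) (XT.nd (nat_lit 78) (nat_lit 0) (nat_lit 0) (XT.lf (nat_lit 0) (nat_lit 44705726460) (nat_lit 152) (nat_lit 73455811479) (nat_lit 76) (nat_lit 153694016629) (nat_lit 9) (nat_lit 5) (nat_lit 11) (nat_lit 5) (nat_lit 10) (nat_lit 4) (nat_lit 368) (nat_lit 297) (nat_lit 115)) (XT.lf (nat_lit 0) (nat_lit 74357639417) (nat_lit 152) (nat_lit 12670484233) (nat_lit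 76) (nat_lit 196633423442) (nat_lit 9) (nat_lit 5) (nat_lit 11) (nat_lit 5) (nat_lit 10) (nat_lit 4) (nat_lit 369) (nat_lit 297) (nat_lit 114)))))) (XT.nd (nat_lit 390) (nat_lit 152) (nat_lit 0) (XT.nd (nat_lit 156) (nat_lit 0) (nat_lit 0) (XT.nd (nat_lit 78) (nat_lit 0) (nat_lit 0) (XT.lf (nat_lit 0) (nat_lit 52844635621) (nat_lit 76) (nat_lit 53472107239) (nat_lit 152) (nat_lit 189699866933) (nat_lit 8) (nat_lit 5) (nat_lit 9) (nat_lit 5) (nat_lit 10) (nat_lit 4) (nat_lit 370) (nat_lit 297) (nat_lit 113)) (XT.lf (nat_lit 0) (nat_lit 122074583377) (nat_lit 76) (nat_lit 18013349889) (nat_lit 152) (nat_lit 168890786056) (nat_lit 8) (nat_lit 5) (nat_lit 9) (nat_lit 5) (nat_lit 10) (nat_lit 4) (nat_lit 371) (nat_lit 297) (nat_lit 112))) (XT.nd (nat_lit 78) (nat_lit 0) (nat_lit 0) (XT.lf (nat_lit 0) (nat_lit 175847302315) (nat_lit 152) (nat_lit 128123753896) (nat_lit 0) (nat_lit 18602897428)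 (nat_lit 8) (nat_lit 5) (nat_lit 10) (nat_lit 4) (nat_lit 8) (nat_lit 4) (nat_lit 372) (nat_lit 297) (nat_lit 111)) (XT.nd (nat_lit 78) (nat_lit 0) (nat_lit 0) (XT.lf (nat_lit 0) (nat_lit 213689528150) (nat_lit 152) (nat_lit 66700411522) (nat_lit 0) (nat_lit 56444265838) (nat_lit 8) (nat_lit 5) (nat_lit 10) (nat_lit 4) (nat_lit 8) (nat_lit 4) (nat_lit 373) (nat_lit 297) (nat_lit 110)) (XT.lf (nat_lit 0) (nat_lit 253423472434) (nat_lit 152) (nat_lit 2206623896) (nat_lit 0) (nat_lit 96177393528) (nat_lit 8) (nat_lit 5) (nat_lit 10) (nat_lit 4) (nat_lit 8) (nat_lit 4) (nat_lit 374) (nat_lit 297) (nat_lit 109))))) (XT.nd (nat_lit 156) (nat_lit 76) (nat_lit 0) (XT.nd (nat_lit 78) (nat_lit 0) (nat_lit 0) (XT.lf (nat_lit 0) (nat_lit 67677260609) (nat_lit 76) (nat_lit 228523110892) (nat_lit 76) (nat_lit 71276254276) (nat_lit 7) (nat_lit 4) (nat_lit 8) (nat_lit 5) (nat_lit 8) (nat_lit 4) (nat_lit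 375) (nat_lit 297) (nat_lit 108)) (XT.lf (nat_lit 0) (nat_lit 141131271935) (nat_lit 76) (nat_lit 200021846950) (nat_lit 76) (nat_lit 42774249658) (nat_lit 7) (nat_lit 4) (nat_lit 8) (nat_lit 5) (nat_lit 8) (nat_lit 4) (nat_lit 376) (nat_lit 297) (nat_lit 107))) (XT.nd (nat_lit 78) (nat_lit 76) (nat_lit 0) (XT.lf (nat_lit 0) (nat_lit 218257339633) (nat_lit 76) (nat_lit 170095814596) (nat_lit 76) (nat_lit 12847511899) (nat_lit 7) (nat_lit 4) (nat_lit 8) (nat_lit 5) (nat_lit 8) (nat_lit 4) (nat_lit 377) (nat_lit 297) (nat_lit 106)) (XT.nd (nat_lit 78) (nat_lit 0) (nat_lit 0) (XT.lf (nat_lit 0) (nat_lit 17980690314) (nat_lit 152) (nat_lit 120388559368) (nat_lit 76) (nat_lit 280953895193) (nat_lit 6) (nat_lit 5) (nat_lit 8) (nat_lit 5) (nat_lit 7) (nat_lit 4) (nat_lit 378) (nat_lit 297) (nat_lit 105)) (XT.lf (nat_lit 0) (nat_lit 49918219688) (nat_lit 152) (nat_lit 54917263973) (nat_lit 76)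 (nat_lit 333505749445) (nat_lit 6) (nat_lit 5) (nat_lit 8) (nat_lit 5) (nat_lit 7) (nat_lit 4) (nat_lit 379) (nat_lit 297) (nat_lit 104))))))) (XT.nd (nat_lit 780) (nat_lit 1900) (nat_lit 0) (XT.nd (nat_lit 390) (nat_lit 0) (nat_lit 76) (XT.nd (nat_lit 156) (nat_lit 0) (nat_lit 0) (XT.nd (nat_lit 78) (nat_lit 0) (nat_lit 0) (XT.lf (nat_lit 0) (nat_lit 4546312886) (nat_lit 0) (nat_lit 4546312886) (nat_lit 684) (nat_lit 4004867680) (nat_lit 84) (nat_lit 5) (nat_lit 84) (nat_lit 3) (nat_lit 93) (nat_lit 3) (nat_lit 298) (nat_lit 298) (nat_lit 184)) (XT.lf (nat_lit 0) (nat_lit 18771367395) (nat_lit 684) (nat_lit 5447130355) (nat_lit 760) (nat_lit 2624582507) (nat_lit 84) (nat_lit 5) (nat_lit 93) (nat_lit 3) (nat_lit 94) (nat_lit 5) (nat_lit 299) (nat_lit 298) (nat_lit 183))) (XT.nd (nat_lit 78) (nat_lit 0) (nat_lit 0) (XT.lf (nat_lit 76) (nat_lit 6858108226) (nat_lit 0) (nat_lit 12779152209)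 (nat_lit 760) (nat_lit 7873807526) (nat_lit 85) (nat_lit 5) (nat_lit 84) (nat_lit 5) (nat_lit 94) (nat_lit 5) (nat_lit 300) (nat_lit 298) (nat_lit 182)) (XT.nd (nat_lit 78) (nat_lit 0) (nat_lit 76) (XT.lf (nat_lit 76) (nat_lit 19964575770) (nat_lit 0) (nat_lit 668680348) (nat_lit 760) (nat_lit 7574871158) (nat_lit 85) (nat_lit 5) (nat_lit 84) (nat_lit 5) (nat_lit 94) (nat_lit 5) (nat_lit 301) (nat_lit 298) (nat_lit 181)) (XT.lf (nat_lit 76) (nat_lit 4746863481) (nat_lit 0) (nat_lit 17189243786) (nat_lit 760) (nat_lit 6991091530) (nat_lit 86) (nat_lit 5) (nat_lit 85) (nat_lit 5) (nat_lit 95) (nat_lit 5) (nat_lit 302) (nat_lit 298) (nat_lit 180))))) (XT.nd (nat_lit 156) (nat_lit 0) (nat_lit 76) (XT.nd (nat_lit 78) (nat_lit 0) (nat_lit 76) (XT.lf (nat_lit 76) (nat_lit 18658424945) (nat_lit 0) (nat_lit 4791115684) (nat_lit 760) (nat_lit 6225422734) (nat_lit 86) (nat_lit 5) (nat_lit 85) (nat_lit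 5) (nat_lit 95) (nat_lit 5) (nat_lit 303) (nat_lit 298) (nat_lit 179)) (XT.lf (nat_lit 76) (nat_lit 2762040719) (nat_lit 0) (nat_lit 22443480635) (nat_lit 760) (nat_lit 5246261925) (nat_lit 87) (nat_lit 5) (nat_lit 86) (nat_lit 5) (nat_lit 96) (nat_lit 5) (nat_lit 304) (nat_lit 298) (nat_lit 178))) (XT.nd (nat_lit 78) (nat_lit 0) (nat_lit 76) (XT.lf (nat_lit 76) (nat_lit 17527567664) (nat_lit 0) (nat_lit 9781058934) (nat_lit 760) (nat_lit 3945861705) (nat_lit 87) (nat_lit 5) (nat_lit 86) (nat_lit 5) (nat_lit 96) (nat_lit 5) (nat_lit 305) (nat_lit 298) (nat_lit 177)) (XT.nd (nat_lit 78) (nat_lit 0) (nat_lit 0) (XT.lf (nat_lit 76) (nat_lit 904732370) (nat_lit 0) (nat_lit 28676863383) (nat_lit 760) (nat_lit 2512507285) (nat_lit 88) (nat_lit 5) (nat_lit 87) (nat_lit 5) (nat_lit 97) (nat_lit 5) (nat_lit 306) (nat_lit 298) (nat_lit 176)) (XT.lf (nat_lit 76) (nat_lit 16575547379) (nat_lit 0)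 (nat_lit 15778761351) (nat_lit 760) (nat_lit 602094433) (nat_lit 88) (nat_lit 5) (nat_lit 87) (nat_lit 5) (nat_lit 97) (nat_lit 5) (nat_lit 307) (nat_lit 298) (nat_lit 175)))))) (XT.nd (nat_lit 390) (nat_lit 988) (nat_lit 0) (XT.nd (nat_lit 156) (nat_lit 380) (nat_lit 0) (XT.nd (nat_lit 78) (nat_lit 0) (nat_lit 76) (XT.lf (nat_lit 0) (nat_lit 1354895432) (nat_lit 760) (nat_lit 857156481) (nat_lit 836) (nat_lit 31648879635) (nat_lit 77) (nat_lit 5) (nat_lit 87) (nat_lit 5) (nat_lit 88) (nat_lit 5) (nat_lit 308) (nat_lit 298) (nat_lit 174)) (XT.lf (nat_lit 0) (nat_lit 3826666073) (nat_lit 760) (nat_lit 19050201788) (nat_lit 76) (nat_lit 11911474828) (nat_lit 78) (nat_lit 5) (nat_lit 88) (nat_lit 5) (nat_lit 79) (nat_lit 5) (nat_lit 309) (nat_lit 298) (nat_lit 173))) (XT.nd (nat_lit 78) (nat_lit 456) (nat_lit 0) (XT.lf (nat_lit 0) (nat_lit 6469364045) (nat_lit 760) (nat_lit 2608253235)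 (nat_lit 76) (nat_lit 26682147920) (nat_lit 78) (nat_lit 5) (nat_lit 88) (nat_lit 5) (nat_lit 79) (nat_lit 5) (nat_lit 310) (nat_lit 298) (nat_lit 172)) (XT.nd (nat_lit 78) (nat_lit 0) (nat_lit 0) (XT.lf (nat_lit 0) (nat_lit 9565396129) (nat_lit 532) (nat_lit 21719376964) (nat_lit 76) (nat_lit 5478933162) (nat_lit 72) (nat_lit 5) (nat_lit 79) (nat_lit 5) (nat_lit 73) (nat_lit 5) (nat_lit 311) (nat_lit 298) (nat_lit 171)) (XT.lf (nat_lit 0) (nat_lit 13006558560) (nat_lit 532) (nat_lit 4298366768) (nat_lit 76) (nat_lit 20503409631) (nat_lit 72) (nat_lit 5) (nat_lit 79) (nat_lit 5) (nat_lit 73) (nat_lit 5) (nat_lit 312) (nat_lit 298) (nat_lit 170))))) (XT.nd (nat_lit 234) (nat_lit 304) (nat_lit 0) (XT.nd (nat_lit 78) (nat_lit 304) (nat_lit 0) (XT.lf (nat_lit 0) (nat_lit 14453154591) (nat_lit 380) (nat_lit 2389058940) (nat_lit 456) (nat_lit 22051866539) (nat_lit 67) (nat_lit 5) (nat_lit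 72) (nat_lit 5) (nat_lit 73) (nat_lit 5) (nat_lit 313) (nat_lit 298) (nat_lit 169)) (XT.nd (nat_lit 78) (nat_lit 304) (nat_lit 0) (XT.lf (nat_lit 0) (nat_lit 21147747975) (nat_lit 456) (nat_lit 5950649647) (nat_lit 76) (nat_lit 12921816356) (nat_lit 67) (nat_lit 5) (nat_lit 73) (nat_lit 5) (nat_lit 68) (nat_lit 5) (nat_lit 314) (nat_lit 298) (nat_lit 168)) (XT.lf (nat_lit 0) (nat_lit 13865674974) (nat_lit 304) (nat_lit 12055565348) (nat_lit 380) (nat_lit 15268786273) (nat_lit 63) (nat_lit 5) (nat_lit 67) (nat_lit 5) (nat_lit 68) (nat_lit 5) (nat_lit 315) (nat_lit 298) (nat_lit 167)))) (XT.nd (nat_lit 78) (nat_lit 304) (nat_lit 0) (XT.lf (nat_lit 0) (nat_lit 31091344574) (nat_lit 380) (nat_lit 7597102038) (nat_lit 76) (nat_lit 3721992151) (nat_lit 63) (nat_lit 5) (nat_lit 68) (nat_lit 5) (nat_lit 64) (nat_lit 5) (nat_lit 316) (nat_lit 298) (nat_lit 166)) (XT.nd (nat_lit 78) (nat_lit 0)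 (nat_lit 0) (XT.lf (nat_lit 0) (nat_lit 13342900359) (nat_lit 304) (nat_lit 23580268274) (nat_lit 380) (nat_lit 6748547685) (nat_lit 59) (nat_lit 5) (nat_lit 63) (nat_lit 5) (nat_lit 64) (nat_lit 5) (nat_lit 317) (nat_lit 298) (nat_lit 165)) (XT.lf (nat_lit 0) (nat_lit 35590672448) (nat_lit 304) (nat_lit 7581918123) (nat_lit 380) (nat_lit 1817172092) (nat_lit 59) (nat_lit 5) (nat_lit 63) (nat_lit 5) (nat_lit 64) (nat_lit 5) (nat_lit 318) (nat_lit 298) (nat_lit 164))))))))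
noncomputable def xc207 : XT := (XT.nd (nat_lit 1560) (nat_lit 1216) (nat_lit 0) (XT.nd (nat_lit 780) (nat_lit 988) (nat_lit 0) (XT.nd (nat_lit 390) (nat_lit 532) (nat_lit 0) (XT.nd (nat_lit 156) (nat_lit 532) (nat_lit 0) (XT.nd (nat_lit 78) (nat_lit 0) (nat_lit 0) (XT.lf (nat_lit 0) (nat_lit 3600654460) (nat_lit 304) (nat_lit 33573438654) (nat_lit 76) (nat_lit 9179627023) (nat_lit 55) (nat_lit 5) (nat_lit 59) (nat_lit 5) (nat_lit 56) (nat_lit 5) (nat_lit 319) (nat_lit 298) (nat_lit 163)) (XT.lf (nat_lit 0) (nat_lit 9511882430) (nat_lit 304) (nat_lit 11542680915) (nat_lit 76) (nat_lit 26715648235) (nat_lit 55) (nat_lit 5) (nat_lit 59) (nat_lit 5) (nat_lit 56) (nat_lit 5) (nat_lit 320) (nat_lit 298) (nat_lit 162))) (XT.nd (nat_lit 78) (nat_lit 228) (nat_lit 0) (XT.lf (nat_lit 0) (nat_lit 11969859864) (nat_lit 304) (nat_lit 3933311783) (nat_lit 380) (nat_lit 33345135272) (nat_lit 51) (nat_lit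 5) (nat_lit 55) (nat_lit 5) (nat_lit 56) (nat_lit 5) (nat_lit 321) (nat_lit 298) (nat_lit 161)) (XT.nd (nat_lit 78) (nat_lit 228) (nat_lit 0) (XT.lf (nat_lit 0) (nat_lit 23029655431) (nat_lit 380) (nat_lit 13957171135) (nat_lit 76) (nat_lit 13792703064) (nat_lit 51) (nat_lit 5) (nat_lit 56) (nat_lit 5) (nat_lit 52) (nat_lit 5) (nat_lit 322) (nat_lit 298) (nat_lit 160)) (XT.lf (nat_lit 0) (nat_lit 10808847428) (nat_lit 228) (nat_lit 19934641828) (nat_lit 304) (nat_lit 21632276843) (nat_lit 48) (nat_lit 5) (nat_lit 51) (nat_lit 5) (nat_lit 52) (nat_lit 5) (nat_lit 323) (nat_lit 298) (nat_lit 159))))) (XT.nd (nat_lit 156) (nat_lit 304) (nat_lit 0) (XT.nd (nat_lit 78) (nat_lit 228) (nat_lit 0) (XT.lf (nat_lit 0) (nat_lit 37294982156) (nat_lit 228) (nat_lit 1782255408) (nat_lit 304) (nat_lit 14962869416) (nat_lit 48) (nat_lit 5) (nat_lit 51) (nat_lit 5) (nat_lit 52) (nat_lit 5) (nat_lit 324)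 (nat_lit 298) (nat_lit 158)) (XT.lf (nat_lit 0) (nat_lit 9344370377) (nat_lit 228) (nat_lit 38896893599) (nat_lit 304) (nat_lit 7525724946) (nat_lit 45) (nat_lit 5) (nat_lit 48) (nat_lit 5) (nat_lit 49) (nat_lit 5) (nat_lit 325) (nat_lit 298) (nat_lit 157))) (XT.nd (nat_lit 78) (nat_lit 228) (nat_lit 0) (XT.lf (nat_lit 0) (nat_lit 589628113) (nat_lit 304) (nat_lit 20287370568) (nat_lit 76) (nat_lit 36687227463) (nat_lit 44) (nat_lit 5) (nat_lit 48) (nat_lit 5) (nat_lit 45) (nat_lit 5) (nat_lit 326) (nat_lit 298) (nat_lit 156)) (XT.nd (nat_lit 78) (nat_lit 0) (nat_lit 0) (XT.lf (nat_lit 0) (nat_lit 7261057697) (nat_lit 228) (nat_lit 1708204723) (nat_lit 304) (nat_lit 50470325884) (nat_lit 41) (nat_lit 5) (nat_lit 44) (nat_lit 5) (nat_lit 45) (nat_lit 5) (nat_lit 327) (nat_lit 298) (nat_lit 155)) (XT.lf (nat_lit 0) (nat_lit 18402763375) (nat_lit 304) (nat_lit 24796159013) (nat_lit 76)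 (nat_lit 18178054857) (nat_lit 41) (nat_lit 5) (nat_lit 45) (nat_lit 5) (nat_lit 42) (nat_lit 5) (nat_lit 328) (nat_lit 298) (nat_lit 154)))))) (XT.nd (nat_lit 390) (nat_lit 532) (nat_lit 0) (XT.nd (nat_lit 156) (nat_lit 228) (nat_lit 0) (XT.nd (nat_lit 78) (nat_lit 0) (nat_lit 0) (XT.lf (nat_lit 0) (nat_lit 4054572517) (nat_lit 228) (nat_lit 24342867202) (nat_lit 304) (nat_lit 35009323680) (nat_lit 38) (nat_lit 5) (nat_lit 41) (nat_lit 5) (nat_lit 42) (nat_lit 5) (nat_lit 329) (nat_lit 298) (nat_lit 153)) (XT.lf (nat_lit 0) (nat_lit 35206221102) (nat_lit 228) (nat_lit 4103804672) (nat_lit 304) (nat_lit 26207106941) (nat_lit 38) (nat_lit 5) (nat_lit 41) (nat_lit 5) (nat_lit 42) (nat_lit 5) (nat_lit 330) (nat_lit 298) (nat_lit 152))) (XT.nd (nat_lit 78) (nat_lit 228) (nat_lit 0) (XT.lf (nat_lit 0) (nat_lit 51034271046) (nat_lit 304) (nat_lit 87727660) (nat_lit 76) (nat_lit 16597722820)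 (nat_lit 38) (nat_lit 5) (nat_lit 42) (nat_lit 5) (nat_lit 39) (nat_lit 5) (nat_lit 331) (nat_lit 298) (nat_lit 151)) (XT.nd (nat_lit 78) (nat_lit 76) (nat_lit 0) (XT.lf (nat_lit 0) (nat_lit 32621091750) (nat_lit 152) (nat_lit 31298613165) (nat_lit 228) (nat_lit 6083988448) (nat_lit 36) (nat_lit 5) (nat_lit 38) (nat_lit 5) (nat_lit 39) (nat_lit 5) (nat_lit 332) (nat_lit 298) (nat_lit 150)) (XT.lf (nat_lit 0) (nat_lit 4885910772) (nat_lit 228) (nat_lit 5514566607) (nat_lit 76) (nat_lit 61997452420) (nat_lit 35) (nat_lit 5) (nat_lit 38) (nat_lit 5) (nat_lit 36) (nat_lit 5) (nat_lit 333) (nat_lit 298) (nat_lit 149))))) (XT.nd (nat_lit 156) (nat_lit 304) (nat_lit 0) (XT.nd (nat_lit 78) (nat_lit 0) (nat_lit 0) (XT.lf (nat_lit 0) (nat_lit 16836635371) (nat_lit 304) (nat_lit 46308133513) (nat_lit 76) (nat_lit 11730284757) (nat_lit 32) (nat_lit 5) (nat_lit 36) (nat_lit 5) (nat_lit 33) (nat_lit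 5) (nat_lit 334) (nat_lit 298) (nat_lit 148)) (XT.lf (nat_lit 0) (nat_lit 29648828336) (nat_lit 304) (nat_lit 13101721551) (nat_lit 76) (nat_lit 34712289158) (nat_lit 32) (nat_lit 5) (nat_lit 36) (nat_lit 5) (nat_lit 33) (nat_lit 5) (nat_lit 335) (nat_lit 298) (nat_lit 147))) (XT.nd (nat_lit 78) (nat_lit 152) (nat_lit 0) (XT.lf (nat_lit 0) (nat_lit 22482435711) (nat_lit 152) (nat_lit 20968789675) (nat_lit 228) (nat_lit 36711310495) (nat_lit 30) (nat_lit 5) (nat_lit 32) (nat_lit 5) (nat_lit 33) (nat_lit 5) (nat_lit 336) (nat_lit 298) (nat_lit 146)) (XT.nd (nat_lit 78) (nat_lit 152) (nat_lit 0) (XT.lf (nat_lit 0) (nat_lit 58197563847) (nat_lit 228) (nat_lit 22720972728) (nat_lit 76) (nat_lit 2065991699) (nat_lit 30) (nat_lit 5) (nat_lit 33) (nat_lit 5) (nat_lit 31) (nat_lit 5) (nat_lit 337) (nat_lit 298) (nat_lit 145)) (XT.lf (nat_lit 0) (nat_lit 14091295133) (nat_lit 152) (nat_lit 60152349504)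 (nat_lit 228) (nat_lit 11675856088) (nat_lit 28) (nat_lit 5) (nat_lit 30) (nat_lit 5) (nat_lit 31) (nat_lit 5) (nat_lit 338) (nat_lit 298) (nat_lit 144))))))) (XT.nd (nat_lit 780) (nat_lit 532) (nat_lit 0) (XT.nd (nat_lit 390) (nat_lit 304) (nat_lit 0) (XT.nd (nat_lit 156) (nat_lit 152) (nat_lit 0) (XT.nd (nat_lit 78) (nat_lit 152) (nat_lit 0) (XT.lf (nat_lit 0) (nat_lit 2413666222) (nat_lit 228) (nat_lit 35490022941) (nat_lit 76) (nat_lit 51076413143) (nat_lit 27) (nat_lit 5) (nat_lit 30) (nat_lit 5) (nat_lit 28) (nat_lit 5) (nat_lit 339) (nat_lit 298) (nat_lit 143)) (XT.lf (nat_lit 0) (nat_lit 2553398914) (nat_lit 152) (nat_lit 14300487781) (nat_lit 228) (nat_lit 75328348004) (nat_lit 25) (nat_lit 5) (nat_lit 27) (nat_lit 5) (nat_lit 28) (nat_lit 5) (nat_lit 340) (nat_lit 298) (nat_lit 142))) (XT.nd (nat_lit 78) (nat_lit 152) (nat_lit 0) (XT.lf (nat_lit 0) (nat_lit 32789438787) (nat_lit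 228) (nat_lit 51958823145) (nat_lit 76) (nat_lit 10757547154) (nat_lit 25) (nat_lit 5) (nat_lit 28) (nat_lit 5) (nat_lit 26) (nat_lit 5) (nat_lit 341) (nat_lit 298) (nat_lit 141)) (XT.nd (nat_lit 78) (nat_lit 152) (nat_lit 0) (XT.lf (nat_lit 0) (nat_lit 49755021491) (nat_lit 228) (nat_lit 12641655171) (nat_lit 76) (nat_lit 36587224220) (nat_lit 25) (nat_lit 5) (nat_lit 28) (nat_lit 5) (nat_lit 26) (nat_lit 5) (nat_lit 342) (nat_lit 298) (nat_lit 140)) (XT.lf (nat_lit 0) (nat_lit 29586504032) (nat_lit 152) (nat_lit 38443182573) (nat_lit 228) (nat_lit 34583171773) (nat_lit 23) (nat_lit 5) (nat_lit 25) (nat_lit 5) (nat_lit 26) (nat_lit 5) (nat_lit 343) (nat_lit 298) (nat_lit 139))))) (XT.nd (nat_lit 156) (nat_lit 228) (nat_lit 0) (XT.nd (nat_lit 78) (nat_lit 76) (nat_lit 0) (XT.lf (nat_lit 0) (nat_lit 74363170204) (nat_lit 152) (nat_lit 13067907959) (nat_lit 228) (nat_lit 18981537140) (nat_lit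 23) (nat_lit 5) (nat_lit 25) (nat_lit 5) (nat_lit 26) (nat_lit 5) (nat_lit 344) (nat_lit 298) (nat_lit 138)) (XT.lf (nat_lit 0) (nat_lit 11118459645) (nat_lit 76) (nat_lit 97068574124) (nat_lit 152) (nat_lit 2196102738) (nat_lit 22) (nat_lit 5) (nat_lit 23) (nat_lit 5) (nat_lit 24) (nat_lit 4) (nat_lit 345) (nat_lit 298) (nat_lit 137))) (XT.nd (nat_lit 78) (nat_lit 152) (nat_lit 0) (XT.lf (nat_lit 0) (nat_lit 15699638682) (nat_lit 152) (nat_lit 57433367080) (nat_lit 76) (nat_lit 41368892523) (nat_lit 21) (nat_lit 5) (nat_lit 23) (nat_lit 5) (nat_lit 22) (nat_lit 5) (nat_lit 346) (nat_lit 298) (nat_lit 136)) (XT.nd (nat_lit 78) (nat_lit 152) (nat_lit 0) (XT.lf (nat_lit 0) (nat_lit 34415361992) (nat_lit 152) (nat_lit 13548166149) (nat_lit 76) (nat_lit 70861321010) (nat_lit 21) (nat_lit 5) (nat_lit 23) (nat_lit 5) (nat_lit 22) (nat_lit 5) (nat_lit 347) (nat_lit 298) (nat_lit 135)) (XT.lf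 (nat_lit 0) (nat_lit 33605280672) (nat_lit 152) (nat_lit 20985309379) (nat_lit 228) (nat_lit 68747172533) (nat_lit 19) (nat_lit 5) (nat_lit 21) (nat_lit 5) (nat_lit 22) (nat_lit 5) (nat_lit 348) (nat_lit 298) (nat_lit 134)))))) (XT.nd (nat_lit 390) (nat_lit 228) (nat_lit 0) (XT.nd (nat_lit 156) (nat_lit 228) (nat_lit 0) (XT.nd (nat_lit 78) (nat_lit 76) (nat_lit 0) (XT.lf (nat_lit 0) (nat_lit 76121469072) (nat_lit 228) (nat_lit 44598080631) (nat_lit 76) (nat_lit 7339428413) (nat_lit 19) (nat_lit 5) (nat_lit 22) (nat_lit 5) (nat_lit 20) (nat_lit 4) (nat_lit 349) (nat_lit 298) (nat_lit 133)) (XT.lf (nat_lit 0) (nat_lit 2528415803) (nat_lit 76) (nat_lit 96583075296) (nat_lit 152) (nat_lit 33885634236) (nat_lit 18) (nat_lit 5) (nat_lit 19) (nat_lit 5) (nat_lit 20) (nat_lit 4) (nat_lit 350) (nat_lit 298) (nat_lit 132))) (XT.nd (nat_lit 78) (nat_lit 228) (nat_lit 0) (XT.lf (nat_lit 0) (nat_lit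 53558077825) (nat_lit 76) (nat_lit 70447347697) (nat_lit 152) (nat_lit 14139034649) (nat_lit 18) (nat_lit 5) (nat_lit 19) (nat_lit 5) (nat_lit 20) (nat_lit 4) (nat_lit 351) (nat_lit 298) (nat_lit 131)) (XT.nd (nat_lit 78) (nat_lit 152) (nat_lit 0) (XT.lf (nat_lit 0) (nat_lit 6382965680) (nat_lit 152) (nat_lit 36514364766) (nat_lit 76) (nat_lit 100646726381) (nat_lit 17) (nat_lit 5) (nat_lit 19) (nat_lit 5) (nat_lit 18) (nat_lit 5) (nat_lit 352) (nat_lit 298) (nat_lit 130)) (XT.lf (nat_lit 0) (nat_lit 14181986794) (nat_lit 152) (nat_lit 13494524642) (nat_lit 228) (nat_lit 121514502729) (nat_lit 15) (nat_lit 5) (nat_lit 17) (nat_lit 5) (nat_lit 18) (nat_lit 5) (nat_lit 353) (nat_lit 298) (nat_lit 129))))) (XT.nd (nat_lit 234) (nat_lit 152) (nat_lit 0) (XT.nd (nat_lit 78) (nat_lit 76) (nat_lit 0) (XT.lf (nat_lit 0) (nat_lit 50933783677) (nat_lit 228) (nat_lit 86691411621) (nat_lit 76) (nat_lit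 17450172290) (nat_lit 15) (nat_lit 5) (nat_lit 18) (nat_lit 5) (nat_lit 16) (nat_lit 4) (nat_lit 354) (nat_lit 298) (nat_lit 128)) (XT.nd (nat_lit 78) (nat_lit 76) (nat_lit 0) (XT.lf (nat_lit 0) (nat_lit 75574376847) (nat_lit 228) (nat_lit 36180470626) (nat_lit 76) (nat_lit 49488068987) (nat_lit 15) (nat_lit 5) (nat_lit 18) (nat_lit 5) (nat_lit 16) (nat_lit 4) (nat_lit 355) (nat_lit 298) (nat_lit 127)) (XT.lf (nat_lit 0) (nat_lit 17412041163) (nat_lit 76) (nat_lit 84306081273) (nat_lit 152) (nat_lit 65987164814) (nat_lit 14) (nat_lit 5) (nat_lit 15) (nat_lit 5) (nat_lit 16) (nat_lit 4) (nat_lit 356) (nat_lit 298) (nat_lit 126)))) (XT.nd (nat_lit 78) (nat_lit 152) (nat_lit 0) (XT.lf (nat_lit 0) (nat_lit 74939032962) (nat_lit 76) (nat_lit 54842043276) (nat_lit 152) (nat_lit 44679099880) (nat_lit 14) (nat_lit 5) (nat_lit 15) (nat_lit 5) (nat_lit 16) (nat_lit 4) (nat_lit 357) (nat_lit 298)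 (nat_lit 125)) (XT.nd (nat_lit 78) (nat_lit 152) (nat_lit 0) (XT.lf (nat_lit 0) (nat_lit 135341184043) (nat_lit 76) (nat_lit 23905314788) (nat_lit 152) (nat_lit 22306345099) (nat_lit 14) (nat_lit 5) (nat_lit 15) (nat_lit 5) (nat_lit 16) (nat_lit 4) (nat_lit 358) (nat_lit 298) (nat_lit 124)) (XT.lf (nat_lit 0) (nat_lit 1440418675) (nat_lit 152) (nat_lit 179062389537) (nat_lit 76) (nat_lit 8481747321) (nat_lit 12) (nat_lit 5) (nat_lit 14) (nat_lit 5) (nat_lit 13) (nat_lit 4) (nat_lit 359) (nat_lit 298) (nat_lit 123))))))))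
noncomputable def xc208 : XT := (XT.nd (nat_lit 35880) (nat_lit 0) (nat_lit 4028) (XT.nd (nat_lit 780) (nat_lit 228) (nat_lit 0) (XT.nd (nat_lit 390) (nat_lit 152) (nat_lit 0) (XT.nd (nat_lit 156) (nat_lit 76) (nat_lit 0) (XT.nd (nat_lit 78) (nat_lit 0) (nat_lit 0) (XT.lf (nat_lit 0) (nat_lit 26811566363) (nat_lit 152) (nat_lit 127053234418) (nat_lit 76) (nat_lit 42845434265) (nat_lit 12) (nat_lit 5) (nat_lit 14) (nat_lit 5) (nat_lit 13) (nat_lit 4) (nat_lit 360) (nat_lit 298) (nat_lit 122)) (XT.lf (nat_lit 0) (nat_lit 53450650656) (nat_lit 152) (nat_lit 72444728420) (nat_lit 76) (nat_lit 78926850956) (nat_lit 12) (nat_lit 5) (nat_lit 14) (nat_lit 5) (nat_lit 13) (nat_lit 4) (nat_lit 361) (nat_lit 298) (nat_lit 121))) (XT.nd (nat_lit 78) (nat_lit 76) (nat_lit 0) (XT.lf (nat_lit 0) (nat_lit 81421097944) (nat_lit 152) (nat_lit 15106851291) (nat_lit 76) (nat_lit 116811905529) (nat_lit 12)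 (nat_lit 5) (nat_lit 14) (nat_lit 5) (nat_lit 13) (nat_lit 4) (nat_lit 362) (nat_lit 298) (nat_lit 120)) (XT.nd (nat_lit 78) (nat_lit 0) (nat_lit 0) (XT.lf (nat_lit 0) (nat_lit 46588023420) (nat_lit 76) (nat_lit 64928850718) (nat_lit 152) (nat_lit 110730146682) (nat_lit 11) (nat_lit 5) (nat_lit 12) (nat_lit 5) (nat_lit 13) (nat_lit 4) (nat_lit 363) (nat_lit 298) (nat_lit 119)) (XT.lf (nat_lit 0) (nat_lit 111891129855) (nat_lit 76) (nat_lit 31481599449) (nat_lit 152) (nat_lit 88214051763) (nat_lit 11) (nat_lit 5) (nat_lit 12) (nat_lit 5) (nat_lit 13) (nat_lit 4) (nat_lit 364) (nat_lit 298) (nat_lit 118))))) (XT.nd (nat_lit 156) (nat_lit 76) (nat_lit 0) (XT.nd (nat_lit 78) (nat_lit 76) (nat_lit 0) (XT.lf (nat_lit 0) (nat_lit 176877644939) (nat_lit 152) (nat_lit 60991898216) (nat_lit 0) (nat_lit 3521173161) (nat_lit 11) (nat_lit 5) (nat_lit 13) (nat_lit 4) (nat_lit 11) (nat_lit 4) (nat_lit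 365) (nat_lit 298) (nat_lit 117)) (XT.lf (nat_lit 0) (nat_lit 134335050) (nat_lit 76) (nat_lit 212441153884) (nat_lit 76) (nat_lit 39083475624) (nat_lit 10) (nat_lit 4) (nat_lit 11) (nat_lit 5) (nat_lit 11) (nat_lit 4) (nat_lit 366) (nat_lit 298) (nat_lit 116))) (XT.nd (nat_lit 78) (nat_lit 76) (nat_lit 0) (XT.lf (nat_lit 0) (nat_lit 66433480578) (nat_lit 76) (nat_lit 184657175362) (nat_lit 76) (nat_lit 11298348071) (nat_lit 10) (nat_lit 4) (nat_lit 11) (nat_lit 5) (nat_lit 11) (nat_lit 4) (nat_lit 367) (nat_lit 298) (nat_lit 115)) (XT.nd (nat_lit 78) (nat_lit 0) (nat_lit 0) (XT.lf (nat_lit 0) (nat_lit 17303410152) (nat_lit 152) (nat_lit 137887930794) (nat_lit 76) (nat_lit 118450274098) (nat_lit 9) (nat_lit 5) (nat_lit 11) (nat_lit 5) (nat_lit 10) (nat_lit 4) (nat_lit 368) (nat_lit 298) (nat_lit 114)) (XT.lf (nat_lit 0) (nat_lit 46955099684) (nat_lit 152) (nat_lit 77103009458) (nat_lit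 76) (nat_lit 161389509740) (nat_lit 9) (nat_lit 5) (nat_lit 11) (nat_lit 5) (nat_lit 10) (nat_lit 4) (nat_lit 369) (nat_lit 298) (nat_lit 113)))))) (XT.nd (nat_lit 390) (nat_lit 152) (nat_lit 0) (XT.nd (nat_lit 156) (nat_lit 0) (nat_lit 0) (XT.nd (nat_lit 78) (nat_lit 76) (nat_lit 0) (XT.lf (nat_lit 0) (nat_lit 78088937484) (nat_lit 152) (nat_lit 13279634544) (nat_lit 76) (nat_lit 206475372975) (nat_lit 9) (nat_lit 5) (nat_lit 11) (nat_lit 5) (nat_lit 10) (nat_lit 4) (nat_lit 370) (nat_lit 298) (nat_lit 112)) (XT.lf (nat_lit 0) (nat_lit 55510848175) (nat_lit 76) (nat_lit 56134883470) (nat_lit 152) (nat_lit 199171042830) (nat_lit 8) (nat_lit 5) (nat_lit 9) (nat_lit 5) (nat_lit 10) (nat_lit 4) (nat_lit 371) (nat_lit 298) (nat_lit 111))) (XT.nd (nat_lit 78) (nat_lit 0) (nat_lit 0) (XT.lf (nat_lit 0) (nat_lit 128201151377) (nat_lit 76) (nat_lit 18903703925) (nat_lit 152) (nat_lit 177322165883)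 (nat_lit 8) (nat_lit 5) (nat_lit 9) (nat_lit 5) (nat_lit 10) (nat_lit 4) (nat_lit 372) (nat_lit 298) (nat_lit 110)) (XT.nd (nat_lit 78) (nat_lit 0) (nat_lit 0) (XT.lf (nat_lit 0) (nat_lit 184651749712) (nat_lit 152) (nat_lit 134507739769) (nat_lit 0) (nat_lit 19542550265) (nat_lit 8) (nat_lit 5) (nat_lit 10) (nat_lit 4) (nat_lit 8) (nat_lit 4) (nat_lit 373) (nat_lit 298) (nat_lit 109)) (XT.lf (nat_lit 0) (nat_lit 224385511491) (nat_lit 152) (nat_lit 70014287506) (nat_lit 0) (nat_lit 59275534335) (nat_lit 8) (nat_lit 5) (nat_lit 10) (nat_lit 4) (nat_lit 8) (nat_lit 4) (nat_lit 374) (nat_lit 298) (nat_lit 108))))) (XT.nd (nat_lit 156) (nat_lit 76) (nat_lit 0) (XT.nd (nat_lit 78) (nat_lit 76) (nat_lit 0) (XT.lf (nat_lit 0) (nat_lit 266105605041) (nat_lit 152) (nat_lit 2296817385) (nat_lit 0) (nat_lit 100994887209) (nat_lit 8) (nat_lit 5) (nat_lit 10) (nat_lit 4) (nat_lit 8) (nat_lit 4)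 (nat_lit 375) (nat_lit 298) (nat_lit 107)) (XT.lf (nat_lit 0) (nat_lit 71080936544) (nat_lit 76) (nat_lit 239940199996) (nat_lit 76) (nat_lit 74828776758) (nat_lit 7) (nat_lit 4) (nat_lit 8) (nat_lit 5) (nat_lit 8) (nat_lit 4) (nat_lit 376) (nat_lit 298) (nat_lit 106))) (XT.nd (nat_lit 78) (nat_lit 76) (nat_lit 0) (XT.lf (nat_lit 0) (nat_lit 148206704965) (nat_lit 76) (nat_lit 210014304592) (nat_lit 76) (nat_lit 44902209539) (nat_lit 7) (nat_lit 4) (nat_lit 8) (nat_lit 5) (nat_lit 8) (nat_lit 4) (nat_lit 377) (nat_lit 298) (nat_lit 105)) (XT.nd (nat_lit 78) (nat_lit 76) (nat_lit 0) (XT.lf (nat_lit 0) (nat_lit 229188177504) (nat_lit 76) (nat_lit 178592381797) (nat_lit 76) (nat_lit 13479646921) (nat_lit 7) (nat_lit 4) (nat_lit 8) (nat_lit 5) (nat_lit 8) (nat_lit 4) (nat_lit 378) (nat_lit 298) (nat_lit 104)) (XT.lf (nat_lit 0) (nat_lit 18889165602) (nat_lit 152) (nat_lit 126390554746) (nat_lit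 76) (nat_lit 295009104429) (nat_lit 6) (nat_lit 5) (nat_lit 8) (nat_lit 5) (nat_lit 7) (nat_lit 4) (nat_lit 379) (nat_lit 298) (nat_lit 103))))))) (XT.nd (nat_lit 780) (nat_lit 1900) (nat_lit 0) (XT.nd (nat_lit 390) (nat_lit 0) (nat_lit 76) (XT.nd (nat_lit 156) (nat_lit 0) (nat_lit 0) (XT.nd (nat_lit 78) (nat_lit 0) (nat_lit 0) (XT.lf (nat_lit 0) (nat_lit 4817508862) (nat_lit 0) (nat_lit 4817508862) (nat_lit 684) (nat_lit 4112758507) (nat_lit 84) (nat_lit 5) (nat_lit 84) (nat_lit 3) (nat_lit 93) (nat_lit 3) (nat_lit 299) (nat_lit 299) (nat_lit 182)) (XT.lf (nat_lit 0) (nat_lit 19875793988) (nat_lit 684) (nat_lit 5625853881) (nat_lit 760) (nat_lit 2674905182) (nat_lit 84) (nat_lit 5) (nat_lit 93) (nat_lit 3) (nat_lit 94) (nat_lit 5) (nat_lit 300) (nat_lit 299) (nat_lit 181))) (XT.nd (nat_lit 78) (nat_lit 0) (nat_lit 0) (XT.lf (nat_lit 76) (nat_lit 7293136419) (nat_lit 0) (nat_lit 13485385545)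 (nat_lit 760) (nat_lit 8099759653) (nat_lit 85) (nat_lit 5) (nat_lit 84) (nat_lit 5) (nat_lit 94) (nat_lit 5) (nat_lit 301) (nat_lit 299) (nat_lit 180)) (XT.nd (nat_lit 78) (nat_lit 0) (nat_lit 76) (XT.lf (nat_lit 76) (nat_lit 21050540542) (nat_lit 0) (nat_lit 766186485) (nat_lit 760) (nat_lit 7793864002) (nat_lit 85) (nat_lit 5) (nat_lit 84) (nat_lit 5) (nat_lit 94) (nat_lit 5) (nat_lit 302) (nat_lit 299) (nat_lit 179)) (XT.lf (nat_lit 76) (nat_lit 5079326257) (nat_lit 0) (nat_lit 18098697892) (nat_lit 760) (nat_lit 7187943577) (nat_lit 86) (nat_lit 5) (nat_lit 85) (nat_lit 5) (nat_lit 95) (nat_lit 5) (nat_lit 303) (nat_lit 299) (nat_lit 178))))) (XT.nd (nat_lit 156) (nat_lit 0) (nat_lit 76) (XT.nd (nat_lit 78) (nat_lit 0) (nat_lit 76) (XT.lf (nat_lit 76) (nat_lit 19681936289) (nat_lit 0) (nat_lit 5078282818) (nat_lit 760) (nat_lit 6391262890) (nat_lit 86) (nat_lit 5) (nat_lit 85) (nat_lit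 5) (nat_lit 95) (nat_lit 5) (nat_lit 304) (nat_lit 299) (nat_lit 177)) (XT.lf (nat_lit 76) (nat_lit 2997116007) (nat_lit 0) (nat_lit 23601107914) (nat_lit 760) (nat_lit 5369222947) (nat_lit 87) (nat_lit 5) (nat_lit 86) (nat_lit 5) (nat_lit 96) (nat_lit 5) (nat_lit 305) (nat_lit 299) (nat_lit 176))) (XT.nd (nat_lit 78) (nat_lit 0) (nat_lit 76) (XT.lf (nat_lit 76) (nat_lit 18496301526) (nat_lit 0) (nat_lit 10303876878) (nat_lit 760) (nat_lit 4010438529) (nat_lit 87) (nat_lit 5) (nat_lit 86) (nat_lit 5) (nat_lit 96) (nat_lit 5) (nat_lit 306) (nat_lit 299) (nat_lit 175)) (XT.nd (nat_lit 78) (nat_lit 0) (nat_lit 0) (XT.lf (nat_lit 76) (nat_lit 1047842927) (nat_lit 0) (nat_lit 30133973376) (nat_lit 760) (nat_lit 2510658886) (nat_lit 88) (nat_lit 5) (nat_lit 87) (nat_lit 5) (nat_lit 97) (nat_lit 5) (nat_lit 307) (nat_lit 299) (nat_lit 174)) (XT.lf (nat_lit 76) (nat_lit 17497538023) (nat_lit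 0) (nat_lit 16589858299) (nat_lit 760) (nat_lit 510795570) (nat_lit 88) (nat_lit 5) (nat_lit 87) (nat_lit 5) (nat_lit 97) (nat_lit 5) (nat_lit 308) (nat_lit 299) (nat_lit 173)))))) (XT.nd (nat_lit 390) (nat_lit 988) (nat_lit 0) (XT.nd (nat_lit 156) (nat_lit 380) (nat_lit 0) (XT.nd (nat_lit 78) (nat_lit 0) (nat_lit 76) (XT.lf (nat_lit 0) (nat_lit 1534562024) (nat_lit 760) (nat_lit 807300729) (nat_lit 836) (nat_lit 33206280893) (nat_lit 77) (nat_lit 5) (nat_lit 87) (nat_lit 5) (nat_lit 88) (nat_lit 5) (nat_lit 309) (nat_lit 299) (nat_lit 172)) (XT.lf (nat_lit 0) (nat_lit 4125753491) (nat_lit 760) (nat_lit 19905603561) (nat_lit 76) (nat_lit 12490788030) (nat_lit 78) (nat_lit 5) (nat_lit 88) (nat_lit 5) (nat_lit 79) (nat_lit 5) (nat_lit 310) (nat_lit 299) (nat_lit 171))) (XT.nd (nat_lit 78) (nat_lit 456) (nat_lit 0) (XT.lf (nat_lit 0) (nat_lit 6895455213) (nat_lit 760) (nat_lit 2646181786)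 (nat_lit 76) (nat_lit 28000769088) (nat_lit 78) (nat_lit 5) (nat_lit 88) (nat_lit 5) (nat_lit 79) (nat_lit 5) (nat_lit 311) (nat_lit 299) (nat_lit 170)) (XT.nd (nat_lit 78) (nat_lit 0) (nat_lit 0) (XT.lf (nat_lit 0) (nat_lit 10142695273) (nat_lit 532) (nat_lit 22709062143) (nat_lit 76) (nat_lit 5744976757) (nat_lit 72) (nat_lit 5) (nat_lit 79) (nat_lit 5) (nat_lit 73) (nat_lit 5) (nat_lit 312) (nat_lit 299) (nat_lit 169)) (XT.lf (nat_lit 0) (nat_lit 13751200142) (nat_lit 532) (nat_lit 4421586374) (nat_lit 76) (nat_lit 21521053386) (nat_lit 72) (nat_lit 5) (nat_lit 79) (nat_lit 5) (nat_lit 73) (nat_lit 5) (nat_lit 313) (nat_lit 299) (nat_lit 168))))) (XT.nd (nat_lit 156) (nat_lit 608) (nat_lit 0) (XT.nd (nat_lit 78) (nat_lit 0) (nat_lit 0) (XT.lf (nat_lit 0) (nat_lit 15266032041) (nat_lit 380) (nat_lit 2509523277) (nat_lit 456) (nat_lit 23058480417) (nat_lit 67) (nat_lit 5) (nat_lit 72)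 (nat_lit 5) (nat_lit 73) (nat_lit 5) (nat_lit 314) (nat_lit 299) (nat_lit 167)) (XT.lf (nat_lit 0) (nat_lit 22292007107) (nat_lit 456) (nat_lit 6157721321) (nat_lit 76) (nat_lit 13566974774) (nat_lit 67) (nat_lit 5) (nat_lit 73) (nat_lit 5) (nat_lit 68) (nat_lit 5) (nat_lit 315) (nat_lit 299) (nat_lit 166))) (XT.nd (nat_lit 78) (nat_lit 304) (nat_lit 0) (XT.lf (nat_lit 0) (nat_lit 14647960486) (nat_lit 304) (nat_lit 12653466403) (nat_lit 380) (nat_lit 15943725391) (nat_lit 63) (nat_lit 5) (nat_lit 67) (nat_lit 5) (nat_lit 68) (nat_lit 5) (nat_lit 316) (nat_lit 299) (nat_lit 165)) (XT.nd (nat_lit 78) (nat_lit 304) (nat_lit 0) (XT.lf (nat_lit 0) (nat_lit 32726102944) (nat_lit 380) (nat_lit 7888098796) (nat_lit 76) (nat_lit 3912588055) (nat_lit 63) (nat_lit 5) (nat_lit 68) (nat_lit 5) (nat_lit 64) (nat_lit 5) (nat_lit 317) (nat_lit 299) (nat_lit 164)) (XT.lf (nat_lit 0) (nat_lit 14097470522)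 (nat_lit 304) (nat_lit 24749594009) (nat_lit 380) (nat_lit 7004197063) (nat_lit 59) (nat_lit 5) (nat_lit 63) (nat_lit 5) (nat_lit 64) (nat_lit 5) (nat_lit 318) (nat_lit 299) (nat_lit 163))))))))
noncomputable def xc209 : XT := (XT.nd (nat_lit 1560) (nat_lit 1216) (nat_lit 0) (XT.nd (nat_lit 780) (nat_lit 836) (nat_lit 0) (XT.nd (nat_lit 390) (nat_lit 760) (nat_lit 0) (XT.nd (nat_lit 156) (nat_lit 304) (nat_lit 0) (XT.nd (nat_lit 78) (nat_lit 304) (nat_lit 0) (XT.lf (nat_lit 0) (nat_lit 37453468113) (nat_lit 304) (nat_lit 7951787669) (nat_lit 380) (nat_lit 1830146881) (nat_lit 59) (nat_lit 5) (nat_lit 63) (nat_lit 5) (nat_lit 64) (nat_lit 5) (nat_lit 319) (nat_lit 299) (nat_lit 162)) (XT.lf (nat_lit 0) (nat_lit 3853985404) (nat_lit 304) (nat_lit 35163990826) (nat_lit 76) (nat_lit 9649632259) (nat_lit 55) (nat_lit 5) (nat_lit 59) (nat_lit 5) (nat_lit 56) (nat_lit 5) (nat_lit 320) (nat_lit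 299) (nat_lit 161))) (XT.nd (nat_lit 78) (nat_lit 304) (nat_lit 0) (XT.lf (nat_lit 0) (nat_lit 10057284381) (nat_lit 304) (nat_lit 12035891379) (nat_lit 76) (nat_lit 28061929585) (nat_lit 55) (nat_lit 5) (nat_lit 59) (nat_lit 5) (nat_lit 56) (nat_lit 5) (nat_lit 321) (nat_lit 299) (nat_lit 160)) (XT.nd (nat_lit 78) (nat_lit 0) (nat_lit 0) (XT.lf (nat_lit 0) (nat_lit 12650922832) (nat_lit 304) (nat_lit 4115180193) (nat_lit 380) (nat_lit 34941110198) (nat_lit 51) (nat_lit 5) (nat_lit 55) (nat_lit 5) (nat_lit 56) (nat_lit 5) (nat_lit 322) (nat_lit 299) (nat_lit 159)) (XT.lf (nat_lit 0) (nat_lit 24245903746) (nat_lit 380) (nat_lit 14573269700) (nat_lit 76) (nat_lit 14495979719) (nat_lit 51) (nat_lit 5) (nat_lit 56) (nat_lit 5) (nat_lit 52) (nat_lit 5) (nat_lit 323) (nat_lit 299) (nat_lit 158))))) (XT.nd (nat_lit 156) (nat_lit 532) (nat_lit 0) (XT.nd (nat_lit 78) (nat_lit 0) (nat_lit 0) (XT.lf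 (nat_lit 0) (nat_lit 11429731082) (nat_lit 228) (nat_lit 20913870021) (nat_lit 304) (nat_lit 22647697224) (nat_lit 48) (nat_lit 5) (nat_lit 51) (nat_lit 5) (nat_lit 52) (nat_lit 5) (nat_lit 324) (nat_lit 299) (nat_lit 157)) (XT.lf (nat_lit 0) (nat_lit 39236342008) (nat_lit 228) (nat_lit 1854697800) (nat_lit 304) (nat_lit 15647971495) (nat_lit 48) (nat_lit 5) (nat_lit 51) (nat_lit 5) (nat_lit 52) (nat_lit 5) (nat_lit 325) (nat_lit 299) (nat_lit 156))) (XT.nd (nat_lit 78) (nat_lit 304) (nat_lit 0) (XT.lf (nat_lit 0) (nat_lit 9889758920) (nat_lit 228) (nat_lit 40822122649) (nat_lit 304) (nat_lit 7840430025) (nat_lit 45) (nat_lit 5) (nat_lit 48) (nat_lit 5) (nat_lit 49) (nat_lit 5) (nat_lit 326) (nat_lit 299) (nat_lit 155)) (XT.nd (nat_lit 78) (nat_lit 228) (nat_lit 0) (XT.lf (nat_lit 0) (nat_lit 675881125) (nat_lit 304) (nat_lit 21225324483) (nat_lit 76) (nat_lit 38538303418) (nat_lit 44)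 (nat_lit 5) (nat_lit 48) (nat_lit 5) (nat_lit 45) (nat_lit 5) (nat_lit 327) (nat_lit 299) (nat_lit 154)) (XT.lf (nat_lit 0) (nat_lit 7699292701) (nat_lit 228) (nat_lit 1773674839) (nat_lit 304) (nat_lit 52935752511) (nat_lit 41) (nat_lit 5) (nat_lit 44) (nat_lit 5) (nat_lit 45) (nat_lit 5) (nat_lit 328) (nat_lit 299) (nat_lit 153)))))) (XT.nd (nat_lit 390) (nat_lit 456) (nat_lit 0) (XT.nd (nat_lit 156) (nat_lit 152) (nat_lit 0) (XT.nd (nat_lit 78) (nat_lit 228) (nat_lit 0) (XT.lf (nat_lit 0) (nat_lit 19375809469) (nat_lit 304) (nat_lit 25961949378) (nat_lit 76) (nat_lit 19105340373) (nat_lit 41) (nat_lit 5) (nat_lit 45) (nat_lit 5) (nat_lit 42) (nat_lit 5) (nat_lit 329) (nat_lit 299) (nat_lit 152)) (XT.lf (nat_lit 0) (nat_lit 4330124896) (nat_lit 228) (nat_lit 25538712291) (nat_lit 304) (nat_lit 36705610495) (nat_lit 38) (nat_lit 5) (nat_lit 41) (nat_lit 5) (nat_lit 42) (nat_lit 5) (nat_lit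 330) (nat_lit 299) (nat_lit 151))) (XT.nd (nat_lit 78) (nat_lit 152) (nat_lit 0) (XT.lf (nat_lit 0) (nat_lit 37035888113) (nat_lit 228) (nat_lit 4288710838) (nat_lit 304) (nat_lit 27465862890) (nat_lit 38) (nat_lit 5) (nat_lit 41) (nat_lit 5) (nat_lit 42) (nat_lit 5) (nat_lit 331) (nat_lit 299) (nat_lit 150)) (XT.nd (nat_lit 78) (nat_lit 152) (nat_lit 0) (XT.lf (nat_lit 0) (nat_lit 53633021340) (nat_lit 304) (nat_lit 23955209) (nat_lit 76) (nat_lit 17446308819) (nat_lit 38) (nat_lit 5) (nat_lit 42) (nat_lit 5) (nat_lit 39) (nat_lit 5) (nat_lit 332) (nat_lit 299) (nat_lit 149)) (XT.lf (nat_lit 0) (nat_lit 34319205836) (nat_lit 152) (nat_lit 32842328209) (nat_lit 228) (nat_lit 6339984748) (nat_lit 36) (nat_lit 5) (nat_lit 38) (nat_lit 5) (nat_lit 39) (nat_lit 5) (nat_lit 333) (nat_lit 299) (nat_lit 148))))) (XT.nd (nat_lit 156) (nat_lit 152) (nat_lit 0) (XT.nd (nat_lit 78) (nat_lit 228)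 (nat_lit 0) (XT.lf (nat_lit 0) (nat_lit 5174644712) (nat_lit 228) (nat_lit 5724898603) (nat_lit 76) (nat_lit 65116000242) (nat_lit 35) (nat_lit 5) (nat_lit 38) (nat_lit 5) (nat_lit 36) (nat_lit 5) (nat_lit 334) (nat_lit 299) (nat_lit 147)) (XT.lf (nat_lit 0) (nat_lit 17722122077) (nat_lit 304) (nat_lit 48557302475) (nat_lit 76) (nat_lit 12337141108) (nat_lit 32) (nat_lit 5) (nat_lit 36) (nat_lit 5) (nat_lit 33) (nat_lit 5) (nat_lit 335) (nat_lit 299) (nat_lit 146))) (XT.nd (nat_lit 78) (nat_lit 152) (nat_lit 0) (XT.lf (nat_lit 0) (nat_lit 31172845884) (nat_lit 304) (nat_lit 13693724093) (nat_lit 76) (nat_lit 36467277057) (nat_lit 32) (nat_lit 5) (nat_lit 36) (nat_lit 5) (nat_lit 33) (nat_lit 5) (nat_lit 336) (nat_lit 299) (nat_lit 145)) (XT.nd (nat_lit 78) (nat_lit 0) (nat_lit 0) (XT.lf (nat_lit 0) (nat_lit 23668623556) (nat_lit 152) (nat_lit 21995728440) (nat_lit 228) (nat_lit 38504229882)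 (nat_lit 30) (nat_lit 5) (nat_lit 32) (nat_lit 5) (nat_lit 33) (nat_lit 5) (nat_lit 337) (nat_lit 299) (nat_lit 144)) (XT.lf (nat_lit 0) (nat_lit 61146395398) (nat_lit 228) (nat_lit 23796248821) (nat_lit 76) (nat_lit 2189112772) (nat_lit 30) (nat_lit 5) (nat_lit 33) (nat_lit 5) (nat_lit 31) (nat_lit 5) (nat_lit 338) (nat_lit 299) (nat_lit 143))))))) (XT.nd (nat_lit 780) (nat_lit 532) (nat_lit 0) (XT.nd (nat_lit 390) (nat_lit 304) (nat_lit 0) (XT.nd (nat_lit 156) (nat_lit 152) (nat_lit 0) (XT.nd (nat_lit 78) (nat_lit 76) (nat_lit 0) (XT.lf (nat_lit 0) (nat_lit 14855652231) (nat_lit 152) (nat_lit 63138206601) (nat_lit 228) (nat_lit 12219667684) (nat_lit 28) (nat_lit 5) (nat_lit 30) (nat_lit 5) (nat_lit 31) (nat_lit 5) (nat_lit 339) (nat_lit 299) (nat_lit 142)) (XT.lf (nat_lit 0) (nat_lit 2571208161) (nat_lit 228) (nat_lit 37206317071) (nat_lit 76) (nat_lit 53649696040) (nat_lit 27) (nat_lit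 5) (nat_lit 30) (nat_lit 5) (nat_lit 28) (nat_lit 5) (nat_lit 340) (nat_lit 299) (nat_lit 141))) (XT.nd (nat_lit 78) (nat_lit 0) (nat_lit 0) (XT.lf (nat_lit 0) (nat_lit 2738337054) (nat_lit 152) (nat_lit 14994241549) (nat_lit 228) (nat_lit 79056926793) (nat_lit 25) (nat_lit 5) (nat_lit 27) (nat_lit 5) (nat_lit 28) (nat_lit 5) (nat_lit 341) (nat_lit 299) (nat_lit 140)) (XT.nd (nat_lit 78) (nat_lit 0) (nat_lit 0) (XT.lf (nat_lit 0) (nat_lit 34463510409) (nat_lit 228) (nat_lit 54500786075) (nat_lit 76) (nat_lit 11315033873) (nat_lit 25) (nat_lit 5) (nat_lit 28) (nat_lit 5) (nat_lit 26) (nat_lit 5) (nat_lit 342) (nat_lit 299) (nat_lit 139)) (XT.lf (nat_lit 0) (nat_lit 52275724645) (nat_lit 228) (nat_lit 13220425333) (nat_lit 76) (nat_lit 38435261012) (nat_lit 25) (nat_lit 5) (nat_lit 28) (nat_lit 5) (nat_lit 26) (nat_lit 5) (nat_lit 343) (nat_lit 299) (nat_lit 138))))) (XT.nd (nat_lit 156)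 (nat_lit 152) (nat_lit 0) (XT.nd (nat_lit 78) (nat_lit 0) (nat_lit 0) (XT.lf (nat_lit 0) (nat_lit 31118281950) (nat_lit 152) (nat_lit 40345090851) (nat_lit 228) (nat_lit 36278482848) (nat_lit 23) (nat_lit 5) (nat_lit 25) (nat_lit 5) (nat_lit 26) (nat_lit 5) (nat_lit 344) (nat_lit 299) (nat_lit 137)) (XT.lf (nat_lit 0) (nat_lit 78131283682) (nat_lit 152) (nat_lit 13702016832) (nat_lit 228) (nat_lit 19898378269) (nat_lit 23) (nat_lit 5) (nat_lit 25) (nat_lit 5) (nat_lit 26) (nat_lit 5) (nat_lit 345) (nat_lit 299) (nat_lit 136))) (XT.nd (nat_lit 78) (nat_lit 76) (nat_lit 0) (XT.lf (nat_lit 0) (nat_lit 11724777615) (nat_lit 76) (nat_lit 101901889469) (nat_lit 152) (nat_lit 2274079918) (nat_lit 22) (nat_lit 5) (nat_lit 23) (nat_lit 5) (nat_lit 24) (nat_lit 4) (nat_lit 346) (nat_lit 299) (nat_lit 135)) (XT.nd (nat_lit 78) (nat_lit 0) (nat_lit 0) (XT.lf (nat_lit 0) (nat_lit 16513962772) (nat_lit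 152) (nat_lit 60256040772) (nat_lit 76) (nat_lit 43455493296) (nat_lit 21) (nat_lit 5) (nat_lit 23) (nat_lit 5) (nat_lit 22) (nat_lit 5) (nat_lit 347) (nat_lit 299) (nat_lit 134)) (XT.lf (nat_lit 0) (nat_lit 36164075003) (nat_lit 152) (nat_lit 14178912873) (nat_lit 76) (nat_lit 74421678630) (nat_lit 21) (nat_lit 5) (nat_lit 23) (nat_lit 5) (nat_lit 22) (nat_lit 5) (nat_lit 348) (nat_lit 299) (nat_lit 133)))))) (XT.nd (nat_lit 390) (nat_lit 228) (nat_lit 0) (XT.nd (nat_lit 156) (nat_lit 152) (nat_lit 0) (XT.nd (nat_lit 78) (nat_lit 0) (nat_lit 0) (XT.lf (nat_lit 0) (nat_lit 35331453682) (nat_lit 152) (nat_lit 22015996839) (nat_lit 228) (nat_lit 72155807112) (nat_lit 19) (nat_lit 5) (nat_lit 21) (nat_lit 5) (nat_lit 22) (nat_lit 5) (nat_lit 349) (nat_lit 299) (nat_lit 132)) (XT.lf (nat_lit 0) (nat_lit 79953848262) (nat_lit 228) (nat_lit 46783211327) (nat_lit 76) (nat_lit 7723526878) (nat_lit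 19) (nat_lit 5) (nat_lit 22) (nat_lit 5) (nat_lit 20) (nat_lit 4) (nat_lit 350) (nat_lit 299) (nat_lit 131))) (XT.nd (nat_lit 78) (nat_lit 76) (nat_lit 0) (XT.lf (nat_lit 0) (nat_lit 2698887778) (nat_lit 76) (nat_lit 101393918721) (nat_lit 152) (nat_lit 35552863996) (nat_lit 18) (nat_lit 5) (nat_lit 19) (nat_lit 5) (nat_lit 20) (nat_lit 4) (nat_lit 351) (nat_lit 299) (nat_lit 130)) (XT.nd (nat_lit 78) (nat_lit 76) (nat_lit 0) (XT.lf (nat_lit 0) (nat_lit 56277935225) (nat_lit 76) (nat_lit 73952276663) (nat_lit 152) (nat_lit 14820222618) (nat_lit 18) (nat_lit 5) (nat_lit 19) (nat_lit 5) (nat_lit 20) (nat_lit 4) (nat_lit 352) (nat_lit 299) (nat_lit 129)) (XT.lf (nat_lit 0) (nat_lit 6725865547) (nat_lit 152) (nat_lit 38299321158) (nat_lit 76) (nat_lit 105694864595) (nat_lit 17) (nat_lit 5) (nat_lit 19) (nat_lit 5) (nat_lit 18) (nat_lit 5) (nat_lit 353) (nat_lit 299) (nat_lit 128))))) (XT.nd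 (nat_lit 234) (nat_lit 76) (nat_lit 0) (XT.nd (nat_lit 78) (nat_lit 0) (nat_lit 0) (XT.lf (nat_lit 0) (nat_lit 14931190531) (nat_lit 152) (nat_lit 14152393175) (nat_lit 228) (nat_lit 127565799035) (nat_lit 15) (nat_lit 5) (nat_lit 17) (nat_lit 5) (nat_lit 18) (nat_lit 5) (nat_lit 354) (nat_lit 299) (nat_lit 127)) (XT.nd (nat_lit 78) (nat_lit 0) (nat_lit 0) (XT.lf (nat_lit 0) (nat_lit 53502863236) (nat_lit 228) (nat_lit 90986912360) (nat_lit 76) (nat_lit 18338221998) (nat_lit 15) (nat_lit 5) (nat_lit 18) (nat_lit 5) (nat_lit 16) (nat_lit 4) (nat_lit 355) (nat_lit 299) (nat_lit 126)) (XT.lf (nat_lit 0) (nat_lit 79374419856) (nat_lit 228) (nat_lit 37952284784) (nat_lit 76) (nat_lit 51977273478) (nat_lit 15) (nat_lit 5) (nat_lit 18) (nat_lit 5) (nat_lit 16) (nat_lit 4) (nat_lit 356) (nat_lit 299) (nat_lit 125)))) (XT.nd (nat_lit 78) (nat_lit 0) (nat_lit 0) (XT.lf (nat_lit 0) (nat_lit 18319252444)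 (nat_lit 76) (nat_lit 88505656417) (nat_lit 152) (nat_lit 69264581635) (nat_lit 14) (nat_lit 5) (nat_lit 15) (nat_lit 5) (nat_lit 16) (nat_lit 4) (nat_lit 357) (nat_lit 299) (nat_lit 124)) (XT.nd (nat_lit 78) (nat_lit 0) (nat_lit 0) (XT.lf (nat_lit 0) (nat_lit 78720850536) (nat_lit 76) (nat_lit 57569165517) (nat_lit 152) (nat_lit 46892158283) (nat_lit 14) (nat_lit 5) (nat_lit 15) (nat_lit 5) (nat_lit 16) (nat_lit 4) (nat_lit 358) (nat_lit 299) (nat_lit 123)) (XT.lf (nat_lit 0) (nat_lit 142141448889) (nat_lit 76) (nat_lit 25086313933) (nat_lit 152) (nat_lit 23401760839) (nat_lit 14) (nat_lit 5) (nat_lit 15) (nat_lit 5) (nat_lit 16) (nat_lit 4) (nat_lit 359) (nat_lit 299) (nat_lit 122))))))))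
noncomputable def xc210 : XT := (XT.nd (nat_lit 36036) (nat_lit 0) (nat_lit 3952) (XT.nd (nat_lit 780) (nat_lit 152) (nat_lit 0) (XT.nd (nat_lit 390) (nat_lit 152) (nat_lit 0) (XT.nd (nat_lit 156) (nat_lit 76) (nat_lit 0) (XT.nd (nat_lit 78) (nat_lit 0) (nat_lit 0) (XT.lf (nat_lit 0) (nat_lit 1531532386) (nat_lit 152) (nat_lit 187981465788) (nat_lit 76) (nat_lit 8919816425) (nat_lit 12) (nat_lit 5) (nat_lit 14) (nat_lit 5) (nat_lit 13) (nat_lit 4) (nat_lit 360) (nat_lit 299) (nat_lit 121)) (XT.lf (nat_lit 0) (nat_lit 28170328279) (nat_lit 152) (nat_lit 133373474019) (nat_lit 76) (nat_lit 45001021920) (nat_lit 12) (nat_lit 5) (nat_lit 14) (nat_lit 5) (nat_lit 13) (nat_lit 4) (nat_lit 361) (nat_lit 299) (nat_lit 120))) (XT.nd (nat_lit 78) (nat_lit 76) (nat_lit 0) (XT.lf (nat_lit 0) (nat_lit 56140500901) (nat_lit 152) (nat_lit 76036086632) (nat_lit 76) (nat_lit 82885875353) (nat_lit 12)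 (nat_lit 5) (nat_lit 14) (nat_lit 5) (nat_lit 13) (nat_lit 4) (nat_lit 362) (nat_lit 299) (nat_lit 119)) (XT.nd (nat_lit 78) (nat_lit 76) (nat_lit 0) (XT.lf (nat_lit 0) (nat_lit 85508645900) (nat_lit 152) (nat_lit 15832786038) (nat_lit 76) (nat_lit 122664578757) (nat_lit 12) (nat_lit 5) (nat_lit 14) (nat_lit 5) (nat_lit 13) (nat_lit 4) (nat_lit 363) (nat_lit 299) (nat_lit 118)) (XT.lf (nat_lit 0) (nat_lit 48946358089) (nat_lit 76) (nat_lit 68162519164) (nat_lit 152) (nat_lit 116249675062) (nat_lit 11) (nat_lit 5) (nat_lit 12) (nat_lit 5) (nat_lit 13) (nat_lit 4) (nat_lit 364) (nat_lit 299) (nat_lit 117))))) (XT.nd (nat_lit 156) (nat_lit 152) (nat_lit 0) (XT.nd (nat_lit 78) (nat_lit 0) (nat_lit 0) (XT.lf (nat_lit 0) (nat_lit 117513242060) (nat_lit 76) (nat_lit 33043513621) (nat_lit 152) (nat_lit 92608583918) (nat_lit 11) (nat_lit 5) (nat_lit 12) (nat_lit 5) (nat_lit 13) (nat_lit 4) (nat_lit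 365) (nat_lit 299) (nat_lit 116)) (XT.lf (nat_lit 0) (nat_lit 185736365143) (nat_lit 152) (nat_lit 64014687136) (nat_lit 0) (nat_lit 3708447456) (nat_lit 11) (nat_lit 5) (nat_lit 13) (nat_lit 4) (nat_lit 11) (nat_lit 4) (nat_lit 366) (nat_lit 299) (nat_lit 115))) (XT.nd (nat_lit 78) (nat_lit 76) (nat_lit 0) (XT.lf (nat_lit 0) (nat_lit 167425439) (nat_lit 76) (nat_lit 223051381096) (nat_lit 76) (nat_lit 41022369094) (nat_lit 10) (nat_lit 4) (nat_lit 11) (nat_lit 5) (nat_lit 11) (nat_lit 4) (nat_lit 367) (nat_lit 299) (nat_lit 114)) (XT.nd (nat_lit 78) (nat_lit 76) (nat_lit 0) (XT.lf (nat_lit 0) (nat_lit 69780272356) (nat_lit 76) (nat_lit 193878767005) (nat_lit 76) (nat_lit 11848712797) (nat_lit 10) (nat_lit 4) (nat_lit 11) (nat_lit 5) (nat_lit 11) (nat_lit 4) (nat_lit 368) (nat_lit 299) (nat_lit 113)) (XT.lf (nat_lit 0) (nat_lit 18181996755) (nat_lit 152) (nat_lit 144757953434) (nat_lit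 76) (nat_lit 124383066164) (nat_lit 9) (nat_lit 5) (nat_lit 11) (nat_lit 5) (nat_lit 10) (nat_lit 4) (nat_lit 369) (nat_lit 299) (nat_lit 112)))))) (XT.nd (nat_lit 390) (nat_lit 76) (nat_lit 0) (XT.nd (nat_lit 156) (nat_lit 76) (nat_lit 0) (XT.nd (nat_lit 78) (nat_lit 0) (nat_lit 0) (XT.lf (nat_lit 0) (nat_lit 49315631903) (nat_lit 152) (nat_lit 80934946692) (nat_lit 76) (nat_lit 169468774143) (nat_lit 9) (nat_lit 5) (nat_lit 11) (nat_lit 5) (nat_lit 10) (nat_lit 4) (nat_lit 370) (nat_lit 299) (nat_lit 111)) (XT.lf (nat_lit 0) (nat_lit 82005553153) (nat_lit 152) (nat_lit 13921508426) (nat_lit 76) (nat_lit 216808464401) (nat_lit 9) (nat_lit 5) (nat_lit 11) (nat_lit 5) (nat_lit 10) (nat_lit 4) (nat_lit 371) (nat_lit 299) (nat_lit 110))) (XT.nd (nat_lit 78) (nat_lit 0) (nat_lit 0) (XT.lf (nat_lit 0) (nat_lit 58308141851) (nat_lit 76) (nat_lit 58931805302) (nat_lit 152) (nat_lit 209117062137)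 (nat_lit 8) (nat_lit 5) (nat_lit 9) (nat_lit 5) (nat_lit 10) (nat_lit 4) (nat_lit 372) (nat_lit 299) (nat_lit 109)) (XT.nd (nat_lit 78) (nat_lit 0) (nat_lit 0) (XT.lf (nat_lit 0) (nat_lit 134631924439) (nat_lit 76) (nat_lit 19839534511) (nat_lit 152) (nat_lit 186176338144) (nat_lit 8) (nat_lit 5) (nat_lit 9) (nat_lit 5) (nat_lit 10) (nat_lit 4) (nat_lit 373) (nat_lit 299) (nat_lit 108)) (XT.lf (nat_lit 0) (nat_lit 193895296182) (nat_lit 152) (nat_lit 141212989051) (nat_lit 0) (nat_lit 20528301782) (nat_lit 8) (nat_lit 5) (nat_lit 10) (nat_lit 4) (nat_lit 8) (nat_lit 4) (nat_lit 374) (nat_lit 299) (nat_lit 107))))) (XT.nd (nat_lit 156) (nat_lit 76) (nat_lit 0) (XT.nd (nat_lit 78) (nat_lit 0) (nat_lit 0) (XT.lf (nat_lit 0) (nat_lit 235615224194) (nat_lit 152) (nat_lit 73495823113) (nat_lit 0) (nat_lit 62247524389) (nat_lit 8) (nat_lit 5) (nat_lit 10) (nat_lit 4) (nat_lit 8) (nat_lit 4)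 (nat_lit 375) (nat_lit 299) (nat_lit 106)) (XT.lf (nat_lit 0) (nat_lit 279420825415) (nat_lit 152) (nat_lit 2393392760) (nat_lit 0) (nat_lit 106052453795) (nat_lit 8) (nat_lit 5) (nat_lit 10) (nat_lit 4) (nat_lit 8) (nat_lit 4) (nat_lit 376) (nat_lit 299) (nat_lit 105))) (XT.nd (nat_lit 78) (nat_lit 0) (nat_lit 0) (XT.lf (nat_lit 0) (nat_lit 74652954260) (nat_lit 76) (nat_lit 251928986466) (nat_lit 76) (nat_lit 78559975022) (nat_lit 7) (nat_lit 4) (nat_lit 8) (nat_lit 5) (nat_lit 8) (nat_lit 4) (nat_lit 377) (nat_lit 299) (nat_lit 104)) (XT.nd (nat_lit 34554) (nat_lit 0) (nat_lit 5852) (XT.lf (nat_lit 0) (nat_lit 155634155346) (nat_lit 76) (nat_lit 220507187888) (nat_lit 76) (nat_lit 47137567089) (nat_lit 7) (nat_lit 4) (nat_lit 8) (nat_lit 5) (nat_lit 8) (nat_lit 4) (nat_lit 378) (nat_lit 299) (nat_lit 103)) (XT.lf (nat_lit 0) (nat_lit 5098185059) (nat_lit 0) (nat_lit 5098185059) (nat_lit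 684) (nat_lit 4234629942) (nat_lit 84) (nat_lit 5) (nat_lit 84) (nat_lit 3) (nat_lit 93) (nat_lit 3) (nat_lit 300) (nat_lit 300) (nat_lit 180))))))) (XT.nd (nat_lit 780) (nat_lit 1368) (nat_lit 0) (XT.nd (nat_lit 390) (nat_lit 532) (nat_lit 0) (XT.nd (nat_lit 156) (nat_lit 0) (nat_lit 0) (XT.nd (nat_lit 78) (nat_lit 0) (nat_lit 0) (XT.lf (nat_lit 0) (nat_lit 21020021985) (nat_lit 684) (nat_lit 5822218692) (nat_lit 760) (nat_lit 2735265906) (nat_lit 84) (nat_lit 5) (nat_lit 93) (nat_lit 3) (nat_lit 94) (nat_lit 5) (nat_lit 301) (nat_lit 300) (nat_lit 179)) (XT.lf (nat_lit 76) (nat_lit 7741351319) (nat_lit 0) (nat_lit 14220675888) (nat_lit 760) (nat_lit 8352604099) (nat_lit 85) (nat_lit 5) (nat_lit 84) (nat_lit 5) (nat_lit 94) (nat_lit 5) (nat_lit 302) (nat_lit 300) (nat_lit 178))) (XT.nd (nat_lit 78) (nat_lit 0) (nat_lit 76) (XT.lf (nat_lit 76) (nat_lit 22182646692) (nat_lit 0) (nat_lit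 862611110) (nat_lit 760) (nat_lit 8038658596) (nat_lit 85) (nat_lit 5) (nat_lit 84) (nat_lit 5) (nat_lit 94) (nat_lit 5) (nat_lit 303) (nat_lit 300) (nat_lit 177)) (XT.nd (nat_lit 78) (nat_lit 0) (nat_lit 0) (XT.lf (nat_lit 76) (nat_lit 5419568853) (nat_lit 0) (nat_lit 19048976929) (nat_lit 760) (nat_lit 7408835061) (nat_lit 86) (nat_lit 5) (nat_lit 85) (nat_lit 5) (nat_lit 95) (nat_lit 5) (nat_lit 304) (nat_lit 300) (nat_lit 176)) (XT.lf (nat_lit 76) (nat_lit 20748200992) (nat_lit 0) (nat_lit 5375381856) (nat_lit 760) (nat_lit 6578915849) (nat_lit 86) (nat_lit 5) (nat_lit 85) (nat_lit 5) (nat_lit 95) (nat_lit 5) (nat_lit 305) (nat_lit 300) (nat_lit 175))))) (XT.nd (nat_lit 156) (nat_lit 684) (nat_lit 0) (XT.nd (nat_lit 78) (nat_lit 0) (nat_lit 0) (XT.lf (nat_lit 76) (nat_lit 3234929406) (nat_lit 0) (nat_lit 24813320451) (nat_lit 760) (nat_lit 5511287656) (nat_lit 87) (nat_lit 5) (nat_lit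 86) (nat_lit 5) (nat_lit 96) (nat_lit 5) (nat_lit 306) (nat_lit 300) (nat_lit 174)) (XT.lf (nat_lit 76) (nat_lit 19504885743) (nat_lit 0) (nat_lit 10849696571) (nat_lit 760) (nat_lit 4090582895) (nat_lit 87) (nat_lit 5) (nat_lit 86) (nat_lit 5) (nat_lit 96) (nat_lit 5) (nat_lit 307) (nat_lit 300) (nat_lit 173))) (XT.nd (nat_lit 78) (nat_lit 760) (nat_lit 0) (XT.lf (nat_lit 76) (nat_lit 1189009621) (nat_lit 0) (nat_lit 31661775740) (nat_lit 760) (nat_lit 2520569369) (nat_lit 88) (nat_lit 5) (nat_lit 87) (nat_lit 5) (nat_lit 97) (nat_lit 5) (nat_lit 308) (nat_lit 300) (nat_lit 172)) (XT.nd (nat_lit 78) (nat_lit 760) (nat_lit 0) (XT.lf (nat_lit 76) (nat_lit 18456962112) (nat_lit 0) (nat_lit 17439449971) (nat_lit 760) (nat_lit 426218719) (nat_lit 88) (nat_lit 5) (nat_lit 87) (nat_lit 5) (nat_lit 97) (nat_lit 5) (nat_lit 309) (nat_lit 300) (nat_lit 171)) (XT.lf (nat_lit 0) (nat_lit 1712806516)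 (nat_lit 760) (nat_lit 763571820) (nat_lit 836) (nat_lit 34843880450) (nat_lit 77) (nat_lit 5) (nat_lit 87) (nat_lit 5) (nat_lit 88) (nat_lit 5) (nat_lit 310) (nat_lit 300) (nat_lit 170)))))) (XT.nd (nat_lit 390) (nat_lit 608) (nat_lit 0) (XT.nd (nat_lit 156) (nat_lit 836) (nat_lit 0) (XT.nd (nat_lit 78) (nat_lit 0) (nat_lit 0) (XT.lf (nat_lit 0) (nat_lit 4429777324) (nat_lit 760) (nat_lit 20812803633) (nat_lit 76) (nat_lit 13100578643) (nat_lit 78) (nat_lit 5) (nat_lit 88) (nat_lit 5) (nat_lit 79) (nat_lit 5) (nat_lit 311) (nat_lit 300) (nat_lit 169)) (XT.lf (nat_lit 0) (nat_lit 7333310030) (nat_lit 760) (nat_lit 2694605060) (nat_lit 76) (nat_lit 29386761077) (nat_lit 78) (nat_lit 5) (nat_lit 88) (nat_lit 5) (nat_lit 79) (nat_lit 5) (nat_lit 312) (nat_lit 300) (nat_lit 168))) (XT.nd (nat_lit 78) (nat_lit 380) (nat_lit 0) (XT.lf (nat_lit 0) (nat_lit 10739652564) (nat_lit 532) (nat_lit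 23757183125) (nat_lit 76) (nat_lit 6025057284) (nat_lit 72) (nat_lit 5) (nat_lit 79) (nat_lit 5) (nat_lit 73) (nat_lit 5) (nat_lit 313) (nat_lit 300) (nat_lit 167)) (XT.nd (nat_lit 78) (nat_lit 380) (nat_lit 0) (XT.lf (nat_lit 0) (nat_lit 14524305413) (nat_lit 532) (nat_lit 4559492239) (nat_lit 76) (nat_lit 22590279092) (nat_lit 72) (nat_lit 5) (nat_lit 79) (nat_lit 5) (nat_lit 73) (nat_lit 5) (nat_lit 314) (nat_lit 300) (nat_lit 166)) (XT.lf (nat_lit 0) (nat_lit 16111165589) (nat_lit 380) (nat_lit 2635916802) (nat_lit 456) (nat_lit 24124348249) (nat_lit 67) (nat_lit 5) (nat_lit 72) (nat_lit 5) (nat_lit 73) (nat_lit 5) (nat_lit 315) (nat_lit 300) (nat_lit 165))))) (XT.nd (nat_lit 156) (nat_lit 304) (nat_lit 0) (XT.nd (nat_lit 78) (nat_lit 304) (nat_lit 0) (XT.lf (nat_lit 0) (nat_lit 23485402685) (nat_lit 456) (nat_lit 6383556767) (nat_lit 76) (nat_lit 14244477799) (nat_lit 67) (nat_lit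 5) (nat_lit 73) (nat_lit 5) (nat_lit 68) (nat_lit 5) (nat_lit 316) (nat_lit 300) (nat_lit 164)) (XT.lf (nat_lit 0) (nat_lit 15461085733) (nat_lit 304) (nat_lit 13281715948) (nat_lit 380) (nat_lit 16660639374) (nat_lit 63) (nat_lit 5) (nat_lit 67) (nat_lit 5) (nat_lit 68) (nat_lit 5) (nat_lit 317) (nat_lit 300) (nat_lit 163))) (XT.nd (nat_lit 78) (nat_lit 304) (nat_lit 0) (XT.lf (nat_lit 0) (nat_lit 34435143819) (nat_lit 380) (nat_lit 8201906598) (nat_lit 76) (nat_lit 4112295731) (nat_lit 63) (nat_lit 5) (nat_lit 68) (nat_lit 5) (nat_lit 64) (nat_lit 5) (nat_lit 318) (nat_lit 300) (nat_lit 162)) (XT.nd (nat_lit 78) (nat_lit 0) (nat_lit 0) (XT.lf (nat_lit 0) (nat_lit 14881641232) (nat_lit 304) (nat_lit 25978286700) (nat_lit 380) (nat_lit 7280231853) (nat_lit 59) (nat_lit 5) (nat_lit 63) (nat_lit 5) (nat_lit 64) (nat_lit 5) (nat_lit 319) (nat_lit 300) (nat_lit 161)) (XT.lf (nat_lit 0) (nat_lit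 39401662646) (nat_lit 304) (nat_lit 8341008471) (nat_lit 380) (nat_lit 1851011309) (nat_lit 59) (nat_lit 5) (nat_lit 63) (nat_lit 5) (nat_lit 64) (nat_lit 5) (nat_lit 320) (nat_lit 300) (nat_lit 160))))))))
noncomputable def xc211 : XT := (XT.nd (nat_lit 1560) (nat_lit 1216) (nat_lit 0) (XT.nd (nat_lit 780) (nat_lit 988) (nat_lit 0) (XT.nd (nat_lit 390) (nat_lit 532) (nat_lit 0) (XT.nd (nat_lit 156) (nat_lit 532) (nat_lit 0) (XT.nd (nat_lit 78) (nat_lit 0) (nat_lit 0) (XT.lf (nat_lit 0) (nat_lit 4113168321) (nat_lit 304) (nat_lit 36842263147) (nat_lit 76) (nat_lit 10142112861) (nat_lit 55) (nat_lit 5) (nat_lit 59) (nat_lit 5) (nat_lit 56) (nat_lit 5) (nat_lit 321) (nat_lit 300) (nat_lit 159)) (XT.lf (nat_lit 0) (nat_lit 10623466359) (nat_lit 304) (nat_lit 12561564786) (nat_lit 76) (nat_lit 29474548911) (nat_lit 55) (nat_lit 5) (nat_lit 59) (nat_lit 5) (nat_lit 56) (nat_lit 5) (nat_lit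 322) (nat_lit 300) (nat_lit 158))) (XT.nd (nat_lit 78) (nat_lit 228) (nat_lit 0) (XT.lf (nat_lit 0) (nat_lit 13358362375) (nat_lit 304) (nat_lit 4307517725) (nat_lit 380) (nat_lit 36623510980) (nat_lit 51) (nat_lit 5) (nat_lit 55) (nat_lit 5) (nat_lit 56) (nat_lit 5) (nat_lit 323) (nat_lit 300) (nat_lit 157)) (XT.nd (nat_lit 78) (nat_lit 228) (nat_lit 0) (XT.lf (nat_lit 0) (nat_lit 25516943191) (nat_lit 380) (nat_lit 15227774463) (nat_lit 76) (nat_lit 15233151950) (nat_lit 51) (nat_lit 5) (nat_lit 56) (nat_lit 5) (nat_lit 52) (nat_lit 5) (nat_lit 324) (nat_lit 300) (nat_lit 156)) (XT.lf (nat_lit 0) (nat_lit 12074180250) (nat_lit 228) (nat_lit 21943686971) (nat_lit 304) (nat_lit 23720042664) (nat_lit 48) (nat_lit 5) (nat_lit 51) (nat_lit 5) (nat_lit 52) (nat_lit 5) (nat_lit 325) (nat_lit 300) (nat_lit 155))))) (XT.nd (nat_lit 156) (nat_lit 304) (nat_lit 0) (XT.nd (nat_lit 78) (nat_lit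 228) (nat_lit 0) (XT.lf (nat_lit 0) (nat_lit 41267647313) (nat_lit 228) (nat_lit 1932312165) (nat_lit 304) (nat_lit 16373189669) (nat_lit 48) (nat_lit 5) (nat_lit 51) (nat_lit 5) (nat_lit 52) (nat_lit 5) (nat_lit 326) (nat_lit 300) (nat_lit 154)) (XT.lf (nat_lit 0) (nat_lit 10455149382) (nat_lit 228) (nat_lit 42845436827) (nat_lit 304) (nat_lit 8176595591) (nat_lit 45) (nat_lit 5) (nat_lit 48) (nat_lit 5) (nat_lit 49) (nat_lit 5) (nat_lit 327) (nat_lit 300) (nat_lit 153))) (XT.nd (nat_lit 78) (nat_lit 228) (nat_lit 0) (XT.lf (nat_lit 0) (nat_lit 761168701) (nat_lit 304) (nat_lit 22217280401) (nat_lit 76) (nat_lit 40480379206) (nat_lit 44) (nat_lit 5) (nat_lit 48) (nat_lit 5) (nat_lit 45) (nat_lit 5) (nat_lit 328) (nat_lit 300) (nat_lit 152)) (XT.nd (nat_lit 78) (nat_lit 0) (nat_lit 0) (XT.lf (nat_lit 0) (nat_lit 8152449735) (nat_lit 228) (nat_lit 1844272305) (nat_lit 304) (nat_lit 55529851096)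 (nat_lit 41) (nat_lit 5) (nat_lit 44) (nat_lit 5) (nat_lit 45) (nat_lit 5) (nat_lit 329) (nat_lit 300) (nat_lit 151)) (XT.lf (nat_lit 0) (nat_lit 20392588989) (nat_lit 304) (nat_lit 27192910714) (nat_lit 76) (nat_lit 20077281108) (nat_lit 41) (nat_lit 5) (nat_lit 45) (nat_lit 5) (nat_lit 42) (nat_lit 5) (nat_lit 330) (nat_lit 300) (nat_lit 150)))))) (XT.nd (nat_lit 390) (nat_lit 532) (nat_lit 0) (XT.nd (nat_lit 156) (nat_lit 228) (nat_lit 0) (XT.nd (nat_lit 78) (nat_lit 0) (nat_lit 0) (XT.lf (nat_lit 0) (nat_lit 4612684433) (nat_lit 228) (nat_lit 26796329746) (nat_lit 304) (nat_lit 38491748736) (nat_lit 38) (nat_lit 5) (nat_lit 41) (nat_lit 5) (nat_lit 42) (nat_lit 5) (nat_lit 331) (nat_lit 300) (nat_lit 149)) (XT.lf (nat_lit 0) (nat_lit 38950590415) (nat_lit 228) (nat_lit 4484748132) (nat_lit 304) (nat_lit 28792353859) (nat_lit 38) (nat_lit 5) (nat_lit 41) (nat_lit 5) (nat_lit 42) (nat_lit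 5) (nat_lit 332) (nat_lit 300) (nat_lit 148))) (XT.nd (nat_lit 78) (nat_lit 76) (nat_lit 0) (XT.lf (nat_lit 0) (nat_lit 37881547) (nat_lit 152) (nat_lit 56320046008) (nat_lit 228) (nat_lit 18298295472) (nat_lit 36) (nat_lit 5) (nat_lit 38) (nat_lit 5) (nat_lit 39) (nat_lit 5) (nat_lit 333) (nat_lit 300) (nat_lit 147)) (XT.nd (nat_lit 78) (nat_lit 76) (nat_lit 0) (XT.lf (nat_lit 0) (nat_lit 36095991069) (nat_lit 152) (nat_lit 34465201432) (nat_lit 228) (nat_lit 6613262332) (nat_lit 36) (nat_lit 5) (nat_lit 38) (nat_lit 5) (nat_lit 39) (nat_lit 5) (nat_lit 334) (nat_lit 300) (nat_lit 146)) (XT.lf (nat_lit 0) (nat_lit 5473683888) (nat_lit 228) (nat_lit 5951827131) (nat_lit 76) (nat_lit 68388739212) (nat_lit 35) (nat_lit 5) (nat_lit 38) (nat_lit 5) (nat_lit 36) (nat_lit 5) (nat_lit 335) (nat_lit 300) (nat_lit 145))))) (XT.nd (nat_lit 156) (nat_lit 304) (nat_lit 0) (XT.nd (nat_lit 78) (nat_lit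 0) (nat_lit 0) (XT.lf (nat_lit 0) (nat_lit 18647824496) (nat_lit 304) (nat_lit 50925088041) (nat_lit 76) (nat_lit 12972449059) (nat_lit 32) (nat_lit 5) (nat_lit 36) (nat_lit 5) (nat_lit 33) (nat_lit 5) (nat_lit 336) (nat_lit 300) (nat_lit 144)) (XT.lf (nat_lit 0) (nat_lit 32769198954) (nat_lit 304) (nat_lit 14321191671) (nat_lit 76) (nat_lit 38308213192) (nat_lit 32) (nat_lit 5) (nat_lit 36) (nat_lit 5) (nat_lit 33) (nat_lit 5) (nat_lit 337) (nat_lit 300) (nat_lit 143))) (XT.nd (nat_lit 78) (nat_lit 152) (nat_lit 0) (XT.lf (nat_lit 0) (nat_lit 24908350479) (nat_lit 152) (nat_lit 23076013076) (nat_lit 228) (nat_lit 40390760071) (nat_lit 30) (nat_lit 5) (nat_lit 32) (nat_lit 5) (nat_lit 33) (nat_lit 5) (nat_lit 338) (nat_lit 300) (nat_lit 142)) (XT.nd (nat_lit 78) (nat_lit 152) (nat_lit 0) (XT.lf (nat_lit 0) (nat_lit 64239047013) (nat_lit 228) (nat_lit 24930938773) (nat_lit 76) (nat_lit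 2316547084) (nat_lit 30) (nat_lit 5) (nat_lit 33) (nat_lit 5) (nat_lit 31) (nat_lit 5) (nat_lit 339) (nat_lit 300) (nat_lit 141)) (XT.lf (nat_lit 0) (nat_lit 15652668259) (nat_lit 152) (nat_lit 66275379626) (nat_lit 228) (nat_lit 12794386934) (nat_lit 28) (nat_lit 5) (nat_lit 30) (nat_lit 5) (nat_lit 31) (nat_lit 5) (nat_lit 340) (nat_lit 300) (nat_lit 140))))))) (XT.nd (nat_lit 780) (nat_lit 532) (nat_lit 0) (XT.nd (nat_lit 390) (nat_lit 304) (nat_lit 0) (XT.nd (nat_lit 156) (nat_lit 152) (nat_lit 0) (XT.nd (nat_lit 78) (nat_lit 152) (nat_lit 0) (XT.lf (nat_lit 0) (nat_lit 2733200432) (nat_lit 228) (nat_lit 39013837444) (nat_lit 76) (nat_lit 56349833667) (nat_lit 27) (nat_lit 5) (nat_lit 30) (nat_lit 5) (nat_lit 28) (nat_lit 5) (nat_lit 341) (nat_lit 300) (nat_lit 139)) (XT.lf (nat_lit 0) (nat_lit 2927197847) (nat_lit 152) (nat_lit 15724660545) (nat_lit 228) (nat_lit 82975452398) (nat_lit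 25) (nat_lit 5) (nat_lit 27) (nat_lit 5) (nat_lit 28) (nat_lit 5) (nat_lit 342) (nat_lit 300) (nat_lit 138))) (XT.nd (nat_lit 78) (nat_lit 152) (nat_lit 0) (XT.lf (nat_lit 0) (nat_lit 36218068862) (nat_lit 228) (nat_lit 57175051477) (nat_lit 76) (nat_lit 11898571835) (nat_lit 25) (nat_lit 5) (nat_lit 28) (nat_lit 5) (nat_lit 26) (nat_lit 5) (nat_lit 343) (nat_lit 300) (nat_lit 137)) (XT.nd (nat_lit 78) (nat_lit 152) (nat_lit 0) (XT.lf (nat_lit 0) (nat_lit 54919399384) (nat_lit 228) (nat_lit 13833090502) (nat_lit 76) (nat_lit 40373963366) (nat_lit 25) (nat_lit 5) (nat_lit 28) (nat_lit 5) (nat_lit 26) (nat_lit 5) (nat_lit 344) (nat_lit 300) (nat_lit 136)) (XT.lf (nat_lit 0) (nat_lit 32721772207) (nat_lit 152) (nat_lit 42343977275) (nat_lit 228) (nat_lit 38061706297) (nat_lit 23) (nat_lit 5) (nat_lit 25) (nat_lit 5) (nat_lit 26) (nat_lit 5) (nat_lit 345) (nat_lit 300) (nat_lit 135)))))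 (XT.nd (nat_lit 156) (nat_lit 228) (nat_lit 0) (XT.nd (nat_lit 78) (nat_lit 76) (nat_lit 0) (XT.lf (nat_lit 0) (nat_lit 82083158495) (nat_lit 152) (nat_lit 14369624228) (nat_lit 228) (nat_lit 20864058427) (nat_lit 23) (nat_lit 5) (nat_lit 25) (nat_lit 5) (nat_lit 26) (nat_lit 5) (nat_lit 346) (nat_lit 300) (nat_lit 134)) (XT.lf (nat_lit 0) (nat_lit 12356726235) (nat_lit 76) (nat_lit 106978740530) (nat_lit 152) (nat_lit 2358915018) (nat_lit 22) (nat_lit 5) (nat_lit 23) (nat_lit 5) (nat_lit 24) (nat_lit 4) (nat_lit 347) (nat_lit 300) (nat_lit 133))) (XT.nd (nat_lit 78) (nat_lit 152) (nat_lit 0) (XT.lf (nat_lit 0) (nat_lit 17366275111) (nat_lit 152) (nat_lit 63224403207) (nat_lit 76) (nat_lit 45644736121) (nat_lit 21) (nat_lit 5) (nat_lit 23) (nat_lit 5) (nat_lit 22) (nat_lit 5) (nat_lit 348) (nat_lit 300) (nat_lit 132)) (XT.nd (nat_lit 78) (nat_lit 152) (nat_lit 0) (XT.lf (nat_lit 0) (nat_lit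 37997625610) (nat_lit 152) (nat_lit 14845535086) (nat_lit 76) (nat_lit 78158446524) (nat_lit 21) (nat_lit 5) (nat_lit 23) (nat_lit 5) (nat_lit 22) (nat_lit 5) (nat_lit 349) (nat_lit 300) (nat_lit 131)) (XT.lf (nat_lit 0) (nat_lit 37139667162) (nat_lit 152) (nat_lit 23099945880) (nat_lit 228) (nat_lit 75737543909) (nat_lit 19) (nat_lit 5) (nat_lit 21) (nat_lit 5) (nat_lit 22) (nat_lit 5) (nat_lit 350) (nat_lit 300) (nat_lit 130)))))) (XT.nd (nat_lit 390) (nat_lit 228) (nat_lit 0) (XT.nd (nat_lit 156) (nat_lit 228) (nat_lit 0) (XT.nd (nat_lit 78) (nat_lit 76) (nat_lit 0) (XT.lf (nat_lit 0) (nat_lit 83975400754) (nat_lit 228) (nat_lit 49081761158) (nat_lit 76) (nat_lit 8125237956) (nat_lit 19) (nat_lit 5) (nat_lit 22) (nat_lit 5) (nat_lit 20) (nat_lit 4) (nat_lit 351) (nat_lit 300) (nat_lit 129)) (XT.lf (nat_lit 0) (nat_lit 2873787890) (nat_lit 76) (nat_lit 106447006639) (nat_lit 152) (nat_lit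 37305970278) (nat_lit 18) (nat_lit 5) (nat_lit 19) (nat_lit 5) (nat_lit 20) (nat_lit 4) (nat_lit 352) (nat_lit 300) (nat_lit 128))) (XT.nd (nat_lit 78) (nat_lit 228) (nat_lit 0) (XT.lf (nat_lit 0) (nat_lit 59129885056) (nat_lit 76) (nat_lit 77634073336) (nat_lit 152) (nat_lit 15537865256) (nat_lit 18) (nat_lit 5) (nat_lit 19) (nat_lit 5) (nat_lit 20) (nat_lit 4) (nat_lit 353) (nat_lit 300) (nat_lit 127)) (XT.nd (nat_lit 78) (nat_lit 152) (nat_lit 0) (XT.lf (nat_lit 0) (nat_lit 7083702210) (nat_lit 152) (nat_lit 40177315020) (nat_lit 76) (nat_lit 110993940610) (nat_lit 17) (nat_lit 5) (nat_lit 19) (nat_lit 5) (nat_lit 18) (nat_lit 5) (nat_lit 354) (nat_lit 300) (nat_lit 126)) (XT.lf (nat_lit 0) (nat_lit 15714125928) (nat_lit 152) (nat_lit 14844722403) (nat_lit 228) (nat_lit 133921931317) (nat_lit 15) (nat_lit 5) (nat_lit 17) (nat_lit 5) (nat_lit 18) (nat_lit 5) (nat_lit 355) (nat_lit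 300) (nat_lit 125))))) (XT.nd (nat_lit 234) (nat_lit 152) (nat_lit 0) (XT.nd (nat_lit 78) (nat_lit 76) (nat_lit 0) (XT.lf (nat_lit 0) (nat_lit 56198315127) (nat_lit 228) (nat_lit 95500820480) (nat_lit 76) (nat_lit 19269229327) (nat_lit 15) (nat_lit 5) (nat_lit 18) (nat_lit 5) (nat_lit 16) (nat_lit 4) (nat_lit 356) (nat_lit 300) (nat_lit 124)) (XT.nd (nat_lit 78) (nat_lit 76) (nat_lit 0) (XT.lf (nat_lit 0) (nat_lit 83362482496) (nat_lit 228) (nat_lit 39816149025) (nat_lit 76) (nat_lit 54589562132) (nat_lit 15) (nat_lit 5) (nat_lit 18) (nat_lit 5) (nat_lit 16) (nat_lit 4) (nat_lit 357) (nat_lit 300) (nat_lit 123)) (XT.lf (nat_lit 0) (nat_lit 19268420709) (nat_lit 76) (nat_lit 92916672644) (nat_lit 152) (nat_lit 72707909202) (nat_lit 14) (nat_lit 5) (nat_lit 15) (nat_lit 5) (nat_lit 16) (nat_lit 4) (nat_lit 358) (nat_lit 300) (nat_lit 122)))) (XT.nd (nat_lit 78) (nat_lit 152) (nat_lit 0)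 (XT.lf (nat_lit 0) (nat_lit 82688517485) (nat_lit 76) (nat_lit 60434036560) (nat_lit 152) (nat_lit 49217812374) (nat_lit 14) (nat_lit 5) (nat_lit 15) (nat_lit 5) (nat_lit 16) (nat_lit 4) (nat_lit 359) (nat_lit 300) (nat_lit 121)) (XT.nd (nat_lit 78) (nat_lit 152) (nat_lit 0) (XT.lf (nat_lit 0) (nat_lit 149278639831) (nat_lit 76) (nat_lit 26327689408) (nat_lit 152) (nat_lit 24553797621) (nat_lit 14) (nat_lit 5) (nat_lit 15) (nat_lit 5) (nat_lit 16) (nat_lit 4) (nat_lit 360) (nat_lit 300) (nat_lit 120)) (XT.lf (nat_lit 0) (nat_lit 1625426717) (nat_lit 152) (nat_lit 197349660869) (nat_lit 76) (nat_lit 9378489095) (nat_lit 12) (nat_lit 5) (nat_lit 14) (nat_lit 5) (nat_lit 13) (nat_lit 4) (nat_lit 361) (nat_lit 300) (nat_lit 119))))))))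
noncomputable def xc212 : XT := (XT.nd (nat_lit 36114) (nat_lit 0) (nat_lit 3648) (XT.nd (nat_lit 780) (nat_lit 152) (nat_lit 0) (XT.nd (nat_lit 390) (nat_lit 152) (nat_lit 0) (XT.nd (nat_lit 156) (nat_lit 76) (nat_lit 0) (XT.nd (nat_lit 78) (nat_lit 0) (nat_lit 0) (XT.lf (nat_lit 0) (nat_lit 29595337752) (nat_lit 152) (nat_lit 140012739903) (nat_lit 76) (nat_lit 47263150967) (nat_lit 12) (nat_lit 5) (nat_lit 14) (nat_lit 5) (nat_lit 13) (nat_lit 4) (nat_lit 362) (nat_lit 300) (nat_lit 118)) (XT.lf (nat_lit 0) (nat_lit 58963233621) (nat_lit 152) (nat_lit 79809883518) (nat_lit 76) (nat_lit 87041671931) (nat_lit 12) (nat_lit 5) (nat_lit 14) (nat_lit 5) (nat_lit 13) (nat_lit 4) (nat_lit 363) (nat_lit 300) (nat_lit 117))) (XT.nd (nat_lit 78) (nat_lit 76) (nat_lit 0) (XT.lf (nat_lit 0) (nat_lit 89799037886) (nat_lit 152) (nat_lit 16597751582) (nat_lit 76) (nat_lit 128808762752) (nat_lit 12)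 (nat_lit 5) (nat_lit 14) (nat_lit 5) (nat_lit 13) (nat_lit 4) (nat_lit 364) (nat_lit 300) (nat_lit 116)) (XT.nd (nat_lit 78) (nat_lit 0) (nat_lit 0) (XT.lf (nat_lit 0) (nat_lit 51419919529) (nat_lit 76) (nat_lit 71559058646) (nat_lit 152) (nat_lit 122046758403) (nat_lit 11) (nat_lit 5) (nat_lit 12) (nat_lit 5) (nat_lit 13) (nat_lit 4) (nat_lit 365) (nat_lit 300) (nat_lit 115)) (XT.lf (nat_lit 0) (nat_lit 123413898007) (nat_lit 76) (nat_lit 34684654563) (nat_lit 152) (nat_lit 97224346055) (nat_lit 11) (nat_lit 5) (nat_lit 12) (nat_lit 5) (nat_lit 13) (nat_lit 4) (nat_lit 366) (nat_lit 300) (nat_lit 114))))) (XT.nd (nat_lit 156) (nat_lit 76) (nat_lit 0) (XT.nd (nat_lit 78) (nat_lit 76) (nat_lit 0) (XT.lf (nat_lit 0) (nat_lit 195036641864) (nat_lit 152) (nat_lit 67191107669) (nat_lit 0) (nat_lit 3904042741) (nat_lit 11) (nat_lit 5) (nat_lit 13) (nat_lit 4) (nat_lit 11) (nat_lit 4) (nat_lit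 367) (nat_lit 300) (nat_lit 113)) (XT.lf (nat_lit 0) (nat_lit 199718376) (nat_lit 76) (nat_lit 234193219555) (nat_lit 76) (nat_lit 43059627856) (nat_lit 10) (nat_lit 4) (nat_lit 11) (nat_lit 5) (nat_lit 11) (nat_lit 4) (nat_lit 368) (nat_lit 300) (nat_lit 112))) (XT.nd (nat_lit 78) (nat_lit 76) (nat_lit 0) (XT.lf (nat_lit 0) (nat_lit 73292068512) (nat_lit 76) (nat_lit 203562485740) (nat_lit 76) (nat_lit 12427948730) (nat_lit 10) (nat_lit 4) (nat_lit 11) (nat_lit 5) (nat_lit 11) (nat_lit 4) (nat_lit 369) (nat_lit 300) (nat_lit 111)) (XT.nd (nat_lit 78) (nat_lit 0) (nat_lit 0) (XT.lf (nat_lit 0) (nat_lit 19103265388) (nat_lit 152) (nat_lit 151973743260) (nat_lit 76) (nat_lit 130611542249) (nat_lit 9) (nat_lit 5) (nat_lit 11) (nat_lit 5) (nat_lit 10) (nat_lit 4) (nat_lit 370) (nat_lit 300) (nat_lit 110)) (XT.lf (nat_lit 0) (nat_lit 51793002826) (nat_lit 152) (nat_lit 84960638936) (nat_lit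 76) (nat_lit 177951091685) (nat_lit 9) (nat_lit 5) (nat_lit 11) (nat_lit 5) (nat_lit 10) (nat_lit 4) (nat_lit 371) (nat_lit 300) (nat_lit 109)))))) (XT.nd (nat_lit 390) (nat_lit 76) (nat_lit 0) (XT.nd (nat_lit 156) (nat_lit 0) (nat_lit 0) (XT.nd (nat_lit 78) (nat_lit 76) (nat_lit 0) (XT.lf (nat_lit 0) (nat_lit 86116868266) (nat_lit 152) (nat_lit 14597531379) (nat_lit 76) (nat_lit 227657343654) (nat_lit 9) (nat_lit 5) (nat_lit 11) (nat_lit 5) (nat_lit 10) (nat_lit 4) (nat_lit 372) (nat_lit 300) (nat_lit 108)) (XT.lf (nat_lit 0) (nat_lit 61243277985) (nat_lit 76) (nat_lit 61869486414) (nat_lit 152) (nat_lit 219561547594) (nat_lit 8) (nat_lit 5) (nat_lit 9) (nat_lit 5) (nat_lit 10) (nat_lit 4) (nat_lit 373) (nat_lit 300) (nat_lit 107))) (XT.nd (nat_lit 78) (nat_lit 0) (nat_lit 0) (XT.lf (nat_lit 0) (nat_lit 141382310224) (nat_lit 76) (nat_lit 20823026329) (nat_lit 152) (nat_lit 195474328718)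 (nat_lit 8) (nat_lit 5) (nat_lit 9) (nat_lit 5) (nat_lit 10) (nat_lit 4) (nat_lit 374) (nat_lit 300) (nat_lit 106)) (XT.nd (nat_lit 78) (nat_lit 0) (nat_lit 0) (XT.lf (nat_lit 0) (nat_lit 203600001113) (nat_lit 152) (nat_lit 148255373010) (nat_lit 0) (nat_lit 21562539098) (nat_lit 8) (nat_lit 5) (nat_lit 10) (nat_lit 4) (nat_lit 8) (nat_lit 4) (nat_lit 375) (nat_lit 300) (nat_lit 105)) (XT.lf (nat_lit 0) (nat_lit 247405452187) (nat_lit 152) (nat_lit 77153218561) (nat_lit 0) (nat_lit 65367350348) (nat_lit 8) (nat_lit 5) (nat_lit 10) (nat_lit 4) (nat_lit 8) (nat_lit 4) (nat_lit 376) (nat_lit 300) (nat_lit 104))))) (XT.nd (nat_lit 34710) (nat_lit 0) (nat_lit 5852) (XT.nd (nat_lit 78) (nat_lit 76) (nat_lit 0) (XT.lf (nat_lit 0) (nat_lit 293400882670) (nat_lit 152) (nat_lit 2496495057) (nat_lit 0) (nat_lit 111362171475) (nat_lit 8) (nat_lit 5) (nat_lit 10) (nat_lit 4) (nat_lit 8) (nat_lit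 4) (nat_lit 377) (nat_lit 300) (nat_lit 103)) (XT.lf (nat_lit 0) (nat_lit 78401902099) (nat_lit 76) (nat_lit 264517976805) (nat_lit 76) (nat_lit 82478685271) (nat_lit 7) (nat_lit 4) (nat_lit 8) (nat_lit 5) (nat_lit 8) (nat_lit 4) (nat_lit 378) (nat_lit 300) (nat_lit 102))) (XT.nd (nat_lit 78) (nat_lit 0) (nat_lit 0) (XT.lf (nat_lit 0) (nat_lit 5389194768) (nat_lit 0) (nat_lit 5389194768) (nat_lit 684) (nat_lit 4370382762) (nat_lit 84) (nat_lit 5) (nat_lit 84) (nat_lit 3) (nat_lit 93) (nat_lit 3) (nat_lit 301) (nat_lit 301) (nat_lit 178)) (XT.nd (nat_lit 78) (nat_lit 0) (nat_lit 0) (XT.lf (nat_lit 0) (nat_lit 22207475054) (nat_lit 684) (nat_lit 6036297533) (nat_lit 760) (nat_lit 2805467264) (nat_lit 84) (nat_lit 5) (nat_lit 93) (nat_lit 3) (nat_lit 94) (nat_lit 5) (nat_lit 302) (nat_lit 301) (nat_lit 177)) (XT.lf (nat_lit 76) (nat_lit 8204208525) (nat_lit 0) (nat_lit 14987057588) (nat_lit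 760) (nat_lit 8632235632) (nat_lit 85) (nat_lit 5) (nat_lit 84) (nat_lit 5) (nat_lit 94) (nat_lit 5) (nat_lit 303) (nat_lit 301) (nat_lit 176))))))) (XT.nd (nat_lit 780) (nat_lit 1672) (nat_lit 0) (XT.nd (nat_lit 390) (nat_lit 532) (nat_lit 0) (XT.nd (nat_lit 156) (nat_lit 0) (nat_lit 76) (XT.nd (nat_lit 78) (nat_lit 0) (nat_lit 76) (XT.lf (nat_lit 76) (nat_lit 23363959636) (nat_lit 0) (nat_lit 958453956) (nat_lit 760) (nat_lit 8309164218) (nat_lit 85) (nat_lit 5) (nat_lit 84) (nat_lit 5) (nat_lit 94) (nat_lit 5) (nat_lit 304) (nat_lit 301) (nat_lit 175)) (XT.lf (nat_lit 76) (nat_lit 5768802427) (nat_lit 0) (nat_lit 20042554249) (nat_lit 760) (nat_lit 7653648065) (nat_lit 86) (nat_lit 5) (nat_lit 85) (nat_lit 5) (nat_lit 95) (nat_lit 5) (nat_lit 305) (nat_lit 301) (nat_lit 174))) (XT.nd (nat_lit 78) (nat_lit 0) (nat_lit 76) (XT.lf (nat_lit 76) (nat_lit 21860139739) (nat_lit 0) (nat_lit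 5683320923) (nat_lit 760) (nat_lit 6788215214) (nat_lit 86) (nat_lit 5) (nat_lit 85) (nat_lit 5) (nat_lit 95) (nat_lit 5) (nat_lit 306) (nat_lit 301) (nat_lit 173)) (XT.nd (nat_lit 78) (nat_lit 0) (nat_lit 0) (XT.lf (nat_lit 76) (nat_lit 3476456011) (nat_lit 0) (nat_lit 26083153948) (nat_lit 760) (nat_lit 5672206742) (nat_lit 87) (nat_lit 5) (nat_lit 86) (nat_lit 5) (nat_lit 96) (nat_lit 5) (nat_lit 307) (nat_lit 301) (nat_lit 172)) (XT.lf (nat_lit 76) (nat_lit 20556111111) (nat_lit 0) (nat_lit 11419959946) (nat_lit 760) (nat_lit 4185926043) (nat_lit 87) (nat_lit 5) (nat_lit 86) (nat_lit 5) (nat_lit 96) (nat_lit 5) (nat_lit 308) (nat_lit 301) (nat_lit 171))))) (XT.nd (nat_lit 156) (nat_lit 760) (nat_lit 0) (XT.nd (nat_lit 78) (nat_lit 0) (nat_lit 0) (XT.lf (nat_lit 76) (nat_lit 1328981234) (nat_lit 0) (nat_lit 33264006200) (nat_lit 760) (nat_lit 2541724856) (nat_lit 88) (nat_lit 5) (nat_lit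 87) (nat_lit 5) (nat_lit 97) (nat_lit 5) (nat_lit 309) (nat_lit 301) (nat_lit 170)) (XT.lf (nat_lit 76) (nat_lit 19456497010) (nat_lit 0) (nat_lit 18329652635) (nat_lit 760) (nat_lit 347650626) (nat_lit 88) (nat_lit 5) (nat_lit 87) (nat_lit 5) (nat_lit 97) (nat_lit 5) (nat_lit 310) (nat_lit 301) (nat_lit 169))) (XT.nd (nat_lit 78) (nat_lit 0) (nat_lit 76) (XT.lf (nat_lit 0) (nat_lit 1890525201) (nat_lit 760) (nat_lit 725474723) (nat_lit 836) (nat_lit 36565471762) (nat_lit 77) (nat_lit 5) (nat_lit 87) (nat_lit 5) (nat_lit 88) (nat_lit 5) (nat_lit 311) (nat_lit 301) (nat_lit 168)) (XT.nd (nat_lit 78) (nat_lit 0) (nat_lit 0) (XT.lf (nat_lit 0) (nat_lit 4739915768) (nat_lit 760) (nat_lit 21773552563) (nat_lit 76) (nat_lit 13742229989) (nat_lit 78) (nat_lit 5) (nat_lit 88) (nat_lit 5) (nat_lit 79) (nat_lit 5) (nat_lit 312) (nat_lit 301) (nat_lit 167)) (XT.lf (nat_lit 0) (nat_lit 7784403700)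 (nat_lit 760) (nat_lit 2753248406) (nat_lit 76) (nat_lit 30843358572) (nat_lit 78) (nat_lit 5) (nat_lit 88) (nat_lit 5) (nat_lit 79) (nat_lit 5) (nat_lit 313) (nat_lit 301) (nat_lit 166)))))) (XT.nd (nat_lit 390) (nat_lit 608) (nat_lit 0) (XT.nd (nat_lit 156) (nat_lit 684) (nat_lit 0) (XT.nd (nat_lit 78) (nat_lit 0) (nat_lit 0) (XT.lf (nat_lit 0) (nat_lit 11358106873) (nat_lit 532) (nat_lit 24865829469) (nat_lit 76) (nat_lit 6319808279) (nat_lit 72) (nat_lit 5) (nat_lit 79) (nat_lit 5) (nat_lit 73) (nat_lit 5) (nat_lit 314) (nat_lit 301) (nat_lit 165)) (XT.lf (nat_lit 0) (nat_lit 15328112761) (nat_lit 532) (nat_lit 4712026078) (nat_lit 76) (nat_lit 23713600791) (nat_lit 72) (nat_lit 5) (nat_lit 79) (nat_lit 5) (nat_lit 73) (nat_lit 5) (nat_lit 315) (nat_lit 301) (nat_lit 164))) (XT.nd (nat_lit 78) (nat_lit 304) (nat_lit 0) (XT.lf (nat_lit 0) (nat_lit 16990947855) (nat_lit 380) (nat_lit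 2768544715) (nat_lit 456) (nat_lit 25251603131) (nat_lit 67) (nat_lit 5) (nat_lit 72) (nat_lit 5) (nat_lit 73) (nat_lit 5) (nat_lit 316) (nat_lit 301) (nat_lit 163)) (XT.nd (nat_lit 78) (nat_lit 304) (nat_lit 0) (XT.lf (nat_lit 0) (nat_lit 24731142409) (nat_lit 456) (nat_lit 6628312274) (nat_lit 76) (nat_lit 14955934602) (nat_lit 67) (nat_lit 5) (nat_lit 73) (nat_lit 5) (nat_lit 68) (nat_lit 5) (nat_lit 317) (nat_lit 301) (nat_lit 162)) (XT.lf (nat_lit 0) (nat_lit 16307361991) (nat_lit 304) (nat_lit 13941789251) (nat_lit 380) (nat_lit 17420862013) (nat_lit 63) (nat_lit 5) (nat_lit 67) (nat_lit 5) (nat_lit 68) (nat_lit 5) (nat_lit 318) (nat_lit 301) (nat_lit 161))))) (XT.nd (nat_lit 156) (nat_lit 304) (nat_lit 0) (XT.nd (nat_lit 78) (nat_lit 304) (nat_lit 0) (XT.lf (nat_lit 0) (nat_lit 36222874460) (nat_lit 380) (nat_lit 8538897949) (nat_lit 76) (nat_lit 4321609632) (nat_lit 63) (nat_lit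 5) (nat_lit 68) (nat_lit 5) (nat_lit 64) (nat_lit 5) (nat_lit 319) (nat_lit 301) (nat_lit 160)) (XT.lf (nat_lit 0) (nat_lit 15697648176) (nat_lit 304) (nat_lit 27269230958) (nat_lit 380) (nat_lit 7576964478) (nat_lit 59) (nat_lit 5) (nat_lit 63) (nat_lit 5) (nat_lit 64) (nat_lit 5) (nat_lit 320) (nat_lit 301) (nat_lit 159))) (XT.nd (nat_lit 78) (nat_lit 304) (nat_lit 0) (XT.lf (nat_lit 0) (nat_lit 41440245667) (nat_lit 304) (nat_lit 8750468345) (nat_lit 380) (nat_lit 1879486666) (nat_lit 59) (nat_lit 5) (nat_lit 63) (nat_lit 5) (nat_lit 64) (nat_lit 5) (nat_lit 321) (nat_lit 301) (nat_lit 158)) (XT.nd (nat_lit 78) (nat_lit 0) (nat_lit 0) (XT.lf (nat_lit 0) (nat_lit 4379129365) (nat_lit 304) (nat_lit 38611879960) (nat_lit 76) (nat_lit 10658287882) (nat_lit 55) (nat_lit 5) (nat_lit 59) (nat_lit 5) (nat_lit 56) (nat_lit 5) (nat_lit 322) (nat_lit 301) (nat_lit 157)) (XT.lf (nat_lit 0) (nat_lit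 11212070752) (nat_lit 304) (nat_lit 13120598888) (nat_lit 76) (nat_lit 30956913859) (nat_lit 55) (nat_lit 5) (nat_lit 59) (nat_lit 5) (nat_lit 56) (nat_lit 5) (nat_lit 323) (nat_lit 301) (nat_lit 156))))))))
noncomputable def xc213 : XT := (XT.nd (nat_lit 1560) (nat_lit 988) (nat_lit 0) (XT.nd (nat_lit 780) (nat_lit 988) (nat_lit 0) (XT.nd (nat_lit 390) (nat_lit 532) (nat_lit 0) (XT.nd (nat_lit 156) (nat_lit 456) (nat_lit 0) (XT.nd (nat_lit 78) (nat_lit 0) (nat_lit 0) (XT.lf (nat_lit 0) (nat_lit 14094211017) (nat_lit 304) (nat_lit 4510719936) (nat_lit 380) (nat_lit 38396042785) (nat_lit 51) (nat_lit 5) (nat_lit 55) (nat_lit 5) (nat_lit 56) (nat_lit 5) (nat_lit 324) (nat_lit 301) (nat_lit 155)) (XT.lf (nat_lit 0) (nat_lit 26846073125) (nat_lit 380) (nat_lit 15921899039) (nat_lit 76) (nat_lit 16006032445) (nat_lit 51) (nat_lit 5) (nat_lit 56) (nat_lit 5) (nat_lit 52) (nat_lit 5) (nat_lit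 325) (nat_lit 301) (nat_lit 154))) (XT.nd (nat_lit 78) (nat_lit 228) (nat_lit 0) (XT.lf (nat_lit 0) (nat_lit 12744068504) (nat_lit 228) (nat_lit 23026470820) (nat_lit 304) (nat_lit 24851587273) (nat_lit 48) (nat_lit 5) (nat_lit 51) (nat_lit 5) (nat_lit 52) (nat_lit 5) (nat_lit 326) (nat_lit 301) (nat_lit 153)) (XT.nd (nat_lit 78) (nat_lit 228) (nat_lit 0) (XT.lf (nat_lit 0) (nat_lit 43394057528) (nat_lit 228) (nat_lit 2015213012) (nat_lit 304) (nat_lit 17139984843) (nat_lit 48) (nat_lit 5) (nat_lit 51) (nat_lit 5) (nat_lit 52) (nat_lit 5) (nat_lit 327) (nat_lit 301) (nat_lit 152)) (XT.lf (nat_lit 0) (nat_lit 11042217523) (nat_lit 228) (nat_lit 44971570841) (nat_lit 304) (nat_lit 8534762391) (nat_lit 45) (nat_lit 5) (nat_lit 48) (nat_lit 5) (nat_lit 49) (nat_lit 5) (nat_lit 328) (nat_lit 301) (nat_lit 151))))) (XT.nd (nat_lit 156) (nat_lit 228) (nat_lit 0) (XT.nd (nat_lit 78) (nat_lit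 228) (nat_lit 0) (XT.lf (nat_lit 0) (nat_lit 845933277) (nat_lit 304) (nat_lit 23265277930) (nat_lit 76) (nat_lit 42518149294) (nat_lit 44) (nat_lit 5) (nat_lit 48) (nat_lit 5) (nat_lit 45) (nat_lit 5) (nat_lit 329) (nat_lit 301) (nat_lit 150)) (XT.lf (nat_lit 0) (nat_lit 8621924737) (nat_lit 228) (nat_lit 1920081135) (nat_lit 304) (nat_lit 58258553138) (nat_lit 41) (nat_lit 5) (nat_lit 44) (nat_lit 5) (nat_lit 45) (nat_lit 5) (nat_lit 330) (nat_lit 301) (nat_lit 149))) (XT.nd (nat_lit 78) (nat_lit 228) (nat_lit 0) (XT.lf (nat_lit 0) (nat_lit 21455745919) (nat_lit 304) (nat_lit 28491661799) (nat_lit 76) (nat_lit 21096268716) (nat_lit 41) (nat_lit 5) (nat_lit 45) (nat_lit 5) (nat_lit 42) (nat_lit 5) (nat_lit 331) (nat_lit 301) (nat_lit 148)) (XT.nd (nat_lit 78) (nat_lit 0) (nat_lit 0) (XT.lf (nat_lit 0) (nat_lit 4903230937) (nat_lit 228) (nat_lit 28118624093) (nat_lit 304) (nat_lit 40371762672)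 (nat_lit 38) (nat_lit 5) (nat_lit 41) (nat_lit 5) (nat_lit 42) (nat_lit 5) (nat_lit 332) (nat_lit 301) (nat_lit 147)) (XT.lf (nat_lit 0) (nat_lit 40955179252) (nat_lit 228) (nat_lit 4692297786) (nat_lit 304) (nat_lit 30189520599) (nat_lit 38) (nat_lit 5) (nat_lit 41) (nat_lit 5) (nat_lit 42) (nat_lit 5) (nat_lit 333) (nat_lit 301) (nat_lit 146)))))) (XT.nd (nat_lit 390) (nat_lit 532) (nat_lit 0) (XT.nd (nat_lit 156) (nat_lit 304) (nat_lit 0) (XT.nd (nat_lit 78) (nat_lit 0) (nat_lit 0) (XT.lf (nat_lit 0) (nat_lit 97704140) (nat_lit 152) (nat_lit 59117721464) (nat_lit 228) (nat_lit 19171570577) (nat_lit 36) (nat_lit 5) (nat_lit 38) (nat_lit 5) (nat_lit 39) (nat_lit 5) (nat_lit 334) (nat_lit 301) (nat_lit 145)) (XT.lf (nat_lit 0) (nat_lit 37955960637) (nat_lit 152) (nat_lit 36171007366) (nat_lit 228) (nat_lit 6904268621) (nat_lit 36) (nat_lit 5) (nat_lit 38) (nat_lit 5) (nat_lit 39) (nat_lit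 5) (nat_lit 335) (nat_lit 301) (nat_lit 144))) (XT.nd (nat_lit 78) (nat_lit 228) (nat_lit 0) (XT.lf (nat_lit 0) (nat_lit 5783927665) (nat_lit 228) (nat_lit 6195616762) (nat_lit 76) (nat_lit 71823540307) (nat_lit 35) (nat_lit 5) (nat_lit 38) (nat_lit 5) (nat_lit 36) (nat_lit 5) (nat_lit 336) (nat_lit 301) (nat_lit 143)) (XT.nd (nat_lit 78) (nat_lit 0) (nat_lit 0) (XT.lf (nat_lit 0) (nat_lit 19616130746) (nat_lit 304) (nat_lit 53416848513) (nat_lit 76) (nat_lit 13637807019) (nat_lit 32) (nat_lit 5) (nat_lit 36) (nat_lit 5) (nat_lit 33) (nat_lit 5) (nat_lit 337) (nat_lit 301) (nat_lit 142)) (XT.lf (nat_lit 0) (nat_lit 34441863688) (nat_lit 304) (nat_lit 14985352273) (nat_lit 76) (nat_lit 40239562429) (nat_lit 32) (nat_lit 5) (nat_lit 36) (nat_lit 5) (nat_lit 33) (nat_lit 5) (nat_lit 338) (nat_lit 301) (nat_lit 141))))) (XT.nd (nat_lit 156) (nat_lit 380) (nat_lit 0) (XT.nd (nat_lit 78) (nat_lit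 0) (nat_lit 0) (XT.lf (nat_lit 0) (nat_lit 26204829904) (nat_lit 152) (nat_lit 24212125035) (nat_lit 228) (nat_lit 42375212991) (nat_lit 30) (nat_lit 5) (nat_lit 32) (nat_lit 5) (nat_lit 33) (nat_lit 5) (nat_lit 339) (nat_lit 301) (nat_lit 140)) (XT.lf (nat_lit 0) (nat_lit 67483046388) (nat_lit 228) (nat_lit 26127487990) (nat_lit 76) (nat_lit 2448681625) (nat_lit 30) (nat_lit 5) (nat_lit 33) (nat_lit 5) (nat_lit 31) (nat_lit 5) (nat_lit 340) (nat_lit 301) (nat_lit 139))) (XT.nd (nat_lit 78) (nat_lit 228) (nat_lit 0) (XT.lf (nat_lit 0) (nat_lit 16484492979) (nat_lit 152) (nat_lit 69571246290) (nat_lit 228) (nat_lit 13401213642) (nat_lit 28) (nat_lit 5) (nat_lit 30) (nat_lit 5) (nat_lit 31) (nat_lit 5) (nat_lit 341) (nat_lit 301) (nat_lit 138)) (XT.nd (nat_lit 78) (nat_lit 152) (nat_lit 0) (XT.lf (nat_lit 0) (nat_lit 2900184138) (nat_lit 228) (nat_lit 40916642260) (nat_lit 76) (nat_lit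 59183336983) (nat_lit 27) (nat_lit 5) (nat_lit 30) (nat_lit 5) (nat_lit 28) (nat_lit 5) (nat_lit 342) (nat_lit 301) (nat_lit 137)) (XT.lf (nat_lit 0) (nat_lit 3120672424) (nat_lit 152) (nat_lit 16493394180) (nat_lit 228) (nat_lit 87093095099) (nat_lit 25) (nat_lit 5) (nat_lit 27) (nat_lit 5) (nat_lit 28) (nat_lit 5) (nat_lit 343) (nat_lit 301) (nat_lit 136))))))) (XT.nd (nat_lit 780) (nat_lit 456) (nat_lit 0) (XT.nd (nat_lit 390) (nat_lit 304) (nat_lit 0) (XT.nd (nat_lit 156) (nat_lit 228) (nat_lit 0) (XT.nd (nat_lit 78) (nat_lit 0) (nat_lit 0) (XT.lf (nat_lit 0) (nat_lit 38057437549) (nat_lit 228) (nat_lit 59987750625) (nat_lit 76) (nat_lit 12509633096) (nat_lit 25) (nat_lit 5) (nat_lit 28) (nat_lit 5) (nat_lit 26) (nat_lit 5) (nat_lit 344) (nat_lit 301) (nat_lit 135)) (XT.lf (nat_lit 0) (nat_lit 57692479109) (nat_lit 228) (nat_lit 14480884622) (nat_lit 76) (nat_lit 42408025982) (nat_lit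 25) (nat_lit 5) (nat_lit 28) (nat_lit 5) (nat_lit 26) (nat_lit 5) (nat_lit 345) (nat_lit 301) (nat_lit 134))) (XT.nd (nat_lit 78) (nat_lit 76) (nat_lit 0) (XT.lf (nat_lit 0) (nat_lit 34401013797) (nat_lit 152) (nat_lit 44444515714) (nat_lit 228) (nat_lit 39936945178) (nat_lit 23) (nat_lit 5) (nat_lit 25) (nat_lit 5) (nat_lit 26) (nat_lit 5) (nat_lit 346) (nat_lit 301) (nat_lit 133)) (XT.nd (nat_lit 78) (nat_lit 76) (nat_lit 0) (XT.lf (nat_lit 0) (nat_lit 86228414496) (nat_lit 152) (nat_lit 15072238368) (nat_lit 228) (nat_lit 21880740936) (nat_lit 23) (nat_lit 5) (nat_lit 25) (nat_lit 5) (nat_lit 26) (nat_lit 5) (nat_lit 347) (nat_lit 301) (nat_lit 132)) (XT.lf (nat_lit 0) (nat_lit 13016022628) (nat_lit 76) (nat_lit 112311130245) (nat_lit 152) (nat_lit 2450675830) (nat_lit 22) (nat_lit 5) (nat_lit 23) (nat_lit 5) (nat_lit 24) (nat_lit 4) (nat_lit 348) (nat_lit 301) (nat_lit 131))))) (XT.nd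 (nat_lit 156) (nat_lit 228) (nat_lit 0) (XT.nd (nat_lit 78) (nat_lit 0) (nat_lit 0) (XT.lf (nat_lit 0) (nat_lit 18258728731) (nat_lit 152) (nat_lit 66345315338) (nat_lit 76) (nat_lit 47941910035) (nat_lit 21) (nat_lit 5) (nat_lit 23) (nat_lit 5) (nat_lit 22) (nat_lit 5) (nat_lit 349) (nat_lit 301) (nat_lit 130)) (XT.lf (nat_lit 0) (nat_lit 39920497238) (nat_lit 152) (nat_lit 15549423240) (nat_lit 76) (nat_lit 82080594666) (nat_lit 21) (nat_lit 5) (nat_lit 23) (nat_lit 5) (nat_lit 22) (nat_lit 5) (nat_lit 350) (nat_lit 301) (nat_lit 129))) (XT.nd (nat_lit 78) (nat_lit 76) (nat_lit 0) (XT.lf (nat_lit 0) (nat_lit 39034419948) (nat_lit 152) (nat_lit 24239659001) (nat_lit 228) (nat_lit 79500789759) (nat_lit 19) (nat_lit 5) (nat_lit 21) (nat_lit 5) (nat_lit 22) (nat_lit 5) (nat_lit 351) (nat_lit 301) (nat_lit 128)) (XT.nd (nat_lit 78) (nat_lit 76) (nat_lit 0) (XT.lf (nat_lit 0) (nat_lit 88195812586)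 (nat_lit 228) (nat_lit 51499014083) (nat_lit 76) (nat_lit 8545590315) (nat_lit 19) (nat_lit 5) (nat_lit 22) (nat_lit 5) (nat_lit 20) (nat_lit 4) (nat_lit 352) (nat_lit 301) (nat_lit 127)) (XT.lf (nat_lit 0) (nat_lit 3053718303) (nat_lit 76) (nat_lit 111754293009) (nat_lit 152) (nat_lit 39149013084) (nat_lit 18) (nat_lit 5) (nat_lit 19) (nat_lit 5) (nat_lit 20) (nat_lit 4) (nat_lit 353) (nat_lit 301) (nat_lit 126)))))) (XT.nd (nat_lit 390) (nat_lit 228) (nat_lit 0) (XT.nd (nat_lit 156) (nat_lit 152) (nat_lit 0) (XT.nd (nat_lit 78) (nat_lit 76) (nat_lit 0) (XT.lf (nat_lit 0) (nat_lit 62120894565) (nat_lit 76) (nat_lit 81501430372) (nat_lit 152) (nat_lit 16293562607) (nat_lit 18) (nat_lit 5) (nat_lit 19) (nat_lit 5) (nat_lit 20) (nat_lit 4) (nat_lit 354) (nat_lit 301) (nat_lit 125)) (XT.lf (nat_lit 0) (nat_lit 7457427807) (nat_lit 152) (nat_lit 42152645899) (nat_lit 76) (nat_lit 116556637899)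 (nat_lit 17) (nat_lit 5) (nat_lit 19) (nat_lit 5) (nat_lit 18) (nat_lit 5) (nat_lit 355) (nat_lit 301) (nat_lit 124))) (XT.nd (nat_lit 78) (nat_lit 0) (nat_lit 0) (XT.lf (nat_lit 0) (nat_lit 16532826210) (nat_lit 152) (nat_lit 15573089652) (nat_lit 228) (nat_lit 140597930224) (nat_lit 15) (nat_lit 5) (nat_lit 17) (nat_lit 5) (nat_lit 18) (nat_lit 5) (nat_lit 356) (nat_lit 301) (nat_lit 123)) (XT.nd (nat_lit 78) (nat_lit 0) (nat_lit 0) (XT.lf (nat_lit 0) (nat_lit 59026651500) (nat_lit 228) (nat_lit 100243718648) (nat_lit 76) (nat_lit 20245476490) (nat_lit 15) (nat_lit 5) (nat_lit 18) (nat_lit 5) (nat_lit 16) (nat_lit 4) (nat_lit 357) (nat_lit 301) (nat_lit 122)) (XT.lf (nat_lit 0) (nat_lit 87548150065) (nat_lit 228) (nat_lit 41776344233) (nat_lit 76) (nat_lit 57331217092) (nat_lit 15) (nat_lit 5) (nat_lit 18) (nat_lit 5) (nat_lit 16) (nat_lit 4) (nat_lit 358) (nat_lit 301) (nat_lit 121)))))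 (XT.nd (nat_lit 234) (nat_lit 152) (nat_lit 0) (XT.nd (nat_lit 78) (nat_lit 0) (nat_lit 0) (XT.lf (nat_lit 0) (nat_lit 20261960242) (nat_lit 76) (nat_lit 97549566055) (nat_lit 152) (nat_lit 76325253402) (nat_lit 14) (nat_lit 5) (nat_lit 15) (nat_lit 5) (nat_lit 16) (nat_lit 4) (nat_lit 359) (nat_lit 301) (nat_lit 120)) (XT.nd (nat_lit 78) (nat_lit 0) (nat_lit 0) (XT.lf (nat_lit 0) (nat_lit 86851627643) (nat_lit 76) (nat_lit 63443414368) (nat_lit 152) (nat_lit 51661511316) (nat_lit 14) (nat_lit 5) (nat_lit 15) (nat_lit 5) (nat_lit 16) (nat_lit 4) (nat_lit 360) (nat_lit 301) (nat_lit 119)) (XT.lf (nat_lit 0) (nat_lit 156769890188) (nat_lit 76) (nat_lit 27632336717) (nat_lit 152) (nat_lit 25765114476) (nat_lit 14) (nat_lit 5) (nat_lit 15) (nat_lit 5) (nat_lit 16) (nat_lit 4) (nat_lit 361) (nat_lit 301) (nat_lit 118)))) (XT.nd (nat_lit 78) (nat_lit 0) (nat_lit 0) (XT.lf (nat_lit 0) (nat_lit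 1722405729) (nat_lit 152) (nat_lit 207189136467) (nat_lit 76) (nat_lit 9858916361) (nat_lit 12) (nat_lit 5) (nat_lit 14) (nat_lit 5) (nat_lit 13) (nat_lit 4) (nat_lit 362) (nat_lit 301) (nat_lit 117)) (XT.nd (nat_lit 78) (nat_lit 0) (nat_lit 0) (XT.lf (nat_lit 0) (nat_lit 31090064330) (nat_lit 152) (nat_lit 146986703140) (nat_lit 76) (nat_lit 49637263573) (nat_lit 12) (nat_lit 5) (nat_lit 14) (nat_lit 5) (nat_lit 13) (nat_lit 4) (nat_lit 363) (nat_lit 301) (nat_lit 116)) (XT.lf (nat_lit 0) (nat_lit 61925642627) (nat_lit 152) (nat_lit 83774974116) (nat_lit 76) (nat_lit 91404188916) (nat_lit 12) (nat_lit 5) (nat_lit 14) (nat_lit 5) (nat_lit 13) (nat_lit 4) (nat_lit 364) (nat_lit 301) (nat_lit 115))))))))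
noncomputable def xc214 : XT := (XT.nd (nat_lit 36270) (nat_lit 0) (nat_lit 2812) (XT.nd (nat_lit 780) (nat_lit 0) (nat_lit 0) (XT.nd (nat_lit 390) (nat_lit 152) (nat_lit 0) (XT.nd (nat_lit 156) (nat_lit 76) (nat_lit 0) (XT.nd (nat_lit 78) (nat_lit 76) (nat_lit 0) (XT.lf (nat_lit 0) (nat_lit 94302558661) (nat_lit 152) (nat_lit 17403445277) (nat_lit 76) (nat_lit 135259137450) (nat_lit 12) (nat_lit 5) (nat_lit 14) (nat_lit 5) (nat_lit 13) (nat_lit 4) (nat_lit 365) (nat_lit 301) (nat_lit 114)) (XT.lf (nat_lit 0) (nat_lit 54014719166) (nat_lit 76) (nat_lit 75126502304) (nat_lit 152) (nat_lit 128135127695) (nat_lit 11) (nat_lit 5) (nat_lit 12) (nat_lit 5) (nat_lit 13) (nat_lit 4) (nat_lit 366) (nat_lit 301) (nat_lit 113))) (XT.nd (nat_lit 78) (nat_lit 76) (nat_lit 0) (XT.lf (nat_lit 0) (nat_lit 129607263060) (nat_lit 76) (nat_lit 36408878458) (nat_lit 152) (nat_lit 102072259903) (nat_lit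 11) (nat_lit 5) (nat_lit 12) (nat_lit 5) (nat_lit 13) (nat_lit 4) (nat_lit 367) (nat_lit 301) (nat_lit 112)) (XT.nd (nat_lit 78) (nat_lit 76) (nat_lit 0) (XT.lf (nat_lit 0) (nat_lit 204800681182) (nat_lit 152) (nat_lit 70528609697) (nat_lit 0) (nat_lit 4108472010) (nat_lit 11) (nat_lit 5) (nat_lit 13) (nat_lit 4) (nat_lit 11) (nat_lit 4) (nat_lit 368) (nat_lit 301) (nat_lit 111)) (XT.lf (nat_lit 0) (nat_lit 231401950) (nat_lit 76) (nat_lit 245893147566) (nat_lit 76) (nat_lit 45200038099) (nat_lit 10) (nat_lit 4) (nat_lit 11) (nat_lit 5) (nat_lit 11) (nat_lit 4) (nat_lit 369) (nat_lit 301) (nat_lit 110))))) (XT.nd (nat_lit 156) (nat_lit 76) (nat_lit 0) (XT.nd (nat_lit 78) (nat_lit 76) (nat_lit 0) (XT.lf (nat_lit 0) (nat_lit 76977336372) (nat_lit 76) (nat_lit 213731340535) (nat_lit 76) (nat_lit 13037373643) (nat_lit 10) (nat_lit 4) (nat_lit 11) (nat_lit 5) (nat_lit 11) (nat_lit 4) (nat_lit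 370) (nat_lit 301) (nat_lit 109)) (XT.lf (nat_lit 0) (nat_lit 20069466112) (nat_lit 152) (nat_lit 159552377955) (nat_lit 76) (nat_lit 137150575395) (nat_lit 9) (nat_lit 5) (nat_lit 11) (nat_lit 5) (nat_lit 10) (nat_lit 4) (nat_lit 371) (nat_lit 301) (nat_lit 108))) (XT.nd (nat_lit 78) (nat_lit 76) (nat_lit 0) (XT.lf (nat_lit 0) (nat_lit 54393164830) (nat_lit 152) (nat_lit 89189573294) (nat_lit 76) (nat_lit 186856699634) (nat_lit 9) (nat_lit 5) (nat_lit 11) (nat_lit 5) (nat_lit 10) (nat_lit 4) (nat_lit 372) (nat_lit 301) (nat_lit 107)) (XT.nd (nat_lit 78) (nat_lit 76) (nat_lit 0) (XT.lf (nat_lit 0) (nat_lit 90432722977) (nat_lit 152) (nat_lit 15309219769) (nat_lit 76) (nat_lit 239047880708) (nat_lit 9) (nat_lit 5) (nat_lit 11) (nat_lit 5) (nat_lit 10) (nat_lit 4) (nat_lit 373) (nat_lit 301) (nat_lit 106)) (XT.lf (nat_lit 0) (nat_lit 64323336706) (nat_lit 76) (nat_lit 64954879871) (nat_lit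 152) (nat_lit 230529314179) (nat_lit 8) (nat_lit 5) (nat_lit 9) (nat_lit 5) (nat_lit 10) (nat_lit 4) (nat_lit 374) (nat_lit 301) (nat_lit 105)))))) (XT.nd (nat_lit 35100) (nat_lit 0) (nat_lit 5776) (XT.nd (nat_lit 234) (nat_lit 0) (nat_lit 0) (XT.nd (nat_lit 156) (nat_lit 0) (nat_lit 0) (XT.lf (nat_lit 0) (nat_lit 148468468423) (nat_lit 76) (nat_lit 21856481584) (nat_lit 152) (nat_lit 205238225350) (nat_lit 8) (nat_lit 5) (nat_lit 9) (nat_lit 5) (nat_lit 10) (nat_lit 4) (nat_lit 375) (nat_lit 301) (nat_lit 104)) (XT.lf (nat_lit 0) (nat_lit 259784311448) (nat_lit 152) (nat_lit 80995101069) (nat_lit 0) (nat_lit 68642474999) (nat_lit 8) (nat_lit 5) (nat_lit 10) (nat_lit 4) (nat_lit 8) (nat_lit 4) (nat_lit 377) (nat_lit 301) (nat_lit 102))) (XT.nd (nat_lit 34710) (nat_lit 0) (nat_lit 5776) (XT.lf (nat_lit 0) (nat_lit 308079104567) (nat_lit 152) (nat_lit 2606292744) (nat_lit 0) (nat_lit 116936715414)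 (nat_lit 8) (nat_lit 5) (nat_lit 10) (nat_lit 4) (nat_lit 8) (nat_lit 4) (nat_lit 378) (nat_lit 301) (nat_lit 101)) (XT.nd (nat_lit 78) (nat_lit 0) (nat_lit 0) (XT.lf (nat_lit 0) (nat_lit 5691398685) (nat_lit 0) (nat_lit 5691398685) (nat_lit 684) (nat_lit 4519987001) (nat_lit 84) (nat_lit 5) (nat_lit 84) (nat_lit 3) (nat_lit 93) (nat_lit 3) (nat_lit 302) (nat_lit 302) (nat_lit 176)) (XT.lf (nat_lit 0) (nat_lit 23441614767) (nat_lit 684) (nat_lit 6268242030) (nat_lit 760) (nat_lit 2885366989) (nat_lit 84) (nat_lit 5) (nat_lit 93) (nat_lit 3) (nat_lit 94) (nat_lit 5) (nat_lit 303) (nat_lit 302) (nat_lit 175))))) (XT.nd (nat_lit 156) (nat_lit 0) (nat_lit 76) (XT.nd (nat_lit 78) (nat_lit 0) (nat_lit 0) (XT.lf (nat_lit 76) (nat_lit 8683162390) (nat_lit 0) (nat_lit 15786612649) (nat_lit 760) (nat_lit 8938678549) (nat_lit 85) (nat_lit 5) (nat_lit 84) (nat_lit 5) (nat_lit 94) (nat_lit 5) (nat_lit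 304) (nat_lit 302) (nat_lit 174)) (XT.lf (nat_lit 76) (nat_lit 24597627559) (nat_lit 0) (nat_lit 1054188256) (nat_lit 760) (nat_lit 8605413987) (nat_lit 85) (nat_lit 5) (nat_lit 84) (nat_lit 5) (nat_lit 94) (nat_lit 5) (nat_lit 305) (nat_lit 302) (nat_lit 173))) (XT.nd (nat_lit 78) (nat_lit 0) (nat_lit 0) (XT.lf (nat_lit 76) (nat_lit 6128222260) (nat_lit 0) (nat_lit 21081986699) (nat_lit 760) (nat_lit 7922381490) (nat_lit 86) (nat_lit 5) (nat_lit 85) (nat_lit 5) (nat_lit 95) (nat_lit 5) (nat_lit 306) (nat_lit 302) (nat_lit 172)) (XT.nd (nat_lit 78) (nat_lit 0) (nat_lit 76) (XT.lf (nat_lit 76) (nat_lit 23020746451) (nat_lit 0) (nat_lit 6003015291) (nat_lit 760) (nat_lit 7019103139) (nat_lit 86) (nat_lit 5) (nat_lit 85) (nat_lit 5) (nat_lit 95) (nat_lit 5) (nat_lit 307) (nat_lit 302) (nat_lit 171)) (XT.lf (nat_lit 76) (nat_lit 3722641745) (nat_lit 0) (nat_lit 27413767405) (nat_lit 760)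 (nat_lit 5851830416) (nat_lit 87) (nat_lit 5) (nat_lit 86) (nat_lit 5) (nat_lit 96) (nat_lit 5) (nat_lit 308) (nat_lit 302) (nat_lit 170))))))) (XT.nd (nat_lit 780) (nat_lit 1672) (nat_lit 0) (XT.nd (nat_lit 390) (nat_lit 760) (nat_lit 0) (XT.nd (nat_lit 156) (nat_lit 684) (nat_lit 0) (XT.nd (nat_lit 78) (nat_lit 0) (nat_lit 76) (XT.lf (nat_lit 76) (nat_lit 21652833747) (nat_lit 0) (nat_lit 12016153905) (nat_lit 760) (nat_lit 4296187428) (nat_lit 87) (nat_lit 5) (nat_lit 86) (nat_lit 5) (nat_lit 96) (nat_lit 5) (nat_lit 309) (nat_lit 302) (nat_lit 169)) (XT.lf (nat_lit 76) (nat_lit 1468465336) (nat_lit 0) (nat_lit 34944568573) (nat_lit 760) (nat_lit 2573688214) (nat_lit 88) (nat_lit 5) (nat_lit 87) (nat_lit 5) (nat_lit 97) (nat_lit 5) (nat_lit 310) (nat_lit 302) (nat_lit 168))) (XT.nd (nat_lit 78) (nat_lit 760) (nat_lit 0) (XT.lf (nat_lit 76) (nat_lit 20498879041) (nat_lit 0) (nat_lit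 19262670564) (nat_lit 760) (nat_lit 274439933) (nat_lit 88) (nat_lit 5) (nat_lit 87) (nat_lit 5) (nat_lit 97) (nat_lit 5) (nat_lit 311) (nat_lit 302) (nat_lit 167)) (XT.nd (nat_lit 78) (nat_lit 0) (nat_lit 76) (XT.lf (nat_lit 0) (nat_lit 2068569246) (nat_lit 760) (nat_lit 692564161) (nat_lit 836) (nat_lit 38375058084) (nat_lit 77) (nat_lit 5) (nat_lit 87) (nat_lit 5) (nat_lit 88) (nat_lit 5) (nat_lit 312) (nat_lit 302) (nat_lit 166)) (XT.lf (nat_lit 0) (nat_lit 5057319336) (nat_lit 760) (nat_lit 22789766470) (nat_lit 76) (nat_lit 14417207624) (nat_lit 78) (nat_lit 5) (nat_lit 88) (nat_lit 5) (nat_lit 79) (nat_lit 5) (nat_lit 313) (nat_lit 302) (nat_lit 165))))) (XT.nd (nat_lit 156) (nat_lit 380) (nat_lit 0) (XT.nd (nat_lit 78) (nat_lit 456) (nat_lit 0) (XT.lf (nat_lit 0) (nat_lit 8250202723) (nat_lit 760) (nat_lit 2821897759) (nat_lit 76) (nat_lit 32373970439) (nat_lit 78) (nat_lit 5)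 (nat_lit 88) (nat_lit 5) (nat_lit 79) (nat_lit 5) (nat_lit 314) (nat_lit 302) (nat_lit 164)) (XT.lf (nat_lit 0) (nat_lit 11999909432) (nat_lit 532) (nat_lit 26037272586) (nat_lit 76) (nat_lit 6629901306) (nat_lit 72) (nat_lit 5) (nat_lit 79) (nat_lit 5) (nat_lit 73) (nat_lit 5) (nat_lit 315) (nat_lit 302) (nat_lit 163))) (XT.nd (nat_lit 78) (nat_lit 380) (nat_lit 0) (XT.lf (nat_lit 0) (nat_lit 16164896699) (nat_lit 532) (nat_lit 4879200376) (nat_lit 76) (nat_lit 24893664271) (nat_lit 72) (nat_lit 5) (nat_lit 79) (nat_lit 5) (nat_lit 73) (nat_lit 5) (nat_lit 316) (nat_lit 302) (nat_lit 162)) (XT.nd (nat_lit 78) (nat_lit 0) (nat_lit 0) (XT.lf (nat_lit 0) (nat_lit 17907818592) (nat_lit 380) (nat_lit 2907726666) (nat_lit 456) (nat_lit 26442561946) (nat_lit 67) (nat_lit 5) (nat_lit 72) (nat_lit 5) (nat_lit 73) (nat_lit 5) (nat_lit 317) (nat_lit 302) (nat_lit 161)) (XT.lf (nat_lit 0) (nat_lit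 26032524555) (nat_lit 456) (nat_lit 6892224640) (nat_lit 76) (nat_lit 15703035561) (nat_lit 67) (nat_lit 5) (nat_lit 73) (nat_lit 5) (nat_lit 68) (nat_lit 5) (nat_lit 318) (nat_lit 302) (nat_lit 160)))))) (XT.nd (nat_lit 390) (nat_lit 760) (nat_lit 0) (XT.nd (nat_lit 156) (nat_lit 608) (nat_lit 0) (XT.nd (nat_lit 78) (nat_lit 0) (nat_lit 0) (XT.lf (nat_lit 0) (nat_lit 17189144577) (nat_lit 304) (nat_lit 14635239262) (nat_lit 380) (nat_lit 18225864905) (nat_lit 63) (nat_lit 5) (nat_lit 67) (nat_lit 5) (nat_lit 68) (nat_lit 5) (nat_lit 319) (nat_lit 302) (nat_lit 159)) (XT.lf (nat_lit 0) (nat_lit 38093858047) (nat_lit 380) (nat_lit 8899535382) (nat_lit 76) (nat_lit 4541045319) (nat_lit 63) (nat_lit 5) (nat_lit 68) (nat_lit 5) (nat_lit 64) (nat_lit 5) (nat_lit 320) (nat_lit 302) (nat_lit 158))) (XT.nd (nat_lit 78) (nat_lit 304) (nat_lit 0) (XT.lf (nat_lit 0) (nat_lit 16547768574) (nat_lit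 304) (nat_lit 28625463411) (nat_lit 380) (nat_lit 7894788694) (nat_lit 59) (nat_lit 5) (nat_lit 63) (nat_lit 5) (nat_lit 64) (nat_lit 5) (nat_lit 321) (nat_lit 302) (nat_lit 157)) (XT.nd (nat_lit 78) (nat_lit 304) (nat_lit 0) (XT.lf (nat_lit 0) (nat_lit 43574389369) (nat_lit 304) (nat_lit 9181106911) (nat_lit 380) (nat_lit 1915342897) (nat_lit 59) (nat_lit 5) (nat_lit 63) (nat_lit 5) (nat_lit 64) (nat_lit 5) (nat_lit 322) (nat_lit 302) (nat_lit 156)) (XT.lf (nat_lit 0) (nat_lit 4652782094) (nat_lit 304) (nat_lit 40476717636) (nat_lit 76) (nat_lit 11199428469) (nat_lit 55) (nat_lit 5) (nat_lit 59) (nat_lit 5) (nat_lit 56) (nat_lit 5) (nat_lit 323) (nat_lit 302) (nat_lit 155))))) (XT.nd (nat_lit 234) (nat_lit 456) (nat_lit 0) (XT.nd (nat_lit 78) (nat_lit 304) (nat_lit 0) (XT.lf (nat_lit 0) (nat_lit 11824765966) (nat_lit 304) (nat_lit 13714003763) (nat_lit 76) (nat_lit 32512594021) (nat_lit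 55) (nat_lit 5) (nat_lit 59) (nat_lit 5) (nat_lit 56) (nat_lit 5) (nat_lit 324) (nat_lit 302) (nat_lit 154)) (XT.nd (nat_lit 78) (nat_lit 0) (nat_lit 0) (XT.lf (nat_lit 0) (nat_lit 14860536554) (nat_lit 304) (nat_lit 4725214050) (nat_lit 380) (nat_lit 40262653319) (nat_lit 51) (nat_lit 5) (nat_lit 55) (nat_lit 5) (nat_lit 56) (nat_lit 5) (nat_lit 325) (nat_lit 302) (nat_lit 153)) (XT.lf (nat_lit 0) (nat_lit 28236705827) (nat_lit 380) (nat_lit 16656983426) (nat_lit 76) (nat_lit 16816513566) (nat_lit 51) (nat_lit 5) (nat_lit 56) (nat_lit 5) (nat_lit 52) (nat_lit 5) (nat_lit 326) (nat_lit 302) (nat_lit 152)))) (XT.nd (nat_lit 78) (nat_lit 228) (nat_lit 0) (XT.lf (nat_lit 0) (nat_lit 13441298453) (nat_lit 228) (nat_lit 24164732683) (nat_lit 304) (nat_lit 26044772056) (nat_lit 48) (nat_lit 5) (nat_lit 51) (nat_lit 5) (nat_lit 52) (nat_lit 5) (nat_lit 327) (nat_lit 302) (nat_lit 151)) (XT.nd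 (nat_lit 78) (nat_lit 228) (nat_lit 0) (XT.lf (nat_lit 0) (nat_lit 45620928522) (nat_lit 228) (nat_lit 2103533969) (nat_lit 304) (nat_lit 17949941628) (nat_lit 48) (nat_lit 5) (nat_lit 51) (nat_lit 5) (nat_lit 52) (nat_lit 5) (nat_lit 328) (nat_lit 302) (nat_lit 150)) (XT.lf (nat_lit 0) (nat_lit 11652660074) (nat_lit 228) (nat_lit 47205511898) (nat_lit 304) (nat_lit 8915547695) (nat_lit 45) (nat_lit 5) (nat_lit 48) (nat_lit 5) (nat_lit 49) (nat_lit 5) (nat_lit 329) (nat_lit 302) (nat_lit 149))))))))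
noncomputable def xc215 : XT := (XT.nd (nat_lit 1560) (nat_lit 912) (nat_lit 0) (XT.nd (nat_lit 780) (nat_lit 760) (nat_lit 0) (XT.nd (nat_lit 390) (nat_lit 456) (nat_lit 0) (XT.nd (nat_lit 156) (nat_lit 228) (nat_lit 0) (XT.nd (nat_lit 78) (nat_lit 228) (nat_lit 0) (XT.lf (nat_lit 0) (nat_lit 930593787) (nat_lit 304) (nat_lit 24371520066) (nat_lit 76) (nat_lit 44656529436) (nat_lit 44) (nat_lit 5) (nat_lit 48) (nat_lit 5) (nat_lit 45) (nat_lit 5) (nat_lit 330) (nat_lit 302) (nat_lit 148)) (XT.lf (nat_lit 0) (nat_lit 9109123029) (nat_lit 228) (nat_lit 2001205568) (nat_lit 304) (nat_lit 61128133392) (nat_lit 41) (nat_lit 5) (nat_lit 44) (nat_lit 5) (nat_lit 45) (nat_lit 5) (nat_lit 331) (nat_lit 302) (nat_lit 147))) (XT.nd (nat_lit 78) (nat_lit 228) (nat_lit 0) (XT.lf (nat_lit 0) (nat_lit 22568013923) (nat_lit 304) (nat_lit 29861011827) (nat_lit 76) (nat_lit 22164799659) (nat_lit 41)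 (nat_lit 5) (nat_lit 45) (nat_lit 5) (nat_lit 42) (nat_lit 5) (nat_lit 332) (nat_lit 302) (nat_lit 146)) (XT.nd (nat_lit 78) (nat_lit 0) (nat_lit 0) (XT.lf (nat_lit 0) (nat_lit 5202734690) (nat_lit 228) (nat_lit 29508662199) (nat_lit 304) (nat_lit 42349921326) (nat_lit 38) (nat_lit 5) (nat_lit 41) (nat_lit 5) (nat_lit 42) (nat_lit 5) (nat_lit 333) (nat_lit 302) (nat_lit 145)) (XT.lf (nat_lit 0) (nat_lit 43054692697) (nat_lit 228) (nat_lit 4911776392) (nat_lit 304) (nat_lit 31660492363) (nat_lit 38) (nat_lit 5) (nat_lit 41) (nat_lit 5) (nat_lit 42) (nat_lit 5) (nat_lit 334) (nat_lit 302) (nat_lit 144))))) (XT.nd (nat_lit 156) (nat_lit 304) (nat_lit 0) (XT.nd (nat_lit 78) (nat_lit 0) (nat_lit 0) (XT.lf (nat_lit 0) (nat_lit 155132218) (nat_lit 152) (nat_lit 62056984548) (nat_lit 228) (nat_lit 20092380698) (nat_lit 36) (nat_lit 5) (nat_lit 38) (nat_lit 5) (nat_lit 39) (nat_lit 5) (nat_lit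 335) (nat_lit 302) (nat_lit 143)) (XT.lf (nat_lit 0) (nat_lit 39903799498) (nat_lit 152) (nat_lit 37963726316) (nat_lit 228) (nat_lit 7213512140) (nat_lit 36) (nat_lit 5) (nat_lit 38) (nat_lit 5) (nat_lit 39) (nat_lit 5) (nat_lit 336) (nat_lit 302) (nat_lit 142))) (XT.nd (nat_lit 78) (nat_lit 228) (nat_lit 0) (XT.lf (nat_lit 0) (nat_lit 6106284667) (nat_lit 228) (nat_lit 6456597849) (nat_lit 76) (nat_lit 75428653045) (nat_lit 35) (nat_lit 5) (nat_lit 38) (nat_lit 5) (nat_lit 36) (nat_lit 5) (nat_lit 337) (nat_lit 302) (nat_lit 141)) (XT.nd (nat_lit 78) (nat_lit 0) (nat_lit 0) (XT.lf (nat_lit 0) (nat_lit 20629513270) (nat_lit 304) (nat_lit 56038263338) (nat_lit 76) (nat_lit 14334876968) (nat_lit 32) (nat_lit 5) (nat_lit 36) (nat_lit 5) (nat_lit 33) (nat_lit 5) (nat_lit 338) (nat_lit 302) (nat_lit 140)) (XT.lf (nat_lit 0) (nat_lit 36194981621) (nat_lit 304) (nat_lit 15687545981) (nat_lit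 76) (nat_lit 42265997310) (nat_lit 32) (nat_lit 5) (nat_lit 36) (nat_lit 5) (nat_lit 33) (nat_lit 5) (nat_lit 339) (nat_lit 302) (nat_lit 139)))))) (XT.nd (nat_lit 390) (nat_lit 228) (nat_lit 0) (XT.nd (nat_lit 156) (nat_lit 380) (nat_lit 0) (XT.nd (nat_lit 78) (nat_lit 0) (nat_lit 0) (XT.lf (nat_lit 0) (nat_lit 27561386048) (nat_lit 152) (nat_lit 25406687119) (nat_lit 228) (nat_lit 44462150436) (nat_lit 30) (nat_lit 5) (nat_lit 32) (nat_lit 5) (nat_lit 33) (nat_lit 5) (nat_lit 340) (nat_lit 302) (nat_lit 138)) (XT.lf (nat_lit 0) (nat_lit 70886266304) (nat_lit 228) (nat_lit 27388512981) (nat_lit 76) (nat_lit 2585906806) (nat_lit 30) (nat_lit 5) (nat_lit 33) (nat_lit 5) (nat_lit 31) (nat_lit 5) (nat_lit 341) (nat_lit 302) (nat_lit 137))) (XT.nd (nat_lit 78) (nat_lit 228) (nat_lit 0) (XT.lf (nat_lit 0) (nat_lit 17353335594) (nat_lit 152) (nat_lit 73033570676) (nat_lit 228) (nat_lit 14041439730)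 (nat_lit 28) (nat_lit 5) (nat_lit 30) (nat_lit 5) (nat_lit 31) (nat_lit 5) (nat_lit 342) (nat_lit 302) (nat_lit 136)) (XT.nd (nat_lit 78) (nat_lit 152) (nat_lit 0) (XT.lf (nat_lit 0) (nat_lit 3072697821) (nat_lit 228) (nat_lit 42919039400) (nat_lit 76) (nat_lit 62157026856) (nat_lit 27) (nat_lit 5) (nat_lit 30) (nat_lit 5) (nat_lit 28) (nat_lit 5) (nat_lit 343) (nat_lit 302) (nat_lit 135)) (XT.lf (nat_lit 0) (nat_lit 3319440454) (nat_lit 152) (nat_lit 17302191423) (nat_lit 228) (nat_lit 91419514100) (nat_lit 25) (nat_lit 5) (nat_lit 27) (nat_lit 5) (nat_lit 28) (nat_lit 5) (nat_lit 344) (nat_lit 302) (nat_lit 134))))) (XT.nd (nat_lit 156) (nat_lit 228) (nat_lit 0) (XT.nd (nat_lit 78) (nat_lit 0) (nat_lit 0) (XT.lf (nat_lit 0) (nat_lit 39986128243) (nat_lit 228) (nat_lit 62945366342) (nat_lit 76) (nat_lit 13149747558) (nat_lit 25) (nat_lit 5) (nat_lit 28) (nat_lit 5) (nat_lit 26) (nat_lit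 5) (nat_lit 345) (nat_lit 302) (nat_lit 133)) (XT.lf (nat_lit 0) (nat_lit 60601692413) (nat_lit 228) (nat_lit 15165146172) (nat_lit 76) (nat_lit 44542363287) (nat_lit 25) (nat_lit 5) (nat_lit 28) (nat_lit 5) (nat_lit 26) (nat_lit 5) (nat_lit 346) (nat_lit 302) (nat_lit 132))) (XT.nd (nat_lit 78) (nat_lit 76) (nat_lit 0) (XT.lf (nat_lit 0) (nat_lit 36160205512) (nat_lit 152) (nat_lit 46651630003) (nat_lit 228) (nat_lit 41908534901) (nat_lit 23) (nat_lit 5) (nat_lit 25) (nat_lit 5) (nat_lit 26) (nat_lit 5) (nat_lit 347) (nat_lit 302) (nat_lit 131)) (XT.nd (nat_lit 78) (nat_lit 76) (nat_lit 0) (XT.lf (nat_lit 0) (nat_lit 90577112387) (nat_lit 152) (nat_lit 15811458385) (nat_lit 228) (nat_lit 22950723186) (nat_lit 23) (nat_lit 5) (nat_lit 25) (nat_lit 5) (nat_lit 26) (nat_lit 5) (nat_lit 348) (nat_lit 302) (nat_lit 130)) (XT.lf (nat_lit 0) (nat_lit 13704429276) (nat_lit 76) (nat_lit 117911677857)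 (nat_lit 152) (nat_lit 2549459110) (nat_lit 22) (nat_lit 5) (nat_lit 23) (nat_lit 5) (nat_lit 24) (nat_lit 4) (nat_lit 349) (nat_lit 302) (nat_lit 129))))))) (XT.nd (nat_lit 780) (nat_lit 380) (nat_lit 0) (XT.nd (nat_lit 390) (nat_lit 228) (nat_lit 0) (XT.nd (nat_lit 156) (nat_lit 228) (nat_lit 0) (XT.nd (nat_lit 78) (nat_lit 0) (nat_lit 0) (XT.lf (nat_lit 0) (nat_lit 19193560736) (nat_lit 152) (nat_lit 69626020534) (nat_lit 76) (nat_lit 50352553933) (nat_lit 21) (nat_lit 5) (nat_lit 23) (nat_lit 5) (nat_lit 22) (nat_lit 5) (nat_lit 350) (nat_lit 302) (nat_lit 128)) (XT.lf (nat_lit 0) (nat_lit 41937375022) (nat_lit 152) (nat_lit 16292074811) (nat_lit 76) (nat_lit 86197527634) (nat_lit 21) (nat_lit 5) (nat_lit 23) (nat_lit 5) (nat_lit 22) (nat_lit 5) (nat_lit 351) (nat_lit 302) (nat_lit 127))) (XT.nd (nat_lit 78) (nat_lit 76) (nat_lit 0) (XT.lf (nat_lit 0) (nat_lit 41020398931) (nat_lit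 152) (nat_lit 25437778755) (nat_lit 228) (nat_lit 83454394920) (nat_lit 19) (nat_lit 5) (nat_lit 21) (nat_lit 5) (nat_lit 22) (nat_lit 5) (nat_lit 352) (nat_lit 302) (nat_lit 126)) (XT.nd (nat_lit 78) (nat_lit 76) (nat_lit 0) (XT.lf (nat_lit 0) (nat_lit 92625232960) (nat_lit 228) (nat_lit 54040554235) (nat_lit 76) (nat_lit 8985650295) (nat_lit 19) (nat_lit 5) (nat_lit 22) (nat_lit 5) (nat_lit 20) (nat_lit 4) (nat_lit 353) (nat_lit 302) (nat_lit 125)) (XT.lf (nat_lit 0) (nat_lit 3239275891) (nat_lit 76) (nat_lit 117328344202) (nat_lit 152) (nat_lit 41086277155) (nat_lit 18) (nat_lit 5) (nat_lit 19) (nat_lit 5) (nat_lit 20) (nat_lit 4) (nat_lit 354) (nat_lit 302) (nat_lit 124))))) (XT.nd (nat_lit 156) (nat_lit 152) (nat_lit 0) (XT.nd (nat_lit 78) (nat_lit 76) (nat_lit 0) (XT.lf (nat_lit 0) (nat_lit 65258245648) (nat_lit 76) (nat_lit 85563489074) (nat_lit 152) (nat_lit 17089015420) (nat_lit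 18) (nat_lit 5) (nat_lit 19) (nat_lit 5) (nat_lit 20) (nat_lit 4) (nat_lit 355) (nat_lit 302) (nat_lit 123)) (XT.lf (nat_lit 0) (nat_lit 7848022994) (nat_lit 152) (nat_lit 44229861077) (nat_lit 76) (nat_lit 122396261411) (nat_lit 17) (nat_lit 5) (nat_lit 19) (nat_lit 5) (nat_lit 18) (nat_lit 5) (nat_lit 356) (nat_lit 302) (nat_lit 122))) (XT.nd (nat_lit 78) (nat_lit 0) (nat_lit 0) (XT.lf (nat_lit 0) (nat_lit 17389394039) (nat_lit 152) (nat_lit 16339164660) (nat_lit 228) (nat_lit 147609597566) (nat_lit 15) (nat_lit 5) (nat_lit 17) (nat_lit 5) (nat_lit 18) (nat_lit 5) (nat_lit 357) (nat_lit 302) (nat_lit 121)) (XT.nd (nat_lit 78) (nat_lit 0) (nat_lit 0) (XT.lf (nat_lit 0) (nat_lit 61994692117) (nat_lit 228) (nat_lit 105226750063) (nat_lit 76) (nat_lit 21269347317) (nat_lit 15) (nat_lit 5) (nat_lit 18) (nat_lit 5) (nat_lit 16) (nat_lit 4) (nat_lit 358) (nat_lit 302) (nat_lit 120)) (XT.lf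 (nat_lit 0) (nat_lit 91941469989) (nat_lit 228) (nat_lit 43837395237) (nat_lit 76) (nat_lit 60208822711) (nat_lit 15) (nat_lit 5) (nat_lit 18) (nat_lit 5) (nat_lit 16) (nat_lit 4) (nat_lit 359) (nat_lit 302) (nat_lit 119)))))) (XT.nd (nat_lit 390) (nat_lit 152) (nat_lit 0) (XT.nd (nat_lit 156) (nat_lit 152) (nat_lit 0) (XT.nd (nat_lit 78) (nat_lit 0) (nat_lit 0) (XT.lf (nat_lit 0) (nat_lit 21302376620) (nat_lit 76) (nat_lit 102415307196) (nat_lit 152) (nat_lit 80125143046) (nat_lit 14) (nat_lit 5) (nat_lit 15) (nat_lit 5) (nat_lit 16) (nat_lit 4) (nat_lit 360) (nat_lit 302) (nat_lit 118)) (XT.lf (nat_lit 0) (nat_lit 91220226516) (nat_lit 76) (nat_lit 66604406837) (nat_lit 152) (nat_lit 54228993524) (nat_lit 14) (nat_lit 5) (nat_lit 15) (nat_lit 5) (nat_lit 16) (nat_lit 4) (nat_lit 361) (nat_lit 302) (nat_lit 117))) (XT.nd (nat_lit 78) (nat_lit 152) (nat_lit 0) (XT.lf (nat_lit 0) (nat_lit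 164633163260) (nat_lit 76) (nat_lit 29003307601) (nat_lit 152) (nat_lit 27038519383) (nat_lit 14) (nat_lit 5) (nat_lit 15) (nat_lit 5) (nat_lit 16) (nat_lit 4) (nat_lit 362) (nat_lit 302) (nat_lit 116)) (XT.nd (nat_lit 78) (nat_lit 0) (nat_lit 0) (XT.lf (nat_lit 0) (nat_lit 1822773340) (nat_lit 152) (nat_lit 217523189712) (nat_lit 76) (nat_lit 10362295567) (nat_lit 12) (nat_lit 5) (nat_lit 14) (nat_lit 5) (nat_lit 13) (nat_lit 4) (nat_lit 363) (nat_lit 302) (nat_lit 115)) (XT.lf (nat_lit 0) (nat_lit 32658136427) (nat_lit 152) (nat_lit 154311844413) (nat_lit 76) (nat_lit 52129063312) (nat_lit 12) (nat_lit 5) (nat_lit 14) (nat_lit 5) (nat_lit 13) (nat_lit 4) (nat_lit 364) (nat_lit 302) (nat_lit 114))))) (XT.nd (nat_lit 234) (nat_lit 76) (nat_lit 0) (XT.nd (nat_lit 78) (nat_lit 76) (nat_lit 0) (XT.lf (nat_lit 0) (nat_lit 65034847501) (nat_lit 152) (nat_lit 87940681027) (nat_lit 76) (nat_lit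 95983861753) (nat_lit 12) (nat_lit 5) (nat_lit 14) (nat_lit 5) (nat_lit 13) (nat_lit 4) (nat_lit 365) (nat_lit 302) (nat_lit 113)) (XT.nd (nat_lit 78) (nat_lit 76) (nat_lit 0) (XT.lf (nat_lit 0) (nat_lit 99029993968) (nat_lit 152) (nat_lit 18251672975) (nat_lit 76) (nat_lit 142031107076) (nat_lit 12) (nat_lit 5) (nat_lit 14) (nat_lit 5) (nat_lit 13) (nat_lit 4) (nat_lit 366) (nat_lit 302) (nat_lit 112)) (XT.lf (nat_lit 0) (nat_lit 56737045746) (nat_lit 76) (nat_lit 78873295196) (nat_lit 152) (nat_lit 134529214123) (nat_lit 11) (nat_lit 5) (nat_lit 12) (nat_lit 5) (nat_lit 13) (nat_lit 4) (nat_lit 367) (nat_lit 302) (nat_lit 111)))) (XT.nd (nat_lit 78) (nat_lit 76) (nat_lit 0) (XT.lf (nat_lit 0) (nat_lit 136108188710) (nat_lit 76) (nat_lit 38220244074) (nat_lit 152) (nat_lit 107163806272) (nat_lit 11) (nat_lit 5) (nat_lit 12) (nat_lit 5) (nat_lit 13) (nat_lit 4) (nat_lit 368) (nat_lit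 302) (nat_lit 110)) (XT.nd (nat_lit 78) (nat_lit 76) (nat_lit 0) (XT.lf (nat_lit 0) (nat_lit 215051787553) (nat_lit 152) (nat_lit 74035037139) (nat_lit 0) (nat_lit 4322264891) (nat_lit 11) (nat_lit 5) (nat_lit 13) (nat_lit 4) (nat_lit 11) (nat_lit 4) (nat_lit 369) (nat_lit 302) (nat_lit 109)) (XT.lf (nat_lit 0) (nat_lit 262652461) (nat_lit 76) (nat_lit 258178976856) (nat_lit 76) (nat_lit 47448637600) (nat_lit 10) (nat_lit 4) (nat_lit 11) (nat_lit 5) (nat_lit 11) (nat_lit 4) (nat_lit 370) (nat_lit 302) (nat_lit 108))))))))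
noncomputable def xc216 : XT := (XT.nd (nat_lit 36426) (nat_lit 0) (nat_lit 2128) (XT.nd (nat_lit 35646) (nat_lit 0) (nat_lit 4864) (XT.nd (nat_lit 468) (nat_lit 0) (nat_lit 0) (XT.nd (nat_lit 156) (nat_lit 76) (nat_lit 0) (XT.nd (nat_lit 78) (nat_lit 76) (nat_lit 0) (XT.lf (nat_lit 0) (nat_lit 80844946441) (nat_lit 76) (nat_lit 224409499859) (nat_lit 76) (nat_lit 13678382893) (nat_lit 10) (nat_lit 4) (nat_lit 11) (nat_lit 5) (nat_lit 11) (nat_lit 4) (nat_lit 371) (nat_lit 302) (nat_lit 107)) (XT.lf (nat_lit 0) (nat_lit 21082950715) (nat_lit 152) (nat_lit 167511808673) (nat_lit 76) (nat_lit 144015774036) (nat_lit 9) (nat_lit 5) (nat_lit 11) (nat_lit 5) (nat_lit 10) (nat_lit 4) (nat_lit 372) (nat_lit 302) (nat_lit 106))) (XT.nd (nat_lit 78) (nat_lit 76) (nat_lit 0) (XT.lf (nat_lit 0) (nat_lit 57122357640) (nat_lit 152) (nat_lit 93631729883) (nat_lit 76) (nat_lit 196206839255) (nat_lit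 9) (nat_lit 5) (nat_lit 11) (nat_lit 5) (nat_lit 10) (nat_lit 4) (nat_lit 373) (nat_lit 302) (nat_lit 105)) (XT.nd (nat_lit 78) (nat_lit 76) (nat_lit 0) (XT.lf (nat_lit 0) (nat_lit 94963439667) (nat_lit 152) (nat_lit 16058183542) (nat_lit 76) (nat_lit 251007231543) (nat_lit 9) (nat_lit 5) (nat_lit 11) (nat_lit 5) (nat_lit 10) (nat_lit 4) (nat_lit 374) (nat_lit 302) (nat_lit 104)) (XT.lf (nat_lit 0) (nat_lit 67555734672) (nat_lit 76) (nat_lit 68195294282) (nat_lit 152) (nat_lit 242046427694) (nat_lit 8) (nat_lit 5) (nat_lit 9) (nat_lit 5) (nat_lit 10) (nat_lit 4) (nat_lit 375) (nat_lit 302) (nat_lit 103))))) (XT.nd (nat_lit 34944) (nat_lit 0) (nat_lit 5776) (XT.nd (nat_lit 34866) (nat_lit 0) (nat_lit 5776) (XT.lf (nat_lit 0) (nat_lit 224486645774) (nat_lit 152) (nat_lit 163419125969) (nat_lit 0) (nat_lit 23786584460) (nat_lit 8) (nat_lit 5) (nat_lit 10) (nat_lit 4) (nat_lit 8) (nat_lit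 4) (nat_lit 377) (nat_lit 302) (nat_lit 101)) (XT.lf (nat_lit 0) (nat_lit 6005668555) (nat_lit 0) (nat_lit 6005668555) (nat_lit 684) (nat_lit 4683478505) (nat_lit 84) (nat_lit 5) (nat_lit 84) (nat_lit 3) (nat_lit 93) (nat_lit 3) (nat_lit 303) (nat_lit 303) (nat_lit 174))) (XT.nd (nat_lit 78) (nat_lit 0) (nat_lit 0) (XT.lf (nat_lit 0) (nat_lit 24725954879) (nat_lit 684) (nat_lit 6518279637) (nat_lit 760) (nat_lit 2974874668) (nat_lit 84) (nat_lit 5) (nat_lit 93) (nat_lit 3) (nat_lit 94) (nat_lit 5) (nat_lit 304) (nat_lit 303) (nat_lit 173)) (XT.nd (nat_lit 78) (nat_lit 0) (nat_lit 0) (XT.lf (nat_lit 76) (nat_lit 9179672834) (nat_lit 0) (nat_lit 16621478140) (nat_lit 760) (nat_lit 9272080627) (nat_lit 85) (nat_lit 5) (nat_lit 84) (nat_lit 5) (nat_lit 94) (nat_lit 5) (nat_lit 305) (nat_lit 303) (nat_lit 172)) (XT.lf (nat_lit 76) (nat_lit 25886892104) (nat_lit 0) (nat_lit 1150264201) (nat_lit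 760) (nat_lit 8927559116) (nat_lit 85) (nat_lit 5) (nat_lit 84) (nat_lit 5) (nat_lit 94) (nat_lit 5) (nat_lit 306) (nat_lit 303) (nat_lit 171)))))) (XT.nd (nat_lit 390) (nat_lit 988) (nat_lit 0) (XT.nd (nat_lit 156) (nat_lit 0) (nat_lit 76) (XT.nd (nat_lit 78) (nat_lit 0) (nat_lit 0) (XT.lf (nat_lit 76) (nat_lit 6499014064) (nat_lit 0) (nat_lit 22169922531) (nat_lit 760) (nat_lit 8215145483) (nat_lit 86) (nat_lit 5) (nat_lit 85) (nat_lit 5) (nat_lit 95) (nat_lit 5) (nat_lit 307) (nat_lit 303) (nat_lit 170)) (XT.lf (nat_lit 76) (nat_lit 24233098717) (nat_lit 0) (nat_lit 6335391291) (nat_lit 760) (nat_lit 7271624884) (nat_lit 86) (nat_lit 5) (nat_lit 85) (nat_lit 5) (nat_lit 95) (nat_lit 5) (nat_lit 308) (nat_lit 303) (nat_lit 169))) (XT.nd (nat_lit 78) (nat_lit 0) (nat_lit 0) (XT.lf (nat_lit 76) (nat_lit 3974409146) (nat_lit 0) (nat_lit 28808451929) (nat_lit 760) (nat_lit 6050102968)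 (nat_lit 87) (nat_lit 5) (nat_lit 86) (nat_lit 5) (nat_lit 96) (nat_lit 5) (nat_lit 309) (nat_lit 303) (nat_lit 168)) (XT.nd (nat_lit 78) (nat_lit 0) (nat_lit 76) (XT.lf (nat_lit 76) (nat_lit 22797985257) (nat_lit 0) (nat_lit 12639815080) (nat_lit 760) (nat_lit 4421169210) (nat_lit 87) (nat_lit 5) (nat_lit 86) (nat_lit 5) (nat_lit 96) (nat_lit 5) (nat_lit 310) (nat_lit 303) (nat_lit 167)) (XT.lf (nat_lit 76) (nat_lit 1608133537) (nat_lit 0) (nat_lit 36707544904) (nat_lit 760) (nat_lit 2616093364) (nat_lit 88) (nat_lit 5) (nat_lit 87) (nat_lit 5) (nat_lit 97) (nat_lit 5) (nat_lit 311) (nat_lit 303) (nat_lit 166))))) (XT.nd (nat_lit 156) (nat_lit 380) (nat_lit 0) (XT.nd (nat_lit 78) (nat_lit 760) (nat_lit 0) (XT.lf (nat_lit 76) (nat_lit 21586913407) (nat_lit 0) (nat_lit 20240802094) (nat_lit 760) (nat_lit 205991205) (nat_lit 88) (nat_lit 5) (nat_lit 87) (nat_lit 5) (nat_lit 97) (nat_lit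 5) (nat_lit 312) (nat_lit 303) (nat_lit 165)) (XT.lf (nat_lit 0) (nat_lit 2247750802) (nat_lit 760) (nat_lit 664440172) (nat_lit 836) (nat_lit 40276861088) (nat_lit 77) (nat_lit 5) (nat_lit 87) (nat_lit 5) (nat_lit 88) (nat_lit 5) (nat_lit 313) (nat_lit 303) (nat_lit 164))) (XT.nd (nat_lit 78) (nat_lit 456) (nat_lit 0) (XT.lf (nat_lit 0) (nat_lit 5383117529) (nat_lit 760) (nat_lit 23863528062) (nat_lit 76) (nat_lit 15127062232) (nat_lit 78) (nat_lit 5) (nat_lit 88) (nat_lit 5) (nat_lit 79) (nat_lit 5) (nat_lit 314) (nat_lit 303) (nat_lit 163)) (XT.nd (nat_lit 78) (nat_lit 456) (nat_lit 0) (XT.lf (nat_lit 0) (nat_lit 8732172122) (nat_lit 760) (nat_lit 2900395760) (nat_lit 76) (nat_lit 33982187272) (nat_lit 78) (nat_lit 5) (nat_lit 88) (nat_lit 5) (nat_lit 79) (nat_lit 5) (nat_lit 315) (nat_lit 303) (nat_lit 162)) (XT.lf (nat_lit 0) (nat_lit 12666931857) (nat_lit 532) (nat_lit 27273967638)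 (nat_lit 76) (nat_lit 6956047268) (nat_lit 72) (nat_lit 5) (nat_lit 79) (nat_lit 5) (nat_lit 73) (nat_lit 5) (nat_lit 316) (nat_lit 303) (nat_lit 161))))))) (XT.nd (nat_lit 780) (nat_lit 1140) (nat_lit 0) (XT.nd (nat_lit 390) (nat_lit 912) (nat_lit 0) (XT.nd (nat_lit 156) (nat_lit 304) (nat_lit 0) (XT.nd (nat_lit 78) (nat_lit 380) (nat_lit 0) (XT.lf (nat_lit 0) (nat_lit 17036976728) (nat_lit 532) (nat_lit 5061095083) (nat_lit 76) (nat_lit 26133253100) (nat_lit 72) (nat_lit 5) (nat_lit 79) (nat_lit 5) (nat_lit 73) (nat_lit 5) (nat_lit 317) (nat_lit 303) (nat_lit 160)) (XT.lf (nat_lit 0) (nat_lit 18864273780) (nat_lit 380) (nat_lit 3053797548) (nat_lit 456) (nat_lit 27699727374) (nat_lit 67) (nat_lit 5) (nat_lit 72) (nat_lit 5) (nat_lit 73) (nat_lit 5) (nat_lit 318) (nat_lit 303) (nat_lit 159))) (XT.nd (nat_lit 78) (nat_lit 304) (nat_lit 0) (XT.lf (nat_lit 0) (nat_lit 27392948991) (nat_lit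 456) (nat_lit 7175608436) (nat_lit 76) (nat_lit 16487556255) (nat_lit 67) (nat_lit 5) (nat_lit 73) (nat_lit 5) (nat_lit 68) (nat_lit 5) (nat_lit 319) (nat_lit 303) (nat_lit 158)) (XT.nd (nat_lit 78) (nat_lit 0) (nat_lit 0) (XT.lf (nat_lit 0) (nat_lit 18108841702) (nat_lit 304) (nat_lit 15363700136) (nat_lit 380) (nat_lit 19077257734) (nat_lit 63) (nat_lit 5) (nat_lit 67) (nat_lit 5) (nat_lit 68) (nat_lit 5) (nat_lit 320) (nat_lit 303) (nat_lit 157)) (XT.lf (nat_lit 0) (nat_lit 40052827470) (nat_lit 380) (nat_lit 9284369326) (nat_lit 76) (nat_lit 4771140856) (nat_lit 63) (nat_lit 5) (nat_lit 68) (nat_lit 5) (nat_lit 64) (nat_lit 5) (nat_lit 321) (nat_lit 303) (nat_lit 156))))) (XT.nd (nat_lit 156) (nat_lit 608) (nat_lit 0) (XT.nd (nat_lit 78) (nat_lit 0) (nat_lit 0) (XT.lf (nat_lit 0) (nat_lit 17434329783) (nat_lit 304) (nat_lit 30050179580) (nat_lit 380) (nat_lit 8234177556) (nat_lit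 59) (nat_lit 5) (nat_lit 63) (nat_lit 5) (nat_lit 64) (nat_lit 5) (nat_lit 322) (nat_lit 303) (nat_lit 155)) (XT.lf (nat_lit 0) (nat_lit 45809463865) (nat_lit 304) (nat_lit 9633917492) (nat_lit 380) (nat_lit 1958395210) (nat_lit 59) (nat_lit 5) (nat_lit 63) (nat_lit 5) (nat_lit 64) (nat_lit 5) (nat_lit 323) (nat_lit 303) (nat_lit 154))) (XT.nd (nat_lit 78) (nat_lit 304) (nat_lit 0) (XT.lf (nat_lit 0) (nat_lit 4935032320) (nat_lit 304) (nat_lit 42440910595) (nat_lit 76) (nat_lit 11766861292) (nat_lit 55) (nat_lit 5) (nat_lit 59) (nat_lit 5) (nat_lit 56) (nat_lit 5) (nat_lit 324) (nat_lit 303) (nat_lit 153)) (XT.nd (nat_lit 78) (nat_lit 304) (nat_lit 0) (XT.lf (nat_lit 0) (nat_lit 12463252952) (nat_lit 304) (nat_lit 14342901168) (nat_lit 76) (nat_lit 34145329817) (nat_lit 55) (nat_lit 5) (nat_lit 59) (nat_lit 5) (nat_lit 56) (nat_lit 5) (nat_lit 325) (nat_lit 303) (nat_lit 152)) (XT.lf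 (nat_lit 0) (nat_lit 15659449991) (nat_lit 304) (nat_lit 4951459439) (nat_lit 380) (nat_lit 42227539632) (nat_lit 51) (nat_lit 5) (nat_lit 55) (nat_lit 5) (nat_lit 56) (nat_lit 5) (nat_lit 326) (nat_lit 303) (nat_lit 151)))))) (XT.nd (nat_lit 390) (nat_lit 608) (nat_lit 0) (XT.nd (nat_lit 156) (nat_lit 304) (nat_lit 0) (XT.nd (nat_lit 78) (nat_lit 228) (nat_lit 0) (XT.lf (nat_lit 0) (nat_lit 29692376988) (nat_lit 380) (nat_lit 17434494217) (nat_lit 76) (nat_lit 17666572349) (nat_lit 51) (nat_lit 5) (nat_lit 56) (nat_lit 5) (nat_lit 52) (nat_lit 5) (nat_lit 327) (nat_lit 303) (nat_lit 150)) (XT.lf (nat_lit 0) (nat_lit 14167809202) (nat_lit 228) (nat_lit 25361121990) (nat_lit 304) (nat_lit 27302208319) (nat_lit 48) (nat_lit 5) (nat_lit 51) (nat_lit 5) (nat_lit 52) (nat_lit 5) (nat_lit 328) (nat_lit 303) (nat_lit 149))) (XT.nd (nat_lit 78) (nat_lit 304) (nat_lit 0) (XT.lf (nat_lit 0) (nat_lit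 47953828115) (nat_lit 228) (nat_lit 2197427499) (nat_lit 304) (nat_lit 18804769814) (nat_lit 48) (nat_lit 5) (nat_lit 51) (nat_lit 5) (nat_lit 52) (nat_lit 5) (nat_lit 329) (nat_lit 303) (nat_lit 148)) (XT.nd (nat_lit 78) (nat_lit 76) (nat_lit 0) (XT.lf (nat_lit 0) (nat_lit 12288201627) (nat_lit 228) (nat_lit 49552510862) (nat_lit 304) (nat_lit 9319644522) (nat_lit 45) (nat_lit 5) (nat_lit 48) (nat_lit 5) (nat_lit 49) (nat_lit 5) (nat_lit 330) (nat_lit 303) (nat_lit 147)) (XT.lf (nat_lit 0) (nat_lit 1015548734) (nat_lit 304) (nat_lit 25538375652) (nat_lit 76) (nat_lit 46900668994) (nat_lit 44) (nat_lit 5) (nat_lit 48) (nat_lit 5) (nat_lit 45) (nat_lit 5) (nat_lit 331) (nat_lit 303) (nat_lit 146))))) (XT.nd (nat_lit 156) (nat_lit 380) (nat_lit 0) (XT.nd (nat_lit 78) (nat_lit 0) (nat_lit 0) (XT.lf (nat_lit 0) (nat_lit 9615465398) (nat_lit 228) (nat_lit 2087769588) (nat_lit 304) (nat_lit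 64145222688) (nat_lit 41) (nat_lit 5) (nat_lit 44) (nat_lit 5) (nat_lit 45) (nat_lit 5) (nat_lit 332) (nat_lit 303) (nat_lit 145)) (XT.lf (nat_lit 0) (nat_lit 23732224785) (nat_lit 304) (nat_lit 31303964403) (nat_lit 76) (nat_lit 23285481826) (nat_lit 41) (nat_lit 5) (nat_lit 45) (nat_lit 5) (nat_lit 42) (nat_lit 5) (nat_lit 333) (nat_lit 303) (nat_lit 144))) (XT.nd (nat_lit 78) (nat_lit 152) (nat_lit 0) (XT.lf (nat_lit 0) (nat_lit 5512161408) (nat_lit 228) (nat_lit 30969679801) (nat_lit 304) (nat_lit 44430746663) (nat_lit 38) (nat_lit 5) (nat_lit 41) (nat_lit 5) (nat_lit 42) (nat_lit 5) (nat_lit 334) (nat_lit 303) (nat_lit 143)) (XT.nd (nat_lit 78) (nat_lit 152) (nat_lit 0) (XT.lf (nat_lit 0) (nat_lit 45254370173) (nat_lit 228) (nat_lit 5143636156) (nat_lit 304) (nat_lit 33208592477) (nat_lit 38) (nat_lit 5) (nat_lit 41) (nat_lit 5) (nat_lit 42) (nat_lit 5) (nat_lit 335) (nat_lit 303)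 (nat_lit 142)) (XT.lf (nat_lit 0) (nat_lit 210546762) (nat_lit 152) (nat_lit 65144756235) (nat_lit 228) (nat_lit 21062742674) (nat_lit 36) (nat_lit 5) (nat_lit 38) (nat_lit 5) (nat_lit 39) (nat_lit 5) (nat_lit 336) (nat_lit 303) (nat_lit 141))))))))
noncomputable def xc217 : XT := (XT.nd (nat_lit 1560) (nat_lit 760) (nat_lit 0) (XT.nd (nat_lit 780) (nat_lit 532) (nat_lit 0) (XT.nd (nat_lit 390) (nat_lit 380) (nat_lit 0) (XT.nd (nat_lit 156) (nat_lit 380) (nat_lit 0) (XT.nd (nat_lit 78) (nat_lit 76) (nat_lit 0) (XT.lf (nat_lit 0) (nat_lit 41944377981) (nat_lit 152) (nat_lit 39847553070) (nat_lit 228) (nat_lit 7541561976) (nat_lit 36) (nat_lit 5) (nat_lit 38) (nat_lit 5) (nat_lit 39) (nat_lit 5) (nat_lit 337) (nat_lit 303) (nat_lit 140)) (XT.lf (nat_lit 0) (nat_lit 6441676560) (nat_lit 228) (nat_lit 6735164929) (nat_lit 76) (nat_lit 79212725809) (nat_lit 35) (nat_lit 5) (nat_lit 38) (nat_lit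 5) (nat_lit 36) (nat_lit 5) (nat_lit 338) (nat_lit 303) (nat_lit 139))) (XT.nd (nat_lit 78) (nat_lit 152) (nat_lit 0) (XT.lf (nat_lit 0) (nat_lit 21690536314) (nat_lit 304) (nat_lit 58795344213) (nat_lit 76) (nat_lit 15065389159) (nat_lit 32) (nat_lit 5) (nat_lit 36) (nat_lit 5) (nat_lit 33) (nat_lit 5) (nat_lit 339) (nat_lit 303) (nat_lit 138)) (XT.nd (nat_lit 78) (nat_lit 152) (nat_lit 0) (XT.lf (nat_lit 0) (nat_lit 38032871064) (nat_lit 304) (nat_lit 16429225860) (nat_lit 76) (nat_lit 44392409883) (nat_lit 32) (nat_lit 5) (nat_lit 36) (nat_lit 5) (nat_lit 33) (nat_lit 5) (nat_lit 340) (nat_lit 303) (nat_lit 137)) (XT.lf (nat_lit 0) (nat_lit 28981464103) (nat_lit 152) (nat_lit 26662468942) (nat_lit 228) (nat_lit 46656393373) (nat_lit 30) (nat_lit 5) (nat_lit 32) (nat_lit 5) (nat_lit 33) (nat_lit 5) (nat_lit 341) (nat_lit 303) (nat_lit 136))))) (XT.nd (nat_lit 156) (nat_lit 228) (nat_lit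 0) (XT.nd (nat_lit 78) (nat_lit 152) (nat_lit 0) (XT.lf (nat_lit 0) (nat_lit 74456944785) (nat_lit 228) (nat_lit 28716805381) (nat_lit 76) (nat_lit 2728618109) (nat_lit 30) (nat_lit 5) (nat_lit 33) (nat_lit 5) (nat_lit 31) (nat_lit 5) (nat_lit 342) (nat_lit 303) (nat_lit 135)) (XT.lf (nat_lit 0) (nat_lit 18261472184) (nat_lit 152) (nat_lit 76670520929) (nat_lit 228) (nat_lit 14716450861) (nat_lit 28) (nat_lit 5) (nat_lit 30) (nat_lit 5) (nat_lit 31) (nat_lit 5) (nat_lit 343) (nat_lit 303) (nat_lit 134))) (XT.nd (nat_lit 78) (nat_lit 152) (nat_lit 0) (XT.lf (nat_lit 0) (nat_lit 3251280083) (nat_lit 228) (nat_lit 45025594570) (nat_lit 76) (nat_lit 65278051009) (nat_lit 27) (nat_lit 5) (nat_lit 30) (nat_lit 5) (nat_lit 28) (nat_lit 5) (nat_lit 344) (nat_lit 303) (nat_lit 133)) (XT.nd (nat_lit 78) (nat_lit 0) (nat_lit 0) (XT.lf (nat_lit 0) (nat_lit 3524173845) (nat_lit 152) (nat_lit 18152904201)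 (nat_lit 228) (nat_lit 95964879144) (nat_lit 25) (nat_lit 5) (nat_lit 27) (nat_lit 5) (nat_lit 28) (nat_lit 5) (nat_lit 345) (nat_lit 303) (nat_lit 132)) (XT.lf (nat_lit 0) (nat_lit 42008853082) (nat_lit 228) (nat_lit 66054746392) (nat_lit 76) (nat_lit 13820507323) (nat_lit 25) (nat_lit 5) (nat_lit 28) (nat_lit 5) (nat_lit 26) (nat_lit 5) (nat_lit 346) (nat_lit 303) (nat_lit 131)))))) (XT.nd (nat_lit 390) (nat_lit 228) (nat_lit 0) (XT.nd (nat_lit 156) (nat_lit 152) (nat_lit 0) (XT.nd (nat_lit 78) (nat_lit 152) (nat_lit 0) (XT.lf (nat_lit 0) (nat_lit 63654080298) (nat_lit 228) (nat_lit 15887319417) (nat_lit 76) (nat_lit 46782121820) (nat_lit 25) (nat_lit 5) (nat_lit 28) (nat_lit 5) (nat_lit 26) (nat_lit 5) (nat_lit 347) (nat_lit 303) (nat_lit 130)) (XT.lf (nat_lit 0) (nat_lit 38003717850) (nat_lit 152) (nat_lit 48970504931) (nat_lit 228) (nat_lit 43981052316) (nat_lit 23) (nat_lit 5)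 (nat_lit 25) (nat_lit 5) (nat_lit 26) (nat_lit 5) (nat_lit 348) (nat_lit 303) (nat_lit 129))) (XT.nd (nat_lit 78) (nat_lit 152) (nat_lit 0) (XT.lf (nat_lit 0) (nat_lit 95139779495) (nat_lit 152) (nat_lit 16588977426) (nat_lit 228) (nat_lit 24076440936) (nat_lit 23) (nat_lit 5) (nat_lit 25) (nat_lit 5) (nat_lit 26) (nat_lit 5) (nat_lit 349) (nat_lit 303) (nat_lit 128)) (XT.nd (nat_lit 78) (nat_lit 76) (nat_lit 0) (XT.lf (nat_lit 0) (nat_lit 14423760051) (nat_lit 76) (nat_lit 123793648235) (nat_lit 152) (nat_lit 2655389651) (nat_lit 22) (nat_lit 5) (nat_lit 23) (nat_lit 5) (nat_lit 24) (nat_lit 4) (nat_lit 350) (nat_lit 303) (nat_lit 127)) (XT.lf (nat_lit 0) (nat_lit 20173098699) (nat_lit 152) (nat_lit 73074160045) (nat_lit 76) (nat_lit 52882470424) (nat_lit 21) (nat_lit 5) (nat_lit 23) (nat_lit 5) (nat_lit 22) (nat_lit 5) (nat_lit 351) (nat_lit 303) (nat_lit 126))))) (XT.nd (nat_lit 156)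 (nat_lit 76) (nat_lit 0) (XT.nd (nat_lit 78) (nat_lit 152) (nat_lit 0) (XT.lf (nat_lit 0) (nat_lit 44053157989) (nat_lit 152) (nat_lit 17075096155) (nat_lit 76) (nat_lit 90519107630) (nat_lit 21) (nat_lit 5) (nat_lit 23) (nat_lit 5) (nat_lit 22) (nat_lit 5) (nat_lit 352) (nat_lit 303) (nat_lit 125)) (XT.lf (nat_lit 0) (nat_lit 43102491880) (nat_lit 152) (nat_lit 26697093365) (nat_lit 228) (nat_lit 87607673099) (nat_lit 19) (nat_lit 5) (nat_lit 21) (nat_lit 5) (nat_lit 22) (nat_lit 5) (nat_lit 353) (nat_lit 303) (nat_lit 124))) (XT.nd (nat_lit 78) (nat_lit 76) (nat_lit 0) (XT.lf (nat_lit 0) (nat_lit 97274299366) (nat_lit 228) (nat_lit 56712277591) (nat_lit 76) (nat_lit 9446525067) (nat_lit 19) (nat_lit 5) (nat_lit 22) (nat_lit 5) (nat_lit 20) (nat_lit 4) (nat_lit 354) (nat_lit 303) (nat_lit 123)) (XT.nd (nat_lit 78) (nat_lit 0) (nat_lit 0) (XT.lf (nat_lit 0) (nat_lit 3431055261) (nat_lit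 76) (nat_lit 123182368253) (nat_lit 152) (nat_lit 43122281187) (nat_lit 18) (nat_lit 5) (nat_lit 19) (nat_lit 5) (nat_lit 20) (nat_lit 4) (nat_lit 355) (nat_lit 303) (nat_lit 122)) (XT.lf (nat_lit 0) (nat_lit 68549553717) (nat_lit 76) (nat_lit 89829860519) (nat_lit 152) (nat_lit 17926028262) (nat_lit 18) (nat_lit 5) (nat_lit 19) (nat_lit 5) (nat_lit 20) (nat_lit 4) (nat_lit 356) (nat_lit 303) (nat_lit 121))))))) (XT.nd (nat_lit 780) (nat_lit 304) (nat_lit 0) (XT.nd (nat_lit 390) (nat_lit 152) (nat_lit 0) (XT.nd (nat_lit 156) (nat_lit 76) (nat_lit 0) (XT.nd (nat_lit 78) (nat_lit 152) (nat_lit 0) (XT.lf (nat_lit 0) (nat_lit 8256500150) (nat_lit 152) (nat_lit 46413764910) (nat_lit 76) (nat_lit 128526769827) (nat_lit 17) (nat_lit 5) (nat_lit 19) (nat_lit 5) (nat_lit 18) (nat_lit 5) (nat_lit 357) (nat_lit 303) (nat_lit 120)) (XT.lf (nat_lit 0) (nat_lit 18286007976) (nat_lit 152) (nat_lit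 17144712939) (nat_lit 228) (nat_lit 154973543050) (nat_lit 15) (nat_lit 5) (nat_lit 17) (nat_lit 5) (nat_lit 18) (nat_lit 5) (nat_lit 358) (nat_lit 303) (nat_lit 119))) (XT.nd (nat_lit 78) (nat_lit 76) (nat_lit 0) (XT.lf (nat_lit 0) (nat_lit 65109581410) (nat_lit 228) (nat_lit 110461643559) (nat_lit 76) (nat_lit 22343333506) (nat_lit 15) (nat_lit 5) (nat_lit 18) (nat_lit 5) (nat_lit 16) (nat_lit 4) (nat_lit 359) (nat_lit 303) (nat_lit 118)) (XT.nd (nat_lit 78) (nat_lit 76) (nat_lit 0) (XT.lf (nat_lit 0) (nat_lit 96552976524) (nat_lit 228) (nat_lit 46004080230) (nat_lit 76) (nat_lit 63229281774) (nat_lit 15) (nat_lit 5) (nat_lit 18) (nat_lit 5) (nat_lit 16) (nat_lit 4) (nat_lit 360) (nat_lit 303) (nat_lit 117)) (XT.lf (nat_lit 0) (nat_lit 22392274013) (nat_lit 76) (nat_lit 107525426604) (nat_lit 152) (nat_lit 84116549382) (nat_lit 14) (nat_lit 5) (nat_lit 15) (nat_lit 5) (nat_lit 16)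 (nat_lit 4) (nat_lit 361) (nat_lit 303) (nat_lit 116))))) (XT.nd (nat_lit 156) (nat_lit 152) (nat_lit 0) (XT.nd (nat_lit 78) (nat_lit 0) (nat_lit 0) (XT.lf (nat_lit 0) (nat_lit 95804836473) (nat_lit 76) (nat_lit 69924488177) (nat_lit 152) (nat_lit 56926299565) (nat_lit 14) (nat_lit 5) (nat_lit 15) (nat_lit 5) (nat_lit 16) (nat_lit 4) (nat_lit 362) (nat_lit 303) (nat_lit 115)) (XT.lf (nat_lit 0) (nat_lit 172887296310) (nat_lit 76) (nat_lit 30443816788) (nat_lit 152) (nat_lit 28376975224) (nat_lit 14) (nat_lit 5) (nat_lit 15) (nat_lit 5) (nat_lit 16) (nat_lit 4) (nat_lit 363) (nat_lit 303) (nat_lit 114))) (XT.nd (nat_lit 78) (nat_lit 0) (nat_lit 0) (XT.lf (nat_lit 0) (nat_lit 1926834750) (nat_lit 152) (nat_lit 228376307403) (nat_lit 76) (nat_lit 10889873736) (nat_lit 12) (nat_lit 5) (nat_lit 14) (nat_lit 5) (nat_lit 13) (nat_lit 4) (nat_lit 364) (nat_lit 303) (nat_lit 113)) (XT.nd (nat_lit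 78) (nat_lit 0) (nat_lit 0) (XT.lf (nat_lit 0) (nat_lit 34303350623) (nat_lit 152) (nat_lit 162005492067) (nat_lit 76) (nat_lit 54744529231) (nat_lit 12) (nat_lit 5) (nat_lit 14) (nat_lit 5) (nat_lit 13) (nat_lit 4) (nat_lit 365) (nat_lit 303) (nat_lit 112)) (XT.lf (nat_lit 0) (nat_lit 68298311186) (nat_lit 152) (nat_lit 92316815491) (nat_lit 76) (nat_lit 100791638415) (nat_lit 12) (nat_lit 5) (nat_lit 14) (nat_lit 5) (nat_lit 13) (nat_lit 4) (nat_lit 366) (nat_lit 303) (nat_lit 111)))))) (XT.nd (nat_lit 390) (nat_lit 152) (nat_lit 0) (XT.nd (nat_lit 156) (nat_lit 76) (nat_lit 0) (XT.nd (nat_lit 78) (nat_lit 76) (nat_lit 0) (XT.lf (nat_lit 0) (nat_lit 103992656818) (nat_lit 152) (nat_lit 19144352255) (nat_lit 76) (nat_lit 149140837263) (nat_lit 12) (nat_lit 5) (nat_lit 14) (nat_lit 5) (nat_lit 13) (nat_lit 4) (nat_lit 367) (nat_lit 303) (nat_lit 110)) (XT.lf (nat_lit 0) (nat_lit 59593481364)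 (nat_lit 76) (nat_lit 82808313949) (nat_lit 152) (nat_lit 141244182804) (nat_lit 11) (nat_lit 5) (nat_lit 12) (nat_lit 5) (nat_lit 13) (nat_lit 4) (nat_lit 368) (nat_lit 303) (nat_lit 109))) (XT.nd (nat_lit 78) (nat_lit 76) (nat_lit 0) (XT.lf (nat_lit 0) (nat_lit 142932248936) (nat_lit 76) (nat_lit 40123021985) (nat_lit 152) (nat_lit 112511051800) (nat_lit 11) (nat_lit 5) (nat_lit 12) (nat_lit 5) (nat_lit 13) (nat_lit 4) (nat_lit 369) (nat_lit 303) (nat_lit 108)) (XT.nd (nat_lit 78) (nat_lit 76) (nat_lit 0) (XT.lf (nat_lit 0) (nat_lit 225814419844) (nat_lit 152) (nat_lit 77718645647) (nat_lit 0) (nat_lit 4545969320) (nat_lit 11) (nat_lit 5) (nat_lit 13) (nat_lit 4) (nat_lit 11) (nat_lit 4) (nat_lit 370) (nat_lit 303) (nat_lit 107)) (XT.lf (nat_lit 0) (nat_lit 293635799) (nat_lit 76) (nat_lit 271079918363) (nat_lit 76) (nat_lit 49810727164) (nat_lit 10) (nat_lit 4) (nat_lit 11) (nat_lit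 5) (nat_lit 11) (nat_lit 4) (nat_lit 371) (nat_lit 303) (nat_lit 106))))) (XT.nd (nat_lit 390) (nat_lit 76) (nat_lit 0) (XT.nd (nat_lit 78) (nat_lit 76) (nat_lit 0) (XT.lf (nat_lit 0) (nat_lit 84904194444) (nat_lit 76) (nat_lit 235622348817) (nat_lit 76) (nat_lit 14352452213) (nat_lit 10) (nat_lit 4) (nat_lit 11) (nat_lit 5) (nat_lit 11) (nat_lit 4) (nat_lit 372) (nat_lit 303) (nat_lit 105)) (XT.nd (nat_lit 78) (nat_lit 0) (nat_lit 0) (XT.lf (nat_lit 0) (nat_lit 22146178793) (nat_lit 152) (nat_lit 175870901892) (nat_lit 76) (nat_lit 151223519537) (nat_lit 9) (nat_lit 5) (nat_lit 11) (nat_lit 5) (nat_lit 10) (nat_lit 4) (nat_lit 373) (nat_lit 303) (nat_lit 104)) (XT.lf (nat_lit 0) (nat_lit 59987123657) (nat_lit 152) (nat_lit 98297604744) (nat_lit 76) (nat_lit 206023806741) (nat_lit 9) (nat_lit 5) (nat_lit 11) (nat_lit 5) (nat_lit 10) (nat_lit 4) (nat_lit 374) (nat_lit 303) (nat_lit 103))))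 (XT.nd (nat_lit 34944) (nat_lit 0) (nat_lit 5776) (XT.lf (nat_lit 0) (nat_lit 163716738628) (nat_lit 76) (nat_lit 24083109795) (nat_lit 152) (nat_lit 226257712477) (nat_lit 8) (nat_lit 5) (nat_lit 9) (nat_lit 5) (nat_lit 10) (nat_lit 4) (nat_lit 377) (nat_lit 303) (nat_lit 100)) (XT.nd (nat_lit 78) (nat_lit 0) (nat_lit 0) (XT.lf (nat_lit 0) (nat_lit 6332890699) (nat_lit 0) (nat_lit 6332890699) (nat_lit 684) (nat_lit 4860955972) (nat_lit 84) (nat_lit 5) (nat_lit 84) (nat_lit 3) (nat_lit 93) (nat_lit 3) (nat_lit 304) (nat_lit 304) (nat_lit 172)) (XT.lf (nat_lit 0) (nat_lit 26064075184) (nat_lit 684) (nat_lit 6786711085) (nat_lit 760) (nat_lit 3073948859) (nat_lit 84) (nat_lit 5) (nat_lit 93) (nat_lit 3) (nat_lit 94) (nat_lit 5) (nat_lit 305) (nat_lit 304) (nat_lit 171))))))))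
noncomputable def xc218 : XT := (XT.nd (nat_lit 1560) (nat_lit 2280) (nat_lit 0) (XT.nd (nat_lit 780) (nat_lit 1672) (nat_lit 0) (XT.nd (nat_lit 390) (nat_lit 532) (nat_lit 0) (XT.nd (nat_lit 156) (nat_lit 0) (nat_lit 76) (XT.nd (nat_lit 78) (nat_lit 0) (nat_lit 0) (XT.lf (nat_lit 76) (nat_lit 9695211873) (nat_lit 0) (nat_lit 17493853507) (nat_lit 760) (nat_lit 9632707924) (nat_lit 85) (nat_lit 5) (nat_lit 84) (nat_lit 5) (nat_lit 94) (nat_lit 5) (nat_lit 306) (nat_lit 304) (nat_lit 170)) (XT.lf (nat_lit 76) (nat_lit 27235098992) (nat_lit 0) (nat_lit 1247112134) (nat_lit 760) (nat_lit 9275863991) (nat_lit 85) (nat_lit 5) (nat_lit 84) (nat_lit 5) (nat_lit 94) (nat_lit 5) (nat_lit 307) (nat_lit 304) (nat_lit 169))) (XT.nd (nat_lit 78) (nat_lit 0) (nat_lit 0) (XT.lf (nat_lit 76) (nat_lit 6882359952) (nat_lit 0) (nat_lit 23309109357) (nat_lit 760) (nat_lit 8532156650) (nat_lit 86) (nat_lit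 5) (nat_lit 85) (nat_lit 5) (nat_lit 95) (nat_lit 5) (nat_lit 308) (nat_lit 304) (nat_lit 168)) (XT.nd (nat_lit 78) (nat_lit 0) (nat_lit 76) (XT.lf (nat_lit 76) (nat_lit 25500368114) (nat_lit 0) (nat_lit 6681390093) (nat_lit 760) (nat_lit 7545924122) (nat_lit 86) (nat_lit 5) (nat_lit 85) (nat_lit 5) (nat_lit 95) (nat_lit 5) (nat_lit 309) (nat_lit 304) (nat_lit 167)) (XT.lf (nat_lit 76) (nat_lit 4232662768) (nat_lit 0) (nat_lit 30270639744) (nat_lit 760) (nat_lit 6267058031) (nat_lit 87) (nat_lit 5) (nat_lit 86) (nat_lit 5) (nat_lit 96) (nat_lit 5) (nat_lit 310) (nat_lit 304) (nat_lit 166))))) (XT.nd (nat_lit 156) (nat_lit 684) (nat_lit 0) (XT.nd (nat_lit 78) (nat_lit 0) (nat_lit 76) (XT.lf (nat_lit 76) (nat_lit 23994582772) (nat_lit 0) (nat_lit 13292534614) (nat_lit 760) (nat_lit 4560751398) (nat_lit 87) (nat_lit 5) (nat_lit 86) (nat_lit 5) (nat_lit 96) (nat_lit 5) (nat_lit 311) (nat_lit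 304) (nat_lit 165)) (XT.lf (nat_lit 76) (nat_lit 1748626322) (nat_lit 0) (nat_lit 38557205960) (nat_lit 760) (nat_lit 2668640199) (nat_lit 88) (nat_lit 5) (nat_lit 87) (nat_lit 5) (nat_lit 97) (nat_lit 5) (nat_lit 312) (nat_lit 304) (nat_lit 164))) (XT.nd (nat_lit 78) (nat_lit 760) (nat_lit 0) (XT.lf (nat_lit 76) (nat_lit 22723483942) (nat_lit 0) (nat_lit 21266445829) (nat_lit 760) (nat_lit 141759496) (nat_lit 88) (nat_lit 5) (nat_lit 87) (nat_lit 5) (nat_lit 97) (nat_lit 5) (nat_lit 313) (nat_lit 304) (nat_lit 163)) (XT.nd (nat_lit 78) (nat_lit 0) (nat_lit 76) (XT.lf (nat_lit 0) (nat_lit 2428848632) (nat_lit 760) (nat_lit 640744088) (nat_lit 836) (nat_lit 42275330083) (nat_lit 77) (nat_lit 5) (nat_lit 87) (nat_lit 5) (nat_lit 88) (nat_lit 5) (nat_lit 314) (nat_lit 304) (nat_lit 162)) (XT.lf (nat_lit 0) (nat_lit 5718425085) (nat_lit 760) (nat_lit 24997088383) (nat_lit 76) (nat_lit 15873432783)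 (nat_lit 78) (nat_lit 5) (nat_lit 88) (nat_lit 5) (nat_lit 79) (nat_lit 5) (nat_lit 315) (nat_lit 304) (nat_lit 161)))))) (XT.nd (nat_lit 390) (nat_lit 912) (nat_lit 0) (XT.nd (nat_lit 156) (nat_lit 380) (nat_lit 0) (XT.nd (nat_lit 78) (nat_lit 456) (nat_lit 0) (XT.lf (nat_lit 0) (nat_lit 9231782328) (nat_lit 760) (nat_lit 2988638326) (nat_lit 76) (nat_lit 35671789435) (nat_lit 78) (nat_lit 5) (nat_lit 88) (nat_lit 5) (nat_lit 79) (nat_lit 5) (nat_lit 316) (nat_lit 304) (nat_lit 160)) (XT.lf (nat_lit 0) (nat_lit 13361073872) (nat_lit 532) (nat_lit 28578556200) (nat_lit 76) (nat_lit 7298997836) (nat_lit 72) (nat_lit 5) (nat_lit 79) (nat_lit 5) (nat_lit 73) (nat_lit 5) (nat_lit 317) (nat_lit 304) (nat_lit 159))) (XT.nd (nat_lit 78) (nat_lit 380) (nat_lit 0) (XT.lf (nat_lit 0) (nat_lit 17946725966) (nat_lit 532) (nat_lit 5257854770) (nat_lit 76) (nat_lit 27435294998) (nat_lit 72) (nat_lit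 5) (nat_lit 79) (nat_lit 5) (nat_lit 73) (nat_lit 5) (nat_lit 318) (nat_lit 304) (nat_lit 158)) (XT.nd (nat_lit 78) (nat_lit 0) (nat_lit 0) (XT.lf (nat_lit 0) (nat_lit 19862874551) (nat_lit 380) (nat_lit 3207108331) (nat_lit 456) (nat_lit 29025790688) (nat_lit 67) (nat_lit 5) (nat_lit 72) (nat_lit 5) (nat_lit 73) (nat_lit 5) (nat_lit 319) (nat_lit 304) (nat_lit 157)) (XT.lf (nat_lit 0) (nat_lit 28815928149) (nat_lit 456) (nat_lit 7478853768) (nat_lit 76) (nat_lit 17311361655) (nat_lit 67) (nat_lit 5) (nat_lit 73) (nat_lit 5) (nat_lit 68) (nat_lit 5) (nat_lit 320) (nat_lit 304) (nat_lit 156))))) (XT.nd (nat_lit 156) (nat_lit 608) (nat_lit 0) (XT.nd (nat_lit 78) (nat_lit 0) (nat_lit 0) (XT.lf (nat_lit 0) (nat_lit 19068923149) (nat_lit 304) (nat_lit 16128890957) (nat_lit 380) (nat_lit 19976789178) (nat_lit 63) (nat_lit 5) (nat_lit 67) (nat_lit 5) (nat_lit 68) (nat_lit 5) (nat_lit 321) (nat_lit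 304) (nat_lit 155)) (XT.lf (nat_lit 0) (nat_lit 42104699248) (nat_lit 380) (nat_lit 9694036477) (nat_lit 76) (nat_lit 5012458234) (nat_lit 63) (nat_lit 5) (nat_lit 68) (nat_lit 5) (nat_lit 64) (nat_lit 5) (nat_lit 322) (nat_lit 304) (nat_lit 154))) (XT.nd (nat_lit 78) (nat_lit 304) (nat_lit 0) (XT.lf (nat_lit 0) (nat_lit 18359717727) (nat_lit 304) (nat_lit 31546741165) (nat_lit 380) (nat_lit 8595681831) (nat_lit 59) (nat_lit 5) (nat_lit 63) (nat_lit 5) (nat_lit 64) (nat_lit 5) (nat_lit 323) (nat_lit 304) (nat_lit 153)) (XT.nd (nat_lit 78) (nat_lit 304) (nat_lit 0) (XT.lf (nat_lit 0) (nat_lit 48151052730) (nat_lit 304) (nat_lit 10109949182) (nat_lit 380) (nat_lit 2008501064) (nat_lit 59) (nat_lit 5) (nat_lit 63) (nat_lit 5) (nat_lit 64) (nat_lit 5) (nat_lit 324) (nat_lit 304) (nat_lit 152)) (XT.lf (nat_lit 0) (nat_lit 5226782686) (nat_lit 304) (nat_lit 44508858236) (nat_lit 76) (nat_lit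 12361972066) (nat_lit 55) (nat_lit 5) (nat_lit 59) (nat_lit 5) (nat_lit 56) (nat_lit 5) (nat_lit 325) (nat_lit 304) (nat_lit 151))))))) (XT.nd (nat_lit 780) (nat_lit 988) (nat_lit 0) (XT.nd (nat_lit 390) (nat_lit 760) (nat_lit 0) (XT.nd (nat_lit 156) (nat_lit 228) (nat_lit 0) (XT.nd (nat_lit 78) (nat_lit 304) (nat_lit 0) (XT.lf (nat_lit 0) (nat_lit 13129271551) (nat_lit 304) (nat_lit 15008524428) (nat_lit 76) (nat_lit 35859041745) (nat_lit 55) (nat_lit 5) (nat_lit 59) (nat_lit 5) (nat_lit 56) (nat_lit 5) (nat_lit 326) (nat_lit 304) (nat_lit 150)) (XT.lf (nat_lit 0) (nat_lit 16493113293) (nat_lit 304) (nat_lit 5189948226) (nat_lit 380) (nat_lit 44295155749) (nat_lit 51) (nat_lit 5) (nat_lit 55) (nat_lit 5) (nat_lit 56) (nat_lit 5) (nat_lit 327) (nat_lit 304) (nat_lit 149))) (XT.nd (nat_lit 78) (nat_lit 228) (nat_lit 0) (XT.lf (nat_lit 0) (nat_lit 31216756263) (nat_lit 380) (nat_lit 18256025385)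 (nat_lit 76) (nat_lit 18558275666) (nat_lit 51) (nat_lit 5) (nat_lit 56) (nat_lit 5) (nat_lit 52) (nat_lit 5) (nat_lit 328) (nat_lit 304) (nat_lit 148)) (XT.nd (nat_lit 78) (nat_lit 0) (nat_lit 0) (XT.lf (nat_lit 0) (nat_lit 14925583631) (nat_lit 228) (nat_lit 26618432215) (nat_lit 304) (nat_lit 28626681691) (nat_lit 48) (nat_lit 5) (nat_lit 51) (nat_lit 5) (nat_lit 52) (nat_lit 5) (nat_lit 329) (nat_lit 304) (nat_lit 147)) (XT.lf (nat_lit 0) (nat_lit 50398551873) (nat_lit 228) (nat_lit 2297064708) (nat_lit 304) (nat_lit 19706306359) (nat_lit 48) (nat_lit 5) (nat_lit 51) (nat_lit 5) (nat_lit 52) (nat_lit 5) (nat_lit 330) (nat_lit 304) (nat_lit 146))))) (XT.nd (nat_lit 156) (nat_lit 456) (nat_lit 0) (XT.nd (nat_lit 78) (nat_lit 76) (nat_lit 0) (XT.lf (nat_lit 0) (nat_lit 12950601321) (nat_lit 228) (nat_lit 52018094110) (nat_lit 304) (nat_lit 9747821252) (nat_lit 45) (nat_lit 5) (nat_lit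 48) (nat_lit 5) (nat_lit 49) (nat_lit 5) (nat_lit 331) (nat_lit 304) (nat_lit 145)) (XT.lf (nat_lit 0) (nat_lit 1101179012) (nat_lit 304) (nat_lit 26768382491) (nat_lit 76) (nat_lit 49255963747) (nat_lit 44) (nat_lit 5) (nat_lit 48) (nat_lit 5) (nat_lit 45) (nat_lit 5) (nat_lit 332) (nat_lit 304) (nat_lit 144))) (XT.nd (nat_lit 78) (nat_lit 228) (nat_lit 0) (XT.lf (nat_lit 0) (nat_lit 10142393967) (nat_lit 228) (nat_lit 2179916564) (nat_lit 304) (nat_lit 67316821806) (nat_lit 41) (nat_lit 5) (nat_lit 44) (nat_lit 5) (nat_lit 45) (nat_lit 5) (nat_lit 333) (nat_lit 304) (nat_lit 143)) (XT.nd (nat_lit 78) (nat_lit 228) (nat_lit 0) (XT.lf (nat_lit 0) (nat_lit 24951316900) (nat_lit 304) (nat_lit 32823722246) (nat_lit 76) (nat_lit 24461041345) (nat_lit 41) (nat_lit 5) (nat_lit 45) (nat_lit 5) (nat_lit 42) (nat_lit 5) (nat_lit 334) (nat_lit 304) (nat_lit 142)) (XT.lf (nat_lit 0) (nat_lit 5832476946)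 (nat_lit 228) (nat_lit 32505088500) (nat_lit 304) (nat_lit 46619022564) (nat_lit 38) (nat_lit 5) (nat_lit 41) (nat_lit 5) (nat_lit 42) (nat_lit 5) (nat_lit 335) (nat_lit 304) (nat_lit 141)))))) (XT.nd (nat_lit 390) (nat_lit 532) (nat_lit 0) (XT.nd (nat_lit 156) (nat_lit 304) (nat_lit 0) (XT.nd (nat_lit 78) (nat_lit 152) (nat_lit 0) (XT.lf (nat_lit 0) (nat_lit 47559667223) (nat_lit 228) (nat_lit 5388365305) (nat_lit 304) (nat_lit 34837344546) (nat_lit 38) (nat_lit 5) (nat_lit 41) (nat_lit 5) (nat_lit 42) (nat_lit 5) (nat_lit 336) (nat_lit 304) (nat_lit 140)) (XT.lf (nat_lit 0) (nat_lit 264301251) (nat_lit 152) (nat_lit 68388318273) (nat_lit 228) (nat_lit 22084807645) (nat_lit 36) (nat_lit 5) (nat_lit 38) (nat_lit 5) (nat_lit 39) (nat_lit 5) (nat_lit 337) (nat_lit 304) (nat_lit 139))) (XT.nd (nat_lit 78) (nat_lit 304) (nat_lit 0) (XT.lf (nat_lit 0) (nat_lit 44082765595) (nat_lit 152) (nat_lit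 41826906177) (nat_lit 228) (nat_lit 7889047539) (nat_lit 36) (nat_lit 5) (nat_lit 38) (nat_lit 5) (nat_lit 39) (nat_lit 5) (nat_lit 338) (nat_lit 304) (nat_lit 138)) (XT.nd (nat_lit 78) (nat_lit 228) (nat_lit 0) (XT.lf (nat_lit 0) (nat_lit 6791041711) (nat_lit 228) (nat_lit 7031775499) (nat_lit 76) (nat_lit 83184827053) (nat_lit 35) (nat_lit 5) (nat_lit 38) (nat_lit 5) (nat_lit 36) (nat_lit 5) (nat_lit 339) (nat_lit 304) (nat_lit 137)) (XT.lf (nat_lit 0) (nat_lit 22801863474) (nat_lit 304) (nat_lit 61694447214) (nat_lit 76) (nat_lit 15831146910) (nat_lit 32) (nat_lit 5) (nat_lit 36) (nat_lit 5) (nat_lit 33) (nat_lit 5) (nat_lit 340) (nat_lit 304) (nat_lit 136))))) (XT.nd (nat_lit 234) (nat_lit 380) (nat_lit 0) (XT.nd (nat_lit 78) (nat_lit 152) (nat_lit 0) (XT.lf (nat_lit 0) (nat_lit 39960038756) (nat_lit 304) (nat_lit 17211959334) (nat_lit 76) (nat_lit 46623923990) (nat_lit 32) (nat_lit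 5) (nat_lit 36) (nat_lit 5) (nat_lit 33) (nat_lit 5) (nat_lit 341) (nat_lit 304) (nat_lit 135)) (XT.nd (nat_lit 78) (nat_lit 0) (nat_lit 0) (XT.lf (nat_lit 0) (nat_lit 30468640485) (nat_lit 152) (nat_lit 27982392812) (nat_lit 228) (nat_lit 48963032012) (nat_lit 30) (nat_lit 5) (nat_lit 32) (nat_lit 5) (nat_lit 33) (nat_lit 5) (nat_lit 342) (nat_lit 304) (nat_lit 134)) (XT.lf (nat_lit 0) (nat_lit 78203706008) (nat_lit 228) (nat_lit 30115336580) (nat_lit 76) (nat_lit 2877217688) (nat_lit 30) (nat_lit 5) (nat_lit 33) (nat_lit 5) (nat_lit 31) (nat_lit 5) (nat_lit 343) (nat_lit 304) (nat_lit 133)))) (XT.nd (nat_lit 78) (nat_lit 228) (nat_lit 0) (XT.lf (nat_lit 0) (nat_lit 19211253104) (nat_lit 152) (nat_lit 80490687990) (nat_lit 228) (nat_lit 15427728411) (nat_lit 28) (nat_lit 5) (nat_lit 30) (nat_lit 5) (nat_lit 31) (nat_lit 5) (nat_lit 344) (nat_lit 304) (nat_lit 132)) (XT.nd (nat_lit 78)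 (nat_lit 152) (nat_lit 0) (XT.lf (nat_lit 0) (nat_lit 3436472088) (nat_lit 228) (nat_lit 47241140239) (nat_lit 76) (nat_lit 68553901686) (nat_lit 27) (nat_lit 5) (nat_lit 30) (nat_lit 5) (nat_lit 28) (nat_lit 5) (nat_lit 345) (nat_lit 304) (nat_lit 131)) (XT.lf (nat_lit 0) (nat_lit 3735540240) (nat_lit 152) (nat_lit 19047491094) (nat_lit 228) (nat_lit 100739893476) (nat_lit 25) (nat_lit 5) (nat_lit 27) (nat_lit 5) (nat_lit 28) (nat_lit 5) (nat_lit 346) (nat_lit 304) (nat_lit 130))))))))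
noncomputable def xc219 : XT := (XT.nd (nat_lit 1560) (nat_lit 228) (nat_lit 0) (XT.nd (nat_lit 780) (nat_lit 456) (nat_lit 0) (XT.nd (nat_lit 390) (nat_lit 304) (nat_lit 0) (XT.nd (nat_lit 156) (nat_lit 228) (nat_lit 0) (XT.nd (nat_lit 78) (nat_lit 0) (nat_lit 0) (XT.lf (nat_lit 0) (nat_lit 44130536940) (nat_lit 228) (nat_lit 69323117936) (nat_lit 76) (nat_lit 14523571136) (nat_lit 25) (nat_lit 5) (nat_lit 28) (nat_lit 5) (nat_lit 26) (nat_lit 5) (nat_lit 347) (nat_lit 304) (nat_lit 129)) (XT.lf (nat_lit 0) (nat_lit 66857014031) (nat_lit 228) (nat_lit 16648956078) (nat_lit 76) (nat_lit 49132693099) (nat_lit 25) (nat_lit 5) (nat_lit 28) (nat_lit 5) (nat_lit 26) (nat_lit 5) (nat_lit 348) (nat_lit 304) (nat_lit 128))) (XT.nd (nat_lit 78) (nat_lit 76) (nat_lit 0) (XT.lf (nat_lit 0) (nat_lit 39936105161) (nat_lit 152) (nat_lit 51406597912) (nat_lit 228) (nat_lit 46159325494) (nat_lit 23)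 (nat_lit 5) (nat_lit 25) (nat_lit 5) (nat_lit 26) (nat_lit 5) (nat_lit 349) (nat_lit 304) (nat_lit 127)) (XT.nd (nat_lit 78) (nat_lit 76) (nat_lit 0) (XT.lf (nat_lit 0) (nat_lit 99927436487) (nat_lit 152) (nat_lit 17406586044) (nat_lit 228) (nat_lit 25260473042) (nat_lit 23) (nat_lit 5) (nat_lit 25) (nat_lit 5) (nat_lit 26) (nat_lit 5) (nat_lit 350) (nat_lit 304) (nat_lit 126)) (XT.lf (nat_lit 0) (nat_lit 15175886205) (nat_lit 76) (nat_lit 129970982787) (nat_lit 152) (nat_lit 2768619529) (nat_lit 22) (nat_lit 5) (nat_lit 23) (nat_lit 5) (nat_lit 24) (nat_lit 4) (nat_lit 351) (nat_lit 304) (nat_lit 125))))) (XT.nd (nat_lit 156) (nat_lit 228) (nat_lit 0) (XT.nd (nat_lit 78) (nat_lit 0) (nat_lit 0) (XT.lf (nat_lit 0) (nat_lit 21199767173) (nat_lit 152) (nat_lit 76697789575) (nat_lit 76) (nat_lit 55537740245) (nat_lit 21) (nat_lit 5) (nat_lit 23) (nat_lit 5) (nat_lit 22) (nat_lit 5) (nat_lit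 352) (nat_lit 304) (nat_lit 124)) (XT.lf (nat_lit 0) (nat_lit 46272971639) (nat_lit 152) (nat_lit 17900204799) (nat_lit 76) (nat_lit 95055678535) (nat_lit 21) (nat_lit 5) (nat_lit 23) (nat_lit 5) (nat_lit 22) (nat_lit 5) (nat_lit 353) (nat_lit 304) (nat_lit 123))) (XT.nd (nat_lit 78) (nat_lit 76) (nat_lit 0) (XT.lf (nat_lit 0) (nat_lit 45285800604) (nat_lit 152) (nat_lit 28020542748) (nat_lit 228) (nat_lit 91970422680) (nat_lit 19) (nat_lit 5) (nat_lit 21) (nat_lit 5) (nat_lit 22) (nat_lit 5) (nat_lit 354) (nat_lit 304) (nat_lit 122)) (XT.nd (nat_lit 78) (nat_lit 76) (nat_lit 0) (XT.lf (nat_lit 0) (nat_lit 102154163775) (nat_lit 228) (nat_lit 59520404526) (nat_lit 76) (nat_lit 9929365840) (nat_lit 19) (nat_lit 5) (nat_lit 22) (nat_lit 5) (nat_lit 20) (nat_lit 4) (nat_lit 355) (nat_lit 304) (nat_lit 121)) (XT.lf (nat_lit 0) (nat_lit 3629651630) (nat_lit 76) (nat_lit 129330245705) (nat_lit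 152) (nat_lit 45261787695) (nat_lit 18) (nat_lit 5) (nat_lit 19) (nat_lit 5) (nat_lit 20) (nat_lit 4) (nat_lit 356) (nat_lit 304) (nat_lit 120)))))) (XT.nd (nat_lit 390) (nat_lit 228) (nat_lit 0) (XT.nd (nat_lit 156) (nat_lit 152) (nat_lit 0) (XT.nd (nat_lit 78) (nat_lit 76) (nat_lit 0) (XT.lf (nat_lit 0) (nat_lit 72002787218) (nat_lit 76) (nat_lit 94310647868) (nat_lit 152) (nat_lit 18806512959) (nat_lit 18) (nat_lit 5) (nat_lit 19) (nat_lit 5) (nat_lit 20) (nat_lit 4) (nat_lit 357) (nat_lit 304) (nat_lit 119)) (XT.lf (nat_lit 0) (nat_lit 8683906570) (nat_lit 152) (nat_lit 48709428918) (nat_lit 76) (nat_lit 134962809311) (nat_lit 17) (nat_lit 5) (nat_lit 19) (nat_lit 5) (nat_lit 18) (nat_lit 5) (nat_lit 358) (nat_lit 304) (nat_lit 118))) (XT.nd (nat_lit 78) (nat_lit 0) (nat_lit 0) (XT.lf (nat_lit 0) (nat_lit 19224928995) (nat_lit 152) (nat_lit 17991599421) (nat_lit 228) (nat_lit 162707223020)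 (nat_lit 15) (nat_lit 5) (nat_lit 17) (nat_lit 5) (nat_lit 18) (nat_lit 5) (nat_lit 359) (nat_lit 304) (nat_lit 117)) (XT.nd (nat_lit 78) (nat_lit 0) (nat_lit 0) (XT.lf (nat_lit 0) (nat_lit 68378806228) (nat_lit 228) (nat_lit 115960740243) (nat_lit 76) (nat_lit 23470041065) (nat_lit 15) (nat_lit 5) (nat_lit 18) (nat_lit 5) (nat_lit 16) (nat_lit 4) (nat_lit 360) (nat_lit 304) (nat_lit 116)) (XT.lf (nat_lit 0) (nat_lit 101393716538) (nat_lit 228) (nat_lit 48281440915) (nat_lit 76) (nat_lit 66399832418) (nat_lit 15) (nat_lit 5) (nat_lit 18) (nat_lit 5) (nat_lit 16) (nat_lit 4) (nat_lit 361) (nat_lit 304) (nat_lit 115))))) (XT.nd (nat_lit 156) (nat_lit 152) (nat_lit 0) (XT.nd (nat_lit 78) (nat_lit 0) (nat_lit 0) (XT.lf (nat_lit 0) (nat_lit 23534362601) (nat_lit 76) (nat_lit 112892041742) (nat_lit 152) (nat_lit 88308906722) (nat_lit 14) (nat_lit 5) (nat_lit 15) (nat_lit 5) (nat_lit 16) (nat_lit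 4) (nat_lit 362) (nat_lit 304) (nat_lit 114)) (XT.lf (nat_lit 0) (nat_lit 100616482951) (nat_lit 76) (nat_lit 73411516212) (nat_lit 152) (nat_lit 59759785850) (nat_lit 14) (nat_lit 5) (nat_lit 15) (nat_lit 5) (nat_lit 16) (nat_lit 4) (nat_lit 363) (nat_lit 304) (nat_lit 113))) (XT.nd (nat_lit 78) (nat_lit 152) (nat_lit 0) (XT.lf (nat_lit 0) (nat_lit 181552046510) (nat_lit 76) (nat_lit 31957249177) (nat_lit 152) (nat_lit 29783606181) (nat_lit 14) (nat_lit 5) (nat_lit 15) (nat_lit 5) (nat_lit 16) (nat_lit 4) (nat_lit 364) (nat_lit 304) (nat_lit 112)) (XT.nd (nat_lit 78) (nat_lit 0) (nat_lit 0) (XT.lf (nat_lit 0) (nat_lit 2034897797) (nat_lit 152) (nat_lit 239774223186) (nat_lit 76) (nat_lit 11442950997) (nat_lit 12) (nat_lit 5) (nat_lit 14) (nat_lit 5) (nat_lit 13) (nat_lit 4) (nat_lit 365) (nat_lit 304) (nat_lit 111)) (XT.lf (nat_lit 0) (nat_lit 36029681306) (nat_lit 152) (nat_lit 170085862302)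 (nat_lit 76) (nat_lit 57489930525) (nat_lit 12) (nat_lit 5) (nat_lit 14) (nat_lit 5) (nat_lit 13) (nat_lit 4) (nat_lit 366) (nat_lit 304) (nat_lit 110))))))) (XT.nd (nat_lit 35880) (nat_lit 0) (nat_lit 5168) (XT.nd (nat_lit 390) (nat_lit 152) (nat_lit 0) (XT.nd (nat_lit 156) (nat_lit 76) (nat_lit 0) (XT.nd (nat_lit 78) (nat_lit 0) (nat_lit 0) (XT.lf (nat_lit 0) (nat_lit 71723858318) (nat_lit 152) (nat_lit 96913699724) (nat_lit 76) (nat_lit 105839005891) (nat_lit 12) (nat_lit 5) (nat_lit 14) (nat_lit 5) (nat_lit 13) (nat_lit 4) (nat_lit 367) (nat_lit 304) (nat_lit 109)) (XT.lf (nat_lit 0) (nat_lit 109202414967) (nat_lit 152) (nat_lit 20083516019) (nat_lit 76) (nat_lit 156605293940) (nat_lit 12) (nat_lit 5) (nat_lit 14) (nat_lit 5) (nat_lit 13) (nat_lit 4) (nat_lit 368) (nat_lit 304) (nat_lit 108))) (XT.nd (nat_lit 78) (nat_lit 0) (nat_lit 0) (XT.lf (nat_lit 0) (nat_lit 62590918090) (nat_lit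 76) (nat_lit 86940887464) (nat_lit 152) (nat_lit 148295968339) (nat_lit 11) (nat_lit 5) (nat_lit 12) (nat_lit 5) (nat_lit 13) (nat_lit 4) (nat_lit 369) (nat_lit 304) (nat_lit 107)) (XT.nd (nat_lit 78) (nat_lit 0) (nat_lit 0) (XT.lf (nat_lit 0) (nat_lit 150095778200) (nat_lit 76) (nat_lit 42121704339) (nat_lit 152) (nat_lit 118126677147) (nat_lit 11) (nat_lit 5) (nat_lit 12) (nat_lit 5) (nat_lit 13) (nat_lit 4) (nat_lit 370) (nat_lit 304) (nat_lit 106)) (XT.lf (nat_lit 0) (nat_lit 237114250054) (nat_lit 152) (nat_lit 81588121376) (nat_lit 0) (nat_lit 4780153214) (nat_lit 11) (nat_lit 5) (nat_lit 13) (nat_lit 4) (nat_lit 11) (nat_lit 4) (nat_lit 371) (nat_lit 304) (nat_lit 105))))) (XT.nd (nat_lit 156) (nat_lit 76) (nat_lit 0) (XT.nd (nat_lit 78) (nat_lit 0) (nat_lit 0) (XT.lf (nat_lit 0) (nat_lit 324508714) (nat_lit 76) (nat_lit 284626651392) (nat_lit 76) (nat_lit 52291882736) (nat_lit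 10) (nat_lit 4) (nat_lit 11) (nat_lit 5) (nat_lit 11) (nat_lit 4) (nat_lit 372) (nat_lit 304) (nat_lit 104)) (XT.lf (nat_lit 0) (nat_lit 89164824285) (nat_lit 76) (nat_lit 247396549221) (nat_lit 76) (nat_lit 15061140742) (nat_lit 10) (nat_lit 4) (nat_lit 11) (nat_lit 5) (nat_lit 11) (nat_lit 4) (nat_lit 373) (nat_lit 304) (nat_lit 103))) (XT.nd (nat_lit 156) (nat_lit 0) (nat_lit 0) (XT.lf (nat_lit 0) (nat_lit 23261724052) (nat_lit 152) (nat_lit 184649483526) (nat_lit 76) (nat_lit 158791005536) (nat_lit 9) (nat_lit 5) (nat_lit 11) (nat_lit 5) (nat_lit 10) (nat_lit 4) (nat_lit 374) (nat_lit 304) (nat_lit 102)) (XT.nd (nat_lit 35100) (nat_lit 0) (nat_lit 5700) (XT.lf (nat_lit 0) (nat_lit 104713310953) (nat_lit 152) (nat_lit 17674863422) (nat_lit 76) (nat_lit 276747821676) (nat_lit 9) (nat_lit 5) (nat_lit 11) (nat_lit 5) (nat_lit 10) (nat_lit 4) (nat_lit 376) (nat_lit 304) (nat_lit 100))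 (XT.lf (nat_lit 0) (nat_lit 6673969445) (nat_lit 0) (nat_lit 6673969445) (nat_lit 684) (nat_lit 5052578412) (nat_lit 84) (nat_lit 5) (nat_lit 84) (nat_lit 3) (nat_lit 93) (nat_lit 3) (nat_lit 305) (nat_lit 305) (nat_lit 170)))))) (XT.nd (nat_lit 390) (nat_lit 532) (nat_lit 0) (XT.nd (nat_lit 156) (nat_lit 0) (nat_lit 0) (XT.nd (nat_lit 78) (nat_lit 0) (nat_lit 0) (XT.lf (nat_lit 0) (nat_lit 27459635008) (nat_lit 684) (nat_lit 7073908286) (nat_lit 760) (nat_lit 3182594563) (nat_lit 84) (nat_lit 5) (nat_lit 93) (nat_lit 3) (nat_lit 94) (nat_lit 5) (nat_lit 306) (nat_lit 305) (nat_lit 169)) (XT.lf (nat_lit 76) (nat_lit 10231269879) (nat_lit 0) (nat_lit 18406007823) (nat_lit 760) (nat_lit 10020940387) (nat_lit 85) (nat_lit 5) (nat_lit 84) (nat_lit 5) (nat_lit 94) (nat_lit 5) (nat_lit 307) (nat_lit 305) (nat_lit 168))) (XT.nd (nat_lit 78) (nat_lit 0) (nat_lit 76) (XT.lf (nat_lit 76) (nat_lit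 28645708619) (nat_lit 0) (nat_lit 1345145494) (nat_lit 760) (nat_lit 9650702016) (nat_lit 85) (nat_lit 5) (nat_lit 84) (nat_lit 5) (nat_lit 94) (nat_lit 5) (nat_lit 308) (nat_lit 305) (nat_lit 167)) (XT.nd (nat_lit 78) (nat_lit 0) (nat_lit 0) (XT.lf (nat_lit 76) (nat_lit 7279444103) (nat_lit 0) (nat_lit 24502402195) (nat_lit 760) (nat_lit 8873734001) (nat_lit 86) (nat_lit 5) (nat_lit 85) (nat_lit 5) (nat_lit 95) (nat_lit 5) (nat_lit 309) (nat_lit 305) (nat_lit 166)) (XT.lf (nat_lit 76) (nat_lit 26825830476) (nat_lit 0) (nat_lit 7041971379) (nat_lit 760) (nat_lit 7842238917) (nat_lit 86) (nat_lit 5) (nat_lit 85) (nat_lit 5) (nat_lit 95) (nat_lit 5) (nat_lit 310) (nat_lit 305) (nat_lit 165))))) (XT.nd (nat_lit 234) (nat_lit 684) (nat_lit 0) (XT.nd (nat_lit 78) (nat_lit 0) (nat_lit 0) (XT.lf (nat_lit 76) (nat_lit 4498294242) (nat_lit 0) (nat_lit 31803913426) (nat_lit 760) (nat_lit 6502814484)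 (nat_lit 87) (nat_lit 5) (nat_lit 86) (nat_lit 5) (nat_lit 96) (nat_lit 5) (nat_lit 311) (nat_lit 305) (nat_lit 164)) (XT.nd (nat_lit 78) (nat_lit 0) (nat_lit 76) (XT.lf (nat_lit 76) (nat_lit 25245738897) (nat_lit 0) (nat_lit 13975962959) (nat_lit 760) (nat_lit 4714887588) (nat_lit 87) (nat_lit 5) (nat_lit 86) (nat_lit 5) (nat_lit 96) (nat_lit 5) (nat_lit 312) (nat_lit 305) (nat_lit 163)) (XT.lf (nat_lit 76) (nat_lit 1890557509) (nat_lit 0) (nat_lit 40498022097) (nat_lit 760) (nat_lit 2731090048) (nat_lit 88) (nat_lit 5) (nat_lit 87) (nat_lit 5) (nat_lit 97) (nat_lit 5) (nat_lit 313) (nat_lit 305) (nat_lit 162)))) (XT.nd (nat_lit 78) (nat_lit 760) (nat_lit 0) (XT.lf (nat_lit 76) (nat_lit 23911562779) (nat_lit 0) (nat_lit 22342107014) (nat_lit 760) (nat_lit 81245412) (nat_lit 88) (nat_lit 5) (nat_lit 87) (nat_lit 5) (nat_lit 97) (nat_lit 5) (nat_lit 314) (nat_lit 305) (nat_lit 161)) (XT.nd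 (nat_lit 78) (nat_lit 0) (nat_lit 76) (XT.lf (nat_lit 0) (nat_lit 2612613321) (nat_lit 760) (nat_lit 621154904) (nat_lit 836) (nat_lit 44375151861) (nat_lit 77) (nat_lit 5) (nat_lit 87) (nat_lit 5) (nat_lit 88) (nat_lit 5) (nat_lit 315) (nat_lit 305) (nat_lit 160)) (XT.lf (nat_lit 0) (nat_lit 6064347862) (nat_lit 760) (nat_lit 26192869258) (nat_lit 76) (nat_lit 16658049945) (nat_lit 78) (nat_lit 5) (nat_lit 88) (nat_lit 5) (nat_lit 79) (nat_lit 5) (nat_lit 316) (nat_lit 305) (nat_lit 159))))))))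
noncomputable def xc220 : XT := (XT.nd (nat_lit 1560) (nat_lit 1444) (nat_lit 0) (XT.nd (nat_lit 780) (nat_lit 1292) (nat_lit 0) (XT.nd (nat_lit 390) (nat_lit 912) (nat_lit 0) (XT.nd (nat_lit 156) (nat_lit 380) (nat_lit 0) (XT.nd (nat_lit 78) (nat_lit 456) (nat_lit 0) (XT.lf (nat_lit 0) (nat_lit 9750515752) (nat_lit 760) (nat_lit 3086571629) (nat_lit 76) (nat_lit 37446755596) (nat_lit 78) (nat_lit 5) (nat_lit 88) (nat_lit 5) (nat_lit 79) (nat_lit 5) (nat_lit 317) (nat_lit 305) (nat_lit 158)) (XT.lf (nat_lit 0) (nat_lit 14084270806) (nat_lit 532) (nat_lit 29953869661) (nat_lit 76) (nat_lit 7659547007) (nat_lit 72) (nat_lit 5) (nat_lit 79) (nat_lit 5) (nat_lit 73) (nat_lit 5) (nat_lit 318) (nat_lit 305) (nat_lit 157))) (XT.nd (nat_lit 78) (nat_lit 380) (nat_lit 0) (XT.lf (nat_lit 0) (nat_lit 18896579636) (nat_lit 532) (nat_lit 5469686224) (nat_lit 76) (nat_lit 28802868585) (nat_lit 72)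 (nat_lit 5) (nat_lit 79) (nat_lit 5) (nat_lit 73) (nat_lit 5) (nat_lit 319) (nat_lit 305) (nat_lit 156)) (XT.nd (nat_lit 78) (nat_lit 0) (nat_lit 0) (XT.lf (nat_lit 0) (nat_lit 20906255995) (nat_lit 380) (nat_lit 3368026927) (nat_lit 456) (nat_lit 30423635274) (nat_lit 67) (nat_lit 5) (nat_lit 72) (nat_lit 5) (nat_lit 73) (nat_lit 5) (nat_lit 320) (nat_lit 305) (nat_lit 155)) (XT.lf (nat_lit 0) (nat_lit 30305097988) (nat_lit 456) (nat_lit 7802424493) (nat_lit 76) (nat_lit 18176410543) (nat_lit 67) (nat_lit 5) (nat_lit 73) (nat_lit 5) (nat_lit 68) (nat_lit 5) (nat_lit 321) (nat_lit 305) (nat_lit 154))))) (XT.nd (nat_lit 156) (nat_lit 608) (nat_lit 0) (XT.nd (nat_lit 78) (nat_lit 0) (nat_lit 0) (XT.lf (nat_lit 0) (nat_lit 20071928819) (nat_lit 304) (nat_lit 16932619691) (nat_lit 380) (nat_lit 20926348416) (nat_lit 63) (nat_lit 5) (nat_lit 67) (nat_lit 5) (nat_lit 68) (nat_lit 5) (nat_lit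 322) (nat_lit 305) (nat_lit 153)) (XT.lf (nat_lit 0) (nat_lit 44254587638) (nat_lit 380) (nat_lit 10129258650) (nat_lit 76) (nat_lit 5265584852) (nat_lit 63) (nat_lit 5) (nat_lit 68) (nat_lit 5) (nat_lit 64) (nat_lit 5) (nat_lit 323) (nat_lit 305) (nat_lit 152))) (XT.nd (nat_lit 78) (nat_lit 304) (nat_lit 0) (XT.lf (nat_lit 0) (nat_lit 19326385205) (nat_lit 304) (nat_lit 33118683761) (nat_lit 380) (nat_lit 8979928869) (nat_lit 59) (nat_lit 5) (nat_lit 63) (nat_lit 5) (nat_lit 64) (nat_lit 5) (nat_lit 324) (nat_lit 305) (nat_lit 151)) (XT.nd (nat_lit 78) (nat_lit 304) (nat_lit 0) (XT.lf (nat_lit 0) (nat_lit 50604968788) (nat_lit 304) (nat_lit 10610309058) (nat_lit 380) (nat_lit 2065557494) (nat_lit 59) (nat_lit 5) (nat_lit 63) (nat_lit 5) (nat_lit 64) (nat_lit 5) (nat_lit 325) (nat_lit 305) (nat_lit 150)) (XT.lf (nat_lit 0) (nat_lit 5528937012) (nat_lit 304) (nat_lit 46685232768) (nat_lit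 76) (nat_lit 12986209181) (nat_lit 55) (nat_lit 5) (nat_lit 59) (nat_lit 5) (nat_lit 56) (nat_lit 5) (nat_lit 326) (nat_lit 305) (nat_lit 149)))))) (XT.nd (nat_lit 390) (nat_lit 760) (nat_lit 0) (XT.nd (nat_lit 156) (nat_lit 228) (nat_lit 0) (XT.nd (nat_lit 78) (nat_lit 304) (nat_lit 0) (XT.lf (nat_lit 0) (nat_lit 13824606740) (nat_lit 304) (nat_lit 15712218859) (nat_lit 76) (nat_lit 37657840034) (nat_lit 55) (nat_lit 5) (nat_lit 59) (nat_lit 5) (nat_lit 56) (nat_lit 5) (nat_lit 327) (nat_lit 305) (nat_lit 148)) (XT.lf (nat_lit 0) (nat_lit 17363747009) (nat_lit 304) (nat_lit 5441206015) (nat_lit 380) (nat_lit 46470221142) (nat_lit 51) (nat_lit 5) (nat_lit 55) (nat_lit 5) (nat_lit 56) (nat_lit 5) (nat_lit 328) (nat_lit 305) (nat_lit 147))) (XT.nd (nat_lit 78) (nat_lit 228) (nat_lit 0) (XT.lf (nat_lit 0) (nat_lit 32813657955) (nat_lit 380) (nat_lit 19123299632) (nat_lit 76) (nat_lit 19493785548)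 (nat_lit 51) (nat_lit 5) (nat_lit 56) (nat_lit 5) (nat_lit 52) (nat_lit 5) (nat_lit 329) (nat_lit 305) (nat_lit 146)) (XT.nd (nat_lit 78) (nat_lit 0) (nat_lit 0) (XT.lf (nat_lit 0) (nat_lit 15716655528) (nat_lit 228) (nat_lit 27939607001) (nat_lit 304) (nat_lit 30021156779) (nat_lit 48) (nat_lit 5) (nat_lit 51) (nat_lit 5) (nat_lit 52) (nat_lit 5) (nat_lit 330) (nat_lit 305) (nat_lit 145)) (XT.lf (nat_lit 0) (nat_lit 52961139196) (nat_lit 228) (nat_lit 2402635253) (nat_lit 304) (nat_lit 20656517870) (nat_lit 48) (nat_lit 5) (nat_lit 51) (nat_lit 5) (nat_lit 52) (nat_lit 5) (nat_lit 331) (nat_lit 305) (nat_lit 144))))) (XT.nd (nat_lit 156) (nat_lit 456) (nat_lit 0) (XT.nd (nat_lit 78) (nat_lit 76) (nat_lit 0) (XT.lf (nat_lit 0) (nat_lit 13641659382) (nat_lit 228) (nat_lit 54608076099) (nat_lit 304) (nat_lit 10200921616) (nat_lit 45) (nat_lit 5) (nat_lit 48) (nat_lit 5) (nat_lit 49) (nat_lit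 5) (nat_lit 332) (nat_lit 305) (nat_lit 143)) (XT.lf (nat_lit 0) (nat_lit 1187850517) (nat_lit 304) (nat_lit 28064251100) (nat_lit 76) (nat_lit 51728069239) (nat_lit 44) (nat_lit 5) (nat_lit 48) (nat_lit 5) (nat_lit 45) (nat_lit 5) (nat_lit 333) (nat_lit 305) (nat_lit 142))) (XT.nd (nat_lit 78) (nat_lit 228) (nat_lit 0) (XT.lf (nat_lit 0) (nat_lit 10691377882) (nat_lit 228) (nat_lit 2277808988) (nat_lit 304) (nat_lit 70650316396) (nat_lit 41) (nat_lit 5) (nat_lit 44) (nat_lit 5) (nat_lit 45) (nat_lit 5) (nat_lit 334) (nat_lit 305) (nat_lit 141)) (XT.nd (nat_lit 78) (nat_lit 228) (nat_lit 0) (XT.lf (nat_lit 0) (nat_lit 26228343858) (nat_lit 304) (nat_lit 34423692597) (nat_lit 76) (nat_lit 25694329628) (nat_lit 41) (nat_lit 5) (nat_lit 45) (nat_lit 5) (nat_lit 42) (nat_lit 5) (nat_lit 335) (nat_lit 305) (nat_lit 140)) (XT.lf (nat_lit 0) (nat_lit 6164651784) (nat_lit 228) (nat_lit 34118483250)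 (nat_lit 304) (nat_lit 48919804593) (nat_lit 38) (nat_lit 5) (nat_lit 41) (nat_lit 5) (nat_lit 42) (nat_lit 5) (nat_lit 336) (nat_lit 305) (nat_lit 139))))))) (XT.nd (nat_lit 780) (nat_lit 608) (nat_lit 0) (XT.nd (nat_lit 390) (nat_lit 380) (nat_lit 0) (XT.nd (nat_lit 156) (nat_lit 304) (nat_lit 0) (XT.nd (nat_lit 78) (nat_lit 152) (nat_lit 0) (XT.lf (nat_lit 0) (nat_lit 49976270575) (nat_lit 228) (nat_lit 5646488642) (nat_lit 304) (nat_lit 36550479297) (nat_lit 38) (nat_lit 5) (nat_lit 41) (nat_lit 5) (nat_lit 42) (nat_lit 5) (nat_lit 337) (nat_lit 305) (nat_lit 138)) (XT.lf (nat_lit 0) (nat_lit 316724613) (nat_lit 152) (nat_lit 71795329857) (nat_lit 228) (nat_lit 23160864660) (nat_lit 36) (nat_lit 5) (nat_lit 38) (nat_lit 5) (nat_lit 39) (nat_lit 5) (nat_lit 338) (nat_lit 305) (nat_lit 137))) (XT.nd (nat_lit 78) (nat_lit 304) (nat_lit 0) (XT.lf (nat_lit 0) (nat_lit 46324245112) (nat_lit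 152) (nat_lit 43906437838) (nat_lit 228) (nat_lit 8256658614) (nat_lit 36) (nat_lit 5) (nat_lit 38) (nat_lit 5) (nat_lit 39) (nat_lit 5) (nat_lit 339) (nat_lit 305) (nat_lit 136)) (XT.nd (nat_lit 78) (nat_lit 228) (nat_lit 0) (XT.lf (nat_lit 0) (nat_lit 7155338762) (nat_lit 228) (nat_lit 7346949149) (nat_lit 76) (nat_lit 87354467456) (nat_lit 35) (nat_lit 5) (nat_lit 38) (nat_lit 5) (nat_lit 36) (nat_lit 5) (nat_lit 340) (nat_lit 305) (nat_lit 135)) (XT.lf (nat_lit 0) (nat_lit 23966265350) (nat_lit 304) (nat_lit 64742285938) (nat_lit 76) (nat_lit 16634031505) (nat_lit 32) (nat_lit 5) (nat_lit 36) (nat_lit 5) (nat_lit 33) (nat_lit 5) (nat_lit 341) (nat_lit 305) (nat_lit 134))))) (XT.nd (nat_lit 156) (nat_lit 228) (nat_lit 0) (XT.nd (nat_lit 78) (nat_lit 152) (nat_lit 0) (XT.lf (nat_lit 0) (nat_lit 41981191839) (nat_lit 304) (nat_lit 18037430028) (nat_lit 76) (nat_lit 48965908046) (nat_lit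 32) (nat_lit 5) (nat_lit 36) (nat_lit 5) (nat_lit 33) (nat_lit 5) (nat_lit 342) (nat_lit 305) (nat_lit 133)) (XT.lf (nat_lit 0) (nat_lit 32026633213) (nat_lit 152) (nat_lit 29369540048) (nat_lit 228) (nat_lit 51387436647) (nat_lit 30) (nat_lit 5) (nat_lit 32) (nat_lit 5) (nat_lit 33) (nat_lit 5) (nat_lit 343) (nat_lit 305) (nat_lit 132))) (XT.nd (nat_lit 78) (nat_lit 228) (nat_lit 0) (XT.lf (nat_lit 0) (nat_lit 82135581996) (nat_lit 228) (nat_lit 31587262982) (nat_lit 76) (nat_lit 3032115919) (nat_lit 30) (nat_lit 5) (nat_lit 33) (nat_lit 5) (nat_lit 31) (nat_lit 5) (nat_lit 344) (nat_lit 305) (nat_lit 131)) (XT.nd (nat_lit 78) (nat_lit 76) (nat_lit 0) (XT.lf (nat_lit 0) (nat_lit 20205110372) (nat_lit 152) (nat_lit 84503105397) (nat_lit 228) (nat_lit 16176851799) (nat_lit 28) (nat_lit 5) (nat_lit 30) (nat_lit 5) (nat_lit 31) (nat_lit 5) (nat_lit 345) (nat_lit 305) (nat_lit 130)) (XT.lf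 (nat_lit 0) (nat_lit 3628819956) (nat_lit 228) (nat_lit 49570785406) (nat_lit 76) (nat_lit 71992434074) (nat_lit 27) (nat_lit 5) (nat_lit 30) (nat_lit 5) (nat_lit 28) (nat_lit 5) (nat_lit 346) (nat_lit 305) (nat_lit 129)))))) (XT.nd (nat_lit 390) (nat_lit 304) (nat_lit 0) (XT.nd (nat_lit 156) (nat_lit 152) (nat_lit 0) (XT.nd (nat_lit 78) (nat_lit 0) (nat_lit 0) (XT.lf (nat_lit 0) (nat_lit 3954206326) (nat_lit 152) (nat_lit 19988021371) (nat_lit 228) (nat_lit 105755818196) (nat_lit 25) (nat_lit 5) (nat_lit 27) (nat_lit 5) (nat_lit 28) (nat_lit 5) (nat_lit 347) (nat_lit 305) (nat_lit 128)) (XT.lf (nat_lit 0) (nat_lit 46356330185) (nat_lit 228) (nat_lit 72758103061) (nat_lit 76) (nat_lit 15260668919) (nat_lit 25) (nat_lit 5) (nat_lit 28) (nat_lit 5) (nat_lit 26) (nat_lit 5) (nat_lit 348) (nat_lit 305) (nat_lit 127))) (XT.nd (nat_lit 78) (nat_lit 152) (nat_lit 0) (XT.lf (nat_lit 0) (nat_lit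 70218213683) (nat_lit 228) (nat_lit 17451717433) (nat_lit 76) (nat_lit 51599727016) (nat_lit 25) (nat_lit 5) (nat_lit 28) (nat_lit 5) (nat_lit 26) (nat_lit 5) (nat_lit 349) (nat_lit 305) (nat_lit 126)) (XT.nd (nat_lit 78) (nat_lit 0) (nat_lit 0) (XT.lf (nat_lit 0) (nat_lit 41962118054) (nat_lit 152) (nat_lit 53965651376) (nat_lit 228) (nat_lit 48448444207) (nat_lit 23) (nat_lit 5) (nat_lit 25) (nat_lit 5) (nat_lit 26) (nat_lit 5) (nat_lit 350) (nat_lit 305) (nat_lit 125)) (XT.lf (nat_lit 0) (nat_lit 104951625106) (nat_lit 152) (nat_lit 18266175888) (nat_lit 228) (nat_lit 26505546635) (nat_lit 23) (nat_lit 5) (nat_lit 25) (nat_lit 5) (nat_lit 26) (nat_lit 5) (nat_lit 351) (nat_lit 305) (nat_lit 124))))) (XT.nd (nat_lit 156) (nat_lit 152) (nat_lit 0) (XT.nd (nat_lit 78) (nat_lit 76) (nat_lit 0) (XT.lf (nat_lit 0) (nat_lit 15962742330) (nat_lit 76) (nat_lit 136458332054) (nat_lit 152) (nat_lit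 2889327508) (nat_lit 22) (nat_lit 5) (nat_lit 23) (nat_lit 5) (nat_lit 24) (nat_lit 4) (nat_lit 352) (nat_lit 305) (nat_lit 123)) (XT.lf (nat_lit 0) (nat_lit 22276094342) (nat_lit 152) (nat_lit 80505396992) (nat_lit 76) (nat_lit 58324737279) (nat_lit 21) (nat_lit 5) (nat_lit 23) (nat_lit 5) (nat_lit 22) (nat_lit 5) (nat_lit 353) (nat_lit 305) (nat_lit 122))) (XT.nd (nat_lit 78) (nat_lit 152) (nat_lit 0) (XT.lf (nat_lit 0) (nat_lit 48602180993) (nat_lit 152) (nat_lit 18769232124) (nat_lit 76) (nat_lit 99818091054) (nat_lit 21) (nat_lit 5) (nat_lit 23) (nat_lit 5) (nat_lit 22) (nat_lit 5) (nat_lit 354) (nat_lit 305) (nat_lit 121)) (XT.nd (nat_lit 78) (nat_lit 0) (nat_lit 0) (XT.lf (nat_lit 0) (nat_lit 47575654470) (nat_lit 152) (nat_lit 29411224955) (nat_lit 228) (nat_lit 96552949189) (nat_lit 19) (nat_lit 5) (nat_lit 21) (nat_lit 5) (nat_lit 22) (nat_lit 5) (nat_lit 355) (nat_lit 305)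 (nat_lit 120)) (XT.lf (nat_lit 0) (nat_lit 107276519982) (nat_lit 228) (nat_lit 62471493284) (nat_lit 76) (nat_lit 10435371111) (nat_lit 19) (nat_lit 5) (nat_lit 22) (nat_lit 5) (nat_lit 20) (nat_lit 4) (nat_lit 356) (nat_lit 305) (nat_lit 119))))))))
noncomputable def xc221 : XT := (XT.nd (nat_lit 36816) (nat_lit 0) (nat_lit 3496) (XT.nd (nat_lit 780) (nat_lit 228) (nat_lit 0) (XT.nd (nat_lit 390) (nat_lit 228) (nat_lit 0) (XT.nd (nat_lit 156) (nat_lit 228) (nat_lit 0) (XT.nd (nat_lit 78) (nat_lit 0) (nat_lit 0) (XT.lf (nat_lit 0) (nat_lit 3835663559) (nat_lit 76) (nat_lit 135786562108) (nat_lit 152) (nat_lit 47509813541) (nat_lit 18) (nat_lit 5) (nat_lit 19) (nat_lit 5) (nat_lit 20) (nat_lit 4) (nat_lit 357) (nat_lit 305) (nat_lit 118)) (XT.lf (nat_lit 0) (nat_lit 75626287863) (nat_lit 76) (nat_lit 99016469897) (nat_lit 152) (nat_lit 19732492379) (nat_lit 18) (nat_lit 5) (nat_lit 19)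 (nat_lit 5) (nat_lit 20) (nat_lit 4) (nat_lit 358) (nat_lit 305) (nat_lit 117))) (XT.nd (nat_lit 78) (nat_lit 152) (nat_lit 0) (XT.lf (nat_lit 0) (nat_lit 9131327668) (nat_lit 152) (nat_lit 51122202642) (nat_lit 76) (nat_lit 141719748863) (nat_lit 17) (nat_lit 5) (nat_lit 19) (nat_lit 5) (nat_lit 18) (nat_lit 5) (nat_lit 359) (nat_lit 305) (nat_lit 116)) (XT.nd (nat_lit 78) (nat_lit 0) (nat_lit 0) (XT.lf (nat_lit 0) (nat_lit 20208507074) (nat_lit 152) (nat_lit 18881792394) (nat_lit 228) (nat_lit 170828981284) (nat_lit 15) (nat_lit 5) (nat_lit 17) (nat_lit 5) (nat_lit 18) (nat_lit 5) (nat_lit 360) (nat_lit 305) (nat_lit 115)) (XT.lf (nat_lit 0) (nat_lit 71810214338) (nat_lit 228) (nat_lit 121737021706) (nat_lit 76) (nat_lit 24652196980) (nat_lit 15) (nat_lit 5) (nat_lit 18) (nat_lit 5) (nat_lit 16) (nat_lit 4) (nat_lit 361) (nat_lit 305) (nat_lit 114))))) (XT.nd (nat_lit 156) (nat_lit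 152) (nat_lit 0) (XT.nd (nat_lit 78) (nat_lit 76) (nat_lit 0) (XT.lf (nat_lit 0) (nat_lit 106475276459) (nat_lit 228) (nat_lit 50674793389) (nat_lit 76) (nat_lit 69728065813) (nat_lit 15) (nat_lit 5) (nat_lit 18) (nat_lit 5) (nat_lit 16) (nat_lit 4) (nat_lit 362) (nat_lit 305) (nat_lit 113)) (XT.lf (nat_lit 0) (nat_lit 24731466116) (nat_lit 76) (nat_lit 118527885378) (nat_lit 152) (nat_lit 92712134255) (nat_lit 14) (nat_lit 5) (nat_lit 15) (nat_lit 5) (nat_lit 16) (nat_lit 4) (nat_lit 363) (nat_lit 305) (nat_lit 112))) (XT.nd (nat_lit 78) (nat_lit 152) (nat_lit 0) (XT.lf (nat_lit 0) (nat_lit 105666721750) (nat_lit 76) (nat_lit 77073750640) (nat_lit 152) (nat_lit 62736139139) (nat_lit 14) (nat_lit 5) (nat_lit 15) (nat_lit 5) (nat_lit 16) (nat_lit 4) (nat_lit 364) (nat_lit 305) (nat_lit 111)) (XT.nd (nat_lit 78) (nat_lit 152) (nat_lit 0) (XT.lf (nat_lit 0) (nat_lit 190648138980) (nat_lit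 76) (nat_lit 33547167462) (nat_lit 152) (nat_lit 31261704582) (nat_lit 14) (nat_lit 5) (nat_lit 15) (nat_lit 5) (nat_lit 16) (nat_lit 4) (nat_lit 365) (nat_lit 305) (nat_lit 110)) (XT.lf (nat_lit 0) (nat_lit 2147274259) (nat_lit 152) (nat_lit 251743977804) (nat_lit 76) (nat_lit 12022884102) (nat_lit 12) (nat_lit 5) (nat_lit 14) (nat_lit 5) (nat_lit 13) (nat_lit 4) (nat_lit 366) (nat_lit 305) (nat_lit 109)))))) (XT.nd (nat_lit 390) (nat_lit 152) (nat_lit 0) (XT.nd (nat_lit 156) (nat_lit 76) (nat_lit 0) (XT.nd (nat_lit 78) (nat_lit 0) (nat_lit 0) (XT.lf (nat_lit 0) (nat_lit 37841290679) (nat_lit 152) (nat_lit 178572101568) (nat_lit 76) (nat_lit 60371841866) (nat_lit 12) (nat_lit 5) (nat_lit 14) (nat_lit 5) (nat_lit 13) (nat_lit 4) (nat_lit 367) (nat_lit 305) (nat_lit 108)) (XT.lf (nat_lit 0) (nat_lit 75319694384) (nat_lit 152) (nat_lit 101742190569) (nat_lit 76) (nat_lit 111138017913)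 (nat_lit 12) (nat_lit 5) (nat_lit 14) (nat_lit 5) (nat_lit 13) (nat_lit 4) (nat_lit 368) (nat_lit 305) (nat_lit 107))) (XT.nd (nat_lit 78) (nat_lit 76) (nat_lit 0) (XT.lf (nat_lit 0) (nat_lit 114671719668) (nat_lit 152) (nat_lit 21071316446) (nat_lit 76) (nat_lit 164442284092) (nat_lit 12) (nat_lit 5) (nat_lit 14) (nat_lit 5) (nat_lit 13) (nat_lit 4) (nat_lit 369) (nat_lit 305) (nat_lit 106)) (XT.nd (nat_lit 78) (nat_lit 0) (nat_lit 0) (XT.lf (nat_lit 0) (nat_lit 65736575249) (nat_lit 76) (nat_lit 91280818746) (nat_lit 152) (nat_lit 155701312239) (nat_lit 11) (nat_lit 5) (nat_lit 12) (nat_lit 5) (nat_lit 13) (nat_lit 4) (nat_lit 370) (nat_lit 305) (nat_lit 105)) (XT.lf (nat_lit 0) (nat_lit 157615911162) (nat_lit 76) (nat_lit 44221015183) (nat_lit 152) (nat_lit 124024006702) (nat_lit 11) (nat_lit 5) (nat_lit 12) (nat_lit 5) (nat_lit 13) (nat_lit 4) (nat_lit 371) (nat_lit 305) (nat_lit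 104))))) (XT.nd (nat_lit 312) (nat_lit 76) (nat_lit 0) (XT.nd (nat_lit 78) (nat_lit 76) (nat_lit 0) (XT.lf (nat_lit 0) (nat_lit 248978224887) (nat_lit 152) (nat_lit 85652600866) (nat_lit 0) (nat_lit 5025406161) (nat_lit 11) (nat_lit 5) (nat_lit 13) (nat_lit 4) (nat_lit 11) (nat_lit 4) (nat_lit 372) (nat_lit 305) (nat_lit 103)) (XT.lf (nat_lit 0) (nat_lit 355419977) (nat_lit 76) (nat_lit 298851396306) (nat_lit 76) (nat_lit 54897968224) (nat_lit 10) (nat_lit 4) (nat_lit 11) (nat_lit 5) (nat_lit 11) (nat_lit 4) (nat_lit 373) (nat_lit 305) (nat_lit 102))) (XT.nd (nat_lit 35178) (nat_lit 0) (nat_lit 5700) (XT.lf (nat_lit 0) (nat_lit 66151154993) (nat_lit 152) (nat_lit 108345219771) (nat_lit 76) (nat_lit 227153007789) (nat_lit 9) (nat_lit 5) (nat_lit 11) (nat_lit 5) (nat_lit 10) (nat_lit 4) (nat_lit 376) (nat_lit 305) (nat_lit 99)) (XT.nd (nat_lit 78) (nat_lit 0) (nat_lit 0) (XT.lf (nat_lit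 0) (nat_lit 7029830466) (nat_lit 0) (nat_lit 7029830466) (nat_lit 684) (nat_lit 5258563015) (nat_lit 84) (nat_lit 5) (nat_lit 84) (nat_lit 3) (nat_lit 93) (nat_lit 3) (nat_lit 306) (nat_lit 306) (nat_lit 168)) (XT.lf (nat_lit 0) (nat_lit 28916386431) (nat_lit 684) (nat_lit 7380312677) (nat_lit 760) (nat_lit 3300861036) (nat_lit 84) (nat_lit 5) (nat_lit 93) (nat_lit 3) (nat_lit 94) (nat_lit 5) (nat_lit 307) (nat_lit 306) (nat_lit 167))))))) (XT.nd (nat_lit 780) (nat_lit 1672) (nat_lit 0) (XT.nd (nat_lit 390) (nat_lit 532) (nat_lit 0) (XT.nd (nat_lit 156) (nat_lit 0) (nat_lit 76) (XT.nd (nat_lit 78) (nat_lit 0) (nat_lit 0) (XT.lf (nat_lit 76) (nat_lit 10789361637) (nat_lit 0) (nat_lit 19360287027) (nat_lit 760) (nat_lit 10437268192) (nat_lit 85) (nat_lit 5) (nat_lit 84) (nat_lit 5) (nat_lit 94) (nat_lit 5) (nat_lit 308) (nat_lit 306) (nat_lit 166)) (XT.lf (nat_lit 76) (nat_lit 30122306684)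 (nat_lit 0) (nat_lit 1444763543) (nat_lit 760) (nat_lit 10052552151) (nat_lit 85) (nat_lit 5) (nat_lit 84) (nat_lit 5) (nat_lit 94) (nat_lit 5) (nat_lit 309) (nat_lit 306) (nat_lit 165))) (XT.nd (nat_lit 78) (nat_lit 0) (nat_lit 0) (XT.lf (nat_lit 76) (nat_lit 7691458170) (nat_lit 0) (nat_lit 25752771619) (nat_lit 760) (nat_lit 9240295547) (nat_lit 86) (nat_lit 5) (nat_lit 85) (nat_lit 5) (nat_lit 95) (nat_lit 5) (nat_lit 310) (nat_lit 306) (nat_lit 164)) (XT.nd (nat_lit 78) (nat_lit 0) (nat_lit 76) (XT.lf (nat_lit 76) (nat_lit 28212876154) (nat_lit 0) (nat_lit 7418116914) (nat_lit 760) (nat_lit 8160898335) (nat_lit 86) (nat_lit 5) (nat_lit 85) (nat_lit 5) (nat_lit 95) (nat_lit 5) (nat_lit 311) (nat_lit 306) (nat_lit 163)) (XT.lf (nat_lit 76) (nat_lit 4772187036) (nat_lit 0) (nat_lit 33412015396) (nat_lit 760) (nat_lit 6757572941) (nat_lit 87) (nat_lit 5) (nat_lit 86) (nat_lit 5) (nat_lit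 96) (nat_lit 5) (nat_lit 312) (nat_lit 306) (nat_lit 162))))) (XT.nd (nat_lit 156) (nat_lit 684) (nat_lit 0) (XT.nd (nat_lit 78) (nat_lit 0) (nat_lit 76) (XT.lf (nat_lit 76) (nat_lit 26554671634) (nat_lit 0) (nat_lit 14691814725) (nat_lit 760) (nat_lit 4883601237) (nat_lit 87) (nat_lit 5) (nat_lit 86) (nat_lit 5) (nat_lit 96) (nat_lit 5) (nat_lit 313) (nat_lit 306) (nat_lit 161)) (XT.lf (nat_lit 76) (nat_lit 2034518374) (nat_lit 0) (nat_lit 42534674529) (nat_lit 760) (nat_lit 2803261637) (nat_lit 88) (nat_lit 5) (nat_lit 87) (nat_lit 5) (nat_lit 97) (nat_lit 5) (nat_lit 314) (nat_lit 306) (nat_lit 160))) (XT.nd (nat_lit 78) (nat_lit 760) (nat_lit 0) (XT.lf (nat_lit 76) (nat_lit 25154219955) (nat_lit 0) (nat_lit 23470404105) (nat_lit 760) (nat_lit 23990623) (nat_lit 88) (nat_lit 5) (nat_lit 87) (nat_lit 5) (nat_lit 97) (nat_lit 5) (nat_lit 315) (nat_lit 306) (nat_lit 159)) (XT.nd (nat_lit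 78) (nat_lit 0) (nat_lit 76) (XT.lf (nat_lit 0) (nat_lit 2799772112) (nat_lit 760) (nat_lit 605385993) (nat_lit 836) (nat_lit 46581261178) (nat_lit 77) (nat_lit 5) (nat_lit 87) (nat_lit 5) (nat_lit 88) (nat_lit 5) (nat_lit 316) (nat_lit 306) (nat_lit 158)) (XT.lf (nat_lit 0) (nat_lit 6421988405) (nat_lit 760) (nat_lit 27453466422) (nat_lit 76) (nat_lit 17482739765) (nat_lit 78) (nat_lit 5) (nat_lit 88) (nat_lit 5) (nat_lit 79) (nat_lit 5) (nat_lit 317) (nat_lit 306) (nat_lit 157)))))) (XT.nd (nat_lit 390) (nat_lit 912) (nat_lit 0) (XT.nd (nat_lit 156) (nat_lit 380) (nat_lit 0) (XT.nd (nat_lit 78) (nat_lit 456) (nat_lit 0) (XT.lf (nat_lit 0) (nat_lit 10289873111) (nat_lit 760) (nat_lit 3194189450) (nat_lit 76) (nat_lit 39311271778) (nat_lit 78) (nat_lit 5) (nat_lit 88) (nat_lit 5) (nat_lit 79) (nat_lit 5) (nat_lit 318) (nat_lit 306) (nat_lit 156)) (XT.lf (nat_lit 0) (nat_lit 14838500891)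 (nat_lit 532) (nat_lit 31402933348) (nat_lit 76) (nat_lit 8038532774) (nat_lit 72) (nat_lit 5) (nat_lit 79) (nat_lit 5) (nat_lit 73) (nat_lit 5) (nat_lit 319) (nat_lit 306) (nat_lit 155))) (XT.nd (nat_lit 78) (nat_lit 380) (nat_lit 0) (XT.lf (nat_lit 0) (nat_lit 19889043423) (nat_lit 532) (nat_lit 5696856444) (nat_lit 76) (nat_lit 30239210506) (nat_lit 72) (nat_lit 5) (nat_lit 79) (nat_lit 5) (nat_lit 73) (nat_lit 5) (nat_lit 320) (nat_lit 306) (nat_lit 154)) (XT.nd (nat_lit 78) (nat_lit 0) (nat_lit 0) (XT.lf (nat_lit 0) (nat_lit 21997135884) (nat_lit 380) (nat_lit 3536939094) (nat_lit 456) (nat_lit 31896340894) (nat_lit 67) (nat_lit 5) (nat_lit 72) (nat_lit 5) (nat_lit 73) (nat_lit 5) (nat_lit 321) (nat_lit 306) (nat_lit 153)) (XT.lf (nat_lit 0) (nat_lit 31864229015) (nat_lit 456) (nat_lit 8146856863) (nat_lit 76) (nat_lit 19084760145) (nat_lit 67) (nat_lit 5) (nat_lit 73) (nat_lit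 5) (nat_lit 68) (nat_lit 5) (nat_lit 322) (nat_lit 306) (nat_lit 152))))) (XT.nd (nat_lit 234) (nat_lit 304) (nat_lit 0) (XT.nd (nat_lit 78) (nat_lit 304) (nat_lit 0) (XT.lf (nat_lit 0) (nat_lit 21120477198) (nat_lit 304) (nat_lit 17776787352) (nat_lit 380) (nat_lit 21927967225) (nat_lit 63) (nat_lit 5) (nat_lit 67) (nat_lit 5) (nat_lit 68) (nat_lit 5) (nat_lit 323) (nat_lit 306) (nat_lit 151)) (XT.nd (nat_lit 78) (nat_lit 304) (nat_lit 0) (XT.lf (nat_lit 0) (nat_lit 46507818995) (nat_lit 380) (nat_lit 10590842081) (nat_lit 76) (nat_lit 5531135030) (nat_lit 63) (nat_lit 5) (nat_lit 68) (nat_lit 5) (nat_lit 64) (nat_lit 5) (nat_lit 324) (nat_lit 306) (nat_lit 150)) (XT.lf (nat_lit 0) (nat_lit 20336860105) (nat_lit 304) (nat_lit 34769725013) (nat_lit 380) (nat_lit 9387621862) (nat_lit 59) (nat_lit 5) (nat_lit 63) (nat_lit 5) (nat_lit 64) (nat_lit 5) (nat_lit 325) (nat_lit 306) (nat_lit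 149)))) (XT.nd (nat_lit 78) (nat_lit 304) (nat_lit 0) (XT.lf (nat_lit 0) (nat_lit 53177270217) (nat_lit 304) (nat_lit 11136164572) (nat_lit 380) (nat_lit 2129498750) (nat_lit 59) (nat_lit 5) (nat_lit 63) (nat_lit 5) (nat_lit 64) (nat_lit 5) (nat_lit 326) (nat_lit 306) (nat_lit 148)) (XT.nd (nat_lit 78) (nat_lit 0) (nat_lit 0) (XT.lf (nat_lit 0) (nat_lit 5842404445) (nat_lit 304) (nat_lit 48974987940) (nat_lit 76) (nat_lit 13641087451) (nat_lit 55) (nat_lit 5) (nat_lit 59) (nat_lit 5) (nat_lit 56) (nat_lit 5) (nat_lit 327) (nat_lit 306) (nat_lit 147)) (XT.lf (nat_lit 0) (nat_lit 14551094775) (nat_lit 304) (nat_lit 16455442691) (nat_lit 76) (nat_lit 39546034713) (nat_lit 55) (nat_lit 5) (nat_lit 59) (nat_lit 5) (nat_lit 56) (nat_lit 5) (nat_lit 328) (nat_lit 306) (nat_lit 146))))))))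
noncomputable def xc222 : XT := (XT.nd (nat_lit 1560) (nat_lit 988) (nat_lit 0) (XT.nd (nat_lit 780) (nat_lit 988) (nat_lit 0) (XT.nd (nat_lit 390) (nat_lit 532) (nat_lit 0) (XT.nd (nat_lit 156) (nat_lit 456) (nat_lit 0) (XT.nd (nat_lit 78) (nat_lit 0) (nat_lit 0) (XT.lf (nat_lit 0) (nat_lit 18273637808) (nat_lit 304) (nat_lit 5705792734) (nat_lit 380) (nat_lit 48757730027) (nat_lit 51) (nat_lit 5) (nat_lit 55) (nat_lit 5) (nat_lit 56) (nat_lit 5) (nat_lit 329) (nat_lit 306) (nat_lit 145)) (XT.lf (nat_lit 0) (nat_lit 34487051854) (nat_lit 380) (nat_lit 20038170262) (nat_lit 76) (nat_lit 20475364711) (nat_lit 51) (nat_lit 5) (nat_lit 56) (nat_lit 5) (nat_lit 52) (nat_lit 5) (nat_lit 330) (nat_lit 306) (nat_lit 144))) (XT.nd (nat_lit 78) (nat_lit 228) (nat_lit 0) (XT.lf (nat_lit 0) (nat_lit 16543116618) (nat_lit 228) (nat_lit 29327746693) (nat_lit 304) (nat_lit 31488782422) (nat_lit 48)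 (nat_lit 5) (nat_lit 51) (nat_lit 5) (nat_lit 52) (nat_lit 5) (nat_lit 331) (nat_lit 306) (nat_lit 143)) (XT.nd (nat_lit 78) (nat_lit 228) (nat_lit 0) (XT.lf (nat_lit 0) (nat_lit 55647889788) (nat_lit 228) (nat_lit 2514347341) (nat_lit 304) (nat_lit 21657503577) (nat_lit 48) (nat_lit 5) (nat_lit 51) (nat_lit 5) (nat_lit 52) (nat_lit 5) (nat_lit 332) (nat_lit 306) (nat_lit 142)) (XT.lf (nat_lit 0) (nat_lit 14363223524) (nat_lit 228) (nat_lit 57328572678) (nat_lit 304) (nat_lit 10679865023) (nat_lit 45) (nat_lit 5) (nat_lit 48) (nat_lit 5) (nat_lit 49) (nat_lit 5) (nat_lit 333) (nat_lit 306) (nat_lit 141))))) (XT.nd (nat_lit 156) (nat_lit 228) (nat_lit 0) (XT.nd (nat_lit 78) (nat_lit 228) (nat_lit 0) (XT.lf (nat_lit 0) (nat_lit 1275916562) (nat_lit 304) (nat_lit 29428869083) (nat_lit 76) (nat_lit 54322914700) (nat_lit 44) (nat_lit 5) (nat_lit 48) (nat_lit 5) (nat_lit 45) (nat_lit 5) (nat_lit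 334) (nat_lit 306) (nat_lit 140)) (XT.lf (nat_lit 0) (nat_lit 11263918855) (nat_lit 228) (nat_lit 2381628322) (nat_lit 304) (nat_lit 74153492987) (nat_lit 41) (nat_lit 5) (nat_lit 44) (nat_lit 5) (nat_lit 45) (nat_lit 5) (nat_lit 335) (nat_lit 306) (nat_lit 139))) (XT.nd (nat_lit 78) (nat_lit 228) (nat_lit 0) (XT.lf (nat_lit 0) (nat_lit 27566483148) (nat_lit 304) (nat_lit 36107493316) (nat_lit 76) (nat_lit 26988330659) (nat_lit 41) (nat_lit 5) (nat_lit 45) (nat_lit 5) (nat_lit 42) (nat_lit 5) (nat_lit 336) (nat_lit 306) (nat_lit 138)) (XT.nd (nat_lit 78) (nat_lit 0) (nat_lit 0) (XT.lf (nat_lit 0) (nat_lit 6509665318) (nat_lit 228) (nat_lit 35813650339) (nat_lit 304) (nat_lit 51338430559) (nat_lit 38) (nat_lit 5) (nat_lit 41) (nat_lit 5) (nat_lit 42) (nat_lit 5) (nat_lit 337) (nat_lit 306) (nat_lit 137)) (XT.lf (nat_lit 0) (nat_lit 52510113575) (nat_lit 228) (nat_lit 5918568242) (nat_lit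 304) (nat_lit 38351942060) (nat_lit 38) (nat_lit 5) (nat_lit 41) (nat_lit 5) (nat_lit 42) (nat_lit 5) (nat_lit 338) (nat_lit 306) (nat_lit 136)))))) (XT.nd (nat_lit 390) (nat_lit 532) (nat_lit 0) (XT.nd (nat_lit 156) (nat_lit 304) (nat_lit 0) (XT.nd (nat_lit 78) (nat_lit 0) (nat_lit 0) (XT.lf (nat_lit 0) (nat_lit 368123927) (nat_lit 152) (nat_lit 75373845256) (nat_lit 228) (nat_lit 24293344748) (nat_lit 36) (nat_lit 5) (nat_lit 38) (nat_lit 5) (nat_lit 39) (nat_lit 5) (nat_lit 339) (nat_lit 306) (nat_lit 135)) (XT.lf (nat_lit 0) (nat_lit 48674326971) (nat_lit 152) (nat_lit 46091044403) (nat_lit 228) (nat_lit 8645145693) (nat_lit 36) (nat_lit 5) (nat_lit 38) (nat_lit 5) (nat_lit 39) (nat_lit 5) (nat_lit 340) (nat_lit 306) (nat_lit 134))) (XT.nd (nat_lit 78) (nat_lit 228) (nat_lit 0) (XT.lf (nat_lit 0) (nat_lit 7535550112) (nat_lit 228) (nat_lit 7681267014) (nat_lit 76) (nat_lit 91731623075)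 (nat_lit 35) (nat_lit 5) (nat_lit 38) (nat_lit 5) (nat_lit 36) (nat_lit 5) (nat_lit 341) (nat_lit 306) (nat_lit 133)) (XT.nd (nat_lit 78) (nat_lit 0) (nat_lit 0) (XT.lf (nat_lit 0) (nat_lit 25186627328) (nat_lit 304) (nat_lit 67945945689) (nat_lit 76) (nat_lit 17476007230) (nat_lit 32) (nat_lit 5) (nat_lit 36) (nat_lit 5) (nat_lit 33) (nat_lit 5) (nat_lit 342) (nat_lit 306) (nat_lit 132)) (XT.lf (nat_lit 0) (nat_lit 44101250202) (nat_lit 304) (nat_lit 18907440057) (nat_lit 76) (nat_lit 51423988353) (nat_lit 32) (nat_lit 5) (nat_lit 36) (nat_lit 5) (nat_lit 33) (nat_lit 5) (nat_lit 343) (nat_lit 306) (nat_lit 131))))) (XT.nd (nat_lit 156) (nat_lit 380) (nat_lit 0) (XT.nd (nat_lit 78) (nat_lit 0) (nat_lit 0) (XT.lf (nat_lit 0) (nat_lit 33659312452) (nat_lit 152) (nat_lit 30827157726) (nat_lit 228) (nat_lit 53935269282) (nat_lit 30) (nat_lit 5) (nat_lit 32) (nat_lit 5) (nat_lit 33) (nat_lit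 5) (nat_lit 344) (nat_lit 306) (nat_lit 130)) (XT.lf (nat_lit 0) (nat_lit 86262035189) (nat_lit 228) (nat_lit 33135931867) (nat_lit 76) (nat_lit 3193732913) (nat_lit 30) (nat_lit 5) (nat_lit 33) (nat_lit 5) (nat_lit 31) (nat_lit 5) (nat_lit 345) (nat_lit 306) (nat_lit 129))) (XT.nd (nat_lit 78) (nat_lit 228) (nat_lit 0) (XT.lf (nat_lit 0) (nat_lit 21245565086) (nat_lit 152) (nat_lit 88717270197) (nat_lit 228) (nat_lit 16965501162) (nat_lit 28) (nat_lit 5) (nat_lit 30) (nat_lit 5) (nat_lit 31) (nat_lit 5) (nat_lit 346) (nat_lit 306) (nat_lit 128)) (XT.nd (nat_lit 78) (nat_lit 152) (nat_lit 0) (XT.lf (nat_lit 0) (nat_lit 3828877066) (nat_lit 228) (nat_lit 52019926177) (nat_lit 76) (nat_lit 75601885531) (nat_lit 27) (nat_lit 5) (nat_lit 30) (nat_lit 5) (nat_lit 28) (nat_lit 5) (nat_lit 347) (nat_lit 306) (nat_lit 127)) (XT.lf (nat_lit 0) (nat_lit 4180840972) (nat_lit 152) (nat_lit 20976679330)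 (nat_lit 228) (nat_lit 111024498036) (nat_lit 25) (nat_lit 5) (nat_lit 27) (nat_lit 5) (nat_lit 28) (nat_lit 5) (nat_lit 348) (nat_lit 306) (nat_lit 126))))))) (XT.nd (nat_lit 780) (nat_lit 456) (nat_lit 0) (XT.nd (nat_lit 390) (nat_lit 304) (nat_lit 0) (XT.nd (nat_lit 156) (nat_lit 228) (nat_lit 0) (XT.nd (nat_lit 78) (nat_lit 0) (nat_lit 0) (XT.lf (nat_lit 0) (nat_lit 48691621885) (nat_lit 228) (nat_lit 76367735406) (nat_lit 76) (nat_lit 16033606424) (nat_lit 25) (nat_lit 5) (nat_lit 28) (nat_lit 5) (nat_lit 26) (nat_lit 5) (nat_lit 349) (nat_lit 306) (nat_lit 125)) (XT.lf (nat_lit 0) (nat_lit 73745767406) (nat_lit 228) (nat_lit 18297376820) (nat_lit 76) (nat_lit 54189145805) (nat_lit 25) (nat_lit 5) (nat_lit 28) (nat_lit 5) (nat_lit 26) (nat_lit 5) (nat_lit 350) (nat_lit 306) (nat_lit 124))) (XT.nd (nat_lit 78) (nat_lit 76) (nat_lit 0) (XT.lf (nat_lit 0) (nat_lit 44086716143) (nat_lit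 152) (nat_lit 56653705890) (nat_lit 228) (nat_lit 50853771122) (nat_lit 23) (nat_lit 5) (nat_lit 25) (nat_lit 5) (nat_lit 26) (nat_lit 5) (nat_lit 351) (nat_lit 306) (nat_lit 123)) (XT.nd (nat_lit 78) (nat_lit 76) (nat_lit 0) (XT.lf (nat_lit 0) (nat_lit 110224437015) (nat_lit 152) (nat_lit 19169743677) (nat_lit 228) (nat_lit 27814542733) (nat_lit 23) (nat_lit 5) (nat_lit 25) (nat_lit 5) (nat_lit 26) (nat_lit 5) (nat_lit 352) (nat_lit 306) (nat_lit 122)) (XT.lf (nat_lit 0) (nat_lit 16786332340) (nat_lit 76) (nat_lit 143271090043) (nat_lit 152) (nat_lit 3017718602) (nat_lit 22) (nat_lit 5) (nat_lit 23) (nat_lit 5) (nat_lit 24) (nat_lit 4) (nat_lit 353) (nat_lit 306) (nat_lit 121))))) (XT.nd (nat_lit 156) (nat_lit 228) (nat_lit 0) (XT.nd (nat_lit 78) (nat_lit 0) (nat_lit 0) (XT.lf (nat_lit 0) (nat_lit 23404718841) (nat_lit 152) (nat_lit 84505921208) (nat_lit 76) (nat_lit 61250144231) (nat_lit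 21) (nat_lit 5) (nat_lit 23) (nat_lit 5) (nat_lit 22) (nat_lit 5) (nat_lit 354) (nat_lit 306) (nat_lit 120)) (XT.lf (nat_lit 0) (nat_lit 51046404121) (nat_lit 152) (nat_lit 19684126460) (nat_lit 76) (nat_lit 104817729024) (nat_lit 21) (nat_lit 5) (nat_lit 23) (nat_lit 5) (nat_lit 22) (nat_lit 5) (nat_lit 355) (nat_lit 306) (nat_lit 119))) (XT.nd (nat_lit 78) (nat_lit 76) (nat_lit 0) (XT.lf (nat_lit 0) (nat_lit 49977624346) (nat_lit 152) (nat_lit 30872403046) (nat_lit 228) (nat_lit 101366089052) (nat_lit 19) (nat_lit 5) (nat_lit 21) (nat_lit 5) (nat_lit 22) (nat_lit 5) (nat_lit 356) (nat_lit 306) (nat_lit 118)) (XT.nd (nat_lit 78) (nat_lit 76) (nat_lit 0) (XT.lf (nat_lit 0) (nat_lit 112653632165) (nat_lit 228) (nat_lit 65572454372) (nat_lit 76) (nat_lit 10965789987) (nat_lit 19) (nat_lit 5) (nat_lit 22) (nat_lit 5) (nat_lit 20) (nat_lit 4) (nat_lit 357) (nat_lit 306) (nat_lit 117)) (XT.lf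 (nat_lit 0) (nat_lit 4049695579) (nat_lit 76) (nat_lit 142566642247) (nat_lit 152) (nat_lit 49871641144) (nat_lit 18) (nat_lit 5) (nat_lit 19) (nat_lit 5) (nat_lit 20) (nat_lit 4) (nat_lit 358) (nat_lit 306) (nat_lit 116)))))) (XT.nd (nat_lit 390) (nat_lit 228) (nat_lit 0) (XT.nd (nat_lit 156) (nat_lit 152) (nat_lit 0) (XT.nd (nat_lit 78) (nat_lit 76) (nat_lit 0) (XT.lf (nat_lit 0) (nat_lit 79428791629) (nat_lit 76) (nat_lit 103958485806) (nat_lit 152) (nat_lit 20706104547) (nat_lit 18) (nat_lit 5) (nat_lit 19) (nat_lit 5) (nat_lit 20) (nat_lit 4) (nat_lit 359) (nat_lit 306) (nat_lit 115)) (XT.lf (nat_lit 0) (nat_lit 9599890215) (nat_lit 152) (nat_lit 53657725273) (nat_lit 76) (nat_lit 148813717338) (nat_lit 17) (nat_lit 5) (nat_lit 19) (nat_lit 5) (nat_lit 18) (nat_lit 5) (nat_lit 360) (nat_lit 306) (nat_lit 114))) (XT.nd (nat_lit 78) (nat_lit 0) (nat_lit 0) (XT.lf (nat_lit 0) (nat_lit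 21239187873) (nat_lit 152) (nat_lit 19817367730) (nat_lit 228) (nat_lit 179358092128) (nat_lit 15) (nat_lit 5) (nat_lit 17) (nat_lit 5) (nat_lit 18) (nat_lit 5) (nat_lit 361) (nat_lit 306) (nat_lit 113)) (XT.nd (nat_lit 78) (nat_lit 0) (nat_lit 0) (XT.lf (nat_lit 0) (nat_lit 75412033716) (nat_lit 228) (nat_lit 127804139866) (nat_lit 76) (nat_lit 25892656137) (nat_lit 15) (nat_lit 5) (nat_lit 18) (nat_lit 5) (nat_lit 16) (nat_lit 4) (nat_lit 362) (nat_lit 306) (nat_lit 112)) (XT.lf (nat_lit 0) (nat_lit 111809810435) (nat_lit 228) (nat_lit 53189739796) (nat_lit 76) (nat_lit 73221944635) (nat_lit 15) (nat_lit 5) (nat_lit 18) (nat_lit 5) (nat_lit 16) (nat_lit 4) (nat_lit 363) (nat_lit 306) (nat_lit 111))))) (XT.nd (nat_lit 234) (nat_lit 152) (nat_lit 0) (XT.nd (nat_lit 78) (nat_lit 0) (nat_lit 0) (XT.lf (nat_lit 0) (nat_lit 25986529566) (nat_lit 76) (nat_lit 124446335473) (nat_lit 152) (nat_lit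 97336659060) (nat_lit 14) (nat_lit 5) (nat_lit 15) (nat_lit 5) (nat_lit 16) (nat_lit 4) (nat_lit 364) (nat_lit 306) (nat_lit 110)) (XT.nd (nat_lit 78) (nat_lit 0) (nat_lit 0) (XT.lf (nat_lit 0) (nat_lit 110967667500) (nat_lit 76) (nat_lit 80919872293) (nat_lit 152) (nat_lit 65862391898) (nat_lit 14) (nat_lit 5) (nat_lit 15) (nat_lit 5) (nat_lit 16) (nat_lit 4) (nat_lit 365) (nat_lit 306) (nat_lit 109)) (XT.lf (nat_lit 0) (nat_lit 200197317036) (nat_lit 76) (nat_lit 35217320236) (nat_lit 152) (nat_lit 32814738194) (nat_lit 14) (nat_lit 5) (nat_lit 15) (nat_lit 5) (nat_lit 16) (nat_lit 4) (nat_lit 366) (nat_lit 306) (nat_lit 108)))) (XT.nd (nat_lit 78) (nat_lit 0) (nat_lit 0) (XT.lf (nat_lit 0) (nat_lit 2264281122) (nat_lit 152) (nat_lit 264313982552) (nat_lit 76) (nat_lit 12631090035) (nat_lit 12) (nat_lit 5) (nat_lit 14) (nat_lit 5) (nat_lit 13) (nat_lit 4) (nat_lit 367) (nat_lit 306)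 (nat_lit 107)) (XT.nd (nat_lit 78) (nat_lit 0) (nat_lit 0) (XT.lf (nat_lit 0) (nat_lit 39742539166) (nat_lit 152) (nat_lit 187484331273) (nat_lit 76) (nat_lit 63397159414) (nat_lit 12) (nat_lit 5) (nat_lit 14) (nat_lit 5) (nat_lit 13) (nat_lit 4) (nat_lit 368) (nat_lit 306) (nat_lit 106)) (XT.lf (nat_lit 0) (nat_lit 79094425724) (nat_lit 152) (nat_lit 106813704504) (nat_lit 76) (nat_lit 116701324004) (nat_lit 12) (nat_lit 5) (nat_lit 14) (nat_lit 5) (nat_lit 13) (nat_lit 4) (nat_lit 369) (nat_lit 306) (nat_lit 105))))))))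
noncomputable def xc223 : XT := (XT.nd (nat_lit 36972) (nat_lit 0) (nat_lit 1596) (XT.nd (nat_lit 36192) (nat_lit 0) (nat_lit 4256) (XT.nd (nat_lit 35802) (nat_lit 0) (nat_lit 5548) (XT.nd (nat_lit 156) (nat_lit 0) (nat_lit 0) (XT.nd (nat_lit 78) (nat_lit 76) (nat_lit 0) (XT.lf (nat_lit 0) (nat_lit 120413635767) (nat_lit 152) (nat_lit 22110029322) (nat_lit 76) (nat_lit 172670498483) (nat_lit 12) (nat_lit 5) (nat_lit 14) (nat_lit 5) (nat_lit 13) (nat_lit 4) (nat_lit 370) (nat_lit 306) (nat_lit 104)) (XT.lf (nat_lit 0) (nat_lit 69038017394) (nat_lit 76) (nat_lit 95838407900) (nat_lit 152) (nat_lit 163477802325) (nat_lit 11) (nat_lit 5) (nat_lit 12) (nat_lit 5) (nat_lit 13) (nat_lit 4) (nat_lit 371) (nat_lit 306) (nat_lit 103))) (XT.nd (nat_lit 78) (nat_lit 0) (nat_lit 0) (XT.lf (nat_lit 0) (nat_lit 165510624228) (nat_lit 76) (nat_lit 46425921387) (nat_lit 152) (nat_lit 130217039870) (nat_lit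 11) (nat_lit 5) (nat_lit 12) (nat_lit 5) (nat_lit 13) (nat_lit 4) (nat_lit 372) (nat_lit 306) (nat_lit 102)) (XT.nd (nat_lit 35490) (nat_lit 0) (nat_lit 5548) (XT.lf (nat_lit 0) (nat_lit 261434630308) (nat_lit 152) (nat_lit 89921692063) (nat_lit 0) (nat_lit 5282341127) (nat_lit 11) (nat_lit 5) (nat_lit 13) (nat_lit 4) (nat_lit 11) (nat_lit 4) (nat_lit 373) (nat_lit 306) (nat_lit 101)) (XT.lf (nat_lit 0) (nat_lit 7401424074) (nat_lit 0) (nat_lit 7401424074) (nat_lit 684) (nat_lit 5479183396) (nat_lit 84) (nat_lit 5) (nat_lit 84) (nat_lit 3) (nat_lit 93) (nat_lit 3) (nat_lit 307) (nat_lit 307) (nat_lit 166))))) (XT.nd (nat_lit 156) (nat_lit 0) (nat_lit 0) (XT.nd (nat_lit 78) (nat_lit 0) (nat_lit 0) (XT.lf (nat_lit 0) (nat_lit 30438187315) (nat_lit 684) (nat_lit 7706433958) (nat_lit 760) (nat_lit 3428839911) (nat_lit 84) (nat_lit 5) (nat_lit 93) (nat_lit 3) (nat_lit 94) (nat_lit 5) (nat_lit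 308) (nat_lit 307) (nat_lit 165)) (XT.lf (nat_lit 76) (nat_lit 11371032227) (nat_lit 0) (nat_lit 20359121163) (nat_lit 760) (nat_lit 10882288777) (nat_lit 85) (nat_lit 5) (nat_lit 84) (nat_lit 5) (nat_lit 94) (nat_lit 5) (nat_lit 309) (nat_lit 307) (nat_lit 164))) (XT.nd (nat_lit 78) (nat_lit 0) (nat_lit 76) (XT.lf (nat_lit 76) (nat_lit 31668614882) (nat_lit 0) (nat_lit 1546353896) (nat_lit 760) (nat_lit 10481996116) (nat_lit 85) (nat_lit 5) (nat_lit 84) (nat_lit 5) (nat_lit 94) (nat_lit 5) (nat_lit 310) (nat_lit 307) (nat_lit 163)) (XT.nd (nat_lit 78) (nat_lit 0) (nat_lit 0) (XT.lf (nat_lit 76) (nat_lit 8119606465) (nat_lit 0) (nat_lit 27063312073) (nat_lit 760) (nat_lit 9632355537) (nat_lit 86) (nat_lit 5) (nat_lit 85) (nat_lit 5) (nat_lit 95) (nat_lit 5) (nat_lit 311) (nat_lit 307) (nat_lit 162)) (XT.lf (nat_lit 76) (nat_lit 29665020329) (nat_lit 0) (nat_lit 7810834068) (nat_lit 760)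 (nat_lit 8502319644) (nat_lit 86) (nat_lit 5) (nat_lit 85) (nat_lit 5) (nat_lit 95) (nat_lit 5) (nat_lit 312) (nat_lit 307) (nat_lit 161)))))) (XT.nd (nat_lit 390) (nat_lit 760) (nat_lit 0) (XT.nd (nat_lit 156) (nat_lit 684) (nat_lit 0) (XT.nd (nat_lit 78) (nat_lit 0) (nat_lit 0) (XT.lf (nat_lit 76) (nat_lit 5055220952) (nat_lit 0) (nat_lit 35098857708) (nat_lit 760) (nat_lit 7031612797) (nat_lit 87) (nat_lit 5) (nat_lit 86) (nat_lit 5) (nat_lit 96) (nat_lit 5) (nat_lit 313) (nat_lit 307) (nat_lit 160)) (XT.lf (nat_lit 76) (nat_lit 27924714324) (nat_lit 0) (nat_lit 15441873596) (nat_lit 760) (nat_lit 5066982451) (nat_lit 87) (nat_lit 5) (nat_lit 86) (nat_lit 5) (nat_lit 96) (nat_lit 5) (nat_lit 314) (nat_lit 307) (nat_lit 159))) (XT.nd (nat_lit 78) (nat_lit 760) (nat_lit 0) (XT.lf (nat_lit 76) (nat_lit 2181081472) (nat_lit 0) (nat_lit 44672067055) (nat_lit 760) (nat_lit 2885027519) (nat_lit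 88) (nat_lit 5) (nat_lit 87) (nat_lit 5) (nat_lit 97) (nat_lit 5) (nat_lit 315) (nat_lit 307) (nat_lit 158)) (XT.nd (nat_lit 78) (nat_lit 0) (nat_lit 0) (XT.lf (nat_lit 0) (nat_lit 29452397) (nat_lit 760) (nat_lit 24624124361) (nat_lit 836) (nat_lit 26424681841) (nat_lit 77) (nat_lit 5) (nat_lit 87) (nat_lit 5) (nat_lit 88) (nat_lit 5) (nat_lit 316) (nat_lit 307) (nat_lit 157)) (XT.lf (nat_lit 0) (nat_lit 2991033393) (nat_lit 760) (nat_lit 593182136) (nat_lit 836) (nat_lit 48898851876) (nat_lit 77) (nat_lit 5) (nat_lit 87) (nat_lit 5) (nat_lit 88) (nat_lit 5) (nat_lit 317) (nat_lit 307) (nat_lit 156))))) (XT.nd (nat_lit 156) (nat_lit 836) (nat_lit 0) (XT.nd (nat_lit 78) (nat_lit 0) (nat_lit 0) (XT.lf (nat_lit 0) (nat_lit 6792451227) (nat_lit 760) (nat_lit 28781653304) (nat_lit 76) (nat_lit 18349427613) (nat_lit 78) (nat_lit 5) (nat_lit 88) (nat_lit 5) (nat_lit 79) (nat_lit 5) (nat_lit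 318) (nat_lit 307) (nat_lit 155)) (XT.lf (nat_lit 0) (nat_lit 10851379530) (nat_lit 760) (nat_lit 3311530885) (nat_lit 76) (nat_lit 41269740948) (nat_lit 78) (nat_lit 5) (nat_lit 88) (nat_lit 5) (nat_lit 79) (nat_lit 5) (nat_lit 319) (nat_lit 307) (nat_lit 154))) (XT.nd (nat_lit 78) (nat_lit 380) (nat_lit 0) (XT.lf (nat_lit 0) (nat_lit 15625792415) (nat_lit 532) (nat_lit 32928971358) (nat_lit 76) (nat_lit 8436838928) (nat_lit 72) (nat_lit 5) (nat_lit 79) (nat_lit 5) (nat_lit 73) (nat_lit 5) (nat_lit 320) (nat_lit 307) (nat_lit 153)) (XT.nd (nat_lit 78) (nat_lit 380) (nat_lit 0) (XT.lf (nat_lit 0) (nat_lit 20926701765) (nat_lit 532) (nat_lit 5939691021) (nat_lit 76) (nat_lit 31747722951) (nat_lit 72) (nat_lit 5) (nat_lit 79) (nat_lit 5) (nat_lit 73) (nat_lit 5) (nat_lit 321) (nat_lit 307) (nat_lit 152)) (XT.lf (nat_lit 0) (nat_lit 23138323371) (nat_lit 380) (nat_lit 3714249379) (nat_lit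 456) (nat_lit 33447188647) (nat_lit 67) (nat_lit 5) (nat_lit 72) (nat_lit 5) (nat_lit 73) (nat_lit 5) (nat_lit 322) (nat_lit 307) (nat_lit 151))))))) (XT.nd (nat_lit 780) (nat_lit 1216) (nat_lit 0) (XT.nd (nat_lit 390) (nat_lit 836) (nat_lit 0) (XT.nd (nat_lit 156) (nat_lit 304) (nat_lit 0) (XT.nd (nat_lit 78) (nat_lit 304) (nat_lit 0) (XT.lf (nat_lit 0) (nat_lit 33497237408) (nat_lit 456) (nat_lit 8512758567) (nat_lit 76) (nat_lit 20038571010) (nat_lit 67) (nat_lit 5) (nat_lit 73) (nat_lit 5) (nat_lit 68) (nat_lit 5) (nat_lit 323) (nat_lit 307) (nat_lit 150)) (XT.lf (nat_lit 0) (nat_lit 22217273792) (nat_lit 304) (nat_lit 18663392412) (nat_lit 380) (nat_lit 22983822626) (nat_lit 63) (nat_lit 5) (nat_lit 67) (nat_lit 5) (nat_lit 68) (nat_lit 5) (nat_lit 324) (nat_lit 307) (nat_lit 149))) (XT.nd (nat_lit 78) (nat_lit 304) (nat_lit 0) (XT.lf (nat_lit 0) (nat_lit 48869946431) (nat_lit 380)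 (nat_lit 11079677154) (nat_lit 76) (nat_lit 5809751587) (nat_lit 63) (nat_lit 5) (nat_lit 68) (nat_lit 5) (nat_lit 64) (nat_lit 5) (nat_lit 325) (nat_lit 307) (nat_lit 148)) (XT.nd (nat_lit 78) (nat_lit 0) (nat_lit 0) (XT.lf (nat_lit 0) (nat_lit 21393753576) (nat_lit 304) (nat_lit 36503773227) (nat_lit 380) (nat_lit 9819539508) (nat_lit 59) (nat_lit 5) (nat_lit 63) (nat_lit 5) (nat_lit 64) (nat_lit 5) (nat_lit 326) (nat_lit 307) (nat_lit 147)) (XT.lf (nat_lit 0) (nat_lit 55874277029) (nat_lit 304) (nat_lit 11688746099) (nat_lit 380) (nat_lit 2200294214) (nat_lit 59) (nat_lit 5) (nat_lit 63) (nat_lit 5) (nat_lit 64) (nat_lit 5) (nat_lit 327) (nat_lit 307) (nat_lit 146))))) (XT.nd (nat_lit 156) (nat_lit 532) (nat_lit 0) (XT.nd (nat_lit 78) (nat_lit 0) (nat_lit 0) (XT.lf (nat_lit 0) (nat_lit 6168103427) (nat_lit 304) (nat_lit 51383368659) (nat_lit 76) (nat_lit 14328191993) (nat_lit 55)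 (nat_lit 5) (nat_lit 59) (nat_lit 5) (nat_lit 56) (nat_lit 5) (nat_lit 328) (nat_lit 307) (nat_lit 145)) (XT.lf (nat_lit 0) (nat_lit 15310629285) (nat_lit 304) (nat_lit 17239768466) (nat_lit 76) (nat_lit 41528146134) (nat_lit 55) (nat_lit 5) (nat_lit 59) (nat_lit 5) (nat_lit 56) (nat_lit 5) (nat_lit 329) (nat_lit 307) (nat_lit 144))) (XT.nd (nat_lit 78) (nat_lit 228) (nat_lit 0) (XT.lf (nat_lit 0) (nat_lit 19225145955) (nat_lit 304) (nat_lit 5984303613) (nat_lit 380) (nat_lit 51162961498) (nat_lit 51) (nat_lit 5) (nat_lit 55) (nat_lit 5) (nat_lit 56) (nat_lit 5) (nat_lit 330) (nat_lit 307) (nat_lit 143)) (XT.nd (nat_lit 78) (nat_lit 228) (nat_lit 0) (XT.lf (nat_lit 0) (nat_lit 36241074288) (nat_lit 380) (nat_lit 21002623581) (nat_lit 76) (nat_lit 21505382275) (nat_lit 51) (nat_lit 5) (nat_lit 56) (nat_lit 5) (nat_lit 52) (nat_lit 5) (nat_lit 331) (nat_lit 307) (nat_lit 142)) (XT.lf (nat_lit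 0) (nat_lit 17407123528) (nat_lit 228) (nat_lit 30786115291) (nat_lit 304) (nat_lit 33032897556) (nat_lit 48) (nat_lit 5) (nat_lit 51) (nat_lit 5) (nat_lit 52) (nat_lit 5) (nat_lit 332) (nat_lit 307) (nat_lit 141)))))) (XT.nd (nat_lit 390) (nat_lit 684) (nat_lit 0) (XT.nd (nat_lit 156) (nat_lit 304) (nat_lit 0) (XT.nd (nat_lit 78) (nat_lit 228) (nat_lit 0) (XT.lf (nat_lit 0) (nat_lit 58465380542) (nat_lit 228) (nat_lit 2632427816) (nat_lit 304) (nat_lit 22711498768) (nat_lit 48) (nat_lit 5) (nat_lit 51) (nat_lit 5) (nat_lit 52) (nat_lit 5) (nat_lit 333) (nat_lit 307) (nat_lit 140)) (XT.lf (nat_lit 0) (nat_lit 15117195289) (nat_lit 228) (nat_lit 60186015166) (nat_lit 304) (nat_lit 11185647231) (nat_lit 45) (nat_lit 5) (nat_lit 48) (nat_lit 5) (nat_lit 49) (nat_lit 5) (nat_lit 334) (nat_lit 307) (nat_lit 139))) (XT.nd (nat_lit 78) (nat_lit 228) (nat_lit 0) (XT.lf (nat_lit 0) (nat_lit 1365720117)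 (nat_lit 304) (nat_lit 30865306122) (nat_lit 76) (nat_lit 57046717577) (nat_lit 44) (nat_lit 5) (nat_lit 48) (nat_lit 5) (nat_lit 45) (nat_lit 5) (nat_lit 335) (nat_lit 307) (nat_lit 138)) (XT.nd (nat_lit 78) (nat_lit 0) (nat_lit 0) (XT.lf (nat_lit 0) (nat_lit 11861556593) (nat_lit 228) (nat_lit 2491574939) (nat_lit 304) (nat_lit 77834556091) (nat_lit 41) (nat_lit 5) (nat_lit 44) (nat_lit 5) (nat_lit 45) (nat_lit 5) (nat_lit 336) (nat_lit 307) (nat_lit 137)) (XT.lf (nat_lit 0) (nat_lit 28969045035) (nat_lit 304) (nat_lit 37878959673) (nat_lit 76) (nat_lit 28346168551) (nat_lit 41) (nat_lit 5) (nat_lit 45) (nat_lit 5) (nat_lit 42) (nat_lit 5) (nat_lit 337) (nat_lit 307) (nat_lit 136))))) (XT.nd (nat_lit 234) (nat_lit 304) (nat_lit 0) (XT.nd (nat_lit 78) (nat_lit 152) (nat_lit 0) (XT.lf (nat_lit 0) (nat_lit 6868509984) (nat_lit 228) (nat_lit 37594575872) (nat_lit 304) (nat_lit 53880531894)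 (nat_lit 38) (nat_lit 5) (nat_lit 41) (nat_lit 5) (nat_lit 42) (nat_lit 5) (nat_lit 338) (nat_lit 307) (nat_lit 135)) (XT.nd (nat_lit 78) (nat_lit 152) (nat_lit 0) (XT.lf (nat_lit 0) (nat_lit 55167392016) (nat_lit 228) (nat_lit 6205204289) (nat_lit 304) (nat_lit 40245900884) (nat_lit 38) (nat_lit 5) (nat_lit 41) (nat_lit 5) (nat_lit 42) (nat_lit 5) (nat_lit 339) (nat_lit 307) (nat_lit 134)) (XT.lf (nat_lit 0) (nat_lit 418786888) (nat_lit 152) (nat_lit 79132332446) (nat_lit 228) (nat_lit 25484825459) (nat_lit 36) (nat_lit 5) (nat_lit 38) (nat_lit 5) (nat_lit 39) (nat_lit 5) (nat_lit 340) (nat_lit 307) (nat_lit 133)))) (XT.nd (nat_lit 78) (nat_lit 304) (nat_lit 0) (XT.lf (nat_lit 0) (nat_lit 51138764048) (nat_lit 152) (nat_lit 48385877506) (nat_lit 228) (nat_lit 9055320572) (nat_lit 36) (nat_lit 5) (nat_lit 38) (nat_lit 5) (nat_lit 39) (nat_lit 5) (nat_lit 341) (nat_lit 307) (nat_lit 132))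 (XT.nd (nat_lit 78) (nat_lit 228) (nat_lit 0) (XT.lf (nat_lit 0) (nat_lit 7932685361) (nat_lit 228) (nat_lit 8035371551) (nat_lit 76) (nat_lit 96326759554) (nat_lit 35) (nat_lit 5) (nat_lit 38) (nat_lit 5) (nat_lit 36) (nat_lit 5) (nat_lit 342) (nat_lit 307) (nat_lit 131)) (XT.lf (nat_lit 0) (nat_lit 26465957524) (nat_lit 304) (nat_lit 71312898714) (nat_lit 76) (nat_lit 18359126548) (nat_lit 32) (nat_lit 5) (nat_lit 36) (nat_lit 5) (nat_lit 33) (nat_lit 5) (nat_lit 343) (nat_lit 307) (nat_lit 130))))))))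
noncomputable def xc224 : XT := (XT.nd (nat_lit 1560) (nat_lit 304) (nat_lit 0) (XT.nd (nat_lit 780) (nat_lit 608) (nat_lit 0) (XT.nd (nat_lit 390) (nat_lit 304) (nat_lit 0) (XT.nd (nat_lit 156) (nat_lit 228) (nat_lit 0) (XT.nd (nat_lit 78) (nat_lit 152) (nat_lit 0) (XT.lf (nat_lit 0) (nat_lit 46325359217) (nat_lit 304) (nat_lit 19823912765) (nat_lit 76) (nat_lit 54004062967) (nat_lit 32) (nat_lit 5) (nat_lit 36) (nat_lit 5) (nat_lit 33) (nat_lit 5) (nat_lit 344) (nat_lit 307) (nat_lit 129)) (XT.lf (nat_lit 0) (nat_lit 35370711251) (nat_lit 152) (nat_lit 32358665885) (nat_lit 228) (nat_lit 56612496058) (nat_lit 30) (nat_lit 5) (nat_lit 32) (nat_lit 5) (nat_lit 33) (nat_lit 5) (nat_lit 345) (nat_lit 307) (nat_lit 128))) (XT.nd (nat_lit 78) (nat_lit 228) (nat_lit 0) (XT.lf (nat_lit 0) (nat_lit 90592981931) (nat_lit 228) (nat_lit 34764887858) (nat_lit 76) (nat_lit 3362500010) (nat_lit 30)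 (nat_lit 5) (nat_lit 33) (nat_lit 5) (nat_lit 31) (nat_lit 5) (nat_lit 346) (nat_lit 307) (nat_lit 127)) (XT.nd (nat_lit 78) (nat_lit 76) (nat_lit 0) (XT.lf (nat_lit 0) (nat_lit 22335234901) (nat_lit 152) (nat_lit 93143165027) (nat_lit 228) (nat_lit 17795460368) (nat_lit 28) (nat_lit 5) (nat_lit 30) (nat_lit 5) (nat_lit 31) (nat_lit 5) (nat_lit 347) (nat_lit 307) (nat_lit 126)) (XT.lf (nat_lit 0) (nat_lit 4037206281) (nat_lit 228) (nat_lit 54594257181) (nat_lit 76) (nat_lit 79390895684) (nat_lit 27) (nat_lit 5) (nat_lit 30) (nat_lit 5) (nat_lit 28) (nat_lit 5) (nat_lit 348) (nat_lit 307) (nat_lit 125))))) (XT.nd (nat_lit 156) (nat_lit 152) (nat_lit 0) (XT.nd (nat_lit 78) (nat_lit 0) (nat_lit 0) (XT.lf (nat_lit 0) (nat_lit 4416118240) (nat_lit 152) (nat_lit 22015768980) (nat_lit 228) (nat_lit 116558388635) (nat_lit 25) (nat_lit 5) (nat_lit 27) (nat_lit 5) (nat_lit 28) (nat_lit 5) (nat_lit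 349) (nat_lit 307) (nat_lit 124)) (XT.lf (nat_lit 0) (nat_lit 51142053492) (nat_lit 228) (nat_lit 80160477906) (nat_lit 76) (nat_lit 16844270020) (nat_lit 25) (nat_lit 5) (nat_lit 28) (nat_lit 5) (nat_lit 26) (nat_lit 5) (nat_lit 350) (nat_lit 307) (nat_lit 123))) (XT.nd (nat_lit 78) (nat_lit 152) (nat_lit 0) (XT.lf (nat_lit 0) (nat_lit 77448151503) (nat_lit 228) (nat_lit 19187822546) (nat_lit 76) (nat_lit 56907158594) (nat_lit 25) (nat_lit 5) (nat_lit 28) (nat_lit 5) (nat_lit 26) (nat_lit 5) (nat_lit 351) (nat_lit 307) (nat_lit 122)) (XT.nd (nat_lit 78) (nat_lit 0) (nat_lit 0) (XT.lf (nat_lit 0) (nat_lit 46315081144) (nat_lit 152) (nat_lit 59477114036) (nat_lit 228) (nat_lit 53380953742) (nat_lit 23) (nat_lit 5) (nat_lit 25) (nat_lit 5) (nat_lit 26) (nat_lit 5) (nat_lit 352) (nat_lit 307) (nat_lit 121)) (XT.lf (nat_lit 0) (nat_lit 115758543812) (nat_lit 152) (nat_lit 20119395482) (nat_lit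 228) (nat_lit 29190502312) (nat_lit 23) (nat_lit 5) (nat_lit 25) (nat_lit 5) (nat_lit 26) (nat_lit 5) (nat_lit 353) (nat_lit 307) (nat_lit 120)))))) (XT.nd (nat_lit 390) (nat_lit 304) (nat_lit 0) (XT.nd (nat_lit 156) (nat_lit 152) (nat_lit 0) (XT.nd (nat_lit 78) (nat_lit 76) (nat_lit 0) (XT.lf (nat_lit 0) (nat_lit 17648735482) (nat_lit 76) (nat_lit 150425430382) (nat_lit 152) (nat_lit 3154023778) (nat_lit 22) (nat_lit 5) (nat_lit 23) (nat_lit 5) (nat_lit 24) (nat_lit 4) (nat_lit 354) (nat_lit 307) (nat_lit 119)) (XT.lf (nat_lit 0) (nat_lit 24588396763) (nat_lit 152) (nat_lit 88708772250) (nat_lit 76) (nat_lit 64320968983) (nat_lit 21) (nat_lit 5) (nat_lit 23) (nat_lit 5) (nat_lit 22) (nat_lit 5) (nat_lit 355) (nat_lit 307) (nat_lit 118))) (XT.nd (nat_lit 78) (nat_lit 152) (nat_lit 0) (XT.lf (nat_lit 0) (nat_lit 53611526213) (nat_lit 152) (nat_lit 20646956574) (nat_lit 76) (nat_lit 110066536942)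 (nat_lit 21) (nat_lit 5) (nat_lit 23) (nat_lit 5) (nat_lit 22) (nat_lit 5) (nat_lit 356) (nat_lit 307) (nat_lit 117)) (XT.nd (nat_lit 78) (nat_lit 0) (nat_lit 0) (XT.lf (nat_lit 0) (nat_lit 52497536995) (nat_lit 152) (nat_lit 32407512398) (nat_lit 228) (nat_lit 106421234687) (nat_lit 19) (nat_lit 5) (nat_lit 21) (nat_lit 5) (nat_lit 22) (nat_lit 5) (nat_lit 357) (nat_lit 307) (nat_lit 116)) (XT.lf (nat_lit 0) (nat_lit 118298364734) (nat_lit 228) (nat_lit 68830565910) (nat_lit 76) (nat_lit 11521925583) (nat_lit 19) (nat_lit 5) (nat_lit 22) (nat_lit 5) (nat_lit 20) (nat_lit 4) (nat_lit 358) (nat_lit 307) (nat_lit 115))))) (XT.nd (nat_lit 156) (nat_lit 228) (nat_lit 0) (XT.nd (nat_lit 78) (nat_lit 0) (nat_lit 0) (XT.lf (nat_lit 0) (nat_lit 4272360713) (nat_lit 76) (nat_lit 149686586182) (nat_lit 152) (nat_lit 52352830390) (nat_lit 18) (nat_lit 5) (nat_lit 19) (nat_lit 5) (nat_lit 20) (nat_lit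 4) (nat_lit 359) (nat_lit 307) (nat_lit 114)) (XT.lf (nat_lit 0) (nat_lit 83419450596) (nat_lit 76) (nat_lit 109148421355) (nat_lit 152) (nat_lit 21729607097) (nat_lit 18) (nat_lit 5) (nat_lit 19) (nat_lit 5) (nat_lit 20) (nat_lit 4) (nat_lit 360) (nat_lit 307) (nat_lit 113))) (XT.nd (nat_lit 78) (nat_lit 152) (nat_lit 0) (XT.lf (nat_lit 0) (nat_lit 10090765600) (nat_lit 152) (nat_lit 56321938065) (nat_lit 76) (nat_lit 156261642235) (nat_lit 17) (nat_lit 5) (nat_lit 19) (nat_lit 5) (nat_lit 18) (nat_lit 5) (nat_lit 361) (nat_lit 307) (nat_lit 112)) (XT.nd (nat_lit 78) (nat_lit 0) (nat_lit 0) (XT.lf (nat_lit 0) (nat_lit 22319519553) (nat_lit 152) (nat_lit 20800513410) (nat_lit 228) (nat_lit 188314805606) (nat_lit 15) (nat_lit 5) (nat_lit 17) (nat_lit 5) (nat_lit 18) (nat_lit 5) (nat_lit 362) (nat_lit 307) (nat_lit 111)) (XT.lf (nat_lit 0) (nat_lit 79192892690) (nat_lit 228) (nat_lit 134176448515)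 (nat_lit 76) (nat_lit 27194408498) (nat_lit 15) (nat_lit 5) (nat_lit 18) (nat_lit 5) (nat_lit 16) (nat_lit 4) (nat_lit 363) (nat_lit 307) (nat_lit 110))))))) (XT.nd (nat_lit 36348) (nat_lit 0) (nat_lit 5016) (XT.nd (nat_lit 390) (nat_lit 76) (nat_lit 0) (XT.nd (nat_lit 156) (nat_lit 152) (nat_lit 0) (XT.nd (nat_lit 78) (nat_lit 76) (nat_lit 0) (XT.lf (nat_lit 0) (nat_lit 117410069803) (nat_lit 228) (nat_lit 55832180744) (nat_lit 76) (nat_lit 76889822394) (nat_lit 15) (nat_lit 5) (nat_lit 18) (nat_lit 5) (nat_lit 16) (nat_lit 4) (nat_lit 364) (nat_lit 307) (nat_lit 109)) (XT.lf (nat_lit 0) (nat_lit 27302627151) (nat_lit 76) (nat_lit 130661446647) (nat_lit 152) (nat_lit 102193440395) (nat_lit 14) (nat_lit 5) (nat_lit 15) (nat_lit 5) (nat_lit 16) (nat_lit 4) (nat_lit 365) (nat_lit 307) (nat_lit 108))) (XT.nd (nat_lit 78) (nat_lit 152) (nat_lit 0) (XT.lf (nat_lit 0) (nat_lit 116532023357)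 (nat_lit 76) (nat_lit 84959003432) (nat_lit 152) (nat_lit 69145938524) (nat_lit 14) (nat_lit 5) (nat_lit 15) (nat_lit 5) (nat_lit 16) (nat_lit 4) (nat_lit 366) (nat_lit 307) (nat_lit 107)) (XT.nd (nat_lit 78) (nat_lit 152) (nat_lit 0) (XT.lf (nat_lit 0) (nat_lit 210222394776) (nat_lit 76) (nat_lit 36971650557) (nat_lit 152) (nat_lit 34446357991) (nat_lit 14) (nat_lit 5) (nat_lit 15) (nat_lit 5) (nat_lit 16) (nat_lit 4) (nat_lit 367) (nat_lit 307) (nat_lit 106)) (XT.lf (nat_lit 0) (nat_lit 2386241800) (nat_lit 152) (nat_lit 277514086086) (nat_lit 76) (nat_lit 13269049733) (nat_lit 12) (nat_lit 5) (nat_lit 14) (nat_lit 5) (nat_lit 13) (nat_lit 4) (nat_lit 368) (nat_lit 307) (nat_lit 105))))) (XT.nd (nat_lit 156) (nat_lit 76) (nat_lit 0) (XT.nd (nat_lit 78) (nat_lit 0) (nat_lit 0) (XT.lf (nat_lit 0) (nat_lit 41737996240) (nat_lit 152) (nat_lit 196843694891) (nat_lit 76) (nat_lit 66573117571)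 (nat_lit 12) (nat_lit 5) (nat_lit 14) (nat_lit 5) (nat_lit 13) (nat_lit 4) (nat_lit 369) (nat_lit 307) (nat_lit 104)) (XT.lf (nat_lit 0) (nat_lit 83057080454) (nat_lit 152) (nat_lit 112140244066) (nat_lit 76) (nat_lit 122542199905) (nat_lit 12) (nat_lit 5) (nat_lit 14) (nat_lit 5) (nat_lit 13) (nat_lit 4) (nat_lit 370) (nat_lit 307) (nat_lit 103))) (XT.nd (nat_lit 78) (nat_lit 76) (nat_lit 0) (XT.lf (nat_lit 0) (nat_lit 126441873215) (nat_lit 152) (nat_lit 23202058728) (nat_lit 76) (nat_lit 181309556456) (nat_lit 12) (nat_lit 5) (nat_lit 14) (nat_lit 5) (nat_lit 13) (nat_lit 4) (nat_lit 371) (nat_lit 307) (nat_lit 102)) (XT.nd (nat_lit 35646) (nat_lit 0) (nat_lit 5548) (XT.lf (nat_lit 0) (nat_lit 72503173033) (nat_lit 76) (nat_lit 100624476337) (nat_lit 152) (nat_lit 171643914187) (nat_lit 11) (nat_lit 5) (nat_lit 12) (nat_lit 5) (nat_lit 13) (nat_lit 4) (nat_lit 372) (nat_lit 307) (nat_lit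 101)) (XT.lf (nat_lit 0) (nat_lit 7789728462) (nat_lit 0) (nat_lit 7789728462) (nat_lit 684) (nat_lit 5714768171) (nat_lit 84) (nat_lit 5) (nat_lit 84) (nat_lit 3) (nat_lit 93) (nat_lit 3) (nat_lit 308) (nat_lit 308) (nat_lit 164)))))) (XT.nd (nat_lit 390) (nat_lit 532) (nat_lit 0) (XT.nd (nat_lit 156) (nat_lit 0) (nat_lit 0) (XT.nd (nat_lit 78) (nat_lit 0) (nat_lit 0) (XT.lf (nat_lit 0) (nat_lit 32029014199) (nat_lit 684) (nat_lit 8052849214) (nat_lit 760) (nat_lit 3566663606) (nat_lit 84) (nat_lit 5) (nat_lit 93) (nat_lit 3) (nat_lit 94) (nat_lit 5) (nat_lit 309) (nat_lit 308) (nat_lit 163)) (XT.lf (nat_lit 76) (nat_lit 11977862757) (nat_lit 0) (nat_lit 21405031675) (nat_lit 760) (nat_lit 11356704509) (nat_lit 85) (nat_lit 5) (nat_lit 84) (nat_lit 5) (nat_lit 94) (nat_lit 5) (nat_lit 310) (nat_lit 308) (nat_lit 162))) (XT.nd (nat_lit 78) (nat_lit 0) (nat_lit 76) (XT.lf (nat_lit 76)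 (nat_lit 33288501740) (nat_lit 0) (nat_lit 1650294880) (nat_lit 760) (nat_lit 10939716201) (nat_lit 85) (nat_lit 5) (nat_lit 84) (nat_lit 5) (nat_lit 94) (nat_lit 5) (nat_lit 311) (nat_lit 308) (nat_lit 161)) (XT.nd (nat_lit 78) (nat_lit 0) (nat_lit 0) (XT.lf (nat_lit 76) (nat_lit 8565110947) (nat_lit 0) (nat_lit 28437250351) (nat_lit 760) (nat_lit 10050522259) (nat_lit 86) (nat_lit 5) (nat_lit 85) (nat_lit 5) (nat_lit 95) (nat_lit 5) (nat_lit 312) (nat_lit 308) (nat_lit 160)) (XT.lf (nat_lit 76) (nat_lit 31185913402) (nat_lit 0) (nat_lit 8221159270) (nat_lit 760) (nat_lit 8867006050) (nat_lit 86) (nat_lit 5) (nat_lit 85) (nat_lit 5) (nat_lit 95) (nat_lit 5) (nat_lit 313) (nat_lit 308) (nat_lit 159))))) (XT.nd (nat_lit 156) (nat_lit 684) (nat_lit 0) (XT.nd (nat_lit 78) (nat_lit 0) (nat_lit 0) (XT.lf (nat_lit 76) (nat_lit 5348276389) (nat_lit 0) (nat_lit 36868532150) (nat_lit 760) (nat_lit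 7325289772) (nat_lit 87) (nat_lit 5) (nat_lit 86) (nat_lit 5) (nat_lit 96) (nat_lit 5) (nat_lit 314) (nat_lit 308) (nat_lit 158)) (XT.lf (nat_lit 76) (nat_lit 29359325649) (nat_lit 0) (nat_lit 16227997329) (nat_lit 760) (nat_lit 5265185226) (nat_lit 87) (nat_lit 5) (nat_lit 86) (nat_lit 5) (nat_lit 96) (nat_lit 5) (nat_lit 315) (nat_lit 308) (nat_lit 157))) (XT.nd (nat_lit 78) (nat_lit 760) (nat_lit 0) (XT.lf (nat_lit 76) (nat_lit 2330804189) (nat_lit 0) (nat_lit 46915338254) (nat_lit 760) (nat_lit 2976310914) (nat_lit 88) (nat_lit 5) (nat_lit 87) (nat_lit 5) (nat_lit 97) (nat_lit 5) (nat_lit 316) (nat_lit 308) (nat_lit 156)) (XT.nd (nat_lit 78) (nat_lit 0) (nat_lit 0) (XT.lf (nat_lit 0) (nat_lit 79756136) (nat_lit 760) (nat_lit 25814879953) (nat_lit 836) (nat_lit 27734989876) (nat_lit 77) (nat_lit 5) (nat_lit 87) (nat_lit 5) (nat_lit 88) (nat_lit 5) (nat_lit 317) (nat_lit 308) (nat_lit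 155)) (XT.lf (nat_lit 0) (nat_lit 3187090891) (nat_lit 760) (nat_lit 584316837) (nat_lit 836) (nat_lit 51333388702) (nat_lit 77) (nat_lit 5) (nat_lit 87) (nat_lit 5) (nat_lit 88) (nat_lit 5) (nat_lit 318) (nat_lit 308) (nat_lit 154))))))))
noncomputable def xc225 : XT := (XT.nd (nat_lit 1560) (nat_lit 1672) (nat_lit 0) (XT.nd (nat_lit 780) (nat_lit 1368) (nat_lit 0) (XT.nd (nat_lit 390) (nat_lit 608) (nat_lit 0) (XT.nd (nat_lit 156) (nat_lit 836) (nat_lit 0) (XT.nd (nat_lit 78) (nat_lit 0) (nat_lit 0) (XT.lf (nat_lit 0) (nat_lit 7176847849) (nat_lit 760) (nat_lit 30180385458) (nat_lit 76) (nat_lit 19260142404) (nat_lit 78) (nat_lit 5) (nat_lit 88) (nat_lit 5) (nat_lit 79) (nat_lit 5) (nat_lit 319) (nat_lit 308) (nat_lit 153)) (XT.lf (nat_lit 0) (nat_lit 11436590469) (nat_lit 760) (nat_lit 3438678371) (nat_lit 76) (nat_lit 43326793147) (nat_lit 78) (nat_lit 5) (nat_lit 88) (nat_lit 5)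 (nat_lit 79) (nat_lit 5) (nat_lit 320) (nat_lit 308) (nat_lit 152))) (XT.nd (nat_lit 78) (nat_lit 380) (nat_lit 0) (XT.lf (nat_lit 0) (nat_lit 16448230771) (nat_lit 532) (nat_lit 34535412072) (nat_lit 76) (nat_lit 8855396989) (nat_lit 72) (nat_lit 5) (nat_lit 79) (nat_lit 5) (nat_lit 73) (nat_lit 5) (nat_lit 321) (nat_lit 308) (nat_lit 151)) (XT.nd (nat_lit 78) (nat_lit 380) (nat_lit 0) (XT.lf (nat_lit 0) (nat_lit 22012226125) (nat_lit 532) (nat_lit 6198572854) (nat_lit 76) (nat_lit 33331981588) (nat_lit 72) (nat_lit 5) (nat_lit 79) (nat_lit 5) (nat_lit 73) (nat_lit 5) (nat_lit 322) (nat_lit 308) (nat_lit 150)) (XT.lf (nat_lit 0) (nat_lit 24332727697) (nat_lit 380) (nat_lit 3900382101) (nat_lit 456) (nat_lit 35079666637) (nat_lit 67) (nat_lit 5) (nat_lit 72) (nat_lit 5) (nat_lit 73) (nat_lit 5) (nat_lit 323) (nat_lit 308) (nat_lit 149))))) (XT.nd (nat_lit 156) (nat_lit 304) (nat_lit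 0) (XT.nd (nat_lit 78) (nat_lit 304) (nat_lit 0) (XT.lf (nat_lit 0) (nat_lit 35208196278) (nat_lit 456) (nat_lit 8900808161) (nat_lit 76) (nat_lit 21040112129) (nat_lit 67) (nat_lit 5) (nat_lit 73) (nat_lit 5) (nat_lit 68) (nat_lit 5) (nat_lit 324) (nat_lit 308) (nat_lit 148)) (XT.lf (nat_lit 0) (nat_lit 23365119552) (nat_lit 304) (nat_lit 19594535450) (nat_lit 380) (nat_lit 24096240099) (nat_lit 63) (nat_lit 5) (nat_lit 67) (nat_lit 5) (nat_lit 68) (nat_lit 5) (nat_lit 325) (nat_lit 308) (nat_lit 147))) (XT.nd (nat_lit 78) (nat_lit 304) (nat_lit 0) (XT.lf (nat_lit 0) (nat_lit 51346764827) (nat_lit 380) (nat_lit 11596738534) (nat_lit 76) (nat_lit 6102107470) (nat_lit 63) (nat_lit 5) (nat_lit 68) (nat_lit 5) (nat_lit 64) (nat_lit 5) (nat_lit 326) (nat_lit 308) (nat_lit 146)) (XT.nd (nat_lit 78) (nat_lit 0) (nat_lit 0) (XT.lf (nat_lit 0) (nat_lit 22499768208) (nat_lit 304) (nat_lit 38324936458)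 (nat_lit 380) (nat_lit 10276536033) (nat_lit 59) (nat_lit 5) (nat_lit 63) (nat_lit 5) (nat_lit 64) (nat_lit 5) (nat_lit 327) (nat_lit 308) (nat_lit 145)) (XT.lf (nat_lit 0) (nat_lit 58702587979) (nat_lit 304) (nat_lit 12269349661) (nat_lit 380) (nat_lit 2277946591) (nat_lit 59) (nat_lit 5) (nat_lit 63) (nat_lit 5) (nat_lit 64) (nat_lit 5) (nat_lit 328) (nat_lit 308) (nat_lit 144)))))) (XT.nd (nat_lit 390) (nat_lit 532) (nat_lit 0) (XT.nd (nat_lit 156) (nat_lit 532) (nat_lit 0) (XT.nd (nat_lit 78) (nat_lit 0) (nat_lit 0) (XT.lf (nat_lit 0) (nat_lit 6506965523) (nat_lit 304) (nat_lit 53915921511) (nat_lit 76) (nat_lit 15049182244) (nat_lit 55) (nat_lit 5) (nat_lit 59) (nat_lit 5) (nat_lit 56) (nat_lit 5) (nat_lit 329) (nat_lit 308) (nat_lit 143)) (XT.lf (nat_lit 0) (nat_lit 16105167344) (nat_lit 304) (nat_lit 18066884908) (nat_lit 76) (nat_lit 43608915966) (nat_lit 55) (nat_lit 5) (nat_lit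 59) (nat_lit 5) (nat_lit 56) (nat_lit 5) (nat_lit 330) (nat_lit 308) (nat_lit 142))) (XT.nd (nat_lit 78) (nat_lit 228) (nat_lit 0) (XT.lf (nat_lit 0) (nat_lit 20220712783) (nat_lit 304) (nat_lit 6277370260) (nat_lit 380) (nat_lit 53691490497) (nat_lit 51) (nat_lit 5) (nat_lit 55) (nat_lit 5) (nat_lit 56) (nat_lit 5) (nat_lit 331) (nat_lit 308) (nat_lit 141)) (XT.nd (nat_lit 78) (nat_lit 228) (nat_lit 0) (XT.lf (nat_lit 0) (nat_lit 38080039424) (nat_lit 380) (nat_lit 22018781794) (nat_lit 76) (nat_lit 22586319715) (nat_lit 51) (nat_lit 5) (nat_lit 56) (nat_lit 5) (nat_lit 52) (nat_lit 5) (nat_lit 332) (nat_lit 308) (nat_lit 140)) (XT.lf (nat_lit 0) (nat_lit 18310904718) (nat_lit 228) (nat_lit 32318147824) (nat_lit 304) (nat_lit 34657037683) (nat_lit 48) (nat_lit 5) (nat_lit 51) (nat_lit 5) (nat_lit 52) (nat_lit 5) (nat_lit 333) (nat_lit 308) (nat_lit 139))))) (XT.nd (nat_lit 156) (nat_lit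 304) (nat_lit 0) (XT.nd (nat_lit 78) (nat_lit 228) (nat_lit 0) (XT.lf (nat_lit 0) (nat_lit 61420482916) (nat_lit 228) (nat_lit 2757122320) (nat_lit 304) (nat_lit 23820878706) (nat_lit 48) (nat_lit 5) (nat_lit 51) (nat_lit 5) (nat_lit 52) (nat_lit 5) (nat_lit 334) (nat_lit 308) (nat_lit 138)) (XT.lf (nat_lit 0) (nat_lit 15905536313) (nat_lit 228) (nat_lit 63187165225) (nat_lit 304) (nat_lit 11719341345) (nat_lit 45) (nat_lit 5) (nat_lit 48) (nat_lit 5) (nat_lit 49) (nat_lit 5) (nat_lit 335) (nat_lit 308) (nat_lit 137))) (XT.nd (nat_lit 78) (nat_lit 228) (nat_lit 0) (XT.lf (nat_lit 0) (nat_lit 1457595897) (nat_lit 304) (nat_lit 32376819578) (nat_lit 76) (nat_lit 59905998709) (nat_lit 44) (nat_lit 5) (nat_lit 48) (nat_lit 5) (nat_lit 45) (nat_lit 5) (nat_lit 336) (nat_lit 308) (nat_lit 136)) (XT.nd (nat_lit 78) (nat_lit 0) (nat_lit 0) (XT.lf (nat_lit 0) (nat_lit 12485874146) (nat_lit 228)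 (nat_lit 2607868155) (nat_lit 304) (nat_lit 81702146439) (nat_lit 41) (nat_lit 5) (nat_lit 44) (nat_lit 5) (nat_lit 45) (nat_lit 5) (nat_lit 337) (nat_lit 308) (nat_lit 135)) (XT.lf (nat_lit 0) (nat_lit 30439481622) (nat_lit 304) (nat_lit 39742151821) (nat_lit 76) (nat_lit 29771115401) (nat_lit 41) (nat_lit 5) (nat_lit 45) (nat_lit 5) (nat_lit 42) (nat_lit 5) (nat_lit 338) (nat_lit 308) (nat_lit 134))))))) (XT.nd (nat_lit 780) (nat_lit 684) (nat_lit 0) (XT.nd (nat_lit 390) (nat_lit 532) (nat_lit 0) (XT.nd (nat_lit 156) (nat_lit 228) (nat_lit 0) (XT.nd (nat_lit 78) (nat_lit 0) (nat_lit 0) (XT.lf (nat_lit 0) (nat_lit 7242195257) (nat_lit 228) (nat_lit 39465454794) (nat_lit 304) (nat_lit 56552045842) (nat_lit 38) (nat_lit 5) (nat_lit 41) (nat_lit 5) (nat_lit 42) (nat_lit 5) (nat_lit 339) (nat_lit 308) (nat_lit 133)) (XT.lf (nat_lit 0) (nat_lit 57954580449) (nat_lit 228) (nat_lit 6507036054)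 (nat_lit 304) (nat_lit 42236755312) (nat_lit 38) (nat_lit 5) (nat_lit 41) (nat_lit 5) (nat_lit 42) (nat_lit 5) (nat_lit 340) (nat_lit 308) (nat_lit 132))) (XT.nd (nat_lit 78) (nat_lit 76) (nat_lit 0) (XT.lf (nat_lit 0) (nat_lit 468984069) (nat_lit 152) (nat_lit 83079692767) (nat_lit 228) (nat_lit 26738035870) (nat_lit 36) (nat_lit 5) (nat_lit 38) (nat_lit 5) (nat_lit 39) (nat_lit 5) (nat_lit 341) (nat_lit 308) (nat_lit 131)) (XT.nd (nat_lit 78) (nat_lit 76) (nat_lit 0) (XT.lf (nat_lit 0) (nat_lit 53723566857) (nat_lit 152) (nat_lit 50796355856) (nat_lit 228) (nat_lit 9488057207) (nat_lit 36) (nat_lit 5) (nat_lit 38) (nat_lit 5) (nat_lit 39) (nat_lit 5) (nat_lit 342) (nat_lit 308) (nat_lit 130)) (XT.lf (nat_lit 0) (nat_lit 8347784703) (nat_lit 228) (nat_lit 8409966601) (nat_lit 76) (nat_lit 101150857463) (nat_lit 35) (nat_lit 5) (nat_lit 38) (nat_lit 5) (nat_lit 36) (nat_lit 5) (nat_lit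 343) (nat_lit 308) (nat_lit 129))))) (XT.nd (nat_lit 156) (nat_lit 304) (nat_lit 0) (XT.nd (nat_lit 78) (nat_lit 0) (nat_lit 0) (XT.lf (nat_lit 0) (nat_lit 27807394929) (nat_lit 304) (nat_lit 74851020512) (nat_lit 76) (nat_lit 19285535443) (nat_lit 32) (nat_lit 5) (nat_lit 36) (nat_lit 5) (nat_lit 33) (nat_lit 5) (nat_lit 344) (nat_lit 308) (nat_lit 128)) (XT.lf (nat_lit 0) (nat_lit 48658902919) (nat_lit 304) (nat_lit 20788895891) (nat_lit 76) (nat_lit 56712316180) (nat_lit 32) (nat_lit 5) (nat_lit 36) (nat_lit 5) (nat_lit 33) (nat_lit 5) (nat_lit 345) (nat_lit 308) (nat_lit 127))) (XT.nd (nat_lit 78) (nat_lit 152) (nat_lit 0) (XT.lf (nat_lit 0) (nat_lit 37165036543) (nat_lit 152) (nat_lit 33967665187) (nat_lit 228) (nat_lit 59425400510) (nat_lit 30) (nat_lit 5) (nat_lit 32) (nat_lit 5) (nat_lit 33) (nat_lit 5) (nat_lit 346) (nat_lit 308) (nat_lit 126)) (XT.nd (nat_lit 78) (nat_lit 152)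 (nat_lit 0) (XT.lf (nat_lit 0) (nat_lit 95138816953) (nat_lit 228) (nat_lit 36477880004) (nat_lit 76) (nat_lit 3538861248) (nat_lit 30) (nat_lit 5) (nat_lit 33) (nat_lit 5) (nat_lit 31) (nat_lit 5) (nat_lit 347) (nat_lit 308) (nat_lit 125)) (XT.lf (nat_lit 0) (nat_lit 23476841599) (nat_lit 152) (nat_lit 97791281392) (nat_lit 228) (nat_lit 18668620368) (nat_lit 28) (nat_lit 5) (nat_lit 30) (nat_lit 5) (nat_lit 31) (nat_lit 5) (nat_lit 348) (nat_lit 308) (nat_lit 124)))))) (XT.nd (nat_lit 390) (nat_lit 304) (nat_lit 0) (XT.nd (nat_lit 156) (nat_lit 152) (nat_lit 0) (XT.nd (nat_lit 78) (nat_lit 152) (nat_lit 0) (XT.lf (nat_lit 0) (nat_lit 4254382117) (nat_lit 228) (nat_lit 57299783822) (nat_lit 76) (nat_lit 83368527431) (nat_lit 27) (nat_lit 5) (nat_lit 30) (nat_lit 5) (nat_lit 28) (nat_lit 5) (nat_lit 349) (nat_lit 308) (nat_lit 123)) (XT.lf (nat_lit 0) (nat_lit 4660720270) (nat_lit 152)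 (nat_lit 23107719047) (nat_lit 228) (nat_lit 122370585342) (nat_lit 25) (nat_lit 5) (nat_lit 27) (nat_lit 5) (nat_lit 28) (nat_lit 5) (nat_lit 350) (nat_lit 308) (nat_lit 122))) (XT.nd (nat_lit 78) (nat_lit 152) (nat_lit 0) (XT.lf (nat_lit 0) (nat_lit 53713533050) (nat_lit 228) (nat_lit 84145241691) (nat_lit 76) (nat_lit 17694631615) (nat_lit 25) (nat_lit 5) (nat_lit 28) (nat_lit 5) (nat_lit 26) (nat_lit 5) (nat_lit 351) (nat_lit 308) (nat_lit 121)) (XT.nd (nat_lit 78) (nat_lit 152) (nat_lit 0) (XT.lf (nat_lit 0) (nat_lit 81334251347) (nat_lit 228) (nat_lit 20125061188) (nat_lit 76) (nat_lit 59760276614) (nat_lit 25) (nat_lit 5) (nat_lit 28) (nat_lit 5) (nat_lit 26) (nat_lit 5) (nat_lit 352) (nat_lit 308) (nat_lit 120)) (XT.lf (nat_lit 0) (nat_lit 48652630388) (nat_lit 152) (nat_lit 62442555091) (nat_lit 228) (nat_lit 56035937088) (nat_lit 23) (nat_lit 5) (nat_lit 25) (nat_lit 5) (nat_lit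 26) (nat_lit 5) (nat_lit 353) (nat_lit 308) (nat_lit 119))))) (XT.nd (nat_lit 234) (nat_lit 152) (nat_lit 0) (XT.nd (nat_lit 78) (nat_lit 152) (nat_lit 0) (XT.lf (nat_lit 0) (nat_lit 121567228324) (nat_lit 152) (nat_lit 21117351307) (nat_lit 228) (nat_lit 30636632817) (nat_lit 23) (nat_lit 5) (nat_lit 25) (nat_lit 5) (nat_lit 26) (nat_lit 5) (nat_lit 354) (nat_lit 308) (nat_lit 118)) (XT.nd (nat_lit 78) (nat_lit 76) (nat_lit 0) (XT.lf (nat_lit 0) (nat_lit 18552112414) (nat_lit 76) (nat_lit 157938344384) (nat_lit 152) (nat_lit 3298499793) (nat_lit 22) (nat_lit 5) (nat_lit 23) (nat_lit 5) (nat_lit 24) (nat_lit 4) (nat_lit 355) (nat_lit 308) (nat_lit 117)) (XT.lf (nat_lit 0) (nat_lit 25830008873) (nat_lit 152) (nat_lit 93123852568) (nat_lit 76) (nat_lit 67544561686) (nat_lit 21) (nat_lit 5) (nat_lit 23) (nat_lit 5) (nat_lit 22) (nat_lit 5) (nat_lit 356) (nat_lit 308) (nat_lit 116)))) (XT.nd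 (nat_lit 78) (nat_lit 152) (nat_lit 0) (XT.lf (nat_lit 0) (nat_lit 56303714211) (nat_lit 152) (nat_lit 21659915551) (nat_lit 76) (nat_lit 115577048793) (nat_lit 21) (nat_lit 5) (nat_lit 23) (nat_lit 5) (nat_lit 22) (nat_lit 5) (nat_lit 357) (nat_lit 308) (nat_lit 115)) (XT.nd (nat_lit 78) (nat_lit 0) (nat_lit 0) (XT.lf (nat_lit 0) (nat_lit 55141489973) (nat_lit 152) (nat_lit 34020168472) (nat_lit 228) (nat_lit 111730360986) (nat_lit 19) (nat_lit 5) (nat_lit 21) (nat_lit 5) (nat_lit 22) (nat_lit 5) (nat_lit 358) (nat_lit 308) (nat_lit 114)) (XT.lf (nat_lit 0) (nat_lit 124224213548) (nat_lit 228) (nat_lit 72253489959) (nat_lit 76) (nat_lit 12105138502) (nat_lit 19) (nat_lit 5) (nat_lit 22) (nat_lit 5) (nat_lit 20) (nat_lit 4) (nat_lit 359) (nat_lit 308) (nat_lit 113))))))))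
noncomputable def xc226 : XT := (XT.nd (nat_lit 37206) (nat_lit 0) (nat_lit 2736) (XT.nd (nat_lit 780) (nat_lit 0) (nat_lit 0) (XT.nd (nat_lit 390) (nat_lit 228) (nat_lit 0) (XT.nd (nat_lit 156) (nat_lit 228) (nat_lit 0) (XT.nd (nat_lit 78) (nat_lit 0) (nat_lit 0) (XT.lf (nat_lit 0) (nat_lit 4504282926) (nat_lit 76) (nat_lit 157163307166) (nat_lit 152) (nat_lit 54959231265) (nat_lit 18) (nat_lit 5) (nat_lit 19) (nat_lit 5) (nat_lit 20) (nat_lit 4) (nat_lit 360) (nat_lit 308) (nat_lit 112)) (XT.lf (nat_lit 0) (nat_lit 87607855676) (nat_lit 76) (nat_lit 114598596400) (nat_lit 152) (nat_lit 22805382076) (nat_lit 18) (nat_lit 5) (nat_lit 19) (nat_lit 5) (nat_lit 20) (nat_lit 4) (nat_lit 361) (nat_lit 308) (nat_lit 111))) (XT.nd (nat_lit 78) (nat_lit 152) (nat_lit 0) (XT.lf (nat_lit 0) (nat_lit 10605173153) (nat_lit 152) (nat_lit 59121097579) (nat_lit 76) (nat_lit 164081290361) (nat_lit 17)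 (nat_lit 5) (nat_lit 19) (nat_lit 5) (nat_lit 18) (nat_lit 5) (nat_lit 362) (nat_lit 308) (nat_lit 110)) (XT.nd (nat_lit 78) (nat_lit 0) (nat_lit 0) (XT.lf (nat_lit 0) (nat_lit 23452159736) (nat_lit 152) (nat_lit 21833534358) (nat_lit 228) (nat_lit 197720395203) (nat_lit 15) (nat_lit 5) (nat_lit 17) (nat_lit 5) (nat_lit 18) (nat_lit 5) (nat_lit 363) (nat_lit 308) (nat_lit 109)) (XT.lf (nat_lit 0) (nat_lit 83161840988) (nat_lit 228) (nat_lit 140869036614) (nat_lit 76) (nat_lit 28560586568) (nat_lit 15) (nat_lit 5) (nat_lit 18) (nat_lit 5) (nat_lit 16) (nat_lit 4) (nat_lit 364) (nat_lit 308) (nat_lit 108))))) (XT.nd (nat_lit 156) (nat_lit 152) (nat_lit 0) (XT.nd (nat_lit 78) (nat_lit 76) (nat_lit 0) (XT.lf (nat_lit 0) (nat_lit 123289433925) (nat_lit 228) (nat_lit 58608328518) (nat_lit 76) (nat_lit 80740463652) (nat_lit 15) (nat_lit 5) (nat_lit 18) (nat_lit 5) (nat_lit 16) (nat_lit 4) (nat_lit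 365) (nat_lit 308) (nat_lit 107)) (XT.lf (nat_lit 0) (nat_lit 28682970397) (nat_lit 76) (nat_lit 137187983289) (nat_lit 152) (nat_lit 107293995302) (nat_lit 14) (nat_lit 5) (nat_lit 15) (nat_lit 5) (nat_lit 16) (nat_lit 4) (nat_lit 366) (nat_lit 308) (nat_lit 106))) (XT.nd (nat_lit 78) (nat_lit 152) (nat_lit 0) (XT.lf (nat_lit 0) (nat_lit 122373112037) (nat_lit 76) (nat_lit 89200729136) (nat_lit 152) (nat_lit 72594552485) (nat_lit 14) (nat_lit 5) (nat_lit 15) (nat_lit 5) (nat_lit 16) (nat_lit 4) (nat_lit 367) (nat_lit 308) (nat_lit 105)) (XT.nd (nat_lit 78) (nat_lit 152) (nat_lit 0) (XT.lf (nat_lit 0) (nat_lit 220747312145) (nat_lit 76) (nat_lit 38814305020) (nat_lit 152) (nat_lit 36160406400) (nat_lit 14) (nat_lit 5) (nat_lit 15) (nat_lit 5) (nat_lit 16) (nat_lit 4) (nat_lit 368) (nat_lit 308) (nat_lit 104)) (XT.lf (nat_lit 0) (nat_lit 2513487333) (nat_lit 152) (nat_lit 291375644728)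 (nat_lit 76) (nat_lit 13938311920) (nat_lit 12) (nat_lit 5) (nat_lit 14) (nat_lit 5) (nat_lit 13) (nat_lit 4) (nat_lit 369) (nat_lit 308) (nat_lit 103)))))) (XT.nd (nat_lit 36036) (nat_lit 0) (nat_lit 5472) (XT.nd (nat_lit 156) (nat_lit 0) (nat_lit 0) (XT.nd (nat_lit 78) (nat_lit 0) (nat_lit 0) (XT.lf (nat_lit 0) (nat_lit 43832451712) (nat_lit 152) (nat_lit 206672407575) (nat_lit 76) (nat_lit 69907306498) (nat_lit 12) (nat_lit 5) (nat_lit 14) (nat_lit 5) (nat_lit 13) (nat_lit 4) (nat_lit 370) (nat_lit 308) (nat_lit 102)) (XT.lf (nat_lit 0) (nat_lit 87217130344) (nat_lit 152) (nat_lit 117734425735) (nat_lit 76) (nat_lit 128674579471) (nat_lit 12) (nat_lit 5) (nat_lit 14) (nat_lit 5) (nat_lit 13) (nat_lit 4) (nat_lit 371) (nat_lit 308) (nat_lit 101))) (XT.nd (nat_lit 35724) (nat_lit 0) (nat_lit 5472) (XT.lf (nat_lit 0) (nat_lit 132770820083) (nat_lit 152) (nat_lit 24349942109) (nat_lit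 76) (nat_lit 190380052917) (nat_lit 12) (nat_lit 5) (nat_lit 14) (nat_lit 5) (nat_lit 13) (nat_lit 4) (nat_lit 372) (nat_lit 308) (nat_lit 100)) (XT.nd (nat_lit 78) (nat_lit 0) (nat_lit 0) (XT.lf (nat_lit 0) (nat_lit 8195752920) (nat_lit 0) (nat_lit 8195752920) (nat_lit 684) (nat_lit 5965699872) (nat_lit 84) (nat_lit 5) (nat_lit 84) (nat_lit 3) (nat_lit 93) (nat_lit 3) (nat_lit 309) (nat_lit 309) (nat_lit 162)) (XT.lf (nat_lit 0) (nat_lit 33692975128) (nat_lit 684) (nat_lit 8420202385) (nat_lit 760) (nat_lit 3714503996) (nat_lit 84) (nat_lit 5) (nat_lit 93) (nat_lit 3) (nat_lit 94) (nat_lit 5) (nat_lit 310) (nat_lit 309) (nat_lit 161))))) (XT.nd (nat_lit 156) (nat_lit 0) (nat_lit 76) (XT.nd (nat_lit 78) (nat_lit 0) (nat_lit 0) (XT.lf (nat_lit 76) (nat_lit 12611476003) (nat_lit 0) (nat_lit 22500638772) (nat_lit 760) (nat_lit 11861320952) (nat_lit 85) (nat_lit 5) (nat_lit 84) (nat_lit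 5) (nat_lit 94) (nat_lit 5) (nat_lit 311) (nat_lit 309) (nat_lit 160)) (XT.lf (nat_lit 76) (nat_lit 34985993596) (nat_lit 0) (nat_lit 1756957732) (nat_lit 760) (nat_lit 11426493647) (nat_lit 85) (nat_lit 5) (nat_lit 84) (nat_lit 5) (nat_lit 94) (nat_lit 5) (nat_lit 312) (nat_lit 309) (nat_lit 159))) (XT.nd (nat_lit 78) (nat_lit 0) (nat_lit 0) (XT.lf (nat_lit 76) (nat_lit 9029216072) (nat_lit 0) (nat_lit 29877954296) (nat_lit 760) (nat_lit 10495496394) (nat_lit 86) (nat_lit 5) (nat_lit 85) (nat_lit 5) (nat_lit 95) (nat_lit 5) (nat_lit 313) (nat_lit 309) (nat_lit 158)) (XT.nd (nat_lit 78) (nat_lit 0) (nat_lit 76) (XT.lf (nat_lit 76) (nat_lit 32779351527) (nat_lit 0) (nat_lit 8650161450) (nat_lit 760) (nat_lit 9255544946) (nat_lit 86) (nat_lit 5) (nat_lit 85) (nat_lit 5) (nat_lit 95) (nat_lit 5) (nat_lit 314) (nat_lit 309) (nat_lit 157)) (XT.lf (nat_lit 76) (nat_lit 5652238408) (nat_lit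 0) (nat_lit 38725320713) (nat_lit 760) (nat_lit 7639033930) (nat_lit 87) (nat_lit 5) (nat_lit 86) (nat_lit 5) (nat_lit 96) (nat_lit 5) (nat_lit 315) (nat_lit 309) (nat_lit 156))))))) (XT.nd (nat_lit 780) (nat_lit 1444) (nat_lit 0) (XT.nd (nat_lit 390) (nat_lit 760) (nat_lit 0) (XT.nd (nat_lit 156) (nat_lit 684) (nat_lit 0) (XT.nd (nat_lit 78) (nat_lit 0) (nat_lit 76) (XT.lf (nat_lit 76) (nat_lit 30862099740) (nat_lit 0) (nat_lit 17052122869) (nat_lit 760) (nat_lit 5478425124) (nat_lit 87) (nat_lit 5) (nat_lit 86) (nat_lit 5) (nat_lit 96) (nat_lit 5) (nat_lit 316) (nat_lit 309) (nat_lit 155)) (XT.lf (nat_lit 76) (nat_lit 2484232056) (nat_lit 0) (nat_lit 49269874188) (nat_lit 760) (nat_lit 3077082938) (nat_lit 88) (nat_lit 5) (nat_lit 87) (nat_lit 5) (nat_lit 97) (nat_lit 5) (nat_lit 317) (nat_lit 309) (nat_lit 154))) (XT.nd (nat_lit 78) (nat_lit 0) (nat_lit 0) (XT.lf (nat_lit 0) (nat_lit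 128035208) (nat_lit 760) (nat_lit 27068934040) (nat_lit 836) (nat_lit 29111829114) (nat_lit 77) (nat_lit 5) (nat_lit 87) (nat_lit 5) (nat_lit 88) (nat_lit 5) (nat_lit 318) (nat_lit 309) (nat_lit 153)) (XT.nd (nat_lit 78) (nat_lit 0) (nat_lit 76) (XT.lf (nat_lit 0) (nat_lit 3388627592) (nat_lit 760) (nat_lit 578589907) (nat_lit 836) (nat_lit 53890619798) (nat_lit 77) (nat_lit 5) (nat_lit 87) (nat_lit 5) (nat_lit 88) (nat_lit 5) (nat_lit 319) (nat_lit 309) (nat_lit 152)) (XT.lf (nat_lit 0) (nat_lit 7576301634) (nat_lit 760) (nat_lit 31652805628) (nat_lit 76) (nat_lit 20217021097) (nat_lit 78) (nat_lit 5) (nat_lit 88) (nat_lit 5) (nat_lit 79) (nat_lit 5) (nat_lit 320) (nat_lit 309) (nat_lit 151))))) (XT.nd (nat_lit 156) (nat_lit 380) (nat_lit 0) (XT.nd (nat_lit 78) (nat_lit 456) (nat_lit 0) (XT.lf (nat_lit 0) (nat_lit 12047097509) (nat_lit 760) (nat_lit 3575756001) (nat_lit 76) (nat_lit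 45487296208) (nat_lit 78) (nat_lit 5) (nat_lit 88) (nat_lit 5) (nat_lit 79) (nat_lit 5) (nat_lit 321) (nat_lit 309) (nat_lit 150)) (XT.lf (nat_lit 0) (nat_lit 17307965425) (nat_lit 532) (nat_lit 36225894374) (nat_lit 76) (nat_lit 9295188257) (nat_lit 72) (nat_lit 5) (nat_lit 79) (nat_lit 5) (nat_lit 73) (nat_lit 5) (nat_lit 322) (nat_lit 309) (nat_lit 149))) (XT.nd (nat_lit 78) (nat_lit 380) (nat_lit 0) (XT.lf (nat_lit 0) (nat_lit 23148383255) (nat_lit 532) (nat_lit 6473941209) (nat_lit 76) (nat_lit 34995743924) (nat_lit 72) (nat_lit 5) (nat_lit 79) (nat_lit 5) (nat_lit 73) (nat_lit 5) (nat_lit 323) (nat_lit 309) (nat_lit 148)) (XT.nd (nat_lit 78) (nat_lit 0) (nat_lit 0) (XT.lf (nat_lit 0) (nat_lit 25583366946) (nat_lit 380) (nat_lit 4095782388) (nat_lit 456) (nat_lit 36797476324) (nat_lit 67) (nat_lit 5) (nat_lit 72) (nat_lit 5) (nat_lit 73) (nat_lit 5) (nat_lit 324) (nat_lit 309) (nat_lit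 147)) (XT.lf (nat_lit 0) (nat_lit 37001347134) (nat_lit 456) (nat_lit 9311754842) (nat_lit 76) (nat_lit 22091766324) (nat_lit 67) (nat_lit 5) (nat_lit 73) (nat_lit 5) (nat_lit 68) (nat_lit 5) (nat_lit 325) (nat_lit 309) (nat_lit 146)))))) (XT.nd (nat_lit 390) (nat_lit 532) (nat_lit 0) (XT.nd (nat_lit 156) (nat_lit 608) (nat_lit 0) (XT.nd (nat_lit 78) (nat_lit 0) (nat_lit 0) (XT.lf (nat_lit 0) (nat_lit 24566919358) (nat_lit 304) (nat_lit 20572424053) (nat_lit 380) (nat_lit 25267697310) (nat_lit 63) (nat_lit 5) (nat_lit 67) (nat_lit 5) (nat_lit 68) (nat_lit 5) (nat_lit 326) (nat_lit 309) (nat_lit 145)) (XT.lf (nat_lit 0) (nat_lit 53944326266) (nat_lit 380) (nat_lit 12143085685) (nat_lit 76) (nat_lit 6408907451) (nat_lit 63) (nat_lit 5) (nat_lit 68) (nat_lit 5) (nat_lit 64) (nat_lit 5) (nat_lit 327) (nat_lit 309) (nat_lit 144))) (XT.nd (nat_lit 78) (nat_lit 304) (nat_lit 0) (XT.lf (nat_lit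 0) (nat_lit 23657706236) (nat_lit 304) (nat_lit 40237532096) (nat_lit 380) (nat_lit 10759541564) (nat_lit 59) (nat_lit 5) (nat_lit 63) (nat_lit 5) (nat_lit 64) (nat_lit 5) (nat_lit 328) (nat_lit 309) (nat_lit 143)) (XT.nd (nat_lit 78) (nat_lit 304) (nat_lit 0) (XT.lf (nat_lit 0) (nat_lit 61669097966) (nat_lit 304) (nat_lit 12879339826) (nat_lit 380) (nat_lit 2362490329) (nat_lit 59) (nat_lit 5) (nat_lit 63) (nat_lit 5) (nat_lit 64) (nat_lit 5) (nat_lit 329) (nat_lit 309) (nat_lit 142)) (XT.lf (nat_lit 0) (nat_lit 6859939128) (nat_lit 304) (nat_lit 56578506176) (nat_lit 76) (nat_lit 15805796143) (nat_lit 55) (nat_lit 5) (nat_lit 59) (nat_lit 5) (nat_lit 56) (nat_lit 5) (nat_lit 330) (nat_lit 309) (nat_lit 141))))) (XT.nd (nat_lit 156) (nat_lit 228) (nat_lit 0) (XT.nd (nat_lit 78) (nat_lit 304) (nat_lit 0) (XT.lf (nat_lit 0) (nat_lit 16936735548) (nat_lit 304) (nat_lit 18938599238) (nat_lit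 76) (nat_lit 45793318704) (nat_lit 55) (nat_lit 5) (nat_lit 59) (nat_lit 5) (nat_lit 56) (nat_lit 5) (nat_lit 331) (nat_lit 309) (nat_lit 140)) (XT.lf (nat_lit 0) (nat_lit 21262868178) (nat_lit 304) (nat_lit 6585661872) (nat_lit 380) (nat_lit 56349199647) (nat_lit 51) (nat_lit 5) (nat_lit 55) (nat_lit 5) (nat_lit 56) (nat_lit 5) (nat_lit 332) (nat_lit 309) (nat_lit 139))) (XT.nd (nat_lit 78) (nat_lit 228) (nat_lit 0) (XT.lf (nat_lit 0) (nat_lit 40008450848) (nat_lit 380) (nat_lit 23088906403) (nat_lit 76) (nat_lit 23720777039) (nat_lit 51) (nat_lit 5) (nat_lit 56) (nat_lit 5) (nat_lit 52) (nat_lit 5) (nat_lit 333) (nat_lit 309) (nat_lit 138)) (XT.nd (nat_lit 78) (nat_lit 0) (nat_lit 0) (XT.lf (nat_lit 0) (nat_lit 19256767427) (nat_lit 228) (nat_lit 33927458181) (nat_lit 304) (nat_lit 36364941948) (nat_lit 48) (nat_lit 5) (nat_lit 51) (nat_lit 5) (nat_lit 52) (nat_lit 5) (nat_lit 334)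 (nat_lit 309) (nat_lit 137)) (XT.lf (nat_lit 0) (nat_lit 64520380846) (nat_lit 228) (nat_lit 2888695546) (nat_lit 304) (nat_lit 24988163004) (nat_lit 48) (nat_lit 5) (nat_lit 51) (nat_lit 5) (nat_lit 52) (nat_lit 5) (nat_lit 335) (nat_lit 309) (nat_lit 136))))))))
noncomputable def xc227 : XT := (XT.nd (nat_lit 1560) (nat_lit 836) (nat_lit 0) (XT.nd (nat_lit 780) (nat_lit 684) (nat_lit 0) (XT.nd (nat_lit 390) (nat_lit 456) (nat_lit 0) (XT.nd (nat_lit 156) (nat_lit 456) (nat_lit 0) (XT.nd (nat_lit 78) (nat_lit 76) (nat_lit 0) (XT.lf (nat_lit 0) (nat_lit 16730274588) (nat_lit 228) (nat_lit 66339130561) (nat_lit 304) (nat_lit 12282099118) (nat_lit 45) (nat_lit 5) (nat_lit 48) (nat_lit 5) (nat_lit 49) (nat_lit 5) (nat_lit 336) (nat_lit 309) (nat_lit 135)) (XT.lf (nat_lit 0) (nat_lit 1551872313) (nat_lit 304) (nat_lit 33966860693) (nat_lit 76) (nat_lit 62907598195) (nat_lit 44) (nat_lit 5)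 (nat_lit 48) (nat_lit 5) (nat_lit 45) (nat_lit 5) (nat_lit 337) (nat_lit 309) (nat_lit 134))) (XT.nd (nat_lit 78) (nat_lit 228) (nat_lit 0) (XT.lf (nat_lit 0) (nat_lit 13138503203) (nat_lit 228) (nat_lit 2730746341) (nat_lit 304) (nat_lit 85765360376) (nat_lit 41) (nat_lit 5) (nat_lit 44) (nat_lit 5) (nat_lit 45) (nat_lit 5) (nat_lit 338) (nat_lit 309) (nat_lit 133)) (XT.nd (nat_lit 78) (nat_lit 228) (nat_lit 0) (XT.lf (nat_lit 0) (nat_lit 31981396144) (nat_lit 304) (nat_lit 41701362962) (nat_lit 76) (nat_lit 31266599444) (nat_lit 41) (nat_lit 5) (nat_lit 45) (nat_lit 5) (nat_lit 42) (nat_lit 5) (nat_lit 339) (nat_lit 309) (nat_lit 132)) (XT.lf (nat_lit 0) (nat_lit 7631751527) (nat_lit 228) (nat_lit 41430700439) (nat_lit 304) (nat_lit 59359228500) (nat_lit 38) (nat_lit 5) (nat_lit 41) (nat_lit 5) (nat_lit 42) (nat_lit 5) (nat_lit 340) (nat_lit 309) (nat_lit 131))))) (XT.nd (nat_lit 156)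 (nat_lit 304) (nat_lit 0) (XT.nd (nat_lit 78) (nat_lit 152) (nat_lit 0) (XT.lf (nat_lit 0) (nat_lit 60878449002) (nat_lit 228) (nat_lit 6824743005) (nat_lit 304) (nat_lit 44329145807) (nat_lit 38) (nat_lit 5) (nat_lit 41) (nat_lit 5) (nat_lit 42) (nat_lit 5) (nat_lit 341) (nat_lit 309) (nat_lit 130)) (XT.lf (nat_lit 0) (nat_lit 518970993) (nat_lit 152) (nat_lit 87225281666) (nat_lit 228) (nat_lit 28055862051) (nat_lit 36) (nat_lit 5) (nat_lit 38) (nat_lit 5) (nat_lit 39) (nat_lit 5) (nat_lit 342) (nat_lit 309) (nat_lit 129))) (XT.nd (nat_lit 78) (nat_lit 304) (nat_lit 0) (XT.lf (nat_lit 0) (nat_lit 56435019219) (nat_lit 152) (nat_lit 53328177707) (nat_lit 228) (nat_lit 9944292818) (nat_lit 36) (nat_lit 5) (nat_lit 38) (nat_lit 5) (nat_lit 39) (nat_lit 5) (nat_lit 343) (nat_lit 309) (nat_lit 128)) (XT.nd (nat_lit 78) (nat_lit 228) (nat_lit 0) (XT.lf (nat_lit 0) (nat_lit 8781922304) (nat_lit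 228) (nat_lit 8805817740) (nat_lit 76) (nat_lit 106215438823) (nat_lit 35) (nat_lit 5) (nat_lit 38) (nat_lit 5) (nat_lit 36) (nat_lit 5) (nat_lit 344) (nat_lit 309) (nat_lit 127)) (XT.lf (nat_lit 0) (nat_lit 29214217762) (nat_lit 304) (nat_lit 78568607241) (nat_lit 76) (nat_lit 20257478944) (nat_lit 32) (nat_lit 5) (nat_lit 36) (nat_lit 5) (nat_lit 33) (nat_lit 5) (nat_lit 345) (nat_lit 309) (nat_lit 126)))))) (XT.nd (nat_lit 390) (nat_lit 304) (nat_lit 0) (XT.nd (nat_lit 156) (nat_lit 228) (nat_lit 0) (XT.nd (nat_lit 78) (nat_lit 152) (nat_lit 0) (XT.lf (nat_lit 0) (nat_lit 51107517671) (nat_lit 304) (nat_lit 21804565164) (nat_lit 76) (nat_lit 59555233635) (nat_lit 32) (nat_lit 5) (nat_lit 36) (nat_lit 5) (nat_lit 33) (nat_lit 5) (nat_lit 346) (nat_lit 309) (nat_lit 125)) (XT.lf (nat_lit 0) (nat_lit 39046680416) (nat_lit 152) (nat_lit 35657945051) (nat_lit 228) (nat_lit 62380597655)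 (nat_lit 30) (nat_lit 5) (nat_lit 32) (nat_lit 5) (nat_lit 33) (nat_lit 5) (nat_lit 347) (nat_lit 309) (nat_lit 124))) (XT.nd (nat_lit 78) (nat_lit 228) (nat_lit 0) (XT.lf (nat_lit 0) (nat_lit 99910438912) (nat_lit 228) (nat_lit 38278869471) (nat_lit 76) (nat_lit 3723274821) (nat_lit 30) (nat_lit 5) (nat_lit 33) (nat_lit 5) (nat_lit 31) (nat_lit 5) (nat_lit 348) (nat_lit 309) (nat_lit 123)) (XT.nd (nat_lit 78) (nat_lit 76) (nat_lit 0) (XT.lf (nat_lit 0) (nat_lit 24673218783) (nat_lit 152) (nat_lit 102672644204) (nat_lit 228) (nat_lit 19586982890) (nat_lit 28) (nat_lit 5) (nat_lit 30) (nat_lit 5) (nat_lit 31) (nat_lit 5) (nat_lit 349) (nat_lit 309) (nat_lit 122)) (XT.lf (nat_lit 0) (nat_lit 4480992852) (nat_lit 228) (nat_lit 60142835401) (nat_lit 76) (nat_lit 87544288916) (nat_lit 27) (nat_lit 5) (nat_lit 30) (nat_lit 5) (nat_lit 28) (nat_lit 5) (nat_lit 350) (nat_lit 309) (nat_lit 121)))))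 (XT.nd (nat_lit 156) (nat_lit 152) (nat_lit 0) (XT.nd (nat_lit 78) (nat_lit 0) (nat_lit 0) (XT.lf (nat_lit 0) (nat_lit 4915340063) (nat_lit 152) (nat_lit 24255088325) (nat_lit 228) (nat_lit 128474853635) (nat_lit 25) (nat_lit 5) (nat_lit 27) (nat_lit 5) (nat_lit 28) (nat_lit 5) (nat_lit 351) (nat_lit 309) (nat_lit 120)) (XT.lf (nat_lit 0) (nat_lit 56412249959) (nat_lit 228) (nat_lit 88331406171) (nat_lit 76) (nat_lit 18586753758) (nat_lit 25) (nat_lit 5) (nat_lit 28) (nat_lit 5) (nat_lit 26) (nat_lit 5) (nat_lit 352) (nat_lit 309) (nat_lit 119))) (XT.nd (nat_lit 78) (nat_lit 152) (nat_lit 0) (XT.lf (nat_lit 0) (nat_lit 85413383207) (nat_lit 228) (nat_lit 21111221291) (nat_lit 76) (nat_lit 62755329075) (nat_lit 25) (nat_lit 5) (nat_lit 28) (nat_lit 5) (nat_lit 26) (nat_lit 5) (nat_lit 353) (nat_lit 309) (nat_lit 118)) (XT.nd (nat_lit 78) (nat_lit 0) (nat_lit 0) (XT.lf (nat_lit 0) (nat_lit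 51105030785) (nat_lit 152) (nat_lit 65557050513) (nat_lit 228) (nat_lit 58824977170) (nat_lit 23) (nat_lit 5) (nat_lit 25) (nat_lit 5) (nat_lit 26) (nat_lit 5) (nat_lit 354) (nat_lit 309) (nat_lit 117)) (XT.lf (nat_lit 0) (nat_lit 127664417242) (nat_lit 152) (nat_lit 22165949984) (nat_lit 228) (nat_lit 32156315151) (nat_lit 23) (nat_lit 5) (nat_lit 25) (nat_lit 5) (nat_lit 26) (nat_lit 5) (nat_lit 355) (nat_lit 309) (nat_lit 116))))))) (XT.nd (nat_lit 780) (nat_lit 228) (nat_lit 0) (XT.nd (nat_lit 390) (nat_lit 304) (nat_lit 0) (XT.nd (nat_lit 156) (nat_lit 152) (nat_lit 0) (XT.nd (nat_lit 78) (nat_lit 76) (nat_lit 0) (XT.lf (nat_lit 0) (nat_lit 19498711376) (nat_lit 76) (nat_lit 165827681089) (nat_lit 152) (nat_lit 3451429161) (nat_lit 22) (nat_lit 5) (nat_lit 23) (nat_lit 5) (nat_lit 24) (nat_lit 4) (nat_lit 356) (nat_lit 309) (nat_lit 115)) (XT.lf (nat_lit 0) (nat_lit 27132568067)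 (nat_lit 152) (nat_lit 97761579624) (nat_lit 76) (nat_lit 70928632632) (nat_lit 21) (nat_lit 5) (nat_lit 23) (nat_lit 5) (nat_lit 22) (nat_lit 5) (nat_lit 357) (nat_lit 309) (nat_lit 114))) (XT.nd (nat_lit 78) (nat_lit 152) (nat_lit 0) (XT.lf (nat_lit 0) (nat_lit 59129432065) (nat_lit 152) (nat_lit 22725325069) (nat_lit 76) (nat_lit 121362418243) (nat_lit 21) (nat_lit 5) (nat_lit 23) (nat_lit 5) (nat_lit 22) (nat_lit 5) (nat_lit 358) (nat_lit 309) (nat_lit 113)) (XT.nd (nat_lit 78) (nat_lit 0) (nat_lit 0) (XT.lf (nat_lit 0) (nat_lit 57915867082) (nat_lit 152) (nat_lit 35714175040) (nat_lit 228) (nat_lit 117306053244) (nat_lit 19) (nat_lit 5) (nat_lit 21) (nat_lit 5) (nat_lit 22) (nat_lit 5) (nat_lit 359) (nat_lit 309) (nat_lit 112)) (XT.lf (nat_lit 0) (nat_lit 130445338580) (nat_lit 228) (nat_lit 75849289858) (nat_lit 76) (nat_lit 12716850430) (nat_lit 19) (nat_lit 5) (nat_lit 22) (nat_lit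 5) (nat_lit 20) (nat_lit 4) (nat_lit 360) (nat_lit 309) (nat_lit 111))))) (XT.nd (nat_lit 156) (nat_lit 228) (nat_lit 0) (XT.nd (nat_lit 78) (nat_lit 0) (nat_lit 0) (XT.lf (nat_lit 0) (nat_lit 4746099501) (nat_lit 76) (nat_lit 165014571550) (nat_lit 152) (nat_lit 57696997232) (nat_lit 18) (nat_lit 5) (nat_lit 19) (nat_lit 5) (nat_lit 20) (nat_lit 4) (nat_lit 361) (nat_lit 309) (nat_lit 110)) (XT.lf (nat_lit 0) (nat_lit 92004060296) (nat_lit 76) (nat_lit 120321953863) (nat_lit 152) (nat_lit 23935941089) (nat_lit 18) (nat_lit 5) (nat_lit 19) (nat_lit 5) (nat_lit 20) (nat_lit 4) (nat_lit 362) (nat_lit 309) (nat_lit 109))) (XT.nd (nat_lit 78) (nat_lit 152) (nat_lit 0) (XT.lf (nat_lit 0) (nat_lit 11144383533) (nat_lit 152) (nat_lit 62061789747) (nat_lit 76) (nat_lit 172291310447) (nat_lit 17) (nat_lit 5) (nat_lit 19) (nat_lit 5) (nat_lit 18) (nat_lit 5) (nat_lit 363) (nat_lit 309) (nat_lit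 108)) (XT.nd (nat_lit 78) (nat_lit 0) (nat_lit 0) (XT.lf (nat_lit 0) (nat_lit 24639882648) (nat_lit 152) (nat_lit 22918857586) (nat_lit 228) (nat_lit 207597207994) (nat_lit 15) (nat_lit 5) (nat_lit 17) (nat_lit 5) (nat_lit 18) (nat_lit 5) (nat_lit 364) (nat_lit 309) (nat_lit 107)) (XT.lf (nat_lit 0) (nat_lit 87328371734) (nat_lit 228) (nat_lit 147897763432) (nat_lit 76) (nat_lit 29994473171) (nat_lit 15) (nat_lit 5) (nat_lit 18) (nat_lit 5) (nat_lit 16) (nat_lit 4) (nat_lit 365) (nat_lit 309) (nat_lit 106)))))) (XT.nd (nat_lit 390) (nat_lit 0) (nat_lit 0) (XT.nd (nat_lit 156) (nat_lit 152) (nat_lit 0) (XT.nd (nat_lit 78) (nat_lit 76) (nat_lit 0) (XT.lf (nat_lit 0) (nat_lit 129461942475) (nat_lit 228) (nat_lit 61524721122) (nat_lit 76) (nat_lit 84783065191) (nat_lit 15) (nat_lit 5) (nat_lit 18) (nat_lit 5) (nat_lit 16) (nat_lit 4) (nat_lit 366) (nat_lit 309) (nat_lit 105)) (XT.lf (nat_lit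 0) (nat_lit 30130916547) (nat_lit 76) (nat_lit 144041454389) (nat_lit 152) (nat_lit 112650425577) (nat_lit 14) (nat_lit 5) (nat_lit 15) (nat_lit 5) (nat_lit 16) (nat_lit 4) (nat_lit 367) (nat_lit 309) (nat_lit 104))) (XT.nd (nat_lit 78) (nat_lit 152) (nat_lit 0) (XT.lf (nat_lit 0) (nat_lit 128504908240) (nat_lit 76) (nat_lit 93655119817) (nat_lit 152) (nat_lit 76216404404) (nat_lit 14) (nat_lit 5) (nat_lit 15) (nat_lit 5) (nat_lit 16) (nat_lit 4) (nat_lit 368) (nat_lit 309) (nat_lit 103)) (XT.nd (nat_lit 78) (nat_lit 152) (nat_lit 0) (XT.lf (nat_lit 0) (nat_lit 231797192610) (nat_lit 76) (nat_lit 40749643342) (nat_lit 152) (nat_lit 37960926048) (nat_lit 14) (nat_lit 5) (nat_lit 15) (nat_lit 5) (nat_lit 16) (nat_lit 4) (nat_lit 369) (nat_lit 309) (nat_lit 102)) (XT.lf (nat_lit 0) (nat_lit 2646357567) (nat_lit 152) (nat_lit 305931596430) (nat_lit 76) (nat_lit 14640497086) (nat_lit 12)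 (nat_lit 5) (nat_lit 14) (nat_lit 5) (nat_lit 13) (nat_lit 4) (nat_lit 370) (nat_lit 309) (nat_lit 101))))) (XT.nd (nat_lit 36036) (nat_lit 0) (nat_lit 5472) (XT.nd (nat_lit 35880) (nat_lit 0) (nat_lit 5472) (XT.lf (nat_lit 0) (nat_lit 46030927504) (nat_lit 152) (nat_lit 216993808398) (nat_lit 76) (nat_lit 73407690461) (nat_lit 12) (nat_lit 5) (nat_lit 14) (nat_lit 5) (nat_lit 13) (nat_lit 4) (nat_lit 371) (nat_lit 309) (nat_lit 100)) (XT.nd (nat_lit 78) (nat_lit 0) (nat_lit 0) (XT.lf (nat_lit 0) (nat_lit 8620541052) (nat_lit 0) (nat_lit 8620541052) (nat_lit 684) (nat_lit 6232414156) (nat_lit 84) (nat_lit 5) (nat_lit 84) (nat_lit 3) (nat_lit 93) (nat_lit 3) (nat_lit 310) (nat_lit 310) (nat_lit 160)) (XT.lf (nat_lit 0) (nat_lit 35434322497) (nat_lit 684) (nat_lit 8809204079) (nat_lit 760) (nat_lit 3872571336) (nat_lit 84) (nat_lit 5) (nat_lit 93) (nat_lit 3) (nat_lit 94) (nat_lit 5) (nat_lit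 311) (nat_lit 310) (nat_lit 159)))) (XT.nd (nat_lit 78) (nat_lit 0) (nat_lit 0) (XT.lf (nat_lit 76) (nat_lit 13273541964) (nat_lit 0) (nat_lit 23648668908) (nat_lit 760) (nat_lit 12397045701) (nat_lit 85) (nat_lit 5) (nat_lit 84) (nat_lit 5) (nat_lit 94) (nat_lit 5) (nat_lit 312) (nat_lit 310) (nat_lit 158)) (XT.nd (nat_lit 78) (nat_lit 0) (nat_lit 76) (XT.lf (nat_lit 76) (nat_lit 36765285810) (nat_lit 0) (nat_lit 1866708664) (nat_lit 760) (nat_lit 11943207569) (nat_lit 85) (nat_lit 5) (nat_lit 84) (nat_lit 5) (nat_lit 94) (nat_lit 5) (nat_lit 313) (nat_lit 310) (nat_lit 157)) (XT.lf (nat_lit 76) (nat_lit 9513193499) (nat_lit 0) (nat_lit 31388941741) (nat_lit 760) (nat_lit 10968069874) (nat_lit 86) (nat_lit 5) (nat_lit 85) (nat_lit 5) (nat_lit 95) (nat_lit 5) (nat_lit 314) (nat_lit 310) (nat_lit 156))))))))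
noncomputable def xc228 : XT := (XT.nd (nat_lit 1560) (nat_lit 1976) (nat_lit 0) (XT.nd (nat_lit 780) (nat_lit 1596) (nat_lit 0) (XT.nd (nat_lit 390) (nat_lit 380) (nat_lit 0) (XT.nd (nat_lit 156) (nat_lit 608) (nat_lit 0) (XT.nd (nat_lit 78) (nat_lit 0) (nat_lit 76) (XT.lf (nat_lit 76) (nat_lit 34449287317) (nat_lit 0) (nat_lit 9098945456) (nat_lit 760) (nat_lit 9668606632) (nat_lit 86) (nat_lit 5) (nat_lit 85) (nat_lit 5) (nat_lit 95) (nat_lit 5) (nat_lit 315) (nat_lit 310) (nat_lit 155)) (XT.lf (nat_lit 76) (nat_lit 5968000622) (nat_lit 0) (nat_lit 40673706437) (nat_lit 760) (nat_lit 7973348138) (nat_lit 87) (nat_lit 5) (nat_lit 86) (nat_lit 5) (nat_lit 96) (nat_lit 5) (nat_lit 316) (nat_lit 310) (nat_lit 154))) (XT.nd (nat_lit 78) (nat_lit 684) (nat_lit 0) (XT.lf (nat_lit 76) (nat_lit 32436776436) (nat_lit 0) (nat_lit 17916271572) (nat_lit 760) (nat_lit 5706977344) (nat_lit 87) (nat_lit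 5) (nat_lit 86) (nat_lit 5) (nat_lit 96) (nat_lit 5) (nat_lit 317) (nat_lit 310) (nat_lit 153)) (XT.nd (nat_lit 78) (nat_lit 760) (nat_lit 0) (XT.lf (nat_lit 76) (nat_lit 2641901852) (nat_lit 0) (nat_lit 51741321658) (nat_lit 760) (nat_lit 3187360196) (nat_lit 88) (nat_lit 5) (nat_lit 87) (nat_lit 5) (nat_lit 97) (nat_lit 5) (nat_lit 318) (nat_lit 310) (nat_lit 152)) (XT.lf (nat_lit 0) (nat_lit 174610451) (nat_lit 760) (nat_lit 28389101912) (nat_lit 836) (nat_lit 30558431675) (nat_lit 77) (nat_lit 5) (nat_lit 87) (nat_lit 5) (nat_lit 88) (nat_lit 5) (nat_lit 319) (nat_lit 310) (nat_lit 151))))) (XT.nd (nat_lit 156) (nat_lit 380) (nat_lit 0) (XT.nd (nat_lit 78) (nat_lit 0) (nat_lit 76) (XT.lf (nat_lit 0) (nat_lit 3596319432) (nat_lit 760) (nat_lit 575825279) (nat_lit 836) (nat_lit 56576589936) (nat_lit 77) (nat_lit 5) (nat_lit 87) (nat_lit 5) (nat_lit 88) (nat_lit 5) (nat_lit 320) (nat_lit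 310) (nat_lit 150)) (XT.lf (nat_lit 0) (nat_lit 7991952446) (nat_lit 760) (nat_lit 33202249444) (nat_lit 76) (nat_lit 21222313489) (nat_lit 78) (nat_lit 5) (nat_lit 88) (nat_lit 5) (nat_lit 79) (nat_lit 5) (nat_lit 321) (nat_lit 310) (nat_lit 149))) (XT.nd (nat_lit 78) (nat_lit 456) (nat_lit 0) (XT.lf (nat_lit 0) (nat_lit 12684534033) (nat_lit 760) (nat_lit 3722928120) (nat_lit 76) (nat_lit 47756367054) (nat_lit 78) (nat_lit 5) (nat_lit 88) (nat_lit 5) (nat_lit 79) (nat_lit 5) (nat_lit 322) (nat_lit 310) (nat_lit 148)) (XT.nd (nat_lit 78) (nat_lit 0) (nat_lit 0) (XT.lf (nat_lit 0) (nat_lit 18207216863) (nat_lit 532) (nat_lit 38004274533) (nat_lit 76) (nat_lit 9757246009) (nat_lit 72) (nat_lit 5) (nat_lit 79) (nat_lit 5) (nat_lit 73) (nat_lit 5) (nat_lit 323) (nat_lit 310) (nat_lit 147)) (XT.lf (nat_lit 0) (nat_lit 24338043529) (nat_lit 532) (nat_lit 6766291070) (nat_lit 76) (nat_lit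 36742958109) (nat_lit 72) (nat_lit 5) (nat_lit 79) (nat_lit 5) (nat_lit 73) (nat_lit 5) (nat_lit 324) (nat_lit 310) (nat_lit 146)))))) (XT.nd (nat_lit 390) (nat_lit 608) (nat_lit 0) (XT.nd (nat_lit 156) (nat_lit 608) (nat_lit 0) (XT.nd (nat_lit 78) (nat_lit 0) (nat_lit 0) (XT.lf (nat_lit 0) (nat_lit 26893376893) (nat_lit 380) (nat_lit 4300917251) (nat_lit 456) (nat_lit 38604539578) (nat_lit 67) (nat_lit 5) (nat_lit 72) (nat_lit 5) (nat_lit 73) (nat_lit 5) (nat_lit 325) (nat_lit 310) (nat_lit 145)) (XT.lf (nat_lit 0) (nat_lit 38881111582) (nat_lit 456) (nat_lit 9746418568) (nat_lit 76) (nat_lit 23196035900) (nat_lit 67) (nat_lit 5) (nat_lit 73) (nat_lit 5) (nat_lit 68) (nat_lit 5) (nat_lit 326) (nat_lit 310) (nat_lit 144))) (XT.nd (nat_lit 78) (nat_lit 304) (nat_lit 0) (XT.lf (nat_lit 0) (nat_lit 25825690568) (nat_lit 304) (nat_lit 21599377981) (nat_lit 380) (nat_lit 26500828396) (nat_lit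 63) (nat_lit 5) (nat_lit 67) (nat_lit 5) (nat_lit 68) (nat_lit 5) (nat_lit 327) (nat_lit 310) (nat_lit 143)) (XT.nd (nat_lit 78) (nat_lit 304) (nat_lit 0) (XT.lf (nat_lit 0) (nat_lit 56668955911) (nat_lit 380) (nat_lit 12719863756) (nat_lit 76) (nat_lit 6730889882) (nat_lit 63) (nat_lit 5) (nat_lit 68) (nat_lit 5) (nat_lit 64) (nat_lit 5) (nat_lit 328) (nat_lit 310) (nat_lit 142)) (XT.lf (nat_lit 0) (nat_lit 24870477823) (nat_lit 304) (nat_lit 42246096970) (nat_lit 380) (nat_lit 11269562842) (nat_lit 59) (nat_lit 5) (nat_lit 63) (nat_lit 5) (nat_lit 64) (nat_lit 5) (nat_lit 329) (nat_lit 310) (nat_lit 141))))) (XT.nd (nat_lit 156) (nat_lit 304) (nat_lit 0) (XT.nd (nat_lit 78) (nat_lit 304) (nat_lit 0) (XT.lf (nat_lit 0) (nat_lit 64781015983) (nat_lit 304) (nat_lit 13520152787) (nat_lit 380) (nat_lit 2453990273) (nat_lit 59) (nat_lit 5) (nat_lit 63) (nat_lit 5) (nat_lit 64) (nat_lit 5)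 (nat_lit 330) (nat_lit 310) (nat_lit 140)) (XT.lf (nat_lit 0) (nat_lit 7227993072) (nat_lit 304) (nat_lit 59377307756) (nat_lit 76) (nat_lit 16599854464) (nat_lit 55) (nat_lit 5) (nat_lit 59) (nat_lit 5) (nat_lit 56) (nat_lit 5) (nat_lit 331) (nat_lit 310) (nat_lit 139))) (XT.nd (nat_lit 78) (nat_lit 304) (nat_lit 0) (XT.lf (nat_lit 0) (nat_lit 17807436123) (nat_lit 304) (nat_lit 19856839934) (nat_lit 76) (nat_lit 48086573700) (nat_lit 55) (nat_lit 5) (nat_lit 59) (nat_lit 5) (nat_lit 56) (nat_lit 5) (nat_lit 332) (nat_lit 310) (nat_lit 138)) (XT.nd (nat_lit 78) (nat_lit 0) (nat_lit 0) (XT.lf (nat_lit 0) (nat_lit 22354238122) (nat_lit 304) (nat_lit 6909886552) (nat_lit 380) (nat_lit 59142291942) (nat_lit 51) (nat_lit 5) (nat_lit 55) (nat_lit 5) (nat_lit 56) (nat_lit 5) (nat_lit 333) (nat_lit 310) (nat_lit 137)) (XT.lf (nat_lit 0) (nat_lit 42031013483) (nat_lit 380) (nat_lit 24215402081)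 (nat_lit 76) (nat_lit 24911479237) (nat_lit 51) (nat_lit 5) (nat_lit 56) (nat_lit 5) (nat_lit 52) (nat_lit 5) (nat_lit 334) (nat_lit 310) (nat_lit 136))))))) (XT.nd (nat_lit 780) (nat_lit 836) (nat_lit 0) (XT.nd (nat_lit 390) (nat_lit 380) (nat_lit 0) (XT.nd (nat_lit 156) (nat_lit 532) (nat_lit 0) (XT.nd (nat_lit 78) (nat_lit 0) (nat_lit 0) (XT.lf (nat_lit 0) (nat_lit 20247104641) (nat_lit 228) (nat_lit 35617847385) (nat_lit 304) (nat_lit 38160560819) (nat_lit 48) (nat_lit 5) (nat_lit 51) (nat_lit 5) (nat_lit 52) (nat_lit 5) (nat_lit 335) (nat_lit 310) (nat_lit 135)) (XT.lf (nat_lit 0) (nat_lit 67772589261) (nat_lit 228) (nat_lit 3027431556) (nat_lit 304) (nat_lit 26216020462) (nat_lit 48) (nat_lit 5) (nat_lit 51) (nat_lit 5) (nat_lit 52) (nat_lit 5) (nat_lit 336) (nat_lit 310) (nat_lit 134))) (XT.nd (nat_lit 78) (nat_lit 304) (nat_lit 0) (XT.lf (nat_lit 0) (nat_lit 17593510730) (nat_lit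 228) (nat_lit 69649381489) (nat_lit 304) (nat_lit 12875152560) (nat_lit 45) (nat_lit 5) (nat_lit 48) (nat_lit 5) (nat_lit 49) (nat_lit 5) (nat_lit 337) (nat_lit 310) (nat_lit 133)) (XT.nd (nat_lit 78) (nat_lit 228) (nat_lit 0) (XT.lf (nat_lit 0) (nat_lit 1648873295) (nat_lit 304) (nat_lit 35639081403) (nat_lit 76) (nat_lit 66058691982) (nat_lit 44) (nat_lit 5) (nat_lit 48) (nat_lit 5) (nat_lit 45) (nat_lit 5) (nat_lit 338) (nat_lit 310) (nat_lit 132)) (XT.lf (nat_lit 0) (nat_lit 13821129361) (nat_lit 228) (nat_lit 2860467131) (nat_lit 304) (nat_lit 90033770450) (nat_lit 41) (nat_lit 5) (nat_lit 44) (nat_lit 5) (nat_lit 45) (nat_lit 5) (nat_lit 339) (nat_lit 310) (nat_lit 131))))) (XT.nd (nat_lit 156) (nat_lit 152) (nat_lit 0) (XT.nd (nat_lit 78) (nat_lit 228) (nat_lit 0) (XT.lf (nat_lit 0) (nat_lit 33598552518) (nat_lit 304) (nat_lit 43761128208) (nat_lit 76) (nat_lit 32836213565) (nat_lit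 41) (nat_lit 5) (nat_lit 45) (nat_lit 5) (nat_lit 42) (nat_lit 5) (nat_lit 340) (nat_lit 310) (nat_lit 130)) (XT.lf (nat_lit 0) (nat_lit 8038233894) (nat_lit 228) (nat_lit 43494954650) (nat_lit 304) (nat_lit 62308668715) (nat_lit 38) (nat_lit 5) (nat_lit 41) (nat_lit 5) (nat_lit 42) (nat_lit 5) (nat_lit 341) (nat_lit 310) (nat_lit 129))) (XT.nd (nat_lit 78) (nat_lit 152) (nat_lit 0) (XT.lf (nat_lit 0) (nat_lit 63946080777) (nat_lit 228) (nat_lit 7159046049) (nat_lit 304) (nat_lit 46527963849) (nat_lit 38) (nat_lit 5) (nat_lit 41) (nat_lit 5) (nat_lit 42) (nat_lit 5) (nat_lit 342) (nat_lit 310) (nat_lit 128)) (XT.nd (nat_lit 78) (nat_lit 0) (nat_lit 0) (XT.lf (nat_lit 0) (nat_lit 568990038) (nat_lit 152) (nat_lit 91578930567) (nat_lit 228) (nat_lit 29441353011) (nat_lit 36) (nat_lit 5) (nat_lit 38) (nat_lit 5) (nat_lit 39) (nat_lit 5) (nat_lit 343) (nat_lit 310) (nat_lit 127)) (XT.lf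 (nat_lit 0) (nat_lit 59279694461) (nat_lit 152) (nat_lit 55987334037) (nat_lit 228) (nat_lit 10425029228) (nat_lit 36) (nat_lit 5) (nat_lit 38) (nat_lit 5) (nat_lit 39) (nat_lit 5) (nat_lit 344) (nat_lit 310) (nat_lit 126)))))) (XT.nd (nat_lit 390) (nat_lit 380) (nat_lit 0) (XT.nd (nat_lit 156) (nat_lit 152) (nat_lit 0) (XT.nd (nat_lit 78) (nat_lit 228) (nat_lit 0) (XT.lf (nat_lit 0) (nat_lit 9236209681) (nat_lit 228) (nat_lit 9223752899) (nat_lit 76) (nat_lit 111532594880) (nat_lit 35) (nat_lit 5) (nat_lit 38) (nat_lit 5) (nat_lit 36) (nat_lit 5) (nat_lit 345) (nat_lit 310) (nat_lit 125)) (XT.lf (nat_lit 0) (nat_lit 30689852085) (nat_lit 304) (nat_lit 82474394249) (nat_lit 76) (nat_lit 21277306840) (nat_lit 32) (nat_lit 5) (nat_lit 36) (nat_lit 5) (nat_lit 33) (nat_lit 5) (nat_lit 346) (nat_lit 310) (nat_lit 124))) (XT.nd (nat_lit 78) (nat_lit 152) (nat_lit 0) (XT.lf (nat_lit 0) (nat_lit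 53677106350) (nat_lit 304) (nat_lit 22873228324) (nat_lit 76) (nat_lit 62539618125) (nat_lit 32) (nat_lit 5) (nat_lit 36) (nat_lit 5) (nat_lit 33) (nat_lit 5) (nat_lit 347) (nat_lit 310) (nat_lit 123)) (XT.nd (nat_lit 78) (nat_lit 0) (nat_lit 0) (XT.lf (nat_lit 0) (nat_lit 41020231711) (nat_lit 152) (nat_lit 37433492285) (nat_lit 228) (nat_lit 65485048961) (nat_lit 30) (nat_lit 5) (nat_lit 32) (nat_lit 5) (nat_lit 33) (nat_lit 5) (nat_lit 348) (nat_lit 310) (nat_lit 122)) (XT.lf (nat_lit 0) (nat_lit 104919277058) (nat_lit 228) (nat_lit 40172037859) (nat_lit 76) (nat_lit 3916214535) (nat_lit 30) (nat_lit 5) (nat_lit 33) (nat_lit 5) (nat_lit 31) (nat_lit 5) (nat_lit 349) (nat_lit 310) (nat_lit 121))))) (XT.nd (nat_lit 156) (nat_lit 152) (nat_lit 0) (XT.nd (nat_lit 78) (nat_lit 76) (nat_lit 0) (XT.lf (nat_lit 0) (nat_lit 25927319727) (nat_lit 152) (nat_lit 107798837631) (nat_lit 228) (nat_lit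 20552664463) (nat_lit 28) (nat_lit 5) (nat_lit 30) (nat_lit 5) (nat_lit 31) (nat_lit 5) (nat_lit 350) (nat_lit 310) (nat_lit 120)) (XT.lf (nat_lit 0) (nat_lit 4717642612) (nat_lit 228) (nat_lit 63130079110) (nat_lit 76) (nat_lit 91928156526) (nat_lit 27) (nat_lit 5) (nat_lit 30) (nat_lit 5) (nat_lit 28) (nat_lit 5) (nat_lit 351) (nat_lit 310) (nat_lit 119))) (XT.nd (nat_lit 78) (nat_lit 0) (nat_lit 0) (XT.lf (nat_lit 0) (nat_lit 5180684191) (nat_lit 152) (nat_lit 25460571382) (nat_lit 228) (nat_lit 134885661192) (nat_lit 25) (nat_lit 5) (nat_lit 27) (nat_lit 5) (nat_lit 28) (nat_lit 5) (nat_lit 352) (nat_lit 310) (nat_lit 118)) (XT.nd (nat_lit 78) (nat_lit 0) (nat_lit 0) (XT.lf (nat_lit 0) (nat_lit 59244690354) (nat_lit 228) (nat_lit 92728840330) (nat_lit 76) (nat_lit 19522794903) (nat_lit 25) (nat_lit 5) (nat_lit 28) (nat_lit 5) (nat_lit 26) (nat_lit 5) (nat_lit 353) (nat_lit 310) (nat_lit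 117)) (XT.lf (nat_lit 0) (nat_lit 89695317031) (nat_lit 228) (nat_lit 22148557451) (nat_lit 76) (nat_lit 65899479774) (nat_lit 25) (nat_lit 5) (nat_lit 28) (nat_lit 5) (nat_lit 26) (nat_lit 5) (nat_lit 354) (nat_lit 310) (nat_lit 116))))))))
noncomputable def xc229 : XT := (XT.nd (nat_lit 37440) (nat_lit 0) (nat_lit 2964) (XT.nd (nat_lit 780) (nat_lit 380) (nat_lit 0) (XT.nd (nat_lit 390) (nat_lit 304) (nat_lit 0) (XT.nd (nat_lit 156) (nat_lit 152) (nat_lit 0) (XT.nd (nat_lit 78) (nat_lit 0) (nat_lit 0) (XT.lf (nat_lit 0) (nat_lit 53678213278) (nat_lit 152) (nat_lit 68827980288) (nat_lit 228) (nat_lit 61754655261) (nat_lit 23) (nat_lit 5) (nat_lit 25) (nat_lit 5) (nat_lit 26) (nat_lit 5) (nat_lit 355) (nat_lit 310) (nat_lit 115)) (XT.lf (nat_lit 0) (nat_lit 134064715204) (nat_lit 152) (nat_lit 23267654388) (nat_lit 228) (nat_lit 33753111129) (nat_lit 23) (nat_lit 5) (nat_lit 25) (nat_lit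 5) (nat_lit 26) (nat_lit 5) (nat_lit 356) (nat_lit 310) (nat_lit 114))) (XT.nd (nat_lit 78) (nat_lit 76) (nat_lit 0) (XT.lf (nat_lit 0) (nat_lit 20490874465) (nat_lit 76) (nat_lit 174112189394) (nat_lit 152) (nat_lit 3613120236) (nat_lit 22) (nat_lit 5) (nat_lit 23) (nat_lit 5) (nat_lit 24) (nat_lit 4) (nat_lit 357) (nat_lit 310) (nat_lit 113)) (XT.nd (nat_lit 78) (nat_lit 0) (nat_lit 0) (XT.lf (nat_lit 0) (nat_lit 28499227083) (nat_lit 152) (nat_lit 102632909786) (nat_lit 76) (nat_lit 74481270940) (nat_lit 21) (nat_lit 5) (nat_lit 23) (nat_lit 5) (nat_lit 22) (nat_lit 5) (nat_lit 358) (nat_lit 310) (nat_lit 112)) (XT.lf (nat_lit 0) (nat_lit 62095456632) (nat_lit 152) (nat_lit 23845640066) (nat_lit 76) (nat_lit 127436450276) (nat_lit 21) (nat_lit 5) (nat_lit 23) (nat_lit 5) (nat_lit 22) (nat_lit 5) (nat_lit 359) (nat_lit 310) (nat_lit 111))))) (XT.nd (nat_lit 156) (nat_lit 152) (nat_lit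 0) (XT.nd (nat_lit 78) (nat_lit 0) (nat_lit 0) (XT.lf (nat_lit 0) (nat_lit 60827354414) (nat_lit 152) (nat_lit 37493532902) (nat_lit 228) (nat_lit 123161536594) (nat_lit 19) (nat_lit 5) (nat_lit 21) (nat_lit 5) (nat_lit 22) (nat_lit 5) (nat_lit 360) (nat_lit 310) (nat_lit 110)) (XT.lf (nat_lit 0) (nat_lit 136976598122) (nat_lit 228) (nat_lit 79626448592) (nat_lit 76) (nat_lit 13358547830) (nat_lit 19) (nat_lit 5) (nat_lit 22) (nat_lit 5) (nat_lit 20) (nat_lit 4) (nat_lit 361) (nat_lit 310) (nat_lit 109))) (XT.nd (nat_lit 78) (nat_lit 76) (nat_lit 0) (XT.lf (nat_lit 0) (nat_lit 4998463368) (nat_lit 76) (nat_lit 173259040740) (nat_lit 152) (nat_lit 60572599387) (nat_lit 18) (nat_lit 5) (nat_lit 19) (nat_lit 5) (nat_lit 20) (nat_lit 4) (nat_lit 362) (nat_lit 310) (nat_lit 108)) (XT.nd (nat_lit 78) (nat_lit 76) (nat_lit 0) (XT.lf (nat_lit 0) (nat_lit 96618605112) (nat_lit 76) (nat_lit 126332090235)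 (nat_lit 152) (nat_lit 25123930804) (nat_lit 18) (nat_lit 5) (nat_lit 19) (nat_lit 5) (nat_lit 20) (nat_lit 4) (nat_lit 363) (nat_lit 310) (nat_lit 107)) (XT.lf (nat_lit 0) (nat_lit 11709722185) (nat_lit 152) (nat_lit 65150944803) (nat_lit 76) (nat_lit 180911277845) (nat_lit 17) (nat_lit 5) (nat_lit 19) (nat_lit 5) (nat_lit 18) (nat_lit 5) (nat_lit 364) (nat_lit 310) (nat_lit 106)))))) (XT.nd (nat_lit 390) (nat_lit 152) (nat_lit 0) (XT.nd (nat_lit 156) (nat_lit 76) (nat_lit 0) (XT.nd (nat_lit 78) (nat_lit 0) (nat_lit 0) (XT.lf (nat_lit 0) (nat_lit 25885586463) (nat_lit 152) (nat_lit 24059037663) (nat_lit 228) (nat_lit 217968717401) (nat_lit 15) (nat_lit 5) (nat_lit 17) (nat_lit 5) (nat_lit 18) (nat_lit 5) (nat_lit 365) (nat_lit 310) (nat_lit 105)) (XT.lf (nat_lit 0) (nat_lit 91702444467) (nat_lit 228) (nat_lit 155279295583) (nat_lit 76) (nat_lit 31499509551) (nat_lit 15) (nat_lit 5)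 (nat_lit 18) (nat_lit 5) (nat_lit 16) (nat_lit 4) (nat_lit 366) (nat_lit 310) (nat_lit 104))) (XT.nd (nat_lit 78) (nat_lit 76) (nat_lit 0) (XT.lf (nat_lit 0) (nat_lit 135942329262) (nat_lit 228) (nat_lit 64588237159) (nat_lit 76) (nat_lit 89027278185) (nat_lit 15) (nat_lit 5) (nat_lit 18) (nat_lit 5) (nat_lit 16) (nat_lit 4) (nat_lit 367) (nat_lit 310) (nat_lit 103)) (XT.nd (nat_lit 78) (nat_lit 0) (nat_lit 0) (XT.lf (nat_lit 0) (nat_lit 31649977232) (nat_lit 76) (nat_lit 151238150179) (nat_lit 152) (nat_lit 118275446184) (nat_lit 14) (nat_lit 5) (nat_lit 15) (nat_lit 5) (nat_lit 16) (nat_lit 4) (nat_lit 368) (nat_lit 310) (nat_lit 102)) (XT.lf (nat_lit 0) (nat_lit 134942072564) (nat_lit 76) (nat_lit 98332754923) (nat_lit 152) (nat_lit 80020081127) (nat_lit 14) (nat_lit 5) (nat_lit 15) (nat_lit 5) (nat_lit 16) (nat_lit 4) (nat_lit 369) (nat_lit 310) (nat_lit 101))))) (XT.nd (nat_lit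 36036) (nat_lit 0) (nat_lit 5472) (XT.nd (nat_lit 78) (nat_lit 152) (nat_lit 0) (XT.lf (nat_lit 0) (nat_lit 243398403586) (nat_lit 76) (nat_lit 42782248476) (nat_lit 152) (nat_lit 39852169021) (nat_lit 14) (nat_lit 5) (nat_lit 15) (nat_lit 5) (nat_lit 16) (nat_lit 4) (nat_lit 370) (nat_lit 310) (nat_lit 100)) (XT.lf (nat_lit 0) (nat_lit 2785202309) (nat_lit 152) (nat_lit 321216538580) (nat_lit 76) (nat_lit 15377301596) (nat_lit 12) (nat_lit 5) (nat_lit 14) (nat_lit 5) (nat_lit 13) (nat_lit 4) (nat_lit 371) (nat_lit 310) (nat_lit 99))) (XT.nd (nat_lit 78) (nat_lit 0) (nat_lit 0) (XT.lf (nat_lit 0) (nat_lit 9065173987) (nat_lit 0) (nat_lit 9065173987) (nat_lit 684) (nat_lit 6515399300) (nat_lit 84) (nat_lit 5) (nat_lit 84) (nat_lit 3) (nat_lit 93) (nat_lit 3) (nat_lit 311) (nat_lit 311) (nat_lit 158)) (XT.nd (nat_lit 78) (nat_lit 0) (nat_lit 0) (XT.lf (nat_lit 0) (nat_lit 37257465934)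 (nat_lit 684) (nat_lit 9220631697) (nat_lit 760) (nat_lit 4041113409) (nat_lit 84) (nat_lit 5) (nat_lit 93) (nat_lit 3) (nat_lit 94) (nat_lit 5) (nat_lit 312) (nat_lit 311) (nat_lit 157)) (XT.lf (nat_lit 76) (nat_lit 13965783381) (nat_lit 0) (nat_lit 24851962397) (nat_lit 760) (nat_lit 12964887738) (nat_lit 85) (nat_lit 5) (nat_lit 84) (nat_lit 5) (nat_lit 94) (nat_lit 5) (nat_lit 313) (nat_lit 311) (nat_lit 156))))))) (XT.nd (nat_lit 780) (nat_lit 1976) (nat_lit 0) (XT.nd (nat_lit 390) (nat_lit 532) (nat_lit 0) (XT.nd (nat_lit 156) (nat_lit 0) (nat_lit 76) (XT.nd (nat_lit 78) (nat_lit 0) (nat_lit 76) (XT.lf (nat_lit 76) (nat_lit 38630754213) (nat_lit 0) (nat_lit 1979910805) (nat_lit 760) (nat_lit 12490834377) (nat_lit 85) (nat_lit 5) (nat_lit 84) (nat_lit 5) (nat_lit 94) (nat_lit 5) (nat_lit 314) (nat_lit 311) (nat_lit 155)) (XT.lf (nat_lit 76) (nat_lit 10018346711) (nat_lit 0) (nat_lit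 32973889717) (nat_lit 760) (nat_lit 11469125214) (nat_lit 86) (nat_lit 5) (nat_lit 85) (nat_lit 5) (nat_lit 95) (nat_lit 5) (nat_lit 315) (nat_lit 311) (nat_lit 154))) (XT.nd (nat_lit 78) (nat_lit 0) (nat_lit 76) (XT.lf (nat_lit 76) (nat_lit 36199840765) (nat_lit 0) (nat_lit 9568655480) (nat_lit 760) (nat_lit 10106943483) (nat_lit 86) (nat_lit 5) (nat_lit 85) (nat_lit 5) (nat_lit 95) (nat_lit 5) (nat_lit 316) (nat_lit 311) (nat_lit 153)) (XT.nd (nat_lit 78) (nat_lit 0) (nat_lit 0) (XT.lf (nat_lit 76) (nat_lit 6296468946) (nat_lit 0) (nat_lit 42718384674) (nat_lit 760) (nat_lit 8328806938) (nat_lit 87) (nat_lit 5) (nat_lit 86) (nat_lit 5) (nat_lit 96) (nat_lit 5) (nat_lit 317) (nat_lit 311) (nat_lit 152)) (XT.lf (nat_lit 76) (nat_lit 34087251728) (nat_lit 0) (nat_lit 18822554593) (nat_lit 760) (nat_lit 5951175157) (nat_lit 87) (nat_lit 5) (nat_lit 86) (nat_lit 5) (nat_lit 96) (nat_lit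 5) (nat_lit 318) (nat_lit 311) (nat_lit 151))))) (XT.nd (nat_lit 156) (nat_lit 0) (nat_lit 0) (XT.nd (nat_lit 78) (nat_lit 760) (nat_lit 0) (XT.lf (nat_lit 76) (nat_lit 2804344513) (nat_lit 0) (nat_lit 54335602036) (nat_lit 760) (nat_lit 3307202682) (nat_lit 88) (nat_lit 5) (nat_lit 87) (nat_lit 5) (nat_lit 97) (nat_lit 5) (nat_lit 319) (nat_lit 311) (nat_lit 150)) (XT.lf (nat_lit 0) (nat_lit 219779507) (nat_lit 760) (nat_lit 29778372128) (nat_lit 836) (nat_lit 32078200067) (nat_lit 77) (nat_lit 5) (nat_lit 87) (nat_lit 5) (nat_lit 88) (nat_lit 5) (nat_lit 320) (nat_lit 311) (nat_lit 149))) (XT.nd (nat_lit 78) (nat_lit 0) (nat_lit 76) (XT.lf (nat_lit 0) (nat_lit 3810838768) (nat_lit 760) (nat_lit 575869038) (nat_lit 836) (nat_lit 59397654488) (nat_lit 77) (nat_lit 5) (nat_lit 87) (nat_lit 5) (nat_lit 88) (nat_lit 5) (nat_lit 321) (nat_lit 311) (nat_lit 148)) (XT.nd (nat_lit 78) (nat_lit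 0) (nat_lit 0) (XT.lf (nat_lit 0) (nat_lit 8424961162) (nat_lit 760) (nat_lit 34832251743) (nat_lit 76) (nat_lit 22278387292) (nat_lit 78) (nat_lit 5) (nat_lit 88) (nat_lit 5) (nat_lit 79) (nat_lit 5) (nat_lit 322) (nat_lit 311) (nat_lit 147)) (XT.lf (nat_lit 0) (nat_lit 13350580823) (nat_lit 760) (nat_lit 3880398171) (nat_lit 76) (nat_lit 50139383624) (nat_lit 78) (nat_lit 5) (nat_lit 88) (nat_lit 5) (nat_lit 79) (nat_lit 5) (nat_lit 323) (nat_lit 311) (nat_lit 146)))))) (XT.nd (nat_lit 390) (nat_lit 912) (nat_lit 0) (XT.nd (nat_lit 156) (nat_lit 684) (nat_lit 0) (XT.nd (nat_lit 78) (nat_lit 0) (nat_lit 0) (XT.lf (nat_lit 0) (nat_lit 19148283525) (nat_lit 532) (nat_lit 39874633784) (nat_lit 76) (nat_lit 10242657823) (nat_lit 72) (nat_lit 5) (nat_lit 79) (nat_lit 5) (nat_lit 73) (nat_lit 5) (nat_lit 324) (nat_lit 311) (nat_lit 145)) (XT.lf (nat_lit 0) (nat_lit 25584189343) (nat_lit 532)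 (nat_lit 7076172789) (nat_lit 76) (nat_lit 38577772218) (nat_lit 72) (nat_lit 5) (nat_lit 79) (nat_lit 5) (nat_lit 73) (nat_lit 5) (nat_lit 325) (nat_lit 311) (nat_lit 144))) (XT.nd (nat_lit 78) (nat_lit 304) (nat_lit 0) (XT.lf (nat_lit 0) (nat_lit 28266019978) (nat_lit 380) (nat_lit 4516276714) (nat_lit 456) (nat_lit 40505006410) (nat_lit 67) (nat_lit 5) (nat_lit 72) (nat_lit 5) (nat_lit 73) (nat_lit 5) (nat_lit 326) (nat_lit 311) (nat_lit 143)) (XT.nd (nat_lit 78) (nat_lit 304) (nat_lit 0) (XT.lf (nat_lit 0) (nat_lit 40852103298) (nat_lit 456) (nat_lit 10205690503) (nat_lit 76) (nat_lit 24355548588) (nat_lit 67) (nat_lit 5) (nat_lit 73) (nat_lit 5) (nat_lit 68) (nat_lit 5) (nat_lit 327) (nat_lit 311) (nat_lit 142)) (XT.lf (nat_lit 0) (nat_lit 27144571687) (nat_lit 304) (nat_lit 22677834613) (nat_lit 380) (nat_lit 27798428745) (nat_lit 63) (nat_lit 5) (nat_lit 67) (nat_lit 5) (nat_lit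 68) (nat_lit 5) (nat_lit 328) (nat_lit 311) (nat_lit 141))))) (XT.nd (nat_lit 234) (nat_lit 608) (nat_lit 0) (XT.nd (nat_lit 78) (nat_lit 304) (nat_lit 0) (XT.lf (nat_lit 0) (nat_lit 59527268406) (nat_lit 380) (nat_lit 13328304823) (nat_lit 76) (nat_lit 7068828533) (nat_lit 63) (nat_lit 5) (nat_lit 68) (nat_lit 5) (nat_lit 64) (nat_lit 5) (nat_lit 329) (nat_lit 311) (nat_lit 140)) (XT.nd (nat_lit 78) (nat_lit 0) (nat_lit 0) (XT.lf (nat_lit 0) (nat_lit 26141109446) (nat_lit 304) (nat_lit 44355397980) (nat_lit 380) (nat_lit 11807684248) (nat_lit 59) (nat_lit 5) (nat_lit 63) (nat_lit 5) (nat_lit 64) (nat_lit 5) (nat_lit 330) (nat_lit 311) (nat_lit 139)) (XT.lf (nat_lit 0) (nat_lit 68045883669) (nat_lit 304) (nat_lit 14193299628) (nat_lit 380) (nat_lit 2552540515) (nat_lit 59) (nat_lit 5) (nat_lit 63) (nat_lit 5) (nat_lit 64) (nat_lit 5) (nat_lit 331) (nat_lit 311) (nat_lit 138)))) (XT.nd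 (nat_lit 78) (nat_lit 304) (nat_lit 0) (XT.lf (nat_lit 0) (nat_lit 7612120152) (nat_lit 304) (nat_lit 62318850034) (nat_lit 76) (nat_lit 17433265340) (nat_lit 55) (nat_lit 5) (nat_lit 59) (nat_lit 5) (nat_lit 56) (nat_lit 5) (nat_lit 332) (nat_lit 311) (nat_lit 137)) (XT.nd (nat_lit 78) (nat_lit 304) (nat_lit 0) (XT.lf (nat_lit 0) (nat_lit 18719453097) (nat_lit 304) (nat_lit 20823659922) (nat_lit 76) (nat_lit 50494157769) (nat_lit 55) (nat_lit 5) (nat_lit 59) (nat_lit 5) (nat_lit 56) (nat_lit 5) (nat_lit 333) (nat_lit 311) (nat_lit 136)) (XT.lf (nat_lit 0) (nat_lit 23497552328) (nat_lit 304) (nat_lit 7250792749) (nat_lit 380) (nat_lit 62077304329) (nat_lit 51) (nat_lit 5) (nat_lit 55) (nat_lit 5) (nat_lit 56) (nat_lit 5) (nat_lit 334) (nat_lit 311) (nat_lit 135))))))))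
noncomputable def xc230 : XT := (XT.nd (nat_lit 1560) (nat_lit 836) (nat_lit 0) (XT.nd (nat_lit 780) (nat_lit 836) (nat_lit 0) (XT.nd (nat_lit 390) (nat_lit 608) (nat_lit 0) (XT.nd (nat_lit 156) (nat_lit 304) (nat_lit 0) (XT.nd (nat_lit 78) (nat_lit 228) (nat_lit 0) (XT.lf (nat_lit 0) (nat_lit 44152645874) (nat_lit 380) (nat_lit 25400821035) (nat_lit 76) (nat_lit 26161282991) (nat_lit 51) (nat_lit 5) (nat_lit 56) (nat_lit 5) (nat_lit 52) (nat_lit 5) (nat_lit 335) (nat_lit 311) (nat_lit 134)) (XT.lf (nat_lit 0) (nat_lit 21284402133) (nat_lit 228) (nat_lit 37393312357) (nat_lit 304) (nat_lit 40048064392) (nat_lit 48) (nat_lit 5) (nat_lit 51) (nat_lit 5) (nat_lit 52) (nat_lit 5) (nat_lit 336) (nat_lit 311) (nat_lit 133))) (XT.nd (nat_lit 78) (nat_lit 304) (nat_lit 0) (XT.lf (nat_lit 0) (nat_lit 71184973258) (nat_lit 228) (nat_lit 3173634184) (nat_lit 304) (nat_lit 27507274373) (nat_lit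 48) (nat_lit 5) (nat_lit 51) (nat_lit 5) (nat_lit 52) (nat_lit 5) (nat_lit 337) (nat_lit 311) (nat_lit 132)) (XT.nd (nat_lit 78) (nat_lit 76) (nat_lit 0) (XT.lf (nat_lit 0) (nat_lit 18497424283) (nat_lit 228) (nat_lit 73125768386) (nat_lit 304) (nat_lit 13499815844) (nat_lit 45) (nat_lit 5) (nat_lit 48) (nat_lit 5) (nat_lit 49) (nat_lit 5) (nat_lit 338) (nat_lit 311) (nat_lit 131)) (XT.lf (nat_lit 0) (nat_lit 1748920013) (nat_lit 304) (nat_lit 37397341753) (nat_lit 76) (nat_lit 69366809236) (nat_lit 44) (nat_lit 5) (nat_lit 48) (nat_lit 5) (nat_lit 45) (nat_lit 5) (nat_lit 339) (nat_lit 311) (nat_lit 130))))) (XT.nd (nat_lit 156) (nat_lit 380) (nat_lit 0) (XT.nd (nat_lit 78) (nat_lit 0) (nat_lit 0) (XT.lf (nat_lit 0) (nat_lit 14535497392) (nat_lit 228) (nat_lit 2997307697) (nat_lit 304) (nat_lit 94517447231) (nat_lit 41) (nat_lit 5) (nat_lit 44) (nat_lit 5) (nat_lit 45) (nat_lit 5) (nat_lit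 340) (nat_lit 311) (nat_lit 129)) (XT.lf (nat_lit 0) (nat_lit 35294885193) (nat_lit 304) (nat_lit 45926234140) (nat_lit 76) (nat_lit 34483724151) (nat_lit 41) (nat_lit 5) (nat_lit 45) (nat_lit 5) (nat_lit 42) (nat_lit 5) (nat_lit 341) (nat_lit 311) (nat_lit 128))) (XT.nd (nat_lit 78) (nat_lit 152) (nat_lit 0) (XT.lf (nat_lit 0) (nat_lit 8462725898) (nat_lit 228) (nat_lit 45663098472) (nat_lit 304) (nat_lit 65407302867) (nat_lit 38) (nat_lit 5) (nat_lit 41) (nat_lit 5) (nat_lit 42) (nat_lit 5) (nat_lit 342) (nat_lit 311) (nat_lit 127)) (XT.nd (nat_lit 78) (nat_lit 152) (nat_lit 0) (XT.lf (nat_lit 0) (nat_lit 67164889872) (nat_lit 228) (nat_lit 7510708913) (nat_lit 304) (nat_lit 48838362724) (nat_lit 38) (nat_lit 5) (nat_lit 41) (nat_lit 5) (nat_lit 42) (nat_lit 5) (nat_lit 343) (nat_lit 311) (nat_lit 126)) (XT.lf (nat_lit 0) (nat_lit 619272188) (nat_lit 152) (nat_lit 96150969900) (nat_lit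 228) (nat_lit 30897727108) (nat_lit 36) (nat_lit 5) (nat_lit 38) (nat_lit 5) (nat_lit 39) (nat_lit 5) (nat_lit 344) (nat_lit 311) (nat_lit 125)))))) (XT.nd (nat_lit 390) (nat_lit 380) (nat_lit 0) (XT.nd (nat_lit 156) (nat_lit 380) (nat_lit 0) (XT.nd (nat_lit 78) (nat_lit 76) (nat_lit 0) (XT.lf (nat_lit 0) (nat_lit 62264472182) (nat_lit 152) (nat_lit 58780122458) (nat_lit 228) (nat_lit 10931334448) (nat_lit 36) (nat_lit 5) (nat_lit 38) (nat_lit 5) (nat_lit 39) (nat_lit 5) (nat_lit 345) (nat_lit 311) (nat_lit 124)) (XT.lf (nat_lit 0) (nat_lit 9711799088) (nat_lit 228) (nat_lit 9664663240) (nat_lit 76) (nat_lit 117115015204) (nat_lit 35) (nat_lit 5) (nat_lit 38) (nat_lit 5) (nat_lit 36) (nat_lit 5) (nat_lit 346) (nat_lit 311) (nat_lit 123))) (XT.nd (nat_lit 78) (nat_lit 152) (nat_lit 0) (XT.lf (nat_lit 0) (nat_lit 32237880684) (nat_lit 304) (nat_lit 86577575772) (nat_lit 76) (nat_lit 22347479619)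 (nat_lit 32) (nat_lit 5) (nat_lit 36) (nat_lit 5) (nat_lit 33) (nat_lit 5) (nat_lit 347) (nat_lit 311) (nat_lit 122)) (XT.nd (nat_lit 78) (nat_lit 152) (nat_lit 0) (XT.lf (nat_lit 0) (nat_lit 56373853092) (nat_lit 304) (nat_lit 23997329560) (nat_lit 76) (nat_lit 65672606114) (nat_lit 32) (nat_lit 5) (nat_lit 36) (nat_lit 5) (nat_lit 33) (nat_lit 5) (nat_lit 348) (nat_lit 311) (nat_lit 121)) (XT.lf (nat_lit 0) (nat_lit 43090487990) (nat_lit 152) (nat_lit 39298500217) (nat_lit 228) (nat_lit 68746078210) (nat_lit 30) (nat_lit 5) (nat_lit 32) (nat_lit 5) (nat_lit 33) (nat_lit 5) (nat_lit 349) (nat_lit 311) (nat_lit 120))))) (XT.nd (nat_lit 156) (nat_lit 228) (nat_lit 0) (XT.nd (nat_lit 78) (nat_lit 152) (nat_lit 0) (XT.lf (nat_lit 0) (nat_lit 110177319098) (nat_lit 228) (nat_lit 42161796136) (nat_lit 76) (nat_lit 4118171269) (nat_lit 30) (nat_lit 5) (nat_lit 33) (nat_lit 5) (nat_lit 31)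 (nat_lit 5) (nat_lit 350) (nat_lit 311) (nat_lit 119)) (XT.lf (nat_lit 0) (nat_lit 27242225400) (nat_lit 152) (nat_lit 113182032318) (nat_lit 228) (nat_lit 21567900797) (nat_lit 28) (nat_lit 5) (nat_lit 30) (nat_lit 5) (nat_lit 31) (nat_lit 5) (nat_lit 351) (nat_lit 311) (nat_lit 118))) (XT.nd (nat_lit 78) (nat_lit 152) (nat_lit 0) (XT.lf (nat_lit 0) (nat_lit 4964953421) (nat_lit 228) (nat_lit 66268534937) (nat_lit 76) (nat_lit 96530598969) (nat_lit 27) (nat_lit 5) (nat_lit 30) (nat_lit 5) (nat_lit 28) (nat_lit 5) (nat_lit 352) (nat_lit 311) (nat_lit 117)) (XT.nd (nat_lit 78) (nat_lit 0) (nat_lit 0) (XT.lf (nat_lit 0) (nat_lit 5457475430) (nat_lit 152) (nat_lit 26727004614) (nat_lit 228) (nat_lit 141618211713) (nat_lit 25) (nat_lit 5) (nat_lit 27) (nat_lit 5) (nat_lit 28) (nat_lit 5) (nat_lit 353) (nat_lit 311) (nat_lit 116)) (XT.lf (nat_lit 0) (nat_lit 62217653123) (nat_lit 228) (nat_lit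 97347925295) (nat_lit 76) (nat_lit 20505014882) (nat_lit 25) (nat_lit 5) (nat_lit 28) (nat_lit 5) (nat_lit 26) (nat_lit 5) (nat_lit 354) (nat_lit 311) (nat_lit 115))))))) (XT.nd (nat_lit 780) (nat_lit 304) (nat_lit 0) (XT.nd (nat_lit 390) (nat_lit 228) (nat_lit 0) (XT.nd (nat_lit 156) (nat_lit 152) (nat_lit 0) (XT.nd (nat_lit 78) (nat_lit 152) (nat_lit 0) (XT.lf (nat_lit 0) (nat_lit 94190300265) (nat_lit 228) (nat_lit 23239454798) (nat_lit 76) (nat_lit 69200244461) (nat_lit 25) (nat_lit 5) (nat_lit 28) (nat_lit 5) (nat_lit 26) (nat_lit 5) (nat_lit 355) (nat_lit 311) (nat_lit 114)) (XT.lf (nat_lit 0) (nat_lit 56378387846) (nat_lit 152) (nat_lit 72263100164) (nat_lit 228) (nat_lit 64831892996) (nat_lit 23) (nat_lit 5) (nat_lit 25) (nat_lit 5) (nat_lit 26) (nat_lit 5) (nat_lit 356) (nat_lit 311) (nat_lit 113))) (XT.nd (nat_lit 78) (nat_lit 152) (nat_lit 0) (XT.lf (nat_lit 0) (nat_lit 140783440396)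 (nat_lit 152) (nat_lit 24425056975) (nat_lit 228) (nat_lit 35430771421) (nat_lit 23) (nat_lit 5) (nat_lit 25) (nat_lit 5) (nat_lit 26) (nat_lit 5) (nat_lit 357) (nat_lit 311) (nat_lit 112)) (XT.nd (nat_lit 78) (nat_lit 76) (nat_lit 0) (XT.lf (nat_lit 0) (nat_lit 21531044057) (nat_lit 76) (nat_lit 182811562355) (nat_lit 152) (nat_lit 3783907419) (nat_lit 22) (nat_lit 5) (nat_lit 23) (nat_lit 5) (nat_lit 24) (nat_lit 4) (nat_lit 358) (nat_lit 311) (nat_lit 111)) (XT.lf (nat_lit 0) (nat_lit 29933286498) (nat_lit 152) (nat_lit 107749363603) (nat_lit 76) (nat_lit 78210964125) (nat_lit 21) (nat_lit 5) (nat_lit 23) (nat_lit 5) (nat_lit 22) (nat_lit 5) (nat_lit 359) (nat_lit 311) (nat_lit 110))))) (XT.nd (nat_lit 156) (nat_lit 76) (nat_lit 0) (XT.nd (nat_lit 78) (nat_lit 152) (nat_lit 0) (XT.lf (nat_lit 0) (nat_lit 65208894283) (nat_lit 152) (nat_lit 25023453810) (nat_lit 76) (nat_lit 133813634350)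 (nat_lit 21) (nat_lit 5) (nat_lit 23) (nat_lit 5) (nat_lit 22) (nat_lit 5) (nat_lit 360) (nat_lit 311) (nat_lit 109)) (XT.lf (nat_lit 0) (nat_lit 63882957035) (nat_lit 152) (nat_lit 39362449103) (nat_lit 228) (nat_lit 129310707018) (nat_lit 19) (nat_lit 5) (nat_lit 21) (nat_lit 5) (nat_lit 22) (nat_lit 5) (nat_lit 361) (nat_lit 311) (nat_lit 108))) (XT.nd (nat_lit 78) (nat_lit 76) (nat_lit 0) (XT.lf (nat_lit 0) (nat_lit 143833584593) (nat_lit 228) (nat_lit 83593888248) (nat_lit 76) (nat_lit 14031785768) (nat_lit 19) (nat_lit 5) (nat_lit 22) (nat_lit 5) (nat_lit 20) (nat_lit 4) (nat_lit 362) (nat_lit 311) (nat_lit 107)) (XT.nd (nat_lit 78) (nat_lit 0) (nat_lit 0) (XT.lf (nat_lit 0) (nat_lit 5262045395) (nat_lit 76) (nat_lit 181916315328) (nat_lit 152) (nat_lit 63592841415) (nat_lit 18) (nat_lit 5) (nat_lit 19) (nat_lit 5) (nat_lit 20) (nat_lit 4) (nat_lit 363) (nat_lit 311) (nat_lit 106))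 (XT.lf (nat_lit 0) (nat_lit 101462543805) (nat_lit 76) (nat_lit 132643287652) (nat_lit 152) (nat_lit 26372138828) (nat_lit 18) (nat_lit 5) (nat_lit 19) (nat_lit 5) (nat_lit 20) (nat_lit 4) (nat_lit 364) (nat_lit 311) (nat_lit 105)))))) (XT.nd (nat_lit 390) (nat_lit 0) (nat_lit 0) (XT.nd (nat_lit 156) (nat_lit 76) (nat_lit 0) (XT.nd (nat_lit 78) (nat_lit 152) (nat_lit 0) (XT.lf (nat_lit 0) (nat_lit 12302572898) (nat_lit 152) (nat_lit 68395853103) (nat_lit 76) (nat_lit 189961741398) (nat_lit 17) (nat_lit 5) (nat_lit 19) (nat_lit 5) (nat_lit 18) (nat_lit 5) (nat_lit 365) (nat_lit 311) (nat_lit 104)) (XT.lf (nat_lit 0) (nat_lit 27192300873) (nat_lit 152) (nat_lit 25256762515) (nat_lit 228) (nat_lit 228859578674) (nat_lit 15) (nat_lit 5) (nat_lit 17) (nat_lit 5) (nat_lit 18) (nat_lit 5) (nat_lit 366) (nat_lit 311) (nat_lit 103))) (XT.nd (nat_lit 78) (nat_lit 76) (nat_lit 0) (XT.lf (nat_lit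 0) (nat_lit 96294509227) (nat_lit 228) (nat_lit 163031146058) (nat_lit 76) (nat_lit 33079303822) (nat_lit 15) (nat_lit 5) (nat_lit 18) (nat_lit 5) (nat_lit 16) (nat_lit 4) (nat_lit 367) (nat_lit 311) (nat_lit 102)) (XT.nd (nat_lit 78) (nat_lit 76) (nat_lit 0) (XT.lf (nat_lit 0) (nat_lit 142746057665) (nat_lit 228) (nat_lit 67806111584) (nat_lit 76) (nat_lit 93483231422) (nat_lit 15) (nat_lit 5) (nat_lit 18) (nat_lit 5) (nat_lit 16) (nat_lit 4) (nat_lit 368) (nat_lit 311) (nat_lit 101)) (XT.lf (nat_lit 0) (nat_lit 33243827439) (nat_lit 76) (nat_lit 158795180655) (nat_lit 152) (nat_lit 124182415163) (nat_lit 14) (nat_lit 5) (nat_lit 15) (nat_lit 5) (nat_lit 16) (nat_lit 4) (nat_lit 369) (nat_lit 311) (nat_lit 100))))) (XT.nd (nat_lit 36270) (nat_lit 0) (nat_lit 5320) (XT.nd (nat_lit 36114) (nat_lit 0) (nat_lit 5320) (XT.lf (nat_lit 0) (nat_lit 141699986997) (nat_lit 76) (nat_lit 103244747876)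 (nat_lit 152) (nat_lit 84014605822) (nat_lit 14) (nat_lit 5) (nat_lit 15) (nat_lit 5) (nat_lit 16) (nat_lit 4) (nat_lit 370) (nat_lit 311) (nat_lit 99)) (XT.nd (nat_lit 78) (nat_lit 0) (nat_lit 0) (XT.lf (nat_lit 0) (nat_lit 9530773623) (nat_lit 0) (nat_lit 9530773623) (nat_lit 684) (nat_lit 6815195964) (nat_lit 84) (nat_lit 5) (nat_lit 84) (nat_lit 3) (nat_lit 93) (nat_lit 3) (nat_lit 312) (nat_lit 312) (nat_lit 156)) (XT.lf (nat_lit 0) (nat_lit 39166985320) (nat_lit 684) (nat_lit 9655329870) (nat_lit 760) (nat_lit 4220414890) (nat_lit 84) (nat_lit 5) (nat_lit 93) (nat_lit 3) (nat_lit 94) (nat_lit 5) (nat_lit 313) (nat_lit 312) (nat_lit 155)))) (XT.nd (nat_lit 78) (nat_lit 0) (nat_lit 0) (XT.lf (nat_lit 76) (nat_lit 14689981229) (nat_lit 0) (nat_lit 26113481192) (nat_lit 760) (nat_lit 13565957296) (nat_lit 85) (nat_lit 5) (nat_lit 84) (nat_lit 5) (nat_lit 94) (nat_lit 5) (nat_lit 314)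 (nat_lit 312) (nat_lit 154)) (XT.nd (nat_lit 78) (nat_lit 0) (nat_lit 76) (XT.lf (nat_lit 76) (nat_lit 40586966856) (nat_lit 0) (nat_lit 2096926036) (nat_lit 760) (nat_lit 13070447688) (nat_lit 85) (nat_lit 5) (nat_lit 84) (nat_lit 5) (nat_lit 94) (nat_lit 5) (nat_lit 315) (nat_lit 312) (nat_lit 153)) (XT.lf (nat_lit 76) (nat_lit 10546015553) (nat_lit 0) (nat_lit 34636643966) (nat_lit 760) (nat_lit 11999635303) (nat_lit 86) (nat_lit 5) (nat_lit 85) (nat_lit 5) (nat_lit 95) (nat_lit 5) (nat_lit 316) (nat_lit 312) (nat_lit 152))))))))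
noncomputable def xc231 : XT := (XT.nd (nat_lit 1560) (nat_lit 2128) (nat_lit 0) (XT.nd (nat_lit 780) (nat_lit 1596) (nat_lit 0) (XT.nd (nat_lit 390) (nat_lit 380) (nat_lit 0) (XT.nd (nat_lit 156) (nat_lit 608) (nat_lit 0) (XT.nd (nat_lit 78) (nat_lit 0) (nat_lit 76) (XT.lf (nat_lit 76) (nat_lit 38035310428) (nat_lit 0) (nat_lit 10060478505) (nat_lit 760) (nat_lit 10571389542) (nat_lit 86) (nat_lit 5) (nat_lit 85) (nat_lit 5) (nat_lit 95) (nat_lit 5) (nat_lit 317) (nat_lit 312) (nat_lit 151)) (XT.lf (nat_lit 76) (nat_lit 6638565223) (nat_lit 0) (nat_lit 44864274805) (nat_lit 760) (nat_lit 8706055805) (nat_lit 87) (nat_lit 5) (nat_lit 86) (nat_lit 5) (nat_lit 96) (nat_lit 5) (nat_lit 318) (nat_lit 312) (nat_lit 150))) (XT.nd (nat_lit 78) (nat_lit 684) (nat_lit 0) (XT.lf (nat_lit 76) (nat_lit 35817588437) (nat_lit 0) (nat_lit 19773178416) (nat_lit 760) (nat_lit 6211408696) (nat_lit 87)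 (nat_lit 5) (nat_lit 86) (nat_lit 5) (nat_lit 96) (nat_lit 5) (nat_lit 319) (nat_lit 312) (nat_lit 149)) (XT.nd (nat_lit 78) (nat_lit 760) (nat_lit 0) (XT.lf (nat_lit 76) (nat_lit 2972087877) (nat_lit 0) (nat_lit 57058925717) (nat_lit 760) (nat_lit 3436712001) (nat_lit 88) (nat_lit 5) (nat_lit 87) (nat_lit 5) (nat_lit 97) (nat_lit 5) (nat_lit 320) (nat_lit 312) (nat_lit 148)) (XT.lf (nat_lit 0) (nat_lit 263819306) (nat_lit 760) (nat_lit 31239912159) (nat_lit 836) (nat_lit 33674714885) (nat_lit 77) (nat_lit 5) (nat_lit 87) (nat_lit 5) (nat_lit 88) (nat_lit 5) (nat_lit 321) (nat_lit 312) (nat_lit 147))))) (XT.nd (nat_lit 156) (nat_lit 380) (nat_lit 0) (XT.nd (nat_lit 78) (nat_lit 0) (nat_lit 76) (XT.lf (nat_lit 0) (nat_lit 4032857682) (nat_lit 760) (nat_lit 578587656) (nat_lit 836) (nat_lit 62360494178) (nat_lit 77) (nat_lit 5) (nat_lit 87) (nat_lit 5) (nat_lit 88) (nat_lit 5) (nat_lit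 322) (nat_lit 312) (nat_lit 146)) (XT.lf (nat_lit 0) (nat_lit 8876514066) (nat_lit 760) (nat_lit 36546553516) (nat_lit 76) (nat_lit 23387733530) (nat_lit 78) (nat_lit 5) (nat_lit 88) (nat_lit 5) (nat_lit 79) (nat_lit 5) (nat_lit 323) (nat_lit 312) (nat_lit 145))) (XT.nd (nat_lit 78) (nat_lit 456) (nat_lit 0) (XT.lf (nat_lit 0) (nat_lit 14046971623) (nat_lit 760) (nat_lit 4048407780) (nat_lit 76) (nat_lit 52641997447) (nat_lit 78) (nat_lit 5) (nat_lit 88) (nat_lit 5) (nat_lit 79) (nat_lit 5) (nat_lit 324) (nat_lit 312) (nat_lit 144)) (XT.nd (nat_lit 78) (nat_lit 0) (nat_lit 0) (XT.lf (nat_lit 0) (nat_lit 20133548785) (nat_lit 532) (nat_lit 41841286583) (nat_lit 76) (nat_lit 10752568051) (nat_lit 72) (nat_lit 5) (nat_lit 79) (nat_lit 5) (nat_lit 73) (nat_lit 5) (nat_lit 325) (nat_lit 312) (nat_lit 143)) (XT.lf (nat_lit 0) (nat_lit 26889923651) (nat_lit 532) (nat_lit 7404192010) (nat_lit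 76) (nat_lit 40504544007) (nat_lit 72) (nat_lit 5) (nat_lit 79) (nat_lit 5) (nat_lit 73) (nat_lit 5) (nat_lit 326) (nat_lit 312) (nat_lit 142)))))) (XT.nd (nat_lit 390) (nat_lit 608) (nat_lit 0) (XT.nd (nat_lit 156) (nat_lit 608) (nat_lit 0) (XT.nd (nat_lit 78) (nat_lit 0) (nat_lit 0) (XT.lf (nat_lit 0) (nat_lit 29704694437) (nat_lit 380) (nat_lit 4742374993) (nat_lit 456) (nat_lit 42503263400) (nat_lit 67) (nat_lit 5) (nat_lit 72) (nat_lit 5) (nat_lit 73) (nat_lit 5) (nat_lit 327) (nat_lit 312) (nat_lit 141)) (XT.lf (nat_lit 0) (nat_lit 42919140333) (nat_lit 456) (nat_lit 10690533764) (nat_lit 76) (nat_lit 25573063789) (nat_lit 67) (nat_lit 5) (nat_lit 73) (nat_lit 5) (nat_lit 68) (nat_lit 5) (nat_lit 328) (nat_lit 312) (nat_lit 140))) (XT.nd (nat_lit 78) (nat_lit 304) (nat_lit 0) (XT.lf (nat_lit 0) (nat_lit 28526831192) (nat_lit 304) (nat_lit 23810354673) (nat_lit 380) (nat_lit 29163460322)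 (nat_lit 63) (nat_lit 5) (nat_lit 67) (nat_lit 5) (nat_lit 68) (nat_lit 5) (nat_lit 329) (nat_lit 312) (nat_lit 139)) (XT.nd (nat_lit 78) (nat_lit 304) (nat_lit 0) (XT.lf (nat_lit 0) (nat_lit 62526184842) (nat_lit 380) (nat_lit 13969729478) (nat_lit 76) (nat_lit 7423534501) (nat_lit 63) (nat_lit 5) (nat_lit 68) (nat_lit 5) (nat_lit 64) (nat_lit 5) (nat_lit 330) (nat_lit 312) (nat_lit 138)) (XT.lf (nat_lit 0) (nat_lit 27472752430) (nat_lit 304) (nat_lit 46570443309) (nat_lit 380) (nat_lit 12375069154) (nat_lit 59) (nat_lit 5) (nat_lit 63) (nat_lit 5) (nat_lit 64) (nat_lit 5) (nat_lit 331) (nat_lit 312) (nat_lit 137))))) (XT.nd (nat_lit 156) (nat_lit 304) (nat_lit 0) (XT.nd (nat_lit 78) (nat_lit 304) (nat_lit 0) (XT.lf (nat_lit 0) (nat_lit 71471594531) (nat_lit 304) (nat_lit 14900369781) (nat_lit 380) (nat_lit 2658263439) (nat_lit 59) (nat_lit 5) (nat_lit 63) (nat_lit 5) (nat_lit 64) (nat_lit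 5) (nat_lit 332) (nat_lit 312) (nat_lit 136)) (XT.lf (nat_lit 0) (nat_lit 8013340605) (nat_lit 304) (nat_lit 65410009670) (nat_lit 76) (nat_lit 18308028973) (nat_lit 55) (nat_lit 5) (nat_lit 59) (nat_lit 5) (nat_lit 56) (nat_lit 5) (nat_lit 333) (nat_lit 312) (nat_lit 135))) (XT.nd (nat_lit 78) (nat_lit 304) (nat_lit 0) (XT.lf (nat_lit 0) (nat_lit 19675058557) (nat_lit 304) (nat_lit 21841240188) (nat_lit 76) (nat_lit 53021818386) (nat_lit 55) (nat_lit 5) (nat_lit 59) (nat_lit 5) (nat_lit 56) (nat_lit 5) (nat_lit 334) (nat_lit 312) (nat_lit 134)) (XT.nd (nat_lit 78) (nat_lit 0) (nat_lit 0) (XT.lf (nat_lit 0) (nat_lit 24695651985) (nat_lit 304) (nat_lit 7609170817) (nat_lit 380) (nat_lit 65161122189) (nat_lit 51) (nat_lit 5) (nat_lit 55) (nat_lit 5) (nat_lit 56) (nat_lit 5) (nat_lit 335) (nat_lit 312) (nat_lit 133)) (XT.lf (nat_lit 0) (nat_lit 46378492877) (nat_lit 380) (nat_lit 26647867847)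 (nat_lit 76) (nat_lit 27473183687) (nat_lit 51) (nat_lit 5) (nat_lit 56) (nat_lit 5) (nat_lit 52) (nat_lit 5) (nat_lit 336) (nat_lit 312) (nat_lit 132))))))) (XT.nd (nat_lit 780) (nat_lit 988) (nat_lit 0) (XT.nd (nat_lit 390) (nat_lit 380) (nat_lit 0) (XT.nd (nat_lit 156) (nat_lit 532) (nat_lit 0) (XT.nd (nat_lit 78) (nat_lit 0) (nat_lit 0) (XT.lf (nat_lit 0) (nat_lit 22371245605) (nat_lit 228) (nat_lit 39258055166) (nat_lit 304) (nat_lit 42031851313) (nat_lit 48) (nat_lit 5) (nat_lit 51) (nat_lit 5) (nat_lit 52) (nat_lit 5) (nat_lit 337) (nat_lit 312) (nat_lit 131)) (XT.lf (nat_lit 0) (nat_lit 74765767983) (nat_lit 228) (nat_lit 3327627504) (nat_lit 304) (nat_lit 28864908284) (nat_lit 48) (nat_lit 5) (nat_lit 51) (nat_lit 5) (nat_lit 52) (nat_lit 5) (nat_lit 338) (nat_lit 312) (nat_lit 130))) (XT.nd (nat_lit 78) (nat_lit 304) (nat_lit 0) (XT.lf (nat_lit 0) (nat_lit 19444280092) (nat_lit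 228) (nat_lit 76776540091) (nat_lit 304) (nat_lit 14157487503) (nat_lit 45) (nat_lit 5) (nat_lit 48) (nat_lit 5) (nat_lit 49) (nat_lit 5) (nat_lit 339) (nat_lit 312) (nat_lit 129)) (XT.nd (nat_lit 78) (nat_lit 228) (nat_lit 0) (XT.lf (nat_lit 0) (nat_lit 1852332502) (nat_lit 304) (nat_lit 39245717939) (nat_lit 76) (nat_lit 72839850519) (nat_lit 44) (nat_lit 5) (nat_lit 48) (nat_lit 5) (nat_lit 45) (nat_lit 5) (nat_lit 340) (nat_lit 312) (nat_lit 128)) (XT.lf (nat_lit 0) (nat_lit 15283416536) (nat_lit 228) (nat_lit 3141565108) (nat_lit 304) (nat_lit 99226982412) (nat_lit 41) (nat_lit 5) (nat_lit 44) (nat_lit 5) (nat_lit 45) (nat_lit 5) (nat_lit 341) (nat_lit 312) (nat_lit 127))))) (XT.nd (nat_lit 156) (nat_lit 152) (nat_lit 0) (XT.nd (nat_lit 78) (nat_lit 228) (nat_lit 0) (XT.lf (nat_lit 0) (nat_lit 37074509317) (nat_lit 304) (nat_lit 48201729087) (nat_lit 76) (nat_lit 36213080343) (nat_lit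 41) (nat_lit 5) (nat_lit 45) (nat_lit 5) (nat_lit 42) (nat_lit 5) (nat_lit 342) (nat_lit 312) (nat_lit 126)) (XT.lf (nat_lit 0) (nat_lit 8906343199) (nat_lit 228) (nat_lit 47940263454) (nat_lit 304) (nat_lit 68662430565) (nat_lit 38) (nat_lit 5) (nat_lit 41) (nat_lit 5) (nat_lit 42) (nat_lit 5) (nat_lit 343) (nat_lit 312) (nat_lit 125))) (XT.nd (nat_lit 78) (nat_lit 152) (nat_lit 0) (XT.lf (nat_lit 0) (nat_lit 70542640086) (nat_lit 228) (nat_lit 7880539653) (nat_lit 304) (nat_lit 51265769008) (nat_lit 38) (nat_lit 5) (nat_lit 41) (nat_lit 5) (nat_lit 42) (nat_lit 5) (nat_lit 344) (nat_lit 312) (nat_lit 124)) (XT.nd (nat_lit 78) (nat_lit 0) (nat_lit 0) (XT.lf (nat_lit 0) (nat_lit 670038653) (nat_lit 152) (nat_lit 100952253366) (nat_lit 228) (nat_lit 32428378948) (nat_lit 36) (nat_lit 5) (nat_lit 38) (nat_lit 5) (nat_lit 39) (nat_lit 5) (nat_lit 345) (nat_lit 312) (nat_lit 123)) (XT.lf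 (nat_lit 0) (nat_lit 65396555654) (nat_lit 152) (nat_lit 61713161886) (nat_lit 228) (nat_lit 11464344489) (nat_lit 36) (nat_lit 5) (nat_lit 38) (nat_lit 5) (nat_lit 39) (nat_lit 5) (nat_lit 346) (nat_lit 312) (nat_lit 122)))))) (XT.nd (nat_lit 390) (nat_lit 532) (nat_lit 0) (XT.nd (nat_lit 156) (nat_lit 152) (nat_lit 0) (XT.nd (nat_lit 78) (nat_lit 228) (nat_lit 0) (XT.lf (nat_lit 0) (nat_lit 10209886931) (nat_lit 228) (nat_lit 10129504289) (nat_lit 76) (nat_lit 122976018192) (nat_lit 35) (nat_lit 5) (nat_lit 38) (nat_lit 5) (nat_lit 36) (nat_lit 5) (nat_lit 347) (nat_lit 312) (nat_lit 121)) (XT.lf (nat_lit 0) (nat_lit 33862052265) (nat_lit 304) (nat_lit 90887825818) (nat_lit 76) (nat_lit 23470574630) (nat_lit 32) (nat_lit 5) (nat_lit 36) (nat_lit 5) (nat_lit 33) (nat_lit 5) (nat_lit 348) (nat_lit 312) (nat_lit 120))) (XT.nd (nat_lit 78) (nat_lit 152) (nat_lit 0) (XT.lf (nat_lit 0) (nat_lit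 59204238648) (nat_lit 304) (nat_lit 25179454378) (nat_lit 76) (nat_lit 68961685021) (nat_lit 32) (nat_lit 5) (nat_lit 36) (nat_lit 5) (nat_lit 33) (nat_lit 5) (nat_lit 349) (nat_lit 312) (nat_lit 119)) (XT.nd (nat_lit 78) (nat_lit 0) (nat_lit 0) (XT.lf (nat_lit 0) (nat_lit 45262467894) (nat_lit 152) (nat_lit 41257378349) (nat_lit 228) (nat_lit 72171388289) (nat_lit 30) (nat_lit 5) (nat_lit 32) (nat_lit 5) (nat_lit 33) (nat_lit 5) (nat_lit 350) (nat_lit 312) (nat_lit 118)) (XT.lf (nat_lit 0) (nat_lit 115697140324) (nat_lit 228) (nat_lit 44252794228) (nat_lit 76) (nat_lit 4329654442) (nat_lit 30) (nat_lit 5) (nat_lit 33) (nat_lit 5) (nat_lit 31) (nat_lit 5) (nat_lit 351) (nat_lit 312) (nat_lit 117))))) (XT.nd (nat_lit 234) (nat_lit 152) (nat_lit 0) (XT.nd (nat_lit 78) (nat_lit 228) (nat_lit 0) (XT.lf (nat_lit 0) (nat_lit 28621152712) (nat_lit 152) (nat_lit 118835014029) (nat_lit 228) (nat_lit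 22635051492) (nat_lit 28) (nat_lit 5) (nat_lit 30) (nat_lit 5) (nat_lit 31) (nat_lit 5) (nat_lit 352) (nat_lit 312) (nat_lit 116)) (XT.nd (nat_lit 78) (nat_lit 152) (nat_lit 0) (XT.lf (nat_lit 0) (nat_lit 5223567240) (nat_lit 228) (nat_lit 69565591500) (nat_lit 76) (nat_lit 101362602492) (nat_lit 27) (nat_lit 5) (nat_lit 30) (nat_lit 5) (nat_lit 28) (nat_lit 5) (nat_lit 353) (nat_lit 312) (nat_lit 115)) (XT.lf (nat_lit 0) (nat_lit 5746455351) (nat_lit 152) (nat_lit 28057372680) (nat_lit 228) (nat_lit 148688480540) (nat_lit 25) (nat_lit 5) (nat_lit 27) (nat_lit 5) (nat_lit 28) (nat_lit 5) (nat_lit 354) (nat_lit 312) (nat_lit 114)))) (XT.nd (nat_lit 78) (nat_lit 152) (nat_lit 0) (XT.lf (nat_lit 0) (nat_lit 65338266619) (nat_lit 228) (nat_lit 102199578202) (nat_lit 76) (nat_lit 21535780577) (nat_lit 25) (nat_lit 5) (nat_lit 28) (nat_lit 5) (nat_lit 26) (nat_lit 5) (nat_lit 355) (nat_lit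 312) (nat_lit 113)) (XT.nd (nat_lit 78) (nat_lit 152) (nat_lit 0) (XT.lf (nat_lit 0) (nat_lit 98909082745) (nat_lit 228) (nat_lit 24386433864) (nat_lit 76) (nat_lit 72665509019) (nat_lit 25) (nat_lit 5) (nat_lit 28) (nat_lit 5) (nat_lit 26) (nat_lit 5) (nat_lit 356) (nat_lit 312) (nat_lit 112)) (XT.lf (nat_lit 0) (nat_lit 59212059079) (nat_lit 152) (nat_lit 75870559808) (nat_lit 228) (nat_lit 68063968346) (nat_lit 23) (nat_lit 5) (nat_lit 25) (nat_lit 5) (nat_lit 26) (nat_lit 5) (nat_lit 357) (nat_lit 312) (nat_lit 111))))))))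
noncomputable def xc232 : XT := (XT.nd (nat_lit 37674) (nat_lit 0) (nat_lit 2584) (XT.nd (nat_lit 780) (nat_lit 76) (nat_lit 0) (XT.nd (nat_lit 390) (nat_lit 304) (nat_lit 0) (XT.nd (nat_lit 156) (nat_lit 228) (nat_lit 0) (XT.nd (nat_lit 78) (nat_lit 76) (nat_lit 0) (XT.lf (nat_lit 0) (nat_lit 147836661788) (nat_lit 152) (nat_lit 25640885667) (nat_lit 228) (nat_lit 37193243992) (nat_lit 23) (nat_lit 5) (nat_lit 25) (nat_lit 5) (nat_lit 26) (nat_lit 5) (nat_lit 358) (nat_lit 312) (nat_lit 110)) (XT.lf (nat_lit 0) (nat_lit 22621769383) (nat_lit 76) (nat_lit 191946483776) (nat_lit 152) (nat_lit 3964151472) (nat_lit 22) (nat_lit 5) (nat_lit 23) (nat_lit 5) (nat_lit 24) (nat_lit 4) (nat_lit 359) (nat_lit 312) (nat_lit 109))) (XT.nd (nat_lit 78) (nat_lit 152) (nat_lit 0) (XT.lf (nat_lit 0) (nat_lit 31438203032) (nat_lit 152) (nat_lit 113123052488) (nat_lit 76) (nat_lit 82126618580) (nat_lit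 21) (nat_lit 5) (nat_lit 23) (nat_lit 5) (nat_lit 22) (nat_lit 5) (nat_lit 360) (nat_lit 312) (nat_lit 108)) (XT.nd (nat_lit 78) (nat_lit 152) (nat_lit 0) (XT.lf (nat_lit 0) (nat_lit 68477198245) (nat_lit 152) (nat_lit 26261503363) (nat_lit 76) (nat_lit 140509179161) (nat_lit 21) (nat_lit 5) (nat_lit 23) (nat_lit 5) (nat_lit 22) (nat_lit 5) (nat_lit 361) (nat_lit 312) (nat_lit 107)) (XT.lf (nat_lit 0) (nat_lit 67090016361) (nat_lit 152) (nat_lit 41325346665) (nat_lit 228) (nat_lit 135768163997) (nat_lit 19) (nat_lit 5) (nat_lit 21) (nat_lit 5) (nat_lit 22) (nat_lit 5) (nat_lit 362) (nat_lit 312) (nat_lit 106))))) (XT.nd (nat_lit 156) (nat_lit 228) (nat_lit 0) (XT.nd (nat_lit 78) (nat_lit 76) (nat_lit 0) (XT.lf (nat_lit 0) (nat_lit 151032662067) (nat_lit 228) (nat_lit 87760990574) (nat_lit 76) (nat_lit 14738191879) (nat_lit 19) (nat_lit 5) (nat_lit 22) (nat_lit 5) (nat_lit 20) (nat_lit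 4) (nat_lit 363) (nat_lit 312) (nat_lit 105)) (XT.lf (nat_lit 0) (nat_lit 5537536652) (nat_lit 76) (nat_lit 191006981481) (nat_lit 152) (nat_lit 66764875375) (nat_lit 18) (nat_lit 5) (nat_lit 19) (nat_lit 5) (nat_lit 20) (nat_lit 4) (nat_lit 364) (nat_lit 312) (nat_lit 104))) (XT.nd (nat_lit 78) (nat_lit 228) (nat_lit 0) (XT.lf (nat_lit 0) (nat_lit 106547470031) (nat_lit 76) (nat_lit 139270547641) (nat_lit 152) (nat_lit 27683499949) (nat_lit 18) (nat_lit 5) (nat_lit 19) (nat_lit 5) (nat_lit 20) (nat_lit 4) (nat_lit 365) (nat_lit 312) (nat_lit 103)) (XT.nd (nat_lit 78) (nat_lit 152) (nat_lit 0) (XT.lf (nat_lit 0) (nat_lit 12924381456) (nat_lit 152) (nat_lit 71804181866) (nat_lit 76) (nat_lit 199464272605) (nat_lit 17) (nat_lit 5) (nat_lit 19) (nat_lit 5) (nat_lit 18) (nat_lit 5) (nat_lit 366) (nat_lit 312) (nat_lit 102)) (XT.lf (nat_lit 0) (nat_lit 28563194907) (nat_lit 152) (nat_lit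 26514859569) (nat_lit 228) (nat_lit 240295687226) (nat_lit 15) (nat_lit 5) (nat_lit 17) (nat_lit 5) (nat_lit 18) (nat_lit 5) (nat_lit 367) (nat_lit 312) (nat_lit 101)))))) (XT.nd (nat_lit 36504) (nat_lit 0) (nat_lit 5320) (XT.nd (nat_lit 156) (nat_lit 76) (nat_lit 0) (XT.nd (nat_lit 78) (nat_lit 0) (nat_lit 0) (XT.lf (nat_lit 0) (nat_lit 101115531774) (nat_lit 228) (nat_lit 171171715330) (nat_lit 76) (nat_lit 34737639802) (nat_lit 15) (nat_lit 5) (nat_lit 18) (nat_lit 5) (nat_lit 16) (nat_lit 4) (nat_lit 368) (nat_lit 312) (nat_lit 100)) (XT.lf (nat_lit 0) (nat_lit 149889357773) (nat_lit 228) (nat_lit 71185952372) (nat_lit 76) (nat_lit 98161555649) (nat_lit 15) (nat_lit 5) (nat_lit 18) (nat_lit 5) (nat_lit 16) (nat_lit 4) (nat_lit 369) (nat_lit 312) (nat_lit 99))) (XT.nd (nat_lit 36192) (nat_lit 0) (nat_lit 5320) (XT.lf (nat_lit 0) (nat_lit 34916314816) (nat_lit 76) (nat_lit 166730516075)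 (nat_lit 152) (nat_lit 130385365100) (nat_lit 14) (nat_lit 5) (nat_lit 15) (nat_lit 5) (nat_lit 16) (nat_lit 4) (nat_lit 370) (nat_lit 312) (nat_lit 98)) (XT.nd (nat_lit 78) (nat_lit 0) (nat_lit 0) (XT.lf (nat_lit 0) (nat_lit 10018505897) (nat_lit 0) (nat_lit 10018505897) (nat_lit 684) (nat_lit 7132397213) (nat_lit 84) (nat_lit 5) (nat_lit 84) (nat_lit 3) (nat_lit 93) (nat_lit 3) (nat_lit 313) (nat_lit 313) (nat_lit 154)) (XT.lf (nat_lit 0) (nat_lit 41167643963) (nat_lit 684) (nat_lit 10114211183) (nat_lit 760) (nat_lit 4410796914) (nat_lit 84) (nat_lit 5) (nat_lit 93) (nat_lit 3) (nat_lit 94) (nat_lit 5) (nat_lit 314) (nat_lit 313) (nat_lit 153))))) (XT.nd (nat_lit 156) (nat_lit 0) (nat_lit 76) (XT.nd (nat_lit 78) (nat_lit 0) (nat_lit 0) (XT.lf (nat_lit 76) (nat_lit 15447980226) (nat_lit 0) (nat_lit 27436316861) (nat_lit 760) (nat_lit 14201466201) (nat_lit 85) (nat_lit 5) (nat_lit 84)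 (nat_lit 5) (nat_lit 94) (nat_lit 5) (nat_lit 315) (nat_lit 313) (nat_lit 152)) (XT.lf (nat_lit 76) (nat_lit 42638696090) (nat_lit 0) (nat_lit 2218116727) (nat_lit 760) (nat_lit 13683218682) (nat_lit 85) (nat_lit 5) (nat_lit 84) (nat_lit 5) (nat_lit 94) (nat_lit 5) (nat_lit 316) (nat_lit 313) (nat_lit 151))) (XT.nd (nat_lit 78) (nat_lit 0) (nat_lit 0) (XT.lf (nat_lit 76) (nat_lit 11097580736) (nat_lit 0) (nat_lit 36381228785) (nat_lit 760) (nat_lit 12560663625) (nat_lit 86) (nat_lit 5) (nat_lit 85) (nat_lit 5) (nat_lit 95) (nat_lit 5) (nat_lit 317) (nat_lit 313) (nat_lit 150)) (XT.nd (nat_lit 78) (nat_lit 0) (nat_lit 76) (XT.lf (nat_lit 76) (nat_lit 39960184907) (nat_lit 0) (nat_lit 10575647783) (nat_lit 760) (nat_lit 11062860501) (nat_lit 86) (nat_lit 5) (nat_lit 85) (nat_lit 5) (nat_lit 95) (nat_lit 5) (nat_lit 318) (nat_lit 313) (nat_lit 149)) (XT.lf (nat_lit 76) (nat_lit 6995230743)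 (nat_lit 0) (nat_lit 47116532443) (nat_lit 760) (nat_lit 9105810768) (nat_lit 87) (nat_lit 5) (nat_lit 86) (nat_lit 5) (nat_lit 96) (nat_lit 5) (nat_lit 319) (nat_lit 313) (nat_lit 148))))))) (XT.nd (nat_lit 780) (nat_lit 1444) (nat_lit 0) (XT.nd (nat_lit 390) (nat_lit 760) (nat_lit 0) (XT.nd (nat_lit 156) (nat_lit 684) (nat_lit 0) (XT.nd (nat_lit 78) (nat_lit 0) (nat_lit 76) (XT.lf (nat_lit 76) (nat_lit 37632027153) (nat_lit 0) (nat_lit 20770450573) (nat_lit 760) (nat_lit 6488124057) (nat_lit 87) (nat_lit 5) (nat_lit 86) (nat_lit 5) (nat_lit 96) (nat_lit 5) (nat_lit 320) (nat_lit 313) (nat_lit 147)) (XT.lf (nat_lit 76) (nat_lit 3145659290) (nat_lit 0) (nat_lit 59917807221) (nat_lit 760) (nat_lit 3576029855) (nat_lit 88) (nat_lit 5) (nat_lit 87) (nat_lit 5) (nat_lit 97) (nat_lit 5) (nat_lit 321) (nat_lit 313) (nat_lit 146))) (XT.nd (nat_lit 78) (nat_lit 0) (nat_lit 0) (XT.lf (nat_lit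 0) (nat_lit 306988343) (nat_lit 760) (nat_lit 32777074591) (nat_lit 836) (nat_lit 35351742978) (nat_lit 77) (nat_lit 5) (nat_lit 87) (nat_lit 5) (nat_lit 88) (nat_lit 5) (nat_lit 322) (nat_lit 313) (nat_lit 145)) (XT.nd (nat_lit 78) (nat_lit 0) (nat_lit 76) (XT.lf (nat_lit 0) (nat_lit 4263051110) (nat_lit 760) (nat_lit 583866396) (nat_lit 836) (nat_lit 65472130648) (nat_lit 77) (nat_lit 5) (nat_lit 87) (nat_lit 5) (nat_lit 88) (nat_lit 5) (nat_lit 323) (nat_lit 313) (nat_lit 144)) (XT.lf (nat_lit 0) (nat_lit 9347827159) (nat_lit 760) (nat_lit 38349109479) (nat_lit 76) (nat_lit 24552972247) (nat_lit 78) (nat_lit 5) (nat_lit 88) (nat_lit 5) (nat_lit 79) (nat_lit 5) (nat_lit 324) (nat_lit 313) (nat_lit 143))))) (XT.nd (nat_lit 156) (nat_lit 380) (nat_lit 0) (XT.nd (nat_lit 78) (nat_lit 456) (nat_lit 0) (XT.lf (nat_lit 0) (nat_lit 14775498670) (nat_lit 760) (nat_lit 4227236061) (nat_lit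 76) (nat_lit 55270146881) (nat_lit 78) (nat_lit 5) (nat_lit 88) (nat_lit 5) (nat_lit 79) (nat_lit 5) (nat_lit 325) (nat_lit 313) (nat_lit 142)) (XT.lf (nat_lit 0) (nat_lit 21165487978) (nat_lit 532) (nat_lit 43908789561) (nat_lit 76) (nat_lit 11288180433) (nat_lit 72) (nat_lit 5) (nat_lit 79) (nat_lit 5) (nat_lit 73) (nat_lit 5) (nat_lit 326) (nat_lit 313) (nat_lit 141))) (XT.nd (nat_lit 78) (nat_lit 380) (nat_lit 0) (XT.lf (nat_lit 0) (nat_lit 28258478647) (nat_lit 532) (nat_lit 7751009848) (nat_lit 76) (nat_lit 42527851188) (nat_lit 72) (nat_lit 5) (nat_lit 79) (nat_lit 5) (nat_lit 73) (nat_lit 5) (nat_lit 327) (nat_lit 313) (nat_lit 140)) (XT.nd (nat_lit 78) (nat_lit 0) (nat_lit 0) (XT.lf (nat_lit 0) (nat_lit 31212943636) (nat_lit 380) (nat_lit 4979751742) (nat_lit 456) (nat_lit 44603942823) (nat_lit 67) (nat_lit 5) (nat_lit 72) (nat_lit 5) (nat_lit 73) (nat_lit 5) (nat_lit 328) (nat_lit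 313) (nat_lit 139)) (XT.lf (nat_lit 0) (nat_lit 45087257776) (nat_lit 456) (nat_lit 11201984475) (nat_lit 76) (nat_lit 26851479129) (nat_lit 67) (nat_lit 5) (nat_lit 73) (nat_lit 5) (nat_lit 68) (nat_lit 5) (nat_lit 329) (nat_lit 313) (nat_lit 138)))))) (XT.nd (nat_lit 390) (nat_lit 532) (nat_lit 0) (XT.nd (nat_lit 156) (nat_lit 608) (nat_lit 0) (XT.nd (nat_lit 78) (nat_lit 0) (nat_lit 0) (XT.lf (nat_lit 0) (nat_lit 29975876536) (nat_lit 304) (nat_lit 24999628260) (nat_lit 380) (nat_lit 30599057501) (nat_lit 63) (nat_lit 5) (nat_lit 67) (nat_lit 5) (nat_lit 68) (nat_lit 5) (nat_lit 330) (nat_lit 313) (nat_lit 137)) (XT.lf (nat_lit 0) (nat_lit 65672950333) (nat_lit 380) (nat_lit 14645548754) (nat_lit 76) (nat_lit 7795858203) (nat_lit 63) (nat_lit 5) (nat_lit 68) (nat_lit 5) (nat_lit 64) (nat_lit 5) (nat_lit 331) (nat_lit 313) (nat_lit 136))) (XT.nd (nat_lit 78) (nat_lit 304) (nat_lit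 0) (XT.lf (nat_lit 0) (nat_lit 28868691650) (nat_lit 304) (nat_lit 48896494209) (nat_lit 380) (nat_lit 12972961563) (nat_lit 59) (nat_lit 5) (nat_lit 63) (nat_lit 5) (nat_lit 64) (nat_lit 5) (nat_lit 332) (nat_lit 313) (nat_lit 135)) (XT.nd (nat_lit 78) (nat_lit 304) (nat_lit 0) (XT.lf (nat_lit 0) (nat_lit 75066413875) (nat_lit 304) (nat_lit 15643034684) (nat_lit 380) (nat_lit 2771308945) (nat_lit 59) (nat_lit 5) (nat_lit 63) (nat_lit 5) (nat_lit 64) (nat_lit 5) (nat_lit 333) (nat_lit 313) (nat_lit 134)) (XT.lf (nat_lit 0) (nat_lit 8432705545) (nat_lit 304) (nat_lit 68658031363) (nat_lit 76) (nat_lit 19226242545) (nat_lit 55) (nat_lit 5) (nat_lit 59) (nat_lit 5) (nat_lit 56) (nat_lit 5) (nat_lit 334) (nat_lit 313) (nat_lit 133))))) (XT.nd (nat_lit 156) (nat_lit 228) (nat_lit 0) (XT.nd (nat_lit 78) (nat_lit 304) (nat_lit 0) (XT.lf (nat_lit 0) (nat_lit 20676619018) (nat_lit 304) (nat_lit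 22911893826) (nat_lit 76) (nat_lit 55675587518) (nat_lit 55) (nat_lit 5) (nat_lit 59) (nat_lit 5) (nat_lit 56) (nat_lit 5) (nat_lit 335) (nat_lit 313) (nat_lit 132)) (XT.lf (nat_lit 0) (nat_lit 25951497659) (nat_lit 304) (nat_lit 7985854691) (nat_lit 380) (nat_lit 68400994756) (nat_lit 51) (nat_lit 5) (nat_lit 55) (nat_lit 5) (nat_lit 56) (nat_lit 5) (nat_lit 336) (nat_lit 313) (nat_lit 131))) (XT.nd (nat_lit 78) (nat_lit 228) (nat_lit 0) (XT.lf (nat_lit 0) (nat_lit 48713938799) (nat_lit 380) (nat_lit 27959404785) (nat_lit 76) (nat_lit 28850322731) (nat_lit 51) (nat_lit 5) (nat_lit 56) (nat_lit 5) (nat_lit 52) (nat_lit 5) (nat_lit 337) (nat_lit 313) (nat_lit 130)) (XT.nd (nat_lit 78) (nat_lit 0) (nat_lit 0) (XT.lf (nat_lit 0) (nat_lit 23510327944) (nat_lit 228) (nat_lit 41216492791) (nat_lit 304) (nat_lit 44116558348) (nat_lit 48) (nat_lit 5) (nat_lit 51) (nat_lit 5) (nat_lit 52) (nat_lit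 5) (nat_lit 338) (nat_lit 313) (nat_lit 129)) (XT.lf (nat_lit 0) (nat_lit 78523599296) (nat_lit 228) (nat_lit 3489756372) (nat_lit 304) (nat_lit 30292072240) (nat_lit 48) (nat_lit 5) (nat_lit 51) (nat_lit 5) (nat_lit 52) (nat_lit 5) (nat_lit 339) (nat_lit 313) (nat_lit 128))))))))
noncomputable def xc233 : XT := (XT.nd (nat_lit 1560) (nat_lit 608) (nat_lit 0) (XT.nd (nat_lit 780) (nat_lit 684) (nat_lit 0) (XT.nd (nat_lit 390) (nat_lit 456) (nat_lit 0) (XT.nd (nat_lit 156) (nat_lit 456) (nat_lit 0) (XT.nd (nat_lit 78) (nat_lit 76) (nat_lit 0) (XT.lf (nat_lit 0) (nat_lit 20436434772) (nat_lit 228) (nat_lit 80610363273) (nat_lit 304) (nat_lit 14849652914) (nat_lit 45) (nat_lit 5) (nat_lit 48) (nat_lit 5) (nat_lit 49) (nat_lit 5) (nat_lit 340) (nat_lit 313) (nat_lit 127)) (XT.lf (nat_lit 0) (nat_lit 1959431203) (nat_lit 304) (nat_lit 41188510955) (nat_lit 76) (nat_lit 76486106828) (nat_lit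 44) (nat_lit 5) (nat_lit 48) (nat_lit 5) (nat_lit 45) (nat_lit 5) (nat_lit 341) (nat_lit 313) (nat_lit 126))) (XT.nd (nat_lit 78) (nat_lit 228) (nat_lit 0) (XT.lf (nat_lit 0) (nat_lit 16066765843) (nat_lit 228) (nat_lit 3293556766) (nat_lit 304) (nat_lit 104173513228) (nat_lit 41) (nat_lit 5) (nat_lit 44) (nat_lit 5) (nat_lit 45) (nat_lit 5) (nat_lit 342) (nat_lit 313) (nat_lit 125)) (XT.nd (nat_lit 78) (nat_lit 228) (nat_lit 0) (XT.lf (nat_lit 0) (nat_lit 38941731257) (nat_lit 304) (nat_lit 50592934126) (nat_lit 76) (nat_lit 38028423689) (nat_lit 41) (nat_lit 5) (nat_lit 45) (nat_lit 5) (nat_lit 42) (nat_lit 5) (nat_lit 343) (nat_lit 313) (nat_lit 124)) (XT.lf (nat_lit 0) (nat_lit 9370237235) (nat_lit 228) (nat_lit 50331843573) (nat_lit 304) (nat_lit 72081731281) (nat_lit 38) (nat_lit 5) (nat_lit 41) (nat_lit 5) (nat_lit 42) (nat_lit 5) (nat_lit 344) (nat_lit 313) (nat_lit 123)))))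 (XT.nd (nat_lit 156) (nat_lit 304) (nat_lit 0) (XT.nd (nat_lit 78) (nat_lit 152) (nat_lit 0) (XT.lf (nat_lit 0) (nat_lit 74087464353) (nat_lit 228) (nat_lit 8269392299) (nat_lit 304) (nat_lit 53815894780) (nat_lit 38) (nat_lit 5) (nat_lit 41) (nat_lit 5) (nat_lit 42) (nat_lit 5) (nat_lit 345) (nat_lit 313) (nat_lit 122)) (XT.lf (nat_lit 0) (nat_lit 721502359) (nat_lit 152) (nat_lit 105994183467) (nat_lit 228) (nat_lit 34036886770) (nat_lit 36) (nat_lit 5) (nat_lit 38) (nat_lit 5) (nat_lit 39) (nat_lit 5) (nat_lit 346) (nat_lit 313) (nat_lit 121))) (XT.nd (nat_lit 78) (nat_lit 304) (nat_lit 0) (XT.lf (nat_lit 0) (nat_lit 68683489888) (nat_lit 152) (nat_lit 64793408013) (nat_lit 228) (nat_lit 12025265403) (nat_lit 36) (nat_lit 5) (nat_lit 38) (nat_lit 5) (nat_lit 39) (nat_lit 5) (nat_lit 347) (nat_lit 313) (nat_lit 120)) (XT.nd (nat_lit 78) (nat_lit 228) (nat_lit 0) (XT.lf (nat_lit 0)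 (nat_lit 10731717231) (nat_lit 228) (nat_lit 10619297315) (nat_lit 76) (nat_lit 129129583026) (nat_lit 35) (nat_lit 5) (nat_lit 38) (nat_lit 5) (nat_lit 36) (nat_lit 5) (nat_lit 348) (nat_lit 313) (nat_lit 119)) (XT.lf (nat_lit 0) (nat_lit 35566290975) (nat_lit 304) (nat_lit 95415320290) (nat_lit 76) (nat_lit 24649292506) (nat_lit 32) (nat_lit 5) (nat_lit 36) (nat_lit 5) (nat_lit 33) (nat_lit 5) (nat_lit 349) (nat_lit 313) (nat_lit 118)))))) (XT.nd (nat_lit 390) (nat_lit 304) (nat_lit 0) (XT.nd (nat_lit 156) (nat_lit 228) (nat_lit 0) (XT.nd (nat_lit 78) (nat_lit 152) (nat_lit 0) (XT.lf (nat_lit 0) (nat_lit 62175056387) (nat_lit 304) (nat_lit 26422334888) (nat_lit 76) (nat_lit 72414711313) (nat_lit 32) (nat_lit 5) (nat_lit 36) (nat_lit 5) (nat_lit 33) (nat_lit 5) (nat_lit 350) (nat_lit 313) (nat_lit 117)) (XT.lf (nat_lit 0) (nat_lit 47541423945) (nat_lit 152) (nat_lit 43314762570) (nat_lit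 228) (nat_lit 75769078945) (nat_lit 30) (nat_lit 5) (nat_lit 32) (nat_lit 5) (nat_lit 33) (nat_lit 5) (nat_lit 351) (nat_lit 313) (nat_lit 116))) (XT.nd (nat_lit 78) (nat_lit 228) (nat_lit 0) (XT.lf (nat_lit 0) (nat_lit 121491934094) (nat_lit 228) (nat_lit 46449931250) (nat_lit 76) (nat_lit 4551193499) (nat_lit 30) (nat_lit 5) (nat_lit 33) (nat_lit 5) (nat_lit 31) (nat_lit 5) (nat_lit 352) (nat_lit 313) (nat_lit 115)) (XT.nd (nat_lit 78) (nat_lit 76) (nat_lit 0) (XT.lf (nat_lit 0) (nat_lit 30067462993) (nat_lit 152) (nat_lit 124771213796) (nat_lit 228) (nat_lit 23756605115) (nat_lit 28) (nat_lit 5) (nat_lit 30) (nat_lit 5) (nat_lit 31) (nat_lit 5) (nat_lit 353) (nat_lit 313) (nat_lit 114)) (XT.lf (nat_lit 0) (nat_lit 5494148003) (nat_lit 228) (nat_lit 73029022835) (nat_lit 76) (nat_lit 106435697310) (nat_lit 27) (nat_lit 5) (nat_lit 30) (nat_lit 5) (nat_lit 28) (nat_lit 5) (nat_lit 354)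 (nat_lit 313) (nat_lit 113))))) (XT.nd (nat_lit 156) (nat_lit 152) (nat_lit 0) (XT.nd (nat_lit 78) (nat_lit 0) (nat_lit 0) (XT.lf (nat_lit 0) (nat_lit 6048386870) (nat_lit 152) (nat_lit 29454815314) (nat_lit 228) (nat_lit 156113252178) (nat_lit 25) (nat_lit 5) (nat_lit 27) (nat_lit 5) (nat_lit 28) (nat_lit 5) (nat_lit 355) (nat_lit 313) (nat_lit 112)) (XT.lf (nat_lit 0) (nat_lit 68614006109) (nat_lit 228) (nat_lit 107295277422) (nat_lit 76) (nat_lit 22617571829) (nat_lit 25) (nat_lit 5) (nat_lit 28) (nat_lit 5) (nat_lit 26) (nat_lit 5) (nat_lit 356) (nat_lit 313) (nat_lit 111))) (XT.nd (nat_lit 78) (nat_lit 152) (nat_lit 0) (XT.lf (nat_lit 0) (nat_lit 103862942748) (nat_lit 228) (nat_lit 25592155853) (nat_lit 76) (nat_lit 76303548492) (nat_lit 25) (nat_lit 5) (nat_lit 28) (nat_lit 5) (nat_lit 26) (nat_lit 5) (nat_lit 357) (nat_lit 313) (nat_lit 110)) (XT.nd (nat_lit 78) (nat_lit 0) (nat_lit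 0) (XT.lf (nat_lit 0) (nat_lit 62186042387) (nat_lit 152) (nat_lit 79658921936) (nat_lit 228) (nat_lit 71458532477) (nat_lit 23) (nat_lit 5) (nat_lit 25) (nat_lit 5) (nat_lit 26) (nat_lit 5) (nat_lit 358) (nat_lit 313) (nat_lit 109)) (XT.lf (nat_lit 0) (nat_lit 155241238072) (nat_lit 152) (nat_lit 26918010081) (nat_lit 228) (nat_lit 39044683062) (nat_lit 23) (nat_lit 5) (nat_lit 25) (nat_lit 5) (nat_lit 26) (nat_lit 5) (nat_lit 359) (nat_lit 313) (nat_lit 108))))))) (XT.nd (nat_lit 37050) (nat_lit 0) (nat_lit 4712) (XT.nd (nat_lit 390) (nat_lit 304) (nat_lit 0) (XT.nd (nat_lit 156) (nat_lit 152) (nat_lit 0) (XT.nd (nat_lit 78) (nat_lit 76) (nat_lit 0) (XT.lf (nat_lit 0) (nat_lit 23765713293) (nat_lit 76) (nat_lit 201538677175) (nat_lit 152) (nat_lit 4154239937) (nat_lit 22) (nat_lit 5) (nat_lit 23) (nat_lit 5) (nat_lit 24) (nat_lit 4) (nat_lit 360) (nat_lit 313) (nat_lit 107)) (XT.lf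 (nat_lit 0) (nat_lit 33017598181) (nat_lit 152) (nat_lit 118766706886) (nat_lit 76) (nat_lit 86237581026) (nat_lit 21) (nat_lit 5) (nat_lit 23) (nat_lit 5) (nat_lit 22) (nat_lit 5) (nat_lit 361) (nat_lit 313) (nat_lit 106))) (XT.nd (nat_lit 78) (nat_lit 152) (nat_lit 0) (XT.lf (nat_lit 0) (nat_lit 71908186726) (nat_lit 152) (nat_lit 27562675458) (nat_lit 76) (nat_lit 147539049088) (nat_lit 21) (nat_lit 5) (nat_lit 23) (nat_lit 5) (nat_lit 22) (nat_lit 5) (nat_lit 362) (nat_lit 313) (nat_lit 105)) (XT.nd (nat_lit 78) (nat_lit 0) (nat_lit 0) (XT.lf (nat_lit 0) (nat_lit 70456228267) (nat_lit 152) (nat_lit 43386874867) (nat_lit 228) (nat_lit 142549244875) (nat_lit 19) (nat_lit 5) (nat_lit 21) (nat_lit 5) (nat_lit 22) (nat_lit 5) (nat_lit 363) (nat_lit 313) (nat_lit 104)) (XT.lf (nat_lit 0) (nat_lit 158591005596) (nat_lit 228) (nat_lit 92137618710) (nat_lit 76) (nat_lit 15479470473) (nat_lit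 19) (nat_lit 5) (nat_lit 22) (nat_lit 5) (nat_lit 20) (nat_lit 4) (nat_lit 364) (nat_lit 313) (nat_lit 103))))) (XT.nd (nat_lit 156) (nat_lit 228) (nat_lit 0) (XT.nd (nat_lit 78) (nat_lit 0) (nat_lit 0) (XT.lf (nat_lit 0) (nat_lit 5825650662) (nat_lit 76) (nat_lit 200552659704) (nat_lit 152) (nat_lit 70096218363) (nat_lit 18) (nat_lit 5) (nat_lit 19) (nat_lit 5) (nat_lit 20) (nat_lit 4) (nat_lit 365) (nat_lit 313) (nat_lit 102)) (XT.lf (nat_lit 0) (nat_lit 111885545606) (nat_lit 76) (nat_lit 146229626593) (nat_lit 152) (nat_lit 29061102775) (nat_lit 18) (nat_lit 5) (nat_lit 19) (nat_lit 5) (nat_lit 20) (nat_lit 4) (nat_lit 366) (nat_lit 313) (nat_lit 101))) (XT.nd (nat_lit 78) (nat_lit 152) (nat_lit 0) (XT.lf (nat_lit 0) (nat_lit 13576659406) (nat_lit 152) (nat_lit 75383992872) (nat_lit 76) (nat_lit 209441517198) (nat_lit 17) (nat_lit 5) (nat_lit 19) (nat_lit 5) (nat_lit 18) (nat_lit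 5) (nat_lit 367) (nat_lit 313) (nat_lit 100)) (XT.nd (nat_lit 78) (nat_lit 0) (nat_lit 0) (XT.lf (nat_lit 0) (nat_lit 30001585029) (nat_lit 152) (nat_lit 27836302256) (nat_lit 228) (nat_lit 252304239948) (nat_lit 15) (nat_lit 5) (nat_lit 17) (nat_lit 5) (nat_lit 18) (nat_lit 5) (nat_lit 368) (nat_lit 313) (nat_lit 99)) (XT.lf (nat_lit 0) (nat_lit 106177020005) (nat_lit 228) (nat_lit 179720334629) (nat_lit 76) (nat_lit 36478486226) (nat_lit 15) (nat_lit 5) (nat_lit 18) (nat_lit 5) (nat_lit 16) (nat_lit 4) (nat_lit 369) (nat_lit 313) (nat_lit 98)))))) (XT.nd (nat_lit 390) (nat_lit 532) (nat_lit 0) (XT.nd (nat_lit 156) (nat_lit 0) (nat_lit 0) (XT.nd (nat_lit 78) (nat_lit 0) (nat_lit 0) (XT.lf (nat_lit 0) (nat_lit 10529584111) (nat_lit 0) (nat_lit 10529584111) (nat_lit 684) (nat_lit 7467648775) (nat_lit 84) (nat_lit 5) (nat_lit 84) (nat_lit 3) (nat_lit 93) (nat_lit 3) (nat_lit 314) (nat_lit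 314) (nat_lit 152)) (XT.lf (nat_lit 0) (nat_lit 43264402013) (nat_lit 684) (nat_lit 10598257180) (nat_lit 760) (nat_lit 4612616832) (nat_lit 84) (nat_lit 5) (nat_lit 93) (nat_lit 3) (nat_lit 94) (nat_lit 5) (nat_lit 315) (nat_lit 314) (nat_lit 151))) (XT.nd (nat_lit 78) (nat_lit 0) (nat_lit 0) (XT.lf (nat_lit 76) (nat_lit 16241694371) (nat_lit 0) (nat_lit 28823698789) (nat_lit 760) (nat_lit 14872728663) (nat_lit 85) (nat_lit 5) (nat_lit 84) (nat_lit 5) (nat_lit 94) (nat_lit 5) (nat_lit 316) (nat_lit 314) (nat_lit 150)) (XT.nd (nat_lit 78) (nat_lit 0) (nat_lit 76) (XT.lf (nat_lit 76) (nat_lit 44790931023) (nat_lit 0) (nat_lit 2343847407) (nat_lit 760) (nat_lit 14330416904) (nat_lit 85) (nat_lit 5) (nat_lit 84) (nat_lit 5) (nat_lit 94) (nat_lit 5) (nat_lit 317) (nat_lit 314) (nat_lit 149)) (XT.lf (nat_lit 76) (nat_lit 11674468303) (nat_lit 0) (nat_lit 38211857226) (nat_lit 760) (nat_lit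 13153364884) (nat_lit 86) (nat_lit 5) (nat_lit 85) (nat_lit 5) (nat_lit 95) (nat_lit 5) (nat_lit 318) (nat_lit 314) (nat_lit 148))))) (XT.nd (nat_lit 234) (nat_lit 608) (nat_lit 0) (XT.nd (nat_lit 78) (nat_lit 0) (nat_lit 76) (XT.lf (nat_lit 76) (nat_lit 41979154658) (nat_lit 0) (nat_lit 11115446364) (nat_lit 760) (nat_lit 11582354077) (nat_lit 86) (nat_lit 5) (nat_lit 85) (nat_lit 5) (nat_lit 95) (nat_lit 5) (nat_lit 319) (nat_lit 314) (nat_lit 147)) (XT.nd (nat_lit 78) (nat_lit 0) (nat_lit 0) (XT.lf (nat_lit 76) (nat_lit 7367429704) (nat_lit 0) (nat_lit 49480562147) (nat_lit 760) (nat_lit 9528858379) (nat_lit 87) (nat_lit 5) (nat_lit 86) (nat_lit 5) (nat_lit 96) (nat_lit 5) (nat_lit 320) (nat_lit 314) (nat_lit 146)) (XT.lf (nat_lit 76) (nat_lit 39534997486) (nat_lit 0) (nat_lit 21816785560) (nat_lit 760) (nat_lit 6781822710) (nat_lit 87) (nat_lit 5) (nat_lit 86) (nat_lit 5) (nat_lit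 96) (nat_lit 5) (nat_lit 321) (nat_lit 314) (nat_lit 145)))) (XT.nd (nat_lit 78) (nat_lit 760) (nat_lit 0) (XT.lf (nat_lit 76) (nat_lit 3325588076) (nat_lit 0) (nat_lit 62919081001) (nat_lit 760) (nat_lit 3725336794) (nat_lit 88) (nat_lit 5) (nat_lit 87) (nat_lit 5) (nat_lit 97) (nat_lit 5) (nat_lit 322) (nat_lit 314) (nat_lit 144)) (XT.nd (nat_lit 78) (nat_lit 0) (nat_lit 0) (XT.lf (nat_lit 0) (nat_lit 349528755) (nat_lit 760) (nat_lit 34393403899) (nat_lit 836) (nat_lit 37113246089) (nat_lit 77) (nat_lit 5) (nat_lit 87) (nat_lit 5) (nat_lit 88) (nat_lit 5) (nat_lit 323) (nat_lit 314) (nat_lit 143)) (XT.lf (nat_lit 0) (nat_lit 4502099851) (nat_lit 760) (nat_lit 591607885) (nat_lit 836) (nat_lit 68739942859) (nat_lit 77) (nat_lit 5) (nat_lit 87) (nat_lit 5) (nat_lit 88) (nat_lit 5) (nat_lit 324) (nat_lit 314) (nat_lit 142))))))))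
noncomputable def xc234 : XT := (XT.nd (nat_lit 1560) (nat_lit 1672) (nat_lit 0) (XT.nd (nat_lit 780) (nat_lit 1368) (nat_lit 0) (XT.nd (nat_lit 390) (nat_lit 608) (nat_lit 0) (XT.nd (nat_lit 156) (nat_lit 836) (nat_lit 0) (XT.nd (nat_lit 78) (nat_lit 0) (nat_lit 0) (XT.lf (nat_lit 0) (nat_lit 9840150389) (nat_lit 760) (nat_lit 40244096278) (nat_lit 76) (nat_lit 25776858537) (nat_lit 78) (nat_lit 5) (nat_lit 88) (nat_lit 5) (nat_lit 79) (nat_lit 5) (nat_lit 325) (nat_lit 314) (nat_lit 141)) (XT.lf (nat_lit 0) (nat_lit 15538018244) (nat_lit 760) (nat_lit 4417199126) (nat_lit 76) (nat_lit 58030071061) (nat_lit 78) (nat_lit 5) (nat_lit 88) (nat_lit 5) (nat_lit 79) (nat_lit 5) (nat_lit 326) (nat_lit 314) (nat_lit 140))) (XT.nd (nat_lit 78) (nat_lit 380) (nat_lit 0) (XT.lf (nat_lit 0) (nat_lit 22246675532) (nat_lit 532) (nat_lit 46081951170) (nat_lit 76) (nat_lit 11850760864) (nat_lit 72)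 (nat_lit 5) (nat_lit 79) (nat_lit 5) (nat_lit 73) (nat_lit 5) (nat_lit 327) (nat_lit 314) (nat_lit 139)) (XT.nd (nat_lit 78) (nat_lit 380) (nat_lit 0) (XT.lf (nat_lit 0) (nat_lit 29693224632) (nat_lit 532) (nat_lit 8117343321) (nat_lit 76) (nat_lit 44652502232) (nat_lit 72) (nat_lit 5) (nat_lit 79) (nat_lit 5) (nat_lit 73) (nat_lit 5) (nat_lit 328) (nat_lit 314) (nat_lit 138)) (XT.lf (nat_lit 0) (nat_lit 32794465626) (nat_lit 380) (nat_lit 5228973342) (nat_lit 456) (nat_lit 46811932484) (nat_lit 67) (nat_lit 5) (nat_lit 72) (nat_lit 5) (nat_lit 73) (nat_lit 5) (nat_lit 329) (nat_lit 314) (nat_lit 137))))) (XT.nd (nat_lit 156) (nat_lit 304) (nat_lit 0) (XT.nd (nat_lit 78) (nat_lit 304) (nat_lit 0) (XT.lf (nat_lit 0) (nat_lit 47361720824) (nat_lit 456) (nat_lit 11741153108) (nat_lit 76) (nat_lit 28193837349) (nat_lit 67) (nat_lit 5) (nat_lit 73) (nat_lit 5) (nat_lit 68) (nat_lit 5) (nat_lit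 330) (nat_lit 314) (nat_lit 136)) (XT.lf (nat_lit 0) (nat_lit 31495263363) (nat_lit 304) (nat_lit 26248481196) (nat_lit 380) (nat_lit 32108533427) (nat_lit 63) (nat_lit 5) (nat_lit 67) (nat_lit 5) (nat_lit 68) (nat_lit 5) (nat_lit 331) (nat_lit 314) (nat_lit 135))) (XT.nd (nat_lit 78) (nat_lit 304) (nat_lit 0) (XT.lf (nat_lit 0) (nat_lit 68975152272) (nat_lit 380) (nat_lit 15357266375) (nat_lit 76) (nat_lit 8186691455) (nat_lit 63) (nat_lit 5) (nat_lit 68) (nat_lit 5) (nat_lit 64) (nat_lit 5) (nat_lit 332) (nat_lit 314) (nat_lit 134)) (XT.nd (nat_lit 78) (nat_lit 0) (nat_lit 0) (XT.lf (nat_lit 0) (nat_lit 30332354440) (nat_lit 304) (nat_lit 51339077410) (nat_lit 380) (nat_lit 13602688054) (nat_lit 59) (nat_lit 5) (nat_lit 63) (nat_lit 5) (nat_lit 64) (nat_lit 5) (nat_lit 333) (nat_lit 314) (nat_lit 133)) (XT.lf (nat_lit 0) (nat_lit 78838999528) (nat_lit 304) (nat_lit 16423051647) (nat_lit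 380) (nat_lit 2891853834) (nat_lit 59) (nat_lit 5) (nat_lit 63) (nat_lit 5) (nat_lit 64) (nat_lit 5) (nat_lit 334) (nat_lit 314) (nat_lit 132)))))) (XT.nd (nat_lit 390) (nat_lit 532) (nat_lit 0) (XT.nd (nat_lit 156) (nat_lit 532) (nat_lit 0) (XT.nd (nat_lit 78) (nat_lit 0) (nat_lit 0) (XT.lf (nat_lit 0) (nat_lit 8871300378) (nat_lit 304) (nat_lit 72070544006) (nat_lit 76) (nat_lit 20190105350) (nat_lit 55) (nat_lit 5) (nat_lit 59) (nat_lit 5) (nat_lit 56) (nat_lit 5) (nat_lit 335) (nat_lit 314) (nat_lit 131)) (XT.lf (nat_lit 0) (nat_lit 21726601926) (nat_lit 304) (nat_lit 24038070493) (nat_lit 76) (nat_lit 58461796112) (nat_lit 55) (nat_lit 5) (nat_lit 59) (nat_lit 5) (nat_lit 56) (nat_lit 5) (nat_lit 336) (nat_lit 314) (nat_lit 130))) (XT.nd (nat_lit 78) (nat_lit 228) (nat_lit 0) (XT.lf (nat_lit 0) (nat_lit 27268177372) (nat_lit 304) (nat_lit 8381723692) (nat_lit 380) (nat_lit 71804551484)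 (nat_lit 51) (nat_lit 5) (nat_lit 55) (nat_lit 5) (nat_lit 56) (nat_lit 5) (nat_lit 337) (nat_lit 314) (nat_lit 129)) (XT.nd (nat_lit 78) (nat_lit 228) (nat_lit 0) (XT.lf (nat_lit 0) (nat_lit 51164621026) (nat_lit 380) (nat_lit 29338457607) (nat_lit 76) (nat_lit 30295995204) (nat_lit 51) (nat_lit 5) (nat_lit 56) (nat_lit 5) (nat_lit 52) (nat_lit 5) (nat_lit 338) (nat_lit 314) (nat_lit 128)) (XT.lf (nat_lit 0) (nat_lit 24704456640) (nat_lit 228) (nat_lit 43273267424) (nat_lit 304) (nat_lit 46307070591) (nat_lit 48) (nat_lit 5) (nat_lit 51) (nat_lit 5) (nat_lit 52) (nat_lit 5) (nat_lit 339) (nat_lit 314) (nat_lit 127))))) (XT.nd (nat_lit 156) (nat_lit 304) (nat_lit 0) (XT.nd (nat_lit 78) (nat_lit 228) (nat_lit 0) (XT.lf (nat_lit 0) (nat_lit 82467505259) (nat_lit 228) (nat_lit 3660387041) (nat_lit 304) (nat_lit 31792089496) (nat_lit 48) (nat_lit 5) (nat_lit 51) (nat_lit 5) (nat_lit 52)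 (nat_lit 5) (nat_lit 340) (nat_lit 314) (nat_lit 126)) (XT.lf (nat_lit 0) (nat_lit 21476343291) (nat_lit 228) (nat_lit 84636342823) (nat_lit 304) (nat_lit 15577887066) (nat_lit 45) (nat_lit 5) (nat_lit 48) (nat_lit 5) (nat_lit 49) (nat_lit 5) (nat_lit 341) (nat_lit 314) (nat_lit 125))) (XT.nd (nat_lit 78) (nat_lit 228) (nat_lit 0) (XT.lf (nat_lit 0) (nat_lit 2070538432) (nat_lit 304) (nat_lit 43230255884) (nat_lit 76) (nat_lit 80314279547) (nat_lit 44) (nat_lit 5) (nat_lit 48) (nat_lit 5) (nat_lit 45) (nat_lit 5) (nat_lit 342) (nat_lit 314) (nat_lit 124)) (XT.nd (nat_lit 78) (nat_lit 0) (nat_lit 0) (XT.lf (nat_lit 0) (nat_lit 16887499582) (nat_lit 228) (nat_lit 3453620910) (nat_lit 304) (nat_lit 109368748251) (nat_lit 41) (nat_lit 5) (nat_lit 44) (nat_lit 5) (nat_lit 45) (nat_lit 5) (nat_lit 343) (nat_lit 314) (nat_lit 123)) (XT.lf (nat_lit 0) (nat_lit 40901059521) (nat_lit 304) (nat_lit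 53105454833) (nat_lit 76) (nat_lit 39934098232) (nat_lit 41) (nat_lit 5) (nat_lit 45) (nat_lit 5) (nat_lit 42) (nat_lit 5) (nat_lit 344) (nat_lit 314) (nat_lit 122))))))) (XT.nd (nat_lit 780) (nat_lit 684) (nat_lit 0) (XT.nd (nat_lit 390) (nat_lit 532) (nat_lit 0) (XT.nd (nat_lit 156) (nat_lit 228) (nat_lit 0) (XT.nd (nat_lit 78) (nat_lit 0) (nat_lit 0) (XT.lf (nat_lit 0) (nat_lit 9855598872) (nat_lit 228) (nat_lit 52843507812) (nat_lit 304) (nat_lit 75673281962) (nat_lit 38) (nat_lit 5) (nat_lit 41) (nat_lit 5) (nat_lit 42) (nat_lit 5) (nat_lit 345) (nat_lit 314) (nat_lit 121)) (XT.lf (nat_lit 0) (nat_lit 77807884975) (nat_lit 228) (nat_lit 8678168638) (nat_lit 304) (nat_lit 56494750582) (nat_lit 38) (nat_lit 5) (nat_lit 41) (nat_lit 5) (nat_lit 42) (nat_lit 5) (nat_lit 346) (nat_lit 314) (nat_lit 120))) (XT.nd (nat_lit 78) (nat_lit 76) (nat_lit 0) (XT.lf (nat_lit 0) (nat_lit 773869335)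 (nat_lit 152) (nat_lit 111288738385) (nat_lit 228) (nat_lit 35727020337) (nat_lit 36) (nat_lit 5) (nat_lit 38) (nat_lit 5) (nat_lit 39) (nat_lit 5) (nat_lit 347) (nat_lit 314) (nat_lit 119)) (XT.nd (nat_lit 78) (nat_lit 76) (nat_lit 0) (XT.lf (nat_lit 0) (nat_lit 72133180438) (nat_lit 152) (nat_lit 68028169599) (nat_lit 228) (nat_lit 12615375558) (nat_lit 36) (nat_lit 5) (nat_lit 38) (nat_lit 5) (nat_lit 39) (nat_lit 5) (nat_lit 348) (nat_lit 314) (nat_lit 118)) (XT.lf (nat_lit 0) (nat_lit 11278585136) (nat_lit 228) (nat_lit 11135130943) (nat_lit 76) (nat_lit 135590383198) (nat_lit 35) (nat_lit 5) (nat_lit 38) (nat_lit 5) (nat_lit 36) (nat_lit 5) (nat_lit 349) (nat_lit 314) (nat_lit 117))))) (XT.nd (nat_lit 156) (nat_lit 304) (nat_lit 0) (XT.nd (nat_lit 78) (nat_lit 0) (nat_lit 0) (XT.lf (nat_lit 0) (nat_lit 37354706292) (nat_lit 304) (nat_lit 100170760391) (nat_lit 76) (nat_lit 25886463837)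 (nat_lit 32) (nat_lit 5) (nat_lit 36) (nat_lit 5) (nat_lit 33) (nat_lit 5) (nat_lit 350) (nat_lit 314) (nat_lit 116)) (XT.lf (nat_lit 0) (nat_lit 65293428985) (nat_lit 304) (nat_lit 27728855525) (nat_lit 76) (nat_lit 76039929456) (nat_lit 32) (nat_lit 5) (nat_lit 36) (nat_lit 5) (nat_lit 33) (nat_lit 5) (nat_lit 351) (nat_lit 314) (nat_lit 115))) (XT.nd (nat_lit 78) (nat_lit 152) (nat_lit 0) (XT.lf (nat_lit 0) (nat_lit 49932855829) (nat_lit 152) (nat_lit 45475525917) (nat_lit 228) (nat_lit 79547665537) (nat_lit 30) (nat_lit 5) (nat_lit 32) (nat_lit 5) (nat_lit 33) (nat_lit 5) (nat_lit 352) (nat_lit 314) (nat_lit 114)) (XT.nd (nat_lit 78) (nat_lit 152) (nat_lit 0) (XT.lf (nat_lit 0) (nat_lit 127575543728) (nat_lit 228) (nat_lit 48758366417) (nat_lit 76) (nat_lit 4783339420) (nat_lit 30) (nat_lit 5) (nat_lit 33) (nat_lit 5) (nat_lit 31) (nat_lit 5) (nat_lit 353) (nat_lit 314) (nat_lit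 113)) (XT.lf (nat_lit 0) (nat_lit 31584670742) (nat_lit 152) (nat_lit 131004739625) (nat_lit 228) (nat_lit 24935184621) (nat_lit 28) (nat_lit 5) (nat_lit 30) (nat_lit 5) (nat_lit 31) (nat_lit 5) (nat_lit 354) (nat_lit 314) (nat_lit 112)))))) (XT.nd (nat_lit 390) (nat_lit 304) (nat_lit 0) (XT.nd (nat_lit 156) (nat_lit 152) (nat_lit 0) (XT.nd (nat_lit 78) (nat_lit 152) (nat_lit 0) (XT.lf (nat_lit 0) (nat_lit 5777383659) (nat_lit 228) (nat_lit 76667006186) (nat_lit 76) (nat_lit 111761985299) (nat_lit 27) (nat_lit 5) (nat_lit 30) (nat_lit 5) (nat_lit 28) (nat_lit 5) (nat_lit 355) (nat_lit 314) (nat_lit 111)) (XT.lf (nat_lit 0) (nat_lit 6364056782) (nat_lit 152) (nat_lit 30922634537) (nat_lit 228) (nat_lit 163910159786) (nat_lit 25) (nat_lit 5) (nat_lit 27) (nat_lit 5) (nat_lit 28) (nat_lit 5) (nat_lit 356) (nat_lit 314) (nat_lit 110))) (XT.nd (nat_lit 78) (nat_lit 152) (nat_lit 0) (XT.lf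 (nat_lit 0) (nat_lit 72052712001) (nat_lit 228) (nat_lit 112647089194) (nat_lit 76) (nat_lit 23752987584) (nat_lit 25) (nat_lit 5) (nat_lit 28) (nat_lit 5) (nat_lit 26) (nat_lit 5) (nat_lit 357) (nat_lit 314) (nat_lit 109)) (XT.nd (nat_lit 78) (nat_lit 152) (nat_lit 0) (XT.lf (nat_lit 0) (nat_lit 109063714253) (nat_lit 228) (nat_lit 26859428313) (nat_lit 76) (nat_lit 80123047025) (nat_lit 25) (nat_lit 5) (nat_lit 28) (nat_lit 5) (nat_lit 26) (nat_lit 5) (nat_lit 358) (nat_lit 314) (nat_lit 108)) (XT.lf (nat_lit 0) (nat_lit 65307480882) (nat_lit 152) (nat_lit 83637182442) (nat_lit 228) (nat_lit 75023627550) (nat_lit 23) (nat_lit 5) (nat_lit 25) (nat_lit 5) (nat_lit 26) (nat_lit 5) (nat_lit 359) (nat_lit 314) (nat_lit 107))))) (XT.nd (nat_lit 156) (nat_lit 228) (nat_lit 0) (XT.nd (nat_lit 78) (nat_lit 76) (nat_lit 0) (XT.lf (nat_lit 0) (nat_lit 163014858429) (nat_lit 152) (nat_lit 28259448119)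 (nat_lit 228) (nat_lit 40989458595) (nat_lit 23) (nat_lit 5) (nat_lit 25) (nat_lit 5) (nat_lit 26) (nat_lit 5) (nat_lit 360) (nat_lit 314) (nat_lit 106)) (XT.lf (nat_lit 0) (nat_lit 24965659222) (nat_lit 76) (nat_lit 211610957255) (nat_lit 152) (nat_lit 4354587662) (nat_lit 22) (nat_lit 5) (nat_lit 23) (nat_lit 5) (nat_lit 24) (nat_lit 4) (nat_lit 361) (nat_lit 314) (nat_lit 105))) (XT.nd (nat_lit 78) (nat_lit 152) (nat_lit 0) (XT.lf (nat_lit 0) (nat_lit 34675267204) (nat_lit 152) (nat_lit 124693705971) (nat_lit 76) (nat_lit 90553661001) (nat_lit 21) (nat_lit 5) (nat_lit 23) (nat_lit 5) (nat_lit 22) (nat_lit 5) (nat_lit 362) (nat_lit 314) (nat_lit 104)) (XT.nd (nat_lit 78) (nat_lit 152) (nat_lit 0) (XT.lf (nat_lit 0) (nat_lit 75510061884) (nat_lit 152) (nat_lit 28930012793) (nat_lit 76) (nat_lit 154920002422) (nat_lit 21) (nat_lit 5) (nat_lit 23) (nat_lit 5) (nat_lit 22) (nat_lit 5)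 (nat_lit 363) (nat_lit 314) (nat_lit 103)) (XT.lf (nat_lit 0) (nat_lit 73989661982) (nat_lit 152) (nat_lit 45551920078) (nat_lit 228) (nat_lit 149670061021) (nat_lit 19) (nat_lit 5) (nat_lit 21) (nat_lit 5) (nat_lit 22) (nat_lit 5) (nat_lit 364) (nat_lit 314) (nat_lit 102))))))))
noncomputable def xc235 : XT := (XT.nd (nat_lit 37908) (nat_lit 0) (nat_lit 1520) (XT.nd (nat_lit 37128) (nat_lit 0) (nat_lit 4332) (XT.nd (nat_lit 36738) (nat_lit 0) (nat_lit 5244) (XT.nd (nat_lit 156) (nat_lit 228) (nat_lit 0) (XT.nd (nat_lit 78) (nat_lit 76) (nat_lit 0) (XT.lf (nat_lit 0) (nat_lit 166526642430) (nat_lit 228) (nat_lit 96734140105) (nat_lit 76) (nat_lit 16257406808) (nat_lit 19) (nat_lit 5) (nat_lit 22) (nat_lit 5) (nat_lit 20) (nat_lit 4) (nat_lit 365) (nat_lit 314) (nat_lit 101)) (XT.lf (nat_lit 0) (nat_lit 6127125645) (nat_lit 76) (nat_lit 210576056089) (nat_lit 152) (nat_lit 73594770069)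 (nat_lit 18) (nat_lit 5) (nat_lit 19) (nat_lit 5) (nat_lit 20) (nat_lit 4) (nat_lit 366) (nat_lit 314) (nat_lit 100))) (XT.nd (nat_lit 78) (nat_lit 228) (nat_lit 0) (XT.lf (nat_lit 0) (nat_lit 117489529982) (nat_lit 76) (nat_lit 153537073066) (nat_lit 152) (nat_lit 30508196760) (nat_lit 18) (nat_lit 5) (nat_lit 19) (nat_lit 5) (nat_lit 20) (nat_lit 4) (nat_lit 367) (nat_lit 314) (nat_lit 99)) (XT.nd (nat_lit 78) (nat_lit 152) (nat_lit 0) (XT.lf (nat_lit 0) (nat_lit 14260987957) (nat_lit 152) (nat_lit 79143761144) (nat_lit 76) (nat_lit 219917249260) (nat_lit 17) (nat_lit 5) (nat_lit 19) (nat_lit 5) (nat_lit 18) (nat_lit 5) (nat_lit 368) (nat_lit 314) (nat_lit 98)) (XT.lf (nat_lit 0) (nat_lit 31510943533) (nat_lit 152) (nat_lit 29224216877) (nat_lit 228) (nat_lit 264913799665) (nat_lit 15) (nat_lit 5) (nat_lit 17) (nat_lit 5) (nat_lit 18) (nat_lit 5) (nat_lit 369) (nat_lit 314) (nat_lit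 97))))) (XT.nd (nat_lit 156) (nat_lit 0) (nat_lit 0) (XT.nd (nat_lit 78) (nat_lit 0) (nat_lit 0) (XT.lf (nat_lit 0) (nat_lit 11065272313) (nat_lit 0) (nat_lit 11065272313) (nat_lit 684) (nat_lit 7821649537) (nat_lit 84) (nat_lit 5) (nat_lit 84) (nat_lit 3) (nat_lit 93) (nat_lit 3) (nat_lit 315) (nat_lit 315) (nat_lit 150)) (XT.lf (nat_lit 0) (nat_lit 45462430144) (nat_lit 684) (nat_lit 11108519642) (nat_lit 760) (nat_lit 4826268147) (nat_lit 84) (nat_lit 5) (nat_lit 93) (nat_lit 3) (nat_lit 94) (nat_lit 5) (nat_lit 316) (nat_lit 315) (nat_lit 149))) (XT.nd (nat_lit 78) (nat_lit 0) (nat_lit 0) (XT.lf (nat_lit 76) (nat_lit 17073112545) (nat_lit 0) (nat_lit 30279002627) (nat_lit 760) (nat_lit 15581162513) (nat_lit 85) (nat_lit 5) (nat_lit 84) (nat_lit 5) (nat_lit 94) (nat_lit 5) (nat_lit 317) (nat_lit 315) (nat_lit 148)) (XT.nd (nat_lit 78) (nat_lit 0) (nat_lit 76) (XT.lf (nat_lit 76) (nat_lit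 47048890388) (nat_lit 0) (nat_lit 2474486347) (nat_lit 760) (nat_lit 15013411479) (nat_lit 85) (nat_lit 5) (nat_lit 84) (nat_lit 5) (nat_lit 94) (nat_lit 5) (nat_lit 318) (nat_lit 315) (nat_lit 147)) (XT.lf (nat_lit 76) (nat_lit 12278154105) (nat_lit 0) (nat_lit 40132941699) (nat_lit 760) (nat_lit 13778986034) (nat_lit 86) (nat_lit 5) (nat_lit 85) (nat_lit 5) (nat_lit 95) (nat_lit 5) (nat_lit 319) (nat_lit 315) (nat_lit 146)))))) (XT.nd (nat_lit 390) (nat_lit 380) (nat_lit 0) (XT.nd (nat_lit 156) (nat_lit 608) (nat_lit 0) (XT.nd (nat_lit 78) (nat_lit 0) (nat_lit 76) (XT.lf (nat_lit 76) (nat_lit 44097124187) (nat_lit 0) (nat_lit 11681210694) (nat_lit 760) (nat_lit 12130950739) (nat_lit 86) (nat_lit 5) (nat_lit 85) (nat_lit 5) (nat_lit 95) (nat_lit 5) (nat_lit 320) (nat_lit 315) (nat_lit 145)) (XT.lf (nat_lit 76) (nat_lit 7756152594) (nat_lit 0) (nat_lit 51962030692) (nat_lit 760) (nat_lit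 9976056013) (nat_lit 87) (nat_lit 5) (nat_lit 86) (nat_lit 5) (nat_lit 96) (nat_lit 5) (nat_lit 321) (nat_lit 315) (nat_lit 144))) (XT.nd (nat_lit 78) (nat_lit 684) (nat_lit 0) (XT.lf (nat_lit 76) (nat_lit 41531129650) (nat_lit 0) (nat_lit 22914710969) (nat_lit 760) (nat_lit 7093061193) (nat_lit 87) (nat_lit 5) (nat_lit 86) (nat_lit 5) (nat_lit 96) (nat_lit 5) (nat_lit 322) (nat_lit 315) (nat_lit 143)) (XT.nd (nat_lit 78) (nat_lit 760) (nat_lit 0) (XT.lf (nat_lit 76) (nat_lit 3512407909) (nat_lit 0) (nat_lit 66069917970) (nat_lit 760) (nat_lit 3884851203) (nat_lit 88) (nat_lit 5) (nat_lit 87) (nat_lit 5) (nat_lit 97) (nat_lit 5) (nat_lit 323) (nat_lit 315) (nat_lit 142)) (XT.lf (nat_lit 0) (nat_lit 391668226) (nat_lit 760) (nat_lit 36092643779) (nat_lit 836) (nat_lit 38963389992) (nat_lit 77) (nat_lit 5) (nat_lit 87) (nat_lit 5) (nat_lit 88) (nat_lit 5) (nat_lit 324) (nat_lit 315) (nat_lit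 141))))) (XT.nd (nat_lit 156) (nat_lit 380) (nat_lit 0) (XT.nd (nat_lit 78) (nat_lit 0) (nat_lit 76) (XT.lf (nat_lit 0) (nat_lit 4750693447) (nat_lit 760) (nat_lit 601730837) (nat_lit 836) (nat_lit 72171684382) (nat_lit 77) (nat_lit 5) (nat_lit 87) (nat_lit 5) (nat_lit 88) (nat_lit 5) (nat_lit 325) (nat_lit 315) (nat_lit 140)) (XT.lf (nat_lit 0) (nat_lit 10354771852) (nat_lit 760) (nat_lit 42235921342) (nat_lit 76) (nat_lit 27062288927) (nat_lit 78) (nat_lit 5) (nat_lit 88) (nat_lit 5) (nat_lit 79) (nat_lit 5) (nat_lit 326) (nat_lit 315) (nat_lit 139))) (XT.nd (nat_lit 78) (nat_lit 456) (nat_lit 0) (XT.lf (nat_lit 0) (nat_lit 16336456244) (nat_lit 760) (nat_lit 4618649797) (nat_lit 76) (nat_lit 60928324579) (nat_lit 78) (nat_lit 5) (nat_lit 88) (nat_lit 5) (nat_lit 79) (nat_lit 5) (nat_lit 327) (nat_lit 315) (nat_lit 138)) (XT.nd (nat_lit 78) (nat_lit 0) (nat_lit 0) (XT.lf (nat_lit 0)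 (nat_lit 23379792216) (nat_lit 532) (nat_lit 48365842044) (nat_lit 76) (nat_lit 12441640322) (nat_lit 72) (nat_lit 5) (nat_lit 79) (nat_lit 5) (nat_lit 73) (nat_lit 5) (nat_lit 328) (nat_lit 315) (nat_lit 137)) (XT.lf (nat_lit 0) (nat_lit 31197679109) (nat_lit 532) (nat_lit 8503966026) (nat_lit 76) (nat_lit 46883547739) (nat_lit 72) (nat_lit 5) (nat_lit 79) (nat_lit 5) (nat_lit 73) (nat_lit 5) (nat_lit 329) (nat_lit 315) (nat_lit 136))))))) (XT.nd (nat_lit 780) (nat_lit 1216) (nat_lit 0) (XT.nd (nat_lit 390) (nat_lit 608) (nat_lit 0) (XT.nd (nat_lit 156) (nat_lit 608) (nat_lit 0) (XT.nd (nat_lit 78) (nat_lit 0) (nat_lit 0) (XT.lf (nat_lit 0) (nat_lit 34453122974) (nat_lit 380) (nat_lit 5490634266) (nat_lit 456) (nat_lit 49132386270) (nat_lit 67) (nat_lit 5) (nat_lit 72) (nat_lit 5) (nat_lit 73) (nat_lit 5) (nat_lit 330) (nat_lit 315) (nat_lit 135)) (XT.lf (nat_lit 0) (nat_lit 49748038303)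 (nat_lit 456) (nat_lit 12309226100) (nat_lit 76) (nat_lit 29603333538) (nat_lit 67) (nat_lit 5) (nat_lit 73) (nat_lit 5) (nat_lit 68) (nat_lit 5) (nat_lit 331) (nat_lit 315) (nat_lit 134))) (XT.nd (nat_lit 78) (nat_lit 304) (nat_lit 0) (XT.lf (nat_lit 0) (nat_lit 33088704990) (nat_lit 304) (nat_lit 27559881694) (nat_lit 380) (nat_lit 33695386901) (nat_lit 63) (nat_lit 5) (nat_lit 67) (nat_lit 5) (nat_lit 68) (nat_lit 5) (nat_lit 332) (nat_lit 315) (nat_lit 133)) (XT.nd (nat_lit 78) (nat_lit 304) (nat_lit 0) (XT.lf (nat_lit 0) (nat_lit 72440739293) (nat_lit 380) (nat_lit 16106481333) (nat_lit 76) (nat_lit 8596969648) (nat_lit 63) (nat_lit 5) (nat_lit 68) (nat_lit 5) (nat_lit 64) (nat_lit 5) (nat_lit 333) (nat_lit 315) (nat_lit 132)) (XT.lf (nat_lit 0) (nat_lit 31867319742) (nat_lit 304) (nat_lit 53903998164) (nat_lit 380) (nat_lit 14265660020) (nat_lit 59) (nat_lit 5) (nat_lit 63) (nat_lit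 5) (nat_lit 64) (nat_lit 5) (nat_lit 334) (nat_lit 315) (nat_lit 131))))) (XT.nd (nat_lit 156) (nat_lit 304) (nat_lit 0) (XT.nd (nat_lit 78) (nat_lit 304) (nat_lit 0) (XT.lf (nat_lit 0) (nat_lit 82798423390) (nat_lit 304) (nat_lit 17242267928) (nat_lit 380) (nat_lit 3020101348) (nat_lit 59) (nat_lit 5) (nat_lit 63) (nat_lit 5) (nat_lit 64) (nat_lit 5) (nat_lit 335) (nat_lit 315) (nat_lit 130)) (XT.lf (nat_lit 0) (nat_lit 9330248213) (nat_lit 304) (nat_lit 75655577850) (nat_lit 76) (nat_lit 21201924158) (nat_lit 55) (nat_lit 5) (nat_lit 59) (nat_lit 5) (nat_lit 56) (nat_lit 5) (nat_lit 336) (nat_lit 315) (nat_lit 129))) (XT.nd (nat_lit 78) (nat_lit 304) (nat_lit 0) (XT.lf (nat_lit 0) (nat_lit 22827582324) (nat_lit 304) (nat_lit 25222361298) (nat_lit 76) (nat_lit 61387089289) (nat_lit 55) (nat_lit 5) (nat_lit 59) (nat_lit 5) (nat_lit 56) (nat_lit 5) (nat_lit 337) (nat_lit 315) (nat_lit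 128)) (XT.nd (nat_lit 78) (nat_lit 0) (nat_lit 0) (XT.lf (nat_lit 0) (nat_lit 28648914885) (nat_lit 304) (nat_lit 8797704450) (nat_lit 380) (nat_lit 75379819412) (nat_lit 51) (nat_lit 5) (nat_lit 55) (nat_lit 5) (nat_lit 56) (nat_lit 5) (nat_lit 338) (nat_lit 315) (nat_lit 127)) (XT.lf (nat_lit 0) (nat_lit 53736444173) (nat_lit 380) (nat_lit 30788221831) (nat_lit 76) (nat_lit 31813657854) (nat_lit 51) (nat_lit 5) (nat_lit 56) (nat_lit 5) (nat_lit 52) (nat_lit 5) (nat_lit 339) (nat_lit 315) (nat_lit 126)))))) (XT.nd (nat_lit 390) (nat_lit 456) (nat_lit 0) (XT.nd (nat_lit 156) (nat_lit 532) (nat_lit 0) (XT.nd (nat_lit 78) (nat_lit 0) (nat_lit 0) (XT.lf (nat_lit 0) (nat_lit 25956561376) (nat_lit 228) (nat_lit 45433257319) (nat_lit 304) (nat_lit 48608532353) (nat_lit 48) (nat_lit 5) (nat_lit 51) (nat_lit 5) (nat_lit 52) (nat_lit 5) (nat_lit 340) (nat_lit 315) (nat_lit 125)) (XT.lf (nat_lit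 0) (nat_lit 86606958526) (nat_lit 228) (nat_lit 3839907844) (nat_lit 304) (nat_lit 33368463715) (nat_lit 48) (nat_lit 5) (nat_lit 51) (nat_lit 5) (nat_lit 52) (nat_lit 5) (nat_lit 341) (nat_lit 315) (nat_lit 124))) (XT.nd (nat_lit 78) (nat_lit 304) (nat_lit 0) (XT.lf (nat_lit 0) (nat_lit 22566565699) (nat_lit 228) (nat_lit 88864043307) (nat_lit 304) (nat_lit 16343857616) (nat_lit 45) (nat_lit 5) (nat_lit 48) (nat_lit 5) (nat_lit 49) (nat_lit 5) (nat_lit 342) (nat_lit 315) (nat_lit 123)) (XT.nd (nat_lit 78) (nat_lit 228) (nat_lit 0) (XT.lf (nat_lit 0) (nat_lit 2185979793) (nat_lit 304) (nat_lit 45375731837) (nat_lit 76) (nat_lit 84333501349) (nat_lit 44) (nat_lit 5) (nat_lit 48) (nat_lit 5) (nat_lit 45) (nat_lit 5) (nat_lit 343) (nat_lit 315) (nat_lit 122)) (XT.lf (nat_lit 0) (nat_lit 17747652744) (nat_lit 228) (nat_lit 3622117199) (nat_lit 304) (nat_lit 114824994607) (nat_lit 41) (nat_lit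 5) (nat_lit 44) (nat_lit 5) (nat_lit 45) (nat_lit 5) (nat_lit 344) (nat_lit 315) (nat_lit 121))))) (XT.nd (nat_lit 234) (nat_lit 228) (nat_lit 0) (XT.nd (nat_lit 78) (nat_lit 228) (nat_lit 0) (XT.lf (nat_lit 0) (nat_lit 42957216080) (nat_lit 304) (nat_lit 55745193787) (nat_lit 76) (nat_lit 41934661066) (nat_lit 41) (nat_lit 5) (nat_lit 45) (nat_lit 5) (nat_lit 42) (nat_lit 5) (nat_lit 345) (nat_lit 315) (nat_lit 120)) (XT.nd (nat_lit 78) (nat_lit 0) (nat_lit 0) (XT.lf (nat_lit 0) (nat_lit 10363662057) (nat_lit 228) (nat_lit 55481213416) (nat_lit 304) (nat_lit 79445575643) (nat_lit 38) (nat_lit 5) (nat_lit 41) (nat_lit 5) (nat_lit 42) (nat_lit 5) (nat_lit 346) (nat_lit 315) (nat_lit 119)) (XT.lf (nat_lit 0) (nat_lit 81712834692) (nat_lit 228) (nat_lit 9107820130) (nat_lit 304) (nat_lit 59308659143) (nat_lit 38) (nat_lit 5) (nat_lit 41) (nat_lit 5) (nat_lit 42) (nat_lit 5) (nat_lit 347)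 (nat_lit 315) (nat_lit 118)))) (XT.nd (nat_lit 78) (nat_lit 76) (nat_lit 0) (XT.lf (nat_lit 0) (nat_lit 827339998) (nat_lit 152) (nat_lit 116848500243) (nat_lit 228) (nat_lit 37502749339) (nat_lit 36) (nat_lit 5) (nat_lit 38) (nat_lit 5) (nat_lit 39) (nat_lit 5) (nat_lit 348) (nat_lit 315) (nat_lit 117)) (XT.nd (nat_lit 78) (nat_lit 76) (nat_lit 0) (XT.lf (nat_lit 0) (nat_lit 75753912979) (nat_lit 152) (nat_lit 71425125639) (nat_lit 228) (nat_lit 13236028131) (nat_lit 36) (nat_lit 5) (nat_lit 38) (nat_lit 5) (nat_lit 39) (nat_lit 5) (nat_lit 349) (nat_lit 315) (nat_lit 116)) (XT.lf (nat_lit 0) (nat_lit 11851840510) (nat_lit 228) (nat_lit 11678163013) (nat_lit 76) (nat_lit 142373821651) (nat_lit 35) (nat_lit 5) (nat_lit 38) (nat_lit 5) (nat_lit 36) (nat_lit 5) (nat_lit 350) (nat_lit 315) (nat_lit 115))))))))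
noncomputable def xc236 : XT := (XT.nd (nat_lit 38064) (nat_lit 0) (nat_lit 2812) (XT.nd (nat_lit 780) (nat_lit 380) (nat_lit 0) (XT.nd (nat_lit 390) (nat_lit 380) (nat_lit 0) (XT.nd (nat_lit 156) (nat_lit 304) (nat_lit 0) (XT.nd (nat_lit 78) (nat_lit 0) (nat_lit 0) (XT.lf (nat_lit 0) (nat_lit 39231603301) (nat_lit 304) (nat_lit 105165397356) (nat_lit 76) (nat_lit 27185056150) (nat_lit 32) (nat_lit 5) (nat_lit 36) (nat_lit 5) (nat_lit 33) (nat_lit 5) (nat_lit 351) (nat_lit 315) (nat_lit 114)) (XT.lf (nat_lit 0) (nat_lit 68566825858) (nat_lit 304) (nat_lit 29102059202) (nat_lit 76) (nat_lit 79845991759) (nat_lit 32) (nat_lit 5) (nat_lit 36) (nat_lit 5) (nat_lit 33) (nat_lit 5) (nat_lit 352) (nat_lit 315) (nat_lit 113))) (XT.nd (nat_lit 78) (nat_lit 152) (nat_lit 0) (XT.lf (nat_lit 0) (nat_lit 52442524187) (nat_lit 152) (nat_lit 47744789940) (nat_lit 228) (nat_lit 83516098833) (nat_lit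 30) (nat_lit 5) (nat_lit 32) (nat_lit 5) (nat_lit 33) (nat_lit 5) (nat_lit 353) (nat_lit 315) (nat_lit 112)) (XT.nd (nat_lit 78) (nat_lit 152) (nat_lit 0) (XT.lf (nat_lit 0) (nat_lit 133962495906) (nat_lit 228) (nat_lit 51183530637) (nat_lit 76) (nat_lit 5026666250) (nat_lit 30) (nat_lit 5) (nat_lit 33) (nat_lit 5) (nat_lit 31) (nat_lit 5) (nat_lit 354) (nat_lit 315) (nat_lit 111)) (XT.lf (nat_lit 0) (nat_lit 33176452669) (nat_lit 152) (nat_lit 137550409839) (nat_lit 228) (nat_lit 26173553149) (nat_lit 28) (nat_lit 5) (nat_lit 30) (nat_lit 5) (nat_lit 31) (nat_lit 5) (nat_lit 355) (nat_lit 315) (nat_lit 110))))) (XT.nd (nat_lit 156) (nat_lit 152) (nat_lit 0) (XT.nd (nat_lit 78) (nat_lit 152) (nat_lit 0) (XT.lf (nat_lit 0) (nat_lit 6073988221) (nat_lit 228) (nat_lit 80488140811) (nat_lit 76) (nat_lit 117354169029) (nat_lit 27) (nat_lit 5) (nat_lit 30) (nat_lit 5) (nat_lit 28) (nat_lit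 5) (nat_lit 356) (nat_lit 315) (nat_lit 109)) (XT.lf (nat_lit 0) (nat_lit 6694278278) (nat_lit 152) (nat_lit 32464302280) (nat_lit 228) (nat_lit 172097726731) (nat_lit 25) (nat_lit 5) (nat_lit 27) (nat_lit 5) (nat_lit 28) (nat_lit 5) (nat_lit 357) (nat_lit 315) (nat_lit 108))) (XT.nd (nat_lit 78) (nat_lit 152) (nat_lit 0) (XT.lf (nat_lit 0) (nat_lit 75662608904) (nat_lit 228) (nat_lit 118267695718) (nat_lit 76) (nat_lit 24944752305) (nat_lit 25) (nat_lit 5) (nat_lit 28) (nat_lit 5) (nat_lit 26) (nat_lit 5) (nat_lit 358) (nat_lit 315) (nat_lit 107)) (XT.nd (nat_lit 78) (nat_lit 152) (nat_lit 0) (XT.lf (nat_lit 0) (nat_lit 114523815492) (nat_lit 228) (nat_lit 28191211218) (nat_lit 76) (nat_lit 84133118749) (nat_lit 25) (nat_lit 5) (nat_lit 28) (nat_lit 5) (nat_lit 26) (nat_lit 5) (nat_lit 359) (nat_lit 315) (nat_lit 106)) (XT.lf (nat_lit 0) (nat_lit 68583862977) (nat_lit 152) (nat_lit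 87814791596) (nat_lit 228) (nat_lit 78767705479) (nat_lit 23) (nat_lit 5) (nat_lit 25) (nat_lit 5) (nat_lit 26) (nat_lit 5) (nat_lit 360) (nat_lit 315) (nat_lit 105)))))) (XT.nd (nat_lit 390) (nat_lit 76) (nat_lit 0) (XT.nd (nat_lit 156) (nat_lit 228) (nat_lit 0) (XT.nd (nat_lit 78) (nat_lit 76) (nat_lit 0) (XT.lf (nat_lit 0) (nat_lit 171176085208) (nat_lit 152) (nat_lit 29668372936) (nat_lit 228) (nat_lit 43032166336) (nat_lit 23) (nat_lit 5) (nat_lit 25) (nat_lit 5) (nat_lit 26) (nat_lit 5) (nat_lit 361) (nat_lit 315) (nat_lit 104)) (XT.lf (nat_lit 0) (nat_lit 26224518386) (nat_lit 76) (nat_lit 222187284004) (nat_lit 152) (nat_lit 4565637434) (nat_lit 22) (nat_lit 5) (nat_lit 23) (nat_lit 5) (nat_lit 24) (nat_lit 4) (nat_lit 362) (nat_lit 315) (nat_lit 103))) (XT.nd (nat_lit 78) (nat_lit 152) (nat_lit 0) (XT.lf (nat_lit 0) (nat_lit 36415188490) (nat_lit 152) (nat_lit 130918108947)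 (nat_lit 76) (nat_lit 95085154412) (nat_lit 21) (nat_lit 5) (nat_lit 23) (nat_lit 5) (nat_lit 22) (nat_lit 5) (nat_lit 363) (nat_lit 315) (nat_lit 102)) (XT.nd (nat_lit 78) (nat_lit 152) (nat_lit 0) (XT.lf (nat_lit 0) (nat_lit 79291429670) (nat_lit 152) (nat_lit 30366720745) (nat_lit 76) (nat_lit 162669631458) (nat_lit 21) (nat_lit 5) (nat_lit 23) (nat_lit 5) (nat_lit 22) (nat_lit 5) (nat_lit 364) (nat_lit 315) (nat_lit 101)) (XT.lf (nat_lit 0) (nat_lit 77698779822) (nat_lit 152) (nat_lit 47825617186) (nat_lit 228) (nat_lit 157147535867) (nat_lit 19) (nat_lit 5) (nat_lit 21) (nat_lit 5) (nat_lit 22) (nat_lit 5) (nat_lit 365) (nat_lit 315) (nat_lit 100))))) (XT.nd (nat_lit 156) (nat_lit 0) (nat_lit 0) (XT.nd (nat_lit 78) (nat_lit 76) (nat_lit 0) (XT.lf (nat_lit 0) (nat_lit 174858495236) (nat_lit 228) (nat_lit 101561450703) (nat_lit 76) (nat_lit 17073871535) (nat_lit 19) (nat_lit 5) (nat_lit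 22) (nat_lit 5) (nat_lit 20) (nat_lit 4) (nat_lit 366) (nat_lit 315) (nat_lit 99)) (XT.lf (nat_lit 0) (nat_lit 6442726781) (nat_lit 76) (nat_lit 221101016173) (nat_lit 152) (nat_lit 77268831283) (nat_lit 18) (nat_lit 5) (nat_lit 19) (nat_lit 5) (nat_lit 20) (nat_lit 4) (nat_lit 367) (nat_lit 315) (nat_lit 98))) (XT.nd (nat_lit 36582) (nat_lit 0) (nat_lit 5016) (XT.lf (nat_lit 0) (nat_lit 123372811103) (nat_lit 76) (nat_lit 161210266985) (nat_lit 152) (nat_lit 32028199655) (nat_lit 18) (nat_lit 5) (nat_lit 19) (nat_lit 5) (nat_lit 20) (nat_lit 4) (nat_lit 368) (nat_lit 315) (nat_lit 97)) (XT.nd (nat_lit 78) (nat_lit 0) (nat_lit 0) (XT.lf (nat_lit 0) (nat_lit 11626888761) (nat_lit 0) (nat_lit 11626888761) (nat_lit 684) (nat_lit 8195152261) (nat_lit 84) (nat_lit 5) (nat_lit 84) (nat_lit 3) (nat_lit 93) (nat_lit 3) (nat_lit 316) (nat_lit 316) (nat_lit 148)) (XT.lf (nat_lit 0) (nat_lit 47767123560)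 (nat_lit 684) (nat_lit 11646122135) (nat_lit 760) (nat_lit 5052180623) (nat_lit 84) (nat_lit 5) (nat_lit 93) (nat_lit 3) (nat_lit 94) (nat_lit 5) (nat_lit 317) (nat_lit 316) (nat_lit 147))))))) (XT.nd (nat_lit 780) (nat_lit 1672) (nat_lit 0) (XT.nd (nat_lit 390) (nat_lit 532) (nat_lit 0) (XT.nd (nat_lit 156) (nat_lit 0) (nat_lit 76) (XT.nd (nat_lit 78) (nat_lit 0) (nat_lit 0) (XT.lf (nat_lit 76) (nat_lit 17944304186) (nat_lit 0) (nat_lit 31805759016) (nat_lit 760) (nat_lit 16328290858) (nat_lit 85) (nat_lit 5) (nat_lit 84) (nat_lit 5) (nat_lit 94) (nat_lit 5) (nat_lit 318) (nat_lit 316) (nat_lit 146)) (XT.lf (nat_lit 76) (nat_lit 49418035873) (nat_lit 0) (nat_lit 2610407100) (nat_lit 760) (nat_lit 15733672738) (nat_lit 85) (nat_lit 5) (nat_lit 84) (nat_lit 5) (nat_lit 94) (nat_lit 5) (nat_lit 319) (nat_lit 316) (nat_lit 145))) (XT.nd (nat_lit 78) (nat_lit 0) (nat_lit 0) (XT.lf (nat_lit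 76) (nat_lit 12910168283) (nat_lit 0) (nat_lit 42149104985) (nat_lit 760) (nat_lit 14438867677) (nat_lit 86) (nat_lit 5) (nat_lit 85) (nat_lit 5) (nat_lit 95) (nat_lit 5) (nat_lit 320) (nat_lit 316) (nat_lit 144)) (XT.nd (nat_lit 78) (nat_lit 0) (nat_lit 76) (XT.lf (nat_lit 76) (nat_lit 46319224657) (nat_lit 0) (nat_lit 12274334277) (nat_lit 760) (nat_lit 12709814791) (nat_lit 86) (nat_lit 5) (nat_lit 85) (nat_lit 5) (nat_lit 95) (nat_lit 5) (nat_lit 321) (nat_lit 316) (nat_lit 143)) (XT.lf (nat_lit 76) (nat_lit 8162419548) (nat_lit 0) (nat_lit 54566880922) (nat_lit 760) (nat_lit 10448332477) (nat_lit 87) (nat_lit 5) (nat_lit 86) (nat_lit 5) (nat_lit 96) (nat_lit 5) (nat_lit 322) (nat_lit 316) (nat_lit 142))))) (XT.nd (nat_lit 156) (nat_lit 684) (nat_lit 0) (XT.nd (nat_lit 78) (nat_lit 0) (nat_lit 76) (XT.lf (nat_lit 76) (nat_lit 43625266442) (nat_lit 0) (nat_lit 24066873847) (nat_lit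 760) (nat_lit 7422451075) (nat_lit 87) (nat_lit 5) (nat_lit 86) (nat_lit 5) (nat_lit 96) (nat_lit 5) (nat_lit 323) (nat_lit 316) (nat_lit 141)) (XT.lf (nat_lit 76) (nat_lit 3706659078) (nat_lit 0) (nat_lit 69377842820) (nat_lit 760) (nat_lit 4054828521) (nat_lit 88) (nat_lit 5) (nat_lit 87) (nat_lit 5) (nat_lit 97) (nat_lit 5) (nat_lit 324) (nat_lit 316) (nat_lit 140))) (XT.nd (nat_lit 78) (nat_lit 0) (nat_lit 0) (XT.lf (nat_lit 0) (nat_lit 433621736) (nat_lit 760) (nat_lit 37878745070) (nat_lit 836) (nat_lit 40906554139) (nat_lit 77) (nat_lit 5) (nat_lit 87) (nat_lit 5) (nat_lit 88) (nat_lit 5) (nat_lit 325) (nat_lit 316) (nat_lit 139)) (XT.nd (nat_lit 78) (nat_lit 0) (nat_lit 76) (XT.lf (nat_lit 0) (nat_lit 5009532975) (nat_lit 760) (nat_lit 614168904) (nat_lit 836) (nat_lit 75775501598) (nat_lit 77) (nat_lit 5) (nat_lit 87) (nat_lit 5) (nat_lit 88) (nat_lit 5) (nat_lit 326) (nat_lit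 316) (nat_lit 138)) (XT.lf (nat_lit 0) (nat_lit 10893021957) (nat_lit 760) (nat_lit 44329232375) (nat_lit 76) (nat_lit 28412308102) (nat_lit 78) (nat_lit 5) (nat_lit 88) (nat_lit 5) (nat_lit 79) (nat_lit 5) (nat_lit 327) (nat_lit 316) (nat_lit 137)))))) (XT.nd (nat_lit 390) (nat_lit 912) (nat_lit 0) (XT.nd (nat_lit 156) (nat_lit 380) (nat_lit 0) (XT.nd (nat_lit 78) (nat_lit 456) (nat_lit 0) (XT.lf (nat_lit 0) (nat_lit 17172813831) (nat_lit 760) (nat_lit 4831977492) (nat_lit 76) (nat_lit 63971792930) (nat_lit 78) (nat_lit 5) (nat_lit 88) (nat_lit 5) (nat_lit 79) (nat_lit 5) (nat_lit 328) (nat_lit 316) (nat_lit 136)) (XT.lf (nat_lit 0) (nat_lit 24567632536) (nat_lit 532) (nat_lit 50765806087) (nat_lit 76) (nat_lit 13062217952) (nat_lit 72) (nat_lit 5) (nat_lit 79) (nat_lit 5) (nat_lit 73) (nat_lit 5) (nat_lit 329) (nat_lit 316) (nat_lit 135))) (XT.nd (nat_lit 78) (nat_lit 380) (nat_lit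 0) (XT.lf (nat_lit 0) (nat_lit 32775516121) (nat_lit 532) (nat_lit 8911709034) (nat_lit 76) (nat_lit 49226292377) (nat_lit 72) (nat_lit 5) (nat_lit 79) (nat_lit 5) (nat_lit 73) (nat_lit 5) (nat_lit 330) (nat_lit 316) (nat_lit 134)) (XT.nd (nat_lit 78) (nat_lit 0) (nat_lit 0) (XT.lf (nat_lit 0) (nat_lit 36192952880) (nat_lit 380) (nat_lit 5765358502) (nat_lit 456) (nat_lit 51570735434) (nat_lit 67) (nat_lit 5) (nat_lit 72) (nat_lit 5) (nat_lit 73) (nat_lit 5) (nat_lit 331) (nat_lit 316) (nat_lit 133)) (XT.lf (nat_lit 0) (nat_lit 52251976670) (nat_lit 456) (nat_lit 12907467756) (nat_lit 76) (nat_lit 31083322728) (nat_lit 67) (nat_lit 5) (nat_lit 73) (nat_lit 5) (nat_lit 68) (nat_lit 5) (nat_lit 332) (nat_lit 316) (nat_lit 132))))) (XT.nd (nat_lit 156) (nat_lit 608) (nat_lit 0) (XT.nd (nat_lit 78) (nat_lit 0) (nat_lit 0) (XT.lf (nat_lit 0) (nat_lit 34760082153) (nat_lit 304) (nat_lit 28936947378)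 (nat_lit 380) (nat_lit 35363309809) (nat_lit 63) (nat_lit 5) (nat_lit 67) (nat_lit 5) (nat_lit 68) (nat_lit 5) (nat_lit 333) (nat_lit 316) (nat_lit 131)) (XT.lf (nat_lit 0) (nat_lit 76078041026) (nat_lit 380) (nat_lit 16894890788) (nat_lit 76) (nat_lit 9027674022) (nat_lit 63) (nat_lit 5) (nat_lit 68) (nat_lit 5) (nat_lit 64) (nat_lit 5) (nat_lit 334) (nat_lit 316) (nat_lit 130))) (XT.nd (nat_lit 78) (nat_lit 304) (nat_lit 0) (XT.lf (nat_lit 0) (nat_lit 33477327525) (nat_lit 304) (nat_lit 56597353976) (nat_lit 380) (nat_lit 14963376185) (nat_lit 59) (nat_lit 5) (nat_lit 63) (nat_lit 5) (nat_lit 64) (nat_lit 5) (nat_lit 335) (nat_lit 316) (nat_lit 129)) (XT.nd (nat_lit 78) (nat_lit 304) (nat_lit 0) (XT.lf (nat_lit 0) (nat_lit 86954193889) (nat_lit 304) (nat_lit 18102625042) (nat_lit 380) (nat_lit 3156280857) (nat_lit 59) (nat_lit 5) (nat_lit 63) (nat_lit 5) (nat_lit 64) (nat_lit 5) (nat_lit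 336) (nat_lit 316) (nat_lit 128)) (XT.lf (nat_lit 0) (nat_lit 9810713292) (nat_lit 304) (nat_lit 79421582723) (nat_lit 76) (nat_lit 22264118816) (nat_lit 55) (nat_lit 5) (nat_lit 59) (nat_lit 5) (nat_lit 56) (nat_lit 5) (nat_lit 337) (nat_lit 316) (nat_lit 127))))))))
noncomputable def xc237 : XT := (XT.nd (nat_lit 1560) (nat_lit 608) (nat_lit 0) (XT.nd (nat_lit 780) (nat_lit 836) (nat_lit 0) (XT.nd (nat_lit 390) (nat_lit 760) (nat_lit 0) (XT.nd (nat_lit 156) (nat_lit 228) (nat_lit 0) (XT.nd (nat_lit 78) (nat_lit 304) (nat_lit 0) (XT.lf (nat_lit 0) (nat_lit 23982249696) (nat_lit 304) (nat_lit 26467504106) (nat_lit 76) (nat_lit 64458442277) (nat_lit 55) (nat_lit 5) (nat_lit 59) (nat_lit 5) (nat_lit 56) (nat_lit 5) (nat_lit 338) (nat_lit 316) (nat_lit 126)) (XT.lf (nat_lit 0) (nat_lit 30097078221) (nat_lit 304) (nat_lit 9234772958) (nat_lit 380) (nat_lit 79135241543) (nat_lit 51) (nat_lit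 5) (nat_lit 55) (nat_lit 5) (nat_lit 56) (nat_lit 5) (nat_lit 339) (nat_lit 316) (nat_lit 125))) (XT.nd (nat_lit 78) (nat_lit 228) (nat_lit 0) (XT.lf (nat_lit 0) (nat_lit 56435594814) (nat_lit 380) (nat_lit 32312069516) (nat_lit 76) (nat_lit 33406937472) (nat_lit 51) (nat_lit 5) (nat_lit 56) (nat_lit 5) (nat_lit 52) (nat_lit 5) (nat_lit 340) (nat_lit 316) (nat_lit 124)) (XT.nd (nat_lit 78) (nat_lit 0) (nat_lit 0) (XT.lf (nat_lit 0) (nat_lit 27269701829) (nat_lit 228) (nat_lit 47701588234) (nat_lit 304) (nat_lit 51026358727) (nat_lit 48) (nat_lit 5) (nat_lit 51) (nat_lit 5) (nat_lit 52) (nat_lit 5) (nat_lit 341) (nat_lit 316) (nat_lit 123)) (XT.lf (nat_lit 0) (nat_lit 90951889675) (nat_lit 228) (nat_lit 4028729950) (nat_lit 304) (nat_lit 35024886669) (nat_lit 48) (nat_lit 5) (nat_lit 51) (nat_lit 5) (nat_lit 52) (nat_lit 5) (nat_lit 342) (nat_lit 316) (nat_lit 122))))) (XT.nd (nat_lit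 156) (nat_lit 456) (nat_lit 0) (XT.nd (nat_lit 78) (nat_lit 76) (nat_lit 0) (XT.lf (nat_lit 0) (nat_lit 23709774023) (nat_lit 228) (nat_lit 93303511543) (nat_lit 304) (nat_lit 17149328226) (nat_lit 45) (nat_lit 5) (nat_lit 48) (nat_lit 5) (nat_lit 49) (nat_lit 5) (nat_lit 343) (nat_lit 316) (nat_lit 121)) (XT.lf (nat_lit 0) (nat_lit 2306085530) (nat_lit 304) (nat_lit 47629972540) (nat_lit 76) (nat_lit 88553358117) (nat_lit 44) (nat_lit 5) (nat_lit 48) (nat_lit 5) (nat_lit 45) (nat_lit 5) (nat_lit 344) (nat_lit 316) (nat_lit 120))) (XT.nd (nat_lit 78) (nat_lit 228) (nat_lit 0) (XT.lf (nat_lit 0) (nat_lit 18649346659) (nat_lit 228) (nat_lit 3799427362) (nat_lit 304) (nat_lit 120555186691) (nat_lit 41) (nat_lit 5) (nat_lit 44) (nat_lit 5) (nat_lit 45) (nat_lit 5) (nat_lit 345) (nat_lit 316) (nat_lit 119)) (XT.nd (nat_lit 78) (nat_lit 228) (nat_lit 0) (XT.lf (nat_lit 0) (nat_lit 45115148162)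 (nat_lit 304) (nat_lit 58518363874) (nat_lit 76) (nat_lit 44034893368) (nat_lit 41) (nat_lit 5) (nat_lit 45) (nat_lit 5) (nat_lit 42) (nat_lit 5) (nat_lit 346) (nat_lit 316) (nat_lit 118)) (XT.lf (nat_lit 0) (nat_lit 10895707511) (nat_lit 228) (nat_lit 58251219859) (nat_lit 304) (nat_lit 83407541123) (nat_lit 38) (nat_lit 5) (nat_lit 41) (nat_lit 5) (nat_lit 42) (nat_lit 5) (nat_lit 347) (nat_lit 316) (nat_lit 117)))))) (XT.nd (nat_lit 390) (nat_lit 380) (nat_lit 0) (XT.nd (nat_lit 156) (nat_lit 304) (nat_lit 0) (XT.nd (nat_lit 78) (nat_lit 152) (nat_lit 0) (XT.lf (nat_lit 0) (nat_lit 85811678666) (nat_lit 228) (nat_lit 9559349967) (nat_lit 304) (nat_lit 62264269907) (nat_lit 38) (nat_lit 5) (nat_lit 41) (nat_lit 5) (nat_lit 42) (nat_lit 5) (nat_lit 348) (nat_lit 316) (nat_lit 116)) (XT.lf (nat_lit 0) (nat_lit 882110350) (nat_lit 152) (nat_lit 122686684837) (nat_lit 228) (nat_lit 39368252326)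 (nat_lit 36) (nat_lit 5) (nat_lit 38) (nat_lit 5) (nat_lit 39) (nat_lit 5) (nat_lit 349) (nat_lit 316) (nat_lit 115))) (XT.nd (nat_lit 78) (nat_lit 304) (nat_lit 0) (XT.lf (nat_lit 0) (nat_lit 79554373726) (nat_lit 152) (nat_lit 74992343427) (nat_lit 228) (nat_lit 13888653842) (nat_lit 36) (nat_lit 5) (nat_lit 38) (nat_lit 5) (nat_lit 39) (nat_lit 5) (nat_lit 350) (nat_lit 316) (nat_lit 114)) (XT.nd (nat_lit 78) (nat_lit 228) (nat_lit 0) (XT.lf (nat_lit 0) (nat_lit 12452891598) (nat_lit 228) (nat_lit 12249622658) (nat_lit 76) (nat_lit 149496067648) (nat_lit 35) (nat_lit 5) (nat_lit 38) (nat_lit 5) (nat_lit 36) (nat_lit 5) (nat_lit 351) (nat_lit 316) (nat_lit 113)) (XT.lf (nat_lit 0) (nat_lit 41201493393) (nat_lit 304) (nat_lit 110411058557) (nat_lit 76) (nat_lit 28548181177) (nat_lit 32) (nat_lit 5) (nat_lit 36) (nat_lit 5) (nat_lit 33) (nat_lit 5) (nat_lit 352) (nat_lit 316) (nat_lit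 112))))) (XT.nd (nat_lit 156) (nat_lit 228) (nat_lit 0) (XT.nd (nat_lit 78) (nat_lit 152) (nat_lit 0) (XT.lf (nat_lit 0) (nat_lit 72003081367) (nat_lit 304) (nat_lit 30545153908) (nat_lit 76) (nat_lit 83841979174) (nat_lit 32) (nat_lit 5) (nat_lit 36) (nat_lit 5) (nat_lit 33) (nat_lit 5) (nat_lit 353) (nat_lit 316) (nat_lit 111)) (XT.lf (nat_lit 0) (nat_lit 55076464968) (nat_lit 152) (nat_lit 50127936671) (nat_lit 228) (nat_lit 87683785877) (nat_lit 30) (nat_lit 5) (nat_lit 32) (nat_lit 5) (nat_lit 33) (nat_lit 5) (nat_lit 354) (nat_lit 316) (nat_lit 110))) (XT.nd (nat_lit 78) (nat_lit 228) (nat_lit 0) (XT.lf (nat_lit 0) (nat_lit 140668035660) (nat_lit 228) (nat_lit 53731138823) (nat_lit 76) (nat_lit 5281772678) (nat_lit 30) (nat_lit 5) (nat_lit 33) (nat_lit 5) (nat_lit 31) (nat_lit 5) (nat_lit 355) (nat_lit 316) (nat_lit 109)) (XT.nd (nat_lit 78) (nat_lit 76) (nat_lit 0) (XT.lf (nat_lit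 0) (nat_lit 34846657062) (nat_lit 152) (nat_lit 144423788139) (nat_lit 228) (nat_lit 27474620192) (nat_lit 28) (nat_lit 5) (nat_lit 30) (nat_lit 5) (nat_lit 31) (nat_lit 5) (nat_lit 356) (nat_lit 316) (nat_lit 108)) (XT.lf (nat_lit 0) (nat_lit 6384703849) (nat_lit 228) (nat_lit 84501467867) (nat_lit 76) (nat_lit 123225582212) (nat_lit 27) (nat_lit 5) (nat_lit 30) (nat_lit 5) (nat_lit 28) (nat_lit 5) (nat_lit 357) (nat_lit 316) (nat_lit 107))))))) (XT.nd (nat_lit 37440) (nat_lit 0) (nat_lit 4408) (XT.nd (nat_lit 390) (nat_lit 304) (nat_lit 0) (XT.nd (nat_lit 156) (nat_lit 152) (nat_lit 0) (XT.nd (nat_lit 78) (nat_lit 0) (nat_lit 0) (XT.lf (nat_lit 0) (nat_lit 7039893467) (nat_lit 152) (nat_lit 34083468430) (nat_lit 228) (nat_lit 180695410307) (nat_lit 25) (nat_lit 5) (nat_lit 27) (nat_lit 5) (nat_lit 28) (nat_lit 5) (nat_lit 358) (nat_lit 316) (nat_lit 106)) (XT.lf (nat_lit 0) (nat_lit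 79452325565) (nat_lit 228) (nat_lit 124170424780) (nat_lit 76) (nat_lit 26195722656) (nat_lit 25) (nat_lit 5) (nat_lit 28) (nat_lit 5) (nat_lit 26) (nat_lit 5) (nat_lit 359) (nat_lit 316) (nat_lit 105))) (XT.nd (nat_lit 78) (nat_lit 152) (nat_lit 0) (XT.lf (nat_lit 0) (nat_lit 120256278853) (nat_lit 228) (nat_lit 29590623470) (nat_lit 76) (nat_lit 88343329673) (nat_lit 25) (nat_lit 5) (nat_lit 28) (nat_lit 5) (nat_lit 26) (nat_lit 5) (nat_lit 360) (nat_lit 316) (nat_lit 104)) (XT.nd (nat_lit 78) (nat_lit 0) (nat_lit 0) (XT.lf (nat_lit 0) (nat_lit 72023040752) (nat_lit 152) (nat_lit 92201676329) (nat_lit 228) (nat_lit 82699647716) (nat_lit 23) (nat_lit 5) (nat_lit 25) (nat_lit 5) (nat_lit 26) (nat_lit 5) (nat_lit 361) (nat_lit 316) (nat_lit 103)) (XT.lf (nat_lit 0) (nat_lit 179744398636) (nat_lit 152) (nat_lit 31148120300) (nat_lit 228) (nat_lit 45177638428) (nat_lit 23) (nat_lit 5) (nat_lit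 25) (nat_lit 5) (nat_lit 26) (nat_lit 5) (nat_lit 362) (nat_lit 316) (nat_lit 102))))) (XT.nd (nat_lit 156) (nat_lit 152) (nat_lit 0) (XT.nd (nat_lit 78) (nat_lit 76) (nat_lit 0) (XT.lf (nat_lit 0) (nat_lit 27545337233) (nat_lit 76) (nat_lit 233292819529) (nat_lit 152) (nat_lit 4787860701) (nat_lit 22) (nat_lit 5) (nat_lit 23) (nat_lit 5) (nat_lit 24) (nat_lit 4) (nat_lit 363) (nat_lit 316) (nat_lit 101)) (XT.lf (nat_lit 0) (nat_lit 38241533334) (nat_lit 152) (nat_lit 137454688025) (nat_lit 76) (nat_lit 99842868242) (nat_lit 21) (nat_lit 5) (nat_lit 23) (nat_lit 5) (nat_lit 22) (nat_lit 5) (nat_lit 364) (nat_lit 316) (nat_lit 100))) (XT.nd (nat_lit 78) (nat_lit 152) (nat_lit 0) (XT.lf (nat_lit 0) (nat_lit 83261320601) (nat_lit 152) (nat_lit 31876174526) (nat_lit 76) (nat_lit 170806404564) (nat_lit 21) (nat_lit 5) (nat_lit 23) (nat_lit 5) (nat_lit 22) (nat_lit 5) (nat_lit 365) (nat_lit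 316) (nat_lit 99)) (XT.nd (nat_lit 78) (nat_lit 0) (nat_lit 0) (XT.lf (nat_lit 0) (nat_lit 81592457807) (nat_lit 152) (nat_lit 50213361633) (nat_lit 228) (nat_lit 164999444899) (nat_lit 19) (nat_lit 5) (nat_lit 21) (nat_lit 5) (nat_lit 22) (nat_lit 5) (nat_lit 366) (nat_lit 316) (nat_lit 98)) (XT.lf (nat_lit 0) (nat_lit 183606427421) (nat_lit 228) (nat_lit 106631000418) (nat_lit 76) (nat_lit 17930825327) (nat_lit 19) (nat_lit 5) (nat_lit 22) (nat_lit 5) (nat_lit 20) (nat_lit 4) (nat_lit 367) (nat_lit 316) (nat_lit 97)))))) (XT.nd (nat_lit 390) (nat_lit 532) (nat_lit 0) (XT.nd (nat_lit 156) (nat_lit 0) (nat_lit 0) (XT.nd (nat_lit 78) (nat_lit 0) (nat_lit 0) (XT.lf (nat_lit 0) (nat_lit 12215809463) (nat_lit 0) (nat_lit 12215809463) (nat_lit 684) (nat_lit 8588964520) (nat_lit 84) (nat_lit 5) (nat_lit 84) (nat_lit 3) (nat_lit 93) (nat_lit 3) (nat_lit 317) (nat_lit 317) (nat_lit 146)) (XT.lf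 (nat_lit 0) (nat_lit 50184116390) (nat_lit 684) (nat_lit 12212261811) (nat_lit 760) (nat_lit 5290820556) (nat_lit 84) (nat_lit 5) (nat_lit 93) (nat_lit 3) (nat_lit 94) (nat_lit 5) (nat_lit 318) (nat_lit 317) (nat_lit 145))) (XT.nd (nat_lit 78) (nat_lit 0) (nat_lit 0) (XT.lf (nat_lit 76) (nat_lit 18857425076) (nat_lit 0) (nat_lit 33407662619) (nat_lit 760) (nat_lit 17115744148) (nat_lit 85) (nat_lit 5) (nat_lit 84) (nat_lit 5) (nat_lit 94) (nat_lit 5) (nat_lit 319) (nat_lit 317) (nat_lit 144)) (XT.nd (nat_lit 78) (nat_lit 0) (nat_lit 76) (XT.lf (nat_lit 76) (nat_lit 51904085935) (nat_lit 0) (nat_lit 2751989982) (nat_lit 760) (nat_lit 16492774230) (nat_lit 85) (nat_lit 5) (nat_lit 84) (nat_lit 5) (nat_lit 94) (nat_lit 5) (nat_lit 320) (nat_lit 317) (nat_lit 143)) (XT.lf (nat_lit 76) (nat_lit 13572099802) (nat_lit 0) (nat_lit 44265191710) (nat_lit 760) (nat_lit 15134445837) (nat_lit 86)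 (nat_lit 5) (nat_lit 85) (nat_lit 5) (nat_lit 95) (nat_lit 5) (nat_lit 321) (nat_lit 317) (nat_lit 142))))) (XT.nd (nat_lit 234) (nat_lit 608) (nat_lit 0) (XT.nd (nat_lit 78) (nat_lit 0) (nat_lit 76) (XT.lf (nat_lit 76) (nat_lit 48650826941) (nat_lit 0) (nat_lit 12896271444) (nat_lit 760) (nat_lit 13320195793) (nat_lit 86) (nat_lit 5) (nat_lit 85) (nat_lit 5) (nat_lit 95) (nat_lit 5) (nat_lit 322) (nat_lit 317) (nat_lit 141)) (XT.nd (nat_lit 78) (nat_lit 0) (nat_lit 0) (XT.lf (nat_lit 76) (nat_lit 8587283676) (nat_lit 0) (nat_lit 57301346234) (nat_lit 760) (nat_lit 10946688932) (nat_lit 87) (nat_lit 5) (nat_lit 86) (nat_lit 5) (nat_lit 96) (nat_lit 5) (nat_lit 323) (nat_lit 317) (nat_lit 140)) (XT.lf (nat_lit 76) (nat_lit 45822475622) (nat_lit 0) (nat_lit 25276047316) (nat_lit 760) (nat_lit 7770659182) (nat_lit 87) (nat_lit 5) (nat_lit 86) (nat_lit 5) (nat_lit 96) (nat_lit 5) (nat_lit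 324) (nat_lit 317) (nat_lit 139)))) (XT.nd (nat_lit 78) (nat_lit 760) (nat_lit 0) (XT.lf (nat_lit 76) (nat_lit 3908890693) (nat_lit 0) (nat_lit 72850752151) (nat_lit 760) (nat_lit 4235560656) (nat_lit 88) (nat_lit 5) (nat_lit 87) (nat_lit 5) (nat_lit 97) (nat_lit 5) (nat_lit 325) (nat_lit 317) (nat_lit 138)) (XT.nd (nat_lit 78) (nat_lit 0) (nat_lit 0) (XT.lf (nat_lit 0) (nat_lit 475593161) (nat_lit 760) (nat_lit 39755874253) (nat_lit 836) (nat_lit 42947341844) (nat_lit 77) (nat_lit 5) (nat_lit 87) (nat_lit 5) (nat_lit 88) (nat_lit 5) (nat_lit 326) (nat_lit 317) (nat_lit 137)) (XT.lf (nat_lit 0) (nat_lit 5279333756) (nat_lit 760) (nat_lit 628869663) (nat_lit 836) (nat_lit 79559952866) (nat_lit 77) (nat_lit 5) (nat_lit 87) (nat_lit 5) (nat_lit 88) (nat_lit 5) (nat_lit 327) (nat_lit 317) (nat_lit 136))))))))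
noncomputable def xc238 : XT := (XT.nd (nat_lit 1560) (nat_lit 1672) (nat_lit 0) (XT.nd (nat_lit 780) (nat_lit 1368) (nat_lit 0) (XT.nd (nat_lit 390) (nat_lit 608) (nat_lit 0) (XT.nd (nat_lit 156) (nat_lit 836) (nat_lit 0) (XT.nd (nat_lit 78) (nat_lit 0) (nat_lit 0) (XT.lf (nat_lit 0) (nat_lit 11456277602) (nat_lit 760) (nat_lit 46528927523) (nat_lit 76) (nat_lit 29830116004) (nat_lit 78) (nat_lit 5) (nat_lit 88) (nat_lit 5) (nat_lit 79) (nat_lit 5) (nat_lit 328) (nat_lit 317) (nat_lit 135)) (XT.lf (nat_lit 0) (nat_lit 18049173138) (nat_lit 760) (nat_lit 5057608299) (nat_lit 76) (nat_lit 67167708764) (nat_lit 78) (nat_lit 5) (nat_lit 88) (nat_lit 5) (nat_lit 79) (nat_lit 5) (nat_lit 329) (nat_lit 317) (nat_lit 134))) (XT.nd (nat_lit 78) (nat_lit 380) (nat_lit 0) (XT.lf (nat_lit 0) (nat_lit 25813112313) (nat_lit 532) (nat_lit 53287472302) (nat_lit 76) (nat_lit 13713964327) (nat_lit 72)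 (nat_lit 5) (nat_lit 79) (nat_lit 5) (nat_lit 73) (nat_lit 5) (nat_lit 330) (nat_lit 317) (nat_lit 133)) (XT.nd (nat_lit 78) (nat_lit 380) (nat_lit 0) (XT.lf (nat_lit 0) (nat_lit 34430575879) (nat_lit 532) (nat_lit 9341462019) (nat_lit 76) (nat_lit 51686307451) (nat_lit 72) (nat_lit 5) (nat_lit 79) (nat_lit 5) (nat_lit 73) (nat_lit 5) (nat_lit 331) (nat_lit 317) (nat_lit 132)) (XT.lf (nat_lit 0) (nat_lit 38018177627) (nat_lit 380) (nat_lit 6053801051) (nat_lit 456) (nat_lit 54132700643) (nat_lit 67) (nat_lit 5) (nat_lit 72) (nat_lit 5) (nat_lit 73) (nat_lit 5) (nat_lit 332) (nat_lit 317) (nat_lit 131))))) (XT.nd (nat_lit 156) (nat_lit 304) (nat_lit 0) (XT.nd (nat_lit 78) (nat_lit 304) (nat_lit 0) (XT.lf (nat_lit 0) (nat_lit 54879574552) (nat_lit 456) (nat_lit 13537222414) (nat_lit 76) (nat_lit 32637327879) (nat_lit 67) (nat_lit 5) (nat_lit 73) (nat_lit 5) (nat_lit 68) (nat_lit 5) (nat_lit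 333) (nat_lit 317) (nat_lit 130)) (XT.lf (nat_lit 0) (nat_lit 36513453075) (nat_lit 304) (nat_lit 30382952660) (nat_lit 380) (nat_lit 37116195085) (nat_lit 63) (nat_lit 5) (nat_lit 67) (nat_lit 5) (nat_lit 68) (nat_lit 5) (nat_lit 334) (nat_lit 317) (nat_lit 129))) (XT.nd (nat_lit 78) (nat_lit 304) (nat_lit 0) (XT.lf (nat_lit 0) (nat_lit 79895788672) (nat_lit 380) (nat_lit 17724293275) (nat_lit 76) (nat_lit 9479834042) (nat_lit 63) (nat_lit 5) (nat_lit 68) (nat_lit 5) (nat_lit 64) (nat_lit 5) (nat_lit 335) (nat_lit 317) (nat_lit 128)) (XT.nd (nat_lit 78) (nat_lit 0) (nat_lit 0) (XT.lf (nat_lit 0) (nat_lit 35166288500) (nat_lit 304) (nat_lit 59425549026) (nat_lit 380) (nat_lit 15697425415) (nat_lit 59) (nat_lit 5) (nat_lit 63) (nat_lit 5) (nat_lit 64) (nat_lit 5) (nat_lit 336) (nat_lit 317) (nat_lit 127)) (XT.lf (nat_lit 0) (nat_lit 91316279392) (nat_lit 304) (nat_lit 19006163295) (nat_lit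 380) (nat_lit 3300647682) (nat_lit 59) (nat_lit 5) (nat_lit 63) (nat_lit 5) (nat_lit 64) (nat_lit 5) (nat_lit 337) (nat_lit 317) (nat_lit 126)))))) (XT.nd (nat_lit 390) (nat_lit 532) (nat_lit 0) (XT.nd (nat_lit 156) (nat_lit 532) (nat_lit 0) (XT.nd (nat_lit 78) (nat_lit 0) (nat_lit 0) (XT.lf (nat_lit 0) (nat_lit 10313904438) (nat_lit 304) (nat_lit 83377447329) (nat_lit 76) (nat_lit 23379228112) (nat_lit 55) (nat_lit 5) (nat_lit 59) (nat_lit 5) (nat_lit 56) (nat_lit 5) (nat_lit 338) (nat_lit 317) (nat_lit 125)) (XT.lf (nat_lit 0) (nat_lit 25193415020) (nat_lit 304) (nat_lit 27776389283) (nat_lit 76) (nat_lit 67683177110) (nat_lit 55) (nat_lit 5) (nat_lit 59) (nat_lit 5) (nat_lit 56) (nat_lit 5) (nat_lit 339) (nat_lit 317) (nat_lit 124))) (XT.nd (nat_lit 78) (nat_lit 228) (nat_lit 0) (XT.lf (nat_lit 0) (nat_lit 31616188450) (nat_lit 304) (nat_lit 9693956763) (nat_lit 380) (nat_lit 83079696282)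 (nat_lit 51) (nat_lit 5) (nat_lit 55) (nat_lit 5) (nat_lit 56) (nat_lit 5) (nat_lit 340) (nat_lit 317) (nat_lit 123)) (XT.nd (nat_lit 78) (nat_lit 228) (nat_lit 0) (XT.lf (nat_lit 0) (nat_lit 59268556806) (nat_lit 380) (nat_lit 33913556523) (nat_lit 76) (nat_lit 35079639652) (nat_lit 51) (nat_lit 5) (nat_lit 56) (nat_lit 5) (nat_lit 52) (nat_lit 5) (nat_lit 341) (nat_lit 317) (nat_lit 122)) (XT.lf (nat_lit 0) (nat_lit 28647075704) (nat_lit 228) (nat_lit 50083645468) (nat_lit 304) (nat_lit 53566247872) (nat_lit 48) (nat_lit 5) (nat_lit 51) (nat_lit 5) (nat_lit 52) (nat_lit 5) (nat_lit 342) (nat_lit 317) (nat_lit 121))))) (XT.nd (nat_lit 156) (nat_lit 304) (nat_lit 0) (XT.nd (nat_lit 78) (nat_lit 228) (nat_lit 0) (XT.lf (nat_lit 0) (nat_lit 95512711572) (nat_lit 228) (nat_lit 4227288183) (nat_lit 304) (nat_lit 36765246439) (nat_lit 48) (nat_lit 5) (nat_lit 51) (nat_lit 5) (nat_lit 52)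 (nat_lit 5) (nat_lit 343) (nat_lit 317) (nat_lit 120)) (XT.lf (nat_lit 0) (nat_lit 24908759359) (nat_lit 228) (nat_lit 97965300336) (nat_lit 304) (nat_lit 17996162192) (nat_lit 45) (nat_lit 5) (nat_lit 48) (nat_lit 5) (nat_lit 49) (nat_lit 5) (nat_lit 344) (nat_lit 317) (nat_lit 119))) (XT.nd (nat_lit 78) (nat_lit 228) (nat_lit 0) (XT.lf (nat_lit 0) (nat_lit 2431191846) (nat_lit 304) (nat_lit 49998277618) (nat_lit 76) (nat_lit 92983911920) (nat_lit 44) (nat_lit 5) (nat_lit 48) (nat_lit 5) (nat_lit 45) (nat_lit 5) (nat_lit 345) (nat_lit 317) (nat_lit 118)) (XT.nd (nat_lit 78) (nat_lit 0) (nat_lit 0) (XT.lf (nat_lit 0) (nat_lit 19594794742) (nat_lit 228) (nat_lit 3985955920) (nat_lit 304) (nat_lit 126572916414) (nat_lit 41) (nat_lit 5) (nat_lit 44) (nat_lit 5) (nat_lit 45) (nat_lit 5) (nat_lit 346) (nat_lit 317) (nat_lit 117)) (XT.lf (nat_lit 0) (nat_lit 47380040515) (nat_lit 304) (nat_lit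 61431502383) (nat_lit 76) (nat_lit 46239811958) (nat_lit 41) (nat_lit 5) (nat_lit 45) (nat_lit 5) (nat_lit 42) (nat_lit 5) (nat_lit 347) (nat_lit 317) (nat_lit 116))))))) (XT.nd (nat_lit 780) (nat_lit 684) (nat_lit 0) (XT.nd (nat_lit 390) (nat_lit 532) (nat_lit 0) (XT.nd (nat_lit 156) (nat_lit 228) (nat_lit 0) (XT.nd (nat_lit 78) (nat_lit 0) (nat_lit 0) (XT.lf (nat_lit 0) (nat_lit 11453066448) (nat_lit 228) (nat_lit 61160103548) (nat_lit 304) (nat_lit 87568563709) (nat_lit 38) (nat_lit 5) (nat_lit 41) (nat_lit 5) (nat_lit 42) (nat_lit 5) (nat_lit 348) (nat_lit 317) (nat_lit 115)) (XT.lf (nat_lit 0) (nat_lit 90114237419) (nat_lit 228) (nat_lit 10033815270) (nat_lit 304) (nat_lit 65368574383) (nat_lit 38) (nat_lit 5) (nat_lit 41) (nat_lit 5) (nat_lit 42) (nat_lit 5) (nat_lit 349) (nat_lit 317) (nat_lit 114))) (XT.nd (nat_lit 78) (nat_lit 76) (nat_lit 0) (XT.lf (nat_lit 0) (nat_lit 938373103)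 (nat_lit 152) (nat_lit 128817172894) (nat_lit 228) (nat_lit 41327926184) (nat_lit 36) (nat_lit 5) (nat_lit 38) (nat_lit 5) (nat_lit 39) (nat_lit 5) (nat_lit 350) (nat_lit 317) (nat_lit 113)) (XT.nd (nat_lit 78) (nat_lit 76) (nat_lit 0) (XT.lf (nat_lit 0) (nat_lit 83543670732) (nat_lit 152) (nat_lit 78738297565) (nat_lit 228) (nat_lit 14574763908) (nat_lit 36) (nat_lit 5) (nat_lit 38) (nat_lit 5) (nat_lit 39) (nat_lit 5) (nat_lit 351) (nat_lit 317) (nat_lit 112)) (XT.lf (nat_lit 0) (nat_lit 13083208798) (nat_lit 228) (nat_lit 12850812629) (nat_lit 76) (nat_lit 156974095442) (nat_lit 35) (nat_lit 5) (nat_lit 38) (nat_lit 5) (nat_lit 36) (nat_lit 5) (nat_lit 352) (nat_lit 317) (nat_lit 111))))) (XT.nd (nat_lit 156) (nat_lit 304) (nat_lit 0) (XT.nd (nat_lit 78) (nat_lit 0) (nat_lit 0) (XT.lf (nat_lit 0) (nat_lit 43269105412) (nat_lit 304) (nat_lit 115920175053) (nat_lit 76) (nat_lit 29979102452)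 (nat_lit 32) (nat_lit 5) (nat_lit 36) (nat_lit 5) (nat_lit 33) (nat_lit 5) (nat_lit 353) (nat_lit 317) (nat_lit 110)) (XT.lf (nat_lit 0) (nat_lit 75610413862) (nat_lit 304) (nat_lit 32061519763) (nat_lit 76) (nat_lit 88037423101) (nat_lit 32) (nat_lit 5) (nat_lit 36) (nat_lit 5) (nat_lit 33) (nat_lit 5) (nat_lit 354) (nat_lit 317) (nat_lit 109))) (XT.nd (nat_lit 78) (nat_lit 152) (nat_lit 0) (XT.lf (nat_lit 0) (nat_lit 57841004382) (nat_lit 152) (nat_lit 52630621247) (nat_lit 228) (nat_lit 92060611999) (nat_lit 30) (nat_lit 5) (nat_lit 32) (nat_lit 5) (nat_lit 33) (nat_lit 5) (nat_lit 355) (nat_lit 317) (nat_lit 108)) (XT.nd (nat_lit 78) (nat_lit 152) (nat_lit 0) (XT.lf (nat_lit 0) (nat_lit 147708163030) (nat_lit 228) (nat_lit 56407202934) (nat_lit 76) (nat_lit 5549283639) (nat_lit 30) (nat_lit 5) (nat_lit 33) (nat_lit 5) (nat_lit 31) (nat_lit 5) (nat_lit 356) (nat_lit 317) (nat_lit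 107)) (XT.lf (nat_lit 0) (nat_lit 36599313506) (nat_lit 152) (nat_lit 151641220455) (nat_lit 228) (nat_lit 28841448149) (nat_lit 28) (nat_lit 5) (nat_lit 30) (nat_lit 5) (nat_lit 31) (nat_lit 5) (nat_lit 357) (nat_lit 317) (nat_lit 106)))))) (XT.nd (nat_lit 390) (nat_lit 304) (nat_lit 0) (XT.nd (nat_lit 156) (nat_lit 152) (nat_lit 0) (XT.nd (nat_lit 78) (nat_lit 152) (nat_lit 0) (XT.lf (nat_lit 0) (nat_lit 6710302957) (nat_lit 228) (nat_lit 88716491387) (nat_lit 76) (nat_lit 129390221622) (nat_lit 27) (nat_lit 5) (nat_lit 30) (nat_lit 5) (nat_lit 28) (nat_lit 5) (nat_lit 358) (nat_lit 317) (nat_lit 105)) (XT.lf (nat_lit 0) (nat_lit 7401775919) (nat_lit 152) (nat_lit 35783969321) (nat_lit 228) (nat_lit 189723647705) (nat_lit 25) (nat_lit 5) (nat_lit 27) (nat_lit 5) (nat_lit 28) (nat_lit 5) (nat_lit 359) (nat_lit 317) (nat_lit 104))) (XT.nd (nat_lit 78) (nat_lit 152) (nat_lit 0) (XT.lf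 (nat_lit 0) (nat_lit 83430915734) (nat_lit 228) (nat_lit 130369280963) (nat_lit 76) (nat_lit 27508894490) (nat_lit 25) (nat_lit 5) (nat_lit 28) (nat_lit 5) (nat_lit 26) (nat_lit 5) (nat_lit 360) (nat_lit 317) (nat_lit 103)) (XT.nd (nat_lit 78) (nat_lit 152) (nat_lit 0) (XT.lf (nat_lit 0) (nat_lit 126274782216) (nat_lit 228) (nat_lit 31060949829) (nat_lit 76) (nat_lit 92763720634) (nat_lit 25) (nat_lit 5) (nat_lit 28) (nat_lit 5) (nat_lit 26) (nat_lit 5) (nat_lit 361) (nat_lit 317) (nat_lit 102)) (XT.lf (nat_lit 0) (nat_lit 75633249140) (nat_lit 152) (nat_lit 96808263686) (nat_lit 228) (nat_lit 86828786078) (nat_lit 23) (nat_lit 5) (nat_lit 25) (nat_lit 5) (nat_lit 26) (nat_lit 5) (nat_lit 362) (nat_lit 317) (nat_lit 101))))) (XT.nd (nat_lit 234) (nat_lit 152) (nat_lit 0) (XT.nd (nat_lit 78) (nat_lit 152) (nat_lit 0) (XT.lf (nat_lit 0) (nat_lit 188740243664) (nat_lit 152) (nat_lit 32702196354)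 (nat_lit 228) (nat_lit 47430954611) (nat_lit 23) (nat_lit 5) (nat_lit 25) (nat_lit 5) (nat_lit 26) (nat_lit 5) (nat_lit 363) (nat_lit 317) (nat_lit 100)) (XT.nd (nat_lit 78) (nat_lit 76) (nat_lit 0) (XT.lf (nat_lit 0) (nat_lit 28931305163) (nat_lit 76) (nat_lit 244953987785) (nat_lit 152) (nat_lit 5021758403) (nat_lit 22) (nat_lit 5) (nat_lit 23) (nat_lit 5) (nat_lit 24) (nat_lit 4) (nat_lit 364) (nat_lit 317) (nat_lit 99)) (XT.lf (nat_lit 0) (nat_lit 40158676142) (nat_lit 152) (nat_lit 144318963135) (nat_lit 76) (nat_lit 104838146448) (nat_lit 21) (nat_lit 5) (nat_lit 23) (nat_lit 5) (nat_lit 22) (nat_lit 5) (nat_lit 365) (nat_lit 317) (nat_lit 98)))) (XT.nd (nat_lit 78) (nat_lit 152) (nat_lit 0) (XT.lf (nat_lit 0) (nat_lit 87429211527) (nat_lit 152) (nat_lit 33461926784) (nat_lit 76) (nat_lit 179349710310) (nat_lit 21) (nat_lit 5) (nat_lit 23) (nat_lit 5) (nat_lit 22) (nat_lit 5) (nat_lit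 366) (nat_lit 317) (nat_lit 97)) (XT.nd (nat_lit 36816) (nat_lit 0) (nat_lit 4940) (XT.lf (nat_lit 0) (nat_lit 85680007223) (nat_lit 152) (nat_lit 52720822083) (nat_lit 228) (nat_lit 173244457724) (nat_lit 19) (nat_lit 5) (nat_lit 21) (nat_lit 5) (nat_lit 22) (nat_lit 5) (nat_lit 367) (nat_lit 317) (nat_lit 96)) (XT.lf (nat_lit 0) (nat_lit 12833471832) (nat_lit 0) (nat_lit 12833471832) (nat_lit 684) (nat_lit 9003949841) (nat_lit 84) (nat_lit 5) (nat_lit 84) (nat_lit 3) (nat_lit 93) (nat_lit 3) (nat_lit 318) (nat_lit 318) (nat_lit 144))))))))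
noncomputable def xc239 : XT := (XT.nd (nat_lit 1560) (nat_lit 2432) (nat_lit 0) (XT.nd (nat_lit 780) (nat_lit 1368) (nat_lit 0) (XT.nd (nat_lit 390) (nat_lit 532) (nat_lit 0) (XT.nd (nat_lit 156) (nat_lit 0) (nat_lit 0) (XT.nd (nat_lit 78) (nat_lit 0) (nat_lit 0) (XT.lf (nat_lit 0) (nat_lit 52719296496) (nat_lit 684) (nat_lit 12808211473) (nat_lit 760) (nat_lit 5542691199) (nat_lit 84) (nat_lit 5) (nat_lit 93) (nat_lit 3) (nat_lit 94) (nat_lit 5) (nat_lit 319) (nat_lit 318) (nat_lit 143)) (XT.lf (nat_lit 76) (nat_lit 19814723252) (nat_lit 0) (nat_lit 35088581490) (nat_lit 760) (nat_lit 17945262646) (nat_lit 85) (nat_lit 5) (nat_lit 84) (nat_lit 5) (nat_lit 94) (nat_lit 5) (nat_lit 320) (nat_lit 318) (nat_lit 142))) (XT.nd (nat_lit 78) (nat_lit 0) (nat_lit 76) (XT.lf (nat_lit 76) (nat_lit 54513030157) (nat_lit 0) (nat_lit 2899623518) (nat_lit 760) (nat_lit 17292395123) (nat_lit 85) (nat_lit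 5) (nat_lit 84) (nat_lit 5) (nat_lit 94) (nat_lit 5) (nat_lit 321) (nat_lit 318) (nat_lit 141)) (XT.nd (nat_lit 78) (nat_lit 0) (nat_lit 0) (XT.lf (nat_lit 76) (nat_lit 14265601032) (nat_lit 0) (nat_lit 46486280297) (nat_lit 760) (nat_lit 15867254093) (nat_lit 86) (nat_lit 5) (nat_lit 85) (nat_lit 5) (nat_lit 95) (nat_lit 5) (nat_lit 322) (nat_lit 318) (nat_lit 140)) (XT.lf (nat_lit 76) (nat_lit 51097555184) (nat_lit 0) (nat_lit 13548541209) (nat_lit 760) (nat_lit 13963430311) (nat_lit 86) (nat_lit 5) (nat_lit 85) (nat_lit 5) (nat_lit 95) (nat_lit 5) (nat_lit 323) (nat_lit 318) (nat_lit 139))))) (XT.nd (nat_lit 156) (nat_lit 684) (nat_lit 0) (XT.nd (nat_lit 78) (nat_lit 0) (nat_lit 0) (XT.lf (nat_lit 76) (nat_lit 9031834392) (nat_lit 0) (nat_lit 60171965715) (nat_lit 760) (nat_lit 11472200096) (nat_lit 87) (nat_lit 5) (nat_lit 86) (nat_lit 5) (nat_lit 96) (nat_lit 5) (nat_lit 324) (nat_lit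 318) (nat_lit 138)) (XT.lf (nat_lit 76) (nat_lit 48128062766) (nat_lit 0) (nat_lit 26545137462) (nat_lit 760) (nat_lit 8138408063) (nat_lit 87) (nat_lit 5) (nat_lit 86) (nat_lit 5) (nat_lit 96) (nat_lit 5) (nat_lit 325) (nat_lit 318) (nat_lit 137))) (XT.nd (nat_lit 78) (nat_lit 760) (nat_lit 0) (XT.lf (nat_lit 76) (nat_lit 4119662812) (nat_lit 0) (nat_lit 76496933468) (nat_lit 760) (nat_lit 4427375614) (nat_lit 88) (nat_lit 5) (nat_lit 87) (nat_lit 5) (nat_lit 97) (nat_lit 5) (nat_lit 326) (nat_lit 318) (nat_lit 136)) (XT.nd (nat_lit 78) (nat_lit 0) (nat_lit 0) (XT.lf (nat_lit 0) (nat_lit 517776755) (nat_lit 760) (nat_lit 41728422550) (nat_lit 836) (nat_lit 45090591020) (nat_lit 77) (nat_lit 5) (nat_lit 87) (nat_lit 5) (nat_lit 88) (nat_lit 5) (nat_lit 327) (nat_lit 318) (nat_lit 135)) (XT.lf (nat_lit 0) (nat_lit 5560828002) (nat_lit 760) (nat_lit 645793703) (nat_lit 836) (nat_lit 83534028685)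 (nat_lit 77) (nat_lit 5) (nat_lit 87) (nat_lit 5) (nat_lit 88) (nat_lit 5) (nat_lit 328) (nat_lit 318) (nat_lit 134)))))) (XT.nd (nat_lit 390) (nat_lit 608) (nat_lit 0) (XT.nd (nat_lit 156) (nat_lit 836) (nat_lit 0) (XT.nd (nat_lit 78) (nat_lit 0) (nat_lit 0) (XT.lf (nat_lit 0) (nat_lit 12045966355) (nat_lit 760) (nat_lit 48840166215) (nat_lit 76) (nat_lit 31319075316) (nat_lit 78) (nat_lit 5) (nat_lit 88) (nat_lit 5) (nat_lit 79) (nat_lit 5) (nat_lit 329) (nat_lit 318) (nat_lit 133)) (XT.lf (nat_lit 0) (nat_lit 18967703103) (nat_lit 760) (nat_lit 5296005206) (nat_lit 76) (nat_lit 70523668976) (nat_lit 78) (nat_lit 5) (nat_lit 88) (nat_lit 5) (nat_lit 79) (nat_lit 5) (nat_lit 330) (nat_lit 318) (nat_lit 132))) (XT.nd (nat_lit 78) (nat_lit 380) (nat_lit 0) (XT.lf (nat_lit 0) (nat_lit 27119276454) (nat_lit 532) (nat_lit 55936767379) (nat_lit 76) (nat_lit 14398424882) (nat_lit 72) (nat_lit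 5) (nat_lit 79) (nat_lit 5) (nat_lit 73) (nat_lit 5) (nat_lit 331) (nat_lit 318) (nat_lit 131)) (XT.nd (nat_lit 78) (nat_lit 380) (nat_lit 0) (XT.lf (nat_lit 0) (nat_lit 36166874697) (nat_lit 532) (nat_lit 9794174607) (nat_lit 76) (nat_lit 54269444098) (nat_lit 72) (nat_lit 5) (nat_lit 79) (nat_lit 5) (nat_lit 73) (nat_lit 5) (nat_lit 332) (nat_lit 318) (nat_lit 130)) (XT.lf (nat_lit 0) (nat_lit 39933215401) (nat_lit 380) (nat_lit 6356649493) (nat_lit 456) (nat_lit 56824304778) (nat_lit 67) (nat_lit 5) (nat_lit 72) (nat_lit 5) (nat_lit 73) (nat_lit 5) (nat_lit 333) (nat_lit 318) (nat_lit 129))))) (XT.nd (nat_lit 156) (nat_lit 304) (nat_lit 0) (XT.nd (nat_lit 78) (nat_lit 304) (nat_lit 0) (XT.lf (nat_lit 0) (nat_lit 57637157859) (nat_lit 456) (nat_lit 14199916887) (nat_lit 76) (nat_lit 34269048254) (nat_lit 67) (nat_lit 5) (nat_lit 73) (nat_lit 5) (nat_lit 68) (nat_lit 5) (nat_lit 334)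 (nat_lit 318) (nat_lit 128)) (XT.lf (nat_lit 0) (nat_lit 38353063882) (nat_lit 304) (nat_lit 31901336496) (nat_lit 380) (nat_lit 38958145234) (nat_lit 63) (nat_lit 5) (nat_lit 67) (nat_lit 5) (nat_lit 68) (nat_lit 5) (nat_lit 335) (nat_lit 318) (nat_lit 127))) (XT.nd (nat_lit 78) (nat_lit 304) (nat_lit 0) (XT.lf (nat_lit 0) (nat_lit 83903136469) (nat_lit 380) (nat_lit 18596592246) (nat_lit 76) (nat_lit 9954529888) (nat_lit 63) (nat_lit 5) (nat_lit 68) (nat_lit 5) (nat_lit 64) (nat_lit 5) (nat_lit 336) (nat_lit 318) (nat_lit 126)) (XT.nd (nat_lit 78) (nat_lit 0) (nat_lit 0) (XT.lf (nat_lit 0) (nat_lit 36938294172) (nat_lit 304) (nat_lit 62395309335) (nat_lit 380) (nat_lit 16469489812) (nat_lit 59) (nat_lit 5) (nat_lit 63) (nat_lit 5) (nat_lit 64) (nat_lit 5) (nat_lit 337) (nat_lit 318) (nat_lit 125)) (XT.lf (nat_lit 0) (nat_lit 95895132645) (nat_lit 304) (nat_lit 19955026562) (nat_lit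 380) (nat_lit 3453483043) (nat_lit 59) (nat_lit 5) (nat_lit 63) (nat_lit 5) (nat_lit 64) (nat_lit 5) (nat_lit 338) (nat_lit 318) (nat_lit 124))))))) (XT.nd (nat_lit 780) (nat_lit 1064) (nat_lit 0) (XT.nd (nat_lit 390) (nat_lit 532) (nat_lit 0) (XT.nd (nat_lit 156) (nat_lit 532) (nat_lit 0) (XT.nd (nat_lit 78) (nat_lit 0) (nat_lit 0) (XT.lf (nat_lit 0) (nat_lit 10841078555) (nat_lit 304) (nat_lit 87532519669) (nat_lit 76) (nat_lit 24549915917) (nat_lit 55) (nat_lit 5) (nat_lit 59) (nat_lit 5) (nat_lit 56) (nat_lit 5) (nat_lit 339) (nat_lit 318) (nat_lit 123)) (XT.lf (nat_lit 0) (nat_lit 26464018052) (nat_lit 304) (nat_lit 29152065864) (nat_lit 76) (nat_lit 71068980156) (nat_lit 55) (nat_lit 5) (nat_lit 59) (nat_lit 5) (nat_lit 56) (nat_lit 5) (nat_lit 340) (nat_lit 318) (nat_lit 122))) (XT.nd (nat_lit 78) (nat_lit 228) (nat_lit 0) (XT.lf (nat_lit 0) (nat_lit 33209928774) (nat_lit 304)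 (nat_lit 10176337284) (nat_lit 380) (nat_lit 87222517978) (nat_lit 51) (nat_lit 5) (nat_lit 55) (nat_lit 5) (nat_lit 56) (nat_lit 5) (nat_lit 341) (nat_lit 318) (nat_lit 121)) (XT.nd (nat_lit 78) (nat_lit 228) (nat_lit 0) (XT.lf (nat_lit 0) (nat_lit 62242127278) (nat_lit 380) (nat_lit 35596430295) (nat_lit 76) (nat_lit 36835757967) (nat_lit 51) (nat_lit 5) (nat_lit 56) (nat_lit 5) (nat_lit 52) (nat_lit 5) (nat_lit 342) (nat_lit 318) (nat_lit 120)) (XT.lf (nat_lit 0) (nat_lit 30092027025) (nat_lit 228) (nat_lit 52585086537) (nat_lit 304) (nat_lit 56234194014) (nat_lit 48) (nat_lit 5) (nat_lit 51) (nat_lit 5) (nat_lit 52) (nat_lit 5) (nat_lit 343) (nat_lit 318) (nat_lit 119))))) (XT.nd (nat_lit 156) (nat_lit 304) (nat_lit 0) (XT.nd (nat_lit 78) (nat_lit 228) (nat_lit 0) (XT.lf (nat_lit 0) (nat_lit 100300344804) (nat_lit 228) (nat_lit 4436041921) (nat_lit 304) (nat_lit 38593636141) (nat_lit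 48) (nat_lit 5) (nat_lit 51) (nat_lit 5) (nat_lit 52) (nat_lit 5) (nat_lit 344) (nat_lit 318) (nat_lit 118)) (XT.lf (nat_lit 0) (nat_lit 26166439172) (nat_lit 228) (nat_lit 102860493440) (nat_lit 304) (nat_lit 18886326360) (nat_lit 45) (nat_lit 5) (nat_lit 48) (nat_lit 5) (nat_lit 49) (nat_lit 5) (nat_lit 345) (nat_lit 318) (nat_lit 117))) (XT.nd (nat_lit 78) (nat_lit 228) (nat_lit 0) (XT.lf (nat_lit 0) (nat_lit 2561642176) (nat_lit 304) (nat_lit 52486224560) (nat_lit 76) (nat_lit 97635725109) (nat_lit 44) (nat_lit 5) (nat_lit 48) (nat_lit 5) (nat_lit 45) (nat_lit 5) (nat_lit 346) (nat_lit 318) (nat_lit 116)) (XT.nd (nat_lit 78) (nat_lit 0) (nat_lit 0) (XT.lf (nat_lit 0) (nat_lit 20586308402) (nat_lit 228) (nat_lit 4182130986) (nat_lit 304) (nat_lit 132892465081) (nat_lit 41) (nat_lit 5) (nat_lit 44) (nat_lit 5) (nat_lit 45) (nat_lit 5) (nat_lit 347) (nat_lit 318) (nat_lit 115)) (XT.lf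 (nat_lit 0) (nat_lit 49757328206) (nat_lit 304) (nat_lit 64491485951) (nat_lit 76) (nat_lit 48554681397) (nat_lit 41) (nat_lit 5) (nat_lit 45) (nat_lit 5) (nat_lit 42) (nat_lit 5) (nat_lit 348) (nat_lit 318) (nat_lit 114)))))) (XT.nd (nat_lit 390) (nat_lit 608) (nat_lit 0) (XT.nd (nat_lit 156) (nat_lit 228) (nat_lit 0) (XT.nd (nat_lit 78) (nat_lit 0) (nat_lit 0) (XT.lf (nat_lit 0) (nat_lit 12037124361) (nat_lit 228) (nat_lit 64214773301) (nat_lit 304) (nat_lit 91938507115) (nat_lit 38) (nat_lit 5) (nat_lit 41) (nat_lit 5) (nat_lit 42) (nat_lit 5) (nat_lit 349) (nat_lit 318) (nat_lit 113)) (XT.lf (nat_lit 0) (nat_lit 94630810805) (nat_lit 228) (nat_lit 10532329440) (nat_lit 304) (nat_lit 68628922360) (nat_lit 38) (nat_lit 5) (nat_lit 41) (nat_lit 5) (nat_lit 42) (nat_lit 5) (nat_lit 350) (nat_lit 318) (nat_lit 112))) (XT.nd (nat_lit 78) (nat_lit 76) (nat_lit 0) (XT.lf (nat_lit 0) (nat_lit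 996318729) (nat_lit 152) (nat_lit 135254542936) (nat_lit 228) (nat_lit 43386396182) (nat_lit 36) (nat_lit 5) (nat_lit 38) (nat_lit 5) (nat_lit 39) (nat_lit 5) (nat_lit 351) (nat_lit 318) (nat_lit 111)) (XT.nd (nat_lit 78) (nat_lit 76) (nat_lit 0) (XT.lf (nat_lit 0) (nat_lit 87731356145) (nat_lit 152) (nat_lit 82671889965) (nat_lit 228) (nat_lit 15295953236) (nat_lit 36) (nat_lit 5) (nat_lit 38) (nat_lit 5) (nat_lit 39) (nat_lit 5) (nat_lit 352) (nat_lit 318) (nat_lit 110)) (XT.lf (nat_lit 0) (nat_lit 13744328530) (nat_lit 228) (nat_lit 13483111843) (nat_lit 76) (nat_lit 164825724851) (nat_lit 35) (nat_lit 5) (nat_lit 38) (nat_lit 5) (nat_lit 36) (nat_lit 5) (nat_lit 353) (nat_lit 318) (nat_lit 109))))) (XT.nd (nat_lit 234) (nat_lit 228) (nat_lit 0) (XT.nd (nat_lit 78) (nat_lit 152) (nat_lit 0) (XT.lf (nat_lit 0) (nat_lit 45439397280) (nat_lit 304) (nat_lit 121705810625) (nat_lit 76)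 (nat_lit 31481243259) (nat_lit 32) (nat_lit 5) (nat_lit 36) (nat_lit 5) (nat_lit 33) (nat_lit 5) (nat_lit 354) (nat_lit 318) (nat_lit 108)) (XT.nd (nat_lit 78) (nat_lit 152) (nat_lit 0) (XT.lf (nat_lit 0) (nat_lit 79397445601) (nat_lit 304) (nat_lit 33654716531) (nat_lit 76) (nat_lit 92442328241) (nat_lit 32) (nat_lit 5) (nat_lit 36) (nat_lit 5) (nat_lit 33) (nat_lit 5) (nat_lit 355) (nat_lit 318) (nat_lit 107)) (XT.lf (nat_lit 0) (nat_lit 60742774479) (nat_lit 152) (nat_lit 55258785181) (nat_lit 228) (nat_lit 96656963985) (nat_lit 30) (nat_lit 5) (nat_lit 32) (nat_lit 5) (nat_lit 33) (nat_lit 5) (nat_lit 356) (nat_lit 318) (nat_lit 106)))) (XT.nd (nat_lit 78) (nat_lit 228) (nat_lit 0) (XT.lf (nat_lit 0) (nat_lit 155099671486) (nat_lit 228) (nat_lit 59218045774) (nat_lit 76) (nat_lit 5829851972) (nat_lit 30) (nat_lit 5) (nat_lit 33) (nat_lit 5) (nat_lit 31) (nat_lit 5) (nat_lit 357)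 (nat_lit 318) (nat_lit 105)) (XT.nd (nat_lit 78) (nat_lit 76) (nat_lit 0) (XT.lf (nat_lit 0) (nat_lit 38438642983) (nat_lit 152) (nat_lit 159219873686) (nat_lit 228) (nat_lit 30277259285) (nat_lit 28) (nat_lit 5) (nat_lit 30) (nat_lit 5) (nat_lit 31) (nat_lit 5) (nat_lit 358) (nat_lit 318) (nat_lit 104)) (XT.lf (nat_lit 0) (nat_lit 7051590364) (nat_lit 228) (nat_lit 93143200425) (nat_lit 76) (nat_lit 135862780595) (nat_lit 27) (nat_lit 5) (nat_lit 30) (nat_lit 5) (nat_lit 28) (nat_lit 5) (nat_lit 359) (nat_lit 318) (nat_lit 103))))))))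
noncomputable def xc240 : XT := (XT.nd (nat_lit 38454) (nat_lit 0) (nat_lit 1292) (XT.nd (nat_lit 37674) (nat_lit 0) (nat_lit 4256) (XT.nd (nat_lit 390) (nat_lit 152) (nat_lit 0) (XT.nd (nat_lit 156) (nat_lit 152) (nat_lit 0) (XT.nd (nat_lit 78) (nat_lit 0) (nat_lit 0) (XT.lf (nat_lit 0) (nat_lit 7780833222) (nat_lit 152) (nat_lit 37569836693) (nat_lit 228) (nat_lit 199203904361) (nat_lit 25) (nat_lit 5) (nat_lit 27) (nat_lit 5) (nat_lit 28) (nat_lit 5) (nat_lit 360) (nat_lit 318) (nat_lit 102)) (XT.lf (nat_lit 0) (nat_lit 87607880017) (nat_lit 228) (nat_lit 136878978521) (nat_lit 76) (nat_lit 28887410146) (nat_lit 25) (nat_lit 5) (nat_lit 28) (nat_lit 5) (nat_lit 26) (nat_lit 5) (nat_lit 361) (nat_lit 318) (nat_lit 101))) (XT.nd (nat_lit 78) (nat_lit 152) (nat_lit 0) (XT.lf (nat_lit 0) (nat_lit 132593681799) (nat_lit 228) (nat_lit 32605648281) (nat_lit 76) (nat_lit 97404831362) (nat_lit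 25) (nat_lit 5) (nat_lit 28) (nat_lit 5) (nat_lit 26) (nat_lit 5) (nat_lit 362) (nat_lit 318) (nat_lit 100)) (XT.nd (nat_lit 78) (nat_lit 0) (nat_lit 0) (XT.lf (nat_lit 0) (nat_lit 79423125974) (nat_lit 152) (nat_lit 101645505479) (nat_lit 228) (nat_lit 91164924680) (nat_lit 23) (nat_lit 5) (nat_lit 25) (nat_lit 5) (nat_lit 26) (nat_lit 5) (nat_lit 363) (nat_lit 318) (nat_lit 99)) (XT.lf (nat_lit 0) (nat_lit 198185079063) (nat_lit 152) (nat_lit 34334285798) (nat_lit 228) (nat_lit 49797454054) (nat_lit 23) (nat_lit 5) (nat_lit 25) (nat_lit 5) (nat_lit 26) (nat_lit 5) (nat_lit 364) (nat_lit 318) (nat_lit 98))))) (XT.nd (nat_lit 37050) (nat_lit 0) (nat_lit 4788) (XT.nd (nat_lit 78) (nat_lit 76) (nat_lit 0) (XT.lf (nat_lit 0) (nat_lit 30385762547) (nat_lit 76) (nat_lit 257198537314) (nat_lit 152) (nat_lit 5267861895) (nat_lit 22) (nat_lit 5) (nat_lit 23) (nat_lit 5) (nat_lit 24) (nat_lit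 4) (nat_lit 365) (nat_lit 318) (nat_lit 97)) (XT.lf (nat_lit 0) (nat_lit 42171205088) (nat_lit 152) (nat_lit 151527238465) (nat_lit 76) (nat_lit 110082897120) (nat_lit 21) (nat_lit 5) (nat_lit 23) (nat_lit 5) (nat_lit 22) (nat_lit 5) (nat_lit 366) (nat_lit 318) (nat_lit 96))) (XT.nd (nat_lit 78) (nat_lit 0) (nat_lit 0) (XT.lf (nat_lit 0) (nat_lit 13481378435) (nat_lit 0) (nat_lit 13481378435) (nat_lit 684) (nat_lit 9441029051) (nat_lit 84) (nat_lit 5) (nat_lit 84) (nat_lit 3) (nat_lit 93) (nat_lit 3) (nat_lit 319) (nat_lit 319) (nat_lit 142)) (XT.nd (nat_lit 78) (nat_lit 0) (nat_lit 0) (XT.lf (nat_lit 0) (nat_lit 55378820766) (nat_lit 684) (nat_lit 13435321885) (nat_lit 760) (nat_lit 5808333347) (nat_lit 84) (nat_lit 5) (nat_lit 93) (nat_lit 3) (nat_lit 94) (nat_lit 5) (nat_lit 320) (nat_lit 319) (nat_lit 141)) (XT.lf (nat_lit 76) (nat_lit 20818545058) (nat_lit 0) (nat_lit 36852566791)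 (nat_lit 760) (nat_lit 18818699284) (nat_lit 85) (nat_lit 5) (nat_lit 84) (nat_lit 5) (nat_lit 94) (nat_lit 5) (nat_lit 321) (nat_lit 319) (nat_lit 140)))))) (XT.nd (nat_lit 390) (nat_lit 532) (nat_lit 0) (XT.nd (nat_lit 156) (nat_lit 0) (nat_lit 76) (XT.nd (nat_lit 78) (nat_lit 0) (nat_lit 76) (XT.lf (nat_lit 76) (nat_lit 57251144182) (nat_lit 0) (nat_lit 3053705862) (nat_lit 760) (nat_lit 18134322980) (nat_lit 85) (nat_lit 5) (nat_lit 84) (nat_lit 5) (nat_lit 94) (nat_lit 5) (nat_lit 322) (nat_lit 319) (nat_lit 139)) (XT.lf (nat_lit 76) (nat_lit 14992392412) (nat_lit 0) (nat_lit 48817695448) (nat_lit 760) (nat_lit 16638926063) (nat_lit 86) (nat_lit 5) (nat_lit 85) (nat_lit 5) (nat_lit 95) (nat_lit 5) (nat_lit 323) (nat_lit 319) (nat_lit 138))) (XT.nd (nat_lit 78) (nat_lit 0) (nat_lit 76) (XT.lf (nat_lit 76) (nat_lit 53665300875) (nat_lit 0) (nat_lit 14232731256) (nat_lit 760) (nat_lit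 14640943984) (nat_lit 86) (nat_lit 5) (nat_lit 85) (nat_lit 5) (nat_lit 95) (nat_lit 5) (nat_lit 324) (nat_lit 319) (nat_lit 137)) (XT.nd (nat_lit 78) (nat_lit 0) (nat_lit 0) (XT.lf (nat_lit 76) (nat_lit 9497200743) (nat_lit 0) (nat_lit 63185599981) (nat_lit 760) (nat_lit 12026015741) (nat_lit 87) (nat_lit 5) (nat_lit 86) (nat_lit 5) (nat_lit 96) (nat_lit 5) (nat_lit 325) (nat_lit 319) (nat_lit 136)) (XT.lf (nat_lit 76) (nat_lit 50547584602) (nat_lit 0) (nat_lit 27877190507) (nat_lit 760) (nat_lit 8526476694) (nat_lit 87) (nat_lit 5) (nat_lit 86) (nat_lit 5) (nat_lit 96) (nat_lit 5) (nat_lit 326) (nat_lit 319) (nat_lit 135))))) (XT.nd (nat_lit 156) (nat_lit 0) (nat_lit 0) (XT.nd (nat_lit 78) (nat_lit 760) (nat_lit 0) (XT.lf (nat_lit 76) (nat_lit 4339548523) (nat_lit 0) (nat_lit 80325085093) (nat_lit 760) (nat_lit 4630637297) (nat_lit 88) (nat_lit 5) (nat_lit 87) (nat_lit 5) (nat_lit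 97) (nat_lit 5) (nat_lit 327) (nat_lit 319) (nat_lit 134)) (XT.lf (nat_lit 0) (nat_lit 560358505) (nat_lit 760) (nat_lit 43801015637) (nat_lit 836) (nat_lit 47341385500) (nat_lit 77) (nat_lit 5) (nat_lit 87) (nat_lit 5) (nat_lit 88) (nat_lit 5) (nat_lit 328) (nat_lit 319) (nat_lit 133))) (XT.nd (nat_lit 78) (nat_lit 0) (nat_lit 76) (XT.lf (nat_lit 0) (nat_lit 5854767413) (nat_lit 760) (nat_lit 664913825) (nat_lit 836) (nat_lit 87707172908) (nat_lit 77) (nat_lit 5) (nat_lit 87) (nat_lit 5) (nat_lit 88) (nat_lit 5) (nat_lit 329) (nat_lit 319) (nat_lit 132)) (XT.nd (nat_lit 78) (nat_lit 0) (nat_lit 0) (XT.lf (nat_lit 0) (nat_lit 12663570679) (nat_lit 760) (nat_lit 51268380709) (nat_lit 76) (nat_lit 32882719343) (nat_lit 78) (nat_lit 5) (nat_lit 88) (nat_lit 5) (nat_lit 79) (nat_lit 5) (nat_lit 330) (nat_lit 319) (nat_lit 131)) (XT.lf (nat_lit 0) (nat_lit 19930665407) (nat_lit 760) (nat_lit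 5547668498) (nat_lit 76) (nat_lit 74047652673) (nat_lit 78) (nat_lit 5) (nat_lit 88) (nat_lit 5) (nat_lit 79) (nat_lit 5) (nat_lit 331) (nat_lit 319) (nat_lit 130))))))) (XT.nd (nat_lit 780) (nat_lit 1292) (nat_lit 0) (XT.nd (nat_lit 390) (nat_lit 608) (nat_lit 0) (XT.nd (nat_lit 156) (nat_lit 684) (nat_lit 0) (XT.nd (nat_lit 78) (nat_lit 0) (nat_lit 0) (XT.lf (nat_lit 0) (nat_lit 28489306966) (nat_lit 532) (nat_lit 58719929068) (nat_lit 76) (nat_lit 15117223530) (nat_lit 72) (nat_lit 5) (nat_lit 79) (nat_lit 5) (nat_lit 73) (nat_lit 5) (nat_lit 332) (nat_lit 319) (nat_lit 129)) (XT.lf (nat_lit 0) (nat_lit 37988615279) (nat_lit 532) (nat_lit 10270857928) (nat_lit 76) (nat_lit 56981847164) (nat_lit 72) (nat_lit 5) (nat_lit 79) (nat_lit 5) (nat_lit 73) (nat_lit 5) (nat_lit 333) (nat_lit 319) (nat_lit 128))) (XT.nd (nat_lit 78) (nat_lit 304) (nat_lit 0) (XT.lf (nat_lit 0) (nat_lit 41942691493)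 (nat_lit 380) (nat_lit 6674625631) (nat_lit 456) (nat_lit 59651886551) (nat_lit 67) (nat_lit 5) (nat_lit 72) (nat_lit 5) (nat_lit 73) (nat_lit 5) (nat_lit 334) (nat_lit 319) (nat_lit 127)) (XT.nd (nat_lit 78) (nat_lit 304) (nat_lit 0) (XT.lf (nat_lit 0) (nat_lit 60531355507) (nat_lit 456) (nat_lit 14897063164) (nat_lit 76) (nat_lit 35982368223) (nat_lit 67) (nat_lit 5) (nat_lit 73) (nat_lit 5) (nat_lit 68) (nat_lit 5) (nat_lit 335) (nat_lit 319) (nat_lit 126)) (XT.lf (nat_lit 0) (nat_lit 40283359392) (nat_lit 304) (nat_lit 33495710533) (nat_lit 380) (nat_lit 40893481425) (nat_lit 63) (nat_lit 5) (nat_lit 67) (nat_lit 5) (nat_lit 68) (nat_lit 5) (nat_lit 336) (nat_lit 319) (nat_lit 125))))) (XT.nd (nat_lit 156) (nat_lit 304) (nat_lit 0) (XT.nd (nat_lit 78) (nat_lit 304) (nat_lit 0) (XT.lf (nat_lit 0) (nat_lit 88109684097) (nat_lit 380) (nat_lit 19513799914) (nat_lit 76) (nat_lit 10452895062)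 (nat_lit 63) (nat_lit 5) (nat_lit 68) (nat_lit 5) (nat_lit 64) (nat_lit 5) (nat_lit 337) (nat_lit 319) (nat_lit 124)) (XT.lf (nat_lit 0) (nat_lit 38797627245) (nat_lit 304) (nat_lit 65513698709) (nat_lit 380) (nat_lit 17281348090) (nat_lit 59) (nat_lit 5) (nat_lit 63) (nat_lit 5) (nat_lit 64) (nat_lit 5) (nat_lit 338) (nat_lit 319) (nat_lit 123))) (XT.nd (nat_lit 78) (nat_lit 304) (nat_lit 0) (XT.lf (nat_lit 0) (nat_lit 100701716291) (nat_lit 304) (nat_lit 20951467326) (nat_lit 380) (nat_lit 3615094135) (nat_lit 59) (nat_lit 5) (nat_lit 63) (nat_lit 5) (nat_lit 64) (nat_lit 5) (nat_lit 339) (nat_lit 319) (nat_lit 122)) (XT.nd (nat_lit 78) (nat_lit 0) (nat_lit 0) (XT.lf (nat_lit 0) (nat_lit 11393544179) (nat_lit 304) (nat_lit 91896628621) (nat_lit 76) (nat_lit 25778977608) (nat_lit 55) (nat_lit 5) (nat_lit 59) (nat_lit 5) (nat_lit 56) (nat_lit 5) (nat_lit 340) (nat_lit 319) (nat_lit 121))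 (XT.lf (nat_lit 0) (nat_lit 27797134855) (nat_lit 304) (nat_lit 30597748175) (nat_lit 76) (nat_lit 74623920493) (nat_lit 55) (nat_lit 5) (nat_lit 59) (nat_lit 5) (nat_lit 56) (nat_lit 5) (nat_lit 341) (nat_lit 319) (nat_lit 120)))))) (XT.nd (nat_lit 390) (nat_lit 532) (nat_lit 0) (XT.nd (nat_lit 156) (nat_lit 456) (nat_lit 0) (XT.nd (nat_lit 78) (nat_lit 0) (nat_lit 0) (XT.lf (nat_lit 0) (nat_lit 34882153921) (nat_lit 304) (nat_lit 10683052273) (nat_lit 380) (nat_lit 91573518600) (nat_lit 51) (nat_lit 5) (nat_lit 55) (nat_lit 5) (nat_lit 56) (nat_lit 5) (nat_lit 342) (nat_lit 319) (nat_lit 119)) (XT.lf (nat_lit 0) (nat_lit 65363433308) (nat_lit 380) (nat_lit 37364638156) (nat_lit 76) (nat_lit 38679483582) (nat_lit 51) (nat_lit 5) (nat_lit 56) (nat_lit 5) (nat_lit 52) (nat_lit 5) (nat_lit 343) (nat_lit 319) (nat_lit 118))) (XT.nd (nat_lit 78) (nat_lit 228) (nat_lit 0) (XT.lf (nat_lit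 0) (nat_lit 31608054714) (nat_lit 228) (nat_lit 55211854511) (nat_lit 304) (nat_lit 59036501220) (nat_lit 48) (nat_lit 5) (nat_lit 51) (nat_lit 5) (nat_lit 52) (nat_lit 5) (nat_lit 344) (nat_lit 319) (nat_lit 117)) (XT.nd (nat_lit 78) (nat_lit 228) (nat_lit 0) (XT.lf (nat_lit 0) (nat_lit 105326244270) (nat_lit 228) (nat_lit 4655476062) (nat_lit 304) (nat_lit 40514363190) (nat_lit 48) (nat_lit 5) (nat_lit 51) (nat_lit 5) (nat_lit 52) (nat_lit 5) (nat_lit 345) (nat_lit 319) (nat_lit 116)) (XT.lf (nat_lit 0) (nat_lit 27485864845) (nat_lit 228) (nat_lit 108000731796) (nat_lit 304) (nat_lit 19821895339) (nat_lit 45) (nat_lit 5) (nat_lit 48) (nat_lit 5) (nat_lit 49) (nat_lit 5) (nat_lit 346) (nat_lit 319) (nat_lit 115))))) (XT.nd (nat_lit 156) (nat_lit 228) (nat_lit 0) (XT.nd (nat_lit 78) (nat_lit 228) (nat_lit 0) (XT.lf (nat_lit 0) (nat_lit 2697788446) (nat_lit 304) (nat_lit 55099681423)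 (nat_lit 76) (nat_lit 102519885598) (nat_lit 44) (nat_lit 5) (nat_lit 48) (nat_lit 5) (nat_lit 45) (nat_lit 5) (nat_lit 347) (nat_lit 319) (nat_lit 114)) (XT.lf (nat_lit 0) (nat_lit 21626303118) (nat_lit 228) (nat_lit 4388405128) (nat_lit 304) (nat_lit 139528836949) (nat_lit 41) (nat_lit 5) (nat_lit 44) (nat_lit 5) (nat_lit 45) (nat_lit 5) (nat_lit 348) (nat_lit 319) (nat_lit 113))) (XT.nd (nat_lit 78) (nat_lit 228) (nat_lit 0) (XT.lf (nat_lit 0) (nat_lit 52252709959) (nat_lit 304) (nat_lit 67705546370) (nat_lit 76) (nat_lit 50985026660) (nat_lit 41) (nat_lit 5) (nat_lit 45) (nat_lit 5) (nat_lit 42) (nat_lit 5) (nat_lit 349) (nat_lit 319) (nat_lit 112)) (XT.nd (nat_lit 78) (nat_lit 0) (nat_lit 0) (XT.lf (nat_lit 0) (nat_lit 12649324879) (nat_lit 228) (nat_lit 67422486639) (nat_lit 304) (nat_lit 96527736525) (nat_lit 38) (nat_lit 5) (nat_lit 41) (nat_lit 5) (nat_lit 42) (nat_lit 5) (nat_lit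 350) (nat_lit 319) (nat_lit 111)) (XT.lf (nat_lit 0) (nat_lit 99372203060) (nat_lit 228) (nat_lit 11056064648) (nat_lit 304) (nat_lit 72053039006) (nat_lit 38) (nat_lit 5) (nat_lit 41) (nat_lit 5) (nat_lit 42) (nat_lit 5) (nat_lit 351) (nat_lit 319) (nat_lit 110))))))))
noncomputable def xc241 : XT := (XT.nd (nat_lit 38610) (nat_lit 0) (nat_lit 1900) (XT.nd (nat_lit 780) (nat_lit 152) (nat_lit 0) (XT.nd (nat_lit 390) (nat_lit 532) (nat_lit 0) (XT.nd (nat_lit 156) (nat_lit 304) (nat_lit 0) (XT.nd (nat_lit 78) (nat_lit 0) (nat_lit 0) (XT.lf (nat_lit 0) (nat_lit 1056136453) (nat_lit 152) (nat_lit 142014105817) (nat_lit 228) (nat_lit 45548526594) (nat_lit 36) (nat_lit 5) (nat_lit 38) (nat_lit 5) (nat_lit 39) (nat_lit 5) (nat_lit 352) (nat_lit 319) (nat_lit 109)) (XT.lf (nat_lit 0) (nat_lit 92127449465) (nat_lit 152) (nat_lit 86802470877) (nat_lit 228) (nat_lit 16053903852) (nat_lit 36) (nat_lit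 5) (nat_lit 38) (nat_lit 5) (nat_lit 39) (nat_lit 5) (nat_lit 353) (nat_lit 319) (nat_lit 108))) (XT.nd (nat_lit 78) (nat_lit 228) (nat_lit 0) (XT.lf (nat_lit 0) (nat_lit 14437857239) (nat_lit 228) (nat_lit 14147978169) (nat_lit 76) (nat_lit 173069663825) (nat_lit 35) (nat_lit 5) (nat_lit 38) (nat_lit 5) (nat_lit 36) (nat_lit 5) (nat_lit 354) (nat_lit 319) (nat_lit 107)) (XT.nd (nat_lit 78) (nat_lit 0) (nat_lit 0) (XT.lf (nat_lit 0) (nat_lit 47717568139) (nat_lit 304) (nat_lit 127781692375) (nat_lit 76) (nat_lit 33058194931) (nat_lit 32) (nat_lit 5) (nat_lit 36) (nat_lit 5) (nat_lit 33) (nat_lit 5) (nat_lit 355) (nat_lit 319) (nat_lit 106)) (XT.lf (nat_lit 0) (nat_lit 83373223591) (nat_lit 304) (nat_lit 35328491614) (nat_lit 76) (nat_lit 97067196567) (nat_lit 32) (nat_lit 5) (nat_lit 36) (nat_lit 5) (nat_lit 33) (nat_lit 5) (nat_lit 356) (nat_lit 319) (nat_lit 105))))) (XT.nd (nat_lit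 156) (nat_lit 380) (nat_lit 0) (XT.nd (nat_lit 78) (nat_lit 0) (nat_lit 0) (XT.lf (nat_lit 0) (nat_lit 63788729419) (nat_lit 152) (nat_lit 58018670356) (nat_lit 228) (nat_lit 101483754485) (nat_lit 30) (nat_lit 5) (nat_lit 32) (nat_lit 5) (nat_lit 33) (nat_lit 5) (nat_lit 357) (nat_lit 319) (nat_lit 104)) (XT.lf (nat_lit 0) (nat_lit 162860188217) (nat_lit 228) (nat_lit 62170315586) (nat_lit 76) (nat_lit 6124160127) (nat_lit 30) (nat_lit 5) (nat_lit 33) (nat_lit 5) (nat_lit 31) (nat_lit 5) (nat_lit 358) (nat_lit 319) (nat_lit 103))) (XT.nd (nat_lit 78) (nat_lit 228) (nat_lit 0) (XT.lf (nat_lit 0) (nat_lit 40369068376) (nat_lit 152) (nat_lit 167177776402) (nat_lit 228) (nat_lit 31785443091) (nat_lit 28) (nat_lit 5) (nat_lit 30) (nat_lit 5) (nat_lit 31) (nat_lit 5) (nat_lit 359) (nat_lit 319) (nat_lit 102)) (XT.nd (nat_lit 78) (nat_lit 152) (nat_lit 0) (XT.lf (nat_lit 0) (nat_lit 7409405491)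 (nat_lit 228) (nat_lit 97792092391) (nat_lit 76) (nat_lit 142658684152) (nat_lit 27) (nat_lit 5) (nat_lit 30) (nat_lit 5) (nat_lit 28) (nat_lit 5) (nat_lit 360) (nat_lit 319) (nat_lit 101)) (XT.lf (nat_lit 0) (nat_lit 8178009582) (nat_lit 152) (nat_lit 39445307128) (nat_lit 228) (nat_lit 209158724768) (nat_lit 25) (nat_lit 5) (nat_lit 27) (nat_lit 5) (nat_lit 28) (nat_lit 5) (nat_lit 361) (nat_lit 319) (nat_lit 100)))))) (XT.nd (nat_lit 37440) (nat_lit 0) (nat_lit 4636) (XT.nd (nat_lit 156) (nat_lit 152) (nat_lit 0) (XT.nd (nat_lit 78) (nat_lit 0) (nat_lit 0) (XT.lf (nat_lit 0) (nat_lit 91993188754) (nat_lit 228) (nat_lit 143714975981) (nat_lit 76) (nat_lit 30334566078) (nat_lit 25) (nat_lit 5) (nat_lit 28) (nat_lit 5) (nat_lit 26) (nat_lit 5) (nat_lit 362) (nat_lit 319) (nat_lit 99)) (XT.lf (nat_lit 0) (nat_lit 139228046590) (nat_lit 228) (nat_lit 34228357871) (nat_lit 76) (nat_lit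 102277725716) (nat_lit 25) (nat_lit 5) (nat_lit 28) (nat_lit 5) (nat_lit 26) (nat_lit 5) (nat_lit 363) (nat_lit 319) (nat_lit 98))) (XT.nd (nat_lit 78) (nat_lit 0) (nat_lit 0) (XT.lf (nat_lit 0) (nat_lit 83401732955) (nat_lit 152) (nat_lit 106724904207) (nat_lit 228) (nat_lit 95718363020) (nat_lit 23) (nat_lit 5) (nat_lit 25) (nat_lit 5) (nat_lit 26) (nat_lit 5) (nat_lit 364) (nat_lit 319) (nat_lit 97)) (XT.nd (nat_lit 37128) (nat_lit 0) (nat_lit 4636) (XT.lf (nat_lit 0) (nat_lit 208101428904) (nat_lit 152) (nat_lit 36048260521) (nat_lit 228) (nat_lit 52282747811) (nat_lit 23) (nat_lit 5) (nat_lit 25) (nat_lit 5) (nat_lit 26) (nat_lit 5) (nat_lit 365) (nat_lit 319) (nat_lit 96)) (XT.lf (nat_lit 0) (nat_lit 14161100882) (nat_lit 0) (nat_lit 14161100882) (nat_lit 684) (nat_lit 9901181835) (nat_lit 84) (nat_lit 5) (nat_lit 84) (nat_lit 3) (nat_lit 93) (nat_lit 3) (nat_lit 320) (nat_lit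 320) (nat_lit 140))))) (XT.nd (nat_lit 156) (nat_lit 0) (nat_lit 0) (XT.nd (nat_lit 78) (nat_lit 0) (nat_lit 0) (XT.lf (nat_lit 0) (nat_lit 58169130915) (nat_lit 684) (nat_lit 14095024340) (nat_lit 760) (nat_lit 6088326058) (nat_lit 84) (nat_lit 5) (nat_lit 93) (nat_lit 3) (nat_lit 94) (nat_lit 5) (nat_lit 321) (nat_lit 320) (nat_lit 139)) (XT.lf (nat_lit 76) (nat_lit 21871341375) (nat_lit 0) (nat_lit 38703862909) (nat_lit 760) (nat_lit 19738022916) (nat_lit 85) (nat_lit 5) (nat_lit 84) (nat_lit 5) (nat_lit 94) (nat_lit 5) (nat_lit 322) (nat_lit 320) (nat_lit 138))) (XT.nd (nat_lit 78) (nat_lit 0) (nat_lit 76) (XT.lf (nat_lit 76) (nat_lit 60125005262) (nat_lit 0) (nat_lit 3214646183) (nat_lit 760) (nat_lit 19020456907) (nat_lit 85) (nat_lit 5) (nat_lit 84) (nat_lit 5) (nat_lit 94) (nat_lit 5) (nat_lit 323) (nat_lit 320) (nat_lit 137)) (XT.nd (nat_lit 78) (nat_lit 0) (nat_lit 0) (XT.lf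 (nat_lit 76) (nat_lit 15754267206) (nat_lit 0) (nat_lit 51265021160) (nat_lit 760) (nat_lit 17451198230) (nat_lit 86) (nat_lit 5) (nat_lit 85) (nat_lit 5) (nat_lit 95) (nat_lit 5) (nat_lit 324) (nat_lit 320) (nat_lit 136)) (XT.lf (nat_lit 76) (nat_lit 56360237513) (nat_lit 0) (nat_lit 14950502047) (nat_lit 760) (nat_lit 15354253911) (nat_lit 86) (nat_lit 5) (nat_lit 85) (nat_lit 5) (nat_lit 95) (nat_lit 5) (nat_lit 325) (nat_lit 320) (nat_lit 135))))))) (XT.nd (nat_lit 780) (nat_lit 1444) (nat_lit 0) (XT.nd (nat_lit 390) (nat_lit 760) (nat_lit 0) (XT.nd (nat_lit 156) (nat_lit 684) (nat_lit 0) (XT.nd (nat_lit 78) (nat_lit 0) (nat_lit 0) (XT.lf (nat_lit 76) (nat_lit 9984554777) (nat_lit 0) (nat_lit 66349447764) (nat_lit 760) (nat_lit 12609362459) (nat_lit 87) (nat_lit 5) (nat_lit 86) (nat_lit 5) (nat_lit 96) (nat_lit 5) (nat_lit 326) (nat_lit 320) (nat_lit 134)) (XT.lf (nat_lit 76) (nat_lit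 53086862876) (nat_lit 0) (nat_lit 29275400302) (nat_lit 760) (nat_lit 8935701416) (nat_lit 87) (nat_lit 5) (nat_lit 86) (nat_lit 5) (nat_lit 96) (nat_lit 5) (nat_lit 327) (nat_lit 320) (nat_lit 133))) (XT.nd (nat_lit 78) (nat_lit 760) (nat_lit 0) (XT.lf (nat_lit 76) (nat_lit 4569135990) (nat_lit 0) (nat_lit 84344337037) (nat_lit 760) (nat_lit 4845745490) (nat_lit 88) (nat_lit 5) (nat_lit 87) (nat_lit 5) (nat_lit 97) (nat_lit 5) (nat_lit 328) (nat_lit 320) (nat_lit 132)) (XT.nd (nat_lit 78) (nat_lit 0) (nat_lit 0) (XT.lf (nat_lit 0) (nat_lit 603517393) (nat_lit 760) (nat_lit 45978523977) (nat_lit 836) (nat_lit 49705066955) (nat_lit 77) (nat_lit 5) (nat_lit 87) (nat_lit 5) (nat_lit 88) (nat_lit 5) (nat_lit 329) (nat_lit 320) (nat_lit 131)) (XT.lf (nat_lit 0) (nat_lit 6161925749) (nat_lit 760) (nat_lit 686214335) (nat_lit 836) (nat_lit 92089305059) (nat_lit 77) (nat_lit 5) (nat_lit 87)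 (nat_lit 5) (nat_lit 88) (nat_lit 5) (nat_lit 330) (nat_lit 320) (nat_lit 130))))) (XT.nd (nat_lit 156) (nat_lit 836) (nat_lit 0) (XT.nd (nat_lit 78) (nat_lit 0) (nat_lit 0) (XT.lf (nat_lit 0) (nat_lit 13310632212) (nat_lit 760) (nat_lit 53819288346) (nat_lit 76) (nat_lit 34524760308) (nat_lit 78) (nat_lit 5) (nat_lit 88) (nat_lit 5) (nat_lit 79) (nat_lit 5) (nat_lit 331) (nat_lit 320) (nat_lit 129)) (XT.lf (nat_lit 0) (nat_lit 20940420581) (nat_lit 760) (nat_lit 5813136305) (nat_lit 76) (nat_lit 77748040067) (nat_lit 78) (nat_lit 5) (nat_lit 88) (nat_lit 5) (nat_lit 79) (nat_lit 5) (nat_lit 332) (nat_lit 320) (nat_lit 128))) (XT.nd (nat_lit 78) (nat_lit 380) (nat_lit 0) (XT.lf (nat_lit 0) (nat_lit 29926531217) (nat_lit 532) (nat_lit 61643520370) (nat_lit 76) (nat_lit 15872066479) (nat_lit 72) (nat_lit 5) (nat_lit 79) (nat_lit 5) (nat_lit 73) (nat_lit 5) (nat_lit 333) (nat_lit 320) (nat_lit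 127)) (XT.nd (nat_lit 78) (nat_lit 380) (nat_lit 0) (XT.lf (nat_lit 0) (nat_lit 39900197378) (nat_lit 532) (nat_lit 10772586395) (nat_lit 76) (nat_lit 59829969781) (nat_lit 72) (nat_lit 5) (nat_lit 79) (nat_lit 5) (nat_lit 73) (nat_lit 5) (nat_lit 334) (nat_lit 320) (nat_lit 126)) (XT.lf (nat_lit 0) (nat_lit 44051449942) (nat_lit 380) (nat_lit 7008487220) (nat_lit 456) (nat_lit 62622114923) (nat_lit 67) (nat_lit 5) (nat_lit 72) (nat_lit 5) (nat_lit 73) (nat_lit 5) (nat_lit 335) (nat_lit 320) (nat_lit 125)))))) (XT.nd (nat_lit 390) (nat_lit 836) (nat_lit 0) (XT.nd (nat_lit 156) (nat_lit 304) (nat_lit 0) (XT.nd (nat_lit 78) (nat_lit 304) (nat_lit 0) (XT.lf (nat_lit 0) (nat_lit 63569115803) (nat_lit 456) (nat_lit 15630261386) (nat_lit 76) (nat_lit 37781366504) (nat_lit 67) (nat_lit 5) (nat_lit 73) (nat_lit 5) (nat_lit 68) (nat_lit 5) (nat_lit 336) (nat_lit 320) (nat_lit 124)) (XT.lf (nat_lit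 0) (nat_lit 42308994316) (nat_lit 304) (nat_lit 35169867682) (nat_lit 380) (nat_lit 42926753164) (nat_lit 63) (nat_lit 5) (nat_lit 67) (nat_lit 5) (nat_lit 68) (nat_lit 5) (nat_lit 337) (nat_lit 320) (nat_lit 123))) (XT.nd (nat_lit 78) (nat_lit 304) (nat_lit 0) (XT.lf (nat_lit 0) (nat_lit 92525500099) (nat_lit 380) (nat_lit 20478041434) (nat_lit 76) (nat_lit 10976119116) (nat_lit 63) (nat_lit 5) (nat_lit 68) (nat_lit 5) (nat_lit 64) (nat_lit 5) (nat_lit 338) (nat_lit 320) (nat_lit 122)) (XT.nd (nat_lit 78) (nat_lit 0) (nat_lit 0) (XT.lf (nat_lit 0) (nat_lit 40748772430) (nat_lit 304) (nat_lit 68788135487) (nat_lit 380) (nat_lit 18134879247) (nat_lit 59) (nat_lit 5) (nat_lit 63) (nat_lit 5) (nat_lit 64) (nat_lit 5) (nat_lit 339) (nat_lit 320) (nat_lit 121)) (XT.lf (nat_lit 0) (nat_lit 105747529555) (nat_lit 304) (nat_lit 21997851971) (nat_lit 380) (nat_lit 3785814321) (nat_lit 59) (nat_lit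 5) (nat_lit 63) (nat_lit 5) (nat_lit 64) (nat_lit 5) (nat_lit 340) (nat_lit 320) (nat_lit 120))))) (XT.nd (nat_lit 234) (nat_lit 228) (nat_lit 0) (XT.nd (nat_lit 78) (nat_lit 304) (nat_lit 0) (XT.lf (nat_lit 0) (nat_lit 11972665103) (nat_lit 304) (nat_lit 96480106735) (nat_lit 76) (nat_lit 27069346802) (nat_lit 55) (nat_lit 5) (nat_lit 59) (nat_lit 5) (nat_lit 56) (nat_lit 5) (nat_lit 341) (nat_lit 320) (nat_lit 119)) (XT.nd (nat_lit 78) (nat_lit 304) (nat_lit 0) (XT.lf (nat_lit 0) (nat_lit 29195985612) (nat_lit 304) (nat_lit 32116822901) (nat_lit 76) (nat_lit 78356469196) (nat_lit 55) (nat_lit 5) (nat_lit 59) (nat_lit 5) (nat_lit 56) (nat_lit 5) (nat_lit 342) (nat_lit 320) (nat_lit 118)) (XT.lf (nat_lit 0) (nat_lit 36636899901) (nat_lit 304) (nat_lit 11215298424) (nat_lit 380) (nat_lit 96143010605) (nat_lit 51) (nat_lit 5) (nat_lit 55) (nat_lit 5) (nat_lit 56) (nat_lit 5) (nat_lit 343)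 (nat_lit 320) (nat_lit 117)))) (XT.nd (nat_lit 78) (nat_lit 228) (nat_lit 0) (XT.lf (nat_lit 0) (nat_lit 68639949342) (nat_lit 380) (nat_lit 39222336138) (nat_lit 76) (nat_lit 40615215327) (nat_lit 51) (nat_lit 5) (nat_lit 56) (nat_lit 5) (nat_lit 52) (nat_lit 5) (nat_lit 344) (nat_lit 320) (nat_lit 116)) (XT.nd (nat_lit 78) (nat_lit 0) (nat_lit 0) (XT.lf (nat_lit 0) (nat_lit 33198821474) (nat_lit 228) (nat_lit 57970192041) (nat_lit 304) (nat_lit 61979797940) (nat_lit 48) (nat_lit 5) (nat_lit 51) (nat_lit 5) (nat_lit 52) (nat_lit 5) (nat_lit 345) (nat_lit 320) (nat_lit 115)) (XT.lf (nat_lit 0) (nat_lit 110602426983) (nat_lit 228) (nat_lit 4886102060) (nat_lit 304) (nat_lit 42531959121) (nat_lit 48) (nat_lit 5) (nat_lit 51) (nat_lit 5) (nat_lit 52) (nat_lit 5) (nat_lit 346) (nat_lit 320) (nat_lit 114))))))))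
noncomputable def xc242 : XT := (XT.nd (nat_lit 38688) (nat_lit 0) (nat_lit 2736) (XT.nd (nat_lit 780) (nat_lit 684) (nat_lit 0) (XT.nd (nat_lit 390) (nat_lit 456) (nat_lit 0) (XT.nd (nat_lit 156) (nat_lit 456) (nat_lit 0) (XT.nd (nat_lit 78) (nat_lit 76) (nat_lit 0) (XT.lf (nat_lit 0) (nat_lit 28870229483) (nat_lit 228) (nat_lit 113398241116) (nat_lit 304) (nat_lit 20805056011) (nat_lit 45) (nat_lit 5) (nat_lit 48) (nat_lit 5) (nat_lit 49) (nat_lit 5) (nat_lit 347) (nat_lit 320) (nat_lit 113)) (XT.lf (nat_lit 0) (nat_lit 2839992301) (nat_lit 304) (nat_lit 57844820264) (nat_lit 76) (nat_lit 107648033379) (nat_lit 44) (nat_lit 5) (nat_lit 48) (nat_lit 5) (nat_lit 45) (nat_lit 5) (nat_lit 348) (nat_lit 320) (nat_lit 112))) (XT.nd (nat_lit 78) (nat_lit 228) (nat_lit 0) (XT.lf (nat_lit 0) (nat_lit 22717304709) (nat_lit 228) (nat_lit 4605256307) (nat_lit 304) (nat_lit 146497794546) (nat_lit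 41) (nat_lit 5) (nat_lit 44) (nat_lit 5) (nat_lit 45) (nat_lit 5) (nat_lit 349) (nat_lit 320) (nat_lit 111)) (XT.nd (nat_lit 78) (nat_lit 228) (nat_lit 0) (XT.lf (nat_lit 0) (nat_lit 54872162093) (nat_lit 304) (nat_lit 71081287291) (nat_lit 76) (nat_lit 53536646423) (nat_lit 41) (nat_lit 5) (nat_lit 45) (nat_lit 5) (nat_lit 42) (nat_lit 5) (nat_lit 350) (nat_lit 320) (nat_lit 110)) (XT.lf (nat_lit 0) (nat_lit 13291173707) (nat_lit 228) (nat_lit 70790866910) (nat_lit 304) (nat_lit 101347142902) (nat_lit 38) (nat_lit 5) (nat_lit 41) (nat_lit 5) (nat_lit 42) (nat_lit 5) (nat_lit 351) (nat_lit 320) (nat_lit 109))))) (XT.nd (nat_lit 156) (nat_lit 304) (nat_lit 0) (XT.nd (nat_lit 78) (nat_lit 152) (nat_lit 0) (XT.lf (nat_lit 0) (nat_lit 104349749008) (nat_lit 228) (nat_lit 11606254489) (nat_lit 304) (nat_lit 75649042909) (nat_lit 38) (nat_lit 5) (nat_lit 41) (nat_lit 5) (nat_lit 42) (nat_lit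 5) (nat_lit 352) (nat_lit 320) (nat_lit 108)) (XT.lf (nat_lit 0) (nat_lit 1118015192) (nat_lit 152) (nat_lit 149111941026) (nat_lit 228) (nat_lit 47819431928) (nat_lit 36) (nat_lit 5) (nat_lit 38) (nat_lit 5) (nat_lit 39) (nat_lit 5) (nat_lit 353) (nat_lit 320) (nat_lit 107))) (XT.nd (nat_lit 78) (nat_lit 304) (nat_lit 0) (XT.lf (nat_lit 0) (nat_lit 96742461858) (nat_lit 152) (nat_lit 91139861009) (nat_lit 228) (nat_lit 16850388573) (nat_lit 36) (nat_lit 5) (nat_lit 38) (nat_lit 5) (nat_lit 39) (nat_lit 5) (nat_lit 354) (nat_lit 320) (nat_lit 106)) (XT.nd (nat_lit 78) (nat_lit 228) (nat_lit 0) (XT.lf (nat_lit 0) (nat_lit 15165475528) (nat_lit 228) (nat_lit 14846951438) (nat_lit 76) (nat_lit 181725553122) (nat_lit 35) (nat_lit 5) (nat_lit 38) (nat_lit 5) (nat_lit 36) (nat_lit 5) (nat_lit 355) (nat_lit 320) (nat_lit 105)) (XT.lf (nat_lit 0) (nat_lit 50109071032) (nat_lit 304) (nat_lit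 134162242952) (nat_lit 76) (nat_lit 34713725548) (nat_lit 32) (nat_lit 5) (nat_lit 36) (nat_lit 5) (nat_lit 33) (nat_lit 5) (nat_lit 356) (nat_lit 320) (nat_lit 104)))))) (XT.nd (nat_lit 390) (nat_lit 304) (nat_lit 0) (XT.nd (nat_lit 156) (nat_lit 228) (nat_lit 0) (XT.nd (nat_lit 78) (nat_lit 152) (nat_lit 0) (XT.lf (nat_lit 0) (nat_lit 87547241423) (nat_lit 304) (nat_lit 37086788536) (nat_lit 76) (nat_lit 101923052462) (nat_lit 32) (nat_lit 5) (nat_lit 36) (nat_lit 5) (nat_lit 33) (nat_lit 5) (nat_lit 357) (nat_lit 320) (nat_lit 103)) (XT.lf (nat_lit 0) (nat_lit 66986162457) (nat_lit 152) (nat_lit 60916833729) (nat_lit 228) (nat_lit 106552447697) (nat_lit 30) (nat_lit 5) (nat_lit 32) (nat_lit 5) (nat_lit 33) (nat_lit 5) (nat_lit 358) (nat_lit 320) (nat_lit 102))) (XT.nd (nat_lit 78) (nat_lit 228) (nat_lit 0) (XT.lf (nat_lit 0) (nat_lit 171008216364) (nat_lit 228) (nat_lit 65271001453)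 (nat_lit 76) (nat_lit 6432921927) (nat_lit 30) (nat_lit 5) (nat_lit 33) (nat_lit 5) (nat_lit 31) (nat_lit 5) (nat_lit 359) (nat_lit 320) (nat_lit 101)) (XT.nd (nat_lit 78) (nat_lit 76) (nat_lit 0) (XT.lf (nat_lit 0) (nat_lit 42395225417) (nat_lit 152) (nat_lit 175533861624) (nat_lit 228) (nat_lit 33369564082) (nat_lit 28) (nat_lit 5) (nat_lit 30) (nat_lit 5) (nat_lit 31) (nat_lit 5) (nat_lit 360) (nat_lit 320) (nat_lit 100)) (XT.lf (nat_lit 0) (nat_lit 7784624617) (nat_lit 228) (nat_lit 102674197641) (nat_lit 76) (nat_lit 149794125867) (nat_lit 27) (nat_lit 5) (nat_lit 30) (nat_lit 5) (nat_lit 28) (nat_lit 5) (nat_lit 361) (nat_lit 320) (nat_lit 99))))) (XT.nd (nat_lit 156) (nat_lit 152) (nat_lit 0) (XT.nd (nat_lit 78) (nat_lit 0) (nat_lit 0) (XT.lf (nat_lit 0) (nat_lit 8594288474) (nat_lit 152) (nat_lit 41414831985) (nat_lit 228) (nat_lit 219611785894) (nat_lit 25) (nat_lit 5) (nat_lit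 27) (nat_lit 5) (nat_lit 28) (nat_lit 5) (nat_lit 362) (nat_lit 320) (nat_lit 98)) (XT.lf (nat_lit 0) (nat_lit 96597306001) (nat_lit 228) (nat_lit 150893512567) (nat_lit 76) (nat_lit 31853820845) (nat_lit 25) (nat_lit 5) (nat_lit 28) (nat_lit 5) (nat_lit 26) (nat_lit 5) (nat_lit 363) (nat_lit 320) (nat_lit 97))) (XT.nd (nat_lit 78) (nat_lit 152) (nat_lit 0) (XT.lf (nat_lit 0) (nat_lit 146193694453) (nat_lit 228) (nat_lit 35932906990) (nat_lit 76) (nat_lit 107394018157) (nat_lit 25) (nat_lit 5) (nat_lit 28) (nat_lit 5) (nat_lit 26) (nat_lit 5) (nat_lit 364) (nat_lit 320) (nat_lit 96)) (XT.nd (nat_lit 37206) (nat_lit 0) (nat_lit 4636) (XT.lf (nat_lit 0) (nat_lit 87578577591) (nat_lit 152) (nat_lit 112058540305) (nat_lit 228) (nat_lit 100499920271) (nat_lit 23) (nat_lit 5) (nat_lit 25) (nat_lit 5) (nat_lit 26) (nat_lit 5) (nat_lit 365) (nat_lit 320) (nat_lit 95)) (XT.lf (nat_lit 0) (nat_lit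 14874283840) (nat_lit 0) (nat_lit 14874283840) (nat_lit 684) (nat_lit 10385448484) (nat_lit 84) (nat_lit 5) (nat_lit 84) (nat_lit 3) (nat_lit 93) (nat_lit 3) (nat_lit 321) (nat_lit 321) (nat_lit 138))))))) (XT.nd (nat_lit 780) (nat_lit 1368) (nat_lit 0) (XT.nd (nat_lit 390) (nat_lit 532) (nat_lit 0) (XT.nd (nat_lit 156) (nat_lit 0) (nat_lit 0) (XT.nd (nat_lit 78) (nat_lit 0) (nat_lit 0) (XT.lf (nat_lit 0) (nat_lit 61096969874) (nat_lit 684) (nat_lit 14788833480) (nat_lit 760) (nat_lit 6383287526) (nat_lit 84) (nat_lit 5) (nat_lit 93) (nat_lit 3) (nat_lit 94) (nat_lit 5) (nat_lit 322) (nat_lit 321) (nat_lit 137)) (XT.lf (nat_lit 76) (nat_lit 22975674035) (nat_lit 0) (nat_lit 40646917986) (nat_lit 760) (nat_lit 20705321946) (nat_lit 85) (nat_lit 5) (nat_lit 84) (nat_lit 5) (nat_lit 94) (nat_lit 5) (nat_lit 323) (nat_lit 321) (nat_lit 136))) (XT.nd (nat_lit 78) (nat_lit 0) (nat_lit 76)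 (XT.lf (nat_lit 76) (nat_lit 63141508469) (nat_lit 0) (nat_lit 3382866046) (nat_lit 760) (nat_lit 19952811071) (nat_lit 85) (nat_lit 5) (nat_lit 84) (nat_lit 5) (nat_lit 94) (nat_lit 5) (nat_lit 324) (nat_lit 321) (nat_lit 135)) (XT.nd (nat_lit 78) (nat_lit 0) (nat_lit 0) (XT.lf (nat_lit 76) (nat_lit 16553096370) (nat_lit 0) (nat_lit 53834114340) (nat_lit 760) (nat_lit 18305913120) (nat_lit 86) (nat_lit 5) (nat_lit 85) (nat_lit 5) (nat_lit 95) (nat_lit 5) (nat_lit 325) (nat_lit 321) (nat_lit 134)) (XT.lf (nat_lit 76) (nat_lit 59188835868) (nat_lit 0) (nat_lit 15703591075) (nat_lit 760) (nat_lit 16104971348) (nat_lit 86) (nat_lit 5) (nat_lit 85) (nat_lit 5) (nat_lit 95) (nat_lit 5) (nat_lit 326) (nat_lit 321) (nat_lit 133))))) (XT.nd (nat_lit 156) (nat_lit 684) (nat_lit 0) (XT.nd (nat_lit 78) (nat_lit 0) (nat_lit 0) (XT.lf (nat_lit 76) (nat_lit 10495114940) (nat_lit 0) (nat_lit 69671063266)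 (nat_lit 760) (nat_lit 13223545713) (nat_lit 87) (nat_lit 5) (nat_lit 86) (nat_lit 5) (nat_lit 96) (nat_lit 5) (nat_lit 327) (nat_lit 321) (nat_lit 132)) (XT.lf (nat_lit 76) (nat_lit 55751998805) (nat_lit 0) (nat_lit 30743116140) (nat_lit 760) (nat_lit 9366977088) (nat_lit 87) (nat_lit 5) (nat_lit 86) (nat_lit 5) (nat_lit 96) (nat_lit 5) (nat_lit 328) (nat_lit 321) (nat_lit 131))) (XT.nd (nat_lit 78) (nat_lit 760) (nat_lit 0) (XT.lf (nat_lit 76) (nat_lit 4809030469) (nat_lit 0) (nat_lit 88564272881) (nat_lit 760) (nat_lit 5073136011) (nat_lit 88) (nat_lit 5) (nat_lit 87) (nat_lit 5) (nat_lit 97) (nat_lit 5) (nat_lit 329) (nat_lit 321) (nat_lit 130)) (XT.nd (nat_lit 78) (nat_lit 0) (nat_lit 0) (XT.lf (nat_lit 0) (nat_lit 647426563) (nat_lit 760) (nat_lit 48266073813) (nat_lit 836) (nat_lit 52187247450) (nat_lit 77) (nat_lit 5) (nat_lit 87) (nat_lit 5) (nat_lit 88) (nat_lit 5) (nat_lit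 330) (nat_lit 321) (nat_lit 129)) (XT.lf (nat_lit 0) (nat_lit 6483101369) (nat_lit 760) (nat_lit 709690419) (nat_lit 836) (nat_lit 96690843786) (nat_lit 77) (nat_lit 5) (nat_lit 87) (nat_lit 5) (nat_lit 88) (nat_lit 5) (nat_lit 331) (nat_lit 321) (nat_lit 128)))))) (XT.nd (nat_lit 390) (nat_lit 608) (nat_lit 0) (XT.nd (nat_lit 156) (nat_lit 836) (nat_lit 0) (XT.nd (nat_lit 78) (nat_lit 0) (nat_lit 0) (XT.lf (nat_lit 0) (nat_lit 13988756113) (nat_lit 760) (nat_lit 56498904556) (nat_lit 76) (nat_lit 36249098095) (nat_lit 78) (nat_lit 5) (nat_lit 88) (nat_lit 5) (nat_lit 79) (nat_lit 5) (nat_lit 332) (nat_lit 321) (nat_lit 127)) (XT.lf (nat_lit 0) (nat_lit 21999434267) (nat_lit 760) (nat_lit 6092985304) (nat_lit 76) (nat_lit 81633632329) (nat_lit 78) (nat_lit 5) (nat_lit 88) (nat_lit 5) (nat_lit 79) (nat_lit 5) (nat_lit 333) (nat_lit 321) (nat_lit 126))) (XT.nd (nat_lit 78) (nat_lit 380)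 (nat_lit 0) (XT.lf (nat_lit 0) (nat_lit 31434430478) (nat_lit 532) (nat_lit 64714444551) (nat_lit 76) (nat_lit 16664746240) (nat_lit 72) (nat_lit 5) (nat_lit 79) (nat_lit 5) (nat_lit 73) (nat_lit 5) (nat_lit 334) (nat_lit 321) (nat_lit 125)) (XT.nd (nat_lit 78) (nat_lit 380) (nat_lit 0) (XT.lf (nat_lit 0) (nat_lit 41906228867) (nat_lit 532) (nat_lit 11300499678) (nat_lit 76) (nat_lit 62820588687) (nat_lit 72) (nat_lit 5) (nat_lit 79) (nat_lit 5) (nat_lit 73) (nat_lit 5) (nat_lit 335) (nat_lit 321) (nat_lit 124)) (XT.lf (nat_lit 0) (nat_lit 46264565636) (nat_lit 380) (nat_lit 7359029774) (nat_lit 456) (nat_lit 65742004383) (nat_lit 67) (nat_lit 5) (nat_lit 72) (nat_lit 5) (nat_lit 73) (nat_lit 5) (nat_lit 336) (nat_lit 321) (nat_lit 123))))) (XT.nd (nat_lit 156) (nat_lit 304) (nat_lit 0) (XT.nd (nat_lit 78) (nat_lit 304) (nat_lit 0) (XT.lf (nat_lit 0) (nat_lit 66757723540) (nat_lit 456)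 (nat_lit 16401203085) (nat_lit 76) (nat_lit 39670325868) (nat_lit 67) (nat_lit 5) (nat_lit 73) (nat_lit 5) (nat_lit 68) (nat_lit 5) (nat_lit 337) (nat_lit 321) (nat_lit 122)) (XT.lf (nat_lit 0) (nat_lit 44434844896) (nat_lit 304) (nat_lit 36927791109) (nat_lit 380) (nat_lit 45062748571) (nat_lit 63) (nat_lit 5) (nat_lit 67) (nat_lit 5) (nat_lit 68) (nat_lit 5) (nat_lit 338) (nat_lit 321) (nat_lit 121))) (XT.nd (nat_lit 78) (nat_lit 304) (nat_lit 0) (XT.lf (nat_lit 0) (nat_lit 97161146347) (nat_lit 380) (nat_lit 21491559401) (nat_lit 76) (nat_lit 11525450515) (nat_lit 63) (nat_lit 5) (nat_lit 68) (nat_lit 5) (nat_lit 64) (nat_lit 5) (nat_lit 339) (nat_lit 321) (nat_lit 120)) (XT.nd (nat_lit 78) (nat_lit 0) (nat_lit 0) (XT.lf (nat_lit 0) (nat_lit 42796427671) (nat_lit 304) (nat_lit 72226410147) (nat_lit 380) (nat_lit 19032066522) (nat_lit 59) (nat_lit 5) (nat_lit 63) (nat_lit 5) (nat_lit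 64) (nat_lit 5) (nat_lit 340) (nat_lit 321) (nat_lit 119)) (XT.lf (nat_lit 0) (nat_lit 111044636146) (nat_lit 304) (nat_lit 23096666365) (nat_lit 380) (nat_lit 3966003430) (nat_lit 59) (nat_lit 5) (nat_lit 63) (nat_lit 5) (nat_lit 64) (nat_lit 5) (nat_lit 341) (nat_lit 321) (nat_lit 118))))))))
noncomputable def xc243 : XT := (XT.nd (nat_lit 1560) (nat_lit 228) (nat_lit 0) (XT.nd (nat_lit 780) (nat_lit 988) (nat_lit 0) (XT.nd (nat_lit 390) (nat_lit 532) (nat_lit 0) (XT.nd (nat_lit 156) (nat_lit 532) (nat_lit 0) (XT.nd (nat_lit 78) (nat_lit 0) (nat_lit 0) (XT.lf (nat_lit 0) (nat_lit 12579864086) (nat_lit 304) (nat_lit 101293814279) (nat_lit 76) (nat_lit 28424102408) (nat_lit 55) (nat_lit 5) (nat_lit 59) (nat_lit 5) (nat_lit 56) (nat_lit 5) (nat_lit 342) (nat_lit 321) (nat_lit 117)) (XT.lf (nat_lit 0) (nat_lit 30663942729) (nat_lit 304) (nat_lit 33712856625) (nat_lit 76) (nat_lit 82275519576)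 (nat_lit 55) (nat_lit 5) (nat_lit 59) (nat_lit 5) (nat_lit 56) (nat_lit 5) (nat_lit 343) (nat_lit 321) (nat_lit 116))) (XT.nd (nat_lit 78) (nat_lit 228) (nat_lit 0) (XT.lf (nat_lit 0) (nat_lit 38478394134) (nat_lit 304) (nat_lit 11774334127) (nat_lit 380) (nat_lit 100941831044) (nat_lit 51) (nat_lit 5) (nat_lit 55) (nat_lit 5) (nat_lit 56) (nat_lit 5) (nat_lit 344) (nat_lit 321) (nat_lit 115)) (XT.nd (nat_lit 78) (nat_lit 228) (nat_lit 0) (XT.lf (nat_lit 0) (nat_lit 72079515397) (nat_lit 380) (nat_lit 41173898363) (nat_lit 76) (nat_lit 42647570257) (nat_lit 51) (nat_lit 5) (nat_lit 56) (nat_lit 5) (nat_lit 52) (nat_lit 5) (nat_lit 345) (nat_lit 321) (nat_lit 114)) (XT.lf (nat_lit 0) (nat_lit 34868163023) (nat_lit 228) (nat_lit 60866656114) (nat_lit 304) (nat_lit 65071052381) (nat_lit 48) (nat_lit 5) (nat_lit 51) (nat_lit 5) (nat_lit 52) (nat_lit 5) (nat_lit 346) (nat_lit 321) (nat_lit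 113))))) (XT.nd (nat_lit 156) (nat_lit 304) (nat_lit 0) (XT.nd (nat_lit 78) (nat_lit 228) (nat_lit 0) (XT.lf (nat_lit 0) (nat_lit 116141501166) (nat_lit 228) (nat_lit 5128459040) (nat_lit 304) (nat_lit 44651189976) (nat_lit 48) (nat_lit 5) (nat_lit 51) (nat_lit 5) (nat_lit 52) (nat_lit 5) (nat_lit 347) (nat_lit 321) (nat_lit 112)) (XT.lf (nat_lit 0) (nat_lit 30322876011) (nat_lit 228) (nat_lit 119065860863) (nat_lit 304) (nat_lit 21838112355) (nat_lit 45) (nat_lit 5) (nat_lit 48) (nat_lit 5) (nat_lit 49) (nat_lit 5) (nat_lit 348) (nat_lit 321) (nat_lit 111))) (XT.nd (nat_lit 78) (nat_lit 228) (nat_lit 0) (XT.lf (nat_lit 0) (nat_lit 2988626321) (nat_lit 304) (nat_lit 60728131364) (nat_lit 76) (nat_lit 113032388336) (nat_lit 44) (nat_lit 5) (nat_lit 48) (nat_lit 5) (nat_lit 45) (nat_lit 5) (nat_lit 349) (nat_lit 321) (nat_lit 110)) (XT.nd (nat_lit 78) (nat_lit 0) (nat_lit 0) (XT.lf (nat_lit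 0) (nat_lit 23861955828) (nat_lit 228) (nat_lit 4833188893) (nat_lit 304) (nat_lit 153815895837) (nat_lit 41) (nat_lit 5) (nat_lit 44) (nat_lit 5) (nat_lit 45) (nat_lit 5) (nat_lit 350) (nat_lit 321) (nat_lit 109)) (XT.lf (nat_lit 0) (nat_lit 57621953089) (nat_lit 304) (nat_lit 74626701861) (nat_lit 76) (nat_lit 56215626979) (nat_lit 41) (nat_lit 5) (nat_lit 45) (nat_lit 5) (nat_lit 42) (nat_lit 5) (nat_lit 351) (nat_lit 321) (nat_lit 108)))))) (XT.nd (nat_lit 390) (nat_lit 532) (nat_lit 0) (XT.nd (nat_lit 156) (nat_lit 228) (nat_lit 0) (XT.nd (nat_lit 78) (nat_lit 0) (nat_lit 0) (XT.lf (nat_lit 0) (nat_lit 13964242674) (nat_lit 228) (nat_lit 74327921311) (nat_lit 304) (nat_lit 106408168574) (nat_lit 38) (nat_lit 5) (nat_lit 41) (nat_lit 5) (nat_lit 42) (nat_lit 5) (nat_lit 352) (nat_lit 321) (nat_lit 107)) (XT.lf (nat_lit 0) (nat_lit 109575341488) (nat_lit 228) (nat_lit 12184196790)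 (nat_lit 304) (nat_lit 79425465080) (nat_lit 38) (nat_lit 5) (nat_lit 41) (nat_lit 5) (nat_lit 42) (nat_lit 5) (nat_lit 353) (nat_lit 321) (nat_lit 106))) (XT.nd (nat_lit 78) (nat_lit 76) (nat_lit 0) (XT.lf (nat_lit 0) (nat_lit 1182144448) (nat_lit 152) (nat_lit 156564934828) (nat_lit 228) (nat_lit 50204488789) (nat_lit 36) (nat_lit 5) (nat_lit 38) (nat_lit 5) (nat_lit 39) (nat_lit 5) (nat_lit 354) (nat_lit 321) (nat_lit 105)) (XT.nd (nat_lit 78) (nat_lit 76) (nat_lit 0) (XT.lf (nat_lit 0) (nat_lit 101587421613) (nat_lit 152) (nat_lit 95694374774) (nat_lit 228) (nat_lit 17687274920) (nat_lit 36) (nat_lit 5) (nat_lit 38) (nat_lit 5) (nat_lit 39) (nat_lit 5) (nat_lit 355) (nat_lit 321) (nat_lit 104)) (XT.lf (nat_lit 0) (nat_lit 15928942435) (nat_lit 228) (nat_lit 15581656707) (nat_lit 76) (nat_lit 190814013187) (nat_lit 35) (nat_lit 5) (nat_lit 38) (nat_lit 5) (nat_lit 36) (nat_lit 5)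 (nat_lit 356) (nat_lit 321) (nat_lit 103))))) (XT.nd (nat_lit 156) (nat_lit 304) (nat_lit 0) (XT.nd (nat_lit 78) (nat_lit 0) (nat_lit 0) (XT.lf (nat_lit 0) (nat_lit 52619626157) (nat_lit 304) (nat_lit 140862614472) (nat_lit 76) (nat_lit 36451789032) (nat_lit 32) (nat_lit 5) (nat_lit 36) (nat_lit 5) (nat_lit 33) (nat_lit 5) (nat_lit 357) (nat_lit 321) (nat_lit 102)) (XT.lf (nat_lit 0) (nat_lit 91929462136) (nat_lit 304) (nat_lit 38933755936) (nat_lit 76) (nat_lit 107021469091) (nat_lit 32) (nat_lit 5) (nat_lit 36) (nat_lit 5) (nat_lit 33) (nat_lit 5) (nat_lit 358) (nat_lit 321) (nat_lit 101))) (XT.nd (nat_lit 78) (nat_lit 152) (nat_lit 0) (XT.lf (nat_lit 0) (nat_lit 70342723703) (nat_lit 152) (nat_lit 63960162813) (nat_lit 228) (nat_lit 111875086397) (nat_lit 30) (nat_lit 5) (nat_lit 32) (nat_lit 5) (nat_lit 33) (nat_lit 5) (nat_lit 359) (nat_lit 321) (nat_lit 100)) (XT.nd (nat_lit 78)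 (nat_lit 152) (nat_lit 0) (XT.lf (nat_lit 0) (nat_lit 179563179324) (nat_lit 228) (nat_lit 68527449566) (nat_lit 76) (nat_lit 6756884388) (nat_lit 30) (nat_lit 5) (nat_lit 33) (nat_lit 5) (nat_lit 31) (nat_lit 5) (nat_lit 360) (nat_lit 321) (nat_lit 99)) (XT.lf (nat_lit 0) (nat_lit 44521974101) (nat_lit 152) (nat_lit 184308011758) (nat_lit 228) (nat_lit 35033370029) (nat_lit 28) (nat_lit 5) (nat_lit 30) (nat_lit 5) (nat_lit 31) (nat_lit 5) (nat_lit 361) (nat_lit 321) (nat_lit 98))))))) (XT.nd (nat_lit 38064) (nat_lit 0) (nat_lit 2888) (XT.nd (nat_lit 37674) (nat_lit 0) (nat_lit 4484) (XT.nd (nat_lit 156) (nat_lit 0) (nat_lit 0) (XT.nd (nat_lit 78) (nat_lit 152) (nat_lit 0) (XT.lf (nat_lit 0) (nat_lit 8178163197) (nat_lit 228) (nat_lit 107801105373) (nat_lit 76) (nat_lit 157286106544) (nat_lit 27) (nat_lit 5) (nat_lit 30) (nat_lit 5) (nat_lit 28) (nat_lit 5) (nat_lit 362) (nat_lit 321)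 (nat_lit 97)) (XT.lf (nat_lit 0) (nat_lit 9030695335) (nat_lit 152) (nat_lit 43483087872) (nat_lit 228) (nat_lit 230587953318) (nat_lit 25) (nat_lit 5) (nat_lit 27) (nat_lit 5) (nat_lit 28) (nat_lit 5) (nat_lit 363) (nat_lit 321) (nat_lit 96))) (XT.nd (nat_lit 37362) (nat_lit 0) (nat_lit 4484) (XT.lf (nat_lit 0) (nat_lit 101431214666) (nat_lit 228) (nat_lit 158431646505) (nat_lit 76) (nat_lit 33448803463) (nat_lit 25) (nat_lit 5) (nat_lit 28) (nat_lit 5) (nat_lit 26) (nat_lit 5) (nat_lit 364) (nat_lit 321) (nat_lit 95)) (XT.nd (nat_lit 78) (nat_lit 0) (nat_lit 0) (XT.lf (nat_lit 0) (nat_lit 15622649201) (nat_lit 0) (nat_lit 15622649201) (nat_lit 684) (nat_lit 10894931844) (nat_lit 84) (nat_lit 5) (nat_lit 84) (nat_lit 3) (nat_lit 93) (nat_lit 3) (nat_lit 322) (nat_lit 322) (nat_lit 136)) (XT.lf (nat_lit 0) (nat_lit 64169398788) (nat_lit 684) (nat_lit 15518350369) (nat_lit 760) (nat_lit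 6693876087) (nat_lit 84) (nat_lit 5) (nat_lit 93) (nat_lit 3) (nat_lit 94) (nat_lit 5) (nat_lit 323) (nat_lit 322) (nat_lit 135))))) (XT.nd (nat_lit 156) (nat_lit 0) (nat_lit 76) (XT.nd (nat_lit 78) (nat_lit 0) (nat_lit 0) (XT.lf (nat_lit 76) (nat_lit 24134222446) (nat_lit 0) (nat_lit 42686394888) (nat_lit 760) (nat_lit 21722808347) (nat_lit 85) (nat_lit 5) (nat_lit 84) (nat_lit 5) (nat_lit 94) (nat_lit 5) (nat_lit 324) (nat_lit 322) (nat_lit 134)) (XT.lf (nat_lit 76) (nat_lit 66307883615) (nat_lit 0) (nat_lit 3558800779) (nat_lit 760) (nat_lit 20933518580) (nat_lit 85) (nat_lit 5) (nat_lit 84) (nat_lit 5) (nat_lit 94) (nat_lit 5) (nat_lit 325) (nat_lit 322) (nat_lit 133))) (XT.nd (nat_lit 78) (nat_lit 0) (nat_lit 0) (XT.lf (nat_lit 76) (nat_lit 17390833550) (nat_lit 0) (nat_lit 56531119034) (nat_lit 760) (nat_lit 19205022816) (nat_lit 86) (nat_lit 5) (nat_lit 85) (nat_lit 5) (nat_lit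 95) (nat_lit 5) (nat_lit 326) (nat_lit 322) (nat_lit 132)) (XT.nd (nat_lit 78) (nat_lit 0) (nat_lit 76) (XT.lf (nat_lit 76) (nat_lit 62157879910) (nat_lit 0) (nat_lit 16493817273) (nat_lit 760) (nat_lit 16894804715) (nat_lit 86) (nat_lit 5) (nat_lit 85) (nat_lit 5) (nat_lit 95) (nat_lit 5) (nat_lit 327) (nat_lit 322) (nat_lit 131)) (XT.lf (nat_lit 76) (nat_lit 11030149529) (nat_lit 0) (nat_lit 73158374355) (nat_lit 760) (nat_lit 13869952142) (nat_lit 87) (nat_lit 5) (nat_lit 86) (nat_lit 5) (nat_lit 96) (nat_lit 5) (nat_lit 328) (nat_lit 322) (nat_lit 130)))))) (XT.nd (nat_lit 390) (nat_lit 1064) (nat_lit 0) (XT.nd (nat_lit 156) (nat_lit 684) (nat_lit 0) (XT.nd (nat_lit 78) (nat_lit 0) (nat_lit 76) (XT.lf (nat_lit 76) (nat_lit 58549388119) (nat_lit 0) (nat_lit 32283850925) (nat_lit 760) (nat_lit 9821258460) (nat_lit 87) (nat_lit 5) (nat_lit 86) (nat_lit 5) (nat_lit 96) (nat_lit 5) (nat_lit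 329) (nat_lit 322) (nat_lit 129)) (XT.lf (nat_lit 76) (nat_lit 5059856304) (nat_lit 0) (nat_lit 92994952731) (nat_lit 760) (nat_lit 5313281016) (nat_lit 88) (nat_lit 5) (nat_lit 87) (nat_lit 5) (nat_lit 97) (nat_lit 5) (nat_lit 330) (nat_lit 322) (nat_lit 128))) (XT.nd (nat_lit 78) (nat_lit 0) (nat_lit 0) (XT.lf (nat_lit 0) (nat_lit 692254399) (nat_lit 760) (nat_lit 50669058806) (nat_lit 836) (nat_lit 54793822655) (nat_lit 77) (nat_lit 5) (nat_lit 87) (nat_lit 5) (nat_lit 88) (nat_lit 5) (nat_lit 331) (nat_lit 322) (nat_lit 127)) (XT.nd (nat_lit 78) (nat_lit 0) (nat_lit 76) (XT.lf (nat_lit 0) (nat_lit 6819119779) (nat_lit 760) (nat_lit 735347609) (nat_lit 836) (nat_lit 101522731530) (nat_lit 77) (nat_lit 5) (nat_lit 87) (nat_lit 5) (nat_lit 88) (nat_lit 5) (nat_lit 332) (nat_lit 322) (nat_lit 126)) (XT.lf (nat_lit 0) (nat_lit 14699615496) (nat_lit 760) (nat_lit 59313556625) (nat_lit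 76) (nat_lit 38059829437) (nat_lit 78) (nat_lit 5) (nat_lit 88) (nat_lit 5) (nat_lit 79) (nat_lit 5) (nat_lit 333) (nat_lit 322) (nat_lit 125))))) (XT.nd (nat_lit 234) (nat_lit 684) (nat_lit 0) (XT.nd (nat_lit 78) (nat_lit 456) (nat_lit 0) (XT.lf (nat_lit 0) (nat_lit 23110283674) (nat_lit 760) (nat_lit 6387831560) (nat_lit 76) (nat_lit 85713672457) (nat_lit 78) (nat_lit 5) (nat_lit 88) (nat_lit 5) (nat_lit 79) (nat_lit 5) (nat_lit 334) (nat_lit 322) (nat_lit 124)) (XT.nd (nat_lit 78) (nat_lit 0) (nat_lit 0) (XT.lf (nat_lit 0) (nat_lit 33016648782) (nat_lit 532) (nat_lit 67939961029) (nat_lit 76) (nat_lit 17497145854) (nat_lit 72) (nat_lit 5) (nat_lit 79) (nat_lit 5) (nat_lit 73) (nat_lit 5) (nat_lit 335) (nat_lit 322) (nat_lit 123)) (XT.lf (nat_lit 0) (nat_lit 44011537244) (nat_lit 532) (nat_lit 11855804902) (nat_lit 76) (nat_lit 65960820314) (nat_lit 72) (nat_lit 5) (nat_lit 79) (nat_lit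 5) (nat_lit 73) (nat_lit 5) (nat_lit 336) (nat_lit 322) (nat_lit 122)))) (XT.nd (nat_lit 78) (nat_lit 304) (nat_lit 0) (XT.lf (nat_lit 0) (nat_lit 48587356908) (nat_lit 380) (nat_lit 7727088466) (nat_lit 456) (nat_lit 69018931099) (nat_lit 67) (nat_lit 5) (nat_lit 72) (nat_lit 5) (nat_lit 73) (nat_lit 5) (nat_lit 337) (nat_lit 322) (nat_lit 121)) (XT.nd (nat_lit 78) (nat_lit 304) (nat_lit 0) (XT.lf (nat_lit 0) (nat_lit 70104817832) (nat_lit 456) (nat_lit 17211674694) (nat_lit 76) (nat_lit 41653743330) (nat_lit 67) (nat_lit 5) (nat_lit 73) (nat_lit 5) (nat_lit 68) (nat_lit 5) (nat_lit 338) (nat_lit 322) (nat_lit 120)) (XT.lf (nat_lit 0) (nat_lit 46666021032) (nat_lit 304) (nat_lit 38773663696) (nat_lit 380) (nat_lit 47306505274) (nat_lit 63) (nat_lit 5) (nat_lit 67) (nat_lit 5) (nat_lit 68) (nat_lit 5) (nat_lit 339) (nat_lit 322) (nat_lit 119))))))))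
noncomputable def xc244 : XT := (XT.nd (nat_lit 1560) (nat_lit 380) (nat_lit 0) (XT.nd (nat_lit 780) (nat_lit 988) (nat_lit 0) (XT.nd (nat_lit 390) (nat_lit 760) (nat_lit 0) (XT.nd (nat_lit 156) (nat_lit 304) (nat_lit 0) (XT.nd (nat_lit 78) (nat_lit 304) (nat_lit 0) (XT.lf (nat_lit 0) (nat_lit 102027703659) (nat_lit 380) (nat_lit 22556718682) (nat_lit 76) (nat_lit 12102199634) (nat_lit 63) (nat_lit 5) (nat_lit 68) (nat_lit 5) (nat_lit 64) (nat_lit 5) (nat_lit 340) (nat_lit 322) (nat_lit 118)) (XT.lf (nat_lit 0) (nat_lit 44945515829) (nat_lit 304) (nat_lit 75836703792) (nat_lit 380) (nat_lit 19975001651) (nat_lit 59) (nat_lit 5) (nat_lit 63) (nat_lit 5) (nat_lit 64) (nat_lit 5) (nat_lit 341) (nat_lit 322) (nat_lit 117))) (XT.nd (nat_lit 78) (nat_lit 304) (nat_lit 0) (XT.lf (nat_lit 0) (nat_lit 116605693453) (nat_lit 304) (nat_lit 24250521720) (nat_lit 380) (nat_lit 4156048176) (nat_lit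 59) (nat_lit 5) (nat_lit 63) (nat_lit 5) (nat_lit 64) (nat_lit 5) (nat_lit 342) (nat_lit 322) (nat_lit 116)) (XT.nd (nat_lit 78) (nat_lit 0) (nat_lit 0) (XT.lf (nat_lit 0) (nat_lit 13216626658) (nat_lit 304) (nat_lit 106349164592) (nat_lit 76) (nat_lit 29846476024) (nat_lit 55) (nat_lit 5) (nat_lit 59) (nat_lit 5) (nat_lit 56) (nat_lit 5) (nat_lit 343) (nat_lit 322) (nat_lit 115)) (XT.lf (nat_lit 0) (nat_lit 32204539264) (nat_lit 304) (nat_lit 35389603835) (nat_lit 76) (nat_lit 86390408408) (nat_lit 55) (nat_lit 5) (nat_lit 59) (nat_lit 5) (nat_lit 56) (nat_lit 5) (nat_lit 344) (nat_lit 322) (nat_lit 114))))) (XT.nd (nat_lit 156) (nat_lit 456) (nat_lit 0) (XT.nd (nat_lit 78) (nat_lit 0) (nat_lit 0) (XT.lf (nat_lit 0) (nat_lit 40411065983) (nat_lit 304) (nat_lit 12361482381) (nat_lit 380) (nat_lit 105981366959) (nat_lit 51) (nat_lit 5) (nat_lit 55) (nat_lit 5) (nat_lit 56) (nat_lit 5)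 (nat_lit 345) (nat_lit 322) (nat_lit 113)) (XT.lf (nat_lit 0) (nat_lit 75690356099) (nat_lit 380) (nat_lit 43223926994) (nat_lit 76) (nat_lit 44781394724) (nat_lit 51) (nat_lit 5) (nat_lit 56) (nat_lit 5) (nat_lit 52) (nat_lit 5) (nat_lit 346) (nat_lit 322) (nat_lit 112))) (XT.nd (nat_lit 78) (nat_lit 228) (nat_lit 0) (XT.lf (nat_lit 0) (nat_lit 36620097682) (nat_lit 228) (nat_lit 63908133565) (nat_lit 304) (nat_lit 68317588713) (nat_lit 48) (nat_lit 5) (nat_lit 51) (nat_lit 5) (nat_lit 52) (nat_lit 5) (nat_lit 347) (nat_lit 322) (nat_lit 111)) (XT.nd (nat_lit 78) (nat_lit 228) (nat_lit 0) (XT.lf (nat_lit 0) (nat_lit 121956696708) (nat_lit 228) (nat_lit 5383114988) (nat_lit 304) (nat_lit 46877067297) (nat_lit 48) (nat_lit 5) (nat_lit 51) (nat_lit 5) (nat_lit 52) (nat_lit 5) (nat_lit 348) (nat_lit 322) (nat_lit 110)) (XT.lf (nat_lit 0) (nat_lit 31847305574) (nat_lit 228) (nat_lit 125017074715)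 (nat_lit 304) (nat_lit 22923490573) (nat_lit 45) (nat_lit 5) (nat_lit 48) (nat_lit 5) (nat_lit 49) (nat_lit 5) (nat_lit 349) (nat_lit 322) (nat_lit 109)))))) (XT.nd (nat_lit 390) (nat_lit 456) (nat_lit 0) (XT.nd (nat_lit 156) (nat_lit 228) (nat_lit 0) (XT.nd (nat_lit 78) (nat_lit 228) (nat_lit 0) (XT.lf (nat_lit 0) (nat_lit 3144075239) (nat_lit 304) (nat_lit 63756438237) (nat_lit 76) (nat_lit 118685779443) (nat_lit 44) (nat_lit 5) (nat_lit 48) (nat_lit 5) (nat_lit 45) (nat_lit 5) (nat_lit 350) (nat_lit 322) (nat_lit 108)) (XT.lf (nat_lit 0) (nat_lit 25063022674) (nat_lit 228) (nat_lit 5072734752) (nat_lit 304) (nat_lit 161500533317) (nat_lit 41) (nat_lit 5) (nat_lit 44) (nat_lit 5) (nat_lit 45) (nat_lit 5) (nat_lit 351) (nat_lit 322) (nat_lit 107))) (XT.nd (nat_lit 78) (nat_lit 228) (nat_lit 0) (XT.lf (nat_lit 0) (nat_lit 60508658807) (nat_lit 304) (nat_lit 78350191336) (nat_lit 76)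 (nat_lit 59028356841) (nat_lit 41) (nat_lit 5) (nat_lit 45) (nat_lit 5) (nat_lit 42) (nat_lit 5) (nat_lit 352) (nat_lit 322) (nat_lit 106)) (XT.nd (nat_lit 78) (nat_lit 0) (nat_lit 0) (XT.lf (nat_lit 0) (nat_lit 14670173883) (nat_lit 228) (nat_lit 78042059830) (nat_lit 304) (nat_lit 111722834170) (nat_lit 38) (nat_lit 5) (nat_lit 41) (nat_lit 5) (nat_lit 42) (nat_lit 5) (nat_lit 353) (nat_lit 322) (nat_lit 105)) (XT.lf (nat_lit 0) (nat_lit 115061460063) (nat_lit 228) (nat_lit 12791256586) (nat_lit 304) (nat_lit 83391268969) (nat_lit 38) (nat_lit 5) (nat_lit 41) (nat_lit 5) (nat_lit 42) (nat_lit 5) (nat_lit 354) (nat_lit 322) (nat_lit 104))))) (XT.nd (nat_lit 156) (nat_lit 304) (nat_lit 0) (XT.nd (nat_lit 78) (nat_lit 0) (nat_lit 0) (XT.lf (nat_lit 0) (nat_lit 1248715158) (nat_lit 152) (nat_lit 164390820345) (nat_lit 228) (nat_lit 52709348389) (nat_lit 36) (nat_lit 5) (nat_lit 38) (nat_lit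 5) (nat_lit 39) (nat_lit 5) (nat_lit 355) (nat_lit 322) (nat_lit 103)) (XT.lf (nat_lit 0) (nat_lit 106673900778) (nat_lit 152) (nat_lit 100476844729) (nat_lit 228) (nat_lit 18566529296) (nat_lit 36) (nat_lit 5) (nat_lit 38) (nat_lit 5) (nat_lit 39) (nat_lit 5) (nat_lit 356) (nat_lit 322) (nat_lit 102))) (XT.nd (nat_lit 78) (nat_lit 228) (nat_lit 0) (XT.lf (nat_lit 0) (nat_lit 16730099880) (nat_lit 228) (nat_lit 16353807749) (nat_lit 76) (nat_lit 200356693356) (nat_lit 35) (nat_lit 5) (nat_lit 38) (nat_lit 5) (nat_lit 36) (nat_lit 5) (nat_lit 357) (nat_lit 322) (nat_lit 101)) (XT.nd (nat_lit 78) (nat_lit 0) (nat_lit 0) (XT.lf (nat_lit 0) (nat_lit 55255234744) (nat_lit 304) (nat_lit 147898724218) (nat_lit 76) (nat_lit 38276534680) (nat_lit 32) (nat_lit 5) (nat_lit 36) (nat_lit 5) (nat_lit 33) (nat_lit 5) (nat_lit 358) (nat_lit 322) (nat_lit 100)) (XT.lf (nat_lit 0) (nat_lit 96530342175)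 (nat_lit 304) (nat_lit 40873757088) (nat_lit 76) (nat_lit 112374596066) (nat_lit 32) (nat_lit 5) (nat_lit 36) (nat_lit 5) (nat_lit 33) (nat_lit 5) (nat_lit 359) (nat_lit 322) (nat_lit 99))))))) (XT.nd (nat_lit 38220) (nat_lit 0) (nat_lit 3040) (XT.nd (nat_lit 37830) (nat_lit 0) (nat_lit 4332) (XT.nd (nat_lit 156) (nat_lit 228) (nat_lit 0) (XT.nd (nat_lit 78) (nat_lit 0) (nat_lit 0) (XT.lf (nat_lit 0) (nat_lit 73866438684) (nat_lit 152) (nat_lit 67155891949) (nat_lit 228) (nat_lit 117464320368) (nat_lit 30) (nat_lit 5) (nat_lit 32) (nat_lit 5) (nat_lit 33) (nat_lit 5) (nat_lit 360) (nat_lit 322) (nat_lit 98)) (XT.lf (nat_lit 0) (nat_lit 188545467216) (nat_lit 228) (nat_lit 71947380356) (nat_lit 76) (nat_lit 7096829620) (nat_lit 30) (nat_lit 5) (nat_lit 33) (nat_lit 5) (nat_lit 31) (nat_lit 5) (nat_lit 361) (nat_lit 322) (nat_lit 97))) (XT.nd (nat_lit 78) (nat_lit 76) (nat_lit 0) (XT.lf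 (nat_lit 0) (nat_lit 46754410595) (nat_lit 152) (nat_lit 193521105818) (nat_lit 228) (nat_lit 36780800655) (nat_lit 28) (nat_lit 5) (nat_lit 30) (nat_lit 5) (nat_lit 31) (nat_lit 5) (nat_lit 362) (nat_lit 322) (nat_lit 96)) (XT.nd (nat_lit 37518) (nat_lit 0) (nat_lit 4332) (XT.lf (nat_lit 0) (nat_lit 8590978248) (nat_lit 228) (nat_lit 113184990892) (nat_lit 76) (nat_lit 165152474803) (nat_lit 27) (nat_lit 5) (nat_lit 30) (nat_lit 5) (nat_lit 28) (nat_lit 5) (nat_lit 363) (nat_lit 322) (nat_lit 95)) (XT.lf (nat_lit 0) (nat_lit 16408000409) (nat_lit 0) (nat_lit 16408000409) (nat_lit 684) (nat_lit 11430799467) (nat_lit 84) (nat_lit 5) (nat_lit 84) (nat_lit 3) (nat_lit 93) (nat_lit 3) (nat_lit 323) (nat_lit 323) (nat_lit 134))))) (XT.nd (nat_lit 156) (nat_lit 0) (nat_lit 0) (XT.nd (nat_lit 78) (nat_lit 0) (nat_lit 0) (XT.lf (nat_lit 0) (nat_lit 67393814686) (nat_lit 684) (nat_lit 16285265814)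 (nat_lit 760) (nat_lit 7020791375) (nat_lit 84) (nat_lit 5) (nat_lit 93) (nat_lit 3) (nat_lit 94) (nat_lit 5) (nat_lit 324) (nat_lit 323) (nat_lit 133)) (XT.lf (nat_lit 76) (nat_lit 25349790447) (nat_lit 0) (nat_lit 44827182663) (nat_lit 760) (nat_lit 22792822055) (nat_lit 85) (nat_lit 5) (nat_lit 84) (nat_lit 5) (nat_lit 94) (nat_lit 5) (nat_lit 325) (nat_lit 323) (nat_lit 132))) (XT.nd (nat_lit 78) (nat_lit 0) (nat_lit 76) (XT.lf (nat_lit 76) (nat_lit 69631712918) (nat_lit 0) (nat_lit 3742900847) (nat_lit 760) (nat_lit 21964835739) (nat_lit 85) (nat_lit 5) (nat_lit 84) (nat_lit 5) (nat_lit 94) (nat_lit 5) (nat_lit 326) (nat_lit 323) (nat_lit 131)) (XT.nd (nat_lit 78) (nat_lit 0) (nat_lit 0) (XT.lf (nat_lit 76) (nat_lit 18269520227) (nat_lit 0) (nat_lit 59362481314) (nat_lit 760) (nat_lit 20150592814) (nat_lit 86) (nat_lit 5) (nat_lit 85) (nat_lit 5) (nat_lit 95) (nat_lit 5) (nat_lit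 327) (nat_lit 323) (nat_lit 130)) (XT.lf (nat_lit 76) (nat_lit 65274483429) (nat_lit 0) (nat_lit 17323085592) (nat_lit 760) (nat_lit 17725562910) (nat_lit 86) (nat_lit 5) (nat_lit 85) (nat_lit 5) (nat_lit 95) (nat_lit 5) (nat_lit 328) (nat_lit 323) (nat_lit 129)))))) (XT.nd (nat_lit 390) (nat_lit 760) (nat_lit 0) (XT.nd (nat_lit 156) (nat_lit 684) (nat_lit 0) (XT.nd (nat_lit 78) (nat_lit 0) (nat_lit 0) (XT.lf (nat_lit 76) (nat_lit 11590980218) (nat_lit 0) (nat_lit 76819701623) (nat_lit 760) (nat_lit 14550052147) (nat_lit 87) (nat_lit 5) (nat_lit 86) (nat_lit 5) (nat_lit 96) (nat_lit 5) (nat_lit 329) (nat_lit 323) (nat_lit 128)) (XT.lf (nat_lit 76) (nat_lit 61485736775) (nat_lit 0) (nat_lit 33901289709) (nat_lit 760) (nat_lit 10299561762) (nat_lit 87) (nat_lit 5) (nat_lit 86) (nat_lit 5) (nat_lit 96) (nat_lit 5) (nat_lit 330) (nat_lit 323) (nat_lit 127))) (XT.nd (nat_lit 78) (nat_lit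 760) (nat_lit 0) (XT.lf (nat_lit 76) (nat_lit 5322258926) (nat_lit 0) (nat_lit 97646937289) (nat_lit 760) (nat_lit 5566689471) (nat_lit 88) (nat_lit 5) (nat_lit 87) (nat_lit 5) (nat_lit 97) (nat_lit 5) (nat_lit 331) (nat_lit 323) (nat_lit 126)) (XT.nd (nat_lit 78) (nat_lit 0) (nat_lit 0) (XT.lf (nat_lit 0) (nat_lit 738165538) (nat_lit 760) (nat_lit 53193152384) (nat_lit 836) (nat_lit 57530985745) (nat_lit 77) (nat_lit 5) (nat_lit 87) (nat_lit 5) (nat_lit 88) (nat_lit 5) (nat_lit 332) (nat_lit 323) (nat_lit 125)) (XT.lf (nat_lit 0) (nat_lit 7170836168) (nat_lit 760) (nat_lit 763201311) (nat_lit 836) (nat_lit 106596460446) (nat_lit 77) (nat_lit 5) (nat_lit 87) (nat_lit 5) (nat_lit 88) (nat_lit 5) (nat_lit 333) (nat_lit 323) (nat_lit 124))))) (XT.nd (nat_lit 156) (nat_lit 836) (nat_lit 0) (XT.nd (nat_lit 78) (nat_lit 0) (nat_lit 0) (XT.lf (nat_lit 0) (nat_lit 15444955979) (nat_lit 760)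 (nat_lit 62269898258) (nat_lit 76) (nat_lit 39961257586) (nat_lit 78) (nat_lit 5) (nat_lit 88) (nat_lit 5) (nat_lit 79) (nat_lit 5) (nat_lit 334) (nat_lit 323) (nat_lit 123)) (XT.lf (nat_lit 0) (nat_lit 24275664246) (nat_lit 760) (nat_lit 6698331521) (nat_lit 76) (nat_lit 89997867201) (nat_lit 78) (nat_lit 5) (nat_lit 88) (nat_lit 5) (nat_lit 79) (nat_lit 5) (nat_lit 335) (nat_lit 323) (nat_lit 122))) (XT.nd (nat_lit 78) (nat_lit 380) (nat_lit 0) (XT.lf (nat_lit 0) (nat_lit 34677002111) (nat_lit 532) (nat_lit 71327702166) (nat_lit 76) (nat_lit 18371243329) (nat_lit 72) (nat_lit 5) (nat_lit 79) (nat_lit 5) (nat_lit 73) (nat_lit 5) (nat_lit 336) (nat_lit 323) (nat_lit 121)) (XT.nd (nat_lit 78) (nat_lit 380) (nat_lit 0) (XT.lf (nat_lit 0) (nat_lit 46221181620) (nat_lit 532) (nat_lit 12439779037) (nat_lit 76) (nat_lit 69258137694) (nat_lit 72) (nat_lit 5) (nat_lit 79) (nat_lit 5) (nat_lit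 73) (nat_lit 5) (nat_lit 337) (nat_lit 323) (nat_lit 120)) (XT.lf (nat_lit 0) (nat_lit 51025398668) (nat_lit 380) (nat_lit 8113540127) (nat_lit 456) (nat_lit 72460649988) (nat_lit 67) (nat_lit 5) (nat_lit 72) (nat_lit 5) (nat_lit 73) (nat_lit 5) (nat_lit 338) (nat_lit 323) (nat_lit 119))))))))
noncomputable def xc245 : XT := (XT.nd (nat_lit 1560) (nat_lit 532) (nat_lit 0) (XT.nd (nat_lit 780) (nat_lit 988) (nat_lit 0) (XT.nd (nat_lit 390) (nat_lit 836) (nat_lit 0) (XT.nd (nat_lit 156) (nat_lit 304) (nat_lit 0) (XT.nd (nat_lit 78) (nat_lit 304) (nat_lit 0) (XT.lf (nat_lit 0) (nat_lit 73618410755) (nat_lit 456) (nat_lit 18063561336) (nat_lit 76) (nat_lit 43736340854) (nat_lit 67) (nat_lit 5) (nat_lit 73) (nat_lit 5) (nat_lit 68) (nat_lit 5) (nat_lit 339) (nat_lit 323) (nat_lit 118)) (XT.lf (nat_lit 0) (nat_lit 49007878901) (nat_lit 304) (nat_lit 40711877975) (nat_lit 380) (nat_lit 49663321942)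 (nat_lit 63) (nat_lit 5) (nat_lit 67) (nat_lit 5) (nat_lit 68) (nat_lit 5) (nat_lit 340) (nat_lit 323) (nat_lit 117))) (XT.nd (nat_lit 78) (nat_lit 304) (nat_lit 0) (XT.lf (nat_lit 0) (nat_lit 107136798587) (nat_lit 380) (nat_lit 23676011588) (nat_lit 76) (nat_lit 12707741899) (nat_lit 63) (nat_lit 5) (nat_lit 68) (nat_lit 5) (nat_lit 64) (nat_lit 5) (nat_lit 341) (nat_lit 323) (nat_lit 116)) (XT.nd (nat_lit 78) (nat_lit 0) (nat_lit 0) (XT.lf (nat_lit 0) (nat_lit 47201196858) (nat_lit 304) (nat_lit 79627607588) (nat_lit 380) (nat_lit 20965889424) (nat_lit 59) (nat_lit 5) (nat_lit 63) (nat_lit 5) (nat_lit 64) (nat_lit 5) (nat_lit 342) (nat_lit 323) (nat_lit 115)) (XT.lf (nat_lit 0) (nat_lit 122443983115) (nat_lit 304) (nat_lit 25462160764) (nat_lit 380) (nat_lit 4356362671) (nat_lit 59) (nat_lit 5) (nat_lit 63) (nat_lit 5) (nat_lit 64) (nat_lit 5) (nat_lit 343) (nat_lit 323) (nat_lit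 114))))) (XT.nd (nat_lit 156) (nat_lit 532) (nat_lit 0) (XT.nd (nat_lit 78) (nat_lit 0) (nat_lit 0) (XT.lf (nat_lit 0) (nat_lit 13884505036) (nat_lit 304) (nat_lit 111658150802) (nat_lit 76) (nat_lit 31339859685) (nat_lit 55) (nat_lit 5) (nat_lit 59) (nat_lit 5) (nat_lit 56) (nat_lit 5) (nat_lit 344) (nat_lit 323) (nat_lit 113)) (XT.lf (nat_lit 0) (nat_lit 33821477699) (nat_lit 304) (nat_lit 37151015437) (nat_lit 76) (nat_lit 90710938218) (nat_lit 55) (nat_lit 5) (nat_lit 59) (nat_lit 5) (nat_lit 56) (nat_lit 5) (nat_lit 345) (nat_lit 323) (nat_lit 112))) (XT.nd (nat_lit 78) (nat_lit 228) (nat_lit 0) (XT.lf (nat_lit 0) (nat_lit 42439557734) (nat_lit 304) (nat_lit 12978133868) (nat_lit 380) (nat_lit 111273582121) (nat_lit 51) (nat_lit 5) (nat_lit 55) (nat_lit 5) (nat_lit 56) (nat_lit 5) (nat_lit 346) (nat_lit 323) (nat_lit 111)) (XT.nd (nat_lit 78) (nat_lit 228) (nat_lit 0) (XT.lf (nat_lit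 0) (nat_lit 79481100600) (nat_lit 380) (nat_lit 45377262766) (nat_lit 76) (nat_lit 47021775983) (nat_lit 51) (nat_lit 5) (nat_lit 56) (nat_lit 5) (nat_lit 52) (nat_lit 5) (nat_lit 347) (nat_lit 323) (nat_lit 110)) (XT.lf (nat_lit 0) (nat_lit 38458836361) (nat_lit 228) (nat_lit 67101857382) (nat_lit 304) (nat_lit 71727104170) (nat_lit 48) (nat_lit 5) (nat_lit 51) (nat_lit 5) (nat_lit 52) (nat_lit 5) (nat_lit 348) (nat_lit 323) (nat_lit 109)))))) (XT.nd (nat_lit 390) (nat_lit 456) (nat_lit 0) (XT.nd (nat_lit 156) (nat_lit 304) (nat_lit 0) (XT.nd (nat_lit 78) (nat_lit 228) (nat_lit 0) (XT.lf (nat_lit 0) (nat_lit 128061897062) (nat_lit 228) (nat_lit 5650668012) (nat_lit 304) (nat_lit 49214859729) (nat_lit 48) (nat_lit 5) (nat_lit 51) (nat_lit 5) (nat_lit 52) (nat_lit 5) (nat_lit 349) (nat_lit 323) (nat_lit 108)) (XT.lf (nat_lit 0) (nat_lit 33447186283) (nat_lit 228) (nat_lit 131266042562)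 (nat_lit 304) (nat_lit 24063744559) (nat_lit 45) (nat_lit 5) (nat_lit 48) (nat_lit 5) (nat_lit 49) (nat_lit 5) (nat_lit 350) (nat_lit 323) (nat_lit 107))) (XT.nd (nat_lit 78) (nat_lit 228) (nat_lit 0) (XT.lf (nat_lit 0) (nat_lit 3306737143) (nat_lit 304) (nat_lit 66936913487) (nat_lit 76) (nat_lit 124621675390) (nat_lit 44) (nat_lit 5) (nat_lit 48) (nat_lit 5) (nat_lit 45) (nat_lit 5) (nat_lit 351) (nat_lit 323) (nat_lit 106)) (XT.nd (nat_lit 78) (nat_lit 0) (nat_lit 0) (XT.lf (nat_lit 0) (nat_lit 26323401975) (nat_lit 228) (nat_lit 5324454404) (nat_lit 304) (nat_lit 169569975120) (nat_lit 41) (nat_lit 5) (nat_lit 44) (nat_lit 5) (nat_lit 45) (nat_lit 5) (nat_lit 352) (nat_lit 323) (nat_lit 105)) (XT.lf (nat_lit 0) (nat_lit 63539178427) (nat_lit 304) (nat_lit 82260584696) (nat_lit 76) (nat_lit 61981542042) (nat_lit 41) (nat_lit 5) (nat_lit 45) (nat_lit 5) (nat_lit 42) (nat_lit 5) (nat_lit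 353) (nat_lit 323) (nat_lit 104))))) (XT.nd (nat_lit 156) (nat_lit 228) (nat_lit 0) (XT.nd (nat_lit 78) (nat_lit 0) (nat_lit 0) (XT.lf (nat_lit 0) (nat_lit 15410684007) (nat_lit 228) (nat_lit 81942115161) (nat_lit 304) (nat_lit 117303766959) (nat_lit 38) (nat_lit 5) (nat_lit 41) (nat_lit 5) (nat_lit 42) (nat_lit 5) (nat_lit 354) (nat_lit 323) (nat_lit 103)) (XT.lf (nat_lit 0) (nat_lit 120821201094) (nat_lit 228) (nat_lit 13428869262) (nat_lit 304) (nat_lit 87555871543) (nat_lit 38) (nat_lit 5) (nat_lit 41) (nat_lit 5) (nat_lit 42) (nat_lit 5) (nat_lit 355) (nat_lit 323) (nat_lit 102))) (XT.nd (nat_lit 78) (nat_lit 76) (nat_lit 0) (XT.lf (nat_lit 0) (nat_lit 1317920519) (nat_lit 152) (nat_lit 172608219663) (nat_lit 228) (nat_lit 55339949742) (nat_lit 36) (nat_lit 5) (nat_lit 38) (nat_lit 5) (nat_lit 39) (nat_lit 5) (nat_lit 356) (nat_lit 323) (nat_lit 101)) (XT.nd (nat_lit 78) (nat_lit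 76) (nat_lit 0) (XT.lf (nat_lit 0) (nat_lit 112014043058) (nat_lit 152) (nat_lit 105498647251) (nat_lit 228) (nat_lit 19490221411) (nat_lit 36) (nat_lit 5) (nat_lit 38) (nat_lit 5) (nat_lit 39) (nat_lit 5) (nat_lit 357) (nat_lit 323) (nat_lit 100)) (XT.lf (nat_lit 0) (nat_lit 17570877276) (nat_lit 228) (nat_lit 17165210795) (nat_lit 76) (nat_lit 210376323497) (nat_lit 35) (nat_lit 5) (nat_lit 38) (nat_lit 5) (nat_lit 36) (nat_lit 5) (nat_lit 358) (nat_lit 323) (nat_lit 99))))))) (XT.nd (nat_lit 38298) (nat_lit 0) (nat_lit 2964) (XT.nd (nat_lit 37908) (nat_lit 0) (nat_lit 4256) (XT.nd (nat_lit 156) (nat_lit 304) (nat_lit 0) (XT.nd (nat_lit 78) (nat_lit 0) (nat_lit 0) (XT.lf (nat_lit 0) (nat_lit 58022193559) (nat_lit 304) (nat_lit 155287292196) (nat_lit 76) (nat_lit 40192317147) (nat_lit 32) (nat_lit 5) (nat_lit 36) (nat_lit 5) (nat_lit 33) (nat_lit 5) (nat_lit 359) (nat_lit 323) (nat_lit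 98)) (XT.lf (nat_lit 0) (nat_lit 101360856501) (nat_lit 304) (nat_lit 42911379958) (nat_lit 76) (nat_lit 117995188473) (nat_lit 32) (nat_lit 5) (nat_lit 36) (nat_lit 5) (nat_lit 33) (nat_lit 5) (nat_lit 360) (nat_lit 323) (nat_lit 97))) (XT.nd (nat_lit 78) (nat_lit 152) (nat_lit 0) (XT.lf (nat_lit 0) (nat_lit 77565727780) (nat_lit 152) (nat_lit 70511619422) (nat_lit 228) (nat_lit 123333436297) (nat_lit 30) (nat_lit 5) (nat_lit 32) (nat_lit 5) (nat_lit 33) (nat_lit 5) (nat_lit 361) (nat_lit 323) (nat_lit 96)) (XT.nd (nat_lit 78) (nat_lit 152) (nat_lit 0) (XT.lf (nat_lit 0) (nat_lit 197976485635) (nat_lit 228) (nat_lit 75538906574) (nat_lit 76) (nat_lit 7453576780) (nat_lit 30) (nat_lit 5) (nat_lit 33) (nat_lit 5) (nat_lit 31) (nat_lit 5) (nat_lit 362) (nat_lit 323) (nat_lit 95)) (XT.lf (nat_lit 0) (nat_lit 49097879687) (nat_lit 152) (nat_lit 203195069020) (nat_lit 228) (nat_lit 38615996810)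 (nat_lit 28) (nat_lit 5) (nat_lit 30) (nat_lit 5) (nat_lit 31) (nat_lit 5) (nat_lit 363) (nat_lit 323) (nat_lit 94))))) (XT.nd (nat_lit 156) (nat_lit 0) (nat_lit 0) (XT.nd (nat_lit 78) (nat_lit 0) (nat_lit 0) (XT.lf (nat_lit 0) (nat_lit 17232226958) (nat_lit 0) (nat_lit 17232226958) (nat_lit 684) (nat_lit 11994285953) (nat_lit 84) (nat_lit 5) (nat_lit 84) (nat_lit 3) (nat_lit 93) (nat_lit 3) (nat_lit 324) (nat_lit 324) (nat_lit 132)) (XT.lf (nat_lit 0) (nat_lit 70777968876) (nat_lit 684) (nat_lit 17091363959) (nat_lit 760) (nat_lit 7364775600) (nat_lit 84) (nat_lit 5) (nat_lit 93) (nat_lit 3) (nat_lit 94) (nat_lit 5) (nat_lit 325) (nat_lit 324) (nat_lit 131))) (XT.nd (nat_lit 78) (nat_lit 0) (nat_lit 0) (XT.lf (nat_lit 76) (nat_lit 26625313419) (nat_lit 0) (nat_lit 47074408490) (nat_lit 760) (nat_lit 23917835758) (nat_lit 85) (nat_lit 5) (nat_lit 84) (nat_lit 5) (nat_lit 94) (nat_lit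 5) (nat_lit 326) (nat_lit 324) (nat_lit 130)) (XT.nd (nat_lit 78) (nat_lit 0) (nat_lit 76) (XT.lf (nat_lit 76) (nat_lit 73120949469) (nat_lit 0) (nat_lit 3935633217) (nat_lit 760) (nat_lit 23049146668) (nat_lit 85) (nat_lit 5) (nat_lit 84) (nat_lit 5) (nat_lit 94) (nat_lit 5) (nat_lit 327) (nat_lit 324) (nat_lit 129)) (XT.lf (nat_lit 76) (nat_lit 19191291022) (nat_lit 0) (nat_lit 62334964861) (nat_lit 760) (nat_lit 21144806225) (nat_lit 86) (nat_lit 5) (nat_lit 85) (nat_lit 5) (nat_lit 95) (nat_lit 5) (nat_lit 328) (nat_lit 324) (nat_lit 128)))))) (XT.nd (nat_lit 390) (nat_lit 760) (nat_lit 0) (XT.nd (nat_lit 156) (nat_lit 608) (nat_lit 0) (XT.nd (nat_lit 78) (nat_lit 0) (nat_lit 76) (XT.lf (nat_lit 76) (nat_lit 68546107394) (nat_lit 0) (nat_lit 18193391759) (nat_lit 760) (nat_lit 18599158932) (nat_lit 86) (nat_lit 5) (nat_lit 85) (nat_lit 5) (nat_lit 95) (nat_lit 5) (nat_lit 329) (nat_lit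 324) (nat_lit 127)) (XT.lf (nat_lit 76) (nat_lit 12178985658) (nat_lit 0) (nat_lit 80663778360) (nat_lit 760) (nat_lit 15265402734) (nat_lit 87) (nat_lit 5) (nat_lit 86) (nat_lit 5) (nat_lit 96) (nat_lit 5) (nat_lit 330) (nat_lit 324) (nat_lit 126))) (XT.nd (nat_lit 78) (nat_lit 684) (nat_lit 0) (XT.lf (nat_lit 76) (nat_lit 64568077356) (nat_lit 0) (nat_lit 35599298628) (nat_lit 760) (nat_lit 10802966497) (nat_lit 87) (nat_lit 5) (nat_lit 86) (nat_lit 5) (nat_lit 96) (nat_lit 5) (nat_lit 331) (nat_lit 324) (nat_lit 125)) (XT.nd (nat_lit 78) (nat_lit 760) (nat_lit 0) (XT.lf (nat_lit 76) (nat_lit 5596906845) (nat_lit 0) (nat_lit 102531313107) (nat_lit 760) (nat_lit 5833907757) (nat_lit 88) (nat_lit 5) (nat_lit 87) (nat_lit 5) (nat_lit 97) (nat_lit 5) (nat_lit 332) (nat_lit 324) (nat_lit 124)) (XT.lf (nat_lit 0) (nat_lit 785321815) (nat_lit 760) (nat_lit 55844320785) (nat_lit 836) (nat_lit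 60405242022) (nat_lit 77) (nat_lit 5) (nat_lit 87) (nat_lit 5) (nat_lit 88) (nat_lit 5) (nat_lit 333) (nat_lit 324) (nat_lit 123))))) (XT.nd (nat_lit 234) (nat_lit 760) (nat_lit 0) (XT.nd (nat_lit 78) (nat_lit 0) (nat_lit 76) (XT.lf (nat_lit 0) (nat_lit 7539137976) (nat_lit 760) (nat_lit 793276407) (nat_lit 836) (nat_lit 111924099650) (nat_lit 77) (nat_lit 5) (nat_lit 87) (nat_lit 5) (nat_lit 88) (nat_lit 5) (nat_lit 334) (nat_lit 324) (nat_lit 122)) (XT.nd (nat_lit 78) (nat_lit 0) (nat_lit 0) (XT.lf (nat_lit 0) (nat_lit 16226600338) (nat_lit 760) (nat_lit 65374924963) (nat_lit 76) (nat_lit 41957902486) (nat_lit 78) (nat_lit 5) (nat_lit 88) (nat_lit 5) (nat_lit 79) (nat_lit 5) (nat_lit 335) (nat_lit 324) (nat_lit 121)) (XT.lf (nat_lit 0) (nat_lit 25498396564) (nat_lit 760) (nat_lit 7025183138) (nat_lit 76) (nat_lit 94496410105) (nat_lit 78) (nat_lit 5) (nat_lit 88) (nat_lit 5) (nat_lit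 79) (nat_lit 5) (nat_lit 336) (nat_lit 324) (nat_lit 120)))) (XT.nd (nat_lit 78) (nat_lit 380) (nat_lit 0) (XT.lf (nat_lit 0) (nat_lit 36419487943) (nat_lit 532) (nat_lit 74885690980) (nat_lit 76) (nat_lit 19289116319) (nat_lit 72) (nat_lit 5) (nat_lit 79) (nat_lit 5) (nat_lit 73) (nat_lit 5) (nat_lit 337) (nat_lit 324) (nat_lit 119)) (XT.nd (nat_lit 78) (nat_lit 380) (nat_lit 0) (XT.lf (nat_lit 0) (nat_lit 48540465203) (nat_lit 532) (nat_lit 13053771518) (nat_lit 76) (nat_lit 72720388220) (nat_lit 72) (nat_lit 5) (nat_lit 79) (nat_lit 5) (nat_lit 73) (nat_lit 5) (nat_lit 338) (nat_lit 324) (nat_lit 118)) (XT.lf (nat_lit 0) (nat_lit 53584536097) (nat_lit 380) (nat_lit 8519305330) (nat_lit 456) (nat_lit 76075312721) (nat_lit 67) (nat_lit 5) (nat_lit 72) (nat_lit 5) (nat_lit 73) (nat_lit 5) (nat_lit 339) (nat_lit 324) (nat_lit 117))))))))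
noncomputable def xc246 : XT := (XT.nd (nat_lit 1560) (nat_lit 380) (nat_lit 0) (XT.nd (nat_lit 780) (nat_lit 988) (nat_lit 0) (XT.nd (nat_lit 390) (nat_lit 836) (nat_lit 0) (XT.nd (nat_lit 156) (nat_lit 304) (nat_lit 0) (XT.nd (nat_lit 78) (nat_lit 304) (nat_lit 0) (XT.lf (nat_lit 0) (nat_lit 77306906832) (nat_lit 456) (nat_lit 18958850883) (nat_lit 76) (nat_lit 45923076588) (nat_lit 67) (nat_lit 5) (nat_lit 73) (nat_lit 5) (nat_lit 68) (nat_lit 5) (nat_lit 340) (nat_lit 324) (nat_lit 116)) (XT.lf (nat_lit 0) (nat_lit 51466034131) (nat_lit 304) (nat_lit 42747046563) (nat_lit 380) (nat_lit 52138770492) (nat_lit 63) (nat_lit 5) (nat_lit 67) (nat_lit 5) (nat_lit 68) (nat_lit 5) (nat_lit 341) (nat_lit 324) (nat_lit 115))) (XT.nd (nat_lit 78) (nat_lit 304) (nat_lit 0) (XT.lf (nat_lit 0) (nat_lit 112500631483) (nat_lit 380) (nat_lit 24852063388) (nat_lit 76) (nat_lit 13343521088) (nat_lit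 63) (nat_lit 5) (nat_lit 68) (nat_lit 5) (nat_lit 64) (nat_lit 5) (nat_lit 342) (nat_lit 324) (nat_lit 114)) (XT.nd (nat_lit 78) (nat_lit 0) (nat_lit 0) (XT.lf (nat_lit 0) (nat_lit 49568880500) (nat_lit 304) (nat_lit 83608143166) (nat_lit 380) (nat_lit 22007052548) (nat_lit 59) (nat_lit 5) (nat_lit 63) (nat_lit 5) (nat_lit 64) (nat_lit 5) (nat_lit 343) (nat_lit 324) (nat_lit 113)) (XT.lf (nat_lit 0) (nat_lit 128573443031) (nat_lit 304) (nat_lit 26734464229) (nat_lit 380) (nat_lit 4567389045) (nat_lit 59) (nat_lit 5) (nat_lit 63) (nat_lit 5) (nat_lit 64) (nat_lit 5) (nat_lit 344) (nat_lit 324) (nat_lit 112))))) (XT.nd (nat_lit 156) (nat_lit 532) (nat_lit 0) (XT.nd (nat_lit 78) (nat_lit 0) (nat_lit 0) (XT.lf (nat_lit 0) (nat_lit 14585122166) (nat_lit 304) (nat_lit 117233373970) (nat_lit 76) (nat_lit 32907813993) (nat_lit 55) (nat_lit 5) (nat_lit 59) (nat_lit 5) (nat_lit 56) (nat_lit 5)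 (nat_lit 345) (nat_lit 324) (nat_lit 111)) (XT.lf (nat_lit 0) (nat_lit 35518639087) (nat_lit 304) (nat_lit 39001247760) (nat_lit 76) (nat_lit 95247400676) (nat_lit 55) (nat_lit 5) (nat_lit 59) (nat_lit 5) (nat_lit 56) (nat_lit 5) (nat_lit 346) (nat_lit 324) (nat_lit 110))) (XT.nd (nat_lit 78) (nat_lit 228) (nat_lit 0) (XT.lf (nat_lit 0) (nat_lit 44568736030) (nat_lit 304) (nat_lit 13625750192) (nat_lit 380) (nat_lit 116831045185) (nat_lit 51) (nat_lit 5) (nat_lit 55) (nat_lit 5) (nat_lit 56) (nat_lit 5) (nat_lit 347) (nat_lit 324) (nat_lit 109)) (XT.nd (nat_lit 78) (nat_lit 228) (nat_lit 0) (XT.lf (nat_lit 0) (nat_lit 83460803427) (nat_lit 380) (nat_lit 47638996128) (nat_lit 76) (nat_lit 49374054372) (nat_lit 51) (nat_lit 5) (nat_lit 56) (nat_lit 5) (nat_lit 52) (nat_lit 5) (nat_lit 348) (nat_lit 324) (nat_lit 108)) (XT.lf (nat_lit 0) (nat_lit 40388792959) (nat_lit 228) (nat_lit 70455423846)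 (nat_lit 304) (nat_lit 75307687062) (nat_lit 48) (nat_lit 5) (nat_lit 51) (nat_lit 5) (nat_lit 52) (nat_lit 5) (nat_lit 349) (nat_lit 324) (nat_lit 107)))))) (XT.nd (nat_lit 390) (nat_lit 456) (nat_lit 0) (XT.nd (nat_lit 156) (nat_lit 304) (nat_lit 0) (XT.nd (nat_lit 78) (nat_lit 228) (nat_lit 0) (XT.lf (nat_lit 0) (nat_lit 134471672658) (nat_lit 228) (nat_lit 5931747693) (nat_lit 304) (nat_lit 51670105271) (nat_lit 48) (nat_lit 5) (nat_lit 51) (nat_lit 5) (nat_lit 52) (nat_lit 5) (nat_lit 350) (nat_lit 324) (nat_lit 106)) (XT.lf (nat_lit 0) (nat_lit 35126362315) (nat_lit 228) (nat_lit 137827634134) (nat_lit 304) (nat_lit 25261561679) (nat_lit 45) (nat_lit 5) (nat_lit 48) (nat_lit 5) (nat_lit 49) (nat_lit 5) (nat_lit 351) (nat_lit 324) (nat_lit 105))) (XT.nd (nat_lit 78) (nat_lit 228) (nat_lit 0) (XT.lf (nat_lit 0) (nat_lit 3477024696) (nat_lit 304) (nat_lit 70277095522) (nat_lit 76)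 (nat_lit 130854216733) (nat_lit 44) (nat_lit 5) (nat_lit 48) (nat_lit 5) (nat_lit 45) (nat_lit 5) (nat_lit 352) (nat_lit 324) (nat_lit 104)) (XT.nd (nat_lit 78) (nat_lit 0) (nat_lit 0) (XT.lf (nat_lit 0) (nat_lit 27646128235) (nat_lit 228) (nat_lit 5588938272) (nat_lit 304) (nat_lit 178043408241) (nat_lit 41) (nat_lit 5) (nat_lit 44) (nat_lit 5) (nat_lit 45) (nat_lit 5) (nat_lit 353) (nat_lit 324) (nat_lit 103)) (XT.lf (nat_lit 0) (nat_lit 66720751117) (nat_lit 304) (nat_lit 86367159322) (nat_lit 76) (nat_lit 65082222190) (nat_lit 41) (nat_lit 5) (nat_lit 45) (nat_lit 5) (nat_lit 42) (nat_lit 5) (nat_lit 354) (nat_lit 324) (nat_lit 102))))) (XT.nd (nat_lit 156) (nat_lit 228) (nat_lit 0) (XT.nd (nat_lit 78) (nat_lit 0) (nat_lit 0) (XT.lf (nat_lit 0) (nat_lit 16187568710) (nat_lit 228) (nat_lit 86037363631) (nat_lit 304) (nat_lit 123164230664) (nat_lit 38) (nat_lit 5) (nat_lit 41) (nat_lit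 5) (nat_lit 42) (nat_lit 5) (nat_lit 355) (nat_lit 324) (nat_lit 101)) (XT.lf (nat_lit 0) (nat_lit 126868309246) (nat_lit 228) (nat_lit 14098543879) (nat_lit 304) (nat_lit 91929165460) (nat_lit 38) (nat_lit 5) (nat_lit 41) (nat_lit 5) (nat_lit 42) (nat_lit 5) (nat_lit 356) (nat_lit 324) (nat_lit 100))) (XT.nd (nat_lit 78) (nat_lit 76) (nat_lit 0) (XT.lf (nat_lit 0) (nat_lit 1389956775) (nat_lit 152) (nat_lit 181236688062) (nat_lit 228) (nat_lit 58102533562) (nat_lit 36) (nat_lit 5) (nat_lit 38) (nat_lit 5) (nat_lit 39) (nat_lit 5) (nat_lit 357) (nat_lit 324) (nat_lit 99)) (XT.nd (nat_lit 78) (nat_lit 76) (nat_lit 0) (XT.lf (nat_lit 0) (nat_lit 117620593050) (nat_lit 152) (nat_lit 110771729533) (nat_lit 228) (nat_lit 20460528989) (nat_lit 36) (nat_lit 5) (nat_lit 38) (nat_lit 5) (nat_lit 39) (nat_lit 5) (nat_lit 358) (nat_lit 324) (nat_lit 98)) (XT.lf (nat_lit 0) (nat_lit 18453296334)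 (nat_lit 228) (nat_lit 18017768531) (nat_lit 76) (nat_lit 220896768219) (nat_lit 35) (nat_lit 5) (nat_lit 38) (nat_lit 5) (nat_lit 36) (nat_lit 5) (nat_lit 359) (nat_lit 324) (nat_lit 97))))))) (XT.nd (nat_lit 38454) (nat_lit 0) (nat_lit 2508) (XT.nd (nat_lit 38064) (nat_lit 0) (nat_lit 4104) (XT.nd (nat_lit 156) (nat_lit 152) (nat_lit 0) (XT.nd (nat_lit 78) (nat_lit 0) (nat_lit 0) (XT.lf (nat_lit 0) (nat_lit 60927110110) (nat_lit 304) (nat_lit 163045880630) (nat_lit 76) (nat_lit 42203706913) (nat_lit 32) (nat_lit 5) (nat_lit 36) (nat_lit 5) (nat_lit 33) (nat_lit 5) (nat_lit 360) (nat_lit 324) (nat_lit 96)) (XT.lf (nat_lit 0) (nat_lit 106432524919) (nat_lit 304) (nat_lit 45051447837) (nat_lit 76) (nat_lit 123896637333) (nat_lit 32) (nat_lit 5) (nat_lit 36) (nat_lit 5) (nat_lit 33) (nat_lit 5) (nat_lit 361) (nat_lit 324) (nat_lit 95))) (XT.nd (nat_lit 37752) (nat_lit 0) (nat_lit 4104)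 (XT.lf (nat_lit 0) (nat_lit 81449426561) (nat_lit 152) (nat_lit 74035325450) (nat_lit 228) (nat_lit 129496389209) (nat_lit 30) (nat_lit 5) (nat_lit 32) (nat_lit 5) (nat_lit 33) (nat_lit 5) (nat_lit 362) (nat_lit 324) (nat_lit 94)) (XT.nd (nat_lit 78) (nat_lit 0) (nat_lit 0) (XT.lf (nat_lit 0) (nat_lit 18097309080) (nat_lit 0) (nat_lit 18097309080) (nat_lit 684) (nat_lit 12586695500) (nat_lit 84) (nat_lit 5) (nat_lit 84) (nat_lit 3) (nat_lit 93) (nat_lit 3) (nat_lit 325) (nat_lit 325) (nat_lit 130)) (XT.lf (nat_lit 0) (nat_lit 74329986100) (nat_lit 684) (nat_lit 17938526129) (nat_lit 760) (nat_lit 7726614975) (nat_lit 84) (nat_lit 5) (nat_lit 93) (nat_lit 3) (nat_lit 94) (nat_lit 5) (nat_lit 326) (nat_lit 325) (nat_lit 129))))) (XT.nd (nat_lit 156) (nat_lit 0) (nat_lit 76) (XT.nd (nat_lit 78) (nat_lit 0) (nat_lit 0) (XT.lf (nat_lit 76) (nat_lit 27963865666) (nat_lit 0) (nat_lit 49433450179)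 (nat_lit 760) (nat_lit 25100460062) (nat_lit 85) (nat_lit 5) (nat_lit 84) (nat_lit 5) (nat_lit 94) (nat_lit 5) (nat_lit 327) (nat_lit 325) (nat_lit 128)) (XT.lf (nat_lit 76) (nat_lit 76783936539) (nat_lit 0) (nat_lit 4137482749) (nat_lit 760) (nat_lit 24188968303) (nat_lit 85) (nat_lit 5) (nat_lit 84) (nat_lit 5) (nat_lit 94) (nat_lit 5) (nat_lit 328) (nat_lit 325) (nat_lit 127))) (XT.nd (nat_lit 78) (nat_lit 0) (nat_lit 0) (XT.lf (nat_lit 76) (nat_lit 20158379187) (nat_lit 0) (nat_lit 65455667283) (nat_lit 760) (nat_lit 22189968323) (nat_lit 86) (nat_lit 5) (nat_lit 85) (nat_lit 5) (nat_lit 95) (nat_lit 5) (nat_lit 329) (nat_lit 325) (nat_lit 126)) (XT.nd (nat_lit 78) (nat_lit 0) (nat_lit 76) (XT.lf (nat_lit 76) (nat_lit 71980578110) (nat_lit 0) (nat_lit 19106827231) (nat_lit 760) (nat_lit 19517613819) (nat_lit 86) (nat_lit 5) (nat_lit 85) (nat_lit 5) (nat_lit 95) (nat_lit 5) (nat_lit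 330) (nat_lit 325) (nat_lit 125)) (XT.lf (nat_lit 76) (nat_lit 12795605172) (nat_lit 0) (nat_lit 84699771500) (nat_lit 760) (nat_lit 16017650630) (nat_lit 87) (nat_lit 5) (nat_lit 86) (nat_lit 5) (nat_lit 96) (nat_lit 5) (nat_lit 331) (nat_lit 325) (nat_lit 124)))))) (XT.nd (nat_lit 390) (nat_lit 1064) (nat_lit 0) (XT.nd (nat_lit 156) (nat_lit 684) (nat_lit 0) (XT.nd (nat_lit 78) (nat_lit 0) (nat_lit 76) (XT.lf (nat_lit 76) (nat_lit 67803786205) (nat_lit 0) (nat_lit 37381934248) (nat_lit 760) (nat_lit 11332617450) (nat_lit 87) (nat_lit 5) (nat_lit 86) (nat_lit 5) (nat_lit 96) (nat_lit 5) (nat_lit 332) (nat_lit 325) (nat_lit 123)) (XT.lf (nat_lit 76) (nat_lit 5884493659) (nat_lit 0) (nat_lit 107659719083) (nat_lit 760) (nat_lit 6115520435) (nat_lit 88) (nat_lit 5) (nat_lit 87) (nat_lit 5) (nat_lit 97) (nat_lit 5) (nat_lit 333) (nat_lit 325) (nat_lit 122))) (XT.nd (nat_lit 78) (nat_lit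 0) (nat_lit 0) (XT.lf (nat_lit 0) (nat_lit 833883144) (nat_lit 760) (nat_lit 58628836853) (nat_lit 836) (nat_lit 63423424296) (nat_lit 77) (nat_lit 5) (nat_lit 87) (nat_lit 5) (nat_lit 88) (nat_lit 5) (nat_lit 334) (nat_lit 325) (nat_lit 121)) (XT.nd (nat_lit 78) (nat_lit 0) (nat_lit 76) (XT.lf (nat_lit 0) (nat_lit 7924947482) (nat_lit 760) (nat_lit 825606922) (nat_lit 836) (nat_lit 117518323844) (nat_lit 77) (nat_lit 5) (nat_lit 87) (nat_lit 5) (nat_lit 88) (nat_lit 5) (nat_lit 335) (nat_lit 325) (nat_lit 120)) (XT.lf (nat_lit 0) (nat_lit 17046453313) (nat_lit 760) (nat_lit 68635990298) (nat_lit 76) (nat_lit 44054511461) (nat_lit 78) (nat_lit 5) (nat_lit 88) (nat_lit 5) (nat_lit 79) (nat_lit 5) (nat_lit 336) (nat_lit 325) (nat_lit 119))))) (XT.nd (nat_lit 234) (nat_lit 684) (nat_lit 0) (XT.nd (nat_lit 78) (nat_lit 456) (nat_lit 0) (XT.lf (nat_lit 0) (nat_lit 26781433494) (nat_lit 760)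 (nat_lit 7369127139) (nat_lit 76) (nat_lit 99220005706) (nat_lit 78) (nat_lit 5) (nat_lit 88) (nat_lit 5) (nat_lit 79) (nat_lit 5) (nat_lit 337) (nat_lit 325) (nat_lit 118)) (XT.nd (nat_lit 78) (nat_lit 0) (nat_lit 0) (XT.lf (nat_lit 0) (nat_lit 38248295200) (nat_lit 532) (nat_lit 78622359842) (nat_lit 76) (nat_lit 20252947032) (nat_lit 72) (nat_lit 5) (nat_lit 79) (nat_lit 5) (nat_lit 73) (nat_lit 5) (nat_lit 338) (nat_lit 325) (nat_lit 117)) (XT.lf (nat_lit 0) (nat_lit 50974948329) (nat_lit 532) (nat_lit 13699207059) (nat_lit 76) (nat_lit 76355812294) (nat_lit 72) (nat_lit 5) (nat_lit 79) (nat_lit 5) (nat_lit 73) (nat_lit 5) (nat_lit 339) (nat_lit 325) (nat_lit 116)))) (XT.nd (nat_lit 78) (nat_lit 304) (nat_lit 0) (XT.lf (nat_lit 0) (nat_lit 56270898953) (nat_lit 380) (nat_lit 8945350594) (nat_lit 456) (nat_lit 79871486733) (nat_lit 67) (nat_lit 5) (nat_lit 72) (nat_lit 5) (nat_lit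 73) (nat_lit 5) (nat_lit 340) (nat_lit 325) (nat_lit 115)) (XT.nd (nat_lit 78) (nat_lit 304) (nat_lit 0) (XT.lf (nat_lit 0) (nat_lit 81179123411) (nat_lit 456) (nat_lit 19899638307) (nat_lit 76) (nat_lit 48219156668) (nat_lit 67) (nat_lit 5) (nat_lit 73) (nat_lit 5) (nat_lit 68) (nat_lit 5) (nat_lit 341) (nat_lit 325) (nat_lit 114)) (XT.lf (nat_lit 0) (nat_lit 54046375553) (nat_lit 304) (nat_lit 44884013121) (nat_lit 380) (nat_lit 54738708974) (nat_lit 63) (nat_lit 5) (nat_lit 67) (nat_lit 5) (nat_lit 68) (nat_lit 5) (nat_lit 342) (nat_lit 325) (nat_lit 113))))))))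
noncomputable def xc247 : XT := (XT.nd (nat_lit 39390) (nat_lit 0) (nat_lit 1748) (XT.nd (nat_lit 780) (nat_lit 988) (nat_lit 0) (XT.nd (nat_lit 390) (nat_lit 760) (nat_lit 0) (XT.nd (nat_lit 156) (nat_lit 304) (nat_lit 0) (XT.nd (nat_lit 78) (nat_lit 304) (nat_lit 0) (XT.lf (nat_lit 0) (nat_lit 118132005884) (nat_lit 380) (nat_lit 26087638187) (nat_lit 76) (nat_lit 14011052783) (nat_lit 63) (nat_lit 5) (nat_lit 68) (nat_lit 5) (nat_lit 64) (nat_lit 5) (nat_lit 343) (nat_lit 325) (nat_lit 112)) (XT.lf (nat_lit 0) (nat_lit 52054239534) (nat_lit 304) (nat_lit 87787784064) (nat_lit 380) (nat_lit 23100936834) (nat_lit 59) (nat_lit 5) (nat_lit 63) (nat_lit 5) (nat_lit 64) (nat_lit 5) (nat_lit 344) (nat_lit 325) (nat_lit 111))) (XT.nd (nat_lit 78) (nat_lit 304) (nat_lit 0) (XT.lf (nat_lit 0) (nat_lit 135008700906) (nat_lit 304) (nat_lit 28070457669) (nat_lit 380) (nat_lit 4789598172) (nat_lit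 59) (nat_lit 5) (nat_lit 63) (nat_lit 5) (nat_lit 64) (nat_lit 5) (nat_lit 345) (nat_lit 325) (nat_lit 110)) (XT.nd (nat_lit 78) (nat_lit 0) (nat_lit 0) (XT.lf (nat_lit 0) (nat_lit 15320175896) (nat_lit 304) (nat_lit 123088072717) (nat_lit 76) (nat_lit 34554076642) (nat_lit 55) (nat_lit 5) (nat_lit 59) (nat_lit 5) (nat_lit 56) (nat_lit 5) (nat_lit 346) (nat_lit 325) (nat_lit 109)) (XT.lf (nat_lit 0) (nat_lit 37300092586) (nat_lit 304) (nat_lit 40944672099) (nat_lit 76) (nat_lit 100010601137) (nat_lit 55) (nat_lit 5) (nat_lit 59) (nat_lit 5) (nat_lit 56) (nat_lit 5) (nat_lit 347) (nat_lit 325) (nat_lit 108))))) (XT.nd (nat_lit 156) (nat_lit 456) (nat_lit 0) (XT.nd (nat_lit 78) (nat_lit 0) (nat_lit 0) (XT.lf (nat_lit 0) (nat_lit 46803703816) (nat_lit 304) (nat_lit 14305867299) (nat_lit 380) (nat_lit 122666959311) (nat_lit 51) (nat_lit 5) (nat_lit 55) (nat_lit 5) (nat_lit 56) (nat_lit 5)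 (nat_lit 348) (nat_lit 325) (nat_lit 107)) (XT.lf (nat_lit 0) (nat_lit 87638966316) (nat_lit 380) (nat_lit 50014479018) (nat_lit 76) (nat_lit 51843836083) (nat_lit 51) (nat_lit 5) (nat_lit 56) (nat_lit 5) (nat_lit 52) (nat_lit 5) (nat_lit 349) (nat_lit 325) (nat_lit 106))) (XT.nd (nat_lit 78) (nat_lit 228) (nat_lit 0) (XT.lf (nat_lit 0) (nat_lit 42414595219) (nat_lit 228) (nat_lit 73976810544) (nat_lit 304) (nat_lit 79067835754) (nat_lit 48) (nat_lit 5) (nat_lit 51) (nat_lit 5) (nat_lit 52) (nat_lit 5) (nat_lit 350) (nat_lit 325) (nat_lit 105)) (XT.nd (nat_lit 78) (nat_lit 228) (nat_lit 0) (XT.lf (nat_lit 0) (nat_lit 141201315921) (nat_lit 228) (nat_lit 6227016512) (nat_lit 304) (nat_lit 54248624191) (nat_lit 48) (nat_lit 5) (nat_lit 51) (nat_lit 5) (nat_lit 52) (nat_lit 5) (nat_lit 351) (nat_lit 325) (nat_lit 104)) (XT.lf (nat_lit 0) (nat_lit 36888863394) (nat_lit 228) (nat_lit 144717464316)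 (nat_lit 304) (nat_lit 26519768917) (nat_lit 45) (nat_lit 5) (nat_lit 48) (nat_lit 5) (nat_lit 49) (nat_lit 5) (nat_lit 352) (nat_lit 325) (nat_lit 103)))))) (XT.nd (nat_lit 390) (nat_lit 456) (nat_lit 0) (XT.nd (nat_lit 156) (nat_lit 228) (nat_lit 0) (XT.nd (nat_lit 78) (nat_lit 228) (nat_lit 0) (XT.lf (nat_lit 0) (nat_lit 3655366357) (nat_lit 304) (nat_lit 73784906181) (nat_lit 76) (nat_lit 137398249632) (nat_lit 44) (nat_lit 5) (nat_lit 48) (nat_lit 5) (nat_lit 45) (nat_lit 5) (nat_lit 353) (nat_lit 325) (nat_lit 102)) (XT.lf (nat_lit 0) (nat_lit 29034381278) (nat_lit 228) (nat_lit 5866807995) (nat_lit 304) (nat_lit 186940983972) (nat_lit 41) (nat_lit 5) (nat_lit 44) (nat_lit 5) (nat_lit 45) (nat_lit 5) (nat_lit 354) (nat_lit 325) (nat_lit 101))) (XT.nd (nat_lit 78) (nat_lit 228) (nat_lit 0) (XT.lf (nat_lit 0) (nat_lit 70060973496) (nat_lit 304) (nat_lit 90679662767) (nat_lit 76)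 (nat_lit 68337787310) (nat_lit 41) (nat_lit 5) (nat_lit 45) (nat_lit 5) (nat_lit 42) (nat_lit 5) (nat_lit 355) (nat_lit 325) (nat_lit 100)) (XT.nd (nat_lit 78) (nat_lit 0) (nat_lit 0) (XT.lf (nat_lit 0) (nat_lit 17002707239) (nat_lit 228) (nat_lit 90337547197) (nat_lit 304) (nat_lit 129318156807) (nat_lit 38) (nat_lit 5) (nat_lit 41) (nat_lit 5) (nat_lit 42) (nat_lit 5) (nat_lit 356) (nat_lit 325) (nat_lit 99)) (XT.lf (nat_lit 0) (nat_lit 133217210512) (nat_lit 228) (nat_lit 14801866677) (nat_lit 304) (nat_lit 96521542409) (nat_lit 38) (nat_lit 5) (nat_lit 41) (nat_lit 5) (nat_lit 42) (nat_lit 5) (nat_lit 357) (nat_lit 325) (nat_lit 98))))) (XT.nd (nat_lit 156) (nat_lit 304) (nat_lit 0) (XT.nd (nat_lit 78) (nat_lit 0) (nat_lit 0) (XT.lf (nat_lit 0) (nat_lit 1465023984) (nat_lit 152) (nat_lit 190296760483) (nat_lit 228) (nat_lit 61003656915) (nat_lit 36) (nat_lit 5) (nat_lit 38) (nat_lit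 5) (nat_lit 39) (nat_lit 5) (nat_lit 358) (nat_lit 325) (nat_lit 97)) (XT.lf (nat_lit 0) (nat_lit 123506926864) (nat_lit 152) (nat_lit 116308637932) (nat_lit 228) (nat_lit 21479742748) (nat_lit 36) (nat_lit 5) (nat_lit 38) (nat_lit 5) (nat_lit 39) (nat_lit 5) (nat_lit 359) (nat_lit 325) (nat_lit 96))) (XT.nd (nat_lit 78) (nat_lit 228) (nat_lit 0) (XT.lf (nat_lit 0) (nat_lit 19379476066) (nat_lit 228) (nat_lit 18913484346) (nat_lit 76) (nat_lit 231943083770) (nat_lit 35) (nat_lit 5) (nat_lit 38) (nat_lit 5) (nat_lit 36) (nat_lit 5) (nat_lit 360) (nat_lit 325) (nat_lit 95)) (XT.nd (nat_lit 37908) (nat_lit 0) (nat_lit 3952) (XT.lf (nat_lit 0) (nat_lit 63976918562) (nat_lit 304) (nat_lit 171192935500) (nat_lit 76) (nat_lit 44315501245) (nat_lit 32) (nat_lit 5) (nat_lit 36) (nat_lit 5) (nat_lit 33) (nat_lit 5) (nat_lit 361) (nat_lit 325) (nat_lit 94)) (XT.lf (nat_lit 0) (nat_lit 19005322628)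 (nat_lit 0) (nat_lit 19005322628) (nat_lit 684) (nat_lit 13209404652) (nat_lit 84) (nat_lit 5) (nat_lit 84) (nat_lit 3) (nat_lit 93) (nat_lit 3) (nat_lit 326) (nat_lit 326) (nat_lit 128))))))) (XT.nd (nat_lit 780) (nat_lit 1672) (nat_lit 0) (XT.nd (nat_lit 390) (nat_lit 532) (nat_lit 0) (XT.nd (nat_lit 156) (nat_lit 0) (nat_lit 0) (XT.nd (nat_lit 78) (nat_lit 0) (nat_lit 0) (XT.lf (nat_lit 0) (nat_lit 78058384525) (nat_lit 684) (nat_lit 18828734950) (nat_lit 760) (nat_lit 8107141275) (nat_lit 84) (nat_lit 5) (nat_lit 93) (nat_lit 3) (nat_lit 94) (nat_lit 5) (nat_lit 327) (nat_lit 326) (nat_lit 127)) (XT.lf (nat_lit 76) (nat_lit 29368668088) (nat_lit 0) (nat_lit 51909949231) (nat_lit 760) (nat_lit 26343449067) (nat_lit 85) (nat_lit 5) (nat_lit 84) (nat_lit 5) (nat_lit 94) (nat_lit 5) (nat_lit 328) (nat_lit 326) (nat_lit 126))) (XT.nd (nat_lit 78) (nat_lit 0) (nat_lit 76) (XT.lf (nat_lit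 76) (nat_lit 80629427784) (nat_lit 0) (nat_lit 4348953594) (nat_lit 760) (nat_lit 25386955767) (nat_lit 85) (nat_lit 5) (nat_lit 84) (nat_lit 5) (nat_lit 94) (nat_lit 5) (nat_lit 329) (nat_lit 326) (nat_lit 125)) (XT.nd (nat_lit 78) (nat_lit 0) (nat_lit 0) (XT.lf (nat_lit 76) (nat_lit 21173122285) (nat_lit 0) (nat_lit 68732037203) (nat_lit 760) (nat_lit 23288511444) (nat_lit 86) (nat_lit 5) (nat_lit 85) (nat_lit 5) (nat_lit 95) (nat_lit 5) (nat_lit 330) (nat_lit 326) (nat_lit 124)) (XT.lf (nat_lit 76) (nat_lit 75586106196) (nat_lit 0) (nat_lit 20065584360) (nat_lit 760) (nat_lit 20483060895) (nat_lit 86) (nat_lit 5) (nat_lit 85) (nat_lit 5) (nat_lit 95) (nat_lit 5) (nat_lit 331) (nat_lit 326) (nat_lit 123))))) (XT.nd (nat_lit 156) (nat_lit 684) (nat_lit 0) (XT.nd (nat_lit 78) (nat_lit 0) (nat_lit 0) (XT.lf (nat_lit 76) (nat_lit 13442342555) (nat_lit 0) (nat_lit 88937303588) (nat_lit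 760) (nat_lit 16808535665) (nat_lit 87) (nat_lit 5) (nat_lit 86) (nat_lit 5) (nat_lit 96) (nat_lit 5) (nat_lit 332) (nat_lit 326) (nat_lit 122)) (XT.lf (nat_lit 76) (nat_lit 71200601349) (nat_lit 0) (nat_lit 39253453353) (nat_lit 760) (nat_lit 11889726897) (nat_lit 87) (nat_lit 5) (nat_lit 86) (nat_lit 5) (nat_lit 96) (nat_lit 5) (nat_lit 333) (nat_lit 326) (nat_lit 121))) (XT.nd (nat_lit 78) (nat_lit 760) (nat_lit 0) (XT.lf (nat_lit 76) (nat_lit 6185740084) (nat_lit 0) (nat_lit 113044374263) (nat_lit 760) (nat_lit 6412151142) (nat_lit 88) (nat_lit 5) (nat_lit 87) (nat_lit 5) (nat_lit 97) (nat_lit 5) (nat_lit 334) (nat_lit 326) (nat_lit 120)) (XT.nd (nat_lit 78) (nat_lit 0) (nat_lit 0) (XT.lf (nat_lit 0) (nat_lit 884008356) (nat_lit 760) (nat_lit 61553294596) (nat_lit 836) (nat_lit 66592709046) (nat_lit 77) (nat_lit 5) (nat_lit 87) (nat_lit 5) (nat_lit 88) (nat_lit 5) (nat_lit 335) (nat_lit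 326) (nat_lit 119)) (XT.lf (nat_lit 0) (nat_lit 8329224432) (nat_lit 760) (nat_lit 860235744) (nat_lit 836) (nat_lit 123392443403) (nat_lit 77) (nat_lit 5) (nat_lit 87) (nat_lit 5) (nat_lit 88) (nat_lit 5) (nat_lit 336) (nat_lit 326) (nat_lit 118)))))) (XT.nd (nat_lit 390) (nat_lit 912) (nat_lit 0) (XT.nd (nat_lit 156) (nat_lit 836) (nat_lit 0) (XT.nd (nat_lit 78) (nat_lit 0) (nat_lit 0) (XT.lf (nat_lit 0) (nat_lit 17906506552) (nat_lit 760) (nat_lit 72060822998) (nat_lit 76) (nat_lit 46256070459) (nat_lit 78) (nat_lit 5) (nat_lit 88) (nat_lit 5) (nat_lit 79) (nat_lit 5) (nat_lit 337) (nat_lit 326) (nat_lit 117)) (XT.lf (nat_lit 0) (nat_lit 28127867620) (nat_lit 760) (nat_lit 7730948434) (nat_lit 76) (nat_lit 104179894967) (nat_lit 78) (nat_lit 5) (nat_lit 88) (nat_lit 5) (nat_lit 79) (nat_lit 5) (nat_lit 338) (nat_lit 326) (nat_lit 116))) (XT.nd (nat_lit 78) (nat_lit 380) (nat_lit 0)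 (XT.lf (nat_lit 0) (nat_lit 40167814594) (nat_lit 532) (nat_lit 82546570181) (nat_lit 76) (nat_lit 21265027396) (nat_lit 72) (nat_lit 5) (nat_lit 79) (nat_lit 5) (nat_lit 73) (nat_lit 5) (nat_lit 339) (nat_lit 326) (nat_lit 115)) (XT.nd (nat_lit 78) (nat_lit 380) (nat_lit 0) (XT.lf (nat_lit 0) (nat_lit 53530462064) (nat_lit 532) (nat_lit 14377588695) (nat_lit 76) (nat_lit 80173062921) (nat_lit 72) (nat_lit 5) (nat_lit 79) (nat_lit 5) (nat_lit 73) (nat_lit 5) (nat_lit 340) (nat_lit 326) (nat_lit 114)) (XT.lf (nat_lit 0) (nat_lit 59090916509) (nat_lit 380) (nat_lit 9392690684) (nat_lit 456) (nat_lit 83858175243) (nat_lit 67) (nat_lit 5) (nat_lit 72) (nat_lit 5) (nat_lit 73) (nat_lit 5) (nat_lit 341) (nat_lit 326) (nat_lit 113))))) (XT.nd (nat_lit 234) (nat_lit 608) (nat_lit 0) (XT.nd (nat_lit 78) (nat_lit 304) (nat_lit 0) (XT.lf (nat_lit 0) (nat_lit 85244311996) (nat_lit 456) (nat_lit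 20888130318) (nat_lit 76) (nat_lit 50630047609) (nat_lit 67) (nat_lit 5) (nat_lit 73) (nat_lit 5) (nat_lit 68) (nat_lit 5) (nat_lit 342) (nat_lit 326) (nat_lit 112)) (XT.nd (nat_lit 78) (nat_lit 0) (nat_lit 0) (XT.lf (nat_lit 0) (nat_lit 56755079559) (nat_lit 304) (nat_lit 47127863873) (nat_lit 380) (nat_lit 57469295178) (nat_lit 63) (nat_lit 5) (nat_lit 67) (nat_lit 5) (nat_lit 68) (nat_lit 5) (nat_lit 343) (nat_lit 326) (nat_lit 111)) (XT.lf (nat_lit 0) (nat_lit 124044359309) (nat_lit 380) (nat_lit 27385645157) (nat_lit 76) (nat_lit 14711927998) (nat_lit 63) (nat_lit 5) (nat_lit 68) (nat_lit 5) (nat_lit 64) (nat_lit 5) (nat_lit 344) (nat_lit 326) (nat_lit 110)))) (XT.nd (nat_lit 78) (nat_lit 304) (nat_lit 0) (XT.lf (nat_lit 0) (nat_lit 54663223629) (nat_lit 304) (nat_lit 92176478247) (nat_lit 380) (nat_lit 24250116699) (nat_lit 59) (nat_lit 5) (nat_lit 63) (nat_lit 5) (nat_lit 64)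 (nat_lit 5) (nat_lit 345) (nat_lit 326) (nat_lit 109)) (XT.nd (nat_lit 78) (nat_lit 304) (nat_lit 0) (XT.lf (nat_lit 0) (nat_lit 141765109397) (nat_lit 304) (nat_lit 29473318629) (nat_lit 380) (nat_lit 5023490484) (nat_lit 59) (nat_lit 5) (nat_lit 63) (nat_lit 5) (nat_lit 64) (nat_lit 5) (nat_lit 346) (nat_lit 326) (nat_lit 108)) (XT.lf (nat_lit 0) (nat_lit 16091443305) (nat_lit 304) (nat_lit 129236154402) (nat_lit 76) (nat_lit 36282571357) (nat_lit 55) (nat_lit 5) (nat_lit 59) (nat_lit 5) (nat_lit 56) (nat_lit 5) (nat_lit 347) (nat_lit 326) (nat_lit 107))))))))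
noncomputable def xc248 : XT := (XT.nd (nat_lit 39546) (nat_lit 0) (nat_lit 912) (XT.nd (nat_lit 780) (nat_lit 152) (nat_lit 0) (XT.nd (nat_lit 390) (nat_lit 760) (nat_lit 0) (XT.nd (nat_lit 156) (nat_lit 228) (nat_lit 0) (XT.nd (nat_lit 78) (nat_lit 304) (nat_lit 0) (XT.lf (nat_lit 0) (nat_lit 39170105419) (nat_lit 304) (nat_lit 42985884798) (nat_lit 76) (nat_lit 105011884416) (nat_lit 55) (nat_lit 5) (nat_lit 59) (nat_lit 5) (nat_lit 56) (nat_lit 5) (nat_lit 348) (nat_lit 326) (nat_lit 106)) (XT.lf (nat_lit 0) (nat_lit 49149812801) (nat_lit 304) (nat_lit 15020099074) (nat_lit 380) (nat_lit 128795193323) (nat_lit 51) (nat_lit 5) (nat_lit 55) (nat_lit 5) (nat_lit 56) (nat_lit 5) (nat_lit 349) (nat_lit 326) (nat_lit 105))) (XT.nd (nat_lit 78) (nat_lit 228) (nat_lit 0) (XT.lf (nat_lit 0) (nat_lit 92025561089) (nat_lit 380) (nat_lit 52509337284) (nat_lit 76) (nat_lit 54437006566) (nat_lit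 51) (nat_lit 5) (nat_lit 56) (nat_lit 5) (nat_lit 52) (nat_lit 5) (nat_lit 350) (nat_lit 326) (nat_lit 104)) (XT.nd (nat_lit 78) (nat_lit 0) (nat_lit 0) (XT.lf (nat_lit 0) (nat_lit 44541096056) (nat_lit 228) (nat_lit 77674395293) (nat_lit 304) (nat_lit 83016478642) (nat_lit 48) (nat_lit 5) (nat_lit 51) (nat_lit 5) (nat_lit 52) (nat_lit 5) (nat_lit 351) (nat_lit 326) (nat_lit 103)) (XT.lf (nat_lit 0) (nat_lit 148266877981) (nat_lit 228) (nat_lit 6537171359) (nat_lit 304) (nat_lit 56956532639) (nat_lit 48) (nat_lit 5) (nat_lit 51) (nat_lit 5) (nat_lit 52) (nat_lit 5) (nat_lit 352) (nat_lit 326) (nat_lit 102))))) (XT.nd (nat_lit 156) (nat_lit 456) (nat_lit 0) (XT.nd (nat_lit 78) (nat_lit 76) (nat_lit 0) (XT.lf (nat_lit 0) (nat_lit 38738914694) (nat_lit 228) (nat_lit 151951930254) (nat_lit 304) (nat_lit 27841339363) (nat_lit 45) (nat_lit 5) (nat_lit 48) (nat_lit 5) (nat_lit 49) (nat_lit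 5) (nat_lit 353) (nat_lit 326) (nat_lit 101)) (XT.lf (nat_lit 0) (nat_lit 3842207625) (nat_lit 304) (nat_lit 77468669298) (nat_lit 76) (nat_lit 144269361263) (nat_lit 44) (nat_lit 5) (nat_lit 48) (nat_lit 5) (nat_lit 45) (nat_lit 5) (nat_lit 354) (nat_lit 326) (nat_lit 100))) (XT.nd (nat_lit 78) (nat_lit 228) (nat_lit 0) (XT.lf (nat_lit 0) (nat_lit 30491494112) (nat_lit 228) (nat_lit 6158717836) (nat_lit 304) (nat_lit 196283865660) (nat_lit 41) (nat_lit 5) (nat_lit 44) (nat_lit 5) (nat_lit 45) (nat_lit 5) (nat_lit 355) (nat_lit 326) (nat_lit 99)) (XT.nd (nat_lit 78) (nat_lit 228) (nat_lit 0) (XT.lf (nat_lit 0) (nat_lit 73567817930) (nat_lit 304) (nat_lit 95208335682) (nat_lit 76) (nat_lit 71755995505) (nat_lit 41) (nat_lit 5) (nat_lit 45) (nat_lit 5) (nat_lit 42) (nat_lit 5) (nat_lit 356) (nat_lit 326) (nat_lit 98)) (XT.lf (nat_lit 0) (nat_lit 17858067175) (nat_lit 228) (nat_lit 94852896561)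 (nat_lit 304) (nat_lit 135780177672) (nat_lit 38) (nat_lit 5) (nat_lit 41) (nat_lit 5) (nat_lit 42) (nat_lit 5) (nat_lit 357) (nat_lit 326) (nat_lit 97)))))) (XT.nd (nat_lit 38376) (nat_lit 0) (nat_lit 3648) (XT.nd (nat_lit 156) (nat_lit 0) (nat_lit 0) (XT.nd (nat_lit 78) (nat_lit 152) (nat_lit 0) (XT.lf (nat_lit 0) (nat_lit 139883046822) (nat_lit 228) (nat_lit 15540504776) (nat_lit 304) (nat_lit 101343917648) (nat_lit 38) (nat_lit 5) (nat_lit 41) (nat_lit 5) (nat_lit 42) (nat_lit 5) (nat_lit 358) (nat_lit 326) (nat_lit 96)) (XT.lf (nat_lit 0) (nat_lit 1543326766) (nat_lit 152) (nat_lit 199810000338) (nat_lit 228) (nat_lit 64050208626) (nat_lit 36) (nat_lit 5) (nat_lit 38) (nat_lit 5) (nat_lit 39) (nat_lit 5) (nat_lit 359) (nat_lit 326) (nat_lit 95))) (XT.nd (nat_lit 38064) (nat_lit 0) (nat_lit 3648) (XT.lf (nat_lit 0) (nat_lit 129687084238) (nat_lit 152) (nat_lit 122122547763) (nat_lit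 228) (nat_lit 22550271662) (nat_lit 36) (nat_lit 5) (nat_lit 38) (nat_lit 5) (nat_lit 39) (nat_lit 5) (nat_lit 360) (nat_lit 326) (nat_lit 94)) (XT.nd (nat_lit 78) (nat_lit 0) (nat_lit 0) (XT.lf (nat_lit 0) (nat_lit 19958444174) (nat_lit 0) (nat_lit 19958444174) (nat_lit 684) (nat_lit 13863865248) (nat_lit 84) (nat_lit 5) (nat_lit 84) (nat_lit 3) (nat_lit 93) (nat_lit 3) (nat_lit 327) (nat_lit 327) (nat_lit 126)) (XT.lf (nat_lit 0) (nat_lit 81972096604) (nat_lit 684) (nat_lit 19764078740) (nat_lit 760) (nat_lit 8507233532) (nat_lit 84) (nat_lit 5) (nat_lit 93) (nat_lit 3) (nat_lit 94) (nat_lit 5) (nat_lit 328) (nat_lit 327) (nat_lit 125))))) (XT.nd (nat_lit 156) (nat_lit 0) (nat_lit 76) (XT.nd (nat_lit 78) (nat_lit 0) (nat_lit 0) (XT.lf (nat_lit 76) (nat_lit 30843096177) (nat_lit 0) (nat_lit 54509824510) (nat_lit 760) (nat_lit 27649706329) (nat_lit 85) (nat_lit 5) (nat_lit 84) (nat_lit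 5) (nat_lit 94) (nat_lit 5) (nat_lit 329) (nat_lit 327) (nat_lit 124)) (XT.lf (nat_lit 76) (nat_lit 84666608396) (nat_lit 0) (nat_lit 4570570624) (nat_lit 760) (nat_lit 26645908135) (nat_lit 85) (nat_lit 5) (nat_lit 84) (nat_lit 5) (nat_lit 94) (nat_lit 5) (nat_lit 330) (nat_lit 327) (nat_lit 123))) (XT.nd (nat_lit 78) (nat_lit 0) (nat_lit 0) (XT.lf (nat_lit 76) (nat_lit 22237968095) (nat_lit 0) (nat_lit 72171892175) (nat_lit 760) (nat_lit 24443000241) (nat_lit 86) (nat_lit 5) (nat_lit 85) (nat_lit 5) (nat_lit 95) (nat_lit 5) (nat_lit 331) (nat_lit 327) (nat_lit 122)) (XT.nd (nat_lit 78) (nat_lit 0) (nat_lit 76) (XT.lf (nat_lit 76) (nat_lit 79371306454) (nat_lit 0) (nat_lit 21071961780) (nat_lit 760) (nat_lit 21497750344) (nat_lit 86) (nat_lit 5) (nat_lit 85) (nat_lit 5) (nat_lit 95) (nat_lit 5) (nat_lit 332) (nat_lit 327) (nat_lit 121)) (XT.lf (nat_lit 76) (nat_lit 14120770001) (nat_lit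 0) (nat_lit 93386475808) (nat_lit 760) (nat_lit 17639894423) (nat_lit 87) (nat_lit 5) (nat_lit 86) (nat_lit 5) (nat_lit 96) (nat_lit 5) (nat_lit 333) (nat_lit 327) (nat_lit 120))))))) (XT.nd (nat_lit 780) (nat_lit 1444) (nat_lit 0) (XT.nd (nat_lit 390) (nat_lit 760) (nat_lit 0) (XT.nd (nat_lit 156) (nat_lit 684) (nat_lit 0) (XT.nd (nat_lit 78) (nat_lit 0) (nat_lit 76) (XT.lf (nat_lit 76) (nat_lit 74766641242) (nat_lit 0) (nat_lit 41218323202) (nat_lit 760) (nat_lit 12475577028) (nat_lit 87) (nat_lit 5) (nat_lit 86) (nat_lit 5) (nat_lit 96) (nat_lit 5) (nat_lit 334) (nat_lit 327) (nat_lit 119)) (XT.lf (nat_lit 76) (nat_lit 6501396016) (nat_lit 0) (nat_lit 118698107012) (nat_lit 760) (nat_lit 6724463629) (nat_lit 88) (nat_lit 5) (nat_lit 87) (nat_lit 5) (nat_lit 97) (nat_lit 5) (nat_lit 335) (nat_lit 327) (nat_lit 118))) (XT.nd (nat_lit 78) (nat_lit 0) (nat_lit 0) (XT.lf (nat_lit 0) (nat_lit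 935855989) (nat_lit 760) (nat_lit 64624624540) (nat_lit 836) (nat_lit 69920633419) (nat_lit 77) (nat_lit 5) (nat_lit 87) (nat_lit 5) (nat_lit 88) (nat_lit 5) (nat_lit 336) (nat_lit 327) (nat_lit 117)) (XT.nd (nat_lit 78) (nat_lit 0) (nat_lit 76) (XT.lf (nat_lit 0) (nat_lit 8752968716) (nat_lit 760) (nat_lit 897214403) (nat_lit 836) (nat_lit 129560435974) (nat_lit 77) (nat_lit 5) (nat_lit 87) (nat_lit 5) (nat_lit 88) (nat_lit 5) (nat_lit 337) (nat_lit 327) (nat_lit 116)) (XT.lf (nat_lit 0) (nat_lit 18808843737) (nat_lit 760) (nat_lit 75657545042) (nat_lit 76) (nat_lit 48567815863) (nat_lit 78) (nat_lit 5) (nat_lit 88) (nat_lit 5) (nat_lit 79) (nat_lit 5) (nat_lit 338) (nat_lit 327) (nat_lit 115))))) (XT.nd (nat_lit 156) (nat_lit 380) (nat_lit 0) (XT.nd (nat_lit 78) (nat_lit 456) (nat_lit 0) (XT.lf (nat_lit 0) (nat_lit 29540938961) (nat_lit 760) (nat_lit 8111477659) (nat_lit 76) (nat_lit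 109387881984) (nat_lit 78) (nat_lit 5) (nat_lit 88) (nat_lit 5) (nat_lit 79) (nat_lit 5) (nat_lit 339) (nat_lit 327) (nat_lit 114)) (XT.lf (nat_lit 0) (nat_lit 42182649436) (nat_lit 532) (nat_lit 86667633246) (nat_lit 76) (nat_lit 22327764492) (nat_lit 72) (nat_lit 5) (nat_lit 79) (nat_lit 5) (nat_lit 73) (nat_lit 5) (nat_lit 340) (nat_lit 327) (nat_lit 113))) (XT.nd (nat_lit 78) (nat_lit 380) (nat_lit 0) (XT.lf (nat_lit 0) (nat_lit 56213122417) (nat_lit 532) (nat_lit 15090501040) (nat_lit 76) (nat_lit 84181226283) (nat_lit 72) (nat_lit 5) (nat_lit 79) (nat_lit 5) (nat_lit 73) (nat_lit 5) (nat_lit 341) (nat_lit 327) (nat_lit 112)) (XT.nd (nat_lit 78) (nat_lit 0) (nat_lit 0) (XT.lf (nat_lit 0) (nat_lit 62051333181) (nat_lit 380) (nat_lit 9862391032) (nat_lit 456) (nat_lit 88044838357) (nat_lit 67) (nat_lit 5) (nat_lit 72) (nat_lit 5) (nat_lit 73) (nat_lit 5) (nat_lit 342) (nat_lit 327)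 (nat_lit 111)) (XT.lf (nat_lit 0) (nat_lit 89512180580) (nat_lit 456) (nat_lit 21926650299) (nat_lit 76) (nat_lit 53161489315) (nat_lit 67) (nat_lit 5) (nat_lit 73) (nat_lit 5) (nat_lit 68) (nat_lit 5) (nat_lit 343) (nat_lit 327) (nat_lit 110)))))) (XT.nd (nat_lit 390) (nat_lit 532) (nat_lit 0) (XT.nd (nat_lit 156) (nat_lit 608) (nat_lit 0) (XT.nd (nat_lit 78) (nat_lit 0) (nat_lit 0) (XT.lf (nat_lit 0) (nat_lit 59598625128) (nat_lit 304) (nat_lit 49483939693) (nat_lit 380) (nat_lit 60337000984) (nat_lit 63) (nat_lit 5) (nat_lit 67) (nat_lit 5) (nat_lit 68) (nat_lit 5) (nat_lit 344) (nat_lit 327) (nat_lit 109)) (XT.lf (nat_lit 0) (nat_lit 130251795533) (nat_lit 380) (nat_lit 28749145157) (nat_lit 76) (nat_lit 15447816985) (nat_lit 63) (nat_lit 5) (nat_lit 68) (nat_lit 5) (nat_lit 64) (nat_lit 5) (nat_lit 345) (nat_lit 327) (nat_lit 108))) (XT.nd (nat_lit 78) (nat_lit 304) (nat_lit 0)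 (XT.lf (nat_lit 0) (nat_lit 57402073806) (nat_lit 304) (nat_lit 96784671755) (nat_lit 380) (nat_lit 25457301013) (nat_lit 59) (nat_lit 5) (nat_lit 63) (nat_lit 5) (nat_lit 64) (nat_lit 5) (nat_lit 346) (nat_lit 327) (nat_lit 107)) (XT.nd (nat_lit 78) (nat_lit 304) (nat_lit 0) (XT.lf (nat_lit 0) (nat_lit 148858782958) (nat_lit 304) (nat_lit 30946384175) (nat_lit 380) (nat_lit 5269596893) (nat_lit 59) (nat_lit 5) (nat_lit 63) (nat_lit 5) (nat_lit 64) (nat_lit 5) (nat_lit 347) (nat_lit 327) (nat_lit 106)) (XT.lf (nat_lit 0) (nat_lit 16900785188) (nat_lit 304) (nat_lit 135692227926) (nat_lit 76) (nat_lit 38097417280) (nat_lit 55) (nat_lit 5) (nat_lit 59) (nat_lit 5) (nat_lit 56) (nat_lit 5) (nat_lit 348) (nat_lit 327) (nat_lit 105))))) (XT.nd (nat_lit 156) (nat_lit 228) (nat_lit 0) (XT.nd (nat_lit 78) (nat_lit 304) (nat_lit 0) (XT.lf (nat_lit 0) (nat_lit 41133153278) (nat_lit 304) (nat_lit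 45129717898) (nat_lit 76) (nat_lit 110263161832) (nat_lit 55) (nat_lit 5) (nat_lit 59) (nat_lit 5) (nat_lit 56) (nat_lit 5) (nat_lit 349) (nat_lit 327) (nat_lit 104)) (XT.lf (nat_lit 0) (nat_lit 51612676498) (nat_lit 304) (nat_lit 15770141135) (nat_lit 380) (nat_lit 135230314483) (nat_lit 51) (nat_lit 5) (nat_lit 55) (nat_lit 5) (nat_lit 56) (nat_lit 5) (nat_lit 350) (nat_lit 327) (nat_lit 103))) (XT.nd (nat_lit 78) (nat_lit 228) (nat_lit 0) (XT.lf (nat_lit 0) (nat_lit 96631053616) (nat_lit 380) (nat_lit 55129483800) (nat_lit 76) (nat_lit 57159744585) (nat_lit 51) (nat_lit 5) (nat_lit 56) (nat_lit 5) (nat_lit 52) (nat_lit 5) (nat_lit 351) (nat_lit 327) (nat_lit 102)) (XT.nd (nat_lit 78) (nat_lit 0) (nat_lit 0) (XT.lf (nat_lit 0) (nat_lit 46773385396) (nat_lit 228) (nat_lit 81556976031) (nat_lit 304) (nat_lit 87162995183) (nat_lit 48) (nat_lit 5) (nat_lit 51) (nat_lit 5) (nat_lit 52)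 (nat_lit 5) (nat_lit 352) (nat_lit 327) (nat_lit 101)) (XT.lf (nat_lit 0) (nat_lit 155685207153) (nat_lit 228) (nat_lit 6862945139) (nat_lit 304) (nat_lit 59800256994) (nat_lit 48) (nat_lit 5) (nat_lit 51) (nat_lit 5) (nat_lit 52) (nat_lit 5) (nat_lit 353) (nat_lit 327) (nat_lit 100))))))))
noncomputable def xc249 : XT := (XT.nd (nat_lit 39624) (nat_lit 0) (nat_lit 152) (XT.nd (nat_lit 38844) (nat_lit 0) (nat_lit 3116) (XT.nd (nat_lit 390) (nat_lit 152) (nat_lit 0) (XT.nd (nat_lit 156) (nat_lit 456) (nat_lit 0) (XT.nd (nat_lit 78) (nat_lit 76) (nat_lit 0) (XT.lf (nat_lit 0) (nat_lit 40680947168) (nat_lit 228) (nat_lit 159548250323) (nat_lit 304) (nat_lit 29229399074) (nat_lit 45) (nat_lit 5) (nat_lit 48) (nat_lit 5) (nat_lit 49) (nat_lit 5) (nat_lit 354) (nat_lit 327) (nat_lit 99)) (XT.lf (nat_lit 0) (nat_lit 4038012291) (nat_lit 304) (nat_lit 81337130253) (nat_lit 76) (nat_lit 151483916990)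 (nat_lit 44) (nat_lit 5) (nat_lit 48) (nat_lit 5) (nat_lit 45) (nat_lit 5) (nat_lit 355) (nat_lit 327) (nat_lit 98))) (XT.nd (nat_lit 78) (nat_lit 228) (nat_lit 0) (XT.lf (nat_lit 0) (nat_lit 32020961125) (nat_lit 228) (nat_lit 6465356169) (nat_lit 304) (nat_lit 206094278888) (nat_lit 41) (nat_lit 5) (nat_lit 44) (nat_lit 5) (nat_lit 45) (nat_lit 5) (nat_lit 356) (nat_lit 327) (nat_lit 97)) (XT.nd (nat_lit 78) (nat_lit 228) (nat_lit 0) (XT.lf (nat_lit 0) (nat_lit 77249651691) (nat_lit 304) (nat_lit 99963935938) (nat_lit 76) (nat_lit 75344991498) (nat_lit 41) (nat_lit 5) (nat_lit 45) (nat_lit 5) (nat_lit 42) (nat_lit 5) (nat_lit 357) (nat_lit 327) (nat_lit 96)) (XT.lf (nat_lit 0) (nat_lit 18755709377) (nat_lit 228) (nat_lit 99594155451) (nat_lit 304) (nat_lit 142565660955) (nat_lit 38) (nat_lit 5) (nat_lit 41) (nat_lit 5) (nat_lit 42) (nat_lit 5) (nat_lit 358) (nat_lit 327) (nat_lit 95)))))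 (XT.nd (nat_lit 38220) (nat_lit 0) (nat_lit 3648) (XT.nd (nat_lit 78) (nat_lit 152) (nat_lit 0) (XT.lf (nat_lit 0) (nat_lit 146881712347) (nat_lit 228) (nat_lit 16316210075) (nat_lit 304) (nat_lit 106407755815) (nat_lit 38) (nat_lit 5) (nat_lit 41) (nat_lit 5) (nat_lit 42) (nat_lit 5) (nat_lit 359) (nat_lit 327) (nat_lit 94)) (XT.lf (nat_lit 0) (nat_lit 1625075038) (nat_lit 152) (nat_lit 209799050769) (nat_lit 228) (nat_lit 67249425512) (nat_lit 36) (nat_lit 5) (nat_lit 38) (nat_lit 5) (nat_lit 39) (nat_lit 5) (nat_lit 360) (nat_lit 327) (nat_lit 93))) (XT.nd (nat_lit 78) (nat_lit 0) (nat_lit 0) (XT.lf (nat_lit 0) (nat_lit 20958956328) (nat_lit 0) (nat_lit 20958956328) (nat_lit 684) (nat_lit 14551607594) (nat_lit 84) (nat_lit 5) (nat_lit 84) (nat_lit 3) (nat_lit 93) (nat_lit 3) (nat_lit 328) (nat_lit 328) (nat_lit 124)) (XT.nd (nat_lit 78) (nat_lit 0) (nat_lit 0) (XT.lf (nat_lit 0) (nat_lit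 86080490870) (nat_lit 684) (nat_lit 20746756185) (nat_lit 760) (nat_lit 8927819874) (nat_lit 84) (nat_lit 5) (nat_lit 93) (nat_lit 3) (nat_lit 94) (nat_lit 5) (nat_lit 329) (nat_lit 328) (nat_lit 123)) (XT.lf (nat_lit 76) (nat_lit 32390688341) (nat_lit 0) (nat_lit 57239286545) (nat_lit 760) (nat_lit 29022291245) (nat_lit 85) (nat_lit 5) (nat_lit 84) (nat_lit 5) (nat_lit 94) (nat_lit 5) (nat_lit 330) (nat_lit 328) (nat_lit 122)))))) (XT.nd (nat_lit 390) (nat_lit 532) (nat_lit 0) (XT.nd (nat_lit 156) (nat_lit 0) (nat_lit 76) (XT.nd (nat_lit 78) (nat_lit 0) (nat_lit 76) (XT.lf (nat_lit 76) (nat_lit 88905117249) (nat_lit 0) (nat_lit 4802880879) (nat_lit 760) (nat_lit 27968774589) (nat_lit 85) (nat_lit 5) (nat_lit 84) (nat_lit 5) (nat_lit 94) (nat_lit 5) (nat_lit 331) (nat_lit 328) (nat_lit 121)) (XT.lf (nat_lit 76) (nat_lit 23355480736) (nat_lit 0) (nat_lit 75783437453) (nat_lit 760) (nat_lit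 25656137305) (nat_lit 86) (nat_lit 5) (nat_lit 85) (nat_lit 5) (nat_lit 95) (nat_lit 5) (nat_lit 332) (nat_lit 328) (nat_lit 120))) (XT.nd (nat_lit 78) (nat_lit 0) (nat_lit 76) (XT.lf (nat_lit 76) (nat_lit 83345218668) (nat_lit 0) (nat_lit 22128370030) (nat_lit 760) (nat_lit 22564054101) (nat_lit 86) (nat_lit 5) (nat_lit 85) (nat_lit 5) (nat_lit 95) (nat_lit 5) (nat_lit 333) (nat_lit 328) (nat_lit 119)) (XT.nd (nat_lit 78) (nat_lit 0) (nat_lit 0) (XT.lf (nat_lit 76) (nat_lit 14832532145) (nat_lit 0) (nat_lit 98057892152) (nat_lit 760) (nat_lit 18513664179) (nat_lit 87) (nat_lit 5) (nat_lit 86) (nat_lit 5) (nat_lit 96) (nat_lit 5) (nat_lit 334) (nat_lit 328) (nat_lit 118)) (XT.lf (nat_lit 76) (nat_lit 78510424394) (nat_lit 0) (nat_lit 43281232271) (nat_lit 760) (nat_lit 13091522579) (nat_lit 87) (nat_lit 5) (nat_lit 86) (nat_lit 5) (nat_lit 96) (nat_lit 5) (nat_lit 335) (nat_lit 328)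 (nat_lit 117))))) (XT.nd (nat_lit 156) (nat_lit 0) (nat_lit 0) (XT.nd (nat_lit 78) (nat_lit 760) (nat_lit 0) (XT.lf (nat_lit 76) (nat_lit 6832242622) (nat_lit 0) (nat_lit 124634385639) (nat_lit 760) (nat_lit 7053162938) (nat_lit 88) (nat_lit 5) (nat_lit 87) (nat_lit 5) (nat_lit 97) (nat_lit 5) (nat_lit 336) (nat_lit 328) (nat_lit 116)) (XT.lf (nat_lit 0) (nat_lit 989585038) (nat_lit 760) (nat_lit 67850109931) (nat_lit 836) (nat_lit 73415113091) (nat_lit 77) (nat_lit 5) (nat_lit 87) (nat_lit 5) (nat_lit 88) (nat_lit 5) (nat_lit 337) (nat_lit 328) (nat_lit 115))) (XT.nd (nat_lit 78) (nat_lit 0) (nat_lit 76) (XT.lf (nat_lit 0) (nat_lit 9197223104) (nat_lit 760) (nat_lit 936602897) (nat_lit 836) (nat_lit 136036979678) (nat_lit 77) (nat_lit 5) (nat_lit 87) (nat_lit 5) (nat_lit 88) (nat_lit 5) (nat_lit 338) (nat_lit 328) (nat_lit 114)) (XT.nd (nat_lit 78) (nat_lit 0) (nat_lit 0) (XT.lf (nat_lit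 0) (nat_lit 19755645886) (nat_lit 760) (nat_lit 79434690678) (nat_lit 76) (nat_lit 50995246912) (nat_lit 78) (nat_lit 5) (nat_lit 88) (nat_lit 5) (nat_lit 79) (nat_lit 5) (nat_lit 339) (nat_lit 328) (nat_lit 113)) (XT.lf (nat_lit 0) (nat_lit 31024043016) (nat_lit 760) (nat_lit 8511592860) (nat_lit 76) (nat_lit 114856362041) (nat_lit 78) (nat_lit 5) (nat_lit 88) (nat_lit 5) (nat_lit 79) (nat_lit 5) (nat_lit 340) (nat_lit 328) (nat_lit 112))))))) (XT.nd (nat_lit 780) (nat_lit 1292) (nat_lit 0) (XT.nd (nat_lit 390) (nat_lit 608) (nat_lit 0) (XT.nd (nat_lit 156) (nat_lit 684) (nat_lit 0) (XT.nd (nat_lit 78) (nat_lit 0) (nat_lit 0) (XT.lf (nat_lit 0) (nat_lit 44297626908) (nat_lit 532) (nat_lit 90995331966) (nat_lit 76) (nat_lit 23443686255) (nat_lit 72) (nat_lit 5) (nat_lit 79) (nat_lit 5) (nat_lit 73) (nat_lit 5) (nat_lit 341) (nat_lit 328) (nat_lit 111)) (XT.lf (nat_lit 0) (nat_lit 59029345205)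 (nat_lit 532) (nat_lit 15839613765) (nat_lit 76) (nat_lit 88389843347) (nat_lit 72) (nat_lit 5) (nat_lit 79) (nat_lit 5) (nat_lit 73) (nat_lit 5) (nat_lit 342) (nat_lit 328) (nat_lit 110))) (XT.nd (nat_lit 78) (nat_lit 304) (nat_lit 0) (XT.lf (nat_lit 0) (nat_lit 65159224871) (nat_lit 380) (nat_lit 10355570278) (nat_lit 456) (nat_lit 92441415288) (nat_lit 67) (nat_lit 5) (nat_lit 72) (nat_lit 5) (nat_lit 73) (nat_lit 5) (nat_lit 343) (nat_lit 328) (nat_lit 109)) (XT.nd (nat_lit 78) (nat_lit 304) (nat_lit 0) (XT.lf (nat_lit 0) (nat_lit 93992917031) (nat_lit 456) (nat_lit 23017643554) (nat_lit 76) (nat_lit 55819508748) (nat_lit 67) (nat_lit 5) (nat_lit 73) (nat_lit 5) (nat_lit 68) (nat_lit 5) (nat_lit 344) (nat_lit 328) (nat_lit 108)) (XT.lf (nat_lit 0) (nat_lit 62583809528) (nat_lit 304) (nat_lit 51957848810) (nat_lit 380) (nat_lit 63348627494) (nat_lit 63) (nat_lit 5) (nat_lit 67) (nat_lit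 5) (nat_lit 68) (nat_lit 5) (nat_lit 345) (nat_lit 328) (nat_lit 107))))) (XT.nd (nat_lit 156) (nat_lit 304) (nat_lit 0) (XT.nd (nat_lit 78) (nat_lit 304) (nat_lit 0) (XT.lf (nat_lit 0) (nat_lit 136769118425) (nat_lit 380) (nat_lit 30181357736) (nat_lit 76) (nat_lit 16220473219) (nat_lit 63) (nat_lit 5) (nat_lit 68) (nat_lit 5) (nat_lit 64) (nat_lit 5) (nat_lit 346) (nat_lit 328) (nat_lit 106)) (XT.lf (nat_lit 0) (nat_lit 60277337584) (nat_lit 304) (nat_lit 101623333548) (nat_lit 380) (nat_lit 26725339287) (nat_lit 59) (nat_lit 5) (nat_lit 63) (nat_lit 5) (nat_lit 64) (nat_lit 5) (nat_lit 347) (nat_lit 328) (nat_lit 105))) (XT.nd (nat_lit 78) (nat_lit 304) (nat_lit 0) (XT.lf (nat_lit 0) (nat_lit 156306636475) (nat_lit 304) (nat_lit 32493158817) (nat_lit 380) (nat_lit 5528479808) (nat_lit 59) (nat_lit 5) (nat_lit 63) (nat_lit 5) (nat_lit 64) (nat_lit 5) (nat_lit 348) (nat_lit 328) (nat_lit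 104)) (XT.nd (nat_lit 78) (nat_lit 0) (nat_lit 0) (XT.lf (nat_lit 0) (nat_lit 17750150722) (nat_lit 304) (nat_lit 142471638237) (nat_lit 76) (nat_lit 40002938806) (nat_lit 55) (nat_lit 5) (nat_lit 59) (nat_lit 5) (nat_lit 56) (nat_lit 5) (nat_lit 349) (nat_lit 328) (nat_lit 103)) (XT.lf (nat_lit 0) (nat_lit 43193931203) (nat_lit 304) (nat_lit 47381250379) (nat_lit 76) (nat_lit 115776939602) (nat_lit 55) (nat_lit 5) (nat_lit 59) (nat_lit 5) (nat_lit 56) (nat_lit 5) (nat_lit 350) (nat_lit 328) (nat_lit 102)))))) (XT.nd (nat_lit 390) (nat_lit 532) (nat_lit 0) (XT.nd (nat_lit 156) (nat_lit 456) (nat_lit 0) (XT.nd (nat_lit 78) (nat_lit 0) (nat_lit 0) (XT.lf (nat_lit 0) (nat_lit 54198183843) (nat_lit 304) (nat_lit 16557774819) (nat_lit 380) (nat_lit 141987622946) (nat_lit 51) (nat_lit 5) (nat_lit 55) (nat_lit 5) (nat_lit 56) (nat_lit 5) (nat_lit 351) (nat_lit 328) (nat_lit 101)) (XT.lf (nat_lit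 0) (nat_lit 101466428948) (nat_lit 380) (nat_lit 57881132277) (nat_lit 76) (nat_lit 60018536975) (nat_lit 51) (nat_lit 5) (nat_lit 56) (nat_lit 5) (nat_lit 52) (nat_lit 5) (nat_lit 352) (nat_lit 328) (nat_lit 100))) (XT.nd (nat_lit 78) (nat_lit 228) (nat_lit 0) (XT.lf (nat_lit 0) (nat_lit 49116802544) (nat_lit 228) (nat_lit 85633791702) (nat_lit 304) (nat_lit 91517238011) (nat_lit 48) (nat_lit 5) (nat_lit 51) (nat_lit 5) (nat_lit 52) (nat_lit 5) (nat_lit 353) (nat_lit 328) (nat_lit 99)) (XT.nd (nat_lit 78) (nat_lit 228) (nat_lit 0) (XT.lf (nat_lit 0) (nat_lit 163473989300) (nat_lit 228) (nat_lit 7205108462) (nat_lit 304) (nat_lit 62786548957) (nat_lit 48) (nat_lit 5) (nat_lit 51) (nat_lit 5) (nat_lit 52) (nat_lit 5) (nat_lit 354) (nat_lit 328) (nat_lit 98)) (XT.lf (nat_lit 0) (nat_lit 42719608350) (nat_lit 228) (nat_lit 167524505068) (nat_lit 304) (nat_lit 30687234328) (nat_lit 45) (nat_lit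 5) (nat_lit 48) (nat_lit 5) (nat_lit 49) (nat_lit 5) (nat_lit 355) (nat_lit 328) (nat_lit 97))))) (XT.nd (nat_lit 234) (nat_lit 228) (nat_lit 0) (XT.nd (nat_lit 78) (nat_lit 228) (nat_lit 0) (XT.lf (nat_lit 0) (nat_lit 4243263732) (nat_lit 304) (nat_lit 85399476552) (nat_lit 76) (nat_lit 159059099383) (nat_lit 44) (nat_lit 5) (nat_lit 48) (nat_lit 5) (nat_lit 45) (nat_lit 5) (nat_lit 356) (nat_lit 328) (nat_lit 96)) (XT.nd (nat_lit 78) (nat_lit 0) (nat_lit 0) (XT.lf (nat_lit 0) (nat_lit 33626446650) (nat_lit 228) (nat_lit 6787447054) (nat_lit 304) (nat_lit 216395564211) (nat_lit 41) (nat_lit 5) (nat_lit 44) (nat_lit 5) (nat_lit 45) (nat_lit 5) (nat_lit 357) (nat_lit 328) (nat_lit 95)) (XT.lf (nat_lit 0) (nat_lit 81115257056) (nat_lit 304) (nat_lit 104957764001) (nat_lit 76) (nat_lit 79113326078) (nat_lit 41) (nat_lit 5) (nat_lit 45) (nat_lit 5) (nat_lit 42) (nat_lit 5) (nat_lit 358)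 (nat_lit 328) (nat_lit 94)))) (XT.nd (nat_lit 38298) (nat_lit 0) (nat_lit 3496) (XT.lf (nat_lit 0) (nat_lit 19697793116) (nat_lit 228) (nat_lit 104572606138) (nat_lit 304) (nat_lit 149690746178) (nat_lit 38) (nat_lit 5) (nat_lit 41) (nat_lit 5) (nat_lit 42) (nat_lit 5) (nat_lit 359) (nat_lit 328) (nat_lit 93)) (XT.nd (nat_lit 78) (nat_lit 0) (nat_lit 0) (XT.lf (nat_lit 0) (nat_lit 22009253301) (nat_lit 0) (nat_lit 22009253301) (nat_lit 684) (nat_lit 15274243831) (nat_lit 84) (nat_lit 5) (nat_lit 84) (nat_lit 3) (nat_lit 93) (nat_lit 3) (nat_lit 329) (nat_lit 329) (nat_lit 122)) (XT.lf (nat_lit 0) (nat_lit 90393394721) (nat_lit 684) (nat_lit 21779081303) (nat_lit 760) (nat_lit 9369879499) (nat_lit 84) (nat_lit 5) (nat_lit 93) (nat_lit 3) (nat_lit 94) (nat_lit 5) (nat_lit 330) (nat_lit 329) (nat_lit 121))))))))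
noncomputable def xc250 : XT := (XT.nd (nat_lit 1560) (nat_lit 1064) (nat_lit 0) (XT.nd (nat_lit 780) (nat_lit 1672) (nat_lit 0) (XT.nd (nat_lit 390) (nat_lit 532) (nat_lit 0) (XT.nd (nat_lit 156) (nat_lit 0) (nat_lit 76) (XT.nd (nat_lit 78) (nat_lit 0) (nat_lit 0) (XT.lf (nat_lit 76) (nat_lit 34015154599) (nat_lit 0) (nat_lit 60104852514) (nat_lit 760) (nat_lit 30464425852) (nat_lit 85) (nat_lit 5) (nat_lit 84) (nat_lit 5) (nat_lit 94) (nat_lit 5) (nat_lit 331) (nat_lit 329) (nat_lit 120)) (XT.lf (nat_lit 76) (nat_lit 93355070103) (nat_lit 0) (nat_lit 5046455057) (nat_lit 760) (nat_lit 29358660980) (nat_lit 85) (nat_lit 5) (nat_lit 84) (nat_lit 5) (nat_lit 94) (nat_lit 5) (nat_lit 332) (nat_lit 329) (nat_lit 119))) (XT.nd (nat_lit 78) (nat_lit 0) (nat_lit 0) (XT.lf (nat_lit 76) (nat_lit 24528347050) (nat_lit 0) (nat_lit 79575285669) (nat_lit 760) (nat_lit 26930769160) (nat_lit 86) (nat_lit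 5) (nat_lit 85) (nat_lit 5) (nat_lit 95) (nat_lit 5) (nat_lit 333) (nat_lit 329) (nat_lit 118)) (XT.nd (nat_lit 78) (nat_lit 0) (nat_lit 76) (XT.lf (nat_lit 76) (nat_lit 87517329390) (nat_lit 0) (nat_lit 23237337430) (nat_lit 760) (nat_lit 23684471082) (nat_lit 86) (nat_lit 5) (nat_lit 85) (nat_lit 5) (nat_lit 95) (nat_lit 5) (nat_lit 334) (nat_lit 329) (nat_lit 117)) (XT.lf (nat_lit 76) (nat_lit 15579350266) (nat_lit 0) (nat_lit 102962684768) (nat_lit 760) (nat_lit 19431887102) (nat_lit 87) (nat_lit 5) (nat_lit 86) (nat_lit 5) (nat_lit 96) (nat_lit 5) (nat_lit 335) (nat_lit 329) (nat_lit 116))))) (XT.nd (nat_lit 156) (nat_lit 684) (nat_lit 0) (XT.nd (nat_lit 78) (nat_lit 0) (nat_lit 76) (XT.lf (nat_lit 76) (nat_lit 82440889912) (nat_lit 0) (nat_lit 45447101512) (nat_lit 760) (nat_lit 13738993673) (nat_lit 87) (nat_lit 5) (nat_lit 86) (nat_lit 5) (nat_lit 96) (nat_lit 5) (nat_lit 336)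 (nat_lit 329) (nat_lit 115)) (XT.lf (nat_lit 76) (nat_lit 7179094486) (nat_lit 0) (nat_lit 130867350522) (nat_lit 760) (nat_lit 7398996710) (nat_lit 88) (nat_lit 5) (nat_lit 87) (nat_lit 5) (nat_lit 97) (nat_lit 5) (nat_lit 337) (nat_lit 329) (nat_lit 114))) (XT.nd (nat_lit 78) (nat_lit 0) (nat_lit 0) (XT.lf (nat_lit 0) (nat_lit 1045355673) (nat_lit 760) (nat_lit 71237403784) (nat_lit 836) (nat_lit 77084461036) (nat_lit 77) (nat_lit 5) (nat_lit 87) (nat_lit 5) (nat_lit 88) (nat_lit 5) (nat_lit 338) (nat_lit 329) (nat_lit 113)) (XT.nd (nat_lit 78) (nat_lit 0) (nat_lit 76) (XT.lf (nat_lit 0) (nat_lit 9663076053) (nat_lit 760) (nat_lit 978469573) (nat_lit 836) (nat_lit 142837487987) (nat_lit 77) (nat_lit 5) (nat_lit 87) (nat_lit 5) (nat_lit 88) (nat_lit 5) (nat_lit 339) (nat_lit 329) (nat_lit 112)) (XT.lf (nat_lit 0) (nat_lit 20749196854) (nat_lit 760) (nat_lit 83401226467) (nat_lit 76)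 (nat_lit 53544138741) (nat_lit 78) (nat_lit 5) (nat_lit 88) (nat_lit 5) (nat_lit 79) (nat_lit 5) (nat_lit 340) (nat_lit 329) (nat_lit 111)))))) (XT.nd (nat_lit 390) (nat_lit 912) (nat_lit 0) (XT.nd (nat_lit 156) (nat_lit 380) (nat_lit 0) (XT.nd (nat_lit 78) (nat_lit 456) (nat_lit 0) (XT.lf (nat_lit 0) (nat_lit 32580739141) (nat_lit 760) (nat_lit 8932221318) (nat_lit 76) (nat_lit 120598351079) (nat_lit 78) (nat_lit 5) (nat_lit 88) (nat_lit 5) (nat_lit 79) (nat_lit 5) (nat_lit 341) (nat_lit 329) (nat_lit 110)) (XT.lf (nat_lit 0) (nat_lit 46517809841) (nat_lit 532) (nat_lit 95539943967) (nat_lit 76) (nat_lit 24615447473) (nat_lit 72) (nat_lit 5) (nat_lit 79) (nat_lit 5) (nat_lit 73) (nat_lit 5) (nat_lit 342) (nat_lit 329) (nat_lit 109))) (XT.nd (nat_lit 78) (nat_lit 380) (nat_lit 0) (XT.lf (nat_lit 0) (nat_lit 61985861596) (nat_lit 532) (nat_lit 16626685314) (nat_lit 76) (nat_lit 92808932568)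 (nat_lit 72) (nat_lit 5) (nat_lit 79) (nat_lit 5) (nat_lit 73) (nat_lit 5) (nat_lit 343) (nat_lit 329) (nat_lit 108)) (XT.nd (nat_lit 78) (nat_lit 0) (nat_lit 0) (XT.lf (nat_lit 0) (nat_lit 68422016074) (nat_lit 380) (nat_lit 10873402938) (nat_lit 456) (nat_lit 97058347743) (nat_lit 67) (nat_lit 5) (nat_lit 72) (nat_lit 5) (nat_lit 73) (nat_lit 5) (nat_lit 344) (nat_lit 329) (nat_lit 107)) (XT.lf (nat_lit 0) (nat_lit 98697213607) (nat_lit 456) (nat_lit 24163682864) (nat_lit 76) (nat_lit 58610434269) (nat_lit 67) (nat_lit 5) (nat_lit 73) (nat_lit 5) (nat_lit 68) (nat_lit 5) (nat_lit 345) (nat_lit 329) (nat_lit 106))))) (XT.nd (nat_lit 156) (nat_lit 608) (nat_lit 0) (XT.nd (nat_lit 78) (nat_lit 0) (nat_lit 0) (XT.lf (nat_lit 0) (nat_lit 65717764760) (nat_lit 304) (nat_lit 54555480146) (nat_lit 380) (nat_lit 66511320965) (nat_lit 63) (nat_lit 5) (nat_lit 67) (nat_lit 5) (nat_lit 68) (nat_lit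 5) (nat_lit 346) (nat_lit 329) (nat_lit 105)) (XT.lf (nat_lit 0) (nat_lit 143611867421) (nat_lit 380) (nat_lit 31685668545) (nat_lit 76) (nat_lit 17031737591) (nat_lit 63) (nat_lit 5) (nat_lit 68) (nat_lit 5) (nat_lit 64) (nat_lit 5) (nat_lit 347) (nat_lit 329) (nat_lit 104))) (XT.nd (nat_lit 78) (nat_lit 304) (nat_lit 0) (XT.lf (nat_lit 0) (nat_lit 63295884814) (nat_lit 304) (nat_lit 106703981590) (nat_lit 380) (nat_lit 28057228223) (nat_lit 59) (nat_lit 5) (nat_lit 63) (nat_lit 5) (nat_lit 64) (nat_lit 5) (nat_lit 348) (nat_lit 329) (nat_lit 103)) (XT.nd (nat_lit 78) (nat_lit 304) (nat_lit 0) (XT.lf (nat_lit 0) (nat_lit 164126425775) (nat_lit 304) (nat_lit 34117322820) (nat_lit 380) (nat_lit 5800734247) (nat_lit 59) (nat_lit 5) (nat_lit 63) (nat_lit 5) (nat_lit 64) (nat_lit 5) (nat_lit 349) (nat_lit 329) (nat_lit 102)) (XT.lf (nat_lit 0) (nat_lit 18641582317) (nat_lit 304) (nat_lit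 149590502611) (nat_lit 76) (nat_lit 42003675915) (nat_lit 55) (nat_lit 5) (nat_lit 59) (nat_lit 5) (nat_lit 56) (nat_lit 5) (nat_lit 350) (nat_lit 329) (nat_lit 101))))))) (XT.nd (nat_lit 39156) (nat_lit 0) (nat_lit 2736) (XT.nd (nat_lit 390) (nat_lit 532) (nat_lit 0) (XT.nd (nat_lit 156) (nat_lit 228) (nat_lit 0) (XT.nd (nat_lit 78) (nat_lit 304) (nat_lit 0) (XT.lf (nat_lit 0) (nat_lit 45357364962) (nat_lit 304) (nat_lit 49745820005) (nat_lit 76) (nat_lit 121566348648) (nat_lit 55) (nat_lit 5) (nat_lit 59) (nat_lit 5) (nat_lit 56) (nat_lit 5) (nat_lit 351) (nat_lit 329) (nat_lit 100)) (XT.lf (nat_lit 0) (nat_lit 56912513462) (nat_lit 304) (nat_lit 17384871385) (nat_lit 380) (nat_lit 149083187982) (nat_lit 51) (nat_lit 5) (nat_lit 55) (nat_lit 5) (nat_lit 56) (nat_lit 5) (nat_lit 352) (nat_lit 329) (nat_lit 99))) (XT.nd (nat_lit 78) (nat_lit 228) (nat_lit 0) (XT.lf (nat_lit 0) (nat_lit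 106543217653) (nat_lit 380) (nat_lit 60770811827) (nat_lit 76) (nat_lit 63020194129) (nat_lit 51) (nat_lit 5) (nat_lit 56) (nat_lit 5) (nat_lit 52) (nat_lit 5) (nat_lit 353) (nat_lit 329) (nat_lit 98)) (XT.nd (nat_lit 78) (nat_lit 0) (nat_lit 0) (XT.lf (nat_lit 0) (nat_lit 51576949138) (nat_lit 228) (nat_lit 89914544206) (nat_lit 304) (nat_lit 96089556210) (nat_lit 48) (nat_lit 5) (nat_lit 51) (nat_lit 5) (nat_lit 52) (nat_lit 5) (nat_lit 354) (nat_lit 329) (nat_lit 97)) (XT.lf (nat_lit 0) (nat_lit 171651790161) (nat_lit 228) (nat_lit 7564471428) (nat_lit 304) (nat_lit 65922501451) (nat_lit 48) (nat_lit 5) (nat_lit 51) (nat_lit 5) (nat_lit 52) (nat_lit 5) (nat_lit 355) (nat_lit 329) (nat_lit 96))))) (XT.nd (nat_lit 156) (nat_lit 228) (nat_lit 0) (XT.nd (nat_lit 78) (nat_lit 76) (nat_lit 0) (XT.lf (nat_lit 0) (nat_lit 44859773640) (nat_lit 228) (nat_lit 175899680188) (nat_lit 304) (nat_lit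 32218299264) (nat_lit 45) (nat_lit 5) (nat_lit 48) (nat_lit 5) (nat_lit 49) (nat_lit 5) (nat_lit 356) (nat_lit 329) (nat_lit 95)) (XT.lf (nat_lit 0) (nat_lit 4458466216) (nat_lit 304) (nat_lit 89665359484) (nat_lit 76) (nat_lit 167012949176) (nat_lit 44) (nat_lit 5) (nat_lit 48) (nat_lit 5) (nat_lit 45) (nat_lit 5) (nat_lit 357) (nat_lit 329) (nat_lit 94))) (XT.nd (nat_lit 38454) (nat_lit 0) (nat_lit 3268) (XT.lf (nat_lit 0) (nat_lit 35311793896) (nat_lit 228) (nat_lit 7125751902) (nat_lit 304) (nat_lit 227212232560) (nat_lit 41) (nat_lit 5) (nat_lit 44) (nat_lit 5) (nat_lit 45) (nat_lit 5) (nat_lit 358) (nat_lit 329) (nat_lit 93)) (XT.nd (nat_lit 78) (nat_lit 0) (nat_lit 0) (XT.lf (nat_lit 0) (nat_lit 23111846720) (nat_lit 0) (nat_lit 23111846720) (nat_lit 684) (nat_lit 16033471539) (nat_lit 84) (nat_lit 5) (nat_lit 84) (nat_lit 3) (nat_lit 93) (nat_lit 3) (nat_lit 330) (nat_lit 330)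 (nat_lit 120)) (XT.lf (nat_lit 0) (nat_lit 94921118250) (nat_lit 684) (nat_lit 22863488709) (nat_lit 760) (nat_lit 9834444794) (nat_lit 84) (nat_lit 5) (nat_lit 93) (nat_lit 3) (nat_lit 94) (nat_lit 5) (nat_lit 331) (nat_lit 330) (nat_lit 119)))))) (XT.nd (nat_lit 390) (nat_lit 532) (nat_lit 0) (XT.nd (nat_lit 156) (nat_lit 0) (nat_lit 76) (XT.nd (nat_lit 78) (nat_lit 0) (nat_lit 0) (XT.lf (nat_lit 76) (nat_lit 35720385654) (nat_lit 0) (nat_lit 63113361934) (nat_lit 760) (nat_lit 31979502061) (nat_lit 85) (nat_lit 5) (nat_lit 84) (nat_lit 5) (nat_lit 94) (nat_lit 5) (nat_lit 332) (nat_lit 330) (nat_lit 118)) (XT.lf (nat_lit 76) (nat_lit 98027083919) (nat_lit 0) (nat_lit 5301889043) (nat_lit 760) (nat_lit 30818836807) (nat_lit 85) (nat_lit 5) (nat_lit 84) (nat_lit 5) (nat_lit 94) (nat_lit 5) (nat_lit 333) (nat_lit 330) (nat_lit 117))) (XT.nd (nat_lit 78) (nat_lit 0) (nat_lit 0) (XT.lf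 (nat_lit 76) (nat_lit 25759383249) (nat_lit 0) (nat_lit 83556477475) (nat_lit 760) (nat_lit 28269892643) (nat_lit 86) (nat_lit 5) (nat_lit 85) (nat_lit 5) (nat_lit 95) (nat_lit 5) (nat_lit 334) (nat_lit 330) (nat_lit 116)) (XT.nd (nat_lit 78) (nat_lit 0) (nat_lit 76) (XT.lf (nat_lit 76) (nat_lit 91897594760) (nat_lit 0) (nat_lit 24401516228) (nat_lit 760) (nat_lit 24861632756) (nat_lit 86) (nat_lit 5) (nat_lit 85) (nat_lit 5) (nat_lit 95) (nat_lit 5) (nat_lit 335) (nat_lit 330) (nat_lit 115)) (XT.lf (nat_lit 76) (nat_lit 16363026635) (nat_lit 0) (nat_lit 108112540556) (nat_lit 760) (nat_lit 20396714757) (nat_lit 87) (nat_lit 5) (nat_lit 86) (nat_lit 5) (nat_lit 96) (nat_lit 5) (nat_lit 336) (nat_lit 330) (nat_lit 114))))) (XT.nd (nat_lit 234) (nat_lit 0) (nat_lit 0) (XT.nd (nat_lit 78) (nat_lit 684) (nat_lit 0) (XT.lf (nat_lit 76) (nat_lit 86567419033) (nat_lit 0) (nat_lit 47721096158)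 (nat_lit 760) (nat_lit 14419498881) (nat_lit 87) (nat_lit 5) (nat_lit 86) (nat_lit 5) (nat_lit 96) (nat_lit 5) (nat_lit 337) (nat_lit 330) (nat_lit 113)) (XT.nd (nat_lit 78) (nat_lit 760) (nat_lit 0) (XT.lf (nat_lit 76) (nat_lit 7542801802) (nat_lit 0) (nat_lit 137411847846) (nat_lit 760) (nat_lit 7762756636) (nat_lit 88) (nat_lit 5) (nat_lit 87) (nat_lit 5) (nat_lit 97) (nat_lit 5) (nat_lit 338) (nat_lit 330) (nat_lit 112)) (XT.lf (nat_lit 0) (nat_lit 1103329927) (nat_lit 760) (nat_lit 74794546859) (nat_lit 836) (nat_lit 80937407254) (nat_lit 77) (nat_lit 5) (nat_lit 87) (nat_lit 5) (nat_lit 88) (nat_lit 5) (nat_lit 339) (nat_lit 330) (nat_lit 111)))) (XT.nd (nat_lit 78) (nat_lit 0) (nat_lit 76) (XT.lf (nat_lit 0) (nat_lit 10151664589) (nat_lit 760) (nat_lit 1022891038) (nat_lit 836) (nat_lit 149978146354) (nat_lit 77) (nat_lit 5) (nat_lit 87) (nat_lit 5) (nat_lit 88) (nat_lit 5) (nat_lit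 340) (nat_lit 330) (nat_lit 110)) (XT.nd (nat_lit 78) (nat_lit 0) (nat_lit 0) (XT.lf (nat_lit 0) (nat_lit 21791889053) (nat_lit 760) (nat_lit 87566572376) (nat_lit 76) (nat_lit 56220556094) (nat_lit 78) (nat_lit 5) (nat_lit 88) (nat_lit 5) (nat_lit 79) (nat_lit 5) (nat_lit 341) (nat_lit 330) (nat_lit 109)) (XT.lf (nat_lit 0) (nat_lit 34214759294) (nat_lit 760) (nat_lit 9374341513) (nat_lit 76) (nat_lit 126627516648) (nat_lit 78) (nat_lit 5) (nat_lit 88) (nat_lit 5) (nat_lit 79) (nat_lit 5) (nat_lit 342) (nat_lit 330) (nat_lit 108))))))))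
noncomputable def xc251 : XT := (XT.nd (nat_lit 40170) (nat_lit 0) (nat_lit 0) (XT.nd (nat_lit 780) (nat_lit 532) (nat_lit 0) (XT.nd (nat_lit 390) (nat_lit 608) (nat_lit 0) (XT.nd (nat_lit 156) (nat_lit 684) (nat_lit 0) (XT.nd (nat_lit 78) (nat_lit 0) (nat_lit 0) (XT.lf (nat_lit 0) (nat_lit 48848509029) (nat_lit 532) (nat_lit 100312265795) (nat_lit 76) (nat_lit 25845836088) (nat_lit 72) (nat_lit 5) (nat_lit 79) (nat_lit 5) (nat_lit 73) (nat_lit 5) (nat_lit 343) (nat_lit 330) (nat_lit 107)) (XT.lf (nat_lit 0) (nat_lit 65089734386) (nat_lit 532) (nat_lit 17453566845) (nat_lit 76) (nat_lit 97449013711) (nat_lit 72) (nat_lit 5) (nat_lit 79) (nat_lit 5) (nat_lit 73) (nat_lit 5) (nat_lit 344) (nat_lit 330) (nat_lit 106))) (XT.nd (nat_lit 78) (nat_lit 304) (nat_lit 0) (XT.lf (nat_lit 0) (nat_lit 71847497794) (nat_lit 380) (nat_lit 11417122196) (nat_lit 456) (nat_lit 101906604531) (nat_lit 67)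 (nat_lit 5) (nat_lit 72) (nat_lit 5) (nat_lit 73) (nat_lit 5) (nat_lit 345) (nat_lit 330) (nat_lit 105)) (XT.nd (nat_lit 78) (nat_lit 304) (nat_lit 0) (XT.lf (nat_lit 0) (nat_lit 103636292631) (nat_lit 456) (nat_lit 25367474385) (nat_lit 76) (nat_lit 61540910707) (nat_lit 67) (nat_lit 5) (nat_lit 73) (nat_lit 5) (nat_lit 68) (nat_lit 5) (nat_lit 346) (nat_lit 330) (nat_lit 104)) (XT.lf (nat_lit 0) (nat_lit 69007974772) (nat_lit 304) (nat_lit 57283017325) (nat_lit 380) (nat_lit 69832589594) (nat_lit 63) (nat_lit 5) (nat_lit 67) (nat_lit 5) (nat_lit 68) (nat_lit 5) (nat_lit 347) (nat_lit 330) (nat_lit 103))))) (XT.nd (nat_lit 156) (nat_lit 304) (nat_lit 0) (XT.nd (nat_lit 78) (nat_lit 304) (nat_lit 0) (XT.lf (nat_lit 0) (nat_lit 150796354737) (nat_lit 380) (nat_lit 33265637162) (nat_lit 76) (nat_lit 17883542803) (nat_lit 63) (nat_lit 5) (nat_lit 68) (nat_lit 5) (nat_lit 64) (nat_lit 5)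 (nat_lit 348) (nat_lit 330) (nat_lit 102)) (XT.lf (nat_lit 0) (nat_lit 66464924271) (nat_lit 304) (nat_lit 112038710253) (nat_lit 380) (nat_lit 29456118634) (nat_lit 59) (nat_lit 5) (nat_lit 63) (nat_lit 5) (nat_lit 64) (nat_lit 5) (nat_lit 349) (nat_lit 330) (nat_lit 101))) (XT.nd (nat_lit 78) (nat_lit 304) (nat_lit 0) (XT.lf (nat_lit 0) (nat_lit 172336790127) (nat_lit 304) (nat_lit 35822740945) (nat_lit 380) (nat_lit 6086989054) (nat_lit 59) (nat_lit 5) (nat_lit 63) (nat_lit 5) (nat_lit 64) (nat_lit 5) (nat_lit 350) (nat_lit 330) (nat_lit 100)) (XT.nd (nat_lit 78) (nat_lit 0) (nat_lit 0) (XT.lf (nat_lit 0) (nat_lit 19577220670) (nat_lit 304) (nat_lit 157065748796) (nat_lit 76) (nat_lit 44104395012) (nat_lit 55) (nat_lit 5) (nat_lit 59) (nat_lit 5) (nat_lit 56) (nat_lit 5) (nat_lit 351) (nat_lit 330) (nat_lit 99)) (XT.lf (nat_lit 0) (nat_lit 47628622960) (nat_lit 304) (nat_lit 52229035819)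 (nat_lit 76) (nat_lit 127645175891) (nat_lit 55) (nat_lit 5) (nat_lit 59) (nat_lit 5) (nat_lit 56) (nat_lit 5) (nat_lit 352) (nat_lit 330) (nat_lit 98)))))) (XT.nd (nat_lit 39000) (nat_lit 0) (nat_lit 2736) (XT.nd (nat_lit 156) (nat_lit 228) (nat_lit 0) (XT.nd (nat_lit 78) (nat_lit 0) (nat_lit 0) (XT.lf (nat_lit 0) (nat_lit 59762148593) (nat_lit 304) (nat_lit 18253396429) (nat_lit 380) (nat_lit 156533886057) (nat_lit 51) (nat_lit 5) (nat_lit 55) (nat_lit 5) (nat_lit 56) (nat_lit 5) (nat_lit 353) (nat_lit 330) (nat_lit 97)) (XT.lf (nat_lit 0) (nat_lit 111873523440) (nat_lit 380) (nat_lit 63805382292) (nat_lit 76) (nat_lit 66171866244) (nat_lit 51) (nat_lit 5) (nat_lit 56) (nat_lit 5) (nat_lit 52) (nat_lit 5) (nat_lit 354) (nat_lit 330) (nat_lit 96))) (XT.nd (nat_lit 78) (nat_lit 0) (nat_lit 0) (XT.lf (nat_lit 0) (nat_lit 54159702686) (nat_lit 228) (nat_lit 94409421457) (nat_lit 304) (nat_lit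 100890819779) (nat_lit 48) (nat_lit 5) (nat_lit 51) (nat_lit 5) (nat_lit 52) (nat_lit 5) (nat_lit 355) (nat_lit 330) (nat_lit 95)) (XT.nd (nat_lit 38688) (nat_lit 0) (nat_lit 2736) (XT.lf (nat_lit 0) (nat_lit 180238099757) (nat_lit 228) (nat_lit 7941885514) (nat_lit 304) (nat_lit 69215565340) (nat_lit 48) (nat_lit 5) (nat_lit 51) (nat_lit 5) (nat_lit 52) (nat_lit 5) (nat_lit 356) (nat_lit 330) (nat_lit 94)) (XT.lf (nat_lit 0) (nat_lit 24269371713) (nat_lit 0) (nat_lit 24269371713) (nat_lit 684) (nat_lit 16831077558) (nat_lit 84) (nat_lit 5) (nat_lit 84) (nat_lit 3) (nat_lit 93) (nat_lit 3) (nat_lit 331) (nat_lit 331) (nat_lit 118))))) (XT.nd (nat_lit 156) (nat_lit 0) (nat_lit 0) (XT.nd (nat_lit 78) (nat_lit 0) (nat_lit 0) (XT.lf (nat_lit 0) (nat_lit 99674479190) (nat_lit 684) (nat_lit 24002539191) (nat_lit 760) (nat_lit 10322603606) (nat_lit 84) (nat_lit 5) (nat_lit 93) (nat_lit 3) (nat_lit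 94) (nat_lit 5) (nat_lit 332) (nat_lit 331) (nat_lit 117)) (XT.lf (nat_lit 76) (nat_lit 37510462375) (nat_lit 0) (nat_lit 66271993110) (nat_lit 760) (nat_lit 33571089333) (nat_lit 85) (nat_lit 5) (nat_lit 84) (nat_lit 5) (nat_lit 94) (nat_lit 5) (nat_lit 333) (nat_lit 331) (nat_lit 116))) (XT.nd (nat_lit 78) (nat_lit 0) (nat_lit 76) (XT.lf (nat_lit 76) (nat_lit 102932302341) (nat_lit 0) (nat_lit 5569805475) (nat_lit 760) (nat_lit 32352742617) (nat_lit 85) (nat_lit 5) (nat_lit 84) (nat_lit 5) (nat_lit 94) (nat_lit 5) (nat_lit 334) (nat_lit 331) (nat_lit 115)) (XT.nd (nat_lit 78) (nat_lit 0) (nat_lit 0) (XT.lf (nat_lit 76) (nat_lit 27051541841) (nat_lit 0) (nat_lit 87736503183) (nat_lit 760) (nat_lit 29676661675) (nat_lit 86) (nat_lit 5) (nat_lit 85) (nat_lit 5) (nat_lit 95) (nat_lit 5) (nat_lit 335) (nat_lit 331) (nat_lit 114)) (XT.lf (nat_lit 76) (nat_lit 96496464431) (nat_lit 0) (nat_lit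 25623689024) (nat_lit 760) (nat_lit 26098309059) (nat_lit 86) (nat_lit 5) (nat_lit 85) (nat_lit 5) (nat_lit 95) (nat_lit 5) (nat_lit 336) (nat_lit 331) (nat_lit 113))))))) (XT.nd (nat_lit 780) (nat_lit 1444) (nat_lit 0) (XT.nd (nat_lit 390) (nat_lit 760) (nat_lit 0) (XT.nd (nat_lit 156) (nat_lit 684) (nat_lit 0) (XT.nd (nat_lit 78) (nat_lit 0) (nat_lit 0) (XT.lf (nat_lit 76) (nat_lit 17185449038) (nat_lit 0) (nat_lit 113519729080) (nat_lit 760) (nat_lit 21410412899) (nat_lit 87) (nat_lit 5) (nat_lit 86) (nat_lit 5) (nat_lit 96) (nat_lit 5) (nat_lit 337) (nat_lit 331) (nat_lit 112)) (XT.lf (nat_lit 76) (nat_lit 90899857672) (nat_lit 0) (nat_lit 50108638105) (nat_lit 760) (nat_lit 15134628496) (nat_lit 87) (nat_lit 5) (nat_lit 86) (nat_lit 5) (nat_lit 96) (nat_lit 5) (nat_lit 338) (nat_lit 331) (nat_lit 111))) (XT.nd (nat_lit 78) (nat_lit 760) (nat_lit 0) (XT.lf (nat_lit 76) (nat_lit 7924252633)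 (nat_lit 0) (nat_lit 144283464998) (nat_lit 760) (nat_lit 8145280038) (nat_lit 88) (nat_lit 5) (nat_lit 87) (nat_lit 5) (nat_lit 97) (nat_lit 5) (nat_lit 339) (nat_lit 331) (nat_lit 110)) (XT.nd (nat_lit 78) (nat_lit 0) (nat_lit 0) (XT.lf (nat_lit 0) (nat_lit 1163672360) (nat_lit 760) (nat_lit 78529986570) (nat_lit 836) (nat_lit 84983119492) (nat_lit 77) (nat_lit 5) (nat_lit 87) (nat_lit 5) (nat_lit 88) (nat_lit 5) (nat_lit 340) (nat_lit 331) (nat_lit 109)) (XT.lf (nat_lit 0) (nat_lit 10664177281) (nat_lit 760) (nat_lit 1069952131) (nat_lit 836) (nat_lit 157475950695) (nat_lit 77) (nat_lit 5) (nat_lit 87) (nat_lit 5) (nat_lit 88) (nat_lit 5) (nat_lit 341) (nat_lit 331) (nat_lit 108))))) (XT.nd (nat_lit 156) (nat_lit 836) (nat_lit 0) (XT.nd (nat_lit 78) (nat_lit 0) (nat_lit 0) (XT.lf (nat_lit 0) (nat_lit 22886229407) (nat_lit 760) (nat_lit 91940623975) (nat_lit 76) (nat_lit 59030867723)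 (nat_lit 78) (nat_lit 5) (nat_lit 88) (nat_lit 5) (nat_lit 79) (nat_lit 5) (nat_lit 342) (nat_lit 331) (nat_lit 107)) (XT.lf (nat_lit 0) (nat_lit 35930017165) (nat_lit 760) (nat_lit 9838985236) (nat_lit 76) (nat_lit 132958210408) (nat_lit 78) (nat_lit 5) (nat_lit 88) (nat_lit 5) (nat_lit 79) (nat_lit 5) (nat_lit 343) (nat_lit 331) (nat_lit 106))) (XT.nd (nat_lit 78) (nat_lit 380) (nat_lit 0) (XT.lf (nat_lit 0) (nat_lit 51295296110) (nat_lit 532) (nat_lit 105323638385) (nat_lit 76) (nat_lit 27137779811) (nat_lit 72) (nat_lit 5) (nat_lit 79) (nat_lit 5) (nat_lit 73) (nat_lit 5) (nat_lit 344) (nat_lit 331) (nat_lit 105)) (XT.nd (nat_lit 78) (nat_lit 380) (nat_lit 0) (XT.lf (nat_lit 0) (nat_lit 68348375038) (nat_lit 532) (nat_lit 18322206426) (nat_lit 76) (nat_lit 102321132891) (nat_lit 72) (nat_lit 5) (nat_lit 79) (nat_lit 5) (nat_lit 73) (nat_lit 5) (nat_lit 345) (nat_lit 331) (nat_lit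 104)) (XT.lf (nat_lit 0) (nat_lit 75443846304) (nat_lit 380) (nat_lit 11988022851) (nat_lit 456) (nat_lit 106997707458) (nat_lit 67) (nat_lit 5) (nat_lit 72) (nat_lit 5) (nat_lit 73) (nat_lit 5) (nat_lit 346) (nat_lit 331) (nat_lit 103)))))) (XT.nd (nat_lit 390) (nat_lit 836) (nat_lit 0) (XT.nd (nat_lit 156) (nat_lit 304) (nat_lit 0) (XT.nd (nat_lit 78) (nat_lit 304) (nat_lit 0) (XT.lf (nat_lit 0) (nat_lit 108821933424) (nat_lit 456) (nat_lit 26631863866) (nat_lit 76) (nat_lit 64617915176) (nat_lit 67) (nat_lit 5) (nat_lit 73) (nat_lit 5) (nat_lit 68) (nat_lit 5) (nat_lit 347) (nat_lit 331) (nat_lit 102)) (XT.lf (nat_lit 0) (nat_lit 72462293488) (nat_lit 304) (nat_lit 60146953380) (nat_lit 380) (nat_lit 73320321188) (nat_lit 63) (nat_lit 5) (nat_lit 67) (nat_lit 5) (nat_lit 68) (nat_lit 5) (nat_lit 348) (nat_lit 331) (nat_lit 101))) (XT.nd (nat_lit 78) (nat_lit 304) (nat_lit 0) (XT.lf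 (nat_lit 0) (nat_lit 158339704397) (nat_lit 380) (nat_lit 34925005361) (nat_lit 76) (nat_lit 18777917977) (nat_lit 63) (nat_lit 5) (nat_lit 68) (nat_lit 5) (nat_lit 64) (nat_lit 5) (nat_lit 349) (nat_lit 331) (nat_lit 100)) (XT.nd (nat_lit 78) (nat_lit 0) (nat_lit 0) (XT.lf (nat_lit 0) (nat_lit 69792021021) (nat_lit 304) (nat_lit 117640219083) (nat_lit 380) (nat_lit 30925322751) (nat_lit 59) (nat_lit 5) (nat_lit 63) (nat_lit 5) (nat_lit 64) (nat_lit 5) (nat_lit 350) (nat_lit 331) (nat_lit 99)) (XT.lf (nat_lit 0) (nat_lit 180957296811) (nat_lit 304) (nat_lit 37613471628) (nat_lit 380) (nat_lit 6387908207) (nat_lit 59) (nat_lit 5) (nat_lit 63) (nat_lit 5) (nat_lit 64) (nat_lit 5) (nat_lit 351) (nat_lit 331) (nat_lit 98))))) (XT.nd (nat_lit 234) (nat_lit 228) (nat_lit 0) (XT.nd (nat_lit 78) (nat_lit 304) (nat_lit 0) (XT.lf (nat_lit 0) (nat_lit 20559310036) (nat_lit 304) (nat_lit 164915155106)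 (nat_lit 76) (nat_lit 46310100297) (nat_lit 55) (nat_lit 5) (nat_lit 59) (nat_lit 5) (nat_lit 56) (nat_lit 5) (nat_lit 352) (nat_lit 331) (nat_lit 97)) (XT.nd (nat_lit 78) (nat_lit 304) (nat_lit 0) (XT.lf (nat_lit 0) (nat_lit 50013128710) (nat_lit 304) (nat_lit 54836791296) (nat_lit 76) (nat_lit 134027897099) (nat_lit 55) (nat_lit 5) (nat_lit 59) (nat_lit 5) (nat_lit 56) (nat_lit 5) (nat_lit 353) (nat_lit 331) (nat_lit 96)) (XT.lf (nat_lit 0) (nat_lit 62753892719) (nat_lit 304) (nat_lit 19165414526) (nat_lit 380) (nat_lit 164357440836) (nat_lit 51) (nat_lit 5) (nat_lit 55) (nat_lit 5) (nat_lit 56) (nat_lit 5) (nat_lit 354) (nat_lit 331) (nat_lit 95)))) (XT.nd (nat_lit 78) (nat_lit 228) (nat_lit 0) (XT.lf (nat_lit 0) (nat_lit 117470052133) (nat_lit 380) (nat_lit 66992050385) (nat_lit 76) (nat_lit 69481060379) (nat_lit 51) (nat_lit 5) (nat_lit 56) (nat_lit 5) (nat_lit 52) (nat_lit 5) (nat_lit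 355) (nat_lit 331) (nat_lit 94)) (XT.nd (nat_lit 38766) (nat_lit 0) (nat_lit 2736) (XT.lf (nat_lit 0) (nat_lit 56871230761) (nat_lit 228) (nat_lit 99129121592) (nat_lit 304) (nat_lit 105932445355) (nat_lit 48) (nat_lit 5) (nat_lit 51) (nat_lit 5) (nat_lit 52) (nat_lit 5) (nat_lit 356) (nat_lit 331) (nat_lit 93)) (XT.lf (nat_lit 0) (nat_lit 25484593275) (nat_lit 0) (nat_lit 25484593275) (nat_lit 684) (nat_lit 17668942041) (nat_lit 84) (nat_lit 5) (nat_lit 84) (nat_lit 3) (nat_lit 93) (nat_lit 3) (nat_lit 332) (nat_lit 332) (nat_lit 116))))))))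
noncomputable def xc252 : XT := (XT.nd (nat_lit 1560) (nat_lit 608) (nat_lit 0) (XT.nd (nat_lit 780) (nat_lit 1368) (nat_lit 0) (XT.nd (nat_lit 390) (nat_lit 532) (nat_lit 0) (XT.nd (nat_lit 156) (nat_lit 0) (nat_lit 0) (XT.nd (nat_lit 78) (nat_lit 0) (nat_lit 0) (XT.lf (nat_lit 0) (nat_lit 104664829025) (nat_lit 684) (nat_lit 25198925603) (nat_lit 760) (nat_lit 10835501652) (nat_lit 84) (nat_lit 5) (nat_lit 93) (nat_lit 3) (nat_lit 94) (nat_lit 5) (nat_lit 333) (nat_lit 332) (nat_lit 115)) (XT.lf (nat_lit 76) (nat_lit 39389665710) (nat_lit 0) (nat_lit 69588280366) (nat_lit 760) (nat_lit 35242942819) (nat_lit 85) (nat_lit 5) (nat_lit 84) (nat_lit 5) (nat_lit 94) (nat_lit 5) (nat_lit 334) (nat_lit 332) (nat_lit 114))) (XT.nd (nat_lit 78) (nat_lit 0) (nat_lit 76) (XT.lf (nat_lit 76) (nat_lit 108082422426) (nat_lit 0) (nat_lit 5850855368) (nat_lit 760) (nat_lit 33963997862) (nat_lit 85)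 (nat_lit 5) (nat_lit 84) (nat_lit 5) (nat_lit 94) (nat_lit 5) (nat_lit 335) (nat_lit 332) (nat_lit 113)) (XT.nd (nat_lit 78) (nat_lit 0) (nat_lit 0) (XT.lf (nat_lit 76) (nat_lit 28407918869) (nat_lit 0) (nat_lit 92125325471) (nat_lit 760) (nat_lit 31154394440) (nat_lit 86) (nat_lit 5) (nat_lit 85) (nat_lit 5) (nat_lit 95) (nat_lit 5) (nat_lit 336) (nat_lit 332) (nat_lit 112)) (XT.lf (nat_lit 76) (nat_lit 101324906639) (nat_lit 0) (nat_lit 26906775503) (nat_lit 760) (nat_lit 27397414685) (nat_lit 86) (nat_lit 5) (nat_lit 85) (nat_lit 5) (nat_lit 95) (nat_lit 5) (nat_lit 337) (nat_lit 332) (nat_lit 111))))) (XT.nd (nat_lit 156) (nat_lit 684) (nat_lit 0) (XT.nd (nat_lit 78) (nat_lit 0) (nat_lit 0) (XT.lf (nat_lit 76) (nat_lit 18048595478) (nat_lit 0) (nat_lit 119197131857) (nat_lit 760) (nat_lit 22475366564) (nat_lit 87) (nat_lit 5) (nat_lit 86) (nat_lit 5) (nat_lit 96) (nat_lit 5) (nat_lit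 338) (nat_lit 332) (nat_lit 110)) (XT.lf (nat_lit 76) (nat_lit 95448540067) (nat_lit 0) (nat_lit 52615418889) (nat_lit 760) (nat_lit 15886058034) (nat_lit 87) (nat_lit 5) (nat_lit 86) (nat_lit 5) (nat_lit 96) (nat_lit 5) (nat_lit 339) (nat_lit 332) (nat_lit 109))) (XT.nd (nat_lit 78) (nat_lit 760) (nat_lit 0) (XT.lf (nat_lit 76) (nat_lit 8324375234) (nat_lit 0) (nat_lit 151498567735) (nat_lit 760) (nat_lit 8547451587) (nat_lit 88) (nat_lit 5) (nat_lit 87) (nat_lit 5) (nat_lit 97) (nat_lit 5) (nat_lit 340) (nat_lit 332) (nat_lit 108)) (XT.nd (nat_lit 78) (nat_lit 0) (nat_lit 0) (XT.lf (nat_lit 0) (nat_lit 1226550704) (nat_lit 760) (nat_lit 82452596890) (nat_lit 836) (nat_lit 89231225012) (nat_lit 77) (nat_lit 5) (nat_lit 87) (nat_lit 5) (nat_lit 88) (nat_lit 5) (nat_lit 341) (nat_lit 332) (nat_lit 107)) (XT.lf (nat_lit 0) (nat_lit 11201857314) (nat_lit 760) (nat_lit 1119745920) (nat_lit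 836) (nat_lit 165348747797) (nat_lit 77) (nat_lit 5) (nat_lit 87) (nat_lit 5) (nat_lit 88) (nat_lit 5) (nat_lit 342) (nat_lit 332) (nat_lit 106)))))) (XT.nd (nat_lit 390) (nat_lit 608) (nat_lit 0) (XT.nd (nat_lit 156) (nat_lit 836) (nat_lit 0) (XT.nd (nat_lit 78) (nat_lit 0) (nat_lit 0) (XT.lf (nat_lit 0) (nat_lit 24034845550) (nat_lit 760) (nat_lit 96533775790) (nat_lit 76) (nat_lit 61981761516) (nat_lit 78) (nat_lit 5) (nat_lit 88) (nat_lit 5) (nat_lit 79) (nat_lit 5) (nat_lit 343) (nat_lit 332) (nat_lit 105)) (XT.lf (nat_lit 0) (nat_lit 37730617712) (nat_lit 760) (nat_lit 10327239847) (nat_lit 76) (nat_lit 139605502269) (nat_lit 78) (nat_lit 5) (nat_lit 88) (nat_lit 5) (nat_lit 79) (nat_lit 5) (nat_lit 344) (nat_lit 332) (nat_lit 104))) (XT.nd (nat_lit 78) (nat_lit 380) (nat_lit 0) (XT.lf (nat_lit 0) (nat_lit 53864017042) (nat_lit 532) (nat_lit 110585973865) (nat_lit 76) (nat_lit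 28494353082) (nat_lit 72) (nat_lit 5) (nat_lit 79) (nat_lit 5) (nat_lit 73) (nat_lit 5) (nat_lit 345) (nat_lit 332) (nat_lit 103)) (XT.nd (nat_lit 78) (nat_lit 380) (nat_lit 0) (XT.lf (nat_lit 0) (nat_lit 71769561529) (nat_lit 532) (nat_lit 19234653472) (nat_lit 76) (nat_lit 107436888850) (nat_lit 72) (nat_lit 5) (nat_lit 79) (nat_lit 5) (nat_lit 73) (nat_lit 5) (nat_lit 346) (nat_lit 332) (nat_lit 102)) (XT.lf (nat_lit 0) (nat_lit 79219642810) (nat_lit 380) (nat_lit 12587464398) (nat_lit 456) (nat_lit 112343758544) (nat_lit 67) (nat_lit 5) (nat_lit 72) (nat_lit 5) (nat_lit 73) (nat_lit 5) (nat_lit 347) (nat_lit 332) (nat_lit 101))))) (XT.nd (nat_lit 156) (nat_lit 304) (nat_lit 0) (XT.nd (nat_lit 78) (nat_lit 304) (nat_lit 0) (XT.lf (nat_lit 0) (nat_lit 114266500537) (nat_lit 456) (nat_lit 27959843237) (nat_lit 76) (nat_lit 67848773686) (nat_lit 67) (nat_lit 5) (nat_lit 73) (nat_lit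 5) (nat_lit 68) (nat_lit 5) (nat_lit 348) (nat_lit 332) (nat_lit 100)) (XT.lf (nat_lit 0) (nat_lit 76088963696) (nat_lit 304) (nat_lit 63154106209) (nat_lit 380) (nat_lit 76982801750) (nat_lit 63) (nat_lit 5) (nat_lit 67) (nat_lit 5) (nat_lit 68) (nat_lit 5) (nat_lit 349) (nat_lit 332) (nat_lit 99))) (XT.nd (nat_lit 78) (nat_lit 304) (nat_lit 0) (XT.lf (nat_lit 0) (nat_lit 166259893176) (nat_lit 380) (nat_lit 36667705824) (nat_lit 76) (nat_lit 19716993499) (nat_lit 63) (nat_lit 5) (nat_lit 68) (nat_lit 5) (nat_lit 64) (nat_lit 5) (nat_lit 350) (nat_lit 332) (nat_lit 98)) (XT.nd (nat_lit 78) (nat_lit 0) (nat_lit 0) (XT.lf (nat_lit 0) (nat_lit 73285114622) (nat_lit 304) (nat_lit 123521843024) (nat_lit 380) (nat_lit 32468321936) (nat_lit 59) (nat_lit 5) (nat_lit 63) (nat_lit 5) (nat_lit 64) (nat_lit 5) (nat_lit 351) (nat_lit 332) (nat_lit 97)) (XT.lf (nat_lit 0) (nat_lit 190008487890) (nat_lit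 304) (nat_lit 39493776626) (nat_lit 380) (nat_lit 6704192234) (nat_lit 59) (nat_lit 5) (nat_lit 63) (nat_lit 5) (nat_lit 64) (nat_lit 5) (nat_lit 352) (nat_lit 332) (nat_lit 96))))))) (XT.nd (nat_lit 39624) (nat_lit 0) (nat_lit 1216) (XT.nd (nat_lit 39234) (nat_lit 0) (nat_lit 2508) (XT.nd (nat_lit 156) (nat_lit 304) (nat_lit 0) (XT.nd (nat_lit 78) (nat_lit 0) (nat_lit 0) (XT.lf (nat_lit 0) (nat_lit 21590203731) (nat_lit 304) (nat_lit 173157392562) (nat_lit 76) (nat_lit 48626045705) (nat_lit 55) (nat_lit 5) (nat_lit 59) (nat_lit 5) (nat_lit 56) (nat_lit 5) (nat_lit 353) (nat_lit 332) (nat_lit 95)) (XT.lf (nat_lit 0) (nat_lit 52516573901) (nat_lit 304) (nat_lit 57575278194) (nat_lit 76) (nat_lit 140729711376) (nat_lit 55) (nat_lit 5) (nat_lit 59) (nat_lit 5) (nat_lit 56) (nat_lit 5) (nat_lit 354) (nat_lit 332) (nat_lit 94))) (XT.nd (nat_lit 38922) (nat_lit 0) (nat_lit 2508) (XT.lf (nat_lit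 0) (nat_lit 65894885945) (nat_lit 304) (nat_lit 20123094119) (nat_lit 380) (nat_lit 172572465238) (nat_lit 51) (nat_lit 5) (nat_lit 55) (nat_lit 5) (nat_lit 56) (nat_lit 5) (nat_lit 355) (nat_lit 332) (nat_lit 93)) (XT.nd (nat_lit 78) (nat_lit 0) (nat_lit 0) (XT.lf (nat_lit 0) (nat_lit 26760412941) (nat_lit 0) (nat_lit 26760412941) (nat_lit 684) (nat_lit 18549042753) (nat_lit 84) (nat_lit 5) (nat_lit 84) (nat_lit 3) (nat_lit 93) (nat_lit 3) (nat_lit 333) (nat_lit 333) (nat_lit 114)) (XT.lf (nat_lit 0) (nat_lit 109904080341) (nat_lit 684) (nat_lit 26455479097) (nat_lit 760) (nat_lit 11374345093) (nat_lit 84) (nat_lit 5) (nat_lit 93) (nat_lit 3) (nat_lit 94) (nat_lit 5) (nat_lit 334) (nat_lit 333) (nat_lit 113))))) (XT.nd (nat_lit 156) (nat_lit 0) (nat_lit 76) (XT.nd (nat_lit 78) (nat_lit 0) (nat_lit 0) (XT.lf (nat_lit 76) (nat_lit 41362487060) (nat_lit 0) (nat_lit 73070132116) (nat_lit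 760) (nat_lit 36999011972) (nat_lit 85) (nat_lit 5) (nat_lit 84) (nat_lit 5) (nat_lit 94) (nat_lit 5) (nat_lit 335) (nat_lit 333) (nat_lit 112)) (XT.lf (nat_lit 76) (nat_lit 113489722656) (nat_lit 0) (nat_lit 6145719786) (nat_lit 760) (nat_lit 35656409196) (nat_lit 85) (nat_lit 5) (nat_lit 84) (nat_lit 5) (nat_lit 94) (nat_lit 5) (nat_lit 336) (nat_lit 333) (nat_lit 111))) (XT.nd (nat_lit 78) (nat_lit 0) (nat_lit 0) (XT.lf (nat_lit 76) (nat_lit 29831761466) (nat_lit 0) (nat_lit 96733403199) (nat_lit 760) (nat_lit 32706580994) (nat_lit 86) (nat_lit 5) (nat_lit 85) (nat_lit 5) (nat_lit 95) (nat_lit 5) (nat_lit 337) (nat_lit 333) (nat_lit 110)) (XT.nd (nat_lit 78) (nat_lit 0) (nat_lit 76) (XT.lf (nat_lit 76) (nat_lit 106394434499) (nat_lit 0) (nat_lit 28253839473) (nat_lit 760) (nat_lit 28762015736) (nat_lit 86) (nat_lit 5) (nat_lit 85) (nat_lit 5) (nat_lit 95) (nat_lit 5) (nat_lit 338)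 (nat_lit 333) (nat_lit 109)) (XT.lf (nat_lit 76) (nat_lit 18954539073) (nat_lit 0) (nat_lit 125158273096) (nat_lit 760) (nat_lit 23594085476) (nat_lit 87) (nat_lit 5) (nat_lit 86) (nat_lit 5) (nat_lit 96) (nat_lit 5) (nat_lit 339) (nat_lit 333) (nat_lit 108)))))) (XT.nd (nat_lit 390) (nat_lit 760) (nat_lit 0) (XT.nd (nat_lit 156) (nat_lit 684) (nat_lit 0) (XT.nd (nat_lit 78) (nat_lit 0) (nat_lit 76) (XT.lf (nat_lit 76) (nat_lit 100224313567) (nat_lit 0) (nat_lit 55247413307) (nat_lit 760) (nat_lit 16675551969) (nat_lit 87) (nat_lit 5) (nat_lit 86) (nat_lit 5) (nat_lit 96) (nat_lit 5) (nat_lit 340) (nat_lit 333) (nat_lit 107)) (XT.lf (nat_lit 76) (nat_lit 8744140453) (nat_lit 0) (nat_lit 159074339194) (nat_lit 760) (nat_lit 8970205161) (nat_lit 88) (nat_lit 5) (nat_lit 87) (nat_lit 5) (nat_lit 97) (nat_lit 5) (nat_lit 341) (nat_lit 333) (nat_lit 106))) (XT.nd (nat_lit 78) (nat_lit 0)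 (nat_lit 0) (XT.lf (nat_lit 0) (nat_lit 1292136495) (nat_lit 760) (nat_lit 86571699289) (nat_lit 836) (nat_lit 93691833470) (nat_lit 77) (nat_lit 5) (nat_lit 87) (nat_lit 5) (nat_lit 88) (nat_lit 5) (nat_lit 342) (nat_lit 333) (nat_lit 105)) (XT.nd (nat_lit 78) (nat_lit 0) (nat_lit 76) (XT.lf (nat_lit 0) (nat_lit 11766005661) (nat_lit 760) (nat_lit 1172373744) (nat_lit 836) (nat_lit 173615277765) (nat_lit 77) (nat_lit 5) (nat_lit 87) (nat_lit 5) (nat_lit 88) (nat_lit 5) (nat_lit 343) (nat_lit 333) (nat_lit 104)) (XT.lf (nat_lit 0) (nat_lit 25240492292) (nat_lit 760) (nat_lit 101356945865) (nat_lit 76) (nat_lit 65080260392) (nat_lit 78) (nat_lit 5) (nat_lit 88) (nat_lit 5) (nat_lit 79) (nat_lit 5) (nat_lit 344) (nat_lit 333) (nat_lit 103))))) (XT.nd (nat_lit 156) (nat_lit 380) (nat_lit 0) (XT.nd (nat_lit 78) (nat_lit 456) (nat_lit 0) (XT.lf (nat_lit 0) (nat_lit 39620867135) (nat_lit 760)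 (nat_lit 10840250683) (nat_lit 76) (nat_lit 146585216240) (nat_lit 78) (nat_lit 5) (nat_lit 88) (nat_lit 5) (nat_lit 79) (nat_lit 5) (nat_lit 345) (nat_lit 333) (nat_lit 102)) (XT.lf (nat_lit 0) (nat_lit 56560806217) (nat_lit 532) (nat_lit 116111783724) (nat_lit 76) (nat_lit 29918784369) (nat_lit 72) (nat_lit 5) (nat_lit 79) (nat_lit 5) (nat_lit 73) (nat_lit 5) (nat_lit 346) (nat_lit 333) (nat_lit 101))) (XT.nd (nat_lit 78) (nat_lit 380) (nat_lit 0) (XT.lf (nat_lit 0) (nat_lit 75361457056) (nat_lit 532) (nat_lit 20193063447) (nat_lit 76) (nat_lit 112808460562) (nat_lit 72) (nat_lit 5) (nat_lit 79) (nat_lit 5) (nat_lit 73) (nat_lit 5) (nat_lit 347) (nat_lit 333) (nat_lit 100)) (XT.nd (nat_lit 78) (nat_lit 0) (nat_lit 0) (XT.lf (nat_lit 0) (nat_lit 83183894057) (nat_lit 380) (nat_lit 13216874266) (nat_lit 456) (nat_lit 117957468661) (nat_lit 67) (nat_lit 5) (nat_lit 72) (nat_lit 5) (nat_lit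 73) (nat_lit 5) (nat_lit 348) (nat_lit 333) (nat_lit 99)) (XT.lf (nat_lit 0) (nat_lit 119982973357) (nat_lit 456) (nat_lit 29354557556) (nat_lit 76) (nat_lit 71241178585) (nat_lit 67) (nat_lit 5) (nat_lit 73) (nat_lit 5) (nat_lit 68) (nat_lit 5) (nat_lit 349) (nat_lit 333) (nat_lit 98))))))))
noncomputable def xc253 : XT := (XT.nd (nat_lit 40560) (nat_lit 0) (nat_lit 304) (XT.nd (nat_lit 39780) (nat_lit 0) (nat_lit 1292) (XT.nd (nat_lit 39390) (nat_lit 0) (nat_lit 2204) (XT.nd (nat_lit 156) (nat_lit 608) (nat_lit 0) (XT.nd (nat_lit 78) (nat_lit 0) (nat_lit 0) (XT.lf (nat_lit 0) (nat_lit 79896636856) (nat_lit 304) (nat_lit 66311634794) (nat_lit 380) (nat_lit 80828735038) (nat_lit 63) (nat_lit 5) (nat_lit 67) (nat_lit 5) (nat_lit 68) (nat_lit 5) (nat_lit 350) (nat_lit 333) (nat_lit 97)) (XT.lf (nat_lit 0) (nat_lit 174575793556) (nat_lit 380) (nat_lit 38497871338) (nat_lit 76) (nat_lit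 20703006097) (nat_lit 63) (nat_lit 5) (nat_lit 68) (nat_lit 5) (nat_lit 64) (nat_lit 5) (nat_lit 351) (nat_lit 333) (nat_lit 96))) (XT.nd (nat_lit 78) (nat_lit 304) (nat_lit 0) (XT.lf (nat_lit 0) (nat_lit 76952538198) (nat_lit 304) (nat_lit 129697584143) (nat_lit 380) (nat_lit 34088774811) (nat_lit 59) (nat_lit 5) (nat_lit 63) (nat_lit 5) (nat_lit 64) (nat_lit 5) (nat_lit 352) (nat_lit 333) (nat_lit 95)) (XT.nd (nat_lit 78) (nat_lit 304) (nat_lit 0) (XT.lf (nat_lit 0) (nat_lit 199511929280) (nat_lit 304) (nat_lit 41468131140) (nat_lit 380) (nat_lit 7036579730) (nat_lit 59) (nat_lit 5) (nat_lit 63) (nat_lit 5) (nat_lit 64) (nat_lit 5) (nat_lit 353) (nat_lit 333) (nat_lit 94)) (XT.lf (nat_lit 0) (nat_lit 22672369875) (nat_lit 304) (nat_lit 181812069175) (nat_lit 76) (nat_lit 51057747440) (nat_lit 55) (nat_lit 5) (nat_lit 59) (nat_lit 5) (nat_lit 56) (nat_lit 5) (nat_lit 354) (nat_lit 333)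 (nat_lit 93))))) (XT.nd (nat_lit 156) (nat_lit 0) (nat_lit 0) (XT.nd (nat_lit 78) (nat_lit 0) (nat_lit 0) (XT.lf (nat_lit 0) (nat_lit 28099875766) (nat_lit 0) (nat_lit 28099875766) (nat_lit 684) (nat_lit 19473459616) (nat_lit 84) (nat_lit 5) (nat_lit 84) (nat_lit 3) (nat_lit 93) (nat_lit 3) (nat_lit 334) (nat_lit 334) (nat_lit 112)) (XT.lf (nat_lit 0) (nat_lit 115404735482) (nat_lit 684) (nat_lit 27775175694) (nat_lit 760) (nat_lit 11940403263) (nat_lit 84) (nat_lit 5) (nat_lit 93) (nat_lit 3) (nat_lit 94) (nat_lit 5) (nat_lit 335) (nat_lit 334) (nat_lit 111))) (XT.nd (nat_lit 78) (nat_lit 0) (nat_lit 0) (XT.lf (nat_lit 76) (nat_lit 43433639136) (nat_lit 0) (nat_lit 76725849818) (nat_lit 760) (nat_lit 38843449658) (nat_lit 85) (nat_lit 5) (nat_lit 84) (nat_lit 5) (nat_lit 94) (nat_lit 5) (nat_lit 336) (nat_lit 334) (nat_lit 110)) (XT.nd (nat_lit 78) (nat_lit 0) (nat_lit 76) (XT.lf (nat_lit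 76) (nat_lit 119167092335) (nat_lit 0) (nat_lit 6455111581) (nat_lit 760) (nat_lit 37433979262) (nat_lit 85) (nat_lit 5) (nat_lit 84) (nat_lit 5) (nat_lit 94) (nat_lit 5) (nat_lit 337) (nat_lit 334) (nat_lit 109)) (XT.lf (nat_lit 76) (nat_lit 31326475756) (nat_lit 0) (nat_lit 101571716402) (nat_lit 760) (nat_lit 34336891296) (nat_lit 86) (nat_lit 5) (nat_lit 85) (nat_lit 5) (nat_lit 95) (nat_lit 5) (nat_lit 338) (nat_lit 334) (nat_lit 108)))))) (XT.nd (nat_lit 390) (nat_lit 380) (nat_lit 0) (XT.nd (nat_lit 156) (nat_lit 608) (nat_lit 0) (XT.nd (nat_lit 78) (nat_lit 0) (nat_lit 76) (XT.lf (nat_lit 76) (nat_lit 111717133573) (nat_lit 0) (nat_lit 29668096249) (nat_lit 760) (nat_lit 30195336763) (nat_lit 86) (nat_lit 5) (nat_lit 85) (nat_lit 5) (nat_lit 95) (nat_lit 5) (nat_lit 339) (nat_lit 334) (nat_lit 107)) (XT.lf (nat_lit 76) (nat_lit 19905453166) (nat_lit 0) (nat_lit 131417351963)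 (nat_lit 760) (nat_lit 24769209782) (nat_lit 87) (nat_lit 5) (nat_lit 86) (nat_lit 5) (nat_lit 96) (nat_lit 5) (nat_lit 340) (nat_lit 334) (nat_lit 106))) (XT.nd (nat_lit 78) (nat_lit 684) (nat_lit 0) (XT.lf (nat_lit 76) (nat_lit 105238564616) (nat_lit 0) (nat_lit 58010893698) (nat_lit 760) (nat_lit 17504967692) (nat_lit 87) (nat_lit 5) (nat_lit 86) (nat_lit 5) (nat_lit 96) (nat_lit 5) (nat_lit 341) (nat_lit 334) (nat_lit 105)) (XT.nd (nat_lit 78) (nat_lit 760) (nat_lit 0) (XT.lf (nat_lit 76) (nat_lit 9184564217) (nat_lit 0) (nat_lit 167028820845) (nat_lit 760) (nat_lit 9414525845) (nat_lit 88) (nat_lit 5) (nat_lit 87) (nat_lit 5) (nat_lit 97) (nat_lit 5) (nat_lit 342) (nat_lit 334) (nat_lit 104)) (XT.lf (nat_lit 0) (nat_lit 1360605683) (nat_lit 760) (nat_lit 90897084757) (nat_lit 836) (nat_lit 98375560932) (nat_lit 77) (nat_lit 5) (nat_lit 87) (nat_lit 5) (nat_lit 88) (nat_lit 5) (nat_lit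 343) (nat_lit 334) (nat_lit 103))))) (XT.nd (nat_lit 156) (nat_lit 380) (nat_lit 0) (XT.nd (nat_lit 78) (nat_lit 0) (nat_lit 76) (XT.lf (nat_lit 0) (nat_lit 12357984385) (nat_lit 760) (nat_lit 1227945291) (nat_lit 836) (nat_lit 182295218595) (nat_lit 77) (nat_lit 5) (nat_lit 87) (nat_lit 5) (nat_lit 88) (nat_lit 5) (nat_lit 344) (nat_lit 334) (nat_lit 102)) (XT.lf (nat_lit 0) (nat_lit 26506058372) (nat_lit 760) (nat_lit 106421601580) (nat_lit 76) (nat_lit 68333738990) (nat_lit 78) (nat_lit 5) (nat_lit 88) (nat_lit 5) (nat_lit 79) (nat_lit 5) (nat_lit 345) (nat_lit 334) (nat_lit 101))) (XT.nd (nat_lit 78) (nat_lit 456) (nat_lit 0) (XT.lf (nat_lit 0) (nat_lit 41605283316) (nat_lit 760) (nat_lit 11379223619) (nat_lit 76) (nat_lit 153913968079) (nat_lit 78) (nat_lit 5) (nat_lit 88) (nat_lit 5) (nat_lit 79) (nat_lit 5) (nat_lit 346) (nat_lit 334) (nat_lit 100)) (XT.nd (nat_lit 78) (nat_lit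 0) (nat_lit 0) (XT.lf (nat_lit 0) (nat_lit 59392101242) (nat_lit 532) (nat_lit 121914208435) (nat_lit 76) (nat_lit 31414463844) (nat_lit 72) (nat_lit 5) (nat_lit 79) (nat_lit 5) (nat_lit 73) (nat_lit 5) (nat_lit 347) (nat_lit 334) (nat_lit 99)) (XT.lf (nat_lit 0) (nat_lit 79132629637) (nat_lit 532) (nat_lit 21199702833) (nat_lit 76) (nat_lit 118448636215) (nat_lit 72) (nat_lit 5) (nat_lit 79) (nat_lit 5) (nat_lit 73) (nat_lit 5) (nat_lit 348) (nat_lit 334) (nat_lit 98))))))) (XT.nd (nat_lit 39936) (nat_lit 0) (nat_lit 608) (XT.nd (nat_lit 39546) (nat_lit 0) (nat_lit 1900) (XT.nd (nat_lit 156) (nat_lit 608) (nat_lit 0) (XT.nd (nat_lit 78) (nat_lit 0) (nat_lit 0) (XT.lf (nat_lit 0) (nat_lit 87346053937) (nat_lit 380) (nat_lit 13877751219) (nat_lit 456) (nat_lit 123852187618) (nat_lit 67) (nat_lit 5) (nat_lit 72) (nat_lit 5) (nat_lit 73) (nat_lit 5) (nat_lit 349) (nat_lit 334) (nat_lit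 97)) (XT.lf (nat_lit 0) (nat_lit 125984977166) (nat_lit 456) (nat_lit 30819312334) (nat_lit 76) (nat_lit 74803206870) (nat_lit 67) (nat_lit 5) (nat_lit 73) (nat_lit 5) (nat_lit 68) (nat_lit 5) (nat_lit 350) (nat_lit 334) (nat_lit 96))) (XT.nd (nat_lit 78) (nat_lit 304) (nat_lit 0) (XT.lf (nat_lit 0) (nat_lit 83894393845) (nat_lit 304) (nat_lit 69627056238) (nat_lit 380) (nat_lit 84867263127) (nat_lit 63) (nat_lit 5) (nat_lit 67) (nat_lit 5) (nat_lit 68) (nat_lit 5) (nat_lit 351) (nat_lit 334) (nat_lit 95)) (XT.nd (nat_lit 78) (nat_lit 304) (nat_lit 0) (XT.lf (nat_lit 0) (nat_lit 183307218810) (nat_lit 380) (nat_lit 40419844471) (nat_lit 76) (nat_lit 21738304178) (nat_lit 63) (nat_lit 5) (nat_lit 68) (nat_lit 5) (nat_lit 64) (nat_lit 5) (nat_lit 352) (nat_lit 334) (nat_lit 94)) (XT.lf (nat_lit 0) (nat_lit 80803038438) (nat_lit 304) (nat_lit 136182144953) (nat_lit 380) (nat_lit 35790525822)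 (nat_lit 59) (nat_lit 5) (nat_lit 63) (nat_lit 5) (nat_lit 64) (nat_lit 5) (nat_lit 353) (nat_lit 334) (nat_lit 93))))) (XT.nd (nat_lit 156) (nat_lit 0) (nat_lit 0) (XT.nd (nat_lit 78) (nat_lit 0) (nat_lit 0) (XT.lf (nat_lit 0) (nat_lit 29506177653) (nat_lit 0) (nat_lit 29506177653) (nat_lit 684) (nat_lit 20444379513) (nat_lit 84) (nat_lit 5) (nat_lit 84) (nat_lit 3) (nat_lit 93) (nat_lit 3) (nat_lit 335) (nat_lit 335) (nat_lit 110)) (XT.lf (nat_lit 0) (nat_lit 121179916586) (nat_lit 684) (nat_lit 29161143225) (nat_lit 760) (nat_lit 12535011557) (nat_lit 84) (nat_lit 5) (nat_lit 93) (nat_lit 3) (nat_lit 94) (nat_lit 5) (nat_lit 336) (nat_lit 335) (nat_lit 109))) (XT.nd (nat_lit 78) (nat_lit 0) (nat_lit 0) (XT.lf (nat_lit 76) (nat_lit 45608067326) (nat_lit 0) (nat_lit 80564147837) (nat_lit 760) (nat_lit 40780621766) (nat_lit 85) (nat_lit 5) (nat_lit 84) (nat_lit 5) (nat_lit 94) (nat_lit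 5) (nat_lit 337) (nat_lit 335) (nat_lit 108)) (XT.nd (nat_lit 78) (nat_lit 0) (nat_lit 76) (XT.lf (nat_lit 76) (nat_lit 125128062412) (nat_lit 0) (nat_lit 6779777187) (nat_lit 760) (nat_lit 39300915963) (nat_lit 85) (nat_lit 5) (nat_lit 84) (nat_lit 5) (nat_lit 94) (nat_lit 5) (nat_lit 338) (nat_lit 335) (nat_lit 107)) (XT.lf (nat_lit 76) (nat_lit 32895635115) (nat_lit 0) (nat_lit 106651792510) (nat_lit 760) (nat_lit 36049183710) (nat_lit 86) (nat_lit 5) (nat_lit 85) (nat_lit 5) (nat_lit 95) (nat_lit 5) (nat_lit 339) (nat_lit 335) (nat_lit 106)))))) (XT.nd (nat_lit 390) (nat_lit 760) (nat_lit 0) (XT.nd (nat_lit 156) (nat_lit 608) (nat_lit 0) (XT.nd (nat_lit 78) (nat_lit 0) (nat_lit 76) (XT.lf (nat_lit 76) (nat_lit 117305690796) (nat_lit 0) (nat_lit 31152920384) (nat_lit 760) (nat_lit 31700768219) (nat_lit 86) (nat_lit 5) (nat_lit 85) (nat_lit 5) (nat_lit 95) (nat_lit 5) (nat_lit 340)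 (nat_lit 335) (nat_lit 105)) (XT.lf (nat_lit 76) (nat_lit 20903616653) (nat_lit 0) (nat_lit 137989276444) (nat_lit 760) (nat_lit 26003516104) (nat_lit 87) (nat_lit 5) (nat_lit 86) (nat_lit 5) (nat_lit 96) (nat_lit 5) (nat_lit 341) (nat_lit 335) (nat_lit 104))) (XT.nd (nat_lit 78) (nat_lit 684) (nat_lit 0) (XT.lf (nat_lit 76) (nat_lit 110503246017) (nat_lit 0) (nat_lit 60912444937) (nat_lit 760) (nat_lit 18376259728) (nat_lit 87) (nat_lit 5) (nat_lit 86) (nat_lit 5) (nat_lit 96) (nat_lit 5) (nat_lit 342) (nat_lit 335) (nat_lit 103)) (XT.nd (nat_lit 78) (nat_lit 760) (nat_lit 0) (XT.lf (nat_lit 76) (nat_lit 9646710107) (nat_lit 0) (nat_lit 175380955485) (nat_lit 760) (nat_lit 9881452070) (nat_lit 88) (nat_lit 5) (nat_lit 87) (nat_lit 5) (nat_lit 97) (nat_lit 5) (nat_lit 343) (nat_lit 335) (nat_lit 102)) (XT.lf (nat_lit 0) (nat_lit 1432139245) (nat_lit 760) (nat_lit 95439036957) (nat_lit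 836) (nat_lit 103293555113) (nat_lit 77) (nat_lit 5) (nat_lit 87) (nat_lit 5) (nat_lit 88) (nat_lit 5) (nat_lit 344) (nat_lit 335) (nat_lit 101))))) (XT.nd (nat_lit 234) (nat_lit 760) (nat_lit 0) (XT.nd (nat_lit 78) (nat_lit 0) (nat_lit 76) (XT.lf (nat_lit 0) (nat_lit 12979220059) (nat_lit 760) (nat_lit 1286578710) (nat_lit 836) (nat_lit 191409232987) (nat_lit 77) (nat_lit 5) (nat_lit 87) (nat_lit 5) (nat_lit 88) (nat_lit 5) (nat_lit 345) (nat_lit 335) (nat_lit 100)) (XT.nd (nat_lit 78) (nat_lit 0) (nat_lit 0) (XT.lf (nat_lit 0) (nat_lit 27834573503) (nat_lit 760) (nat_lit 111739786803) (nat_lit 76) (nat_lit 71749941204) (nat_lit 78) (nat_lit 5) (nat_lit 88) (nat_lit 5) (nat_lit 79) (nat_lit 5) (nat_lit 346) (nat_lit 335) (nat_lit 99)) (XT.lf (nat_lit 0) (nat_lit 43688606732) (nat_lit 760) (nat_lit 11945427794) (nat_lit 76) (nat_lit 161609204829) (nat_lit 78) (nat_lit 5) (nat_lit 88)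 (nat_lit 5) (nat_lit 79) (nat_lit 5) (nat_lit 347) (nat_lit 335) (nat_lit 98)))) (XT.nd (nat_lit 78) (nat_lit 380) (nat_lit 0) (XT.lf (nat_lit 0) (nat_lit 62364658427) (nat_lit 532) (nat_lit 128007048585) (nat_lit 76) (nat_lit 32984951441) (nat_lit 72) (nat_lit 5) (nat_lit 79) (nat_lit 5) (nat_lit 73) (nat_lit 5) (nat_lit 348) (nat_lit 335) (nat_lit 97)) (XT.nd (nat_lit 78) (nat_lit 380) (nat_lit 0) (XT.lf (nat_lit 0) (nat_lit 83092072664) (nat_lit 532) (nat_lit 22256954382) (nat_lit 76) (nat_lit 124370843650) (nat_lit 72) (nat_lit 5) (nat_lit 79) (nat_lit 5) (nat_lit 73) (nat_lit 5) (nat_lit 349) (nat_lit 335) (nat_lit 96)) (XT.lf (nat_lit 0) (nat_lit 91716046136) (nat_lit 380) (nat_lit 14571668930) (nat_lit 456) (nat_lit 130041935795) (nat_lit 67) (nat_lit 5) (nat_lit 72) (nat_lit 5) (nat_lit 73) (nat_lit 5) (nat_lit 350) (nat_lit 335) (nat_lit 95))))))))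
noncomputable def xc254 : XT := (XT.nd (nat_lit 80340) (nat_lit 0) (nat_lit 684) (XT.nd (nat_lit 40092) (nat_lit 0) (nat_lit 304) (XT.nd (nat_lit 39702) (nat_lit 0) (nat_lit 1596) (XT.nd (nat_lit 39468) (nat_lit 0) (nat_lit 1596) (XT.nd (nat_lit 78) (nat_lit 304) (nat_lit 0) (XT.lf (nat_lit 0) (nat_lit 132286815721) (nat_lit 456) (nat_lit 32357581261) (nat_lit 76) (nat_lit 78543339418) (nat_lit 67) (nat_lit 5) (nat_lit 73) (nat_lit 5) (nat_lit 68) (nat_lit 5) (nat_lit 351) (nat_lit 335) (nat_lit 94)) (XT.lf (nat_lit 0) (nat_lit 88091766732) (nat_lit 304) (nat_lit 73108263658) (nat_lit 380) (nat_lit 89107988041) (nat_lit 63) (nat_lit 5) (nat_lit 67) (nat_lit 5) (nat_lit 68) (nat_lit 5) (nat_lit 352) (nat_lit 335) (nat_lit 93))) (XT.nd (nat_lit 78) (nat_lit 0) (nat_lit 0) (XT.lf (nat_lit 0) (nat_lit 30982673019) (nat_lit 0) (nat_lit 30982673019) (nat_lit 684) (nat_lit 21464101361) (nat_lit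 84) (nat_lit 5) (nat_lit 84) (nat_lit 3) (nat_lit 93) (nat_lit 3) (nat_lit 336) (nat_lit 336) (nat_lit 108)) (XT.nd (nat_lit 78) (nat_lit 0) (nat_lit 0) (XT.lf (nat_lit 0) (nat_lit 127243397069) (nat_lit 684) (nat_lit 30616668636) (nat_lit 760) (nat_lit 13159574500) (nat_lit 84) (nat_lit 5) (nat_lit 93) (nat_lit 3) (nat_lit 94) (nat_lit 5) (nat_lit 337) (nat_lit 336) (nat_lit 107)) (XT.lf (nat_lit 76) (nat_lit 47890961608) (nat_lit 0) (nat_lit 84594174302) (nat_lit 760) (nat_lit 42815117366) (nat_lit 85) (nat_lit 5) (nat_lit 84) (nat_lit 5) (nat_lit 94) (nat_lit 5) (nat_lit 338) (nat_lit 336) (nat_lit 106))))) (XT.nd (nat_lit 156) (nat_lit 0) (nat_lit 76) (XT.nd (nat_lit 78) (nat_lit 0) (nat_lit 76) (XT.lf (nat_lit 76) (nat_lit 131386837833) (nat_lit 0) (nat_lit 7120498497) (nat_lit 760) (nat_lit 41261642250) (nat_lit 85) (nat_lit 5) (nat_lit 84) (nat_lit 5) (nat_lit 94) (nat_lit 5)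 (nat_lit 339) (nat_lit 336) (nat_lit 105)) (XT.lf (nat_lit 76) (nat_lit 34542988817) (nat_lit 0) (nat_lit 111985733871) (nat_lit 760) (nat_lit 37847513960) (nat_lit 86) (nat_lit 5) (nat_lit 85) (nat_lit 5) (nat_lit 95) (nat_lit 5) (nat_lit 340) (nat_lit 336) (nat_lit 104))) (XT.nd (nat_lit 78) (nat_lit 0) (nat_lit 76) (XT.lf (nat_lit 76) (nat_lit 123173424808) (nat_lit 0) (nat_lit 32711853770) (nat_lit 760) (nat_lit 33281874311) (nat_lit 86) (nat_lit 5) (nat_lit 85) (nat_lit 5) (nat_lit 95) (nat_lit 5) (nat_lit 341) (nat_lit 336) (nat_lit 103)) (XT.nd (nat_lit 78) (nat_lit 0) (nat_lit 0) (XT.lf (nat_lit 76) (nat_lit 21951419553) (nat_lit 0) (nat_lit 144889698889) (nat_lit 760) (nat_lit 27299923958) (nat_lit 87) (nat_lit 5) (nat_lit 86) (nat_lit 5) (nat_lit 96) (nat_lit 5) (nat_lit 342) (nat_lit 336) (nat_lit 102)) (XT.lf (nat_lit 76) (nat_lit 116030905525) (nat_lit 0) (nat_lit 63958980159)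 (nat_lit 760) (nat_lit 19291484189) (nat_lit 87) (nat_lit 5) (nat_lit 86) (nat_lit 5) (nat_lit 96) (nat_lit 5) (nat_lit 343) (nat_lit 336) (nat_lit 101)))))) (XT.nd (nat_lit 390) (nat_lit 760) (nat_lit 0) (XT.nd (nat_lit 156) (nat_lit 0) (nat_lit 0) (XT.nd (nat_lit 78) (nat_lit 760) (nat_lit 0) (XT.lf (nat_lit 76) (nat_lit 10131692033) (nat_lit 0) (nat_lit 184150632372) (nat_lit 760) (nat_lit 10372077900) (nat_lit 88) (nat_lit 5) (nat_lit 87) (nat_lit 5) (nat_lit 97) (nat_lit 5) (nat_lit 344) (nat_lit 336) (nat_lit 100)) (XT.lf (nat_lit 0) (nat_lit 1506923783) (nat_lit 760) (nat_lit 100208356571) (nat_lit 836) (nat_lit 108457521880) (nat_lit 77) (nat_lit 5) (nat_lit 87) (nat_lit 5) (nat_lit 88) (nat_lit 5) (nat_lit 345) (nat_lit 336) (nat_lit 99))) (XT.nd (nat_lit 78) (nat_lit 0) (nat_lit 76) (XT.lf (nat_lit 0) (nat_lit 13631207325) (nat_lit 760) (nat_lit 1348400756) (nat_lit 836) (nat_lit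 200979017504) (nat_lit 77) (nat_lit 5) (nat_lit 87) (nat_lit 5) (nat_lit 88) (nat_lit 5) (nat_lit 346) (nat_lit 336) (nat_lit 98)) (XT.nd (nat_lit 78) (nat_lit 0) (nat_lit 0) (XT.lf (nat_lit 0) (nat_lit 29229215750) (nat_lit 760) (nat_lit 117324150424) (nat_lit 76) (nat_lit 75336998594) (nat_lit 78) (nat_lit 5) (nat_lit 88) (nat_lit 5) (nat_lit 79) (nat_lit 5) (nat_lit 347) (nat_lit 336) (nat_lit 97)) (XT.lf (nat_lit 0) (nat_lit 45875811899) (nat_lit 760) (nat_lit 12540198499) (nat_lit 76) (nat_lit 169689246337) (nat_lit 78) (nat_lit 5) (nat_lit 88) (nat_lit 5) (nat_lit 79) (nat_lit 5) (nat_lit 348) (nat_lit 336) (nat_lit 96))))) (XT.nd (nat_lit 156) (nat_lit 380) (nat_lit 0) (XT.nd (nat_lit 78) (nat_lit 0) (nat_lit 0) (XT.lf (nat_lit 0) (nat_lit 65485569010) (nat_lit 532) (nat_lit 134404797592) (nat_lit 76) (nat_lit 34633985322) (nat_lit 72) (nat_lit 5) (nat_lit 79) (nat_lit 5) (nat_lit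 73) (nat_lit 5) (nat_lit 349) (nat_lit 336) (nat_lit 95)) (XT.lf (nat_lit 0) (nat_lit 87249226452) (nat_lit 532) (nat_lit 23367322652) (nat_lit 76) (nat_lit 130589182317) (nat_lit 72) (nat_lit 5) (nat_lit 79) (nat_lit 5) (nat_lit 73) (nat_lit 5) (nat_lit 350) (nat_lit 336) (nat_lit 94))) (XT.nd (nat_lit 39546) (nat_lit 0) (nat_lit 1292) (XT.lf (nat_lit 0) (nat_lit 96304287901) (nat_lit 380) (nat_lit 15300279724) (nat_lit 456) (nat_lit 136541437389) (nat_lit 67) (nat_lit 5) (nat_lit 72) (nat_lit 5) (nat_lit 73) (nat_lit 5) (nat_lit 351) (nat_lit 336) (nat_lit 93)) (XT.nd (nat_lit 78) (nat_lit 0) (nat_lit 0) (XT.lf (nat_lit 0) (nat_lit 32532882845) (nat_lit 0) (nat_lit 32532882845) (nat_lit 684) (nat_lit 22535041460) (nat_lit 84) (nat_lit 5) (nat_lit 84) (nat_lit 3) (nat_lit 93) (nat_lit 3) (nat_lit 337) (nat_lit 337) (nat_lit 106)) (XT.lf (nat_lit 0) (nat_lit 133609634635) (nat_lit 684)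 (nat_lit 32145205696) (nat_lit 760) (nat_lit 13815568974) (nat_lit 84) (nat_lit 5) (nat_lit 93) (nat_lit 3) (nat_lit 94) (nat_lit 5) (nat_lit 338) (nat_lit 337) (nat_lit 105))))))) (XT.nd (nat_lit 780) (nat_lit 380) (nat_lit 0) (XT.nd (nat_lit 390) (nat_lit 532) (nat_lit 0) (XT.nd (nat_lit 156) (nat_lit 0) (nat_lit 76) (XT.nd (nat_lit 78) (nat_lit 0) (nat_lit 0) (XT.lf (nat_lit 76) (nat_lit 50287769022) (nat_lit 0) (nat_lit 88825532971) (nat_lit 760) (nat_lit 44951759414) (nat_lit 85) (nat_lit 5) (nat_lit 84) (nat_lit 5) (nat_lit 94) (nat_lit 5) (nat_lit 339) (nat_lit 337) (nat_lit 104)) (XT.lf (nat_lit 76) (nat_lit 137958331471) (nat_lit 0) (nat_lit 7478094807) (nat_lit 760) (nat_lit 43320806437) (nat_lit 85) (nat_lit 5) (nat_lit 84) (nat_lit 5) (nat_lit 94) (nat_lit 5) (nat_lit 340) (nat_lit 337) (nat_lit 103))) (XT.nd (nat_lit 78) (nat_lit 0) (nat_lit 0) (XT.lf (nat_lit 76) (nat_lit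 36272471089) (nat_lit 0) (nat_lit 117586246628) (nat_lit 760) (nat_lit 39736144592) (nat_lit 86) (nat_lit 5) (nat_lit 85) (nat_lit 5) (nat_lit 95) (nat_lit 5) (nat_lit 341) (nat_lit 337) (nat_lit 102)) (XT.nd (nat_lit 78) (nat_lit 0) (nat_lit 76) (XT.lf (nat_lit 76) (nat_lit 129334317792) (nat_lit 0) (nat_lit 34348614138) (nat_lit 760) (nat_lit 34942401297) (nat_lit 86) (nat_lit 5) (nat_lit 85) (nat_lit 5) (nat_lit 95) (nat_lit 5) (nat_lit 342) (nat_lit 337) (nat_lit 101)) (XT.lf (nat_lit 76) (nat_lit 23051368823) (nat_lit 0) (nat_lit 152135053333) (nat_lit 760) (nat_lit 28661502513) (nat_lit 87) (nat_lit 5) (nat_lit 86) (nat_lit 5) (nat_lit 96) (nat_lit 5) (nat_lit 343) (nat_lit 337) (nat_lit 100))))) (XT.nd (nat_lit 156) (nat_lit 684) (nat_lit 0) (XT.nd (nat_lit 78) (nat_lit 0) (nat_lit 76) (XT.lf (nat_lit 76) (nat_lit 121834715841) (nat_lit 0) (nat_lit 67157757261) (nat_lit 760) (nat_lit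 20252803501) (nat_lit 87) (nat_lit 5) (nat_lit 86) (nat_lit 5) (nat_lit 96) (nat_lit 5) (nat_lit 344) (nat_lit 337) (nat_lit 99)) (XT.lf (nat_lit 76) (nat_lit 10640677017) (nat_lit 0) (nat_lit 193358734615) (nat_lit 760) (nat_lit 10887555471) (nat_lit 88) (nat_lit 5) (nat_lit 87) (nat_lit 5) (nat_lit 97) (nat_lit 5) (nat_lit 345) (nat_lit 337) (nat_lit 98))) (XT.nd (nat_lit 78) (nat_lit 0) (nat_lit 0) (XT.lf (nat_lit 0) (nat_lit 1585152127) (nat_lit 760) (nat_lit 105216386885) (nat_lit 836) (nat_lit 113879753087) (nat_lit 77) (nat_lit 5) (nat_lit 87) (nat_lit 5) (nat_lit 88) (nat_lit 5) (nat_lit 346) (nat_lit 337) (nat_lit 97)) (XT.nd (nat_lit 78) (nat_lit 0) (nat_lit 76) (XT.lf (nat_lit 0) (nat_lit 14315512601) (nat_lit 760) (nat_lit 1413546971) (nat_lit 836) (nat_lit 211027354201) (nat_lit 77) (nat_lit 5) (nat_lit 87) (nat_lit 5) (nat_lit 88) (nat_lit 5) (nat_lit 347) (nat_lit 337)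 (nat_lit 96)) (XT.lf (nat_lit 0) (nat_lit 30693319233) (nat_lit 760) (nat_lit 123187976341) (nat_lit 76) (nat_lit 79103449730) (nat_lit 78) (nat_lit 5) (nat_lit 88) (nat_lit 5) (nat_lit 79) (nat_lit 5) (nat_lit 348) (nat_lit 337) (nat_lit 95)))))) (XT.nd (nat_lit 39936) (nat_lit 0) (nat_lit 912) (XT.nd (nat_lit 156) (nat_lit 0) (nat_lit 0) (XT.nd (nat_lit 78) (nat_lit 456) (nat_lit 0) (XT.lf (nat_lit 0) (nat_lit 48172119347) (nat_lit 760) (nat_lit 13164940229) (nat_lit 76) (nat_lit 178173328851) (nat_lit 78) (nat_lit 5) (nat_lit 88) (nat_lit 5) (nat_lit 79) (nat_lit 5) (nat_lit 349) (nat_lit 337) (nat_lit 94)) (XT.lf (nat_lit 0) (nat_lit 68762276179) (nat_lit 532) (nat_lit 141122676092) (nat_lit 76) (nat_lit 36365490763) (nat_lit 72) (nat_lit 5) (nat_lit 79) (nat_lit 5) (nat_lit 73) (nat_lit 5) (nat_lit 350) (nat_lit 337) (nat_lit 93))) (XT.nd (nat_lit 39624) (nat_lit 0) (nat_lit 912)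 (XT.lf (nat_lit 0) (nat_lit 91614000839) (nat_lit 532) (nat_lit 24533439852) (nat_lit 76) (nat_lit 137118456838) (nat_lit 72) (nat_lit 5) (nat_lit 79) (nat_lit 5) (nat_lit 73) (nat_lit 5) (nat_lit 351) (nat_lit 337) (nat_lit 92)) (XT.nd (nat_lit 78) (nat_lit 0) (nat_lit 0) (XT.lf (nat_lit 0) (nat_lit 34160503111) (nat_lit 0) (nat_lit 34160503111) (nat_lit 684) (nat_lit 23659739140) (nat_lit 84) (nat_lit 5) (nat_lit 84) (nat_lit 3) (nat_lit 93) (nat_lit 3) (nat_lit 338) (nat_lit 338) (nat_lit 104)) (XT.lf (nat_lit 0) (nat_lit 140293805902) (nat_lit 684) (nat_lit 33750383104) (nat_lit 760) (nat_lit 14504547650) (nat_lit 84) (nat_lit 5) (nat_lit 93) (nat_lit 3) (nat_lit 94) (nat_lit 5) (nat_lit 339) (nat_lit 338) (nat_lit 103))))) (XT.nd (nat_lit 234) (nat_lit 0) (nat_lit 76) (XT.nd (nat_lit 78) (nat_lit 0) (nat_lit 0) (XT.lf (nat_lit 76) (nat_lit 52804206755) (nat_lit 0) (nat_lit 93268306176)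 (nat_lit 760) (nat_lit 47195616028) (nat_lit 85) (nat_lit 5) (nat_lit 84) (nat_lit 5) (nat_lit 94) (nat_lit 5) (nat_lit 340) (nat_lit 338) (nat_lit 102)) (XT.nd (nat_lit 78) (nat_lit 0) (nat_lit 76) (XT.lf (nat_lit 76) (nat_lit 144858199741) (nat_lit 0) (nat_lit 7853424839) (nat_lit 760) (nat_lit 45483293086) (nat_lit 85) (nat_lit 5) (nat_lit 84) (nat_lit 5) (nat_lit 94) (nat_lit 5) (nat_lit 341) (nat_lit 338) (nat_lit 101)) (XT.lf (nat_lit 76) (nat_lit 38088210590) (nat_lit 0) (nat_lit 123466671035) (nat_lit 760) (nat_lit 41719554936) (nat_lit 86) (nat_lit 5) (nat_lit 85) (nat_lit 5) (nat_lit 95) (nat_lit 5) (nat_lit 342) (nat_lit 338) (nat_lit 100)))) (XT.nd (nat_lit 78) (nat_lit 0) (nat_lit 76) (XT.lf (nat_lit 76) (nat_lit 135803048869) (nat_lit 0) (nat_lit 36067103965) (nat_lit 760) (nat_lit 36686286232) (nat_lit 86) (nat_lit 5) (nat_lit 85) (nat_lit 5) (nat_lit 95) (nat_lit 5) (nat_lit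 343) (nat_lit 338) (nat_lit 99)) (XT.nd (nat_lit 78) (nat_lit 0) (nat_lit 0) (XT.lf (nat_lit 76) (nat_lit 24206094445) (nat_lit 0) (nat_lit 159742594661) (nat_lit 760) (nat_lit 30091477735) (nat_lit 87) (nat_lit 5) (nat_lit 86) (nat_lit 5) (nat_lit 96) (nat_lit 5) (nat_lit 344) (nat_lit 338) (nat_lit 98)) (XT.lf (nat_lit 76) (nat_lit 127928506092) (nat_lit 0) (nat_lit 70516396231) (nat_lit 760) (nat_lit 21262491387) (nat_lit 87) (nat_lit 5) (nat_lit 86) (nat_lit 5) (nat_lit 96) (nat_lit 5) (nat_lit 345) (nat_lit 338) (nat_lit 97))))))))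
noncomputable def xc255 : XT := (XT.nd (nat_lit 81120) (nat_lit 0) (nat_lit 532) (XT.nd (nat_lit 40482) (nat_lit 0) (nat_lit 0) (XT.nd (nat_lit 40092) (nat_lit 0) (nat_lit 532) (XT.nd (nat_lit 156) (nat_lit 0) (nat_lit 0) (XT.nd (nat_lit 78) (nat_lit 760) (nat_lit 0) (XT.lf (nat_lit 76) (nat_lit 11174888085) (nat_lit 0) (nat_lit 203027188919) (nat_lit 760) (nat_lit 11429097575) (nat_lit 88) (nat_lit 5) (nat_lit 87) (nat_lit 5) (nat_lit 97) (nat_lit 5) (nat_lit 346) (nat_lit 338) (nat_lit 96)) (XT.lf (nat_lit 0) (nat_lit 1667023933) (nat_lit 760) (nat_lit 110475040684) (nat_lit 836) (nat_lit 119573155809) (nat_lit 77) (nat_lit 5) (nat_lit 87) (nat_lit 5) (nat_lit 88) (nat_lit 5) (nat_lit 347) (nat_lit 338) (nat_lit 95))) (XT.nd (nat_lit 78) (nat_lit 0) (nat_lit 76) (XT.lf (nat_lit 0) (nat_lit 15033777945) (nat_lit 760) (nat_lit 1482161896) (nat_lit 836) (nat_lit 221578164833) (nat_lit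 77) (nat_lit 5) (nat_lit 87) (nat_lit 5) (nat_lit 88) (nat_lit 5) (nat_lit 348) (nat_lit 338) (nat_lit 94)) (XT.nd (nat_lit 78) (nat_lit 0) (nat_lit 0) (XT.lf (nat_lit 0) (nat_lit 32230382198) (nat_lit 760) (nat_lit 129345214972) (nat_lit 76) (nat_lit 83058260499) (nat_lit 78) (nat_lit 5) (nat_lit 88) (nat_lit 5) (nat_lit 79) (nat_lit 5) (nat_lit 349) (nat_lit 338) (nat_lit 93)) (XT.lf (nat_lit 0) (nat_lit 50583008174) (nat_lit 760) (nat_lit 13821129921) (nat_lit 76) (nat_lit 187081650801) (nat_lit 78) (nat_lit 5) (nat_lit 88) (nat_lit 5) (nat_lit 79) (nat_lit 5) (nat_lit 350) (nat_lit 338) (nat_lit 92))))) (XT.nd (nat_lit 156) (nat_lit 0) (nat_lit 0) (XT.nd (nat_lit 78) (nat_lit 0) (nat_lit 0) (XT.lf (nat_lit 0) (nat_lit 35869413639) (nat_lit 0) (nat_lit 35869413639) (nat_lit 684) (nat_lit 24840862702) (nat_lit 84) (nat_lit 5) (nat_lit 84) (nat_lit 3) (nat_lit 93) (nat_lit 3) (nat_lit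 339) (nat_lit 339) (nat_lit 102)) (XT.lf (nat_lit 0) (nat_lit 147311842715) (nat_lit 684) (nat_lit 35436013029) (nat_lit 760) (nat_lit 15228142585) (nat_lit 84) (nat_lit 5) (nat_lit 93) (nat_lit 3) (nat_lit 94) (nat_lit 5) (nat_lit 340) (nat_lit 339) (nat_lit 101))) (XT.nd (nat_lit 78) (nat_lit 0) (nat_lit 0) (XT.lf (nat_lit 76) (nat_lit 55446275851) (nat_lit 0) (nat_lit 97933078905) (nat_lit 760) (nat_lit 49552012379) (nat_lit 85) (nat_lit 5) (nat_lit 84) (nat_lit 5) (nat_lit 94) (nat_lit 5) (nat_lit 341) (nat_lit 339) (nat_lit 100)) (XT.nd (nat_lit 78) (nat_lit 0) (nat_lit 76) (XT.lf (nat_lit 76) (nat_lit 152102879975) (nat_lit 0) (nat_lit 8247388862) (nat_lit 760) (nat_lit 47754234454) (nat_lit 85) (nat_lit 5) (nat_lit 84) (nat_lit 5) (nat_lit 94) (nat_lit 5) (nat_lit 342) (nat_lit 339) (nat_lit 99)) (XT.lf (nat_lit 76) (nat_lit 39994540345) (nat_lit 0) (nat_lit 129641013273) (nat_lit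 760) (nat_lit 43802451607) (nat_lit 86) (nat_lit 5) (nat_lit 85) (nat_lit 5) (nat_lit 95) (nat_lit 5) (nat_lit 343) (nat_lit 339) (nat_lit 98)))))) (XT.nd (nat_lit 390) (nat_lit 0) (nat_lit 0) (XT.nd (nat_lit 156) (nat_lit 608) (nat_lit 0) (XT.nd (nat_lit 78) (nat_lit 0) (nat_lit 76) (XT.lf (nat_lit 76) (nat_lit 142595029147) (nat_lit 0) (nat_lit 37871419816) (nat_lit 760) (nat_lit 38517666187) (nat_lit 86) (nat_lit 5) (nat_lit 85) (nat_lit 5) (nat_lit 95) (nat_lit 5) (nat_lit 344) (nat_lit 339) (nat_lit 97)) (XT.lf (nat_lit 76) (nat_lit 25418355795) (nat_lit 0) (nat_lit 167730439734) (nat_lit 760) (nat_lit 31593239919) (nat_lit 87) (nat_lit 5) (nat_lit 86) (nat_lit 5) (nat_lit 96) (nat_lit 5) (nat_lit 345) (nat_lit 339) (nat_lit 96))) (XT.nd (nat_lit 78) (nat_lit 684) (nat_lit 0) (XT.lf (nat_lit 76) (nat_lit 134326794851) (nat_lit 0) (nat_lit 74042897318) (nat_lit 760) (nat_lit 22322938144)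 (nat_lit 87) (nat_lit 5) (nat_lit 86) (nat_lit 5) (nat_lit 96) (nat_lit 5) (nat_lit 346) (nat_lit 339) (nat_lit 95)) (XT.nd (nat_lit 78) (nat_lit 760) (nat_lit 0) (XT.lf (nat_lit 76) (nat_lit 11735607289) (nat_lit 0) (nat_lit 213179017820) (nat_lit 760) (nat_lit 11997980419) (nat_lit 88) (nat_lit 5) (nat_lit 87) (nat_lit 5) (nat_lit 97) (nat_lit 5) (nat_lit 347) (nat_lit 339) (nat_lit 94)) (XT.lf (nat_lit 0) (nat_lit 1752746286) (nat_lit 760) (nat_lit 115996828505) (nat_lit 836) (nat_lit 125551283049) (nat_lit 77) (nat_lit 5) (nat_lit 87) (nat_lit 5) (nat_lit 88) (nat_lit 5) (nat_lit 348) (nat_lit 339) (nat_lit 93))))) (XT.nd (nat_lit 40014) (nat_lit 0) (nat_lit 532) (XT.nd (nat_lit 39936) (nat_lit 0) (nat_lit 532) (XT.lf (nat_lit 0) (nat_lit 15787725086) (nat_lit 760) (nat_lit 1554399311) (nat_lit 836) (nat_lit 232656567788) (nat_lit 77) (nat_lit 5) (nat_lit 87) (nat_lit 5) (nat_lit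 88) (nat_lit 5) (nat_lit 349) (nat_lit 339) (nat_lit 92)) (XT.lf (nat_lit 0) (nat_lit 37663687380) (nat_lit 0) (nat_lit 37663687380) (nat_lit 684) (nat_lit 26081215682) (nat_lit 84) (nat_lit 5) (nat_lit 84) (nat_lit 3) (nat_lit 93) (nat_lit 3) (nat_lit 340) (nat_lit 340) (nat_lit 100))) (XT.nd (nat_lit 78) (nat_lit 0) (nat_lit 0) (XT.lf (nat_lit 0) (nat_lit 154680470241) (nat_lit 684) (nat_lit 37206100093) (nat_lit 760) (nat_lit 15988069036) (nat_lit 84) (nat_lit 5) (nat_lit 93) (nat_lit 3) (nat_lit 94) (nat_lit 5) (nat_lit 341) (nat_lit 340) (nat_lit 99)) (XT.nd (nat_lit 78) (nat_lit 0) (nat_lit 0) (XT.lf (nat_lit 76) (nat_lit 58220275593) (nat_lit 0) (nat_lit 102830964071) (nat_lit 760) (nat_lit 52026543201) (nat_lit 85) (nat_lit 5) (nat_lit 84) (nat_lit 5) (nat_lit 94) (nat_lit 5) (nat_lit 342) (nat_lit 340) (nat_lit 98)) (XT.lf (nat_lit 76) (nat_lit 159709629640) (nat_lit 0) (nat_lit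 8660930896) (nat_lit 760) (nat_lit 50139022561) (nat_lit 85) (nat_lit 5) (nat_lit 84) (nat_lit 5) (nat_lit 94) (nat_lit 5) (nat_lit 343) (nat_lit 340) (nat_lit 97))))))) (XT.nd (nat_lit 40794) (nat_lit 0) (nat_lit 0) (XT.nd (nat_lit 40404) (nat_lit 76) (nat_lit 0) (XT.nd (nat_lit 156) (nat_lit 0) (nat_lit 76) (XT.nd (nat_lit 78) (nat_lit 0) (nat_lit 0) (XT.lf (nat_lit 76) (nat_lit 41996008157) (nat_lit 0) (nat_lit 136123978844) (nat_lit 760) (nat_lit 45989779562) (nat_lit 86) (nat_lit 5) (nat_lit 85) (nat_lit 5) (nat_lit 95) (nat_lit 5) (nat_lit 344) (nat_lit 340) (nat_lit 96)) (XT.lf (nat_lit 76) (nat_lit 149726438504) (nat_lit 0) (nat_lit 39765862148) (nat_lit 760) (nat_lit 40440887947) (nat_lit 86) (nat_lit 5) (nat_lit 85) (nat_lit 5) (nat_lit 95) (nat_lit 5) (nat_lit 345) (nat_lit 340) (nat_lit 95))) (XT.nd (nat_lit 78) (nat_lit 0) (nat_lit 0) (XT.lf (nat_lit 76) (nat_lit 26691048303)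 (nat_lit 0) (nat_lit 176117610554) (nat_lit 760) (nat_lit 33170351617) (nat_lit 87) (nat_lit 5) (nat_lit 86) (nat_lit 5) (nat_lit 96) (nat_lit 5) (nat_lit 346) (nat_lit 340) (nat_lit 94)) (XT.nd (nat_lit 78) (nat_lit 0) (nat_lit 76) (XT.lf (nat_lit 76) (nat_lit 141044824801) (nat_lit 0) (nat_lit 77745660121) (nat_lit 760) (nat_lit 23436656196) (nat_lit 87) (nat_lit 5) (nat_lit 86) (nat_lit 5) (nat_lit 96) (nat_lit 5) (nat_lit 347) (nat_lit 340) (nat_lit 93)) (XT.lf (nat_lit 76) (nat_lit 12324178856) (nat_lit 0) (nat_lit 223838394519) (nat_lit 760) (nat_lit 12595546529) (nat_lit 88) (nat_lit 5) (nat_lit 87) (nat_lit 5) (nat_lit 97) (nat_lit 5) (nat_lit 348) (nat_lit 340) (nat_lit 92))))) (XT.nd (nat_lit 156) (nat_lit 0) (nat_lit 0) (XT.nd (nat_lit 78) (nat_lit 0) (nat_lit 0) (XT.lf (nat_lit 0) (nat_lit 39547600147) (nat_lit 0) (nat_lit 39547600147) (nat_lit 684) (nat_lit 27383743446)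 (nat_lit 84) (nat_lit 5) (nat_lit 84) (nat_lit 3) (nat_lit 93) (nat_lit 3) (nat_lit 341) (nat_lit 341) (nat_lit 98)) (XT.lf (nat_lit 0) (nat_lit 162417246941) (nat_lit 684) (nat_lit 39064850823) (nat_lit 760) (nat_lit 16786129469) (nat_lit 84) (nat_lit 5) (nat_lit 93) (nat_lit 3) (nat_lit 94) (nat_lit 5) (nat_lit 342) (nat_lit 341) (nat_lit 97))) (XT.nd (nat_lit 78) (nat_lit 0) (nat_lit 0) (XT.lf (nat_lit 76) (nat_lit 61132818579) (nat_lit 0) (nat_lit 107973629028) (nat_lit 760) (nat_lit 54625085965) (nat_lit 85) (nat_lit 5) (nat_lit 84) (nat_lit 5) (nat_lit 94) (nat_lit 5) (nat_lit 343) (nat_lit 341) (nat_lit 96)) (XT.nd (nat_lit 78) (nat_lit 0) (nat_lit 76) (XT.lf (nat_lit 76) (nat_lit 167696567508) (nat_lit 0) (nat_lit 9095041016) (nat_lit 760) (nat_lit 52643321884) (nat_lit 85) (nat_lit 5) (nat_lit 84) (nat_lit 5) (nat_lit 94) (nat_lit 5) (nat_lit 344) (nat_lit 341) (nat_lit 95))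 (XT.lf (nat_lit 76) (nat_lit 44097387517) (nat_lit 0) (nat_lit 142931007635) (nat_lit 760) (nat_lit 48286733732) (nat_lit 86) (nat_lit 5) (nat_lit 85) (nat_lit 5) (nat_lit 95) (nat_lit 5) (nat_lit 345) (nat_lit 341) (nat_lit 94)))))) (XT.nd (nat_lit 40560) (nat_lit 0) (nat_lit 0) (XT.nd (nat_lit 40326) (nat_lit 76) (nat_lit 0) (XT.nd (nat_lit 78) (nat_lit 0) (nat_lit 76) (XT.lf (nat_lit 76) (nat_lit 157214264193) (nat_lit 0) (nat_lit 41754945587) (nat_lit 760) (nat_lit 42460518242) (nat_lit 86) (nat_lit 5) (nat_lit 85) (nat_lit 5) (nat_lit 95) (nat_lit 5) (nat_lit 346) (nat_lit 341) (nat_lit 93)) (XT.lf (nat_lit 76) (nat_lit 28027210440) (nat_lit 0) (nat_lit 184924079593) (nat_lit 760) (nat_lit 34826556002) (nat_lit 87) (nat_lit 5) (nat_lit 86) (nat_lit 5) (nat_lit 96) (nat_lit 5) (nat_lit 347) (nat_lit 341) (nat_lit 92))) (XT.nd (nat_lit 78) (nat_lit 0) (nat_lit 0) (XT.lf (nat_lit 0)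 (nat_lit 41525640832) (nat_lit 0) (nat_lit 41525640832) (nat_lit 684) (nat_lit 28751540124) (nat_lit 84) (nat_lit 5) (nat_lit 84) (nat_lit 3) (nat_lit 93) (nat_lit 3) (nat_lit 342) (nat_lit 342) (nat_lit 96)) (XT.nd (nat_lit 78) (nat_lit 0) (nat_lit 0) (XT.lf (nat_lit 0) (nat_lit 170540606511) (nat_lit 684) (nat_lit 41016683591) (nat_lit 760) (nat_lit 17624217785) (nat_lit 84) (nat_lit 5) (nat_lit 93) (nat_lit 3) (nat_lit 94) (nat_lit 5) (nat_lit 343) (nat_lit 342) (nat_lit 95)) (XT.lf (nat_lit 76) (nat_lit 64190846543) (nat_lit 0) (nat_lit 113373323408) (nat_lit 760) (nat_lit 57353814735) (nat_lit 85) (nat_lit 5) (nat_lit 84) (nat_lit 5) (nat_lit 94) (nat_lit 5) (nat_lit 344) (nat_lit 342) (nat_lit 94))))) (XT.nd (nat_lit 40560) (nat_lit 0) (nat_lit 0) (XT.nd (nat_lit 78) (nat_lit 0) (nat_lit 0) (XT.lf (nat_lit 76) (nat_lit 176082716869) (nat_lit 0) (nat_lit 9550757760) (nat_lit 760)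 (nat_lit 55273082712) (nat_lit 85) (nat_lit 5) (nat_lit 84) (nat_lit 5) (nat_lit 94) (nat_lit 5) (nat_lit 345) (nat_lit 342) (nat_lit 93)) (XT.nd (nat_lit 40404) (nat_lit 76) (nat_lit 0) (XT.lf (nat_lit 76) (nat_lit 46303689049) (nat_lit 0) (nat_lit 150078310713) (nat_lit 760) (nat_lit 50698771272) (nat_lit 86) (nat_lit 5) (nat_lit 85) (nat_lit 5) (nat_lit 95) (nat_lit 5) (nat_lit 346) (nat_lit 342) (nat_lit 92)) (XT.lf (nat_lit 0) (nat_lit 43602522129) (nat_lit 0) (nat_lit 43602522129) (nat_lit 684) (nat_lit 30187855911) (nat_lit 84) (nat_lit 5) (nat_lit 84) (nat_lit 3) (nat_lit 93) (nat_lit 3) (nat_lit 343) (nat_lit 343) (nat_lit 94)))) (XT.nd (nat_lit 78) (nat_lit 0) (nat_lit 0) (XT.lf (nat_lit 0) (nat_lit 179069901891) (nat_lit 684) (nat_lit 43066239065) (nat_lit 760) (nat_lit 18504323770) (nat_lit 84) (nat_lit 5) (nat_lit 93) (nat_lit 3) (nat_lit 94) (nat_lit 5) (nat_lit 344) (nat_lit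 343) (nat_lit 93)) (XT.nd (nat_lit 40560) (nat_lit 0) (nat_lit 0) (XT.lf (nat_lit 76) (nat_lit 67401646951) (nat_lit 0) (nat_lit 119042908334) (nat_lit 760) (nat_lit 60219214742) (nat_lit 85) (nat_lit 5) (nat_lit 84) (nat_lit 5) (nat_lit 94) (nat_lit 5) (nat_lit 345) (nat_lit 343) (nat_lit 92)) (XT.lf (nat_lit 0) (nat_lit 45783191777) (nat_lit 0) (nat_lit 45783191777) (nat_lit 684) (nat_lit 31696104744) (nat_lit 84) (nat_lit 5) (nat_lit 84) (nat_lit 3) (nat_lit 93) (nat_lit 3) (nat_lit 344) (nat_lit 344) (nat_lit 92))))))))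

set_option maxRecDepth 10000000 in
noncomputable def Tp : PT := (PT.nd (nat_lit 5415228) (PT.nd (nat_lit 5009160) (PT.nd (nat_lit 4643418) (PT.nd (nat_lit 4318626) pc0 pc1) (PT.nd (nat_lit 203346) pc2 pc3)) (PT.nd (nat_lit 243516) (PT.nd (nat_lit 161538) pc4 pc5) (PT.nd (nat_lit 81432) pc6 pc7))) (PT.nd (nat_lit 243360) (PT.nd (nat_lit 122382) (PT.nd (nat_lit 80574) pc8 pc9) (PT.nd (nat_lit 79638) pc10 pc11)) (PT.nd (nat_lit 123318) (PT.nd (nat_lit 41730) pc12 pc13) (PT.nd (nat_lit 158730) pc14 pc15))))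

set_option maxRecDepth 10000000 in
noncomputable def Tx : XT := (XT.nd (nat_lit 7914348) (nat_lit 0) (nat_lit 76) XT.nil (XT.nd (nat_lit 6092034) (nat_lit 0) (nat_lit 0) (XT.nd (nat_lit 2956824) (nat_lit 0) (nat_lit 0) (XT.nd (nat_lit 2031354) (nat_lit 0) (nat_lit 0) (XT.nd (nat_lit 1421238) (nat_lit 0) (nat_lit 0) (XT.nd (nat_lit 1012518) (nat_lit 0) (nat_lit 0) (XT.nd (nat_lit 689676) (nat_lit 0) (nat_lit 0) (XT.nd (nat_lit 486252) (nat_lit 0) (nat_lit 0) (XT.nd (nat_lit 324558) (nat_lit 0) (nat_lit 0) (XT.nd (nat_lit 203190) (nat_lit 0) (nat_lit 0) xc0 xc1) (XT.nd (nat_lit 81120) (nat_lit 0) (nat_lit 0) xc2 xc3)) (XT.nd (nat_lit 121212) (nat_lit 0) (nat_lit 0) (XT.nd (nat_lit 41574) (nat_lit 0) (nat_lit 0) xc4 xc5) (XT.nd (nat_lit 41184) (nat_lit 0) (nat_lit 0) xc6 xc7))) (XT.nd (nat_lit 162552) (nat_lit 0) (nat_lit 0) (XT.nd (nat_lit 81510) (nat_lit 0) (nat_lit 0) (XT.nd (nat_lit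 40794) (nat_lit 0) (nat_lit 0) xc8 xc9) (XT.nd (nat_lit 40560) (nat_lit 0) (nat_lit 0) xc10 xc11)) (XT.nd (nat_lit 80418) (nat_lit 0) (nat_lit 0) (XT.nd (nat_lit 40248) (nat_lit 0) (nat_lit 0) xc12 xc13) (XT.nd (nat_lit 40014) (nat_lit 0) (nat_lit 0) xc14 xc15)))) (XT.nd (nat_lit 206310) (nat_lit 0) (nat_lit 0) (XT.nd (nat_lit 121680) (nat_lit 0) (nat_lit 0) (XT.nd (nat_lit 42822) (nat_lit 0) (nat_lit 0) (XT.nd (nat_lit 3120) (nat_lit 0) (nat_lit 0) xc16 xc17) (XT.nd (nat_lit 39468) (nat_lit 0) (nat_lit 0) xc18 xc19)) (XT.nd (nat_lit 42354) (nat_lit 0) (nat_lit 0) (XT.nd (nat_lit 3120) (nat_lit 0) (nat_lit 0) xc20 xc21) (XT.nd (nat_lit 39078) (nat_lit 0) (nat_lit 0) xc22 xc23))) (XT.nd (nat_lit 119340) (nat_lit 0) (nat_lit 0) (XT.nd (nat_lit 77610) (nat_lit 0) (nat_lit 0) (XT.nd (nat_lit 38844) (nat_lit 0) (nat_lit 0) xc24 xc25) (XT.nd (nat_lit 3120) (nat_lit 0) (nat_lit 0) xc26 xc27))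 (XT.nd (nat_lit 41574) (nat_lit 0) (nat_lit 0) (XT.nd (nat_lit 38376) (nat_lit 0) (nat_lit 0) xc28 xc29) (XT.nd (nat_lit 38298) (nat_lit 0) (nat_lit 0) xc30 xc31))))) (XT.nd (nat_lit 359970) (nat_lit 0) (nat_lit 0) (XT.nd (nat_lit 198588) (nat_lit 0) (nat_lit 0) (XT.nd (nat_lit 82368) (nat_lit 0) (nat_lit 0) (XT.nd (nat_lit 41262) (nat_lit 0) (nat_lit 0) (XT.nd (nat_lit 38064) (nat_lit 0) (nat_lit 0) xc32 xc33) (XT.nd (nat_lit 37908) (nat_lit 0) (nat_lit 0) xc34 xc35)) (XT.nd (nat_lit 75426) (nat_lit 0) (nat_lit 0) (XT.nd (nat_lit 37752) (nat_lit 0) (nat_lit 0) xc36 xc37) (XT.nd (nat_lit 3198) (nat_lit 0) (nat_lit 0) xc38 xc39))) (XT.nd (nat_lit 80964) (nat_lit 0) (nat_lit 0) (XT.nd (nat_lit 40560) (nat_lit 0) (nat_lit 0) (XT.nd (nat_lit 3120) (nat_lit 0) (nat_lit 0) xc40 xc41) (XT.nd (nat_lit 3120) (nat_lit 0) (nat_lit 0) xc42 xc43)) (XT.nd (nat_lit 40248) (nat_lit 0) (nat_lit 0) (XT.nd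 (nat_lit 3120) (nat_lit 76) (nat_lit 0) xc44 xc45) (XT.nd (nat_lit 3198) (nat_lit 76) (nat_lit 0) xc46 xc47)))) (XT.nd (nat_lit 125736) (nat_lit 0) (nat_lit 0) (XT.nd (nat_lit 46254) (nat_lit 0) (nat_lit 0) (XT.nd (nat_lit 6318) (nat_lit 0) (nat_lit 0) (XT.nd (nat_lit 3120) (nat_lit 76) (nat_lit 0) xc48 xc49) (XT.nd (nat_lit 36738) (nat_lit 0) (nat_lit 0) xc50 xc51)) (XT.nd (nat_lit 39780) (nat_lit 0) (nat_lit 0) (XT.nd (nat_lit 36582) (nat_lit 0) (nat_lit 0) xc52 xc53) (XT.nd (nat_lit 36504) (nat_lit 0) (nat_lit 76) xc54 xc55))) (XT.nd (nat_lit 78858) (nat_lit 0) (nat_lit 0) (XT.nd (nat_lit 39468) (nat_lit 0) (nat_lit 0) (XT.nd (nat_lit 36270) (nat_lit 0) (nat_lit 228) xc56 xc57) (XT.nd (nat_lit 3198) (nat_lit 0) (nat_lit 0) xc58 xc59)) (XT.nd (nat_lit 39156) (nat_lit 0) (nat_lit 0) (XT.nd (nat_lit 3120) (nat_lit 76) (nat_lit 0) xc60 xc61) (XT.nd (nat_lit 3198) (nat_lit 228) (nat_lit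 0) xc62 xc63)))))) (XT.nd (nat_lit 484692) (nat_lit 0) (nat_lit 0) (XT.nd (nat_lit 276744) (nat_lit 0) (nat_lit 0) (XT.nd (nat_lit 155454) (nat_lit 0) (nat_lit 0) (XT.nd (nat_lit 78000) (nat_lit 0) (nat_lit 0) (XT.nd (nat_lit 39078) (nat_lit 0) (nat_lit 0) (XT.nd (nat_lit 35880) (nat_lit 0) (nat_lit 76) xc64 xc65) (XT.nd (nat_lit 35724) (nat_lit 0) (nat_lit 228) xc66 xc67)) (XT.nd (nat_lit 38766) (nat_lit 0) (nat_lit 0) (XT.nd (nat_lit 3120) (nat_lit 0) (nat_lit 0) xc68 xc69) (XT.nd (nat_lit 3198) (nat_lit 76) (nat_lit 0) xc70 xc71))) (XT.nd (nat_lit 44772) (nat_lit 0) (nat_lit 0) (XT.nd (nat_lit 6318) (nat_lit 0) (nat_lit 0) (XT.nd (nat_lit 3120) (nat_lit 304) (nat_lit 0) xc72 xc73) (XT.nd (nat_lit 35256) (nat_lit 0) (nat_lit 228) xc74 xc75)) (XT.nd (nat_lit 38298) (nat_lit 0) (nat_lit 0) (XT.nd (nat_lit 3120) (nat_lit 0) (nat_lit 0) xc76 xc77) (XT.nd (nat_lit 3198) (nat_lit 76) (nat_lit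 0) xc78 xc79)))) (XT.nd (nat_lit 88686) (nat_lit 0) (nat_lit 0) (XT.nd (nat_lit 44382) (nat_lit 0) (nat_lit 0) (XT.nd (nat_lit 6318) (nat_lit 76) (nat_lit 0) (XT.nd (nat_lit 3120) (nat_lit 532) (nat_lit 0) xc80 xc81) (XT.nd (nat_lit 34866) (nat_lit 0) (nat_lit 456) xc82 xc83)) (XT.nd (nat_lit 37908) (nat_lit 0) (nat_lit 0) (XT.nd (nat_lit 3120) (nat_lit 0) (nat_lit 0) xc84 xc85) (XT.nd (nat_lit 3198) (nat_lit 304) (nat_lit 0) xc86 xc87))) (XT.nd (nat_lit 75426) (nat_lit 0) (nat_lit 0) (XT.nd (nat_lit 37752) (nat_lit 0) (nat_lit 0) (XT.nd (nat_lit 34554) (nat_lit 0) (nat_lit 304) xc88 xc89) (XT.nd (nat_lit 3198) (nat_lit 0) (nat_lit 0) xc90 xc91)) (XT.nd (nat_lit 6318) (nat_lit 0) (nat_lit 0) (XT.nd (nat_lit 3120) (nat_lit 304) (nat_lit 0) xc92 xc93) (XT.nd (nat_lit 34320) (nat_lit 0) (nat_lit 304) xc94 xc95))))) (XT.nd (nat_lit 204360) (nat_lit 0) (nat_lit 0) (XT.nd (nat_lit 117780)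 (nat_lit 0) (nat_lit 0) (XT.nd (nat_lit 43602) (nat_lit 0) (nat_lit 0) (XT.nd (nat_lit 37284) (nat_lit 0) (nat_lit 0) (XT.nd (nat_lit 3120) (nat_lit 0) (nat_lit 0) xc96 xc97) (XT.nd (nat_lit 3120) (nat_lit 304) (nat_lit 0) xc98 xc99)) (XT.nd (nat_lit 37128) (nat_lit 0) (nat_lit 0) (XT.nd (nat_lit 33930) (nat_lit 0) (nat_lit 456) xc100 xc101) (XT.nd (nat_lit 3198) (nat_lit 0) (nat_lit 0) xc102 xc103))) (XT.nd (nat_lit 43212) (nat_lit 0) (nat_lit 0) (XT.nd (nat_lit 6318) (nat_lit 76) (nat_lit 0) (XT.nd (nat_lit 3120) (nat_lit 456) (nat_lit 0) xc104 xc105) (XT.nd (nat_lit 33696) (nat_lit 0) (nat_lit 760) xc106 xc107)) (XT.nd (nat_lit 36972) (nat_lit 0) (nat_lit 152) (XT.nd (nat_lit 3120) (nat_lit 76) (nat_lit 0) xc108 xc109) (XT.nd (nat_lit 3198) (nat_lit 836) (nat_lit 0) xc110 xc111)))) (XT.nd (nat_lit 117780) (nat_lit 0) (nat_lit 0) (XT.nd (nat_lit 74178) (nat_lit 0) (nat_lit 0) (XT.nd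 (nat_lit 37050) (nat_lit 0) (nat_lit 0) (XT.nd (nat_lit 33852) (nat_lit 0) (nat_lit 1368) xc112 xc113) (XT.nd (nat_lit 3120) (nat_lit 228) (nat_lit 0) xc114 xc115)) (XT.nd (nat_lit 6318) (nat_lit 304) (nat_lit 0) (XT.nd (nat_lit 3120) (nat_lit 1368) (nat_lit 0) xc116 xc117) (XT.nd (nat_lit 34086) (nat_lit 0) (nat_lit 1824) xc118 xc119))) (XT.nd (nat_lit 43680) (nat_lit 0) (nat_lit 0) (XT.nd (nat_lit 37284) (nat_lit 0) (nat_lit 380) (XT.nd (nat_lit 3120) (nat_lit 304) (nat_lit 0) xc120 xc121) (XT.nd (nat_lit 3198) (nat_lit 1672) (nat_lit 0) xc122 xc123)) (XT.nd (nat_lit 37362) (nat_lit 0) (nat_lit 0) (XT.nd (nat_lit 3120) (nat_lit 0) (nat_lit 0) xc124 xc125) (XT.nd (nat_lit 3198) (nat_lit 456) (nat_lit 0) xc126 xc127))))))) (XT.nd (nat_lit 979056) (nat_lit 0) (nat_lit 228) (XT.nd (nat_lit 450372) (nat_lit 0) (nat_lit 76) (XT.nd (nat_lit 207870) (nat_lit 0) (nat_lit 76) (XT.nd (nat_lit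 87984) (nat_lit 0) (nat_lit 76) (XT.nd (nat_lit 43914) (nat_lit 0) (nat_lit 76) (XT.nd (nat_lit 6318) (nat_lit 456) (nat_lit 0) (XT.nd (nat_lit 3120) (nat_lit 1748) (nat_lit 0) xc128 xc129) (XT.nd (nat_lit 34398) (nat_lit 0) (nat_lit 2204) xc130 xc131)) (XT.nd (nat_lit 37674) (nat_lit 0) (nat_lit 228) (XT.nd (nat_lit 3120) (nat_lit 380) (nat_lit 0) xc132 xc133) (XT.nd (nat_lit 3198) (nat_lit 1748) (nat_lit 0) xc134 xc135))) (XT.nd (nat_lit 75582) (nat_lit 0) (nat_lit 0) (XT.nd (nat_lit 37752) (nat_lit 0) (nat_lit 0) (XT.nd (nat_lit 34554) (nat_lit 0) (nat_lit 1596) xc136 xc137) (XT.nd (nat_lit 3120) (nat_lit 228) (nat_lit 0) xc138 xc139)) (XT.nd (nat_lit 6318) (nat_lit 228) (nat_lit 0) (XT.nd (nat_lit 3120) (nat_lit 1216) (nat_lit 0) xc140 xc141) (XT.nd (nat_lit 34788) (nat_lit 0) (nat_lit 1216) xc142 xc143)))) (XT.nd (nat_lit 120822) (nat_lit 0) (nat_lit 0) (XT.nd (nat_lit 44382) (nat_lit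 0) (nat_lit 0) (XT.nd (nat_lit 38064) (nat_lit 0) (nat_lit 0) (XT.nd (nat_lit 3120) (nat_lit 152) (nat_lit 0) xc144 xc145) (XT.nd (nat_lit 3120) (nat_lit 912) (nat_lit 0) xc146 xc147)) (XT.nd (nat_lit 38142) (nat_lit 0) (nat_lit 0) (XT.nd (nat_lit 34944) (nat_lit 0) (nat_lit 684) xc148 xc149) (XT.nd (nat_lit 3198) (nat_lit 0) (nat_lit 0) xc150 xc151))) (XT.nd (nat_lit 44694) (nat_lit 0) (nat_lit 0) (XT.nd (nat_lit 38298) (nat_lit 0) (nat_lit 228) (XT.nd (nat_lit 3120) (nat_lit 456) (nat_lit 0) xc152 xc153) (XT.nd (nat_lit 3198) (nat_lit 1292) (nat_lit 0) xc154 xc155)) (XT.nd (nat_lit 38376) (nat_lit 0) (nat_lit 0) (XT.nd (nat_lit 35178) (nat_lit 0) (nat_lit 912) xc156 xc157) (XT.nd (nat_lit 3198) (nat_lit 76) (nat_lit 0) xc158 xc159))))) (XT.nd (nat_lit 245778) (nat_lit 0) (nat_lit 76) (XT.nd (nat_lit 122460) (nat_lit 0) (nat_lit 0) (XT.nd (nat_lit 44928) (nat_lit 0) (nat_lit 0) (XT.nd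 (nat_lit 38610) (nat_lit 0) (nat_lit 228) (XT.nd (nat_lit 3120) (nat_lit 532) (nat_lit 0) xc160 xc161) (XT.nd (nat_lit 3120) (nat_lit 1520) (nat_lit 0) xc162 xc163)) (XT.nd (nat_lit 38688) (nat_lit 0) (nat_lit 0) (XT.nd (nat_lit 35490) (nat_lit 0) (nat_lit 912) xc164 xc165) (XT.nd (nat_lit 3198) (nat_lit 76) (nat_lit 0) xc166 xc167))) (XT.nd (nat_lit 45162) (nat_lit 0) (nat_lit 0) (XT.nd (nat_lit 38844) (nat_lit 0) (nat_lit 152) (XT.nd (nat_lit 3120) (nat_lit 456) (nat_lit 0) xc168 xc169) (XT.nd (nat_lit 3120) (nat_lit 1140) (nat_lit 0) xc170 xc171)) (XT.nd (nat_lit 39000) (nat_lit 0) (nat_lit 0) (XT.nd (nat_lit 35802) (nat_lit 0) (nat_lit 532) xc172 xc173) (XT.nd (nat_lit 35958) (nat_lit 0) (nat_lit 1292) xc174 xc175)))) (XT.nd (nat_lit 124254) (nat_lit 0) (nat_lit 76) (XT.nd (nat_lit 78468) (nat_lit 0) (nat_lit 76) (XT.nd (nat_lit 39156) (nat_lit 0) (nat_lit 76) (XT.nd (nat_lit 3120)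 (nat_lit 152) (nat_lit 0) xc176 xc177) (XT.nd (nat_lit 3120) (nat_lit 380) (nat_lit 0) xc178 xc179)) (XT.nd (nat_lit 6318) (nat_lit 0) (nat_lit 0) (XT.nd (nat_lit 3120) (nat_lit 1064) (nat_lit 0) xc180 xc181) (XT.nd (nat_lit 36270) (nat_lit 0) (nat_lit 304) xc182 xc183))) (XT.nd (nat_lit 79092) (nat_lit 0) (nat_lit 0) (XT.nd (nat_lit 39468) (nat_lit 0) (nat_lit 0) (XT.nd (nat_lit 36270) (nat_lit 0) (nat_lit 608) xc184 xc185) (XT.nd (nat_lit 36426) (nat_lit 0) (nat_lit 1368) xc186 xc187)) (XT.nd (nat_lit 39702) (nat_lit 0) (nat_lit 0) (XT.nd (nat_lit 3120) (nat_lit 76) (nat_lit 0) xc188 xc189) (XT.nd (nat_lit 3198) (nat_lit 304) (nat_lit 0) xc190 xc191)))))) (XT.nd (nat_lit 652470) (nat_lit 0) (nat_lit 532) (XT.nd (nat_lit 287976) (nat_lit 0) (nat_lit 152) (XT.nd (nat_lit 126360) (nat_lit 0) (nat_lit 76) (XT.nd (nat_lit 79872) (nat_lit 0) (nat_lit 76) (XT.nd (nat_lit 39858) (nat_lit 0)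 (nat_lit 76) (XT.nd (nat_lit 3120) (nat_lit 608) (nat_lit 0) xc192 xc193) (XT.nd (nat_lit 3120) (nat_lit 988) (nat_lit 0) xc194 xc195)) (XT.nd (nat_lit 6318) (nat_lit 0) (nat_lit 0) (XT.nd (nat_lit 3120) (nat_lit 1520) (nat_lit 0) xc196 xc197) (XT.nd (nat_lit 36972) (nat_lit 0) (nat_lit 228) xc198 xc199))) (XT.nd (nat_lit 80574) (nat_lit 0) (nat_lit 0) (XT.nd (nat_lit 40248) (nat_lit 0) (nat_lit 0) (XT.nd (nat_lit 37050) (nat_lit 0) (nat_lit 304) xc200 xc201) (XT.nd (nat_lit 37128) (nat_lit 0) (nat_lit 456) xc202 xc203)) (XT.nd (nat_lit 40404) (nat_lit 0) (nat_lit 76) (XT.nd (nat_lit 37206) (nat_lit 0) (nat_lit 532) xc204 xc205) (XT.nd (nat_lit 37440) (nat_lit 0) (nat_lit 456) xc206 xc207)))) (XT.nd (nat_lit 163410) (nat_lit 0) (nat_lit 152) (XT.nd (nat_lit 81432) (nat_lit 0) (nat_lit 76) (XT.nd (nat_lit 40638) (nat_lit 0) (nat_lit 76) (XT.nd (nat_lit 37440) (nat_lit 0) (nat_lit 608)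 xc208 xc209) (XT.nd (nat_lit 37596) (nat_lit 0) (nat_lit 380) xc210 xc211)) (XT.nd (nat_lit 40872) (nat_lit 0) (nat_lit 76) (XT.nd (nat_lit 37674) (nat_lit 0) (nat_lit 380) xc212 xc213) (XT.nd (nat_lit 37908) (nat_lit 0) (nat_lit 152) xc214 xc215))) (XT.nd (nat_lit 117702) (nat_lit 0) (nat_lit 76) (XT.nd (nat_lit 76206) (nat_lit 0) (nat_lit 76) (XT.nd (nat_lit 37986) (nat_lit 0) (nat_lit 0) xc216 xc217) (XT.nd (nat_lit 3198) (nat_lit 1216) (nat_lit 0) xc218 xc219)) (XT.nd (nat_lit 41574) (nat_lit 0) (nat_lit 152) (XT.nd (nat_lit 3120) (nat_lit 760) (nat_lit 0) xc220 xc221) (XT.nd (nat_lit 3198) (nat_lit 76) (nat_lit 0) xc222 xc223))))) (XT.nd (nat_lit 448266) (nat_lit 0) (nat_lit 760) (XT.nd (nat_lit 204282) (nat_lit 0) (nat_lit 228) (XT.nd (nat_lit 119652) (nat_lit 0) (nat_lit 76) (XT.nd (nat_lit 41886) (nat_lit 0) (nat_lit 76) (XT.nd (nat_lit 38688) (nat_lit 0) (nat_lit 608) xc224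 xc225) (XT.nd (nat_lit 38766) (nat_lit 0) (nat_lit 0) xc226 xc227)) (XT.nd (nat_lit 42198) (nat_lit 0) (nat_lit 152) (XT.nd (nat_lit 3120) (nat_lit 988) (nat_lit 0) xc228 xc229) (XT.nd (nat_lit 39234) (nat_lit 0) (nat_lit 684) xc230 xc231))) (XT.nd (nat_lit 121368) (nat_lit 0) (nat_lit 304) (XT.nd (nat_lit 78702) (nat_lit 0) (nat_lit 76) (XT.nd (nat_lit 39234) (nat_lit 0) (nat_lit 76) xc232 xc233) (XT.nd (nat_lit 3120) (nat_lit 304) (nat_lit 0) xc234 xc235)) (XT.nd (nat_lit 79482) (nat_lit 0) (nat_lit 76) (XT.nd (nat_lit 39624) (nat_lit 0) (nat_lit 76) xc236 xc237) (XT.nd (nat_lit 39936) (nat_lit 0) (nat_lit 608) xc238 xc239)))) (XT.nd (nat_lit 324168) (nat_lit 0) (nat_lit 1140) (XT.nd (nat_lit 160992) (nat_lit 0) (nat_lit 456) (XT.nd (nat_lit 80262) (nat_lit 0) (nat_lit 152) (XT.nd (nat_lit 40014) (nat_lit 0) (nat_lit 152) xc240 xc241) (XT.nd (nat_lit 40248) (nat_lit 0) (nat_lit 152)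 xc242 xc243)) (XT.nd (nat_lit 81276) (nat_lit 0) (nat_lit 228) (XT.nd (nat_lit 40560) (nat_lit 0) (nat_lit 76) xc244 xc245) (XT.nd (nat_lit 40872) (nat_lit 0) (nat_lit 152) xc246 xc247))) (XT.nd (nat_lit 242658) (nat_lit 0) (nat_lit 1140) (XT.nd (nat_lit 120588) (nat_lit 0) (nat_lit 380) (XT.nd (nat_lit 41106) (nat_lit 0) (nat_lit 0) xc248 xc249) (XT.nd (nat_lit 41574) (nat_lit 0) (nat_lit 532) xc250 xc251)) (XT.nd (nat_lit 123318) (nat_lit 0) (nat_lit 912) (XT.nd (nat_lit 41964) (nat_lit 0) (nat_lit 304) xc252 xc253) (XT.nd (nat_lit 121524) (nat_lit 0) (nat_lit 1064) xc254 xc255)))))))) XT.nil))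

set_option maxRecDepth 10000000 in
noncomputable def Te : XT := XT.nil

set_option maxRecDepth 10000000 in
noncomputable def Tz : ZL := (ZL.cons (nat_lit 76) (nat_lit 3) (nat_lit 100509687784488651695) (ZL.cons (nat_lit 152) (nat_lit 6) (nat_lit 196620003249683696682) (ZL.cons (nat_lit 228) (nat_lit 6) (nat_lit 192455703777564765512) (ZL.cons (nat_lit 304) (nat_lit 3) (nat_lit 96116866166065466689) (ZL.cons (nat_lit 380) (nat_lit 6) (nat_lit 188083189331839887782) (ZL.cons (nat_lit 456) (nat_lit 6) (nat_lit 184158492003571771692) (ZL.cons (nat_lit 532) (nat_lit 3) (nat_lit 91973545313484061020) (ZL.cons (nat_lit 608) (nat_lit 6) (nat_lit 180037559808890249798) (ZL.cons (nat_lit 684) (nat_lit 6) (nat_lit 176345288470896561830) (ZL.cons (nat_lit 760) (nat_lit 3) (nat_lit 88071976913256066796) (ZL.cons (nat_lit 836) (nat_lit 6) (nat_lit 172468403566003189466) (ZL.cons (nat_lit 912) (nat_lit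 6) (nat_lit 169002157717219348504) (ZL.cons (nat_lit 988) (nat_lit 3) (nat_lit 84405205218426613186) (ZL.cons (nat_lit 1064) (nat_lit 6) (nat_lit 165362599575996315494) (ZL.cons (nat_lit 1140) (nat_lit 6) (nat_lit 162116761909954226092) (ZL.cons (nat_lit 1216) (nat_lit 3) (nat_lit 80967072726231340602) (ZL.cons (nat_lit 1292) (nat_lit 6) (nat_lit 159065169253807810334) (ZL.cons (nat_lit 1368) (nat_lit 6) (nat_lit 158708632360610032220) (ZL.cons (nat_lit 1444) (nat_lit 6) (nat_lit 155678380507362528902) (ZL.cons (nat_lit 1520) (nat_lit 3) (nat_lit 77752230035828147838) (ZL.cons (nat_lit 1596) (nat_lit 6) (nat_lit 152836175007355296240) (ZL.cons (nat_lit 1672) (nat_lit 6) (nat_lit 152496616061452650416) (ZL.cons (nat_lit 1748) (nat_lit 6) (nat_lit 149677938796641468720) (ZL.cons (nat_lit 1824) (nat_lit 3) (nat_lit 74756150143222528061) (ZL.cons (nat_lit 1900) (nat_lit 6) (nat_lit 147041717140877962052)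 (ZL.cons (nat_lit 1976) (nat_lit 6) (nat_lit 146718327668589727936) (ZL.cons (nat_lit 2052) (nat_lit 6) (nat_lit 144581674375934122070) (ZL.cons (nat_lit 2128) (nat_lit 6) (nat_lit 144108045892129867456) (ZL.cons (nat_lit 2204) (nat_lit 3) (nat_lit 71975147465019022969) (ZL.cons (nat_lit 2280) (nat_lit 6) (nat_lit 141675240000454855970) (ZL.cons (nat_lit 2356) (nat_lit 6) (nat_lit 141367250026847013954) (ZL.cons (nat_lit 2432) (nat_lit 6) (nat_lit 139414117598584514880) (ZL.cons (nat_lit 2508) (nat_lit 6) (nat_lit 138963042852104272392) (ZL.cons (nat_lit 2584) (nat_lit 3) (nat_lit 69406401920294125947) (ZL.cons (nat_lit 2660) (nat_lit 6) (nat_lit 137319295061752486226) (ZL.cons (nat_lit 2736) (nat_lit 6) (nat_lit 136731949103012814718) (ZL.cons (nat_lit 2812) (nat_lit 6) (nat_lit 136438625318624393748) (ZL.cons (nat_lit 2888) (nat_lit 6) (nat_lit 134668656651598613652) (ZL.cons (nat_lit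 2964) (nat_lit 6) (nat_lit 134239061654950763662) (ZL.cons (nat_lit 3040) (nat_lit 3) (nat_lit 67047988441039181595) (ZL.cons (nat_lit 3116) (nat_lit 6) (nat_lit 132768252896786873480) (ZL.cons (nat_lit 3192) (nat_lit 6) (nat_lit 132208875793225281564) (ZL.cons (nat_lit 3268) (nat_lit 6) (nat_lit 131929519808093452072) (ZL.cons (nat_lit 3344) (nat_lit 6) (nat_lit 131026213067732804344) (ZL.cons (nat_lit 3420) (nat_lit 6) (nat_lit 130343233957586696308) (ZL.cons (nat_lit 3496) (nat_lit 6) (nat_lit 129934095865541124890) (ZL.cons (nat_lit 3572) (nat_lit 3) (nat_lit 64898912326640847935) (ZL.cons (nat_lit 3648) (nat_lit 6) (nat_lit 128637694143664439834) (ZL.cons (nat_lit 3724) (nat_lit 6) (nat_lit 128104954045034352296) (ZL.cons (nat_lit 3800) (nat_lit 6) (nat_lit 127838900725861181350) (ZL.cons (nat_lit 3876) (nat_lit 6) (nat_lit 127088195542377744862) (ZL.cons (nat_lit 3952) (nat_lit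 6) (nat_lit 126437739247000499118) (ZL.cons (nat_lit 4028) (nat_lit 6) (nat_lit 126048083921242812052) (ZL.cons (nat_lit 4104) (nat_lit 3) (nat_lit 62959150907164535063) (ZL.cons (nat_lit 4180) (nat_lit 6) (nat_lit 125691048871342595454) (ZL.cons (nat_lit 4256) (nat_lit 6) (nat_lit 124928481912396627606) (ZL.cons (nat_lit 4332) (nat_lit 6) (nat_lit 124421110389891782334) (ZL.cons (nat_lit 4408) (nat_lit 6) (nat_lit 124167726276393524288) (ZL.cons (nat_lit 4484) (nat_lit 6) (nat_lit 123573588571378442832) (ZL.cons (nat_lit 4560) (nat_lit 6) (nat_lit 122954106385304875456) (ZL.cons (nat_lit 4636) (nat_lit 6) (nat_lit 122583006075059459204) (ZL.cons (nat_lit 4712) (nat_lit 3) (nat_lit 61229702034237471542) (ZL.cons (nat_lit 4788) (nat_lit 6) (nat_lit 122369833287419711020) (ZL.cons (nat_lit 4864) (nat_lit 6) (nat_lit 121643579040804503544) (ZL.cons (nat_lit 4940) (nat_lit 6) (nat_lit 121160368066990365188)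 (ZL.cons (nat_lit 5016) (nat_lit 6) (nat_lit 120919049863658690862) (ZL.cons (nat_lit 5092) (nat_lit 6) (nat_lit 121314349976511006620) (ZL.cons (nat_lit 5168) (nat_lit 6) (nat_lit 120486408053189475242) (ZL.cons (nat_lit 5244) (nat_lit 6) (nat_lit 119896425018833696786) (ZL.cons (nat_lit 5320) (nat_lit 6) (nat_lit 119542996151933300356) (ZL.cons (nat_lit 5396) (nat_lit 3) (nat_lit 59712639977593071075) (ZL.cons (nat_lit 5472) (nat_lit 6) (nat_lit 120404625583150166048) (ZL.cons (nat_lit 5548) (nat_lit 6) (nat_lit 119479838253441659524) (ZL.cons (nat_lit 5624) (nat_lit 6) (nat_lit 118788167542379557166) (ZL.cons (nat_lit 5700) (nat_lit 6) (nat_lit 118327966614937520636) (ZL.cons (nat_lit 5776) (nat_lit 6) (nat_lit 118098139754621640326) (ZL.cons (nat_lit 5852) (nat_lit 6) (nat_lit 119014131395104562392) (ZL.cons (nat_lit 5928) (nat_lit 6) (nat_lit 119638494096876806356) (ZL.cons (nat_lit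 6004) (nat_lit 6) (nat_lit 118621473046799752072) (ZL.cons (nat_lit 6080) (nat_lit 6) (nat_lit 117832956929350674568) (ZL.cons (nat_lit 6156) (nat_lit 6) (nat_lit 117271068325202314136) (ZL.cons (nat_lit 6232) (nat_lit 6) (nat_lit 116934469404344793726) (ZL.cons (nat_lit 6308) (nat_lit 3) (nat_lit 58411179370388035811) (ZL.cons (nat_lit 6384) (nat_lit 6) (nat_lit 116493286487343670884) (ZL.cons (nat_lit 6460) (nat_lit 6) (nat_lit 116634380242911250604) (ZL.cons (nat_lit 6536) (nat_lit 6) (nat_lit 116916903691559666186) (ZL.cons (nat_lit 6612) (nat_lit 6) (nat_lit 117341529508166651950) (ZL.cons (nat_lit 6688) (nat_lit 6) (nat_lit 117909268706581272150) (ZL.cons (nat_lit 6764) (nat_lit 6) (nat_lit 117028518868763646886) (ZL.cons (nat_lit 6840) (nat_lit 6) (nat_lit 116369784858228311308) (ZL.cons (nat_lit 6916) (nat_lit 6) (nat_lit 115931498260664466996) (ZL.cons (nat_lit 6992) (nat_lit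 6) (nat_lit 115712615536554104792) (ZL.cons (nat_lit 7068) (nat_lit 3) (nat_lit 57606606454472465742) (ZL.cons (nat_lit 7144) (nat_lit 6) (nat_lit 115285480442284423536) (ZL.cons (nat_lit 7220) (nat_lit 6) (nat_lit 115502455107858469910) (ZL.cons (nat_lit 7296) (nat_lit 6) (nat_lit 115864653512013675478) (ZL.cons (nat_lit 7372) (nat_lit 6) (nat_lit 116372938031902790728) (ZL.cons (nat_lit 7448) (nat_lit 6) (nat_lit 115621970300998907390) (ZL.cons (nat_lit 7524) (nat_lit 6) (nat_lit 115086838297048087932) (ZL.cons (nat_lit 7600) (nat_lit 6) (nat_lit 114766267896231401826) (ZL.cons (nat_lit 7676) (nat_lit 3) (nat_lit 57329747917844880863) (ZL.cons (nat_lit 7752) (nat_lit 6) (nat_lit 114135188970799426062) (ZL.cons (nat_lit 7828) (nat_lit 6) (nat_lit 114283337414145384768) (ZL.cons (nat_lit 7904) (nat_lit 6) (nat_lit 114579987035226221128) (ZL.cons (nat_lit 7980) (nat_lit 6) (nat_lit 115025844142663556182)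 (ZL.cons (nat_lit 8056) (nat_lit 6) (nat_lit 114398478418344188964) (ZL.cons (nat_lit 8132) (nat_lit 6) (nat_lit 113981062611140527712) (ZL.cons (nat_lit 8208) (nat_lit 6) (nat_lit 113772602873892563710) (ZL.cons (nat_lit 8284) (nat_lit 3) (nat_lit 56590383519619218380) (ZL.cons (nat_lit 8360) (nat_lit 6) (nat_lit 113256647949244903414) (ZL.cons (nat_lit 8436) (nat_lit 6) (nat_lit 113484471348097652106) (ZL.cons (nat_lit 8512) (nat_lit 6) (nat_lit 113864779672460617952) (ZL.cons (nat_lit 8588) (nat_lit 6) (nat_lit 113355130144888408940) (ZL.cons (nat_lit 8664) (nat_lit 6) (nat_lit 113049825001253469792) (ZL.cons (nat_lit 8740) (nat_lit 3) (nat_lit 56474068662273572945) (ZL.cons (nat_lit 8816) (nat_lit 6) (nat_lit 112419942214431072318) (ZL.cons (nat_lit 8892) (nat_lit 6) (nat_lit 112575498079944328958) (ZL.cons (nat_lit 8968) (nat_lit 6) (nat_lit 112886980182079207136) (ZL.cons (nat_lit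 9044) (nat_lit 6) (nat_lit 112489441318075720228) (ZL.cons (nat_lit 9120) (nat_lit 6) (nat_lit 112290908234982421180) (ZL.cons (nat_lit 9196) (nat_lit 3) (nat_lit 55885614026596214990) (ZL.cons (nat_lit 9272) (nat_lit 6) (nat_lit 111850903008699219966) (ZL.cons (nat_lit 9348) (nat_lit 6) (nat_lit 112090117577494606092) (ZL.cons (nat_lit 9424) (nat_lit 6) (nat_lit 111799350774032759284) (ZL.cons (nat_lit 9500) (nat_lit 3) (nat_lit 55851252683822892069) (ZL.cons (nat_lit 9576) (nat_lit 6) (nat_lit 111308960908002217728) (ZL.cons (nat_lit 9652) (nat_lit 6) (nat_lit 111472294566791137200) (ZL.cons (nat_lit 9728) (nat_lit 6) (nat_lit 111283215440035614294) (ZL.cons (nat_lit 9804) (nat_lit 3) (nat_lit 55474190719759164689) (ZL.cons (nat_lit 9880) (nat_lit 6) (nat_lit 111032040142800458864) (ZL.cons (nat_lit 9956) (nat_lit 3) (nat_lit 55469903211215955552) (ZL.cons (nat_lit 10032) (nat_lit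 6) (nat_lit 110768306080703545660) (ZL.cons (nat_lit 10108) (nat_lit 1) (nat_lit 18446744073709551617) ZL.nil)))))))))))))))))))))))))))))))))))))))))))))))))))))))))))))))))))))))))))))))))))))))))))))))))))))))))))))))))))))))))))))))))))))

noncomputable def vl : XL := ⟨(nat_lit 0), (nat_lit 76), (nat_lit 407067048), (nat_lit 152), (nat_lit 94125417), (nat_lit 152), (nat_lit 94125417), (nat_lit 1), (nat_lit 4), (nat_lit 2), (nat_lit 5), (nat_lit 2), (nat_lit 4), (nat_lit 0), (nat_lit 0), (nat_lit 0)⟩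

noncomputable def cp0 : Nat := (nat_lit 19926784484828216228024529110347348321712831224941312686901341588602802693678947316828045098438423859190123200785835052610355580275367761666368370639765969939961786438537386047917780281357271172785912571009830606993434221414916164003444950267588840490195911259461736747607455645897065780121950521524999552960052505816608196174891103382242097218461013589845947531111260482063743250649392255477403201228438886161070841572747229270775663831909818885630584502040715784244310565502942563998700758308076549457047628588754529785890210767575373685601604392983070030118485124672499765860436142086798175099855284503777889780031878100206247873927771387252814637496086287779152530207869583223653327499138448978358623333648790262352319954507158118002049109250174184159612172224905836908226612968202946394674757995066852625072363273901954503722938311639046105841149040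57777071238308613949673467659137003737204792754198693781201473202025433070670460600368116611664541348273495260487872106278162223878880100459523942314827339708193697651027279953670338683040982118829324887613887412463567110274512724961214814203431338486935846811396659648410339038297322400280047311276695182226749945451885452427048307251017568157489231906361554823142947539661906562186935844720896097090542583144753380125449367909027555659536964568772890898569012100123477021751819066006634968477470985490981657365929763844224609235903350787768170925960715050282283423972454852330604265645353512720371773433077016421134404758278057745755205902770729678486504065391157163033897893524127238287962767171659621392517039876815042084308172755476590178756251610736706593432846567269517451626002530261874107973547215011678162354095798513906947362022437619881778415412873363803753375747161096417523834746513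2776700080418556185380536758862585740302080837329963729548171102248960783656309639294205964635785456686357779666137206467307242248735992212680496265385831678603754519027665204528907017247613311147696750909349729947644065972503011090145828831752834211005264941618695989247950145479156867399401595864634176043205952931489660982490197753929317970894951292861804124810689627127581090942915947436479812073824008891649681222620312792720386231197848703450817176081720525415852475288636604434215087215514869609305527603681008681273749270979973192297395773351998384104539719045826245286415573654057345482566880661928598334786048218764796549964907915217529811454477797689564116554901823679846706073318927722288253019142550608418360373549288051648945249356504313824740892547680432352674077094864724813149023071560790889206218503059096236387044861391373536156452048466378300463354052320616047903832820620184628210407962540345715036381016675283347768915570898455577685809228820377894919140949548756058115582681855399579848560864182584635877282849439123222848426142629631112851698492770073009305982249540221623023819279114789160027579676255415719360728006937598771913832539523221926335616547857407874956046573778496364302942588497906970219950816111486818377423694503643767578522655936181948518063072053308350620849531227471872)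

noncomputable def cp1 : Nat := (nat_lit 23626442555123476865972391259190947917270398875691359201519828988386182298265878519979323435460008366529113496850165279671437227563378335185441932808212841258563088721470474379585398851242516866610159535910870224420177867455586981361457546828406564768469615572217531617515551793233607724500665630854278474607294816420091558949651140347716247239935539727239788663685840290327647022083171828494789418321338962574480951586865743497204890412161631189261208088242867411062836263978683132862649099344269228986102629150900552077093907209124282127284048774735895043536022720326082913790160430689524391550652066154462081704205237855675625958486854448556624781532601673770295807083246966523809783818543448741389380207850848733934442998373467821731466906780904133042924672091121368151187183038472000527666669148918247932933218145704908010127800881182903744977155804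02048418836314130571162830078790326863544218747768405028280322861058129175527922607240294125105545451908510129130514395377880323249621957910571414853359621733300635955374823162993518209756692614166060665997381927195864883373339298702787390475799310199088281111948973314172587029815405607074114481876829557553285059011592395916612916207959865944120982182995304685676984360748633427327054862104055447955886305019638180701913757865187553799175035039306413505773836277022200219553264477525718018303299122626242004842190390083354057054103817590652391252661945358539506108603730335374701423611802318812497092178358450274030289946647135731367103284354953194724141014500127763207835744343653634999077009526484891590267345151934389048267111665248423858606034199973734431481997706491829651331204498021476963429494445839524070545136288909752632295679685395736864530250872495119108296946714402102396255384709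2953611491882618755958441518463150161861764262580436971010368222491776165716049122648354041497417606643922461227382003717309485383245164462269176429792008470183273391957634187692723569647107346275434275415320223379505620985363835439420979593609172001840809119046709763023456041682467205108677697778791750005234320438517613444880279062708069133874017286204891475759488473294243219756215476188100043271328844238522298061448411195086089113281746451983200478605168695809472841400975406667332704901304121402376316046842819279763428333865020484732313335294823168079378074847127313423258332057407787343763649468327384017756858784994680656120553529007196418887013958468402334905513676591854992853200973532390450972380877493400091772852346177857141978519005637347643307655131342164076023445896074010762455208479338837186243379274886501244944648630676560118257204962310526181269943470357668415854781358753656566332290517334329396115056304085630098579225736252087490094004741170726862245357013160450835556136444095428525573522925445093741494459016125906839899343570265463923593397237321319613590047723243609944455725734204186634777398882865562015553883006439512481126516479336150250442331945829109954470774914175610147768716447538589444098649639543494275212050209063086960059795701923354281158452269584592348333803799838720)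

noncomputable def rc0 : Nat := (nat_lit 21074592761495297224452567949800992960216914082534676032389655597202093934393016177270159190897551684312899270183335849222130908753126689039023773425259056673177615252292524981667753762550008545392989492559338605014542170969322963109376679592300354969049110239599299482476526925139761750538649874430391028296392404966856169444109779996416088427750666773342783472609883419785898853177319854172650104113055756726343252934204176662990189088741457062024516559503140388766194792956167837139387928538496896795076319326718471563123504811701828101563049946181550284096509129135322045573538061264805223859197579297094262840547615485213212516597330075887636419164597012047930560132284680575145753008419206532693402129203005879307950092452830994918814055766632165036390381852790883056387542484157077094969667728361475714275164284519125348991408441473291334392613507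53868015005911503243779886452109189848073414469258647790908714726882165027242431912791436919970277751927269239491799914081265891582146001035114814450246752034469125955443183705821873210973737475406530053015690632320835380089102483439831615312432318355155694627236699386457495354345840126924791698121396064304625971941064527702065462127369629382516998388559829019592638928654229477653654487210468960924614503470744147907897052598035477108383057154455984904878207929031045155280454419706556580563564063939320154370882387640181997733385911267950292281571327190301052784506821708365475205661185818153905191068438183114833277503392884032319127181976001497461326036752981734340246257096353028472845502521719495416285899170248250380145920677678052577884380603985354634929792382590701561062522841122217466797320313953286013994821247367988427753798855738081531047674926548079156711826435197935615689876411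6192463613176391079083936799337053663877739047566288691117346489067731959956781236092488430897613339911993664859970567165668828173455132070828561677585052196670330603419677599169714417457063570885358754247639657868470849004863738042895722804528553403110026586217002736830223858167711468473887678206528977392097301109020928791818690562040385761574329456353475201506578661284104473858859045864015519626768505945830969431550237589612994666253837360474983053713794369390984481975387849902091815917572269912338362816670050519399886407236076026061153511653130867441307303344653121062414984587771762525023372679970711837352651431087857627875555186095655036845931695691070166238500125860527603623376506036223329118359951935801396194816805824940436851666295271917646475856711529637971897584636803573618922044033400181116560617667622580210285994740062137315900436795473503585209157268275923517095986133919731816860634572934619141018811029711361220039902231679207747288717758136955101737457445440778884951977343958184031754652639661037981683744447284311476697799337877720992334027161750030271666112833001750665894302131200227541305791073439541969350340060277087979114776325107220005167063667271255041662443442448281737921520364787235584078199971156951698596878249331429379949752033391742873492913425237819427228624747495424)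

noncomputable def rc1 : Nat := (nat_lit 23092655563739423085223586737904252138082933981117551096268472072381684069583956260397908532693597010516542214098235754488482629709981777574503978066882263087131010041703780325513641721856947841144888296830711423724058933822341329765477465450296722430738604675107510011100446327982851439782306545388113313654340099646798674262701721061610626991872788359109558794470310230760242752768349008071824149731282418643725918955652604068953706767470501947007316661489415130794533941434594259428099354314413149022423256813665552936257261264161275695270831673715471016852650273164748361680535532356340464650512003427224885513175846783702399028379078087487155883070264812842682655891514136273302929906600235357951428711642429959358683274400565076880021039259629057962636397544642606603628952462380845350898108915303650707529348497235026066793910901775565430099461170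30309124356094603360765922060232677121340316664485016550226852151891685916675729598841422978079951627541901113986509665654003677558727282254367972925920786898011135388447825375952625073004602182046174196135818122689915159746724804951991675036374295563658107203929957282311393666961504894041599272017230225545660747419551017557368286072767023804484062898925884135135834891188544016300714014326401322067507738241456385357676857484076802102245017388056860630079901591507360417756302011868742873400516089004592262999556266531875766737681958159008251947503600837944379368261144332593577790331528637269683779279052296768782607549568454323931910905019666036867004541096237991347396572575678276973633631368813209520029637291875035798345834195842812667405916550949667761677096458593391849078302000841326041852867960271154260509929775187580124084443791499324869505191026485829988490417641604882522759327783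6481093546851357876655636529653984366088681205776504145993203829810222272679034518840936964538071929314273290283508436176236247783657772052621072792190701633800265648685989944030236734532236209607131213220549319005092124330852797932109163523258547383654782429042667867199763869313795677480184288490828925249107423021837834011972575585949791502211080719312808638739653348167561962900767918802584231679924013591101982502341148241610542909388495880763182274924083097828923434421427958430812883865850592159780560996731698607049612230714565870672566340972731153406813660385211833660411538948381919186883973296801726428646646925898441431002146841296943908170028337282730121877055215911362782822677280872633594858911235419927569612885816802000065569310222053359340770252867168464631766238781611389390143557937893375300372412405741803583564086423092014593763609288104767959104776679158222226423830855497788065710268496609719339857002703154857993209317107357660757262167223175193078831332380233769726725972141629489316783840711210041737487190221520952776028513961581143970221173146368305505534218973572912061723043470261069774502563106614725016124787957183403923702262344278409879755312062616124084501449737497882084340155874244344957536521579653447382679771198119342227359694651392870332545885561563809805000589180928000)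

noncomputable def rc2 : Nat := (nat_lit 23626442555123476865972391259190947917270398875691359201519828988386182298265878519979323435460008366529113496850165279671437227563378335185441932808212841258563088721470474379585398851242516866610159535910870224420177867455586981361457546828406564768469615572217531617515551793233607724500665630854278474607294816420091558949651140347716247239935539727239788663685840290327647022083171828494789418321338962574480951586865743497204890412161631189261208088242867411062836263978683132862649099344269228986102629150900552077093907209124282127284048774735895043536022720326082913790160430689524391550652066154462081704205237855675625958486854448556624781532601673770295807083246966523809783818543448741389380207850848733934442998373467821731466906780904133042924672091121368151187183038472000527666669148918247932933218145704908010127800881182903744977155804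02048418836314130571162830078790326863544218747768405028280322861058129175527922607240294125105545451908510129130514395377880323249621957910571414853359621733300635955374823162993518209756692614166060665997381927195864883373339298702787390475799310199088281111948973314172587029815405607074114481876829557553285059011592395916612916207959865944120982182995304685676984360748633427327054862104055447955886305019638180701913757865187553799175035039306413505773836277022200219553264477525718018303299122626242004842190390083354057054103817590652391252661945358539506108603730335374701423611802318812497092178358450274030289946647135731367103284354953194724141014500127763207835744343653634999077009526484891590267345151934389048267111665248423858606034199973734431481997706491829651331204498021476963429494445839524070545136288909752632295679685395736864530250872495119108296946714402102396255384709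2953611491882618755958441518463150161861764262580436971010368222491776165716049122648354041497417606643922461227382003717309485383245164462269176429792008470183273391957634187692723569647107346275434275415320223379505620985363835439420979593609172001840809119046709763023456041682467205108677697778791750005234320438517613444880279062708069133874017286204891475759488473294243219756215476188100043271328844238522298061448411195086089113281746451983200478605168695809472841400975406667332704901304121402376316046842819279763428333865020484732313335294823168079378074847127313423258332057407787343763649468327384017756858784994680656120553529007196418887013958468402334905513676591854992853200973532390450972380877493400091772852346177857141978519005637347643307655131342164076023445896074010762455208479338837186243379274886501244944648630676560118257204962310526181269943470357668415854781358753656566332290517334329396115056304085630098579225736252087490094004741170726862245357013160450835556136444095428525573522925445093741494459016125906839899343570265463923593397237321319613590047723243609944455725734204186634777398882865562015553883006439512481126516479336150250442331945829109954470774914175610147768716447538589444098649639543494275212050209063086960059795701923354281158452269584592348333803799838720)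

end Vale.Agent.Lib.P154.PChain.BP.S4
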