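import Vale.Agent.Lib.P154.PChain.BP.R4_0

set_option linter.all false

namespace Vale.Agent.Lib.P154.PChain.BP.S5

open Vale.Agent.Lib.P154.Chain

noncomputable def pc0 : PT := (PT.nd (nat_lit 4034550) (PT.nd (nat_lit 3872076) (PT.nd (nat_lit 3750396) (PT.nd (nat_lit 3709758) (PT.nd (nat_lit 3709680) (PT.nd (nat_lit 3669120) PT.nil (PT.lf (nat_lit 76) (nat_lit 3) (nat_lit 1) (nat_lit 1) (nat_lit 150) (nat_lit 90) (nat_lit 150))) (PT.lf (nat_lit 152) (nat_lit 6) (nat_lit 2) (nat_lit 3) (nat_lit 149) (nat_lit 91) (nat_lit 150))) (PT.nd (nat_lit 40482) (PT.lf (nat_lit 152) (nat_lit 6) (nat_lit 2) (nat_lit 1) (nat_lit 150) (nat_lit 91) (nat_lit 149)) (PT.nd (nat_lit 78) (PT.lf (nat_lit 228) (nat_lit 6) (nat_lit 3) (nat_lit 3) (nat_lit 148) (nat_lit 92) (nat_lit 150)) (PT.lf (nat_lit 304) (nat_lit 3) (nat_lit 4) (nat_lit 1) (nat_lit 149) (nat_lit 92) (nat_lit 149))))) (PT.nd (nat_lit 81042) (PT.nd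 (nat_lit 40482) (PT.lf (nat_lit 228) (nat_lit 6) (nat_lit 3) (nat_lit 1) (nat_lit 150) (nat_lit 92) (nat_lit 148)) (PT.nd (nat_lit 78) (PT.lf (nat_lit 380) (nat_lit 6) (nat_lit 5) (nat_lit 3) (nat_lit 148) (nat_lit 93) (nat_lit 149)) (PT.lf (nat_lit 380) (nat_lit 6) (nat_lit 5) (nat_lit 1) (nat_lit 149) (nat_lit 93) (nat_lit 148)))) (PT.nd (nat_lit 78) (PT.lf (nat_lit 456) (nat_lit 6) (nat_lit 6) (nat_lit 3) (nat_lit 147) (nat_lit 94) (nat_lit 149)) (PT.nd (nat_lit 78) (PT.lf (nat_lit 532) (nat_lit 3) (nat_lit 7) (nat_lit 1) (nat_lit 148) (nat_lit 94) (nat_lit 148)) (PT.lf (nat_lit 456) (nat_lit 6) (nat_lit 6) (nat_lit 1) (nat_lit 149) (nat_lit 94) (nat_lit 147)))))) (PT.nd (nat_lit 81198) (PT.nd (nat_lit 40560) (PT.nd (nat_lit 78) (PT.lf (nat_lit 608) (nat_lit 6) (nat_lit 8) (nat_lit 3) (nat_lit 147) (nat_lit 95) (nat_lit 148)) (PT.lf (nat_lit 608) (nat_lit 6) (nat_lit 8) (nat_lit 1) (nat_lit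 148) (nat_lit 95) (nat_lit 147))) (PT.nd (nat_lit 78) (PT.lf (nat_lit 684) (nat_lit 6) (nat_lit 9) (nat_lit 3) (nat_lit 146) (nat_lit 96) (nat_lit 148)) (PT.nd (nat_lit 78) (PT.lf (nat_lit 760) (nat_lit 3) (nat_lit 10) (nat_lit 1) (nat_lit 147) (nat_lit 96) (nat_lit 147)) (PT.lf (nat_lit 684) (nat_lit 6) (nat_lit 9) (nat_lit 1) (nat_lit 148) (nat_lit 96) (nat_lit 146))))) (PT.nd (nat_lit 40638) (PT.nd (nat_lit 78) (PT.lf (nat_lit 836) (nat_lit 6) (nat_lit 11) (nat_lit 3) (nat_lit 146) (nat_lit 97) (nat_lit 147)) (PT.nd (nat_lit 40482) (PT.lf (nat_lit 836) (nat_lit 6) (nat_lit 11) (nat_lit 1) (nat_lit 147) (nat_lit 97) (nat_lit 146)) (PT.lf (nat_lit 912) (nat_lit 6) (nat_lit 12) (nat_lit 3) (nat_lit 145) (nat_lit 98) (nat_lit 147)))) (PT.nd (nat_lit 78) (PT.lf (nat_lit 988) (nat_lit 3) (nat_lit 13) (nat_lit 1) (nat_lit 146) (nat_lit 98) (nat_lit 146)) (PT.nd (nat_lit 40482) (PT.lf (nat_lit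 912) (nat_lit 6) (nat_lit 12) (nat_lit 1) (nat_lit 147) (nat_lit 98) (nat_lit 145)) (PT.lf (nat_lit 1064) (nat_lit 6) (nat_lit 14) (nat_lit 3) (nat_lit 145) (nat_lit 99) (nat_lit 146))))))) (PT.nd (nat_lit 162240) (PT.nd (nat_lit 81120) (PT.nd (nat_lit 40560) (PT.nd (nat_lit 40482) (PT.lf (nat_lit 1064) (nat_lit 6) (nat_lit 14) (nat_lit 1) (nat_lit 146) (nat_lit 99) (nat_lit 145)) (PT.lf (nat_lit 1140) (nat_lit 6) (nat_lit 15) (nat_lit 3) (nat_lit 144) (nat_lit 100) (nat_lit 146))) (PT.nd (nat_lit 78) (PT.lf (nat_lit 1216) (nat_lit 3) (nat_lit 16) (nat_lit 1) (nat_lit 145) (nat_lit 100) (nat_lit 145)) (PT.nd (nat_lit 40404) (PT.lf (nat_lit 1140) (nat_lit 6) (nat_lit 15) (nat_lit 1) (nat_lit 146) (nat_lit 100) (nat_lit 144)) (PT.lf (nat_lit 1292) (nat_lit 6) (nat_lit 17) (nat_lit 3) (nat_lit 143) (nat_lit 101) (nat_lit 146))))) (PT.nd (nat_lit 40560) (PT.nd (nat_lit 78) (PT.lf (nat_lit 1368)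 (nat_lit 6) (nat_lit 18) (nat_lit 3) (nat_lit 144) (nat_lit 101) (nat_lit 145)) (PT.nd (nat_lit 78) (PT.lf (nat_lit 1368) (nat_lit 6) (nat_lit 18) (nat_lit 1) (nat_lit 145) (nat_lit 101) (nat_lit 144)) (PT.lf (nat_lit 1292) (nat_lit 6) (nat_lit 17) (nat_lit 1) (nat_lit 146) (nat_lit 101) (nat_lit 143)))) (PT.nd (nat_lit 78) (PT.lf (nat_lit 1444) (nat_lit 6) (nat_lit 19) (nat_lit 3) (nat_lit 143) (nat_lit 102) (nat_lit 145)) (PT.nd (nat_lit 78) (PT.lf (nat_lit 1520) (nat_lit 3) (nat_lit 20) (nat_lit 1) (nat_lit 144) (nat_lit 102) (nat_lit 144)) (PT.lf (nat_lit 1444) (nat_lit 6) (nat_lit 19) (nat_lit 1) (nat_lit 145) (nat_lit 102) (nat_lit 143)))))) (PT.nd (nat_lit 40794) (PT.nd (nat_lit 234) (PT.nd (nat_lit 78) (PT.lf (nat_lit 1596) (nat_lit 6) (nat_lit 21) (nat_lit 3) (nat_lit 142) (nat_lit 103) (nat_lit 145)) (PT.nd (nat_lit 78) (PT.lf (nat_lit 1672) (nat_lit 6) (nat_lit 22) (nat_lit 3)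 (nat_lit 143) (nat_lit 103) (nat_lit 144)) (PT.lf (nat_lit 1672) (nat_lit 6) (nat_lit 22) (nat_lit 1) (nat_lit 144) (nat_lit 103) (nat_lit 143)))) (PT.nd (nat_lit 40404) (PT.lf (nat_lit 1596) (nat_lit 6) (nat_lit 21) (nat_lit 1) (nat_lit 145) (nat_lit 103) (nat_lit 142)) (PT.nd (nat_lit 78) (PT.lf (nat_lit 1748) (nat_lit 6) (nat_lit 23) (nat_lit 3) (nat_lit 142) (nat_lit 104) (nat_lit 144)) (PT.lf (nat_lit 1824) (nat_lit 3) (nat_lit 24) (nat_lit 1) (nat_lit 143) (nat_lit 104) (nat_lit 143))))) (PT.nd (nat_lit 40560) (PT.nd (nat_lit 40404) (PT.lf (nat_lit 1748) (nat_lit 6) (nat_lit 23) (nat_lit 1) (nat_lit 144) (nat_lit 104) (nat_lit 142)) (PT.nd (nat_lit 78) (PT.lf (nat_lit 1900) (nat_lit 6) (nat_lit 25) (nat_lit 3) (nat_lit 141) (nat_lit 105) (nat_lit 144)) (PT.lf (nat_lit 1976) (nat_lit 6) (nat_lit 26) (nat_lit 3) (nat_lit 142) (nat_lit 105) (nat_lit 143)))) (PT.nd (nat_lit 78) (PT.lf (nat_lit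 1976) (nat_lit 6) (nat_lit 26) (nat_lit 1) (nat_lit 143) (nat_lit 105) (nat_lit 142)) (PT.nd (nat_lit 40326) (PT.lf (nat_lit 1900) (nat_lit 6) (nat_lit 25) (nat_lit 1) (nat_lit 144) (nat_lit 105) (nat_lit 141)) (PT.lf (nat_lit 2052) (nat_lit 6) (nat_lit 27) (nat_lit 3) (nat_lit 140) (nat_lit 106) (nat_lit 144))))))))
noncomputable def pc1 : PT := (PT.nd (nat_lit 162552) (PT.nd (nat_lit 81354) (PT.nd (nat_lit 40638) (PT.nd (nat_lit 156) (PT.nd (nat_lit 78) (PT.lf (nat_lit 2128) (nat_lit 6) (nat_lit 28) (nat_lit 3) (nat_lit 141) (nat_lit 106) (nat_lit 143)) (PT.lf (nat_lit 2204) (nat_lit 3) (nat_lit 29) (nat_lit 1) (nat_lit 142) (nat_lit 106) (nat_lit 142))) (PT.nd (nat_lit 78) (PT.lf (nat_lit 2128) (nat_lit 6) (nat_lit 28) (nat_lit 1) (nat_lit 143) (nat_lit 106) (nat_lit 141)) (PT.nd (nat_lit 40326) (PT.lf (nat_lit 2052) (nat_lit 6) (nat_lit 27) (nat_lit 1) (nat_lit 144) (nat_lit 106) (nat_lit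 140)) (PT.lf (nat_lit 2280) (nat_lit 6) (nat_lit 30) (nat_lit 3) (nat_lit 140) (nat_lit 107) (nat_lit 143))))) (PT.nd (nat_lit 40482) (PT.nd (nat_lit 78) (PT.lf (nat_lit 2356) (nat_lit 6) (nat_lit 31) (nat_lit 3) (nat_lit 141) (nat_lit 107) (nat_lit 142)) (PT.nd (nat_lit 78) (PT.lf (nat_lit 2356) (nat_lit 6) (nat_lit 31) (nat_lit 1) (nat_lit 142) (nat_lit 107) (nat_lit 141)) (PT.lf (nat_lit 2280) (nat_lit 6) (nat_lit 30) (nat_lit 1) (nat_lit 143) (nat_lit 107) (nat_lit 140)))) (PT.nd (nat_lit 78) (PT.lf (nat_lit 2432) (nat_lit 6) (nat_lit 32) (nat_lit 3) (nat_lit 139) (nat_lit 108) (nat_lit 143)) (PT.nd (nat_lit 78) (PT.lf (nat_lit 2508) (nat_lit 6) (nat_lit 33) (nat_lit 3) (nat_lit 140) (nat_lit 108) (nat_lit 142)) (PT.lf (nat_lit 2584) (nat_lit 3) (nat_lit 34) (nat_lit 1) (nat_lit 141) (nat_lit 108) (nat_lit 141)))))) (PT.nd (nat_lit 40560) (PT.nd (nat_lit 40326) (PT.nd (nat_lit 78) (PT.lf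 (nat_lit 2508) (nat_lit 6) (nat_lit 33) (nat_lit 1) (nat_lit 142) (nat_lit 108) (nat_lit 140)) (PT.lf (nat_lit 2432) (nat_lit 6) (nat_lit 32) (nat_lit 1) (nat_lit 143) (nat_lit 108) (nat_lit 139))) (PT.nd (nat_lit 78) (PT.lf (nat_lit 2660) (nat_lit 6) (nat_lit 35) (nat_lit 3) (nat_lit 138) (nat_lit 109) (nat_lit 143)) (PT.nd (nat_lit 78) (PT.lf (nat_lit 2736) (nat_lit 6) (nat_lit 36) (nat_lit 3) (nat_lit 139) (nat_lit 109) (nat_lit 142)) (PT.lf (nat_lit 2812) (nat_lit 6) (nat_lit 37) (nat_lit 3) (nat_lit 140) (nat_lit 109) (nat_lit 141))))) (PT.nd (nat_lit 40404) (PT.nd (nat_lit 78) (PT.lf (nat_lit 2812) (nat_lit 6) (nat_lit 37) (nat_lit 1) (nat_lit 141) (nat_lit 109) (nat_lit 140)) (PT.nd (nat_lit 78) (PT.lf (nat_lit 2736) (nat_lit 6) (nat_lit 36) (nat_lit 1) (nat_lit 142) (nat_lit 109) (nat_lit 139)) (PT.lf (nat_lit 2660) (nat_lit 6) (nat_lit 35) (nat_lit 1) (nat_lit 143) (nat_lit 109)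 (nat_lit 138)))) (PT.nd (nat_lit 78) (PT.lf (nat_lit 2888) (nat_lit 6) (nat_lit 38) (nat_lit 3) (nat_lit 138) (nat_lit 110) (nat_lit 142)) (PT.nd (nat_lit 78) (PT.lf (nat_lit 2964) (nat_lit 6) (nat_lit 39) (nat_lit 3) (nat_lit 139) (nat_lit 110) (nat_lit 141)) (PT.lf (nat_lit 3040) (nat_lit 3) (nat_lit 40) (nat_lit 1) (nat_lit 140) (nat_lit 110) (nat_lit 140))))))) (PT.nd (nat_lit 81120) (PT.nd (nat_lit 40560) (PT.nd (nat_lit 40326) (PT.nd (nat_lit 78) (PT.lf (nat_lit 2964) (nat_lit 6) (nat_lit 39) (nat_lit 1) (nat_lit 141) (nat_lit 110) (nat_lit 139)) (PT.lf (nat_lit 2888) (nat_lit 6) (nat_lit 38) (nat_lit 1) (nat_lit 142) (nat_lit 110) (nat_lit 138))) (PT.nd (nat_lit 78) (PT.lf (nat_lit 3116) (nat_lit 6) (nat_lit 41) (nat_lit 3) (nat_lit 137) (nat_lit 111) (nat_lit 142)) (PT.nd (nat_lit 78) (PT.lf (nat_lit 3192) (nat_lit 6) (nat_lit 42) (nat_lit 3) (nat_lit 138) (nat_lit 111) (nat_lit 141))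 (PT.lf (nat_lit 3268) (nat_lit 6) (nat_lit 43) (nat_lit 3) (nat_lit 139) (nat_lit 111) (nat_lit 140))))) (PT.nd (nat_lit 40326) (PT.nd (nat_lit 78) (PT.lf (nat_lit 3268) (nat_lit 6) (nat_lit 43) (nat_lit 1) (nat_lit 140) (nat_lit 111) (nat_lit 139)) (PT.nd (nat_lit 78) (PT.lf (nat_lit 3192) (nat_lit 6) (nat_lit 42) (nat_lit 1) (nat_lit 141) (nat_lit 111) (nat_lit 138)) (PT.lf (nat_lit 3116) (nat_lit 6) (nat_lit 41) (nat_lit 1) (nat_lit 142) (nat_lit 111) (nat_lit 137)))) (PT.nd (nat_lit 78) (PT.lf (nat_lit 3344) (nat_lit 6) (nat_lit 44) (nat_lit 3) (nat_lit 136) (nat_lit 112) (nat_lit 142)) (PT.nd (nat_lit 78) (PT.lf (nat_lit 3420) (nat_lit 6) (nat_lit 45) (nat_lit 3) (nat_lit 137) (nat_lit 112) (nat_lit 141)) (PT.lf (nat_lit 3496) (nat_lit 6) (nat_lit 46) (nat_lit 3) (nat_lit 138) (nat_lit 112) (nat_lit 140)))))) (PT.nd (nat_lit 40560) (PT.nd (nat_lit 234) (PT.nd (nat_lit 78) (PT.lf (nat_lit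 3572) (nat_lit 3) (nat_lit 47) (nat_lit 1) (nat_lit 139) (nat_lit 112) (nat_lit 139)) (PT.nd (nat_lit 78) (PT.lf (nat_lit 3496) (nat_lit 6) (nat_lit 46) (nat_lit 1) (nat_lit 140) (nat_lit 112) (nat_lit 138)) (PT.lf (nat_lit 3420) (nat_lit 6) (nat_lit 45) (nat_lit 1) (nat_lit 141) (nat_lit 112) (nat_lit 137)))) (PT.nd (nat_lit 40170) (PT.lf (nat_lit 3344) (nat_lit 6) (nat_lit 44) (nat_lit 1) (nat_lit 142) (nat_lit 112) (nat_lit 136)) (PT.nd (nat_lit 78) (PT.lf (nat_lit 3648) (nat_lit 6) (nat_lit 48) (nat_lit 3) (nat_lit 136) (nat_lit 113) (nat_lit 141)) (PT.lf (nat_lit 3724) (nat_lit 6) (nat_lit 49) (nat_lit 3) (nat_lit 137) (nat_lit 113) (nat_lit 140))))) (PT.nd (nat_lit 234) (PT.nd (nat_lit 78) (PT.lf (nat_lit 3800) (nat_lit 6) (nat_lit 50) (nat_lit 3) (nat_lit 138) (nat_lit 113) (nat_lit 139)) (PT.nd (nat_lit 78) (PT.lf (nat_lit 3800) (nat_lit 6) (nat_lit 50) (nat_lit 1) (nat_lit 139) (nat_lit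 113) (nat_lit 138)) (PT.lf (nat_lit 3724) (nat_lit 6) (nat_lit 49) (nat_lit 1) (nat_lit 140) (nat_lit 113) (nat_lit 137)))) (PT.nd (nat_lit 40170) (PT.lf (nat_lit 3648) (nat_lit 6) (nat_lit 48) (nat_lit 1) (nat_lit 141) (nat_lit 113) (nat_lit 136)) (PT.nd (nat_lit 78) (PT.lf (nat_lit 3876) (nat_lit 6) (nat_lit 51) (nat_lit 3) (nat_lit 135) (nat_lit 114) (nat_lit 141)) (PT.lf (nat_lit 3952) (nat_lit 6) (nat_lit 52) (nat_lit 3) (nat_lit 136) (nat_lit 114) (nat_lit 140))))))))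
noncomputable def pc2 : PT := (PT.nd (nat_lit 121758) (PT.nd (nat_lit 40872) (PT.nd (nat_lit 40404) (PT.nd (nat_lit 156) (PT.nd (nat_lit 78) (PT.lf (nat_lit 4028) (nat_lit 6) (nat_lit 53) (nat_lit 3) (nat_lit 137) (nat_lit 114) (nat_lit 139)) (PT.lf (nat_lit 4104) (nat_lit 3) (nat_lit 54) (nat_lit 1) (nat_lit 138) (nat_lit 114) (nat_lit 138))) (PT.nd (nat_lit 78) (PT.lf (nat_lit 4028) (nat_lit 6) (nat_lit 53) (nat_lit 1) (nat_lit 139) (nat_lit 114) (nat_lit 137)) (PT.nd (nat_lit 78) (PT.lf (nat_lit 3952) (nat_lit 6) (nat_lit 52) (nat_lit 1) (nat_lit 140) (nat_lit 114) (nat_lit 136)) (PT.lf (nat_lit 3876) (nat_lit 6) (nat_lit 51) (nat_lit 1) (nat_lit 141) (nat_lit 114) (nat_lit 135))))) (PT.nd (nat_lit 234) (PT.nd (nat_lit 78) (PT.lf (nat_lit 4180) (nat_lit 6) (nat_lit 55) (nat_lit 3) (nat_lit 134) (nat_lit 115) (nat_lit 141)) (PT.nd (nat_lit 78) (PT.lf (nat_lit 4256) (nat_lit 6) (nat_lit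 56) (nat_lit 3) (nat_lit 135) (nat_lit 115) (nat_lit 140)) (PT.lf (nat_lit 4332) (nat_lit 6) (nat_lit 57) (nat_lit 3) (nat_lit 136) (nat_lit 115) (nat_lit 139)))) (PT.nd (nat_lit 78) (PT.lf (nat_lit 4408) (nat_lit 6) (nat_lit 58) (nat_lit 3) (nat_lit 137) (nat_lit 115) (nat_lit 138)) (PT.nd (nat_lit 78) (PT.lf (nat_lit 4408) (nat_lit 6) (nat_lit 58) (nat_lit 1) (nat_lit 138) (nat_lit 115) (nat_lit 137)) (PT.lf (nat_lit 4332) (nat_lit 6) (nat_lit 57) (nat_lit 1) (nat_lit 139) (nat_lit 115) (nat_lit 136)))))) (PT.nd (nat_lit 40404) (PT.nd (nat_lit 40170) (PT.nd (nat_lit 78) (PT.lf (nat_lit 4256) (nat_lit 6) (nat_lit 56) (nat_lit 1) (nat_lit 140) (nat_lit 115) (nat_lit 135)) (PT.lf (nat_lit 4180) (nat_lit 6) (nat_lit 55) (nat_lit 1) (nat_lit 141) (nat_lit 115) (nat_lit 134))) (PT.nd (nat_lit 78) (PT.lf (nat_lit 4484) (nat_lit 6) (nat_lit 59) (nat_lit 3) (nat_lit 134) (nat_lit 116) (nat_lit 140))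 (PT.nd (nat_lit 78) (PT.lf (nat_lit 4560) (nat_lit 6) (nat_lit 60) (nat_lit 3) (nat_lit 135) (nat_lit 116) (nat_lit 139)) (PT.lf (nat_lit 4636) (nat_lit 6) (nat_lit 61) (nat_lit 3) (nat_lit 136) (nat_lit 116) (nat_lit 138))))) (PT.nd (nat_lit 234) (PT.nd (nat_lit 78) (PT.lf (nat_lit 4712) (nat_lit 3) (nat_lit 62) (nat_lit 1) (nat_lit 137) (nat_lit 116) (nat_lit 137)) (PT.nd (nat_lit 78) (PT.lf (nat_lit 4636) (nat_lit 6) (nat_lit 61) (nat_lit 1) (nat_lit 138) (nat_lit 116) (nat_lit 136)) (PT.lf (nat_lit 4560) (nat_lit 6) (nat_lit 60) (nat_lit 1) (nat_lit 139) (nat_lit 116) (nat_lit 135)))) (PT.nd (nat_lit 40092) (PT.lf (nat_lit 4484) (nat_lit 6) (nat_lit 59) (nat_lit 1) (nat_lit 140) (nat_lit 116) (nat_lit 134)) (PT.nd (nat_lit 78) (PT.lf (nat_lit 4788) (nat_lit 6) (nat_lit 63) (nat_lit 3) (nat_lit 133) (nat_lit 117) (nat_lit 140)) (PT.lf (nat_lit 4864) (nat_lit 6) (nat_lit 64) (nat_lit 3)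 (nat_lit 134) (nat_lit 117) (nat_lit 139))))))) (PT.nd (nat_lit 40794) (PT.nd (nat_lit 390) (PT.nd (nat_lit 156) (PT.nd (nat_lit 78) (PT.lf (nat_lit 4940) (nat_lit 6) (nat_lit 65) (nat_lit 3) (nat_lit 135) (nat_lit 117) (nat_lit 138)) (PT.lf (nat_lit 5016) (nat_lit 6) (nat_lit 66) (nat_lit 3) (nat_lit 136) (nat_lit 117) (nat_lit 137))) (PT.nd (nat_lit 78) (PT.lf (nat_lit 5016) (nat_lit 6) (nat_lit 66) (nat_lit 1) (nat_lit 137) (nat_lit 117) (nat_lit 136)) (PT.nd (nat_lit 78) (PT.lf (nat_lit 4940) (nat_lit 6) (nat_lit 65) (nat_lit 1) (nat_lit 138) (nat_lit 117) (nat_lit 135)) (PT.lf (nat_lit 4864) (nat_lit 6) (nat_lit 64) (nat_lit 1) (nat_lit 139) (nat_lit 117) (nat_lit 134))))) (PT.nd (nat_lit 40170) (PT.nd (nat_lit 40014) (PT.lf (nat_lit 4788) (nat_lit 6) (nat_lit 63) (nat_lit 1) (nat_lit 140) (nat_lit 117) (nat_lit 133)) (PT.nd (nat_lit 78) (PT.lf (nat_lit 5092) (nat_lit 6) (nat_lit 67)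 (nat_lit 3) (nat_lit 132) (nat_lit 118) (nat_lit 140)) (PT.lf (nat_lit 5168) (nat_lit 6) (nat_lit 68) (nat_lit 3) (nat_lit 133) (nat_lit 118) (nat_lit 139)))) (PT.nd (nat_lit 78) (PT.lf (nat_lit 5244) (nat_lit 6) (nat_lit 69) (nat_lit 3) (nat_lit 134) (nat_lit 118) (nat_lit 138)) (PT.nd (nat_lit 78) (PT.lf (nat_lit 5320) (nat_lit 6) (nat_lit 70) (nat_lit 3) (nat_lit 135) (nat_lit 118) (nat_lit 137)) (PT.lf (nat_lit 5396) (nat_lit 3) (nat_lit 71) (nat_lit 1) (nat_lit 136) (nat_lit 118) (nat_lit 136)))))) (PT.nd (nat_lit 40326) (PT.nd (nat_lit 234) (PT.nd (nat_lit 78) (PT.lf (nat_lit 5320) (nat_lit 6) (nat_lit 70) (nat_lit 1) (nat_lit 137) (nat_lit 118) (nat_lit 135)) (PT.nd (nat_lit 78) (PT.lf (nat_lit 5244) (nat_lit 6) (nat_lit 69) (nat_lit 1) (nat_lit 138) (nat_lit 118) (nat_lit 134)) (PT.lf (nat_lit 5168) (nat_lit 6) (nat_lit 68) (nat_lit 1) (nat_lit 139) (nat_lit 118) (nat_lit 133))))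 (PT.nd (nat_lit 39936) (PT.lf (nat_lit 5092) (nat_lit 6) (nat_lit 67) (nat_lit 1) (nat_lit 140) (nat_lit 118) (nat_lit 132)) (PT.nd (nat_lit 78) (PT.lf (nat_lit 5472) (nat_lit 6) (nat_lit 72) (nat_lit 3) (nat_lit 131) (nat_lit 119) (nat_lit 140)) (PT.lf (nat_lit 5548) (nat_lit 6) (nat_lit 73) (nat_lit 3) (nat_lit 132) (nat_lit 119) (nat_lit 139))))) (PT.nd (nat_lit 234) (PT.nd (nat_lit 78) (PT.lf (nat_lit 5624) (nat_lit 6) (nat_lit 74) (nat_lit 3) (nat_lit 133) (nat_lit 119) (nat_lit 138)) (PT.nd (nat_lit 78) (PT.lf (nat_lit 5700) (nat_lit 6) (nat_lit 75) (nat_lit 3) (nat_lit 134) (nat_lit 119) (nat_lit 137)) (PT.lf (nat_lit 5776) (nat_lit 6) (nat_lit 76) (nat_lit 3) (nat_lit 135) (nat_lit 119) (nat_lit 136)))) (PT.nd (nat_lit 78) (PT.lf (nat_lit 5776) (nat_lit 6) (nat_lit 76) (nat_lit 1) (nat_lit 136) (nat_lit 119) (nat_lit 135)) (PT.nd (nat_lit 78) (PT.lf (nat_lit 5700) (nat_lit 6) (nat_lit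 75) (nat_lit 1) (nat_lit 137) (nat_lit 119) (nat_lit 134)) (PT.lf (nat_lit 5624) (nat_lit 6) (nat_lit 74) (nat_lit 1) (nat_lit 138) (nat_lit 119) (nat_lit 133))))))))
noncomputable def pc3 : PT := (PT.nd (nat_lit 81198) (PT.nd (nat_lit 40638) (PT.nd (nat_lit 40170) (PT.nd (nat_lit 39936) (PT.nd (nat_lit 78) (PT.lf (nat_lit 5548) (nat_lit 6) (nat_lit 73) (nat_lit 1) (nat_lit 139) (nat_lit 119) (nat_lit 132)) (PT.lf (nat_lit 5472) (nat_lit 6) (nat_lit 72) (nat_lit 1) (nat_lit 140) (nat_lit 119) (nat_lit 131))) (PT.nd (nat_lit 78) (PT.lf (nat_lit 5928) (nat_lit 6) (nat_lit 78) (nat_lit 3) (nat_lit 130) (nat_lit 120) (nat_lit 140)) (PT.nd (nat_lit 78) (PT.lf (nat_lit 6004) (nat_lit 6) (nat_lit 79) (nat_lit 3) (nat_lit 131) (nat_lit 120) (nat_lit 139)) (PT.lf (nat_lit 6080) (nat_lit 6) (nat_lit 80) (nat_lit 3) (nat_lit 132) (nat_lit 120) (nat_lit 138))))) (PT.nd (nat_lit 234) (PT.nd (nat_lit 78)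 (PT.lf (nat_lit 6156) (nat_lit 6) (nat_lit 81) (nat_lit 3) (nat_lit 133) (nat_lit 120) (nat_lit 137)) (PT.nd (nat_lit 78) (PT.lf (nat_lit 6232) (nat_lit 6) (nat_lit 82) (nat_lit 3) (nat_lit 134) (nat_lit 120) (nat_lit 136)) (PT.lf (nat_lit 6308) (nat_lit 3) (nat_lit 83) (nat_lit 1) (nat_lit 135) (nat_lit 120) (nat_lit 135)))) (PT.nd (nat_lit 78) (PT.lf (nat_lit 6232) (nat_lit 6) (nat_lit 82) (nat_lit 1) (nat_lit 136) (nat_lit 120) (nat_lit 134)) (PT.nd (nat_lit 78) (PT.lf (nat_lit 6156) (nat_lit 6) (nat_lit 81) (nat_lit 1) (nat_lit 137) (nat_lit 120) (nat_lit 133)) (PT.lf (nat_lit 6080) (nat_lit 6) (nat_lit 80) (nat_lit 1) (nat_lit 138) (nat_lit 120) (nat_lit 132)))))) (PT.nd (nat_lit 40092) (PT.nd (nat_lit 39858) (PT.nd (nat_lit 78) (PT.lf (nat_lit 6004) (nat_lit 6) (nat_lit 79) (nat_lit 1) (nat_lit 139) (nat_lit 120) (nat_lit 131)) (PT.lf (nat_lit 5928) (nat_lit 6) (nat_lit 78) (nat_lit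 1) (nat_lit 140) (nat_lit 120) (nat_lit 130))) (PT.nd (nat_lit 78) (PT.lf (nat_lit 5852) (nat_lit 6) (nat_lit 77) (nat_lit 3) (nat_lit 129) (nat_lit 121) (nat_lit 140)) (PT.nd (nat_lit 78) (PT.lf (nat_lit 6688) (nat_lit 6) (nat_lit 88) (nat_lit 3) (nat_lit 130) (nat_lit 121) (nat_lit 139)) (PT.lf (nat_lit 6764) (nat_lit 6) (nat_lit 89) (nat_lit 3) (nat_lit 131) (nat_lit 121) (nat_lit 138))))) (PT.nd (nat_lit 234) (PT.nd (nat_lit 78) (PT.lf (nat_lit 6840) (nat_lit 6) (nat_lit 90) (nat_lit 3) (nat_lit 132) (nat_lit 121) (nat_lit 137)) (PT.nd (nat_lit 78) (PT.lf (nat_lit 6916) (nat_lit 6) (nat_lit 91) (nat_lit 3) (nat_lit 133) (nat_lit 121) (nat_lit 136)) (PT.lf (nat_lit 6992) (nat_lit 6) (nat_lit 92) (nat_lit 3) (nat_lit 134) (nat_lit 121) (nat_lit 135)))) (PT.nd (nat_lit 78) (PT.lf (nat_lit 6992) (nat_lit 6) (nat_lit 92) (nat_lit 1) (nat_lit 135) (nat_lit 121) (nat_lit 134)) (PT.nd (nat_lit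 78) (PT.lf (nat_lit 6916) (nat_lit 6) (nat_lit 91) (nat_lit 1) (nat_lit 136) (nat_lit 121) (nat_lit 133)) (PT.lf (nat_lit 6840) (nat_lit 6) (nat_lit 90) (nat_lit 1) (nat_lit 137) (nat_lit 121) (nat_lit 132))))))) (PT.nd (nat_lit 40560) (PT.nd (nat_lit 40092) (PT.nd (nat_lit 156) (PT.nd (nat_lit 78) (PT.lf (nat_lit 6764) (nat_lit 6) (nat_lit 89) (nat_lit 1) (nat_lit 138) (nat_lit 121) (nat_lit 131)) (PT.lf (nat_lit 6688) (nat_lit 6) (nat_lit 88) (nat_lit 1) (nat_lit 139) (nat_lit 121) (nat_lit 130))) (PT.nd (nat_lit 39780) (PT.lf (nat_lit 5852) (nat_lit 6) (nat_lit 77) (nat_lit 1) (nat_lit 140) (nat_lit 121) (nat_lit 129)) (PT.nd (nat_lit 78) (PT.lf (nat_lit 6612) (nat_lit 6) (nat_lit 87) (nat_lit 3) (nat_lit 129) (nat_lit 122) (nat_lit 139)) (PT.lf (nat_lit 7372) (nat_lit 6) (nat_lit 97) (nat_lit 3) (nat_lit 130) (nat_lit 122) (nat_lit 138))))) (PT.nd (nat_lit 234) (PT.nd (nat_lit 78) (PT.lf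 (nat_lit 7448) (nat_lit 6) (nat_lit 98) (nat_lit 3) (nat_lit 131) (nat_lit 122) (nat_lit 137)) (PT.nd (nat_lit 78) (PT.lf (nat_lit 7524) (nat_lit 6) (nat_lit 99) (nat_lit 3) (nat_lit 132) (nat_lit 122) (nat_lit 136)) (PT.lf (nat_lit 7600) (nat_lit 6) (nat_lit 100) (nat_lit 3) (nat_lit 133) (nat_lit 122) (nat_lit 135)))) (PT.nd (nat_lit 78) (PT.lf (nat_lit 7676) (nat_lit 3) (nat_lit 101) (nat_lit 1) (nat_lit 134) (nat_lit 122) (nat_lit 134)) (PT.nd (nat_lit 78) (PT.lf (nat_lit 7600) (nat_lit 6) (nat_lit 100) (nat_lit 1) (nat_lit 135) (nat_lit 122) (nat_lit 133)) (PT.lf (nat_lit 7524) (nat_lit 6) (nat_lit 99) (nat_lit 1) (nat_lit 136) (nat_lit 122) (nat_lit 132)))))) (PT.nd (nat_lit 40170) (PT.nd (nat_lit 39936) (PT.nd (nat_lit 78) (PT.lf (nat_lit 7448) (nat_lit 6) (nat_lit 98) (nat_lit 1) (nat_lit 137) (nat_lit 122) (nat_lit 131)) (PT.nd (nat_lit 78) (PT.lf (nat_lit 7372) (nat_lit 6) (nat_lit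 97) (nat_lit 1) (nat_lit 138) (nat_lit 122) (nat_lit 130)) (PT.lf (nat_lit 6612) (nat_lit 6) (nat_lit 87) (nat_lit 1) (nat_lit 139) (nat_lit 122) (nat_lit 129)))) (PT.nd (nat_lit 78) (PT.lf (nat_lit 6536) (nat_lit 6) (nat_lit 86) (nat_lit 3) (nat_lit 128) (nat_lit 123) (nat_lit 139)) (PT.nd (nat_lit 78) (PT.lf (nat_lit 7296) (nat_lit 6) (nat_lit 96) (nat_lit 3) (nat_lit 129) (nat_lit 123) (nat_lit 138)) (PT.lf (nat_lit 7980) (nat_lit 6) (nat_lit 105) (nat_lit 3) (nat_lit 130) (nat_lit 123) (nat_lit 137))))) (PT.nd (nat_lit 234) (PT.nd (nat_lit 78) (PT.lf (nat_lit 8056) (nat_lit 6) (nat_lit 106) (nat_lit 3) (nat_lit 131) (nat_lit 123) (nat_lit 136)) (PT.nd (nat_lit 78) (PT.lf (nat_lit 8132) (nat_lit 6) (nat_lit 107) (nat_lit 3) (nat_lit 132) (nat_lit 123) (nat_lit 135)) (PT.lf (nat_lit 8208) (nat_lit 6) (nat_lit 108) (nat_lit 3) (nat_lit 133) (nat_lit 123) (nat_lit 134)))) (PT.nd (nat_lit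 78) (PT.lf (nat_lit 8208) (nat_lit 6) (nat_lit 108) (nat_lit 1) (nat_lit 134) (nat_lit 123) (nat_lit 133)) (PT.nd (nat_lit 78) (PT.lf (nat_lit 8132) (nat_lit 6) (nat_lit 107) (nat_lit 1) (nat_lit 135) (nat_lit 123) (nat_lit 132)) (PT.lf (nat_lit 8056) (nat_lit 6) (nat_lit 106) (nat_lit 1) (nat_lit 136) (nat_lit 123) (nat_lit 131))))))))
noncomputable def pc4 : PT := (PT.nd (nat_lit 80886) (PT.nd (nat_lit 40482) (PT.nd (nat_lit 40014) (PT.nd (nat_lit 156) (PT.nd (nat_lit 78) (PT.lf (nat_lit 7980) (nat_lit 6) (nat_lit 105) (nat_lit 1) (nat_lit 137) (nat_lit 123) (nat_lit 130)) (PT.lf (nat_lit 7296) (nat_lit 6) (nat_lit 96) (nat_lit 1) (nat_lit 138) (nat_lit 123) (nat_lit 129))) (PT.nd (nat_lit 39702) (PT.lf (nat_lit 6536) (nat_lit 6) (nat_lit 86) (nat_lit 1) (nat_lit 139) (nat_lit 123) (nat_lit 128)) (PT.nd (nat_lit 78) (PT.lf (nat_lit 6460) (nat_lit 6) (nat_lit 85) (nat_lit 3) (nat_lit 127)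 (nat_lit 124) (nat_lit 139)) (PT.lf (nat_lit 7220) (nat_lit 6) (nat_lit 95) (nat_lit 3) (nat_lit 128) (nat_lit 124) (nat_lit 138))))) (PT.nd (nat_lit 234) (PT.nd (nat_lit 78) (PT.lf (nat_lit 7904) (nat_lit 6) (nat_lit 104) (nat_lit 3) (nat_lit 129) (nat_lit 124) (nat_lit 137)) (PT.nd (nat_lit 78) (PT.lf (nat_lit 8512) (nat_lit 6) (nat_lit 112) (nat_lit 3) (nat_lit 130) (nat_lit 124) (nat_lit 136)) (PT.lf (nat_lit 8588) (nat_lit 6) (nat_lit 113) (nat_lit 3) (nat_lit 131) (nat_lit 124) (nat_lit 135)))) (PT.nd (nat_lit 78) (PT.lf (nat_lit 8664) (nat_lit 6) (nat_lit 114) (nat_lit 3) (nat_lit 132) (nat_lit 124) (nat_lit 134)) (PT.nd (nat_lit 78) (PT.lf (nat_lit 8740) (nat_lit 3) (nat_lit 115) (nat_lit 1) (nat_lit 133) (nat_lit 124) (nat_lit 133)) (PT.lf (nat_lit 8664) (nat_lit 6) (nat_lit 114) (nat_lit 1) (nat_lit 134) (nat_lit 124) (nat_lit 132)))))) (PT.nd (nat_lit 39936) (PT.nd (nat_lit 156)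 (PT.nd (nat_lit 78) (PT.lf (nat_lit 8588) (nat_lit 6) (nat_lit 113) (nat_lit 1) (nat_lit 135) (nat_lit 124) (nat_lit 131)) (PT.lf (nat_lit 8512) (nat_lit 6) (nat_lit 112) (nat_lit 1) (nat_lit 136) (nat_lit 124) (nat_lit 130))) (PT.nd (nat_lit 78) (PT.lf (nat_lit 7904) (nat_lit 6) (nat_lit 104) (nat_lit 1) (nat_lit 137) (nat_lit 124) (nat_lit 129)) (PT.nd (nat_lit 78) (PT.lf (nat_lit 7220) (nat_lit 6) (nat_lit 95) (nat_lit 1) (nat_lit 138) (nat_lit 124) (nat_lit 128)) (PT.lf (nat_lit 6460) (nat_lit 6) (nat_lit 85) (nat_lit 1) (nat_lit 139) (nat_lit 124) (nat_lit 127))))) (PT.nd (nat_lit 234) (PT.nd (nat_lit 78) (PT.lf (nat_lit 6384) (nat_lit 6) (nat_lit 84) (nat_lit 3) (nat_lit 126) (nat_lit 125) (nat_lit 139)) (PT.nd (nat_lit 78) (PT.lf (nat_lit 7144) (nat_lit 6) (nat_lit 94) (nat_lit 3) (nat_lit 127) (nat_lit 125) (nat_lit 138)) (PT.lf (nat_lit 7828) (nat_lit 6) (nat_lit 103) (nat_lit 3)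 (nat_lit 128) (nat_lit 125) (nat_lit 137)))) (PT.nd (nat_lit 78) (PT.lf (nat_lit 8436) (nat_lit 6) (nat_lit 111) (nat_lit 3) (nat_lit 129) (nat_lit 125) (nat_lit 136)) (PT.nd (nat_lit 78) (PT.lf (nat_lit 8968) (nat_lit 6) (nat_lit 118) (nat_lit 3) (nat_lit 130) (nat_lit 125) (nat_lit 135)) (PT.lf (nat_lit 9044) (nat_lit 6) (nat_lit 119) (nat_lit 3) (nat_lit 131) (nat_lit 125) (nat_lit 134))))))) (PT.nd (nat_lit 40326) (PT.nd (nat_lit 390) (PT.nd (nat_lit 156) (PT.nd (nat_lit 78) (PT.lf (nat_lit 9120) (nat_lit 6) (nat_lit 120) (nat_lit 3) (nat_lit 132) (nat_lit 125) (nat_lit 133)) (PT.lf (nat_lit 9120) (nat_lit 6) (nat_lit 120) (nat_lit 1) (nat_lit 133) (nat_lit 125) (nat_lit 132))) (PT.nd (nat_lit 78) (PT.lf (nat_lit 9044) (nat_lit 6) (nat_lit 119) (nat_lit 1) (nat_lit 134) (nat_lit 125) (nat_lit 131)) (PT.nd (nat_lit 78) (PT.lf (nat_lit 8968) (nat_lit 6) (nat_lit 118) (nat_lit 1) (nat_lit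 135) (nat_lit 125) (nat_lit 130)) (PT.lf (nat_lit 8436) (nat_lit 6) (nat_lit 111) (nat_lit 1) (nat_lit 136) (nat_lit 125) (nat_lit 129))))) (PT.nd (nat_lit 39702) (PT.nd (nat_lit 78) (PT.lf (nat_lit 7828) (nat_lit 6) (nat_lit 103) (nat_lit 1) (nat_lit 137) (nat_lit 125) (nat_lit 128)) (PT.nd (nat_lit 78) (PT.lf (nat_lit 7144) (nat_lit 6) (nat_lit 94) (nat_lit 1) (nat_lit 138) (nat_lit 125) (nat_lit 127)) (PT.lf (nat_lit 6384) (nat_lit 6) (nat_lit 84) (nat_lit 1) (nat_lit 139) (nat_lit 125) (nat_lit 126)))) (PT.nd (nat_lit 78) (PT.lf (nat_lit 6384) (nat_lit 6) (nat_lit 84) (nat_lit 5) (nat_lit 125) (nat_lit 126) (nat_lit 139)) (PT.nd (nat_lit 78) (PT.lf (nat_lit 7068) (nat_lit 3) (nat_lit 93) (nat_lit 3) (nat_lit 126) (nat_lit 126) (nat_lit 138)) (PT.lf (nat_lit 7752) (nat_lit 6) (nat_lit 102) (nat_lit 3) (nat_lit 127) (nat_lit 126) (nat_lit 137)))))) (PT.nd (nat_lit 468) (PT.nd (nat_lit 234)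 (PT.nd (nat_lit 78) (PT.lf (nat_lit 8360) (nat_lit 6) (nat_lit 110) (nat_lit 3) (nat_lit 128) (nat_lit 126) (nat_lit 136)) (PT.nd (nat_lit 78) (PT.lf (nat_lit 8892) (nat_lit 6) (nat_lit 117) (nat_lit 3) (nat_lit 129) (nat_lit 126) (nat_lit 135)) (PT.lf (nat_lit 9348) (nat_lit 6) (nat_lit 123) (nat_lit 3) (nat_lit 130) (nat_lit 126) (nat_lit 134)))) (PT.nd (nat_lit 78) (PT.lf (nat_lit 9424) (nat_lit 6) (nat_lit 124) (nat_lit 3) (nat_lit 131) (nat_lit 126) (nat_lit 133)) (PT.nd (nat_lit 78) (PT.lf (nat_lit 9500) (nat_lit 3) (nat_lit 125) (nat_lit 1) (nat_lit 132) (nat_lit 126) (nat_lit 132)) (PT.lf (nat_lit 9424) (nat_lit 6) (nat_lit 124) (nat_lit 1) (nat_lit 133) (nat_lit 126) (nat_lit 131))))) (PT.nd (nat_lit 234) (PT.nd (nat_lit 78) (PT.lf (nat_lit 9348) (nat_lit 6) (nat_lit 123) (nat_lit 1) (nat_lit 134) (nat_lit 126) (nat_lit 130)) (PT.nd (nat_lit 78) (PT.lf (nat_lit 8892) (nat_lit 6)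 (nat_lit 117) (nat_lit 1) (nat_lit 135) (nat_lit 126) (nat_lit 129)) (PT.lf (nat_lit 8360) (nat_lit 6) (nat_lit 110) (nat_lit 1) (nat_lit 136) (nat_lit 126) (nat_lit 128)))) (PT.nd (nat_lit 78) (PT.lf (nat_lit 7752) (nat_lit 6) (nat_lit 102) (nat_lit 1) (nat_lit 137) (nat_lit 126) (nat_lit 127)) (PT.nd (nat_lit 78) (PT.lf (nat_lit 7068) (nat_lit 3) (nat_lit 93) (nat_lit 0) (nat_lit 138) (nat_lit 126) (nat_lit 126)) (PT.lf (nat_lit 6384) (nat_lit 6) (nat_lit 84) (nat_lit 0) (nat_lit 139) (nat_lit 126) (nat_lit 125))))))))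
noncomputable def pc5 : PT := (PT.nd (nat_lit 41028) (PT.nd (nat_lit 858) (PT.nd (nat_lit 390) (PT.nd (nat_lit 156) (PT.nd (nat_lit 78) (PT.lf (nat_lit 6460) (nat_lit 6) (nat_lit 85) (nat_lit 5) (nat_lit 124) (nat_lit 127) (nat_lit 139)) (PT.lf (nat_lit 7144) (nat_lit 6) (nat_lit 94) (nat_lit 5) (nat_lit 125) (nat_lit 127) (nat_lit 138))) (PT.nd (nat_lit 78) (PT.lf (nat_lit 7752) (nat_lit 6) (nat_lit 102) (nat_lit 5) (nat_lit 126) (nat_lit 127) (nat_lit 137)) (PT.nd (nat_lit 78) (PT.lf (nat_lit 8284) (nat_lit 3) (nat_lit 109) (nat_lit 3) (nat_lit 127) (nat_lit 127) (nat_lit 136)) (PT.lf (nat_lit 8816) (nat_lit 6) (nat_lit 116) (nat_lit 3) (nat_lit 128) (nat_lit 127) (nat_lit 135))))) (PT.nd (nat_lit 234) (PT.nd (nat_lit 78) (PT.lf (nat_lit 9272) (nat_lit 6) (nat_lit 122) (nat_lit 3) (nat_lit 129) (nat_lit 127) (nat_lit 134)) (PT.nd (nat_lit 78) (PT.lf (nat_lit 9652) (nat_lit 6) (nat_lit 127)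 (nat_lit 3) (nat_lit 130) (nat_lit 127) (nat_lit 133)) (PT.lf (nat_lit 9728) (nat_lit 6) (nat_lit 128) (nat_lit 3) (nat_lit 131) (nat_lit 127) (nat_lit 132)))) (PT.nd (nat_lit 78) (PT.lf (nat_lit 9728) (nat_lit 6) (nat_lit 128) (nat_lit 1) (nat_lit 132) (nat_lit 127) (nat_lit 131)) (PT.nd (nat_lit 78) (PT.lf (nat_lit 9652) (nat_lit 6) (nat_lit 127) (nat_lit 1) (nat_lit 133) (nat_lit 127) (nat_lit 130)) (PT.lf (nat_lit 9272) (nat_lit 6) (nat_lit 122) (nat_lit 1) (nat_lit 134) (nat_lit 127) (nat_lit 129)))))) (PT.nd (nat_lit 39702) (PT.nd (nat_lit 156) (PT.nd (nat_lit 78) (PT.lf (nat_lit 8816) (nat_lit 6) (nat_lit 116) (nat_lit 1) (nat_lit 135) (nat_lit 127) (nat_lit 128)) (PT.lf (nat_lit 8284) (nat_lit 3) (nat_lit 109) (nat_lit 0) (nat_lit 136) (nat_lit 127) (nat_lit 127))) (PT.nd (nat_lit 78) (PT.lf (nat_lit 7752) (nat_lit 6) (nat_lit 102) (nat_lit 0) (nat_lit 137) (nat_lit 127) (nat_lit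 126)) (PT.nd (nat_lit 78) (PT.lf (nat_lit 7144) (nat_lit 6) (nat_lit 94) (nat_lit 0) (nat_lit 138) (nat_lit 127) (nat_lit 125)) (PT.lf (nat_lit 6460) (nat_lit 6) (nat_lit 85) (nat_lit 0) (nat_lit 139) (nat_lit 127) (nat_lit 124))))) (PT.nd (nat_lit 234) (PT.nd (nat_lit 78) (PT.lf (nat_lit 6536) (nat_lit 6) (nat_lit 86) (nat_lit 5) (nat_lit 123) (nat_lit 128) (nat_lit 139)) (PT.nd (nat_lit 78) (PT.lf (nat_lit 7220) (nat_lit 6) (nat_lit 95) (nat_lit 5) (nat_lit 124) (nat_lit 128) (nat_lit 138)) (PT.lf (nat_lit 7828) (nat_lit 6) (nat_lit 103) (nat_lit 5) (nat_lit 125) (nat_lit 128) (nat_lit 137)))) (PT.nd (nat_lit 78) (PT.lf (nat_lit 8360) (nat_lit 6) (nat_lit 110) (nat_lit 5) (nat_lit 126) (nat_lit 128) (nat_lit 136)) (PT.nd (nat_lit 78) (PT.lf (nat_lit 8816) (nat_lit 6) (nat_lit 116) (nat_lit 5) (nat_lit 127) (nat_lit 128) (nat_lit 135)) (PT.lf (nat_lit 9196) (nat_lit 3) (nat_lit 121) (nat_lit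 3) (nat_lit 128) (nat_lit 128) (nat_lit 134))))))) (PT.nd (nat_lit 40014) (PT.nd (nat_lit 390) (PT.nd (nat_lit 156) (PT.nd (nat_lit 78) (PT.lf (nat_lit 9576) (nat_lit 6) (nat_lit 126) (nat_lit 3) (nat_lit 129) (nat_lit 128) (nat_lit 133)) (PT.lf (nat_lit 9880) (nat_lit 6) (nat_lit 130) (nat_lit 3) (nat_lit 130) (nat_lit 128) (nat_lit 132))) (PT.nd (nat_lit 78) (PT.lf (nat_lit 9956) (nat_lit 3) (nat_lit 131) (nat_lit 1) (nat_lit 131) (nat_lit 128) (nat_lit 131)) (PT.nd (nat_lit 78) (PT.lf (nat_lit 9880) (nat_lit 6) (nat_lit 130) (nat_lit 1) (nat_lit 132) (nat_lit 128) (nat_lit 130)) (PT.lf (nat_lit 9576) (nat_lit 6) (nat_lit 126) (nat_lit 1) (nat_lit 133) (nat_lit 128) (nat_lit 129))))) (PT.nd (nat_lit 234) (PT.nd (nat_lit 78) (PT.lf (nat_lit 9196) (nat_lit 3) (nat_lit 121) (nat_lit 0) (nat_lit 134) (nat_lit 128) (nat_lit 128)) (PT.nd (nat_lit 78) (PT.lf (nat_lit 8816) (nat_lit 6) (nat_lit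 116) (nat_lit 0) (nat_lit 135) (nat_lit 128) (nat_lit 127)) (PT.lf (nat_lit 8360) (nat_lit 6) (nat_lit 110) (nat_lit 0) (nat_lit 136) (nat_lit 128) (nat_lit 126)))) (PT.nd (nat_lit 78) (PT.lf (nat_lit 7828) (nat_lit 6) (nat_lit 103) (nat_lit 0) (nat_lit 137) (nat_lit 128) (nat_lit 125)) (PT.nd (nat_lit 78) (PT.lf (nat_lit 7220) (nat_lit 6) (nat_lit 95) (nat_lit 0) (nat_lit 138) (nat_lit 128) (nat_lit 124)) (PT.lf (nat_lit 6536) (nat_lit 6) (nat_lit 86) (nat_lit 0) (nat_lit 139) (nat_lit 128) (nat_lit 123)))))) (PT.nd (nat_lit 468) (PT.nd (nat_lit 234) (PT.nd (nat_lit 78) (PT.lf (nat_lit 5852) (nat_lit 6) (nat_lit 77) (nat_lit 5) (nat_lit 121) (nat_lit 129) (nat_lit 140)) (PT.nd (nat_lit 78) (PT.lf (nat_lit 6612) (nat_lit 6) (nat_lit 87) (nat_lit 5) (nat_lit 122) (nat_lit 129) (nat_lit 139)) (PT.lf (nat_lit 7296) (nat_lit 6) (nat_lit 96) (nat_lit 5) (nat_lit 123) (nat_lit 129) (nat_lit 138))))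 (PT.nd (nat_lit 78) (PT.lf (nat_lit 7904) (nat_lit 6) (nat_lit 104) (nat_lit 5) (nat_lit 124) (nat_lit 129) (nat_lit 137)) (PT.nd (nat_lit 78) (PT.lf (nat_lit 8436) (nat_lit 6) (nat_lit 111) (nat_lit 5) (nat_lit 125) (nat_lit 129) (nat_lit 136)) (PT.lf (nat_lit 8892) (nat_lit 6) (nat_lit 117) (nat_lit 5) (nat_lit 126) (nat_lit 129) (nat_lit 135))))) (PT.nd (nat_lit 234) (PT.nd (nat_lit 78) (PT.lf (nat_lit 9272) (nat_lit 6) (nat_lit 122) (nat_lit 5) (nat_lit 127) (nat_lit 129) (nat_lit 134)) (PT.nd (nat_lit 78) (PT.lf (nat_lit 9576) (nat_lit 6) (nat_lit 126) (nat_lit 5) (nat_lit 128) (nat_lit 129) (nat_lit 133)) (PT.lf (nat_lit 9804) (nat_lit 3) (nat_lit 129) (nat_lit 3) (nat_lit 129) (nat_lit 129) (nat_lit 132)))) (PT.nd (nat_lit 78) (PT.lf (nat_lit 10032) (nat_lit 6) (nat_lit 132) (nat_lit 3) (nat_lit 130) (nat_lit 129) (nat_lit 131)) (PT.nd (nat_lit 78) (PT.lf (nat_lit 10032) (nat_lit 6)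 (nat_lit 132) (nat_lit 1) (nat_lit 131) (nat_lit 129) (nat_lit 130)) (PT.lf (nat_lit 9804) (nat_lit 3) (nat_lit 129) (nat_lit 0) (nat_lit 132) (nat_lit 129) (nat_lit 129))))))))
noncomputable def pc6 : PT := (PT.nd (nat_lit 40716) (PT.nd (nat_lit 39858) (PT.nd (nat_lit 390) (PT.nd (nat_lit 156) (PT.nd (nat_lit 78) (PT.lf (nat_lit 9576) (nat_lit 6) (nat_lit 126) (nat_lit 0) (nat_lit 133) (nat_lit 129) (nat_lit 128)) (PT.lf (nat_lit 9272) (nat_lit 6) (nat_lit 122) (nat_lit 0) (nat_lit 134) (nat_lit 129) (nat_lit 127))) (PT.nd (nat_lit 78) (PT.lf (nat_lit 8892) (nat_lit 6) (nat_lit 117) (nat_lit 0) (nat_lit 135) (nat_lit 129) (nat_lit 126)) (PT.nd (nat_lit 78) (PT.lf (nat_lit 8436) (nat_lit 6) (nat_lit 111) (nat_lit 0) (nat_lit 136) (nat_lit 129) (nat_lit 125)) (PT.lf (nat_lit 7904) (nat_lit 6) (nat_lit 104) (nat_lit 0) (nat_lit 137) (nat_lit 129) (nat_lit 124))))) (PT.nd (nat_lit 39234) (PT.nd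 (nat_lit 78) (PT.lf (nat_lit 7296) (nat_lit 6) (nat_lit 96) (nat_lit 0) (nat_lit 138) (nat_lit 129) (nat_lit 123)) (PT.nd (nat_lit 78) (PT.lf (nat_lit 6612) (nat_lit 6) (nat_lit 87) (nat_lit 0) (nat_lit 139) (nat_lit 129) (nat_lit 122)) (PT.lf (nat_lit 5852) (nat_lit 6) (nat_lit 77) (nat_lit 0) (nat_lit 140) (nat_lit 129) (nat_lit 121)))) (PT.nd (nat_lit 78) (PT.lf (nat_lit 5928) (nat_lit 6) (nat_lit 78) (nat_lit 5) (nat_lit 120) (nat_lit 130) (nat_lit 140)) (PT.nd (nat_lit 78) (PT.lf (nat_lit 6688) (nat_lit 6) (nat_lit 88) (nat_lit 5) (nat_lit 121) (nat_lit 130) (nat_lit 139)) (PT.lf (nat_lit 7372) (nat_lit 6) (nat_lit 97) (nat_lit 5) (nat_lit 122) (nat_lit 130) (nat_lit 138)))))) (PT.nd (nat_lit 390) (PT.nd (nat_lit 156) (PT.nd (nat_lit 78) (PT.lf (nat_lit 7980) (nat_lit 6) (nat_lit 105) (nat_lit 5) (nat_lit 123) (nat_lit 130) (nat_lit 137)) (PT.lf (nat_lit 8512) (nat_lit 6) (nat_lit 112)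 (nat_lit 5) (nat_lit 124) (nat_lit 130) (nat_lit 136))) (PT.nd (nat_lit 78) (PT.lf (nat_lit 8968) (nat_lit 6) (nat_lit 118) (nat_lit 5) (nat_lit 125) (nat_lit 130) (nat_lit 135)) (PT.nd (nat_lit 78) (PT.lf (nat_lit 9348) (nat_lit 6) (nat_lit 123) (nat_lit 5) (nat_lit 126) (nat_lit 130) (nat_lit 134)) (PT.lf (nat_lit 9652) (nat_lit 6) (nat_lit 127) (nat_lit 5) (nat_lit 127) (nat_lit 130) (nat_lit 133))))) (PT.nd (nat_lit 234) (PT.nd (nat_lit 78) (PT.lf (nat_lit 9880) (nat_lit 6) (nat_lit 130) (nat_lit 5) (nat_lit 128) (nat_lit 130) (nat_lit 132)) (PT.nd (nat_lit 78) (PT.lf (nat_lit 10032) (nat_lit 6) (nat_lit 132) (nat_lit 5) (nat_lit 129) (nat_lit 130) (nat_lit 131)) (PT.lf (nat_lit 10108) (nat_lit 1) (nat_lit 133) (nat_lit 0) (nat_lit 130) (nat_lit 130) (nat_lit 130)))) (PT.nd (nat_lit 78) (PT.lf (nat_lit 10032) (nat_lit 6) (nat_lit 132) (nat_lit 0) (nat_lit 131) (nat_lit 130) (nat_lit 129))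 (PT.nd (nat_lit 78) (PT.lf (nat_lit 9880) (nat_lit 6) (nat_lit 130) (nat_lit 0) (nat_lit 132) (nat_lit 130) (nat_lit 128)) (PT.lf (nat_lit 9652) (nat_lit 6) (nat_lit 127) (nat_lit 0) (nat_lit 133) (nat_lit 130) (nat_lit 127))))))) (PT.nd (nat_lit 39780) (PT.nd (nat_lit 390) (PT.nd (nat_lit 156) (PT.nd (nat_lit 78) (PT.lf (nat_lit 9348) (nat_lit 6) (nat_lit 123) (nat_lit 0) (nat_lit 134) (nat_lit 130) (nat_lit 126)) (PT.lf (nat_lit 8968) (nat_lit 6) (nat_lit 118) (nat_lit 0) (nat_lit 135) (nat_lit 130) (nat_lit 125))) (PT.nd (nat_lit 78) (PT.lf (nat_lit 8512) (nat_lit 6) (nat_lit 112) (nat_lit 0) (nat_lit 136) (nat_lit 130) (nat_lit 124)) (PT.nd (nat_lit 78) (PT.lf (nat_lit 7980) (nat_lit 6) (nat_lit 105) (nat_lit 0) (nat_lit 137) (nat_lit 130) (nat_lit 123)) (PT.lf (nat_lit 7372) (nat_lit 6) (nat_lit 97) (nat_lit 0) (nat_lit 138) (nat_lit 130) (nat_lit 122))))) (PT.nd (nat_lit 39156) (PT.nd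 (nat_lit 78) (PT.lf (nat_lit 6688) (nat_lit 6) (nat_lit 88) (nat_lit 0) (nat_lit 139) (nat_lit 130) (nat_lit 121)) (PT.nd (nat_lit 39000) (PT.lf (nat_lit 5928) (nat_lit 6) (nat_lit 78) (nat_lit 0) (nat_lit 140) (nat_lit 130) (nat_lit 120)) (PT.lf (nat_lit 5472) (nat_lit 6) (nat_lit 72) (nat_lit 5) (nat_lit 119) (nat_lit 131) (nat_lit 140)))) (PT.nd (nat_lit 78) (PT.lf (nat_lit 6004) (nat_lit 6) (nat_lit 79) (nat_lit 5) (nat_lit 120) (nat_lit 131) (nat_lit 139)) (PT.nd (nat_lit 78) (PT.lf (nat_lit 6764) (nat_lit 6) (nat_lit 89) (nat_lit 5) (nat_lit 121) (nat_lit 131) (nat_lit 138)) (PT.lf (nat_lit 7448) (nat_lit 6) (nat_lit 98) (nat_lit 5) (nat_lit 122) (nat_lit 131) (nat_lit 137)))))) (PT.nd (nat_lit 468) (PT.nd (nat_lit 234) (PT.nd (nat_lit 78) (PT.lf (nat_lit 8056) (nat_lit 6) (nat_lit 106) (nat_lit 5) (nat_lit 123) (nat_lit 131) (nat_lit 136)) (PT.nd (nat_lit 78) (PT.lf (nat_lit 8588)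 (nat_lit 6) (nat_lit 113) (nat_lit 5) (nat_lit 124) (nat_lit 131) (nat_lit 135)) (PT.lf (nat_lit 9044) (nat_lit 6) (nat_lit 119) (nat_lit 5) (nat_lit 125) (nat_lit 131) (nat_lit 134)))) (PT.nd (nat_lit 78) (PT.lf (nat_lit 9424) (nat_lit 6) (nat_lit 124) (nat_lit 5) (nat_lit 126) (nat_lit 131) (nat_lit 133)) (PT.nd (nat_lit 78) (PT.lf (nat_lit 9728) (nat_lit 6) (nat_lit 128) (nat_lit 5) (nat_lit 127) (nat_lit 131) (nat_lit 132)) (PT.lf (nat_lit 9956) (nat_lit 3) (nat_lit 131) (nat_lit 4) (nat_lit 128) (nat_lit 131) (nat_lit 131))))) (PT.nd (nat_lit 234) (PT.nd (nat_lit 78) (PT.lf (nat_lit 10032) (nat_lit 6) (nat_lit 132) (nat_lit 4) (nat_lit 129) (nat_lit 131) (nat_lit 130)) (PT.nd (nat_lit 78) (PT.lf (nat_lit 10032) (nat_lit 6) (nat_lit 132) (nat_lit 2) (nat_lit 130) (nat_lit 131) (nat_lit 129)) (PT.lf (nat_lit 9956) (nat_lit 3) (nat_lit 131) (nat_lit 0) (nat_lit 131) (nat_lit 131) (nat_lit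 128)))) (PT.nd (nat_lit 78) (PT.lf (nat_lit 9728) (nat_lit 6) (nat_lit 128) (nat_lit 0) (nat_lit 132) (nat_lit 131) (nat_lit 127)) (PT.nd (nat_lit 78) (PT.lf (nat_lit 9424) (nat_lit 6) (nat_lit 124) (nat_lit 0) (nat_lit 133) (nat_lit 131) (nat_lit 126)) (PT.lf (nat_lit 9044) (nat_lit 6) (nat_lit 119) (nat_lit 0) (nat_lit 134) (nat_lit 131) (nat_lit 125))))))))
noncomputable def pc7 : PT := (PT.nd (nat_lit 40560) (PT.nd (nat_lit 39702) (PT.nd (nat_lit 390) (PT.nd (nat_lit 156) (PT.nd (nat_lit 78) (PT.lf (nat_lit 8588) (nat_lit 6) (nat_lit 113) (nat_lit 0) (nat_lit 135) (nat_lit 131) (nat_lit 124)) (PT.lf (nat_lit 8056) (nat_lit 6) (nat_lit 106) (nat_lit 0) (nat_lit 136) (nat_lit 131) (nat_lit 123))) (PT.nd (nat_lit 78) (PT.lf (nat_lit 7448) (nat_lit 6) (nat_lit 98) (nat_lit 0) (nat_lit 137) (nat_lit 131) (nat_lit 122)) (PT.nd (nat_lit 78) (PT.lf (nat_lit 6764) (nat_lit 6) (nat_lit 89) (nat_lit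 0) (nat_lit 138) (nat_lit 131) (nat_lit 121)) (PT.lf (nat_lit 6004) (nat_lit 6) (nat_lit 79) (nat_lit 0) (nat_lit 139) (nat_lit 131) (nat_lit 120))))) (PT.nd (nat_lit 39078) (PT.nd (nat_lit 38922) (PT.lf (nat_lit 5472) (nat_lit 6) (nat_lit 72) (nat_lit 0) (nat_lit 140) (nat_lit 131) (nat_lit 119)) (PT.nd (nat_lit 78) (PT.lf (nat_lit 5092) (nat_lit 6) (nat_lit 67) (nat_lit 5) (nat_lit 118) (nat_lit 132) (nat_lit 140)) (PT.lf (nat_lit 5548) (nat_lit 6) (nat_lit 73) (nat_lit 5) (nat_lit 119) (nat_lit 132) (nat_lit 139)))) (PT.nd (nat_lit 78) (PT.lf (nat_lit 6080) (nat_lit 6) (nat_lit 80) (nat_lit 5) (nat_lit 120) (nat_lit 132) (nat_lit 138)) (PT.nd (nat_lit 78) (PT.lf (nat_lit 6840) (nat_lit 6) (nat_lit 90) (nat_lit 5) (nat_lit 121) (nat_lit 132) (nat_lit 137)) (PT.lf (nat_lit 7524) (nat_lit 6) (nat_lit 99) (nat_lit 5) (nat_lit 122) (nat_lit 132) (nat_lit 136)))))) (PT.nd (nat_lit 390) (PT.nd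 (nat_lit 156) (PT.nd (nat_lit 78) (PT.lf (nat_lit 8132) (nat_lit 6) (nat_lit 107) (nat_lit 5) (nat_lit 123) (nat_lit 132) (nat_lit 135)) (PT.lf (nat_lit 8664) (nat_lit 6) (nat_lit 114) (nat_lit 5) (nat_lit 124) (nat_lit 132) (nat_lit 134))) (PT.nd (nat_lit 78) (PT.lf (nat_lit 9120) (nat_lit 6) (nat_lit 120) (nat_lit 5) (nat_lit 125) (nat_lit 132) (nat_lit 133)) (PT.nd (nat_lit 78) (PT.lf (nat_lit 9500) (nat_lit 3) (nat_lit 125) (nat_lit 4) (nat_lit 126) (nat_lit 132) (nat_lit 132)) (PT.lf (nat_lit 9728) (nat_lit 6) (nat_lit 128) (nat_lit 4) (nat_lit 127) (nat_lit 132) (nat_lit 131))))) (PT.nd (nat_lit 234) (PT.nd (nat_lit 78) (PT.lf (nat_lit 9880) (nat_lit 6) (nat_lit 130) (nat_lit 4) (nat_lit 128) (nat_lit 132) (nat_lit 130)) (PT.nd (nat_lit 78) (PT.lf (nat_lit 9804) (nat_lit 3) (nat_lit 129) (nat_lit 2) (nat_lit 129) (nat_lit 132) (nat_lit 129)) (PT.lf (nat_lit 9880) (nat_lit 6) (nat_lit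 130) (nat_lit 2) (nat_lit 130) (nat_lit 132) (nat_lit 128)))) (PT.nd (nat_lit 78) (PT.lf (nat_lit 9728) (nat_lit 6) (nat_lit 128) (nat_lit 2) (nat_lit 131) (nat_lit 132) (nat_lit 127)) (PT.nd (nat_lit 78) (PT.lf (nat_lit 9500) (nat_lit 3) (nat_lit 125) (nat_lit 0) (nat_lit 132) (nat_lit 132) (nat_lit 126)) (PT.lf (nat_lit 9120) (nat_lit 6) (nat_lit 120) (nat_lit 0) (nat_lit 133) (nat_lit 132) (nat_lit 125))))))) (PT.nd (nat_lit 39624) (PT.nd (nat_lit 390) (PT.nd (nat_lit 156) (PT.nd (nat_lit 78) (PT.lf (nat_lit 8664) (nat_lit 6) (nat_lit 114) (nat_lit 0) (nat_lit 134) (nat_lit 132) (nat_lit 124)) (PT.lf (nat_lit 8132) (nat_lit 6) (nat_lit 107) (nat_lit 0) (nat_lit 135) (nat_lit 132) (nat_lit 123))) (PT.nd (nat_lit 78) (PT.lf (nat_lit 7524) (nat_lit 6) (nat_lit 99) (nat_lit 0) (nat_lit 136) (nat_lit 132) (nat_lit 122)) (PT.nd (nat_lit 78) (PT.lf (nat_lit 6840) (nat_lit 6) (nat_lit 90) (nat_lit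 0) (nat_lit 137) (nat_lit 132) (nat_lit 121)) (PT.lf (nat_lit 6080) (nat_lit 6) (nat_lit 80) (nat_lit 0) (nat_lit 138) (nat_lit 132) (nat_lit 120))))) (PT.nd (nat_lit 39000) (PT.nd (nat_lit 78) (PT.lf (nat_lit 5548) (nat_lit 6) (nat_lit 73) (nat_lit 0) (nat_lit 139) (nat_lit 132) (nat_lit 119)) (PT.nd (nat_lit 38844) (PT.lf (nat_lit 5092) (nat_lit 6) (nat_lit 67) (nat_lit 0) (nat_lit 140) (nat_lit 132) (nat_lit 118)) (PT.lf (nat_lit 4788) (nat_lit 6) (nat_lit 63) (nat_lit 5) (nat_lit 117) (nat_lit 133) (nat_lit 140)))) (PT.nd (nat_lit 78) (PT.lf (nat_lit 5168) (nat_lit 6) (nat_lit 68) (nat_lit 5) (nat_lit 118) (nat_lit 133) (nat_lit 139)) (PT.nd (nat_lit 78) (PT.lf (nat_lit 5624) (nat_lit 6) (nat_lit 74) (nat_lit 5) (nat_lit 119) (nat_lit 133) (nat_lit 138)) (PT.lf (nat_lit 6156) (nat_lit 6) (nat_lit 81) (nat_lit 5) (nat_lit 120) (nat_lit 133) (nat_lit 137)))))) (PT.nd (nat_lit 468) (PT.nd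 (nat_lit 234) (PT.nd (nat_lit 78) (PT.lf (nat_lit 6916) (nat_lit 6) (nat_lit 91) (nat_lit 5) (nat_lit 121) (nat_lit 133) (nat_lit 136)) (PT.nd (nat_lit 78) (PT.lf (nat_lit 7600) (nat_lit 6) (nat_lit 100) (nat_lit 5) (nat_lit 122) (nat_lit 133) (nat_lit 135)) (PT.lf (nat_lit 8208) (nat_lit 6) (nat_lit 108) (nat_lit 5) (nat_lit 123) (nat_lit 133) (nat_lit 134)))) (PT.nd (nat_lit 78) (PT.lf (nat_lit 8740) (nat_lit 3) (nat_lit 115) (nat_lit 4) (nat_lit 124) (nat_lit 133) (nat_lit 133)) (PT.nd (nat_lit 78) (PT.lf (nat_lit 9120) (nat_lit 6) (nat_lit 120) (nat_lit 4) (nat_lit 125) (nat_lit 133) (nat_lit 132)) (PT.lf (nat_lit 9424) (nat_lit 6) (nat_lit 124) (nat_lit 4) (nat_lit 126) (nat_lit 133) (nat_lit 131))))) (PT.nd (nat_lit 234) (PT.nd (nat_lit 78) (PT.lf (nat_lit 9652) (nat_lit 6) (nat_lit 127) (nat_lit 4) (nat_lit 127) (nat_lit 133) (nat_lit 130)) (PT.nd (nat_lit 78) (PT.lf (nat_lit 9576)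 (nat_lit 6) (nat_lit 126) (nat_lit 4) (nat_lit 128) (nat_lit 133) (nat_lit 129)) (PT.lf (nat_lit 9576) (nat_lit 6) (nat_lit 126) (nat_lit 2) (nat_lit 129) (nat_lit 133) (nat_lit 128)))) (PT.nd (nat_lit 78) (PT.lf (nat_lit 9652) (nat_lit 6) (nat_lit 127) (nat_lit 2) (nat_lit 130) (nat_lit 133) (nat_lit 127)) (PT.nd (nat_lit 78) (PT.lf (nat_lit 9424) (nat_lit 6) (nat_lit 124) (nat_lit 2) (nat_lit 131) (nat_lit 133) (nat_lit 126)) (PT.lf (nat_lit 9120) (nat_lit 6) (nat_lit 120) (nat_lit 2) (nat_lit 132) (nat_lit 133) (nat_lit 125))))))))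
noncomputable def pc8 : PT := (PT.nd (nat_lit 40326) (PT.nd (nat_lit 39468) (PT.nd (nat_lit 390) (PT.nd (nat_lit 156) (PT.nd (nat_lit 78) (PT.lf (nat_lit 8740) (nat_lit 3) (nat_lit 115) (nat_lit 0) (nat_lit 133) (nat_lit 133) (nat_lit 124)) (PT.lf (nat_lit 8208) (nat_lit 6) (nat_lit 108) (nat_lit 0) (nat_lit 134) (nat_lit 133) (nat_lit 123))) (PT.nd (nat_lit 78) (PT.lf (nat_lit 7600) (nat_lit 6) (nat_lit 100) (nat_lit 0) (nat_lit 135) (nat_lit 133) (nat_lit 122)) (PT.nd (nat_lit 78) (PT.lf (nat_lit 6916) (nat_lit 6) (nat_lit 91) (nat_lit 0) (nat_lit 136) (nat_lit 133) (nat_lit 121)) (PT.lf (nat_lit 6156) (nat_lit 6) (nat_lit 81) (nat_lit 0) (nat_lit 137) (nat_lit 133) (nat_lit 120))))) (PT.nd (nat_lit 38844) (PT.nd (nat_lit 78) (PT.lf (nat_lit 5624) (nat_lit 6) (nat_lit 74) (nat_lit 0) (nat_lit 138) (nat_lit 133) (nat_lit 119)) (PT.nd (nat_lit 78) (PT.lf (nat_lit 5168) (nat_lit 6) (nat_lit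 68) (nat_lit 0) (nat_lit 139) (nat_lit 133) (nat_lit 118)) (PT.lf (nat_lit 4788) (nat_lit 6) (nat_lit 63) (nat_lit 0) (nat_lit 140) (nat_lit 133) (nat_lit 117)))) (PT.nd (nat_lit 78) (PT.lf (nat_lit 4180) (nat_lit 6) (nat_lit 55) (nat_lit 5) (nat_lit 115) (nat_lit 134) (nat_lit 141)) (PT.nd (nat_lit 78) (PT.lf (nat_lit 4484) (nat_lit 6) (nat_lit 59) (nat_lit 5) (nat_lit 116) (nat_lit 134) (nat_lit 140)) (PT.lf (nat_lit 4864) (nat_lit 6) (nat_lit 64) (nat_lit 5) (nat_lit 117) (nat_lit 134) (nat_lit 139)))))) (PT.nd (nat_lit 390) (PT.nd (nat_lit 156) (PT.nd (nat_lit 78) (PT.lf (nat_lit 5244) (nat_lit 6) (nat_lit 69) (nat_lit 5) (nat_lit 118) (nat_lit 134) (nat_lit 138)) (PT.lf (nat_lit 5700) (nat_lit 6) (nat_lit 75) (nat_lit 5) (nat_lit 119) (nat_lit 134) (nat_lit 137))) (PT.nd (nat_lit 78) (PT.lf (nat_lit 6232) (nat_lit 6) (nat_lit 82) (nat_lit 5) (nat_lit 120) (nat_lit 134) (nat_lit 136))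 (PT.nd (nat_lit 78) (PT.lf (nat_lit 6992) (nat_lit 6) (nat_lit 92) (nat_lit 5) (nat_lit 121) (nat_lit 134) (nat_lit 135)) (PT.lf (nat_lit 7676) (nat_lit 3) (nat_lit 101) (nat_lit 4) (nat_lit 122) (nat_lit 134) (nat_lit 134))))) (PT.nd (nat_lit 234) (PT.nd (nat_lit 78) (PT.lf (nat_lit 8208) (nat_lit 6) (nat_lit 108) (nat_lit 4) (nat_lit 123) (nat_lit 134) (nat_lit 133)) (PT.nd (nat_lit 78) (PT.lf (nat_lit 8664) (nat_lit 6) (nat_lit 114) (nat_lit 4) (nat_lit 124) (nat_lit 134) (nat_lit 132)) (PT.lf (nat_lit 9044) (nat_lit 6) (nat_lit 119) (nat_lit 4) (nat_lit 125) (nat_lit 134) (nat_lit 131)))) (PT.nd (nat_lit 78) (PT.lf (nat_lit 9348) (nat_lit 6) (nat_lit 123) (nat_lit 4) (nat_lit 126) (nat_lit 134) (nat_lit 130)) (PT.nd (nat_lit 78) (PT.lf (nat_lit 9272) (nat_lit 6) (nat_lit 122) (nat_lit 4) (nat_lit 127) (nat_lit 134) (nat_lit 129)) (PT.lf (nat_lit 9196) (nat_lit 3) (nat_lit 121) (nat_lit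 2) (nat_lit 128) (nat_lit 134) (nat_lit 128))))))) (PT.nd (nat_lit 858) (PT.nd (nat_lit 390) (PT.nd (nat_lit 156) (PT.nd (nat_lit 78) (PT.lf (nat_lit 9272) (nat_lit 6) (nat_lit 122) (nat_lit 2) (nat_lit 129) (nat_lit 134) (nat_lit 127)) (PT.lf (nat_lit 9348) (nat_lit 6) (nat_lit 123) (nat_lit 2) (nat_lit 130) (nat_lit 134) (nat_lit 126))) (PT.nd (nat_lit 78) (PT.lf (nat_lit 9044) (nat_lit 6) (nat_lit 119) (nat_lit 2) (nat_lit 131) (nat_lit 134) (nat_lit 125)) (PT.nd (nat_lit 78) (PT.lf (nat_lit 8664) (nat_lit 6) (nat_lit 114) (nat_lit 2) (nat_lit 132) (nat_lit 134) (nat_lit 124)) (PT.lf (nat_lit 8208) (nat_lit 6) (nat_lit 108) (nat_lit 2) (nat_lit 133) (nat_lit 134) (nat_lit 123))))) (PT.nd (nat_lit 234) (PT.nd (nat_lit 78) (PT.lf (nat_lit 7676) (nat_lit 3) (nat_lit 101) (nat_lit 0) (nat_lit 134) (nat_lit 134) (nat_lit 122)) (PT.nd (nat_lit 78) (PT.lf (nat_lit 6992) (nat_lit 6) (nat_lit 92)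 (nat_lit 0) (nat_lit 135) (nat_lit 134) (nat_lit 121)) (PT.lf (nat_lit 6232) (nat_lit 6) (nat_lit 82) (nat_lit 0) (nat_lit 136) (nat_lit 134) (nat_lit 120)))) (PT.nd (nat_lit 78) (PT.lf (nat_lit 5700) (nat_lit 6) (nat_lit 75) (nat_lit 0) (nat_lit 137) (nat_lit 134) (nat_lit 119)) (PT.nd (nat_lit 78) (PT.lf (nat_lit 5244) (nat_lit 6) (nat_lit 69) (nat_lit 0) (nat_lit 138) (nat_lit 134) (nat_lit 118)) (PT.lf (nat_lit 4864) (nat_lit 6) (nat_lit 64) (nat_lit 0) (nat_lit 139) (nat_lit 134) (nat_lit 117)))))) (PT.nd (nat_lit 38922) (PT.nd (nat_lit 38688) (PT.nd (nat_lit 78) (PT.lf (nat_lit 4484) (nat_lit 6) (nat_lit 59) (nat_lit 0) (nat_lit 140) (nat_lit 134) (nat_lit 116)) (PT.nd (nat_lit 38532) (PT.lf (nat_lit 4180) (nat_lit 6) (nat_lit 55) (nat_lit 0) (nat_lit 141) (nat_lit 134) (nat_lit 115)) (PT.lf (nat_lit 3876) (nat_lit 6) (nat_lit 51) (nat_lit 5) (nat_lit 114) (nat_lit 135) (nat_lit 141))))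 (PT.nd (nat_lit 78) (PT.lf (nat_lit 4256) (nat_lit 6) (nat_lit 56) (nat_lit 5) (nat_lit 115) (nat_lit 135) (nat_lit 140)) (PT.nd (nat_lit 78) (PT.lf (nat_lit 4560) (nat_lit 6) (nat_lit 60) (nat_lit 5) (nat_lit 116) (nat_lit 135) (nat_lit 139)) (PT.lf (nat_lit 4940) (nat_lit 6) (nat_lit 65) (nat_lit 5) (nat_lit 117) (nat_lit 135) (nat_lit 138))))) (PT.nd (nat_lit 234) (PT.nd (nat_lit 78) (PT.lf (nat_lit 5320) (nat_lit 6) (nat_lit 70) (nat_lit 5) (nat_lit 118) (nat_lit 135) (nat_lit 137)) (PT.nd (nat_lit 78) (PT.lf (nat_lit 5776) (nat_lit 6) (nat_lit 76) (nat_lit 5) (nat_lit 119) (nat_lit 135) (nat_lit 136)) (PT.lf (nat_lit 6308) (nat_lit 3) (nat_lit 83) (nat_lit 4) (nat_lit 120) (nat_lit 135) (nat_lit 135)))) (PT.nd (nat_lit 78) (PT.lf (nat_lit 6992) (nat_lit 6) (nat_lit 92) (nat_lit 4) (nat_lit 121) (nat_lit 135) (nat_lit 134)) (PT.nd (nat_lit 78) (PT.lf (nat_lit 7600) (nat_lit 6) (nat_lit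 100) (nat_lit 4) (nat_lit 122) (nat_lit 135) (nat_lit 133)) (PT.lf (nat_lit 8132) (nat_lit 6) (nat_lit 107) (nat_lit 4) (nat_lit 123) (nat_lit 135) (nat_lit 132))))))))
noncomputable def pc9 : PT := (PT.nd (nat_lit 40014) (PT.nd (nat_lit 858) (PT.nd (nat_lit 390) (PT.nd (nat_lit 156) (PT.nd (nat_lit 78) (PT.lf (nat_lit 8588) (nat_lit 6) (nat_lit 113) (nat_lit 4) (nat_lit 124) (nat_lit 135) (nat_lit 131)) (PT.lf (nat_lit 8968) (nat_lit 6) (nat_lit 118) (nat_lit 4) (nat_lit 125) (nat_lit 135) (nat_lit 130))) (PT.nd (nat_lit 78) (PT.lf (nat_lit 8892) (nat_lit 6) (nat_lit 117) (nat_lit 4) (nat_lit 126) (nat_lit 135) (nat_lit 129)) (PT.nd (nat_lit 78) (PT.lf (nat_lit 8816) (nat_lit 6) (nat_lit 116) (nat_lit 4) (nat_lit 127) (nat_lit 135) (nat_lit 128)) (PT.lf (nat_lit 8816) (nat_lit 6) (nat_lit 116) (nat_lit 2) (nat_lit 128) (nat_lit 135) (nat_lit 127))))) (PT.nd (nat_lit 234) (PT.nd (nat_lit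 78) (PT.lf (nat_lit 8892) (nat_lit 6) (nat_lit 117) (nat_lit 2) (nat_lit 129) (nat_lit 135) (nat_lit 126)) (PT.nd (nat_lit 78) (PT.lf (nat_lit 8968) (nat_lit 6) (nat_lit 118) (nat_lit 2) (nat_lit 130) (nat_lit 135) (nat_lit 125)) (PT.lf (nat_lit 8588) (nat_lit 6) (nat_lit 113) (nat_lit 2) (nat_lit 131) (nat_lit 135) (nat_lit 124)))) (PT.nd (nat_lit 78) (PT.lf (nat_lit 8132) (nat_lit 6) (nat_lit 107) (nat_lit 2) (nat_lit 132) (nat_lit 135) (nat_lit 123)) (PT.nd (nat_lit 78) (PT.lf (nat_lit 7600) (nat_lit 6) (nat_lit 100) (nat_lit 2) (nat_lit 133) (nat_lit 135) (nat_lit 122)) (PT.lf (nat_lit 6992) (nat_lit 6) (nat_lit 92) (nat_lit 2) (nat_lit 134) (nat_lit 135) (nat_lit 121)))))) (PT.nd (nat_lit 390) (PT.nd (nat_lit 156) (PT.nd (nat_lit 78) (PT.lf (nat_lit 6308) (nat_lit 3) (nat_lit 83) (nat_lit 0) (nat_lit 135) (nat_lit 135) (nat_lit 120)) (PT.lf (nat_lit 5776) (nat_lit 6) (nat_lit 76) (nat_lit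 0) (nat_lit 136) (nat_lit 135) (nat_lit 119))) (PT.nd (nat_lit 78) (PT.lf (nat_lit 5320) (nat_lit 6) (nat_lit 70) (nat_lit 0) (nat_lit 137) (nat_lit 135) (nat_lit 118)) (PT.nd (nat_lit 78) (PT.lf (nat_lit 4940) (nat_lit 6) (nat_lit 65) (nat_lit 0) (nat_lit 138) (nat_lit 135) (nat_lit 117)) (PT.lf (nat_lit 4560) (nat_lit 6) (nat_lit 60) (nat_lit 0) (nat_lit 139) (nat_lit 135) (nat_lit 116))))) (PT.nd (nat_lit 38532) (PT.nd (nat_lit 78) (PT.lf (nat_lit 4256) (nat_lit 6) (nat_lit 56) (nat_lit 0) (nat_lit 140) (nat_lit 135) (nat_lit 115)) (PT.nd (nat_lit 38376) (PT.lf (nat_lit 3876) (nat_lit 6) (nat_lit 51) (nat_lit 0) (nat_lit 141) (nat_lit 135) (nat_lit 114)) (PT.lf (nat_lit 3344) (nat_lit 6) (nat_lit 44) (nat_lit 5) (nat_lit 112) (nat_lit 136) (nat_lit 142)))) (PT.nd (nat_lit 78) (PT.lf (nat_lit 3648) (nat_lit 6) (nat_lit 48) (nat_lit 5) (nat_lit 113) (nat_lit 136) (nat_lit 141)) (PT.nd (nat_lit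 78) (PT.lf (nat_lit 3952) (nat_lit 6) (nat_lit 52) (nat_lit 5) (nat_lit 114) (nat_lit 136) (nat_lit 140)) (PT.lf (nat_lit 4332) (nat_lit 6) (nat_lit 57) (nat_lit 5) (nat_lit 115) (nat_lit 136) (nat_lit 139))))))) (PT.nd (nat_lit 858) (PT.nd (nat_lit 390) (PT.nd (nat_lit 156) (PT.nd (nat_lit 78) (PT.lf (nat_lit 4636) (nat_lit 6) (nat_lit 61) (nat_lit 5) (nat_lit 116) (nat_lit 136) (nat_lit 138)) (PT.lf (nat_lit 5016) (nat_lit 6) (nat_lit 66) (nat_lit 5) (nat_lit 117) (nat_lit 136) (nat_lit 137))) (PT.nd (nat_lit 78) (PT.lf (nat_lit 5396) (nat_lit 3) (nat_lit 71) (nat_lit 4) (nat_lit 118) (nat_lit 136) (nat_lit 136)) (PT.nd (nat_lit 78) (PT.lf (nat_lit 5776) (nat_lit 6) (nat_lit 76) (nat_lit 4) (nat_lit 119) (nat_lit 136) (nat_lit 135)) (PT.lf (nat_lit 6232) (nat_lit 6) (nat_lit 82) (nat_lit 4) (nat_lit 120) (nat_lit 136) (nat_lit 134))))) (PT.nd (nat_lit 234) (PT.nd (nat_lit 78) (PT.lf (nat_lit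 6916) (nat_lit 6) (nat_lit 91) (nat_lit 4) (nat_lit 121) (nat_lit 136) (nat_lit 133)) (PT.nd (nat_lit 78) (PT.lf (nat_lit 7524) (nat_lit 6) (nat_lit 99) (nat_lit 4) (nat_lit 122) (nat_lit 136) (nat_lit 132)) (PT.lf (nat_lit 8056) (nat_lit 6) (nat_lit 106) (nat_lit 4) (nat_lit 123) (nat_lit 136) (nat_lit 131)))) (PT.nd (nat_lit 78) (PT.lf (nat_lit 8512) (nat_lit 6) (nat_lit 112) (nat_lit 4) (nat_lit 124) (nat_lit 136) (nat_lit 130)) (PT.nd (nat_lit 78) (PT.lf (nat_lit 8436) (nat_lit 6) (nat_lit 111) (nat_lit 4) (nat_lit 125) (nat_lit 136) (nat_lit 129)) (PT.lf (nat_lit 8360) (nat_lit 6) (nat_lit 110) (nat_lit 4) (nat_lit 126) (nat_lit 136) (nat_lit 128)))))) (PT.nd (nat_lit 468) (PT.nd (nat_lit 234) (PT.nd (nat_lit 78) (PT.lf (nat_lit 8284) (nat_lit 3) (nat_lit 109) (nat_lit 2) (nat_lit 127) (nat_lit 136) (nat_lit 127)) (PT.nd (nat_lit 78) (PT.lf (nat_lit 8360) (nat_lit 6) (nat_lit 110) (nat_lit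 2) (nat_lit 128) (nat_lit 136) (nat_lit 126)) (PT.lf (nat_lit 8436) (nat_lit 6) (nat_lit 111) (nat_lit 2) (nat_lit 129) (nat_lit 136) (nat_lit 125)))) (PT.nd (nat_lit 78) (PT.lf (nat_lit 8512) (nat_lit 6) (nat_lit 112) (nat_lit 2) (nat_lit 130) (nat_lit 136) (nat_lit 124)) (PT.nd (nat_lit 78) (PT.lf (nat_lit 8056) (nat_lit 6) (nat_lit 106) (nat_lit 2) (nat_lit 131) (nat_lit 136) (nat_lit 123)) (PT.lf (nat_lit 7524) (nat_lit 6) (nat_lit 99) (nat_lit 2) (nat_lit 132) (nat_lit 136) (nat_lit 122))))) (PT.nd (nat_lit 234) (PT.nd (nat_lit 78) (PT.lf (nat_lit 6916) (nat_lit 6) (nat_lit 91) (nat_lit 2) (nat_lit 133) (nat_lit 136) (nat_lit 121)) (PT.nd (nat_lit 78) (PT.lf (nat_lit 6232) (nat_lit 6) (nat_lit 82) (nat_lit 2) (nat_lit 134) (nat_lit 136) (nat_lit 120)) (PT.lf (nat_lit 5776) (nat_lit 6) (nat_lit 76) (nat_lit 2) (nat_lit 135) (nat_lit 136) (nat_lit 119)))) (PT.nd (nat_lit 78) (PT.lf (nat_lit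 5396) (nat_lit 3) (nat_lit 71) (nat_lit 0) (nat_lit 136) (nat_lit 136) (nat_lit 118)) (PT.nd (nat_lit 78) (PT.lf (nat_lit 5016) (nat_lit 6) (nat_lit 66) (nat_lit 0) (nat_lit 137) (nat_lit 136) (nat_lit 117)) (PT.lf (nat_lit 4636) (nat_lit 6) (nat_lit 61) (nat_lit 0) (nat_lit 138) (nat_lit 136) (nat_lit 116))))))))
noncomputable def pc10 : PT := (PT.nd (nat_lit 39858) (PT.nd (nat_lit 39000) (PT.nd (nat_lit 38532) (PT.nd (nat_lit 156) (PT.nd (nat_lit 78) (PT.lf (nat_lit 4332) (nat_lit 6) (nat_lit 57) (nat_lit 0) (nat_lit 139) (nat_lit 136) (nat_lit 115)) (PT.lf (nat_lit 3952) (nat_lit 6) (nat_lit 52) (nat_lit 0) (nat_lit 140) (nat_lit 136) (nat_lit 114))) (PT.nd (nat_lit 78) (PT.lf (nat_lit 3648) (nat_lit 6) (nat_lit 48) (nat_lit 0) (nat_lit 141) (nat_lit 136) (nat_lit 113)) (PT.nd (nat_lit 38220) (PT.lf (nat_lit 3344) (nat_lit 6) (nat_lit 44) (nat_lit 0) (nat_lit 142) (nat_lit 136) (nat_lit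 112)) (PT.lf (nat_lit 3116) (nat_lit 6) (nat_lit 41) (nat_lit 5) (nat_lit 111) (nat_lit 137) (nat_lit 142))))) (PT.nd (nat_lit 234) (PT.nd (nat_lit 78) (PT.lf (nat_lit 3420) (nat_lit 6) (nat_lit 45) (nat_lit 5) (nat_lit 112) (nat_lit 137) (nat_lit 141)) (PT.nd (nat_lit 78) (PT.lf (nat_lit 3724) (nat_lit 6) (nat_lit 49) (nat_lit 5) (nat_lit 113) (nat_lit 137) (nat_lit 140)) (PT.lf (nat_lit 4028) (nat_lit 6) (nat_lit 53) (nat_lit 5) (nat_lit 114) (nat_lit 137) (nat_lit 139)))) (PT.nd (nat_lit 78) (PT.lf (nat_lit 4408) (nat_lit 6) (nat_lit 58) (nat_lit 5) (nat_lit 115) (nat_lit 137) (nat_lit 138)) (PT.nd (nat_lit 78) (PT.lf (nat_lit 4712) (nat_lit 3) (nat_lit 62) (nat_lit 4) (nat_lit 116) (nat_lit 137) (nat_lit 137)) (PT.lf (nat_lit 5016) (nat_lit 6) (nat_lit 66) (nat_lit 4) (nat_lit 117) (nat_lit 137) (nat_lit 136)))))) (PT.nd (nat_lit 390) (PT.nd (nat_lit 156) (PT.nd (nat_lit 78) (PT.lf (nat_lit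 5320) (nat_lit 6) (nat_lit 70) (nat_lit 4) (nat_lit 118) (nat_lit 137) (nat_lit 135)) (PT.lf (nat_lit 5700) (nat_lit 6) (nat_lit 75) (nat_lit 4) (nat_lit 119) (nat_lit 137) (nat_lit 134))) (PT.nd (nat_lit 78) (PT.lf (nat_lit 6156) (nat_lit 6) (nat_lit 81) (nat_lit 4) (nat_lit 120) (nat_lit 137) (nat_lit 133)) (PT.nd (nat_lit 78) (PT.lf (nat_lit 6840) (nat_lit 6) (nat_lit 90) (nat_lit 4) (nat_lit 121) (nat_lit 137) (nat_lit 132)) (PT.lf (nat_lit 7448) (nat_lit 6) (nat_lit 98) (nat_lit 4) (nat_lit 122) (nat_lit 137) (nat_lit 131))))) (PT.nd (nat_lit 234) (PT.nd (nat_lit 78) (PT.lf (nat_lit 7980) (nat_lit 6) (nat_lit 105) (nat_lit 4) (nat_lit 123) (nat_lit 137) (nat_lit 130)) (PT.nd (nat_lit 78) (PT.lf (nat_lit 7904) (nat_lit 6) (nat_lit 104) (nat_lit 4) (nat_lit 124) (nat_lit 137) (nat_lit 129)) (PT.lf (nat_lit 7828) (nat_lit 6) (nat_lit 103) (nat_lit 4) (nat_lit 125) (nat_lit 137) (nat_lit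 128)))) (PT.nd (nat_lit 78) (PT.lf (nat_lit 7752) (nat_lit 6) (nat_lit 102) (nat_lit 4) (nat_lit 126) (nat_lit 137) (nat_lit 127)) (PT.nd (nat_lit 78) (PT.lf (nat_lit 7752) (nat_lit 6) (nat_lit 102) (nat_lit 2) (nat_lit 127) (nat_lit 137) (nat_lit 126)) (PT.lf (nat_lit 7828) (nat_lit 6) (nat_lit 103) (nat_lit 2) (nat_lit 128) (nat_lit 137) (nat_lit 125))))))) (PT.nd (nat_lit 858) (PT.nd (nat_lit 390) (PT.nd (nat_lit 156) (PT.nd (nat_lit 78) (PT.lf (nat_lit 7904) (nat_lit 6) (nat_lit 104) (nat_lit 2) (nat_lit 129) (nat_lit 137) (nat_lit 124)) (PT.lf (nat_lit 7980) (nat_lit 6) (nat_lit 105) (nat_lit 2) (nat_lit 130) (nat_lit 137) (nat_lit 123))) (PT.nd (nat_lit 78) (PT.lf (nat_lit 7448) (nat_lit 6) (nat_lit 98) (nat_lit 2) (nat_lit 131) (nat_lit 137) (nat_lit 122)) (PT.nd (nat_lit 78) (PT.lf (nat_lit 6840) (nat_lit 6) (nat_lit 90) (nat_lit 2) (nat_lit 132) (nat_lit 137) (nat_lit 121)) (PT.lf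 (nat_lit 6156) (nat_lit 6) (nat_lit 81) (nat_lit 2) (nat_lit 133) (nat_lit 137) (nat_lit 120))))) (PT.nd (nat_lit 234) (PT.nd (nat_lit 78) (PT.lf (nat_lit 5700) (nat_lit 6) (nat_lit 75) (nat_lit 2) (nat_lit 134) (nat_lit 137) (nat_lit 119)) (PT.nd (nat_lit 78) (PT.lf (nat_lit 5320) (nat_lit 6) (nat_lit 70) (nat_lit 2) (nat_lit 135) (nat_lit 137) (nat_lit 118)) (PT.lf (nat_lit 5016) (nat_lit 6) (nat_lit 66) (nat_lit 2) (nat_lit 136) (nat_lit 137) (nat_lit 117)))) (PT.nd (nat_lit 78) (PT.lf (nat_lit 4712) (nat_lit 3) (nat_lit 62) (nat_lit 0) (nat_lit 137) (nat_lit 137) (nat_lit 116)) (PT.nd (nat_lit 78) (PT.lf (nat_lit 4408) (nat_lit 6) (nat_lit 58) (nat_lit 0) (nat_lit 138) (nat_lit 137) (nat_lit 115)) (PT.lf (nat_lit 4028) (nat_lit 6) (nat_lit 53) (nat_lit 0) (nat_lit 139) (nat_lit 137) (nat_lit 114)))))) (PT.nd (nat_lit 38454) (PT.nd (nat_lit 38220) (PT.nd (nat_lit 78) (PT.lf (nat_lit 3724)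 (nat_lit 6) (nat_lit 49) (nat_lit 0) (nat_lit 140) (nat_lit 137) (nat_lit 113)) (PT.nd (nat_lit 78) (PT.lf (nat_lit 3420) (nat_lit 6) (nat_lit 45) (nat_lit 0) (nat_lit 141) (nat_lit 137) (nat_lit 112)) (PT.lf (nat_lit 3116) (nat_lit 6) (nat_lit 41) (nat_lit 0) (nat_lit 142) (nat_lit 137) (nat_lit 111)))) (PT.nd (nat_lit 78) (PT.lf (nat_lit 2660) (nat_lit 6) (nat_lit 35) (nat_lit 5) (nat_lit 109) (nat_lit 138) (nat_lit 143)) (PT.nd (nat_lit 78) (PT.lf (nat_lit 2888) (nat_lit 6) (nat_lit 38) (nat_lit 5) (nat_lit 110) (nat_lit 138) (nat_lit 142)) (PT.lf (nat_lit 3192) (nat_lit 6) (nat_lit 42) (nat_lit 5) (nat_lit 111) (nat_lit 138) (nat_lit 141))))) (PT.nd (nat_lit 234) (PT.nd (nat_lit 78) (PT.lf (nat_lit 3496) (nat_lit 6) (nat_lit 46) (nat_lit 5) (nat_lit 112) (nat_lit 138) (nat_lit 140)) (PT.nd (nat_lit 78) (PT.lf (nat_lit 3800) (nat_lit 6) (nat_lit 50) (nat_lit 5) (nat_lit 113) (nat_lit 138)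 (nat_lit 139)) (PT.lf (nat_lit 4104) (nat_lit 3) (nat_lit 54) (nat_lit 4) (nat_lit 114) (nat_lit 138) (nat_lit 138)))) (PT.nd (nat_lit 78) (PT.lf (nat_lit 4408) (nat_lit 6) (nat_lit 58) (nat_lit 4) (nat_lit 115) (nat_lit 138) (nat_lit 137)) (PT.nd (nat_lit 78) (PT.lf (nat_lit 4636) (nat_lit 6) (nat_lit 61) (nat_lit 4) (nat_lit 116) (nat_lit 138) (nat_lit 136)) (PT.lf (nat_lit 4940) (nat_lit 6) (nat_lit 65) (nat_lit 4) (nat_lit 117) (nat_lit 138) (nat_lit 135))))))))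
noncomputable def pc11 : PT := (PT.nd (nat_lit 1716) (PT.nd (nat_lit 858) (PT.nd (nat_lit 390) (PT.nd (nat_lit 156) (PT.nd (nat_lit 78) (PT.lf (nat_lit 5244) (nat_lit 6) (nat_lit 69) (nat_lit 4) (nat_lit 118) (nat_lit 138) (nat_lit 134)) (PT.lf (nat_lit 5624) (nat_lit 6) (nat_lit 74) (nat_lit 4) (nat_lit 119) (nat_lit 138) (nat_lit 133))) (PT.nd (nat_lit 78) (PT.lf (nat_lit 6080) (nat_lit 6) (nat_lit 80) (nat_lit 4) (nat_lit 120) (nat_lit 138) (nat_lit 132)) (PT.nd (nat_lit 78) (PT.lf (nat_lit 6764) (nat_lit 6) (nat_lit 89) (nat_lit 4) (nat_lit 121) (nat_lit 138) (nat_lit 131)) (PT.lf (nat_lit 7372) (nat_lit 6) (nat_lit 97) (nat_lit 4) (nat_lit 122) (nat_lit 138) (nat_lit 130))))) (PT.nd (nat_lit 234) (PT.nd (nat_lit 78) (PT.lf (nat_lit 7296) (nat_lit 6) (nat_lit 96) (nat_lit 4) (nat_lit 123) (nat_lit 138) (nat_lit 129)) (PT.nd (nat_lit 78) (PT.lf (nat_lit 7220) (nat_lit 6) (nat_lit 95) (nat_lit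 4) (nat_lit 124) (nat_lit 138) (nat_lit 128)) (PT.lf (nat_lit 7144) (nat_lit 6) (nat_lit 94) (nat_lit 4) (nat_lit 125) (nat_lit 138) (nat_lit 127)))) (PT.nd (nat_lit 78) (PT.lf (nat_lit 7068) (nat_lit 3) (nat_lit 93) (nat_lit 2) (nat_lit 126) (nat_lit 138) (nat_lit 126)) (PT.nd (nat_lit 78) (PT.lf (nat_lit 7144) (nat_lit 6) (nat_lit 94) (nat_lit 2) (nat_lit 127) (nat_lit 138) (nat_lit 125)) (PT.lf (nat_lit 7220) (nat_lit 6) (nat_lit 95) (nat_lit 2) (nat_lit 128) (nat_lit 138) (nat_lit 124)))))) (PT.nd (nat_lit 390) (PT.nd (nat_lit 156) (PT.nd (nat_lit 78) (PT.lf (nat_lit 7296) (nat_lit 6) (nat_lit 96) (nat_lit 2) (nat_lit 129) (nat_lit 138) (nat_lit 123)) (PT.lf (nat_lit 7372) (nat_lit 6) (nat_lit 97) (nat_lit 2) (nat_lit 130) (nat_lit 138) (nat_lit 122))) (PT.nd (nat_lit 78) (PT.lf (nat_lit 6764) (nat_lit 6) (nat_lit 89) (nat_lit 2) (nat_lit 131) (nat_lit 138) (nat_lit 121)) (PT.nd (nat_lit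 78) (PT.lf (nat_lit 6080) (nat_lit 6) (nat_lit 80) (nat_lit 2) (nat_lit 132) (nat_lit 138) (nat_lit 120)) (PT.lf (nat_lit 5624) (nat_lit 6) (nat_lit 74) (nat_lit 2) (nat_lit 133) (nat_lit 138) (nat_lit 119))))) (PT.nd (nat_lit 234) (PT.nd (nat_lit 78) (PT.lf (nat_lit 5244) (nat_lit 6) (nat_lit 69) (nat_lit 2) (nat_lit 134) (nat_lit 138) (nat_lit 118)) (PT.nd (nat_lit 78) (PT.lf (nat_lit 4940) (nat_lit 6) (nat_lit 65) (nat_lit 2) (nat_lit 135) (nat_lit 138) (nat_lit 117)) (PT.lf (nat_lit 4636) (nat_lit 6) (nat_lit 61) (nat_lit 2) (nat_lit 136) (nat_lit 138) (nat_lit 116)))) (PT.nd (nat_lit 78) (PT.lf (nat_lit 4408) (nat_lit 6) (nat_lit 58) (nat_lit 2) (nat_lit 137) (nat_lit 138) (nat_lit 115)) (PT.nd (nat_lit 78) (PT.lf (nat_lit 4104) (nat_lit 3) (nat_lit 54) (nat_lit 0) (nat_lit 138) (nat_lit 138) (nat_lit 114)) (PT.lf (nat_lit 3800) (nat_lit 6) (nat_lit 50) (nat_lit 0) (nat_lit 139) (nat_lit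 138) (nat_lit 113))))))) (PT.nd (nat_lit 38688) (PT.nd (nat_lit 38220) (PT.nd (nat_lit 156) (PT.nd (nat_lit 78) (PT.lf (nat_lit 3496) (nat_lit 6) (nat_lit 46) (nat_lit 0) (nat_lit 140) (nat_lit 138) (nat_lit 112)) (PT.lf (nat_lit 3192) (nat_lit 6) (nat_lit 42) (nat_lit 0) (nat_lit 141) (nat_lit 138) (nat_lit 111))) (PT.nd (nat_lit 78) (PT.lf (nat_lit 2888) (nat_lit 6) (nat_lit 38) (nat_lit 0) (nat_lit 142) (nat_lit 138) (nat_lit 110)) (PT.nd (nat_lit 37908) (PT.lf (nat_lit 2660) (nat_lit 6) (nat_lit 35) (nat_lit 0) (nat_lit 143) (nat_lit 138) (nat_lit 109)) (PT.lf (nat_lit 2432) (nat_lit 6) (nat_lit 32) (nat_lit 5) (nat_lit 108) (nat_lit 139) (nat_lit 143))))) (PT.nd (nat_lit 234) (PT.nd (nat_lit 78) (PT.lf (nat_lit 2736) (nat_lit 6) (nat_lit 36) (nat_lit 5) (nat_lit 109) (nat_lit 139) (nat_lit 142)) (PT.nd (nat_lit 78) (PT.lf (nat_lit 2964) (nat_lit 6) (nat_lit 39) (nat_lit 5) (nat_lit 110)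 (nat_lit 139) (nat_lit 141)) (PT.lf (nat_lit 3268) (nat_lit 6) (nat_lit 43) (nat_lit 5) (nat_lit 111) (nat_lit 139) (nat_lit 140)))) (PT.nd (nat_lit 78) (PT.lf (nat_lit 3572) (nat_lit 3) (nat_lit 47) (nat_lit 4) (nat_lit 112) (nat_lit 139) (nat_lit 139)) (PT.nd (nat_lit 78) (PT.lf (nat_lit 3800) (nat_lit 6) (nat_lit 50) (nat_lit 4) (nat_lit 113) (nat_lit 139) (nat_lit 138)) (PT.lf (nat_lit 4028) (nat_lit 6) (nat_lit 53) (nat_lit 4) (nat_lit 114) (nat_lit 139) (nat_lit 137)))))) (PT.nd (nat_lit 468) (PT.nd (nat_lit 234) (PT.nd (nat_lit 78) (PT.lf (nat_lit 4332) (nat_lit 6) (nat_lit 57) (nat_lit 4) (nat_lit 115) (nat_lit 139) (nat_lit 136)) (PT.nd (nat_lit 78) (PT.lf (nat_lit 4560) (nat_lit 6) (nat_lit 60) (nat_lit 4) (nat_lit 116) (nat_lit 139) (nat_lit 135)) (PT.lf (nat_lit 4864) (nat_lit 6) (nat_lit 64) (nat_lit 4) (nat_lit 117) (nat_lit 139) (nat_lit 134)))) (PT.nd (nat_lit 78) (PT.lf (nat_lit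 5168) (nat_lit 6) (nat_lit 68) (nat_lit 4) (nat_lit 118) (nat_lit 139) (nat_lit 133)) (PT.nd (nat_lit 78) (PT.lf (nat_lit 5548) (nat_lit 6) (nat_lit 73) (nat_lit 4) (nat_lit 119) (nat_lit 139) (nat_lit 132)) (PT.lf (nat_lit 6004) (nat_lit 6) (nat_lit 79) (nat_lit 4) (nat_lit 120) (nat_lit 139) (nat_lit 131))))) (PT.nd (nat_lit 234) (PT.nd (nat_lit 78) (PT.lf (nat_lit 6688) (nat_lit 6) (nat_lit 88) (nat_lit 4) (nat_lit 121) (nat_lit 139) (nat_lit 130)) (PT.nd (nat_lit 78) (PT.lf (nat_lit 6612) (nat_lit 6) (nat_lit 87) (nat_lit 4) (nat_lit 122) (nat_lit 139) (nat_lit 129)) (PT.lf (nat_lit 6536) (nat_lit 6) (nat_lit 86) (nat_lit 4) (nat_lit 123) (nat_lit 139) (nat_lit 128)))) (PT.nd (nat_lit 78) (PT.lf (nat_lit 6460) (nat_lit 6) (nat_lit 85) (nat_lit 4) (nat_lit 124) (nat_lit 139) (nat_lit 127)) (PT.nd (nat_lit 78) (PT.lf (nat_lit 6384) (nat_lit 6) (nat_lit 84) (nat_lit 4) (nat_lit 125) (nat_lit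 139) (nat_lit 126)) (PT.lf (nat_lit 6384) (nat_lit 6) (nat_lit 84) (nat_lit 2) (nat_lit 126) (nat_lit 139) (nat_lit 125))))))))
noncomputable def pc12 : PT := (PT.nd (nat_lit 39390) (PT.nd (nat_lit 858) (PT.nd (nat_lit 390) (PT.nd (nat_lit 156) (PT.nd (nat_lit 78) (PT.lf (nat_lit 6460) (nat_lit 6) (nat_lit 85) (nat_lit 2) (nat_lit 127) (nat_lit 139) (nat_lit 124)) (PT.lf (nat_lit 6536) (nat_lit 6) (nat_lit 86) (nat_lit 2) (nat_lit 128) (nat_lit 139) (nat_lit 123))) (PT.nd (nat_lit 78) (PT.lf (nat_lit 6612) (nat_lit 6) (nat_lit 87) (nat_lit 2) (nat_lit 129) (nat_lit 139) (nat_lit 122)) (PT.nd (nat_lit 78) (PT.lf (nat_lit 6688) (nat_lit 6) (nat_lit 88) (nat_lit 2) (nat_lit 130) (nat_lit 139) (nat_lit 121)) (PT.lf (nat_lit 6004) (nat_lit 6) (nat_lit 79) (nat_lit 2) (nat_lit 131) (nat_lit 139) (nat_lit 120))))) (PT.nd (nat_lit 234) (PT.nd (nat_lit 78) (PT.lf (nat_lit 5548) (nat_lit 6) (nat_lit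 73) (nat_lit 2) (nat_lit 132) (nat_lit 139) (nat_lit 119)) (PT.nd (nat_lit 78) (PT.lf (nat_lit 5168) (nat_lit 6) (nat_lit 68) (nat_lit 2) (nat_lit 133) (nat_lit 139) (nat_lit 118)) (PT.lf (nat_lit 4864) (nat_lit 6) (nat_lit 64) (nat_lit 2) (nat_lit 134) (nat_lit 139) (nat_lit 117)))) (PT.nd (nat_lit 78) (PT.lf (nat_lit 4560) (nat_lit 6) (nat_lit 60) (nat_lit 2) (nat_lit 135) (nat_lit 139) (nat_lit 116)) (PT.nd (nat_lit 78) (PT.lf (nat_lit 4332) (nat_lit 6) (nat_lit 57) (nat_lit 2) (nat_lit 136) (nat_lit 139) (nat_lit 115)) (PT.lf (nat_lit 4028) (nat_lit 6) (nat_lit 53) (nat_lit 2) (nat_lit 137) (nat_lit 139) (nat_lit 114)))))) (PT.nd (nat_lit 390) (PT.nd (nat_lit 156) (PT.nd (nat_lit 78) (PT.lf (nat_lit 3800) (nat_lit 6) (nat_lit 50) (nat_lit 2) (nat_lit 138) (nat_lit 139) (nat_lit 113)) (PT.lf (nat_lit 3572) (nat_lit 3) (nat_lit 47) (nat_lit 0) (nat_lit 139) (nat_lit 139) (nat_lit 112)))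 (PT.nd (nat_lit 78) (PT.lf (nat_lit 3268) (nat_lit 6) (nat_lit 43) (nat_lit 0) (nat_lit 140) (nat_lit 139) (nat_lit 111)) (PT.nd (nat_lit 78) (PT.lf (nat_lit 2964) (nat_lit 6) (nat_lit 39) (nat_lit 0) (nat_lit 141) (nat_lit 139) (nat_lit 110)) (PT.lf (nat_lit 2736) (nat_lit 6) (nat_lit 36) (nat_lit 0) (nat_lit 142) (nat_lit 139) (nat_lit 109))))) (PT.nd (nat_lit 37908) (PT.nd (nat_lit 37752) (PT.lf (nat_lit 2432) (nat_lit 6) (nat_lit 32) (nat_lit 0) (nat_lit 143) (nat_lit 139) (nat_lit 108)) (PT.nd (nat_lit 78) (PT.lf (nat_lit 2052) (nat_lit 6) (nat_lit 27) (nat_lit 5) (nat_lit 106) (nat_lit 140) (nat_lit 144)) (PT.lf (nat_lit 2280) (nat_lit 6) (nat_lit 30) (nat_lit 5) (nat_lit 107) (nat_lit 140) (nat_lit 143)))) (PT.nd (nat_lit 78) (PT.lf (nat_lit 2508) (nat_lit 6) (nat_lit 33) (nat_lit 5) (nat_lit 108) (nat_lit 140) (nat_lit 142)) (PT.nd (nat_lit 78) (PT.lf (nat_lit 2812) (nat_lit 6) (nat_lit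 37) (nat_lit 5) (nat_lit 109) (nat_lit 140) (nat_lit 141)) (PT.lf (nat_lit 3040) (nat_lit 3) (nat_lit 40) (nat_lit 4) (nat_lit 110) (nat_lit 140) (nat_lit 140))))))) (PT.nd (nat_lit 1404) (PT.nd (nat_lit 390) (PT.nd (nat_lit 156) (PT.nd (nat_lit 78) (PT.lf (nat_lit 3268) (nat_lit 6) (nat_lit 43) (nat_lit 4) (nat_lit 111) (nat_lit 140) (nat_lit 139)) (PT.lf (nat_lit 3496) (nat_lit 6) (nat_lit 46) (nat_lit 4) (nat_lit 112) (nat_lit 140) (nat_lit 138))) (PT.nd (nat_lit 78) (PT.lf (nat_lit 3724) (nat_lit 6) (nat_lit 49) (nat_lit 4) (nat_lit 113) (nat_lit 140) (nat_lit 137)) (PT.nd (nat_lit 78) (PT.lf (nat_lit 3952) (nat_lit 6) (nat_lit 52) (nat_lit 4) (nat_lit 114) (nat_lit 140) (nat_lit 136)) (PT.lf (nat_lit 4256) (nat_lit 6) (nat_lit 56) (nat_lit 4) (nat_lit 115) (nat_lit 140) (nat_lit 135))))) (PT.nd (nat_lit 234) (PT.nd (nat_lit 78) (PT.lf (nat_lit 4484) (nat_lit 6) (nat_lit 59) (nat_lit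 4) (nat_lit 116) (nat_lit 140) (nat_lit 134)) (PT.nd (nat_lit 78) (PT.lf (nat_lit 4788) (nat_lit 6) (nat_lit 63) (nat_lit 4) (nat_lit 117) (nat_lit 140) (nat_lit 133)) (PT.lf (nat_lit 5092) (nat_lit 6) (nat_lit 67) (nat_lit 4) (nat_lit 118) (nat_lit 140) (nat_lit 132)))) (PT.nd (nat_lit 78) (PT.lf (nat_lit 5472) (nat_lit 6) (nat_lit 72) (nat_lit 4) (nat_lit 119) (nat_lit 140) (nat_lit 131)) (PT.nd (nat_lit 78) (PT.lf (nat_lit 5928) (nat_lit 6) (nat_lit 78) (nat_lit 4) (nat_lit 120) (nat_lit 140) (nat_lit 130)) (PT.lf (nat_lit 5852) (nat_lit 6) (nat_lit 77) (nat_lit 4) (nat_lit 121) (nat_lit 140) (nat_lit 129)))))) (PT.nd (nat_lit 468) (PT.nd (nat_lit 234) (PT.nd (nat_lit 78) (PT.lf (nat_lit 5852) (nat_lit 6) (nat_lit 77) (nat_lit 2) (nat_lit 129) (nat_lit 140) (nat_lit 121)) (PT.nd (nat_lit 78) (PT.lf (nat_lit 5928) (nat_lit 6) (nat_lit 78) (nat_lit 2) (nat_lit 130) (nat_lit 140) (nat_lit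 120)) (PT.lf (nat_lit 5472) (nat_lit 6) (nat_lit 72) (nat_lit 2) (nat_lit 131) (nat_lit 140) (nat_lit 119)))) (PT.nd (nat_lit 78) (PT.lf (nat_lit 5092) (nat_lit 6) (nat_lit 67) (nat_lit 2) (nat_lit 132) (nat_lit 140) (nat_lit 118)) (PT.nd (nat_lit 78) (PT.lf (nat_lit 4788) (nat_lit 6) (nat_lit 63) (nat_lit 2) (nat_lit 133) (nat_lit 140) (nat_lit 117)) (PT.lf (nat_lit 4484) (nat_lit 6) (nat_lit 59) (nat_lit 2) (nat_lit 134) (nat_lit 140) (nat_lit 116))))) (PT.nd (nat_lit 234) (PT.nd (nat_lit 78) (PT.lf (nat_lit 4256) (nat_lit 6) (nat_lit 56) (nat_lit 2) (nat_lit 135) (nat_lit 140) (nat_lit 115)) (PT.nd (nat_lit 78) (PT.lf (nat_lit 3952) (nat_lit 6) (nat_lit 52) (nat_lit 2) (nat_lit 136) (nat_lit 140) (nat_lit 114)) (PT.lf (nat_lit 3724) (nat_lit 6) (nat_lit 49) (nat_lit 2) (nat_lit 137) (nat_lit 140) (nat_lit 113)))) (PT.nd (nat_lit 78) (PT.lf (nat_lit 3496) (nat_lit 6) (nat_lit 46) (nat_lit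 2) (nat_lit 138) (nat_lit 140) (nat_lit 112)) (PT.nd (nat_lit 78) (PT.lf (nat_lit 3268) (nat_lit 6) (nat_lit 43) (nat_lit 2) (nat_lit 139) (nat_lit 140) (nat_lit 111)) (PT.lf (nat_lit 3040) (nat_lit 3) (nat_lit 40) (nat_lit 0) (nat_lit 140) (nat_lit 140) (nat_lit 110))))))))
noncomputable def pc13 : PT := (PT.nd (nat_lit 40638) (PT.nd (nat_lit 38376) (PT.nd (nat_lit 37908) (PT.nd (nat_lit 156) (PT.nd (nat_lit 78) (PT.lf (nat_lit 2812) (nat_lit 6) (nat_lit 37) (nat_lit 0) (nat_lit 141) (nat_lit 140) (nat_lit 109)) (PT.lf (nat_lit 2508) (nat_lit 6) (nat_lit 33) (nat_lit 0) (nat_lit 142) (nat_lit 140) (nat_lit 108))) (PT.nd (nat_lit 78) (PT.lf (nat_lit 2280) (nat_lit 6) (nat_lit 30) (nat_lit 0) (nat_lit 143) (nat_lit 140) (nat_lit 107)) (PT.nd (nat_lit 37596) (PT.lf (nat_lit 2052) (nat_lit 6) (nat_lit 27) (nat_lit 0) (nat_lit 144) (nat_lit 140) (nat_lit 106)) (PT.lf (nat_lit 1900) (nat_lit 6)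 (nat_lit 25) (nat_lit 5) (nat_lit 105) (nat_lit 141) (nat_lit 144))))) (PT.nd (nat_lit 234) (PT.nd (nat_lit 78) (PT.lf (nat_lit 2128) (nat_lit 6) (nat_lit 28) (nat_lit 5) (nat_lit 106) (nat_lit 141) (nat_lit 143)) (PT.nd (nat_lit 78) (PT.lf (nat_lit 2356) (nat_lit 6) (nat_lit 31) (nat_lit 5) (nat_lit 107) (nat_lit 141) (nat_lit 142)) (PT.lf (nat_lit 2584) (nat_lit 3) (nat_lit 34) (nat_lit 4) (nat_lit 108) (nat_lit 141) (nat_lit 141)))) (PT.nd (nat_lit 78) (PT.lf (nat_lit 2812) (nat_lit 6) (nat_lit 37) (nat_lit 4) (nat_lit 109) (nat_lit 141) (nat_lit 140)) (PT.nd (nat_lit 78) (PT.lf (nat_lit 2964) (nat_lit 6) (nat_lit 39) (nat_lit 4) (nat_lit 110) (nat_lit 141) (nat_lit 139)) (PT.lf (nat_lit 3192) (nat_lit 6) (nat_lit 42) (nat_lit 4) (nat_lit 111) (nat_lit 141) (nat_lit 138)))))) (PT.nd (nat_lit 1794) (PT.nd (nat_lit 156) (PT.nd (nat_lit 78) (PT.lf (nat_lit 3420) (nat_lit 6) (nat_lit 45) (nat_lit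 4) (nat_lit 112) (nat_lit 141) (nat_lit 137)) (PT.lf (nat_lit 3648) (nat_lit 6) (nat_lit 48) (nat_lit 4) (nat_lit 113) (nat_lit 141) (nat_lit 136))) (PT.nd (nat_lit 78) (PT.lf (nat_lit 3876) (nat_lit 6) (nat_lit 51) (nat_lit 4) (nat_lit 114) (nat_lit 141) (nat_lit 135)) (PT.nd (nat_lit 1482) (PT.lf (nat_lit 4180) (nat_lit 6) (nat_lit 55) (nat_lit 4) (nat_lit 115) (nat_lit 141) (nat_lit 134)) (PT.lf (nat_lit 4180) (nat_lit 6) (nat_lit 55) (nat_lit 2) (nat_lit 134) (nat_lit 141) (nat_lit 115))))) (PT.nd (nat_lit 234) (PT.nd (nat_lit 78) (PT.lf (nat_lit 3876) (nat_lit 6) (nat_lit 51) (nat_lit 2) (nat_lit 135) (nat_lit 141) (nat_lit 114)) (PT.nd (nat_lit 78) (PT.lf (nat_lit 3648) (nat_lit 6) (nat_lit 48) (nat_lit 2) (nat_lit 136) (nat_lit 141) (nat_lit 113)) (PT.lf (nat_lit 3420) (nat_lit 6) (nat_lit 45) (nat_lit 2) (nat_lit 137) (nat_lit 141) (nat_lit 112)))) (PT.nd (nat_lit 78) (PT.lf (nat_lit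 3192) (nat_lit 6) (nat_lit 42) (nat_lit 2) (nat_lit 138) (nat_lit 141) (nat_lit 111)) (PT.nd (nat_lit 78) (PT.lf (nat_lit 2964) (nat_lit 6) (nat_lit 39) (nat_lit 2) (nat_lit 139) (nat_lit 141) (nat_lit 110)) (PT.lf (nat_lit 2812) (nat_lit 6) (nat_lit 37) (nat_lit 2) (nat_lit 140) (nat_lit 141) (nat_lit 109))))))) (PT.nd (nat_lit 38220) (PT.nd (nat_lit 37752) (PT.nd (nat_lit 156) (PT.nd (nat_lit 78) (PT.lf (nat_lit 2584) (nat_lit 3) (nat_lit 34) (nat_lit 0) (nat_lit 141) (nat_lit 141) (nat_lit 108)) (PT.lf (nat_lit 2356) (nat_lit 6) (nat_lit 31) (nat_lit 0) (nat_lit 142) (nat_lit 141) (nat_lit 107))) (PT.nd (nat_lit 78) (PT.lf (nat_lit 2128) (nat_lit 6) (nat_lit 28) (nat_lit 0) (nat_lit 143) (nat_lit 141) (nat_lit 106)) (PT.nd (nat_lit 37440) (PT.lf (nat_lit 1900) (nat_lit 6) (nat_lit 25) (nat_lit 0) (nat_lit 144) (nat_lit 141) (nat_lit 105)) (PT.lf (nat_lit 1596) (nat_lit 6) (nat_lit 21)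 (nat_lit 5) (nat_lit 103) (nat_lit 142) (nat_lit 145))))) (PT.nd (nat_lit 234) (PT.nd (nat_lit 78) (PT.lf (nat_lit 1748) (nat_lit 6) (nat_lit 23) (nat_lit 5) (nat_lit 104) (nat_lit 142) (nat_lit 144)) (PT.nd (nat_lit 78) (PT.lf (nat_lit 1976) (nat_lit 6) (nat_lit 26) (nat_lit 5) (nat_lit 105) (nat_lit 142) (nat_lit 143)) (PT.lf (nat_lit 2204) (nat_lit 3) (nat_lit 29) (nat_lit 4) (nat_lit 106) (nat_lit 142) (nat_lit 142)))) (PT.nd (nat_lit 78) (PT.lf (nat_lit 2356) (nat_lit 6) (nat_lit 31) (nat_lit 4) (nat_lit 107) (nat_lit 142) (nat_lit 141)) (PT.nd (nat_lit 78) (PT.lf (nat_lit 2508) (nat_lit 6) (nat_lit 33) (nat_lit 4) (nat_lit 108) (nat_lit 142) (nat_lit 140)) (PT.lf (nat_lit 2736) (nat_lit 6) (nat_lit 36) (nat_lit 4) (nat_lit 109) (nat_lit 142) (nat_lit 139)))))) (PT.nd (nat_lit 2262) (PT.nd (nat_lit 2028) (PT.nd (nat_lit 78) (PT.lf (nat_lit 2888) (nat_lit 6) (nat_lit 38) (nat_lit 4) (nat_lit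 110) (nat_lit 142) (nat_lit 138)) (PT.nd (nat_lit 78) (PT.lf (nat_lit 3116) (nat_lit 6) (nat_lit 41) (nat_lit 4) (nat_lit 111) (nat_lit 142) (nat_lit 137)) (PT.lf (nat_lit 3344) (nat_lit 6) (nat_lit 44) (nat_lit 4) (nat_lit 112) (nat_lit 142) (nat_lit 136)))) (PT.nd (nat_lit 78) (PT.lf (nat_lit 3344) (nat_lit 6) (nat_lit 44) (nat_lit 2) (nat_lit 136) (nat_lit 142) (nat_lit 112)) (PT.nd (nat_lit 78) (PT.lf (nat_lit 3116) (nat_lit 6) (nat_lit 41) (nat_lit 2) (nat_lit 137) (nat_lit 142) (nat_lit 111)) (PT.lf (nat_lit 2888) (nat_lit 6) (nat_lit 38) (nat_lit 2) (nat_lit 138) (nat_lit 142) (nat_lit 110))))) (PT.nd (nat_lit 234) (PT.nd (nat_lit 78) (PT.lf (nat_lit 2736) (nat_lit 6) (nat_lit 36) (nat_lit 2) (nat_lit 139) (nat_lit 142) (nat_lit 109)) (PT.nd (nat_lit 78) (PT.lf (nat_lit 2508) (nat_lit 6) (nat_lit 33) (nat_lit 2) (nat_lit 140) (nat_lit 142) (nat_lit 108)) (PT.lf (nat_lit 2356) (nat_lit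 6) (nat_lit 31) (nat_lit 2) (nat_lit 141) (nat_lit 142) (nat_lit 107)))) (PT.nd (nat_lit 78) (PT.lf (nat_lit 2204) (nat_lit 3) (nat_lit 29) (nat_lit 0) (nat_lit 142) (nat_lit 142) (nat_lit 106)) (PT.nd (nat_lit 78) (PT.lf (nat_lit 1976) (nat_lit 6) (nat_lit 26) (nat_lit 0) (nat_lit 143) (nat_lit 142) (nat_lit 105)) (PT.lf (nat_lit 1748) (nat_lit 6) (nat_lit 23) (nat_lit 0) (nat_lit 144) (nat_lit 142) (nat_lit 104))))))))
noncomputable def pc14 : PT := (PT.nd (nat_lit 78000) (PT.nd (nat_lit 40170) (PT.nd (nat_lit 37518) (PT.nd (nat_lit 37284) (PT.nd (nat_lit 37206) (PT.lf (nat_lit 1596) (nat_lit 6) (nat_lit 21) (nat_lit 0) (nat_lit 145) (nat_lit 142) (nat_lit 103)) (PT.lf (nat_lit 1292) (nat_lit 6) (nat_lit 17) (nat_lit 5) (nat_lit 101) (nat_lit 143) (nat_lit 146))) (PT.nd (nat_lit 78) (PT.lf (nat_lit 1444) (nat_lit 6) (nat_lit 19) (nat_lit 5) (nat_lit 102) (nat_lit 143) (nat_lit 145)) (PT.nd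 (nat_lit 78) (PT.lf (nat_lit 1672) (nat_lit 6) (nat_lit 22) (nat_lit 5) (nat_lit 103) (nat_lit 143) (nat_lit 144)) (PT.lf (nat_lit 1824) (nat_lit 3) (nat_lit 24) (nat_lit 4) (nat_lit 104) (nat_lit 143) (nat_lit 143))))) (PT.nd (nat_lit 234) (PT.nd (nat_lit 78) (PT.lf (nat_lit 1976) (nat_lit 6) (nat_lit 26) (nat_lit 4) (nat_lit 105) (nat_lit 143) (nat_lit 142)) (PT.nd (nat_lit 78) (PT.lf (nat_lit 2128) (nat_lit 6) (nat_lit 28) (nat_lit 4) (nat_lit 106) (nat_lit 143) (nat_lit 141)) (PT.lf (nat_lit 2280) (nat_lit 6) (nat_lit 30) (nat_lit 4) (nat_lit 107) (nat_lit 143) (nat_lit 140)))) (PT.nd (nat_lit 78) (PT.lf (nat_lit 2432) (nat_lit 6) (nat_lit 32) (nat_lit 4) (nat_lit 108) (nat_lit 143) (nat_lit 139)) (PT.nd (nat_lit 2262) (PT.lf (nat_lit 2660) (nat_lit 6) (nat_lit 35) (nat_lit 4) (nat_lit 109) (nat_lit 143) (nat_lit 138)) (PT.lf (nat_lit 2660) (nat_lit 6) (nat_lit 35) (nat_lit 2) (nat_lit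 138) (nat_lit 143) (nat_lit 109)))))) (PT.nd (nat_lit 390) (PT.nd (nat_lit 156) (PT.nd (nat_lit 78) (PT.lf (nat_lit 2432) (nat_lit 6) (nat_lit 32) (nat_lit 2) (nat_lit 139) (nat_lit 143) (nat_lit 108)) (PT.lf (nat_lit 2280) (nat_lit 6) (nat_lit 30) (nat_lit 2) (nat_lit 140) (nat_lit 143) (nat_lit 107))) (PT.nd (nat_lit 78) (PT.lf (nat_lit 2128) (nat_lit 6) (nat_lit 28) (nat_lit 2) (nat_lit 141) (nat_lit 143) (nat_lit 106)) (PT.nd (nat_lit 78) (PT.lf (nat_lit 1976) (nat_lit 6) (nat_lit 26) (nat_lit 2) (nat_lit 142) (nat_lit 143) (nat_lit 105)) (PT.lf (nat_lit 1824) (nat_lit 3) (nat_lit 24) (nat_lit 0) (nat_lit 143) (nat_lit 143) (nat_lit 104))))) (PT.nd (nat_lit 37206) (PT.nd (nat_lit 78) (PT.lf (nat_lit 1672) (nat_lit 6) (nat_lit 22) (nat_lit 0) (nat_lit 144) (nat_lit 143) (nat_lit 103)) (PT.nd (nat_lit 78) (PT.lf (nat_lit 1444) (nat_lit 6) (nat_lit 19) (nat_lit 0) (nat_lit 145) (nat_lit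 143) (nat_lit 102)) (PT.lf (nat_lit 1292) (nat_lit 6) (nat_lit 17) (nat_lit 0) (nat_lit 146) (nat_lit 143) (nat_lit 101)))) (PT.nd (nat_lit 78) (PT.lf (nat_lit 1140) (nat_lit 6) (nat_lit 15) (nat_lit 5) (nat_lit 100) (nat_lit 144) (nat_lit 146)) (PT.nd (nat_lit 78) (PT.lf (nat_lit 1368) (nat_lit 6) (nat_lit 18) (nat_lit 5) (nat_lit 101) (nat_lit 144) (nat_lit 145)) (PT.lf (nat_lit 1520) (nat_lit 3) (nat_lit 20) (nat_lit 4) (nat_lit 102) (nat_lit 144) (nat_lit 144))))))) (PT.nd (nat_lit 40248) (PT.nd (nat_lit 2964) (PT.nd (nat_lit 156) (PT.nd (nat_lit 78) (PT.lf (nat_lit 1672) (nat_lit 6) (nat_lit 22) (nat_lit 4) (nat_lit 103) (nat_lit 144) (nat_lit 143)) (PT.lf (nat_lit 1748) (nat_lit 6) (nat_lit 23) (nat_lit 4) (nat_lit 104) (nat_lit 144) (nat_lit 142))) (PT.nd (nat_lit 78) (PT.lf (nat_lit 1900) (nat_lit 6) (nat_lit 25) (nat_lit 4) (nat_lit 105) (nat_lit 144) (nat_lit 141)) (PT.nd (nat_lit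 2652) (PT.lf (nat_lit 2052) (nat_lit 6) (nat_lit 27) (nat_lit 4) (nat_lit 106) (nat_lit 144) (nat_lit 140)) (PT.lf (nat_lit 2052) (nat_lit 6) (nat_lit 27) (nat_lit 2) (nat_lit 140) (nat_lit 144) (nat_lit 106))))) (PT.nd (nat_lit 234) (PT.nd (nat_lit 78) (PT.lf (nat_lit 1900) (nat_lit 6) (nat_lit 25) (nat_lit 2) (nat_lit 141) (nat_lit 144) (nat_lit 105)) (PT.nd (nat_lit 78) (PT.lf (nat_lit 1748) (nat_lit 6) (nat_lit 23) (nat_lit 2) (nat_lit 142) (nat_lit 144) (nat_lit 104)) (PT.lf (nat_lit 1672) (nat_lit 6) (nat_lit 22) (nat_lit 2) (nat_lit 143) (nat_lit 144) (nat_lit 103)))) (PT.nd (nat_lit 78) (PT.lf (nat_lit 1520) (nat_lit 3) (nat_lit 20) (nat_lit 0) (nat_lit 144) (nat_lit 144) (nat_lit 102)) (PT.nd (nat_lit 78) (PT.lf (nat_lit 1368) (nat_lit 6) (nat_lit 18) (nat_lit 0) (nat_lit 145) (nat_lit 144) (nat_lit 101)) (PT.lf (nat_lit 1140) (nat_lit 6) (nat_lit 15) (nat_lit 0) (nat_lit 146) (nat_lit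 144) (nat_lit 100)))))) (PT.nd (nat_lit 3432) (PT.nd (nat_lit 234) (PT.nd (nat_lit 78) (PT.lf (nat_lit 912) (nat_lit 6) (nat_lit 12) (nat_lit 5) (nat_lit 98) (nat_lit 145) (nat_lit 147)) (PT.nd (nat_lit 78) (PT.lf (nat_lit 1064) (nat_lit 6) (nat_lit 14) (nat_lit 5) (nat_lit 99) (nat_lit 145) (nat_lit 146)) (PT.lf (nat_lit 1216) (nat_lit 3) (nat_lit 16) (nat_lit 4) (nat_lit 100) (nat_lit 145) (nat_lit 145)))) (PT.nd (nat_lit 78) (PT.lf (nat_lit 1368) (nat_lit 6) (nat_lit 18) (nat_lit 4) (nat_lit 101) (nat_lit 145) (nat_lit 144)) (PT.nd (nat_lit 78) (PT.lf (nat_lit 1444) (nat_lit 6) (nat_lit 19) (nat_lit 4) (nat_lit 102) (nat_lit 145) (nat_lit 143)) (PT.lf (nat_lit 1596) (nat_lit 6) (nat_lit 21) (nat_lit 4) (nat_lit 103) (nat_lit 145) (nat_lit 142))))) (PT.nd (nat_lit 234) (PT.nd (nat_lit 78) (PT.lf (nat_lit 1596) (nat_lit 6) (nat_lit 21) (nat_lit 2) (nat_lit 142) (nat_lit 145) (nat_lit 103))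 (PT.nd (nat_lit 78) (PT.lf (nat_lit 1444) (nat_lit 6) (nat_lit 19) (nat_lit 2) (nat_lit 143) (nat_lit 145) (nat_lit 102)) (PT.lf (nat_lit 1368) (nat_lit 6) (nat_lit 18) (nat_lit 2) (nat_lit 144) (nat_lit 145) (nat_lit 101)))) (PT.nd (nat_lit 78) (PT.lf (nat_lit 1216) (nat_lit 3) (nat_lit 16) (nat_lit 0) (nat_lit 145) (nat_lit 145) (nat_lit 100)) (PT.nd (nat_lit 78) (PT.lf (nat_lit 1064) (nat_lit 6) (nat_lit 14) (nat_lit 0) (nat_lit 146) (nat_lit 145) (nat_lit 99)) (PT.lf (nat_lit 912) (nat_lit 6) (nat_lit 12) (nat_lit 0) (nat_lit 147) (nat_lit 145) (nat_lit 98))))))))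
noncomputable def pc15 : PT := (PT.nd (nat_lit 81042) (PT.nd (nat_lit 4056) (PT.nd (nat_lit 390) (PT.nd (nat_lit 156) (PT.nd (nat_lit 78) (PT.lf (nat_lit 684) (nat_lit 6) (nat_lit 9) (nat_lit 5) (nat_lit 96) (nat_lit 146) (nat_lit 148)) (PT.lf (nat_lit 836) (nat_lit 6) (nat_lit 11) (nat_lit 5) (nat_lit 97) (nat_lit 146) (nat_lit 147))) (PT.nd (nat_lit 78) (PT.lf (nat_lit 988) (nat_lit 3) (nat_lit 13) (nat_lit 4) (nat_lit 98) (nat_lit 146) (nat_lit 146)) (PT.nd (nat_lit 78) (PT.lf (nat_lit 1064) (nat_lit 6) (nat_lit 14) (nat_lit 4) (nat_lit 99) (nat_lit 146) (nat_lit 145)) (PT.lf (nat_lit 1140) (nat_lit 6) (nat_lit 15) (nat_lit 4) (nat_lit 100) (nat_lit 146) (nat_lit 144))))) (PT.nd (nat_lit 3432) (PT.nd (nat_lit 3276) (PT.lf (nat_lit 1292) (nat_lit 6) (nat_lit 17) (nat_lit 4) (nat_lit 101) (nat_lit 146) (nat_lit 143)) (PT.nd (nat_lit 78) (PT.lf (nat_lit 1292) (nat_lit 6) (nat_lit 17) (nat_lit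 2) (nat_lit 143) (nat_lit 146) (nat_lit 101)) (PT.lf (nat_lit 1140) (nat_lit 6) (nat_lit 15) (nat_lit 2) (nat_lit 144) (nat_lit 146) (nat_lit 100)))) (PT.nd (nat_lit 78) (PT.lf (nat_lit 1064) (nat_lit 6) (nat_lit 14) (nat_lit 2) (nat_lit 145) (nat_lit 146) (nat_lit 99)) (PT.nd (nat_lit 78) (PT.lf (nat_lit 988) (nat_lit 3) (nat_lit 13) (nat_lit 0) (nat_lit 146) (nat_lit 146) (nat_lit 98)) (PT.lf (nat_lit 836) (nat_lit 6) (nat_lit 11) (nat_lit 0) (nat_lit 147) (nat_lit 146) (nat_lit 97)))))) (PT.nd (nat_lit 40404) (PT.nd (nat_lit 36582) (PT.nd (nat_lit 36426) (PT.lf (nat_lit 684) (nat_lit 6) (nat_lit 9) (nat_lit 0) (nat_lit 148) (nat_lit 146) (nat_lit 96)) (PT.nd (nat_lit 78) (PT.lf (nat_lit 456) (nat_lit 6) (nat_lit 6) (nat_lit 5) (nat_lit 94) (nat_lit 147) (nat_lit 149)) (PT.lf (nat_lit 608) (nat_lit 6) (nat_lit 8) (nat_lit 5) (nat_lit 95) (nat_lit 147) (nat_lit 148)))) (PT.nd (nat_lit 78)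 (PT.lf (nat_lit 760) (nat_lit 3) (nat_lit 10) (nat_lit 4) (nat_lit 96) (nat_lit 147) (nat_lit 147)) (PT.nd (nat_lit 78) (PT.lf (nat_lit 836) (nat_lit 6) (nat_lit 11) (nat_lit 4) (nat_lit 97) (nat_lit 147) (nat_lit 146)) (PT.lf (nat_lit 912) (nat_lit 6) (nat_lit 12) (nat_lit 4) (nat_lit 98) (nat_lit 147) (nat_lit 145))))) (PT.nd (nat_lit 234) (PT.nd (nat_lit 78) (PT.lf (nat_lit 912) (nat_lit 6) (nat_lit 12) (nat_lit 2) (nat_lit 145) (nat_lit 147) (nat_lit 98)) (PT.nd (nat_lit 78) (PT.lf (nat_lit 836) (nat_lit 6) (nat_lit 11) (nat_lit 2) (nat_lit 146) (nat_lit 147) (nat_lit 97)) (PT.lf (nat_lit 760) (nat_lit 3) (nat_lit 10) (nat_lit 0) (nat_lit 147) (nat_lit 147) (nat_lit 96)))) (PT.nd (nat_lit 78) (PT.lf (nat_lit 608) (nat_lit 6) (nat_lit 8) (nat_lit 0) (nat_lit 148) (nat_lit 147) (nat_lit 95)) (PT.nd (nat_lit 36192) (PT.lf (nat_lit 456) (nat_lit 6) (nat_lit 6) (nat_lit 0) (nat_lit 149) (nat_lit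 147) (nat_lit 94)) (PT.lf (nat_lit 228) (nat_lit 6) (nat_lit 3) (nat_lit 5) (nat_lit 92) (nat_lit 148) (nat_lit 150))))))) (PT.nd (nat_lit 40638) (PT.nd (nat_lit 4212) (PT.nd (nat_lit 156) (PT.nd (nat_lit 78) (PT.lf (nat_lit 380) (nat_lit 6) (nat_lit 5) (nat_lit 5) (nat_lit 93) (nat_lit 148) (nat_lit 149)) (PT.lf (nat_lit 532) (nat_lit 3) (nat_lit 7) (nat_lit 4) (nat_lit 94) (nat_lit 148) (nat_lit 148))) (PT.nd (nat_lit 78) (PT.lf (nat_lit 608) (nat_lit 6) (nat_lit 8) (nat_lit 4) (nat_lit 95) (nat_lit 148) (nat_lit 147)) (PT.nd (nat_lit 3900) (PT.lf (nat_lit 684) (nat_lit 6) (nat_lit 9) (nat_lit 4) (nat_lit 96) (nat_lit 148) (nat_lit 146)) (PT.lf (nat_lit 684) (nat_lit 6) (nat_lit 9) (nat_lit 2) (nat_lit 146) (nat_lit 148) (nat_lit 96))))) (PT.nd (nat_lit 234) (PT.nd (nat_lit 78) (PT.lf (nat_lit 608) (nat_lit 6) (nat_lit 8) (nat_lit 2) (nat_lit 147) (nat_lit 148) (nat_lit 95)) (PT.nd (nat_lit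 78) (PT.lf (nat_lit 532) (nat_lit 3) (nat_lit 7) (nat_lit 0) (nat_lit 148) (nat_lit 148) (nat_lit 94)) (PT.lf (nat_lit 380) (nat_lit 6) (nat_lit 5) (nat_lit 0) (nat_lit 149) (nat_lit 148) (nat_lit 93)))) (PT.nd (nat_lit 36036) (PT.lf (nat_lit 228) (nat_lit 6) (nat_lit 3) (nat_lit 0) (nat_lit 150) (nat_lit 148) (nat_lit 92)) (PT.nd (nat_lit 78) (PT.lf (nat_lit 152) (nat_lit 6) (nat_lit 2) (nat_lit 5) (nat_lit 91) (nat_lit 149) (nat_lit 150)) (PT.lf (nat_lit 304) (nat_lit 3) (nat_lit 4) (nat_lit 4) (nat_lit 92) (nat_lit 149) (nat_lit 149)))))) (PT.nd (nat_lit 40404) (PT.nd (nat_lit 4290) (PT.nd (nat_lit 78) (PT.lf (nat_lit 380) (nat_lit 6) (nat_lit 5) (nat_lit 4) (nat_lit 93) (nat_lit 149) (nat_lit 148)) (PT.nd (nat_lit 4134) (PT.lf (nat_lit 456) (nat_lit 6) (nat_lit 6) (nat_lit 4) (nat_lit 94) (nat_lit 149) (nat_lit 147)) (PT.lf (nat_lit 456) (nat_lit 6) (nat_lit 6) (nat_lit 2) (nat_lit 147)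 (nat_lit 149) (nat_lit 94)))) (PT.nd (nat_lit 78) (PT.lf (nat_lit 380) (nat_lit 6) (nat_lit 5) (nat_lit 2) (nat_lit 148) (nat_lit 149) (nat_lit 93)) (PT.nd (nat_lit 78) (PT.lf (nat_lit 304) (nat_lit 3) (nat_lit 4) (nat_lit 0) (nat_lit 149) (nat_lit 149) (nat_lit 92)) (PT.lf (nat_lit 152) (nat_lit 6) (nat_lit 2) (nat_lit 0) (nat_lit 150) (nat_lit 149) (nat_lit 91))))) (PT.nd (nat_lit 4524) (PT.nd (nat_lit 78) (PT.lf (nat_lit 76) (nat_lit 3) (nat_lit 1) (nat_lit 4) (nat_lit 90) (nat_lit 150) (nat_lit 150)) (PT.nd (nat_lit 78) (PT.lf (nat_lit 152) (nat_lit 6) (nat_lit 2) (nat_lit 4) (nat_lit 91) (nat_lit 150) (nat_lit 149)) (PT.lf (nat_lit 228) (nat_lit 6) (nat_lit 3) (nat_lit 4) (nat_lit 92) (nat_lit 150) (nat_lit 148)))) (PT.nd (nat_lit 78) (PT.lf (nat_lit 228) (nat_lit 6) (nat_lit 3) (nat_lit 2) (nat_lit 148) (nat_lit 150) (nat_lit 92)) (PT.nd (nat_lit 78) (PT.lf (nat_lit 152) (nat_lit 6)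 (nat_lit 2) (nat_lit 2) (nat_lit 149) (nat_lit 150) (nat_lit 91)) (PT.lf (nat_lit 76) (nat_lit 3) (nat_lit 1) (nat_lit 0) (nat_lit 150) (nat_lit 150) (nat_lit 90))))))))
noncomputable def xc0 : XT := (XT.nd (nat_lit 162396) (nat_lit 0) (nat_lit 0) (XT.nd (nat_lit 121524) (nat_lit 0) (nat_lit 0) (XT.nd (nat_lit 80964) (nat_lit 0) (nat_lit 0) (XT.nd (nat_lit 40560) (nat_lit 0) (nat_lit 0) (XT.nd (nat_lit 40404) (nat_lit 0) (nat_lit 0) (XT.lf (nat_lit 0) (nat_lit 14049480534) (nat_lit 76) (nat_lit 84303327980) (nat_lit 76) (nat_lit 84151614923) (nat_lit 1) (nat_lit 4) (nat_lit 2) (nat_lit 5) (nat_lit 2) (nat_lit 4) (nat_lit 363) (nat_lit 209) (nat_lit 208)) (XT.nd (nat_lit 78) (nat_lit 76) (nat_lit 0) (XT.lf (nat_lit 0) (nat_lit 38469545104) (nat_lit 152) (nat_lit 2018369763) (nat_lit 0) (nat_lit 38469545104) (nat_lit 2) (nat_lit 5) (nat_lit 4) (nat_lit 4) (nat_lit 2) (nat_lit 4) (nat_lit 360)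 (nat_lit 210) (nat_lit 210)) (XT.lf (nat_lit 0) (nat_lit 1770281850) (nat_lit 76) (nat_lit 82051368939) (nat_lit 76) (nat_lit 81892070230) (nat_lit 1) (nat_lit 4) (nat_lit 2) (nat_lit 5) (nat_lit 2) (nat_lit 4) (nat_lit 361) (nat_lit 210) (nat_lit 209)))) (XT.nd (nat_lit 78) (nat_lit 0) (nat_lit 0) (XT.lf (nat_lit 0) (nat_lit 7760134867) (nat_lit 76) (nat_lit 83227592232) (nat_lit 76) (nat_lit 82916580466) (nat_lit 1) (nat_lit 4) (nat_lit 2) (nat_lit 5) (nat_lit 2) (nat_lit 4) (nat_lit 362) (nat_lit 210) (nat_lit 208)) (XT.nd (nat_lit 40248) (nat_lit 0) (nat_lit 76) (XT.lf (nat_lit 0) (nat_lit 13866742045) (nat_lit 76) (nat_lit 84548063299) (nat_lit 76) (nat_lit 84092562906) (nat_lit 1) (nat_lit 4) (nat_lit 2) (nat_lit 5) (nat_lit 2) (nat_lit 4) (nat_lit 363) (nat_lit 210) (nat_lit 207)) (XT.lf (nat_lit 0) (nat_lit 32046619003) (nat_lit 152) (nat_lit 7616903419) (nat_lit 0) (nat_lit 32046619003)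 (nat_lit 2) (nat_lit 5) (nat_lit 4) (nat_lit 4) (nat_lit 2) (nat_lit 4) (nat_lit 358) (nat_lit 211) (nat_lit 211))))) (XT.nd (nat_lit 234) (nat_lit 0) (nat_lit 0) (XT.nd (nat_lit 78) (nat_lit 76) (nat_lit 0) (XT.lf (nat_lit 0) (nat_lit 70467418398) (nat_lit 152) (nat_lit 9722467713) (nat_lit 0) (nat_lit 70300154753) (nat_lit 2) (nat_lit 5) (nat_lit 4) (nat_lit 4) (nat_lit 2) (nat_lit 4) (nat_lit 359) (nat_lit 211) (nat_lit 210)) (XT.nd (nat_lit 78) (nat_lit 76) (nat_lit 0) (XT.lf (nat_lit 0) (nat_lit 77054969132) (nat_lit 152) (nat_lit 4133099425) (nat_lit 0) (nat_lit 76728406777) (nat_lit 2) (nat_lit 5) (nat_lit 4) (nat_lit 4) (nat_lit 2) (nat_lit 4) (nat_lit 360) (nat_lit 211) (nat_lit 209)) (XT.lf (nat_lit 0) (nat_lit 1578406437) (nat_lit 76) (nat_lit 82308341024) (nat_lit 76) (nat_lit 81830065612) (nat_lit 1) (nat_lit 4) (nat_lit 2) (nat_lit 5) (nat_lit 2) (nat_lit 4) (nat_lit 361) (nat_lit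 211) (nat_lit 208)))) (XT.nd (nat_lit 40170) (nat_lit 0) (nat_lit 76) (XT.nd (nat_lit 78) (nat_lit 0) (nat_lit 0) (XT.lf (nat_lit 0) (nat_lit 7479118727) (nat_lit 76) (nat_lit 83526240711) (nat_lit 76) (nat_lit 82903476674) (nat_lit 1) (nat_lit 4) (nat_lit 2) (nat_lit 5) (nat_lit 2) (nat_lit 4) (nat_lit 362) (nat_lit 211) (nat_lit 207)) (XT.lf (nat_lit 0) (nat_lit 13500829976) (nat_lit 76) (nat_lit 84886403582) (nat_lit 76) (nat_lit 84126031329) (nat_lit 1) (nat_lit 4) (nat_lit 2) (nat_lit 5) (nat_lit 2) (nat_lit 4) (nat_lit 363) (nat_lit 211) (nat_lit 206))) (XT.nd (nat_lit 78) (nat_lit 0) (nat_lit 0) (XT.lf (nat_lit 0) (nat_lit 26078516070) (nat_lit 152) (nat_lit 12984247608) (nat_lit 0) (nat_lit 26078516070) (nat_lit 2) (nat_lit 5) (nat_lit 4) (nat_lit 4) (nat_lit 2) (nat_lit 4) (nat_lit 356) (nat_lit 212) (nat_lit 212)) (XT.lf (nat_lit 0) (nat_lit 58092878163) (nat_lit 152) (nat_lit 20680239037)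 (nat_lit 0) (nat_lit 57917251336) (nat_lit 2) (nat_lit 5) (nat_lit 4) (nat_lit 4) (nat_lit 2) (nat_lit 4) (nat_lit 357) (nat_lit 212) (nat_lit 211)))))) (XT.nd (nat_lit 40326) (nat_lit 0) (nat_lit 76) (XT.nd (nat_lit 234) (nat_lit 76) (nat_lit 0) (XT.nd (nat_lit 78) (nat_lit 0) (nat_lit 0) (XT.lf (nat_lit 0) (nat_lit 64214910877) (nat_lit 152) (nat_lit 15334984733) (nat_lit 0) (nat_lit 63872020404) (nat_lit 2) (nat_lit 5) (nat_lit 4) (nat_lit 4) (nat_lit 2) (nat_lit 4) (nat_lit 358) (nat_lit 212) (nat_lit 210)) (XT.nd (nat_lit 78) (nat_lit 0) (nat_lit 0) (XT.lf (nat_lit 0) (nat_lit 70537706548) (nat_lit 152) (nat_lit 9920005507) (nat_lit 0) (nat_lit 70035517365) (nat_lit 2) (nat_lit 5) (nat_lit 4) (nat_lit 4) (nat_lit 2) (nat_lit 4) (nat_lit 359) (nat_lit 212) (nat_lit 209)) (XT.lf (nat_lit 0) (nat_lit 77076319453) (nat_lit 152) (nat_lit 4422408553) (nat_lit 0) (nat_lit 76422417213) (nat_lit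 2) (nat_lit 5) (nat_lit 4) (nat_lit 4) (nat_lit 2) (nat_lit 4) (nat_lit 360) (nat_lit 212) (nat_lit 208)))) (XT.nd (nat_lit 78) (nat_lit 0) (nat_lit 0) (XT.lf (nat_lit 0) (nat_lit 1194198765) (nat_lit 76) (nat_lit 82663598321) (nat_lit 76) (nat_lit 81865207456) (nat_lit 1) (nat_lit 4) (nat_lit 2) (nat_lit 5) (nat_lit 2) (nat_lit 4) (nat_lit 361) (nat_lit 212) (nat_lit 207)) (XT.nd (nat_lit 78) (nat_lit 0) (nat_lit 0) (XT.lf (nat_lit 0) (nat_lit 7010015125) (nat_lit 76) (nat_lit 83921189813) (nat_lit 76) (nat_lit 82985190733) (nat_lit 1) (nat_lit 4) (nat_lit 2) (nat_lit 5) (nat_lit 2) (nat_lit 4) (nat_lit 362) (nat_lit 212) (nat_lit 206)) (XT.lf (nat_lit 0) (nat_lit 12950873108) (nat_lit 76) (nat_lit 85319154402) (nat_lit 76) (nat_lit 84252099879) (nat_lit 1) (nat_lit 4) (nat_lit 2) (nat_lit 5) (nat_lit 2) (nat_lit 4) (nat_lit 363) (nat_lit 212) (nat_lit 205))))) (XT.nd (nat_lit 234) (nat_lit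 0) (nat_lit 0) (XT.nd (nat_lit 78) (nat_lit 0) (nat_lit 0) (XT.lf (nat_lit 0) (nat_lit 20515835177) (nat_lit 152) (nat_lit 18156361593) (nat_lit 0) (nat_lit 20515835177) (nat_lit 2) (nat_lit 5) (nat_lit 4) (nat_lit 4) (nat_lit 2) (nat_lit 4) (nat_lit 354) (nat_lit 213) (nat_lit 213)) (XT.nd (nat_lit 78) (nat_lit 0) (nat_lit 0) (XT.lf (nat_lit 0) (nat_lit 46577648009) (nat_lit 152) (nat_lit 31212344358) (nat_lit 0) (nat_lit 46393239840) (nat_lit 2) (nat_lit 5) (nat_lit 4) (nat_lit 4) (nat_lit 2) (nat_lit 4) (nat_lit 355) (nat_lit 213) (nat_lit 212)) (XT.lf (nat_lit 0) (nat_lit 52284788654) (nat_lit 152) (nat_lit 26074732006) (nat_lit 0) (nat_lit 51924753658) (nat_lit 2) (nat_lit 5) (nat_lit 4) (nat_lit 4) (nat_lit 2) (nat_lit 4) (nat_lit 356) (nat_lit 213) (nat_lit 211)))) (XT.nd (nat_lit 156) (nat_lit 0) (nat_lit 0) (XT.nd (nat_lit 78) (nat_lit 0) (nat_lit 0) (XT.lf (nat_lit 0) (nat_lit 58166680721)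 (nat_lit 152) (nat_lit 20887653721) (nat_lit 0) (nat_lit 57639382079) (nat_lit 2) (nat_lit 5) (nat_lit 4) (nat_lit 4) (nat_lit 2) (nat_lit 4) (nat_lit 357) (nat_lit 213) (nat_lit 210)) (XT.lf (nat_lit 0) (nat_lit 64237328714) (nat_lit 152) (nat_lit 15638759316) (nat_lit 0) (nat_lit 63550731362) (nat_lit 2) (nat_lit 5) (nat_lit 4) (nat_lit 4) (nat_lit 2) (nat_lit 4) (nat_lit 358) (nat_lit 213) (nat_lit 209))) (XT.nd (nat_lit 78) (nat_lit 0) (nat_lit 0) (XT.lf (nat_lit 0) (nat_lit 70511186556) (nat_lit 152) (nat_lit 10315551424) (nat_lit 0) (nat_lit 69672876147) (nat_lit 2) (nat_lit 5) (nat_lit 4) (nat_lit 4) (nat_lit 2) (nat_lit 4) (nat_lit 359) (nat_lit 213) (nat_lit 208)) (XT.lf (nat_lit 0) (nat_lit 77003192004) (nat_lit 152) (nat_lit 4905355739) (nat_lit 0) (nat_lit 76020392970) (nat_lit 2) (nat_lit 5) (nat_lit 4) (nat_lit 4) (nat_lit 2) (nat_lit 4) (nat_lit 360) (nat_lit 213) (nat_lit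 207))))))) (XT.nd (nat_lit 40716) (nat_lit 0) (nat_lit 0) (XT.nd (nat_lit 40170) (nat_lit 0) (nat_lit 76) (XT.nd (nat_lit 39936) (nat_lit 0) (nat_lit 76) (XT.nd (nat_lit 78) (nat_lit 0) (nat_lit 0) (XT.lf (nat_lit 0) (nat_lit 616744053) (nat_lit 76) (nat_lit 83117986683) (nat_lit 76) (nat_lit 81997579433) (nat_lit 1) (nat_lit 4) (nat_lit 2) (nat_lit 5) (nat_lit 2) (nat_lit 4) (nat_lit 361) (nat_lit 213) (nat_lit 206)) (XT.nd (nat_lit 78) (nat_lit 0) (nat_lit 0) (XT.lf (nat_lit 0) (nat_lit 6351707147) (nat_lit 76) (nat_lit 84413379893) (nat_lit 76) (nat_lit 83161917201) (nat_lit 1) (nat_lit 4) (nat_lit 2) (nat_lit 5) (nat_lit 2) (nat_lit 4) (nat_lit 362) (nat_lit 213) (nat_lit 205)) (XT.lf (nat_lit 0) (nat_lit 12215562019) (nat_lit 76) (nat_lit 85847346119) (nat_lit 76) (nat_lit 84471068719) (nat_lit 1) (nat_lit 4) (nat_lit 2) (nat_lit 5) (nat_lit 2) (nat_lit 4) (nat_lit 363) (nat_lit 213)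 (nat_lit 204)))) (XT.nd (nat_lit 78) (nat_lit 0) (nat_lit 0) (XT.lf (nat_lit 0) (nat_lit 15313412245) (nat_lit 152) (nat_lit 23166584756) (nat_lit 0) (nat_lit 15313412245) (nat_lit 2) (nat_lit 5) (nat_lit 4) (nat_lit 4) (nat_lit 2) (nat_lit 4) (nat_lit 352) (nat_lit 214) (nat_lit 214)) (XT.nd (nat_lit 78) (nat_lit 0) (nat_lit 0) (XT.lf (nat_lit 0) (nat_lit 35827279558) (nat_lit 152) (nat_lit 41388012250) (nat_lit 0) (nat_lit 35633650981) (nat_lit 2) (nat_lit 5) (nat_lit 4) (nat_lit 4) (nat_lit 2) (nat_lit 4) (nat_lit 353) (nat_lit 214) (nat_lit 213)) (XT.lf (nat_lit 0) (nat_lit 41165814694) (nat_lit 152) (nat_lit 36424271815) (nat_lit 0) (nat_lit 40787777947) (nat_lit 2) (nat_lit 5) (nat_lit 4) (nat_lit 4) (nat_lit 2) (nat_lit 4) (nat_lit 354) (nat_lit 214) (nat_lit 212))))) (XT.nd (nat_lit 234) (nat_lit 0) (nat_lit 0) (XT.nd (nat_lit 78) (nat_lit 0) (nat_lit 0) (XT.lf (nat_lit 0) (nat_lit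 46655140694) (nat_lit 152) (nat_lit 31430129776) (nat_lit 0) (nat_lit 46101477120) (nat_lit 2) (nat_lit 5) (nat_lit 4) (nat_lit 4) (nat_lit 2) (nat_lit 4) (nat_lit 355) (nat_lit 214) (nat_lit 211)) (XT.nd (nat_lit 78) (nat_lit 0) (nat_lit 0) (XT.lf (nat_lit 0) (nat_lit 52308327383) (nat_lit 152) (nat_lit 26393695319) (nat_lit 0) (nat_lit 51587400164) (nat_lit 2) (nat_lit 5) (nat_lit 4) (nat_lit 4) (nat_lit 2) (nat_lit 4) (nat_lit 356) (nat_lit 214) (nat_lit 210)) (XT.lf (nat_lit 0) (nat_lit 58138834729) (nat_lit 152) (nat_lit 21302976934) (nat_lit 0) (nat_lit 57258608800) (nat_lit 2) (nat_lit 5) (nat_lit 4) (nat_lit 4) (nat_lit 2) (nat_lit 4) (nat_lit 357) (nat_lit 214) (nat_lit 209)))) (XT.nd (nat_lit 156) (nat_lit 0) (nat_lit 0) (XT.nd (nat_lit 78) (nat_lit 0) (nat_lit 0) (XT.lf (nat_lit 0) (nat_lit 64160544892) (nat_lit 152) (nat_lit 16145853862) (nat_lit 0) (nat_lit 63128605906) (nat_lit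 2) (nat_lit 5) (nat_lit 4) (nat_lit 4) (nat_lit 2) (nat_lit 4) (nat_lit 358) (nat_lit 214) (nat_lit 208)) (XT.lf (nat_lit 0) (nat_lit 70387795278) (nat_lit 152) (nat_lit 10910047239) (nat_lit 0) (nat_lit 69211367666) (nat_lit 2) (nat_lit 5) (nat_lit 4) (nat_lit 4) (nat_lit 2) (nat_lit 4) (nat_lit 359) (nat_lit 214) (nat_lit 207))) (XT.nd (nat_lit 78) (nat_lit 0) (nat_lit 0) (XT.lf (nat_lit 0) (nat_lit 76835412673) (nat_lit 152) (nat_lit 5583090858) (nat_lit 0) (nat_lit 75521376846) (nat_lit 2) (nat_lit 5) (nat_lit 4) (nat_lit 4) (nat_lit 2) (nat_lit 4) (nat_lit 360) (nat_lit 214) (nat_lit 206)) (XT.lf (nat_lit 0) (nat_lit 83518748547) (nat_lit 152) (nat_lit 152301491) (nat_lit 0) (nat_lit 82073657277) (nat_lit 2) (nat_lit 5) (nat_lit 4) (nat_lit 4) (nat_lit 2) (nat_lit 4) (nat_lit 361) (nat_lit 214) (nat_lit 205)))))) (XT.nd (nat_lit 40014) (nat_lit 0) (nat_lit 76) (XT.nd (nat_lit 39780)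 (nat_lit 0) (nat_lit 76) (XT.nd (nat_lit 78) (nat_lit 0) (nat_lit 0) (XT.lf (nat_lit 0) (nat_lit 5502627393) (nat_lit 76) (nat_lit 85003982832) (nat_lit 76) (nat_lit 83434076855) (nat_lit 1) (nat_lit 4) (nat_lit 2) (nat_lit 5) (nat_lit 2) (nat_lit 4) (nat_lit 362) (nat_lit 214) (nat_lit 204)) (XT.nd (nat_lit 39624) (nat_lit 0) (nat_lit 76) (XT.lf (nat_lit 0) (nat_lit 11293145969) (nat_lit 76) (nat_lit 86472236330) (nat_lit 76) (nat_lit 84783459203) (nat_lit 1) (nat_lit 4) (nat_lit 2) (nat_lit 5) (nat_lit 2) (nat_lit 4) (nat_lit 363) (nat_lit 214) (nat_lit 203)) (XT.lf (nat_lit 0) (nat_lit 10429908534) (nat_lit 152) (nat_lit 28045916336) (nat_lit 0) (nat_lit 10429908534) (nat_lit 2) (nat_lit 5) (nat_lit 4) (nat_lit 4) (nat_lit 2) (nat_lit 4) (nat_lit 350) (nat_lit 215) (nat_lit 215)))) (XT.nd (nat_lit 78) (nat_lit 0) (nat_lit 0) (XT.lf (nat_lit 0) (nat_lit 25755377458) (nat_lit 152) (nat_lit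 51271517783) (nat_lit 0) (nat_lit 25552067452) (nat_lit 2) (nat_lit 5) (nat_lit 4) (nat_lit 4) (nat_lit 2) (nat_lit 4) (nat_lit 351) (nat_lit 215) (nat_lit 214)) (XT.nd (nat_lit 78) (nat_lit 0) (nat_lit 0) (XT.lf (nat_lit 0) (nat_lit 30767676047) (nat_lit 152) (nat_lit 46450295572) (nat_lit 0) (nat_lit 30370737463) (nat_lit 2) (nat_lit 5) (nat_lit 4) (nat_lit 4) (nat_lit 2) (nat_lit 4) (nat_lit 352) (nat_lit 215) (nat_lit 213)) (XT.lf (nat_lit 0) (nat_lit 35908646878) (nat_lit 152) (nat_lit 41616686939) (nat_lit 0) (nat_lit 35327300125) (nat_lit 2) (nat_lit 5) (nat_lit 4) (nat_lit 4) (nat_lit 2) (nat_lit 4) (nat_lit 353) (nat_lit 215) (nat_lit 212))))) (XT.nd (nat_lit 234) (nat_lit 0) (nat_lit 0) (XT.nd (nat_lit 78) (nat_lit 0) (nat_lit 0) (XT.lf (nat_lit 0) (nat_lit 41190530359) (nat_lit 152) (nat_lit 36759183293) (nat_lit 0) (nat_lit 40433556779) (nat_lit 2) (nat_lit 5) (nat_lit 4) (nat_lit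 4) (nat_lit 2) (nat_lit 4) (nat_lit 354) (nat_lit 215) (nat_lit 211)) (XT.nd (nat_lit 78) (nat_lit 0) (nat_lit 0) (XT.lf (nat_lit 0) (nat_lit 46625902402) (nat_lit 152) (nat_lit 31866219149) (nat_lit 0) (nat_lit 45701665177) (nat_lit 2) (nat_lit 5) (nat_lit 4) (nat_lit 4) (nat_lit 2) (nat_lit 4) (nat_lit 355) (nat_lit 215) (nat_lit 210)) (XT.lf (nat_lit 0) (nat_lit 52227704371) (nat_lit 152) (nat_lit 26926144592) (nat_lit 0) (nat_lit 51144168435) (nat_lit 2) (nat_lit 5) (nat_lit 4) (nat_lit 4) (nat_lit 2) (nat_lit 4) (nat_lit 356) (nat_lit 215) (nat_lit 209)))) (XT.nd (nat_lit 156) (nat_lit 0) (nat_lit 0) (XT.nd (nat_lit 78) (nat_lit 0) (nat_lit 0) (XT.lf (nat_lit 0) (nat_lit 58009273887) (nat_lit 152) (nat_lit 21927197540) (nat_lit 0) (nat_lit 56774024895) (nat_lit 2) (nat_lit 5) (nat_lit 4) (nat_lit 4) (nat_lit 2) (nat_lit 4) (nat_lit 357) (nat_lit 215) (nat_lit 208)) (XT.lf (nat_lit 0)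 (nat_lit 63984376594) (nat_lit 152) (nat_lit 16857475737) (nat_lit 0) (nat_lit 62604638976) (nat_lit 2) (nat_lit 5) (nat_lit 4) (nat_lit 4) (nat_lit 2) (nat_lit 4) (nat_lit 358) (nat_lit 215) (nat_lit 207))) (XT.nd (nat_lit 78) (nat_lit 0) (nat_lit 0) (XT.lf (nat_lit 0) (nat_lit 70167238926) (nat_lit 152) (nat_lit 11704908418) (nat_lit 0) (nat_lit 68649893093) (nat_lit 2) (nat_lit 5) (nat_lit 4) (nat_lit 4) (nat_lit 2) (nat_lit 4) (nat_lit 359) (nat_lit 215) (nat_lit 206)) (XT.lf (nat_lit 0) (nat_lit 76572581984) (nat_lit 152) (nat_lit 6457227566) (nat_lit 0) (nat_lit 74924180708) (nat_lit 2) (nat_lit 5) (nat_lit 4) (nat_lit 4) (nat_lit 2) (nat_lit 4) (nat_lit 360) (nat_lit 215) (nat_lit 205))))))))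
noncomputable def xc1 : XT := (XT.nd (nat_lit 80652) (nat_lit 0) (nat_lit 0) (XT.nd (nat_lit 40404) (nat_lit 0) (nat_lit 0) (XT.nd (nat_lit 39858) (nat_lit 0) (nat_lit 76) (XT.nd (nat_lit 39624) (nat_lit 0) (nat_lit 76) (XT.nd (nat_lit 78) (nat_lit 76) (nat_lit 0) (XT.lf (nat_lit 0) (nat_lit 83215656585) (nat_lit 152) (nat_lit 1101938701) (nat_lit 0) (nat_lit 81442440602) (nat_lit 2) (nat_lit 5) (nat_lit 4) (nat_lit 4) (nat_lit 2) (nat_lit 4) (nat_lit 361) (nat_lit 215) (nat_lit 204)) (XT.nd (nat_lit 78) (nat_lit 0) (nat_lit 0) (XT.lf (nat_lit 0) (nat_lit 4460754244) (nat_lit 76) (nat_lit 85694404827) (nat_lit 76) (nat_lit 83802317693) (nat_lit 1) (nat_lit 4) (nat_lit 2) (nat_lit 5) (nat_lit 2) (nat_lit 4) (nat_lit 362) (nat_lit 215) (nat_lit 203)) (XT.lf (nat_lit 0) (nat_lit 10181428728) (nat_lit 76) (nat_lit 87195312871) (nat_lit 76) (nat_lit 85190015119) (nat_lit 1) (nat_lit 4) (nat_lit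 2) (nat_lit 5) (nat_lit 2) (nat_lit 4) (nat_lit 363) (nat_lit 215) (nat_lit 202)))) (XT.nd (nat_lit 78) (nat_lit 0) (nat_lit 0) (XT.lf (nat_lit 0) (nat_lit 5827436321) (nat_lit 152) (nat_lit 32823270968) (nat_lit 0) (nat_lit 5827436321) (nat_lit 2) (nat_lit 5) (nat_lit 4) (nat_lit 4) (nat_lit 2) (nat_lit 4) (nat_lit 348) (nat_lit 216) (nat_lit 216)) (XT.nd (nat_lit 78) (nat_lit 0) (nat_lit 0) (XT.lf (nat_lit 0) (nat_lit 16282814288) (nat_lit 152) (nat_lit 60922717182) (nat_lit 0) (nat_lit 16069338781) (nat_lit 2) (nat_lit 5) (nat_lit 4) (nat_lit 4) (nat_lit 2) (nat_lit 4) (nat_lit 349) (nat_lit 216) (nat_lit 215)) (XT.lf (nat_lit 0) (nat_lit 21007711203) (nat_lit 152) (nat_lit 56214815036) (nat_lit 0) (nat_lit 20590925690) (nat_lit 2) (nat_lit 5) (nat_lit 4) (nat_lit 4) (nat_lit 2) (nat_lit 4) (nat_lit 350) (nat_lit 216) (nat_lit 214))))) (XT.nd (nat_lit 234) (nat_lit 0) (nat_lit 0) (XT.nd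 (nat_lit 78) (nat_lit 0) (nat_lit 0) (XT.lf (nat_lit 0) (nat_lit 25840813144) (nat_lit 152) (nat_lit 51511626206) (nat_lit 0) (nat_lit 25230399054) (nat_lit 2) (nat_lit 5) (nat_lit 4) (nat_lit 4) (nat_lit 2) (nat_lit 4) (nat_lit 351) (nat_lit 216) (nat_lit 213)) (XT.nd (nat_lit 78) (nat_lit 0) (nat_lit 0) (XT.lf (nat_lit 0) (nat_lit 30793627495) (nat_lit 152) (nat_lit 46801952624) (nat_lit 0) (nat_lit 29998805236) (nat_lit 2) (nat_lit 5) (nat_lit 4) (nat_lit 4) (nat_lit 2) (nat_lit 4) (nat_lit 352) (nat_lit 216) (nat_lit 212)) (XT.lf (nat_lit 0) (nat_lit 35877946672) (nat_lit 152) (nat_lit 42074580781) (nat_lit 0) (nat_lit 34907497585) (nat_lit 2) (nat_lit 5) (nat_lit 4) (nat_lit 4) (nat_lit 2) (nat_lit 4) (nat_lit 353) (nat_lit 216) (nat_lit 211)))) (XT.nd (nat_lit 156) (nat_lit 0) (nat_lit 0) (XT.nd (nat_lit 78) (nat_lit 0) (nat_lit 0) (XT.lf (nat_lit 0) (nat_lit 41105876196) (nat_lit 152)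 (nat_lit 37318255030) (nat_lit 0) (nat_lit 39968163464) (nat_lit 2) (nat_lit 5) (nat_lit 4) (nat_lit 4) (nat_lit 2) (nat_lit 4) (nat_lit 354) (nat_lit 216) (nat_lit 210)) (XT.lf (nat_lit 0) (nat_lit 46489863519) (nat_lit 152) (nat_lit 32521650785) (nat_lit 0) (nat_lit 45192852077) (nat_lit 2) (nat_lit 5) (nat_lit 4) (nat_lit 4) (nat_lit 2) (nat_lit 4) (nat_lit 355) (nat_lit 216) (nat_lit 209))) (XT.nd (nat_lit 78) (nat_lit 0) (nat_lit 0) (XT.lf (nat_lit 0) (nat_lit 52042727658) (nat_lit 152) (nat_lit 27673347561) (nat_lit 0) (nat_lit 50594003159) (nat_lit 2) (nat_lit 5) (nat_lit 4) (nat_lit 4) (nat_lit 2) (nat_lit 4) (nat_lit 356) (nat_lit 216) (nat_lit 208)) (XT.lf (nat_lit 0) (nat_lit 57777689718) (nat_lit 152) (nat_lit 22761801778) (nat_lit 0) (nat_lit 56184476593) (nat_lit 2) (nat_lit 5) (nat_lit 4) (nat_lit 4) (nat_lit 2) (nat_lit 4) (nat_lit 357) (nat_lit 216) (nat_lit 207)))))) (XT.nd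 (nat_lit 39702) (nat_lit 0) (nat_lit 76) (XT.nd (nat_lit 234) (nat_lit 76) (nat_lit 0) (XT.nd (nat_lit 78) (nat_lit 0) (nat_lit 0) (XT.lf (nat_lit 0) (nat_lit 63708404371) (nat_lit 152) (nat_lit 17775319280) (nat_lit 0) (nat_lit 61977583031) (nat_lit 2) (nat_lit 5) (nat_lit 4) (nat_lit 4) (nat_lit 2) (nat_lit 4) (nat_lit 358) (nat_lit 216) (nat_lit 206)) (XT.nd (nat_lit 78) (nat_lit 0) (nat_lit 0) (XT.lf (nat_lit 0) (nat_lit 69848992366) (nat_lit 152) (nat_lit 12702027489) (nat_lit 0) (nat_lit 67987115584) (nat_lit 2) (nat_lit 5) (nat_lit 4) (nat_lit 4) (nat_lit 2) (nat_lit 4) (nat_lit 359) (nat_lit 216) (nat_lit 205)) (XT.lf (nat_lit 0) (nat_lit 76214074151) (nat_lit 152) (nat_lit 7529847139) (nat_lit 0) (nat_lit 74227382661) (nat_lit 2) (nat_lit 5) (nat_lit 4) (nat_lit 4) (nat_lit 2) (nat_lit 4) (nat_lit 360) (nat_lit 216) (nat_lit 204)))) (XT.nd (nat_lit 78) (nat_lit 76) (nat_lit 0) (XT.lf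 (nat_lit 0) (nat_lit 82818804682) (nat_lit 152) (nat_lit 2246463516) (nat_lit 0) (nat_lit 80713242042) (nat_lit 2) (nat_lit 5) (nat_lit 4) (nat_lit 4) (nat_lit 2) (nat_lit 4) (nat_lit 361) (nat_lit 216) (nat_lit 203)) (XT.nd (nat_lit 78) (nat_lit 0) (nat_lit 0) (XT.lf (nat_lit 0) (nat_lit 3223607050) (nat_lit 76) (nat_lit 86486289740) (nat_lit 76) (nat_lit 84267516481) (nat_lit 1) (nat_lit 4) (nat_lit 2) (nat_lit 5) (nat_lit 2) (nat_lit 4) (nat_lit 362) (nat_lit 216) (nat_lit 202)) (XT.lf (nat_lit 0) (nat_lit 8877763352) (nat_lit 76) (nat_lit 88018297351) (nat_lit 76) (nat_lit 85691704455) (nat_lit 1) (nat_lit 4) (nat_lit 2) (nat_lit 5) (nat_lit 2) (nat_lit 4) (nat_lit 363) (nat_lit 216) (nat_lit 201))))) (XT.nd (nat_lit 234) (nat_lit 0) (nat_lit 0) (XT.nd (nat_lit 78) (nat_lit 0) (nat_lit 0) (XT.lf (nat_lit 0) (nat_lit 1471218441) (nat_lit 152) (nat_lit 37525712352) (nat_lit 0) (nat_lit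 1471218441) (nat_lit 2) (nat_lit 5) (nat_lit 4) (nat_lit 4) (nat_lit 2) (nat_lit 4) (nat_lit 346) (nat_lit 217) (nat_lit 217)) (XT.nd (nat_lit 78) (nat_lit 0) (nat_lit 0) (XT.lf (nat_lit 0) (nat_lit 7337016641) (nat_lit 152) (nat_lit 70397536498) (nat_lit 0) (nat_lit 7112867359) (nat_lit 2) (nat_lit 5) (nat_lit 4) (nat_lit 4) (nat_lit 2) (nat_lit 4) (nat_lit 347) (nat_lit 217) (nat_lit 216)) (XT.lf (nat_lit 0) (nat_lit 11810161484) (nat_lit 152) (nat_lit 65775673417) (nat_lit 0) (nat_lit 11372536696) (nat_lit 2) (nat_lit 5) (nat_lit 4) (nat_lit 4) (nat_lit 2) (nat_lit 4) (nat_lit 348) (nat_lit 217) (nat_lit 215)))) (XT.nd (nat_lit 156) (nat_lit 0) (nat_lit 0) (XT.nd (nat_lit 78) (nat_lit 0) (nat_lit 0) (XT.lf (nat_lit 0) (nat_lit 16372521758) (nat_lit 152) (nat_lit 61174831027) (nat_lit 0) (nat_lit 15731586963) (nat_lit 2) (nat_lit 5) (nat_lit 4) (nat_lit 4) (nat_lit 2) (nat_lit 4) (nat_lit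 349) (nat_lit 217) (nat_lit 214)) (XT.lf (nat_lit 0) (nat_lit 21034960224) (nat_lit 152) (nat_lit 56584054941) (nat_lit 0) (nat_lit 20200396852) (nat_lit 2) (nat_lit 5) (nat_lit 4) (nat_lit 4) (nat_lit 2) (nat_lit 4) (nat_lit 350) (nat_lit 217) (nat_lit 213))) (XT.nd (nat_lit 78) (nat_lit 0) (nat_lit 0) (XT.lf (nat_lit 0) (nat_lit 25808577927) (nat_lit 152) (nat_lit 51992414740) (nat_lit 0) (nat_lit 24789606386) (nat_lit 2) (nat_lit 5) (nat_lit 4) (nat_lit 4) (nat_lit 2) (nat_lit 4) (nat_lit 351) (nat_lit 217) (nat_lit 212)) (XT.lf (nat_lit 0) (nat_lit 30704740624) (nat_lit 152) (nat_lit 47388977947) (nat_lit 0) (nat_lit 29510142255) (nat_lit 2) (nat_lit 5) (nat_lit 4) (nat_lit 4) (nat_lit 2) (nat_lit 4) (nat_lit 352) (nat_lit 217) (nat_lit 211))))))) (XT.nd (nat_lit 40092) (nat_lit 0) (nat_lit 76) (XT.nd (nat_lit 468) (nat_lit 76) (nat_lit 0) (XT.nd (nat_lit 234) (nat_lit 0) (nat_lit 0)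 (XT.nd (nat_lit 78) (nat_lit 0) (nat_lit 0) (XT.lf (nat_lit 0) (nat_lit 35735105844) (nat_lit 152) (nat_lit 42762783999) (nat_lit 0) (nat_lit 34373243830) (nat_lit 2) (nat_lit 5) (nat_lit 4) (nat_lit 4) (nat_lit 2) (nat_lit 4) (nat_lit 353) (nat_lit 217) (nat_lit 210)) (XT.nd (nat_lit 78) (nat_lit 0) (nat_lit 0) (XT.lf (nat_lit 0) (nat_lit 40911650647) (nat_lit 152) (nat_lit 38102818147) (nat_lit 0) (nat_lit 39390489923) (nat_lit 2) (nat_lit 5) (nat_lit 4) (nat_lit 4) (nat_lit 2) (nat_lit 4) (nat_lit 354) (nat_lit 217) (nat_lit 209)) (XT.lf (nat_lit 0) (nat_lit 46246700141) (nat_lit 152) (nat_lit 33397985236) (nat_lit 0) (nat_lit 44573826360) (nat_lit 2) (nat_lit 5) (nat_lit 4) (nat_lit 4) (nat_lit 2) (nat_lit 4) (nat_lit 355) (nat_lit 217) (nat_lit 208)))) (XT.nd (nat_lit 78) (nat_lit 0) (nat_lit 0) (XT.lf (nat_lit 0) (nat_lit 51752956824) (nat_lit 152) (nat_lit 28637083281) (nat_lit 0)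 (nat_lit 49935594417) (nat_lit 2) (nat_lit 5) (nat_lit 4) (nat_lit 4) (nat_lit 2) (nat_lit 4) (nat_lit 356) (nat_lit 217) (nat_lit 207)) (XT.nd (nat_lit 78) (nat_lit 0) (nat_lit 0) (XT.lf (nat_lit 0) (nat_lit 57443530830) (nat_lit 152) (nat_lit 23808776802) (nat_lit 0) (nat_lit 55488560208) (nat_lit 2) (nat_lit 5) (nat_lit 4) (nat_lit 4) (nat_lit 2) (nat_lit 4) (nat_lit 357) (nat_lit 217) (nat_lit 206)) (XT.lf (nat_lit 0) (nat_lit 63331971146) (nat_lit 152) (nat_lit 18901569832) (nat_lit 0) (nat_lit 61245945082) (nat_lit 2) (nat_lit 5) (nat_lit 4) (nat_lit 4) (nat_lit 2) (nat_lit 4) (nat_lit 358) (nat_lit 217) (nat_lit 205))))) (XT.nd (nat_lit 234) (nat_lit 76) (nat_lit 0) (XT.nd (nat_lit 78) (nat_lit 0) (nat_lit 0) (XT.lf (nat_lit 0) (nat_lit 69432297868) (nat_lit 152) (nat_lit 13903778544) (nat_lit 0) (nat_lit 67221457096) (nat_lit 2) (nat_lit 5) (nat_lit 4) (nat_lit 4) (nat_lit 2) (nat_lit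 4) (nat_lit 359) (nat_lit 217) (nat_lit 204)) (XT.nd (nat_lit 78) (nat_lit 0) (nat_lit 0) (XT.lf (nat_lit 0) (nat_lit 75759035583) (nat_lit 152) (nat_lit 8803503435) (nat_lit 0) (nat_lit 73429323661) (nat_lit 2) (nat_lit 5) (nat_lit 4) (nat_lit 4) (nat_lit 2) (nat_lit 4) (nat_lit 360) (nat_lit 217) (nat_lit 203)) (XT.lf (nat_lit 0) (nat_lit 82327247952) (nat_lit 152) (nat_lit 3588600993) (nat_lit 0) (nat_lit 79884325411) (nat_lit 2) (nat_lit 5) (nat_lit 4) (nat_lit 4) (nat_lit 2) (nat_lit 4) (nat_lit 361) (nat_lit 217) (nat_lit 202)))) (XT.nd (nat_lit 39234) (nat_lit 0) (nat_lit 228) (XT.nd (nat_lit 78) (nat_lit 0) (nat_lit 0) (XT.lf (nat_lit 0) (nat_lit 1788240223) (nat_lit 76) (nat_lit 87381523012) (nat_lit 76) (nat_lit 84830780834) (nat_lit 1) (nat_lit 4) (nat_lit 2) (nat_lit 5) (nat_lit 2) (nat_lit 4) (nat_lit 362) (nat_lit 217) (nat_lit 201)) (XT.lf (nat_lit 0) (nat_lit 7379045875) (nat_lit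 76) (nat_lit 88943149259) (nat_lit 76) (nat_lit 86289721712) (nat_lit 1) (nat_lit 4) (nat_lit 2) (nat_lit 5) (nat_lit 2) (nat_lit 4) (nat_lit 363) (nat_lit 217) (nat_lit 200))) (XT.nd (nat_lit 78) (nat_lit 0) (nat_lit 0) (XT.lf (nat_lit 0) (nat_lit 31545052052) (nat_lit 76) (nat_lit 2644537950) (nat_lit 76) (nat_lit 2644537950) (nat_lit 4) (nat_lit 4) (nat_lit 5) (nat_lit 5) (nat_lit 5) (nat_lit 4) (nat_lit 344) (nat_lit 218) (nat_lit 218)) (XT.lf (nat_lit 0) (nat_lit 74706330418) (nat_lit 76) (nat_lit 1375156105) (nat_lit 76) (nat_lit 1132738656) (nat_lit 4) (nat_lit 4) (nat_lit 5) (nat_lit 5) (nat_lit 5) (nat_lit 4) (nat_lit 345) (nat_lit 218) (nat_lit 217)))))) (XT.nd (nat_lit 546) (nat_lit 0) (nat_lit 0) (XT.nd (nat_lit 234) (nat_lit 0) (nat_lit 0) (XT.nd (nat_lit 78) (nat_lit 0) (nat_lit 0) (XT.lf (nat_lit 0) (nat_lit 3105490167) (nat_lit 152) (nat_lit 75187012760) (nat_lit 0) (nat_lit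 2645984139) (nat_lit 2) (nat_lit 5) (nat_lit 4) (nat_lit 4) (nat_lit 2) (nat_lit 4) (nat_lit 346) (nat_lit 218) (nat_lit 216)) (XT.nd (nat_lit 78) (nat_lit 0) (nat_lit 0) (XT.lf (nat_lit 0) (nat_lit 7431209484) (nat_lit 152) (nat_lit 70662256035) (nat_lit 0) (nat_lit 6758227950) (nat_lit 2) (nat_lit 5) (nat_lit 4) (nat_lit 4) (nat_lit 2) (nat_lit 4) (nat_lit 347) (nat_lit 218) (nat_lit 215)) (XT.lf (nat_lit 0) (nat_lit 11838772956) (nat_lit 152) (nat_lit 66163375317) (nat_lit 0) (nat_lit 10962481415) (nat_lit 2) (nat_lit 5) (nat_lit 4) (nat_lit 4) (nat_lit 2) (nat_lit 4) (nat_lit 348) (nat_lit 218) (nat_lit 214)))) (XT.nd (nat_lit 156) (nat_lit 0) (nat_lit 0) (XT.nd (nat_lit 78) (nat_lit 0) (nat_lit 0) (XT.lf (nat_lit 0) (nat_lit 16338674780) (nat_lit 152) (nat_lit 61679658988) (nat_lit 0) (nat_lit 15268754662) (nat_lit 2) (nat_lit 5) (nat_lit 4) (nat_lit 4) (nat_lit 2) (nat_lit 4) (nat_lit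 349) (nat_lit 218) (nat_lit 213)) (XT.lf (nat_lit 0) (nat_lit 20941629010) (nat_lit 152) (nat_lit 57200431531) (nat_lit 0) (nat_lit 19687300722) (nat_lit 2) (nat_lit 5) (nat_lit 4) (nat_lit 4) (nat_lit 2) (nat_lit 4) (nat_lit 350) (nat_lit 218) (nat_lit 212))) (XT.nd (nat_lit 78) (nat_lit 0) (nat_lit 0) (XT.lf (nat_lit 0) (nat_lit 25658595058) (nat_lit 152) (nat_lit 52715028119) (nat_lit 0) (nat_lit 24228639943) (nat_lit 2) (nat_lit 5) (nat_lit 4) (nat_lit 4) (nat_lit 2) (nat_lit 4) (nat_lit 351) (nat_lit 218) (nat_lit 211)) (XT.lf (nat_lit 0) (nat_lit 30500803798) (nat_lit 152) (nat_lit 48212769221) (nat_lit 0) (nat_lit 28903585038) (nat_lit 2) (nat_lit 5) (nat_lit 4) (nat_lit 4) (nat_lit 2) (nat_lit 4) (nat_lit 352) (nat_lit 218) (nat_lit 210))))) (XT.nd (nat_lit 234) (nat_lit 0) (nat_lit 0) (XT.nd (nat_lit 78) (nat_lit 0) (nat_lit 0) (XT.lf (nat_lit 0) (nat_lit 35479784297) (nat_lit 152)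 (nat_lit 43682935172) (nat_lit 0) (nat_lit 33723266827) (nat_lit 2) (nat_lit 5) (nat_lit 4) (nat_lit 4) (nat_lit 2) (nat_lit 4) (nat_lit 353) (nat_lit 218) (nat_lit 209)) (XT.nd (nat_lit 78) (nat_lit 0) (nat_lit 0) (XT.lf (nat_lit 0) (nat_lit 40607391271) (nat_lit 152) (nat_lit 39114740653) (nat_lit 0) (nat_lit 38699160744) (nat_lit 2) (nat_lit 5) (nat_lit 4) (nat_lit 4) (nat_lit 2) (nat_lit 4) (nat_lit 354) (nat_lit 218) (nat_lit 208)) (XT.lf (nat_lit 0) (nat_lit 45895833308) (nat_lit 152) (nat_lit 34497309011) (nat_lit 0) (nat_lit 43843114156) (nat_lit 2) (nat_lit 5) (nat_lit 4) (nat_lit 4) (nat_lit 2) (nat_lit 4) (nat_lit 355) (nat_lit 218) (nat_lit 207)))) (XT.nd (nat_lit 156) (nat_lit 0) (nat_lit 0) (XT.nd (nat_lit 78) (nat_lit 0) (nat_lit 0) (XT.lf (nat_lit 0) (nat_lit 51357701937) (nat_lit 152) (nat_lit 29819646361) (nat_lit 0) (nat_lit 49167374570) (nat_lit 2) (nat_lit 5) (nat_lit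 4) (nat_lit 4) (nat_lit 2) (nat_lit 4) (nat_lit 356) (nat_lit 218) (nat_lit 206)) (XT.lf (nat_lit 0) (nat_lit 57006001607) (nat_lit 152) (nat_lit 25070615410) (nat_lit 0) (nat_lit 54684618796) (nat_lit 2) (nat_lit 5) (nat_lit 4) (nat_lit 4) (nat_lit 2) (nat_lit 4) (nat_lit 357) (nat_lit 218) (nat_lit 205))) (XT.nd (nat_lit 78) (nat_lit 0) (nat_lit 0) (XT.lf (nat_lit 0) (nat_lit 62854180650) (nat_lit 152) (nat_lit 20238908943) (nat_lit 0) (nat_lit 60407983132) (nat_lit 2) (nat_lit 5) (nat_lit 4) (nat_lit 4) (nat_lit 2) (nat_lit 4) (nat_lit 358) (nat_lit 218) (nat_lit 204)) (XT.lf (nat_lit 0) (nat_lit 68916163302) (nat_lit 152) (nat_lit 15313022895) (nat_lit 0) (nat_lit 66351094634) (nat_lit 2) (nat_lit 5) (nat_lit 4) (nat_lit 4) (nat_lit 2) (nat_lit 4) (nat_lit 359) (nat_lit 218) (nat_lit 203))))))))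
noncomputable def xc2 : XT := (XT.nd (nat_lit 79716) (nat_lit 0) (nat_lit 0) (XT.nd (nat_lit 39936) (nat_lit 0) (nat_lit 0) (XT.nd (nat_lit 39390) (nat_lit 0) (nat_lit 76) (XT.nd (nat_lit 234) (nat_lit 0) (nat_lit 0) (XT.nd (nat_lit 78) (nat_lit 76) (nat_lit 0) (XT.lf (nat_lit 0) (nat_lit 75206382855) (nat_lit 152) (nat_lit 10281228968) (nat_lit 0) (nat_lit 72528103568) (nat_lit 2) (nat_lit 5) (nat_lit 4) (nat_lit 4) (nat_lit 2) (nat_lit 4) (nat_lit 360) (nat_lit 218) (nat_lit 202)) (XT.nd (nat_lit 78) (nat_lit 76) (nat_lit 0) (XT.lf (nat_lit 0) (nat_lit 81739816023) (nat_lit 152) (nat_lit 5131546699) (nat_lit 0) (nat_lit 78953717099) (nat_lit 2) (nat_lit 5) (nat_lit 4) (nat_lit 4) (nat_lit 2) (nat_lit 4) (nat_lit 361) (nat_lit 218) (nat_lit 201)) (XT.lf (nat_lit 0) (nat_lit 151236223) (nat_lit 76) (nat_lit 88382236150) (nat_lit 76) (nat_lit 85493451857) (nat_lit 1) (nat_lit 4) (nat_lit 2)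 (nat_lit 5) (nat_lit 2) (nat_lit 4) (nat_lit 362) (nat_lit 218) (nat_lit 200)))) (XT.nd (nat_lit 39000) (nat_lit 0) (nat_lit 228) (XT.lf (nat_lit 0) (nat_lit 5681707922) (nat_lit 76) (nat_lit 89972070621) (nat_lit 76) (nat_lit 86985490739) (nat_lit 1) (nat_lit 4) (nat_lit 2) (nat_lit 5) (nat_lit 2) (nat_lit 4) (nat_lit 363) (nat_lit 218) (nat_lit 199)) (XT.nd (nat_lit 78) (nat_lit 0) (nat_lit 0) (XT.lf (nat_lit 0) (nat_lit 20417030731) (nat_lit 76) (nat_lit 6562862279) (nat_lit 76) (nat_lit 6562862279) (nat_lit 4) (nat_lit 4) (nat_lit 5) (nat_lit 5) (nat_lit 5) (nat_lit 4) (nat_lit 342) (nat_lit 219) (nat_lit 219)) (XT.lf (nat_lit 0) (nat_lit 51760571699) (nat_lit 76) (nat_lit 9394718516) (nat_lit 76) (nat_lit 9140180195) (nat_lit 4) (nat_lit 4) (nat_lit 5) (nat_lit 5) (nat_lit 5) (nat_lit 4) (nat_lit 343) (nat_lit 219) (nat_lit 218))))) (XT.nd (nat_lit 234) (nat_lit 0) (nat_lit 0) (XT.nd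 (nat_lit 78) (nat_lit 152) (nat_lit 0) (XT.lf (nat_lit 0) (nat_lit 62953624733) (nat_lit 76) (nat_lit 5606901886) (nat_lit 76) (nat_lit 5109946117) (nat_lit 4) (nat_lit 4) (nat_lit 5) (nat_lit 5) (nat_lit 5) (nat_lit 4) (nat_lit 344) (nat_lit 219) (nat_lit 217)) (XT.nd (nat_lit 78) (nat_lit 152) (nat_lit 0) (XT.lf (nat_lit 0) (nat_lit 74439870691) (nat_lit 76) (nat_lit 1753256058) (nat_lit 76) (nat_lit 1025426529) (nat_lit 4) (nat_lit 4) (nat_lit 5) (nat_lit 5) (nat_lit 5) (nat_lit 4) (nat_lit 345) (nat_lit 219) (nat_lit 216)) (XT.lf (nat_lit 0) (nat_lit 3135532212) (nat_lit 152) (nat_lit 75594099756) (nat_lit 0) (nat_lit 2215426094) (nat_lit 2) (nat_lit 5) (nat_lit 4) (nat_lit 4) (nat_lit 2) (nat_lit 4) (nat_lit 346) (nat_lit 219) (nat_lit 215)))) (XT.nd (nat_lit 156) (nat_lit 0) (nat_lit 0) (XT.nd (nat_lit 78) (nat_lit 0) (nat_lit 0) (XT.lf (nat_lit 0) (nat_lit 7395670158) (nat_lit 152)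 (nat_lit 71192325393) (nat_lit 0) (nat_lit 6272254034) (nat_lit 2) (nat_lit 5) (nat_lit 4) (nat_lit 4) (nat_lit 2) (nat_lit 4) (nat_lit 347) (nat_lit 219) (nat_lit 214)) (XT.lf (nat_lit 0) (nat_lit 11740775181) (nat_lit 152) (nat_lit 66810570736) (nat_lit 0) (nat_lit 10423730479) (nat_lit 2) (nat_lit 5) (nat_lit 4) (nat_lit 4) (nat_lit 2) (nat_lit 4) (nat_lit 348) (nat_lit 219) (nat_lit 213))) (XT.nd (nat_lit 78) (nat_lit 0) (nat_lit 0) (XT.lf (nat_lit 0) (nat_lit 16181192768) (nat_lit 152) (nat_lit 62438403035) (nat_lit 0) (nat_lit 14679739897) (nat_lit 2) (nat_lit 5) (nat_lit 4) (nat_lit 4) (nat_lit 2) (nat_lit 4) (nat_lit 349) (nat_lit 219) (nat_lit 212)) (XT.lf (nat_lit 0) (nat_lit 20727495342) (nat_lit 152) (nat_lit 58065412368) (nat_lit 0) (nat_lit 19050415644) (nat_lit 2) (nat_lit 5) (nat_lit 4) (nat_lit 4) (nat_lit 2) (nat_lit 4) (nat_lit 350) (nat_lit 219) (nat_lit 211)))))) (XT.nd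 (nat_lit 468) (nat_lit 76) (nat_lit 0) (XT.nd (nat_lit 234) (nat_lit 0) (nat_lit 0) (XT.nd (nat_lit 78) (nat_lit 0) (nat_lit 0) (XT.lf (nat_lit 0) (nat_lit 25390507434) (nat_lit 152) (nat_lit 53681186851) (nat_lit 0) (nat_lit 23546164091) (nat_lit 2) (nat_lit 5) (nat_lit 4) (nat_lit 4) (nat_lit 2) (nat_lit 4) (nat_lit 351) (nat_lit 219) (nat_lit 210)) (XT.nd (nat_lit 78) (nat_lit 0) (nat_lit 0) (XT.lf (nat_lit 0) (nat_lit 30181331453) (nat_lit 152) (nat_lit 49275287852) (nat_lit 0) (nat_lit 28177689400) (nat_lit 2) (nat_lit 5) (nat_lit 4) (nat_lit 4) (nat_lit 2) (nat_lit 4) (nat_lit 352) (nat_lit 219) (nat_lit 209)) (XT.lf (nat_lit 0) (nat_lit 35111374123) (nat_lit 152) (nat_lit 44837225136) (nat_lit 0) (nat_lit 32956019013) (nat_lit 2) (nat_lit 5) (nat_lit 4) (nat_lit 4) (nat_lit 2) (nat_lit 4) (nat_lit 353) (nat_lit 219) (nat_lit 208)))) (XT.nd (nat_lit 78) (nat_lit 0) (nat_lit 0) (XT.lf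 (nat_lit 0) (nat_lit 40192373641) (nat_lit 152) (nat_lit 40356431887) (nat_lit 0) (nat_lit 37892529905) (nat_lit 2) (nat_lit 5) (nat_lit 4) (nat_lit 4) (nat_lit 2) (nat_lit 4) (nat_lit 354) (nat_lit 219) (nat_lit 207)) (XT.nd (nat_lit 78) (nat_lit 0) (nat_lit 0) (XT.lf (nat_lit 0) (nat_lit 45436427624) (nat_lit 152) (nat_lit 35822239549) (nat_lit 0) (nat_lit 42998975673) (nat_lit 2) (nat_lit 5) (nat_lit 4) (nat_lit 4) (nat_lit 2) (nat_lit 4) (nat_lit 355) (nat_lit 219) (nat_lit 206)) (XT.lf (nat_lit 0) (nat_lit 50856021916) (nat_lit 152) (nat_lit 31223852427) (nat_lit 0) (nat_lit 48287514522) (nat_lit 2) (nat_lit 5) (nat_lit 4) (nat_lit 4) (nat_lit 2) (nat_lit 4) (nat_lit 356) (nat_lit 219) (nat_lit 205))))) (XT.nd (nat_lit 234) (nat_lit 76) (nat_lit 0) (XT.nd (nat_lit 78) (nat_lit 0) (nat_lit 0) (XT.lf (nat_lit 0) (nat_lit 56464060312) (nat_lit 152) (nat_lit 26550321979) (nat_lit 0) (nat_lit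 53770738211) (nat_lit 2) (nat_lit 5) (nat_lit 4) (nat_lit 4) (nat_lit 2) (nat_lit 4) (nat_lit 357) (nat_lit 219) (nat_lit 204)) (XT.nd (nat_lit 78) (nat_lit 0) (nat_lit 0) (XT.lf (nat_lit 0) (nat_lit 62273895286) (nat_lit 152) (nat_lit 21790520752) (nat_lit 0) (nat_lit 59461702034) (nat_lit 2) (nat_lit 5) (nat_lit 4) (nat_lit 4) (nat_lit 2) (nat_lit 4) (nat_lit 358) (nat_lit 219) (nat_lit 203)) (XT.lf (nat_lit 0) (nat_lit 68299359776) (nat_lit 152) (nat_lit 16933115887) (nat_lit 0) (nat_lit 65373955906) (nat_lit 2) (nat_lit 5) (nat_lit 4) (nat_lit 4) (nat_lit 2) (nat_lit 4) (nat_lit 359) (nat_lit 219) (nat_lit 202)))) (XT.nd (nat_lit 156) (nat_lit 76) (nat_lit 0) (XT.nd (nat_lit 78) (nat_lit 0) (nat_lit 0) (XT.lf (nat_lit 0) (nat_lit 74554800128) (nat_lit 152) (nat_lit 11966542132) (nat_lit 0) (nat_lit 71521576620) (nat_lit 2) (nat_lit 5) (nat_lit 4) (nat_lit 4) (nat_lit 2) (nat_lit 4) (nat_lit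 360) (nat_lit 219) (nat_lit 201)) (XT.lf (nat_lit 0) (nat_lit 81055110246) (nat_lit 152) (nat_lit 6878974314) (nat_lit 0) (nat_lit 77919201370) (nat_lit 2) (nat_lit 5) (nat_lit 4) (nat_lit 4) (nat_lit 2) (nat_lit 4) (nat_lit 361) (nat_lit 219) (nat_lit 200))) (XT.nd (nat_lit 78) (nat_lit 76) (nat_lit 0) (XT.lf (nat_lit 0) (nat_lit 87815767060) (nat_lit 152) (nat_lit 1658299174) (nat_lit 0) (nat_lit 84582062595) (nat_lit 2) (nat_lit 5) (nat_lit 4) (nat_lit 4) (nat_lit 2) (nat_lit 4) (nat_lit 362) (nat_lit 219) (nat_lit 199)) (XT.lf (nat_lit 0) (nat_lit 3781708213) (nat_lit 76) (nat_lit 91107511252) (nat_lit 76) (nat_lit 87780668130) (nat_lit 1) (nat_lit 4) (nat_lit 2) (nat_lit 5) (nat_lit 2) (nat_lit 4) (nat_lit 363) (nat_lit 219) (nat_lit 198))))))) (XT.nd (nat_lit 1014) (nat_lit 76) (nat_lit 0) (XT.nd (nat_lit 468) (nat_lit 152) (nat_lit 0) (XT.nd (nat_lit 234) (nat_lit 0) (nat_lit 0) (XT.nd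 (nat_lit 78) (nat_lit 0) (nat_lit 0) (XT.lf (nat_lit 0) (nat_lit 9913824286) (nat_lit 76) (nat_lit 10325107371) (nat_lit 76) (nat_lit 10325107371) (nat_lit 4) (nat_lit 4) (nat_lit 5) (nat_lit 5) (nat_lit 5) (nat_lit 4) (nat_lit 340) (nat_lit 220) (nat_lit 220)) (XT.nd (nat_lit 78) (nat_lit 0) (nat_lit 0) (XT.lf (nat_lit 0) (nat_lit 30148078523) (nat_lit 76) (nat_lit 17076068597) (nat_lit 76) (nat_lit 16808803360) (nat_lit 4) (nat_lit 4) (nat_lit 5) (nat_lit 5) (nat_lit 5) (nat_lit 4) (nat_lit 341) (nat_lit 220) (nat_lit 219)) (XT.lf (nat_lit 0) (nat_lit 40690758121) (nat_lit 76) (nat_lit 13459441844) (nat_lit 76) (nat_lit 12937638286) (nat_lit 4) (nat_lit 4) (nat_lit 5) (nat_lit 5) (nat_lit 5) (nat_lit 4) (nat_lit 342) (nat_lit 220) (nat_lit 218)))) (XT.nd (nat_lit 78) (nat_lit 0) (nat_lit 0) (XT.lf (nat_lit 0) (nat_lit 51480788985) (nat_lit 76) (nat_lit 9791723467) (nat_lit 76) (nat_lit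 9027502461) (nat_lit 4) (nat_lit 4) (nat_lit 5) (nat_lit 5) (nat_lit 5) (nat_lit 4) (nat_lit 343) (nat_lit 220) (nat_lit 217)) (XT.nd (nat_lit 78) (nat_lit 0) (nat_lit 0) (XT.lf (nat_lit 0) (nat_lit 62543861664) (nat_lit 76) (nat_lit 6064180805) (nat_lit 76) (nat_lit 5069086039) (nat_lit 4) (nat_lit 4) (nat_lit 5) (nat_lit 5) (nat_lit 5) (nat_lit 4) (nat_lit 344) (nat_lit 220) (nat_lit 216)) (XT.lf (nat_lit 0) (nat_lit 73906316808) (nat_lit 76) (nat_lit 2267938755) (nat_lit 76) (nat_lit 1052964217) (nat_lit 4) (nat_lit 4) (nat_lit 5) (nat_lit 5) (nat_lit 5) (nat_lit 4) (nat_lit 345) (nat_lit 220) (nat_lit 215))))) (XT.nd (nat_lit 234) (nat_lit 0) (nat_lit 0) (XT.nd (nat_lit 78) (nat_lit 0) (nat_lit 0) (XT.lf (nat_lit 0) (nat_lit 3032634548) (nat_lit 152) (nat_lit 76273654945) (nat_lit 0) (nat_lit 1649737611) (nat_lit 2) (nat_lit 5) (nat_lit 4) (nat_lit 4) (nat_lit 2) (nat_lit 4) (nat_lit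 346) (nat_lit 220) (nat_lit 214)) (XT.nd (nat_lit 78) (nat_lit 0) (nat_lit 0) (XT.lf (nat_lit 0) (nat_lit 7230314045) (nat_lit 152) (nat_lit 71989006643) (nat_lit 0) (nat_lit 5653788531) (nat_lit 2) (nat_lit 5) (nat_lit 4) (nat_lit 4) (nat_lit 2) (nat_lit 4) (nat_lit 347) (nat_lit 220) (nat_lit 213)) (XT.lf (nat_lit 0) (nat_lit 11515934830) (nat_lit 152) (nat_lit 67718800615) (nat_lit 0) (nat_lit 9755001147) (nat_lit 2) (nat_lit 5) (nat_lit 4) (nat_lit 4) (nat_lit 2) (nat_lit 4) (nat_lit 348) (nat_lit 220) (nat_lit 212)))) (XT.nd (nat_lit 156) (nat_lit 0) (nat_lit 0) (XT.nd (nat_lit 78) (nat_lit 0) (nat_lit 0) (XT.lf (nat_lit 0) (nat_lit 15899700762) (nat_lit 152) (nat_lit 63452869704) (nat_lit 0) (nat_lit 13963140252) (nat_lit 2) (nat_lit 5) (nat_lit 4) (nat_lit 4) (nat_lit 2) (nat_lit 4) (nat_lit 349) (nat_lit 220) (nat_lit 211)) (XT.lf (nat_lit 0) (nat_lit 20392049380) (nat_lit 152) (nat_lit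 59181056931) (nat_lit 0) (nat_lit 18288225224) (nat_lit 2) (nat_lit 5) (nat_lit 4) (nat_lit 4) (nat_lit 2) (nat_lit 4) (nat_lit 350) (nat_lit 220) (nat_lit 210))) (XT.nd (nat_lit 78) (nat_lit 0) (nat_lit 0) (XT.lf (nat_lit 0) (nat_lit 25003676751) (nat_lit 152) (nat_lit 54893191313) (nat_lit 0) (nat_lit 22740553885) (nat_lit 2) (nat_lit 5) (nat_lit 4) (nat_lit 4) (nat_lit 2) (nat_lit 4) (nat_lit 351) (nat_lit 220) (nat_lit 209)) (XT.lf (nat_lit 0) (nat_lit 29745562941) (nat_lit 152) (nat_lit 50579063648) (nat_lit 0) (nat_lit 27330727018) (nat_lit 2) (nat_lit 5) (nat_lit 4) (nat_lit 4) (nat_lit 2) (nat_lit 4) (nat_lit 352) (nat_lit 220) (nat_lit 208)))))) (XT.nd (nat_lit 546) (nat_lit 76) (nat_lit 0) (XT.nd (nat_lit 234) (nat_lit 0) (nat_lit 0) (XT.nd (nat_lit 78) (nat_lit 0) (nat_lit 0) (XT.lf (nat_lit 0) (nat_lit 34628998155) (nat_lit 152) (nat_lit 46228402201) (nat_lit 0) (nat_lit 32069673606)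 (nat_lit 2) (nat_lit 5) (nat_lit 4) (nat_lit 4) (nat_lit 2) (nat_lit 4) (nat_lit 353) (nat_lit 220) (nat_lit 207)) (XT.nd (nat_lit 78) (nat_lit 0) (nat_lit 0) (XT.lf (nat_lit 0) (nat_lit 39665609619) (nat_lit 152) (nat_lit 41830848256) (nat_lit 0) (nat_lit 36968676855) (nat_lit 2) (nat_lit 5) (nat_lit 4) (nat_lit 4) (nat_lit 2) (nat_lit 4) (nat_lit 354) (nat_lit 220) (nat_lit 206)) (XT.lf (nat_lit 0) (nat_lit 44867389265) (nat_lit 152) (nat_lit 37375931447) (nat_lit 0) (nat_lit 42039401059) (nat_lit 2) (nat_lit 5) (nat_lit 4) (nat_lit 4) (nat_lit 2) (nat_lit 4) (nat_lit 355) (nat_lit 220) (nat_lit 205)))) (XT.nd (nat_lit 156) (nat_lit 0) (nat_lit 0) (XT.nd (nat_lit 78) (nat_lit 0) (nat_lit 0) (XT.lf (nat_lit 0) (nat_lit 50246722284) (nat_lit 152) (nat_lit 32853044827) (nat_lit 0) (nat_lit 47293919370) (nat_lit 2) (nat_lit 5) (nat_lit 4) (nat_lit 4) (nat_lit 2) (nat_lit 4) (nat_lit 356) (nat_lit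 220) (nat_lit 204)) (XT.lf (nat_lit 0) (nat_lit 55816416610) (nat_lit 152) (nat_lit 28251419620) (nat_lit 0) (nat_lit 52744742547) (nat_lit 2) (nat_lit 5) (nat_lit 4) (nat_lit 4) (nat_lit 2) (nat_lit 4) (nat_lit 357) (nat_lit 220) (nat_lit 203))) (XT.nd (nat_lit 78) (nat_lit 0) (nat_lit 0) (XT.lf (nat_lit 0) (nat_lit 61589733422) (nat_lit 152) (nat_lit 23560099575) (nat_lit 0) (nat_lit 58404848739) (nat_lit 2) (nat_lit 5) (nat_lit 4) (nat_lit 4) (nat_lit 2) (nat_lit 4) (nat_lit 358) (nat_lit 220) (nat_lit 202)) (XT.lf (nat_lit 0) (nat_lit 67580418711) (nat_lit 152) (nat_lit 18767914882) (nat_lit 0) (nat_lit 64287714391) (nat_lit 2) (nat_lit 5) (nat_lit 4) (nat_lit 4) (nat_lit 2) (nat_lit 4) (nat_lit 359) (nat_lit 220) (nat_lit 201))))) (XT.nd (nat_lit 234) (nat_lit 76) (nat_lit 0) (XT.nd (nat_lit 78) (nat_lit 0) (nat_lit 0) (XT.lf (nat_lit 0) (nat_lit 73802736013) (nat_lit 152) (nat_lit 13863455578)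 (nat_lit 0) (nat_lit 70407346324) (nat_lit 2) (nat_lit 5) (nat_lit 4) (nat_lit 4) (nat_lit 2) (nat_lit 4) (nat_lit 360) (nat_lit 220) (nat_lit 200)) (XT.nd (nat_lit 78) (nat_lit 0) (nat_lit 0) (XT.lf (nat_lit 0) (nat_lit 80271500370) (nat_lit 152) (nat_lit 8835044379) (nat_lit 0) (nat_lit 76778315093) (nat_lit 2) (nat_lit 5) (nat_lit 4) (nat_lit 4) (nat_lit 2) (nat_lit 4) (nat_lit 361) (nat_lit 220) (nat_lit 199)) (XT.lf (nat_lit 0) (nat_lit 87002113603) (nat_lit 152) (nat_lit 3670708877) (nat_lit 0) (nat_lit 83415789668) (nat_lit 2) (nat_lit 5) (nat_lit 4) (nat_lit 4) (nat_lit 2) (nat_lit 4) (nat_lit 362) (nat_lit 220) (nat_lit 198)))) (XT.nd (nat_lit 38766) (nat_lit 0) (nat_lit 228) (XT.nd (nat_lit 38688) (nat_lit 0) (nat_lit 304) (XT.lf (nat_lit 0) (nat_lit 1674522937) (nat_lit 76) (nat_lit 92352174580) (nat_lit 76) (nat_lit 88677147164) (nat_lit 1) (nat_lit 4) (nat_lit 2) (nat_lit 5)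 (nat_lit 2) (nat_lit 4) (nat_lit 363) (nat_lit 220) (nat_lit 197)) (XT.lf (nat_lit 0) (nat_lit 13913464402) (nat_lit 152) (nat_lit 42302888) (nat_lit 0) (nat_lit 13913464402) (nat_lit 5) (nat_lit 5) (nat_lit 7) (nat_lit 4) (nat_lit 5) (nat_lit 4) (nat_lit 338) (nat_lit 221) (nat_lit 221))) (XT.nd (nat_lit 78) (nat_lit 0) (nat_lit 0) (XT.lf (nat_lit 0) (nat_lit 9704895819) (nat_lit 76) (nat_lit 24471018653) (nat_lit 76) (nat_lit 24190390154) (nat_lit 4) (nat_lit 4) (nat_lit 5) (nat_lit 5) (nat_lit 5) (nat_lit 4) (nat_lit 339) (nat_lit 221) (nat_lit 220)) (XT.lf (nat_lit 0) (nat_lit 19677180065) (nat_lit 76) (nat_lit 21000617893) (nat_lit 76) (nat_lit 20452724158) (nat_lit 4) (nat_lit 4) (nat_lit 5) (nat_lit 5) (nat_lit 5) (nat_lit 4) (nat_lit 340) (nat_lit 221) (nat_lit 219))))))))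
noncomputable def xc3 : XT := (XT.nd (nat_lit 40482) (nat_lit 0) (nat_lit 0) (XT.nd (nat_lit 1014) (nat_lit 0) (nat_lit 0) (XT.nd (nat_lit 468) (nat_lit 0) (nat_lit 0) (XT.nd (nat_lit 234) (nat_lit 152) (nat_lit 0) (XT.nd (nat_lit 78) (nat_lit 0) (nat_lit 0) (XT.lf (nat_lit 0) (nat_lit 29854306674) (nat_lit 76) (nat_lit 17492923796) (nat_lit 76) (nat_lit 16690491739) (nat_lit 4) (nat_lit 4) (nat_lit 5) (nat_lit 5) (nat_lit 5) (nat_lit 4) (nat_lit 341) (nat_lit 221) (nat_lit 218)) (XT.nd (nat_lit 78) (nat_lit 0) (nat_lit 0) (XT.lf (nat_lit 0) (nat_lit 40260506899) (nat_lit 76) (nat_lit 13939584708) (nat_lit 76) (nat_lit 12894735203) (nat_lit 4) (nat_lit 4) (nat_lit 5) (nat_lit 5) (nat_lit 5) (nat_lit 4) (nat_lit 342) (nat_lit 221) (nat_lit 217)) (XT.lf (nat_lit 0) (nat_lit 50920557407) (nat_lit 76) (nat_lit 10332140299) (nat_lit 76) (nat_lit 9056417034) (nat_lit 4) (nat_lit 4) (nat_lit 5)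 (nat_lit 5) (nat_lit 5) (nat_lit 4) (nat_lit 343) (nat_lit 221) (nat_lit 216)))) (XT.nd (nat_lit 78) (nat_lit 152) (nat_lit 0) (XT.lf (nat_lit 0) (nat_lit 61859839272) (nat_lit 76) (nat_lit 6662001415) (nat_lit 76) (nat_lit 5166398378) (nat_lit 4) (nat_lit 4) (nat_lit 5) (nat_lit 5) (nat_lit 5) (nat_lit 4) (nat_lit 344) (nat_lit 221) (nat_lit 215)) (XT.nd (nat_lit 78) (nat_lit 152) (nat_lit 0) (XT.lf (nat_lit 0) (nat_lit 73104398402) (nat_lit 76) (nat_lit 2920429631) (nat_lit 76) (nat_lit 1215417287) (nat_lit 4) (nat_lit 4) (nat_lit 5) (nat_lit 5) (nat_lit 5) (nat_lit 4) (nat_lit 345) (nat_lit 221) (nat_lit 214)) (XT.lf (nat_lit 0) (nat_lit 2796552180) (nat_lit 152) (nat_lit 77227296318) (nat_lit 0) (nat_lit 947571812) (nat_lit 2) (nat_lit 5) (nat_lit 4) (nat_lit 4) (nat_lit 2) (nat_lit 4) (nat_lit 346) (nat_lit 221) (nat_lit 213))))) (XT.nd (nat_lit 234) (nat_lit 0) (nat_lit 0) (XT.nd (nat_lit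 78) (nat_lit 0) (nat_lit 0) (XT.lf (nat_lit 0) (nat_lit 6934747439) (nat_lit 152) (nat_lit 73054196645) (nat_lit 0) (nat_lit 4901358903) (nat_lit 2) (nat_lit 5) (nat_lit 4) (nat_lit 4) (nat_lit 2) (nat_lit 4) (nat_lit 347) (nat_lit 221) (nat_lit 212)) (XT.nd (nat_lit 78) (nat_lit 0) (nat_lit 0) (XT.lf (nat_lit 0) (nat_lit 11163716570) (nat_lit 152) (nat_lit 68890227406) (nat_lit 0) (nat_lit 8954701206) (nat_lit 2) (nat_lit 5) (nat_lit 4) (nat_lit 4) (nat_lit 2) (nat_lit 4) (nat_lit 348) (nat_lit 221) (nat_lit 211)) (XT.lf (nat_lit 0) (nat_lit 15493528545) (nat_lit 152) (nat_lit 64725474389) (nat_lit 0) (nat_lit 13117249536) (nat_lit 2) (nat_lit 5) (nat_lit 4) (nat_lit 4) (nat_lit 2) (nat_lit 4) (nat_lit 349) (nat_lit 221) (nat_lit 210)))) (XT.nd (nat_lit 156) (nat_lit 0) (nat_lit 0) (XT.nd (nat_lit 78) (nat_lit 0) (nat_lit 0) (XT.lf (nat_lit 0) (nat_lit 19934492443) (nat_lit 152) (nat_lit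 60550021516) (nat_lit 0) (nat_lit 17398914723) (nat_lit 2) (nat_lit 5) (nat_lit 4) (nat_lit 4) (nat_lit 2) (nat_lit 4) (nat_lit 350) (nat_lit 221) (nat_lit 209)) (XT.lf (nat_lit 0) (nat_lit 24497181984) (nat_lit 152) (nat_lit 56353927232) (nat_lit 0) (nat_lit 21809891208) (nat_lit 2) (nat_lit 5) (nat_lit 4) (nat_lit 4) (nat_lit 2) (nat_lit 4) (nat_lit 351) (nat_lit 221) (nat_lit 208))) (XT.nd (nat_lit 78) (nat_lit 0) (nat_lit 0) (XT.lf (nat_lit 0) (nat_lit 29192460718) (nat_lit 152) (nat_lit 52127200835) (nat_lit 0) (nat_lit 26360681316) (nat_lit 2) (nat_lit 5) (nat_lit 4) (nat_lit 4) (nat_lit 2) (nat_lit 4) (nat_lit 352) (nat_lit 221) (nat_lit 207)) (XT.lf (nat_lit 0) (nat_lit 34031507877) (nat_lit 152) (nat_lit 47859778693) (nat_lit 0) (nat_lit 31062120261) (nat_lit 2) (nat_lit 5) (nat_lit 4) (nat_lit 4) (nat_lit 2) (nat_lit 4) (nat_lit 353) (nat_lit 221) (nat_lit 206)))))) (XT.nd (nat_lit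 468) (nat_lit 0) (nat_lit 0) (XT.nd (nat_lit 234) (nat_lit 0) (nat_lit 0) (XT.nd (nat_lit 78) (nat_lit 0) (nat_lit 0) (XT.lf (nat_lit 0) (nat_lit 39025845004) (nat_lit 152) (nat_lit 43541500276) (nat_lit 0) (nat_lit 35925401945) (nat_lit 2) (nat_lit 5) (nat_lit 4) (nat_lit 4) (nat_lit 2) (nat_lit 4) (nat_lit 354) (nat_lit 221) (nat_lit 205)) (XT.nd (nat_lit 78) (nat_lit 0) (nat_lit 0) (XT.lf (nat_lit 0) (nat_lit 44187363378) (nat_lit 152) (nat_lit 39162083969) (nat_lit 0) (nat_lit 40962105611) (nat_lit 2) (nat_lit 5) (nat_lit 4) (nat_lit 4) (nat_lit 2) (nat_lit 4) (nat_lit 355) (nat_lit 221) (nat_lit 204)) (XT.lf (nat_lit 0) (nat_lit 49528352327) (nat_lit 152) (nat_lit 34711102590) (nat_lit 0) (nat_lit 46184223410) (nat_lit 2) (nat_lit 5) (nat_lit 4) (nat_lit 4) (nat_lit 2) (nat_lit 4) (nat_lit 356) (nat_lit 221) (nat_lit 203)))) (XT.nd (nat_lit 78) (nat_lit 0) (nat_lit 0) (XT.lf (nat_lit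 0) (nat_lit 55061528492) (nat_lit 152) (nat_lit 30177958565) (nat_lit 0) (nat_lit 51604188956) (nat_lit 2) (nat_lit 5) (nat_lit 4) (nat_lit 4) (nat_lit 2) (nat_lit 4) (nat_lit 357) (nat_lit 221) (nat_lit 202)) (XT.nd (nat_lit 78) (nat_lit 0) (nat_lit 0) (XT.lf (nat_lit 0) (nat_lit 60800066101) (nat_lit 152) (nat_lit 25551858693) (nat_lit 0) (nat_lit 57234906928) (nat_lit 2) (nat_lit 5) (nat_lit 4) (nat_lit 4) (nat_lit 2) (nat_lit 4) (nat_lit 358) (nat_lit 221) (nat_lit 201)) (XT.lf (nat_lit 0) (nat_lit 66757628341) (nat_lit 152) (nat_lit 20821788451) (nat_lit 0) (nat_lit 63089783799) (nat_lit 2) (nat_lit 5) (nat_lit 4) (nat_lit 4) (nat_lit 2) (nat_lit 4) (nat_lit 359) (nat_lit 221) (nat_lit 200))))) (XT.nd (nat_lit 234) (nat_lit 0) (nat_lit 0) (XT.nd (nat_lit 78) (nat_lit 0) (nat_lit 0) (XT.lf (nat_lit 0) (nat_lit 72948399883) (nat_lit 152) (nat_lit 15976485766) (nat_lit 0) (nat_lit 69182759752)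 (nat_lit 2) (nat_lit 5) (nat_lit 4) (nat_lit 4) (nat_lit 2) (nat_lit 4) (nat_lit 360) (nat_lit 221) (nat_lit 199)) (XT.nd (nat_lit 78) (nat_lit 0) (nat_lit 0) (XT.lf (nat_lit 0) (nat_lit 79387120658) (nat_lit 152) (nat_lit 11004414205) (nat_lit 0) (nat_lit 75528341871) (nat_lit 2) (nat_lit 5) (nat_lit 4) (nat_lit 4) (nat_lit 2) (nat_lit 4) (nat_lit 361) (nat_lit 221) (nat_lit 198)) (XT.lf (nat_lit 0) (nat_lit 86089120955) (nat_lit 152) (nat_lit 5893735501) (nat_lit 0) (nat_lit 82141638685) (nat_lit 2) (nat_lit 5) (nat_lit 4) (nat_lit 4) (nat_lit 2) (nat_lit 4) (nat_lit 362) (nat_lit 221) (nat_lit 197)))) (XT.nd (nat_lit 38610) (nat_lit 0) (nat_lit 228) (XT.nd (nat_lit 38532) (nat_lit 0) (nat_lit 228) (XT.lf (nat_lit 0) (nat_lit 93070357917) (nat_lit 152) (nat_lit 632281371) (nat_lit 0) (nat_lit 89038396140) (nat_lit 2) (nat_lit 5) (nat_lit 4) (nat_lit 4) (nat_lit 2) (nat_lit 4) (nat_lit 363)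 (nat_lit 221) (nat_lit 196)) (XT.lf (nat_lit 0) (nat_lit 8044646730) (nat_lit 152) (nat_lit 9340283111) (nat_lit 0) (nat_lit 8044646730) (nat_lit 5) (nat_lit 5) (nat_lit 7) (nat_lit 4) (nat_lit 5) (nat_lit 4) (nat_lit 336) (nat_lit 222) (nat_lit 222))) (XT.nd (nat_lit 78) (nat_lit 0) (nat_lit 0) (XT.lf (nat_lit 0) (nat_lit 22001325457) (nat_lit 152) (nat_lit 9530022401) (nat_lit 0) (nat_lit 21706665533) (nat_lit 5) (nat_lit 5) (nat_lit 7) (nat_lit 4) (nat_lit 5) (nat_lit 4) (nat_lit 337) (nat_lit 222) (nat_lit 221)) (XT.lf (nat_lit 0) (nat_lit 28038378893) (nat_lit 152) (nat_lit 239514719) (nat_lit 0) (nat_lit 27463090470) (nat_lit 5) (nat_lit 5) (nat_lit 7) (nat_lit 4) (nat_lit 5) (nat_lit 4) (nat_lit 338) (nat_lit 222) (nat_lit 220))))))) (XT.nd (nat_lit 1014) (nat_lit 0) (nat_lit 0) (XT.nd (nat_lit 468) (nat_lit 152) (nat_lit 0) (XT.nd (nat_lit 234) (nat_lit 0) (nat_lit 0) (XT.nd (nat_lit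 78) (nat_lit 0) (nat_lit 0) (XT.lf (nat_lit 0) (nat_lit 9396435377) (nat_lit 76) (nat_lit 24908716612) (nat_lit 76) (nat_lit 24066162952) (nat_lit 4) (nat_lit 4) (nat_lit 5) (nat_lit 5) (nat_lit 5) (nat_lit 4) (nat_lit 339) (nat_lit 222) (nat_lit 219)) (XT.nd (nat_lit 78) (nat_lit 0) (nat_lit 0) (XT.lf (nat_lit 0) (nat_lit 19225416281) (nat_lit 76) (nat_lit 21504767901) (nat_lit 76) (nat_lit 20407675921) (nat_lit 4) (nat_lit 4) (nat_lit 5) (nat_lit 5) (nat_lit 5) (nat_lit 4) (nat_lit 340) (nat_lit 222) (nat_lit 218)) (XT.lf (nat_lit 0) (nat_lit 29266063517) (nat_lit 76) (nat_lit 18060361469) (nat_lit 76) (nat_lit 16720852041) (nat_lit 4) (nat_lit 4) (nat_lit 5) (nat_lit 5) (nat_lit 5) (nat_lit 4) (nat_lit 341) (nat_lit 222) (nat_lit 217)))) (XT.nd (nat_lit 78) (nat_lit 0) (nat_lit 0) (XT.lf (nat_lit 0) (nat_lit 39542283387) (nat_lit 76) (nat_lit 14567296349) (nat_lit 76) (nat_lit 12996913160)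 (nat_lit 4) (nat_lit 4) (nat_lit 5) (nat_lit 5) (nat_lit 5) (nat_lit 4) (nat_lit 342) (nat_lit 222) (nat_lit 216)) (XT.nd (nat_lit 78) (nat_lit 0) (nat_lit 0) (XT.lf (nat_lit 0) (nat_lit 50078543082) (nat_lit 76) (nat_lit 11017255718) (nat_lit 76) (nat_lit 9226992758) (nat_lit 4) (nat_lit 4) (nat_lit 5) (nat_lit 5) (nat_lit 5) (nat_lit 4) (nat_lit 343) (nat_lit 222) (nat_lit 215)) (XT.lf (nat_lit 0) (nat_lit 60899928933) (nat_lit 76) (nat_lit 7401787100) (nat_lit 76) (nat_lit 5402114832) (nat_lit 4) (nat_lit 4) (nat_lit 5) (nat_lit 5) (nat_lit 5) (nat_lit 4) (nat_lit 344) (nat_lit 222) (nat_lit 214))))) (XT.nd (nat_lit 234) (nat_lit 0) (nat_lit 0) (XT.nd (nat_lit 78) (nat_lit 152) (nat_lit 0) (XT.lf (nat_lit 0) (nat_lit 72032206146) (nat_lit 76) (nat_lit 3712282234) (nat_lit 76) (nat_lit 1513172532) (nat_lit 4) (nat_lit 4) (nat_lit 5) (nat_lit 5) (nat_lit 5) (nat_lit 4) (nat_lit 345) (nat_lit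 222) (nat_lit 213)) (XT.nd (nat_lit 78) (nat_lit 0) (nat_lit 0) (XT.lf (nat_lit 0) (nat_lit 2426723006) (nat_lit 152) (nat_lit 78457294449) (nat_lit 0) (nat_lit 107256874) (nat_lit 2) (nat_lit 5) (nat_lit 4) (nat_lit 4) (nat_lit 2) (nat_lit 4) (nat_lit 346) (nat_lit 222) (nat_lit 212)) (XT.lf (nat_lit 0) (nat_lit 6508266611) (nat_lit 152) (nat_lit 74390431565) (nat_lit 0) (nat_lit 4013173652) (nat_lit 2) (nat_lit 5) (nat_lit 4) (nat_lit 4) (nat_lit 2) (nat_lit 4) (nat_lit 347) (nat_lit 222) (nat_lit 211)))) (XT.nd (nat_lit 156) (nat_lit 0) (nat_lit 0) (XT.nd (nat_lit 78) (nat_lit 0) (nat_lit 0) (XT.lf (nat_lit 0) (nat_lit 10683281785) (nat_lit 152) (nat_lit 70327640221) (nat_lit 0) (nat_lit 8020925180) (nat_lit 2) (nat_lit 5) (nat_lit 4) (nat_lit 4) (nat_lit 2) (nat_lit 4) (nat_lit 348) (nat_lit 222) (nat_lit 210)) (XT.lf (nat_lit 0) (nat_lit 14961709040) (nat_lit 152) (nat_lit 66259247103)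 (nat_lit 0) (nat_lit 12140053725) (nat_lit 2) (nat_lit 5) (nat_lit 4) (nat_lit 4) (nat_lit 2) (nat_lit 4) (nat_lit 349) (nat_lit 222) (nat_lit 209))) (XT.nd (nat_lit 78) (nat_lit 0) (nat_lit 0) (XT.lf (nat_lit 0) (nat_lit 19353735108) (nat_lit 152) (nat_lit 62175565563) (nat_lit 0) (nat_lit 16380366736) (nat_lit 2) (nat_lit 5) (nat_lit 4) (nat_lit 4) (nat_lit 2) (nat_lit 4) (nat_lit 350) (nat_lit 222) (nat_lit 208)) (XT.lf (nat_lit 0) (nat_lit 23869817193) (nat_lit 152) (nat_lit 58066872548) (nat_lit 0) (nat_lit 20751960196) (nat_lit 2) (nat_lit 5) (nat_lit 4) (nat_lit 4) (nat_lit 2) (nat_lit 4) (nat_lit 351) (nat_lit 222) (nat_lit 207)))))) (XT.nd (nat_lit 546) (nat_lit 0) (nat_lit 0) (XT.nd (nat_lit 234) (nat_lit 0) (nat_lit 0) (XT.nd (nat_lit 78) (nat_lit 0) (nat_lit 0) (XT.lf (nat_lit 0) (nat_lit 28520707873) (nat_lit 152) (nat_lit 53923385456) (nat_lit 0) (nat_lit 25265242660) (nat_lit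 2) (nat_lit 5) (nat_lit 4) (nat_lit 4) (nat_lit 2) (nat_lit 4) (nat_lit 352) (nat_lit 222) (nat_lit 206)) (XT.nd (nat_lit 78) (nat_lit 0) (nat_lit 0) (XT.lf (nat_lit 0) (nat_lit 33317480696) (nat_lit 152) (nat_lit 49735238842) (nat_lit 0) (nat_lit 29930960040) (nat_lit 2) (nat_lit 5) (nat_lit 4) (nat_lit 4) (nat_lit 2) (nat_lit 4) (nat_lit 353) (nat_lit 222) (nat_lit 205)) (XT.lf (nat_lit 0) (nat_lit 38271556550) (nat_lit 152) (nat_lit 45492460928) (nat_lit 0) (nat_lit 34760221187) (nat_lit 2) (nat_lit 5) (nat_lit 4) (nat_lit 4) (nat_lit 2) (nat_lit 4) (nat_lit 354) (nat_lit 222) (nat_lit 204)))) (XT.nd (nat_lit 156) (nat_lit 0) (nat_lit 0) (XT.nd (nat_lit 78) (nat_lit 0) (nat_lit 0) (XT.lf (nat_lit 0) (nat_lit 43394730853) (nat_lit 152) (nat_lit 41184949862) (nat_lit 0) (nat_lit 39764524340) (nat_lit 2) (nat_lit 5) (nat_lit 4) (nat_lit 4) (nat_lit 2) (nat_lit 4) (nat_lit 355) (nat_lit 222)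 (nat_lit 203)) (XT.lf (nat_lit 0) (nat_lit 48699201640) (nat_lit 152) (nat_lit 36802449665) (nat_lit 0) (nat_lit 44955784509) (nat_lit 2) (nat_lit 5) (nat_lit 4) (nat_lit 4) (nat_lit 2) (nat_lit 4) (nat_lit 356) (nat_lit 222) (nat_lit 202))) (XT.nd (nat_lit 78) (nat_lit 0) (nat_lit 0) (XT.lf (nat_lit 0) (nat_lit 54197598604) (nat_lit 152) (nat_lit 32334525812) (nat_lit 0) (nat_lit 50346361835) (nat_lit 2) (nat_lit 5) (nat_lit 4) (nat_lit 4) (nat_lit 2) (nat_lit 4) (nat_lit 357) (nat_lit 222) (nat_lit 201)) (XT.lf (nat_lit 0) (nat_lit 59903013164) (nat_lit 152) (nat_lit 27770540390) (nat_lit 0) (nat_lit 55949091027) (nat_lit 2) (nat_lit 5) (nat_lit 4) (nat_lit 4) (nat_lit 2) (nat_lit 4) (nat_lit 358) (nat_lit 222) (nat_lit 200))))) (XT.nd (nat_lit 234) (nat_lit 0) (nat_lit 0) (XT.nd (nat_lit 78) (nat_lit 0) (nat_lit 0) (XT.lf (nat_lit 0) (nat_lit 65829029643) (nat_lit 152) (nat_lit 23099626768)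 (nat_lit 0) (nat_lit 61777311916) (nat_lit 2) (nat_lit 5) (nat_lit 4) (nat_lit 4) (nat_lit 2) (nat_lit 4) (nat_lit 359) (nat_lit 222) (nat_lit 199)) (XT.nd (nat_lit 78) (nat_lit 0) (nat_lit 0) (XT.lf (nat_lit 0) (nat_lit 71989757602) (nat_lit 152) (nat_lit 18310663721) (nat_lit 0) (nat_lit 67844901219) (nat_lit 2) (nat_lit 5) (nat_lit 4) (nat_lit 4) (nat_lit 2) (nat_lit 4) (nat_lit 360) (nat_lit 222) (nat_lit 198)) (XT.lf (nat_lit 0) (nat_lit 78399865443) (nat_lit 152) (nat_lit 13392248957) (nat_lit 0) (nat_lit 74166305577) (nat_lit 2) (nat_lit 5) (nat_lit 4) (nat_lit 4) (nat_lit 2) (nat_lit 4) (nat_lit 361) (nat_lit 222) (nat_lit 197)))) (XT.nd (nat_lit 38454) (nat_lit 0) (nat_lit 228) (XT.nd (nat_lit 78) (nat_lit 0) (nat_lit 0) (XT.lf (nat_lit 0) (nat_lit 85074615325) (nat_lit 152) (nat_lit 8332671965) (nat_lit 0) (nat_lit 80756575953) (nat_lit 2) (nat_lit 5) (nat_lit 4) (nat_lit 4) (nat_lit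 2) (nat_lit 4) (nat_lit 362) (nat_lit 222) (nat_lit 196)) (XT.lf (nat_lit 0) (nat_lit 92029899511) (nat_lit 152) (nat_lit 3119886133) (nat_lit 0) (nat_lit 87631403466) (nat_lit 2) (nat_lit 5) (nat_lit 4) (nat_lit 4) (nat_lit 2) (nat_lit 4) (nat_lit 363) (nat_lit 222) (nat_lit 195))) (XT.nd (nat_lit 78) (nat_lit 0) (nat_lit 0) (XT.lf (nat_lit 0) (nat_lit 2492692316) (nat_lit 152) (nat_lit 18238920920) (nat_lit 0) (nat_lit 2492692316) (nat_lit 5) (nat_lit 5) (nat_lit 7) (nat_lit 4) (nat_lit 5) (nat_lit 4) (nat_lit 334) (nat_lit 223) (nat_lit 223)) (XT.lf (nat_lit 0) (nat_lit 10597599555) (nat_lit 152) (nat_lit 27712933194) (nat_lit 0) (nat_lit 10288206635) (nat_lit 5) (nat_lit 5) (nat_lit 7) (nat_lit 4) (nat_lit 5) (nat_lit 4) (nat_lit 335) (nat_lit 223) (nat_lit 222))))))))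
noncomputable def xc4 : XT := (XT.nd (nat_lit 2028) (nat_lit 0) (nat_lit 0) (XT.nd (nat_lit 1014) (nat_lit 0) (nat_lit 0) (XT.nd (nat_lit 468) (nat_lit 152) (nat_lit 0) (XT.nd (nat_lit 234) (nat_lit 76) (nat_lit 0) (XT.nd (nat_lit 78) (nat_lit 0) (nat_lit 0) (XT.lf (nat_lit 0) (nat_lit 16311316053) (nat_lit 152) (nat_lit 18843220612) (nat_lit 0) (nat_lit 15707263210) (nat_lit 5) (nat_lit 5) (nat_lit 7) (nat_lit 4) (nat_lit 5) (nat_lit 4) (nat_lit 336) (nat_lit 223) (nat_lit 221)) (XT.nd (nat_lit 78) (nat_lit 0) (nat_lit 0) (XT.lf (nat_lit 0) (nat_lit 22140138216) (nat_lit 152) (nat_lit 9847585732) (nat_lit 0) (nat_lit 21255456873) (nat_lit 5) (nat_lit 5) (nat_lit 7) (nat_lit 4) (nat_lit 5) (nat_lit 4) (nat_lit 337) (nat_lit 223) (nat_lit 220)) (XT.lf (nat_lit 0) (nat_lit 28097944190) (nat_lit 152) (nat_lit 704610376) (nat_lit 0) (nat_lit 26945997611) (nat_lit 5) (nat_lit 5) (nat_lit 7) (nat_lit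 4) (nat_lit 5) (nat_lit 4) (nat_lit 338) (nat_lit 223) (nat_lit 219)))) (XT.nd (nat_lit 78) (nat_lit 0) (nat_lit 0) (XT.lf (nat_lit 0) (nat_lit 8778780063) (nat_lit 76) (nat_lit 25504526169) (nat_lit 76) (nat_lit 24098041269) (nat_lit 4) (nat_lit 4) (nat_lit 5) (nat_lit 5) (nat_lit 5) (nat_lit 4) (nat_lit 339) (nat_lit 223) (nat_lit 218)) (XT.nd (nat_lit 78) (nat_lit 0) (nat_lit 0) (XT.lf (nat_lit 0) (nat_lit 18471281595) (nat_lit 76) (nat_lit 22163865124) (nat_lit 76) (nat_lit 20514962775) (nat_lit 4) (nat_lit 4) (nat_lit 5) (nat_lit 5) (nat_lit 5) (nat_lit 4) (nat_lit 340) (nat_lit 223) (nat_lit 217)) (XT.lf (nat_lit 0) (nat_lit 28381948476) (nat_lit 76) (nat_lit 18779732660) (nat_lit 76) (nat_lit 16899956551) (nat_lit 4) (nat_lit 4) (nat_lit 5) (nat_lit 5) (nat_lit 5) (nat_lit 4) (nat_lit 341) (nat_lit 223) (nat_lit 216))))) (XT.nd (nat_lit 234) (nat_lit 152) (nat_lit 0) (XT.nd (nat_lit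 78) (nat_lit 0) (nat_lit 0) (XT.lf (nat_lit 0) (nat_lit 38534377531) (nat_lit 76) (nat_lit 15344071318) (nat_lit 76) (nat_lit 13244415437) (nat_lit 4) (nat_lit 4) (nat_lit 5) (nat_lit 5) (nat_lit 5) (nat_lit 4) (nat_lit 342) (nat_lit 223) (nat_lit 215)) (XT.nd (nat_lit 78) (nat_lit 0) (nat_lit 0) (XT.lf (nat_lit 0) (nat_lit 48952741212) (nat_lit 76) (nat_lit 11848700952) (nat_lit 76) (nat_lit 9539635765) (nat_lit 4) (nat_lit 4) (nat_lit 5) (nat_lit 5) (nat_lit 5) (nat_lit 4) (nat_lit 343) (nat_lit 223) (nat_lit 214)) (XT.lf (nat_lit 0) (nat_lit 59661845146) (nat_lit 76) (nat_lit 8285299252) (nat_lit 76) (nat_lit 5776796630) (nat_lit 4) (nat_lit 4) (nat_lit 5) (nat_lit 5) (nat_lit 5) (nat_lit 4) (nat_lit 344) (nat_lit 223) (nat_lit 213)))) (XT.nd (nat_lit 156) (nat_lit 0) (nat_lit 0) (XT.nd (nat_lit 78) (nat_lit 152) (nat_lit 0) (XT.lf (nat_lit 0) (nat_lit 70687187199) (nat_lit 76) (nat_lit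 4645381929) (nat_lit 76) (nat_lit 1946938893) (nat_lit 4) (nat_lit 4) (nat_lit 5) (nat_lit 5) (nat_lit 5) (nat_lit 4) (nat_lit 345) (nat_lit 223) (nat_lit 212)) (XT.lf (nat_lit 0) (nat_lit 1040240842) (nat_lit 76) (nat_lit 890586502) (nat_lit 152) (nat_lit 79084552264) (nat_lit 2) (nat_lit 5) (nat_lit 3) (nat_lit 5) (nat_lit 4) (nat_lit 4) (nat_lit 346) (nat_lit 223) (nat_lit 211))) (XT.nd (nat_lit 78) (nat_lit 0) (nat_lit 0) (XT.lf (nat_lit 0) (nat_lit 5949856131) (nat_lit 152) (nat_lit 76000892915) (nat_lit 0) (nat_lit 2987118050) (nat_lit 2) (nat_lit 5) (nat_lit 4) (nat_lit 4) (nat_lit 2) (nat_lit 4) (nat_lit 347) (nat_lit 223) (nat_lit 210)) (XT.lf (nat_lit 0) (nat_lit 10073486584) (nat_lit 152) (nat_lit 72034461470) (nat_lit 0) (nat_lit 6951449793) (nat_lit 2) (nat_lit 5) (nat_lit 4) (nat_lit 4) (nat_lit 2) (nat_lit 4) (nat_lit 348) (nat_lit 223) (nat_lit 209)))))) (XT.nd (nat_lit 468)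 (nat_lit 0) (nat_lit 0) (XT.nd (nat_lit 234) (nat_lit 0) (nat_lit 0) (XT.nd (nat_lit 78) (nat_lit 0) (nat_lit 0) (XT.lf (nat_lit 0) (nat_lit 14302976010) (nat_lit 152) (nat_lit 68057839686) (nat_lit 0) (nat_lit 11029226162) (nat_lit 2) (nat_lit 5) (nat_lit 4) (nat_lit 4) (nat_lit 2) (nat_lit 4) (nat_lit 349) (nat_lit 223) (nat_lit 208)) (XT.nd (nat_lit 78) (nat_lit 0) (nat_lit 0) (XT.lf (nat_lit 0) (nat_lit 18648394621) (nat_lit 152) (nat_lit 64061559415) (nat_lit 0) (nat_lit 15230156148) (nat_lit 2) (nat_lit 5) (nat_lit 4) (nat_lit 4) (nat_lit 2) (nat_lit 4) (nat_lit 350) (nat_lit 223) (nat_lit 207)) (XT.lf (nat_lit 0) (nat_lit 23120088653) (nat_lit 152) (nat_lit 60036105705) (nat_lit 0) (nat_lit 19564241965) (nat_lit 2) (nat_lit 5) (nat_lit 4) (nat_lit 4) (nat_lit 2) (nat_lit 4) (nat_lit 351) (nat_lit 223) (nat_lit 206)))) (XT.nd (nat_lit 78) (nat_lit 0) (nat_lit 0) (XT.lf (nat_lit 0) (nat_lit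 27728704995) (nat_lit 152) (nat_lit 55971894141) (nat_lit 0) (nat_lit 24041802864) (nat_lit 2) (nat_lit 5) (nat_lit 4) (nat_lit 4) (nat_lit 2) (nat_lit 4) (nat_lit 352) (nat_lit 223) (nat_lit 205)) (XT.nd (nat_lit 78) (nat_lit 0) (nat_lit 0) (XT.lf (nat_lit 0) (nat_lit 32485216545) (nat_lit 152) (nat_lit 51859248029) (nat_lit 0) (nat_lit 28673499707) (nat_lit 2) (nat_lit 5) (nat_lit 4) (nat_lit 4) (nat_lit 2) (nat_lit 4) (nat_lit 353) (nat_lit 223) (nat_lit 204)) (XT.lf (nat_lit 0) (nat_lit 37400948329) (nat_lit 152) (nat_lit 47688375356) (nat_lit 0) (nat_lit 33470360341) (nat_lit 2) (nat_lit 5) (nat_lit 4) (nat_lit 4) (nat_lit 2) (nat_lit 4) (nat_lit 354) (nat_lit 223) (nat_lit 203))))) (XT.nd (nat_lit 234) (nat_lit 0) (nat_lit 0) (XT.nd (nat_lit 78) (nat_lit 0) (nat_lit 0) (XT.lf (nat_lit 0) (nat_lit 42487604471) (nat_lit 152) (nat_lit 43449345471) (nat_lit 0) (nat_lit 38443805863) (nat_lit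 2) (nat_lit 5) (nat_lit 4) (nat_lit 4) (nat_lit 2) (nat_lit 4) (nat_lit 355) (nat_lit 223) (nat_lit 202)) (XT.nd (nat_lit 78) (nat_lit 0) (nat_lit 0) (XT.lf (nat_lit 0) (nat_lit 47757296056) (nat_lit 152) (nat_lit 39132065447) (nat_lit 0) (nat_lit 43605677812) (nat_lit 2) (nat_lit 5) (nat_lit 4) (nat_lit 4) (nat_lit 2) (nat_lit 4) (nat_lit 356) (nat_lit 223) (nat_lit 201)) (XT.lf (nat_lit 0) (nat_lit 53222569971) (nat_lit 152) (nat_lit 34726256045) (nat_lit 0) (nat_lit 48968266357) (nat_lit 2) (nat_lit 5) (nat_lit 4) (nat_lit 4) (nat_lit 2) (nat_lit 4) (nat_lit 357) (nat_lit 223) (nat_lit 200)))) (XT.nd (nat_lit 156) (nat_lit 0) (nat_lit 0) (XT.nd (nat_lit 78) (nat_lit 0) (nat_lit 0) (XT.lf (nat_lit 0) (nat_lit 58896438770) (nat_lit 152) (nat_lit 30221427243) (nat_lit 0) (nat_lit 54544339568) (nat_lit 2) (nat_lit 5) (nat_lit 4) (nat_lit 4) (nat_lit 2) (nat_lit 4) (nat_lit 358) (nat_lit 223)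 (nat_lit 199)) (XT.lf (nat_lit 0) (nat_lit 64792411667) (nat_lit 152) (nat_lit 25606853258) (nat_lit 0) (nat_lit 60347173808) (nat_lit 2) (nat_lit 5) (nat_lit 4) (nat_lit 4) (nat_lit 2) (nat_lit 4) (nat_lit 359) (nat_lit 223) (nat_lit 198))) (XT.nd (nat_lit 78) (nat_lit 0) (nat_lit 0) (XT.lf (nat_lit 0) (nat_lit 70924526691) (nat_lit 152) (nat_lit 20871547009) (nat_lit 0) (nat_lit 66390585350) (nat_lit 2) (nat_lit 5) (nat_lit 4) (nat_lit 4) (nat_lit 2) (nat_lit 4) (nat_lit 360) (nat_lit 223) (nat_lit 197)) (XT.lf (nat_lit 0) (nat_lit 77307384117) (nat_lit 152) (nat_lit 16004233957) (nat_lit 0) (nat_lit 72688963269) (nat_lit 2) (nat_lit 5) (nat_lit 4) (nat_lit 4) (nat_lit 2) (nat_lit 4) (nat_lit 361) (nat_lit 223) (nat_lit 196))))))) (XT.nd (nat_lit 39156) (nat_lit 0) (nat_lit 0) (XT.nd (nat_lit 38610) (nat_lit 0) (nat_lit 152) (XT.nd (nat_lit 38376) (nat_lit 0) (nat_lit 228) (XT.nd (nat_lit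 78) (nat_lit 0) (nat_lit 0) (XT.lf (nat_lit 0) (nat_lit 83956181224) (nat_lit 152) (nat_lit 10993325263) (nat_lit 0) (nat_lit 79257303702) (nat_lit 2) (nat_lit 5) (nat_lit 4) (nat_lit 4) (nat_lit 2) (nat_lit 4) (nat_lit 362) (nat_lit 223) (nat_lit 195)) (XT.nd (nat_lit 38220) (nat_lit 0) (nat_lit 380) (XT.lf (nat_lit 0) (nat_lit 90886748481) (nat_lit 152) (nat_lit 5826890190) (nat_lit 0) (nat_lit 86111245556) (nat_lit 2) (nat_lit 5) (nat_lit 4) (nat_lit 4) (nat_lit 2) (nat_lit 4) (nat_lit 363) (nat_lit 223) (nat_lit 194)) (XT.lf (nat_lit 0) (nat_lit 15716761943) (nat_lit 76) (nat_lit 2756008754) (nat_lit 76) (nat_lit 2756008754) (nat_lit 7) (nat_lit 4) (nat_lit 8) (nat_lit 5) (nat_lit 8) (nat_lit 4) (nat_lit 332) (nat_lit 224) (nat_lit 224)))) (XT.nd (nat_lit 78) (nat_lit 152) (nat_lit 0) (XT.lf (nat_lit 0) (nat_lit 43660717435) (nat_lit 76) (nat_lit 539875244) (nat_lit 76) (nat_lit 205266802)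 (nat_lit 7) (nat_lit 4) (nat_lit 8) (nat_lit 5) (nat_lit 8) (nat_lit 4) (nat_lit 333) (nat_lit 224) (nat_lit 223)) (XT.nd (nat_lit 78) (nat_lit 0) (nat_lit 0) (XT.lf (nat_lit 0) (nat_lit 5218508356) (nat_lit 152) (nat_lit 36648628950) (nat_lit 0) (nat_lit 4584252870) (nat_lit 5) (nat_lit 5) (nat_lit 7) (nat_lit 4) (nat_lit 5) (nat_lit 4) (nat_lit 334) (nat_lit 224) (nat_lit 222)) (XT.lf (nat_lit 0) (nat_lit 10743352951) (nat_lit 152) (nat_lit 28046374692) (nat_lit 0) (nat_lit 9814437542) (nat_lit 5) (nat_lit 5) (nat_lit 7) (nat_lit 4) (nat_lit 5) (nat_lit 4) (nat_lit 335) (nat_lit 224) (nat_lit 221))))) (XT.nd (nat_lit 234) (nat_lit 76) (nat_lit 0) (XT.nd (nat_lit 78) (nat_lit 0) (nat_lit 0) (XT.lf (nat_lit 0) (nat_lit 16373859615) (nat_lit 152) (nat_lit 19331571052) (nat_lit 0) (nat_lit 15164315707) (nat_lit 5) (nat_lit 5) (nat_lit 7) (nat_lit 4) (nat_lit 5) (nat_lit 4) (nat_lit 336) (nat_lit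 224) (nat_lit 220)) (XT.nd (nat_lit 78) (nat_lit 0) (nat_lit 0) (XT.lf (nat_lit 0) (nat_lit 22123434316) (nat_lit 152) (nat_lit 10483468498) (nat_lit 0) (nat_lit 20646625171) (nat_lit 5) (nat_lit 5) (nat_lit 7) (nat_lit 4) (nat_lit 5) (nat_lit 4) (nat_lit 337) (nat_lit 224) (nat_lit 219)) (XT.lf (nat_lit 0) (nat_lit 28005766517) (nat_lit 152) (nat_lit 1481000119) (nat_lit 0) (nat_lit 26274419051) (nat_lit 5) (nat_lit 5) (nat_lit 7) (nat_lit 4) (nat_lit 5) (nat_lit 4) (nat_lit 338) (nat_lit 224) (nat_lit 218)))) (XT.nd (nat_lit 156) (nat_lit 0) (nat_lit 0) (XT.nd (nat_lit 78) (nat_lit 0) (nat_lit 0) (XT.lf (nat_lit 0) (nat_lit 7850459269) (nat_lit 76) (nat_lit 26259865918) (nat_lit 76) (nat_lit 24286101004) (nat_lit 4) (nat_lit 4) (nat_lit 5) (nat_lit 5) (nat_lit 5) (nat_lit 4) (nat_lit 339) (nat_lit 224) (nat_lit 217)) (XT.lf (nat_lit 0) (nat_lit 17412980446) (nat_lit 76) (nat_lit 22979478841)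 (nat_lit 76) (nat_lit 20774840166) (nat_lit 4) (nat_lit 4) (nat_lit 5) (nat_lit 5) (nat_lit 5) (nat_lit 4) (nat_lit 340) (nat_lit 224) (nat_lit 216))) (XT.nd (nat_lit 78) (nat_lit 0) (nat_lit 0) (XT.lf (nat_lit 0) (nat_lit 27199856512) (nat_lit 76) (nat_lit 19652750155) (nat_lit 76) (nat_lit 17228231708) (nat_lit 4) (nat_lit 4) (nat_lit 5) (nat_lit 5) (nat_lit 5) (nat_lit 4) (nat_lit 341) (nat_lit 224) (nat_lit 215)) (XT.lf (nat_lit 0) (nat_lit 37234389555) (nat_lit 76) (nat_lit 16271759078) (nat_lit 76) (nat_lit 13637831325) (nat_lit 4) (nat_lit 4) (nat_lit 5) (nat_lit 5) (nat_lit 5) (nat_lit 4) (nat_lit 342) (nat_lit 224) (nat_lit 214)))))) (XT.nd (nat_lit 546) (nat_lit 0) (nat_lit 0) (XT.nd (nat_lit 234) (nat_lit 152) (nat_lit 0) (XT.nd (nat_lit 78) (nat_lit 0) (nat_lit 0) (XT.lf (nat_lit 0) (nat_lit 47540471318) (nat_lit 76) (nat_lit 12828455631) (nat_lit 76) (nat_lit 9995090444) (nat_lit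 4) (nat_lit 4) (nat_lit 5) (nat_lit 5) (nat_lit 5) (nat_lit 4) (nat_lit 343) (nat_lit 224) (nat_lit 213)) (XT.nd (nat_lit 78) (nat_lit 0) (nat_lit 0) (XT.lf (nat_lit 0) (nat_lit 58142640092) (nat_lit 76) (nat_lit 9314641474) (nat_lit 76) (nat_lit 6291335872) (nat_lit 4) (nat_lit 4) (nat_lit 5) (nat_lit 5) (nat_lit 5) (nat_lit 4) (nat_lit 344) (nat_lit 224) (nat_lit 212)) (XT.lf (nat_lit 0) (nat_lit 69066139135) (nat_lit 76) (nat_lit 5721950381) (nat_lit 76) (nat_lit 2517749147) (nat_lit 4) (nat_lit 4) (nat_lit 5) (nat_lit 5) (nat_lit 5) (nat_lit 4) (nat_lit 345) (nat_lit 224) (nat_lit 211)))) (XT.nd (nat_lit 156) (nat_lit 0) (nat_lit 0) (XT.nd (nat_lit 78) (nat_lit 76) (nat_lit 0) (XT.lf (nat_lit 0) (nat_lit 1308610546) (nat_lit 152) (nat_lit 720003379) (nat_lit 76) (nat_lit 79015151833) (nat_lit 3) (nat_lit 5) (nat_lit 5) (nat_lit 5) (nat_lit 4) (nat_lit 4) (nat_lit 346) (nat_lit 224) (nat_lit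 210)) (XT.lf (nat_lit 0) (nat_lit 5258186449) (nat_lit 152) (nat_lit 77889415126) (nat_lit 0) (nat_lit 1820749109) (nat_lit 2) (nat_lit 5) (nat_lit 4) (nat_lit 4) (nat_lit 2) (nat_lit 4) (nat_lit 347) (nat_lit 224) (nat_lit 209))) (XT.nd (nat_lit 78) (nat_lit 0) (nat_lit 0) (XT.lf (nat_lit 0) (nat_lit 9332879073) (nat_lit 152) (nat_lit 74014755015) (nat_lit 0) (nat_lit 5743728676) (nat_lit 2) (nat_lit 5) (nat_lit 4) (nat_lit 4) (nat_lit 2) (nat_lit 4) (nat_lit 348) (nat_lit 224) (nat_lit 208)) (XT.lf (nat_lit 0) (nat_lit 13515761042) (nat_lit 152) (nat_lit 70125534500) (nat_lit 0) (nat_lit 9782122019) (nat_lit 2) (nat_lit 5) (nat_lit 4) (nat_lit 4) (nat_lit 2) (nat_lit 4) (nat_lit 349) (nat_lit 224) (nat_lit 207))))) (XT.nd (nat_lit 234) (nat_lit 0) (nat_lit 0) (XT.nd (nat_lit 78) (nat_lit 0) (nat_lit 0) (XT.lf (nat_lit 0) (nat_lit 17816791599) (nat_lit 152) (nat_lit 66212493534) (nat_lit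 0) (nat_lit 13945544362) (nat_lit 2) (nat_lit 5) (nat_lit 4) (nat_lit 4) (nat_lit 2) (nat_lit 4) (nat_lit 350) (nat_lit 224) (nat_lit 206)) (XT.nd (nat_lit 78) (nat_lit 0) (nat_lit 0) (XT.lf (nat_lit 0) (nat_lit 22246211294) (nat_lit 152) (nat_lit 62266315351) (nat_lit 0) (nat_lit 18243908614) (nat_lit 2) (nat_lit 5) (nat_lit 4) (nat_lit 4) (nat_lit 2) (nat_lit 4) (nat_lit 351) (nat_lit 224) (nat_lit 205)) (XT.lf (nat_lit 0) (nat_lit 26814566364) (nat_lit 152) (nat_lit 58277604290) (nat_lit 0) (nat_lit 22687448976) (nat_lit 2) (nat_lit 5) (nat_lit 4) (nat_lit 4) (nat_lit 2) (nat_lit 4) (nat_lit 352) (nat_lit 224) (nat_lit 204)))) (XT.nd (nat_lit 156) (nat_lit 0) (nat_lit 0) (XT.nd (nat_lit 78) (nat_lit 0) (nat_lit 0) (XT.lf (nat_lit 0) (nat_lit 31532733843) (nat_lit 152) (nat_lit 54236863419) (nat_lit 0) (nat_lit 27286745306) (nat_lit 2) (nat_lit 5) (nat_lit 4) (nat_lit 4) (nat_lit 2) (nat_lit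 4) (nat_lit 353) (nat_lit 224) (nat_lit 203)) (XT.lf (nat_lit 0) (nat_lit 36411947466) (nat_lit 152) (nat_lit 50134471928) (nat_lit 0) (nat_lit 32052748309) (nat_lit 2) (nat_lit 5) (nat_lit 4) (nat_lit 4) (nat_lit 2) (nat_lit 4) (nat_lit 354) (nat_lit 224) (nat_lit 202))) (XT.nd (nat_lit 78) (nat_lit 0) (nat_lit 0) (XT.lf (nat_lit 0) (nat_lit 41463824406) (nat_lit 152) (nat_lit 45960662216) (nat_lit 0) (nat_lit 36996805612) (nat_lit 2) (nat_lit 5) (nat_lit 4) (nat_lit 4) (nat_lit 2) (nat_lit 4) (nat_lit 355) (nat_lit 224) (nat_lit 201)) (XT.lf (nat_lit 0) (nat_lit 46700392943) (nat_lit 152) (nat_lit 41705496642) (nat_lit 0) (nat_lit 42130688780) (nat_lit 2) (nat_lit 5) (nat_lit 4) (nat_lit 4) (nat_lit 2) (nat_lit 4) (nat_lit 356) (nat_lit 224) (nat_lit 200))))))))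
noncomputable def xc5 : XT := (XT.nd (nat_lit 40014) (nat_lit 0) (nat_lit 0) (XT.nd (nat_lit 39000) (nat_lit 0) (nat_lit 0) (XT.nd (nat_lit 468) (nat_lit 0) (nat_lit 0) (XT.nd (nat_lit 234) (nat_lit 0) (nat_lit 0) (XT.nd (nat_lit 78) (nat_lit 0) (nat_lit 0) (XT.lf (nat_lit 0) (nat_lit 52134121096) (nat_lit 152) (nat_lit 37358843860) (nat_lit 0) (nat_lit 47466621344) (nat_lit 2) (nat_lit 5) (nat_lit 4) (nat_lit 4) (nat_lit 2) (nat_lit 4) (nat_lit 357) (nat_lit 224) (nat_lit 199)) (XT.nd (nat_lit 78) (nat_lit 0) (nat_lit 0) (XT.lf (nat_lit 0) (nat_lit 57777946313) (nat_lit 152) (nat_lit 32910354695) (nat_lit 0) (nat_lit 53017307905) (nat_lit 2) (nat_lit 5) (nat_lit 4) (nat_lit 4) (nat_lit 2) (nat_lit 4) (nat_lit 358) (nat_lit 224) (nat_lit 198)) (XT.lf (nat_lit 0) (nat_lit 63645306275) (nat_lit 152) (nat_lit 28349437508) (nat_lit 0) (nat_lit 58795964384) (nat_lit 2) (nat_lit 5) (nat_lit 4)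 (nat_lit 4) (nat_lit 2) (nat_lit 4) (nat_lit 359) (nat_lit 224) (nat_lit 197)))) (XT.nd (nat_lit 78) (nat_lit 0) (nat_lit 0) (XT.lf (nat_lit 0) (nat_lit 69750170884) (nat_lit 152) (nat_lit 23665232971) (nat_lit 0) (nat_lit 64816349487) (nat_lit 2) (nat_lit 5) (nat_lit 4) (nat_lit 4) (nat_lit 2) (nat_lit 4) (nat_lit 360) (nat_lit 224) (nat_lit 196)) (XT.nd (nat_lit 78) (nat_lit 0) (nat_lit 0) (XT.lf (nat_lit 0) (nat_lit 76107075534) (nat_lit 152) (nat_lit 18846588217) (nat_lit 0) (nat_lit 71092797464) (nat_lit 2) (nat_lit 5) (nat_lit 4) (nat_lit 4) (nat_lit 2) (nat_lit 4) (nat_lit 361) (nat_lit 224) (nat_lit 195)) (XT.lf (nat_lit 0) (nat_lit 82731155712) (nat_lit 152) (nat_lit 13882030281) (nat_lit 0) (nat_lit 77640252238) (nat_lit 2) (nat_lit 5) (nat_lit 4) (nat_lit 4) (nat_lit 2) (nat_lit 4) (nat_lit 362) (nat_lit 224) (nat_lit 194))))) (XT.nd (nat_lit 38220) (nat_lit 0) (nat_lit 228) (XT.nd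 (nat_lit 38064) (nat_lit 0) (nat_lit 380) (XT.lf (nat_lit 0) (nat_lit 89638183036) (nat_lit 152) (nat_lit 8759738789) (nat_lit 0) (nat_lit 84474302988) (nat_lit 2) (nat_lit 5) (nat_lit 4) (nat_lit 4) (nat_lit 2) (nat_lit 4) (nat_lit 363) (nat_lit 224) (nat_lit 193)) (XT.nd (nat_lit 78) (nat_lit 0) (nat_lit 0) (XT.lf (nat_lit 0) (nat_lit 3935591438) (nat_lit 76) (nat_lit 7744308620) (nat_lit 76) (nat_lit 7744308620) (nat_lit 7) (nat_lit 4) (nat_lit 8) (nat_lit 5) (nat_lit 8) (nat_lit 4) (nat_lit 330) (nat_lit 225) (nat_lit 225)) (XT.lf (nat_lit 0) (nat_lit 19453035243) (nat_lit 76) (nat_lit 10752917805) (nat_lit 76) (nat_lit 10401578940) (nat_lit 7) (nat_lit 4) (nat_lit 8) (nat_lit 5) (nat_lit 8) (nat_lit 4) (nat_lit 331) (nat_lit 225) (nat_lit 224)))) (XT.nd (nat_lit 156) (nat_lit 152) (nat_lit 0) (XT.nd (nat_lit 78) (nat_lit 0) (nat_lit 0) (XT.lf (nat_lit 0) (nat_lit 31261660703) (nat_lit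 76) (nat_lit 5942330636) (nat_lit 76) (nat_lit 5256383329) (nat_lit 7) (nat_lit 4) (nat_lit 8) (nat_lit 5) (nat_lit 8) (nat_lit 4) (nat_lit 332) (nat_lit 225) (nat_lit 223)) (XT.lf (nat_lit 0) (nat_lit 43325175030) (nat_lit 76) (nat_lit 1045401955) (nat_lit 76) (nat_lit 40779940) (nat_lit 7) (nat_lit 4) (nat_lit 8) (nat_lit 5) (nat_lit 8) (nat_lit 4) (nat_lit 333) (nat_lit 225) (nat_lit 222))) (XT.nd (nat_lit 78) (nat_lit 0) (nat_lit 0) (XT.lf (nat_lit 0) (nat_lit 5284179096) (nat_lit 152) (nat_lit 37161396912) (nat_lit 0) (nat_lit 4014157992) (nat_lit 5) (nat_lit 5) (nat_lit 7) (nat_lit 4) (nat_lit 5) (nat_lit 4) (nat_lit 334) (nat_lit 225) (nat_lit 221)) (XT.lf (nat_lit 0) (nat_lit 10725813856) (nat_lit 152) (nat_lit 28714051596) (nat_lit 0) (nat_lit 9175164254) (nat_lit 5) (nat_lit 5) (nat_lit 7) (nat_lit 4) (nat_lit 5) (nat_lit 4) (nat_lit 335) (nat_lit 225) (nat_lit 220)))))) (XT.nd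 (nat_lit 468) (nat_lit 152) (nat_lit 0) (XT.nd (nat_lit 234) (nat_lit 76) (nat_lit 0) (XT.nd (nat_lit 78) (nat_lit 0) (nat_lit 0) (XT.lf (nat_lit 0) (nat_lit 16277073058) (nat_lit 152) (nat_lit 20146780282) (nat_lit 0) (nat_lit 14459158219) (nat_lit 5) (nat_lit 5) (nat_lit 7) (nat_lit 4) (nat_lit 5) (nat_lit 4) (nat_lit 336) (nat_lit 225) (nat_lit 219)) (XT.nd (nat_lit 78) (nat_lit 0) (nat_lit 0) (XT.lf (nat_lit 0) (nat_lit 21951173986) (nat_lit 152) (nat_lit 11439184705) (nat_lit 0) (nat_lit 19878720826) (nat_lit 5) (nat_lit 5) (nat_lit 7) (nat_lit 4) (nat_lit 5) (nat_lit 4) (nat_lit 337) (nat_lit 225) (nat_lit 218)) (XT.lf (nat_lit 0) (nat_lit 27761626403) (nat_lit 152) (nat_lit 2570532495) (nat_lit 0) (nat_lit 25446755795) (nat_lit 5) (nat_lit 5) (nat_lit 7) (nat_lit 4) (nat_lit 5) (nat_lit 4) (nat_lit 338) (nat_lit 225) (nat_lit 217)))) (XT.nd (nat_lit 78) (nat_lit 0) (nat_lit 0) (XT.lf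 (nat_lit 0) (nat_lit 6609262707) (nat_lit 76) (nat_lit 27176534288) (nat_lit 76) (nat_lit 24630789920) (nat_lit 4) (nat_lit 4) (nat_lit 5) (nat_lit 5) (nat_lit 5) (nat_lit 4) (nat_lit 339) (nat_lit 225) (nat_lit 216)) (XT.nd (nat_lit 78) (nat_lit 0) (nat_lit 0) (XT.lf (nat_lit 0) (nat_lit 16047993070) (nat_lit 76) (nat_lit 23953550989) (nat_lit 76) (nat_lit 21187926849) (nat_lit 4) (nat_lit 4) (nat_lit 5) (nat_lit 5) (nat_lit 5) (nat_lit 4) (nat_lit 340) (nat_lit 225) (nat_lit 215)) (XT.lf (nat_lit 0) (nat_lit 25716973123) (nat_lit 76) (nat_lit 20681492568) (nat_lit 76) (nat_lit 17706459121) (nat_lit 4) (nat_lit 4) (nat_lit 5) (nat_lit 5) (nat_lit 5) (nat_lit 4) (nat_lit 341) (nat_lit 225) (nat_lit 214))))) (XT.nd (nat_lit 234) (nat_lit 152) (nat_lit 0) (XT.nd (nat_lit 78) (nat_lit 0) (nat_lit 0) (XT.lf (nat_lit 0) (nat_lit 35639224248) (nat_lit 76) (nat_lit 17352568411) (nat_lit 76) (nat_lit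 14178097529) (nat_lit 4) (nat_lit 4) (nat_lit 5) (nat_lit 5) (nat_lit 5) (nat_lit 4) (nat_lit 342) (nat_lit 225) (nat_lit 213)) (XT.nd (nat_lit 78) (nat_lit 0) (nat_lit 0) (XT.lf (nat_lit 0) (nat_lit 45838370851) (nat_lit 76) (nat_lit 13958852506) (nat_lit 76) (nat_lit 10594441210) (nat_lit 4) (nat_lit 4) (nat_lit 5) (nat_lit 5) (nat_lit 5) (nat_lit 4) (nat_lit 343) (nat_lit 225) (nat_lit 212)) (XT.lf (nat_lit 0) (nat_lit 56338696616) (nat_lit 76) (nat_lit 10492264579) (nat_lit 76) (nat_lit 6946957651) (nat_lit 4) (nat_lit 4) (nat_lit 5) (nat_lit 5) (nat_lit 5) (nat_lit 4) (nat_lit 344) (nat_lit 225) (nat_lit 211)))) (XT.nd (nat_lit 156) (nat_lit 76) (nat_lit 0) (XT.nd (nat_lit 78) (nat_lit 76) (nat_lit 0) (XT.lf (nat_lit 0) (nat_lit 67165202318) (nat_lit 76) (nat_lit 6944550849) (nat_lit 76) (nat_lit 3226962366) (nat_lit 4) (nat_lit 4) (nat_lit 5) (nat_lit 5) (nat_lit 5) (nat_lit 4) (nat_lit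 345) (nat_lit 225) (nat_lit 210)) (XT.lf (nat_lit 0) (nat_lit 563193128) (nat_lit 152) (nat_lit 2738384102) (nat_lit 76) (nat_lit 77774785075) (nat_lit 3) (nat_lit 5) (nat_lit 5) (nat_lit 5) (nat_lit 4) (nat_lit 4) (nat_lit 346) (nat_lit 225) (nat_lit 209))) (XT.nd (nat_lit 78) (nat_lit 0) (nat_lit 0) (XT.lf (nat_lit 0) (nat_lit 4431610733) (nat_lit 152) (nat_lit 80060494681) (nat_lit 0) (nat_lit 511289759) (nat_lit 2) (nat_lit 5) (nat_lit 4) (nat_lit 4) (nat_lit 2) (nat_lit 4) (nat_lit 347) (nat_lit 225) (nat_lit 208)) (XT.lf (nat_lit 0) (nat_lit 8459695900) (nat_lit 152) (nat_lit 76273235839) (nat_lit 0) (nat_lit 4394886301) (nat_lit 2) (nat_lit 5) (nat_lit 4) (nat_lit 4) (nat_lit 2) (nat_lit 4) (nat_lit 348) (nat_lit 225) (nat_lit 207))))))) (XT.nd (nat_lit 1014) (nat_lit 0) (nat_lit 0) (XT.nd (nat_lit 468) (nat_lit 0) (nat_lit 0) (XT.nd (nat_lit 234) (nat_lit 0) (nat_lit 0) (XT.nd (nat_lit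 78) (nat_lit 0) (nat_lit 0) (XT.lf (nat_lit 0) (nat_lit 12598189816) (nat_lit 152) (nat_lit 72467254629) (nat_lit 0) (nat_lit 8395772001) (nat_lit 2) (nat_lit 5) (nat_lit 4) (nat_lit 4) (nat_lit 2) (nat_lit 4) (nat_lit 349) (nat_lit 225) (nat_lit 206)) (XT.nd (nat_lit 78) (nat_lit 0) (nat_lit 0) (XT.lf (nat_lit 0) (nat_lit 16856946036) (nat_lit 152) (nat_lit 68633489190) (nat_lit 0) (nat_lit 12523472779) (nat_lit 2) (nat_lit 5) (nat_lit 4) (nat_lit 4) (nat_lit 2) (nat_lit 4) (nat_lit 350) (nat_lit 225) (nat_lit 205)) (XT.lf (nat_lit 0) (nat_lit 21246104458) (nat_lit 152) (nat_lit 64762811511) (nat_lit 0) (nat_lit 16787816493) (nat_lit 2) (nat_lit 5) (nat_lit 4) (nat_lit 4) (nat_lit 2) (nat_lit 4) (nat_lit 351) (nat_lit 225) (nat_lit 204)))) (XT.nd (nat_lit 78) (nat_lit 0) (nat_lit 0) (XT.lf (nat_lit 0) (nat_lit 25776115457) (nat_lit 152) (nat_lit 60846005690) (nat_lit 0) (nat_lit 21198956343)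 (nat_lit 2) (nat_lit 5) (nat_lit 4) (nat_lit 4) (nat_lit 2) (nat_lit 4) (nat_lit 352) (nat_lit 225) (nat_lit 203)) (XT.nd (nat_lit 78) (nat_lit 0) (nat_lit 0) (XT.lf (nat_lit 0) (nat_lit 30457764776) (nat_lit 152) (nat_lit 56873746001) (nat_lit 0) (nat_lit 25767395042) (nat_lit 2) (nat_lit 5) (nat_lit 4) (nat_lit 4) (nat_lit 2) (nat_lit 4) (nat_lit 353) (nat_lit 225) (nat_lit 202)) (XT.lf (nat_lit 0) (nat_lit 35302199196) (nat_lit 152) (nat_lit 52836574683) (nat_lit 0) (nat_lit 30504009826) (nat_lit 2) (nat_lit 5) (nat_lit 4) (nat_lit 4) (nat_lit 2) (nat_lit 4) (nat_lit 354) (nat_lit 225) (nat_lit 201))))) (XT.nd (nat_lit 234) (nat_lit 0) (nat_lit 0) (XT.nd (nat_lit 78) (nat_lit 0) (nat_lit 0) (XT.lf (nat_lit 0) (nat_lit 40320953087) (nat_lit 152) (nat_lit 48724879421) (nat_lit 0) (nat_lit 35420078348) (nat_lit 2) (nat_lit 5) (nat_lit 4) (nat_lit 4) (nat_lit 2) (nat_lit 4) (nat_lit 355) (nat_lit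 225) (nat_lit 200)) (XT.nd (nat_lit 78) (nat_lit 0) (nat_lit 0) (XT.lf (nat_lit 0) (nat_lit 45525975863) (nat_lit 152) (nat_lit 44528870467) (nat_lit 0) (nat_lit 40527305534) (nat_lit 2) (nat_lit 5) (nat_lit 4) (nat_lit 4) (nat_lit 2) (nat_lit 4) (nat_lit 356) (nat_lit 225) (nat_lit 199)) (XT.lf (nat_lit 0) (nat_lit 50929660434) (nat_lit 152) (nat_lit 40238557322) (nat_lit 0) (nat_lit 45837851449) (nat_lit 2) (nat_lit 5) (nat_lit 4) (nat_lit 4) (nat_lit 2) (nat_lit 4) (nat_lit 357) (nat_lit 225) (nat_lit 198)))) (XT.nd (nat_lit 156) (nat_lit 0) (nat_lit 0) (XT.nd (nat_lit 78) (nat_lit 0) (nat_lit 0) (XT.lf (nat_lit 0) (nat_lit 56544872716) (nat_lit 152) (nat_lit 35843724955) (nat_lit 0) (nat_lit 51364360249) (nat_lit 2) (nat_lit 5) (nat_lit 4) (nat_lit 4) (nat_lit 2) (nat_lit 4) (nat_lit 358) (nat_lit 225) (nat_lit 197)) (XT.lf (nat_lit 0) (nat_lit 62384982263) (nat_lit 152) (nat_lit 31333909480)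 (nat_lit 0) (nat_lit 57119990289) (nat_lit 2) (nat_lit 5) (nat_lit 4) (nat_lit 4) (nat_lit 2) (nat_lit 4) (nat_lit 359) (nat_lit 225) (nat_lit 196))) (XT.nd (nat_lit 78) (nat_lit 0) (nat_lit 0) (XT.lf (nat_lit 0) (nat_lit 68463894097) (nat_lit 152) (nat_lit 26698373241) (nat_lit 0) (nat_lit 63118445450) (nat_lit 2) (nat_lit 5) (nat_lit 4) (nat_lit 4) (nat_lit 2) (nat_lit 4) (nat_lit 360) (nat_lit 225) (nat_lit 195)) (XT.lf (nat_lit 0) (nat_lit 74796081818) (nat_lit 152) (nat_lit 21926079246) (nat_lit 0) (nat_lit 69374007767) (nat_lit 2) (nat_lit 5) (nat_lit 4) (nat_lit 4) (nat_lit 2) (nat_lit 4) (nat_lit 361) (nat_lit 225) (nat_lit 194)))))) (XT.nd (nat_lit 38376) (nat_lit 0) (nat_lit 152) (XT.nd (nat_lit 38064) (nat_lit 0) (nat_lit 380) (XT.nd (nat_lit 78) (nat_lit 0) (nat_lit 0) (XT.lf (nat_lit 0) (nat_lit 81396622063) (nat_lit 152) (nat_lit 17005664890) (nat_lit 0) (nat_lit 75901571438)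 (nat_lit 2) (nat_lit 5) (nat_lit 4) (nat_lit 4) (nat_lit 2) (nat_lit 4) (nat_lit 362) (nat_lit 225) (nat_lit 193)) (XT.nd (nat_lit 37908) (nat_lit 0) (nat_lit 456) (XT.lf (nat_lit 0) (nat_lit 88281230404) (nat_lit 152) (nat_lit 11925414903) (nat_lit 0) (nat_lit 82716678279) (nat_lit 2) (nat_lit 5) (nat_lit 4) (nat_lit 4) (nat_lit 2) (nat_lit 4) (nat_lit 363) (nat_lit 225) (nat_lit 192)) (XT.lf (nat_lit 0) (nat_lit 5334641663) (nat_lit 152) (nat_lit 7124485025) (nat_lit 0) (nat_lit 5334641663) (nat_lit 8) (nat_lit 5) (nat_lit 10) (nat_lit 4) (nat_lit 8) (nat_lit 4) (nat_lit 328) (nat_lit 226) (nat_lit 226)))) (XT.nd (nat_lit 156) (nat_lit 0) (nat_lit 0) (XT.nd (nat_lit 78) (nat_lit 76) (nat_lit 0) (XT.lf (nat_lit 0) (nat_lit 17051892409) (nat_lit 152) (nat_lit 3442950763) (nat_lit 0) (nat_lit 16682986601) (nat_lit 8) (nat_lit 5) (nat_lit 10) (nat_lit 4) (nat_lit 8) (nat_lit 4) (nat_lit 329)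 (nat_lit 226) (nat_lit 225)) (XT.lf (nat_lit 0) (nat_lit 7690726535) (nat_lit 76) (nat_lit 15940446024) (nat_lit 76) (nat_lit 15220201351) (nat_lit 7) (nat_lit 4) (nat_lit 8) (nat_lit 5) (nat_lit 8) (nat_lit 4) (nat_lit 330) (nat_lit 226) (nat_lit 224))) (XT.nd (nat_lit 78) (nat_lit 0) (nat_lit 0) (XT.lf (nat_lit 0) (nat_lit 19100715718) (nat_lit 76) (nat_lit 11283720852) (nat_lit 76) (nat_lit 10228867736) (nat_lit 7) (nat_lit 4) (nat_lit 8) (nat_lit 5) (nat_lit 8) (nat_lit 4) (nat_lit 331) (nat_lit 226) (nat_lit 223)) (XT.lf (nat_lit 0) (nat_lit 30745661955) (nat_lit 76) (nat_lit 6548347266) (nat_lit 76) (nat_lit 5174819443) (nat_lit 7) (nat_lit 4) (nat_lit 8) (nat_lit 5) (nat_lit 8) (nat_lit 4) (nat_lit 332) (nat_lit 226) (nat_lit 222))))) (XT.nd (nat_lit 234) (nat_lit 76) (nat_lit 0) (XT.nd (nat_lit 78) (nat_lit 152) (nat_lit 0) (XT.lf (nat_lit 0) (nat_lit 42653291309) (nat_lit 76) (nat_lit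 1723050569) (nat_lit 76) (nat_lit 46023024) (nat_lit 7) (nat_lit 4) (nat_lit 8) (nat_lit 5) (nat_lit 8) (nat_lit 4) (nat_lit 333) (nat_lit 226) (nat_lit 221)) (XT.nd (nat_lit 78) (nat_lit 0) (nat_lit 0) (XT.lf (nat_lit 0) (nat_lit 5182553211) (nat_lit 152) (nat_lit 38017366604) (nat_lit 0) (nat_lit 3273742630) (nat_lit 5) (nat_lit 5) (nat_lit 7) (nat_lit 4) (nat_lit 5) (nat_lit 4) (nat_lit 334) (nat_lit 226) (nat_lit 220)) (XT.lf (nat_lit 0) (nat_lit 10544940510) (nat_lit 152) (nat_lit 29717553613) (nat_lit 0) (nat_lit 8368864692) (nat_lit 5) (nat_lit 5) (nat_lit 7) (nat_lit 4) (nat_lit 5) (nat_lit 4) (nat_lit 335) (nat_lit 226) (nat_lit 219)))) (XT.nd (nat_lit 156) (nat_lit 76) (nat_lit 0) (XT.nd (nat_lit 78) (nat_lit 0) (nat_lit 0) (XT.lf (nat_lit 0) (nat_lit 16020725939) (nat_lit 152) (nat_lit 21290789276) (nat_lit 0) (nat_lit 13590111800) (nat_lit 5) (nat_lit 5) (nat_lit 7) (nat_lit 4)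 (nat_lit 5) (nat_lit 4) (nat_lit 336) (nat_lit 226) (nat_lit 218)) (XT.lf (nat_lit 0) (nat_lit 21622947083) (nat_lit 152) (nat_lit 12717009868) (nat_lit 0) (nat_lit 18949915496) (nat_lit 5) (nat_lit 5) (nat_lit 7) (nat_lit 4) (nat_lit 5) (nat_lit 4) (nat_lit 337) (nat_lit 226) (nat_lit 217))) (XT.nd (nat_lit 78) (nat_lit 76) (nat_lit 0) (XT.lf (nat_lit 0) (nat_lit 27364942563) (nat_lit 152) (nat_lit 3975801628) (nat_lit 0) (nat_lit 24461037215) (nat_lit 5) (nat_lit 5) (nat_lit 7) (nat_lit 4) (nat_lit 5) (nat_lit 4) (nat_lit 338) (nat_lit 226) (nat_lit 216)) (XT.lf (nat_lit 0) (nat_lit 5052235149) (nat_lit 76) (nat_lit 28256713823) (nat_lit 76) (nat_lit 25132928703) (nat_lit 4) (nat_lit 4) (nat_lit 5) (nat_lit 5) (nat_lit 5) (nat_lit 4) (nat_lit 339) (nat_lit 226) (nat_lit 215))))))))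
noncomputable def xc6 : XT := (XT.nd (nat_lit 39702) (nat_lit 0) (nat_lit 0) (XT.nd (nat_lit 1014) (nat_lit 0) (nat_lit 0) (XT.nd (nat_lit 468) (nat_lit 152) (nat_lit 0) (XT.nd (nat_lit 234) (nat_lit 0) (nat_lit 0) (XT.nd (nat_lit 78) (nat_lit 0) (nat_lit 0) (XT.lf (nat_lit 0) (nat_lit 14373069498) (nat_lit 76) (nat_lit 25088400788) (nat_lit 76) (nat_lit 21755206362) (nat_lit 4) (nat_lit 4) (nat_lit 5) (nat_lit 5) (nat_lit 5) (nat_lit 4) (nat_lit 340) (nat_lit 226) (nat_lit 214)) (XT.nd (nat_lit 78) (nat_lit 0) (nat_lit 0) (XT.lf (nat_lit 0) (nat_lit 23929767634) (nat_lit 76) (nat_lit 21868409287) (nat_lit 76) (nat_lit 18335777426) (nat_lit 4) (nat_lit 4) (nat_lit 5) (nat_lit 5) (nat_lit 5) (nat_lit 4) (nat_lit 341) (nat_lit 226) (nat_lit 213)) (XT.lf (nat_lit 0) (nat_lit 33745083599) (nat_lit 76) (nat_lit 18589072671) (nat_lit 76) (nat_lit 14866500396) (nat_lit 4) (nat_lit 4) (nat_lit 5)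 (nat_lit 5) (nat_lit 5) (nat_lit 4) (nat_lit 342) (nat_lit 226) (nat_lit 212)))) (XT.nd (nat_lit 78) (nat_lit 0) (nat_lit 0) (XT.lf (nat_lit 0) (nat_lit 43842387193) (nat_lit 76) (nat_lit 15242582997) (nat_lit 76) (nat_lit 11339115090) (nat_lit 4) (nat_lit 4) (nat_lit 5) (nat_lit 5) (nat_lit 5) (nat_lit 4) (nat_lit 343) (nat_lit 226) (nat_lit 211)) (XT.nd (nat_lit 78) (nat_lit 0) (nat_lit 0) (XT.lf (nat_lit 0) (nat_lit 54245719615) (nat_lit 76) (nat_lit 11820972432) (nat_lit 76) (nat_lit 7745222971) (nat_lit 4) (nat_lit 4) (nat_lit 5) (nat_lit 5) (nat_lit 5) (nat_lit 4) (nat_lit 344) (nat_lit 226) (nat_lit 210)) (XT.lf (nat_lit 0) (nat_lit 64979850705) (nat_lit 76) (nat_lit 8316094285) (nat_lit 76) (nat_lit 4076267152) (nat_lit 4) (nat_lit 4) (nat_lit 5) (nat_lit 5) (nat_lit 5) (nat_lit 4) (nat_lit 345) (nat_lit 226) (nat_lit 209))))) (XT.nd (nat_lit 234) (nat_lit 0) (nat_lit 0) (XT.nd (nat_lit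 78) (nat_lit 152) (nat_lit 0) (XT.lf (nat_lit 0) (nat_lit 76070337918) (nat_lit 76) (nat_lit 4719603607) (nat_lit 76) (nat_lit 323512026) (nat_lit 4) (nat_lit 4) (nat_lit 5) (nat_lit 5) (nat_lit 5) (nat_lit 4) (nat_lit 346) (nat_lit 226) (nat_lit 208)) (XT.nd (nat_lit 78) (nat_lit 0) (nat_lit 0) (XT.lf (nat_lit 0) (nat_lit 2514246822) (nat_lit 76) (nat_lit 963172728) (nat_lit 152) (nat_lit 81565386693) (nat_lit 2) (nat_lit 5) (nat_lit 3) (nat_lit 5) (nat_lit 4) (nat_lit 4) (nat_lit 347) (nat_lit 226) (nat_lit 207)) (XT.lf (nat_lit 0) (nat_lit 7451858059) (nat_lit 152) (nat_lit 78815281279) (nat_lit 0) (nat_lit 2901711139) (nat_lit 2) (nat_lit 5) (nat_lit 4) (nat_lit 4) (nat_lit 2) (nat_lit 4) (nat_lit 348) (nat_lit 226) (nat_lit 206)))) (XT.nd (nat_lit 156) (nat_lit 0) (nat_lit 0) (XT.nd (nat_lit 78) (nat_lit 0) (nat_lit 0) (XT.lf (nat_lit 0) (nat_lit 11548077637) (nat_lit 152) (nat_lit 75088575596)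 (nat_lit 0) (nat_lit 6866875274) (nat_lit 2) (nat_lit 5) (nat_lit 4) (nat_lit 4) (nat_lit 2) (nat_lit 4) (nat_lit 349) (nat_lit 226) (nat_lit 205)) (XT.lf (nat_lit 0) (nat_lit 15766572585) (nat_lit 152) (nat_lit 71330310661) (nat_lit 0) (nat_lit 10960555514) (nat_lit 2) (nat_lit 5) (nat_lit 4) (nat_lit 4) (nat_lit 2) (nat_lit 4) (nat_lit 350) (nat_lit 226) (nat_lit 204))) (XT.nd (nat_lit 78) (nat_lit 0) (nat_lit 0) (XT.lf (nat_lit 0) (nat_lit 20117386936) (nat_lit 152) (nat_lit 67531538222) (nat_lit 0) (nat_lit 15192498716) (nat_lit 2) (nat_lit 5) (nat_lit 4) (nat_lit 4) (nat_lit 2) (nat_lit 4) (nat_lit 351) (nat_lit 226) (nat_lit 203)) (XT.lf (nat_lit 0) (nat_lit 24610879774) (nat_lit 152) (nat_lit 63683213583) (nat_lit 0) (nat_lit 19572780935) (nat_lit 2) (nat_lit 5) (nat_lit 4) (nat_lit 4) (nat_lit 2) (nat_lit 4) (nat_lit 352) (nat_lit 226) (nat_lit 202)))))) (XT.nd (nat_lit 468) (nat_lit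 0) (nat_lit 0) (XT.nd (nat_lit 234) (nat_lit 0) (nat_lit 0) (XT.nd (nat_lit 78) (nat_lit 0) (nat_lit 0) (XT.lf (nat_lit 0) (nat_lit 29257749891) (nat_lit 152) (nat_lit 59776174067) (nat_lit 0) (nat_lit 24111831415) (nat_lit 2) (nat_lit 5) (nat_lit 4) (nat_lit 4) (nat_lit 2) (nat_lit 4) (nat_lit 353) (nat_lit 226) (nat_lit 201)) (XT.nd (nat_lit 78) (nat_lit 0) (nat_lit 0) (XT.lf (nat_lit 0) (nat_lit 34069061263) (nat_lit 152) (nat_lit 55801117199) (nat_lit 0) (nat_lit 28820457418) (nat_lit 2) (nat_lit 5) (nat_lit 4) (nat_lit 4) (nat_lit 2) (nat_lit 4) (nat_lit 354) (nat_lit 226) (nat_lit 200)) (XT.lf (nat_lit 0) (nat_lit 39056269393) (nat_lit 152) (nat_lit 51748578557) (nat_lit 0) (nat_lit 33709869958) (nat_lit 2) (nat_lit 5) (nat_lit 4) (nat_lit 4) (nat_lit 2) (nat_lit 4) (nat_lit 355) (nat_lit 226) (nat_lit 199)))) (XT.nd (nat_lit 78) (nat_lit 0) (nat_lit 0) (XT.lf (nat_lit 0) (nat_lit 44231248586)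 (nat_lit 152) (nat_lit 47608909240) (nat_lit 0) (nat_lit 38791710495) (nat_lit 2) (nat_lit 5) (nat_lit 4) (nat_lit 4) (nat_lit 2) (nat_lit 4) (nat_lit 356) (nat_lit 226) (nat_lit 198)) (XT.nd (nat_lit 78) (nat_lit 0) (nat_lit 0) (XT.lf (nat_lit 0) (nat_lit 49606320222) (nat_lit 152) (nat_lit 43372252893) (nat_lit 0) (nat_lit 44078078649) (nat_lit 2) (nat_lit 5) (nat_lit 4) (nat_lit 4) (nat_lit 2) (nat_lit 4) (nat_lit 357) (nat_lit 226) (nat_lit 197)) (XT.lf (nat_lit 0) (nat_lit 55194282090) (nat_lit 152) (nat_lit 39028522238) (nat_lit 0) (nat_lit 49581561010) (nat_lit 2) (nat_lit 5) (nat_lit 4) (nat_lit 4) (nat_lit 2) (nat_lit 4) (nat_lit 358) (nat_lit 226) (nat_lit 196))))) (XT.nd (nat_lit 234) (nat_lit 0) (nat_lit 0) (XT.nd (nat_lit 78) (nat_lit 0) (nat_lit 0) (XT.lf (nat_lit 0) (nat_lit 61008438861) (nat_lit 152) (nat_lit 34567375061) (nat_lit 0) (nat_lit 55315261108) (nat_lit 2) (nat_lit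 5) (nat_lit 4) (nat_lit 4) (nat_lit 2) (nat_lit 4) (nat_lit 359) (nat_lit 226) (nat_lit 195)) (XT.nd (nat_lit 78) (nat_lit 0) (nat_lit 0) (XT.lf (nat_lit 0) (nat_lit 67062633766) (nat_lit 152) (nat_lit 29978189580) (nat_lit 0) (nat_lit 61292830609) (nat_lit 2) (nat_lit 5) (nat_lit 4) (nat_lit 4) (nat_lit 2) (nat_lit 4) (nat_lit 360) (nat_lit 226) (nat_lit 194)) (XT.lf (nat_lit 0) (nat_lit 73371281554) (nat_lit 152) (nat_lit 25250039166) (nat_lit 0) (nat_lit 67528501823) (nat_lit 2) (nat_lit 5) (nat_lit 4) (nat_lit 4) (nat_lit 2) (nat_lit 4) (nat_lit 361) (nat_lit 226) (nat_lit 193)))) (XT.nd (nat_lit 37830) (nat_lit 0) (nat_lit 456) (XT.nd (nat_lit 78) (nat_lit 0) (nat_lit 0) (XT.lf (nat_lit 0) (nat_lit 79949402815) (nat_lit 152) (nat_lit 20371666315) (nat_lit 0) (nat_lit 74037121585) (nat_lit 2) (nat_lit 5) (nat_lit 4) (nat_lit 4) (nat_lit 2) (nat_lit 4) (nat_lit 362) (nat_lit 226) (nat_lit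 192)) (XT.lf (nat_lit 0) (nat_lit 86812659744) (nat_lit 152) (nat_lit 15331455856) (nat_lit 0) (nat_lit 80834186609) (nat_lit 2) (nat_lit 5) (nat_lit 4) (nat_lit 4) (nat_lit 2) (nat_lit 4) (nat_lit 363) (nat_lit 226) (nat_lit 191))) (XT.nd (nat_lit 78) (nat_lit 152) (nat_lit 0) (XT.lf (nat_lit 0) (nat_lit 15039282754) (nat_lit 76) (nat_lit 641284180) (nat_lit 76) (nat_lit 641284180) (nat_lit 10) (nat_lit 4) (nat_lit 11) (nat_lit 5) (nat_lit 11) (nat_lit 4) (nat_lit 326) (nat_lit 227) (nat_lit 227)) (XT.lf (nat_lit 0) (nat_lit 4781571752) (nat_lit 152) (nat_lit 24903133718) (nat_lit 0) (nat_lit 4394220653) (nat_lit 8) (nat_lit 5) (nat_lit 10) (nat_lit 4) (nat_lit 8) (nat_lit 4) (nat_lit 327) (nat_lit 227) (nat_lit 226))))))) (XT.nd (nat_lit 1014) (nat_lit 152) (nat_lit 0) (XT.nd (nat_lit 468) (nat_lit 228) (nat_lit 0) (XT.nd (nat_lit 234) (nat_lit 0) (nat_lit 0) (XT.nd (nat_lit 78) (nat_lit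 76) (nat_lit 0) (XT.lf (nat_lit 0) (nat_lit 10956045779) (nat_lit 152) (nat_lit 14434751789) (nat_lit 0) (nat_lit 10199788872) (nat_lit 8) (nat_lit 5) (nat_lit 10) (nat_lit 4) (nat_lit 8) (nat_lit 4) (nat_lit 328) (nat_lit 227) (nat_lit 225)) (XT.nd (nat_lit 78) (nat_lit 76) (nat_lit 0) (XT.lf (nat_lit 0) (nat_lit 17242856152) (nat_lit 152) (nat_lit 3805667491) (nat_lit 0) (nat_lit 16135260381) (nat_lit 8) (nat_lit 5) (nat_lit 10) (nat_lit 4) (nat_lit 8) (nat_lit 4) (nat_lit 329) (nat_lit 227) (nat_lit 224)) (XT.lf (nat_lit 0) (nat_lit 7148927850) (nat_lit 76) (nat_lit 16576763485) (nat_lit 76) (nat_lit 15134559271) (nat_lit 7) (nat_lit 4) (nat_lit 8) (nat_lit 5) (nat_lit 8) (nat_lit 4) (nat_lit 330) (nat_lit 227) (nat_lit 223)))) (XT.nd (nat_lit 78) (nat_lit 0) (nat_lit 0) (XT.lf (nat_lit 0) (nat_lit 18395237811) (nat_lit 76) (nat_lit 11995251896) (nat_lit 76) (nat_lit 10234372974) (nat_lit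 7) (nat_lit 4) (nat_lit 8) (nat_lit 5) (nat_lit 8) (nat_lit 4) (nat_lit 331) (nat_lit 227) (nat_lit 222)) (XT.nd (nat_lit 78) (nat_lit 0) (nat_lit 0) (XT.lf (nat_lit 0) (nat_lit 29884299075) (nat_lit 76) (nat_lit 7331510295) (nat_lit 76) (nat_lit 5267131651) (nat_lit 7) (nat_lit 4) (nat_lit 8) (nat_lit 5) (nat_lit 8) (nat_lit 4) (nat_lit 332) (nat_lit 227) (nat_lit 221)) (XT.lf (nat_lit 0) (nat_lit 41643466549) (nat_lit 76) (nat_lit 2574434535) (nat_lit 76) (nat_lit 221008538) (nat_lit 7) (nat_lit 4) (nat_lit 8) (nat_lit 5) (nat_lit 8) (nat_lit 4) (nat_lit 333) (nat_lit 227) (nat_lit 220))))) (XT.nd (nat_lit 234) (nat_lit 76) (nat_lit 0) (XT.nd (nat_lit 78) (nat_lit 0) (nat_lit 0) (XT.lf (nat_lit 0) (nat_lit 4913388736) (nat_lit 152) (nat_lit 39218576048) (nat_lit 0) (nat_lit 2361243890) (nat_lit 5) (nat_lit 5) (nat_lit 7) (nat_lit 4) (nat_lit 5) (nat_lit 4) (nat_lit 334) (nat_lit 227) (nat_lit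 219)) (XT.nd (nat_lit 78) (nat_lit 0) (nat_lit 0) (XT.lf (nat_lit 0) (nat_lit 10200302262) (nat_lit 152) (nat_lit 31059270035) (nat_lit 0) (nat_lit 7393619095) (nat_lit 5) (nat_lit 5) (nat_lit 7) (nat_lit 4) (nat_lit 5) (nat_lit 4) (nat_lit 335) (nat_lit 227) (nat_lit 218)) (XT.lf (nat_lit 0) (nat_lit 15604207907) (nat_lit 152) (nat_lit 22766321866) (nat_lit 0) (nat_lit 12555107292) (nat_lit 5) (nat_lit 5) (nat_lit 7) (nat_lit 4) (nat_lit 5) (nat_lit 4) (nat_lit 336) (nat_lit 227) (nat_lit 217)))) (XT.nd (nat_lit 156) (nat_lit 76) (nat_lit 0) (XT.nd (nat_lit 78) (nat_lit 0) (nat_lit 0) (XT.lf (nat_lit 0) (nat_lit 21137972114) (nat_lit 152) (nat_lit 14319986428) (nat_lit 0) (nat_lit 17857997738) (nat_lit 5) (nat_lit 5) (nat_lit 7) (nat_lit 4) (nat_lit 5) (nat_lit 4) (nat_lit 337) (nat_lit 227) (nat_lit 216)) (XT.lf (nat_lit 0) (nat_lit 26814770511) (nat_lit 152) (nat_lit 5700153397) (nat_lit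 0) (nat_lit 23314916364) (nat_lit 5) (nat_lit 5) (nat_lit 7) (nat_lit 4) (nat_lit 5) (nat_lit 4) (nat_lit 338) (nat_lit 227) (nat_lit 215))) (XT.nd (nat_lit 78) (nat_lit 0) (nat_lit 0) (XT.lf (nat_lit 0) (nat_lit 3175669385) (nat_lit 76) (nat_lit 29502976377) (nat_lit 76) (nat_lit 25793712923) (nat_lit 4) (nat_lit 4) (nat_lit 5) (nat_lit 5) (nat_lit 5) (nat_lit 4) (nat_lit 339) (nat_lit 227) (nat_lit 214)) (XT.lf (nat_lit 0) (nat_lit 12384221816) (nat_lit 76) (nat_lit 26386730262) (nat_lit 76) (nat_lit 22478029373) (nat_lit 4) (nat_lit 4) (nat_lit 5) (nat_lit 5) (nat_lit 5) (nat_lit 4) (nat_lit 340) (nat_lit 227) (nat_lit 213)))))) (XT.nd (nat_lit 546) (nat_lit 76) (nat_lit 0) (XT.nd (nat_lit 234) (nat_lit 76) (nat_lit 0) (XT.nd (nat_lit 78) (nat_lit 0) (nat_lit 0) (XT.lf (nat_lit 0) (nat_lit 21833984792) (nat_lit 76) (nat_lit 23216326302) (nat_lit 76) (nat_lit 19117685000) (nat_lit 4) (nat_lit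 4) (nat_lit 5) (nat_lit 5) (nat_lit 5) (nat_lit 4) (nat_lit 341) (nat_lit 227) (nat_lit 212)) (XT.nd (nat_lit 78) (nat_lit 0) (nat_lit 0) (XT.lf (nat_lit 0) (nat_lit 31547457748) (nat_lit 76) (nat_lit 19984215917) (nat_lit 76) (nat_lit 15704678982) (nat_lit 4) (nat_lit 4) (nat_lit 5) (nat_lit 5) (nat_lit 5) (nat_lit 4) (nat_lit 342) (nat_lit 227) (nat_lit 211)) (XT.lf (nat_lit 0) (nat_lit 41547768000) (nat_lit 76) (nat_lit 16682703605) (nat_lit 76) (nat_lit 12230885116) (nat_lit 4) (nat_lit 4) (nat_lit 5) (nat_lit 5) (nat_lit 5) (nat_lit 4) (nat_lit 343) (nat_lit 227) (nat_lit 210)))) (XT.nd (nat_lit 156) (nat_lit 76) (nat_lit 0) (XT.nd (nat_lit 78) (nat_lit 0) (nat_lit 0) (XT.lf (nat_lit 0) (nat_lit 51858725811) (nat_lit 76) (nat_lit 13303928624) (nat_lit 76) (nat_lit 8688032463) (nat_lit 4) (nat_lit 4) (nat_lit 5) (nat_lit 5) (nat_lit 5) (nat_lit 4) (nat_lit 344) (nat_lit 227) (nat_lit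 209)) (XT.lf (nat_lit 0) (nat_lit 62504881080) (nat_lit 76) (nat_lit 9839846270) (nat_lit 76) (nat_lit 5067685661) (nat_lit 4) (nat_lit 4) (nat_lit 5) (nat_lit 5) (nat_lit 5) (nat_lit 4) (nat_lit 345) (nat_lit 227) (nat_lit 208))) (XT.nd (nat_lit 78) (nat_lit 76) (nat_lit 0) (XT.lf (nat_lit 0) (nat_lit 73511581797) (nat_lit 76) (nat_lit 6282208729) (nat_lit 76) (nat_lit 1361224835) (nat_lit 4) (nat_lit 4) (nat_lit 5) (nat_lit 5) (nat_lit 5) (nat_lit 4) (nat_lit 346) (nat_lit 227) (nat_lit 207)) (XT.lf (nat_lit 0) (nat_lit 2392558317) (nat_lit 152) (nat_lit 205826969) (nat_lit 76) (nat_lit 82488315925) (nat_lit 3) (nat_lit 5) (nat_lit 5) (nat_lit 5) (nat_lit 4) (nat_lit 4) (nat_lit 347) (nat_lit 227) (nat_lit 206))))) (XT.nd (nat_lit 234) (nat_lit 0) (nat_lit 0) (XT.nd (nat_lit 78) (nat_lit 0) (nat_lit 0) (XT.lf (nat_lit 0) (nat_lit 6306965934) (nat_lit 152) (nat_lit 81646943823) (nat_lit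 0) (nat_lit 1260648011) (nat_lit 2) (nat_lit 5) (nat_lit 4) (nat_lit 4) (nat_lit 2) (nat_lit 4) (nat_lit 348) (nat_lit 227) (nat_lit 205)) (XT.nd (nat_lit 78) (nat_lit 0) (nat_lit 0) (XT.lf (nat_lit 0) (nat_lit 10362924240) (nat_lit 152) (nat_lit 77995738643) (nat_lit 0) (nat_lit 5191791609) (nat_lit 2) (nat_lit 5) (nat_lit 4) (nat_lit 4) (nat_lit 2) (nat_lit 4) (nat_lit 349) (nat_lit 227) (nat_lit 204)) (XT.lf (nat_lit 0) (nat_lit 14543075117) (nat_lit 152) (nat_lit 74309378948) (nat_lit 0) (nat_lit 9253071336) (nat_lit 2) (nat_lit 5) (nat_lit 4) (nat_lit 4) (nat_lit 2) (nat_lit 4) (nat_lit 350) (nat_lit 227) (nat_lit 203)))) (XT.nd (nat_lit 156) (nat_lit 0) (nat_lit 0) (XT.nd (nat_lit 78) (nat_lit 0) (nat_lit 0) (XT.lf (nat_lit 0) (nat_lit 18857371308) (nat_lit 152) (nat_lit 70579087690) (nat_lit 0) (nat_lit 13454156907) (nat_lit 2) (nat_lit 5) (nat_lit 4) (nat_lit 4) (nat_lit 2) (nat_lit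 4) (nat_lit 351) (nat_lit 227) (nat_lit 202)) (XT.lf (nat_lit 0) (nat_lit 23316084944) (nat_lit 152) (nat_lit 66795983225) (nat_lit 0) (nat_lit 17805050907) (nat_lit 2) (nat_lit 5) (nat_lit 4) (nat_lit 4) (nat_lit 2) (nat_lit 4) (nat_lit 352) (nat_lit 227) (nat_lit 201))) (XT.nd (nat_lit 78) (nat_lit 0) (nat_lit 0) (XT.lf (nat_lit 0) (nat_lit 27929832011) (nat_lit 152) (nat_lit 62951058159) (nat_lit 0) (nat_lit 22316112605) (nat_lit 2) (nat_lit 5) (nat_lit 4) (nat_lit 4) (nat_lit 2) (nat_lit 4) (nat_lit 353) (nat_lit 227) (nat_lit 200)) (XT.lf (nat_lit 0) (nat_lit 32709597622) (nat_lit 152) (nat_lit 59035157910) (nat_lit 0) (nat_lit 26998082627) (nat_lit 2) (nat_lit 5) (nat_lit 4) (nat_lit 4) (nat_lit 2) (nat_lit 4) (nat_lit 354) (nat_lit 227) (nat_lit 199))))))))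
noncomputable def xc7 : XT := (XT.nd (nat_lit 39546) (nat_lit 0) (nat_lit 0) (XT.nd (nat_lit 38532) (nat_lit 0) (nat_lit 152) (XT.nd (nat_lit 468) (nat_lit 0) (nat_lit 0) (XT.nd (nat_lit 234) (nat_lit 0) (nat_lit 0) (XT.nd (nat_lit 78) (nat_lit 0) (nat_lit 0) (XT.lf (nat_lit 0) (nat_lit 37666762170) (nat_lit 152) (nat_lit 55038958906) (nat_lit 0) (nat_lit 31862108518) (nat_lit 2) (nat_lit 5) (nat_lit 4) (nat_lit 4) (nat_lit 2) (nat_lit 4) (nat_lit 355) (nat_lit 227) (nat_lit 198)) (XT.nd (nat_lit 78) (nat_lit 0) (nat_lit 0) (XT.lf (nat_lit 0) (nat_lit 42813128428) (nat_lit 152) (nat_lit 50952946387) (nat_lit 0) (nat_lit 36919771294) (nat_lit 2) (nat_lit 5) (nat_lit 4) (nat_lit 4) (nat_lit 2) (nat_lit 4) (nat_lit 356) (nat_lit 227) (nat_lit 197)) (XT.lf (nat_lit 0) (nat_lit 48160949650) (nat_lit 152) (nat_lit 46767391752) (nat_lit 0) (nat_lit 42183113009) (nat_lit 2) (nat_lit 5) (nat_lit 4)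 (nat_lit 4) (nat_lit 2) (nat_lit 4) (nat_lit 357) (nat_lit 227) (nat_lit 196)))) (XT.nd (nat_lit 78) (nat_lit 0) (nat_lit 0) (XT.lf (nat_lit 0) (nat_lit 53722958742) (nat_lit 152) (nat_lit 42472329395) (nat_lit 0) (nat_lit 47664665428) (nat_lit 2) (nat_lit 5) (nat_lit 4) (nat_lit 4) (nat_lit 2) (nat_lit 4) (nat_lit 358) (nat_lit 227) (nat_lit 195)) (XT.nd (nat_lit 78) (nat_lit 0) (nat_lit 0) (XT.lf (nat_lit 0) (nat_lit 59512398584) (nat_lit 152) (nat_lit 38057532976) (nat_lit 0) (nat_lit 53377479866) (nat_lit 2) (nat_lit 5) (nat_lit 4) (nat_lit 4) (nat_lit 2) (nat_lit 4) (nat_lit 359) (nat_lit 227) (nat_lit 194)) (XT.lf (nat_lit 0) (nat_lit 65543053556) (nat_lit 152) (nat_lit 33512491076) (nat_lit 0) (nat_lit 59335158264) (nat_lit 2) (nat_lit 5) (nat_lit 4) (nat_lit 4) (nat_lit 2) (nat_lit 4) (nat_lit 360) (nat_lit 227) (nat_lit 193))))) (XT.nd (nat_lit 37752) (nat_lit 0) (nat_lit 456) (XT.nd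 (nat_lit 78) (nat_lit 0) (nat_lit 0) (XT.lf (nat_lit 0) (nat_lit 71829282360) (nat_lit 152) (nat_lit 28826382167) (nat_lit 0) (nat_lit 65551885569) (nat_lit 2) (nat_lit 5) (nat_lit 4) (nat_lit 4) (nat_lit 2) (nat_lit 4) (nat_lit 361) (nat_lit 227) (nat_lit 192)) (XT.nd (nat_lit 78) (nat_lit 0) (nat_lit 0) (XT.lf (nat_lit 0) (nat_lit 78386052209) (nat_lit 152) (nat_lit 23988048845) (nat_lit 0) (nat_lit 72042463514) (nat_lit 2) (nat_lit 5) (nat_lit 4) (nat_lit 4) (nat_lit 2) (nat_lit 4) (nat_lit 362) (nat_lit 227) (nat_lit 191)) (XT.lf (nat_lit 0) (nat_lit 85228974458) (nat_lit 152) (nat_lit 18985971271) (nat_lit 0) (nat_lit 78822345854) (nat_lit 2) (nat_lit 5) (nat_lit 4) (nat_lit 4) (nat_lit 2) (nat_lit 4) (nat_lit 363) (nat_lit 227) (nat_lit 190)))) (XT.nd (nat_lit 156) (nat_lit 152) (nat_lit 0) (XT.nd (nat_lit 78) (nat_lit 0) (nat_lit 0) (XT.lf (nat_lit 0) (nat_lit 2418381103) (nat_lit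 76) (nat_lit 6285813239) (nat_lit 76) (nat_lit 6285813239) (nat_lit 10) (nat_lit 4) (nat_lit 11) (nat_lit 5) (nat_lit 11) (nat_lit 4) (nat_lit 324) (nat_lit 228) (nat_lit 228)) (XT.lf (nat_lit 0) (nat_lit 17245564480) (nat_lit 76) (nat_lit 7225573622) (nat_lit 76) (nat_lit 6806653409) (nat_lit 10) (nat_lit 4) (nat_lit 11) (nat_lit 5) (nat_lit 11) (nat_lit 4) (nat_lit 325) (nat_lit 228) (nat_lit 227))) (XT.nd (nat_lit 78) (nat_lit 152) (nat_lit 0) (XT.lf (nat_lit 0) (nat_lit 29891668978) (nat_lit 76) (nat_lit 1786508050) (nat_lit 76) (nat_lit 968616206) (nat_lit 10) (nat_lit 4) (nat_lit 11) (nat_lit 5) (nat_lit 11) (nat_lit 4) (nat_lit 326) (nat_lit 228) (nat_lit 226)) (XT.lf (nat_lit 0) (nat_lit 4982083682) (nat_lit 152) (nat_lit 25283986282) (nat_lit 0) (nat_lit 3819108122) (nat_lit 8) (nat_lit 5) (nat_lit 10) (nat_lit 4) (nat_lit 8) (nat_lit 4) (nat_lit 327) (nat_lit 228) (nat_lit 225))))))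 (XT.nd (nat_lit 468) (nat_lit 228) (nat_lit 0) (XT.nd (nat_lit 234) (nat_lit 0) (nat_lit 0) (XT.nd (nat_lit 78) (nat_lit 76) (nat_lit 0) (XT.lf (nat_lit 0) (nat_lit 11060759000) (nat_lit 152) (nat_lit 14992539342) (nat_lit 0) (nat_lit 9546444574) (nat_lit 8) (nat_lit 5) (nat_lit 10) (nat_lit 4) (nat_lit 8) (nat_lit 4) (nat_lit 328) (nat_lit 228) (nat_lit 224)) (XT.nd (nat_lit 78) (nat_lit 76) (nat_lit 0) (XT.lf (nat_lit 0) (nat_lit 17256332506) (nat_lit 152) (nat_lit 4531964557) (nat_lit 0) (nat_lit 15407409638) (nat_lit 8) (nat_lit 5) (nat_lit 10) (nat_lit 4) (nat_lit 8) (nat_lit 4) (nat_lit 329) (nat_lit 228) (nat_lit 223)) (XT.lf (nat_lit 0) (nat_lit 6244496826) (nat_lit 76) (nat_lit 17399084665) (nat_lit 76) (nat_lit 15231487090) (nat_lit 7) (nat_lit 4) (nat_lit 8) (nat_lit 5) (nat_lit 8) (nat_lit 4) (nat_lit 330) (nat_lit 228) (nat_lit 222)))) (XT.nd (nat_lit 78) (nat_lit 0) (nat_lit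 0) (XT.lf (nat_lit 0) (nat_lit 17334921813) (nat_lit 76) (nat_lit 12889205060) (nat_lit 76) (nat_lit 10418107763) (nat_lit 7) (nat_lit 4) (nat_lit 8) (nat_lit 5) (nat_lit 8) (nat_lit 4) (nat_lit 331) (nat_lit 228) (nat_lit 221)) (XT.nd (nat_lit 78) (nat_lit 0) (nat_lit 0) (XT.lf (nat_lit 0) (nat_lit 28675521198) (nat_lit 76) (nat_lit 8293684396) (nat_lit 76) (nat_lit 5533539746) (nat_lit 7) (nat_lit 4) (nat_lit 8) (nat_lit 5) (nat_lit 8) (nat_lit 4) (nat_lit 332) (nat_lit 228) (nat_lit 220)) (XT.lf (nat_lit 0) (nat_lit 40293296406) (nat_lit 76) (nat_lit 3601580957) (nat_lit 76) (nat_lit 566153113) (nat_lit 7) (nat_lit 4) (nat_lit 8) (nat_lit 5) (nat_lit 8) (nat_lit 4) (nat_lit 333) (nat_lit 228) (nat_lit 219))))) (XT.nd (nat_lit 234) (nat_lit 76) (nat_lit 0) (XT.nd (nat_lit 78) (nat_lit 0) (nat_lit 0) (XT.lf (nat_lit 0) (nat_lit 4476044802) (nat_lit 152) (nat_lit 40767885267) (nat_lit 0)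 (nat_lit 1274489156) (nat_lit 5) (nat_lit 5) (nat_lit 7) (nat_lit 4) (nat_lit 5) (nat_lit 4) (nat_lit 334) (nat_lit 228) (nat_lit 218)) (XT.nd (nat_lit 78) (nat_lit 0) (nat_lit 0) (XT.lf (nat_lit 0) (nat_lit 9691078544) (nat_lit 152) (nat_lit 32742395422) (nat_lit 0) (nat_lit 6247105450) (nat_lit 5) (nat_lit 5) (nat_lit 7) (nat_lit 4) (nat_lit 5) (nat_lit 4) (nat_lit 335) (nat_lit 228) (nat_lit 217)) (XT.lf (nat_lit 0) (nat_lit 15026527253) (nat_lit 152) (nat_lit 24576891224) (nat_lit 0) (nat_lit 11351680398) (nat_lit 5) (nat_lit 5) (nat_lit 7) (nat_lit 4) (nat_lit 5) (nat_lit 4) (nat_lit 336) (nat_lit 228) (nat_lit 216)))) (XT.nd (nat_lit 156) (nat_lit 76) (nat_lit 0) (XT.nd (nat_lit 78) (nat_lit 0) (nat_lit 0) (XT.lf (nat_lit 0) (nat_lit 20495094376) (nat_lit 152) (nat_lit 16251930995) (nat_lit 0) (nat_lit 16600367750) (nat_lit 5) (nat_lit 5) (nat_lit 7) (nat_lit 4) (nat_lit 5) (nat_lit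 4) (nat_lit 337) (nat_lit 228) (nat_lit 215)) (XT.lf (nat_lit 0) (nat_lit 26109800314) (nat_lit 152) (nat_lit 7747693402) (nat_lit 0) (nat_lit 22005664381) (nat_lit 5) (nat_lit 5) (nat_lit 7) (nat_lit 4) (nat_lit 5) (nat_lit 4) (nat_lit 338) (nat_lit 228) (nat_lit 214))) (XT.nd (nat_lit 78) (nat_lit 0) (nat_lit 0) (XT.lf (nat_lit 0) (nat_lit 975097401) (nat_lit 76) (nat_lit 30918289243) (nat_lit 76) (nat_lit 26614715876) (nat_lit 4) (nat_lit 4) (nat_lit 5) (nat_lit 5) (nat_lit 5) (nat_lit 4) (nat_lit 339) (nat_lit 228) (nat_lit 213)) (XT.lf (nat_lit 0) (nat_lit 10076714673) (nat_lit 76) (nat_lit 27851630670) (nat_lit 76) (nat_lit 23358116888) (nat_lit 4) (nat_lit 4) (nat_lit 5) (nat_lit 5) (nat_lit 5) (nat_lit 4) (nat_lit 340) (nat_lit 228) (nat_lit 212))))))) (XT.nd (nat_lit 1014) (nat_lit 0) (nat_lit 0) (XT.nd (nat_lit 468) (nat_lit 152) (nat_lit 0) (XT.nd (nat_lit 234) (nat_lit 0) (nat_lit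 0) (XT.nd (nat_lit 78) (nat_lit 0) (nat_lit 0) (XT.lf (nat_lit 0) (nat_lit 19424634640) (nat_lit 76) (nat_lit 24728452941) (nat_lit 76) (nat_lit 20054043527) (nat_lit 4) (nat_lit 4) (nat_lit 5) (nat_lit 5) (nat_lit 5) (nat_lit 4) (nat_lit 341) (nat_lit 228) (nat_lit 211)) (XT.nd (nat_lit 78) (nat_lit 0) (nat_lit 0) (XT.lf (nat_lit 0) (nat_lit 29041114253) (nat_lit 76) (nat_lit 21541319918) (nat_lit 76) (nat_lit 16694628949) (nat_lit 4) (nat_lit 4) (nat_lit 5) (nat_lit 5) (nat_lit 5) (nat_lit 4) (nat_lit 342) (nat_lit 228) (nat_lit 210)) (XT.lf (nat_lit 0) (nat_lit 38949049894) (nat_lit 76) (nat_lit 18282643190) (nat_lit 76) (nat_lit 13271874550) (nat_lit 4) (nat_lit 4) (nat_lit 5) (nat_lit 5) (nat_lit 5) (nat_lit 4) (nat_lit 343) (nat_lit 228) (nat_lit 209)))) (XT.nd (nat_lit 78) (nat_lit 0) (nat_lit 0) (XT.lf (nat_lit 0) (nat_lit 49172031884) (nat_lit 76) (nat_lit 14944664002) (nat_lit 76)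 (nat_lit 9777630913) (nat_lit 4) (nat_lit 4) (nat_lit 5) (nat_lit 5) (nat_lit 5) (nat_lit 4) (nat_lit 344) (nat_lit 228) (nat_lit 208)) (XT.nd (nat_lit 78) (nat_lit 0) (nat_lit 0) (XT.lf (nat_lit 0) (nat_lit 59734400658) (nat_lit 76) (nat_lit 11519434785) (nat_lit 76) (nat_lit 6203578412) (nat_lit 4) (nat_lit 4) (nat_lit 5) (nat_lit 5) (nat_lit 5) (nat_lit 4) (nat_lit 345) (nat_lit 228) (nat_lit 207)) (XT.lf (nat_lit 0) (nat_lit 70661304712) (nat_lit 76) (nat_lit 7998800231) (nat_lit 76) (nat_lit 2541207397) (nat_lit 4) (nat_lit 4) (nat_lit 5) (nat_lit 5) (nat_lit 5) (nat_lit 4) (nat_lit 346) (nat_lit 228) (nat_lit 206))))) (XT.nd (nat_lit 234) (nat_lit 0) (nat_lit 0) (XT.nd (nat_lit 78) (nat_lit 76) (nat_lit 0) (XT.lf (nat_lit 0) (nat_lit 1194430552) (nat_lit 152) (nat_lit 3167885918) (nat_lit 76) (nat_lit 80772268525) (nat_lit 3) (nat_lit 5) (nat_lit 5) (nat_lit 5) (nat_lit 4) (nat_lit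 4) (nat_lit 347) (nat_lit 228) (nat_lit 205)) (XT.nd (nat_lit 78) (nat_lit 0) (nat_lit 0) (XT.lf (nat_lit 0) (nat_lit 4484708937) (nat_lit 76) (nat_lit 542802405) (nat_lit 152) (nat_lit 84237380867) (nat_lit 2) (nat_lit 5) (nat_lit 3) (nat_lit 5) (nat_lit 4) (nat_lit 4) (nat_lit 348) (nat_lit 228) (nat_lit 204)) (XT.lf (nat_lit 0) (nat_lit 9039907830) (nat_lit 152) (nat_lit 81195665585) (nat_lit 0) (nat_lit 3366532709) (nat_lit 2) (nat_lit 5) (nat_lit 4) (nat_lit 4) (nat_lit 2) (nat_lit 4) (nat_lit 349) (nat_lit 228) (nat_lit 203)))) (XT.nd (nat_lit 156) (nat_lit 0) (nat_lit 0) (XT.nd (nat_lit 78) (nat_lit 0) (nat_lit 0) (XT.lf (nat_lit 0) (nat_lit 13183540546) (nat_lit 152) (nat_lit 77577787072) (nat_lit 0) (nat_lit 7396954806) (nat_lit 2) (nat_lit 5) (nat_lit 4) (nat_lit 4) (nat_lit 2) (nat_lit 4) (nat_lit 350) (nat_lit 228) (nat_lit 202)) (XT.lf (nat_lit 0) (nat_lit 17463057534) (nat_lit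 152) (nat_lit 73912715987) (nat_lit 0) (nat_lit 11568652158) (nat_lit 2) (nat_lit 5) (nat_lit 4) (nat_lit 4) (nat_lit 2) (nat_lit 4) (nat_lit 351) (nat_lit 228) (nat_lit 201))) (XT.nd (nat_lit 78) (nat_lit 0) (nat_lit 0) (XT.lf (nat_lit 0) (nat_lit 21888648121) (nat_lit 152) (nat_lit 70191725972) (nat_lit 0) (nat_lit 15891557376) (nat_lit 2) (nat_lit 5) (nat_lit 4) (nat_lit 4) (nat_lit 2) (nat_lit 4) (nat_lit 352) (nat_lit 228) (nat_lit 200)) (XT.lf (nat_lit 0) (nat_lit 26470849428) (nat_lit 152) (nat_lit 66405957526) (nat_lit 0) (nat_lit 20375963093) (nat_lit 2) (nat_lit 5) (nat_lit 4) (nat_lit 4) (nat_lit 2) (nat_lit 4) (nat_lit 353) (nat_lit 228) (nat_lit 199)))))) (XT.nd (nat_lit 546) (nat_lit 0) (nat_lit 0) (XT.nd (nat_lit 234) (nat_lit 0) (nat_lit 0) (XT.nd (nat_lit 78) (nat_lit 0) (nat_lit 0) (XT.lf (nat_lit 0) (nat_lit 31220571456) (nat_lit 152) (nat_lit 62546396915) (nat_lit 0) (nat_lit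 25032546465) (nat_lit 2) (nat_lit 5) (nat_lit 4) (nat_lit 4) (nat_lit 2) (nat_lit 4) (nat_lit 354) (nat_lit 228) (nat_lit 198)) (XT.nd (nat_lit 78) (nat_lit 0) (nat_lit 0) (XT.lf (nat_lit 0) (nat_lit 36149123069) (nat_lit 152) (nat_lit 58603854709) (nat_lit 0) (nat_lit 29872394596) (nat_lit 2) (nat_lit 5) (nat_lit 4) (nat_lit 4) (nat_lit 2) (nat_lit 4) (nat_lit 355) (nat_lit 228) (nat_lit 197)) (XT.lf (nat_lit 0) (nat_lit 41268238913) (nat_lit 152) (nat_lit 54568943902) (nat_lit 0) (nat_lit 34907030933) (nat_lit 2) (nat_lit 5) (nat_lit 4) (nat_lit 4) (nat_lit 2) (nat_lit 4) (nat_lit 356) (nat_lit 228) (nat_lit 196)))) (XT.nd (nat_lit 156) (nat_lit 0) (nat_lit 0) (XT.nd (nat_lit 78) (nat_lit 0) (nat_lit 0) (XT.lf (nat_lit 0) (nat_lit 46590107358) (nat_lit 152) (nat_lit 50432057564) (nat_lit 0) (nat_lit 40148442705) (nat_lit 2) (nat_lit 5) (nat_lit 4) (nat_lit 4) (nat_lit 2) (nat_lit 4) (nat_lit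 357) (nat_lit 228) (nat_lit 195)) (XT.lf (nat_lit 0) (nat_lit 52127399521) (nat_lit 152) (nat_lit 46183345966) (nat_lit 0) (nat_lit 45609109465) (nat_lit 2) (nat_lit 5) (nat_lit 4) (nat_lit 4) (nat_lit 2) (nat_lit 4) (nat_lit 358) (nat_lit 228) (nat_lit 194))) (XT.nd (nat_lit 78) (nat_lit 0) (nat_lit 0) (XT.lf (nat_lit 0) (nat_lit 57893299431) (nat_lit 152) (nat_lit 41812693128) (nat_lit 0) (nat_lit 51302032800) (nat_lit 2) (nat_lit 5) (nat_lit 4) (nat_lit 4) (nat_lit 2) (nat_lit 4) (nat_lit 359) (nat_lit 228) (nat_lit 193)) (XT.lf (nat_lit 0) (nat_lit 63901535419) (nat_lit 152) (nat_lit 37309692733) (nat_lit 0) (nat_lit 57240767289) (nat_lit 2) (nat_lit 5) (nat_lit 4) (nat_lit 4) (nat_lit 2) (nat_lit 4) (nat_lit 360) (nat_lit 228) (nat_lit 192))))) (XT.nd (nat_lit 37596) (nat_lit 0) (nat_lit 608) (XT.nd (nat_lit 78) (nat_lit 0) (nat_lit 0) (XT.lf (nat_lit 0) (nat_lit 70166412811) (nat_lit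 152) (nat_lit 32663623352) (nat_lit 0) (nat_lit 63439452777) (nat_lit 2) (nat_lit 5) (nat_lit 4) (nat_lit 4) (nat_lit 2) (nat_lit 4) (nat_lit 361) (nat_lit 228) (nat_lit 191)) (XT.nd (nat_lit 78) (nat_lit 0) (nat_lit 0) (XT.lf (nat_lit 0) (nat_lit 76702847981) (nat_lit 152) (nat_lit 27863422915) (nat_lit 0) (nat_lit 69912848038) (nat_lit 2) (nat_lit 5) (nat_lit 4) (nat_lit 4) (nat_lit 2) (nat_lit 4) (nat_lit 362) (nat_lit 228) (nat_lit 190)) (XT.lf (nat_lit 0) (nat_lit 83526403869) (nat_lit 152) (nat_lit 22897662373) (nat_lit 0) (nat_lit 76676365918) (nat_lit 2) (nat_lit 5) (nat_lit 4) (nat_lit 4) (nat_lit 2) (nat_lit 4) (nat_lit 363) (nat_lit 228) (nat_lit 189)))) (XT.nd (nat_lit 156) (nat_lit 76) (nat_lit 0) (XT.nd (nat_lit 78) (nat_lit 0) (nat_lit 0) (XT.lf (nat_lit 0) (nat_lit 2192679315) (nat_lit 152) (nat_lit 9403142353) (nat_lit 0) (nat_lit 2192679315) (nat_lit 11) (nat_lit 5) (nat_lit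 13) (nat_lit 4) (nat_lit 11) (nat_lit 4) (nat_lit 322) (nat_lit 229) (nat_lit 229)) (XT.lf (nat_lit 0) (nat_lit 10983768924) (nat_lit 152) (nat_lit 7220578929) (nat_lit 0) (nat_lit 10543902700) (nat_lit 11) (nat_lit 5) (nat_lit 13) (nat_lit 4) (nat_lit 11) (nat_lit 4) (nat_lit 323) (nat_lit 229) (nat_lit 228))) (XT.nd (nat_lit 78) (nat_lit 0) (nat_lit 0) (XT.lf (nat_lit 0) (nat_lit 4640520849) (nat_lit 76) (nat_lit 13100763154) (nat_lit 76) (nat_lit 12241976717) (nat_lit 10) (nat_lit 4) (nat_lit 11) (nat_lit 5) (nat_lit 11) (nat_lit 4) (nat_lit 324) (nat_lit 229) (nat_lit 227)) (XT.lf (nat_lit 0) (nat_lit 16862426591) (nat_lit 76) (nat_lit 7839729774) (nat_lit 76) (nat_lit 6581971706) (nat_lit 10) (nat_lit 4) (nat_lit 11) (nat_lit 5) (nat_lit 11) (nat_lit 4) (nat_lit 325) (nat_lit 229) (nat_lit 226))))))))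
noncomputable def xc8 : XT := (XT.nd (nat_lit 2028) (nat_lit 0) (nat_lit 0) (XT.nd (nat_lit 1014) (nat_lit 228) (nat_lit 0) (XT.nd (nat_lit 468) (nat_lit 152) (nat_lit 0) (XT.nd (nat_lit 234) (nat_lit 76) (nat_lit 0) (XT.nd (nat_lit 78) (nat_lit 152) (nat_lit 0) (XT.lf (nat_lit 0) (nat_lit 29330534394) (nat_lit 76) (nat_lit 2481635133) (nat_lit 76) (nat_lit 843904082) (nat_lit 10) (nat_lit 4) (nat_lit 11) (nat_lit 5) (nat_lit 11) (nat_lit 4) (nat_lit 326) (nat_lit 229) (nat_lit 225)) (XT.nd (nat_lit 78) (nat_lit 0) (nat_lit 0) (XT.lf (nat_lit 0) (nat_lit 4996233854) (nat_lit 152) (nat_lit 26046598201) (nat_lit 0) (nat_lit 3054864843) (nat_lit 8) (nat_lit 5) (nat_lit 10) (nat_lit 4) (nat_lit 8) (nat_lit 4) (nat_lit 327) (nat_lit 229) (nat_lit 224)) (XT.lf (nat_lit 0) (nat_lit 10983672305) (nat_lit 152) (nat_lit 15923660775) (nat_lit 0) (nat_lit 8707694850) (nat_lit 8) (nat_lit 5) (nat_lit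 10) (nat_lit 4) (nat_lit 8) (nat_lit 4) (nat_lit 328) (nat_lit 229) (nat_lit 223)))) (XT.nd (nat_lit 78) (nat_lit 76) (nat_lit 0) (XT.lf (nat_lit 0) (nat_lit 17092353558) (nat_lit 152) (nat_lit 5623571242) (nat_lit 0) (nat_lit 14497701396) (nat_lit 8) (nat_lit 5) (nat_lit 10) (nat_lit 4) (nat_lit 8) (nat_lit 4) (nat_lit 329) (nat_lit 229) (nat_lit 222)) (XT.nd (nat_lit 78) (nat_lit 0) (nat_lit 0) (XT.lf (nat_lit 0) (nat_lit 4975280055) (nat_lit 76) (nat_lit 18409367472) (nat_lit 76) (nat_lit 15511215589) (nat_lit 7) (nat_lit 4) (nat_lit 8) (nat_lit 5) (nat_lit 8) (nat_lit 4) (nat_lit 330) (nat_lit 229) (nat_lit 221)) (XT.lf (nat_lit 0) (nat_lit 15917243163) (nat_lit 76) (nat_lit 13967708804) (nat_lit 76) (nat_lit 10780509567) (nat_lit 7) (nat_lit 4) (nat_lit 8) (nat_lit 5) (nat_lit 8) (nat_lit 4) (nat_lit 331) (nat_lit 229) (nat_lit 220))))) (XT.nd (nat_lit 234) (nat_lit 0) (nat_lit 0) (XT.nd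 (nat_lit 78) (nat_lit 152) (nat_lit 0) (XT.lf (nat_lit 0) (nat_lit 27116450281) (nat_lit 76) (nat_lit 9437160461) (nat_lit 76) (nat_lit 5974678030) (nat_lit 7) (nat_lit 4) (nat_lit 8) (nat_lit 5) (nat_lit 8) (nat_lit 4) (nat_lit 332) (nat_lit 229) (nat_lit 219)) (XT.nd (nat_lit 78) (nat_lit 152) (nat_lit 0) (XT.lf (nat_lit 0) (nat_lit 38599566189) (nat_lit 76) (nat_lit 4806935424) (nat_lit 76) (nat_lit 1082278522) (nat_lit 7) (nat_lit 4) (nat_lit 8) (nat_lit 5) (nat_lit 8) (nat_lit 4) (nat_lit 333) (nat_lit 229) (nat_lit 218)) (XT.lf (nat_lit 0) (nat_lit 3869480115) (nat_lit 152) (nat_lit 42668983093) (nat_lit 0) (nat_lit 10890918) (nat_lit 5) (nat_lit 5) (nat_lit 7) (nat_lit 4) (nat_lit 5) (nat_lit 4) (nat_lit 334) (nat_lit 229) (nat_lit 217)))) (XT.nd (nat_lit 156) (nat_lit 0) (nat_lit 0) (XT.nd (nat_lit 78) (nat_lit 0) (nat_lit 0) (XT.lf (nat_lit 0) (nat_lit 9016056920) (nat_lit 152) (nat_lit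 34770937218) (nat_lit 0) (nat_lit 4926593962) (nat_lit 5) (nat_lit 5) (nat_lit 7) (nat_lit 4) (nat_lit 5) (nat_lit 4) (nat_lit 335) (nat_lit 229) (nat_lit 216)) (XT.lf (nat_lit 0) (nat_lit 14286308545) (nat_lit 152) (nat_lit 26726808229) (nat_lit 0) (nat_lit 9976965816) (nat_lit 5) (nat_lit 5) (nat_lit 7) (nat_lit 4) (nat_lit 5) (nat_lit 4) (nat_lit 336) (nat_lit 229) (nat_lit 215))) (XT.nd (nat_lit 78) (nat_lit 0) (nat_lit 0) (XT.lf (nat_lit 0) (nat_lit 19692783209) (nat_lit 152) (nat_lit 18517443438) (nat_lit 0) (nat_lit 15174031173) (nat_lit 5) (nat_lit 5) (nat_lit 7) (nat_lit 4) (nat_lit 5) (nat_lit 4) (nat_lit 337) (nat_lit 229) (nat_lit 214)) (XT.lf (nat_lit 0) (nat_lit 25248353471) (nat_lit 152) (nat_lit 10123296738) (nat_lit 0) (nat_lit 20530164000) (nat_lit 5) (nat_lit 5) (nat_lit 7) (nat_lit 4) (nat_lit 5) (nat_lit 4) (nat_lit 338) (nat_lit 229) (nat_lit 213)))))) (XT.nd (nat_lit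 468) (nat_lit 152) (nat_lit 0) (XT.nd (nat_lit 234) (nat_lit 0) (nat_lit 0) (XT.nd (nat_lit 78) (nat_lit 76) (nat_lit 0) (XT.lf (nat_lit 0) (nat_lit 30966246878) (nat_lit 152) (nat_lit 1524382066) (nat_lit 0) (nat_lit 26058116993) (nat_lit 5) (nat_lit 5) (nat_lit 7) (nat_lit 4) (nat_lit 5) (nat_lit 4) (nat_lit 339) (nat_lit 229) (nat_lit 212)) (XT.nd (nat_lit 78) (nat_lit 0) (nat_lit 0) (XT.lf (nat_lit 0) (nat_lit 7445054004) (nat_lit 76) (nat_lit 29486589871) (nat_lit 76) (nat_lit 24397564354) (nat_lit 4) (nat_lit 4) (nat_lit 5) (nat_lit 5) (nat_lit 5) (nat_lit 4) (nat_lit 340) (nat_lit 229) (nat_lit 211)) (XT.lf (nat_lit 0) (nat_lit 16695980628) (nat_lit 76) (nat_lit 26408389505) (nat_lit 76) (nat_lit 21147082433) (nat_lit 4) (nat_lit 4) (nat_lit 5) (nat_lit 5) (nat_lit 5) (nat_lit 4) (nat_lit 341) (nat_lit 229) (nat_lit 210)))) (XT.nd (nat_lit 78) (nat_lit 0) (nat_lit 0) (XT.lf (nat_lit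 0) (nat_lit 26220085630) (nat_lit 76) (nat_lit 23264092065) (nat_lit 76) (nat_lit 17838707322) (nat_lit 4) (nat_lit 4) (nat_lit 5) (nat_lit 5) (nat_lit 5) (nat_lit 4) (nat_lit 342) (nat_lit 229) (nat_lit 209)) (XT.nd (nat_lit 78) (nat_lit 0) (nat_lit 0) (XT.lf (nat_lit 0) (nat_lit 36040045450) (nat_lit 76) (nat_lit 20046211130) (nat_lit 76) (nat_lit 14464561939) (nat_lit 4) (nat_lit 4) (nat_lit 5) (nat_lit 5) (nat_lit 5) (nat_lit 4) (nat_lit 343) (nat_lit 229) (nat_lit 208)) (XT.lf (nat_lit 0) (nat_lit 46179240945) (nat_lit 76) (nat_lit 16747085079) (nat_lit 76) (nat_lit 11016612603) (nat_lit 4) (nat_lit 4) (nat_lit 5) (nat_lit 5) (nat_lit 5) (nat_lit 4) (nat_lit 344) (nat_lit 229) (nat_lit 207))))) (XT.nd (nat_lit 234) (nat_lit 152) (nat_lit 0) (XT.nd (nat_lit 78) (nat_lit 0) (nat_lit 0) (XT.lf (nat_lit 0) (nat_lit 56661813056) (nat_lit 76) (nat_lit 13358858850) (nat_lit 76) (nat_lit 7486649912)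 (nat_lit 4) (nat_lit 4) (nat_lit 5) (nat_lit 5) (nat_lit 5) (nat_lit 4) (nat_lit 345) (nat_lit 229) (nat_lit 206)) (XT.nd (nat_lit 78) (nat_lit 0) (nat_lit 0) (XT.lf (nat_lit 0) (nat_lit 67512720288) (nat_lit 76) (nat_lit 9873465236) (nat_lit 76) (nat_lit 3866269192) (nat_lit 4) (nat_lit 4) (nat_lit 5) (nat_lit 5) (nat_lit 5) (nat_lit 4) (nat_lit 346) (nat_lit 229) (nat_lit 205)) (XT.lf (nat_lit 0) (nat_lit 78757798136) (nat_lit 76) (nat_lit 6282605683) (nat_lit 76) (nat_lit 146850490) (nat_lit 4) (nat_lit 4) (nat_lit 5) (nat_lit 5) (nat_lit 5) (nat_lit 4) (nat_lit 347) (nat_lit 229) (nat_lit 204)))) (XT.nd (nat_lit 156) (nat_lit 0) (nat_lit 0) (XT.nd (nat_lit 78) (nat_lit 0) (nat_lit 0) (XT.lf (nat_lit 0) (nat_lit 1088594986) (nat_lit 76) (nat_lit 2530512138) (nat_lit 152) (nat_lit 85700606747) (nat_lit 2) (nat_lit 5) (nat_lit 3) (nat_lit 5) (nat_lit 4) (nat_lit 4) (nat_lit 348) (nat_lit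 229) (nat_lit 203)) (XT.lf (nat_lit 0) (nat_lit 7575878367) (nat_lit 152) (nat_lit 84695975297) (nat_lit 0) (nat_lit 1386752722) (nat_lit 2) (nat_lit 5) (nat_lit 4) (nat_lit 4) (nat_lit 2) (nat_lit 4) (nat_lit 349) (nat_lit 229) (nat_lit 202))) (XT.nd (nat_lit 78) (nat_lit 0) (nat_lit 0) (XT.lf (nat_lit 0) (nat_lit 11684731882) (nat_lit 152) (nat_lit 81143316957) (nat_lit 0) (nat_lit 5387786599) (nat_lit 2) (nat_lit 5) (nat_lit 4) (nat_lit 4) (nat_lit 2) (nat_lit 4) (nat_lit 350) (nat_lit 229) (nat_lit 201)) (XT.lf (nat_lit 0) (nat_lit 15931125821) (nat_lit 152) (nat_lit 77540360323) (nat_lit 0) (nat_lit 9531495170) (nat_lit 2) (nat_lit 5) (nat_lit 4) (nat_lit 4) (nat_lit 2) (nat_lit 4) (nat_lit 351) (nat_lit 229) (nat_lit 200))))))) (XT.nd (nat_lit 38220) (nat_lit 0) (nat_lit 380) (XT.nd (nat_lit 468) (nat_lit 0) (nat_lit 0) (XT.nd (nat_lit 234) (nat_lit 0) (nat_lit 0) (XT.nd (nat_lit 78)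 (nat_lit 0) (nat_lit 0) (XT.lf (nat_lit 0) (nat_lit 20325170647) (nat_lit 152) (nat_lit 73878526927) (nat_lit 0) (nat_lit 13827744407) (nat_lit 2) (nat_lit 5) (nat_lit 4) (nat_lit 4) (nat_lit 2) (nat_lit 4) (nat_lit 352) (nat_lit 229) (nat_lit 199)) (XT.nd (nat_lit 78) (nat_lit 0) (nat_lit 0) (XT.lf (nat_lit 0) (nat_lit 24877328372) (nat_lit 152) (nat_lit 70149098119) (nat_lit 0) (nat_lit 18286763475) (nat_lit 2) (nat_lit 5) (nat_lit 4) (nat_lit 4) (nat_lit 2) (nat_lit 4) (nat_lit 353) (nat_lit 229) (nat_lit 198)) (XT.lf (nat_lit 0) (nat_lit 29598437465) (nat_lit 152) (nat_lit 66343194305) (nat_lit 0) (nat_lit 22919169086) (nat_lit 2) (nat_lit 5) (nat_lit 4) (nat_lit 4) (nat_lit 2) (nat_lit 4) (nat_lit 354) (nat_lit 229) (nat_lit 197)))) (XT.nd (nat_lit 78) (nat_lit 0) (nat_lit 0) (XT.lf (nat_lit 0) (nat_lit 34499738663) (nat_lit 152) (nat_lit 62451753811) (nat_lit 0) (nat_lit 27735990777)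 (nat_lit 2) (nat_lit 5) (nat_lit 4) (nat_lit 4) (nat_lit 2) (nat_lit 4) (nat_lit 355) (nat_lit 229) (nat_lit 196)) (XT.nd (nat_lit 78) (nat_lit 0) (nat_lit 0) (XT.lf (nat_lit 0) (nat_lit 39592901731) (nat_lit 152) (nat_lit 58465511302) (nat_lit 0) (nat_lit 32748697172) (nat_lit 2) (nat_lit 5) (nat_lit 4) (nat_lit 4) (nat_lit 2) (nat_lit 4) (nat_lit 356) (nat_lit 229) (nat_lit 195)) (XT.lf (nat_lit 0) (nat_lit 44890053248) (nat_lit 152) (nat_lit 54374975723) (nat_lit 0) (nat_lit 37969223285) (nat_lit 2) (nat_lit 5) (nat_lit 4) (nat_lit 4) (nat_lit 2) (nat_lit 4) (nat_lit 357) (nat_lit 229) (nat_lit 194))))) (XT.nd (nat_lit 234) (nat_lit 0) (nat_lit 0) (XT.nd (nat_lit 78) (nat_lit 0) (nat_lit 0) (XT.lf (nat_lit 0) (nat_lit 50403805478) (nat_lit 152) (nat_lit 50170407705) (nat_lit 0) (nat_lit 43409998941) (nat_lit 2) (nat_lit 5) (nat_lit 4) (nat_lit 4) (nat_lit 2) (nat_lit 4) (nat_lit 358) (nat_lit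 229) (nat_lit 193)) (XT.nd (nat_lit 78) (nat_lit 0) (nat_lit 0) (XT.lf (nat_lit 0) (nat_lit 56147286404) (nat_lit 152) (nat_lit 45841796372) (nat_lit 0) (nat_lit 49083978368) (nat_lit 2) (nat_lit 5) (nat_lit 4) (nat_lit 4) (nat_lit 2) (nat_lit 4) (nat_lit 359) (nat_lit 229) (nat_lit 192)) (XT.lf (nat_lit 0) (nat_lit 62134170980) (nat_lit 152) (nat_lit 41378835506) (nat_lit 0) (nat_lit 55004671039) (nat_lit 2) (nat_lit 5) (nat_lit 4) (nat_lit 4) (nat_lit 2) (nat_lit 4) (nat_lit 360) (nat_lit 229) (nat_lit 191)))) (XT.nd (nat_lit 156) (nat_lit 0) (nat_lit 0) (XT.nd (nat_lit 78) (nat_lit 0) (nat_lit 0) (XT.lf (nat_lit 0) (nat_lit 68378713693) (nat_lit 152) (nat_lit 36770899009) (nat_lit 0) (nat_lit 61186173843) (nat_lit 2) (nat_lit 5) (nat_lit 4) (nat_lit 4) (nat_lit 2) (nat_lit 4) (nat_lit 361) (nat_lit 229) (nat_lit 190)) (XT.lf (nat_lit 0) (nat_lit 74895782502) (nat_lit 152) (nat_lit 32007015605)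 (nat_lit 0) (nat_lit 67643204644) (nat_lit 2) (nat_lit 5) (nat_lit 4) (nat_lit 4) (nat_lit 2) (nat_lit 4) (nat_lit 362) (nat_lit 229) (nat_lit 189))) (XT.nd (nat_lit 37284) (nat_lit 0) (nat_lit 836) (XT.lf (nat_lit 0) (nat_lit 81700894237) (nat_lit 152) (nat_lit 27075842713) (nat_lit 0) (nat_lit 74391137324) (nat_lit 2) (nat_lit 5) (nat_lit 4) (nat_lit 4) (nat_lit 2) (nat_lit 4) (nat_lit 363) (nat_lit 229) (nat_lit 188)) (XT.lf (nat_lit 0) (nat_lit 4828138434) (nat_lit 76) (nat_lit 3937446265) (nat_lit 76) (nat_lit 3937446265) (nat_lit 13) (nat_lit 4) (nat_lit 14) (nat_lit 5) (nat_lit 14) (nat_lit 4) (nat_lit 320) (nat_lit 230) (nat_lit 230)))))) (XT.nd (nat_lit 468) (nat_lit 228) (nat_lit 0) (XT.nd (nat_lit 234) (nat_lit 76) (nat_lit 0) (XT.nd (nat_lit 78) (nat_lit 152) (nat_lit 0) (XT.lf (nat_lit 0) (nat_lit 22736138937) (nat_lit 76) (nat_lit 2102728728) (nat_lit 76) (nat_lit 1627013407)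 (nat_lit 13) (nat_lit 4) (nat_lit 14) (nat_lit 5) (nat_lit 14) (nat_lit 4) (nat_lit 321) (nat_lit 230) (nat_lit 229)) (XT.nd (nat_lit 78) (nat_lit 0) (nat_lit 0) (XT.lf (nat_lit 0) (nat_lit 4736879424) (nat_lit 152) (nat_lit 19008317286) (nat_lit 0) (nat_lit 3835153665) (nat_lit 11) (nat_lit 5) (nat_lit 13) (nat_lit 4) (nat_lit 11) (nat_lit 4) (nat_lit 322) (nat_lit 230) (nat_lit 228)) (XT.lf (nat_lit 0) (nat_lit 11230205204) (nat_lit 152) (nat_lit 7615023492) (nat_lit 0) (nat_lit 9909559232) (nat_lit 11) (nat_lit 5) (nat_lit 13) (nat_lit 4) (nat_lit 11) (nat_lit 4) (nat_lit 323) (nat_lit 230) (nat_lit 227)))) (XT.nd (nat_lit 78) (nat_lit 0) (nat_lit 0) (XT.lf (nat_lit 0) (nat_lit 4051329535) (nat_lit 76) (nat_lit 13830646591) (nat_lit 76) (nat_lit 12111028987) (nat_lit 10) (nat_lit 4) (nat_lit 11) (nat_lit 5) (nat_lit 11) (nat_lit 4) (nat_lit 324) (nat_lit 230) (nat_lit 226)) (XT.nd (nat_lit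 78) (nat_lit 0) (nat_lit 0) (XT.lf (nat_lit 0) (nat_lit 16095238582) (nat_lit 76) (nat_lit 8650584141) (nat_lit 76) (nat_lit 6550993555) (nat_lit 10) (nat_lit 4) (nat_lit 11) (nat_lit 5) (nat_lit 11) (nat_lit 4) (nat_lit 325) (nat_lit 230) (nat_lit 225)) (XT.lf (nat_lit 0) (nat_lit 28393825721) (nat_lit 76) (nat_lit 3369604672) (nat_lit 76) (nat_lit 908135055) (nat_lit 10) (nat_lit 4) (nat_lit 11) (nat_lit 5) (nat_lit 11) (nat_lit 4) (nat_lit 326) (nat_lit 230) (nat_lit 224))))) (XT.nd (nat_lit 234) (nat_lit 76) (nat_lit 0) (XT.nd (nat_lit 78) (nat_lit 0) (nat_lit 0) (XT.lf (nat_lit 0) (nat_lit 4824055958) (nat_lit 152) (nat_lit 27192785220) (nat_lit 0) (nat_lit 2099671188) (nat_lit 8) (nat_lit 5) (nat_lit 10) (nat_lit 4) (nat_lit 8) (nat_lit 4) (nat_lit 327) (nat_lit 230) (nat_lit 223)) (XT.nd (nat_lit 78) (nat_lit 0) (nat_lit 0) (XT.lf (nat_lit 0) (nat_lit 10724602155) (nat_lit 152) (nat_lit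 17230333044) (nat_lit 0) (nat_lit 7681542677) (nat_lit 8) (nat_lit 5) (nat_lit 10) (nat_lit 4) (nat_lit 8) (nat_lit 4) (nat_lit 328) (nat_lit 230) (nat_lit 222)) (XT.lf (nat_lit 0) (nat_lit 16750528880) (nat_lit 152) (nat_lit 7083086607) (nat_lit 0) (nat_lit 13403969681) (nat_lit 8) (nat_lit 5) (nat_lit 10) (nat_lit 4) (nat_lit 8) (nat_lit 4) (nat_lit 329) (nat_lit 230) (nat_lit 221)))) (XT.nd (nat_lit 156) (nat_lit 0) (nat_lit 0) (XT.nd (nat_lit 78) (nat_lit 0) (nat_lit 0) (XT.lf (nat_lit 0) (nat_lit 3338255592) (nat_lit 76) (nat_lit 19610017340) (nat_lit 76) (nat_lit 15974410788) (nat_lit 7) (nat_lit 4) (nat_lit 8) (nat_lit 5) (nat_lit 8) (nat_lit 4) (nat_lit 330) (nat_lit 230) (nat_lit 220)) (XT.lf (nat_lit 0) (nat_lit 14138826435) (nat_lit 76) (nat_lit 15233330993) (nat_lit 76) (nat_lit 11322441247) (nat_lit 7) (nat_lit 4) (nat_lit 8) (nat_lit 5) (nat_lit 8) (nat_lit 4) (nat_lit 331)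 (nat_lit 230) (nat_lit 219))) (XT.nd (nat_lit 78) (nat_lit 0) (nat_lit 0) (XT.lf (nat_lit 0) (nat_lit 25203374252) (nat_lit 76) (nat_lit 10764661052) (nat_lit 76) (nat_lit 6591596835) (nat_lit 7) (nat_lit 4) (nat_lit 8) (nat_lit 5) (nat_lit 8) (nat_lit 4) (nat_lit 332) (nat_lit 230) (nat_lit 218)) (XT.lf (nat_lit 0) (nat_lit 36558243206) (nat_lit 76) (nat_lit 6193367825) (nat_lit 76) (nat_lit 1770613636) (nat_lit 7) (nat_lit 4) (nat_lit 8) (nat_lit 5) (nat_lit 8) (nat_lit 4) (nat_lit 333) (nat_lit 230) (nat_lit 217))))))))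
noncomputable def xc9 : XT := (XT.nd (nat_lit 2028) (nat_lit 0) (nat_lit 0) (XT.nd (nat_lit 1014) (nat_lit 152) (nat_lit 0) (XT.nd (nat_lit 468) (nat_lit 76) (nat_lit 0) (XT.nd (nat_lit 234) (nat_lit 0) (nat_lit 0) (XT.nd (nat_lit 78) (nat_lit 0) (nat_lit 0) (XT.lf (nat_lit 0) (nat_lit 1645225039) (nat_lit 76) (nat_lit 1461070133) (nat_lit 152) (nat_lit 43479370514) (nat_lit 5) (nat_lit 5) (nat_lit 6) (nat_lit 5) (nat_lit 7) (nat_lit 4) (nat_lit 334) (nat_lit 230) (nat_lit 216)) (XT.nd (nat_lit 78) (nat_lit 0) (nat_lit 0) (XT.lf (nat_lit 0) (nat_lit 8173630195) (nat_lit 152) (nat_lit 37149725283) (nat_lit 0) (nat_lit 3428940557) (nat_lit 5) (nat_lit 5) (nat_lit 7) (nat_lit 4) (nat_lit 5) (nat_lit 4) (nat_lit 335) (nat_lit 230) (nat_lit 215)) (XT.lf (nat_lit 0) (nat_lit 13381789360) (nat_lit 152) (nat_lit 29221191732) (nat_lit 0) (nat_lit 8427690416) (nat_lit 5) (nat_lit 5) (nat_lit 7) (nat_lit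 4) (nat_lit 5) (nat_lit 4) (nat_lit 336) (nat_lit 230) (nat_lit 214)))) (XT.nd (nat_lit 78) (nat_lit 0) (nat_lit 0) (XT.lf (nat_lit 0) (nat_lit 18729128348) (nat_lit 152) (nat_lit 21121917834) (nat_lit 0) (nat_lit 13575591969) (nat_lit 5) (nat_lit 5) (nat_lit 7) (nat_lit 4) (nat_lit 5) (nat_lit 4) (nat_lit 337) (nat_lit 230) (nat_lit 213)) (XT.nd (nat_lit 78) (nat_lit 0) (nat_lit 0) (XT.lf (nat_lit 0) (nat_lit 24228378918) (nat_lit 152) (nat_lit 12832619604) (nat_lit 0) (nat_lit 18884902125) (nat_lit 5) (nat_lit 5) (nat_lit 7) (nat_lit 4) (nat_lit 5) (nat_lit 4) (nat_lit 338) (nat_lit 230) (nat_lit 212)) (XT.lf (nat_lit 0) (nat_lit 29892634523) (nat_lit 152) (nat_lit 4333560617) (nat_lit 0) (nat_lit 24368262098) (nat_lit 5) (nat_lit 5) (nat_lit 7) (nat_lit 4) (nat_lit 5) (nat_lit 4) (nat_lit 339) (nat_lit 230) (nat_lit 211))))) (XT.nd (nat_lit 234) (nat_lit 0) (nat_lit 0) (XT.nd (nat_lit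 78) (nat_lit 0) (nat_lit 0) (XT.lf (nat_lit 0) (nat_lit 4482973949) (nat_lit 76) (nat_lit 31295500626) (nat_lit 76) (nat_lit 25598846645) (nat_lit 4) (nat_lit 4) (nat_lit 5) (nat_lit 5) (nat_lit 5) (nat_lit 4) (nat_lit 340) (nat_lit 230) (nat_lit 210)) (XT.nd (nat_lit 78) (nat_lit 0) (nat_lit 0) (XT.lf (nat_lit 0) (nat_lit 13641525962) (nat_lit 76) (nat_lit 28260135842) (nat_lit 76) (nat_lit 22399404191) (nat_lit 4) (nat_lit 4) (nat_lit 5) (nat_lit 5) (nat_lit 5) (nat_lit 4) (nat_lit 341) (nat_lit 230) (nat_lit 209)) (XT.lf (nat_lit 0) (nat_lit 23077655144) (nat_lit 76) (nat_lit 25156634196) (nat_lit 76) (nat_lit 19139638096) (nat_lit 4) (nat_lit 4) (nat_lit 5) (nat_lit 5) (nat_lit 5) (nat_lit 4) (nat_lit 342) (nat_lit 230) (nat_lit 208)))) (XT.nd (nat_lit 156) (nat_lit 0) (nat_lit 0) (XT.nd (nat_lit 78) (nat_lit 0) (nat_lit 0) (XT.lf (nat_lit 0) (nat_lit 32813828468) (nat_lit 76) (nat_lit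 21977606398) (nat_lit 76) (nat_lit 15811787014) (nat_lit 4) (nat_lit 4) (nat_lit 5) (nat_lit 5) (nat_lit 5) (nat_lit 4) (nat_lit 343) (nat_lit 230) (nat_lit 207)) (XT.lf (nat_lit 0) (nat_lit 42873227300) (nat_lit 76) (nat_lit 18715483334) (nat_lit 76) (nat_lit 12407927488) (nat_lit 4) (nat_lit 4) (nat_lit 5) (nat_lit 5) (nat_lit 5) (nat_lit 4) (nat_lit 344) (nat_lit 230) (nat_lit 206))) (XT.nd (nat_lit 78) (nat_lit 0) (nat_lit 0) (XT.lf (nat_lit 0) (nat_lit 53279802589) (nat_lit 76) (nat_lit 15362498045) (nat_lit 76) (nat_lit 8919955093) (nat_lit 4) (nat_lit 4) (nat_lit 5) (nat_lit 5) (nat_lit 5) (nat_lit 4) (nat_lit 345) (nat_lit 230) (nat_lit 205)) (XT.lf (nat_lit 0) (nat_lit 64058331897) (nat_lit 76) (nat_lit 11910667232) (nat_lit 76) (nat_lit 5339565131) (nat_lit 4) (nat_lit 4) (nat_lit 5) (nat_lit 5) (nat_lit 5) (nat_lit 4) (nat_lit 346) (nat_lit 230) (nat_lit 204)))))) (XT.nd (nat_lit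 468) (nat_lit 0) (nat_lit 0) (XT.nd (nat_lit 234) (nat_lit 0) (nat_lit 0) (XT.nd (nat_lit 78) (nat_lit 152) (nat_lit 0) (XT.lf (nat_lit 0) (nat_lit 75234478387) (nat_lit 76) (nat_lit 8351772250) (nat_lit 76) (nat_lit 1658232865) (nat_lit 4) (nat_lit 4) (nat_lit 5) (nat_lit 5) (nat_lit 5) (nat_lit 4) (nat_lit 347) (nat_lit 230) (nat_lit 203)) (XT.nd (nat_lit 78) (nat_lit 76) (nat_lit 0) (XT.lf (nat_lit 0) (nat_lit 2091188039) (nat_lit 152) (nat_lit 2565034602) (nat_lit 76) (nat_lit 84722546994) (nat_lit 3) (nat_lit 5) (nat_lit 5) (nat_lit 5) (nat_lit 4) (nat_lit 4) (nat_lit 348) (nat_lit 230) (nat_lit 202)) (XT.lf (nat_lit 0) (nat_lit 5207491582) (nat_lit 76) (nat_lit 767233605) (nat_lit 152) (nat_lit 87745143363) (nat_lit 2) (nat_lit 5) (nat_lit 3) (nat_lit 5) (nat_lit 4) (nat_lit 4) (nat_lit 349) (nat_lit 230) (nat_lit 201)))) (XT.nd (nat_lit 78) (nat_lit 0) (nat_lit 0) (XT.lf (nat_lit 0)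 (nat_lit 10043080534) (nat_lit 152) (nat_lit 85014457959) (nat_lit 0) (nat_lit 3220782982) (nat_lit 2) (nat_lit 5) (nat_lit 4) (nat_lit 4) (nat_lit 2) (nat_lit 4) (nat_lit 350) (nat_lit 230) (nat_lit 200)) (XT.nd (nat_lit 78) (nat_lit 0) (nat_lit 0) (XT.lf (nat_lit 0) (nat_lit 14257928712) (nat_lit 152) (nat_lit 81470657945) (nat_lit 0) (nat_lit 7337835571) (nat_lit 2) (nat_lit 5) (nat_lit 4) (nat_lit 4) (nat_lit 2) (nat_lit 4) (nat_lit 351) (nat_lit 230) (nat_lit 199)) (XT.lf (nat_lit 0) (nat_lit 18621929956) (nat_lit 152) (nat_lit 77865164187) (nat_lit 0) (nat_lit 11608698159) (nat_lit 2) (nat_lit 5) (nat_lit 4) (nat_lit 4) (nat_lit 2) (nat_lit 4) (nat_lit 352) (nat_lit 230) (nat_lit 198))))) (XT.nd (nat_lit 234) (nat_lit 0) (nat_lit 0) (XT.nd (nat_lit 78) (nat_lit 0) (nat_lit 0) (XT.lf (nat_lit 0) (nat_lit 23145474745) (nat_lit 152) (nat_lit 74189392176) (nat_lit 0) (nat_lit 16043539465)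 (nat_lit 2) (nat_lit 5) (nat_lit 4) (nat_lit 4) (nat_lit 2) (nat_lit 4) (nat_lit 353) (nat_lit 230) (nat_lit 197)) (XT.nd (nat_lit 78) (nat_lit 0) (nat_lit 0) (XT.lf (nat_lit 0) (nat_lit 27839333424) (nat_lit 152) (nat_lit 70434590075) (nat_lit 0) (nat_lit 20652918637) (nat_lit 2) (nat_lit 5) (nat_lit 4) (nat_lit 4) (nat_lit 2) (nat_lit 4) (nat_lit 354) (nat_lit 230) (nat_lit 196)) (XT.lf (nat_lit 0) (nat_lit 32714681847) (nat_lit 152) (nat_lit 66591817878) (nat_lit 0) (nat_lit 25447810386) (nat_lit 2) (nat_lit 5) (nat_lit 4) (nat_lit 4) (nat_lit 2) (nat_lit 4) (nat_lit 355) (nat_lit 230) (nat_lit 195)))) (XT.nd (nat_lit 156) (nat_lit 0) (nat_lit 0) (XT.nd (nat_lit 78) (nat_lit 0) (nat_lit 0) (XT.lf (nat_lit 0) (nat_lit 37783127986) (nat_lit 152) (nat_lit 62651926128) (nat_lit 0) (nat_lit 30439631122) (nat_lit 2) (nat_lit 5) (nat_lit 4) (nat_lit 4) (nat_lit 2) (nat_lit 4) (nat_lit 356) (nat_lit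 230) (nat_lit 194)) (XT.lf (nat_lit 0) (nat_lit 43056739569) (nat_lit 152) (nat_lit 58605534129) (nat_lit 0) (nat_lit 35640266131) (nat_lit 2) (nat_lit 5) (nat_lit 4) (nat_lit 4) (nat_lit 2) (nat_lit 4) (nat_lit 357) (nat_lit 230) (nat_lit 193))) (XT.nd (nat_lit 78) (nat_lit 0) (nat_lit 0) (XT.lf (nat_lit 0) (nat_lit 48548072816) (nat_lit 152) (nat_lit 54443007617) (nat_lit 0) (nat_lit 41062097879) (nat_lit 2) (nat_lit 5) (nat_lit 4) (nat_lit 4) (nat_lit 2) (nat_lit 4) (nat_lit 358) (nat_lit 230) (nat_lit 192)) (XT.lf (nat_lit 0) (nat_lit 54270202329) (nat_lit 152) (nat_lit 50154435812) (nat_lit 0) (nat_lit 46718035488) (nat_lit 2) (nat_lit 5) (nat_lit 4) (nat_lit 4) (nat_lit 2) (nat_lit 4) (nat_lit 359) (nat_lit 230) (nat_lit 191))))))) (XT.nd (nat_lit 38064) (nat_lit 0) (nat_lit 152) (XT.nd (nat_lit 37518) (nat_lit 0) (nat_lit 608) (XT.nd (nat_lit 234) (nat_lit 0) (nat_lit 0) (XT.nd (nat_lit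 78) (nat_lit 0) (nat_lit 0) (XT.lf (nat_lit 0) (nat_lit 60236752226) (nat_lit 152) (nat_lit 45729607830) (nat_lit 0) (nat_lit 52621545476) (nat_lit 2) (nat_lit 5) (nat_lit 4) (nat_lit 4) (nat_lit 2) (nat_lit 4) (nat_lit 360) (nat_lit 230) (nat_lit 190)) (XT.nd (nat_lit 78) (nat_lit 0) (nat_lit 0) (XT.lf (nat_lit 0) (nat_lit 66461928579) (nat_lit 152) (nat_lit 41157988366) (nat_lit 0) (nat_lit 58786683820) (nat_lit 2) (nat_lit 5) (nat_lit 4) (nat_lit 4) (nat_lit 2) (nat_lit 4) (nat_lit 361) (nat_lit 230) (nat_lit 189)) (XT.lf (nat_lit 0) (nat_lit 72960553234) (nat_lit 152) (nat_lit 36428692612) (nat_lit 0) (nat_lit 65228129420) (nat_lit 2) (nat_lit 5) (nat_lit 4) (nat_lit 4) (nat_lit 2) (nat_lit 4) (nat_lit 362) (nat_lit 230) (nat_lit 188)))) (XT.nd (nat_lit 37128) (nat_lit 0) (nat_lit 912) (XT.lf (nat_lit 0) (nat_lit 79748099110) (nat_lit 152) (nat_lit 31530460340) (nat_lit 0) (nat_lit 71961219052)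 (nat_lit 2) (nat_lit 5) (nat_lit 4) (nat_lit 4) (nat_lit 2) (nat_lit 4) (nat_lit 363) (nat_lit 230) (nat_lit 187)) (XT.nd (nat_lit 78) (nat_lit 0) (nat_lit 0) (XT.lf (nat_lit 0) (nat_lit 2027569359) (nat_lit 152) (nat_lit 7668485205) (nat_lit 0) (nat_lit 2027569359) (nat_lit 14) (nat_lit 5) (nat_lit 16) (nat_lit 4) (nat_lit 14) (nat_lit 4) (nat_lit 318) (nat_lit 231) (nat_lit 231)) (XT.lf (nat_lit 0) (nat_lit 10883447380) (nat_lit 152) (nat_lit 3135022767) (nat_lit 0) (nat_lit 10383946293) (nat_lit 14) (nat_lit 5) (nat_lit 16) (nat_lit 4) (nat_lit 14) (nat_lit 4) (nat_lit 319) (nat_lit 231) (nat_lit 230))))) (XT.nd (nat_lit 234) (nat_lit 76) (nat_lit 0) (XT.nd (nat_lit 78) (nat_lit 152) (nat_lit 0) (XT.lf (nat_lit 0) (nat_lit 9453098671) (nat_lit 76) (nat_lit 8465787284) (nat_lit 76) (nat_lit 7490570876) (nat_lit 13) (nat_lit 4) (nat_lit 14) (nat_lit 5) (nat_lit 14) (nat_lit 4) (nat_lit 320)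 (nat_lit 231) (nat_lit 229)) (XT.nd (nat_lit 78) (nat_lit 152) (nat_lit 0) (XT.lf (nat_lit 0) (nat_lit 22339457695) (nat_lit 76) (nat_lit 2780665069) (nat_lit 76) (nat_lit 1352386451) (nat_lit 13) (nat_lit 4) (nat_lit 14) (nat_lit 5) (nat_lit 14) (nat_lit 4) (nat_lit 321) (nat_lit 231) (nat_lit 228)) (XT.lf (nat_lit 0) (nat_lit 4890553004) (nat_lit 152) (nat_lit 19614896059) (nat_lit 0) (nat_lit 3084954520) (nat_lit 11) (nat_lit 5) (nat_lit 13) (nat_lit 4) (nat_lit 11) (nat_lit 4) (nat_lit 322) (nat_lit 231) (nat_lit 227)))) (XT.nd (nat_lit 156) (nat_lit 0) (nat_lit 0) (XT.nd (nat_lit 78) (nat_lit 76) (nat_lit 0) (XT.lf (nat_lit 0) (nat_lit 11283798294) (nat_lit 152) (nat_lit 8404851770) (nat_lit 0) (nat_lit 9079228178) (nat_lit 11) (nat_lit 5) (nat_lit 13) (nat_lit 4) (nat_lit 11) (nat_lit 4) (nat_lit 323) (nat_lit 231) (nat_lit 226)) (XT.lf (nat_lit 0) (nat_lit 3067785429) (nat_lit 76)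 (nat_lit 14763014607) (nat_lit 76) (nat_lit 12178471509) (nat_lit 10) (nat_lit 4) (nat_lit 11) (nat_lit 5) (nat_lit 11) (nat_lit 4) (nat_lit 324) (nat_lit 231) (nat_lit 225))) (XT.nd (nat_lit 78) (nat_lit 0) (nat_lit 0) (XT.lf (nat_lit 0) (nat_lit 14942173812) (nat_lit 76) (nat_lit 9660067329) (nat_lit 76) (nat_lit 6713645200) (nat_lit 10) (nat_lit 4) (nat_lit 11) (nat_lit 5) (nat_lit 11) (nat_lit 4) (nat_lit 325) (nat_lit 231) (nat_lit 224)) (XT.lf (nat_lit 0) (nat_lit 27079312701) (nat_lit 76) (nat_lit 4452530880) (nat_lit 76) (nat_lit 1161462056) (nat_lit 10) (nat_lit 4) (nat_lit 11) (nat_lit 5) (nat_lit 11) (nat_lit 4) (nat_lit 326) (nat_lit 231) (nat_lit 223)))))) (XT.nd (nat_lit 546) (nat_lit 228) (nat_lit 0) (XT.nd (nat_lit 234) (nat_lit 76) (nat_lit 0) (XT.nd (nat_lit 78) (nat_lit 0) (nat_lit 0) (XT.lf (nat_lit 0) (nat_lit 4465140046) (nat_lit 152) (nat_lit 28725276353) (nat_lit 0)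 (nat_lit 951252888) (nat_lit 8) (nat_lit 5) (nat_lit 10) (nat_lit 4) (nat_lit 8) (nat_lit 4) (nat_lit 327) (nat_lit 231) (nat_lit 222)) (XT.nd (nat_lit 78) (nat_lit 0) (nat_lit 0) (XT.lf (nat_lit 0) (nat_lit 10282931716) (nat_lit 152) (nat_lit 18915667274) (nat_lit 0) (nat_lit 6465544836) (nat_lit 8) (nat_lit 5) (nat_lit 10) (nat_lit 4) (nat_lit 8) (nat_lit 4) (nat_lit 328) (nat_lit 231) (nat_lit 221)) (XT.lf (nat_lit 0) (nat_lit 16230044605) (nat_lit 152) (nat_lit 8913985690) (nat_lit 0) (nat_lit 12123610371) (nat_lit 8) (nat_lit 5) (nat_lit 10) (nat_lit 4) (nat_lit 8) (nat_lit 4) (nat_lit 329) (nat_lit 231) (nat_lit 220)))) (XT.nd (nat_lit 156) (nat_lit 0) (nat_lit 0) (XT.nd (nat_lit 78) (nat_lit 0) (nat_lit 0) (XT.lf (nat_lit 0) (nat_lit 1329525762) (nat_lit 76) (nat_lit 21003892960) (nat_lit 76) (nat_lit 16622175533) (nat_lit 7) (nat_lit 4) (nat_lit 8) (nat_lit 5) (nat_lit 8) (nat_lit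 4) (nat_lit 330) (nat_lit 231) (nat_lit 219)) (XT.lf (nat_lit 0) (nat_lit 11995437303) (nat_lit 76) (nat_lit 16689085015) (nat_lit 76) (nat_lit 12045193117) (nat_lit 7) (nat_lit 4) (nat_lit 8) (nat_lit 5) (nat_lit 8) (nat_lit 4) (nat_lit 331) (nat_lit 231) (nat_lit 218))) (XT.nd (nat_lit 78) (nat_lit 0) (nat_lit 0) (XT.lf (nat_lit 0) (nat_lit 22931738167) (nat_lit 76) (nat_lit 12279346884) (nat_lit 76) (nat_lit 7385765014) (nat_lit 7) (nat_lit 4) (nat_lit 8) (nat_lit 5) (nat_lit 8) (nat_lit 4) (nat_lit 332) (nat_lit 231) (nat_lit 217)) (XT.lf (nat_lit 0) (nat_lit 34164467165) (nat_lit 76) (nat_lit 7764179191) (nat_lit 76) (nat_lit 2632797347) (nat_lit 7) (nat_lit 4) (nat_lit 8) (nat_lit 5) (nat_lit 8) (nat_lit 4) (nat_lit 333) (nat_lit 231) (nat_lit 216))))) (XT.nd (nat_lit 234) (nat_lit 76) (nat_lit 0) (XT.nd (nat_lit 78) (nat_lit 76) (nat_lit 0) (XT.lf (nat_lit 0) (nat_lit 2181608190) (nat_lit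 152) (nat_lit 929193381) (nat_lit 76) (nat_lit 43516730734) (nat_lit 6) (nat_lit 5) (nat_lit 8) (nat_lit 5) (nat_lit 7) (nat_lit 4) (nat_lit 334) (nat_lit 231) (nat_lit 215)) (XT.nd (nat_lit 78) (nat_lit 0) (nat_lit 0) (XT.lf (nat_lit 0) (nat_lit 7161792590) (nat_lit 152) (nat_lit 39884423399) (nat_lit 0) (nat_lit 1750579392) (nat_lit 5) (nat_lit 5) (nat_lit 7) (nat_lit 4) (nat_lit 5) (nat_lit 4) (nat_lit 335) (nat_lit 231) (nat_lit 214)) (XT.lf (nat_lit 0) (nat_lit 12310816080) (nat_lit 152) (nat_lit 32065980741) (nat_lit 0) (nat_lit 6700165447) (nat_lit 5) (nat_lit 5) (nat_lit 7) (nat_lit 4) (nat_lit 5) (nat_lit 4) (nat_lit 336) (nat_lit 231) (nat_lit 213)))) (XT.nd (nat_lit 156) (nat_lit 76) (nat_lit 0) (XT.nd (nat_lit 78) (nat_lit 0) (nat_lit 0) (XT.lf (nat_lit 0) (nat_lit 17601835376) (nat_lit 152) (nat_lit 24071555312) (nat_lit 0) (nat_lit 11801244330) (nat_lit 5) (nat_lit 5) (nat_lit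 7) (nat_lit 4) (nat_lit 5) (nat_lit 4) (nat_lit 337) (nat_lit 231) (nat_lit 212)) (XT.lf (nat_lit 0) (nat_lit 23047448145) (nat_lit 152) (nat_lit 15882112767) (nat_lit 0) (nat_lit 17065961466) (nat_lit 5) (nat_lit 5) (nat_lit 7) (nat_lit 4) (nat_lit 5) (nat_lit 4) (nat_lit 338) (nat_lit 231) (nat_lit 211))) (XT.nd (nat_lit 78) (nat_lit 76) (nat_lit 0) (XT.lf (nat_lit 0) (nat_lit 28660620130) (nat_lit 152) (nat_lit 7478154433) (nat_lit 0) (nat_lit 22506851896) (nat_lit 5) (nat_lit 5) (nat_lit 7) (nat_lit 4) (nat_lit 5) (nat_lit 4) (nat_lit 339) (nat_lit 231) (nat_lit 210)) (XT.lf (nat_lit 0) (nat_lit 1183421939) (nat_lit 76) (nat_lit 33282669863) (nat_lit 76) (nat_lit 26964823958) (nat_lit 4) (nat_lit 4) (nat_lit 5) (nat_lit 5) (nat_lit 5) (nat_lit 4) (nat_lit 340) (nat_lit 231) (nat_lit 209))))))))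
noncomputable def xc10 : XT := (XT.nd (nat_lit 38922) (nat_lit 0) (nat_lit 152) (XT.nd (nat_lit 1014) (nat_lit 0) (nat_lit 0) (XT.nd (nat_lit 468) (nat_lit 152) (nat_lit 0) (XT.nd (nat_lit 234) (nat_lit 0) (nat_lit 0) (XT.nd (nat_lit 78) (nat_lit 0) (nat_lit 0) (XT.lf (nat_lit 0) (nat_lit 10253998131) (nat_lit 76) (nat_lit 30288100873) (nat_lit 76) (nat_lit 23813990519) (nat_lit 4) (nat_lit 4) (nat_lit 5) (nat_lit 5) (nat_lit 5) (nat_lit 4) (nat_lit 341) (nat_lit 231) (nat_lit 208)) (XT.nd (nat_lit 78) (nat_lit 0) (nat_lit 0) (XT.lf (nat_lit 0) (nat_lit 19606340817) (nat_lit 76) (nat_lit 27223452364) (nat_lit 76) (nat_lit 20600518726) (nat_lit 4) (nat_lit 4) (nat_lit 5) (nat_lit 5) (nat_lit 5) (nat_lit 4) (nat_lit 342) (nat_lit 231) (nat_lit 207)) (XT.lf (nat_lit 0) (nat_lit 29262717478) (nat_lit 76) (nat_lit 24081427553) (nat_lit 76) (nat_lit 17316757454) (nat_lit 4) (nat_lit 4) (nat_lit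 5) (nat_lit 5) (nat_lit 5) (nat_lit 4) (nat_lit 343) (nat_lit 231) (nat_lit 206)))) (XT.nd (nat_lit 78) (nat_lit 0) (nat_lit 0) (XT.lf (nat_lit 0) (nat_lit 39246119489) (nat_lit 76) (nat_lit 20854545430) (nat_lit 76) (nat_lit 13954888224) (nat_lit 4) (nat_lit 4) (nat_lit 5) (nat_lit 5) (nat_lit 5) (nat_lit 4) (nat_lit 344) (nat_lit 231) (nat_lit 205)) (XT.nd (nat_lit 78) (nat_lit 0) (nat_lit 0) (XT.lf (nat_lit 0) (nat_lit 49580316853) (nat_lit 76) (nat_lit 17535122941) (nat_lit 76) (nat_lit 10506906586) (nat_lit 4) (nat_lit 4) (nat_lit 5) (nat_lit 5) (nat_lit 5) (nat_lit 4) (nat_lit 345) (nat_lit 231) (nat_lit 204)) (XT.lf (nat_lit 0) (nat_lit 60289914803) (nat_lit 76) (nat_lit 14115256699) (nat_lit 76) (nat_lit 6964603061) (nat_lit 4) (nat_lit 4) (nat_lit 5) (nat_lit 5) (nat_lit 5) (nat_lit 4) (nat_lit 346) (nat_lit 231) (nat_lit 203))))) (XT.nd (nat_lit 234) (nat_lit 0) (nat_lit 0) (XT.nd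 (nat_lit 78) (nat_lit 152) (nat_lit 0) (XT.lf (nat_lit 0) (nat_lit 71400412381) (nat_lit 76) (nat_lit 10586804167) (nat_lit 76) (nat_lit 3319543591) (nat_lit 4) (nat_lit 4) (nat_lit 5) (nat_lit 5) (nat_lit 5) (nat_lit 4) (nat_lit 347) (nat_lit 231) (nat_lit 202)) (XT.nd (nat_lit 78) (nat_lit 76) (nat_lit 0) (XT.lf (nat_lit 0) (nat_lit 428424057) (nat_lit 152) (nat_lit 6508613966) (nat_lit 76) (nat_lit 82505512853) (nat_lit 3) (nat_lit 5) (nat_lit 5) (nat_lit 5) (nat_lit 4) (nat_lit 4) (nat_lit 348) (nat_lit 231) (nat_lit 201)) (XT.lf (nat_lit 0) (nat_lit 1124032795) (nat_lit 76) (nat_lit 3116417218) (nat_lit 152) (nat_lit 89545354043) (nat_lit 2) (nat_lit 5) (nat_lit 3) (nat_lit 5) (nat_lit 4) (nat_lit 4) (nat_lit 349) (nat_lit 231) (nat_lit 200)))) (XT.nd (nat_lit 156) (nat_lit 0) (nat_lit 0) (XT.nd (nat_lit 78) (nat_lit 0) (nat_lit 0) (XT.lf (nat_lit 0) (nat_lit 8254677809) (nat_lit 152)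 (nat_lit 89200427082) (nat_lit 0) (nat_lit 890784421) (nat_lit 2) (nat_lit 5) (nat_lit 4) (nat_lit 4) (nat_lit 2) (nat_lit 4) (nat_lit 350) (nat_lit 231) (nat_lit 199)) (XT.lf (nat_lit 0) (nat_lit 12439482405) (nat_lit 152) (nat_lit 85712966705) (nat_lit 0) (nat_lit 4982450361) (nat_lit 2) (nat_lit 5) (nat_lit 4) (nat_lit 4) (nat_lit 2) (nat_lit 4) (nat_lit 351) (nat_lit 231) (nat_lit 198))) (XT.nd (nat_lit 78) (nat_lit 0) (nat_lit 0) (XT.lf (nat_lit 0) (nat_lit 16774870714) (nat_lit 152) (nat_lit 82161129745) (nat_lit 0) (nat_lit 9229135187) (nat_lit 2) (nat_lit 5) (nat_lit 4) (nat_lit 4) (nat_lit 2) (nat_lit 4) (nat_lit 352) (nat_lit 231) (nat_lit 197)) (XT.lf (nat_lit 0) (nat_lit 21271165088) (nat_lit 152) (nat_lit 78536459446) (nat_lit 0) (nat_lit 13640950055) (nat_lit 2) (nat_lit 5) (nat_lit 4) (nat_lit 4) (nat_lit 2) (nat_lit 4) (nat_lit 353) (nat_lit 231) (nat_lit 196)))))) (XT.nd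 (nat_lit 468) (nat_lit 0) (nat_lit 0) (XT.nd (nat_lit 234) (nat_lit 0) (nat_lit 0) (XT.nd (nat_lit 78) (nat_lit 0) (nat_lit 0) (XT.lf (nat_lit 0) (nat_lit 25939070992) (nat_lit 152) (nat_lit 74830325642) (nat_lit 0) (nat_lit 18228399285) (nat_lit 2) (nat_lit 5) (nat_lit 4) (nat_lit 4) (nat_lit 2) (nat_lit 4) (nat_lit 354) (nat_lit 231) (nat_lit 195)) (XT.nd (nat_lit 78) (nat_lit 0) (nat_lit 0) (XT.lf (nat_lit 0) (nat_lit 30789702485) (nat_lit 152) (nat_lit 71033904205) (nat_lit 0) (nat_lit 23002405375) (nat_lit 2) (nat_lit 5) (nat_lit 4) (nat_lit 4) (nat_lit 2) (nat_lit 4) (nat_lit 355) (nat_lit 231) (nat_lit 194)) (XT.lf (nat_lit 0) (nat_lit 35834608691) (nat_lit 152) (nat_lit 67138156035) (nat_lit 0) (nat_lit 27974335007) (nat_lit 2) (nat_lit 5) (nat_lit 4) (nat_lit 4) (nat_lit 2) (nat_lit 4) (nat_lit 356) (nat_lit 231) (nat_lit 193)))) (XT.nd (nat_lit 78) (nat_lit 0) (nat_lit 0) (XT.lf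 (nat_lit 0) (nat_lit 41085801291) (nat_lit 152) (nat_lit 63133805542) (nat_lit 0) (nat_lit 33156026108) (nat_lit 2) (nat_lit 5) (nat_lit 4) (nat_lit 4) (nat_lit 2) (nat_lit 4) (nat_lit 357) (nat_lit 231) (nat_lit 192)) (XT.nd (nat_lit 78) (nat_lit 0) (nat_lit 0) (XT.lf (nat_lit 0) (nat_lit 46555783125) (nat_lit 152) (nat_lit 59011318557) (nat_lit 0) (nat_lit 38559816038) (nat_lit 2) (nat_lit 5) (nat_lit 4) (nat_lit 4) (nat_lit 2) (nat_lit 4) (nat_lit 358) (nat_lit 231) (nat_lit 191)) (XT.lf (nat_lit 0) (nat_lit 52257577960) (nat_lit 152) (nat_lit 54760879637) (nat_lit 0) (nat_lit 44198570963) (nat_lit 2) (nat_lit 5) (nat_lit 4) (nat_lit 4) (nat_lit 2) (nat_lit 4) (nat_lit 359) (nat_lit 231) (nat_lit 190))))) (XT.nd (nat_lit 234) (nat_lit 0) (nat_lit 0) (XT.nd (nat_lit 78) (nat_lit 0) (nat_lit 0) (XT.lf (nat_lit 0) (nat_lit 58204761496) (nat_lit 152) (nat_lit 50372368688) (nat_lit 0) (nat_lit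 50085716491) (nat_lit 2) (nat_lit 5) (nat_lit 4) (nat_lit 4) (nat_lit 2) (nat_lit 4) (nat_lit 360) (nat_lit 231) (nat_lit 189)) (XT.nd (nat_lit 78) (nat_lit 0) (nat_lit 0) (XT.lf (nat_lit 0) (nat_lit 64411493695) (nat_lit 152) (nat_lit 45835336874) (nat_lit 0) (nat_lit 56235269634) (nat_lit 2) (nat_lit 5) (nat_lit 4) (nat_lit 4) (nat_lit 2) (nat_lit 4) (nat_lit 361) (nat_lit 231) (nat_lit 188)) (XT.lf (nat_lit 0) (nat_lit 70892552490) (nat_lit 152) (nat_lit 41138981739) (nat_lit 0) (nat_lit 62661872186) (nat_lit 2) (nat_lit 5) (nat_lit 4) (nat_lit 4) (nat_lit 2) (nat_lit 4) (nat_lit 362) (nat_lit 231) (nat_lit 187)))) (XT.nd (nat_lit 37050) (nat_lit 0) (nat_lit 912) (XT.nd (nat_lit 36972) (nat_lit 0) (nat_lit 1064) (XT.lf (nat_lit 0) (nat_lit 77663368975) (nat_lit 152) (nat_lit 36272121485) (nat_lit 0) (nat_lit 69380825582) (nat_lit 2) (nat_lit 5) (nat_lit 4) (nat_lit 4) (nat_lit 2) (nat_lit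 4) (nat_lit 363) (nat_lit 231) (nat_lit 186)) (XT.lf (nat_lit 0) (nat_lit 2252095018) (nat_lit 152) (nat_lit 4293452496) (nat_lit 152) (nat_lit 4293452496) (nat_lit 16) (nat_lit 4) (nat_lit 18) (nat_lit 5) (nat_lit 18) (nat_lit 4) (nat_lit 316) (nat_lit 232) (nat_lit 232))) (XT.nd (nat_lit 78) (nat_lit 152) (nat_lit 0) (XT.lf (nat_lit 0) (nat_lit 17767023331) (nat_lit 152) (nat_lit 2657397461) (nat_lit 152) (nat_lit 2117187035) (nat_lit 16) (nat_lit 4) (nat_lit 18) (nat_lit 5) (nat_lit 18) (nat_lit 4) (nat_lit 317) (nat_lit 232) (nat_lit 231)) (XT.lf (nat_lit 0) (nat_lit 4464291829) (nat_lit 152) (nat_lit 15546144542) (nat_lit 0) (nat_lit 3440314600) (nat_lit 14) (nat_lit 5) (nat_lit 16) (nat_lit 4) (nat_lit 14) (nat_lit 4) (nat_lit 318) (nat_lit 232) (nat_lit 230))))))) (XT.nd (nat_lit 1014) (nat_lit 228) (nat_lit 0) (XT.nd (nat_lit 468) (nat_lit 228) (nat_lit 0) (XT.nd (nat_lit 234) (nat_lit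 228) (nat_lit 0) (XT.nd (nat_lit 78) (nat_lit 76) (nat_lit 0) (XT.lf (nat_lit 0) (nat_lit 11182769034) (nat_lit 152) (nat_lit 3543410357) (nat_lit 0) (nat_lit 9683076484) (nat_lit 14) (nat_lit 5) (nat_lit 16) (nat_lit 4) (nat_lit 14) (nat_lit 4) (nat_lit 319) (nat_lit 232) (nat_lit 229)) (XT.nd (nat_lit 78) (nat_lit 0) (nat_lit 0) (XT.lf (nat_lit 0) (nat_lit 8843080322) (nat_lit 76) (nat_lit 9264662030) (nat_lit 76) (nat_lit 7311907269) (nat_lit 13) (nat_lit 4) (nat_lit 14) (nat_lit 5) (nat_lit 14) (nat_lit 4) (nat_lit 320) (nat_lit 232) (nat_lit 228)) (XT.lf (nat_lit 0) (nat_lit 21545150732) (nat_lit 76) (nat_lit 3662436565) (nat_lit 76) (nat_lit 1278193985) (nat_lit 13) (nat_lit 4) (nat_lit 14) (nat_lit 5) (nat_lit 14) (nat_lit 4) (nat_lit 321) (nat_lit 232) (nat_lit 227)))) (XT.nd (nat_lit 78) (nat_lit 76) (nat_lit 0) (XT.lf (nat_lit 0) (nat_lit 4846745258) (nat_lit 152) (nat_lit 20627465258)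 (nat_lit 0) (nat_lit 2132975005) (nat_lit 11) (nat_lit 5) (nat_lit 13) (nat_lit 4) (nat_lit 11) (nat_lit 4) (nat_lit 322) (nat_lit 232) (nat_lit 226)) (XT.nd (nat_lit 78) (nat_lit 76) (nat_lit 0) (XT.lf (nat_lit 0) (nat_lit 11144675795) (nat_lit 152) (nat_lit 9591944309) (nat_lit 0) (nat_lit 8050932560) (nat_lit 11) (nat_lit 5) (nat_lit 13) (nat_lit 4) (nat_lit 11) (nat_lit 4) (nat_lit 323) (nat_lit 232) (nat_lit 225)) (XT.lf (nat_lit 0) (nat_lit 1687546758) (nat_lit 76) (nat_lit 15900087126) (nat_lit 76) (nat_lit 12444464860) (nat_lit 10) (nat_lit 4) (nat_lit 11) (nat_lit 5) (nat_lit 11) (nat_lit 4) (nat_lit 324) (nat_lit 232) (nat_lit 224))))) (XT.nd (nat_lit 234) (nat_lit 76) (nat_lit 0) (XT.nd (nat_lit 78) (nat_lit 152) (nat_lit 0) (XT.lf (nat_lit 0) (nat_lit 13400486891) (nat_lit 76) (nat_lit 10870582869) (nat_lit 76) (nat_lit 7070313907) (nat_lit 10) (nat_lit 4) (nat_lit 11) (nat_lit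 5) (nat_lit 11) (nat_lit 4) (nat_lit 325) (nat_lit 232) (nat_lit 223)) (XT.nd (nat_lit 78) (nat_lit 152) (nat_lit 0) (XT.lf (nat_lit 0) (nat_lit 25383865541) (nat_lit 76) (nat_lit 5732992155) (nat_lit 76) (nat_lit 1604488244) (nat_lit 10) (nat_lit 4) (nat_lit 11) (nat_lit 5) (nat_lit 11) (nat_lit 4) (nat_lit 326) (nat_lit 232) (nat_lit 222)) (XT.lf (nat_lit 0) (nat_lit 3521537385) (nat_lit 76) (nat_lit 400948333) (nat_lit 152) (nat_lit 30250626218) (nat_lit 8) (nat_lit 5) (nat_lit 9) (nat_lit 5) (nat_lit 10) (nat_lit 4) (nat_lit 327) (nat_lit 232) (nat_lit 221)))) (XT.nd (nat_lit 156) (nat_lit 76) (nat_lit 0) (XT.nd (nat_lit 78) (nat_lit 0) (nat_lit 0) (XT.lf (nat_lit 0) (nat_lit 9657609391) (nat_lit 152) (nat_lit 20983676164) (nat_lit 0) (nat_lit 5056806092) (nat_lit 8) (nat_lit 5) (nat_lit 10) (nat_lit 4) (nat_lit 8) (nat_lit 4) (nat_lit 328) (nat_lit 232) (nat_lit 220)) (XT.lf (nat_lit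 0) (nat_lit 15529661485) (nat_lit 152) (nat_lit 11120627774) (nat_lit 0) (nat_lit 10653574992) (nat_lit 8) (nat_lit 5) (nat_lit 10) (nat_lit 4) (nat_lit 8) (nat_lit 4) (nat_lit 329) (nat_lit 232) (nat_lit 219))) (XT.nd (nat_lit 78) (nat_lit 76) (nat_lit 0) (XT.lf (nat_lit 0) (nat_lit 21548768915) (nat_lit 152) (nat_lit 1035091771) (nat_lit 0) (nat_lit 16410507951) (nat_lit 8) (nat_lit 5) (nat_lit 10) (nat_lit 4) (nat_lit 8) (nat_lit 4) (nat_lit 330) (nat_lit 232) (nat_lit 218)) (XT.lf (nat_lit 0) (nat_lit 9481972460) (nat_lit 76) (nat_lit 18338436949) (nat_lit 76) (nat_lit 12950486013) (nat_lit 7) (nat_lit 4) (nat_lit 8) (nat_lit 5) (nat_lit 8) (nat_lit 4) (nat_lit 331) (nat_lit 232) (nat_lit 217)))))) (XT.nd (nat_lit 546) (nat_lit 76) (nat_lit 0) (XT.nd (nat_lit 234) (nat_lit 76) (nat_lit 0) (XT.nd (nat_lit 78) (nat_lit 76) (nat_lit 0) (XT.lf (nat_lit 0) (nat_lit 20296133368) (nat_lit 76)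 (nat_lit 13984824352) (nat_lit 76) (nat_lit 8359073443) (nat_lit 7) (nat_lit 4) (nat_lit 8) (nat_lit 5) (nat_lit 8) (nat_lit 4) (nat_lit 332) (nat_lit 232) (nat_lit 216)) (XT.nd (nat_lit 78) (nat_lit 76) (nat_lit 0) (XT.lf (nat_lit 0) (nat_lit 31412538599) (nat_lit 76) (nat_lit 9523109548) (nat_lit 76) (nat_lit 3670882475) (nat_lit 7) (nat_lit 4) (nat_lit 8) (nat_lit 5) (nat_lit 8) (nat_lit 4) (nat_lit 333) (nat_lit 232) (nat_lit 215)) (XT.lf (nat_lit 0) (nat_lit 1103291585) (nat_lit 152) (nat_lit 3828236741) (nat_lit 76) (nat_lit 41743223117) (nat_lit 6) (nat_lit 5) (nat_lit 8) (nat_lit 5) (nat_lit 7) (nat_lit 4) (nat_lit 334) (nat_lit 232) (nat_lit 214)))) (XT.nd (nat_lit 156) (nat_lit 0) (nat_lit 0) (XT.nd (nat_lit 78) (nat_lit 0) (nat_lit 0) (XT.lf (nat_lit 0) (nat_lit 5864513457) (nat_lit 76) (nat_lit 114724313) (nat_lit 152) (nat_lit 42867921238) (nat_lit 5) (nat_lit 5) (nat_lit 6)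 (nat_lit 5) (nat_lit 7) (nat_lit 4) (nat_lit 335) (nat_lit 232) (nat_lit 213)) (XT.lf (nat_lit 0) (nat_lit 11070838768) (nat_lit 152) (nat_lit 35267948563) (nat_lit 0) (nat_lit 4790277755) (nat_lit 5) (nat_lit 5) (nat_lit 7) (nat_lit 4) (nat_lit 5) (nat_lit 4) (nat_lit 336) (nat_lit 232) (nat_lit 212))) (XT.nd (nat_lit 78) (nat_lit 0) (nat_lit 0) (XT.lf (nat_lit 0) (nat_lit 16308220263) (nat_lit 152) (nat_lit 27373378820) (nat_lit 0) (nat_lit 9846763617) (nat_lit 5) (nat_lit 5) (nat_lit 7) (nat_lit 4) (nat_lit 5) (nat_lit 4) (nat_lit 337) (nat_lit 232) (nat_lit 211)) (XT.lf (nat_lit 0) (nat_lit 21702749411) (nat_lit 152) (nat_lit 19279036927) (nat_lit 0) (nat_lit 15069011211) (nat_lit 5) (nat_lit 5) (nat_lit 7) (nat_lit 4) (nat_lit 5) (nat_lit 4) (nat_lit 338) (nat_lit 232) (nat_lit 210))))) (XT.nd (nat_lit 234) (nat_lit 0) (nat_lit 0) (XT.nd (nat_lit 78) (nat_lit 76) (nat_lit 0) (XT.lf (nat_lit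 0) (nat_lit 27267270329) (nat_lit 152) (nat_lit 10965650643) (nat_lit 0) (nat_lit 20469454458) (nat_lit 5) (nat_lit 5) (nat_lit 7) (nat_lit 4) (nat_lit 5) (nat_lit 4) (nat_lit 339) (nat_lit 232) (nat_lit 209)) (XT.nd (nat_lit 78) (nat_lit 76) (nat_lit 0) (XT.lf (nat_lit 0) (nat_lit 33015031876) (nat_lit 152) (nat_lit 2413426190) (nat_lit 0) (nat_lit 26060951556) (nat_lit 5) (nat_lit 5) (nat_lit 7) (nat_lit 4) (nat_lit 5) (nat_lit 4) (nat_lit 340) (nat_lit 232) (nat_lit 208)) (XT.lf (nat_lit 0) (nat_lit 6525331592) (nat_lit 76) (nat_lit 32497113086) (nat_lit 76) (nat_lit 25394209482) (nat_lit 4) (nat_lit 4) (nat_lit 5) (nat_lit 5) (nat_lit 5) (nat_lit 4) (nat_lit 341) (nat_lit 232) (nat_lit 207)))) (XT.nd (nat_lit 156) (nat_lit 0) (nat_lit 0) (XT.nd (nat_lit 78) (nat_lit 0) (nat_lit 0) (XT.lf (nat_lit 0) (nat_lit 15797877615) (nat_lit 76) (nat_lit 29469467564) (nat_lit 76) (nat_lit 22224827498)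 (nat_lit 4) (nat_lit 4) (nat_lit 5) (nat_lit 5) (nat_lit 5) (nat_lit 4) (nat_lit 342) (nat_lit 232) (nat_lit 206)) (XT.lf (nat_lit 0) (nat_lit 25378257455) (nat_lit 76) (nat_lit 26362683694) (nat_lit 76) (nat_lit 18983056522) (nat_lit 4) (nat_lit 4) (nat_lit 5) (nat_lit 5) (nat_lit 5) (nat_lit 4) (nat_lit 343) (nat_lit 232) (nat_lit 205))) (XT.nd (nat_lit 78) (nat_lit 0) (nat_lit 0) (XT.lf (nat_lit 0) (nat_lit 35289281540) (nat_lit 76) (nat_lit 23169364371) (nat_lit 76) (nat_lit 15661178050) (nat_lit 4) (nat_lit 4) (nat_lit 5) (nat_lit 5) (nat_lit 5) (nat_lit 4) (nat_lit 344) (nat_lit 232) (nat_lit 204)) (XT.lf (nat_lit 0) (nat_lit 45554547547) (nat_lit 76) (nat_lit 19881906454) (nat_lit 76) (nat_lit 12251282848) (nat_lit 4) (nat_lit 4) (nat_lit 5) (nat_lit 5) (nat_lit 5) (nat_lit 4) (nat_lit 345) (nat_lit 232) (nat_lit 203))))))))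
noncomputable def xc11 : XT := (XT.nd (nat_lit 38766) (nat_lit 0) (nat_lit 152) (XT.nd (nat_lit 1014) (nat_lit 0) (nat_lit 0) (XT.nd (nat_lit 468) (nat_lit 0) (nat_lit 0) (XT.nd (nat_lit 234) (nat_lit 152) (nat_lit 0) (XT.nd (nat_lit 78) (nat_lit 0) (nat_lit 0) (XT.lf (nat_lit 0) (nat_lit 56198496585) (nat_lit 76) (nat_lit 16492482661) (nat_lit 76) (nat_lit 8745252119) (nat_lit 4) (nat_lit 4) (nat_lit 5) (nat_lit 5) (nat_lit 5) (nat_lit 4) (nat_lit 346) (nat_lit 232) (nat_lit 202)) (XT.nd (nat_lit 78) (nat_lit 0) (nat_lit 0) (XT.lf (nat_lit 0) (nat_lit 67246471390) (nat_lit 76) (nat_lit 12993022938) (nat_lit 76) (nat_lit 5134738169) (nat_lit 4) (nat_lit 4) (nat_lit 5) (nat_lit 5) (nat_lit 5) (nat_lit 4) (nat_lit 347) (nat_lit 232) (nat_lit 201)) (XT.lf (nat_lit 0) (nat_lit 78724776664) (nat_lit 76) (nat_lit 9375195236) (nat_lit 76) (nat_lit 1411144537) (nat_lit 4) (nat_lit 4) (nat_lit 5)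 (nat_lit 5) (nat_lit 5) (nat_lit 4) (nat_lit 348) (nat_lit 232) (nat_lit 200)))) (XT.nd (nat_lit 78) (nat_lit 76) (nat_lit 0) (XT.lf (nat_lit 0) (nat_lit 2386890670) (nat_lit 152) (nat_lit 3219392093) (nat_lit 76) (nat_lit 88249748118) (nat_lit 3) (nat_lit 5) (nat_lit 5) (nat_lit 5) (nat_lit 4) (nat_lit 4) (nat_lit 349) (nat_lit 232) (nat_lit 199)) (XT.nd (nat_lit 78) (nat_lit 0) (nat_lit 0) (XT.lf (nat_lit 0) (nat_lit 4691273715) (nat_lit 76) (nat_lit 1639754209) (nat_lit 152) (nat_lit 92087199029) (nat_lit 2) (nat_lit 5) (nat_lit 3) (nat_lit 5) (nat_lit 4) (nat_lit 4) (nat_lit 350) (nat_lit 232) (nat_lit 198)) (XT.lf (nat_lit 0) (nat_lit 10471457265) (nat_lit 152) (nat_lit 90277387339) (nat_lit 0) (nat_lit 2459731480) (nat_lit 2) (nat_lit 5) (nat_lit 4) (nat_lit 4) (nat_lit 2) (nat_lit 4) (nat_lit 351) (nat_lit 232) (nat_lit 197))))) (XT.nd (nat_lit 234) (nat_lit 0) (nat_lit 0) (XT.nd (nat_lit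 78) (nat_lit 0) (nat_lit 0) (XT.lf (nat_lit 0) (nat_lit 14779595159) (nat_lit 152) (nat_lit 86776652091) (nat_lit 0) (nat_lit 6683389867) (nat_lit 2) (nat_lit 5) (nat_lit 4) (nat_lit 4) (nat_lit 2) (nat_lit 4) (nat_lit 352) (nat_lit 232) (nat_lit 196)) (XT.nd (nat_lit 78) (nat_lit 0) (nat_lit 0) (XT.lf (nat_lit 0) (nat_lit 19249936758) (nat_lit 152) (nat_lit 83200650089) (nat_lit 0) (nat_lit 11073274793) (nat_lit 2) (nat_lit 5) (nat_lit 4) (nat_lit 4) (nat_lit 2) (nat_lit 4) (nat_lit 353) (nat_lit 232) (nat_lit 195)) (XT.lf (nat_lit 0) (nat_lit 23893125732) (nat_lit 152) (nat_lit 79540867045) (nat_lit 0) (nat_lit 15639838364) (nat_lit 2) (nat_lit 5) (nat_lit 4) (nat_lit 4) (nat_lit 2) (nat_lit 4) (nat_lit 354) (nat_lit 232) (nat_lit 194)))) (XT.nd (nat_lit 156) (nat_lit 0) (nat_lit 0) (XT.nd (nat_lit 78) (nat_lit 0) (nat_lit 0) (XT.lf (nat_lit 0) (nat_lit 28720217293) (nat_lit 152) (nat_lit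 75788589187) (nat_lit 0) (nat_lit 20393953350) (nat_lit 2) (nat_lit 5) (nat_lit 4) (nat_lit 4) (nat_lit 2) (nat_lit 4) (nat_lit 355) (nat_lit 232) (nat_lit 193)) (XT.lf (nat_lit 0) (nat_lit 33742704515) (nat_lit 152) (nat_lit 71934882522) (nat_lit 0) (nat_lit 25346939073) (nat_lit 2) (nat_lit 5) (nat_lit 4) (nat_lit 4) (nat_lit 2) (nat_lit 4) (nat_lit 356) (nat_lit 232) (nat_lit 192))) (XT.nd (nat_lit 78) (nat_lit 0) (nat_lit 0) (XT.lf (nat_lit 0) (nat_lit 38972545703) (nat_lit 152) (nat_lit 67970571558) (nat_lit 0) (nat_lit 30510588356) (nat_lit 2) (nat_lit 5) (nat_lit 4) (nat_lit 4) (nat_lit 2) (nat_lit 4) (nat_lit 357) (nat_lit 232) (nat_lit 191)) (XT.lf (nat_lit 0) (nat_lit 44422192858) (nat_lit 152) (nat_lit 63886217458) (nat_lit 0) (nat_lit 35897195603) (nat_lit 2) (nat_lit 5) (nat_lit 4) (nat_lit 4) (nat_lit 2) (nat_lit 4) (nat_lit 358) (nat_lit 232) (nat_lit 190)))))) (XT.nd (nat_lit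 37206) (nat_lit 0) (nat_lit 836) (XT.nd (nat_lit 234) (nat_lit 0) (nat_lit 0) (XT.nd (nat_lit 78) (nat_lit 0) (nat_lit 0) (XT.lf (nat_lit 0) (nat_lit 50104621332) (nat_lit 152) (nat_lit 59672095571) (nat_lit 0) (nat_lit 41519586068) (nat_lit 2) (nat_lit 5) (nat_lit 4) (nat_lit 4) (nat_lit 2) (nat_lit 4) (nat_lit 359) (nat_lit 232) (nat_lit 189)) (XT.nd (nat_lit 78) (nat_lit 0) (nat_lit 0) (XT.lf (nat_lit 0) (nat_lit 56033360715) (nat_lit 152) (nat_lit 55318172272) (nat_lit 0) (nat_lit 47391146395) (nat_lit 2) (nat_lit 5) (nat_lit 4) (nat_lit 4) (nat_lit 2) (nat_lit 4) (nat_lit 360) (nat_lit 232) (nat_lit 188)) (XT.lf (nat_lit 0) (nat_lit 62222527053) (nat_lit 152) (nat_lit 50814081077) (nat_lit 0) (nat_lit 53525856491) (nat_lit 2) (nat_lit 5) (nat_lit 4) (nat_lit 4) (nat_lit 2) (nat_lit 4) (nat_lit 361) (nat_lit 232) (nat_lit 187)))) (XT.nd (nat_lit 78) (nat_lit 0) (nat_lit 0) (XT.lf (nat_lit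 0) (nat_lit 68686856458) (nat_lit 152) (nat_lit 46149097961) (nat_lit 0) (nat_lit 59938322807) (nat_lit 2) (nat_lit 5) (nat_lit 4) (nat_lit 4) (nat_lit 2) (nat_lit 4) (nat_lit 362) (nat_lit 232) (nat_lit 186)) (XT.nd (nat_lit 36816) (nat_lit 0) (nat_lit 1368) (XT.lf (nat_lit 0) (nat_lit 75441740190) (nat_lit 152) (nat_lit 41312115819) (nat_lit 0) (nat_lit 66643813120) (nat_lit 2) (nat_lit 5) (nat_lit 4) (nat_lit 4) (nat_lit 2) (nat_lit 4) (nat_lit 363) (nat_lit 232) (nat_lit 185)) (XT.lf (nat_lit 0) (nat_lit 9708478793) (nat_lit 152) (nat_lit 166460867) (nat_lit 152) (nat_lit 166460867) (nat_lit 20) (nat_lit 4) (nat_lit 22) (nat_lit 5) (nat_lit 22) (nat_lit 4) (nat_lit 314) (nat_lit 233) (nat_lit 233))))) (XT.nd (nat_lit 234) (nat_lit 228) (nat_lit 0) (XT.nd (nat_lit 78) (nat_lit 152) (nat_lit 0) (XT.lf (nat_lit 0) (nat_lit 6528088775) (nat_lit 152) (nat_lit 8371034734) (nat_lit 0) (nat_lit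 5960867828) (nat_lit 18) (nat_lit 5) (nat_lit 20) (nat_lit 4) (nat_lit 18) (nat_lit 4) (nat_lit 315) (nat_lit 233) (nat_lit 232)) (XT.nd (nat_lit 78) (nat_lit 0) (nat_lit 0) (XT.lf (nat_lit 0) (nat_lit 4293905782) (nat_lit 152) (nat_lit 9247539357) (nat_lit 152) (nat_lit 8140107984) (nat_lit 16) (nat_lit 4) (nat_lit 18) (nat_lit 5) (nat_lit 18) (nat_lit 4) (nat_lit 316) (nat_lit 233) (nat_lit 231)) (XT.lf (nat_lit 0) (nat_lit 17356468357) (nat_lit 152) (nat_lit 3406996983) (nat_lit 152) (nat_lit 1785079491) (nat_lit 16) (nat_lit 4) (nat_lit 18) (nat_lit 5) (nat_lit 18) (nat_lit 4) (nat_lit 317) (nat_lit 233) (nat_lit 230)))) (XT.nd (nat_lit 156) (nat_lit 76) (nat_lit 0) (XT.nd (nat_lit 78) (nat_lit 0) (nat_lit 0) (XT.lf (nat_lit 0) (nat_lit 4668748109) (nat_lit 152) (nat_lit 16174164971) (nat_lit 0) (nat_lit 2618355610) (nat_lit 14) (nat_lit 5) (nat_lit 16) (nat_lit 4) (nat_lit 14) (nat_lit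 4) (nat_lit 318) (nat_lit 233) (nat_lit 229)) (XT.lf (nat_lit 0) (nat_lit 11282623926) (nat_lit 152) (nat_lit 4361157890) (nat_lit 0) (nat_lit 8779169217) (nat_lit 14) (nat_lit 5) (nat_lit 16) (nat_lit 4) (nat_lit 14) (nat_lit 4) (nat_lit 319) (nat_lit 233) (nat_lit 228))) (XT.nd (nat_lit 78) (nat_lit 0) (nat_lit 0) (XT.lf (nat_lit 0) (nat_lit 7824769396) (nat_lit 76) (nat_lit 10273418850) (nat_lit 76) (nat_lit 7338476322) (nat_lit 13) (nat_lit 4) (nat_lit 14) (nat_lit 5) (nat_lit 14) (nat_lit 4) (nat_lit 320) (nat_lit 233) (nat_lit 227)) (XT.lf (nat_lit 0) (nat_lit 20351326840) (nat_lit 76) (nat_lit 4750142671) (nat_lit 76) (nat_lit 1404259362) (nat_lit 13) (nat_lit 4) (nat_lit 14) (nat_lit 5) (nat_lit 14) (nat_lit 4) (nat_lit 321) (nat_lit 233) (nat_lit 226))))))) (XT.nd (nat_lit 1014) (nat_lit 228) (nat_lit 0) (XT.nd (nat_lit 468) (nat_lit 76) (nat_lit 0) (XT.nd (nat_lit 234) (nat_lit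 228) (nat_lit 0) (XT.nd (nat_lit 78) (nat_lit 0) (nat_lit 0) (XT.lf (nat_lit 0) (nat_lit 4605351882) (nat_lit 152) (nat_lit 22048435763) (nat_lit 0) (nat_lit 976948503) (nat_lit 11) (nat_lit 5) (nat_lit 13) (nat_lit 4) (nat_lit 11) (nat_lit 4) (nat_lit 322) (nat_lit 233) (nat_lit 225)) (XT.nd (nat_lit 78) (nat_lit 0) (nat_lit 0) (XT.lf (nat_lit 0) (nat_lit 10812506465) (nat_lit 152) (nat_lit 11179127519) (nat_lit 0) (nat_lit 6822224055) (nat_lit 11) (nat_lit 5) (nat_lit 13) (nat_lit 4) (nat_lit 11) (nat_lit 4) (nat_lit 323) (nat_lit 233) (nat_lit 224)) (XT.lf (nat_lit 0) (nat_lit 17152789532) (nat_lit 152) (nat_lit 90864379) (nat_lit 0) (nat_lit 12817860425) (nat_lit 11) (nat_lit 5) (nat_lit 13) (nat_lit 4) (nat_lit 11) (nat_lit 4) (nat_lit 324) (nat_lit 233) (nat_lit 223)))) (XT.nd (nat_lit 78) (nat_lit 152) (nat_lit 0) (XT.lf (nat_lit 0) (nat_lit 11466507135) (nat_lit 76) (nat_lit 12285012941)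 (nat_lit 76) (nat_lit 7621848886) (nat_lit 10) (nat_lit 4) (nat_lit 11) (nat_lit 5) (nat_lit 11) (nat_lit 4) (nat_lit 325) (nat_lit 233) (nat_lit 222)) (XT.nd (nat_lit 78) (nat_lit 152) (nat_lit 0) (XT.lf (nat_lit 0) (nat_lit 23303447463) (nat_lit 76) (nat_lit 7214037212) (nat_lit 76) (nat_lit 2238268444) (nat_lit 10) (nat_lit 4) (nat_lit 11) (nat_lit 5) (nat_lit 11) (nat_lit 4) (nat_lit 326) (nat_lit 233) (nat_lit 221)) (XT.lf (nat_lit 0) (nat_lit 1227011262) (nat_lit 76) (nat_lit 1975204897) (nat_lit 152) (nat_lit 31008476559) (nat_lit 8) (nat_lit 5) (nat_lit 9) (nat_lit 5) (nat_lit 10) (nat_lit 4) (nat_lit 327) (nat_lit 233) (nat_lit 220))))) (XT.nd (nat_lit 234) (nat_lit 76) (nat_lit 0) (XT.nd (nat_lit 78) (nat_lit 0) (nat_lit 0) (XT.lf (nat_lit 0) (nat_lit 8847146319) (nat_lit 152) (nat_lit 23439283546) (nat_lit 0) (nat_lit 3451972307) (nat_lit 8) (nat_lit 5) (nat_lit 10) (nat_lit 4)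 (nat_lit 8) (nat_lit 4) (nat_lit 328) (nat_lit 233) (nat_lit 219)) (XT.nd (nat_lit 78) (nat_lit 0) (nat_lit 0) (XT.lf (nat_lit 0) (nat_lit 14647711940) (nat_lit 152) (nat_lit 13708266769) (nat_lit 0) (nat_lit 8990363458) (nat_lit 8) (nat_lit 5) (nat_lit 10) (nat_lit 4) (nat_lit 8) (nat_lit 4) (nat_lit 329) (nat_lit 233) (nat_lit 218)) (XT.lf (nat_lit 0) (nat_lit 20598737016) (nat_lit 152) (nat_lit 3748475160) (nat_lit 0) (nat_lit 14691698562) (nat_lit 8) (nat_lit 5) (nat_lit 10) (nat_lit 4) (nat_lit 8) (nat_lit 4) (nat_lit 330) (nat_lit 233) (nat_lit 217)))) (XT.nd (nat_lit 156) (nat_lit 0) (nat_lit 0) (XT.nd (nat_lit 78) (nat_lit 0) (nat_lit 0) (XT.lf (nat_lit 0) (nat_lit 6592447466) (nat_lit 76) (nat_lit 20185313824) (nat_lit 76) (nat_lit 14040475397) (nat_lit 7) (nat_lit 4) (nat_lit 8) (nat_lit 5) (nat_lit 8) (nat_lit 4) (nat_lit 331) (nat_lit 233) (nat_lit 216)) (XT.lf (nat_lit 0) (nat_lit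 17290284607) (nat_lit 76) (nat_lit 15885154117) (nat_lit 76) (nat_lit 9513839524) (nat_lit 7) (nat_lit 4) (nat_lit 8) (nat_lit 5) (nat_lit 8) (nat_lit 4) (nat_lit 332) (nat_lit 233) (nat_lit 215))) (XT.nd (nat_lit 78) (nat_lit 0) (nat_lit 0) (XT.lf (nat_lit 0) (nat_lit 28295905298) (nat_lit 76) (nat_lit 11474346827) (nat_lit 76) (nat_lit 4887340649) (nat_lit 7) (nat_lit 4) (nat_lit 8) (nat_lit 5) (nat_lit 8) (nat_lit 4) (nat_lit 333) (nat_lit 233) (nat_lit 214)) (XT.lf (nat_lit 0) (nat_lit 39635513397) (nat_lit 76) (nat_lit 6942390033) (nat_lit 76) (nat_lit 149963297) (nat_lit 7) (nat_lit 4) (nat_lit 8) (nat_lit 5) (nat_lit 8) (nat_lit 4) (nat_lit 334) (nat_lit 233) (nat_lit 213)))))) (XT.nd (nat_lit 546) (nat_lit 0) (nat_lit 0) (XT.nd (nat_lit 234) (nat_lit 76) (nat_lit 0) (XT.nd (nat_lit 78) (nat_lit 0) (nat_lit 0) (XT.lf (nat_lit 0) (nat_lit 2433289596) (nat_lit 76) (nat_lit 2207771959)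 (nat_lit 152) (nat_lit 44261907929) (nat_lit 5) (nat_lit 5) (nat_lit 6) (nat_lit 5) (nat_lit 7) (nat_lit 4) (nat_lit 335) (nat_lit 233) (nat_lit 212)) (XT.nd (nat_lit 78) (nat_lit 0) (nat_lit 0) (XT.lf (nat_lit 0) (nat_lit 9658905098) (nat_lit 152) (nat_lit 38834718930) (nat_lit 0) (nat_lit 2693479987) (nat_lit 5) (nat_lit 5) (nat_lit 7) (nat_lit 4) (nat_lit 5) (nat_lit 4) (nat_lit 336) (nat_lit 233) (nat_lit 211)) (XT.lf (nat_lit 0) (nat_lit 14845202972) (nat_lit 152) (nat_lit 31035249840) (nat_lit 0) (nat_lit 7707496307) (nat_lit 5) (nat_lit 5) (nat_lit 7) (nat_lit 4) (nat_lit 5) (nat_lit 4) (nat_lit 337) (nat_lit 233) (nat_lit 210)))) (XT.nd (nat_lit 156) (nat_lit 76) (nat_lit 0) (XT.nd (nat_lit 78) (nat_lit 0) (nat_lit 0) (XT.lf (nat_lit 0) (nat_lit 20191081053) (nat_lit 152) (nat_lit 23031479998) (nat_lit 0) (nat_lit 12889296717) (nat_lit 5) (nat_lit 5) (nat_lit 7) (nat_lit 4) (nat_lit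 5) (nat_lit 4) (nat_lit 338) (nat_lit 233) (nat_lit 209)) (XT.lf (nat_lit 0) (nat_lit 25709267622) (nat_lit 152) (nat_lit 14804352809) (nat_lit 0) (nat_lit 18251218837) (nat_lit 5) (nat_lit 5) (nat_lit 7) (nat_lit 4) (nat_lit 5) (nat_lit 4) (nat_lit 339) (nat_lit 233) (nat_lit 208))) (XT.nd (nat_lit 78) (nat_lit 76) (nat_lit 0) (XT.lf (nat_lit 0) (nat_lit 31412901217) (nat_lit 152) (nat_lit 6334279876) (nat_lit 0) (nat_lit 23806029148) (nat_lit 5) (nat_lit 5) (nat_lit 7) (nat_lit 4) (nat_lit 5) (nat_lit 4) (nat_lit 340) (nat_lit 233) (nat_lit 207)) (XT.lf (nat_lit 0) (nat_lit 2446648568) (nat_lit 76) (nat_lit 34892432034) (nat_lit 76) (nat_lit 27143823503) (nat_lit 4) (nat_lit 4) (nat_lit 5) (nat_lit 5) (nat_lit 5) (nat_lit 4) (nat_lit 341) (nat_lit 233) (nat_lit 206))))) (XT.nd (nat_lit 234) (nat_lit 0) (nat_lit 0) (XT.nd (nat_lit 78) (nat_lit 0) (nat_lit 0) (XT.lf (nat_lit 0) (nat_lit 11643197769)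 (nat_lit 76) (nat_lit 31900027452) (nat_lit 76) (nat_lit 24016431815) (nat_lit 4) (nat_lit 4) (nat_lit 5) (nat_lit 5) (nat_lit 5) (nat_lit 4) (nat_lit 342) (nat_lit 233) (nat_lit 205)) (XT.nd (nat_lit 78) (nat_lit 0) (nat_lit 0) (XT.lf (nat_lit 0) (nat_lit 21151199684) (nat_lit 76) (nat_lit 28826806382) (nat_lit 76) (nat_lit 20814651597) (nat_lit 4) (nat_lit 4) (nat_lit 5) (nat_lit 5) (nat_lit 5) (nat_lit 4) (nat_lit 343) (nat_lit 233) (nat_lit 204)) (XT.lf (nat_lit 0) (nat_lit 30993292412) (nat_lit 76) (nat_lit 25665451631) (nat_lit 76) (nat_lit 17530859561) (nat_lit 4) (nat_lit 4) (nat_lit 5) (nat_lit 5) (nat_lit 5) (nat_lit 4) (nat_lit 344) (nat_lit 233) (nat_lit 203)))) (XT.nd (nat_lit 156) (nat_lit 0) (nat_lit 0) (XT.nd (nat_lit 78) (nat_lit 0) (nat_lit 0) (XT.lf (nat_lit 0) (nat_lit 41192909507) (nat_lit 76) (nat_lit 22408436163) (nat_lit 76) (nat_lit 14157237155) (nat_lit 4) (nat_lit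 4) (nat_lit 5) (nat_lit 5) (nat_lit 5) (nat_lit 4) (nat_lit 345) (nat_lit 233) (nat_lit 202)) (XT.lf (nat_lit 0) (nat_lit 51774335772) (nat_lit 76) (nat_lit 19048005180) (nat_lit 76) (nat_lit 10685751946) (nat_lit 4) (nat_lit 4) (nat_lit 5) (nat_lit 5) (nat_lit 5) (nat_lit 4) (nat_lit 346) (nat_lit 233) (nat_lit 201))) (XT.nd (nat_lit 78) (nat_lit 0) (nat_lit 0) (XT.lf (nat_lit 0) (nat_lit 62762765078) (nat_lit 76) (nat_lit 15576157655) (nat_lit 76) (nat_lit 7108138491) (nat_lit 4) (nat_lit 4) (nat_lit 5) (nat_lit 5) (nat_lit 5) (nat_lit 4) (nat_lit 347) (nat_lit 233) (nat_lit 200)) (XT.lf (nat_lit 0) (nat_lit 74184360354) (nat_lit 76) (nat_lit 11984627285) (nat_lit 76) (nat_lit 3415878665) (nat_lit 4) (nat_lit 4) (nat_lit 5) (nat_lit 5) (nat_lit 5) (nat_lit 4) (nat_lit 348) (nat_lit 233) (nat_lit 199))))))))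
noncomputable def xc12 : XT := (XT.nd (nat_lit 38610) (nat_lit 0) (nat_lit 152) (XT.nd (nat_lit 1014) (nat_lit 0) (nat_lit 0) (XT.nd (nat_lit 468) (nat_lit 0) (nat_lit 0) (XT.nd (nat_lit 234) (nat_lit 0) (nat_lit 0) (XT.nd (nat_lit 78) (nat_lit 76) (nat_lit 0) (XT.lf (nat_lit 0) (nat_lit 392016727) (nat_lit 152) (nat_lit 7868887480) (nat_lit 76) (nat_lit 85670340545) (nat_lit 3) (nat_lit 5) (nat_lit 5) (nat_lit 5) (nat_lit 4) (nat_lit 4) (nat_lit 349) (nat_lit 233) (nat_lit 198)) (XT.nd (nat_lit 78) (nat_lit 76) (nat_lit 0) (XT.lf (nat_lit 0) (nat_lit 4263192493) (nat_lit 152) (nat_lit 101765262) (nat_lit 76) (nat_lit 94130679627) (nat_lit 3) (nat_lit 5) (nat_lit 5) (nat_lit 5) (nat_lit 4) (nat_lit 4) (nat_lit 350) (nat_lit 233) (nat_lit 197)) (XT.lf (nat_lit 0) (nat_lit 8110453529) (nat_lit 76) (nat_lit 241030926) (nat_lit 152) (nat_lit 94936073524) (nat_lit 2) (nat_lit 5) (nat_lit 3) (nat_lit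 5) (nat_lit 4) (nat_lit 4) (nat_lit 351) (nat_lit 233) (nat_lit 196)))) (XT.nd (nat_lit 78) (nat_lit 0) (nat_lit 0) (XT.lf (nat_lit 0) (nat_lit 12631352637) (nat_lit 152) (nat_lit 91722720563) (nat_lit 0) (nat_lit 3965400900) (nat_lit 2) (nat_lit 5) (nat_lit 4) (nat_lit 4) (nat_lit 2) (nat_lit 4) (nat_lit 352) (nat_lit 233) (nat_lit 195)) (XT.nd (nat_lit 78) (nat_lit 0) (nat_lit 0) (XT.lf (nat_lit 0) (nat_lit 17076977307) (nat_lit 152) (nat_lit 88193069321) (nat_lit 0) (nat_lit 8334400167) (nat_lit 2) (nat_lit 5) (nat_lit 4) (nat_lit 4) (nat_lit 2) (nat_lit 4) (nat_lit 353) (nat_lit 233) (nat_lit 194)) (XT.lf (nat_lit 0) (nat_lit 21696626348) (nat_lit 152) (nat_lit 84577429857) (nat_lit 0) (nat_lit 12881072633) (nat_lit 2) (nat_lit 5) (nat_lit 4) (nat_lit 4) (nat_lit 2) (nat_lit 4) (nat_lit 354) (nat_lit 233) (nat_lit 193))))) (XT.nd (nat_lit 234) (nat_lit 0) (nat_lit 0) (XT.nd (nat_lit 78)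 (nat_lit 0) (nat_lit 0) (XT.lf (nat_lit 0) (nat_lit 26501298925) (nat_lit 152) (nat_lit 80867193504) (nat_lit 0) (nat_lit 17616243711) (nat_lit 2) (nat_lit 5) (nat_lit 4) (nat_lit 4) (nat_lit 2) (nat_lit 4) (nat_lit 355) (nat_lit 233) (nat_lit 192)) (XT.nd (nat_lit 78) (nat_lit 0) (nat_lit 0) (XT.lf (nat_lit 0) (nat_lit 31502434735) (nat_lit 152) (nat_lit 77053526368) (nat_lit 0) (nat_lit 22551187617) (nat_lit 2) (nat_lit 5) (nat_lit 4) (nat_lit 4) (nat_lit 2) (nat_lit 4) (nat_lit 356) (nat_lit 233) (nat_lit 191)) (XT.lf (nat_lit 0) (nat_lit 36711941244) (nat_lit 152) (nat_lit 73127348288) (nat_lit 0) (nat_lit 27697654217) (nat_lit 2) (nat_lit 5) (nat_lit 4) (nat_lit 4) (nat_lit 2) (nat_lit 4) (nat_lit 357) (nat_lit 233) (nat_lit 190)))) (XT.nd (nat_lit 156) (nat_lit 0) (nat_lit 0) (XT.nd (nat_lit 78) (nat_lit 0) (nat_lit 0) (XT.lf (nat_lit 0) (nat_lit 42142222038) (nat_lit 152) (nat_lit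 69079311221) (nat_lit 0) (nat_lit 33067897003) (nat_lit 2) (nat_lit 5) (nat_lit 4) (nat_lit 4) (nat_lit 2) (nat_lit 4) (nat_lit 358) (nat_lit 233) (nat_lit 189)) (XT.lf (nat_lit 0) (nat_lit 47806206358) (nat_lit 152) (nat_lit 64899776984) (nat_lit 0) (nat_lit 38674702267) (nat_lit 2) (nat_lit 5) (nat_lit 4) (nat_lit 4) (nat_lit 2) (nat_lit 4) (nat_lit 359) (nat_lit 233) (nat_lit 188))) (XT.nd (nat_lit 78) (nat_lit 0) (nat_lit 0) (XT.lf (nat_lit 0) (nat_lit 53717379881) (nat_lit 152) (nat_lit 60578794304) (nat_lit 0) (nat_lit 44531419547) (nat_lit 2) (nat_lit 5) (nat_lit 4) (nat_lit 4) (nat_lit 2) (nat_lit 4) (nat_lit 360) (nat_lit 233) (nat_lit 187)) (XT.lf (nat_lit 0) (nat_lit 59889816829) (nat_lit 152) (nat_lit 56106075128) (nat_lit 0) (nat_lit 50651993406) (nat_lit 2) (nat_lit 5) (nat_lit 4) (nat_lit 4) (nat_lit 2) (nat_lit 4) (nat_lit 361) (nat_lit 233) (nat_lit 186)))))) (XT.nd (nat_lit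 37050) (nat_lit 0) (nat_lit 684) (XT.nd (nat_lit 36816) (nat_lit 0) (nat_lit 1216) (XT.nd (nat_lit 78) (nat_lit 0) (nat_lit 0) (XT.lf (nat_lit 0) (nat_lit 66338213481) (nat_lit 152) (nat_lit 51470970124) (nat_lit 0) (nat_lit 57050996640) (nat_lit 2) (nat_lit 5) (nat_lit 4) (nat_lit 4) (nat_lit 2) (nat_lit 4) (nat_lit 362) (nat_lit 233) (nat_lit 185)) (XT.nd (nat_lit 36660) (nat_lit 0) (nat_lit 1520) (XT.lf (nat_lit 0) (nat_lit 73077923163) (nat_lit 152) (nat_lit 46662443328) (nat_lit 0) (nat_lit 63743664971) (nat_lit 2) (nat_lit 5) (nat_lit 4) (nat_lit 4) (nat_lit 2) (nat_lit 4) (nat_lit 363) (nat_lit 233) (nat_lit 184)) (XT.lf (nat_lit 0) (nat_lit 2877493128) (nat_lit 152) (nat_lit 3564603246) (nat_lit 0) (nat_lit 2877493128) (nat_lit 22) (nat_lit 5) (nat_lit 24) (nat_lit 4) (nat_lit 22) (nat_lit 4) (nat_lit 312) (nat_lit 234) (nat_lit 234)))) (XT.nd (nat_lit 78) (nat_lit 152) (nat_lit 0)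 (XT.lf (nat_lit 0) (nat_lit 5853591976) (nat_lit 152) (nat_lit 7051250635) (nat_lit 152) (nat_lit 6437801181) (nat_lit 20) (nat_lit 4) (nat_lit 22) (nat_lit 5) (nat_lit 22) (nat_lit 4) (nat_lit 313) (nat_lit 234) (nat_lit 233)) (XT.nd (nat_lit 78) (nat_lit 76) (nat_lit 0) (XT.lf (nat_lit 0) (nat_lit 157420643) (nat_lit 228) (nat_lit 878123123) (nat_lit 76) (nat_lit 19050754703) (nat_lit 19) (nat_lit 5) (nat_lit 22) (nat_lit 5) (nat_lit 20) (nat_lit 4) (nat_lit 314) (nat_lit 234) (nat_lit 232)) (XT.lf (nat_lit 0) (nat_lit 6888229382) (nat_lit 152) (nat_lit 8793705479) (nat_lit 0) (nat_lit 5185216015) (nat_lit 18) (nat_lit 5) (nat_lit 20) (nat_lit 4) (nat_lit 18) (nat_lit 4) (nat_lit 315) (nat_lit 234) (nat_lit 231))))) (XT.nd (nat_lit 234) (nat_lit 228) (nat_lit 0) (XT.nd (nat_lit 78) (nat_lit 152) (nat_lit 0) (XT.lf (nat_lit 0) (nat_lit 3662552341) (nat_lit 152) (nat_lit 10123584014) (nat_lit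 152) (nat_lit 7906084527) (nat_lit 16) (nat_lit 4) (nat_lit 18) (nat_lit 5) (nat_lit 18) (nat_lit 4) (nat_lit 316) (nat_lit 234) (nat_lit 230)) (XT.nd (nat_lit 78) (nat_lit 152) (nat_lit 0) (XT.lf (nat_lit 0) (nat_lit 16534380898) (nat_lit 152) (nat_lit 4367770363) (nat_lit 152) (nat_lit 1660284096) (nat_lit 16) (nat_lit 4) (nat_lit 18) (nat_lit 5) (nat_lit 18) (nat_lit 4) (nat_lit 317) (nat_lit 234) (nat_lit 229)) (XT.lf (nat_lit 0) (nat_lit 4668994357) (nat_lit 152) (nat_lit 17222526983) (nat_lit 0) (nat_lit 1587304702) (nat_lit 14) (nat_lit 5) (nat_lit 16) (nat_lit 4) (nat_lit 14) (nat_lit 4) (nat_lit 318) (nat_lit 234) (nat_lit 228)))) (XT.nd (nat_lit 156) (nat_lit 152) (nat_lit 0) (XT.nd (nat_lit 78) (nat_lit 76) (nat_lit 0) (XT.lf (nat_lit 0) (nat_lit 11183249805) (nat_lit 152) (nat_lit 5590212382) (nat_lit 0) (nat_lit 7670072330) (nat_lit 14) (nat_lit 5) (nat_lit 16) (nat_lit 4) (nat_lit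 14) (nat_lit 4) (nat_lit 319) (nat_lit 234) (nat_lit 227)) (XT.lf (nat_lit 0) (nat_lit 6395741344) (nat_lit 76) (nat_lit 11494459547) (nat_lit 76) (nat_lit 7570341292) (nat_lit 13) (nat_lit 4) (nat_lit 14) (nat_lit 5) (nat_lit 14) (nat_lit 4) (nat_lit 320) (nat_lit 234) (nat_lit 226))) (XT.nd (nat_lit 78) (nat_lit 152) (nat_lit 0) (XT.lf (nat_lit 0) (nat_lit 18755143582) (nat_lit 76) (nat_lit 6046373164) (nat_lit 76) (nat_lit 1730882737) (nat_lit 13) (nat_lit 4) (nat_lit 14) (nat_lit 5) (nat_lit 14) (nat_lit 4) (nat_lit 321) (nat_lit 234) (nat_lit 225)) (XT.lf (nat_lit 0) (nat_lit 3776024094) (nat_lit 76) (nat_lit 393557148) (nat_lit 152) (nat_lit 23491416801) (nat_lit 11) (nat_lit 5) (nat_lit 12) (nat_lit 5) (nat_lit 13) (nat_lit 4) (nat_lit 322) (nat_lit 234) (nat_lit 224))))))) (XT.nd (nat_lit 1014) (nat_lit 152) (nat_lit 0) (XT.nd (nat_lit 468) (nat_lit 152) (nat_lit 0) (XT.nd (nat_lit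 234) (nat_lit 152) (nat_lit 0) (XT.nd (nat_lit 78) (nat_lit 76) (nat_lit 0) (XT.lf (nat_lit 0) (nat_lit 10286499423) (nat_lit 152) (nat_lit 13170180406) (nat_lit 0) (nat_lit 5390177165) (nat_lit 11) (nat_lit 5) (nat_lit 13) (nat_lit 4) (nat_lit 11) (nat_lit 4) (nat_lit 323) (nat_lit 234) (nat_lit 223)) (XT.nd (nat_lit 78) (nat_lit 76) (nat_lit 0) (XT.lf (nat_lit 0) (nat_lit 16544446023) (nat_lit 152) (nat_lit 2232677089) (nat_lit 0) (nat_lit 11319888817) (nat_lit 11) (nat_lit 5) (nat_lit 13) (nat_lit 4) (nat_lit 11) (nat_lit 4) (nat_lit 324) (nat_lit 234) (nat_lit 222)) (XT.lf (nat_lit 0) (nat_lit 9135629829) (nat_lit 76) (nat_lit 13906725236) (nat_lit 76) (nat_lit 8369563317) (nat_lit 10) (nat_lit 4) (nat_lit 11) (nat_lit 5) (nat_lit 11) (nat_lit 4) (nat_lit 325) (nat_lit 234) (nat_lit 221)))) (XT.nd (nat_lit 78) (nat_lit 152) (nat_lit 0) (XT.lf (nat_lit 0) (nat_lit 20833105089) (nat_lit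 76) (nat_lit 8899192350) (nat_lit 76) (nat_lit 3064311656) (nat_lit 10) (nat_lit 4) (nat_lit 11) (nat_lit 5) (nat_lit 11) (nat_lit 4) (nat_lit 326) (nat_lit 234) (nat_lit 220)) (XT.nd (nat_lit 78) (nat_lit 76) (nat_lit 0) (XT.lf (nat_lit 0) (nat_lit 2307354095) (nat_lit 152) (nat_lit 1434493568) (nat_lit 76) (nat_lit 30512511318) (nat_lit 9) (nat_lit 5) (nat_lit 11) (nat_lit 5) (nat_lit 10) (nat_lit 4) (nat_lit 327) (nat_lit 234) (nat_lit 219)) (XT.lf (nat_lit 0) (nat_lit 7849612825) (nat_lit 152) (nat_lit 26288336105) (nat_lit 0) (nat_lit 1647222448) (nat_lit 8) (nat_lit 5) (nat_lit 10) (nat_lit 4) (nat_lit 8) (nat_lit 4) (nat_lit 328) (nat_lit 234) (nat_lit 218))))) (XT.nd (nat_lit 234) (nat_lit 76) (nat_lit 0) (XT.nd (nat_lit 78) (nat_lit 76) (nat_lit 0) (XT.lf (nat_lit 0) (nat_lit 13582096092) (nat_lit 152) (nat_lit 16683063721) (nat_lit 0) (nat_lit 7130015743) (nat_lit 8) (nat_lit 5)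 (nat_lit 10) (nat_lit 4) (nat_lit 8) (nat_lit 4) (nat_lit 329) (nat_lit 234) (nat_lit 217)) (XT.nd (nat_lit 78) (nat_lit 76) (nat_lit 0) (XT.lf (nat_lit 0) (nat_lit 19468280830) (nat_lit 152) (nat_lit 6843028676) (nat_lit 0) (nat_lit 12778400508) (nat_lit 8) (nat_lit 5) (nat_lit 10) (nat_lit 4) (nat_lit 8) (nat_lit 4) (nat_lit 330) (nat_lit 234) (nat_lit 216)) (XT.lf (nat_lit 0) (nat_lit 3319982500) (nat_lit 76) (nat_lit 22234112967) (nat_lit 76) (nat_lit 15317756480) (nat_lit 7) (nat_lit 4) (nat_lit 8) (nat_lit 5) (nat_lit 8) (nat_lit 4) (nat_lit 331) (nat_lit 234) (nat_lit 215)))) (XT.nd (nat_lit 156) (nat_lit 76) (nat_lit 0) (XT.nd (nat_lit 78) (nat_lit 0) (nat_lit 0) (XT.lf (nat_lit 0) (nat_lit 13907035100) (nat_lit 76) (nat_lit 17984860773) (nat_lit 76) (nat_lit 10852812700) (nat_lit 7) (nat_lit 4) (nat_lit 8) (nat_lit 5) (nat_lit 8) (nat_lit 4) (nat_lit 332) (nat_lit 234) (nat_lit 214))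 (XT.lf (nat_lit 0) (nat_lit 24807146705) (nat_lit 76) (nat_lit 13622536829) (nat_lit 76) (nat_lit 6285068199) (nat_lit 7) (nat_lit 4) (nat_lit 8) (nat_lit 5) (nat_lit 8) (nat_lit 4) (nat_lit 333) (nat_lit 234) (nat_lit 213))) (XT.nd (nat_lit 78) (nat_lit 76) (nat_lit 0) (XT.lf (nat_lit 0) (nat_lit 36046269960) (nat_lit 76) (nat_lit 9136754651) (nat_lit 76) (nat_lit 1603647394) (nat_lit 7) (nat_lit 4) (nat_lit 8) (nat_lit 5) (nat_lit 8) (nat_lit 4) (nat_lit 334) (nat_lit 234) (nat_lit 212)) (XT.lf (nat_lit 0) (nat_lit 3140101771) (nat_lit 152) (nat_lit 1345023161) (nat_lit 76) (nat_lit 44479354041) (nat_lit 6) (nat_lit 5) (nat_lit 8) (nat_lit 5) (nat_lit 7) (nat_lit 4) (nat_lit 335) (nat_lit 234) (nat_lit 211)))))) (XT.nd (nat_lit 546) (nat_lit 0) (nat_lit 0) (XT.nd (nat_lit 234) (nat_lit 76) (nat_lit 0) (XT.nd (nat_lit 78) (nat_lit 0) (nat_lit 0) (XT.lf (nat_lit 0) (nat_lit 8071653322) (nat_lit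 152) (nat_lit 42774784155) (nat_lit 0) (nat_lit 404779769) (nat_lit 5) (nat_lit 5) (nat_lit 7) (nat_lit 4) (nat_lit 5) (nat_lit 4) (nat_lit 336) (nat_lit 234) (nat_lit 210)) (XT.nd (nat_lit 78) (nat_lit 0) (nat_lit 0) (XT.lf (nat_lit 0) (nat_lit 13209300129) (nat_lit 152) (nat_lit 35065887114) (nat_lit 0) (nat_lit 5378348905) (nat_lit 5) (nat_lit 5) (nat_lit 7) (nat_lit 4) (nat_lit 5) (nat_lit 4) (nat_lit 337) (nat_lit 234) (nat_lit 209)) (XT.lf (nat_lit 0) (nat_lit 18508843861) (nat_lit 152) (nat_lit 27148376368) (nat_lit 0) (nat_lit 10521628188) (nat_lit 5) (nat_lit 5) (nat_lit 7) (nat_lit 4) (nat_lit 5) (nat_lit 4) (nat_lit 338) (nat_lit 234) (nat_lit 208)))) (XT.nd (nat_lit 156) (nat_lit 76) (nat_lit 0) (XT.nd (nat_lit 78) (nat_lit 0) (nat_lit 0) (XT.lf (nat_lit 0) (nat_lit 23982902477) (nat_lit 152) (nat_lit 19003400698) (nat_lit 0) (nat_lit 15846863520) (nat_lit 5) (nat_lit 5) (nat_lit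 7) (nat_lit 4) (nat_lit 5) (nat_lit 4) (nat_lit 339) (nat_lit 234) (nat_lit 207)) (XT.lf (nat_lit 0) (nat_lit 29644509452) (nat_lit 152) (nat_lit 10611567307) (nat_lit 0) (nat_lit 21366734033) (nat_lit 5) (nat_lit 5) (nat_lit 7) (nat_lit 4) (nat_lit 5) (nat_lit 4) (nat_lit 340) (nat_lit 234) (nat_lit 206))) (XT.nd (nat_lit 78) (nat_lit 76) (nat_lit 0) (XT.lf (nat_lit 0) (nat_lit 35507144801) (nat_lit 152) (nat_lit 1952895639) (nat_lit 0) (nat_lit 27094382276) (nat_lit 5) (nat_lit 5) (nat_lit 7) (nat_lit 4) (nat_lit 5) (nat_lit 4) (nat_lit 341) (nat_lit 234) (nat_lit 205)) (XT.lf (nat_lit 0) (nat_lit 7132409184) (nat_lit 76) (nat_lit 34520919075) (nat_lit 76) (nat_lit 25979597402) (nat_lit 4) (nat_lit 4) (nat_lit 5) (nat_lit 5) (nat_lit 5) (nat_lit 4) (nat_lit 342) (nat_lit 234) (nat_lit 204))))) (XT.nd (nat_lit 234) (nat_lit 0) (nat_lit 0) (XT.nd (nat_lit 78) (nat_lit 0) (nat_lit 0) (XT.lf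 (nat_lit 0) (nat_lit 16571479742) (nat_lit 76) (nat_lit 31479662577) (nat_lit 76) (nat_lit 22815903619) (nat_lit 4) (nat_lit 4) (nat_lit 5) (nat_lit 5) (nat_lit 5) (nat_lit 4) (nat_lit 343) (nat_lit 234) (nat_lit 203)) (XT.nd (nat_lit 78) (nat_lit 0) (nat_lit 0) (XT.lf (nat_lit 0) (nat_lit 26347923558) (nat_lit 76) (nat_lit 28348750275) (nat_lit 76) (nat_lit 19568384380) (nat_lit 4) (nat_lit 4) (nat_lit 5) (nat_lit 5) (nat_lit 5) (nat_lit 4) (nat_lit 344) (nat_lit 234) (nat_lit 202)) (XT.lf (nat_lit 0) (nat_lit 36485017880) (nat_lit 76) (nat_lit 25120727616) (nat_lit 76) (nat_lit 16229307494) (nat_lit 4) (nat_lit 4) (nat_lit 5) (nat_lit 5) (nat_lit 5) (nat_lit 4) (nat_lit 345) (nat_lit 234) (nat_lit 201)))) (XT.nd (nat_lit 156) (nat_lit 0) (nat_lit 0) (XT.nd (nat_lit 78) (nat_lit 0) (nat_lit 0) (XT.lf (nat_lit 0) (nat_lit 47006898646) (nat_lit 76) (nat_lit 21787908831) (nat_lit 76) (nat_lit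 12790722780) (nat_lit 4) (nat_lit 4) (nat_lit 5) (nat_lit 5) (nat_lit 5) (nat_lit 4) (nat_lit 346) (nat_lit 234) (nat_lit 200)) (XT.lf (nat_lit 0) (nat_lit 57938617955) (nat_lit 76) (nat_lit 18342358639) (nat_lit 76) (nat_lit 9244443131) (nat_lit 4) (nat_lit 4) (nat_lit 5) (nat_lit 5) (nat_lit 5) (nat_lit 4) (nat_lit 347) (nat_lit 234) (nat_lit 199))) (XT.nd (nat_lit 78) (nat_lit 0) (nat_lit 0) (XT.lf (nat_lit 0) (nat_lit 69306203708) (nat_lit 76) (nat_lit 14775873348) (nat_lit 76) (nat_lit 5582025023) (nat_lit 4) (nat_lit 4) (nat_lit 5) (nat_lit 5) (nat_lit 5) (nat_lit 4) (nat_lit 348) (nat_lit 234) (nat_lit 198)) (XT.lf (nat_lit 0) (nat_lit 81136721586) (nat_lit 76) (nat_lit 11079961325) (nat_lit 76) (nat_lit 1794748414) (nat_lit 4) (nat_lit 4) (nat_lit 5) (nat_lit 5) (nat_lit 5) (nat_lit 4) (nat_lit 349) (nat_lit 234) (nat_lit 197))))))))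
noncomputable def xc13 : XT := (XT.nd (nat_lit 38454) (nat_lit 0) (nat_lit 152) (XT.nd (nat_lit 1014) (nat_lit 0) (nat_lit 0) (XT.nd (nat_lit 468) (nat_lit 0) (nat_lit 0) (XT.nd (nat_lit 234) (nat_lit 0) (nat_lit 0) (XT.nd (nat_lit 78) (nat_lit 76) (nat_lit 0) (XT.lf (nat_lit 0) (nat_lit 2084910219) (nat_lit 152) (nat_lit 5139859058) (nat_lit 76) (nat_lit 91352375765) (nat_lit 3) (nat_lit 5) (nat_lit 5) (nat_lit 5) (nat_lit 4) (nat_lit 4) (nat_lit 350) (nat_lit 234) (nat_lit 196)) (XT.nd (nat_lit 78) (nat_lit 0) (nat_lit 0) (XT.lf (nat_lit 0) (nat_lit 2923987620) (nat_lit 76) (nat_lit 3174083708) (nat_lit 152) (nat_lit 97273255234) (nat_lit 2) (nat_lit 5) (nat_lit 3) (nat_lit 5) (nat_lit 4) (nat_lit 4) (nat_lit 351) (nat_lit 234) (nat_lit 195)) (XT.lf (nat_lit 0) (nat_lit 10325028283) (nat_lit 152) (nat_lit 97011111516) (nat_lit 0) (nat_lit 1068696883) (nat_lit 2) (nat_lit 5) (nat_lit 4)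 (nat_lit 4) (nat_lit 2) (nat_lit 4) (nat_lit 352) (nat_lit 234) (nat_lit 194)))) (XT.nd (nat_lit 78) (nat_lit 0) (nat_lit 0) (XT.lf (nat_lit 0) (nat_lit 14747113021) (nat_lit 152) (nat_lit 93525603854) (nat_lit 0) (nat_lit 5417805046) (nat_lit 2) (nat_lit 5) (nat_lit 4) (nat_lit 4) (nat_lit 2) (nat_lit 4) (nat_lit 353) (nat_lit 234) (nat_lit 193)) (XT.nd (nat_lit 78) (nat_lit 0) (nat_lit 0) (XT.lf (nat_lit 0) (nat_lit 19344343078) (nat_lit 152) (nat_lit 89952005895) (nat_lit 0) (nat_lit 9945533604) (nat_lit 2) (nat_lit 5) (nat_lit 4) (nat_lit 4) (nat_lit 2) (nat_lit 4) (nat_lit 354) (nat_lit 234) (nat_lit 192)) (XT.lf (nat_lit 0) (nat_lit 24127664243) (nat_lit 152) (nat_lit 86281809071) (nat_lit 0) (nat_lit 14662662865) (nat_lit 2) (nat_lit 5) (nat_lit 4) (nat_lit 4) (nat_lit 2) (nat_lit 4) (nat_lit 355) (nat_lit 234) (nat_lit 191))))) (XT.nd (nat_lit 234) (nat_lit 0) (nat_lit 0) (XT.nd (nat_lit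 78) (nat_lit 0) (nat_lit 0) (XT.lf (nat_lit 0) (nat_lit 29108465374) (nat_lit 152) (nat_lit 82506274819) (nat_lit 0) (nat_lit 19580424087) (nat_lit 2) (nat_lit 5) (nat_lit 4) (nat_lit 4) (nat_lit 2) (nat_lit 4) (nat_lit 356) (nat_lit 234) (nat_lit 190)) (XT.nd (nat_lit 78) (nat_lit 0) (nat_lit 0) (XT.lf (nat_lit 0) (nat_lit 34298605522) (nat_lit 152) (nat_lit 78616413772) (nat_lit 0) (nat_lit 24710526226) (nat_lit 2) (nat_lit 5) (nat_lit 4) (nat_lit 4) (nat_lit 2) (nat_lit 4) (nat_lit 357) (nat_lit 234) (nat_lit 189)) (XT.lf (nat_lit 0) (nat_lit 39710442163) (nat_lit 152) (nat_lit 74602964355) (nat_lit 0) (nat_lit 30065183812) (nat_lit 2) (nat_lit 5) (nat_lit 4) (nat_lit 4) (nat_lit 2) (nat_lit 4) (nat_lit 358) (nat_lit 234) (nat_lit 188)))) (XT.nd (nat_lit 156) (nat_lit 0) (nat_lit 0) (XT.nd (nat_lit 78) (nat_lit 0) (nat_lit 0) (XT.lf (nat_lit 0) (nat_lit 45356860623) (nat_lit 152) (nat_lit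 70456370737) (nat_lit 0) (nat_lit 35657146029) (nat_lit 2) (nat_lit 5) (nat_lit 4) (nat_lit 4) (nat_lit 2) (nat_lit 4) (nat_lit 359) (nat_lit 234) (nat_lit 187)) (XT.lf (nat_lit 0) (nat_lit 51251304755) (nat_lit 152) (nat_lit 66166760075) (nat_lit 0) (nat_lit 41499727072) (nat_lit 2) (nat_lit 5) (nat_lit 4) (nat_lit 4) (nat_lit 2) (nat_lit 4) (nat_lit 360) (nat_lit 234) (nat_lit 186))) (XT.nd (nat_lit 78) (nat_lit 0) (nat_lit 0) (XT.lf (nat_lit 0) (nat_lit 57407808950) (nat_lit 152) (nat_lit 61723919012) (nat_lit 0) (nat_lit 47606837849) (nat_lit 2) (nat_lit 5) (nat_lit 4) (nat_lit 4) (nat_lit 2) (nat_lit 4) (nat_lit 361) (nat_lit 234) (nat_lit 185)) (XT.lf (nat_lit 0) (nat_lit 63841031552) (nat_lit 152) (nat_lit 57117269354) (nat_lit 0) (nat_lit 53993019100) (nat_lit 2) (nat_lit 5) (nat_lit 4) (nat_lit 4) (nat_lit 2) (nat_lit 4) (nat_lit 362) (nat_lit 234) (nat_lit 184)))))) (XT.nd (nat_lit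 36894) (nat_lit 0) (nat_lit 836) (XT.nd (nat_lit 36660) (nat_lit 0) (nat_lit 1292) (XT.nd (nat_lit 36504) (nat_lit 0) (nat_lit 1672) (XT.lf (nat_lit 0) (nat_lit 70566289757) (nat_lit 152) (nat_lit 52335842887) (nat_lit 0) (nat_lit 60673476018) (nat_lit 2) (nat_lit 5) (nat_lit 4) (nat_lit 4) (nat_lit 2) (nat_lit 4) (nat_lit 363) (nat_lit 234) (nat_lit 183)) (XT.nd (nat_lit 78) (nat_lit 0) (nat_lit 0) (XT.lf (nat_lit 0) (nat_lit 1371808210) (nat_lit 152) (nat_lit 3648363308) (nat_lit 152) (nat_lit 3648363308) (nat_lit 24) (nat_lit 4) (nat_lit 26) (nat_lit 5) (nat_lit 26) (nat_lit 4) (nat_lit 310) (nat_lit 235) (nat_lit 235)) (XT.lf (nat_lit 0) (nat_lit 16164896355) (nat_lit 152) (nat_lit 1236118675) (nat_lit 152) (nat_lit 572673090) (nat_lit 24) (nat_lit 4) (nat_lit 26) (nat_lit 5) (nat_lit 26) (nat_lit 4) (nat_lit 311) (nat_lit 235) (nat_lit 234)))) (XT.nd (nat_lit 78) (nat_lit 228) (nat_lit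 0) (XT.lf (nat_lit 0) (nat_lit 6278947527) (nat_lit 152) (nat_lit 7342513494) (nat_lit 0) (nat_lit 5021376146) (nat_lit 22) (nat_lit 5) (nat_lit 24) (nat_lit 4) (nat_lit 22) (nat_lit 4) (nat_lit 312) (nat_lit 235) (nat_lit 233)) (XT.nd (nat_lit 78) (nat_lit 76) (nat_lit 0) (XT.lf (nat_lit 0) (nat_lit 5428847146) (nat_lit 152) (nat_lit 7881435109) (nat_lit 152) (nat_lit 6039626152) (nat_lit 20) (nat_lit 4) (nat_lit 22) (nat_lit 5) (nat_lit 22) (nat_lit 4) (nat_lit 313) (nat_lit 235) (nat_lit 232)) (XT.lf (nat_lit 0) (nat_lit 435794443) (nat_lit 228) (nat_lit 1513562974) (nat_lit 76) (nat_lit 18147498758) (nat_lit 19) (nat_lit 5) (nat_lit 22) (nat_lit 5) (nat_lit 20) (nat_lit 4) (nat_lit 314) (nat_lit 235) (nat_lit 231))))) (XT.nd (nat_lit 234) (nat_lit 228) (nat_lit 0) (XT.nd (nat_lit 78) (nat_lit 152) (nat_lit 0) (XT.lf (nat_lit 0) (nat_lit 7042147127) (nat_lit 152) (nat_lit 9640053329) (nat_lit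 0) (nat_lit 4199286546) (nat_lit 18) (nat_lit 5) (nat_lit 20) (nat_lit 4) (nat_lit 18) (nat_lit 4) (nat_lit 315) (nat_lit 235) (nat_lit 230)) (XT.nd (nat_lit 78) (nat_lit 0) (nat_lit 0) (XT.lf (nat_lit 0) (nat_lit 2608626492) (nat_lit 152) (nat_lit 11217124785) (nat_lit 152) (nat_lit 7884277424) (nat_lit 16) (nat_lit 4) (nat_lit 18) (nat_lit 5) (nat_lit 18) (nat_lit 4) (nat_lit 316) (nat_lit 235) (nat_lit 229)) (XT.lf (nat_lit 0) (nat_lit 15298803603) (nat_lit 152) (nat_lit 5542005156) (nat_lit 152) (nat_lit 1742503718) (nat_lit 16) (nat_lit 4) (nat_lit 18) (nat_lit 5) (nat_lit 18) (nat_lit 4) (nat_lit 317) (nat_lit 235) (nat_lit 228)))) (XT.nd (nat_lit 156) (nat_lit 76) (nat_lit 0) (XT.nd (nat_lit 78) (nat_lit 0) (nat_lit 0) (XT.lf (nat_lit 0) (nat_lit 4465031160) (nat_lit 152) (nat_lit 18693726680) (nat_lit 0) (nat_lit 344706993) (nat_lit 14) (nat_lit 5) (nat_lit 16) (nat_lit 4) (nat_lit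 14) (nat_lit 4) (nat_lit 318) (nat_lit 235) (nat_lit 227)) (XT.lf (nat_lit 0) (nat_lit 10884410066) (nat_lit 152) (nat_lit 7233500154) (nat_lit 0) (nat_lit 6353145118) (nat_lit 14) (nat_lit 5) (nat_lit 16) (nat_lit 4) (nat_lit 14) (nat_lit 4) (nat_lit 319) (nat_lit 235) (nat_lit 226))) (XT.nd (nat_lit 78) (nat_lit 0) (nat_lit 0) (XT.lf (nat_lit 0) (nat_lit 4552593717) (nat_lit 76) (nat_lit 12930691361) (nat_lit 76) (nat_lit 8008054241) (nat_lit 13) (nat_lit 4) (nat_lit 14) (nat_lit 5) (nat_lit 14) (nat_lit 4) (nat_lit 320) (nat_lit 235) (nat_lit 225)) (XT.lf (nat_lit 0) (nat_lit 16752800522) (nat_lit 76) (nat_lit 7554214307) (nat_lit 76) (nat_lit 2258841785) (nat_lit 13) (nat_lit 4) (nat_lit 14) (nat_lit 5) (nat_lit 14) (nat_lit 4) (nat_lit 321) (nat_lit 235) (nat_lit 224))))))) (XT.nd (nat_lit 1014) (nat_lit 228) (nat_lit 0) (XT.nd (nat_lit 468) (nat_lit 152) (nat_lit 0) (XT.nd (nat_lit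 234) (nat_lit 152) (nat_lit 0) (XT.nd (nat_lit 78) (nat_lit 0) (nat_lit 0) (XT.lf (nat_lit 0) (nat_lit 1548510315) (nat_lit 76) (nat_lit 1997730538) (nat_lit 152) (nat_lit 24151567052) (nat_lit 11) (nat_lit 5) (nat_lit 12) (nat_lit 5) (nat_lit 13) (nat_lit 4) (nat_lit 322) (nat_lit 235) (nat_lit 223)) (XT.nd (nat_lit 78) (nat_lit 0) (nat_lit 0) (XT.lf (nat_lit 0) (nat_lit 9565402272) (nat_lit 152) (nat_lit 15569843574) (nat_lit 0) (nat_lit 3751382256) (nat_lit 11) (nat_lit 5) (nat_lit 13) (nat_lit 4) (nat_lit 11) (nat_lit 4) (nat_lit 323) (nat_lit 235) (nat_lit 222)) (XT.lf (nat_lit 0) (nat_lit 15744933189) (nat_lit 152) (nat_lit 4775921041) (nat_lit 0) (nat_lit 9618308461) (nat_lit 11) (nat_lit 5) (nat_lit 13) (nat_lit 4) (nat_lit 11) (nat_lit 4) (nat_lit 324) (nat_lit 235) (nat_lit 221)))) (XT.nd (nat_lit 78) (nat_lit 76) (nat_lit 0) (XT.lf (nat_lit 0) (nat_lit 6402305268) (nat_lit 76)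 (nat_lit 15739580974) (nat_lit 76) (nat_lit 9315237471) (nat_lit 10) (nat_lit 4) (nat_lit 11) (nat_lit 5) (nat_lit 11) (nat_lit 4) (nat_lit 325) (nat_lit 235) (nat_lit 220)) (XT.nd (nat_lit 78) (nat_lit 76) (nat_lit 0) (XT.lf (nat_lit 0) (nat_lit 17966956652) (nat_lit 76) (nat_lit 10792469842) (nat_lit 76) (nat_lit 4084584650) (nat_lit 10) (nat_lit 4) (nat_lit 11) (nat_lit 5) (nat_lit 11) (nat_lit 4) (nat_lit 326) (nat_lit 235) (nat_lit 219)) (XT.lf (nat_lit 0) (nat_lit 1237330162) (nat_lit 152) (nat_lit 4466144666) (nat_lit 76) (nat_lit 28600693030) (nat_lit 9) (nat_lit 5) (nat_lit 11) (nat_lit 5) (nat_lit 10) (nat_lit 4) (nat_lit 327) (nat_lit 235) (nat_lit 218))))) (XT.nd (nat_lit 234) (nat_lit 76) (nat_lit 0) (XT.nd (nat_lit 78) (nat_lit 0) (nat_lit 0) (XT.lf (nat_lit 0) (nat_lit 6297240452) (nat_lit 76) (nat_lit 368939853) (nat_lit 152) (nat_lit 29172223919) (nat_lit 8) (nat_lit 5) (nat_lit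 9) (nat_lit 5) (nat_lit 10) (nat_lit 4) (nat_lit 328) (nat_lit 235) (nat_lit 217)) (XT.nd (nat_lit 78) (nat_lit 0) (nat_lit 0) (XT.lf (nat_lit 0) (nat_lit 12330276759) (nat_lit 152) (nat_lit 20052101478) (nat_lit 0) (nat_lit 5068102447) (nat_lit 8) (nat_lit 5) (nat_lit 10) (nat_lit 4) (nat_lit 8) (nat_lit 4) (nat_lit 329) (nat_lit 235) (nat_lit 216)) (XT.lf (nat_lit 0) (nat_lit 18154708794) (nat_lit 152) (nat_lit 10326120305) (nat_lit 0) (nat_lit 10666058318) (nat_lit 8) (nat_lit 5) (nat_lit 10) (nat_lit 4) (nat_lit 8) (nat_lit 4) (nat_lit 330) (nat_lit 235) (nat_lit 215)))) (XT.nd (nat_lit 156) (nat_lit 0) (nat_lit 0) (XT.nd (nat_lit 78) (nat_lit 76) (nat_lit 0) (XT.lf (nat_lit 0) (nat_lit 24149797630) (nat_lit 152) (nat_lit 336516680) (nat_lit 0) (nat_lit 16445455569) (nat_lit 8) (nat_lit 5) (nat_lit 10) (nat_lit 4) (nat_lit 8) (nat_lit 4) (nat_lit 331) (nat_lit 235) (nat_lit 214)) (XT.lf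 (nat_lit 0) (nat_lit 10138329492) (nat_lit 76) (nat_lit 20288943622) (nat_lit 76) (nat_lit 12379181002) (nat_lit 7) (nat_lit 4) (nat_lit 8) (nat_lit 5) (nat_lit 8) (nat_lit 4) (nat_lit 332) (nat_lit 235) (nat_lit 213))) (XT.nd (nat_lit 78) (nat_lit 0) (nat_lit 0) (XT.lf (nat_lit 0) (nat_lit 20937956253) (nat_lit 76) (nat_lit 15972794294) (nat_lit 76) (nat_lit 7867393048) (nat_lit 7) (nat_lit 4) (nat_lit 8) (nat_lit 5) (nat_lit 8) (nat_lit 4) (nat_lit 333) (nat_lit 235) (nat_lit 212)) (XT.lf (nat_lit 0) (nat_lit 32081379657) (nat_lit 76) (nat_lit 11530987940) (nat_lit 76) (nat_lit 3239264193) (nat_lit 7) (nat_lit 4) (nat_lit 8) (nat_lit 5) (nat_lit 8) (nat_lit 4) (nat_lit 334) (nat_lit 235) (nat_lit 211)))))) (XT.nd (nat_lit 546) (nat_lit 76) (nat_lit 0) (XT.nd (nat_lit 234) (nat_lit 0) (nat_lit 0) (XT.nd (nat_lit 78) (nat_lit 76) (nat_lit 0) (XT.lf (nat_lit 0) (nat_lit 1486637908) (nat_lit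 152) (nat_lit 5451298794) (nat_lit 76) (nat_lit 42093481629) (nat_lit 6) (nat_lit 5) (nat_lit 8) (nat_lit 5) (nat_lit 7) (nat_lit 4) (nat_lit 335) (nat_lit 235) (nat_lit 210)) (XT.nd (nat_lit 78) (nat_lit 0) (nat_lit 0) (XT.lf (nat_lit 0) (nat_lit 4203015316) (nat_lit 76) (nat_lit 2122693583) (nat_lit 152) (nat_lit 44995236389) (nat_lit 5) (nat_lit 5) (nat_lit 6) (nat_lit 5) (nat_lit 7) (nat_lit 4) (nat_lit 336) (nat_lit 235) (nat_lit 209)) (XT.lf (nat_lit 0) (nat_lit 11396616728) (nat_lit 152) (nat_lit 39474887398) (nat_lit 0) (nat_lit 2853775823) (nat_lit 5) (nat_lit 5) (nat_lit 7) (nat_lit 4) (nat_lit 5) (nat_lit 4) (nat_lit 337) (nat_lit 235) (nat_lit 208)))) (XT.nd (nat_lit 156) (nat_lit 0) (nat_lit 0) (XT.nd (nat_lit 78) (nat_lit 0) (nat_lit 0) (XT.lf (nat_lit 0) (nat_lit 16652032507) (nat_lit 152) (nat_lit 31639528171) (nat_lit 0) (nat_lit 7960368318) (nat_lit 5) (nat_lit 5) (nat_lit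 7) (nat_lit 4) (nat_lit 5) (nat_lit 4) (nat_lit 338) (nat_lit 235) (nat_lit 207)) (XT.lf (nat_lit 0) (nat_lit 22084064503) (nat_lit 152) (nat_lit 23572792044) (nat_lit 0) (nat_lit 13250663852) (nat_lit 5) (nat_lit 5) (nat_lit 7) (nat_lit 4) (nat_lit 5) (nat_lit 4) (nat_lit 339) (nat_lit 235) (nat_lit 206))) (XT.nd (nat_lit 78) (nat_lit 0) (nat_lit 0) (XT.lf (nat_lit 0) (nat_lit 27705646124) (nat_lit 152) (nat_lit 15255472502) (nat_lit 0) (nat_lit 18737258367) (nat_lit 5) (nat_lit 5) (nat_lit 7) (nat_lit 4) (nat_lit 5) (nat_lit 4) (nat_lit 340) (nat_lit 235) (nat_lit 205)) (XT.lf (nat_lit 0) (nat_lit 33530162089) (nat_lit 152) (nat_lit 6667766405) (nat_lit 0) (nat_lit 24433215183) (nat_lit 5) (nat_lit 5) (nat_lit 7) (nat_lit 4) (nat_lit 5) (nat_lit 4) (nat_lit 341) (nat_lit 235) (nat_lit 204))))) (XT.nd (nat_lit 234) (nat_lit 0) (nat_lit 0) (XT.nd (nat_lit 78) (nat_lit 0) (nat_lit 0) (XT.lf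 (nat_lit 0) (nat_lit 2254771887) (nat_lit 76) (nat_lit 37338382652) (nat_lit 76) (nat_lit 28118998461) (nat_lit 4) (nat_lit 4) (nat_lit 5) (nat_lit 5) (nat_lit 5) (nat_lit 4) (nat_lit 342) (nat_lit 235) (nat_lit 203)) (XT.nd (nat_lit 78) (nat_lit 0) (nat_lit 0) (XT.lf (nat_lit 0) (nat_lit 11628193533) (nat_lit 76) (nat_lit 34327568603) (nat_lit 76) (nat_lit 24991577475) (nat_lit 4) (nat_lit 4) (nat_lit 5) (nat_lit 5) (nat_lit 5) (nat_lit 4) (nat_lit 343) (nat_lit 235) (nat_lit 202)) (XT.lf (nat_lit 0) (nat_lit 21342114576) (nat_lit 76) (nat_lit 31225649109) (nat_lit 76) (nat_lit 21778603755) (nat_lit 4) (nat_lit 4) (nat_lit 5) (nat_lit 5) (nat_lit 5) (nat_lit 4) (nat_lit 344) (nat_lit 235) (nat_lit 201)))) (XT.nd (nat_lit 156) (nat_lit 0) (nat_lit 0) (XT.nd (nat_lit 78) (nat_lit 0) (nat_lit 0) (XT.lf (nat_lit 0) (nat_lit 31419663399) (nat_lit 76) (nat_lit 28025238649) (nat_lit 76) (nat_lit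 18472427365) (nat_lit 4) (nat_lit 4) (nat_lit 5) (nat_lit 5) (nat_lit 5) (nat_lit 4) (nat_lit 345) (nat_lit 235) (nat_lit 200)) (XT.lf (nat_lit 0) (nat_lit 41884834168) (nat_lit 76) (nat_lit 24718717197) (nat_lit 76) (nat_lit 15065176456) (nat_lit 4) (nat_lit 4) (nat_lit 5) (nat_lit 5) (nat_lit 5) (nat_lit 4) (nat_lit 346) (nat_lit 235) (nat_lit 199))) (XT.nd (nat_lit 78) (nat_lit 0) (nat_lit 0) (XT.lf (nat_lit 0) (nat_lit 52762543954) (nat_lit 76) (nat_lit 21298212083) (nat_lit 76) (nat_lit 11548738526) (nat_lit 4) (nat_lit 4) (nat_lit 5) (nat_lit 5) (nat_lit 5) (nat_lit 4) (nat_lit 347) (nat_lit 235) (nat_lit 198)) (XT.lf (nat_lit 0) (nat_lit 64078692067) (nat_lit 76) (nat_lit 17755579247) (nat_lit 76) (nat_lit 7914741103) (nat_lit 4) (nat_lit 4) (nat_lit 5) (nat_lit 5) (nat_lit 5) (nat_lit 4) (nat_lit 348) (nat_lit 235) (nat_lit 197))))))))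
noncomputable def xc14 : XT := (XT.nd (nat_lit 38298) (nat_lit 0) (nat_lit 152) (XT.nd (nat_lit 1014) (nat_lit 0) (nat_lit 0) (XT.nd (nat_lit 468) (nat_lit 0) (nat_lit 0) (XT.nd (nat_lit 234) (nat_lit 76) (nat_lit 0) (XT.nd (nat_lit 78) (nat_lit 76) (nat_lit 0) (XT.lf (nat_lit 0) (nat_lit 75860221717) (nat_lit 76) (nat_lit 14082383849) (nat_lit 76) (nat_lit 4154531813) (nat_lit 4) (nat_lit 4) (nat_lit 5) (nat_lit 5) (nat_lit 5) (nat_lit 4) (nat_lit 349) (nat_lit 235) (nat_lit 196)) (XT.nd (nat_lit 78) (nat_lit 76) (nat_lit 0) (XT.lf (nat_lit 0) (nat_lit 88135184164) (nat_lit 76) (nat_lit 10269880186) (nat_lit 76) (nat_lit 259157777) (nat_lit 4) (nat_lit 4) (nat_lit 5) (nat_lit 5) (nat_lit 5) (nat_lit 4) (nat_lit 350) (nat_lit 235) (nat_lit 195)) (XT.lf (nat_lit 0) (nat_lit 3706881495) (nat_lit 152) (nat_lit 2564677138) (nat_lit 76) (nat_lit 97188491781) (nat_lit 3) (nat_lit 5) (nat_lit 5)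 (nat_lit 5) (nat_lit 4) (nat_lit 4) (nat_lit 351) (nat_lit 235) (nat_lit 194)))) (XT.nd (nat_lit 78) (nat_lit 0) (nat_lit 0) (XT.lf (nat_lit 0) (nat_lit 5821178149) (nat_lit 76) (nat_lit 2053694065) (nat_lit 152) (nat_lit 100620463654) (nat_lit 2) (nat_lit 5) (nat_lit 3) (nat_lit 5) (nat_lit 4) (nat_lit 4) (nat_lit 352) (nat_lit 235) (nat_lit 193)) (XT.nd (nat_lit 78) (nat_lit 0) (nat_lit 0) (XT.lf (nat_lit 0) (nat_lit 12254796604) (nat_lit 152) (nat_lit 99210950199) (nat_lit 0) (nat_lit 2316545157) (nat_lit 2) (nat_lit 5) (nat_lit 4) (nat_lit 4) (nat_lit 2) (nat_lit 4) (nat_lit 353) (nat_lit 235) (nat_lit 192)) (XT.lf (nat_lit 0) (nat_lit 16830675249) (nat_lit 152) (nat_lit 95677391768) (nat_lit 0) (nat_lit 6826231898) (nat_lit 2) (nat_lit 5) (nat_lit 4) (nat_lit 4) (nat_lit 2) (nat_lit 4) (nat_lit 354) (nat_lit 235) (nat_lit 191))))) (XT.nd (nat_lit 234) (nat_lit 0) (nat_lit 0) (XT.nd (nat_lit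 78) (nat_lit 0) (nat_lit 0) (XT.lf (nat_lit 0) (nat_lit 21593661735) (nat_lit 152) (nat_lit 92045327829) (nat_lit 0) (nat_lit 11526178474) (nat_lit 2) (nat_lit 5) (nat_lit 4) (nat_lit 4) (nat_lit 2) (nat_lit 4) (nat_lit 355) (nat_lit 235) (nat_lit 190)) (XT.nd (nat_lit 78) (nat_lit 0) (nat_lit 0) (XT.lf (nat_lit 0) (nat_lit 26555096505) (nat_lit 152) (nat_lit 88306110610) (nat_lit 0) (nat_lit 16427575236) (nat_lit 2) (nat_lit 5) (nat_lit 4) (nat_lit 4) (nat_lit 2) (nat_lit 4) (nat_lit 356) (nat_lit 235) (nat_lit 189)) (XT.lf (nat_lit 0) (nat_lit 31726792500) (nat_lit 152) (nat_lit 84450837213) (nat_lit 0) (nat_lit 21542092175) (nat_lit 2) (nat_lit 5) (nat_lit 4) (nat_lit 4) (nat_lit 2) (nat_lit 4) (nat_lit 357) (nat_lit 235) (nat_lit 188)))) (XT.nd (nat_lit 156) (nat_lit 0) (nat_lit 0) (XT.nd (nat_lit 78) (nat_lit 0) (nat_lit 0) (XT.lf (nat_lit 0) (nat_lit 37121063281) (nat_lit 152) (nat_lit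 80470328415) (nat_lit 0) (nat_lit 26881906713) (nat_lit 2) (nat_lit 5) (nat_lit 4) (nat_lit 4) (nat_lit 2) (nat_lit 4) (nat_lit 358) (nat_lit 235) (nat_lit 187)) (XT.lf (nat_lit 0) (nat_lit 42750752350) (nat_lit 152) (nat_lit 76355106815) (nat_lit 0) (nat_lit 32459732694) (nat_lit 2) (nat_lit 5) (nat_lit 4) (nat_lit 4) (nat_lit 2) (nat_lit 4) (nat_lit 359) (nat_lit 235) (nat_lit 186))) (XT.nd (nat_lit 78) (nat_lit 0) (nat_lit 0) (XT.lf (nat_lit 0) (nat_lit 48629263729) (nat_lit 152) (nat_lit 72095374267) (nat_lit 0) (nat_lit 38288850655) (nat_lit 2) (nat_lit 5) (nat_lit 4) (nat_lit 4) (nat_lit 2) (nat_lit 4) (nat_lit 360) (nat_lit 235) (nat_lit 185)) (XT.lf (nat_lit 0) (nat_lit 54770593874) (nat_lit 152) (nat_lit 67680988549) (nat_lit 0) (nat_lit 44383139449) (nat_lit 2) (nat_lit 5) (nat_lit 4) (nat_lit 4) (nat_lit 2) (nat_lit 4) (nat_lit 361) (nat_lit 235) (nat_lit 184)))))) (XT.nd (nat_lit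 36738) (nat_lit 0) (nat_lit 912) (XT.nd (nat_lit 36504) (nat_lit 0) (nat_lit 1672) (XT.nd (nat_lit 78) (nat_lit 0) (nat_lit 0) (XT.lf (nat_lit 0) (nat_lit 61189364999) (nat_lit 152) (nat_lit 63101439220) (nat_lit 0) (nat_lit 50757109288) (nat_lit 2) (nat_lit 5) (nat_lit 4) (nat_lit 4) (nat_lit 2) (nat_lit 4) (nat_lit 362) (nat_lit 235) (nat_lit 183)) (XT.nd (nat_lit 36348) (nat_lit 0) (nat_lit 1976) (XT.lf (nat_lit 0) (nat_lit 67900859893) (nat_lit 152) (nat_lit 58345822590) (nat_lit 0) (nat_lit 57425936289) (nat_lit 2) (nat_lit 5) (nat_lit 4) (nat_lit 4) (nat_lit 2) (nat_lit 4) (nat_lit 363) (nat_lit 235) (nat_lit 182)) (XT.lf (nat_lit 0) (nat_lit 4800320904) (nat_lit 152) (nat_lit 1640004548) (nat_lit 152) (nat_lit 1640004548) (nat_lit 28) (nat_lit 4) (nat_lit 30) (nat_lit 5) (nat_lit 30) (nat_lit 4) (nat_lit 308) (nat_lit 236) (nat_lit 236)))) (XT.nd (nat_lit 78) (nat_lit 152) (nat_lit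 0) (XT.lf (nat_lit 0) (nat_lit 3589399293) (nat_lit 152) (nat_lit 10252820202) (nat_lit 0) (nat_lit 2892781429) (nat_lit 26) (nat_lit 5) (nat_lit 28) (nat_lit 4) (nat_lit 26) (nat_lit 4) (nat_lit 309) (nat_lit 236) (nat_lit 235)) (XT.nd (nat_lit 78) (nat_lit 0) (nat_lit 0) (XT.lf (nat_lit 0) (nat_lit 2529356758) (nat_lit 152) (nat_lit 8085744907) (nat_lit 152) (nat_lit 6725681458) (nat_lit 24) (nat_lit 4) (nat_lit 26) (nat_lit 5) (nat_lit 26) (nat_lit 4) (nat_lit 310) (nat_lit 236) (nat_lit 234)) (XT.lf (nat_lit 0) (nat_lit 15746579869) (nat_lit 152) (nat_lit 2113137370) (nat_lit 152) (nat_lit 121220984) (nat_lit 24) (nat_lit 4) (nat_lit 26) (nat_lit 5) (nat_lit 26) (nat_lit 4) (nat_lit 311) (nat_lit 236) (nat_lit 233))))) (XT.nd (nat_lit 234) (nat_lit 380) (nat_lit 0) (XT.nd (nat_lit 78) (nat_lit 228) (nat_lit 0) (XT.lf (nat_lit 0) (nat_lit 6594507486) (nat_lit 152) (nat_lit 7982942374)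 (nat_lit 0) (nat_lit 4076370506) (nat_lit 22) (nat_lit 5) (nat_lit 24) (nat_lit 4) (nat_lit 22) (nat_lit 4) (nat_lit 312) (nat_lit 236) (nat_lit 232)) (XT.nd (nat_lit 78) (nat_lit 76) (nat_lit 0) (XT.lf (nat_lit 0) (nat_lit 4578346190) (nat_lit 152) (nat_lit 8930331231) (nat_lit 152) (nat_lit 5855777513) (nat_lit 20) (nat_lit 4) (nat_lit 22) (nat_lit 5) (nat_lit 22) (nat_lit 4) (nat_lit 313) (nat_lit 236) (nat_lit 231)) (XT.lf (nat_lit 0) (nat_lit 509358962) (nat_lit 228) (nat_lit 2570475727) (nat_lit 76) (nat_lit 17034760631) (nat_lit 19) (nat_lit 5) (nat_lit 22) (nat_lit 5) (nat_lit 20) (nat_lit 4) (nat_lit 314) (nat_lit 236) (nat_lit 230)))) (XT.nd (nat_lit 156) (nat_lit 152) (nat_lit 0) (XT.nd (nat_lit 78) (nat_lit 152) (nat_lit 0) (XT.lf (nat_lit 0) (nat_lit 6990208481) (nat_lit 152) (nat_lit 10912093398) (nat_lit 0) (nat_lit 3000731971) (nat_lit 18) (nat_lit 5) (nat_lit 20) (nat_lit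 4) (nat_lit 18) (nat_lit 4) (nat_lit 315) (nat_lit 236) (nat_lit 229)) (XT.lf (nat_lit 0) (nat_lit 1129618886) (nat_lit 152) (nat_lit 12530765340) (nat_lit 152) (nat_lit 8074634753) (nat_lit 16) (nat_lit 4) (nat_lit 18) (nat_lit 5) (nat_lit 18) (nat_lit 4) (nat_lit 316) (nat_lit 236) (nat_lit 228))) (XT.nd (nat_lit 78) (nat_lit 152) (nat_lit 0) (XT.lf (nat_lit 0) (nat_lit 13646794621) (nat_lit 152) (nat_lit 6932497160) (nat_lit 152) (nat_lit 2031934118) (nat_lit 16) (nat_lit 4) (nat_lit 18) (nat_lit 5) (nat_lit 18) (nat_lit 4) (nat_lit 317) (nat_lit 236) (nat_lit 227)) (XT.lf (nat_lit 0) (nat_lit 2932743790) (nat_lit 76) (nat_lit 1134534946) (nat_lit 152) (nat_lit 19467637814) (nat_lit 14) (nat_lit 5) (nat_lit 15) (nat_lit 5) (nat_lit 16) (nat_lit 4) (nat_lit 318) (nat_lit 236) (nat_lit 226))))))) (XT.nd (nat_lit 1014) (nat_lit 304) (nat_lit 0) (XT.nd (nat_lit 468) (nat_lit 228) (nat_lit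 0) (XT.nd (nat_lit 234) (nat_lit 152) (nat_lit 0) (XT.nd (nat_lit 78) (nat_lit 76) (nat_lit 0) (XT.lf (nat_lit 0) (nat_lit 10385393186) (nat_lit 152) (nat_lit 9294933796) (nat_lit 0) (nat_lit 4825252038) (nat_lit 14) (nat_lit 5) (nat_lit 16) (nat_lit 4) (nat_lit 14) (nat_lit 4) (nat_lit 319) (nat_lit 236) (nat_lit 225)) (XT.nd (nat_lit 78) (nat_lit 0) (nat_lit 0) (XT.lf (nat_lit 0) (nat_lit 2290938070) (nat_lit 76) (nat_lit 14585533890) (nat_lit 76) (nat_lit 8652657340) (nat_lit 13) (nat_lit 4) (nat_lit 14) (nat_lit 5) (nat_lit 14) (nat_lit 4) (nat_lit 320) (nat_lit 236) (nat_lit 224)) (XT.lf (nat_lit 0) (nat_lit 14339530175) (nat_lit 76) (nat_lit 9277256197) (nat_lit 76) (nat_lit 2989393551) (nat_lit 13) (nat_lit 4) (nat_lit 14) (nat_lit 5) (nat_lit 14) (nat_lit 4) (nat_lit 321) (nat_lit 236) (nat_lit 223)))) (XT.nd (nat_lit 78) (nat_lit 76) (nat_lit 0) (XT.lf (nat_lit 0) (nat_lit 2734800986)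 (nat_lit 152) (nat_lit 1074298640) (nat_lit 76) (nat_lit 23932125121) (nat_lit 12) (nat_lit 5) (nat_lit 14) (nat_lit 5) (nat_lit 13) (nat_lit 4) (nat_lit 322) (nat_lit 236) (nat_lit 222)) (XT.nd (nat_lit 78) (nat_lit 0) (nat_lit 0) (XT.lf (nat_lit 0) (nat_lit 8647498113) (nat_lit 152) (nat_lit 18383830506) (nat_lit 0) (nat_lit 1901937436) (nat_lit 11) (nat_lit 5) (nat_lit 13) (nat_lit 4) (nat_lit 11) (nat_lit 4) (nat_lit 323) (nat_lit 236) (nat_lit 221)) (XT.lf (nat_lit 0) (nat_lit 14752347428) (nat_lit 152) (nat_lit 7726651576) (nat_lit 0) (nat_lit 7709067976) (nat_lit 11) (nat_lit 5) (nat_lit 13) (nat_lit 4) (nat_lit 11) (nat_lit 4) (nat_lit 324) (nat_lit 236) (nat_lit 220))))) (XT.nd (nat_lit 234) (nat_lit 152) (nat_lit 0) (XT.nd (nat_lit 78) (nat_lit 0) (nat_lit 0) (XT.lf (nat_lit 0) (nat_lit 3260025534) (nat_lit 76) (nat_lit 17787944096) (nat_lit 76) (nat_lit 10461122954) (nat_lit 10)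 (nat_lit 4) (nat_lit 11) (nat_lit 5) (nat_lit 11) (nat_lit 4) (nat_lit 325) (nat_lit 236) (nat_lit 219)) (XT.nd (nat_lit 78) (nat_lit 0) (nat_lit 0) (XT.lf (nat_lit 0) (nat_lit 14698177989) (nat_lit 76) (nat_lit 12898377493) (nat_lit 76) (nat_lit 5301516646) (nat_lit 10) (nat_lit 4) (nat_lit 11) (nat_lit 5) (nat_lit 11) (nat_lit 4) (nat_lit 326) (nat_lit 236) (nat_lit 218)) (XT.lf (nat_lit 0) (nat_lit 26461263968) (nat_lit 76) (nat_lit 7876681401) (nat_lit 76) (nat_lit 22639884) (nat_lit 10) (nat_lit 4) (nat_lit 11) (nat_lit 5) (nat_lit 11) (nat_lit 4) (nat_lit 327) (nat_lit 236) (nat_lit 217)))) (XT.nd (nat_lit 156) (nat_lit 0) (nat_lit 0) (XT.nd (nat_lit 78) (nat_lit 0) (nat_lit 0) (XT.lf (nat_lit 0) (nat_lit 2677633475) (nat_lit 76) (nat_lit 2631040891) (nat_lit 152) (nat_lit 30589113790) (nat_lit 8) (nat_lit 5) (nat_lit 9) (nat_lit 5) (nat_lit 10) (nat_lit 4) (nat_lit 328) (nat_lit 236)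 (nat_lit 216)) (XT.lf (nat_lit 0) (nat_lit 10889273418) (nat_lit 152) (nat_lit 23823401560) (nat_lit 0) (nat_lit 2799714253) (nat_lit 8) (nat_lit 5) (nat_lit 10) (nat_lit 4) (nat_lit 8) (nat_lit 4) (nat_lit 329) (nat_lit 236) (nat_lit 215))) (XT.nd (nat_lit 78) (nat_lit 0) (nat_lit 0) (XT.lf (nat_lit 0) (nat_lit 16654893356) (nat_lit 152) (nat_lit 14206043122) (nat_lit 0) (nat_lit 8349642605) (nat_lit 8) (nat_lit 5) (nat_lit 10) (nat_lit 4) (nat_lit 8) (nat_lit 4) (nat_lit 330) (nat_lit 236) (nat_lit 214)) (XT.lf (nat_lit 0) (nat_lit 22593970671) (nat_lit 152) (nat_lit 4319889720) (nat_lit 0) (nat_lit 14083299362) (nat_lit 8) (nat_lit 5) (nat_lit 10) (nat_lit 4) (nat_lit 8) (nat_lit 4) (nat_lit 331) (nat_lit 236) (nat_lit 213)))))) (XT.nd (nat_lit 546) (nat_lit 76) (nat_lit 0) (XT.nd (nat_lit 234) (nat_lit 152) (nat_lit 0) (XT.nd (nat_lit 78) (nat_lit 0) (nat_lit 0) (XT.lf (nat_lit 0) (nat_lit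 5975194674) (nat_lit 76) (nat_lit 22802888576) (nat_lit 76) (nat_lit 14096578641) (nat_lit 7) (nat_lit 4) (nat_lit 8) (nat_lit 5) (nat_lit 8) (nat_lit 4) (nat_lit 332) (nat_lit 236) (nat_lit 212)) (XT.nd (nat_lit 78) (nat_lit 0) (nat_lit 0) (XT.lf (nat_lit 0) (nat_lit 16679121584) (nat_lit 76) (nat_lit 18530715073) (nat_lit 76) (nat_lit 9638082636) (nat_lit 7) (nat_lit 4) (nat_lit 8) (nat_lit 5) (nat_lit 8) (nat_lit 4) (nat_lit 333) (nat_lit 236) (nat_lit 211)) (XT.lf (nat_lit 0) (nat_lit 27731402272) (nat_lit 76) (nat_lit 14130790456) (nat_lit 76) (nat_lit 5060708018) (nat_lit 7) (nat_lit 4) (nat_lit 8) (nat_lit 5) (nat_lit 8) (nat_lit 4) (nat_lit 334) (nat_lit 236) (nat_lit 210)))) (XT.nd (nat_lit 156) (nat_lit 76) (nat_lit 0) (XT.nd (nat_lit 78) (nat_lit 76) (nat_lit 0) (XT.lf (nat_lit 0) (nat_lit 39158351694) (nat_lit 76) (nat_lit 9592638715) (nat_lit 76) (nat_lit 353556277) (nat_lit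 7) (nat_lit 4) (nat_lit 8) (nat_lit 5) (nat_lit 8) (nat_lit 4) (nat_lit 335) (nat_lit 236) (nat_lit 209)) (XT.lf (nat_lit 0) (nat_lit 4406874646) (nat_lit 152) (nat_lit 454079288) (nat_lit 76) (nat_lit 46535801431) (nat_lit 6) (nat_lit 5) (nat_lit 8) (nat_lit 5) (nat_lit 7) (nat_lit 4) (nat_lit 336) (nat_lit 236) (nat_lit 208))) (XT.nd (nat_lit 78) (nat_lit 0) (nat_lit 0) (XT.lf (nat_lit 0) (nat_lit 9402836855) (nat_lit 152) (nat_lit 44272748311) (nat_lit 0) (nat_lit 127766171) (nat_lit 5) (nat_lit 5) (nat_lit 7) (nat_lit 4) (nat_lit 5) (nat_lit 4) (nat_lit 337) (nat_lit 236) (nat_lit 207)) (XT.lf (nat_lit 0) (nat_lit 14616226013) (nat_lit 152) (nat_lit 36515628625) (nat_lit 0) (nat_lit 5199418868) (nat_lit 5) (nat_lit 5) (nat_lit 7) (nat_lit 4) (nat_lit 5) (nat_lit 4) (nat_lit 338) (nat_lit 236) (nat_lit 206))))) (XT.nd (nat_lit 234) (nat_lit 76) (nat_lit 0) (XT.nd (nat_lit 78) (nat_lit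 0) (nat_lit 0) (XT.lf (nat_lit 0) (nat_lit 20008232656) (nat_lit 152) (nat_lit 28523406348) (nat_lit 0) (nat_lit 10456438405) (nat_lit 5) (nat_lit 5) (nat_lit 7) (nat_lit 4) (nat_lit 5) (nat_lit 4) (nat_lit 339) (nat_lit 236) (nat_lit 205)) (XT.nd (nat_lit 78) (nat_lit 0) (nat_lit 0) (XT.lf (nat_lit 0) (nat_lit 25591694893) (nat_lit 152) (nat_lit 20277052378) (nat_lit 0) (nat_lit 15911341493) (nat_lit 5) (nat_lit 5) (nat_lit 7) (nat_lit 4) (nat_lit 5) (nat_lit 4) (nat_lit 340) (nat_lit 236) (nat_lit 204)) (XT.lf (nat_lit 0) (nat_lit 31379906682) (nat_lit 152) (nat_lit 11756932539) (nat_lit 0) (nat_lit 21577115998) (nat_lit 5) (nat_lit 5) (nat_lit 7) (nat_lit 4) (nat_lit 5) (nat_lit 4) (nat_lit 341) (nat_lit 236) (nat_lit 203)))) (XT.nd (nat_lit 156) (nat_lit 0) (nat_lit 0) (XT.nd (nat_lit 78) (nat_lit 76) (nat_lit 0) (XT.lf (nat_lit 0) (nat_lit 37386649481) (nat_lit 152) (nat_lit 2942760832)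 (nat_lit 0) (nat_lit 27467251859) (nat_lit 5) (nat_lit 5) (nat_lit 7) (nat_lit 4) (nat_lit 5) (nat_lit 4) (nat_lit 342) (nat_lit 236) (nat_lit 202)) (XT.lf (nat_lit 0) (nat_lit 6309571329) (nat_lit 76) (nat_lit 37377305188) (nat_lit 76) (nat_lit 27346853340) (nat_lit 4) (nat_lit 4) (nat_lit 5) (nat_lit 5) (nat_lit 5) (nat_lit 4) (nat_lit 343) (nat_lit 236) (nat_lit 201))) (XT.nd (nat_lit 78) (nat_lit 0) (nat_lit 0) (XT.lf (nat_lit 0) (nat_lit 15963946873) (nat_lit 76) (nat_lit 34302997893) (nat_lit 76) (nat_lit 24166780115) (nat_lit 4) (nat_lit 4) (nat_lit 5) (nat_lit 5) (nat_lit 5) (nat_lit 4) (nat_lit 344) (nat_lit 236) (nat_lit 200)) (XT.lf (nat_lit 0) (nat_lit 25984785699) (nat_lit 76) (nat_lit 31128884765) (nat_lit 76) (nat_lit 20891937531) (nat_lit 4) (nat_lit 4) (nat_lit 5) (nat_lit 5) (nat_lit 5) (nat_lit 4) (nat_lit 345) (nat_lit 236) (nat_lit 199))))))))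
noncomputable def xc15 : XT := (XT.nd (nat_lit 38142) (nat_lit 0) (nat_lit 228) (XT.nd (nat_lit 1014) (nat_lit 0) (nat_lit 0) (XT.nd (nat_lit 468) (nat_lit 76) (nat_lit 0) (XT.nd (nat_lit 234) (nat_lit 76) (nat_lit 0) (XT.nd (nat_lit 78) (nat_lit 0) (nat_lit 0) (XT.lf (nat_lit 0) (nat_lit 36395946945) (nat_lit 76) (nat_lit 27847408391) (nat_lit 76) (nat_lit 17514528341) (nat_lit 4) (nat_lit 4) (nat_lit 5) (nat_lit 5) (nat_lit 5) (nat_lit 4) (nat_lit 346) (nat_lit 236) (nat_lit 198)) (XT.nd (nat_lit 78) (nat_lit 0) (nat_lit 0) (XT.lf (nat_lit 0) (nat_lit 47222219091) (nat_lit 76) (nat_lit 24450755733) (nat_lit 76) (nat_lit 14026511095) (nat_lit 4) (nat_lit 4) (nat_lit 5) (nat_lit 5) (nat_lit 5) (nat_lit 4) (nat_lit 347) (nat_lit 236) (nat_lit 197)) (XT.lf (nat_lit 0) (nat_lit 58489378975) (nat_lit 76) (nat_lit 20930839521) (nat_lit 76) (nat_lit 10419580992) (nat_lit 4) (nat_lit 4) (nat_lit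 5) (nat_lit 5) (nat_lit 5) (nat_lit 4) (nat_lit 348) (nat_lit 236) (nat_lit 196)))) (XT.nd (nat_lit 78) (nat_lit 76) (nat_lit 0) (XT.lf (nat_lit 0) (nat_lit 70224253169) (nat_lit 76) (nat_lit 17279279004) (nat_lit 76) (nat_lit 6685150101) (nat_lit 4) (nat_lit 4) (nat_lit 5) (nat_lit 5) (nat_lit 5) (nat_lit 4) (nat_lit 349) (nat_lit 236) (nat_lit 195)) (XT.nd (nat_lit 78) (nat_lit 76) (nat_lit 0) (XT.lf (nat_lit 0) (nat_lit 82454781849) (nat_lit 76) (nat_lit 13487379989) (nat_lit 76) (nat_lit 2814326921) (nat_lit 4) (nat_lit 4) (nat_lit 5) (nat_lit 5) (nat_lit 5) (nat_lit 4) (nat_lit 350) (nat_lit 236) (nat_lit 194)) (XT.lf (nat_lit 0) (nat_lit 1178647399) (nat_lit 152) (nat_lit 8355564718) (nat_lit 76) (nat_lit 94019535894) (nat_lit 3) (nat_lit 5) (nat_lit 5) (nat_lit 5) (nat_lit 4) (nat_lit 4) (nat_lit 351) (nat_lit 236) (nat_lit 193))))) (XT.nd (nat_lit 234) (nat_lit 0) (nat_lit 0) (XT.nd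 (nat_lit 78) (nat_lit 76) (nat_lit 0) (XT.lf (nat_lit 0) (nat_lit 5268847579) (nat_lit 152) (nat_lit 124044898) (nat_lit 76) (nat_lit 103198480748) (nat_lit 3) (nat_lit 5) (nat_lit 5) (nat_lit 5) (nat_lit 4) (nat_lit 4) (nat_lit 352) (nat_lit 236) (nat_lit 192)) (XT.nd (nat_lit 78) (nat_lit 0) (nat_lit 0) (XT.lf (nat_lit 0) (nat_lit 8607467123) (nat_lit 76) (nat_lit 996202960) (nat_lit 152) (nat_lit 104276018047) (nat_lit 2) (nat_lit 5) (nat_lit 3) (nat_lit 5) (nat_lit 4) (nat_lit 4) (nat_lit 353) (nat_lit 236) (nat_lit 191)) (XT.lf (nat_lit 0) (nat_lit 14149637937) (nat_lit 152) (nat_lit 101767219348) (nat_lit 0) (nat_lit 3515740605) (nat_lit 2) (nat_lit 5) (nat_lit 4) (nat_lit 4) (nat_lit 2) (nat_lit 4) (nat_lit 354) (nat_lit 236) (nat_lit 190)))) (XT.nd (nat_lit 156) (nat_lit 0) (nat_lit 0) (XT.nd (nat_lit 78) (nat_lit 0) (nat_lit 0) (XT.lf (nat_lit 0) (nat_lit 18893258061) (nat_lit 152)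 (nat_lit 98171472442) (nat_lit 0) (nat_lit 8199322721) (nat_lit 2) (nat_lit 5) (nat_lit 4) (nat_lit 4) (nat_lit 2) (nat_lit 4) (nat_lit 355) (nat_lit 236) (nat_lit 189)) (XT.lf (nat_lit 0) (nat_lit 23836248678) (nat_lit 152) (nat_lit 94466842873) (nat_lit 0) (nat_lit 13085134283) (nat_lit 2) (nat_lit 5) (nat_lit 4) (nat_lit 4) (nat_lit 2) (nat_lit 4) (nat_lit 356) (nat_lit 236) (nat_lit 188))) (XT.nd (nat_lit 78) (nat_lit 0) (nat_lit 0) (XT.lf (nat_lit 0) (nat_lit 28990378813) (nat_lit 152) (nat_lit 90644510095) (nat_lit 0) (nat_lit 18184808174) (nat_lit 2) (nat_lit 5) (nat_lit 4) (nat_lit 4) (nat_lit 2) (nat_lit 4) (nat_lit 357) (nat_lit 236) (nat_lit 187)) (XT.lf (nat_lit 0) (nat_lit 34367920204) (nat_lit 152) (nat_lit 86695373316) (nat_lit 0) (nat_lit 23510486475) (nat_lit 2) (nat_lit 5) (nat_lit 4) (nat_lit 4) (nat_lit 2) (nat_lit 4) (nat_lit 358) (nat_lit 236) (nat_lit 186)))))) (XT.nd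 (nat_lit 36582) (nat_lit 0) (nat_lit 1368) (XT.nd (nat_lit 234) (nat_lit 0) (nat_lit 0) (XT.nd (nat_lit 78) (nat_lit 0) (nat_lit 0) (XT.lf (nat_lit 0) (nat_lit 39981676520) (nat_lit 152) (nat_lit 82610029829) (nat_lit 0) (nat_lit 29074849374) (nat_lit 2) (nat_lit 5) (nat_lit 4) (nat_lit 4) (nat_lit 2) (nat_lit 4) (nat_lit 359) (nat_lit 236) (nat_lit 185)) (XT.nd (nat_lit 78) (nat_lit 0) (nat_lit 0) (XT.lf (nat_lit 0) (nat_lit 45845013849) (nat_lit 152) (nat_lit 78378752626) (nat_lit 0) (nat_lit 34891145352) (nat_lit 2) (nat_lit 5) (nat_lit 4) (nat_lit 4) (nat_lit 2) (nat_lit 4) (nat_lit 360) (nat_lit 236) (nat_lit 184)) (XT.lf (nat_lit 0) (nat_lit 51971892517) (nat_lit 152) (nat_lit 73991467237) (nat_lit 0) (nat_lit 40973222734) (nat_lit 2) (nat_lit 5) (nat_lit 4) (nat_lit 4) (nat_lit 2) (nat_lit 4) (nat_lit 361) (nat_lit 236) (nat_lit 183)))) (XT.nd (nat_lit 78) (nat_lit 0) (nat_lit 0) (XT.lf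 (nat_lit 0) (nat_lit 58376900331) (nat_lit 152) (nat_lit 69437727745) (nat_lit 0) (nat_lit 47335562656) (nat_lit 2) (nat_lit 5) (nat_lit 4) (nat_lit 4) (nat_lit 2) (nat_lit 4) (nat_lit 362) (nat_lit 236) (nat_lit 182)) (XT.nd (nat_lit 36192) (nat_lit 0) (nat_lit 2356) (XT.lf (nat_lit 0) (nat_lit 65075287309) (nat_lit 152) (nat_lit 64706691912) (nat_lit 0) (nat_lit 53993313547) (nat_lit 2) (nat_lit 5) (nat_lit 4) (nat_lit 4) (nat_lit 2) (nat_lit 4) (nat_lit 363) (nat_lit 236) (nat_lit 181)) (XT.lf (nat_lit 0) (nat_lit 6955597363) (nat_lit 152) (nat_lit 296724984) (nat_lit 152) (nat_lit 296724984) (nat_lit 33) (nat_lit 4) (nat_lit 35) (nat_lit 5) (nat_lit 35) (nat_lit 4) (nat_lit 306) (nat_lit 237) (nat_lit 237))))) (XT.nd (nat_lit 234) (nat_lit 456) (nat_lit 0) (XT.nd (nat_lit 78) (nat_lit 304) (nat_lit 0) (XT.lf (nat_lit 0) (nat_lit 6359977120) (nat_lit 228) (nat_lit 3649695243) (nat_lit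 0) (nat_lit 5606584900) (nat_lit 30) (nat_lit 5) (nat_lit 33) (nat_lit 4) (nat_lit 30) (nat_lit 4) (nat_lit 307) (nat_lit 237) (nat_lit 236)) (XT.nd (nat_lit 78) (nat_lit 152) (nat_lit 0) (XT.lf (nat_lit 0) (nat_lit 9389727059) (nat_lit 152) (nat_lit 4122775092) (nat_lit 152) (nat_lit 2651866472) (nat_lit 28) (nat_lit 4) (nat_lit 30) (nat_lit 5) (nat_lit 30) (nat_lit 4) (nat_lit 308) (nat_lit 237) (nat_lit 235)) (XT.lf (nat_lit 0) (nat_lit 4075258784) (nat_lit 152) (nat_lit 10683481507) (nat_lit 0) (nat_lit 1983746578) (nat_lit 26) (nat_lit 5) (nat_lit 28) (nat_lit 4) (nat_lit 26) (nat_lit 4) (nat_lit 309) (nat_lit 237) (nat_lit 234)))) (XT.nd (nat_lit 156) (nat_lit 228) (nat_lit 0) (XT.nd (nat_lit 78) (nat_lit 76) (nat_lit 0) (XT.lf (nat_lit 0) (nat_lit 1886067627) (nat_lit 152) (nat_lit 9094614943) (nat_lit 152) (nat_lit 6371249799) (nat_lit 24) (nat_lit 4) (nat_lit 26) (nat_lit 5) (nat_lit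 26) (nat_lit 4) (nat_lit 310) (nat_lit 237) (nat_lit 233)) (XT.lf (nat_lit 0) (nat_lit 116984311) (nat_lit 228) (nat_lit 3087651692) (nat_lit 76) (nat_lit 14790785283) (nat_lit 23) (nat_lit 5) (nat_lit 26) (nat_lit 5) (nat_lit 24) (nat_lit 4) (nat_lit 311) (nat_lit 237) (nat_lit 232))) (XT.nd (nat_lit 78) (nat_lit 152) (nat_lit 0) (XT.lf (nat_lit 0) (nat_lit 6702417466) (nat_lit 152) (nat_lit 9052017963) (nat_lit 0) (nat_lit 2917719323) (nat_lit 22) (nat_lit 5) (nat_lit 24) (nat_lit 4) (nat_lit 22) (nat_lit 4) (nat_lit 312) (nat_lit 237) (nat_lit 231)) (XT.lf (nat_lit 0) (nat_lit 3300064105) (nat_lit 152) (nat_lit 10200436374) (nat_lit 152) (nat_lit 5885817528) (nat_lit 20) (nat_lit 4) (nat_lit 22) (nat_lit 5) (nat_lit 22) (nat_lit 4) (nat_lit 313) (nat_lit 237) (nat_lit 230))))))) (XT.nd (nat_lit 1014) (nat_lit 380) (nat_lit 0) (XT.nd (nat_lit 468) (nat_lit 304) (nat_lit 0) (XT.nd (nat_lit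 234) (nat_lit 304) (nat_lit 0) (XT.nd (nat_lit 78) (nat_lit 76) (nat_lit 0) (XT.lf (nat_lit 0) (nat_lit 378289353) (nat_lit 228) (nat_lit 4051377841) (nat_lit 76) (nat_lit 15709890943) (nat_lit 19) (nat_lit 5) (nat_lit 22) (nat_lit 5) (nat_lit 20) (nat_lit 4) (nat_lit 314) (nat_lit 237) (nat_lit 229)) (XT.nd (nat_lit 78) (nat_lit 0) (nat_lit 0) (XT.lf (nat_lit 0) (nat_lit 6732289780) (nat_lit 152) (nat_lit 12612854351) (nat_lit 0) (nat_lit 1586698587) (nat_lit 18) (nat_lit 5) (nat_lit 20) (nat_lit 4) (nat_lit 18) (nat_lit 4) (nat_lit 315) (nat_lit 237) (nat_lit 228)) (XT.lf (nat_lit 0) (nat_lit 13297120005) (nat_lit 152) (nat_lit 762810496) (nat_lit 0) (nat_lit 7707096358) (nat_lit 18) (nat_lit 5) (nat_lit 20) (nat_lit 4) (nat_lit 18) (nat_lit 4) (nat_lit 316) (nat_lit 237) (nat_lit 227)))) (XT.nd (nat_lit 78) (nat_lit 152) (nat_lit 0) (XT.lf (nat_lit 0) (nat_lit 11574420597) (nat_lit 152)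 (nat_lit 8542557069) (nat_lit 152) (nat_lit 2529264417) (nat_lit 16) (nat_lit 4) (nat_lit 18) (nat_lit 5) (nat_lit 18) (nat_lit 4) (nat_lit 317) (nat_lit 237) (nat_lit 226)) (XT.nd (nat_lit 78) (nat_lit 0) (nat_lit 0) (XT.lf (nat_lit 0) (nat_lit 626424717) (nat_lit 76) (nat_lit 2842950014) (nat_lit 152) (nat_lit 20104043806) (nat_lit 14) (nat_lit 5) (nat_lit 15) (nat_lit 5) (nat_lit 16) (nat_lit 4) (nat_lit 318) (nat_lit 237) (nat_lit 225)) (XT.lf (nat_lit 0) (nat_lit 9685011030) (nat_lit 152) (nat_lit 11779421483) (nat_lit 0) (nat_lit 3082755251) (nat_lit 14) (nat_lit 5) (nat_lit 16) (nat_lit 4) (nat_lit 14) (nat_lit 4) (nat_lit 319) (nat_lit 237) (nat_lit 224))))) (XT.nd (nat_lit 234) (nat_lit 152) (nat_lit 0) (XT.nd (nat_lit 78) (nat_lit 152) (nat_lit 0) (XT.lf (nat_lit 0) (nat_lit 16072109982) (nat_lit 152) (nat_lit 386910220) (nat_lit 0) (nat_lit 9114868106) (nat_lit 14) (nat_lit 5)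 (nat_lit 16) (nat_lit 4) (nat_lit 14) (nat_lit 4) (nat_lit 320) (nat_lit 237) (nat_lit 223)) (XT.nd (nat_lit 78) (nat_lit 76) (nat_lit 0) (XT.lf (nat_lit 0) (nat_lit 11509586661) (nat_lit 76) (nat_lit 11219601317) (nat_lit 76) (nat_lit 3924277444) (nat_lit 13) (nat_lit 4) (nat_lit 14) (nat_lit 5) (nat_lit 14) (nat_lit 4) (nat_lit 321) (nat_lit 237) (nat_lit 222)) (XT.lf (nat_lit 0) (nat_lit 1741723313) (nat_lit 152) (nat_lit 4081608401) (nat_lit 76) (nat_lit 21967768416) (nat_lit 12) (nat_lit 5) (nat_lit 14) (nat_lit 5) (nat_lit 13) (nat_lit 4) (nat_lit 322) (nat_lit 237) (nat_lit 221)))) (XT.nd (nat_lit 156) (nat_lit 76) (nat_lit 0) (XT.nd (nat_lit 78) (nat_lit 0) (nat_lit 0) (XT.lf (nat_lit 0) (nat_lit 7366399181) (nat_lit 76) (nat_lit 165796014) (nat_lit 152) (nat_lit 21454638890) (nat_lit 11) (nat_lit 5) (nat_lit 12) (nat_lit 5) (nat_lit 13) (nat_lit 4) (nat_lit 323) (nat_lit 237) (nat_lit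 220)) (XT.lf (nat_lit 0) (nat_lit 13564325441) (nat_lit 152) (nat_lit 11091894244) (nat_lit 0) (nat_lit 5587621552) (nat_lit 11) (nat_lit 5) (nat_lit 13) (nat_lit 4) (nat_lit 11) (nat_lit 4) (nat_lit 324) (nat_lit 237) (nat_lit 219))) (XT.nd (nat_lit 78) (nat_lit 76) (nat_lit 0) (XT.lf (nat_lit 0) (nat_lit 19760871868) (nat_lit 152) (nat_lit 292862452) (nat_lit 0) (nat_lit 11514128275) (nat_lit 11) (nat_lit 5) (nat_lit 13) (nat_lit 4) (nat_lit 11) (nat_lit 4) (nat_lit 325) (nat_lit 237) (nat_lit 218)) (XT.lf (nat_lit 0) (nat_lit 11018986294) (nat_lit 76) (nat_lit 15221929368) (nat_lit 76) (nat_lit 6718005103) (nat_lit 10) (nat_lit 4) (nat_lit 11) (nat_lit 5) (nat_lit 11) (nat_lit 4) (nat_lit 326) (nat_lit 237) (nat_lit 217)))))) (XT.nd (nat_lit 546) (nat_lit 152) (nat_lit 0) (XT.nd (nat_lit 234) (nat_lit 76) (nat_lit 0) (XT.nd (nat_lit 78) (nat_lit 152) (nat_lit 0) (XT.lf (nat_lit 0) (nat_lit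 22667334016) (nat_lit 76) (nat_lit 10252427860) (nat_lit 76) (nat_lit 1503569623) (nat_lit 10) (nat_lit 4) (nat_lit 11) (nat_lit 5) (nat_lit 11) (nat_lit 4) (nat_lit 327) (nat_lit 237) (nat_lit 216)) (XT.nd (nat_lit 78) (nat_lit 76) (nat_lit 0) (XT.lf (nat_lit 0) (nat_lit 3770728801) (nat_lit 152) (nat_lit 1327549219) (nat_lit 76) (nat_lit 30865280567) (nat_lit 9) (nat_lit 5) (nat_lit 11) (nat_lit 5) (nat_lit 10) (nat_lit 4) (nat_lit 328) (nat_lit 237) (nat_lit 215)) (XT.lf (nat_lit 0) (nat_lit 9255655111) (nat_lit 152) (nat_lit 28005943253) (nat_lit 0) (nat_lit 319450237) (nat_lit 8) (nat_lit 5) (nat_lit 10) (nat_lit 4) (nat_lit 8) (nat_lit 4) (nat_lit 329) (nat_lit 237) (nat_lit 214)))) (XT.nd (nat_lit 156) (nat_lit 76) (nat_lit 0) (XT.nd (nat_lit 78) (nat_lit 0) (nat_lit 0) (XT.lf (nat_lit 0) (nat_lit 14965263527) (nat_lit 152) (nat_lit 18492035038) (nat_lit 0) (nat_lit 5823638095) (nat_lit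 8) (nat_lit 5) (nat_lit 10) (nat_lit 4) (nat_lit 8) (nat_lit 4) (nat_lit 330) (nat_lit 237) (nat_lit 213)) (XT.lf (nat_lit 0) (nat_lit 20850996535) (nat_lit 152) (nat_lit 8704405659) (nat_lit 0) (nat_lit 11513732477) (nat_lit 8) (nat_lit 5) (nat_lit 10) (nat_lit 4) (nat_lit 8) (nat_lit 4) (nat_lit 331) (nat_lit 237) (nat_lit 212))) (XT.nd (nat_lit 78) (nat_lit 0) (nat_lit 0) (XT.lf (nat_lit 0) (nat_lit 1407718420) (nat_lit 76) (nat_lit 25532681217) (nat_lit 76) (nat_lit 16009094658) (nat_lit 7) (nat_lit 4) (nat_lit 8) (nat_lit 5) (nat_lit 8) (nat_lit 4) (nat_lit 332) (nat_lit 237) (nat_lit 211)) (XT.lf (nat_lit 0) (nat_lit 12020502614) (nat_lit 76) (nat_lit 21302389452) (nat_lit 76) (nat_lit 11601352891) (nat_lit 7) (nat_lit 4) (nat_lit 8) (nat_lit 5) (nat_lit 8) (nat_lit 4) (nat_lit 333) (nat_lit 237) (nat_lit 210))))) (XT.nd (nat_lit 234) (nat_lit 76) (nat_lit 0) (XT.nd (nat_lit 78) (nat_lit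 76) (nat_lit 0) (XT.lf (nat_lit 0) (nat_lit 22985980717) (nat_lit 76) (nat_lit 16942352204) (nat_lit 76) (nat_lit 7072315642) (nat_lit 7) (nat_lit 4) (nat_lit 8) (nat_lit 5) (nat_lit 8) (nat_lit 4) (nat_lit 334) (nat_lit 237) (nat_lit 209)) (XT.nd (nat_lit 78) (nat_lit 76) (nat_lit 0) (XT.lf (nat_lit 0) (nat_lit 34330261009) (nat_lit 76) (nat_lit 12442188434) (nat_lit 76) (nat_lit 2411199490) (nat_lit 7) (nat_lit 4) (nat_lit 8) (nat_lit 5) (nat_lit 8) (nat_lit 4) (nat_lit 335) (nat_lit 237) (nat_lit 208)) (XT.lf (nat_lit 0) (nat_lit 2346395587) (nat_lit 152) (nat_lit 5421093883) (nat_lit 76) (nat_lit 43710264099) (nat_lit 6) (nat_lit 5) (nat_lit 8) (nat_lit 5) (nat_lit 7) (nat_lit 4) (nat_lit 336) (nat_lit 237) (nat_lit 207)))) (XT.nd (nat_lit 156) (nat_lit 0) (nat_lit 0) (XT.nd (nat_lit 78) (nat_lit 0) (nat_lit 0) (XT.lf (nat_lit 0) (nat_lit 4388706047) (nat_lit 76) (nat_lit 2862018844)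 (nat_lit 152) (nat_lit 46636385962) (nat_lit 5) (nat_lit 5) (nat_lit 6) (nat_lit 5) (nat_lit 7) (nat_lit 4) (nat_lit 337) (nat_lit 237) (nat_lit 206)) (XT.lf (nat_lit 0) (nat_lit 12396577220) (nat_lit 152) (nat_lit 41788287495) (nat_lit 0) (nat_lit 2232206151) (nat_lit 5) (nat_lit 5) (nat_lit 7) (nat_lit 4) (nat_lit 5) (nat_lit 4) (nat_lit 338) (nat_lit 237) (nat_lit 205))) (XT.nd (nat_lit 78) (nat_lit 0) (nat_lit 0) (XT.lf (nat_lit 0) (nat_lit 17750464479) (nat_lit 152) (nat_lit 33867030789) (nat_lit 0) (nat_lit 7457534260) (nat_lit 5) (nat_lit 5) (nat_lit 7) (nat_lit 4) (nat_lit 5) (nat_lit 4) (nat_lit 339) (nat_lit 237) (nat_lit 204)) (XT.lf (nat_lit 0) (nat_lit 23297622540) (nat_lit 152) (nat_lit 25688263078) (nat_lit 0) (nat_lit 12882255038) (nat_lit 5) (nat_lit 5) (nat_lit 7) (nat_lit 4) (nat_lit 5) (nat_lit 4) (nat_lit 340) (nat_lit 237) (nat_lit 203))))))))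
noncomputable def xc16 : XT := (XT.nd (nat_lit 38064) (nat_lit 0) (nat_lit 380) (XT.nd (nat_lit 1014) (nat_lit 0) (nat_lit 0) (XT.nd (nat_lit 468) (nat_lit 152) (nat_lit 0) (XT.nd (nat_lit 234) (nat_lit 0) (nat_lit 0) (XT.nd (nat_lit 78) (nat_lit 76) (nat_lit 0) (XT.lf (nat_lit 0) (nat_lit 29051258925) (nat_lit 152) (nat_lit 17232511104) (nat_lit 0) (nat_lit 18519284485) (nat_lit 5) (nat_lit 5) (nat_lit 7) (nat_lit 4) (nat_lit 5) (nat_lit 4) (nat_lit 341) (nat_lit 237) (nat_lit 202)) (XT.nd (nat_lit 78) (nat_lit 76) (nat_lit 0) (XT.lf (nat_lit 0) (nat_lit 35025072767) (nat_lit 152) (nat_lit 8479642125) (nat_lit 0) (nat_lit 24382044100) (nat_lit 5) (nat_lit 5) (nat_lit 7) (nat_lit 4) (nat_lit 5) (nat_lit 4) (nat_lit 342) (nat_lit 237) (nat_lit 201)) (XT.lf (nat_lit 0) (nat_lit 602949743) (nat_lit 76) (nat_lit 40636133610) (nat_lit 76) (nat_lit 29887339013) (nat_lit 4) (nat_lit 4) (nat_lit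 5) (nat_lit 5) (nat_lit 5) (nat_lit 4) (nat_lit 343) (nat_lit 237) (nat_lit 200)))) (XT.nd (nat_lit 78) (nat_lit 0) (nat_lit 0) (XT.lf (nat_lit 0) (nat_lit 10200615289) (nat_lit 76) (nat_lit 37588123647) (nat_lit 76) (nat_lit 26738599594) (nat_lit 4) (nat_lit 4) (nat_lit 5) (nat_lit 5) (nat_lit 5) (nat_lit 4) (nat_lit 344) (nat_lit 237) (nat_lit 199)) (XT.nd (nat_lit 78) (nat_lit 0) (nat_lit 0) (XT.lf (nat_lit 0) (nat_lit 20167444593) (nat_lit 76) (nat_lit 34439055598) (nat_lit 76) (nat_lit 23493598728) (nat_lit 4) (nat_lit 4) (nat_lit 5) (nat_lit 5) (nat_lit 5) (nat_lit 4) (nat_lit 345) (nat_lit 237) (nat_lit 198)) (XT.lf (nat_lit 0) (nat_lit 30527168198) (nat_lit 76) (nat_lit 31181431680) (nat_lit 76) (nat_lit 20144610223) (nat_lit 4) (nat_lit 4) (nat_lit 5) (nat_lit 5) (nat_lit 5) (nat_lit 4) (nat_lit 346) (nat_lit 237) (nat_lit 197))))) (XT.nd (nat_lit 234) (nat_lit 152) (nat_lit 0) (XT.nd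 (nat_lit 78) (nat_lit 0) (nat_lit 0) (XT.lf (nat_lit 0) (nat_lit 41304452116) (nat_lit 76) (nat_lit 27807495645) (nat_lit 76) (nat_lit 16683660297) (nat_lit 4) (nat_lit 4) (nat_lit 5) (nat_lit 5) (nat_lit 5) (nat_lit 4) (nat_lit 347) (nat_lit 237) (nat_lit 196)) (XT.nd (nat_lit 78) (nat_lit 0) (nat_lit 0) (XT.lf (nat_lit 0) (nat_lit 52524956544) (nat_lit 76) (nat_lit 24309214314) (nat_lit 76) (nat_lit 13102508592) (nat_lit 4) (nat_lit 4) (nat_lit 5) (nat_lit 5) (nat_lit 5) (nat_lit 4) (nat_lit 348) (nat_lit 237) (nat_lit 195)) (XT.lf (nat_lit 0) (nat_lit 64215396970) (nat_lit 76) (nat_lit 20678258445) (nat_lit 76) (nat_lit 9392628558) (nat_lit 4) (nat_lit 4) (nat_lit 5) (nat_lit 5) (nat_lit 5) (nat_lit 4) (nat_lit 349) (nat_lit 237) (nat_lit 194)))) (XT.nd (nat_lit 156) (nat_lit 152) (nat_lit 0) (XT.nd (nat_lit 78) (nat_lit 0) (nat_lit 0) (XT.lf (nat_lit 0) (nat_lit 76403607776) (nat_lit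 76) (nat_lit 16905982904) (nat_lit 76) (nat_lit 5545187145) (nat_lit 4) (nat_lit 4) (nat_lit 5) (nat_lit 5) (nat_lit 5) (nat_lit 4) (nat_lit 350) (nat_lit 237) (nat_lit 193)) (XT.lf (nat_lit 0) (nat_lit 89118608512) (nat_lit 76) (nat_lit 12983406083) (nat_lit 76) (nat_lit 1551023780) (nat_lit 4) (nat_lit 4) (nat_lit 5) (nat_lit 5) (nat_lit 5) (nat_lit 4) (nat_lit 351) (nat_lit 237) (nat_lit 192))) (XT.nd (nat_lit 78) (nat_lit 76) (nat_lit 0) (XT.lf (nat_lit 0) (nat_lit 2548648349) (nat_lit 152) (nat_lit 6326803814) (nat_lit 76) (nat_lit 99816288287) (nat_lit 3) (nat_lit 5) (nat_lit 5) (nat_lit 5) (nat_lit 4) (nat_lit 4) (nat_lit 352) (nat_lit 237) (nat_lit 191)) (XT.lf (nat_lit 0) (nat_lit 2243570269) (nat_lit 76) (nat_lit 4558923001) (nat_lit 152) (nat_lit 107179996894) (nat_lit 2) (nat_lit 5) (nat_lit 3) (nat_lit 5) (nat_lit 4) (nat_lit 4) (nat_lit 353) (nat_lit 237) (nat_lit 190))))))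 (XT.nd (nat_lit 468) (nat_lit 0) (nat_lit 0) (XT.nd (nat_lit 234) (nat_lit 0) (nat_lit 0) (XT.nd (nat_lit 78) (nat_lit 0) (nat_lit 0) (XT.lf (nat_lit 0) (nat_lit 11294847719) (nat_lit 152) (nat_lit 108235988225) (nat_lit 0) (nat_lit 6177603) (nat_lit 2) (nat_lit 5) (nat_lit 4) (nat_lit 4) (nat_lit 2) (nat_lit 4) (nat_lit 354) (nat_lit 237) (nat_lit 189)) (XT.nd (nat_lit 78) (nat_lit 0) (nat_lit 0) (XT.lf (nat_lit 0) (nat_lit 16020023691) (nat_lit 152) (nat_lit 104674828968) (nat_lit 0) (nat_lit 4674174519) (nat_lit 2) (nat_lit 5) (nat_lit 4) (nat_lit 4) (nat_lit 2) (nat_lit 4) (nat_lit 355) (nat_lit 237) (nat_lit 188)) (XT.lf (nat_lit 0) (nat_lit 20945448447) (nat_lit 152) (nat_lit 101003140019) (nat_lit 0) (nat_lit 9545143033) (nat_lit 2) (nat_lit 5) (nat_lit 4) (nat_lit 4) (nat_lit 2) (nat_lit 4) (nat_lit 356) (nat_lit 237) (nat_lit 187)))) (XT.nd (nat_lit 78) (nat_lit 0) (nat_lit 0) (XT.lf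 (nat_lit 0) (nat_lit 26082849191) (nat_lit 152) (nat_lit 97212179259) (nat_lit 0) (nat_lit 14630680688) (nat_lit 2) (nat_lit 5) (nat_lit 4) (nat_lit 4) (nat_lit 2) (nat_lit 4) (nat_lit 357) (nat_lit 237) (nat_lit 186)) (XT.nd (nat_lit 78) (nat_lit 0) (nat_lit 0) (XT.lf (nat_lit 0) (nat_lit 31444457829) (nat_lit 152) (nat_lit 93292920593) (nat_lit 0) (nat_lit 19942895907) (nat_lit 2) (nat_lit 5) (nat_lit 4) (nat_lit 4) (nat_lit 2) (nat_lit 4) (nat_lit 358) (nat_lit 237) (nat_lit 185)) (XT.lf (nat_lit 0) (nat_lit 37043040095) (nat_lit 152) (nat_lit 89236032451) (nat_lit 0) (nat_lit 25494436822) (nat_lit 2) (nat_lit 5) (nat_lit 4) (nat_lit 4) (nat_lit 2) (nat_lit 4) (nat_lit 359) (nat_lit 237) (nat_lit 184))))) (XT.nd (nat_lit 36270) (nat_lit 0) (nat_lit 2128) (XT.nd (nat_lit 78) (nat_lit 0) (nat_lit 0) (XT.lf (nat_lit 0) (nat_lit 42891925947) (nat_lit 152) (nat_lit 85031855577) (nat_lit 0)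 (nat_lit 31298521388) (nat_lit 2) (nat_lit 5) (nat_lit 4) (nat_lit 4) (nat_lit 2) (nat_lit 4) (nat_lit 360) (nat_lit 237) (nat_lit 183)) (XT.nd (nat_lit 78) (nat_lit 0) (nat_lit 0) (XT.lf (nat_lit 0) (nat_lit 49005041304) (nat_lit 152) (nat_lit 80670380025) (nat_lit 0) (nat_lit 37368968854) (nat_lit 2) (nat_lit 5) (nat_lit 4) (nat_lit 4) (nat_lit 2) (nat_lit 4) (nat_lit 361) (nat_lit 237) (nat_lit 182)) (XT.lf (nat_lit 0) (nat_lit 55396941203) (nat_lit 152) (nat_lit 76141221330) (nat_lit 0) (nat_lit 43720232665) (nat_lit 2) (nat_lit 5) (nat_lit 4) (nat_lit 4) (nat_lit 2) (nat_lit 4) (nat_lit 362) (nat_lit 237) (nat_lit 181)))) (XT.nd (nat_lit 156) (nat_lit 228) (nat_lit 0) (XT.nd (nat_lit 78) (nat_lit 152) (nat_lit 0) (XT.lf (nat_lit 0) (nat_lit 518216801) (nat_lit 228) (nat_lit 6031569782) (nat_lit 0) (nat_lit 518216801) (nat_lit 35) (nat_lit 5) (nat_lit 38) (nat_lit 4) (nat_lit 35) (nat_lit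 4) (nat_lit 304) (nat_lit 238) (nat_lit 238)) (XT.lf (nat_lit 0) (nat_lit 590585658) (nat_lit 152) (nat_lit 7414722376) (nat_lit 152) (nat_lit 6599928691) (nat_lit 33) (nat_lit 4) (nat_lit 35) (nat_lit 5) (nat_lit 35) (nat_lit 4) (nat_lit 305) (nat_lit 238) (nat_lit 237))) (XT.nd (nat_lit 78) (nat_lit 152) (nat_lit 0) (XT.lf (nat_lit 0) (nat_lit 94455250) (nat_lit 228) (nat_lit 1399043512) (nat_lit 76) (nat_lit 13608274659) (nat_lit 32) (nat_lit 5) (nat_lit 35) (nat_lit 5) (nat_lit 33) (nat_lit 4) (nat_lit 306) (nat_lit 238) (nat_lit 236)) (XT.lf (nat_lit 0) (nat_lit 6906036210) (nat_lit 228) (nat_lit 4073633281) (nat_lit 0) (nat_lit 4644065759) (nat_lit 30) (nat_lit 5) (nat_lit 33) (nat_lit 4) (nat_lit 30) (nat_lit 4) (nat_lit 307) (nat_lit 238) (nat_lit 235))))))) (XT.nd (nat_lit 1014) (nat_lit 532) (nat_lit 0) (XT.nd (nat_lit 468) (nat_lit 456) (nat_lit 0) (XT.nd (nat_lit 234) (nat_lit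 304) (nat_lit 0) (XT.nd (nat_lit 78) (nat_lit 304) (nat_lit 0) (XT.lf (nat_lit 0) (nat_lit 8756480633) (nat_lit 152) (nat_lit 5182171045) (nat_lit 152) (nat_lit 2236851642) (nat_lit 28) (nat_lit 4) (nat_lit 30) (nat_lit 5) (nat_lit 30) (nat_lit 4) (nat_lit 308) (nat_lit 238) (nat_lit 234)) (XT.nd (nat_lit 78) (nat_lit 152) (nat_lit 0) (XT.lf (nat_lit 0) (nat_lit 4351516709) (nat_lit 152) (nat_lit 11545829501) (nat_lit 0) (nat_lit 860130371) (nat_lit 26) (nat_lit 5) (nat_lit 28) (nat_lit 4) (nat_lit 26) (nat_lit 4) (nat_lit 309) (nat_lit 238) (nat_lit 233)) (XT.lf (nat_lit 0) (nat_lit 812217386) (nat_lit 152) (nat_lit 10325738796) (nat_lit 152) (nat_lit 6232587755) (nat_lit 24) (nat_lit 4) (nat_lit 26) (nat_lit 5) (nat_lit 26) (nat_lit 4) (nat_lit 310) (nat_lit 238) (nat_lit 232)))) (XT.nd (nat_lit 78) (nat_lit 228) (nat_lit 0) (XT.lf (nat_lit 0) (nat_lit 146582862) (nat_lit 228) (nat_lit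 4368697070) (nat_lit 76) (nat_lit 13501952052) (nat_lit 23) (nat_lit 5) (nat_lit 26) (nat_lit 5) (nat_lit 24) (nat_lit 4) (nat_lit 311) (nat_lit 238) (nat_lit 231)) (XT.nd (nat_lit 78) (nat_lit 152) (nat_lit 0) (XT.lf (nat_lit 0) (nat_lit 6602934395) (nat_lit 152) (nat_lit 10552285679) (nat_lit 0) (nat_lit 1542663904) (nat_lit 22) (nat_lit 5) (nat_lit 24) (nat_lit 4) (nat_lit 22) (nat_lit 4) (nat_lit 312) (nat_lit 238) (nat_lit 230)) (XT.lf (nat_lit 0) (nat_lit 1590957363) (nat_lit 152) (nat_lit 11694774598) (nat_lit 152) (nat_lit 6129817722) (nat_lit 20) (nat_lit 4) (nat_lit 22) (nat_lit 5) (nat_lit 22) (nat_lit 4) (nat_lit 313) (nat_lit 238) (nat_lit 229))))) (XT.nd (nat_lit 234) (nat_lit 304) (nat_lit 0) (XT.nd (nat_lit 78) (nat_lit 76) (nat_lit 0) (XT.lf (nat_lit 0) (nat_lit 42273547) (nat_lit 228) (nat_lit 5959795274) (nat_lit 76) (nat_lit 14169735243) (nat_lit 19) (nat_lit 5) (nat_lit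 22) (nat_lit 5) (nat_lit 20) (nat_lit 4) (nat_lit 314) (nat_lit 238) (nat_lit 228)) (XT.nd (nat_lit 78) (nat_lit 0) (nat_lit 0) (XT.lf (nat_lit 0) (nat_lit 6221130250) (nat_lit 76) (nat_lit 47099430) (nat_lit 152) (nat_lit 14699738939) (nat_lit 18) (nat_lit 5) (nat_lit 19) (nat_lit 5) (nat_lit 20) (nat_lit 4) (nat_lit 315) (nat_lit 238) (nat_lit 227)) (XT.lf (nat_lit 0) (nat_lit 12742619603) (nat_lit 152) (nat_lit 3057889858) (nat_lit 0) (nat_lit 6005393315) (nat_lit 18) (nat_lit 5) (nat_lit 20) (nat_lit 4) (nat_lit 18) (nat_lit 4) (nat_lit 316) (nat_lit 238) (nat_lit 226)))) (XT.nd (nat_lit 156) (nat_lit 76) (nat_lit 0) (XT.nd (nat_lit 78) (nat_lit 76) (nat_lit 0) (XT.lf (nat_lit 0) (nat_lit 9076747307) (nat_lit 152) (nat_lit 10376018359) (nat_lit 152) (nat_lit 3235678734) (nat_lit 16) (nat_lit 4) (nat_lit 18) (nat_lit 5) (nat_lit 18) (nat_lit 4) (nat_lit 317) (nat_lit 238) (nat_lit 225))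 (XT.lf (nat_lit 0) (nat_lit 2686810514) (nat_lit 228) (nat_lit 2070031744) (nat_lit 76) (nat_lit 18861712761) (nat_lit 15) (nat_lit 5) (nat_lit 18) (nat_lit 5) (nat_lit 16) (nat_lit 4) (nat_lit 318) (nat_lit 238) (nat_lit 224))) (XT.nd (nat_lit 78) (nat_lit 0) (nat_lit 0) (XT.lf (nat_lit 0) (nat_lit 8781596021) (nat_lit 152) (nat_lit 14692878662) (nat_lit 0) (nat_lit 1121505954) (nat_lit 14) (nat_lit 5) (nat_lit 16) (nat_lit 4) (nat_lit 14) (nat_lit 4) (nat_lit 319) (nat_lit 238) (nat_lit 223)) (XT.lf (nat_lit 0) (nat_lit 15090639807) (nat_lit 152) (nat_lit 3441944685) (nat_lit 0) (nat_lit 7092467743) (nat_lit 14) (nat_lit 5) (nat_lit 16) (nat_lit 4) (nat_lit 14) (nat_lit 4) (nat_lit 320) (nat_lit 238) (nat_lit 222)))))) (XT.nd (nat_lit 468) (nat_lit 228) (nat_lit 0) (XT.nd (nat_lit 234) (nat_lit 76) (nat_lit 0) (XT.nd (nat_lit 78) (nat_lit 152) (nat_lit 0) (XT.lf (nat_lit 0) (nat_lit 8256232019)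 (nat_lit 76) (nat_lit 13385874296) (nat_lit 76) (nat_lit 5065719377) (nat_lit 13) (nat_lit 4) (nat_lit 14) (nat_lit 5) (nat_lit 14) (nat_lit 4) (nat_lit 321) (nat_lit 238) (nat_lit 221)) (XT.nd (nat_lit 78) (nat_lit 76) (nat_lit 0) (XT.lf (nat_lit 0) (nat_lit 549758134) (nat_lit 152) (nat_lit 7510796243) (nat_lit 76) (nat_lit 19787444986) (nat_lit 12) (nat_lit 5) (nat_lit 14) (nat_lit 5) (nat_lit 13) (nat_lit 4) (nat_lit 322) (nat_lit 238) (nat_lit 220)) (XT.lf (nat_lit 0) (nat_lit 3740315124) (nat_lit 76) (nat_lit 2495728383) (nat_lit 152) (nat_lit 22810840061) (nat_lit 11) (nat_lit 5) (nat_lit 12) (nat_lit 5) (nat_lit 13) (nat_lit 4) (nat_lit 323) (nat_lit 238) (nat_lit 219)))) (XT.nd (nat_lit 78) (nat_lit 76) (nat_lit 0) (XT.lf (nat_lit 0) (nat_lit 12178038604) (nat_lit 152) (nat_lit 14879661528) (nat_lit 0) (nat_lit 3248918126) (nat_lit 11) (nat_lit 5) (nat_lit 13) (nat_lit 4) (nat_lit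 11) (nat_lit 4) (nat_lit 324) (nat_lit 238) (nat_lit 218)) (XT.nd (nat_lit 78) (nat_lit 76) (nat_lit 0) (XT.lf (nat_lit 0) (nat_lit 18310072255) (nat_lit 152) (nat_lit 4198754002) (nat_lit 0) (nat_lit 9123771106) (nat_lit 11) (nat_lit 5) (nat_lit 13) (nat_lit 4) (nat_lit 11) (nat_lit 4) (nat_lit 325) (nat_lit 238) (nat_lit 217)) (XT.lf (nat_lit 0) (nat_lit 6920621587) (nat_lit 76) (nat_lit 17768657733) (nat_lit 76) (nat_lit 8337422612) (nat_lit 10) (nat_lit 4) (nat_lit 11) (nat_lit 5) (nat_lit 11) (nat_lit 4) (nat_lit 326) (nat_lit 238) (nat_lit 216))))) (XT.nd (nat_lit 234) (nat_lit 76) (nat_lit 0) (XT.nd (nat_lit 78) (nat_lit 152) (nat_lit 0) (XT.lf (nat_lit 0) (nat_lit 18459694778) (nat_lit 76) (nat_lit 12848865353) (nat_lit 76) (nat_lit 3184359782) (nat_lit 10) (nat_lit 4) (nat_lit 11) (nat_lit 5) (nat_lit 11) (nat_lit 4) (nat_lit 327) (nat_lit 238) (nat_lit 215)) (XT.nd (nat_lit 78)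 (nat_lit 76) (nat_lit 0) (XT.lf (nat_lit 0) (nat_lit 2065427342) (nat_lit 152) (nat_lit 5693850398) (nat_lit 76) (nat_lit 28276092007) (nat_lit 9) (nat_lit 5) (nat_lit 11) (nat_lit 5) (nat_lit 10) (nat_lit 4) (nat_lit 328) (nat_lit 238) (nat_lit 214)) (XT.lf (nat_lit 0) (nat_lit 5022918131) (nat_lit 76) (nat_lit 2425933696) (nat_lit 152) (nat_lit 30207070851) (nat_lit 8) (nat_lit 5) (nat_lit 9) (nat_lit 5) (nat_lit 10) (nat_lit 4) (nat_lit 329) (nat_lit 238) (nat_lit 213)))) (XT.nd (nat_lit 156) (nat_lit 76) (nat_lit 0) (XT.nd (nat_lit 78) (nat_lit 0) (nat_lit 0) (XT.lf (nat_lit 0) (nat_lit 13081796378) (nat_lit 152) (nat_lit 23194300796) (nat_lit 0) (nat_lit 3082030491) (nat_lit 8) (nat_lit 5) (nat_lit 10) (nat_lit 4) (nat_lit 8) (nat_lit 4) (nat_lit 330) (nat_lit 238) (nat_lit 212)) (XT.lf (nat_lit 0) (nat_lit 18916725286) (nat_lit 152) (nat_lit 13500503820) (nat_lit 0) (nat_lit 8730636897)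 (nat_lit 8) (nat_lit 5) (nat_lit 10) (nat_lit 4) (nat_lit 8) (nat_lit 4) (nat_lit 331) (nat_lit 238) (nat_lit 211))) (XT.nd (nat_lit 78) (nat_lit 76) (nat_lit 0) (XT.lf (nat_lit 0) (nat_lit 24944211679) (nat_lit 152) (nat_lit 3505213589) (nat_lit 0) (nat_lit 14580673289) (nat_lit 8) (nat_lit 5) (nat_lit 10) (nat_lit 4) (nat_lit 8) (nat_lit 4) (nat_lit 332) (nat_lit 238) (nat_lit 210)) (XT.lf (nat_lit 0) (nat_lit 6951007395) (nat_lit 76) (nat_lit 24294416657) (nat_lit 76) (nat_lit 13761878265) (nat_lit 7) (nat_lit 4) (nat_lit 8) (nat_lit 5) (nat_lit 8) (nat_lit 4) (nat_lit 333) (nat_lit 238) (nat_lit 209))))))))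
noncomputable def xc17 : XT := (XT.nd (nat_lit 2028) (nat_lit 0) (nat_lit 0) (XT.nd (nat_lit 1014) (nat_lit 152) (nat_lit 0) (XT.nd (nat_lit 468) (nat_lit 76) (nat_lit 0) (XT.nd (nat_lit 234) (nat_lit 76) (nat_lit 0) (XT.nd (nat_lit 78) (nat_lit 76) (nat_lit 0) (XT.lf (nat_lit 0) (nat_lit 17833816368) (nat_lit 76) (nat_lit 19972367380) (nat_lit 76) (nat_lit 9278876606) (nat_lit 7) (nat_lit 4) (nat_lit 8) (nat_lit 5) (nat_lit 8) (nat_lit 4) (nat_lit 334) (nat_lit 238) (nat_lit 208)) (XT.nd (nat_lit 78) (nat_lit 76) (nat_lit 0) (XT.lf (nat_lit 0) (nat_lit 29099364155) (nat_lit 76) (nat_lit 15508382629) (nat_lit 76) (nat_lit 4661603873) (nat_lit 7) (nat_lit 4) (nat_lit 8) (nat_lit 5) (nat_lit 8) (nat_lit 4) (nat_lit 335) (nat_lit 238) (nat_lit 207)) (XT.lf (nat_lit 0) (nat_lit 98963866) (nat_lit 152) (nat_lit 10791870663) (nat_lit 76) (nat_lit 40674510283) (nat_lit 6) (nat_lit 5) (nat_lit 8)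 (nat_lit 5) (nat_lit 7) (nat_lit 4) (nat_lit 336) (nat_lit 238) (nat_lit 206)))) (XT.nd (nat_lit 78) (nat_lit 76) (nat_lit 0) (XT.lf (nat_lit 0) (nat_lit 4922114972) (nat_lit 152) (nat_lit 1139910637) (nat_lit 76) (nat_lit 47915123570) (nat_lit 6) (nat_lit 5) (nat_lit 8) (nat_lit 5) (nat_lit 7) (nat_lit 4) (nat_lit 337) (nat_lit 238) (nat_lit 205)) (XT.nd (nat_lit 78) (nat_lit 0) (nat_lit 0) (XT.lf (nat_lit 0) (nat_lit 9029890303) (nat_lit 76) (nat_lit 967208345) (nat_lit 152) (nat_lit 46512147782) (nat_lit 5) (nat_lit 5) (nat_lit 6) (nat_lit 5) (nat_lit 7) (nat_lit 4) (nat_lit 338) (nat_lit 238) (nat_lit 204)) (XT.lf (nat_lit 0) (nat_lit 15305384333) (nat_lit 152) (nat_lit 39616388282) (nat_lit 0) (nat_lit 4246811171) (nat_lit 5) (nat_lit 5) (nat_lit 7) (nat_lit 4) (nat_lit 5) (nat_lit 4) (nat_lit 339) (nat_lit 238) (nat_lit 203))))) (XT.nd (nat_lit 234) (nat_lit 76) (nat_lit 0) (XT.nd (nat_lit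 78) (nat_lit 0) (nat_lit 0) (XT.lf (nat_lit 0) (nat_lit 20817966990) (nat_lit 152) (nat_lit 31501988435) (nat_lit 0) (nat_lit 9642786890) (nat_lit 5) (nat_lit 5) (nat_lit 7) (nat_lit 4) (nat_lit 5) (nat_lit 4) (nat_lit 340) (nat_lit 238) (nat_lit 202)) (XT.nd (nat_lit 78) (nat_lit 0) (nat_lit 0) (XT.lf (nat_lit 0) (nat_lit 26538674418) (nat_lit 152) (nat_lit 23107539190) (nat_lit 0) (nat_lit 15252440091) (nat_lit 5) (nat_lit 5) (nat_lit 7) (nat_lit 4) (nat_lit 5) (nat_lit 4) (nat_lit 341) (nat_lit 238) (nat_lit 201)) (XT.lf (nat_lit 0) (nat_lit 32481127348) (nat_lit 152) (nat_lit 14413053763) (nat_lit 0) (nat_lit 21089127092) (nat_lit 5) (nat_lit 5) (nat_lit 7) (nat_lit 4) (nat_lit 5) (nat_lit 4) (nat_lit 342) (nat_lit 238) (nat_lit 200)))) (XT.nd (nat_lit 156) (nat_lit 0) (nat_lit 0) (XT.nd (nat_lit 78) (nat_lit 76) (nat_lit 0) (XT.lf (nat_lit 0) (nat_lit 38659474478) (nat_lit 152) (nat_lit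 5397830997) (nat_lit 0) (nat_lit 27166744765) (nat_lit 5) (nat_lit 5) (nat_lit 7) (nat_lit 4) (nat_lit 5) (nat_lit 4) (nat_lit 343) (nat_lit 238) (nat_lit 199)) (XT.lf (nat_lit 0) (nat_lit 4038397606) (nat_lit 76) (nat_lit 41088848100) (nat_lit 76) (nat_lit 29500185571) (nat_lit 4) (nat_lit 4) (nat_lit 5) (nat_lit 5) (nat_lit 5) (nat_lit 4) (nat_lit 344) (nat_lit 238) (nat_lit 198))) (XT.nd (nat_lit 78) (nat_lit 0) (nat_lit 0) (XT.lf (nat_lit 0) (nat_lit 13953789269) (nat_lit 76) (nat_lit 37963632506) (nat_lit 76) (nat_lit 26283605390) (nat_lit 4) (nat_lit 4) (nat_lit 5) (nat_lit 5) (nat_lit 5) (nat_lit 4) (nat_lit 345) (nat_lit 238) (nat_lit 197)) (XT.lf (nat_lit 0) (nat_lit 24264524646) (nat_lit 76) (nat_lit 34728725212) (nat_lit 76) (nat_lit 22961684204) (nat_lit 4) (nat_lit 4) (nat_lit 5) (nat_lit 5) (nat_lit 5) (nat_lit 4) (nat_lit 346) (nat_lit 238) (nat_lit 196)))))) (XT.nd (nat_lit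 468) (nat_lit 152) (nat_lit 0) (XT.nd (nat_lit 234) (nat_lit 0) (nat_lit 0) (XT.nd (nat_lit 78) (nat_lit 0) (nat_lit 0) (XT.lf (nat_lit 0) (nat_lit 34995153107) (nat_lit 76) (nat_lit 31376424058) (nat_lit 76) (nat_lit 19526512677) (nat_lit 4) (nat_lit 4) (nat_lit 5) (nat_lit 5) (nat_lit 5) (nat_lit 4) (nat_lit 347) (nat_lit 238) (nat_lit 195)) (XT.nd (nat_lit 78) (nat_lit 0) (nat_lit 0) (XT.lf (nat_lit 0) (nat_lit 46171223768) (nat_lit 76) (nat_lit 27898747375) (nat_lit 76) (nat_lit 15969911828) (nat_lit 4) (nat_lit 4) (nat_lit 5) (nat_lit 5) (nat_lit 5) (nat_lit 4) (nat_lit 348) (nat_lit 238) (nat_lit 194)) (XT.lf (nat_lit 0) (nat_lit 57819346320) (nat_lit 76) (nat_lit 24287414980) (nat_lit 76) (nat_lit 12283413561) (nat_lit 4) (nat_lit 4) (nat_lit 5) (nat_lit 5) (nat_lit 5) (nat_lit 4) (nat_lit 349) (nat_lit 238) (nat_lit 193)))) (XT.nd (nat_lit 78) (nat_lit 0) (nat_lit 0) (XT.lf (nat_lit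 0) (nat_lit 69967254389) (nat_lit 76) (nat_lit 20533828462) (nat_lit 76) (nat_lit 8458240499) (nat_lit 4) (nat_lit 4) (nat_lit 5) (nat_lit 5) (nat_lit 5) (nat_lit 4) (nat_lit 350) (nat_lit 238) (nat_lit 192)) (XT.nd (nat_lit 78) (nat_lit 0) (nat_lit 0) (XT.lf (nat_lit 0) (nat_lit 82643871566) (nat_lit 76) (nat_lit 16629050711) (nat_lit 76) (nat_lit 4485285087) (nat_lit 4) (nat_lit 4) (nat_lit 5) (nat_lit 5) (nat_lit 5) (nat_lit 4) (nat_lit 351) (nat_lit 238) (nat_lit 191)) (XT.lf (nat_lit 0) (nat_lit 95879380271) (nat_lit 76) (nat_lit 12563784637) (nat_lit 76) (nat_lit 355087907) (nat_lit 4) (nat_lit 4) (nat_lit 5) (nat_lit 5) (nat_lit 5) (nat_lit 4) (nat_lit 352) (nat_lit 238) (nat_lit 190))))) (XT.nd (nat_lit 234) (nat_lit 0) (nat_lit 0) (XT.nd (nat_lit 78) (nat_lit 76) (nat_lit 0) (XT.lf (nat_lit 0) (nat_lit 3865258617) (nat_lit 152) (nat_lit 4424060884) (nat_lit 76) (nat_lit 105801003471)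 (nat_lit 3) (nat_lit 5) (nat_lit 5) (nat_lit 5) (nat_lit 4) (nat_lit 4) (nat_lit 353) (nat_lit 238) (nat_lit 189)) (XT.nd (nat_lit 78) (nat_lit 0) (nat_lit 0) (XT.lf (nat_lit 0) (nat_lit 4511222331) (nat_lit 76) (nat_lit 3784665667) (nat_lit 152) (nat_lit 111350815082) (nat_lit 2) (nat_lit 5) (nat_lit 3) (nat_lit 5) (nat_lit 4) (nat_lit 4) (nat_lit 354) (nat_lit 238) (nat_lit 188)) (XT.lf (nat_lit 0) (nat_lit 12967117588) (nat_lit 152) (nat_lit 111570881591) (nat_lit 0) (nat_lit 942340659) (nat_lit 2) (nat_lit 5) (nat_lit 4) (nat_lit 4) (nat_lit 2) (nat_lit 4) (nat_lit 355) (nat_lit 238) (nat_lit 187)))) (XT.nd (nat_lit 156) (nat_lit 0) (nat_lit 0) (XT.nd (nat_lit 78) (nat_lit 0) (nat_lit 0) (XT.lf (nat_lit 0) (nat_lit 17875812954) (nat_lit 152) (nat_lit 107930564660) (nat_lit 0) (nat_lit 5799172936) (nat_lit 2) (nat_lit 5) (nat_lit 4) (nat_lit 4) (nat_lit 2) (nat_lit 4) (nat_lit 356) (nat_lit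 238) (nat_lit 186)) (XT.lf (nat_lit 0) (nat_lit 22997280945) (nat_lit 152) (nat_lit 104169482013) (nat_lit 0) (nat_lit 10871247509) (nat_lit 2) (nat_lit 5) (nat_lit 4) (nat_lit 4) (nat_lit 2) (nat_lit 4) (nat_lit 357) (nat_lit 238) (nat_lit 185))) (XT.nd (nat_lit 78) (nat_lit 0) (nat_lit 0) (XT.lf (nat_lit 0) (nat_lit 28343715532) (nat_lit 152) (nat_lit 100278678692) (nat_lit 0) (nat_lit 16170640746) (nat_lit 2) (nat_lit 5) (nat_lit 4) (nat_lit 4) (nat_lit 2) (nat_lit 4) (nat_lit 358) (nat_lit 238) (nat_lit 184)) (XT.lf (nat_lit 0) (nat_lit 33927846321) (nat_lit 152) (nat_lit 96248890879) (nat_lit 0) (nat_lit 21709970249) (nat_lit 2) (nat_lit 5) (nat_lit 4) (nat_lit 4) (nat_lit 2) (nat_lit 4) (nat_lit 359) (nat_lit 238) (nat_lit 183))))))) (XT.nd (nat_lit 36894) (nat_lit 0) (nat_lit 684) (XT.nd (nat_lit 36348) (nat_lit 0) (nat_lit 1672) (XT.nd (nat_lit 36114) (nat_lit 0) (nat_lit 2508) (XT.nd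 (nat_lit 78) (nat_lit 0) (nat_lit 0) (XT.lf (nat_lit 0) (nat_lit 39762968863) (nat_lit 152) (nat_lit 92070523842) (nat_lit 0) (nat_lit 27502424898) (nat_lit 2) (nat_lit 5) (nat_lit 4) (nat_lit 4) (nat_lit 2) (nat_lit 4) (nat_lit 360) (nat_lit 238) (nat_lit 182)) (XT.nd (nat_lit 78) (nat_lit 0) (nat_lit 0) (XT.lf (nat_lit 0) (nat_lit 45862976304) (nat_lit 152) (nat_lit 87733629088) (nat_lit 0) (nat_lit 33561796253) (nat_lit 2) (nat_lit 5) (nat_lit 4) (nat_lit 4) (nat_lit 2) (nat_lit 4) (nat_lit 361) (nat_lit 238) (nat_lit 181)) (XT.lf (nat_lit 0) (nat_lit 52242392474) (nat_lit 152) (nat_lit 83227880676) (nat_lit 0) (nat_lit 39902511387) (nat_lit 2) (nat_lit 5) (nat_lit 4) (nat_lit 4) (nat_lit 2) (nat_lit 4) (nat_lit 362) (nat_lit 238) (nat_lit 180)))) (XT.nd (nat_lit 78) (nat_lit 380) (nat_lit 0) (XT.lf (nat_lit 0) (nat_lit 909268708) (nat_lit 228) (nat_lit 4814100506) (nat_lit 0) (nat_lit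 909268708) (nat_lit 40) (nat_lit 5) (nat_lit 43) (nat_lit 4) (nat_lit 40) (nat_lit 4) (nat_lit 302) (nat_lit 239) (nat_lit 239)) (XT.nd (nat_lit 78) (nat_lit 228) (nat_lit 0) (XT.lf (nat_lit 0) (nat_lit 2972285213) (nat_lit 152) (nat_lit 5799537229) (nat_lit 152) (nat_lit 4918337858) (nat_lit 38) (nat_lit 4) (nat_lit 40) (nat_lit 5) (nat_lit 40) (nat_lit 4) (nat_lit 303) (nat_lit 239) (nat_lit 238)) (XT.lf (nat_lit 0) (nat_lit 1766694246) (nat_lit 228) (nat_lit 12276774367) (nat_lit 0) (nat_lit 96367191) (nat_lit 35) (nat_lit 5) (nat_lit 38) (nat_lit 4) (nat_lit 35) (nat_lit 4) (nat_lit 304) (nat_lit 239) (nat_lit 237))))) (XT.nd (nat_lit 234) (nat_lit 456) (nat_lit 0) (XT.nd (nat_lit 78) (nat_lit 228) (nat_lit 0) (XT.lf (nat_lit 0) (nat_lit 165188101) (nat_lit 152) (nat_lit 8446984037) (nat_lit 152) (nat_lit 6000662995) (nat_lit 33) (nat_lit 4) (nat_lit 35) (nat_lit 5) (nat_lit 35) (nat_lit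 4) (nat_lit 305) (nat_lit 239) (nat_lit 236)) (XT.nd (nat_lit 78) (nat_lit 152) (nat_lit 0) (XT.lf (nat_lit 0) (nat_lit 565294492) (nat_lit 228) (nat_lit 2037815114) (nat_lit 76) (nat_lit 12509653780) (nat_lit 32) (nat_lit 5) (nat_lit 35) (nat_lit 5) (nat_lit 33) (nat_lit 4) (nat_lit 306) (nat_lit 239) (nat_lit 235)) (XT.lf (nat_lit 0) (nat_lit 7246062310) (nat_lit 228) (nat_lit 4922518735) (nat_lit 0) (nat_lit 3470127985) (nat_lit 30) (nat_lit 5) (nat_lit 33) (nat_lit 4) (nat_lit 30) (nat_lit 4) (nat_lit 307) (nat_lit 239) (nat_lit 234)))) (XT.nd (nat_lit 156) (nat_lit 152) (nat_lit 0) (XT.nd (nat_lit 78) (nat_lit 152) (nat_lit 0) (XT.lf (nat_lit 0) (nat_lit 7699394799) (nat_lit 152) (nat_lit 6460719326) (nat_lit 152) (nat_lit 2033976475) (nat_lit 28) (nat_lit 4) (nat_lit 30) (nat_lit 5) (nat_lit 30) (nat_lit 4) (nat_lit 308) (nat_lit 239) (nat_lit 233)) (XT.lf (nat_lit 0) (nat_lit 3933233802)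 (nat_lit 76) (nat_lit 490310186) (nat_lit 152) (nat_lit 12356320369) (nat_lit 26) (nat_lit 5) (nat_lit 27) (nat_lit 5) (nat_lit 28) (nat_lit 4) (nat_lit 309) (nat_lit 239) (nat_lit 232))) (XT.nd (nat_lit 78) (nat_lit 152) (nat_lit 0) (XT.lf (nat_lit 0) (nat_lit 11093975335) (nat_lit 152) (nat_lit 681193659) (nat_lit 0) (nat_lit 5621292799) (nat_lit 26) (nat_lit 5) (nat_lit 28) (nat_lit 4) (nat_lit 26) (nat_lit 4) (nat_lit 310) (nat_lit 239) (nat_lit 231)) (XT.lf (nat_lit 0) (nat_lit 11966775024) (nat_lit 152) (nat_lit 6049087110) (nat_lit 152) (nat_lit 30586249) (nat_lit 24) (nat_lit 4) (nat_lit 26) (nat_lit 5) (nat_lit 26) (nat_lit 4) (nat_lit 311) (nat_lit 239) (nat_lit 230)))))) (XT.nd (nat_lit 546) (nat_lit 304) (nat_lit 0) (XT.nd (nat_lit 234) (nat_lit 380) (nat_lit 0) (XT.nd (nat_lit 78) (nat_lit 152) (nat_lit 0) (XT.lf (nat_lit 0) (nat_lit 6243225915) (nat_lit 76) (nat_lit 53105982)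 (nat_lit 152) (nat_lit 12434722092) (nat_lit 22) (nat_lit 5) (nat_lit 23) (nat_lit 5) (nat_lit 24) (nat_lit 4) (nat_lit 312) (nat_lit 239) (nat_lit 229)) (XT.nd (nat_lit 78) (nat_lit 152) (nat_lit 0) (XT.lf (nat_lit 0) (nat_lit 12869176702) (nat_lit 152) (nat_lit 542251471) (nat_lit 0) (nat_lit 6040631900) (nat_lit 22) (nat_lit 5) (nat_lit 24) (nat_lit 4) (nat_lit 22) (nat_lit 4) (nat_lit 313) (nat_lit 239) (nat_lit 228)) (XT.lf (nat_lit 0) (nat_lit 11906094145) (nat_lit 152) (nat_lit 7795739526) (nat_lit 152) (nat_lit 509429295) (nat_lit 20) (nat_lit 4) (nat_lit 22) (nat_lit 5) (nat_lit 22) (nat_lit 4) (nat_lit 314) (nat_lit 239) (nat_lit 227)))) (XT.nd (nat_lit 156) (nat_lit 228) (nat_lit 0) (XT.nd (nat_lit 78) (nat_lit 0) (nat_lit 0) (XT.lf (nat_lit 0) (nat_lit 3674566927) (nat_lit 76) (nat_lit 1939642053) (nat_lit 152) (nat_lit 15396770015) (nat_lit 18) (nat_lit 5) (nat_lit 19) (nat_lit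 5) (nat_lit 20) (nat_lit 4) (nat_lit 315) (nat_lit 239) (nat_lit 226)) (XT.lf (nat_lit 0) (nat_lit 11984704192) (nat_lit 152) (nat_lit 5783126606) (nat_lit 0) (nat_lit 4084234249) (nat_lit 18) (nat_lit 5) (nat_lit 20) (nat_lit 4) (nat_lit 18) (nat_lit 4) (nat_lit 316) (nat_lit 239) (nat_lit 225))) (XT.nd (nat_lit 78) (nat_lit 76) (nat_lit 0) (XT.lf (nat_lit 0) (nat_lit 6147827910) (nat_lit 152) (nat_lit 12437246415) (nat_lit 152) (nat_lit 4152859008) (nat_lit 16) (nat_lit 4) (nat_lit 18) (nat_lit 5) (nat_lit 18) (nat_lit 4) (nat_lit 317) (nat_lit 239) (nat_lit 224)) (XT.lf (nat_lit 0) (nat_lit 1707610578) (nat_lit 228) (nat_lit 5183573613) (nat_lit 76) (nat_lit 16779552639) (nat_lit 15) (nat_lit 5) (nat_lit 18) (nat_lit 5) (nat_lit 16) (nat_lit 4) (nat_lit 318) (nat_lit 239) (nat_lit 223))))) (XT.nd (nat_lit 234) (nat_lit 152) (nat_lit 0) (XT.nd (nat_lit 78) (nat_lit 76) (nat_lit 0) (XT.lf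 (nat_lit 0) (nat_lit 6599095792) (nat_lit 76) (nat_lit 1084324570) (nat_lit 152) (nat_lit 16968340757) (nat_lit 14) (nat_lit 5) (nat_lit 15) (nat_lit 5) (nat_lit 16) (nat_lit 4) (nat_lit 319) (nat_lit 239) (nat_lit 222)) (XT.nd (nat_lit 78) (nat_lit 76) (nat_lit 0) (XT.lf (nat_lit 0) (nat_lit 13907702703) (nat_lit 152) (nat_lit 6926143669) (nat_lit 0) (nat_lit 4849557185) (nat_lit 14) (nat_lit 5) (nat_lit 16) (nat_lit 4) (nat_lit 14) (nat_lit 4) (nat_lit 320) (nat_lit 239) (nat_lit 221)) (XT.lf (nat_lit 0) (nat_lit 4571720165) (nat_lit 76) (nat_lit 15781232927) (nat_lit 76) (nat_lit 6416437071) (nat_lit 13) (nat_lit 4) (nat_lit 14) (nat_lit 5) (nat_lit 14) (nat_lit 4) (nat_lit 321) (nat_lit 239) (nat_lit 220)))) (XT.nd (nat_lit 156) (nat_lit 76) (nat_lit 0) (XT.nd (nat_lit 78) (nat_lit 76) (nat_lit 0) (XT.lf (nat_lit 0) (nat_lit 16533508958) (nat_lit 76) (nat_lit 10517572271) (nat_lit 76)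 (nat_lit 860728474) (nat_lit 13) (nat_lit 4) (nat_lit 14) (nat_lit 5) (nat_lit 14) (nat_lit 4) (nat_lit 322) (nat_lit 239) (nat_lit 219)) (XT.lf (nat_lit 0) (nat_lit 4740369690) (nat_lit 152) (nat_lit 312034220) (nat_lit 76) (nat_lit 24061621189) (nat_lit 12) (nat_lit 5) (nat_lit 14) (nat_lit 5) (nat_lit 13) (nat_lit 4) (nat_lit 323) (nat_lit 239) (nat_lit 218))) (XT.nd (nat_lit 78) (nat_lit 0) (nat_lit 0) (XT.lf (nat_lit 0) (nat_lit 10590186233) (nat_lit 152) (nat_lit 19098971920) (nat_lit 0) (nat_lit 687389356) (nat_lit 11) (nat_lit 5) (nat_lit 13) (nat_lit 4) (nat_lit 11) (nat_lit 4) (nat_lit 324) (nat_lit 239) (nat_lit 217)) (XT.lf (nat_lit 0) (nat_lit 16660779145) (nat_lit 152) (nat_lit 8530563695) (nat_lit 0) (nat_lit 6513048295) (nat_lit 11) (nat_lit 5) (nat_lit 13) (nat_lit 4) (nat_lit 11) (nat_lit 4) (nat_lit 325) (nat_lit 239) (nat_lit 216))))))))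
noncomputable def xc18 : XT := (XT.nd (nat_lit 2028) (nat_lit 152) (nat_lit 0) (XT.nd (nat_lit 1014) (nat_lit 76) (nat_lit 0) (XT.nd (nat_lit 468) (nat_lit 228) (nat_lit 0) (XT.nd (nat_lit 234) (nat_lit 76) (nat_lit 0) (XT.nd (nat_lit 78) (nat_lit 76) (nat_lit 0) (XT.lf (nat_lit 0) (nat_lit 2393325857) (nat_lit 76) (nat_lit 20544626228) (nat_lit 76) (nat_lit 10163624928) (nat_lit 10) (nat_lit 4) (nat_lit 11) (nat_lit 5) (nat_lit 11) (nat_lit 4) (nat_lit 326) (nat_lit 239) (nat_lit 215)) (XT.nd (nat_lit 78) (nat_lit 76) (nat_lit 0) (XT.lf (nat_lit 0) (nat_lit 13828328066) (nat_lit 76) (nat_lit 15672175874) (nat_lit 76) (nat_lit 5069012241) (nat_lit 10) (nat_lit 4) (nat_lit 11) (nat_lit 5) (nat_lit 11) (nat_lit 4) (nat_lit 327) (nat_lit 239) (nat_lit 214)) (XT.lf (nat_lit 0) (nat_lit 162970698) (nat_lit 152) (nat_lit 10483916289) (nat_lit 76) (nat_lit 25467277800) (nat_lit 9) (nat_lit 5) (nat_lit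 11) (nat_lit 5) (nat_lit 10) (nat_lit 4) (nat_lit 328) (nat_lit 239) (nat_lit 213)))) (XT.nd (nat_lit 78) (nat_lit 0) (nat_lit 0) (XT.lf (nat_lit 0) (nat_lit 40173961) (nat_lit 76) (nat_lit 5406342567) (nat_lit 152) (nat_lit 32291214561) (nat_lit 8) (nat_lit 5) (nat_lit 9) (nat_lit 5) (nat_lit 10) (nat_lit 4) (nat_lit 329) (nat_lit 239) (nat_lit 212)) (XT.nd (nat_lit 78) (nat_lit 0) (nat_lit 0) (XT.lf (nat_lit 0) (nat_lit 11000007465) (nat_lit 152) (nat_lit 28324036267) (nat_lit 0) (nat_lit 118292155) (nat_lit 8) (nat_lit 5) (nat_lit 10) (nat_lit 4) (nat_lit 8) (nat_lit 4) (nat_lit 330) (nat_lit 239) (nat_lit 211)) (XT.lf (nat_lit 0) (nat_lit 16786551514) (nat_lit 152) (nat_lit 18719603483) (nat_lit 0) (nat_lit 5727386203) (nat_lit 8) (nat_lit 5) (nat_lit 10) (nat_lit 4) (nat_lit 8) (nat_lit 4) (nat_lit 331) (nat_lit 239) (nat_lit 210))))) (XT.nd (nat_lit 234) (nat_lit 152) (nat_lit 0) (XT.nd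 (nat_lit 78) (nat_lit 76) (nat_lit 0) (XT.lf (nat_lit 0) (nat_lit 22767957090) (nat_lit 152) (nat_lit 8809422008) (nat_lit 0) (nat_lit 11539791778) (nat_lit 8) (nat_lit 5) (nat_lit 10) (nat_lit 4) (nat_lit 8) (nat_lit 4) (nat_lit 332) (nat_lit 239) (nat_lit 209)) (XT.nd (nat_lit 78) (nat_lit 0) (nat_lit 0) (XT.lf (nat_lit 0) (nat_lit 1458565698) (nat_lit 76) (nat_lit 27513920561) (nat_lit 76) (nat_lit 16124802867) (nat_lit 7) (nat_lit 4) (nat_lit 8) (nat_lit 5) (nat_lit 8) (nat_lit 4) (nat_lit 333) (nat_lit 239) (nat_lit 208)) (XT.lf (nat_lit 0) (nat_lit 12262642167) (nat_lit 76) (nat_lit 23228050304) (nat_lit 76) (nat_lit 11685644627) (nat_lit 7) (nat_lit 4) (nat_lit 8) (nat_lit 5) (nat_lit 8) (nat_lit 4) (nat_lit 334) (nat_lit 239) (nat_lit 207)))) (XT.nd (nat_lit 156) (nat_lit 152) (nat_lit 0) (XT.nd (nat_lit 78) (nat_lit 0) (nat_lit 0) (XT.lf (nat_lit 0) (nat_lit 23453206617) (nat_lit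 76) (nat_lit 18798521763) (nat_lit 76) (nat_lit 7110127530) (nat_lit 7) (nat_lit 4) (nat_lit 8) (nat_lit 5) (nat_lit 8) (nat_lit 4) (nat_lit 335) (nat_lit 239) (nat_lit 206)) (XT.lf (nat_lit 0) (nat_lit 35056903250) (nat_lit 76) (nat_lit 14214788441) (nat_lit 76) (nat_lit 2387357489) (nat_lit 7) (nat_lit 4) (nat_lit 8) (nat_lit 5) (nat_lit 8) (nat_lit 4) (nat_lit 336) (nat_lit 239) (nat_lit 205))) (XT.nd (nat_lit 78) (nat_lit 76) (nat_lit 0) (XT.lf (nat_lit 0) (nat_lit 2445245016) (nat_lit 152) (nat_lit 6995999490) (nat_lit 76) (nat_lit 44631422717) (nat_lit 6) (nat_lit 5) (nat_lit 8) (nat_lit 5) (nat_lit 7) (nat_lit 4) (nat_lit 337) (nat_lit 239) (nat_lit 204)) (XT.lf (nat_lit 0) (nat_lit 2990462531) (nat_lit 76) (nat_lit 4436345256) (nat_lit 152) (nat_lit 49180769963) (nat_lit 5) (nat_lit 5) (nat_lit 6) (nat_lit 5) (nat_lit 7) (nat_lit 4) (nat_lit 338) (nat_lit 239) (nat_lit 203)))))) (XT.nd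 (nat_lit 468) (nat_lit 76) (nat_lit 0) (XT.nd (nat_lit 234) (nat_lit 0) (nat_lit 0) (XT.nd (nat_lit 78) (nat_lit 0) (nat_lit 0) (XT.lf (nat_lit 0) (nat_lit 12667170601) (nat_lit 152) (nat_lit 45785167773) (nat_lit 0) (nat_lit 816624558) (nat_lit 5) (nat_lit 5) (nat_lit 7) (nat_lit 4) (nat_lit 5) (nat_lit 4) (nat_lit 339) (nat_lit 239) (nat_lit 202)) (XT.nd (nat_lit 78) (nat_lit 0) (nat_lit 0) (XT.lf (nat_lit 0) (nat_lit 18146824300) (nat_lit 152) (nat_lit 37732070655) (nat_lit 0) (nat_lit 6185224031) (nat_lit 5) (nat_lit 5) (nat_lit 7) (nat_lit 4) (nat_lit 5) (nat_lit 4) (nat_lit 340) (nat_lit 239) (nat_lit 201)) (XT.lf (nat_lit 0) (nat_lit 23836170816) (nat_lit 152) (nat_lit 29396004961) (nat_lit 0) (nat_lit 11768804617) (nat_lit 5) (nat_lit 5) (nat_lit 7) (nat_lit 4) (nat_lit 5) (nat_lit 4) (nat_lit 341) (nat_lit 239) (nat_lit 200)))) (XT.nd (nat_lit 78) (nat_lit 0) (nat_lit 0) (XT.lf (nat_lit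 0) (nat_lit 29748756211) (nat_lit 152) (nat_lit 20757122915) (nat_lit 0) (nat_lit 17580660556) (nat_lit 5) (nat_lit 5) (nat_lit 7) (nat_lit 4) (nat_lit 5) (nat_lit 4) (nat_lit 342) (nat_lit 239) (nat_lit 199)) (XT.nd (nat_lit 78) (nat_lit 0) (nat_lit 0) (XT.lf (nat_lit 0) (nat_lit 35898658070) (nat_lit 152) (nat_lit 11794855751) (nat_lit 0) (nat_lit 23634629598) (nat_lit 5) (nat_lit 5) (nat_lit 7) (nat_lit 4) (nat_lit 5) (nat_lit 4) (nat_lit 343) (nat_lit 239) (nat_lit 198)) (XT.lf (nat_lit 0) (nat_lit 42300519016) (nat_lit 152) (nat_lit 2487864737) (nat_lit 0) (nat_lit 29945125957) (nat_lit 5) (nat_lit 5) (nat_lit 7) (nat_lit 4) (nat_lit 5) (nat_lit 4) (nat_lit 344) (nat_lit 239) (nat_lit 197))))) (XT.nd (nat_lit 234) (nat_lit 0) (nat_lit 0) (XT.nd (nat_lit 78) (nat_lit 0) (nat_lit 0) (XT.lf (nat_lit 0) (nat_lit 7329025310) (nat_lit 76) (nat_lit 41711007339) (nat_lit 76) (nat_lit 29268600389)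 (nat_lit 4) (nat_lit 4) (nat_lit 5) (nat_lit 5) (nat_lit 5) (nat_lit 4) (nat_lit 345) (nat_lit 239) (nat_lit 196)) (XT.nd (nat_lit 78) (nat_lit 0) (nat_lit 0) (XT.lf (nat_lit 0) (nat_lit 17593105231) (nat_lit 76) (nat_lit 38497734926) (nat_lit 76) (nat_lit 25972457602) (nat_lit 4) (nat_lit 4) (nat_lit 5) (nat_lit 5) (nat_lit 5) (nat_lit 4) (nat_lit 346) (nat_lit 239) (nat_lit 195)) (XT.lf (nat_lit 0) (nat_lit 28279299924) (nat_lit 76) (nat_lit 35166038420) (nat_lit 76) (nat_lit 22561836931) (nat_lit 4) (nat_lit 4) (nat_lit 5) (nat_lit 5) (nat_lit 5) (nat_lit 4) (nat_lit 347) (nat_lit 239) (nat_lit 194)))) (XT.nd (nat_lit 156) (nat_lit 0) (nat_lit 0) (XT.nd (nat_lit 78) (nat_lit 0) (nat_lit 0) (XT.lf (nat_lit 0) (nat_lit 39413052711) (nat_lit 76) (nat_lit 31707985211) (nat_lit 76) (nat_lit 19028617850) (nat_lit 4) (nat_lit 4) (nat_lit 5) (nat_lit 5) (nat_lit 5) (nat_lit 4) (nat_lit 348) (nat_lit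 239) (nat_lit 193)) (XT.lf (nat_lit 0) (nat_lit 51020872527) (nat_lit 76) (nat_lit 28115341839) (nat_lit 76) (nat_lit 15364387933) (nat_lit 4) (nat_lit 4) (nat_lit 5) (nat_lit 5) (nat_lit 5) (nat_lit 4) (nat_lit 349) (nat_lit 239) (nat_lit 192))) (XT.nd (nat_lit 78) (nat_lit 0) (nat_lit 0) (XT.lf (nat_lit 0) (nat_lit 63130397037) (nat_lit 76) (nat_lit 24379554391) (nat_lit 76) (nat_lit 11560422824) (nat_lit 4) (nat_lit 4) (nat_lit 5) (nat_lit 5) (nat_lit 5) (nat_lit 4) (nat_lit 350) (nat_lit 239) (nat_lit 191)) (XT.lf (nat_lit 0) (nat_lit 75770458442) (nat_lit 76) (nat_lit 20491728135) (nat_lit 76) (nat_lit 7607665462) (nat_lit 4) (nat_lit 4) (nat_lit 5) (nat_lit 5) (nat_lit 5) (nat_lit 4) (nat_lit 351) (nat_lit 239) (nat_lit 190))))))) (XT.nd (nat_lit 36738) (nat_lit 0) (nat_lit 1216) (XT.nd (nat_lit 468) (nat_lit 0) (nat_lit 0) (XT.nd (nat_lit 234) (nat_lit 76) (nat_lit 0) (XT.nd (nat_lit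 78) (nat_lit 76) (nat_lit 0) (XT.lf (nat_lit 0) (nat_lit 88971152128) (nat_lit 76) (nat_lit 16442606341) (nat_lit 76) (nat_lit 3496704520) (nat_lit 4) (nat_lit 4) (nat_lit 5) (nat_lit 5) (nat_lit 5) (nat_lit 4) (nat_lit 352) (nat_lit 239) (nat_lit 189)) (XT.nd (nat_lit 78) (nat_lit 0) (nat_lit 0) (XT.lf (nat_lit 0) (nat_lit 766983527) (nat_lit 152) (nat_lit 11447819688) (nat_lit 76) (nat_lit 101989179761) (nat_lit 3) (nat_lit 5) (nat_lit 5) (nat_lit 5) (nat_lit 4) (nat_lit 4) (nat_lit 353) (nat_lit 239) (nat_lit 188)) (XT.lf (nat_lit 0) (nat_lit 5137140914) (nat_lit 152) (nat_lit 2632490123) (nat_lit 76) (nat_lit 111992550941) (nat_lit 3) (nat_lit 5) (nat_lit 5) (nat_lit 5) (nat_lit 4) (nat_lit 4) (nat_lit 354) (nat_lit 239) (nat_lit 187)))) (XT.nd (nat_lit 78) (nat_lit 0) (nat_lit 0) (XT.lf (nat_lit 0) (nat_lit 6691861495) (nat_lit 76) (nat_lit 3064870847) (nat_lit 152) (nat_lit 115840640048)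 (nat_lit 2) (nat_lit 5) (nat_lit 3) (nat_lit 5) (nat_lit 4) (nat_lit 4) (nat_lit 355) (nat_lit 239) (nat_lit 186)) (XT.nd (nat_lit 78) (nat_lit 0) (nat_lit 0) (XT.lf (nat_lit 0) (nat_lit 14620033543) (nat_lit 152) (nat_lit 115265610664) (nat_lit 0) (nat_lit 1838305017) (nat_lit 2) (nat_lit 5) (nat_lit 4) (nat_lit 4) (nat_lit 2) (nat_lit 4) (nat_lit 356) (nat_lit 239) (nat_lit 185)) (XT.lf (nat_lit 0) (nat_lit 19726327483) (nat_lit 152) (nat_lit 111532983362) (nat_lit 0) (nat_lit 6897557607) (nat_lit 2) (nat_lit 5) (nat_lit 4) (nat_lit 4) (nat_lit 2) (nat_lit 4) (nat_lit 357) (nat_lit 239) (nat_lit 184))))) (XT.nd (nat_lit 234) (nat_lit 0) (nat_lit 0) (XT.nd (nat_lit 78) (nat_lit 0) (nat_lit 0) (XT.lf (nat_lit 0) (nat_lit 25058310593) (nat_lit 152) (nat_lit 107669280370) (nat_lit 0) (nat_lit 12184739431) (nat_lit 2) (nat_lit 5) (nat_lit 4) (nat_lit 4) (nat_lit 2) (nat_lit 4) (nat_lit 358)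 (nat_lit 239) (nat_lit 183)) (XT.nd (nat_lit 78) (nat_lit 0) (nat_lit 0) (XT.lf (nat_lit 0) (nat_lit 30628678072) (nat_lit 152) (nat_lit 103665302395) (nat_lit 0) (nat_lit 17712439017) (nat_lit 2) (nat_lit 5) (nat_lit 4) (nat_lit 4) (nat_lit 2) (nat_lit 4) (nat_lit 359) (nat_lit 239) (nat_lit 182)) (XT.lf (nat_lit 0) (nat_lit 36450692697) (nat_lit 152) (nat_lit 99511516155) (nat_lit 0) (nat_lit 23493817556) (nat_lit 2) (nat_lit 5) (nat_lit 4) (nat_lit 4) (nat_lit 2) (nat_lit 4) (nat_lit 360) (nat_lit 239) (nat_lit 181)))) (XT.nd (nat_lit 35880) (nat_lit 0) (nat_lit 3116) (XT.nd (nat_lit 78) (nat_lit 0) (nat_lit 0) (XT.lf (nat_lit 0) (nat_lit 42538216410) (nat_lit 152) (nat_lit 95198031684) (nat_lit 0) (nat_lit 29542640233) (nat_lit 2) (nat_lit 5) (nat_lit 4) (nat_lit 4) (nat_lit 2) (nat_lit 4) (nat_lit 361) (nat_lit 239) (nat_lit 180)) (XT.lf (nat_lit 0) (nat_lit 48905743315) (nat_lit 152)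 (nat_lit 90714578780) (nat_lit 0) (nat_lit 35873309008) (nat_lit 2) (nat_lit 5) (nat_lit 4) (nat_lit 4) (nat_lit 2) (nat_lit 4) (nat_lit 362) (nat_lit 239) (nat_lit 179))) (XT.nd (nat_lit 78) (nat_lit 228) (nat_lit 0) (XT.lf (nat_lit 0) (nat_lit 967497142) (nat_lit 228) (nat_lit 4303558379) (nat_lit 0) (nat_lit 967497142) (nat_lit 46) (nat_lit 5) (nat_lit 49) (nat_lit 4) (nat_lit 46) (nat_lit 4) (nat_lit 300) (nat_lit 240) (nat_lit 240)) (XT.lf (nat_lit 0) (nat_lit 3835116482) (nat_lit 228) (nat_lit 4989951731) (nat_lit 228) (nat_lit 4036934611) (nat_lit 43) (nat_lit 4) (nat_lit 46) (nat_lit 5) (nat_lit 46) (nat_lit 4) (nat_lit 301) (nat_lit 240) (nat_lit 239)))))) (XT.nd (nat_lit 546) (nat_lit 760) (nat_lit 0) (XT.nd (nat_lit 234) (nat_lit 532) (nat_lit 0) (XT.nd (nat_lit 78) (nat_lit 380) (nat_lit 0) (XT.lf (nat_lit 0) (nat_lit 2618650852) (nat_lit 228) (nat_lit 9838263856) (nat_lit 0)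 (nat_lit 812192141) (nat_lit 40) (nat_lit 5) (nat_lit 43) (nat_lit 4) (nat_lit 40) (nat_lit 4) (nat_lit 302) (nat_lit 240) (nat_lit 238)) (XT.nd (nat_lit 78) (nat_lit 228) (nat_lit 0) (XT.lf (nat_lit 0) (nat_lit 2554000273) (nat_lit 152) (nat_lit 6894728218) (nat_lit 152) (nat_lit 4249032011) (nat_lit 38) (nat_lit 4) (nat_lit 40) (nat_lit 5) (nat_lit 40) (nat_lit 4) (nat_lit 303) (nat_lit 240) (nat_lit 237)) (XT.lf (nat_lit 0) (nat_lit 1222483656) (nat_lit 152) (nat_lit 1076754604) (nat_lit 228) (nat_lit 11851783249) (nat_lit 35) (nat_lit 5) (nat_lit 37) (nat_lit 5) (nat_lit 38) (nat_lit 4) (nat_lit 304) (nat_lit 240) (nat_lit 236)))) (XT.nd (nat_lit 156) (nat_lit 304) (nat_lit 0) (XT.nd (nat_lit 78) (nat_lit 228) (nat_lit 0) (XT.lf (nat_lit 0) (nat_lit 9019151783) (nat_lit 228) (nat_lit 673221438) (nat_lit 0) (nat_lit 4935478811) (nat_lit 35) (nat_lit 5) (nat_lit 38) (nat_lit 4) (nat_lit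 35) (nat_lit 4) (nat_lit 305) (nat_lit 240) (nat_lit 235)) (XT.lf (nat_lit 0) (nat_lit 831769148) (nat_lit 228) (nat_lit 3099031022) (nat_lit 76) (nat_lit 11200461689) (nat_lit 32) (nat_lit 5) (nat_lit 35) (nat_lit 5) (nat_lit 33) (nat_lit 4) (nat_lit 306) (nat_lit 240) (nat_lit 234))) (XT.nd (nat_lit 78) (nat_lit 152) (nat_lit 0) (XT.lf (nat_lit 0) (nat_lit 7380865007) (nat_lit 228) (nat_lit 6198372758) (nat_lit 0) (nat_lit 2081976487) (nat_lit 30) (nat_lit 5) (nat_lit 33) (nat_lit 4) (nat_lit 30) (nat_lit 4) (nat_lit 307) (nat_lit 240) (nat_lit 233)) (XT.lf (nat_lit 0) (nat_lit 6215952688) (nat_lit 152) (nat_lit 7961464099) (nat_lit 152) (nat_lit 2042757936) (nat_lit 28) (nat_lit 4) (nat_lit 30) (nat_lit 5) (nat_lit 30) (nat_lit 4) (nat_lit 308) (nat_lit 240) (nat_lit 232))))) (XT.nd (nat_lit 234) (nat_lit 456) (nat_lit 0) (XT.nd (nat_lit 78) (nat_lit 152) (nat_lit 0) (XT.lf (nat_lit 0)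 (nat_lit 2214676065) (nat_lit 76) (nat_lit 2082705582) (nat_lit 152) (nat_lit 12512145765) (nat_lit 26) (nat_lit 5) (nat_lit 27) (nat_lit 5) (nat_lit 28) (nat_lit 4) (nat_lit 309) (nat_lit 240) (nat_lit 231)) (XT.nd (nat_lit 78) (nat_lit 152) (nat_lit 0) (XT.lf (nat_lit 0) (nat_lit 10853946454) (nat_lit 152) (nat_lit 2586939628) (nat_lit 0) (nat_lit 3988702226) (nat_lit 26) (nat_lit 5) (nat_lit 28) (nat_lit 4) (nat_lit 26) (nat_lit 4) (nat_lit 310) (nat_lit 240) (nat_lit 230)) (XT.lf (nat_lit 0) (nat_lit 9855222921) (nat_lit 152) (nat_lit 7806446647) (nat_lit 152) (nat_lit 421375443) (nat_lit 24) (nat_lit 4) (nat_lit 26) (nat_lit 5) (nat_lit 26) (nat_lit 4) (nat_lit 311) (nat_lit 240) (nat_lit 229)))) (XT.nd (nat_lit 156) (nat_lit 304) (nat_lit 0) (XT.nd (nat_lit 78) (nat_lit 0) (nat_lit 0) (XT.lf (nat_lit 0) (nat_lit 3891182690) (nat_lit 76) (nat_lit 1907500661) (nat_lit 152) (nat_lit 12972556309)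 (nat_lit 22) (nat_lit 5) (nat_lit 23) (nat_lit 5) (nat_lit 24) (nat_lit 4) (nat_lit 312) (nat_lit 240) (nat_lit 228)) (XT.lf (nat_lit 0) (nat_lit 12264036849) (nat_lit 152) (nat_lit 3075827760) (nat_lit 0) (nat_lit 4155645680) (nat_lit 22) (nat_lit 5) (nat_lit 24) (nat_lit 4) (nat_lit 22) (nat_lit 4) (nat_lit 313) (nat_lit 240) (nat_lit 227))) (XT.nd (nat_lit 78) (nat_lit 152) (nat_lit 0) (XT.lf (nat_lit 0) (nat_lit 9167484412) (nat_lit 152) (nat_lit 9817488279) (nat_lit 152) (nat_lit 1273130035) (nat_lit 20) (nat_lit 4) (nat_lit 22) (nat_lit 5) (nat_lit 22) (nat_lit 4) (nat_lit 314) (nat_lit 240) (nat_lit 226)) (XT.lf (nat_lit 0) (nat_lit 689257696) (nat_lit 76) (nat_lit 4063856922) (nat_lit 152) (nat_lit 16308328310) (nat_lit 18) (nat_lit 5) (nat_lit 19) (nat_lit 5) (nat_lit 20) (nat_lit 4) (nat_lit 315) (nat_lit 240) (nat_lit 225))))))))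
noncomputable def xc19 : XT := (XT.nd (nat_lit 2028) (nat_lit 228) (nat_lit 0) (XT.nd (nat_lit 1014) (nat_lit 380) (nat_lit 0) (XT.nd (nat_lit 468) (nat_lit 228) (nat_lit 0) (XT.nd (nat_lit 234) (nat_lit 152) (nat_lit 0) (XT.nd (nat_lit 78) (nat_lit 228) (nat_lit 0) (XT.lf (nat_lit 0) (nat_lit 11021569213) (nat_lit 152) (nat_lit 8945009399) (nat_lit 0) (nat_lit 1939044971) (nat_lit 18) (nat_lit 5) (nat_lit 20) (nat_lit 4) (nat_lit 18) (nat_lit 4) (nat_lit 316) (nat_lit 240) (nat_lit 224)) (XT.nd (nat_lit 78) (nat_lit 76) (nat_lit 0) (XT.lf (nat_lit 0) (nat_lit 2780688789) (nat_lit 152) (nat_lit 14731148922) (nat_lit 152) (nat_lit 5282989001) (nat_lit 16) (nat_lit 4) (nat_lit 18) (nat_lit 5) (nat_lit 18) (nat_lit 4) (nat_lit 317) (nat_lit 240) (nat_lit 223)) (XT.lf (nat_lit 0) (nat_lit 523421917) (nat_lit 228) (nat_lit 8733837886) (nat_lit 76) (nat_lit 14473009057) (nat_lit 15) (nat_lit 5)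 (nat_lit 18) (nat_lit 5) (nat_lit 16) (nat_lit 4) (nat_lit 318) (nat_lit 240) (nat_lit 222)))) (XT.nd (nat_lit 78) (nat_lit 76) (nat_lit 0) (XT.lf (nat_lit 0) (nat_lit 2845008833) (nat_lit 76) (nat_lit 3545649073) (nat_lit 152) (nat_lit 18323920454) (nat_lit 14) (nat_lit 5) (nat_lit 15) (nat_lit 5) (nat_lit 16) (nat_lit 4) (nat_lit 319) (nat_lit 240) (nat_lit 221)) (XT.nd (nat_lit 78) (nat_lit 76) (nat_lit 0) (XT.lf (nat_lit 0) (nat_lit 12520482154) (nat_lit 152) (nat_lit 10847802885) (nat_lit 0) (nat_lit 2380796168) (nat_lit 14) (nat_lit 5) (nat_lit 16) (nat_lit 4) (nat_lit 14) (nat_lit 4) (nat_lit 320) (nat_lit 240) (nat_lit 220)) (XT.lf (nat_lit 0) (nat_lit 447278453) (nat_lit 76) (nat_lit 18411380446) (nat_lit 76) (nat_lit 7979646519) (nat_lit 13) (nat_lit 4) (nat_lit 14) (nat_lit 5) (nat_lit 14) (nat_lit 4) (nat_lit 321) (nat_lit 240) (nat_lit 219))))) (XT.nd (nat_lit 234) (nat_lit 76)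 (nat_lit 0) (XT.nd (nat_lit 78) (nat_lit 152) (nat_lit 0) (XT.lf (nat_lit 0) (nat_lit 12290273162) (nat_lit 76) (nat_lit 13201155774) (nat_lit 76) (nat_lit 2491280951) (nat_lit 13) (nat_lit 4) (nat_lit 14) (nat_lit 5) (nat_lit 14) (nat_lit 4) (nat_lit 322) (nat_lit 240) (nat_lit 218)) (XT.nd (nat_lit 78) (nat_lit 76) (nat_lit 0) (XT.lf (nat_lit 0) (nat_lit 3078750475) (nat_lit 152) (nat_lit 4724907447) (nat_lit 76) (nat_lit 21383646482) (nat_lit 12) (nat_lit 5) (nat_lit 14) (nat_lit 5) (nat_lit 13) (nat_lit 4) (nat_lit 323) (nat_lit 240) (nat_lit 217)) (XT.lf (nat_lit 0) (nat_lit 6672687274) (nat_lit 76) (nat_lit 2144918725) (nat_lit 152) (nat_lit 21635570944) (nat_lit 11) (nat_lit 5) (nat_lit 12) (nat_lit 5) (nat_lit 13) (nat_lit 4) (nat_lit 324) (nat_lit 240) (nat_lit 216)))) (XT.nd (nat_lit 156) (nat_lit 76) (nat_lit 0) (XT.nd (nat_lit 78) (nat_lit 0) (nat_lit 0) (XT.lf (nat_lit 0) (nat_lit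 14809065650) (nat_lit 152) (nat_lit 13298605365) (nat_lit 0) (nat_lit 3675743836) (nat_lit 11) (nat_lit 5) (nat_lit 13) (nat_lit 4) (nat_lit 11) (nat_lit 4) (nat_lit 325) (nat_lit 240) (nat_lit 215)) (XT.lf (nat_lit 0) (nat_lit 21007503917) (nat_lit 152) (nat_lit 2523458402) (nat_lit 0) (nat_lit 9652019769) (nat_lit 11) (nat_lit 5) (nat_lit 13) (nat_lit 4) (nat_lit 11) (nat_lit 4) (nat_lit 326) (nat_lit 240) (nat_lit 214))) (XT.nd (nat_lit 78) (nat_lit 0) (nat_lit 0) (XT.lf (nat_lit 0) (nat_lit 8762206815) (nat_lit 76) (nat_lit 18729081591) (nat_lit 76) (nat_lit 7162014269) (nat_lit 10) (nat_lit 4) (nat_lit 11) (nat_lit 5) (nat_lit 11) (nat_lit 4) (nat_lit 327) (nat_lit 240) (nat_lit 213)) (XT.lf (nat_lit 0) (nat_lit 20471377484) (nat_lit 76) (nat_lit 13748379002) (nat_lit 76) (nat_lit 1979803895) (nat_lit 10) (nat_lit 4) (nat_lit 11) (nat_lit 5) (nat_lit 11) (nat_lit 4) (nat_lit 328) (nat_lit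 240) (nat_lit 212)))))) (XT.nd (nat_lit 468) (nat_lit 152) (nat_lit 0) (XT.nd (nat_lit 234) (nat_lit 76) (nat_lit 0) (XT.nd (nat_lit 78) (nat_lit 76) (nat_lit 0) (XT.lf (nat_lit 0) (nat_lit 3292482702) (nat_lit 152) (nat_lit 5276747398) (nat_lit 76) (nat_lit 29255980489) (nat_lit 9) (nat_lit 5) (nat_lit 11) (nat_lit 5) (nat_lit 10) (nat_lit 4) (nat_lit 329) (nat_lit 240) (nat_lit 211)) (XT.nd (nat_lit 78) (nat_lit 0) (nat_lit 0) (XT.lf (nat_lit 0) (nat_lit 5609258946) (nat_lit 76) (nat_lit 3135824665) (nat_lit 152) (nat_lit 30787773907) (nat_lit 8) (nat_lit 5) (nat_lit 9) (nat_lit 5) (nat_lit 10) (nat_lit 4) (nat_lit 330) (nat_lit 240) (nat_lit 210)) (XT.lf (nat_lit 0) (nat_lit 14455403378) (nat_lit 152) (nat_lit 24374131078) (nat_lit 0) (nat_lit 2496829799) (nat_lit 8) (nat_lit 5) (nat_lit 10) (nat_lit 4) (nat_lit 8) (nat_lit 4) (nat_lit 331) (nat_lit 240) (nat_lit 209)))) (XT.nd (nat_lit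 78) (nat_lit 76) (nat_lit 0) (XT.lf (nat_lit 0) (nat_lit 20392922461) (nat_lit 152) (nat_lit 14545005560) (nat_lit 0) (nat_lit 8273396500) (nat_lit 8) (nat_lit 5) (nat_lit 10) (nat_lit 4) (nat_lit 8) (nat_lit 4) (nat_lit 332) (nat_lit 240) (nat_lit 208)) (XT.nd (nat_lit 78) (nat_lit 76) (nat_lit 0) (XT.lf (nat_lit 0) (nat_lit 26541634346) (nat_lit 152) (nat_lit 4382675872) (nat_lit 0) (nat_lit 14268820401) (nat_lit 8) (nat_lit 5) (nat_lit 10) (nat_lit 4) (nat_lit 8) (nat_lit 4) (nat_lit 333) (nat_lit 240) (nat_lit 207)) (XT.lf (nat_lit 0) (nat_lit 6259193414) (nat_lit 76) (nat_lit 26717152603) (nat_lit 76) (nat_lit 14298350104) (nat_lit 7) (nat_lit 4) (nat_lit 8) (nat_lit 5) (nat_lit 8) (nat_lit 4) (nat_lit 334) (nat_lit 240) (nat_lit 206))))) (XT.nd (nat_lit 234) (nat_lit 152) (nat_lit 0) (XT.nd (nat_lit 78) (nat_lit 0) (nat_lit 0) (XT.lf (nat_lit 0) (nat_lit 17378345162) (nat_lit 76) (nat_lit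 22320439499) (nat_lit 76) (nat_lit 9762600280) (nat_lit 7) (nat_lit 4) (nat_lit 8) (nat_lit 5) (nat_lit 8) (nat_lit 4) (nat_lit 335) (nat_lit 240) (nat_lit 205)) (XT.nd (nat_lit 78) (nat_lit 0) (nat_lit 0) (XT.lf (nat_lit 0) (nat_lit 28914029697) (nat_lit 76) (nat_lit 17767958975) (nat_lit 76) (nat_lit 5077703833) (nat_lit 7) (nat_lit 4) (nat_lit 8) (nat_lit 5) (nat_lit 8) (nat_lit 4) (nat_lit 336) (nat_lit 240) (nat_lit 204)) (XT.lf (nat_lit 0) (nat_lit 40893712935) (nat_lit 76) (nat_lit 13048871790) (nat_lit 76) (nat_lit 232506245) (nat_lit 7) (nat_lit 4) (nat_lit 8) (nat_lit 5) (nat_lit 8) (nat_lit 4) (nat_lit 337) (nat_lit 240) (nat_lit 203)))) (XT.nd (nat_lit 156) (nat_lit 0) (nat_lit 0) (XT.nd (nat_lit 78) (nat_lit 76) (nat_lit 0) (XT.lf (nat_lit 0) (nat_lit 4691165278) (nat_lit 152) (nat_lit 3413405174) (nat_lit 76) (nat_lit 48607381082) (nat_lit 6) (nat_lit 5) (nat_lit 8) (nat_lit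 5) (nat_lit 7) (nat_lit 4) (nat_lit 338) (nat_lit 240) (nat_lit 202)) (XT.lf (nat_lit 0) (nat_lit 6959658655) (nat_lit 76) (nat_lit 2897737994) (nat_lit 152) (nat_lit 49518173668) (nat_lit 5) (nat_lit 5) (nat_lit 6) (nat_lit 5) (nat_lit 7) (nat_lit 4) (nat_lit 339) (nat_lit 240) (nat_lit 201))) (XT.nd (nat_lit 78) (nat_lit 0) (nat_lit 0) (XT.lf (nat_lit 0) (nat_lit 15277834607) (nat_lit 152) (nat_lit 44393343265) (nat_lit 0) (nat_lit 2501334169) (nat_lit 5) (nat_lit 5) (nat_lit 7) (nat_lit 4) (nat_lit 5) (nat_lit 4) (nat_lit 340) (nat_lit 240) (nat_lit 200)) (XT.lf (nat_lit 0) (nat_lit 20937313588) (nat_lit 152) (nat_lit 36112880953) (nat_lit 0) (nat_lit 8060083693) (nat_lit 5) (nat_lit 5) (nat_lit 7) (nat_lit 4) (nat_lit 5) (nat_lit 4) (nat_lit 341) (nat_lit 240) (nat_lit 199))))))) (XT.nd (nat_lit 1014) (nat_lit 76) (nat_lit 0) (XT.nd (nat_lit 468) (nat_lit 76) (nat_lit 0) (XT.nd (nat_lit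 234) (nat_lit 76) (nat_lit 0) (XT.nd (nat_lit 78) (nat_lit 0) (nat_lit 0) (XT.lf (nat_lit 0) (nat_lit 26821453712) (nat_lit 152) (nat_lit 27526954509) (nat_lit 0) (nat_lit 13848291000) (nat_lit 5) (nat_lit 5) (nat_lit 7) (nat_lit 4) (nat_lit 5) (nat_lit 4) (nat_lit 342) (nat_lit 240) (nat_lit 198)) (XT.nd (nat_lit 78) (nat_lit 0) (nat_lit 0) (XT.lf (nat_lit 0) (nat_lit 32944264836) (nat_lit 152) (nat_lit 18615121252) (nat_lit 0) (nat_lit 19879737538) (nat_lit 5) (nat_lit 5) (nat_lit 7) (nat_lit 4) (nat_lit 5) (nat_lit 4) (nat_lit 343) (nat_lit 240) (nat_lit 197)) (XT.lf (nat_lit 0) (nat_lit 39320325082) (nat_lit 152) (nat_lit 9356162530) (nat_lit 0) (nat_lit 26168783892) (nat_lit 5) (nat_lit 5) (nat_lit 7) (nat_lit 4) (nat_lit 5) (nat_lit 4) (nat_lit 344) (nat_lit 240) (nat_lit 196)))) (XT.nd (nat_lit 78) (nat_lit 0) (nat_lit 0) (XT.lf (nat_lit 0) (nat_lit 277379468) (nat_lit 76) (nat_lit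 45690102419) (nat_lit 76) (nat_lit 32455690855) (nat_lit 4) (nat_lit 4) (nat_lit 5) (nat_lit 5) (nat_lit 5) (nat_lit 4) (nat_lit 345) (nat_lit 240) (nat_lit 195)) (XT.nd (nat_lit 78) (nat_lit 0) (nat_lit 0) (XT.lf (nat_lit 0) (nat_lit 10497025621) (nat_lit 76) (nat_lit 42497434654) (nat_lit 76) (nat_lit 29184098925) (nat_lit 4) (nat_lit 4) (nat_lit 5) (nat_lit 5) (nat_lit 5) (nat_lit 4) (nat_lit 346) (nat_lit 240) (nat_lit 194)) (XT.lf (nat_lit 0) (nat_lit 21140902441) (nat_lit 76) (nat_lit 39185361622) (nat_lit 76) (nat_lit 25796860021) (nat_lit 4) (nat_lit 4) (nat_lit 5) (nat_lit 5) (nat_lit 5) (nat_lit 4) (nat_lit 347) (nat_lit 240) (nat_lit 193))))) (XT.nd (nat_lit 234) (nat_lit 76) (nat_lit 0) (XT.nd (nat_lit 78) (nat_lit 0) (nat_lit 0) (XT.lf (nat_lit 0) (nat_lit 32234352491) (nat_lit 76) (nat_lit 35745997436) (nat_lit 76) (nat_lit 22285909291) (nat_lit 4) (nat_lit 4) (nat_lit 5) (nat_lit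 5) (nat_lit 5) (nat_lit 4) (nat_lit 348) (nat_lit 240) (nat_lit 192)) (XT.nd (nat_lit 78) (nat_lit 0) (nat_lit 0) (XT.lf (nat_lit 0) (nat_lit 43803788747) (nat_lit 76) (nat_lit 32171153133) (nat_lit 76) (nat_lit 18642887327) (nat_lit 4) (nat_lit 4) (nat_lit 5) (nat_lit 5) (nat_lit 5) (nat_lit 4) (nat_lit 349) (nat_lit 240) (nat_lit 191)) (XT.lf (nat_lit 0) (nat_lit 55876757487) (nat_lit 76) (nat_lit 28452317180) (nat_lit 76) (nat_lit 14859120268) (nat_lit 4) (nat_lit 4) (nat_lit 5) (nat_lit 5) (nat_lit 5) (nat_lit 4) (nat_lit 350) (nat_lit 240) (nat_lit 190)))) (XT.nd (nat_lit 156) (nat_lit 76) (nat_lit 0) (XT.nd (nat_lit 78) (nat_lit 0) (nat_lit 0) (XT.lf (nat_lit 0) (nat_lit 68482003873) (nat_lit 76) (nat_lit 24580635205) (nat_lit 76) (nat_lit 10925599144) (nat_lit 4) (nat_lit 4) (nat_lit 5) (nat_lit 5) (nat_lit 5) (nat_lit 4) (nat_lit 351) (nat_lit 240) (nat_lit 189)) (XT.lf (nat_lit 0)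 (nat_lit 81649540397) (nat_lit 76) (nat_lit 20546888917) (nat_lit 76) (nat_lit 6832958429) (nat_lit 4) (nat_lit 4) (nat_lit 5) (nat_lit 5) (nat_lit 5) (nat_lit 4) (nat_lit 352) (nat_lit 240) (nat_lit 188))) (XT.nd (nat_lit 78) (nat_lit 76) (nat_lit 0) (XT.lf (nat_lit 0) (nat_lit 95410718337) (nat_lit 76) (nat_lit 16341474159) (nat_lit 76) (nat_lit 2571453740) (nat_lit 4) (nat_lit 4) (nat_lit 5) (nat_lit 5) (nat_lit 5) (nat_lit 4) (nat_lit 353) (nat_lit 240) (nat_lit 187)) (XT.lf (nat_lit 0) (nat_lit 1832589242) (nat_lit 152) (nat_lit 10103283239) (nat_lit 76) (nat_lit 107947207602) (nat_lit 3) (nat_lit 5) (nat_lit 5) (nat_lit 5) (nat_lit 4) (nat_lit 4) (nat_lit 354) (nat_lit 240) (nat_lit 186)))))) (XT.nd (nat_lit 546) (nat_lit 0) (nat_lit 0) (XT.nd (nat_lit 234) (nat_lit 0) (nat_lit 0) (XT.nd (nat_lit 78) (nat_lit 76) (nat_lit 0) (XT.lf (nat_lit 0) (nat_lit 6372337520) (nat_lit 152) (nat_lit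 938469454) (nat_lit 76) (nat_lit 118409863111) (nat_lit 3) (nat_lit 5) (nat_lit 5) (nat_lit 5) (nat_lit 4) (nat_lit 4) (nat_lit 355) (nat_lit 240) (nat_lit 185)) (XT.nd (nat_lit 78) (nat_lit 0) (nat_lit 0) (XT.lf (nat_lit 0) (nat_lit 8799767992) (nat_lit 76) (nat_lit 2393599103) (nat_lit 152) (nat_lit 120655152061) (nat_lit 2) (nat_lit 5) (nat_lit 3) (nat_lit 5) (nat_lit 4) (nat_lit 4) (nat_lit 356) (nat_lit 240) (nat_lit 184)) (XT.lf (nat_lit 0) (nat_lit 16262200821) (nat_lit 152) (nat_lit 119320215453) (nat_lit 0) (nat_lit 2700149814) (nat_lit 2) (nat_lit 5) (nat_lit 4) (nat_lit 4) (nat_lit 2) (nat_lit 4) (nat_lit 357) (nat_lit 240) (nat_lit 183)))) (XT.nd (nat_lit 156) (nat_lit 0) (nat_lit 0) (XT.nd (nat_lit 78) (nat_lit 0) (nat_lit 0) (XT.lf (nat_lit 0) (nat_lit 21580420620) (nat_lit 152) (nat_lit 115482322299) (nat_lit 0) (nat_lit 7975701721) (nat_lit 2) (nat_lit 5) (nat_lit 4) (nat_lit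 4) (nat_lit 2) (nat_lit 4) (nat_lit 358) (nat_lit 240) (nat_lit 182)) (XT.lf (nat_lit 0) (nat_lit 27137680183) (nat_lit 152) (nat_lit 111502925121) (nat_lit 0) (nat_lit 13492325197) (nat_lit 2) (nat_lit 5) (nat_lit 4) (nat_lit 4) (nat_lit 2) (nat_lit 4) (nat_lit 359) (nat_lit 240) (nat_lit 181))) (XT.nd (nat_lit 78) (nat_lit 0) (nat_lit 0) (XT.lf (nat_lit 0) (nat_lit 32947211080) (nat_lit 152) (nat_lit 107372549164) (nat_lit 0) (nat_lit 19263155059) (nat_lit 2) (nat_lit 5) (nat_lit 4) (nat_lit 4) (nat_lit 2) (nat_lit 4) (nat_lit 360) (nat_lit 240) (nat_lit 180)) (XT.lf (nat_lit 0) (nat_lit 39022845527) (nat_lit 152) (nat_lit 103081360200) (nat_lit 0) (nat_lit 25301931377) (nat_lit 2) (nat_lit 5) (nat_lit 4) (nat_lit 4) (nat_lit 2) (nat_lit 4) (nat_lit 361) (nat_lit 240) (nat_lit 179))))) (XT.nd (nat_lit 35802) (nat_lit 0) (nat_lit 2736) (XT.nd (nat_lit 35646) (nat_lit 0) (nat_lit 3572) (XT.lf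 (nat_lit 0) (nat_lit 45379049321) (nat_lit 152) (nat_lit 98619141113) (nat_lit 0) (nat_lit 31623032191) (nat_lit 2) (nat_lit 5) (nat_lit 4) (nat_lit 4) (nat_lit 2) (nat_lit 4) (nat_lit 362) (nat_lit 240) (nat_lit 178)) (XT.nd (nat_lit 78) (nat_lit 228) (nat_lit 0) (XT.lf (nat_lit 0) (nat_lit 771788672) (nat_lit 228) (nat_lit 4338025843) (nat_lit 0) (nat_lit 771788672) (nat_lit 52) (nat_lit 5) (nat_lit 55) (nat_lit 4) (nat_lit 52) (nat_lit 4) (nat_lit 298) (nat_lit 241) (nat_lit 241)) (XT.lf (nat_lit 0) (nat_lit 3525344242) (nat_lit 228) (nat_lit 4808645025) (nat_lit 228) (nat_lit 3777957010) (nat_lit 49) (nat_lit 4) (nat_lit 52) (nat_lit 5) (nat_lit 52) (nat_lit 4) (nat_lit 299) (nat_lit 241) (nat_lit 240)))) (XT.nd (nat_lit 156) (nat_lit 380) (nat_lit 0) (XT.nd (nat_lit 78) (nat_lit 228) (nat_lit 0) (XT.lf (nat_lit 0) (nat_lit 2810547314) (nat_lit 228) (nat_lit 8813532116) (nat_lit 0) (nat_lit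 856862219) (nat_lit 46) (nat_lit 5) (nat_lit 49) (nat_lit 4) (nat_lit 46) (nat_lit 4) (nat_lit 300) (nat_lit 241) (nat_lit 239)) (XT.lf (nat_lit 0) (nat_lit 3424094552) (nat_lit 228) (nat_lit 6153418604) (nat_lit 228) (nat_lit 3292098156) (nat_lit 43) (nat_lit 4) (nat_lit 46) (nat_lit 5) (nat_lit 46) (nat_lit 4) (nat_lit 301) (nat_lit 241) (nat_lit 238))) (XT.nd (nat_lit 78) (nat_lit 152) (nat_lit 0) (XT.lf (nat_lit 0) (nat_lit 2807589146) (nat_lit 152) (nat_lit 410797166) (nat_lit 228) (nat_lit 10062104203) (nat_lit 40) (nat_lit 5) (nat_lit 42) (nat_lit 5) (nat_lit 43) (nat_lit 4) (nat_lit 302) (nat_lit 241) (nat_lit 237)) (XT.lf (nat_lit 0) (nat_lit 1716434476) (nat_lit 152) (nat_lit 8206518422) (nat_lit 152) (nat_lit 3790026102) (nat_lit 38) (nat_lit 4) (nat_lit 40) (nat_lit 5) (nat_lit 40) (nat_lit 4) (nat_lit 303) (nat_lit 241) (nat_lit 236))))))))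
noncomputable def xc20 : XT := (XT.nd (nat_lit 2028) (nat_lit 532) (nat_lit 0) (XT.nd (nat_lit 1014) (nat_lit 684) (nat_lit 0) (XT.nd (nat_lit 468) (nat_lit 608) (nat_lit 0) (XT.nd (nat_lit 234) (nat_lit 456) (nat_lit 0) (XT.nd (nat_lit 78) (nat_lit 228) (nat_lit 0) (XT.lf (nat_lit 0) (nat_lit 157152949) (nat_lit 152) (nat_lit 2470856123) (nat_lit 228) (nat_lit 11541801181) (nat_lit 35) (nat_lit 5) (nat_lit 37) (nat_lit 5) (nat_lit 38) (nat_lit 4) (nat_lit 304) (nat_lit 241) (nat_lit 235)) (XT.nd (nat_lit 78) (nat_lit 228) (nat_lit 0) (XT.lf (nat_lit 0) (nat_lit 9226306347) (nat_lit 228) (nat_lit 1928485707) (nat_lit 0) (nat_lit 3495558413) (nat_lit 35) (nat_lit 5) (nat_lit 38) (nat_lit 4) (nat_lit 35) (nat_lit 4) (nat_lit 305) (nat_lit 241) (nat_lit 234)) (XT.lf (nat_lit 0) (nat_lit 894513681) (nat_lit 228) (nat_lit 4585217941) (nat_lit 76) (nat_lit 9677581262) (nat_lit 32) (nat_lit 5) (nat_lit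 35) (nat_lit 5) (nat_lit 33) (nat_lit 4) (nat_lit 306) (nat_lit 241) (nat_lit 233)))) (XT.nd (nat_lit 78) (nat_lit 304) (nat_lit 0) (XT.lf (nat_lit 0) (nat_lit 7310765259) (nat_lit 228) (nat_lit 7904233100) (nat_lit 0) (nat_lit 476306144) (nat_lit 30) (nat_lit 5) (nat_lit 33) (nat_lit 4) (nat_lit 30) (nat_lit 4) (nat_lit 307) (nat_lit 241) (nat_lit 232)) (XT.nd (nat_lit 78) (nat_lit 152) (nat_lit 0) (XT.lf (nat_lit 0) (nat_lit 4302622294) (nat_lit 152) (nat_lit 9687978564) (nat_lit 152) (nat_lit 2263216931) (nat_lit 28) (nat_lit 4) (nat_lit 30) (nat_lit 5) (nat_lit 30) (nat_lit 4) (nat_lit 308) (nat_lit 241) (nat_lit 231)) (XT.lf (nat_lit 0) (nat_lit 60567697) (nat_lit 76) (nat_lit 3903728955) (nat_lit 152) (nat_lit 12882492705) (nat_lit 26) (nat_lit 5) (nat_lit 27) (nat_lit 5) (nat_lit 28) (nat_lit 4) (nat_lit 309) (nat_lit 241) (nat_lit 230))))) (XT.nd (nat_lit 234) (nat_lit 304) (nat_lit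 0) (XT.nd (nat_lit 78) (nat_lit 304) (nat_lit 0) (XT.lf (nat_lit 0) (nat_lit 10409490513) (nat_lit 152) (nat_lit 4925407296) (nat_lit 0) (nat_lit 2135338773) (nat_lit 26) (nat_lit 5) (nat_lit 28) (nat_lit 4) (nat_lit 26) (nat_lit 4) (nat_lit 310) (nat_lit 241) (nat_lit 229)) (XT.nd (nat_lit 78) (nat_lit 152) (nat_lit 0) (XT.lf (nat_lit 0) (nat_lit 7310331301) (nat_lit 152) (nat_lit 9793022933) (nat_lit 152) (nat_lit 1023797883) (nat_lit 24) (nat_lit 4) (nat_lit 26) (nat_lit 5) (nat_lit 26) (nat_lit 4) (nat_lit 311) (nat_lit 241) (nat_lit 228)) (XT.lf (nat_lit 0) (nat_lit 1099446402) (nat_lit 76) (nat_lit 3994233322) (nat_lit 152) (nat_lit 13725310671) (nat_lit 22) (nat_lit 5) (nat_lit 23) (nat_lit 5) (nat_lit 24) (nat_lit 4) (nat_lit 312) (nat_lit 241) (nat_lit 227)))) (XT.nd (nat_lit 156) (nat_lit 152) (nat_lit 0) (XT.nd (nat_lit 78) (nat_lit 152) (nat_lit 0) (XT.lf (nat_lit 0) (nat_lit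 11453578338) (nat_lit 152) (nat_lit 6046849136) (nat_lit 0) (nat_lit 2046035108) (nat_lit 22) (nat_lit 5) (nat_lit 24) (nat_lit 4) (nat_lit 22) (nat_lit 4) (nat_lit 313) (nat_lit 241) (nat_lit 226)) (XT.lf (nat_lit 0) (nat_lit 5990085972) (nat_lit 152) (nat_lit 12072555648) (nat_lit 152) (nat_lit 2249805680) (nat_lit 20) (nat_lit 4) (nat_lit 22) (nat_lit 5) (nat_lit 22) (nat_lit 4) (nat_lit 314) (nat_lit 241) (nat_lit 225))) (XT.nd (nat_lit 78) (nat_lit 76) (nat_lit 0) (XT.lf (nat_lit 0) (nat_lit 3709253242) (nat_lit 228) (nat_lit 2688400871) (nat_lit 76) (nat_lit 14721035751) (nat_lit 19) (nat_lit 5) (nat_lit 22) (nat_lit 5) (nat_lit 20) (nat_lit 4) (nat_lit 315) (nat_lit 241) (nat_lit 224)) (XT.lf (nat_lit 0) (nat_lit 9411243879) (nat_lit 76) (nat_lit 443945078) (nat_lit 152) (nat_lit 12111388922) (nat_lit 18) (nat_lit 5) (nat_lit 19) (nat_lit 5) (nat_lit 20) (nat_lit 4) (nat_lit 316) (nat_lit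 241) (nat_lit 223)))))) (XT.nd (nat_lit 468) (nat_lit 304) (nat_lit 0) (XT.nd (nat_lit 234) (nat_lit 152) (nat_lit 0) (XT.nd (nat_lit 78) (nat_lit 228) (nat_lit 0) (XT.lf (nat_lit 0) (nat_lit 16240427319) (nat_lit 152) (nat_lit 1012535609) (nat_lit 0) (nat_lit 5605999265) (nat_lit 18) (nat_lit 5) (nat_lit 20) (nat_lit 4) (nat_lit 18) (nat_lit 4) (nat_lit 317) (nat_lit 241) (nat_lit 222)) (XT.nd (nat_lit 78) (nat_lit 76) (nat_lit 0) (XT.lf (nat_lit 0) (nat_lit 11059244374) (nat_lit 152) (nat_lit 11851931704) (nat_lit 152) (nat_lit 885861310) (nat_lit 16) (nat_lit 4) (nat_lit 18) (nat_lit 5) (nat_lit 18) (nat_lit 4) (nat_lit 318) (nat_lit 241) (nat_lit 221)) (XT.lf (nat_lit 0) (nat_lit 4902277617) (nat_lit 228) (nat_lit 1330296677) (nat_lit 76) (nat_lit 18551946226) (nat_lit 15) (nat_lit 5) (nat_lit 18) (nat_lit 5) (nat_lit 16) (nat_lit 4) (nat_lit 319) (nat_lit 241) (nat_lit 220)))) (XT.nd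 (nat_lit 78) (nat_lit 76) (nat_lit 0) (XT.lf (nat_lit 0) (nat_lit 10602753670) (nat_lit 76) (nat_lit 326055832) (nat_lit 152) (nat_lit 14893338031) (nat_lit 14) (nat_lit 5) (nat_lit 15) (nat_lit 5) (nat_lit 16) (nat_lit 4) (nat_lit 320) (nat_lit 241) (nat_lit 219)) (XT.nd (nat_lit 78) (nat_lit 76) (nat_lit 0) (XT.lf (nat_lit 0) (nat_lit 17195336307) (nat_lit 152) (nat_lit 4046382274) (nat_lit 0) (nat_lit 5671826848) (nat_lit 14) (nat_lit 5) (nat_lit 16) (nat_lit 4) (nat_lit 14) (nat_lit 4) (nat_lit 321) (nat_lit 241) (nat_lit 218)) (XT.lf (nat_lit 0) (nat_lit 7602944270) (nat_lit 76) (nat_lit 16123245850) (nat_lit 76) (nat_lit 4334840299) (nat_lit 13) (nat_lit 4) (nat_lit 14) (nat_lit 5) (nat_lit 14) (nat_lit 4) (nat_lit 322) (nat_lit 241) (nat_lit 217))))) (XT.nd (nat_lit 234) (nat_lit 152) (nat_lit 0) (XT.nd (nat_lit 78) (nat_lit 76) (nat_lit 0) (XT.lf (nat_lit 0) (nat_lit 1211275430) (nat_lit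 152) (nat_lit 9581798417) (nat_lit 76) (nat_lit 18474900735) (nat_lit 12) (nat_lit 5) (nat_lit 14) (nat_lit 5) (nat_lit 13) (nat_lit 4) (nat_lit 323) (nat_lit 241) (nat_lit 216)) (XT.nd (nat_lit 78) (nat_lit 0) (nat_lit 0) (XT.lf (nat_lit 0) (nat_lit 1613295085) (nat_lit 76) (nat_lit 5231163629) (nat_lit 152) (nat_lit 23692578859) (nat_lit 11) (nat_lit 5) (nat_lit 12) (nat_lit 5) (nat_lit 13) (nat_lit 4) (nat_lit 324) (nat_lit 241) (nat_lit 215)) (XT.lf (nat_lit 0) (nat_lit 12750522930) (nat_lit 152) (nat_lit 18514231491) (nat_lit 0) (nat_lit 605102241) (nat_lit 11) (nat_lit 5) (nat_lit 13) (nat_lit 4) (nat_lit 11) (nat_lit 4) (nat_lit 325) (nat_lit 241) (nat_lit 214)))) (XT.nd (nat_lit 156) (nat_lit 76) (nat_lit 0) (XT.nd (nat_lit 78) (nat_lit 76) (nat_lit 0) (XT.lf (nat_lit 0) (nat_lit 18895886376) (nat_lit 152) (nat_lit 7836265654) (nat_lit 0) (nat_lit 6538882513) (nat_lit 11) (nat_lit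 5) (nat_lit 13) (nat_lit 4) (nat_lit 11) (nat_lit 4) (nat_lit 326) (nat_lit 241) (nat_lit 213)) (XT.lf (nat_lit 0) (nat_lit 3249268833) (nat_lit 76) (nat_lit 22026860851) (nat_lit 76) (nat_lit 9468349203) (nat_lit 10) (nat_lit 4) (nat_lit 11) (nat_lit 5) (nat_lit 11) (nat_lit 4) (nat_lit 327) (nat_lit 241) (nat_lit 212))) (XT.nd (nat_lit 78) (nat_lit 76) (nat_lit 0) (XT.lf (nat_lit 0) (nat_lit 14868539075) (nat_lit 76) (nat_lit 17087054084) (nat_lit 76) (nat_lit 4336630260) (nat_lit 10) (nat_lit 4) (nat_lit 11) (nat_lit 5) (nat_lit 11) (nat_lit 4) (nat_lit 328) (nat_lit 241) (nat_lit 211)) (XT.lf (nat_lit 0) (nat_lit 934497783) (nat_lit 152) (nat_lit 11036166825) (nat_lit 76) (nat_lit 25949318569) (nat_lit 9) (nat_lit 5) (nat_lit 11) (nat_lit 5) (nat_lit 10) (nat_lit 4) (nat_lit 329) (nat_lit 241) (nat_lit 210))))))) (XT.nd (nat_lit 1014) (nat_lit 228) (nat_lit 0) (XT.nd (nat_lit 468) (nat_lit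 152) (nat_lit 0) (XT.nd (nat_lit 234) (nat_lit 76) (nat_lit 0) (XT.nd (nat_lit 78) (nat_lit 76) (nat_lit 0) (XT.lf (nat_lit 0) (nat_lit 6288275516) (nat_lit 152) (nat_lit 342068028) (nat_lit 76) (nat_lit 33000265953) (nat_lit 9) (nat_lit 5) (nat_lit 11) (nat_lit 5) (nat_lit 10) (nat_lit 4) (nat_lit 330) (nat_lit 241) (nat_lit 209)) (XT.nd (nat_lit 78) (nat_lit 0) (nat_lit 0) (XT.lf (nat_lit 0) (nat_lit 10939224194) (nat_lit 76) (nat_lit 988003625) (nat_lit 152) (nat_lit 29499043434) (nat_lit 8) (nat_lit 5) (nat_lit 9) (nat_lit 5) (nat_lit 10) (nat_lit 4) (nat_lit 331) (nat_lit 241) (nat_lit 208)) (XT.lf (nat_lit 0) (nat_lit 17813452948) (nat_lit 152) (nat_lit 20725620396) (nat_lit 0) (nat_lit 4773710323) (nat_lit 8) (nat_lit 5) (nat_lit 10) (nat_lit 4) (nat_lit 8) (nat_lit 4) (nat_lit 332) (nat_lit 241) (nat_lit 207)))) (XT.nd (nat_lit 78) (nat_lit 76) (nat_lit 0) (XT.lf (nat_lit 0) (nat_lit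 23922358490) (nat_lit 152) (nat_lit 10636810851) (nat_lit 0) (nat_lit 10736627310) (nat_lit 8) (nat_lit 5) (nat_lit 10) (nat_lit 4) (nat_lit 8) (nat_lit 4) (nat_lit 333) (nat_lit 241) (nat_lit 206)) (XT.nd (nat_lit 78) (nat_lit 76) (nat_lit 0) (XT.lf (nat_lit 0) (nat_lit 30258992164) (nat_lit 152) (nat_lit 187100155) (nat_lit 0) (nat_lit 16934224265) (nat_lit 8) (nat_lit 5) (nat_lit 10) (nat_lit 4) (nat_lit 8) (nat_lit 4) (nat_lit 334) (nat_lit 241) (nat_lit 205)) (XT.lf (nat_lit 0) (nat_lit 10860315834) (nat_lit 76) (nat_lit 26082521357) (nat_lit 76) (nat_lit 12625337535) (nat_lit 7) (nat_lit 4) (nat_lit 8) (nat_lit 5) (nat_lit 8) (nat_lit 4) (nat_lit 335) (nat_lit 241) (nat_lit 204))))) (XT.nd (nat_lit 234) (nat_lit 76) (nat_lit 0) (XT.nd (nat_lit 78) (nat_lit 76) (nat_lit 0) (XT.lf (nat_lit 0) (nat_lit 22331226943) (nat_lit 76) (nat_lit 21559805402) (nat_lit 76) (nat_lit 7976511176) (nat_lit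 7) (nat_lit 4) (nat_lit 8) (nat_lit 5) (nat_lit 8) (nat_lit 4) (nat_lit 336) (nat_lit 241) (nat_lit 203)) (XT.nd (nat_lit 78) (nat_lit 76) (nat_lit 0) (XT.lf (nat_lit 0) (nat_lit 34249221204) (nat_lit 76) (nat_lit 16869065426) (nat_lit 76) (nat_lit 3165666055) (nat_lit 7) (nat_lit 4) (nat_lit 8) (nat_lit 5) (nat_lit 8) (nat_lit 4) (nat_lit 337) (nat_lit 241) (nat_lit 202)) (XT.lf (nat_lit 0) (nat_lit 1783163767) (nat_lit 152) (nat_lit 10197962776) (nat_lit 76) (nat_lit 44841504569) (nat_lit 6) (nat_lit 5) (nat_lit 8) (nat_lit 5) (nat_lit 7) (nat_lit 4) (nat_lit 338) (nat_lit 241) (nat_lit 201)))) (XT.nd (nat_lit 156) (nat_lit 0) (nat_lit 0) (XT.nd (nat_lit 78) (nat_lit 76) (nat_lit 0) (XT.lf (nat_lit 0) (nat_lit 6851943960) (nat_lit 152) (nat_lit 17277890) (nat_lit 76) (nat_lit 52619960775) (nat_lit 6) (nat_lit 5) (nat_lit 8) (nat_lit 5) (nat_lit 7) (nat_lit 4) (nat_lit 339) (nat_lit 241)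 (nat_lit 200)) (XT.lf (nat_lit 0) (nat_lit 10772197595) (nat_lit 76) (nat_lit 1445867955) (nat_lit 152) (nat_lit 50069697051) (nat_lit 5) (nat_lit 5) (nat_lit 6) (nat_lit 5) (nat_lit 7) (nat_lit 4) (nat_lit 340) (nat_lit 241) (nat_lit 199))) (XT.nd (nat_lit 78) (nat_lit 0) (nat_lit 0) (XT.lf (nat_lit 0) (nat_lit 17835200692) (nat_lit 152) (nat_lit 43274159728) (nat_lit 0) (nat_lit 4117447029) (nat_lit 5) (nat_lit 5) (nat_lit 7) (nat_lit 4) (nat_lit 5) (nat_lit 4) (nat_lit 341) (nat_lit 241) (nat_lit 198)) (XT.lf (nat_lit 0) (nat_lit 23692250082) (nat_lit 152) (nat_lit 34738667191) (nat_lit 0) (nat_lit 9883131832) (nat_lit 5) (nat_lit 5) (nat_lit 7) (nat_lit 4) (nat_lit 5) (nat_lit 4) (nat_lit 342) (nat_lit 241) (nat_lit 197)))))) (XT.nd (nat_lit 546) (nat_lit 152) (nat_lit 0) (XT.nd (nat_lit 234) (nat_lit 76) (nat_lit 0) (XT.nd (nat_lit 78) (nat_lit 0) (nat_lit 0) (XT.lf (nat_lit 0) (nat_lit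 29789260506) (nat_lit 152) (nat_lit 25874866226) (nat_lit 0) (nat_lit 15893128364) (nat_lit 5) (nat_lit 5) (nat_lit 7) (nat_lit 4) (nat_lit 5) (nat_lit 4) (nat_lit 343) (nat_lit 241) (nat_lit 196)) (XT.nd (nat_lit 78) (nat_lit 0) (nat_lit 0) (XT.lf (nat_lit 0) (nat_lit 36140748658) (nat_lit 152) (nat_lit 16661652544) (nat_lit 0) (nat_lit 22161746142) (nat_lit 5) (nat_lit 5) (nat_lit 7) (nat_lit 4) (nat_lit 5) (nat_lit 4) (nat_lit 344) (nat_lit 241) (nat_lit 195)) (XT.lf (nat_lit 0) (nat_lit 42761837127) (nat_lit 152) (nat_lit 7077089923) (nat_lit 0) (nat_lit 28703910446) (nat_lit 5) (nat_lit 5) (nat_lit 7) (nat_lit 4) (nat_lit 5) (nat_lit 4) (nat_lit 345) (nat_lit 241) (nat_lit 194)))) (XT.nd (nat_lit 156) (nat_lit 0) (nat_lit 0) (XT.nd (nat_lit 78) (nat_lit 0) (nat_lit 0) (XT.lf (nat_lit 0) (nat_lit 2959390390) (nat_lit 76) (nat_lit 46737347490) (nat_lit 76) (nat_lit 32604254938) (nat_lit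 4) (nat_lit 4) (nat_lit 5) (nat_lit 5) (nat_lit 5) (nat_lit 4) (nat_lit 346) (nat_lit 241) (nat_lit 193)) (XT.lf (nat_lit 0) (nat_lit 13562964473) (nat_lit 76) (nat_lit 43443963481) (nat_lit 76) (nat_lit 29239284385) (nat_lit 4) (nat_lit 4) (nat_lit 5) (nat_lit 5) (nat_lit 5) (nat_lit 4) (nat_lit 347) (nat_lit 241) (nat_lit 192))) (XT.nd (nat_lit 78) (nat_lit 0) (nat_lit 0) (XT.lf (nat_lit 0) (nat_lit 24618030964) (nat_lit 76) (nat_lit 40022398365) (nat_lit 76) (nat_lit 25749541607) (nat_lit 4) (nat_lit 4) (nat_lit 5) (nat_lit 5) (nat_lit 5) (nat_lit 4) (nat_lit 348) (nat_lit 241) (nat_lit 191)) (XT.lf (nat_lit 0) (nat_lit 36150911449) (nat_lit 76) (nat_lit 36464505557) (nat_lit 76) (nat_lit 22126717693) (nat_lit 4) (nat_lit 4) (nat_lit 5) (nat_lit 5) (nat_lit 5) (nat_lit 4) (nat_lit 349) (nat_lit 241) (nat_lit 190))))) (XT.nd (nat_lit 234) (nat_lit 152) (nat_lit 0) (XT.nd (nat_lit 78) (nat_lit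 0) (nat_lit 0) (XT.lf (nat_lit 0) (nat_lit 48189065169) (nat_lit 76) (nat_lit 32761813885) (nat_lit 76) (nat_lit 18362186872) (nat_lit 4) (nat_lit 4) (nat_lit 5) (nat_lit 5) (nat_lit 5) (nat_lit 4) (nat_lit 350) (nat_lit 241) (nat_lit 189)) (XT.nd (nat_lit 78) (nat_lit 0) (nat_lit 0) (XT.lf (nat_lit 0) (nat_lit 60761154394) (nat_lit 76) (nat_lit 28905507415) (nat_lit 76) (nat_lit 14446985975) (nat_lit 4) (nat_lit 4) (nat_lit 5) (nat_lit 5) (nat_lit 5) (nat_lit 4) (nat_lit 351) (nat_lit 241) (nat_lit 188)) (XT.lf (nat_lit 0) (nat_lit 73897112669) (nat_lit 76) (nat_lit 24886404466) (nat_lit 76) (nat_lit 10371793095) (nat_lit 4) (nat_lit 4) (nat_lit 5) (nat_lit 5) (nat_lit 5) (nat_lit 4) (nat_lit 352) (nat_lit 241) (nat_lit 187)))) (XT.nd (nat_lit 156) (nat_lit 152) (nat_lit 0) (XT.nd (nat_lit 78) (nat_lit 0) (nat_lit 0) (XT.lf (nat_lit 0) (nat_lit 87628216086) (nat_lit 76) (nat_lit 20694935745)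 (nat_lit 76) (nat_lit 6126905392) (nat_lit 4) (nat_lit 4) (nat_lit 5) (nat_lit 5) (nat_lit 5) (nat_lit 4) (nat_lit 353) (nat_lit 241) (nat_lit 186)) (XT.lf (nat_lit 0) (nat_lit 101987157749) (nat_lit 76) (nat_lit 16321121564) (nat_lit 76) (nat_lit 1702215991) (nat_lit 4) (nat_lit 4) (nat_lit 5) (nat_lit 5) (nat_lit 5) (nat_lit 4) (nat_lit 354) (nat_lit 241) (nat_lit 185))) (XT.nd (nat_lit 78) (nat_lit 76) (nat_lit 0) (XT.lf (nat_lit 0) (nat_lit 2855970666) (nat_lit 152) (nat_lit 8869737710) (nat_lit 76) (nat_lit 114123315242) (nat_lit 3) (nat_lit 5) (nat_lit 5) (nat_lit 5) (nat_lit 4) (nat_lit 4) (nat_lit 355) (nat_lit 241) (nat_lit 184)) (XT.lf (nat_lit 0) (nat_lit 683865746) (nat_lit 76) (nat_lit 6901045206) (nat_lit 152) (nat_lit 124394728312) (nat_lit 2) (nat_lit 5) (nat_lit 3) (nat_lit 5) (nat_lit 4) (nat_lit 4) (nat_lit 356) (nat_lit 241) (nat_lit 183))))))))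
noncomputable def xc21 : XT := (XT.nd (nat_lit 37440) (nat_lit 0) (nat_lit 228) (XT.nd (nat_lit 36426) (nat_lit 0) (nat_lit 1292) (XT.nd (nat_lit 35880) (nat_lit 0) (nat_lit 2888) (XT.nd (nat_lit 234) (nat_lit 0) (nat_lit 0) (XT.nd (nat_lit 78) (nat_lit 0) (nat_lit 0) (XT.lf (nat_lit 0) (nat_lit 10848203941) (nat_lit 76) (nat_lit 1765419388) (nat_lit 152) (nat_lit 125801270219) (nat_lit 2) (nat_lit 5) (nat_lit 3) (nat_lit 5) (nat_lit 4) (nat_lit 4) (nat_lit 357) (nat_lit 241) (nat_lit 182)) (XT.nd (nat_lit 78) (nat_lit 0) (nat_lit 0) (XT.lf (nat_lit 0) (nat_lit 17901764922) (nat_lit 152) (nat_lit 123736406958) (nat_lit 0) (nat_lit 3533506099) (nat_lit 2) (nat_lit 5) (nat_lit 4) (nat_lit 4) (nat_lit 2) (nat_lit 4) (nat_lit 358) (nat_lit 241) (nat_lit 181)) (XT.lf (nat_lit 0) (nat_lit 23446540756) (nat_lit 152) (nat_lit 119780420063) (nat_lit 0) (nat_lit 9039580898) (nat_lit 2) (nat_lit 5)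 (nat_lit 4) (nat_lit 4) (nat_lit 2) (nat_lit 4) (nat_lit 359) (nat_lit 241) (nat_lit 180)))) (XT.nd (nat_lit 78) (nat_lit 0) (nat_lit 0) (XT.lf (nat_lit 0) (nat_lit 29244182387) (nat_lit 152) (nat_lit 115672339614) (nat_lit 0) (nat_lit 14800364400) (nat_lit 2) (nat_lit 5) (nat_lit 4) (nat_lit 4) (nat_lit 2) (nat_lit 4) (nat_lit 360) (nat_lit 241) (nat_lit 179)) (XT.nd (nat_lit 78) (nat_lit 0) (nat_lit 0) (XT.lf (nat_lit 0) (nat_lit 35308493724) (nat_lit 152) (nat_lit 111402384467) (nat_lit 0) (nat_lit 20829572757) (nat_lit 2) (nat_lit 5) (nat_lit 4) (nat_lit 4) (nat_lit 2) (nat_lit 4) (nat_lit 361) (nat_lit 241) (nat_lit 178)) (XT.lf (nat_lit 0) (nat_lit 41653913604) (nat_lit 152) (nat_lit 106960388063) (nat_lit 0) (nat_lit 27141561227) (nat_lit 2) (nat_lit 5) (nat_lit 4) (nat_lit 4) (nat_lit 2) (nat_lit 4) (nat_lit 362) (nat_lit 241) (nat_lit 177))))) (XT.nd (nat_lit 234) (nat_lit 912) (nat_lit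 0) (XT.nd (nat_lit 78) (nat_lit 456) (nat_lit 0) (XT.lf (nat_lit 0) (nat_lit 388256931) (nat_lit 304) (nat_lit 4781654137) (nat_lit 0) (nat_lit 388256931) (nat_lit 58) (nat_lit 5) (nat_lit 62) (nat_lit 4) (nat_lit 58) (nat_lit 4) (nat_lit 296) (nat_lit 242) (nat_lit 242)) (XT.nd (nat_lit 78) (nat_lit 228) (nat_lit 0) (XT.lf (nat_lit 0) (nat_lit 2333357574) (nat_lit 228) (nat_lit 5106808591) (nat_lit 228) (nat_lit 3992119502) (nat_lit 55) (nat_lit 4) (nat_lit 58) (nat_lit 5) (nat_lit 58) (nat_lit 4) (nat_lit 297) (nat_lit 242) (nat_lit 241)) (XT.lf (nat_lit 0) (nat_lit 2500613185) (nat_lit 228) (nat_lit 8878735660) (nat_lit 0) (nat_lit 387702754) (nat_lit 52) (nat_lit 5) (nat_lit 55) (nat_lit 4) (nat_lit 52) (nat_lit 4) (nat_lit 298) (nat_lit 242) (nat_lit 240)))) (XT.nd (nat_lit 156) (nat_lit 456) (nat_lit 0) (XT.nd (nat_lit 78) (nat_lit 228) (nat_lit 0) (XT.lf (nat_lit 0) (nat_lit 3121752382)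 (nat_lit 228) (nat_lit 6046167843) (nat_lit 228) (nat_lit 2951649778) (nat_lit 49) (nat_lit 4) (nat_lit 52) (nat_lit 5) (nat_lit 52) (nat_lit 4) (nat_lit 299) (nat_lit 242) (nat_lit 239)) (XT.lf (nat_lit 0) (nat_lit 3054884125) (nat_lit 152) (nat_lit 434902378) (nat_lit 228) (nat_lit 9002547822) (nat_lit 46) (nat_lit 5) (nat_lit 48) (nat_lit 5) (nat_lit 49) (nat_lit 4) (nat_lit 300) (nat_lit 242) (nat_lit 238))) (XT.nd (nat_lit 78) (nat_lit 228) (nat_lit 0) (XT.lf (nat_lit 0) (nat_lit 2601072069) (nat_lit 228) (nat_lit 7530105388) (nat_lit 228) (nat_lit 2753668944) (nat_lit 43) (nat_lit 4) (nat_lit 46) (nat_lit 5) (nat_lit 46) (nat_lit 4) (nat_lit 301) (nat_lit 242) (nat_lit 237)) (XT.lf (nat_lit 0) (nat_lit 1759568844) (nat_lit 152) (nat_lit 1865681061) (nat_lit 228) (nat_lit 9674021698) (nat_lit 40) (nat_lit 5) (nat_lit 42) (nat_lit 5) (nat_lit 43) (nat_lit 4) (nat_lit 302) (nat_lit 242)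 (nat_lit 236)))))) (XT.nd (nat_lit 468) (nat_lit 684) (nat_lit 0) (XT.nd (nat_lit 234) (nat_lit 532) (nat_lit 0) (XT.nd (nat_lit 78) (nat_lit 228) (nat_lit 0) (XT.lf (nat_lit 0) (nat_lit 457593619) (nat_lit 152) (nat_lit 9738031152) (nat_lit 152) (nat_lit 3540227262) (nat_lit 38) (nat_lit 4) (nat_lit 40) (nat_lit 5) (nat_lit 40) (nat_lit 4) (nat_lit 303) (nat_lit 242) (nat_lit 235)) (XT.nd (nat_lit 78) (nat_lit 152) (nat_lit 0) (XT.lf (nat_lit 0) (nat_lit 2765672666) (nat_lit 228) (nat_lit 1308453280) (nat_lit 76) (nat_lit 10121764329) (nat_lit 37) (nat_lit 5) (nat_lit 40) (nat_lit 5) (nat_lit 38) (nat_lit 4) (nat_lit 304) (nat_lit 242) (nat_lit 234)) (XT.lf (nat_lit 0) (nat_lit 9232541166) (nat_lit 228) (nat_lit 3606816845) (nat_lit 0) (nat_lit 1841073633) (nat_lit 35) (nat_lit 5) (nat_lit 38) (nat_lit 4) (nat_lit 35) (nat_lit 4) (nat_lit 305) (nat_lit 242) (nat_lit 233)))) (XT.nd (nat_lit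 78) (nat_lit 304) (nat_lit 0) (XT.lf (nat_lit 0) (nat_lit 753677485) (nat_lit 228) (nat_lit 6499914411) (nat_lit 76) (nat_lit 7937386593) (nat_lit 32) (nat_lit 5) (nat_lit 35) (nat_lit 5) (nat_lit 33) (nat_lit 4) (nat_lit 306) (nat_lit 242) (nat_lit 232)) (XT.nd (nat_lit 78) (nat_lit 152) (nat_lit 0) (XT.lf (nat_lit 0) (nat_lit 5671250611) (nat_lit 152) (nat_lit 1377587768) (nat_lit 228) (nat_lit 8679815781) (nat_lit 30) (nat_lit 5) (nat_lit 32) (nat_lit 5) (nat_lit 33) (nat_lit 4) (nat_lit 307) (nat_lit 242) (nat_lit 231)) (XT.lf (nat_lit 0) (nat_lit 1954848068) (nat_lit 152) (nat_lit 11644373472) (nat_lit 152) (nat_lit 2695878365) (nat_lit 28) (nat_lit 4) (nat_lit 30) (nat_lit 5) (nat_lit 30) (nat_lit 4) (nat_lit 308) (nat_lit 242) (nat_lit 230))))) (XT.nd (nat_lit 234) (nat_lit 380) (nat_lit 0) (XT.nd (nat_lit 78) (nat_lit 228) (nat_lit 0) (XT.lf (nat_lit 0) (nat_lit 3447856414) (nat_lit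 228) (nat_lit 2484768370) (nat_lit 76) (nat_lit 10958383309) (nat_lit 27) (nat_lit 5) (nat_lit 30) (nat_lit 5) (nat_lit 28) (nat_lit 4) (nat_lit 309) (nat_lit 242) (nat_lit 229)) (XT.nd (nat_lit 78) (nat_lit 152) (nat_lit 0) (XT.lf (nat_lit 0) (nat_lit 9759549283) (nat_lit 152) (nat_lit 7702164445) (nat_lit 0) (nat_lit 56789670) (nat_lit 26) (nat_lit 5) (nat_lit 28) (nat_lit 4) (nat_lit 26) (nat_lit 4) (nat_lit 310) (nat_lit 242) (nat_lit 228)) (XT.lf (nat_lit 0) (nat_lit 4326040898) (nat_lit 152) (nat_lit 12013545911) (nat_lit 152) (nat_lit 1839287908) (nat_lit 24) (nat_lit 4) (nat_lit 26) (nat_lit 5) (nat_lit 26) (nat_lit 4) (nat_lit 311) (nat_lit 242) (nat_lit 227)))) (XT.nd (nat_lit 156) (nat_lit 228) (nat_lit 0) (XT.nd (nat_lit 78) (nat_lit 76) (nat_lit 0) (XT.lf (nat_lit 0) (nat_lit 4200200257) (nat_lit 228) (nat_lit 2096897565) (nat_lit 76) (nat_lit 12576705331) (nat_lit 23) (nat_lit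 5) (nat_lit 26) (nat_lit 5) (nat_lit 24) (nat_lit 4) (nat_lit 312) (nat_lit 242) (nat_lit 226)) (XT.lf (nat_lit 0) (nat_lit 10139687831) (nat_lit 76) (nat_lit 299058405) (nat_lit 152) (nat_lit 9166205788) (nat_lit 22) (nat_lit 5) (nat_lit 23) (nat_lit 5) (nat_lit 24) (nat_lit 4) (nat_lit 313) (nat_lit 242) (nat_lit 225))) (XT.nd (nat_lit 78) (nat_lit 76) (nat_lit 0) (XT.lf (nat_lit 0) (nat_lit 2366333590) (nat_lit 152) (nat_lit 14566310840) (nat_lit 152) (nat_lit 3441781650) (nat_lit 20) (nat_lit 4) (nat_lit 22) (nat_lit 5) (nat_lit 22) (nat_lit 4) (nat_lit 314) (nat_lit 242) (nat_lit 224)) (XT.lf (nat_lit 0) (nat_lit 2464709756) (nat_lit 228) (nat_lit 6497773134) (nat_lit 76) (nat_lit 12220836108) (nat_lit 19) (nat_lit 5) (nat_lit 22) (nat_lit 5) (nat_lit 20) (nat_lit 4) (nat_lit 315) (nat_lit 242) (nat_lit 223))))))) (XT.nd (nat_lit 1014) (nat_lit 380) (nat_lit 0) (XT.nd (nat_lit 468) (nat_lit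 304) (nat_lit 0) (XT.nd (nat_lit 234) (nat_lit 152) (nat_lit 0) (XT.nd (nat_lit 78) (nat_lit 152) (nat_lit 0) (XT.lf (nat_lit 0) (nat_lit 5394831125) (nat_lit 76) (nat_lit 3104989690) (nat_lit 152) (nat_lit 13534741217) (nat_lit 18) (nat_lit 5) (nat_lit 19) (nat_lit 5) (nat_lit 20) (nat_lit 4) (nat_lit 316) (nat_lit 242) (nat_lit 222)) (XT.nd (nat_lit 78) (nat_lit 152) (nat_lit 0) (XT.lf (nat_lit 0) (nat_lit 14788971985) (nat_lit 152) (nat_lit 5197930085) (nat_lit 0) (nat_lit 2942955731) (nat_lit 18) (nat_lit 5) (nat_lit 20) (nat_lit 4) (nat_lit 18) (nat_lit 4) (nat_lit 317) (nat_lit 242) (nat_lit 221)) (XT.lf (nat_lit 0) (nat_lit 6667603494) (nat_lit 152) (nat_lit 14682752013) (nat_lit 152) (nat_lit 2520885911) (nat_lit 16) (nat_lit 4) (nat_lit 18) (nat_lit 5) (nat_lit 18) (nat_lit 4) (nat_lit 318) (nat_lit 242) (nat_lit 220)))) (XT.nd (nat_lit 78) (nat_lit 76) (nat_lit 0) (XT.lf (nat_lit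 0) (nat_lit 3233410195) (nat_lit 228) (nat_lit 5898852783) (nat_lit 76) (nat_lit 15728930914) (nat_lit 15) (nat_lit 5) (nat_lit 18) (nat_lit 5) (nat_lit 16) (nat_lit 4) (nat_lit 319) (nat_lit 242) (nat_lit 219)) (XT.nd (nat_lit 78) (nat_lit 0) (nat_lit 0) (XT.lf (nat_lit 0) (nat_lit 5828241004) (nat_lit 76) (nat_lit 3323188358) (nat_lit 152) (nat_lit 16750671110) (nat_lit 14) (nat_lit 5) (nat_lit 15) (nat_lit 5) (nat_lit 16) (nat_lit 4) (nat_lit 320) (nat_lit 242) (nat_lit 218)) (XT.lf (nat_lit 0) (nat_lit 15327987631) (nat_lit 152) (nat_lit 8982967115) (nat_lit 0) (nat_lit 2685265712) (nat_lit 14) (nat_lit 5) (nat_lit 16) (nat_lit 4) (nat_lit 14) (nat_lit 4) (nat_lit 321) (nat_lit 242) (nat_lit 217))))) (XT.nd (nat_lit 234) (nat_lit 152) (nat_lit 0) (XT.nd (nat_lit 78) (nat_lit 76) (nat_lit 0) (XT.lf (nat_lit 0) (nat_lit 2460361975) (nat_lit 76) (nat_lit 19290799856) (nat_lit 76) (nat_lit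 6395795945) (nat_lit 13) (nat_lit 4) (nat_lit 14) (nat_lit 5) (nat_lit 14) (nat_lit 4) (nat_lit 322) (nat_lit 242) (nat_lit 216)) (XT.nd (nat_lit 78) (nat_lit 76) (nat_lit 0) (XT.lf (nat_lit 0) (nat_lit 14453206581) (nat_lit 76) (nat_lit 14019019373) (nat_lit 76) (nat_lit 883746899) (nat_lit 13) (nat_lit 4) (nat_lit 14) (nat_lit 5) (nat_lit 14) (nat_lit 4) (nat_lit 323) (nat_lit 242) (nat_lit 215)) (XT.lf (nat_lit 0) (nat_lit 4696851331) (nat_lit 152) (nat_lit 3829491474) (nat_lit 76) (nat_lit 22101062114) (nat_lit 12) (nat_lit 5) (nat_lit 14) (nat_lit 5) (nat_lit 13) (nat_lit 4) (nat_lit 324) (nat_lit 242) (nat_lit 214)))) (XT.nd (nat_lit 156) (nat_lit 76) (nat_lit 0) (XT.nd (nat_lit 78) (nat_lit 0) (nat_lit 0) (XT.lf (nat_lit 0) (nat_lit 7746734963) (nat_lit 76) (nat_lit 2760045977) (nat_lit 152) (nat_lit 21456345504) (nat_lit 11) (nat_lit 5) (nat_lit 12) (nat_lit 5) (nat_lit 13) (nat_lit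 4) (nat_lit 325) (nat_lit 242) (nat_lit 213)) (XT.lf (nat_lit 0) (nat_lit 16575065688) (nat_lit 152) (nat_lit 13604447848) (nat_lit 0) (nat_lit 3187120673) (nat_lit 11) (nat_lit 5) (nat_lit 13) (nat_lit 4) (nat_lit 11) (nat_lit 4) (nat_lit 326) (nat_lit 242) (nat_lit 212))) (XT.nd (nat_lit 78) (nat_lit 76) (nat_lit 0) (XT.lf (nat_lit 0) (nat_lit 22875934611) (nat_lit 152) (nat_lit 2670464444) (nat_lit 0) (nat_lit 9296077418) (nat_lit 11) (nat_lit 5) (nat_lit 13) (nat_lit 4) (nat_lit 11) (nat_lit 4) (nat_lit 327) (nat_lit 242) (nat_lit 211)) (XT.lf (nat_lit 0) (nat_lit 8810038864) (nat_lit 76) (nat_lit 20672507145) (nat_lit 76) (nat_lit 6909876451) (nat_lit 10) (nat_lit 4) (nat_lit 11) (nat_lit 5) (nat_lit 11) (nat_lit 4) (nat_lit 328) (nat_lit 242) (nat_lit 210)))))) (XT.nd (nat_lit 546) (nat_lit 152) (nat_lit 0) (XT.nd (nat_lit 234) (nat_lit 76) (nat_lit 0) (XT.nd (nat_lit 78) (nat_lit 152)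 (nat_lit 0) (XT.lf (nat_lit 0) (nat_lit 20753210400) (nat_lit 76) (nat_lit 15602647980) (nat_lit 76) (nat_lit 1665947286) (nat_lit 10) (nat_lit 4) (nat_lit 11) (nat_lit 5) (nat_lit 11) (nat_lit 4) (nat_lit 329) (nat_lit 242) (nat_lit 209)) (XT.nd (nat_lit 78) (nat_lit 76) (nat_lit 0) (XT.lf (nat_lit 0) (nat_lit 3677573795) (nat_lit 152) (nat_lit 6637006843) (nat_lit 76) (nat_lit 29419628725) (nat_lit 9) (nat_lit 5) (nat_lit 11) (nat_lit 5) (nat_lit 10) (nat_lit 4) (nat_lit 330) (nat_lit 242) (nat_lit 208)) (XT.lf (nat_lit 0) (nat_lit 4442730165) (nat_lit 76) (nat_lit 4770618818) (nat_lit 152) (nat_lit 32319630780) (nat_lit 8) (nat_lit 5) (nat_lit 9) (nat_lit 5) (nat_lit 10) (nat_lit 4) (nat_lit 331) (nat_lit 242) (nat_lit 207)))) (XT.nd (nat_lit 156) (nat_lit 76) (nat_lit 0) (XT.nd (nat_lit 78) (nat_lit 0) (nat_lit 0) (XT.lf (nat_lit 0) (nat_lit 15023406957) (nat_lit 152) (nat_lit 27365982266)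 (nat_lit 0) (nat_lit 1032400663) (nat_lit 8) (nat_lit 5) (nat_lit 10) (nat_lit 4) (nat_lit 8) (nat_lit 4) (nat_lit 332) (nat_lit 242) (nat_lit 206)) (XT.lf (nat_lit 0) (nat_lit 21094401696) (nat_lit 152) (nat_lit 17347191905) (nat_lit 0) (nat_lit 6964358683) (nat_lit 8) (nat_lit 5) (nat_lit 10) (nat_lit 4) (nat_lit 8) (nat_lit 4) (nat_lit 333) (nat_lit 242) (nat_lit 205))) (XT.nd (nat_lit 78) (nat_lit 76) (nat_lit 0) (XT.lf (nat_lit 0) (nat_lit 27394929844) (nat_lit 152) (nat_lit 6964166145) (nat_lit 0) (nat_lit 13132470907) (nat_lit 8) (nat_lit 5) (nat_lit 10) (nat_lit 4) (nat_lit 8) (nat_lit 4) (nat_lit 334) (nat_lit 242) (nat_lit 204)) (XT.lf (nat_lit 0) (nat_lit 3883599517) (nat_lit 76) (nat_lit 30093724674) (nat_lit 76) (nat_lit 15705155335) (nat_lit 7) (nat_lit 4) (nat_lit 8) (nat_lit 5) (nat_lit 8) (nat_lit 4) (nat_lit 335) (nat_lit 242) (nat_lit 203))))) (XT.nd (nat_lit 234) (nat_lit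 152) (nat_lit 0) (XT.nd (nat_lit 78) (nat_lit 0) (nat_lit 0) (XT.lf (nat_lit 0) (nat_lit 15292821648) (nat_lit 76) (nat_lit 25599355927) (nat_lit 76) (nat_lit 11090681442) (nat_lit 7) (nat_lit 4) (nat_lit 8) (nat_lit 5) (nat_lit 8) (nat_lit 4) (nat_lit 336) (nat_lit 242) (nat_lit 202)) (XT.nd (nat_lit 78) (nat_lit 0) (nat_lit 0) (XT.lf (nat_lit 0) (nat_lit 27152064502) (nat_lit 76) (nat_lit 20935613293) (nat_lit 76) (nat_lit 6312552955) (nat_lit 7) (nat_lit 4) (nat_lit 8) (nat_lit 5) (nat_lit 8) (nat_lit 4) (nat_lit 337) (nat_lit 242) (nat_lit 201)) (XT.lf (nat_lit 0) (nat_lit 39489564370) (nat_lit 76) (nat_lit 16091392622) (nat_lit 76) (nat_lit 1359393376) (nat_lit 7) (nat_lit 4) (nat_lit 8) (nat_lit 5) (nat_lit 8) (nat_lit 4) (nat_lit 338) (nat_lit 242) (nat_lit 200)))) (XT.nd (nat_lit 156) (nat_lit 0) (nat_lit 0) (XT.nd (nat_lit 78) (nat_lit 76) (nat_lit 0) (XT.lf (nat_lit 0) (nat_lit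 3706817591) (nat_lit 152) (nat_lit 7310910874) (nat_lit 76) (nat_lit 48590447072) (nat_lit 6) (nat_lit 5) (nat_lit 8) (nat_lit 5) (nat_lit 7) (nat_lit 4) (nat_lit 339) (nat_lit 242) (nat_lit 199)) (XT.lf (nat_lit 0) (nat_lit 3281074307) (nat_lit 76) (nat_lit 5692145246) (nat_lit 152) (nat_lit 53436535890) (nat_lit 5) (nat_lit 5) (nat_lit 6) (nat_lit 5) (nat_lit 7) (nat_lit 4) (nat_lit 340) (nat_lit 242) (nat_lit 198))) (XT.nd (nat_lit 78) (nat_lit 0) (nat_lit 0) (XT.lf (nat_lit 0) (nat_lit 14453261903) (nat_lit 76) (nat_lit 69855739) (nat_lit 152) (nat_lit 50827707708) (nat_lit 5) (nat_lit 5) (nat_lit 6) (nat_lit 5) (nat_lit 7) (nat_lit 4) (nat_lit 341) (nat_lit 242) (nat_lit 197)) (XT.lf (nat_lit 0) (nat_lit 20353694836) (nat_lit 152) (nat_lit 42409431706) (nat_lit 0) (nat_lit 5675742195) (nat_lit 5) (nat_lit 5) (nat_lit 7) (nat_lit 4) (nat_lit 5) (nat_lit 4) (nat_lit 342) (nat_lit 242)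 (nat_lit 196))))))))
noncomputable def xc22 : XT := (XT.nd (nat_lit 37284) (nat_lit 0) (nat_lit 684) (XT.nd (nat_lit 1014) (nat_lit 152) (nat_lit 0) (XT.nd (nat_lit 468) (nat_lit 0) (nat_lit 0) (XT.nd (nat_lit 234) (nat_lit 76) (nat_lit 0) (XT.nd (nat_lit 78) (nat_lit 0) (nat_lit 0) (XT.lf (nat_lit 0) (nat_lit 26426133165) (nat_lit 152) (nat_lit 33591375780) (nat_lit 0) (nat_lit 11665310151) (nat_lit 5) (nat_lit 5) (nat_lit 7) (nat_lit 4) (nat_lit 5) (nat_lit 4) (nat_lit 343) (nat_lit 242) (nat_lit 195)) (XT.nd (nat_lit 78) (nat_lit 0) (nat_lit 0) (XT.lf (nat_lit 0) (nat_lit 32754219322) (nat_lit 152) (nat_lit 24421728803) (nat_lit 0) (nat_lit 17914472142) (nat_lit 5) (nat_lit 5) (nat_lit 7) (nat_lit 4) (nat_lit 5) (nat_lit 4) (nat_lit 344) (nat_lit 242) (nat_lit 194)) (XT.lf (nat_lit 0) (nat_lit 39353020176) (nat_lit 152) (nat_lit 14878658282) (nat_lit 0) (nat_lit 24438107125) (nat_lit 5)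 (nat_lit 5) (nat_lit 7) (nat_lit 4) (nat_lit 5) (nat_lit 4) (nat_lit 345) (nat_lit 242) (nat_lit 193)))) (XT.nd (nat_lit 78) (nat_lit 76) (nat_lit 0) (XT.lf (nat_lit 0) (nat_lit 46238247160) (nat_lit 152) (nat_lit 4939442619) (nat_lit 0) (nat_lit 31251747564) (nat_lit 5) (nat_lit 5) (nat_lit 7) (nat_lit 4) (nat_lit 5) (nat_lit 4) (nat_lit 346) (nat_lit 242) (nat_lit 192)) (XT.nd (nat_lit 78) (nat_lit 0) (nat_lit 0) (XT.lf (nat_lit 0) (nat_lit 5527443310) (nat_lit 76) (nat_lit 47951983526) (nat_lit 76) (nat_lit 32897306269) (nat_lit 4) (nat_lit 4) (nat_lit 5) (nat_lit 5) (nat_lit 5) (nat_lit 4) (nat_lit 347) (nat_lit 242) (nat_lit 191)) (XT.lf (nat_lit 0) (nat_lit 16545954030) (nat_lit 76) (nat_lit 44547369905) (nat_lit 76) (nat_lit 29427761541) (nat_lit 4) (nat_lit 4) (nat_lit 5) (nat_lit 5) (nat_lit 5) (nat_lit 4) (nat_lit 348) (nat_lit 242) (nat_lit 190))))) (XT.nd (nat_lit 234) (nat_lit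 0) (nat_lit 0) (XT.nd (nat_lit 78) (nat_lit 0) (nat_lit 0) (XT.lf (nat_lit 0) (nat_lit 28044019496) (nat_lit 76) (nat_lit 41005621378) (nat_lit 76) (nat_lit 25824173866) (nat_lit 4) (nat_lit 4) (nat_lit 5) (nat_lit 5) (nat_lit 5) (nat_lit 4) (nat_lit 349) (nat_lit 242) (nat_lit 189)) (XT.nd (nat_lit 78) (nat_lit 0) (nat_lit 0) (XT.lf (nat_lit 0) (nat_lit 40049016054) (nat_lit 76) (nat_lit 37318305211) (nat_lit 76) (nat_lit 22077963272) (nat_lit 4) (nat_lit 4) (nat_lit 5) (nat_lit 5) (nat_lit 5) (nat_lit 4) (nat_lit 350) (nat_lit 242) (nat_lit 188)) (XT.lf (nat_lit 0) (nat_lit 52589527030) (nat_lit 76) (nat_lit 33476642080) (nat_lit 76) (nat_lit 18180210210) (nat_lit 4) (nat_lit 4) (nat_lit 5) (nat_lit 5) (nat_lit 5) (nat_lit 4) (nat_lit 351) (nat_lit 242) (nat_lit 187)))) (XT.nd (nat_lit 156) (nat_lit 0) (nat_lit 0) (XT.nd (nat_lit 78) (nat_lit 0) (nat_lit 0) (XT.lf (nat_lit 0) (nat_lit 65695410783)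 (nat_lit 76) (nat_lit 29471485168) (nat_lit 76) (nat_lit 14121634316) (nat_lit 4) (nat_lit 4) (nat_lit 5) (nat_lit 5) (nat_lit 5) (nat_lit 4) (nat_lit 352) (nat_lit 242) (nat_lit 186)) (XT.lf (nat_lit 0) (nat_lit 79397871797) (nat_lit 76) (nat_lit 25293298386) (nat_lit 76) (nat_lit 9892572314) (nat_lit 4) (nat_lit 4) (nat_lit 5) (nat_lit 5) (nat_lit 5) (nat_lit 4) (nat_lit 353) (nat_lit 242) (nat_lit 185))) (XT.nd (nat_lit 78) (nat_lit 0) (nat_lit 0) (XT.lf (nat_lit 0) (nat_lit 93729534981) (nat_lit 76) (nat_lit 20932133672) (nat_lit 76) (nat_lit 5482955009) (nat_lit 4) (nat_lit 4) (nat_lit 5) (nat_lit 5) (nat_lit 5) (nat_lit 4) (nat_lit 354) (nat_lit 242) (nat_lit 184)) (XT.lf (nat_lit 0) (nat_lit 108724523341) (nat_lit 76) (nat_lit 16377607300) (nat_lit 76) (nat_lit 882283311) (nat_lit 4) (nat_lit 4) (nat_lit 5) (nat_lit 5) (nat_lit 5) (nat_lit 4) (nat_lit 355) (nat_lit 242) (nat_lit 183))))))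 (XT.nd (nat_lit 468) (nat_lit 0) (nat_lit 0) (XT.nd (nat_lit 234) (nat_lit 0) (nat_lit 0) (XT.nd (nat_lit 78) (nat_lit 76) (nat_lit 0) (XT.lf (nat_lit 0) (nat_lit 3843895696) (nat_lit 152) (nat_lit 7736163652) (nat_lit 76) (nat_lit 120535827725) (nat_lit 3) (nat_lit 5) (nat_lit 5) (nat_lit 5) (nat_lit 4) (nat_lit 4) (nat_lit 356) (nat_lit 242) (nat_lit 182)) (XT.nd (nat_lit 78) (nat_lit 0) (nat_lit 0) (XT.lf (nat_lit 0) (nat_lit 2249913842) (nat_lit 76) (nat_lit 6533850161) (nat_lit 152) (nat_lit 129770046208) (nat_lit 2) (nat_lit 5) (nat_lit 3) (nat_lit 5) (nat_lit 4) (nat_lit 4) (nat_lit 357) (nat_lit 242) (nat_lit 181)) (XT.lf (nat_lit 0) (nat_lit 12849523479) (nat_lit 76) (nat_lit 1175359590) (nat_lit 152) (nat_lit 131287125615) (nat_lit 2) (nat_lit 5) (nat_lit 3) (nat_lit 5) (nat_lit 4) (nat_lit 4) (nat_lit 358) (nat_lit 242) (nat_lit 180)))) (XT.nd (nat_lit 78) (nat_lit 0) (nat_lit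 0) (XT.lf (nat_lit 0) (nat_lit 19546471363) (nat_lit 152) (nat_lit 128517495543) (nat_lit 0) (nat_lit 4343604347) (nat_lit 2) (nat_lit 5) (nat_lit 4) (nat_lit 4) (nat_lit 2) (nat_lit 4) (nat_lit 359) (nat_lit 242) (nat_lit 179)) (XT.nd (nat_lit 78) (nat_lit 0) (nat_lit 0) (XT.lf (nat_lit 0) (nat_lit 25332789884) (nat_lit 152) (nat_lit 124430648911) (nat_lit 0) (nat_lit 10094819889) (nat_lit 2) (nat_lit 5) (nat_lit 4) (nat_lit 4) (nat_lit 2) (nat_lit 4) (nat_lit 360) (nat_lit 242) (nat_lit 178)) (XT.lf (nat_lit 0) (nat_lit 31386317307) (nat_lit 152) (nat_lit 120180916447) (nat_lit 0) (nat_lit 16114915902) (nat_lit 2) (nat_lit 5) (nat_lit 4) (nat_lit 4) (nat_lit 2) (nat_lit 4) (nat_lit 361) (nat_lit 242) (nat_lit 177))))) (XT.nd (nat_lit 35490) (nat_lit 0) (nat_lit 3572) (XT.nd (nat_lit 35334) (nat_lit 0) (nat_lit 4560) (XT.lf (nat_lit 0) (nat_lit 37721466792) (nat_lit 152) (nat_lit 115758179741)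 (nat_lit 0) (nat_lit 22418225949) (nat_lit 2) (nat_lit 5) (nat_lit 4) (nat_lit 4) (nat_lit 2) (nat_lit 4) (nat_lit 362) (nat_lit 242) (nat_lit 176)) (XT.nd (nat_lit 78) (nat_lit 532) (nat_lit 0) (XT.lf (nat_lit 0) (nat_lit 5011921633) (nat_lit 304) (nat_lit 126505744) (nat_lit 304) (nat_lit 126505744) (nat_lit 69) (nat_lit 4) (nat_lit 73) (nat_lit 5) (nat_lit 73) (nat_lit 4) (nat_lit 294) (nat_lit 243) (nat_lit 243)) (XT.lf (nat_lit 0) (nat_lit 502373930) (nat_lit 228) (nat_lit 5759723705) (nat_lit 228) (nat_lit 4554187456) (nat_lit 62) (nat_lit 4) (nat_lit 65) (nat_lit 5) (nat_lit 65) (nat_lit 4) (nat_lit 295) (nat_lit 243) (nat_lit 242)))) (XT.nd (nat_lit 156) (nat_lit 456) (nat_lit 0) (XT.nd (nat_lit 78) (nat_lit 228) (nat_lit 0) (XT.lf (nat_lit 0) (nat_lit 1353345157) (nat_lit 228) (nat_lit 472768718) (nat_lit 304) (nat_lit 9293943760) (nat_lit 58) (nat_lit 5) (nat_lit 61) (nat_lit 5)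 (nat_lit 62) (nat_lit 4) (nat_lit 296) (nat_lit 243) (nat_lit 241)) (XT.lf (nat_lit 0) (nat_lit 1937380824) (nat_lit 228) (nat_lit 6424636275) (nat_lit 228) (nat_lit 3077914989) (nat_lit 55) (nat_lit 4) (nat_lit 58) (nat_lit 5) (nat_lit 58) (nat_lit 4) (nat_lit 297) (nat_lit 243) (nat_lit 240))) (XT.nd (nat_lit 78) (nat_lit 228) (nat_lit 0) (XT.lf (nat_lit 0) (nat_lit 2281533558) (nat_lit 152) (nat_lit 989062849) (nat_lit 228) (nat_lit 8507714789) (nat_lit 52) (nat_lit 5) (nat_lit 54) (nat_lit 5) (nat_lit 55) (nat_lit 4) (nat_lit 298) (nat_lit 243) (nat_lit 239)) (XT.lf (nat_lit 0) (nat_lit 2313607730) (nat_lit 228) (nat_lit 7493471946) (nat_lit 228) (nat_lit 2327755932) (nat_lit 49) (nat_lit 4) (nat_lit 52) (nat_lit 5) (nat_lit 52) (nat_lit 4) (nat_lit 299) (nat_lit 243) (nat_lit 238))))))) (XT.nd (nat_lit 1014) (nat_lit 912) (nat_lit 0) (XT.nd (nat_lit 468) (nat_lit 912) (nat_lit 0) (XT.nd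 (nat_lit 234) (nat_lit 380) (nat_lit 0) (XT.nd (nat_lit 78) (nat_lit 456) (nat_lit 0) (XT.lf (nat_lit 0) (nat_lit 2024515114) (nat_lit 152) (nat_lit 1956065273) (nat_lit 228) (nat_lit 8530542556) (nat_lit 46) (nat_lit 5) (nat_lit 48) (nat_lit 5) (nat_lit 49) (nat_lit 4) (nat_lit 300) (nat_lit 243) (nat_lit 237)) (XT.nd (nat_lit 78) (nat_lit 228) (nat_lit 0) (XT.lf (nat_lit 0) (nat_lit 1364089455) (nat_lit 228) (nat_lit 9123289910) (nat_lit 228) (nat_lit 2420365002) (nat_lit 43) (nat_lit 4) (nat_lit 46) (nat_lit 5) (nat_lit 46) (nat_lit 4) (nat_lit 301) (nat_lit 243) (nat_lit 236)) (XT.lf (nat_lit 0) (nat_lit 292488349) (nat_lit 152) (nat_lit 3539759335) (nat_lit 228) (nat_lit 9493486025) (nat_lit 40) (nat_lit 5) (nat_lit 42) (nat_lit 5) (nat_lit 43) (nat_lit 4) (nat_lit 302) (nat_lit 243) (nat_lit 235)))) (XT.nd (nat_lit 78) (nat_lit 380) (nat_lit 0) (XT.lf (nat_lit 0) (nat_lit 10279173771)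 (nat_lit 228) (nat_lit 1201605237) (nat_lit 0) (nat_lit 2285301634) (nat_lit 40) (nat_lit 5) (nat_lit 43) (nat_lit 4) (nat_lit 40) (nat_lit 4) (nat_lit 303) (nat_lit 243) (nat_lit 234)) (XT.nd (nat_lit 78) (nat_lit 152) (nat_lit 0) (XT.lf (nat_lit 0) (nat_lit 2705341100) (nat_lit 228) (nat_lit 3192472468) (nat_lit 76) (nat_lit 8331726575) (nat_lit 37) (nat_lit 5) (nat_lit 40) (nat_lit 5) (nat_lit 38) (nat_lit 4) (nat_lit 304) (nat_lit 243) (nat_lit 233)) (XT.lf (nat_lit 0) (nat_lit 9005634026) (nat_lit 152) (nat_lit 32549947) (nat_lit 228) (nat_lit 5679973822) (nat_lit 35) (nat_lit 5) (nat_lit 37) (nat_lit 5) (nat_lit 38) (nat_lit 4) (nat_lit 305) (nat_lit 243) (nat_lit 232))))) (XT.nd (nat_lit 234) (nat_lit 532) (nat_lit 0) (XT.nd (nat_lit 78) (nat_lit 152) (nat_lit 0) (XT.lf (nat_lit 0) (nat_lit 408925233) (nat_lit 228) (nat_lit 8847679233) (nat_lit 76) (nat_lit 5975734362) (nat_lit 32)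 (nat_lit 5) (nat_lit 35) (nat_lit 5) (nat_lit 33) (nat_lit 4) (nat_lit 306) (nat_lit 243) (nat_lit 231)) (XT.nd (nat_lit 78) (nat_lit 0) (nat_lit 0) (XT.lf (nat_lit 0) (nat_lit 3116924601) (nat_lit 152) (nat_lit 3471144718) (nat_lit 228) (nat_lit 9185474571) (nat_lit 30) (nat_lit 5) (nat_lit 32) (nat_lit 5) (nat_lit 33) (nat_lit 4) (nat_lit 307) (nat_lit 243) (nat_lit 230)) (XT.lf (nat_lit 0) (nat_lit 13010353897) (nat_lit 228) (nat_lit 816705878) (nat_lit 0) (nat_lit 2516819376) (nat_lit 30) (nat_lit 5) (nat_lit 33) (nat_lit 4) (nat_lit 30) (nat_lit 4) (nat_lit 308) (nat_lit 243) (nat_lit 229)))) (XT.nd (nat_lit 156) (nat_lit 228) (nat_lit 0) (XT.nd (nat_lit 78) (nat_lit 76) (nat_lit 0) (XT.lf (nat_lit 0) (nat_lit 2727290521) (nat_lit 228) (nat_lit 5467060271) (nat_lit 76) (nat_lit 8748524334) (nat_lit 27) (nat_lit 5) (nat_lit 30) (nat_lit 5) (nat_lit 28) (nat_lit 4) (nat_lit 309) (nat_lit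 243) (nat_lit 228)) (XT.lf (nat_lit 0) (nat_lit 6627941561) (nat_lit 76) (nat_lit 2296711115) (nat_lit 152) (nat_lit 8649188677) (nat_lit 26) (nat_lit 5) (nat_lit 27) (nat_lit 5) (nat_lit 28) (nat_lit 4) (nat_lit 310) (nat_lit 243) (nat_lit 227))) (XT.nd (nat_lit 78) (nat_lit 76) (nat_lit 0) (XT.lf (nat_lit 0) (nat_lit 895246259) (nat_lit 152) (nat_lit 14473302542) (nat_lit 152) (nat_lit 2869787161) (nat_lit 24) (nat_lit 4) (nat_lit 26) (nat_lit 5) (nat_lit 26) (nat_lit 4) (nat_lit 311) (nat_lit 243) (nat_lit 226)) (XT.lf (nat_lit 0) (nat_lit 3110444005) (nat_lit 228) (nat_lit 5716976988) (nat_lit 76) (nat_lit 10108557657) (nat_lit 23) (nat_lit 5) (nat_lit 26) (nat_lit 5) (nat_lit 24) (nat_lit 4) (nat_lit 312) (nat_lit 243) (nat_lit 225)))))) (XT.nd (nat_lit 546) (nat_lit 304) (nat_lit 0) (XT.nd (nat_lit 234) (nat_lit 304) (nat_lit 0) (XT.nd (nat_lit 78) (nat_lit 228) (nat_lit 0) (XT.lf (nat_lit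 0) (nat_lit 6311837715) (nat_lit 76) (nat_lit 2924770202) (nat_lit 152) (nat_lit 10433925451) (nat_lit 22) (nat_lit 5) (nat_lit 23) (nat_lit 5) (nat_lit 24) (nat_lit 4) (nat_lit 313) (nat_lit 243) (nat_lit 224)) (XT.nd (nat_lit 78) (nat_lit 228) (nat_lit 0) (XT.lf (nat_lit 0) (nat_lit 15608751298) (nat_lit 152) (nat_lit 1678985608) (nat_lit 0) (nat_lit 3155955910) (nat_lit 22) (nat_lit 5) (nat_lit 24) (nat_lit 4) (nat_lit 22) (nat_lit 4) (nat_lit 314) (nat_lit 243) (nat_lit 223)) (XT.lf (nat_lit 0) (nat_lit 1009895396) (nat_lit 228) (nat_lit 10761378924) (nat_lit 76) (nat_lit 9484408653) (nat_lit 19) (nat_lit 5) (nat_lit 22) (nat_lit 5) (nat_lit 20) (nat_lit 4) (nat_lit 315) (nat_lit 243) (nat_lit 222)))) (XT.nd (nat_lit 156) (nat_lit 228) (nat_lit 0) (XT.nd (nat_lit 78) (nat_lit 0) (nat_lit 0) (XT.lf (nat_lit 0) (nat_lit 921393587) (nat_lit 76) (nat_lit 6011833888) (nat_lit 152) (nat_lit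 15177080740) (nat_lit 18) (nat_lit 5) (nat_lit 19) (nat_lit 5) (nat_lit 20) (nat_lit 4) (nat_lit 316) (nat_lit 243) (nat_lit 221)) (XT.lf (nat_lit 0) (nat_lit 13127286181) (nat_lit 152) (nat_lit 9839721115) (nat_lit 0) (nat_lit 41476927) (nat_lit 18) (nat_lit 5) (nat_lit 20) (nat_lit 4) (nat_lit 18) (nat_lit 4) (nat_lit 317) (nat_lit 243) (nat_lit 220))) (XT.nd (nat_lit 78) (nat_lit 76) (nat_lit 0) (XT.lf (nat_lit 0) (nat_lit 1816337579) (nat_lit 152) (nat_lit 17761746313) (nat_lit 152) (nat_lit 4375127680) (nat_lit 16) (nat_lit 4) (nat_lit 18) (nat_lit 5) (nat_lit 18) (nat_lit 4) (nat_lit 318) (nat_lit 243) (nat_lit 219)) (XT.lf (nat_lit 0) (nat_lit 1352734181) (nat_lit 228) (nat_lit 10927053366) (nat_lit 76) (nat_lit 12665813924) (nat_lit 15) (nat_lit 5) (nat_lit 18) (nat_lit 5) (nat_lit 16) (nat_lit 4) (nat_lit 319) (nat_lit 243) (nat_lit 218))))) (XT.nd (nat_lit 234) (nat_lit 228) (nat_lit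 0) (XT.nd (nat_lit 78) (nat_lit 0) (nat_lit 0) (XT.lf (nat_lit 0) (nat_lit 590413813) (nat_lit 76) (nat_lit 6570354927) (nat_lit 152) (nat_lit 18829061885) (nat_lit 14) (nat_lit 5) (nat_lit 15) (nat_lit 5) (nat_lit 16) (nat_lit 4) (nat_lit 320) (nat_lit 243) (nat_lit 217)) (XT.nd (nat_lit 78) (nat_lit 0) (nat_lit 0) (XT.lf (nat_lit 0) (nat_lit 12698203444) (nat_lit 76) (nat_lit 554998833) (nat_lit 152) (nat_lit 13833294012) (nat_lit 14) (nat_lit 5) (nat_lit 15) (nat_lit 5) (nat_lit 16) (nat_lit 4) (nat_lit 321) (nat_lit 243) (nat_lit 216)) (XT.lf (nat_lit 0) (nat_lit 19591918636) (nat_lit 152) (nat_lit 3088255624) (nat_lit 0) (nat_lit 5559613975) (nat_lit 14) (nat_lit 5) (nat_lit 16) (nat_lit 4) (nat_lit 14) (nat_lit 4) (nat_lit 322) (nat_lit 243) (nat_lit 215)))) (XT.nd (nat_lit 156) (nat_lit 76) (nat_lit 0) (XT.nd (nat_lit 78) (nat_lit 76) (nat_lit 0) (XT.lf (nat_lit 0) (nat_lit 8745394452)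 (nat_lit 76) (nat_lit 17483541021) (nat_lit 76) (nat_lit 3222409156) (nat_lit 13) (nat_lit 4) (nat_lit 14) (nat_lit 5) (nat_lit 14) (nat_lit 4) (nat_lit 323) (nat_lit 243) (nat_lit 214)) (XT.lf (nat_lit 0) (nat_lit 2352089409) (nat_lit 152) (nat_lit 9704321034) (nat_lit 76) (nat_lit 18668611132) (nat_lit 12) (nat_lit 5) (nat_lit 14) (nat_lit 5) (nat_lit 13) (nat_lit 4) (nat_lit 324) (nat_lit 243) (nat_lit 213))) (XT.nd (nat_lit 78) (nat_lit 0) (nat_lit 0) (XT.lf (nat_lit 0) (nat_lit 1663556580) (nat_lit 76) (nat_lit 6390715406) (nat_lit 152) (nat_lit 24009721047) (nat_lit 11) (nat_lit 5) (nat_lit 12) (nat_lit 5) (nat_lit 13) (nat_lit 4) (nat_lit 325) (nat_lit 243) (nat_lit 212)) (XT.lf (nat_lit 0) (nat_lit 13624117176) (nat_lit 76) (nat_lit 419430740) (nat_lit 152) (nat_lit 19426339834) (nat_lit 11) (nat_lit 5) (nat_lit 12) (nat_lit 5) (nat_lit 13) (nat_lit 4) (nat_lit 326) (nat_lit 243)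 (nat_lit 211))))))))
noncomputable def xc23 : XT := (XT.nd (nat_lit 2028) (nat_lit 152) (nat_lit 0) (XT.nd (nat_lit 1014) (nat_lit 152) (nat_lit 0) (XT.nd (nat_lit 468) (nat_lit 152) (nat_lit 0) (XT.nd (nat_lit 234) (nat_lit 152) (nat_lit 0) (XT.nd (nat_lit 78) (nat_lit 76) (nat_lit 0) (XT.lf (nat_lit 0) (nat_lit 20294536988) (nat_lit 152) (nat_lit 8991704056) (nat_lit 0) (nat_lit 5661001259) (nat_lit 11) (nat_lit 5) (nat_lit 13) (nat_lit 4) (nat_lit 11) (nat_lit 4) (nat_lit 327) (nat_lit 243) (nat_lit 210)) (XT.nd (nat_lit 78) (nat_lit 0) (nat_lit 0) (XT.lf (nat_lit 0) (nat_lit 2281451852) (nat_lit 76) (nat_lit 24513274977) (nat_lit 76) (nat_lit 9705669246) (nat_lit 10) (nat_lit 4) (nat_lit 11) (nat_lit 5) (nat_lit 11) (nat_lit 4) (nat_lit 328) (nat_lit 243) (nat_lit 209)) (XT.lf (nat_lit 0) (nat_lit 14146964018) (nat_lit 76) (nat_lit 19478743161) (nat_lit 76) (nat_lit 4505356476) (nat_lit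 10) (nat_lit 4) (nat_lit 11) (nat_lit 5) (nat_lit 11) (nat_lit 4) (nat_lit 329) (nat_lit 243) (nat_lit 208)))) (XT.nd (nat_lit 78) (nat_lit 76) (nat_lit 0) (XT.lf (nat_lit 0) (nat_lit 852842863) (nat_lit 152) (nat_lit 13400002293) (nat_lit 76) (nat_lit 25592676215) (nat_lit 9) (nat_lit 5) (nat_lit 11) (nat_lit 5) (nat_lit 10) (nat_lit 4) (nat_lit 330) (nat_lit 243) (nat_lit 207)) (XT.nd (nat_lit 78) (nat_lit 76) (nat_lit 0) (XT.lf (nat_lit 0) (nat_lit 6307122438) (nat_lit 152) (nat_lit 2478182968) (nat_lit 76) (nat_lit 32861443928) (nat_lit 9) (nat_lit 5) (nat_lit 11) (nat_lit 5) (nat_lit 10) (nat_lit 4) (nat_lit 331) (nat_lit 243) (nat_lit 206)) (XT.lf (nat_lit 0) (nat_lit 9026816615) (nat_lit 76) (nat_lit 3018339027) (nat_lit 152) (nat_lit 31492576649) (nat_lit 8) (nat_lit 5) (nat_lit 9) (nat_lit 5) (nat_lit 10) (nat_lit 4) (nat_lit 332) (nat_lit 243) (nat_lit 205))))) (XT.nd (nat_lit 234)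 (nat_lit 152) (nat_lit 0) (XT.nd (nat_lit 78) (nat_lit 0) (nat_lit 0) (XT.lf (nat_lit 0) (nat_lit 18051030734) (nat_lit 152) (nat_lit 24529796131) (nat_lit 0) (nat_lit 2943032928) (nat_lit 8) (nat_lit 5) (nat_lit 10) (nat_lit 4) (nat_lit 8) (nat_lit 4) (nat_lit 333) (nat_lit 243) (nat_lit 204)) (XT.nd (nat_lit 78) (nat_lit 0) (nat_lit 0) (XT.lf (nat_lit 0) (nat_lit 24317172666) (nat_lit 152) (nat_lit 14210279834) (nat_lit 0) (nat_lit 9083064457) (nat_lit 8) (nat_lit 5) (nat_lit 10) (nat_lit 4) (nat_lit 8) (nat_lit 4) (nat_lit 334) (nat_lit 243) (nat_lit 203)) (XT.lf (nat_lit 0) (nat_lit 30829486703) (nat_lit 152) (nat_lit 3498782390) (nat_lit 0) (nat_lit 15475273348) (nat_lit 8) (nat_lit 5) (nat_lit 10) (nat_lit 4) (nat_lit 8) (nat_lit 4) (nat_lit 335) (nat_lit 243) (nat_lit 202)))) (XT.nd (nat_lit 156) (nat_lit 76) (nat_lit 0) (XT.nd (nat_lit 78) (nat_lit 0) (nat_lit 0) (XT.lf (nat_lit 0)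 (nat_lit 7782055704) (nat_lit 76) (nat_lit 29896228529) (nat_lit 76) (nat_lit 14427629321) (nat_lit 7) (nat_lit 4) (nat_lit 8) (nat_lit 5) (nat_lit 8) (nat_lit 4) (nat_lit 336) (nat_lit 243) (nat_lit 201)) (XT.lf (nat_lit 0) (nat_lit 19585344837) (nat_lit 76) (nat_lit 25258197649) (nat_lit 76) (nat_lit 9680659533) (nat_lit 7) (nat_lit 4) (nat_lit 8) (nat_lit 5) (nat_lit 8) (nat_lit 4) (nat_lit 337) (nat_lit 243) (nat_lit 200))) (XT.nd (nat_lit 78) (nat_lit 76) (nat_lit 0) (XT.lf (nat_lit 0) (nat_lit 31869555447) (nat_lit 76) (nat_lit 20438464362) (nat_lit 76) (nat_lit 4757174906) (nat_lit 7) (nat_lit 4) (nat_lit 8) (nat_lit 5) (nat_lit 8) (nat_lit 4) (nat_lit 338) (nat_lit 243) (nat_lit 199)) (XT.lf (nat_lit 0) (nat_lit 347628650) (nat_lit 152) (nat_lit 15074414097) (nat_lit 76) (nat_lit 44312796638) (nat_lit 6) (nat_lit 5) (nat_lit 8) (nat_lit 5) (nat_lit 7) (nat_lit 4) (nat_lit 339) (nat_lit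 243) (nat_lit 198)))))) (XT.nd (nat_lit 468) (nat_lit 76) (nat_lit 0) (XT.nd (nat_lit 234) (nat_lit 0) (nat_lit 0) (XT.nd (nat_lit 78) (nat_lit 76) (nat_lit 0) (XT.lf (nat_lit 0) (nat_lit 5556100091) (nat_lit 152) (nat_lit 4595322594) (nat_lit 76) (nat_lit 52386742464) (nat_lit 6) (nat_lit 5) (nat_lit 8) (nat_lit 5) (nat_lit 7) (nat_lit 4) (nat_lit 340) (nat_lit 243) (nat_lit 197)) (XT.nd (nat_lit 78) (nat_lit 0) (nat_lit 0) (XT.lf (nat_lit 0) (nat_lit 6437941763) (nat_lit 76) (nat_lit 4597413829) (nat_lit 152) (nat_lit 54446006308) (nat_lit 5) (nat_lit 5) (nat_lit 6) (nat_lit 5) (nat_lit 7) (nat_lit 4) (nat_lit 341) (nat_lit 243) (nat_lit 196)) (XT.lf (nat_lit 0) (nat_lit 16797839033) (nat_lit 152) (nat_lit 50557511778) (nat_lit 0) (nat_lit 1216104494) (nat_lit 5) (nat_lit 5) (nat_lit 7) (nat_lit 4) (nat_lit 5) (nat_lit 4) (nat_lit 342) (nat_lit 243) (nat_lit 195)))) (XT.nd (nat_lit 78)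 (nat_lit 0) (nat_lit 0) (XT.lf (nat_lit 0) (nat_lit 22846875368) (nat_lit 152) (nat_lit 41783022558) (nat_lit 0) (nat_lit 7186216664) (nat_lit 5) (nat_lit 5) (nat_lit 7) (nat_lit 4) (nat_lit 5) (nat_lit 4) (nat_lit 343) (nat_lit 243) (nat_lit 194)) (XT.nd (nat_lit 78) (nat_lit 0) (nat_lit 0) (XT.lf (nat_lit 0) (nat_lit 29152673910) (nat_lit 152) (nat_lit 32654867680) (nat_lit 0) (nat_lit 13416849334) (nat_lit 5) (nat_lit 5) (nat_lit 7) (nat_lit 4) (nat_lit 5) (nat_lit 4) (nat_lit 344) (nat_lit 243) (nat_lit 193)) (XT.lf (nat_lit 0) (nat_lit 35730248465) (nat_lit 152) (nat_lit 23151313444) (nat_lit 0) (nat_lit 19922837345) (nat_lit 5) (nat_lit 5) (nat_lit 7) (nat_lit 4) (nat_lit 5) (nat_lit 4) (nat_lit 345) (nat_lit 243) (nat_lit 192))))) (XT.nd (nat_lit 234) (nat_lit 0) (nat_lit 0) (XT.nd (nat_lit 78) (nat_lit 76) (nat_lit 0) (XT.lf (nat_lit 0) (nat_lit 42595259925) (nat_lit 152) (nat_lit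 13249732339) (nat_lit 0) (nat_lit 26719671144) (nat_lit 5) (nat_lit 5) (nat_lit 7) (nat_lit 4) (nat_lit 5) (nat_lit 4) (nat_lit 346) (nat_lit 243) (nat_lit 191)) (XT.nd (nat_lit 78) (nat_lit 76) (nat_lit 0) (XT.lf (nat_lit 0) (nat_lit 49764053556) (nat_lit 152) (nat_lit 2926549173) (nat_lit 0) (nat_lit 33823533669) (nat_lit 5) (nat_lit 5) (nat_lit 7) (nat_lit 4) (nat_lit 5) (nat_lit 4) (nat_lit 347) (nat_lit 243) (nat_lit 190)) (XT.lf (nat_lit 0) (nat_lit 7998902460) (nat_lit 76) (nat_lit 49331685797) (nat_lit 76) (nat_lit 33329326761) (nat_lit 4) (nat_lit 4) (nat_lit 5) (nat_lit 5) (nat_lit 5) (nat_lit 4) (nat_lit 348) (nat_lit 243) (nat_lit 189)))) (XT.nd (nat_lit 156) (nat_lit 0) (nat_lit 0) (XT.nd (nat_lit 78) (nat_lit 0) (nat_lit 0) (XT.lf (nat_lit 0) (nat_lit 19463810764) (nat_lit 76) (nat_lit 45805312776) (nat_lit 76) (nat_lit 29744059312) (nat_lit 4) (nat_lit 4) (nat_lit 5) (nat_lit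 5) (nat_lit 5) (nat_lit 4) (nat_lit 349) (nat_lit 243) (nat_lit 188)) (XT.lf (nat_lit 0) (nat_lit 31437229074) (nat_lit 76) (nat_lit 42132639948) (nat_lit 76) (nat_lit 26015296553) (nat_lit 4) (nat_lit 4) (nat_lit 5) (nat_lit 5) (nat_lit 5) (nat_lit 4) (nat_lit 350) (nat_lit 243) (nat_lit 187))) (XT.nd (nat_lit 78) (nat_lit 0) (nat_lit 0) (XT.lf (nat_lit 0) (nat_lit 43947665526) (nat_lit 76) (nat_lit 38304922853) (nat_lit 76) (nat_lit 22134160477) (nat_lit 4) (nat_lit 4) (nat_lit 5) (nat_lit 5) (nat_lit 5) (nat_lit 4) (nat_lit 351) (nat_lit 243) (nat_lit 186)) (XT.lf (nat_lit 0) (nat_lit 57024906876) (nat_lit 76) (nat_lit 34313047881) (nat_lit 76) (nat_lit 18091410284) (nat_lit 4) (nat_lit 4) (nat_lit 5) (nat_lit 5) (nat_lit 5) (nat_lit 4) (nat_lit 352) (nat_lit 243) (nat_lit 185))))))) (XT.nd (nat_lit 36114) (nat_lit 0) (nat_lit 2128) (XT.nd (nat_lit 468) (nat_lit 0) (nat_lit 0) (XT.nd (nat_lit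 234) (nat_lit 152) (nat_lit 0) (XT.nd (nat_lit 78) (nat_lit 0) (nat_lit 0) (XT.lf (nat_lit 0) (nat_lit 70700089412) (nat_lit 76) (nat_lit 30147510566) (nat_lit 76) (nat_lit 13877420378) (nat_lit 4) (nat_lit 4) (nat_lit 5) (nat_lit 5) (nat_lit 5) (nat_lit 4) (nat_lit 353) (nat_lit 243) (nat_lit 184)) (XT.nd (nat_lit 78) (nat_lit 0) (nat_lit 0) (XT.lf (nat_lit 0) (nat_lit 85005773092) (nat_lit 76) (nat_lit 25798392963) (nat_lit 76) (nat_lit 9482157450) (nat_lit 4) (nat_lit 4) (nat_lit 5) (nat_lit 5) (nat_lit 5) (nat_lit 4) (nat_lit 354) (nat_lit 243) (nat_lit 183)) (XT.lf (nat_lit 0) (nat_lit 99976019068) (nat_lit 76) (nat_lit 21255340029) (nat_lit 76) (nat_lit 4895156588) (nat_lit 4) (nat_lit 4) (nat_lit 5) (nat_lit 5) (nat_lit 5) (nat_lit 4) (nat_lit 355) (nat_lit 243) (nat_lit 182)))) (XT.nd (nat_lit 78) (nat_lit 152) (nat_lit 0) (XT.lf (nat_lit 0) (nat_lit 115646470782) (nat_lit 76) (nat_lit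 16507534973) (nat_lit 76) (nat_lit 105496362) (nat_lit 4) (nat_lit 4) (nat_lit 5) (nat_lit 5) (nat_lit 5) (nat_lit 4) (nat_lit 356) (nat_lit 243) (nat_lit 181)) (XT.nd (nat_lit 78) (nat_lit 76) (nat_lit 0) (XT.lf (nat_lit 0) (nat_lit 4802645126) (nat_lit 152) (nat_lit 6692531070) (nat_lit 76) (nat_lit 127203296409) (nat_lit 3) (nat_lit 5) (nat_lit 5) (nat_lit 5) (nat_lit 4) (nat_lit 4) (nat_lit 357) (nat_lit 243) (nat_lit 180)) (XT.lf (nat_lit 0) (nat_lit 3751847002) (nat_lit 76) (nat_lit 6214513368) (nat_lit 152) (nat_lit 135492636028) (nat_lit 2) (nat_lit 5) (nat_lit 3) (nat_lit 5) (nat_lit 4) (nat_lit 4) (nat_lit 358) (nat_lit 243) (nat_lit 179))))) (XT.nd (nat_lit 234) (nat_lit 0) (nat_lit 0) (XT.nd (nat_lit 78) (nat_lit 0) (nat_lit 0) (XT.lf (nat_lit 0) (nat_lit 14815273432) (nat_lit 76) (nat_lit 618861568) (nat_lit 152) (nat_lit 137122041430) (nat_lit 2) (nat_lit 5) (nat_lit 3) (nat_lit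 5) (nat_lit 4) (nat_lit 4) (nat_lit 359) (nat_lit 243) (nat_lit 178)) (XT.nd (nat_lit 78) (nat_lit 0) (nat_lit 0) (XT.lf (nat_lit 0) (nat_lit 21203720731) (nat_lit 152) (nat_lit 133668330173) (nat_lit 0) (nat_lit 5135317846) (nat_lit 2) (nat_lit 5) (nat_lit 4) (nat_lit 4) (nat_lit 2) (nat_lit 4) (nat_lit 360) (nat_lit 243) (nat_lit 177)) (XT.lf (nat_lit 0) (nat_lit 27246977760) (nat_lit 152) (nat_lit 129437857407) (nat_lit 0) (nat_lit 11146735437) (nat_lit 2) (nat_lit 5) (nat_lit 4) (nat_lit 4) (nat_lit 2) (nat_lit 4) (nat_lit 361) (nat_lit 243) (nat_lit 176)))) (XT.nd (nat_lit 35256) (nat_lit 0) (nat_lit 5016) (XT.nd (nat_lit 35178) (nat_lit 0) (nat_lit 5700) (XT.lf (nat_lit 0) (nat_lit 33572345917) (nat_lit 152) (nat_lit 125033463270) (nat_lit 0) (nat_lit 17441780320) (nat_lit 2) (nat_lit 5) (nat_lit 4) (nat_lit 4) (nat_lit 2) (nat_lit 4) (nat_lit 362) (nat_lit 243) (nat_lit 175)) (XT.lf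 (nat_lit 0) (nat_lit 3553068632) (nat_lit 304) (nat_lit 722829951) (nat_lit 304) (nat_lit 722829951) (nat_lit 77) (nat_lit 4) (nat_lit 81) (nat_lit 5) (nat_lit 81) (nat_lit 4) (nat_lit 292) (nat_lit 244) (nat_lit 244))) (XT.nd (nat_lit 78) (nat_lit 380) (nat_lit 0) (XT.lf (nat_lit 0) (nat_lit 4915808644) (nat_lit 304) (nat_lit 1729715482) (nat_lit 0) (nat_lit 3612021191) (nat_lit 73) (nat_lit 5) (nat_lit 77) (nat_lit 4) (nat_lit 73) (nat_lit 4) (nat_lit 293) (nat_lit 244) (nat_lit 243)) (XT.lf (nat_lit 0) (nat_lit 907088214) (nat_lit 380) (nat_lit 704100714) (nat_lit 76) (nat_lit 8922174622) (nat_lit 68) (nat_lit 5) (nat_lit 73) (nat_lit 5) (nat_lit 69) (nat_lit 4) (nat_lit 294) (nat_lit 244) (nat_lit 242)))))) (XT.nd (nat_lit 546) (nat_lit 1216) (nat_lit 0) (XT.nd (nat_lit 234) (nat_lit 684) (nat_lit 0) (XT.nd (nat_lit 78) (nat_lit 532) (nat_lit 0) (XT.lf (nat_lit 0) (nat_lit 114216733)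 (nat_lit 228) (nat_lit 7164612273) (nat_lit 228) (nat_lit 3545133201) (nat_lit 62) (nat_lit 4) (nat_lit 65) (nat_lit 5) (nat_lit 65) (nat_lit 4) (nat_lit 295) (nat_lit 244) (nat_lit 241)) (XT.nd (nat_lit 78) (nat_lit 228) (nat_lit 0) (XT.lf (nat_lit 0) (nat_lit 753354700) (nat_lit 228) (nat_lit 1939399332) (nat_lit 304) (nat_lit 8438463759) (nat_lit 58) (nat_lit 5) (nat_lit 61) (nat_lit 5) (nat_lit 62) (nat_lit 4) (nat_lit 296) (nat_lit 244) (nat_lit 240)) (XT.lf (nat_lit 0) (nat_lit 1144484524) (nat_lit 228) (nat_lit 7948740241) (nat_lit 228) (nat_lit 2362018372) (nat_lit 55) (nat_lit 4) (nat_lit 58) (nat_lit 5) (nat_lit 58) (nat_lit 4) (nat_lit 297) (nat_lit 244) (nat_lit 239)))) (XT.nd (nat_lit 156) (nat_lit 228) (nat_lit 0) (XT.nd (nat_lit 78) (nat_lit 228) (nat_lit 0) (XT.lf (nat_lit 0) (nat_lit 1269195499) (nat_lit 152) (nat_lit 2582443768) (nat_lit 228) (nat_lit 7945484342) (nat_lit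 52) (nat_lit 5) (nat_lit 54) (nat_lit 5) (nat_lit 55) (nat_lit 4) (nat_lit 298) (nat_lit 244) (nat_lit 238)) (XT.lf (nat_lit 0) (nat_lit 1098986130) (nat_lit 228) (nat_lit 9154003296) (nat_lit 228) (nat_lit 1904790009) (nat_lit 49) (nat_lit 4) (nat_lit 52) (nat_lit 5) (nat_lit 52) (nat_lit 4) (nat_lit 299) (nat_lit 244) (nat_lit 237))) (XT.nd (nat_lit 78) (nat_lit 0) (nat_lit 0) (XT.lf (nat_lit 0) (nat_lit 582501870) (nat_lit 152) (nat_lit 3693195045) (nat_lit 228) (nat_lit 8261907345) (nat_lit 46) (nat_lit 5) (nat_lit 48) (nat_lit 5) (nat_lit 49) (nat_lit 4) (nat_lit 300) (nat_lit 244) (nat_lit 236)) (XT.lf (nat_lit 0) (nat_lit 10649752699) (nat_lit 228) (nat_lit 284143474) (nat_lit 0) (nat_lit 2004379983) (nat_lit 46) (nat_lit 5) (nat_lit 49) (nat_lit 4) (nat_lit 46) (nat_lit 4) (nat_lit 301) (nat_lit 244) (nat_lit 235))))) (XT.nd (nat_lit 234) (nat_lit 532) (nat_lit 0) (XT.nd (nat_lit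 78) (nat_lit 380) (nat_lit 0) (XT.lf (nat_lit 0) (nat_lit 3855225240) (nat_lit 304) (nat_lit 1565979327) (nat_lit 76) (nat_lit 7938274690) (nat_lit 42) (nat_lit 5) (nat_lit 46) (nat_lit 5) (nat_lit 43) (nat_lit 4) (nat_lit 302) (nat_lit 244) (nat_lit 234)) (XT.nd (nat_lit 78) (nat_lit 228) (nat_lit 0) (XT.lf (nat_lit 0) (nat_lit 10170505888) (nat_lit 228) (nat_lit 3271797228) (nat_lit 0) (nat_lit 361532476) (nat_lit 40) (nat_lit 5) (nat_lit 43) (nat_lit 4) (nat_lit 40) (nat_lit 4) (nat_lit 303) (nat_lit 244) (nat_lit 233)) (XT.lf (nat_lit 0) (nat_lit 2445360076) (nat_lit 228) (nat_lit 5502456995) (nat_lit 76) (nat_lit 6323068224) (nat_lit 37) (nat_lit 5) (nat_lit 40) (nat_lit 5) (nat_lit 38) (nat_lit 4) (nat_lit 304) (nat_lit 244) (nat_lit 232)))) (XT.nd (nat_lit 156) (nat_lit 228) (nat_lit 0) (XT.nd (nat_lit 78) (nat_lit 152) (nat_lit 0) (XT.lf (nat_lit 0) (nat_lit 6492479000) (nat_lit 152)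 (nat_lit 2170215035) (nat_lit 228) (nat_lit 6100327050) (nat_lit 35) (nat_lit 5) (nat_lit 37) (nat_lit 5) (nat_lit 38) (nat_lit 4) (nat_lit 305) (nat_lit 244) (nat_lit 231)) (XT.lf (nat_lit 0) (nat_lit 3645970638) (nat_lit 152) (nat_lit 11492118993) (nat_lit 152) (nat_lit 143361408) (nat_lit 33) (nat_lit 4) (nat_lit 35) (nat_lit 5) (nat_lit 35) (nat_lit 4) (nat_lit 306) (nat_lit 244) (nat_lit 230))) (XT.nd (nat_lit 78) (nat_lit 0) (nat_lit 0) (XT.lf (nat_lit 0) (nat_lit 122821405) (nat_lit 152) (nat_lit 5799869938) (nat_lit 228) (nat_lit 9903529323) (nat_lit 30) (nat_lit 5) (nat_lit 32) (nat_lit 5) (nat_lit 33) (nat_lit 4) (nat_lit 307) (nat_lit 244) (nat_lit 229)) (XT.lf (nat_lit 0) (nat_lit 12237654754) (nat_lit 228) (nat_lit 3988068938) (nat_lit 0) (nat_lit 174096212) (nat_lit 30) (nat_lit 5) (nat_lit 33) (nat_lit 4) (nat_lit 30) (nat_lit 4) (nat_lit 308) (nat_lit 244) (nat_lit 228))))))))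
noncomputable def xc24 : XT := (XT.nd (nat_lit 2028) (nat_lit 456) (nat_lit 0) (XT.nd (nat_lit 1014) (nat_lit 456) (nat_lit 0) (XT.nd (nat_lit 468) (nat_lit 608) (nat_lit 0) (XT.nd (nat_lit 234) (nat_lit 304) (nat_lit 0) (XT.nd (nat_lit 78) (nat_lit 76) (nat_lit 0) (XT.lf (nat_lit 0) (nat_lit 1800301127) (nat_lit 228) (nat_lit 8894590595) (nat_lit 76) (nat_lit 6307639695) (nat_lit 27) (nat_lit 5) (nat_lit 30) (nat_lit 5) (nat_lit 28) (nat_lit 4) (nat_lit 309) (nat_lit 244) (nat_lit 227)) (XT.nd (nat_lit 78) (nat_lit 0) (nat_lit 0) (XT.lf (nat_lit 0) (nat_lit 2991886664) (nat_lit 76) (nat_lit 4891663097) (nat_lit 152) (nat_lit 9753410336) (nat_lit 26) (nat_lit 5) (nat_lit 27) (nat_lit 5) (nat_lit 28) (nat_lit 4) (nat_lit 310) (nat_lit 244) (nat_lit 226)) (XT.lf (nat_lit 0) (nat_lit 14216672048) (nat_lit 152) (nat_lit 2931871189) (nat_lit 0) (nat_lit 1156271873) (nat_lit 26) (nat_lit 5) (nat_lit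 28) (nat_lit 4) (nat_lit 26) (nat_lit 4) (nat_lit 311) (nat_lit 244) (nat_lit 225)))) (XT.nd (nat_lit 78) (nat_lit 76) (nat_lit 0) (XT.lf (nat_lit 0) (nat_lit 1811247759) (nat_lit 228) (nat_lit 9790865260) (nat_lit 76) (nat_lit 7403868957) (nat_lit 23) (nat_lit 5) (nat_lit 26) (nat_lit 5) (nat_lit 24) (nat_lit 4) (nat_lit 312) (nat_lit 244) (nat_lit 224)) (XT.nd (nat_lit 78) (nat_lit 0) (nat_lit 0) (XT.lf (nat_lit 0) (nat_lit 2027610111) (nat_lit 76) (nat_lit 5796631867) (nat_lit 152) (nat_lit 11919722555) (nat_lit 22) (nat_lit 5) (nat_lit 23) (nat_lit 5) (nat_lit 24) (nat_lit 4) (nat_lit 313) (nat_lit 244) (nat_lit 223)) (XT.lf (nat_lit 0) (nat_lit 14098523821) (nat_lit 152) (nat_lit 6133754472) (nat_lit 0) (nat_lit 287812723) (nat_lit 22) (nat_lit 5) (nat_lit 24) (nat_lit 4) (nat_lit 22) (nat_lit 4) (nat_lit 314) (nat_lit 244) (nat_lit 222))))) (XT.nd (nat_lit 234) (nat_lit 304) (nat_lit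 0) (XT.nd (nat_lit 78) (nat_lit 152) (nat_lit 0) (XT.lf (nat_lit 0) (nat_lit 5839933291) (nat_lit 152) (nat_lit 14824064891) (nat_lit 152) (nat_lit 671762182) (nat_lit 20) (nat_lit 4) (nat_lit 22) (nat_lit 5) (nat_lit 22) (nat_lit 4) (nat_lit 315) (nat_lit 244) (nat_lit 221)) (XT.nd (nat_lit 78) (nat_lit 76) (nat_lit 0) (XT.lf (nat_lit 0) (nat_lit 5190318958) (nat_lit 228) (nat_lit 3941280565) (nat_lit 76) (nat_lit 13061238054) (nat_lit 19) (nat_lit 5) (nat_lit 22) (nat_lit 5) (nat_lit 20) (nat_lit 4) (nat_lit 316) (nat_lit 244) (nat_lit 220)) (XT.lf (nat_lit 0) (nat_lit 8114710184) (nat_lit 76) (nat_lit 3167147892) (nat_lit 152) (nat_lit 11812257254) (nat_lit 18) (nat_lit 5) (nat_lit 19) (nat_lit 5) (nat_lit 20) (nat_lit 4) (nat_lit 317) (nat_lit 244) (nat_lit 219)))) (XT.nd (nat_lit 156) (nat_lit 152) (nat_lit 0) (XT.nd (nat_lit 78) (nat_lit 152) (nat_lit 0) (XT.lf (nat_lit 0) (nat_lit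 17623844357) (nat_lit 152) (nat_lit 3437687284) (nat_lit 0) (nat_lit 2980600291) (nat_lit 18) (nat_lit 5) (nat_lit 20) (nat_lit 4) (nat_lit 18) (nat_lit 4) (nat_lit 318) (nat_lit 244) (nat_lit 218)) (XT.lf (nat_lit 0) (nat_lit 8603558648) (nat_lit 152) (nat_lit 15675126864) (nat_lit 152) (nat_lit 759039824) (nat_lit 16) (nat_lit 4) (nat_lit 18) (nat_lit 5) (nat_lit 18) (nat_lit 4) (nat_lit 319) (nat_lit 244) (nat_lit 217))) (XT.nd (nat_lit 78) (nat_lit 76) (nat_lit 0) (XT.lf (nat_lit 0) (nat_lit 5001335287) (nat_lit 228) (nat_lit 5023226858) (nat_lit 76) (nat_lit 16059507305) (nat_lit 15) (nat_lit 5) (nat_lit 18) (nat_lit 5) (nat_lit 16) (nat_lit 4) (nat_lit 320) (nat_lit 244) (nat_lit 216)) (XT.lf (nat_lit 0) (nat_lit 6885220589) (nat_lit 76) (nat_lit 4104254632) (nat_lit 152) (nat_lit 16194409595) (nat_lit 14) (nat_lit 5) (nat_lit 15) (nat_lit 5) (nat_lit 16) (nat_lit 4) (nat_lit 321) (nat_lit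 244) (nat_lit 215)))))) (XT.nd (nat_lit 468) (nat_lit 228) (nat_lit 0) (XT.nd (nat_lit 234) (nat_lit 152) (nat_lit 0) (XT.nd (nat_lit 78) (nat_lit 76) (nat_lit 0) (XT.lf (nat_lit 0) (nat_lit 17241243153) (nat_lit 152) (nat_lit 9060334468) (nat_lit 0) (nat_lit 2038227491) (nat_lit 14) (nat_lit 5) (nat_lit 16) (nat_lit 4) (nat_lit 14) (nat_lit 4) (nat_lit 322) (nat_lit 244) (nat_lit 214)) (XT.nd (nat_lit 78) (nat_lit 0) (nat_lit 0) (XT.lf (nat_lit 0) (nat_lit 2561381256) (nat_lit 76) (nat_lit 21207119159) (nat_lit 76) (nat_lit 5786172828) (nat_lit 13) (nat_lit 4) (nat_lit 14) (nat_lit 5) (nat_lit 14) (nat_lit 4) (nat_lit 323) (nat_lit 244) (nat_lit 213)) (XT.lf (nat_lit 0) (nat_lit 14771792862) (nat_lit 76) (nat_lit 15843614826) (nat_lit 76) (nat_lit 215115476) (nat_lit 13) (nat_lit 4) (nat_lit 14) (nat_lit 5) (nat_lit 14) (nat_lit 4) (nat_lit 324) (nat_lit 244) (nat_lit 212)))) (XT.nd (nat_lit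 78) (nat_lit 76) (nat_lit 0) (XT.lf (nat_lit 0) (nat_lit 5428348132) (nat_lit 152) (nat_lit 4806622183) (nat_lit 76) (nat_lit 21936490531) (nat_lit 12) (nat_lit 5) (nat_lit 14) (nat_lit 5) (nat_lit 13) (nat_lit 4) (nat_lit 325) (nat_lit 244) (nat_lit 211)) (XT.nd (nat_lit 78) (nat_lit 0) (nat_lit 0) (XT.lf (nat_lit 0) (nat_lit 6975349137) (nat_lit 76) (nat_lit 4349663047) (nat_lit 152) (nat_lit 22255137628) (nat_lit 11) (nat_lit 5) (nat_lit 12) (nat_lit 5) (nat_lit 13) (nat_lit 4) (nat_lit 326) (nat_lit 244) (nat_lit 210)) (XT.lf (nat_lit 0) (nat_lit 17494556673) (nat_lit 152) (nat_lit 15792905512) (nat_lit 0) (nat_lit 1772500654) (nat_lit 11) (nat_lit 5) (nat_lit 13) (nat_lit 4) (nat_lit 11) (nat_lit 4) (nat_lit 327) (nat_lit 244) (nat_lit 209))))) (XT.nd (nat_lit 234) (nat_lit 152) (nat_lit 0) (XT.nd (nat_lit 78) (nat_lit 76) (nat_lit 0) (XT.lf (nat_lit 0) (nat_lit 23931230292) (nat_lit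 152) (nat_lit 4640412901) (nat_lit 0) (nat_lit 8043393319) (nat_lit 11) (nat_lit 5) (nat_lit 13) (nat_lit 4) (nat_lit 11) (nat_lit 4) (nat_lit 328) (nat_lit 244) (nat_lit 208)) (XT.nd (nat_lit 78) (nat_lit 0) (nat_lit 0) (XT.lf (nat_lit 0) (nat_lit 7058784645) (nat_lit 76) (nat_lit 23617615543) (nat_lit 76) (nat_lit 7571891949) (nat_lit 10) (nat_lit 4) (nat_lit 11) (nat_lit 5) (nat_lit 11) (nat_lit 4) (nat_lit 329) (nat_lit 244) (nat_lit 207)) (XT.lf (nat_lit 0) (nat_lit 19295512410) (nat_lit 76) (nat_lit 18432372527) (nat_lit 76) (nat_lit 2236280720) (nat_lit 10) (nat_lit 4) (nat_lit 11) (nat_lit 5) (nat_lit 11) (nat_lit 4) (nat_lit 330) (nat_lit 244) (nat_lit 206)))) (XT.nd (nat_lit 156) (nat_lit 0) (nat_lit 0) (XT.nd (nat_lit 78) (nat_lit 76) (nat_lit 0) (XT.lf (nat_lit 0) (nat_lit 3224694486) (nat_lit 152) (nat_lit 9793169820) (nat_lit 76) (nat_lit 28749294566) (nat_lit 9) (nat_lit 5)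 (nat_lit 11) (nat_lit 5) (nat_lit 10) (nat_lit 4) (nat_lit 331) (nat_lit 244) (nat_lit 205)) (XT.lf (nat_lit 0) (nat_lit 1500359187) (nat_lit 76) (nat_lit 7354836485) (nat_lit 152) (nat_lit 34806183631) (nat_lit 8) (nat_lit 5) (nat_lit 9) (nat_lit 5) (nat_lit 10) (nat_lit 4) (nat_lit 332) (nat_lit 244) (nat_lit 204))) (XT.nd (nat_lit 78) (nat_lit 0) (nat_lit 0) (XT.lf (nat_lit 0) (nat_lit 13434574626) (nat_lit 76) (nat_lit 1363531959) (nat_lit 152) (nat_lit 30851300111) (nat_lit 8) (nat_lit 5) (nat_lit 9) (nat_lit 5) (nat_lit 10) (nat_lit 4) (nat_lit 333) (nat_lit 244) (nat_lit 203)) (XT.lf (nat_lit 0) (nat_lit 21018392638) (nat_lit 152) (nat_lit 21942693875) (nat_lit 0) (nat_lit 4776363469) (nat_lit 8) (nat_lit 5) (nat_lit 10) (nat_lit 4) (nat_lit 8) (nat_lit 4) (nat_lit 334) (nat_lit 244) (nat_lit 202))))))) (XT.nd (nat_lit 1014) (nat_lit 228) (nat_lit 0) (XT.nd (nat_lit 468) (nat_lit 76)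 (nat_lit 0) (XT.nd (nat_lit 234) (nat_lit 76) (nat_lit 0) (XT.nd (nat_lit 78) (nat_lit 76) (nat_lit 0) (XT.lf (nat_lit 0) (nat_lit 27499517363) (nat_lit 152) (nat_lit 11288801386) (nat_lit 0) (nat_lit 11143102342) (nat_lit 8) (nat_lit 5) (nat_lit 10) (nat_lit 4) (nat_lit 8) (nat_lit 4) (nat_lit 335) (nat_lit 244) (nat_lit 201)) (XT.nd (nat_lit 78) (nat_lit 76) (nat_lit 0) (XT.lf (nat_lit 0) (nat_lit 34243804908) (nat_lit 152) (nat_lit 214681090) (nat_lit 0) (nat_lit 17778450979) (nat_lit 8) (nat_lit 5) (nat_lit 10) (nat_lit 4) (nat_lit 8) (nat_lit 4) (nat_lit 336) (nat_lit 244) (nat_lit 200)) (XT.lf (nat_lit 0) (nat_lit 11531046209) (nat_lit 76) (nat_lit 29847110361) (nat_lit 76) (nat_lit 13278005091) (nat_lit 7) (nat_lit 4) (nat_lit 8) (nat_lit 5) (nat_lit 8) (nat_lit 4) (nat_lit 337) (nat_lit 244) (nat_lit 199)))) (XT.nd (nat_lit 78) (nat_lit 76) (nat_lit 0) (XT.lf (nat_lit 0) (nat_lit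 23764505145) (nat_lit 76) (nat_lit 25050698393) (nat_lit 76) (nat_lit 8382782322) (nat_lit 7) (nat_lit 4) (nat_lit 8) (nat_lit 5) (nat_lit 8) (nat_lit 4) (nat_lit 338) (nat_lit 244) (nat_lit 198)) (XT.nd (nat_lit 78) (nat_lit 76) (nat_lit 0) (XT.lf (nat_lit 0) (nat_lit 36510550426) (nat_lit 76) (nat_lit 20059997925) (nat_lit 76) (nat_lit 3297976330) (nat_lit 7) (nat_lit 4) (nat_lit 8) (nat_lit 5) (nat_lit 8) (nat_lit 4) (nat_lit 339) (nat_lit 244) (nat_lit 197)) (XT.lf (nat_lit 0) (nat_lit 1949716387) (nat_lit 152) (nat_lit 12893721636) (nat_lit 76) (nat_lit 47830125078) (nat_lit 6) (nat_lit 5) (nat_lit 8) (nat_lit 5) (nat_lit 7) (nat_lit 4) (nat_lit 340) (nat_lit 244) (nat_lit 196))))) (XT.nd (nat_lit 234) (nat_lit 0) (nat_lit 0) (XT.nd (nat_lit 78) (nat_lit 76) (nat_lit 0) (XT.lf (nat_lit 0) (nat_lit 7343149196) (nat_lit 152) (nat_lit 2030409519) (nat_lit 76) (nat_lit 56245783024) (nat_lit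 6) (nat_lit 5) (nat_lit 8) (nat_lit 5) (nat_lit 7) (nat_lit 4) (nat_lit 341) (nat_lit 244) (nat_lit 195)) (XT.nd (nat_lit 78) (nat_lit 0) (nat_lit 0) (XT.lf (nat_lit 0) (nat_lit 9474409138) (nat_lit 76) (nat_lit 3576183677) (nat_lit 152) (nat_lit 55660500386) (nat_lit 5) (nat_lit 5) (nat_lit 6) (nat_lit 5) (nat_lit 7) (nat_lit 4) (nat_lit 342) (nat_lit 244) (nat_lit 194)) (XT.lf (nat_lit 0) (nat_lit 19042965071) (nat_lit 152) (nat_lit 50469310478) (nat_lit 0) (nat_lit 2445183395) (nat_lit 5) (nat_lit 5) (nat_lit 7) (nat_lit 4) (nat_lit 5) (nat_lit 4) (nat_lit 343) (nat_lit 244) (nat_lit 193)))) (XT.nd (nat_lit 156) (nat_lit 0) (nat_lit 0) (XT.nd (nat_lit 78) (nat_lit 0) (nat_lit 0) (XT.lf (nat_lit 0) (nat_lit 25327537313) (nat_lit 152) (nat_lit 41380671886) (nat_lit 0) (nat_lit 8658169093) (nat_lit 5) (nat_lit 5) (nat_lit 7) (nat_lit 4) (nat_lit 5) (nat_lit 4) (nat_lit 344) (nat_lit 244)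 (nat_lit 192)) (XT.lf (nat_lit 0) (nat_lit 31884896345) (nat_lit 152) (nat_lit 31914752208) (nat_lit 0) (nat_lit 15147350463) (nat_lit 5) (nat_lit 5) (nat_lit 7) (nat_lit 4) (nat_lit 5) (nat_lit 4) (nat_lit 345) (nat_lit 244) (nat_lit 191))) (XT.nd (nat_lit 78) (nat_lit 0) (nat_lit 0) (XT.lf (nat_lit 0) (nat_lit 38730654926) (nat_lit 152) (nat_lit 22049013539) (nat_lit 0) (nat_lit 21928177938) (nat_lit 5) (nat_lit 5) (nat_lit 7) (nat_lit 4) (nat_lit 5) (nat_lit 4) (nat_lit 346) (nat_lit 244) (nat_lit 190)) (XT.lf (nat_lit 0) (nat_lit 45881112482) (nat_lit 152) (nat_lit 11759966026) (nat_lit 0) (nat_lit 29016796345) (nat_lit 5) (nat_lit 5) (nat_lit 7) (nat_lit 4) (nat_lit 5) (nat_lit 4) (nat_lit 347) (nat_lit 244) (nat_lit 189)))))) (XT.nd (nat_lit 546) (nat_lit 152) (nat_lit 0) (XT.nd (nat_lit 234) (nat_lit 0) (nat_lit 0) (XT.nd (nat_lit 78) (nat_lit 76) (nat_lit 0) (XT.lf (nat_lit 0) (nat_lit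 53353293910) (nat_lit 152) (nat_lit 1023111935) (nat_lit 0) (nat_lit 36430083346) (nat_lit 5) (nat_lit 5) (nat_lit 7) (nat_lit 4) (nat_lit 5) (nat_lit 4) (nat_lit 348) (nat_lit 244) (nat_lit 188)) (XT.nd (nat_lit 78) (nat_lit 0) (nat_lit 0) (XT.lf (nat_lit 0) (nat_lit 10389856185) (nat_lit 76) (nat_lit 50875007588) (nat_lit 76) (nat_lit 33895707093) (nat_lit 4) (nat_lit 4) (nat_lit 5) (nat_lit 5) (nat_lit 5) (nat_lit 4) (nat_lit 349) (nat_lit 244) (nat_lit 187)) (XT.lf (nat_lit 0) (nat_lit 22333199972) (nat_lit 76) (nat_lit 47216280796) (nat_lit 76) (nat_lit 30183561320) (nat_lit 4) (nat_lit 4) (nat_lit 5) (nat_lit 5) (nat_lit 5) (nat_lit 4) (nat_lit 350) (nat_lit 244) (nat_lit 186)))) (XT.nd (nat_lit 156) (nat_lit 0) (nat_lit 0) (XT.nd (nat_lit 78) (nat_lit 0) (nat_lit 0) (XT.lf (nat_lit 0) (nat_lit 34814994022) (nat_lit 76) (nat_lit 43401845642) (nat_lit 76) (nat_lit 26318250945) (nat_lit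 4) (nat_lit 4) (nat_lit 5) (nat_lit 5) (nat_lit 5) (nat_lit 4) (nat_lit 351) (nat_lit 244) (nat_lit 185)) (XT.lf (nat_lit 0) (nat_lit 47864956893) (nat_lit 76) (nat_lit 39422620136) (nat_lit 76) (nat_lit 22290572848) (nat_lit 4) (nat_lit 4) (nat_lit 5) (nat_lit 5) (nat_lit 5) (nat_lit 4) (nat_lit 352) (nat_lit 244) (nat_lit 184))) (XT.nd (nat_lit 78) (nat_lit 0) (nat_lit 0) (XT.lf (nat_lit 0) (nat_lit 61514159925) (nat_lit 76) (nat_lit 35269129932) (nat_lit 76) (nat_lit 18090937319) (nat_lit 4) (nat_lit 4) (nat_lit 5) (nat_lit 5) (nat_lit 5) (nat_lit 4) (nat_lit 353) (nat_lit 244) (nat_lit 183)) (XT.lf (nat_lit 0) (nat_lit 75795101220) (nat_lit 76) (nat_lit 30931485768) (nat_lit 76) (nat_lit 13709345226) (nat_lit 4) (nat_lit 4) (nat_lit 5) (nat_lit 5) (nat_lit 5) (nat_lit 4) (nat_lit 354) (nat_lit 244) (nat_lit 182))))) (XT.nd (nat_lit 234) (nat_lit 76) (nat_lit 0) (XT.nd (nat_lit 78) (nat_lit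 76) (nat_lit 0) (XT.lf (nat_lit 0) (nat_lit 90741783020) (nat_lit 76) (nat_lit 26399359919) (nat_lit 76) (nat_lit 9135364208) (nat_lit 4) (nat_lit 4) (nat_lit 5) (nat_lit 5) (nat_lit 5) (nat_lit 4) (nat_lit 355) (nat_lit 244) (nat_lit 181)) (XT.nd (nat_lit 78) (nat_lit 76) (nat_lit 0) (XT.lf (nat_lit 0) (nat_lit 106389792663) (nat_lit 76) (nat_lit 21661961610) (nat_lit 76) (nat_lit 4358103832) (nat_lit 4) (nat_lit 4) (nat_lit 5) (nat_lit 5) (nat_lit 5) (nat_lit 4) (nat_lit 356) (nat_lit 244) (nat_lit 180)) (XT.lf (nat_lit 0) (nat_lit 621442407) (nat_lit 152) (nat_lit 16080293563) (nat_lit 76) (nat_lit 122148669556) (nat_lit 3) (nat_lit 5) (nat_lit 5) (nat_lit 5) (nat_lit 4) (nat_lit 4) (nat_lit 357) (nat_lit 244) (nat_lit 179)))) (XT.nd (nat_lit 156) (nat_lit 0) (nat_lit 0) (XT.nd (nat_lit 78) (nat_lit 76) (nat_lit 0) (XT.lf (nat_lit 0) (nat_lit 5738065043) (nat_lit 152) (nat_lit 5729705682)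 (nat_lit 76) (nat_lit 134144574425) (nat_lit 3) (nat_lit 5) (nat_lit 5) (nat_lit 5) (nat_lit 4) (nat_lit 4) (nat_lit 358) (nat_lit 244) (nat_lit 178)) (XT.lf (nat_lit 0) (nat_lit 5199700094) (nat_lit 76) (nat_lit 5939271416) (nat_lit 152) (nat_lit 141572562624) (nat_lit 2) (nat_lit 5) (nat_lit 3) (nat_lit 5) (nat_lit 4) (nat_lit 4) (nat_lit 359) (nat_lit 244) (nat_lit 177))) (XT.nd (nat_lit 78) (nat_lit 0) (nat_lit 0) (XT.lf (nat_lit 0) (nat_lit 16756285429) (nat_lit 76) (nat_lit 91740246) (nat_lit 152) (nat_lit 143316519495) (nat_lit 2) (nat_lit 5) (nat_lit 3) (nat_lit 5) (nat_lit 4) (nat_lit 4) (nat_lit 360) (nat_lit 244) (nat_lit 176)) (XT.lf (nat_lit 0) (nat_lit 22880619512) (nat_lit 152) (nat_lit 139195247682) (nat_lit 0) (nat_lit 5913202362) (nat_lit 2) (nat_lit 5) (nat_lit 4) (nat_lit 4) (nat_lit 2) (nat_lit 4) (nat_lit 361) (nat_lit 244) (nat_lit 175))))))))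
noncomputable def xc25 : XT := (XT.nd (nat_lit 36972) (nat_lit 0) (nat_lit 304) (XT.nd (nat_lit 35958) (nat_lit 0) (nat_lit 1520) (XT.nd (nat_lit 35412) (nat_lit 0) (nat_lit 3344) (XT.nd (nat_lit 35178) (nat_lit 0) (nat_lit 5016) (XT.nd (nat_lit 35022) (nat_lit 0) (nat_lit 6004) (XT.lf (nat_lit 0) (nat_lit 29196672118) (nat_lit 152) (nat_lit 134808322658) (nat_lit 0) (nat_lit 12200375659) (nat_lit 2) (nat_lit 5) (nat_lit 4) (nat_lit 4) (nat_lit 2) (nat_lit 4) (nat_lit 362) (nat_lit 244) (nat_lit 174)) (XT.nd (nat_lit 78) (nat_lit 380) (nat_lit 0) (XT.lf (nat_lit 0) (nat_lit 2025134431) (nat_lit 304) (nat_lit 1366247406) (nat_lit 304) (nat_lit 1366247406) (nat_lit 86) (nat_lit 4) (nat_lit 90) (nat_lit 5) (nat_lit 90) (nat_lit 4) (nat_lit 290) (nat_lit 245) (nat_lit 245)) (XT.lf (nat_lit 0) (nat_lit 3474469281) (nat_lit 380) (nat_lit 4212309871) (nat_lit 0) (nat_lit 2064423150) (nat_lit 81)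 (nat_lit 5) (nat_lit 86) (nat_lit 4) (nat_lit 81) (nat_lit 4) (nat_lit 291) (nat_lit 245) (nat_lit 244)))) (XT.nd (nat_lit 78) (nat_lit 684) (nat_lit 0) (XT.lf (nat_lit 0) (nat_lit 6924761972) (nat_lit 304) (nat_lit 2914715035) (nat_lit 304) (nat_lit 161767827) (nat_lit 77) (nat_lit 4) (nat_lit 81) (nat_lit 5) (nat_lit 81) (nat_lit 4) (nat_lit 292) (nat_lit 245) (nat_lit 243)) (XT.nd (nat_lit 78) (nat_lit 380) (nat_lit 0) (XT.lf (nat_lit 0) (nat_lit 6038604166) (nat_lit 304) (nat_lit 2102410387) (nat_lit 0) (nat_lit 2124137550) (nat_lit 73) (nat_lit 5) (nat_lit 77) (nat_lit 4) (nat_lit 73) (nat_lit 4) (nat_lit 293) (nat_lit 245) (nat_lit 242)) (XT.lf (nat_lit 0) (nat_lit 1879508099) (nat_lit 380) (nat_lit 1281638827) (nat_lit 76) (nat_lit 7383231876) (nat_lit 68) (nat_lit 5) (nat_lit 73) (nat_lit 5) (nat_lit 69) (nat_lit 4) (nat_lit 294) (nat_lit 245) (nat_lit 241))))) (XT.nd (nat_lit 234)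 (nat_lit 912) (nat_lit 0) (XT.nd (nat_lit 78) (nat_lit 532) (nat_lit 0) (XT.lf (nat_lit 0) (nat_lit 8115549662) (nat_lit 304) (nat_lit 650083898) (nat_lit 0) (nat_lit 2073509960) (nat_lit 65) (nat_lit 5) (nat_lit 69) (nat_lit 4) (nat_lit 65) (nat_lit 4) (nat_lit 295) (nat_lit 245) (nat_lit 240)) (XT.nd (nat_lit 78) (nat_lit 228) (nat_lit 0) (XT.lf (nat_lit 0) (nat_lit 3373197014) (nat_lit 304) (nat_lit 235837299) (nat_lit 76) (nat_lit 7540967749) (nat_lit 61) (nat_lit 5) (nat_lit 65) (nat_lit 5) (nat_lit 62) (nat_lit 4) (nat_lit 296) (nat_lit 245) (nat_lit 239)) (XT.lf (nat_lit 0) (nat_lit 9635984032) (nat_lit 304) (nat_lit 46297758) (nat_lit 0) (nat_lit 1795959861) (nat_lit 58) (nat_lit 5) (nat_lit 62) (nat_lit 4) (nat_lit 58) (nat_lit 4) (nat_lit 297) (nat_lit 245) (nat_lit 238)))) (XT.nd (nat_lit 156) (nat_lit 456) (nat_lit 0) (XT.nd (nat_lit 78) (nat_lit 152) (nat_lit 0) (XT.lf (nat_lit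 0) (nat_lit 4242739107) (nat_lit 304) (nat_lit 144321253) (nat_lit 76) (nat_lit 7436544852) (nat_lit 54) (nat_lit 5) (nat_lit 58) (nat_lit 5) (nat_lit 55) (nat_lit 4) (nat_lit 298) (nat_lit 245) (nat_lit 237)) (XT.lf (nat_lit 0) (nat_lit 10511757832) (nat_lit 228) (nat_lit 514759645) (nat_lit 0) (nat_lit 1161787239) (nat_lit 52) (nat_lit 5) (nat_lit 55) (nat_lit 4) (nat_lit 52) (nat_lit 4) (nat_lit 299) (nat_lit 245) (nat_lit 236))) (XT.nd (nat_lit 78) (nat_lit 152) (nat_lit 0) (XT.lf (nat_lit 0) (nat_lit 4388090872) (nat_lit 304) (nat_lit 1249717151) (nat_lit 76) (nat_lit 6933665735) (nat_lit 48) (nat_lit 5) (nat_lit 52) (nat_lit 5) (nat_lit 49) (nat_lit 4) (nat_lit 300) (nat_lit 245) (nat_lit 235)) (XT.lf (nat_lit 0) (nat_lit 10633049574) (nat_lit 228) (nat_lit 2318389095) (nat_lit 0) (nat_lit 24644829) (nat_lit 46) (nat_lit 5) (nat_lit 49) (nat_lit 4) (nat_lit 46) (nat_lit 4) (nat_lit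 301) (nat_lit 245) (nat_lit 234)))))) (XT.nd (nat_lit 468) (nat_lit 760) (nat_lit 0) (XT.nd (nat_lit 234) (nat_lit 380) (nat_lit 0) (XT.nd (nat_lit 78) (nat_lit 380) (nat_lit 0) (XT.lf (nat_lit 0) (nat_lit 3685764655) (nat_lit 304) (nat_lit 3837458543) (nat_lit 76) (nat_lit 5877619574) (nat_lit 42) (nat_lit 5) (nat_lit 46) (nat_lit 5) (nat_lit 43) (nat_lit 4) (nat_lit 302) (nat_lit 245) (nat_lit 233)) (XT.nd (nat_lit 78) (nat_lit 228) (nat_lit 0) (XT.lf (nat_lit 0) (nat_lit 8064498645) (nat_lit 152) (nat_lit 1817940227) (nat_lit 228) (nat_lit 3966375607) (nat_lit 40) (nat_lit 5) (nat_lit 42) (nat_lit 5) (nat_lit 43) (nat_lit 4) (nat_lit 303) (nat_lit 245) (nat_lit 232)) (XT.lf (nat_lit 0) (nat_lit 1985110592) (nat_lit 228) (nat_lit 8243906824) (nat_lit 76) (nat_lit 4091006755) (nat_lit 37) (nat_lit 5) (nat_lit 40) (nat_lit 5) (nat_lit 38) (nat_lit 4) (nat_lit 304) (nat_lit 245) (nat_lit 231))))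 (XT.nd (nat_lit 78) (nat_lit 228) (nat_lit 0) (XT.lf (nat_lit 0) (nat_lit 3546757251) (nat_lit 152) (nat_lit 4540370334) (nat_lit 228) (nat_lit 6728542238) (nat_lit 35) (nat_lit 5) (nat_lit 37) (nat_lit 5) (nat_lit 38) (nat_lit 4) (nat_lit 305) (nat_lit 245) (nat_lit 230)) (XT.nd (nat_lit 78) (nat_lit 76) (nat_lit 0) (XT.lf (nat_lit 0) (nat_lit 463689319) (nat_lit 152) (nat_lit 13960670931) (nat_lit 152) (nat_lit 913932369) (nat_lit 33) (nat_lit 4) (nat_lit 35) (nat_lit 5) (nat_lit 35) (nat_lit 4) (nat_lit 306) (nat_lit 245) (nat_lit 229)) (XT.lf (nat_lit 0) (nat_lit 5083016668) (nat_lit 228) (nat_lit 3253438000) (nat_lit 76) (nat_lit 7549398347) (nat_lit 32) (nat_lit 5) (nat_lit 35) (nat_lit 5) (nat_lit 33) (nat_lit 4) (nat_lit 307) (nat_lit 245) (nat_lit 228))))) (XT.nd (nat_lit 234) (nat_lit 380) (nat_lit 0) (XT.nd (nat_lit 78) (nat_lit 228) (nat_lit 0) (XT.lf (nat_lit 0) (nat_lit 8834427394)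 (nat_lit 152) (nat_lit 2449612937) (nat_lit 228) (nat_lit 5178872343) (nat_lit 30) (nat_lit 5) (nat_lit 32) (nat_lit 5) (nat_lit 33) (nat_lit 4) (nat_lit 308) (nat_lit 245) (nat_lit 227)) (XT.nd (nat_lit 78) (nat_lit 0) (nat_lit 0) (XT.lf (nat_lit 0) (nat_lit 664681113) (nat_lit 228) (nat_lit 12775520129) (nat_lit 76) (nat_lit 3629917764) (nat_lit 27) (nat_lit 5) (nat_lit 30) (nat_lit 5) (nat_lit 28) (nat_lit 4) (nat_lit 309) (nat_lit 245) (nat_lit 226)) (XT.lf (nat_lit 0) (nat_lit 6643777963) (nat_lit 228) (nat_lit 1078446350) (nat_lit 76) (nat_lit 9985485113) (nat_lit 27) (nat_lit 5) (nat_lit 30) (nat_lit 5) (nat_lit 28) (nat_lit 4) (nat_lit 310) (nat_lit 245) (nat_lit 225)))) (XT.nd (nat_lit 156) (nat_lit 76) (nat_lit 0) (XT.nd (nat_lit 78) (nat_lit 228) (nat_lit 0) (XT.lf (nat_lit 0) (nat_lit 11165558484) (nat_lit 76) (nat_lit 1716407564) (nat_lit 152) (nat_lit 5496481834) (nat_lit 26)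 (nat_lit 5) (nat_lit 27) (nat_lit 5) (nat_lit 28) (nat_lit 4) (nat_lit 311) (nat_lit 245) (nat_lit 224)) (XT.lf (nat_lit 0) (nat_lit 299518194) (nat_lit 228) (nat_lit 14328262117) (nat_lit 76) (nat_lit 4456199497) (nat_lit 23) (nat_lit 5) (nat_lit 26) (nat_lit 5) (nat_lit 24) (nat_lit 4) (nat_lit 312) (nat_lit 245) (nat_lit 223))) (XT.nd (nat_lit 78) (nat_lit 76) (nat_lit 0) (XT.lf (nat_lit 0) (nat_lit 6224462665) (nat_lit 228) (nat_lit 2670056169) (nat_lit 76) (nat_lit 10930116212) (nat_lit 23) (nat_lit 5) (nat_lit 26) (nat_lit 5) (nat_lit 24) (nat_lit 4) (nat_lit 313) (nat_lit 245) (nat_lit 222)) (XT.lf (nat_lit 0) (nat_lit 9521193748) (nat_lit 76) (nat_lit 2882130629) (nat_lit 152) (nat_lit 8200329461) (nat_lit 22) (nat_lit 5) (nat_lit 23) (nat_lit 5) (nat_lit 24) (nat_lit 4) (nat_lit 314) (nat_lit 245) (nat_lit 221))))))) (XT.nd (nat_lit 1014) (nat_lit 380) (nat_lit 0) (XT.nd (nat_lit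 468) (nat_lit 304) (nat_lit 0) (XT.nd (nat_lit 234) (nat_lit 228) (nat_lit 0) (XT.nd (nat_lit 78) (nat_lit 152) (nat_lit 0) (XT.lf (nat_lit 0) (nat_lit 705622319) (nat_lit 152) (nat_lit 18122393717) (nat_lit 152) (nat_lit 2595558919) (nat_lit 20) (nat_lit 4) (nat_lit 22) (nat_lit 5) (nat_lit 22) (nat_lit 4) (nat_lit 315) (nat_lit 245) (nat_lit 220)) (XT.nd (nat_lit 78) (nat_lit 76) (nat_lit 0) (XT.lf (nat_lit 0) (nat_lit 3241679149) (nat_lit 228) (nat_lit 9256059783) (nat_lit 76) (nat_lit 9785365673) (nat_lit 19) (nat_lit 5) (nat_lit 22) (nat_lit 5) (nat_lit 20) (nat_lit 4) (nat_lit 316) (nat_lit 245) (nat_lit 219)) (XT.lf (nat_lit 0) (nat_lit 2586196060) (nat_lit 76) (nat_lit 6634466104) (nat_lit 152) (nat_lit 13967121788) (nat_lit 18) (nat_lit 5) (nat_lit 19) (nat_lit 5) (nat_lit 20) (nat_lit 4) (nat_lit 317) (nat_lit 245) (nat_lit 218)))) (XT.nd (nat_lit 78) (nat_lit 228) (nat_lit 0) (XT.lf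 (nat_lit 0) (nat_lit 15003209336) (nat_lit 76) (nat_lit 472645704) (nat_lit 152) (nat_lit 8662573043) (nat_lit 18) (nat_lit 5) (nat_lit 19) (nat_lit 5) (nat_lit 20) (nat_lit 4) (nat_lit 318) (nat_lit 245) (nat_lit 217)) (XT.nd (nat_lit 78) (nat_lit 76) (nat_lit 0) (XT.lf (nat_lit 0) (nat_lit 2696118597) (nat_lit 152) (nat_lit 19318003759) (nat_lit 152) (nat_lit 3123418941) (nat_lit 16) (nat_lit 4) (nat_lit 18) (nat_lit 5) (nat_lit 18) (nat_lit 4) (nat_lit 319) (nat_lit 245) (nat_lit 216)) (XT.lf (nat_lit 0) (nat_lit 2629002647) (nat_lit 228) (nat_lit 11105186063) (nat_lit 76) (nat_lit 12452022162) (nat_lit 15) (nat_lit 5) (nat_lit 18) (nat_lit 5) (nat_lit 16) (nat_lit 4) (nat_lit 320) (nat_lit 245) (nat_lit 215))))) (XT.nd (nat_lit 234) (nat_lit 228) (nat_lit 0) (XT.nd (nat_lit 78) (nat_lit 0) (nat_lit 0) (XT.lf (nat_lit 0) (nat_lit 587580260) (nat_lit 76) (nat_lit 7917510240) (nat_lit 152)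 (nat_lit 18784317198) (nat_lit 14) (nat_lit 5) (nat_lit 15) (nat_lit 5) (nat_lit 16) (nat_lit 4) (nat_lit 321) (nat_lit 245) (nat_lit 214)) (XT.nd (nat_lit 78) (nat_lit 0) (nat_lit 0) (XT.lf (nat_lit 0) (nat_lit 12912280789) (nat_lit 76) (nat_lit 1774666420) (nat_lit 152) (nat_lit 13760497072) (nat_lit 14) (nat_lit 5) (nat_lit 15) (nat_lit 5) (nat_lit 16) (nat_lit 4) (nat_lit 322) (nat_lit 245) (nat_lit 213)) (XT.lf (nat_lit 0) (nat_lit 21124604628) (nat_lit 152) (nat_lit 4033286535) (nat_lit 0) (nat_lit 4507127292) (nat_lit 14) (nat_lit 5) (nat_lit 16) (nat_lit 4) (nat_lit 14) (nat_lit 4) (nat_lit 323) (nat_lit 245) (nat_lit 212)))) (XT.nd (nat_lit 156) (nat_lit 76) (nat_lit 0) (XT.nd (nat_lit 78) (nat_lit 76) (nat_lit 0) (XT.lf (nat_lit 0) (nat_lit 8012430022) (nat_lit 76) (nat_lit 19873091073) (nat_lit 76) (nat_lit 3057944195) (nat_lit 13) (nat_lit 4) (nat_lit 14) (nat_lit 5) (nat_lit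 14) (nat_lit 4) (nat_lit 324) (nat_lit 245) (nat_lit 211)) (XT.lf (nat_lit 0) (nat_lit 2596302266) (nat_lit 152) (nat_lit 11732909984) (nat_lit 76) (nat_lit 17957367155) (nat_lit 12) (nat_lit 5) (nat_lit 14) (nat_lit 5) (nat_lit 13) (nat_lit 4) (nat_lit 325) (nat_lit 245) (nat_lit 210))) (XT.nd (nat_lit 78) (nat_lit 76) (nat_lit 0) (XT.lf (nat_lit 0) (nat_lit 8383352162) (nat_lit 152) (nat_lit 164490795) (nat_lit 76) (nat_lit 25150728975) (nat_lit 12) (nat_lit 5) (nat_lit 14) (nat_lit 5) (nat_lit 13) (nat_lit 4) (nat_lit 326) (nat_lit 245) (nat_lit 209)) (XT.lf (nat_lit 0) (nat_lit 12066624283) (nat_lit 76) (nat_lit 2426023180) (nat_lit 152) (nat_lit 20687559387) (nat_lit 11) (nat_lit 5) (nat_lit 12) (nat_lit 5) (nat_lit 13) (nat_lit 4) (nat_lit 327) (nat_lit 245) (nat_lit 208)))))) (XT.nd (nat_lit 546) (nat_lit 152) (nat_lit 0) (XT.nd (nat_lit 234) (nat_lit 152) (nat_lit 0) (XT.nd (nat_lit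 78) (nat_lit 76) (nat_lit 0) (XT.lf (nat_lit 0) (nat_lit 20866395415) (nat_lit 152) (nat_lit 12010287590) (nat_lit 0) (nat_lit 3860499018) (nat_lit 11) (nat_lit 5) (nat_lit 13) (nat_lit 4) (nat_lit 11) (nat_lit 4) (nat_lit 328) (nat_lit 245) (nat_lit 207)) (XT.nd (nat_lit 78) (nat_lit 76) (nat_lit 0) (XT.lf (nat_lit 0) (nat_lit 27505992672) (nat_lit 152) (nat_lit 517897168) (nat_lit 0) (nat_lit 10349728063) (nat_lit 11) (nat_lit 5) (nat_lit 13) (nat_lit 4) (nat_lit 11) (nat_lit 4) (nat_lit 329) (nat_lit 245) (nat_lit 206)) (XT.lf (nat_lit 0) (nat_lit 11641438344) (nat_lit 76) (nat_lit 22874393661) (nat_lit 76) (nat_lit 5574921231) (nat_lit 10) (nat_lit 4) (nat_lit 11) (nat_lit 5) (nat_lit 11) (nat_lit 4) (nat_lit 330) (nat_lit 245) (nat_lit 205)))) (XT.nd (nat_lit 156) (nat_lit 76) (nat_lit 0) (XT.nd (nat_lit 78) (nat_lit 76) (nat_lit 0) (XT.lf (nat_lit 0) (nat_lit 24288587523) (nat_lit 76)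 (nat_lit 17521512430) (nat_lit 76) (nat_lit 85651599) (nat_lit 10) (nat_lit 4) (nat_lit 11) (nat_lit 5) (nat_lit 11) (nat_lit 4) (nat_lit 331) (nat_lit 245) (nat_lit 204)) (XT.lf (nat_lit 0) (nat_lit 5498590869) (nat_lit 152) (nat_lit 6403615080) (nat_lit 76) (nat_lit 31889239603) (nat_lit 9) (nat_lit 5) (nat_lit 11) (nat_lit 5) (nat_lit 10) (nat_lit 4) (nat_lit 332) (nat_lit 245) (nat_lit 203))) (XT.nd (nat_lit 78) (nat_lit 0) (nat_lit 0) (XT.lf (nat_lit 0) (nat_lit 5343393508) (nat_lit 76) (nat_lit 6002841148) (nat_lit 152) (nat_lit 34436106746) (nat_lit 8) (nat_lit 5) (nat_lit 9) (nat_lit 5) (nat_lit 10) (nat_lit 4) (nat_lit 333) (nat_lit 245) (nat_lit 202)) (XT.lf (nat_lit 0) (nat_lit 17490735520) (nat_lit 152) (nat_lit 30179818776) (nat_lit 0) (nat_lit 202113894) (nat_lit 8) (nat_lit 5) (nat_lit 10) (nat_lit 4) (nat_lit 8) (nat_lit 4) (nat_lit 334) (nat_lit 245) (nat_lit 201))))) (XT.nd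 (nat_lit 234) (nat_lit 76) (nat_lit 0) (XT.nd (nat_lit 78) (nat_lit 76) (nat_lit 0) (XT.lf (nat_lit 0) (nat_lit 23942156140) (nat_lit 152) (nat_lit 19580788149) (nat_lit 0) (nat_lit 6544595606) (nat_lit 8) (nat_lit 5) (nat_lit 10) (nat_lit 4) (nat_lit 8) (nat_lit 4) (nat_lit 335) (nat_lit 245) (nat_lit 200)) (XT.nd (nat_lit 78) (nat_lit 76) (nat_lit 0) (XT.lf (nat_lit 0) (nat_lit 30658154060) (nat_lit 152) (nat_lit 8558917246) (nat_lit 0) (nat_lit 13156842186) (nat_lit 8) (nat_lit 5) (nat_lit 10) (nat_lit 4) (nat_lit 8) (nat_lit 4) (nat_lit 336) (nat_lit 245) (nat_lit 199)) (XT.lf (nat_lit 0) (nat_lit 2969991718) (nat_lit 76) (nat_lit 34713277411) (nat_lit 76) (nat_lit 17113154737) (nat_lit 7) (nat_lit 4) (nat_lit 8) (nat_lit 5) (nat_lit 8) (nat_lit 4) (nat_lit 337) (nat_lit 245) (nat_lit 198)))) (XT.nd (nat_lit 156) (nat_lit 76) (nat_lit 0) (XT.nd (nat_lit 78) (nat_lit 0) (nat_lit 0) (XT.lf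 (nat_lit 0) (nat_lit 15155115726) (nat_lit 76) (nat_lit 29939076223) (nat_lit 76) (nat_lit 12244848024) (nat_lit 7) (nat_lit 4) (nat_lit 8) (nat_lit 5) (nat_lit 8) (nat_lit 4) (nat_lit 338) (nat_lit 245) (nat_lit 197)) (XT.lf (nat_lit 0) (nat_lit 27855127742) (nat_lit 76) (nat_lit 24969528879) (nat_lit 76) (nat_lit 7185676371) (nat_lit 7) (nat_lit 4) (nat_lit 8) (nat_lit 5) (nat_lit 8) (nat_lit 4) (nat_lit 339) (nat_lit 245) (nat_lit 196))) (XT.nd (nat_lit 78) (nat_lit 76) (nat_lit 0) (XT.lf (nat_lit 0) (nat_lit 41100265890) (nat_lit 76) (nat_lit 19792803122) (nat_lit 76) (nat_lit 1923594130) (nat_lit 7) (nat_lit 4) (nat_lit 8) (nat_lit 5) (nat_lit 8) (nat_lit 4) (nat_lit 340) (nat_lit 245) (nat_lit 195)) (XT.lf (nat_lit 0) (nat_lit 3484577540) (nat_lit 152) (nat_lit 10876808475) (nat_lit 76) (nat_lit 51402301271) (nat_lit 6) (nat_lit 5) (nat_lit 8) (nat_lit 5) (nat_lit 7) (nat_lit 4) (nat_lit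 341) (nat_lit 245) (nat_lit 194))))))))
noncomputable def xc26 : XT := (XT.nd (nat_lit 36816) (nat_lit 0) (nat_lit 1216) (XT.nd (nat_lit 1014) (nat_lit 152) (nat_lit 0) (XT.nd (nat_lit 468) (nat_lit 76) (nat_lit 0) (XT.nd (nat_lit 234) (nat_lit 0) (nat_lit 0) (XT.nd (nat_lit 78) (nat_lit 0) (nat_lit 0) (XT.lf (nat_lit 0) (nat_lit 410945452) (nat_lit 76) (nat_lit 8672240352) (nat_lit 152) (nat_lit 59775524543) (nat_lit 5) (nat_lit 5) (nat_lit 6) (nat_lit 5) (nat_lit 7) (nat_lit 4) (nat_lit 342) (nat_lit 245) (nat_lit 193)) (XT.nd (nat_lit 78) (nat_lit 0) (nat_lit 0) (XT.lf (nat_lit 0) (nat_lit 12410324866) (nat_lit 76) (nat_lit 2620207516) (nat_lit 152) (nat_lit 57075900701) (nat_lit 5) (nat_lit 5) (nat_lit 6) (nat_lit 5) (nat_lit 7) (nat_lit 4) (nat_lit 343) (nat_lit 245) (nat_lit 192)) (XT.lf (nat_lit 0) (nat_lit 21269702065) (nat_lit 152) (nat_lit 50619917146) (nat_lit 0) (nat_lit 3627101227)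 (nat_lit 5) (nat_lit 5) (nat_lit 7) (nat_lit 4) (nat_lit 5) (nat_lit 4) (nat_lit 344) (nat_lit 245) (nat_lit 191)))) (XT.nd (nat_lit 78) (nat_lit 0) (nat_lit 0) (XT.lf (nat_lit 0) (nat_lit 27807808217) (nat_lit 152) (nat_lit 41189839903) (nat_lit 0) (nat_lit 10100276274) (nat_lit 5) (nat_lit 5) (nat_lit 7) (nat_lit 4) (nat_lit 5) (nat_lit 4) (nat_lit 345) (nat_lit 245) (nat_lit 190)) (XT.nd (nat_lit 78) (nat_lit 0) (nat_lit 0) (XT.lf (nat_lit 0) (nat_lit 34635230723) (nat_lit 152) (nat_lit 31358236887) (nat_lit 0) (nat_lit 16865859631) (nat_lit 5) (nat_lit 5) (nat_lit 7) (nat_lit 4) (nat_lit 5) (nat_lit 4) (nat_lit 346) (nat_lit 245) (nat_lit 189)) (XT.lf (nat_lit 0) (nat_lit 41768225349) (nat_lit 152) (nat_lit 21101699520) (nat_lit 0) (nat_lit 23939959830) (nat_lit 5) (nat_lit 5) (nat_lit 7) (nat_lit 4) (nat_lit 5) (nat_lit 4) (nat_lit 347) (nat_lit 245) (nat_lit 188))))) (XT.nd (nat_lit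 234) (nat_lit 0) (nat_lit 0) (XT.nd (nat_lit 78) (nat_lit 76) (nat_lit 0) (XT.lf (nat_lit 0) (nat_lit 49223775417) (nat_lit 152) (nat_lit 10395807473) (nat_lit 0) (nat_lit 31339419967) (nat_lit 5) (nat_lit 5) (nat_lit 7) (nat_lit 4) (nat_lit 5) (nat_lit 4) (nat_lit 348) (nat_lit 245) (nat_lit 187)) (XT.nd (nat_lit 78) (nat_lit 0) (nat_lit 0) (XT.lf (nat_lit 0) (nat_lit 800551106) (nat_lit 76) (nat_lit 56226776516) (nat_lit 76) (nat_lit 38289002084) (nat_lit 4) (nat_lit 4) (nat_lit 5) (nat_lit 5) (nat_lit 5) (nat_lit 4) (nat_lit 349) (nat_lit 245) (nat_lit 186)) (XT.lf (nat_lit 0) (nat_lit 12715252489) (nat_lit 76) (nat_lit 52581331664) (nat_lit 76) (nat_lit 34592682012) (nat_lit 4) (nat_lit 4) (nat_lit 5) (nat_lit 5) (nat_lit 5) (nat_lit 4) (nat_lit 350) (nat_lit 245) (nat_lit 185)))) (XT.nd (nat_lit 156) (nat_lit 0) (nat_lit 0) (XT.nd (nat_lit 78) (nat_lit 0) (nat_lit 0) (XT.lf (nat_lit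 0) (nat_lit 25169768060) (nat_lit 76) (nat_lit 48779545976) (nat_lit 76) (nat_lit 30742443733) (nat_lit 4) (nat_lit 4) (nat_lit 5) (nat_lit 5) (nat_lit 5) (nat_lit 4) (nat_lit 351) (nat_lit 245) (nat_lit 184)) (XT.lf (nat_lit 0) (nat_lit 38193751428) (nat_lit 76) (nat_lit 44812367581) (nat_lit 76) (nat_lit 26729120013) (nat_lit 4) (nat_lit 4) (nat_lit 5) (nat_lit 5) (nat_lit 5) (nat_lit 4) (nat_lit 352) (nat_lit 245) (nat_lit 183))) (XT.nd (nat_lit 78) (nat_lit 0) (nat_lit 0) (XT.lf (nat_lit 0) (nat_lit 51818212075) (nat_lit 76) (nat_lit 40670350816) (nat_lit 76) (nat_lit 22543155319) (nat_lit 4) (nat_lit 4) (nat_lit 5) (nat_lit 5) (nat_lit 5) (nat_lit 4) (nat_lit 353) (nat_lit 245) (nat_lit 182)) (XT.lf (nat_lit 0) (nat_lit 66075589195) (nat_lit 76) (nat_lit 36343633737) (nat_lit 76) (nat_lit 18174583070) (nat_lit 4) (nat_lit 4) (nat_lit 5) (nat_lit 5) (nat_lit 5) (nat_lit 4) (nat_lit 354)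 (nat_lit 245) (nat_lit 181)))))) (XT.nd (nat_lit 468) (nat_lit 0) (nat_lit 0) (XT.nd (nat_lit 234) (nat_lit 152) (nat_lit 0) (XT.nd (nat_lit 78) (nat_lit 0) (nat_lit 0) (XT.lf (nat_lit 0) (nat_lit 80999828923) (nat_lit 76) (nat_lit 31821914635) (nat_lit 76) (nat_lit 13613001902) (nat_lit 4) (nat_lit 4) (nat_lit 5) (nat_lit 5) (nat_lit 5) (nat_lit 4) (nat_lit 355) (nat_lit 245) (nat_lit 180)) (XT.nd (nat_lit 78) (nat_lit 0) (nat_lit 0) (XT.lf (nat_lit 0) (nat_lit 96626465164) (nat_lit 76) (nat_lit 27094427514) (nat_lit 76) (nat_lit 8847550908) (nat_lit 4) (nat_lit 4) (nat_lit 5) (nat_lit 5) (nat_lit 5) (nat_lit 4) (nat_lit 356) (nat_lit 245) (nat_lit 179)) (XT.lf (nat_lit 0) (nat_lit 112992704194) (nat_lit 76) (nat_lit 22149916451) (nat_lit 76) (nat_lit 3866883776) (nat_lit 4) (nat_lit 4) (nat_lit 5) (nat_lit 5) (nat_lit 5) (nat_lit 4) (nat_lit 357) (nat_lit 245) (nat_lit 178)))) (XT.nd (nat_lit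 78) (nat_lit 76) (nat_lit 0) (XT.lf (nat_lit 0) (nat_lit 1314693251) (nat_lit 152) (nat_lit 15648639726) (nat_lit 76) (nat_lit 128809544173) (nat_lit 3) (nat_lit 5) (nat_lit 5) (nat_lit 5) (nat_lit 4) (nat_lit 4) (nat_lit 358) (nat_lit 245) (nat_lit 177)) (XT.nd (nat_lit 78) (nat_lit 76) (nat_lit 0) (XT.lf (nat_lit 0) (nat_lit 6655614698) (nat_lit 152) (nat_lit 4839363809) (nat_lit 76) (nat_lit 141378889945) (nat_lit 3) (nat_lit 5) (nat_lit 5) (nat_lit 5) (nat_lit 4) (nat_lit 4) (nat_lit 359) (nat_lit 245) (nat_lit 176)) (XT.lf (nat_lit 0) (nat_lit 6602778742) (nat_lit 76) (nat_lit 5704745081) (nat_lit 152) (nat_lit 148021072654) (nat_lit 2) (nat_lit 5) (nat_lit 3) (nat_lit 5) (nat_lit 4) (nat_lit 4) (nat_lit 360) (nat_lit 245) (nat_lit 175))))) (XT.nd (nat_lit 35022) (nat_lit 0) (nat_lit 5624) (XT.nd (nat_lit 78) (nat_lit 0) (nat_lit 0) (XT.lf (nat_lit 0) (nat_lit 18276846473) (nat_lit 152)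 (nat_lit 149476319153) (nat_lit 0) (nat_lit 401855883) (nat_lit 2) (nat_lit 5) (nat_lit 4) (nat_lit 4) (nat_lit 2) (nat_lit 4) (nat_lit 361) (nat_lit 245) (nat_lit 174)) (XT.nd (nat_lit 34866) (nat_lit 0) (nat_lit 7068) (XT.lf (nat_lit 0) (nat_lit 24584027126) (nat_lit 152) (nat_lit 145106031381) (nat_lit 0) (nat_lit 6681532433) (nat_lit 2) (nat_lit 5) (nat_lit 4) (nat_lit 4) (nat_lit 2) (nat_lit 4) (nat_lit 362) (nat_lit 245) (nat_lit 173)) (XT.lf (nat_lit 0) (nat_lit 489960817) (nat_lit 380) (nat_lit 2024798679) (nat_lit 380) (nat_lit 2024798679) (nat_lit 95) (nat_lit 4) (nat_lit 100) (nat_lit 5) (nat_lit 100) (nat_lit 4) (nat_lit 288) (nat_lit 246) (nat_lit 246)))) (XT.nd (nat_lit 156) (nat_lit 760) (nat_lit 0) (XT.nd (nat_lit 78) (nat_lit 304) (nat_lit 0) (XT.lf (nat_lit 0) (nat_lit 2000965107) (nat_lit 380) (nat_lit 6815973038) (nat_lit 0) (nat_lit 476000216) (nat_lit 90) (nat_lit 5)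 (nat_lit 95) (nat_lit 4) (nat_lit 90) (nat_lit 4) (nat_lit 289) (nat_lit 246) (nat_lit 245)) (XT.lf (nat_lit 0) (nat_lit 3873071761) (nat_lit 304) (nat_lit 4311657697) (nat_lit 304) (nat_lit 1334345292) (nat_lit 86) (nat_lit 4) (nat_lit 90) (nat_lit 5) (nat_lit 90) (nat_lit 4) (nat_lit 290) (nat_lit 246) (nat_lit 244))) (XT.nd (nat_lit 78) (nat_lit 380) (nat_lit 0) (XT.lf (nat_lit 0) (nat_lit 4707740974) (nat_lit 380) (nat_lit 4576873687) (nat_lit 0) (nat_lit 474245329) (nat_lit 81) (nat_lit 5) (nat_lit 86) (nat_lit 4) (nat_lit 81) (nat_lit 4) (nat_lit 291) (nat_lit 246) (nat_lit 243)) (XT.lf (nat_lit 0) (nat_lit 921674939) (nat_lit 380) (nat_lit 3641448923) (nat_lit 76) (nat_lit 5449222198) (nat_lit 76) (nat_lit 5) (nat_lit 81) (nat_lit 5) (nat_lit 77) (nat_lit 4) (nat_lit 292) (nat_lit 246) (nat_lit 242))))))) (XT.nd (nat_lit 1014) (nat_lit 1292) (nat_lit 0) (XT.nd (nat_lit 468) (nat_lit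 1444) (nat_lit 0) (XT.nd (nat_lit 234) (nat_lit 836) (nat_lit 0) (XT.nd (nat_lit 78) (nat_lit 608) (nat_lit 0) (XT.lf (nat_lit 0) (nat_lit 6983081080) (nat_lit 304) (nat_lit 2848687565) (nat_lit 0) (nat_lit 448615142) (nat_lit 73) (nat_lit 5) (nat_lit 77) (nat_lit 4) (nat_lit 73) (nat_lit 4) (nat_lit 293) (nat_lit 246) (nat_lit 241)) (XT.nd (nat_lit 78) (nat_lit 228) (nat_lit 0) (XT.lf (nat_lit 0) (nat_lit 2671500616) (nat_lit 380) (nat_lit 2237580307) (nat_lit 76) (nat_lit 5653930265) (nat_lit 68) (nat_lit 5) (nat_lit 73) (nat_lit 5) (nat_lit 69) (nat_lit 4) (nat_lit 294) (nat_lit 246) (nat_lit 240)) (XT.lf (nat_lit 0) (nat_lit 8772719044) (nat_lit 304) (nat_lit 1795459209) (nat_lit 0) (nat_lit 293732903) (nat_lit 65) (nat_lit 5) (nat_lit 69) (nat_lit 4) (nat_lit 65) (nat_lit 4) (nat_lit 295) (nat_lit 246) (nat_lit 239)))) (XT.nd (nat_lit 78) (nat_lit 532) (nat_lit 0) (XT.lf (nat_lit 0)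 (nat_lit 3877796101) (nat_lit 304) (nat_lit 1598857709) (nat_lit 76) (nat_lit 5699539367) (nat_lit 61) (nat_lit 5) (nat_lit 65) (nat_lit 5) (nat_lit 62) (nat_lit 4) (nat_lit 296) (nat_lit 246) (nat_lit 238)) (XT.nd (nat_lit 78) (nat_lit 304) (nat_lit 0) (XT.lf (nat_lit 0) (nat_lit 9898925511) (nat_lit 228) (nat_lit 108108233) (nat_lit 304) (nat_lit 1501485247) (nat_lit 58) (nat_lit 5) (nat_lit 61) (nat_lit 5) (nat_lit 62) (nat_lit 4) (nat_lit 297) (nat_lit 246) (nat_lit 237)) (XT.lf (nat_lit 0) (nat_lit 4459525519) (nat_lit 304) (nat_lit 1932544459) (nat_lit 76) (nat_lit 5465308126) (nat_lit 54) (nat_lit 5) (nat_lit 58) (nat_lit 5) (nat_lit 55) (nat_lit 4) (nat_lit 298) (nat_lit 246) (nat_lit 236))))) (XT.nd (nat_lit 234) (nat_lit 836) (nat_lit 0) (XT.nd (nat_lit 78) (nat_lit 456) (nat_lit 0) (XT.lf (nat_lit 0) (nat_lit 9705086384) (nat_lit 152) (nat_lit 897014998) (nat_lit 228) (nat_lit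 1623839734) (nat_lit 52) (nat_lit 5) (nat_lit 54) (nat_lit 5) (nat_lit 55) (nat_lit 4) (nat_lit 299) (nat_lit 246) (nat_lit 235)) (XT.nd (nat_lit 78) (nat_lit 152) (nat_lit 0) (XT.lf (nat_lit 0) (nat_lit 4315380409) (nat_lit 304) (nat_lit 3481882766) (nat_lit 76) (nat_lit 4815628389) (nat_lit 48) (nat_lit 5) (nat_lit 52) (nat_lit 5) (nat_lit 49) (nat_lit 4) (nat_lit 300) (nat_lit 246) (nat_lit 234)) (XT.lf (nat_lit 0) (nat_lit 8229601867) (nat_lit 152) (nat_lit 2215815666) (nat_lit 228) (nat_lit 2575593257) (nat_lit 46) (nat_lit 5) (nat_lit 48) (nat_lit 5) (nat_lit 49) (nat_lit 4) (nat_lit 301) (nat_lit 246) (nat_lit 233)))) (XT.nd (nat_lit 156) (nat_lit 380) (nat_lit 0) (XT.nd (nat_lit 78) (nat_lit 152) (nat_lit 0) (XT.lf (nat_lit 0) (nat_lit 3320650873) (nat_lit 304) (nat_lit 6533065083) (nat_lit 76) (nat_lit 3596291130) (nat_lit 42) (nat_lit 5) (nat_lit 46) (nat_lit 5) (nat_lit 43) (nat_lit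 4) (nat_lit 302) (nat_lit 246) (nat_lit 232)) (XT.lf (nat_lit 0) (nat_lit 5168097219) (nat_lit 152) (nat_lit 4234426462) (nat_lit 228) (nat_lit 4498953611) (nat_lit 40) (nat_lit 5) (nat_lit 42) (nat_lit 5) (nat_lit 43) (nat_lit 4) (nat_lit 303) (nat_lit 246) (nat_lit 231))) (XT.nd (nat_lit 78) (nat_lit 152) (nat_lit 0) (XT.lf (nat_lit 0) (nat_lit 1323496817) (nat_lit 228) (nat_lit 11423349215) (nat_lit 76) (nat_lit 1630227737) (nat_lit 37) (nat_lit 5) (nat_lit 40) (nat_lit 5) (nat_lit 38) (nat_lit 4) (nat_lit 304) (nat_lit 246) (nat_lit 230)) (XT.lf (nat_lit 0) (nat_lit 161455156) (nat_lit 152) (nat_lit 7148659071) (nat_lit 228) (nat_lit 7566115136) (nat_lit 35) (nat_lit 5) (nat_lit 37) (nat_lit 5) (nat_lit 38) (nat_lit 4) (nat_lit 305) (nat_lit 246) (nat_lit 229)))))) (XT.nd (nat_lit 546) (nat_lit 608) (nat_lit 0) (XT.nd (nat_lit 234) (nat_lit 304) (nat_lit 0) (XT.nd (nat_lit 78) (nat_lit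 380) (nat_lit 0) (XT.lf (nat_lit 0) (nat_lit 12285838664) (nat_lit 152) (nat_lit 1263370874) (nat_lit 228) (nat_lit 1852632415) (nat_lit 35) (nat_lit 5) (nat_lit 37) (nat_lit 5) (nat_lit 38) (nat_lit 4) (nat_lit 306) (nat_lit 246) (nat_lit 228)) (XT.nd (nat_lit 78) (nat_lit 152) (nat_lit 0) (XT.lf (nat_lit 0) (nat_lit 4040628996) (nat_lit 228) (nat_lit 7073518982) (nat_lit 76) (nat_lit 4839227451) (nat_lit 32) (nat_lit 5) (nat_lit 35) (nat_lit 5) (nat_lit 33) (nat_lit 4) (nat_lit 307) (nat_lit 246) (nat_lit 227)) (XT.lf (nat_lit 0) (nat_lit 4806821785) (nat_lit 152) (nat_lit 5320868177) (nat_lit 228) (nat_lit 6406204228) (nat_lit 30) (nat_lit 5) (nat_lit 32) (nat_lit 5) (nat_lit 33) (nat_lit 4) (nat_lit 308) (nat_lit 246) (nat_lit 226)))) (XT.nd (nat_lit 156) (nat_lit 76) (nat_lit 0) (XT.nd (nat_lit 78) (nat_lit 76) (nat_lit 0) (XT.lf (nat_lit 0) (nat_lit 19820009) (nat_lit 152) (nat_lit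 16429926180) (nat_lit 152) (nat_lit 695851955) (nat_lit 28) (nat_lit 4) (nat_lit 30) (nat_lit 5) (nat_lit 30) (nat_lit 4) (nat_lit 309) (nat_lit 246) (nat_lit 225)) (XT.lf (nat_lit 0) (nat_lit 5225021626) (nat_lit 228) (nat_lit 5546797301) (nat_lit 76) (nat_lit 7013759779) (nat_lit 27) (nat_lit 5) (nat_lit 30) (nat_lit 5) (nat_lit 28) (nat_lit 4) (nat_lit 310) (nat_lit 246) (nat_lit 224))) (XT.nd (nat_lit 78) (nat_lit 0) (nat_lit 0) (XT.lf (nat_lit 0) (nat_lit 6487073534) (nat_lit 76) (nat_lit 4862781006) (nat_lit 152) (nat_lit 7109897008) (nat_lit 26) (nat_lit 5) (nat_lit 27) (nat_lit 5) (nat_lit 28) (nat_lit 4) (nat_lit 311) (nat_lit 246) (nat_lit 223)) (XT.lf (nat_lit 0) (nat_lit 17714737857) (nat_lit 152) (nat_lit 180641384) (nat_lit 0) (nat_lit 1274305382) (nat_lit 26) (nat_lit 5) (nat_lit 28) (nat_lit 4) (nat_lit 26) (nat_lit 4) (nat_lit 312) (nat_lit 246) (nat_lit 222))))) (XT.nd (nat_lit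 234) (nat_lit 304) (nat_lit 0) (XT.nd (nat_lit 78) (nat_lit 76) (nat_lit 0) (XT.lf (nat_lit 0) (nat_lit 4431306026) (nat_lit 228) (nat_lit 7796720599) (nat_lit 76) (nat_lit 7684775003) (nat_lit 23) (nat_lit 5) (nat_lit 26) (nat_lit 5) (nat_lit 24) (nat_lit 4) (nat_lit 313) (nat_lit 246) (nat_lit 221)) (XT.nd (nat_lit 78) (nat_lit 0) (nat_lit 0) (XT.lf (nat_lit 0) (nat_lit 4180838160) (nat_lit 76) (nat_lit 6315809670) (nat_lit 152) (nat_lit 10198606476) (nat_lit 22) (nat_lit 5) (nat_lit 23) (nat_lit 5) (nat_lit 24) (nat_lit 4) (nat_lit 314) (nat_lit 246) (nat_lit 220)) (XT.lf (nat_lit 0) (nat_lit 16702199587) (nat_lit 76) (nat_lit 119812823) (nat_lit 152) (nat_lit 4696169768) (nat_lit 22) (nat_lit 5) (nat_lit 23) (nat_lit 5) (nat_lit 24) (nat_lit 4) (nat_lit 315) (nat_lit 246) (nat_lit 219)))) (XT.nd (nat_lit 156) (nat_lit 76) (nat_lit 0) (XT.nd (nat_lit 78) (nat_lit 0) (nat_lit 0) (XT.lf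 (nat_lit 0) (nat_lit 1073811431) (nat_lit 228) (nat_lit 15053578010) (nat_lit 76) (nat_lit 6254200489) (nat_lit 19) (nat_lit 5) (nat_lit 22) (nat_lit 5) (nat_lit 20) (nat_lit 4) (nat_lit 316) (nat_lit 246) (nat_lit 218)) (XT.lf (nat_lit 0) (nat_lit 6971350878) (nat_lit 228) (nat_lit 3362601197) (nat_lit 76) (nat_lit 12954784236) (nat_lit 19) (nat_lit 5) (nat_lit 22) (nat_lit 5) (nat_lit 20) (nat_lit 4) (nat_lit 317) (nat_lit 246) (nat_lit 217))) (XT.nd (nat_lit 78) (nat_lit 0) (nat_lit 0) (XT.lf (nat_lit 0) (nat_lit 8889566476) (nat_lit 76) (nat_lit 4249180282) (nat_lit 152) (nat_lit 11103290189) (nat_lit 18) (nat_lit 5) (nat_lit 19) (nat_lit 5) (nat_lit 20) (nat_lit 4) (nat_lit 318) (nat_lit 246) (nat_lit 216)) (XT.lf (nat_lit 0) (nat_lit 19562181113) (nat_lit 152) (nat_lit 3631895574) (nat_lit 0) (nat_lit 2050539983) (nat_lit 18) (nat_lit 5) (nat_lit 20) (nat_lit 4) (nat_lit 18) (nat_lit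 4) (nat_lit 319) (nat_lit 246) (nat_lit 215))))))))
noncomputable def xc27 : XT := (XT.nd (nat_lit 2028) (nat_lit 228) (nat_lit 0) (XT.nd (nat_lit 1014) (nat_lit 304) (nat_lit 0) (XT.nd (nat_lit 468) (nat_lit 304) (nat_lit 0) (XT.nd (nat_lit 234) (nat_lit 76) (nat_lit 0) (XT.nd (nat_lit 78) (nat_lit 76) (nat_lit 0) (XT.lf (nat_lit 0) (nat_lit 32446990) (nat_lit 228) (nat_lit 17681465757) (nat_lit 76) (nat_lit 8582755600) (nat_lit 15) (nat_lit 5) (nat_lit 18) (nat_lit 5) (nat_lit 16) (nat_lit 4) (nat_lit 320) (nat_lit 246) (nat_lit 214)) (XT.nd (nat_lit 78) (nat_lit 76) (nat_lit 0) (XT.lf (nat_lit 0) (nat_lit 5853824464) (nat_lit 228) (nat_lit 6088538076) (nat_lit 76) (nat_lit 15459162896) (nat_lit 15) (nat_lit 5) (nat_lit 18) (nat_lit 5) (nat_lit 16) (nat_lit 4) (nat_lit 321) (nat_lit 246) (nat_lit 213)) (XT.lf (nat_lit 0) (nat_lit 6029148959) (nat_lit 76) (nat_lit 5899289615) (nat_lit 152)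 (nat_lit 16634358770) (nat_lit 14) (nat_lit 5) (nat_lit 15) (nat_lit 5) (nat_lit 16) (nat_lit 4) (nat_lit 322) (nat_lit 246) (nat_lit 212)))) (XT.nd (nat_lit 78) (nat_lit 76) (nat_lit 0) (XT.lf (nat_lit 0) (nat_lit 18280810354) (nat_lit 152) (nat_lit 11074900334) (nat_lit 0) (nat_lit 427236590) (nat_lit 14) (nat_lit 5) (nat_lit 16) (nat_lit 4) (nat_lit 14) (nat_lit 4) (nat_lit 323) (nat_lit 246) (nat_lit 211)) (XT.nd (nat_lit 78) (nat_lit 0) (nat_lit 0) (XT.lf (nat_lit 0) (nat_lit 750269790) (nat_lit 76) (nat_lit 24178184667) (nat_lit 76) (nat_lit 6136354197) (nat_lit 13) (nat_lit 4) (nat_lit 14) (nat_lit 5) (nat_lit 14) (nat_lit 4) (nat_lit 324) (nat_lit 246) (nat_lit 210)) (XT.lf (nat_lit 0) (nat_lit 13241151026) (nat_lit 76) (nat_lit 18694968717) (nat_lit 76) (nat_lit 473846146) (nat_lit 13) (nat_lit 4) (nat_lit 14) (nat_lit 5) (nat_lit 14) (nat_lit 4) (nat_lit 325) (nat_lit 246) (nat_lit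 209))))) (XT.nd (nat_lit 234) (nat_lit 152) (nat_lit 0) (XT.nd (nat_lit 78) (nat_lit 76) (nat_lit 0) (XT.lf (nat_lit 0) (nat_lit 5281914164) (nat_lit 152) (nat_lit 7669591200) (nat_lit 76) (nat_lit 20871820196) (nat_lit 12) (nat_lit 5) (nat_lit 14) (nat_lit 5) (nat_lit 13) (nat_lit 4) (nat_lit 326) (nat_lit 246) (nat_lit 208)) (XT.nd (nat_lit 78) (nat_lit 0) (nat_lit 0) (XT.lf (nat_lit 0) (nat_lit 4340521281) (nat_lit 76) (nat_lit 6937814411) (nat_lit 152) (nat_lit 24030024729) (nat_lit 11) (nat_lit 5) (nat_lit 12) (nat_lit 5) (nat_lit 13) (nat_lit 4) (nat_lit 327) (nat_lit 246) (nat_lit 207)) (XT.lf (nat_lit 0) (nat_lit 16971549774) (nat_lit 76) (nat_lit 605262643) (nat_lit 152) (nat_lit 19290794389) (nat_lit 11) (nat_lit 5) (nat_lit 12) (nat_lit 5) (nat_lit 13) (nat_lit 4) (nat_lit 328) (nat_lit 246) (nat_lit 206)))) (XT.nd (nat_lit 156) (nat_lit 76) (nat_lit 0) (XT.nd (nat_lit 78) (nat_lit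 76) (nat_lit 0) (XT.lf (nat_lit 0) (nat_lit 24174668391) (nat_lit 152) (nat_lit 8463624466) (nat_lit 0) (nat_lit 5867014519) (nat_lit 11) (nat_lit 5) (nat_lit 13) (nat_lit 4) (nat_lit 11) (nat_lit 4) (nat_lit 329) (nat_lit 246) (nat_lit 205)) (XT.lf (nat_lit 0) (nat_lit 3473684938) (nat_lit 76) (nat_lit 27598096842) (nat_lit 76) (nat_lit 9154054569) (nat_lit 10) (nat_lit 4) (nat_lit 11) (nat_lit 5) (nat_lit 11) (nat_lit 4) (nat_lit 330) (nat_lit 246) (nat_lit 204))) (XT.nd (nat_lit 78) (nat_lit 76) (nat_lit 0) (XT.lf (nat_lit 0) (nat_lit 16059985969) (nat_lit 76) (nat_lit 22272895513) (nat_lit 76) (nat_lit 3698959524) (nat_lit 10) (nat_lit 4) (nat_lit 11) (nat_lit 5) (nat_lit 11) (nat_lit 4) (nat_lit 331) (nat_lit 246) (nat_lit 203)) (XT.lf (nat_lit 0) (nat_lit 1923879483) (nat_lit 152) (nat_lit 14792168937) (nat_lit 76) (nat_lit 27213496394) (nat_lit 9) (nat_lit 5) (nat_lit 11) (nat_lit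 5) (nat_lit 10) (nat_lit 4) (nat_lit 332) (nat_lit 246) (nat_lit 202)))))) (XT.nd (nat_lit 468) (nat_lit 152) (nat_lit 0) (XT.nd (nat_lit 234) (nat_lit 76) (nat_lit 0) (XT.nd (nat_lit 78) (nat_lit 76) (nat_lit 0) (XT.lf (nat_lit 0) (nat_lit 7689766815) (nat_lit 152) (nat_lit 3205235081) (nat_lit 76) (nat_lit 35027901409) (nat_lit 9) (nat_lit 5) (nat_lit 11) (nat_lit 5) (nat_lit 10) (nat_lit 4) (nat_lit 333) (nat_lit 246) (nat_lit 201)) (XT.nd (nat_lit 78) (nat_lit 0) (nat_lit 0) (XT.lf (nat_lit 0) (nat_lit 9028265100) (nat_lit 76) (nat_lit 4743130905) (nat_lit 152) (nat_lit 34243729710) (nat_lit 8) (nat_lit 5) (nat_lit 9) (nat_lit 5) (nat_lit 10) (nat_lit 4) (nat_lit 334) (nat_lit 246) (nat_lit 200)) (XT.lf (nat_lit 0) (nat_lit 20148933125) (nat_lit 152) (nat_lit 28394485506) (nat_lit 0) (nat_lit 1668804316) (nat_lit 8) (nat_lit 5) (nat_lit 10) (nat_lit 4) (nat_lit 8) (nat_lit 4) (nat_lit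 335) (nat_lit 246) (nat_lit 199)))) (XT.nd (nat_lit 78) (nat_lit 76) (nat_lit 0) (XT.lf (nat_lit 0) (nat_lit 26837988546) (nat_lit 152) (nat_lit 17422375929) (nat_lit 0) (nat_lit 8259048937) (nat_lit 8) (nat_lit 5) (nat_lit 10) (nat_lit 4) (nat_lit 8) (nat_lit 4) (nat_lit 336) (nat_lit 246) (nat_lit 198)) (XT.nd (nat_lit 78) (nat_lit 76) (nat_lit 0) (XT.lf (nat_lit 0) (nat_lit 33808894714) (nat_lit 152) (nat_lit 5998813939) (nat_lit 0) (nat_lit 15135849581) (nat_lit 8) (nat_lit 5) (nat_lit 10) (nat_lit 4) (nat_lit 8) (nat_lit 4) (nat_lit 337) (nat_lit 246) (nat_lit 197)) (XT.lf (nat_lit 0) (nat_lit 6020888643) (nat_lit 76) (nat_lit 35115236848) (nat_lit 76) (nat_lit 16352567406) (nat_lit 7) (nat_lit 4) (nat_lit 8) (nat_lit 5) (nat_lit 8) (nat_lit 4) (nat_lit 338) (nat_lit 246) (nat_lit 196))))) (XT.nd (nat_lit 234) (nat_lit 152) (nat_lit 0) (XT.nd (nat_lit 78) (nat_lit 0) (nat_lit 0) (XT.lf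 (nat_lit 0) (nat_lit 18677059455) (nat_lit 76) (nat_lit 30165835335) (nat_lit 76) (nat_lit 11317809408) (nat_lit 7) (nat_lit 4) (nat_lit 8) (nat_lit 5) (nat_lit 8) (nat_lit 4) (nat_lit 339) (nat_lit 246) (nat_lit 195)) (XT.nd (nat_lit 78) (nat_lit 0) (nat_lit 0) (XT.lf (nat_lit 0) (nat_lit 31880444074) (nat_lit 76) (nat_lit 25008296085) (nat_lit 76) (nat_lit 6078978268) (nat_lit 7) (nat_lit 4) (nat_lit 8) (nat_lit 5) (nat_lit 8) (nat_lit 4) (nat_lit 340) (nat_lit 246) (nat_lit 194)) (XT.lf (nat_lit 0) (nat_lit 45662479132) (nat_lit 76) (nat_lit 19630339243) (nat_lit 76) (nat_lit 623600578) (nat_lit 7) (nat_lit 4) (nat_lit 8) (nat_lit 5) (nat_lit 8) (nat_lit 4) (nat_lit 341) (nat_lit 246) (nat_lit 193)))) (XT.nd (nat_lit 156) (nat_lit 0) (nat_lit 0) (XT.nd (nat_lit 78) (nat_lit 76) (nat_lit 0) (XT.lf (nat_lit 0) (nat_lit 4962548216) (nat_lit 152) (nat_lit 9006499926) (nat_lit 76) (nat_lit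 55043318774) (nat_lit 6) (nat_lit 5) (nat_lit 8) (nat_lit 5) (nat_lit 7) (nat_lit 4) (nat_lit 342) (nat_lit 246) (nat_lit 192)) (XT.lf (nat_lit 0) (nat_lit 2776440602) (nat_lit 76) (nat_lit 8025104421) (nat_lit 152) (nat_lit 61461801051) (nat_lit 5) (nat_lit 5) (nat_lit 6) (nat_lit 5) (nat_lit 7) (nat_lit 4) (nat_lit 343) (nat_lit 246) (nat_lit 191))) (XT.nd (nat_lit 78) (nat_lit 0) (nat_lit 0) (XT.lf (nat_lit 0) (nat_lit 15264124802) (nat_lit 76) (nat_lit 1721934132) (nat_lit 152) (nat_lit 58689219813) (nat_lit 5) (nat_lit 5) (nat_lit 6) (nat_lit 5) (nat_lit 7) (nat_lit 4) (nat_lit 344) (nat_lit 246) (nat_lit 190)) (XT.lf (nat_lit 0) (nat_lit 23489276728) (nat_lit 152) (nat_lit 50998660072) (nat_lit 0) (nat_lit 4769597933) (nat_lit 5) (nat_lit 5) (nat_lit 7) (nat_lit 4) (nat_lit 5) (nat_lit 4) (nat_lit 345) (nat_lit 246) (nat_lit 189))))))) (XT.nd (nat_lit 1014) (nat_lit 152) (nat_lit 0)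 (XT.nd (nat_lit 468) (nat_lit 0) (nat_lit 0) (XT.nd (nat_lit 234) (nat_lit 76) (nat_lit 0) (XT.nd (nat_lit 78) (nat_lit 0) (nat_lit 0) (XT.lf (nat_lit 0) (nat_lit 30299236304) (nat_lit 152) (nat_lit 41199567202) (nat_lit 0) (nat_lit 11520663082) (nat_lit 5) (nat_lit 5) (nat_lit 7) (nat_lit 4) (nat_lit 5) (nat_lit 4) (nat_lit 346) (nat_lit 246) (nat_lit 188)) (XT.nd (nat_lit 78) (nat_lit 0) (nat_lit 0) (XT.lf (nat_lit 0) (nat_lit 37415599570) (nat_lit 152) (nat_lit 30973991878) (nat_lit 0) (nat_lit 18580936416) (nat_lit 5) (nat_lit 5) (nat_lit 7) (nat_lit 4) (nat_lit 5) (nat_lit 4) (nat_lit 347) (nat_lit 246) (nat_lit 187)) (XT.lf (nat_lit 0) (nat_lit 44855310246) (nat_lit 152) (nat_lit 20297587492) (nat_lit 0) (nat_lit 25967228111) (nat_lit 5) (nat_lit 5) (nat_lit 7) (nat_lit 4) (nat_lit 5) (nat_lit 4) (nat_lit 348) (nat_lit 246) (nat_lit 186)))) (XT.nd (nat_lit 78) (nat_lit 76) (nat_lit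 0) (XT.lf (nat_lit 0) (nat_lit 52636081930) (nat_lit 152) (nat_lit 9144934034) (nat_lit 0) (nat_lit 33697124574) (nat_lit 5) (nat_lit 5) (nat_lit 7) (nat_lit 4) (nat_lit 5) (nat_lit 4) (nat_lit 349) (nat_lit 246) (nat_lit 185)) (XT.nd (nat_lit 78) (nat_lit 0) (nat_lit 0) (XT.lf (nat_lit 0) (nat_lit 2560486751) (nat_lit 76) (nat_lit 58240566482) (nat_lit 76) (nat_lit 39253156535) (nat_lit 4) (nat_lit 4) (nat_lit 5) (nat_lit 5) (nat_lit 5) (nat_lit 4) (nat_lit 350) (nat_lit 246) (nat_lit 184)) (XT.lf (nat_lit 0) (nat_lit 14989022818) (nat_lit 76) (nat_lit 54450827905) (nat_lit 76) (nat_lit 35417272633) (nat_lit 4) (nat_lit 4) (nat_lit 5) (nat_lit 5) (nat_lit 5) (nat_lit 4) (nat_lit 351) (nat_lit 246) (nat_lit 183))))) (XT.nd (nat_lit 234) (nat_lit 0) (nat_lit 0) (XT.nd (nat_lit 78) (nat_lit 0) (nat_lit 0) (XT.lf (nat_lit 0) (nat_lit 27988263801) (nat_lit 76) (nat_lit 50495122948) (nat_lit 76)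 (nat_lit 31417619749) (nat_lit 4) (nat_lit 4) (nat_lit 5) (nat_lit 5) (nat_lit 5) (nat_lit 4) (nat_lit 352) (nat_lit 246) (nat_lit 182)) (XT.nd (nat_lit 78) (nat_lit 0) (nat_lit 0) (XT.lf (nat_lit 0) (nat_lit 41589160273) (nat_lit 76) (nat_lit 46364033268) (nat_lit 76) (nat_lit 27244674898) (nat_lit 4) (nat_lit 4) (nat_lit 5) (nat_lit 5) (nat_lit 5) (nat_lit 4) (nat_lit 353) (nat_lit 246) (nat_lit 181)) (XT.lf (nat_lit 0) (nat_lit 55824095321) (nat_lit 76) (nat_lit 42047722936) (nat_lit 76) (nat_lit 22888502500) (nat_lit 4) (nat_lit 4) (nat_lit 5) (nat_lit 5) (nat_lit 5) (nat_lit 4) (nat_lit 354) (nat_lit 246) (nat_lit 180)))) (XT.nd (nat_lit 156) (nat_lit 0) (nat_lit 0) (XT.nd (nat_lit 78) (nat_lit 0) (nat_lit 0) (XT.lf (nat_lit 0) (nat_lit 70726961647) (nat_lit 76) (nat_lit 37535915022) (nat_lit 76) (nat_lit 18338730713) (nat_lit 4) (nat_lit 4) (nat_lit 5) (nat_lit 5) (nat_lit 5) (nat_lit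 4) (nat_lit 355) (nat_lit 246) (nat_lit 179)) (XT.lf (nat_lit 0) (nat_lit 86333242267) (nat_lit 76) (nat_lit 32817867128) (nat_lit 76) (nat_lit 13584526749) (nat_lit 4) (nat_lit 4) (nat_lit 5) (nat_lit 5) (nat_lit 5) (nat_lit 4) (nat_lit 356) (nat_lit 246) (nat_lit 178))) (XT.nd (nat_lit 78) (nat_lit 0) (nat_lit 0) (XT.lf (nat_lit 0) (nat_lit 102680094991) (nat_lit 76) (nat_lit 27882345805) (nat_lit 76) (nat_lit 8614571074) (nat_lit 4) (nat_lit 4) (nat_lit 5) (nat_lit 5) (nat_lit 5) (nat_lit 4) (nat_lit 357) (nat_lit 246) (nat_lit 177)) (XT.lf (nat_lit 0) (nat_lit 119806440898) (nat_lit 76) (nat_lit 22717599812) (nat_lit 76) (nat_lit 3417030461) (nat_lit 4) (nat_lit 4) (nat_lit 5) (nat_lit 5) (nat_lit 5) (nat_lit 4) (nat_lit 358) (nat_lit 246) (nat_lit 176)))))) (XT.nd (nat_lit 35178) (nat_lit 0) (nat_lit 4788) (XT.nd (nat_lit 234) (nat_lit 0) (nat_lit 0) (XT.nd (nat_lit 78) (nat_lit 76)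 (nat_lit 0) (XT.lf (nat_lit 0) (nat_lit 1981043536) (nat_lit 152) (nat_lit 15310283943) (nat_lit 76) (nat_lit 135752008809) (nat_lit 3) (nat_lit 5) (nat_lit 5) (nat_lit 5) (nat_lit 4) (nat_lit 4) (nat_lit 359) (nat_lit 246) (nat_lit 175)) (XT.nd (nat_lit 78) (nat_lit 76) (nat_lit 0) (XT.lf (nat_lit 0) (nat_lit 7560410312) (nat_lit 152) (nat_lit 4013915076) (nat_lit 76) (nat_lit 148925917706) (nat_lit 3) (nat_lit 5) (nat_lit 5) (nat_lit 5) (nat_lit 4) (nat_lit 4) (nat_lit 360) (nat_lit 246) (nat_lit 174)) (XT.lf (nat_lit 0) (nat_lit 7969737310) (nat_lit 76) (nat_lit 5507905324) (nat_lit 152) (nat_lit 154850590595) (nat_lit 2) (nat_lit 5) (nat_lit 3) (nat_lit 5) (nat_lit 4) (nat_lit 4) (nat_lit 361) (nat_lit 246) (nat_lit 173)))) (XT.nd (nat_lit 34788) (nat_lit 0) (nat_lit 7068) (XT.nd (nat_lit 34710) (nat_lit 0) (nat_lit 8208) (XT.lf (nat_lit 0) (nat_lit 19723428453) (nat_lit 152) (nat_lit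 155951107792) (nat_lit 0) (nat_lit 872110537) (nat_lit 2) (nat_lit 5) (nat_lit 4) (nat_lit 4) (nat_lit 2) (nat_lit 4) (nat_lit 362) (nat_lit 246) (nat_lit 172)) (XT.lf (nat_lit 0) (nat_lit 1680528349) (nat_lit 456) (nat_lit 981355566) (nat_lit 0) (nat_lit 1680528349) (nat_lit 110) (nat_lit 5) (nat_lit 116) (nat_lit 4) (nat_lit 110) (nat_lit 4) (nat_lit 286) (nat_lit 247) (nat_lit 247))) (XT.nd (nat_lit 78) (nat_lit 684) (nat_lit 0) (XT.lf (nat_lit 0) (nat_lit 567941081) (nat_lit 456) (nat_lit 545806620) (nat_lit 76) (nat_lit 7764622600) (nat_lit 104) (nat_lit 5) (nat_lit 110) (nat_lit 5) (nat_lit 105) (nat_lit 4) (nat_lit 287) (nat_lit 247) (nat_lit 246)) (XT.lf (nat_lit 0) (nat_lit 807048443) (nat_lit 380) (nat_lit 5747940621) (nat_lit 380) (nat_lit 2527977254) (nat_lit 95) (nat_lit 4) (nat_lit 100) (nat_lit 5) (nat_lit 100) (nat_lit 4) (nat_lit 288) (nat_lit 247) (nat_lit 245))))) (XT.nd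 (nat_lit 234) (nat_lit 1216) (nat_lit 0) (XT.nd (nat_lit 78) (nat_lit 684) (nat_lit 0) (XT.lf (nat_lit 0) (nat_lit 2116148113) (nat_lit 304) (nat_lit 1249383620) (nat_lit 380) (nat_lit 5934764920) (nat_lit 90) (nat_lit 5) (nat_lit 94) (nat_lit 5) (nat_lit 95) (nat_lit 4) (nat_lit 289) (nat_lit 247) (nat_lit 244)) (XT.nd (nat_lit 78) (nat_lit 380) (nat_lit 0) (XT.lf (nat_lit 0) (nat_lit 3341058559) (nat_lit 304) (nat_lit 6075593860) (nat_lit 304) (nat_lit 113880210) (nat_lit 86) (nat_lit 4) (nat_lit 90) (nat_lit 5) (nat_lit 90) (nat_lit 4) (nat_lit 290) (nat_lit 247) (nat_lit 243)) (XT.lf (nat_lit 0) (nat_lit 4454198334) (nat_lit 304) (nat_lit 1325719888) (nat_lit 380) (nat_lit 3993893070) (nat_lit 81) (nat_lit 5) (nat_lit 85) (nat_lit 5) (nat_lit 86) (nat_lit 4) (nat_lit 291) (nat_lit 247) (nat_lit 242)))) (XT.nd (nat_lit 156) (nat_lit 608) (nat_lit 0) (XT.nd (nat_lit 78) (nat_lit 228) (nat_lit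 0) (XT.lf (nat_lit 0) (nat_lit 1825980521) (nat_lit 380) (nat_lit 4578335315) (nat_lit 76) (nat_lit 3626748180) (nat_lit 76) (nat_lit 5) (nat_lit 81) (nat_lit 5) (nat_lit 77) (nat_lit 4) (nat_lit 292) (nat_lit 247) (nat_lit 241)) (XT.lf (nat_lit 0) (nat_lit 6318628342) (nat_lit 228) (nat_lit 1446767006) (nat_lit 304) (nat_lit 2537464069) (nat_lit 73) (nat_lit 5) (nat_lit 76) (nat_lit 5) (nat_lit 77) (nat_lit 4) (nat_lit 293) (nat_lit 247) (nat_lit 240))) (XT.nd (nat_lit 78) (nat_lit 228) (nat_lit 0) (XT.lf (nat_lit 0) (nat_lit 3284951463) (nat_lit 380) (nat_lit 3574201205) (nat_lit 76) (nat_lit 3730152405) (nat_lit 68) (nat_lit 5) (nat_lit 73) (nat_lit 5) (nat_lit 69) (nat_lit 4) (nat_lit 294) (nat_lit 247) (nat_lit 239)) (XT.lf (nat_lit 0) (nat_lit 7548468806) (nat_lit 228) (nat_lit 1718857827) (nat_lit 304) (nat_lit 1624529947) (nat_lit 65) (nat_lit 5) (nat_lit 68) (nat_lit 5) (nat_lit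 69) (nat_lit 4) (nat_lit 295) (nat_lit 247) (nat_lit 238))))))))
noncomputable def xc28 : XT := (XT.nd (nat_lit 2028) (nat_lit 760) (nat_lit 0) (XT.nd (nat_lit 1014) (nat_lit 1140) (nat_lit 0) (XT.nd (nat_lit 468) (nat_lit 1216) (nat_lit 0) (XT.nd (nat_lit 234) (nat_lit 608) (nat_lit 0) (XT.nd (nat_lit 78) (nat_lit 532) (nat_lit 0) (XT.lf (nat_lit 0) (nat_lit 4200511014) (nat_lit 304) (nat_lit 3353652477) (nat_lit 76) (nat_lit 3655907256) (nat_lit 61) (nat_lit 5) (nat_lit 65) (nat_lit 5) (nat_lit 62) (nat_lit 4) (nat_lit 296) (nat_lit 247) (nat_lit 237)) (XT.nd (nat_lit 78) (nat_lit 304) (nat_lit 0) (XT.lf (nat_lit 0) (nat_lit 7955867012) (nat_lit 228) (nat_lit 2258983509) (nat_lit 304) (nat_lit 1331068932) (nat_lit 58) (nat_lit 5) (nat_lit 61) (nat_lit 5) (nat_lit 62) (nat_lit 4) (nat_lit 297) (nat_lit 247) (nat_lit 236)) (XT.lf (nat_lit 0) (nat_lit 4490314377) (nat_lit 304) (nat_lit 4124498368)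 (nat_lit 76) (nat_lit 3284075960) (nat_lit 54) (nat_lit 5) (nat_lit 58) (nat_lit 5) (nat_lit 55) (nat_lit 4) (nat_lit 298) (nat_lit 247) (nat_lit 235)))) (XT.nd (nat_lit 78) (nat_lit 456) (nat_lit 0) (XT.lf (nat_lit 0) (nat_lit 7320576765) (nat_lit 152) (nat_lit 3197946409) (nat_lit 228) (nat_lit 1752426436) (nat_lit 52) (nat_lit 5) (nat_lit 54) (nat_lit 5) (nat_lit 55) (nat_lit 4) (nat_lit 299) (nat_lit 247) (nat_lit 234)) (XT.nd (nat_lit 78) (nat_lit 152) (nat_lit 0) (XT.lf (nat_lit 0) (nat_lit 4051793044) (nat_lit 304) (nat_lit 6130676363) (nat_lit 76) (nat_lit 2479654867) (nat_lit 48) (nat_lit 5) (nat_lit 52) (nat_lit 5) (nat_lit 49) (nat_lit 4) (nat_lit 300) (nat_lit 247) (nat_lit 233)) (XT.lf (nat_lit 0) (nat_lit 5383567024) (nat_lit 152) (nat_lit 4683917451) (nat_lit 228) (nat_lit 3006248291) (nat_lit 46) (nat_lit 5) (nat_lit 48) (nat_lit 5) (nat_lit 49) (nat_lit 4) (nat_lit 301) (nat_lit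 247) (nat_lit 232))))) (XT.nd (nat_lit 234) (nat_lit 684) (nat_lit 0) (XT.nd (nat_lit 78) (nat_lit 228) (nat_lit 0) (XT.lf (nat_lit 0) (nat_lit 2759014576) (nat_lit 304) (nat_lit 9659217057) (nat_lit 76) (nat_lit 1088857623) (nat_lit 42) (nat_lit 5) (nat_lit 46) (nat_lit 5) (nat_lit 43) (nat_lit 4) (nat_lit 302) (nat_lit 247) (nat_lit 231)) (XT.nd (nat_lit 78) (nat_lit 76) (nat_lit 0) (XT.lf (nat_lit 0) (nat_lit 1839588662) (nat_lit 152) (nat_lit 6886484560) (nat_lit 228) (nat_lit 5235982529) (nat_lit 40) (nat_lit 5) (nat_lit 42) (nat_lit 5) (nat_lit 43) (nat_lit 4) (nat_lit 303) (nat_lit 247) (nat_lit 230)) (XT.lf (nat_lit 0) (nat_lit 475316314) (nat_lit 228) (nat_lit 604901329) (nat_lit 76) (nat_lit 13361461094) (nat_lit 39) (nat_lit 5) (nat_lit 42) (nat_lit 5) (nat_lit 40) (nat_lit 5) (nat_lit 304) (nat_lit 247) (nat_lit 229)))) (XT.nd (nat_lit 156) (nat_lit 380) (nat_lit 0) (XT.nd (nat_lit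 78) (nat_lit 152) (nat_lit 0) (XT.lf (nat_lit 0) (nat_lit 6365096515) (nat_lit 228) (nat_lit 3599843581) (nat_lit 76) (nat_lit 4978845023) (nat_lit 37) (nat_lit 5) (nat_lit 40) (nat_lit 5) (nat_lit 38) (nat_lit 4) (nat_lit 305) (nat_lit 247) (nat_lit 228)) (XT.lf (nat_lit 0) (nat_lit 8323569391) (nat_lit 152) (nat_lit 4168932047) (nat_lit 228) (nat_lit 2980290478) (nat_lit 35) (nat_lit 5) (nat_lit 37) (nat_lit 5) (nat_lit 38) (nat_lit 4) (nat_lit 306) (nat_lit 247) (nat_lit 227))) (XT.nd (nat_lit 78) (nat_lit 152) (nat_lit 0) (XT.lf (nat_lit 0) (nat_lit 2791865819) (nat_lit 228) (nat_lit 11348913660) (nat_lit 76) (nat_lit 1888204619) (nat_lit 32) (nat_lit 5) (nat_lit 35) (nat_lit 5) (nat_lit 33) (nat_lit 4) (nat_lit 307) (nat_lit 247) (nat_lit 226)) (XT.lf (nat_lit 0) (nat_lit 321102631) (nat_lit 152) (nat_lit 8443040973) (nat_lit 228) (nat_lit 7848841053) (nat_lit 30) (nat_lit 5) (nat_lit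 32) (nat_lit 5) (nat_lit 33) (nat_lit 4) (nat_lit 308) (nat_lit 247) (nat_lit 225)))))) (XT.nd (nat_lit 468) (nat_lit 608) (nat_lit 0) (XT.nd (nat_lit 234) (nat_lit 228) (nat_lit 0) (XT.nd (nat_lit 78) (nat_lit 304) (nat_lit 0) (XT.lf (nat_lit 0) (nat_lit 12567270784) (nat_lit 152) (nat_lit 2442326338) (nat_lit 228) (nat_lit 2217426050) (nat_lit 30) (nat_lit 5) (nat_lit 32) (nat_lit 5) (nat_lit 33) (nat_lit 4) (nat_lit 309) (nat_lit 247) (nat_lit 224)) (XT.nd (nat_lit 78) (nat_lit 76) (nat_lit 0) (XT.lf (nat_lit 0) (nat_lit 3595142913) (nat_lit 228) (nat_lit 10482187607) (nat_lit 76) (nat_lit 3794285614) (nat_lit 27) (nat_lit 5) (nat_lit 30) (nat_lit 5) (nat_lit 28) (nat_lit 4) (nat_lit 310) (nat_lit 247) (nat_lit 223)) (XT.lf (nat_lit 0) (nat_lit 1338025901) (nat_lit 76) (nat_lit 8267327738) (nat_lit 152) (nat_lit 8943906127) (nat_lit 26) (nat_lit 5) (nat_lit 27) (nat_lit 5) (nat_lit 28)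 (nat_lit 4) (nat_lit 311) (nat_lit 247) (nat_lit 222)))) (XT.nd (nat_lit 78) (nat_lit 228) (nat_lit 0) (XT.lf (nat_lit 0) (nat_lit 13742927038) (nat_lit 76) (nat_lit 2151734816) (nat_lit 152) (nat_lit 3366828836) (nat_lit 26) (nat_lit 5) (nat_lit 27) (nat_lit 5) (nat_lit 28) (nat_lit 4) (nat_lit 312) (nat_lit 247) (nat_lit 221)) (XT.nd (nat_lit 78) (nat_lit 0) (nat_lit 0) (XT.lf (nat_lit 0) (nat_lit 2421012012) (nat_lit 228) (nat_lit 13404155501) (nat_lit 76) (nat_lit 4184091405) (nat_lit 23) (nat_lit 5) (nat_lit 26) (nat_lit 5) (nat_lit 24) (nat_lit 4) (nat_lit 313) (nat_lit 247) (nat_lit 220)) (XT.lf (nat_lit 0) (nat_lit 8386941098) (nat_lit 228) (nat_lit 1612448127) (nat_lit 76) (nat_lit 10795331695) (nat_lit 23) (nat_lit 5) (nat_lit 26) (nat_lit 5) (nat_lit 24) (nat_lit 4) (nat_lit 314) (nat_lit 247) (nat_lit 219))))) (XT.nd (nat_lit 234) (nat_lit 304) (nat_lit 0) (XT.nd (nat_lit 78)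 (nat_lit 228) (nat_lit 0) (XT.lf (nat_lit 0) (nat_lit 10775543070) (nat_lit 76) (nat_lit 3863576976) (nat_lit 152) (nat_lit 6980749975) (nat_lit 22) (nat_lit 5) (nat_lit 23) (nat_lit 5) (nat_lit 24) (nat_lit 4) (nat_lit 315) (nat_lit 247) (nat_lit 218)) (XT.nd (nat_lit 78) (nat_lit 76) (nat_lit 0) (XT.lf (nat_lit 0) (nat_lit 1127575466) (nat_lit 152) (nat_lit 20015879358) (nat_lit 152) (nat_lit 1344685441) (nat_lit 20) (nat_lit 4) (nat_lit 22) (nat_lit 5) (nat_lit 22) (nat_lit 4) (nat_lit 316) (nat_lit 247) (nat_lit 217)) (XT.lf (nat_lit 0) (nat_lit 4525204642) (nat_lit 228) (nat_lit 9752674458) (nat_lit 76) (nat_lit 9119434590) (nat_lit 19) (nat_lit 5) (nat_lit 22) (nat_lit 5) (nat_lit 20) (nat_lit 4) (nat_lit 317) (nat_lit 247) (nat_lit 216)))) (XT.nd (nat_lit 156) (nat_lit 228) (nat_lit 0) (XT.nd (nat_lit 78) (nat_lit 0) (nat_lit 0) (XT.lf (nat_lit 0) (nat_lit 2279057994) (nat_lit 76)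 (nat_lit 8298675402) (nat_lit 152) (nat_lit 13776348464) (nat_lit 18) (nat_lit 5) (nat_lit 19) (nat_lit 5) (nat_lit 20) (nat_lit 4) (nat_lit 318) (nat_lit 247) (nat_lit 215)) (XT.lf (nat_lit 0) (nat_lit 14934099778) (nat_lit 76) (nat_lit 1997231925) (nat_lit 152) (nat_lit 8427445456) (nat_lit 18) (nat_lit 5) (nat_lit 19) (nat_lit 5) (nat_lit 20) (nat_lit 4) (nat_lit 319) (nat_lit 247) (nat_lit 214))) (XT.nd (nat_lit 78) (nat_lit 76) (nat_lit 0) (XT.lf (nat_lit 0) (nat_lit 1619762010) (nat_lit 152) (nat_lit 21944990680) (nat_lit 152) (nat_lit 2850130264) (nat_lit 16) (nat_lit 4) (nat_lit 18) (nat_lit 5) (nat_lit 18) (nat_lit 4) (nat_lit 320) (nat_lit 247) (nat_lit 213)) (XT.lf (nat_lit 0) (nat_lit 2980137611) (nat_lit 228) (nat_lit 13258960673) (nat_lit 76) (nat_lit 11282883500) (nat_lit 15) (nat_lit 5) (nat_lit 18) (nat_lit 5) (nat_lit 16) (nat_lit 4) (nat_lit 321) (nat_lit 247) (nat_lit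 212))))))) (XT.nd (nat_lit 1014) (nat_lit 304) (nat_lit 0) (XT.nd (nat_lit 468) (nat_lit 228) (nat_lit 0) (XT.nd (nat_lit 234) (nat_lit 152) (nat_lit 0) (XT.nd (nat_lit 78) (nat_lit 76) (nat_lit 0) (XT.lf (nat_lit 0) (nat_lit 8952294993) (nat_lit 228) (nat_lit 1339080816) (nat_lit 76) (nat_lit 18394968775) (nat_lit 15) (nat_lit 5) (nat_lit 18) (nat_lit 5) (nat_lit 16) (nat_lit 4) (nat_lit 322) (nat_lit 247) (nat_lit 211)) (XT.nd (nat_lit 78) (nat_lit 0) (nat_lit 0) (XT.lf (nat_lit 0) (nat_lit 11239621996) (nat_lit 76) (nat_lit 4004597736) (nat_lit 152) (nat_lit 14664104566) (nat_lit 14) (nat_lit 5) (nat_lit 15) (nat_lit 5) (nat_lit 16) (nat_lit 4) (nat_lit 323) (nat_lit 247) (nat_lit 210)) (XT.lf (nat_lit 0) (nat_lit 21804762819) (nat_lit 152) (nat_lit 6894759458) (nat_lit 0) (nat_lit 2493292017) (nat_lit 14) (nat_lit 5) (nat_lit 16) (nat_lit 4) (nat_lit 14) (nat_lit 4) (nat_lit 324) (nat_lit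 247) (nat_lit 209)))) (XT.nd (nat_lit 78) (nat_lit 76) (nat_lit 0) (XT.lf (nat_lit 0) (nat_lit 5385973282) (nat_lit 76) (nat_lit 23318734938) (nat_lit 76) (nat_lit 3836509755) (nat_lit 13) (nat_lit 4) (nat_lit 14) (nat_lit 5) (nat_lit 14) (nat_lit 4) (nat_lit 325) (nat_lit 247) (nat_lit 208)) (XT.nd (nat_lit 78) (nat_lit 0) (nat_lit 0) (XT.lf (nat_lit 0) (nat_lit 1946262489) (nat_lit 152) (nat_lit 15693935550) (nat_lit 76) (nat_lit 16316521227) (nat_lit 12) (nat_lit 5) (nat_lit 14) (nat_lit 5) (nat_lit 13) (nat_lit 4) (nat_lit 326) (nat_lit 247) (nat_lit 207)) (XT.lf (nat_lit 0) (nat_lit 7864192896) (nat_lit 152) (nat_lit 3835416082) (nat_lit 76) (nat_lit 23744512958) (nat_lit 12) (nat_lit 5) (nat_lit 14) (nat_lit 5) (nat_lit 13) (nat_lit 4) (nat_lit 327) (nat_lit 247) (nat_lit 206))))) (XT.nd (nat_lit 234) (nat_lit 152) (nat_lit 0) (XT.nd (nat_lit 78) (nat_lit 0) (nat_lit 0) (XT.lf (nat_lit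 0) (nat_lit 8654303798) (nat_lit 76) (nat_lit 5435122564) (nat_lit 152) (nat_lit 22916151710) (nat_lit 11) (nat_lit 5) (nat_lit 12) (nat_lit 5) (nat_lit 13) (nat_lit 4) (nat_lit 328) (nat_lit 247) (nat_lit 205)) (XT.nd (nat_lit 78) (nat_lit 0) (nat_lit 0) (XT.lf (nat_lit 0) (nat_lit 20606642266) (nat_lit 152) (nat_lit 16935057961) (nat_lit 0) (nat_lit 1104009478) (nat_lit 11) (nat_lit 5) (nat_lit 13) (nat_lit 4) (nat_lit 11) (nat_lit 4) (nat_lit 329) (nat_lit 247) (nat_lit 204)) (XT.lf (nat_lit 0) (nat_lit 27437781135) (nat_lit 152) (nat_lit 5125193442) (nat_lit 0) (nat_lit 7805254632) (nat_lit 11) (nat_lit 5) (nat_lit 13) (nat_lit 4) (nat_lit 11) (nat_lit 4) (nat_lit 330) (nat_lit 247) (nat_lit 203)))) (XT.nd (nat_lit 156) (nat_lit 76) (nat_lit 0) (XT.nd (nat_lit 78) (nat_lit 0) (nat_lit 0) (XT.lf (nat_lit 0) (nat_lit 7301155573) (nat_lit 76) (nat_lit 27315889463) (nat_lit 76) (nat_lit 7559654661)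 (nat_lit 10) (nat_lit 4) (nat_lit 11) (nat_lit 5) (nat_lit 11) (nat_lit 4) (nat_lit 331) (nat_lit 247) (nat_lit 202)) (XT.lf (nat_lit 0) (nat_lit 20342781828) (nat_lit 76) (nat_lit 21803576269) (nat_lit 76) (nat_lit 1929524037) (nat_lit 10) (nat_lit 4) (nat_lit 11) (nat_lit 5) (nat_lit 11) (nat_lit 4) (nat_lit 332) (nat_lit 247) (nat_lit 201))) (XT.nd (nat_lit 78) (nat_lit 0) (nat_lit 0) (XT.lf (nat_lit 0) (nat_lit 3845070031) (nat_lit 152) (nat_lit 12180767142) (nat_lit 76) (nat_lit 30044837714) (nat_lit 9) (nat_lit 5) (nat_lit 11) (nat_lit 5) (nat_lit 10) (nat_lit 4) (nat_lit 333) (nat_lit 247) (nat_lit 200)) (XT.lf (nat_lit 0) (nat_lit 9812347131) (nat_lit 152) (nat_lit 174058510) (nat_lit 76) (nat_lit 38179931242) (nat_lit 9) (nat_lit 5) (nat_lit 11) (nat_lit 5) (nat_lit 10) (nat_lit 4) (nat_lit 334) (nat_lit 247) (nat_lit 199)))))) (XT.nd (nat_lit 546) (nat_lit 152) (nat_lit 0) (XT.nd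 (nat_lit 234) (nat_lit 76) (nat_lit 0) (XT.nd (nat_lit 78) (nat_lit 0) (nat_lit 0) (XT.lf (nat_lit 0) (nat_lit 12579634741) (nat_lit 76) (nat_lit 3565455432) (nat_lit 152) (nat_lit 34219696356) (nat_lit 8) (nat_lit 5) (nat_lit 9) (nat_lit 5) (nat_lit 10) (nat_lit 4) (nat_lit 335) (nat_lit 247) (nat_lit 198)) (XT.nd (nat_lit 78) (nat_lit 0) (nat_lit 0) (XT.lf (nat_lit 0) (nat_lit 22774212732) (nat_lit 152) (nat_lit 26826160612) (nat_lit 0) (nat_lit 3073409818) (nat_lit 8) (nat_lit 5) (nat_lit 10) (nat_lit 4) (nat_lit 8) (nat_lit 4) (nat_lit 336) (nat_lit 247) (nat_lit 197)) (XT.lf (nat_lit 0) (nat_lit 29720681260) (nat_lit 152) (nat_lit 15447733612) (nat_lit 0) (nat_lit 9930254036) (nat_lit 8) (nat_lit 5) (nat_lit 10) (nat_lit 4) (nat_lit 8) (nat_lit 4) (nat_lit 337) (nat_lit 247) (nat_lit 196)))) (XT.nd (nat_lit 156) (nat_lit 0) (nat_lit 0) (XT.nd (nat_lit 78) (nat_lit 76) (nat_lit 0) (XT.lf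 (nat_lit 0) (nat_lit 36966761628) (nat_lit 152) (nat_lit 3588505957) (nat_lit 0) (nat_lit 17090977920) (nat_lit 8) (nat_lit 5) (nat_lit 10) (nat_lit 4) (nat_lit 8) (nat_lit 4) (nat_lit 338) (nat_lit 247) (nat_lit 195)) (XT.lf (nat_lit 0) (nat_lit 8954493021) (nat_lit 76) (nat_lit 35661289453) (nat_lit 76) (nat_lit 15704213855) (nat_lit 7) (nat_lit 4) (nat_lit 8) (nat_lit 5) (nat_lit 8) (nat_lit 4) (nat_lit 339) (nat_lit 247) (nat_lit 194))) (XT.nd (nat_lit 78) (nat_lit 0) (nat_lit 0) (XT.lf (nat_lit 0) (nat_lit 22118112375) (nat_lit 76) (nat_lit 30522023067) (nat_lit 76) (nat_lit 10487526621) (nat_lit 7) (nat_lit 4) (nat_lit 8) (nat_lit 5) (nat_lit 8) (nat_lit 4) (nat_lit 340) (nat_lit 247) (nat_lit 193)) (XT.lf (nat_lit 0) (nat_lit 35862275752) (nat_lit 76) (nat_lit 25161468951) (nat_lit 76) (nat_lit 5053238365) (nat_lit 7) (nat_lit 4) (nat_lit 8) (nat_lit 5) (nat_lit 8) (nat_lit 4) (nat_lit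 341) (nat_lit 247) (nat_lit 192))))) (XT.nd (nat_lit 234) (nat_lit 0) (nat_lit 0) (XT.nd (nat_lit 78) (nat_lit 76) (nat_lit 0) (XT.lf (nat_lit 0) (nat_lit 599655376) (nat_lit 152) (nat_lit 18961153163) (nat_lit 76) (nat_lit 49613996629) (nat_lit 6) (nat_lit 5) (nat_lit 8) (nat_lit 5) (nat_lit 7) (nat_lit 4) (nat_lit 342) (nat_lit 247) (nat_lit 191)) (XT.nd (nat_lit 78) (nat_lit 76) (nat_lit 0) (XT.lf (nat_lit 0) (nat_lit 6393207871) (nat_lit 152) (nat_lit 7267120638) (nat_lit 76) (nat_lit 58766824793) (nat_lit 6) (nat_lit 5) (nat_lit 8) (nat_lit 5) (nat_lit 7) (nat_lit 4) (nat_lit 343) (nat_lit 247) (nat_lit 190)) (XT.lf (nat_lit 0) (nat_lit 5042199482) (nat_lit 76) (nat_lit 7446089395) (nat_lit 152) (nat_lit 63353485463) (nat_lit 5) (nat_lit 5) (nat_lit 6) (nat_lit 5) (nat_lit 7) (nat_lit 4) (nat_lit 344) (nat_lit 247) (nat_lit 189)))) (XT.nd (nat_lit 156) (nat_lit 0) (nat_lit 0) (XT.nd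 (nat_lit 78) (nat_lit 0) (nat_lit 0) (XT.lf (nat_lit 0) (nat_lit 18052985186) (nat_lit 76) (nat_lit 874440127) (nat_lit 152) (nat_lit 60498532574) (nat_lit 5) (nat_lit 5) (nat_lit 6) (nat_lit 5) (nat_lit 7) (nat_lit 4) (nat_lit 345) (nat_lit 247) (nat_lit 188)) (XT.lf (nat_lit 0) (nat_lit 25712347875) (nat_lit 152) (nat_lit 51596436222) (nat_lit 0) (nat_lit 5879861633) (nat_lit 5) (nat_lit 5) (nat_lit 7) (nat_lit 4) (nat_lit 5) (nat_lit 4) (nat_lit 346) (nat_lit 247) (nat_lit 187))) (XT.nd (nat_lit 78) (nat_lit 0) (nat_lit 0) (XT.lf (nat_lit 0) (nat_lit 32812871749) (nat_lit 152) (nat_lit 41400348559) (nat_lit 0) (nat_lit 12926966526) (nat_lit 5) (nat_lit 5) (nat_lit 7) (nat_lit 4) (nat_lit 5) (nat_lit 4) (nat_lit 347) (nat_lit 247) (nat_lit 186)) (XT.lf (nat_lit 0) (nat_lit 40237497291) (nat_lit 152) (nat_lit 30752027659) (nat_lit 0) (nat_lit 20300716847) (nat_lit 5) (nat_lit 5) (nat_lit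 7) (nat_lit 4) (nat_lit 5) (nat_lit 4) (nat_lit 348) (nat_lit 247) (nat_lit 185))))))))
noncomputable def xc29 : XT := (XT.nd (nat_lit 36504) (nat_lit 0) (nat_lit 988) (XT.nd (nat_lit 1014) (nat_lit 76) (nat_lit 0) (XT.nd (nat_lit 468) (nat_lit 76) (nat_lit 0) (XT.nd (nat_lit 234) (nat_lit 0) (nat_lit 0) (XT.nd (nat_lit 78) (nat_lit 76) (nat_lit 0) (XT.lf (nat_lit 0) (nat_lit 48003902179) (nat_lit 152) (nat_lit 19626120379) (nat_lit 0) (nat_lit 28018669144) (nat_lit 5) (nat_lit 5) (nat_lit 7) (nat_lit 4) (nat_lit 5) (nat_lit 4) (nat_lit 349) (nat_lit 247) (nat_lit 184)) (XT.nd (nat_lit 78) (nat_lit 76) (nat_lit 0) (XT.lf (nat_lit 0) (nat_lit 56130577856) (nat_lit 152) (nat_lit 7996136461) (nat_lit 0) (nat_lit 36099199496) (nat_lit 5) (nat_lit 5) (nat_lit 7) (nat_lit 4) (nat_lit 5) (nat_lit 4) (nat_lit 350) (nat_lit 247) (nat_lit 183)) (XT.lf (nat_lit 0) (nat_lit 4248518426) (nat_lit 76) (nat_lit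 60429194479) (nat_lit 76) (nat_lit 40353868191) (nat_lit 4) (nat_lit 4) (nat_lit 5) (nat_lit 5) (nat_lit 5) (nat_lit 4) (nat_lit 351) (nat_lit 247) (nat_lit 182)))) (XT.nd (nat_lit 78) (nat_lit 0) (nat_lit 0) (XT.lf (nat_lit 0) (nat_lit 17224195234) (nat_lit 76) (nat_lit 56484416608) (nat_lit 76) (nat_lit 36367235150) (nat_lit 4) (nat_lit 4) (nat_lit 5) (nat_lit 5) (nat_lit 5) (nat_lit 4) (nat_lit 352) (nat_lit 247) (nat_lit 181)) (XT.nd (nat_lit 78) (nat_lit 0) (nat_lit 0) (XT.lf (nat_lit 0) (nat_lit 30802649633) (nat_lit 76) (nat_lit 52363733675) (nat_lit 76) (nat_lit 32206690150) (nat_lit 4) (nat_lit 4) (nat_lit 5) (nat_lit 5) (nat_lit 5) (nat_lit 4) (nat_lit 353) (nat_lit 247) (nat_lit 180)) (XT.lf (nat_lit 0) (nat_lit 45016211279) (nat_lit 76) (nat_lit 48057334531) (nat_lit 76) (nat_lit 27862327133) (nat_lit 4) (nat_lit 4) (nat_lit 5) (nat_lit 5) (nat_lit 5) (nat_lit 4) (nat_lit 354)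 (nat_lit 247) (nat_lit 179))))) (XT.nd (nat_lit 234) (nat_lit 76) (nat_lit 0) (XT.nd (nat_lit 78) (nat_lit 0) (nat_lit 0) (XT.lf (nat_lit 0) (nat_lit 59898721985) (nat_lit 76) (nat_lit 43554965844) (nat_lit 76) (nat_lit 23323802377) (nat_lit 4) (nat_lit 4) (nat_lit 5) (nat_lit 5) (nat_lit 5) (nat_lit 4) (nat_lit 355) (nat_lit 247) (nat_lit 178)) (XT.nd (nat_lit 78) (nat_lit 0) (nat_lit 0) (XT.lf (nat_lit 0) (nat_lit 75485616299) (nat_lit 76) (nat_lit 38845907689) (nat_lit 76) (nat_lit 18580309870) (nat_lit 4) (nat_lit 4) (nat_lit 5) (nat_lit 5) (nat_lit 5) (nat_lit 4) (nat_lit 356) (nat_lit 247) (nat_lit 177)) (XT.lf (nat_lit 0) (nat_lit 91814005875) (nat_lit 76) (nat_lit 33918948023) (nat_lit 76) (nat_lit 13620555583) (nat_lit 4) (nat_lit 4) (nat_lit 5) (nat_lit 5) (nat_lit 5) (nat_lit 4) (nat_lit 357) (nat_lit 247) (nat_lit 176)))) (XT.nd (nat_lit 156) (nat_lit 76) (nat_lit 0) (XT.nd (nat_lit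 78) (nat_lit 0) (nat_lit 0) (XT.lf (nat_lit 0) (nat_lit 108922767831) (nat_lit 76) (nat_lit 28762355989) (nat_lit 76) (nat_lit 8432730577) (nat_lit 4) (nat_lit 4) (nat_lit 5) (nat_lit 5) (nat_lit 5) (nat_lit 4) (nat_lit 358) (nat_lit 247) (nat_lit 175)) (XT.lf (nat_lit 0) (nat_lit 126852637314) (nat_lit 76) (nat_lit 23363853987) (nat_lit 76) (nat_lit 3004482887) (nat_lit 4) (nat_lit 4) (nat_lit 5) (nat_lit 5) (nat_lit 5) (nat_lit 4) (nat_lit 359) (nat_lit 247) (nat_lit 174))) (XT.nd (nat_lit 78) (nat_lit 0) (nat_lit 0) (XT.lf (nat_lit 0) (nat_lit 2624871788) (nat_lit 152) (nat_lit 15059210595) (nat_lit 76) (nat_lit 142994926643) (nat_lit 3) (nat_lit 5) (nat_lit 5) (nat_lit 5) (nat_lit 4) (nat_lit 4) (nat_lit 360) (nat_lit 247) (nat_lit 173)) (XT.lf (nat_lit 0) (nat_lit 8457265185) (nat_lit 152) (nat_lit 3246432215) (nat_lit 76) (nat_lit 156805849205) (nat_lit 3) (nat_lit 5) (nat_lit 5) (nat_lit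 5) (nat_lit 4) (nat_lit 4) (nat_lit 361) (nat_lit 247) (nat_lit 172)))))) (XT.nd (nat_lit 34944) (nat_lit 0) (nat_lit 4788) (XT.nd (nat_lit 34710) (nat_lit 0) (nat_lit 7068) (XT.nd (nat_lit 34554) (nat_lit 0) (nat_lit 8664) (XT.lf (nat_lit 0) (nat_lit 9308650145) (nat_lit 76) (nat_lit 5346042530) (nat_lit 152) (nat_lit 162074720403) (nat_lit 2) (nat_lit 5) (nat_lit 3) (nat_lit 5) (nat_lit 4) (nat_lit 4) (nat_lit 362) (nat_lit 247) (nat_lit 171)) (XT.nd (nat_lit 78) (nat_lit 380) (nat_lit 0) (XT.lf (nat_lit 0) (nat_lit 903667923) (nat_lit 456) (nat_lit 2357445992) (nat_lit 0) (nat_lit 903667923) (nat_lit 121) (nat_lit 5) (nat_lit 127) (nat_lit 4) (nat_lit 121) (nat_lit 4) (nat_lit 284) (nat_lit 248) (nat_lit 248)) (XT.lf (nat_lit 0) (nat_lit 5102194678) (nat_lit 380) (nat_lit 2619265994) (nat_lit 380) (nat_lit 782092728) (nat_lit 116) (nat_lit 4) (nat_lit 121) (nat_lit 5) (nat_lit 121) (nat_lit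 4) (nat_lit 285) (nat_lit 248) (nat_lit 247)))) (XT.nd (nat_lit 78) (nat_lit 1140) (nat_lit 0) (XT.lf (nat_lit 0) (nat_lit 5021620346) (nat_lit 456) (nat_lit 2127814927) (nat_lit 0) (nat_lit 1539229965) (nat_lit 110) (nat_lit 5) (nat_lit 116) (nat_lit 4) (nat_lit 110) (nat_lit 4) (nat_lit 286) (nat_lit 248) (nat_lit 246)) (XT.nd (nat_lit 78) (nat_lit 684) (nat_lit 0) (XT.lf (nat_lit 0) (nat_lit 2070607315) (nat_lit 456) (nat_lit 896892782) (nat_lit 76) (nat_lit 5918021573) (nat_lit 104) (nat_lit 5) (nat_lit 110) (nat_lit 5) (nat_lit 105) (nat_lit 4) (nat_lit 287) (nat_lit 248) (nat_lit 245)) (XT.lf (nat_lit 0) (nat_lit 288017269) (nat_lit 380) (nat_lit 7627050715) (nat_lit 380) (nat_lit 1179457403) (nat_lit 95) (nat_lit 4) (nat_lit 100) (nat_lit 5) (nat_lit 100) (nat_lit 4) (nat_lit 288) (nat_lit 248) (nat_lit 244))))) (XT.nd (nat_lit 234) (nat_lit 1216) (nat_lit 0) (XT.nd (nat_lit 78) (nat_lit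 684) (nat_lit 0) (XT.lf (nat_lit 0) (nat_lit 1399428977) (nat_lit 304) (nat_lit 3167913900) (nat_lit 380) (nat_lit 4747856066) (nat_lit 90) (nat_lit 5) (nat_lit 94) (nat_lit 5) (nat_lit 95) (nat_lit 4) (nat_lit 289) (nat_lit 248) (nat_lit 243)) (XT.nd (nat_lit 78) (nat_lit 304) (nat_lit 0) (XT.lf (nat_lit 0) (nat_lit 913623404) (nat_lit 380) (nat_lit 7105653938) (nat_lit 76) (nat_lit 1530113348) (nat_lit 85) (nat_lit 5) (nat_lit 90) (nat_lit 5) (nat_lit 86) (nat_lit 4) (nat_lit 290) (nat_lit 248) (nat_lit 242)) (XT.lf (nat_lit 0) (nat_lit 3360264073) (nat_lit 304) (nat_lit 3327009775) (nat_lit 380) (nat_lit 3109006356) (nat_lit 81) (nat_lit 5) (nat_lit 85) (nat_lit 5) (nat_lit 86) (nat_lit 4) (nat_lit 291) (nat_lit 248) (nat_lit 241)))) (XT.nd (nat_lit 156) (nat_lit 608) (nat_lit 0) (XT.nd (nat_lit 78) (nat_lit 228) (nat_lit 0) (XT.lf (nat_lit 0) (nat_lit 2556458699) (nat_lit 380) (nat_lit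 5887817708) (nat_lit 76) (nat_lit 1613213511) (nat_lit 76) (nat_lit 5) (nat_lit 81) (nat_lit 5) (nat_lit 77) (nat_lit 4) (nat_lit 292) (nat_lit 248) (nat_lit 240)) (XT.lf (nat_lit 0) (nat_lit 4828736352) (nat_lit 228) (nat_lit 3551053431) (nat_lit 304) (nat_lit 1953071321) (nat_lit 73) (nat_lit 5) (nat_lit 76) (nat_lit 5) (nat_lit 77) (nat_lit 4) (nat_lit 293) (nat_lit 248) (nat_lit 239))) (XT.nd (nat_lit 78) (nat_lit 228) (nat_lit 0) (XT.lf (nat_lit 0) (nat_lit 3721321235) (nat_lit 380) (nat_lit 5294683950) (nat_lit 76) (nat_lit 1607317871) (nat_lit 68) (nat_lit 5) (nat_lit 73) (nat_lit 5) (nat_lit 69) (nat_lit 4) (nat_lit 294) (nat_lit 248) (nat_lit 238)) (XT.lf (nat_lit 0) (nat_lit 5643528895) (nat_lit 228) (nat_lit 3945338703) (nat_lit 304) (nat_lit 1340533967) (nat_lit 65) (nat_lit 5) (nat_lit 68) (nat_lit 5) (nat_lit 69) (nat_lit 4) (nat_lit 295) (nat_lit 248) (nat_lit 237))))))) (XT.nd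 (nat_lit 1014) (nat_lit 1292) (nat_lit 0) (XT.nd (nat_lit 468) (nat_lit 1064) (nat_lit 0) (XT.nd (nat_lit 234) (nat_lit 608) (nat_lit 0) (XT.nd (nat_lit 78) (nat_lit 532) (nat_lit 0) (XT.lf (nat_lit 0) (nat_lit 4342110121) (nat_lit 304) (nat_lit 5504399688) (nat_lit 76) (nat_lit 1405205625) (nat_lit 61) (nat_lit 5) (nat_lit 65) (nat_lit 5) (nat_lit 62) (nat_lit 4) (nat_lit 296) (nat_lit 248) (nat_lit 236)) (XT.nd (nat_lit 78) (nat_lit 304) (nat_lit 0) (XT.lf (nat_lit 0) (nat_lit 5616277740) (nat_lit 228) (nat_lit 4626043974) (nat_lit 304) (nat_lit 1348738593) (nat_lit 58) (nat_lit 5) (nat_lit 61) (nat_lit 5) (nat_lit 62) (nat_lit 4) (nat_lit 297) (nat_lit 248) (nat_lit 235)) (XT.lf (nat_lit 0) (nat_lit 4335178990) (nat_lit 304) (nat_lit 6725401917) (nat_lit 76) (nat_lit 887654943) (nat_lit 54) (nat_lit 5) (nat_lit 58) (nat_lit 5) (nat_lit 55) (nat_lit 4) (nat_lit 298) (nat_lit 248) (nat_lit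 234)))) (XT.nd (nat_lit 78) (nat_lit 456) (nat_lit 0) (XT.lf (nat_lit 0) (nat_lit 4526070583) (nat_lit 152) (nat_lit 5723363555) (nat_lit 228) (nat_lit 2074344921) (nat_lit 52) (nat_lit 5) (nat_lit 54) (nat_lit 5) (nat_lit 55) (nat_lit 4) (nat_lit 299) (nat_lit 248) (nat_lit 233)) (XT.nd (nat_lit 78) (nat_lit 152) (nat_lit 0) (XT.lf (nat_lit 0) (nat_lit 3516078522) (nat_lit 228) (nat_lit 81405181) (nat_lit 304) (nat_lit 9121781928) (nat_lit 48) (nat_lit 5) (nat_lit 51) (nat_lit 5) (nat_lit 52) (nat_lit 5) (nat_lit 300) (nat_lit 248) (nat_lit 232)) (XT.lf (nat_lit 0) (nat_lit 2113062464) (nat_lit 152) (nat_lit 7385046477) (nat_lit 228) (nat_lit 3636273259) (nat_lit 46) (nat_lit 5) (nat_lit 48) (nat_lit 5) (nat_lit 49) (nat_lit 4) (nat_lit 301) (nat_lit 248) (nat_lit 231))))) (XT.nd (nat_lit 234) (nat_lit 608) (nat_lit 0) (XT.nd (nat_lit 78) (nat_lit 152) (nat_lit 0) (XT.lf (nat_lit 0) (nat_lit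 332199171) (nat_lit 228) (nat_lit 1683502217) (nat_lit 304) (nat_lit 11556038320) (nat_lit 42) (nat_lit 5) (nat_lit 45) (nat_lit 5) (nat_lit 46) (nat_lit 5) (nat_lit 302) (nat_lit 248) (nat_lit 230)) (XT.nd (nat_lit 78) (nat_lit 152) (nat_lit 0) (XT.lf (nat_lit 0) (nat_lit 7870019166) (nat_lit 304) (nat_lit 1891311244) (nat_lit 76) (nat_lit 4268807413) (nat_lit 42) (nat_lit 5) (nat_lit 46) (nat_lit 5) (nat_lit 43) (nat_lit 4) (nat_lit 303) (nat_lit 248) (nat_lit 229)) (XT.lf (nat_lit 0) (nat_lit 9945925325) (nat_lit 152) (nat_lit 4029732236) (nat_lit 228) (nat_lit 537136577) (nat_lit 40) (nat_lit 5) (nat_lit 42) (nat_lit 5) (nat_lit 43) (nat_lit 4) (nat_lit 304) (nat_lit 248) (nat_lit 228)))) (XT.nd (nat_lit 156) (nat_lit 228) (nat_lit 0) (XT.nd (nat_lit 78) (nat_lit 152) (nat_lit 0) (XT.lf (nat_lit 0) (nat_lit 5220390517) (nat_lit 228) (nat_lit 7805845227) (nat_lit 76) (nat_lit 1993145207)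 (nat_lit 37) (nat_lit 5) (nat_lit 40) (nat_lit 5) (nat_lit 38) (nat_lit 4) (nat_lit 305) (nat_lit 248) (nat_lit 227)) (XT.lf (nat_lit 0) (nat_lit 3910691883) (nat_lit 152) (nat_lit 7323108433) (nat_lit 228) (nat_lit 4318048712) (nat_lit 35) (nat_lit 5) (nat_lit 37) (nat_lit 5) (nat_lit 38) (nat_lit 4) (nat_lit 306) (nat_lit 248) (nat_lit 226))) (XT.nd (nat_lit 78) (nat_lit 0) (nat_lit 0) (XT.lf (nat_lit 0) (nat_lit 9822031) (nat_lit 152) (nat_lit 1336781823) (nat_lit 228) (nat_lit 14765869687) (nat_lit 32) (nat_lit 5) (nat_lit 34) (nat_lit 5) (nat_lit 35) (nat_lit 5) (nat_lit 307) (nat_lit 248) (nat_lit 225)) (XT.lf (nat_lit 0) (nat_lit 7234693894) (nat_lit 228) (nat_lit 4542995825) (nat_lit 76) (nat_lit 4921346493) (nat_lit 32) (nat_lit 5) (nat_lit 35) (nat_lit 5) (nat_lit 33) (nat_lit 4) (nat_lit 308) (nat_lit 248) (nat_lit 224)))))) (XT.nd (nat_lit 546) (nat_lit 532) (nat_lit 0) (XT.nd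 (nat_lit 234) (nat_lit 380) (nat_lit 0) (XT.nd (nat_lit 78) (nat_lit 228) (nat_lit 0) (XT.lf (nat_lit 0) (nat_lit 7499165296) (nat_lit 152) (nat_lit 5870349928) (nat_lit 228) (nat_lit 3946913211) (nat_lit 30) (nat_lit 5) (nat_lit 32) (nat_lit 5) (nat_lit 33) (nat_lit 4) (nat_lit 309) (nat_lit 248) (nat_lit 223)) (XT.nd (nat_lit 78) (nat_lit 0) (nat_lit 0) (XT.lf (nat_lit 0) (nat_lit 1750261161) (nat_lit 228) (nat_lit 15896368195) (nat_lit 76) (nat_lit 319397206) (nat_lit 27) (nat_lit 5) (nat_lit 30) (nat_lit 5) (nat_lit 28) (nat_lit 4) (nat_lit 310) (nat_lit 248) (nat_lit 222)) (XT.lf (nat_lit 0) (nat_lit 7685584829) (nat_lit 228) (nat_lit 4210055688) (nat_lit 76) (nat_lit 6750306883) (nat_lit 27) (nat_lit 5) (nat_lit 30) (nat_lit 5) (nat_lit 28) (nat_lit 4) (nat_lit 311) (nat_lit 248) (nat_lit 221)))) (XT.nd (nat_lit 156) (nat_lit 76) (nat_lit 0) (XT.nd (nat_lit 78) (nat_lit 228) (nat_lit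 0) (XT.lf (nat_lit 0) (nat_lit 8006355603) (nat_lit 76) (nat_lit 5867184373) (nat_lit 152) (nat_lit 5487708078) (nat_lit 26) (nat_lit 5) (nat_lit 27) (nat_lit 5) (nat_lit 28) (nat_lit 4) (nat_lit 312) (nat_lit 248) (nat_lit 220)) (XT.lf (nat_lit 0) (nat_lit 188794210) (nat_lit 228) (nat_lit 19505711908) (nat_lit 76) (nat_lit 419730459) (nat_lit 23) (nat_lit 5) (nat_lit 26) (nat_lit 5) (nat_lit 24) (nat_lit 4) (nat_lit 313) (nat_lit 248) (nat_lit 219))) (XT.nd (nat_lit 78) (nat_lit 76) (nat_lit 0) (XT.lf (nat_lit 0) (nat_lit 6098319537) (nat_lit 228) (nat_lit 7813307559) (nat_lit 76) (nat_lit 6989789253) (nat_lit 23) (nat_lit 5) (nat_lit 26) (nat_lit 5) (nat_lit 24) (nat_lit 4) (nat_lit 314) (nat_lit 248) (nat_lit 218)) (XT.lf (nat_lit 0) (nat_lit 4354817853) (nat_lit 76) (nat_lit 7880242829) (nat_lit 152) (nat_lit 9494992340) (nat_lit 22) (nat_lit 5) (nat_lit 23) (nat_lit 5) (nat_lit 24)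 (nat_lit 4) (nat_lit 315) (nat_lit 248) (nat_lit 217))))) (XT.nd (nat_lit 234) (nat_lit 304) (nat_lit 0) (XT.nd (nat_lit 78) (nat_lit 228) (nat_lit 0) (XT.lf (nat_lit 0) (nat_lit 17106304805) (nat_lit 76) (nat_lit 1546077205) (nat_lit 152) (nat_lit 3948574935) (nat_lit 22) (nat_lit 5) (nat_lit 23) (nat_lit 5) (nat_lit 24) (nat_lit 4) (nat_lit 316) (nat_lit 248) (nat_lit 216)) (XT.nd (nat_lit 78) (nat_lit 0) (nat_lit 0) (XT.lf (nat_lit 0) (nat_lit 1851539200) (nat_lit 228) (nat_lit 16649704183) (nat_lit 76) (nat_lit 5013277027) (nat_lit 19) (nat_lit 5) (nat_lit 22) (nat_lit 5) (nat_lit 20) (nat_lit 4) (nat_lit 317) (nat_lit 248) (nat_lit 215)) (XT.lf (nat_lit 0) (nat_lit 7833281326) (nat_lit 228) (nat_lit 4749530446) (nat_lit 76) (nat_lit 11890620901) (nat_lit 19) (nat_lit 5) (nat_lit 22) (nat_lit 5) (nat_lit 20) (nat_lit 4) (nat_lit 318) (nat_lit 248) (nat_lit 214)))) (XT.nd (nat_lit 156)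 (nat_lit 228) (nat_lit 0) (XT.nd (nat_lit 78) (nat_lit 0) (nat_lit 0) (XT.lf (nat_lit 0) (nat_lit 7726396587) (nat_lit 76) (nat_lit 6366554533) (nat_lit 152) (nat_lit 11388014228) (nat_lit 18) (nat_lit 5) (nat_lit 19) (nat_lit 5) (nat_lit 20) (nat_lit 4) (nat_lit 319) (nat_lit 248) (nat_lit 213)) (XT.lf (nat_lit 0) (nat_lit 20623351532) (nat_lit 152) (nat_lit 5781328921) (nat_lit 0) (nat_lit 135499896) (nat_lit 18) (nat_lit 5) (nat_lit 20) (nat_lit 4) (nat_lit 18) (nat_lit 4) (nat_lit 320) (nat_lit 248) (nat_lit 212))) (XT.nd (nat_lit 78) (nat_lit 76) (nat_lit 0) (XT.lf (nat_lit 0) (nat_lit 6697710020) (nat_lit 152) (nat_lit 20822468226) (nat_lit 152) (nat_lit 131016962) (nat_lit 16) (nat_lit 4) (nat_lit 18) (nat_lit 5) (nat_lit 18) (nat_lit 4) (nat_lit 321) (nat_lit 248) (nat_lit 211)) (XT.lf (nat_lit 0) (nat_lit 5801315259) (nat_lit 228) (nat_lit 9108685694) (nat_lit 76) (nat_lit 13906882660)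 (nat_lit 15) (nat_lit 5) (nat_lit 18) (nat_lit 5) (nat_lit 16) (nat_lit 4) (nat_lit 322) (nat_lit 248) (nat_lit 210))))))))
noncomputable def xc30 : XT := (XT.nd (nat_lit 2028) (nat_lit 152) (nat_lit 0) (XT.nd (nat_lit 1014) (nat_lit 228) (nat_lit 0) (XT.nd (nat_lit 468) (nat_lit 304) (nat_lit 0) (XT.nd (nat_lit 234) (nat_lit 152) (nat_lit 0) (XT.nd (nat_lit 78) (nat_lit 0) (nat_lit 0) (XT.lf (nat_lit 0) (nat_lit 3241235233) (nat_lit 76) (nat_lit 8734755786) (nat_lit 152) (nat_lit 18066405368) (nat_lit 14) (nat_lit 5) (nat_lit 15) (nat_lit 5) (nat_lit 16) (nat_lit 4) (nat_lit 323) (nat_lit 248) (nat_lit 209)) (XT.nd (nat_lit 78) (nat_lit 0) (nat_lit 0) (XT.lf (nat_lit 0) (nat_lit 16254224945) (nat_lit 76) (nat_lit 2218744756) (nat_lit 152) (nat_lit 12855838463) (nat_lit 14) (nat_lit 5) (nat_lit 15) (nat_lit 5) (nat_lit 16) (nat_lit 4) (nat_lit 324) (nat_lit 248) (nat_lit 208)) (XT.lf (nat_lit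 0) (nat_lit 25262268032) (nat_lit 152) (nat_lit 2945723379) (nat_lit 0) (nat_lit 4472553986) (nat_lit 14) (nat_lit 5) (nat_lit 16) (nat_lit 4) (nat_lit 14) (nat_lit 4) (nat_lit 325) (nat_lit 248) (nat_lit 207)))) (XT.nd (nat_lit 78) (nat_lit 76) (nat_lit 0) (XT.lf (nat_lit 0) (nat_lit 9825965827) (nat_lit 76) (nat_lit 22608609134) (nat_lit 76) (nat_lit 1664015830) (nat_lit 13) (nat_lit 4) (nat_lit 14) (nat_lit 5) (nat_lit 14) (nat_lit 4) (nat_lit 326) (nat_lit 248) (nat_lit 206)) (XT.nd (nat_lit 78) (nat_lit 0) (nat_lit 0) (XT.lf (nat_lit 0) (nat_lit 4251368970) (nat_lit 152) (nat_lit 12461818348) (nat_lit 76) (nat_lit 18874348958) (nat_lit 12) (nat_lit 5) (nat_lit 14) (nat_lit 5) (nat_lit 13) (nat_lit 4) (nat_lit 327) (nat_lit 248) (nat_lit 205)) (XT.lf (nat_lit 0) (nat_lit 10360062881) (nat_lit 152) (nat_lit 201649763) (nat_lit 76) (nat_lit 26590787815) (nat_lit 12) (nat_lit 5) (nat_lit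 14) (nat_lit 5) (nat_lit 13) (nat_lit 4) (nat_lit 328) (nat_lit 248) (nat_lit 204))))) (XT.nd (nat_lit 234) (nat_lit 228) (nat_lit 0) (XT.nd (nat_lit 78) (nat_lit 0) (nat_lit 0) (XT.lf (nat_lit 0) (nat_lit 12802897857) (nat_lit 76) (nat_lit 4029252780) (nat_lit 152) (nat_lit 21961846593) (nat_lit 11) (nat_lit 5) (nat_lit 12) (nat_lit 5) (nat_lit 13) (nat_lit 4) (nat_lit 329) (nat_lit 248) (nat_lit 203)) (XT.nd (nat_lit 78) (nat_lit 0) (nat_lit 0) (XT.lf (nat_lit 0) (nat_lit 23593526116) (nat_lit 152) (nat_lit 14199323004) (nat_lit 0) (nat_lit 2725771274) (nat_lit 11) (nat_lit 5) (nat_lit 13) (nat_lit 4) (nat_lit 11) (nat_lit 4) (nat_lit 330) (nat_lit 248) (nat_lit 202)) (XT.lf (nat_lit 0) (nat_lit 30673052799) (nat_lit 152) (nat_lit 1969559918) (nat_lit 0) (nat_lit 9687480527) (nat_lit 11) (nat_lit 5) (nat_lit 13) (nat_lit 4) (nat_lit 11) (nat_lit 4) (nat_lit 331) (nat_lit 248) (nat_lit 201))))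 (XT.nd (nat_lit 156) (nat_lit 152) (nat_lit 0) (XT.nd (nat_lit 78) (nat_lit 0) (nat_lit 0) (XT.lf (nat_lit 0) (nat_lit 10980305314) (nat_lit 76) (nat_lit 27174099156) (nat_lit 76) (nat_lit 6076319809) (nat_lit 10) (nat_lit 4) (nat_lit 11) (nat_lit 5) (nat_lit 11) (nat_lit 4) (nat_lit 332) (nat_lit 248) (nat_lit 200)) (XT.lf (nat_lit 0) (nat_lit 24516198978) (nat_lit 76) (nat_lit 21457960053) (nat_lit 76) (nat_lit 253316826) (nat_lit 10) (nat_lit 4) (nat_lit 11) (nat_lit 5) (nat_lit 11) (nat_lit 4) (nat_lit 333) (nat_lit 248) (nat_lit 199))) (XT.nd (nat_lit 78) (nat_lit 76) (nat_lit 0) (XT.lf (nat_lit 0) (nat_lit 5692649223) (nat_lit 152) (nat_lit 9750340428) (nat_lit 76) (nat_lit 32881017470) (nat_lit 9) (nat_lit 5) (nat_lit 11) (nat_lit 5) (nat_lit 10) (nat_lit 4) (nat_lit 334) (nat_lit 248) (nat_lit 198)) (XT.lf (nat_lit 0) (nat_lit 2765940669) (nat_lit 76) (nat_lit 9140112390) (nat_lit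 152) (nat_lit 38619992067) (nat_lit 8) (nat_lit 5) (nat_lit 9) (nat_lit 5) (nat_lit 10) (nat_lit 4) (nat_lit 335) (nat_lit 248) (nat_lit 197)))))) (XT.nd (nat_lit 468) (nat_lit 152) (nat_lit 0) (XT.nd (nat_lit 234) (nat_lit 76) (nat_lit 0) (XT.nd (nat_lit 78) (nat_lit 0) (nat_lit 0) (XT.lf (nat_lit 0) (nat_lit 16020368303) (nat_lit 76) (nat_lit 2460433856) (nat_lit 152) (nat_lit 34355878598) (nat_lit 8) (nat_lit 5) (nat_lit 9) (nat_lit 5) (nat_lit 10) (nat_lit 4) (nat_lit 336) (nat_lit 248) (nat_lit 196)) (XT.nd (nat_lit 78) (nat_lit 0) (nat_lit 0) (XT.lf (nat_lit 0) (nat_lit 25380345547) (nat_lit 152) (nat_lit 25457219963) (nat_lit 0) (nat_lit 4425416169) (nat_lit 8) (nat_lit 5) (nat_lit 10) (nat_lit 4) (nat_lit 8) (nat_lit 4) (nat_lit 337) (nat_lit 248) (nat_lit 195)) (XT.lf (nat_lit 0) (nat_lit 32604260254) (nat_lit 152) (nat_lit 13638931074) (nat_lit 0) (nat_lit 11568038986) (nat_lit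 8) (nat_lit 5) (nat_lit 10) (nat_lit 4) (nat_lit 8) (nat_lit 4) (nat_lit 338) (nat_lit 248) (nat_lit 194)))) (XT.nd (nat_lit 78) (nat_lit 76) (nat_lit 0) (XT.lf (nat_lit 0) (nat_lit 40146094882) (nat_lit 152) (nat_lit 1309655809) (nat_lit 0) (nat_lit 19032452766) (nat_lit 8) (nat_lit 5) (nat_lit 10) (nat_lit 4) (nat_lit 8) (nat_lit 4) (nat_lit 339) (nat_lit 248) (nat_lit 193)) (XT.nd (nat_lit 78) (nat_lit 0) (nat_lit 0) (XT.lf (nat_lit 0) (nat_lit 11790027146) (nat_lit 76) (nat_lit 36347111988) (nat_lit 76) (nat_lit 15159735731) (nat_lit 7) (nat_lit 4) (nat_lit 8) (nat_lit 5) (nat_lit 8) (nat_lit 4) (nat_lit 340) (nat_lit 248) (nat_lit 192)) (XT.lf (nat_lit 0) (nat_lit 25498122255) (nat_lit 76) (nat_lit 31003131898) (nat_lit 76) (nat_lit 9745532650) (nat_lit 7) (nat_lit 4) (nat_lit 8) (nat_lit 5) (nat_lit 8) (nat_lit 4) (nat_lit 341) (nat_lit 248) (nat_lit 191))))) (XT.nd (nat_lit 234) (nat_lit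 76) (nat_lit 0) (XT.nd (nat_lit 78) (nat_lit 76) (nat_lit 0) (XT.lf (nat_lit 0) (nat_lit 39821203122) (nat_lit 76) (nat_lit 25424311616) (nat_lit 76) (nat_lit 4099833329) (nat_lit 7) (nat_lit 4) (nat_lit 8) (nat_lit 5) (nat_lit 8) (nat_lit 4) (nat_lit 342) (nat_lit 248) (nat_lit 190)) (XT.nd (nat_lit 78) (nat_lit 0) (nat_lit 0) (XT.lf (nat_lit 0) (nat_lit 1755859330) (nat_lit 152) (nat_lit 17823778169) (nat_lit 76) (nat_lit 53019782252) (nat_lit 6) (nat_lit 5) (nat_lit 8) (nat_lit 5) (nat_lit 7) (nat_lit 4) (nat_lit 343) (nat_lit 248) (nat_lit 189)) (XT.lf (nat_lit 0) (nat_lit 7785459869) (nat_lit 152) (nat_lit 5644350335) (nat_lit 76) (nat_lit 62586200120) (nat_lit 6) (nat_lit 5) (nat_lit 8) (nat_lit 5) (nat_lit 7) (nat_lit 4) (nat_lit 344) (nat_lit 248) (nat_lit 188)))) (XT.nd (nat_lit 156) (nat_lit 0) (nat_lit 0) (XT.nd (nat_lit 78) (nat_lit 0) (nat_lit 0) (XT.lf (nat_lit 0) (nat_lit 7223503878)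 (nat_lit 76) (nat_lit 6929259854) (nat_lit 152) (nat_lit 65449589994) (nat_lit 5) (nat_lit 5) (nat_lit 6) (nat_lit 5) (nat_lit 7) (nat_lit 4) (nat_lit 345) (nat_lit 248) (nat_lit 187)) (XT.lf (nat_lit 0) (nat_lit 20792962466) (nat_lit 76) (nat_lit 71367837) (nat_lit 152) (nat_lit 62502916591) (nat_lit 5) (nat_lit 5) (nat_lit 6) (nat_lit 5) (nat_lit 7) (nat_lit 4) (nat_lit 346) (nat_lit 248) (nat_lit 186))) (XT.nd (nat_lit 78) (nat_lit 0) (nat_lit 0) (XT.lf (nat_lit 0) (nat_lit 27949083011) (nat_lit 152) (nat_lit 52405594220) (nat_lit 0) (nat_lit 6964588324) (nat_lit 5) (nat_lit 5) (nat_lit 7) (nat_lit 4) (nat_lit 5) (nat_lit 4) (nat_lit 347) (nat_lit 248) (nat_lit 185)) (XT.lf (nat_lit 0) (nat_lit 35359341758) (nat_lit 152) (nat_lit 41784019498) (nat_lit 0) (nat_lit 14326394480) (nat_lit 5) (nat_lit 5) (nat_lit 7) (nat_lit 4) (nat_lit 5) (nat_lit 4) (nat_lit 348) (nat_lit 248) (nat_lit 184)))))))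 (XT.nd (nat_lit 1014) (nat_lit 0) (nat_lit 0) (XT.nd (nat_lit 468) (nat_lit 76) (nat_lit 0) (XT.nd (nat_lit 234) (nat_lit 76) (nat_lit 0) (XT.nd (nat_lit 78) (nat_lit 0) (nat_lit 0) (XT.lf (nat_lit 0) (nat_lit 43112063985) (nat_lit 152) (nat_lit 30683584768) (nat_lit 0) (nat_lit 22032971382) (nat_lit 5) (nat_lit 5) (nat_lit 7) (nat_lit 4) (nat_lit 5) (nat_lit 4) (nat_lit 349) (nat_lit 248) (nat_lit 183)) (XT.nd (nat_lit 78) (nat_lit 0) (nat_lit 0) (XT.lf (nat_lit 0) (nat_lit 51225708555) (nat_lit 152) (nat_lit 19077860422) (nat_lit 0) (nat_lit 30102668024) (nat_lit 5) (nat_lit 5) (nat_lit 7) (nat_lit 4) (nat_lit 5) (nat_lit 4) (nat_lit 350) (nat_lit 248) (nat_lit 182)) (XT.lf (nat_lit 0) (nat_lit 59719593669) (nat_lit 152) (nat_lit 6939213784) (nat_lit 0) (nat_lit 38554697968) (nat_lit 5) (nat_lit 5) (nat_lit 7) (nat_lit 4) (nat_lit 5) (nat_lit 4) (nat_lit 351) (nat_lit 248) (nat_lit 181))))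 (XT.nd (nat_lit 78) (nat_lit 0) (nat_lit 0) (XT.lf (nat_lit 0) (nat_lit 5875916990) (nat_lit 76) (nat_lit 62794508782) (nat_lit 76) (nat_lit 41589751015) (nat_lit 4) (nat_lit 4) (nat_lit 5) (nat_lit 5) (nat_lit 5) (nat_lit 4) (nat_lit 352) (nat_lit 248) (nat_lit 180)) (XT.nd (nat_lit 78) (nat_lit 0) (nat_lit 0) (XT.lf (nat_lit 0) (nat_lit 19432997988) (nat_lit 76) (nat_lit 58683737037) (nat_lit 76) (nat_lit 37441015397) (nat_lit 4) (nat_lit 4) (nat_lit 5) (nat_lit 5) (nat_lit 5) (nat_lit 4) (nat_lit 353) (nat_lit 248) (nat_lit 179)) (XT.lf (nat_lit 0) (nat_lit 33626204013) (nat_lit 76) (nat_lit 54386777120) (nat_lit 76) (nat_lit 33107899410) (nat_lit 4) (nat_lit 4) (nat_lit 5) (nat_lit 5) (nat_lit 5) (nat_lit 4) (nat_lit 354) (nat_lit 248) (nat_lit 178))))) (XT.nd (nat_lit 234) (nat_lit 76) (nat_lit 0) (XT.nd (nat_lit 78) (nat_lit 0) (nat_lit 0) (XT.lf (nat_lit 0) (nat_lit 48489328412) (nat_lit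 76) (nat_lit 49893398173) (nat_lit 76) (nat_lit 28580086111) (nat_lit 4) (nat_lit 4) (nat_lit 5) (nat_lit 5) (nat_lit 5) (nat_lit 4) (nat_lit 355) (nat_lit 248) (nat_lit 177)) (XT.nd (nat_lit 78) (nat_lit 0) (nat_lit 0) (XT.lf (nat_lit 0) (nat_lit 64057759578) (nat_lit 76) (nat_lit 45192901674) (nat_lit 76) (nat_lit 23846794992) (nat_lit 4) (nat_lit 4) (nat_lit 5) (nat_lit 5) (nat_lit 5) (nat_lit 4) (nat_lit 356) (nat_lit 248) (nat_lit 176)) (XT.lf (nat_lit 0) (nat_lit 80368565204) (nat_lit 76) (nat_lit 40274095967) (nat_lit 76) (nat_lit 18896756312) (nat_lit 4) (nat_lit 4) (nat_lit 5) (nat_lit 5) (nat_lit 5) (nat_lit 4) (nat_lit 357) (nat_lit 248) (nat_lit 175)))) (XT.nd (nat_lit 156) (nat_lit 76) (nat_lit 0) (XT.nd (nat_lit 78) (nat_lit 0) (nat_lit 0) (XT.lf (nat_lit 0) (nat_lit 97460580540) (nat_lit 76) (nat_lit 35125269608) (nat_lit 76) (nat_lit 13718184266) (nat_lit 4) (nat_lit 4) (nat_lit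 5) (nat_lit 5) (nat_lit 5) (nat_lit 4) (nat_lit 358) (nat_lit 248) (nat_lit 174)) (XT.lf (nat_lit 0) (nat_lit 115374500862) (nat_lit 76) (nat_lit 29734163488) (nat_lit 76) (nat_lit 8298748919) (nat_lit 4) (nat_lit 4) (nat_lit 5) (nat_lit 5) (nat_lit 5) (nat_lit 4) (nat_lit 359) (nat_lit 248) (nat_lit 173))) (XT.nd (nat_lit 78) (nat_lit 76) (nat_lit 0) (XT.lf (nat_lit 0) (nat_lit 134152978360) (nat_lit 76) (nat_lit 24087941638) (nat_lit 76) (nat_lit 2625546854) (nat_lit 4) (nat_lit 4) (nat_lit 5) (nat_lit 5) (nat_lit 5) (nat_lit 4) (nat_lit 360) (nat_lit 248) (nat_lit 172)) (XT.lf (nat_lit 0) (nat_lit 3250243337) (nat_lit 152) (nat_lit 14890096253) (nat_lit 76) (nat_lit 150557659274) (nat_lit 3) (nat_lit 5) (nat_lit 5) (nat_lit 5) (nat_lit 4) (nat_lit 4) (nat_lit 361) (nat_lit 248) (nat_lit 171)))))) (XT.nd (nat_lit 34866) (nat_lit 0) (nat_lit 4940) (XT.nd (nat_lit 34554) (nat_lit 0) (nat_lit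 7676) (XT.nd (nat_lit 34398) (nat_lit 0) (nat_lit 9424) (XT.lf (nat_lit 0) (nat_lit 9350726500) (nat_lit 152) (nat_lit 2530587282) (nat_lit 76) (nat_lit 165039461950) (nat_lit 3) (nat_lit 5) (nat_lit 5) (nat_lit 5) (nat_lit 4) (nat_lit 4) (nat_lit 362) (nat_lit 248) (nat_lit 170)) (XT.nd (nat_lit 78) (nat_lit 456) (nat_lit 0) (XT.lf (nat_lit 0) (nat_lit 196443222) (nat_lit 532) (nat_lit 3612556053) (nat_lit 0) (nat_lit 196443222) (nat_lit 133) (nat_lit 5) (nat_lit 140) (nat_lit 4) (nat_lit 133) (nat_lit 4) (nat_lit 282) (nat_lit 249) (nat_lit 249)) (XT.lf (nat_lit 0) (nat_lit 2113377631) (nat_lit 456) (nat_lit 4020014609) (nat_lit 456) (nat_lit 2033111721) (nat_lit 127) (nat_lit 4) (nat_lit 133) (nat_lit 5) (nat_lit 133) (nat_lit 4) (nat_lit 283) (nat_lit 249) (nat_lit 248)))) (XT.nd (nat_lit 156) (nat_lit 836) (nat_lit 0) (XT.nd (nat_lit 78) (nat_lit 456) (nat_lit 0) (XT.lf (nat_lit 0) (nat_lit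 3456466446) (nat_lit 380) (nat_lit 157158084) (nat_lit 456) (nat_lit 4719781196) (nat_lit 121) (nat_lit 5) (nat_lit 126) (nat_lit 5) (nat_lit 127) (nat_lit 4) (nat_lit 284) (nat_lit 249) (nat_lit 247)) (XT.lf (nat_lit 0) (nat_lit 876156293) (nat_lit 456) (nat_lit 3737296747) (nat_lit 76) (nat_lit 3897524485) (nat_lit 115) (nat_lit 5) (nat_lit 121) (nat_lit 5) (nat_lit 116) (nat_lit 4) (nat_lit 285) (nat_lit 249) (nat_lit 246))) (XT.nd (nat_lit 78) (nat_lit 456) (nat_lit 0) (XT.lf (nat_lit 0) (nat_lit 6072151175) (nat_lit 380) (nat_lit 457117547) (nat_lit 456) (nat_lit 2170795959) (nat_lit 110) (nat_lit 5) (nat_lit 115) (nat_lit 5) (nat_lit 116) (nat_lit 4) (nat_lit 286) (nat_lit 249) (nat_lit 245)) (XT.lf (nat_lit 0) (nat_lit 3413938828) (nat_lit 456) (nat_lit 1583571823) (nat_lit 76) (nat_lit 3902820662) (nat_lit 104) (nat_lit 5) (nat_lit 110) (nat_lit 5) (nat_lit 105) (nat_lit 4) (nat_lit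 287) (nat_lit 249) (nat_lit 244))))) (XT.nd (nat_lit 234) (nat_lit 1292) (nat_lit 0) (XT.nd (nat_lit 78) (nat_lit 1064) (nat_lit 0) (XT.lf (nat_lit 0) (nat_lit 10467722) (nat_lit 380) (nat_lit 572831530) (nat_lit 76) (nat_lit 8530183707) (nat_lit 99) (nat_lit 5) (nat_lit 104) (nat_lit 5) (nat_lit 100) (nat_lit 5) (nat_lit 288) (nat_lit 249) (nat_lit 243)) (XT.nd (nat_lit 78) (nat_lit 380) (nat_lit 0) (XT.lf (nat_lit 0) (nat_lit 329908110) (nat_lit 304) (nat_lit 5274685214) (nat_lit 380) (nat_lit 3733227387) (nat_lit 90) (nat_lit 5) (nat_lit 94) (nat_lit 5) (nat_lit 95) (nat_lit 4) (nat_lit 289) (nat_lit 249) (nat_lit 242)) (XT.lf (nat_lit 0) (nat_lit 1182927139) (nat_lit 304) (nat_lit 592748666) (nat_lit 380) (nat_lit 7800133291) (nat_lit 85) (nat_lit 5) (nat_lit 89) (nat_lit 5) (nat_lit 90) (nat_lit 5) (nat_lit 290) (nat_lit 249) (nat_lit 241)))) (XT.nd (nat_lit 156) (nat_lit 608) (nat_lit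 0) (XT.nd (nat_lit 78) (nat_lit 380) (nat_lit 0) (XT.lf (nat_lit 0) (nat_lit 1902367863) (nat_lit 304) (nat_lit 5524950894) (nat_lit 380) (nat_lit 2399140951) (nat_lit 81) (nat_lit 5) (nat_lit 85) (nat_lit 5) (nat_lit 86) (nat_lit 4) (nat_lit 291) (nat_lit 249) (nat_lit 240)) (XT.lf (nat_lit 0) (nat_lit 2512652559) (nat_lit 304) (nat_lit 608041008) (nat_lit 380) (nat_lit 6970817772) (nat_lit 76) (nat_lit 5) (nat_lit 80) (nat_lit 5) (nat_lit 81) (nat_lit 5) (nat_lit 292) (nat_lit 249) (nat_lit 239))) (XT.nd (nat_lit 78) (nat_lit 380) (nat_lit 0) (XT.lf (nat_lit 0) (nat_lit 2963003023) (nat_lit 228) (nat_lit 5860326015) (nat_lit 304) (nat_lit 1547263186) (nat_lit 73) (nat_lit 5) (nat_lit 76) (nat_lit 5) (nat_lit 77) (nat_lit 4) (nat_lit 293) (nat_lit 249) (nat_lit 238)) (XT.lf (nat_lit 0) (nat_lit 3254754378) (nat_lit 304) (nat_lit 733949704) (nat_lit 380) (nat_lit 6676230400) (nat_lit 68)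 (nat_lit 5) (nat_lit 72) (nat_lit 5) (nat_lit 73) (nat_lit 5) (nat_lit 294) (nat_lit 249) (nat_lit 237))))))))
noncomputable def xc31 : XT := (XT.nd (nat_lit 2028) (nat_lit 988) (nat_lit 0) (XT.nd (nat_lit 1014) (nat_lit 1292) (nat_lit 0) (XT.nd (nat_lit 468) (nat_lit 988) (nat_lit 0) (XT.nd (nat_lit 234) (nat_lit 760) (nat_lit 0) (XT.nd (nat_lit 78) (nat_lit 532) (nat_lit 0) (XT.lf (nat_lit 0) (nat_lit 3350062771) (nat_lit 228) (nat_lit 6385165007) (nat_lit 304) (nat_lit 1239494118) (nat_lit 65) (nat_lit 5) (nat_lit 68) (nat_lit 5) (nat_lit 69) (nat_lit 4) (nat_lit 295) (nat_lit 249) (nat_lit 236)) (XT.nd (nat_lit 78) (nat_lit 228) (nat_lit 0) (XT.lf (nat_lit 0) (nat_lit 3234323261) (nat_lit 228) (nat_lit 1078979108) (nat_lit 304) (nat_lit 6987612867) (nat_lit 61) (nat_lit 5) (nat_lit 64) (nat_lit 5) (nat_lit 65) (nat_lit 5) (nat_lit 296) (nat_lit 249) (nat_lit 235)) (XT.lf (nat_lit 0) (nat_lit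 2874587243) (nat_lit 228) (nat_lit 7214925486) (nat_lit 304) (nat_lit 1554536303) (nat_lit 58) (nat_lit 5) (nat_lit 61) (nat_lit 5) (nat_lit 62) (nat_lit 4) (nat_lit 297) (nat_lit 249) (nat_lit 234)))) (XT.nd (nat_lit 78) (nat_lit 456) (nat_lit 0) (XT.lf (nat_lit 0) (nat_lit 2246623116) (nat_lit 228) (nat_lit 1764084326) (nat_lit 304) (nat_lit 7994320865) (nat_lit 54) (nat_lit 5) (nat_lit 57) (nat_lit 5) (nat_lit 58) (nat_lit 5) (nat_lit 298) (nat_lit 249) (nat_lit 233)) (XT.nd (nat_lit 78) (nat_lit 304) (nat_lit 0) (XT.lf (nat_lit 0) (nat_lit 1314914253) (nat_lit 152) (nat_lit 8479279335) (nat_lit 228) (nat_lit 2590361661) (nat_lit 52) (nat_lit 5) (nat_lit 54) (nat_lit 5) (nat_lit 55) (nat_lit 4) (nat_lit 299) (nat_lit 249) (nat_lit 232)) (XT.lf (nat_lit 0) (nat_lit 51171009) (nat_lit 228) (nat_lit 2925976552) (nat_lit 304) (nat_lit 9806530821) (nat_lit 48) (nat_lit 5) (nat_lit 51) (nat_lit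 5) (nat_lit 52) (nat_lit 5) (nat_lit 300) (nat_lit 249) (nat_lit 231))))) (XT.nd (nat_lit 234) (nat_lit 532) (nat_lit 0) (XT.nd (nat_lit 78) (nat_lit 456) (nat_lit 0) (XT.lf (nat_lit 0) (nat_lit 8751216433) (nat_lit 304) (nat_lit 1558677979) (nat_lit 76) (nat_lit 2892750650) (nat_lit 48) (nat_lit 5) (nat_lit 52) (nat_lit 5) (nat_lit 49) (nat_lit 4) (nat_lit 301) (nat_lit 249) (nat_lit 230)) (XT.nd (nat_lit 78) (nat_lit 228) (nat_lit 0) (XT.lf (nat_lit 0) (nat_lit 1120677633) (nat_lit 228) (nat_lit 3564209644) (nat_lit 76) (nat_lit 8958273008) (nat_lit 45) (nat_lit 5) (nat_lit 48) (nat_lit 5) (nat_lit 46) (nat_lit 5) (nat_lit 302) (nat_lit 249) (nat_lit 229)) (XT.lf (nat_lit 0) (nat_lit 6835736235) (nat_lit 304) (nat_lit 6026557315) (nat_lit 76) (nat_lit 1243489668) (nat_lit 42) (nat_lit 5) (nat_lit 46) (nat_lit 5) (nat_lit 43) (nat_lit 4) (nat_lit 303) (nat_lit 249) (nat_lit 228)))) (XT.nd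 (nat_lit 156) (nat_lit 152) (nat_lit 0) (XT.nd (nat_lit 78) (nat_lit 228) (nat_lit 0) (XT.lf (nat_lit 0) (nat_lit 5607321522) (nat_lit 152) (nat_lit 7220806058) (nat_lit 228) (nat_lit 1763754167) (nat_lit 40) (nat_lit 5) (nat_lit 42) (nat_lit 5) (nat_lit 43) (nat_lit 4) (nat_lit 304) (nat_lit 249) (nat_lit 227)) (XT.lf (nat_lit 0) (nat_lit 2621025478) (nat_lit 152) (nat_lit 1262832375) (nat_lit 228) (nat_lit 11219021386) (nat_lit 37) (nat_lit 5) (nat_lit 39) (nat_lit 5) (nat_lit 40) (nat_lit 5) (nat_lit 305) (nat_lit 249) (nat_lit 226))) (XT.nd (nat_lit 78) (nat_lit 152) (nat_lit 0) (XT.lf (nat_lit 0) (nat_lit 9779369103) (nat_lit 228) (nat_lit 944503242) (nat_lit 76) (nat_lit 4915051382) (nat_lit 37) (nat_lit 5) (nat_lit 40) (nat_lit 5) (nat_lit 38) (nat_lit 4) (nat_lit 306) (nat_lit 249) (nat_lit 225)) (XT.lf (nat_lit 0) (nat_lit 11149994085) (nat_lit 152) (nat_lit 4806499594) (nat_lit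 228) (nat_lit 245748652) (nat_lit 35) (nat_lit 5) (nat_lit 37) (nat_lit 5) (nat_lit 38) (nat_lit 4) (nat_lit 307) (nat_lit 249) (nat_lit 224)))))) (XT.nd (nat_lit 468) (nat_lit 608) (nat_lit 0) (XT.nd (nat_lit 234) (nat_lit 304) (nat_lit 0) (XT.nd (nat_lit 78) (nat_lit 152) (nat_lit 0) (XT.lf (nat_lit 0) (nat_lit 5498760426) (nat_lit 228) (nat_lit 9872040653) (nat_lit 76) (nat_lit 1422560826) (nat_lit 32) (nat_lit 5) (nat_lit 35) (nat_lit 5) (nat_lit 33) (nat_lit 4) (nat_lit 308) (nat_lit 249) (nat_lit 223)) (XT.nd (nat_lit 78) (nat_lit 0) (nat_lit 0) (XT.lf (nat_lit 0) (nat_lit 1955878688) (nat_lit 152) (nat_lit 9562511805) (nat_lit 228) (nat_lit 5895852462) (nat_lit 30) (nat_lit 5) (nat_lit 32) (nat_lit 5) (nat_lit 33) (nat_lit 4) (nat_lit 309) (nat_lit 249) (nat_lit 222)) (XT.lf (nat_lit 0) (nat_lit 14370275519) (nat_lit 152) (nat_lit 3447456455) (nat_lit 228) (nat_lit 249138786) (nat_lit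 30) (nat_lit 5) (nat_lit 32) (nat_lit 5) (nat_lit 33) (nat_lit 4) (nat_lit 310) (nat_lit 249) (nat_lit 221)))) (XT.nd (nat_lit 78) (nat_lit 76) (nat_lit 0) (XT.lf (nat_lit 0) (nat_lit 5562235905) (nat_lit 228) (nat_lit 10218575844) (nat_lit 76) (nat_lit 2969945150) (nat_lit 27) (nat_lit 5) (nat_lit 30) (nat_lit 5) (nat_lit 28) (nat_lit 4) (nat_lit 311) (nat_lit 249) (nat_lit 220)) (XT.nd (nat_lit 78) (nat_lit 0) (nat_lit 0) (XT.lf (nat_lit 0) (nat_lit 1778538418) (nat_lit 76) (nat_lit 9855528419) (nat_lit 152) (nat_lit 7835502193) (nat_lit 26) (nat_lit 5) (nat_lit 27) (nat_lit 5) (nat_lit 28) (nat_lit 4) (nat_lit 312) (nat_lit 249) (nat_lit 219)) (XT.lf (nat_lit 0) (nat_lit 14394363547) (nat_lit 76) (nat_lit 3608607309) (nat_lit 152) (nat_lit 2221600644) (nat_lit 26) (nat_lit 5) (nat_lit 27) (nat_lit 5) (nat_lit 28) (nat_lit 4) (nat_lit 313) (nat_lit 249) (nat_lit 218))))) (XT.nd (nat_lit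 234) (nat_lit 304) (nat_lit 0) (XT.nd (nat_lit 78) (nat_lit 76) (nat_lit 0) (XT.lf (nat_lit 0) (nat_lit 3585145276) (nat_lit 228) (nat_lit 14518087297) (nat_lit 76) (nat_lit 2913567723) (nat_lit 23) (nat_lit 5) (nat_lit 26) (nat_lit 5) (nat_lit 24) (nat_lit 4) (nat_lit 314) (nat_lit 249) (nat_lit 217)) (XT.nd (nat_lit 78) (nat_lit 76) (nat_lit 0) (XT.lf (nat_lit 0) (nat_lit 9628865377) (nat_lit 228) (nat_lit 2525010837) (nat_lit 76) (nat_lit 9694374660) (nat_lit 23) (nat_lit 5) (nat_lit 26) (nat_lit 5) (nat_lit 24) (nat_lit 4) (nat_lit 315) (nat_lit 249) (nat_lit 216)) (XT.lf (nat_lit 0) (nat_lit 10088734538) (nat_lit 76) (nat_lit 5883132475) (nat_lit 152) (nat_lit 6749539539) (nat_lit 22) (nat_lit 5) (nat_lit 23) (nat_lit 5) (nat_lit 24) (nat_lit 4) (nat_lit 316) (nat_lit 249) (nat_lit 215)))) (XT.nd (nat_lit 156) (nat_lit 76) (nat_lit 0) (XT.nd (nat_lit 78) (nat_lit 228) (nat_lit 0) (XT.lf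 (nat_lit 0) (nat_lit 22567527826) (nat_lit 152) (nat_lit 431551261) (nat_lit 0) (nat_lit 641118929) (nat_lit 22) (nat_lit 5) (nat_lit 24) (nat_lit 4) (nat_lit 22) (nat_lit 4) (nat_lit 317) (nat_lit 249) (nat_lit 214)) (XT.lf (nat_lit 0) (nat_lit 4879179448) (nat_lit 228) (nat_lit 12252877264) (nat_lit 76) (nat_lit 7468907147) (nat_lit 19) (nat_lit 5) (nat_lit 22) (nat_lit 5) (nat_lit 20) (nat_lit 4) (nat_lit 318) (nat_lit 249) (nat_lit 213))) (XT.nd (nat_lit 78) (nat_lit 76) (nat_lit 0) (XT.lf (nat_lit 0) (nat_lit 11020243762) (nat_lit 228) (nat_lit 6709704) (nat_lit 76) (nat_lit 14585119821) (nat_lit 19) (nat_lit 5) (nat_lit 22) (nat_lit 5) (nat_lit 20) (nat_lit 4) (nat_lit 319) (nat_lit 249) (nat_lit 212)) (XT.lf (nat_lit 0) (nat_lit 12950254460) (nat_lit 76) (nat_lit 4556034514) (nat_lit 152) (nat_lit 9166347675) (nat_lit 18) (nat_lit 5) (nat_lit 19) (nat_lit 5) (nat_lit 20) (nat_lit 4)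 (nat_lit 320) (nat_lit 249) (nat_lit 211))))))) (XT.nd (nat_lit 1014) (nat_lit 380) (nat_lit 0) (XT.nd (nat_lit 468) (nat_lit 228) (nat_lit 0) (XT.nd (nat_lit 234) (nat_lit 152) (nat_lit 0) (XT.nd (nat_lit 78) (nat_lit 228) (nat_lit 0) (XT.lf (nat_lit 0) (nat_lit 24253713476) (nat_lit 152) (nat_lit 1404251346) (nat_lit 0) (nat_lit 2130185613) (nat_lit 18) (nat_lit 5) (nat_lit 20) (nat_lit 4) (nat_lit 18) (nat_lit 4) (nat_lit 321) (nat_lit 249) (nat_lit 210)) (XT.nd (nat_lit 78) (nat_lit 0) (nat_lit 0) (XT.lf (nat_lit 0) (nat_lit 2410041173) (nat_lit 228) (nat_lit 17415815145) (nat_lit 76) (nat_lit 9130607597) (nat_lit 15) (nat_lit 5) (nat_lit 18) (nat_lit 5) (nat_lit 16) (nat_lit 4) (nat_lit 322) (nat_lit 249) (nat_lit 209)) (XT.lf (nat_lit 0) (nat_lit 8515118679) (nat_lit 228) (nat_lit 5198384820) (nat_lit 76) (nat_lit 16470575985) (nat_lit 15) (nat_lit 5) (nat_lit 18) (nat_lit 5) (nat_lit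 16) (nat_lit 4) (nat_lit 323) (nat_lit 249) (nat_lit 208)))) (XT.nd (nat_lit 78) (nat_lit 76) (nat_lit 0) (XT.lf (nat_lit 0) (nat_lit 7643889231) (nat_lit 76) (nat_lit 7279986083) (nat_lit 152) (nat_lit 16549276750) (nat_lit 14) (nat_lit 5) (nat_lit 15) (nat_lit 5) (nat_lit 16) (nat_lit 4) (nat_lit 324) (nat_lit 249) (nat_lit 207)) (XT.nd (nat_lit 78) (nat_lit 76) (nat_lit 0) (XT.lf (nat_lit 0) (nat_lit 21105595465) (nat_lit 76) (nat_lit 528246288) (nat_lit 152) (nat_lit 11193440970) (nat_lit 14) (nat_lit 5) (nat_lit 15) (nat_lit 5) (nat_lit 16) (nat_lit 4) (nat_lit 325) (nat_lit 249) (nat_lit 206)) (XT.lf (nat_lit 0) (nat_lit 817522906) (nat_lit 76) (nat_lit 27862898076) (nat_lit 76) (nat_lit 5568691792) (nat_lit 13) (nat_lit 4) (nat_lit 14) (nat_lit 5) (nat_lit 14) (nat_lit 4) (nat_lit 326) (nat_lit 249) (nat_lit 205))))) (XT.nd (nat_lit 234) (nat_lit 76) (nat_lit 0) (XT.nd (nat_lit 78)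 (nat_lit 76) (nat_lit 0) (XT.lf (nat_lit 0) (nat_lit 389538207) (nat_lit 152) (nat_lit 21643923775) (nat_lit 76) (nat_lit 13706734634) (nat_lit 12) (nat_lit 5) (nat_lit 14) (nat_lit 5) (nat_lit 13) (nat_lit 4) (nat_lit 327) (nat_lit 249) (nat_lit 204)) (XT.nd (nat_lit 78) (nat_lit 76) (nat_lit 0) (XT.lf (nat_lit 0) (nat_lit 6466471076) (nat_lit 152) (nat_lit 9441540577) (nat_lit 76) (nat_lit 21398113272) (nat_lit 12) (nat_lit 5) (nat_lit 14) (nat_lit 5) (nat_lit 13) (nat_lit 4) (nat_lit 328) (nat_lit 249) (nat_lit 203)) (XT.lf (nat_lit 0) (nat_lit 3322986118) (nat_lit 76) (nat_lit 9494197394) (nat_lit 152) (nat_lit 26134090202) (nat_lit 11) (nat_lit 5) (nat_lit 12) (nat_lit 5) (nat_lit 13) (nat_lit 4) (nat_lit 329) (nat_lit 249) (nat_lit 202)))) (XT.nd (nat_lit 156) (nat_lit 76) (nat_lit 0) (XT.nd (nat_lit 78) (nat_lit 0) (nat_lit 0) (XT.lf (nat_lit 0) (nat_lit 16813454423) (nat_lit 76) (nat_lit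 2709059264) (nat_lit 152) (nat_lit 21155074793) (nat_lit 11) (nat_lit 5) (nat_lit 12) (nat_lit 5) (nat_lit 13) (nat_lit 4) (nat_lit 330) (nat_lit 249) (nat_lit 201)) (XT.lf (nat_lit 0) (nat_lit 26547852524) (nat_lit 152) (nat_lit 11659867063) (nat_lit 0) (nat_lit 4282977136) (nat_lit 11) (nat_lit 5) (nat_lit 13) (nat_lit 4) (nat_lit 11) (nat_lit 4) (nat_lit 331) (nat_lit 249) (nat_lit 200))) (XT.nd (nat_lit 78) (nat_lit 0) (nat_lit 0) (XT.lf (nat_lit 0) (nat_lit 1047082134) (nat_lit 76) (nat_lit 32859831452) (nat_lit 76) (nat_lit 10488092182) (nat_lit 10) (nat_lit 4) (nat_lit 11) (nat_lit 5) (nat_lit 11) (nat_lit 4) (nat_lit 332) (nat_lit 249) (nat_lit 199)) (XT.lf (nat_lit 0) (nat_lit 14535299683) (nat_lit 76) (nat_lit 27165380276) (nat_lit 76) (nat_lit 4691865882) (nat_lit 10) (nat_lit 4) (nat_lit 11) (nat_lit 5) (nat_lit 11) (nat_lit 4) (nat_lit 333) (nat_lit 249) (nat_lit 198)))))) (XT.nd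 (nat_lit 546) (nat_lit 152) (nat_lit 0) (XT.nd (nat_lit 234) (nat_lit 76) (nat_lit 0) (XT.nd (nat_lit 78) (nat_lit 76) (nat_lit 0) (XT.lf (nat_lit 0) (nat_lit 1315708270) (nat_lit 152) (nat_lit 19899555295) (nat_lit 76) (nat_lit 27275851825) (nat_lit 9) (nat_lit 5) (nat_lit 11) (nat_lit 5) (nat_lit 10) (nat_lit 4) (nat_lit 334) (nat_lit 249) (nat_lit 197)) (XT.nd (nat_lit 78) (nat_lit 76) (nat_lit 0) (XT.lf (nat_lit 0) (nat_lit 7478710882) (nat_lit 152) (nat_lit 7480973030) (nat_lit 76) (nat_lit 35734989313) (nat_lit 9) (nat_lit 5) (nat_lit 11) (nat_lit 5) (nat_lit 10) (nat_lit 4) (nat_lit 335) (nat_lit 249) (nat_lit 196)) (XT.lf (nat_lit 0) (nat_lit 5582096583) (nat_lit 76) (nat_lit 8374932916) (nat_lit 152) (nat_lit 39051179694) (nat_lit 8) (nat_lit 5) (nat_lit 9) (nat_lit 5) (nat_lit 10) (nat_lit 4) (nat_lit 336) (nat_lit 249) (nat_lit 195)))) (XT.nd (nat_lit 156) (nat_lit 76) (nat_lit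 0) (XT.nd (nat_lit 78) (nat_lit 0) (nat_lit 0) (XT.lf (nat_lit 0) (nat_lit 19371728509) (nat_lit 76) (nat_lit 1419469745) (nat_lit 152) (nat_lit 34645280169) (nat_lit 8) (nat_lit 5) (nat_lit 9) (nat_lit 5) (nat_lit 10) (nat_lit 4) (nat_lit 337) (nat_lit 249) (nat_lit 194)) (XT.lf (nat_lit 0) (nat_lit 27980357997) (nat_lit 152) (nat_lit 24271805515) (nat_lit 0) (nat_lit 5733612927) (nat_lit 8) (nat_lit 5) (nat_lit 10) (nat_lit 4) (nat_lit 8) (nat_lit 4) (nat_lit 338) (nat_lit 249) (nat_lit 193))) (XT.nd (nat_lit 78) (nat_lit 76) (nat_lit 0) (XT.lf (nat_lit 0) (nat_lit 35502087717) (nat_lit 152) (nat_lit 11979662918) (nat_lit 0) (nat_lit 13181608507) (nat_lit 8) (nat_lit 5) (nat_lit 10) (nat_lit 4) (nat_lit 8) (nat_lit 4) (nat_lit 339) (nat_lit 249) (nat_lit 192)) (XT.lf (nat_lit 0) (nat_lit 871597706) (nat_lit 76) (nat_lit 42497432107) (nat_lit 76) (nat_lit 20106729906) (nat_lit 7) (nat_lit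 4) (nat_lit 8) (nat_lit 5) (nat_lit 8) (nat_lit 4) (nat_lit 340) (nat_lit 249) (nat_lit 191))))) (XT.nd (nat_lit 234) (nat_lit 152) (nat_lit 0) (XT.nd (nat_lit 78) (nat_lit 0) (nat_lit 0) (XT.lf (nat_lit 0) (nat_lit 14545342085) (nat_lit 76) (nat_lit 37169236804) (nat_lit 76) (nat_lit 14711655563) (nat_lit 7) (nat_lit 4) (nat_lit 8) (nat_lit 5) (nat_lit 8) (nat_lit 4) (nat_lit 341) (nat_lit 249) (nat_lit 190)) (XT.nd (nat_lit 78) (nat_lit 0) (nat_lit 0) (XT.lf (nat_lit 0) (nat_lit 28835707970) (nat_lit 76) (nat_lit 31605449652) (nat_lit 76) (nat_lit 9084174088) (nat_lit 7) (nat_lit 4) (nat_lit 8) (nat_lit 5) (nat_lit 8) (nat_lit 4) (nat_lit 342) (nat_lit 249) (nat_lit 189)) (XT.lf (nat_lit 0) (nat_lit 43776720041) (nat_lit 76) (nat_lit 25792823538) (nat_lit 76) (nat_lit 3210886714) (nat_lit 7) (nat_lit 4) (nat_lit 8) (nat_lit 5) (nat_lit 8) (nat_lit 4) (nat_lit 343) (nat_lit 249) (nat_lit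 188)))) (XT.nd (nat_lit 156) (nat_lit 76) (nat_lit 0) (XT.nd (nat_lit 78) (nat_lit 0) (nat_lit 0) (XT.lf (nat_lit 0) (nat_lit 2865168110) (nat_lit 152) (nat_lit 16823418187) (nat_lit 76) (nat_lit 56509851448) (nat_lit 6) (nat_lit 5) (nat_lit 8) (nat_lit 5) (nat_lit 7) (nat_lit 4) (nat_lit 344) (nat_lit 249) (nat_lit 187)) (XT.lf (nat_lit 0) (nat_lit 9147605066) (nat_lit 152) (nat_lit 4125092718) (nat_lit 76) (nat_lit 66514634015) (nat_lit 6) (nat_lit 5) (nat_lit 8) (nat_lit 5) (nat_lit 7) (nat_lit 4) (nat_lit 345) (nat_lit 249) (nat_lit 186))) (XT.nd (nat_lit 78) (nat_lit 0) (nat_lit 0) (XT.lf (nat_lit 0) (nat_lit 9334515283) (nat_lit 76) (nat_lit 6469252088) (nat_lit 152) (nat_lit 67750124149) (nat_lit 5) (nat_lit 5) (nat_lit 6) (nat_lit 5) (nat_lit 7) (nat_lit 4) (nat_lit 346) (nat_lit 249) (nat_lit 185)) (XT.lf (nat_lit 0) (nat_lit 22812652907) (nat_lit 152) (nat_lit 64015931829) (nat_lit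 0) (nat_lit 679605674) (nat_lit 5) (nat_lit 5) (nat_lit 7) (nat_lit 4) (nat_lit 5) (nat_lit 4) (nat_lit 347) (nat_lit 249) (nat_lit 184))))))))
noncomputable def xc32 : XT := (XT.nd (nat_lit 36192) (nat_lit 0) (nat_lit 1444) (XT.nd (nat_lit 1014) (nat_lit 76) (nat_lit 0) (XT.nd (nat_lit 468) (nat_lit 0) (nat_lit 0) (XT.nd (nat_lit 234) (nat_lit 76) (nat_lit 0) (XT.nd (nat_lit 78) (nat_lit 0) (nat_lit 0) (XT.lf (nat_lit 0) (nat_lit 30209228991) (nat_lit 152) (nat_lit 53419829657) (nat_lit 0) (nat_lit 8030036434) (nat_lit 5) (nat_lit 5) (nat_lit 7) (nat_lit 4) (nat_lit 5) (nat_lit 4) (nat_lit 348) (nat_lit 249) (nat_lit 183)) (XT.nd (nat_lit 78) (nat_lit 0) (nat_lit 0) (XT.lf (nat_lit 0) (nat_lit 37948920112) (nat_lit 152) (nat_lit 42343654498) (nat_lit 0) (nat_lit 15725779626) (nat_lit 5) (nat_lit 5) (nat_lit 7) (nat_lit 4) (nat_lit 5) (nat_lit 4) (nat_lit 349) (nat_lit 249) (nat_lit 182))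 (XT.lf (nat_lit 0) (nat_lit 46050154104) (nat_lit 152) (nat_lit 30761034505) (nat_lit 0) (nat_lit 23785158448) (nat_lit 5) (nat_lit 5) (nat_lit 7) (nat_lit 4) (nat_lit 5) (nat_lit 4) (nat_lit 350) (nat_lit 249) (nat_lit 181)))) (XT.nd (nat_lit 78) (nat_lit 76) (nat_lit 0) (XT.lf (nat_lit 0) (nat_lit 54532219621) (nat_lit 152) (nat_lit 18644392014) (nat_lit 0) (nat_lit 32227361899) (nat_lit 5) (nat_lit 5) (nat_lit 7) (nat_lit 4) (nat_lit 5) (nat_lit 4) (nat_lit 351) (nat_lit 249) (nat_lit 180)) (XT.nd (nat_lit 78) (nat_lit 76) (nat_lit 0) (XT.lf (nat_lit 0) (nat_lit 63415312056) (nat_lit 152) (nat_lit 5964877874) (nat_lit 0) (nat_lit 41072490461) (nat_lit 5) (nat_lit 5) (nat_lit 7) (nat_lit 4) (nat_lit 5) (nat_lit 4) (nat_lit 352) (nat_lit 249) (nat_lit 179)) (XT.lf (nat_lit 0) (nat_lit 7453134737) (nat_lit 76) (nat_lit 65339090983) (nat_lit 76) (nat_lit 42960113318) (nat_lit 4) (nat_lit 4)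 (nat_lit 5) (nat_lit 5) (nat_lit 5) (nat_lit 4) (nat_lit 353) (nat_lit 249) (nat_lit 178))))) (XT.nd (nat_lit 234) (nat_lit 0) (nat_lit 0) (XT.nd (nat_lit 78) (nat_lit 0) (nat_lit 0) (XT.lf (nat_lit 0) (nat_lit 21626954456) (nat_lit 76) (nat_lit 61051120805) (nat_lit 76) (nat_lit 38637708788) (nat_lit 4) (nat_lit 4) (nat_lit 5) (nat_lit 5) (nat_lit 5) (nat_lit 4) (nat_lit 354) (nat_lit 249) (nat_lit 177)) (XT.nd (nat_lit 78) (nat_lit 0) (nat_lit 0) (XT.lf (nat_lit 0) (nat_lit 36471615708) (nat_lit 76) (nat_lit 56566303514) (nat_lit 76) (nat_lit 34120096877) (nat_lit 4) (nat_lit 4) (nat_lit 5) (nat_lit 5) (nat_lit 5) (nat_lit 4) (nat_lit 355) (nat_lit 249) (nat_lit 176)) (XT.lf (nat_lit 0) (nat_lit 52022462923) (nat_lit 76) (nat_lit 51873960975) (nat_lit 76) (nat_lit 29396521365) (nat_lit 4) (nat_lit 4) (nat_lit 5) (nat_lit 5) (nat_lit 5) (nat_lit 4) (nat_lit 356) (nat_lit 249) (nat_lit 175))))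 (XT.nd (nat_lit 156) (nat_lit 0) (nat_lit 0) (XT.nd (nat_lit 78) (nat_lit 0) (nat_lit 0) (XT.lf (nat_lit 0) (nat_lit 68316521929) (nat_lit 76) (nat_lit 46962920943) (nat_lit 76) (nat_lit 24455735645) (nat_lit 4) (nat_lit 4) (nat_lit 5) (nat_lit 5) (nat_lit 5) (nat_lit 4) (nat_lit 357) (nat_lit 249) (nat_lit 174)) (XT.lf (nat_lit 0) (nat_lit 85392588103) (nat_lit 76) (nat_lit 41821490465) (nat_lit 76) (nat_lit 19285975941) (nat_lit 4) (nat_lit 4) (nat_lit 5) (nat_lit 5) (nat_lit 5) (nat_lit 4) (nat_lit 358) (nat_lit 249) (nat_lit 173))) (XT.nd (nat_lit 78) (nat_lit 0) (nat_lit 0) (XT.lf (nat_lit 0) (nat_lit 103291318747) (nat_lit 76) (nat_lit 36437428041) (nat_lit 76) (nat_lit 13874933301) (nat_lit 4) (nat_lit 4) (nat_lit 5) (nat_lit 5) (nat_lit 5) (nat_lit 4) (nat_lit 359) (nat_lit 249) (nat_lit 172)) (XT.lf (nat_lit 0) (nat_lit 122055329886) (nat_lit 76) (nat_lit 30797914473) (nat_lit 76)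 (nat_lit 8209724290) (nat_lit 4) (nat_lit 4) (nat_lit 5) (nat_lit 5) (nat_lit 5) (nat_lit 4) (nat_lit 360) (nat_lit 249) (nat_lit 171)))))) (XT.nd (nat_lit 34632) (nat_lit 0) (nat_lit 6536) (XT.nd (nat_lit 34398) (nat_lit 0) (nat_lit 9424) (XT.nd (nat_lit 78) (nat_lit 76) (nat_lit 0) (XT.lf (nat_lit 0) (nat_lit 141729297736) (nat_lit 76) (nat_lit 24889522350) (nat_lit 76) (nat_lit 2276860316) (nat_lit 4) (nat_lit 4) (nat_lit 5) (nat_lit 5) (nat_lit 5) (nat_lit 4) (nat_lit 361) (nat_lit 249) (nat_lit 170)) (XT.nd (nat_lit 34242) (nat_lit 0) (nat_lit 11476) (XT.lf (nat_lit 0) (nat_lit 3860944129) (nat_lit 152) (nat_lit 14798251976) (nat_lit 76) (nat_lit 158460132985) (nat_lit 3) (nat_lit 5) (nat_lit 5) (nat_lit 5) (nat_lit 4) (nat_lit 4) (nat_lit 362) (nat_lit 249) (nat_lit 169)) (XT.lf (nat_lit 0) (nat_lit 3017291236) (nat_lit 532) (nat_lit 422712267) (nat_lit 532) (nat_lit 422712267) (nat_lit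 154) (nat_lit 4) (nat_lit 161) (nat_lit 5) (nat_lit 161) (nat_lit 4) (nat_lit 280) (nat_lit 250) (nat_lit 250)))) (XT.nd (nat_lit 78) (nat_lit 1520) (nat_lit 0) (XT.lf (nat_lit 0) (nat_lit 4729448286) (nat_lit 532) (nat_lit 554630013) (nat_lit 0) (nat_lit 2580612813) (nat_lit 147) (nat_lit 5) (nat_lit 154) (nat_lit 4) (nat_lit 147) (nat_lit 4) (nat_lit 281) (nat_lit 250) (nat_lit 249)) (XT.nd (nat_lit 78) (nat_lit 456) (nat_lit 0) (XT.lf (nat_lit 0) (nat_lit 616566428) (nat_lit 456) (nat_lit 1753833510) (nat_lit 532) (nat_lit 5643919867) (nat_lit 133) (nat_lit 5) (nat_lit 139) (nat_lit 5) (nat_lit 140) (nat_lit 4) (nat_lit 282) (nat_lit 250) (nat_lit 248)) (XT.lf (nat_lit 0) (nat_lit 1803178025) (nat_lit 456) (nat_lit 6168274142) (nat_lit 456) (nat_lit 202834758) (nat_lit 127) (nat_lit 4) (nat_lit 133) (nat_lit 5) (nat_lit 133) (nat_lit 4) (nat_lit 283) (nat_lit 250) (nat_lit 247))))) (XT.nd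 (nat_lit 234) (nat_lit 1596) (nat_lit 0) (XT.nd (nat_lit 78) (nat_lit 836) (nat_lit 0) (XT.lf (nat_lit 0) (nat_lit 2964710218) (nat_lit 380) (nat_lit 2322151403) (nat_lit 456) (nat_lit 3057591141) (nat_lit 121) (nat_lit 5) (nat_lit 126) (nat_lit 5) (nat_lit 127) (nat_lit 4) (nat_lit 284) (nat_lit 250) (nat_lit 246)) (XT.nd (nat_lit 78) (nat_lit 380) (nat_lit 0) (XT.lf (nat_lit 0) (nat_lit 2364719919) (nat_lit 456) (nat_lit 4407366421) (nat_lit 76) (nat_lit 1753835295) (nat_lit 115) (nat_lit 5) (nat_lit 121) (nat_lit 5) (nat_lit 116) (nat_lit 4) (nat_lit 285) (nat_lit 250) (nat_lit 245)) (XT.lf (nat_lit 0) (nat_lit 5242125880) (nat_lit 380) (nat_lit 2657821450) (nat_lit 456) (nat_lit 818731995) (nat_lit 110) (nat_lit 5) (nat_lit 115) (nat_lit 5) (nat_lit 116) (nat_lit 4) (nat_lit 286) (nat_lit 250) (nat_lit 244)))) (XT.nd (nat_lit 156) (nat_lit 760) (nat_lit 0) (XT.nd (nat_lit 78) (nat_lit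 380) (nat_lit 0) (XT.lf (nat_lit 0) (nat_lit 4601134028) (nat_lit 456) (nat_lit 2607478693) (nat_lit 76) (nat_lit 1714221770) (nat_lit 104) (nat_lit 5) (nat_lit 110) (nat_lit 5) (nat_lit 105) (nat_lit 4) (nat_lit 287) (nat_lit 250) (nat_lit 243)) (XT.lf (nat_lit 0) (nat_lit 1036017473) (nat_lit 380) (nat_lit 1796764297) (nat_lit 76) (nat_lit 6306475493) (nat_lit 99) (nat_lit 5) (nat_lit 104) (nat_lit 5) (nat_lit 100) (nat_lit 5) (nat_lit 288) (nat_lit 250) (nat_lit 242))) (XT.nd (nat_lit 78) (nat_lit 380) (nat_lit 0) (XT.lf (nat_lit 0) (nat_lit 6490278153) (nat_lit 456) (nat_lit 1073594334) (nat_lit 76) (nat_lit 1804027570) (nat_lit 94) (nat_lit 5) (nat_lit 100) (nat_lit 5) (nat_lit 95) (nat_lit 4) (nat_lit 289) (nat_lit 250) (nat_lit 241)) (XT.lf (nat_lit 0) (nat_lit 2492100958) (nat_lit 380) (nat_lit 445883889) (nat_lit 76) (nat_lit 6671432263) (nat_lit 89) (nat_lit 5) (nat_lit 94) (nat_lit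 5) (nat_lit 90) (nat_lit 5) (nat_lit 290) (nat_lit 250) (nat_lit 240))))))) (XT.nd (nat_lit 1014) (nat_lit 1520) (nat_lit 0) (XT.nd (nat_lit 468) (nat_lit 1444) (nat_lit 0) (XT.nd (nat_lit 234) (nat_lit 912) (nat_lit 0) (XT.nd (nat_lit 78) (nat_lit 608) (nat_lit 0) (XT.lf (nat_lit 0) (nat_lit 77038522) (nat_lit 304) (nat_lit 7924776440) (nat_lit 380) (nat_lit 1862606698) (nat_lit 81) (nat_lit 5) (nat_lit 85) (nat_lit 5) (nat_lit 86) (nat_lit 4) (nat_lit 291) (nat_lit 250) (nat_lit 239)) (XT.nd (nat_lit 78) (nat_lit 228) (nat_lit 0) (XT.lf (nat_lit 0) (nat_lit 465437843) (nat_lit 304) (nat_lit 3066519460) (nat_lit 380) (nat_lit 6600894118) (nat_lit 76) (nat_lit 5) (nat_lit 80) (nat_lit 5) (nat_lit 81) (nat_lit 5) (nat_lit 292) (nat_lit 250) (nat_lit 238)) (XT.lf (nat_lit 0) (nat_lit 716986135) (nat_lit 228) (nat_lit 8380083026) (nat_lit 304) (nat_lit 1319073453) (nat_lit 73) (nat_lit 5) (nat_lit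 76) (nat_lit 5) (nat_lit 77) (nat_lit 4) (nat_lit 293) (nat_lit 250) (nat_lit 237)))) (XT.nd (nat_lit 78) (nat_lit 532) (nat_lit 0) (XT.lf (nat_lit 0) (nat_lit 777448164) (nat_lit 304) (nat_lit 3321029920) (nat_lit 380) (nat_lit 6615438096) (nat_lit 68) (nat_lit 5) (nat_lit 72) (nat_lit 5) (nat_lit 73) (nat_lit 5) (nat_lit 294) (nat_lit 250) (nat_lit 236)) (XT.nd (nat_lit 78) (nat_lit 304) (nat_lit 0) (XT.lf (nat_lit 0) (nat_lit 662609800) (nat_lit 228) (nat_lit 9044145850) (nat_lit 304) (nat_lit 1321169829) (nat_lit 65) (nat_lit 5) (nat_lit 68) (nat_lit 5) (nat_lit 69) (nat_lit 4) (nat_lit 295) (nat_lit 250) (nat_lit 235)) (XT.lf (nat_lit 0) (nat_lit 305771745) (nat_lit 228) (nat_lit 3813767576) (nat_lit 304) (nat_lit 7238082370) (nat_lit 61) (nat_lit 5) (nat_lit 64) (nat_lit 5) (nat_lit 65) (nat_lit 5) (nat_lit 296) (nat_lit 250) (nat_lit 234))))) (XT.nd (nat_lit 234) (nat_lit 912) (nat_lit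 0) (XT.nd (nat_lit 78) (nat_lit 532) (nat_lit 0) (XT.lf (nat_lit 0) (nat_lit 9758710244) (nat_lit 304) (nat_lit 270351781) (nat_lit 76) (nat_lit 1675870251) (nat_lit 61) (nat_lit 5) (nat_lit 65) (nat_lit 5) (nat_lit 62) (nat_lit 4) (nat_lit 297) (nat_lit 250) (nat_lit 233)) (XT.nd (nat_lit 78) (nat_lit 228) (nat_lit 0) (XT.lf (nat_lit 0) (nat_lit 3521161895) (nat_lit 304) (nat_lit 1132537940) (nat_lit 76) (nat_lit 7415550424) (nat_lit 57) (nat_lit 5) (nat_lit 61) (nat_lit 5) (nat_lit 58) (nat_lit 5) (nat_lit 298) (nat_lit 250) (nat_lit 232)) (XT.lf (nat_lit 0) (nat_lit 9174024046) (nat_lit 304) (nat_lit 2275255784) (nat_lit 76) (nat_lit 1003473863) (nat_lit 54) (nat_lit 5) (nat_lit 58) (nat_lit 5) (nat_lit 55) (nat_lit 4) (nat_lit 299) (nat_lit 250) (nat_lit 231)))) (XT.nd (nat_lit 156) (nat_lit 456) (nat_lit 0) (XT.nd (nat_lit 78) (nat_lit 228) (nat_lit 0) (XT.lf (nat_lit 0) (nat_lit 2201972052)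 (nat_lit 228) (nat_lit 3771425981) (nat_lit 76) (nat_lit 6881737924) (nat_lit 51) (nat_lit 5) (nat_lit 54) (nat_lit 5) (nat_lit 52) (nat_lit 5) (nat_lit 300) (nat_lit 250) (nat_lit 230)) (XT.lf (nat_lit 0) (nat_lit 7654963603) (nat_lit 228) (nat_lit 181039665) (nat_lit 304) (nat_lit 5442351375) (nat_lit 48) (nat_lit 5) (nat_lit 51) (nat_lit 5) (nat_lit 52) (nat_lit 5) (nat_lit 301) (nat_lit 250) (nat_lit 229))) (XT.nd (nat_lit 78) (nat_lit 228) (nat_lit 0) (XT.lf (nat_lit 0) (nat_lit 33630940) (nat_lit 228) (nat_lit 7895473847) (nat_lit 76) (nat_lit 5793561695) (nat_lit 45) (nat_lit 5) (nat_lit 48) (nat_lit 5) (nat_lit 46) (nat_lit 5) (nat_lit 302) (nat_lit 250) (nat_lit 228)) (XT.lf (nat_lit 0) (nat_lit 3557358928) (nat_lit 228) (nat_lit 2065575242) (nat_lit 304) (nat_lit 8566172706) (nat_lit 42) (nat_lit 5) (nat_lit 45) (nat_lit 5) (nat_lit 46) (nat_lit 5) (nat_lit 303) (nat_lit 250) (nat_lit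 227)))))) (XT.nd (nat_lit 468) (nat_lit 760) (nat_lit 0) (XT.nd (nat_lit 234) (nat_lit 380) (nat_lit 0) (XT.nd (nat_lit 78) (nat_lit 228) (nat_lit 0) (XT.lf (nat_lit 0) (nat_lit 815435753) (nat_lit 152) (nat_lit 10665836665) (nat_lit 228) (nat_lit 3197997247) (nat_lit 40) (nat_lit 5) (nat_lit 42) (nat_lit 5) (nat_lit 43) (nat_lit 4) (nat_lit 304) (nat_lit 250) (nat_lit 226)) (XT.nd (nat_lit 78) (nat_lit 152) (nat_lit 0) (XT.lf (nat_lit 0) (nat_lit 2385768388) (nat_lit 228) (nat_lit 2406776108) (nat_lit 76) (nat_lit 10400930730) (nat_lit 39) (nat_lit 5) (nat_lit 42) (nat_lit 5) (nat_lit 40) (nat_lit 5) (nat_lit 305) (nat_lit 250) (nat_lit 225)) (XT.lf (nat_lit 0) (nat_lit 8158599017) (nat_lit 228) (nat_lit 6186882046) (nat_lit 76) (nat_lit 1387756642) (nat_lit 37) (nat_lit 5) (nat_lit 40) (nat_lit 5) (nat_lit 38) (nat_lit 4) (nat_lit 306) (nat_lit 250) (nat_lit 224)))) (XT.nd (nat_lit 78)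 (nat_lit 228) (nat_lit 0) (XT.lf (nat_lit 0) (nat_lit 5696884358) (nat_lit 152) (nat_lit 8524590702) (nat_lit 228) (nat_lit 2078544490) (nat_lit 35) (nat_lit 5) (nat_lit 37) (nat_lit 5) (nat_lit 38) (nat_lit 4) (nat_lit 307) (nat_lit 250) (nat_lit 223)) (XT.nd (nat_lit 78) (nat_lit 0) (nat_lit 0) (XT.lf (nat_lit 0) (nat_lit 1187685496) (nat_lit 152) (nat_lit 2384357801) (nat_lit 228) (nat_lit 13323548027) (nat_lit 32) (nat_lit 5) (nat_lit 34) (nat_lit 5) (nat_lit 35) (nat_lit 5) (nat_lit 308) (nat_lit 250) (nat_lit 222)) (XT.lf (nat_lit 0) (nat_lit 9490994449) (nat_lit 228) (nat_lit 3996254050) (nat_lit 76) (nat_lit 4032275753) (nat_lit 32) (nat_lit 5) (nat_lit 35) (nat_lit 5) (nat_lit 33) (nat_lit 4) (nat_lit 309) (nat_lit 250) (nat_lit 221))))) (XT.nd (nat_lit 234) (nat_lit 380) (nat_lit 0) (XT.nd (nat_lit 78) (nat_lit 228) (nat_lit 0) (XT.lf (nat_lit 0) (nat_lit 8240484010) (nat_lit 152)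 (nat_lit 7453579329) (nat_lit 228) (nat_lit 2481006909) (nat_lit 30) (nat_lit 5) (nat_lit 32) (nat_lit 5) (nat_lit 33) (nat_lit 4) (nat_lit 310) (nat_lit 250) (nat_lit 220)) (XT.nd (nat_lit 78) (nat_lit 0) (nat_lit 0) (XT.lf (nat_lit 0) (nat_lit 2125457255) (nat_lit 152) (nat_lit 1102530292) (nat_lit 228) (nat_lit 15636018173) (nat_lit 27) (nat_lit 5) (nat_lit 29) (nat_lit 5) (nat_lit 30) (nat_lit 5) (nat_lit 311) (nat_lit 250) (nat_lit 219)) (XT.lf (nat_lit 0) (nat_lit 9218544241) (nat_lit 228) (nat_lit 4858655873) (nat_lit 76) (nat_lit 5508082392) (nat_lit 27) (nat_lit 5) (nat_lit 30) (nat_lit 5) (nat_lit 28) (nat_lit 4) (nat_lit 312) (nat_lit 250) (nat_lit 218)))) (XT.nd (nat_lit 156) (nat_lit 228) (nat_lit 0) (XT.nd (nat_lit 78) (nat_lit 76) (nat_lit 0) (XT.lf (nat_lit 0) (nat_lit 7570027400) (nat_lit 76) (nat_lit 7917889333) (nat_lit 152) (nat_lit 4855379361) (nat_lit 26) (nat_lit 5)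 (nat_lit 27) (nat_lit 5) (nat_lit 28) (nat_lit 4) (nat_lit 313) (nat_lit 250) (nat_lit 217)) (XT.lf (nat_lit 0) (nat_lit 861505056) (nat_lit 152) (nat_lit 604151670) (nat_lit 76) (nat_lit 19674888644) (nat_lit 25) (nat_lit 5) (nat_lit 27) (nat_lit 5) (nat_lit 26) (nat_lit 5) (nat_lit 314) (nat_lit 250) (nat_lit 216))) (XT.nd (nat_lit 78) (nat_lit 76) (nat_lit 0) (XT.lf (nat_lit 0) (nat_lit 6836430981) (nat_lit 228) (nat_lit 9835456328) (nat_lit 76) (nat_lit 5302194627) (nat_lit 23) (nat_lit 5) (nat_lit 26) (nat_lit 5) (nat_lit 24) (nat_lit 4) (nat_lit 315) (nat_lit 250) (nat_lit 215)) (XT.lf (nat_lit 0) (nat_lit 2549474075) (nat_lit 76) (nat_lit 10511083047) (nat_lit 152) (nat_lit 9790267867) (nat_lit 22) (nat_lit 5) (nat_lit 23) (nat_lit 5) (nat_lit 24) (nat_lit 4) (nat_lit 316) (nat_lit 250) (nat_lit 214))))))))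
noncomputable def xc33 : XT := (XT.nd (nat_lit 2028) (nat_lit 228) (nat_lit 0) (XT.nd (nat_lit 1014) (nat_lit 380) (nat_lit 0) (XT.nd (nat_lit 468) (nat_lit 304) (nat_lit 0) (XT.nd (nat_lit 234) (nat_lit 228) (nat_lit 0) (XT.nd (nat_lit 78) (nat_lit 228) (nat_lit 0) (XT.lf (nat_lit 0) (nat_lit 15596505317) (nat_lit 76) (nat_lit 4008470510) (nat_lit 152) (nat_lit 4166197996) (nat_lit 22) (nat_lit 5) (nat_lit 23) (nat_lit 5) (nat_lit 24) (nat_lit 4) (nat_lit 317) (nat_lit 250) (nat_lit 213)) (XT.nd (nat_lit 78) (nat_lit 0) (nat_lit 0) (XT.lf (nat_lit 0) (nat_lit 1686486486) (nat_lit 228) (nat_lit 20293320199) (nat_lit 76) (nat_lit 2757829606) (nat_lit 19) (nat_lit 5) (nat_lit 22) (nat_lit 5) (nat_lit 20) (nat_lit 4) (nat_lit 318) (nat_lit 250) (nat_lit 212)) (XT.lf (nat_lit 0) (nat_lit 7785327343) (nat_lit 228) (nat_lit 8122380875) (nat_lit 76) (nat_lit 9842321908) (nat_lit 19) (nat_lit 5)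 (nat_lit 22) (nat_lit 5) (nat_lit 20) (nat_lit 4) (nat_lit 319) (nat_lit 250) (nat_lit 211)))) (XT.nd (nat_lit 78) (nat_lit 152) (nat_lit 0) (XT.lf (nat_lit 0) (nat_lit 4599993686) (nat_lit 76) (nat_lit 9550898239) (nat_lit 152) (nat_lit 12663332845) (nat_lit 18) (nat_lit 5) (nat_lit 19) (nat_lit 5) (nat_lit 20) (nat_lit 4) (nat_lit 320) (nat_lit 250) (nat_lit 210)) (XT.nd (nat_lit 78) (nat_lit 152) (nat_lit 0) (XT.lf (nat_lit 0) (nat_lit 17985556791) (nat_lit 76) (nat_lit 2852908580) (nat_lit 152) (nat_lit 7093084774) (nat_lit 18) (nat_lit 5) (nat_lit 19) (nat_lit 5) (nat_lit 20) (nat_lit 4) (nat_lit 321) (nat_lit 250) (nat_lit 209)) (XT.lf (nat_lit 0) (nat_lit 2812753211) (nat_lit 152) (nat_lit 25038229754) (nat_lit 152) (nat_lit 1254073212) (nat_lit 16) (nat_lit 4) (nat_lit 18) (nat_lit 5) (nat_lit 18) (nat_lit 4) (nat_lit 322) (nat_lit 250) (nat_lit 208))))) (XT.nd (nat_lit 234) (nat_lit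 152) (nat_lit 0) (XT.nd (nat_lit 78) (nat_lit 76) (nat_lit 0) (XT.lf (nat_lit 0) (nat_lit 4838864810) (nat_lit 228) (nat_lit 14128762894) (nat_lit 76) (nat_lit 11366518160) (nat_lit 15) (nat_lit 5) (nat_lit 18) (nat_lit 5) (nat_lit 16) (nat_lit 4) (nat_lit 323) (nat_lit 250) (nat_lit 207)) (XT.nd (nat_lit 78) (nat_lit 76) (nat_lit 0) (XT.lf (nat_lit 0) (nat_lit 11139276117) (nat_lit 228) (nat_lit 1498453577) (nat_lit 76) (nat_lit 18988752578) (nat_lit 15) (nat_lit 5) (nat_lit 18) (nat_lit 5) (nat_lit 16) (nat_lit 4) (nat_lit 324) (nat_lit 250) (nat_lit 206)) (XT.lf (nat_lit 0) (nat_lit 11872425858) (nat_lit 76) (nat_lit 5928332334) (nat_lit 152) (nat_lit 15181322095) (nat_lit 14) (nat_lit 5) (nat_lit 15) (nat_lit 5) (nat_lit 16) (nat_lit 4) (nat_lit 325) (nat_lit 250) (nat_lit 205)))) (XT.nd (nat_lit 156) (nat_lit 76) (nat_lit 0) (XT.nd (nat_lit 78) (nat_lit 76) (nat_lit 0) (XT.lf (nat_lit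 0) (nat_lit 24755136426) (nat_lit 152) (nat_lit 8593316438) (nat_lit 0) (nat_lit 1058235720) (nat_lit 14) (nat_lit 5) (nat_lit 16) (nat_lit 4) (nat_lit 14) (nat_lit 4) (nat_lit 326) (nat_lit 250) (nat_lit 204)) (XT.lf (nat_lit 0) (nat_lit 4461201237) (nat_lit 76) (nat_lit 27635429611) (nat_lit 76) (nat_lit 3804738379) (nat_lit 13) (nat_lit 4) (nat_lit 14) (nat_lit 5) (nat_lit 14) (nat_lit 4) (nat_lit 327) (nat_lit 250) (nat_lit 203))) (XT.nd (nat_lit 78) (nat_lit 0) (nat_lit 0) (XT.lf (nat_lit 0) (nat_lit 2316190028) (nat_lit 152) (nat_lit 19256245022) (nat_lit 76) (nat_lit 15896877905) (nat_lit 12) (nat_lit 5) (nat_lit 14) (nat_lit 5) (nat_lit 13) (nat_lit 4) (nat_lit 328) (nat_lit 250) (nat_lit 202)) (XT.lf (nat_lit 0) (nat_lit 8606151688) (nat_lit 152) (nat_lit 6608974805) (nat_lit 76) (nat_lit 23901168020) (nat_lit 12) (nat_lit 5) (nat_lit 14) (nat_lit 5) (nat_lit 13) (nat_lit 4) (nat_lit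 329) (nat_lit 250) (nat_lit 201)))))) (XT.nd (nat_lit 468) (nat_lit 152) (nat_lit 0) (XT.nd (nat_lit 234) (nat_lit 152) (nat_lit 0) (XT.nd (nat_lit 78) (nat_lit 0) (nat_lit 0) (XT.lf (nat_lit 0) (nat_lit 6699051302) (nat_lit 76) (nat_lit 8519710925) (nat_lit 152) (nat_lit 25626638398) (nat_lit 11) (nat_lit 5) (nat_lit 12) (nat_lit 5) (nat_lit 13) (nat_lit 4) (nat_lit 330) (nat_lit 250) (nat_lit 200)) (XT.nd (nat_lit 78) (nat_lit 0) (nat_lit 0) (XT.lf (nat_lit 0) (nat_lit 20711189886) (nat_lit 76) (nat_lit 1464325238) (nat_lit 152) (nat_lit 20485060615) (nat_lit 11) (nat_lit 5) (nat_lit 12) (nat_lit 5) (nat_lit 13) (nat_lit 4) (nat_lit 331) (nat_lit 250) (nat_lit 199)) (XT.lf (nat_lit 0) (nat_lit 29484905107) (nat_lit 152) (nat_lit 9295538792) (nat_lit 0) (nat_lit 5785939869) (nat_lit 11) (nat_lit 5) (nat_lit 13) (nat_lit 4) (nat_lit 11) (nat_lit 4) (nat_lit 332) (nat_lit 250) (nat_lit 198))))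 (XT.nd (nat_lit 78) (nat_lit 76) (nat_lit 0) (XT.lf (nat_lit 0) (nat_lit 3962273483) (nat_lit 76) (nat_lit 33200514608) (nat_lit 76) (nat_lit 9404620679) (nat_lit 10) (nat_lit 4) (nat_lit 11) (nat_lit 5) (nat_lit 11) (nat_lit 4) (nat_lit 333) (nat_lit 250) (nat_lit 197)) (XT.nd (nat_lit 78) (nat_lit 76) (nat_lit 0) (XT.lf (nat_lit 0) (nat_lit 17988576326) (nat_lit 76) (nat_lit 27283355560) (nat_lit 76) (nat_lit 3395148594) (nat_lit 10) (nat_lit 4) (nat_lit 11) (nat_lit 5) (nat_lit 11) (nat_lit 4) (nat_lit 334) (nat_lit 250) (nat_lit 196)) (XT.lf (nat_lit 0) (nat_lit 2811426253) (nat_lit 152) (nat_lit 18268928851) (nat_lit 76) (nat_lit 29791950102) (nat_lit 9) (nat_lit 5) (nat_lit 11) (nat_lit 5) (nat_lit 10) (nat_lit 4) (nat_lit 335) (nat_lit 250) (nat_lit 195))))) (XT.nd (nat_lit 234) (nat_lit 76) (nat_lit 0) (XT.nd (nat_lit 78) (nat_lit 76) (nat_lit 0) (XT.lf (nat_lit 0) (nat_lit 9214486969)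 (nat_lit 152) (nat_lit 5354446245) (nat_lit 76) (nat_lit 38619172765) (nat_lit 9) (nat_lit 5) (nat_lit 11) (nat_lit 5) (nat_lit 10) (nat_lit 4) (nat_lit 336) (nat_lit 250) (nat_lit 194)) (XT.nd (nat_lit 78) (nat_lit 0) (nat_lit 0) (XT.lf (nat_lit 0) (nat_lit 8290098355) (nat_lit 76) (nat_lit 7685121654) (nat_lit 152) (nat_lit 39643365003) (nat_lit 8) (nat_lit 5) (nat_lit 9) (nat_lit 5) (nat_lit 10) (nat_lit 4) (nat_lit 337) (nat_lit 250) (nat_lit 193)) (XT.lf (nat_lit 0) (nat_lit 22653550119) (nat_lit 76) (nat_lit 434673797) (nat_lit 152) (nat_lit 35081950201) (nat_lit 8) (nat_lit 5) (nat_lit 9) (nat_lit 5) (nat_lit 10) (nat_lit 4) (nat_lit 338) (nat_lit 250) (nat_lit 192)))) (XT.nd (nat_lit 156) (nat_lit 76) (nat_lit 0) (XT.nd (nat_lit 78) (nat_lit 0) (nat_lit 0) (XT.lf (nat_lit 0) (nat_lit 30586627754) (nat_lit 152) (nat_lit 23255667495) (nat_lit 0) (nat_lit 7006167451) (nat_lit 8) (nat_lit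 5) (nat_lit 10) (nat_lit 4) (nat_lit 8) (nat_lit 4) (nat_lit 339) (nat_lit 250) (nat_lit 191)) (XT.lf (nat_lit 0) (nat_lit 38426955777) (nat_lit 152) (nat_lit 10455095305) (nat_lit 0) (nat_lit 14779616434) (nat_lit 8) (nat_lit 5) (nat_lit 10) (nat_lit 4) (nat_lit 8) (nat_lit 4) (nat_lit 340) (nat_lit 250) (nat_lit 190))) (XT.nd (nat_lit 78) (nat_lit 0) (nat_lit 0) (XT.lf (nat_lit 0) (nat_lit 2977857193) (nat_lit 76) (nat_lit 43674464872) (nat_lit 76) (nat_lit 19963431206) (nat_lit 7) (nat_lit 4) (nat_lit 8) (nat_lit 5) (nat_lit 8) (nat_lit 4) (nat_lit 341) (nat_lit 250) (nat_lit 189)) (XT.lf (nat_lit 0) (nat_lit 17237065953) (nat_lit 76) (nat_lit 38124994986) (nat_lit 76) (nat_lit 14353300061) (nat_lit 7) (nat_lit 4) (nat_lit 8) (nat_lit 5) (nat_lit 8) (nat_lit 4) (nat_lit 342) (nat_lit 250) (nat_lit 188))))))) (XT.nd (nat_lit 1014) (nat_lit 0) (nat_lit 0) (XT.nd (nat_lit 468) (nat_lit 76)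 (nat_lit 0) (XT.nd (nat_lit 234) (nat_lit 76) (nat_lit 0) (XT.nd (nat_lit 78) (nat_lit 76) (nat_lit 0) (XT.lf (nat_lit 0) (nat_lit 32148404572) (nat_lit 76) (nat_lit 32326004365) (nat_lit 76) (nat_lit 8496536811) (nat_lit 7) (nat_lit 4) (nat_lit 8) (nat_lit 5) (nat_lit 8) (nat_lit 4) (nat_lit 343) (nat_lit 250) (nat_lit 187)) (XT.nd (nat_lit 78) (nat_lit 76) (nat_lit 0) (XT.lf (nat_lit 0) (nat_lit 47747376237) (nat_lit 76) (nat_lit 26263685887) (nat_lit 76) (nat_lit 2379196782) (nat_lit 7) (nat_lit 4) (nat_lit 8) (nat_lit 5) (nat_lit 8) (nat_lit 4) (nat_lit 344) (nat_lit 250) (nat_lit 186)) (XT.lf (nat_lit 0) (nat_lit 3934971472) (nat_lit 152) (nat_lit 15948898493) (nat_lit 76) (nat_lit 60096414390) (nat_lit 6) (nat_lit 5) (nat_lit 8) (nat_lit 5) (nat_lit 7) (nat_lit 4) (nat_lit 345) (nat_lit 250) (nat_lit 185)))) (XT.nd (nat_lit 78) (nat_lit 76) (nat_lit 0) (XT.lf (nat_lit 0) (nat_lit 10487409087)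 (nat_lit 152) (nat_lit 2697356304) (nat_lit 76) (nat_lit 70565194639) (nat_lit 6) (nat_lit 5) (nat_lit 8) (nat_lit 5) (nat_lit 7) (nat_lit 4) (nat_lit 346) (nat_lit 250) (nat_lit 184)) (XT.nd (nat_lit 78) (nat_lit 0) (nat_lit 0) (XT.lf (nat_lit 0) (nat_lit 11388394073) (nat_lit 76) (nat_lit 6061221941) (nat_lit 152) (nat_lit 70256047277) (nat_lit 5) (nat_lit 5) (nat_lit 6) (nat_lit 5) (nat_lit 7) (nat_lit 4) (nat_lit 347) (nat_lit 250) (nat_lit 183)) (XT.lf (nat_lit 0) (nat_lit 24774896819) (nat_lit 152) (nat_lit 65687162445) (nat_lit 0) (nat_lit 1396651380) (nat_lit 5) (nat_lit 5) (nat_lit 7) (nat_lit 4) (nat_lit 5) (nat_lit 4) (nat_lit 348) (nat_lit 250) (nat_lit 182))))) (XT.nd (nat_lit 234) (nat_lit 76) (nat_lit 0) (XT.nd (nat_lit 78) (nat_lit 0) (nat_lit 0) (XT.lf (nat_lit 0) (nat_lit 32502177361) (nat_lit 152) (nat_lit 54634091639) (nat_lit 0) (nat_lit 9082076753) (nat_lit 5) (nat_lit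 5) (nat_lit 7) (nat_lit 4) (nat_lit 5) (nat_lit 4) (nat_lit 349) (nat_lit 250) (nat_lit 181)) (XT.nd (nat_lit 78) (nat_lit 0) (nat_lit 0) (XT.lf (nat_lit 0) (nat_lit 40591591756) (nat_lit 152) (nat_lit 43073475793) (nat_lit 0) (nat_lit 17131629081) (nat_lit 5) (nat_lit 5) (nat_lit 7) (nat_lit 4) (nat_lit 5) (nat_lit 4) (nat_lit 350) (nat_lit 250) (nat_lit 180)) (XT.lf (nat_lit 0) (nat_lit 49062400513) (nat_lit 152) (nat_lit 30977789631) (nat_lit 0) (nat_lit 25564473965) (nat_lit 5) (nat_lit 5) (nat_lit 7) (nat_lit 4) (nat_lit 5) (nat_lit 4) (nat_lit 351) (nat_lit 250) (nat_lit 179)))) (XT.nd (nat_lit 156) (nat_lit 76) (nat_lit 0) (XT.nd (nat_lit 78) (nat_lit 0) (nat_lit 0) (XT.lf (nat_lit 0) (nat_lit 57934772224) (nat_lit 152) (nat_lit 18318233901) (nat_lit 0) (nat_lit 34400689607) (nat_lit 5) (nat_lit 5) (nat_lit 7) (nat_lit 4) (nat_lit 5) (nat_lit 4) (nat_lit 352) (nat_lit 250) (nat_lit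 178)) (XT.lf (nat_lit 0) (nat_lit 67229831585) (nat_lit 152) (nat_lit 5064666802) (nat_lit 0) (nat_lit 43661314615) (nat_lit 5) (nat_lit 5) (nat_lit 7) (nat_lit 4) (nat_lit 5) (nat_lit 4) (nat_lit 353) (nat_lit 250) (nat_lit 177))) (XT.nd (nat_lit 78) (nat_lit 0) (nat_lit 0) (XT.lf (nat_lit 0) (nat_lit 8989892968) (nat_lit 76) (nat_lit 68066233070) (nat_lit 76) (nat_lit 44464921480) (nat_lit 4) (nat_lit 4) (nat_lit 5) (nat_lit 5) (nat_lit 5) (nat_lit 4) (nat_lit 354) (nat_lit 250) (nat_lit 176)) (XT.lf (nat_lit 0) (nat_lit 23816970269) (nat_lit 76) (nat_lit 63589569739) (nat_lit 76) (nat_lit 39957025176) (nat_lit 4) (nat_lit 4) (nat_lit 5) (nat_lit 5) (nat_lit 5) (nat_lit 4) (nat_lit 355) (nat_lit 250) (nat_lit 175)))))) (XT.nd (nat_lit 34554) (nat_lit 0) (nat_lit 8892) (XT.nd (nat_lit 234) (nat_lit 0) (nat_lit 0) (XT.nd (nat_lit 78) (nat_lit 0) (nat_lit 0) (XT.lf (nat_lit 0) (nat_lit 39351070864)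 (nat_lit 76) (nat_lit 58904992874) (nat_lit 76) (nat_lit 35242702624) (nat_lit 4) (nat_lit 4) (nat_lit 5) (nat_lit 5) (nat_lit 5) (nat_lit 4) (nat_lit 356) (nat_lit 250) (nat_lit 174)) (XT.nd (nat_lit 78) (nat_lit 0) (nat_lit 0) (XT.lf (nat_lit 0) (nat_lit 55629180708) (nat_lit 76) (nat_lit 54001348723) (nat_lit 76) (nat_lit 30310729246) (nat_lit 4) (nat_lit 4) (nat_lit 5) (nat_lit 5) (nat_lit 5) (nat_lit 4) (nat_lit 357) (nat_lit 250) (nat_lit 173)) (XT.lf (nat_lit 0) (nat_lit 72690057205) (nat_lit 76) (nat_lit 48866961942) (nat_lit 76) (nat_lit 25149362249) (nat_lit 4) (nat_lit 4) (nat_lit 5) (nat_lit 5) (nat_lit 5) (nat_lit 4) (nat_lit 358) (nat_lit 250) (nat_lit 172)))) (XT.nd (nat_lit 156) (nat_lit 0) (nat_lit 0) (XT.nd (nat_lit 78) (nat_lit 0) (nat_lit 0) (XT.lf (nat_lit 0) (nat_lit 90574321490) (nat_lit 76) (nat_lit 43489607800) (nat_lit 76) (nat_lit 19746312663) (nat_lit 4) (nat_lit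 4) (nat_lit 5) (nat_lit 5) (nat_lit 5) (nat_lit 4) (nat_lit 359) (nat_lit 250) (nat_lit 171)) (XT.lf (nat_lit 0) (nat_lit 109324555143) (nat_lit 76) (nat_lit 37856483073) (nat_lit 76) (nat_lit 14088716085) (nat_lit 4) (nat_lit 4) (nat_lit 5) (nat_lit 5) (nat_lit 5) (nat_lit 4) (nat_lit 360) (nat_lit 250) (nat_lit 170))) (XT.nd (nat_lit 78) (nat_lit 0) (nat_lit 0) (XT.lf (nat_lit 0) (nat_lit 128985401579) (nat_lit 76) (nat_lit 31954175559) (nat_lit 76) (nat_lit 8163102047) (nat_lit 4) (nat_lit 4) (nat_lit 5) (nat_lit 5) (nat_lit 5) (nat_lit 4) (nat_lit 361) (nat_lit 250) (nat_lit 169)) (XT.lf (nat_lit 0) (nat_lit 149603672336) (nat_lit 76) (nat_lit 25768632146) (nat_lit 76) (nat_lit 1955361944) (nat_lit 4) (nat_lit 4) (nat_lit 5) (nat_lit 5) (nat_lit 5) (nat_lit 4) (nat_lit 362) (nat_lit 250) (nat_lit 168))))) (XT.nd (nat_lit 234) (nat_lit 2432) (nat_lit 0) (XT.nd (nat_lit 78) (nat_lit 1216)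 (nat_lit 0) (XT.lf (nat_lit 0) (nat_lit 1846058608) (nat_lit 608) (nat_lit 944950612) (nat_lit 608) (nat_lit 944950612) (nat_lit 169) (nat_lit 4) (nat_lit 177) (nat_lit 5) (nat_lit 177) (nat_lit 4) (nat_lit 278) (nat_lit 251) (nat_lit 251)) (XT.nd (nat_lit 78) (nat_lit 608) (nat_lit 0) (XT.lf (nat_lit 0) (nat_lit 3546735059) (nat_lit 608) (nat_lit 2826076972) (nat_lit 0) (nat_lit 1222769495) (nat_lit 161) (nat_lit 5) (nat_lit 169) (nat_lit 4) (nat_lit 161) (nat_lit 4) (nat_lit 279) (nat_lit 251) (nat_lit 250)) (XT.lf (nat_lit 0) (nat_lit 1324163253) (nat_lit 608) (nat_lit 1849214698) (nat_lit 76) (nat_lit 4555579852) (nat_lit 153) (nat_lit 5) (nat_lit 161) (nat_lit 5) (nat_lit 154) (nat_lit 4) (nat_lit 280) (nat_lit 251) (nat_lit 249)))) (XT.nd (nat_lit 156) (nat_lit 912) (nat_lit 0) (XT.nd (nat_lit 78) (nat_lit 1064) (nat_lit 0) (XT.lf (nat_lit 0) (nat_lit 6737514608) (nat_lit 532) (nat_lit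 849095731) (nat_lit 0) (nat_lit 285891913) (nat_lit 147) (nat_lit 5) (nat_lit 154) (nat_lit 4) (nat_lit 147) (nat_lit 4) (nat_lit 281) (nat_lit 251) (nat_lit 248)) (XT.lf (nat_lit 0) (nat_lit 137763417) (nat_lit 456) (nat_lit 4068366253) (nat_lit 532) (nat_lit 3819353791) (nat_lit 133) (nat_lit 5) (nat_lit 139) (nat_lit 5) (nat_lit 140) (nat_lit 4) (nat_lit 282) (nat_lit 251) (nat_lit 247))) (XT.nd (nat_lit 78) (nat_lit 380) (nat_lit 0) (XT.lf (nat_lit 0) (nat_lit 1164617676) (nat_lit 456) (nat_lit 284505286) (nat_lit 532) (nat_lit 6740240969) (nat_lit 126) (nat_lit 5) (nat_lit 132) (nat_lit 5) (nat_lit 133) (nat_lit 5) (nat_lit 283) (nat_lit 251) (nat_lit 246)) (XT.lf (nat_lit 0) (nat_lit 2156482709) (nat_lit 380) (nat_lit 4656829328) (nat_lit 456) (nat_lit 1549950618) (nat_lit 121) (nat_lit 5) (nat_lit 126) (nat_lit 5) (nat_lit 127) (nat_lit 4) (nat_lit 284) (nat_lit 251) (nat_lit 245))))))))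
noncomputable def xc34 : XT := (XT.nd (nat_lit 2028) (nat_lit 1596) (nat_lit 0) (XT.nd (nat_lit 1014) (nat_lit 2356) (nat_lit 0) (XT.nd (nat_lit 468) (nat_lit 2128) (nat_lit 0) (XT.nd (nat_lit 234) (nat_lit 1140) (nat_lit 0) (XT.nd (nat_lit 78) (nat_lit 836) (nat_lit 0) (XT.lf (nat_lit 0) (nat_lit 3137352793) (nat_lit 380) (nat_lit 570535338) (nat_lit 456) (nat_lit 4840594193) (nat_lit 115) (nat_lit 5) (nat_lit 120) (nat_lit 5) (nat_lit 121) (nat_lit 5) (nat_lit 285) (nat_lit 251) (nat_lit 244)) (XT.nd (nat_lit 78) (nat_lit 380) (nat_lit 0) (XT.lf (nat_lit 0) (nat_lit 369469820) (nat_lit 456) (nat_lit 4664287079) (nat_lit 76) (nat_lit 3711140639) (nat_lit 109) (nat_lit 5) (nat_lit 115) (nat_lit 5) (nat_lit 110) (nat_lit 5) (nat_lit 286) (nat_lit 251) (nat_lit 243)) (XT.lf (nat_lit 0) (nat_lit 4975439638) (nat_lit 380) (nat_lit 665981756) (nat_lit 456) (nat_lit 3311471332) (nat_lit 104) (nat_lit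 5) (nat_lit 109) (nat_lit 5) (nat_lit 110) (nat_lit 5) (nat_lit 287) (nat_lit 251) (nat_lit 242)))) (XT.nd (nat_lit 78) (nat_lit 760) (nat_lit 0) (XT.lf (nat_lit 0) (nat_lit 1905351045) (nat_lit 380) (nat_lit 3366448290) (nat_lit 76) (nat_lit 3900969400) (nat_lit 99) (nat_lit 5) (nat_lit 104) (nat_lit 5) (nat_lit 100) (nat_lit 5) (nat_lit 288) (nat_lit 251) (nat_lit 241)) (XT.nd (nat_lit 78) (nat_lit 380) (nat_lit 0) (XT.lf (nat_lit 0) (nat_lit 6576770843) (nat_lit 380) (nat_lit 652072634) (nat_lit 456) (nat_lit 2176595001) (nat_lit 94) (nat_lit 5) (nat_lit 99) (nat_lit 5) (nat_lit 100) (nat_lit 5) (nat_lit 289) (nat_lit 251) (nat_lit 240)) (XT.lf (nat_lit 0) (nat_lit 3060104436) (nat_lit 380) (nat_lit 2409806455) (nat_lit 76) (nat_lit 4180518864) (nat_lit 89) (nat_lit 5) (nat_lit 94) (nat_lit 5) (nat_lit 90) (nat_lit 5) (nat_lit 290) (nat_lit 251) (nat_lit 239))))) (XT.nd (nat_lit 234) (nat_lit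 1140) (nat_lit 0) (XT.nd (nat_lit 78) (nat_lit 684) (nat_lit 0) (XT.lf (nat_lit 0) (nat_lit 7824870673) (nat_lit 304) (nat_lit 613536737) (nat_lit 380) (nat_lit 1471060722) (nat_lit 85) (nat_lit 5) (nat_lit 89) (nat_lit 5) (nat_lit 90) (nat_lit 5) (nat_lit 291) (nat_lit 251) (nat_lit 238)) (XT.nd (nat_lit 78) (nat_lit 304) (nat_lit 0) (XT.lf (nat_lit 0) (nat_lit 3794259348) (nat_lit 380) (nat_lit 1922298457) (nat_lit 76) (nat_lit 4464959878) (nat_lit 80) (nat_lit 5) (nat_lit 85) (nat_lit 5) (nat_lit 81) (nat_lit 5) (nat_lit 292) (nat_lit 251) (nat_lit 237)) (XT.lf (nat_lit 0) (nat_lit 8585423980) (nat_lit 304) (nat_lit 640802623) (nat_lit 380) (nat_lit 1242657184) (nat_lit 76) (nat_lit 5) (nat_lit 80) (nat_lit 5) (nat_lit 81) (nat_lit 5) (nat_lit 293) (nat_lit 251) (nat_lit 236)))) (XT.nd (nat_lit 156) (nat_lit 532) (nat_lit 0) (XT.nd (nat_lit 78) (nat_lit 304) (nat_lit 0) (XT.lf (nat_lit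 0) (nat_lit 4055265276) (nat_lit 304) (nat_lit 2052106185) (nat_lit 76) (nat_lit 4662882493) (nat_lit 72) (nat_lit 5) (nat_lit 76) (nat_lit 5) (nat_lit 73) (nat_lit 5) (nat_lit 294) (nat_lit 251) (nat_lit 235)) (XT.lf (nat_lit 0) (nat_lit 8702294219) (nat_lit 304) (nat_lit 832403558) (nat_lit 380) (nat_lit 1553501780) (nat_lit 68) (nat_lit 5) (nat_lit 72) (nat_lit 5) (nat_lit 73) (nat_lit 5) (nat_lit 295) (nat_lit 251) (nat_lit 234))) (XT.nd (nat_lit 78) (nat_lit 228) (nat_lit 0) (XT.lf (nat_lit 0) (nat_lit 3775720107) (nat_lit 304) (nat_lit 2971973618) (nat_lit 76) (nat_lit 4673815277) (nat_lit 64) (nat_lit 5) (nat_lit 68) (nat_lit 5) (nat_lit 65) (nat_lit 5) (nat_lit 296) (nat_lit 251) (nat_lit 233)) (XT.lf (nat_lit 0) (nat_lit 7992930881) (nat_lit 228) (nat_lit 1297645079) (nat_lit 304) (nat_lit 2482035561) (nat_lit 61) (nat_lit 5) (nat_lit 64) (nat_lit 5) (nat_lit 65) (nat_lit 5) (nat_lit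 297) (nat_lit 251) (nat_lit 232)))))) (XT.nd (nat_lit 468) (nat_lit 1140) (nat_lit 0) (XT.nd (nat_lit 234) (nat_lit 456) (nat_lit 0) (XT.nd (nat_lit 78) (nat_lit 456) (nat_lit 0) (XT.lf (nat_lit 0) (nat_lit 2871222190) (nat_lit 304) (nat_lit 4884198990) (nat_lit 76) (nat_lit 4385458067) (nat_lit 57) (nat_lit 5) (nat_lit 61) (nat_lit 5) (nat_lit 58) (nat_lit 5) (nat_lit 298) (nat_lit 251) (nat_lit 231)) (XT.nd (nat_lit 78) (nat_lit 228) (nat_lit 0) (XT.lf (nat_lit 0) (nat_lit 6243051074) (nat_lit 228) (nat_lit 2159599247) (nat_lit 304) (nat_lit 4125430403) (nat_lit 54) (nat_lit 5) (nat_lit 57) (nat_lit 5) (nat_lit 58) (nat_lit 5) (nat_lit 299) (nat_lit 251) (nat_lit 230)) (XT.lf (nat_lit 0) (nat_lit 1237789653) (nat_lit 228) (nat_lit 8026427259) (nat_lit 76) (nat_lit 3670561238) (nat_lit 51) (nat_lit 5) (nat_lit 54) (nat_lit 5) (nat_lit 52) (nat_lit 5) (nat_lit 300) (nat_lit 251) (nat_lit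 229)))) (XT.nd (nat_lit 78) (nat_lit 228) (nat_lit 0) (XT.lf (nat_lit 0) (nat_lit 3200461526) (nat_lit 228) (nat_lit 3558498319) (nat_lit 304) (nat_lit 6602471273) (nat_lit 48) (nat_lit 5) (nat_lit 51) (nat_lit 5) (nat_lit 52) (nat_lit 5) (nat_lit 301) (nat_lit 251) (nat_lit 228)) (XT.nd (nat_lit 78) (nat_lit 76) (nat_lit 0) (XT.lf (nat_lit 0) (nat_lit 1119520151) (nat_lit 152) (nat_lit 11414533301) (nat_lit 228) (nat_lit 1276121934) (nat_lit 46) (nat_lit 5) (nat_lit 48) (nat_lit 5) (nat_lit 49) (nat_lit 4) (nat_lit 302) (nat_lit 251) (nat_lit 227)) (XT.lf (nat_lit 0) (nat_lit 4237243102) (nat_lit 228) (nat_lit 1404188330) (nat_lit 76) (nat_lit 8638620223) (nat_lit 45) (nat_lit 5) (nat_lit 48) (nat_lit 5) (nat_lit 46) (nat_lit 5) (nat_lit 303) (nat_lit 251) (nat_lit 226))))) (XT.nd (nat_lit 234) (nat_lit 532) (nat_lit 0) (XT.nd (nat_lit 78) (nat_lit 380) (nat_lit 0) (XT.lf (nat_lit 0) (nat_lit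 9974576247) (nat_lit 304) (nat_lit 4354478569) (nat_lit 76) (nat_lit 444830416) (nat_lit 42) (nat_lit 5) (nat_lit 46) (nat_lit 5) (nat_lit 43) (nat_lit 4) (nat_lit 304) (nat_lit 251) (nat_lit 225)) (XT.nd (nat_lit 78) (nat_lit 152) (nat_lit 0) (XT.lf (nat_lit 0) (nat_lit 709124897) (nat_lit 228) (nat_lit 7849309228) (nat_lit 76) (nat_lit 6733353399) (nat_lit 39) (nat_lit 5) (nat_lit 42) (nat_lit 5) (nat_lit 40) (nat_lit 5) (nat_lit 305) (nat_lit 251) (nat_lit 224)) (XT.lf (nat_lit 0) (nat_lit 3906678665) (nat_lit 152) (nat_lit 2446881374) (nat_lit 228) (nat_lit 9481877614) (nat_lit 37) (nat_lit 5) (nat_lit 39) (nat_lit 5) (nat_lit 40) (nat_lit 5) (nat_lit 306) (nat_lit 251) (nat_lit 223)))) (XT.nd (nat_lit 156) (nat_lit 304) (nat_lit 0) (XT.nd (nat_lit 78) (nat_lit 228) (nat_lit 0) (XT.lf (nat_lit 0) (nat_lit 12279267601) (nat_lit 228) (nat_lit 231991835) (nat_lit 76) (nat_lit 3895109198)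 (nat_lit 37) (nat_lit 5) (nat_lit 40) (nat_lit 5) (nat_lit 38) (nat_lit 4) (nat_lit 307) (nat_lit 251) (nat_lit 222)) (XT.lf (nat_lit 0) (nat_lit 1492142273) (nat_lit 228) (nat_lit 4953370096) (nat_lit 76) (nat_lit 10559189886) (nat_lit 34) (nat_lit 5) (nat_lit 37) (nat_lit 5) (nat_lit 35) (nat_lit 5) (nat_lit 308) (nat_lit 251) (nat_lit 221))) (XT.nd (nat_lit 78) (nat_lit 152) (nat_lit 0) (XT.lf (nat_lit 0) (nat_lit 7229467521) (nat_lit 152) (nat_lit 37756889) (nat_lit 228) (nat_lit 10365756857) (nat_lit 32) (nat_lit 5) (nat_lit 34) (nat_lit 5) (nat_lit 35) (nat_lit 5) (nat_lit 309) (nat_lit 251) (nat_lit 220)) (XT.lf (nat_lit 0) (nat_lit 1612624612) (nat_lit 152) (nat_lit 11740118147) (nat_lit 228) (nat_lit 4939339601) (nat_lit 30) (nat_lit 5) (nat_lit 32) (nat_lit 5) (nat_lit 33) (nat_lit 4) (nat_lit 310) (nat_lit 251) (nat_lit 219))))))) (XT.nd (nat_lit 1014) (nat_lit 456) (nat_lit 0)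 (XT.nd (nat_lit 468) (nat_lit 608) (nat_lit 0) (XT.nd (nat_lit 234) (nat_lit 228) (nat_lit 0) (XT.nd (nat_lit 78) (nat_lit 228) (nat_lit 0) (XT.lf (nat_lit 0) (nat_lit 744869561) (nat_lit 228) (nat_lit 4727329084) (nat_lit 76) (nat_lit 13511737234) (nat_lit 29) (nat_lit 5) (nat_lit 32) (nat_lit 5) (nat_lit 30) (nat_lit 5) (nat_lit 311) (nat_lit 251) (nat_lit 218)) (XT.nd (nat_lit 78) (nat_lit 76) (nat_lit 0) (XT.lf (nat_lit 0) (nat_lit 6595588859) (nat_lit 228) (nat_lit 11973063248) (nat_lit 76) (nat_lit 1140780851) (nat_lit 27) (nat_lit 5) (nat_lit 30) (nat_lit 5) (nat_lit 28) (nat_lit 4) (nat_lit 312) (nat_lit 251) (nat_lit 217)) (XT.lf (nat_lit 0) (nat_lit 227891201) (nat_lit 76) (nat_lit 12517894728) (nat_lit 152) (nat_lit 7725259849) (nat_lit 26) (nat_lit 5) (nat_lit 27) (nat_lit 5) (nat_lit 28) (nat_lit 4) (nat_lit 313) (nat_lit 251) (nat_lit 216)))) (XT.nd (nat_lit 78) (nat_lit 228)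 (nat_lit 0) (XT.lf (nat_lit 0) (nat_lit 13120920663) (nat_lit 76) (nat_lit 6109325289) (nat_lit 152) (nat_lit 2039737497) (nat_lit 26) (nat_lit 5) (nat_lit 27) (nat_lit 5) (nat_lit 28) (nat_lit 4) (nat_lit 314) (nat_lit 251) (nat_lit 215)) (XT.nd (nat_lit 78) (nat_lit 0) (nat_lit 0) (XT.lf (nat_lit 0) (nat_lit 3809247668) (nat_lit 228) (nat_lit 17678902625) (nat_lit 76) (nat_lit 620951351) (nat_lit 23) (nat_lit 5) (nat_lit 26) (nat_lit 5) (nat_lit 24) (nat_lit 4) (nat_lit 315) (nat_lit 251) (nat_lit 214)) (XT.lf (nat_lit 0) (nat_lit 9964672885) (nat_lit 228) (nat_lit 5421528161) (nat_lit 76) (nat_lit 7601724783) (nat_lit 23) (nat_lit 5) (nat_lit 26) (nat_lit 5) (nat_lit 24) (nat_lit 4) (nat_lit 316) (nat_lit 251) (nat_lit 213))))) (XT.nd (nat_lit 234) (nat_lit 304) (nat_lit 0) (XT.nd (nat_lit 78) (nat_lit 228) (nat_lit 0) (XT.lf (nat_lit 0) (nat_lit 7442027828) (nat_lit 76) (nat_lit 8971095686)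 (nat_lit 152) (nat_lit 7498049337) (nat_lit 22) (nat_lit 5) (nat_lit 23) (nat_lit 5) (nat_lit 24) (nat_lit 4) (nat_lit 317) (nat_lit 251) (nat_lit 212)) (XT.nd (nat_lit 78) (nat_lit 228) (nat_lit 0) (XT.lf (nat_lit 0) (nat_lit 20914502058) (nat_lit 76) (nat_lit 2241711641) (nat_lit 152) (nat_lit 1725239397) (nat_lit 22) (nat_lit 5) (nat_lit 23) (nat_lit 5) (nat_lit 24) (nat_lit 4) (nat_lit 318) (nat_lit 251) (nat_lit 211)) (XT.lf (nat_lit 0) (nat_lit 4306228832) (nat_lit 228) (nat_lit 16790709778) (nat_lit 76) (nat_lit 4800453852) (nat_lit 19) (nat_lit 5) (nat_lit 22) (nat_lit 5) (nat_lit 20) (nat_lit 4) (nat_lit 319) (nat_lit 251) (nat_lit 210)))) (XT.nd (nat_lit 156) (nat_lit 228) (nat_lit 0) (XT.nd (nat_lit 78) (nat_lit 76) (nat_lit 0) (XT.lf (nat_lit 0) (nat_lit 10589277541) (nat_lit 228) (nat_lit 4226331889) (nat_lit 76) (nat_lit 12148469210) (nat_lit 19) (nat_lit 5) (nat_lit 22) (nat_lit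 5) (nat_lit 20) (nat_lit 4) (nat_lit 320) (nat_lit 251) (nat_lit 209)) (XT.lf (nat_lit 0) (nat_lit 9008840617) (nat_lit 76) (nat_lit 8189464427) (nat_lit 152) (nat_lit 10885470644) (nat_lit 18) (nat_lit 5) (nat_lit 19) (nat_lit 5) (nat_lit 20) (nat_lit 4) (nat_lit 321) (nat_lit 251) (nat_lit 208))) (XT.nd (nat_lit 78) (nat_lit 228) (nat_lit 0) (XT.lf (nat_lit 0) (nat_lit 22864689151) (nat_lit 76) (nat_lit 1244145700) (nat_lit 152) (nat_lit 5151521067) (nat_lit 18) (nat_lit 5) (nat_lit 19) (nat_lit 5) (nat_lit 20) (nat_lit 4) (nat_lit 322) (nat_lit 251) (nat_lit 207)) (XT.lf (nat_lit 0) (nat_lit 907319689) (nat_lit 228) (nat_lit 23634409966) (nat_lit 76) (nat_lit 5952157873) (nat_lit 15) (nat_lit 5) (nat_lit 18) (nat_lit 5) (nat_lit 16) (nat_lit 4) (nat_lit 323) (nat_lit 251) (nat_lit 206)))))) (XT.nd (nat_lit 546) (nat_lit 228) (nat_lit 0) (XT.nd (nat_lit 234) (nat_lit 152) (nat_lit 0) (XT.nd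 (nat_lit 78) (nat_lit 76) (nat_lit 0) (XT.lf (nat_lit 0) (nat_lit 7174523768) (nat_lit 228) (nat_lit 11063914863) (nat_lit 76) (nat_lit 13548794348) (nat_lit 15) (nat_lit 5) (nat_lit 18) (nat_lit 5) (nat_lit 16) (nat_lit 4) (nat_lit 324) (nat_lit 251) (nat_lit 205)) (XT.nd (nat_lit 78) (nat_lit 0) (nat_lit 0) (XT.lf (nat_lit 0) (nat_lit 2058493485) (nat_lit 76) (nat_lit 11651548905) (nat_lit 152) (nat_lit 19436579724) (nat_lit 14) (nat_lit 5) (nat_lit 15) (nat_lit 5) (nat_lit 16) (nat_lit 4) (nat_lit 325) (nat_lit 251) (nat_lit 204)) (XT.lf (nat_lit 0) (nat_lit 15954792879) (nat_lit 76) (nat_lit 4668601056) (nat_lit 152) (nat_lit 13949078911) (nat_lit 14) (nat_lit 5) (nat_lit 15) (nat_lit 5) (nat_lit 16) (nat_lit 4) (nat_lit 326) (nat_lit 251) (nat_lit 203)))) (XT.nd (nat_lit 156) (nat_lit 76) (nat_lit 0) (XT.nd (nat_lit 78) (nat_lit 76) (nat_lit 0) (XT.lf (nat_lit 0) (nat_lit 27847708942)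 (nat_lit 152) (nat_lit 5658697937) (nat_lit 0) (nat_lit 2564273072) (nat_lit 14) (nat_lit 5) (nat_lit 16) (nat_lit 4) (nat_lit 14) (nat_lit 4) (nat_lit 327) (nat_lit 251) (nat_lit 202)) (XT.lf (nat_lit 0) (nat_lit 7952109087) (nat_lit 76) (nat_lit 27547256993) (nat_lit 76) (nat_lit 2142469172) (nat_lit 13) (nat_lit 4) (nat_lit 14) (nat_lit 5) (nat_lit 14) (nat_lit 4) (nat_lit 328) (nat_lit 251) (nat_lit 201))) (XT.nd (nat_lit 78) (nat_lit 0) (nat_lit 0) (XT.lf (nat_lit 0) (nat_lit 4161863395) (nat_lit 152) (nat_lit 17071778415) (nat_lit 76) (nat_lit 18056625690) (nat_lit 12) (nat_lit 5) (nat_lit 14) (nat_lit 5) (nat_lit 13) (nat_lit 4) (nat_lit 329) (nat_lit 251) (nat_lit 200)) (XT.lf (nat_lit 0) (nat_lit 10683948668) (nat_lit 152) (nat_lit 3942015108) (nat_lit 76) (nat_lit 26396134887) (nat_lit 12) (nat_lit 5) (nat_lit 14) (nat_lit 5) (nat_lit 13) (nat_lit 4) (nat_lit 330) (nat_lit 251)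 (nat_lit 199))))) (XT.nd (nat_lit 234) (nat_lit 152) (nat_lit 0) (XT.nd (nat_lit 78) (nat_lit 0) (nat_lit 0) (XT.lf (nat_lit 0) (nat_lit 9945492193) (nat_lit 76) (nat_lit 7631232672) (nat_lit 152) (nat_lit 25262477063) (nat_lit 11) (nat_lit 5) (nat_lit 12) (nat_lit 5) (nat_lit 13) (nat_lit 4) (nat_lit 331) (nat_lit 251) (nat_lit 198)) (XT.nd (nat_lit 78) (nat_lit 0) (nat_lit 0) (XT.lf (nat_lit 0) (nat_lit 24519595405) (nat_lit 76) (nat_lit 285671215) (nat_lit 152) (nat_lit 19942177212) (nat_lit 11) (nat_lit 5) (nat_lit 12) (nat_lit 5) (nat_lit 13) (nat_lit 4) (nat_lit 332) (nat_lit 251) (nat_lit 197)) (XT.lf (nat_lit 0) (nat_lit 32419159393) (nat_lit 152) (nat_lit 7087008135) (nat_lit 0) (nat_lit 7244229040) (nat_lit 11) (nat_lit 5) (nat_lit 13) (nat_lit 4) (nat_lit 11) (nat_lit 4) (nat_lit 333) (nat_lit 251) (nat_lit 196)))) (XT.nd (nat_lit 156) (nat_lit 76) (nat_lit 0) (XT.nd (nat_lit 78)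 (nat_lit 0) (nat_lit 0) (XT.lf (nat_lit 0) (nat_lit 6757064927) (nat_lit 76) (nat_lit 33679308215) (nat_lit 76) (nat_lit 8416460682) (nat_lit 10) (nat_lit 4) (nat_lit 11) (nat_lit 5) (nat_lit 11) (nat_lit 4) (nat_lit 334) (nat_lit 251) (nat_lit 195)) (XT.lf (nat_lit 0) (nat_lit 21361031590) (nat_lit 76) (nat_lit 27522540363) (nat_lit 76) (nat_lit 2175962184) (nat_lit 10) (nat_lit 4) (nat_lit 11) (nat_lit 5) (nat_lit 11) (nat_lit 4) (nat_lit 335) (nat_lit 251) (nat_lit 194))) (XT.nd (nat_lit 78) (nat_lit 0) (nat_lit 0) (XT.lf (nat_lit 0) (nat_lit 4248988558) (nat_lit 152) (nat_lit 16800874878) (nat_lit 76) (nat_lit 32326722832) (nat_lit 9) (nat_lit 5) (nat_lit 11) (nat_lit 5) (nat_lit 10) (nat_lit 4) (nat_lit 336) (nat_lit 251) (nat_lit 193)) (XT.lf (nat_lit 0) (nat_lit 10910440834) (nat_lit 152) (nat_lit 3354072923) (nat_lit 76) (nat_lit 41545536380) (nat_lit 9) (nat_lit 5) (nat_lit 11) (nat_lit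 5) (nat_lit 10) (nat_lit 4) (nat_lit 337) (nat_lit 251) (nat_lit 192))))))))
noncomputable def xc35 : XT := (XT.nd (nat_lit 35880) (nat_lit 0) (nat_lit 3116) (XT.nd (nat_lit 1014) (nat_lit 76) (nat_lit 0) (XT.nd (nat_lit 468) (nat_lit 152) (nat_lit 0) (XT.nd (nat_lit 234) (nat_lit 76) (nat_lit 0) (XT.nd (nat_lit 78) (nat_lit 0) (nat_lit 0) (XT.lf (nat_lit 0) (nat_lit 10907684401) (nat_lit 76) (nat_lit 7063883036) (nat_lit 152) (nat_lit 40391634228) (nat_lit 8) (nat_lit 5) (nat_lit 9) (nat_lit 5) (nat_lit 10) (nat_lit 4) (nat_lit 338) (nat_lit 251) (nat_lit 191)) (XT.nd (nat_lit 78) (nat_lit 0) (nat_lit 0) (XT.lf (nat_lit 0) (nat_lit 25388011517) (nat_lit 152) (nat_lit 35164517172) (nat_lit 0) (nat_lit 491426169) (nat_lit 8) (nat_lit 5) (nat_lit 10) (nat_lit 4) (nat_lit 8) (nat_lit 4) (nat_lit 339) (nat_lit 251) (nat_lit 190)) (XT.lf (nat_lit 0) (nat_lit 33210972164) (nat_lit 152) (nat_lit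 22396021577) (nat_lit 0) (nat_lit 8250692493) (nat_lit 8) (nat_lit 5) (nat_lit 10) (nat_lit 4) (nat_lit 8) (nat_lit 4) (nat_lit 340) (nat_lit 251) (nat_lit 189)))) (XT.nd (nat_lit 78) (nat_lit 76) (nat_lit 0) (XT.lf (nat_lit 0) (nat_lit 41391173111) (nat_lit 152) (nat_lit 9051726934) (nat_lit 0) (nat_lit 16370232179) (nat_lit 8) (nat_lit 5) (nat_lit 10) (nat_lit 4) (nat_lit 8) (nat_lit 4) (nat_lit 341) (nat_lit 251) (nat_lit 188)) (XT.nd (nat_lit 78) (nat_lit 0) (nat_lit 0) (XT.lf (nat_lit 0) (nat_lit 4997661257) (nat_lit 76) (nat_lit 44998470345) (nat_lit 76) (nat_lit 19919756785) (nat_lit 7) (nat_lit 4) (nat_lit 8) (nat_lit 5) (nat_lit 8) (nat_lit 4) (nat_lit 342) (nat_lit 251) (nat_lit 187)) (XT.lf (nat_lit 0) (nat_lit 19880739444) (nat_lit 76) (nat_lit 39212465907) (nat_lit 76) (nat_lit 14078730796) (nat_lit 7) (nat_lit 4) (nat_lit 8) (nat_lit 5) (nat_lit 8) (nat_lit 4) (nat_lit 343)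 (nat_lit 251) (nat_lit 186))))) (XT.nd (nat_lit 234) (nat_lit 76) (nat_lit 0) (XT.nd (nat_lit 78) (nat_lit 76) (nat_lit 0) (XT.lf (nat_lit 0) (nat_lit 35452796413) (nat_lit 76) (nat_lit 33162515223) (nat_lit 76) (nat_lit 7976378634) (nat_lit 7) (nat_lit 4) (nat_lit 8) (nat_lit 5) (nat_lit 8) (nat_lit 4) (nat_lit 344) (nat_lit 251) (nat_lit 185)) (XT.nd (nat_lit 78) (nat_lit 76) (nat_lit 0) (XT.lf (nat_lit 0) (nat_lit 51750908490) (nat_lit 76) (nat_lit 26834213648) (nat_lit 76) (nat_lit 1598170891) (nat_lit 7) (nat_lit 4) (nat_lit 8) (nat_lit 5) (nat_lit 8) (nat_lit 4) (nat_lit 345) (nat_lit 251) (nat_lit 184)) (XT.lf (nat_lit 0) (nat_lit 4972123633) (nat_lit 152) (nat_lit 15190161465) (nat_lit 76) (nat_lit 63791548370) (nat_lit 6) (nat_lit 5) (nat_lit 8) (nat_lit 5) (nat_lit 7) (nat_lit 4) (nat_lit 346) (nat_lit 251) (nat_lit 183)))) (XT.nd (nat_lit 156) (nat_lit 0) (nat_lit 0) (XT.nd (nat_lit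 78) (nat_lit 76) (nat_lit 0) (XT.lf (nat_lit 0) (nat_lit 11812163911) (nat_lit 152) (nat_lit 1350146068) (nat_lit 76) (nat_lit 74750895572) (nat_lit 6) (nat_lit 5) (nat_lit 8) (nat_lit 5) (nat_lit 7) (nat_lit 4) (nat_lit 347) (nat_lit 251) (nat_lit 182)) (XT.lf (nat_lit 0) (nat_lit 13397408357) (nat_lit 76) (nat_lit 5700797549) (nat_lit 152) (nat_lit 72969227801) (nat_lit 5) (nat_lit 5) (nat_lit 6) (nat_lit 5) (nat_lit 7) (nat_lit 4) (nat_lit 348) (nat_lit 251) (nat_lit 181))) (XT.nd (nat_lit 78) (nat_lit 0) (nat_lit 0) (XT.lf (nat_lit 0) (nat_lit 26758867298) (nat_lit 152) (nat_lit 67584159138) (nat_lit 0) (nat_lit 2086044422) (nat_lit 5) (nat_lit 5) (nat_lit 7) (nat_lit 4) (nat_lit 5) (nat_lit 4) (nat_lit 349) (nat_lit 251) (nat_lit 180)) (XT.lf (nat_lit 0) (nat_lit 34837024933) (nat_lit 152) (nat_lit 56044499622) (nat_lit 0) (nat_lit 10126238184) (nat_lit 5) (nat_lit 5) (nat_lit 7) (nat_lit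 4) (nat_lit 5) (nat_lit 4) (nat_lit 350) (nat_lit 251) (nat_lit 179)))))) (XT.nd (nat_lit 468) (nat_lit 0) (nat_lit 0) (XT.nd (nat_lit 234) (nat_lit 76) (nat_lit 0) (XT.nd (nat_lit 78) (nat_lit 0) (nat_lit 0) (XT.lf (nat_lit 0) (nat_lit 43297112966) (nat_lit 152) (nat_lit 43968771869) (nat_lit 0) (nat_lit 18550170148) (nat_lit 5) (nat_lit 5) (nat_lit 7) (nat_lit 4) (nat_lit 5) (nat_lit 4) (nat_lit 351) (nat_lit 251) (nat_lit 178)) (XT.nd (nat_lit 78) (nat_lit 0) (nat_lit 0) (XT.lf (nat_lit 0) (nat_lit 52159274465) (nat_lit 152) (nat_lit 31328224148) (nat_lit 0) (nat_lit 27377897295) (nat_lit 5) (nat_lit 5) (nat_lit 7) (nat_lit 4) (nat_lit 5) (nat_lit 4) (nat_lit 352) (nat_lit 251) (nat_lit 177)) (XT.lf (nat_lit 0) (nat_lit 61444609813) (nat_lit 152) (nat_lit 18092759915) (nat_lit 0) (nat_lit 36630438022) (nat_lit 5) (nat_lit 5) (nat_lit 7) (nat_lit 4) (nat_lit 5) (nat_lit 4) (nat_lit 353)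 (nat_lit 251) (nat_lit 176)))) (XT.nd (nat_lit 78) (nat_lit 76) (nat_lit 0) (XT.lf (nat_lit 0) (nat_lit 71175226952) (nat_lit 152) (nat_lit 4230866160) (nat_lit 0) (nat_lit 46329822189) (nat_lit 5) (nat_lit 5) (nat_lit 7) (nat_lit 4) (nat_lit 5) (nat_lit 4) (nat_lit 354) (nat_lit 251) (nat_lit 175)) (XT.nd (nat_lit 78) (nat_lit 0) (nat_lit 0) (XT.lf (nat_lit 0) (nat_lit 10495261988) (nat_lit 76) (nat_lit 70979918908) (nat_lit 76) (nat_lit 46104768457) (nat_lit 4) (nat_lit 4) (nat_lit 5) (nat_lit 5) (nat_lit 5) (nat_lit 4) (nat_lit 355) (nat_lit 251) (nat_lit 174)) (XT.lf (nat_lit 0) (nat_lit 26013413422) (nat_lit 76) (nat_lit 66302737925) (nat_lit 76) (nat_lit 41399258248) (nat_lit 4) (nat_lit 4) (nat_lit 5) (nat_lit 5) (nat_lit 5) (nat_lit 4) (nat_lit 356) (nat_lit 251) (nat_lit 173))))) (XT.nd (nat_lit 234) (nat_lit 0) (nat_lit 0) (XT.nd (nat_lit 78) (nat_lit 0) (nat_lit 0) (XT.lf (nat_lit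 0) (nat_lit 42276333588) (nat_lit 76) (nat_lit 61406137470) (nat_lit 76) (nat_lit 36475677577) (nat_lit 4) (nat_lit 4) (nat_lit 5) (nat_lit 5) (nat_lit 5) (nat_lit 4) (nat_lit 357) (nat_lit 251) (nat_lit 172)) (XT.nd (nat_lit 78) (nat_lit 0) (nat_lit 0) (XT.lf (nat_lit 0) (nat_lit 59322743725) (nat_lit 76) (nat_lit 56278458971) (nat_lit 76) (nat_lit 31322303634) (nat_lit 4) (nat_lit 4) (nat_lit 5) (nat_lit 5) (nat_lit 5) (nat_lit 4) (nat_lit 358) (nat_lit 251) (nat_lit 171)) (XT.lf (nat_lit 0) (nat_lit 77193230524) (nat_lit 76) (nat_lit 50907493669) (nat_lit 76) (nat_lit 25926866481) (nat_lit 4) (nat_lit 4) (nat_lit 5) (nat_lit 5) (nat_lit 5) (nat_lit 4) (nat_lit 359) (nat_lit 251) (nat_lit 170)))) (XT.nd (nat_lit 156) (nat_lit 0) (nat_lit 0) (XT.nd (nat_lit 78) (nat_lit 0) (nat_lit 0) (XT.lf (nat_lit 0) (nat_lit 95930342762) (nat_lit 76) (nat_lit 45280453551) (nat_lit 76) (nat_lit 20276519839)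 (nat_lit 4) (nat_lit 4) (nat_lit 5) (nat_lit 5) (nat_lit 5) (nat_lit 4) (nat_lit 360) (nat_lit 251) (nat_lit 169)) (XT.lf (nat_lit 0) (nat_lit 115578692613) (nat_lit 76) (nat_lit 39383940904) (nat_lit 76) (nat_lit 14357810502) (nat_lit 4) (nat_lit 4) (nat_lit 5) (nat_lit 5) (nat_lit 5) (nat_lit 4) (nat_lit 361) (nat_lit 251) (nat_lit 168))) (XT.nd (nat_lit 33930) (nat_lit 0) (nat_lit 13832) (XT.lf (nat_lit 0) (nat_lit 136185061860) (nat_lit 76) (nat_lit 33203916411) (nat_lit 76) (nat_lit 8156646304) (nat_lit 4) (nat_lit 4) (nat_lit 5) (nat_lit 5) (nat_lit 5) (nat_lit 4) (nat_lit 362) (nat_lit 251) (nat_lit 167)) (XT.lf (nat_lit 0) (nat_lit 900539781) (nat_lit 1140) (nat_lit 1362000833) (nat_lit 1140) (nat_lit 1362000833) (nat_lit 186) (nat_lit 4) (nat_lit 201) (nat_lit 5) (nat_lit 201) (nat_lit 4) (nat_lit 276) (nat_lit 252) (nat_lit 252))))))) (XT.nd (nat_lit 1014) (nat_lit 3724) (nat_lit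 0) (XT.nd (nat_lit 468) (nat_lit 3420) (nat_lit 0) (XT.nd (nat_lit 234) (nat_lit 1672) (nat_lit 0) (XT.nd (nat_lit 78) (nat_lit 1216) (nat_lit 0) (XT.lf (nat_lit 0) (nat_lit 2586461959) (nat_lit 684) (nat_lit 4698359724) (nat_lit 0) (nat_lit 73093201) (nat_lit 177) (nat_lit 5) (nat_lit 186) (nat_lit 4) (nat_lit 177) (nat_lit 4) (nat_lit 277) (nat_lit 252) (nat_lit 251)) (XT.nd (nat_lit 78) (nat_lit 532) (nat_lit 0) (XT.lf (nat_lit 0) (nat_lit 483901782) (nat_lit 684) (nat_lit 3924732670) (nat_lit 76) (nat_lit 3067129493) (nat_lit 168) (nat_lit 5) (nat_lit 177) (nat_lit 5) (nat_lit 169) (nat_lit 4) (nat_lit 278) (nat_lit 252) (nat_lit 250)) (XT.lf (nat_lit 0) (nat_lit 4480554604) (nat_lit 532) (nat_lit 1266887487) (nat_lit 608) (nat_lit 1855717684) (nat_lit 161) (nat_lit 5) (nat_lit 168) (nat_lit 5) (nat_lit 169) (nat_lit 4) (nat_lit 279) (nat_lit 252) (nat_lit 249)))) (XT.nd (nat_lit 78)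 (nat_lit 1064) (nat_lit 0) (XT.lf (nat_lit 0) (nat_lit 3339833493) (nat_lit 608) (nat_lit 2305473227) (nat_lit 76) (nat_lit 2094814720) (nat_lit 153) (nat_lit 5) (nat_lit 161) (nat_lit 5) (nat_lit 154) (nat_lit 4) (nat_lit 280) (nat_lit 252) (nat_lit 248)) (XT.nd (nat_lit 78) (nat_lit 532) (nat_lit 0) (XT.lf (nat_lit 0) (nat_lit 728759574) (nat_lit 532) (nat_lit 1467051196) (nat_lit 76) (nat_lit 5691482674) (nat_lit 146) (nat_lit 5) (nat_lit 153) (nat_lit 5) (nat_lit 147) (nat_lit 5) (nat_lit 281) (nat_lit 252) (nat_lit 247)) (XT.lf (nat_lit 0) (nat_lit 5906821729) (nat_lit 608) (nat_lit 635167687) (nat_lit 76) (nat_lit 1502341865) (nat_lit 139) (nat_lit 5) (nat_lit 147) (nat_lit 5) (nat_lit 140) (nat_lit 4) (nat_lit 282) (nat_lit 252) (nat_lit 246))))) (XT.nd (nat_lit 234) (nat_lit 1596) (nat_lit 0) (XT.nd (nat_lit 78) (nat_lit 836) (nat_lit 0) (XT.lf (nat_lit 0) (nat_lit 191191000) (nat_lit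 456) (nat_lit 2781823028) (nat_lit 532) (nat_lit 5238611648) (nat_lit 126) (nat_lit 5) (nat_lit 132) (nat_lit 5) (nat_lit 133) (nat_lit 5) (nat_lit 283) (nat_lit 252) (nat_lit 245)) (XT.nd (nat_lit 78) (nat_lit 456) (nat_lit 0) (XT.lf (nat_lit 0) (nat_lit 1029859567) (nat_lit 380) (nat_lit 7166750616) (nat_lit 456) (nat_lit 193270006) (nat_lit 121) (nat_lit 5) (nat_lit 126) (nat_lit 5) (nat_lit 127) (nat_lit 4) (nat_lit 284) (nat_lit 252) (nat_lit 244)) (XT.lf (nat_lit 0) (nat_lit 1813921612) (nat_lit 380) (nat_lit 3108350641) (nat_lit 456) (nat_lit 3656038652) (nat_lit 115) (nat_lit 5) (nat_lit 120) (nat_lit 5) (nat_lit 121) (nat_lit 5) (nat_lit 285) (nat_lit 252) (nat_lit 243)))) (XT.nd (nat_lit 156) (nat_lit 760) (nat_lit 0) (XT.nd (nat_lit 78) (nat_lit 380) (nat_lit 0) (XT.lf (nat_lit 0) (nat_lit 1391031318) (nat_lit 456) (nat_lit 6196704521) (nat_lit 76) (nat_lit 1190963040) (nat_lit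 109) (nat_lit 5) (nat_lit 115) (nat_lit 5) (nat_lit 110) (nat_lit 5) (nat_lit 286) (nat_lit 252) (nat_lit 242)) (XT.lf (nat_lit 0) (nat_lit 3281259519) (nat_lit 380) (nat_lit 3268213637) (nat_lit 456) (nat_lit 2440738571) (nat_lit 104) (nat_lit 5) (nat_lit 109) (nat_lit 5) (nat_lit 110) (nat_lit 5) (nat_lit 287) (nat_lit 252) (nat_lit 241))) (XT.nd (nat_lit 78) (nat_lit 380) (nat_lit 0) (XT.lf (nat_lit 0) (nat_lit 2620538280) (nat_lit 380) (nat_lit 5285620854) (nat_lit 76) (nat_lit 1307938033) (nat_lit 99) (nat_lit 5) (nat_lit 104) (nat_lit 5) (nat_lit 100) (nat_lit 5) (nat_lit 288) (nat_lit 252) (nat_lit 240)) (XT.lf (nat_lit 0) (nat_lit 4490995135) (nat_lit 380) (nat_lit 3341179546) (nat_lit 456) (nat_lit 1618046862) (nat_lit 94) (nat_lit 5) (nat_lit 99) (nat_lit 5) (nat_lit 100) (nat_lit 5) (nat_lit 289) (nat_lit 252) (nat_lit 239)))))) (XT.nd (nat_lit 546) (nat_lit 1444) (nat_lit 0) (XT.nd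 (nat_lit 234) (nat_lit 1216) (nat_lit 0) (XT.nd (nat_lit 78) (nat_lit 684) (nat_lit 0) (XT.lf (nat_lit 0) (nat_lit 3469667610) (nat_lit 380) (nat_lit 4736599735) (nat_lit 76) (nat_lit 1493018468) (nat_lit 89) (nat_lit 5) (nat_lit 94) (nat_lit 5) (nat_lit 90) (nat_lit 5) (nat_lit 290) (nat_lit 252) (nat_lit 238)) (XT.nd (nat_lit 78) (nat_lit 380) (nat_lit 0) (XT.lf (nat_lit 0) (nat_lit 5326360991) (nat_lit 304) (nat_lit 3410790774) (nat_lit 380) (nat_lit 1224584128) (nat_lit 85) (nat_lit 5) (nat_lit 89) (nat_lit 5) (nat_lit 90) (nat_lit 5) (nat_lit 291) (nat_lit 252) (nat_lit 237)) (XT.lf (nat_lit 0) (nat_lit 3897503951) (nat_lit 380) (nat_lit 4678003600) (nat_lit 76) (nat_lit 1662440058) (nat_lit 80) (nat_lit 5) (nat_lit 85) (nat_lit 5) (nat_lit 81) (nat_lit 5) (nat_lit 292) (nat_lit 252) (nat_lit 236)))) (XT.nd (nat_lit 156) (nat_lit 608) (nat_lit 0) (XT.nd (nat_lit 78) (nat_lit 304) (nat_lit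 0) (XT.lf (nat_lit 0) (nat_lit 5652572659) (nat_lit 304) (nat_lit 3566536466) (nat_lit 380) (nat_lit 1309592184) (nat_lit 76) (nat_lit 5) (nat_lit 80) (nat_lit 5) (nat_lit 81) (nat_lit 5) (nat_lit 293) (nat_lit 252) (nat_lit 235)) (XT.lf (nat_lit 0) (nat_lit 3850113796) (nat_lit 304) (nat_lit 5258609125) (nat_lit 76) (nat_lit 1725624490) (nat_lit 72) (nat_lit 5) (nat_lit 76) (nat_lit 5) (nat_lit 73) (nat_lit 5) (nat_lit 294) (nat_lit 252) (nat_lit 234))) (XT.nd (nat_lit 78) (nat_lit 304) (nat_lit 0) (XT.lf (nat_lit 0) (nat_lit 5312856612) (nat_lit 304) (nat_lit 3906233770) (nat_lit 380) (nat_lit 1936583882) (nat_lit 68) (nat_lit 5) (nat_lit 72) (nat_lit 5) (nat_lit 73) (nat_lit 5) (nat_lit 295) (nat_lit 252) (nat_lit 233)) (XT.lf (nat_lit 0) (nat_lit 3258760607) (nat_lit 304) (nat_lit 6651915953) (nat_lit 76) (nat_lit 1582720685) (nat_lit 64) (nat_lit 5) (nat_lit 68) (nat_lit 5) (nat_lit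 65) (nat_lit 5) (nat_lit 296) (nat_lit 252) (nat_lit 232))))) (XT.nd (nat_lit 234) (nat_lit 684) (nat_lit 0) (XT.nd (nat_lit 78) (nat_lit 532) (nat_lit 0) (XT.lf (nat_lit 0) (nat_lit 4123865571) (nat_lit 228) (nat_lit 4538674953) (nat_lit 304) (nat_lit 3185351023) (nat_lit 61) (nat_lit 5) (nat_lit 64) (nat_lit 5) (nat_lit 65) (nat_lit 5) (nat_lit 297) (nat_lit 252) (nat_lit 231)) (XT.nd (nat_lit 78) (nat_lit 228) (nat_lit 0) (XT.lf (nat_lit 0) (nat_lit 2037744936) (nat_lit 304) (nat_lit 9061132270) (nat_lit 76) (nat_lit 1121856493) (nat_lit 57) (nat_lit 5) (nat_lit 61) (nat_lit 5) (nat_lit 58) (nat_lit 5) (nat_lit 298) (nat_lit 252) (nat_lit 230)) (XT.lf (nat_lit 0) (nat_lit 1870366260) (nat_lit 228) (nat_lit 5586604054) (nat_lit 304) (nat_lit 5154383345) (nat_lit 54) (nat_lit 5) (nat_lit 57) (nat_lit 5) (nat_lit 58) (nat_lit 5) (nat_lit 299) (nat_lit 252) (nat_lit 229)))) (XT.nd (nat_lit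 156) (nat_lit 456) (nat_lit 0) (XT.nd (nat_lit 78) (nat_lit 0) (nat_lit 0) (XT.lf (nat_lit 0) (nat_lit 81812804) (nat_lit 228) (nat_lit 12724962310) (nat_lit 76) (nat_lit 216034226) (nat_lit 51) (nat_lit 5) (nat_lit 54) (nat_lit 5) (nat_lit 52) (nat_lit 5) (nat_lit 300) (nat_lit 252) (nat_lit 228)) (XT.lf (nat_lit 0) (nat_lit 5505511894) (nat_lit 228) (nat_lit 1667742646) (nat_lit 76) (nat_lit 6279178048) (nat_lit 51) (nat_lit 5) (nat_lit 54) (nat_lit 5) (nat_lit 52) (nat_lit 5) (nat_lit 301) (nat_lit 252) (nat_lit 227))) (XT.nd (nat_lit 78) (nat_lit 228) (nat_lit 0) (XT.lf (nat_lit 0) (nat_lit 9926716364) (nat_lit 228) (nat_lit 1238865119) (nat_lit 304) (nat_lit 2739090043) (nat_lit 48) (nat_lit 5) (nat_lit 51) (nat_lit 5) (nat_lit 52) (nat_lit 5) (nat_lit 302) (nat_lit 252) (nat_lit 226)) (XT.lf (nat_lit 0) (nat_lit 2688057471) (nat_lit 228) (nat_lit 6754156162) (nat_lit 76) (nat_lit 4936239643)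 (nat_lit 45) (nat_lit 5) (nat_lit 48) (nat_lit 5) (nat_lit 46) (nat_lit 5) (nat_lit 303) (nat_lit 252) (nat_lit 225))))))))
noncomputable def xc36 : XT := (XT.nd (nat_lit 2028) (nat_lit 684) (nat_lit 0) (XT.nd (nat_lit 1014) (nat_lit 760) (nat_lit 0) (XT.nd (nat_lit 468) (nat_lit 684) (nat_lit 0) (XT.nd (nat_lit 234) (nat_lit 532) (nat_lit 0) (XT.nd (nat_lit 78) (nat_lit 228) (nat_lit 0) (XT.lf (nat_lit 0) (nat_lit 4866422375) (nat_lit 228) (nat_lit 3440736845) (nat_lit 304) (nat_lit 6568713278) (nat_lit 42) (nat_lit 5) (nat_lit 45) (nat_lit 5) (nat_lit 46) (nat_lit 5) (nat_lit 304) (nat_lit 252) (nat_lit 224)) (XT.nd (nat_lit 78) (nat_lit 76) (nat_lit 0) (XT.lf (nat_lit 0) (nat_lit 1616260303) (nat_lit 152) (nat_lit 12583550599) (nat_lit 228) (nat_lit 1198649493) (nat_lit 40) (nat_lit 5) (nat_lit 42) (nat_lit 5) (nat_lit 43) (nat_lit 4) (nat_lit 305) (nat_lit 252) (nat_lit 223)) (XT.lf (nat_lit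 0) (nat_lit 4374057188) (nat_lit 228) (nat_lit 2186955444) (nat_lit 76) (nat_lit 9384331190) (nat_lit 39) (nat_lit 5) (nat_lit 42) (nat_lit 5) (nat_lit 40) (nat_lit 5) (nat_lit 306) (nat_lit 252) (nat_lit 222)))) (XT.nd (nat_lit 78) (nat_lit 380) (nat_lit 0) (XT.lf (nat_lit 0) (nat_lit 9983271666) (nat_lit 152) (nat_lit 201144488) (nat_lit 228) (nat_lit 6335351565) (nat_lit 37) (nat_lit 5) (nat_lit 39) (nat_lit 5) (nat_lit 40) (nat_lit 5) (nat_lit 307) (nat_lit 252) (nat_lit 221)) (XT.nd (nat_lit 78) (nat_lit 228) (nat_lit 0) (XT.lf (nat_lit 0) (nat_lit 5546485668) (nat_lit 152) (nat_lit 10767624912) (nat_lit 228) (nat_lit 808001075) (nat_lit 35) (nat_lit 5) (nat_lit 37) (nat_lit 5) (nat_lit 38) (nat_lit 4) (nat_lit 308) (nat_lit 252) (nat_lit 220)) (XT.lf (nat_lit 0) (nat_lit 392972198) (nat_lit 152) (nat_lit 4471909421) (nat_lit 228) (nat_lit 12889309634) (nat_lit 32) (nat_lit 5) (nat_lit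 34) (nat_lit 5) (nat_lit 35) (nat_lit 5) (nat_lit 309) (nat_lit 252) (nat_lit 219))))) (XT.nd (nat_lit 234) (nat_lit 304) (nat_lit 0) (XT.nd (nat_lit 78) (nat_lit 380) (nat_lit 0) (XT.lf (nat_lit 0) (nat_lit 10841344592) (nat_lit 228) (nat_lit 5421190962) (nat_lit 76) (nat_lit 2154055676) (nat_lit 32) (nat_lit 5) (nat_lit 35) (nat_lit 5) (nat_lit 33) (nat_lit 4) (nat_lit 310) (nat_lit 252) (nat_lit 218)) (XT.nd (nat_lit 78) (nat_lit 228) (nat_lit 0) (XT.lf (nat_lit 0) (nat_lit 7037656135) (nat_lit 152) (nat_lit 10092326028) (nat_lit 228) (nat_lit 1981781647) (nat_lit 30) (nat_lit 5) (nat_lit 32) (nat_lit 5) (nat_lit 33) (nat_lit 4) (nat_lit 311) (nat_lit 252) (nat_lit 217)) (XT.lf (nat_lit 0) (nat_lit 191002179) (nat_lit 152) (nat_lit 3585321280) (nat_lit 228) (nat_lit 16065471481) (nat_lit 27) (nat_lit 5) (nat_lit 29) (nat_lit 5) (nat_lit 30) (nat_lit 5) (nat_lit 312) (nat_lit 252) (nat_lit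 216)))) (XT.nd (nat_lit 156) (nat_lit 228) (nat_lit 0) (XT.nd (nat_lit 78) (nat_lit 76) (nat_lit 0) (XT.lf (nat_lit 0) (nat_lit 9843581489) (nat_lit 228) (nat_lit 7500256514) (nat_lit 76) (nat_lit 3262080760) (nat_lit 27) (nat_lit 5) (nat_lit 30) (nat_lit 5) (nat_lit 28) (nat_lit 4) (nat_lit 313) (nat_lit 252) (nat_lit 215)) (XT.lf (nat_lit 0) (nat_lit 5165373278) (nat_lit 76) (nat_lit 11044305169) (nat_lit 152) (nat_lit 5198750621) (nat_lit 26) (nat_lit 5) (nat_lit 27) (nat_lit 5) (nat_lit 28) (nat_lit 4) (nat_lit 314) (nat_lit 252) (nat_lit 214))) (XT.nd (nat_lit 78) (nat_lit 152) (nat_lit 0) (XT.lf (nat_lit 0) (nat_lit 620005091) (nat_lit 152) (nat_lit 3789016774) (nat_lit 76) (nat_lit 17842212689) (nat_lit 25) (nat_lit 5) (nat_lit 27) (nat_lit 5) (nat_lit 26) (nat_lit 5) (nat_lit 315) (nat_lit 252) (nat_lit 213)) (XT.lf (nat_lit 0) (nat_lit 6653443723) (nat_lit 228) (nat_lit 13890751582)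 (nat_lit 76) (nat_lit 2589542180) (nat_lit 23) (nat_lit 5) (nat_lit 26) (nat_lit 5) (nat_lit 24) (nat_lit 4) (nat_lit 316) (nat_lit 252) (nat_lit 212)))))) (XT.nd (nat_lit 468) (nat_lit 380) (nat_lit 0) (XT.nd (nat_lit 234) (nat_lit 76) (nat_lit 0) (XT.nd (nat_lit 78) (nat_lit 304) (nat_lit 0) (XT.lf (nat_lit 0) (nat_lit 12990271931) (nat_lit 228) (nat_lit 1242989165) (nat_lit 76) (nat_lit 9827090319) (nat_lit 23) (nat_lit 5) (nat_lit 26) (nat_lit 5) (nat_lit 24) (nat_lit 4) (nat_lit 317) (nat_lit 252) (nat_lit 211)) (XT.nd (nat_lit 78) (nat_lit 228) (nat_lit 0) (XT.lf (nat_lit 0) (nat_lit 12136197292) (nat_lit 76) (nat_lit 7546143428) (nat_lit 152) (nat_lit 5349838948) (nat_lit 22) (nat_lit 5) (nat_lit 23) (nat_lit 5) (nat_lit 24) (nat_lit 4) (nat_lit 318) (nat_lit 252) (nat_lit 210)) (XT.lf (nat_lit 0) (nat_lit 16596811) (nat_lit 152) (nat_lit 563484405) (nat_lit 228) (nat_lit 25474267444)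 (nat_lit 19) (nat_lit 5) (nat_lit 21) (nat_lit 5) (nat_lit 22) (nat_lit 5) (nat_lit 319) (nat_lit 252) (nat_lit 209)))) (XT.nd (nat_lit 78) (nat_lit 76) (nat_lit 0) (XT.lf (nat_lit 0) (nat_lit 6821239160) (nat_lit 228) (nat_lit 13532942382) (nat_lit 76) (nat_lit 6768125312) (nat_lit 19) (nat_lit 5) (nat_lit 22) (nat_lit 5) (nat_lit 20) (nat_lit 4) (nat_lit 320) (nat_lit 252) (nat_lit 208)) (XT.nd (nat_lit 78) (nat_lit 76) (nat_lit 0) (XT.lf (nat_lit 0) (nat_lit 13308930834) (nat_lit 228) (nat_lit 535455260) (nat_lit 76) (nat_lit 14401272448) (nat_lit 19) (nat_lit 5) (nat_lit 22) (nat_lit 5) (nat_lit 20) (nat_lit 4) (nat_lit 321) (nat_lit 252) (nat_lit 207)) (XT.lf (nat_lit 0) (nat_lit 13249620286) (nat_lit 76) (nat_lit 6930929736) (nat_lit 152) (nat_lit 9242869942) (nat_lit 18) (nat_lit 5) (nat_lit 19) (nat_lit 5) (nat_lit 20) (nat_lit 4) (nat_lit 322) (nat_lit 252) (nat_lit 206))))) (XT.nd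 (nat_lit 234) (nat_lit 152) (nat_lit 0) (XT.nd (nat_lit 78) (nat_lit 228) (nat_lit 0) (XT.lf (nat_lit 0) (nat_lit 27338255929) (nat_lit 152) (nat_lit 3046846705) (nat_lit 0) (nat_lit 276718733) (nat_lit 18) (nat_lit 5) (nat_lit 20) (nat_lit 4) (nat_lit 18) (nat_lit 4) (nat_lit 323) (nat_lit 252) (nat_lit 205)) (XT.nd (nat_lit 78) (nat_lit 0) (nat_lit 0) (XT.lf (nat_lit 0) (nat_lit 2946700642) (nat_lit 228) (nat_lit 21224429345) (nat_lit 76) (nat_lit 7786861271) (nat_lit 15) (nat_lit 5) (nat_lit 18) (nat_lit 5) (nat_lit 16) (nat_lit 4) (nat_lit 324) (nat_lit 252) (nat_lit 204)) (XT.lf (nat_lit 0) (nat_lit 9432311832) (nat_lit 228) (nat_lit 8196442873) (nat_lit 76) (nat_lit 15690134546) (nat_lit 15) (nat_lit 5) (nat_lit 18) (nat_lit 5) (nat_lit 16) (nat_lit 4) (nat_lit 325) (nat_lit 252) (nat_lit 203)))) (XT.nd (nat_lit 156) (nat_lit 76) (nat_lit 0) (XT.nd (nat_lit 78) (nat_lit 0) (nat_lit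 0) (XT.lf (nat_lit 0) (nat_lit 5484033138) (nat_lit 76) (nat_lit 10752080736) (nat_lit 152) (nat_lit 18511923673) (nat_lit 14) (nat_lit 5) (nat_lit 15) (nat_lit 5) (nat_lit 16) (nat_lit 4) (nat_lit 326) (nat_lit 252) (nat_lit 202)) (XT.lf (nat_lit 0) (nat_lit 19916927741) (nat_lit 76) (nat_lit 3490559095) (nat_lit 152) (nat_lit 12840356630) (nat_lit 14) (nat_lit 5) (nat_lit 15) (nat_lit 5) (nat_lit 16) (nat_lit 4) (nat_lit 327) (nat_lit 252) (nat_lit 201))) (XT.nd (nat_lit 78) (nat_lit 76) (nat_lit 0) (XT.lf (nat_lit 0) (nat_lit 30922466901) (nat_lit 152) (nat_lit 2890127780) (nat_lit 0) (nat_lit 4010514450) (nat_lit 14) (nat_lit 5) (nat_lit 16) (nat_lit 4) (nat_lit 14) (nat_lit 4) (nat_lit 328) (nat_lit 252) (nat_lit 200)) (XT.lf (nat_lit 0) (nat_lit 11313748815) (nat_lit 76) (nat_lit 27591337214) (nat_lit 76) (nat_lit 569314966) (nat_lit 13) (nat_lit 4) (nat_lit 14) (nat_lit 5) (nat_lit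 14) (nat_lit 4) (nat_lit 329) (nat_lit 252) (nat_lit 199))))))) (XT.nd (nat_lit 1014) (nat_lit 304) (nat_lit 0) (XT.nd (nat_lit 468) (nat_lit 152) (nat_lit 0) (XT.nd (nat_lit 234) (nat_lit 76) (nat_lit 0) (XT.nd (nat_lit 78) (nat_lit 76) (nat_lit 0) (XT.lf (nat_lit 0) (nat_lit 5938994084) (nat_lit 152) (nat_lit 15070692634) (nat_lit 76) (nat_lit 20197465038) (nat_lit 12) (nat_lit 5) (nat_lit 14) (nat_lit 5) (nat_lit 13) (nat_lit 4) (nat_lit 330) (nat_lit 252) (nat_lit 198)) (XT.nd (nat_lit 78) (nat_lit 76) (nat_lit 0) (XT.lf (nat_lit 0) (nat_lit 12712467548) (nat_lit 152) (nat_lit 1420378052) (nat_lit 76) (nat_lit 28894996930) (nat_lit 12) (nat_lit 5) (nat_lit 14) (nat_lit 5) (nat_lit 13) (nat_lit 4) (nat_lit 331) (nat_lit 252) (nat_lit 197)) (XT.lf (nat_lit 0) (nat_lit 13083572540) (nat_lit 76) (nat_lit 6820536891) (nat_lit 152) (nat_lit 25033090027) (nat_lit 11) (nat_lit 5) (nat_lit 12)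 (nat_lit 5) (nat_lit 13) (nat_lit 4) (nat_lit 332) (nat_lit 252) (nat_lit 196)))) (XT.nd (nat_lit 78) (nat_lit 76) (nat_lit 0) (XT.lf (nat_lit 0) (nat_lit 27433131394) (nat_lit 152) (nat_lit 18690350265) (nat_lit 0) (nat_lit 819224305) (nat_lit 11) (nat_lit 5) (nat_lit 13) (nat_lit 4) (nat_lit 11) (nat_lit 4) (nat_lit 333) (nat_lit 252) (nat_lit 195)) (XT.nd (nat_lit 78) (nat_lit 76) (nat_lit 0) (XT.lf (nat_lit 0) (nat_lit 35364388593) (nat_lit 152) (nat_lit 5016589748) (nat_lit 0) (nat_lit 8666750857) (nat_lit 11) (nat_lit 5) (nat_lit 13) (nat_lit 4) (nat_lit 11) (nat_lit 4) (nat_lit 334) (nat_lit 252) (nat_lit 194)) (XT.lf (nat_lit 0) (nat_lit 9450181457) (nat_lit 76) (nat_lit 34291861268) (nat_lit 76) (nat_lit 7514480060) (nat_lit 10) (nat_lit 4) (nat_lit 11) (nat_lit 5) (nat_lit 11) (nat_lit 4) (nat_lit 335) (nat_lit 252) (nat_lit 193))))) (XT.nd (nat_lit 234) (nat_lit 76) (nat_lit 0)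 (XT.nd (nat_lit 78) (nat_lit 76) (nat_lit 0) (XT.lf (nat_lit 0) (nat_lit 24672191059) (nat_lit 76) (nat_lit 27878274660) (nat_lit 76) (nat_lit 1024947287) (nat_lit 10) (nat_lit 4) (nat_lit 11) (nat_lit 5) (nat_lit 11) (nat_lit 4) (nat_lit 336) (nat_lit 252) (nat_lit 192)) (XT.nd (nat_lit 78) (nat_lit 0) (nat_lit 0) (XT.lf (nat_lit 0) (nat_lit 5637847050) (nat_lit 152) (nat_lit 15480827542) (nat_lit 76) (nat_lit 34891063713) (nat_lit 9) (nat_lit 5) (nat_lit 11) (nat_lit 5) (nat_lit 10) (nat_lit 4) (nat_lit 337) (nat_lit 252) (nat_lit 191)) (XT.lf (nat_lit 0) (nat_lit 12576352460) (nat_lit 152) (nat_lit 1464546969) (nat_lit 76) (nat_lit 44525674855) (nat_lit 9) (nat_lit 5) (nat_lit 11) (nat_lit 5) (nat_lit 10) (nat_lit 4) (nat_lit 338) (nat_lit 252) (nat_lit 190)))) (XT.nd (nat_lit 156) (nat_lit 0) (nat_lit 0) (XT.nd (nat_lit 78) (nat_lit 0) (nat_lit 0) (XT.lf (nat_lit 0) (nat_lit 13451328148)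 (nat_lit 76) (nat_lit 6505063854) (nat_lit 152) (nat_lit 41292033150) (nat_lit 8) (nat_lit 5) (nat_lit 9) (nat_lit 5) (nat_lit 10) (nat_lit 4) (nat_lit 339) (nat_lit 252) (nat_lit 189)) (XT.lf (nat_lit 0) (nat_lit 27700281639) (nat_lit 152) (nat_lit 34996619894) (nat_lit 0) (nat_lit 1367632400) (nat_lit 8) (nat_lit 5) (nat_lit 10) (nat_lit 4) (nat_lit 8) (nat_lit 4) (nat_lit 340) (nat_lit 252) (nat_lit 188))) (XT.nd (nat_lit 78) (nat_lit 0) (nat_lit 0) (XT.lf (nat_lit 0) (nat_lit 35864729863) (nat_lit 152) (nat_lit 21681419669) (nat_lit 0) (nat_lit 9474307996) (nat_lit 8) (nat_lit 5) (nat_lit 10) (nat_lit 4) (nat_lit 8) (nat_lit 4) (nat_lit 341) (nat_lit 252) (nat_lit 187)) (XT.lf (nat_lit 0) (nat_lit 44406645186) (nat_lit 152) (nat_lit 7757262817) (nat_lit 0) (nat_lit 17961201768) (nat_lit 8) (nat_lit 5) (nat_lit 10) (nat_lit 4) (nat_lit 8) (nat_lit 4) (nat_lit 342) (nat_lit 252) (nat_lit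 186)))))) (XT.nd (nat_lit 546) (nat_lit 76) (nat_lit 0) (XT.nd (nat_lit 234) (nat_lit 152) (nat_lit 0) (XT.nd (nat_lit 78) (nat_lit 0) (nat_lit 0) (XT.lf (nat_lit 0) (nat_lit 6944515933) (nat_lit 76) (nat_lit 46468604503) (nat_lit 76) (nat_lit 19970759607) (nat_lit 7) (nat_lit 4) (nat_lit 8) (nat_lit 5) (nat_lit 8) (nat_lit 4) (nat_lit 343) (nat_lit 252) (nat_lit 185)) (XT.nd (nat_lit 78) (nat_lit 0) (nat_lit 0) (XT.lf (nat_lit 0) (nat_lit 22490939857) (nat_lit 76) (nat_lit 40430432669) (nat_lit 76) (nat_lit 13882681605) (nat_lit 7) (nat_lit 4) (nat_lit 8) (nat_lit 5) (nat_lit 8) (nat_lit 4) (nat_lit 344) (nat_lit 252) (nat_lit 184)) (XT.lf (nat_lit 0) (nat_lit 38764639511) (nat_lit 76) (nat_lit 34113349047) (nat_lit 76) (nat_lit 7518068298) (nat_lit 7) (nat_lit 4) (nat_lit 8) (nat_lit 5) (nat_lit 8) (nat_lit 4) (nat_lit 345) (nat_lit 252) (nat_lit 183)))) (XT.nd (nat_lit 156) (nat_lit 76)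 (nat_lit 0) (XT.nd (nat_lit 78) (nat_lit 76) (nat_lit 0) (XT.lf (nat_lit 0) (nat_lit 55804361798) (nat_lit 76) (nat_lit 27502312962) (nat_lit 76) (nat_lit 861765847) (nat_lit 7) (nat_lit 4) (nat_lit 8) (nat_lit 5) (nat_lit 8) (nat_lit 4) (nat_lit 346) (nat_lit 252) (nat_lit 182)) (XT.lf (nat_lit 0) (nat_lit 5983000643) (nat_lit 152) (nat_lit 14538166633) (nat_lit 76) (nat_lit 67607260266) (nat_lit 6) (nat_lit 5) (nat_lit 8) (nat_lit 5) (nat_lit 7) (nat_lit 4) (nat_lit 347) (nat_lit 252) (nat_lit 181))) (XT.nd (nat_lit 78) (nat_lit 76) (nat_lit 0) (XT.lf (nat_lit 0) (nat_lit 13128744324) (nat_lit 152) (nat_lit 73364890) (nat_lit 76) (nat_lit 79084758900) (nat_lit 6) (nat_lit 5) (nat_lit 8) (nat_lit 5) (nat_lit 7) (nat_lit 4) (nat_lit 348) (nat_lit 252) (nat_lit 180)) (XT.lf (nat_lit 0) (nat_lit 15373033497) (nat_lit 76) (nat_lit 5384036529) (nat_lit 152) (nat_lit 75892408611) (nat_lit 5) (nat_lit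 5) (nat_lit 6) (nat_lit 5) (nat_lit 7) (nat_lit 4) (nat_lit 349) (nat_lit 252) (nat_lit 179))))) (XT.nd (nat_lit 234) (nat_lit 76) (nat_lit 0) (XT.nd (nat_lit 78) (nat_lit 0) (nat_lit 0) (XT.lf (nat_lit 0) (nat_lit 28772752285) (nat_lit 152) (nat_lit 69704989381) (nat_lit 0) (nat_lit 2752306257) (nat_lit 5) (nat_lit 5) (nat_lit 7) (nat_lit 4) (nat_lit 5) (nat_lit 4) (nat_lit 350) (nat_lit 252) (nat_lit 178)) (XT.nd (nat_lit 78) (nat_lit 0) (nat_lit 0) (XT.lf (nat_lit 0) (nat_lit 37222630105) (nat_lit 152) (nat_lit 57648269638) (nat_lit 0) (nat_lit 11167749725) (nat_lit 5) (nat_lit 5) (nat_lit 7) (nat_lit 4) (nat_lit 5) (nat_lit 4) (nat_lit 351) (nat_lit 252) (nat_lit 177)) (XT.lf (nat_lit 0) (nat_lit 46075067591) (nat_lit 152) (nat_lit 45025824782) (nat_lit 0) (nat_lit 19987392590) (nat_lit 5) (nat_lit 5) (nat_lit 7) (nat_lit 4) (nat_lit 5) (nat_lit 4) (nat_lit 352) (nat_lit 252) (nat_lit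 176)))) (XT.nd (nat_lit 156) (nat_lit 76) (nat_lit 0) (XT.nd (nat_lit 78) (nat_lit 0) (nat_lit 0) (XT.lf (nat_lit 0) (nat_lit 55351141975) (nat_lit 152) (nat_lit 31807601373) (nat_lit 0) (nat_lit 29232234002) (nat_lit 5) (nat_lit 5) (nat_lit 7) (nat_lit 4) (nat_lit 5) (nat_lit 4) (nat_lit 353) (nat_lit 252) (nat_lit 175)) (XT.lf (nat_lit 0) (nat_lit 65072939149) (nat_lit 152) (nat_lit 17962127451) (nat_lit 0) (nat_lit 38924285488) (nat_lit 5) (nat_lit 5) (nat_lit 7) (nat_lit 4) (nat_lit 5) (nat_lit 4) (nat_lit 354) (nat_lit 252) (nat_lit 174))) (XT.nd (nat_lit 78) (nat_lit 76) (nat_lit 0) (XT.lf (nat_lit 0) (nat_lit 75263606247) (nat_lit 152) (nat_lit 3456437602) (nat_lit 0) (nat_lit 49086623360) (nat_lit 5) (nat_lit 5) (nat_lit 7) (nat_lit 4) (nat_lit 5) (nat_lit 4) (nat_lit 355) (nat_lit 252) (nat_lit 173)) (XT.lf (nat_lit 0) (nat_lit 11977734267) (nat_lit 76) (nat_lit 74084809805) (nat_lit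 76) (nat_lit 47880846702) (nat_lit 4) (nat_lit 4) (nat_lit 5) (nat_lit 5) (nat_lit 5) (nat_lit 4) (nat_lit 356) (nat_lit 252) (nat_lit 172))))))))
noncomputable def xc37 : XT := (XT.nd (nat_lit 35802) (nat_lit 0) (nat_lit 1140) (XT.nd (nat_lit 34788) (nat_lit 0) (nat_lit 5168) (XT.nd (nat_lit 34242) (nat_lit 0) (nat_lit 10792) (XT.nd (nat_lit 234) (nat_lit 0) (nat_lit 0) (XT.nd (nat_lit 78) (nat_lit 0) (nat_lit 0) (XT.lf (nat_lit 0) (nat_lit 28226188074) (nat_lit 76) (nat_lit 69194917633) (nat_lit 76) (nat_lit 42965259086) (nat_lit 4) (nat_lit 4) (nat_lit 5) (nat_lit 5) (nat_lit 5) (nat_lit 4) (nat_lit 357) (nat_lit 252) (nat_lit 171)) (XT.nd (nat_lit 78) (nat_lit 0) (nat_lit 0) (XT.lf (nat_lit 0) (nat_lit 45258820726) (nat_lit 76) (nat_lit 64073627973) (nat_lit 76) (nat_lit 37819497576) (nat_lit 4) (nat_lit 4) (nat_lit 5) (nat_lit 5) (nat_lit 5) (nat_lit 4) (nat_lit 358) (nat_lit 252) (nat_lit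 170)) (XT.lf (nat_lit 0) (nat_lit 63116186110) (nat_lit 76) (nat_lit 58708747281) (nat_lit 76) (nat_lit 32431310358) (nat_lit 4) (nat_lit 4) (nat_lit 5) (nat_lit 5) (nat_lit 5) (nat_lit 4) (nat_lit 359) (nat_lit 252) (nat_lit 169)))) (XT.nd (nat_lit 78) (nat_lit 0) (nat_lit 0) (XT.lf (nat_lit 0) (nat_lit 81840801763) (nat_lit 76) (nat_lit 53087502030) (nat_lit 76) (nat_lit 26787868417) (nat_lit 4) (nat_lit 4) (nat_lit 5) (nat_lit 5) (nat_lit 5) (nat_lit 4) (nat_lit 360) (nat_lit 252) (nat_lit 168)) (XT.nd (nat_lit 33852) (nat_lit 0) (nat_lit 16112) (XT.lf (nat_lit 0) (nat_lit 101477250103) (nat_lit 76) (nat_lit 47196508303) (nat_lit 76) (nat_lit 20875734985) (nat_lit 4) (nat_lit 4) (nat_lit 5) (nat_lit 5) (nat_lit 5) (nat_lit 4) (nat_lit 361) (nat_lit 252) (nat_lit 167)) (XT.lf (nat_lit 0) (nat_lit 197699401) (nat_lit 988) (nat_lit 1665016164) (nat_lit 988) (nat_lit 1665016164) (nat_lit 216)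 (nat_lit 4) (nat_lit 229) (nat_lit 5) (nat_lit 229) (nat_lit 4) (nat_lit 274) (nat_lit 253) (nat_lit 253))))) (XT.nd (nat_lit 234) (nat_lit 2356) (nat_lit 0) (XT.nd (nat_lit 78) (nat_lit 1824) (nat_lit 0) (XT.lf (nat_lit 0) (nat_lit 1007763966) (nat_lit 1064) (nat_lit 867860924) (nat_lit 1140) (nat_lit 5274223951) (nat_lit 201) (nat_lit 5) (nat_lit 215) (nat_lit 5) (nat_lit 216) (nat_lit 4) (nat_lit 275) (nat_lit 253) (nat_lit 252)) (XT.nd (nat_lit 78) (nat_lit 684) (nat_lit 0) (XT.lf (nat_lit 0) (nat_lit 1670405302) (nat_lit 1140) (nat_lit 5444860771) (nat_lit 1140) (nat_lit 137882638) (nat_lit 186) (nat_lit 4) (nat_lit 201) (nat_lit 5) (nat_lit 201) (nat_lit 4) (nat_lit 276) (nat_lit 253) (nat_lit 251)) (XT.lf (nat_lit 0) (nat_lit 2367873034) (nat_lit 608) (nat_lit 2627371415) (nat_lit 684) (nat_lit 2370004776) (nat_lit 177) (nat_lit 5) (nat_lit 185) (nat_lit 5) (nat_lit 186) (nat_lit 4)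 (nat_lit 277) (nat_lit 253) (nat_lit 250)))) (XT.nd (nat_lit 156) (nat_lit 1064) (nat_lit 0) (XT.nd (nat_lit 78) (nat_lit 608) (nat_lit 0) (XT.lf (nat_lit 0) (nat_lit 2688939565) (nat_lit 684) (nat_lit 4367242719) (nat_lit 76) (nat_lit 430902421) (nat_lit 168) (nat_lit 5) (nat_lit 177) (nat_lit 5) (nat_lit 169) (nat_lit 4) (nat_lit 278) (nat_lit 253) (nat_lit 249)) (XT.lf (nat_lit 0) (nat_lit 208895671) (nat_lit 608) (nat_lit 3719636026) (nat_lit 76) (nat_lit 3689704566) (nat_lit 160) (nat_lit 5) (nat_lit 168) (nat_lit 5) (nat_lit 161) (nat_lit 5) (nat_lit 279) (nat_lit 253) (nat_lit 248))) (XT.nd (nat_lit 78) (nat_lit 532) (nat_lit 0) (XT.lf (nat_lit 0) (nat_lit 4701395231) (nat_lit 532) (nat_lit 526548956) (nat_lit 608) (nat_lit 2531096803) (nat_lit 153) (nat_lit 5) (nat_lit 160) (nat_lit 5) (nat_lit 161) (nat_lit 5) (nat_lit 280) (nat_lit 253) (nat_lit 247)) (XT.lf (nat_lit 0) (nat_lit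 2438068338) (nat_lit 532) (nat_lit 2395534376) (nat_lit 76) (nat_lit 3075930189) (nat_lit 146) (nat_lit 5) (nat_lit 153) (nat_lit 5) (nat_lit 147) (nat_lit 5) (nat_lit 281) (nat_lit 253) (nat_lit 246)))))) (XT.nd (nat_lit 468) (nat_lit 2432) (nat_lit 0) (XT.nd (nat_lit 234) (nat_lit 1596) (nat_lit 0) (XT.nd (nat_lit 78) (nat_lit 1064) (nat_lit 0) (XT.lf (nat_lit 0) (nat_lit 6351713886) (nat_lit 532) (nat_lit 1133759019) (nat_lit 608) (nat_lit 585166812) (nat_lit 139) (nat_lit 5) (nat_lit 146) (nat_lit 5) (nat_lit 147) (nat_lit 5) (nat_lit 282) (nat_lit 253) (nat_lit 245)) (XT.nd (nat_lit 78) (nat_lit 532) (nat_lit 0) (XT.lf (nat_lit 0) (nat_lit 4367323822) (nat_lit 532) (nat_lit 1075764490) (nat_lit 76) (nat_lit 2798368374) (nat_lit 132) (nat_lit 5) (nat_lit 139) (nat_lit 5) (nat_lit 133) (nat_lit 5) (nat_lit 283) (nat_lit 253) (nat_lit 244)) (XT.lf (nat_lit 0) (nat_lit 1014071135) (nat_lit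 532) (nat_lit 433644686) (nat_lit 76) (nat_lit 6975813724) (nat_lit 125) (nat_lit 5) (nat_lit 132) (nat_lit 5) (nat_lit 126) (nat_lit 5) (nat_lit 284) (nat_lit 253) (nat_lit 243)))) (XT.nd (nat_lit 78) (nat_lit 836) (nat_lit 0) (XT.lf (nat_lit 0) (nat_lit 162820941) (nat_lit 380) (nat_lit 5830748271) (nat_lit 456) (nat_lit 2622425022) (nat_lit 115) (nat_lit 5) (nat_lit 120) (nat_lit 5) (nat_lit 121) (nat_lit 5) (nat_lit 285) (nat_lit 253) (nat_lit 242)) (XT.nd (nat_lit 78) (nat_lit 380) (nat_lit 0) (XT.lf (nat_lit 0) (nat_lit 735531857) (nat_lit 380) (nat_lit 1543668021) (nat_lit 456) (nat_lit 6540754893) (nat_lit 109) (nat_lit 5) (nat_lit 114) (nat_lit 5) (nat_lit 115) (nat_lit 5) (nat_lit 286) (nat_lit 253) (nat_lit 241)) (XT.lf (nat_lit 0) (nat_lit 1246091956) (nat_lit 380) (nat_lit 6064553288) (nat_lit 456) (nat_lit 1724739286) (nat_lit 104) (nat_lit 5) (nat_lit 109) (nat_lit 5) (nat_lit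 110) (nat_lit 5) (nat_lit 287) (nat_lit 253) (nat_lit 240))))) (XT.nd (nat_lit 234) (nat_lit 1292) (nat_lit 0) (XT.nd (nat_lit 78) (nat_lit 760) (nat_lit 0) (XT.lf (nat_lit 0) (nat_lit 1689556608) (nat_lit 304) (nat_lit 1508223363) (nat_lit 380) (nat_lit 6065126050) (nat_lit 99) (nat_lit 5) (nat_lit 103) (nat_lit 5) (nat_lit 104) (nat_lit 5) (nat_lit 288) (nat_lit 253) (nat_lit 239)) (XT.nd (nat_lit 78) (nat_lit 380) (nat_lit 0) (XT.lf (nat_lit 0) (nat_lit 2050229609) (nat_lit 380) (nat_lit 6233792114) (nat_lit 456) (nat_lit 1218864753) (nat_lit 94) (nat_lit 5) (nat_lit 99) (nat_lit 5) (nat_lit 100) (nat_lit 5) (nat_lit 289) (nat_lit 253) (nat_lit 238)) (XT.lf (nat_lit 0) (nat_lit 2310186213) (nat_lit 304) (nat_lit 1425280082) (nat_lit 380) (nat_lit 6020224293) (nat_lit 89) (nat_lit 5) (nat_lit 93) (nat_lit 5) (nat_lit 94) (nat_lit 5) (nat_lit 290) (nat_lit 253) (nat_lit 237)))) (XT.nd (nat_lit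 156) (nat_lit 608) (nat_lit 0) (XT.nd (nat_lit 78) (nat_lit 380) (nat_lit 0) (XT.lf (nat_lit 0) (nat_lit 2458080358) (nat_lit 304) (nat_lit 6420929555) (nat_lit 380) (nat_lit 1142931960) (nat_lit 85) (nat_lit 5) (nat_lit 89) (nat_lit 5) (nat_lit 90) (nat_lit 5) (nat_lit 291) (nat_lit 253) (nat_lit 236)) (XT.lf (nat_lit 0) (nat_lit 2471432292) (nat_lit 304) (nat_lit 1379289137) (nat_lit 380) (nat_lit 6451290588) (nat_lit 80) (nat_lit 5) (nat_lit 84) (nat_lit 5) (nat_lit 85) (nat_lit 5) (nat_lit 292) (nat_lit 253) (nat_lit 235))) (XT.nd (nat_lit 78) (nat_lit 304) (nat_lit 0) (XT.lf (nat_lit 0) (nat_lit 2334298203) (nat_lit 304) (nat_lit 6714615671) (nat_lit 380) (nat_lit 1547627308) (nat_lit 76) (nat_lit 5) (nat_lit 80) (nat_lit 5) (nat_lit 81) (nat_lit 5) (nat_lit 293) (nat_lit 253) (nat_lit 234)) (XT.lf (nat_lit 0) (nat_lit 2027233283) (nat_lit 228) (nat_lit 1461881092) (nat_lit 304) (nat_lit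 7417037402) (nat_lit 72) (nat_lit 5) (nat_lit 75) (nat_lit 5) (nat_lit 76) (nat_lit 5) (nat_lit 294) (nat_lit 253) (nat_lit 233))))))) (XT.nd (nat_lit 1014) (nat_lit 1368) (nat_lit 0) (XT.nd (nat_lit 468) (nat_lit 1292) (nat_lit 0) (XT.nd (nat_lit 234) (nat_lit 760) (nat_lit 0) (XT.nd (nat_lit 78) (nat_lit 304) (nat_lit 0) (XT.lf (nat_lit 0) (nat_lit 1521381517) (nat_lit 304) (nat_lit 7212044719) (nat_lit 380) (nat_lit 2497856694) (nat_lit 68) (nat_lit 5) (nat_lit 72) (nat_lit 5) (nat_lit 73) (nat_lit 5) (nat_lit 295) (nat_lit 253) (nat_lit 232)) (XT.nd (nat_lit 78) (nat_lit 0) (nat_lit 0) (XT.lf (nat_lit 0) (nat_lit 807194181) (nat_lit 228) (nat_lit 1774352684) (nat_lit 304) (nat_lit 8991487212) (nat_lit 64) (nat_lit 5) (nat_lit 67) (nat_lit 5) (nat_lit 68) (nat_lit 5) (nat_lit 296) (nat_lit 253) (nat_lit 231)) (XT.lf (nat_lit 0) (nat_lit 7858263680) (nat_lit 304) (nat_lit 161686607) (nat_lit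 76) (nat_lit 3911446659) (nat_lit 64) (nat_lit 5) (nat_lit 68) (nat_lit 5) (nat_lit 65) (nat_lit 5) (nat_lit 297) (nat_lit 253) (nat_lit 230)))) (XT.nd (nat_lit 78) (nat_lit 456) (nat_lit 0) (XT.lf (nat_lit 0) (nat_lit 1055454254) (nat_lit 304) (nat_lit 1361251421) (nat_lit 76) (nat_lit 9891196808) (nat_lit 60) (nat_lit 5) (nat_lit 64) (nat_lit 5) (nat_lit 61) (nat_lit 5) (nat_lit 298) (nat_lit 253) (nat_lit 229)) (XT.nd (nat_lit 78) (nat_lit 228) (nat_lit 0) (XT.lf (nat_lit 0) (nat_lit 6353163526) (nat_lit 304) (nat_lit 2883448295) (nat_lit 76) (nat_lit 3465606013) (nat_lit 57) (nat_lit 5) (nat_lit 61) (nat_lit 5) (nat_lit 58) (nat_lit 5) (nat_lit 299) (nat_lit 253) (nat_lit 228)) (XT.lf (nat_lit 0) (nat_lit 8404556313) (nat_lit 228) (nat_lit 3500061187) (nat_lit 304) (nat_lit 1212063111) (nat_lit 54) (nat_lit 5) (nat_lit 57) (nat_lit 5) (nat_lit 58) (nat_lit 5) (nat_lit 300) (nat_lit 253)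 (nat_lit 227))))) (XT.nd (nat_lit 234) (nat_lit 608) (nat_lit 0) (XT.nd (nat_lit 78) (nat_lit 456) (nat_lit 0) (XT.lf (nat_lit 0) (nat_lit 4091458452) (nat_lit 228) (nat_lit 6923109496) (nat_lit 76) (nat_lit 2536444269) (nat_lit 51) (nat_lit 5) (nat_lit 54) (nat_lit 5) (nat_lit 52) (nat_lit 5) (nat_lit 301) (nat_lit 253) (nat_lit 226)) (XT.nd (nat_lit 78) (nat_lit 228) (nat_lit 0) (XT.lf (nat_lit 0) (nat_lit 4467573363) (nat_lit 228) (nat_lit 5170973467) (nat_lit 304) (nat_lit 4368135617) (nat_lit 48) (nat_lit 5) (nat_lit 51) (nat_lit 5) (nat_lit 52) (nat_lit 5) (nat_lit 302) (nat_lit 253) (nat_lit 225)) (XT.lf (nat_lit 0) (nat_lit 937493231) (nat_lit 228) (nat_lit 12574699473) (nat_lit 76) (nat_lit 973379193) (nat_lit 45) (nat_lit 5) (nat_lit 48) (nat_lit 5) (nat_lit 46) (nat_lit 5) (nat_lit 303) (nat_lit 253) (nat_lit 224)))) (XT.nd (nat_lit 156) (nat_lit 380) (nat_lit 0) (XT.nd (nat_lit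 78) (nat_lit 228) (nat_lit 0) (XT.lf (nat_lit 0) (nat_lit 6452245996) (nat_lit 228) (nat_lit 1143427120) (nat_lit 76) (nat_lit 7390485330) (nat_lit 45) (nat_lit 5) (nat_lit 48) (nat_lit 5) (nat_lit 46) (nat_lit 5) (nat_lit 304) (nat_lit 253) (nat_lit 223)) (XT.lf (nat_lit 0) (nat_lit 10887669596) (nat_lit 228) (nat_lit 1347327261) (nat_lit 304) (nat_lit 3277081615) (nat_lit 42) (nat_lit 5) (nat_lit 45) (nat_lit 5) (nat_lit 46) (nat_lit 5) (nat_lit 305) (nat_lit 253) (nat_lit 222))) (XT.nd (nat_lit 78) (nat_lit 152) (nat_lit 0) (XT.lf (nat_lit 0) (nat_lit 2222621351) (nat_lit 228) (nat_lit 8692717318) (nat_lit 76) (nat_lit 5147661905) (nat_lit 39) (nat_lit 5) (nat_lit 42) (nat_lit 5) (nat_lit 40) (nat_lit 5) (nat_lit 306) (nat_lit 253) (nat_lit 221)) (XT.lf (nat_lit 0) (nat_lit 3259194958) (nat_lit 152) (nat_lit 4656936229) (nat_lit 228) (nat_lit 8724829670) (nat_lit 37) (nat_lit 5) (nat_lit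 39) (nat_lit 5) (nat_lit 40) (nat_lit 5) (nat_lit 307) (nat_lit 253) (nat_lit 220)))))) (XT.nd (nat_lit 546) (nat_lit 608) (nat_lit 0) (XT.nd (nat_lit 234) (nat_lit 380) (nat_lit 0) (XT.nd (nat_lit 78) (nat_lit 380) (nat_lit 0) (XT.lf (nat_lit 0) (nat_lit 13898809987) (nat_lit 228) (nat_lit 1450009530) (nat_lit 76) (nat_lit 1898925185) (nat_lit 37) (nat_lit 5) (nat_lit 40) (nat_lit 5) (nat_lit 38) (nat_lit 4) (nat_lit 308) (nat_lit 253) (nat_lit 219)) (XT.nd (nat_lit 78) (nat_lit 152) (nat_lit 0) (XT.lf (nat_lit 0) (nat_lit 2305634940) (nat_lit 228) (nat_lit 6825925749) (nat_lit 76) (nat_lit 8751060458) (nat_lit 34) (nat_lit 5) (nat_lit 37) (nat_lit 5) (nat_lit 35) (nat_lit 5) (nat_lit 309) (nat_lit 253) (nat_lit 218)) (XT.lf (nat_lit 0) (nat_lit 5580440914) (nat_lit 152) (nat_lit 2565437900) (nat_lit 228) (nat_lit 10403254809) (nat_lit 32) (nat_lit 5) (nat_lit 34) (nat_lit 5) (nat_lit 35)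 (nat_lit 5) (nat_lit 310) (nat_lit 253) (nat_lit 217)))) (XT.nd (nat_lit 156) (nat_lit 152) (nat_lit 0) (XT.nd (nat_lit 78) (nat_lit 228) (nat_lit 0) (XT.lf (nat_lit 0) (nat_lit 14296010508) (nat_lit 228) (nat_lit 701667850) (nat_lit 76) (nat_lit 4250807711) (nat_lit 32) (nat_lit 5) (nat_lit 35) (nat_lit 5) (nat_lit 33) (nat_lit 4) (nat_lit 311) (nat_lit 253) (nat_lit 216)) (XT.lf (nat_lit 0) (nat_lit 809614924) (nat_lit 228) (nat_lit 7752124192) (nat_lit 76) (nat_lit 11419277104) (nat_lit 29) (nat_lit 5) (nat_lit 32) (nat_lit 5) (nat_lit 30) (nat_lit 5) (nat_lit 312) (nat_lit 253) (nat_lit 215))) (XT.nd (nat_lit 78) (nat_lit 0) (nat_lit 0) (XT.lf (nat_lit 0) (nat_lit 4965618041) (nat_lit 152) (nat_lit 1759498101) (nat_lit 228) (nat_lit 14024598348) (nat_lit 27) (nat_lit 5) (nat_lit 29) (nat_lit 5) (nat_lit 30) (nat_lit 5) (nat_lit 313) (nat_lit 253) (nat_lit 214)) (XT.lf (nat_lit 0) (nat_lit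 12982665948) (nat_lit 228) (nat_lit 3275305714) (nat_lit 76) (nat_lit 5297530255) (nat_lit 27) (nat_lit 5) (nat_lit 30) (nat_lit 5) (nat_lit 28) (nat_lit 4) (nat_lit 314) (nat_lit 253) (nat_lit 213))))) (XT.nd (nat_lit 234) (nat_lit 304) (nat_lit 0) (XT.nd (nat_lit 78) (nat_lit 228) (nat_lit 0) (XT.lf (nat_lit 0) (nat_lit 9891748533) (nat_lit 76) (nat_lit 9692226281) (nat_lit 152) (nat_lit 2816717885) (nat_lit 26) (nat_lit 5) (nat_lit 27) (nat_lit 5) (nat_lit 28) (nat_lit 4) (nat_lit 315) (nat_lit 253) (nat_lit 212)) (XT.nd (nat_lit 78) (nat_lit 0) (nat_lit 0) (XT.lf (nat_lit 0) (nat_lit 333631481) (nat_lit 152) (nat_lit 2787643708) (nat_lit 228) (nat_lit 20167263253) (nat_lit 23) (nat_lit 5) (nat_lit 25) (nat_lit 5) (nat_lit 26) (nat_lit 5) (nat_lit 316) (nat_lit 253) (nat_lit 211)) (XT.lf (nat_lit 0) (nat_lit 9393130577) (nat_lit 228) (nat_lit 10347560204) (nat_lit 76) (nat_lit 4476428143)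 (nat_lit 23) (nat_lit 5) (nat_lit 26) (nat_lit 5) (nat_lit 24) (nat_lit 4) (nat_lit 317) (nat_lit 253) (nat_lit 210)))) (XT.nd (nat_lit 156) (nat_lit 228) (nat_lit 0) (XT.nd (nat_lit 78) (nat_lit 0) (nat_lit 0) (XT.lf (nat_lit 0) (nat_lit 2785141865) (nat_lit 76) (nat_lit 13173811071) (nat_lit 152) (nat_lit 9233798174) (nat_lit 22) (nat_lit 5) (nat_lit 23) (nat_lit 5) (nat_lit 24) (nat_lit 4) (nat_lit 318) (nat_lit 253) (nat_lit 209)) (XT.lf (nat_lit 0) (nat_lit 16663250306) (nat_lit 76) (nat_lit 6224124485) (nat_lit 152) (nat_lit 3328793157) (nat_lit 22) (nat_lit 5) (nat_lit 23) (nat_lit 5) (nat_lit 24) (nat_lit 4) (nat_lit 319) (nat_lit 253) (nat_lit 208))) (XT.nd (nat_lit 78) (nat_lit 0) (nat_lit 0) (XT.lf (nat_lit 0) (nat_lit 2793587309) (nat_lit 228) (nat_lit 23431758834) (nat_lit 76) (nat_lit 1065266542) (nat_lit 19) (nat_lit 5) (nat_lit 22) (nat_lit 5) (nat_lit 20) (nat_lit 4) (nat_lit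 320) (nat_lit 253) (nat_lit 207)) (XT.lf (nat_lit 0) (nat_lit 9248195800) (nat_lit 228) (nat_lit 10493215003) (nat_lit 76) (nat_lit 8673559938) (nat_lit 19) (nat_lit 5) (nat_lit 22) (nat_lit 5) (nat_lit 20) (nat_lit 4) (nat_lit 321) (nat_lit 253) (nat_lit 206))))))))
noncomputable def xc38 : XT := (XT.nd (nat_lit 2028) (nat_lit 228) (nat_lit 0) (XT.nd (nat_lit 1014) (nat_lit 304) (nat_lit 0) (XT.nd (nat_lit 468) (nat_lit 228) (nat_lit 0) (XT.nd (nat_lit 234) (nat_lit 152) (nat_lit 0) (XT.nd (nat_lit 78) (nat_lit 152) (nat_lit 0) (XT.lf (nat_lit 0) (nat_lit 3036427906) (nat_lit 76) (nat_lit 12953703835) (nat_lit 152) (nat_lit 13606504129) (nat_lit 18) (nat_lit 5) (nat_lit 19) (nat_lit 5) (nat_lit 20) (nat_lit 4) (nat_lit 322) (nat_lit 253) (nat_lit 205)) (XT.nd (nat_lit 78) (nat_lit 152) (nat_lit 0) (XT.lf (nat_lit 0) (nat_lit 17350049272) (nat_lit 76) (nat_lit 5764543875) (nat_lit 152) (nat_lit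 7721454043) (nat_lit 18) (nat_lit 5) (nat_lit 19) (nat_lit 5) (nat_lit 20) (nat_lit 4) (nat_lit 323) (nat_lit 253) (nat_lit 204)) (XT.lf (nat_lit 0) (nat_lit 119279981) (nat_lit 152) (nat_lit 30434234246) (nat_lit 152) (nat_lit 1585192316) (nat_lit 16) (nat_lit 4) (nat_lit 18) (nat_lit 5) (nat_lit 18) (nat_lit 4) (nat_lit 324) (nat_lit 253) (nat_lit 203)))) (XT.nd (nat_lit 78) (nat_lit 76) (nat_lit 0) (XT.lf (nat_lit 0) (nat_lit 4902666032) (nat_lit 228) (nat_lit 19027872019) (nat_lit 76) (nat_lit 9570395268) (nat_lit 15) (nat_lit 5) (nat_lit 18) (nat_lit 5) (nat_lit 16) (nat_lit 4) (nat_lit 325) (nat_lit 253) (nat_lit 202)) (XT.nd (nat_lit 78) (nat_lit 76) (nat_lit 0) (XT.lf (nat_lit 0) (nat_lit 11626432525) (nat_lit 228) (nat_lit 5503618547) (nat_lit 76) (nat_lit 17802442162) (nat_lit 15) (nat_lit 5) (nat_lit 18) (nat_lit 5) (nat_lit 16) (nat_lit 4) (nat_lit 326) (nat_lit 253) (nat_lit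 201)) (XT.lf (nat_lit 0) (nat_lit 8771944527) (nat_lit 76) (nat_lit 9945425713) (nat_lit 152) (nat_lit 17717352022) (nat_lit 14) (nat_lit 5) (nat_lit 15) (nat_lit 5) (nat_lit 16) (nat_lit 4) (nat_lit 327) (nat_lit 253) (nat_lit 200))))) (XT.nd (nat_lit 234) (nat_lit 76) (nat_lit 0) (XT.nd (nat_lit 78) (nat_lit 152) (nat_lit 0) (XT.lf (nat_lit 0) (nat_lit 23782973872) (nat_lit 76) (nat_lit 2384840326) (nat_lit 152) (nat_lit 11844119381) (nat_lit 14) (nat_lit 5) (nat_lit 15) (nat_lit 5) (nat_lit 16) (nat_lit 4) (nat_lit 328) (nat_lit 253) (nat_lit 199)) (XT.nd (nat_lit 78) (nat_lit 152) (nat_lit 0) (XT.lf (nat_lit 0) (nat_lit 33994551708) (nat_lit 152) (nat_lit 266829131) (nat_lit 0) (nat_lit 5406530172) (nat_lit 14) (nat_lit 5) (nat_lit 16) (nat_lit 4) (nat_lit 14) (nat_lit 4) (nat_lit 329) (nat_lit 253) (nat_lit 198)) (XT.lf (nat_lit 0) (nat_lit 908205586) (nat_lit 152) (nat_lit 26844200745)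 (nat_lit 76) (nat_lit 13650526036) (nat_lit 12) (nat_lit 5) (nat_lit 14) (nat_lit 5) (nat_lit 13) (nat_lit 4) (nat_lit 330) (nat_lit 253) (nat_lit 197)))) (XT.nd (nat_lit 156) (nat_lit 0) (nat_lit 0) (XT.nd (nat_lit 78) (nat_lit 76) (nat_lit 0) (XT.lf (nat_lit 0) (nat_lit 7659107071) (nat_lit 152) (nat_lit 13234953160) (nat_lit 76) (nat_lit 22330248098) (nat_lit 12) (nat_lit 5) (nat_lit 14) (nat_lit 5) (nat_lit 13) (nat_lit 4) (nat_lit 331) (nat_lit 253) (nat_lit 196)) (XT.lf (nat_lit 0) (nat_lit 993974404) (nat_lit 76) (nat_lit 13719064815) (nat_lit 152) (nat_lit 30424764975) (nat_lit 11) (nat_lit 5) (nat_lit 12) (nat_lit 5) (nat_lit 13) (nat_lit 4) (nat_lit 332) (nat_lit 253) (nat_lit 195))) (XT.nd (nat_lit 78) (nat_lit 0) (nat_lit 0) (XT.lf (nat_lit 0) (nat_lit 16133039818) (nat_lit 76) (nat_lit 6080151115) (nat_lit 152) (nat_lit 24930993155) (nat_lit 11) (nat_lit 5) (nat_lit 12) (nat_lit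 5) (nat_lit 13) (nat_lit 4) (nat_lit 333) (nat_lit 253) (nat_lit 194)) (XT.lf (nat_lit 0) (nat_lit 30065998658) (nat_lit 152) (nat_lit 17315564165) (nat_lit 0) (nat_lit 1870004916) (nat_lit 11) (nat_lit 5) (nat_lit 13) (nat_lit 4) (nat_lit 11) (nat_lit 4) (nat_lit 334) (nat_lit 253) (nat_lit 193)))))) (XT.nd (nat_lit 468) (nat_lit 76) (nat_lit 0) (XT.nd (nat_lit 234) (nat_lit 76) (nat_lit 0) (XT.nd (nat_lit 78) (nat_lit 152) (nat_lit 0) (XT.lf (nat_lit 0) (nat_lit 38333761065) (nat_lit 152) (nat_lit 3068082460) (nat_lit 0) (nat_lit 10061821158) (nat_lit 11) (nat_lit 5) (nat_lit 13) (nat_lit 4) (nat_lit 11) (nat_lit 4) (nat_lit 335) (nat_lit 253) (nat_lit 192)) (XT.nd (nat_lit 78) (nat_lit 76) (nat_lit 0) (XT.lf (nat_lit 0) (nat_lit 12058983758) (nat_lit 76) (nat_lit 35034651740) (nat_lit 76) (nat_lit 6690382152) (nat_lit 10) (nat_lit 4) (nat_lit 11) (nat_lit 5) (nat_lit 11) (nat_lit 4) (nat_lit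 336) (nat_lit 253) (nat_lit 191)) (XT.lf (nat_lit 0) (nat_lit 65195366) (nat_lit 152) (nat_lit 28280808404) (nat_lit 76) (nat_lit 27874511879) (nat_lit 9) (nat_lit 5) (nat_lit 11) (nat_lit 5) (nat_lit 10) (nat_lit 4) (nat_lit 337) (nat_lit 253) (nat_lit 190)))) (XT.nd (nat_lit 78) (nat_lit 76) (nat_lit 0) (XT.lf (nat_lit 0) (nat_lit 6986777102) (nat_lit 152) (nat_lit 14295602633) (nat_lit 76) (nat_lit 37495485143) (nat_lit 9) (nat_lit 5) (nat_lit 11) (nat_lit 5) (nat_lit 10) (nat_lit 4) (nat_lit 338) (nat_lit 253) (nat_lit 189)) (XT.nd (nat_lit 78) (nat_lit 0) (nat_lit 0) (XT.lf (nat_lit 0) (nat_lit 334725268) (nat_lit 76) (nat_lit 13889888779) (nat_lit 152) (nat_lit 47239373051) (nat_lit 8) (nat_lit 5) (nat_lit 9) (nat_lit 5) (nat_lit 10) (nat_lit 4) (nat_lit 339) (nat_lit 253) (nat_lit 188)) (XT.lf (nat_lit 0) (nat_lit 15936374851) (nat_lit 76) (nat_lit 6003094068) (nat_lit 152) (nat_lit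 42341503026) (nat_lit 8) (nat_lit 5) (nat_lit 9) (nat_lit 5) (nat_lit 10) (nat_lit 4) (nat_lit 340) (nat_lit 253) (nat_lit 187))))) (XT.nd (nat_lit 234) (nat_lit 76) (nat_lit 0) (XT.nd (nat_lit 78) (nat_lit 0) (nat_lit 0) (XT.lf (nat_lit 0) (nat_lit 30031209140) (nat_lit 152) (nat_lit 34999400425) (nat_lit 0) (nat_lit 2208472000) (nat_lit 8) (nat_lit 5) (nat_lit 10) (nat_lit 4) (nat_lit 8) (nat_lit 4) (nat_lit 341) (nat_lit 253) (nat_lit 186)) (XT.nd (nat_lit 78) (nat_lit 0) (nat_lit 0) (XT.lf (nat_lit 0) (nat_lit 38558836280) (nat_lit 152) (nat_lit 21101633067) (nat_lit 0) (nat_lit 10683697663) (nat_lit 8) (nat_lit 5) (nat_lit 10) (nat_lit 4) (nat_lit 8) (nat_lit 4) (nat_lit 342) (nat_lit 253) (nat_lit 185)) (XT.lf (nat_lit 0) (nat_lit 47484948801) (nat_lit 152) (nat_lit 6560499687) (nat_lit 0) (nat_lit 19559904015) (nat_lit 8) (nat_lit 5) (nat_lit 10) (nat_lit 4) (nat_lit 8) (nat_lit 4)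 (nat_lit 343) (nat_lit 253) (nat_lit 184)))) (XT.nd (nat_lit 156) (nat_lit 0) (nat_lit 0) (XT.nd (nat_lit 78) (nat_lit 0) (nat_lit 0) (XT.lf (nat_lit 0) (nat_lit 8830945006) (nat_lit 76) (nat_lit 48084742791) (nat_lit 76) (nat_lit 20112168320) (nat_lit 7) (nat_lit 4) (nat_lit 8) (nat_lit 5) (nat_lit 8) (nat_lit 4) (nat_lit 344) (nat_lit 253) (nat_lit 183)) (XT.lf (nat_lit 0) (nat_lit 25081394733) (nat_lit 76) (nat_lit 41778342934) (nat_lit 76) (nat_lit 13760502097) (nat_lit 7) (nat_lit 4) (nat_lit 8) (nat_lit 5) (nat_lit 8) (nat_lit 4) (nat_lit 345) (nat_lit 253) (nat_lit 182))) (XT.nd (nat_lit 78) (nat_lit 0) (nat_lit 0) (XT.lf (nat_lit 0) (nat_lit 42098974232) (nat_lit 76) (nat_lit 35177481863) (nat_lit 76) (nat_lit 7116530201) (nat_lit 7) (nat_lit 4) (nat_lit 8) (nat_lit 5) (nat_lit 8) (nat_lit 4) (nat_lit 346) (nat_lit 253) (nat_lit 181)) (XT.lf (nat_lit 0) (nat_lit 59924201550) (nat_lit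 76) (nat_lit 28266443242) (nat_lit 76) (nat_lit 164433652) (nat_lit 7) (nat_lit 4) (nat_lit 8) (nat_lit 5) (nat_lit 8) (nat_lit 4) (nat_lit 347) (nat_lit 253) (nat_lit 180))))))) (XT.nd (nat_lit 1014) (nat_lit 0) (nat_lit 0) (XT.nd (nat_lit 468) (nat_lit 76) (nat_lit 0) (XT.nd (nat_lit 234) (nat_lit 0) (nat_lit 0) (XT.nd (nat_lit 78) (nat_lit 76) (nat_lit 0) (XT.lf (nat_lit 0) (nat_lit 6973552787) (nat_lit 152) (nat_lit 13984800220) (nat_lit 76) (nat_lit 71555545707) (nat_lit 6) (nat_lit 5) (nat_lit 8) (nat_lit 5) (nat_lit 7) (nat_lit 4) (nat_lit 348) (nat_lit 253) (nat_lit 179)) (XT.nd (nat_lit 78) (nat_lit 0) (nat_lit 0) (XT.lf (nat_lit 0) (nat_lit 1165009679) (nat_lit 76) (nat_lit 13289848847) (nat_lit 152) (nat_lit 82426064454) (nat_lit 5) (nat_lit 5) (nat_lit 6) (nat_lit 5) (nat_lit 7) (nat_lit 4) (nat_lit 349) (nat_lit 253) (nat_lit 178)) (XT.lf (nat_lit 0) (nat_lit 17326043196) (nat_lit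 76) (nat_lit 5107387202) (nat_lit 152) (nat_lit 79029178174) (nat_lit 5) (nat_lit 5) (nat_lit 6) (nat_lit 5) (nat_lit 7) (nat_lit 4) (nat_lit 350) (nat_lit 253) (nat_lit 177)))) (XT.nd (nat_lit 78) (nat_lit 0) (nat_lit 0) (XT.lf (nat_lit 0) (nat_lit 30824488876) (nat_lit 152) (nat_lit 72048853169) (nat_lit 0) (nat_lit 3399635504) (nat_lit 5) (nat_lit 5) (nat_lit 7) (nat_lit 4) (nat_lit 5) (nat_lit 4) (nat_lit 351) (nat_lit 253) (nat_lit 176)) (XT.nd (nat_lit 78) (nat_lit 0) (nat_lit 0) (XT.lf (nat_lit 0) (nat_lit 39667665398) (nat_lit 152) (nat_lit 59443649137) (nat_lit 0) (nat_lit 12211579054) (nat_lit 5) (nat_lit 5) (nat_lit 7) (nat_lit 4) (nat_lit 5) (nat_lit 4) (nat_lit 352) (nat_lit 253) (nat_lit 175)) (XT.lf (nat_lit 0) (nat_lit 48934919816) (nat_lit 152) (nat_lit 46241845561) (nat_lit 0) (nat_lit 21449087785) (nat_lit 5) (nat_lit 5) (nat_lit 7) (nat_lit 4) (nat_lit 5) (nat_lit 4) (nat_lit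 353) (nat_lit 253) (nat_lit 174))))) (XT.nd (nat_lit 234) (nat_lit 76) (nat_lit 0) (XT.nd (nat_lit 78) (nat_lit 0) (nat_lit 0) (XT.lf (nat_lit 0) (nat_lit 58648317022) (nat_lit 152) (nat_lit 32412009576) (nat_lit 0) (nat_lit 31134155764) (nat_lit 5) (nat_lit 5) (nat_lit 7) (nat_lit 4) (nat_lit 5) (nat_lit 4) (nat_lit 354) (nat_lit 253) (nat_lit 173)) (XT.nd (nat_lit 78) (nat_lit 0) (nat_lit 0) (XT.lf (nat_lit 0) (nat_lit 68830984152) (nat_lit 152) (nat_lit 17921212999) (nat_lit 0) (nat_lit 41289842678) (nat_lit 5) (nat_lit 5) (nat_lit 7) (nat_lit 4) (nat_lit 5) (nat_lit 4) (nat_lit 355) (nat_lit 253) (nat_lit 172)) (XT.lf (nat_lit 0) (nat_lit 79507165651) (nat_lit 152) (nat_lit 2734953935) (nat_lit 0) (nat_lit 51940328733) (nat_lit 5) (nat_lit 5) (nat_lit 7) (nat_lit 4) (nat_lit 5) (nat_lit 4) (nat_lit 356) (nat_lit 253) (nat_lit 171)))) (XT.nd (nat_lit 156) (nat_lit 0) (nat_lit 0) (XT.nd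 (nat_lit 78) (nat_lit 0) (nat_lit 0) (XT.lf (nat_lit 0) (nat_lit 13445291439) (nat_lit 76) (nat_lit 77386233926) (nat_lit 76) (nat_lit 49794925157) (nat_lit 4) (nat_lit 4) (nat_lit 5) (nat_lit 5) (nat_lit 5) (nat_lit 4) (nat_lit 357) (nat_lit 253) (nat_lit 170)) (XT.lf (nat_lit 0) (nat_lit 30464802676) (nat_lit 76) (nat_lit 72271028876) (nat_lit 76) (nat_lit 44656413583) (nat_lit 4) (nat_lit 4) (nat_lit 5) (nat_lit 5) (nat_lit 5) (nat_lit 4) (nat_lit 358) (nat_lit 253) (nat_lit 169))) (XT.nd (nat_lit 78) (nat_lit 0) (nat_lit 0) (XT.lf (nat_lit 0) (nat_lit 48309671475) (nat_lit 76) (nat_lit 66911943050) (nat_lit 76) (nat_lit 39275131066) (nat_lit 4) (nat_lit 4) (nat_lit 5) (nat_lit 5) (nat_lit 5) (nat_lit 4) (nat_lit 359) (nat_lit 253) (nat_lit 168)) (XT.lf (nat_lit 0) (nat_lit 67022385618) (nat_lit 76) (nat_lit 61296216719) (nat_lit 76) (nat_lit 33638265031) (nat_lit 4) (nat_lit 4) (nat_lit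 5) (nat_lit 5) (nat_lit 5) (nat_lit 4) (nat_lit 360) (nat_lit 253) (nat_lit 167)))))) (XT.nd (nat_lit 34164) (nat_lit 0) (nat_lit 9196) (XT.nd (nat_lit 33852) (nat_lit 0) (nat_lit 13148) (XT.nd (nat_lit 33696) (nat_lit 0) (nat_lit 18012) (XT.lf (nat_lit 0) (nat_lit 86647499187) (nat_lit 76) (nat_lit 55410479107) (nat_lit 76) (nat_lit 27732394366) (nat_lit 4) (nat_lit 4) (nat_lit 5) (nat_lit 5) (nat_lit 5) (nat_lit 4) (nat_lit 361) (nat_lit 253) (nat_lit 166)) (XT.nd (nat_lit 78) (nat_lit 912) (nat_lit 0) (XT.lf (nat_lit 0) (nat_lit 1601130297) (nat_lit 836) (nat_lit 242590783) (nat_lit 0) (nat_lit 1601130297) (nat_lit 253) (nat_lit 5) (nat_lit 264) (nat_lit 4) (nat_lit 253) (nat_lit 4) (nat_lit 272) (nat_lit 254) (nat_lit 254)) (XT.lf (nat_lit 0) (nat_lit 1422099572) (nat_lit 912) (nat_lit 141072425) (nat_lit 76) (nat_lit 5407130691) (nat_lit 241) (nat_lit 5) (nat_lit 253) (nat_lit 5) (nat_lit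 242) (nat_lit 4) (nat_lit 273) (nat_lit 254) (nat_lit 253)))) (XT.nd (nat_lit 156) (nat_lit 1824) (nat_lit 0) (XT.nd (nat_lit 78) (nat_lit 1140) (nat_lit 0) (XT.lf (nat_lit 0) (nat_lit 270529255) (nat_lit 988) (nat_lit 6264292530) (nat_lit 988) (nat_lit 524795680) (nat_lit 216) (nat_lit 4) (nat_lit 229) (nat_lit 5) (nat_lit 229) (nat_lit 4) (nat_lit 274) (nat_lit 254) (nat_lit 252)) (XT.lf (nat_lit 0) (nat_lit 724601041) (nat_lit 1064) (nat_lit 3773197385) (nat_lit 1140) (nat_lit 2659470247) (nat_lit 201) (nat_lit 5) (nat_lit 215) (nat_lit 5) (nat_lit 216) (nat_lit 4) (nat_lit 275) (nat_lit 254) (nat_lit 251))) (XT.nd (nat_lit 78) (nat_lit 608) (nat_lit 0) (XT.lf (nat_lit 0) (nat_lit 1244811751) (nat_lit 1140) (nat_lit 1039570175) (nat_lit 1216) (nat_lit 4980005181) (nat_lit 185) (nat_lit 5) (nat_lit 200) (nat_lit 5) (nat_lit 201) (nat_lit 5) (nat_lit 276) (nat_lit 254) (nat_lit 250)) (XT.lf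 (nat_lit 0) (nat_lit 1807716443) (nat_lit 608) (nat_lit 5474253462) (nat_lit 684) (nat_lit 98661644) (nat_lit 177) (nat_lit 5) (nat_lit 185) (nat_lit 5) (nat_lit 186) (nat_lit 4) (nat_lit 277) (nat_lit 254) (nat_lit 249))))) (XT.nd (nat_lit 234) (nat_lit 2128) (nat_lit 0) (XT.nd (nat_lit 78) (nat_lit 1140) (nat_lit 0) (XT.lf (nat_lit 0) (nat_lit 2392493038) (nat_lit 608) (nat_lit 2397898018) (nat_lit 684) (nat_lit 2715371350) (nat_lit 168) (nat_lit 5) (nat_lit 176) (nat_lit 5) (nat_lit 177) (nat_lit 5) (nat_lit 278) (nat_lit 254) (nat_lit 248)) (XT.nd (nat_lit 78) (nat_lit 532) (nat_lit 0) (XT.lf (nat_lit 0) (nat_lit 2108088869) (nat_lit 608) (nat_lit 4621121774) (nat_lit 76) (nat_lit 911560324) (nat_lit 160) (nat_lit 5) (nat_lit 168) (nat_lit 5) (nat_lit 161) (nat_lit 5) (nat_lit 279) (nat_lit 254) (nat_lit 247)) (XT.lf (nat_lit 0) (nat_lit 3660729813) (nat_lit 532) (nat_lit 3349259575)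 (nat_lit 608) (nat_lit 775262157) (nat_lit 153) (nat_lit 5) (nat_lit 160) (nat_lit 5) (nat_lit 161) (nat_lit 5) (nat_lit 280) (nat_lit 254) (nat_lit 246)))) (XT.nd (nat_lit 156) (nat_lit 988) (nat_lit 0) (XT.nd (nat_lit 78) (nat_lit 608) (nat_lit 0) (XT.lf (nat_lit 0) (nat_lit 4016325514) (nat_lit 532) (nat_lit 3623015137) (nat_lit 76) (nat_lit 300345156) (nat_lit 146) (nat_lit 5) (nat_lit 153) (nat_lit 5) (nat_lit 147) (nat_lit 5) (nat_lit 281) (nat_lit 254) (nat_lit 245)) (XT.lf (nat_lit 0) (nat_lit 829108103) (nat_lit 608) (nat_lit 3132347474) (nat_lit 76) (nat_lit 4142648524) (nat_lit 138) (nat_lit 5) (nat_lit 146) (nat_lit 5) (nat_lit 139) (nat_lit 5) (nat_lit 282) (nat_lit 254) (nat_lit 244))) (XT.nd (nat_lit 78) (nat_lit 532) (nat_lit 0) (XT.lf (nat_lit 0) (nat_lit 5628294417) (nat_lit 456) (nat_lit 1414199) (nat_lit 532) (nat_lit 2649389278) (nat_lit 132) (nat_lit 5) (nat_lit 138)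 (nat_lit 5) (nat_lit 139) (nat_lit 5) (nat_lit 283) (nat_lit 254) (nat_lit 243)) (XT.lf (nat_lit 0) (nat_lit 2102524502) (nat_lit 532) (nat_lit 2209599568) (nat_lit 76) (nat_lit 4152186750) (nat_lit 125) (nat_lit 5) (nat_lit 132) (nat_lit 5) (nat_lit 126) (nat_lit 5) (nat_lit 284) (nat_lit 254) (nat_lit 242))))))))
noncomputable def xc39 : XT := (XT.nd (nat_lit 2028) (nat_lit 1824) (nat_lit 0) (XT.nd (nat_lit 1014) (nat_lit 2280) (nat_lit 0) (XT.nd (nat_lit 468) (nat_lit 2204) (nat_lit 0) (XT.nd (nat_lit 234) (nat_lit 1216) (nat_lit 0) (XT.nd (nat_lit 78) (nat_lit 836) (nat_lit 0) (XT.lf (nat_lit 0) (nat_lit 6876071910) (nat_lit 380) (nat_lit 66389791) (nat_lit 456) (nat_lit 1718616375) (nat_lit 120) (nat_lit 5) (nat_lit 125) (nat_lit 5) (nat_lit 126) (nat_lit 5) (nat_lit 285) (nat_lit 254) (nat_lit 241)) (XT.nd (nat_lit 78) (nat_lit 380) (nat_lit 0) (XT.lf (nat_lit 0) (nat_lit 3048814356)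 (nat_lit 456) (nat_lit 1433280848) (nat_lit 76) (nat_lit 4386286514) (nat_lit 114) (nat_lit 5) (nat_lit 120) (nat_lit 5) (nat_lit 115) (nat_lit 5) (nat_lit 286) (nat_lit 254) (nat_lit 240)) (XT.lf (nat_lit 0) (nat_lit 7937659413) (nat_lit 456) (nat_lit 1112762528) (nat_lit 76) (nat_lit 37769467) (nat_lit 109) (nat_lit 5) (nat_lit 115) (nat_lit 5) (nat_lit 110) (nat_lit 5) (nat_lit 287) (nat_lit 254) (nat_lit 239)))) (XT.nd (nat_lit 78) (nat_lit 760) (nat_lit 0) (XT.lf (nat_lit 0) (nat_lit 3647510456) (nat_lit 456) (nat_lit 898156489) (nat_lit 76) (nat_lit 4773372762) (nat_lit 103) (nat_lit 5) (nat_lit 109) (nat_lit 5) (nat_lit 104) (nat_lit 5) (nat_lit 288) (nat_lit 254) (nat_lit 238)) (XT.nd (nat_lit 78) (nat_lit 456) (nat_lit 0) (XT.lf (nat_lit 0) (nat_lit 8592682742) (nat_lit 380) (nat_lit 736675789) (nat_lit 76) (nat_lit 233983469) (nat_lit 99) (nat_lit 5) (nat_lit 104) (nat_lit 5) (nat_lit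 100) (nat_lit 5) (nat_lit 289) (nat_lit 254) (nat_lit 237)) (XT.lf (nat_lit 0) (nat_lit 3868076110) (nat_lit 456) (nat_lit 712070700) (nat_lit 76) (nat_lit 5239333282) (nat_lit 93) (nat_lit 5) (nat_lit 99) (nat_lit 5) (nat_lit 94) (nat_lit 5) (nat_lit 290) (nat_lit 254) (nat_lit 236))))) (XT.nd (nat_lit 234) (nat_lit 1216) (nat_lit 0) (XT.nd (nat_lit 78) (nat_lit 684) (nat_lit 0) (XT.lf (nat_lit 0) (nat_lit 8871882817) (nat_lit 380) (nat_lit 771447155) (nat_lit 76) (nat_lit 446672550) (nat_lit 89) (nat_lit 5) (nat_lit 94) (nat_lit 5) (nat_lit 90) (nat_lit 5) (nat_lit 291) (nat_lit 254) (nat_lit 235)) (XT.nd (nat_lit 78) (nat_lit 304) (nat_lit 0) (XT.lf (nat_lit 0) (nat_lit 3668755483) (nat_lit 380) (nat_lit 999100254) (nat_lit 76) (nat_lit 5705559055) (nat_lit 84) (nat_lit 5) (nat_lit 89) (nat_lit 5) (nat_lit 85) (nat_lit 5) (nat_lit 292) (nat_lit 254) (nat_lit 234)) (XT.lf (nat_lit 0) (nat_lit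 8728475071) (nat_lit 380) (nat_lit 1350423958) (nat_lit 76) (nat_lit 593268714) (nat_lit 80) (nat_lit 5) (nat_lit 85) (nat_lit 5) (nat_lit 81) (nat_lit 5) (nat_lit 293) (nat_lit 254) (nat_lit 233)))) (XT.nd (nat_lit 156) (nat_lit 608) (nat_lit 0) (XT.nd (nat_lit 78) (nat_lit 228) (nat_lit 0) (XT.lf (nat_lit 0) (nat_lit 2995145441) (nat_lit 380) (nat_lit 1903171015) (nat_lit 76) (nat_lit 6086809423) (nat_lit 75) (nat_lit 5) (nat_lit 80) (nat_lit 5) (nat_lit 76) (nat_lit 5) (nat_lit 294) (nat_lit 254) (nat_lit 232)) (XT.lf (nat_lit 0) (nat_lit 8102321927) (nat_lit 304) (nat_lit 2628839332) (nat_lit 76) (nat_lit 583271124) (nat_lit 72) (nat_lit 5) (nat_lit 76) (nat_lit 5) (nat_lit 73) (nat_lit 5) (nat_lit 295) (nat_lit 254) (nat_lit 231))) (XT.nd (nat_lit 78) (nat_lit 228) (nat_lit 0) (XT.lf (nat_lit 0) (nat_lit 1778450223) (nat_lit 380) (nat_lit 3592227828) (nat_lit 76) (nat_lit 6288851544)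 (nat_lit 67) (nat_lit 5) (nat_lit 72) (nat_lit 5) (nat_lit 68) (nat_lit 5) (nat_lit 296) (nat_lit 254) (nat_lit 230)) (XT.lf (nat_lit 0) (nat_lit 6918015277) (nat_lit 304) (nat_lit 4788294211) (nat_lit 76) (nat_lit 315751502) (nat_lit 64) (nat_lit 5) (nat_lit 68) (nat_lit 5) (nat_lit 65) (nat_lit 5) (nat_lit 297) (nat_lit 254) (nat_lit 229)))))) (XT.nd (nat_lit 468) (nat_lit 1064) (nat_lit 0) (XT.nd (nat_lit 234) (nat_lit 456) (nat_lit 0) (XT.nd (nat_lit 78) (nat_lit 532) (nat_lit 0) (XT.lf (nat_lit 0) (nat_lit 6138517174) (nat_lit 228) (nat_lit 6195762148) (nat_lit 304) (nat_lit 67953389) (nat_lit 61) (nat_lit 5) (nat_lit 64) (nat_lit 5) (nat_lit 65) (nat_lit 5) (nat_lit 298) (nat_lit 254) (nat_lit 228)) (XT.nd (nat_lit 78) (nat_lit 228) (nat_lit 0) (XT.lf (nat_lit 0) (nat_lit 4755848318) (nat_lit 228) (nat_lit 329892752) (nat_lit 304) (nat_lit 7715234342) (nat_lit 57) (nat_lit 5) (nat_lit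 60) (nat_lit 5) (nat_lit 61) (nat_lit 5) (nat_lit 299) (nat_lit 254) (nat_lit 227)) (XT.lf (nat_lit 0) (nat_lit 3046096787) (nat_lit 228) (nat_lit 7475802997) (nat_lit 304) (nat_lit 2697042531) (nat_lit 54) (nat_lit 5) (nat_lit 57) (nat_lit 5) (nat_lit 58) (nat_lit 5) (nat_lit 300) (nat_lit 254) (nat_lit 226)))) (XT.nd (nat_lit 78) (nat_lit 228) (nat_lit 0) (XT.lf (nat_lit 0) (nat_lit 1002930263) (nat_lit 152) (nat_lit 1494099871) (nat_lit 228) (nat_lit 11160866665) (nat_lit 51) (nat_lit 5) (nat_lit 53) (nat_lit 5) (nat_lit 54) (nat_lit 5) (nat_lit 301) (nat_lit 254) (nat_lit 225)) (XT.nd (nat_lit 78) (nat_lit 228) (nat_lit 0) (XT.lf (nat_lit 0) (nat_lit 7929187845) (nat_lit 228) (nat_lit 1429717643) (nat_lit 76) (nat_lit 4758149322) (nat_lit 51) (nat_lit 5) (nat_lit 54) (nat_lit 5) (nat_lit 52) (nat_lit 5) (nat_lit 302) (nat_lit 254) (nat_lit 224)) (XT.lf (nat_lit 0) (nat_lit 10363109907)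 (nat_lit 228) (nat_lit 3272037534) (nat_lit 304) (nat_lit 964035287) (nat_lit 48) (nat_lit 5) (nat_lit 51) (nat_lit 5) (nat_lit 52) (nat_lit 5) (nat_lit 303) (nat_lit 254) (nat_lit 223))))) (XT.nd (nat_lit 234) (nat_lit 456) (nat_lit 0) (XT.nd (nat_lit 78) (nat_lit 380) (nat_lit 0) (XT.lf (nat_lit 0) (nat_lit 4441306608) (nat_lit 228) (nat_lit 7538256494) (nat_lit 76) (nat_lit 3124365967) (nat_lit 45) (nat_lit 5) (nat_lit 48) (nat_lit 5) (nat_lit 46) (nat_lit 5) (nat_lit 304) (nat_lit 254) (nat_lit 222)) (XT.nd (nat_lit 78) (nat_lit 152) (nat_lit 0) (XT.lf (nat_lit 0) (nat_lit 4278294024) (nat_lit 228) (nat_lit 5830012438) (nat_lit 304) (nat_lit 5525048595) (nat_lit 42) (nat_lit 5) (nat_lit 45) (nat_lit 5) (nat_lit 46) (nat_lit 5) (nat_lit 305) (nat_lit 254) (nat_lit 221)) (XT.lf (nat_lit 0) (nat_lit 486036114) (nat_lit 152) (nat_lit 15557458621) (nat_lit 228) (nat_lit 146277725) (nat_lit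 40) (nat_lit 5) (nat_lit 42) (nat_lit 5) (nat_lit 43) (nat_lit 4) (nat_lit 306) (nat_lit 254) (nat_lit 220)))) (XT.nd (nat_lit 156) (nat_lit 228) (nat_lit 0) (XT.nd (nat_lit 78) (nat_lit 152) (nat_lit 0) (XT.lf (nat_lit 0) (nat_lit 5469030290) (nat_lit 228) (nat_lit 3896972667) (nat_lit 76) (nat_lit 7404233098) (nat_lit 39) (nat_lit 5) (nat_lit 42) (nat_lit 5) (nat_lit 40) (nat_lit 5) (nat_lit 307) (nat_lit 254) (nat_lit 219)) (XT.lf (nat_lit 0) (nat_lit 8502607415) (nat_lit 152) (nat_lit 2844145675) (nat_lit 228) (nat_lit 6033443528) (nat_lit 37) (nat_lit 5) (nat_lit 39) (nat_lit 5) (nat_lit 40) (nat_lit 5) (nat_lit 308) (nat_lit 254) (nat_lit 218))) (XT.nd (nat_lit 78) (nat_lit 76) (nat_lit 0) (XT.lf (nat_lit 0) (nat_lit 3453063191) (nat_lit 152) (nat_lit 14082908120) (nat_lit 228) (nat_lit 484210363) (nat_lit 35) (nat_lit 5) (nat_lit 37) (nat_lit 5) (nat_lit 38) (nat_lit 4) (nat_lit 309)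 (nat_lit 254) (nat_lit 217)) (XT.lf (nat_lit 0) (nat_lit 5266704177) (nat_lit 228) (nat_lit 2341529349) (nat_lit 76) (nat_lit 11081588290) (nat_lit 34) (nat_lit 5) (nat_lit 37) (nat_lit 5) (nat_lit 35) (nat_lit 5) (nat_lit 310) (nat_lit 254) (nat_lit 216))))))) (XT.nd (nat_lit 1014) (nat_lit 608) (nat_lit 0) (XT.nd (nat_lit 468) (nat_lit 608) (nat_lit 0) (XT.nd (nat_lit 234) (nat_lit 228) (nat_lit 0) (XT.nd (nat_lit 78) (nat_lit 228) (nat_lit 0) (XT.lf (nat_lit 0) (nat_lit 10546828135) (nat_lit 152) (nat_lit 761676241) (nat_lit 228) (nat_lit 8083943348) (nat_lit 32) (nat_lit 5) (nat_lit 34) (nat_lit 5) (nat_lit 35) (nat_lit 5) (nat_lit 311) (nat_lit 254) (nat_lit 215)) (XT.nd (nat_lit 78) (nat_lit 76) (nat_lit 0) (XT.lf (nat_lit 0) (nat_lit 3865279876) (nat_lit 152) (nat_lit 13824499459) (nat_lit 228) (nat_lit 2439349959) (nat_lit 30) (nat_lit 5) (nat_lit 32) (nat_lit 5) (nat_lit 33) (nat_lit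 4) (nat_lit 312) (nat_lit 254) (nat_lit 214)) (XT.lf (nat_lit 0) (nat_lit 3435021178) (nat_lit 228) (nat_lit 3690128347) (nat_lit 76) (nat_lit 13776064119) (nat_lit 29) (nat_lit 5) (nat_lit 32) (nat_lit 5) (nat_lit 30) (nat_lit 5) (nat_lit 313) (nat_lit 254) (nat_lit 213)))) (XT.nd (nat_lit 78) (nat_lit 76) (nat_lit 0) (XT.lf (nat_lit 0) (nat_lit 9535954048) (nat_lit 152) (nat_lit 28797956) (nat_lit 228) (nat_lit 12146103360) (nat_lit 27) (nat_lit 5) (nat_lit 29) (nat_lit 5) (nat_lit 30) (nat_lit 5) (nat_lit 314) (nat_lit 254) (nat_lit 212)) (XT.nd (nat_lit 78) (nat_lit 0) (nat_lit 0) (XT.lf (nat_lit 0) (nat_lit 747824353) (nat_lit 76) (nat_lit 15291984648) (nat_lit 152) (nat_lit 6520043482) (nat_lit 26) (nat_lit 5) (nat_lit 27) (nat_lit 5) (nat_lit 28) (nat_lit 4) (nat_lit 315) (nat_lit 254) (nat_lit 211)) (XT.lf (nat_lit 0) (nat_lit 14439040351) (nat_lit 76) (nat_lit 8449586670) (nat_lit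 152) (nat_lit 561208865) (nat_lit 26) (nat_lit 5) (nat_lit 27) (nat_lit 5) (nat_lit 28) (nat_lit 4) (nat_lit 316) (nat_lit 254) (nat_lit 210))))) (XT.nd (nat_lit 234) (nat_lit 304) (nat_lit 0) (XT.nd (nat_lit 78) (nat_lit 76) (nat_lit 0) (XT.lf (nat_lit 0) (nat_lit 4333332012) (nat_lit 152) (nat_lit 1219992811) (nat_lit 228) (nat_lit 18830318112) (nat_lit 23) (nat_lit 5) (nat_lit 25) (nat_lit 5) (nat_lit 26) (nat_lit 5) (nat_lit 317) (nat_lit 254) (nat_lit 209)) (XT.nd (nat_lit 78) (nat_lit 76) (nat_lit 0) (XT.lf (nat_lit 0) (nat_lit 12046020364) (nat_lit 228) (nat_lit 7021193129) (nat_lit 76) (nat_lit 6294271186) (nat_lit 23) (nat_lit 5) (nat_lit 26) (nat_lit 5) (nat_lit 24) (nat_lit 4) (nat_lit 318) (nat_lit 254) (nat_lit 208)) (XT.lf (nat_lit 0) (nat_lit 6657963862) (nat_lit 76) (nat_lit 12214095800) (nat_lit 152) (nat_lit 7515928333) (nat_lit 22) (nat_lit 5) (nat_lit 23) (nat_lit 5) (nat_lit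 24) (nat_lit 4) (nat_lit 319) (nat_lit 254) (nat_lit 207)))) (XT.nd (nat_lit 156) (nat_lit 76) (nat_lit 0) (XT.nd (nat_lit 78) (nat_lit 228) (nat_lit 0) (XT.lf (nat_lit 0) (nat_lit 21052188920) (nat_lit 76) (nat_lit 4993991829) (nat_lit 152) (nat_lit 1419461624) (nat_lit 22) (nat_lit 5) (nat_lit 23) (nat_lit 5) (nat_lit 24) (nat_lit 4) (nat_lit 320) (nat_lit 254) (nat_lit 206)) (XT.lf (nat_lit 0) (nat_lit 4919833038) (nat_lit 228) (nat_lit 21063942491) (nat_lit 76) (nat_lit 2610937832) (nat_lit 19) (nat_lit 5) (nat_lit 22) (nat_lit 5) (nat_lit 20) (nat_lit 4) (nat_lit 321) (nat_lit 254) (nat_lit 205))) (XT.nd (nat_lit 78) (nat_lit 76) (nat_lit 0) (XT.lf (nat_lit 0) (nat_lit 11602573555) (nat_lit 228) (nat_lit 7647014529) (nat_lit 76) (nat_lit 10528578851) (nat_lit 19) (nat_lit 5) (nat_lit 22) (nat_lit 5) (nat_lit 20) (nat_lit 4) (nat_lit 322) (nat_lit 254) (nat_lit 204)) (XT.lf (nat_lit 0)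 (nat_lit 6462485464) (nat_lit 76) (nat_lit 12160501077) (nat_lit 152) (nat_lit 12397725149) (nat_lit 18) (nat_lit 5) (nat_lit 19) (nat_lit 5) (nat_lit 20) (nat_lit 4) (nat_lit 323) (nat_lit 254) (nat_lit 203)))))) (XT.nd (nat_lit 546) (nat_lit 228) (nat_lit 0) (XT.nd (nat_lit 234) (nat_lit 152) (nat_lit 0) (XT.nd (nat_lit 78) (nat_lit 228) (nat_lit 0) (XT.lf (nat_lit 0) (nat_lit 21335871891) (nat_lit 76) (nat_lit 4680496831) (nat_lit 152) (nat_lit 6308379901) (nat_lit 18) (nat_lit 5) (nat_lit 19) (nat_lit 5) (nat_lit 20) (nat_lit 4) (nat_lit 324) (nat_lit 254) (nat_lit 202)) (XT.nd (nat_lit 78) (nat_lit 0) (nat_lit 0) (XT.lf (nat_lit 0) (nat_lit 90532622) (nat_lit 228) (nat_lit 30501751690) (nat_lit 76) (nat_lit 3101497071) (nat_lit 15) (nat_lit 5) (nat_lit 18) (nat_lit 5) (nat_lit 16) (nat_lit 4) (nat_lit 325) (nat_lit 254) (nat_lit 201)) (XT.lf (nat_lit 0) (nat_lit 6788280383) (nat_lit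 228) (nat_lit 17024364220) (nat_lit 76) (nat_lit 11313487307) (nat_lit 15) (nat_lit 5) (nat_lit 18) (nat_lit 5) (nat_lit 16) (nat_lit 4) (nat_lit 326) (nat_lit 254) (nat_lit 200)))) (XT.nd (nat_lit 156) (nat_lit 76) (nat_lit 0) (XT.nd (nat_lit 78) (nat_lit 76) (nat_lit 0) (XT.lf (nat_lit 0) (nat_lit 13770117056) (nat_lit 228) (nat_lit 2964607665) (nat_lit 76) (nat_lit 19896918818) (nat_lit 15) (nat_lit 5) (nat_lit 18) (nat_lit 5) (nat_lit 16) (nat_lit 4) (nat_lit 327) (nat_lit 254) (nat_lit 199)) (XT.lf (nat_lit 0) (nat_lit 11944065319) (nat_lit 76) (nat_lit 9223414404) (nat_lit 152) (nat_lit 17042976689) (nat_lit 14) (nat_lit 5) (nat_lit 15) (nat_lit 5) (nat_lit 16) (nat_lit 4) (nat_lit 328) (nat_lit 254) (nat_lit 198))) (XT.nd (nat_lit 78) (nat_lit 76) (nat_lit 0) (XT.lf (nat_lit 0) (nat_lit 27575478343) (nat_lit 76) (nat_lit 1342860824) (nat_lit 152) (nat_lit 10950379699) (nat_lit 14)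 (nat_lit 5) (nat_lit 15) (nat_lit 5) (nat_lit 16) (nat_lit 4) (nat_lit 329) (nat_lit 254) (nat_lit 197)) (XT.lf (nat_lit 0) (nat_lit 2274697718) (nat_lit 76) (nat_lit 34825539390) (nat_lit 76) (nat_lit 4508369419) (nat_lit 13) (nat_lit 4) (nat_lit 14) (nat_lit 5) (nat_lit 14) (nat_lit 4) (nat_lit 330) (nat_lit 254) (nat_lit 196))))) (XT.nd (nat_lit 234) (nat_lit 76) (nat_lit 0) (XT.nd (nat_lit 78) (nat_lit 76) (nat_lit 0) (XT.lf (nat_lit 0) (nat_lit 2309009468) (nat_lit 152) (nat_lit 25720435444) (nat_lit 76) (nat_lit 15402490250) (nat_lit 12) (nat_lit 5) (nat_lit 14) (nat_lit 5) (nat_lit 13) (nat_lit 4) (nat_lit 331) (nat_lit 254) (nat_lit 195)) (XT.nd (nat_lit 78) (nat_lit 76) (nat_lit 0) (XT.lf (nat_lit 0) (nat_lit 9332913475) (nat_lit 152) (nat_lit 11548152876) (nat_lit 76) (nat_lit 24465272801) (nat_lit 12) (nat_lit 5) (nat_lit 14) (nat_lit 5) (nat_lit 13) (nat_lit 4) (nat_lit 332) (nat_lit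 254) (nat_lit 194)) (XT.lf (nat_lit 0) (nat_lit 3324900410) (nat_lit 76) (nat_lit 13375101274) (nat_lit 152) (nat_lit 30656716202) (nat_lit 11) (nat_lit 5) (nat_lit 12) (nat_lit 5) (nat_lit 13) (nat_lit 4) (nat_lit 333) (nat_lit 254) (nat_lit 193)))) (XT.nd (nat_lit 156) (nat_lit 76) (nat_lit 0) (XT.nd (nat_lit 78) (nat_lit 0) (nat_lit 0) (XT.lf (nat_lit 0) (nat_lit 19112289225) (nat_lit 76) (nat_lit 5403285545) (nat_lit 152) (nat_lit 24949650411) (nat_lit 11) (nat_lit 5) (nat_lit 12) (nat_lit 5) (nat_lit 13) (nat_lit 4) (nat_lit 334) (nat_lit 254) (nat_lit 192)) (XT.lf (nat_lit 0) (nat_lit 32713253870) (nat_lit 152) (nat_lit 16086735921) (nat_lit 0) (nat_lit 2879441122) (nat_lit 11) (nat_lit 5) (nat_lit 13) (nat_lit 4) (nat_lit 11) (nat_lit 4) (nat_lit 335) (nat_lit 254) (nat_lit 191))) (XT.nd (nat_lit 78) (nat_lit 76) (nat_lit 0) (XT.lf (nat_lit 0) (nat_lit 41339930336) (nat_lit 152) (nat_lit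 1226623295) (nat_lit 0) (nat_lit 11437232178) (nat_lit 11) (nat_lit 5) (nat_lit 13) (nat_lit 4) (nat_lit 11) (nat_lit 4) (nat_lit 336) (nat_lit 254) (nat_lit 190)) (XT.lf (nat_lit 0) (nat_lit 14599613878) (nat_lit 76) (nat_lit 35904930729) (nat_lit 76) (nat_lit 5936627418) (nat_lit 10) (nat_lit 4) (nat_lit 11) (nat_lit 5) (nat_lit 11) (nat_lit 4) (nat_lit 337) (nat_lit 254) (nat_lit 189))))))))
noncomputable def xc40 : XT := (XT.nd (nat_lit 35490) (nat_lit 0) (nat_lit 4560) (XT.nd (nat_lit 1014) (nat_lit 76) (nat_lit 0) (XT.nd (nat_lit 468) (nat_lit 228) (nat_lit 0) (XT.nd (nat_lit 234) (nat_lit 0) (nat_lit 0) (XT.nd (nat_lit 78) (nat_lit 76) (nat_lit 0) (XT.lf (nat_lit 0) (nat_lit 1084681515) (nat_lit 152) (nat_lit 27828880933) (nat_lit 76) (nat_lit 30087159610) (nat_lit 9) (nat_lit 5) (nat_lit 11) (nat_lit 5) (nat_lit 10) (nat_lit 4) (nat_lit 338) (nat_lit 254) (nat_lit 188)) (XT.nd (nat_lit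 78) (nat_lit 76) (nat_lit 0) (XT.lf (nat_lit 0) (nat_lit 8303950605) (nat_lit 152) (nat_lit 13233270488) (nat_lit 76) (nat_lit 40150185245) (nat_lit 9) (nat_lit 5) (nat_lit 11) (nat_lit 5) (nat_lit 10) (nat_lit 4) (nat_lit 339) (nat_lit 254) (nat_lit 187)) (XT.lf (nat_lit 0) (nat_lit 2077633242) (nat_lit 76) (nat_lit 13796551810) (nat_lit 152) (nat_lit 48634549531) (nat_lit 8) (nat_lit 5) (nat_lit 9) (nat_lit 5) (nat_lit 10) (nat_lit 4) (nat_lit 340) (nat_lit 254) (nat_lit 186)))) (XT.nd (nat_lit 78) (nat_lit 0) (nat_lit 0) (XT.lf (nat_lit 0) (nat_lit 18377166652) (nat_lit 76) (nat_lit 5552933144) (nat_lit 152) (nat_lit 43537823727) (nat_lit 8) (nat_lit 5) (nat_lit 9) (nat_lit 5) (nat_lit 10) (nat_lit 4) (nat_lit 341) (nat_lit 254) (nat_lit 185)) (XT.nd (nat_lit 78) (nat_lit 0) (nat_lit 0) (XT.lf (nat_lit 0) (nat_lit 32390740953) (nat_lit 152) (nat_lit 35164744175) (nat_lit 0) (nat_lit 3019537759)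 (nat_lit 8) (nat_lit 5) (nat_lit 10) (nat_lit 4) (nat_lit 8) (nat_lit 4) (nat_lit 342) (nat_lit 254) (nat_lit 184)) (XT.lf (nat_lit 0) (nat_lit 41303893671) (nat_lit 152) (nat_lit 20647546843) (nat_lit 0) (nat_lit 11885160792) (nat_lit 8) (nat_lit 5) (nat_lit 10) (nat_lit 4) (nat_lit 8) (nat_lit 4) (nat_lit 343) (nat_lit 254) (nat_lit 183))))) (XT.nd (nat_lit 234) (nat_lit 152) (nat_lit 0) (XT.nd (nat_lit 78) (nat_lit 76) (nat_lit 0) (XT.lf (nat_lit 0) (nat_lit 50637401553) (nat_lit 152) (nat_lit 5451221931) (nat_lit 0) (nat_lit 21173402308) (nat_lit 8) (nat_lit 5) (nat_lit 10) (nat_lit 4) (nat_lit 8) (nat_lit 4) (nat_lit 344) (nat_lit 254) (nat_lit 182)) (XT.nd (nat_lit 78) (nat_lit 0) (nat_lit 0) (XT.lf (nat_lit 0) (nat_lit 10668595003) (nat_lit 76) (nat_lit 49847445294) (nat_lit 76) (nat_lit 20340335224) (nat_lit 7) (nat_lit 4) (nat_lit 8) (nat_lit 5) (nat_lit 8) (nat_lit 4) (nat_lit 345)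 (nat_lit 254) (nat_lit 181)) (XT.lf (nat_lit 0) (nat_lit 27665086133) (nat_lit 76) (nat_lit 43256274713) (nat_lit 76) (nat_lit 13708106714) (nat_lit 7) (nat_lit 4) (nat_lit 8) (nat_lit 5) (nat_lit 8) (nat_lit 4) (nat_lit 346) (nat_lit 254) (nat_lit 180)))) (XT.nd (nat_lit 156) (nat_lit 76) (nat_lit 0) (XT.nd (nat_lit 78) (nat_lit 76) (nat_lit 0) (XT.lf (nat_lit 0) (nat_lit 45470229289) (nat_lit 76) (nat_lit 36354465129) (nat_lit 76) (nat_lit 6767194342) (nat_lit 7) (nat_lit 4) (nat_lit 8) (nat_lit 5) (nat_lit 8) (nat_lit 4) (nat_lit 347) (nat_lit 254) (nat_lit 179)) (XT.lf (nat_lit 0) (nat_lit 489191994) (nat_lit 152) (nat_lit 28631451790) (nat_lit 76) (nat_lit 63632285797) (nat_lit 6) (nat_lit 5) (nat_lit 8) (nat_lit 5) (nat_lit 7) (nat_lit 4) (nat_lit 348) (nat_lit 254) (nat_lit 178))) (XT.nd (nat_lit 78) (nat_lit 76) (nat_lit 0) (XT.lf (nat_lit 0) (nat_lit 7949352523) (nat_lit 152) (nat_lit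 13522793298) (nat_lit 76) (nat_lit 75648445376) (nat_lit 6) (nat_lit 5) (nat_lit 8) (nat_lit 5) (nat_lit 7) (nat_lit 4) (nat_lit 349) (nat_lit 254) (nat_lit 177)) (XT.lf (nat_lit 0) (nat_lit 2351220187) (nat_lit 76) (nat_lit 13434483048) (nat_lit 152) (nat_lit 85920843041) (nat_lit 5) (nat_lit 5) (nat_lit 6) (nat_lit 5) (nat_lit 7) (nat_lit 4) (nat_lit 350) (nat_lit 254) (nat_lit 176)))))) (XT.nd (nat_lit 468) (nat_lit 76) (nat_lit 0) (XT.nd (nat_lit 234) (nat_lit 0) (nat_lit 0) (XT.nd (nat_lit 78) (nat_lit 0) (nat_lit 0) (XT.lf (nat_lit 0) (nat_lit 19266592997) (nat_lit 76) (nat_lit 4867653475) (nat_lit 152) (nat_lit 82383946954) (nat_lit 5) (nat_lit 5) (nat_lit 6) (nat_lit 5) (nat_lit 7) (nat_lit 4) (nat_lit 351) (nat_lit 254) (nat_lit 175)) (XT.nd (nat_lit 78) (nat_lit 0) (nat_lit 0) (XT.lf (nat_lit 0) (nat_lit 32921812166) (nat_lit 152) (nat_lit 74616025368) (nat_lit 0) (nat_lit 4031942844)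 (nat_lit 5) (nat_lit 5) (nat_lit 7) (nat_lit 4) (nat_lit 5) (nat_lit 4) (nat_lit 352) (nat_lit 254) (nat_lit 174)) (XT.lf (nat_lit 0) (nat_lit 42180666616) (nat_lit 152) (nat_lit 61429859728) (nat_lit 0) (nat_lit 13262468068) (nat_lit 5) (nat_lit 5) (nat_lit 7) (nat_lit 4) (nat_lit 5) (nat_lit 4) (nat_lit 353) (nat_lit 254) (nat_lit 173)))) (XT.nd (nat_lit 78) (nat_lit 0) (nat_lit 0) (XT.lf (nat_lit 0) (nat_lit 51886063853) (nat_lit 152) (nat_lit 47614917015) (nat_lit 0) (nat_lit 22940885089) (nat_lit 5) (nat_lit 5) (nat_lit 7) (nat_lit 4) (nat_lit 5) (nat_lit 4) (nat_lit 354) (nat_lit 254) (nat_lit 172)) (XT.nd (nat_lit 78) (nat_lit 0) (nat_lit 0) (XT.lf (nat_lit 0) (nat_lit 62061111964) (nat_lit 152) (nat_lit 33138304507) (nat_lit 0) (nat_lit 33090237757) (nat_lit 5) (nat_lit 5) (nat_lit 7) (nat_lit 4) (nat_lit 5) (nat_lit 4) (nat_lit 355) (nat_lit 254) (nat_lit 171)) (XT.lf (nat_lit 0)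 (nat_lit 72730037256) (nat_lit 152) (nat_lit 17965554080) (nat_lit 0) (nat_lit 43734691198) (nat_lit 5) (nat_lit 5) (nat_lit 7) (nat_lit 4) (nat_lit 5) (nat_lit 4) (nat_lit 356) (nat_lit 254) (nat_lit 170))))) (XT.nd (nat_lit 234) (nat_lit 0) (nat_lit 0) (XT.nd (nat_lit 78) (nat_lit 76) (nat_lit 0) (XT.lf (nat_lit 0) (nat_lit 83918241930) (nat_lit 152) (nat_lit 2060540138) (nat_lit 0) (nat_lit 54899589347) (nat_lit 5) (nat_lit 5) (nat_lit 7) (nat_lit 4) (nat_lit 5) (nat_lit 4) (nat_lit 357) (nat_lit 254) (nat_lit 169)) (XT.nd (nat_lit 78) (nat_lit 0) (nat_lit 0) (XT.lf (nat_lit 0) (nat_lit 14905465724) (nat_lit 76) (nat_lit 80890179300) (nat_lit 76) (nat_lit 51849330027) (nat_lit 4) (nat_lit 4) (nat_lit 5) (nat_lit 5) (nat_lit 5) (nat_lit 4) (nat_lit 358) (nat_lit 254) (nat_lit 168)) (XT.lf (nat_lit 0) (nat_lit 32738433013) (nat_lit 76) (nat_lit 75536612394) (nat_lit 76) (nat_lit 46474623416)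 (nat_lit 4) (nat_lit 4) (nat_lit 5) (nat_lit 5) (nat_lit 5) (nat_lit 4) (nat_lit 359) (nat_lit 254) (nat_lit 167)))) (XT.nd (nat_lit 33618) (nat_lit 0) (nat_lit 19684) (XT.nd (nat_lit 78) (nat_lit 0) (nat_lit 0) (XT.lf (nat_lit 0) (nat_lit 51439812384) (nat_lit 76) (nat_lit 69926142178) (nat_lit 76) (nat_lit 40844020147) (nat_lit 4) (nat_lit 4) (nat_lit 5) (nat_lit 5) (nat_lit 5) (nat_lit 4) (nat_lit 360) (nat_lit 254) (nat_lit 166)) (XT.lf (nat_lit 0) (nat_lit 71054130933) (nat_lit 76) (nat_lit 64045410389) (nat_lit 76) (nat_lit 34944114023) (nat_lit 4) (nat_lit 4) (nat_lit 5) (nat_lit 5) (nat_lit 5) (nat_lit 4) (nat_lit 361) (nat_lit 254) (nat_lit 165))) (XT.nd (nat_lit 78) (nat_lit 760) (nat_lit 0) (XT.lf (nat_lit 0) (nat_lit 1481290698) (nat_lit 684) (nat_lit 412915222) (nat_lit 0) (nat_lit 1481290698) (nat_lit 273) (nat_lit 5) (nat_lit 282) (nat_lit 4) (nat_lit 273) (nat_lit 4) (nat_lit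 270) (nat_lit 255) (nat_lit 255)) (XT.lf (nat_lit 0) (nat_lit 1243159705) (nat_lit 760) (nat_lit 751097021) (nat_lit 76) (nat_lit 4823842507) (nat_lit 263) (nat_lit 5) (nat_lit 273) (nat_lit 5) (nat_lit 264) (nat_lit 4) (nat_lit 271) (nat_lit 255) (nat_lit 254))))))) (XT.nd (nat_lit 1014) (nat_lit 4636) (nat_lit 0) (XT.nd (nat_lit 468) (nat_lit 3876) (nat_lit 0) (XT.nd (nat_lit 234) (nat_lit 3952) (nat_lit 0) (XT.nd (nat_lit 78) (nat_lit 1900) (nat_lit 0) (XT.lf (nat_lit 0) (nat_lit 6249780654) (nat_lit 836) (nat_lit 601624925) (nat_lit 0) (nat_lit 42514811) (nat_lit 253) (nat_lit 5) (nat_lit 264) (nat_lit 4) (nat_lit 253) (nat_lit 4) (nat_lit 272) (nat_lit 255) (nat_lit 253)) (XT.nd (nat_lit 78) (nat_lit 988) (nat_lit 0) (XT.lf (nat_lit 0) (nat_lit 4276742012) (nat_lit 912) (nat_lit 409226755) (nat_lit 76) (nat_lit 2291795617) (nat_lit 241) (nat_lit 5) (nat_lit 253) (nat_lit 5) (nat_lit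 242) (nat_lit 4) (nat_lit 273) (nat_lit 255) (nat_lit 252)) (XT.lf (nat_lit 0) (nat_lit 2139388371) (nat_lit 988) (nat_lit 145485596) (nat_lit 76) (nat_lit 4785890936) (nat_lit 228) (nat_lit 5) (nat_lit 241) (nat_lit 5) (nat_lit 229) (nat_lit 5) (nat_lit 274) (nat_lit 255) (nat_lit 251)))) (XT.nd (nat_lit 78) (nat_lit 1900) (nat_lit 0) (XT.lf (nat_lit 0) (nat_lit 185049569) (nat_lit 1064) (nat_lit 6818481788) (nat_lit 1140) (nat_lit 169394119) (nat_lit 201) (nat_lit 5) (nat_lit 215) (nat_lit 5) (nat_lit 216) (nat_lit 4) (nat_lit 275) (nat_lit 255) (nat_lit 250)) (XT.nd (nat_lit 78) (nat_lit 684) (nat_lit 0) (XT.lf (nat_lit 0) (nat_lit 536803383) (nat_lit 1140) (nat_lit 4065914168) (nat_lit 1216) (nat_lit 2680501015) (nat_lit 185) (nat_lit 5) (nat_lit 200) (nat_lit 5) (nat_lit 201) (nat_lit 5) (nat_lit 276) (nat_lit 255) (nat_lit 249)) (XT.lf (nat_lit 0) (nat_lit 947626392) (nat_lit 608) (nat_lit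 1069955860) (nat_lit 684) (nat_lit 5385638795) (nat_lit 176) (nat_lit 5) (nat_lit 184) (nat_lit 5) (nat_lit 185) (nat_lit 5) (nat_lit 277) (nat_lit 255) (nat_lit 248))))) (XT.nd (nat_lit 234) (nat_lit 2052) (nat_lit 0) (XT.nd (nat_lit 78) (nat_lit 1216) (nat_lit 0) (XT.lf (nat_lit 0) (nat_lit 1385160471) (nat_lit 608) (nat_lit 5390713003) (nat_lit 684) (nat_lit 756489632) (nat_lit 168) (nat_lit 5) (nat_lit 176) (nat_lit 5) (nat_lit 177) (nat_lit 5) (nat_lit 278) (nat_lit 255) (nat_lit 247)) (XT.nd (nat_lit 78) (nat_lit 608) (nat_lit 0) (XT.lf (nat_lit 0) (nat_lit 1839557743) (nat_lit 532) (nat_lit 2062867333) (nat_lit 608) (nat_lit 3768332724) (nat_lit 160) (nat_lit 5) (nat_lit 167) (nat_lit 5) (nat_lit 168) (nat_lit 5) (nat_lit 279) (nat_lit 255) (nat_lit 246)) (XT.lf (nat_lit 0) (nat_lit 833651722) (nat_lit 608) (nat_lit 5496276983) (nat_lit 76) (nat_lit 1489257736) (nat_lit 152) (nat_lit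 5) (nat_lit 160) (nat_lit 5) (nat_lit 153) (nat_lit 5) (nat_lit 280) (nat_lit 255) (nat_lit 245)))) (XT.nd (nat_lit 156) (nat_lit 988) (nat_lit 0) (XT.nd (nat_lit 78) (nat_lit 608) (nat_lit 0) (XT.lf (nat_lit 0) (nat_lit 2798730076) (nat_lit 456) (nat_lit 2694459574) (nat_lit 532) (nat_lit 2483857274) (nat_lit 146) (nat_lit 5) (nat_lit 152) (nat_lit 5) (nat_lit 153) (nat_lit 5) (nat_lit 281) (nat_lit 255) (nat_lit 244)) (XT.lf (nat_lit 0) (nat_lit 2101235030) (nat_lit 608) (nat_lit 4860264521) (nat_lit 76) (nat_lit 1183860562) (nat_lit 138) (nat_lit 5) (nat_lit 146) (nat_lit 5) (nat_lit 139) (nat_lit 5) (nat_lit 282) (nat_lit 255) (nat_lit 243))) (XT.nd (nat_lit 78) (nat_lit 532) (nat_lit 0) (XT.lf (nat_lit 0) (nat_lit 3753257596) (nat_lit 456) (nat_lit 3037233580) (nat_lit 532) (nat_lit 1533328232) (nat_lit 132) (nat_lit 5) (nat_lit 138) (nat_lit 5) (nat_lit 139) (nat_lit 5) (nat_lit 283)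 (nat_lit 255) (nat_lit 242)) (XT.lf (nat_lit 0) (nat_lit 3056443210) (nat_lit 532) (nat_lit 4308361788) (nat_lit 76) (nat_lit 1148232146) (nat_lit 125) (nat_lit 5) (nat_lit 132) (nat_lit 5) (nat_lit 126) (nat_lit 5) (nat_lit 284) (nat_lit 255) (nat_lit 241)))))) (XT.nd (nat_lit 468) (nat_lit 2204) (nat_lit 0) (XT.nd (nat_lit 234) (nat_lit 1216) (nat_lit 0) (XT.nd (nat_lit 78) (nat_lit 836) (nat_lit 0) (XT.lf (nat_lit 0) (nat_lit 4624661301) (nat_lit 380) (nat_lit 3162292118) (nat_lit 456) (nat_lit 926244017) (nat_lit 120) (nat_lit 5) (nat_lit 125) (nat_lit 5) (nat_lit 126) (nat_lit 5) (nat_lit 285) (nat_lit 255) (nat_lit 240)) (XT.nd (nat_lit 78) (nat_lit 380) (nat_lit 0) (XT.lf (nat_lit 0) (nat_lit 3686323723) (nat_lit 456) (nat_lit 3925107094) (nat_lit 76) (nat_lit 1313125709) (nat_lit 114) (nat_lit 5) (nat_lit 120) (nat_lit 5) (nat_lit 115) (nat_lit 5) (nat_lit 286) (nat_lit 255) (nat_lit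 239)) (XT.lf (nat_lit 0) (nat_lit 5325581686) (nat_lit 380) (nat_lit 3141042122) (nat_lit 456) (nat_lit 681095824) (nat_lit 109) (nat_lit 5) (nat_lit 114) (nat_lit 5) (nat_lit 115) (nat_lit 5) (nat_lit 287) (nat_lit 255) (nat_lit 238)))) (XT.nd (nat_lit 78) (nat_lit 760) (nat_lit 0) (XT.lf (nat_lit 0) (nat_lit 3968849548) (nat_lit 456) (nat_lit 3805546540) (nat_lit 76) (nat_lit 1608294322) (nat_lit 103) (nat_lit 5) (nat_lit 109) (nat_lit 5) (nat_lit 104) (nat_lit 5) (nat_lit 288) (nat_lit 255) (nat_lit 237)) (XT.nd (nat_lit 78) (nat_lit 456) (nat_lit 0) (XT.lf (nat_lit 0) (nat_lit 5757209282) (nat_lit 304) (nat_lit 3046973650) (nat_lit 380) (nat_lit 826190416) (nat_lit 99) (nat_lit 5) (nat_lit 103) (nat_lit 5) (nat_lit 104) (nat_lit 5) (nat_lit 289) (nat_lit 255) (nat_lit 236)) (XT.lf (nat_lit 0) (nat_lit 3871999700) (nat_lit 456) (nat_lit 4057990535) (nat_lit 76) (nat_lit 1960690366) (nat_lit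 93) (nat_lit 5) (nat_lit 99) (nat_lit 5) (nat_lit 94) (nat_lit 5) (nat_lit 290) (nat_lit 255) (nat_lit 235))))) (XT.nd (nat_lit 234) (nat_lit 1216) (nat_lit 0) (XT.nd (nat_lit 78) (nat_lit 684) (nat_lit 0) (XT.lf (nat_lit 0) (nat_lit 5806369734) (nat_lit 304) (nat_lit 2957555341) (nat_lit 380) (nat_lit 1400709669) (nat_lit 89) (nat_lit 5) (nat_lit 93) (nat_lit 5) (nat_lit 94) (nat_lit 5) (nat_lit 291) (nat_lit 255) (nat_lit 234)) (XT.nd (nat_lit 78) (nat_lit 304) (nat_lit 0) (XT.lf (nat_lit 0) (nat_lit 3352594795) (nat_lit 380) (nat_lit 4807157072) (nat_lit 76) (nat_lit 2292531414) (nat_lit 84) (nat_lit 5) (nat_lit 89) (nat_lit 5) (nat_lit 85) (nat_lit 5) (nat_lit 292) (nat_lit 255) (nat_lit 233)) (XT.lf (nat_lit 0) (nat_lit 5342190980) (nat_lit 304) (nat_lit 2956290002) (nat_lit 380) (nat_lit 2456036539) (nat_lit 80) (nat_lit 5) (nat_lit 84) (nat_lit 5) (nat_lit 85) (nat_lit 5) (nat_lit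 293) (nat_lit 255) (nat_lit 232)))) (XT.nd (nat_lit 156) (nat_lit 608) (nat_lit 0) (XT.nd (nat_lit 78) (nat_lit 228) (nat_lit 0) (XT.lf (nat_lit 0) (nat_lit 2354855493) (nat_lit 380) (nat_lit 6197780005) (nat_lit 76) (nat_lit 2519187512) (nat_lit 75) (nat_lit 5) (nat_lit 80) (nat_lit 5) (nat_lit 76) (nat_lit 5) (nat_lit 294) (nat_lit 255) (nat_lit 231)) (XT.lf (nat_lit 0) (nat_lit 4212269280) (nat_lit 228) (nat_lit 3134978621) (nat_lit 304) (nat_lit 4057383508) (nat_lit 72) (nat_lit 5) (nat_lit 75) (nat_lit 5) (nat_lit 76) (nat_lit 5) (nat_lit 295) (nat_lit 255) (nat_lit 230))) (XT.nd (nat_lit 78) (nat_lit 228) (nat_lit 0) (XT.lf (nat_lit 0) (nat_lit 808644969) (nat_lit 380) (nat_lit 8398772488) (nat_lit 76) (nat_lit 2546839691) (nat_lit 67) (nat_lit 5) (nat_lit 72) (nat_lit 5) (nat_lit 68) (nat_lit 5) (nat_lit 296) (nat_lit 255) (nat_lit 229)) (XT.lf (nat_lit 0) (nat_lit 2238237936) (nat_lit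 228) (nat_lit 3596246901) (nat_lit 304) (nat_lit 6285766866) (nat_lit 64) (nat_lit 5) (nat_lit 67) (nat_lit 5) (nat_lit 68) (nat_lit 5) (nat_lit 297) (nat_lit 255) (nat_lit 228))))))))
noncomputable def xc41 : XT := (XT.nd (nat_lit 2028) (nat_lit 988) (nat_lit 0) (XT.nd (nat_lit 1014) (nat_lit 1140) (nat_lit 0) (XT.nd (nat_lit 468) (nat_lit 1064) (nat_lit 0) (XT.nd (nat_lit 234) (nat_lit 684) (nat_lit 0) (XT.nd (nat_lit 78) (nat_lit 304) (nat_lit 0) (XT.lf (nat_lit 0) (nat_lit 883341132) (nat_lit 228) (nat_lit 10221537815) (nat_lit 304) (nat_lit 1399969530) (nat_lit 61) (nat_lit 5) (nat_lit 64) (nat_lit 5) (nat_lit 65) (nat_lit 5) (nat_lit 298) (nat_lit 255) (nat_lit 227)) (XT.nd (nat_lit 78) (nat_lit 228) (nat_lit 0) (XT.lf (nat_lit 0) (nat_lit 3674610763) (nat_lit 304) (nat_lit 773969177) (nat_lit 76) (nat_lit 8458593830) (nat_lit 60) (nat_lit 5) (nat_lit 64) (nat_lit 5) (nat_lit 61) (nat_lit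 5) (nat_lit 299) (nat_lit 255) (nat_lit 226)) (XT.lf (nat_lit 0) (nat_lit 8976505234) (nat_lit 304) (nat_lit 2716170735) (nat_lit 76) (nat_lit 1636535741) (nat_lit 57) (nat_lit 5) (nat_lit 61) (nat_lit 5) (nat_lit 58) (nat_lit 5) (nat_lit 300) (nat_lit 255) (nat_lit 225)))) (XT.nd (nat_lit 78) (nat_lit 380) (nat_lit 0) (XT.lf (nat_lit 0) (nat_lit 780719444) (nat_lit 304) (nat_lit 5017259855) (nat_lit 76) (nat_lit 7973492855) (nat_lit 53) (nat_lit 5) (nat_lit 57) (nat_lit 5) (nat_lit 54) (nat_lit 5) (nat_lit 301) (nat_lit 255) (nat_lit 224)) (XT.nd (nat_lit 78) (nat_lit 228) (nat_lit 0) (XT.lf (nat_lit 0) (nat_lit 6066950348) (nat_lit 228) (nat_lit 7711160905) (nat_lit 76) (nat_lit 456934682) (nat_lit 51) (nat_lit 5) (nat_lit 54) (nat_lit 5) (nat_lit 52) (nat_lit 5) (nat_lit 302) (nat_lit 255) (nat_lit 223)) (XT.lf (nat_lit 0) (nat_lit 3870974700) (nat_lit 228) (nat_lit 7787262731) (nat_lit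 304) (nat_lit 3062412754) (nat_lit 48) (nat_lit 5) (nat_lit 51) (nat_lit 5) (nat_lit 52) (nat_lit 5) (nat_lit 303) (nat_lit 255) (nat_lit 222))))) (XT.nd (nat_lit 234) (nat_lit 608) (nat_lit 0) (XT.nd (nat_lit 78) (nat_lit 228) (nat_lit 0) (XT.lf (nat_lit 0) (nat_lit 788274364) (nat_lit 152) (nat_lit 1448422838) (nat_lit 228) (nat_lit 12993753248) (nat_lit 45) (nat_lit 5) (nat_lit 47) (nat_lit 5) (nat_lit 48) (nat_lit 5) (nat_lit 304) (nat_lit 255) (nat_lit 221)) (XT.nd (nat_lit 78) (nat_lit 228) (nat_lit 0) (XT.lf (nat_lit 0) (nat_lit 7798917259) (nat_lit 228) (nat_lit 2776685915) (nat_lit 76) (nat_lit 5187448496) (nat_lit 45) (nat_lit 5) (nat_lit 48) (nat_lit 5) (nat_lit 46) (nat_lit 5) (nat_lit 305) (nat_lit 255) (nat_lit 220)) (XT.lf (nat_lit 0) (nat_lit 9483398534) (nat_lit 228) (nat_lit 4164535259) (nat_lit 304) (nat_lit 2674150758) (nat_lit 42) (nat_lit 5) (nat_lit 45) (nat_lit 5)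 (nat_lit 46) (nat_lit 5) (nat_lit 306) (nat_lit 255) (nat_lit 219)))) (XT.nd (nat_lit 156) (nat_lit 228) (nat_lit 0) (XT.nd (nat_lit 78) (nat_lit 152) (nat_lit 0) (XT.lf (nat_lit 0) (nat_lit 2835384438) (nat_lit 228) (nat_lit 11506131970) (nat_lit 76) (nat_lit 2566441780) (nat_lit 39) (nat_lit 5) (nat_lit 42) (nat_lit 5) (nat_lit 40) (nat_lit 5) (nat_lit 307) (nat_lit 255) (nat_lit 218)) (XT.lf (nat_lit 0) (nat_lit 665269821) (nat_lit 152) (nat_lit 7927396415) (nat_lit 228) (nat_lit 8928892449) (nat_lit 37) (nat_lit 5) (nat_lit 39) (nat_lit 5) (nat_lit 40) (nat_lit 5) (nat_lit 308) (nat_lit 255) (nat_lit 217))) (XT.nd (nat_lit 78) (nat_lit 228) (nat_lit 0) (XT.lf (nat_lit 0) (nat_lit 13535858157) (nat_lit 152) (nat_lit 1130899566) (nat_lit 228) (nat_lit 3498265251) (nat_lit 37) (nat_lit 5) (nat_lit 39) (nat_lit 5) (nat_lit 40) (nat_lit 5) (nat_lit 309) (nat_lit 255) (nat_lit 216)) (XT.lf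 (nat_lit 0) (nat_lit 2211774040) (nat_lit 228) (nat_lit 10694689358) (nat_lit 76) (nat_lit 5932083132) (nat_lit 34) (nat_lit 5) (nat_lit 37) (nat_lit 5) (nat_lit 35) (nat_lit 5) (nat_lit 310) (nat_lit 255) (nat_lit 215)))))) (XT.nd (nat_lit 468) (nat_lit 532) (nat_lit 0) (XT.nd (nat_lit 234) (nat_lit 304) (nat_lit 0) (XT.nd (nat_lit 78) (nat_lit 152) (nat_lit 0) (XT.lf (nat_lit 0) (nat_lit 1956620416) (nat_lit 152) (nat_lit 6173440346) (nat_lit 228) (nat_lit 11414839475) (nat_lit 32) (nat_lit 5) (nat_lit 34) (nat_lit 5) (nat_lit 35) (nat_lit 5) (nat_lit 311) (nat_lit 255) (nat_lit 214)) (XT.nd (nat_lit 78) (nat_lit 152) (nat_lit 0) (XT.lf (nat_lit 0) (nat_lit 14382254067) (nat_lit 228) (nat_lit 4969159846) (nat_lit 76) (nat_lit 934061673) (nat_lit 32) (nat_lit 5) (nat_lit 35) (nat_lit 5) (nat_lit 33) (nat_lit 4) (nat_lit 312) (nat_lit 255) (nat_lit 213)) (XT.lf (nat_lit 0) (nat_lit 8246021343)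 (nat_lit 152) (nat_lit 12764701701) (nat_lit 228) (nat_lit 50488320) (nat_lit 30) (nat_lit 5) (nat_lit 32) (nat_lit 5) (nat_lit 33) (nat_lit 4) (nat_lit 313) (nat_lit 255) (nat_lit 212)))) (XT.nd (nat_lit 78) (nat_lit 76) (nat_lit 0) (XT.lf (nat_lit 0) (nat_lit 164495362) (nat_lit 152) (nat_lit 5788461740) (nat_lit 228) (nat_lit 15921747442) (nat_lit 27) (nat_lit 5) (nat_lit 29) (nat_lit 5) (nat_lit 30) (nat_lit 5) (nat_lit 314) (nat_lit 255) (nat_lit 211)) (XT.nd (nat_lit 78) (nat_lit 76) (nat_lit 0) (XT.lf (nat_lit 0) (nat_lit 12329195331) (nat_lit 228) (nat_lit 8809734186) (nat_lit 76) (nat_lit 1587754598) (nat_lit 27) (nat_lit 5) (nat_lit 30) (nat_lit 5) (nat_lit 28) (nat_lit 4) (nat_lit 315) (nat_lit 255) (nat_lit 210)) (XT.lf (nat_lit 0) (nat_lit 4644934039) (nat_lit 76) (nat_lit 14411582999) (nat_lit 152) (nat_lit 4563812405) (nat_lit 26) (nat_lit 5) (nat_lit 27) (nat_lit 5) (nat_lit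 28) (nat_lit 4) (nat_lit 316) (nat_lit 255) (nat_lit 209))))) (XT.nd (nat_lit 234) (nat_lit 304) (nat_lit 0) (XT.nd (nat_lit 78) (nat_lit 152) (nat_lit 0) (XT.lf (nat_lit 0) (nat_lit 1553371039) (nat_lit 152) (nat_lit 5736341456) (nat_lit 76) (nat_lit 17267857677) (nat_lit 25) (nat_lit 5) (nat_lit 27) (nat_lit 5) (nat_lit 26) (nat_lit 5) (nat_lit 317) (nat_lit 255) (nat_lit 208)) (XT.nd (nat_lit 78) (nat_lit 0) (nat_lit 0) (XT.lf (nat_lit 0) (nat_lit 7897947152) (nat_lit 228) (nat_lit 17379803182) (nat_lit 76) (nat_lit 262120168) (nat_lit 23) (nat_lit 5) (nat_lit 26) (nat_lit 5) (nat_lit 24) (nat_lit 4) (nat_lit 318) (nat_lit 255) (nat_lit 207)) (XT.lf (nat_lit 0) (nat_lit 14628578306) (nat_lit 228) (nat_lit 3885862685) (nat_lit 76) (nat_lit 8054809358) (nat_lit 23) (nat_lit 5) (nat_lit 26) (nat_lit 5) (nat_lit 24) (nat_lit 4) (nat_lit 319) (nat_lit 255) (nat_lit 206)))) (XT.nd (nat_lit 156)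 (nat_lit 152) (nat_lit 0) (XT.nd (nat_lit 78) (nat_lit 76) (nat_lit 0) (XT.lf (nat_lit 0) (nat_lit 10377315483) (nat_lit 76) (nat_lit 11356858800) (nat_lit 152) (nat_lit 5914799806) (nat_lit 22) (nat_lit 5) (nat_lit 23) (nat_lit 5) (nat_lit 24) (nat_lit 4) (nat_lit 320) (nat_lit 255) (nat_lit 205)) (XT.lf (nat_lit 0) (nat_lit 384694774) (nat_lit 152) (nat_lit 3457072183) (nat_lit 76) (nat_lit 24941412670) (nat_lit 21) (nat_lit 5) (nat_lit 23) (nat_lit 5) (nat_lit 22) (nat_lit 5) (nat_lit 321) (nat_lit 255) (nat_lit 204))) (XT.nd (nat_lit 78) (nat_lit 0) (nat_lit 0) (XT.lf (nat_lit 0) (nat_lit 6967698942) (nat_lit 228) (nat_lit 18906795593) (nat_lit 76) (nat_lit 4095142739) (nat_lit 19) (nat_lit 5) (nat_lit 22) (nat_lit 5) (nat_lit 20) (nat_lit 4) (nat_lit 322) (nat_lit 255) (nat_lit 203)) (XT.lf (nat_lit 0) (nat_lit 13898772949) (nat_lit 228) (nat_lit 4971894758) (nat_lit 76) (nat_lit 12344205904)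 (nat_lit 19) (nat_lit 5) (nat_lit 22) (nat_lit 5) (nat_lit 20) (nat_lit 4) (nat_lit 323) (nat_lit 255) (nat_lit 202))))))) (XT.nd (nat_lit 1014) (nat_lit 380) (nat_lit 0) (XT.nd (nat_lit 468) (nat_lit 228) (nat_lit 0) (XT.nd (nat_lit 234) (nat_lit 76) (nat_lit 0) (XT.nd (nat_lit 78) (nat_lit 228) (nat_lit 0) (XT.lf (nat_lit 0) (nat_lit 9755438457) (nat_lit 76) (nat_lit 11461598286) (nat_lit 152) (nat_lit 11304138221) (nat_lit 18) (nat_lit 5) (nat_lit 19) (nat_lit 5) (nat_lit 20) (nat_lit 4) (nat_lit 324) (nat_lit 255) (nat_lit 201)) (XT.nd (nat_lit 78) (nat_lit 228) (nat_lit 0) (XT.lf (nat_lit 0) (nat_lit 25231073790) (nat_lit 76) (nat_lit 3669828487) (nat_lit 152) (nat_lit 4991919672) (nat_lit 18) (nat_lit 5) (nat_lit 19) (nat_lit 5) (nat_lit 20) (nat_lit 4) (nat_lit 325) (nat_lit 255) (nat_lit 200)) (XT.lf (nat_lit 0) (nat_lit 1657422158) (nat_lit 228) (nat_lit 29212647466) (nat_lit 76)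 (nat_lit 4460926473) (nat_lit 15) (nat_lit 5) (nat_lit 18) (nat_lit 5) (nat_lit 16) (nat_lit 4) (nat_lit 326) (nat_lit 255) (nat_lit 199)))) (XT.nd (nat_lit 78) (nat_lit 76) (nat_lit 0) (XT.lf (nat_lit 0) (nat_lit 8615659074) (nat_lit 228) (nat_lit 15195399756) (nat_lit 76) (nat_lit 13026166004) (nat_lit 15) (nat_lit 5) (nat_lit 18) (nat_lit 5) (nat_lit 16) (nat_lit 4) (nat_lit 327) (nat_lit 255) (nat_lit 198)) (XT.nd (nat_lit 78) (nat_lit 76) (nat_lit 0) (XT.lf (nat_lit 0) (nat_lit 15875732120) (nat_lit 228) (nat_lit 560283120) (nat_lit 76) (nat_lit 21984149837) (nat_lit 15) (nat_lit 5) (nat_lit 18) (nat_lit 5) (nat_lit 16) (nat_lit 4) (nat_lit 328) (nat_lit 255) (nat_lit 197)) (XT.lf (nat_lit 0) (nat_lit 15020655040) (nat_lit 76) (nat_lit 8578659869) (nat_lit 152) (nat_lit 16479939189) (nat_lit 14) (nat_lit 5) (nat_lit 15) (nat_lit 5) (nat_lit 16) (nat_lit 4) (nat_lit 329) (nat_lit 255)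 (nat_lit 196))))) (XT.nd (nat_lit 234) (nat_lit 76) (nat_lit 0) (XT.nd (nat_lit 78) (nat_lit 152) (nat_lit 0) (XT.lf (nat_lit 0) (nat_lit 31315572693) (nat_lit 76) (nat_lit 356741717) (nat_lit 152) (nat_lit 10150102174) (nat_lit 14) (nat_lit 5) (nat_lit 15) (nat_lit 5) (nat_lit 16) (nat_lit 4) (nat_lit 330) (nat_lit 255) (nat_lit 195)) (XT.nd (nat_lit 78) (nat_lit 76) (nat_lit 0) (XT.lf (nat_lit 0) (nat_lit 4710831016) (nat_lit 76) (nat_lit 35522154532) (nat_lit 76) (nat_lit 3417246372) (nat_lit 13) (nat_lit 4) (nat_lit 14) (nat_lit 5) (nat_lit 14) (nat_lit 4) (nat_lit 331) (nat_lit 255) (nat_lit 194)) (XT.lf (nat_lit 0) (nat_lit 3653841894) (nat_lit 152) (nat_lit 24769744890) (nat_lit 76) (nat_lit 17142626475) (nat_lit 12) (nat_lit 5) (nat_lit 14) (nat_lit 5) (nat_lit 13) (nat_lit 4) (nat_lit 332) (nat_lit 255) (nat_lit 193)))) (XT.nd (nat_lit 156) (nat_lit 0) (nat_lit 0) (XT.nd (nat_lit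 78) (nat_lit 76) (nat_lit 0) (XT.lf (nat_lit 0) (nat_lit 10970399104) (nat_lit 152) (nat_lit 9995358305) (nat_lit 76) (nat_lit 26612357119) (nat_lit 12) (nat_lit 5) (nat_lit 14) (nat_lit 5) (nat_lit 13) (nat_lit 4) (nat_lit 333) (nat_lit 255) (nat_lit 192)) (XT.lf (nat_lit 0) (nat_lit 5560285827) (nat_lit 76) (nat_lit 13109691456) (nat_lit 152) (nat_lit 31020130677) (nat_lit 11) (nat_lit 5) (nat_lit 12) (nat_lit 5) (nat_lit 13) (nat_lit 4) (nat_lit 334) (nat_lit 255) (nat_lit 191))) (XT.nd (nat_lit 78) (nat_lit 0) (nat_lit 0) (XT.lf (nat_lit 0) (nat_lit 22038513587) (nat_lit 76) (nat_lit 4783768983) (nat_lit 152) (nat_lit 25083398326) (nat_lit 11) (nat_lit 5) (nat_lit 12) (nat_lit 5) (nat_lit 13) (nat_lit 4) (nat_lit 335) (nat_lit 255) (nat_lit 190)) (XT.lf (nat_lit 0) (nat_lit 35386517724) (nat_lit 152) (nat_lit 14991202919) (nat_lit 0) (nat_lit 3854194094) (nat_lit 11) (nat_lit 5) (nat_lit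 13) (nat_lit 4) (nat_lit 11) (nat_lit 4) (nat_lit 336) (nat_lit 255) (nat_lit 189)))))) (XT.nd (nat_lit 546) (nat_lit 152) (nat_lit 0) (XT.nd (nat_lit 234) (nat_lit 76) (nat_lit 0) (XT.nd (nat_lit 78) (nat_lit 76) (nat_lit 0) (XT.lf (nat_lit 0) (nat_lit 531823132) (nat_lit 76) (nat_lit 43868407511) (nat_lit 76) (nat_lit 12273602784) (nat_lit 10) (nat_lit 4) (nat_lit 11) (nat_lit 5) (nat_lit 11) (nat_lit 4) (nat_lit 337) (nat_lit 255) (nat_lit 188)) (XT.nd (nat_lit 78) (nat_lit 76) (nat_lit 0) (XT.lf (nat_lit 0) (nat_lit 17087128298) (nat_lit 76) (nat_lit 36900672869) (nat_lit 76) (nat_lit 5246362333) (nat_lit 10) (nat_lit 4) (nat_lit 11) (nat_lit 5) (nat_lit 11) (nat_lit 4) (nat_lit 338) (nat_lit 255) (nat_lit 187)) (XT.lf (nat_lit 0) (nat_lit 2060662875) (nat_lit 152) (nat_lit 27527837096) (nat_lit 76) (nat_lit 32334304110) (nat_lit 9) (nat_lit 5) (nat_lit 11) (nat_lit 5) (nat_lit 10) (nat_lit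 4) (nat_lit 339) (nat_lit 255) (nat_lit 186)))) (XT.nd (nat_lit 156) (nat_lit 0) (nat_lit 0) (XT.nd (nat_lit 78) (nat_lit 76) (nat_lit 0) (XT.lf (nat_lit 0) (nat_lit 9597002691) (nat_lit 152) (nat_lit 12283040790) (nat_lit 76) (nat_lit 42865110240) (nat_lit 9) (nat_lit 5) (nat_lit 11) (nat_lit 5) (nat_lit 10) (nat_lit 4) (nat_lit 340) (nat_lit 255) (nat_lit 185)) (XT.lf (nat_lit 0) (nat_lit 3747203531) (nat_lit 76) (nat_lit 13771793089) (nat_lit 152) (nat_lit 50189368007) (nat_lit 8) (nat_lit 5) (nat_lit 9) (nat_lit 5) (nat_lit 10) (nat_lit 4) (nat_lit 341) (nat_lit 255) (nat_lit 184))) (XT.nd (nat_lit 78) (nat_lit 0) (nat_lit 0) (XT.lf (nat_lit 0) (nat_lit 20787157010) (nat_lit 76) (nat_lit 5150021410) (nat_lit 152) (nat_lit 44879563484) (nat_lit 8) (nat_lit 5) (nat_lit 9) (nat_lit 5) (nat_lit 10) (nat_lit 4) (nat_lit 342) (nat_lit 255) (nat_lit 183)) (XT.lf (nat_lit 0) (nat_lit 34788483312)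 (nat_lit 152) (nat_lit 35485678644) (nat_lit 0) (nat_lit 3806017739) (nat_lit 8) (nat_lit 5) (nat_lit 10) (nat_lit 4) (nat_lit 8) (nat_lit 4) (nat_lit 343) (nat_lit 255) (nat_lit 182))))) (XT.nd (nat_lit 234) (nat_lit 76) (nat_lit 0) (XT.nd (nat_lit 78) (nat_lit 76) (nat_lit 0) (XT.lf (nat_lit 0) (nat_lit 44110236270) (nat_lit 152) (nat_lit 20311064433) (nat_lit 0) (nat_lit 13084659872) (nat_lit 8) (nat_lit 5) (nat_lit 10) (nat_lit 4) (nat_lit 8) (nat_lit 4) (nat_lit 344) (nat_lit 255) (nat_lit 181)) (XT.nd (nat_lit 78) (nat_lit 76) (nat_lit 0) (XT.lf (nat_lit 0) (nat_lit 53875126788) (nat_lit 152) (nat_lit 4420107073) (nat_lit 0) (nat_lit 22808492461) (nat_lit 8) (nat_lit 5) (nat_lit 10) (nat_lit 4) (nat_lit 8) (nat_lit 4) (nat_lit 345) (nat_lit 255) (nat_lit 180)) (XT.lf (nat_lit 0) (nat_lit 12468331098) (nat_lit 76) (nat_lit 51757926732) (nat_lit 76) (nat_lit 20652189616) (nat_lit 7) (nat_lit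 4) (nat_lit 8) (nat_lit 5) (nat_lit 8) (nat_lit 4) (nat_lit 346) (nat_lit 255) (nat_lit 179)))) (XT.nd (nat_lit 156) (nat_lit 76) (nat_lit 0) (XT.nd (nat_lit 78) (nat_lit 0) (nat_lit 0) (XT.lf (nat_lit 0) (nat_lit 30254346483) (nat_lit 76) (nat_lit 44864906709) (nat_lit 76) (nat_lit 13721928841) (nat_lit 7) (nat_lit 4) (nat_lit 8) (nat_lit 5) (nat_lit 8) (nat_lit 4) (nat_lit 347) (nat_lit 255) (nat_lit 178)) (XT.lf (nat_lit 0) (nat_lit 48892317938) (nat_lit 76) (nat_lit 37644396253) (nat_lit 76) (nat_lit 6465951003) (nat_lit 7) (nat_lit 4) (nat_lit 8) (nat_lit 5) (nat_lit 8) (nat_lit 4) (nat_lit 348) (nat_lit 255) (nat_lit 177))) (XT.nd (nat_lit 78) (nat_lit 0) (nat_lit 0) (XT.lf (nat_lit 0) (nat_lit 1110910733) (nat_lit 152) (nat_lit 28957074919) (nat_lit 76) (nat_lit 67304492833) (nat_lit 6) (nat_lit 5) (nat_lit 8) (nat_lit 5) (nat_lit 7) (nat_lit 4) (nat_lit 349) (nat_lit 255) (nat_lit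 176)) (XT.lf (nat_lit 0) (nat_lit 8915638378) (nat_lit 152) (nat_lit 13145647763) (nat_lit 76) (nat_lit 79898098832) (nat_lit 6) (nat_lit 5) (nat_lit 8) (nat_lit 5) (nat_lit 7) (nat_lit 4) (nat_lit 350) (nat_lit 255) (nat_lit 175))))))))
noncomputable def xc42 : XT := (XT.nd (nat_lit 35334) (nat_lit 0) (nat_lit 2508) (XT.nd (nat_lit 34320) (nat_lit 0) (nat_lit 10184) (XT.nd (nat_lit 468) (nat_lit 76) (nat_lit 0) (XT.nd (nat_lit 234) (nat_lit 0) (nat_lit 0) (XT.nd (nat_lit 78) (nat_lit 0) (nat_lit 0) (XT.lf (nat_lit 0) (nat_lit 3491874188) (nat_lit 76) (nat_lit 13634680451) (nat_lit 152) (nat_lit 89648608880) (nat_lit 5) (nat_lit 5) (nat_lit 6) (nat_lit 5) (nat_lit 7) (nat_lit 4) (nat_lit 351) (nat_lit 255) (nat_lit 174)) (XT.nd (nat_lit 78) (nat_lit 0) (nat_lit 0) (XT.lf (nat_lit 0) (nat_lit 21204296925) (nat_lit 76) (nat_lit 4661963054) (nat_lit 152) (nat_lit 85961928766) (nat_lit 5) (nat_lit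 5) (nat_lit 6) (nat_lit 5) (nat_lit 7) (nat_lit 4) (nat_lit 352) (nat_lit 255) (nat_lit 173)) (XT.lf (nat_lit 0) (nat_lit 35072300820) (nat_lit 152) (nat_lit 77407805812) (nat_lit 0) (nat_lit 4652882902) (nat_lit 5) (nat_lit 5) (nat_lit 7) (nat_lit 4) (nat_lit 5) (nat_lit 4) (nat_lit 353) (nat_lit 255) (nat_lit 172)))) (XT.nd (nat_lit 78) (nat_lit 0) (nat_lit 0) (XT.lf (nat_lit 0) (nat_lit 44770079038) (nat_lit 152) (nat_lit 63607047167) (nat_lit 0) (nat_lit 14324965677) (nat_lit 5) (nat_lit 5) (nat_lit 7) (nat_lit 4) (nat_lit 5) (nat_lit 4) (nat_lit 354) (nat_lit 255) (nat_lit 171)) (XT.nd (nat_lit 78) (nat_lit 0) (nat_lit 0) (XT.lf (nat_lit 0) (nat_lit 54937870942) (nat_lit 152) (nat_lit 49143943297) (nat_lit 0) (nat_lit 24468285730) (nat_lit 5) (nat_lit 5) (nat_lit 7) (nat_lit 4) (nat_lit 5) (nat_lit 4) (nat_lit 355) (nat_lit 255) (nat_lit 170)) (XT.lf (nat_lit 0) (nat_lit 65599885559)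 (nat_lit 152) (nat_lit 33984058238) (nat_lit 0) (nat_lit 35106993823) (nat_lit 5) (nat_lit 5) (nat_lit 7) (nat_lit 4) (nat_lit 5) (nat_lit 4) (nat_lit 356) (nat_lit 255) (nat_lit 169))))) (XT.nd (nat_lit 234) (nat_lit 0) (nat_lit 0) (XT.nd (nat_lit 78) (nat_lit 76) (nat_lit 0) (XT.lf (nat_lit 0) (nat_lit 76781508639) (nat_lit 152) (nat_lit 18091297028) (nat_lit 0) (nat_lit 46266420212) (nat_lit 5) (nat_lit 5) (nat_lit 7) (nat_lit 4) (nat_lit 5) (nat_lit 4) (nat_lit 357) (nat_lit 255) (nat_lit 168)) (XT.nd (nat_lit 78) (nat_lit 76) (nat_lit 0) (XT.lf (nat_lit 0) (nat_lit 88509363093) (nat_lit 152) (nat_lit 1427819757) (nat_lit 0) (nat_lit 57973134962) (nat_lit 5) (nat_lit 5) (nat_lit 7) (nat_lit 4) (nat_lit 5) (nat_lit 4) (nat_lit 358) (nat_lit 255) (nat_lit 167)) (XT.lf (nat_lit 0) (nat_lit 16365396346) (nat_lit 76) (nat_lit 84603290240) (nat_lit 76) (nat_lit 54046929056) (nat_lit 4) (nat_lit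 4) (nat_lit 5) (nat_lit 5) (nat_lit 5) (nat_lit 4) (nat_lit 359) (nat_lit 255) (nat_lit 166)))) (XT.nd (nat_lit 33462) (nat_lit 0) (nat_lit 21052) (XT.nd (nat_lit 78) (nat_lit 0) (nat_lit 0) (XT.lf (nat_lit 0) (nat_lit 35055980697) (nat_lit 76) (nat_lit 78997825847) (nat_lit 76) (nat_lit 48422290328) (nat_lit 4) (nat_lit 4) (nat_lit 5) (nat_lit 5) (nat_lit 5) (nat_lit 4) (nat_lit 360) (nat_lit 255) (nat_lit 165)) (XT.lf (nat_lit 0) (nat_lit 54660018274) (nat_lit 76) (nat_lit 73121861509) (nat_lit 76) (nat_lit 42528064717) (nat_lit 4) (nat_lit 4) (nat_lit 5) (nat_lit 5) (nat_lit 5) (nat_lit 4) (nat_lit 361) (nat_lit 255) (nat_lit 164))) (XT.nd (nat_lit 78) (nat_lit 608) (nat_lit 0) (XT.lf (nat_lit 0) (nat_lit 1507379539) (nat_lit 532) (nat_lit 304576476) (nat_lit 0) (nat_lit 1507379539) (nat_lit 289) (nat_lit 5) (nat_lit 296) (nat_lit 4) (nat_lit 289) (nat_lit 4) (nat_lit 268) (nat_lit 256)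 (nat_lit 256)) (XT.lf (nat_lit 0) (nat_lit 1342602344) (nat_lit 608) (nat_lit 816117429) (nat_lit 76) (nat_lit 4533929656) (nat_lit 281) (nat_lit 5) (nat_lit 289) (nat_lit 5) (nat_lit 282) (nat_lit 4) (nat_lit 269) (nat_lit 256) (nat_lit 255)))))) (XT.nd (nat_lit 468) (nat_lit 5776) (nat_lit 0) (XT.nd (nat_lit 234) (nat_lit 2888) (nat_lit 0) (XT.nd (nat_lit 78) (nat_lit 1596) (nat_lit 0) (XT.lf (nat_lit 0) (nat_lit 5814848078) (nat_lit 608) (nat_lit 455792723) (nat_lit 684) (nat_lit 484548815) (nat_lit 273) (nat_lit 5) (nat_lit 281) (nat_lit 5) (nat_lit 282) (nat_lit 4) (nat_lit 270) (nat_lit 256) (nat_lit 254)) (XT.nd (nat_lit 78) (nat_lit 836) (nat_lit 0) (XT.lf (nat_lit 0) (nat_lit 4346110973) (nat_lit 760) (nat_lit 1009325327) (nat_lit 76) (nat_lit 1470263093) (nat_lit 263) (nat_lit 5) (nat_lit 273) (nat_lit 5) (nat_lit 264) (nat_lit 4) (nat_lit 271) (nat_lit 256) (nat_lit 253)) (XT.lf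 (nat_lit 0) (nat_lit 2273193788) (nat_lit 836) (nat_lit 1005253557) (nat_lit 76) (nat_lit 3626515354) (nat_lit 252) (nat_lit 5) (nat_lit 263) (nat_lit 5) (nat_lit 253) (nat_lit 5) (nat_lit 272) (nat_lit 256) (nat_lit 252)))) (XT.nd (nat_lit 78) (nat_lit 1976) (nat_lit 0) (XT.lf (nat_lit 0) (nat_lit 39183968) (nat_lit 912) (nat_lit 926740534) (nat_lit 76) (nat_lit 6027364039) (nat_lit 240) (nat_lit 5) (nat_lit 252) (nat_lit 5) (nat_lit 241) (nat_lit 5) (nat_lit 273) (nat_lit 256) (nat_lit 251)) (XT.nd (nat_lit 78) (nat_lit 1064) (nat_lit 0) (XT.lf (nat_lit 0) (nat_lit 4693861362) (nat_lit 988) (nat_lit 815394831) (nat_lit 76) (nat_lit 1580459142) (nat_lit 228) (nat_lit 5) (nat_lit 241) (nat_lit 5) (nat_lit 229) (nat_lit 5) (nat_lit 274) (nat_lit 256) (nat_lit 250)) (XT.lf (nat_lit 0) (nat_lit 2192712596) (nat_lit 1064) (nat_lit 649258142) (nat_lit 76) (nat_lit 4353238390) (nat_lit 214) (nat_lit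 5) (nat_lit 228) (nat_lit 5) (nat_lit 215) (nat_lit 5) (nat_lit 275) (nat_lit 256) (nat_lit 249))))) (XT.nd (nat_lit 234) (nat_lit 2204) (nat_lit 0) (XT.nd (nat_lit 78) (nat_lit 2508) (nat_lit 0) (XT.lf (nat_lit 0) (nat_lit 6811807503) (nat_lit 1140) (nat_lit 427191631) (nat_lit 76) (nat_lit 71134366) (nat_lit 200) (nat_lit 5) (nat_lit 215) (nat_lit 5) (nat_lit 201) (nat_lit 5) (nat_lit 276) (nat_lit 256) (nat_lit 248)) (XT.nd (nat_lit 78) (nat_lit 1292) (nat_lit 0) (XT.lf (nat_lit 0) (nat_lit 4036054330) (nat_lit 1216) (nat_lit 200086221) (nat_lit 76) (nat_lit 3197174331) (nat_lit 184) (nat_lit 5) (nat_lit 200) (nat_lit 5) (nat_lit 185) (nat_lit 5) (nat_lit 277) (nat_lit 256) (nat_lit 247)) (XT.lf (nat_lit 0) (nat_lit 79334412) (nat_lit 608) (nat_lit 987923337) (nat_lit 684) (nat_lit 6499223124) (nat_lit 167) (nat_lit 5) (nat_lit 175) (nat_lit 5) (nat_lit 176) (nat_lit 5) (nat_lit 278) (nat_lit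 256) (nat_lit 246)))) (XT.nd (nat_lit 156) (nat_lit 1064) (nat_lit 0) (XT.nd (nat_lit 78) (nat_lit 608) (nat_lit 0) (XT.lf (nat_lit 0) (nat_lit 365138094) (nat_lit 532) (nat_lit 5221696728) (nat_lit 608) (nat_lit 2121713589) (nat_lit 160) (nat_lit 5) (nat_lit 167) (nat_lit 5) (nat_lit 168) (nat_lit 5) (nat_lit 279) (nat_lit 256) (nat_lit 245)) (XT.lf (nat_lit 0) (nat_lit 670438057) (nat_lit 532) (nat_lit 1648857680) (nat_lit 608) (nat_lit 5541213917) (nat_lit 152) (nat_lit 5) (nat_lit 159) (nat_lit 5) (nat_lit 160) (nat_lit 5) (nat_lit 280) (nat_lit 256) (nat_lit 244))) (XT.nd (nat_lit 78) (nat_lit 608) (nat_lit 0) (XT.lf (nat_lit 0) (nat_lit 978517552) (nat_lit 456) (nat_lit 5872344051) (nat_lit 532) (nat_lit 1171483068) (nat_lit 146) (nat_lit 5) (nat_lit 152) (nat_lit 5) (nat_lit 153) (nat_lit 5) (nat_lit 281) (nat_lit 256) (nat_lit 243)) (XT.lf (nat_lit 0) (nat_lit 1273795735) (nat_lit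 532) (nat_lit 1991004572) (nat_lit 608) (nat_lit 4929300259) (nat_lit 138) (nat_lit 5) (nat_lit 145) (nat_lit 5) (nat_lit 146) (nat_lit 5) (nat_lit 282) (nat_lit 256) (nat_lit 242))))))) (XT.nd (nat_lit 1014) (nat_lit 2888) (nat_lit 0) (XT.nd (nat_lit 468) (nat_lit 2128) (nat_lit 0) (XT.nd (nat_lit 234) (nat_lit 1292) (nat_lit 0) (XT.nd (nat_lit 78) (nat_lit 912) (nat_lit 0) (XT.lf (nat_lit 0) (nat_lit 1564375394) (nat_lit 456) (nat_lit 6260624891) (nat_lit 532) (nat_lit 551550471) (nat_lit 132) (nat_lit 5) (nat_lit 138) (nat_lit 5) (nat_lit 139) (nat_lit 5) (nat_lit 283) (nat_lit 256) (nat_lit 241)) (XT.nd (nat_lit 78) (nat_lit 380) (nat_lit 0) (XT.lf (nat_lit 0) (nat_lit 1814263795) (nat_lit 456) (nat_lit 2083866094) (nat_lit 532) (nat_lit 4671093701) (nat_lit 125) (nat_lit 5) (nat_lit 131) (nat_lit 5) (nat_lit 132) (nat_lit 5) (nat_lit 284) (nat_lit 256) (nat_lit 240)) (XT.lf (nat_lit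 0) (nat_lit 2044202299) (nat_lit 380) (nat_lit 6455996640) (nat_lit 456) (nat_lit 273143156) (nat_lit 120) (nat_lit 5) (nat_lit 125) (nat_lit 5) (nat_lit 126) (nat_lit 5) (nat_lit 285) (nat_lit 256) (nat_lit 239)))) (XT.nd (nat_lit 78) (nat_lit 836) (nat_lit 0) (XT.lf (nat_lit 0) (nat_lit 2208824629) (nat_lit 380) (nat_lit 1996542839) (nat_lit 456) (nat_lit 4782881827) (nat_lit 114) (nat_lit 5) (nat_lit 119) (nat_lit 5) (nat_lit 120) (nat_lit 5) (nat_lit 286) (nat_lit 256) (nat_lit 238)) (XT.nd (nat_lit 78) (nat_lit 456) (nat_lit 0) (XT.lf (nat_lit 0) (nat_lit 2330402863) (nat_lit 380) (nat_lit 6528520195) (nat_lit 456) (nat_lit 356384123) (nat_lit 109) (nat_lit 5) (nat_lit 114) (nat_lit 5) (nat_lit 115) (nat_lit 5) (nat_lit 287) (nat_lit 256) (nat_lit 237)) (XT.lf (nat_lit 0) (nat_lit 2364175404) (nat_lit 380) (nat_lit 1799443232) (nat_lit 456) (nat_lit 5290359352) (nat_lit 103) (nat_lit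 5) (nat_lit 108) (nat_lit 5) (nat_lit 109) (nat_lit 5) (nat_lit 288) (nat_lit 256) (nat_lit 236))))) (XT.nd (nat_lit 234) (nat_lit 1064) (nat_lit 0) (XT.nd (nat_lit 78) (nat_lit 760) (nat_lit 0) (XT.lf (nat_lit 0) (nat_lit 2323739427) (nat_lit 304) (nat_lit 6550608980) (nat_lit 380) (nat_lit 831132035) (nat_lit 99) (nat_lit 5) (nat_lit 103) (nat_lit 5) (nat_lit 104) (nat_lit 5) (nat_lit 289) (nat_lit 256) (nat_lit 235)) (XT.nd (nat_lit 78) (nat_lit 304) (nat_lit 0) (XT.lf (nat_lit 0) (nat_lit 2174002167) (nat_lit 380) (nat_lit 1566091546) (nat_lit 456) (nat_lit 6229582505) (nat_lit 93) (nat_lit 5) (nat_lit 98) (nat_lit 5) (nat_lit 99) (nat_lit 5) (nat_lit 290) (nat_lit 256) (nat_lit 234)) (XT.lf (nat_lit 0) (nat_lit 1910428112) (nat_lit 304) (nat_lit 6598898426) (nat_lit 380) (nat_lit 1738056289) (nat_lit 89) (nat_lit 5) (nat_lit 93) (nat_lit 5) (nat_lit 94) (nat_lit 5) (nat_lit 291) (nat_lit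 256) (nat_lit 233)))) (XT.nd (nat_lit 156) (nat_lit 380) (nat_lit 0) (XT.nd (nat_lit 78) (nat_lit 304) (nat_lit 0) (XT.lf (nat_lit 0) (nat_lit 1515871852) (nat_lit 304) (nat_lit 1375075900) (nat_lit 380) (nat_lit 7648173680) (nat_lit 84) (nat_lit 5) (nat_lit 88) (nat_lit 5) (nat_lit 89) (nat_lit 5) (nat_lit 292) (nat_lit 256) (nat_lit 232)) (XT.lf (nat_lit 0) (nat_lit 958814871) (nat_lit 304) (nat_lit 6756279061) (nat_lit 380) (nat_lit 3129977070) (nat_lit 80) (nat_lit 5) (nat_lit 84) (nat_lit 5) (nat_lit 85) (nat_lit 5) (nat_lit 293) (nat_lit 256) (nat_lit 231))) (XT.nd (nat_lit 78) (nat_lit 0) (nat_lit 0) (XT.lf (nat_lit 0) (nat_lit 247664735) (nat_lit 304) (nat_lit 1312181784) (nat_lit 380) (nat_lit 9606809278) (nat_lit 75) (nat_lit 5) (nat_lit 79) (nat_lit 5) (nat_lit 80) (nat_lit 5) (nat_lit 294) (nat_lit 256) (nat_lit 230)) (XT.lf (nat_lit 0) (nat_lit 6436269010) (nat_lit 380) (nat_lit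 671095385) (nat_lit 76) (nat_lit 4395634492) (nat_lit 75) (nat_lit 5) (nat_lit 80) (nat_lit 5) (nat_lit 76) (nat_lit 5) (nat_lit 295) (nat_lit 256) (nat_lit 229)))))) (XT.nd (nat_lit 546) (nat_lit 1216) (nat_lit 0) (XT.nd (nat_lit 234) (nat_lit 836) (nat_lit 0) (XT.nd (nat_lit 78) (nat_lit 608) (nat_lit 0) (XT.lf (nat_lit 0) (nat_lit 10092152152) (nat_lit 228) (nat_lit 1451879146) (nat_lit 304) (nat_lit 312610813) (nat_lit 72) (nat_lit 5) (nat_lit 75) (nat_lit 5) (nat_lit 76) (nat_lit 5) (nat_lit 296) (nat_lit 256) (nat_lit 228)) (XT.nd (nat_lit 78) (nat_lit 228) (nat_lit 0) (XT.lf (nat_lit 0) (nat_lit 4606788448) (nat_lit 380) (nat_lit 3136424377) (nat_lit 76) (nat_lit 4482939171) (nat_lit 67) (nat_lit 5) (nat_lit 72) (nat_lit 5) (nat_lit 68) (nat_lit 5) (nat_lit 297) (nat_lit 256) (nat_lit 227)) (XT.lf (nat_lit 0) (nat_lit 7869554960) (nat_lit 228) (nat_lit 1888482617) (nat_lit 304) (nat_lit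 2856332166) (nat_lit 64) (nat_lit 5) (nat_lit 67) (nat_lit 5) (nat_lit 68) (nat_lit 5) (nat_lit 298) (nat_lit 256) (nat_lit 226)))) (XT.nd (nat_lit 156) (nat_lit 304) (nat_lit 0) (XT.nd (nat_lit 78) (nat_lit 228) (nat_lit 0) (XT.lf (nat_lit 0) (nat_lit 2124973035) (nat_lit 304) (nat_lit 6662503656) (nat_lit 76) (nat_lit 4233332258) (nat_lit 60) (nat_lit 5) (nat_lit 64) (nat_lit 5) (nat_lit 61) (nat_lit 5) (nat_lit 299) (nat_lit 256) (nat_lit 225)) (XT.lf (nat_lit 0) (nat_lit 4538707297) (nat_lit 228) (nat_lit 2759697761) (nat_lit 304) (nat_lit 6148336764) (nat_lit 57) (nat_lit 5) (nat_lit 60) (nat_lit 5) (nat_lit 61) (nat_lit 5) (nat_lit 300) (nat_lit 256) (nat_lit 224))) (XT.nd (nat_lit 78) (nat_lit 76) (nat_lit 0) (XT.lf (nat_lit 0) (nat_lit 2390017328) (nat_lit 228) (nat_lit 10359699537) (nat_lit 304) (nat_lit 1143758389) (nat_lit 54) (nat_lit 5) (nat_lit 57) (nat_lit 5) (nat_lit 58) (nat_lit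 5) (nat_lit 301) (nat_lit 256) (nat_lit 223)) (XT.lf (nat_lit 0) (nat_lit 4046380032) (nat_lit 304) (nat_lit 155192194) (nat_lit 76) (nat_lit 10159395140) (nat_lit 53) (nat_lit 5) (nat_lit 57) (nat_lit 5) (nat_lit 54) (nat_lit 5) (nat_lit 302) (nat_lit 256) (nat_lit 222))))) (XT.nd (nat_lit 234) (nat_lit 608) (nat_lit 0) (XT.nd (nat_lit 78) (nat_lit 456) (nat_lit 0) (XT.lf (nat_lit 0) (nat_lit 9508755025) (nat_lit 228) (nat_lit 3052298410) (nat_lit 76) (nat_lit 2289419978) (nat_lit 51) (nat_lit 5) (nat_lit 54) (nat_lit 5) (nat_lit 52) (nat_lit 5) (nat_lit 303) (nat_lit 256) (nat_lit 221)) (XT.nd (nat_lit 78) (nat_lit 228) (nat_lit 0) (XT.lf (nat_lit 0) (nat_lit 8964346674) (nat_lit 228) (nat_lit 6312909547) (nat_lit 304) (nat_lit 86275549) (nat_lit 48) (nat_lit 5) (nat_lit 51) (nat_lit 5) (nat_lit 52) (nat_lit 5) (nat_lit 304) (nat_lit 256) (nat_lit 220)) (XT.lf (nat_lit 0) (nat_lit 5320146418)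 (nat_lit 228) (nat_lit 10255871890) (nat_lit 76) (nat_lit 324894335) (nat_lit 45) (nat_lit 5) (nat_lit 48) (nat_lit 5) (nat_lit 46) (nat_lit 5) (nat_lit 305) (nat_lit 256) (nat_lit 219)))) (XT.nd (nat_lit 156) (nat_lit 304) (nat_lit 0) (XT.nd (nat_lit 78) (nat_lit 76) (nat_lit 0) (XT.lf (nat_lit 0) (nat_lit 1779969323) (nat_lit 228) (nat_lit 9270035989) (nat_lit 304) (nat_lit 5413543820) (nat_lit 42) (nat_lit 5) (nat_lit 45) (nat_lit 5) (nat_lit 46) (nat_lit 5) (nat_lit 306) (nat_lit 256) (nat_lit 218)) (XT.lf (nat_lit 0) (nat_lit 28001886) (nat_lit 304) (nat_lit 2569440817) (nat_lit 76) (nat_lit 14456440099) (nat_lit 41) (nat_lit 5) (nat_lit 45) (nat_lit 5) (nat_lit 42) (nat_lit 5) (nat_lit 307) (nat_lit 256) (nat_lit 217))) (XT.nd (nat_lit 78) (nat_lit 152) (nat_lit 0) (XT.lf (nat_lit 0) (nat_lit 5685524566) (nat_lit 228) (nat_lit 7563239224) (nat_lit 76) (nat_lit 4421737715) (nat_lit 39)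 (nat_lit 5) (nat_lit 42) (nat_lit 5) (nat_lit 40) (nat_lit 5) (nat_lit 308) (nat_lit 256) (nat_lit 216)) (XT.lf (nat_lit 0) (nat_lit 5087219380) (nat_lit 152) (nat_lit 6556667767) (nat_lit 228) (nat_lit 6673574735) (nat_lit 37) (nat_lit 5) (nat_lit 39) (nat_lit 5) (nat_lit 40) (nat_lit 5) (nat_lit 309) (nat_lit 256) (nat_lit 215))))))))
noncomputable def xc43 : XT := (XT.nd (nat_lit 2028) (nat_lit 532) (nat_lit 0) (XT.nd (nat_lit 1014) (nat_lit 760) (nat_lit 0) (XT.nd (nat_lit 468) (nat_lit 456) (nat_lit 0) (XT.nd (nat_lit 234) (nat_lit 380) (nat_lit 0) (XT.nd (nat_lit 78) (nat_lit 380) (nat_lit 0) (XT.lf (nat_lit 0) (nat_lit 17901608815) (nat_lit 228) (nat_lit 609328259) (nat_lit 76) (nat_lit 485837263) (nat_lit 37) (nat_lit 5) (nat_lit 40) (nat_lit 5) (nat_lit 38) (nat_lit 4) (nat_lit 310) (nat_lit 256) (nat_lit 214)) (XT.nd (nat_lit 78) (nat_lit 152) (nat_lit 0) (XT.lf (nat_lit 0) (nat_lit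 4780660974) (nat_lit 228) (nat_lit 7060809043) (nat_lit 76) (nat_lit 7863910102) (nat_lit 34) (nat_lit 5) (nat_lit 37) (nat_lit 5) (nat_lit 35) (nat_lit 5) (nat_lit 311) (nat_lit 256) (nat_lit 213)) (XT.lf (nat_lit 0) (nat_lit 6103573713) (nat_lit 152) (nat_lit 4813149138) (nat_lit 228) (nat_lit 9532736874) (nat_lit 32) (nat_lit 5) (nat_lit 34) (nat_lit 5) (nat_lit 35) (nat_lit 5) (nat_lit 312) (nat_lit 256) (nat_lit 212)))) (XT.nd (nat_lit 78) (nat_lit 380) (nat_lit 0) (XT.lf (nat_lit 0) (nat_lit 17383464053) (nat_lit 228) (nat_lit 1307365738) (nat_lit 76) (nat_lit 2539236891) (nat_lit 32) (nat_lit 5) (nat_lit 35) (nat_lit 5) (nat_lit 33) (nat_lit 4) (nat_lit 313) (nat_lit 256) (nat_lit 211)) (XT.nd (nat_lit 78) (nat_lit 152) (nat_lit 0) (XT.lf (nat_lit 0) (nat_lit 2180977575) (nat_lit 228) (nat_lit 9611706379) (nat_lit 76) (nat_lit 10253486746) (nat_lit 29) (nat_lit 5) (nat_lit 32) (nat_lit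 5) (nat_lit 30) (nat_lit 5) (nat_lit 314) (nat_lit 256) (nat_lit 210)) (XT.lf (nat_lit 0) (nat_lit 3906273832) (nat_lit 152) (nat_lit 4506844939) (nat_lit 228) (nat_lit 14489371447) (nat_lit 27) (nat_lit 5) (nat_lit 29) (nat_lit 5) (nat_lit 30) (nat_lit 5) (nat_lit 315) (nat_lit 256) (nat_lit 209))))) (XT.nd (nat_lit 234) (nat_lit 304) (nat_lit 0) (XT.nd (nat_lit 78) (nat_lit 152) (nat_lit 0) (XT.lf (nat_lit 0) (nat_lit 15019574727) (nat_lit 228) (nat_lit 5646029030) (nat_lit 76) (nat_lit 3134173986) (nat_lit 27) (nat_lit 5) (nat_lit 30) (nat_lit 5) (nat_lit 28) (nat_lit 4) (nat_lit 316) (nat_lit 256) (nat_lit 208)) (XT.nd (nat_lit 78) (nat_lit 76) (nat_lit 0) (XT.lf (nat_lit 0) (nat_lit 8378059169) (nat_lit 76) (nat_lit 13640097857) (nat_lit 152) (nat_lit 2721950189) (nat_lit 26) (nat_lit 5) (nat_lit 27) (nat_lit 5) (nat_lit 28) (nat_lit 4) (nat_lit 317) (nat_lit 256) (nat_lit 207)) (XT.lf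 (nat_lit 0) (nat_lit 3564047828) (nat_lit 152) (nat_lit 2649617087) (nat_lit 76) (nat_lit 19512892663) (nat_lit 25) (nat_lit 5) (nat_lit 27) (nat_lit 5) (nat_lit 26) (nat_lit 5) (nat_lit 318) (nat_lit 256) (nat_lit 206)))) (XT.nd (nat_lit 156) (nat_lit 152) (nat_lit 0) (XT.nd (nat_lit 78) (nat_lit 0) (nat_lit 0) (XT.lf (nat_lit 0) (nat_lit 10178803485) (nat_lit 228) (nat_lit 14928421817) (nat_lit 76) (nat_lit 1652201998) (nat_lit 23) (nat_lit 5) (nat_lit 26) (nat_lit 5) (nat_lit 24) (nat_lit 4) (nat_lit 319) (nat_lit 256) (nat_lit 205)) (XT.lf (nat_lit 0) (nat_lit 17156158627) (nat_lit 228) (nat_lit 917897226) (nat_lit 76) (nat_lit 9768955371) (nat_lit 23) (nat_lit 5) (nat_lit 26) (nat_lit 5) (nat_lit 24) (nat_lit 4) (nat_lit 320) (nat_lit 256) (nat_lit 204))) (XT.nd (nat_lit 78) (nat_lit 76) (nat_lit 0) (XT.lf (nat_lit 0) (nat_lit 13967794344) (nat_lit 76) (nat_lit 10593235263) (nat_lit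 152) (nat_lit 4417410595) (nat_lit 22) (nat_lit 5) (nat_lit 23) (nat_lit 5) (nat_lit 24) (nat_lit 4) (nat_lit 321) (nat_lit 256) (nat_lit 203)) (XT.lf (nat_lit 0) (nat_lit 2078347409) (nat_lit 152) (nat_lit 670536247) (nat_lit 76) (nat_lit 27422502866) (nat_lit 21) (nat_lit 5) (nat_lit 23) (nat_lit 5) (nat_lit 22) (nat_lit 5) (nat_lit 322) (nat_lit 256) (nat_lit 202)))))) (XT.nd (nat_lit 468) (nat_lit 304) (nat_lit 0) (XT.nd (nat_lit 234) (nat_lit 228) (nat_lit 0) (XT.nd (nat_lit 78) (nat_lit 76) (nat_lit 0) (XT.lf (nat_lit 0) (nat_lit 8950436953) (nat_lit 228) (nat_lit 16940258709) (nat_lit 76) (nat_lit 5527707600) (nat_lit 19) (nat_lit 5) (nat_lit 22) (nat_lit 5) (nat_lit 20) (nat_lit 4) (nat_lit 323) (nat_lit 256) (nat_lit 201)) (XT.nd (nat_lit 78) (nat_lit 76) (nat_lit 0) (XT.lf (nat_lit 0) (nat_lit 16150238324) (nat_lit 228) (nat_lit 2447273625) (nat_lit 76) (nat_lit 14130756889) (nat_lit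 19) (nat_lit 5) (nat_lit 22) (nat_lit 5) (nat_lit 20) (nat_lit 4) (nat_lit 324) (nat_lit 256) (nat_lit 200)) (XT.lf (nat_lit 0) (nat_lit 12936932575) (nat_lit 76) (nat_lit 10849256118) (nat_lit 152) (nat_lit 10315174443) (nat_lit 18) (nat_lit 5) (nat_lit 19) (nat_lit 5) (nat_lit 20) (nat_lit 4) (nat_lit 325) (nat_lit 256) (nat_lit 199)))) (XT.nd (nat_lit 78) (nat_lit 228) (nat_lit 0) (XT.lf (nat_lit 0) (nat_lit 29058077188) (nat_lit 76) (nat_lit 2724346499) (nat_lit 152) (nat_lit 3761353094) (nat_lit 18) (nat_lit 5) (nat_lit 19) (nat_lit 5) (nat_lit 20) (nat_lit 4) (nat_lit 326) (nat_lit 256) (nat_lit 198)) (XT.nd (nat_lit 78) (nat_lit 0) (nat_lit 0) (XT.lf (nat_lit 0) (nat_lit 3157402476) (nat_lit 228) (nat_lit 28120724910) (nat_lit 76) (nat_lit 5776357874) (nat_lit 15) (nat_lit 5) (nat_lit 18) (nat_lit 5) (nat_lit 16) (nat_lit 4) (nat_lit 327) (nat_lit 256) (nat_lit 197)) (XT.lf (nat_lit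 0) (nat_lit 10396069847) (nat_lit 228) (nat_lit 13524165049) (nat_lit 76) (nat_lit 14717841045) (nat_lit 15) (nat_lit 5) (nat_lit 18) (nat_lit 5) (nat_lit 16) (nat_lit 4) (nat_lit 328) (nat_lit 256) (nat_lit 196))))) (XT.nd (nat_lit 234) (nat_lit 228) (nat_lit 0) (XT.nd (nat_lit 78) (nat_lit 0) (nat_lit 0) (XT.lf (nat_lit 0) (nat_lit 1761314887) (nat_lit 76) (nat_lit 16210494502) (nat_lit 152) (nat_lit 22329798744) (nat_lit 14) (nat_lit 5) (nat_lit 15) (nat_lit 5) (nat_lit 16) (nat_lit 4) (nat_lit 329) (nat_lit 256) (nat_lit 195)) (XT.nd (nat_lit 78) (nat_lit 0) (nat_lit 0) (XT.lf (nat_lit 0) (nat_lit 18020564394) (nat_lit 76) (nat_lit 8004486055) (nat_lit 152) (nat_lit 16020320425) (nat_lit 14) (nat_lit 5) (nat_lit 15) (nat_lit 5) (nat_lit 16) (nat_lit 4) (nat_lit 330) (nat_lit 256) (nat_lit 194)) (XT.lf (nat_lit 0) (nat_lit 34447960185) (nat_lit 152) (nat_lit 8859937735) (nat_lit 0) (nat_lit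 569428273) (nat_lit 14) (nat_lit 5) (nat_lit 16) (nat_lit 4) (nat_lit 14) (nat_lit 4) (nat_lit 331) (nat_lit 256) (nat_lit 193)))) (XT.nd (nat_lit 156) (nat_lit 76) (nat_lit 0) (XT.nd (nat_lit 78) (nat_lit 76) (nat_lit 0) (XT.lf (nat_lit 0) (nat_lit 7052856387) (nat_lit 76) (nat_lit 36350723187) (nat_lit 76) (nat_lit 2393966725) (nat_lit 13) (nat_lit 4) (nat_lit 14) (nat_lit 5) (nat_lit 14) (nat_lit 4) (nat_lit 332) (nat_lit 256) (nat_lit 192)) (XT.lf (nat_lit 0) (nat_lit 4951619660) (nat_lit 152) (nat_lit 23979468121) (nat_lit 76) (nat_lit 18879587016) (nat_lit 12) (nat_lit 5) (nat_lit 14) (nat_lit 5) (nat_lit 13) (nat_lit 4) (nat_lit 333) (nat_lit 256) (nat_lit 191))) (XT.nd (nat_lit 78) (nat_lit 76) (nat_lit 0) (XT.lf (nat_lit 0) (nat_lit 12580905413) (nat_lit 152) (nat_lit 8562970017) (nat_lit 76) (nat_lit 28780907563) (nat_lit 12) (nat_lit 5) (nat_lit 14) (nat_lit 5) (nat_lit 13) (nat_lit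 4) (nat_lit 334) (nat_lit 256) (nat_lit 190)) (XT.lf (nat_lit 0) (nat_lit 7715071452) (nat_lit 76) (nat_lit 12917860944) (nat_lit 152) (nat_lit 31510437587) (nat_lit 11) (nat_lit 5) (nat_lit 12) (nat_lit 5) (nat_lit 13) (nat_lit 4) (nat_lit 335) (nat_lit 256) (nat_lit 189))))))) (XT.nd (nat_lit 1014) (nat_lit 228) (nat_lit 0) (XT.nd (nat_lit 468) (nat_lit 152) (nat_lit 0) (XT.nd (nat_lit 234) (nat_lit 76) (nat_lit 0) (XT.nd (nat_lit 78) (nat_lit 76) (nat_lit 0) (XT.lf (nat_lit 0) (nat_lit 24927840537) (nat_lit 76) (nat_lit 4215990684) (nat_lit 152) (nat_lit 25327378124) (nat_lit 11) (nat_lit 5) (nat_lit 12) (nat_lit 5) (nat_lit 13) (nat_lit 4) (nat_lit 336) (nat_lit 256) (nat_lit 188)) (XT.nd (nat_lit 78) (nat_lit 76) (nat_lit 0) (XT.lf (nat_lit 0) (nat_lit 38096978449) (nat_lit 152) (nat_lit 14017525153) (nat_lit 0) (nat_lit 4800446579) (nat_lit 11) (nat_lit 5) (nat_lit 13) (nat_lit 4) (nat_lit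 11) (nat_lit 4) (nat_lit 337) (nat_lit 256) (nat_lit 187)) (XT.lf (nat_lit 0) (nat_lit 2232255931) (nat_lit 76) (nat_lit 45300395128) (nat_lit 76) (nat_lit 11947191061) (nat_lit 10) (nat_lit 4) (nat_lit 11) (nat_lit 5) (nat_lit 11) (nat_lit 4) (nat_lit 338) (nat_lit 256) (nat_lit 186)))) (XT.nd (nat_lit 78) (nat_lit 76) (nat_lit 0) (XT.lf (nat_lit 0) (nat_lit 19535619611) (nat_lit 76) (nat_lit 38020532456) (nat_lit 76) (nat_lit 4613354867) (nat_lit 10) (nat_lit 4) (nat_lit 11) (nat_lit 5) (nat_lit 11) (nat_lit 4) (nat_lit 339) (nat_lit 256) (nat_lit 185)) (XT.nd (nat_lit 78) (nat_lit 0) (nat_lit 0) (XT.lf (nat_lit 0) (nat_lit 2999747976) (nat_lit 152) (nat_lit 27369092549) (nat_lit 76) (nat_lit 34624748585) (nat_lit 9) (nat_lit 5) (nat_lit 11) (nat_lit 5) (nat_lit 10) (nat_lit 4) (nat_lit 340) (nat_lit 256) (nat_lit 184)) (XT.lf (nat_lit 0) (nat_lit 10873092786) (nat_lit 152) (nat_lit 11435158161)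 (nat_lit 76) (nat_lit 45650012675) (nat_lit 9) (nat_lit 5) (nat_lit 11) (nat_lit 5) (nat_lit 10) (nat_lit 4) (nat_lit 341) (nat_lit 256) (nat_lit 183))))) (XT.nd (nat_lit 234) (nat_lit 76) (nat_lit 0) (XT.nd (nat_lit 78) (nat_lit 0) (nat_lit 0) (XT.lf (nat_lit 0) (nat_lit 5354689445) (nat_lit 76) (nat_lit 13812231894) (nat_lit 152) (nat_lit 51903454094) (nat_lit 8) (nat_lit 5) (nat_lit 9) (nat_lit 5) (nat_lit 10) (nat_lit 4) (nat_lit 342) (nat_lit 256) (nat_lit 182)) (XT.nd (nat_lit 78) (nat_lit 0) (nat_lit 0) (XT.lf (nat_lit 0) (nat_lit 23179015563) (nat_lit 76) (nat_lit 4790235957) (nat_lit 152) (nat_lit 46366034693) (nat_lit 8) (nat_lit 5) (nat_lit 9) (nat_lit 5) (nat_lit 10) (nat_lit 4) (nat_lit 343) (nat_lit 256) (nat_lit 181)) (XT.lf (nat_lit 0) (nat_lit 37233762636) (nat_lit 152) (nat_lit 35956286621) (nat_lit 0) (nat_lit 4572738664) (nat_lit 8) (nat_lit 5) (nat_lit 10) (nat_lit 4)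 (nat_lit 8) (nat_lit 4) (nat_lit 344) (nat_lit 256) (nat_lit 180)))) (XT.nd (nat_lit 156) (nat_lit 76) (nat_lit 0) (XT.nd (nat_lit 78) (nat_lit 0) (nat_lit 0) (XT.lf (nat_lit 0) (nat_lit 46987991091) (nat_lit 152) (nat_lit 20085021507) (nat_lit 0) (nat_lit 14287864330) (nat_lit 8) (nat_lit 5) (nat_lit 10) (nat_lit 4) (nat_lit 8) (nat_lit 4) (nat_lit 345) (nat_lit 256) (nat_lit 179)) (XT.lf (nat_lit 0) (nat_lit 57209114563) (nat_lit 152) (nat_lit 3458639905) (nat_lit 0) (nat_lit 24471747050) (nat_lit 8) (nat_lit 5) (nat_lit 10) (nat_lit 4) (nat_lit 8) (nat_lit 4) (nat_lit 346) (nat_lit 256) (nat_lit 178))) (XT.nd (nat_lit 78) (nat_lit 0) (nat_lit 0) (XT.lf (nat_lit 0) (nat_lit 14240324837) (nat_lit 76) (nat_lit 53818030936) (nat_lit 76) (nat_lit 21045196040) (nat_lit 7) (nat_lit 4) (nat_lit 8) (nat_lit 5) (nat_lit 8) (nat_lit 4) (nat_lit 347) (nat_lit 256) (nat_lit 177)) (XT.lf (nat_lit 0)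 (nat_lit 32860946839) (nat_lit 76) (nat_lit 46605492870) (nat_lit 76) (nat_lit 13798879515) (nat_lit 7) (nat_lit 4) (nat_lit 8) (nat_lit 5) (nat_lit 8) (nat_lit 4) (nat_lit 348) (nat_lit 256) (nat_lit 176)))))) (XT.nd (nat_lit 546) (nat_lit 76) (nat_lit 0) (XT.nd (nat_lit 234) (nat_lit 76) (nat_lit 0) (XT.nd (nat_lit 78) (nat_lit 76) (nat_lit 0) (XT.lf (nat_lit 0) (nat_lit 52378727199) (nat_lit 76) (nat_lit 39047893042) (nat_lit 76) (nat_lit 6209109726) (nat_lit 7) (nat_lit 4) (nat_lit 8) (nat_lit 5) (nat_lit 8) (nat_lit 4) (nat_lit 349) (nat_lit 256) (nat_lit 175)) (XT.nd (nat_lit 78) (nat_lit 0) (nat_lit 0) (XT.lf (nat_lit 0) (nat_lit 1708187916) (nat_lit 152) (nat_lit 29401799903) (nat_lit 76) (nat_lit 71114699557) (nat_lit 6) (nat_lit 5) (nat_lit 8) (nat_lit 5) (nat_lit 7) (nat_lit 4) (nat_lit 350) (nat_lit 256) (nat_lit 174)) (XT.lf (nat_lit 0) (nat_lit 9877355198) (nat_lit 152) (nat_lit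 12847569425) (nat_lit 76) (nat_lit 84316796233) (nat_lit 6) (nat_lit 5) (nat_lit 8) (nat_lit 5) (nat_lit 7) (nat_lit 4) (nat_lit 351) (nat_lit 256) (nat_lit 173)))) (XT.nd (nat_lit 156) (nat_lit 0) (nat_lit 0) (XT.nd (nat_lit 78) (nat_lit 0) (nat_lit 0) (XT.lf (nat_lit 0) (nat_lit 4594443400) (nat_lit 76) (nat_lit 13888725811) (nat_lit 152) (nat_lit 93615595956) (nat_lit 5) (nat_lit 5) (nat_lit 6) (nat_lit 5) (nat_lit 7) (nat_lit 4) (nat_lit 352) (nat_lit 256) (nat_lit 172)) (XT.lf (nat_lit 0) (nat_lit 23148297964) (nat_lit 76) (nat_lit 4487738671) (nat_lit 152) (nat_lit 89769126759) (nat_lit 5) (nat_lit 5) (nat_lit 6) (nat_lit 5) (nat_lit 7) (nat_lit 4) (nat_lit 353) (nat_lit 256) (nat_lit 171))) (XT.nd (nat_lit 78) (nat_lit 0) (nat_lit 0) (XT.lf (nat_lit 0) (nat_lit 37283419757) (nat_lit 152) (nat_lit 80426476533) (nat_lit 0) (nat_lit 5265883433) (nat_lit 5) (nat_lit 5) (nat_lit 7) (nat_lit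 4) (nat_lit 5) (nat_lit 4) (nat_lit 354) (nat_lit 256) (nat_lit 170)) (XT.lf (nat_lit 0) (nat_lit 47444300987) (nat_lit 152) (nat_lit 65976238032) (nat_lit 0) (nat_lit 15403458138) (nat_lit 5) (nat_lit 5) (nat_lit 7) (nat_lit 4) (nat_lit 5) (nat_lit 4) (nat_lit 355) (nat_lit 256) (nat_lit 169))))) (XT.nd (nat_lit 234) (nat_lit 76) (nat_lit 0) (XT.nd (nat_lit 78) (nat_lit 0) (nat_lit 0) (XT.lf (nat_lit 0) (nat_lit 58099734010) (nat_lit 152) (nat_lit 50828605705) (nat_lit 0) (nat_lit 26036694471) (nat_lit 5) (nat_lit 5) (nat_lit 7) (nat_lit 4) (nat_lit 5) (nat_lit 4) (nat_lit 356) (nat_lit 256) (nat_lit 168)) (XT.nd (nat_lit 78) (nat_lit 0) (nat_lit 0) (XT.lf (nat_lit 0) (nat_lit 69275088904) (nat_lit 152) (nat_lit 34947513763) (nat_lit 0) (nat_lit 37190909661) (nat_lit 5) (nat_lit 5) (nat_lit 7) (nat_lit 4) (nat_lit 5) (nat_lit 4) (nat_lit 357) (nat_lit 256) (nat_lit 167)) (XT.lf (nat_lit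 0) (nat_lit 80996973659) (nat_lit 152) (nat_lit 18295150082) (nat_lit 0) (nat_lit 48892661363) (nat_lit 5) (nat_lit 5) (nat_lit 7) (nat_lit 4) (nat_lit 5) (nat_lit 4) (nat_lit 358) (nat_lit 256) (nat_lit 166)))) (XT.nd (nat_lit 156) (nat_lit 0) (nat_lit 0) (XT.nd (nat_lit 78) (nat_lit 76) (nat_lit 0) (XT.lf (nat_lit 0) (nat_lit 93293297522) (nat_lit 152) (nat_lit 831866177) (nat_lit 0) (nat_lit 61169810891) (nat_lit 5) (nat_lit 5) (nat_lit 7) (nat_lit 4) (nat_lit 5) (nat_lit 4) (nat_lit 359) (nat_lit 256) (nat_lit 165)) (XT.lf (nat_lit 0) (nat_lit 17831881434) (nat_lit 76) (nat_lit 88532866975) (nat_lit 76) (nat_lit 56391119071) (nat_lit 4) (nat_lit 4) (nat_lit 5) (nat_lit 5) (nat_lit 5) (nat_lit 4) (nat_lit 360) (nat_lit 256) (nat_lit 164))) (XT.nd (nat_lit 33228) (nat_lit 0) (nat_lit 22192) (XT.lf (nat_lit 0) (nat_lit 37426127609) (nat_lit 76) (nat_lit 82661443066) (nat_lit 76) (nat_lit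 50502303475) (nat_lit 4) (nat_lit 4) (nat_lit 5) (nat_lit 5) (nat_lit 5) (nat_lit 4) (nat_lit 361) (nat_lit 256) (nat_lit 163)) (XT.lf (nat_lit 0) (nat_lit 96418041) (nat_lit 380) (nat_lit 1589815329) (nat_lit 380) (nat_lit 1589815329) (nat_lit 296) (nat_lit 4) (nat_lit 301) (nat_lit 5) (nat_lit 301) (nat_lit 4) (nat_lit 266) (nat_lit 257) (nat_lit 257))))))))
noncomputable def xc44 : XT := (XT.nd (nat_lit 2028) (nat_lit 4940) (nat_lit 0) (XT.nd (nat_lit 1014) (nat_lit 6004) (nat_lit 0) (XT.nd (nat_lit 468) (nat_lit 6460) (nat_lit 0) (XT.nd (nat_lit 234) (nat_lit 2204) (nat_lit 0) (XT.nd (nat_lit 78) (nat_lit 1064) (nat_lit 0) (XT.lf (nat_lit 0) (nat_lit 1733337355) (nat_lit 456) (nat_lit 311565771) (nat_lit 76) (nat_lit 4548370930) (nat_lit 295) (nat_lit 5) (nat_lit 301) (nat_lit 5) (nat_lit 296) (nat_lit 4) (nat_lit 267) (nat_lit 257) (nat_lit 256)) (XT.nd (nat_lit 78) (nat_lit 608) (nat_lit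 0) (XT.lf (nat_lit 0) (nat_lit 5923789545) (nat_lit 456) (nat_lit 678120969) (nat_lit 532) (nat_lit 41014423) (nat_lit 289) (nat_lit 5) (nat_lit 295) (nat_lit 5) (nat_lit 296) (nat_lit 4) (nat_lit 268) (nat_lit 257) (nat_lit 255)) (XT.lf (nat_lit 0) (nat_lit 4713938760) (nat_lit 608) (nat_lit 1063937264) (nat_lit 76) (nat_lit 922528139) (nat_lit 281) (nat_lit 5) (nat_lit 289) (nat_lit 5) (nat_lit 282) (nat_lit 4) (nat_lit 269) (nat_lit 257) (nat_lit 254)))) (XT.nd (nat_lit 78) (nat_lit 1520) (nat_lit 0) (XT.lf (nat_lit 0) (nat_lit 2690237870) (nat_lit 684) (nat_lit 1331910976) (nat_lit 76) (nat_lit 2744206993) (nat_lit 272) (nat_lit 5) (nat_lit 281) (nat_lit 5) (nat_lit 273) (nat_lit 5) (nat_lit 270) (nat_lit 257) (nat_lit 253)) (XT.nd (nat_lit 78) (nat_lit 760) (nat_lit 0) (XT.lf (nat_lit 0) (nat_lit 516659686) (nat_lit 760) (nat_lit 1519607529) (nat_lit 76) (nat_lit 4804854269) (nat_lit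 262) (nat_lit 5) (nat_lit 272) (nat_lit 5) (nat_lit 263) (nat_lit 5) (nat_lit 271) (nat_lit 257) (nat_lit 252)) (XT.lf (nat_lit 0) (nat_lit 5075279606) (nat_lit 836) (nat_lit 1649731139) (nat_lit 76) (nat_lit 199264148) (nat_lit 252) (nat_lit 5) (nat_lit 263) (nat_lit 5) (nat_lit 253) (nat_lit 5) (nat_lit 272) (nat_lit 257) (nat_lit 251))))) (XT.nd (nat_lit 234) (nat_lit 3572) (nat_lit 0) (XT.nd (nat_lit 78) (nat_lit 1976) (nat_lit 0) (XT.lf (nat_lit 0) (nat_lit 2643551331) (nat_lit 912) (nat_lit 1734057890) (nat_lit 76) (nat_lit 2638126543) (nat_lit 240) (nat_lit 5) (nat_lit 252) (nat_lit 5) (nat_lit 241) (nat_lit 5) (nat_lit 273) (nat_lit 257) (nat_lit 250)) (XT.nd (nat_lit 78) (nat_lit 988) (nat_lit 0) (XT.lf (nat_lit 0) (nat_lit 44387223) (nat_lit 988) (nat_lit 1750849701) (nat_lit 76) (nat_lit 5321211655) (nat_lit 227) (nat_lit 5) (nat_lit 240) (nat_lit 5) (nat_lit 228) (nat_lit 5) (nat_lit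 274) (nat_lit 257) (nat_lit 249)) (XT.lf (nat_lit 0) (nat_lit 4449851555) (nat_lit 1064) (nat_lit 1739961679) (nat_lit 76) (nat_lit 1035717535) (nat_lit 214) (nat_lit 5) (nat_lit 228) (nat_lit 5) (nat_lit 215) (nat_lit 5) (nat_lit 275) (nat_lit 257) (nat_lit 248)))) (XT.nd (nat_lit 156) (nat_lit 1292) (nat_lit 0) (XT.nd (nat_lit 78) (nat_lit 1140) (nat_lit 0) (XT.lf (nat_lit 0) (nat_lit 1576465245) (nat_lit 1140) (nat_lit 1689310640) (nat_lit 76) (nat_lit 4077904275) (nat_lit 199) (nat_lit 5) (nat_lit 214) (nat_lit 5) (nat_lit 200) (nat_lit 5) (nat_lit 276) (nat_lit 257) (nat_lit 247)) (XT.lf (nat_lit 0) (nat_lit 5872371530) (nat_lit 1140) (nat_lit 83009401) (nat_lit 1216) (nat_lit 1515875373) (nat_lit 184) (nat_lit 5) (nat_lit 199) (nat_lit 5) (nat_lit 200) (nat_lit 5) (nat_lit 277) (nat_lit 257) (nat_lit 246))) (XT.nd (nat_lit 78) (nat_lit 608) (nat_lit 0) (XT.lf (nat_lit 0) (nat_lit 2796658984)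 (nat_lit 684) (nat_lit 1507097595) (nat_lit 76) (nat_lit 3303735033) (nat_lit 175) (nat_lit 5) (nat_lit 184) (nat_lit 5) (nat_lit 176) (nat_lit 5) (nat_lit 278) (nat_lit 257) (nat_lit 245)) (XT.lf (nat_lit 0) (nat_lit 6375520037) (nat_lit 608) (nat_lit 802018818) (nat_lit 684) (nat_lit 576327617) (nat_lit 167) (nat_lit 5) (nat_lit 175) (nat_lit 5) (nat_lit 176) (nat_lit 5) (nat_lit 279) (nat_lit 257) (nat_lit 244)))))) (XT.nd (nat_lit 468) (nat_lit 2736) (nat_lit 0) (XT.nd (nat_lit 234) (nat_lit 1596) (nat_lit 0) (XT.nd (nat_lit 78) (nat_lit 1064) (nat_lit 0) (XT.lf (nat_lit 0) (nat_lit 3713187410) (nat_lit 608) (nat_lit 1268136568) (nat_lit 76) (nat_lit 2927833602) (nat_lit 159) (nat_lit 5) (nat_lit 167) (nat_lit 5) (nat_lit 160) (nat_lit 5) (nat_lit 280) (nat_lit 257) (nat_lit 243)) (XT.nd (nat_lit 78) (nat_lit 456) (nat_lit 0) (XT.lf (nat_lit 0) (nat_lit 36069250) (nat_lit 608) (nat_lit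 1134529170) (nat_lit 76) (nat_lit 6904498262) (nat_lit 151) (nat_lit 5) (nat_lit 159) (nat_lit 5) (nat_lit 152) (nat_lit 5) (nat_lit 281) (nat_lit 257) (nat_lit 242)) (XT.lf (nat_lit 0) (nat_lit 4327006090) (nat_lit 532) (nat_lit 1040287832) (nat_lit 76) (nat_lit 2883014635) (nat_lit 145) (nat_lit 5) (nat_lit 152) (nat_lit 5) (nat_lit 146) (nat_lit 5) (nat_lit 282) (nat_lit 257) (nat_lit 241)))) (XT.nd (nat_lit 78) (nat_lit 988) (nat_lit 0) (XT.lf (nat_lit 0) (nat_lit 313826632) (nat_lit 608) (nat_lit 940314246) (nat_lit 76) (nat_lit 7182549628) (nat_lit 137) (nat_lit 5) (nat_lit 145) (nat_lit 5) (nat_lit 138) (nat_lit 5) (nat_lit 283) (nat_lit 257) (nat_lit 240)) (XT.nd (nat_lit 78) (nat_lit 532) (nat_lit 0) (XT.lf (nat_lit 0) (nat_lit 4631475663) (nat_lit 532) (nat_lit 897241367) (nat_lit 76) (nat_lit 3104230290) (nat_lit 131) (nat_lit 5) (nat_lit 138) (nat_lit 5) (nat_lit 132) (nat_lit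 5) (nat_lit 284) (nat_lit 257) (nat_lit 239)) (XT.lf (nat_lit 0) (nat_lit 256917751) (nat_lit 532) (nat_lit 867799142) (nat_lit 76) (nat_lit 7716286397) (nat_lit 124) (nat_lit 5) (nat_lit 131) (nat_lit 5) (nat_lit 125) (nat_lit 5) (nat_lit 285) (nat_lit 257) (nat_lit 238))))) (XT.nd (nat_lit 234) (nat_lit 1520) (nat_lit 0) (XT.nd (nat_lit 78) (nat_lit 836) (nat_lit 0) (XT.lf (nat_lit 0) (nat_lit 4611856230) (nat_lit 456) (nat_lit 920614512) (nat_lit 76) (nat_lit 3527000688) (nat_lit 119) (nat_lit 5) (nat_lit 125) (nat_lit 5) (nat_lit 120) (nat_lit 5) (nat_lit 286) (nat_lit 257) (nat_lit 237)) (XT.nd (nat_lit 78) (nat_lit 456) (nat_lit 0) (XT.lf (nat_lit 0) (nat_lit 8285425577) (nat_lit 380) (nat_lit 847617819) (nat_lit 456) (nat_lit 157545016) (nat_lit 114) (nat_lit 5) (nat_lit 119) (nat_lit 5) (nat_lit 120) (nat_lit 5) (nat_lit 287) (nat_lit 257) (nat_lit 236)) (XT.lf (nat_lit 0) (nat_lit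 4244611285) (nat_lit 456) (nat_lit 1202302743) (nat_lit 76) (nat_lit 4085788251) (nat_lit 108) (nat_lit 5) (nat_lit 114) (nat_lit 5) (nat_lit 109) (nat_lit 5) (nat_lit 288) (nat_lit 257) (nat_lit 235)))) (XT.nd (nat_lit 156) (nat_lit 760) (nat_lit 0) (XT.nd (nat_lit 78) (nat_lit 380) (nat_lit 0) (XT.lf (nat_lit 0) (nat_lit 8332978651) (nat_lit 380) (nat_lit 486977135) (nat_lit 456) (nat_lit 968388037) (nat_lit 103) (nat_lit 5) (nat_lit 108) (nat_lit 5) (nat_lit 109) (nat_lit 5) (nat_lit 289) (nat_lit 257) (nat_lit 234)) (XT.lf (nat_lit 0) (nat_lit 3496500435) (nat_lit 380) (nat_lit 1847141264) (nat_lit 76) (nat_lit 4712279638) (nat_lit 98) (nat_lit 5) (nat_lit 103) (nat_lit 5) (nat_lit 99) (nat_lit 5) (nat_lit 290) (nat_lit 257) (nat_lit 233))) (XT.nd (nat_lit 78) (nat_lit 380) (nat_lit 0) (XT.lf (nat_lit 0) (nat_lit 8009012727) (nat_lit 380) (nat_lit 118044541) (nat_lit 456) (nat_lit 2210799233)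 (nat_lit 93) (nat_lit 5) (nat_lit 98) (nat_lit 5) (nat_lit 99) (nat_lit 5) (nat_lit 291) (nat_lit 257) (nat_lit 232)) (XT.lf (nat_lit 0) (nat_lit 2323435166) (nat_lit 380) (nat_lit 2975943359) (nat_lit 76) (nat_lit 5333535877) (nat_lit 88) (nat_lit 5) (nat_lit 93) (nat_lit 5) (nat_lit 89) (nat_lit 5) (nat_lit 292) (nat_lit 257) (nat_lit 231))))))) (XT.nd (nat_lit 1014) (nat_lit 1824) (nat_lit 0) (XT.nd (nat_lit 468) (nat_lit 1292) (nat_lit 0) (XT.nd (nat_lit 234) (nat_lit 836) (nat_lit 0) (XT.nd (nat_lit 78) (nat_lit 684) (nat_lit 0) (XT.lf (nat_lit 0) (nat_lit 7007952055) (nat_lit 380) (nat_lit 3758037975) (nat_lit 76) (nat_lit 177122947) (nat_lit 84) (nat_lit 5) (nat_lit 89) (nat_lit 5) (nat_lit 85) (nat_lit 5) (nat_lit 293) (nat_lit 257) (nat_lit 230)) (XT.nd (nat_lit 78) (nat_lit 304) (nat_lit 0) (XT.lf (nat_lit 0) (nat_lit 669066255) (nat_lit 380) (nat_lit 4728991224) (nat_lit 76) (nat_lit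 5869967336) (nat_lit 79) (nat_lit 5) (nat_lit 84) (nat_lit 5) (nat_lit 80) (nat_lit 5) (nat_lit 294) (nat_lit 257) (nat_lit 229)) (XT.lf (nat_lit 0) (nat_lit 5399519194) (nat_lit 380) (nat_lit 5893054904) (nat_lit 76) (nat_lit 316225840) (nat_lit 75) (nat_lit 5) (nat_lit 80) (nat_lit 5) (nat_lit 76) (nat_lit 5) (nat_lit 295) (nat_lit 257) (nat_lit 228)))) (XT.nd (nat_lit 78) (nat_lit 608) (nat_lit 0) (XT.lf (nat_lit 0) (nat_lit 4680630123) (nat_lit 228) (nat_lit 5717611623) (nat_lit 304) (nat_lit 1567523032) (nat_lit 72) (nat_lit 5) (nat_lit 75) (nat_lit 5) (nat_lit 76) (nat_lit 5) (nat_lit 296) (nat_lit 257) (nat_lit 227)) (XT.nd (nat_lit 78) (nat_lit 228) (nat_lit 0) (XT.lf (nat_lit 0) (nat_lit 3223938541) (nat_lit 380) (nat_lit 8909915324) (nat_lit 76) (nat_lit 206402078) (nat_lit 67) (nat_lit 5) (nat_lit 72) (nat_lit 5) (nat_lit 68) (nat_lit 5) (nat_lit 297) (nat_lit 257) (nat_lit 226))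 (XT.lf (nat_lit 0) (nat_lit 1897788671) (nat_lit 228) (nat_lit 6365936762) (nat_lit 304) (nat_lit 4468136531) (nat_lit 64) (nat_lit 5) (nat_lit 67) (nat_lit 5) (nat_lit 68) (nat_lit 5) (nat_lit 298) (nat_lit 257) (nat_lit 225))))) (XT.nd (nat_lit 234) (nat_lit 760) (nat_lit 0) (XT.nd (nat_lit 78) (nat_lit 228) (nat_lit 0) (XT.lf (nat_lit 0) (nat_lit 124313507) (nat_lit 228) (nat_lit 265662352) (nat_lit 304) (nat_lit 12753470525) (nat_lit 60) (nat_lit 5) (nat_lit 63) (nat_lit 5) (nat_lit 64) (nat_lit 5) (nat_lit 299) (nat_lit 257) (nat_lit 224)) (XT.nd (nat_lit 78) (nat_lit 228) (nat_lit 0) (XT.lf (nat_lit 0) (nat_lit 5465921616) (nat_lit 304) (nat_lit 1983430357) (nat_lit 76) (nat_lit 6122990975) (nat_lit 60) (nat_lit 5) (nat_lit 64) (nat_lit 5) (nat_lit 61) (nat_lit 5) (nat_lit 300) (nat_lit 257) (nat_lit 223)) (XT.lf (nat_lit 0) (nat_lit 9634167480) (nat_lit 228) (nat_lit 1156623669) (nat_lit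 304) (nat_lit 3232115740) (nat_lit 57) (nat_lit 5) (nat_lit 60) (nat_lit 5) (nat_lit 61) (nat_lit 5) (nat_lit 301) (nat_lit 257) (nat_lit 222)))) (XT.nd (nat_lit 156) (nat_lit 304) (nat_lit 0) (XT.nd (nat_lit 78) (nat_lit 152) (nat_lit 0) (XT.lf (nat_lit 0) (nat_lit 1895464302) (nat_lit 304) (nat_lit 7197628827) (nat_lit 76) (nat_lit 5401041836) (nat_lit 53) (nat_lit 5) (nat_lit 57) (nat_lit 5) (nat_lit 54) (nat_lit 5) (nat_lit 302) (nat_lit 257) (nat_lit 221)) (XT.lf (nat_lit 0) (nat_lit 4563680872) (nat_lit 152) (nat_lit 2655530695) (nat_lit 228) (nat_lit 7768621073) (nat_lit 51) (nat_lit 5) (nat_lit 53) (nat_lit 5) (nat_lit 54) (nat_lit 5) (nat_lit 303) (nat_lit 257) (nat_lit 220))) (XT.nd (nat_lit 78) (nat_lit 76) (nat_lit 0) (XT.lf (nat_lit 0) (nat_lit 1397800931) (nat_lit 228) (nat_lit 11446501524) (nat_lit 304) (nat_lit 2660922084) (nat_lit 48) (nat_lit 5) (nat_lit 51) (nat_lit 5)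 (nat_lit 52) (nat_lit 5) (nat_lit 304) (nat_lit 257) (nat_lit 219)) (XT.lf (nat_lit 0) (nat_lit 2694121481) (nat_lit 304) (nat_lit 2216782556) (nat_lit 76) (nat_lit 11135521297) (nat_lit 47) (nat_lit 5) (nat_lit 51) (nat_lit 5) (nat_lit 48) (nat_lit 5) (nat_lit 305) (nat_lit 257) (nat_lit 218)))))) (XT.nd (nat_lit 546) (nat_lit 836) (nat_lit 0) (XT.nd (nat_lit 234) (nat_lit 380) (nat_lit 0) (XT.nd (nat_lit 78) (nat_lit 456) (nat_lit 0) (XT.lf (nat_lit 0) (nat_lit 8294755679) (nat_lit 228) (nat_lit 6329850321) (nat_lit 76) (nat_lit 1988360070) (nat_lit 45) (nat_lit 5) (nat_lit 48) (nat_lit 5) (nat_lit 46) (nat_lit 5) (nat_lit 306) (nat_lit 257) (nat_lit 217)) (XT.nd (nat_lit 78) (nat_lit 228) (nat_lit 0) (XT.lf (nat_lit 0) (nat_lit 6180545208) (nat_lit 228) (nat_lit 8043026785) (nat_lit 304) (nat_lit 2982871035) (nat_lit 42) (nat_lit 5) (nat_lit 45) (nat_lit 5) (nat_lit 46) (nat_lit 5) (nat_lit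 307) (nat_lit 257) (nat_lit 216)) (XT.lf (nat_lit 0) (nat_lit 1489139863) (nat_lit 152) (nat_lit 1077087982) (nat_lit 228) (nat_lit 15262717211) (nat_lit 39) (nat_lit 5) (nat_lit 41) (nat_lit 5) (nat_lit 42) (nat_lit 5) (nat_lit 308) (nat_lit 257) (nat_lit 215)))) (XT.nd (nat_lit 156) (nat_lit 228) (nat_lit 0) (XT.nd (nat_lit 78) (nat_lit 152) (nat_lit 0) (XT.lf (nat_lit 0) (nat_lit 8426373046) (nat_lit 228) (nat_lit 3843261189) (nat_lit 76) (nat_lit 6209240787) (nat_lit 39) (nat_lit 5) (nat_lit 42) (nat_lit 5) (nat_lit 40) (nat_lit 5) (nat_lit 309) (nat_lit 257) (nat_lit 214)) (XT.lf (nat_lit 0) (nat_lit 9322247985) (nat_lit 152) (nat_lit 5281690752) (nat_lit 228) (nat_lit 4556675388) (nat_lit 37) (nat_lit 5) (nat_lit 39) (nat_lit 5) (nat_lit 40) (nat_lit 5) (nat_lit 310) (nat_lit 257) (nat_lit 213))) (XT.nd (nat_lit 78) (nat_lit 0) (nat_lit 0) (XT.lf (nat_lit 0) (nat_lit 1207417166) (nat_lit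 228) (nat_lit 16618103879) (nat_lit 76) (nat_lit 2050095815) (nat_lit 34) (nat_lit 5) (nat_lit 37) (nat_lit 5) (nat_lit 35) (nat_lit 5) (nat_lit 311) (nat_lit 257) (nat_lit 212)) (XT.lf (nat_lit 0) (nat_lit 7249442986) (nat_lit 228) (nat_lit 3632793004) (nat_lit 76) (nat_lit 9740300903) (nat_lit 34) (nat_lit 5) (nat_lit 37) (nat_lit 5) (nat_lit 35) (nat_lit 5) (nat_lit 312) (nat_lit 257) (nat_lit 211))))) (XT.nd (nat_lit 234) (nat_lit 456) (nat_lit 0) (XT.nd (nat_lit 78) (nat_lit 228) (nat_lit 0) (XT.lf (nat_lit 0) (nat_lit 10081425665) (nat_lit 152) (nat_lit 3540007751) (nat_lit 228) (nat_lit 7784571381) (nat_lit 32) (nat_lit 5) (nat_lit 34) (nat_lit 5) (nat_lit 35) (nat_lit 5) (nat_lit 313) (nat_lit 257) (nat_lit 210)) (XT.nd (nat_lit 78) (nat_lit 76) (nat_lit 0) (XT.lf (nat_lit 0) (nat_lit 2217246359) (nat_lit 152) (nat_lit 18126633933) (nat_lit 228) (nat_lit 1883846071) (nat_lit 30) (nat_lit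 5) (nat_lit 32) (nat_lit 5) (nat_lit 33) (nat_lit 4) (nat_lit 314) (nat_lit 257) (nat_lit 209)) (XT.lf (nat_lit 0) (nat_lit 4315383227) (nat_lit 228) (nat_lit 6605912058) (nat_lit 76) (nat_lit 12165400258) (nat_lit 29) (nat_lit 5) (nat_lit 32) (nat_lit 5) (nat_lit 30) (nat_lit 5) (nat_lit 315) (nat_lit 257) (nat_lit 208)))) (XT.nd (nat_lit 156) (nat_lit 304) (nat_lit 0) (XT.nd (nat_lit 78) (nat_lit 0) (nat_lit 0) (XT.lf (nat_lit 0) (nat_lit 7488030791) (nat_lit 152) (nat_lit 3307207696) (nat_lit 228) (nat_lit 13192558054) (nat_lit 27) (nat_lit 5) (nat_lit 29) (nat_lit 5) (nat_lit 30) (nat_lit 5) (nat_lit 316) (nat_lit 257) (nat_lit 207)) (XT.lf (nat_lit 0) (nat_lit 17651659703) (nat_lit 228) (nat_lit 2659222214) (nat_lit 76) (nat_lit 4621523645) (nat_lit 27) (nat_lit 5) (nat_lit 30) (nat_lit 5) (nat_lit 28) (nat_lit 4) (nat_lit 317) (nat_lit 257) (nat_lit 206))) (XT.nd (nat_lit 78) (nat_lit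 228) (nat_lit 0) (XT.lf (nat_lit 0) (nat_lit 11972362063) (nat_lit 76) (nat_lit 12968756454) (nat_lit 152) (nat_lit 980448755) (nat_lit 26) (nat_lit 5) (nat_lit 27) (nat_lit 5) (nat_lit 28) (nat_lit 4) (nat_lit 318) (nat_lit 257) (nat_lit 205)) (XT.lf (nat_lit 0) (nat_lit 283332428) (nat_lit 152) (nat_lit 5214936809) (nat_lit 228) (nat_lit 21461118548) (nat_lit 23) (nat_lit 5) (nat_lit 25) (nat_lit 5) (nat_lit 26) (nat_lit 5) (nat_lit 319) (nat_lit 257) (nat_lit 204))))))))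
noncomputable def xc45 : XT := (XT.nd (nat_lit 2028) (nat_lit 304) (nat_lit 0) (XT.nd (nat_lit 1014) (nat_lit 456) (nat_lit 0) (XT.nd (nat_lit 468) (nat_lit 380) (nat_lit 0) (XT.nd (nat_lit 234) (nat_lit 228) (nat_lit 0) (XT.nd (nat_lit 78) (nat_lit 76) (nat_lit 0) (XT.lf (nat_lit 0) (nat_lit 12398364045) (nat_lit 228) (nat_lit 12663168056) (nat_lit 76) (nat_lit 2983769760) (nat_lit 23) (nat_lit 5) (nat_lit 26) (nat_lit 5) (nat_lit 24) (nat_lit 4) (nat_lit 320) (nat_lit 257) (nat_lit 203)) (XT.nd (nat_lit 78) (nat_lit 0) (nat_lit 0) (XT.lf (nat_lit 0) (nat_lit 1942372356) (nat_lit 76) (nat_lit 17719427745) (nat_lit 152) (nat_lit 9523185541) (nat_lit 22) (nat_lit 5) (nat_lit 23) (nat_lit 5) (nat_lit 24) (nat_lit 4) (nat_lit 321) (nat_lit 257) (nat_lit 202)) (XT.lf (nat_lit 0) (nat_lit 17452227677) (nat_lit 76) (nat_lit 9915217683) (nat_lit 152) (nat_lit 3011860082) (nat_lit 22) (nat_lit 5)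 (nat_lit 23) (nat_lit 5) (nat_lit 24) (nat_lit 4) (nat_lit 322) (nat_lit 257) (nat_lit 201)))) (XT.nd (nat_lit 78) (nat_lit 0) (nat_lit 0) (XT.lf (nat_lit 0) (nat_lit 2019600169) (nat_lit 152) (nat_lit 1700824633) (nat_lit 228) (nat_lit 27912733592) (nat_lit 19) (nat_lit 5) (nat_lit 21) (nat_lit 5) (nat_lit 22) (nat_lit 5) (nat_lit 323) (nat_lit 257) (nat_lit 200)) (XT.nd (nat_lit 78) (nat_lit 0) (nat_lit 0) (XT.lf (nat_lit 0) (nat_lit 10880365207) (nat_lit 228) (nat_lit 15146113672) (nat_lit 76) (nat_lit 6917750779) (nat_lit 19) (nat_lit 5) (nat_lit 22) (nat_lit 5) (nat_lit 20) (nat_lit 4) (nat_lit 324) (nat_lit 257) (nat_lit 199)) (XT.lf (nat_lit 0) (nat_lit 18369565866) (nat_lit 228) (nat_lit 54248762) (nat_lit 76) (nat_lit 15897921209) (nat_lit 19) (nat_lit 5) (nat_lit 22) (nat_lit 5) (nat_lit 20) (nat_lit 4) (nat_lit 325) (nat_lit 257) (nat_lit 198))))) (XT.nd (nat_lit 234) (nat_lit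 76) (nat_lit 0) (XT.nd (nat_lit 78) (nat_lit 228) (nat_lit 0) (XT.lf (nat_lit 0) (nat_lit 16027064641) (nat_lit 76) (nat_lit 10316506151) (nat_lit 152) (nat_lit 9421254535) (nat_lit 18) (nat_lit 5) (nat_lit 19) (nat_lit 5) (nat_lit 20) (nat_lit 4) (nat_lit 326) (nat_lit 257) (nat_lit 197)) (XT.nd (nat_lit 78) (nat_lit 228) (nat_lit 0) (XT.lf (nat_lit 0) (nat_lit 32837919559) (nat_lit 76) (nat_lit 1836551660) (nat_lit 152) (nat_lit 2606869673) (nat_lit 18) (nat_lit 5) (nat_lit 19) (nat_lit 5) (nat_lit 20) (nat_lit 4) (nat_lit 327) (nat_lit 257) (nat_lit 196)) (XT.lf (nat_lit 0) (nat_lit 4600632428) (nat_lit 228) (nat_lit 27211518589) (nat_lit 76) (nat_lit 7056001235) (nat_lit 15) (nat_lit 5) (nat_lit 18) (nat_lit 5) (nat_lit 16) (nat_lit 4) (nat_lit 328) (nat_lit 257) (nat_lit 195)))) (XT.nd (nat_lit 156) (nat_lit 0) (nat_lit 0) (XT.nd (nat_lit 78) (nat_lit 76) (nat_lit 0) (XT.lf (nat_lit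 0) (nat_lit 12140025556) (nat_lit 228) (nat_lit 11995380382) (nat_lit 76) (nat_lit 16397376399) (nat_lit 15) (nat_lit 5) (nat_lit 18) (nat_lit 5) (nat_lit 16) (nat_lit 4) (nat_lit 329) (nat_lit 257) (nat_lit 194)) (XT.lf (nat_lit 0) (nat_lit 3991167872) (nat_lit 76) (nat_lit 16065679411) (nat_lit 152) (nat_lit 22223797517) (nat_lit 14) (nat_lit 5) (nat_lit 15) (nat_lit 5) (nat_lit 16) (nat_lit 4) (nat_lit 330) (nat_lit 257) (nat_lit 193))) (XT.nd (nat_lit 78) (nat_lit 0) (nat_lit 0) (XT.lf (nat_lit 0) (nat_lit 20961389986) (nat_lit 76) (nat_lit 7494862913) (nat_lit 152) (nat_lit 15657059147) (nat_lit 14) (nat_lit 5) (nat_lit 15) (nat_lit 5) (nat_lit 16) (nat_lit 4) (nat_lit 331) (nat_lit 257) (nat_lit 192)) (XT.lf (nat_lit 0) (nat_lit 37254830516) (nat_lit 152) (nat_lit 7335907256) (nat_lit 0) (nat_lit 1447512110) (nat_lit 14) (nat_lit 5) (nat_lit 16) (nat_lit 4) (nat_lit 14) (nat_lit 4)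 (nat_lit 332) (nat_lit 257) (nat_lit 191)))))) (XT.nd (nat_lit 468) (nat_lit 228) (nat_lit 0) (XT.nd (nat_lit 234) (nat_lit 76) (nat_lit 0) (XT.nd (nat_lit 78) (nat_lit 76) (nat_lit 0) (XT.lf (nat_lit 0) (nat_lit 9316142128) (nat_lit 76) (nat_lit 37308813476) (nat_lit 76) (nat_lit 1430543097) (nat_lit 13) (nat_lit 4) (nat_lit 14) (nat_lit 5) (nat_lit 14) (nat_lit 4) (nat_lit 333) (nat_lit 257) (nat_lit 190)) (XT.nd (nat_lit 78) (nat_lit 0) (nat_lit 0) (XT.lf (nat_lit 0) (nat_lit 6210616218) (nat_lit 152) (nat_lit 23338292761) (nat_lit 76) (nat_lit 20621597403) (nat_lit 12) (nat_lit 5) (nat_lit 14) (nat_lit 5) (nat_lit 13) (nat_lit 4) (nat_lit 334) (nat_lit 257) (nat_lit 189)) (XT.lf (nat_lit 0) (nat_lit 14173203612) (nat_lit 152) (nat_lit 7238595884) (nat_lit 76) (nat_lit 30979982499) (nat_lit 12) (nat_lit 5) (nat_lit 14) (nat_lit 5) (nat_lit 13) (nat_lit 4) (nat_lit 335) (nat_lit 257) (nat_lit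 188)))) (XT.nd (nat_lit 78) (nat_lit 0) (nat_lit 0) (XT.lf (nat_lit 0) (nat_lit 9803111949) (nat_lit 76) (nat_lit 12795214231) (nat_lit 152) (nat_lit 32123873639) (nat_lit 11) (nat_lit 5) (nat_lit 12) (nat_lit 5) (nat_lit 13) (nat_lit 4) (nat_lit 336) (nat_lit 257) (nat_lit 187)) (XT.nd (nat_lit 78) (nat_lit 0) (nat_lit 0) (XT.lf (nat_lit 0) (nat_lit 27795458206) (nat_lit 76) (nat_lit 3694847590) (nat_lit 152) (nat_lit 25677474815) (nat_lit 11) (nat_lit 5) (nat_lit 12) (nat_lit 5) (nat_lit 13) (nat_lit 4) (nat_lit 337) (nat_lit 257) (nat_lit 186)) (XT.lf (nat_lit 0) (nat_lit 40855464414) (nat_lit 152) (nat_lit 13155373826) (nat_lit 0) (nat_lit 5723954424) (nat_lit 11) (nat_lit 5) (nat_lit 13) (nat_lit 4) (nat_lit 11) (nat_lit 4) (nat_lit 338) (nat_lit 257) (nat_lit 185))))) (XT.nd (nat_lit 234) (nat_lit 76) (nat_lit 0) (XT.nd (nat_lit 78) (nat_lit 76) (nat_lit 0) (XT.lf (nat_lit 0) (nat_lit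 3862092441) (nat_lit 76) (nat_lit 46874772926) (nat_lit 76) (nat_lit 11691859582) (nat_lit 10) (nat_lit 4) (nat_lit 11) (nat_lit 5) (nat_lit 11) (nat_lit 4) (nat_lit 339) (nat_lit 257) (nat_lit 184)) (XT.nd (nat_lit 78) (nat_lit 76) (nat_lit 0) (XT.lf (nat_lit 0) (nat_lit 21958327937) (nat_lit 76) (nat_lit 39263804833) (nat_lit 76) (nat_lit 4031935914) (nat_lit 10) (nat_lit 4) (nat_lit 11) (nat_lit 5) (nat_lit 11) (nat_lit 4) (nat_lit 340) (nat_lit 257) (nat_lit 183)) (XT.lf (nat_lit 0) (nat_lit 3908059147) (nat_lit 152) (nat_lit 27345133206) (nat_lit 76) (nat_lit 36967078321) (nat_lit 9) (nat_lit 5) (nat_lit 11) (nat_lit 5) (nat_lit 10) (nat_lit 4) (nat_lit 341) (nat_lit 257) (nat_lit 182)))) (XT.nd (nat_lit 156) (nat_lit 0) (nat_lit 0) (XT.nd (nat_lit 78) (nat_lit 76) (nat_lit 0) (XT.lf (nat_lit 0) (nat_lit 12138960541) (nat_lit 152) (nat_lit 10680807526) (nat_lit 76) (nat_lit 48514505982)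 (nat_lit 9) (nat_lit 5) (nat_lit 11) (nat_lit 5) (nat_lit 10) (nat_lit 4) (nat_lit 342) (nat_lit 257) (nat_lit 181)) (XT.lf (nat_lit 0) (nat_lit 6910519825) (nat_lit 76) (nat_lit 13914951562) (nat_lit 152) (nat_lit 53777191593) (nat_lit 8) (nat_lit 5) (nat_lit 9) (nat_lit 5) (nat_lit 10) (nat_lit 4) (nat_lit 343) (nat_lit 257) (nat_lit 180))) (XT.nd (nat_lit 78) (nat_lit 0) (nat_lit 0) (XT.lf (nat_lit 0) (nat_lit 25564724349) (nat_lit 76) (nat_lit 4469850682) (nat_lit 152) (nat_lit 47997255281) (nat_lit 8) (nat_lit 5) (nat_lit 9) (nat_lit 5) (nat_lit 10) (nat_lit 4) (nat_lit 344) (nat_lit 257) (nat_lit 179)) (XT.lf (nat_lit 0) (nat_lit 39735682203) (nat_lit 152) (nat_lit 36571628431) (nat_lit 0) (nat_lit 5324205563) (nat_lit 8) (nat_lit 5) (nat_lit 10) (nat_lit 4) (nat_lit 8) (nat_lit 4) (nat_lit 345) (nat_lit 257) (nat_lit 178))))))) (XT.nd (nat_lit 1014) (nat_lit 76) (nat_lit 0) (XT.nd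 (nat_lit 468) (nat_lit 76) (nat_lit 0) (XT.nd (nat_lit 234) (nat_lit 76) (nat_lit 0) (XT.nd (nat_lit 78) (nat_lit 76) (nat_lit 0) (XT.lf (nat_lit 0) (nat_lit 49947134870) (nat_lit 152) (nat_lit 19963108276) (nat_lit 0) (nat_lit 15500190848) (nat_lit 8) (nat_lit 5) (nat_lit 10) (nat_lit 4) (nat_lit 8) (nat_lit 4) (nat_lit 346) (nat_lit 257) (nat_lit 177)) (XT.nd (nat_lit 78) (nat_lit 76) (nat_lit 0) (XT.lf (nat_lit 0) (nat_lit 60650279076) (nat_lit 152) (nat_lit 2559034466) (nat_lit 0) (nat_lit 26169556595) (nat_lit 8) (nat_lit 5) (nat_lit 10) (nat_lit 4) (nat_lit 8) (nat_lit 4) (nat_lit 347) (nat_lit 257) (nat_lit 176)) (XT.lf (nat_lit 0) (nat_lit 15994134443) (nat_lit 76) (nat_lit 56030209459) (nat_lit 76) (nat_lit 21517317016) (nat_lit 7) (nat_lit 4) (nat_lit 8) (nat_lit 5) (nat_lit 8) (nat_lit 4) (nat_lit 348) (nat_lit 257) (nat_lit 175)))) (XT.nd (nat_lit 78) (nat_lit 76) (nat_lit 0)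 (XT.lf (nat_lit 0) (nat_lit 35496178337) (nat_lit 76) (nat_lit 48479840824) (nat_lit 76) (nat_lit 13936310323) (nat_lit 7) (nat_lit 4) (nat_lit 8) (nat_lit 5) (nat_lit 8) (nat_lit 4) (nat_lit 349) (nat_lit 257) (nat_lit 174)) (XT.nd (nat_lit 78) (nat_lit 76) (nat_lit 0) (XT.lf (nat_lit 0) (nat_lit 55942600851) (nat_lit 76) (nat_lit 40566071800) (nat_lit 76) (nat_lit 5993362195) (nat_lit 7) (nat_lit 4) (nat_lit 8) (nat_lit 5) (nat_lit 8) (nat_lit 4) (nat_lit 350) (nat_lit 257) (nat_lit 173)) (XT.lf (nat_lit 0) (nat_lit 2284963884) (nat_lit 152) (nat_lit 29962022540) (nat_lit 76) (nat_lit 75074046402) (nat_lit 6) (nat_lit 5) (nat_lit 8) (nat_lit 5) (nat_lit 7) (nat_lit 4) (nat_lit 351) (nat_lit 257) (nat_lit 172))))) (XT.nd (nat_lit 234) (nat_lit 0) (nat_lit 0) (XT.nd (nat_lit 78) (nat_lit 76) (nat_lit 0) (XT.lf (nat_lit 0) (nat_lit 10839191122) (nat_lit 152) (nat_lit 12623407555) (nat_lit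 76) (nat_lit 88917028299) (nat_lit 6) (nat_lit 5) (nat_lit 8) (nat_lit 5) (nat_lit 7) (nat_lit 4) (nat_lit 352) (nat_lit 257) (nat_lit 171)) (XT.nd (nat_lit 78) (nat_lit 0) (nat_lit 0) (XT.lf (nat_lit 0) (nat_lit 5665866706) (nat_lit 76) (nat_lit 14195235878) (nat_lit 152) (nat_lit 97828853425) (nat_lit 5) (nat_lit 5) (nat_lit 6) (nat_lit 5) (nat_lit 7) (nat_lit 4) (nat_lit 353) (nat_lit 257) (nat_lit 170)) (XT.lf (nat_lit 0) (nat_lit 25107332992) (nat_lit 76) (nat_lit 4342672058) (nat_lit 152) (nat_lit 93812323736) (nat_lit 5) (nat_lit 5) (nat_lit 6) (nat_lit 5) (nat_lit 7) (nat_lit 4) (nat_lit 354) (nat_lit 257) (nat_lit 169)))) (XT.nd (nat_lit 156) (nat_lit 0) (nat_lit 0) (XT.nd (nat_lit 78) (nat_lit 0) (nat_lit 0) (XT.lf (nat_lit 0) (nat_lit 39562560265) (nat_lit 152) (nat_lit 83675265604) (nat_lit 0) (nat_lit 5874172060) (nat_lit 5) (nat_lit 5) (nat_lit 7) (nat_lit 4) (nat_lit 5) (nat_lit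 4) (nat_lit 355) (nat_lit 257) (nat_lit 168)) (XT.lf (nat_lit 0) (nat_lit 50211725103) (nat_lit 152) (nat_lit 68539302546) (nat_lit 0) (nat_lit 16502197192) (nat_lit 5) (nat_lit 5) (nat_lit 7) (nat_lit 4) (nat_lit 5) (nat_lit 4) (nat_lit 356) (nat_lit 257) (nat_lit 167))) (XT.nd (nat_lit 78) (nat_lit 0) (nat_lit 0) (XT.lf (nat_lit 0) (nat_lit 61381110298) (nat_lit 152) (nat_lit 52669324193) (nat_lit 0) (nat_lit 27651449335) (nat_lit 5) (nat_lit 5) (nat_lit 7) (nat_lit 4) (nat_lit 5) (nat_lit 4) (nat_lit 357) (nat_lit 257) (nat_lit 166)) (XT.lf (nat_lit 0) (nat_lit 73097309624) (nat_lit 152) (nat_lit 36027544883) (nat_lit 0) (nat_lit 39348474325) (nat_lit 5) (nat_lit 5) (nat_lit 7) (nat_lit 4) (nat_lit 5) (nat_lit 4) (nat_lit 358) (nat_lit 257) (nat_lit 165)))))) (XT.nd (nat_lit 33540) (nat_lit 0) (nat_lit 16948) (XT.nd (nat_lit 33228) (nat_lit 0) (nat_lit 22116) (XT.nd (nat_lit 78) (nat_lit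 76) (nat_lit 0) (XT.lf (nat_lit 0) (nat_lit 85388218793) (nat_lit 152) (nat_lit 18574341330) (nat_lit 0) (nat_lit 51621122223) (nat_lit 5) (nat_lit 5) (nat_lit 7) (nat_lit 4) (nat_lit 5) (nat_lit 4) (nat_lit 359) (nat_lit 257) (nat_lit 164)) (XT.nd (nat_lit 78) (nat_lit 76) (nat_lit 0) (XT.lf (nat_lit 0) (nat_lit 98283101876) (nat_lit 152) (nat_lit 268158289) (nat_lit 0) (nat_lit 64498613618) (nat_lit 5) (nat_lit 5) (nat_lit 7) (nat_lit 4) (nat_lit 5) (nat_lit 4) (nat_lit 360) (nat_lit 257) (nat_lit 163)) (XT.lf (nat_lit 0) (nat_lit 19311425865) (nat_lit 76) (nat_lit 92686868348) (nat_lit 76) (nat_lit 58885816578) (nat_lit 4) (nat_lit 4) (nat_lit 5) (nat_lit 5) (nat_lit 5) (nat_lit 4) (nat_lit 361) (nat_lit 257) (nat_lit 162)))) (XT.nd (nat_lit 156) (nat_lit 456) (nat_lit 0) (XT.nd (nat_lit 78) (nat_lit 380) (nat_lit 0) (XT.lf (nat_lit 0) (nat_lit 812307492) (nat_lit 228) (nat_lit 1216489110)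 (nat_lit 228) (nat_lit 1216489110) (nat_lit 306) (nat_lit 4) (nat_lit 309) (nat_lit 5) (nat_lit 309) (nat_lit 4) (nat_lit 264) (nat_lit 258) (nat_lit 258)) (XT.lf (nat_lit 0) (nat_lit 802269927) (nat_lit 304) (nat_lit 1633530634) (nat_lit 380) (nat_lit 4083451104) (nat_lit 301) (nat_lit 5) (nat_lit 305) (nat_lit 5) (nat_lit 306) (nat_lit 4) (nat_lit 265) (nat_lit 258) (nat_lit 257))) (XT.nd (nat_lit 78) (nat_lit 0) (nat_lit 0) (XT.lf (nat_lit 0) (nat_lit 81626218) (nat_lit 380) (nat_lit 605527577) (nat_lit 456) (nat_lit 5869180181) (nat_lit 295) (nat_lit 5) (nat_lit 300) (nat_lit 5) (nat_lit 301) (nat_lit 5) (nat_lit 266) (nat_lit 258) (nat_lit 256)) (XT.lf (nat_lit 0) (nat_lit 5394773112) (nat_lit 456) (nat_lit 548452014) (nat_lit 76) (nat_lit 657975613) (nat_lit 295) (nat_lit 5) (nat_lit 301) (nat_lit 5) (nat_lit 296) (nat_lit 4) (nat_lit 267) (nat_lit 258) (nat_lit 255))))) (XT.nd (nat_lit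 234) (nat_lit 3420) (nat_lit 0) (XT.nd (nat_lit 78) (nat_lit 1216) (nat_lit 0) (XT.lf (nat_lit 0) (nat_lit 3406225509) (nat_lit 532) (nat_lit 1100299478) (nat_lit 76) (nat_lit 2147642915) (nat_lit 288) (nat_lit 5) (nat_lit 295) (nat_lit 5) (nat_lit 289) (nat_lit 5) (nat_lit 268) (nat_lit 258) (nat_lit 254)) (XT.nd (nat_lit 78) (nat_lit 608) (nat_lit 0) (XT.lf (nat_lit 0) (nat_lit 1278046533) (nat_lit 608) (nat_lit 1566116717) (nat_lit 76) (nat_lit 3871590353) (nat_lit 280) (nat_lit 5) (nat_lit 288) (nat_lit 5) (nat_lit 281) (nat_lit 5) (nat_lit 269) (nat_lit 258) (nat_lit 253)) (XT.lf (nat_lit 0) (nat_lit 4827040966) (nat_lit 608) (nat_lit 941723369) (nat_lit 684) (nat_lit 1017035522) (nat_lit 272) (nat_lit 5) (nat_lit 280) (nat_lit 5) (nat_lit 281) (nat_lit 5) (nat_lit 270) (nat_lit 258) (nat_lit 252)))) (XT.nd (nat_lit 156) (nat_lit 1824) (nat_lit 0) (XT.nd (nat_lit 78) (nat_lit 836) (nat_lit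 0) (XT.lf (nat_lit 0) (nat_lit 3380398584) (nat_lit 760) (nat_lit 2297076593) (nat_lit 76) (nat_lit 1186509511) (nat_lit 262) (nat_lit 5) (nat_lit 272) (nat_lit 5) (nat_lit 263) (nat_lit 5) (nat_lit 271) (nat_lit 258) (nat_lit 251)) (XT.lf (nat_lit 0) (nat_lit 845918574) (nat_lit 836) (nat_lit 2571202225) (nat_lit 76) (nat_lit 3533743851) (nat_lit 251) (nat_lit 5) (nat_lit 262) (nat_lit 5) (nat_lit 252) (nat_lit 5) (nat_lit 272) (nat_lit 258) (nat_lit 250))) (XT.nd (nat_lit 78) (nat_lit 988) (nat_lit 0) (XT.lf (nat_lit 0) (nat_lit 4253224959) (nat_lit 836) (nat_lit 903758743) (nat_lit 912) (nat_lit 1889374820) (nat_lit 240) (nat_lit 5) (nat_lit 251) (nat_lit 5) (nat_lit 252) (nat_lit 5) (nat_lit 273) (nat_lit 258) (nat_lit 249)) (XT.lf (nat_lit 0) (nat_lit 2350616070) (nat_lit 988) (nat_lit 2975416680) (nat_lit 76) (nat_lit 1824355359) (nat_lit 227) (nat_lit 5) (nat_lit 240) (nat_lit 5) (nat_lit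 228) (nat_lit 5) (nat_lit 274) (nat_lit 258) (nat_lit 248))))))))
noncomputable def xc46 : XT := (XT.nd (nat_lit 2028) (nat_lit 3192) (nat_lit 0) (XT.nd (nat_lit 1014) (nat_lit 4104) (nat_lit 0) (XT.nd (nat_lit 468) (nat_lit 3420) (nat_lit 0) (XT.nd (nat_lit 234) (nat_lit 1824) (nat_lit 0) (XT.nd (nat_lit 78) (nat_lit 2356) (nat_lit 0) (XT.lf (nat_lit 0) (nat_lit 4151506884) (nat_lit 988) (nat_lit 2477724753) (nat_lit 1064) (nat_lit 634223929) (nat_lit 214) (nat_lit 5) (nat_lit 227) (nat_lit 5) (nat_lit 228) (nat_lit 5) (nat_lit 275) (nat_lit 258) (nat_lit 247)) (XT.nd (nat_lit 78) (nat_lit 1216) (nat_lit 0) (XT.lf (nat_lit 0) (nat_lit 3537023364) (nat_lit 1140) (nat_lit 3221909169) (nat_lit 76) (nat_lit 626394421) (nat_lit 199) (nat_lit 5) (nat_lit 214) (nat_lit 5) (nat_lit 200) (nat_lit 5) (nat_lit 276) (nat_lit 258) (nat_lit 246)) (XT.lf (nat_lit 0) (nat_lit 281090410) (nat_lit 1216) (nat_lit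 3305454776) (nat_lit 76) (nat_lit 3929817838) (nat_lit 183) (nat_lit 5) (nat_lit 199) (nat_lit 5) (nat_lit 184) (nat_lit 5) (nat_lit 277) (nat_lit 258) (nat_lit 245)))) (XT.nd (nat_lit 78) (nat_lit 1216) (nat_lit 0) (XT.lf (nat_lit 0) (nat_lit 4283511936) (nat_lit 608) (nat_lit 136160636) (nat_lit 684) (nat_lit 3236966178) (nat_lit 175) (nat_lit 5) (nat_lit 183) (nat_lit 5) (nat_lit 184) (nat_lit 5) (nat_lit 278) (nat_lit 258) (nat_lit 244)) (XT.nd (nat_lit 78) (nat_lit 532) (nat_lit 0) (XT.lf (nat_lit 0) (nat_lit 865755519) (nat_lit 684) (nat_lit 3436330231) (nat_lit 76) (nat_lit 3504145098) (nat_lit 166) (nat_lit 5) (nat_lit 175) (nat_lit 5) (nat_lit 167) (nat_lit 5) (nat_lit 279) (nat_lit 258) (nat_lit 243)) (XT.lf (nat_lit 0) (nat_lit 4471753526) (nat_lit 532) (nat_lit 534303025) (nat_lit 608) (nat_lit 2959567164) (nat_lit 159) (nat_lit 5) (nat_lit 166) (nat_lit 5) (nat_lit 167) (nat_lit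 5) (nat_lit 280) (nat_lit 258) (nat_lit 242))))) (XT.nd (nat_lit 234) (nat_lit 1748) (nat_lit 0) (XT.nd (nat_lit 78) (nat_lit 1064) (nat_lit 0) (XT.lf (nat_lit 0) (nat_lit 1134456681) (nat_lit 608) (nat_lit 3564268528) (nat_lit 76) (nat_lit 3436016933) (nat_lit 151) (nat_lit 5) (nat_lit 159) (nat_lit 5) (nat_lit 152) (nat_lit 5) (nat_lit 281) (nat_lit 258) (nat_lit 241)) (XT.nd (nat_lit 78) (nat_lit 608) (nat_lit 0) (XT.lf (nat_lit 0) (nat_lit 4667735453) (nat_lit 456) (nat_lit 622088810) (nat_lit 532) (nat_lit 3024310367) (nat_lit 145) (nat_lit 5) (nat_lit 151) (nat_lit 5) (nat_lit 152) (nat_lit 5) (nat_lit 282) (nat_lit 258) (nat_lit 240)) (XT.lf (nat_lit 0) (nat_lit 1082097549) (nat_lit 608) (nat_lit 3760097557) (nat_lit 76) (nat_lit 3661562561) (nat_lit 137) (nat_lit 5) (nat_lit 145) (nat_lit 5) (nat_lit 138) (nat_lit 5) (nat_lit 283) (nat_lit 258) (nat_lit 239)))) (XT.nd (nat_lit 156)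 (nat_lit 760) (nat_lit 0) (XT.nd (nat_lit 78) (nat_lit 532) (nat_lit 0) (XT.lf (nat_lit 0) (nat_lit 4799063730) (nat_lit 456) (nat_lit 464199449) (nat_lit 532) (nat_lit 3440945783) (nat_lit 131) (nat_lit 5) (nat_lit 137) (nat_lit 5) (nat_lit 138) (nat_lit 5) (nat_lit 284) (nat_lit 258) (nat_lit 238)) (XT.lf (nat_lit 0) (nat_lit 695741694) (nat_lit 532) (nat_lit 4101662634) (nat_lit 76) (nat_lit 4118114327) (nat_lit 124) (nat_lit 5) (nat_lit 131) (nat_lit 5) (nat_lit 125) (nat_lit 5) (nat_lit 285) (nat_lit 258) (nat_lit 237))) (XT.nd (nat_lit 78) (nat_lit 380) (nat_lit 0) (XT.lf (nat_lit 0) (nat_lit 4785607736) (nat_lit 380) (nat_lit 125041340) (nat_lit 456) (nat_lit 4227626695) (nat_lit 119) (nat_lit 5) (nat_lit 124) (nat_lit 5) (nat_lit 125) (nat_lit 5) (nat_lit 286) (nat_lit 258) (nat_lit 236)) (XT.lf (nat_lit 0) (nat_lit 4696173499) (nat_lit 380) (nat_lit 4629567728) (nat_lit 456) (nat_lit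 46918227) (nat_lit 114) (nat_lit 5) (nat_lit 119) (nat_lit 5) (nat_lit 120) (nat_lit 5) (nat_lit 287) (nat_lit 258) (nat_lit 235)))))) (XT.nd (nat_lit 468) (nat_lit 1824) (nat_lit 0) (XT.nd (nat_lit 234) (nat_lit 1064) (nat_lit 0) (XT.nd (nat_lit 78) (nat_lit 760) (nat_lit 0) (XT.lf (nat_lit 0) (nat_lit 4210717516) (nat_lit 456) (nat_lit 5085178071) (nat_lit 76) (nat_lit 323194218) (nat_lit 108) (nat_lit 5) (nat_lit 114) (nat_lit 5) (nat_lit 109) (nat_lit 5) (nat_lit 288) (nat_lit 258) (nat_lit 234)) (XT.nd (nat_lit 78) (nat_lit 380) (nat_lit 0) (XT.lf (nat_lit 0) (nat_lit 4284452267) (nat_lit 380) (nat_lit 4396352190) (nat_lit 456) (nat_lit 1197158459) (nat_lit 103) (nat_lit 5) (nat_lit 108) (nat_lit 5) (nat_lit 109) (nat_lit 5) (nat_lit 289) (nat_lit 258) (nat_lit 233)) (XT.lf (nat_lit 0) (nat_lit 3127902994) (nat_lit 380) (nat_lit 6207349552) (nat_lit 76) (nat_lit 814750867) (nat_lit 98)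 (nat_lit 5) (nat_lit 103) (nat_lit 5) (nat_lit 99) (nat_lit 5) (nat_lit 290) (nat_lit 258) (nat_lit 232)))) (XT.nd (nat_lit 78) (nat_lit 684) (nat_lit 0) (XT.lf (nat_lit 0) (nat_lit 3475530854) (nat_lit 380) (nat_lit 4176740742) (nat_lit 456) (nat_lit 2782917653) (nat_lit 93) (nat_lit 5) (nat_lit 98) (nat_lit 5) (nat_lit 99) (nat_lit 5) (nat_lit 291) (nat_lit 258) (nat_lit 231)) (XT.nd (nat_lit 78) (nat_lit 304) (nat_lit 0) (XT.lf (nat_lit 0) (nat_lit 1615492236) (nat_lit 380) (nat_lit 7839661850) (nat_lit 76) (nat_lit 1279727832) (nat_lit 88) (nat_lit 5) (nat_lit 93) (nat_lit 5) (nat_lit 89) (nat_lit 5) (nat_lit 292) (nat_lit 258) (nat_lit 230)) (XT.lf (nat_lit 0) (nat_lit 2141831153) (nat_lit 304) (nat_lit 4048779551) (nat_lit 380) (nat_lit 4857809001) (nat_lit 84) (nat_lit 5) (nat_lit 88) (nat_lit 5) (nat_lit 89) (nat_lit 5) (nat_lit 293) (nat_lit 258) (nat_lit 229))))) (XT.nd (nat_lit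 234) (nat_lit 1140) (nat_lit 0) (XT.nd (nat_lit 78) (nat_lit 380) (nat_lit 0) (XT.lf (nat_lit 0) (nat_lit 1250798884) (nat_lit 304) (nat_lit 9735298380) (nat_lit 380) (nat_lit 391900548) (nat_lit 80) (nat_lit 5) (nat_lit 84) (nat_lit 5) (nat_lit 85) (nat_lit 5) (nat_lit 294) (nat_lit 258) (nat_lit 228)) (XT.nd (nat_lit 78) (nat_lit 0) (nat_lit 0) (XT.lf (nat_lit 0) (nat_lit 134680371) (nat_lit 304) (nat_lit 4098758494) (nat_lit 380) (nat_lit 7488880337) (nat_lit 75) (nat_lit 5) (nat_lit 79) (nat_lit 5) (nat_lit 80) (nat_lit 5) (nat_lit 295) (nat_lit 258) (nat_lit 227)) (XT.lf (nat_lit 0) (nat_lit 9093462969) (nat_lit 380) (nat_lit 1145855910) (nat_lit 76) (nat_lit 1844174141) (nat_lit 75) (nat_lit 5) (nat_lit 80) (nat_lit 5) (nat_lit 76) (nat_lit 5) (nat_lit 296) (nat_lit 258) (nat_lit 226)))) (XT.nd (nat_lit 156) (nat_lit 532) (nat_lit 0) (XT.nd (nat_lit 78) (nat_lit 304) (nat_lit 0) (XT.lf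 (nat_lit 0) (nat_lit 1729795957) (nat_lit 304) (nat_lit 2666898470) (nat_lit 76) (nat_lit 8064726196) (nat_lit 71) (nat_lit 5) (nat_lit 75) (nat_lit 5) (nat_lit 72) (nat_lit 5) (nat_lit 297) (nat_lit 258) (nat_lit 225)) (XT.lf (nat_lit 0) (nat_lit 6631187713) (nat_lit 380) (nat_lit 4446838162) (nat_lit 76) (nat_lit 1779194912) (nat_lit 67) (nat_lit 5) (nat_lit 72) (nat_lit 5) (nat_lit 68) (nat_lit 5) (nat_lit 298) (nat_lit 258) (nat_lit 224))) (XT.nd (nat_lit 78) (nat_lit 304) (nat_lit 0) (XT.lf (nat_lit 0) (nat_lit 6760547775) (nat_lit 228) (nat_lit 5053673938) (nat_lit 304) (nat_lit 1457574634) (nat_lit 64) (nat_lit 5) (nat_lit 67) (nat_lit 5) (nat_lit 68) (nat_lit 5) (nat_lit 299) (nat_lit 258) (nat_lit 223)) (XT.lf (nat_lit 0) (nat_lit 3487459857) (nat_lit 304) (nat_lit 8893885763) (nat_lit 76) (nat_lit 1324585478) (nat_lit 60) (nat_lit 5) (nat_lit 64) (nat_lit 5) (nat_lit 61) (nat_lit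 5) (nat_lit 300) (nat_lit 258) (nat_lit 222))))))) (XT.nd (nat_lit 1014) (nat_lit 1216) (nat_lit 0) (XT.nd (nat_lit 468) (nat_lit 836) (nat_lit 0) (XT.nd (nat_lit 234) (nat_lit 608) (nat_lit 0) (XT.nd (nat_lit 78) (nat_lit 304) (nat_lit 0) (XT.lf (nat_lit 0) (nat_lit 2512640567) (nat_lit 228) (nat_lit 6184698358) (nat_lit 304) (nat_lit 5462641296) (nat_lit 57) (nat_lit 5) (nat_lit 60) (nat_lit 5) (nat_lit 61) (nat_lit 5) (nat_lit 301) (nat_lit 258) (nat_lit 221)) (XT.nd (nat_lit 78) (nat_lit 304) (nat_lit 0) (XT.lf (nat_lit 0) (nat_lit 14170540490) (nat_lit 304) (nat_lit 108556067) (nat_lit 76) (nat_lit 357619633) (nat_lit 57) (nat_lit 5) (nat_lit 61) (nat_lit 5) (nat_lit 58) (nat_lit 5) (nat_lit 302) (nat_lit 258) (nat_lit 220)) (XT.lf (nat_lit 0) (nat_lit 4777517176) (nat_lit 304) (nat_lit 3140768530) (nat_lit 76) (nat_lit 7214968362) (nat_lit 53) (nat_lit 5) (nat_lit 57) (nat_lit 5) (nat_lit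 54) (nat_lit 5) (nat_lit 303) (nat_lit 258) (nat_lit 219)))) (XT.nd (nat_lit 78) (nat_lit 456) (nat_lit 0) (XT.lf (nat_lit 0) (nat_lit 9082001637) (nat_lit 152) (nat_lit 1193961982) (nat_lit 228) (nat_lit 5378511427) (nat_lit 51) (nat_lit 5) (nat_lit 53) (nat_lit 5) (nat_lit 54) (nat_lit 5) (nat_lit 304) (nat_lit 258) (nat_lit 218)) (XT.nd (nat_lit 78) (nat_lit 228) (nat_lit 0) (XT.lf (nat_lit 0) (nat_lit 5700342517) (nat_lit 228) (nat_lit 10408878369) (nat_lit 304) (nat_lit 90797608) (nat_lit 48) (nat_lit 5) (nat_lit 51) (nat_lit 5) (nat_lit 52) (nat_lit 5) (nat_lit 305) (nat_lit 258) (nat_lit 217)) (XT.lf (nat_lit 0) (nat_lit 1790298518) (nat_lit 152) (nat_lit 3579949897) (nat_lit 228) (nat_lit 11400603992) (nat_lit 45) (nat_lit 5) (nat_lit 47) (nat_lit 5) (nat_lit 48) (nat_lit 5) (nat_lit 306) (nat_lit 258) (nat_lit 216))))) (XT.nd (nat_lit 234) (nat_lit 380) (nat_lit 0) (XT.nd (nat_lit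 78) (nat_lit 456) (nat_lit 0) (XT.lf (nat_lit 0) (nat_lit 11166275268) (nat_lit 228) (nat_lit 2620206634) (nat_lit 76) (nat_lit 3581856094) (nat_lit 45) (nat_lit 5) (nat_lit 48) (nat_lit 5) (nat_lit 46) (nat_lit 5) (nat_lit 307) (nat_lit 258) (nat_lit 215)) (XT.nd (nat_lit 78) (nat_lit 228) (nat_lit 0) (XT.lf (nat_lit 0) (nat_lit 10400300285) (nat_lit 228) (nat_lit 6911834810) (nat_lit 304) (nat_lit 681810526) (nat_lit 42) (nat_lit 5) (nat_lit 45) (nat_lit 5) (nat_lit 46) (nat_lit 5) (nat_lit 308) (nat_lit 258) (nat_lit 214)) (XT.lf (nat_lit 0) (nat_lit 5023260548) (nat_lit 228) (nat_lit 13242933672) (nat_lit 76) (nat_lit 382951316) (nat_lit 39) (nat_lit 5) (nat_lit 42) (nat_lit 5) (nat_lit 40) (nat_lit 5) (nat_lit 309) (nat_lit 258) (nat_lit 213)))) (XT.nd (nat_lit 156) (nat_lit 228) (nat_lit 0) (XT.nd (nat_lit 78) (nat_lit 152) (nat_lit 0) (XT.lf (nat_lit 0) (nat_lit 11075875146) (nat_lit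 228) (nat_lit 318290466) (nat_lit 76) (nat_lit 7940488483) (nat_lit 39) (nat_lit 5) (nat_lit 42) (nat_lit 5) (nat_lit 40) (nat_lit 5) (nat_lit 310) (nat_lit 258) (nat_lit 212)) (XT.lf (nat_lit 0) (nat_lit 13398943273) (nat_lit 152) (nat_lit 4091979006) (nat_lit 228) (nat_lit 2561762597) (nat_lit 37) (nat_lit 5) (nat_lit 39) (nat_lit 5) (nat_lit 40) (nat_lit 5) (nat_lit 311) (nat_lit 258) (nat_lit 211))) (XT.nd (nat_lit 78) (nat_lit 0) (nat_lit 0) (XT.lf (nat_lit 0) (nat_lit 3391358465) (nat_lit 228) (nat_lit 13848002890) (nat_lit 76) (nat_lit 3565167554) (nat_lit 34) (nat_lit 5) (nat_lit 37) (nat_lit 5) (nat_lit 35) (nat_lit 5) (nat_lit 312) (nat_lit 258) (nat_lit 210)) (XT.lf (nat_lit 0) (nat_lit 9634363174) (nat_lit 228) (nat_lit 384902956) (nat_lit 76) (nat_lit 11572617804) (nat_lit 34) (nat_lit 5) (nat_lit 37) (nat_lit 5) (nat_lit 35) (nat_lit 5) (nat_lit 313) (nat_lit 258) (nat_lit 209))))))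 (XT.nd (nat_lit 546) (nat_lit 380) (nat_lit 0) (XT.nd (nat_lit 234) (nat_lit 456) (nat_lit 0) (XT.nd (nat_lit 78) (nat_lit 228) (nat_lit 0) (XT.lf (nat_lit 0) (nat_lit 13916719866) (nat_lit 152) (nat_lit 2343947963) (nat_lit 228) (nat_lit 6155838648) (nat_lit 32) (nat_lit 5) (nat_lit 34) (nat_lit 5) (nat_lit 35) (nat_lit 5) (nat_lit 314) (nat_lit 258) (nat_lit 208)) (XT.nd (nat_lit 78) (nat_lit 76) (nat_lit 0) (XT.lf (nat_lit 0) (nat_lit 5609106849) (nat_lit 152) (nat_lit 17660993501) (nat_lit 228) (nat_lit 10738047) (nat_lit 30) (nat_lit 5) (nat_lit 32) (nat_lit 5) (nat_lit 33) (nat_lit 4) (nat_lit 315) (nat_lit 258) (nat_lit 207)) (XT.lf (nat_lit 0) (nat_lit 6368210687) (nat_lit 228) (nat_lit 3773958554) (nat_lit 76) (nat_lit 14042821449) (nat_lit 29) (nat_lit 5) (nat_lit 32) (nat_lit 5) (nat_lit 30) (nat_lit 5) (nat_lit 316) (nat_lit 258) (nat_lit 206)))) (XT.nd (nat_lit 156) (nat_lit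 228) (nat_lit 0) (XT.nd (nat_lit 78) (nat_lit 76) (nat_lit 0) (XT.lf (nat_lit 0) (nat_lit 10934036201) (nat_lit 152) (nat_lit 2180069677) (nat_lit 228) (nat_lit 12018823630) (nat_lit 27) (nat_lit 5) (nat_lit 29) (nat_lit 5) (nat_lit 30) (nat_lit 5) (nat_lit 317) (nat_lit 258) (nat_lit 205)) (XT.lf (nat_lit 0) (nat_lit 176437166) (nat_lit 76) (nat_lit 20065720356) (nat_lit 152) (nat_lit 5884789259) (nat_lit 26) (nat_lit 5) (nat_lit 27) (nat_lit 5) (nat_lit 28) (nat_lit 4) (nat_lit 318) (nat_lit 258) (nat_lit 204))) (XT.nd (nat_lit 78) (nat_lit 152) (nat_lit 0) (XT.lf (nat_lit 0) (nat_lit 660422691) (nat_lit 152) (nat_lit 11722577625) (nat_lit 76) (nat_lit 14784069848) (nat_lit 25) (nat_lit 5) (nat_lit 27) (nat_lit 5) (nat_lit 26) (nat_lit 5) (nat_lit 319) (nat_lit 258) (nat_lit 203)) (XT.lf (nat_lit 0) (nat_lit 3128156260) (nat_lit 152) (nat_lit 4262527109) (nat_lit 228) (nat_lit 20867407650)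 (nat_lit 23) (nat_lit 5) (nat_lit 25) (nat_lit 5) (nat_lit 26) (nat_lit 5) (nat_lit 320) (nat_lit 258) (nat_lit 202))))) (XT.nd (nat_lit 234) (nat_lit 304) (nat_lit 0) (XT.nd (nat_lit 78) (nat_lit 76) (nat_lit 0) (XT.lf (nat_lit 0) (nat_lit 14569865363) (nat_lit 228) (nat_lit 10564648589) (nat_lit 76) (nat_lit 4265799664) (nat_lit 23) (nat_lit 5) (nat_lit 26) (nat_lit 5) (nat_lit 24) (nat_lit 4) (nat_lit 321) (nat_lit 258) (nat_lit 201)) (XT.nd (nat_lit 78) (nat_lit 0) (nat_lit 0) (XT.lf (nat_lit 0) (nat_lit 4692865846) (nat_lit 76) (nat_lit 17455228328) (nat_lit 152) (nat_lit 8450372396) (nat_lit 22) (nat_lit 5) (nat_lit 23) (nat_lit 5) (nat_lit 24) (nat_lit 4) (nat_lit 322) (nat_lit 258) (nat_lit 200)) (XT.lf (nat_lit 0) (nat_lit 20851862748) (nat_lit 76) (nat_lit 9315577801) (nat_lit 152) (nat_lit 1687241255) (nat_lit 22) (nat_lit 5) (nat_lit 23) (nat_lit 5) (nat_lit 24) (nat_lit 4) (nat_lit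 323) (nat_lit 258) (nat_lit 199)))) (XT.nd (nat_lit 156) (nat_lit 76) (nat_lit 0) (XT.nd (nat_lit 78) (nat_lit 0) (nat_lit 0) (XT.lf (nat_lit 0) (nat_lit 4603732527) (nat_lit 152) (nat_lit 704130843) (nat_lit 228) (nat_lit 27864318450) (nat_lit 19) (nat_lit 5) (nat_lit 21) (nat_lit 5) (nat_lit 22) (nat_lit 5) (nat_lit 324) (nat_lit 258) (nat_lit 198)) (XT.lf (nat_lit 0) (nat_lit 12768969777) (nat_lit 228) (nat_lit 13507811218) (nat_lit 76) (nat_lit 8273758771) (nat_lit 19) (nat_lit 5) (nat_lit 22) (nat_lit 5) (nat_lit 20) (nat_lit 4) (nat_lit 325) (nat_lit 258) (nat_lit 197))) (XT.nd (nat_lit 78) (nat_lit 0) (nat_lit 0) (XT.lf (nat_lit 0) (nat_lit 2268843671) (nat_lit 76) (nat_lit 18321568391) (nat_lit 152) (nat_lit 15407802590) (nat_lit 18) (nat_lit 5) (nat_lit 19) (nat_lit 5) (nat_lit 20) (nat_lit 4) (nat_lit 326) (nat_lit 258) (nat_lit 196)) (XT.lf (nat_lit 0) (nat_lit 19044549788) (nat_lit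 76) (nat_lit 9857081778) (nat_lit 152) (nat_lit 8613697190) (nat_lit 18) (nat_lit 5) (nat_lit 19) (nat_lit 5) (nat_lit 20) (nat_lit 4) (nat_lit 327) (nat_lit 258) (nat_lit 195))))))))
noncomputable def xc47 : XT := (XT.nd (nat_lit 2028) (nat_lit 152) (nat_lit 0) (XT.nd (nat_lit 1014) (nat_lit 304) (nat_lit 0) (XT.nd (nat_lit 468) (nat_lit 304) (nat_lit 0) (XT.nd (nat_lit 234) (nat_lit 76) (nat_lit 0) (XT.nd (nat_lit 78) (nat_lit 228) (nat_lit 0) (XT.lf (nat_lit 0) (nat_lit 36590417362) (nat_lit 76) (nat_lit 999570023) (nat_lit 152) (nat_lit 1519479754) (nat_lit 18) (nat_lit 5) (nat_lit 19) (nat_lit 5) (nat_lit 20) (nat_lit 4) (nat_lit 328) (nat_lit 258) (nat_lit 194)) (XT.nd (nat_lit 78) (nat_lit 0) (nat_lit 0) (XT.lf (nat_lit 0) (nat_lit 5996523304) (nat_lit 228) (nat_lit 26472101262) (nat_lit 76) (nat_lit 8307509203) (nat_lit 15) (nat_lit 5) (nat_lit 18) (nat_lit 5) (nat_lit 16) (nat_lit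 4) (nat_lit 329) (nat_lit 258) (nat_lit 193)) (XT.lf (nat_lit 0) (nat_lit 13857368981) (nat_lit 228) (nat_lit 10595155822) (nat_lit 76) (nat_lit 18073157511) (nat_lit 15) (nat_lit 5) (nat_lit 18) (nat_lit 5) (nat_lit 16) (nat_lit 4) (nat_lit 330) (nat_lit 258) (nat_lit 192)))) (XT.nd (nat_lit 78) (nat_lit 0) (nat_lit 0) (XT.lf (nat_lit 0) (nat_lit 6133390429) (nat_lit 76) (nat_lit 16002442005) (nat_lit 152) (nat_lit 22226151869) (nat_lit 14) (nat_lit 5) (nat_lit 15) (nat_lit 5) (nat_lit 16) (nat_lit 4) (nat_lit 331) (nat_lit 258) (nat_lit 191)) (XT.nd (nat_lit 78) (nat_lit 0) (nat_lit 0) (XT.lf (nat_lit 0) (nat_lit 23859615832) (nat_lit 76) (nat_lit 7044347605) (nat_lit 152) (nat_lit 15383878272) (nat_lit 14) (nat_lit 5) (nat_lit 15) (nat_lit 5) (nat_lit 16) (nat_lit 4) (nat_lit 332) (nat_lit 258) (nat_lit 190)) (XT.lf (nat_lit 0) (nat_lit 40101220406) (nat_lit 152) (nat_lit 5918550813) (nat_lit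 0) (nat_lit 2290511228) (nat_lit 14) (nat_lit 5) (nat_lit 16) (nat_lit 4) (nat_lit 14) (nat_lit 4) (nat_lit 333) (nat_lit 258) (nat_lit 189))))) (XT.nd (nat_lit 234) (nat_lit 152) (nat_lit 0) (XT.nd (nat_lit 78) (nat_lit 76) (nat_lit 0) (XT.lf (nat_lit 0) (nat_lit 11514958687) (nat_lit 76) (nat_lit 38394711410) (nat_lit 76) (nat_lit 519646702) (nat_lit 13) (nat_lit 4) (nat_lit 14) (nat_lit 5) (nat_lit 14) (nat_lit 4) (nat_lit 334) (nat_lit 258) (nat_lit 188)) (XT.nd (nat_lit 78) (nat_lit 0) (nat_lit 0) (XT.lf (nat_lit 0) (nat_lit 7438530771) (nat_lit 152) (nat_lit 22836138224) (nat_lit 76) (nat_lit 22376514948) (nat_lit 12) (nat_lit 5) (nat_lit 14) (nat_lit 5) (nat_lit 13) (nat_lit 4) (nat_lit 335) (nat_lit 258) (nat_lit 187)) (XT.lf (nat_lit 0) (nat_lit 15755562594) (nat_lit 152) (nat_lit 6010935987) (nat_lit 76) (nat_lit 33218350838) (nat_lit 12) (nat_lit 5) (nat_lit 14) (nat_lit 5) (nat_lit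 13) (nat_lit 4) (nat_lit 336) (nat_lit 258) (nat_lit 186)))) (XT.nd (nat_lit 156) (nat_lit 76) (nat_lit 0) (XT.nd (nat_lit 78) (nat_lit 0) (nat_lit 0) (XT.lf (nat_lit 0) (nat_lit 11837291968) (nat_lit 76) (nat_lit 12737886725) (nat_lit 152) (nat_lit 32857427116) (nat_lit 11) (nat_lit 5) (nat_lit 12) (nat_lit 5) (nat_lit 13) (nat_lit 4) (nat_lit 337) (nat_lit 258) (nat_lit 185)) (XT.lf (nat_lit 0) (nat_lit 30655730565) (nat_lit 76) (nat_lit 3215696429) (nat_lit 152) (nat_lit 26130262645) (nat_lit 11) (nat_lit 5) (nat_lit 12) (nat_lit 5) (nat_lit 13) (nat_lit 4) (nat_lit 338) (nat_lit 258) (nat_lit 184))) (XT.nd (nat_lit 78) (nat_lit 76) (nat_lit 0) (XT.lf (nat_lit 0) (nat_lit 43672511596) (nat_lit 152) (nat_lit 12395430422) (nat_lit 0) (nat_lit 6630093656) (nat_lit 11) (nat_lit 5) (nat_lit 13) (nat_lit 4) (nat_lit 11) (nat_lit 4) (nat_lit 339) (nat_lit 258) (nat_lit 183)) (XT.lf (nat_lit 0)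 (nat_lit 5432270725) (nat_lit 76) (nat_lit 48592078957) (nat_lit 76) (nat_lit 11503036660) (nat_lit 10) (nat_lit 4) (nat_lit 11) (nat_lit 5) (nat_lit 11) (nat_lit 4) (nat_lit 340) (nat_lit 258) (nat_lit 182)))))) (XT.nd (nat_lit 468) (nat_lit 152) (nat_lit 0) (XT.nd (nat_lit 234) (nat_lit 76) (nat_lit 0) (XT.nd (nat_lit 78) (nat_lit 76) (nat_lit 0) (XT.lf (nat_lit 0) (nat_lit 24367743060) (nat_lit 76) (nat_lit 40630392583) (nat_lit 76) (nat_lit 3496946137) (nat_lit 10) (nat_lit 4) (nat_lit 11) (nat_lit 5) (nat_lit 11) (nat_lit 4) (nat_lit 341) (nat_lit 258) (nat_lit 181)) (XT.nd (nat_lit 78) (nat_lit 0) (nat_lit 0) (XT.lf (nat_lit 0) (nat_lit 4791284119) (nat_lit 152) (nat_lit 27449429350) (nat_lit 76) (nat_lit 39369710975) (nat_lit 9) (nat_lit 5) (nat_lit 11) (nat_lit 5) (nat_lit 10) (nat_lit 4) (nat_lit 342) (nat_lit 258) (nat_lit 180)) (XT.lf (nat_lit 0) (nat_lit 13400977154) (nat_lit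 152) (nat_lit 10012028362) (nat_lit 76) (nat_lit 51468115793) (nat_lit 9) (nat_lit 5) (nat_lit 11) (nat_lit 5) (nat_lit 10) (nat_lit 4) (nat_lit 343) (nat_lit 258) (nat_lit 179)))) (XT.nd (nat_lit 78) (nat_lit 0) (nat_lit 0) (XT.lf (nat_lit 0) (nat_lit 8424386776) (nat_lit 76) (nat_lit 14077463832) (nat_lit 152) (nat_lit 55811688176) (nat_lit 8) (nat_lit 5) (nat_lit 9) (nat_lit 5) (nat_lit 10) (nat_lit 4) (nat_lit 344) (nat_lit 258) (nat_lit 178)) (XT.nd (nat_lit 78) (nat_lit 0) (nat_lit 0) (XT.lf (nat_lit 0) (nat_lit 27955666242) (nat_lit 76) (nat_lit 4185500066) (nat_lit 152) (nat_lit 49773915190) (nat_lit 8) (nat_lit 5) (nat_lit 9) (nat_lit 5) (nat_lit 10) (nat_lit 4) (nat_lit 345) (nat_lit 258) (nat_lit 177)) (XT.lf (nat_lit 0) (nat_lit 42303175098) (nat_lit 152) (nat_lit 37327672418) (nat_lit 0) (nat_lit 6064638033) (nat_lit 8) (nat_lit 5) (nat_lit 10) (nat_lit 4) (nat_lit 8) (nat_lit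 4) (nat_lit 346) (nat_lit 258) (nat_lit 176))))) (XT.nd (nat_lit 234) (nat_lit 76) (nat_lit 0) (XT.nd (nat_lit 78) (nat_lit 76) (nat_lit 0) (XT.lf (nat_lit 0) (nat_lit 52997547600) (nat_lit 152) (nat_lit 19939799467) (nat_lit 0) (nat_lit 16726840573) (nat_lit 8) (nat_lit 5) (nat_lit 10) (nat_lit 4) (nat_lit 8) (nat_lit 4) (nat_lit 347) (nat_lit 258) (nat_lit 175)) (XT.nd (nat_lit 78) (nat_lit 76) (nat_lit 0) (XT.lf (nat_lit 0) (nat_lit 64209513017) (nat_lit 152) (nat_lit 1714163119) (nat_lit 0) (nat_lit 27908167932) (nat_lit 8) (nat_lit 5) (nat_lit 10) (nat_lit 4) (nat_lit 8) (nat_lit 4) (nat_lit 348) (nat_lit 258) (nat_lit 174)) (XT.lf (nat_lit 0) (nat_lit 17738778457) (nat_lit 76) (nat_lit 58397504038) (nat_lit 76) (nat_lit 22066979850) (nat_lit 7) (nat_lit 4) (nat_lit 8) (nat_lit 5) (nat_lit 8) (nat_lit 4) (nat_lit 349) (nat_lit 258) (nat_lit 173)))) (XT.nd (nat_lit 156) (nat_lit 76) (nat_lit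 0) (XT.nd (nat_lit 78) (nat_lit 0) (nat_lit 0) (XT.lf (nat_lit 0) (nat_lit 38170927532) (nat_lit 76) (nat_lit 50490293919) (nat_lit 76) (nat_lit 14131980108) (nat_lit 7) (nat_lit 4) (nat_lit 8) (nat_lit 5) (nat_lit 8) (nat_lit 4) (nat_lit 350) (nat_lit 258) (nat_lit 172)) (XT.lf (nat_lit 0) (nat_lit 59596816872) (nat_lit 76) (nat_lit 42200528774) (nat_lit 76) (nat_lit 5815748657) (nat_lit 7) (nat_lit 4) (nat_lit 8) (nat_lit 5) (nat_lit 8) (nat_lit 4) (nat_lit 351) (nat_lit 258) (nat_lit 171))) (XT.nd (nat_lit 78) (nat_lit 0) (nat_lit 0) (XT.lf (nat_lit 0) (nat_lit 2844896045) (nat_lit 152) (nat_lit 30634847152) (nat_lit 76) (nat_lit 79193836583) (nat_lit 6) (nat_lit 5) (nat_lit 8) (nat_lit 5) (nat_lit 7) (nat_lit 4) (nat_lit 352) (nat_lit 258) (nat_lit 170)) (XT.lf (nat_lit 0) (nat_lit 11805611598) (nat_lit 152) (nat_lit 12468600299) (nat_lit 76) (nat_lit 93711534819) (nat_lit 6) (nat_lit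 5) (nat_lit 8) (nat_lit 5) (nat_lit 7) (nat_lit 4) (nat_lit 353) (nat_lit 258) (nat_lit 169))))))) (XT.nd (nat_lit 33852) (nat_lit 0) (nat_lit 11780) (XT.nd (nat_lit 468) (nat_lit 76) (nat_lit 0) (XT.nd (nat_lit 234) (nat_lit 0) (nat_lit 0) (XT.nd (nat_lit 78) (nat_lit 0) (nat_lit 0) (XT.lf (nat_lit 0) (nat_lit 6712607783) (nat_lit 76) (nat_lit 14553137151) (nat_lit 152) (nat_lit 102296239562) (nat_lit 5) (nat_lit 5) (nat_lit 6) (nat_lit 5) (nat_lit 7) (nat_lit 4) (nat_lit 354) (nat_lit 258) (nat_lit 168)) (XT.nd (nat_lit 78) (nat_lit 0) (nat_lit 0) (XT.lf (nat_lit 0) (nat_lit 27089792729) (nat_lit 76) (nat_lit 4224700403) (nat_lit 152) (nat_lit 98099076556) (nat_lit 5) (nat_lit 5) (nat_lit 6) (nat_lit 5) (nat_lit 7) (nat_lit 4) (nat_lit 355) (nat_lit 258) (nat_lit 167)) (XT.lf (nat_lit 0) (nat_lit 41917077866) (nat_lit 152) (nat_lit 87158317087) (nat_lit 0) (nat_lit 6480800803) (nat_lit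 5) (nat_lit 5) (nat_lit 7) (nat_lit 4) (nat_lit 5) (nat_lit 4) (nat_lit 356) (nat_lit 258) (nat_lit 166)))) (XT.nd (nat_lit 78) (nat_lit 0) (nat_lit 0) (XT.lf (nat_lit 0) (nat_lit 53080777632) (nat_lit 152) (nat_lit 71298923105) (nat_lit 0) (nat_lit 17625326233) (nat_lit 5) (nat_lit 5) (nat_lit 7) (nat_lit 4) (nat_lit 5) (nat_lit 4) (nat_lit 357) (nat_lit 258) (nat_lit 165)) (XT.nd (nat_lit 78) (nat_lit 0) (nat_lit 0) (XT.lf (nat_lit 0) (nat_lit 64791562264) (nat_lit 152) (nat_lit 54667224147) (nat_lit 0) (nat_lit 29317849593) (nat_lit 5) (nat_lit 5) (nat_lit 7) (nat_lit 4) (nat_lit 5) (nat_lit 4) (nat_lit 358) (nat_lit 258) (nat_lit 164)) (XT.lf (nat_lit 0) (nat_lit 77077314582) (nat_lit 152) (nat_lit 37223620931) (nat_lit 0) (nat_lit 41586210224) (nat_lit 5) (nat_lit 5) (nat_lit 7) (nat_lit 4) (nat_lit 5) (nat_lit 4) (nat_lit 359) (nat_lit 258) (nat_lit 163))))) (XT.nd (nat_lit 33072) (nat_lit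 0) (nat_lit 22496) (XT.nd (nat_lit 78) (nat_lit 76) (nat_lit 0) (XT.lf (nat_lit 0) (nat_lit 89967286378) (nat_lit 152) (nat_lit 18926581067) (nat_lit 0) (nat_lit 54459618507) (nat_lit 5) (nat_lit 5) (nat_lit 7) (nat_lit 4) (nat_lit 5) (nat_lit 4) (nat_lit 360) (nat_lit 258) (nat_lit 162)) (XT.nd (nat_lit 32916) (nat_lit 0) (nat_lit 23408) (XT.lf (nat_lit 0) (nat_lit 272782798) (nat_lit 76) (nat_lit 103222007417) (nat_lit 76) (nat_lit 67698564773) (nat_lit 4) (nat_lit 4) (nat_lit 5) (nat_lit 5) (nat_lit 5) (nat_lit 4) (nat_lit 361) (nat_lit 258) (nat_lit 161)) (XT.lf (nat_lit 0) (nat_lit 1849553025) (nat_lit 76) (nat_lit 688734114) (nat_lit 76) (nat_lit 688734114) (nat_lit 312) (nat_lit 4) (nat_lit 313) (nat_lit 5) (nat_lit 313) (nat_lit 4) (nat_lit 262) (nat_lit 259) (nat_lit 259)))) (XT.nd (nat_lit 156) (nat_lit 380) (nat_lit 0) (XT.nd (nat_lit 78) (nat_lit 304) (nat_lit 0) (XT.lf (nat_lit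 0) (nat_lit 2552465680) (nat_lit 152) (nat_lit 911808663) (nat_lit 228) (nat_lit 3005955936) (nat_lit 309) (nat_lit 5) (nat_lit 311) (nat_lit 5) (nat_lit 312) (nat_lit 4) (nat_lit 263) (nat_lit 259) (nat_lit 258)) (XT.lf (nat_lit 0) (nat_lit 1514250289) (nat_lit 228) (nat_lit 218653011) (nat_lit 304) (nat_lit 4761852510) (nat_lit 305) (nat_lit 5) (nat_lit 308) (nat_lit 5) (nat_lit 309) (nat_lit 5) (nat_lit 264) (nat_lit 259) (nat_lit 257))) (XT.nd (nat_lit 78) (nat_lit 76) (nat_lit 0) (XT.lf (nat_lit 0) (nat_lit 572402986) (nat_lit 304) (nat_lit 5836208588) (nat_lit 380) (nat_lit 118823751) (nat_lit 301) (nat_lit 5) (nat_lit 305) (nat_lit 5) (nat_lit 306) (nat_lit 4) (nat_lit 265) (nat_lit 259) (nat_lit 256)) (XT.lf (nat_lit 0) (nat_lit 4436589583) (nat_lit 380) (nat_lit 286143052) (nat_lit 76) (nat_lit 1845084475) (nat_lit 300) (nat_lit 5) (nat_lit 305) (nat_lit 5) (nat_lit 301) (nat_lit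 5) (nat_lit 266) (nat_lit 259) (nat_lit 255)))))) (XT.nd (nat_lit 546) (nat_lit 6080) (nat_lit 0) (XT.nd (nat_lit 234) (nat_lit 3116) (nat_lit 0) (XT.nd (nat_lit 78) (nat_lit 1064) (nat_lit 0) (XT.lf (nat_lit 0) (nat_lit 2339832602) (nat_lit 456) (nat_lit 1041641353) (nat_lit 76) (nat_lit 3235033437) (nat_lit 294) (nat_lit 5) (nat_lit 300) (nat_lit 5) (nat_lit 295) (nat_lit 5) (nat_lit 267) (nat_lit 259) (nat_lit 254)) (XT.nd (nat_lit 78) (nat_lit 532) (nat_lit 0) (XT.lf (nat_lit 0) (nat_lit 106013879) (nat_lit 532) (nat_lit 1708544378) (nat_lit 76) (nat_lit 4859218768) (nat_lit 287) (nat_lit 5) (nat_lit 294) (nat_lit 5) (nat_lit 288) (nat_lit 5) (nat_lit 268) (nat_lit 259) (nat_lit 253)) (XT.lf (nat_lit 0) (nat_lit 4421811665) (nat_lit 608) (nat_lit 2312287535) (nat_lit 76) (nat_lit 4982013) (nat_lit 280) (nat_lit 5) (nat_lit 288) (nat_lit 5) (nat_lit 281) (nat_lit 5) (nat_lit 269) (nat_lit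 259) (nat_lit 252)))) (XT.nd (nat_lit 156) (nat_lit 1748) (nat_lit 0) (XT.nd (nat_lit 78) (nat_lit 684) (nat_lit 0) (XT.lf (nat_lit 0) (nat_lit 1935227950) (nat_lit 684) (nat_lit 2855755724) (nat_lit 76) (nat_lit 2021582953) (nat_lit 271) (nat_lit 5) (nat_lit 280) (nat_lit 5) (nat_lit 272) (nat_lit 5) (nat_lit 270) (nat_lit 259) (nat_lit 251)) (XT.lf (nat_lit 0) (nat_lit 3564433070) (nat_lit 684) (nat_lit 2612959634) (nat_lit 760) (nat_lit 717348987) (nat_lit 262) (nat_lit 5) (nat_lit 271) (nat_lit 5) (nat_lit 272) (nat_lit 5) (nat_lit 271) (nat_lit 259) (nat_lit 250))) (XT.nd (nat_lit 78) (nat_lit 912) (nat_lit 0) (XT.lf (nat_lit 0) (nat_lit 3232926656) (nat_lit 760) (nat_lit 180267580) (nat_lit 836) (nat_lit 3572183342) (nat_lit 251) (nat_lit 5) (nat_lit 261) (nat_lit 5) (nat_lit 262) (nat_lit 5) (nat_lit 272) (nat_lit 259) (nat_lit 249)) (XT.lf (nat_lit 0) (nat_lit 509219831) (nat_lit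 912) (nat_lit 4130043247) (nat_lit 76) (nat_lit 2445260025) (nat_lit 239) (nat_lit 5) (nat_lit 251) (nat_lit 5) (nat_lit 240) (nat_lit 5) (nat_lit 273) (nat_lit 259) (nat_lit 248))))) (XT.nd (nat_lit 234) (nat_lit 3040) (nat_lit 0) (XT.nd (nat_lit 78) (nat_lit 2128) (nat_lit 0) (XT.lf (nat_lit 0) (nat_lit 2721063934) (nat_lit 912) (nat_lit 1856206274) (nat_lit 988) (nat_lit 2614969592) (nat_lit 227) (nat_lit 5) (nat_lit 239) (nat_lit 5) (nat_lit 240) (nat_lit 5) (nat_lit 274) (nat_lit 259) (nat_lit 247)) (XT.nd (nat_lit 78) (nat_lit 1064) (nat_lit 0) (XT.lf (nat_lit 0) (nat_lit 1386809674) (nat_lit 1064) (nat_lit 4769889610) (nat_lit 76) (nat_lit 1152332420) (nat_lit 213) (nat_lit 5) (nat_lit 227) (nat_lit 5) (nat_lit 214) (nat_lit 5) (nat_lit 275) (nat_lit 259) (nat_lit 246)) (XT.lf (nat_lit 0) (nat_lit 2382055098) (nat_lit 1064) (nat_lit 3044244227) (nat_lit 1140) (nat_lit 2008160656) (nat_lit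 199) (nat_lit 5) (nat_lit 213) (nat_lit 5) (nat_lit 214) (nat_lit 5) (nat_lit 276) (nat_lit 259) (nat_lit 245)))) (XT.nd (nat_lit 156) (nat_lit 1216) (nat_lit 0) (XT.nd (nat_lit 78) (nat_lit 608) (nat_lit 0) (XT.lf (nat_lit 0) (nat_lit 1943741892) (nat_lit 1216) (nat_lit 5303297005) (nat_lit 76) (nat_lit 322320412) (nat_lit 183) (nat_lit 5) (nat_lit 199) (nat_lit 5) (nat_lit 184) (nat_lit 5) (nat_lit 277) (nat_lit 259) (nat_lit 244)) (XT.lf (nat_lit 0) (nat_lit 2155577574) (nat_lit 608) (nat_lit 3816580258) (nat_lit 684) (nat_lit 1740921625) (nat_lit 175) (nat_lit 5) (nat_lit 183) (nat_lit 5) (nat_lit 184) (nat_lit 5) (nat_lit 278) (nat_lit 259) (nat_lit 243))) (XT.nd (nat_lit 78) (nat_lit 532) (nat_lit 0) (XT.lf (nat_lit 0) (nat_lit 2073125753) (nat_lit 608) (nat_lit 115458043) (nat_lit 684) (nat_lit 5678105950) (nat_lit 166) (nat_lit 5) (nat_lit 174) (nat_lit 5) (nat_lit 175) (nat_lit 5)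 (nat_lit 279) (nat_lit 259) (nat_lit 242)) (XT.lf (nat_lit 0) (nat_lit 1978984906) (nat_lit 532) (nat_lit 4240897584) (nat_lit 608) (nat_lit 1809592980) (nat_lit 159) (nat_lit 5) (nat_lit 166) (nat_lit 5) (nat_lit 167) (nat_lit 5) (nat_lit 280) (nat_lit 259) (nat_lit 241))))))))
noncomputable def xc48 : XT := (XT.nd (nat_lit 2028) (nat_lit 2508) (nat_lit 0) (XT.nd (nat_lit 1014) (nat_lit 3116) (nat_lit 0) (XT.nd (nat_lit 468) (nat_lit 2356) (nat_lit 0) (XT.nd (nat_lit 234) (nat_lit 1368) (nat_lit 0) (XT.nd (nat_lit 78) (nat_lit 1064) (nat_lit 0) (XT.lf (nat_lit 0) (nat_lit 1897440262) (nat_lit 532) (nat_lit 223165987) (nat_lit 608) (nat_lit 6082011090) (nat_lit 151) (nat_lit 5) (nat_lit 158) (nat_lit 5) (nat_lit 159) (nat_lit 5) (nat_lit 281) (nat_lit 259) (nat_lit 240)) (XT.nd (nat_lit 78) (nat_lit 608) (nat_lit 0) (XT.lf (nat_lit 0) (nat_lit 1785606177) (nat_lit 456) (nat_lit 4381863793)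 (nat_lit 532) (nat_lit 2217903100) (nat_lit 145) (nat_lit 5) (nat_lit 151) (nat_lit 5) (nat_lit 152) (nat_lit 5) (nat_lit 282) (nat_lit 259) (nat_lit 239)) (XT.lf (nat_lit 0) (nat_lit 1672614948) (nat_lit 532) (nat_lit 57807470) (nat_lit 608) (nat_lit 6848711513) (nat_lit 137) (nat_lit 5) (nat_lit 144) (nat_lit 5) (nat_lit 145) (nat_lit 5) (nat_lit 283) (nat_lit 259) (nat_lit 238)))) (XT.nd (nat_lit 78) (nat_lit 912) (nat_lit 0) (XT.lf (nat_lit 0) (nat_lit 1502887815) (nat_lit 456) (nat_lit 4302631460) (nat_lit 532) (nat_lit 2977343234) (nat_lit 131) (nat_lit 5) (nat_lit 137) (nat_lit 5) (nat_lit 138) (nat_lit 5) (nat_lit 284) (nat_lit 259) (nat_lit 237)) (XT.nd (nat_lit 78) (nat_lit 380) (nat_lit 0) (XT.lf (nat_lit 0) (nat_lit 1007109362) (nat_lit 532) (nat_lit 7679407967) (nat_lit 76) (nat_lit 311904872) (nat_lit 124) (nat_lit 5) (nat_lit 131) (nat_lit 5) (nat_lit 125) (nat_lit 5) (nat_lit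 285) (nat_lit 259) (nat_lit 236)) (XT.lf (nat_lit 0) (nat_lit 1050333248) (nat_lit 380) (nat_lit 4066371260) (nat_lit 456) (nat_lit 4107718026) (nat_lit 119) (nat_lit 5) (nat_lit 124) (nat_lit 5) (nat_lit 125) (nat_lit 5) (nat_lit 286) (nat_lit 259) (nat_lit 235))))) (XT.nd (nat_lit 234) (nat_lit 1520) (nat_lit 0) (XT.nd (nat_lit 78) (nat_lit 456) (nat_lit 0) (XT.lf (nat_lit 0) (nat_lit 751510528) (nat_lit 380) (nat_lit 8637442140) (nat_lit 456) (nat_lit 74218728) (nat_lit 114) (nat_lit 5) (nat_lit 119) (nat_lit 5) (nat_lit 120) (nat_lit 5) (nat_lit 287) (nat_lit 259) (nat_lit 234)) (XT.nd (nat_lit 78) (nat_lit 0) (nat_lit 0) (XT.lf (nat_lit 0) (nat_lit 337190306) (nat_lit 380) (nat_lit 3737871129) (nat_lit 456) (nat_lit 5637888673) (nat_lit 108) (nat_lit 5) (nat_lit 113) (nat_lit 5) (nat_lit 114) (nat_lit 5) (nat_lit 288) (nat_lit 259) (nat_lit 233)) (XT.lf (nat_lit 0) (nat_lit 8404851328)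 (nat_lit 456) (nat_lit 136327401) (nat_lit 76) (nat_lit 1434923725) (nat_lit 108) (nat_lit 5) (nat_lit 114) (nat_lit 5) (nat_lit 109) (nat_lit 5) (nat_lit 289) (nat_lit 259) (nat_lit 232)))) (XT.nd (nat_lit 156) (nat_lit 760) (nat_lit 0) (XT.nd (nat_lit 78) (nat_lit 304) (nat_lit 0) (XT.lf (nat_lit 0) (nat_lit 2652181885) (nat_lit 456) (nat_lit 725727180) (nat_lit 76) (nat_lit 6873674641) (nat_lit 102) (nat_lit 5) (nat_lit 108) (nat_lit 5) (nat_lit 103) (nat_lit 5) (nat_lit 290) (nat_lit 259) (nat_lit 231)) (XT.lf (nat_lit 0) (nat_lit 7043857392) (nat_lit 380) (nat_lit 1425136975) (nat_lit 76) (nat_lit 2071817894) (nat_lit 98) (nat_lit 5) (nat_lit 103) (nat_lit 5) (nat_lit 99) (nat_lit 5) (nat_lit 291) (nat_lit 259) (nat_lit 230))) (XT.nd (nat_lit 78) (nat_lit 304) (nat_lit 0) (XT.lf (nat_lit 0) (nat_lit 802606490) (nat_lit 456) (nat_lit 2256346651) (nat_lit 76) (nat_lit 7785198423) (nat_lit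 92) (nat_lit 5) (nat_lit 98) (nat_lit 5) (nat_lit 93) (nat_lit 5) (nat_lit 292) (nat_lit 259) (nat_lit 229)) (XT.lf (nat_lit 0) (nat_lit 5249043218) (nat_lit 380) (nat_lit 3255666999) (nat_lit 76) (nat_lit 2656894121) (nat_lit 88) (nat_lit 5) (nat_lit 93) (nat_lit 5) (nat_lit 89) (nat_lit 5) (nat_lit 293) (nat_lit 259) (nat_lit 228)))))) (XT.nd (nat_lit 468) (nat_lit 1520) (nat_lit 0) (XT.nd (nat_lit 234) (nat_lit 608) (nat_lit 0) (XT.nd (nat_lit 78) (nat_lit 684) (nat_lit 0) (XT.lf (nat_lit 0) (nat_lit 7082265246) (nat_lit 304) (nat_lit 2847933581) (nat_lit 380) (nat_lit 1564465483) (nat_lit 84) (nat_lit 5) (nat_lit 88) (nat_lit 5) (nat_lit 89) (nat_lit 5) (nat_lit 294) (nat_lit 259) (nat_lit 227)) (XT.nd (nat_lit 78) (nat_lit 304) (nat_lit 0) (XT.lf (nat_lit 0) (nat_lit 2958081487) (nat_lit 380) (nat_lit 5774848034) (nat_lit 76) (nat_lit 3110212548) (nat_lit 79) (nat_lit 5) (nat_lit 84)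 (nat_lit 5) (nat_lit 80) (nat_lit 5) (nat_lit 295) (nat_lit 259) (nat_lit 226)) (XT.lf (nat_lit 0) (nat_lit 4857009097) (nat_lit 304) (nat_lit 2834904514) (nat_lit 380) (nat_lit 4516233771) (nat_lit 75) (nat_lit 5) (nat_lit 79) (nat_lit 5) (nat_lit 80) (nat_lit 5) (nat_lit 296) (nat_lit 259) (nat_lit 225)))) (XT.nd (nat_lit 78) (nat_lit 304) (nat_lit 0) (XT.lf (nat_lit 0) (nat_lit 94179384) (nat_lit 304) (nat_lit 9154656017) (nat_lit 76) (nat_lit 3341897836) (nat_lit 71) (nat_lit 5) (nat_lit 75) (nat_lit 5) (nat_lit 72) (nat_lit 5) (nat_lit 297) (nat_lit 259) (nat_lit 224)) (XT.nd (nat_lit 78) (nat_lit 0) (nat_lit 0) (XT.lf (nat_lit 0) (nat_lit 1738600449) (nat_lit 304) (nat_lit 3127121354) (nat_lit 380) (nat_lit 8124747356) (nat_lit 67) (nat_lit 5) (nat_lit 71) (nat_lit 5) (nat_lit 72) (nat_lit 5) (nat_lit 298) (nat_lit 259) (nat_lit 223)) (XT.lf (nat_lit 0) (nat_lit 9907012173) (nat_lit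 380) (nat_lit 216959727) (nat_lit 76) (nat_lit 3285363484) (nat_lit 67) (nat_lit 5) (nat_lit 72) (nat_lit 5) (nat_lit 68) (nat_lit 5) (nat_lit 299) (nat_lit 259) (nat_lit 222))))) (XT.nd (nat_lit 234) (nat_lit 760) (nat_lit 0) (XT.nd (nat_lit 78) (nat_lit 456) (nat_lit 0) (XT.lf (nat_lit 0) (nat_lit 1375476910) (nat_lit 304) (nat_lit 2438025425) (nat_lit 76) (nat_lit 10033806974) (nat_lit 63) (nat_lit 5) (nat_lit 67) (nat_lit 5) (nat_lit 64) (nat_lit 5) (nat_lit 300) (nat_lit 259) (nat_lit 221)) (XT.nd (nat_lit 78) (nat_lit 228) (nat_lit 0) (XT.lf (nat_lit 0) (nat_lit 6456088269) (nat_lit 304) (nat_lit 5008854551) (nat_lit 76) (nat_lit 2840327421) (nat_lit 60) (nat_lit 5) (nat_lit 64) (nat_lit 5) (nat_lit 61) (nat_lit 5) (nat_lit 301) (nat_lit 259) (nat_lit 220)) (XT.lf (nat_lit 0) (nat_lit 6843887383) (nat_lit 228) (nat_lit 4989941068) (nat_lit 304) (nat_lit 2951073772) (nat_lit 57) (nat_lit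 5) (nat_lit 60) (nat_lit 5) (nat_lit 61) (nat_lit 5) (nat_lit 302) (nat_lit 259) (nat_lit 219)))) (XT.nd (nat_lit 156) (nat_lit 304) (nat_lit 0) (XT.nd (nat_lit 78) (nat_lit 152) (nat_lit 0) (XT.lf (nat_lit 0) (nat_lit 2173490621) (nat_lit 304) (nat_lit 11273700908) (nat_lit 76) (nat_lit 1840023441) (nat_lit 53) (nat_lit 5) (nat_lit 57) (nat_lit 5) (nat_lit 54) (nat_lit 5) (nat_lit 303) (nat_lit 259) (nat_lit 218)) (XT.lf (nat_lit 0) (nat_lit 722404715) (nat_lit 152) (nat_lit 6829077331) (nat_lit 228) (nat_lit 8260595883) (nat_lit 51) (nat_lit 5) (nat_lit 53) (nat_lit 5) (nat_lit 54) (nat_lit 5) (nat_lit 304) (nat_lit 259) (nat_lit 217))) (XT.nd (nat_lit 78) (nat_lit 304) (nat_lit 0) (XT.lf (nat_lit 0) (nat_lit 13236774161) (nat_lit 228) (nat_lit 2936610644) (nat_lit 76) (nat_lit 188702507) (nat_lit 51) (nat_lit 5) (nat_lit 54) (nat_lit 5) (nat_lit 52) (nat_lit 5) (nat_lit 305) (nat_lit 259)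 (nat_lit 216)) (XT.lf (nat_lit 0) (nat_lit 2310533760) (nat_lit 304) (nat_lit 7135186162) (nat_lit 76) (nat_lit 7490633740) (nat_lit 47) (nat_lit 5) (nat_lit 51) (nat_lit 5) (nat_lit 48) (nat_lit 5) (nat_lit 306) (nat_lit 259) (nat_lit 215))))))) (XT.nd (nat_lit 1014) (nat_lit 912) (nat_lit 0) (XT.nd (nat_lit 468) (nat_lit 836) (nat_lit 0) (XT.nd (nat_lit 234) (nat_lit 304) (nat_lit 0) (XT.nd (nat_lit 78) (nat_lit 304) (nat_lit 0) (XT.lf (nat_lit 0) (nat_lit 5656905905) (nat_lit 152) (nat_lit 2307696817) (nat_lit 228) (nat_lit 9573519026) (nat_lit 45) (nat_lit 5) (nat_lit 47) (nat_lit 5) (nat_lit 48) (nat_lit 5) (nat_lit 307) (nat_lit 259) (nat_lit 214)) (XT.nd (nat_lit 78) (nat_lit 76) (nat_lit 0) (XT.lf (nat_lit 0) (nat_lit 918531105) (nat_lit 228) (nat_lit 13043260928) (nat_lit 304) (nat_lit 4206420085) (nat_lit 42) (nat_lit 5) (nat_lit 45) (nat_lit 5) (nat_lit 46) (nat_lit 5) (nat_lit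 308) (nat_lit 259) (nat_lit 213)) (XT.lf (nat_lit 0) (nat_lit 1477108894) (nat_lit 304) (nat_lit 4374614166) (nat_lit 76) (nat_lit 12975435913) (nat_lit 41) (nat_lit 5) (nat_lit 45) (nat_lit 5) (nat_lit 42) (nat_lit 5) (nat_lit 309) (nat_lit 259) (nat_lit 212)))) (XT.nd (nat_lit 78) (nat_lit 152) (nat_lit 0) (XT.lf (nat_lit 0) (nat_lit 7396503049) (nat_lit 228) (nat_lit 10364952944) (nat_lit 76) (nat_lit 1755228079) (nat_lit 39) (nat_lit 5) (nat_lit 42) (nat_lit 5) (nat_lit 40) (nat_lit 5) (nat_lit 310) (nat_lit 259) (nat_lit 211)) (XT.nd (nat_lit 78) (nat_lit 0) (nat_lit 0) (XT.lf (nat_lit 0) (nat_lit 3097794045) (nat_lit 152) (nat_lit 10582680819) (nat_lit 228) (nat_lit 6558191226) (nat_lit 37) (nat_lit 5) (nat_lit 39) (nat_lit 5) (nat_lit 40) (nat_lit 5) (nat_lit 311) (nat_lit 259) (nat_lit 210)) (XT.lf (nat_lit 0) (nat_lit 17343795551) (nat_lit 152) (nat_lit 2977941872) (nat_lit 228)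 (nat_lit 673754073) (nat_lit 37) (nat_lit 5) (nat_lit 39) (nat_lit 5) (nat_lit 40) (nat_lit 5) (nat_lit 312) (nat_lit 259) (nat_lit 209))))) (XT.nd (nat_lit 234) (nat_lit 456) (nat_lit 0) (XT.nd (nat_lit 78) (nat_lit 152) (nat_lit 0) (XT.lf (nat_lit 0) (nat_lit 5487067378) (nat_lit 228) (nat_lit 11274184275) (nat_lit 76) (nat_lit 5024665794) (nat_lit 34) (nat_lit 5) (nat_lit 37) (nat_lit 5) (nat_lit 35) (nat_lit 5) (nat_lit 313) (nat_lit 259) (nat_lit 208)) (XT.nd (nat_lit 78) (nat_lit 0) (nat_lit 0) (XT.lf (nat_lit 0) (nat_lit 2760401810) (nat_lit 152) (nat_lit 9216634183) (nat_lit 228) (nat_lit 10637609995) (nat_lit 32) (nat_lit 5) (nat_lit 34) (nat_lit 5) (nat_lit 35) (nat_lit 5) (nat_lit 314) (nat_lit 259) (nat_lit 207)) (XT.lf (nat_lit 0) (nat_lit 17634073245) (nat_lit 152) (nat_lit 1215739307) (nat_lit 228) (nat_lit 4633280192) (nat_lit 32) (nat_lit 5) (nat_lit 34) (nat_lit 5) (nat_lit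 35) (nat_lit 5) (nat_lit 315) (nat_lit 259) (nat_lit 206)))) (XT.nd (nat_lit 156) (nat_lit 228) (nat_lit 0) (XT.nd (nat_lit 78) (nat_lit 0) (nat_lit 0) (XT.lf (nat_lit 0) (nat_lit 1738524396) (nat_lit 228) (nat_lit 15543543929) (nat_lit 76) (nat_lit 7109444167) (nat_lit 29) (nat_lit 5) (nat_lit 32) (nat_lit 5) (nat_lit 30) (nat_lit 5) (nat_lit 316) (nat_lit 259) (nat_lit 205)) (XT.lf (nat_lit 0) (nat_lit 8352887251) (nat_lit 228) (nat_lit 1094403324) (nat_lit 76) (nat_lit 15896120054) (nat_lit 29) (nat_lit 5) (nat_lit 32) (nat_lit 5) (nat_lit 30) (nat_lit 5) (nat_lit 317) (nat_lit 259) (nat_lit 204))) (XT.nd (nat_lit 78) (nat_lit 76) (nat_lit 0) (XT.lf (nat_lit 0) (nat_lit 14266773268) (nat_lit 152) (nat_lit 1116739008) (nat_lit 228) (nat_lit 10956851136) (nat_lit 27) (nat_lit 5) (nat_lit 29) (nat_lit 5) (nat_lit 30) (nat_lit 5) (nat_lit 318) (nat_lit 259) (nat_lit 203)) (XT.lf (nat_lit 0)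 (nat_lit 2928288878) (nat_lit 76) (nat_lit 19899934959) (nat_lit 152) (nat_lit 4557088159) (nat_lit 26) (nat_lit 5) (nat_lit 27) (nat_lit 5) (nat_lit 28) (nat_lit 4) (nat_lit 319) (nat_lit 259) (nat_lit 202)))))) (XT.nd (nat_lit 468) (nat_lit 380) (nat_lit 0) (XT.nd (nat_lit 234) (nat_lit 304) (nat_lit 0) (XT.nd (nat_lit 78) (nat_lit 152) (nat_lit 0) (XT.lf (nat_lit 0) (nat_lit 2208006360) (nat_lit 152) (nat_lit 9665448513) (nat_lit 76) (nat_lit 16605826080) (nat_lit 25) (nat_lit 5) (nat_lit 27) (nat_lit 5) (nat_lit 26) (nat_lit 5) (nat_lit 320) (nat_lit 259) (nat_lit 201)) (XT.nd (nat_lit 78) (nat_lit 0) (nat_lit 0) (XT.lf (nat_lit 0) (nat_lit 5852053606) (nat_lit 152) (nat_lit 3375284719) (nat_lit 228) (nat_lit 20398971389) (nat_lit 23) (nat_lit 5) (nat_lit 25) (nat_lit 5) (nat_lit 26) (nat_lit 5) (nat_lit 321) (nat_lit 259) (nat_lit 200)) (XT.lf (nat_lit 0) (nat_lit 16705690256) (nat_lit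 228) (nat_lit 8615168665) (nat_lit 76) (nat_lit 5506610207) (nat_lit 23) (nat_lit 5) (nat_lit 26) (nat_lit 5) (nat_lit 24) (nat_lit 4) (nat_lit 322) (nat_lit 259) (nat_lit 199)))) (XT.nd (nat_lit 78) (nat_lit 228) (nat_lit 0) (XT.lf (nat_lit 0) (nat_lit 7334198365) (nat_lit 76) (nat_lit 17284750921) (nat_lit 152) (nat_lit 7467927367) (nat_lit 22) (nat_lit 5) (nat_lit 23) (nat_lit 5) (nat_lit 24) (nat_lit 4) (nat_lit 323) (nat_lit 259) (nat_lit 198)) (XT.nd (nat_lit 78) (nat_lit 228) (nat_lit 0) (XT.lf (nat_lit 0) (nat_lit 24186540863) (nat_lit 76) (nat_lit 8787795907) (nat_lit 152) (nat_lit 433542700) (nat_lit 22) (nat_lit 5) (nat_lit 23) (nat_lit 5) (nat_lit 24) (nat_lit 4) (nat_lit 324) (nat_lit 259) (nat_lit 197)) (XT.lf (nat_lit 0) (nat_lit 6846707966) (nat_lit 228) (nat_lit 27708233235) (nat_lit 76) (nat_lit 237109228) (nat_lit 19) (nat_lit 5) (nat_lit 22) (nat_lit 5) (nat_lit 20) (nat_lit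 4) (nat_lit 325) (nat_lit 259) (nat_lit 196))))) (XT.nd (nat_lit 234) (nat_lit 304) (nat_lit 0) (XT.nd (nat_lit 78) (nat_lit 76) (nat_lit 0) (XT.lf (nat_lit 0) (nat_lit 14626997686) (nat_lit 228) (nat_lit 12010314579) (nat_lit 76) (nat_lit 9603655738) (nat_lit 19) (nat_lit 5) (nat_lit 22) (nat_lit 5) (nat_lit 20) (nat_lit 4) (nat_lit 326) (nat_lit 259) (nat_lit 195)) (XT.nd (nat_lit 78) (nat_lit 0) (nat_lit 0) (XT.lf (nat_lit 0) (nat_lit 4492887679) (nat_lit 76) (nat_lit 18308837591) (nat_lit 152) (nat_lit 14960459317) (nat_lit 18) (nat_lit 5) (nat_lit 19) (nat_lit 5) (nat_lit 20) (nat_lit 4) (nat_lit 327) (nat_lit 259) (nat_lit 194)) (XT.lf (nat_lit 0) (nat_lit 22006874254) (nat_lit 76) (nat_lit 9465355657) (nat_lit 152) (nat_lit 7884635952) (nat_lit 18) (nat_lit 5) (nat_lit 19) (nat_lit 5) (nat_lit 20) (nat_lit 4) (nat_lit 328) (nat_lit 259) (nat_lit 193)))) (XT.nd (nat_lit 156) (nat_lit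 76) (nat_lit 0) (XT.nd (nat_lit 78) (nat_lit 228) (nat_lit 0) (XT.lf (nat_lit 0) (nat_lit 40334316302) (nat_lit 76) (nat_lit 207091182) (nat_lit 152) (nat_lit 490933649) (nat_lit 18) (nat_lit 5) (nat_lit 19) (nat_lit 5) (nat_lit 20) (nat_lit 4) (nat_lit 329) (nat_lit 259) (nat_lit 192)) (XT.lf (nat_lit 0) (nat_lit 7353818181) (nat_lit 228) (nat_lit 25890950536) (nat_lit 76) (nat_lit 9538039228) (nat_lit 15) (nat_lit 5) (nat_lit 18) (nat_lit 5) (nat_lit 16) (nat_lit 4) (nat_lit 330) (nat_lit 259) (nat_lit 191))) (XT.nd (nat_lit 78) (nat_lit 76) (nat_lit 0) (XT.lf (nat_lit 0) (nat_lit 15557350489) (nat_lit 228) (nat_lit 9310860481) (nat_lit 76) (nat_lit 19753153067) (nat_lit 15) (nat_lit 5) (nat_lit 18) (nat_lit 5) (nat_lit 16) (nat_lit 4) (nat_lit 331) (nat_lit 259) (nat_lit 190)) (XT.lf (nat_lit 0) (nat_lit 8202113614) (nat_lit 76) (nat_lit 16016603674) (nat_lit 152) (nat_lit 22331712956)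 (nat_lit 14) (nat_lit 5) (nat_lit 15) (nat_lit 5) (nat_lit 16) (nat_lit 4) (nat_lit 332) (nat_lit 259) (nat_lit 189))))))))
noncomputable def xc49 : XT := (XT.nd (nat_lit 2028) (nat_lit 0) (nat_lit 0) (XT.nd (nat_lit 1014) (nat_lit 228) (nat_lit 0) (XT.nd (nat_lit 468) (nat_lit 228) (nat_lit 0) (XT.nd (nat_lit 234) (nat_lit 76) (nat_lit 0) (XT.nd (nat_lit 78) (nat_lit 152) (nat_lit 0) (XT.lf (nat_lit 0) (nat_lit 26730742970) (nat_lit 76) (nat_lit 6648031241) (nat_lit 152) (nat_lit 15195218370) (nat_lit 14) (nat_lit 5) (nat_lit 15) (nat_lit 5) (nat_lit 16) (nat_lit 4) (nat_lit 333) (nat_lit 259) (nat_lit 188)) (XT.nd (nat_lit 78) (nat_lit 152) (nat_lit 0) (XT.lf (nat_lit 0) (nat_lit 42998479489) (nat_lit 152) (nat_lit 4596200072) (nat_lit 0) (nat_lit 3104015032) (nat_lit 14) (nat_lit 5) (nat_lit 16) (nat_lit 4) (nat_lit 14) (nat_lit 4) (nat_lit 334) (nat_lit 259) (nat_lit 187)) (XT.lf (nat_lit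 0) (nat_lit 338716951) (nat_lit 152) (nat_lit 39265241407) (nat_lit 76) (nat_lit 13320459952) (nat_lit 12) (nat_lit 5) (nat_lit 14) (nat_lit 5) (nat_lit 13) (nat_lit 4) (nat_lit 335) (nat_lit 259) (nat_lit 186)))) (XT.nd (nat_lit 78) (nat_lit 76) (nat_lit 0) (XT.lf (nat_lit 0) (nat_lit 8642551406) (nat_lit 152) (nat_lit 22464050192) (nat_lit 76) (nat_lit 24151882803) (nat_lit 12) (nat_lit 5) (nat_lit 14) (nat_lit 5) (nat_lit 13) (nat_lit 4) (nat_lit 336) (nat_lit 259) (nat_lit 185)) (XT.nd (nat_lit 78) (nat_lit 76) (nat_lit 0) (XT.lf (nat_lit 0) (nat_lit 17335811292) (nat_lit 152) (nat_lit 4869678079) (nat_lit 76) (nat_lit 35504546578) (nat_lit 12) (nat_lit 5) (nat_lit 14) (nat_lit 5) (nat_lit 13) (nat_lit 4) (nat_lit 337) (nat_lit 259) (nat_lit 184)) (XT.lf (nat_lit 0) (nat_lit 13829632232) (nat_lit 76) (nat_lit 12742501499) (nat_lit 152) (nat_lit 33708788081) (nat_lit 11) (nat_lit 5) (nat_lit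 12) (nat_lit 5) (nat_lit 13) (nat_lit 4) (nat_lit 338) (nat_lit 259) (nat_lit 183))))) (XT.nd (nat_lit 234) (nat_lit 152) (nat_lit 0) (XT.nd (nat_lit 78) (nat_lit 76) (nat_lit 0) (XT.lf (nat_lit 0) (nat_lit 33522303442) (nat_lit 76) (nat_lit 2774310239) (nat_lit 152) (nat_lit 26682956358) (nat_lit 11) (nat_lit 5) (nat_lit 12) (nat_lit 5) (nat_lit 13) (nat_lit 4) (nat_lit 339) (nat_lit 259) (nat_lit 182)) (XT.nd (nat_lit 78) (nat_lit 76) (nat_lit 0) (XT.lf (nat_lit 0) (nat_lit 46558426483) (nat_lit 152) (nat_lit 11729295281) (nat_lit 0) (nat_lit 7523903564) (nat_lit 11) (nat_lit 5) (nat_lit 13) (nat_lit 4) (nat_lit 11) (nat_lit 4) (nat_lit 340) (nat_lit 259) (nat_lit 181)) (XT.lf (nat_lit 0) (nat_lit 6952930667) (nat_lit 76) (nat_lit 50453490056) (nat_lit 76) (nat_lit 11376677471) (nat_lit 10) (nat_lit 4) (nat_lit 11) (nat_lit 5) (nat_lit 11) (nat_lit 4) (nat_lit 341) (nat_lit 259) (nat_lit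 180)))) (XT.nd (nat_lit 156) (nat_lit 76) (nat_lit 0) (XT.nd (nat_lit 78) (nat_lit 76) (nat_lit 0) (XT.lf (nat_lit 0) (nat_lit 26775698219) (nat_lit 76) (nat_lit 42120776167) (nat_lit 76) (nat_lit 3003687709) (nat_lit 10) (nat_lit 4) (nat_lit 11) (nat_lit 5) (nat_lit 11) (nat_lit 4) (nat_lit 342) (nat_lit 259) (nat_lit 179)) (XT.lf (nat_lit 0) (nat_lit 5654723169) (nat_lit 152) (nat_lit 27676358398) (nat_lit 76) (nat_lit 41840943677) (nat_lit 9) (nat_lit 5) (nat_lit 11) (nat_lit 5) (nat_lit 10) (nat_lit 4) (nat_lit 343) (nat_lit 259) (nat_lit 178))) (XT.nd (nat_lit 78) (nat_lit 76) (nat_lit 0) (XT.lf (nat_lit 0) (nat_lit 14665192529) (nat_lit 152) (nat_lit 9421637000) (nat_lit 76) (nat_lit 54520328396) (nat_lit 9) (nat_lit 5) (nat_lit 11) (nat_lit 5) (nat_lit 10) (nat_lit 4) (nat_lit 344) (nat_lit 259) (nat_lit 177)) (XT.lf (nat_lit 0) (nat_lit 9905325806) (nat_lit 76) (nat_lit 14297676881)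 (nat_lit 152) (nat_lit 58008746056) (nat_lit 8) (nat_lit 5) (nat_lit 9) (nat_lit 5) (nat_lit 10) (nat_lit 4) (nat_lit 345) (nat_lit 259) (nat_lit 176)))))) (XT.nd (nat_lit 468) (nat_lit 152) (nat_lit 0) (XT.nd (nat_lit 234) (nat_lit 76) (nat_lit 0) (XT.nd (nat_lit 78) (nat_lit 0) (nat_lit 0) (XT.lf (nat_lit 0) (nat_lit 30362706403) (nat_lit 76) (nat_lit 3934146361) (nat_lit 152) (nat_lit 51697347589) (nat_lit 8) (nat_lit 5) (nat_lit 9) (nat_lit 5) (nat_lit 10) (nat_lit 4) (nat_lit 346) (nat_lit 259) (nat_lit 175)) (XT.nd (nat_lit 78) (nat_lit 0) (nat_lit 0) (XT.lf (nat_lit 0) (nat_lit 44945053840) (nat_lit 152) (nat_lit 38221232969) (nat_lit 0) (nat_lit 6798003442) (nat_lit 8) (nat_lit 5) (nat_lit 10) (nat_lit 4) (nat_lit 8) (nat_lit 4) (nat_lit 347) (nat_lit 259) (nat_lit 174)) (XT.lf (nat_lit 0) (nat_lit 56149063062) (nat_lit 152) (nat_lit 20010291279) (nat_lit 0) (nat_lit 17972833561)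 (nat_lit 8) (nat_lit 5) (nat_lit 10) (nat_lit 4) (nat_lit 8) (nat_lit 4) (nat_lit 348) (nat_lit 259) (nat_lit 173)))) (XT.nd (nat_lit 78) (nat_lit 76) (nat_lit 0) (XT.lf (nat_lit 0) (nat_lit 67897739222) (nat_lit 152) (nat_lit 917492074) (nat_lit 0) (nat_lit 29693720099) (nat_lit 8) (nat_lit 5) (nat_lit 10) (nat_lit 4) (nat_lit 8) (nat_lit 4) (nat_lit 349) (nat_lit 259) (nat_lit 172)) (XT.nd (nat_lit 78) (nat_lit 0) (nat_lit 0) (XT.lf (nat_lit 0) (nat_lit 19482803359) (nat_lit 76) (nat_lit 60923532624) (nat_lit 76) (nat_lit 22693047194) (nat_lit 7) (nat_lit 4) (nat_lit 8) (nat_lit 5) (nat_lit 8) (nat_lit 4) (nat_lit 350) (nat_lit 259) (nat_lit 171)) (XT.lf (nat_lit 0) (nat_lit 40895746270) (nat_lit 76) (nat_lit 52639716600) (nat_lit 76) (nat_lit 14384025163) (nat_lit 7) (nat_lit 4) (nat_lit 8) (nat_lit 5) (nat_lit 8) (nat_lit 4) (nat_lit 351) (nat_lit 259) (nat_lit 170))))) (XT.nd (nat_lit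 234) (nat_lit 76) (nat_lit 0) (XT.nd (nat_lit 78) (nat_lit 76) (nat_lit 0) (XT.lf (nat_lit 0) (nat_lit 63354059964) (nat_lit 76) (nat_lit 43953324722) (nat_lit 76) (nat_lit 5673627565) (nat_lit 7) (nat_lit 4) (nat_lit 8) (nat_lit 5) (nat_lit 8) (nat_lit 4) (nat_lit 352) (nat_lit 259) (nat_lit 169)) (XT.nd (nat_lit 78) (nat_lit 0) (nat_lit 0) (XT.lf (nat_lit 0) (nat_lit 3391389342) (nat_lit 152) (nat_lit 31418039382) (nat_lit 76) (nat_lit 83485580893) (nat_lit 6) (nat_lit 5) (nat_lit 8) (nat_lit 5) (nat_lit 7) (nat_lit 4) (nat_lit 353) (nat_lit 259) (nat_lit 168)) (XT.lf (nat_lit 0) (nat_lit 12780890745) (nat_lit 152) (nat_lit 12379125431) (nat_lit 76) (nat_lit 98713352019) (nat_lit 6) (nat_lit 5) (nat_lit 8) (nat_lit 5) (nat_lit 7) (nat_lit 4) (nat_lit 354) (nat_lit 259) (nat_lit 167)))) (XT.nd (nat_lit 156) (nat_lit 0) (nat_lit 0) (XT.nd (nat_lit 78) (nat_lit 0) (nat_lit 0) (XT.lf (nat_lit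 0) (nat_lit 7740707780) (nat_lit 76) (nat_lit 14961646144) (nat_lit 152) (nat_lit 107026419763) (nat_lit 5) (nat_lit 5) (nat_lit 6) (nat_lit 5) (nat_lit 7) (nat_lit 4) (nat_lit 355) (nat_lit 259) (nat_lit 166)) (XT.lf (nat_lit 0) (nat_lit 29103777230) (nat_lit 76) (nat_lit 4131985076) (nat_lit 152) (nat_lit 102637714406) (nat_lit 5) (nat_lit 5) (nat_lit 6) (nat_lit 5) (nat_lit 7) (nat_lit 4) (nat_lit 356) (nat_lit 259) (nat_lit 165))) (XT.nd (nat_lit 78) (nat_lit 0) (nat_lit 0) (XT.lf (nat_lit 0) (nat_lit 44354328211) (nat_lit 152) (nat_lit 90880666685) (nat_lit 0) (nat_lit 7088668634) (nat_lit 5) (nat_lit 5) (nat_lit 7) (nat_lit 4) (nat_lit 5) (nat_lit 4) (nat_lit 357) (nat_lit 259) (nat_lit 164)) (XT.lf (nat_lit 0) (nat_lit 56059955992) (nat_lit 152) (nat_lit 74258568064) (nat_lit 0) (nat_lit 18776904727) (nat_lit 5) (nat_lit 5) (nat_lit 7) (nat_lit 4) (nat_lit 5) (nat_lit 4) (nat_lit 358)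 (nat_lit 259) (nat_lit 163))))))) (XT.nd (nat_lit 33696) (nat_lit 0) (nat_lit 10564) (XT.nd (nat_lit 33150) (nat_lit 0) (nat_lit 20824) (XT.nd (nat_lit 32916) (nat_lit 0) (nat_lit 23256) (XT.nd (nat_lit 78) (nat_lit 0) (nat_lit 0) (XT.lf (nat_lit 0) (nat_lit 68340797023) (nat_lit 152) (nat_lit 56824108025) (nat_lit 0) (nat_lit 31041182246) (nat_lit 5) (nat_lit 5) (nat_lit 7) (nat_lit 4) (nat_lit 5) (nat_lit 4) (nat_lit 359) (nat_lit 259) (nat_lit 162)) (XT.nd (nat_lit 78) (nat_lit 0) (nat_lit 0) (XT.lf (nat_lit 0) (nat_lit 81226091402) (nat_lit 152) (nat_lit 38535775949) (nat_lit 0) (nat_lit 43910701853) (nat_lit 5) (nat_lit 5) (nat_lit 7) (nat_lit 4) (nat_lit 5) (nat_lit 4) (nat_lit 360) (nat_lit 259) (nat_lit 161)) (XT.lf (nat_lit 0) (nat_lit 94746518403) (nat_lit 152) (nat_lit 19350028189) (nat_lit 0) (nat_lit 57416105259) (nat_lit 5) (nat_lit 5) (nat_lit 7) (nat_lit 4) (nat_lit 5) (nat_lit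 4) (nat_lit 361) (nat_lit 259) (nat_lit 160)))) (XT.nd (nat_lit 78) (nat_lit 228) (nat_lit 0) (XT.lf (nat_lit 0) (nat_lit 0) (nat_lit 0) (nat_lit 0) (nat_lit 0) (nat_lit 1073741823) (nat_lit 1) (nat_lit 0) (nat_lit 1) (nat_lit 0) (nat_lit 314) (nat_lit 0) (nat_lit 260) (nat_lit 260) (nat_lit 260)) (XT.nd (nat_lit 78) (nat_lit 152) (nat_lit 0) (XT.lf (nat_lit 0) (nat_lit 4830538850) (nat_lit 76) (nat_lit 1489054294) (nat_lit 0) (nat_lit 126527050) (nat_lit 313) (nat_lit 5) (nat_lit 314) (nat_lit 0) (nat_lit 313) (nat_lit 4) (nat_lit 261) (nat_lit 260) (nat_lit 259)) (XT.lf (nat_lit 0) (nat_lit 3108887557) (nat_lit 152) (nat_lit 2872981297) (nat_lit 76) (nat_lit 476174866) (nat_lit 311) (nat_lit 5) (nat_lit 313) (nat_lit 5) (nat_lit 312) (nat_lit 4) (nat_lit 262) (nat_lit 260) (nat_lit 258))))) (XT.nd (nat_lit 234) (nat_lit 1596) (nat_lit 0) (XT.nd (nat_lit 78) (nat_lit 608) (nat_lit 0) (XT.lf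 (nat_lit 0) (nat_lit 1272248812) (nat_lit 228) (nat_lit 4156128326) (nat_lit 76) (nat_lit 1049869951) (nat_lit 308) (nat_lit 5) (nat_lit 311) (nat_lit 5) (nat_lit 309) (nat_lit 5) (nat_lit 263) (nat_lit 260) (nat_lit 257)) (XT.nd (nat_lit 78) (nat_lit 380) (nat_lit 0) (XT.lf (nat_lit 0) (nat_lit 1157265765) (nat_lit 228) (nat_lit 4650730143) (nat_lit 304) (nat_lit 698576577) (nat_lit 305) (nat_lit 5) (nat_lit 308) (nat_lit 5) (nat_lit 309) (nat_lit 5) (nat_lit 264) (nat_lit 260) (nat_lit 256)) (XT.lf (nat_lit 0) (nat_lit 79494187) (nat_lit 304) (nat_lit 3639676221) (nat_lit 380) (nat_lit 2823701402) (nat_lit 300) (nat_lit 5) (nat_lit 304) (nat_lit 5) (nat_lit 305) (nat_lit 5) (nat_lit 265) (nat_lit 260) (nat_lit 255)))) (XT.nd (nat_lit 156) (nat_lit 1140) (nat_lit 0) (XT.nd (nat_lit 78) (nat_lit 380) (nat_lit 0) (XT.lf (nat_lit 0) (nat_lit 1512068867) (nat_lit 380) (nat_lit 884379833) (nat_lit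 76) (nat_lit 4190888828) (nat_lit 299) (nat_lit 5) (nat_lit 304) (nat_lit 5) (nat_lit 300) (nat_lit 5) (nat_lit 266) (nat_lit 260) (nat_lit 254)) (XT.lf (nat_lit 0) (nat_lit 4876322126) (nat_lit 380) (nat_lit 918473806) (nat_lit 456) (nat_lit 845290828) (nat_lit 294) (nat_lit 5) (nat_lit 299) (nat_lit 5) (nat_lit 300) (nat_lit 5) (nat_lit 267) (nat_lit 260) (nat_lit 253))) (XT.nd (nat_lit 78) (nat_lit 608) (nat_lit 0) (XT.lf (nat_lit 0) (nat_lit 3331616297) (nat_lit 532) (nat_lit 2579207907) (nat_lit 76) (nat_lit 789958100) (nat_lit 287) (nat_lit 5) (nat_lit 294) (nat_lit 5) (nat_lit 288) (nat_lit 5) (nat_lit 268) (nat_lit 260) (nat_lit 252)) (XT.lf (nat_lit 0) (nat_lit 736259260) (nat_lit 608) (nat_lit 3322300305) (nat_lit 76) (nat_lit 2711340748) (nat_lit 279) (nat_lit 5) (nat_lit 287) (nat_lit 5) (nat_lit 280) (nat_lit 5) (nat_lit 269) (nat_lit 260) (nat_lit 251)))))) (XT.nd (nat_lit 546)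 (nat_lit 4180) (nat_lit 0) (XT.nd (nat_lit 234) (nat_lit 3952) (nat_lit 0) (XT.nd (nat_lit 78) (nat_lit 1520) (nat_lit 0) (XT.lf (nat_lit 0) (nat_lit 2840397599) (nat_lit 608) (nat_lit 1958918418) (nat_lit 684) (nat_lit 2047948958) (nat_lit 271) (nat_lit 5) (nat_lit 279) (nat_lit 5) (nat_lit 280) (nat_lit 5) (nat_lit 270) (nat_lit 260) (nat_lit 250)) (XT.nd (nat_lit 78) (nat_lit 760) (nat_lit 0) (XT.lf (nat_lit 0) (nat_lit 1929880606) (nat_lit 760) (nat_lit 4628502708) (nat_lit 76) (nat_lit 374880237) (nat_lit 261) (nat_lit 5) (nat_lit 271) (nat_lit 5) (nat_lit 262) (nat_lit 5) (nat_lit 271) (nat_lit 260) (nat_lit 249)) (XT.lf (nat_lit 0) (nat_lit 1816603232) (nat_lit 760) (nat_lit 4110761170) (nat_lit 836) (nat_lit 1100094468) (nat_lit 251) (nat_lit 5) (nat_lit 261) (nat_lit 5) (nat_lit 262) (nat_lit 5) (nat_lit 272) (nat_lit 260) (nat_lit 248)))) (XT.nd (nat_lit 156) (nat_lit 2128) (nat_lit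 0) (XT.nd (nat_lit 78) (nat_lit 912) (nat_lit 0) (XT.lf (nat_lit 0) (nat_lit 1382428560) (nat_lit 836) (nat_lit 1408929083) (nat_lit 912) (nat_lit 4338965011) (nat_lit 239) (nat_lit 5) (nat_lit 250) (nat_lit 5) (nat_lit 251) (nat_lit 5) (nat_lit 273) (nat_lit 260) (nat_lit 247)) (XT.lf (nat_lit 0) (nat_lit 998837410) (nat_lit 912) (nat_lit 5732345140) (nat_lit 988) (nat_lit 510874809) (nat_lit 227) (nat_lit 5) (nat_lit 239) (nat_lit 5) (nat_lit 240) (nat_lit 5) (nat_lit 274) (nat_lit 260) (nat_lit 246))) (XT.nd (nat_lit 78) (nat_lit 1064) (nat_lit 0) (XT.lf (nat_lit 0) (nat_lit 637216779) (nat_lit 988) (nat_lit 2687603110) (nat_lit 1064) (nat_lit 4037331718) (nat_lit 213) (nat_lit 5) (nat_lit 226) (nat_lit 5) (nat_lit 227) (nat_lit 5) (nat_lit 275) (nat_lit 260) (nat_lit 245)) (XT.lf (nat_lit 0) (nat_lit 328227831) (nat_lit 1064) (nat_lit 6899022108) (nat_lit 1140) (nat_lit 264592532) (nat_lit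 199) (nat_lit 5) (nat_lit 213) (nat_lit 5) (nat_lit 214) (nat_lit 5) (nat_lit 276) (nat_lit 260) (nat_lit 244))))) (XT.nd (nat_lit 234) (nat_lit 2280) (nat_lit 0) (XT.nd (nat_lit 78) (nat_lit 684) (nat_lit 0) (XT.lf (nat_lit 0) (nat_lit 13298758) (nat_lit 1140) (nat_lit 3526215336) (nat_lit 1216) (nat_lit 4090277510) (nat_lit 183) (nat_lit 5) (nat_lit 198) (nat_lit 5) (nat_lit 199) (nat_lit 5) (nat_lit 277) (nat_lit 260) (nat_lit 243)) (XT.nd (nat_lit 78) (nat_lit 684) (nat_lit 0) (XT.lf (nat_lit 0) (nat_lit 7427873913) (nat_lit 1216) (nat_lit 250136134) (nat_lit 76) (nat_lit 99836184) (nat_lit 183) (nat_lit 5) (nat_lit 199) (nat_lit 5) (nat_lit 184) (nat_lit 5) (nat_lit 278) (nat_lit 260) (nat_lit 242)) (XT.lf (nat_lit 0) (nat_lit 3446890164) (nat_lit 684) (nat_lit 539916601) (nat_lit 76) (nat_lit 3947536438) (nat_lit 174) (nat_lit 5) (nat_lit 183) (nat_lit 5) (nat_lit 175) (nat_lit 5) (nat_lit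 279) (nat_lit 260) (nat_lit 241)))) (XT.nd (nat_lit 156) (nat_lit 1064) (nat_lit 0) (XT.nd (nat_lit 78) (nat_lit 608) (nat_lit 0) (XT.lf (nat_lit 0) (nat_lit 7303381250) (nat_lit 608) (nat_lit 33614256) (nat_lit 684) (nat_lit 764486163) (nat_lit 166) (nat_lit 5) (nat_lit 174) (nat_lit 5) (nat_lit 175) (nat_lit 5) (nat_lit 280) (nat_lit 260) (nat_lit 240)) (XT.lf (nat_lit 0) (nat_lit 3041074164) (nat_lit 608) (nat_lit 1097506205) (nat_lit 76) (nat_lit 4138977263) (nat_lit 158) (nat_lit 5) (nat_lit 166) (nat_lit 5) (nat_lit 159) (nat_lit 5) (nat_lit 281) (nat_lit 260) (nat_lit 239))) (XT.nd (nat_lit 78) (nat_lit 532) (nat_lit 0) (XT.lf (nat_lit 0) (nat_lit 6947361348) (nat_lit 608) (nat_lit 1386522011) (nat_lit 76) (nat_lit 130750280) (nat_lit 151) (nat_lit 5) (nat_lit 159) (nat_lit 5) (nat_lit 152) (nat_lit 5) (nat_lit 282) (nat_lit 260) (nat_lit 238)) (XT.lf (nat_lit 0) (nat_lit 2314648947)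 (nat_lit 532) (nat_lit 1728159647) (nat_lit 76) (nat_lit 4618561050) (nat_lit 144) (nat_lit 5) (nat_lit 151) (nat_lit 5) (nat_lit 145) (nat_lit 5) (nat_lit 283) (nat_lit 260) (nat_lit 237))))))))
noncomputable def xc50 : XT := (XT.nd (nat_lit 2028) (nat_lit 2280) (nat_lit 0) (XT.nd (nat_lit 1014) (nat_lit 2812) (nat_lit 0) (XT.nd (nat_lit 468) (nat_lit 2204) (nat_lit 0) (XT.nd (nat_lit 234) (nat_lit 1216) (nat_lit 0) (XT.nd (nat_lit 78) (nat_lit 988) (nat_lit 0) (XT.lf (nat_lit 0) (nat_lit 6249569762) (nat_lit 608) (nat_lit 2087772424) (nat_lit 76) (nat_lit 532052001) (nat_lit 137) (nat_lit 5) (nat_lit 145) (nat_lit 5) (nat_lit 138) (nat_lit 5) (nat_lit 284) (nat_lit 260) (nat_lit 236)) (XT.nd (nat_lit 78) (nat_lit 456) (nat_lit 0) (XT.lf (nat_lit 0) (nat_lit 1252729027) (nat_lit 532) (nat_lit 2507221545) (nat_lit 76) (nat_lit 5328131738) (nat_lit 130) (nat_lit 5) (nat_lit 137) (nat_lit 5)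 (nat_lit 131) (nat_lit 5) (nat_lit 285) (nat_lit 260) (nat_lit 235)) (XT.lf (nat_lit 0) (nat_lit 5225159387) (nat_lit 532) (nat_lit 2980918146) (nat_lit 76) (nat_lit 1112199912) (nat_lit 124) (nat_lit 5) (nat_lit 131) (nat_lit 5) (nat_lit 125) (nat_lit 5) (nat_lit 286) (nat_lit 260) (nat_lit 234)))) (XT.nd (nat_lit 78) (nat_lit 836) (nat_lit 0) (XT.lf (nat_lit 0) (nat_lit 6039622428) (nat_lit 380) (nat_lit 3349605494) (nat_lit 456) (nat_lit 171119827) (nat_lit 119) (nat_lit 5) (nat_lit 124) (nat_lit 5) (nat_lit 125) (nat_lit 5) (nat_lit 287) (nat_lit 260) (nat_lit 233)) (XT.nd (nat_lit 78) (nat_lit 380) (nat_lit 0) (XT.lf (nat_lit 0) (nat_lit 3847517666) (nat_lit 456) (nat_lit 4155592703) (nat_lit 76) (nat_lit 1811090368) (nat_lit 113) (nat_lit 5) (nat_lit 119) (nat_lit 5) (nat_lit 114) (nat_lit 5) (nat_lit 288) (nat_lit 260) (nat_lit 232)) (XT.lf (nat_lit 0) (nat_lit 5201888716) (nat_lit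 380) (nat_lit 2860599177) (nat_lit 456) (nat_lit 2018376754) (nat_lit 108) (nat_lit 5) (nat_lit 113) (nat_lit 5) (nat_lit 114) (nat_lit 5) (nat_lit 289) (nat_lit 260) (nat_lit 231))))) (XT.nd (nat_lit 234) (nat_lit 1064) (nat_lit 0) (XT.nd (nat_lit 78) (nat_lit 684) (nat_lit 0) (XT.lf (nat_lit 0) (nat_lit 2080647953) (nat_lit 456) (nat_lit 5714235292) (nat_lit 76) (nat_lit 2565647522) (nat_lit 102) (nat_lit 5) (nat_lit 108) (nat_lit 5) (nat_lit 103) (nat_lit 5) (nat_lit 290) (nat_lit 260) (nat_lit 230)) (XT.nd (nat_lit 78) (nat_lit 380) (nat_lit 0) (XT.lf (nat_lit 0) (nat_lit 3973460206) (nat_lit 304) (nat_lit 2373035717) (nat_lit 380) (nat_lit 4307097205) (nat_lit 98) (nat_lit 5) (nat_lit 102) (nat_lit 5) (nat_lit 103) (nat_lit 5) (nat_lit 291) (nat_lit 260) (nat_lit 229)) (XT.lf (nat_lit 0) (nat_lit 3184874784) (nat_lit 380) (nat_lit 7651821506) (nat_lit 456) (nat_lit 124395667) (nat_lit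 93) (nat_lit 5) (nat_lit 98) (nat_lit 5) (nat_lit 99) (nat_lit 5) (nat_lit 292) (nat_lit 260) (nat_lit 228)))) (XT.nd (nat_lit 156) (nat_lit 380) (nat_lit 0) (XT.nd (nat_lit 78) (nat_lit 304) (nat_lit 0) (XT.lf (nat_lit 0) (nat_lit 2230558159) (nat_lit 304) (nat_lit 1960286850) (nat_lit 380) (nat_lit 7091796235) (nat_lit 88) (nat_lit 5) (nat_lit 92) (nat_lit 5) (nat_lit 93) (nat_lit 5) (nat_lit 293) (nat_lit 260) (nat_lit 227)) (XT.lf (nat_lit 0) (nat_lit 1116699153) (nat_lit 304) (nat_lit 7628003519) (nat_lit 380) (nat_lit 2874866947) (nat_lit 84) (nat_lit 5) (nat_lit 88) (nat_lit 5) (nat_lit 89) (nat_lit 5) (nat_lit 294) (nat_lit 260) (nat_lit 226))) (XT.nd (nat_lit 78) (nat_lit 304) (nat_lit 0) (XT.lf (nat_lit 0) (nat_lit 1534245206) (nat_lit 380) (nat_lit 167771371) (nat_lit 76) (nat_lit 10270624593) (nat_lit 83) (nat_lit 5) (nat_lit 88) (nat_lit 5) (nat_lit 84) (nat_lit 5) (nat_lit 295)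 (nat_lit 260) (nat_lit 225)) (XT.lf (nat_lit 0) (nat_lit 6155008058) (nat_lit 380) (nat_lit 1660184273) (nat_lit 76) (nat_lit 4525889789) (nat_lit 79) (nat_lit 5) (nat_lit 84) (nat_lit 5) (nat_lit 80) (nat_lit 5) (nat_lit 296) (nat_lit 260) (nat_lit 224)))))) (XT.nd (nat_lit 468) (nat_lit 1368) (nat_lit 0) (XT.nd (nat_lit 234) (nat_lit 532) (nat_lit 0) (XT.nd (nat_lit 78) (nat_lit 608) (nat_lit 0) (XT.lf (nat_lit 0) (nat_lit 9377042960) (nat_lit 304) (nat_lit 1644412184) (nat_lit 380) (nat_lit 1706135634) (nat_lit 75) (nat_lit 5) (nat_lit 79) (nat_lit 5) (nat_lit 80) (nat_lit 5) (nat_lit 297) (nat_lit 260) (nat_lit 223)) (XT.nd (nat_lit 78) (nat_lit 304) (nat_lit 0) (XT.lf (nat_lit 0) (nat_lit 2987196503) (nat_lit 304) (nat_lit 5321991212) (nat_lit 76) (nat_lit 4822014450) (nat_lit 71) (nat_lit 5) (nat_lit 75) (nat_lit 5) (nat_lit 72) (nat_lit 5) (nat_lit 298) (nat_lit 260) (nat_lit 222))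 (XT.lf (nat_lit 0) (nat_lit 5992944691) (nat_lit 304) (nat_lit 1906892602) (nat_lit 380) (nat_lit 5654127117) (nat_lit 67) (nat_lit 5) (nat_lit 71) (nat_lit 5) (nat_lit 72) (nat_lit 5) (nat_lit 299) (nat_lit 260) (nat_lit 221)))) (XT.nd (nat_lit 78) (nat_lit 304) (nat_lit 0) (XT.lf (nat_lit 0) (nat_lit 3886323551) (nat_lit 228) (nat_lit 9223932165) (nat_lit 304) (nat_lit 886116008) (nat_lit 64) (nat_lit 5) (nat_lit 67) (nat_lit 5) (nat_lit 68) (nat_lit 5) (nat_lit 300) (nat_lit 260) (nat_lit 220)) (XT.nd (nat_lit 78) (nat_lit 0) (nat_lit 0) (XT.lf (nat_lit 0) (nat_lit 1444749860) (nat_lit 228) (nat_lit 2622065013) (nat_lit 304) (nat_lit 10392154645) (nat_lit 60) (nat_lit 5) (nat_lit 63) (nat_lit 5) (nat_lit 64) (nat_lit 5) (nat_lit 301) (nat_lit 260) (nat_lit 219)) (XT.lf (nat_lit 0) (nat_lit 9313364718) (nat_lit 304) (nat_lit 1332108617) (nat_lit 76) (nat_lit 4297094512) (nat_lit 60) (nat_lit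 5) (nat_lit 64) (nat_lit 5) (nat_lit 61) (nat_lit 5) (nat_lit 302) (nat_lit 260) (nat_lit 218))))) (XT.nd (nat_lit 234) (nat_lit 684) (nat_lit 0) (XT.nd (nat_lit 78) (nat_lit 456) (nat_lit 0) (XT.lf (nat_lit 0) (nat_lit 11000698340) (nat_lit 228) (nat_lit 3875272853) (nat_lit 304) (nat_lit 572822844) (nat_lit 57) (nat_lit 5) (nat_lit 60) (nat_lit 5) (nat_lit 61) (nat_lit 5) (nat_lit 303) (nat_lit 260) (nat_lit 217)) (XT.nd (nat_lit 78) (nat_lit 152) (nat_lit 0) (XT.lf (nat_lit 0) (nat_lit 4689922119) (nat_lit 304) (nat_lit 8022038378) (nat_lit 76) (nat_lit 3265681397) (nat_lit 53) (nat_lit 5) (nat_lit 57) (nat_lit 5) (nat_lit 54) (nat_lit 5) (nat_lit 304) (nat_lit 260) (nat_lit 216)) (XT.lf (nat_lit 0) (nat_lit 4464506354) (nat_lit 152) (nat_lit 5793275827) (nat_lit 228) (nat_lit 6273417752) (nat_lit 51) (nat_lit 5) (nat_lit 53) (nat_lit 5) (nat_lit 54) (nat_lit 5) (nat_lit 305) (nat_lit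 260) (nat_lit 215)))) (XT.nd (nat_lit 156) (nat_lit 380) (nat_lit 0) (XT.nd (nat_lit 78) (nat_lit 76) (nat_lit 0) (XT.lf (nat_lit 0) (nat_lit 511515838) (nat_lit 228) (nat_lit 15622456942) (nat_lit 304) (nat_lit 977615137) (nat_lit 48) (nat_lit 5) (nat_lit 51) (nat_lit 5) (nat_lit 52) (nat_lit 5) (nat_lit 306) (nat_lit 260) (nat_lit 214)) (XT.lf (nat_lit 0) (nat_lit 4606569175) (nat_lit 304) (nat_lit 3964909487) (nat_lit 76) (nat_lit 9144850734) (nat_lit 47) (nat_lit 5) (nat_lit 51) (nat_lit 5) (nat_lit 48) (nat_lit 5) (nat_lit 307) (nat_lit 260) (nat_lit 213))) (XT.nd (nat_lit 78) (nat_lit 228) (nat_lit 0) (XT.lf (nat_lit 0) (nat_lit 9365685405) (nat_lit 152) (nat_lit 1106754606) (nat_lit 228) (nat_lit 7877940859) (nat_lit 45) (nat_lit 5) (nat_lit 47) (nat_lit 5) (nat_lit 48) (nat_lit 5) (nat_lit 308) (nat_lit 260) (nat_lit 212)) (XT.lf (nat_lit 0) (nat_lit 4342691386) (nat_lit 228) (nat_lit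 12370864369) (nat_lit 304) (nat_lit 2300162697) (nat_lit 42) (nat_lit 5) (nat_lit 45) (nat_lit 5) (nat_lit 46) (nat_lit 5) (nat_lit 309) (nat_lit 260) (nat_lit 211))))))) (XT.nd (nat_lit 1014) (nat_lit 836) (nat_lit 0) (XT.nd (nat_lit 468) (nat_lit 684) (nat_lit 0) (XT.nd (nat_lit 234) (nat_lit 380) (nat_lit 0) (XT.nd (nat_lit 78) (nat_lit 304) (nat_lit 0) (XT.lf (nat_lit 0) (nat_lit 3527417981) (nat_lit 304) (nat_lit 1335447588) (nat_lit 76) (nat_lit 14845161214) (nat_lit 41) (nat_lit 5) (nat_lit 45) (nat_lit 5) (nat_lit 42) (nat_lit 5) (nat_lit 310) (nat_lit 260) (nat_lit 210)) (XT.nd (nat_lit 78) (nat_lit 152) (nat_lit 0) (XT.lf (nat_lit 0) (nat_lit 9691116840) (nat_lit 228) (nat_lit 7672200671) (nat_lit 76) (nat_lit 3070317552) (nat_lit 39) (nat_lit 5) (nat_lit 42) (nat_lit 5) (nat_lit 40) (nat_lit 5) (nat_lit 311) (nat_lit 260) (nat_lit 209)) (XT.lf (nat_lit 0) (nat_lit 6371641000) (nat_lit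 152) (nat_lit 9855970970) (nat_lit 228) (nat_lit 4966008736) (nat_lit 37) (nat_lit 5) (nat_lit 39) (nat_lit 5) (nat_lit 40) (nat_lit 5) (nat_lit 312) (nat_lit 260) (nat_lit 208)))) (XT.nd (nat_lit 78) (nat_lit 304) (nat_lit 0) (XT.lf (nat_lit 0) (nat_lit 1099338330) (nat_lit 228) (nat_lit 820357673) (nat_lit 76) (nat_lit 20070981315) (nat_lit 36) (nat_lit 5) (nat_lit 39) (nat_lit 5) (nat_lit 37) (nat_lit 5) (nat_lit 313) (nat_lit 260) (nat_lit 207)) (XT.nd (nat_lit 78) (nat_lit 152) (nat_lit 0) (XT.lf (nat_lit 0) (nat_lit 7508487404) (nat_lit 228) (nat_lit 8875336790) (nat_lit 76) (nat_lit 6438021408) (nat_lit 34) (nat_lit 5) (nat_lit 37) (nat_lit 5) (nat_lit 35) (nat_lit 5) (nat_lit 314) (nat_lit 260) (nat_lit 206)) (XT.lf (nat_lit 0) (nat_lit 5776057506) (nat_lit 152) (nat_lit 8491364888) (nat_lit 228) (nat_lit 9426299649) (nat_lit 32) (nat_lit 5) (nat_lit 34) (nat_lit 5) (nat_lit 35) (nat_lit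 5) (nat_lit 315) (nat_lit 260) (nat_lit 205))))) (XT.nd (nat_lit 234) (nat_lit 304) (nat_lit 0) (XT.nd (nat_lit 78) (nat_lit 380) (nat_lit 0) (XT.lf (nat_lit 0) (nat_lit 21256382246) (nat_lit 152) (nat_lit 146906268) (nat_lit 228) (nat_lit 3204762444) (nat_lit 32) (nat_lit 5) (nat_lit 34) (nat_lit 5) (nat_lit 35) (nat_lit 5) (nat_lit 316) (nat_lit 260) (nat_lit 204)) (XT.nd (nat_lit 78) (nat_lit 152) (nat_lit 0) (XT.lf (nat_lit 0) (nat_lit 3412370645) (nat_lit 228) (nat_lit 13589051451) (nat_lit 76) (nat_lit 8561256882) (nat_lit 29) (nat_lit 5) (nat_lit 32) (nat_lit 5) (nat_lit 30) (nat_lit 5) (nat_lit 317) (nat_lit 260) (nat_lit 203)) (XT.lf (nat_lit 0) (nat_lit 1481373609) (nat_lit 152) (nat_lit 8814750281) (nat_lit 228) (nat_lit 16267926132) (nat_lit 27) (nat_lit 5) (nat_lit 29) (nat_lit 5) (nat_lit 30) (nat_lit 5) (nat_lit 318) (nat_lit 260) (nat_lit 202)))) (XT.nd (nat_lit 156) (nat_lit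 228) (nat_lit 0) (XT.nd (nat_lit 78) (nat_lit 76) (nat_lit 0) (XT.lf (nat_lit 0) (nat_lit 17507128038) (nat_lit 152) (nat_lit 109234323) (nat_lit 228) (nat_lit 9996381970) (nat_lit 27) (nat_lit 5) (nat_lit 29) (nat_lit 5) (nat_lit 30) (nat_lit 5) (nat_lit 319) (nat_lit 260) (nat_lit 201)) (XT.lf (nat_lit 0) (nat_lit 5562712261) (nat_lit 76) (nat_lit 19834549472) (nat_lit 152) (nat_lit 3313794664) (nat_lit 26) (nat_lit 5) (nat_lit 27) (nat_lit 5) (nat_lit 28) (nat_lit 4) (nat_lit 320) (nat_lit 260) (nat_lit 200))) (XT.nd (nat_lit 78) (nat_lit 152) (nat_lit 0) (XT.lf (nat_lit 0) (nat_lit 3692159543) (nat_lit 152) (nat_lit 7751208020) (nat_lit 76) (nat_lit 18418024630) (nat_lit 25) (nat_lit 5) (nat_lit 27) (nat_lit 5) (nat_lit 26) (nat_lit 5) (nat_lit 321) (nat_lit 260) (nat_lit 199)) (XT.lf (nat_lit 0) (nat_lit 8473444978) (nat_lit 152) (nat_lit 2545982067) (nat_lit 228) (nat_lit 20047666766)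 (nat_lit 23) (nat_lit 5) (nat_lit 25) (nat_lit 5) (nat_lit 26) (nat_lit 5) (nat_lit 322) (nat_lit 260) (nat_lit 198)))))) (XT.nd (nat_lit 546) (nat_lit 456) (nat_lit 0) (XT.nd (nat_lit 234) (nat_lit 228) (nat_lit 0) (XT.nd (nat_lit 78) (nat_lit 152) (nat_lit 0) (XT.lf (nat_lit 0) (nat_lit 18817466039) (nat_lit 228) (nat_lit 6798568954) (nat_lit 76) (nat_lit 6713932154) (nat_lit 23) (nat_lit 5) (nat_lit 26) (nat_lit 5) (nat_lit 24) (nat_lit 4) (nat_lit 323) (nat_lit 260) (nat_lit 197)) (XT.nd (nat_lit 78) (nat_lit 76) (nat_lit 0) (XT.lf (nat_lit 0) (nat_lit 9883846357) (nat_lit 76) (nat_lit 17202740100) (nat_lit 152) (nat_lit 6566980290) (nat_lit 22) (nat_lit 5) (nat_lit 23) (nat_lit 5) (nat_lit 24) (nat_lit 4) (nat_lit 324) (nat_lit 260) (nat_lit 196)) (XT.lf (nat_lit 0) (nat_lit 743640681) (nat_lit 152) (nat_lit 7574846788) (nat_lit 76) (nat_lit 26723706554) (nat_lit 21) (nat_lit 5) (nat_lit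 23) (nat_lit 5) (nat_lit 22) (nat_lit 5) (nat_lit 325) (nat_lit 260) (nat_lit 195)))) (XT.nd (nat_lit 156) (nat_lit 76) (nat_lit 0) (XT.nd (nat_lit 78) (nat_lit 0) (nat_lit 0) (XT.lf (nat_lit 0) (nat_lit 8350547573) (nat_lit 228) (nat_lit 27024228516) (nat_lit 76) (nat_lit 1121544716) (nat_lit 19) (nat_lit 5) (nat_lit 22) (nat_lit 5) (nat_lit 20) (nat_lit 4) (nat_lit 326) (nat_lit 260) (nat_lit 194)) (XT.lf (nat_lit 0) (nat_lit 16464542055) (nat_lit 228) (nat_lit 10639957564) (nat_lit 76) (nat_lit 10914867121) (nat_lit 19) (nat_lit 5) (nat_lit 22) (nat_lit 5) (nat_lit 20) (nat_lit 4) (nat_lit 327) (nat_lit 260) (nat_lit 193))) (XT.nd (nat_lit 78) (nat_lit 0) (nat_lit 0) (XT.lf (nat_lit 0) (nat_lit 6631910135) (nat_lit 76) (nat_lit 18381822128) (nat_lit 152) (nat_lit 14603962190) (nat_lit 18) (nat_lit 5) (nat_lit 19) (nat_lit 5) (nat_lit 20) (nat_lit 4) (nat_lit 328) (nat_lit 260) (nat_lit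 192)) (XT.lf (nat_lit 0) (nat_lit 24930435178) (nat_lit 76) (nat_lit 9136283114) (nat_lit 152) (nat_lit 7226943851) (nat_lit 18) (nat_lit 5) (nat_lit 19) (nat_lit 5) (nat_lit 20) (nat_lit 4) (nat_lit 329) (nat_lit 260) (nat_lit 191))))) (XT.nd (nat_lit 234) (nat_lit 228) (nat_lit 0) (XT.nd (nat_lit 78) (nat_lit 0) (nat_lit 0) (XT.lf (nat_lit 0) (nat_lit 492344689) (nat_lit 228) (nat_lit 42010516887) (nat_lit 76) (nat_lit 550923281) (nat_lit 15) (nat_lit 5) (nat_lit 18) (nat_lit 5) (nat_lit 16) (nat_lit 4) (nat_lit 330) (nat_lit 260) (nat_lit 190)) (XT.nd (nat_lit 78) (nat_lit 0) (nat_lit 0) (XT.lf (nat_lit 0) (nat_lit 8680664384) (nat_lit 228) (nat_lit 25457828413) (nat_lit 76) (nat_lit 10754310408) (nat_lit 15) (nat_lit 5) (nat_lit 18) (nat_lit 5) (nat_lit 16) (nat_lit 4) (nat_lit 331) (nat_lit 260) (nat_lit 189)) (XT.lf (nat_lit 0) (nat_lit 17248699246) (nat_lit 228) (nat_lit 8131003839)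 (nat_lit 76) (nat_lit 21444971881) (nat_lit 15) (nat_lit 5) (nat_lit 18) (nat_lit 5) (nat_lit 16) (nat_lit 4) (nat_lit 332) (nat_lit 260) (nat_lit 188)))) (XT.nd (nat_lit 156) (nat_lit 152) (nat_lit 0) (XT.nd (nat_lit 78) (nat_lit 0) (nat_lit 0) (XT.lf (nat_lit 0) (nat_lit 10210453910) (nat_lit 76) (nat_lit 16104544577) (nat_lit 152) (nat_lit 22536056874) (nat_lit 14) (nat_lit 5) (nat_lit 15) (nat_lit 5) (nat_lit 16) (nat_lit 4) (nat_lit 333) (nat_lit 260) (nat_lit 187)) (XT.lf (nat_lit 0) (nat_lit 29589408323) (nat_lit 76) (nat_lit 6301490631) (nat_lit 152) (nat_lit 15086177641) (nat_lit 14) (nat_lit 5) (nat_lit 15) (nat_lit 5) (nat_lit 16) (nat_lit 4) (nat_lit 334) (nat_lit 260) (nat_lit 186))) (XT.nd (nat_lit 78) (nat_lit 152) (nat_lit 0) (XT.lf (nat_lit 0) (nat_lit 45957653407) (nat_lit 152) (nat_lit 3358183970) (nat_lit 0) (nat_lit 3893209655) (nat_lit 14) (nat_lit 5) (nat_lit 16) (nat_lit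 4) (nat_lit 14) (nat_lit 4) (nat_lit 335) (nat_lit 260) (nat_lit 185)) (XT.lf (nat_lit 0) (nat_lit 1148123367) (nat_lit 152) (nat_lit 39786698770) (nat_lit 76) (nat_lit 14611761148) (nat_lit 12) (nat_lit 5) (nat_lit 14) (nat_lit 5) (nat_lit 13) (nat_lit 4) (nat_lit 336) (nat_lit 260) (nat_lit 184))))))))
noncomputable def xc51 : XT := (XT.nd (nat_lit 34788) (nat_lit 0) (nat_lit 8208) (XT.nd (nat_lit 1014) (nat_lit 228) (nat_lit 0) (XT.nd (nat_lit 468) (nat_lit 152) (nat_lit 0) (XT.nd (nat_lit 234) (nat_lit 76) (nat_lit 0) (XT.nd (nat_lit 78) (nat_lit 76) (nat_lit 0) (XT.lf (nat_lit 0) (nat_lit 9829412850) (nat_lit 152) (nat_lit 22214105361) (nat_lit 76) (nat_lit 25954979990) (nat_lit 12) (nat_lit 5) (nat_lit 14) (nat_lit 5) (nat_lit 13) (nat_lit 4) (nat_lit 337) (nat_lit 260) (nat_lit 183)) (XT.nd (nat_lit 78) (nat_lit 76) (nat_lit 0) (XT.lf (nat_lit 0) (nat_lit 18921396022) (nat_lit 152)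 (nat_lit 3805402610) (nat_lit 76) (nat_lit 37846919665) (nat_lit 12) (nat_lit 5) (nat_lit 14) (nat_lit 5) (nat_lit 13) (nat_lit 4) (nat_lit 338) (nat_lit 260) (nat_lit 182)) (XT.lf (nat_lit 0) (nat_lit 15791386556) (nat_lit 76) (nat_lit 12806130373) (nat_lit 152) (nat_lit 34676304228) (nat_lit 11) (nat_lit 5) (nat_lit 12) (nat_lit 5) (nat_lit 13) (nat_lit 4) (nat_lit 339) (nat_lit 260) (nat_lit 181)))) (XT.nd (nat_lit 78) (nat_lit 76) (nat_lit 0) (XT.lf (nat_lit 0) (nat_lit 36408202149) (nat_lit 76) (nat_lit 2366838893) (nat_lit 152) (nat_lit 27333367741) (nat_lit 11) (nat_lit 5) (nat_lit 12) (nat_lit 5) (nat_lit 13) (nat_lit 4) (nat_lit 340) (nat_lit 260) (nat_lit 180)) (XT.nd (nat_lit 78) (nat_lit 76) (nat_lit 0) (XT.lf (nat_lit 0) (nat_lit 49523344911) (nat_lit 152) (nat_lit 11149404796) (nat_lit 0) (nat_lit 8410126157) (nat_lit 11) (nat_lit 5) (nat_lit 13) (nat_lit 4) (nat_lit 11) (nat_lit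 4) (nat_lit 341) (nat_lit 260) (nat_lit 179)) (XT.lf (nat_lit 0) (nat_lit 8433499111) (nat_lit 76) (nat_lit 52460796896) (nat_lit 76) (nat_lit 11309220168) (nat_lit 10) (nat_lit 4) (nat_lit 11) (nat_lit 5) (nat_lit 11) (nat_lit 4) (nat_lit 342) (nat_lit 260) (nat_lit 178))))) (XT.nd (nat_lit 234) (nat_lit 76) (nat_lit 0) (XT.nd (nat_lit 78) (nat_lit 76) (nat_lit 0) (XT.lf (nat_lit 0) (nat_lit 29193456377) (nat_lit 76) (nat_lit 43735988629) (nat_lit 76) (nat_lit 2547880498) (nat_lit 10) (nat_lit 4) (nat_lit 11) (nat_lit 5) (nat_lit 11) (nat_lit 4) (nat_lit 343) (nat_lit 260) (nat_lit 177)) (XT.nd (nat_lit 78) (nat_lit 0) (nat_lit 0) (XT.lf (nat_lit 0) (nat_lit 6503332201) (nat_lit 152) (nat_lit 28021135575) (nat_lit 76) (nat_lit 44388997350) (nat_lit 9) (nat_lit 5) (nat_lit 11) (nat_lit 5) (nat_lit 10) (nat_lit 4) (nat_lit 344) (nat_lit 260) (nat_lit 176)) (XT.lf (nat_lit 0) (nat_lit 15937378702)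 (nat_lit 152) (nat_lit 8903156238) (nat_lit 76) (nat_lit 57680636710) (nat_lit 9) (nat_lit 5) (nat_lit 11) (nat_lit 5) (nat_lit 10) (nat_lit 4) (nat_lit 345) (nat_lit 260) (nat_lit 175)))) (XT.nd (nat_lit 156) (nat_lit 0) (nat_lit 0) (XT.nd (nat_lit 78) (nat_lit 0) (nat_lit 0) (XT.lf (nat_lit 0) (nat_lit 11361789095) (nat_lit 76) (nat_lit 14573866717) (nat_lit 152) (nat_lit 60370837301) (nat_lit 8) (nat_lit 5) (nat_lit 9) (nat_lit 5) (nat_lit 10) (nat_lit 4) (nat_lit 346) (nat_lit 260) (nat_lit 174)) (XT.lf (nat_lit 0) (nat_lit 32796267436) (nat_lit 76) (nat_lit 3713049863) (nat_lit 152) (nat_lit 53769504437) (nat_lit 8) (nat_lit 5) (nat_lit 9) (nat_lit 5) (nat_lit 10) (nat_lit 4) (nat_lit 347) (nat_lit 260) (nat_lit 173))) (XT.nd (nat_lit 78) (nat_lit 0) (nat_lit 0) (XT.lf (nat_lit 0) (nat_lit 47670057086) (nat_lit 152) (nat_lit 39249915416) (nat_lit 0) (nat_lit 7528047385) (nat_lit 8) (nat_lit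 5) (nat_lit 10) (nat_lit 4) (nat_lit 8) (nat_lit 4) (nat_lit 348) (nat_lit 260) (nat_lit 172)) (XT.lf (nat_lit 0) (nat_lit 59411516743) (nat_lit 152) (nat_lit 20170444698) (nat_lit 0) (nat_lit 19243040735) (nat_lit 8) (nat_lit 5) (nat_lit 10) (nat_lit 4) (nat_lit 8) (nat_lit 4) (nat_lit 349) (nat_lit 260) (nat_lit 171)))))) (XT.nd (nat_lit 468) (nat_lit 76) (nat_lit 0) (XT.nd (nat_lit 234) (nat_lit 76) (nat_lit 0) (XT.nd (nat_lit 78) (nat_lit 76) (nat_lit 0) (XT.lf (nat_lit 0) (nat_lit 71725960020) (nat_lit 152) (nat_lit 163022730) (nat_lit 0) (nat_lit 31532278005) (nat_lit 8) (nat_lit 5) (nat_lit 10) (nat_lit 4) (nat_lit 8) (nat_lit 4) (nat_lit 350) (nat_lit 260) (nat_lit 170)) (XT.nd (nat_lit 78) (nat_lit 0) (nat_lit 0) (XT.lf (nat_lit 0) (nat_lit 21234345775) (nat_lit 76) (nat_lit 63612478765) (nat_lit 76) (nat_lit 23394791029) (nat_lit 7) (nat_lit 4) (nat_lit 8) (nat_lit 5) (nat_lit 8)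 (nat_lit 4) (nat_lit 351) (nat_lit 260) (nat_lit 169)) (XT.lf (nat_lit 0) (nat_lit 43680916677) (nat_lit 76) (nat_lit 54931482915) (nat_lit 76) (nat_lit 14690932588) (nat_lit 7) (nat_lit 4) (nat_lit 8) (nat_lit 5) (nat_lit 8) (nat_lit 4) (nat_lit 352) (nat_lit 260) (nat_lit 168)))) (XT.nd (nat_lit 78) (nat_lit 76) (nat_lit 0) (XT.lf (nat_lit 0) (nat_lit 67226889719) (nat_lit 76) (nat_lit 45826972373) (nat_lit 76) (nat_lit 5564648150) (nat_lit 7) (nat_lit 4) (nat_lit 8) (nat_lit 5) (nat_lit 8) (nat_lit 4) (nat_lit 353) (nat_lit 260) (nat_lit 167)) (XT.nd (nat_lit 78) (nat_lit 0) (nat_lit 0) (XT.lf (nat_lit 0) (nat_lit 3927624111) (nat_lit 152) (nat_lit 32309984320) (nat_lit 76) (nat_lit 87961041327) (nat_lit 6) (nat_lit 5) (nat_lit 8) (nat_lit 5) (nat_lit 7) (nat_lit 4) (nat_lit 354) (nat_lit 260) (nat_lit 166)) (XT.lf (nat_lit 0) (nat_lit 13769140331) (nat_lit 152) (nat_lit 12351455958) (nat_lit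 76) (nat_lit 103935859038) (nat_lit 6) (nat_lit 5) (nat_lit 8) (nat_lit 5) (nat_lit 7) (nat_lit 4) (nat_lit 355) (nat_lit 260) (nat_lit 165))))) (XT.nd (nat_lit 234) (nat_lit 0) (nat_lit 0) (XT.nd (nat_lit 78) (nat_lit 0) (nat_lit 0) (XT.lf (nat_lit 0) (nat_lit 8755833517) (nat_lit 76) (nat_lit 15420251930) (nat_lit 152) (nat_lit 112028868391) (nat_lit 5) (nat_lit 5) (nat_lit 6) (nat_lit 5) (nat_lit 7) (nat_lit 4) (nat_lit 356) (nat_lit 260) (nat_lit 164)) (XT.nd (nat_lit 78) (nat_lit 0) (nat_lit 0) (XT.lf (nat_lit 0) (nat_lit 31157147375) (nat_lit 76) (nat_lit 4062892405) (nat_lit 152) (nat_lit 107437340735) (nat_lit 5) (nat_lit 5) (nat_lit 6) (nat_lit 5) (nat_lit 7) (nat_lit 4) (nat_lit 357) (nat_lit 260) (nat_lit 163)) (XT.lf (nat_lit 0) (nat_lit 46881701267) (nat_lit 152) (nat_lit 94848222690) (nat_lit 0) (nat_lit 7700542240) (nat_lit 5) (nat_lit 5) (nat_lit 7) (nat_lit 4) (nat_lit 5)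 (nat_lit 4) (nat_lit 358) (nat_lit 260) (nat_lit 162)))) (XT.nd (nat_lit 156) (nat_lit 0) (nat_lit 0) (XT.nd (nat_lit 78) (nat_lit 0) (nat_lit 0) (XT.lf (nat_lit 0) (nat_lit 59157864882) (nat_lit 152) (nat_lit 77422470439) (nat_lit 0) (nat_lit 19960931082) (nat_lit 5) (nat_lit 5) (nat_lit 7) (nat_lit 4) (nat_lit 5) (nat_lit 4) (nat_lit 359) (nat_lit 260) (nat_lit 161)) (XT.lf (nat_lit 0) (nat_lit 72038704579) (nat_lit 152) (nat_lit 59142431495) (nat_lit 0) (nat_lit 32826747185) (nat_lit 5) (nat_lit 5) (nat_lit 7) (nat_lit 4) (nat_lit 5) (nat_lit 4) (nat_lit 360) (nat_lit 260) (nat_lit 160))) (XT.nd (nat_lit 32838) (nat_lit 0) (nat_lit 23180) (XT.lf (nat_lit 0) (nat_lit 85554889025) (nat_lit 152) (nat_lit 39964581955) (nat_lit 0) (nat_lit 46328623447) (nat_lit 5) (nat_lit 5) (nat_lit 7) (nat_lit 4) (nat_lit 5) (nat_lit 4) (nat_lit 361) (nat_lit 260) (nat_lit 159)) (XT.lf (nat_lit 0) (nat_lit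 1496723096) (nat_lit 228) (nat_lit 865112688) (nat_lit 228) (nat_lit 865112688) (nat_lit 310) (nat_lit 3) (nat_lit 313) (nat_lit 3) (nat_lit 313) (nat_lit 5) (nat_lit 261) (nat_lit 261) (nat_lit 258))))))) (XT.nd (nat_lit 1014) (nat_lit 9500) (nat_lit 0) (XT.nd (nat_lit 468) (nat_lit 4180) (nat_lit 0) (XT.nd (nat_lit 234) (nat_lit 760) (nat_lit 0) (XT.nd (nat_lit 78) (nat_lit 304) (nat_lit 0) (XT.lf (nat_lit 0) (nat_lit 1043265824) (nat_lit 228) (nat_lit 3230278442) (nat_lit 304) (nat_lit 2196426168) (nat_lit 307) (nat_lit 5) (nat_lit 310) (nat_lit 3) (nat_lit 311) (nat_lit 5) (nat_lit 262) (nat_lit 261) (nat_lit 257)) (XT.nd (nat_lit 78) (nat_lit 304) (nat_lit 0) (XT.lf (nat_lit 76) (nat_lit 1853107588) (nat_lit 0) (nat_lit 3595126591) (nat_lit 304) (nat_lit 1045839341) (nat_lit 308) (nat_lit 5) (nat_lit 307) (nat_lit 5) (nat_lit 311) (nat_lit 5) (nat_lit 263) (nat_lit 261) (nat_lit 256))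 (XT.lf (nat_lit 76) (nat_lit 558556815) (nat_lit 0) (nat_lit 2685201138) (nat_lit 380) (nat_lit 3282458976) (nat_lit 304) (nat_lit 5) (nat_lit 303) (nat_lit 5) (nat_lit 308) (nat_lit 5) (nat_lit 264) (nat_lit 261) (nat_lit 255)))) (XT.nd (nat_lit 78) (nat_lit 380) (nat_lit 0) (XT.lf (nat_lit 0) (nat_lit 920835195) (nat_lit 380) (nat_lit 624732192) (nat_lit 456) (nat_lit 5021025320) (nat_lit 298) (nat_lit 5) (nat_lit 303) (nat_lit 5) (nat_lit 304) (nat_lit 5) (nat_lit 265) (nat_lit 261) (nat_lit 254)) (XT.nd (nat_lit 78) (nat_lit 380) (nat_lit 0) (XT.lf (nat_lit 76) (nat_lit 4896234472) (nat_lit 0) (nat_lit 159492706) (nat_lit 456) (nat_lit 1559161481) (nat_lit 299) (nat_lit 5) (nat_lit 298) (nat_lit 5) (nat_lit 304) (nat_lit 5) (nat_lit 266) (nat_lit 261) (nat_lit 253)) (XT.lf (nat_lit 0) (nat_lit 2486452373) (nat_lit 456) (nat_lit 2746845858) (nat_lit 76) (nat_lit 1437787617) (nat_lit 293)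 (nat_lit 5) (nat_lit 299) (nat_lit 5) (nat_lit 294) (nat_lit 5) (nat_lit 267) (nat_lit 261) (nat_lit 252))))) (XT.nd (nat_lit 234) (nat_lit 2432) (nat_lit 0) (XT.nd (nat_lit 78) (nat_lit 1292) (nat_lit 0) (XT.lf (nat_lit 0) (nat_lit 3040573662) (nat_lit 456) (nat_lit 3471456229) (nat_lit 532) (nat_lit 223791605) (nat_lit 287) (nat_lit 5) (nat_lit 293) (nat_lit 5) (nat_lit 294) (nat_lit 5) (nat_lit 268) (nat_lit 261) (nat_lit 251)) (XT.nd (nat_lit 78) (nat_lit 684) (nat_lit 0) (XT.lf (nat_lit 0) (nat_lit 2219585685) (nat_lit 532) (nat_lit 1456729231) (nat_lit 608) (nat_lit 3132256589) (nat_lit 279) (nat_lit 5) (nat_lit 286) (nat_lit 5) (nat_lit 287) (nat_lit 5) (nat_lit 269) (nat_lit 261) (nat_lit 250)) (XT.lf (nat_lit 0) (nat_lit 700066151) (nat_lit 684) (nat_lit 5414228107) (nat_lit 76) (nat_lit 775701451) (nat_lit 270) (nat_lit 5) (nat_lit 279) (nat_lit 5) (nat_lit 271) (nat_lit 5) (nat_lit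 270) (nat_lit 261) (nat_lit 249)))) (XT.nd (nat_lit 156) (nat_lit 912) (nat_lit 0) (XT.nd (nat_lit 78) (nat_lit 836) (nat_lit 0) (XT.lf (nat_lit 0) (nat_lit 773114750) (nat_lit 684) (nat_lit 3741458214) (nat_lit 760) (nat_lit 2464725993) (nat_lit 261) (nat_lit 5) (nat_lit 270) (nat_lit 5) (nat_lit 271) (nat_lit 5) (nat_lit 271) (nat_lit 261) (nat_lit 248)) (XT.lf (nat_lit 0) (nat_lit 139145046) (nat_lit 760) (nat_lit 1128215516) (nat_lit 836) (nat_lit 5810192579) (nat_lit 250) (nat_lit 5) (nat_lit 260) (nat_lit 5) (nat_lit 261) (nat_lit 5) (nat_lit 272) (nat_lit 261) (nat_lit 247))) (XT.nd (nat_lit 78) (nat_lit 912) (nat_lit 0) (XT.lf (nat_lit 0) (nat_lit 5015698032) (nat_lit 836) (nat_lit 451274942) (nat_lit 76) (nat_lit 1716947386) (nat_lit 250) (nat_lit 5) (nat_lit 261) (nat_lit 5) (nat_lit 251) (nat_lit 5) (nat_lit 273) (nat_lit 261) (nat_lit 246)) (XT.lf (nat_lit 0) (nat_lit 1503761710)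 (nat_lit 912) (nat_lit 997243867) (nat_lit 76) (nat_lit 4798040640) (nat_lit 238) (nat_lit 5) (nat_lit 250) (nat_lit 5) (nat_lit 239) (nat_lit 5) (nat_lit 274) (nat_lit 261) (nat_lit 245)))))) (XT.nd (nat_lit 546) (nat_lit 3420) (nat_lit 0) (XT.nd (nat_lit 234) (nat_lit 3040) (nat_lit 0) (XT.nd (nat_lit 78) (nat_lit 2128) (nat_lit 0) (XT.lf (nat_lit 0) (nat_lit 5198652522) (nat_lit 988) (nat_lit 1509154540) (nat_lit 76) (nat_lit 715261923) (nat_lit 226) (nat_lit 5) (nat_lit 239) (nat_lit 5) (nat_lit 227) (nat_lit 5) (nat_lit 275) (nat_lit 261) (nat_lit 244)) (XT.nd (nat_lit 78) (nat_lit 1064) (nat_lit 0) (XT.lf (nat_lit 0) (nat_lit 1405920613) (nat_lit 1064) (nat_lit 2004369105) (nat_lit 76) (nat_lit 4145528725) (nat_lit 212) (nat_lit 5) (nat_lit 226) (nat_lit 5) (nat_lit 213) (nat_lit 5) (nat_lit 276) (nat_lit 261) (nat_lit 243)) (XT.lf (nat_lit 0) (nat_lit 5067417418) (nat_lit 1140) (nat_lit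 2473605226) (nat_lit 76) (nat_lit 156924825) (nat_lit 198) (nat_lit 5) (nat_lit 213) (nat_lit 5) (nat_lit 199) (nat_lit 5) (nat_lit 277) (nat_lit 261) (nat_lit 242)))) (XT.nd (nat_lit 156) (nat_lit 1216) (nat_lit 0) (XT.nd (nat_lit 78) (nat_lit 608) (nat_lit 0) (XT.lf (nat_lit 0) (nat_lit 980303755) (nat_lit 1216) (nat_lit 2944084021) (nat_lit 76) (nat_lit 3924651540) (nat_lit 182) (nat_lit 5) (nat_lit 198) (nat_lit 5) (nat_lit 183) (nat_lit 5) (nat_lit 278) (nat_lit 261) (nat_lit 241)) (XT.lf (nat_lit 0) (nat_lit 4605073947) (nat_lit 608) (nat_lit 21938774) (nat_lit 684) (nat_lit 3382839313) (nat_lit 174) (nat_lit 5) (nat_lit 182) (nat_lit 5) (nat_lit 183) (nat_lit 5) (nat_lit 279) (nat_lit 261) (nat_lit 240))) (XT.nd (nat_lit 78) (nat_lit 532) (nat_lit 0) (XT.lf (nat_lit 0) (nat_lit 227937098) (nat_lit 684) (nat_lit 3878188525) (nat_lit 76) (nat_lit 4074041520) (nat_lit 165) (nat_lit 5)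 (nat_lit 174) (nat_lit 5) (nat_lit 166) (nat_lit 5) (nat_lit 280) (nat_lit 261) (nat_lit 239)) (XT.lf (nat_lit 0) (nat_lit 3874859353) (nat_lit 608) (nat_lit 4365497207) (nat_lit 76) (nat_lit 120080670) (nat_lit 158) (nat_lit 5) (nat_lit 166) (nat_lit 5) (nat_lit 159) (nat_lit 5) (nat_lit 281) (nat_lit 261) (nat_lit 238))))) (XT.nd (nat_lit 234) (nat_lit 1824) (nat_lit 0) (XT.nd (nat_lit 78) (nat_lit 1064) (nat_lit 0) (XT.lf (nat_lit 0) (nat_lit 3669559712) (nat_lit 532) (nat_lit 4006977844) (nat_lit 608) (nat_lit 874212024) (nat_lit 151) (nat_lit 5) (nat_lit 158) (nat_lit 5) (nat_lit 159) (nat_lit 5) (nat_lit 282) (nat_lit 261) (nat_lit 237)) (XT.nd (nat_lit 78) (nat_lit 532) (nat_lit 0) (XT.lf (nat_lit 0) (nat_lit 2802588967) (nat_lit 532) (nat_lit 5425079620) (nat_lit 76) (nat_lit 523999394) (nat_lit 144) (nat_lit 5) (nat_lit 151) (nat_lit 5) (nat_lit 145) (nat_lit 5) (nat_lit 283) (nat_lit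 261) (nat_lit 236)) (XT.lf (nat_lit 0) (nat_lit 2940508202) (nat_lit 532) (nat_lit 3688664290) (nat_lit 608) (nat_lit 2333856517) (nat_lit 137) (nat_lit 5) (nat_lit 144) (nat_lit 5) (nat_lit 145) (nat_lit 5) (nat_lit 284) (nat_lit 261) (nat_lit 235)))) (XT.nd (nat_lit 156) (nat_lit 836) (nat_lit 0) (XT.nd (nat_lit 78) (nat_lit 456) (nat_lit 0) (XT.lf (nat_lit 0) (nat_lit 1393477916) (nat_lit 532) (nat_lit 6659118080) (nat_lit 76) (nat_lit 1133307688) (nat_lit 130) (nat_lit 5) (nat_lit 137) (nat_lit 5) (nat_lit 131) (nat_lit 5) (nat_lit 285) (nat_lit 261) (nat_lit 234)) (XT.lf (nat_lit 0) (nat_lit 2039136471) (nat_lit 456) (nat_lit 3212325489) (nat_lit 532) (nat_lit 4168146305) (nat_lit 124) (nat_lit 5) (nat_lit 130) (nat_lit 5) (nat_lit 131) (nat_lit 5) (nat_lit 286) (nat_lit 261) (nat_lit 233))) (XT.nd (nat_lit 78) (nat_lit 456) (nat_lit 0) (XT.lf (nat_lit 0) (nat_lit 1509431636) (nat_lit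 380) (nat_lit 7771717120) (nat_lit 456) (nat_lit 384633699) (nat_lit 119) (nat_lit 5) (nat_lit 124) (nat_lit 5) (nat_lit 125) (nat_lit 5) (nat_lit 287) (nat_lit 261) (nat_lit 232)) (XT.lf (nat_lit 0) (nat_lit 877418817) (nat_lit 380) (nat_lit 2638436767) (nat_lit 456) (nat_lit 6407577844) (nat_lit 113) (nat_lit 5) (nat_lit 118) (nat_lit 5) (nat_lit 119) (nat_lit 5) (nat_lit 288) (nat_lit 261) (nat_lit 231))))))))
noncomputable def xc52 : XT := (XT.nd (nat_lit 2028) (nat_lit 1748) (nat_lit 0) (XT.nd (nat_lit 1014) (nat_lit 2204) (nat_lit 0) (XT.nd (nat_lit 468) (nat_lit 1900) (nat_lit 0) (XT.nd (nat_lit 234) (nat_lit 1064) (nat_lit 0) (XT.nd (nat_lit 78) (nat_lit 456) (nat_lit 0) (XT.lf (nat_lit 0) (nat_lit 166777419) (nat_lit 380) (nat_lit 7433836432) (nat_lit 456) (nat_lit 2593453632) (nat_lit 108) (nat_lit 5) (nat_lit 113) (nat_lit 5) (nat_lit 114) (nat_lit 5) (nat_lit 289) (nat_lit 261)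 (nat_lit 230)) (XT.nd (nat_lit 78) (nat_lit 380) (nat_lit 0) (XT.lf (nat_lit 0) (nat_lit 1391697468) (nat_lit 456) (nat_lit 632648766) (nat_lit 76) (nat_lit 8453365052) (nat_lit 107) (nat_lit 5) (nat_lit 113) (nat_lit 5) (nat_lit 108) (nat_lit 5) (nat_lit 290) (nat_lit 261) (nat_lit 229)) (XT.lf (nat_lit 0) (nat_lit 5540403793) (nat_lit 456) (nat_lit 1563816366) (nat_lit 76) (nat_lit 3670123907) (nat_lit 102) (nat_lit 5) (nat_lit 108) (nat_lit 5) (nat_lit 103) (nat_lit 5) (nat_lit 291) (nat_lit 261) (nat_lit 228)))) (XT.nd (nat_lit 78) (nat_lit 760) (nat_lit 0) (XT.lf (nat_lit 0) (nat_lit 8481103112) (nat_lit 304) (nat_lit 1420065150) (nat_lit 380) (nat_lit 1184611204) (nat_lit 98) (nat_lit 5) (nat_lit 102) (nat_lit 5) (nat_lit 103) (nat_lit 5) (nat_lit 292) (nat_lit 261) (nat_lit 227)) (XT.nd (nat_lit 78) (nat_lit 304) (nat_lit 0) (XT.lf (nat_lit 0) (nat_lit 3040187331) (nat_lit 456) (nat_lit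 3824538267) (nat_lit 76) (nat_lit 4546292286) (nat_lit 92) (nat_lit 5) (nat_lit 98) (nat_lit 5) (nat_lit 93) (nat_lit 5) (nat_lit 293) (nat_lit 261) (nat_lit 226)) (XT.lf (nat_lit 0) (nat_lit 6556936999) (nat_lit 304) (nat_lit 901350753) (nat_lit 380) (nat_lit 4293778333) (nat_lit 88) (nat_lit 5) (nat_lit 92) (nat_lit 5) (nat_lit 93) (nat_lit 5) (nat_lit 294) (nat_lit 261) (nat_lit 225))))) (XT.nd (nat_lit 234) (nat_lit 912) (nat_lit 0) (XT.nd (nat_lit 78) (nat_lit 608) (nat_lit 0) (XT.lf (nat_lit 0) (nat_lit 35416701) (nat_lit 380) (nat_lit 6761419055) (nat_lit 76) (nat_lit 5311982778) (nat_lit 83) (nat_lit 5) (nat_lit 88) (nat_lit 5) (nat_lit 84) (nat_lit 5) (nat_lit 295) (nat_lit 261) (nat_lit 224)) (XT.nd (nat_lit 78) (nat_lit 304) (nat_lit 0) (XT.lf (nat_lit 0) (nat_lit 3936443009) (nat_lit 304) (nat_lit 564852086) (nat_lit 380) (nat_lit 7980652407) (nat_lit 79) (nat_lit 5) (nat_lit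 83) (nat_lit 5) (nat_lit 84) (nat_lit 5) (nat_lit 296) (nat_lit 261) (nat_lit 223)) (XT.lf (nat_lit 0) (nat_lit 2295621551) (nat_lit 304) (nat_lit 6954757113) (nat_lit 380) (nat_lit 3621637911) (nat_lit 75) (nat_lit 5) (nat_lit 79) (nat_lit 5) (nat_lit 80) (nat_lit 5) (nat_lit 297) (nat_lit 261) (nat_lit 222)))) (XT.nd (nat_lit 156) (nat_lit 608) (nat_lit 0) (XT.nd (nat_lit 78) (nat_lit 0) (nat_lit 0) (XT.lf (nat_lit 0) (nat_lit 443365466) (nat_lit 228) (nat_lit 504337397) (nat_lit 304) (nat_lit 12333355111) (nat_lit 71) (nat_lit 5) (nat_lit 74) (nat_lit 5) (nat_lit 75) (nat_lit 5) (nat_lit 298) (nat_lit 261) (nat_lit 221)) (XT.lf (nat_lit 0) (nat_lit 5756336962) (nat_lit 304) (nat_lit 1696573670) (nat_lit 76) (nat_lit 6254064581) (nat_lit 71) (nat_lit 5) (nat_lit 75) (nat_lit 5) (nat_lit 72) (nat_lit 5) (nat_lit 299) (nat_lit 261) (nat_lit 220))) (XT.nd (nat_lit 78) (nat_lit 304) (nat_lit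 0) (XT.lf (nat_lit 0) (nat_lit 10072559472) (nat_lit 304) (nat_lit 753634221) (nat_lit 380) (nat_lit 3327438819) (nat_lit 67) (nat_lit 5) (nat_lit 71) (nat_lit 5) (nat_lit 72) (nat_lit 5) (nat_lit 300) (nat_lit 261) (nat_lit 219)) (XT.lf (nat_lit 0) (nat_lit 1572187689) (nat_lit 304) (nat_lit 6819478909) (nat_lit 76) (nat_lit 6228326672) (nat_lit 63) (nat_lit 5) (nat_lit 67) (nat_lit 5) (nat_lit 64) (nat_lit 5) (nat_lit 301) (nat_lit 261) (nat_lit 218)))))) (XT.nd (nat_lit 468) (nat_lit 988) (nat_lit 0) (XT.nd (nat_lit 234) (nat_lit 684) (nat_lit 0) (XT.nd (nat_lit 78) (nat_lit 304) (nat_lit 0) (XT.lf (nat_lit 0) (nat_lit 5195557982) (nat_lit 228) (nat_lit 1476104609) (nat_lit 304) (nat_lit 8436370436) (nat_lit 60) (nat_lit 5) (nat_lit 63) (nat_lit 5) (nat_lit 64) (nat_lit 5) (nat_lit 302) (nat_lit 261) (nat_lit 217)) (XT.nd (nat_lit 78) (nat_lit 76) (nat_lit 0) (XT.lf (nat_lit 0) (nat_lit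 2206416977) (nat_lit 228) (nat_lit 9892666255) (nat_lit 304) (nat_lit 3519259349) (nat_lit 57) (nat_lit 5) (nat_lit 60) (nat_lit 5) (nat_lit 61) (nat_lit 5) (nat_lit 303) (nat_lit 261) (nat_lit 216)) (XT.lf (nat_lit 0) (nat_lit 1656546729) (nat_lit 304) (nat_lit 1158423781) (nat_lit 76) (nat_lit 13337428347) (nat_lit 56) (nat_lit 5) (nat_lit 60) (nat_lit 5) (nat_lit 57) (nat_lit 5) (nat_lit 304) (nat_lit 261) (nat_lit 215)))) (XT.nd (nat_lit 78) (nat_lit 456) (nat_lit 0) (XT.lf (nat_lit 0) (nat_lit 7108324771) (nat_lit 304) (nat_lit 4962507575) (nat_lit 76) (nat_lit 4638631483) (nat_lit 53) (nat_lit 5) (nat_lit 57) (nat_lit 5) (nat_lit 54) (nat_lit 5) (nat_lit 305) (nat_lit 261) (nat_lit 214)) (XT.nd (nat_lit 78) (nat_lit 304) (nat_lit 0) (XT.lf (nat_lit 0) (nat_lit 8049166051) (nat_lit 152) (nat_lit 4833728399) (nat_lit 228) (nat_lit 4410029297) (nat_lit 51) (nat_lit 5) (nat_lit 53) (nat_lit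 5) (nat_lit 54) (nat_lit 5) (nat_lit 306) (nat_lit 261) (nat_lit 213)) (XT.lf (nat_lit 0) (nat_lit 1070209716) (nat_lit 304) (nat_lit 14061126488) (nat_lit 76) (nat_lit 2772468129) (nat_lit 47) (nat_lit 5) (nat_lit 51) (nat_lit 5) (nat_lit 48) (nat_lit 5) (nat_lit 307) (nat_lit 261) (nat_lit 212))))) (XT.nd (nat_lit 234) (nat_lit 608) (nat_lit 0) (XT.nd (nat_lit 78) (nat_lit 380) (nat_lit 0) (XT.lf (nat_lit 0) (nat_lit 6814683327) (nat_lit 304) (nat_lit 964029353) (nat_lit 76) (nat_lit 10762805567) (nat_lit 47) (nat_lit 5) (nat_lit 51) (nat_lit 5) (nat_lit 48) (nat_lit 5) (nat_lit 308) (nat_lit 261) (nat_lit 211)) (XT.nd (nat_lit 78) (nat_lit 228) (nat_lit 0) (XT.lf (nat_lit 0) (nat_lit 12909844100) (nat_lit 228) (nat_lit 6268176431) (nat_lit 76) (nat_lit 31233493) (nat_lit 45) (nat_lit 5) (nat_lit 48) (nat_lit 5) (nat_lit 46) (nat_lit 5) (nat_lit 309) (nat_lit 261) (nat_lit 210)) (XT.lf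 (nat_lit 0) (nat_lit 7623983530) (nat_lit 228) (nat_lit 11787992978) (nat_lit 304) (nat_lit 495371838) (nat_lit 42) (nat_lit 5) (nat_lit 45) (nat_lit 5) (nat_lit 46) (nat_lit 5) (nat_lit 310) (nat_lit 261) (nat_lit 209)))) (XT.nd (nat_lit 156) (nat_lit 380) (nat_lit 0) (XT.nd (nat_lit 78) (nat_lit 0) (nat_lit 0) (XT.lf (nat_lit 0) (nat_lit 1583692453) (nat_lit 152) (nat_lit 3928021562) (nat_lit 228) (nat_lit 15126391064) (nat_lit 39) (nat_lit 5) (nat_lit 41) (nat_lit 5) (nat_lit 42) (nat_lit 5) (nat_lit 311) (nat_lit 261) (nat_lit 208)) (XT.lf (nat_lit 0) (nat_lit 11921512717) (nat_lit 228) (nat_lit 5143339121) (nat_lit 76) (nat_lit 4337056169) (nat_lit 39) (nat_lit 5) (nat_lit 42) (nat_lit 5) (nat_lit 40) (nat_lit 5) (nat_lit 312) (nat_lit 261) (nat_lit 207))) (XT.nd (nat_lit 78) (nat_lit 228) (nat_lit 0) (XT.lf (nat_lit 0) (nat_lit 9519209220) (nat_lit 152) (nat_lit 9209682089) (nat_lit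 228) (nat_lit 3472729081) (nat_lit 37) (nat_lit 5) (nat_lit 39) (nat_lit 5) (nat_lit 40) (nat_lit 5) (nat_lit 313) (nat_lit 261) (nat_lit 206)) (XT.lf (nat_lit 0) (nat_lit 1903313893) (nat_lit 152) (nat_lit 895568687) (nat_lit 228) (nat_lit 20241081077) (nat_lit 34) (nat_lit 5) (nat_lit 36) (nat_lit 5) (nat_lit 37) (nat_lit 5) (nat_lit 314) (nat_lit 261) (nat_lit 205))))))) (XT.nd (nat_lit 1014) (nat_lit 608) (nat_lit 0) (XT.nd (nat_lit 468) (nat_lit 608) (nat_lit 0) (XT.nd (nat_lit 234) (nat_lit 380) (nat_lit 0) (XT.nd (nat_lit 78) (nat_lit 152) (nat_lit 0) (XT.lf (nat_lit 0) (nat_lit 9468552733) (nat_lit 228) (nat_lit 6631977373) (nat_lit 76) (nat_lit 7814001684) (nat_lit 34) (nat_lit 5) (nat_lit 37) (nat_lit 5) (nat_lit 35) (nat_lit 5) (nat_lit 315) (nat_lit 261) (nat_lit 204)) (XT.nd (nat_lit 78) (nat_lit 0) (nat_lit 0) (XT.lf (nat_lit 0) (nat_lit 8674960703) (nat_lit 152) (nat_lit 7840104556)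 (nat_lit 228) (nat_lit 8316489148) (nat_lit 32) (nat_lit 5) (nat_lit 34) (nat_lit 5) (nat_lit 35) (nat_lit 5) (nat_lit 316) (nat_lit 261) (nat_lit 203)) (XT.lf (nat_lit 0) (nat_lit 23943030435) (nat_lit 228) (nat_lit 997186019) (nat_lit 76) (nat_lit 853363455) (nat_lit 32) (nat_lit 5) (nat_lit 35) (nat_lit 5) (nat_lit 33) (nat_lit 4) (nat_lit 317) (nat_lit 261) (nat_lit 202)))) (XT.nd (nat_lit 78) (nat_lit 152) (nat_lit 0) (XT.lf (nat_lit 0) (nat_lit 5022372423) (nat_lit 228) (nat_lit 11790799104) (nat_lit 76) (nat_lit 9983732884) (nat_lit 29) (nat_lit 5) (nat_lit 32) (nat_lit 5) (nat_lit 30) (nat_lit 5) (nat_lit 318) (nat_lit 261) (nat_lit 201)) (XT.nd (nat_lit 78) (nat_lit 0) (nat_lit 0) (XT.lf (nat_lit 0) (nat_lit 3962124295) (nat_lit 152) (nat_lit 8242781476) (nat_lit 228) (nat_lit 15644835083) (nat_lit 27) (nat_lit 5) (nat_lit 29) (nat_lit 5) (nat_lit 30) (nat_lit 5) (nat_lit 319) (nat_lit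 261) (nat_lit 200)) (XT.lf (nat_lit 0) (nat_lit 19832945035) (nat_lit 228) (nat_lit 8286500367) (nat_lit 76) (nat_lit 833203780) (nat_lit 27) (nat_lit 5) (nat_lit 30) (nat_lit 5) (nat_lit 28) (nat_lit 4) (nat_lit 320) (nat_lit 261) (nat_lit 199))))) (XT.nd (nat_lit 234) (nat_lit 304) (nat_lit 0) (XT.nd (nat_lit 78) (nat_lit 228) (nat_lit 0) (XT.lf (nat_lit 0) (nat_lit 8097545323) (nat_lit 76) (nat_lit 19864478999) (nat_lit 152) (nat_lit 2145109882) (nat_lit 26) (nat_lit 5) (nat_lit 27) (nat_lit 5) (nat_lit 28) (nat_lit 4) (nat_lit 321) (nat_lit 261) (nat_lit 198)) (XT.nd (nat_lit 78) (nat_lit 152) (nat_lit 0) (XT.lf (nat_lit 0) (nat_lit 5122801865) (nat_lit 152) (nat_lit 5964153529) (nat_lit 76) (nat_lit 20229544680) (nat_lit 25) (nat_lit 5) (nat_lit 27) (nat_lit 5) (nat_lit 26) (nat_lit 5) (nat_lit 322) (nat_lit 261) (nat_lit 197)) (XT.lf (nat_lit 0) (nat_lit 11009397220) (nat_lit 152) (nat_lit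 1768005081) (nat_lit 228) (nat_lit 19806283037) (nat_lit 23) (nat_lit 5) (nat_lit 25) (nat_lit 5) (nat_lit 26) (nat_lit 5) (nat_lit 323) (nat_lit 261) (nat_lit 196)))) (XT.nd (nat_lit 156) (nat_lit 228) (nat_lit 0) (XT.nd (nat_lit 78) (nat_lit 76) (nat_lit 0) (XT.lf (nat_lit 0) (nat_lit 20916154551) (nat_lit 228) (nat_lit 5100077317) (nat_lit 76) (nat_lit 7894972469) (nat_lit 23) (nat_lit 5) (nat_lit 26) (nat_lit 5) (nat_lit 24) (nat_lit 4) (nat_lit 324) (nat_lit 261) (nat_lit 195)) (XT.lf (nat_lit 0) (nat_lit 12358027858) (nat_lit 76) (nat_lit 17204601943) (nat_lit 152) (nat_lit 5739462234) (nat_lit 22) (nat_lit 5) (nat_lit 23) (nat_lit 5) (nat_lit 24) (nat_lit 4) (nat_lit 325) (nat_lit 261) (nat_lit 194))) (XT.nd (nat_lit 78) (nat_lit 152) (nat_lit 0) (XT.lf (nat_lit 0) (nat_lit 1860167420) (nat_lit 152) (nat_lit 6045940240) (nat_lit 76) (nat_lit 28855351895) (nat_lit 21) (nat_lit 5) (nat_lit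 23) (nat_lit 5) (nat_lit 22) (nat_lit 5) (nat_lit 326) (nat_lit 261) (nat_lit 193)) (XT.lf (nat_lit 0) (nat_lit 9821593509) (nat_lit 228) (nat_lit 26498418281) (nat_lit 76) (nat_lit 1969077758) (nat_lit 19) (nat_lit 5) (nat_lit 22) (nat_lit 5) (nat_lit 20) (nat_lit 4) (nat_lit 327) (nat_lit 261) (nat_lit 192)))))) (XT.nd (nat_lit 546) (nat_lit 228) (nat_lit 0) (XT.nd (nat_lit 234) (nat_lit 304) (nat_lit 0) (XT.nd (nat_lit 78) (nat_lit 76) (nat_lit 0) (XT.lf (nat_lit 0) (nat_lit 18291120164) (nat_lit 228) (nat_lit 9384315765) (nat_lit 76) (nat_lit 12214377912) (nat_lit 19) (nat_lit 5) (nat_lit 22) (nat_lit 5) (nat_lit 20) (nat_lit 4) (nat_lit 328) (nat_lit 261) (nat_lit 191)) (XT.nd (nat_lit 78) (nat_lit 0) (nat_lit 0) (XT.lf (nat_lit 0) (nat_lit 8699902987) (nat_lit 76) (nat_lit 18536779591) (nat_lit 152) (nat_lit 14332328016) (nat_lit 18) (nat_lit 5) (nat_lit 19) (nat_lit 5) (nat_lit 20)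 (nat_lit 4) (nat_lit 329) (nat_lit 261) (nat_lit 190)) (XT.lf (nat_lit 0) (nat_lit 27830668694) (nat_lit 76) (nat_lit 8865350943) (nat_lit 152) (nat_lit 6634165059) (nat_lit 18) (nat_lit 5) (nat_lit 19) (nat_lit 5) (nat_lit 20) (nat_lit 4) (nat_lit 330) (nat_lit 261) (nat_lit 189)))) (XT.nd (nat_lit 156) (nat_lit 76) (nat_lit 0) (XT.nd (nat_lit 78) (nat_lit 0) (nat_lit 0) (XT.lf (nat_lit 0) (nat_lit 1430443155) (nat_lit 228) (nat_lit 42465643065) (nat_lit 76) (nat_lit 1282630606) (nat_lit 15) (nat_lit 5) (nat_lit 18) (nat_lit 5) (nat_lit 16) (nat_lit 4) (nat_lit 331) (nat_lit 261) (nat_lit 188)) (XT.lf (nat_lit 0) (nat_lit 9984679729) (nat_lit 228) (nat_lit 25163672532) (nat_lit 76) (nat_lit 11962655605) (nat_lit 15) (nat_lit 5) (nat_lit 18) (nat_lit 5) (nat_lit 16) (nat_lit 4) (nat_lit 332) (nat_lit 261) (nat_lit 187))) (XT.nd (nat_lit 78) (nat_lit 76) (nat_lit 0) (XT.lf (nat_lit 0) (nat_lit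 18939688614) (nat_lit 228) (nat_lit 7045128030) (nat_lit 76) (nat_lit 23155915405) (nat_lit 15) (nat_lit 5) (nat_lit 18) (nat_lit 5) (nat_lit 16) (nat_lit 4) (nat_lit 333) (nat_lit 261) (nat_lit 186)) (XT.lf (nat_lit 0) (nat_lit 12170622515) (nat_lit 76) (nat_lit 16263160214) (nat_lit 152) (nat_lit 22835429578) (nat_lit 14) (nat_lit 5) (nat_lit 15) (nat_lit 5) (nat_lit 16) (nat_lit 4) (nat_lit 334) (nat_lit 261) (nat_lit 185))))) (XT.nd (nat_lit 234) (nat_lit 76) (nat_lit 0) (XT.nd (nat_lit 78) (nat_lit 152) (nat_lit 0) (XT.lf (nat_lit 0) (nat_lit 32449493891) (nat_lit 76) (nat_lit 6000744599) (nat_lit 152) (nat_lit 15052457819) (nat_lit 14) (nat_lit 5) (nat_lit 15) (nat_lit 5) (nat_lit 16) (nat_lit 4) (nat_lit 335) (nat_lit 261) (nat_lit 184)) (XT.nd (nat_lit 78) (nat_lit 152) (nat_lit 0) (XT.lf (nat_lit 0) (nat_lit 48989549632) (nat_lit 152) (nat_lit 2194731621) (nat_lit 0) (nat_lit 4662921268)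 (nat_lit 14) (nat_lit 5) (nat_lit 16) (nat_lit 4) (nat_lit 14) (nat_lit 4) (nat_lit 336) (nat_lit 261) (nat_lit 183)) (XT.lf (nat_lit 0) (nat_lit 1924323702) (nat_lit 152) (nat_lit 40468274336) (nat_lit 76) (nat_lit 15909494964) (nat_lit 12) (nat_lit 5) (nat_lit 14) (nat_lit 5) (nat_lit 13) (nat_lit 4) (nat_lit 337) (nat_lit 261) (nat_lit 182)))) (XT.nd (nat_lit 156) (nat_lit 76) (nat_lit 0) (XT.nd (nat_lit 78) (nat_lit 0) (nat_lit 0) (XT.lf (nat_lit 0) (nat_lit 11005449365) (nat_lit 152) (nat_lit 22079325512) (nat_lit 76) (nat_lit 27792867806) (nat_lit 12) (nat_lit 5) (nat_lit 14) (nat_lit 5) (nat_lit 13) (nat_lit 4) (nat_lit 338) (nat_lit 261) (nat_lit 181)) (XT.lf (nat_lit 0) (nat_lit 20519433321) (nat_lit 152) (nat_lit 2809496439) (nat_lit 76) (nat_lit 40253683570) (nat_lit 12) (nat_lit 5) (nat_lit 14) (nat_lit 5) (nat_lit 13) (nat_lit 4) (nat_lit 339) (nat_lit 261) (nat_lit 180))) (XT.nd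 (nat_lit 78) (nat_lit 0) (nat_lit 0) (XT.lf (nat_lit 0) (nat_lit 17733130680) (nat_lit 76) (nat_lit 12926258931) (nat_lit 152) (nat_lit 35758941882) (nat_lit 11) (nat_lit 5) (nat_lit 12) (nat_lit 5) (nat_lit 13) (nat_lit 4) (nat_lit 340) (nat_lit 261) (nat_lit 179)) (XT.lf (nat_lit 0) (nat_lit 39325921586) (nat_lit 76) (nat_lit 1989773256) (nat_lit 152) (nat_lit 28079867026) (nat_lit 11) (nat_lit 5) (nat_lit 12) (nat_lit 5) (nat_lit 13) (nat_lit 4) (nat_lit 341) (nat_lit 261) (nat_lit 178))))))))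
noncomputable def xc53 : XT := (XT.nd (nat_lit 34866) (nat_lit 0) (nat_lit 6612) (XT.nd (nat_lit 1014) (nat_lit 152) (nat_lit 0) (XT.nd (nat_lit 468) (nat_lit 76) (nat_lit 0) (XT.nd (nat_lit 234) (nat_lit 152) (nat_lit 0) (XT.nd (nat_lit 78) (nat_lit 76) (nat_lit 0) (XT.lf (nat_lit 0) (nat_lit 52577287307) (nat_lit 152) (nat_lit 10648956443) (nat_lit 0) (nat_lit 9293242365) (nat_lit 11) (nat_lit 5) (nat_lit 13) (nat_lit 4) (nat_lit 11) (nat_lit 4) (nat_lit 342) (nat_lit 261) (nat_lit 177)) (XT.nd (nat_lit 78) (nat_lit 0) (nat_lit 0) (XT.lf (nat_lit 0) (nat_lit 9882767635) (nat_lit 76) (nat_lit 54616383079) (nat_lit 76) (nat_lit 11297546323) (nat_lit 10) (nat_lit 4) (nat_lit 11) (nat_lit 5) (nat_lit 11) (nat_lit 4) (nat_lit 343) (nat_lit 261) (nat_lit 176)) (XT.lf (nat_lit 0) (nat_lit 31631789738) (nat_lit 76) (nat_lit 45477594097) (nat_lit 76) (nat_lit 2125622281) (nat_lit 10) (nat_lit 4)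 (nat_lit 11) (nat_lit 5) (nat_lit 11) (nat_lit 4) (nat_lit 344) (nat_lit 261) (nat_lit 175)))) (XT.nd (nat_lit 78) (nat_lit 76) (nat_lit 0) (XT.lf (nat_lit 0) (nat_lit 7341762189) (nat_lit 152) (nat_lit 28479751771) (nat_lit 76) (nat_lit 47022058545) (nat_lit 9) (nat_lit 5) (nat_lit 11) (nat_lit 5) (nat_lit 10) (nat_lit 4) (nat_lit 345) (nat_lit 261) (nat_lit 174)) (XT.nd (nat_lit 78) (nat_lit 76) (nat_lit 0) (XT.lf (nat_lit 0) (nat_lit 17223069902) (nat_lit 152) (nat_lit 8450751590) (nat_lit 76) (nat_lit 60958584095) (nat_lit 9) (nat_lit 5) (nat_lit 11) (nat_lit 5) (nat_lit 10) (nat_lit 4) (nat_lit 346) (nat_lit 261) (nat_lit 173)) (XT.lf (nat_lit 0) (nat_lit 12801712562) (nat_lit 76) (nat_lit 14904651656) (nat_lit 152) (nat_lit 62901083423) (nat_lit 8) (nat_lit 5) (nat_lit 9) (nat_lit 5) (nat_lit 10) (nat_lit 4) (nat_lit 347) (nat_lit 261) (nat_lit 172))))) (XT.nd (nat_lit 234) (nat_lit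 76) (nat_lit 0) (XT.nd (nat_lit 78) (nat_lit 0) (nat_lit 0) (XT.lf (nat_lit 0) (nat_lit 35266398915) (nat_lit 76) (nat_lit 3519741978) (nat_lit 152) (nat_lit 55992936094) (nat_lit 8) (nat_lit 5) (nat_lit 9) (nat_lit 5) (nat_lit 10) (nat_lit 4) (nat_lit 348) (nat_lit 261) (nat_lit 171)) (XT.nd (nat_lit 78) (nat_lit 0) (nat_lit 0) (XT.lf (nat_lit 0) (nat_lit 50486893777) (nat_lit 152) (nat_lit 40412067239) (nat_lit 0) (nat_lit 8258321655) (nat_lit 8) (nat_lit 5) (nat_lit 10) (nat_lit 4) (nat_lit 8) (nat_lit 4) (nat_lit 349) (nat_lit 261) (nat_lit 170)) (XT.lf (nat_lit 0) (nat_lit 62794791472) (nat_lit 152) (nat_lit 20416734603) (nat_lit 0) (nat_lit 20542213630) (nat_lit 8) (nat_lit 5) (nat_lit 10) (nat_lit 4) (nat_lit 8) (nat_lit 4) (nat_lit 350) (nat_lit 261) (nat_lit 169)))) (XT.nd (nat_lit 156) (nat_lit 0) (nat_lit 0) (XT.nd (nat_lit 78) (nat_lit 0) (nat_lit 0) (XT.lf (nat_lit 0) (nat_lit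 565802530) (nat_lit 76) (nat_lit 75144940893) (nat_lit 76) (nat_lit 32869500460) (nat_lit 7) (nat_lit 4) (nat_lit 8) (nat_lit 5) (nat_lit 8) (nat_lit 4) (nat_lit 351) (nat_lit 261) (nat_lit 168)) (XT.lf (nat_lit 0) (nat_lit 23001189820) (nat_lit 76) (nat_lit 66469084117) (nat_lit 76) (nat_lit 24171869787) (nat_lit 7) (nat_lit 4) (nat_lit 8) (nat_lit 5) (nat_lit 8) (nat_lit 4) (nat_lit 352) (nat_lit 261) (nat_lit 167))) (XT.nd (nat_lit 78) (nat_lit 0) (nat_lit 0) (XT.lf (nat_lit 0) (nat_lit 46536511802) (nat_lit 76) (nat_lit 57369467931) (nat_lit 76) (nat_lit 15051516558) (nat_lit 7) (nat_lit 4) (nat_lit 8) (nat_lit 5) (nat_lit 8) (nat_lit 4) (nat_lit 353) (nat_lit 261) (nat_lit 166)) (XT.lf (nat_lit 0) (nat_lit 71227804958) (nat_lit 76) (nat_lit 47824426583) (nat_lit 76) (nat_lit 5486725644) (nat_lit 7) (nat_lit 4) (nat_lit 8) (nat_lit 5) (nat_lit 8) (nat_lit 4) (nat_lit 354) (nat_lit 261)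 (nat_lit 165)))))) (XT.nd (nat_lit 468) (nat_lit 0) (nat_lit 0) (XT.nd (nat_lit 234) (nat_lit 0) (nat_lit 0) (XT.nd (nat_lit 78) (nat_lit 76) (nat_lit 0) (XT.lf (nat_lit 0) (nat_lit 4456581554) (nat_lit 152) (nat_lit 33309649494) (nat_lit 76) (nat_lit 92632273792) (nat_lit 6) (nat_lit 5) (nat_lit 8) (nat_lit 5) (nat_lit 7) (nat_lit 4) (nat_lit 355) (nat_lit 261) (nat_lit 164)) (XT.nd (nat_lit 78) (nat_lit 76) (nat_lit 0) (XT.lf (nat_lit 0) (nat_lit 14774336621) (nat_lit 152) (nat_lit 12382520145) (nat_lit 76) (nat_lit 109392823798) (nat_lit 6) (nat_lit 5) (nat_lit 8) (nat_lit 5) (nat_lit 7) (nat_lit 4) (nat_lit 356) (nat_lit 261) (nat_lit 163)) (XT.lf (nat_lit 0) (nat_lit 9763321652) (nat_lit 76) (nat_lit 15928700789) (nat_lit 152) (nat_lit 117313874296) (nat_lit 5) (nat_lit 5) (nat_lit 6) (nat_lit 5) (nat_lit 7) (nat_lit 4) (nat_lit 357) (nat_lit 261) (nat_lit 162)))) (XT.nd (nat_lit 78)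 (nat_lit 0) (nat_lit 0) (XT.lf (nat_lit 0) (nat_lit 33257572801) (nat_lit 76) (nat_lit 4015976323) (nat_lit 152) (nat_lit 112507838710) (nat_lit 5) (nat_lit 5) (nat_lit 6) (nat_lit 5) (nat_lit 7) (nat_lit 4) (nat_lit 358) (nat_lit 261) (nat_lit 161)) (XT.nd (nat_lit 78) (nat_lit 0) (nat_lit 0) (XT.lf (nat_lit 0) (nat_lit 49506654036) (nat_lit 152) (nat_lit 99067751893) (nat_lit 0) (nat_lit 8319075178) (nat_lit 5) (nat_lit 5) (nat_lit 7) (nat_lit 4) (nat_lit 5) (nat_lit 4) (nat_lit 359) (nat_lit 261) (nat_lit 160)) (XT.lf (nat_lit 0) (nat_lit 62383251179) (nat_lit 152) (nat_lit 80795611169) (nat_lit 0) (nat_lit 21181364137) (nat_lit 5) (nat_lit 5) (nat_lit 7) (nat_lit 4) (nat_lit 5) (nat_lit 4) (nat_lit 360) (nat_lit 261) (nat_lit 159))))) (XT.nd (nat_lit 33072) (nat_lit 0) (nat_lit 21812) (XT.nd (nat_lit 32916) (nat_lit 0) (nat_lit 22572) (XT.lf (nat_lit 0) (nat_lit 75895395097) (nat_lit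 152) (nat_lit 61625283744) (nat_lit 0) (nat_lit 34679881213) (nat_lit 5) (nat_lit 5) (nat_lit 7) (nat_lit 4) (nat_lit 5) (nat_lit 4) (nat_lit 361) (nat_lit 261) (nat_lit 158)) (XT.nd (nat_lit 78) (nat_lit 380) (nat_lit 0) (XT.lf (nat_lit 0) (nat_lit 1332103708) (nat_lit 0) (nat_lit 1332103708) (nat_lit 228) (nat_lit 580747741) (nat_lit 307) (nat_lit 5) (nat_lit 307) (nat_lit 3) (nat_lit 310) (nat_lit 3) (nat_lit 262) (nat_lit 262) (nat_lit 256)) (XT.lf (nat_lit 76) (nat_lit 1149522202) (nat_lit 0) (nat_lit 1856828385) (nat_lit 380) (nat_lit 3511548317) (nat_lit 303) (nat_lit 5) (nat_lit 302) (nat_lit 3) (nat_lit 307) (nat_lit 5) (nat_lit 263) (nat_lit 262) (nat_lit 255)))) (XT.nd (nat_lit 156) (nat_lit 380) (nat_lit 0) (XT.nd (nat_lit 78) (nat_lit 0) (nat_lit 76) (XT.lf (nat_lit 0) (nat_lit 564621488) (nat_lit 380) (nat_lit 258694071) (nat_lit 456) (nat_lit 5730911049) (nat_lit 297) (nat_lit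 5) (nat_lit 302) (nat_lit 3) (nat_lit 303) (nat_lit 5) (nat_lit 264) (nat_lit 262) (nat_lit 254)) (XT.lf (nat_lit 0) (nat_lit 4567349829) (nat_lit 380) (nat_lit 1572743321) (nat_lit 456) (nat_lit 457929240) (nat_lit 298) (nat_lit 5) (nat_lit 303) (nat_lit 5) (nat_lit 304) (nat_lit 5) (nat_lit 265) (nat_lit 262) (nat_lit 253))) (XT.nd (nat_lit 78) (nat_lit 0) (nat_lit 0) (XT.lf (nat_lit 0) (nat_lit 1884244176) (nat_lit 456) (nat_lit 2811387751) (nat_lit 532) (nat_lit 1954291116) (nat_lit 292) (nat_lit 5) (nat_lit 298) (nat_lit 5) (nat_lit 299) (nat_lit 5) (nat_lit 266) (nat_lit 262) (nat_lit 252)) (XT.lf (nat_lit 76) (nat_lit 2736650790) (nat_lit 0) (nat_lit 3020774293) (nat_lit 532) (nat_lit 952744583) (nat_lit 293) (nat_lit 5) (nat_lit 292) (nat_lit 5) (nat_lit 299) (nat_lit 5) (nat_lit 267) (nat_lit 262) (nat_lit 251))))))) (XT.nd (nat_lit 1014) (nat_lit 5548) (nat_lit 0) (XT.nd (nat_lit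 468) (nat_lit 6460) (nat_lit 0) (XT.nd (nat_lit 234) (nat_lit 2128) (nat_lit 0) (XT.nd (nat_lit 78) (nat_lit 532) (nat_lit 0) (XT.lf (nat_lit 76) (nat_lit 1705658814) (nat_lit 0) (nat_lit 1100017749) (nat_lit 608) (nat_lit 3972893761) (nat_lit 286) (nat_lit 5) (nat_lit 285) (nat_lit 5) (nat_lit 293) (nat_lit 5) (nat_lit 268) (nat_lit 262) (nat_lit 250)) (XT.nd (nat_lit 78) (nat_lit 76) (nat_lit 0) (XT.lf (nat_lit 0) (nat_lit 748495963) (nat_lit 532) (nat_lit 5820478280) (nat_lit 608) (nat_lit 286465117) (nat_lit 279) (nat_lit 5) (nat_lit 286) (nat_lit 5) (nat_lit 287) (nat_lit 5) (nat_lit 269) (nat_lit 262) (nat_lit 249)) (XT.lf (nat_lit 0) (nat_lit 3363960934) (nat_lit 608) (nat_lit 163982974) (nat_lit 76) (nat_lit 3412084401) (nat_lit 278) (nat_lit 5) (nat_lit 286) (nat_lit 5) (nat_lit 279) (nat_lit 5) (nat_lit 270) (nat_lit 262) (nat_lit 248)))) (XT.nd (nat_lit 78) (nat_lit 1444) (nat_lit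 0) (XT.lf (nat_lit 0) (nat_lit 11412094) (nat_lit 684) (nat_lit 985522508) (nat_lit 76) (nat_lit 6036578169) (nat_lit 269) (nat_lit 5) (nat_lit 278) (nat_lit 5) (nat_lit 270) (nat_lit 5) (nat_lit 271) (nat_lit 262) (nat_lit 247)) (XT.nd (nat_lit 78) (nat_lit 760) (nat_lit 0) (XT.lf (nat_lit 0) (nat_lit 3577734987) (nat_lit 760) (nat_lit 1784987728) (nat_lit 76) (nat_lit 1772034750) (nat_lit 260) (nat_lit 5) (nat_lit 270) (nat_lit 5) (nat_lit 261) (nat_lit 5) (nat_lit 272) (nat_lit 262) (nat_lit 246)) (XT.lf (nat_lit 0) (nat_lit 4717816347) (nat_lit 760) (nat_lit 2480855322) (nat_lit 836) (nat_lit 46438126) (nat_lit 250) (nat_lit 5) (nat_lit 260) (nat_lit 5) (nat_lit 261) (nat_lit 5) (nat_lit 273) (nat_lit 262) (nat_lit 245))))) (XT.nd (nat_lit 234) (nat_lit 3572) (nat_lit 0) (XT.nd (nat_lit 78) (nat_lit 1976) (nat_lit 0) (XT.lf (nat_lit 0) (nat_lit 3449550587) (nat_lit 912) (nat_lit 3248165119)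 (nat_lit 76) (nat_lit 666096618) (nat_lit 238) (nat_lit 5) (nat_lit 250) (nat_lit 5) (nat_lit 239) (nat_lit 5) (nat_lit 274) (nat_lit 262) (nat_lit 244)) (XT.nd (nat_lit 78) (nat_lit 1064) (nat_lit 0) (XT.lf (nat_lit 0) (nat_lit 3552141630) (nat_lit 912) (nat_lit 3476620368) (nat_lit 988) (nat_lit 462687094) (nat_lit 226) (nat_lit 5) (nat_lit 238) (nat_lit 5) (nat_lit 239) (nat_lit 5) (nat_lit 275) (nat_lit 262) (nat_lit 243)) (XT.lf (nat_lit 0) (nat_lit 2991771026) (nat_lit 1064) (nat_lit 4611029697) (nat_lit 76) (nat_lit 25267614) (nat_lit 212) (nat_lit 5) (nat_lit 226) (nat_lit 5) (nat_lit 213) (nat_lit 5) (nat_lit 276) (nat_lit 262) (nat_lit 242)))) (XT.nd (nat_lit 156) (nat_lit 1292) (nat_lit 0) (XT.nd (nat_lit 78) (nat_lit 1216) (nat_lit 0) (XT.lf (nat_lit 0) (nat_lit 2493792037) (nat_lit 1064) (nat_lit 4051654411) (nat_lit 1140) (nat_lit 1228112027) (nat_lit 198) (nat_lit 5) (nat_lit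 212) (nat_lit 5) (nat_lit 213) (nat_lit 5) (nat_lit 277) (nat_lit 262) (nat_lit 241)) (XT.lf (nat_lit 0) (nat_lit 1994058774) (nat_lit 1140) (nat_lit 218248673) (nat_lit 1216) (nat_lit 5716346834) (nat_lit 182) (nat_lit 5) (nat_lit 197) (nat_lit 5) (nat_lit 198) (nat_lit 5) (nat_lit 278) (nat_lit 262) (nat_lit 240))) (XT.nd (nat_lit 78) (nat_lit 684) (nat_lit 0) (XT.lf (nat_lit 0) (nat_lit 1483648874) (nat_lit 608) (nat_lit 4268583322) (nat_lit 684) (nat_lit 2340549700) (nat_lit 174) (nat_lit 5) (nat_lit 182) (nat_lit 5) (nat_lit 183) (nat_lit 5) (nat_lit 279) (nat_lit 262) (nat_lit 239)) (XT.lf (nat_lit 0) (nat_lit 991764775) (nat_lit 608) (nat_lit 113353200) (nat_lit 684) (nat_lit 7162124532) (nat_lit 165) (nat_lit 5) (nat_lit 173) (nat_lit 5) (nat_lit 174) (nat_lit 5) (nat_lit 280) (nat_lit 262) (nat_lit 238)))))) (XT.nd (nat_lit 546) (nat_lit 2432) (nat_lit 0) (XT.nd (nat_lit 234) (nat_lit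 1976) (nat_lit 0) (XT.nd (nat_lit 78) (nat_lit 608) (nat_lit 0) (XT.lf (nat_lit 0) (nat_lit 459208158) (nat_lit 532) (nat_lit 4186745059) (nat_lit 608) (nat_lit 3804840063) (nat_lit 158) (nat_lit 5) (nat_lit 165) (nat_lit 5) (nat_lit 166) (nat_lit 5) (nat_lit 281) (nat_lit 262) (nat_lit 237)) (XT.nd (nat_lit 78) (nat_lit 608) (nat_lit 0) (XT.lf (nat_lit 0) (nat_lit 8304921970) (nat_lit 608) (nat_lit 59643590) (nat_lit 76) (nat_lit 280914759) (nat_lit 158) (nat_lit 5) (nat_lit 166) (nat_lit 5) (nat_lit 159) (nat_lit 5) (nat_lit 282) (nat_lit 262) (nat_lit 236)) (XT.lf (nat_lit 0) (nat_lit 3222685563) (nat_lit 608) (nat_lit 634485363) (nat_lit 76) (nat_lit 4992254571) (nat_lit 150) (nat_lit 5) (nat_lit 158) (nat_lit 5) (nat_lit 151) (nat_lit 5) (nat_lit 283) (nat_lit 262) (nat_lit 235)))) (XT.nd (nat_lit 156) (nat_lit 912) (nat_lit 0) (XT.nd (nat_lit 78) (nat_lit 608) (nat_lit 0) (XT.lf (nat_lit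 0) (nat_lit 6914647115) (nat_lit 532) (nat_lit 1222337482) (nat_lit 76) (nat_lit 927922842) (nat_lit 144) (nat_lit 5) (nat_lit 151) (nat_lit 5) (nat_lit 145) (nat_lit 5) (nat_lit 284) (nat_lit 262) (nat_lit 234)) (XT.lf (nat_lit 0) (nat_lit 1464542652) (nat_lit 608) (nat_lit 1872579169) (nat_lit 76) (nat_lit 5953951869) (nat_lit 136) (nat_lit 5) (nat_lit 144) (nat_lit 5) (nat_lit 137) (nat_lit 5) (nat_lit 285) (nat_lit 262) (nat_lit 233))) (XT.nd (nat_lit 78) (nat_lit 456) (nat_lit 0) (XT.lf (nat_lit 0) (nat_lit 5193147102) (nat_lit 532) (nat_lit 2580713797) (nat_lit 76) (nat_lit 1754871191) (nat_lit 130) (nat_lit 5) (nat_lit 137) (nat_lit 5) (nat_lit 131) (nat_lit 5) (nat_lit 286) (nat_lit 262) (nat_lit 232)) (XT.lf (nat_lit 0) (nat_lit 6426002727) (nat_lit 456) (nat_lit 2681597968) (nat_lit 532) (nat_lit 670831566) (nat_lit 124) (nat_lit 5) (nat_lit 130) (nat_lit 5) (nat_lit 131) (nat_lit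 5) (nat_lit 287) (nat_lit 262) (nat_lit 231))))) (XT.nd (nat_lit 234) (nat_lit 1140) (nat_lit 0) (XT.nd (nat_lit 78) (nat_lit 836) (nat_lit 0) (XT.lf (nat_lit 0) (nat_lit 3112197383) (nat_lit 456) (nat_lit 4221875064) (nat_lit 76) (nat_lit 2705848459) (nat_lit 118) (nat_lit 5) (nat_lit 124) (nat_lit 5) (nat_lit 119) (nat_lit 5) (nat_lit 288) (nat_lit 262) (nat_lit 230)) (XT.nd (nat_lit 78) (nat_lit 456) (nat_lit 0) (XT.lf (nat_lit 0) (nat_lit 5135341170) (nat_lit 380) (nat_lit 1937940852) (nat_lit 456) (nat_lit 3241043896) (nat_lit 113) (nat_lit 5) (nat_lit 118) (nat_lit 5) (nat_lit 119) (nat_lit 5) (nat_lit 289) (nat_lit 262) (nat_lit 229)) (XT.lf (nat_lit 0) (nat_lit 634428803) (nat_lit 456) (nat_lit 6245426786) (nat_lit 76) (nat_lit 3722026509) (nat_lit 107) (nat_lit 5) (nat_lit 113) (nat_lit 5) (nat_lit 108) (nat_lit 5) (nat_lit 290) (nat_lit 262) (nat_lit 228)))) (XT.nd (nat_lit 156)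 (nat_lit 456) (nat_lit 0) (XT.nd (nat_lit 78) (nat_lit 304) (nat_lit 0) (XT.lf (nat_lit 0) (nat_lit 3457522198) (nat_lit 380) (nat_lit 1184059880) (nat_lit 456) (nat_lit 6261232888) (nat_lit 102) (nat_lit 5) (nat_lit 107) (nat_lit 5) (nat_lit 108) (nat_lit 5) (nat_lit 291) (nat_lit 262) (nat_lit 227)) (XT.lf (nat_lit 0) (nat_lit 2429094505) (nat_lit 304) (nat_lit 6455419504) (nat_lit 380) (nat_lit 2333322281) (nat_lit 98) (nat_lit 5) (nat_lit 102) (nat_lit 5) (nat_lit 103) (nat_lit 5) (nat_lit 292) (nat_lit 262) (nat_lit 226))) (XT.nd (nat_lit 78) (nat_lit 0) (nat_lit 0) (XT.lf (nat_lit 0) (nat_lit 1272283982) (nat_lit 380) (nat_lit 488818292) (nat_lit 456) (nat_lit 9786934491) (nat_lit 92) (nat_lit 5) (nat_lit 97) (nat_lit 5) (nat_lit 98) (nat_lit 5) (nat_lit 293) (nat_lit 262) (nat_lit 225)) (XT.lf (nat_lit 0) (nat_lit 6065896476) (nat_lit 456) (nat_lit 79951839) (nat_lit 76) (nat_lit 5746680703)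 (nat_lit 92) (nat_lit 5) (nat_lit 98) (nat_lit 5) (nat_lit 93) (nat_lit 5) (nat_lit 294) (nat_lit 262) (nat_lit 224))))))))
noncomputable def xc54 : XT := (XT.nd (nat_lit 2028) (nat_lit 1368) (nat_lit 0) (XT.nd (nat_lit 1014) (nat_lit 1824) (nat_lit 0) (XT.nd (nat_lit 468) (nat_lit 1216) (nat_lit 0) (XT.nd (nat_lit 234) (nat_lit 912) (nat_lit 0) (XT.nd (nat_lit 78) (nat_lit 684) (nat_lit 0) (XT.lf (nat_lit 0) (nat_lit 10605797838) (nat_lit 380) (nat_lit 1546979067) (nat_lit 76) (nat_lit 100960549) (nat_lit 88) (nat_lit 5) (nat_lit 93) (nat_lit 5) (nat_lit 89) (nat_lit 5) (nat_lit 295) (nat_lit 262) (nat_lit 223)) (XT.nd (nat_lit 78) (nat_lit 304) (nat_lit 0) (XT.lf (nat_lit 0) (nat_lit 2753852423) (nat_lit 380) (nat_lit 3255881656) (nat_lit 76) (nat_lit 6620534389) (nat_lit 83) (nat_lit 5) (nat_lit 88) (nat_lit 5) (nat_lit 84) (nat_lit 5) (nat_lit 296) (nat_lit 262) (nat_lit 222)) (XT.lf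 (nat_lit 0) (nat_lit 7354518933) (nat_lit 380) (nat_lit 5163250725) (nat_lit 76) (nat_lit 507058023) (nat_lit 79) (nat_lit 5) (nat_lit 84) (nat_lit 5) (nat_lit 80) (nat_lit 5) (nat_lit 297) (nat_lit 262) (nat_lit 221)))) (XT.nd (nat_lit 78) (nat_lit 608) (nat_lit 0) (XT.lf (nat_lit 0) (nat_lit 6105194473) (nat_lit 304) (nat_lit 6151658078) (nat_lit 380) (nat_lit 1180186754) (nat_lit 75) (nat_lit 5) (nat_lit 79) (nat_lit 5) (nat_lit 80) (nat_lit 5) (nat_lit 298) (nat_lit 262) (nat_lit 220)) (XT.nd (nat_lit 78) (nat_lit 304) (nat_lit 0) (XT.lf (nat_lit 0) (nat_lit 3485026782) (nat_lit 304) (nat_lit 9768279970) (nat_lit 76) (nat_lit 615016774) (nat_lit 71) (nat_lit 5) (nat_lit 75) (nat_lit 5) (nat_lit 72) (nat_lit 5) (nat_lit 299) (nat_lit 262) (nat_lit 219)) (XT.lf (nat_lit 0) (nat_lit 1783113338) (nat_lit 304) (nat_lit 6654399109) (nat_lit 380) (nat_lit 5881021069) (nat_lit 67) (nat_lit 5)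 (nat_lit 71) (nat_lit 5) (nat_lit 72) (nat_lit 5) (nat_lit 300) (nat_lit 262) (nat_lit 218))))) (XT.nd (nat_lit 234) (nat_lit 684) (nat_lit 0) (XT.nd (nat_lit 78) (nat_lit 532) (nat_lit 0) (XT.lf (nat_lit 0) (nat_lit 13666805493) (nat_lit 380) (nat_lit 789088942) (nat_lit 76) (nat_lit 334545689) (nat_lit 67) (nat_lit 5) (nat_lit 72) (nat_lit 5) (nat_lit 68) (nat_lit 5) (nat_lit 301) (nat_lit 262) (nat_lit 217)) (XT.nd (nat_lit 78) (nat_lit 228) (nat_lit 0) (XT.lf (nat_lit 0) (nat_lit 3904269743) (nat_lit 304) (nat_lit 3725416221) (nat_lit 76) (nat_lit 7651950640) (nat_lit 63) (nat_lit 5) (nat_lit 67) (nat_lit 5) (nat_lit 64) (nat_lit 5) (nat_lit 302) (nat_lit 262) (nat_lit 216)) (XT.lf (nat_lit 0) (nat_lit 8791907879) (nat_lit 228) (nat_lit 391575459) (nat_lit 304) (nat_lit 6612935497) (nat_lit 60) (nat_lit 5) (nat_lit 63) (nat_lit 5) (nat_lit 64) (nat_lit 5) (nat_lit 303) (nat_lit 262) (nat_lit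 215)))) (XT.nd (nat_lit 156) (nat_lit 152) (nat_lit 0) (XT.nd (nat_lit 78) (nat_lit 304) (nat_lit 0) (XT.lf (nat_lit 0) (nat_lit 5611947058) (nat_lit 228) (nat_lit 9208882318) (nat_lit 304) (nat_lit 1513337322) (nat_lit 57) (nat_lit 5) (nat_lit 60) (nat_lit 5) (nat_lit 61) (nat_lit 5) (nat_lit 304) (nat_lit 262) (nat_lit 214)) (XT.lf (nat_lit 0) (nat_lit 2003054824) (nat_lit 228) (nat_lit 1793010551) (nat_lit 304) (nat_lit 13100783196) (nat_lit 53) (nat_lit 5) (nat_lit 56) (nat_lit 5) (nat_lit 57) (nat_lit 5) (nat_lit 305) (nat_lit 262) (nat_lit 213))) (XT.nd (nat_lit 78) (nat_lit 152) (nat_lit 0) (XT.lf (nat_lit 0) (nat_lit 9444608625) (nat_lit 304) (nat_lit 2071737061) (nat_lit 76) (nat_lit 5967765794) (nat_lit 53) (nat_lit 5) (nat_lit 57) (nat_lit 5) (nat_lit 54) (nat_lit 5) (nat_lit 306) (nat_lit 262) (nat_lit 212)) (XT.lf (nat_lit 0) (nat_lit 11500544426) (nat_lit 152) (nat_lit 3942343417)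 (nat_lit 228) (nat_lit 2655873761) (nat_lit 51) (nat_lit 5) (nat_lit 53) (nat_lit 5) (nat_lit 54) (nat_lit 5) (nat_lit 307) (nat_lit 262) (nat_lit 211)))))) (XT.nd (nat_lit 468) (nat_lit 912) (nat_lit 0) (XT.nd (nat_lit 234) (nat_lit 456) (nat_lit 0) (XT.nd (nat_lit 78) (nat_lit 152) (nat_lit 0) (XT.lf (nat_lit 0) (nat_lit 3007325624) (nat_lit 304) (nat_lit 11717396518) (nat_lit 76) (nat_lit 4016531817) (nat_lit 47) (nat_lit 5) (nat_lit 51) (nat_lit 5) (nat_lit 48) (nat_lit 5) (nat_lit 308) (nat_lit 262) (nat_lit 210)) (XT.nd (nat_lit 78) (nat_lit 0) (nat_lit 0) (XT.lf (nat_lit 0) (nat_lit 1927074577) (nat_lit 152) (nat_lit 7040777062) (nat_lit 228) (nat_lit 10445195757) (nat_lit 45) (nat_lit 5) (nat_lit 47) (nat_lit 5) (nat_lit 48) (nat_lit 5) (nat_lit 309) (nat_lit 262) (nat_lit 209)) (XT.lf (nat_lit 0) (nat_lit 15301325266) (nat_lit 228) (nat_lit 3720285421) (nat_lit 76) (nat_lit 1094608523)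 (nat_lit 45) (nat_lit 5) (nat_lit 48) (nat_lit 5) (nat_lit 46) (nat_lit 5) (nat_lit 310) (nat_lit 262) (nat_lit 208)))) (XT.nd (nat_lit 78) (nat_lit 152) (nat_lit 0) (XT.lf (nat_lit 0) (nat_lit 1197344350) (nat_lit 304) (nat_lit 10078238981) (nat_lit 76) (nat_lit 9575028772) (nat_lit 41) (nat_lit 5) (nat_lit 45) (nat_lit 5) (nat_lit 42) (nat_lit 5) (nat_lit 311) (nat_lit 262) (nat_lit 207)) (XT.nd (nat_lit 78) (nat_lit 0) (nat_lit 0) (XT.lf (nat_lit 0) (nat_lit 4396500067) (nat_lit 152) (nat_lit 3043110208) (nat_lit 228) (nat_lit 14179846353) (nat_lit 39) (nat_lit 5) (nat_lit 41) (nat_lit 5) (nat_lit 42) (nat_lit 5) (nat_lit 312) (nat_lit 262) (nat_lit 206)) (XT.lf (nat_lit 0) (nat_lit 14101116730) (nat_lit 228) (nat_lit 2758808496) (nat_lit 76) (nat_lit 5563634818) (nat_lit 39) (nat_lit 5) (nat_lit 42) (nat_lit 5) (nat_lit 40) (nat_lit 5) (nat_lit 313) (nat_lit 262) (nat_lit 205))))) (XT.nd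 (nat_lit 234) (nat_lit 532) (nat_lit 0) (XT.nd (nat_lit 78) (nat_lit 228) (nat_lit 0) (XT.lf (nat_lit 0) (nat_lit 12561143531) (nat_lit 152) (nat_lit 8636980317) (nat_lit 228) (nat_lit 2066701053) (nat_lit 37) (nat_lit 5) (nat_lit 39) (nat_lit 5) (nat_lit 40) (nat_lit 5) (nat_lit 314) (nat_lit 262) (nat_lit 204)) (XT.nd (nat_lit 78) (nat_lit 0) (nat_lit 0) (XT.lf (nat_lit 0) (nat_lit 4438969383) (nat_lit 228) (nat_lit 19625275197) (nat_lit 76) (nat_lit 81887395) (nat_lit 34) (nat_lit 5) (nat_lit 37) (nat_lit 5) (nat_lit 35) (nat_lit 5) (nat_lit 315) (nat_lit 262) (nat_lit 203)) (XT.lf (nat_lit 0) (nat_lit 11379296432) (nat_lit 228) (nat_lit 4526273514) (nat_lit 76) (nat_lit 9160782681) (nat_lit 34) (nat_lit 5) (nat_lit 37) (nat_lit 5) (nat_lit 35) (nat_lit 5) (nat_lit 316) (nat_lit 262) (nat_lit 202)))) (XT.nd (nat_lit 156) (nat_lit 228) (nat_lit 0) (XT.nd (nat_lit 78) (nat_lit 152) (nat_lit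 0) (XT.lf (nat_lit 0) (nat_lit 11476146673) (nat_lit 152) (nat_lit 7256301552) (nat_lit 228) (nat_lit 7298186183) (nat_lit 32) (nat_lit 5) (nat_lit 34) (nat_lit 5) (nat_lit 35) (nat_lit 5) (nat_lit 317) (nat_lit 262) (nat_lit 201)) (XT.lf (nat_lit 0) (nat_lit 1263860568) (nat_lit 152) (nat_lit 25222765406) (nat_lit 228) (nat_lit 555526440) (nat_lit 30) (nat_lit 5) (nat_lit 32) (nat_lit 5) (nat_lit 33) (nat_lit 4) (nat_lit 318) (nat_lit 262) (nat_lit 200))) (XT.nd (nat_lit 78) (nat_lit 152) (nat_lit 0) (XT.lf (nat_lit 0) (nat_lit 6579054079) (nat_lit 228) (nat_lit 10132987658) (nat_lit 76) (nat_lit 11384881576) (nat_lit 29) (nat_lit 5) (nat_lit 32) (nat_lit 5) (nat_lit 30) (nat_lit 5) (nat_lit 319) (nat_lit 262) (nat_lit 199)) (XT.lf (nat_lit 0) (nat_lit 6343162034) (nat_lit 152) (nat_lit 7736366065) (nat_lit 228) (nat_lit 15124140460) (nat_lit 27) (nat_lit 5) (nat_lit 29) (nat_lit 5) (nat_lit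 30) (nat_lit 5) (nat_lit 320) (nat_lit 262) (nat_lit 198))))))) (XT.nd (nat_lit 1014) (nat_lit 456) (nat_lit 0) (XT.nd (nat_lit 468) (nat_lit 532) (nat_lit 0) (XT.nd (nat_lit 234) (nat_lit 228) (nat_lit 0) (XT.nd (nat_lit 78) (nat_lit 152) (nat_lit 0) (XT.lf (nat_lit 0) (nat_lit 22037170142) (nat_lit 228) (nat_lit 6593529048) (nat_lit 76) (nat_lit 1732606996) (nat_lit 27) (nat_lit 5) (nat_lit 30) (nat_lit 5) (nat_lit 28) (nat_lit 4) (nat_lit 321) (nat_lit 262) (nat_lit 197)) (XT.nd (nat_lit 78) (nat_lit 76) (nat_lit 0) (XT.lf (nat_lit 0) (nat_lit 10549313701) (nat_lit 76) (nat_lit 19985323860) (nat_lit 152) (nat_lit 1042048356) (nat_lit 26) (nat_lit 5) (nat_lit 27) (nat_lit 5) (nat_lit 28) (nat_lit 4) (nat_lit 322) (nat_lit 262) (nat_lit 196)) (XT.lf (nat_lit 0) (nat_lit 6509131840) (nat_lit 152) (nat_lit 4289921394) (nat_lit 76) (nat_lit 22048839436) (nat_lit 25) (nat_lit 5) (nat_lit 27)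 (nat_lit 5) (nat_lit 26) (nat_lit 5) (nat_lit 323) (nat_lit 262) (nat_lit 195)))) (XT.nd (nat_lit 78) (nat_lit 76) (nat_lit 0) (XT.lf (nat_lit 0) (nat_lit 13475767302) (nat_lit 152) (nat_lit 1035293235) (nat_lit 228) (nat_lit 19668463794) (nat_lit 23) (nat_lit 5) (nat_lit 25) (nat_lit 5) (nat_lit 26) (nat_lit 5) (nat_lit 324) (nat_lit 262) (nat_lit 194)) (XT.nd (nat_lit 78) (nat_lit 76) (nat_lit 0) (XT.lf (nat_lit 0) (nat_lit 23012134806) (nat_lit 228) (nat_lit 3506174076) (nat_lit 76) (nat_lit 9056472754) (nat_lit 23) (nat_lit 5) (nat_lit 26) (nat_lit 5) (nat_lit 24) (nat_lit 4) (nat_lit 325) (nat_lit 262) (nat_lit 193)) (XT.lf (nat_lit 0) (nat_lit 14771837806) (nat_lit 76) (nat_lit 17286351167) (nat_lit 152) (nat_lit 4978029840) (nat_lit 22) (nat_lit 5) (nat_lit 23) (nat_lit 5) (nat_lit 24) (nat_lit 4) (nat_lit 326) (nat_lit 262) (nat_lit 192))))) (XT.nd (nat_lit 234) (nat_lit 304) (nat_lit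 0) (XT.nd (nat_lit 78) (nat_lit 152) (nat_lit 0) (XT.lf (nat_lit 0) (nat_lit 2932173257) (nat_lit 152) (nat_lit 4617943476) (nat_lit 76) (nat_lit 31019625170) (nat_lit 21) (nat_lit 5) (nat_lit 23) (nat_lit 5) (nat_lit 22) (nat_lit 5) (nat_lit 327) (nat_lit 262) (nat_lit 191)) (XT.nd (nat_lit 78) (nat_lit 0) (nat_lit 0) (XT.lf (nat_lit 0) (nat_lit 11268245571) (nat_lit 228) (nat_lit 26120825217) (nat_lit 76) (nat_lit 2785405393) (nat_lit 19) (nat_lit 5) (nat_lit 22) (nat_lit 5) (nat_lit 20) (nat_lit 4) (nat_lit 328) (nat_lit 262) (nat_lit 190)) (XT.lf (nat_lit 0) (nat_lit 20115745113) (nat_lit 228) (nat_lit 8232089670) (nat_lit 76) (nat_lit 13508786090) (nat_lit 19) (nat_lit 5) (nat_lit 22) (nat_lit 5) (nat_lit 20) (nat_lit 4) (nat_lit 329) (nat_lit 262) (nat_lit 189)))) (XT.nd (nat_lit 156) (nat_lit 228) (nat_lit 0) (XT.nd (nat_lit 78) (nat_lit 0) (nat_lit 0) (XT.lf (nat_lit 0) (nat_lit 10709861714)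 (nat_lit 76) (nat_lit 18770526830) (nat_lit 152) (nat_lit 14140253003) (nat_lit 18) (nat_lit 5) (nat_lit 19) (nat_lit 5) (nat_lit 20) (nat_lit 4) (nat_lit 330) (nat_lit 262) (nat_lit 188)) (XT.lf (nat_lit 0) (nat_lit 30722167440) (nat_lit 76) (nat_lit 8648531118) (nat_lit 152) (nat_lit 6100452918) (nat_lit 18) (nat_lit 5) (nat_lit 19) (nat_lit 5) (nat_lit 20) (nat_lit 4) (nat_lit 331) (nat_lit 262) (nat_lit 187))) (XT.nd (nat_lit 78) (nat_lit 0) (nat_lit 0) (XT.lf (nat_lit 0) (nat_lit 2330519719) (nat_lit 228) (nat_lit 43096499217) (nat_lit 76) (nat_lit 1985457067) (nat_lit 15) (nat_lit 5) (nat_lit 18) (nat_lit 5) (nat_lit 16) (nat_lit 4) (nat_lit 332) (nat_lit 262) (nat_lit 186)) (XT.lf (nat_lit 0) (nat_lit 11273013149) (nat_lit 228) (nat_lit 25000498063) (nat_lit 76) (nat_lit 13169069272) (nat_lit 15) (nat_lit 5) (nat_lit 18) (nat_lit 5) (nat_lit 16) (nat_lit 4) (nat_lit 333) (nat_lit 262)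 (nat_lit 185)))))) (XT.nd (nat_lit 546) (nat_lit 228) (nat_lit 0) (XT.nd (nat_lit 234) (nat_lit 152) (nat_lit 0) (XT.nd (nat_lit 78) (nat_lit 76) (nat_lit 0) (XT.lf (nat_lit 0) (nat_lit 20638196315) (nat_lit 228) (nat_lit 6043710054) (nat_lit 76) (nat_lit 24893026306) (nat_lit 15) (nat_lit 5) (nat_lit 18) (nat_lit 5) (nat_lit 16) (nat_lit 4) (nat_lit 334) (nat_lit 262) (nat_lit 184)) (XT.nd (nat_lit 78) (nat_lit 0) (nat_lit 0) (XT.lf (nat_lit 0) (nat_lit 14094025214) (nat_lit 76) (nat_lit 16489822449) (nat_lit 152) (nat_lit 23226697529) (nat_lit 14) (nat_lit 5) (nat_lit 15) (nat_lit 5) (nat_lit 16) (nat_lit 4) (nat_lit 335) (nat_lit 262) (nat_lit 183)) (XT.lf (nat_lit 0) (nat_lit 35324227227) (nat_lit 76) (nat_lit 5742214424) (nat_lit 152) (nat_lit 15090315444) (nat_lit 14) (nat_lit 5) (nat_lit 15) (nat_lit 5) (nat_lit 16) (nat_lit 4) (nat_lit 336) (nat_lit 262) (nat_lit 182)))) (XT.nd (nat_lit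 156) (nat_lit 0) (nat_lit 0) (XT.nd (nat_lit 78) (nat_lit 152) (nat_lit 0) (XT.lf (nat_lit 0) (nat_lit 52104799045) (nat_lit 152) (nat_lit 1096884032) (nat_lit 0) (nat_lit 5417655658) (nat_lit 14) (nat_lit 5) (nat_lit 16) (nat_lit 4) (nat_lit 14) (nat_lit 4) (nat_lit 337) (nat_lit 262) (nat_lit 181)) (XT.lf (nat_lit 0) (nat_lit 2672507384) (nat_lit 152) (nat_lit 41305511751) (nat_lit 76) (nat_lit 17219387634) (nat_lit 12) (nat_lit 5) (nat_lit 14) (nat_lit 5) (nat_lit 13) (nat_lit 4) (nat_lit 338) (nat_lit 262) (nat_lit 180))) (XT.nd (nat_lit 78) (nat_lit 0) (nat_lit 0) (XT.lf (nat_lit 0) (nat_lit 12176643260) (nat_lit 152) (nat_lit 22053600072) (nat_lit 76) (nat_lit 29672433027) (nat_lit 12) (nat_lit 5) (nat_lit 14) (nat_lit 5) (nat_lit 13) (nat_lit 4) (nat_lit 339) (nat_lit 262) (nat_lit 179)) (XT.lf (nat_lit 0) (nat_lit 22136758726) (nat_lit 152) (nat_lit 1874074389) (nat_lit 76) (nat_lit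 42732959967) (nat_lit 12) (nat_lit 5) (nat_lit 14) (nat_lit 5) (nat_lit 13) (nat_lit 4) (nat_lit 340) (nat_lit 262) (nat_lit 178))))) (XT.nd (nat_lit 234) (nat_lit 152) (nat_lit 0) (XT.nd (nat_lit 78) (nat_lit 0) (nat_lit 0) (XT.lf (nat_lit 0) (nat_lit 19664843718) (nat_lit 76) (nat_lit 13100755133) (nat_lit 152) (nat_lit 36956251737) (nat_lit 11) (nat_lit 5) (nat_lit 12) (nat_lit 5) (nat_lit 13) (nat_lit 4) (nat_lit 341) (nat_lit 262) (nat_lit 177)) (XT.nd (nat_lit 78) (nat_lit 0) (nat_lit 0) (XT.lf (nat_lit 0) (nat_lit 42287509575) (nat_lit 76) (nat_lit 1639912638) (nat_lit 152) (nat_lit 28921348720) (nat_lit 11) (nat_lit 5) (nat_lit 12) (nat_lit 5) (nat_lit 13) (nat_lit 4) (nat_lit 342) (nat_lit 262) (nat_lit 176)) (XT.lf (nat_lit 0) (nat_lit 55730210767) (nat_lit 152) (nat_lit 10221840915) (nat_lit 0) (nat_lit 10177505300) (nat_lit 11) (nat_lit 5) (nat_lit 13) (nat_lit 4) (nat_lit 11)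 (nat_lit 4) (nat_lit 343) (nat_lit 262) (nat_lit 175)))) (XT.nd (nat_lit 156) (nat_lit 76) (nat_lit 0) (XT.nd (nat_lit 78) (nat_lit 0) (nat_lit 0) (XT.lf (nat_lit 0) (nat_lit 11308963676) (nat_lit 76) (nat_lit 56923207981) (nat_lit 76) (nat_lit 11338945314) (nat_lit 10) (nat_lit 4) (nat_lit 11) (nat_lit 5) (nat_lit 11) (nat_lit 4) (nat_lit 344) (nat_lit 262) (nat_lit 174)) (XT.lf (nat_lit 0) (nat_lit 34101053186) (nat_lit 76) (nat_lit 47347669752) (nat_lit 76) (nat_lit 1733352609) (nat_lit 10) (nat_lit 4) (nat_lit 11) (nat_lit 5) (nat_lit 11) (nat_lit 4) (nat_lit 345) (nat_lit 262) (nat_lit 173))) (XT.nd (nat_lit 78) (nat_lit 0) (nat_lit 0) (XT.lf (nat_lit 0) (nat_lit 8174395312) (nat_lit 152) (nat_lit 29048917968) (nat_lit 76) (nat_lit 49748319139) (nat_lit 9) (nat_lit 5) (nat_lit 11) (nat_lit 5) (nat_lit 10) (nat_lit 4) (nat_lit 346) (nat_lit 262) (nat_lit 172)) (XT.lf (nat_lit 0) (nat_lit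 18527599601) (nat_lit 152) (nat_lit 8059173559) (nat_lit 76) (nat_lit 64363806316) (nat_lit 9) (nat_lit 5) (nat_lit 11) (nat_lit 5) (nat_lit 10) (nat_lit 4) (nat_lit 347) (nat_lit 262) (nat_lit 171))))))))
noncomputable def xc55 : XT := (XT.nd (nat_lit 34944) (nat_lit 0) (nat_lit 4712) (XT.nd (nat_lit 1014) (nat_lit 0) (nat_lit 0) (XT.nd (nat_lit 468) (nat_lit 152) (nat_lit 0) (XT.nd (nat_lit 234) (nat_lit 76) (nat_lit 0) (XT.nd (nat_lit 78) (nat_lit 0) (nat_lit 0) (XT.lf (nat_lit 0) (nat_lit 14232577340) (nat_lit 76) (nat_lit 15288969594) (nat_lit 152) (nat_lit 65603238960) (nat_lit 8) (nat_lit 5) (nat_lit 9) (nat_lit 5) (nat_lit 10) (nat_lit 4) (nat_lit 348) (nat_lit 262) (nat_lit 170)) (XT.nd (nat_lit 78) (nat_lit 0) (nat_lit 0) (XT.lf (nat_lit 0) (nat_lit 37782841860) (nat_lit 76) (nat_lit 3352000843) (nat_lit 152) (nat_lit 58370774676) (nat_lit 8) (nat_lit 5) (nat_lit 9) (nat_lit 5)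 (nat_lit 10) (nat_lit 4) (nat_lit 349) (nat_lit 262) (nat_lit 169)) (XT.lf (nat_lit 0) (nat_lit 53404285030) (nat_lit 152) (nat_lit 41706735049) (nat_lit 0) (nat_lit 8992209983) (nat_lit 8) (nat_lit 5) (nat_lit 10) (nat_lit 4) (nat_lit 8) (nat_lit 4) (nat_lit 350) (nat_lit 262) (nat_lit 168)))) (XT.nd (nat_lit 78) (nat_lit 76) (nat_lit 0) (XT.lf (nat_lit 0) (nat_lit 66308861106) (nat_lit 152) (nat_lit 20746204140) (nat_lit 0) (nat_lit 21875012164) (nat_lit 8) (nat_lit 5) (nat_lit 10) (nat_lit 4) (nat_lit 8) (nat_lit 4) (nat_lit 351) (nat_lit 262) (nat_lit 167)) (XT.nd (nat_lit 78) (nat_lit 0) (nat_lit 0) (XT.lf (nat_lit 0) (nat_lit 1265641948) (nat_lit 76) (nat_lit 78593598809) (nat_lit 76) (nat_lit 34139012823) (nat_lit 7) (nat_lit 4) (nat_lit 8) (nat_lit 5) (nat_lit 8) (nat_lit 4) (nat_lit 352) (nat_lit 262) (nat_lit 166)) (XT.lf (nat_lit 0) (nat_lit 24790820065) (nat_lit 76) (nat_lit 69498643914)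 (nat_lit 76) (nat_lit 25024308362) (nat_lit 7) (nat_lit 4) (nat_lit 8) (nat_lit 5) (nat_lit 8) (nat_lit 4) (nat_lit 353) (nat_lit 262) (nat_lit 165))))) (XT.nd (nat_lit 234) (nat_lit 76) (nat_lit 0) (XT.nd (nat_lit 78) (nat_lit 76) (nat_lit 0) (XT.lf (nat_lit 0) (nat_lit 49472452396) (nat_lit 76) (nat_lit 59958041891) (nat_lit 76) (nat_lit 15464897229) (nat_lit 7) (nat_lit 4) (nat_lit 8) (nat_lit 5) (nat_lit 8) (nat_lit 4) (nat_lit 354) (nat_lit 262) (nat_lit 164)) (XT.nd (nat_lit 78) (nat_lit 76) (nat_lit 0) (XT.lf (nat_lit 0) (nat_lit 75369304733) (nat_lit 76) (nat_lit 49949077020) (nat_lit 76) (nat_lit 5438018919) (nat_lit 7) (nat_lit 4) (nat_lit 8) (nat_lit 5) (nat_lit 8) (nat_lit 4) (nat_lit 355) (nat_lit 262) (nat_lit 163)) (XT.lf (nat_lit 0) (nat_lit 4981067083) (nat_lit 152) (nat_lit 34416552338) (nat_lit 76) (nat_lit 97511670155) (nat_lit 6) (nat_lit 5) (nat_lit 8) (nat_lit 5) (nat_lit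 7) (nat_lit 4) (nat_lit 356) (nat_lit 262) (nat_lit 162)))) (XT.nd (nat_lit 156) (nat_lit 0) (nat_lit 0) (XT.nd (nat_lit 78) (nat_lit 76) (nat_lit 0) (XT.lf (nat_lit 0) (nat_lit 15800345311) (nat_lit 152) (nat_lit 12469665552) (nat_lit 76) (nat_lit 115098448487) (nat_lit 6) (nat_lit 5) (nat_lit 8) (nat_lit 5) (nat_lit 7) (nat_lit 4) (nat_lit 357) (nat_lit 262) (nat_lit 161)) (XT.lf (nat_lit 0) (nat_lit 10768219218) (nat_lit 76) (nat_lit 16486982778) (nat_lit 152) (nat_lit 122892549856) (nat_lit 5) (nat_lit 5) (nat_lit 6) (nat_lit 5) (nat_lit 7) (nat_lit 4) (nat_lit 358) (nat_lit 262) (nat_lit 160))) (XT.nd (nat_lit 78) (nat_lit 0) (nat_lit 0) (XT.lf (nat_lit 0) (nat_lit 35412576663) (nat_lit 76) (nat_lit 3989962710) (nat_lit 152) (nat_lit 117859880023) (nat_lit 5) (nat_lit 5) (nat_lit 6) (nat_lit 5) (nat_lit 7) (nat_lit 4) (nat_lit 359) (nat_lit 262) (nat_lit 159)) (XT.lf (nat_lit 0) (nat_lit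 52236742026) (nat_lit 152) (nat_lit 103546870162) (nat_lit 0) (nat_lit 8946825605) (nat_lit 5) (nat_lit 5) (nat_lit 7) (nat_lit 4) (nat_lit 5) (nat_lit 4) (nat_lit 360) (nat_lit 262) (nat_lit 158)))))) (XT.nd (nat_lit 33384) (nat_lit 0) (nat_lit 17708) (XT.nd (nat_lit 33150) (nat_lit 0) (nat_lit 21204) (XT.nd (nat_lit 32994) (nat_lit 0) (nat_lit 22192) (XT.lf (nat_lit 0) (nat_lit 65745037822) (nat_lit 152) (nat_lit 84383706655) (nat_lit 0) (nat_lit 22442143456) (nat_lit 5) (nat_lit 5) (nat_lit 7) (nat_lit 4) (nat_lit 5) (nat_lit 4) (nat_lit 361) (nat_lit 262) (nat_lit 157)) (XT.nd (nat_lit 78) (nat_lit 0) (nat_lit 0) (XT.lf (nat_lit 0) (nat_lit 111160373) (nat_lit 0) (nat_lit 111160373) (nat_lit 380) (nat_lit 3052753219) (nat_lit 297) (nat_lit 5) (nat_lit 297) (nat_lit 3) (nat_lit 302) (nat_lit 3) (nat_lit 263) (nat_lit 263) (nat_lit 254)) (XT.lf (nat_lit 0) (nat_lit 4324228888) (nat_lit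 380) (nat_lit 1317703137) (nat_lit 456) (nat_lit 947643936) (nat_lit 297) (nat_lit 5) (nat_lit 302) (nat_lit 3) (nat_lit 303) (nat_lit 5) (nat_lit 264) (nat_lit 263) (nat_lit 253)))) (XT.nd (nat_lit 78) (nat_lit 532) (nat_lit 0) (XT.lf (nat_lit 0) (nat_lit 1523510996) (nat_lit 456) (nat_lit 2768804561) (nat_lit 532) (nat_lit 2344929349) (nat_lit 291) (nat_lit 5) (nat_lit 297) (nat_lit 5) (nat_lit 298) (nat_lit 5) (nat_lit 265) (nat_lit 263) (nat_lit 252)) (XT.nd (nat_lit 78) (nat_lit 532) (nat_lit 0) (XT.lf (nat_lit 76) (nat_lit 2547168363) (nat_lit 0) (nat_lit 2708207292) (nat_lit 532) (nat_lit 1437725914) (nat_lit 292) (nat_lit 5) (nat_lit 291) (nat_lit 5) (nat_lit 298) (nat_lit 5) (nat_lit 266) (nat_lit 263) (nat_lit 251)) (XT.lf (nat_lit 76) (nat_lit 1302477837) (nat_lit 0) (nat_lit 882816603) (nat_lit 608) (nat_lit 4571896567) (nat_lit 285) (nat_lit 5) (nat_lit 284) (nat_lit 5) (nat_lit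 292) (nat_lit 5) (nat_lit 267) (nat_lit 263) (nat_lit 250))))) (XT.nd (nat_lit 234) (nat_lit 2964) (nat_lit 0) (XT.nd (nat_lit 78) (nat_lit 608) (nat_lit 0) (XT.lf (nat_lit 76) (nat_lit 124983774) (nat_lit 0) (nat_lit 5669026447) (nat_lit 608) (nat_lit 1035450417) (nat_lit 286) (nat_lit 5) (nat_lit 285) (nat_lit 5) (nat_lit 293) (nat_lit 5) (nat_lit 268) (nat_lit 263) (nat_lit 249)) (XT.nd (nat_lit 78) (nat_lit 0) (nat_lit 0) (XT.lf (nat_lit 0) (nat_lit 2477638229) (nat_lit 608) (nat_lit 981194249) (nat_lit 684) (nat_lit 3450575466) (nat_lit 277) (nat_lit 5) (nat_lit 285) (nat_lit 5) (nat_lit 286) (nat_lit 5) (nat_lit 269) (nat_lit 263) (nat_lit 248)) (XT.lf (nat_lit 76) (nat_lit 4981697242) (nat_lit 0) (nat_lit 1007980472) (nat_lit 684) (nat_lit 1008405665) (nat_lit 278) (nat_lit 5) (nat_lit 277) (nat_lit 5) (nat_lit 286) (nat_lit 5) (nat_lit 270) (nat_lit 263) (nat_lit 247)))) (XT.nd (nat_lit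 156) (nat_lit 1672) (nat_lit 0) (XT.nd (nat_lit 78) (nat_lit 684) (nat_lit 0) (XT.lf (nat_lit 0) (nat_lit 2404386146) (nat_lit 684) (nat_lit 3018124784) (nat_lit 76) (nat_lit 1672225196) (nat_lit 269) (nat_lit 5) (nat_lit 278) (nat_lit 5) (nat_lit 270) (nat_lit 5) (nat_lit 271) (nat_lit 263) (nat_lit 246)) (XT.lf (nat_lit 0) (nat_lit 3226693045) (nat_lit 684) (nat_lit 2614107182) (nat_lit 760) (nat_lit 1359240944) (nat_lit 260) (nat_lit 5) (nat_lit 269) (nat_lit 5) (nat_lit 270) (nat_lit 5) (nat_lit 272) (nat_lit 263) (nat_lit 245))) (XT.nd (nat_lit 78) (nat_lit 836) (nat_lit 0) (XT.lf (nat_lit 0) (nat_lit 1972901462) (nat_lit 836) (nat_lit 4891464910) (nat_lit 76) (nat_lit 449651371) (nat_lit 249) (nat_lit 5) (nat_lit 260) (nat_lit 5) (nat_lit 250) (nat_lit 5) (nat_lit 273) (nat_lit 263) (nat_lit 244)) (XT.lf (nat_lit 0) (nat_lit 1641738210) (nat_lit 836) (nat_lit 3710473711) (nat_lit 912)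 (nat_lit 2084111740) (nat_lit 238) (nat_lit 5) (nat_lit 249) (nat_lit 5) (nat_lit 250) (nat_lit 5) (nat_lit 274) (nat_lit 263) (nat_lit 243))))))) (XT.nd (nat_lit 1014) (nat_lit 4332) (nat_lit 0) (XT.nd (nat_lit 468) (nat_lit 3724) (nat_lit 0) (XT.nd (nat_lit 234) (nat_lit 2888) (nat_lit 0) (XT.nd (nat_lit 78) (nat_lit 1064) (nat_lit 0) (XT.lf (nat_lit 0) (nat_lit 906653141) (nat_lit 912) (nat_lit 292633075) (nat_lit 988) (nat_lit 6368657437) (nat_lit 225) (nat_lit 5) (nat_lit 237) (nat_lit 5) (nat_lit 238) (nat_lit 5) (nat_lit 275) (nat_lit 263) (nat_lit 242)) (XT.nd (nat_lit 78) (nat_lit 76) (nat_lit 0) (XT.lf (nat_lit 0) (nat_lit 169942245) (nat_lit 988) (nat_lit 4364888795) (nat_lit 1064) (nat_lit 3173021439) (nat_lit 212) (nat_lit 5) (nat_lit 225) (nat_lit 5) (nat_lit 226) (nat_lit 5) (nat_lit 276) (nat_lit 263) (nat_lit 241)) (XT.lf (nat_lit 0) (nat_lit 92822670) (nat_lit 1064) (nat_lit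 515282138) (nat_lit 76) (nat_lit 7249419501) (nat_lit 211) (nat_lit 5) (nat_lit 225) (nat_lit 5) (nat_lit 212) (nat_lit 5) (nat_lit 277) (nat_lit 263) (nat_lit 240)))) (XT.nd (nat_lit 78) (nat_lit 1824) (nat_lit 0) (XT.lf (nat_lit 0) (nat_lit 3405102280) (nat_lit 1140) (nat_lit 1222548634) (nat_lit 76) (nat_lit 3387851661) (nat_lit 197) (nat_lit 5) (nat_lit 212) (nat_lit 5) (nat_lit 198) (nat_lit 5) (nat_lit 278) (nat_lit 263) (nat_lit 239)) (XT.nd (nat_lit 78) (nat_lit 684) (nat_lit 0) (XT.lf (nat_lit 0) (nat_lit 6279061018) (nat_lit 1140) (nat_lit 531195148) (nat_lit 1216) (nat_lit 1373523217) (nat_lit 182) (nat_lit 5) (nat_lit 197) (nat_lit 5) (nat_lit 198) (nat_lit 5) (nat_lit 279) (nat_lit 263) (nat_lit 238)) (XT.lf (nat_lit 0) (nat_lit 1950620766) (nat_lit 684) (nat_lit 2617599225) (nat_lit 76) (nat_lit 3792918816) (nat_lit 173) (nat_lit 5) (nat_lit 182) (nat_lit 5) (nat_lit 174) (nat_lit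 5) (nat_lit 280) (nat_lit 263) (nat_lit 237))))) (XT.nd (nat_lit 234) (nat_lit 1976) (nat_lit 0) (XT.nd (nat_lit 78) (nat_lit 1140) (nat_lit 0) (XT.lf (nat_lit 0) (nat_lit 5216507908) (nat_lit 608) (nat_lit 136611317) (nat_lit 684) (nat_lit 3195813863) (nat_lit 165) (nat_lit 5) (nat_lit 173) (nat_lit 5) (nat_lit 174) (nat_lit 5) (nat_lit 281) (nat_lit 263) (nat_lit 236)) (XT.nd (nat_lit 78) (nat_lit 532) (nat_lit 0) (XT.lf (nat_lit 0) (nat_lit 161452280) (nat_lit 608) (nat_lit 4082607797) (nat_lit 76) (nat_lit 4502622299) (nat_lit 157) (nat_lit 5) (nat_lit 165) (nat_lit 5) (nat_lit 158) (nat_lit 5) (nat_lit 282) (nat_lit 263) (nat_lit 235)) (XT.lf (nat_lit 0) (nat_lit 3575148817) (nat_lit 608) (nat_lit 4869686850) (nat_lit 76) (nat_lit 510062989) (nat_lit 150) (nat_lit 5) (nat_lit 158) (nat_lit 5) (nat_lit 151) (nat_lit 5) (nat_lit 283) (nat_lit 263) (nat_lit 234)))) (XT.nd (nat_lit 156)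 (nat_lit 912) (nat_lit 0) (XT.nd (nat_lit 78) (nat_lit 608) (nat_lit 0) (XT.lf (nat_lit 0) (nat_lit 3466690008) (nat_lit 456) (nat_lit 3689860774) (nat_lit 532) (nat_lit 2017224938) (nat_lit 144) (nat_lit 5) (nat_lit 150) (nat_lit 5) (nat_lit 151) (nat_lit 5) (nat_lit 284) (nat_lit 263) (nat_lit 233)) (XT.lf (nat_lit 0) (nat_lit 1456693577) (nat_lit 608) (nat_lit 6589022612) (nat_lit 76) (nat_lit 1358408505) (nat_lit 136) (nat_lit 5) (nat_lit 144) (nat_lit 5) (nat_lit 137) (nat_lit 5) (nat_lit 285) (nat_lit 263) (nat_lit 232))) (XT.nd (nat_lit 78) (nat_lit 456) (nat_lit 0) (XT.lf (nat_lit 0) (nat_lit 2090467876) (nat_lit 456) (nat_lit 2975127332) (nat_lit 532) (nat_lit 4579847955) (nat_lit 130) (nat_lit 5) (nat_lit 136) (nat_lit 5) (nat_lit 137) (nat_lit 5) (nat_lit 286) (nat_lit 263) (nat_lit 231)) (XT.lf (nat_lit 0) (nat_lit 1317187311) (nat_lit 456) (nat_lit 7531494439) (nat_lit 532) (nat_lit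 1050468295) (nat_lit 124) (nat_lit 5) (nat_lit 130) (nat_lit 5) (nat_lit 131) (nat_lit 5) (nat_lit 287) (nat_lit 263) (nat_lit 230)))))) (XT.nd (nat_lit 546) (nat_lit 1900) (nat_lit 0) (XT.nd (nat_lit 234) (nat_lit 1596) (nat_lit 0) (XT.nd (nat_lit 78) (nat_lit 380) (nat_lit 0) (XT.lf (nat_lit 0) (nat_lit 451488462) (nat_lit 380) (nat_lit 2157833273) (nat_lit 456) (nat_lit 7555406591) (nat_lit 118) (nat_lit 5) (nat_lit 123) (nat_lit 5) (nat_lit 124) (nat_lit 5) (nat_lit 288) (nat_lit 263) (nat_lit 229)) (XT.nd (nat_lit 78) (nat_lit 380) (nat_lit 0) (XT.lf (nat_lit 0) (nat_lit 6449831652) (nat_lit 456) (nat_lit 497902064) (nat_lit 76) (nat_lit 3495074721) (nat_lit 118) (nat_lit 5) (nat_lit 124) (nat_lit 5) (nat_lit 119) (nat_lit 5) (nat_lit 289) (nat_lit 263) (nat_lit 228)) (XT.lf (nat_lit 0) (nat_lit 9214377083) (nat_lit 380) (nat_lit 1279810454) (nat_lit 456) (nat_lit 240363355) (nat_lit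 113) (nat_lit 5) (nat_lit 118) (nat_lit 5) (nat_lit 119) (nat_lit 5) (nat_lit 290) (nat_lit 263) (nat_lit 227)))) (XT.nd (nat_lit 156) (nat_lit 760) (nat_lit 0) (XT.nd (nat_lit 78) (nat_lit 380) (nat_lit 0) (XT.lf (nat_lit 0) (nat_lit 3663353975) (nat_lit 456) (nat_lit 2696426991) (nat_lit 76) (nat_lit 4679066846) (nat_lit 107) (nat_lit 5) (nat_lit 113) (nat_lit 5) (nat_lit 108) (nat_lit 5) (nat_lit 291) (nat_lit 263) (nat_lit 226)) (XT.lf (nat_lit 0) (nat_lit 7380986880) (nat_lit 380) (nat_lit 383206998) (nat_lit 456) (nat_lit 3593986542) (nat_lit 102) (nat_lit 5) (nat_lit 107) (nat_lit 5) (nat_lit 108) (nat_lit 5) (nat_lit 292) (nat_lit 263) (nat_lit 225))) (XT.nd (nat_lit 78) (nat_lit 380) (nat_lit 0) (XT.lf (nat_lit 0) (nat_lit 424907544) (nat_lit 380) (nat_lit 5423284521) (nat_lit 76) (nat_lit 5843601159) (nat_lit 97) (nat_lit 5) (nat_lit 102) (nat_lit 5) (nat_lit 98) (nat_lit 5) (nat_lit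 293) (nat_lit 263) (nat_lit 224)) (XT.lf (nat_lit 0) (nat_lit 4581080557) (nat_lit 456) (nat_lit 7036213002) (nat_lit 76) (nat_lit 423493283) (nat_lit 92) (nat_lit 5) (nat_lit 98) (nat_lit 5) (nat_lit 93) (nat_lit 5) (nat_lit 294) (nat_lit 263) (nat_lit 223))))) (XT.nd (nat_lit 234) (nat_lit 912) (nat_lit 0) (XT.nd (nat_lit 78) (nat_lit 684) (nat_lit 0) (XT.lf (nat_lit 0) (nat_lit 3555326517) (nat_lit 304) (nat_lit 5454571166) (nat_lit 380) (nat_lit 3395470817) (nat_lit 88) (nat_lit 5) (nat_lit 92) (nat_lit 5) (nat_lit 93) (nat_lit 5) (nat_lit 295) (nat_lit 263) (nat_lit 222)) (XT.nd (nat_lit 78) (nat_lit 304) (nat_lit 0) (XT.lf (nat_lit 0) (nat_lit 874645938) (nat_lit 380) (nat_lit 10846187297) (nat_lit 76) (nat_lit 1066581136) (nat_lit 83) (nat_lit 5) (nat_lit 88) (nat_lit 5) (nat_lit 84) (nat_lit 5) (nat_lit 296) (nat_lit 263) (nat_lit 221)) (XT.lf (nat_lit 0) (nat_lit 68935518) (nat_lit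 304) (nat_lit 5287367312) (nat_lit 380) (nat_lit 7829276878) (nat_lit 79) (nat_lit 5) (nat_lit 83) (nat_lit 5) (nat_lit 84) (nat_lit 5) (nat_lit 297) (nat_lit 263) (nat_lit 220)))) (XT.nd (nat_lit 156) (nat_lit 532) (nat_lit 0) (XT.nd (nat_lit 78) (nat_lit 380) (nat_lit 0) (XT.lf (nat_lit 0) (nat_lit 10111233789) (nat_lit 380) (nat_lit 1971229312) (nat_lit 76) (nat_lit 1519784440) (nat_lit 79) (nat_lit 5) (nat_lit 84) (nat_lit 5) (nat_lit 80) (nat_lit 5) (nat_lit 298) (nat_lit 263) (nat_lit 219)) (XT.lf (nat_lit 0) (nat_lit 1117282581) (nat_lit 380) (nat_lit 4286833053) (nat_lit 76) (nat_lit 8633174371) (nat_lit 74) (nat_lit 5) (nat_lit 79) (nat_lit 5) (nat_lit 75) (nat_lit 5) (nat_lit 299) (nat_lit 263) (nat_lit 218))) (XT.nd (nat_lit 78) (nat_lit 304) (nat_lit 0) (XT.lf (nat_lit 0) (nat_lit 5922343133) (nat_lit 304) (nat_lit 6895055179) (nat_lit 76) (nat_lit 1674554490) (nat_lit 71) (nat_lit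 5) (nat_lit 75) (nat_lit 5) (nat_lit 72) (nat_lit 5) (nat_lit 300) (nat_lit 263) (nat_lit 217)) (XT.lf (nat_lit 0) (nat_lit 5137547093) (nat_lit 304) (nat_lit 5908528838) (nat_lit 380) (nat_lit 3920978910) (nat_lit 67) (nat_lit 5) (nat_lit 71) (nat_lit 5) (nat_lit 72) (nat_lit 5) (nat_lit 301) (nat_lit 263) (nat_lit 216))))))))
noncomputable def xc56 : XT := (XT.nd (nat_lit 2028) (nat_lit 1140) (nat_lit 0) (XT.nd (nat_lit 1014) (nat_lit 1292) (nat_lit 0) (XT.nd (nat_lit 468) (nat_lit 912) (nat_lit 0) (XT.nd (nat_lit 234) (nat_lit 684) (nat_lit 0) (XT.nd (nat_lit 78) (nat_lit 228) (nat_lit 0) (XT.lf (nat_lit 0) (nat_lit 981167149) (nat_lit 304) (nat_lit 13092353845) (nat_lit 76) (nat_lit 1390973824) (nat_lit 63) (nat_lit 5) (nat_lit 67) (nat_lit 5) (nat_lit 64) (nat_lit 5) (nat_lit 302) (nat_lit 263) (nat_lit 215)) (XT.nd (nat_lit 78) (nat_lit 228) (nat_lit 0) (XT.lf (nat_lit 0) (nat_lit 6143449370)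 (nat_lit 304) (nat_lit 796007545) (nat_lit 76) (nat_lit 9043353283) (nat_lit 63) (nat_lit 5) (nat_lit 67) (nat_lit 5) (nat_lit 64) (nat_lit 5) (nat_lit 303) (nat_lit 263) (nat_lit 214)) (XT.lf (nat_lit 0) (nat_lit 11624530397) (nat_lit 304) (nat_lit 4273729161) (nat_lit 76) (nat_lit 627010459) (nat_lit 60) (nat_lit 5) (nat_lit 64) (nat_lit 5) (nat_lit 61) (nat_lit 5) (nat_lit 304) (nat_lit 263) (nat_lit 213)))) (XT.nd (nat_lit 78) (nat_lit 380) (nat_lit 0) (XT.lf (nat_lit 0) (nat_lit 382418932) (nat_lit 304) (nat_lit 8214186637) (nat_lit 76) (nat_lit 8495115709) (nat_lit 56) (nat_lit 5) (nat_lit 60) (nat_lit 5) (nat_lit 57) (nat_lit 5) (nat_lit 305) (nat_lit 263) (nat_lit 212)) (XT.nd (nat_lit 78) (nat_lit 152) (nat_lit 0) (XT.lf (nat_lit 0) (nat_lit 5045255135) (nat_lit 228) (nat_lit 816909439) (nat_lit 304) (nat_lit 11821904680) (nat_lit 53) (nat_lit 5) (nat_lit 56) (nat_lit 5) (nat_lit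 57) (nat_lit 5) (nat_lit 306) (nat_lit 263) (nat_lit 211)) (XT.lf (nat_lit 0) (nat_lit 685116276) (nat_lit 152) (nat_lit 11035013856) (nat_lit 228) (nat_lit 6582818790) (nat_lit 51) (nat_lit 5) (nat_lit 53) (nat_lit 5) (nat_lit 54) (nat_lit 5) (nat_lit 307) (nat_lit 263) (nat_lit 210))))) (XT.nd (nat_lit 234) (nat_lit 456) (nat_lit 0) (XT.nd (nat_lit 78) (nat_lit 456) (nat_lit 0) (XT.lf (nat_lit 0) (nat_lit 14841032031) (nat_lit 152) (nat_lit 3111731426) (nat_lit 228) (nat_lit 997595340) (nat_lit 51) (nat_lit 5) (nat_lit 53) (nat_lit 5) (nat_lit 54) (nat_lit 5) (nat_lit 308) (nat_lit 263) (nat_lit 209)) (XT.nd (nat_lit 78) (nat_lit 152) (nat_lit 0) (XT.lf (nat_lit 0) (nat_lit 4866177549) (nat_lit 304) (nat_lit 9539741361) (nat_lit 76) (nat_lit 5220025331) (nat_lit 47) (nat_lit 5) (nat_lit 51) (nat_lit 5) (nat_lit 48) (nat_lit 5) (nat_lit 309) (nat_lit 263) (nat_lit 208)) (XT.lf (nat_lit 0)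 (nat_lit 4707737400) (nat_lit 152) (nat_lit 6361439227) (nat_lit 228) (nat_lit 9263870551) (nat_lit 45) (nat_lit 5) (nat_lit 47) (nat_lit 5) (nat_lit 48) (nat_lit 5) (nat_lit 310) (nat_lit 263) (nat_lit 207)))) (XT.nd (nat_lit 156) (nat_lit 152) (nat_lit 0) (XT.nd (nat_lit 78) (nat_lit 304) (nat_lit 0) (XT.lf (nat_lit 0) (nat_lit 17650054986) (nat_lit 228) (nat_lit 1311016398) (nat_lit 76) (nat_lit 2112434963) (nat_lit 45) (nat_lit 5) (nat_lit 48) (nat_lit 5) (nat_lit 46) (nat_lit 5) (nat_lit 311) (nat_lit 263) (nat_lit 206)) (XT.lf (nat_lit 0) (nat_lit 2805814712) (nat_lit 304) (nat_lit 8029503158) (nat_lit 76) (nat_lit 11010429231) (nat_lit 41) (nat_lit 5) (nat_lit 45) (nat_lit 5) (nat_lit 42) (nat_lit 5) (nat_lit 312) (nat_lit 263) (nat_lit 205))) (XT.nd (nat_lit 78) (nat_lit 0) (nat_lit 0) (XT.lf (nat_lit 0) (nat_lit 7095801706) (nat_lit 152) (nat_lit 2214483467) (nat_lit 228) (nat_lit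 13344290585) (nat_lit 39) (nat_lit 5) (nat_lit 41) (nat_lit 5) (nat_lit 42) (nat_lit 5) (nat_lit 313) (nat_lit 263) (nat_lit 204)) (XT.lf (nat_lit 0) (nat_lit 16242479484) (nat_lit 228) (nat_lit 500651342) (nat_lit 76) (nat_lit 6757667661) (nat_lit 39) (nat_lit 5) (nat_lit 42) (nat_lit 5) (nat_lit 40) (nat_lit 5) (nat_lit 314) (nat_lit 263) (nat_lit 203)))))) (XT.nd (nat_lit 468) (nat_lit 532) (nat_lit 0) (XT.nd (nat_lit 234) (nat_lit 380) (nat_lit 0) (XT.nd (nat_lit 78) (nat_lit 228) (nat_lit 0) (XT.lf (nat_lit 0) (nat_lit 15516614630) (nat_lit 152) (nat_lit 8131699286) (nat_lit 228) (nat_lit 737233854) (nat_lit 37) (nat_lit 5) (nat_lit 39) (nat_lit 5) (nat_lit 40) (nat_lit 5) (nat_lit 315) (nat_lit 263) (nat_lit 202)) (XT.nd (nat_lit 78) (nat_lit 0) (nat_lit 0) (XT.lf (nat_lit 0) (nat_lit 6029790292) (nat_lit 228) (nat_lit 18285298264) (nat_lit 76) (nat_lit 996535014) (nat_lit 34) (nat_lit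 5) (nat_lit 37) (nat_lit 5) (nat_lit 35) (nat_lit 5) (nat_lit 316) (nat_lit 263) (nat_lit 201)) (XT.lf (nat_lit 0) (nat_lit 13251949293) (nat_lit 228) (nat_lit 2541881768) (nat_lit 76) (nat_lit 10486015386) (nat_lit 34) (nat_lit 5) (nat_lit 37) (nat_lit 5) (nat_lit 35) (nat_lit 5) (nat_lit 317) (nat_lit 263) (nat_lit 200)))) (XT.nd (nat_lit 78) (nat_lit 228) (nat_lit 0) (XT.lf (nat_lit 0) (nat_lit 14197290001) (nat_lit 152) (nat_lit 6734029798) (nat_lit 228) (nat_lit 6362299644) (nat_lit 32) (nat_lit 5) (nat_lit 34) (nat_lit 5) (nat_lit 35) (nat_lit 5) (nat_lit 318) (nat_lit 263) (nat_lit 199)) (XT.nd (nat_lit 78) (nat_lit 0) (nat_lit 0) (XT.lf (nat_lit 0) (nat_lit 671472942) (nat_lit 228) (nat_lit 24921264708) (nat_lit 76) (nat_lit 2763760770) (nat_lit 29) (nat_lit 5) (nat_lit 32) (nat_lit 5) (nat_lit 30) (nat_lit 5) (nat_lit 319) (nat_lit 263) (nat_lit 198)) (XT.lf (nat_lit 0) (nat_lit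 8092190941) (nat_lit 228) (nat_lit 8601223071) (nat_lit 76) (nat_lit 12772231821) (nat_lit 29) (nat_lit 5) (nat_lit 32) (nat_lit 5) (nat_lit 30) (nat_lit 5) (nat_lit 320) (nat_lit 263) (nat_lit 197))))) (XT.nd (nat_lit 234) (nat_lit 228) (nat_lit 0) (XT.nd (nat_lit 78) (nat_lit 152) (nat_lit 0) (XT.lf (nat_lit 0) (nat_lit 8640303378) (nat_lit 152) (nat_lit 7290028373) (nat_lit 228) (nat_lit 14698545780) (nat_lit 27) (nat_lit 5) (nat_lit 29) (nat_lit 5) (nat_lit 30) (nat_lit 5) (nat_lit 321) (nat_lit 263) (nat_lit 196)) (XT.nd (nat_lit 78) (nat_lit 152) (nat_lit 0) (XT.lf (nat_lit 0) (nat_lit 24238872508) (nat_lit 228) (nat_lit 5011825603) (nat_lit 76) (nat_lit 2597235556) (nat_lit 27) (nat_lit 5) (nat_lit 30) (nat_lit 5) (nat_lit 28) (nat_lit 4) (nat_lit 322) (nat_lit 263) (nat_lit 195)) (XT.lf (nat_lit 0) (nat_lit 3571364) (nat_lit 152) (nat_lit 20189709074) (nat_lit 76) (nat_lit 12929762534)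 (nat_lit 25) (nat_lit 5) (nat_lit 27) (nat_lit 5) (nat_lit 26) (nat_lit 5) (nat_lit 323) (nat_lit 263) (nat_lit 194)))) (XT.nd (nat_lit 156) (nat_lit 76) (nat_lit 0) (XT.nd (nat_lit 78) (nat_lit 152) (nat_lit 0) (XT.lf (nat_lit 0) (nat_lit 7859703971) (nat_lit 152) (nat_lit 2715356410) (nat_lit 76) (nat_lit 23883995713) (nat_lit 25) (nat_lit 5) (nat_lit 27) (nat_lit 5) (nat_lit 26) (nat_lit 5) (nat_lit 324) (nat_lit 263) (nat_lit 193)) (XT.lf (nat_lit 0) (nat_lit 15887333645) (nat_lit 152) (nat_lit 342285018) (nat_lit 228) (nat_lit 19628636740) (nat_lit 23) (nat_lit 5) (nat_lit 25) (nat_lit 5) (nat_lit 26) (nat_lit 5) (nat_lit 325) (nat_lit 263) (nat_lit 192))) (XT.nd (nat_lit 78) (nat_lit 76) (nat_lit 0) (XT.lf (nat_lit 0) (nat_lit 25115278985) (nat_lit 228) (nat_lit 2004469531) (nat_lit 76) (nat_lit 10204762751) (nat_lit 23) (nat_lit 5) (nat_lit 26) (nat_lit 5) (nat_lit 24) (nat_lit 4)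 (nat_lit 326) (nat_lit 263) (nat_lit 191)) (XT.lf (nat_lit 0) (nat_lit 17139371697) (nat_lit 76) (nat_lit 17444563625) (nat_lit 152) (nat_lit 4275996632) (nat_lit 22) (nat_lit 5) (nat_lit 23) (nat_lit 5) (nat_lit 24) (nat_lit 4) (nat_lit 327) (nat_lit 263) (nat_lit 190))))))) (XT.nd (nat_lit 1014) (nat_lit 380) (nat_lit 0) (XT.nd (nat_lit 468) (nat_lit 228) (nat_lit 0) (XT.nd (nat_lit 234) (nat_lit 304) (nat_lit 0) (XT.nd (nat_lit 78) (nat_lit 152) (nat_lit 0) (XT.lf (nat_lit 0) (nat_lit 3966761480) (nat_lit 152) (nat_lit 3279413189) (nat_lit 76) (nat_lit 33225033350) (nat_lit 21) (nat_lit 5) (nat_lit 23) (nat_lit 5) (nat_lit 22) (nat_lit 5) (nat_lit 328) (nat_lit 263) (nat_lit 189)) (XT.nd (nat_lit 78) (nat_lit 0) (nat_lit 0) (XT.lf (nat_lit 0) (nat_lit 12698390174) (nat_lit 228) (nat_lit 25882636112) (nat_lit 76) (nat_lit 3575808314) (nat_lit 19) (nat_lit 5) (nat_lit 22) (nat_lit 5) (nat_lit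 20) (nat_lit 4) (nat_lit 329) (nat_lit 263) (nat_lit 188)) (XT.lf (nat_lit 0) (nat_lit 21946991725) (nat_lit 228) (nat_lit 7172998567) (nat_lit 76) (nat_lit 14804351729) (nat_lit 19) (nat_lit 5) (nat_lit 22) (nat_lit 5) (nat_lit 20) (nat_lit 4) (nat_lit 330) (nat_lit 263) (nat_lit 187)))) (XT.nd (nat_lit 78) (nat_lit 228) (nat_lit 0) (XT.lf (nat_lit 0) (nat_lit 12673893192) (nat_lit 76) (nat_lit 19080398532) (nat_lit 152) (nat_lit 14023055754) (nat_lit 18) (nat_lit 5) (nat_lit 19) (nat_lit 5) (nat_lit 20) (nat_lit 4) (nat_lit 331) (nat_lit 263) (nat_lit 186)) (XT.nd (nat_lit 78) (nat_lit 228) (nat_lit 0) (XT.lf (nat_lit 0) (nat_lit 33618788567) (nat_lit 76) (nat_lit 8482238970) (nat_lit 152) (nat_lit 5620513755) (nat_lit 18) (nat_lit 5) (nat_lit 19) (nat_lit 5) (nat_lit 20) (nat_lit 4) (nat_lit 332) (nat_lit 263) (nat_lit 185)) (XT.lf (nat_lit 0) (nat_lit 3198568976) (nat_lit 228) (nat_lit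 43897649800) (nat_lit 76) (nat_lit 2664045050) (nat_lit 15) (nat_lit 5) (nat_lit 18) (nat_lit 5) (nat_lit 16) (nat_lit 4) (nat_lit 333) (nat_lit 263) (nat_lit 184))))) (XT.nd (nat_lit 234) (nat_lit 152) (nat_lit 0) (XT.nd (nat_lit 78) (nat_lit 76) (nat_lit 0) (XT.lf (nat_lit 0) (nat_lit 12552400255) (nat_lit 228) (nat_lit 24961309273) (nat_lit 76) (nat_lit 14379251431) (nat_lit 15) (nat_lit 5) (nat_lit 18) (nat_lit 5) (nat_lit 16) (nat_lit 4) (nat_lit 334) (nat_lit 263) (nat_lit 183)) (XT.nd (nat_lit 78) (nat_lit 76) (nat_lit 0) (XT.lf (nat_lit 0) (nat_lit 22351759891) (nat_lit 228) (nat_lit 5118072992) (nat_lit 76) (nat_lit 26663133521) (nat_lit 15) (nat_lit 5) (nat_lit 18) (nat_lit 5) (nat_lit 16) (nat_lit 4) (nat_lit 335) (nat_lit 263) (nat_lit 182)) (XT.lf (nat_lit 0) (nat_lit 15991353753) (nat_lit 76) (nat_lit 16782344615) (nat_lit 152) (nat_lit 23707303581) (nat_lit 14) (nat_lit 5)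 (nat_lit 15) (nat_lit 5) (nat_lit 16) (nat_lit 4) (nat_lit 336) (nat_lit 263) (nat_lit 181)))) (XT.nd (nat_lit 156) (nat_lit 152) (nat_lit 0) (XT.nd (nat_lit 78) (nat_lit 0) (nat_lit 0) (XT.lf (nat_lit 0) (nat_lit 38226274091) (nat_lit 76) (nat_lit 5522688043) (nat_lit 152) (nat_lit 15196518051) (nat_lit 14) (nat_lit 5) (nat_lit 15) (nat_lit 5) (nat_lit 16) (nat_lit 4) (nat_lit 337) (nat_lit 263) (nat_lit 180)) (XT.lf (nat_lit 0) (nat_lit 55313913764) (nat_lit 152) (nat_lit 56413794) (nat_lit 0) (nat_lit 6161634429) (nat_lit 14) (nat_lit 5) (nat_lit 16) (nat_lit 4) (nat_lit 14) (nat_lit 4) (nat_lit 338) (nat_lit 263) (nat_lit 179))) (XT.nd (nat_lit 78) (nat_lit 0) (nat_lit 0) (XT.lf (nat_lit 0) (nat_lit 3397486493) (nat_lit 152) (nat_lit 42294890467) (nat_lit 76) (nat_lit 18546949234) (nat_lit 12) (nat_lit 5) (nat_lit 14) (nat_lit 5) (nat_lit 13) (nat_lit 4) (nat_lit 339) (nat_lit 263) (nat_lit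 178)) (XT.lf (nat_lit 0) (nat_lit 13348669461) (nat_lit 152) (nat_lit 22131616388) (nat_lit 76) (nat_lit 31600428220) (nat_lit 12) (nat_lit 5) (nat_lit 14) (nat_lit 5) (nat_lit 13) (nat_lit 4) (nat_lit 340) (nat_lit 263) (nat_lit 177)))))) (XT.nd (nat_lit 546) (nat_lit 152) (nat_lit 0) (XT.nd (nat_lit 234) (nat_lit 152) (nat_lit 0) (XT.nd (nat_lit 78) (nat_lit 76) (nat_lit 0) (XT.lf (nat_lit 0) (nat_lit 23779971936) (nat_lit 152) (nat_lit 991907930) (nat_lit 76) (nat_lit 45292820862) (nat_lit 12) (nat_lit 5) (nat_lit 14) (nat_lit 5) (nat_lit 13) (nat_lit 4) (nat_lit 341) (nat_lit 263) (nat_lit 176)) (XT.nd (nat_lit 78) (nat_lit 0) (nat_lit 0) (XT.lf (nat_lit 0) (nat_lit 21595982960) (nat_lit 76) (nat_lit 13327841194) (nat_lit 152) (nat_lit 38268338936) (nat_lit 11) (nat_lit 5) (nat_lit 12) (nat_lit 5) (nat_lit 13) (nat_lit 4) (nat_lit 342) (nat_lit 263) (nat_lit 175)) (XT.lf (nat_lit 0) (nat_lit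 45304644154) (nat_lit 76) (nat_lit 1314335227) (nat_lit 152) (nat_lit 29857201501) (nat_lit 11) (nat_lit 5) (nat_lit 12) (nat_lit 5) (nat_lit 13) (nat_lit 4) (nat_lit 343) (nat_lit 263) (nat_lit 174)))) (XT.nd (nat_lit 156) (nat_lit 76) (nat_lit 0) (XT.nd (nat_lit 78) (nat_lit 76) (nat_lit 0) (XT.lf (nat_lit 0) (nat_lit 58992058352) (nat_lit 152) (nat_lit 9862580716) (nat_lit 0) (nat_lit 11066970875) (nat_lit 11) (nat_lit 5) (nat_lit 13) (nat_lit 4) (nat_lit 11) (nat_lit 4) (nat_lit 344) (nat_lit 263) (nat_lit 173)) (XT.lf (nat_lit 0) (nat_lit 12719815632) (nat_lit 76) (nat_lit 59384793095) (nat_lit 76) (nat_lit 11431082307) (nat_lit 10) (nat_lit 4) (nat_lit 11) (nat_lit 5) (nat_lit 11) (nat_lit 4) (nat_lit 345) (nat_lit 263) (nat_lit 172))) (XT.nd (nat_lit 78) (nat_lit 76) (nat_lit 0) (XT.lf (nat_lit 0) (nat_lit 36611252295) (nat_lit 76) (nat_lit 49348791064) (nat_lit 76) (nat_lit 1367819980)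 (nat_lit 10) (nat_lit 4) (nat_lit 11) (nat_lit 5) (nat_lit 11) (nat_lit 4) (nat_lit 346) (nat_lit 263) (nat_lit 171)) (XT.lf (nat_lit 0) (nat_lit 9005378129) (nat_lit 152) (nat_lit 29726015667) (nat_lit 76) (nat_lit 52576014159) (nat_lit 9) (nat_lit 5) (nat_lit 11) (nat_lit 5) (nat_lit 10) (nat_lit 4) (nat_lit 347) (nat_lit 263) (nat_lit 170))))) (XT.nd (nat_lit 234) (nat_lit 76) (nat_lit 0) (XT.nd (nat_lit 78) (nat_lit 76) (nat_lit 0) (XT.lf (nat_lit 0) (nat_lit 19856134867) (nat_lit 152) (nat_lit 7723705380) (nat_lit 76) (nat_lit 67906071930) (nat_lit 9) (nat_lit 5) (nat_lit 11) (nat_lit 5) (nat_lit 10) (nat_lit 4) (nat_lit 348) (nat_lit 263) (nat_lit 169)) (XT.nd (nat_lit 78) (nat_lit 0) (nat_lit 0) (XT.lf (nat_lit 0) (nat_lit 15661466207) (nat_lit 76) (nat_lit 15726057851) (nat_lit 152) (nat_lit 68481678791) (nat_lit 8) (nat_lit 5) (nat_lit 9) (nat_lit 5) (nat_lit 10) (nat_lit 4) (nat_lit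 349) (nat_lit 263) (nat_lit 168)) (XT.lf (nat_lit 0) (nat_lit 40355088715) (nat_lit 76) (nat_lit 3207829245) (nat_lit 152) (nat_lit 60906720917) (nat_lit 8) (nat_lit 5) (nat_lit 9) (nat_lit 5) (nat_lit 10) (nat_lit 4) (nat_lit 350) (nat_lit 263) (nat_lit 167)))) (XT.nd (nat_lit 156) (nat_lit 76) (nat_lit 0) (XT.nd (nat_lit 78) (nat_lit 0) (nat_lit 0) (XT.lf (nat_lit 0) (nat_lit 56431004101) (nat_lit 152) (nat_lit 43133626855) (nat_lit 0) (nat_lit 9732951771) (nat_lit 8) (nat_lit 5) (nat_lit 10) (nat_lit 4) (nat_lit 8) (nat_lit 4) (nat_lit 351) (nat_lit 263) (nat_lit 166)) (XT.lf (nat_lit 0) (nat_lit 69963832561) (nat_lit 152) (nat_lit 21156423922) (nat_lit 0) (nat_lit 23246030666) (nat_lit 8) (nat_lit 5) (nat_lit 10) (nat_lit 4) (nat_lit 8) (nat_lit 4) (nat_lit 352) (nat_lit 263) (nat_lit 165))) (XT.nd (nat_lit 78) (nat_lit 0) (nat_lit 0) (XT.lf (nat_lit 0) (nat_lit 1938039049) (nat_lit 76)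 (nat_lit 82243379313) (nat_lit 76) (nat_lit 35506768307) (nat_lit 7) (nat_lit 4) (nat_lit 8) (nat_lit 5) (nat_lit 8) (nat_lit 4) (nat_lit 353) (nat_lit 263) (nat_lit 164)) (XT.lf (nat_lit 0) (nat_lit 26610470595) (nat_lit 76) (nat_lit 72707005218) (nat_lit 76) (nat_lit 25952480774) (nat_lit 7) (nat_lit 4) (nat_lit 8) (nat_lit 5) (nat_lit 8) (nat_lit 4) (nat_lit 354) (nat_lit 263) (nat_lit 163))))))))
noncomputable def xc57 : XT := (XT.nd (nat_lit 35178) (nat_lit 0) (nat_lit 3040) (XT.nd (nat_lit 34164) (nat_lit 0) (nat_lit 11020) (XT.nd (nat_lit 33618) (nat_lit 0) (nat_lit 19988) (XT.nd (nat_lit 234) (nat_lit 76) (nat_lit 0) (XT.nd (nat_lit 78) (nat_lit 76) (nat_lit 0) (XT.lf (nat_lit 0) (nat_lit 52498560280) (nat_lit 76) (nat_lit 62702066945) (nat_lit 76) (nat_lit 15930482084) (nat_lit 7) (nat_lit 4) (nat_lit 8) (nat_lit 5) (nat_lit 8) (nat_lit 4) (nat_lit 355) (nat_lit 263) (nat_lit 162))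 (XT.nd (nat_lit 78) (nat_lit 76) (nat_lit 0) (XT.lf (nat_lit 0) (nat_lit 79663946412) (nat_lit 76) (nat_lit 52204743213) (nat_lit 76) (nat_lit 5416910336) (nat_lit 7) (nat_lit 4) (nat_lit 8) (nat_lit 5) (nat_lit 8) (nat_lit 4) (nat_lit 356) (nat_lit 263) (nat_lit 161)) (XT.lf (nat_lit 0) (nat_lit 5503731730) (nat_lit 152) (nat_lit 35630731765) (nat_lit 76) (nat_lit 102611999853) (nat_lit 6) (nat_lit 5) (nat_lit 8) (nat_lit 5) (nat_lit 7) (nat_lit 4) (nat_lit 357) (nat_lit 263) (nat_lit 160)))) (XT.nd (nat_lit 156) (nat_lit 76) (nat_lit 0) (XT.lf (nat_lit 0) (nat_lit 16850944761) (nat_lit 152) (nat_lit 12610626743) (nat_lit 76) (nat_lit 121067414901) (nat_lit 6) (nat_lit 5) (nat_lit 8) (nat_lit 5) (nat_lit 7) (nat_lit 4) (nat_lit 358) (nat_lit 263) (nat_lit 159)) (XT.nd (nat_lit 33150) (nat_lit 0) (nat_lit 21660) (XT.lf (nat_lit 0) (nat_lit 37629577579) (nat_lit 76) (nat_lit 3983735287) (nat_lit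 152) (nat_lit 123504936951) (nat_lit 5) (nat_lit 5) (nat_lit 6) (nat_lit 5) (nat_lit 7) (nat_lit 4) (nat_lit 360) (nat_lit 263) (nat_lit 157)) (XT.lf (nat_lit 0) (nat_lit 701682593) (nat_lit 532) (nat_lit 1307414232) (nat_lit 532) (nat_lit 1307414232) (nat_lit 290) (nat_lit 3) (nat_lit 297) (nat_lit 3) (nat_lit 297) (nat_lit 5) (nat_lit 264) (nat_lit 264) (nat_lit 252))))) (XT.nd (nat_lit 234) (nat_lit 1140) (nat_lit 0) (XT.nd (nat_lit 78) (nat_lit 532) (nat_lit 0) (XT.lf (nat_lit 76) (nat_lit 2476273664) (nat_lit 0) (nat_lit 2528383247) (nat_lit 532) (nat_lit 1679920530) (nat_lit 291) (nat_lit 5) (nat_lit 290) (nat_lit 3) (nat_lit 297) (nat_lit 5) (nat_lit 265) (nat_lit 264) (nat_lit 251)) (XT.nd (nat_lit 78) (nat_lit 0) (nat_lit 76) (XT.lf (nat_lit 76) (nat_lit 1014128153) (nat_lit 0) (nat_lit 799537607) (nat_lit 608) (nat_lit 4930717663) (nat_lit 284) (nat_lit 5) (nat_lit 283) (nat_lit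 5) (nat_lit 291) (nat_lit 5) (nat_lit 266) (nat_lit 264) (nat_lit 250)) (XT.lf (nat_lit 0) (nat_lit 5281187275) (nat_lit 532) (nat_lit 376241499) (nat_lit 608) (nat_lit 1154663095) (nat_lit 284) (nat_lit 5) (nat_lit 291) (nat_lit 5) (nat_lit 292) (nat_lit 5) (nat_lit 267) (nat_lit 264) (nat_lit 249)))) (XT.nd (nat_lit 156) (nat_lit 608) (nat_lit 0) (XT.nd (nat_lit 78) (nat_lit 0) (nat_lit 0) (XT.lf (nat_lit 0) (nat_lit 1846058775) (nat_lit 608) (nat_lit 1689734430) (nat_lit 684) (nat_lit 3351794822) (nat_lit 276) (nat_lit 5) (nat_lit 284) (nat_lit 5) (nat_lit 285) (nat_lit 5) (nat_lit 268) (nat_lit 264) (nat_lit 248)) (XT.lf (nat_lit 76) (nat_lit 4031347638) (nat_lit 0) (nat_lit 1168905040) (nat_lit 684) (nat_lit 1771329933) (nat_lit 277) (nat_lit 5) (nat_lit 276) (nat_lit 5) (nat_lit 285) (nat_lit 5) (nat_lit 269) (nat_lit 264) (nat_lit 247))) (XT.nd (nat_lit 78) (nat_lit 0) (nat_lit 0)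 (XT.lf (nat_lit 0) (nat_lit 1492959478) (nat_lit 684) (nat_lit 4146873962) (nat_lit 760) (nat_lit 1423924563) (nat_lit 268) (nat_lit 5) (nat_lit 277) (nat_lit 5) (nat_lit 278) (nat_lit 5) (nat_lit 270) (nat_lit 264) (nat_lit 246)) (XT.lf (nat_lit 76) (nat_lit 1847339456) (nat_lit 0) (nat_lit 2909124750) (nat_lit 760) (nat_lit 2407707113) (nat_lit 269) (nat_lit 5) (nat_lit 268) (nat_lit 5) (nat_lit 278) (nat_lit 5) (nat_lit 271) (nat_lit 264) (nat_lit 245)))))) (XT.nd (nat_lit 468) (nat_lit 4636) (nat_lit 0) (XT.nd (nat_lit 234) (nat_lit 2888) (nat_lit 0) (XT.nd (nat_lit 78) (nat_lit 760) (nat_lit 0) (XT.lf (nat_lit 0) (nat_lit 765435197) (nat_lit 760) (nat_lit 6435212326) (nat_lit 76) (nat_lit 72911787) (nat_lit 259) (nat_lit 5) (nat_lit 269) (nat_lit 5) (nat_lit 260) (nat_lit 5) (nat_lit 272) (nat_lit 264) (nat_lit 244)) (XT.nd (nat_lit 78) (nat_lit 760) (nat_lit 0) (XT.lf (nat_lit 0) (nat_lit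 3958339563) (nat_lit 760) (nat_lit 158634311) (nat_lit 76) (nat_lit 3273695080) (nat_lit 259) (nat_lit 5) (nat_lit 269) (nat_lit 5) (nat_lit 260) (nat_lit 5) (nat_lit 273) (nat_lit 264) (nat_lit 243)) (XT.lf (nat_lit 0) (nat_lit 6433460667) (nat_lit 760) (nat_lit 773366683) (nat_lit 836) (nat_lit 310208980) (nat_lit 249) (nat_lit 5) (nat_lit 259) (nat_lit 5) (nat_lit 260) (nat_lit 5) (nat_lit 274) (nat_lit 264) (nat_lit 242)))) (XT.nd (nat_lit 78) (nat_lit 1976) (nat_lit 0) (XT.lf (nat_lit 0) (nat_lit 2832737092) (nat_lit 912) (nat_lit 2012705861) (nat_lit 76) (nat_lit 2806003383) (nat_lit 237) (nat_lit 5) (nat_lit 249) (nat_lit 5) (nat_lit 238) (nat_lit 5) (nat_lit 275) (nat_lit 264) (nat_lit 241)) (XT.nd (nat_lit 78) (nat_lit 1064) (nat_lit 0) (XT.lf (nat_lit 0) (nat_lit 4886450342) (nat_lit 912) (nat_lit 1151908729) (nat_lit 988) (nat_lit 1757014227) (nat_lit 225) (nat_lit 5) (nat_lit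 237) (nat_lit 5) (nat_lit 238) (nat_lit 5) (nat_lit 276) (nat_lit 264) (nat_lit 240)) (XT.lf (nat_lit 0) (nat_lit 1367819589) (nat_lit 1064) (nat_lit 3807311969) (nat_lit 76) (nat_lit 2773017963) (nat_lit 211) (nat_lit 5) (nat_lit 225) (nat_lit 5) (nat_lit 212) (nat_lit 5) (nat_lit 277) (nat_lit 264) (nat_lit 239))))) (XT.nd (nat_lit 234) (nat_lit 1748) (nat_lit 0) (XT.nd (nat_lit 78) (nat_lit 1824) (nat_lit 0) (XT.lf (nat_lit 0) (nat_lit 3406831112) (nat_lit 1064) (nat_lit 1137170922) (nat_lit 1140) (nat_lit 3566314735) (nat_lit 197) (nat_lit 5) (nat_lit 211) (nat_lit 5) (nat_lit 212) (nat_lit 5) (nat_lit 278) (nat_lit 264) (nat_lit 238)) (XT.nd (nat_lit 78) (nat_lit 684) (nat_lit 0) (XT.lf (nat_lit 0) (nat_lit 2676775601) (nat_lit 1140) (nat_lit 5159647540) (nat_lit 1216) (nat_lit 445653438) (nat_lit 182) (nat_lit 5) (nat_lit 197) (nat_lit 5) (nat_lit 198) (nat_lit 5) (nat_lit 279) (nat_lit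 264) (nat_lit 237)) (XT.lf (nat_lit 0) (nat_lit 1935684446) (nat_lit 608) (nat_lit 785255231) (nat_lit 684) (nat_lit 5742505495) (nat_lit 173) (nat_lit 5) (nat_lit 181) (nat_lit 5) (nat_lit 182) (nat_lit 5) (nat_lit 280) (nat_lit 264) (nat_lit 236)))) (XT.nd (nat_lit 156) (nat_lit 532) (nat_lit 0) (XT.nd (nat_lit 78) (nat_lit 608) (nat_lit 0) (XT.lf (nat_lit 0) (nat_lit 1173158682) (nat_lit 608) (nat_lit 4841138058) (nat_lit 684) (nat_lit 2640305913) (nat_lit 165) (nat_lit 5) (nat_lit 173) (nat_lit 5) (nat_lit 174) (nat_lit 5) (nat_lit 281) (nat_lit 264) (nat_lit 235)) (XT.lf (nat_lit 0) (nat_lit 409923041) (nat_lit 532) (nat_lit 149726728) (nat_lit 608) (nat_lit 8297018345) (nat_lit 157) (nat_lit 5) (nat_lit 164) (nat_lit 5) (nat_lit 165) (nat_lit 5) (nat_lit 282) (nat_lit 264) (nat_lit 234))) (XT.nd (nat_lit 78) (nat_lit 532) (nat_lit 0) (XT.lf (nat_lit 0) (nat_lit 3868913471) (nat_lit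 608) (nat_lit 413583169) (nat_lit 76) (nat_lit 4785599075) (nat_lit 157) (nat_lit 5) (nat_lit 165) (nat_lit 5) (nat_lit 158) (nat_lit 5) (nat_lit 283) (nat_lit 264) (nat_lit 233)) (XT.lf (nat_lit 0) (nat_lit 7315246254) (nat_lit 608) (nat_lit 1241502590) (nat_lit 76) (nat_lit 734350616) (nat_lit 150) (nat_lit 5) (nat_lit 158) (nat_lit 5) (nat_lit 151) (nat_lit 5) (nat_lit 284) (nat_lit 264) (nat_lit 232))))))) (XT.nd (nat_lit 1014) (nat_lit 2888) (nat_lit 0) (XT.nd (nat_lit 468) (nat_lit 2280) (nat_lit 0) (XT.nd (nat_lit 234) (nat_lit 1292) (nat_lit 0) (XT.nd (nat_lit 78) (nat_lit 988) (nat_lit 0) (XT.lf (nat_lit 0) (nat_lit 1389479855) (nat_lit 532) (nat_lit 2138057347) (nat_lit 76) (nat_lit 5997201630) (nat_lit 143) (nat_lit 5) (nat_lit 150) (nat_lit 5) (nat_lit 144) (nat_lit 5) (nat_lit 285) (nat_lit 264) (nat_lit 231)) (XT.nd (nat_lit 78) (nat_lit 456) (nat_lit 0) (XT.lf (nat_lit 0) (nat_lit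 4870224035) (nat_lit 608) (nat_lit 3093822841) (nat_lit 76) (nat_lit 1805920848) (nat_lit 136) (nat_lit 5) (nat_lit 144) (nat_lit 5) (nat_lit 137) (nat_lit 5) (nat_lit 286) (nat_lit 264) (nat_lit 230)) (XT.lf (nat_lit 0) (nat_lit 5910009322) (nat_lit 456) (nat_lit 2626191702) (nat_lit 532) (nat_lit 1491049439) (nat_lit 130) (nat_lit 5) (nat_lit 136) (nat_lit 5) (nat_lit 137) (nat_lit 5) (nat_lit 287) (nat_lit 264) (nat_lit 229)))) (XT.nd (nat_lit 78) (nat_lit 760) (nat_lit 0) (XT.lf (nat_lit 0) (nat_lit 2057207860) (nat_lit 532) (nat_lit 5232878771) (nat_lit 76) (nat_lit 3006530925) (nat_lit 123) (nat_lit 5) (nat_lit 130) (nat_lit 5) (nat_lit 124) (nat_lit 5) (nat_lit 288) (nat_lit 264) (nat_lit 228)) (XT.nd (nat_lit 78) (nat_lit 380) (nat_lit 0) (XT.lf (nat_lit 0) (nat_lit 4133645445) (nat_lit 380) (nat_lit 1630535980) (nat_lit 456) (nat_lit 4814577431) (nat_lit 118) (nat_lit 5) (nat_lit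 123) (nat_lit 5) (nat_lit 124) (nat_lit 5) (nat_lit 289) (nat_lit 264) (nat_lit 227)) (XT.lf (nat_lit 0) (nat_lit 3107054196) (nat_lit 380) (nat_lit 6581325875) (nat_lit 456) (nat_lit 1185778435) (nat_lit 113) (nat_lit 5) (nat_lit 118) (nat_lit 5) (nat_lit 119) (nat_lit 5) (nat_lit 290) (nat_lit 264) (nat_lit 226))))) (XT.nd (nat_lit 234) (nat_lit 1444) (nat_lit 0) (XT.nd (nat_lit 78) (nat_lit 380) (nat_lit 0) (XT.lf (nat_lit 0) (nat_lit 1970646301) (nat_lit 380) (nat_lit 613553419) (nat_lit 456) (nat_lit 8599142494) (nat_lit 107) (nat_lit 5) (nat_lit 112) (nat_lit 5) (nat_lit 113) (nat_lit 5) (nat_lit 291) (nat_lit 264) (nat_lit 225)) (XT.nd (nat_lit 78) (nat_lit 0) (nat_lit 0) (XT.lf (nat_lit 0) (nat_lit 684393381) (nat_lit 380) (nat_lit 5887259238) (nat_lit 456) (nat_lit 4934470024) (nat_lit 102) (nat_lit 5) (nat_lit 107) (nat_lit 5) (nat_lit 108) (nat_lit 5) (nat_lit 292) (nat_lit 264)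 (nat_lit 224)) (XT.lf (nat_lit 0) (nat_lit 10777832896) (nat_lit 456) (nat_lit 696360942) (nat_lit 76) (nat_lit 370357836) (nat_lit 102) (nat_lit 5) (nat_lit 108) (nat_lit 5) (nat_lit 103) (nat_lit 5) (nat_lit 293) (nat_lit 264) (nat_lit 223)))) (XT.nd (nat_lit 156) (nat_lit 684) (nat_lit 0) (XT.nd (nat_lit 78) (nat_lit 380) (nat_lit 0) (XT.lf (nat_lit 0) (nat_lit 3010404933) (nat_lit 380) (nat_lit 2264658665) (nat_lit 76) (nat_lit 6921825952) (nat_lit 97) (nat_lit 5) (nat_lit 102) (nat_lit 5) (nat_lit 98) (nat_lit 5) (nat_lit 294) (nat_lit 264) (nat_lit 222)) (XT.lf (nat_lit 0) (nat_lit 7292544500) (nat_lit 456) (nat_lit 3988120107) (nat_lit 76) (nat_lit 1285245684) (nat_lit 92) (nat_lit 5) (nat_lit 98) (nat_lit 5) (nat_lit 93) (nat_lit 5) (nat_lit 295) (nat_lit 264) (nat_lit 221))) (XT.nd (nat_lit 78) (nat_lit 380) (nat_lit 0) (XT.lf (nat_lit 0) (nat_lit 7035538835) (nat_lit 304) (nat_lit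 4820798782) (nat_lit 380) (nat_lit 1095093722) (nat_lit 88) (nat_lit 5) (nat_lit 92) (nat_lit 5) (nat_lit 93) (nat_lit 5) (nat_lit 296) (nat_lit 264) (nat_lit 220)) (XT.lf (nat_lit 0) (nat_lit 3265135507) (nat_lit 380) (nat_lit 8068243254) (nat_lit 76) (nat_lit 2020851752) (nat_lit 83) (nat_lit 5) (nat_lit 88) (nat_lit 5) (nat_lit 84) (nat_lit 5) (nat_lit 297) (nat_lit 264) (nat_lit 219)))))) (XT.nd (nat_lit 546) (nat_lit 1140) (nat_lit 0) (XT.nd (nat_lit 234) (nat_lit 1064) (nat_lit 0) (XT.nd (nat_lit 78) (nat_lit 380) (nat_lit 0) (XT.lf (nat_lit 0) (nat_lit 3297461304) (nat_lit 304) (nat_lit 4592665026) (nat_lit 380) (nat_lit 5884702724) (nat_lit 79) (nat_lit 5) (nat_lit 83) (nat_lit 5) (nat_lit 84) (nat_lit 5) (nat_lit 298) (nat_lit 264) (nat_lit 218)) (XT.nd (nat_lit 78) (nat_lit 76) (nat_lit 0) (XT.lf (nat_lit 0) (nat_lit 1080716440) (nat_lit 304) (nat_lit 11713350908) (nat_lit 380)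 (nat_lit 1421022614) (nat_lit 75) (nat_lit 5) (nat_lit 79) (nat_lit 5) (nat_lit 80) (nat_lit 5) (nat_lit 299) (nat_lit 264) (nat_lit 217)) (XT.lf (nat_lit 0) (nat_lit 3288609290) (nat_lit 380) (nat_lit 1417553744) (nat_lit 76) (nat_lit 9967722880) (nat_lit 74) (nat_lit 5) (nat_lit 79) (nat_lit 5) (nat_lit 75) (nat_lit 5) (nat_lit 300) (nat_lit 264) (nat_lit 216)))) (XT.nd (nat_lit 156) (nat_lit 532) (nat_lit 0) (XT.nd (nat_lit 78) (nat_lit 304) (nat_lit 0) (XT.lf (nat_lit 0) (nat_lit 8271126967) (nat_lit 304) (nat_lit 4190702461) (nat_lit 76) (nat_lit 2691422239) (nat_lit 71) (nat_lit 5) (nat_lit 75) (nat_lit 5) (nat_lit 72) (nat_lit 5) (nat_lit 301) (nat_lit 264) (nat_lit 215)) (XT.lf (nat_lit 0) (nat_lit 8356127928) (nat_lit 304) (nat_lit 5225642150) (nat_lit 380) (nat_lit 2072498865) (nat_lit 67) (nat_lit 5) (nat_lit 71) (nat_lit 5) (nat_lit 72) (nat_lit 5) (nat_lit 302) (nat_lit 264)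 (nat_lit 214))) (XT.nd (nat_lit 78) (nat_lit 228) (nat_lit 0) (XT.lf (nat_lit 0) (nat_lit 2976859925) (nat_lit 304) (nat_lit 10779657741) (nat_lit 76) (nat_lit 2421289287) (nat_lit 63) (nat_lit 5) (nat_lit 67) (nat_lit 5) (nat_lit 64) (nat_lit 5) (nat_lit 303) (nat_lit 264) (nat_lit 213)) (XT.lf (nat_lit 0) (nat_lit 2029814203) (nat_lit 228) (nat_lit 6294256993) (nat_lit 304) (nat_lit 8400234533) (nat_lit 60) (nat_lit 5) (nat_lit 63) (nat_lit 5) (nat_lit 64) (nat_lit 5) (nat_lit 304) (nat_lit 264) (nat_lit 212))))) (XT.nd (nat_lit 234) (nat_lit 608) (nat_lit 0) (XT.nd (nat_lit 78) (nat_lit 532) (nat_lit 0) (XT.lf (nat_lit 0) (nat_lit 14006958875) (nat_lit 304) (nat_lit 1696435957) (nat_lit 76) (nat_lit 1592729772) (nat_lit 60) (nat_lit 5) (nat_lit 64) (nat_lit 5) (nat_lit 61) (nat_lit 5) (nat_lit 305) (nat_lit 264) (nat_lit 211)) (XT.nd (nat_lit 78) (nat_lit 228) (nat_lit 0) (XT.lf (nat_lit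 0) (nat_lit 2161554325) (nat_lit 304) (nat_lit 5877622041) (nat_lit 76) (nat_lit 9853061144) (nat_lit 56) (nat_lit 5) (nat_lit 60) (nat_lit 5) (nat_lit 57) (nat_lit 5) (nat_lit 306) (nat_lit 264) (nat_lit 210)) (XT.lf (nat_lit 0) (nat_lit 7858175462) (nat_lit 304) (nat_lit 10551013270) (nat_lit 76) (nat_lit 106787953) (nat_lit 53) (nat_lit 5) (nat_lit 57) (nat_lit 5) (nat_lit 54) (nat_lit 5) (nat_lit 307) (nat_lit 264) (nat_lit 209)))) (XT.nd (nat_lit 156) (nat_lit 380) (nat_lit 0) (XT.nd (nat_lit 78) (nat_lit 76) (nat_lit 0) (XT.lf (nat_lit 0) (nat_lit 3353143883) (nat_lit 152) (nat_lit 10607974871) (nat_lit 228) (nat_lit 5206176768) (nat_lit 51) (nat_lit 5) (nat_lit 53) (nat_lit 5) (nat_lit 54) (nat_lit 5) (nat_lit 308) (nat_lit 264) (nat_lit 208)) (XT.lf (nat_lit 0) (nat_lit 565819181) (nat_lit 228) (nat_lit 1763604505) (nat_lit 76) (nat_lit 17519904875) (nat_lit 50) (nat_lit 5) (nat_lit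 53) (nat_lit 5) (nat_lit 51) (nat_lit 5) (nat_lit 309) (nat_lit 264) (nat_lit 207))) (XT.nd (nat_lit 78) (nat_lit 152) (nat_lit 0) (XT.lf (nat_lit 0) (nat_lit 6659133269) (nat_lit 304) (nat_lit 7510129805) (nat_lit 76) (nat_lit 6390475054) (nat_lit 47) (nat_lit 5) (nat_lit 51) (nat_lit 5) (nat_lit 48) (nat_lit 5) (nat_lit 310) (nat_lit 264) (nat_lit 206)) (XT.lf (nat_lit 0) (nat_lit 7377871748) (nat_lit 152) (nat_lit 5744022128) (nat_lit 228) (nat_lit 8181862269) (nat_lit 45) (nat_lit 5) (nat_lit 47) (nat_lit 5) (nat_lit 48) (nat_lit 5) (nat_lit 311) (nat_lit 264) (nat_lit 205))))))))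
noncomputable def xc58 : XT := (XT.nd (nat_lit 2028) (nat_lit 684) (nat_lit 0) (XT.nd (nat_lit 1014) (nat_lit 836) (nat_lit 0) (XT.nd (nat_lit 468) (nat_lit 684) (nat_lit 0) (XT.nd (nat_lit 234) (nat_lit 380) (nat_lit 0) (XT.nd (nat_lit 78) (nat_lit 228) (nat_lit 0) (XT.lf (nat_lit 0) (nat_lit 996884033) (nat_lit 228) (nat_lit 18981685800) (nat_lit 304) (nat_lit 2104311813) (nat_lit 42) (nat_lit 5) (nat_lit 45) (nat_lit 5) (nat_lit 46) (nat_lit 5) (nat_lit 312) (nat_lit 264) (nat_lit 204)) (XT.nd (nat_lit 78) (nat_lit 152) (nat_lit 0) (XT.lf (nat_lit 0) (nat_lit 4350734151) (nat_lit 304) (nat_lit 6115651539) (nat_lit 76) (nat_lit 12428659553) (nat_lit 41) (nat_lit 5) (nat_lit 45) (nat_lit 5) (nat_lit 42) (nat_lit 5) (nat_lit 313) (nat_lit 264) (nat_lit 203)) (XT.lf (nat_lit 0) (nat_lit 9699550191) (nat_lit 152) (nat_lit 1435609226) (nat_lit 228) (nat_lit 12610554470) (nat_lit 39) (nat_lit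 5) (nat_lit 41) (nat_lit 5) (nat_lit 42) (nat_lit 5) (nat_lit 314) (nat_lit 264) (nat_lit 202)))) (XT.nd (nat_lit 78) (nat_lit 228) (nat_lit 0) (XT.lf (nat_lit 0) (nat_lit 1680438638) (nat_lit 152) (nat_lit 16693090938) (nat_lit 228) (nat_lit 6261969757) (nat_lit 37) (nat_lit 5) (nat_lit 39) (nat_lit 5) (nat_lit 40) (nat_lit 5) (nat_lit 315) (nat_lit 264) (nat_lit 201)) (XT.nd (nat_lit 78) (nat_lit 152) (nat_lit 0) (XT.lf (nat_lit 0) (nat_lit 515243966) (nat_lit 228) (nat_lit 7167832752) (nat_lit 76) (nat_lit 17883031478) (nat_lit 36) (nat_lit 5) (nat_lit 39) (nat_lit 5) (nat_lit 37) (nat_lit 5) (nat_lit 316) (nat_lit 264) (nat_lit 200)) (XT.lf (nat_lit 0) (nat_lit 7572887463) (nat_lit 228) (nat_lit 17094129443) (nat_lit 76) (nat_lit 1872260404) (nat_lit 34) (nat_lit 5) (nat_lit 37) (nat_lit 5) (nat_lit 35) (nat_lit 5) (nat_lit 317) (nat_lit 264) (nat_lit 199))))) (XT.nd (nat_lit 234) (nat_lit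 304) (nat_lit 0) (XT.nd (nat_lit 78) (nat_lit 380) (nat_lit 0) (XT.lf (nat_lit 0) (nat_lit 15097030239) (nat_lit 228) (nat_lit 663800871) (nat_lit 76) (nat_lit 11796886288) (nat_lit 34) (nat_lit 5) (nat_lit 37) (nat_lit 5) (nat_lit 35) (nat_lit 5) (nat_lit 318) (nat_lit 264) (nat_lit 198)) (XT.nd (nat_lit 78) (nat_lit 228) (nat_lit 0) (XT.lf (nat_lit 0) (nat_lit 16854851548) (nat_lit 152) (nat_lit 6267931441) (nat_lit 228) (nat_lit 5500554446) (nat_lit 32) (nat_lit 5) (nat_lit 34) (nat_lit 5) (nat_lit 35) (nat_lit 5) (nat_lit 319) (nat_lit 264) (nat_lit 197)) (XT.lf (nat_lit 0) (nat_lit 1832841025) (nat_lit 228) (nat_lit 24225981306) (nat_lit 76) (nat_lit 3681097538) (nat_lit 29) (nat_lit 5) (nat_lit 32) (nat_lit 5) (nat_lit 30) (nat_lit 5) (nat_lit 320) (nat_lit 264) (nat_lit 196)))) (XT.nd (nat_lit 156) (nat_lit 152) (nat_lit 0) (XT.nd (nat_lit 78) (nat_lit 152) (nat_lit 0) (XT.lf (nat_lit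 0) (nat_lit 9570890428) (nat_lit 228) (nat_lit 7182382666) (nat_lit 76) (nat_lit 14152889821) (nat_lit 29) (nat_lit 5) (nat_lit 32) (nat_lit 5) (nat_lit 30) (nat_lit 5) (nat_lit 321) (nat_lit 264) (nat_lit 195)) (XT.lf (nat_lit 0) (nat_lit 10868221715) (nat_lit 152) (nat_lit 6898832744) (nat_lit 228) (nat_lit 14361544087) (nat_lit 27) (nat_lit 5) (nat_lit 29) (nat_lit 5) (nat_lit 30) (nat_lit 5) (nat_lit 322) (nat_lit 264) (nat_lit 194))) (XT.nd (nat_lit 78) (nat_lit 152) (nat_lit 0) (XT.lf (nat_lit 0) (nat_lit 26448406935) (nat_lit 228) (nat_lit 3528738971) (nat_lit 76) (nat_lit 3432764645) (nat_lit 27) (nat_lit 5) (nat_lit 30) (nat_lit 5) (nat_lit 28) (nat_lit 4) (nat_lit 323) (nat_lit 264) (nat_lit 193)) (XT.lf (nat_lit 0) (nat_lit 980050446) (nat_lit 152) (nat_lit 19495326858) (nat_lit 76) (nat_lit 14274073809) (nat_lit 25) (nat_lit 5) (nat_lit 27) (nat_lit 5) (nat_lit 26) (nat_lit 5)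 (nat_lit 324) (nat_lit 264) (nat_lit 192)))))) (XT.nd (nat_lit 468) (nat_lit 380) (nat_lit 0) (XT.nd (nat_lit 234) (nat_lit 304) (nat_lit 0) (XT.nd (nat_lit 78) (nat_lit 152) (nat_lit 0) (XT.lf (nat_lit 0) (nat_lit 9182499183) (nat_lit 152) (nat_lit 1228393116) (nat_lit 76) (nat_lit 25742788973) (nat_lit 25) (nat_lit 5) (nat_lit 27) (nat_lit 5) (nat_lit 26) (nat_lit 5) (nat_lit 325) (nat_lit 264) (nat_lit 191)) (XT.nd (nat_lit 78) (nat_lit 0) (nat_lit 0) (XT.lf (nat_lit 0) (nat_lit 17944823344) (nat_lit 228) (nat_lit 19368857605) (nat_lit 76) (nat_lit 309962818) (nat_lit 23) (nat_lit 5) (nat_lit 26) (nat_lit 5) (nat_lit 24) (nat_lit 4) (nat_lit 326) (nat_lit 264) (nat_lit 190)) (XT.lf (nat_lit 0) (nat_lit 27235022471) (nat_lit 228) (nat_lit 583592555) (nat_lit 76) (nat_lit 11345809379) (nat_lit 23) (nat_lit 5) (nat_lit 26) (nat_lit 5) (nat_lit 24) (nat_lit 4) (nat_lit 327) (nat_lit 264) (nat_lit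 189)))) (XT.nd (nat_lit 78) (nat_lit 228) (nat_lit 0) (XT.lf (nat_lit 0) (nat_lit 19473838696) (nat_lit 76) (nat_lit 17676333665) (nat_lit 152) (nat_lit 3627270659) (nat_lit 22) (nat_lit 5) (nat_lit 23) (nat_lit 5) (nat_lit 24) (nat_lit 4) (nat_lit 328) (nat_lit 264) (nat_lit 188)) (XT.nd (nat_lit 78) (nat_lit 152) (nat_lit 0) (XT.lf (nat_lit 0) (nat_lit 4970523191) (nat_lit 152) (nat_lit 2019866878) (nat_lit 76) (nat_lit 35479869526) (nat_lit 21) (nat_lit 5) (nat_lit 23) (nat_lit 5) (nat_lit 22) (nat_lit 5) (nat_lit 329) (nat_lit 264) (nat_lit 187)) (XT.lf (nat_lit 0) (nat_lit 14119461451) (nat_lit 228) (nat_lit 25776105455) (nat_lit 76) (nat_lit 4345195238) (nat_lit 19) (nat_lit 5) (nat_lit 22) (nat_lit 5) (nat_lit 20) (nat_lit 4) (nat_lit 330) (nat_lit 264) (nat_lit 186))))) (XT.nd (nat_lit 234) (nat_lit 304) (nat_lit 0) (XT.nd (nat_lit 78) (nat_lit 76) (nat_lit 0) (XT.lf (nat_lit 0) (nat_lit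 23793057280) (nat_lit 228) (nat_lit 6197684245) (nat_lit 76) (nat_lit 16107042180) (nat_lit 19) (nat_lit 5) (nat_lit 22) (nat_lit 5) (nat_lit 20) (nat_lit 4) (nat_lit 331) (nat_lit 264) (nat_lit 185)) (XT.nd (nat_lit 78) (nat_lit 0) (nat_lit 0) (XT.lf (nat_lit 0) (nat_lit 14603314285) (nat_lit 76) (nat_lit 19464210169) (nat_lit 152) (nat_lit 13976625867) (nat_lit 18) (nat_lit 5) (nat_lit 19) (nat_lit 5) (nat_lit 20) (nat_lit 4) (nat_lit 332) (nat_lit 264) (nat_lit 184)) (XT.lf (nat_lit 0) (nat_lit 36533753170) (nat_lit 76) (nat_lit 8363295404) (nat_lit 152) (nat_lit 5189555943) (nat_lit 18) (nat_lit 5) (nat_lit 19) (nat_lit 5) (nat_lit 20) (nat_lit 4) (nat_lit 333) (nat_lit 264) (nat_lit 183)))) (XT.nd (nat_lit 156) (nat_lit 76) (nat_lit 0) (XT.nd (nat_lit 78) (nat_lit 0) (nat_lit 0) (XT.lf (nat_lit 0) (nat_lit 4040151184) (nat_lit 228) (nat_lit 44864709726) (nat_lit 76) (nat_lit 3322703203)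 (nat_lit 15) (nat_lit 5) (nat_lit 18) (nat_lit 5) (nat_lit 16) (nat_lit 4) (nat_lit 334) (nat_lit 264) (nat_lit 182)) (XT.lf (nat_lit 0) (nat_lit 13829214325) (nat_lit 228) (nat_lit 25040019913) (nat_lit 76) (nat_lit 15598648193) (nat_lit 15) (nat_lit 5) (nat_lit 18) (nat_lit 5) (nat_lit 16) (nat_lit 4) (nat_lit 335) (nat_lit 264) (nat_lit 181))) (XT.nd (nat_lit 78) (nat_lit 76) (nat_lit 0) (XT.lf (nat_lit 0) (nat_lit 24087627940) (nat_lit 228) (nat_lit 4260305381) (nat_lit 76) (nat_lit 28472894188) (nat_lit 15) (nat_lit 5) (nat_lit 18) (nat_lit 5) (nat_lit 16) (nat_lit 4) (nat_lit 336) (nat_lit 264) (nat_lit 180)) (XT.lf (nat_lit 0) (nat_lit 17872669538) (nat_lit 76) (nat_lit 17138950320) (nat_lit 152) (nat_lit 24275227650) (nat_lit 14) (nat_lit 5) (nat_lit 15) (nat_lit 5) (nat_lit 16) (nat_lit 4) (nat_lit 337) (nat_lit 264) (nat_lit 179))))))) (XT.nd (nat_lit 1014) (nat_lit 228) (nat_lit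 0) (XT.nd (nat_lit 468) (nat_lit 228) (nat_lit 0) (XT.nd (nat_lit 234) (nat_lit 76) (nat_lit 0) (XT.nd (nat_lit 78) (nat_lit 152) (nat_lit 0) (XT.lf (nat_lit 0) (nat_lit 41167824079) (nat_lit 76) (nat_lit 5339287659) (nat_lit 152) (nat_lit 15368304801) (nat_lit 14) (nat_lit 5) (nat_lit 15) (nat_lit 5) (nat_lit 16) (nat_lit 4) (nat_lit 338) (nat_lit 264) (nat_lit 178)) (XT.nd (nat_lit 78) (nat_lit 76) (nat_lit 0) (XT.lf (nat_lit 0) (nat_lit 952841368) (nat_lit 76) (nat_lit 57683659594) (nat_lit 76) (nat_lit 5955146083) (nat_lit 13) (nat_lit 4) (nat_lit 14) (nat_lit 5) (nat_lit 14) (nat_lit 4) (nat_lit 339) (nat_lit 264) (nat_lit 177)) (XT.lf (nat_lit 0) (nat_lit 4103736091) (nat_lit 152) (nat_lit 43433764811) (nat_lit 76) (nat_lit 19897509593) (nat_lit 12) (nat_lit 5) (nat_lit 14) (nat_lit 5) (nat_lit 13) (nat_lit 4) (nat_lit 340) (nat_lit 264) (nat_lit 176)))) (XT.nd (nat_lit 78) (nat_lit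 76) (nat_lit 0) (XT.lf (nat_lit 0) (nat_lit 14526936528) (nat_lit 152) (nat_lit 22308797037) (nat_lit 76) (nat_lit 33583509533) (nat_lit 12) (nat_lit 5) (nat_lit 14) (nat_lit 5) (nat_lit 13) (nat_lit 4) (nat_lit 341) (nat_lit 264) (nat_lit 175)) (XT.nd (nat_lit 78) (nat_lit 76) (nat_lit 0) (XT.lf (nat_lit 0) (nat_lit 25455478718) (nat_lit 152) (nat_lit 156360307) (nat_lit 76) (nat_lit 47941328478) (nat_lit 12) (nat_lit 5) (nat_lit 14) (nat_lit 5) (nat_lit 13) (nat_lit 4) (nat_lit 342) (nat_lit 264) (nat_lit 174)) (XT.lf (nat_lit 0) (nat_lit 23535552680) (nat_lit 76) (nat_lit 13606068451) (nat_lit 152) (nat_lit 39695837163) (nat_lit 11) (nat_lit 5) (nat_lit 12) (nat_lit 5) (nat_lit 13) (nat_lit 4) (nat_lit 343) (nat_lit 264) (nat_lit 173))))) (XT.nd (nat_lit 234) (nat_lit 152) (nat_lit 0) (XT.nd (nat_lit 78) (nat_lit 76) (nat_lit 0) (XT.lf (nat_lit 0) (nat_lit 48388705478) (nat_lit 76) (nat_lit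 1010371223) (nat_lit 152) (nat_lit 30887281844) (nat_lit 11) (nat_lit 5) (nat_lit 12) (nat_lit 5) (nat_lit 13) (nat_lit 4) (nat_lit 344) (nat_lit 264) (nat_lit 172)) (XT.nd (nat_lit 78) (nat_lit 76) (nat_lit 0) (XT.lf (nat_lit 0) (nat_lit 62372805983) (nat_lit 152) (nat_lit 9566274609) (nat_lit 0) (nat_lit 11965526049) (nat_lit 11) (nat_lit 5) (nat_lit 13) (nat_lit 4) (nat_lit 11) (nat_lit 4) (nat_lit 345) (nat_lit 264) (nat_lit 171)) (XT.lf (nat_lit 0) (nat_lit 14122612557) (nat_lit 76) (nat_lit 62005211630) (nat_lit 76) (nat_lit 11571969509) (nat_lit 10) (nat_lit 4) (nat_lit 11) (nat_lit 5) (nat_lit 11) (nat_lit 4) (nat_lit 346) (nat_lit 264) (nat_lit 170)))) (XT.nd (nat_lit 156) (nat_lit 76) (nat_lit 0) (XT.nd (nat_lit 78) (nat_lit 76) (nat_lit 0) (XT.lf (nat_lit 0) (nat_lit 39172106474) (nat_lit 76) (nat_lit 51484020026) (nat_lit 76) (nat_lit 1026052013) (nat_lit 10) (nat_lit 4) (nat_lit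 11) (nat_lit 5) (nat_lit 11) (nat_lit 4) (nat_lit 347) (nat_lit 264) (nat_lit 169)) (XT.lf (nat_lit 0) (nat_lit 9838652071) (nat_lit 152) (nat_lit 30509052777) (nat_lit 76) (nat_lit 55513458007) (nat_lit 9) (nat_lit 5) (nat_lit 11) (nat_lit 5) (nat_lit 10) (nat_lit 4) (nat_lit 348) (nat_lit 264) (nat_lit 168))) (XT.nd (nat_lit 78) (nat_lit 76) (nat_lit 0) (XT.lf (nat_lit 0) (nat_lit 21213708311) (nat_lit 152) (nat_lit 7440115722) (nat_lit 76) (nat_lit 71595321375) (nat_lit 9) (nat_lit 5) (nat_lit 11) (nat_lit 5) (nat_lit 10) (nat_lit 4) (nat_lit 349) (nat_lit 264) (nat_lit 167)) (XT.lf (nat_lit 0) (nat_lit 17095115480) (nat_lit 76) (nat_lit 16215435371) (nat_lit 152) (nat_lit 71541388928) (nat_lit 8) (nat_lit 5) (nat_lit 9) (nat_lit 5) (nat_lit 10) (nat_lit 4) (nat_lit 350) (nat_lit 264) (nat_lit 166)))))) (XT.nd (nat_lit 546) (nat_lit 152) (nat_lit 0) (XT.nd (nat_lit 234) (nat_lit 76) (nat_lit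 0) (XT.nd (nat_lit 78) (nat_lit 0) (nat_lit 0) (XT.lf (nat_lit 0) (nat_lit 42992439306) (nat_lit 76) (nat_lit 3085434638) (nat_lit 152) (nat_lit 63605034295) (nat_lit 8) (nat_lit 5) (nat_lit 9) (nat_lit 5) (nat_lit 10) (nat_lit 4) (nat_lit 351) (nat_lit 264) (nat_lit 165)) (XT.nd (nat_lit 78) (nat_lit 0) (nat_lit 0) (XT.lf (nat_lit 0) (nat_lit 59575914686) (nat_lit 152) (nat_lit 44693079222) (nat_lit 0) (nat_lit 10483664020) (nat_lit 8) (nat_lit 5) (nat_lit 10) (nat_lit 4) (nat_lit 8) (nat_lit 4) (nat_lit 352) (nat_lit 264) (nat_lit 164)) (XT.lf (nat_lit 0) (nat_lit 73769986457) (nat_lit 152) (nat_lit 21645455617) (nat_lit 0) (nat_lit 24659822353) (nat_lit 8) (nat_lit 5) (nat_lit 10) (nat_lit 4) (nat_lit 8) (nat_lit 4) (nat_lit 353) (nat_lit 264) (nat_lit 163)))) (XT.nd (nat_lit 156) (nat_lit 0) (nat_lit 0) (XT.nd (nat_lit 78) (nat_lit 0) (nat_lit 0) (XT.lf (nat_lit 0) (nat_lit 2587426266)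 (nat_lit 76) (nat_lit 86101671238) (nat_lit 76) (nat_lit 36974446717) (nat_lit 7) (nat_lit 4) (nat_lit 8) (nat_lit 5) (nat_lit 8) (nat_lit 4) (nat_lit 354) (nat_lit 264) (nat_lit 162)) (XT.lf (nat_lit 0) (nat_lit 28467170567) (nat_lit 76) (nat_lit 76100567821) (nat_lit 76) (nat_lit 26957095283) (nat_lit 7) (nat_lit 4) (nat_lit 8) (nat_lit 5) (nat_lit 8) (nat_lit 4) (nat_lit 355) (nat_lit 264) (nat_lit 161))) (XT.nd (nat_lit 78) (nat_lit 0) (nat_lit 0) (XT.lf (nat_lit 0) (nat_lit 55624608714) (nat_lit 76) (nat_lit 65606896333) (nat_lit 76) (nat_lit 16447949494) (nat_lit 7) (nat_lit 4) (nat_lit 8) (nat_lit 5) (nat_lit 8) (nat_lit 4) (nat_lit 356) (nat_lit 264) (nat_lit 160)) (XT.lf (nat_lit 0) (nat_lit 84124401276) (nat_lit 76) (nat_lit 54595671841) (nat_lit 76) (nat_lit 5421987572) (nat_lit 7) (nat_lit 4) (nat_lit 8) (nat_lit 5) (nat_lit 8) (nat_lit 4) (nat_lit 357) (nat_lit 264) (nat_lit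 159))))) (XT.nd (nat_lit 33462) (nat_lit 0) (nat_lit 19912) (XT.nd (nat_lit 156) (nat_lit 76) (nat_lit 0) (XT.lf (nat_lit 0) (nat_lit 6027091826) (nat_lit 152) (nat_lit 36952723509) (nat_lit 76) (nat_lit 107946451265) (nat_lit 6) (nat_lit 5) (nat_lit 8) (nat_lit 5) (nat_lit 7) (nat_lit 4) (nat_lit 358) (nat_lit 264) (nat_lit 158)) (XT.nd (nat_lit 33228) (nat_lit 0) (nat_lit 21128) (XT.lf (nat_lit 0) (nat_lit 12789203180) (nat_lit 76) (nat_lit 17754156980) (nat_lit 152) (nat_lit 134979555048) (nat_lit 5) (nat_lit 5) (nat_lit 6) (nat_lit 5) (nat_lit 7) (nat_lit 4) (nat_lit 360) (nat_lit 264) (nat_lit 156)) (XT.lf (nat_lit 0) (nat_lit 422472398) (nat_lit 0) (nat_lit 422472398) (nat_lit 532) (nat_lit 2525113982) (nat_lit 283) (nat_lit 5) (nat_lit 283) (nat_lit 3) (nat_lit 290) (nat_lit 3) (nat_lit 265) (nat_lit 265) (nat_lit 250)))) (XT.nd (nat_lit 156) (nat_lit 608) (nat_lit 0) (XT.nd (nat_lit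 78) (nat_lit 608) (nat_lit 0) (XT.lf (nat_lit 0) (nat_lit 5025683989) (nat_lit 532) (nat_lit 758342630) (nat_lit 608) (nat_lit 1019373094) (nat_lit 283) (nat_lit 5) (nat_lit 290) (nat_lit 3) (nat_lit 291) (nat_lit 5) (nat_lit 266) (nat_lit 265) (nat_lit 249)) (XT.lf (nat_lit 0) (nat_lit 1467714028) (nat_lit 608) (nat_lit 2285520649) (nat_lit 684) (nat_lit 3121282073) (nat_lit 275) (nat_lit 5) (nat_lit 283) (nat_lit 5) (nat_lit 284) (nat_lit 5) (nat_lit 267) (nat_lit 265) (nat_lit 248))) (XT.nd (nat_lit 78) (nat_lit 608) (nat_lit 0) (XT.lf (nat_lit 76) (nat_lit 3201037779) (nat_lit 0) (nat_lit 1473970427) (nat_lit 684) (nat_lit 2278942292) (nat_lit 276) (nat_lit 5) (nat_lit 275) (nat_lit 5) (nat_lit 284) (nat_lit 5) (nat_lit 268) (nat_lit 265) (nat_lit 247)) (XT.lf (nat_lit 0) (nat_lit 841374136) (nat_lit 684) (nat_lit 5167249184) (nat_lit 760) (nat_lit 1033123346) (nat_lit 267) (nat_lit 5)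 (nat_lit 276) (nat_lit 5) (nat_lit 277) (nat_lit 5) (nat_lit 269) (nat_lit 265) (nat_lit 246))))))))
noncomputable def xc59 : XT := (XT.nd (nat_lit 2028) (nat_lit 4788) (nat_lit 0) (XT.nd (nat_lit 1014) (nat_lit 5472) (nat_lit 0) (XT.nd (nat_lit 468) (nat_lit 5548) (nat_lit 0) (XT.nd (nat_lit 234) (nat_lit 1596) (nat_lit 0) (XT.nd (nat_lit 78) (nat_lit 684) (nat_lit 0) (XT.lf (nat_lit 76) (nat_lit 583653404) (nat_lit 0) (nat_lit 3359543480) (nat_lit 760) (nat_lit 3194214499) (nat_lit 268) (nat_lit 5) (nat_lit 267) (nat_lit 5) (nat_lit 277) (nat_lit 5) (nat_lit 270) (nat_lit 265) (nat_lit 245)) (XT.nd (nat_lit 78) (nat_lit 684) (nat_lit 0) (XT.lf (nat_lit 76) (nat_lit 6615071854) (nat_lit 0) (nat_lit 458726963) (nat_lit 760) (nat_lit 168168287) (nat_lit 268) (nat_lit 5) (nat_lit 267) (nat_lit 5) (nat_lit 277) (nat_lit 5) (nat_lit 271) (nat_lit 265) (nat_lit 244)) (XT.lf (nat_lit 0) (nat_lit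 2857244187) (nat_lit 760) (nat_lit 1818357238) (nat_lit 836) (nat_lit 2678372303) (nat_lit 258) (nat_lit 5) (nat_lit 268) (nat_lit 5) (nat_lit 269) (nat_lit 5) (nat_lit 272) (nat_lit 265) (nat_lit 243)))) (XT.nd (nat_lit 78) (nat_lit 1596) (nat_lit 0) (XT.lf (nat_lit 76) (nat_lit 4513845292) (nat_lit 0) (nat_lit 1405940890) (nat_lit 836) (nat_lit 1555344840) (nat_lit 259) (nat_lit 5) (nat_lit 258) (nat_lit 5) (nat_lit 269) (nat_lit 5) (nat_lit 273) (nat_lit 265) (nat_lit 242)) (XT.nd (nat_lit 78) (nat_lit 836) (nat_lit 0) (XT.lf (nat_lit 0) (nat_lit 1416402713) (nat_lit 836) (nat_lit 4088938969) (nat_lit 76) (nat_lit 2099425345) (nat_lit 248) (nat_lit 5) (nat_lit 259) (nat_lit 5) (nat_lit 249) (nat_lit 5) (nat_lit 274) (nat_lit 265) (nat_lit 241)) (XT.lf (nat_lit 0) (nat_lit 2540215744) (nat_lit 836) (nat_lit 1880716777) (nat_lit 912) (nat_lit 3322246394) (nat_lit 237) (nat_lit 5) (nat_lit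 248) (nat_lit 5) (nat_lit 249) (nat_lit 5) (nat_lit 275) (nat_lit 265) (nat_lit 240))))) (XT.nd (nat_lit 234) (nat_lit 3572) (nat_lit 0) (XT.nd (nat_lit 78) (nat_lit 1064) (nat_lit 0) (XT.lf (nat_lit 0) (nat_lit 1591708301) (nat_lit 912) (nat_lit 5913478561) (nat_lit 988) (nat_lit 385674755) (nat_lit 225) (nat_lit 5) (nat_lit 237) (nat_lit 5) (nat_lit 238) (nat_lit 5) (nat_lit 276) (nat_lit 265) (nat_lit 239)) (XT.nd (nat_lit 78) (nat_lit 0) (nat_lit 0) (XT.lf (nat_lit 0) (nat_lit 638445620) (nat_lit 988) (nat_lit 1943291420) (nat_lit 1064) (nat_lit 5465531271) (nat_lit 211) (nat_lit 5) (nat_lit 224) (nat_lit 5) (nat_lit 225) (nat_lit 5) (nat_lit 277) (nat_lit 265) (nat_lit 238)) (XT.lf (nat_lit 0) (nat_lit 5639819793) (nat_lit 1064) (nat_lit 301108222) (nat_lit 76) (nat_lit 2272151553) (nat_lit 211) (nat_lit 5) (nat_lit 225) (nat_lit 5) (nat_lit 212) (nat_lit 5) (nat_lit 278) (nat_lit 265)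 (nat_lit 237)))) (XT.nd (nat_lit 156) (nat_lit 1292) (nat_lit 0) (XT.nd (nat_lit 78) (nat_lit 1140) (nat_lit 0) (XT.lf (nat_lit 0) (nat_lit 412320451) (nat_lit 1140) (nat_lit 1224889938) (nat_lit 76) (nat_lit 6751296514) (nat_lit 196) (nat_lit 5) (nat_lit 211) (nat_lit 5) (nat_lit 197) (nat_lit 5) (nat_lit 279) (nat_lit 265) (nat_lit 236)) (XT.lf (nat_lit 0) (nat_lit 3461566027) (nat_lit 1216) (nat_lit 2182017221) (nat_lit 76) (nat_lit 2929512226) (nat_lit 181) (nat_lit 5) (nat_lit 197) (nat_lit 5) (nat_lit 182) (nat_lit 5) (nat_lit 280) (nat_lit 265) (nat_lit 235))) (XT.nd (nat_lit 78) (nat_lit 684) (nat_lit 0) (XT.lf (nat_lit 0) (nat_lit 5625486841) (nat_lit 608) (nat_lit 999724795) (nat_lit 684) (nat_lit 2143017384) (nat_lit 173) (nat_lit 5) (nat_lit 181) (nat_lit 5) (nat_lit 182) (nat_lit 5) (nat_lit 281) (nat_lit 265) (nat_lit 234)) (XT.lf (nat_lit 0) (nat_lit 944475777) (nat_lit 684)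 (nat_lit 4144377129) (nat_lit 76) (nat_lit 3884459263) (nat_lit 164) (nat_lit 5) (nat_lit 173) (nat_lit 5) (nat_lit 165) (nat_lit 5) (nat_lit 282) (nat_lit 265) (nat_lit 233)))))) (XT.nd (nat_lit 468) (nat_lit 2812) (nat_lit 0) (XT.nd (nat_lit 234) (nat_lit 1064) (nat_lit 0) (XT.nd (nat_lit 78) (nat_lit 1064) (nat_lit 0) (XT.lf (nat_lit 0) (nat_lit 4009293827) (nat_lit 532) (nat_lit 101025539) (nat_lit 608) (nat_lit 5078797613) (nat_lit 157) (nat_lit 5) (nat_lit 164) (nat_lit 5) (nat_lit 165) (nat_lit 5) (nat_lit 283) (nat_lit 265) (nat_lit 232)) (XT.nd (nat_lit 78) (nat_lit 532) (nat_lit 0) (XT.lf (nat_lit 0) (nat_lit 3140077674) (nat_lit 532) (nat_lit 4307920309) (nat_lit 608) (nat_lit 1967453420) (nat_lit 150) (nat_lit 5) (nat_lit 157) (nat_lit 5) (nat_lit 158) (nat_lit 5) (nat_lit 284) (nat_lit 265) (nat_lit 231)) (XT.lf (nat_lit 0) (nat_lit 1254106997) (nat_lit 532) (nat_lit 7414040192)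 (nat_lit 76) (nat_lit 985315125) (nat_lit 143) (nat_lit 5) (nat_lit 150) (nat_lit 5) (nat_lit 144) (nat_lit 5) (nat_lit 285) (nat_lit 265) (nat_lit 230)))) (XT.nd (nat_lit 78) (nat_lit 532) (nat_lit 0) (XT.lf (nat_lit 0) (nat_lit 1257142418) (nat_lit 532) (nat_lit 3357872768) (nat_lit 608) (nat_lit 5287333671) (nat_lit 136) (nat_lit 5) (nat_lit 143) (nat_lit 5) (nat_lit 144) (nat_lit 5) (nat_lit 286) (nat_lit 265) (nat_lit 229)) (XT.nd (nat_lit 78) (nat_lit 76) (nat_lit 0) (XT.lf (nat_lit 0) (nat_lit 224946648) (nat_lit 456) (nat_lit 7921060464) (nat_lit 532) (nat_lit 2017733626) (nat_lit 130) (nat_lit 5) (nat_lit 136) (nat_lit 5) (nat_lit 137) (nat_lit 5) (nat_lit 287) (nat_lit 265) (nat_lit 228)) (XT.lf (nat_lit 0) (nat_lit 1415559833) (nat_lit 532) (nat_lit 876225762) (nat_lit 76) (nat_lit 8145286461) (nat_lit 129) (nat_lit 5) (nat_lit 136) (nat_lit 5) (nat_lit 130) (nat_lit 5) (nat_lit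 288) (nat_lit 265) (nat_lit 227))))) (XT.nd (nat_lit 234) (nat_lit 1520) (nat_lit 0) (XT.nd (nat_lit 78) (nat_lit 836) (nat_lit 0) (XT.lf (nat_lit 0) (nat_lit 5006940116) (nat_lit 532) (nat_lit 2077217069) (nat_lit 76) (nat_lit 3638576446) (nat_lit 123) (nat_lit 5) (nat_lit 130) (nat_lit 5) (nat_lit 124) (nat_lit 5) (nat_lit 289) (nat_lit 265) (nat_lit 226)) (XT.nd (nat_lit 78) (nat_lit 456) (nat_lit 0) (XT.lf (nat_lit 0) (nat_lit 7659676978) (nat_lit 380) (nat_lit 1135927671) (nat_lit 456) (nat_lit 2226644633) (nat_lit 118) (nat_lit 5) (nat_lit 123) (nat_lit 5) (nat_lit 124) (nat_lit 5) (nat_lit 290) (nat_lit 265) (nat_lit 225)) (XT.lf (nat_lit 0) (nat_lit 1458002975) (nat_lit 456) (nat_lit 4785445131) (nat_lit 76) (nat_lit 5091500507) (nat_lit 112) (nat_lit 5) (nat_lit 118) (nat_lit 5) (nat_lit 113) (nat_lit 5) (nat_lit 291) (nat_lit 265) (nat_lit 224)))) (XT.nd (nat_lit 156) (nat_lit 760)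 (nat_lit 0) (XT.nd (nat_lit 78) (nat_lit 380) (nat_lit 0) (XT.lf (nat_lit 0) (nat_lit 5296314238) (nat_lit 456) (nat_lit 6331626782) (nat_lit 76) (nat_lit 34306282) (nat_lit 107) (nat_lit 5) (nat_lit 113) (nat_lit 5) (nat_lit 108) (nat_lit 5) (nat_lit 292) (nat_lit 265) (nat_lit 223)) (XT.lf (nat_lit 0) (nat_lit 3958512476) (nat_lit 380) (nat_lit 5438673597) (nat_lit 456) (nat_lit 2606691428) (nat_lit 102) (nat_lit 5) (nat_lit 107) (nat_lit 5) (nat_lit 108) (nat_lit 5) (nat_lit 293) (nat_lit 265) (nat_lit 222))) (XT.nd (nat_lit 78) (nat_lit 380) (nat_lit 0) (XT.lf (nat_lit 0) (nat_lit 1336706960) (nat_lit 380) (nat_lit 9905420826) (nat_lit 76) (nat_lit 1119483714) (nat_lit 97) (nat_lit 5) (nat_lit 102) (nat_lit 5) (nat_lit 98) (nat_lit 5) (nat_lit 294) (nat_lit 265) (nat_lit 221)) (XT.lf (nat_lit 0) (nat_lit 747617827) (nat_lit 380) (nat_lit 4746346076) (nat_lit 456) (nat_lit 7240451727)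 (nat_lit 92) (nat_lit 5) (nat_lit 97) (nat_lit 5) (nat_lit 98) (nat_lit 5) (nat_lit 295) (nat_lit 265) (nat_lit 220))))))) (XT.nd (nat_lit 1014) (nat_lit 1824) (nat_lit 0) (XT.nd (nat_lit 468) (nat_lit 1368) (nat_lit 0) (XT.nd (nat_lit 234) (nat_lit 912) (nat_lit 0) (XT.nd (nat_lit 78) (nat_lit 684) (nat_lit 0) (XT.lf (nat_lit 0) (nat_lit 9908790695) (nat_lit 456) (nat_lit 1103713373) (nat_lit 76) (nat_lit 2111936754) (nat_lit 92) (nat_lit 5) (nat_lit 98) (nat_lit 5) (nat_lit 93) (nat_lit 5) (nat_lit 296) (nat_lit 265) (nat_lit 219)) (XT.nd (nat_lit 78) (nat_lit 304) (nat_lit 0) (XT.lf (nat_lit 0) (nat_lit 1069368504) (nat_lit 380) (nat_lit 3159448614) (nat_lit 76) (nat_lit 9302564614) (nat_lit 87) (nat_lit 5) (nat_lit 92) (nat_lit 5) (nat_lit 88) (nat_lit 5) (nat_lit 297) (nat_lit 265) (nat_lit 218)) (XT.lf (nat_lit 0) (nat_lit 5556970306) (nat_lit 380) (nat_lit 5460087701) (nat_lit 76)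 (nat_lit 2939074892) (nat_lit 83) (nat_lit 5) (nat_lit 88) (nat_lit 5) (nat_lit 84) (nat_lit 5) (nat_lit 298) (nat_lit 265) (nat_lit 217)))) (XT.nd (nat_lit 78) (nat_lit 608) (nat_lit 0) (XT.lf (nat_lit 0) (nat_lit 6387576101) (nat_lit 304) (nat_lit 3952392924) (nat_lit 380) (nat_lit 4060082534) (nat_lit 79) (nat_lit 5) (nat_lit 83) (nat_lit 5) (nat_lit 84) (nat_lit 5) (nat_lit 299) (nat_lit 265) (nat_lit 216)) (XT.nd (nat_lit 78) (nat_lit 228) (nat_lit 0) (XT.lf (nat_lit 0) (nat_lit 551768254) (nat_lit 380) (nat_lit 10839967605) (nat_lit 76) (nat_lit 3472378320) (nat_lit 74) (nat_lit 5) (nat_lit 79) (nat_lit 5) (nat_lit 75) (nat_lit 5) (nat_lit 300) (nat_lit 265) (nat_lit 215)) (XT.lf (nat_lit 0) (nat_lit 1334545470) (nat_lit 228) (nat_lit 4050109672) (nat_lit 304) (nat_lit 9963339677) (nat_lit 71) (nat_lit 5) (nat_lit 74) (nat_lit 5) (nat_lit 75) (nat_lit 5) (nat_lit 301) (nat_lit 265)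 (nat_lit 214))))) (XT.nd (nat_lit 234) (nat_lit 760) (nat_lit 0) (XT.nd (nat_lit 78) (nat_lit 608) (nat_lit 0) (XT.lf (nat_lit 0) (nat_lit 10546512501) (nat_lit 304) (nat_lit 1634609033) (nat_lit 76) (nat_lit 3672378860) (nat_lit 71) (nat_lit 5) (nat_lit 75) (nat_lit 5) (nat_lit 72) (nat_lit 5) (nat_lit 302) (nat_lit 265) (nat_lit 213)) (XT.nd (nat_lit 78) (nat_lit 304) (nat_lit 0) (XT.lf (nat_lit 0) (nat_lit 11460286689) (nat_lit 304) (nat_lit 4599565409) (nat_lit 380) (nat_lit 321675745) (nat_lit 67) (nat_lit 5) (nat_lit 71) (nat_lit 5) (nat_lit 72) (nat_lit 5) (nat_lit 303) (nat_lit 265) (nat_lit 212)) (XT.lf (nat_lit 0) (nat_lit 4891357723) (nat_lit 304) (nat_lit 8627199542) (nat_lit 76) (nat_lit 3413797536) (nat_lit 63) (nat_lit 5) (nat_lit 67) (nat_lit 5) (nat_lit 64) (nat_lit 5) (nat_lit 304) (nat_lit 265) (nat_lit 211)))) (XT.nd (nat_lit 156) (nat_lit 304) (nat_lit 0) (XT.nd (nat_lit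 78) (nat_lit 228) (nat_lit 0) (XT.lf (nat_lit 0) (nat_lit 4745596380) (nat_lit 228) (nat_lit 5701384546) (nat_lit 304) (nat_lit 7061031423) (nat_lit 60) (nat_lit 5) (nat_lit 63) (nat_lit 5) (nat_lit 64) (nat_lit 5) (nat_lit 305) (nat_lit 265) (nat_lit 210)) (XT.lf (nat_lit 0) (nat_lit 765174379) (nat_lit 228) (nat_lit 15583231035) (nat_lit 304) (nat_lit 1762047242) (nat_lit 57) (nat_lit 5) (nat_lit 60) (nat_lit 5) (nat_lit 61) (nat_lit 5) (nat_lit 306) (nat_lit 265) (nat_lit 209))) (XT.nd (nat_lit 78) (nat_lit 228) (nat_lit 0) (XT.lf (nat_lit 0) (nat_lit 3866017026) (nat_lit 304) (nat_lit 3679644705) (nat_lit 76) (nat_lit 11192144722) (nat_lit 56) (nat_lit 5) (nat_lit 60) (nat_lit 5) (nat_lit 57) (nat_lit 5) (nat_lit 307) (nat_lit 265) (nat_lit 208)) (XT.lf (nat_lit 0) (nat_lit 9803145844) (nat_lit 304) (nat_lit 8619156867) (nat_lit 76) (nat_lit 971814405) (nat_lit 53) (nat_lit 5) (nat_lit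 57) (nat_lit 5) (nat_lit 54) (nat_lit 5) (nat_lit 308) (nat_lit 265) (nat_lit 207)))))) (XT.nd (nat_lit 546) (nat_lit 760) (nat_lit 0) (XT.nd (nat_lit 234) (nat_lit 608) (nat_lit 0) (XT.nd (nat_lit 78) (nat_lit 304) (nat_lit 0) (XT.lf (nat_lit 0) (nat_lit 5909709733) (nat_lit 152) (nat_lit 10250582523) (nat_lit 228) (nat_lit 3919290177) (nat_lit 51) (nat_lit 5) (nat_lit 53) (nat_lit 5) (nat_lit 54) (nat_lit 5) (nat_lit 309) (nat_lit 265) (nat_lit 206)) (XT.nd (nat_lit 78) (nat_lit 0) (nat_lit 0) (XT.lf (nat_lit 0) (nat_lit 462102974) (nat_lit 228) (nat_lit 1581214968) (nat_lit 304) (nat_lit 18754035176) (nat_lit 47) (nat_lit 5) (nat_lit 50) (nat_lit 5) (nat_lit 51) (nat_lit 5) (nat_lit 310) (nat_lit 265) (nat_lit 205)) (XT.lf (nat_lit 0) (nat_lit 8397665300) (nat_lit 304) (nat_lit 5612077453) (nat_lit 76) (nat_lit 7534895365) (nat_lit 47) (nat_lit 5) (nat_lit 51) (nat_lit 5) (nat_lit 48)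 (nat_lit 5) (nat_lit 311) (nat_lit 265) (nat_lit 204)))) (XT.nd (nat_lit 156) (nat_lit 228) (nat_lit 0) (XT.nd (nat_lit 78) (nat_lit 228) (nat_lit 0) (XT.lf (nat_lit 0) (nat_lit 9955153070) (nat_lit 152) (nat_lit 5182707081) (nat_lit 228) (nat_lit 7189411792) (nat_lit 45) (nat_lit 5) (nat_lit 47) (nat_lit 5) (nat_lit 48) (nat_lit 5) (nat_lit 312) (nat_lit 265) (nat_lit 203)) (XT.lf (nat_lit 0) (nat_lit 3224367815) (nat_lit 228) (nat_lit 19076947158) (nat_lit 304) (nat_lit 845162100) (nat_lit 42) (nat_lit 5) (nat_lit 45) (nat_lit 5) (nat_lit 46) (nat_lit 5) (nat_lit 313) (nat_lit 265) (nat_lit 202))) (XT.nd (nat_lit 78) (nat_lit 152) (nat_lit 0) (XT.lf (nat_lit 0) (nat_lit 5842310498) (nat_lit 304) (nat_lit 4321364477) (nat_lit 76) (nat_lit 13837130047) (nat_lit 41) (nat_lit 5) (nat_lit 45) (nat_lit 5) (nat_lit 42) (nat_lit 5) (nat_lit 314) (nat_lit 265) (nat_lit 201)) (XT.lf (nat_lit 0) (nat_lit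 12224399266) (nat_lit 152) (nat_lit 700497701) (nat_lit 228) (nat_lit 11970378661) (nat_lit 39) (nat_lit 5) (nat_lit 41) (nat_lit 5) (nat_lit 42) (nat_lit 5) (nat_lit 315) (nat_lit 265) (nat_lit 200))))) (XT.nd (nat_lit 234) (nat_lit 380) (nat_lit 0) (XT.nd (nat_lit 78) (nat_lit 228) (nat_lit 0) (XT.lf (nat_lit 0) (nat_lit 3774968224) (nat_lit 152) (nat_lit 16718217315) (nat_lit 228) (nat_lit 5337359789) (nat_lit 37) (nat_lit 5) (nat_lit 39) (nat_lit 5) (nat_lit 40) (nat_lit 5) (nat_lit 316) (nat_lit 265) (nat_lit 199)) (XT.nd (nat_lit 78) (nat_lit 152) (nat_lit 0) (XT.lf (nat_lit 0) (nat_lit 1696774075) (nat_lit 228) (nat_lit 5587806281) (nat_lit 76) (nat_lit 19524513346) (nat_lit 36) (nat_lit 5) (nat_lit 39) (nat_lit 5) (nat_lit 37) (nat_lit 5) (nat_lit 317) (nat_lit 265) (nat_lit 198)) (XT.lf (nat_lit 0) (nat_lit 9077706580) (nat_lit 228) (nat_lit 16039145452) (nat_lit 76) (nat_lit 2714987836)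 (nat_lit 34) (nat_lit 5) (nat_lit 37) (nat_lit 5) (nat_lit 35) (nat_lit 5) (nat_lit 318) (nat_lit 265) (nat_lit 197)))) (XT.nd (nat_lit 156) (nat_lit 228) (nat_lit 0) (XT.nd (nat_lit 78) (nat_lit 0) (nat_lit 0) (XT.lf (nat_lit 0) (nat_lit 1144087167) (nat_lit 152) (nat_lit 15791339624) (nat_lit 228) (nat_lit 11967083397) (nat_lit 32) (nat_lit 5) (nat_lit 34) (nat_lit 5) (nat_lit 35) (nat_lit 5) (nat_lit 319) (nat_lit 265) (nat_lit 196)) (XT.lf (nat_lit 0) (nat_lit 19464212762) (nat_lit 152) (nat_lit 5853164886) (nat_lit 228) (nat_lit 4705414205) (nat_lit 32) (nat_lit 5) (nat_lit 34) (nat_lit 5) (nat_lit 35) (nat_lit 5) (nat_lit 320) (nat_lit 265) (nat_lit 195))) (XT.nd (nat_lit 78) (nat_lit 0) (nat_lit 0) (XT.lf (nat_lit 0) (nat_lit 2947425876) (nat_lit 228) (nat_lit 23676421743) (nat_lit 76) (nat_lit 4571863281) (nat_lit 29) (nat_lit 5) (nat_lit 32) (nat_lit 5) (nat_lit 30) (nat_lit 5) (nat_lit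 321) (nat_lit 265) (nat_lit 194)) (XT.lf (nat_lit 0) (nat_lit 11023666187) (nat_lit 228) (nat_lit 5864493582) (nat_lit 76) (nat_lit 15533592279) (nat_lit 29) (nat_lit 5) (nat_lit 32) (nat_lit 5) (nat_lit 30) (nat_lit 5) (nat_lit 322) (nat_lit 265) (nat_lit 193))))))))
noncomputable def xc60 : XT := (XT.nd (nat_lit 2028) (nat_lit 304) (nat_lit 0) (XT.nd (nat_lit 1014) (nat_lit 380) (nat_lit 0) (XT.nd (nat_lit 468) (nat_lit 532) (nat_lit 0) (XT.nd (nat_lit 234) (nat_lit 228) (nat_lit 0) (XT.nd (nat_lit 78) (nat_lit 152) (nat_lit 0) (XT.lf (nat_lit 0) (nat_lit 13040569914) (nat_lit 152) (nat_lit 6558334882) (nat_lit 228) (nat_lit 14107350106) (nat_lit 27) (nat_lit 5) (nat_lit 29) (nat_lit 5) (nat_lit 30) (nat_lit 5) (nat_lit 323) (nat_lit 265) (nat_lit 192)) (XT.nd (nat_lit 78) (nat_lit 152) (nat_lit 0) (XT.lf (nat_lit 0) (nat_lit 28675671546) (nat_lit 228) (nat_lit 2132678947) (nat_lit 76)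 (nat_lit 4244463930) (nat_lit 27) (nat_lit 5) (nat_lit 30) (nat_lit 5) (nat_lit 28) (nat_lit 4) (nat_lit 324) (nat_lit 265) (nat_lit 191)) (XT.lf (nat_lit 0) (nat_lit 1914586313) (nat_lit 152) (nat_lit 18924634997) (nat_lit 76) (nat_lit 15620723666) (nat_lit 25) (nat_lit 5) (nat_lit 27) (nat_lit 5) (nat_lit 26) (nat_lit 5) (nat_lit 325) (nat_lit 265) (nat_lit 190)))) (XT.nd (nat_lit 78) (nat_lit 76) (nat_lit 0) (XT.lf (nat_lit 0) (nat_lit 185675379) (nat_lit 152) (nat_lit 10301098679) (nat_lit 228) (nat_lit 27448843740) (nat_lit 23) (nat_lit 5) (nat_lit 25) (nat_lit 5) (nat_lit 26) (nat_lit 5) (nat_lit 326) (nat_lit 265) (nat_lit 189)) (XT.nd (nat_lit 78) (nat_lit 76) (nat_lit 0) (XT.lf (nat_lit 0) (nat_lit 19664902165) (nat_lit 228) (nat_lit 18888633388) (nat_lit 76) (nat_lit 926230950) (nat_lit 23) (nat_lit 5) (nat_lit 26) (nat_lit 5) (nat_lit 24) (nat_lit 4) (nat_lit 327) (nat_lit 265)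 (nat_lit 188)) (XT.lf (nat_lit 0) (nat_lit 782173794) (nat_lit 76) (nat_lit 28605773441) (nat_lit 152) (nat_lit 11710606682) (nat_lit 22) (nat_lit 5) (nat_lit 23) (nat_lit 5) (nat_lit 24) (nat_lit 4) (nat_lit 328) (nat_lit 265) (nat_lit 187))))) (XT.nd (nat_lit 234) (nat_lit 304) (nat_lit 0) (XT.nd (nat_lit 78) (nat_lit 228) (nat_lit 0) (XT.lf (nat_lit 0) (nat_lit 21787665246) (nat_lit 76) (nat_lit 17979235935) (nat_lit 152) (nat_lit 3026297862) (nat_lit 22) (nat_lit 5) (nat_lit 23) (nat_lit 5) (nat_lit 24) (nat_lit 4) (nat_lit 329) (nat_lit 265) (nat_lit 186)) (XT.nd (nat_lit 78) (nat_lit 152) (nat_lit 0) (XT.lf (nat_lit 0) (nat_lit 5949592333) (nat_lit 152) (nat_lit 829688366) (nat_lit 76) (nat_lit 37792261650) (nat_lit 21) (nat_lit 5) (nat_lit 23) (nat_lit 5) (nat_lit 22) (nat_lit 5) (nat_lit 330) (nat_lit 265) (nat_lit 185)) (XT.lf (nat_lit 0) (nat_lit 15538497351) (nat_lit 228) (nat_lit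 25794468584) (nat_lit 76) (nat_lit 5098143443) (nat_lit 19) (nat_lit 5) (nat_lit 22) (nat_lit 5) (nat_lit 20) (nat_lit 4) (nat_lit 331) (nat_lit 265) (nat_lit 184)))) (XT.nd (nat_lit 156) (nat_lit 228) (nat_lit 0) (XT.nd (nat_lit 78) (nat_lit 76) (nat_lit 0) (XT.lf (nat_lit 0) (nat_lit 25661817599) (nat_lit 228) (nat_lit 5297623559) (nat_lit 76) (nat_lit 17422573759) (nat_lit 19) (nat_lit 5) (nat_lit 22) (nat_lit 5) (nat_lit 20) (nat_lit 4) (nat_lit 332) (nat_lit 265) (nat_lit 183)) (XT.lf (nat_lit 0) (nat_lit 16508742070) (nat_lit 76) (nat_lit 19920224950) (nat_lit 152) (nat_lit 13997377636) (nat_lit 18) (nat_lit 5) (nat_lit 19) (nat_lit 5) (nat_lit 20) (nat_lit 4) (nat_lit 333) (nat_lit 265) (nat_lit 182))) (XT.nd (nat_lit 78) (nat_lit 228) (nat_lit 0) (XT.lf (nat_lit 0) (nat_lit 39479738039) (nat_lit 76) (nat_lit 8288892814) (nat_lit 152) (nat_lit 4803243718) (nat_lit 18) (nat_lit 5) (nat_lit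 19) (nat_lit 5) (nat_lit 20) (nat_lit 4) (nat_lit 334) (nat_lit 265) (nat_lit 181)) (XT.lf (nat_lit 0) (nat_lit 4860438798) (nat_lit 228) (nat_lit 45994273951) (nat_lit 76) (nat_lit 3965442354) (nat_lit 15) (nat_lit 5) (nat_lit 18) (nat_lit 5) (nat_lit 16) (nat_lit 4) (nat_lit 335) (nat_lit 265) (nat_lit 180)))))) (XT.nd (nat_lit 468) (nat_lit 152) (nat_lit 0) (XT.nd (nat_lit 234) (nat_lit 152) (nat_lit 0) (XT.nd (nat_lit 78) (nat_lit 76) (nat_lit 0) (XT.lf (nat_lit 0) (nat_lit 15109513188) (nat_lit 228) (nat_lit 25231381613) (nat_lit 76) (nat_lit 16832489165) (nat_lit 15) (nat_lit 5) (nat_lit 18) (nat_lit 5) (nat_lit 16) (nat_lit 4) (nat_lit 336) (nat_lit 265) (nat_lit 179)) (XT.nd (nat_lit 78) (nat_lit 76) (nat_lit 0) (XT.lf (nat_lit 0) (nat_lit 25852807573) (nat_lit 228) (nat_lit 3463187987) (nat_lit 76) (nat_lit 30328832767) (nat_lit 15) (nat_lit 5) (nat_lit 18) (nat_lit 5) (nat_lit 16)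 (nat_lit 4) (nat_lit 337) (nat_lit 265) (nat_lit 178)) (XT.lf (nat_lit 0) (nat_lit 19747480427) (nat_lit 76) (nat_lit 17558245658) (nat_lit 152) (nat_lit 24928951745) (nat_lit 14) (nat_lit 5) (nat_lit 15) (nat_lit 5) (nat_lit 16) (nat_lit 4) (nat_lit 338) (nat_lit 265) (nat_lit 177)))) (XT.nd (nat_lit 78) (nat_lit 152) (nat_lit 0) (XT.lf (nat_lit 0) (nat_lit 44160669961) (nat_lit 76) (nat_lit 5189440444) (nat_lit 152) (nat_lit 15603351195) (nat_lit 14) (nat_lit 5) (nat_lit 15) (nat_lit 5) (nat_lit 16) (nat_lit 4) (nat_lit 339) (nat_lit 265) (nat_lit 176)) (XT.nd (nat_lit 78) (nat_lit 76) (nat_lit 0) (XT.lf (nat_lit 0) (nat_lit 1919535350) (nat_lit 76) (nat_lit 60154434415) (nat_lit 76) (nat_lit 5731903203) (nat_lit 13) (nat_lit 4) (nat_lit 14) (nat_lit 5) (nat_lit 14) (nat_lit 4) (nat_lit 340) (nat_lit 265) (nat_lit 175)) (XT.lf (nat_lit 0) (nat_lit 4795431081) (nat_lit 152) (nat_lit 44720310032)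 (nat_lit 76) (nat_lit 21276251645) (nat_lit 12) (nat_lit 5) (nat_lit 14) (nat_lit 5) (nat_lit 13) (nat_lit 4) (nat_lit 341) (nat_lit 265) (nat_lit 174))))) (XT.nd (nat_lit 234) (nat_lit 76) (nat_lit 0) (XT.nd (nat_lit 78) (nat_lit 76) (nat_lit 0) (XT.lf (nat_lit 0) (nat_lit 15716624482) (nat_lit 152) (nat_lit 22581243538) (nat_lit 76) (nat_lit 35628272222) (nat_lit 12) (nat_lit 5) (nat_lit 14) (nat_lit 5) (nat_lit 13) (nat_lit 4) (nat_lit 342) (nat_lit 265) (nat_lit 173)) (XT.nd (nat_lit 78) (nat_lit 0) (nat_lit 0) (XT.lf (nat_lit 0) (nat_lit 651383322) (nat_lit 76) (nat_lit 26524408091) (nat_lit 152) (nat_lit 50041451372) (nat_lit 11) (nat_lit 5) (nat_lit 12) (nat_lit 5) (nat_lit 13) (nat_lit 4) (nat_lit 343) (nat_lit 265) (nat_lit 172)) (XT.lf (nat_lit 0) (nat_lit 25492167568) (nat_lit 76) (nat_lit 13934294954) (nat_lit 152) (nat_lit 41239886419) (nat_lit 11) (nat_lit 5) (nat_lit 12) (nat_lit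 5) (nat_lit 13) (nat_lit 4) (nat_lit 344) (nat_lit 265) (nat_lit 171)))) (XT.nd (nat_lit 156) (nat_lit 76) (nat_lit 0) (XT.nd (nat_lit 78) (nat_lit 0) (nat_lit 0) (XT.lf (nat_lit 0) (nat_lit 51550842899) (nat_lit 76) (nat_lit 725578433) (nat_lit 152) (nat_lit 32011891077) (nat_lit 11) (nat_lit 5) (nat_lit 12) (nat_lit 5) (nat_lit 13) (nat_lit 4) (nat_lit 345) (nat_lit 265) (nat_lit 170)) (XT.lf (nat_lit 0) (nat_lit 65882507247) (nat_lit 152) (nat_lit 9328547394) (nat_lit 0) (nat_lit 12876914941) (nat_lit 11) (nat_lit 5) (nat_lit 13) (nat_lit 4) (nat_lit 11) (nat_lit 4) (nat_lit 346) (nat_lit 265) (nat_lit 169))) (XT.nd (nat_lit 78) (nat_lit 0) (nat_lit 0) (XT.lf (nat_lit 0) (nat_lit 15524258960) (nat_lit 76) (nat_lit 64789081172) (nat_lit 76) (nat_lit 11759940398) (nat_lit 10) (nat_lit 4) (nat_lit 11) (nat_lit 5) (nat_lit 11) (nat_lit 4) (nat_lit 347) (nat_lit 265) (nat_lit 168)) (XT.lf (nat_lit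 0) (nat_lit 41793107775) (nat_lit 76) (nat_lit 53756896229) (nat_lit 76) (nat_lit 705328341) (nat_lit 10) (nat_lit 4) (nat_lit 11) (nat_lit 5) (nat_lit 11) (nat_lit 4) (nat_lit 348) (nat_lit 265) (nat_lit 167))))))) (XT.nd (nat_lit 34320) (nat_lit 0) (nat_lit 12692) (XT.nd (nat_lit 468) (nat_lit 152) (nat_lit 0) (XT.nd (nat_lit 234) (nat_lit 0) (nat_lit 0) (XT.nd (nat_lit 78) (nat_lit 76) (nat_lit 0) (XT.lf (nat_lit 0) (nat_lit 10677981531) (nat_lit 152) (nat_lit 31396624532) (nat_lit 76) (nat_lit 58569079335) (nat_lit 9) (nat_lit 5) (nat_lit 11) (nat_lit 5) (nat_lit 10) (nat_lit 4) (nat_lit 349) (nat_lit 265) (nat_lit 166)) (XT.nd (nat_lit 78) (nat_lit 76) (nat_lit 0) (XT.lf (nat_lit 0) (nat_lit 22605247876) (nat_lit 152) (nat_lit 7204615905) (nat_lit 76) (nat_lit 75441704993) (nat_lit 9) (nat_lit 5) (nat_lit 11) (nat_lit 5) (nat_lit 10) (nat_lit 4) (nat_lit 350) (nat_lit 265) (nat_lit 165))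 (XT.lf (nat_lit 0) (nat_lit 18539962831) (nat_lit 76) (nat_lit 16756887074) (nat_lit 152) (nat_lit 74787960595) (nat_lit 8) (nat_lit 5) (nat_lit 9) (nat_lit 5) (nat_lit 10) (nat_lit 4) (nat_lit 351) (nat_lit 265) (nat_lit 164)))) (XT.nd (nat_lit 78) (nat_lit 0) (nat_lit 0) (XT.lf (nat_lit 0) (nat_lit 45704053249) (nat_lit 76) (nat_lit 2983211070) (nat_lit 152) (nat_lit 66470526219) (nat_lit 8) (nat_lit 5) (nat_lit 9) (nat_lit 5) (nat_lit 10) (nat_lit 4) (nat_lit 352) (nat_lit 265) (nat_lit 163)) (XT.nd (nat_lit 78) (nat_lit 0) (nat_lit 0) (XT.lf (nat_lit 0) (nat_lit 62848007818) (nat_lit 152) (nat_lit 46386028897) (nat_lit 0) (nat_lit 11247361653) (nat_lit 8) (nat_lit 5) (nat_lit 10) (nat_lit 4) (nat_lit 8) (nat_lit 4) (nat_lit 353) (nat_lit 265) (nat_lit 162)) (XT.lf (nat_lit 0) (nat_lit 77737816634) (nat_lit 152) (nat_lit 22211819554) (nat_lit 0) (nat_lit 26120922453) (nat_lit 8) (nat_lit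 5) (nat_lit 10) (nat_lit 4) (nat_lit 8) (nat_lit 4) (nat_lit 354) (nat_lit 265) (nat_lit 161))))) (XT.nd (nat_lit 234) (nat_lit 76) (nat_lit 0) (XT.nd (nat_lit 78) (nat_lit 0) (nat_lit 0) (XT.lf (nat_lit 0) (nat_lit 3217918000) (nat_lit 76) (nat_lit 90176480841) (nat_lit 76) (nat_lit 38544112358) (nat_lit 7) (nat_lit 4) (nat_lit 8) (nat_lit 5) (nat_lit 8) (nat_lit 4) (nat_lit 355) (nat_lit 265) (nat_lit 160)) (XT.nd (nat_lit 78) (nat_lit 0) (nat_lit 0) (XT.lf (nat_lit 0) (nat_lit 30367786639) (nat_lit 76) (nat_lit 79686287680) (nat_lit 76) (nat_lit 28039181767) (nat_lit 7) (nat_lit 4) (nat_lit 8) (nat_lit 5) (nat_lit 8) (nat_lit 4) (nat_lit 356) (nat_lit 265) (nat_lit 159)) (XT.lf (nat_lit 0) (nat_lit 58860370144) (nat_lit 76) (nat_lit 68678375880) (nat_lit 76) (nat_lit 17017234320) (nat_lit 7) (nat_lit 4) (nat_lit 8) (nat_lit 5) (nat_lit 8) (nat_lit 4) (nat_lit 357) (nat_lit 265) (nat_lit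 158)))) (XT.nd (nat_lit 33462) (nat_lit 0) (nat_lit 20368) (XT.nd (nat_lit 156) (nat_lit 76) (nat_lit 0) (XT.lf (nat_lit 0) (nat_lit 88763508001) (nat_lit 76) (nat_lit 57126536129) (nat_lit 76) (nat_lit 5452027286) (nat_lit 7) (nat_lit 4) (nat_lit 8) (nat_lit 5) (nat_lit 8) (nat_lit 4) (nat_lit 358) (nat_lit 265) (nat_lit 157)) (XT.lf (nat_lit 0) (nat_lit 19040721716) (nat_lit 152) (nat_lit 13046699026) (nat_lit 76) (nat_lit 133856770868) (nat_lit 6) (nat_lit 5) (nat_lit 8) (nat_lit 5) (nat_lit 7) (nat_lit 4) (nat_lit 360) (nat_lit 265) (nat_lit 155))) (XT.nd (nat_lit 78) (nat_lit 0) (nat_lit 0) (XT.lf (nat_lit 0) (nat_lit 670849782) (nat_lit 684) (nat_lit 1382115883) (nat_lit 684) (nat_lit 1382115883) (nat_lit 274) (nat_lit 3) (nat_lit 283) (nat_lit 3) (nat_lit 283) (nat_lit 5) (nat_lit 266) (nat_lit 266) (nat_lit 248)) (XT.lf (nat_lit 76) (nat_lit 2494992076) (nat_lit 0) (nat_lit 1917705415)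 (nat_lit 684) (nat_lit 2532447457) (nat_lit 275) (nat_lit 5) (nat_lit 274) (nat_lit 3) (nat_lit 283) (nat_lit 5) (nat_lit 267) (nat_lit 266) (nat_lit 247)))))) (XT.nd (nat_lit 546) (nat_lit 5624) (nat_lit 0) (XT.nd (nat_lit 234) (nat_lit 1444) (nat_lit 0) (XT.nd (nat_lit 78) (nat_lit 0) (nat_lit 0) (XT.lf (nat_lit 0) (nat_lit 448158451) (nat_lit 684) (nat_lit 6075062025) (nat_lit 760) (nat_lit 505426835) (nat_lit 266) (nat_lit 5) (nat_lit 275) (nat_lit 5) (nat_lit 276) (nat_lit 5) (nat_lit 268) (nat_lit 266) (nat_lit 246)) (XT.nd (nat_lit 78) (nat_lit 0) (nat_lit 0) (XT.lf (nat_lit 0) (nat_lit 3404547501) (nat_lit 684) (nat_lit 549329189) (nat_lit 760) (nat_lit 3165656389) (nat_lit 266) (nat_lit 5) (nat_lit 275) (nat_lit 5) (nat_lit 276) (nat_lit 5) (nat_lit 269) (nat_lit 266) (nat_lit 245)) (XT.lf (nat_lit 76) (nat_lit 5250854195) (nat_lit 0) (nat_lit 1130301034) (nat_lit 760) (nat_lit 837954340)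 (nat_lit 267) (nat_lit 5) (nat_lit 266) (nat_lit 5) (nat_lit 276) (nat_lit 5) (nat_lit 270) (nat_lit 266) (nat_lit 244)))) (XT.nd (nat_lit 156) (nat_lit 760) (nat_lit 0) (XT.nd (nat_lit 78) (nat_lit 0) (nat_lit 0) (XT.lf (nat_lit 0) (nat_lit 2030677411) (nat_lit 760) (nat_lit 3365483659) (nat_lit 836) (nat_lit 1930458346) (nat_lit 257) (nat_lit 5) (nat_lit 267) (nat_lit 5) (nat_lit 268) (nat_lit 5) (nat_lit 271) (nat_lit 266) (nat_lit 243)) (XT.lf (nat_lit 76) (nat_lit 2714252902) (nat_lit 0) (nat_lit 2204569458) (nat_lit 836) (nat_lit 2523911541) (nat_lit 258) (nat_lit 5) (nat_lit 257) (nat_lit 5) (nat_lit 268) (nat_lit 5) (nat_lit 272) (nat_lit 266) (nat_lit 242))) (XT.nd (nat_lit 78) (nat_lit 0) (nat_lit 0) (XT.lf (nat_lit 0) (nat_lit 281138419) (nat_lit 836) (nat_lit 6058038265) (nat_lit 912) (nat_lit 1228566242) (nat_lit 247) (nat_lit 5) (nat_lit 258) (nat_lit 5) (nat_lit 259) (nat_lit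 5) (nat_lit 273) (nat_lit 266) (nat_lit 241)) (XT.lf (nat_lit 76) (nat_lit 308460205) (nat_lit 0) (nat_lit 2787997284) (nat_lit 912) (nat_lit 4604375706) (nat_lit 248) (nat_lit 5) (nat_lit 247) (nat_lit 5) (nat_lit 259) (nat_lit 5) (nat_lit 274) (nat_lit 266) (nat_lit 240))))) (XT.nd (nat_lit 234) (nat_lit 3876) (nat_lit 0) (XT.nd (nat_lit 78) (nat_lit 1824) (nat_lit 0) (XT.lf (nat_lit 0) (nat_lit 5978535118) (nat_lit 836) (nat_lit 840747424) (nat_lit 76) (nat_lit 1023750818) (nat_lit 248) (nat_lit 5) (nat_lit 259) (nat_lit 5) (nat_lit 249) (nat_lit 5) (nat_lit 275) (nat_lit 266) (nat_lit 239)) (XT.nd (nat_lit 78) (nat_lit 912) (nat_lit 0) (XT.lf (nat_lit 0) (nat_lit 938813407) (nat_lit 912) (nat_lit 1982467507) (nat_lit 76) (nat_lit 5072602254) (nat_lit 236) (nat_lit 5) (nat_lit 248) (nat_lit 5) (nat_lit 237) (nat_lit 5) (nat_lit 276) (nat_lit 266) (nat_lit 238)) (XT.lf (nat_lit 0) (nat_lit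 3778624553) (nat_lit 988) (nat_lit 3122006482) (nat_lit 76) (nat_lit 1253250867) (nat_lit 224) (nat_lit 5) (nat_lit 237) (nat_lit 5) (nat_lit 225) (nat_lit 5) (nat_lit 277) (nat_lit 266) (nat_lit 237)))) (XT.nd (nat_lit 156) (nat_lit 1748) (nat_lit 0) (XT.nd (nat_lit 78) (nat_lit 1140) (nat_lit 0) (XT.lf (nat_lit 0) (nat_lit 4058590802) (nat_lit 988) (nat_lit 2661641664) (nat_lit 1064) (nat_lit 1603051145) (nat_lit 211) (nat_lit 5) (nat_lit 224) (nat_lit 5) (nat_lit 225) (nat_lit 5) (nat_lit 278) (nat_lit 266) (nat_lit 236)) (XT.lf (nat_lit 0) (nat_lit 1237080381) (nat_lit 1140) (nat_lit 5417637010) (nat_lit 76) (nat_lit 1847598218) (nat_lit 196) (nat_lit 5) (nat_lit 211) (nat_lit 5) (nat_lit 197) (nat_lit 5) (nat_lit 279) (nat_lit 266) (nat_lit 235))) (XT.nd (nat_lit 78) (nat_lit 608) (nat_lit 0) (XT.lf (nat_lit 0) (nat_lit 2090508645) (nat_lit 1140) (nat_lit 2066722348) (nat_lit 1216) (nat_lit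 4533630758) (nat_lit 181) (nat_lit 5) (nat_lit 196) (nat_lit 5) (nat_lit 197) (nat_lit 5) (nat_lit 280) (nat_lit 266) (nat_lit 234)) (XT.lf (nat_lit 0) (nat_lit 1085206243) (nat_lit 608) (nat_lit 6115761833) (nat_lit 684) (nat_lit 1688705162) (nat_lit 173) (nat_lit 5) (nat_lit 181) (nat_lit 5) (nat_lit 182) (nat_lit 5) (nat_lit 281) (nat_lit 266) (nat_lit 233))))))))
noncomputable def xc61 : XT := (XT.nd (nat_lit 2028) (nat_lit 2964) (nat_lit 0) (XT.nd (nat_lit 1014) (nat_lit 3420) (nat_lit 0) (XT.nd (nat_lit 468) (nat_lit 2584) (nat_lit 0) (XT.nd (nat_lit 234) (nat_lit 1596) (nat_lit 0) (XT.nd (nat_lit 78) (nat_lit 532) (nat_lit 0) (XT.lf (nat_lit 0) (nat_lit 55297863) (nat_lit 608) (nat_lit 1195456467) (nat_lit 684) (nat_lit 7848120701) (nat_lit 164) (nat_lit 5) (nat_lit 172) (nat_lit 5) (nat_lit 173) (nat_lit 5) (nat_lit 282) (nat_lit 266) (nat_lit 232)) (XT.nd (nat_lit 78) (nat_lit 532)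 (nat_lit 0) (XT.lf (nat_lit 0) (nat_lit 4313875542) (nat_lit 684) (nat_lit 1009655130) (nat_lit 76) (nat_lit 3994301895) (nat_lit 164) (nat_lit 5) (nat_lit 173) (nat_lit 5) (nat_lit 165) (nat_lit 5) (nat_lit 283) (nat_lit 266) (nat_lit 231)) (XT.lf (nat_lit 0) (nat_lit 7455903310) (nat_lit 532) (nat_lit 55113073) (nat_lit 608) (nat_lit 2037434411) (nat_lit 157) (nat_lit 5) (nat_lit 164) (nat_lit 5) (nat_lit 165) (nat_lit 5) (nat_lit 284) (nat_lit 266) (nat_lit 230)))) (XT.nd (nat_lit 78) (nat_lit 988) (nat_lit 0) (XT.lf (nat_lit 0) (nat_lit 1083648568) (nat_lit 608) (nat_lit 3253590010) (nat_lit 76) (nat_lit 5452361170) (nat_lit 149) (nat_lit 5) (nat_lit 157) (nat_lit 5) (nat_lit 150) (nat_lit 5) (nat_lit 285) (nat_lit 266) (nat_lit 229)) (XT.nd (nat_lit 78) (nat_lit 532) (nat_lit 0) (XT.lf (nat_lit 0) (nat_lit 4311076077) (nat_lit 532) (nat_lit 4472769576) (nat_lit 76) (nat_lit 1258704649)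 (nat_lit 143) (nat_lit 5) (nat_lit 150) (nat_lit 5) (nat_lit 144) (nat_lit 5) (nat_lit 286) (nat_lit 266) (nat_lit 228)) (XT.lf (nat_lit 0) (nat_lit 4537035134) (nat_lit 532) (nat_lit 3191334668) (nat_lit 608) (nat_lit 2579040080) (nat_lit 136) (nat_lit 5) (nat_lit 143) (nat_lit 5) (nat_lit 144) (nat_lit 5) (nat_lit 287) (nat_lit 266) (nat_lit 227))))) (XT.nd (nat_lit 234) (nat_lit 1216) (nat_lit 0) (XT.nd (nat_lit 78) (nat_lit 836) (nat_lit 0) (XT.lf (nat_lit 0) (nat_lit 732827522) (nat_lit 532) (nat_lit 7146960784) (nat_lit 76) (nat_lit 2705138609) (nat_lit 129) (nat_lit 5) (nat_lit 136) (nat_lit 5) (nat_lit 130) (nat_lit 5) (nat_lit 288) (nat_lit 266) (nat_lit 226)) (XT.nd (nat_lit 78) (nat_lit 380) (nat_lit 0) (XT.lf (nat_lit 0) (nat_lit 2236371698) (nat_lit 456) (nat_lit 1947754849) (nat_lit 532) (nat_lit 6690714358) (nat_lit 123) (nat_lit 5) (nat_lit 129) (nat_lit 5) (nat_lit 130) (nat_lit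 5) (nat_lit 289) (nat_lit 266) (nat_lit 225)) (XT.lf (nat_lit 0) (nat_lit 936799359) (nat_lit 380) (nat_lit 6911689552) (nat_lit 456) (nat_lit 3329644307) (nat_lit 118) (nat_lit 5) (nat_lit 123) (nat_lit 5) (nat_lit 124) (nat_lit 5) (nat_lit 290) (nat_lit 266) (nat_lit 224)))) (XT.nd (nat_lit 156) (nat_lit 760) (nat_lit 0) (XT.nd (nat_lit 78) (nat_lit 380) (nat_lit 0) (XT.lf (nat_lit 0) (nat_lit 223259354) (nat_lit 456) (nat_lit 444638692) (nat_lit 76) (nat_lit 10827894620) (nat_lit 117) (nat_lit 5) (nat_lit 123) (nat_lit 5) (nat_lit 118) (nat_lit 5) (nat_lit 291) (nat_lit 266) (nat_lit 223)) (XT.lf (nat_lit 0) (nat_lit 3960630638) (nat_lit 456) (nat_lit 1978870633) (nat_lit 76) (nat_lit 5886660198) (nat_lit 112) (nat_lit 5) (nat_lit 118) (nat_lit 5) (nat_lit 113) (nat_lit 5) (nat_lit 292) (nat_lit 266) (nat_lit 222))) (XT.nd (nat_lit 78) (nat_lit 380) (nat_lit 0) (XT.lf (nat_lit 0) (nat_lit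 7909517500) (nat_lit 456) (nat_lit 3622801152) (nat_lit 76) (nat_lit 640072485) (nat_lit 107) (nat_lit 5) (nat_lit 113) (nat_lit 5) (nat_lit 108) (nat_lit 5) (nat_lit 293) (nat_lit 266) (nat_lit 221)) (XT.lf (nat_lit 0) (nat_lit 7095122386) (nat_lit 380) (nat_lit 5036730994) (nat_lit 456) (nat_lit 401876705) (nat_lit 102) (nat_lit 5) (nat_lit 107) (nat_lit 5) (nat_lit 108) (nat_lit 5) (nat_lit 294) (nat_lit 266) (nat_lit 220)))))) (XT.nd (nat_lit 468) (nat_lit 1672) (nat_lit 0) (XT.nd (nat_lit 234) (nat_lit 684) (nat_lit 0) (XT.nd (nat_lit 78) (nat_lit 684) (nat_lit 0) (XT.lf (nat_lit 0) (nat_lit 3618639608) (nat_lit 380) (nat_lit 7437910239) (nat_lit 76) (nat_lit 1854472896) (nat_lit 97) (nat_lit 5) (nat_lit 102) (nat_lit 5) (nat_lit 98) (nat_lit 5) (nat_lit 295) (nat_lit 266) (nat_lit 219)) (XT.nd (nat_lit 78) (nat_lit 304) (nat_lit 0) (XT.lf (nat_lit 0) (nat_lit 3662852807) (nat_lit 380)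 (nat_lit 4243089462) (nat_lit 456) (nat_lit 5398964868) (nat_lit 92) (nat_lit 5) (nat_lit 97) (nat_lit 5) (nat_lit 98) (nat_lit 5) (nat_lit 296) (nat_lit 266) (nat_lit 218)) (XT.lf (nat_lit 0) (nat_lit 1670813610) (nat_lit 304) (nat_lit 10791762283) (nat_lit 380) (nat_lit 1254326248) (nat_lit 88) (nat_lit 5) (nat_lit 92) (nat_lit 5) (nat_lit 93) (nat_lit 5) (nat_lit 297) (nat_lit 266) (nat_lit 217)))) (XT.nd (nat_lit 78) (nat_lit 608) (nat_lit 0) (XT.lf (nat_lit 0) (nat_lit 3115380448) (nat_lit 380) (nat_lit 558976175) (nat_lit 76) (nat_lit 10471959035) (nat_lit 87) (nat_lit 5) (nat_lit 92) (nat_lit 5) (nat_lit 88) (nat_lit 5) (nat_lit 298) (nat_lit 266) (nat_lit 216)) (XT.nd (nat_lit 78) (nat_lit 304) (nat_lit 0) (XT.lf (nat_lit 0) (nat_lit 7765501837) (nat_lit 380) (nat_lit 3001511390) (nat_lit 76) (nat_lit 3827235487) (nat_lit 83) (nat_lit 5) (nat_lit 88) (nat_lit 5) (nat_lit 84) (nat_lit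 5) (nat_lit 299) (nat_lit 266) (nat_lit 215)) (XT.lf (nat_lit 0) (nat_lit 9360235390) (nat_lit 304) (nat_lit 3360982771) (nat_lit 380) (nat_lit 2341222419) (nat_lit 79) (nat_lit 5) (nat_lit 83) (nat_lit 5) (nat_lit 84) (nat_lit 5) (nat_lit 300) (nat_lit 266) (nat_lit 214))))) (XT.nd (nat_lit 234) (nat_lit 760) (nat_lit 0) (XT.nd (nat_lit 78) (nat_lit 532) (nat_lit 0) (XT.lf (nat_lit 0) (nat_lit 2406772781) (nat_lit 380) (nat_lit 8718218259) (nat_lit 76) (nat_lit 4425947384) (nat_lit 74) (nat_lit 5) (nat_lit 79) (nat_lit 5) (nat_lit 75) (nat_lit 5) (nat_lit 301) (nat_lit 266) (nat_lit 213)) (XT.nd (nat_lit 78) (nat_lit 304) (nat_lit 0) (XT.lf (nat_lit 0) (nat_lit 3988664676) (nat_lit 228) (nat_lit 3430491117) (nat_lit 304) (nat_lit 8641795987) (nat_lit 71) (nat_lit 5) (nat_lit 74) (nat_lit 5) (nat_lit 75) (nat_lit 5) (nat_lit 302) (nat_lit 266) (nat_lit 212)) (XT.lf (nat_lit 0) (nat_lit 807932816)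 (nat_lit 304) (nat_lit 11962405609) (nat_lit 380) (nat_lit 3823527939) (nat_lit 67) (nat_lit 5) (nat_lit 71) (nat_lit 5) (nat_lit 72) (nat_lit 5) (nat_lit 303) (nat_lit 266) (nat_lit 211)))) (XT.nd (nat_lit 156) (nat_lit 456) (nat_lit 0) (XT.nd (nat_lit 78) (nat_lit 228) (nat_lit 0) (XT.lf (nat_lit 0) (nat_lit 1318047791) (nat_lit 380) (nat_lit 2693325555) (nat_lit 76) (nat_lit 13138544316) (nat_lit 66) (nat_lit 5) (nat_lit 71) (nat_lit 5) (nat_lit 67) (nat_lit 5) (nat_lit 304) (nat_lit 266) (nat_lit 210)) (XT.lf (nat_lit 0) (nat_lit 6737426564) (nat_lit 304) (nat_lit 6617343115) (nat_lit 76) (nat_lit 4374912614) (nat_lit 63) (nat_lit 5) (nat_lit 67) (nat_lit 5) (nat_lit 64) (nat_lit 5) (nat_lit 305) (nat_lit 266) (nat_lit 209))) (XT.nd (nat_lit 78) (nat_lit 228) (nat_lit 0) (XT.lf (nat_lit 0) (nat_lit 7354115625) (nat_lit 228) (nat_lit 5163247155) (nat_lit 304) (nat_lit 5818423278) (nat_lit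 60) (nat_lit 5) (nat_lit 63) (nat_lit 5) (nat_lit 64) (nat_lit 5) (nat_lit 306) (nat_lit 266) (nat_lit 208)) (XT.lf (nat_lit 0) (nat_lit 3145276778) (nat_lit 228) (nat_lit 15524913449) (nat_lit 304) (nat_lit 299524674) (nat_lit 57) (nat_lit 5) (nat_lit 60) (nat_lit 5) (nat_lit 61) (nat_lit 5) (nat_lit 307) (nat_lit 266) (nat_lit 207))))))) (XT.nd (nat_lit 1014) (nat_lit 1064) (nat_lit 0) (XT.nd (nat_lit 468) (nat_lit 988) (nat_lit 0) (XT.nd (nat_lit 234) (nat_lit 456) (nat_lit 0) (XT.nd (nat_lit 78) (nat_lit 380) (nat_lit 0) (XT.lf (nat_lit 0) (nat_lit 5507286117) (nat_lit 304) (nat_lit 1603437880) (nat_lit 76) (nat_lit 12519489392) (nat_lit 56) (nat_lit 5) (nat_lit 60) (nat_lit 5) (nat_lit 57) (nat_lit 5) (nat_lit 308) (nat_lit 266) (nat_lit 206)) (XT.nd (nat_lit 78) (nat_lit 152) (nat_lit 0) (XT.lf (nat_lit 0) (nat_lit 11701068768) (nat_lit 304) (nat_lit 6819360002) (nat_lit 76) (nat_lit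 1800166625) (nat_lit 53) (nat_lit 5) (nat_lit 57) (nat_lit 5) (nat_lit 54) (nat_lit 5) (nat_lit 309) (nat_lit 266) (nat_lit 205)) (XT.lf (nat_lit 0) (nat_lit 8372005792) (nat_lit 152) (nat_lit 9957858959) (nat_lit 228) (nat_lit 2711902822) (nat_lit 51) (nat_lit 5) (nat_lit 53) (nat_lit 5) (nat_lit 54) (nat_lit 5) (nat_lit 310) (nat_lit 266) (nat_lit 204)))) (XT.nd (nat_lit 78) (nat_lit 152) (nat_lit 0) (XT.lf (nat_lit 0) (nat_lit 2617400278) (nat_lit 228) (nat_lit 859024652) (nat_lit 304) (nat_lit 18319991748) (nat_lit 47) (nat_lit 5) (nat_lit 50) (nat_lit 5) (nat_lit 51) (nat_lit 5) (nat_lit 311) (nat_lit 266) (nat_lit 203)) (XT.nd (nat_lit 78) (nat_lit 152) (nat_lit 0) (XT.lf (nat_lit 0) (nat_lit 10092446857) (nat_lit 304) (nat_lit 3830496434) (nat_lit 76) (nat_lit 8659845629) (nat_lit 47) (nat_lit 5) (nat_lit 51) (nat_lit 5) (nat_lit 48) (nat_lit 5) (nat_lit 312) (nat_lit 266) (nat_lit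 202)) (XT.lf (nat_lit 0) (nat_lit 12455983499) (nat_lit 152) (nat_lit 4672213270) (nat_lit 228) (nat_lit 6277641029) (nat_lit 45) (nat_lit 5) (nat_lit 47) (nat_lit 5) (nat_lit 48) (nat_lit 5) (nat_lit 313) (nat_lit 266) (nat_lit 201))))) (XT.nd (nat_lit 234) (nat_lit 532) (nat_lit 0) (XT.nd (nat_lit 78) (nat_lit 152) (nat_lit 0) (XT.lf (nat_lit 0) (nat_lit 343267644) (nat_lit 304) (nat_lit 18909617973) (nat_lit 76) (nat_lit 5014035525) (nat_lit 41) (nat_lit 5) (nat_lit 45) (nat_lit 5) (nat_lit 42) (nat_lit 5) (nat_lit 314) (nat_lit 266) (nat_lit 200)) (XT.nd (nat_lit 78) (nat_lit 152) (nat_lit 0) (XT.lf (nat_lit 0) (nat_lit 7290017533) (nat_lit 304) (nat_lit 2632607631) (nat_lit 76) (nat_lit 15242852777) (nat_lit 41) (nat_lit 5) (nat_lit 45) (nat_lit 5) (nat_lit 42) (nat_lit 5) (nat_lit 315) (nat_lit 266) (nat_lit 199)) (XT.lf (nat_lit 0) (nat_lit 14685842870) (nat_lit 152) (nat_lit 3647769)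 (nat_lit 228) (nat_lit 11416332032) (nat_lit 39) (nat_lit 5) (nat_lit 41) (nat_lit 5) (nat_lit 42) (nat_lit 5) (nat_lit 316) (nat_lit 266) (nat_lit 198)))) (XT.nd (nat_lit 156) (nat_lit 304) (nat_lit 0) (XT.nd (nat_lit 78) (nat_lit 76) (nat_lit 0) (XT.lf (nat_lit 0) (nat_lit 5787306344) (nat_lit 152) (nat_lit 16819862268) (nat_lit 228) (nat_lit 4481589723) (nat_lit 37) (nat_lit 5) (nat_lit 39) (nat_lit 5) (nat_lit 40) (nat_lit 5) (nat_lit 317) (nat_lit 266) (nat_lit 197)) (XT.lf (nat_lit 0) (nat_lit 2829928344) (nat_lit 228) (nat_lit 4108994229) (nat_lit 76) (nat_lit 21178589620) (nat_lit 36) (nat_lit 5) (nat_lit 39) (nat_lit 5) (nat_lit 37) (nat_lit 5) (nat_lit 318) (nat_lit 266) (nat_lit 196))) (XT.nd (nat_lit 78) (nat_lit 152) (nat_lit 0) (XT.lf (nat_lit 0) (nat_lit 10553065601) (nat_lit 228) (nat_lit 15108957181) (nat_lit 76) (nat_lit 3530206083) (nat_lit 34) (nat_lit 5) (nat_lit 37)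 (nat_lit 5) (nat_lit 35) (nat_lit 5) (nat_lit 319) (nat_lit 266) (nat_lit 195)) (XT.lf (nat_lit 0) (nat_lit 2883785466) (nat_lit 152) (nat_lit 15887417914) (nat_lit 228) (nat_lit 11546229983) (nat_lit 32) (nat_lit 5) (nat_lit 34) (nat_lit 5) (nat_lit 35) (nat_lit 5) (nat_lit 320) (nat_lit 266) (nat_lit 194)))))) (XT.nd (nat_lit 546) (nat_lit 380) (nat_lit 0) (XT.nd (nat_lit 234) (nat_lit 456) (nat_lit 0) (XT.nd (nat_lit 78) (nat_lit 228) (nat_lit 0) (XT.lf (nat_lit 0) (nat_lit 22039798581) (nat_lit 152) (nat_lit 5485357710) (nat_lit 228) (nat_lit 3970011025) (nat_lit 32) (nat_lit 5) (nat_lit 34) (nat_lit 5) (nat_lit 35) (nat_lit 5) (nat_lit 321) (nat_lit 266) (nat_lit 193)) (XT.nd (nat_lit 78) (nat_lit 0) (nat_lit 0) (XT.lf (nat_lit 0) (nat_lit 4022636444) (nat_lit 228) (nat_lit 23263092147) (nat_lit 76) (nat_lit 5441464032) (nat_lit 29) (nat_lit 5) (nat_lit 32) (nat_lit 5) (nat_lit 30) (nat_lit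 5) (nat_lit 322) (nat_lit 266) (nat_lit 192)) (XT.lf (nat_lit 0) (nat_lit 12458505948) (nat_lit 228) (nat_lit 4636622372) (nat_lit 76) (nat_lit 16920755310) (nat_lit 29) (nat_lit 5) (nat_lit 32) (nat_lit 5) (nat_lit 30) (nat_lit 5) (nat_lit 323) (nat_lit 266) (nat_lit 191)))) (XT.nd (nat_lit 156) (nat_lit 304) (nat_lit 0) (XT.nd (nat_lit 78) (nat_lit 0) (nat_lit 0) (XT.lf (nat_lit 0) (nat_lit 15170092390) (nat_lit 152) (nat_lit 6264537795) (nat_lit 228) (nat_lit 13930838985) (nat_lit 27) (nat_lit 5) (nat_lit 29) (nat_lit 5) (nat_lit 30) (nat_lit 5) (nat_lit 324) (nat_lit 266) (nat_lit 190)) (XT.lf (nat_lit 0) (nat_lit 30930175545) (nat_lit 228) (nat_lit 813011786) (nat_lit 76) (nat_lit 5037241370) (nat_lit 27) (nat_lit 5) (nat_lit 30) (nat_lit 5) (nat_lit 28) (nat_lit 4) (nat_lit 325) (nat_lit 266) (nat_lit 189))) (XT.nd (nat_lit 78) (nat_lit 152) (nat_lit 0) (XT.lf (nat_lit 0) (nat_lit 2813520478)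 (nat_lit 152) (nat_lit 18469090598) (nat_lit 76) (nat_lit 16975860680) (nat_lit 25) (nat_lit 5) (nat_lit 27) (nat_lit 5) (nat_lit 26) (nat_lit 5) (nat_lit 326) (nat_lit 266) (nat_lit 188)) (XT.lf (nat_lit 0) (nat_lit 1556553665) (nat_lit 152) (nat_lit 10232604574) (nat_lit 228) (nat_lit 28019542586) (nat_lit 23) (nat_lit 5) (nat_lit 25) (nat_lit 5) (nat_lit 26) (nat_lit 5) (nat_lit 327) (nat_lit 266) (nat_lit 187))))) (XT.nd (nat_lit 234) (nat_lit 304) (nat_lit 0) (XT.nd (nat_lit 78) (nat_lit 76) (nat_lit 0) (XT.lf (nat_lit 0) (nat_lit 21394485281) (nat_lit 228) (nat_lit 18519081296) (nat_lit 76) (nat_lit 1517458588) (nat_lit 23) (nat_lit 5) (nat_lit 26) (nat_lit 5) (nat_lit 24) (nat_lit 4) (nat_lit 328) (nat_lit 266) (nat_lit 186)) (XT.nd (nat_lit 78) (nat_lit 0) (nat_lit 0) (XT.lf (nat_lit 0) (nat_lit 2097601165) (nat_lit 76) (nat_lit 29482810291) (nat_lit 152) (nat_lit 11551054796) (nat_lit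 22) (nat_lit 5) (nat_lit 23) (nat_lit 5) (nat_lit 24) (nat_lit 4) (nat_lit 329) (nat_lit 266) (nat_lit 185)) (XT.lf (nat_lit 0) (nat_lit 24092590109) (nat_lit 76) (nat_lit 18351291235) (nat_lit 152) (nat_lit 2468010641) (nat_lit 22) (nat_lit 5) (nat_lit 23) (nat_lit 5) (nat_lit 24) (nat_lit 4) (nat_lit 330) (nat_lit 266) (nat_lit 184)))) (XT.nd (nat_lit 156) (nat_lit 76) (nat_lit 0) (XT.nd (nat_lit 78) (nat_lit 0) (nat_lit 0) (XT.lf (nat_lit 0) (nat_lit 305927905) (nat_lit 152) (nat_lit 6606708830) (nat_lit 228) (nat_lit 39867231038) (nat_lit 19) (nat_lit 5) (nat_lit 21) (nat_lit 5) (nat_lit 22) (nat_lit 5) (nat_lit 331) (nat_lit 266) (nat_lit 183)) (XT.lf (nat_lit 0) (nat_lit 16962191224) (nat_lit 228) (nat_lit 25931863539) (nat_lit 76) (nat_lit 5838935824) (nat_lit 19) (nat_lit 5) (nat_lit 22) (nat_lit 5) (nat_lit 20) (nat_lit 4) (nat_lit 332) (nat_lit 266) (nat_lit 182))) (XT.nd (nat_lit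 78) (nat_lit 76) (nat_lit 0) (XT.lf (nat_lit 0) (nat_lit 27560878960) (nat_lit 228) (nat_lit 4465049046) (nat_lit 76) (nat_lit 18756450265) (nat_lit 19) (nat_lit 5) (nat_lit 22) (nat_lit 5) (nat_lit 20) (nat_lit 4) (nat_lit 333) (nat_lit 266) (nat_lit 181)) (XT.lf (nat_lit 0) (nat_lit 18400176516) (nat_lit 76) (nat_lit 20447124426) (nat_lit 152) (nat_lit 14082208401) (nat_lit 18) (nat_lit 5) (nat_lit 19) (nat_lit 5) (nat_lit 20) (nat_lit 4) (nat_lit 334) (nat_lit 266) (nat_lit 180))))))))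
noncomputable def xc62 : XT := (XT.nd (nat_lit 35412) (nat_lit 0) (nat_lit 7676) (XT.nd (nat_lit 1014) (nat_lit 380) (nat_lit 0) (XT.nd (nat_lit 468) (nat_lit 228) (nat_lit 0) (XT.nd (nat_lit 234) (nat_lit 76) (nat_lit 0) (XT.nd (nat_lit 78) (nat_lit 228) (nat_lit 0) (XT.lf (nat_lit 0) (nat_lit 42468960506) (nat_lit 76) (nat_lit 8256564339) (nat_lit 152) (nat_lit 4457655316) (nat_lit 18) (nat_lit 5) (nat_lit 19) (nat_lit 5) (nat_lit 20) (nat_lit 4) (nat_lit 335) (nat_lit 266) (nat_lit 179)) (XT.nd (nat_lit 78) (nat_lit 0) (nat_lit 0) (XT.lf (nat_lit 0) (nat_lit 5664258974) (nat_lit 228) (nat_lit 47283854986) (nat_lit 76) (nat_lit 4596008341) (nat_lit 15) (nat_lit 5) (nat_lit 18) (nat_lit 5) (nat_lit 16) (nat_lit 4) (nat_lit 336) (nat_lit 266) (nat_lit 178)) (XT.lf (nat_lit 0) (nat_lit 16399082405) (nat_lit 228) (nat_lit 25530919586) (nat_lit 76) (nat_lit 18085822070) (nat_lit 15) (nat_lit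 5) (nat_lit 18) (nat_lit 5) (nat_lit 16) (nat_lit 4) (nat_lit 337) (nat_lit 266) (nat_lit 177)))) (XT.nd (nat_lit 78) (nat_lit 76) (nat_lit 0) (XT.lf (nat_lit 0) (nat_lit 27654108482) (nat_lit 228) (nat_lit 2720127285) (nat_lit 76) (nat_lit 32237377688) (nat_lit 15) (nat_lit 5) (nat_lit 18) (nat_lit 5) (nat_lit 16) (nat_lit 4) (nat_lit 338) (nat_lit 266) (nat_lit 176)) (XT.nd (nat_lit 78) (nat_lit 0) (nat_lit 0) (XT.lf (nat_lit 0) (nat_lit 21624811285) (nat_lit 76) (nat_lit 18039194515) (nat_lit 152) (nat_lit 25667429003) (nat_lit 14) (nat_lit 5) (nat_lit 15) (nat_lit 5) (nat_lit 16) (nat_lit 4) (nat_lit 339) (nat_lit 266) (nat_lit 175)) (XT.lf (nat_lit 0) (nat_lit 47216281399) (nat_lit 76) (nat_lit 5070852060) (nat_lit 152) (nat_lit 15899737489) (nat_lit 14) (nat_lit 5) (nat_lit 15) (nat_lit 5) (nat_lit 16) (nat_lit 4) (nat_lit 340) (nat_lit 266) (nat_lit 174))))) (XT.nd (nat_lit 234) (nat_lit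 76) (nat_lit 0) (XT.nd (nat_lit 78) (nat_lit 76) (nat_lit 0) (XT.lf (nat_lit 0) (nat_lit 2849119295) (nat_lit 76) (nat_lit 62787182749) (nat_lit 76) (nat_lit 5545935838) (nat_lit 13) (nat_lit 4) (nat_lit 14) (nat_lit 5) (nat_lit 14) (nat_lit 4) (nat_lit 341) (nat_lit 266) (nat_lit 173)) (XT.nd (nat_lit 78) (nat_lit 0) (nat_lit 0) (XT.lf (nat_lit 0) (nat_lit 5476479900) (nat_lit 152) (nat_lit 46153474723) (nat_lit 76) (nat_lit 22688242525) (nat_lit 12) (nat_lit 5) (nat_lit 14) (nat_lit 5) (nat_lit 13) (nat_lit 4) (nat_lit 342) (nat_lit 266) (nat_lit 172)) (XT.lf (nat_lit 0) (nat_lit 16922719769) (nat_lit 152) (nat_lit 22945685894) (nat_lit 76) (nat_lit 37741284212) (nat_lit 12) (nat_lit 5) (nat_lit 14) (nat_lit 5) (nat_lit 13) (nat_lit 4) (nat_lit 343) (nat_lit 266) (nat_lit 171)))) (XT.nd (nat_lit 156) (nat_lit 0) (nat_lit 0) (XT.nd (nat_lit 78) (nat_lit 0) (nat_lit 0) (XT.lf (nat_lit 0)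 (nat_lit 1426654635) (nat_lit 76) (nat_lit 27515317144) (nat_lit 152) (nat_lit 52123769081) (nat_lit 11) (nat_lit 5) (nat_lit 12) (nat_lit 5) (nat_lit 13) (nat_lit 4) (nat_lit 344) (nat_lit 266) (nat_lit 170)) (XT.lf (nat_lit 0) (nat_lit 27474111324) (nat_lit 76) (nat_lit 14311665558) (nat_lit 152) (nat_lit 42902114207) (nat_lit 11) (nat_lit 5) (nat_lit 12) (nat_lit 5) (nat_lit 13) (nat_lit 4) (nat_lit 345) (nat_lit 266) (nat_lit 169))) (XT.nd (nat_lit 78) (nat_lit 0) (nat_lit 0) (XT.lf (nat_lit 0) (nat_lit 54802037784) (nat_lit 76) (nat_lit 457720074) (nat_lit 152) (nat_lit 33231755599) (nat_lit 11) (nat_lit 5) (nat_lit 12) (nat_lit 5) (nat_lit 13) (nat_lit 4) (nat_lit 346) (nat_lit 266) (nat_lit 168)) (XT.lf (nat_lit 0) (nat_lit 69531336432) (nat_lit 152) (nat_lit 9145504518) (nat_lit 0) (nat_lit 13804763037) (nat_lit 11) (nat_lit 5) (nat_lit 13) (nat_lit 4) (nat_lit 11) (nat_lit 4) (nat_lit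 347) (nat_lit 266) (nat_lit 167)))))) (XT.nd (nat_lit 468) (nat_lit 152) (nat_lit 0) (XT.nd (nat_lit 234) (nat_lit 76) (nat_lit 0) (XT.nd (nat_lit 78) (nat_lit 76) (nat_lit 0) (XT.lf (nat_lit 0) (nat_lit 16931325220) (nat_lit 76) (nat_lit 67741559232) (nat_lit 76) (nat_lit 11993626682) (nat_lit 10) (nat_lit 4) (nat_lit 11) (nat_lit 5) (nat_lit 11) (nat_lit 4) (nat_lit 348) (nat_lit 266) (nat_lit 166)) (XT.nd (nat_lit 78) (nat_lit 76) (nat_lit 0) (XT.lf (nat_lit 0) (nat_lit 44483575841) (nat_lit 76) (nat_lit 56171430565) (nat_lit 76) (nat_lit 403155963) (nat_lit 10) (nat_lit 4) (nat_lit 11) (nat_lit 5) (nat_lit 11) (nat_lit 4) (nat_lit 349) (nat_lit 266) (nat_lit 165)) (XT.lf (nat_lit 0) (nat_lit 11526979798) (nat_lit 152) (nat_lit 32387878994) (nat_lit 76) (nat_lit 61751454778) (nat_lit 9) (nat_lit 5) (nat_lit 11) (nat_lit 5) (nat_lit 10) (nat_lit 4) (nat_lit 350) (nat_lit 266) (nat_lit 164))))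 (XT.nd (nat_lit 78) (nat_lit 76) (nat_lit 0) (XT.lf (nat_lit 0) (nat_lit 24035604737) (nat_lit 152) (nat_lit 7013821210) (nat_lit 76) (nat_lit 79455620220) (nat_lit 9) (nat_lit 5) (nat_lit 11) (nat_lit 5) (nat_lit 10) (nat_lit 4) (nat_lit 351) (nat_lit 266) (nat_lit 163)) (XT.nd (nat_lit 78) (nat_lit 0) (nat_lit 0) (XT.lf (nat_lit 0) (nat_lit 20002191428) (nat_lit 76) (nat_lit 17350450190) (nat_lit 152) (nat_lit 78227587396) (nat_lit 8) (nat_lit 5) (nat_lit 9) (nat_lit 5) (nat_lit 10) (nat_lit 4) (nat_lit 352) (nat_lit 266) (nat_lit 162)) (XT.lf (nat_lit 0) (nat_lit 48498999202) (nat_lit 76) (nat_lit 2899722825) (nat_lit 152) (nat_lit 69508556122) (nat_lit 8) (nat_lit 5) (nat_lit 9) (nat_lit 5) (nat_lit 10) (nat_lit 4) (nat_lit 353) (nat_lit 266) (nat_lit 161))))) (XT.nd (nat_lit 234) (nat_lit 76) (nat_lit 0) (XT.nd (nat_lit 78) (nat_lit 76) (nat_lit 0) (XT.lf (nat_lit 0) (nat_lit 66256437594)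 (nat_lit 152) (nat_lit 48213988585) (nat_lit 0) (nat_lit 12026976386) (nat_lit 8) (nat_lit 5) (nat_lit 10) (nat_lit 4) (nat_lit 8) (nat_lit 4) (nat_lit 354) (nat_lit 266) (nat_lit 160)) (XT.nd (nat_lit 78) (nat_lit 76) (nat_lit 0) (XT.lf (nat_lit 0) (nat_lit 81878068785) (nat_lit 152) (nat_lit 22854466002) (nat_lit 0) (nat_lit 27633870147) (nat_lit 8) (nat_lit 5) (nat_lit 10) (nat_lit 4) (nat_lit 8) (nat_lit 4) (nat_lit 355) (nat_lit 266) (nat_lit 159)) (XT.lf (nat_lit 0) (nat_lit 3833344894) (nat_lit 76) (nat_lit 94476439613) (nat_lit 76) (nat_lit 40218205327) (nat_lit 7) (nat_lit 4) (nat_lit 8) (nat_lit 5) (nat_lit 8) (nat_lit 4) (nat_lit 356) (nat_lit 266) (nat_lit 158)))) (XT.nd (nat_lit 234) (nat_lit 76) (nat_lit 0) (XT.nd (nat_lit 78) (nat_lit 0) (nat_lit 0) (XT.lf (nat_lit 0) (nat_lit 32319062632) (nat_lit 76) (nat_lit 83471682759) (nat_lit 76) (nat_lit 29200081190) (nat_lit 7) (nat_lit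 4) (nat_lit 8) (nat_lit 5) (nat_lit 8) (nat_lit 4) (nat_lit 357) (nat_lit 266) (nat_lit 157)) (XT.lf (nat_lit 0) (nat_lit 62215661662) (nat_lit 76) (nat_lit 71922847718) (nat_lit 76) (nat_lit 17638515403) (nat_lit 7) (nat_lit 4) (nat_lit 8) (nat_lit 5) (nat_lit 8) (nat_lit 4) (nat_lit 358) (nat_lit 266) (nat_lit 156))) (XT.nd (nat_lit 33384) (nat_lit 0) (nat_lit 19684) (XT.lf (nat_lit 0) (nat_lit 7085397421) (nat_lit 152) (nat_lit 39924647232) (nat_lit 76) (nat_lit 119372815795) (nat_lit 6) (nat_lit 5) (nat_lit 8) (nat_lit 5) (nat_lit 7) (nat_lit 4) (nat_lit 360) (nat_lit 266) (nat_lit 154)) (XT.lf (nat_lit 0) (nat_lit 78489388) (nat_lit 0) (nat_lit 78489388) (nat_lit 684) (nat_lit 3355211878) (nat_lit 265) (nat_lit 5) (nat_lit 265) (nat_lit 3) (nat_lit 274) (nat_lit 3) (nat_lit 267) (nat_lit 267) (nat_lit 246))))))) (XT.nd (nat_lit 1014) (nat_lit 6764) (nat_lit 0) (XT.nd (nat_lit 468) (nat_lit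 3800) (nat_lit 0) (XT.nd (nat_lit 234) (nat_lit 760) (nat_lit 0) (XT.nd (nat_lit 78) (nat_lit 684) (nat_lit 0) (XT.lf (nat_lit 0) (nat_lit 3138340205) (nat_lit 684) (nat_lit 1549235939) (nat_lit 760) (nat_lit 2422944497) (nat_lit 265) (nat_lit 5) (nat_lit 274) (nat_lit 3) (nat_lit 275) (nat_lit 5) (nat_lit 268) (nat_lit 267) (nat_lit 245)) (XT.nd (nat_lit 78) (nat_lit 684) (nat_lit 0) (XT.lf (nat_lit 76) (nat_lit 4015687885) (nat_lit 0) (nat_lit 1950526253) (nat_lit 760) (nat_lit 1239203048) (nat_lit 266) (nat_lit 5) (nat_lit 265) (nat_lit 5) (nat_lit 275) (nat_lit 5) (nat_lit 269) (nat_lit 267) (nat_lit 244)) (XT.lf (nat_lit 0) (nat_lit 1476802666) (nat_lit 760) (nat_lit 4795841254) (nat_lit 836) (nat_lit 1035893026) (nat_lit 256) (nat_lit 5) (nat_lit 266) (nat_lit 5) (nat_lit 267) (nat_lit 5) (nat_lit 270) (nat_lit 267) (nat_lit 243)))) (XT.nd (nat_lit 78) (nat_lit 760) (nat_lit 0) (XT.lf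 (nat_lit 76) (nat_lit 1038784629) (nat_lit 0) (nat_lit 3162928291) (nat_lit 836) (nat_lit 3218050104) (nat_lit 257) (nat_lit 5) (nat_lit 256) (nat_lit 5) (nat_lit 267) (nat_lit 5) (nat_lit 271) (nat_lit 267) (nat_lit 242)) (XT.nd (nat_lit 78) (nat_lit 836) (nat_lit 0) (XT.lf (nat_lit 0) (nat_lit 6956842098) (nat_lit 760) (nat_lit 373919077) (nat_lit 836) (nat_lit 209237071) (nat_lit 257) (nat_lit 5) (nat_lit 267) (nat_lit 5) (nat_lit 268) (nat_lit 5) (nat_lit 272) (nat_lit 267) (nat_lit 241)) (XT.lf (nat_lit 0) (nat_lit 2079451652) (nat_lit 836) (nat_lit 1769475396) (nat_lit 912) (nat_lit 3818778131) (nat_lit 246) (nat_lit 5) (nat_lit 257) (nat_lit 5) (nat_lit 258) (nat_lit 5) (nat_lit 273) (nat_lit 267) (nat_lit 240))))) (XT.nd (nat_lit 234) (nat_lit 3040) (nat_lit 0) (XT.nd (nat_lit 78) (nat_lit 760) (nat_lit 0) (XT.lf (nat_lit 76) (nat_lit 4677305384) (nat_lit 0) (nat_lit 89932120) (nat_lit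 912) (nat_lit 3037498654) (nat_lit 247) (nat_lit 5) (nat_lit 246) (nat_lit 5) (nat_lit 258) (nat_lit 5) (nat_lit 274) (nat_lit 267) (nat_lit 239)) (XT.nd (nat_lit 78) (nat_lit 836) (nat_lit 0) (XT.lf (nat_lit 76) (nat_lit 3465544423) (nat_lit 0) (nat_lit 4074199967) (nat_lit 912) (nat_lit 410588305) (nat_lit 248) (nat_lit 5) (nat_lit 247) (nat_lit 5) (nat_lit 259) (nat_lit 5) (nat_lit 275) (nat_lit 267) (nat_lit 238)) (XT.lf (nat_lit 0) (nat_lit 2223264039) (nat_lit 912) (nat_lit 5833930679) (nat_lit 76) (nat_lit 47902175) (nat_lit 236) (nat_lit 5) (nat_lit 248) (nat_lit 5) (nat_lit 237) (nat_lit 5) (nat_lit 276) (nat_lit 267) (nat_lit 237)))) (XT.nd (nat_lit 156) (nat_lit 2128) (nat_lit 0) (XT.nd (nat_lit 78) (nat_lit 0) (nat_lit 0) (XT.lf (nat_lit 0) (nat_lit 1065839303) (nat_lit 912) (nat_lit 3883993995) (nat_lit 988) (nat_lit 3318755792) (nat_lit 224) (nat_lit 5) (nat_lit 236) (nat_lit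 5) (nat_lit 237) (nat_lit 5) (nat_lit 277) (nat_lit 267) (nat_lit 236)) (XT.lf (nat_lit 0) (nat_lit 7755021401) (nat_lit 988) (nat_lit 114195884) (nat_lit 76) (nat_lit 572957734) (nat_lit 224) (nat_lit 5) (nat_lit 237) (nat_lit 5) (nat_lit 225) (nat_lit 5) (nat_lit 278) (nat_lit 267) (nat_lit 235))) (XT.nd (nat_lit 78) (nat_lit 1064) (nat_lit 0) (XT.lf (nat_lit 0) (nat_lit 2027694434) (nat_lit 1064) (nat_lit 1309987291) (nat_lit 76) (nat_lit 5286568220) (nat_lit 210) (nat_lit 5) (nat_lit 224) (nat_lit 5) (nat_lit 211) (nat_lit 5) (nat_lit 279) (nat_lit 267) (nat_lit 234)) (XT.lf (nat_lit 0) (nat_lit 4826743230) (nat_lit 1140) (nat_lit 2511519120) (nat_lit 76) (nat_lit 1478247477) (nat_lit 196) (nat_lit 5) (nat_lit 211) (nat_lit 5) (nat_lit 197) (nat_lit 5) (nat_lit 280) (nat_lit 267) (nat_lit 233)))))) (XT.nd (nat_lit 546) (nat_lit 2736) (nat_lit 0) (XT.nd (nat_lit 234) (nat_lit 1596) (nat_lit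 0) (XT.nd (nat_lit 78) (nat_lit 1292) (nat_lit 0) (XT.lf (nat_lit 0) (nat_lit 5280965757) (nat_lit 1140) (nat_lit 2473608581) (nat_lit 1216) (nat_lit 1264301000) (nat_lit 181) (nat_lit 5) (nat_lit 196) (nat_lit 5) (nat_lit 197) (nat_lit 5) (nat_lit 281) (nat_lit 267) (nat_lit 232)) (XT.nd (nat_lit 78) (nat_lit 608) (nat_lit 0) (XT.lf (nat_lit 0) (nat_lit 1553347688) (nat_lit 684) (nat_lit 5003866693) (nat_lit 76) (nat_lit 2674217290) (nat_lit 172) (nat_lit 5) (nat_lit 181) (nat_lit 5) (nat_lit 173) (nat_lit 5) (nat_lit 282) (nat_lit 267) (nat_lit 231)) (XT.lf (nat_lit 0) (nat_lit 3140866156) (nat_lit 608) (nat_lit 1337190876) (nat_lit 684) (nat_lit 4976552201) (nat_lit 164) (nat_lit 5) (nat_lit 172) (nat_lit 5) (nat_lit 173) (nat_lit 5) (nat_lit 283) (nat_lit 267) (nat_lit 230)))) (XT.nd (nat_lit 156) (nat_lit 456) (nat_lit 0) (XT.nd (nat_lit 78) (nat_lit 608) (nat_lit 0) (XT.lf (nat_lit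 0) (nat_lit 2010329759) (nat_lit 532) (nat_lit 5551875622) (nat_lit 608) (nat_lit 2126476302) (nat_lit 157) (nat_lit 5) (nat_lit 164) (nat_lit 5) (nat_lit 165) (nat_lit 5) (nat_lit 284) (nat_lit 267) (nat_lit 229)) (XT.lf (nat_lit 0) (nat_lit 841236532) (nat_lit 608) (nat_lit 9088284434) (nat_lit 76) (nat_lit 5048168) (nat_lit 149) (nat_lit 5) (nat_lit 157) (nat_lit 5) (nat_lit 150) (nat_lit 5) (nat_lit 285) (nat_lit 267) (nat_lit 228))) (XT.nd (nat_lit 78) (nat_lit 456) (nat_lit 0) (XT.lf (nat_lit 0) (nat_lit 3957933447) (nat_lit 608) (nat_lit 408836927) (nat_lit 76) (nat_lit 5824127986) (nat_lit 149) (nat_lit 5) (nat_lit 157) (nat_lit 5) (nat_lit 150) (nat_lit 5) (nat_lit 286) (nat_lit 267) (nat_lit 227)) (XT.lf (nat_lit 0) (nat_lit 7242515350) (nat_lit 532) (nat_lit 1692351251) (nat_lit 76) (nat_lit 1524926745) (nat_lit 143) (nat_lit 5) (nat_lit 150) (nat_lit 5) (nat_lit 144) (nat_lit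 5) (nat_lit 287) (nat_lit 267) (nat_lit 226))))) (XT.nd (nat_lit 234) (nat_lit 1216) (nat_lit 0) (XT.nd (nat_lit 78) (nat_lit 988) (nat_lit 0) (XT.lf (nat_lit 0) (nat_lit 7681833009) (nat_lit 532) (nat_lit 3047561956) (nat_lit 608) (nat_lit 11701586) (nat_lit 136) (nat_lit 5) (nat_lit 143) (nat_lit 5) (nat_lit 144) (nat_lit 5) (nat_lit 288) (nat_lit 267) (nat_lit 225)) (XT.nd (nat_lit 78) (nat_lit 456) (nat_lit 0) (XT.lf (nat_lit 0) (nat_lit 3318317803) (nat_lit 532) (nat_lit 4539766840) (nat_lit 76) (nat_lit 3176622110) (nat_lit 129) (nat_lit 5) (nat_lit 136) (nat_lit 5) (nat_lit 130) (nat_lit 5) (nat_lit 289) (nat_lit 267) (nat_lit 224)) (XT.lf (nat_lit 0) (nat_lit 5227754265) (nat_lit 456) (nat_lit 1620733887) (nat_lit 532) (nat_lit 4493582006) (nat_lit 123) (nat_lit 5) (nat_lit 129) (nat_lit 5) (nat_lit 130) (nat_lit 5) (nat_lit 290) (nat_lit 267) (nat_lit 223)))) (XT.nd (nat_lit 156)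 (nat_lit 380) (nat_lit 0) (XT.nd (nat_lit 78) (nat_lit 456) (nat_lit 0) (XT.lf (nat_lit 0) (nat_lit 3851018021) (nat_lit 380) (nat_lit 6759586862) (nat_lit 456) (nat_lit 1052622220) (nat_lit 118) (nat_lit 5) (nat_lit 123) (nat_lit 5) (nat_lit 124) (nat_lit 5) (nat_lit 291) (nat_lit 267) (nat_lit 222)) (XT.lf (nat_lit 0) (nat_lit 2357905374) (nat_lit 380) (nat_lit 180918512) (nat_lit 456) (nat_lit 9460109461) (nat_lit 112) (nat_lit 5) (nat_lit 117) (nat_lit 5) (nat_lit 118) (nat_lit 5) (nat_lit 292) (nat_lit 267) (nat_lit 221))) (XT.nd (nat_lit 78) (nat_lit 0) (nat_lit 0) (XT.lf (nat_lit 0) (nat_lit 698488657) (nat_lit 380) (nat_lit 5670722293) (nat_lit 456) (nat_lit 5979545077) (nat_lit 107) (nat_lit 5) (nat_lit 112) (nat_lit 5) (nat_lit 113) (nat_lit 5) (nat_lit 293) (nat_lit 267) (nat_lit 220)) (XT.lf (nat_lit 0) (nat_lit 10435050110) (nat_lit 456) (nat_lit 1059807903) (nat_lit 76) (nat_lit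 1219968072) (nat_lit 107) (nat_lit 5) (nat_lit 113) (nat_lit 5) (nat_lit 108) (nat_lit 5) (nat_lit 294) (nat_lit 267) (nat_lit 219))))))))
noncomputable def xc63 : XT := (XT.nd (nat_lit 2028) (nat_lit 1748) (nat_lit 0) (XT.nd (nat_lit 1014) (nat_lit 1976) (nat_lit 0) (XT.nd (nat_lit 468) (nat_lit 1748) (nat_lit 0) (XT.nd (nat_lit 234) (nat_lit 684) (nat_lit 0) (XT.nd (nat_lit 78) (nat_lit 684) (nat_lit 0) (XT.lf (nat_lit 0) (nat_lit 1662982101) (nat_lit 456) (nat_lit 2997566930) (nat_lit 76) (nat_lit 8435576821) (nat_lit 101) (nat_lit 5) (nat_lit 107) (nat_lit 5) (nat_lit 102) (nat_lit 5) (nat_lit 295) (nat_lit 267) (nat_lit 218)) (XT.nd (nat_lit 78) (nat_lit 380) (nat_lit 0) (XT.lf (nat_lit 0) (nat_lit 5808730137) (nat_lit 380) (nat_lit 5122475476) (nat_lit 76) (nat_lit 2563083158) (nat_lit 97) (nat_lit 5) (nat_lit 102) (nat_lit 5) (nat_lit 98) (nat_lit 5) (nat_lit 296) (nat_lit 267) (nat_lit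 217)) (XT.lf (nat_lit 0) (nat_lit 6456293940) (nat_lit 380) (nat_lit 3783521560) (nat_lit 456) (nat_lit 3670265089) (nat_lit 92) (nat_lit 5) (nat_lit 97) (nat_lit 5) (nat_lit 98) (nat_lit 5) (nat_lit 297) (nat_lit 267) (nat_lit 216)))) (XT.nd (nat_lit 78) (nat_lit 304) (nat_lit 0) (XT.lf (nat_lit 0) (nat_lit 606318176) (nat_lit 380) (nat_lit 10008642387) (nat_lit 76) (nat_lit 3729466338) (nat_lit 87) (nat_lit 5) (nat_lit 92) (nat_lit 5) (nat_lit 88) (nat_lit 5) (nat_lit 298) (nat_lit 267) (nat_lit 215)) (XT.nd (nat_lit 78) (nat_lit 0) (nat_lit 0) (XT.lf (nat_lit 0) (nat_lit 1953179392) (nat_lit 304) (nat_lit 3144040940) (nat_lit 380) (nat_lit 9699942944) (nat_lit 83) (nat_lit 5) (nat_lit 87) (nat_lit 5) (nat_lit 88) (nat_lit 5) (nat_lit 299) (nat_lit 267) (nat_lit 214)) (XT.lf (nat_lit 0) (nat_lit 9904963338) (nat_lit 380) (nat_lit 673962747) (nat_lit 76) (nat_lit 4690893725) (nat_lit 83)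 (nat_lit 5) (nat_lit 88) (nat_lit 5) (nat_lit 84) (nat_lit 5) (nat_lit 300) (nat_lit 267) (nat_lit 213))))) (XT.nd (nat_lit 234) (nat_lit 836) (nat_lit 0) (XT.nd (nat_lit 78) (nat_lit 608) (nat_lit 0) (XT.lf (nat_lit 0) (nat_lit 12234850772) (nat_lit 304) (nat_lit 2813358623) (nat_lit 380) (nat_lit 715096019) (nat_lit 79) (nat_lit 5) (nat_lit 83) (nat_lit 5) (nat_lit 84) (nat_lit 5) (nat_lit 301) (nat_lit 267) (nat_lit 212)) (XT.nd (nat_lit 78) (nat_lit 228) (nat_lit 0) (XT.lf (nat_lit 0) (nat_lit 4184631705) (nat_lit 380) (nat_lit 6738031461) (nat_lit 76) (nat_lit 5354682529) (nat_lit 74) (nat_lit 5) (nat_lit 79) (nat_lit 5) (nat_lit 75) (nat_lit 5) (nat_lit 302) (nat_lit 267) (nat_lit 211)) (XT.lf (nat_lit 0) (nat_lit 6534938665) (nat_lit 228) (nat_lit 2856324934) (nat_lit 304) (nat_lit 7423354563) (nat_lit 71) (nat_lit 5) (nat_lit 74) (nat_lit 5) (nat_lit 75) (nat_lit 5) (nat_lit 303)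 (nat_lit 267) (nat_lit 210)))) (XT.nd (nat_lit 156) (nat_lit 456) (nat_lit 0) (XT.nd (nat_lit 78) (nat_lit 76) (nat_lit 0) (XT.lf (nat_lit 0) (nat_lit 3168901631) (nat_lit 304) (nat_lit 11793991953) (nat_lit 380) (nat_lit 2412762374) (nat_lit 67) (nat_lit 5) (nat_lit 71) (nat_lit 5) (nat_lit 72) (nat_lit 5) (nat_lit 304) (nat_lit 267) (nat_lit 209)) (XT.lf (nat_lit 0) (nat_lit 2879838090) (nat_lit 380) (nat_lit 586966069) (nat_lit 76) (nat_lit 14494546826) (nat_lit 66) (nat_lit 5) (nat_lit 71) (nat_lit 5) (nat_lit 67) (nat_lit 5) (nat_lit 305) (nat_lit 267) (nat_lit 208))) (XT.nd (nat_lit 78) (nat_lit 228) (nat_lit 0) (XT.lf (nat_lit 0) (nat_lit 8526906467) (nat_lit 304) (nat_lit 4733955029) (nat_lit 76) (nat_lit 5310597203) (nat_lit 63) (nat_lit 5) (nat_lit 67) (nat_lit 5) (nat_lit 64) (nat_lit 5) (nat_lit 306) (nat_lit 267) (nat_lit 207)) (XT.lf (nat_lit 0) (nat_lit 9872605466) (nat_lit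 228) (nat_lit 4674736843) (nat_lit 304) (nat_lit 4662034042) (nat_lit 60) (nat_lit 5) (nat_lit 63) (nat_lit 5) (nat_lit 64) (nat_lit 5) (nat_lit 307) (nat_lit 267) (nat_lit 206)))))) (XT.nd (nat_lit 468) (nat_lit 988) (nat_lit 0) (XT.nd (nat_lit 234) (nat_lit 456) (nat_lit 0) (XT.nd (nat_lit 78) (nat_lit 228) (nat_lit 0) (XT.lf (nat_lit 0) (nat_lit 1070653508) (nat_lit 304) (nat_lit 14460075845) (nat_lit 76) (nat_lit 4345196860) (nat_lit 56) (nat_lit 5) (nat_lit 60) (nat_lit 5) (nat_lit 57) (nat_lit 5) (nat_lit 308) (nat_lit 267) (nat_lit 205)) (XT.nd (nat_lit 78) (nat_lit 0) (nat_lit 0) (XT.lf (nat_lit 0) (nat_lit 373741369) (nat_lit 228) (nat_lit 6725851562) (nat_lit 304) (nat_lit 13471675607) (nat_lit 53) (nat_lit 5) (nat_lit 56) (nat_lit 5) (nat_lit 57) (nat_lit 5) (nat_lit 309) (nat_lit 267) (nat_lit 204)) (XT.lf (nat_lit 0) (nat_lit 13563007133) (nat_lit 304) (nat_lit 5136967723) (nat_lit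 76) (nat_lit 2597441623) (nat_lit 53) (nat_lit 5) (nat_lit 57) (nat_lit 5) (nat_lit 54) (nat_lit 5) (nat_lit 310) (nat_lit 267) (nat_lit 203)))) (XT.nd (nat_lit 78) (nat_lit 304) (nat_lit 0) (XT.lf (nat_lit 0) (nat_lit 10755967145) (nat_lit 152) (nat_lit 9725363978) (nat_lit 228) (nat_lit 1574616455) (nat_lit 51) (nat_lit 5) (nat_lit 53) (nat_lit 5) (nat_lit 54) (nat_lit 5) (nat_lit 311) (nat_lit 267) (nat_lit 202)) (XT.nd (nat_lit 78) (nat_lit 0) (nat_lit 0) (XT.lf (nat_lit 0) (nat_lit 4682231431) (nat_lit 228) (nat_lit 175217549) (nat_lit 304) (nat_lit 17991778014) (nat_lit 47) (nat_lit 5) (nat_lit 50) (nat_lit 5) (nat_lit 51) (nat_lit 5) (nat_lit 312) (nat_lit 267) (nat_lit 201)) (XT.lf (nat_lit 0) (nat_lit 11753439533) (nat_lit 304) (nat_lit 2151558769) (nat_lit 76) (nat_lit 9771482351) (nat_lit 47) (nat_lit 5) (nat_lit 51) (nat_lit 5) (nat_lit 48) (nat_lit 5) (nat_lit 313) (nat_lit 267)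 (nat_lit 200))))) (XT.nd (nat_lit 234) (nat_lit 532) (nat_lit 0) (XT.nd (nat_lit 78) (nat_lit 304) (nat_lit 0) (XT.lf (nat_lit 0) (nat_lit 14895628729) (nat_lit 152) (nat_lit 4207747594) (nat_lit 228) (nat_lit 5438469700) (nat_lit 45) (nat_lit 5) (nat_lit 47) (nat_lit 5) (nat_lit 48) (nat_lit 5) (nat_lit 314) (nat_lit 267) (nat_lit 199)) (XT.nd (nat_lit 78) (nat_lit 0) (nat_lit 0) (XT.lf (nat_lit 0) (nat_lit 1460994369) (nat_lit 304) (nat_lit 18040979758) (nat_lit 76) (nat_lit 5944609899) (nat_lit 41) (nat_lit 5) (nat_lit 45) (nat_lit 5) (nat_lit 42) (nat_lit 5) (nat_lit 315) (nat_lit 267) (nat_lit 198)) (XT.lf (nat_lit 0) (nat_lit 8702673974) (nat_lit 304) (nat_lit 1036505523) (nat_lit 76) (nat_lit 16652493128) (nat_lit 41) (nat_lit 5) (nat_lit 45) (nat_lit 5) (nat_lit 42) (nat_lit 5) (nat_lit 316) (nat_lit 267) (nat_lit 197)))) (XT.nd (nat_lit 156) (nat_lit 228) (nat_lit 0) (XT.nd (nat_lit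 78) (nat_lit 152) (nat_lit 0) (XT.lf (nat_lit 0) (nat_lit 16444684865) (nat_lit 228) (nat_lit 10288080160) (nat_lit 76) (nat_lit 647122861) (nat_lit 39) (nat_lit 5) (nat_lit 42) (nat_lit 5) (nat_lit 40) (nat_lit 5) (nat_lit 317) (nat_lit 267) (nat_lit 196)) (XT.lf (nat_lit 0) (nat_lit 7730721284) (nat_lit 152) (nat_lit 16994854553) (nat_lit 228) (nat_lit 3687403399) (nat_lit 37) (nat_lit 5) (nat_lit 39) (nat_lit 5) (nat_lit 40) (nat_lit 5) (nat_lit 318) (nat_lit 267) (nat_lit 195))) (XT.nd (nat_lit 78) (nat_lit 152) (nat_lit 0) (XT.lf (nat_lit 0) (nat_lit 3922277882) (nat_lit 228) (nat_lit 2719702564) (nat_lit 76) (nat_lit 22852349584) (nat_lit 36) (nat_lit 5) (nat_lit 39) (nat_lit 5) (nat_lit 37) (nat_lit 5) (nat_lit 319) (nat_lit 267) (nat_lit 194)) (XT.lf (nat_lit 0) (nat_lit 12007225630) (nat_lit 228) (nat_lit 14293297970) (nat_lit 76) (nat_lit 4323014667) (nat_lit 34) (nat_lit 5) (nat_lit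 37) (nat_lit 5) (nat_lit 35) (nat_lit 5) (nat_lit 320) (nat_lit 267) (nat_lit 193))))))) (XT.nd (nat_lit 1014) (nat_lit 608) (nat_lit 0) (XT.nd (nat_lit 468) (nat_lit 532) (nat_lit 0) (XT.nd (nat_lit 234) (nat_lit 228) (nat_lit 0) (XT.nd (nat_lit 78) (nat_lit 228) (nat_lit 0) (XT.lf (nat_lit 0) (nat_lit 4554046340) (nat_lit 152) (nat_lit 16052774122) (nat_lit 228) (nat_lit 11199090158) (nat_lit 32) (nat_lit 5) (nat_lit 34) (nat_lit 5) (nat_lit 35) (nat_lit 5) (nat_lit 321) (nat_lit 267) (nat_lit 192)) (XT.nd (nat_lit 78) (nat_lit 228) (nat_lit 0) (XT.lf (nat_lit 0) (nat_lit 24595190035) (nat_lit 152) (nat_lit 5160563989) (nat_lit 228) (nat_lit 3288081745) (nat_lit 32) (nat_lit 5) (nat_lit 34) (nat_lit 5) (nat_lit 35) (nat_lit 5) (nat_lit 322) (nat_lit 267) (nat_lit 191)) (XT.lf (nat_lit 0) (nat_lit 5065345840) (nat_lit 228) (nat_lit 22977584003) (nat_lit 76) (nat_lit 6294950012) (nat_lit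 29) (nat_lit 5) (nat_lit 32) (nat_lit 5) (nat_lit 30) (nat_lit 5) (nat_lit 323) (nat_lit 267) (nat_lit 190)))) (XT.nd (nat_lit 78) (nat_lit 228) (nat_lit 0) (XT.lf (nat_lit 0) (nat_lit 13882933696) (nat_lit 228) (nat_lit 3488774680) (nat_lit 76) (nat_lit 18320519531) (nat_lit 29) (nat_lit 5) (nat_lit 32) (nat_lit 5) (nat_lit 30) (nat_lit 5) (nat_lit 324) (nat_lit 267) (nat_lit 189)) (XT.nd (nat_lit 78) (nat_lit 76) (nat_lit 0) (XT.lf (nat_lit 0) (nat_lit 17268727604) (nat_lit 152) (nat_lit 6013851912) (nat_lit 228) (nat_lit 13827491024) (nat_lit 27) (nat_lit 5) (nat_lit 29) (nat_lit 5) (nat_lit 30) (nat_lit 5) (nat_lit 325) (nat_lit 267) (nat_lit 188)) (XT.lf (nat_lit 0) (nat_lit 448792329) (nat_lit 76) (nat_lit 32776623675) (nat_lit 152) (nat_lit 5371204988) (nat_lit 26) (nat_lit 5) (nat_lit 27) (nat_lit 5) (nat_lit 28) (nat_lit 4) (nat_lit 326) (nat_lit 267) (nat_lit 187))))) (XT.nd (nat_lit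 234) (nat_lit 304) (nat_lit 0) (XT.nd (nat_lit 78) (nat_lit 152) (nat_lit 0) (XT.lf (nat_lit 0) (nat_lit 3682726977) (nat_lit 152) (nat_lit 18121092838) (nat_lit 76) (nat_lit 18345380091) (nat_lit 25) (nat_lit 5) (nat_lit 27) (nat_lit 5) (nat_lit 26) (nat_lit 5) (nat_lit 327) (nat_lit 267) (nat_lit 186)) (XT.nd (nat_lit 78) (nat_lit 0) (nat_lit 0) (XT.lf (nat_lit 0) (nat_lit 2869387713) (nat_lit 152) (nat_lit 10214938622) (nat_lit 228) (nat_lit 28693314871) (nat_lit 23) (nat_lit 5) (nat_lit 25) (nat_lit 5) (nat_lit 26) (nat_lit 5) (nat_lit 328) (nat_lit 267) (nat_lit 185)) (XT.lf (nat_lit 0) (nat_lit 23141160120) (nat_lit 228) (nat_lit 18253213354) (nat_lit 76) (nat_lit 2087586475) (nat_lit 23) (nat_lit 5) (nat_lit 26) (nat_lit 5) (nat_lit 24) (nat_lit 4) (nat_lit 329) (nat_lit 267) (nat_lit 184)))) (XT.nd (nat_lit 156) (nat_lit 228) (nat_lit 0) (XT.nd (nat_lit 78) (nat_lit 0) (nat_lit 0)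 (XT.lf (nat_lit 0) (nat_lit 3360139891) (nat_lit 76) (nat_lit 30455135094) (nat_lit 152) (nat_lit 11452795999) (nat_lit 22) (nat_lit 5) (nat_lit 23) (nat_lit 5) (nat_lit 24) (nat_lit 4) (nat_lit 330) (nat_lit 267) (nat_lit 183)) (XT.lf (nat_lit 0) (nat_lit 26399751679) (nat_lit 76) (nat_lit 18790936071) (nat_lit 152) (nat_lit 1947781137) (nat_lit 22) (nat_lit 5) (nat_lit 23) (nat_lit 5) (nat_lit 24) (nat_lit 4) (nat_lit 331) (nat_lit 267) (nat_lit 182))) (XT.nd (nat_lit 78) (nat_lit 0) (nat_lit 0) (XT.lf (nat_lit 0) (nat_lit 1404615445) (nat_lit 152) (nat_lit 6465086864) (nat_lit 228) (nat_lit 41230557563) (nat_lit 19) (nat_lit 5) (nat_lit 21) (nat_lit 5) (nat_lit 22) (nat_lit 5) (nat_lit 332) (nat_lit 267) (nat_lit 181)) (XT.lf (nat_lit 0) (nat_lit 18396939338) (nat_lit 228) (nat_lit 26183260820) (nat_lit 76) (nat_lit 6571594823) (nat_lit 19) (nat_lit 5) (nat_lit 22) (nat_lit 5) (nat_lit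 20) (nat_lit 4) (nat_lit 333) (nat_lit 267) (nat_lit 180)))))) (XT.nd (nat_lit 546) (nat_lit 228) (nat_lit 0) (XT.nd (nat_lit 234) (nat_lit 304) (nat_lit 0) (XT.nd (nat_lit 78) (nat_lit 76) (nat_lit 0) (XT.lf (nat_lit 0) (nat_lit 29497626293) (nat_lit 228) (nat_lit 3692876836) (nat_lit 76) (nat_lit 20113998690) (nat_lit 19) (nat_lit 5) (nat_lit 22) (nat_lit 5) (nat_lit 20) (nat_lit 4) (nat_lit 334) (nat_lit 267) (nat_lit 179)) (XT.nd (nat_lit 78) (nat_lit 0) (nat_lit 0) (XT.lf (nat_lit 0) (nat_lit 20287076356) (nat_lit 76) (nat_lit 21043982442) (nat_lit 152) (nat_lit 14228461119) (nat_lit 18) (nat_lit 5) (nat_lit 19) (nat_lit 5) (nat_lit 20) (nat_lit 4) (nat_lit 335) (nat_lit 267) (nat_lit 178)) (XT.lf (nat_lit 0) (nat_lit 45513257116) (nat_lit 76) (nat_lit 8264156170) (nat_lit 152) (nat_lit 4149245032) (nat_lit 18) (nat_lit 5) (nat_lit 19) (nat_lit 5) (nat_lit 20) (nat_lit 4) (nat_lit 336)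 (nat_lit 267) (nat_lit 177)))) (XT.nd (nat_lit 156) (nat_lit 76) (nat_lit 0) (XT.nd (nat_lit 78) (nat_lit 0) (nat_lit 0) (XT.lf (nat_lit 0) (nat_lit 6456132453) (nat_lit 228) (nat_lit 48731827634) (nat_lit 76) (nat_lit 5217912041) (nat_lit 15) (nat_lit 5) (nat_lit 18) (nat_lit 5) (nat_lit 16) (nat_lit 4) (nat_lit 337) (nat_lit 267) (nat_lit 176)) (XT.lf (nat_lit 0) (nat_lit 17703475127) (nat_lit 228) (nat_lit 25934874992) (nat_lit 76) (nat_lit 19363544872) (nat_lit 15) (nat_lit 5) (nat_lit 18) (nat_lit 5) (nat_lit 16) (nat_lit 4) (nat_lit 338) (nat_lit 267) (nat_lit 175))) (XT.nd (nat_lit 78) (nat_lit 76) (nat_lit 0) (XT.lf (nat_lit 0) (nat_lit 29498184003) (nat_lit 228) (nat_lit 2025095007) (nat_lit 76) (nat_lit 34204895808) (nat_lit 15) (nat_lit 5) (nat_lit 18) (nat_lit 5) (nat_lit 16) (nat_lit 4) (nat_lit 339) (nat_lit 267) (nat_lit 174)) (XT.lf (nat_lit 0) (nat_lit 23513268935) (nat_lit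 76) (nat_lit 18581096711) (nat_lit 152) (nat_lit 26490056390) (nat_lit 14) (nat_lit 5) (nat_lit 15) (nat_lit 5) (nat_lit 16) (nat_lit 4) (nat_lit 340) (nat_lit 267) (nat_lit 173))))) (XT.nd (nat_lit 234) (nat_lit 76) (nat_lit 0) (XT.nd (nat_lit 78) (nat_lit 152) (nat_lit 0) (XT.lf (nat_lit 0) (nat_lit 50345873646) (nat_lit 76) (nat_lit 4981482730) (nat_lit 152) (nat_lit 16255920494) (nat_lit 14) (nat_lit 5) (nat_lit 15) (nat_lit 5) (nat_lit 16) (nat_lit 4) (nat_lit 341) (nat_lit 267) (nat_lit 172)) (XT.nd (nat_lit 78) (nat_lit 76) (nat_lit 0) (XT.lf (nat_lit 0) (nat_lit 3747681544) (nat_lit 76) (nat_lit 65586429972) (nat_lit 76) (nat_lit 5394604489) (nat_lit 13) (nat_lit 4) (nat_lit 14) (nat_lit 5) (nat_lit 14) (nat_lit 4) (nat_lit 342) (nat_lit 267) (nat_lit 171)) (XT.lf (nat_lit 0) (nat_lit 6150555382) (nat_lit 152) (nat_lit 47732939107) (nat_lit 76) (nat_lit 24138462631) (nat_lit 12) (nat_lit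 5) (nat_lit 14) (nat_lit 5) (nat_lit 13) (nat_lit 4) (nat_lit 343) (nat_lit 267) (nat_lit 170)))) (XT.nd (nat_lit 156) (nat_lit 0) (nat_lit 0) (XT.nd (nat_lit 78) (nat_lit 76) (nat_lit 0) (XT.lf (nat_lit 0) (nat_lit 18150047650) (nat_lit 152) (nat_lit 23399437473) (nat_lit 76) (nat_lit 39929117927) (nat_lit 12) (nat_lit 5) (nat_lit 14) (nat_lit 5) (nat_lit 13) (nat_lit 4) (nat_lit 344) (nat_lit 267) (nat_lit 169)) (XT.lf (nat_lit 0) (nat_lit 2171640107) (nat_lit 76) (nat_lit 28586945721) (nat_lit 152) (nat_lit 54349227504) (nat_lit 11) (nat_lit 5) (nat_lit 12) (nat_lit 5) (nat_lit 13) (nat_lit 4) (nat_lit 345) (nat_lit 267) (nat_lit 168))) (XT.nd (nat_lit 78) (nat_lit 0) (nat_lit 0) (XT.lf (nat_lit 0) (nat_lit 29489390929) (nat_lit 76) (nat_lit 14737594283) (nat_lit 152) (nat_lit 44684619888) (nat_lit 11) (nat_lit 5) (nat_lit 12) (nat_lit 5) (nat_lit 13) (nat_lit 4) (nat_lit 346) (nat_lit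 267) (nat_lit 167)) (XT.lf (nat_lit 0) (nat_lit 58153162568) (nat_lit 76) (nat_lit 204744599) (nat_lit 152) (nat_lit 34548010018) (nat_lit 11) (nat_lit 5) (nat_lit 12) (nat_lit 5) (nat_lit 13) (nat_lit 4) (nat_lit 347) (nat_lit 267) (nat_lit 166))))))))
noncomputable def xc64 : XT := (XT.nd (nat_lit 35412) (nat_lit 0) (nat_lit 4256) (XT.nd (nat_lit 34398) (nat_lit 0) (nat_lit 14364) (XT.nd (nat_lit 468) (nat_lit 76) (nat_lit 0) (XT.nd (nat_lit 234) (nat_lit 152) (nat_lit 0) (XT.nd (nat_lit 78) (nat_lit 76) (nat_lit 0) (XT.lf (nat_lit 0) (nat_lit 73329630077) (nat_lit 152) (nat_lit 9013691086) (nat_lit 0) (nat_lit 14752599692) (nat_lit 11) (nat_lit 5) (nat_lit 13) (nat_lit 4) (nat_lit 11) (nat_lit 4) (nat_lit 348) (nat_lit 267) (nat_lit 165)) (XT.nd (nat_lit 78) (nat_lit 0) (nat_lit 0) (XT.lf (nat_lit 0) (nat_lit 18350094031) (nat_lit 76) (nat_lit 70868341503) (nat_lit 76) (nat_lit 12271937735)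 (nat_lit 10) (nat_lit 4) (nat_lit 11) (nat_lit 5) (nat_lit 11) (nat_lit 4) (nat_lit 349) (nat_lit 267) (nat_lit 164)) (XT.lf (nat_lit 0) (nat_lit 47252709443) (nat_lit 76) (nat_lit 58732101436) (nat_lit 76) (nat_lit 117246826) (nat_lit 10) (nat_lit 4) (nat_lit 11) (nat_lit 5) (nat_lit 11) (nat_lit 4) (nat_lit 350) (nat_lit 267) (nat_lit 163)))) (XT.nd (nat_lit 78) (nat_lit 76) (nat_lit 0) (XT.lf (nat_lit 0) (nat_lit 12389133042) (nat_lit 152) (nat_lit 33482486763) (nat_lit 76) (nat_lit 65069341780) (nat_lit 9) (nat_lit 5) (nat_lit 11) (nat_lit 5) (nat_lit 10) (nat_lit 4) (nat_lit 351) (nat_lit 267) (nat_lit 162)) (XT.nd (nat_lit 78) (nat_lit 76) (nat_lit 0) (XT.lf (nat_lit 0) (nat_lit 25509579501) (nat_lit 152) (nat_lit 6864715908) (nat_lit 76) (nat_lit 83647748149) (nat_lit 9) (nat_lit 5) (nat_lit 11) (nat_lit 5) (nat_lit 10) (nat_lit 4) (nat_lit 352) (nat_lit 267) (nat_lit 161)) (XT.lf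 (nat_lit 0) (nat_lit 21487770800) (nat_lit 76) (nat_lit 17996402415) (nat_lit 152) (nat_lit 81867065425) (nat_lit 8) (nat_lit 5) (nat_lit 9) (nat_lit 5) (nat_lit 10) (nat_lit 4) (nat_lit 353) (nat_lit 267) (nat_lit 160))))) (XT.nd (nat_lit 234) (nat_lit 76) (nat_lit 0) (XT.nd (nat_lit 78) (nat_lit 0) (nat_lit 0) (XT.lf (nat_lit 0) (nat_lit 51386301354) (nat_lit 76) (nat_lit 2833689648) (nat_lit 152) (nat_lit 72725030270) (nat_lit 8) (nat_lit 5) (nat_lit 9) (nat_lit 5) (nat_lit 10) (nat_lit 4) (nat_lit 354) (nat_lit 267) (nat_lit 159)) (XT.nd (nat_lit 78) (nat_lit 0) (nat_lit 0) (XT.lf (nat_lit 0) (nat_lit 69810555969) (nat_lit 152) (nat_lit 50179026557) (nat_lit 0) (nat_lit 12825374321) (nat_lit 8) (nat_lit 5) (nat_lit 10) (nat_lit 4) (nat_lit 8) (nat_lit 4) (nat_lit 355) (nat_lit 267) (nat_lit 158)) (XT.lf (nat_lit 0) (nat_lit 86201778410) (nat_lit 152) (nat_lit 23572749819) (nat_lit 0)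 (nat_lit 29203229479) (nat_lit 8) (nat_lit 5) (nat_lit 10) (nat_lit 4) (nat_lit 8) (nat_lit 4) (nat_lit 356) (nat_lit 267) (nat_lit 157)))) (XT.nd (nat_lit 156) (nat_lit 0) (nat_lit 0) (XT.nd (nat_lit 78) (nat_lit 0) (nat_lit 0) (XT.lf (nat_lit 0) (nat_lit 4437285149) (nat_lit 76) (nat_lit 99010814638) (nat_lit 76) (nat_lit 41999534960) (nat_lit 7) (nat_lit 4) (nat_lit 8) (nat_lit 5) (nat_lit 8) (nat_lit 4) (nat_lit 357) (nat_lit 267) (nat_lit 156)) (XT.lf (nat_lit 0) (nat_lit 34327656725) (nat_lit 76) (nat_lit 87464841225) (nat_lit 76) (nat_lit 30441437027) (nat_lit 7) (nat_lit 4) (nat_lit 8) (nat_lit 5) (nat_lit 8) (nat_lit 4) (nat_lit 358) (nat_lit 267) (nat_lit 155))) (XT.nd (nat_lit 78) (nat_lit 0) (nat_lit 0) (XT.lf (nat_lit 0) (nat_lit 65700388519) (nat_lit 76) (nat_lit 75347156130) (nat_lit 76) (nat_lit 18312204771) (nat_lit 7) (nat_lit 4) (nat_lit 8) (nat_lit 5) (nat_lit 8) (nat_lit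 4) (nat_lit 359) (nat_lit 267) (nat_lit 154)) (XT.lf (nat_lit 0) (nat_lit 98630177509) (nat_lit 76) (nat_lit 62628907723) (nat_lit 76) (nat_lit 5582959066) (nat_lit 7) (nat_lit 4) (nat_lit 8) (nat_lit 5) (nat_lit 8) (nat_lit 4) (nat_lit 360) (nat_lit 267) (nat_lit 153)))))) (XT.nd (nat_lit 468) (nat_lit 3724) (nat_lit 0) (XT.nd (nat_lit 234) (nat_lit 760) (nat_lit 0) (XT.nd (nat_lit 78) (nat_lit 760) (nat_lit 0) (XT.lf (nat_lit 0) (nat_lit 1457001979) (nat_lit 0) (nat_lit 1457001979) (nat_lit 684) (nat_lit 686424414) (nat_lit 265) (nat_lit 5) (nat_lit 265) (nat_lit 3) (nat_lit 274) (nat_lit 3) (nat_lit 268) (nat_lit 268) (nat_lit 244)) (XT.nd (nat_lit 78) (nat_lit 0) (nat_lit 0) (XT.lf (nat_lit 0) (nat_lit 1194412239) (nat_lit 760) (nat_lit 6105037820) (nat_lit 836) (nat_lit 229873) (nat_lit 255) (nat_lit 5) (nat_lit 265) (nat_lit 5) (nat_lit 266) (nat_lit 5) (nat_lit 269) (nat_lit 268) (nat_lit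 243)) (XT.lf (nat_lit 0) (nat_lit 3771770505) (nat_lit 760) (nat_lit 498318260) (nat_lit 836) (nat_lit 3135924330) (nat_lit 255) (nat_lit 5) (nat_lit 265) (nat_lit 5) (nat_lit 266) (nat_lit 5) (nat_lit 270) (nat_lit 268) (nat_lit 242)))) (XT.nd (nat_lit 78) (nat_lit 760) (nat_lit 0) (XT.lf (nat_lit 76) (nat_lit 5406342041) (nat_lit 0) (nat_lit 967323513) (nat_lit 836) (nat_lit 1147394341) (nat_lit 256) (nat_lit 5) (nat_lit 255) (nat_lit 5) (nat_lit 266) (nat_lit 5) (nat_lit 271) (nat_lit 268) (nat_lit 241)) (XT.nd (nat_lit 78) (nat_lit 0) (nat_lit 0) (XT.lf (nat_lit 0) (nat_lit 1352173261) (nat_lit 836) (nat_lit 3720886065) (nat_lit 912) (nat_lit 2571116274) (nat_lit 245) (nat_lit 5) (nat_lit 256) (nat_lit 5) (nat_lit 257) (nat_lit 5) (nat_lit 272) (nat_lit 268) (nat_lit 240)) (XT.lf (nat_lit 76) (nat_lit 2469988018) (nat_lit 0) (nat_lit 1394252688) (nat_lit 912) (nat_lit 3911763195) (nat_lit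 246) (nat_lit 5) (nat_lit 245) (nat_lit 5) (nat_lit 257) (nat_lit 5) (nat_lit 273) (nat_lit 268) (nat_lit 239))))) (XT.nd (nat_lit 234) (nat_lit 2888) (nat_lit 0) (XT.nd (nat_lit 78) (nat_lit 912) (nat_lit 0) (XT.lf (nat_lit 76) (nat_lit 1037539787) (nat_lit 0) (nat_lit 5398801801) (nat_lit 912) (nat_lit 1480273092) (nat_lit 247) (nat_lit 5) (nat_lit 246) (nat_lit 5) (nat_lit 258) (nat_lit 5) (nat_lit 274) (nat_lit 268) (nat_lit 238)) (XT.nd (nat_lit 78) (nat_lit 0) (nat_lit 76) (XT.lf (nat_lit 0) (nat_lit 987314775) (nat_lit 912) (nat_lit 372064728) (nat_lit 988) (nat_lit 6706710491) (nat_lit 234) (nat_lit 5) (nat_lit 246) (nat_lit 5) (nat_lit 247) (nat_lit 5) (nat_lit 275) (nat_lit 268) (nat_lit 237)) (XT.lf (nat_lit 0) (nat_lit 3511696653) (nat_lit 912) (nat_lit 1770936025) (nat_lit 988) (nat_lit 2941243068) (nat_lit 235) (nat_lit 5) (nat_lit 247) (nat_lit 5) (nat_lit 248) (nat_lit 5)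 (nat_lit 276) (nat_lit 268) (nat_lit 236)))) (XT.nd (nat_lit 156) (nat_lit 2052) (nat_lit 0) (XT.nd (nat_lit 78) (nat_lit 912) (nat_lit 0) (XT.lf (nat_lit 76) (nat_lit 5235078908) (nat_lit 0) (nat_lit 873298943) (nat_lit 988) (nat_lit 2282978361) (nat_lit 236) (nat_lit 5) (nat_lit 235) (nat_lit 5) (nat_lit 248) (nat_lit 5) (nat_lit 277) (nat_lit 268) (nat_lit 235)) (XT.lf (nat_lit 0) (nat_lit 238529679) (nat_lit 988) (nat_lit 4558914334) (nat_lit 76) (nat_lit 3770581049) (nat_lit 223) (nat_lit 5) (nat_lit 236) (nat_lit 5) (nat_lit 224) (nat_lit 5) (nat_lit 278) (nat_lit 268) (nat_lit 234))) (XT.nd (nat_lit 78) (nat_lit 1064) (nat_lit 0) (XT.lf (nat_lit 0) (nat_lit 2776184480) (nat_lit 988) (nat_lit 18279432) (nat_lit 1064) (nat_lit 5959883751) (nat_lit 210) (nat_lit 5) (nat_lit 223) (nat_lit 5) (nat_lit 224) (nat_lit 5) (nat_lit 279) (nat_lit 268) (nat_lit 233)) (XT.lf (nat_lit 0) (nat_lit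 1512772369) (nat_lit 1064) (nat_lit 3966950766) (nat_lit 1140) (nat_lit 3470374941) (nat_lit 196) (nat_lit 5) (nat_lit 210) (nat_lit 5) (nat_lit 211) (nat_lit 5) (nat_lit 280) (nat_lit 268) (nat_lit 232))))))) (XT.nd (nat_lit 1014) (nat_lit 3724) (nat_lit 0) (XT.nd (nat_lit 468) (nat_lit 2812) (nat_lit 0) (XT.nd (nat_lit 234) (nat_lit 1748) (nat_lit 0) (XT.nd (nat_lit 78) (nat_lit 684) (nat_lit 0) (XT.lf (nat_lit 0) (nat_lit 249404112) (nat_lit 1140) (nat_lit 8020900306) (nat_lit 1216) (nat_lit 886349850) (nat_lit 181) (nat_lit 5) (nat_lit 196) (nat_lit 5) (nat_lit 197) (nat_lit 5) (nat_lit 281) (nat_lit 268) (nat_lit 231)) (XT.nd (nat_lit 78) (nat_lit 608) (nat_lit 0) (XT.lf (nat_lit 0) (nat_lit 1807496526) (nat_lit 1216) (nat_lit 1046869216) (nat_lit 76) (nat_lit 6518296350) (nat_lit 180) (nat_lit 5) (nat_lit 196) (nat_lit 5) (nat_lit 181) (nat_lit 5) (nat_lit 282) (nat_lit 268) (nat_lit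 230)) (XT.lf (nat_lit 0) (nat_lit 4616854303) (nat_lit 684) (nat_lit 2375348789) (nat_lit 76) (nat_lit 2607161556) (nat_lit 172) (nat_lit 5) (nat_lit 181) (nat_lit 5) (nat_lit 173) (nat_lit 5) (nat_lit 283) (nat_lit 268) (nat_lit 229)))) (XT.nd (nat_lit 78) (nat_lit 1140) (nat_lit 0) (XT.lf (nat_lit 0) (nat_lit 6094103023) (nat_lit 608) (nat_lit 1478391994) (nat_lit 684) (nat_lit 2264858689) (nat_lit 164) (nat_lit 5) (nat_lit 172) (nat_lit 5) (nat_lit 173) (nat_lit 5) (nat_lit 284) (nat_lit 268) (nat_lit 228)) (XT.nd (nat_lit 78) (nat_lit 532) (nat_lit 0) (XT.lf (nat_lit 0) (nat_lit 601829006) (nat_lit 608) (nat_lit 5177538707) (nat_lit 76) (nat_lit 4307081869) (nat_lit 156) (nat_lit 5) (nat_lit 164) (nat_lit 5) (nat_lit 157) (nat_lit 5) (nat_lit 285) (nat_lit 268) (nat_lit 227)) (XT.lf (nat_lit 0) (nat_lit 3569110217) (nat_lit 608) (nat_lit 6678477148) (nat_lit 76) (nat_lit 99727965) (nat_lit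 149) (nat_lit 5) (nat_lit 157) (nat_lit 5) (nat_lit 150) (nat_lit 5) (nat_lit 286) (nat_lit 268) (nat_lit 226))))) (XT.nd (nat_lit 234) (nat_lit 1748) (nat_lit 0) (XT.nd (nat_lit 78) (nat_lit 608) (nat_lit 0) (XT.lf (nat_lit 0) (nat_lit 2344296909) (nat_lit 456) (nat_lit 4391984081) (nat_lit 532) (nat_lit 3883503137) (nat_lit 143) (nat_lit 5) (nat_lit 149) (nat_lit 5) (nat_lit 150) (nat_lit 5) (nat_lit 287) (nat_lit 268) (nat_lit 225)) (XT.nd (nat_lit 78) (nat_lit 76) (nat_lit 0) (XT.lf (nat_lit 0) (nat_lit 966662324) (nat_lit 532) (nat_lit 9110659123) (nat_lit 608) (nat_lit 828190084) (nat_lit 136) (nat_lit 5) (nat_lit 143) (nat_lit 5) (nat_lit 144) (nat_lit 5) (nat_lit 288) (nat_lit 268) (nat_lit 224)) (XT.lf (nat_lit 0) (nat_lit 2385845299) (nat_lit 608) (nat_lit 514864577) (nat_lit 76) (nat_lit 8302650146) (nat_lit 135) (nat_lit 5) (nat_lit 143) (nat_lit 5) (nat_lit 136) (nat_lit 5) (nat_lit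 289) (nat_lit 268) (nat_lit 223)))) (XT.nd (nat_lit 156) (nat_lit 836) (nat_lit 0) (XT.nd (nat_lit 78) (nat_lit 456) (nat_lit 0) (XT.lf (nat_lit 0) (nat_lit 5796114785) (nat_lit 532) (nat_lit 2077828213) (nat_lit 76) (nat_lit 3640420628) (nat_lit 129) (nat_lit 5) (nat_lit 136) (nat_lit 5) (nat_lit 130) (nat_lit 5) (nat_lit 290) (nat_lit 268) (nat_lit 222)) (XT.lf (nat_lit 0) (nat_lit 8100991396) (nat_lit 456) (nat_lit 1316819375) (nat_lit 532) (nat_lit 2421963538) (nat_lit 123) (nat_lit 5) (nat_lit 129) (nat_lit 5) (nat_lit 130) (nat_lit 5) (nat_lit 291) (nat_lit 268) (nat_lit 221))) (XT.nd (nat_lit 78) (nat_lit 380) (nat_lit 0) (XT.lf (nat_lit 0) (nat_lit 1089395986) (nat_lit 456) (nat_lit 5545752522) (nat_lit 76) (nat_lit 5543969173) (nat_lit 117) (nat_lit 5) (nat_lit 123) (nat_lit 5) (nat_lit 118) (nat_lit 5) (nat_lit 292) (nat_lit 268) (nat_lit 220)) (XT.lf (nat_lit 0) (nat_lit 4762829008)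 (nat_lit 456) (nat_lit 7490136372) (nat_lit 76) (nat_lit 280719811) (nat_lit 112) (nat_lit 5) (nat_lit 118) (nat_lit 5) (nat_lit 113) (nat_lit 5) (nat_lit 293) (nat_lit 268) (nat_lit 219)))))) (XT.nd (nat_lit 468) (nat_lit 1824) (nat_lit 0) (XT.nd (nat_lit 234) (nat_lit 1064) (nat_lit 0) (XT.nd (nat_lit 78) (nat_lit 456) (nat_lit 0) (XT.lf (nat_lit 0) (nat_lit 3289109596) (nat_lit 380) (nat_lit 5422071659) (nat_lit 456) (nat_lit 4192133085) (nat_lit 107) (nat_lit 5) (nat_lit 112) (nat_lit 5) (nat_lit 113) (nat_lit 5) (nat_lit 294) (nat_lit 268) (nat_lit 218)) (XT.nd (nat_lit 78) (nat_lit 76) (nat_lit 0) (XT.lf (nat_lit 0) (nat_lit 1403600809) (nat_lit 380) (nat_lit 11498718325) (nat_lit 456) (nat_lit 387812096) (nat_lit 102) (nat_lit 5) (nat_lit 107) (nat_lit 5) (nat_lit 108) (nat_lit 5) (nat_lit 295) (nat_lit 268) (nat_lit 217)) (XT.lf (nat_lit 0) (nat_lit 3629776083) (nat_lit 456) (nat_lit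 690379593) (nat_lit 76) (nat_lit 9372352500) (nat_lit 101) (nat_lit 5) (nat_lit 107) (nat_lit 5) (nat_lit 102) (nat_lit 5) (nat_lit 296) (nat_lit 268) (nat_lit 216)))) (XT.nd (nat_lit 78) (nat_lit 760) (nat_lit 0) (XT.lf (nat_lit 0) (nat_lit 7921532674) (nat_lit 380) (nat_lit 2941111471) (nat_lit 76) (nat_lit 3249864634) (nat_lit 97) (nat_lit 5) (nat_lit 102) (nat_lit 5) (nat_lit 98) (nat_lit 5) (nat_lit 297) (nat_lit 268) (nat_lit 215)) (XT.nd (nat_lit 78) (nat_lit 380) (nat_lit 0) (XT.lf (nat_lit 0) (nat_lit 9146726317) (nat_lit 380) (nat_lit 3363425643) (nat_lit 456) (nat_lit 2040945669) (nat_lit 92) (nat_lit 5) (nat_lit 97) (nat_lit 5) (nat_lit 98) (nat_lit 5) (nat_lit 298) (nat_lit 268) (nat_lit 214)) (XT.lf (nat_lit 0) (nat_lit 2357868093) (nat_lit 380) (nat_lit 8126226114) (nat_lit 76) (nat_lit 4524311269) (nat_lit 87) (nat_lit 5) (nat_lit 92) (nat_lit 5) (nat_lit 88) (nat_lit 5) (nat_lit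 299) (nat_lit 268) (nat_lit 213))))) (XT.nd (nat_lit 234) (nat_lit 1140) (nat_lit 0) (XT.nd (nat_lit 78) (nat_lit 380) (nat_lit 0) (XT.lf (nat_lit 0) (nat_lit 4365382884) (nat_lit 304) (nat_lit 2648217768) (nat_lit 380) (nat_lit 8472045925) (nat_lit 83) (nat_lit 5) (nat_lit 87) (nat_lit 5) (nat_lit 88) (nat_lit 5) (nat_lit 300) (nat_lit 268) (nat_lit 212)) (XT.nd (nat_lit 78) (nat_lit 76) (nat_lit 0) (XT.lf (nat_lit 0) (nat_lit 1570258717) (nat_lit 304) (nat_lit 10433424770) (nat_lit 380) (nat_lit 3980066692) (nat_lit 79) (nat_lit 5) (nat_lit 83) (nat_lit 5) (nat_lit 84) (nat_lit 5) (nat_lit 301) (nat_lit 268) (nat_lit 211)) (XT.lf (nat_lit 0) (nat_lit 814070057) (nat_lit 380) (nat_lit 1482599217) (nat_lit 76) (nat_lit 14207163162) (nat_lit 78) (nat_lit 5) (nat_lit 83) (nat_lit 5) (nat_lit 79) (nat_lit 5) (nat_lit 302) (nat_lit 268) (nat_lit 210)))) (XT.nd (nat_lit 156) (nat_lit 608) (nat_lit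 0) (XT.nd (nat_lit 78) (nat_lit 228) (nat_lit 0) (XT.lf (nat_lit 0) (nat_lit 5897283051) (nat_lit 380) (nat_lit 4883461187) (nat_lit 76) (nat_lit 6264083573) (nat_lit 74) (nat_lit 5) (nat_lit 79) (nat_lit 5) (nat_lit 75) (nat_lit 5) (nat_lit 303) (nat_lit 268) (nat_lit 209)) (XT.lf (nat_lit 0) (nat_lit 8990339344) (nat_lit 228) (nat_lit 2322777700) (nat_lit 304) (nat_lit 6297441817) (nat_lit 71) (nat_lit 5) (nat_lit 74) (nat_lit 5) (nat_lit 75) (nat_lit 5) (nat_lit 304) (nat_lit 268) (nat_lit 208))) (XT.nd (nat_lit 78) (nat_lit 304) (nat_lit 0) (XT.lf (nat_lit 0) (nat_lit 5432174082) (nat_lit 304) (nat_lit 11688422674) (nat_lit 380) (nat_lit 1080391910) (nat_lit 67) (nat_lit 5) (nat_lit 71) (nat_lit 5) (nat_lit 72) (nat_lit 5) (nat_lit 305) (nat_lit 268) (nat_lit 207)) (XT.lf (nat_lit 0) (nat_lit 1444550439) (nat_lit 228) (nat_lit 2949979887) (nat_lit 304) (nat_lit 14422691530) (nat_lit 63)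 (nat_lit 5) (nat_lit 66) (nat_lit 5) (nat_lit 67) (nat_lit 5) (nat_lit 306) (nat_lit 268) (nat_lit 206))))))))
noncomputable def xc65 : XT := (XT.nd (nat_lit 2028) (nat_lit 1140) (nat_lit 0) (XT.nd (nat_lit 1014) (nat_lit 1140) (nat_lit 0) (XT.nd (nat_lit 468) (nat_lit 1064) (nat_lit 0) (XT.nd (nat_lit 234) (nat_lit 380) (nat_lit 0) (XT.nd (nat_lit 78) (nat_lit 532) (nat_lit 0) (XT.lf (nat_lit 0) (nat_lit 10270810588) (nat_lit 304) (nat_lit 2962258003) (nat_lit 76) (nat_lit 6226411832) (nat_lit 63) (nat_lit 5) (nat_lit 67) (nat_lit 5) (nat_lit 64) (nat_lit 5) (nat_lit 307) (nat_lit 268) (nat_lit 205)) (XT.nd (nat_lit 78) (nat_lit 304) (nat_lit 0) (XT.lf (nat_lit 0) (nat_lit 12317060284) (nat_lit 228) (nat_lit 4231219563) (nat_lit 304) (nat_lit 3582382547) (nat_lit 60) (nat_lit 5) (nat_lit 63) (nat_lit 5) (nat_lit 64) (nat_lit 5) (nat_lit 308) (nat_lit 268) (nat_lit 204)) (XT.lf (nat_lit 0)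 (nat_lit 2374995591) (nat_lit 304) (nat_lit 13230643348) (nat_lit 76) (nat_lit 5225657164) (nat_lit 56) (nat_lit 5) (nat_lit 60) (nat_lit 5) (nat_lit 57) (nat_lit 5) (nat_lit 309) (nat_lit 268) (nat_lit 203)))) (XT.nd (nat_lit 78) (nat_lit 152) (nat_lit 0) (XT.lf (nat_lit 0) (nat_lit 2288898533) (nat_lit 228) (nat_lit 6375151131) (nat_lit 304) (nat_lit 12898638810) (nat_lit 53) (nat_lit 5) (nat_lit 56) (nat_lit 5) (nat_lit 57) (nat_lit 5) (nat_lit 310) (nat_lit 268) (nat_lit 202)) (XT.nd (nat_lit 78) (nat_lit 152) (nat_lit 0) (XT.lf (nat_lit 0) (nat_lit 15399329758) (nat_lit 304) (nat_lit 3558568690) (nat_lit 76) (nat_lit 3368825420) (nat_lit 53) (nat_lit 5) (nat_lit 57) (nat_lit 5) (nat_lit 54) (nat_lit 5) (nat_lit 311) (nat_lit 268) (nat_lit 201)) (XT.lf (nat_lit 0) (nat_lit 13076405923) (nat_lit 152) (nat_lit 9549148796) (nat_lit 228) (nat_lit 498806226) (nat_lit 51) (nat_lit 5) (nat_lit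 53) (nat_lit 5) (nat_lit 54) (nat_lit 5) (nat_lit 312) (nat_lit 268) (nat_lit 200))))) (XT.nd (nat_lit 234) (nat_lit 608) (nat_lit 0) (XT.nd (nat_lit 78) (nat_lit 152) (nat_lit 0) (XT.lf (nat_lit 0) (nat_lit 6199857996) (nat_lit 304) (nat_lit 17292183984) (nat_lit 76) (nat_lit 465939693) (nat_lit 47) (nat_lit 5) (nat_lit 51) (nat_lit 5) (nat_lit 48) (nat_lit 5) (nat_lit 313) (nat_lit 268) (nat_lit 199)) (XT.nd (nat_lit 78) (nat_lit 152) (nat_lit 0) (XT.lf (nat_lit 0) (nat_lit 13389973490) (nat_lit 304) (nat_lit 562572094) (nat_lit 76) (nat_lit 10875606981) (nat_lit 47) (nat_lit 5) (nat_lit 51) (nat_lit 5) (nat_lit 48) (nat_lit 5) (nat_lit 314) (nat_lit 268) (nat_lit 198)) (XT.lf (nat_lit 0) (nat_lit 17288343095) (nat_lit 152) (nat_lit 3784959155) (nat_lit 228) (nat_lit 4664539779) (nat_lit 45) (nat_lit 5) (nat_lit 47) (nat_lit 5) (nat_lit 48) (nat_lit 5) (nat_lit 315) (nat_lit 268) (nat_lit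 197)))) (XT.nd (nat_lit 156) (nat_lit 152) (nat_lit 0) (XT.nd (nat_lit 78) (nat_lit 152) (nat_lit 0) (XT.lf (nat_lit 0) (nat_lit 2532287482) (nat_lit 304) (nat_lit 17297569232) (nat_lit 76) (nat_lit 6858504881) (nat_lit 41) (nat_lit 5) (nat_lit 45) (nat_lit 5) (nat_lit 42) (nat_lit 5) (nat_lit 316) (nat_lit 268) (nat_lit 196)) (XT.lf (nat_lit 0) (nat_lit 488302030) (nat_lit 152) (nat_lit 9604907495) (nat_lit 228) (nat_lit 17588809124) (nat_lit 39) (nat_lit 5) (nat_lit 41) (nat_lit 5) (nat_lit 42) (nat_lit 5) (nat_lit 317) (nat_lit 268) (nat_lit 195))) (XT.nd (nat_lit 78) (nat_lit 152) (nat_lit 0) (XT.lf (nat_lit 0) (nat_lit 18192775354) (nat_lit 228) (nat_lit 9257938304) (nat_lit 76) (nat_lit 1269844790) (nat_lit 39) (nat_lit 5) (nat_lit 42) (nat_lit 5) (nat_lit 40) (nat_lit 5) (nat_lit 318) (nat_lit 268) (nat_lit 194)) (XT.lf (nat_lit 0) (nat_lit 9617529115) (nat_lit 152) (nat_lit 17240514897)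 (nat_lit 228) (nat_lit 2948176462) (nat_lit 37) (nat_lit 5) (nat_lit 39) (nat_lit 5) (nat_lit 40) (nat_lit 5) (nat_lit 319) (nat_lit 268) (nat_lit 193)))))) (XT.nd (nat_lit 468) (nat_lit 532) (nat_lit 0) (XT.nd (nat_lit 234) (nat_lit 228) (nat_lit 0) (XT.nd (nat_lit 78) (nat_lit 304) (nat_lit 0) (XT.lf (nat_lit 0) (nat_lit 4980843586) (nat_lit 228) (nat_lit 1409210255) (nat_lit 76) (nat_lit 24552636435) (nat_lit 36) (nat_lit 5) (nat_lit 39) (nat_lit 5) (nat_lit 37) (nat_lit 5) (nat_lit 320) (nat_lit 268) (nat_lit 192)) (XT.nd (nat_lit 78) (nat_lit 152) (nat_lit 0) (XT.lf (nat_lit 0) (nat_lit 13447955845) (nat_lit 228) (nat_lit 13582922443) (nat_lit 76) (nat_lit 5098166109) (nat_lit 34) (nat_lit 5) (nat_lit 37) (nat_lit 5) (nat_lit 35) (nat_lit 5) (nat_lit 321) (nat_lit 268) (nat_lit 191)) (XT.lf (nat_lit 0) (nat_lit 6165940585) (nat_lit 152) (nat_lit 16284877965) (nat_lit 228) (nat_lit 10920540064)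 (nat_lit 32) (nat_lit 5) (nat_lit 34) (nat_lit 5) (nat_lit 35) (nat_lit 5) (nat_lit 322) (nat_lit 268) (nat_lit 190)))) (XT.nd (nat_lit 78) (nat_lit 228) (nat_lit 0) (XT.lf (nat_lit 0) (nat_lit 27143227564) (nat_lit 152) (nat_lit 4875225652) (nat_lit 228) (nat_lit 2653910021) (nat_lit 32) (nat_lit 5) (nat_lit 34) (nat_lit 5) (nat_lit 35) (nat_lit 5) (nat_lit 323) (nat_lit 268) (nat_lit 189)) (XT.nd (nat_lit 78) (nat_lit 0) (nat_lit 0) (XT.lf (nat_lit 0) (nat_lit 6081948799) (nat_lit 228) (nat_lit 22812483384) (nat_lit 76) (nat_lit 7137056042) (nat_lit 29) (nat_lit 5) (nat_lit 32) (nat_lit 5) (nat_lit 30) (nat_lit 5) (nat_lit 324) (nat_lit 268) (nat_lit 188)) (XT.lf (nat_lit 0) (nat_lit 15304066730) (nat_lit 228) (nat_lit 2411804062) (nat_lit 76) (nat_lit 19738791725) (nat_lit 29) (nat_lit 5) (nat_lit 32) (nat_lit 5) (nat_lit 30) (nat_lit 5) (nat_lit 325) (nat_lit 268) (nat_lit 187))))) (XT.nd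 (nat_lit 234) (nat_lit 228) (nat_lit 0) (XT.nd (nat_lit 78) (nat_lit 152) (nat_lit 0) (XT.lf (nat_lit 0) (nat_lit 19347701938) (nat_lit 152) (nat_lit 5803059000) (nat_lit 228) (nat_lit 13793341847) (nat_lit 27) (nat_lit 5) (nat_lit 29) (nat_lit 5) (nat_lit 30) (nat_lit 5) (nat_lit 326) (nat_lit 268) (nat_lit 186)) (XT.nd (nat_lit 78) (nat_lit 76) (nat_lit 0) (XT.lf (nat_lit 0) (nat_lit 1668006785) (nat_lit 76) (nat_lit 33905392873) (nat_lit 152) (nat_lit 4932117942) (nat_lit 26) (nat_lit 5) (nat_lit 27) (nat_lit 5) (nat_lit 28) (nat_lit 4) (nat_lit 327) (nat_lit 268) (nat_lit 185)) (XT.lf (nat_lit 0) (nat_lit 4527661942) (nat_lit 152) (nat_lit 17873902773) (nat_lit 76) (nat_lit 19734963270) (nat_lit 25) (nat_lit 5) (nat_lit 27) (nat_lit 5) (nat_lit 26) (nat_lit 5) (nat_lit 328) (nat_lit 268) (nat_lit 184)))) (XT.nd (nat_lit 156) (nat_lit 76) (nat_lit 0) (XT.nd (nat_lit 78) (nat_lit 0) (nat_lit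 0) (XT.lf (nat_lit 0) (nat_lit 4133044277) (nat_lit 152) (nat_lit 10245598314) (nat_lit 228) (nat_lit 29468384383) (nat_lit 23) (nat_lit 5) (nat_lit 25) (nat_lit 5) (nat_lit 26) (nat_lit 5) (nat_lit 329) (nat_lit 268) (nat_lit 183)) (XT.lf (nat_lit 0) (nat_lit 24912232252) (nat_lit 228) (nat_lit 18084856329) (nat_lit 76) (nat_lit 2640269615) (nat_lit 23) (nat_lit 5) (nat_lit 26) (nat_lit 5) (nat_lit 24) (nat_lit 4) (nat_lit 330) (nat_lit 268) (nat_lit 182))) (XT.nd (nat_lit 78) (nat_lit 0) (nat_lit 0) (XT.lf (nat_lit 0) (nat_lit 4578177423) (nat_lit 76) (nat_lit 31522730205) (nat_lit 152) (nat_lit 11412454813) (nat_lit 22) (nat_lit 5) (nat_lit 23) (nat_lit 5) (nat_lit 24) (nat_lit 4) (nat_lit 331) (nat_lit 268) (nat_lit 181)) (XT.lf (nat_lit 0) (nat_lit 28719768346) (nat_lit 76) (nat_lit 19296995595) (nat_lit 152) (nat_lit 1461378779) (nat_lit 22) (nat_lit 5) (nat_lit 23) (nat_lit 5) (nat_lit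 24) (nat_lit 4) (nat_lit 332) (nat_lit 268) (nat_lit 180))))))) (XT.nd (nat_lit 1014) (nat_lit 380) (nat_lit 0) (XT.nd (nat_lit 468) (nat_lit 228) (nat_lit 0) (XT.nd (nat_lit 234) (nat_lit 304) (nat_lit 0) (XT.nd (nat_lit 78) (nat_lit 0) (nat_lit 0) (XT.lf (nat_lit 0) (nat_lit 2457513922) (nat_lit 152) (nat_lit 6360261927) (nat_lit 228) (nat_lit 42720625100) (nat_lit 19) (nat_lit 5) (nat_lit 21) (nat_lit 5) (nat_lit 22) (nat_lit 5) (nat_lit 333) (nat_lit 268) (nat_lit 179)) (XT.nd (nat_lit 78) (nat_lit 0) (nat_lit 0) (XT.lf (nat_lit 0) (nat_lit 19848884766) (nat_lit 228) (nat_lit 26544400373) (nat_lit 76) (nat_lit 7299913528) (nat_lit 19) (nat_lit 5) (nat_lit 22) (nat_lit 5) (nat_lit 20) (nat_lit 4) (nat_lit 334) (nat_lit 268) (nat_lit 178)) (XT.lf (nat_lit 0) (nat_lit 31479268046) (nat_lit 228) (nat_lit 2974641166) (nat_lit 76) (nat_lit 21500402400) (nat_lit 19) (nat_lit 5) (nat_lit 22)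 (nat_lit 5) (nat_lit 20) (nat_lit 4) (nat_lit 335) (nat_lit 268) (nat_lit 177)))) (XT.nd (nat_lit 78) (nat_lit 228) (nat_lit 0) (XT.lf (nat_lit 0) (nat_lit 22178428827) (nat_lit 76) (nat_lit 21710242149) (nat_lit 152) (nat_lit 14433890794) (nat_lit 18) (nat_lit 5) (nat_lit 19) (nat_lit 5) (nat_lit 20) (nat_lit 4) (nat_lit 336) (nat_lit 268) (nat_lit 176)) (XT.nd (nat_lit 78) (nat_lit 228) (nat_lit 0) (XT.lf (nat_lit 0) (nat_lit 48624156783) (nat_lit 76) (nat_lit 8309802631) (nat_lit 152) (nat_lit 3874808826) (nat_lit 18) (nat_lit 5) (nat_lit 19) (nat_lit 5) (nat_lit 20) (nat_lit 4) (nat_lit 337) (nat_lit 268) (nat_lit 175)) (XT.lf (nat_lit 0) (nat_lit 7240309172) (nat_lit 228) (nat_lit 50337380374) (nat_lit 76) (nat_lit 5834456879) (nat_lit 15) (nat_lit 5) (nat_lit 18) (nat_lit 5) (nat_lit 16) (nat_lit 4) (nat_lit 338) (nat_lit 268) (nat_lit 174))))) (XT.nd (nat_lit 234) (nat_lit 152) (nat_lit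 0) (XT.nd (nat_lit 78) (nat_lit 76) (nat_lit 0) (XT.lf (nat_lit 0) (nat_lit 19028048974) (nat_lit 228) (nat_lit 26440153369) (nat_lit 76) (nat_lit 20670435674) (nat_lit 15) (nat_lit 5) (nat_lit 18) (nat_lit 5) (nat_lit 16) (nat_lit 4) (nat_lit 339) (nat_lit 268) (nat_lit 173)) (XT.nd (nat_lit 78) (nat_lit 76) (nat_lit 0) (XT.lf (nat_lit 0) (nat_lit 31391569480) (nat_lit 228) (nat_lit 1372573212) (nat_lit 76) (nat_lit 36237724940) (nat_lit 15) (nat_lit 5) (nat_lit 18) (nat_lit 5) (nat_lit 16) (nat_lit 4) (nat_lit 340) (nat_lit 268) (nat_lit 172)) (XT.lf (nat_lit 0) (nat_lit 25421102074) (nat_lit 76) (nat_lit 19183568753) (nat_lit 152) (nat_lit 27396650762) (nat_lit 14) (nat_lit 5) (nat_lit 15) (nat_lit 5) (nat_lit 16) (nat_lit 4) (nat_lit 341) (nat_lit 268) (nat_lit 171)))) (XT.nd (nat_lit 156) (nat_lit 76) (nat_lit 0) (XT.nd (nat_lit 78) (nat_lit 76) (nat_lit 0) (XT.lf (nat_lit 0) (nat_lit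 53560471797) (nat_lit 76) (nat_lit 4919525635) (nat_lit 152) (nat_lit 16670708474) (nat_lit 14) (nat_lit 5) (nat_lit 15) (nat_lit 5) (nat_lit 16) (nat_lit 4) (nat_lit 342) (nat_lit 268) (nat_lit 170)) (XT.lf (nat_lit 0) (nat_lit 4620876309) (nat_lit 76) (nat_lit 68557259937) (nat_lit 76) (nat_lit 5275556355) (nat_lit 13) (nat_lit 4) (nat_lit 14) (nat_lit 5) (nat_lit 14) (nat_lit 4) (nat_lit 343) (nat_lit 268) (nat_lit 169))) (XT.nd (nat_lit 78) (nat_lit 0) (nat_lit 0) (XT.lf (nat_lit 0) (nat_lit 6821123050) (nat_lit 152) (nat_lit 49459078713) (nat_lit 76) (nat_lit 25631832910) (nat_lit 12) (nat_lit 5) (nat_lit 14) (nat_lit 5) (nat_lit 13) (nat_lit 4) (nat_lit 344) (nat_lit 268) (nat_lit 168)) (XT.lf (nat_lit 0) (nat_lit 19403302316) (nat_lit 152) (nat_lit 23940354728) (nat_lit 76) (nat_lit 42198380630) (nat_lit 12) (nat_lit 5) (nat_lit 14) (nat_lit 5) (nat_lit 13) (nat_lit 4) (nat_lit 345)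 (nat_lit 268) (nat_lit 167)))))) (XT.nd (nat_lit 546) (nat_lit 152) (nat_lit 0) (XT.nd (nat_lit 234) (nat_lit 152) (nat_lit 0) (XT.nd (nat_lit 78) (nat_lit 0) (nat_lit 0) (XT.lf (nat_lit 0) (nat_lit 2891245007) (nat_lit 76) (nat_lit 29740431529) (nat_lit 152) (nat_lit 56721355518) (nat_lit 11) (nat_lit 5) (nat_lit 12) (nat_lit 5) (nat_lit 13) (nat_lit 4) (nat_lit 346) (nat_lit 268) (nat_lit 166)) (XT.nd (nat_lit 78) (nat_lit 0) (nat_lit 0) (XT.lf (nat_lit 0) (nat_lit 31545787041) (nat_lit 76) (nat_lit 15211748779) (nat_lit 152) (nat_lit 46589961967) (nat_lit 11) (nat_lit 5) (nat_lit 12) (nat_lit 5) (nat_lit 13) (nat_lit 4) (nat_lit 347) (nat_lit 268) (nat_lit 165)) (XT.lf (nat_lit 0) (nat_lit 61580142487) (nat_lit 152) (nat_lit 35927288994) (nat_lit 0) (nat_lit 34545147) (nat_lit 11) (nat_lit 5) (nat_lit 13) (nat_lit 4) (nat_lit 11) (nat_lit 4) (nat_lit 348) (nat_lit 268) (nat_lit 164))))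 (XT.nd (nat_lit 156) (nat_lit 76) (nat_lit 0) (XT.nd (nat_lit 78) (nat_lit 76) (nat_lit 0) (XT.lf (nat_lit 0) (nat_lit 77287927293) (nat_lit 152) (nat_lit 8930054862) (nat_lit 0) (nat_lit 15723879111) (nat_lit 11) (nat_lit 5) (nat_lit 13) (nat_lit 4) (nat_lit 11) (nat_lit 4) (nat_lit 349) (nat_lit 268) (nat_lit 163)) (XT.lf (nat_lit 0) (nat_lit 19786603313) (nat_lit 76) (nat_lit 74175662714) (nat_lit 76) (nat_lit 12594042302) (nat_lit 10) (nat_lit 4) (nat_lit 11) (nat_lit 5) (nat_lit 11) (nat_lit 4) (nat_lit 350) (nat_lit 268) (nat_lit 162))) (XT.nd (nat_lit 78) (nat_lit 0) (nat_lit 0) (XT.lf (nat_lit 0) (nat_lit 151487663) (nat_lit 152) (nat_lit 61290835911) (nat_lit 76) (nat_lit 49956617600) (nat_lit 9) (nat_lit 5) (nat_lit 11) (nat_lit 5) (nat_lit 10) (nat_lit 4) (nat_lit 351) (nat_lit 268) (nat_lit 161)) (XT.lf (nat_lit 0) (nat_lit 13267822578) (nat_lit 152) (nat_lit 34680614565) (nat_lit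 76) (nat_lit 68531710696) (nat_lit 9) (nat_lit 5) (nat_lit 11) (nat_lit 5) (nat_lit 10) (nat_lit 4) (nat_lit 352) (nat_lit 268) (nat_lit 160))))) (XT.nd (nat_lit 234) (nat_lit 76) (nat_lit 0) (XT.nd (nat_lit 78) (nat_lit 76) (nat_lit 0) (XT.lf (nat_lit 0) (nat_lit 27031946937) (nat_lit 152) (nat_lit 6754621669) (nat_lit 76) (nat_lit 88029089677) (nat_lit 9) (nat_lit 5) (nat_lit 11) (nat_lit 5) (nat_lit 10) (nat_lit 4) (nat_lit 353) (nat_lit 268) (nat_lit 159)) (XT.nd (nat_lit 78) (nat_lit 0) (nat_lit 0) (XT.lf (nat_lit 0) (nat_lit 23002494760) (nat_lit 76) (nat_lit 18695251756) (nat_lit 152) (nat_lit 85713796164) (nat_lit 8) (nat_lit 5) (nat_lit 9) (nat_lit 5) (nat_lit 10) (nat_lit 4) (nat_lit 354) (nat_lit 268) (nat_lit 158)) (XT.lf (nat_lit 0) (nat_lit 54374983488) (nat_lit 76) (nat_lit 2783973388) (nat_lit 152) (nat_lit 76126403181) (nat_lit 8) (nat_lit 5) (nat_lit 9) (nat_lit 5) (nat_lit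 10) (nat_lit 4) (nat_lit 355) (nat_lit 268) (nat_lit 157)))) (XT.nd (nat_lit 156) (nat_lit 76) (nat_lit 0) (XT.nd (nat_lit 78) (nat_lit 0) (nat_lit 0) (XT.lf (nat_lit 0) (nat_lit 73519946801) (nat_lit 152) (nat_lit 52283749806) (nat_lit 0) (nat_lit 13645372393) (nat_lit 8) (nat_lit 5) (nat_lit 10) (nat_lit 4) (nat_lit 8) (nat_lit 4) (nat_lit 356) (nat_lit 268) (nat_lit 156)) (XT.lf (nat_lit 0) (nat_lit 90720308315) (nat_lit 152) (nat_lit 24366408187) (nat_lit 0) (nat_lit 30833609388) (nat_lit 8) (nat_lit 5) (nat_lit 10) (nat_lit 4) (nat_lit 8) (nat_lit 4) (nat_lit 357) (nat_lit 268) (nat_lit 155))) (XT.nd (nat_lit 78) (nat_lit 0) (nat_lit 0) (XT.lf (nat_lit 0) (nat_lit 5033093180) (nat_lit 76) (nat_lit 103789521396) (nat_lit 76) (nat_lit 43891275306) (nat_lit 7) (nat_lit 4) (nat_lit 8) (nat_lit 5) (nat_lit 8) (nat_lit 4) (nat_lit 358) (nat_lit 268) (nat_lit 154)) (XT.lf (nat_lit 0) (nat_lit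 36400176489) (nat_lit 76) (nat_lit 91674431882) (nat_lit 76) (nat_lit 31765188496) (nat_lit 7) (nat_lit 4) (nat_lit 8) (nat_lit 5) (nat_lit 8) (nat_lit 4) (nat_lit 359) (nat_lit 268) (nat_lit 153))))))))
noncomputable def xc66 : XT := (XT.nd (nat_lit 35490) (nat_lit 0) (nat_lit 2280) (XT.nd (nat_lit 34476) (nat_lit 0) (nat_lit 8360) (XT.nd (nat_lit 33930) (nat_lit 0) (nat_lit 15428) (XT.nd (nat_lit 33696) (nat_lit 0) (nat_lit 18012) (XT.nd (nat_lit 33540) (nat_lit 0) (nat_lit 18772) (XT.lf (nat_lit 0) (nat_lit 69324585970) (nat_lit 76) (nat_lit 78958655457) (nat_lit 76) (nat_lit 19038938454) (nat_lit 7) (nat_lit 4) (nat_lit 8) (nat_lit 5) (nat_lit 8) (nat_lit 4) (nat_lit 360) (nat_lit 268) (nat_lit 152)) (XT.nd (nat_lit 78) (nat_lit 0) (nat_lit 0) (XT.lf (nat_lit 0) (nat_lit 1815946181) (nat_lit 836) (nat_lit 942360346) (nat_lit 836) (nat_lit 942360346) (nat_lit 254) (nat_lit 3) (nat_lit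 265) (nat_lit 3) (nat_lit 265) (nat_lit 5) (nat_lit 269) (nat_lit 269) (nat_lit 242)) (XT.lf (nat_lit 76) (nat_lit 3782391361) (nat_lit 0) (nat_lit 2301044657) (nat_lit 836) (nat_lit 1428135598) (nat_lit 255) (nat_lit 5) (nat_lit 254) (nat_lit 3) (nat_lit 265) (nat_lit 5) (nat_lit 270) (nat_lit 269) (nat_lit 241)))) (XT.nd (nat_lit 78) (nat_lit 0) (nat_lit 0) (XT.lf (nat_lit 0) (nat_lit 910087370) (nat_lit 836) (nat_lit 5547369192) (nat_lit 912) (nat_lit 1172815972) (nat_lit 244) (nat_lit 5) (nat_lit 255) (nat_lit 5) (nat_lit 256) (nat_lit 5) (nat_lit 271) (nat_lit 269) (nat_lit 240)) (XT.nd (nat_lit 78) (nat_lit 0) (nat_lit 76) (XT.lf (nat_lit 76) (nat_lit 395039570) (nat_lit 0) (nat_lit 2862512168) (nat_lit 912) (nat_lit 4499511734) (nat_lit 245) (nat_lit 5) (nat_lit 244) (nat_lit 5) (nat_lit 256) (nat_lit 5) (nat_lit 272) (nat_lit 269) (nat_lit 239)) (XT.lf (nat_lit 0) (nat_lit 5651247081)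 (nat_lit 836) (nat_lit 1234222259) (nat_lit 912) (nat_lit 1007082848) (nat_lit 245) (nat_lit 5) (nat_lit 256) (nat_lit 5) (nat_lit 257) (nat_lit 5) (nat_lit 273) (nat_lit 269) (nat_lit 238))))) (XT.nd (nat_lit 234) (nat_lit 1748) (nat_lit 0) (XT.nd (nat_lit 78) (nat_lit 0) (nat_lit 76) (XT.lf (nat_lit 0) (nat_lit 74299893) (nat_lit 912) (nat_lit 2847741751) (nat_lit 988) (nat_lit 5114532711) (nat_lit 233) (nat_lit 5) (nat_lit 245) (nat_lit 5) (nat_lit 246) (nat_lit 5) (nat_lit 274) (nat_lit 269) (nat_lit 237)) (XT.nd (nat_lit 78) (nat_lit 0) (nat_lit 0) (XT.lf (nat_lit 0) (nat_lit 2394568887) (nat_lit 912) (nat_lit 4464202764) (nat_lit 988) (nat_lit 1330500349) (nat_lit 234) (nat_lit 5) (nat_lit 246) (nat_lit 5) (nat_lit 247) (nat_lit 5) (nat_lit 275) (nat_lit 269) (nat_lit 236)) (XT.lf (nat_lit 76) (nat_lit 2266789179) (nat_lit 0) (nat_lit 2523610529) (nat_lit 988) (nat_lit 3560606202) (nat_lit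 235) (nat_lit 5) (nat_lit 234) (nat_lit 5) (nat_lit 247) (nat_lit 5) (nat_lit 276) (nat_lit 269) (nat_lit 235)))) (XT.nd (nat_lit 156) (nat_lit 912) (nat_lit 0) (XT.nd (nat_lit 78) (nat_lit 988) (nat_lit 0) (XT.lf (nat_lit 76) (nat_lit 817649322) (nat_lit 0) (nat_lit 6446110244) (nat_lit 988) (nat_lit 1258513711) (nat_lit 236) (nat_lit 5) (nat_lit 235) (nat_lit 5) (nat_lit 248) (nat_lit 5) (nat_lit 277) (nat_lit 269) (nat_lit 234)) (XT.lf (nat_lit 0) (nat_lit 1112215047) (nat_lit 988) (nat_lit 632154604) (nat_lit 1064) (nat_lit 6958281379) (nat_lit 222) (nat_lit 5) (nat_lit 235) (nat_lit 5) (nat_lit 236) (nat_lit 5) (nat_lit 278) (nat_lit 269) (nat_lit 233))) (XT.nd (nat_lit 78) (nat_lit 988) (nat_lit 0) (XT.lf (nat_lit 0) (nat_lit 3565852389) (nat_lit 988) (nat_lit 2092550812) (nat_lit 76) (nat_lit 3233716183) (nat_lit 223) (nat_lit 5) (nat_lit 236) (nat_lit 5) (nat_lit 224) (nat_lit 5)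 (nat_lit 279) (nat_lit 269) (nat_lit 232)) (XT.lf (nat_lit 0) (nat_lit 5532071110) (nat_lit 988) (nat_lit 584793162) (nat_lit 1064) (nat_lit 2975106131) (nat_lit 210) (nat_lit 5) (nat_lit 223) (nat_lit 5) (nat_lit 224) (nat_lit 5) (nat_lit 280) (nat_lit 269) (nat_lit 231)))))) (XT.nd (nat_lit 468) (nat_lit 2964) (nat_lit 0) (XT.nd (nat_lit 234) (nat_lit 1216) (nat_lit 0) (XT.nd (nat_lit 78) (nat_lit 1824) (nat_lit 0) (XT.lf (nat_lit 0) (nat_lit 4232976890) (nat_lit 1064) (nat_lit 4572096705) (nat_lit 1140) (nat_lit 496593858) (nat_lit 196) (nat_lit 5) (nat_lit 210) (nat_lit 5) (nat_lit 211) (nat_lit 5) (nat_lit 281) (nat_lit 269) (nat_lit 230)) (XT.nd (nat_lit 78) (nat_lit 608) (nat_lit 0) (XT.lf (nat_lit 0) (nat_lit 2048548526) (nat_lit 1216) (nat_lit 6614928475) (nat_lit 76) (nat_lit 858383280) (nat_lit 180) (nat_lit 5) (nat_lit 196) (nat_lit 5) (nat_lit 181) (nat_lit 5) (nat_lit 282) (nat_lit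 269) (nat_lit 229)) (XT.lf (nat_lit 0) (nat_lit 1529430152) (nat_lit 608) (nat_lit 3203195587) (nat_lit 684) (nat_lit 5019756892) (nat_lit 172) (nat_lit 5) (nat_lit 180) (nat_lit 5) (nat_lit 181) (nat_lit 5) (nat_lit 283) (nat_lit 269) (nat_lit 228)))) (XT.nd (nat_lit 78) (nat_lit 608) (nat_lit 0) (XT.lf (nat_lit 0) (nat_lit 119287453) (nat_lit 608) (nat_lit 7437800430) (nat_lit 684) (nat_lit 2437277621) (nat_lit 164) (nat_lit 5) (nat_lit 172) (nat_lit 5) (nat_lit 173) (nat_lit 5) (nat_lit 284) (nat_lit 269) (nat_lit 227)) (XT.nd (nat_lit 78) (nat_lit 532) (nat_lit 0) (XT.lf (nat_lit 0) (nat_lit 301184148) (nat_lit 684) (nat_lit 1315516075) (nat_lit 76) (nat_lit 8630812642) (nat_lit 163) (nat_lit 5) (nat_lit 172) (nat_lit 5) (nat_lit 164) (nat_lit 5) (nat_lit 285) (nat_lit 269) (nat_lit 226)) (XT.lf (nat_lit 0) (nat_lit 3163493383) (nat_lit 608) (nat_lit 2839347368) (nat_lit 76) (nat_lit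 4508738498) (nat_lit 156) (nat_lit 5) (nat_lit 164) (nat_lit 5) (nat_lit 157) (nat_lit 5) (nat_lit 286) (nat_lit 269) (nat_lit 225))))) (XT.nd (nat_lit 234) (nat_lit 1368) (nat_lit 0) (XT.nd (nat_lit 78) (nat_lit 1064) (nat_lit 0) (XT.lf (nat_lit 0) (nat_lit 6183676257) (nat_lit 608) (nat_lit 4414467665) (nat_lit 76) (nat_lit 190362787) (nat_lit 149) (nat_lit 5) (nat_lit 157) (nat_lit 5) (nat_lit 150) (nat_lit 5) (nat_lit 287) (nat_lit 269) (nat_lit 224)) (XT.nd (nat_lit 78) (nat_lit 608) (nat_lit 0) (XT.lf (nat_lit 0) (nat_lit 4984975857) (nat_lit 456) (nat_lit 4432481529) (nat_lit 532) (nat_lit 1660041199) (nat_lit 143) (nat_lit 5) (nat_lit 149) (nat_lit 5) (nat_lit 150) (nat_lit 5) (nat_lit 288) (nat_lit 269) (nat_lit 223)) (XT.lf (nat_lit 0) (nat_lit 1431076295) (nat_lit 608) (nat_lit 7858628702) (nat_lit 76) (nat_lit 2090099648) (nat_lit 135) (nat_lit 5) (nat_lit 143) (nat_lit 5) (nat_lit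 136) (nat_lit 5) (nat_lit 289) (nat_lit 269) (nat_lit 222)))) (XT.nd (nat_lit 156) (nat_lit 456) (nat_lit 0) (XT.nd (nat_lit 78) (nat_lit 456) (nat_lit 0) (XT.lf (nat_lit 0) (nat_lit 1943802635) (nat_lit 456) (nat_lit 2754978867) (nat_lit 532) (nat_lit 6996344792) (nat_lit 129) (nat_lit 5) (nat_lit 135) (nat_lit 5) (nat_lit 136) (nat_lit 5) (nat_lit 290) (nat_lit 269) (nat_lit 221)) (XT.lf (nat_lit 0) (nat_lit 262335512) (nat_lit 456) (nat_lit 7923051043) (nat_lit 532) (nat_lit 3839242308) (nat_lit 123) (nat_lit 5) (nat_lit 129) (nat_lit 5) (nat_lit 130) (nat_lit 5) (nat_lit 291) (nat_lit 269) (nat_lit 220))) (XT.nd (nat_lit 78) (nat_lit 456) (nat_lit 0) (XT.lf (nat_lit 0) (nat_lit 10875065380) (nat_lit 456) (nat_lit 1033498252) (nat_lit 532) (nat_lit 460252129) (nat_lit 123) (nat_lit 5) (nat_lit 129) (nat_lit 5) (nat_lit 130) (nat_lit 5) (nat_lit 292) (nat_lit 269) (nat_lit 219)) (XT.lf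 (nat_lit 0) (nat_lit 3114915077) (nat_lit 456) (nat_lit 3422638658) (nat_lit 76) (nat_lit 6189214155) (nat_lit 117) (nat_lit 5) (nat_lit 123) (nat_lit 5) (nat_lit 118) (nat_lit 5) (nat_lit 293) (nat_lit 269) (nat_lit 218))))))) (XT.nd (nat_lit 1014) (nat_lit 2204) (nat_lit 0) (XT.nd (nat_lit 468) (nat_lit 1976) (nat_lit 0) (XT.nd (nat_lit 234) (nat_lit 684) (nat_lit 0) (XT.nd (nat_lit 78) (nat_lit 836) (nat_lit 0) (XT.lf (nat_lit 0) (nat_lit 6904725543) (nat_lit 456) (nat_lit 5478142560) (nat_lit 76) (nat_lit 718318031) (nat_lit 112) (nat_lit 5) (nat_lit 118) (nat_lit 5) (nat_lit 113) (nat_lit 5) (nat_lit 294) (nat_lit 269) (nat_lit 217)) (XT.nd (nat_lit 78) (nat_lit 456) (nat_lit 0) (XT.lf (nat_lit 0) (nat_lit 5771657145) (nat_lit 380) (nat_lit 5210466172) (nat_lit 456) (nat_lit 2509323189) (nat_lit 107) (nat_lit 5) (nat_lit 112) (nat_lit 5) (nat_lit 113) (nat_lit 5) (nat_lit 295) (nat_lit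 269) (nat_lit 216)) (XT.lf (nat_lit 0) (nat_lit 1394690791) (nat_lit 456) (nat_lit 10136880107) (nat_lit 76) (nat_lit 2367542448) (nat_lit 101) (nat_lit 5) (nat_lit 107) (nat_lit 5) (nat_lit 102) (nat_lit 5) (nat_lit 296) (nat_lit 269) (nat_lit 215)))) (XT.nd (nat_lit 78) (nat_lit 380) (nat_lit 0) (XT.lf (nat_lit 0) (nat_lit 1533659655) (nat_lit 304) (nat_lit 4000869137) (nat_lit 380) (nat_lit 8789170258) (nat_lit 97) (nat_lit 5) (nat_lit 101) (nat_lit 5) (nat_lit 102) (nat_lit 5) (nat_lit 297) (nat_lit 269) (nat_lit 214)) (XT.nd (nat_lit 78) (nat_lit 380) (nat_lit 0) (XT.lf (nat_lit 0) (nat_lit 9970549017) (nat_lit 380) (nat_lit 877293777) (nat_lit 76) (nat_lit 3919049310) (nat_lit 97) (nat_lit 5) (nat_lit 102) (nat_lit 5) (nat_lit 98) (nat_lit 5) (nat_lit 298) (nat_lit 269) (nat_lit 213)) (XT.lf (nat_lit 0) (nat_lit 11751561662) (nat_lit 380) (nat_lit 2978969265) (nat_lit 456) (nat_lit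 498700278) (nat_lit 92) (nat_lit 5) (nat_lit 97) (nat_lit 5) (nat_lit 98) (nat_lit 5) (nat_lit 299) (nat_lit 269) (nat_lit 212))))) (XT.nd (nat_lit 234) (nat_lit 988) (nat_lit 0) (XT.nd (nat_lit 78) (nat_lit 608) (nat_lit 0) (XT.lf (nat_lit 0) (nat_lit 4036971482) (nat_lit 380) (nat_lit 6371223685) (nat_lit 76) (nat_lit 5302337821) (nat_lit 87) (nat_lit 5) (nat_lit 92) (nat_lit 5) (nat_lit 88) (nat_lit 5) (nat_lit 300) (nat_lit 269) (nat_lit 211)) (XT.nd (nat_lit 78) (nat_lit 304) (nat_lit 0) (XT.lf (nat_lit 0) (nat_lit 6683012138) (nat_lit 304) (nat_lit 2188315532) (nat_lit 380) (nat_lit 7342002719) (nat_lit 83) (nat_lit 5) (nat_lit 87) (nat_lit 5) (nat_lit 88) (nat_lit 5) (nat_lit 301) (nat_lit 269) (nat_lit 210)) (XT.lf (nat_lit 0) (nat_lit 3727686338) (nat_lit 304) (nat_lit 10336870515) (nat_lit 380) (nat_lit 2673239104) (nat_lit 79) (nat_lit 5) (nat_lit 83) (nat_lit 5) (nat_lit 84) (nat_lit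 5) (nat_lit 302) (nat_lit 269) (nat_lit 209)))) (XT.nd (nat_lit 156) (nat_lit 608) (nat_lit 0) (XT.nd (nat_lit 78) (nat_lit 0) (nat_lit 0) (XT.lf (nat_lit 0) (nat_lit 461399576) (nat_lit 304) (nat_lit 1803948987) (nat_lit 380) (nat_lit 15020136742) (nat_lit 74) (nat_lit 5) (nat_lit 78) (nat_lit 5) (nat_lit 79) (nat_lit 5) (nat_lit 303) (nat_lit 269) (nat_lit 208)) (XT.lf (nat_lit 0) (nat_lit 7555793244) (nat_lit 380) (nat_lit 3139904680) (nat_lit 76) (nat_lit 7159298561) (nat_lit 74) (nat_lit 5) (nat_lit 79) (nat_lit 5) (nat_lit 75) (nat_lit 5) (nat_lit 304) (nat_lit 269) (nat_lit 207))) (XT.nd (nat_lit 78) (nat_lit 380) (nat_lit 0) (XT.lf (nat_lit 0) (nat_lit 11370608008) (nat_lit 228) (nat_lit 1825434969) (nat_lit 304) (nat_lit 5254417785) (nat_lit 71) (nat_lit 5) (nat_lit 74) (nat_lit 5) (nat_lit 75) (nat_lit 5) (nat_lit 305) (nat_lit 269) (nat_lit 206)) (XT.lf (nat_lit 0) (nat_lit 179929167)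 (nat_lit 380) (nat_lit 11460468342) (nat_lit 76) (nat_lit 7431177158) (nat_lit 66) (nat_lit 5) (nat_lit 71) (nat_lit 5) (nat_lit 67) (nat_lit 5) (nat_lit 306) (nat_lit 269) (nat_lit 205)))))) (XT.nd (nat_lit 546) (nat_lit 988) (nat_lit 0) (XT.nd (nat_lit 234) (nat_lit 760) (nat_lit 0) (XT.nd (nat_lit 78) (nat_lit 228) (nat_lit 0) (XT.lf (nat_lit 0) (nat_lit 3397168598) (nat_lit 228) (nat_lit 2465834395) (nat_lit 304) (nat_lit 13856641909) (nat_lit 63) (nat_lit 5) (nat_lit 66) (nat_lit 5) (nat_lit 67) (nat_lit 5) (nat_lit 307) (nat_lit 269) (nat_lit 204)) (XT.nd (nat_lit 78) (nat_lit 228) (nat_lit 0) (XT.lf (nat_lit 0) (nat_lit 11979415787) (nat_lit 304) (nat_lit 1288697636) (nat_lit 76) (nat_lit 7127559879) (nat_lit 63) (nat_lit 5) (nat_lit 67) (nat_lit 5) (nat_lit 64) (nat_lit 5) (nat_lit 308) (nat_lit 269) (nat_lit 203)) (XT.lf (nat_lit 0) (nat_lit 14702368667) (nat_lit 228) (nat_lit 3828491088)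 (nat_lit 304) (nat_lit 2570795826) (nat_lit 60) (nat_lit 5) (nat_lit 63) (nat_lit 5) (nat_lit 64) (nat_lit 5) (nat_lit 309) (nat_lit 269) (nat_lit 202)))) (XT.nd (nat_lit 156) (nat_lit 228) (nat_lit 0) (XT.nd (nat_lit 78) (nat_lit 228) (nat_lit 0) (XT.lf (nat_lit 0) (nat_lit 3628266375) (nat_lit 304) (nat_lit 12121258246) (nat_lit 76) (nat_lit 6088482391) (nat_lit 56) (nat_lit 5) (nat_lit 60) (nat_lit 5) (nat_lit 57) (nat_lit 5) (nat_lit 310) (nat_lit 269) (nat_lit 201)) (XT.lf (nat_lit 0) (nat_lit 4123497741) (nat_lit 228) (nat_lit 6070785776) (nat_lit 304) (nat_lit 12412849139) (nat_lit 53) (nat_lit 5) (nat_lit 56) (nat_lit 5) (nat_lit 57) (nat_lit 5) (nat_lit 311) (nat_lit 269) (nat_lit 200))) (XT.nd (nat_lit 78) (nat_lit 228) (nat_lit 0) (XT.lf (nat_lit 0) (nat_lit 17219792636) (nat_lit 304) (nat_lit 2071873615) (nat_lit 76) (nat_lit 4119136728) (nat_lit 53) (nat_lit 5) (nat_lit 57) (nat_lit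 5) (nat_lit 54) (nat_lit 5) (nat_lit 312) (nat_lit 269) (nat_lit 199)) (XT.lf (nat_lit 0) (nat_lit 513241713) (nat_lit 228) (nat_lit 8907289832) (nat_lit 76) (nat_lit 14828709182) (nat_lit 50) (nat_lit 5) (nat_lit 53) (nat_lit 5) (nat_lit 51) (nat_lit 5) (nat_lit 313) (nat_lit 269) (nat_lit 198))))) (XT.nd (nat_lit 234) (nat_lit 608) (nat_lit 0) (XT.nd (nat_lit 78) (nat_lit 152) (nat_lit 0) (XT.lf (nat_lit 0) (nat_lit 7508767068) (nat_lit 304) (nat_lit 16541017361) (nat_lit 76) (nat_lit 1075475261) (nat_lit 47) (nat_lit 5) (nat_lit 51) (nat_lit 5) (nat_lit 48) (nat_lit 5) (nat_lit 314) (nat_lit 269) (nat_lit 197)) (XT.nd (nat_lit 78) (nat_lit 0) (nat_lit 0) (XT.lf (nat_lit 0) (nat_lit 967003131) (nat_lit 152) (nat_lit 14053113194) (nat_lit 228) (nat_lit 11020002085) (nat_lit 45) (nat_lit 5) (nat_lit 47) (nat_lit 5) (nat_lit 48) (nat_lit 5) (nat_lit 315) (nat_lit 269) (nat_lit 196)) (XT.lf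 (nat_lit 0) (nat_lit 19647483995) (nat_lit 152) (nat_lit 3399897980) (nat_lit 228) (nat_lit 3949146898) (nat_lit 45) (nat_lit 5) (nat_lit 47) (nat_lit 5) (nat_lit 48) (nat_lit 5) (nat_lit 316) (nat_lit 269) (nat_lit 195)))) (XT.nd (nat_lit 156) (nat_lit 152) (nat_lit 0) (XT.nd (nat_lit 78) (nat_lit 152) (nat_lit 0) (XT.lf (nat_lit 0) (nat_lit 3564338042) (nat_lit 304) (nat_lit 16669967409) (nat_lit 76) (nat_lit 7760762994) (nat_lit 41) (nat_lit 5) (nat_lit 45) (nat_lit 5) (nat_lit 42) (nat_lit 5) (nat_lit 317) (nat_lit 269) (nat_lit 194)) (XT.lf (nat_lit 0) (nat_lit 1962415768) (nat_lit 152) (nat_lit 9511709801) (nat_lit 228) (nat_lit 17565184304) (nat_lit 39) (nat_lit 5) (nat_lit 41) (nat_lit 5) (nat_lit 42) (nat_lit 5) (nat_lit 318) (nat_lit 269) (nat_lit 193))) (XT.nd (nat_lit 78) (nat_lit 152) (nat_lit 0) (XT.lf (nat_lit 0) (nat_lit 19942193029) (nat_lit 228) (nat_lit 8319886590) (nat_lit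 76) (nat_lit 1868816201) (nat_lit 39) (nat_lit 5) (nat_lit 42) (nat_lit 5) (nat_lit 40) (nat_lit 5) (nat_lit 319) (nat_lit 269) (nat_lit 192)) (XT.lf (nat_lit 0) (nat_lit 11459196288) (nat_lit 152) (nat_lit 17554620113) (nat_lit 228) (nat_lit 2257855484) (nat_lit 37) (nat_lit 5) (nat_lit 39) (nat_lit 5) (nat_lit 40) (nat_lit 5) (nat_lit 320) (nat_lit 269) (nat_lit 191))))))))
noncomputable def xc67 : XT := (XT.nd (nat_lit 2028) (nat_lit 380) (nat_lit 0) (XT.nd (nat_lit 1014) (nat_lit 760) (nat_lit 0) (XT.nd (nat_lit 468) (nat_lit 532) (nat_lit 0) (XT.nd (nat_lit 234) (nat_lit 228) (nat_lit 0) (XT.nd (nat_lit 78) (nat_lit 304) (nat_lit 0) (XT.lf (nat_lit 0) (nat_lit 6012154981) (nat_lit 228) (nat_lit 167673091) (nat_lit 76) (nat_lit 26286090816) (nat_lit 36) (nat_lit 5) (nat_lit 39) (nat_lit 5) (nat_lit 37) (nat_lit 5) (nat_lit 321) (nat_lit 269) (nat_lit 190)) (XT.nd (nat_lit 78) (nat_lit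 152) (nat_lit 0) (XT.lf (nat_lit 0) (nat_lit 14882593033) (nat_lit 228) (nat_lit 12969514891) (nat_lit 76) (nat_lit 5860104535) (nat_lit 34) (nat_lit 5) (nat_lit 37) (nat_lit 5) (nat_lit 35) (nat_lit 5) (nat_lit 322) (nat_lit 269) (nat_lit 189)) (XT.lf (nat_lit 0) (nat_lit 7729740497) (nat_lit 152) (nat_lit 16581629924) (nat_lit 228) (nat_lit 10706018676) (nat_lit 32) (nat_lit 5) (nat_lit 34) (nat_lit 5) (nat_lit 35) (nat_lit 5) (nat_lit 323) (nat_lit 269) (nat_lit 188)))) (XT.nd (nat_lit 78) (nat_lit 228) (nat_lit 0) (XT.lf (nat_lit 0) (nat_lit 29696105973) (nat_lit 152) (nat_lit 4626137468) (nat_lit 228) (nat_lit 2062273720) (nat_lit 32) (nat_lit 5) (nat_lit 34) (nat_lit 5) (nat_lit 35) (nat_lit 5) (nat_lit 324) (nat_lit 269) (nat_lit 187)) (XT.nd (nat_lit 78) (nat_lit 0) (nat_lit 0) (XT.lf (nat_lit 0) (nat_lit 7078414191) (nat_lit 228) (nat_lit 22761289123) (nat_lit 76) (nat_lit 7972238575)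 (nat_lit 29) (nat_lit 5) (nat_lit 32) (nat_lit 5) (nat_lit 30) (nat_lit 5) (nat_lit 325) (nat_lit 269) (nat_lit 186)) (XT.lf (nat_lit 0) (nat_lit 16728668116) (nat_lit 228) (nat_lit 1397329094) (nat_lit 76) (nat_lit 21181283437) (nat_lit 29) (nat_lit 5) (nat_lit 32) (nat_lit 5) (nat_lit 30) (nat_lit 5) (nat_lit 326) (nat_lit 269) (nat_lit 185))))) (XT.nd (nat_lit 234) (nat_lit 228) (nat_lit 0) (XT.nd (nat_lit 78) (nat_lit 152) (nat_lit 0) (XT.lf (nat_lit 0) (nat_lit 21417615792) (nat_lit 152) (nat_lit 5629279517) (nat_lit 228) (nat_lit 13824937530) (nat_lit 27) (nat_lit 5) (nat_lit 29) (nat_lit 5) (nat_lit 30) (nat_lit 5) (nat_lit 327) (nat_lit 269) (nat_lit 184)) (XT.nd (nat_lit 78) (nat_lit 76) (nat_lit 0) (XT.lf (nat_lit 0) (nat_lit 2836917183) (nat_lit 76) (nat_lit 35138021260) (nat_lit 152) (nat_lit 4536866882) (nat_lit 26) (nat_lit 5) (nat_lit 27) (nat_lit 5) (nat_lit 28) (nat_lit 4)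 (nat_lit 328) (nat_lit 269) (nat_lit 183)) (XT.lf (nat_lit 0) (nat_lit 5353408864) (nat_lit 152) (nat_lit 17721570967) (nat_lit 76) (nat_lit 21150114313) (nat_lit 25) (nat_lit 5) (nat_lit 27) (nat_lit 5) (nat_lit 26) (nat_lit 5) (nat_lit 329) (nat_lit 269) (nat_lit 182)))) (XT.nd (nat_lit 156) (nat_lit 76) (nat_lit 0) (XT.nd (nat_lit 78) (nat_lit 0) (nat_lit 0) (XT.lf (nat_lit 0) (nat_lit 5355739284) (nat_lit 152) (nat_lit 10322424953) (nat_lit 228) (nat_lit 30343530377) (nat_lit 23) (nat_lit 5) (nat_lit 25) (nat_lit 5) (nat_lit 26) (nat_lit 5) (nat_lit 330) (nat_lit 269) (nat_lit 181)) (XT.lf (nat_lit 0) (nat_lit 26714772777) (nat_lit 228) (nat_lit 18008584231) (nat_lit 76) (nat_lit 3178907873) (nat_lit 23) (nat_lit 5) (nat_lit 26) (nat_lit 5) (nat_lit 24) (nat_lit 4) (nat_lit 331) (nat_lit 269) (nat_lit 180))) (XT.nd (nat_lit 78) (nat_lit 0) (nat_lit 0) (XT.lf (nat_lit 0) (nat_lit 5759494945)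 (nat_lit 76) (nat_lit 32686021688) (nat_lit 152) (nat_lit 11427085729) (nat_lit 22) (nat_lit 5) (nat_lit 23) (nat_lit 5) (nat_lit 24) (nat_lit 4) (nat_lit 332) (nat_lit 269) (nat_lit 179)) (XT.lf (nat_lit 0) (nat_lit 31062812622) (nat_lit 76) (nat_lit 19868659634) (nat_lit 152) (nat_lit 1004931695) (nat_lit 22) (nat_lit 5) (nat_lit 23) (nat_lit 5) (nat_lit 24) (nat_lit 4) (nat_lit 333) (nat_lit 269) (nat_lit 178)))))) (XT.nd (nat_lit 468) (nat_lit 228) (nat_lit 0) (XT.nd (nat_lit 234) (nat_lit 304) (nat_lit 0) (XT.nd (nat_lit 78) (nat_lit 0) (nat_lit 0) (XT.lf (nat_lit 0) (nat_lit 3471698194) (nat_lit 152) (nat_lit 6289994496) (nat_lit 228) (nat_lit 44338324979) (nat_lit 19) (nat_lit 5) (nat_lit 21) (nat_lit 5) (nat_lit 22) (nat_lit 5) (nat_lit 334) (nat_lit 269) (nat_lit 177)) (XT.nd (nat_lit 78) (nat_lit 0) (nat_lit 0) (XT.lf (nat_lit 0) (nat_lit 21323957994) (nat_lit 228) (nat_lit 27011735142)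 (nat_lit 76) (nat_lit 8027484228) (nat_lit 19) (nat_lit 5) (nat_lit 22) (nat_lit 5) (nat_lit 20) (nat_lit 4) (nat_lit 335) (nat_lit 269) (nat_lit 176)) (XT.lf (nat_lit 0) (nat_lit 33512878105) (nat_lit 228) (nat_lit 2304434891) (nat_lit 76) (nat_lit 22920732067) (nat_lit 19) (nat_lit 5) (nat_lit 22) (nat_lit 5) (nat_lit 20) (nat_lit 4) (nat_lit 336) (nat_lit 269) (nat_lit 175)))) (XT.nd (nat_lit 78) (nat_lit 228) (nat_lit 0) (XT.lf (nat_lit 0) (nat_lit 24082813898) (nat_lit 76) (nat_lit 22445695830) (nat_lit 152) (nat_lit 14696634422) (nat_lit 18) (nat_lit 5) (nat_lit 19) (nat_lit 5) (nat_lit 20) (nat_lit 4) (nat_lit 337) (nat_lit 269) (nat_lit 174)) (XT.nd (nat_lit 78) (nat_lit 228) (nat_lit 0) (XT.lf (nat_lit 0) (nat_lit 51812949032) (nat_lit 76) (nat_lit 8391903785) (nat_lit 152) (nat_lit 3631453160) (nat_lit 18) (nat_lit 5) (nat_lit 19) (nat_lit 5) (nat_lit 20) (nat_lit 4) (nat_lit 338)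 (nat_lit 269) (nat_lit 173)) (XT.lf (nat_lit 0) (nat_lit 8020800908) (nat_lit 228) (nat_lit 52100472847) (nat_lit 76) (nat_lit 6448764064) (nat_lit 15) (nat_lit 5) (nat_lit 18) (nat_lit 5) (nat_lit 16) (nat_lit 4) (nat_lit 339) (nat_lit 269) (nat_lit 172))))) (XT.nd (nat_lit 234) (nat_lit 152) (nat_lit 0) (XT.nd (nat_lit 78) (nat_lit 76) (nat_lit 0) (XT.lf (nat_lit 0) (nat_lit 20378000259) (nat_lit 228) (nat_lit 27044278613) (nat_lit 76) (nat_lit 22011180639) (nat_lit 15) (nat_lit 5) (nat_lit 18) (nat_lit 5) (nat_lit 16) (nat_lit 4) (nat_lit 340) (nat_lit 269) (nat_lit 171)) (XT.nd (nat_lit 78) (nat_lit 76) (nat_lit 0) (XT.lf (nat_lit 0) (nat_lit 33340718274) (nat_lit 228) (nat_lit 757504326) (nat_lit 76) (nat_lit 38342204694) (nat_lit 15) (nat_lit 5) (nat_lit 18) (nat_lit 5) (nat_lit 16) (nat_lit 4) (nat_lit 341) (nat_lit 269) (nat_lit 170)) (XT.lf (nat_lit 0) (nat_lit 27356256672) (nat_lit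 76) (nat_lit 19846526970) (nat_lit 152) (nat_lit 28387428020) (nat_lit 14) (nat_lit 5) (nat_lit 15) (nat_lit 5) (nat_lit 16) (nat_lit 4) (nat_lit 342) (nat_lit 269) (nat_lit 169)))) (XT.nd (nat_lit 156) (nat_lit 76) (nat_lit 0) (XT.nd (nat_lit 78) (nat_lit 76) (nat_lit 0) (XT.lf (nat_lit 0) (nat_lit 56870971095) (nat_lit 76) (nat_lit 4883387421) (nat_lit 152) (nat_lit 17143238869) (nat_lit 14) (nat_lit 5) (nat_lit 15) (nat_lit 5) (nat_lit 16) (nat_lit 4) (nat_lit 343) (nat_lit 269) (nat_lit 168)) (XT.lf (nat_lit 0) (nat_lit 5473970635) (nat_lit 76) (nat_lit 71705312020) (nat_lit 76) (nat_lit 5186700740) (nat_lit 13) (nat_lit 4) (nat_lit 14) (nat_lit 5) (nat_lit 14) (nat_lit 4) (nat_lit 344) (nat_lit 269) (nat_lit 167))) (XT.nd (nat_lit 78) (nat_lit 0) (nat_lit 0) (XT.lf (nat_lit 0) (nat_lit 7491467092) (nat_lit 152) (nat_lit 51332933012) (nat_lit 76) (nat_lit 27173240562) (nat_lit 12) (nat_lit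 5) (nat_lit 14) (nat_lit 5) (nat_lit 13) (nat_lit 4) (nat_lit 345) (nat_lit 269) (nat_lit 166)) (XT.lf (nat_lit 0) (nat_lit 20687074946) (nat_lit 152) (nat_lit 24566801382) (nat_lit 76) (nat_lit 44555743477) (nat_lit 12) (nat_lit 5) (nat_lit 14) (nat_lit 5) (nat_lit 13) (nat_lit 4) (nat_lit 346) (nat_lit 269) (nat_lit 165))))))) (XT.nd (nat_lit 1014) (nat_lit 0) (nat_lit 0) (XT.nd (nat_lit 468) (nat_lit 152) (nat_lit 0) (XT.nd (nat_lit 234) (nat_lit 152) (nat_lit 0) (XT.nd (nat_lit 78) (nat_lit 0) (nat_lit 0) (XT.lf (nat_lit 0) (nat_lit 3590023034) (nat_lit 76) (nat_lit 30977238612) (nat_lit 152) (nat_lit 59244195755) (nat_lit 11) (nat_lit 5) (nat_lit 12) (nat_lit 5) (nat_lit 13) (nat_lit 4) (nat_lit 347) (nat_lit 269) (nat_lit 164)) (XT.nd (nat_lit 78) (nat_lit 0) (nat_lit 0) (XT.lf (nat_lit 0) (nat_lit 33650900942) (nat_lit 76) (nat_lit 15734036701) (nat_lit 152) (nat_lit 48621148123) (nat_lit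 11) (nat_lit 5) (nat_lit 12) (nat_lit 5) (nat_lit 13) (nat_lit 4) (nat_lit 348) (nat_lit 269) (nat_lit 163)) (XT.lf (nat_lit 0) (nat_lit 64937069338) (nat_lit 152) (nat_lit 37214776512) (nat_lit 0) (nat_lit 258795676) (nat_lit 11) (nat_lit 5) (nat_lit 13) (nat_lit 4) (nat_lit 11) (nat_lit 4) (nat_lit 349) (nat_lit 269) (nat_lit 162)))) (XT.nd (nat_lit 78) (nat_lit 152) (nat_lit 0) (XT.lf (nat_lit 0) (nat_lit 81417009112) (nat_lit 152) (nat_lit 8891912908) (nat_lit 0) (nat_lit 16721999993) (nat_lit 11) (nat_lit 5) (nat_lit 13) (nat_lit 4) (nat_lit 11) (nat_lit 4) (nat_lit 350) (nat_lit 269) (nat_lit 161)) (XT.nd (nat_lit 78) (nat_lit 76) (nat_lit 0) (XT.lf (nat_lit 0) (nat_lit 21246685932) (nat_lit 76) (nat_lit 77670299941) (nat_lit 76) (nat_lit 12959352291) (nat_lit 10) (nat_lit 4) (nat_lit 11) (nat_lit 5) (nat_lit 11) (nat_lit 4) (nat_lit 351) (nat_lit 269) (nat_lit 160)) (XT.lf (nat_lit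 0) (nat_lit 405950507) (nat_lit 152) (nat_lit 63902047672) (nat_lit 76) (nat_lit 52653402600) (nat_lit 9) (nat_lit 5) (nat_lit 11) (nat_lit 5) (nat_lit 10) (nat_lit 4) (nat_lit 352) (nat_lit 269) (nat_lit 159))))) (XT.nd (nat_lit 234) (nat_lit 76) (nat_lit 0) (XT.nd (nat_lit 78) (nat_lit 76) (nat_lit 0) (XT.lf (nat_lit 0) (nat_lit 14166345574) (nat_lit 152) (nat_lit 35982902403) (nat_lit 76) (nat_lit 72147776346) (nat_lit 9) (nat_lit 5) (nat_lit 11) (nat_lit 5) (nat_lit 10) (nat_lit 4) (nat_lit 353) (nat_lit 269) (nat_lit 158)) (XT.nd (nat_lit 78) (nat_lit 76) (nat_lit 0) (XT.lf (nat_lit 0) (nat_lit 28607479395) (nat_lit 152) (nat_lit 6681169047) (nat_lit 76) (nat_lit 92611001413) (nat_lit 9) (nat_lit 5) (nat_lit 11) (nat_lit 5) (nat_lit 10) (nat_lit 4) (nat_lit 354) (nat_lit 269) (nat_lit 157)) (XT.lf (nat_lit 0) (nat_lit 24552016704) (nat_lit 76) (nat_lit 19447727923) (nat_lit 152) (nat_lit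 89775792066) (nat_lit 8) (nat_lit 5) (nat_lit 9) (nat_lit 5) (nat_lit 10) (nat_lit 4) (nat_lit 355) (nat_lit 269) (nat_lit 156)))) (XT.nd (nat_lit 156) (nat_lit 76) (nat_lit 0) (XT.nd (nat_lit 78) (nat_lit 0) (nat_lit 0) (XT.lf (nat_lit 0) (nat_lit 57474110954) (nat_lit 76) (nat_lit 2749565942) (nat_lit 152) (nat_lit 79719681525) (nat_lit 8) (nat_lit 5) (nat_lit 9) (nat_lit 5) (nat_lit 10) (nat_lit 4) (nat_lit 356) (nat_lit 269) (nat_lit 155)) (XT.lf (nat_lit 0) (nat_lit 77394459364) (nat_lit 152) (nat_lit 54531290513) (nat_lit 0) (nat_lit 14489753808) (nat_lit 8) (nat_lit 5) (nat_lit 10) (nat_lit 4) (nat_lit 8) (nat_lit 4) (nat_lit 357) (nat_lit 269) (nat_lit 154))) (XT.nd (nat_lit 78) (nat_lit 76) (nat_lit 0) (XT.lf (nat_lit 0) (nat_lit 95445385848) (nat_lit 152) (nat_lit 25235541183) (nat_lit 0) (nat_lit 32529682995) (nat_lit 8) (nat_lit 5) (nat_lit 10) (nat_lit 4) (nat_lit 8) (nat_lit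 4) (nat_lit 358) (nat_lit 269) (nat_lit 153)) (XT.lf (nat_lit 0) (nat_lit 5623925865) (nat_lit 76) (nat_lit 108823138986) (nat_lit 76) (nat_lit 45896962516) (nat_lit 7) (nat_lit 4) (nat_lit 8) (nat_lit 5) (nat_lit 8) (nat_lit 4) (nat_lit 359) (nat_lit 269) (nat_lit 152)))))) (XT.nd (nat_lit 34086) (nat_lit 0) (nat_lit 14288) (XT.nd (nat_lit 33774) (nat_lit 0) (nat_lit 17100) (XT.nd (nat_lit 33618) (nat_lit 0) (nat_lit 17936) (XT.lf (nat_lit 0) (nat_lit 38543212005) (nat_lit 76) (nat_lit 96109716829) (nat_lit 76) (nat_lit 33173565487) (nat_lit 7) (nat_lit 4) (nat_lit 8) (nat_lit 5) (nat_lit 8) (nat_lit 4) (nat_lit 360) (nat_lit 269) (nat_lit 151)) (XT.nd (nat_lit 78) (nat_lit 0) (nat_lit 0) (XT.lf (nat_lit 0) (nat_lit 188976313) (nat_lit 0) (nat_lit 188976313) (nat_lit 836) (nat_lit 3434972355) (nat_lit 243) (nat_lit 5) (nat_lit 243) (nat_lit 3) (nat_lit 254) (nat_lit 3) (nat_lit 270) (nat_lit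 270) (nat_lit 240)) (XT.lf (nat_lit 0) (nat_lit 2960715364) (nat_lit 836) (nat_lit 1512822726) (nat_lit 912) (nat_lit 3273882006) (nat_lit 243) (nat_lit 5) (nat_lit 254) (nat_lit 3) (nat_lit 255) (nat_lit 5) (nat_lit 271) (nat_lit 270) (nat_lit 239)))) (XT.nd (nat_lit 156) (nat_lit 836) (nat_lit 0) (XT.nd (nat_lit 78) (nat_lit 0) (nat_lit 76) (XT.lf (nat_lit 76) (nat_lit 4519422769) (nat_lit 0) (nat_lit 666392984) (nat_lit 912) (nat_lit 2692175450) (nat_lit 244) (nat_lit 5) (nat_lit 243) (nat_lit 5) (nat_lit 255) (nat_lit 5) (nat_lit 272) (nat_lit 270) (nat_lit 238)) (XT.lf (nat_lit 76) (nat_lit 2816490676) (nat_lit 0) (nat_lit 4649709286) (nat_lit 912) (nat_lit 550783338) (nat_lit 245) (nat_lit 5) (nat_lit 244) (nat_lit 5) (nat_lit 256) (nat_lit 5) (nat_lit 273) (nat_lit 270) (nat_lit 237))) (XT.nd (nat_lit 78) (nat_lit 0) (nat_lit 76) (XT.lf (nat_lit 76) (nat_lit 1130176219) (nat_lit 0)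 (nat_lit 460160883) (nat_lit 988) (nat_lit 6574521955) (nat_lit 233) (nat_lit 5) (nat_lit 232) (nat_lit 5) (nat_lit 245) (nat_lit 5) (nat_lit 274) (nat_lit 270) (nat_lit 236)) (XT.lf (nat_lit 0) (nat_lit 3798198134) (nat_lit 912) (nat_lit 555577771) (nat_lit 988) (nat_lit 3967244661) (nat_lit 233) (nat_lit 5) (nat_lit 245) (nat_lit 5) (nat_lit 246) (nat_lit 5) (nat_lit 275) (nat_lit 270) (nat_lit 235))))) (XT.nd (nat_lit 234) (nat_lit 2052) (nat_lit 0) (XT.nd (nat_lit 78) (nat_lit 912) (nat_lit 0) (XT.lf (nat_lit 0) (nat_lit 6068515836) (nat_lit 912) (nat_lit 2198628214) (nat_lit 988) (nat_lit 219463082) (nat_lit 234) (nat_lit 5) (nat_lit 246) (nat_lit 5) (nat_lit 247) (nat_lit 5) (nat_lit 276) (nat_lit 270) (nat_lit 234)) (XT.nd (nat_lit 78) (nat_lit 912) (nat_lit 0) (XT.lf (nat_lit 76) (nat_lit 4797572812) (nat_lit 0) (nat_lit 3640554837) (nat_lit 988) (nat_lit 222942400) (nat_lit 235)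 (nat_lit 5) (nat_lit 234) (nat_lit 5) (nat_lit 247) (nat_lit 5) (nat_lit 277) (nat_lit 270) (nat_lit 233)) (XT.lf (nat_lit 0) (nat_lit 2002028301) (nat_lit 988) (nat_lit 5544872755) (nat_lit 1064) (nat_lit 1298091465) (nat_lit 222) (nat_lit 5) (nat_lit 235) (nat_lit 5) (nat_lit 236) (nat_lit 5) (nat_lit 278) (nat_lit 270) (nat_lit 232)))) (XT.nd (nat_lit 156) (nat_lit 1140) (nat_lit 0) (XT.nd (nat_lit 78) (nat_lit 912) (nat_lit 0) (XT.lf (nat_lit 76) (nat_lit 1782720112) (nat_lit 0) (nat_lit 2542891481) (nat_lit 1064) (nat_lit 4712824087) (nat_lit 223) (nat_lit 5) (nat_lit 222) (nat_lit 5) (nat_lit 236) (nat_lit 5) (nat_lit 279) (nat_lit 270) (nat_lit 231)) (XT.lf (nat_lit 0) (nat_lit 251548162) (nat_lit 988) (nat_lit 6502176990) (nat_lit 1064) (nat_lit 2488318197) (nat_lit 210) (nat_lit 5) (nat_lit 223) (nat_lit 5) (nat_lit 224) (nat_lit 5) (nat_lit 280) (nat_lit 270) (nat_lit 230))) (XT.nd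 (nat_lit 78) (nat_lit 1140) (nat_lit 0) (XT.lf (nat_lit 0) (nat_lit 8182441020) (nat_lit 988) (nat_lit 1127048473) (nat_lit 1064) (nat_lit 146290636) (nat_lit 210) (nat_lit 5) (nat_lit 223) (nat_lit 5) (nat_lit 224) (nat_lit 5) (nat_lit 281) (nat_lit 270) (nat_lit 229)) (XT.lf (nat_lit 0) (nat_lit 2287739668) (nat_lit 1140) (nat_lit 2858838328) (nat_lit 76) (nat_lit 4532483613) (nat_lit 195) (nat_lit 5) (nat_lit 210) (nat_lit 5) (nat_lit 196) (nat_lit 5) (nat_lit 282) (nat_lit 270) (nat_lit 228))))))))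
noncomputable def xc68 : XT := (XT.nd (nat_lit 2028) (nat_lit 3344) (nat_lit 0) (XT.nd (nat_lit 1014) (nat_lit 3724) (nat_lit 0) (XT.nd (nat_lit 468) (nat_lit 2812) (nat_lit 0) (XT.nd (nat_lit 234) (nat_lit 1140) (nat_lit 0) (XT.nd (nat_lit 78) (nat_lit 1216) (nat_lit 0) (XT.lf (nat_lit 0) (nat_lit 4836740304) (nat_lit 1216) (nat_lit 4470629052) (nat_lit 76) (nat_lit 606325357) (nat_lit 180) (nat_lit 5) (nat_lit 196) (nat_lit 5) (nat_lit 181) (nat_lit 5) (nat_lit 283) (nat_lit 270) (nat_lit 227)) (XT.nd (nat_lit 78) (nat_lit 608) (nat_lit 0) (XT.lf (nat_lit 0) (nat_lit 4010000814) (nat_lit 608) (nat_lit 3540236695) (nat_lit 684) (nat_lit 2608824696) (nat_lit 172) (nat_lit 5) (nat_lit 180) (nat_lit 5) (nat_lit 181) (nat_lit 5) (nat_lit 284) (nat_lit 270) (nat_lit 226)) (XT.lf (nat_lit 0) (nat_lit 2540708955) (nat_lit 608) (nat_lit 7873909499) (nat_lit 684) (nat_lit 1732046) (nat_lit 164) (nat_lit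 5) (nat_lit 172) (nat_lit 5) (nat_lit 173) (nat_lit 5) (nat_lit 285) (nat_lit 270) (nat_lit 225)))) (XT.nd (nat_lit 78) (nat_lit 532) (nat_lit 0) (XT.lf (nat_lit 0) (nat_lit 989062603) (nat_lit 532) (nat_lit 1724788404) (nat_lit 608) (nat_lit 7971018201) (nat_lit 156) (nat_lit 5) (nat_lit 163) (nat_lit 5) (nat_lit 164) (nat_lit 5) (nat_lit 286) (nat_lit 270) (nat_lit 224)) (XT.nd (nat_lit 78) (nat_lit 532) (nat_lit 0) (XT.lf (nat_lit 0) (nat_lit 5617879323) (nat_lit 608) (nat_lit 625697253) (nat_lit 76) (nat_lit 4721751419) (nat_lit 156) (nat_lit 5) (nat_lit 164) (nat_lit 5) (nat_lit 157) (nat_lit 5) (nat_lit 287) (nat_lit 270) (nat_lit 223)) (XT.lf (nat_lit 0) (nat_lit 8702484132) (nat_lit 608) (nat_lit 2278788926) (nat_lit 76) (nat_lit 277566572) (nat_lit 149) (nat_lit 5) (nat_lit 157) (nat_lit 5) (nat_lit 150) (nat_lit 5) (nat_lit 288) (nat_lit 270) (nat_lit 222))))) (XT.nd (nat_lit 234)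 (nat_lit 1292) (nat_lit 0) (XT.nd (nat_lit 78) (nat_lit 988) (nat_lit 0) (XT.lf (nat_lit 0) (nat_lit 441047149) (nat_lit 532) (nat_lit 4046154171) (nat_lit 76) (nat_lit 7077580118) (nat_lit 142) (nat_lit 5) (nat_lit 149) (nat_lit 5) (nat_lit 143) (nat_lit 5) (nat_lit 289) (nat_lit 270) (nat_lit 221)) (XT.nd (nat_lit 78) (nat_lit 456) (nat_lit 0) (XT.lf (nat_lit 0) (nat_lit 3574019556) (nat_lit 608) (nat_lit 5921579326) (nat_lit 76) (nat_lit 2388585348) (nat_lit 135) (nat_lit 5) (nat_lit 143) (nat_lit 5) (nat_lit 136) (nat_lit 5) (nat_lit 290) (nat_lit 270) (nat_lit 220)) (XT.lf (nat_lit 0) (nat_lit 4304185145) (nat_lit 456) (nat_lit 2624042475) (nat_lit 532) (nat_lit 5289468384) (nat_lit 129) (nat_lit 5) (nat_lit 135) (nat_lit 5) (nat_lit 136) (nat_lit 5) (nat_lit 291) (nat_lit 270) (nat_lit 219)))) (XT.nd (nat_lit 156) (nat_lit 380) (nat_lit 0) (XT.nd (nat_lit 78) (nat_lit 456) (nat_lit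 0) (XT.lf (nat_lit 0) (nat_lit 2531666016) (nat_lit 456) (nat_lit 7986668270) (nat_lit 532) (nat_lit 2047576246) (nat_lit 123) (nat_lit 5) (nat_lit 129) (nat_lit 5) (nat_lit 130) (nat_lit 5) (nat_lit 292) (nat_lit 270) (nat_lit 218)) (XT.lf (nat_lit 0) (nat_lit 636334868) (nat_lit 380) (nat_lit 748252658) (nat_lit 456) (nat_lit 11544985062) (nat_lit 117) (nat_lit 5) (nat_lit 122) (nat_lit 5) (nat_lit 123) (nat_lit 5) (nat_lit 293) (nat_lit 270) (nat_lit 217))) (XT.nd (nat_lit 78) (nat_lit 380) (nat_lit 0) (XT.lf (nat_lit 0) (nat_lit 5058460642) (nat_lit 456) (nat_lit 1416535680) (nat_lit 76) (nat_lit 6832503909) (nat_lit 117) (nat_lit 5) (nat_lit 123) (nat_lit 5) (nat_lit 118) (nat_lit 5) (nat_lit 294) (nat_lit 270) (nat_lit 216)) (XT.lf (nat_lit 0) (nat_lit 8976723802) (nat_lit 456) (nat_lit 3587423266) (nat_lit 76) (nat_lit 1138417362) (nat_lit 112) (nat_lit 5) (nat_lit 118) (nat_lit 5)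 (nat_lit 113) (nat_lit 5) (nat_lit 295) (nat_lit 270) (nat_lit 215)))))) (XT.nd (nat_lit 468) (nat_lit 1824) (nat_lit 0) (XT.nd (nat_lit 234) (nat_lit 760) (nat_lit 0) (XT.nd (nat_lit 78) (nat_lit 760) (nat_lit 0) (XT.lf (nat_lit 0) (nat_lit 8162817843) (nat_lit 380) (nat_lit 5033158125) (nat_lit 456) (nat_lit 918311752) (nat_lit 107) (nat_lit 5) (nat_lit 112) (nat_lit 5) (nat_lit 113) (nat_lit 5) (nat_lit 296) (nat_lit 270) (nat_lit 214)) (XT.nd (nat_lit 78) (nat_lit 304) (nat_lit 0) (XT.lf (nat_lit 0) (nat_lit 3091588598) (nat_lit 456) (nat_lit 8521218393) (nat_lit 76) (nat_lit 2930793202) (nat_lit 101) (nat_lit 5) (nat_lit 107) (nat_lit 5) (nat_lit 102) (nat_lit 5) (nat_lit 297) (nat_lit 270) (nat_lit 213)) (XT.lf (nat_lit 0) (nat_lit 3672007156) (nat_lit 304) (nat_lit 3708745358) (nat_lit 380) (nat_lit 7610471405) (nat_lit 97) (nat_lit 5) (nat_lit 101) (nat_lit 5) (nat_lit 102) (nat_lit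 5) (nat_lit 298) (nat_lit 270) (nat_lit 212)))) (XT.nd (nat_lit 78) (nat_lit 380) (nat_lit 0) (XT.lf (nat_lit 0) (nat_lit 1105745845) (nat_lit 380) (nat_lit 10873224772) (nat_lit 456) (nat_lit 3479469112) (nat_lit 92) (nat_lit 5) (nat_lit 97) (nat_lit 5) (nat_lit 98) (nat_lit 5) (nat_lit 299) (nat_lit 270) (nat_lit 211)) (XT.nd (nat_lit 78) (nat_lit 304) (nat_lit 0) (XT.lf (nat_lit 0) (nat_lit 948901631) (nat_lit 456) (nat_lit 1668184473) (nat_lit 76) (nat_lit 13328500993) (nat_lit 91) (nat_lit 5) (nat_lit 97) (nat_lit 5) (nat_lit 92) (nat_lit 5) (nat_lit 300) (nat_lit 270) (nat_lit 210)) (XT.lf (nat_lit 0) (nat_lit 5654883534) (nat_lit 380) (nat_lit 4729409600) (nat_lit 76) (nat_lit 6067963544) (nat_lit 87) (nat_lit 5) (nat_lit 92) (nat_lit 5) (nat_lit 88) (nat_lit 5) (nat_lit 301) (nat_lit 270) (nat_lit 209))))) (XT.nd (nat_lit 234) (nat_lit 836) (nat_lit 0) (XT.nd (nat_lit 78) (nat_lit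 684) (nat_lit 0) (XT.lf (nat_lit 0) (nat_lit 8921344251) (nat_lit 304) (nat_lit 1760485844) (nat_lit 380) (nat_lit 6299900586) (nat_lit 83) (nat_lit 5) (nat_lit 87) (nat_lit 5) (nat_lit 88) (nat_lit 5) (nat_lit 302) (nat_lit 270) (nat_lit 208)) (XT.nd (nat_lit 78) (nat_lit 380) (nat_lit 0) (XT.lf (nat_lit 0) (nat_lit 5799707558) (nat_lit 304) (nat_lit 10292965293) (nat_lit 380) (nat_lit 1441068024) (nat_lit 79) (nat_lit 5) (nat_lit 83) (nat_lit 5) (nat_lit 84) (nat_lit 5) (nat_lit 303) (nat_lit 270) (nat_lit 207)) (XT.lf (nat_lit 0) (nat_lit 2343073382) (nat_lit 304) (nat_lit 1328818850) (nat_lit 380) (nat_lit 14437961113) (nat_lit 74) (nat_lit 5) (nat_lit 78) (nat_lit 5) (nat_lit 79) (nat_lit 5) (nat_lit 304) (nat_lit 270) (nat_lit 206)))) (XT.nd (nat_lit 156) (nat_lit 608) (nat_lit 0) (XT.nd (nat_lit 78) (nat_lit 228) (nat_lit 0) (XT.lf (nat_lit 0) (nat_lit 9170450063) (nat_lit 380) (nat_lit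 1493970603) (nat_lit 76) (nat_lit 8045164449) (nat_lit 74) (nat_lit 5) (nat_lit 79) (nat_lit 5) (nat_lit 75) (nat_lit 5) (nat_lit 305) (nat_lit 270) (nat_lit 205)) (XT.lf (nat_lit 0) (nat_lit 13690387114) (nat_lit 228) (nat_lit 1360260807) (nat_lit 304) (nat_lit 4285486863) (nat_lit 71) (nat_lit 5) (nat_lit 74) (nat_lit 5) (nat_lit 75) (nat_lit 5) (nat_lit 306) (nat_lit 270) (nat_lit 204))) (XT.nd (nat_lit 78) (nat_lit 228) (nat_lit 0) (XT.lf (nat_lit 0) (nat_lit 1360992944) (nat_lit 380) (nat_lit 10277589433) (nat_lit 76) (nat_lit 8350479802) (nat_lit 66) (nat_lit 5) (nat_lit 71) (nat_lit 5) (nat_lit 67) (nat_lit 5) (nat_lit 307) (nat_lit 270) (nat_lit 203)) (XT.lf (nat_lit 0) (nat_lit 5272596766) (nat_lit 228) (nat_lit 2016205945) (nat_lit 304) (nat_lit 13381959994) (nat_lit 63) (nat_lit 5) (nat_lit 66) (nat_lit 5) (nat_lit 67) (nat_lit 5) (nat_lit 308) (nat_lit 270) (nat_lit 202)))))))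 (XT.nd (nat_lit 1014) (nat_lit 1368) (nat_lit 0) (XT.nd (nat_lit 468) (nat_lit 988) (nat_lit 0) (XT.nd (nat_lit 234) (nat_lit 456) (nat_lit 0) (XT.nd (nat_lit 78) (nat_lit 304) (nat_lit 0) (XT.lf (nat_lit 0) (nat_lit 305133080) (nat_lit 228) (nat_lit 13360145506) (nat_lit 304) (nat_lit 7716728807) (nat_lit 60) (nat_lit 5) (nat_lit 63) (nat_lit 5) (nat_lit 64) (nat_lit 5) (nat_lit 309) (nat_lit 270) (nat_lit 201)) (XT.nd (nat_lit 78) (nat_lit 304) (nat_lit 0) (XT.lf (nat_lit 0) (nat_lit 17042435280) (nat_lit 228) (nat_lit 3462737000) (nat_lit 304) (nat_lit 1619330313) (nat_lit 60) (nat_lit 5) (nat_lit 63) (nat_lit 5) (nat_lit 64) (nat_lit 5) (nat_lit 310) (nat_lit 270) (nat_lit 200)) (XT.lf (nat_lit 0) (nat_lit 4838723689) (nat_lit 304) (nat_lit 11121046991) (nat_lit 76) (nat_lit 6938523171) (nat_lit 56) (nat_lit 5) (nat_lit 60) (nat_lit 5) (nat_lit 57) (nat_lit 5) (nat_lit 311) (nat_lit 270)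 (nat_lit 199)))) (XT.nd (nat_lit 78) (nat_lit 228) (nat_lit 0) (XT.lf (nat_lit 0) (nat_lit 5889903268) (nat_lit 228) (nat_lit 5809134216) (nat_lit 304) (nat_lit 12007893761) (nat_lit 53) (nat_lit 5) (nat_lit 56) (nat_lit 5) (nat_lit 57) (nat_lit 5) (nat_lit 312) (nat_lit 270) (nat_lit 198)) (XT.nd (nat_lit 78) (nat_lit 228) (nat_lit 0) (XT.lf (nat_lit 0) (nat_lit 19033613459) (nat_lit 304) (nat_lit 665604702) (nat_lit 76) (nat_lit 4852866841) (nat_lit 53) (nat_lit 5) (nat_lit 57) (nat_lit 5) (nat_lit 54) (nat_lit 5) (nat_lit 313) (nat_lit 270) (nat_lit 197)) (XT.lf (nat_lit 0) (nat_lit 1470212705) (nat_lit 228) (nat_lit 7866914305) (nat_lit 76) (nat_lit 16096014026) (nat_lit 50) (nat_lit 5) (nat_lit 53) (nat_lit 5) (nat_lit 51) (nat_lit 5) (nat_lit 314) (nat_lit 270) (nat_lit 196))))) (XT.nd (nat_lit 234) (nat_lit 608) (nat_lit 0) (XT.nd (nat_lit 78) (nat_lit 152) (nat_lit 0) (XT.lf (nat_lit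 0) (nat_lit 8790251835) (nat_lit 304) (nat_lit 15902511927) (nat_lit 76) (nat_lit 1660984701) (nat_lit 47) (nat_lit 5) (nat_lit 51) (nat_lit 5) (nat_lit 48) (nat_lit 5) (nat_lit 315) (nat_lit 270) (nat_lit 195)) (XT.nd (nat_lit 78) (nat_lit 0) (nat_lit 0) (XT.lf (nat_lit 0) (nat_lit 2438899712) (nat_lit 152) (nat_lit 14208807775) (nat_lit 228) (nat_lit 10667554694) (nat_lit 45) (nat_lit 5) (nat_lit 47) (nat_lit 5) (nat_lit 48) (nat_lit 5) (nat_lit 316) (nat_lit 270) (nat_lit 194)) (XT.lf (nat_lit 0) (nat_lit 21985616694) (nat_lit 152) (nat_lit 3048977567) (nat_lit 228) (nat_lit 3286178057) (nat_lit 45) (nat_lit 5) (nat_lit 47) (nat_lit 5) (nat_lit 48) (nat_lit 5) (nat_lit 317) (nat_lit 270) (nat_lit 193)))) (XT.nd (nat_lit 156) (nat_lit 152) (nat_lit 0) (XT.nd (nat_lit 78) (nat_lit 152) (nat_lit 0) (XT.lf (nat_lit 0) (nat_lit 4563812256) (nat_lit 304) (nat_lit 16149742165) (nat_lit 76) (nat_lit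 8656132544) (nat_lit 41) (nat_lit 5) (nat_lit 45) (nat_lit 5) (nat_lit 42) (nat_lit 5) (nat_lit 318) (nat_lit 270) (nat_lit 192)) (XT.lf (nat_lit 0) (nat_lit 3375455955) (nat_lit 152) (nat_lit 9467165522) (nat_lit 228) (nat_lit 17624336692) (nat_lit 39) (nat_lit 5) (nat_lit 41) (nat_lit 5) (nat_lit 42) (nat_lit 5) (nat_lit 319) (nat_lit 270) (nat_lit 191))) (XT.nd (nat_lit 78) (nat_lit 152) (nat_lit 0) (XT.lf (nat_lit 0) (nat_lit 21701006904) (nat_lit 228) (nat_lit 7465179216) (nat_lit 76) (nat_lit 2447952405) (nat_lit 39) (nat_lit 5) (nat_lit 42) (nat_lit 5) (nat_lit 40) (nat_lit 5) (nat_lit 320) (nat_lit 270) (nat_lit 190)) (XT.lf (nat_lit 0) (nat_lit 13266433398) (nat_lit 152) (nat_lit 17935371046) (nat_lit 228) (nat_lit 1610902633) (nat_lit 37) (nat_lit 5) (nat_lit 39) (nat_lit 5) (nat_lit 40) (nat_lit 5) (nat_lit 321) (nat_lit 270) (nat_lit 189)))))) (XT.nd (nat_lit 546) (nat_lit 608)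 (nat_lit 0) (XT.nd (nat_lit 234) (nat_lit 380) (nat_lit 0) (XT.nd (nat_lit 78) (nat_lit 152) (nat_lit 0) (XT.lf (nat_lit 0) (nat_lit 1034143689) (nat_lit 152) (nat_lit 5998101100) (nat_lit 228) (nat_lit 27034988461) (nat_lit 34) (nat_lit 5) (nat_lit 36) (nat_lit 5) (nat_lit 37) (nat_lit 5) (nat_lit 322) (nat_lit 270) (nat_lit 188)) (XT.nd (nat_lit 78) (nat_lit 152) (nat_lit 0) (XT.lf (nat_lit 0) (nat_lit 16318096286) (nat_lit 228) (nat_lit 12445606350) (nat_lit 76) (nat_lit 6613001027) (nat_lit 34) (nat_lit 5) (nat_lit 37) (nat_lit 5) (nat_lit 35) (nat_lit 5) (nat_lit 323) (nat_lit 270) (nat_lit 187)) (XT.lf (nat_lit 0) (nat_lit 9255005647) (nat_lit 152) (nat_lit 16941330976) (nat_lit 228) (nat_lit 10551479798) (nat_lit 32) (nat_lit 5) (nat_lit 34) (nat_lit 5) (nat_lit 35) (nat_lit 5) (nat_lit 324) (nat_lit 270) (nat_lit 186)))) (XT.nd (nat_lit 156) (nat_lit 152) (nat_lit 0) (XT.nd (nat_lit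 78) (nat_lit 228) (nat_lit 0) (XT.lf (nat_lit 0) (nat_lit 32265461867) (nat_lit 152) (nat_lit 4410415347) (nat_lit 228) (nat_lit 1508397110) (nat_lit 32) (nat_lit 5) (nat_lit 34) (nat_lit 5) (nat_lit 35) (nat_lit 5) (nat_lit 325) (nat_lit 270) (nat_lit 185)) (XT.lf (nat_lit 0) (nat_lit 8060333042) (nat_lit 228) (nat_lit 22818339130) (nat_lit 76) (nat_lit 8804709671) (nat_lit 29) (nat_lit 5) (nat_lit 32) (nat_lit 5) (nat_lit 30) (nat_lit 5) (nat_lit 326) (nat_lit 270) (nat_lit 184))) (XT.nd (nat_lit 78) (nat_lit 152) (nat_lit 0) (XT.lf (nat_lit 0) (nat_lit 18163194991) (nat_lit 228) (nat_lit 437657977) (nat_lit 76) (nat_lit 22653546815) (nat_lit 29) (nat_lit 5) (nat_lit 32) (nat_lit 5) (nat_lit 30) (nat_lit 5) (nat_lit 327) (nat_lit 270) (nat_lit 183)) (XT.lf (nat_lit 0) (nat_lit 23488522664) (nat_lit 152) (nat_lit 5489943100) (nat_lit 228) (nat_lit 13919294240) (nat_lit 27) (nat_lit 5) (nat_lit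 29) (nat_lit 5) (nat_lit 30) (nat_lit 5) (nat_lit 328) (nat_lit 270) (nat_lit 182))))) (XT.nd (nat_lit 234) (nat_lit 304) (nat_lit 0) (XT.nd (nat_lit 78) (nat_lit 228) (nat_lit 0) (XT.lf (nat_lit 0) (nat_lit 3963352664) (nat_lit 76) (nat_lit 36475293065) (nat_lit 152) (nat_lit 4181527046) (nat_lit 26) (nat_lit 5) (nat_lit 27) (nat_lit 5) (nat_lit 28) (nat_lit 4) (nat_lit 329) (nat_lit 270) (nat_lit 181)) (XT.nd (nat_lit 78) (nat_lit 152) (nat_lit 0) (XT.lf (nat_lit 0) (nat_lit 6164719964) (nat_lit 152) (nat_lit 17658872241) (nat_lit 76) (nat_lit 22596194069) (nat_lit 25) (nat_lit 5) (nat_lit 27) (nat_lit 5) (nat_lit 26) (nat_lit 5) (nat_lit 330) (nat_lit 270) (nat_lit 180)) (XT.lf (nat_lit 0) (nat_lit 6545107012) (nat_lit 152) (nat_lit 10443577241) (nat_lit 228) (nat_lit 31318055444) (nat_lit 23) (nat_lit 5) (nat_lit 25) (nat_lit 5) (nat_lit 26) (nat_lit 5) (nat_lit 331) (nat_lit 270) (nat_lit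 179)))) (XT.nd (nat_lit 156) (nat_lit 228) (nat_lit 0) (XT.nd (nat_lit 78) (nat_lit 76) (nat_lit 0) (XT.lf (nat_lit 0) (nat_lit 28555662357) (nat_lit 228) (nat_lit 18019657512) (nat_lit 76) (nat_lit 3706673926) (nat_lit 23) (nat_lit 5) (nat_lit 26) (nat_lit 5) (nat_lit 24) (nat_lit 4) (nat_lit 332) (nat_lit 270) (nat_lit 178)) (XT.lf (nat_lit 0) (nat_lit 6911332414) (nat_lit 76) (nat_lit 33945860161) (nat_lit 152) (nat_lit 11494139041) (nat_lit 22) (nat_lit 5) (nat_lit 23) (nat_lit 5) (nat_lit 24) (nat_lit 4) (nat_lit 333) (nat_lit 270) (nat_lit 177))) (XT.nd (nat_lit 78) (nat_lit 228) (nat_lit 0) (XT.lf (nat_lit 0) (nat_lit 33438679655) (nat_lit 76) (nat_lit 20505461558) (nat_lit 152) (nat_lit 574891638) (nat_lit 22) (nat_lit 5) (nat_lit 23) (nat_lit 5) (nat_lit 24) (nat_lit 4) (nat_lit 334) (nat_lit 270) (nat_lit 176)) (XT.lf (nat_lit 0) (nat_lit 4453726257) (nat_lit 152) (nat_lit 6252312337)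 (nat_lit 228) (nat_lit 46085099391) (nat_lit 19) (nat_lit 5) (nat_lit 21) (nat_lit 5) (nat_lit 22) (nat_lit 5) (nat_lit 335) (nat_lit 270) (nat_lit 175))))))))
noncomputable def xc69 : XT := (XT.nd (nat_lit 35646) (nat_lit 0) (nat_lit 7144) (XT.nd (nat_lit 1014) (nat_lit 304) (nat_lit 0) (XT.nd (nat_lit 468) (nat_lit 304) (nat_lit 0) (XT.nd (nat_lit 234) (nat_lit 228) (nat_lit 0) (XT.nd (nat_lit 78) (nat_lit 76) (nat_lit 0) (XT.lf (nat_lit 0) (nat_lit 22827914614) (nat_lit 228) (nat_lit 27582380630) (nat_lit 76) (nat_lit 8757724674) (nat_lit 19) (nat_lit 5) (nat_lit 22) (nat_lit 5) (nat_lit 20) (nat_lit 4) (nat_lit 336) (nat_lit 270) (nat_lit 174)) (XT.nd (nat_lit 78) (nat_lit 76) (nat_lit 0) (XT.lf (nat_lit 0) (nat_lit 35605435078) (nat_lit 228) (nat_lit 1676855426) (nat_lit 76) (nat_lit 24379974608) (nat_lit 19) (nat_lit 5) (nat_lit 22) (nat_lit 5) (nat_lit 20) (nat_lit 4) (nat_lit 337)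 (nat_lit 270) (nat_lit 173)) (XT.lf (nat_lit 0) (nat_lit 26008463555) (nat_lit 76) (nat_lit 23250467309) (nat_lit 152) (nat_lit 15015184136) (nat_lit 18) (nat_lit 5) (nat_lit 19) (nat_lit 5) (nat_lit 20) (nat_lit 4) (nat_lit 338) (nat_lit 270) (nat_lit 172)))) (XT.nd (nat_lit 78) (nat_lit 228) (nat_lit 0) (XT.lf (nat_lit 0) (nat_lit 55090747876) (nat_lit 76) (nat_lit 8509105344) (nat_lit 152) (nat_lit 3416566764) (nat_lit 18) (nat_lit 5) (nat_lit 19) (nat_lit 5) (nat_lit 20) (nat_lit 4) (nat_lit 339) (nat_lit 270) (nat_lit 171)) (XT.nd (nat_lit 78) (nat_lit 0) (nat_lit 0) (XT.lf (nat_lit 0) (nat_lit 8801411274) (nat_lit 228) (nat_lit 54021798943) (nat_lit 76) (nat_lit 7063795774) (nat_lit 15) (nat_lit 5) (nat_lit 18) (nat_lit 5) (nat_lit 16) (nat_lit 4) (nat_lit 340) (nat_lit 270) (nat_lit 170)) (XT.lf (nat_lit 0) (nat_lit 21758395815) (nat_lit 228) (nat_lit 27745352023) (nat_lit 76) (nat_lit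 23390400154) (nat_lit 15) (nat_lit 5) (nat_lit 18) (nat_lit 5) (nat_lit 16) (nat_lit 4) (nat_lit 341) (nat_lit 270) (nat_lit 169))))) (XT.nd (nat_lit 234) (nat_lit 228) (nat_lit 0) (XT.nd (nat_lit 78) (nat_lit 76) (nat_lit 0) (XT.lf (nat_lit 0) (nat_lit 35352035657) (nat_lit 228) (nat_lit 175245713) (nat_lit 76) (nat_lit 40524705864) (nat_lit 15) (nat_lit 5) (nat_lit 18) (nat_lit 5) (nat_lit 16) (nat_lit 4) (nat_lit 342) (nat_lit 270) (nat_lit 168)) (XT.nd (nat_lit 78) (nat_lit 0) (nat_lit 0) (XT.lf (nat_lit 0) (nat_lit 29326427323) (nat_lit 76) (nat_lit 20570172847) (nat_lit 152) (nat_lit 29462985107) (nat_lit 14) (nat_lit 5) (nat_lit 15) (nat_lit 5) (nat_lit 16) (nat_lit 4) (nat_lit 343) (nat_lit 270) (nat_lit 167)) (XT.lf (nat_lit 0) (nat_lit 60288193762) (nat_lit 76) (nat_lit 4871670628) (nat_lit 152) (nat_lit 17672958609) (nat_lit 14) (nat_lit 5) (nat_lit 15) (nat_lit 5) (nat_lit 16)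 (nat_lit 4) (nat_lit 344) (nat_lit 270) (nat_lit 166)))) (XT.nd (nat_lit 156) (nat_lit 76) (nat_lit 0) (XT.nd (nat_lit 78) (nat_lit 76) (nat_lit 0) (XT.lf (nat_lit 0) (nat_lit 6311887318) (nat_lit 76) (nat_lit 75036780873) (nat_lit 76) (nat_lit 5126186859) (nat_lit 13) (nat_lit 4) (nat_lit 14) (nat_lit 5) (nat_lit 14) (nat_lit 4) (nat_lit 345) (nat_lit 270) (nat_lit 165)) (XT.lf (nat_lit 0) (nat_lit 8164714269) (nat_lit 152) (nat_lit 53356178632) (nat_lit 76) (nat_lit 28767563367) (nat_lit 12) (nat_lit 5) (nat_lit 14) (nat_lit 5) (nat_lit 13) (nat_lit 4) (nat_lit 346) (nat_lit 270) (nat_lit 164))) (XT.nd (nat_lit 78) (nat_lit 76) (nat_lit 0) (XT.lf (nat_lit 0) (nat_lit 22005879953) (nat_lit 152) (nat_lit 25277616660) (nat_lit 76) (nat_lit 47007969486) (nat_lit 12) (nat_lit 5) (nat_lit 14) (nat_lit 5) (nat_lit 13) (nat_lit 4) (nat_lit 347) (nat_lit 270) (nat_lit 163)) (XT.lf (nat_lit 0) (nat_lit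 4272214233) (nat_lit 76) (nat_lit 32299148621) (nat_lit 152) (nat_lit 61922298931) (nat_lit 11) (nat_lit 5) (nat_lit 12) (nat_lit 5) (nat_lit 13) (nat_lit 4) (nat_lit 348) (nat_lit 270) (nat_lit 162)))))) (XT.nd (nat_lit 468) (nat_lit 152) (nat_lit 0) (XT.nd (nat_lit 234) (nat_lit 152) (nat_lit 0) (XT.nd (nat_lit 78) (nat_lit 0) (nat_lit 0) (XT.lf (nat_lit 0) (nat_lit 35812198415) (nat_lit 76) (nat_lit 16304593849) (nat_lit 152) (nat_lit 50781627804) (nat_lit 11) (nat_lit 5) (nat_lit 12) (nat_lit 5) (nat_lit 13) (nat_lit 4) (nat_lit 349) (nat_lit 270) (nat_lit 161)) (XT.nd (nat_lit 78) (nat_lit 0) (nat_lit 0) (XT.lf (nat_lit 0) (nat_lit 68436004190) (nat_lit 152) (nat_lit 38613948960) (nat_lit 0) (nat_lit 473570627) (nat_lit 11) (nat_lit 5) (nat_lit 13) (nat_lit 4) (nat_lit 11) (nat_lit 4) (nat_lit 350) (nat_lit 270) (nat_lit 160)) (XT.lf (nat_lit 0) (nat_lit 85727937077) (nat_lit 152) (nat_lit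 8896921527) (nat_lit 0) (nat_lit 17750323961) (nat_lit 11) (nat_lit 5) (nat_lit 13) (nat_lit 4) (nat_lit 11) (nat_lit 4) (nat_lit 351) (nat_lit 270) (nat_lit 159)))) (XT.nd (nat_lit 78) (nat_lit 76) (nat_lit 0) (XT.lf (nat_lit 0) (nat_lit 22736006582) (nat_lit 76) (nat_lit 81359578286) (nat_lit 76) (nat_lit 13367508453) (nat_lit 10) (nat_lit 4) (nat_lit 11) (nat_lit 5) (nat_lit 11) (nat_lit 4) (nat_lit 352) (nat_lit 270) (nat_lit 158)) (XT.nd (nat_lit 78) (nat_lit 0) (nat_lit 0) (XT.lf (nat_lit 0) (nat_lit 650183144) (nat_lit 152) (nat_lit 66685966351) (nat_lit 76) (nat_lit 55466529983) (nat_lit 9) (nat_lit 5) (nat_lit 11) (nat_lit 5) (nat_lit 10) (nat_lit 4) (nat_lit 353) (nat_lit 270) (nat_lit 157)) (XT.lf (nat_lit 0) (nat_lit 15087934387) (nat_lit 152) (nat_lit 37390443995) (nat_lit 76) (nat_lit 75927029213) (nat_lit 9) (nat_lit 5) (nat_lit 11) (nat_lit 5) (nat_lit 10) (nat_lit 4) (nat_lit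 354) (nat_lit 270) (nat_lit 156))))) (XT.nd (nat_lit 234) (nat_lit 76) (nat_lit 0) (XT.nd (nat_lit 78) (nat_lit 76) (nat_lit 0) (XT.lf (nat_lit 0) (nat_lit 30240969113) (nat_lit 152) (nat_lit 6642271759) (nat_lit 76) (nat_lit 97405231531) (nat_lit 9) (nat_lit 5) (nat_lit 11) (nat_lit 5) (nat_lit 10) (nat_lit 4) (nat_lit 355) (nat_lit 270) (nat_lit 155)) (XT.nd (nat_lit 78) (nat_lit 0) (nat_lit 0) (XT.lf (nat_lit 0) (nat_lit 26141882579) (nat_lit 76) (nat_lit 20254775161) (nat_lit 152) (nat_lit 94061684702) (nat_lit 8) (nat_lit 5) (nat_lit 9) (nat_lit 5) (nat_lit 10) (nat_lit 4) (nat_lit 356) (nat_lit 270) (nat_lit 154)) (XT.lf (nat_lit 0) (nat_lit 60692830826) (nat_lit 76) (nat_lit 2729578374) (nat_lit 152) (nat_lit 83512430394) (nat_lit 8) (nat_lit 5) (nat_lit 9) (nat_lit 5) (nat_lit 10) (nat_lit 4) (nat_lit 357) (nat_lit 270) (nat_lit 153)))) (XT.nd (nat_lit 156) (nat_lit 76) (nat_lit 0)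 (XT.nd (nat_lit 78) (nat_lit 0) (nat_lit 0) (XT.lf (nat_lit 0) (nat_lit 81444241492) (nat_lit 152) (nat_lit 56925295597) (nat_lit 0) (nat_lit 15361282583) (nat_lit 8) (nat_lit 5) (nat_lit 10) (nat_lit 4) (nat_lit 8) (nat_lit 4) (nat_lit 358) (nat_lit 270) (nat_lit 152)) (XT.lf (nat_lit 0) (nat_lit 100389140055) (nat_lit 152) (nat_lit 26180594965) (nat_lit 0) (nat_lit 34296206273) (nat_lit 8) (nat_lit 5) (nat_lit 10) (nat_lit 4) (nat_lit 8) (nat_lit 4) (nat_lit 359) (nat_lit 270) (nat_lit 151))) (XT.nd (nat_lit 33696) (nat_lit 0) (nat_lit 17936) (XT.lf (nat_lit 0) (nat_lit 6212766626) (nat_lit 76) (nat_lit 114122927699) (nat_lit 76) (nat_lit 48020494038) (nat_lit 7) (nat_lit 4) (nat_lit 8) (nat_lit 5) (nat_lit 8) (nat_lit 4) (nat_lit 360) (nat_lit 270) (nat_lit 150)) (XT.lf (nat_lit 0) (nat_lit 1258519378) (nat_lit 0) (nat_lit 1258519378) (nat_lit 836) (nat_lit 1419482701) (nat_lit 243) (nat_lit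 5) (nat_lit 243) (nat_lit 3) (nat_lit 254) (nat_lit 3) (nat_lit 271) (nat_lit 271) (nat_lit 238))))))) (XT.nd (nat_lit 1014) (nat_lit 6004) (nat_lit 0) (XT.nd (nat_lit 468) (nat_lit 3040) (nat_lit 0) (XT.nd (nat_lit 234) (nat_lit 836) (nat_lit 0) (XT.nd (nat_lit 78) (nat_lit 912) (nat_lit 0) (XT.lf (nat_lit 76) (nat_lit 589388268) (nat_lit 0) (nat_lit 6544072660) (nat_lit 912) (nat_lit 874028652) (nat_lit 244) (nat_lit 5) (nat_lit 243) (nat_lit 5) (nat_lit 255) (nat_lit 5) (nat_lit 272) (nat_lit 271) (nat_lit 237)) (XT.nd (nat_lit 78) (nat_lit 0) (nat_lit 76) (XT.lf (nat_lit 0) (nat_lit 1120488886) (nat_lit 912) (nat_lit 1311544526) (nat_lit 988) (nat_lit 5717843305) (nat_lit 231) (nat_lit 5) (nat_lit 243) (nat_lit 5) (nat_lit 244) (nat_lit 5) (nat_lit 273) (nat_lit 271) (nat_lit 236)) (XT.lf (nat_lit 0) (nat_lit 3144763089) (nat_lit 912) (nat_lit 3196897043) (nat_lit 988) (nat_lit 1959208087)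 (nat_lit 232) (nat_lit 5) (nat_lit 244) (nat_lit 5) (nat_lit 245) (nat_lit 5) (nat_lit 274) (nat_lit 271) (nat_lit 235)))) (XT.nd (nat_lit 78) (nat_lit 912) (nat_lit 0) (XT.lf (nat_lit 76) (nat_lit 3380019187) (nat_lit 0) (nat_lit 1845966478) (nat_lit 988) (nat_lit 3234930481) (nat_lit 233) (nat_lit 5) (nat_lit 232) (nat_lit 5) (nat_lit 245) (nat_lit 5) (nat_lit 275) (nat_lit 271) (nat_lit 234)) (XT.nd (nat_lit 78) (nat_lit 988) (nat_lit 0) (XT.lf (nat_lit 76) (nat_lit 1657190684) (nat_lit 0) (nat_lit 5721163158) (nat_lit 988) (nat_lit 1251770463) (nat_lit 234) (nat_lit 5) (nat_lit 233) (nat_lit 5) (nat_lit 246) (nat_lit 5) (nat_lit 276) (nat_lit 271) (nat_lit 233)) (XT.lf (nat_lit 0) (nat_lit 779435227) (nat_lit 988) (nat_lit 67012299) (nat_lit 1064) (nat_lit 7962310524) (nat_lit 220) (nat_lit 5) (nat_lit 233) (nat_lit 5) (nat_lit 234) (nat_lit 5) (nat_lit 277) (nat_lit 271) (nat_lit 232)))))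 (XT.nd (nat_lit 234) (nat_lit 3116) (nat_lit 0) (XT.nd (nat_lit 78) (nat_lit 0) (nat_lit 76) (XT.lf (nat_lit 0) (nat_lit 2897090887) (nat_lit 988) (nat_lit 1794888710) (nat_lit 1064) (nat_lit 4303798757) (nat_lit 221) (nat_lit 5) (nat_lit 234) (nat_lit 5) (nat_lit 235) (nat_lit 5) (nat_lit 278) (nat_lit 271) (nat_lit 231)) (XT.nd (nat_lit 78) (nat_lit 0) (nat_lit 0) (XT.lf (nat_lit 0) (nat_lit 5093224190) (nat_lit 988) (nat_lit 3525263862) (nat_lit 1064) (nat_lit 574626662) (nat_lit 222) (nat_lit 5) (nat_lit 235) (nat_lit 5) (nat_lit 236) (nat_lit 5) (nat_lit 279) (nat_lit 271) (nat_lit 230)) (XT.lf (nat_lit 76) (nat_lit 4102869832) (nat_lit 0) (nat_lit 3309129613) (nat_lit 1064) (nat_lit 1988069468) (nat_lit 223) (nat_lit 5) (nat_lit 222) (nat_lit 5) (nat_lit 236) (nat_lit 5) (nat_lit 280) (nat_lit 271) (nat_lit 229)))) (XT.nd (nat_lit 156) (nat_lit 1140) (nat_lit 0) (XT.nd (nat_lit 78)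 (nat_lit 1064) (nat_lit 0) (XT.lf (nat_lit 0) (nat_lit 218695146) (nat_lit 1064) (nat_lit 7094968638) (nat_lit 76) (nat_lit 2303951893) (nat_lit 209) (nat_lit 5) (nat_lit 223) (nat_lit 5) (nat_lit 210) (nat_lit 5) (nat_lit 281) (nat_lit 271) (nat_lit 228)) (XT.lf (nat_lit 0) (nat_lit 891326432) (nat_lit 1064) (nat_lit 1614677002) (nat_lit 1140) (nat_lit 7339226012) (nat_lit 195) (nat_lit 5) (nat_lit 209) (nat_lit 5) (nat_lit 210) (nat_lit 5) (nat_lit 282) (nat_lit 271) (nat_lit 227))) (XT.nd (nat_lit 78) (nat_lit 1140) (nat_lit 0) (XT.lf (nat_lit 0) (nat_lit 4940891610) (nat_lit 1140) (nat_lit 772052787) (nat_lit 76) (nat_lit 4370397199) (nat_lit 195) (nat_lit 5) (nat_lit 210) (nat_lit 5) (nat_lit 196) (nat_lit 5) (nat_lit 283) (nat_lit 271) (nat_lit 226)) (XT.lf (nat_lit 0) (nat_lit 7514644758) (nat_lit 1216) (nat_lit 2449220961) (nat_lit 76) (nat_lit 369088713) (nat_lit 180) (nat_lit 5)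 (nat_lit 196) (nat_lit 5) (nat_lit 181) (nat_lit 5) (nat_lit 284) (nat_lit 271) (nat_lit 225)))))) (XT.nd (nat_lit 546) (nat_lit 2584) (nat_lit 0) (XT.nd (nat_lit 234) (nat_lit 1596) (nat_lit 0) (XT.nd (nat_lit 78) (nat_lit 1216) (nat_lit 0) (XT.lf (nat_lit 0) (nat_lit 6391089657) (nat_lit 608) (nat_lit 3877685109) (nat_lit 684) (nat_lit 324825985) (nat_lit 172) (nat_lit 5) (nat_lit 180) (nat_lit 5) (nat_lit 181) (nat_lit 5) (nat_lit 285) (nat_lit 271) (nat_lit 224)) (XT.nd (nat_lit 78) (nat_lit 532) (nat_lit 0) (XT.lf (nat_lit 0) (nat_lit 2272597960) (nat_lit 684) (nat_lit 6030306800) (nat_lit 76) (nat_lit 2563088479) (nat_lit 163) (nat_lit 5) (nat_lit 172) (nat_lit 5) (nat_lit 164) (nat_lit 5) (nat_lit 286) (nat_lit 271) (nat_lit 223)) (XT.lf (nat_lit 0) (nat_lit 3213431742) (nat_lit 532) (nat_lit 1823095697) (nat_lit 608) (nat_lit 6114172021) (nat_lit 156) (nat_lit 5) (nat_lit 163) (nat_lit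 5) (nat_lit 164) (nat_lit 5) (nat_lit 287) (nat_lit 271) (nat_lit 222)))) (XT.nd (nat_lit 156) (nat_lit 1064) (nat_lit 0) (XT.nd (nat_lit 78) (nat_lit 0) (nat_lit 0) (XT.lf (nat_lit 0) (nat_lit 1509079965) (nat_lit 532) (nat_lit 6486930835) (nat_lit 608) (nat_lit 3451996286) (nat_lit 149) (nat_lit 5) (nat_lit 156) (nat_lit 5) (nat_lit 157) (nat_lit 5) (nat_lit 288) (nat_lit 271) (nat_lit 221)) (XT.lf (nat_lit 0) (nat_lit 11141802499) (nat_lit 608) (nat_lit 255402184) (nat_lit 76) (nat_lit 361908071) (nat_lit 149) (nat_lit 5) (nat_lit 157) (nat_lit 5) (nat_lit 150) (nat_lit 5) (nat_lit 289) (nat_lit 271) (nat_lit 220))) (XT.nd (nat_lit 78) (nat_lit 532) (nat_lit 0) (XT.lf (nat_lit 0) (nat_lit 2413283051) (nat_lit 532) (nat_lit 2131237848) (nat_lit 76) (nat_lit 7537642712) (nat_lit 142) (nat_lit 5) (nat_lit 149) (nat_lit 5) (nat_lit 143) (nat_lit 5) (nat_lit 290) (nat_lit 271) (nat_lit 219))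 (XT.lf (nat_lit 0) (nat_lit 5631531823) (nat_lit 608) (nat_lit 4104297013) (nat_lit 76) (nat_lit 2683960845) (nat_lit 135) (nat_lit 5) (nat_lit 143) (nat_lit 5) (nat_lit 136) (nat_lit 5) (nat_lit 291) (nat_lit 271) (nat_lit 218))))) (XT.nd (nat_lit 234) (nat_lit 1216) (nat_lit 0) (XT.nd (nat_lit 78) (nat_lit 912) (nat_lit 0) (XT.lf (nat_lit 0) (nat_lit 6572176605) (nat_lit 456) (nat_lit 2511539079) (nat_lit 532) (nat_lit 3688460036) (nat_lit 129) (nat_lit 5) (nat_lit 135) (nat_lit 5) (nat_lit 136) (nat_lit 5) (nat_lit 292) (nat_lit 271) (nat_lit 217)) (XT.nd (nat_lit 78) (nat_lit 456) (nat_lit 0) (XT.lf (nat_lit 0) (nat_lit 4704701678) (nat_lit 456) (nat_lit 8084382340) (nat_lit 532) (nat_lit 350745827) (nat_lit 123) (nat_lit 5) (nat_lit 129) (nat_lit 5) (nat_lit 130) (nat_lit 5) (nat_lit 293) (nat_lit 271) (nat_lit 216)) (XT.lf (nat_lit 0) (nat_lit 2691961017) (nat_lit 380) (nat_lit 461405388)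 (nat_lit 456) (nat_lit 10369820175) (nat_lit 117) (nat_lit 5) (nat_lit 122) (nat_lit 5) (nat_lit 123) (nat_lit 5) (nat_lit 294) (nat_lit 271) (nat_lit 215)))) (XT.nd (nat_lit 156) (nat_lit 836) (nat_lit 0) (XT.nd (nat_lit 78) (nat_lit 0) (nat_lit 0) (XT.lf (nat_lit 0) (nat_lit 497155067) (nat_lit 380) (nat_lit 6440594695) (nat_lit 456) (nat_lit 6984545780) (nat_lit 112) (nat_lit 5) (nat_lit 117) (nat_lit 5) (nat_lit 118) (nat_lit 5) (nat_lit 295) (nat_lit 271) (nat_lit 214)) (XT.lf (nat_lit 0) (nat_lit 10991784011) (nat_lit 456) (nat_lit 1803414454) (nat_lit 76) (nat_lit 1543803925) (nat_lit 112) (nat_lit 5) (nat_lit 118) (nat_lit 5) (nat_lit 113) (nat_lit 5) (nat_lit 296) (nat_lit 271) (nat_lit 213))) (XT.nd (nat_lit 78) (nat_lit 380) (nat_lit 0) (XT.lf (nat_lit 0) (nat_lit 581103343) (nat_lit 456) (nat_lit 4300718737) (nat_lit 76) (nat_lit 9891087470) (nat_lit 106) (nat_lit 5) (nat_lit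 112) (nat_lit 5) (nat_lit 107) (nat_lit 5) (nat_lit 297) (nat_lit 271) (nat_lit 212)) (XT.lf (nat_lit 0) (nat_lit 4722053078) (nat_lit 456) (nat_lit 7022104057) (nat_lit 76) (nat_lit 3480846361) (nat_lit 101) (nat_lit 5) (nat_lit 107) (nat_lit 5) (nat_lit 102) (nat_lit 5) (nat_lit 298) (nat_lit 271) (nat_lit 211))))))))
noncomputable def xc70 : XT := (XT.nd (nat_lit 2028) (nat_lit 1748) (nat_lit 0) (XT.nd (nat_lit 1014) (nat_lit 1976) (nat_lit 0) (XT.nd (nat_lit 468) (nat_lit 1444) (nat_lit 0) (XT.nd (nat_lit 234) (nat_lit 608) (nat_lit 0) (XT.nd (nat_lit 78) (nat_lit 760) (nat_lit 0) (XT.lf (nat_lit 0) (nat_lit 5725598007) (nat_lit 304) (nat_lit 3447772435) (nat_lit 380) (nat_lit 6523278545) (nat_lit 97) (nat_lit 5) (nat_lit 101) (nat_lit 5) (nat_lit 102) (nat_lit 5) (nat_lit 299) (nat_lit 271) (nat_lit 210)) (XT.nd (nat_lit 78) (nat_lit 380) (nat_lit 0) (XT.lf (nat_lit 0) (nat_lit 3016123541)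 (nat_lit 380) (nat_lit 10939505460) (nat_lit 456) (nat_lit 2233040733) (nat_lit 92) (nat_lit 5) (nat_lit 97) (nat_lit 5) (nat_lit 98) (nat_lit 5) (nat_lit 300) (nat_lit 271) (nat_lit 209)) (XT.lf (nat_lit 0) (nat_lit 43666599) (nat_lit 304) (nat_lit 2279466224) (nat_lit 380) (nat_lit 14378671898) (nat_lit 87) (nat_lit 5) (nat_lit 91) (nat_lit 5) (nat_lit 92) (nat_lit 5) (nat_lit 301) (nat_lit 271) (nat_lit 208)))) (XT.nd (nat_lit 78) (nat_lit 608) (nat_lit 0) (XT.lf (nat_lit 0) (nat_lit 7222039029) (nat_lit 380) (nat_lit 3187761922) (nat_lit 76) (nat_lit 6825337987) (nat_lit 87) (nat_lit 5) (nat_lit 92) (nat_lit 5) (nat_lit 88) (nat_lit 5) (nat_lit 302) (nat_lit 271) (nat_lit 207)) (XT.nd (nat_lit 78) (nat_lit 304) (nat_lit 0) (XT.lf (nat_lit 0) (nat_lit 11094560221) (nat_lit 304) (nat_lit 1361212663) (nat_lit 380) (nat_lit 5336707616) (nat_lit 83) (nat_lit 5) (nat_lit 87) (nat_lit 5) (nat_lit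 88) (nat_lit 5) (nat_lit 303) (nat_lit 271) (nat_lit 206)) (XT.lf (nat_lit 0) (nat_lit 7800021192) (nat_lit 304) (nat_lit 10298997914) (nat_lit 380) (nat_lit 274270599) (nat_lit 79) (nat_lit 5) (nat_lit 83) (nat_lit 5) (nat_lit 84) (nat_lit 5) (nat_lit 304) (nat_lit 271) (nat_lit 205))))) (XT.nd (nat_lit 234) (nat_lit 836) (nat_lit 0) (XT.nd (nat_lit 78) (nat_lit 228) (nat_lit 0) (XT.lf (nat_lit 0) (nat_lit 4146035510) (nat_lit 304) (nat_lit 882491007) (nat_lit 380) (nat_lit 13950623372) (nat_lit 74) (nat_lit 5) (nat_lit 78) (nat_lit 5) (nat_lit 79) (nat_lit 5) (nat_lit 305) (nat_lit 271) (nat_lit 204)) (XT.nd (nat_lit 78) (nat_lit 0) (nat_lit 0) (XT.lf (nat_lit 0) (nat_lit 67967184) (nat_lit 228) (nat_lit 10683533697) (nat_lit 304) (nat_lit 8858930562) (nat_lit 71) (nat_lit 5) (nat_lit 74) (nat_lit 5) (nat_lit 75) (nat_lit 5) (nat_lit 306) (nat_lit 271) (nat_lit 203)) (XT.lf (nat_lit 0)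 (nat_lit 15963340669) (nat_lit 228) (nat_lit 923561004) (nat_lit 304) (nat_lit 3382616706) (nat_lit 71) (nat_lit 5) (nat_lit 74) (nat_lit 5) (nat_lit 75) (nat_lit 5) (nat_lit 307) (nat_lit 271) (nat_lit 202)))) (XT.nd (nat_lit 156) (nat_lit 228) (nat_lit 0) (XT.nd (nat_lit 78) (nat_lit 228) (nat_lit 0) (XT.lf (nat_lit 0) (nat_lit 2492142200) (nat_lit 380) (nat_lit 9198813733) (nat_lit 76) (nat_lit 9264823552) (nat_lit 66) (nat_lit 5) (nat_lit 71) (nat_lit 5) (nat_lit 67) (nat_lit 5) (nat_lit 308) (nat_lit 271) (nat_lit 201)) (XT.lf (nat_lit 0) (nat_lit 7083228635) (nat_lit 228) (nat_lit 1597360760) (nat_lit 304) (nat_lit 12992088369) (nat_lit 63) (nat_lit 5) (nat_lit 66) (nat_lit 5) (nat_lit 67) (nat_lit 5) (nat_lit 309) (nat_lit 271) (nat_lit 200))) (XT.nd (nat_lit 78) (nat_lit 0) (nat_lit 0) (XT.lf (nat_lit 0) (nat_lit 1848911810) (nat_lit 228) (nat_lit 13497506455) (nat_lit 304) (nat_lit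 7073988768) (nat_lit 60) (nat_lit 5) (nat_lit 63) (nat_lit 5) (nat_lit 64) (nat_lit 5) (nat_lit 310) (nat_lit 271) (nat_lit 199)) (XT.lf (nat_lit 0) (nat_lit 19350292355) (nat_lit 228) (nat_lit 3130496396) (nat_lit 304) (nat_lit 720700181) (nat_lit 60) (nat_lit 5) (nat_lit 63) (nat_lit 5) (nat_lit 64) (nat_lit 5) (nat_lit 311) (nat_lit 271) (nat_lit 198)))))) (XT.nd (nat_lit 468) (nat_lit 836) (nat_lit 0) (XT.nd (nat_lit 234) (nat_lit 456) (nat_lit 0) (XT.nd (nat_lit 78) (nat_lit 380) (nat_lit 0) (XT.lf (nat_lit 0) (nat_lit 6014033111) (nat_lit 304) (nat_lit 10220161321) (nat_lit 76) (nat_lit 7780339725) (nat_lit 56) (nat_lit 5) (nat_lit 60) (nat_lit 5) (nat_lit 57) (nat_lit 5) (nat_lit 312) (nat_lit 271) (nat_lit 197)) (XT.nd (nat_lit 78) (nat_lit 152) (nat_lit 0) (XT.lf (nat_lit 0) (nat_lit 7599573616) (nat_lit 228) (nat_lit 5586946165) (nat_lit 304) (nat_lit 11678040981) (nat_lit 53) (nat_lit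 5) (nat_lit 56) (nat_lit 5) (nat_lit 57) (nat_lit 5) (nat_lit 313) (nat_lit 271) (nat_lit 196)) (XT.lf (nat_lit 0) (nat_lit 683951296) (nat_lit 152) (nat_lit 20172163374) (nat_lit 228) (nat_lit 4896839364) (nat_lit 51) (nat_lit 5) (nat_lit 53) (nat_lit 5) (nat_lit 54) (nat_lit 5) (nat_lit 314) (nat_lit 271) (nat_lit 195)))) (XT.nd (nat_lit 78) (nat_lit 380) (nat_lit 0) (XT.lf (nat_lit 0) (nat_lit 2388447972) (nat_lit 228) (nat_lit 6912650027) (nat_lit 76) (nat_lit 17377793761) (nat_lit 50) (nat_lit 5) (nat_lit 53) (nat_lit 5) (nat_lit 51) (nat_lit 5) (nat_lit 315) (nat_lit 271) (nat_lit 194)) (XT.nd (nat_lit 78) (nat_lit 152) (nat_lit 0) (XT.lf (nat_lit 0) (nat_lit 10051575234) (nat_lit 304) (nat_lit 15368334756) (nat_lit 76) (nat_lit 2226333869) (nat_lit 47) (nat_lit 5) (nat_lit 51) (nat_lit 5) (nat_lit 48) (nat_lit 5) (nat_lit 316) (nat_lit 271) (nat_lit 193)) (XT.lf (nat_lit 0) (nat_lit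 3852043268) (nat_lit 152) (nat_lit 14423138342) (nat_lit 228) (nat_lit 10381478919) (nat_lit 45) (nat_lit 5) (nat_lit 47) (nat_lit 5) (nat_lit 48) (nat_lit 5) (nat_lit 317) (nat_lit 271) (nat_lit 192))))) (XT.nd (nat_lit 234) (nat_lit 380) (nat_lit 0) (XT.nd (nat_lit 78) (nat_lit 456) (nat_lit 0) (XT.lf (nat_lit 0) (nat_lit 24314610454) (nat_lit 152) (nat_lit 2728940900) (nat_lit 228) (nat_lit 2670055045) (nat_lit 45) (nat_lit 5) (nat_lit 47) (nat_lit 5) (nat_lit 48) (nat_lit 5) (nat_lit 318) (nat_lit 271) (nat_lit 191)) (XT.nd (nat_lit 78) (nat_lit 152) (nat_lit 0) (XT.lf (nat_lit 0) (nat_lit 5536907459) (nat_lit 304) (nat_lit 15729362050) (nat_lit 76) (nat_lit 9549103707) (nat_lit 41) (nat_lit 5) (nat_lit 45) (nat_lit 5) (nat_lit 42) (nat_lit 5) (nat_lit 319) (nat_lit 271) (nat_lit 190)) (XT.lf (nat_lit 0) (nat_lit 4736899409) (nat_lit 152) (nat_lit 9468750766) (nat_lit 228) (nat_lit 17762599489)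 (nat_lit 39) (nat_lit 5) (nat_lit 41) (nat_lit 5) (nat_lit 42) (nat_lit 5) (nat_lit 320) (nat_lit 271) (nat_lit 189)))) (XT.nd (nat_lit 156) (nat_lit 228) (nat_lit 0) (XT.nd (nat_lit 78) (nat_lit 152) (nat_lit 0) (XT.lf (nat_lit 0) (nat_lit 23476945435) (nat_lit 228) (nat_lit 6685874272) (nat_lit 76) (nat_lit 3010890065) (nat_lit 39) (nat_lit 5) (nat_lit 42) (nat_lit 5) (nat_lit 40) (nat_lit 5) (nat_lit 321) (nat_lit 271) (nat_lit 188)) (XT.lf (nat_lit 0) (nat_lit 15049280959) (nat_lit 152) (nat_lit 18381364023) (nat_lit 228) (nat_lit 1002245383) (nat_lit 37) (nat_lit 5) (nat_lit 39) (nat_lit 5) (nat_lit 40) (nat_lit 5) (nat_lit 322) (nat_lit 271) (nat_lit 187))) (XT.nd (nat_lit 78) (nat_lit 0) (nat_lit 0) (XT.lf (nat_lit 0) (nat_lit 2186716462) (nat_lit 152) (nat_lit 5851297580) (nat_lit 228) (nat_lit 27712595961) (nat_lit 34) (nat_lit 5) (nat_lit 36) (nat_lit 5) (nat_lit 37) (nat_lit 5)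 (nat_lit 323) (nat_lit 271) (nat_lit 186)) (XT.lf (nat_lit 0) (nat_lit 17761097337) (nat_lit 228) (nat_lit 12004499561) (nat_lit 76) (nat_lit 7360786014) (nat_lit 34) (nat_lit 5) (nat_lit 37) (nat_lit 5) (nat_lit 35) (nat_lit 5) (nat_lit 324) (nat_lit 271) (nat_lit 185))))))) (XT.nd (nat_lit 1014) (nat_lit 608) (nat_lit 0) (XT.nd (nat_lit 468) (nat_lit 532) (nat_lit 0) (XT.nd (nat_lit 234) (nat_lit 228) (nat_lit 0) (XT.nd (nat_lit 78) (nat_lit 228) (nat_lit 0) (XT.lf (nat_lit 0) (nat_lit 10750661258) (nat_lit 152) (nat_lit 17362655626) (nat_lit 228) (nat_lit 10453348744) (nat_lit 32) (nat_lit 5) (nat_lit 34) (nat_lit 5) (nat_lit 35) (nat_lit 5) (nat_lit 325) (nat_lit 271) (nat_lit 184)) (XT.nd (nat_lit 78) (nat_lit 228) (nat_lit 0) (XT.lf (nat_lit 0) (nat_lit 34862454321) (nat_lit 152) (nat_lit 4225467639) (nat_lit 228) (nat_lit 987907399) (nat_lit 32) (nat_lit 5) (nat_lit 34) (nat_lit 5)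 (nat_lit 35) (nat_lit 5) (nat_lit 326) (nat_lit 271) (nat_lit 183)) (XT.lf (nat_lit 0) (nat_lit 9032962522) (nat_lit 228) (nat_lit 22978744114) (nat_lit 76) (nat_lit 9638468208) (nat_lit 29) (nat_lit 5) (nat_lit 32) (nat_lit 5) (nat_lit 30) (nat_lit 5) (nat_lit 327) (nat_lit 271) (nat_lit 182)))) (XT.nd (nat_lit 78) (nat_lit 76) (nat_lit 0) (XT.lf (nat_lit 0) (nat_lit 483719152) (nat_lit 152) (nat_lit 19134773800) (nat_lit 228) (nat_lit 23681938669) (nat_lit 27) (nat_lit 5) (nat_lit 29) (nat_lit 5) (nat_lit 30) (nat_lit 5) (nat_lit 328) (nat_lit 271) (nat_lit 181)) (XT.nd (nat_lit 78) (nat_lit 76) (nat_lit 0) (XT.lf (nat_lit 0) (nat_lit 25570001934) (nat_lit 152) (nat_lit 5382761894) (nat_lit 228) (nat_lit 14073861976) (nat_lit 27) (nat_lit 5) (nat_lit 29) (nat_lit 5) (nat_lit 30) (nat_lit 5) (nat_lit 329) (nat_lit 271) (nat_lit 180)) (XT.lf (nat_lit 0) (nat_lit 5054572109) (nat_lit 76) (nat_lit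 37918441611) (nat_lit 152) (nat_lit 3862546091) (nat_lit 26) (nat_lit 5) (nat_lit 27) (nat_lit 5) (nat_lit 28) (nat_lit 4) (nat_lit 330) (nat_lit 271) (nat_lit 179))))) (XT.nd (nat_lit 234) (nat_lit 304) (nat_lit 0) (XT.nd (nat_lit 78) (nat_lit 152) (nat_lit 0) (XT.lf (nat_lit 0) (nat_lit 6966054065) (nat_lit 152) (nat_lit 17681246897) (nat_lit 76) (nat_lit 24078451882) (nat_lit 25) (nat_lit 5) (nat_lit 27) (nat_lit 5) (nat_lit 26) (nat_lit 5) (nat_lit 331) (nat_lit 271) (nat_lit 178)) (XT.nd (nat_lit 78) (nat_lit 0) (nat_lit 0) (XT.lf (nat_lit 0) (nat_lit 7708263283) (nat_lit 152) (nat_lit 10607507614) (nat_lit 228) (nat_lit 32391757353) (nat_lit 23) (nat_lit 5) (nat_lit 25) (nat_lit 5) (nat_lit 26) (nat_lit 5) (nat_lit 332) (nat_lit 271) (nat_lit 177)) (XT.lf (nat_lit 0) (nat_lit 30441632270) (nat_lit 228) (nat_lit 18113968341) (nat_lit 76) (nat_lit 4226538832) (nat_lit 23) (nat_lit 5)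 (nat_lit 26) (nat_lit 5) (nat_lit 24) (nat_lit 4) (nat_lit 333) (nat_lit 271) (nat_lit 176)))) (XT.nd (nat_lit 156) (nat_lit 228) (nat_lit 0) (XT.nd (nat_lit 78) (nat_lit 0) (nat_lit 0) (XT.lf (nat_lit 0) (nat_lit 8040447989) (nat_lit 76) (nat_lit 35303504543) (nat_lit 152) (nat_lit 11611430144) (nat_lit 22) (nat_lit 5) (nat_lit 23) (nat_lit 5) (nat_lit 24) (nat_lit 4) (nat_lit 334) (nat_lit 271) (nat_lit 175)) (XT.lf (nat_lit 0) (nat_lit 35856850737) (nat_lit 76) (nat_lit 21207259754) (nat_lit 152) (nat_lit 168002077) (nat_lit 22) (nat_lit 5) (nat_lit 23) (nat_lit 5) (nat_lit 24) (nat_lit 4) (nat_lit 335) (nat_lit 271) (nat_lit 174))) (XT.nd (nat_lit 78) (nat_lit 0) (nat_lit 0) (XT.lf (nat_lit 0) (nat_lit 5409694341) (nat_lit 152) (nat_lit 6245488604) (nat_lit 228) (nat_lit 47962921855) (nat_lit 19) (nat_lit 5) (nat_lit 21) (nat_lit 5) (nat_lit 22) (nat_lit 5) (nat_lit 336) (nat_lit 271)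 (nat_lit 173)) (XT.lf (nat_lit 0) (nat_lit 24366370409) (nat_lit 228) (nat_lit 28254069938) (nat_lit 76) (nat_lit 9493902278) (nat_lit 19) (nat_lit 5) (nat_lit 22) (nat_lit 5) (nat_lit 20) (nat_lit 4) (nat_lit 337) (nat_lit 271) (nat_lit 172)))))) (XT.nd (nat_lit 546) (nat_lit 228) (nat_lit 0) (XT.nd (nat_lit 234) (nat_lit 304) (nat_lit 0) (XT.nd (nat_lit 78) (nat_lit 76) (nat_lit 0) (XT.lf (nat_lit 0) (nat_lit 37763859274) (nat_lit 228) (nat_lit 1086955604) (nat_lit 76) (nat_lit 25883060357) (nat_lit 19) (nat_lit 5) (nat_lit 22) (nat_lit 5) (nat_lit 20) (nat_lit 4) (nat_lit 338) (nat_lit 271) (nat_lit 171)) (XT.nd (nat_lit 78) (nat_lit 0) (nat_lit 0) (XT.lf (nat_lit 0) (nat_lit 27963316630) (nat_lit 76) (nat_lit 24124996741) (nat_lit 152) (nat_lit 15388363292) (nat_lit 18) (nat_lit 5) (nat_lit 19) (nat_lit 5) (nat_lit 20) (nat_lit 4) (nat_lit 339) (nat_lit 271) (nat_lit 170)) (XT.lf (nat_lit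 0) (nat_lit 58468551839) (nat_lit 76) (nat_lit 8660280674) (nat_lit 152) (nat_lit 3227795054) (nat_lit 18) (nat_lit 5) (nat_lit 19) (nat_lit 5) (nat_lit 20) (nat_lit 4) (nat_lit 340) (nat_lit 271) (nat_lit 169)))) (XT.nd (nat_lit 156) (nat_lit 76) (nat_lit 0) (XT.nd (nat_lit 78) (nat_lit 0) (nat_lit 0) (XT.lf (nat_lit 0) (nat_lit 9585763307) (nat_lit 228) (nat_lit 56102755061) (nat_lit 76) (nat_lit 7682376499) (nat_lit 15) (nat_lit 5) (nat_lit 18) (nat_lit 5) (nat_lit 16) (nat_lit 4) (nat_lit 341) (nat_lit 271) (nat_lit 168)) (XT.lf (nat_lit 0) (nat_lit 23174202719) (nat_lit 228) (nat_lit 28542015977) (nat_lit 76) (nat_lit 24812673434) (nat_lit 15) (nat_lit 5) (nat_lit 18) (nat_lit 5) (nat_lit 16) (nat_lit 4) (nat_lit 342) (nat_lit 271) (nat_lit 167))) (XT.nd (nat_lit 78) (nat_lit 0) (nat_lit 0) (XT.lf (nat_lit 0) (nat_lit 386003992) (nat_lit 76) (nat_lit 37049617395) (nat_lit 152) (nat_lit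 42409365073) (nat_lit 14) (nat_lit 5) (nat_lit 15) (nat_lit 5) (nat_lit 16) (nat_lit 4) (nat_lit 343) (nat_lit 271) (nat_lit 166)) (XT.lf (nat_lit 0) (nat_lit 31339104986) (nat_lit 76) (nat_lit 21354980381) (nat_lit 152) (nat_lit 30624284645) (nat_lit 14) (nat_lit 5) (nat_lit 15) (nat_lit 5) (nat_lit 16) (nat_lit 4) (nat_lit 344) (nat_lit 271) (nat_lit 165))))) (XT.nd (nat_lit 234) (nat_lit 76) (nat_lit 0) (XT.nd (nat_lit 78) (nat_lit 152) (nat_lit 0) (XT.lf (nat_lit 0) (nat_lit 63822942781) (nat_lit 76) (nat_lit 4883157865) (nat_lit 152) (nat_lit 18259606808) (nat_lit 14) (nat_lit 5) (nat_lit 15) (nat_lit 5) (nat_lit 16) (nat_lit 4) (nat_lit 345) (nat_lit 271) (nat_lit 164)) (XT.nd (nat_lit 78) (nat_lit 76) (nat_lit 0) (XT.lf (nat_lit 0) (nat_lit 7139244178) (nat_lit 76) (nat_lit 78558418785) (nat_lit 76) (nat_lit 5092383805) (nat_lit 13) (nat_lit 4) (nat_lit 14) (nat_lit 5) (nat_lit 14)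 (nat_lit 4) (nat_lit 346) (nat_lit 271) (nat_lit 163)) (XT.lf (nat_lit 0) (nat_lit 8843855944) (nat_lit 152) (nat_lit 55531106810) (nat_lit 76) (nat_lit 30419692807) (nat_lit 12) (nat_lit 5) (nat_lit 14) (nat_lit 5) (nat_lit 13) (nat_lit 4) (nat_lit 347) (nat_lit 271) (nat_lit 162)))) (XT.nd (nat_lit 156) (nat_lit 0) (nat_lit 0) (XT.nd (nat_lit 78) (nat_lit 76) (nat_lit 0) (XT.lf (nat_lit 0) (nat_lit 23364179628) (nat_lit 152) (nat_lit 26072087251) (nat_lit 76) (nat_lit 49561940600) (nat_lit 12) (nat_lit 5) (nat_lit 14) (nat_lit 5) (nat_lit 13) (nat_lit 4) (nat_lit 348) (nat_lit 271) (nat_lit 161)) (XT.lf (nat_lit 0) (nat_lit 4941779636) (nat_lit 76) (nat_lit 33708253970) (nat_lit 152) (nat_lit 64760720807) (nat_lit 11) (nat_lit 5) (nat_lit 12) (nat_lit 5) (nat_lit 13) (nat_lit 4) (nat_lit 349) (nat_lit 271) (nat_lit 160))) (XT.nd (nat_lit 78) (nat_lit 0) (nat_lit 0) (XT.lf (nat_lit 0) (nat_lit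 38037050899) (nat_lit 76) (nat_lit 16923773939) (nat_lit 152) (nat_lit 53075287222) (nat_lit 11) (nat_lit 5) (nat_lit 12) (nat_lit 5) (nat_lit 13) (nat_lit 4) (nat_lit 350) (nat_lit 271) (nat_lit 159)) (XT.lf (nat_lit 0) (nat_lit 72086449646) (nat_lit 152) (nat_lit 40125992097) (nat_lit 0) (nat_lit 680319605) (nat_lit 11) (nat_lit 5) (nat_lit 13) (nat_lit 4) (nat_lit 11) (nat_lit 4) (nat_lit 351) (nat_lit 271) (nat_lit 158))))))))
noncomputable def xc71 : XT := (XT.nd (nat_lit 35802) (nat_lit 0) (nat_lit 3192) (XT.nd (nat_lit 34788) (nat_lit 0) (nat_lit 10716) (XT.nd (nat_lit 468) (nat_lit 0) (nat_lit 0) (XT.nd (nat_lit 234) (nat_lit 76) (nat_lit 0) (XT.nd (nat_lit 78) (nat_lit 152) (nat_lit 0) (XT.lf (nat_lit 0) (nat_lit 90232091308) (nat_lit 152) (nat_lit 8943049212) (nat_lit 0) (nat_lit 18812192965) (nat_lit 11) (nat_lit 5) (nat_lit 13) (nat_lit 4) (nat_lit 11) (nat_lit 4) (nat_lit 352)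 (nat_lit 271) (nat_lit 157)) (XT.nd (nat_lit 78) (nat_lit 76) (nat_lit 0) (XT.lf (nat_lit 0) (nat_lit 24260096120) (nat_lit 76) (nat_lit 85251378831) (nat_lit 76) (nat_lit 13818367819) (nat_lit 10) (nat_lit 4) (nat_lit 11) (nat_lit 5) (nat_lit 11) (nat_lit 4) (nat_lit 353) (nat_lit 271) (nat_lit 156)) (XT.lf (nat_lit 0) (nat_lit 885808048) (nat_lit 152) (nat_lit 69647308928) (nat_lit 76) (nat_lit 58403536529) (nat_lit 9) (nat_lit 5) (nat_lit 11) (nat_lit 5) (nat_lit 10) (nat_lit 4) (nat_lit 354) (nat_lit 271) (nat_lit 155)))) (XT.nd (nat_lit 78) (nat_lit 76) (nat_lit 0) (XT.lf (nat_lit 0) (nat_lit 16035774676) (nat_lit 152) (nat_lit 38904770251) (nat_lit 76) (nat_lit 79879266433) (nat_lit 9) (nat_lit 5) (nat_lit 11) (nat_lit 5) (nat_lit 10) (nat_lit 4) (nat_lit 355) (nat_lit 271) (nat_lit 154)) (XT.nd (nat_lit 78) (nat_lit 76) (nat_lit 0) (XT.lf (nat_lit 0) (nat_lit 31937249539) (nat_lit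 152) (nat_lit 6636103495) (nat_lit 76) (nat_lit 102423955735) (nat_lit 9) (nat_lit 5) (nat_lit 11) (nat_lit 5) (nat_lit 10) (nat_lit 4) (nat_lit 356) (nat_lit 271) (nat_lit 153)) (XT.lf (nat_lit 0) (nat_lit 27777561779) (nat_lit 76) (nat_lit 21117546429) (nat_lit 152) (nat_lit 98580735407) (nat_lit 8) (nat_lit 5) (nat_lit 9) (nat_lit 5) (nat_lit 10) (nat_lit 4) (nat_lit 357) (nat_lit 271) (nat_lit 152))))) (XT.nd (nat_lit 34008) (nat_lit 0) (nat_lit 16872) (XT.nd (nat_lit 78) (nat_lit 0) (nat_lit 0) (XT.lf (nat_lit 0) (nat_lit 64040410529) (nat_lit 76) (nat_lit 2723231112) (nat_lit 152) (nat_lit 87512781885) (nat_lit 8) (nat_lit 5) (nat_lit 9) (nat_lit 5) (nat_lit 10) (nat_lit 4) (nat_lit 358) (nat_lit 271) (nat_lit 151)) (XT.nd (nat_lit 33852) (nat_lit 0) (nat_lit 16872) (XT.lf (nat_lit 0) (nat_lit 85679772532) (nat_lit 152) (nat_lit 59469919161) (nat_lit 0) (nat_lit 16262717310) (nat_lit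 8) (nat_lit 5) (nat_lit 10) (nat_lit 4) (nat_lit 8) (nat_lit 4) (nat_lit 359) (nat_lit 271) (nat_lit 150)) (XT.lf (nat_lit 0) (nat_lit 483804102) (nat_lit 988) (nat_lit 1794292506) (nat_lit 988) (nat_lit 1794292506) (nat_lit 230) (nat_lit 3) (nat_lit 243) (nat_lit 3) (nat_lit 243) (nat_lit 5) (nat_lit 272) (nat_lit 272) (nat_lit 236)))) (XT.nd (nat_lit 156) (nat_lit 0) (nat_lit 152) (XT.nd (nat_lit 78) (nat_lit 0) (nat_lit 76) (XT.lf (nat_lit 76) (nat_lit 2592418765) (nat_lit 0) (nat_lit 216615290) (nat_lit 988) (nat_lit 5482051972) (nat_lit 231) (nat_lit 5) (nat_lit 230) (nat_lit 3) (nat_lit 243) (nat_lit 5) (nat_lit 273) (nat_lit 272) (nat_lit 235)) (XT.lf (nat_lit 76) (nat_lit 619344433) (nat_lit 0) (nat_lit 4093383065) (nat_lit 988) (nat_lit 3733054717) (nat_lit 232) (nat_lit 5) (nat_lit 231) (nat_lit 5) (nat_lit 244) (nat_lit 5) (nat_lit 274) (nat_lit 272) (nat_lit 234))) (XT.nd (nat_lit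 78) (nat_lit 0) (nat_lit 0) (XT.lf (nat_lit 0) (nat_lit 6668713660) (nat_lit 912) (nat_lit 1308613984) (nat_lit 988) (nat_lit 632342697) (nat_lit 232) (nat_lit 5) (nat_lit 244) (nat_lit 5) (nat_lit 245) (nat_lit 5) (nat_lit 275) (nat_lit 272) (nat_lit 233)) (XT.lf (nat_lit 76) (nat_lit 5538438882) (nat_lit 0) (nat_lit 3174362354) (nat_lit 988) (nat_lit 69404831) (nat_lit 233) (nat_lit 5) (nat_lit 232) (nat_lit 5) (nat_lit 245) (nat_lit 5) (nat_lit 276) (nat_lit 272) (nat_lit 232)))))) (XT.nd (nat_lit 468) (nat_lit 4484) (nat_lit 0) (XT.nd (nat_lit 234) (nat_lit 912) (nat_lit 0) (XT.nd (nat_lit 78) (nat_lit 0) (nat_lit 0) (XT.lf (nat_lit 0) (nat_lit 1826686684) (nat_lit 988) (nat_lit 5199555977) (nat_lit 1064) (nat_lit 1937690628) (nat_lit 220) (nat_lit 5) (nat_lit 233) (nat_lit 5) (nat_lit 234) (nat_lit 5) (nat_lit 277) (nat_lit 272) (nat_lit 231)) (XT.nd (nat_lit 78) (nat_lit 0) (nat_lit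 76) (XT.lf (nat_lit 76) (nat_lit 1977161389) (nat_lit 0) (nat_lit 1827296801) (nat_lit 1064) (nat_lit 5350761628) (nat_lit 221) (nat_lit 5) (nat_lit 220) (nat_lit 5) (nat_lit 234) (nat_lit 5) (nat_lit 278) (nat_lit 272) (nat_lit 230)) (XT.lf (nat_lit 76) (nat_lit 168110494) (nat_lit 0) (nat_lit 5711380604) (nat_lit 1064) (nat_lit 3476764472) (nat_lit 222) (nat_lit 5) (nat_lit 221) (nat_lit 5) (nat_lit 235) (nat_lit 5) (nat_lit 279) (nat_lit 272) (nat_lit 229)))) (XT.nd (nat_lit 78) (nat_lit 988) (nat_lit 0) (XT.lf (nat_lit 76) (nat_lit 7948051876) (nat_lit 0) (nat_lit 113939641) (nat_lit 1064) (nat_lit 1505369717) (nat_lit 222) (nat_lit 5) (nat_lit 221) (nat_lit 5) (nat_lit 235) (nat_lit 5) (nat_lit 280) (nat_lit 272) (nat_lit 228)) (XT.nd (nat_lit 78) (nat_lit 0) (nat_lit 76) (XT.lf (nat_lit 0) (nat_lit 586030187) (nat_lit 1064) (nat_lit 3462314847) (nat_lit 1140) (nat_lit 5739660586) (nat_lit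 208) (nat_lit 5) (nat_lit 222) (nat_lit 5) (nat_lit 223) (nat_lit 5) (nat_lit 281) (nat_lit 272) (nat_lit 227)) (XT.lf (nat_lit 0) (nat_lit 2751575844) (nat_lit 1064) (nat_lit 5345466630) (nat_lit 76) (nat_lit 1922285465) (nat_lit 209) (nat_lit 5) (nat_lit 223) (nat_lit 5) (nat_lit 210) (nat_lit 5) (nat_lit 282) (nat_lit 272) (nat_lit 226))))) (XT.nd (nat_lit 234) (nat_lit 2356) (nat_lit 0) (XT.nd (nat_lit 78) (nat_lit 1140) (nat_lit 0) (XT.lf (nat_lit 0) (nat_lit 2979825277) (nat_lit 1064) (nat_lit 2072979136) (nat_lit 1140) (nat_lit 5208698487) (nat_lit 195) (nat_lit 5) (nat_lit 209) (nat_lit 5) (nat_lit 210) (nat_lit 5) (nat_lit 283) (nat_lit 272) (nat_lit 225)) (XT.nd (nat_lit 78) (nat_lit 0) (nat_lit 0) (XT.lf (nat_lit 0) (nat_lit 1235889765) (nat_lit 1140) (nat_lit 6266661210) (nat_lit 1216) (nat_lit 3012335454) (nat_lit 180) (nat_lit 5) (nat_lit 195) (nat_lit 5) (nat_lit 196) (nat_lit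 5) (nat_lit 284) (nat_lit 272) (nat_lit 224)) (XT.lf (nat_lit 0) (nat_lit 10099961975) (nat_lit 1216) (nat_lit 535455666) (nat_lit 76) (nat_lit 144864770) (nat_lit 180) (nat_lit 5) (nat_lit 196) (nat_lit 5) (nat_lit 181) (nat_lit 5) (nat_lit 285) (nat_lit 272) (nat_lit 223)))) (XT.nd (nat_lit 156) (nat_lit 1064) (nat_lit 0) (XT.nd (nat_lit 78) (nat_lit 608) (nat_lit 0) (XT.lf (nat_lit 0) (nat_lit 1812822203) (nat_lit 684) (nat_lit 2385961917) (nat_lit 76) (nat_lit 6857374310) (nat_lit 171) (nat_lit 5) (nat_lit 180) (nat_lit 5) (nat_lit 172) (nat_lit 5) (nat_lit 286) (nat_lit 272) (nat_lit 222)) (XT.lf (nat_lit 0) (nat_lit 4449158580) (nat_lit 684) (nat_lit 4300893031) (nat_lit 76) (nat_lit 2594683184) (nat_lit 163) (nat_lit 5) (nat_lit 172) (nat_lit 5) (nat_lit 164) (nat_lit 5) (nat_lit 287) (nat_lit 272) (nat_lit 221))) (XT.nd (nat_lit 78) (nat_lit 532) (nat_lit 0) (XT.lf (nat_lit 0) (nat_lit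 5346816262) (nat_lit 532) (nat_lit 1925196398) (nat_lit 608) (nat_lit 4374168975) (nat_lit 156) (nat_lit 5) (nat_lit 163) (nat_lit 5) (nat_lit 164) (nat_lit 5) (nat_lit 288) (nat_lit 272) (nat_lit 220)) (XT.lf (nat_lit 0) (nat_lit 3561075746) (nat_lit 532) (nat_lit 6742834019) (nat_lit 608) (nat_lit 1656832788) (nat_lit 149) (nat_lit 5) (nat_lit 156) (nat_lit 5) (nat_lit 157) (nat_lit 5) (nat_lit 289) (nat_lit 272) (nat_lit 219))))))) (XT.nd (nat_lit 1014) (nat_lit 2812) (nat_lit 0) (XT.nd (nat_lit 468) (nat_lit 2280) (nat_lit 0) (XT.nd (nat_lit 234) (nat_lit 1368) (nat_lit 0) (XT.nd (nat_lit 78) (nat_lit 532) (nat_lit 0) (XT.lf (nat_lit 0) (nat_lit 1219134964) (nat_lit 532) (nat_lit 10597996182) (nat_lit 76) (nat_lit 472244868) (nat_lit 142) (nat_lit 5) (nat_lit 149) (nat_lit 5) (nat_lit 143) (nat_lit 5) (nat_lit 290) (nat_lit 272) (nat_lit 218)) (XT.nd (nat_lit 78) (nat_lit 532) (nat_lit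 0) (XT.lf (nat_lit 0) (nat_lit 4302821166) (nat_lit 532) (nat_lit 317415131) (nat_lit 76) (nat_lit 8010836492) (nat_lit 142) (nat_lit 5) (nat_lit 149) (nat_lit 5) (nat_lit 143) (nat_lit 5) (nat_lit 291) (nat_lit 272) (nat_lit 217)) (XT.lf (nat_lit 0) (nat_lit 7617245638) (nat_lit 608) (nat_lit 2392630885) (nat_lit 76) (nat_lit 2977747304) (nat_lit 135) (nat_lit 5) (nat_lit 143) (nat_lit 5) (nat_lit 136) (nat_lit 5) (nat_lit 292) (nat_lit 272) (nat_lit 216)))) (XT.nd (nat_lit 78) (nat_lit 912) (nat_lit 0) (XT.lf (nat_lit 0) (nat_lit 8762719406) (nat_lit 456) (nat_lit 2416067943) (nat_lit 532) (nat_lit 2180836084) (nat_lit 129) (nat_lit 5) (nat_lit 135) (nat_lit 5) (nat_lit 136) (nat_lit 5) (nat_lit 293) (nat_lit 272) (nat_lit 215)) (XT.nd (nat_lit 78) (nat_lit 380) (nat_lit 0) (XT.lf (nat_lit 0) (nat_lit 1238994275) (nat_lit 532) (nat_lit 6963518134) (nat_lit 76) (nat_lit 5544623691) (nat_lit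 122) (nat_lit 5) (nat_lit 129) (nat_lit 5) (nat_lit 123) (nat_lit 5) (nat_lit 294) (nat_lit 272) (nat_lit 214)) (XT.lf (nat_lit 0) (nat_lit 4662213857) (nat_lit 380) (nat_lit 190362367) (nat_lit 456) (nat_lit 9298819900) (nat_lit 117) (nat_lit 5) (nat_lit 122) (nat_lit 5) (nat_lit 123) (nat_lit 5) (nat_lit 295) (nat_lit 272) (nat_lit 213))))) (XT.nd (nat_lit 234) (nat_lit 1444) (nat_lit 0) (XT.nd (nat_lit 78) (nat_lit 456) (nat_lit 0) (XT.lf (nat_lit 0) (nat_lit 2348878092) (nat_lit 380) (nat_lit 6424147434) (nat_lit 456) (nat_lit 5799110726) (nat_lit 112) (nat_lit 5) (nat_lit 117) (nat_lit 5) (nat_lit 118) (nat_lit 5) (nat_lit 296) (nat_lit 272) (nat_lit 212)) (XT.nd (nat_lit 78) (nat_lit 456) (nat_lit 0) (XT.lf (nat_lit 0) (nat_lit 12961984568) (nat_lit 456) (nat_lit 112741662) (nat_lit 76) (nat_lit 1937062779) (nat_lit 112) (nat_lit 5) (nat_lit 118) (nat_lit 5) (nat_lit 113) (nat_lit 5)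 (nat_lit 297) (nat_lit 272) (nat_lit 211)) (XT.lf (nat_lit 0) (nat_lit 1994752737) (nat_lit 456) (nat_lit 2756973821) (nat_lit 76) (nat_lit 10716861923) (nat_lit 106) (nat_lit 5) (nat_lit 112) (nat_lit 5) (nat_lit 107) (nat_lit 5) (nat_lit 298) (nat_lit 272) (nat_lit 210)))) (XT.nd (nat_lit 156) (nat_lit 760) (nat_lit 0) (XT.nd (nat_lit 78) (nat_lit 304) (nat_lit 0) (XT.lf (nat_lit 0) (nat_lit 6296826978) (nat_lit 456) (nat_lit 5627018552) (nat_lit 76) (nat_lit 4020887316) (nat_lit 101) (nat_lit 5) (nat_lit 107) (nat_lit 5) (nat_lit 102) (nat_lit 5) (nat_lit 299) (nat_lit 272) (nat_lit 209)) (XT.lf (nat_lit 0) (nat_lit 7708014409) (nat_lit 304) (nat_lit 3215253853) (nat_lit 380) (nat_lit 5518180403) (nat_lit 97) (nat_lit 5) (nat_lit 101) (nat_lit 5) (nat_lit 102) (nat_lit 5) (nat_lit 300) (nat_lit 272) (nat_lit 208))) (XT.nd (nat_lit 78) (nat_lit 380) (nat_lit 0) (XT.lf (nat_lit 0) (nat_lit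 4849551401) (nat_lit 380) (nat_lit 11053482501) (nat_lit 456) (nat_lit 1056346433) (nat_lit 92) (nat_lit 5) (nat_lit 97) (nat_lit 5) (nat_lit 98) (nat_lit 5) (nat_lit 301) (nat_lit 272) (nat_lit 207)) (XT.lf (nat_lit 0) (nat_lit 1705823123) (nat_lit 304) (nat_lit 1952476409) (nat_lit 380) (nat_lit 13840883947) (nat_lit 87) (nat_lit 5) (nat_lit 91) (nat_lit 5) (nat_lit 92) (nat_lit 5) (nat_lit 302) (nat_lit 272) (nat_lit 206)))))) (XT.nd (nat_lit 546) (nat_lit 1216) (nat_lit 0) (XT.nd (nat_lit 234) (nat_lit 912) (nat_lit 0) (XT.nd (nat_lit 78) (nat_lit 684) (nat_lit 0) (XT.lf (nat_lit 0) (nat_lit 8748139908) (nat_lit 380) (nat_lit 1734344433) (nat_lit 76) (nat_lit 7578374742) (nat_lit 87) (nat_lit 5) (nat_lit 92) (nat_lit 5) (nat_lit 88) (nat_lit 5) (nat_lit 303) (nat_lit 272) (nat_lit 205)) (XT.nd (nat_lit 78) (nat_lit 380) (nat_lit 0) (XT.lf (nat_lit 0) (nat_lit 13215863070) (nat_lit 304)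 (nat_lit 987280123) (nat_lit 380) (nat_lit 4444188802) (nat_lit 83) (nat_lit 5) (nat_lit 87) (nat_lit 5) (nat_lit 88) (nat_lit 5) (nat_lit 304) (nat_lit 272) (nat_lit 204)) (XT.lf (nat_lit 0) (nat_lit 819382765) (nat_lit 380) (nat_lit 9524961504) (nat_lit 76) (nat_lit 8913683474) (nat_lit 78) (nat_lit 5) (nat_lit 83) (nat_lit 5) (nat_lit 79) (nat_lit 5) (nat_lit 305) (nat_lit 272) (nat_lit 203)))) (XT.nd (nat_lit 156) (nat_lit 380) (nat_lit 0) (XT.nd (nat_lit 78) (nat_lit 228) (nat_lit 0) (XT.lf (nat_lit 0) (nat_lit 5882415254) (nat_lit 304) (nat_lit 461519153) (nat_lit 380) (nat_lit 13551342027) (nat_lit 74) (nat_lit 5) (nat_lit 78) (nat_lit 5) (nat_lit 79) (nat_lit 5) (nat_lit 306) (nat_lit 272) (nat_lit 202)) (XT.lf (nat_lit 0) (nat_lit 1584160019) (nat_lit 228) (nat_lit 10737031483) (nat_lit 304) (nat_lit 8237929948) (nat_lit 71) (nat_lit 5) (nat_lit 74) (nat_lit 5) (nat_lit 75) (nat_lit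 5) (nat_lit 307) (nat_lit 272) (nat_lit 201))) (XT.nd (nat_lit 78) (nat_lit 380) (nat_lit 0) (XT.lf (nat_lit 0) (nat_lit 18202264346) (nat_lit 228) (nat_lit 511949627) (nat_lit 304) (nat_lit 2538464548) (nat_lit 71) (nat_lit 5) (nat_lit 74) (nat_lit 5) (nat_lit 75) (nat_lit 5) (nat_lit 308) (nat_lit 272) (nat_lit 200)) (XT.lf (nat_lit 0) (nat_lit 3581011993) (nat_lit 380) (nat_lit 8214169231) (nat_lit 76) (nat_lit 10178694897) (nat_lit 66) (nat_lit 5) (nat_lit 71) (nat_lit 5) (nat_lit 67) (nat_lit 5) (nat_lit 309) (nat_lit 272) (nat_lit 199))))) (XT.nd (nat_lit 234) (nat_lit 684) (nat_lit 0) (XT.nd (nat_lit 78) (nat_lit 304) (nat_lit 0) (XT.lf (nat_lit 0) (nat_lit 8840566511) (nat_lit 228) (nat_lit 1205885957) (nat_lit 304) (nat_lit 12681176121) (nat_lit 63) (nat_lit 5) (nat_lit 66) (nat_lit 5) (nat_lit 67) (nat_lit 5) (nat_lit 310) (nat_lit 272) (nat_lit 198)) (XT.nd (nat_lit 78) (nat_lit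 76) (nat_lit 0) (XT.lf (nat_lit 0) (nat_lit 3327771983) (nat_lit 228) (nat_lit 13691069918) (nat_lit 304) (nat_lit 6494739018) (nat_lit 60) (nat_lit 5) (nat_lit 63) (nat_lit 5) (nat_lit 64) (nat_lit 5) (nat_lit 311) (nat_lit 272) (nat_lit 197)) (XT.lf (nat_lit 0) (nat_lit 129216190) (nat_lit 304) (nat_lit 2698107948) (nat_lit 76) (nat_lit 21507680793) (nat_lit 59) (nat_lit 5) (nat_lit 63) (nat_lit 5) (nat_lit 60) (nat_lit 5) (nat_lit 312) (nat_lit 272) (nat_lit 196)))) (XT.nd (nat_lit 156) (nat_lit 228) (nat_lit 0) (XT.nd (nat_lit 78) (nat_lit 228) (nat_lit 0) (XT.lf (nat_lit 0) (nat_lit 7161331808) (nat_lit 304) (nat_lit 9409683654) (nat_lit 76) (nat_lit 8618236888) (nat_lit 56) (nat_lit 5) (nat_lit 60) (nat_lit 5) (nat_lit 57) (nat_lit 5) (nat_lit 313) (nat_lit 272) (nat_lit 195)) (XT.lf (nat_lit 0) (nat_lit 9263157906) (nat_lit 228) (nat_lit 5401309563) (nat_lit 304) (nat_lit 11418181154)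 (nat_lit 53) (nat_lit 5) (nat_lit 56) (nat_lit 5) (nat_lit 57) (nat_lit 5) (nat_lit 314) (nat_lit 272) (nat_lit 194))) (XT.nd (nat_lit 78) (nat_lit 76) (nat_lit 0) (XT.lf (nat_lit 0) (nat_lit 1985038126) (nat_lit 152) (nat_lit 20709956971) (nat_lit 228) (nat_lit 4321170563) (nat_lit 51) (nat_lit 5) (nat_lit 53) (nat_lit 5) (nat_lit 54) (nat_lit 5) (nat_lit 315) (nat_lit 272) (nat_lit 193)) (XT.lf (nat_lit 0) (nat_lit 3274060513) (nat_lit 228) (nat_lit 6035960539) (nat_lit 76) (nat_lit 18679317494) (nat_lit 50) (nat_lit 5) (nat_lit 53) (nat_lit 5) (nat_lit 51) (nat_lit 5) (nat_lit 316) (nat_lit 272) (nat_lit 192))))))))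
noncomputable def xc72 : XT := (XT.nd (nat_lit 2028) (nat_lit 532) (nat_lit 0) (XT.nd (nat_lit 1014) (nat_lit 912) (nat_lit 0) (XT.nd (nat_lit 468) (nat_lit 912) (nat_lit 0) (XT.nd (nat_lit 234) (nat_lit 456) (nat_lit 0) (XT.nd (nat_lit 78) (nat_lit 152) (nat_lit 0) (XT.lf (nat_lit 0) (nat_lit 11299560622) (nat_lit 304) (nat_lit 14931034697) (nat_lit 76) (nat_lit 2775110820) (nat_lit 47) (nat_lit 5) (nat_lit 51) (nat_lit 5) (nat_lit 48) (nat_lit 5) (nat_lit 317) (nat_lit 272) (nat_lit 191)) (XT.nd (nat_lit 78) (nat_lit 0) (nat_lit 0) (XT.lf (nat_lit 0) (nat_lit 5215800598) (nat_lit 152) (nat_lit 14694309027) (nat_lit 228) (nat_lit 10157284374) (nat_lit 45) (nat_lit 5) (nat_lit 47) (nat_lit 5) (nat_lit 48) (nat_lit 5) (nat_lit 318) (nat_lit 272) (nat_lit 190)) (XT.lf (nat_lit 0) (nat_lit 26645726849) (nat_lit 152) (nat_lit 2436829628) (nat_lit 228) (nat_lit 2095683045) (nat_lit 45) (nat_lit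 5) (nat_lit 47) (nat_lit 5) (nat_lit 48) (nat_lit 5) (nat_lit 319) (nat_lit 272) (nat_lit 189)))) (XT.nd (nat_lit 78) (nat_lit 152) (nat_lit 0) (XT.lf (nat_lit 0) (nat_lit 6489403255) (nat_lit 304) (nat_lit 15402118385) (nat_lit 76) (nat_lit 10443941690) (nat_lit 41) (nat_lit 5) (nat_lit 45) (nat_lit 5) (nat_lit 42) (nat_lit 5) (nat_lit 320) (nat_lit 272) (nat_lit 188)) (XT.nd (nat_lit 78) (nat_lit 0) (nat_lit 0) (XT.lf (nat_lit 0) (nat_lit 6055531823) (nat_lit 152) (nat_lit 9514276256) (nat_lit 228) (nat_lit 17976848250) (nat_lit 39) (nat_lit 5) (nat_lit 41) (nat_lit 5) (nat_lit 42) (nat_lit 5) (nat_lit 321) (nat_lit 272) (nat_lit 187)) (XT.lf (nat_lit 0) (nat_lit 25277448657) (nat_lit 228) (nat_lit 5974758549) (nat_lit 76) (nat_lit 3561017370) (nat_lit 39) (nat_lit 5) (nat_lit 42) (nat_lit 5) (nat_lit 40) (nat_lit 5) (nat_lit 322) (nat_lit 272) (nat_lit 186))))) (XT.nd (nat_lit 234) (nat_lit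 532) (nat_lit 0) (XT.nd (nat_lit 78) (nat_lit 228) (nat_lit 0) (XT.lf (nat_lit 0) (nat_lit 16817187993) (nat_lit 152) (nat_lit 18891565489) (nat_lit 228) (nat_lit 427230776) (nat_lit 37) (nat_lit 5) (nat_lit 39) (nat_lit 5) (nat_lit 40) (nat_lit 5) (nat_lit 323) (nat_lit 272) (nat_lit 185)) (XT.nd (nat_lit 78) (nat_lit 0) (nat_lit 0) (XT.lf (nat_lit 0) (nat_lit 3294569825) (nat_lit 152) (nat_lit 5738684613) (nat_lit 228) (nat_lit 28486759162) (nat_lit 34) (nat_lit 5) (nat_lit 36) (nat_lit 5) (nat_lit 37) (nat_lit 5) (nat_lit 324) (nat_lit 272) (nat_lit 184)) (XT.lf (nat_lit 0) (nat_lit 19217946977) (nat_lit 228) (nat_lit 11640201087) (nat_lit 76) (nat_lit 8107178997) (nat_lit 34) (nat_lit 5) (nat_lit 37) (nat_lit 5) (nat_lit 35) (nat_lit 5) (nat_lit 325) (nat_lit 272) (nat_lit 183)))) (XT.nd (nat_lit 156) (nat_lit 380) (nat_lit 0) (XT.nd (nat_lit 78) (nat_lit 0) (nat_lit 0) (XT.lf (nat_lit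 0) (nat_lit 12225069902) (nat_lit 152) (nat_lit 17844627954) (nat_lit 228) (nat_lit 10408483262) (nat_lit 32) (nat_lit 5) (nat_lit 34) (nat_lit 5) (nat_lit 35) (nat_lit 5) (nat_lit 326) (nat_lit 272) (nat_lit 182)) (XT.lf (nat_lit 0) (nat_lit 37497839496) (nat_lit 152) (nat_lit 4068969161) (nat_lit 228) (nat_lit 496795227) (nat_lit 32) (nat_lit 5) (nat_lit 34) (nat_lit 5) (nat_lit 35) (nat_lit 5) (nat_lit 327) (nat_lit 272) (nat_lit 181))) (XT.nd (nat_lit 78) (nat_lit 152) (nat_lit 0) (XT.lf (nat_lit 0) (nat_lit 10001266274) (nat_lit 228) (nat_lit 23238328057) (nat_lit 76) (nat_lit 10477328629) (nat_lit 29) (nat_lit 5) (nat_lit 32) (nat_lit 5) (nat_lit 30) (nat_lit 5) (nat_lit 328) (nat_lit 272) (nat_lit 180)) (XT.lf (nat_lit 0) (nat_lit 1371765239) (nat_lit 152) (nat_lit 19728009289) (nat_lit 228) (nat_lit 24350419434) (nat_lit 27) (nat_lit 5) (nat_lit 29) (nat_lit 5) (nat_lit 30) (nat_lit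 5) (nat_lit 329) (nat_lit 272) (nat_lit 179)))))) (XT.nd (nat_lit 468) (nat_lit 532) (nat_lit 0) (XT.nd (nat_lit 234) (nat_lit 228) (nat_lit 0) (XT.nd (nat_lit 78) (nat_lit 152) (nat_lit 0) (XT.lf (nat_lit 0) (nat_lit 27671225964) (nat_lit 152) (nat_lit 5305706464) (nat_lit 228) (nat_lit 14286492057) (nat_lit 27) (nat_lit 5) (nat_lit 29) (nat_lit 5) (nat_lit 30) (nat_lit 5) (nat_lit 330) (nat_lit 272) (nat_lit 178)) (XT.nd (nat_lit 78) (nat_lit 76) (nat_lit 0) (XT.lf (nat_lit 0) (nat_lit 6117325033) (nat_lit 76) (nat_lit 39469133663) (nat_lit 152) (nat_lit 3576709852) (nat_lit 26) (nat_lit 5) (nat_lit 27) (nat_lit 5) (nat_lit 28) (nat_lit 4) (nat_lit 331) (nat_lit 272) (nat_lit 177)) (XT.lf (nat_lit 0) (nat_lit 7761611282) (nat_lit 152) (nat_lit 17784747830) (nat_lit 76) (nat_lit 25602055300) (nat_lit 25) (nat_lit 5) (nat_lit 27) (nat_lit 5) (nat_lit 26) (nat_lit 5) (nat_lit 332) (nat_lit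 272) (nat_lit 176)))) (XT.nd (nat_lit 78) (nat_lit 76) (nat_lit 0) (XT.lf (nat_lit 0) (nat_lit 8851863223) (nat_lit 152) (nat_lit 10812941055) (nat_lit 228) (nat_lit 33564904528) (nat_lit 23) (nat_lit 5) (nat_lit 25) (nat_lit 5) (nat_lit 26) (nat_lit 5) (nat_lit 333) (nat_lit 272) (nat_lit 175)) (XT.nd (nat_lit 78) (nat_lit 76) (nat_lit 0) (XT.lf (nat_lit 0) (nat_lit 32379302813) (nat_lit 228) (nat_lit 18287991433) (nat_lit 76) (nat_lit 4741295443) (nat_lit 23) (nat_lit 5) (nat_lit 26) (nat_lit 5) (nat_lit 24) (nat_lit 4) (nat_lit 334) (nat_lit 272) (nat_lit 174)) (XT.lf (nat_lit 0) (nat_lit 9153172388) (nat_lit 76) (nat_lit 36760608454) (nat_lit 152) (nat_lit 11777111992) (nat_lit 22) (nat_lit 5) (nat_lit 23) (nat_lit 5) (nat_lit 24) (nat_lit 4) (nat_lit 335) (nat_lit 272) (nat_lit 173))))) (XT.nd (nat_lit 234) (nat_lit 304) (nat_lit 0) (XT.nd (nat_lit 78) (nat_lit 152) (nat_lit 0) (XT.lf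 (nat_lit 0) (nat_lit 214462601) (nat_lit 152) (nat_lit 21757593235) (nat_lit 76) (nat_lit 38109924067) (nat_lit 21) (nat_lit 5) (nat_lit 23) (nat_lit 5) (nat_lit 22) (nat_lit 5) (nat_lit 336) (nat_lit 272) (nat_lit 172)) (XT.nd (nat_lit 78) (nat_lit 0) (nat_lit 0) (XT.lf (nat_lit 0) (nat_lit 6345287241) (nat_lit 152) (nat_lit 6268022127) (nat_lit 228) (nat_lit 49974281095) (nat_lit 19) (nat_lit 5) (nat_lit 21) (nat_lit 5) (nat_lit 22) (nat_lit 5) (nat_lit 337) (nat_lit 272) (nat_lit 171)) (XT.lf (nat_lit 0) (nat_lit 25944834113) (nat_lit 228) (nat_lit 29025113822) (nat_lit 76) (nat_lit 10239156457) (nat_lit 19) (nat_lit 5) (nat_lit 22) (nat_lit 5) (nat_lit 20) (nat_lit 4) (nat_lit 338) (nat_lit 272) (nat_lit 170)))) (XT.nd (nat_lit 156) (nat_lit 228) (nat_lit 0) (XT.nd (nat_lit 78) (nat_lit 76) (nat_lit 0) (XT.lf (nat_lit 0) (nat_lit 39995047650) (nat_lit 228) (nat_lit 530198991) (nat_lit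 76) (nat_lit 27434888675) (nat_lit 19) (nat_lit 5) (nat_lit 22) (nat_lit 5) (nat_lit 20) (nat_lit 4) (nat_lit 339) (nat_lit 272) (nat_lit 169)) (XT.lf (nat_lit 0) (nat_lit 29955069670) (nat_lit 76) (nat_lit 25070027590) (nat_lit 152) (nat_lit 15815305219) (nat_lit 18) (nat_lit 5) (nat_lit 19) (nat_lit 5) (nat_lit 20) (nat_lit 4) (nat_lit 340) (nat_lit 272) (nat_lit 168))) (XT.nd (nat_lit 78) (nat_lit 228) (nat_lit 0) (XT.lf (nat_lit 0) (nat_lit 61957300581) (nat_lit 76) (nat_lit 8844514720) (nat_lit 152) (nat_lit 3063016962) (nat_lit 18) (nat_lit 5) (nat_lit 19) (nat_lit 5) (nat_lit 20) (nat_lit 4) (nat_lit 341) (nat_lit 272) (nat_lit 167)) (XT.lf (nat_lit 0) (nat_lit 10377324913) (nat_lit 228) (nat_lit 58345413150) (nat_lit 76) (nat_lit 8307212726) (nat_lit 15) (nat_lit 5) (nat_lit 18) (nat_lit 5) (nat_lit 16) (nat_lit 4) (nat_lit 342) (nat_lit 272) (nat_lit 166))))))) (XT.nd (nat_lit 1014)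 (nat_lit 76) (nat_lit 0) (XT.nd (nat_lit 468) (nat_lit 228) (nat_lit 0) (XT.nd (nat_lit 234) (nat_lit 152) (nat_lit 0) (XT.nd (nat_lit 78) (nat_lit 76) (nat_lit 0) (XT.lf (nat_lit 0) (nat_lit 24630316133) (nat_lit 228) (nat_lit 29433421858) (nat_lit 76) (nat_lit 26282561774) (nat_lit 15) (nat_lit 5) (nat_lit 18) (nat_lit 5) (nat_lit 16) (nat_lit 4) (nat_lit 343) (nat_lit 272) (nat_lit 165)) (XT.nd (nat_lit 78) (nat_lit 0) (nat_lit 0) (XT.lf (nat_lit 0) (nat_lit 925643523) (nat_lit 76) (nat_lit 38670001971) (nat_lit 152) (nat_lit 44232833596) (nat_lit 14) (nat_lit 5) (nat_lit 15) (nat_lit 5) (nat_lit 16) (nat_lit 4) (nat_lit 344) (nat_lit 272) (nat_lit 164)) (XT.lf (nat_lit 0) (nat_lit 33401621503) (nat_lit 76) (nat_lit 22201685310) (nat_lit 152) (nat_lit 31872641990) (nat_lit 14) (nat_lit 5) (nat_lit 15) (nat_lit 5) (nat_lit 16) (nat_lit 4) (nat_lit 345) (nat_lit 272) (nat_lit 163)))) (XT.nd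 (nat_lit 78) (nat_lit 152) (nat_lit 0) (XT.lf (nat_lit 0) (nat_lit 67486053031) (nat_lit 76) (nat_lit 4916797578) (nat_lit 152) (nat_lit 18903199637) (nat_lit 14) (nat_lit 5) (nat_lit 15) (nat_lit 5) (nat_lit 16) (nat_lit 4) (nat_lit 346) (nat_lit 272) (nat_lit 162)) (XT.nd (nat_lit 78) (nat_lit 76) (nat_lit 0) (XT.lf (nat_lit 0) (nat_lit 7960390056) (nat_lit 76) (nat_lit 82277540512) (nat_lit 76) (nat_lit 5083862498) (nat_lit 13) (nat_lit 4) (nat_lit 14) (nat_lit 5) (nat_lit 14) (nat_lit 4) (nat_lit 347) (nat_lit 272) (nat_lit 161)) (XT.lf (nat_lit 0) (nat_lit 9531768434) (nat_lit 152) (nat_lit 57860604778) (nat_lit 76) (nat_lit 32134556152) (nat_lit 12) (nat_lit 5) (nat_lit 14) (nat_lit 5) (nat_lit 13) (nat_lit 4) (nat_lit 348) (nat_lit 272) (nat_lit 160))))) (XT.nd (nat_lit 234) (nat_lit 152) (nat_lit 0) (XT.nd (nat_lit 78) (nat_lit 76) (nat_lit 0) (XT.lf (nat_lit 0) (nat_lit 24766407365)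 (nat_lit 152) (nat_lit 26949922687) (nat_lit 76) (nat_lit 52224684015) (nat_lit 12) (nat_lit 5) (nat_lit 14) (nat_lit 5) (nat_lit 13) (nat_lit 4) (nat_lit 349) (nat_lit 272) (nat_lit 159)) (XT.nd (nat_lit 78) (nat_lit 0) (nat_lit 0) (XT.lf (nat_lit 0) (nat_lit 5602432963) (nat_lit 76) (nat_lit 35206952761) (nat_lit 152) (nat_lit 67765021635) (nat_lit 11) (nat_lit 5) (nat_lit 12) (nat_lit 5) (nat_lit 13) (nat_lit 4) (nat_lit 350) (nat_lit 272) (nat_lit 158)) (XT.lf (nat_lit 0) (nat_lit 40332774250) (nat_lit 76) (nat_lit 17592139867) (nat_lit 152) (nat_lit 55506446619) (nat_lit 11) (nat_lit 5) (nat_lit 12) (nat_lit 5) (nat_lit 13) (nat_lit 4) (nat_lit 351) (nat_lit 272) (nat_lit 157)))) (XT.nd (nat_lit 156) (nat_lit 152) (nat_lit 0) (XT.nd (nat_lit 78) (nat_lit 0) (nat_lit 0) (XT.lf (nat_lit 0) (nat_lit 75898160107) (nat_lit 152) (nat_lit 41752559900) (nat_lit 0) (nat_lit 880385876) (nat_lit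 11) (nat_lit 5) (nat_lit 13) (nat_lit 4) (nat_lit 11) (nat_lit 4) (nat_lit 352) (nat_lit 272) (nat_lit 156)) (XT.lf (nat_lit 0) (nat_lit 94941208235) (nat_lit 152) (nat_lit 9028552338) (nat_lit 0) (nat_lit 19910945748) (nat_lit 11) (nat_lit 5) (nat_lit 13) (nat_lit 4) (nat_lit 11) (nat_lit 4) (nat_lit 353) (nat_lit 272) (nat_lit 155))) (XT.nd (nat_lit 78) (nat_lit 76) (nat_lit 0) (XT.lf (nat_lit 0) (nat_lit 25824383655) (nat_lit 76) (nat_lit 89354148799) (nat_lit 76) (nat_lit 14311992735) (nat_lit 10) (nat_lit 4) (nat_lit 11) (nat_lit 5) (nat_lit 11) (nat_lit 4) (nat_lit 354) (nat_lit 272) (nat_lit 154)) (XT.lf (nat_lit 0) (nat_lit 1114330421) (nat_lit 152) (nat_lit 72791392523) (nat_lit 76) (nat_lit 61472175984) (nat_lit 9) (nat_lit 5) (nat_lit 11) (nat_lit 5) (nat_lit 10) (nat_lit 4) (nat_lit 355) (nat_lit 272) (nat_lit 153)))))) (XT.nd (nat_lit 34398) (nat_lit 0) (nat_lit 15124) (XT.nd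 (nat_lit 34164) (nat_lit 0) (nat_lit 16872) (XT.nd (nat_lit 78) (nat_lit 76) (nat_lit 0) (XT.lf (nat_lit 0) (nat_lit 17013022429) (nat_lit 152) (nat_lit 40527835572) (nat_lit 76) (nat_lit 84014622733) (nat_lit 9) (nat_lit 5) (nat_lit 11) (nat_lit 5) (nat_lit 10) (nat_lit 4) (nat_lit 356) (nat_lit 272) (nat_lit 152)) (XT.nd (nat_lit 156) (nat_lit 76) (nat_lit 0) (XT.lf (nat_lit 0) (nat_lit 33701215844) (nat_lit 152) (nat_lit 6661077059) (nat_lit 76) (nat_lit 107679813502) (nat_lit 9) (nat_lit 5) (nat_lit 11) (nat_lit 5) (nat_lit 10) (nat_lit 4) (nat_lit 357) (nat_lit 272) (nat_lit 151)) (XT.lf (nat_lit 0) (nat_lit 67526275193) (nat_lit 76) (nat_lit 2729845112) (nat_lit 152) (nat_lit 91729445896) (nat_lit 8) (nat_lit 5) (nat_lit 9) (nat_lit 5) (nat_lit 10) (nat_lit 4) (nat_lit 359) (nat_lit 272) (nat_lit 149)))) (XT.nd (nat_lit 78) (nat_lit 0) (nat_lit 0) (XT.lf (nat_lit 0) (nat_lit 2272326967)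 (nat_lit 988) (nat_lit 974000333) (nat_lit 988) (nat_lit 974000333) (nat_lit 230) (nat_lit 3) (nat_lit 243) (nat_lit 3) (nat_lit 243) (nat_lit 5) (nat_lit 273) (nat_lit 273) (nat_lit 234)) (XT.nd (nat_lit 78) (nat_lit 0) (nat_lit 76) (XT.lf (nat_lit 76) (nat_lit 4489882976) (nat_lit 0) (nat_lit 1837230011) (nat_lit 988) (nat_lit 2271958608) (nat_lit 231) (nat_lit 5) (nat_lit 230) (nat_lit 3) (nat_lit 243) (nat_lit 5) (nat_lit 274) (nat_lit 273) (nat_lit 233)) (XT.lf (nat_lit 76) (nat_lit 2486024679) (nat_lit 0) (nat_lit 5682035667) (nat_lit 988) (nat_lit 598429688) (nat_lit 232) (nat_lit 5) (nat_lit 231) (nat_lit 5) (nat_lit 244) (nat_lit 5) (nat_lit 275) (nat_lit 273) (nat_lit 232))))) (XT.nd (nat_lit 234) (nat_lit 836) (nat_lit 0) (XT.nd (nat_lit 78) (nat_lit 0) (nat_lit 76) (XT.lf (nat_lit 76) (nat_lit 476045428) (nat_lit 0) (nat_lit 625118828) (nat_lit 1064) (nat_lit 7841980991) (nat_lit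 219) (nat_lit 5) (nat_lit 218) (nat_lit 5) (nat_lit 232) (nat_lit 5) (nat_lit 276) (nat_lit 273) (nat_lit 231)) (XT.nd (nat_lit 78) (nat_lit 0) (nat_lit 76) (XT.lf (nat_lit 0) (nat_lit 2887590164) (nat_lit 988) (nat_lit 1537508225) (nat_lit 1064) (nat_lit 4703073102) (nat_lit 219) (nat_lit 5) (nat_lit 232) (nat_lit 5) (nat_lit 233) (nat_lit 5) (nat_lit 277) (nat_lit 273) (nat_lit 230)) (XT.lf (nat_lit 0) (nat_lit 4743778654) (nat_lit 988) (nat_lit 3546254953) (nat_lit 1064) (nat_lit 1033138285) (nat_lit 220) (nat_lit 5) (nat_lit 233) (nat_lit 5) (nat_lit 234) (nat_lit 5) (nat_lit 278) (nat_lit 273) (nat_lit 229)))) (XT.nd (nat_lit 156) (nat_lit 988) (nat_lit 0) (XT.nd (nat_lit 78) (nat_lit 0) (nat_lit 76) (XT.lf (nat_lit 76) (nat_lit 3934454529) (nat_lit 0) (nat_lit 2769288734) (nat_lit 1064) (nat_lit 2823979650) (nat_lit 221) (nat_lit 5) (nat_lit 220) (nat_lit 5) (nat_lit 234) (nat_lit 5)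 (nat_lit 279) (nat_lit 273) (nat_lit 228)) (XT.lf (nat_lit 76) (nat_lit 2072435779) (nat_lit 0) (nat_lit 6691526438) (nat_lit 1064) (nat_lit 978595015) (nat_lit 222) (nat_lit 5) (nat_lit 221) (nat_lit 5) (nat_lit 235) (nat_lit 5) (nat_lit 280) (nat_lit 273) (nat_lit 227))) (XT.nd (nat_lit 78) (nat_lit 0) (nat_lit 76) (XT.lf (nat_lit 76) (nat_lit 177182322) (nat_lit 0) (nat_lit 769838209) (nat_lit 1140) (nat_lit 9020749999) (nat_lit 208) (nat_lit 5) (nat_lit 207) (nat_lit 5) (nat_lit 222) (nat_lit 5) (nat_lit 281) (nat_lit 273) (nat_lit 226)) (XT.lf (nat_lit 0) (nat_lit 3003330801) (nat_lit 1064) (nat_lit 1749101227) (nat_lit 1140) (nat_lit 5449990905) (nat_lit 208) (nat_lit 5) (nat_lit 222) (nat_lit 5) (nat_lit 223) (nat_lit 5) (nat_lit 282) (nat_lit 273) (nat_lit 225))))))))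
noncomputable def xc73 : XT := (XT.nd (nat_lit 2028) (nat_lit 3648) (nat_lit 0) (XT.nd (nat_lit 1014) (nat_lit 3876) (nat_lit 0) (XT.nd (nat_lit 468) (nat_lit 3116) (nat_lit 0) (XT.nd (nat_lit 234) (nat_lit 1292) (nat_lit 0) (XT.nd (nat_lit 78) (nat_lit 2204) (nat_lit 0) (XT.lf (nat_lit 0) (nat_lit 5176633948) (nat_lit 1064) (nat_lit 3704122783) (nat_lit 76) (nat_lit 1567729423) (nat_lit 209) (nat_lit 5) (nat_lit 223) (nat_lit 5) (nat_lit 210) (nat_lit 5) (nat_lit 283) (nat_lit 273) (nat_lit 224)) (XT.nd (nat_lit 78) (nat_lit 1140) (nat_lit 0) (XT.lf (nat_lit 0) (nat_lit 4982723591) (nat_lit 1064) (nat_lit 2519093656) (nat_lit 1140) (nat_lit 3203837426) (nat_lit 195) (nat_lit 5) (nat_lit 209) (nat_lit 5) (nat_lit 210) (nat_lit 5) (nat_lit 284) (nat_lit 273) (nat_lit 223)) (XT.lf (nat_lit 0) (nat_lit 3168594753) (nat_lit 1140) (nat_lit 6815716322) (nat_lit 1216) (nat_lit 990232896) (nat_lit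 180) (nat_lit 5) (nat_lit 195) (nat_lit 5) (nat_lit 196) (nat_lit 5) (nat_lit 285) (nat_lit 273) (nat_lit 222)))) (XT.nd (nat_lit 78) (nat_lit 608) (nat_lit 0) (XT.lf (nat_lit 0) (nat_lit 1296308206) (nat_lit 608) (nat_lit 43127358) (nat_lit 684) (nat_lit 9916201800) (nat_lit 171) (nat_lit 5) (nat_lit 179) (nat_lit 5) (nat_lit 180) (nat_lit 5) (nat_lit 286) (nat_lit 273) (nat_lit 221)) (XT.nd (nat_lit 78) (nat_lit 608) (nat_lit 0) (XT.lf (nat_lit 0) (nat_lit 3851067883) (nat_lit 684) (nat_lit 669980027) (nat_lit 76) (nat_lit 7026947273) (nat_lit 171) (nat_lit 5) (nat_lit 180) (nat_lit 5) (nat_lit 172) (nat_lit 5) (nat_lit 287) (nat_lit 273) (nat_lit 220)) (XT.lf (nat_lit 0) (nat_lit 6542755485) (nat_lit 684) (nat_lit 2673825113) (nat_lit 76) (nat_lit 2636834832) (nat_lit 163) (nat_lit 5) (nat_lit 172) (nat_lit 5) (nat_lit 164) (nat_lit 5) (nat_lit 288) (nat_lit 273) (nat_lit 219))))) (XT.nd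 (nat_lit 234) (nat_lit 1520) (nat_lit 0) (XT.nd (nat_lit 78) (nat_lit 1064) (nat_lit 0) (XT.lf (nat_lit 0) (nat_lit 7403465858) (nat_lit 532) (nat_lit 2031384486) (nat_lit 608) (nat_lit 2737356656) (nat_lit 156) (nat_lit 5) (nat_lit 163) (nat_lit 5) (nat_lit 164) (nat_lit 5) (nat_lit 289) (nat_lit 273) (nat_lit 218)) (XT.nd (nat_lit 78) (nat_lit 456) (nat_lit 0) (XT.lf (nat_lit 0) (nat_lit 44263963) (nat_lit 608) (nat_lit 6973184634) (nat_lit 76) (nat_lit 5487200253) (nat_lit 148) (nat_lit 5) (nat_lit 156) (nat_lit 5) (nat_lit 149) (nat_lit 5) (nat_lit 290) (nat_lit 273) (nat_lit 217)) (XT.lf (nat_lit 0) (nat_lit 2964733582) (nat_lit 532) (nat_lit 9298958267) (nat_lit 76) (nat_lit 587582488) (nat_lit 142) (nat_lit 5) (nat_lit 149) (nat_lit 5) (nat_lit 143) (nat_lit 5) (nat_lit 291) (nat_lit 273) (nat_lit 216)))) (XT.nd (nat_lit 156) (nat_lit 988) (nat_lit 0) (XT.nd (nat_lit 78) (nat_lit 0)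 (nat_lit 0) (XT.lf (nat_lit 0) (nat_lit 1436592660) (nat_lit 532) (nat_lit 4699599799) (nat_lit 608) (nat_lit 7075952565) (nat_lit 135) (nat_lit 5) (nat_lit 142) (nat_lit 5) (nat_lit 143) (nat_lit 5) (nat_lit 292) (nat_lit 273) (nat_lit 215)) (XT.lf (nat_lit 0) (nat_lit 9543810617) (nat_lit 608) (nat_lit 773594874) (nat_lit 76) (nat_lit 3271386067) (nat_lit 135) (nat_lit 5) (nat_lit 143) (nat_lit 5) (nat_lit 136) (nat_lit 5) (nat_lit 293) (nat_lit 273) (nat_lit 214))) (XT.nd (nat_lit 78) (nat_lit 532) (nat_lit 0) (XT.lf (nat_lit 0) (nat_lit 10889684375) (nat_lit 456) (nat_lit 2336374206) (nat_lit 532) (nat_lit 755141421) (nat_lit 129) (nat_lit 5) (nat_lit 135) (nat_lit 5) (nat_lit 136) (nat_lit 5) (nat_lit 294) (nat_lit 273) (nat_lit 213)) (XT.lf (nat_lit 0) (nat_lit 2752273572) (nat_lit 532) (nat_lit 5597565895) (nat_lit 76) (nat_lit 6039491132) (nat_lit 122) (nat_lit 5) (nat_lit 129) (nat_lit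 5) (nat_lit 123) (nat_lit 5) (nat_lit 295) (nat_lit 273) (nat_lit 212)))))) (XT.nd (nat_lit 468) (nat_lit 1976) (nat_lit 0) (XT.nd (nat_lit 234) (nat_lit 760) (nat_lit 0) (XT.nd (nat_lit 78) (nat_lit 760) (nat_lit 0) (XT.lf (nat_lit 0) (nat_lit 6494071594) (nat_lit 456) (nat_lit 8255799484) (nat_lit 76) (nat_lit 65583695) (nat_lit 117) (nat_lit 5) (nat_lit 123) (nat_lit 5) (nat_lit 118) (nat_lit 5) (nat_lit 296) (nat_lit 273) (nat_lit 211)) (XT.nd (nat_lit 78) (nat_lit 380) (nat_lit 0) (XT.lf (nat_lit 0) (nat_lit 4123342651) (nat_lit 380) (nat_lit 6438346193) (nat_lit 456) (nat_lit 4697082278) (nat_lit 112) (nat_lit 5) (nat_lit 117) (nat_lit 5) (nat_lit 118) (nat_lit 5) (nat_lit 297) (nat_lit 273) (nat_lit 210)) (XT.lf (nat_lit 0) (nat_lit 1526690040) (nat_lit 380) (nat_lit 13386605611) (nat_lit 456) (nat_lit 808584945) (nat_lit 107) (nat_lit 5) (nat_lit 112) (nat_lit 5) (nat_lit 113) (nat_lit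 5) (nat_lit 298) (nat_lit 273) (nat_lit 209)))) (XT.nd (nat_lit 78) (nat_lit 684) (nat_lit 0) (XT.lf (nat_lit 0) (nat_lit 3350358153) (nat_lit 456) (nat_lit 1299556432) (nat_lit 76) (nat_lit 11553131396) (nat_lit 106) (nat_lit 5) (nat_lit 112) (nat_lit 5) (nat_lit 107) (nat_lit 5) (nat_lit 299) (nat_lit 273) (nat_lit 208)) (XT.nd (nat_lit 78) (nat_lit 304) (nat_lit 0) (XT.lf (nat_lit 0) (nat_lit 7825882610) (nat_lit 456) (nat_lit 4324523033) (nat_lit 76) (nat_lit 4553903236) (nat_lit 101) (nat_lit 5) (nat_lit 107) (nat_lit 5) (nat_lit 102) (nat_lit 5) (nat_lit 300) (nat_lit 273) (nat_lit 207)) (XT.lf (nat_lit 0) (nat_lit 9631860936) (nat_lit 304) (nat_lit 3008753777) (nat_lit 380) (nat_lit 4586595483) (nat_lit 97) (nat_lit 5) (nat_lit 101) (nat_lit 5) (nat_lit 102) (nat_lit 5) (nat_lit 301) (nat_lit 273) (nat_lit 206))))) (XT.nd (nat_lit 234) (nat_lit 1216) (nat_lit 0) (XT.nd (nat_lit 78)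 (nat_lit 304) (nat_lit 0) (XT.lf (nat_lit 0) (nat_lit 58245156) (nat_lit 456) (nat_lit 11154581147) (nat_lit 76) (nat_lit 6559383119) (nat_lit 91) (nat_lit 5) (nat_lit 97) (nat_lit 5) (nat_lit 92) (nat_lit 5) (nat_lit 302) (nat_lit 273) (nat_lit 205)) (XT.nd (nat_lit 78) (nat_lit 0) (nat_lit 0) (XT.lf (nat_lit 0) (nat_lit 3296758900) (nat_lit 304) (nat_lit 1650133674) (nat_lit 380) (nat_lit 13393044657) (nat_lit 87) (nat_lit 5) (nat_lit 91) (nat_lit 5) (nat_lit 92) (nat_lit 5) (nat_lit 303) (nat_lit 273) (nat_lit 204)) (XT.lf (nat_lit 0) (nat_lit 10242235274) (nat_lit 380) (nat_lit 358199445) (nat_lit 76) (nat_lit 8330780876) (nat_lit 87) (nat_lit 5) (nat_lit 92) (nat_lit 5) (nat_lit 88) (nat_lit 5) (nat_lit 304) (nat_lit 273) (nat_lit 203)))) (XT.nd (nat_lit 156) (nat_lit 532) (nat_lit 0) (XT.nd (nat_lit 78) (nat_lit 380) (nat_lit 0) (XT.lf (nat_lit 0) (nat_lit 15297585781) (nat_lit 304)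 (nat_lit 635743291) (nat_lit 380) (nat_lit 3614829811) (nat_lit 83) (nat_lit 5) (nat_lit 87) (nat_lit 5) (nat_lit 88) (nat_lit 5) (nat_lit 305) (nat_lit 273) (nat_lit 202)) (XT.lf (nat_lit 0) (nat_lit 1859669170) (nat_lit 380) (nat_lit 8573361818) (nat_lit 76) (nat_lit 9757050524) (nat_lit 78) (nat_lit 5) (nat_lit 83) (nat_lit 5) (nat_lit 79) (nat_lit 5) (nat_lit 306) (nat_lit 273) (nat_lit 201))) (XT.nd (nat_lit 78) (nat_lit 228) (nat_lit 0) (XT.lf (nat_lit 0) (nat_lit 7563454808) (nat_lit 304) (nat_lit 62738962) (nat_lit 380) (nat_lit 13234067846) (nat_lit 74) (nat_lit 5) (nat_lit 78) (nat_lit 5) (nat_lit 79) (nat_lit 5) (nat_lit 307) (nat_lit 273) (nat_lit 200)) (XT.lf (nat_lit 0) (nat_lit 3035517204) (nat_lit 228) (nat_lit 10837893127) (nat_lit 304) (nat_lit 7684795023) (nat_lit 71) (nat_lit 5) (nat_lit 74) (nat_lit 5) (nat_lit 75) (nat_lit 5) (nat_lit 308) (nat_lit 273) (nat_lit 199)))))))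 (XT.nd (nat_lit 1014) (nat_lit 1368) (nat_lit 0) (XT.nd (nat_lit 468) (nat_lit 1140) (nat_lit 0) (XT.nd (nat_lit 234) (nat_lit 532) (nat_lit 0) (XT.nd (nat_lit 78) (nat_lit 608) (nat_lit 0) (XT.lf (nat_lit 0) (nat_lit 20419186310) (nat_lit 228) (nat_lit 122318603) (nat_lit 304) (nat_lit 1746310231) (nat_lit 71) (nat_lit 5) (nat_lit 74) (nat_lit 5) (nat_lit 75) (nat_lit 5) (nat_lit 309) (nat_lit 273) (nat_lit 198)) (XT.nd (nat_lit 78) (nat_lit 228) (nat_lit 0) (XT.lf (nat_lit 0) (nat_lit 4634677272) (nat_lit 380) (nat_lit 7314596341) (nat_lit 76) (nat_lit 11096364488) (nat_lit 66) (nat_lit 5) (nat_lit 71) (nat_lit 5) (nat_lit 67) (nat_lit 5) (nat_lit 310) (nat_lit 273) (nat_lit 197)) (XT.lf (nat_lit 0) (nat_lit 10555317236) (nat_lit 228) (nat_lit 838658403) (nat_lit 304) (nat_lit 12444017997) (nat_lit 63) (nat_lit 5) (nat_lit 66) (nat_lit 5) (nat_lit 67) (nat_lit 5) (nat_lit 311) (nat_lit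 273) (nat_lit 196)))) (XT.nd (nat_lit 78) (nat_lit 304) (nat_lit 0) (XT.lf (nat_lit 0) (nat_lit 4751679477) (nat_lit 228) (nat_lit 13939059368) (nat_lit 304) (nat_lit 5973263553) (nat_lit 60) (nat_lit 5) (nat_lit 63) (nat_lit 5) (nat_lit 64) (nat_lit 5) (nat_lit 312) (nat_lit 273) (nat_lit 195)) (XT.nd (nat_lit 78) (nat_lit 228) (nat_lit 0) (XT.lf (nat_lit 0) (nat_lit 925867250) (nat_lit 304) (nat_lit 1619068440) (nat_lit 76) (nat_lit 22982532252) (nat_lit 59) (nat_lit 5) (nat_lit 63) (nat_lit 5) (nat_lit 60) (nat_lit 5) (nat_lit 313) (nat_lit 273) (nat_lit 194)) (XT.lf (nat_lit 0) (nat_lit 8287286872) (nat_lit 304) (nat_lit 8681541322) (nat_lit 76) (nat_lit 9456296286) (nat_lit 56) (nat_lit 5) (nat_lit 60) (nat_lit 5) (nat_lit 57) (nat_lit 5) (nat_lit 314) (nat_lit 273) (nat_lit 193))))) (XT.nd (nat_lit 234) (nat_lit 684) (nat_lit 0) (XT.nd (nat_lit 78) (nat_lit 228) (nat_lit 0) (XT.lf (nat_lit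 0) (nat_lit 10890583928) (nat_lit 228) (nat_lit 5249620927) (nat_lit 304) (nat_lit 11223773317) (nat_lit 53) (nat_lit 5) (nat_lit 56) (nat_lit 5) (nat_lit 57) (nat_lit 5) (nat_lit 315) (nat_lit 273) (nat_lit 192)) (XT.nd (nat_lit 78) (nat_lit 76) (nat_lit 0) (XT.lf (nat_lit 0) (nat_lit 3233395941) (nat_lit 152) (nat_lit 21318412126) (nat_lit 228) (nat_lit 3793001635) (nat_lit 51) (nat_lit 5) (nat_lit 53) (nat_lit 5) (nat_lit 54) (nat_lit 5) (nat_lit 316) (nat_lit 273) (nat_lit 191)) (XT.lf (nat_lit 0) (nat_lit 4132720584) (nat_lit 228) (nat_lit 5229076489) (nat_lit 76) (nat_lit 20005695200) (nat_lit 50) (nat_lit 5) (nat_lit 53) (nat_lit 5) (nat_lit 51) (nat_lit 5) (nat_lit 317) (nat_lit 273) (nat_lit 190)))) (XT.nd (nat_lit 156) (nat_lit 304) (nat_lit 0) (XT.nd (nat_lit 78) (nat_lit 152) (nat_lit 0) (XT.lf (nat_lit 0) (nat_lit 12540644438) (nat_lit 304) (nat_lit 14583965755) (nat_lit 76)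 (nat_lit 3310655710) (nat_lit 47) (nat_lit 5) (nat_lit 51) (nat_lit 5) (nat_lit 48) (nat_lit 5) (nat_lit 318) (nat_lit 273) (nat_lit 189)) (XT.lf (nat_lit 0) (nat_lit 6538862887) (nat_lit 152) (nat_lit 15020873700) (nat_lit 228) (nat_lit 9990982162) (nat_lit 45) (nat_lit 5) (nat_lit 47) (nat_lit 5) (nat_lit 48) (nat_lit 5) (nat_lit 319) (nat_lit 273) (nat_lit 188))) (XT.nd (nat_lit 78) (nat_lit 304) (nat_lit 0) (XT.lf (nat_lit 0) (nat_lit 28989701058) (nat_lit 152) (nat_lit 2169956083) (nat_lit 228) (nat_lit 1558403929) (nat_lit 45) (nat_lit 5) (nat_lit 47) (nat_lit 5) (nat_lit 48) (nat_lit 5) (nat_lit 320) (nat_lit 273) (nat_lit 187)) (XT.lf (nat_lit 0) (nat_lit 7426708268) (nat_lit 304) (nat_lit 15162054900) (nat_lit 76) (nat_lit 11344717277) (nat_lit 41) (nat_lit 5) (nat_lit 45) (nat_lit 5) (nat_lit 42) (nat_lit 5) (nat_lit 321) (nat_lit 273) (nat_lit 186)))))) (XT.nd (nat_lit 546) (nat_lit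 684) (nat_lit 0) (XT.nd (nat_lit 234) (nat_lit 304) (nat_lit 0) (XT.nd (nat_lit 78) (nat_lit 228) (nat_lit 0) (XT.lf (nat_lit 0) (nat_lit 7339521515) (nat_lit 152) (nat_lit 9601861228) (nat_lit 228) (nat_lit 18264460537) (nat_lit 39) (nat_lit 5) (nat_lit 41) (nat_lit 5) (nat_lit 42) (nat_lit 5) (nat_lit 322) (nat_lit 273) (nat_lit 185)) (XT.nd (nat_lit 78) (nat_lit 228) (nat_lit 0) (XT.lf (nat_lit 0) (nat_lit 27109716510) (nat_lit 228) (nat_lit 5325279300) (nat_lit 76) (nat_lit 4101501620) (nat_lit 39) (nat_lit 5) (nat_lit 42) (nat_lit 5) (nat_lit 40) (nat_lit 5) (nat_lit 323) (nat_lit 273) (nat_lit 184)) (XT.lf (nat_lit 0) (nat_lit 116105463) (nat_lit 228) (nat_lit 19348011681) (nat_lit 76) (nat_lit 18461806213) (nat_lit 36) (nat_lit 5) (nat_lit 39) (nat_lit 5) (nat_lit 37) (nat_lit 5) (nat_lit 324) (nat_lit 273) (nat_lit 183)))) (XT.nd (nat_lit 156) (nat_lit 152) (nat_lit 0) (XT.nd (nat_lit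 78) (nat_lit 0) (nat_lit 0) (XT.lf (nat_lit 0) (nat_lit 4364983160) (nat_lit 152) (nat_lit 5658110593) (nat_lit 228) (nat_lit 29356478892) (nat_lit 34) (nat_lit 5) (nat_lit 36) (nat_lit 5) (nat_lit 37) (nat_lit 5) (nat_lit 325) (nat_lit 273) (nat_lit 182)) (XT.lf (nat_lit 0) (nat_lit 20694757952) (nat_lit 228) (nat_lit 11347359937) (nat_lit 76) (nat_lit 8855715891) (nat_lit 34) (nat_lit 5) (nat_lit 37) (nat_lit 5) (nat_lit 35) (nat_lit 5) (nat_lit 326) (nat_lit 273) (nat_lit 181))) (XT.nd (nat_lit 78) (nat_lit 0) (nat_lit 0) (XT.lf (nat_lit 0) (nat_lit 13686097168) (nat_lit 152) (nat_lit 18386600438) (nat_lit 228) (nat_lit 10414138336) (nat_lit 32) (nat_lit 5) (nat_lit 34) (nat_lit 5) (nat_lit 35) (nat_lit 5) (nat_lit 327) (nat_lit 273) (nat_lit 180)) (XT.lf (nat_lit 0) (nat_lit 40182039823) (nat_lit 152) (nat_lit 3938837701) (nat_lit 228) (nat_lit 31378714) (nat_lit 32) (nat_lit 5) (nat_lit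 34) (nat_lit 5) (nat_lit 35) (nat_lit 5) (nat_lit 328) (nat_lit 273) (nat_lit 179))))) (XT.nd (nat_lit 234) (nat_lit 304) (nat_lit 0) (XT.nd (nat_lit 78) (nat_lit 152) (nat_lit 0) (XT.lf (nat_lit 0) (nat_lit 10969951471) (nat_lit 228) (nat_lit 23593574834) (nat_lit 76) (nat_lit 11324947451) (nat_lit 29) (nat_lit 5) (nat_lit 32) (nat_lit 5) (nat_lit 30) (nat_lit 5) (nat_lit 329) (nat_lit 273) (nat_lit 178)) (XT.nd (nat_lit 78) (nat_lit 0) (nat_lit 0) (XT.lf (nat_lit 0) (nat_lit 2223900104) (nat_lit 152) (nat_lit 20384701635) (nat_lit 228) (nat_lit 25100261342) (nat_lit 27) (nat_lit 5) (nat_lit 29) (nat_lit 5) (nat_lit 30) (nat_lit 5) (nat_lit 330) (nat_lit 273) (nat_lit 177)) (XT.lf (nat_lit 0) (nat_lit 29801022123) (nat_lit 152) (nat_lit 5256984055) (nat_lit 228) (nat_lit 14555408027) (nat_lit 27) (nat_lit 5) (nat_lit 29) (nat_lit 5) (nat_lit 30) (nat_lit 5) (nat_lit 331) (nat_lit 273) (nat_lit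 176)))) (XT.nd (nat_lit 156) (nat_lit 152) (nat_lit 0) (XT.nd (nat_lit 78) (nat_lit 76) (nat_lit 0) (XT.lf (nat_lit 0) (nat_lit 7157907221) (nat_lit 76) (nat_lit 41129456533) (nat_lit 152) (nat_lit 3321111291) (nat_lit 26) (nat_lit 5) (nat_lit 27) (nat_lit 5) (nat_lit 28) (nat_lit 4) (nat_lit 332) (nat_lit 273) (nat_lit 175)) (XT.lf (nat_lit 0) (nat_lit 8555364875) (nat_lit 152) (nat_lit 17965993011) (nat_lit 76) (nat_lit 27172117997) (nat_lit 25) (nat_lit 5) (nat_lit 27) (nat_lit 5) (nat_lit 26) (nat_lit 5) (nat_lit 333) (nat_lit 273) (nat_lit 174))) (XT.nd (nat_lit 78) (nat_lit 0) (nat_lit 0) (XT.lf (nat_lit 0) (nat_lit 9982154139) (nat_lit 152) (nat_lit 11058856189) (nat_lit 228) (nat_lit 34838214886) (nat_lit 23) (nat_lit 5) (nat_lit 25) (nat_lit 5) (nat_lit 26) (nat_lit 5) (nat_lit 334) (nat_lit 273) (nat_lit 173)) (XT.lf (nat_lit 0) (nat_lit 34375219364) (nat_lit 228) (nat_lit 18538739916)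 (nat_lit 76) (nat_lit 5253579870) (nat_lit 23) (nat_lit 5) (nat_lit 26) (nat_lit 5) (nat_lit 24) (nat_lit 4) (nat_lit 335) (nat_lit 273) (nat_lit 172))))))))
noncomputable def xc74 : XT := (XT.nd (nat_lit 36036) (nat_lit 0) (nat_lit 6308) (XT.nd (nat_lit 1014) (nat_lit 380) (nat_lit 0) (XT.nd (nat_lit 468) (nat_lit 380) (nat_lit 0) (XT.nd (nat_lit 234) (nat_lit 76) (nat_lit 0) (XT.nd (nat_lit 78) (nat_lit 228) (nat_lit 0) (XT.lf (nat_lit 0) (nat_lit 10255458671) (nat_lit 76) (nat_lit 38319209112) (nat_lit 152) (nat_lit 11989650440) (nat_lit 22) (nat_lit 5) (nat_lit 23) (nat_lit 5) (nat_lit 24) (nat_lit 4) (nat_lit 336) (nat_lit 273) (nat_lit 171)) (XT.nd (nat_lit 78) (nat_lit 152) (nat_lit 0) (XT.lf (nat_lit 0) (nat_lit 576589396) (nat_lit 152) (nat_lit 22224397157) (nat_lit 76) (nat_lit 40274399226) (nat_lit 21) (nat_lit 5) (nat_lit 23) (nat_lit 5) (nat_lit 22) (nat_lit 5) (nat_lit 337)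 (nat_lit 273) (nat_lit 170)) (XT.lf (nat_lit 0) (nat_lit 7265824330) (nat_lit 152) (nat_lit 6318619689) (nat_lit 228) (nat_lit 52122168073) (nat_lit 19) (nat_lit 5) (nat_lit 21) (nat_lit 5) (nat_lit 22) (nat_lit 5) (nat_lit 338) (nat_lit 273) (nat_lit 169)))) (XT.nd (nat_lit 78) (nat_lit 76) (nat_lit 0) (XT.lf (nat_lit 0) (nat_lit 27568738116) (nat_lit 228) (nat_lit 29894365329) (nat_lit 76) (nat_lit 10996519328) (nat_lit 19) (nat_lit 5) (nat_lit 22) (nat_lit 5) (nat_lit 20) (nat_lit 4) (nat_lit 339) (nat_lit 273) (nat_lit 168)) (XT.nd (nat_lit 78) (nat_lit 76) (nat_lit 0) (XT.lf (nat_lit 0) (nat_lit 42305906982) (nat_lit 228) (nat_lit 2419242) (nat_lit 76) (nat_lit 29040352202) (nat_lit 19) (nat_lit 5) (nat_lit 22) (nat_lit 5) (nat_lit 20) (nat_lit 4) (nat_lit 340) (nat_lit 273) (nat_lit 167)) (XT.lf (nat_lit 0) (nat_lit 31991224249) (nat_lit 76) (nat_lit 26086595648) (nat_lit 152) (nat_lit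 16295434438) (nat_lit 18) (nat_lit 5) (nat_lit 19) (nat_lit 5) (nat_lit 20) (nat_lit 4) (nat_lit 341) (nat_lit 273) (nat_lit 166))))) (XT.nd (nat_lit 234) (nat_lit 152) (nat_lit 0) (XT.nd (nat_lit 78) (nat_lit 228) (nat_lit 0) (XT.lf (nat_lit 0) (nat_lit 65567928559) (nat_lit 76) (nat_lit 9061089673) (nat_lit 152) (nat_lit 2920323960) (nat_lit 18) (nat_lit 5) (nat_lit 19) (nat_lit 5) (nat_lit 20) (nat_lit 4) (nat_lit 342) (nat_lit 273) (nat_lit 165)) (XT.nd (nat_lit 78) (nat_lit 0) (nat_lit 0) (XT.lf (nat_lit 0) (nat_lit 11179432376) (nat_lit 228) (nat_lit 60752498171) (nat_lit 76) (nat_lit 8940911142) (nat_lit 15) (nat_lit 5) (nat_lit 18) (nat_lit 5) (nat_lit 16) (nat_lit 4) (nat_lit 343) (nat_lit 273) (nat_lit 164)) (XT.lf (nat_lit 0) (nat_lit 26131585479) (nat_lit 228) (nat_lit 30419201869) (nat_lit 76) (nat_lit 27804630605) (nat_lit 15) (nat_lit 5) (nat_lit 18) (nat_lit 5) (nat_lit 16)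 (nat_lit 4) (nat_lit 344) (nat_lit 273) (nat_lit 163)))) (XT.nd (nat_lit 156) (nat_lit 76) (nat_lit 0) (XT.nd (nat_lit 78) (nat_lit 0) (nat_lit 0) (XT.lf (nat_lit 0) (nat_lit 1443888811) (nat_lit 76) (nat_lit 40392983889) (nat_lit 152) (nat_lit 46175087764) (nat_lit 14) (nat_lit 5) (nat_lit 15) (nat_lit 5) (nat_lit 16) (nat_lit 4) (nat_lit 345) (nat_lit 273) (nat_lit 162)) (XT.lf (nat_lit 0) (nat_lit 35521191256) (nat_lit 76) (nat_lit 23111276071) (nat_lit 152) (nat_lit 33209714555) (nat_lit 14) (nat_lit 5) (nat_lit 15) (nat_lit 5) (nat_lit 16) (nat_lit 4) (nat_lit 346) (nat_lit 273) (nat_lit 161))) (XT.nd (nat_lit 78) (nat_lit 76) (nat_lit 0) (XT.lf (nat_lit 0) (nat_lit 71288440138) (nat_lit 76) (nat_lit 4971691262) (nat_lit 152) (nat_lit 19604017205) (nat_lit 14) (nat_lit 5) (nat_lit 15) (nat_lit 5) (nat_lit 16) (nat_lit 4) (nat_lit 347) (nat_lit 273) (nat_lit 160)) (XT.lf (nat_lit 0) (nat_lit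 8779437830) (nat_lit 76) (nat_lit 86202030497) (nat_lit 76) (nat_lit 5099379436) (nat_lit 13) (nat_lit 4) (nat_lit 14) (nat_lit 5) (nat_lit 14) (nat_lit 4) (nat_lit 348) (nat_lit 273) (nat_lit 159)))))) (XT.nd (nat_lit 468) (nat_lit 228) (nat_lit 0) (XT.nd (nat_lit 234) (nat_lit 0) (nat_lit 0) (XT.nd (nat_lit 78) (nat_lit 76) (nat_lit 0) (XT.lf (nat_lit 0) (nat_lit 10231231861) (nat_lit 152) (nat_lit 60348140801) (nat_lit 76) (nat_lit 33917137659) (nat_lit 12) (nat_lit 5) (nat_lit 14) (nat_lit 5) (nat_lit 13) (nat_lit 4) (nat_lit 349) (nat_lit 273) (nat_lit 158)) (XT.nd (nat_lit 78) (nat_lit 76) (nat_lit 0) (XT.lf (nat_lit 0) (nat_lit 26216989643) (nat_lit 152) (nat_lit 27911233854) (nat_lit 76) (nat_lit 55003397930) (nat_lit 12) (nat_lit 5) (nat_lit 14) (nat_lit 5) (nat_lit 13) (nat_lit 4) (nat_lit 350) (nat_lit 273) (nat_lit 157)) (XT.lf (nat_lit 0) (nat_lit 6257669664) (nat_lit 76) (nat_lit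 36797945381) (nat_lit 152) (nat_lit 70941267989) (nat_lit 11) (nat_lit 5) (nat_lit 12) (nat_lit 5) (nat_lit 13) (nat_lit 4) (nat_lit 351) (nat_lit 273) (nat_lit 156)))) (XT.nd (nat_lit 78) (nat_lit 0) (nat_lit 0) (XT.lf (nat_lit 0) (nat_lit 42706665393) (nat_lit 76) (nat_lit 18310456368) (nat_lit 152) (nat_lit 58079859686) (nat_lit 11) (nat_lit 5) (nat_lit 12) (nat_lit 5) (nat_lit 13) (nat_lit 4) (nat_lit 352) (nat_lit 273) (nat_lit 155)) (XT.nd (nat_lit 78) (nat_lit 0) (nat_lit 0) (XT.lf (nat_lit 0) (nat_lit 79881175123) (nat_lit 152) (nat_lit 43495759958) (nat_lit 0) (nat_lit 1075017680) (nat_lit 11) (nat_lit 5) (nat_lit 13) (nat_lit 4) (nat_lit 11) (nat_lit 4) (nat_lit 353) (nat_lit 273) (nat_lit 154)) (XT.lf (nat_lit 0) (nat_lit 99867418180) (nat_lit 152) (nat_lit 9151953347) (nat_lit 0) (nat_lit 21049933521) (nat_lit 11) (nat_lit 5) (nat_lit 13) (nat_lit 4) (nat_lit 11) (nat_lit 4) (nat_lit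 354) (nat_lit 273) (nat_lit 153))))) (XT.nd (nat_lit 312) (nat_lit 76) (nat_lit 0) (XT.nd (nat_lit 78) (nat_lit 76) (nat_lit 0) (XT.lf (nat_lit 0) (nat_lit 27434226628) (nat_lit 76) (nat_lit 93676913858) (nat_lit 76) (nat_lit 14848641374) (nat_lit 10) (nat_lit 4) (nat_lit 11) (nat_lit 5) (nat_lit 11) (nat_lit 4) (nat_lit 355) (nat_lit 273) (nat_lit 152)) (XT.nd (nat_lit 78) (nat_lit 0) (nat_lit 0) (XT.lf (nat_lit 0) (nat_lit 1337150771) (nat_lit 152) (nat_lit 76124130538) (nat_lit 76) (nat_lit 64680444763) (nat_lit 9) (nat_lit 5) (nat_lit 11) (nat_lit 5) (nat_lit 10) (nat_lit 4) (nat_lit 356) (nat_lit 273) (nat_lit 151)) (XT.lf (nat_lit 0) (nat_lit 18022820054) (nat_lit 152) (nat_lit 42262006768) (nat_lit 76) (nat_lit 88343601470) (nat_lit 9) (nat_lit 5) (nat_lit 11) (nat_lit 5) (nat_lit 10) (nat_lit 4) (nat_lit 357) (nat_lit 273) (nat_lit 150)))) (XT.nd (nat_lit 34086) (nat_lit 0) (nat_lit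 15884) (XT.nd (nat_lit 34008) (nat_lit 0) (nat_lit 16872) (XT.lf (nat_lit 0) (nat_lit 31208027773) (nat_lit 76) (nat_lit 23015890133) (nat_lit 152) (nat_lit 108358585916) (nat_lit 8) (nat_lit 5) (nat_lit 9) (nat_lit 5) (nat_lit 10) (nat_lit 4) (nat_lit 359) (nat_lit 273) (nat_lit 148)) (XT.lf (nat_lit 0) (nat_lit 3986245047) (nat_lit 988) (nat_lit 197297358) (nat_lit 988) (nat_lit 197297358) (nat_lit 230) (nat_lit 3) (nat_lit 243) (nat_lit 3) (nat_lit 243) (nat_lit 5) (nat_lit 274) (nat_lit 274) (nat_lit 232))) (XT.nd (nat_lit 78) (nat_lit 0) (nat_lit 76) (XT.lf (nat_lit 0) (nat_lit 759594488) (nat_lit 988) (nat_lit 2621948111) (nat_lit 1064) (nat_lit 5550598181) (nat_lit 217) (nat_lit 5) (nat_lit 230) (nat_lit 3) (nat_lit 231) (nat_lit 5) (nat_lit 275) (nat_lit 274) (nat_lit 231)) (XT.lf (nat_lit 0) (nat_lit 2337622396) (nat_lit 988) (nat_lit 4860223437) (nat_lit 1064) (nat_lit 1914143941)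 (nat_lit 218) (nat_lit 5) (nat_lit 231) (nat_lit 5) (nat_lit 232) (nat_lit 5) (nat_lit 276) (nat_lit 274) (nat_lit 230))))))) (XT.nd (nat_lit 1014) (nat_lit 5472) (nat_lit 0) (XT.nd (nat_lit 468) (nat_lit 3344) (nat_lit 0) (XT.nd (nat_lit 234) (nat_lit 836) (nat_lit 0) (XT.nd (nat_lit 78) (nat_lit 0) (nat_lit 76) (XT.lf (nat_lit 76) (nat_lit 2178533564) (nat_lit 0) (nat_lit 1806884674) (nat_lit 1064) (nat_lit 5315823065) (nat_lit 219) (nat_lit 5) (nat_lit 218) (nat_lit 5) (nat_lit 232) (nat_lit 5) (nat_lit 277) (nat_lit 274) (nat_lit 229)) (XT.nd (nat_lit 78) (nat_lit 0) (nat_lit 76) (XT.lf (nat_lit 76) (nat_lit 81304308) (nat_lit 0) (nat_lit 5635386306) (nat_lit 1064) (nat_lit 3783361793) (nat_lit 220) (nat_lit 5) (nat_lit 219) (nat_lit 5) (nat_lit 233) (nat_lit 5) (nat_lit 278) (nat_lit 274) (nat_lit 228)) (XT.lf (nat_lit 0) (nat_lit 7544013061) (nat_lit 988) (nat_lit 1988167407) (nat_lit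 1064) (nat_lit 176462434) (nat_lit 220) (nat_lit 5) (nat_lit 233) (nat_lit 5) (nat_lit 234) (nat_lit 5) (nat_lit 279) (nat_lit 274) (nat_lit 227)))) (XT.nd (nat_lit 78) (nat_lit 988) (nat_lit 0) (XT.lf (nat_lit 76) (nat_lit 5816832647) (nat_lit 0) (nat_lit 3679297019) (nat_lit 1064) (nat_lit 430647967) (nat_lit 221) (nat_lit 5) (nat_lit 220) (nat_lit 5) (nat_lit 234) (nat_lit 5) (nat_lit 280) (nat_lit 274) (nat_lit 226)) (XT.nd (nat_lit 78) (nat_lit 0) (nat_lit 0) (XT.lf (nat_lit 0) (nat_lit 1368822711) (nat_lit 1064) (nat_lit 6273459259) (nat_lit 1140) (nat_lit 2513067542) (nat_lit 207) (nat_lit 5) (nat_lit 221) (nat_lit 5) (nat_lit 222) (nat_lit 5) (nat_lit 281) (nat_lit 274) (nat_lit 225)) (XT.lf (nat_lit 76) (nat_lit 1905587470) (nat_lit 0) (nat_lit 1368453196) (nat_lit 1140) (nat_lit 7120544515) (nat_lit 208) (nat_lit 5) (nat_lit 207) (nat_lit 5) (nat_lit 222) (nat_lit 5) (nat_lit 282)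 (nat_lit 274) (nat_lit 224))))) (XT.nd (nat_lit 234) (nat_lit 2432) (nat_lit 0) (XT.nd (nat_lit 78) (nat_lit 988) (nat_lit 0) (XT.lf (nat_lit 0) (nat_lit 5319482924) (nat_lit 1064) (nat_lit 125599951) (nat_lit 1140) (nat_lit 5199449444) (nat_lit 208) (nat_lit 5) (nat_lit 222) (nat_lit 5) (nat_lit 223) (nat_lit 5) (nat_lit 283) (nat_lit 274) (nat_lit 223)) (XT.nd (nat_lit 78) (nat_lit 1064) (nat_lit 0) (XT.lf (nat_lit 0) (nat_lit 7510276812) (nat_lit 1064) (nat_lit 2158156877) (nat_lit 76) (nat_lit 1237344633) (nat_lit 209) (nat_lit 5) (nat_lit 223) (nat_lit 5) (nat_lit 210) (nat_lit 5) (nat_lit 284) (nat_lit 274) (nat_lit 222)) (XT.lf (nat_lit 0) (nat_lit 6913408116) (nat_lit 1064) (nat_lit 2955674700) (nat_lit 1140) (nat_lit 1309339060) (nat_lit 195) (nat_lit 5) (nat_lit 209) (nat_lit 5) (nat_lit 210) (nat_lit 5) (nat_lit 285) (nat_lit 274) (nat_lit 221)))) (XT.nd (nat_lit 156) (nat_lit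 608) (nat_lit 0) (XT.nd (nat_lit 78) (nat_lit 608) (nat_lit 0) (XT.lf (nat_lit 0) (nat_lit 912809247) (nat_lit 1216) (nat_lit 6448282158) (nat_lit 76) (nat_lit 4101968634) (nat_lit 179) (nat_lit 5) (nat_lit 195) (nat_lit 5) (nat_lit 180) (nat_lit 5) (nat_lit 286) (nat_lit 274) (nat_lit 220)) (XT.lf (nat_lit 0) (nat_lit 3049274920) (nat_lit 608) (nat_lit 213611991) (nat_lit 684) (nat_lit 8497415999) (nat_lit 171) (nat_lit 5) (nat_lit 179) (nat_lit 5) (nat_lit 180) (nat_lit 5) (nat_lit 287) (nat_lit 274) (nat_lit 219))) (XT.nd (nat_lit 78) (nat_lit 0) (nat_lit 0) (XT.lf (nat_lit 0) (nat_lit 980303266) (nat_lit 608) (nat_lit 4839276042) (nat_lit 684) (nat_lit 6250230289) (nat_lit 163) (nat_lit 5) (nat_lit 171) (nat_lit 5) (nat_lit 172) (nat_lit 5) (nat_lit 288) (nat_lit 274) (nat_lit 218)) (XT.lf (nat_lit 0) (nat_lit 8567071470) (nat_lit 684) (nat_lit 1136665965) (nat_lit 76) (nat_lit 2689236654)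 (nat_lit 163) (nat_lit 5) (nat_lit 172) (nat_lit 5) (nat_lit 164) (nat_lit 5) (nat_lit 289) (nat_lit 274) (nat_lit 217)))))) (XT.nd (nat_lit 546) (nat_lit 2356) (nat_lit 0) (XT.nd (nat_lit 234) (nat_lit 1520) (nat_lit 0) (XT.nd (nat_lit 78) (nat_lit 1064) (nat_lit 0) (XT.lf (nat_lit 0) (nat_lit 9396594963) (nat_lit 532) (nat_lit 2141958943) (nat_lit 608) (nat_lit 1191212454) (nat_lit 156) (nat_lit 5) (nat_lit 163) (nat_lit 5) (nat_lit 164) (nat_lit 5) (nat_lit 290) (nat_lit 274) (nat_lit 216)) (XT.nd (nat_lit 78) (nat_lit 456) (nat_lit 0) (XT.lf (nat_lit 0) (nat_lit 1633770655) (nat_lit 608) (nat_lit 5662213300) (nat_lit 76) (nat_lit 5784344035) (nat_lit 148) (nat_lit 5) (nat_lit 156) (nat_lit 5) (nat_lit 149) (nat_lit 5) (nat_lit 291) (nat_lit 274) (nat_lit 215)) (XT.lf (nat_lit 0) (nat_lit 4640990097) (nat_lit 532) (nat_lit 8105005751) (nat_lit 76) (nat_lit 700159232) (nat_lit 142) (nat_lit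 5) (nat_lit 149) (nat_lit 5) (nat_lit 143) (nat_lit 5) (nat_lit 292) (nat_lit 274) (nat_lit 214)))) (XT.nd (nat_lit 156) (nat_lit 532) (nat_lit 0) (XT.nd (nat_lit 78) (nat_lit 456) (nat_lit 0) (XT.lf (nat_lit 0) (nat_lit 3119770675) (nat_lit 532) (nat_lit 4793977661) (nat_lit 608) (nat_lit 5913126906) (nat_lit 135) (nat_lit 5) (nat_lit 142) (nat_lit 5) (nat_lit 143) (nat_lit 5) (nat_lit 293) (nat_lit 274) (nat_lit 213)) (XT.lf (nat_lit 0) (nat_lit 779968093) (nat_lit 456) (nat_lit 10650528496) (nat_lit 532) (nat_lit 2793778592) (nat_lit 129) (nat_lit 5) (nat_lit 135) (nat_lit 5) (nat_lit 136) (nat_lit 5) (nat_lit 294) (nat_lit 274) (nat_lit 212))) (XT.nd (nat_lit 78) (nat_lit 456) (nat_lit 0) (XT.lf (nat_lit 0) (nat_lit 587461095) (nat_lit 532) (nat_lit 1677942804) (nat_lit 76) (nat_lit 12372592978) (nat_lit 128) (nat_lit 5) (nat_lit 135) (nat_lit 5) (nat_lit 129) (nat_lit 5) (nat_lit 295)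 (nat_lit 274) (nat_lit 211)) (XT.lf (nat_lit 0) (nat_lit 4206285965) (nat_lit 532) (nat_lit 4322679432) (nat_lit 76) (nat_lit 6538868189) (nat_lit 122) (nat_lit 5) (nat_lit 129) (nat_lit 5) (nat_lit 123) (nat_lit 5) (nat_lit 296) (nat_lit 274) (nat_lit 210))))) (XT.nd (nat_lit 234) (nat_lit 1140) (nat_lit 0) (XT.nd (nat_lit 78) (nat_lit 836) (nat_lit 0) (XT.lf (nat_lit 0) (nat_lit 8089331122) (nat_lit 456) (nat_lit 7121269255) (nat_lit 76) (nat_lit 306108950) (nat_lit 117) (nat_lit 5) (nat_lit 123) (nat_lit 5) (nat_lit 118) (nat_lit 5) (nat_lit 297) (nat_lit 274) (nat_lit 209)) (XT.nd (nat_lit 78) (nat_lit 456) (nat_lit 0) (XT.lf (nat_lit 0) (nat_lit 5832476364) (nat_lit 380) (nat_lit 6481797640) (nat_lit 456) (nat_lit 3669365885) (nat_lit 112) (nat_lit 5) (nat_lit 117) (nat_lit 5) (nat_lit 118) (nat_lit 5) (nat_lit 298) (nat_lit 274) (nat_lit 208)) (XT.lf (nat_lit 0) (nat_lit 363617683)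 (nat_lit 456) (nat_lit 13377487812) (nat_lit 76) (nat_lit 2729997850) (nat_lit 106) (nat_lit 5) (nat_lit 112) (nat_lit 5) (nat_lit 107) (nat_lit 5) (nat_lit 299) (nat_lit 274) (nat_lit 207)))) (XT.nd (nat_lit 156) (nat_lit 760) (nat_lit 0) (XT.nd (nat_lit 78) (nat_lit 0) (nat_lit 0) (XT.lf (nat_lit 0) (nat_lit 84059408) (nat_lit 380) (nat_lit 4573733780) (nat_lit 456) (nat_lit 12320032167) (nat_lit 101) (nat_lit 5) (nat_lit 106) (nat_lit 5) (nat_lit 107) (nat_lit 5) (nat_lit 300) (nat_lit 274) (nat_lit 206)) (XT.lf (nat_lit 0) (nat_lit 9318504888) (nat_lit 456) (nat_lit 3104153768) (nat_lit 76) (nat_lit 5082706383) (nat_lit 101) (nat_lit 5) (nat_lit 107) (nat_lit 5) (nat_lit 102) (nat_lit 5) (nat_lit 301) (nat_lit 274) (nat_lit 205))) (XT.nd (nat_lit 78) (nat_lit 456) (nat_lit 0) (XT.lf (nat_lit 0) (nat_lit 11508869681) (nat_lit 304) (nat_lit 2826073308) (nat_lit 380) (nat_lit 3720692659)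 (nat_lit 97) (nat_lit 5) (nat_lit 101) (nat_lit 5) (nat_lit 102) (nat_lit 5) (nat_lit 302) (nat_lit 274) (nat_lit 204)) (XT.lf (nat_lit 0) (nat_lit 1100400165) (nat_lit 456) (nat_lit 10306344422) (nat_lit 76) (nat_lit 7221912232) (nat_lit 91) (nat_lit 5) (nat_lit 97) (nat_lit 5) (nat_lit 92) (nat_lit 5) (nat_lit 303) (nat_lit 274) (nat_lit 203))))))))
noncomputable def xc75 : XT := (XT.nd (nat_lit 2028) (nat_lit 1596) (nat_lit 0) (XT.nd (nat_lit 1014) (nat_lit 1672) (nat_lit 0) (XT.nd (nat_lit 468) (nat_lit 1368) (nat_lit 0) (XT.nd (nat_lit 234) (nat_lit 912) (nat_lit 0) (XT.nd (nat_lit 78) (nat_lit 304) (nat_lit 0) (XT.lf (nat_lit 0) (nat_lit 4827260900) (nat_lit 304) (nat_lit 1369858902) (nat_lit 380) (nat_lit 13028788964) (nat_lit 87) (nat_lit 5) (nat_lit 91) (nat_lit 5) (nat_lit 92) (nat_lit 5) (nat_lit 304) (nat_lit 274) (nat_lit 202)) (XT.nd (nat_lit 78) (nat_lit 0) (nat_lit 0) (XT.lf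 (nat_lit 0) (nat_lit 969671512) (nat_lit 304) (nat_lit 10752444102) (nat_lit 380) (nat_lit 8125733562) (nat_lit 83) (nat_lit 5) (nat_lit 87) (nat_lit 5) (nat_lit 88) (nat_lit 5) (nat_lit 305) (nat_lit 274) (nat_lit 201)) (XT.lf (nat_lit 0) (nat_lit 17351290065) (nat_lit 304) (nat_lit 303901579) (nat_lit 380) (nat_lit 2841767737) (nat_lit 83) (nat_lit 5) (nat_lit 87) (nat_lit 5) (nat_lit 88) (nat_lit 5) (nat_lit 306) (nat_lit 274) (nat_lit 200)))) (XT.nd (nat_lit 78) (nat_lit 532) (nat_lit 0) (XT.lf (nat_lit 0) (nat_lit 2859062849) (nat_lit 380) (nat_lit 7706929899) (nat_lit 76) (nat_lit 10605613143) (nat_lit 78) (nat_lit 5) (nat_lit 83) (nat_lit 5) (nat_lit 79) (nat_lit 5) (nat_lit 307) (nat_lit 274) (nat_lit 199)) (XT.nd (nat_lit 78) (nat_lit 228) (nat_lit 0) (XT.lf (nat_lit 0) (nat_lit 8885888616) (nat_lit 380) (nat_lit 12679705708) (nat_lit 76) (nat_lit 310578922) (nat_lit 74) (nat_lit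 5) (nat_lit 79) (nat_lit 5) (nat_lit 75) (nat_lit 5) (nat_lit 308) (nat_lit 274) (nat_lit 198)) (XT.lf (nat_lit 0) (nat_lit 4431872823) (nat_lit 228) (nat_lit 10984332064) (nat_lit 304) (nat_lit 7193722826) (nat_lit 71) (nat_lit 5) (nat_lit 74) (nat_lit 5) (nat_lit 75) (nat_lit 5) (nat_lit 309) (nat_lit 274) (nat_lit 197))))) (XT.nd (nat_lit 234) (nat_lit 760) (nat_lit 0) (XT.nd (nat_lit 78) (nat_lit 608) (nat_lit 0) (XT.lf (nat_lit 0) (nat_lit 22379655475) (nat_lit 304) (nat_lit 754191109) (nat_lit 76) (nat_lit 243346880) (nat_lit 71) (nat_lit 5) (nat_lit 75) (nat_lit 5) (nat_lit 72) (nat_lit 5) (nat_lit 310) (nat_lit 274) (nat_lit 196)) (XT.nd (nat_lit 78) (nat_lit 228) (nat_lit 0) (XT.lf (nat_lit 0) (nat_lit 5659712432) (nat_lit 380) (nat_lit 6491862348) (nat_lit 76) (nat_lit 12021917266) (nat_lit 66) (nat_lit 5) (nat_lit 71) (nat_lit 5) (nat_lit 67) (nat_lit 5) (nat_lit 311) (nat_lit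 274) (nat_lit 195)) (XT.lf (nat_lit 0) (nat_lit 12237479831) (nat_lit 228) (nat_lit 492816401) (nat_lit 304) (nat_lit 12275999458) (nat_lit 63) (nat_lit 5) (nat_lit 66) (nat_lit 5) (nat_lit 67) (nat_lit 5) (nat_lit 312) (nat_lit 274) (nat_lit 194)))) (XT.nd (nat_lit 156) (nat_lit 456) (nat_lit 0) (XT.nd (nat_lit 78) (nat_lit 76) (nat_lit 0) (XT.lf (nat_lit 0) (nat_lit 6129870159) (nat_lit 228) (nat_lit 14240035878) (nat_lit 304) (nat_lit 5504387124) (nat_lit 60) (nat_lit 5) (nat_lit 63) (nat_lit 5) (nat_lit 64) (nat_lit 5) (nat_lit 313) (nat_lit 274) (nat_lit 193)) (XT.lf (nat_lit 0) (nat_lit 1688886464) (nat_lit 304) (nat_lit 598938049) (nat_lit 76) (nat_lit 24493987590) (nat_lit 59) (nat_lit 5) (nat_lit 63) (nat_lit 5) (nat_lit 60) (nat_lit 5) (nat_lit 314) (nat_lit 274) (nat_lit 192))) (XT.nd (nat_lit 78) (nat_lit 228) (nat_lit 0) (XT.lf (nat_lit 0) (nat_lit 9398148696) (nat_lit 304) (nat_lit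 8028428806) (nat_lit 76) (nat_lit 10298405933) (nat_lit 56) (nat_lit 5) (nat_lit 60) (nat_lit 5) (nat_lit 57) (nat_lit 5) (nat_lit 315) (nat_lit 274) (nat_lit 191)) (XT.lf (nat_lit 0) (nat_lit 12491138636) (nat_lit 228) (nat_lit 5129558560) (nat_lit 304) (nat_lit 11090796999) (nat_lit 53) (nat_lit 5) (nat_lit 56) (nat_lit 5) (nat_lit 57) (nat_lit 5) (nat_lit 316) (nat_lit 274) (nat_lit 190)))))) (XT.nd (nat_lit 468) (nat_lit 760) (nat_lit 0) (XT.nd (nat_lit 234) (nat_lit 456) (nat_lit 0) (XT.nd (nat_lit 78) (nat_lit 304) (nat_lit 0) (XT.lf (nat_lit 0) (nat_lit 4437338672) (nat_lit 152) (nat_lit 21996992419) (nat_lit 228) (nat_lit 3307615476) (nat_lit 51) (nat_lit 5) (nat_lit 53) (nat_lit 5) (nat_lit 54) (nat_lit 5) (nat_lit 317) (nat_lit 274) (nat_lit 189)) (XT.nd (nat_lit 78) (nat_lit 228) (nat_lit 0) (XT.lf (nat_lit 0) (nat_lit 4969703139) (nat_lit 228) (nat_lit 4484922988) (nat_lit 76)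 (nat_lit 21361909059) (nat_lit 50) (nat_lit 5) (nat_lit 53) (nat_lit 5) (nat_lit 51) (nat_lit 5) (nat_lit 318) (nat_lit 274) (nat_lit 188)) (XT.lf (nat_lit 0) (nat_lit 13780924537) (nat_lit 304) (nat_lit 14321217851) (nat_lit 76) (nat_lit 3836088131) (nat_lit 47) (nat_lit 5) (nat_lit 51) (nat_lit 5) (nat_lit 48) (nat_lit 5) (nat_lit 319) (nat_lit 274) (nat_lit 187)))) (XT.nd (nat_lit 78) (nat_lit 304) (nat_lit 0) (XT.lf (nat_lit 0) (nat_lit 7829318286) (nat_lit 152) (nat_lit 15401712597) (nat_lit 228) (nat_lit 9879042444) (nat_lit 45) (nat_lit 5) (nat_lit 47) (nat_lit 5) (nat_lit 48) (nat_lit 5) (nat_lit 320) (nat_lit 274) (nat_lit 186)) (XT.nd (nat_lit 78) (nat_lit 304) (nat_lit 0) (XT.lf (nat_lit 0) (nat_lit 31356816829) (nat_lit 152) (nat_lit 1925877899) (nat_lit 228) (nat_lit 1053953815) (nat_lit 45) (nat_lit 5) (nat_lit 47) (nat_lit 5) (nat_lit 48) (nat_lit 5) (nat_lit 321) (nat_lit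 274) (nat_lit 185)) (XT.lf (nat_lit 0) (nat_lit 8353902956) (nat_lit 304) (nat_lit 15003904218) (nat_lit 76) (nat_lit 12255335002) (nat_lit 41) (nat_lit 5) (nat_lit 45) (nat_lit 5) (nat_lit 42) (nat_lit 5) (nat_lit 322) (nat_lit 274) (nat_lit 184))))) (XT.nd (nat_lit 234) (nat_lit 380) (nat_lit 0) (XT.nd (nat_lit 78) (nat_lit 228) (nat_lit 0) (XT.lf (nat_lit 0) (nat_lit 8596486797) (nat_lit 152) (nat_lit 9729909989) (nat_lit 228) (nat_lit 18623279822) (nat_lit 39) (nat_lit 5) (nat_lit 41) (nat_lit 5) (nat_lit 42) (nat_lit 5) (nat_lit 323) (nat_lit 274) (nat_lit 183)) (XT.nd (nat_lit 78) (nat_lit 228) (nat_lit 0) (XT.lf (nat_lit 0) (nat_lit 28980753737) (nat_lit 228) (nat_lit 4731482334) (nat_lit 76) (nat_lit 4635314461) (nat_lit 39) (nat_lit 5) (nat_lit 42) (nat_lit 5) (nat_lit 40) (nat_lit 5) (nat_lit 324) (nat_lit 274) (nat_lit 182)) (XT.lf (nat_lit 0) (nat_lit 626168447) (nat_lit 228)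 (nat_lit 19469686865) (nat_lit 76) (nat_lit 19710954256) (nat_lit 36) (nat_lit 5) (nat_lit 39) (nat_lit 5) (nat_lit 37) (nat_lit 5) (nat_lit 325) (nat_lit 274) (nat_lit 181)))) (XT.nd (nat_lit 156) (nat_lit 228) (nat_lit 0) (XT.nd (nat_lit 78) (nat_lit 0) (nat_lit 0) (XT.lf (nat_lit 0) (nat_lit 5404715169) (nat_lit 152) (nat_lit 5607675306) (nat_lit 228) (nat_lit 30321247754) (nat_lit 34) (nat_lit 5) (nat_lit 36) (nat_lit 5) (nat_lit 37) (nat_lit 5) (nat_lit 326) (nat_lit 274) (nat_lit 180)) (XT.lf (nat_lit 0) (nat_lit 22197444717) (nat_lit 228) (nat_lit 11121212102) (nat_lit 76) (nat_lit 9609774196) (nat_lit 34) (nat_lit 5) (nat_lit 37) (nat_lit 5) (nat_lit 35) (nat_lit 5) (nat_lit 327) (nat_lit 274) (nat_lit 179))) (XT.nd (nat_lit 78) (nat_lit 76) (nat_lit 0) (XT.lf (nat_lit 0) (nat_lit 15141171886) (nat_lit 152) (nat_lit 18988235300) (nat_lit 228) (nat_lit 10467934516) (nat_lit 32) (nat_lit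 5) (nat_lit 34) (nat_lit 5) (nat_lit 35) (nat_lit 5) (nat_lit 328) (nat_lit 274) (nat_lit 178)) (XT.lf (nat_lit 0) (nat_lit 403694922) (nat_lit 228) (nat_lit 3425441317) (nat_lit 76) (nat_lit 42517436897) (nat_lit 31) (nat_lit 5) (nat_lit 34) (nat_lit 5) (nat_lit 32) (nat_lit 5) (nat_lit 329) (nat_lit 274) (nat_lit 177))))))) (XT.nd (nat_lit 1014) (nat_lit 608) (nat_lit 0) (XT.nd (nat_lit 468) (nat_lit 380) (nat_lit 0) (XT.nd (nat_lit 234) (nat_lit 304) (nat_lit 0) (XT.nd (nat_lit 78) (nat_lit 152) (nat_lit 0) (XT.lf (nat_lit 0) (nat_lit 11943502906) (nat_lit 228) (nat_lit 24041580445) (nat_lit 76) (nat_lit 12184847785) (nat_lit 29) (nat_lit 5) (nat_lit 32) (nat_lit 5) (nat_lit 30) (nat_lit 5) (nat_lit 330) (nat_lit 274) (nat_lit 176)) (XT.nd (nat_lit 78) (nat_lit 0) (nat_lit 0) (XT.lf (nat_lit 0) (nat_lit 3045794977) (nat_lit 152) (nat_lit 21104881734) (nat_lit 228) (nat_lit 25931075711)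 (nat_lit 27) (nat_lit 5) (nat_lit 29) (nat_lit 5) (nat_lit 30) (nat_lit 5) (nat_lit 331) (nat_lit 274) (nat_lit 175)) (XT.lf (nat_lit 0) (nat_lit 31967930245) (nat_lit 152) (nat_lit 5235018988) (nat_lit 228) (nat_lit 14879179669) (nat_lit 27) (nat_lit 5) (nat_lit 29) (nat_lit 5) (nat_lit 30) (nat_lit 5) (nat_lit 332) (nat_lit 274) (nat_lit 174)))) (XT.nd (nat_lit 78) (nat_lit 228) (nat_lit 0) (XT.lf (nat_lit 0) (nat_lit 8182211593) (nat_lit 76) (nat_lit 42901907760) (nat_lit 152) (nat_lit 3093122363) (nat_lit 26) (nat_lit 5) (nat_lit 27) (nat_lit 5) (nat_lit 28) (nat_lit 4) (nat_lit 333) (nat_lit 274) (nat_lit 173)) (XT.nd (nat_lit 78) (nat_lit 152) (nat_lit 0) (XT.lf (nat_lit 0) (nat_lit 9351090514) (nat_lit 152) (nat_lit 18222122857) (nat_lit 76) (nat_lit 28793726102) (nat_lit 25) (nat_lit 5) (nat_lit 27) (nat_lit 5) (nat_lit 26) (nat_lit 5) (nat_lit 334) (nat_lit 274) (nat_lit 172)) (XT.lf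 (nat_lit 0) (nat_lit 11105023983) (nat_lit 152) (nat_lit 11344468460) (nat_lit 228) (nat_lit 36212837768) (nat_lit 23) (nat_lit 5) (nat_lit 25) (nat_lit 5) (nat_lit 26) (nat_lit 5) (nat_lit 335) (nat_lit 274) (nat_lit 171))))) (XT.nd (nat_lit 234) (nat_lit 228) (nat_lit 0) (XT.nd (nat_lit 78) (nat_lit 152) (nat_lit 0) (XT.lf (nat_lit 0) (nat_lit 36435886373) (nat_lit 228) (nat_lit 18863725810) (nat_lit 76) (nat_lit 5765891203) (nat_lit 23) (nat_lit 5) (nat_lit 26) (nat_lit 5) (nat_lit 24) (nat_lit 4) (nat_lit 336) (nat_lit 274) (nat_lit 170)) (XT.nd (nat_lit 78) (nat_lit 76) (nat_lit 0) (XT.lf (nat_lit 0) (nat_lit 11352927898) (nat_lit 76) (nat_lit 39981718533) (nat_lit 152) (nat_lit 12247802212) (nat_lit 22) (nat_lit 5) (nat_lit 23) (nat_lit 5) (nat_lit 24) (nat_lit 4) (nat_lit 337) (nat_lit 274) (nat_lit 169)) (XT.lf (nat_lit 0) (nat_lit 924152349) (nat_lit 152) (nat_lit 22772283011) (nat_lit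 76) (nat_lit 42523020733) (nat_lit 21) (nat_lit 5) (nat_lit 23) (nat_lit 5) (nat_lit 22) (nat_lit 5) (nat_lit 338) (nat_lit 274) (nat_lit 168)))) (XT.nd (nat_lit 156) (nat_lit 76) (nat_lit 0) (XT.nd (nat_lit 78) (nat_lit 0) (nat_lit 0) (XT.lf (nat_lit 0) (nat_lit 8176301695) (nat_lit 152) (nat_lit 6396180112) (nat_lit 228) (nat_lit 54410065975) (nat_lit 19) (nat_lit 5) (nat_lit 21) (nat_lit 5) (nat_lit 22) (nat_lit 5) (nat_lit 339) (nat_lit 274) (nat_lit 167)) (XT.lf (nat_lit 0) (nat_lit 29243467355) (nat_lit 228) (nat_lit 30861188645) (nat_lit 76) (nat_lit 11768934907) (nat_lit 19) (nat_lit 5) (nat_lit 22) (nat_lit 5) (nat_lit 20) (nat_lit 4) (nat_lit 340) (nat_lit 274) (nat_lit 166))) (XT.nd (nat_lit 78) (nat_lit 0) (nat_lit 0) (XT.lf (nat_lit 0) (nat_lit 510172188) (nat_lit 76) (nat_lit 44198117404) (nat_lit 152) (nat_lit 30199091818) (nat_lit 18) (nat_lit 5) (nat_lit 19) (nat_lit 5) (nat_lit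 20) (nat_lit 4) (nat_lit 341) (nat_lit 274) (nat_lit 165)) (XT.lf (nat_lit 0) (nat_lit 34079131127) (nat_lit 76) (nat_lit 27176019923) (nat_lit 152) (nat_lit 16828450112) (nat_lit 18) (nat_lit 5) (nat_lit 19) (nat_lit 5) (nat_lit 20) (nat_lit 4) (nat_lit 342) (nat_lit 274) (nat_lit 164)))))) (XT.nd (nat_lit 546) (nat_lit 228) (nat_lit 0) (XT.nd (nat_lit 234) (nat_lit 152) (nat_lit 0) (XT.nd (nat_lit 78) (nat_lit 228) (nat_lit 0) (XT.lf (nat_lit 0) (nat_lit 69311416097) (nat_lit 76) (nat_lit 9309472245) (nat_lit 152) (nat_lit 2798001065) (nat_lit 18) (nat_lit 5) (nat_lit 19) (nat_lit 5) (nat_lit 20) (nat_lit 4) (nat_lit 343) (nat_lit 274) (nat_lit 163)) (XT.nd (nat_lit 78) (nat_lit 0) (nat_lit 0) (XT.lf (nat_lit 0) (nat_lit 11995312128) (nat_lit 228) (nat_lit 63327369668) (nat_lit 76) (nat_lit 9585995501) (nat_lit 15) (nat_lit 5) (nat_lit 18) (nat_lit 5) (nat_lit 16) (nat_lit 4) (nat_lit 344)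 (nat_lit 274) (nat_lit 162)) (XT.lf (nat_lit 0) (nat_lit 27682839166) (nat_lit 228) (nat_lit 31499444428) (nat_lit 76) (nat_lit 29383470519) (nat_lit 15) (nat_lit 5) (nat_lit 18) (nat_lit 5) (nat_lit 16) (nat_lit 4) (nat_lit 345) (nat_lit 274) (nat_lit 161)))) (XT.nd (nat_lit 156) (nat_lit 76) (nat_lit 0) (XT.nd (nat_lit 78) (nat_lit 0) (nat_lit 0) (XT.lf (nat_lit 0) (nat_lit 1944167706) (nat_lit 76) (nat_lit 42221686889) (nat_lit 152) (nat_lit 48239499739) (nat_lit 14) (nat_lit 5) (nat_lit 15) (nat_lit 5) (nat_lit 16) (nat_lit 4) (nat_lit 346) (nat_lit 274) (nat_lit 160)) (XT.lf (nat_lit 0) (nat_lit 37704950300) (nat_lit 76) (nat_lit 24084986355) (nat_lit 152) (nat_lit 34637493222) (nat_lit 14) (nat_lit 5) (nat_lit 15) (nat_lit 5) (nat_lit 16) (nat_lit 4) (nat_lit 347) (nat_lit 274) (nat_lit 159))) (XT.nd (nat_lit 78) (nat_lit 76) (nat_lit 0) (XT.lf (nat_lit 0) (nat_lit 75241147365) (nat_lit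 76) (nat_lit 5047081997) (nat_lit 152) (nat_lit 20362592294) (nat_lit 14) (nat_lit 5) (nat_lit 15) (nat_lit 5) (nat_lit 16) (nat_lit 4) (nat_lit 348) (nat_lit 274) (nat_lit 158)) (XT.lf (nat_lit 0) (nat_lit 9600294774) (nat_lit 76) (nat_lit 90340352393) (nat_lit 76) (nat_lit 5137862070) (nat_lit 13) (nat_lit 4) (nat_lit 14) (nat_lit 5) (nat_lit 14) (nat_lit 4) (nat_lit 349) (nat_lit 274) (nat_lit 157))))) (XT.nd (nat_lit 234) (nat_lit 76) (nat_lit 0) (XT.nd (nat_lit 78) (nat_lit 76) (nat_lit 0) (XT.lf (nat_lit 0) (nat_lit 10944947653) (nat_lit 152) (nat_lit 62997752634) (nat_lit 76) (nat_lit 35772499032) (nat_lit 12) (nat_lit 5) (nat_lit 14) (nat_lit 5) (nat_lit 13) (nat_lit 4) (nat_lit 350) (nat_lit 274) (nat_lit 156)) (XT.nd (nat_lit 78) (nat_lit 76) (nat_lit 0) (XT.lf (nat_lit 0) (nat_lit 27720366934) (nat_lit 152) (nat_lit 28956514398) (nat_lit 76) (nat_lit 57905476865) (nat_lit 12) (nat_lit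 5) (nat_lit 14) (nat_lit 5) (nat_lit 13) (nat_lit 4) (nat_lit 351) (nat_lit 274) (nat_lit 155)) (XT.lf (nat_lit 0) (nat_lit 6910793558) (nat_lit 76) (nat_lit 38484232657) (nat_lit 152) (nat_lit 74296036851) (nat_lit 11) (nat_lit 5) (nat_lit 12) (nat_lit 5) (nat_lit 13) (nat_lit 4) (nat_lit 352) (nat_lit 274) (nat_lit 154)))) (XT.nd (nat_lit 156) (nat_lit 76) (nat_lit 0) (XT.nd (nat_lit 78) (nat_lit 0) (nat_lit 0) (XT.lf (nat_lit 0) (nat_lit 45166037149) (nat_lit 76) (nat_lit 19079683954) (nat_lit 152) (nat_lit 60800715015) (nat_lit 11) (nat_lit 5) (nat_lit 12) (nat_lit 5) (nat_lit 13) (nat_lit 4) (nat_lit 353) (nat_lit 274) (nat_lit 153)) (XT.lf (nat_lit 0) (nat_lit 84045852483) (nat_lit 152) (nat_lit 45358141663) (nat_lit 0) (nat_lit 1265378549) (nat_lit 11) (nat_lit 5) (nat_lit 13) (nat_lit 4) (nat_lit 11) (nat_lit 4) (nat_lit 354) (nat_lit 274) (nat_lit 152))) (XT.nd (nat_lit 78) (nat_lit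 76) (nat_lit 0) (XT.lf (nat_lit 0) (nat_lit 105023282997) (nat_lit 152) (nat_lit 9312021212) (nat_lit 0) (nat_lit 22232534945) (nat_lit 11) (nat_lit 5) (nat_lit 13) (nat_lit 4) (nat_lit 11) (nat_lit 4) (nat_lit 355) (nat_lit 274) (nat_lit 151)) (XT.lf (nat_lit 0) (nat_lit 29094939130) (nat_lit 76) (nat_lit 98229292540) (nat_lit 76) (nat_lit 15428759612) (nat_lit 10) (nat_lit 4) (nat_lit 11) (nat_lit 5) (nat_lit 11) (nat_lit 4) (nat_lit 356) (nat_lit 274) (nat_lit 150))))))))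
noncomputable def xc76 : XT := (XT.nd (nat_lit 36114) (nat_lit 0) (nat_lit 2280) (XT.nd (nat_lit 35100) (nat_lit 0) (nat_lit 8208) (XT.nd (nat_lit 34554) (nat_lit 0) (nat_lit 14896) (XT.nd (nat_lit 34320) (nat_lit 0) (nat_lit 15808) (XT.nd (nat_lit 156) (nat_lit 0) (nat_lit 0) (XT.lf (nat_lit 0) (nat_lit 1555576407) (nat_lit 152) (nat_lit 79652031748) (nat_lit 76) (nat_lit 68036607572) (nat_lit 9) (nat_lit 5) (nat_lit 11) (nat_lit 5) (nat_lit 10) (nat_lit 4) (nat_lit 357) (nat_lit 274) (nat_lit 149)) (XT.nd (nat_lit 34086) (nat_lit 0) (nat_lit 15808) (XT.lf (nat_lit 0) (nat_lit 37452213704) (nat_lit 152) (nat_lit 6799185749) (nat_lit 76) (nat_lit 118956027085) (nat_lit 9) (nat_lit 5) (nat_lit 11) (nat_lit 5) (nat_lit 10) (nat_lit 4) (nat_lit 359) (nat_lit 274) (nat_lit 147)) (XT.lf (nat_lit 0) (nat_lit 536193768) (nat_lit 0) (nat_lit 536193768) (nat_lit 988) (nat_lit 3481057587) (nat_lit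 217) (nat_lit 5) (nat_lit 217) (nat_lit 3) (nat_lit 230) (nat_lit 3) (nat_lit 275) (nat_lit 275) (nat_lit 230)))) (XT.nd (nat_lit 78) (nat_lit 0) (nat_lit 76) (XT.lf (nat_lit 0) (nat_lit 3608095961) (nat_lit 988) (nat_lit 1238516256) (nat_lit 1064) (nat_lit 4443634619) (nat_lit 217) (nat_lit 5) (nat_lit 230) (nat_lit 3) (nat_lit 231) (nat_lit 5) (nat_lit 276) (nat_lit 275) (nat_lit 229)) (XT.nd (nat_lit 78) (nat_lit 0) (nat_lit 0) (XT.lf (nat_lit 0) (nat_lit 5133607530) (nat_lit 988) (nat_lit 3535683507) (nat_lit 1064) (nat_lit 813939075) (nat_lit 218) (nat_lit 5) (nat_lit 231) (nat_lit 5) (nat_lit 232) (nat_lit 5) (nat_lit 277) (nat_lit 275) (nat_lit 228)) (XT.lf (nat_lit 76) (nat_lit 3810077807) (nat_lit 0) (nat_lit 2940775307) (nat_lit 1064) (nat_lit 2934669115) (nat_lit 219) (nat_lit 5) (nat_lit 218) (nat_lit 5) (nat_lit 232) (nat_lit 5) (nat_lit 278) (nat_lit 275) (nat_lit 227))))) (XT.nd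 (nat_lit 234) (nat_lit 0) (nat_lit 152) (XT.nd (nat_lit 78) (nat_lit 1064) (nat_lit 0) (XT.lf (nat_lit 76) (nat_lit 1652550789) (nat_lit 0) (nat_lit 6799451211) (nat_lit 1064) (nat_lit 1445953275) (nat_lit 220) (nat_lit 5) (nat_lit 219) (nat_lit 5) (nat_lit 233) (nat_lit 5) (nat_lit 279) (nat_lit 275) (nat_lit 226)) (XT.nd (nat_lit 78) (nat_lit 0) (nat_lit 76) (XT.lf (nat_lit 0) (nat_lit 128964435) (nat_lit 1064) (nat_lit 521041687) (nat_lit 1140) (nat_lit 9470657154) (nat_lit 205) (nat_lit 5) (nat_lit 219) (nat_lit 5) (nat_lit 220) (nat_lit 5) (nat_lit 280) (nat_lit 275) (nat_lit 225)) (XT.lf (nat_lit 0) (nat_lit 1810677626) (nat_lit 1064) (nat_lit 2734112965) (nat_lit 1140) (nat_lit 5807651490) (nat_lit 206) (nat_lit 5) (nat_lit 220) (nat_lit 5) (nat_lit 221) (nat_lit 5) (nat_lit 281) (nat_lit 275) (nat_lit 224)))) (XT.nd (nat_lit 156) (nat_lit 0) (nat_lit 76) (XT.nd (nat_lit 78) (nat_lit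 0) (nat_lit 0) (XT.lf (nat_lit 0) (nat_lit 3592635065) (nat_lit 1064) (nat_lit 4981426036) (nat_lit 1140) (nat_lit 2021362556) (nat_lit 207) (nat_lit 5) (nat_lit 221) (nat_lit 5) (nat_lit 222) (nat_lit 5) (nat_lit 282) (nat_lit 275) (nat_lit 223)) (XT.lf (nat_lit 76) (nat_lit 3560545784) (nat_lit 0) (nat_lit 1944923997) (nat_lit 1140) (nat_lit 5343925042) (nat_lit 208) (nat_lit 5) (nat_lit 207) (nat_lit 5) (nat_lit 222) (nat_lit 5) (nat_lit 283) (nat_lit 275) (nat_lit 222))) (XT.nd (nat_lit 78) (nat_lit 0) (nat_lit 76) (XT.lf (nat_lit 76) (nat_lit 1448268826) (nat_lit 0) (nat_lit 6115722663) (nat_lit 1140) (nat_lit 3550661123) (nat_lit 209) (nat_lit 5) (nat_lit 208) (nat_lit 5) (nat_lit 223) (nat_lit 5) (nat_lit 284) (nat_lit 275) (nat_lit 221)) (XT.lf (nat_lit 0) (nat_lit 9767705543) (nat_lit 1064) (nat_lit 695840645) (nat_lit 76) (nat_lit 928444281) (nat_lit 209) (nat_lit 5) (nat_lit 223)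 (nat_lit 5) (nat_lit 210) (nat_lit 5) (nat_lit 285) (nat_lit 275) (nat_lit 220)))))) (XT.nd (nat_lit 468) (nat_lit 2888) (nat_lit 0) (XT.nd (nat_lit 234) (nat_lit 1216) (nat_lit 0) (XT.nd (nat_lit 78) (nat_lit 1748) (nat_lit 0) (XT.lf (nat_lit 0) (nat_lit 479319208) (nat_lit 1140) (nat_lit 2901046308) (nat_lit 76) (nat_lit 8300133048) (nat_lit 194) (nat_lit 5) (nat_lit 209) (nat_lit 5) (nat_lit 195) (nat_lit 5) (nat_lit 286) (nat_lit 275) (nat_lit 219)) (XT.nd (nat_lit 78) (nat_lit 608) (nat_lit 0) (XT.lf (nat_lit 0) (nat_lit 2711070686) (nat_lit 1216) (nat_lit 5194306369) (nat_lit 76) (nat_lit 4075950751) (nat_lit 179) (nat_lit 5) (nat_lit 195) (nat_lit 5) (nat_lit 180) (nat_lit 5) (nat_lit 287) (nat_lit 275) (nat_lit 218)) (XT.lf (nat_lit 0) (nat_lit 4732941663) (nat_lit 608) (nat_lit 376971288) (nat_lit 684) (nat_lit 7185691886) (nat_lit 171) (nat_lit 5) (nat_lit 179) (nat_lit 5) (nat_lit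 180) (nat_lit 5) (nat_lit 288) (nat_lit 275) (nat_lit 217)))) (XT.nd (nat_lit 78) (nat_lit 608) (nat_lit 0) (XT.lf (nat_lit 0) (nat_lit 2569257575) (nat_lit 608) (nat_lit 5158402634) (nat_lit 684) (nat_lit 4895034650) (nat_lit 163) (nat_lit 5) (nat_lit 171) (nat_lit 5) (nat_lit 172) (nat_lit 5) (nat_lit 289) (nat_lit 275) (nat_lit 216)) (XT.nd (nat_lit 78) (nat_lit 76) (nat_lit 0) (XT.lf (nat_lit 0) (nat_lit 328419962) (nat_lit 532) (nat_lit 10209552722) (nat_lit 608) (nat_lit 2426381149) (nat_lit 156) (nat_lit 5) (nat_lit 163) (nat_lit 5) (nat_lit 164) (nat_lit 5) (nat_lit 290) (nat_lit 275) (nat_lit 215)) (XT.lf (nat_lit 0) (nat_lit 270387214) (nat_lit 608) (nat_lit 1984107306) (nat_lit 76) (nat_lit 11065375879) (nat_lit 155) (nat_lit 5) (nat_lit 163) (nat_lit 5) (nat_lit 156) (nat_lit 5) (nat_lit 291) (nat_lit 275) (nat_lit 214))))) (XT.nd (nat_lit 234) (nat_lit 1368) (nat_lit 0) (XT.nd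 (nat_lit 78) (nat_lit 988) (nat_lit 0) (XT.lf (nat_lit 0) (nat_lit 3155181178) (nat_lit 608) (nat_lit 4439990118) (nat_lit 76) (nat_lit 6094226788) (nat_lit 148) (nat_lit 5) (nat_lit 156) (nat_lit 5) (nat_lit 149) (nat_lit 5) (nat_lit 292) (nat_lit 275) (nat_lit 213)) (XT.nd (nat_lit 78) (nat_lit 532) (nat_lit 0) (XT.lf (nat_lit 0) (nat_lit 6258998637) (nat_lit 532) (nat_lit 7005584448) (nat_lit 76) (nat_lit 810629887) (nat_lit 142) (nat_lit 5) (nat_lit 149) (nat_lit 5) (nat_lit 143) (nat_lit 5) (nat_lit 293) (nat_lit 275) (nat_lit 212)) (XT.lf (nat_lit 0) (nat_lit 4737299691) (nat_lit 532) (nat_lit 4906146268) (nat_lit 608) (nat_lit 4833161223) (nat_lit 135) (nat_lit 5) (nat_lit 142) (nat_lit 5) (nat_lit 143) (nat_lit 5) (nat_lit 294) (nat_lit 275) (nat_lit 211)))) (XT.nd (nat_lit 156) (nat_lit 836) (nat_lit 0) (XT.nd (nat_lit 78) (nat_lit 76) (nat_lit 0) (XT.lf (nat_lit 0) (nat_lit 2277840484)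 (nat_lit 456) (nat_lit 11009857958) (nat_lit 532) (nat_lit 1607704458) (nat_lit 129) (nat_lit 5) (nat_lit 135) (nat_lit 5) (nat_lit 136) (nat_lit 5) (nat_lit 295) (nat_lit 275) (nat_lit 210)) (XT.lf (nat_lit 0) (nat_lit 1854827151) (nat_lit 532) (nat_lit 346396154) (nat_lit 76) (nat_lit 13130132121) (nat_lit 128) (nat_lit 5) (nat_lit 135) (nat_lit 5) (nat_lit 129) (nat_lit 5) (nat_lit 296) (nat_lit 275) (nat_lit 209))) (XT.nd (nat_lit 78) (nat_lit 380) (nat_lit 0) (XT.lf (nat_lit 0) (nat_lit 5610612702) (nat_lit 532) (nat_lit 3128595936) (nat_lit 76) (nat_lit 7044861485) (nat_lit 122) (nat_lit 5) (nat_lit 129) (nat_lit 5) (nat_lit 123) (nat_lit 5) (nat_lit 297) (nat_lit 275) (nat_lit 208)) (XT.lf (nat_lit 0) (nat_lit 9646229377) (nat_lit 456) (nat_lit 6073867681) (nat_lit 76) (nat_lit 536603576) (nat_lit 117) (nat_lit 5) (nat_lit 123) (nat_lit 5) (nat_lit 118) (nat_lit 5) (nat_lit 298) (nat_lit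 275) (nat_lit 207))))))) (XT.nd (nat_lit 1014) (nat_lit 2128) (nat_lit 0) (XT.nd (nat_lit 468) (nat_lit 1824) (nat_lit 0) (XT.nd (nat_lit 234) (nat_lit 760) (nat_lit 0) (XT.nd (nat_lit 78) (nat_lit 836) (nat_lit 0) (XT.lf (nat_lit 0) (nat_lit 7487335175) (nat_lit 380) (nat_lit 6553310776) (nat_lit 456) (nat_lit 2707645510) (nat_lit 112) (nat_lit 5) (nat_lit 117) (nat_lit 5) (nat_lit 118) (nat_lit 5) (nat_lit 299) (nat_lit 275) (nat_lit 206)) (XT.nd (nat_lit 78) (nat_lit 380) (nat_lit 0) (XT.lf (nat_lit 0) (nat_lit 1466664374) (nat_lit 456) (nat_lit 12668311383) (nat_lit 76) (nat_lit 3126017341) (nat_lit 106) (nat_lit 5) (nat_lit 112) (nat_lit 5) (nat_lit 107) (nat_lit 5) (nat_lit 300) (nat_lit 275) (nat_lit 205)) (XT.lf (nat_lit 0) (nat_lit 1426811647) (nat_lit 380) (nat_lit 4509943683) (nat_lit 456) (nat_lit 11857512984) (nat_lit 101) (nat_lit 5) (nat_lit 106) (nat_lit 5) (nat_lit 107) (nat_lit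 5) (nat_lit 301) (nat_lit 275) (nat_lit 204)))) (XT.nd (nat_lit 78) (nat_lit 760) (nat_lit 0) (XT.lf (nat_lit 0) (nat_lit 10783367228) (nat_lit 456) (nat_lit 1956327064) (nat_lit 76) (nat_lit 5609955520) (nat_lit 101) (nat_lit 5) (nat_lit 107) (nat_lit 5) (nat_lit 102) (nat_lit 5) (nat_lit 302) (nat_lit 275) (nat_lit 203)) (XT.nd (nat_lit 78) (nat_lit 456) (nat_lit 0) (XT.lf (nat_lit 0) (nat_lit 13349996337) (nat_lit 304) (nat_lit 2665228984) (nat_lit 380) (nat_lit 2913319039) (nat_lit 97) (nat_lit 5) (nat_lit 101) (nat_lit 5) (nat_lit 102) (nat_lit 5) (nat_lit 303) (nat_lit 275) (nat_lit 202)) (XT.lf (nat_lit 0) (nat_lit 2098043983) (nat_lit 456) (nat_lit 9546409234) (nat_lit 76) (nat_lit 7886463588) (nat_lit 91) (nat_lit 5) (nat_lit 97) (nat_lit 5) (nat_lit 92) (nat_lit 5) (nat_lit 304) (nat_lit 275) (nat_lit 201))))) (XT.nd (nat_lit 234) (nat_lit 1216) (nat_lit 0) (XT.nd (nat_lit 78) (nat_lit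 304) (nat_lit 0) (XT.lf (nat_lit 0) (nat_lit 6307321500) (nat_lit 304) (nat_lit 1109298372) (nat_lit 380) (nat_lit 12742443446) (nat_lit 87) (nat_lit 5) (nat_lit 91) (nat_lit 5) (nat_lit 92) (nat_lit 5) (nat_lit 305) (nat_lit 275) (nat_lit 200)) (XT.nd (nat_lit 78) (nat_lit 0) (nat_lit 0) (XT.lf (nat_lit 0) (nat_lit 2245607464) (nat_lit 304) (nat_lit 10943753090) (nat_lit 380) (nat_lit 7623635892) (nat_lit 83) (nat_lit 5) (nat_lit 87) (nat_lit 5) (nat_lit 88) (nat_lit 5) (nat_lit 306) (nat_lit 275) (nat_lit 199)) (XT.lf (nat_lit 0) (nat_lit 19377234479) (nat_lit 380) (nat_lit 2108105820) (nat_lit 76) (nat_lit 10516160) (nat_lit 83) (nat_lit 5) (nat_lit 88) (nat_lit 5) (nat_lit 84) (nat_lit 5) (nat_lit 307) (nat_lit 275) (nat_lit 198)))) (XT.nd (nat_lit 156) (nat_lit 532) (nat_lit 0) (XT.nd (nat_lit 78) (nat_lit 304) (nat_lit 0) (XT.lf (nat_lit 0) (nat_lit 3824156780) (nat_lit 380) (nat_lit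 6917582507) (nat_lit 76) (nat_lit 11463068487) (nat_lit 78) (nat_lit 5) (nat_lit 83) (nat_lit 5) (nat_lit 79) (nat_lit 5) (nat_lit 308) (nat_lit 275) (nat_lit 197)) (XT.lf (nat_lit 0) (nat_lit 10127478644) (nat_lit 380) (nat_lit 12151506684) (nat_lit 76) (nat_lit 666397534) (nat_lit 74) (nat_lit 5) (nat_lit 79) (nat_lit 5) (nat_lit 75) (nat_lit 5) (nat_lit 309) (nat_lit 275) (nat_lit 196))) (XT.nd (nat_lit 78) (nat_lit 304) (nat_lit 0) (XT.lf (nat_lit 0) (nat_lit 5782336994) (nat_lit 228) (nat_lit 11174858672) (nat_lit 304) (nat_lit 6759475228) (nat_lit 71) (nat_lit 5) (nat_lit 74) (nat_lit 5) (nat_lit 75) (nat_lit 5) (nat_lit 310) (nat_lit 275) (nat_lit 195)) (XT.lf (nat_lit 0) (nat_lit 308573852) (nat_lit 304) (nat_lit 23929819628) (nat_lit 380) (nat_lit 284850059) (nat_lit 67) (nat_lit 5) (nat_lit 71) (nat_lit 5) (nat_lit 72) (nat_lit 5) (nat_lit 311) (nat_lit 275) (nat_lit 194)))))) (XT.nd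 (nat_lit 546) (nat_lit 912) (nat_lit 0) (XT.nd (nat_lit 234) (nat_lit 684) (nat_lit 0) (XT.nd (nat_lit 78) (nat_lit 456) (nat_lit 0) (XT.lf (nat_lit 0) (nat_lit 6662245715) (nat_lit 380) (nat_lit 5738483756) (nat_lit 76) (nat_lit 12959280299) (nat_lit 66) (nat_lit 5) (nat_lit 71) (nat_lit 5) (nat_lit 67) (nat_lit 5) (nat_lit 312) (nat_lit 275) (nat_lit 193)) (XT.nd (nat_lit 78) (nat_lit 228) (nat_lit 0) (XT.lf (nat_lit 0) (nat_lit 13896425690) (nat_lit 228) (nat_lit 165733936) (nat_lit 304) (nat_lit 12173047106) (nat_lit 63) (nat_lit 5) (nat_lit 66) (nat_lit 5) (nat_lit 67) (nat_lit 5) (nat_lit 313) (nat_lit 275) (nat_lit 192)) (XT.lf (nat_lit 0) (nat_lit 7470927574) (nat_lit 228) (nat_lit 14592875351) (nat_lit 304) (nat_lit 5083425432) (nat_lit 60) (nat_lit 5) (nat_lit 63) (nat_lit 5) (nat_lit 64) (nat_lit 5) (nat_lit 314) (nat_lit 275) (nat_lit 191)))) (XT.nd (nat_lit 156) (nat_lit 380)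 (nat_lit 0) (XT.nd (nat_lit 78) (nat_lit 0) (nat_lit 0) (XT.lf (nat_lit 0) (nat_lit 377190878) (nat_lit 228) (nat_lit 2049857174) (nat_lit 304) (nat_lit 25673764715) (nat_lit 56) (nat_lit 5) (nat_lit 59) (nat_lit 5) (nat_lit 60) (nat_lit 5) (nat_lit 315) (nat_lit 275) (nat_lit 190)) (XT.lf (nat_lit 0) (nat_lit 10499799878) (nat_lit 304) (nat_lit 7443737246) (nat_lit 76) (nat_lit 11148287529) (nat_lit 56) (nat_lit 5) (nat_lit 60) (nat_lit 5) (nat_lit 57) (nat_lit 5) (nat_lit 316) (nat_lit 275) (nat_lit 189))) (XT.nd (nat_lit 78) (nat_lit 152) (nat_lit 0) (XT.lf (nat_lit 0) (nat_lit 14073541836) (nat_lit 228) (nat_lit 5039058335) (nat_lit 304) (nat_lit 11015708746) (nat_lit 53) (nat_lit 5) (nat_lit 56) (nat_lit 5) (nat_lit 57) (nat_lit 5) (nat_lit 317) (nat_lit 275) (nat_lit 188)) (XT.lf (nat_lit 0) (nat_lit 5604577881) (nat_lit 152) (nat_lit 22745512959) (nat_lit 228) (nat_lit 2860718480)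 (nat_lit 51) (nat_lit 5) (nat_lit 53) (nat_lit 5) (nat_lit 54) (nat_lit 5) (nat_lit 318) (nat_lit 275) (nat_lit 187))))) (XT.nd (nat_lit 234) (nat_lit 456) (nat_lit 0) (XT.nd (nat_lit 78) (nat_lit 380) (nat_lit 0) (XT.lf (nat_lit 0) (nat_lit 5789931177) (nat_lit 228) (nat_lit 3797053649) (nat_lit 76) (nat_lit 22752842697) (nat_lit 50) (nat_lit 5) (nat_lit 53) (nat_lit 5) (nat_lit 51) (nat_lit 5) (nat_lit 319) (nat_lit 275) (nat_lit 186)) (XT.nd (nat_lit 78) (nat_lit 152) (nat_lit 0) (XT.lf (nat_lit 0) (nat_lit 15026204666) (nat_lit 304) (nat_lit 14137554306) (nat_lit 76) (nat_lit 4354332117) (nat_lit 47) (nat_lit 5) (nat_lit 51) (nat_lit 5) (nat_lit 48) (nat_lit 5) (nat_lit 320) (nat_lit 275) (nat_lit 185)) (XT.lf (nat_lit 0) (nat_lit 9094718217) (nat_lit 152) (nat_lit 15836011572) (nat_lit 228) (nat_lit 9818356175) (nat_lit 45) (nat_lit 5) (nat_lit 47) (nat_lit 5) (nat_lit 48) (nat_lit 5)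 (nat_lit 321) (nat_lit 275) (nat_lit 184)))) (XT.nd (nat_lit 156) (nat_lit 152) (nat_lit 0) (XT.nd (nat_lit 78) (nat_lit 304) (nat_lit 0) (XT.lf (nat_lit 0) (nat_lit 33756975782) (nat_lit 152) (nat_lit 1702374980) (nat_lit 228) (nat_lit 578424467) (nat_lit 45) (nat_lit 5) (nat_lit 47) (nat_lit 5) (nat_lit 48) (nat_lit 5) (nat_lit 322) (nat_lit 275) (nat_lit 183)) (XT.lf (nat_lit 0) (nat_lit 9275778852) (nat_lit 304) (nat_lit 14923030561) (nat_lit 76) (nat_lit 13179559223) (nat_lit 41) (nat_lit 5) (nat_lit 45) (nat_lit 5) (nat_lit 42) (nat_lit 5) (nat_lit 323) (nat_lit 275) (nat_lit 182))) (XT.nd (nat_lit 78) (nat_lit 0) (nat_lit 0) (XT.lf (nat_lit 0) (nat_lit 9833557583) (nat_lit 152) (nat_lit 9897090930) (nat_lit 228) (nat_lit 19051583276) (nat_lit 39) (nat_lit 5) (nat_lit 41) (nat_lit 5) (nat_lit 42) (nat_lit 5) (nat_lit 324) (nat_lit 275) (nat_lit 181)) (XT.lf (nat_lit 0) (nat_lit 30897411742)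 (nat_lit 228) (nat_lit 4187955833) (nat_lit 76) (nat_lit 5165255023) (nat_lit 39) (nat_lit 5) (nat_lit 42) (nat_lit 5) (nat_lit 40) (nat_lit 5) (nat_lit 325) (nat_lit 275) (nat_lit 180))))))))
noncomputable def xc77 : XT := (XT.nd (nat_lit 2028) (nat_lit 228) (nat_lit 0) (XT.nd (nat_lit 1014) (nat_lit 760) (nat_lit 0) (XT.nd (nat_lit 468) (nat_lit 532) (nat_lit 0) (XT.nd (nat_lit 234) (nat_lit 380) (nat_lit 0) (XT.nd (nat_lit 78) (nat_lit 152) (nat_lit 0) (XT.lf (nat_lit 0) (nat_lit 1114853478) (nat_lit 228) (nat_lit 19676073339) (nat_lit 76) (nat_lit 20992245943) (nat_lit 36) (nat_lit 5) (nat_lit 39) (nat_lit 5) (nat_lit 37) (nat_lit 5) (nat_lit 326) (nat_lit 275) (nat_lit 179)) (XT.nd (nat_lit 78) (nat_lit 0) (nat_lit 0) (XT.lf (nat_lit 0) (nat_lit 6420060090) (nat_lit 152) (nat_lit 5585709125) (nat_lit 228) (nat_lit 31381024352) (nat_lit 34) (nat_lit 5) (nat_lit 36) (nat_lit 5) (nat_lit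 37) (nat_lit 5) (nat_lit 327) (nat_lit 275) (nat_lit 178)) (XT.lf (nat_lit 0) (nat_lit 23731760370) (nat_lit 228) (nat_lit 10957530456) (nat_lit 76) (nat_lit 10372596249) (nat_lit 34) (nat_lit 5) (nat_lit 37) (nat_lit 5) (nat_lit 35) (nat_lit 5) (nat_lit 328) (nat_lit 275) (nat_lit 177)))) (XT.nd (nat_lit 78) (nat_lit 228) (nat_lit 0) (XT.lf (nat_lit 0) (nat_lit 16597341464) (nat_lit 152) (nat_lit 19649488189) (nat_lit 228) (nat_lit 10567829439) (nat_lit 32) (nat_lit 5) (nat_lit 34) (nat_lit 5) (nat_lit 35) (nat_lit 5) (nat_lit 329) (nat_lit 275) (nat_lit 176)) (XT.nd (nat_lit 78) (nat_lit 152) (nat_lit 0) (XT.lf (nat_lit 0) (nat_lit 819344199) (nat_lit 228) (nat_lit 2922818411) (nat_lit 76) (nat_lit 44909670780) (nat_lit 31) (nat_lit 5) (nat_lit 34) (nat_lit 5) (nat_lit 32) (nat_lit 5) (nat_lit 330) (nat_lit 275) (nat_lit 175)) (XT.lf (nat_lit 0) (nat_lit 12926214435) (nat_lit 228) (nat_lit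 24580010370) (nat_lit 76) (nat_lit 13060442067) (nat_lit 29) (nat_lit 5) (nat_lit 32) (nat_lit 5) (nat_lit 30) (nat_lit 5) (nat_lit 331) (nat_lit 275) (nat_lit 174))))) (XT.nd (nat_lit 234) (nat_lit 304) (nat_lit 0) (XT.nd (nat_lit 78) (nat_lit 76) (nat_lit 0) (XT.lf (nat_lit 0) (nat_lit 3842710455) (nat_lit 152) (nat_lit 21888874135) (nat_lit 228) (nat_lit 26842868773) (nat_lit 27) (nat_lit 5) (nat_lit 29) (nat_lit 5) (nat_lit 30) (nat_lit 5) (nat_lit 332) (nat_lit 275) (nat_lit 173)) (XT.nd (nat_lit 78) (nat_lit 76) (nat_lit 0) (XT.lf (nat_lit 0) (nat_lit 34180256023) (nat_lit 152) (nat_lit 5238434999) (nat_lit 228) (nat_lit 15256699868) (nat_lit 27) (nat_lit 5) (nat_lit 29) (nat_lit 5) (nat_lit 30) (nat_lit 5) (nat_lit 333) (nat_lit 275) (nat_lit 172)) (XT.lf (nat_lit 0) (nat_lit 9195774792) (nat_lit 76) (nat_lit 44789387185) (nat_lit 152) (nat_lit 2890368510) (nat_lit 26) (nat_lit 5)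 (nat_lit 27) (nat_lit 5) (nat_lit 28) (nat_lit 4) (nat_lit 334) (nat_lit 275) (nat_lit 171)))) (XT.nd (nat_lit 156) (nat_lit 76) (nat_lit 0) (XT.nd (nat_lit 78) (nat_lit 152) (nat_lit 0) (XT.lf (nat_lit 0) (nat_lit 10152393245) (nat_lit 152) (nat_lit 18550762056) (nat_lit 76) (nat_lit 30471963160) (nat_lit 25) (nat_lit 5) (nat_lit 27) (nat_lit 5) (nat_lit 26) (nat_lit 5) (nat_lit 335) (nat_lit 275) (nat_lit 170)) (XT.lf (nat_lit 0) (nat_lit 12226045827) (nat_lit 152) (nat_lit 11669215204) (nat_lit 228) (nat_lit 37690338739) (nat_lit 23) (nat_lit 5) (nat_lit 25) (nat_lit 5) (nat_lit 26) (nat_lit 5) (nat_lit 336) (nat_lit 275) (nat_lit 169))) (XT.nd (nat_lit 78) (nat_lit 76) (nat_lit 0) (XT.lf (nat_lit 0) (nat_lit 38567799549) (nat_lit 228) (nat_lit 19260924708) (nat_lit 76) (nat_lit 6280609654) (nat_lit 23) (nat_lit 5) (nat_lit 26) (nat_lit 5) (nat_lit 24) (nat_lit 4) (nat_lit 337) (nat_lit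 275) (nat_lit 168)) (XT.lf (nat_lit 0) (nat_lit 12450911067) (nat_lit 76) (nat_lit 41750916900) (nat_lit 152) (nat_lit 12550595271) (nat_lit 22) (nat_lit 5) (nat_lit 23) (nat_lit 5) (nat_lit 24) (nat_lit 4) (nat_lit 338) (nat_lit 275) (nat_lit 167)))))) (XT.nd (nat_lit 468) (nat_lit 456) (nat_lit 0) (XT.nd (nat_lit 234) (nat_lit 76) (nat_lit 0) (XT.nd (nat_lit 78) (nat_lit 152) (nat_lit 0) (XT.lf (nat_lit 0) (nat_lit 1259460632) (nat_lit 152) (nat_lit 23399936614) (nat_lit 76) (nat_lit 44862234397) (nat_lit 21) (nat_lit 5) (nat_lit 23) (nat_lit 5) (nat_lit 22) (nat_lit 5) (nat_lit 339) (nat_lit 275) (nat_lit 166)) (XT.nd (nat_lit 78) (nat_lit 0) (nat_lit 0) (XT.lf (nat_lit 0) (nat_lit 9081430746) (nat_lit 152) (nat_lit 6499779992) (nat_lit 228) (nat_lit 56841942969) (nat_lit 19) (nat_lit 5) (nat_lit 21) (nat_lit 5) (nat_lit 22) (nat_lit 5) (nat_lit 340) (nat_lit 275) (nat_lit 165)) (XT.lf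 (nat_lit 0) (nat_lit 30974386603) (nat_lit 228) (nat_lit 31925431794) (nat_lit 76) (nat_lit 12559276992) (nat_lit 19) (nat_lit 5) (nat_lit 22) (nat_lit 5) (nat_lit 20) (nat_lit 4) (nat_lit 341) (nat_lit 275) (nat_lit 164)))) (XT.nd (nat_lit 78) (nat_lit 0) (nat_lit 0) (XT.lf (nat_lit 0) (nat_lit 1000771908) (nat_lit 76) (nat_lit 46203351363) (nat_lit 152) (nat_lit 31440707316) (nat_lit 18) (nat_lit 5) (nat_lit 19) (nat_lit 5) (nat_lit 20) (nat_lit 4) (nat_lit 342) (nat_lit 275) (nat_lit 163)) (XT.nd (nat_lit 78) (nat_lit 0) (nat_lit 0) (XT.lf (nat_lit 0) (nat_lit 36226031597) (nat_lit 76) (nat_lit 28339895289) (nat_lit 152) (nat_lit 17414311576) (nat_lit 18) (nat_lit 5) (nat_lit 19) (nat_lit 5) (nat_lit 20) (nat_lit 4) (nat_lit 343) (nat_lit 275) (nat_lit 162)) (XT.lf (nat_lit 0) (nat_lit 73198838248) (nat_lit 76) (nat_lit 9589302399) (nat_lit 152) (nat_lit 2694509650) (nat_lit 18) (nat_lit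 5) (nat_lit 19) (nat_lit 5) (nat_lit 20) (nat_lit 4) (nat_lit 344) (nat_lit 275) (nat_lit 161))))) (XT.nd (nat_lit 234) (nat_lit 152) (nat_lit 0) (XT.nd (nat_lit 78) (nat_lit 76) (nat_lit 0) (XT.lf (nat_lit 0) (nat_lit 12828100984) (nat_lit 228) (nat_lit 66074007166) (nat_lit 76) (nat_lit 10244922308) (nat_lit 15) (nat_lit 5) (nat_lit 18) (nat_lit 5) (nat_lit 16) (nat_lit 4) (nat_lit 345) (nat_lit 275) (nat_lit 160)) (XT.nd (nat_lit 78) (nat_lit 76) (nat_lit 0) (XT.lf (nat_lit 0) (nat_lit 29288908029) (nat_lit 228) (nat_lit 32674672854) (nat_lit 76) (nat_lit 31023717408) (nat_lit 15) (nat_lit 5) (nat_lit 18) (nat_lit 5) (nat_lit 16) (nat_lit 4) (nat_lit 346) (nat_lit 275) (nat_lit 159)) (XT.lf (nat_lit 0) (nat_lit 2429661312) (nat_lit 76) (nat_lit 44159577405) (nat_lit 152) (nat_lit 50429848954) (nat_lit 14) (nat_lit 5) (nat_lit 15) (nat_lit 5) (nat_lit 16) (nat_lit 4) (nat_lit 347) (nat_lit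 275) (nat_lit 158)))) (XT.nd (nat_lit 156) (nat_lit 152) (nat_lit 0) (XT.nd (nat_lit 78) (nat_lit 0) (nat_lit 0) (XT.lf (nat_lit 0) (nat_lit 39959993263) (nat_lit 76) (nat_lit 25124289170) (nat_lit 152) (nat_lit 36158295720) (nat_lit 14) (nat_lit 5) (nat_lit 15) (nat_lit 5) (nat_lit 16) (nat_lit 4) (nat_lit 348) (nat_lit 275) (nat_lit 157)) (XT.lf (nat_lit 0) (nat_lit 79355390874) (nat_lit 76) (nat_lit 5142344189) (nat_lit 152) (nat_lit 21179700800) (nat_lit 14) (nat_lit 5) (nat_lit 15) (nat_lit 5) (nat_lit 16) (nat_lit 4) (nat_lit 349) (nat_lit 275) (nat_lit 156))) (XT.nd (nat_lit 78) (nat_lit 76) (nat_lit 0) (XT.lf (nat_lit 0) (nat_lit 10426690513) (nat_lit 76) (nat_lit 94701560826) (nat_lit 76) (nat_lit 5198395684) (nat_lit 13) (nat_lit 4) (nat_lit 14) (nat_lit 5) (nat_lit 14) (nat_lit 4) (nat_lit 350) (nat_lit 275) (nat_lit 155)) (XT.lf (nat_lit 0) (nat_lit 11675554854) (nat_lit 152)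 (nat_lit 65814039171) (nat_lit 76) (nat_lit 37705799258) (nat_lit 12) (nat_lit 5) (nat_lit 14) (nat_lit 5) (nat_lit 13) (nat_lit 4) (nat_lit 351) (nat_lit 275) (nat_lit 154))))))) (XT.nd (nat_lit 35178) (nat_lit 0) (nat_lit 9576) (XT.nd (nat_lit 546) (nat_lit 76) (nat_lit 0) (XT.nd (nat_lit 234) (nat_lit 76) (nat_lit 0) (XT.nd (nat_lit 78) (nat_lit 76) (nat_lit 0) (XT.lf (nat_lit 0) (nat_lit 29281013679) (nat_lit 152) (nat_lit 30086624789) (nat_lit 76) (nat_lit 60938536683) (nat_lit 12) (nat_lit 5) (nat_lit 14) (nat_lit 5) (nat_lit 13) (nat_lit 4) (nat_lit 352) (nat_lit 275) (nat_lit 153)) (XT.nd (nat_lit 78) (nat_lit 0) (nat_lit 0) (XT.lf (nat_lit 0) (nat_lit 7564941318) (nat_lit 76) (nat_lit 40269115497) (nat_lit 152) (nat_lit 77836421879) (nat_lit 11) (nat_lit 5) (nat_lit 12) (nat_lit 5) (nat_lit 13) (nat_lit 4) (nat_lit 353) (nat_lit 275) (nat_lit 152)) (XT.lf (nat_lit 0) (nat_lit 47718251466)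 (nat_lit 76) (nat_lit 19900974064) (nat_lit 152) (nat_lit 63674639515) (nat_lit 11) (nat_lit 5) (nat_lit 12) (nat_lit 5) (nat_lit 13) (nat_lit 4) (nat_lit 354) (nat_lit 275) (nat_lit 151)))) (XT.nd (nat_lit 78) (nat_lit 76) (nat_lit 0) (XT.lf (nat_lit 0) (nat_lit 88402901210) (nat_lit 152) (nat_lit 47342687029) (nat_lit 0) (nat_lit 1452556761) (nat_lit 11) (nat_lit 5) (nat_lit 13) (nat_lit 4) (nat_lit 11) (nat_lit 4) (nat_lit 355) (nat_lit 275) (nat_lit 150)) (XT.nd (nat_lit 78) (nat_lit 76) (nat_lit 0) (XT.lf (nat_lit 0) (nat_lit 110421833912) (nat_lit 152) (nat_lit 9507753971) (nat_lit 0) (nat_lit 23462170534) (nat_lit 11) (nat_lit 5) (nat_lit 13) (nat_lit 4) (nat_lit 11) (nat_lit 4) (nat_lit 356) (nat_lit 275) (nat_lit 149)) (XT.lf (nat_lit 0) (nat_lit 30811818668) (nat_lit 76) (nat_lit 103021512712) (nat_lit 76) (nat_lit 16052974164) (nat_lit 10) (nat_lit 4) (nat_lit 11) (nat_lit 5) (nat_lit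 11) (nat_lit 4) (nat_lit 357) (nat_lit 275) (nat_lit 148))))) (XT.nd (nat_lit 34320) (nat_lit 0) (nat_lit 14896) (XT.nd (nat_lit 34164) (nat_lit 0) (nat_lit 15808) (XT.lf (nat_lit 0) (nat_lit 20152657429) (nat_lit 152) (nat_lit 46075146549) (nat_lit 76) (nat_lit 97626470810) (nat_lit 9) (nat_lit 5) (nat_lit 11) (nat_lit 5) (nat_lit 10) (nat_lit 4) (nat_lit 359) (nat_lit 275) (nat_lit 146)) (XT.nd (nat_lit 78) (nat_lit 0) (nat_lit 0) (XT.lf (nat_lit 0) (nat_lit 1235407079) (nat_lit 0) (nat_lit 1235407079) (nat_lit 988) (nat_lit 2267965989) (nat_lit 217) (nat_lit 5) (nat_lit 217) (nat_lit 3) (nat_lit 230) (nat_lit 3) (nat_lit 276) (nat_lit 276) (nat_lit 228)) (XT.lf (nat_lit 76) (nat_lit 74739044) (nat_lit 0) (nat_lit 6263706226) (nat_lit 1064) (nat_lit 3336019351) (nat_lit 218) (nat_lit 5) (nat_lit 217) (nat_lit 5) (nat_lit 231) (nat_lit 5) (nat_lit 277) (nat_lit 276) (nat_lit 227)))) (XT.nd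 (nat_lit 156) (nat_lit 912) (nat_lit 0) (XT.nd (nat_lit 78) (nat_lit 0) (nat_lit 76) (XT.lf (nat_lit 76) (nat_lit 7587899284) (nat_lit 0) (nat_lit 234670736) (nat_lit 1064) (nat_lit 2058237685) (nat_lit 218) (nat_lit 5) (nat_lit 217) (nat_lit 5) (nat_lit 231) (nat_lit 5) (nat_lit 278) (nat_lit 276) (nat_lit 226)) (XT.lf (nat_lit 76) (nat_lit 5381640713) (nat_lit 0) (nat_lit 4034341418) (nat_lit 1064) (nat_lit 680545335) (nat_lit 219) (nat_lit 5) (nat_lit 218) (nat_lit 5) (nat_lit 232) (nat_lit 5) (nat_lit 279) (nat_lit 276) (nat_lit 225))) (XT.nd (nat_lit 78) (nat_lit 0) (nat_lit 0) (XT.lf (nat_lit 0) (nat_lit 758336148) (nat_lit 1064) (nat_lit 7173698023) (nat_lit 1140) (nat_lit 2390664078) (nat_lit 205) (nat_lit 5) (nat_lit 219) (nat_lit 5) (nat_lit 220) (nat_lit 5) (nat_lit 280) (nat_lit 276) (nat_lit 224)) (XT.lf (nat_lit 76) (nat_lit 869280769) (nat_lit 0) (nat_lit 1414450367) (nat_lit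 1140) (nat_lit 8275483555) (nat_lit 206) (nat_lit 5) (nat_lit 205) (nat_lit 5) (nat_lit 220) (nat_lit 5) (nat_lit 281) (nat_lit 276) (nat_lit 223)))))) (XT.nd (nat_lit 546) (nat_lit 3344) (nat_lit 0) (XT.nd (nat_lit 234) (nat_lit 2052) (nat_lit 0) (XT.nd (nat_lit 78) (nat_lit 0) (nat_lit 76) (XT.lf (nat_lit 0) (nat_lit 3945687086) (nat_lit 1064) (nat_lit 1440448874) (nat_lit 1140) (nat_lit 5419706155) (nat_lit 206) (nat_lit 5) (nat_lit 220) (nat_lit 5) (nat_lit 221) (nat_lit 5) (nat_lit 282) (nat_lit 276) (nat_lit 222)) (XT.nd (nat_lit 78) (nat_lit 0) (nat_lit 0) (XT.lf (nat_lit 0) (nat_lit 5727252051) (nat_lit 1064) (nat_lit 3774074493) (nat_lit 1140) (nat_lit 1562468450) (nat_lit 207) (nat_lit 5) (nat_lit 221) (nat_lit 5) (nat_lit 222) (nat_lit 5) (nat_lit 283) (nat_lit 276) (nat_lit 221)) (XT.lf (nat_lit 76) (nat_lit 5153247850) (nat_lit 0) (nat_lit 2502984837) (nat_lit 1140) (nat_lit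 3676747872) (nat_lit 208) (nat_lit 5) (nat_lit 207) (nat_lit 5) (nat_lit 222) (nat_lit 5) (nat_lit 284) (nat_lit 276) (nat_lit 220)))) (XT.nd (nat_lit 156) (nat_lit 1140) (nat_lit 0) (XT.nd (nat_lit 78) (nat_lit 1064) (nat_lit 0) (XT.lf (nat_lit 76) (nat_lit 2956304440) (nat_lit 0) (nat_lit 6781648402) (nat_lit 1140) (nat_lit 1876064955) (nat_lit 209) (nat_lit 5) (nat_lit 208) (nat_lit 5) (nat_lit 223) (nat_lit 5) (nat_lit 285) (nat_lit 276) (nat_lit 219)) (XT.lf (nat_lit 0) (nat_lit 60830895) (nat_lit 1140) (nat_lit 11200987017) (nat_lit 76) (nat_lit 645965815) (nat_lit 194) (nat_lit 5) (nat_lit 209) (nat_lit 5) (nat_lit 195) (nat_lit 5) (nat_lit 286) (nat_lit 276) (nat_lit 218))) (XT.nd (nat_lit 78) (nat_lit 1140) (nat_lit 0) (XT.lf (nat_lit 0) (nat_lit 2160698143) (nat_lit 1140) (nat_lit 1627502104) (nat_lit 76) (nat_lit 8424404090) (nat_lit 194) (nat_lit 5) (nat_lit 209) (nat_lit 5) (nat_lit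 195) (nat_lit 5) (nat_lit 287) (nat_lit 276) (nat_lit 217)) (XT.lf (nat_lit 0) (nat_lit 4436303111) (nat_lit 1216) (nat_lit 4024189581) (nat_lit 76) (nat_lit 4070118979) (nat_lit 179) (nat_lit 5) (nat_lit 195) (nat_lit 5) (nat_lit 180) (nat_lit 5) (nat_lit 288) (nat_lit 276) (nat_lit 216))))) (XT.nd (nat_lit 234) (nat_lit 1596) (nat_lit 0) (XT.nd (nat_lit 78) (nat_lit 1140) (nat_lit 0) (XT.lf (nat_lit 0) (nat_lit 6358435002) (nat_lit 608) (nat_lit 534303933) (nat_lit 684) (nat_lit 5969833703) (nat_lit 171) (nat_lit 5) (nat_lit 179) (nat_lit 5) (nat_lit 180) (nat_lit 5) (nat_lit 289) (nat_lit 276) (nat_lit 215)) (XT.nd (nat_lit 78) (nat_lit 532) (nat_lit 0) (XT.lf (nat_lit 0) (nat_lit 4094490654) (nat_lit 608) (nat_lit 5486311692) (nat_lit 684) (nat_lit 3627126833) (nat_lit 163) (nat_lit 5) (nat_lit 171) (nat_lit 5) (nat_lit 172) (nat_lit 5) (nat_lit 290) (nat_lit 276) (nat_lit 214)) (XT.lf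 (nat_lit 0) (nat_lit 1746811211) (nat_lit 532) (nat_lit 10727809416) (nat_lit 608) (nat_lit 1093851132) (nat_lit 156) (nat_lit 5) (nat_lit 163) (nat_lit 5) (nat_lit 164) (nat_lit 5) (nat_lit 291) (nat_lit 276) (nat_lit 213)))) (XT.nd (nat_lit 156) (nat_lit 988) (nat_lit 0) (XT.nd (nat_lit 78) (nat_lit 532) (nat_lit 0) (XT.lf (nat_lit 0) (nat_lit 1641505853) (nat_lit 608) (nat_lit 719412929) (nat_lit 76) (nat_lit 11582546067) (nat_lit 155) (nat_lit 5) (nat_lit 163) (nat_lit 5) (nat_lit 156) (nat_lit 5) (nat_lit 292) (nat_lit 276) (nat_lit 212)) (XT.lf (nat_lit 0) (nat_lit 4618810522) (nat_lit 608) (nat_lit 3296607451) (nat_lit 76) (nat_lit 6417682391) (nat_lit 148) (nat_lit 5) (nat_lit 156) (nat_lit 5) (nat_lit 149) (nat_lit 5) (nat_lit 293) (nat_lit 276) (nat_lit 211))) (XT.nd (nat_lit 78) (nat_lit 532) (nat_lit 0) (XT.lf (nat_lit 0) (nat_lit 7829054270) (nat_lit 532) (nat_lit 5991082181)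 (nat_lit 76) (nat_lit 919608270) (nat_lit 142) (nat_lit 5) (nat_lit 149) (nat_lit 5) (nat_lit 143) (nat_lit 5) (nat_lit 294) (nat_lit 276) (nat_lit 210)) (XT.lf (nat_lit 0) (nat_lit 6299824977) (nat_lit 532) (nat_lit 5035779863) (nat_lit 608) (nat_lit 3827089552) (nat_lit 135) (nat_lit 5) (nat_lit 142) (nat_lit 5) (nat_lit 143) (nat_lit 5) (nat_lit 295) (nat_lit 276) (nat_lit 209))))))))
noncomputable def xc78 : XT := (XT.nd (nat_lit 2028) (nat_lit 2508) (nat_lit 0) (XT.nd (nat_lit 1014) (nat_lit 2736) (nat_lit 0) (XT.nd (nat_lit 468) (nat_lit 1748) (nat_lit 0) (XT.nd (nat_lit 234) (nat_lit 1216) (nat_lit 0) (XT.nd (nat_lit 78) (nat_lit 532) (nat_lit 0) (XT.lf (nat_lit 0) (nat_lit 3714974219) (nat_lit 456) (nat_lit 11403256105) (nat_lit 532) (nat_lit 485583501) (nat_lit 129) (nat_lit 5) (nat_lit 135) (nat_lit 5) (nat_lit 136) (nat_lit 5) (nat_lit 296) (nat_lit 276) (nat_lit 208)) (XT.nd (nat_lit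 78) (nat_lit 0) (nat_lit 0) (XT.lf (nat_lit 0) (nat_lit 938445738) (nat_lit 456) (nat_lit 2141039831) (nat_lit 532) (nat_lit 12983208909) (nat_lit 122) (nat_lit 5) (nat_lit 128) (nat_lit 5) (nat_lit 129) (nat_lit 5) (nat_lit 297) (nat_lit 276) (nat_lit 207)) (XT.lf (nat_lit 0) (nat_lit 6974147818) (nat_lit 532) (nat_lit 2005916919) (nat_lit 76) (nat_lit 7559508085) (nat_lit 122) (nat_lit 5) (nat_lit 129) (nat_lit 5) (nat_lit 123) (nat_lit 5) (nat_lit 298) (nat_lit 276) (nat_lit 206)))) (XT.nd (nat_lit 78) (nat_lit 836) (nat_lit 0) (XT.lf (nat_lit 0) (nat_lit 11173830368) (nat_lit 456) (nat_lit 5104576905) (nat_lit 76) (nat_lit 758616684) (nat_lit 117) (nat_lit 5) (nat_lit 123) (nat_lit 5) (nat_lit 118) (nat_lit 5) (nat_lit 299) (nat_lit 276) (nat_lit 205)) (XT.nd (nat_lit 78) (nat_lit 456) (nat_lit 0) (XT.lf (nat_lit 0) (nat_lit 9098196259) (nat_lit 380) (nat_lit 6651881761) (nat_lit 456)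 (nat_lit 1804307905) (nat_lit 112) (nat_lit 5) (nat_lit 117) (nat_lit 5) (nat_lit 118) (nat_lit 5) (nat_lit 300) (nat_lit 276) (nat_lit 204)) (XT.lf (nat_lit 0) (nat_lit 2524002859) (nat_lit 456) (nat_lit 12051794236) (nat_lit 76) (nat_lit 3517710135) (nat_lit 106) (nat_lit 5) (nat_lit 112) (nat_lit 5) (nat_lit 107) (nat_lit 5) (nat_lit 301) (nat_lit 276) (nat_lit 203))))) (XT.nd (nat_lit 234) (nat_lit 1064) (nat_lit 0) (XT.nd (nat_lit 78) (nat_lit 304) (nat_lit 0) (XT.lf (nat_lit 0) (nat_lit 2712255876) (nat_lit 380) (nat_lit 4470155802) (nat_lit 456) (nat_lit 11472138481) (nat_lit 101) (nat_lit 5) (nat_lit 106) (nat_lit 5) (nat_lit 107) (nat_lit 5) (nat_lit 302) (nat_lit 276) (nat_lit 202)) (XT.nd (nat_lit 78) (nat_lit 304) (nat_lit 0) (XT.lf (nat_lit 0) (nat_lit 12228600982) (nat_lit 456) (nat_lit 872252813) (nat_lit 76) (nat_lit 6138175581) (nat_lit 101) (nat_lit 5) (nat_lit 107) (nat_lit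 5) (nat_lit 102) (nat_lit 5) (nat_lit 303) (nat_lit 276) (nat_lit 201)) (XT.lf (nat_lit 0) (nat_lit 15165508102) (nat_lit 304) (nat_lit 2524433300) (nat_lit 380) (nat_lit 2157934421) (nat_lit 97) (nat_lit 5) (nat_lit 101) (nat_lit 5) (nat_lit 102) (nat_lit 5) (nat_lit 304) (nat_lit 276) (nat_lit 200)))) (XT.nd (nat_lit 156) (nat_lit 304) (nat_lit 0) (XT.nd (nat_lit 78) (nat_lit 304) (nat_lit 0) (XT.lf (nat_lit 0) (nat_lit 3057933765) (nat_lit 456) (nat_lit 8867038168) (nat_lit 76) (nat_lit 8556030072) (nat_lit 91) (nat_lit 5) (nat_lit 97) (nat_lit 5) (nat_lit 92) (nat_lit 5) (nat_lit 305) (nat_lit 276) (nat_lit 199)) (XT.lf (nat_lit 0) (nat_lit 7746222772) (nat_lit 304) (nat_lit 866302089) (nat_lit 380) (nat_lit 12528967010) (nat_lit 87) (nat_lit 5) (nat_lit 91) (nat_lit 5) (nat_lit 92) (nat_lit 5) (nat_lit 306) (nat_lit 276) (nat_lit 198))) (XT.nd (nat_lit 78) (nat_lit 0) (nat_lit 0) (XT.lf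 (nat_lit 0) (nat_lit 3471223327) (nat_lit 304) (nat_lit 11176824448) (nat_lit 380) (nat_lit 7180886306) (nat_lit 83) (nat_lit 5) (nat_lit 87) (nat_lit 5) (nat_lit 88) (nat_lit 5) (nat_lit 307) (nat_lit 276) (nat_lit 197)) (XT.lf (nat_lit 0) (nat_lit 21110133032) (nat_lit 380) (nat_lit 1132531874) (nat_lit 76) (nat_lit 304362688) (nat_lit 83) (nat_lit 5) (nat_lit 88) (nat_lit 5) (nat_lit 84) (nat_lit 5) (nat_lit 308) (nat_lit 276) (nat_lit 196)))))) (XT.nd (nat_lit 468) (nat_lit 1216) (nat_lit 0) (XT.nd (nat_lit 234) (nat_lit 608) (nat_lit 0) (XT.nd (nat_lit 78) (nat_lit 532) (nat_lit 0) (XT.lf (nat_lit 0) (nat_lit 4761070550) (nat_lit 380) (nat_lit 6197979649) (nat_lit 76) (nat_lit 12332978998) (nat_lit 78) (nat_lit 5) (nat_lit 83) (nat_lit 5) (nat_lit 79) (nat_lit 5) (nat_lit 309) (nat_lit 276) (nat_lit 195)) (XT.nd (nat_lit 78) (nat_lit 228) (nat_lit 0) (XT.lf (nat_lit 0) (nat_lit 11357023187)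 (nat_lit 380) (nat_lit 11704946590) (nat_lit 76) (nat_lit 1008370169) (nat_lit 74) (nat_lit 5) (nat_lit 79) (nat_lit 5) (nat_lit 75) (nat_lit 5) (nat_lit 310) (nat_lit 276) (nat_lit 194)) (XT.lf (nat_lit 0) (nat_lit 7095372692) (nat_lit 228) (nat_lit 11408259206) (nat_lit 304) (nat_lit 6377327684) (nat_lit 71) (nat_lit 5) (nat_lit 74) (nat_lit 5) (nat_lit 75) (nat_lit 5) (nat_lit 311) (nat_lit 276) (nat_lit 193)))) (XT.nd (nat_lit 78) (nat_lit 228) (nat_lit 0) (XT.lf (nat_lit 0) (nat_lit 392027297) (nat_lit 380) (nat_lit 24395888388) (nat_lit 76) (nat_lit 940474493) (nat_lit 66) (nat_lit 5) (nat_lit 71) (nat_lit 5) (nat_lit 67) (nat_lit 5) (nat_lit 312) (nat_lit 276) (nat_lit 192)) (XT.nd (nat_lit 78) (nat_lit 228) (nat_lit 0) (XT.lf (nat_lit 0) (nat_lit 7648008940) (nat_lit 380) (nat_lit 5047655826) (nat_lit 76) (nat_lit 13912248549) (nat_lit 66) (nat_lit 5) (nat_lit 71) (nat_lit 5) (nat_lit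 67) (nat_lit 5) (nat_lit 313) (nat_lit 276) (nat_lit 191)) (XT.lf (nat_lit 0) (nat_lit 15397363125) (nat_lit 304) (nat_lit 11987975075) (nat_lit 76) (nat_lit 142173228) (nat_lit 63) (nat_lit 5) (nat_lit 67) (nat_lit 5) (nat_lit 64) (nat_lit 5) (nat_lit 314) (nat_lit 276) (nat_lit 190))))) (XT.nd (nat_lit 234) (nat_lit 684) (nat_lit 0) (XT.nd (nat_lit 78) (nat_lit 304) (nat_lit 0) (XT.lf (nat_lit 0) (nat_lit 8782853913) (nat_lit 228) (nat_lit 14996748306) (nat_lit 304) (nat_lit 4706139970) (nat_lit 60) (nat_lit 5) (nat_lit 63) (nat_lit 5) (nat_lit 64) (nat_lit 5) (nat_lit 315) (nat_lit 276) (nat_lit 189)) (XT.nd (nat_lit 78) (nat_lit 0) (nat_lit 0) (XT.lf (nat_lit 0) (nat_lit 1319943278) (nat_lit 228) (nat_lit 1826990331) (nat_lit 304) (nat_lit 26340529857) (nat_lit 56) (nat_lit 5) (nat_lit 59) (nat_lit 5) (nat_lit 60) (nat_lit 5) (nat_lit 316) (nat_lit 276) (nat_lit 188)) (XT.lf (nat_lit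 0) (nat_lit 11597800074) (nat_lit 304) (nat_lit 6921490548) (nat_lit 76) (nat_lit 12009521678) (nat_lit 56) (nat_lit 5) (nat_lit 60) (nat_lit 5) (nat_lit 57) (nat_lit 5) (nat_lit 317) (nat_lit 276) (nat_lit 187)))) (XT.nd (nat_lit 156) (nat_lit 304) (nat_lit 0) (XT.nd (nat_lit 78) (nat_lit 152) (nat_lit 0) (XT.lf (nat_lit 0) (nat_lit 15646013730) (nat_lit 228) (nat_lit 4976291838) (nat_lit 304) (nat_lit 10995402933) (nat_lit 53) (nat_lit 5) (nat_lit 56) (nat_lit 5) (nat_lit 57) (nat_lit 5) (nat_lit 318) (nat_lit 276) (nat_lit 186)) (XT.lf (nat_lit 0) (nat_lit 6742287297) (nat_lit 152) (nat_lit 23564122773) (nat_lit 228) (nat_lit 2448400418) (nat_lit 51) (nat_lit 5) (nat_lit 53) (nat_lit 5) (nat_lit 54) (nat_lit 5) (nat_lit 319) (nat_lit 276) (nat_lit 185))) (XT.nd (nat_lit 78) (nat_lit 228) (nat_lit 0) (XT.lf (nat_lit 0) (nat_lit 6598015383) (nat_lit 228) (nat_lit 3159590695) (nat_lit 76)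 (nat_lit 24183308583) (nat_lit 50) (nat_lit 5) (nat_lit 53) (nat_lit 5) (nat_lit 51) (nat_lit 5) (nat_lit 320) (nat_lit 276) (nat_lit 184)) (XT.lf (nat_lit 0) (nat_lit 16282035445) (nat_lit 304) (nat_lit 14028355434) (nat_lit 76) (nat_lit 4868139045) (nat_lit 47) (nat_lit 5) (nat_lit 51) (nat_lit 5) (nat_lit 48) (nat_lit 5) (nat_lit 321) (nat_lit 276) (nat_lit 183))))))) (XT.nd (nat_lit 1014) (nat_lit 988) (nat_lit 0) (XT.nd (nat_lit 468) (nat_lit 684) (nat_lit 0) (XT.nd (nat_lit 234) (nat_lit 380) (nat_lit 0) (XT.nd (nat_lit 78) (nat_lit 304) (nat_lit 0) (XT.lf (nat_lit 0) (nat_lit 10342138043) (nat_lit 152) (nat_lit 16323243756) (nat_lit 228) (nat_lit 9806200613) (nat_lit 45) (nat_lit 5) (nat_lit 47) (nat_lit 5) (nat_lit 48) (nat_lit 5) (nat_lit 322) (nat_lit 276) (nat_lit 182)) (XT.nd (nat_lit 78) (nat_lit 304) (nat_lit 0) (XT.lf (nat_lit 0) (nat_lit 36199761633) (nat_lit 152) (nat_lit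 1497428591) (nat_lit 228) (nat_lit 128228194) (nat_lit 45) (nat_lit 5) (nat_lit 47) (nat_lit 5) (nat_lit 48) (nat_lit 5) (nat_lit 323) (nat_lit 276) (nat_lit 181)) (XT.lf (nat_lit 0) (nat_lit 10196874595) (nat_lit 304) (nat_lit 14915378127) (nat_lit 76) (nat_lit 14121038291) (nat_lit 41) (nat_lit 5) (nat_lit 45) (nat_lit 5) (nat_lit 42) (nat_lit 5) (nat_lit 324) (nat_lit 276) (nat_lit 180)))) (XT.nd (nat_lit 78) (nat_lit 228) (nat_lit 0) (XT.lf (nat_lit 0) (nat_lit 11057431785) (nat_lit 152) (nat_lit 10102317759) (nat_lit 228) (nat_lit 19548053109) (nat_lit 39) (nat_lit 5) (nat_lit 41) (nat_lit 5) (nat_lit 42) (nat_lit 5) (nat_lit 325) (nat_lit 276) (nat_lit 179)) (XT.nd (nat_lit 78) (nat_lit 228) (nat_lit 0) (XT.lf (nat_lit 0) (nat_lit 32866427743) (nat_lit 228) (nat_lit 3689779368) (nat_lit 76) (nat_lit 5693971143) (nat_lit 39) (nat_lit 5) (nat_lit 42) (nat_lit 5) (nat_lit 40) (nat_lit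 5) (nat_lit 326) (nat_lit 276) (nat_lit 178)) (XT.lf (nat_lit 0) (nat_lit 1585450219) (nat_lit 228) (nat_lit 19964096627) (nat_lit 76) (nat_lit 22310106743) (nat_lit 36) (nat_lit 5) (nat_lit 39) (nat_lit 5) (nat_lit 37) (nat_lit 5) (nat_lit 327) (nat_lit 276) (nat_lit 177))))) (XT.nd (nat_lit 234) (nat_lit 380) (nat_lit 0) (XT.nd (nat_lit 78) (nat_lit 152) (nat_lit 0) (XT.lf (nat_lit 0) (nat_lit 7416899069) (nat_lit 152) (nat_lit 5590754266) (nat_lit 228) (nat_lit 32536210909) (nat_lit 34) (nat_lit 5) (nat_lit 36) (nat_lit 5) (nat_lit 37) (nat_lit 5) (nat_lit 328) (nat_lit 276) (nat_lit 176)) (XT.nd (nat_lit 78) (nat_lit 152) (nat_lit 0) (XT.lf (nat_lit 0) (nat_lit 25303331080) (nat_lit 228) (nat_lit 10852579540) (nat_lit 76) (nat_lit 11147310727) (nat_lit 34) (nat_lit 5) (nat_lit 37) (nat_lit 5) (nat_lit 35) (nat_lit 5) (nat_lit 329) (nat_lit 276) (nat_lit 175)) (XT.lf (nat_lit 0) (nat_lit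 18061322808) (nat_lit 152) (nat_lit 20370594004) (nat_lit 228) (nat_lit 10712092291) (nat_lit 32) (nat_lit 5) (nat_lit 34) (nat_lit 5) (nat_lit 35) (nat_lit 5) (nat_lit 330) (nat_lit 276) (nat_lit 174)))) (XT.nd (nat_lit 156) (nat_lit 152) (nat_lit 0) (XT.nd (nat_lit 78) (nat_lit 152) (nat_lit 0) (XT.lf (nat_lit 0) (nat_lit 1219009396) (nat_lit 228) (nat_lit 2457716727) (nat_lit 76) (nat_lit 47396752539) (nat_lit 31) (nat_lit 5) (nat_lit 34) (nat_lit 5) (nat_lit 32) (nat_lit 5) (nat_lit 331) (nat_lit 276) (nat_lit 173)) (XT.lf (nat_lit 0) (nat_lit 13922218020) (nat_lit 228) (nat_lit 25207061593) (nat_lit 76) (nat_lit 13955053189) (nat_lit 29) (nat_lit 5) (nat_lit 32) (nat_lit 5) (nat_lit 30) (nat_lit 5) (nat_lit 332) (nat_lit 276) (nat_lit 172))) (XT.nd (nat_lit 78) (nat_lit 0) (nat_lit 0) (XT.lf (nat_lit 0) (nat_lit 4619540517) (nat_lit 152) (nat_lit 22737284567) (nat_lit 228) (nat_lit 27836022894)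 (nat_lit 27) (nat_lit 5) (nat_lit 29) (nat_lit 5) (nat_lit 30) (nat_lit 5) (nat_lit 333) (nat_lit 276) (nat_lit 171)) (XT.lf (nat_lit 0) (nat_lit 36446120767) (nat_lit 152) (nat_lit 5266039344) (nat_lit 228) (nat_lit 15687164082) (nat_lit 27) (nat_lit 5) (nat_lit 29) (nat_lit 5) (nat_lit 30) (nat_lit 5) (nat_lit 334) (nat_lit 276) (nat_lit 170)))))) (XT.nd (nat_lit 546) (nat_lit 380) (nat_lit 0) (XT.nd (nat_lit 234) (nat_lit 304) (nat_lit 0) (XT.nd (nat_lit 78) (nat_lit 228) (nat_lit 0) (XT.lf (nat_lit 0) (nat_lit 10203819874) (nat_lit 76) (nat_lit 46795191272) (nat_lit 152) (nat_lit 2710705556) (nat_lit 26) (nat_lit 5) (nat_lit 27) (nat_lit 5) (nat_lit 28) (nat_lit 4) (nat_lit 335) (nat_lit 276) (nat_lit 169)) (XT.nd (nat_lit 78) (nat_lit 152) (nat_lit 0) (XT.lf (nat_lit 0) (nat_lit 10962732367) (nat_lit 152) (nat_lit 18949985471) (nat_lit 76) (nat_lit 32211933884) (nat_lit 25) (nat_lit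 5) (nat_lit 27) (nat_lit 5) (nat_lit 26) (nat_lit 5) (nat_lit 336) (nat_lit 276) (nat_lit 168)) (XT.lf (nat_lit 0) (nat_lit 13350518772) (nat_lit 152) (nat_lit 12032742469) (nat_lit 228) (nat_lit 39272687042) (nat_lit 23) (nat_lit 5) (nat_lit 25) (nat_lit 5) (nat_lit 26) (nat_lit 5) (nat_lit 337) (nat_lit 276) (nat_lit 167)))) (XT.nd (nat_lit 156) (nat_lit 228) (nat_lit 0) (XT.nd (nat_lit 78) (nat_lit 76) (nat_lit 0) (XT.lf (nat_lit 0) (nat_lit 40777476473) (nat_lit 228) (nat_lit 19728744282) (nat_lit 76) (nat_lit 6800013280) (nat_lit 23) (nat_lit 5) (nat_lit 26) (nat_lit 5) (nat_lit 24) (nat_lit 4) (nat_lit 338) (nat_lit 276) (nat_lit 166)) (XT.lf (nat_lit 0) (nat_lit 13554487708) (nat_lit 76) (nat_lit 43629947952) (nat_lit 152) (nat_lit 12897311382) (nat_lit 22) (nat_lit 5) (nat_lit 23) (nat_lit 5) (nat_lit 24) (nat_lit 4) (nat_lit 339) (nat_lit 276) (nat_lit 165))) (XT.nd (nat_lit 78)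 (nat_lit 152) (nat_lit 0) (XT.lf (nat_lit 0) (nat_lit 1584656489) (nat_lit 152) (nat_lit 24106477165) (nat_lit 76) (nat_lit 47298600201) (nat_lit 21) (nat_lit 5) (nat_lit 23) (nat_lit 5) (nat_lit 22) (nat_lit 5) (nat_lit 340) (nat_lit 276) (nat_lit 164)) (XT.lf (nat_lit 0) (nat_lit 9985673681) (nat_lit 152) (nat_lit 6628660941) (nat_lit 228) (nat_lit 59422247551) (nat_lit 19) (nat_lit 5) (nat_lit 21) (nat_lit 5) (nat_lit 22) (nat_lit 5) (nat_lit 341) (nat_lit 276) (nat_lit 163))))) (XT.nd (nat_lit 234) (nat_lit 304) (nat_lit 0) (XT.nd (nat_lit 78) (nat_lit 76) (nat_lit 0) (XT.lf (nat_lit 0) (nat_lit 32766866369) (nat_lit 228) (nat_lit 33087402901) (nat_lit 76) (nat_lit 13370365867) (nat_lit 19) (nat_lit 5) (nat_lit 22) (nat_lit 5) (nat_lit 20) (nat_lit 4) (nat_lit 342) (nat_lit 276) (nat_lit 162)) (XT.nd (nat_lit 78) (nat_lit 0) (nat_lit 0) (XT.lf (nat_lit 0) (nat_lit 1472661850) (nat_lit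 76) (nat_lit 48327875473) (nat_lit 152) (nat_lit 32769351214) (nat_lit 18) (nat_lit 5) (nat_lit 19) (nat_lit 5) (nat_lit 20) (nat_lit 4) (nat_lit 343) (nat_lit 276) (nat_lit 161)) (XT.lf (nat_lit 0) (nat_lit 38439096365) (nat_lit 76) (nat_lit 29580086760) (nat_lit 152) (nat_lit 18053225757) (nat_lit 18) (nat_lit 5) (nat_lit 19) (nat_lit 5) (nat_lit 20) (nat_lit 4) (nat_lit 344) (nat_lit 276) (nat_lit 160)))) (XT.nd (nat_lit 156) (nat_lit 76) (nat_lit 0) (XT.nd (nat_lit 78) (nat_lit 228) (nat_lit 0) (XT.lf (nat_lit 0) (nat_lit 77241411768) (nat_lit 76) (nat_lit 9900383431) (nat_lit 152) (nat_lit 2608471897) (nat_lit 18) (nat_lit 5) (nat_lit 19) (nat_lit 5) (nat_lit 20) (nat_lit 4) (nat_lit 345) (nat_lit 276) (nat_lit 159)) (XT.lf (nat_lit 0) (nat_lit 13680864990) (nat_lit 228) (nat_lit 68996999148) (nat_lit 76) (nat_lit 10920095436) (nat_lit 15) (nat_lit 5) (nat_lit 18) (nat_lit 5) (nat_lit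 16) (nat_lit 4) (nat_lit 346) (nat_lit 276) (nat_lit 158))) (XT.nd (nat_lit 78) (nat_lit 76) (nat_lit 0) (XT.lf (nat_lit 0) (nat_lit 30954647675) (nat_lit 228) (nat_lit 33945827090) (nat_lit 76) (nat_lit 32730071863) (nat_lit 15) (nat_lit 5) (nat_lit 18) (nat_lit 5) (nat_lit 16) (nat_lit 4) (nat_lit 347) (nat_lit 276) (nat_lit 157)) (XT.lf (nat_lit 0) (nat_lit 2903330518) (nat_lit 76) (nat_lit 46210464368) (nat_lit 152) (nat_lit 52750320293) (nat_lit 14) (nat_lit 5) (nat_lit 15) (nat_lit 5) (nat_lit 16) (nat_lit 4) (nat_lit 348) (nat_lit 276) (nat_lit 156))))))))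
noncomputable def xc79 : XT := (XT.nd (nat_lit 36270) (nat_lit 0) (nat_lit 3344) (XT.nd (nat_lit 35256) (nat_lit 0) (nat_lit 11096) (XT.nd (nat_lit 468) (nat_lit 152) (nat_lit 0) (XT.nd (nat_lit 234) (nat_lit 152) (nat_lit 0) (XT.nd (nat_lit 78) (nat_lit 76) (nat_lit 0) (XT.lf (nat_lit 0) (nat_lit 42293408298) (nat_lit 76) (nat_lit 26230892288) (nat_lit 152) (nat_lit 37774761831) (nat_lit 14) (nat_lit 5) (nat_lit 15) (nat_lit 5) (nat_lit 16) (nat_lit 4) (nat_lit 349) (nat_lit 276) (nat_lit 155)) (XT.nd (nat_lit 78) (nat_lit 76) (nat_lit 0) (XT.lf (nat_lit 0) (nat_lit 83642603629) (nat_lit 76) (nat_lit 5256974408) (nat_lit 152) (nat_lit 22056353769) (nat_lit 14) (nat_lit 5) (nat_lit 15) (nat_lit 5) (nat_lit 16) (nat_lit 4) (nat_lit 350) (nat_lit 276) (nat_lit 154)) (XT.lf (nat_lit 0) (nat_lit 11262202817) (nat_lit 76) (nat_lit 99295315341) (nat_lit 76) (nat_lit 5280211622) (nat_lit 13) (nat_lit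 4) (nat_lit 14) (nat_lit 5) (nat_lit 14) (nat_lit 4) (nat_lit 351) (nat_lit 276) (nat_lit 153)))) (XT.nd (nat_lit 78) (nat_lit 76) (nat_lit 0) (XT.lf (nat_lit 0) (nat_lit 12425645357) (nat_lit 152) (nat_lit 68802155102) (nat_lit 76) (nat_lit 39722313960) (nat_lit 12) (nat_lit 5) (nat_lit 14) (nat_lit 5) (nat_lit 13) (nat_lit 4) (nat_lit 352) (nat_lit 276) (nat_lit 152)) (XT.nd (nat_lit 78) (nat_lit 76) (nat_lit 0) (XT.lf (nat_lit 0) (nat_lit 30903457468) (nat_lit 152) (nat_lit 31302778860) (nat_lit 76) (nat_lit 64110439459) (nat_lit 12) (nat_lit 5) (nat_lit 14) (nat_lit 5) (nat_lit 13) (nat_lit 4) (nat_lit 353) (nat_lit 276) (nat_lit 151)) (XT.lf (nat_lit 0) (nat_lit 8223105012) (nat_lit 76) (nat_lit 42156195950) (nat_lit 152) (nat_lit 81570041782) (nat_lit 11) (nat_lit 5) (nat_lit 12) (nat_lit 5) (nat_lit 13) (nat_lit 4) (nat_lit 354) (nat_lit 276) (nat_lit 150))))) (XT.nd (nat_lit 312)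 (nat_lit 152) (nat_lit 0) (XT.nd (nat_lit 78) (nat_lit 0) (nat_lit 0) (XT.lf (nat_lit 0) (nat_lit 50370751304) (nat_lit 76) (nat_lit 20775665318) (nat_lit 152) (nat_lit 66707703688) (nat_lit 11) (nat_lit 5) (nat_lit 12) (nat_lit 5) (nat_lit 13) (nat_lit 4) (nat_lit 355) (nat_lit 276) (nat_lit 149)) (XT.nd (nat_lit 78) (nat_lit 0) (nat_lit 0) (XT.lf (nat_lit 0) (nat_lit 92963414618) (nat_lit 152) (nat_lit 49452803950) (nat_lit 0) (nat_lit 1637573972) (nat_lit 11) (nat_lit 5) (nat_lit 13) (nat_lit 4) (nat_lit 11) (nat_lit 4) (nat_lit 356) (nat_lit 276) (nat_lit 148)) (XT.lf (nat_lit 0) (nat_lit 116076609748) (nat_lit 152) (nat_lit 9738363164) (nat_lit 0) (nat_lit 24742316560) (nat_lit 11) (nat_lit 5) (nat_lit 13) (nat_lit 4) (nat_lit 11) (nat_lit 4) (nat_lit 357) (nat_lit 276) (nat_lit 147)))) (XT.nd (nat_lit 34320) (nat_lit 0) (nat_lit 14744) (XT.nd (nat_lit 34242) (nat_lit 0) (nat_lit 15808)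 (XT.lf (nat_lit 0) (nat_lit 1984069008) (nat_lit 152) (nat_lit 87322349848) (nat_lit 76) (nat_lit 75227169553) (nat_lit 9) (nat_lit 5) (nat_lit 11) (nat_lit 5) (nat_lit 10) (nat_lit 4) (nat_lit 359) (nat_lit 276) (nat_lit 145)) (XT.lf (nat_lit 0) (nat_lit 1907067340) (nat_lit 0) (nat_lit 1907067340) (nat_lit 988) (nat_lit 1123183357) (nat_lit 217) (nat_lit 5) (nat_lit 217) (nat_lit 3) (nat_lit 230) (nat_lit 3) (nat_lit 277) (nat_lit 277) (nat_lit 226))) (XT.nd (nat_lit 78) (nat_lit 1064) (nat_lit 0) (XT.lf (nat_lit 76) (nat_lit 1349280950) (nat_lit 0) (nat_lit 7630525537) (nat_lit 1064) (nat_lit 1105204914) (nat_lit 218) (nat_lit 5) (nat_lit 217) (nat_lit 5) (nat_lit 231) (nat_lit 5) (nat_lit 278) (nat_lit 277) (nat_lit 225)) (XT.lf (nat_lit 0) (nat_lit 119907281) (nat_lit 1064) (nat_lit 1128747114) (nat_lit 1140) (nat_lit 9056466570) (nat_lit 203) (nat_lit 5) (nat_lit 217) (nat_lit 5) (nat_lit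 218) (nat_lit 5) (nat_lit 279) (nat_lit 277) (nat_lit 224)))))) (XT.nd (nat_lit 468) (nat_lit 3724) (nat_lit 0) (XT.nd (nat_lit 234) (nat_lit 0) (nat_lit 152) (XT.nd (nat_lit 78) (nat_lit 0) (nat_lit 76) (XT.lf (nat_lit 0) (nat_lit 1434525807) (nat_lit 1064) (nat_lit 3645574988) (nat_lit 1140) (nat_lit 5454372282) (nat_lit 204) (nat_lit 5) (nat_lit 218) (nat_lit 5) (nat_lit 219) (nat_lit 5) (nat_lit 280) (nat_lit 277) (nat_lit 223)) (XT.nd (nat_lit 78) (nat_lit 0) (nat_lit 0) (XT.lf (nat_lit 0) (nat_lit 2834312404) (nat_lit 1064) (nat_lit 6199609836) (nat_lit 1140) (nat_lit 1740881334) (nat_lit 205) (nat_lit 5) (nat_lit 219) (nat_lit 5) (nat_lit 220) (nat_lit 5) (nat_lit 281) (nat_lit 277) (nat_lit 222)) (XT.lf (nat_lit 76) (nat_lit 2207314223) (nat_lit 0) (nat_lit 2144056662) (nat_lit 1140) (nat_lit 6674450656) (nat_lit 206) (nat_lit 5) (nat_lit 205) (nat_lit 5) (nat_lit 220) (nat_lit 5)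 (nat_lit 282) (nat_lit 277) (nat_lit 221)))) (XT.nd (nat_lit 78) (nat_lit 0) (nat_lit 76) (XT.lf (nat_lit 0) (nat_lit 5997371057) (nat_lit 1064) (nat_lit 215083799) (nat_lit 1140) (nat_lit 5075428052) (nat_lit 206) (nat_lit 5) (nat_lit 220) (nat_lit 5) (nat_lit 221) (nat_lit 5) (nat_lit 283) (nat_lit 277) (nat_lit 220)) (XT.nd (nat_lit 78) (nat_lit 0) (nat_lit 0) (XT.lf (nat_lit 0) (nat_lit 7786843889) (nat_lit 1064) (nat_lit 2641759765) (nat_lit 1140) (nat_lit 1132689619) (nat_lit 207) (nat_lit 5) (nat_lit 221) (nat_lit 5) (nat_lit 222) (nat_lit 5) (nat_lit 284) (nat_lit 277) (nat_lit 219)) (XT.lf (nat_lit 76) (nat_lit 6694061966) (nat_lit 0) (nat_lit 3046106543) (nat_lit 1140) (nat_lit 2106051549) (nat_lit 208) (nat_lit 5) (nat_lit 207) (nat_lit 5) (nat_lit 222) (nat_lit 5) (nat_lit 285) (nat_lit 277) (nat_lit 218))))) (XT.nd (nat_lit 234) (nat_lit 2964) (nat_lit 0) (XT.nd (nat_lit 78)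 (nat_lit 1064) (nat_lit 0) (XT.lf (nat_lit 76) (nat_lit 4406271293) (nat_lit 0) (nat_lit 7447388061) (nat_lit 1140) (nat_lit 289932398) (nat_lit 209) (nat_lit 5) (nat_lit 208) (nat_lit 5) (nat_lit 223) (nat_lit 5) (nat_lit 286) (nat_lit 277) (nat_lit 217)) (XT.nd (nat_lit 78) (nat_lit 0) (nat_lit 0) (XT.lf (nat_lit 0) (nat_lit 1642360987) (nat_lit 1140) (nat_lit 10409992063) (nat_lit 76) (nat_lit 401373048) (nat_lit 194) (nat_lit 5) (nat_lit 209) (nat_lit 5) (nat_lit 195) (nat_lit 5) (nat_lit 287) (nat_lit 277) (nat_lit 216)) (XT.lf (nat_lit 0) (nat_lit 3772055477) (nat_lit 1140) (nat_lit 422168347) (nat_lit 76) (nat_lit 8581918525) (nat_lit 194) (nat_lit 5) (nat_lit 209) (nat_lit 5) (nat_lit 195) (nat_lit 5) (nat_lit 288) (nat_lit 277) (nat_lit 215)))) (XT.nd (nat_lit 156) (nat_lit 1216) (nat_lit 0) (XT.nd (nat_lit 78) (nat_lit 608) (nat_lit 0) (XT.lf (nat_lit 0) (nat_lit 6100003881) (nat_lit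 1216) (nat_lit 2928499191) (nat_lit 76) (nat_lit 4083484964) (nat_lit 179) (nat_lit 5) (nat_lit 195) (nat_lit 5) (nat_lit 180) (nat_lit 5) (nat_lit 289) (nat_lit 277) (nat_lit 214)) (XT.lf (nat_lit 0) (nat_lit 7936081247) (nat_lit 608) (nat_lit 686628272) (nat_lit 684) (nat_lit 4839624456) (nat_lit 171) (nat_lit 5) (nat_lit 179) (nat_lit 5) (nat_lit 180) (nat_lit 5) (nat_lit 290) (nat_lit 277) (nat_lit 213))) (XT.nd (nat_lit 78) (nat_lit 608) (nat_lit 0) (XT.lf (nat_lit 0) (nat_lit 5566126933) (nat_lit 608) (nat_lit 5824109295) (nat_lit 684) (nat_lit 2436456373) (nat_lit 163) (nat_lit 5) (nat_lit 171) (nat_lit 5) (nat_lit 172) (nat_lit 5) (nat_lit 291) (nat_lit 277) (nat_lit 212)) (XT.lf (nat_lit 0) (nat_lit 166820228) (nat_lit 608) (nat_lit 11102750936) (nat_lit 76) (nat_lit 2937275331) (nat_lit 155) (nat_lit 5) (nat_lit 163) (nat_lit 5) (nat_lit 156) (nat_lit 5) (nat_lit 292) (nat_lit 277)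 (nat_lit 211))))))) (XT.nd (nat_lit 1014) (nat_lit 3344) (nat_lit 0) (XT.nd (nat_lit 468) (nat_lit 1900) (nat_lit 0) (XT.nd (nat_lit 234) (nat_lit 1520) (nat_lit 0) (XT.nd (nat_lit 78) (nat_lit 456) (nat_lit 0) (XT.lf (nat_lit 0) (nat_lit 491300742) (nat_lit 532) (nat_lit 2468385652) (nat_lit 608) (nat_lit 11642352811) (nat_lit 148) (nat_lit 5) (nat_lit 155) (nat_lit 5) (nat_lit 156) (nat_lit 5) (nat_lit 293) (nat_lit 277) (nat_lit 210)) (XT.nd (nat_lit 78) (nat_lit 456) (nat_lit 0) (XT.lf (nat_lit 0) (nat_lit 6034213893) (nat_lit 608) (nat_lit 2222995942) (nat_lit 76) (nat_lit 6755568110) (nat_lit 148) (nat_lit 5) (nat_lit 156) (nat_lit 5) (nat_lit 149) (nat_lit 5) (nat_lit 294) (nat_lit 277) (nat_lit 209)) (XT.lf (nat_lit 0) (nat_lit 9360738911) (nat_lit 532) (nat_lit 5052739248) (nat_lit 76) (nat_lit 1027672028) (nat_lit 142) (nat_lit 5) (nat_lit 149) (nat_lit 5) (nat_lit 143) (nat_lit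 5) (nat_lit 295) (nat_lit 277) (nat_lit 208)))) (XT.nd (nat_lit 78) (nat_lit 988) (nat_lit 0) (XT.lf (nat_lit 0) (nat_lit 7817229197) (nat_lit 532) (nat_lit 5182649383) (nat_lit 608) (nat_lit 2886716383) (nat_lit 135) (nat_lit 5) (nat_lit 142) (nat_lit 5) (nat_lit 143) (nat_lit 5) (nat_lit 296) (nat_lit 277) (nat_lit 207)) (XT.nd (nat_lit 78) (nat_lit 456) (nat_lit 0) (XT.lf (nat_lit 0) (nat_lit 569511481) (nat_lit 532) (nat_lit 11255666910) (nat_lit 76) (nat_lit 4525679739) (nat_lit 128) (nat_lit 5) (nat_lit 135) (nat_lit 5) (nat_lit 129) (nat_lit 5) (nat_lit 297) (nat_lit 277) (nat_lit 206)) (XT.lf (nat_lit 0) (nat_lit 2173032751) (nat_lit 456) (nat_lit 2090343561) (nat_lit 532) (nat_lit 12570402372) (nat_lit 122) (nat_lit 5) (nat_lit 128) (nat_lit 5) (nat_lit 129) (nat_lit 5) (nat_lit 298) (nat_lit 277) (nat_lit 205))))) (XT.nd (nat_lit 234) (nat_lit 1140) (nat_lit 0) (XT.nd (nat_lit 78)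 (nat_lit 760) (nat_lit 0) (XT.lf (nat_lit 0) (nat_lit 8305172197) (nat_lit 532) (nat_lit 946023365) (nat_lit 76) (nat_lit 8084788274) (nat_lit 122) (nat_lit 5) (nat_lit 129) (nat_lit 5) (nat_lit 123) (nat_lit 5) (nat_lit 299) (nat_lit 277) (nat_lit 204)) (XT.nd (nat_lit 78) (nat_lit 380) (nat_lit 0) (XT.lf (nat_lit 0) (nat_lit 12680630297) (nat_lit 456) (nat_lit 4205171591) (nat_lit 76) (nat_lit 973584189) (nat_lit 117) (nat_lit 5) (nat_lit 123) (nat_lit 5) (nat_lit 118) (nat_lit 5) (nat_lit 300) (nat_lit 277) (nat_lit 203)) (XT.lf (nat_lit 0) (nat_lit 10674642874) (nat_lit 380) (nat_lit 6776680336) (nat_lit 456) (nat_lit 952373748) (nat_lit 112) (nat_lit 5) (nat_lit 117) (nat_lit 5) (nat_lit 118) (nat_lit 5) (nat_lit 301) (nat_lit 277) (nat_lit 202)))) (XT.nd (nat_lit 156) (nat_lit 304) (nat_lit 0) (XT.nd (nat_lit 78) (nat_lit 380) (nat_lit 0) (XT.lf (nat_lit 0) (nat_lit 3542724786) (nat_lit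 456) (nat_lit 11520658128) (nat_lit 76) (nat_lit 3907103059) (nat_lit 106) (nat_lit 5) (nat_lit 112) (nat_lit 5) (nat_lit 107) (nat_lit 5) (nat_lit 302) (nat_lit 277) (nat_lit 201)) (XT.lf (nat_lit 0) (nat_lit 3949096466) (nat_lit 380) (nat_lit 4453042217) (nat_lit 456) (nat_lit 11158443681) (nat_lit 101) (nat_lit 5) (nat_lit 106) (nat_lit 5) (nat_lit 107) (nat_lit 5) (nat_lit 303) (nat_lit 277) (nat_lit 200))) (XT.nd (nat_lit 78) (nat_lit 0) (nat_lit 0) (XT.lf (nat_lit 0) (nat_lit 159251739) (nat_lit 304) (nat_lit 13504138138) (nat_lit 380) (nat_lit 6512054860) (nat_lit 97) (nat_lit 5) (nat_lit 101) (nat_lit 5) (nat_lit 102) (nat_lit 5) (nat_lit 304) (nat_lit 277) (nat_lit 199)) (XT.lf (nat_lit 0) (nat_lit 16965064185) (nat_lit 304) (nat_lit 2402077067) (nat_lit 380) (nat_lit 1448551714) (nat_lit 97) (nat_lit 5) (nat_lit 101) (nat_lit 5) (nat_lit 102) (nat_lit 5) (nat_lit 305) (nat_lit 277)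 (nat_lit 198)))))) (XT.nd (nat_lit 546) (nat_lit 1368) (nat_lit 0) (XT.nd (nat_lit 234) (nat_lit 912) (nat_lit 0) (XT.nd (nat_lit 78) (nat_lit 608) (nat_lit 0) (XT.lf (nat_lit 0) (nat_lit 3986329394) (nat_lit 456) (nat_lit 8261236763) (nat_lit 76) (nat_lit 9233485367) (nat_lit 91) (nat_lit 5) (nat_lit 97) (nat_lit 5) (nat_lit 92) (nat_lit 5) (nat_lit 306) (nat_lit 277) (nat_lit 197)) (XT.nd (nat_lit 78) (nat_lit 304) (nat_lit 0) (XT.lf (nat_lit 0) (nat_lit 9152613455) (nat_lit 304) (nat_lit 638904086) (nat_lit 380) (nat_lit 12383897348) (nat_lit 87) (nat_lit 5) (nat_lit 91) (nat_lit 5) (nat_lit 92) (nat_lit 5) (nat_lit 307) (nat_lit 277) (nat_lit 196)) (XT.lf (nat_lit 0) (nat_lit 4654612601) (nat_lit 304) (nat_lit 11450752931) (nat_lit 380) (nat_lit 6792600570) (nat_lit 83) (nat_lit 5) (nat_lit 87) (nat_lit 5) (nat_lit 88) (nat_lit 5) (nat_lit 308) (nat_lit 277) (nat_lit 195)))) (XT.nd (nat_lit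 156) (nat_lit 532) (nat_lit 0) (XT.nd (nat_lit 78) (nat_lit 380) (nat_lit 0) (XT.lf (nat_lit 0) (nat_lit 22858643611) (nat_lit 380) (nat_lit 208678434) (nat_lit 76) (nat_lit 585631362) (nat_lit 83) (nat_lit 5) (nat_lit 88) (nat_lit 5) (nat_lit 84) (nat_lit 5) (nat_lit 309) (nat_lit 277) (nat_lit 194)) (XT.lf (nat_lit 0) (nat_lit 5675501340) (nat_lit 380) (nat_lit 5541455064) (nat_lit 76) (nat_lit 13218795372) (nat_lit 78) (nat_lit 5) (nat_lit 83) (nat_lit 5) (nat_lit 79) (nat_lit 5) (nat_lit 310) (nat_lit 277) (nat_lit 193))) (XT.nd (nat_lit 78) (nat_lit 228) (nat_lit 0) (XT.lf (nat_lit 0) (nat_lit 12580811407) (nat_lit 380) (nat_lit 11334062012) (nat_lit 76) (nat_lit 1338745828) (nat_lit 74) (nat_lit 5) (nat_lit 79) (nat_lit 5) (nat_lit 75) (nat_lit 5) (nat_lit 311) (nat_lit 277) (nat_lit 192)) (XT.lf (nat_lit 0) (nat_lit 8378865905) (nat_lit 228) (nat_lit 11683577020) (nat_lit 304) (nat_lit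 6043022816) (nat_lit 71) (nat_lit 5) (nat_lit 74) (nat_lit 5) (nat_lit 75) (nat_lit 5) (nat_lit 312) (nat_lit 277) (nat_lit 191))))) (XT.nd (nat_lit 234) (nat_lit 760) (nat_lit 0) (XT.nd (nat_lit 78) (nat_lit 228) (nat_lit 0) (XT.lf (nat_lit 0) (nat_lit 1033200985) (nat_lit 380) (nat_lit 24684490314) (nat_lit 76) (nat_lit 1277978442) (nat_lit 66) (nat_lit 5) (nat_lit 71) (nat_lit 5) (nat_lit 67) (nat_lit 5) (nat_lit 313) (nat_lit 277) (nat_lit 190)) (XT.nd (nat_lit 78) (nat_lit 228) (nat_lit 0) (XT.lf (nat_lit 0) (nat_lit 8622383029) (nat_lit 380) (nat_lit 4413188623) (nat_lit 76) (nat_lit 14884508809) (nat_lit 66) (nat_lit 5) (nat_lit 71) (nat_lit 5) (nat_lit 67) (nat_lit 5) (nat_lit 314) (nat_lit 277) (nat_lit 189)) (XT.lf (nat_lit 0) (nat_lit 16742077821) (nat_lit 304) (nat_lit 11711117840) (nat_lit 76) (nat_lit 432998981) (nat_lit 63) (nat_lit 5) (nat_lit 67) (nat_lit 5) (nat_lit 64)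 (nat_lit 5) (nat_lit 315) (nat_lit 277) (nat_lit 188)))) (XT.nd (nat_lit 156) (nat_lit 228) (nat_lit 0) (XT.nd (nat_lit 78) (nat_lit 304) (nat_lit 0) (XT.lf (nat_lit 0) (nat_lit 10073134896) (nat_lit 228) (nat_lit 15451101991) (nat_lit 304) (nat_lit 4368697097) (nat_lit 60) (nat_lit 5) (nat_lit 63) (nat_lit 5) (nat_lit 64) (nat_lit 5) (nat_lit 316) (nat_lit 277) (nat_lit 187)) (XT.lf (nat_lit 0) (nat_lit 2223938497) (nat_lit 228) (nat_lit 1623229008) (nat_lit 304) (nat_lit 27097988918) (nat_lit 56) (nat_lit 5) (nat_lit 59) (nat_lit 5) (nat_lit 60) (nat_lit 5) (nat_lit 317) (nat_lit 277) (nat_lit 186))) (XT.nd (nat_lit 78) (nat_lit 228) (nat_lit 0) (XT.lf (nat_lit 0) (nat_lit 12697427221) (nat_lit 304) (nat_lit 6456287470) (nat_lit 76) (nat_lit 12885571252) (nat_lit 56) (nat_lit 5) (nat_lit 60) (nat_lit 5) (nat_lit 57) (nat_lit 5) (nat_lit 318) (nat_lit 277) (nat_lit 185)) (XT.lf (nat_lit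 0) (nat_lit 17216336912) (nat_lit 228) (nat_lit 4939646645) (nat_lit 304) (nat_lit 11027176481) (nat_lit 53) (nat_lit 5) (nat_lit 56) (nat_lit 5) (nat_lit 57) (nat_lit 5) (nat_lit 319) (nat_lit 277) (nat_lit 184))))))))
noncomputable def xc80 : XT := (XT.nd (nat_lit 2028) (nat_lit 608) (nat_lit 0) (XT.nd (nat_lit 1014) (nat_lit 988) (nat_lit 0) (XT.nd (nat_lit 468) (nat_lit 760) (nat_lit 0) (XT.nd (nat_lit 234) (nat_lit 456) (nat_lit 0) (XT.nd (nat_lit 78) (nat_lit 304) (nat_lit 0) (XT.lf (nat_lit 0) (nat_lit 7857161772) (nat_lit 152) (nat_lit 24453289607) (nat_lit 228) (nat_lit 2067098003) (nat_lit 51) (nat_lit 5) (nat_lit 53) (nat_lit 5) (nat_lit 54) (nat_lit 5) (nat_lit 320) (nat_lit 277) (nat_lit 183)) (XT.nd (nat_lit 78) (nat_lit 228) (nat_lit 0) (XT.lf (nat_lit 0) (nat_lit 7398290436) (nat_lit 228) (nat_lit 2567170561) (nat_lit 76) (nat_lit 25658073785) (nat_lit 50) (nat_lit 5) (nat_lit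 53) (nat_lit 5) (nat_lit 51) (nat_lit 5) (nat_lit 321) (nat_lit 277) (nat_lit 182)) (XT.lf (nat_lit 0) (nat_lit 17553752225) (nat_lit 304) (nat_lit 13989567685) (nat_lit 76) (nat_lit 5380108647) (nat_lit 47) (nat_lit 5) (nat_lit 51) (nat_lit 5) (nat_lit 48) (nat_lit 5) (nat_lit 322) (nat_lit 277) (nat_lit 181)))) (XT.nd (nat_lit 78) (nat_lit 304) (nat_lit 0) (XT.lf (nat_lit 0) (nat_lit 11578232624) (nat_lit 152) (nat_lit 16863153432) (nat_lit 228) (nat_lit 9840208267) (nat_lit 45) (nat_lit 5) (nat_lit 47) (nat_lit 5) (nat_lit 48) (nat_lit 5) (nat_lit 323) (nat_lit 277) (nat_lit 180)) (XT.nd (nat_lit 78) (nat_lit 228) (nat_lit 0) (XT.lf (nat_lit 0) (nat_lit 294081293) (nat_lit 228) (nat_lit 1012151452) (nat_lit 76) (nat_lit 38397448947) (nat_lit 44) (nat_lit 5) (nat_lit 47) (nat_lit 5) (nat_lit 45) (nat_lit 5) (nat_lit 324) (nat_lit 277) (nat_lit 179)) (XT.lf (nat_lit 0) (nat_lit 11121509074)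 (nat_lit 304) (nat_lit 14977424618) (nat_lit 76) (nat_lit 15083327037) (nat_lit 41) (nat_lit 5) (nat_lit 45) (nat_lit 5) (nat_lit 42) (nat_lit 5) (nat_lit 325) (nat_lit 277) (nat_lit 178))))) (XT.nd (nat_lit 234) (nat_lit 380) (nat_lit 0) (XT.nd (nat_lit 78) (nat_lit 228) (nat_lit 0) (XT.lf (nat_lit 0) (nat_lit 12274427023) (nat_lit 152) (nat_lit 10344732769) (nat_lit 228) (nat_lit 20111751156) (nat_lit 39) (nat_lit 5) (nat_lit 41) (nat_lit 5) (nat_lit 42) (nat_lit 5) (nat_lit 326) (nat_lit 277) (nat_lit 177)) (XT.nd (nat_lit 78) (nat_lit 228) (nat_lit 0) (XT.lf (nat_lit 0) (nat_lit 34894461524) (nat_lit 228) (nat_lit 3232477628) (nat_lit 76) (nat_lit 6223978879) (nat_lit 39) (nat_lit 5) (nat_lit 42) (nat_lit 5) (nat_lit 40) (nat_lit 5) (nat_lit 327) (nat_lit 277) (nat_lit 176)) (XT.lf (nat_lit 0) (nat_lit 2041007597) (nat_lit 228) (nat_lit 20331208143) (nat_lit 76) (nat_lit 23668921380)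 (nat_lit 36) (nat_lit 5) (nat_lit 39) (nat_lit 5) (nat_lit 37) (nat_lit 5) (nat_lit 328) (nat_lit 277) (nat_lit 175)))) (XT.nd (nat_lit 156) (nat_lit 228) (nat_lit 0) (XT.nd (nat_lit 78) (nat_lit 0) (nat_lit 0) (XT.lf (nat_lit 0) (nat_lit 8400747175) (nat_lit 152) (nat_lit 5621547930) (nat_lit 228) (nat_lit 33787634006) (nat_lit 34) (nat_lit 5) (nat_lit 36) (nat_lit 5) (nat_lit 37) (nat_lit 5) (nat_lit 329) (nat_lit 277) (nat_lit 174)) (XT.lf (nat_lit 0) (nat_lit 26917688283) (nat_lit 228) (nat_lit 10803074787) (nat_lit 76) (nat_lit 11936952604) (nat_lit 34) (nat_lit 5) (nat_lit 37) (nat_lit 5) (nat_lit 35) (nat_lit 5) (nat_lit 330) (nat_lit 277) (nat_lit 173))) (XT.nd (nat_lit 78) (nat_lit 76) (nat_lit 0) (XT.lf (nat_lit 0) (nat_lit 19539549285) (nat_lit 152) (nat_lit 21152054684) (nat_lit 228) (nat_lit 10899280924) (nat_lit 32) (nat_lit 5) (nat_lit 34) (nat_lit 5) (nat_lit 35) (nat_lit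 5) (nat_lit 331) (nat_lit 277) (nat_lit 172)) (XT.lf (nat_lit 0) (nat_lit 1605309514) (nat_lit 228) (nat_lit 2026187503) (nat_lit 76) (nat_lit 49985726873) (nat_lit 31) (nat_lit 5) (nat_lit 34) (nat_lit 5) (nat_lit 32) (nat_lit 5) (nat_lit 332) (nat_lit 277) (nat_lit 171)))))) (XT.nd (nat_lit 468) (nat_lit 380) (nat_lit 0) (XT.nd (nat_lit 234) (nat_lit 304) (nat_lit 0) (XT.nd (nat_lit 78) (nat_lit 152) (nat_lit 0) (XT.lf (nat_lit 0) (nat_lit 14935510658) (nat_lit 228) (nat_lit 25921428918) (nat_lit 76) (nat_lit 14871934209) (nat_lit 29) (nat_lit 5) (nat_lit 32) (nat_lit 5) (nat_lit 30) (nat_lit 5) (nat_lit 333) (nat_lit 277) (nat_lit 170)) (XT.nd (nat_lit 78) (nat_lit 0) (nat_lit 0) (XT.lf (nat_lit 0) (nat_lit 5380852726) (nat_lit 152) (nat_lit 23650989363) (nat_lit 228) (nat_lit 28911280439) (nat_lit 27) (nat_lit 5) (nat_lit 29) (nat_lit 5) (nat_lit 30) (nat_lit 5) (nat_lit 334) (nat_lit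 277) (nat_lit 169)) (XT.lf (nat_lit 0) (nat_lit 38773507932) (nat_lit 152) (nat_lit 5316808518) (nat_lit 228) (nat_lit 16170052192) (nat_lit 27) (nat_lit 5) (nat_lit 29) (nat_lit 5) (nat_lit 30) (nat_lit 5) (nat_lit 335) (nat_lit 277) (nat_lit 168)))) (XT.nd (nat_lit 78) (nat_lit 228) (nat_lit 0) (XT.lf (nat_lit 0) (nat_lit 11211295533) (nat_lit 76) (nat_lit 48923009545) (nat_lit 152) (nat_lit 2552198767) (nat_lit 26) (nat_lit 5) (nat_lit 27) (nat_lit 5) (nat_lit 28) (nat_lit 4) (nat_lit 336) (nat_lit 277) (nat_lit 167)) (XT.nd (nat_lit 78) (nat_lit 152) (nat_lit 0) (XT.lf (nat_lit 0) (nat_lit 11785444459) (nat_lit 152) (nat_lit 19418287749) (nat_lit 76) (nat_lit 34018786873) (nat_lit 25) (nat_lit 5) (nat_lit 27) (nat_lit 5) (nat_lit 26) (nat_lit 5) (nat_lit 337) (nat_lit 277) (nat_lit 166)) (XT.lf (nat_lit 0) (nat_lit 14483505621) (nat_lit 152) (nat_lit 12434893429) (nat_lit 228) (nat_lit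 40962245536) (nat_lit 23) (nat_lit 5) (nat_lit 25) (nat_lit 5) (nat_lit 26) (nat_lit 5) (nat_lit 338) (nat_lit 277) (nat_lit 165))))) (XT.nd (nat_lit 234) (nat_lit 228) (nat_lit 0) (XT.nd (nat_lit 78) (nat_lit 152) (nat_lit 0) (XT.lf (nat_lit 0) (nat_lit 43071485848) (nat_lit 228) (nat_lit 20265996317) (nat_lit 76) (nat_lit 7326293440) (nat_lit 23) (nat_lit 5) (nat_lit 26) (nat_lit 5) (nat_lit 24) (nat_lit 4) (nat_lit 339) (nat_lit 277) (nat_lit 164)) (XT.nd (nat_lit 78) (nat_lit 76) (nat_lit 0) (XT.lf (nat_lit 0) (nat_lit 14668521470) (nat_lit 76) (nat_lit 45622316285) (nat_lit 152) (nat_lit 13287470690) (nat_lit 22) (nat_lit 5) (nat_lit 23) (nat_lit 5) (nat_lit 24) (nat_lit 4) (nat_lit 340) (nat_lit 277) (nat_lit 163)) (XT.lf (nat_lit 0) (nat_lit 1901733146) (nat_lit 152) (nat_lit 24891432517) (nat_lit 76) (nat_lit 49838817362) (nat_lit 21) (nat_lit 5) (nat_lit 23) (nat_lit 5) (nat_lit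 22) (nat_lit 5) (nat_lit 341) (nat_lit 277) (nat_lit 162)))) (XT.nd (nat_lit 156) (nat_lit 76) (nat_lit 0) (XT.nd (nat_lit 78) (nat_lit 0) (nat_lit 0) (XT.lf (nat_lit 0) (nat_lit 10893276093) (nat_lit 152) (nat_lit 6782218205) (nat_lit 228) (nat_lit 62155906353) (nat_lit 19) (nat_lit 5) (nat_lit 21) (nat_lit 5) (nat_lit 22) (nat_lit 5) (nat_lit 342) (nat_lit 277) (nat_lit 161)) (XT.lf (nat_lit 0) (nat_lit 34626307588) (nat_lit 228) (nat_lit 34347849706) (nat_lit 76) (nat_lit 14204983957) (nat_lit 19) (nat_lit 5) (nat_lit 22) (nat_lit 5) (nat_lit 20) (nat_lit 4) (nat_lit 343) (nat_lit 277) (nat_lit 160))) (XT.nd (nat_lit 78) (nat_lit 0) (nat_lit 0) (XT.lf (nat_lit 0) (nat_lit 1928926549) (nat_lit 76) (nat_lit 50575885158) (nat_lit 152) (nat_lit 34187055539) (nat_lit 18) (nat_lit 5) (nat_lit 19) (nat_lit 5) (nat_lit 20) (nat_lit 4) (nat_lit 344) (nat_lit 277) (nat_lit 159)) (XT.lf (nat_lit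 0) (nat_lit 40725462237) (nat_lit 76) (nat_lit 30898725300) (nat_lit 152) (nat_lit 18745636344) (nat_lit 18) (nat_lit 5) (nat_lit 19) (nat_lit 5) (nat_lit 20) (nat_lit 4) (nat_lit 345) (nat_lit 277) (nat_lit 158))))))) (XT.nd (nat_lit 35334) (nat_lit 0) (nat_lit 12844) (XT.nd (nat_lit 468) (nat_lit 304) (nat_lit 0) (XT.nd (nat_lit 234) (nat_lit 76) (nat_lit 0) (XT.nd (nat_lit 78) (nat_lit 228) (nat_lit 0) (XT.lf (nat_lit 0) (nat_lit 81450540503) (nat_lit 76) (nat_lit 10242673271) (nat_lit 152) (nat_lit 2538656729) (nat_lit 18) (nat_lit 5) (nat_lit 19) (nat_lit 5) (nat_lit 20) (nat_lit 4) (nat_lit 346) (nat_lit 277) (nat_lit 157)) (XT.nd (nat_lit 78) (nat_lit 0) (nat_lit 0) (XT.lf (nat_lit 0) (nat_lit 14556617044) (nat_lit 228) (nat_lit 72101535385) (nat_lit 76) (nat_lit 11613879812) (nat_lit 15) (nat_lit 5) (nat_lit 18) (nat_lit 5) (nat_lit 16) (nat_lit 4) (nat_lit 347) (nat_lit 277) (nat_lit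 156)) (XT.lf (nat_lit 0) (nat_lit 32684959872) (nat_lit 228) (nat_lit 35314248234) (nat_lit 76) (nat_lit 34507317935) (nat_lit 15) (nat_lit 5) (nat_lit 18) (nat_lit 5) (nat_lit 16) (nat_lit 4) (nat_lit 348) (nat_lit 277) (nat_lit 155)))) (XT.nd (nat_lit 78) (nat_lit 0) (nat_lit 0) (XT.lf (nat_lit 0) (nat_lit 3367940255) (nat_lit 76) (nat_lit 48378500595) (nat_lit 152) (nat_lit 55205504236) (nat_lit 14) (nat_lit 5) (nat_lit 15) (nat_lit 5) (nat_lit 16) (nat_lit 4) (nat_lit 349) (nat_lit 277) (nat_lit 154)) (XT.nd (nat_lit 78) (nat_lit 0) (nat_lit 0) (XT.lf (nat_lit 0) (nat_lit 44712310343) (nat_lit 76) (nat_lit 27406735006) (nat_lit 152) (nat_lit 39489850331) (nat_lit 14) (nat_lit 5) (nat_lit 15) (nat_lit 5) (nat_lit 16) (nat_lit 4) (nat_lit 350) (nat_lit 277) (nat_lit 153)) (XT.lf (nat_lit 0) (nat_lit 88114478220) (nat_lit 76) (nat_lit 5390583227) (nat_lit 152) (nat_lit 22993790894) (nat_lit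 14) (nat_lit 5) (nat_lit 15) (nat_lit 5) (nat_lit 16) (nat_lit 4) (nat_lit 351) (nat_lit 277) (nat_lit 152))))) (XT.nd (nat_lit 234) (nat_lit 152) (nat_lit 0) (XT.nd (nat_lit 78) (nat_lit 76) (nat_lit 0) (XT.lf (nat_lit 0) (nat_lit 12110281464) (nat_lit 76) (nat_lit 104131896505) (nat_lit 76) (nat_lit 5382676765) (nat_lit 13) (nat_lit 4) (nat_lit 14) (nat_lit 5) (nat_lit 14) (nat_lit 4) (nat_lit 352) (nat_lit 277) (nat_lit 151)) (XT.nd (nat_lit 78) (nat_lit 0) (nat_lit 0) (XT.lf (nat_lit 0) (nat_lit 13197778201) (nat_lit 152) (nat_lit 71967808411) (nat_lit 76) (nat_lit 41827454364) (nat_lit 12) (nat_lit 5) (nat_lit 14) (nat_lit 5) (nat_lit 13) (nat_lit 4) (nat_lit 353) (nat_lit 277) (nat_lit 150)) (XT.lf (nat_lit 0) (nat_lit 32592297557) (nat_lit 152) (nat_lit 32606532616) (nat_lit 76) (nat_lit 67429318295) (nat_lit 12) (nat_lit 5) (nat_lit 14) (nat_lit 5) (nat_lit 13) (nat_lit 4) (nat_lit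 354) (nat_lit 277) (nat_lit 149)))) (XT.nd (nat_lit 156) (nat_lit 76) (nat_lit 0) (XT.nd (nat_lit 78) (nat_lit 0) (nat_lit 0) (XT.lf (nat_lit 0) (nat_lit 8888152896) (nat_lit 76) (nat_lit 44149379606) (nat_lit 152) (nat_lit 85505050726) (nat_lit 11) (nat_lit 5) (nat_lit 12) (nat_lit 5) (nat_lit 13) (nat_lit 4) (nat_lit 355) (nat_lit 277) (nat_lit 148)) (XT.lf (nat_lit 0) (nat_lit 53131091377) (nat_lit 76) (nat_lit 21705280829) (nat_lit 152) (nat_lit 69906428735) (nat_lit 11) (nat_lit 5) (nat_lit 12) (nat_lit 5) (nat_lit 13) (nat_lit 4) (nat_lit 356) (nat_lit 277) (nat_lit 147))) (XT.nd (nat_lit 156) (nat_lit 76) (nat_lit 0) (XT.lf (nat_lit 0) (nat_lit 97738903578) (nat_lit 152) (nat_lit 51692321762) (nat_lit 0) (nat_lit 1821393146) (nat_lit 11) (nat_lit 5) (nat_lit 13) (nat_lit 4) (nat_lit 11) (nat_lit 4) (nat_lit 357) (nat_lit 277) (nat_lit 146)) (XT.lf (nat_lit 0) (nat_lit 34435337282)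 (nat_lit 76) (nat_lit 113369548909) (nat_lit 76) (nat_lit 17437070147) (nat_lit 10) (nat_lit 4) (nat_lit 11) (nat_lit 5) (nat_lit 11) (nat_lit 4) (nat_lit 359) (nat_lit 277) (nat_lit 144)))))) (XT.nd (nat_lit 468) (nat_lit 1824) (nat_lit 0) (XT.nd (nat_lit 234) (nat_lit 0) (nat_lit 76) (XT.nd (nat_lit 78) (nat_lit 1064) (nat_lit 0) (XT.lf (nat_lit 0) (nat_lit 2555608831) (nat_lit 0) (nat_lit 2555608831) (nat_lit 988) (nat_lit 38135331) (nat_lit 217) (nat_lit 5) (nat_lit 217) (nat_lit 3) (nat_lit 230) (nat_lit 3) (nat_lit 278) (nat_lit 278) (nat_lit 224)) (XT.nd (nat_lit 78) (nat_lit 0) (nat_lit 0) (XT.lf (nat_lit 0) (nat_lit 994451160) (nat_lit 1064) (nat_lit 7963235742) (nat_lit 1140) (nat_lit 1564909383) (nat_lit 203) (nat_lit 5) (nat_lit 217) (nat_lit 5) (nat_lit 218) (nat_lit 5) (nat_lit 279) (nat_lit 278) (nat_lit 223)) (XT.lf (nat_lit 0) (nat_lit 2156637375) (nat_lit 1064) (nat_lit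 44111965) (nat_lit 1140) (nat_lit 8555817829) (nat_lit 203) (nat_lit 5) (nat_lit 217) (nat_lit 5) (nat_lit 218) (nat_lit 5) (nat_lit 280) (nat_lit 278) (nat_lit 222)))) (XT.nd (nat_lit 78) (nat_lit 0) (nat_lit 76) (XT.lf (nat_lit 0) (nat_lit 3442900193) (nat_lit 1064) (nat_lit 2650359684) (nat_lit 1140) (nat_lit 4907087122) (nat_lit 204) (nat_lit 5) (nat_lit 218) (nat_lit 5) (nat_lit 219) (nat_lit 5) (nat_lit 281) (nat_lit 278) (nat_lit 221)) (XT.nd (nat_lit 78) (nat_lit 0) (nat_lit 0) (XT.lf (nat_lit 0) (nat_lit 4824608023) (nat_lit 1064) (nat_lit 5300725848) (nat_lit 1140) (nat_lit 1130133158) (nat_lit 205) (nat_lit 5) (nat_lit 219) (nat_lit 5) (nat_lit 220) (nat_lit 5) (nat_lit 282) (nat_lit 278) (nat_lit 220)) (XT.lf (nat_lit 76) (nat_lit 3491892556) (nat_lit 0) (nat_lit 2848886504) (nat_lit 1140) (nat_lit 5180683776) (nat_lit 206) (nat_lit 5) (nat_lit 205) (nat_lit 5) (nat_lit 220) (nat_lit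 5) (nat_lit 283) (nat_lit 278) (nat_lit 219))))) (XT.nd (nat_lit 234) (nat_lit 2052) (nat_lit 0) (XT.nd (nat_lit 78) (nat_lit 0) (nat_lit 76) (XT.lf (nat_lit 76) (nat_lit 969856120) (nat_lit 0) (nat_lit 7018701457) (nat_lit 1140) (nat_lit 3810604134) (nat_lit 207) (nat_lit 5) (nat_lit 206) (nat_lit 5) (nat_lit 221) (nat_lit 5) (nat_lit 284) (nat_lit 278) (nat_lit 218)) (XT.nd (nat_lit 78) (nat_lit 0) (nat_lit 0) (XT.lf (nat_lit 0) (nat_lit 9784557272) (nat_lit 1064) (nat_lit 1575645075) (nat_lit 1140) (nat_lit 728641785) (nat_lit 207) (nat_lit 5) (nat_lit 221) (nat_lit 5) (nat_lit 222) (nat_lit 5) (nat_lit 285) (nat_lit 278) (nat_lit 217)) (XT.lf (nat_lit 76) (nat_lit 8192621504) (nat_lit 0) (nat_lit 3577525215) (nat_lit 1140) (nat_lit 619940325) (nat_lit 208) (nat_lit 5) (nat_lit 207) (nat_lit 5) (nat_lit 222) (nat_lit 5) (nat_lit 286) (nat_lit 278) (nat_lit 216)))) (XT.nd (nat_lit 156)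 (nat_lit 1064) (nat_lit 0) (XT.nd (nat_lit 78) (nat_lit 0) (nat_lit 76) (XT.lf (nat_lit 0) (nat_lit 1195528909) (nat_lit 1140) (nat_lit 6908443801) (nat_lit 1216) (nat_lit 4600073365) (nat_lit 193) (nat_lit 5) (nat_lit 208) (nat_lit 5) (nat_lit 209) (nat_lit 5) (nat_lit 287) (nat_lit 278) (nat_lit 215)) (XT.lf (nat_lit 0) (nat_lit 3156214681) (nat_lit 1140) (nat_lit 9705054655) (nat_lit 76) (nat_lit 170293349) (nat_lit 194) (nat_lit 5) (nat_lit 209) (nat_lit 5) (nat_lit 195) (nat_lit 5) (nat_lit 288) (nat_lit 278) (nat_lit 214))) (XT.nd (nat_lit 78) (nat_lit 0) (nat_lit 0) (XT.lf (nat_lit 0) (nat_lit 738211263) (nat_lit 1140) (nat_lit 4593100882) (nat_lit 1216) (nat_lit 8040710420) (nat_lit 179) (nat_lit 5) (nat_lit 194) (nat_lit 5) (nat_lit 195) (nat_lit 5) (nat_lit 289) (nat_lit 278) (nat_lit 213)) (XT.lf (nat_lit 0) (nat_lit 7712836833) (nat_lit 1216) (nat_lit 1898597738) (nat_lit 76)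 (nat_lit 4115196660) (nat_lit 179) (nat_lit 5) (nat_lit 195) (nat_lit 5) (nat_lit 180) (nat_lit 5) (nat_lit 290) (nat_lit 278) (nat_lit 212))))))))
noncomputable def xc81 : XT := (XT.nd (nat_lit 2028) (nat_lit 3344) (nat_lit 0) (XT.nd (nat_lit 1014) (nat_lit 3268) (nat_lit 0) (XT.nd (nat_lit 468) (nat_lit 2736) (nat_lit 0) (XT.nd (nat_lit 234) (nat_lit 988) (nat_lit 0) (XT.nd (nat_lit 78) (nat_lit 1216) (nat_lit 0) (XT.lf (nat_lit 0) (nat_lit 9475492561) (nat_lit 608) (nat_lit 834890881) (nat_lit 684) (nat_lit 3785731817) (nat_lit 171) (nat_lit 5) (nat_lit 179) (nat_lit 5) (nat_lit 180) (nat_lit 5) (nat_lit 291) (nat_lit 278) (nat_lit 211)) (XT.nd (nat_lit 78) (nat_lit 608) (nat_lit 0) (XT.lf (nat_lit 0) (nat_lit 6993559580) (nat_lit 608) (nat_lit 6172894822) (nat_lit 684) (nat_lit 1313810437) (nat_lit 163) (nat_lit 5) (nat_lit 171) (nat_lit 5) (nat_lit 172) (nat_lit 5) (nat_lit 292) (nat_lit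 278) (nat_lit 210)) (XT.lf (nat_lit 0) (nat_lit 1347906540) (nat_lit 608) (nat_lit 10479700605) (nat_lit 76) (nat_lit 3052955765) (nat_lit 155) (nat_lit 5) (nat_lit 163) (nat_lit 5) (nat_lit 156) (nat_lit 5) (nat_lit 293) (nat_lit 278) (nat_lit 209)))) (XT.nd (nat_lit 78) (nat_lit 456) (nat_lit 0) (XT.lf (nat_lit 0) (nat_lit 1660281139) (nat_lit 532) (nat_lit 2575290682) (nat_lit 608) (nat_lit 11061357501) (nat_lit 148) (nat_lit 5) (nat_lit 155) (nat_lit 5) (nat_lit 156) (nat_lit 5) (nat_lit 294) (nat_lit 278) (nat_lit 208)) (XT.nd (nat_lit 78) (nat_lit 456) (nat_lit 0) (XT.lf (nat_lit 0) (nat_lit 7410267303) (nat_lit 608) (nat_lit 1210842446) (nat_lit 76) (nat_lit 7108767468) (nat_lit 148) (nat_lit 5) (nat_lit 156) (nat_lit 5) (nat_lit 149) (nat_lit 5) (nat_lit 295) (nat_lit 278) (nat_lit 207)) (XT.lf (nat_lit 0) (nat_lit 10862999828) (nat_lit 532) (nat_lit 4182567102) (nat_lit 76) (nat_lit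 1135367053) (nat_lit 142) (nat_lit 5) (nat_lit 149) (nat_lit 5) (nat_lit 143) (nat_lit 5) (nat_lit 296) (nat_lit 278) (nat_lit 206))))) (XT.nd (nat_lit 234) (nat_lit 1216) (nat_lit 0) (XT.nd (nat_lit 78) (nat_lit 988) (nat_lit 0) (XT.lf (nat_lit 0) (nat_lit 9298714668) (nat_lit 532) (nat_lit 5346616797) (nat_lit 608) (nat_lit 2004541864) (nat_lit 135) (nat_lit 5) (nat_lit 142) (nat_lit 5) (nat_lit 143) (nat_lit 5) (nat_lit 297) (nat_lit 278) (nat_lit 205)) (XT.nd (nat_lit 78) (nat_lit 456) (nat_lit 0) (XT.lf (nat_lit 0) (nat_lit 1567986965) (nat_lit 532) (nat_lit 10709413008) (nat_lit 76) (nat_lit 4860802949) (nat_lit 128) (nat_lit 5) (nat_lit 135) (nat_lit 5) (nat_lit 129) (nat_lit 5) (nat_lit 298) (nat_lit 278) (nat_lit 204)) (XT.lf (nat_lit 0) (nat_lit 3358931306) (nat_lit 456) (nat_lit 2051778417) (nat_lit 532) (nat_lit 12235687132) (nat_lit 122) (nat_lit 5) (nat_lit 128) (nat_lit 5)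 (nat_lit 129) (nat_lit 5) (nat_lit 299) (nat_lit 278) (nat_lit 203)))) (XT.nd (nat_lit 156) (nat_lit 836) (nat_lit 0) (XT.nd (nat_lit 78) (nat_lit 0) (nat_lit 0) (XT.lf (nat_lit 0) (nat_lit 60175697) (nat_lit 380) (nat_lit 9551824021) (nat_lit 456) (nat_lit 8563040218) (nat_lit 117) (nat_lit 5) (nat_lit 122) (nat_lit 5) (nat_lit 123) (nat_lit 5) (nat_lit 300) (nat_lit 278) (nat_lit 202)) (XT.lf (nat_lit 0) (nat_lit 14174624089) (nat_lit 456) (nat_lit 3368142952) (nat_lit 76) (nat_lit 1182840877) (nat_lit 117) (nat_lit 5) (nat_lit 123) (nat_lit 5) (nat_lit 118) (nat_lit 5) (nat_lit 301) (nat_lit 278) (nat_lit 201))) (XT.nd (nat_lit 78) (nat_lit 456) (nat_lit 0) (XT.lf (nat_lit 0) (nat_lit 12225641959) (nat_lit 380) (nat_lit 6927037696) (nat_lit 456) (nat_lit 145435019) (nat_lit 112) (nat_lit 5) (nat_lit 117) (nat_lit 5) (nat_lit 118) (nat_lit 5) (nat_lit 302) (nat_lit 278) (nat_lit 200)) (XT.lf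 (nat_lit 0) (nat_lit 4529404594) (nat_lit 456) (nat_lit 11068368296) (nat_lit 76) (nat_lit 4296115732) (nat_lit 106) (nat_lit 5) (nat_lit 112) (nat_lit 5) (nat_lit 107) (nat_lit 5) (nat_lit 303) (nat_lit 278) (nat_lit 199)))))) (XT.nd (nat_lit 468) (nat_lit 1520) (nat_lit 0) (XT.nd (nat_lit 234) (nat_lit 1064) (nat_lit 0) (XT.nd (nat_lit 78) (nat_lit 304) (nat_lit 0) (XT.lf (nat_lit 0) (nat_lit 5145397363) (nat_lit 380) (nat_lit 4457443648) (nat_lit 456) (nat_lit 10911557044) (nat_lit 101) (nat_lit 5) (nat_lit 106) (nat_lit 5) (nat_lit 107) (nat_lit 5) (nat_lit 304) (nat_lit 278) (nat_lit 198)) (XT.nd (nat_lit 78) (nat_lit 0) (nat_lit 0) (XT.lf (nat_lit 0) (nat_lit 1158910210) (nat_lit 304) (nat_lit 13942604189) (nat_lit 380) (nat_lit 6059296243) (nat_lit 97) (nat_lit 5) (nat_lit 101) (nat_lit 5) (nat_lit 102) (nat_lit 5) (nat_lit 305) (nat_lit 278) (nat_lit 197)) (XT.lf (nat_lit 0) (nat_lit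 18757789665) (nat_lit 304) (nat_lit 2296713439) (nat_lit 380) (nat_lit 779682767) (nat_lit 97) (nat_lit 5) (nat_lit 101) (nat_lit 5) (nat_lit 102) (nat_lit 5) (nat_lit 306) (nat_lit 278) (nat_lit 196)))) (XT.nd (nat_lit 78) (nat_lit 608) (nat_lit 0) (XT.lf (nat_lit 0) (nat_lit 4889046264) (nat_lit 456) (nat_lit 7722685618) (nat_lit 76) (nat_lit 9921602984) (nat_lit 91) (nat_lit 5) (nat_lit 97) (nat_lit 5) (nat_lit 92) (nat_lit 5) (nat_lit 307) (nat_lit 278) (nat_lit 195)) (XT.nd (nat_lit 78) (nat_lit 304) (nat_lit 0) (XT.lf (nat_lit 0) (nat_lit 10534579316) (nat_lit 304) (nat_lit 425304521) (nat_lit 380) (nat_lit 12303302634) (nat_lit 87) (nat_lit 5) (nat_lit 91) (nat_lit 5) (nat_lit 92) (nat_lit 5) (nat_lit 308) (nat_lit 278) (nat_lit 194)) (XT.lf (nat_lit 0) (nat_lit 5803287093) (nat_lit 304) (nat_lit 11764866323) (nat_lit 380) (nat_lit 6454380213) (nat_lit 83) (nat_lit 5) (nat_lit 87)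 (nat_lit 5) (nat_lit 88) (nat_lit 5) (nat_lit 309) (nat_lit 278) (nat_lit 193))))) (XT.nd (nat_lit 234) (nat_lit 836) (nat_lit 0) (XT.nd (nat_lit 78) (nat_lit 380) (nat_lit 0) (XT.lf (nat_lit 0) (nat_lit 683550469) (nat_lit 304) (nat_lit 23953171017) (nat_lit 380) (nat_lit 179248848) (nat_lit 79) (nat_lit 5) (nat_lit 83) (nat_lit 5) (nat_lit 84) (nat_lit 5) (nat_lit 310) (nat_lit 278) (nat_lit 192)) (XT.nd (nat_lit 78) (nat_lit 304) (nat_lit 0) (XT.lf (nat_lit 0) (nat_lit 6572770522) (nat_lit 380) (nat_lit 4941953153) (nat_lit 76) (nat_lit 14123877930) (nat_lit 78) (nat_lit 5) (nat_lit 83) (nat_lit 5) (nat_lit 79) (nat_lit 5) (nat_lit 311) (nat_lit 278) (nat_lit 191)) (XT.lf (nat_lit 0) (nat_lit 13804806229) (nat_lit 380) (nat_lit 11033525287) (nat_lit 76) (nat_lit 1659612508) (nat_lit 74) (nat_lit 5) (nat_lit 79) (nat_lit 5) (nat_lit 75) (nat_lit 5) (nat_lit 312) (nat_lit 278) (nat_lit 190))))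 (XT.nd (nat_lit 156) (nat_lit 228) (nat_lit 0) (XT.nd (nat_lit 78) (nat_lit 380) (nat_lit 0) (XT.lf (nat_lit 0) (nat_lit 9640189770) (nat_lit 228) (nat_lit 12000095874) (nat_lit 304) (nat_lit 5752728377) (nat_lit 71) (nat_lit 5) (nat_lit 74) (nat_lit 5) (nat_lit 75) (nat_lit 5) (nat_lit 313) (nat_lit 278) (nat_lit 189)) (XT.lf (nat_lit 0) (nat_lit 1648645455) (nat_lit 380) (nat_lit 25074095788) (nat_lit 76) (nat_lit 1605351490) (nat_lit 66) (nat_lit 5) (nat_lit 71) (nat_lit 5) (nat_lit 67) (nat_lit 5) (nat_lit 314) (nat_lit 278) (nat_lit 188))) (XT.nd (nat_lit 78) (nat_lit 228) (nat_lit 0) (XT.lf (nat_lit 0) (nat_lit 9590439724) (nat_lit 380) (nat_lit 3829448968) (nat_lit 76) (nat_lit 15879661989) (nat_lit 66) (nat_lit 5) (nat_lit 71) (nat_lit 5) (nat_lit 67) (nat_lit 5) (nat_lit 315) (nat_lit 278) (nat_lit 187)) (XT.lf (nat_lit 0) (nat_lit 18100584469) (nat_lit 304) (nat_lit 11501883719)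 (nat_lit 76) (nat_lit 711988695) (nat_lit 63) (nat_lit 5) (nat_lit 67) (nat_lit 5) (nat_lit 64) (nat_lit 5) (nat_lit 316) (nat_lit 278) (nat_lit 186))))))) (XT.nd (nat_lit 1014) (nat_lit 1292) (nat_lit 0) (XT.nd (nat_lit 468) (nat_lit 1064) (nat_lit 0) (XT.nd (nat_lit 234) (nat_lit 456) (nat_lit 0) (XT.nd (nat_lit 78) (nat_lit 304) (nat_lit 0) (XT.lf (nat_lit 0) (nat_lit 11348799157) (nat_lit 228) (nat_lit 15955644637) (nat_lit 304) (nat_lit 4067630934) (nat_lit 60) (nat_lit 5) (nat_lit 63) (nat_lit 5) (nat_lit 64) (nat_lit 5) (nat_lit 317) (nat_lit 278) (nat_lit 185)) (XT.nd (nat_lit 78) (nat_lit 0) (nat_lit 0) (XT.lf (nat_lit 0) (nat_lit 3095224361) (nat_lit 228) (nat_lit 1436716227) (nat_lit 304) (nat_lit 27945344209) (nat_lit 56) (nat_lit 5) (nat_lit 59) (nat_lit 5) (nat_lit 60) (nat_lit 5) (nat_lit 318) (nat_lit 278) (nat_lit 184)) (XT.lf (nat_lit 0) (nat_lit 13803715493) (nat_lit 304)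 (nat_lit 6043249140) (nat_lit 76) (nat_lit 13779803094) (nat_lit 56) (nat_lit 5) (nat_lit 60) (nat_lit 5) (nat_lit 57) (nat_lit 5) (nat_lit 319) (nat_lit 278) (nat_lit 183)))) (XT.nd (nat_lit 78) (nat_lit 228) (nat_lit 0) (XT.lf (nat_lit 0) (nat_lit 18791913391) (nat_lit 228) (nat_lit 4927708537) (nat_lit 304) (nat_lit 11108697120) (nat_lit 53) (nat_lit 5) (nat_lit 56) (nat_lit 5) (nat_lit 57) (nat_lit 5) (nat_lit 320) (nat_lit 278) (nat_lit 182)) (XT.nd (nat_lit 78) (nat_lit 76) (nat_lit 0) (XT.lf (nat_lit 0) (nat_lit 8955471209) (nat_lit 152) (nat_lit 25413786917) (nat_lit 228) (nat_lit 1713561804) (nat_lit 51) (nat_lit 5) (nat_lit 53) (nat_lit 5) (nat_lit 54) (nat_lit 5) (nat_lit 321) (nat_lit 278) (nat_lit 181)) (XT.lf (nat_lit 0) (nat_lit 8194848298) (nat_lit 228) (nat_lit 2014894468) (nat_lit 76) (nat_lit 27181884299) (nat_lit 50) (nat_lit 5) (nat_lit 53) (nat_lit 5) (nat_lit 51) (nat_lit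 5) (nat_lit 322) (nat_lit 278) (nat_lit 180))))) (XT.nd (nat_lit 234) (nat_lit 608) (nat_lit 0) (XT.nd (nat_lit 78) (nat_lit 228) (nat_lit 0) (XT.lf (nat_lit 0) (nat_lit 18846510138) (nat_lit 304) (nat_lit 14017657841) (nat_lit 76) (nat_lit 5892708319) (nat_lit 47) (nat_lit 5) (nat_lit 51) (nat_lit 5) (nat_lit 48) (nat_lit 5) (nat_lit 323) (nat_lit 278) (nat_lit 179)) (XT.nd (nat_lit 78) (nat_lit 76) (nat_lit 0) (XT.lf (nat_lit 0) (nat_lit 12809287274) (nat_lit 152) (nat_lit 17455741931) (nat_lit 228) (nat_lit 9918338973) (nat_lit 45) (nat_lit 5) (nat_lit 47) (nat_lit 5) (nat_lit 48) (nat_lit 5) (nat_lit 324) (nat_lit 278) (nat_lit 178)) (XT.lf (nat_lit 0) (nat_lit 695264808) (nat_lit 228) (nat_lit 433739582) (nat_lit 76) (nat_lit 40548027849) (nat_lit 44) (nat_lit 5) (nat_lit 47) (nat_lit 5) (nat_lit 45) (nat_lit 5) (nat_lit 325) (nat_lit 278) (nat_lit 177)))) (XT.nd (nat_lit 156) (nat_lit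 228) (nat_lit 0) (XT.nd (nat_lit 78) (nat_lit 152) (nat_lit 0) (XT.lf (nat_lit 0) (nat_lit 12053811965) (nat_lit 304) (nat_lit 15106139464) (nat_lit 76) (nat_lit 16069907749) (nat_lit 41) (nat_lit 5) (nat_lit 45) (nat_lit 5) (nat_lit 42) (nat_lit 5) (nat_lit 326) (nat_lit 278) (nat_lit 176)) (XT.lf (nat_lit 0) (nat_lit 13490528102) (nat_lit 152) (nat_lit 10623691968) (nat_lit 228) (nat_lit 20742096439) (nat_lit 39) (nat_lit 5) (nat_lit 41) (nat_lit 5) (nat_lit 42) (nat_lit 5) (nat_lit 327) (nat_lit 278) (nat_lit 175))) (XT.nd (nat_lit 78) (nat_lit 228) (nat_lit 0) (XT.lf (nat_lit 0) (nat_lit 36988130081) (nat_lit 228) (nat_lit 2811978418) (nat_lit 76) (nat_lit 6757680479) (nat_lit 39) (nat_lit 5) (nat_lit 42) (nat_lit 5) (nat_lit 40) (nat_lit 5) (nat_lit 328) (nat_lit 278) (nat_lit 174)) (XT.lf (nat_lit 0) (nat_lit 2484359445) (nat_lit 228) (nat_lit 20775348310) (nat_lit 76) (nat_lit 25073056156)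 (nat_lit 36) (nat_lit 5) (nat_lit 39) (nat_lit 5) (nat_lit 37) (nat_lit 5) (nat_lit 329) (nat_lit 278) (nat_lit 173)))))) (XT.nd (nat_lit 546) (nat_lit 608) (nat_lit 0) (XT.nd (nat_lit 234) (nat_lit 380) (nat_lit 0) (XT.nd (nat_lit 78) (nat_lit 152) (nat_lit 0) (XT.lf (nat_lit 0) (nat_lit 9376796462) (nat_lit 152) (nat_lit 5677007141) (nat_lit 228) (nat_lit 35136528226) (nat_lit 34) (nat_lit 5) (nat_lit 36) (nat_lit 5) (nat_lit 37) (nat_lit 5) (nat_lit 330) (nat_lit 278) (nat_lit 172)) (XT.nd (nat_lit 78) (nat_lit 152) (nat_lit 0) (XT.lf (nat_lit 0) (nat_lit 28580298910) (nat_lit 228) (nat_lit 10806145777) (nat_lit 76) (nat_lit 12744481721) (nat_lit 34) (nat_lit 5) (nat_lit 37) (nat_lit 5) (nat_lit 35) (nat_lit 5) (nat_lit 331) (nat_lit 278) (nat_lit 171)) (XT.lf (nat_lit 0) (nat_lit 21038214129) (nat_lit 152) (nat_lit 21994628829) (nat_lit 228) (nat_lit 11128221405) (nat_lit 32) (nat_lit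 5) (nat_lit 34) (nat_lit 5) (nat_lit 35) (nat_lit 5) (nat_lit 332) (nat_lit 278) (nat_lit 170)))) (XT.nd (nat_lit 156) (nat_lit 152) (nat_lit 0) (XT.nd (nat_lit 78) (nat_lit 152) (nat_lit 0) (XT.lf (nat_lit 0) (nat_lit 1980676712) (nat_lit 228) (nat_lit 1624626075) (nat_lit 76) (nat_lit 52683776670) (nat_lit 31) (nat_lit 5) (nat_lit 34) (nat_lit 5) (nat_lit 32) (nat_lit 5) (nat_lit 333) (nat_lit 278) (nat_lit 169)) (XT.lf (nat_lit 0) (nat_lit 15969979375) (nat_lit 228) (nat_lit 26722275189) (nat_lit 76) (nat_lit 15814286803) (nat_lit 29) (nat_lit 5) (nat_lit 32) (nat_lit 5) (nat_lit 30) (nat_lit 5) (nat_lit 334) (nat_lit 278) (nat_lit 168))) (XT.nd (nat_lit 78) (nat_lit 0) (nat_lit 0) (XT.lf (nat_lit 0) (nat_lit 6130925007) (nat_lit 152) (nat_lit 24631126647) (nat_lit 228) (nat_lit 30069730085) (nat_lit 27) (nat_lit 5) (nat_lit 29) (nat_lit 5) (nat_lit 30) (nat_lit 5) (nat_lit 335) (nat_lit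 278) (nat_lit 167)) (XT.lf (nat_lit 0) (nat_lit 41170306799) (nat_lit 152) (nat_lit 5389875436) (nat_lit 228) (nat_lit 16705112539) (nat_lit 27) (nat_lit 5) (nat_lit 29) (nat_lit 5) (nat_lit 30) (nat_lit 5) (nat_lit 336) (nat_lit 278) (nat_lit 166))))) (XT.nd (nat_lit 234) (nat_lit 304) (nat_lit 0) (XT.nd (nat_lit 78) (nat_lit 228) (nat_lit 0) (XT.lf (nat_lit 0) (nat_lit 12222912160) (nat_lit 76) (nat_lit 51176923024) (nat_lit 152) (nat_lit 2413103882) (nat_lit 26) (nat_lit 5) (nat_lit 27) (nat_lit 5) (nat_lit 28) (nat_lit 4) (nat_lit 337) (nat_lit 278) (nat_lit 165)) (XT.nd (nat_lit 78) (nat_lit 152) (nat_lit 0) (XT.lf (nat_lit 0) (nat_lit 12623764731) (nat_lit 152) (nat_lit 19954556336) (nat_lit 76) (nat_lit 35897736462) (nat_lit 25) (nat_lit 5) (nat_lit 27) (nat_lit 5) (nat_lit 26) (nat_lit 5) (nat_lit 338) (nat_lit 278) (nat_lit 164)) (XT.lf (nat_lit 0) (nat_lit 15629867669) (nat_lit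 152) (nat_lit 12875698269) (nat_lit 228) (nat_lit 42761762931) (nat_lit 23) (nat_lit 5) (nat_lit 25) (nat_lit 5) (nat_lit 26) (nat_lit 5) (nat_lit 339) (nat_lit 278) (nat_lit 163)))) (XT.nd (nat_lit 156) (nat_lit 228) (nat_lit 0) (XT.nd (nat_lit 78) (nat_lit 76) (nat_lit 0) (XT.lf (nat_lit 0) (nat_lit 45456475607) (nat_lit 228) (nat_lit 20871871934) (nat_lit 76) (nat_lit 7861569105) (nat_lit 23) (nat_lit 5) (nat_lit 26) (nat_lit 5) (nat_lit 24) (nat_lit 4) (nat_lit 340) (nat_lit 278) (nat_lit 162)) (XT.lf (nat_lit 0) (nat_lit 15797693010) (nat_lit 76) (nat_lit 47731886463) (nat_lit 152) (nat_lit 13720818138) (nat_lit 22) (nat_lit 5) (nat_lit 23) (nat_lit 5) (nat_lit 24) (nat_lit 4) (nat_lit 341) (nat_lit 278) (nat_lit 161))) (XT.nd (nat_lit 78) (nat_lit 152) (nat_lit 0) (XT.lf (nat_lit 0) (nat_lit 2212551170) (nat_lit 152) (nat_lit 25754717515) (nat_lit 76) (nat_lit 52489748843) (nat_lit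 21) (nat_lit 5) (nat_lit 23) (nat_lit 5) (nat_lit 22) (nat_lit 5) (nat_lit 342) (nat_lit 278) (nat_lit 160)) (XT.lf (nat_lit 0) (nat_lit 11808297021) (nat_lit 152) (nat_lit 6959990536) (nat_lit 228) (nat_lit 65048324278) (nat_lit 19) (nat_lit 5) (nat_lit 21) (nat_lit 5) (nat_lit 22) (nat_lit 5) (nat_lit 343) (nat_lit 278) (nat_lit 159))))))))
noncomputable def xc82 : XT := (XT.nd (nat_lit 36426) (nat_lit 0) (nat_lit 4180) (XT.nd (nat_lit 1014) (nat_lit 0) (nat_lit 0) (XT.nd (nat_lit 468) (nat_lit 304) (nat_lit 0) (XT.nd (nat_lit 234) (nat_lit 228) (nat_lit 0) (XT.nd (nat_lit 78) (nat_lit 76) (nat_lit 0) (XT.lf (nat_lit 0) (nat_lit 36558165282) (nat_lit 228) (nat_lit 35707942109) (nat_lit 76) (nat_lit 15065890566) (nat_lit 19) (nat_lit 5) (nat_lit 22) (nat_lit 5) (nat_lit 20) (nat_lit 4) (nat_lit 344) (nat_lit 278) (nat_lit 158)) (XT.nd (nat_lit 78) (nat_lit 0) (nat_lit 0) (XT.lf (nat_lit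 0) (nat_lit 2372431024) (nat_lit 76) (nat_lit 52951950084) (nat_lit 152) (nat_lit 35696169553) (nat_lit 18) (nat_lit 5) (nat_lit 19) (nat_lit 5) (nat_lit 20) (nat_lit 4) (nat_lit 345) (nat_lit 278) (nat_lit 157)) (XT.lf (nat_lit 0) (nat_lit 43092266918) (nat_lit 76) (nat_lit 32298205058) (nat_lit 152) (nat_lit 19492214578) (nat_lit 18) (nat_lit 5) (nat_lit 19) (nat_lit 5) (nat_lit 20) (nat_lit 4) (nat_lit 346) (nat_lit 278) (nat_lit 156)))) (XT.nd (nat_lit 78) (nat_lit 228) (nat_lit 0) (XT.lf (nat_lit 0) (nat_lit 85837859499) (nat_lit 76) (nat_lit 10616276928) (nat_lit 152) (nat_lit 2483967105) (nat_lit 18) (nat_lit 5) (nat_lit 19) (nat_lit 5) (nat_lit 20) (nat_lit 4) (nat_lit 347) (nat_lit 278) (nat_lit 155)) (XT.nd (nat_lit 78) (nat_lit 0) (nat_lit 0) (XT.lf (nat_lit 0) (nat_lit 15458333434) (nat_lit 228) (nat_lit 75393402430) (nat_lit 76) (nat_lit 12328614259) (nat_lit 15) (nat_lit 5)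 (nat_lit 18) (nat_lit 5) (nat_lit 16) (nat_lit 4) (nat_lit 348) (nat_lit 278) (nat_lit 154)) (XT.lf (nat_lit 0) (nat_lit 34484813139) (nat_lit 228) (nat_lit 36781665671) (nat_lit 76) (nat_lit 36360341410) (nat_lit 15) (nat_lit 5) (nat_lit 18) (nat_lit 5) (nat_lit 16) (nat_lit 4) (nat_lit 349) (nat_lit 278) (nat_lit 153))))) (XT.nd (nat_lit 234) (nat_lit 228) (nat_lit 0) (XT.nd (nat_lit 78) (nat_lit 0) (nat_lit 0) (XT.lf (nat_lit 0) (nat_lit 3826081677) (nat_lit 76) (nat_lit 50668185724) (nat_lit 152) (nat_lit 57800398885) (nat_lit 14) (nat_lit 5) (nat_lit 15) (nat_lit 5) (nat_lit 16) (nat_lit 4) (nat_lit 350) (nat_lit 278) (nat_lit 152)) (XT.nd (nat_lit 78) (nat_lit 0) (nat_lit 0) (XT.lf (nat_lit 0) (nat_lit 47223872916) (nat_lit 76) (nat_lit 28653986136) (nat_lit 152) (nat_lit 41306837549) (nat_lit 14) (nat_lit 5) (nat_lit 15) (nat_lit 5) (nat_lit 16) (nat_lit 4) (nat_lit 351) (nat_lit 278)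 (nat_lit 151)) (XT.lf (nat_lit 0) (nat_lit 92783008852) (nat_lit 76) (nat_lit 5542887989) (nat_lit 152) (nat_lit 23993475392) (nat_lit 14) (nat_lit 5) (nat_lit 15) (nat_lit 5) (nat_lit 16) (nat_lit 4) (nat_lit 352) (nat_lit 278) (nat_lit 150)))) (XT.nd (nat_lit 156) (nat_lit 76) (nat_lit 0) (XT.nd (nat_lit 78) (nat_lit 76) (nat_lit 0) (XT.lf (nat_lit 0) (nat_lit 12974270373) (nat_lit 76) (nat_lit 109222224116) (nat_lit 76) (nat_lit 5505284128) (nat_lit 13) (nat_lit 4) (nat_lit 14) (nat_lit 5) (nat_lit 14) (nat_lit 4) (nat_lit 353) (nat_lit 278) (nat_lit 149)) (XT.lf (nat_lit 0) (nat_lit 13994493031) (nat_lit 152) (nat_lit 75317260558) (nat_lit 76) (nat_lit 44026785999) (nat_lit 12) (nat_lit 5) (nat_lit 14) (nat_lit 5) (nat_lit 13) (nat_lit 4) (nat_lit 354) (nat_lit 278) (nat_lit 148))) (XT.nd (nat_lit 78) (nat_lit 76) (nat_lit 0) (XT.lf (nat_lit 0) (nat_lit 34352222834) (nat_lit 152) (nat_lit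 33999775177) (nat_lit 76) (nat_lit 70903602226) (nat_lit 12) (nat_lit 5) (nat_lit 14) (nat_lit 5) (nat_lit 13) (nat_lit 4) (nat_lit 355) (nat_lit 278) (nat_lit 147)) (XT.lf (nat_lit 0) (nat_lit 9562848643) (nat_lit 76) (nat_lit 46252879296) (nat_lit 152) (nat_lit 89650150750) (nat_lit 11) (nat_lit 5) (nat_lit 12) (nat_lit 5) (nat_lit 13) (nat_lit 4) (nat_lit 356) (nat_lit 278) (nat_lit 146)))))) (XT.nd (nat_lit 34866) (nat_lit 0) (nat_lit 13756) (XT.nd (nat_lit 34632) (nat_lit 0) (nat_lit 14592) (XT.nd (nat_lit 156) (nat_lit 0) (nat_lit 0) (XT.lf (nat_lit 0) (nat_lit 56006967948) (nat_lit 76) (nat_lit 22691526499) (nat_lit 152) (nat_lit 73277795399) (nat_lit 11) (nat_lit 5) (nat_lit 12) (nat_lit 5) (nat_lit 13) (nat_lit 4) (nat_lit 357) (nat_lit 278) (nat_lit 145)) (XT.nd (nat_lit 34398) (nat_lit 0) (nat_lit 14516) (XT.lf (nat_lit 0) (nat_lit 128211762749) (nat_lit 152) (nat_lit 10302043121)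 (nat_lit 0) (nat_lit 27468404497) (nat_lit 11) (nat_lit 5) (nat_lit 13) (nat_lit 4) (nat_lit 11) (nat_lit 4) (nat_lit 359) (nat_lit 278) (nat_lit 143)) (XT.lf (nat_lit 0) (nat_lit 975649137) (nat_lit 1140) (nat_lit 2199645927) (nat_lit 1140) (nat_lit 2199645927) (nat_lit 202) (nat_lit 3) (nat_lit 217) (nat_lit 3) (nat_lit 217) (nat_lit 5) (nat_lit 279) (nat_lit 279) (nat_lit 222)))) (XT.nd (nat_lit 78) (nat_lit 0) (nat_lit 0) (XT.lf (nat_lit 0) (nat_lit 2978206795) (nat_lit 1064) (nat_lit 7274661810) (nat_lit 1140) (nat_lit 735086214) (nat_lit 203) (nat_lit 5) (nat_lit 217) (nat_lit 5) (nat_lit 218) (nat_lit 5) (nat_lit 280) (nat_lit 279) (nat_lit 221)) (XT.nd (nat_lit 78) (nat_lit 0) (nat_lit 76) (XT.lf (nat_lit 76) (nat_lit 1008345284) (nat_lit 0) (nat_lit 3107753054) (nat_lit 1140) (nat_lit 7120128993) (nat_lit 204) (nat_lit 5) (nat_lit 203) (nat_lit 5) (nat_lit 218) (nat_lit 5) (nat_lit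 281) (nat_lit 279) (nat_lit 220)) (XT.lf (nat_lit 0) (nat_lit 5371642114) (nat_lit 1064) (nat_lit 1714855851) (nat_lit 1140) (nat_lit 4408673883) (nat_lit 204) (nat_lit 5) (nat_lit 218) (nat_lit 5) (nat_lit 219) (nat_lit 5) (nat_lit 282) (nat_lit 279) (nat_lit 219))))) (XT.nd (nat_lit 234) (nat_lit 988) (nat_lit 0) (XT.nd (nat_lit 78) (nat_lit 0) (nat_lit 0) (XT.lf (nat_lit 0) (nat_lit 6742554977) (nat_lit 1064) (nat_lit 4469286423) (nat_lit 1140) (nat_lit 553721682) (nat_lit 205) (nat_lit 5) (nat_lit 219) (nat_lit 5) (nat_lit 220) (nat_lit 5) (nat_lit 283) (nat_lit 279) (nat_lit 218)) (XT.nd (nat_lit 78) (nat_lit 0) (nat_lit 76) (XT.lf (nat_lit 76) (nat_lit 4731532646) (nat_lit 0) (nat_lit 3533396143) (nat_lit 1140) (nat_lit 3782131196) (nat_lit 206) (nat_lit 5) (nat_lit 205) (nat_lit 5) (nat_lit 220) (nat_lit 5) (nat_lit 284) (nat_lit 279) (nat_lit 217)) (XT.lf (nat_lit 76) (nat_lit 2106955484)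 (nat_lit 0) (nat_lit 7817113480) (nat_lit 1140) (nat_lit 2416813405) (nat_lit 207) (nat_lit 5) (nat_lit 206) (nat_lit 5) (nat_lit 221) (nat_lit 5) (nat_lit 285) (nat_lit 279) (nat_lit 216)))) (XT.nd (nat_lit 156) (nat_lit 0) (nat_lit 76) (XT.nd (nat_lit 78) (nat_lit 1140) (nat_lit 0) (XT.lf (nat_lit 0) (nat_lit 11732625216) (nat_lit 1064) (nat_lit 567622178) (nat_lit 1140) (nat_lit 347221433) (nat_lit 207) (nat_lit 5) (nat_lit 221) (nat_lit 5) (nat_lit 222) (nat_lit 5) (nat_lit 286) (nat_lit 279) (nat_lit 215)) (XT.lf (nat_lit 0) (nat_lit 777056931) (nat_lit 1140) (nat_lit 3315364773) (nat_lit 1216) (nat_lit 8873000995) (nat_lit 192) (nat_lit 5) (nat_lit 207) (nat_lit 5) (nat_lit 208) (nat_lit 5) (nat_lit 287) (nat_lit 279) (nat_lit 214))) (XT.nd (nat_lit 78) (nat_lit 0) (nat_lit 0) (XT.lf (nat_lit 0) (nat_lit 2610423196) (nat_lit 1140) (nat_lit 6153805835) (nat_lit 1216) (nat_lit 4532558527)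 (nat_lit 193) (nat_lit 5) (nat_lit 208) (nat_lit 5) (nat_lit 209) (nat_lit 5) (nat_lit 288) (nat_lit 279) (nat_lit 213)) (XT.lf (nat_lit 76) (nat_lit 4563166195) (nat_lit 0) (nat_lit 49965957) (nat_lit 1216) (nat_lit 9029314240) (nat_lit 194) (nat_lit 5) (nat_lit 193) (nat_lit 5) (nat_lit 209) (nat_lit 5) (nat_lit 289) (nat_lit 279) (nat_lit 212))))))) (XT.nd (nat_lit 1014) (nat_lit 3876) (nat_lit 0) (XT.nd (nat_lit 468) (nat_lit 2356) (nat_lit 0) (XT.nd (nat_lit 234) (nat_lit 1748) (nat_lit 0) (XT.nd (nat_lit 78) (nat_lit 608) (nat_lit 0) (XT.lf (nat_lit 0) (nat_lit 1854768180) (nat_lit 1140) (nat_lit 4990274874) (nat_lit 1216) (nat_lit 7156526419) (nat_lit 179) (nat_lit 5) (nat_lit 194) (nat_lit 5) (nat_lit 195) (nat_lit 5) (nat_lit 290) (nat_lit 279) (nat_lit 211)) (XT.nd (nat_lit 78) (nat_lit 608) (nat_lit 0) (XT.lf (nat_lit 0) (nat_lit 9284721538) (nat_lit 1216) (nat_lit 926564893) (nat_lit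 76) (nat_lit 4164527875) (nat_lit 179) (nat_lit 5) (nat_lit 195) (nat_lit 5) (nat_lit 180) (nat_lit 5) (nat_lit 291) (nat_lit 279) (nat_lit 210)) (XT.lf (nat_lit 0) (nat_lit 10985645649) (nat_lit 608) (nat_lit 979974378) (nat_lit 684) (nat_lit 2799622615) (nat_lit 171) (nat_lit 5) (nat_lit 179) (nat_lit 5) (nat_lit 180) (nat_lit 5) (nat_lit 292) (nat_lit 279) (nat_lit 209)))) (XT.nd (nat_lit 78) (nat_lit 1140) (nat_lit 0) (XT.lf (nat_lit 0) (nat_lit 8385528988) (nat_lit 608) (nat_lit 6533766377) (nat_lit 684) (nat_lit 250731113) (nat_lit 163) (nat_lit 5) (nat_lit 171) (nat_lit 5) (nat_lit 172) (nat_lit 5) (nat_lit 293) (nat_lit 279) (nat_lit 208)) (XT.nd (nat_lit 78) (nat_lit 532) (nat_lit 0) (XT.lf (nat_lit 0) (nat_lit 2479016425) (nat_lit 608) (nat_lit 9935034499) (nat_lit 76) (nat_lit 3177319351) (nat_lit 155) (nat_lit 5) (nat_lit 163) (nat_lit 5) (nat_lit 156) (nat_lit 5) (nat_lit 294)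 (nat_lit 279) (nat_lit 207)) (XT.lf (nat_lit 0) (nat_lit 2781313662) (nat_lit 532) (nat_lit 2689076302) (nat_lit 608) (nat_lit 10559447643) (nat_lit 148) (nat_lit 5) (nat_lit 155) (nat_lit 5) (nat_lit 156) (nat_lit 5) (nat_lit 295) (nat_lit 279) (nat_lit 206))))) (XT.nd (nat_lit 234) (nat_lit 1368) (nat_lit 0) (XT.nd (nat_lit 78) (nat_lit 988) (nat_lit 0) (XT.lf (nat_lit 0) (nat_lit 8755241181) (nat_lit 608) (nat_lit 252515368) (nat_lit 76) (nat_lit 7478193099) (nat_lit 148) (nat_lit 5) (nat_lit 156) (nat_lit 5) (nat_lit 149) (nat_lit 5) (nat_lit 296) (nat_lit 279) (nat_lit 205)) (XT.nd (nat_lit 78) (nat_lit 532) (nat_lit 0) (XT.lf (nat_lit 0) (nat_lit 12344221449) (nat_lit 532) (nat_lit 3373274498) (nat_lit 76) (nat_lit 1243211528) (nat_lit 142) (nat_lit 5) (nat_lit 149) (nat_lit 5) (nat_lit 143) (nat_lit 5) (nat_lit 297) (nat_lit 279) (nat_lit 204)) (XT.lf (nat_lit 0) (nat_lit 10752878529)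 (nat_lit 532) (nat_lit 5527630127) (nat_lit 608) (nat_lit 1173693821) (nat_lit 135) (nat_lit 5) (nat_lit 142) (nat_lit 5) (nat_lit 143) (nat_lit 5) (nat_lit 298) (nat_lit 279) (nat_lit 203)))) (XT.nd (nat_lit 156) (nat_lit 380) (nat_lit 0) (XT.nd (nat_lit 78) (nat_lit 456) (nat_lit 0) (XT.lf (nat_lit 0) (nat_lit 2526204826) (nat_lit 532) (nat_lit 10238954182) (nat_lit 76) (nat_lit 5202563480) (nat_lit 128) (nat_lit 5) (nat_lit 135) (nat_lit 5) (nat_lit 129) (nat_lit 5) (nat_lit 299) (nat_lit 279) (nat_lit 202)) (XT.lf (nat_lit 0) (nat_lit 4503972581) (nat_lit 456) (nat_lit 2024587453) (nat_lit 532) (nat_lit 11973788624) (nat_lit 122) (nat_lit 5) (nat_lit 128) (nat_lit 5) (nat_lit 129) (nat_lit 5) (nat_lit 300) (nat_lit 279) (nat_lit 201))) (XT.nd (nat_lit 78) (nat_lit 0) (nat_lit 0) (XT.lf (nat_lit 0) (nat_lit 1036671410) (nat_lit 380) (nat_lit 9873440664) (nat_lit 456) (nat_lit 8148251065)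 (nat_lit 117) (nat_lit 5) (nat_lit 122) (nat_lit 5) (nat_lit 123) (nat_lit 5) (nat_lit 301) (nat_lit 279) (nat_lit 200)) (XT.lf (nat_lit 0) (nat_lit 15663366429) (nat_lit 456) (nat_lit 2586629720) (nat_lit 76) (nat_lit 1387631428) (nat_lit 117) (nat_lit 5) (nat_lit 123) (nat_lit 5) (nat_lit 118) (nat_lit 5) (nat_lit 302) (nat_lit 279) (nat_lit 199)))))) (XT.nd (nat_lit 546) (nat_lit 1596) (nat_lit 0) (XT.nd (nat_lit 234) (nat_lit 1064) (nat_lit 0) (XT.nd (nat_lit 78) (nat_lit 760) (nat_lit 0) (XT.lf (nat_lit 0) (nat_lit 610256692) (nat_lit 456) (nat_lit 6486016609) (nat_lit 76) (nat_lit 13143196071) (nat_lit 111) (nat_lit 5) (nat_lit 117) (nat_lit 5) (nat_lit 112) (nat_lit 5) (nat_lit 303) (nat_lit 279) (nat_lit 198)) (XT.nd (nat_lit 78) (nat_lit 380) (nat_lit 0) (XT.lf (nat_lit 0) (nat_lit 5490154704) (nat_lit 456) (nat_lit 10689067673) (nat_lit 76) (nat_lit 4686574599) (nat_lit 106) (nat_lit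 5) (nat_lit 112) (nat_lit 5) (nat_lit 107) (nat_lit 5) (nat_lit 304) (nat_lit 279) (nat_lit 197)) (XT.lf (nat_lit 0) (nat_lit 6308650065) (nat_lit 380) (nat_lit 4482356030) (nat_lit 456) (nat_lit 10727149572) (nat_lit 101) (nat_lit 5) (nat_lit 106) (nat_lit 5) (nat_lit 107) (nat_lit 5) (nat_lit 305) (nat_lit 279) (nat_lit 196)))) (XT.nd (nat_lit 156) (nat_lit 760) (nat_lit 0) (XT.nd (nat_lit 78) (nat_lit 0) (nat_lit 0) (XT.lf (nat_lit 0) (nat_lit 2116353121) (nat_lit 304) (nat_lit 14425003464) (nat_lit 380) (nat_lit 5656264357) (nat_lit 97) (nat_lit 5) (nat_lit 101) (nat_lit 5) (nat_lit 102) (nat_lit 5) (nat_lit 306) (nat_lit 279) (nat_lit 195)) (XT.lf (nat_lit 0) (nat_lit 20552343339) (nat_lit 304) (nat_lit 2207043458) (nat_lit 380) (nat_lit 146289097) (nat_lit 97) (nat_lit 5) (nat_lit 101) (nat_lit 5) (nat_lit 102) (nat_lit 5) (nat_lit 307) (nat_lit 279) (nat_lit 194))) (XT.nd (nat_lit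 78) (nat_lit 304) (nat_lit 0) (XT.lf (nat_lit 0) (nat_lit 5771503476) (nat_lit 456) (nat_lit 7245678872) (nat_lit 76) (nat_lit 10623073925) (nat_lit 91) (nat_lit 5) (nat_lit 97) (nat_lit 5) (nat_lit 92) (nat_lit 5) (nat_lit 308) (nat_lit 279) (nat_lit 193)) (XT.lf (nat_lit 0) (nat_lit 11899707544) (nat_lit 304) (nat_lit 223853403) (nat_lit 380) (nat_lit 12283737988) (nat_lit 87) (nat_lit 5) (nat_lit 91) (nat_lit 5) (nat_lit 92) (nat_lit 5) (nat_lit 309) (nat_lit 279) (nat_lit 192))))) (XT.nd (nat_lit 234) (nat_lit 912) (nat_lit 0) (XT.nd (nat_lit 78) (nat_lit 380) (nat_lit 0) (XT.lf (nat_lit 0) (nat_lit 6924239532) (nat_lit 304) (nat_lit 12118711222) (nat_lit 380) (nat_lit 6162268941) (nat_lit 83) (nat_lit 5) (nat_lit 87) (nat_lit 5) (nat_lit 88) (nat_lit 5) (nat_lit 310) (nat_lit 279) (nat_lit 191)) (XT.nd (nat_lit 78) (nat_lit 0) (nat_lit 0) (XT.lf (nat_lit 0) (nat_lit 399741498) (nat_lit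 380) (nat_lit 24502398643) (nat_lit 76) (nat_lit 1136647023) (nat_lit 78) (nat_lit 5) (nat_lit 83) (nat_lit 5) (nat_lit 79) (nat_lit 5) (nat_lit 311) (nat_lit 279) (nat_lit 190)) (XT.lf (nat_lit 0) (nat_lit 7457866295) (nat_lit 380) (nat_lit 4393971750) (nat_lit 76) (nat_lit 15051516533) (nat_lit 78) (nat_lit 5) (nat_lit 83) (nat_lit 5) (nat_lit 79) (nat_lit 5) (nat_lit 312) (nat_lit 279) (nat_lit 189)))) (XT.nd (nat_lit 156) (nat_lit 380) (nat_lit 0) (XT.nd (nat_lit 78) (nat_lit 228) (nat_lit 0) (XT.lf (nat_lit 0) (nat_lit 15034687584) (nat_lit 380) (nat_lit 10798589464) (nat_lit 76) (nat_lit 1972914574) (nat_lit 74) (nat_lit 5) (nat_lit 79) (nat_lit 5) (nat_lit 75) (nat_lit 5) (nat_lit 313) (nat_lit 279) (nat_lit 188)) (XT.lf (nat_lit 0) (nat_lit 10886263268) (nat_lit 228) (nat_lit 12357325161) (nat_lit 304) (nat_lit 5502999190) (nat_lit 71) (nat_lit 5) (nat_lit 74) (nat_lit 5) (nat_lit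 75) (nat_lit 5) (nat_lit 314) (nat_lit 279) (nat_lit 187))) (XT.nd (nat_lit 78) (nat_lit 0) (nat_lit 0) (XT.lf (nat_lit 0) (nat_lit 2242446816) (nat_lit 380) (nat_lit 25561706209) (nat_lit 76) (nat_lit 1924597864) (nat_lit 66) (nat_lit 5) (nat_lit 71) (nat_lit 5) (nat_lit 67) (nat_lit 5) (nat_lit 315) (nat_lit 279) (nat_lit 186)) (XT.lf (nat_lit 0) (nat_lit 10556979890) (nat_lit 380) (nat_lit 3291307732) (nat_lit 76) (nat_lit 16901243944) (nat_lit 66) (nat_lit 5) (nat_lit 71) (nat_lit 5) (nat_lit 67) (nat_lit 5) (nat_lit 316) (nat_lit 279) (nat_lit 185))))))))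
noncomputable def xc83 : XT := (XT.nd (nat_lit 2028) (nat_lit 760) (nat_lit 0) (XT.nd (nat_lit 1014) (nat_lit 1292) (nat_lit 0) (XT.nd (nat_lit 468) (nat_lit 912) (nat_lit 0) (XT.nd (nat_lit 234) (nat_lit 380) (nat_lit 0) (XT.nd (nat_lit 78) (nat_lit 532) (nat_lit 0) (XT.lf (nat_lit 0) (nat_lit 19478541363) (nat_lit 304) (nat_lit 11356079935) (nat_lit 76) (nat_lit 981002882) (nat_lit 63) (nat_lit 5) (nat_lit 67) (nat_lit 5) (nat_lit 64) (nat_lit 5) (nat_lit 317) (nat_lit 279) (nat_lit 184)) (XT.nd (nat_lit 78) (nat_lit 304) (nat_lit 0) (XT.lf (nat_lit 0) (nat_lit 12616472690) (nat_lit 228) (nat_lit 16510331673) (nat_lit 304) (nat_lit 3799809744) (nat_lit 60) (nat_lit 5) (nat_lit 63) (nat_lit 5) (nat_lit 64) (nat_lit 5) (nat_lit 318) (nat_lit 279) (nat_lit 183)) (XT.lf (nat_lit 0) (nat_lit 3939408653) (nat_lit 228) (nat_lit 1265763620) (nat_lit 304) (nat_lit 28882253908) (nat_lit 56) (nat_lit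 5) (nat_lit 59) (nat_lit 5) (nat_lit 60) (nat_lit 5) (nat_lit 319) (nat_lit 279) (nat_lit 182)))) (XT.nd (nat_lit 78) (nat_lit 380) (nat_lit 0) (XT.lf (nat_lit 0) (nat_lit 14921490303) (nat_lit 304) (nat_lit 5677971503) (nat_lit 76) (nat_lit 14695508240) (nat_lit 56) (nat_lit 5) (nat_lit 60) (nat_lit 5) (nat_lit 57) (nat_lit 5) (nat_lit 320) (nat_lit 279) (nat_lit 181)) (XT.nd (nat_lit 78) (nat_lit 152) (nat_lit 0) (XT.lf (nat_lit 0) (nat_lit 20379817119) (nat_lit 228) (nat_lit 4939245492) (nat_lit 304) (nat_lit 11237974892) (nat_lit 53) (nat_lit 5) (nat_lit 56) (nat_lit 5) (nat_lit 57) (nat_lit 5) (nat_lit 321) (nat_lit 279) (nat_lit 180)) (XT.lf (nat_lit 0) (nat_lit 10043109937) (nat_lit 152) (nat_lit 26446682912) (nat_lit 228) (nat_lit 1384826200) (nat_lit 51) (nat_lit 5) (nat_lit 53) (nat_lit 5) (nat_lit 54) (nat_lit 5) (nat_lit 322) (nat_lit 279) (nat_lit 179))))) (XT.nd (nat_lit 234)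 (nat_lit 456) (nat_lit 0) (XT.nd (nat_lit 78) (nat_lit 380) (nat_lit 0) (XT.lf (nat_lit 0) (nat_lit 8991568800) (nat_lit 228) (nat_lit 1498283526) (nat_lit 76) (nat_lit 28759488105) (nat_lit 50) (nat_lit 5) (nat_lit 53) (nat_lit 5) (nat_lit 51) (nat_lit 5) (nat_lit 323) (nat_lit 279) (nat_lit 178)) (XT.nd (nat_lit 78) (nat_lit 152) (nat_lit 0) (XT.lf (nat_lit 0) (nat_lit 20165316644) (nat_lit 304) (nat_lit 14109571819) (nat_lit 76) (nat_lit 6408290892) (nat_lit 47) (nat_lit 5) (nat_lit 51) (nat_lit 5) (nat_lit 48) (nat_lit 5) (nat_lit 324) (nat_lit 279) (nat_lit 177)) (XT.lf (nat_lit 0) (nat_lit 14041264581) (nat_lit 152) (nat_lit 18101255402) (nat_lit 228) (nat_lit 10038854827) (nat_lit 45) (nat_lit 5) (nat_lit 47) (nat_lit 5) (nat_lit 48) (nat_lit 5) (nat_lit 325) (nat_lit 279) (nat_lit 176)))) (XT.nd (nat_lit 156) (nat_lit 152) (nat_lit 0) (XT.nd (nat_lit 78) (nat_lit 0) (nat_lit 0) (XT.lf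 (nat_lit 0) (nat_lit 117403581) (nat_lit 228) (nat_lit 964301277) (nat_lit 304) (nat_lit 42668411770) (nat_lit 41) (nat_lit 5) (nat_lit 44) (nat_lit 5) (nat_lit 45) (nat_lit 5) (nat_lit 326) (nat_lit 279) (nat_lit 175)) (XT.lf (nat_lit 0) (nat_lit 12997751939) (nat_lit 304) (nat_lit 15298946314) (nat_lit 76) (nat_lit 17084209812) (nat_lit 41) (nat_lit 5) (nat_lit 45) (nat_lit 5) (nat_lit 42) (nat_lit 5) (nat_lit 327) (nat_lit 279) (nat_lit 174))) (XT.nd (nat_lit 78) (nat_lit 0) (nat_lit 0) (XT.lf (nat_lit 0) (nat_lit 14711430676) (nat_lit 152) (nat_lit 10938751904) (nat_lit 228) (nat_lit 21438845456) (nat_lit 39) (nat_lit 5) (nat_lit 41) (nat_lit 5) (nat_lit 42) (nat_lit 5) (nat_lit 328) (nat_lit 279) (nat_lit 173)) (XT.lf (nat_lit 0) (nat_lit 39154040423) (nat_lit 228) (nat_lit 2424574534) (nat_lit 76) (nat_lit 7297380971) (nat_lit 39) (nat_lit 5) (nat_lit 42) (nat_lit 5) (nat_lit 40) (nat_lit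 5) (nat_lit 329) (nat_lit 279) (nat_lit 172)))))) (XT.nd (nat_lit 468) (nat_lit 532) (nat_lit 0) (XT.nd (nat_lit 234) (nat_lit 380) (nat_lit 0) (XT.nd (nat_lit 78) (nat_lit 152) (nat_lit 0) (XT.lf (nat_lit 0) (nat_lit 2918147909) (nat_lit 228) (nat_lit 21294913694) (nat_lit 76) (nat_lit 26526880127) (nat_lit 36) (nat_lit 5) (nat_lit 39) (nat_lit 5) (nat_lit 37) (nat_lit 5) (nat_lit 330) (nat_lit 279) (nat_lit 171)) (XT.nd (nat_lit 78) (nat_lit 0) (nat_lit 0) (XT.lf (nat_lit 0) (nat_lit 10349955496) (nat_lit 152) (nat_lit 5756215153) (nat_lit 228) (nat_lit 36584522454) (nat_lit 34) (nat_lit 5) (nat_lit 36) (nat_lit 5) (nat_lit 37) (nat_lit 5) (nat_lit 331) (nat_lit 279) (nat_lit 170)) (XT.lf (nat_lit 0) (nat_lit 30296593867) (nat_lit 228) (nat_lit 10859303180) (nat_lit 76) (nat_lit 13572800128) (nat_lit 34) (nat_lit 5) (nat_lit 37) (nat_lit 5) (nat_lit 35) (nat_lit 5) (nat_lit 332) (nat_lit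 279) (nat_lit 169)))) (XT.nd (nat_lit 78) (nat_lit 228) (nat_lit 0) (XT.lf (nat_lit 0) (nat_lit 22563310668) (nat_lit 152) (nat_lit 22899323001) (nat_lit 228) (nat_lit 11397989785) (nat_lit 32) (nat_lit 5) (nat_lit 34) (nat_lit 5) (nat_lit 35) (nat_lit 5) (nat_lit 333) (nat_lit 279) (nat_lit 168)) (XT.nd (nat_lit 78) (nat_lit 152) (nat_lit 0) (XT.lf (nat_lit 0) (nat_lit 2347376508) (nat_lit 228) (nat_lit 1249738736) (nat_lit 76) (nat_lit 55498249815) (nat_lit 31) (nat_lit 5) (nat_lit 34) (nat_lit 5) (nat_lit 32) (nat_lit 5) (nat_lit 334) (nat_lit 279) (nat_lit 167)) (XT.lf (nat_lit 0) (nat_lit 17029424544) (nat_lit 228) (nat_lit 27609205116) (nat_lit 76) (nat_lit 16785278588) (nat_lit 29) (nat_lit 5) (nat_lit 32) (nat_lit 5) (nat_lit 30) (nat_lit 5) (nat_lit 335) (nat_lit 279) (nat_lit 166))))) (XT.nd (nat_lit 234) (nat_lit 304) (nat_lit 0) (XT.nd (nat_lit 78) (nat_lit 76) (nat_lit 0) (XT.lf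 (nat_lit 0) (nat_lit 6873779325) (nat_lit 152) (nat_lit 25679089162) (nat_lit 228) (nat_lit 31312795387) (nat_lit 27) (nat_lit 5) (nat_lit 29) (nat_lit 5) (nat_lit 30) (nat_lit 5) (nat_lit 336) (nat_lit 279) (nat_lit 165)) (XT.nd (nat_lit 78) (nat_lit 76) (nat_lit 0) (XT.lf (nat_lit 0) (nat_lit 43644353632) (nat_lit 152) (nat_lit 5484517953) (nat_lit 228) (nat_lit 17292347973) (nat_lit 27) (nat_lit 5) (nat_lit 29) (nat_lit 5) (nat_lit 30) (nat_lit 5) (nat_lit 337) (nat_lit 279) (nat_lit 164)) (XT.lf (nat_lit 0) (nat_lit 13243175093) (nat_lit 76) (nat_lit 53561404552) (nat_lit 152) (nat_lit 2291849940) (nat_lit 26) (nat_lit 5) (nat_lit 27) (nat_lit 5) (nat_lit 28) (nat_lit 4) (nat_lit 338) (nat_lit 279) (nat_lit 163)))) (XT.nd (nat_lit 156) (nat_lit 76) (nat_lit 0) (XT.nd (nat_lit 78) (nat_lit 152) (nat_lit 0) (XT.lf (nat_lit 0) (nat_lit 13480846890) (nat_lit 152) (nat_lit 20558047598) (nat_lit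 76) (nat_lit 37854083825) (nat_lit 25) (nat_lit 5) (nat_lit 27) (nat_lit 5) (nat_lit 26) (nat_lit 5) (nat_lit 339) (nat_lit 279) (nat_lit 162)) (XT.lf (nat_lit 0) (nat_lit 16794296895) (nat_lit 152) (nat_lit 13355365422) (nat_lit 228) (nat_lit 44674368191) (nat_lit 23) (nat_lit 5) (nat_lit 25) (nat_lit 5) (nat_lit 26) (nat_lit 5) (nat_lit 340) (nat_lit 279) (nat_lit 161))) (XT.nd (nat_lit 78) (nat_lit 76) (nat_lit 0) (XT.lf (nat_lit 0) (nat_lit 47939200037) (nat_lit 228) (nat_lit 21545919771) (nat_lit 76) (nat_lit 8407900162) (nat_lit 23) (nat_lit 5) (nat_lit 26) (nat_lit 5) (nat_lit 24) (nat_lit 4) (nat_lit 341) (nat_lit 279) (nat_lit 160)) (XT.lf (nat_lit 0) (nat_lit 16946530464) (nat_lit 76) (nat_lit 49962883837) (nat_lit 152) (nat_lit 14197311574) (nat_lit 22) (nat_lit 5) (nat_lit 23) (nat_lit 5) (nat_lit 24) (nat_lit 4) (nat_lit 342) (nat_lit 279) (nat_lit 159))))))) (XT.nd (nat_lit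 1014) (nat_lit 0) (nat_lit 0) (XT.nd (nat_lit 468) (nat_lit 456) (nat_lit 0) (XT.nd (nat_lit 234) (nat_lit 76) (nat_lit 0) (XT.nd (nat_lit 78) (nat_lit 152) (nat_lit 0) (XT.lf (nat_lit 0) (nat_lit 2518853438) (nat_lit 152) (nat_lit 26696615179) (nat_lit 76) (nat_lit 55258445458) (nat_lit 21) (nat_lit 5) (nat_lit 23) (nat_lit 5) (nat_lit 22) (nat_lit 5) (nat_lit 343) (nat_lit 279) (nat_lit 158)) (XT.nd (nat_lit 78) (nat_lit 0) (nat_lit 0) (XT.lf (nat_lit 0) (nat_lit 12734636700) (nat_lit 152) (nat_lit 7161651216) (nat_lit 228) (nat_lit 68105386848) (nat_lit 19) (nat_lit 5) (nat_lit 21) (nat_lit 5) (nat_lit 22) (nat_lit 5) (nat_lit 344) (nat_lit 279) (nat_lit 157)) (XT.lf (nat_lit 0) (nat_lit 38567971336) (nat_lit 228) (nat_lit 37169257507) (nat_lit 76) (nat_lit 15955835808) (nat_lit 19) (nat_lit 5) (nat_lit 22) (nat_lit 5) (nat_lit 20) (nat_lit 4) (nat_lit 345) (nat_lit 279) (nat_lit 156))))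 (XT.nd (nat_lit 78) (nat_lit 0) (nat_lit 0) (XT.lf (nat_lit 0) (nat_lit 2805844545) (nat_lit 76) (nat_lit 55461017582) (nat_lit 152) (nat_lit 37299355570) (nat_lit 18) (nat_lit 5) (nat_lit 19) (nat_lit 5) (nat_lit 20) (nat_lit 4) (nat_lit 346) (nat_lit 279) (nat_lit 155)) (XT.nd (nat_lit 78) (nat_lit 0) (nat_lit 0) (XT.lf (nat_lit 0) (nat_lit 45546682140) (nat_lit 76) (nat_lit 33781181972) (nat_lit 152) (nat_lit 20293851535) (nat_lit 18) (nat_lit 5) (nat_lit 19) (nat_lit 5) (nat_lit 20) (nat_lit 4) (nat_lit 347) (nat_lit 279) (nat_lit 154)) (XT.lf (nat_lit 0) (nat_lit 90415278070) (nat_lit 76) (nat_lit 11021439975) (nat_lit 152) (nat_lit 2443428534) (nat_lit 18) (nat_lit 5) (nat_lit 19) (nat_lit 5) (nat_lit 20) (nat_lit 4) (nat_lit 348) (nat_lit 279) (nat_lit 153))))) (XT.nd (nat_lit 234) (nat_lit 152) (nat_lit 0) (XT.nd (nat_lit 78) (nat_lit 76) (nat_lit 0) (XT.lf (nat_lit 0) (nat_lit 16388969413)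 (nat_lit 228) (nat_lit 78878982099) (nat_lit 76) (nat_lit 13066623617) (nat_lit 15) (nat_lit 5) (nat_lit 18) (nat_lit 5) (nat_lit 16) (nat_lit 4) (nat_lit 349) (nat_lit 279) (nat_lit 152)) (XT.nd (nat_lit 78) (nat_lit 76) (nat_lit 0) (XT.lf (nat_lit 0) (nat_lit 36359262661) (nat_lit 228) (nat_lit 38350186619) (nat_lit 76) (nat_lit 38294147666) (nat_lit 15) (nat_lit 5) (nat_lit 18) (nat_lit 5) (nat_lit 16) (nat_lit 4) (nat_lit 350) (nat_lit 279) (nat_lit 151)) (XT.lf (nat_lit 0) (nat_lit 4280192482) (nat_lit 76) (nat_lit 53084370610) (nat_lit 152) (nat_lit 60540413783) (nat_lit 14) (nat_lit 5) (nat_lit 15) (nat_lit 5) (nat_lit 16) (nat_lit 4) (nat_lit 351) (nat_lit 279) (nat_lit 150)))) (XT.nd (nat_lit 156) (nat_lit 152) (nat_lit 0) (XT.nd (nat_lit 78) (nat_lit 0) (nat_lit 0) (XT.lf (nat_lit 0) (nat_lit 49835358677) (nat_lit 76) (nat_lit 29975043157) (nat_lit 152) (nat_lit 43229317478) (nat_lit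 14) (nat_lit 5) (nat_lit 15) (nat_lit 5) (nat_lit 16) (nat_lit 4) (nat_lit 352) (nat_lit 279) (nat_lit 149)) (XT.lf (nat_lit 0) (nat_lit 97660532737) (nat_lit 76) (nat_lit 5713706402) (nat_lit 152) (nat_lit 25057090163) (nat_lit 14) (nat_lit 5) (nat_lit 15) (nat_lit 5) (nat_lit 16) (nat_lit 4) (nat_lit 353) (nat_lit 279) (nat_lit 148))) (XT.nd (nat_lit 78) (nat_lit 76) (nat_lit 0) (XT.lf (nat_lit 0) (nat_lit 13857428187) (nat_lit 76) (nat_lit 114577877531) (nat_lit 76) (nat_lit 5647644503) (nat_lit 13) (nat_lit 4) (nat_lit 14) (nat_lit 5) (nat_lit 14) (nat_lit 4) (nat_lit 354) (nat_lit 279) (nat_lit 147)) (XT.lf (nat_lit 0) (nat_lit 14818322825) (nat_lit 152) (nat_lit 78857329234) (nat_lit 76) (nat_lit 46326047220) (nat_lit 12) (nat_lit 5) (nat_lit 14) (nat_lit 5) (nat_lit 13) (nat_lit 4) (nat_lit 355) (nat_lit 279) (nat_lit 146)))))) (XT.nd (nat_lit 35178) (nat_lit 0) (nat_lit 12692) (XT.nd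 (nat_lit 34866) (nat_lit 0) (nat_lit 14516) (XT.nd (nat_lit 34710) (nat_lit 0) (nat_lit 14440) (XT.lf (nat_lit 0) (nat_lit 36188029350) (nat_lit 152) (nat_lit 35484721696) (nat_lit 76) (nat_lit 74542041309) (nat_lit 12) (nat_lit 5) (nat_lit 14) (nat_lit 5) (nat_lit 13) (nat_lit 4) (nat_lit 356) (nat_lit 279) (nat_lit 145)) (XT.nd (nat_lit 78) (nat_lit 0) (nat_lit 0) (XT.lf (nat_lit 0) (nat_lit 1944984764) (nat_lit 1140) (nat_lit 1834888510) (nat_lit 1140) (nat_lit 1834888510) (nat_lit 202) (nat_lit 3) (nat_lit 217) (nat_lit 3) (nat_lit 217) (nat_lit 5) (nat_lit 280) (nat_lit 280) (nat_lit 220)) (XT.lf (nat_lit 76) (nat_lit 4829014525) (nat_lit 0) (nat_lit 52835508) (nat_lit 1140) (nat_lit 6600365946) (nat_lit 203) (nat_lit 5) (nat_lit 202) (nat_lit 3) (nat_lit 217) (nat_lit 5) (nat_lit 281) (nat_lit 280) (nat_lit 219)))) (XT.nd (nat_lit 156) (nat_lit 0) (nat_lit 152) (XT.nd (nat_lit 78) (nat_lit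 0) (nat_lit 76) (XT.lf (nat_lit 76) (nat_lit 2016208950) (nat_lit 0) (nat_lit 3985588353) (nat_lit 1140) (nat_lit 5743468769) (nat_lit 204) (nat_lit 5) (nat_lit 203) (nat_lit 5) (nat_lit 218) (nat_lit 5) (nat_lit 282) (nat_lit 280) (nat_lit 218)) (XT.lf (nat_lit 0) (nat_lit 7233509401) (nat_lit 1064) (nat_lit 831871372) (nat_lit 1140) (nat_lit 3954488443) (nat_lit 204) (nat_lit 5) (nat_lit 218) (nat_lit 5) (nat_lit 219) (nat_lit 5) (nat_lit 283) (nat_lit 280) (nat_lit 217))) (XT.nd (nat_lit 78) (nat_lit 0) (nat_lit 0) (XT.lf (nat_lit 0) (nat_lit 8600514066) (nat_lit 1064) (nat_lit 3698214945) (nat_lit 1140) (nat_lit 7332361) (nat_lit 205) (nat_lit 5) (nat_lit 219) (nat_lit 5) (nat_lit 220) (nat_lit 5) (nat_lit 284) (nat_lit 280) (nat_lit 216)) (XT.lf (nat_lit 76) (nat_lit 5934136908) (nat_lit 0) (nat_lit 4201735169) (nat_lit 1140) (nat_lit 2467757694) (nat_lit 206) (nat_lit 5) (nat_lit 205)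 (nat_lit 5) (nat_lit 220) (nat_lit 5) (nat_lit 285) (nat_lit 280) (nat_lit 215))))) (XT.nd (nat_lit 234) (nat_lit 912) (nat_lit 0) (XT.nd (nat_lit 78) (nat_lit 1140) (nat_lit 0) (XT.lf (nat_lit 76) (nat_lit 3199701496) (nat_lit 0) (nat_lit 8613843938) (nat_lit 1140) (nat_lit 1100628283) (nat_lit 207) (nat_lit 5) (nat_lit 206) (nat_lit 5) (nat_lit 221) (nat_lit 5) (nat_lit 286) (nat_lit 280) (nat_lit 214)) (XT.nd (nat_lit 78) (nat_lit 0) (nat_lit 76) (XT.lf (nat_lit 76) (nat_lit 393409817) (nat_lit 0) (nat_lit 6810600) (nat_lit 1216) (nat_lit 12837829726) (nat_lit 192) (nat_lit 5) (nat_lit 191) (nat_lit 5) (nat_lit 207) (nat_lit 5) (nat_lit 287) (nat_lit 280) (nat_lit 213)) (XT.lf (nat_lit 0) (nat_lit 2099621471) (nat_lit 1140) (nat_lit 2496355834) (nat_lit 1216) (nat_lit 8977483953) (nat_lit 192) (nat_lit 5) (nat_lit 207) (nat_lit 5) (nat_lit 208) (nat_lit 5) (nat_lit 288) (nat_lit 280) (nat_lit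 212)))) (XT.nd (nat_lit 156) (nat_lit 1064) (nat_lit 0) (XT.nd (nat_lit 78) (nat_lit 0) (nat_lit 0) (XT.lf (nat_lit 0) (nat_lit 3970076186) (nat_lit 1140) (nat_lit 5463709136) (nat_lit 1216) (nat_lit 4489328398) (nat_lit 193) (nat_lit 5) (nat_lit 208) (nat_lit 5) (nat_lit 209) (nat_lit 5) (nat_lit 289) (nat_lit 280) (nat_lit 211)) (XT.lf (nat_lit 76) (nat_lit 5760510131) (nat_lit 0) (nat_lit 263196776) (nat_lit 1216) (nat_lit 8263903059) (nat_lit 194) (nat_lit 5) (nat_lit 193) (nat_lit 5) (nat_lit 209) (nat_lit 5) (nat_lit 290) (nat_lit 280) (nat_lit 210))) (XT.nd (nat_lit 78) (nat_lit 0) (nat_lit 0) (XT.lf (nat_lit 0) (nat_lit 2926777658) (nat_lit 1140) (nat_lit 5391733241) (nat_lit 1216) (nat_lit 6347713718) (nat_lit 179) (nat_lit 5) (nat_lit 194) (nat_lit 5) (nat_lit 195) (nat_lit 5) (nat_lit 291) (nat_lit 280) (nat_lit 209)) (XT.lf (nat_lit 0) (nat_lit 10824914861) (nat_lit 1216) (nat_lit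 5126487) (nat_lit 76) (nat_lit 4230868900) (nat_lit 179) (nat_lit 5) (nat_lit 195) (nat_lit 5) (nat_lit 180) (nat_lit 5) (nat_lit 292) (nat_lit 280) (nat_lit 208))))))))
noncomputable def xc84 : XT := (XT.nd (nat_lit 2028) (nat_lit 3344) (nat_lit 0) (XT.nd (nat_lit 1014) (nat_lit 3268) (nat_lit 0) (XT.nd (nat_lit 468) (nat_lit 2736) (nat_lit 0) (XT.nd (nat_lit 234) (nat_lit 988) (nat_lit 0) (XT.nd (nat_lit 78) (nat_lit 1216) (nat_lit 0) (XT.lf (nat_lit 0) (nat_lit 12474953745) (nat_lit 608) (nat_lit 1122704573) (nat_lit 684) (nat_lit 1873485113) (nat_lit 171) (nat_lit 5) (nat_lit 179) (nat_lit 5) (nat_lit 180) (nat_lit 5) (nat_lit 293) (nat_lit 280) (nat_lit 207)) (XT.nd (nat_lit 78) (nat_lit 532) (nat_lit 0) (XT.lf (nat_lit 0) (nat_lit 745718592) (nat_lit 684) (nat_lit 6154577068) (nat_lit 76) (nat_lit 8996945601) (nat_lit 162) (nat_lit 5) (nat_lit 171) (nat_lit 5) (nat_lit 163) (nat_lit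 5) (nat_lit 294) (nat_lit 280) (nat_lit 206)) (XT.lf (nat_lit 0) (nat_lit 3567787707) (nat_lit 608) (nat_lit 9462488141) (nat_lit 76) (nat_lit 3310530713) (nat_lit 155) (nat_lit 5) (nat_lit 163) (nat_lit 5) (nat_lit 156) (nat_lit 5) (nat_lit 295) (nat_lit 280) (nat_lit 205)))) (XT.nd (nat_lit 78) (nat_lit 456) (nat_lit 0) (XT.lf (nat_lit 0) (nat_lit 3861892693) (nat_lit 532) (nat_lit 2809943801) (nat_lit 608) (nat_lit 10130524122) (nat_lit 148) (nat_lit 5) (nat_lit 155) (nat_lit 5) (nat_lit 156) (nat_lit 5) (nat_lit 296) (nat_lit 280) (nat_lit 204)) (XT.nd (nat_lit 78) (nat_lit 0) (nat_lit 0) (XT.lf (nat_lit 0) (nat_lit 672118719) (nat_lit 456) (nat_lit 9411209748) (nat_lit 532) (nat_lit 7199131707) (nat_lit 142) (nat_lit 5) (nat_lit 148) (nat_lit 5) (nat_lit 149) (nat_lit 5) (nat_lit 297) (nat_lit 280) (nat_lit 203)) (XT.lf (nat_lit 0) (nat_lit 13812291142) (nat_lit 532) (nat_lit 2618200390)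 (nat_lit 76) (nat_lit 1351699652) (nat_lit 142) (nat_lit 5) (nat_lit 149) (nat_lit 5) (nat_lit 143) (nat_lit 5) (nat_lit 298) (nat_lit 280) (nat_lit 202))))) (XT.nd (nat_lit 234) (nat_lit 1216) (nat_lit 0) (XT.nd (nat_lit 78) (nat_lit 988) (nat_lit 0) (XT.lf (nat_lit 0) (nat_lit 12187781528) (nat_lit 532) (nat_lit 5725719107) (nat_lit 608) (nat_lit 387865916) (nat_lit 135) (nat_lit 5) (nat_lit 142) (nat_lit 5) (nat_lit 143) (nat_lit 5) (nat_lit 299) (nat_lit 280) (nat_lit 201)) (XT.nd (nat_lit 78) (nat_lit 456) (nat_lit 0) (XT.lf (nat_lit 0) (nat_lit 3450536393) (nat_lit 532) (nat_lit 9838494203) (nat_lit 76) (nat_lit 5552233952) (nat_lit 128) (nat_lit 5) (nat_lit 135) (nat_lit 5) (nat_lit 129) (nat_lit 5) (nat_lit 300) (nat_lit 280) (nat_lit 200)) (XT.lf (nat_lit 0) (nat_lit 5615424915) (nat_lit 456) (nat_lit 2008102644) (nat_lit 532) (nat_lit 11780021943) (nat_lit 122) (nat_lit 5) (nat_lit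 128) (nat_lit 5) (nat_lit 129) (nat_lit 5) (nat_lit 301) (nat_lit 280) (nat_lit 199)))) (XT.nd (nat_lit 156) (nat_lit 836) (nat_lit 0) (XT.nd (nat_lit 78) (nat_lit 0) (nat_lit 0) (XT.lf (nat_lit 0) (nat_lit 1971486320) (nat_lit 380) (nat_lit 10225639176) (nat_lit 456) (nat_lit 7791091134) (nat_lit 117) (nat_lit 5) (nat_lit 122) (nat_lit 5) (nat_lit 123) (nat_lit 5) (nat_lit 302) (nat_lit 280) (nat_lit 198)) (XT.lf (nat_lit 0) (nat_lit 17154027844) (nat_lit 456) (nat_lit 1854355419) (nat_lit 76) (nat_lit 1589120489) (nat_lit 117) (nat_lit 5) (nat_lit 123) (nat_lit 5) (nat_lit 118) (nat_lit 5) (nat_lit 303) (nat_lit 280) (nat_lit 197))) (XT.nd (nat_lit 78) (nat_lit 380) (nat_lit 0) (XT.lf (nat_lit 0) (nat_lit 1330097059) (nat_lit 456) (nat_lit 5958968839) (nat_lit 76) (nat_lit 13940975516) (nat_lit 111) (nat_lit 5) (nat_lit 117) (nat_lit 5) (nat_lit 112) (nat_lit 5) (nat_lit 304) (nat_lit 280)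 (nat_lit 196)) (XT.lf (nat_lit 0) (nat_lit 6430675936) (nat_lit 456) (nat_lit 10377517394) (nat_lit 76) (nat_lit 5080225850) (nat_lit 106) (nat_lit 5) (nat_lit 112) (nat_lit 5) (nat_lit 107) (nat_lit 5) (nat_lit 305) (nat_lit 280) (nat_lit 195)))))) (XT.nd (nat_lit 468) (nat_lit 1520) (nat_lit 0) (XT.nd (nat_lit 234) (nat_lit 988) (nat_lit 0) (XT.nd (nat_lit 78) (nat_lit 380) (nat_lit 0) (XT.lf (nat_lit 0) (nat_lit 7445835706) (nat_lit 380) (nat_lit 4526918456) (nat_lit 456) (nat_lit 10601388842) (nat_lit 101) (nat_lit 5) (nat_lit 106) (nat_lit 5) (nat_lit 107) (nat_lit 5) (nat_lit 306) (nat_lit 280) (nat_lit 194)) (XT.nd (nat_lit 78) (nat_lit 76) (nat_lit 0) (XT.lf (nat_lit 0) (nat_lit 3038041435) (nat_lit 304) (nat_lit 14951486349) (nat_lit 380) (nat_lit 5298717757) (nat_lit 97) (nat_lit 5) (nat_lit 101) (nat_lit 5) (nat_lit 102) (nat_lit 5) (nat_lit 307) (nat_lit 280) (nat_lit 193)) (XT.lf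 (nat_lit 0) (nat_lit 447359606) (nat_lit 380) (nat_lit 1680025915) (nat_lit 76) (nat_lit 21905103119) (nat_lit 96) (nat_lit 5) (nat_lit 101) (nat_lit 5) (nat_lit 97) (nat_lit 5) (nat_lit 308) (nat_lit 280) (nat_lit 192)))) (XT.nd (nat_lit 78) (nat_lit 608) (nat_lit 0) (XT.lf (nat_lit 0) (nat_lit 6638767900) (nat_lit 456) (nat_lit 6825068460) (nat_lit 76) (nat_lit 11340523124) (nat_lit 91) (nat_lit 5) (nat_lit 97) (nat_lit 5) (nat_lit 92) (nat_lit 5) (nat_lit 309) (nat_lit 280) (nat_lit 191)) (XT.nd (nat_lit 78) (nat_lit 304) (nat_lit 0) (XT.lf (nat_lit 0) (nat_lit 13255145768) (nat_lit 304) (nat_lit 33035784) (nat_lit 380) (nat_lit 12322206267) (nat_lit 87) (nat_lit 5) (nat_lit 91) (nat_lit 5) (nat_lit 92) (nat_lit 5) (nat_lit 310) (nat_lit 280) (nat_lit 190)) (XT.lf (nat_lit 0) (nat_lit 8024000790) (nat_lit 304) (nat_lit 12512040510) (nat_lit 380) (nat_lit 5912713198) (nat_lit 83) (nat_lit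 5) (nat_lit 87) (nat_lit 5) (nat_lit 88) (nat_lit 5) (nat_lit 311) (nat_lit 280) (nat_lit 189))))) (XT.nd (nat_lit 234) (nat_lit 836) (nat_lit 0) (XT.nd (nat_lit 78) (nat_lit 304) (nat_lit 0) (XT.lf (nat_lit 0) (nat_lit 949687856) (nat_lit 380) (nat_lit 24970300422) (nat_lit 76) (nat_lit 1404379095) (nat_lit 78) (nat_lit 5) (nat_lit 83) (nat_lit 5) (nat_lit 79) (nat_lit 5) (nat_lit 312) (nat_lit 280) (nat_lit 188)) (XT.nd (nat_lit 78) (nat_lit 304) (nat_lit 0) (XT.lf (nat_lit 0) (nat_lit 8335482736) (nat_lit 380) (nat_lit 3892510191) (nat_lit 76) (nat_lit 16004949236) (nat_lit 78) (nat_lit 5) (nat_lit 83) (nat_lit 5) (nat_lit 79) (nat_lit 5) (nat_lit 313) (nat_lit 280) (nat_lit 187)) (XT.lf (nat_lit 0) (nat_lit 16275892297) (nat_lit 380) (nat_lit 10625038587) (nat_lit 76) (nat_lit 2280468639) (nat_lit 74) (nat_lit 5) (nat_lit 79) (nat_lit 5) (nat_lit 75) (nat_lit 5) (nat_lit 314) (nat_lit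 280) (nat_lit 186)))) (XT.nd (nat_lit 156) (nat_lit 228) (nat_lit 0) (XT.nd (nat_lit 78) (nat_lit 380) (nat_lit 0) (XT.lf (nat_lit 0) (nat_lit 12123605011) (nat_lit 228) (nat_lit 12754986877) (nat_lit 304) (nat_lit 5290742705) (nat_lit 71) (nat_lit 5) (nat_lit 74) (nat_lit 5) (nat_lit 75) (nat_lit 5) (nat_lit 315) (nat_lit 280) (nat_lit 185)) (XT.lf (nat_lit 0) (nat_lit 2818395995) (nat_lit 380) (nat_lit 26144921344) (nat_lit 76) (nat_lit 2237588573) (nat_lit 66) (nat_lit 5) (nat_lit 71) (nat_lit 5) (nat_lit 67) (nat_lit 5) (nat_lit 316) (nat_lit 280) (nat_lit 184))) (XT.nd (nat_lit 78) (nat_lit 228) (nat_lit 0) (XT.lf (nat_lit 0) (nat_lit 11526568730) (nat_lit 380) (nat_lit 2794091998) (nat_lit 76) (nat_lit 17952745014) (nat_lit 66) (nat_lit 5) (nat_lit 71) (nat_lit 5) (nat_lit 67) (nat_lit 5) (nat_lit 317) (nat_lit 280) (nat_lit 183)) (XT.lf (nat_lit 0) (nat_lit 20881427769) (nat_lit 304)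 (nat_lit 11270008221) (nat_lit 76) (nat_lit 1241767088) (nat_lit 63) (nat_lit 5) (nat_lit 67) (nat_lit 5) (nat_lit 64) (nat_lit 5) (nat_lit 318) (nat_lit 280) (nat_lit 182))))))) (XT.nd (nat_lit 1014) (nat_lit 1292) (nat_lit 0) (XT.nd (nat_lit 468) (nat_lit 1064) (nat_lit 0) (XT.nd (nat_lit 234) (nat_lit 456) (nat_lit 0) (XT.nd (nat_lit 78) (nat_lit 304) (nat_lit 0) (XT.lf (nat_lit 0) (nat_lit 13882428818) (nat_lit 228) (nat_lit 17115353748) (nat_lit 304) (nat_lit 3562405459) (nat_lit 60) (nat_lit 5) (nat_lit 63) (nat_lit 5) (nat_lit 64) (nat_lit 5) (nat_lit 319) (nat_lit 280) (nat_lit 181)) (XT.nd (nat_lit 78) (nat_lit 0) (nat_lit 0) (XT.lf (nat_lit 0) (nat_lit 4761706137) (nat_lit 228) (nat_lit 1108835549) (nat_lit 304) (nat_lit 29908808770) (nat_lit 56) (nat_lit 5) (nat_lit 59) (nat_lit 5) (nat_lit 60) (nat_lit 5) (nat_lit 320) (nat_lit 280) (nat_lit 180)) (XT.lf (nat_lit 0) (nat_lit 16055400677)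 (nat_lit 304) (nat_lit 5356482238) (nat_lit 76) (nat_lit 15635920834) (nat_lit 56) (nat_lit 5) (nat_lit 60) (nat_lit 5) (nat_lit 57) (nat_lit 5) (nat_lit 321) (nat_lit 280) (nat_lit 179)))) (XT.nd (nat_lit 78) (nat_lit 228) (nat_lit 0) (XT.lf (nat_lit 0) (nat_lit 21986842494) (nat_lit 228) (nat_lit 4973193280) (nat_lit 304) (nat_lit 11413336600) (nat_lit 53) (nat_lit 5) (nat_lit 56) (nat_lit 5) (nat_lit 57) (nat_lit 5) (nat_lit 322) (nat_lit 280) (nat_lit 178)) (XT.nd (nat_lit 78) (nat_lit 76) (nat_lit 0) (XT.lf (nat_lit 0) (nat_lit 11125642003) (nat_lit 152) (nat_lit 27553331478) (nat_lit 228) (nat_lit 1078182072) (nat_lit 51) (nat_lit 5) (nat_lit 53) (nat_lit 5) (nat_lit 54) (nat_lit 5) (nat_lit 323) (nat_lit 280) (nat_lit 177)) (XT.lf (nat_lit 0) (nat_lit 9792147772) (nat_lit 228) (nat_lit 1013237915) (nat_lit 76) (nat_lit 30395657151) (nat_lit 50) (nat_lit 5) (nat_lit 53) (nat_lit 5)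 (nat_lit 51) (nat_lit 5) (nat_lit 324) (nat_lit 280) (nat_lit 176))))) (XT.nd (nat_lit 234) (nat_lit 380) (nat_lit 0) (XT.nd (nat_lit 78) (nat_lit 456) (nat_lit 0) (XT.lf (nat_lit 0) (nat_lit 21515061841) (nat_lit 304) (nat_lit 14262697654) (nat_lit 76) (nat_lit 6929111020) (nat_lit 47) (nat_lit 5) (nat_lit 51) (nat_lit 5) (nat_lit 48) (nat_lit 5) (nat_lit 325) (nat_lit 280) (nat_lit 175)) (XT.nd (nat_lit 78) (nat_lit 304) (nat_lit 0) (XT.lf (nat_lit 0) (nat_lit 15279847485) (nat_lit 152) (nat_lit 18800174294) (nat_lit 228) (nat_lit 10200297710) (nat_lit 45) (nat_lit 5) (nat_lit 47) (nat_lit 5) (nat_lit 48) (nat_lit 5) (nat_lit 326) (nat_lit 280) (nat_lit 174)) (XT.lf (nat_lit 0) (nat_lit 651068794) (nat_lit 228) (nat_lit 807752396) (nat_lit 304) (nat_lit 44468913585) (nat_lit 41) (nat_lit 5) (nat_lit 44) (nat_lit 5) (nat_lit 45) (nat_lit 5) (nat_lit 327) (nat_lit 280) (nat_lit 173)))) (XT.nd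 (nat_lit 156) (nat_lit 228) (nat_lit 0) (XT.nd (nat_lit 78) (nat_lit 152) (nat_lit 0) (XT.lf (nat_lit 0) (nat_lit 13957162780) (nat_lit 304) (nat_lit 15553689437) (nat_lit 76) (nat_lit 18129628172) (nat_lit 41) (nat_lit 5) (nat_lit 45) (nat_lit 5) (nat_lit 42) (nat_lit 5) (nat_lit 328) (nat_lit 280) (nat_lit 172)) (XT.lf (nat_lit 0) (nat_lit 15942581502) (nat_lit 152) (nat_lit 11289658060) (nat_lit 228) (nat_lit 22202074980) (nat_lit 39) (nat_lit 5) (nat_lit 41) (nat_lit 5) (nat_lit 42) (nat_lit 5) (nat_lit 329) (nat_lit 280) (nat_lit 171))) (XT.nd (nat_lit 78) (nat_lit 228) (nat_lit 0) (XT.lf (nat_lit 0) (nat_lit 41398820756) (nat_lit 228) (nat_lit 2066889153) (nat_lit 76) (nat_lit 7845303505) (nat_lit 39) (nat_lit 5) (nat_lit 42) (nat_lit 5) (nat_lit 40) (nat_lit 5) (nat_lit 330) (nat_lit 280) (nat_lit 170)) (XT.lf (nat_lit 0) (nat_lit 3344844866) (nat_lit 228) (nat_lit 21888727830) (nat_lit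 76) (nat_lit 28034785279) (nat_lit 36) (nat_lit 5) (nat_lit 39) (nat_lit 5) (nat_lit 37) (nat_lit 5) (nat_lit 331) (nat_lit 280) (nat_lit 169)))))) (XT.nd (nat_lit 546) (nat_lit 608) (nat_lit 0) (XT.nd (nat_lit 234) (nat_lit 380) (nat_lit 0) (XT.nd (nat_lit 78) (nat_lit 152) (nat_lit 0) (XT.lf (nat_lit 0) (nat_lit 11324885660) (nat_lit 152) (nat_lit 5858409271) (nat_lit 228) (nat_lit 38133628684) (nat_lit 34) (nat_lit 5) (nat_lit 36) (nat_lit 5) (nat_lit 37) (nat_lit 5) (nat_lit 332) (nat_lit 280) (nat_lit 168)) (XT.nd (nat_lit 78) (nat_lit 152) (nat_lit 0) (XT.lf (nat_lit 0) (nat_lit 32071995000) (nat_lit 228) (nat_lit 10960409032) (nat_lit 76) (nat_lit 14424768315) (nat_lit 34) (nat_lit 5) (nat_lit 37) (nat_lit 5) (nat_lit 35) (nat_lit 5) (nat_lit 333) (nat_lit 280) (nat_lit 167)) (XT.lf (nat_lit 0) (nat_lit 24120669700) (nat_lit 152) (nat_lit 23867384598) (nat_lit 228) (nat_lit 11707895905)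 (nat_lit 32) (nat_lit 5) (nat_lit 34) (nat_lit 5) (nat_lit 35) (nat_lit 5) (nat_lit 334) (nat_lit 280) (nat_lit 166)))) (XT.nd (nat_lit 156) (nat_lit 152) (nat_lit 0) (XT.nd (nat_lit 78) (nat_lit 152) (nat_lit 0) (XT.lf (nat_lit 0) (nat_lit 2707526250) (nat_lit 228) (nat_lit 898512619) (nat_lit 76) (nat_lit 58436685491) (nat_lit 31) (nat_lit 5) (nat_lit 34) (nat_lit 5) (nat_lit 32) (nat_lit 5) (nat_lit 335) (nat_lit 280) (nat_lit 165)) (XT.lf (nat_lit 0) (nat_lit 18117581666) (nat_lit 228) (nat_lit 28582242395) (nat_lit 76) (nat_lit 17788059475) (nat_lit 29) (nat_lit 5) (nat_lit 32) (nat_lit 5) (nat_lit 30) (nat_lit 5) (nat_lit 336) (nat_lit 280) (nat_lit 164))) (XT.nd (nat_lit 78) (nat_lit 0) (nat_lit 0) (XT.lf (nat_lit 0) (nat_lit 7613212570) (nat_lit 152) (nat_lit 26796518615) (nat_lit 228) (nat_lit 32642225448) (nat_lit 27) (nat_lit 5) (nat_lit 29) (nat_lit 5) (nat_lit 30) (nat_lit 5)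 (nat_lit 337) (nat_lit 280) (nat_lit 163)) (XT.lf (nat_lit 0) (nat_lit 46203470627) (nat_lit 152) (nat_lit 5600148608) (nat_lit 228) (nat_lit 17932003745) (nat_lit 27) (nat_lit 5) (nat_lit 29) (nat_lit 5) (nat_lit 30) (nat_lit 5) (nat_lit 338) (nat_lit 280) (nat_lit 162))))) (XT.nd (nat_lit 234) (nat_lit 304) (nat_lit 0) (XT.nd (nat_lit 78) (nat_lit 228) (nat_lit 0) (XT.lf (nat_lit 0) (nat_lit 14276415321) (nat_lit 76) (nat_lit 56081320925) (nat_lit 152) (nat_lit 2187023719) (nat_lit 26) (nat_lit 5) (nat_lit 27) (nat_lit 5) (nat_lit 28) (nat_lit 4) (nat_lit 339) (nat_lit 280) (nat_lit 161)) (XT.nd (nat_lit 78) (nat_lit 152) (nat_lit 0) (XT.lf (nat_lit 0) (nat_lit 14359781680) (nat_lit 152) (nat_lit 21228365802) (nat_lit 76) (nat_lit 39893237485) (nat_lit 25) (nat_lit 5) (nat_lit 27) (nat_lit 5) (nat_lit 26) (nat_lit 5) (nat_lit 340) (nat_lit 280) (nat_lit 160)) (XT.lf (nat_lit 0) (nat_lit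 17981345837) (nat_lit 152) (nat_lit 13874274046) (nat_lit 228) (nat_lit 46703566975) (nat_lit 23) (nat_lit 5) (nat_lit 25) (nat_lit 5) (nat_lit 26) (nat_lit 5) (nat_lit 341) (nat_lit 280) (nat_lit 159)))) (XT.nd (nat_lit 156) (nat_lit 228) (nat_lit 0) (XT.nd (nat_lit 78) (nat_lit 76) (nat_lit 0) (XT.lf (nat_lit 0) (nat_lit 50526546116) (nat_lit 228) (nat_lit 22288026863) (nat_lit 76) (nat_lit 8967299798) (nat_lit 23) (nat_lit 5) (nat_lit 26) (nat_lit 5) (nat_lit 24) (nat_lit 4) (nat_lit 342) (nat_lit 280) (nat_lit 158)) (XT.lf (nat_lit 0) (nat_lit 18119437762) (nat_lit 76) (nat_lit 52319897009) (nat_lit 152) (nat_lit 14717111419) (nat_lit 22) (nat_lit 5) (nat_lit 23) (nat_lit 5) (nat_lit 24) (nat_lit 4) (nat_lit 343) (nat_lit 280) (nat_lit 157))) (XT.nd (nat_lit 78) (nat_lit 152) (nat_lit 0) (XT.lf (nat_lit 0) (nat_lit 2822278840) (nat_lit 152) (nat_lit 27717760486) (nat_lit 76) (nat_lit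 58152169701) (nat_lit 21) (nat_lit 5) (nat_lit 23) (nat_lit 5) (nat_lit 22) (nat_lit 5) (nat_lit 344) (nat_lit 280) (nat_lit 156)) (XT.lf (nat_lit 0) (nat_lit 13676062257) (nat_lit 152) (nat_lit 7387000129) (nat_lit 228) (nat_lit 71333464677) (nat_lit 19) (nat_lit 5) (nat_lit 21) (nat_lit 5) (nat_lit 22) (nat_lit 5) (nat_lit 345) (nat_lit 280) (nat_lit 155))))))))
noncomputable def xc85 : XT := (XT.nd (nat_lit 36738) (nat_lit 0) (nat_lit 3344) (XT.nd (nat_lit 35724) (nat_lit 0) (nat_lit 11400) (XT.nd (nat_lit 468) (nat_lit 228) (nat_lit 0) (XT.nd (nat_lit 234) (nat_lit 228) (nat_lit 0) (XT.nd (nat_lit 78) (nat_lit 76) (nat_lit 0) (XT.lf (nat_lit 0) (nat_lit 40661356561) (nat_lit 228) (nat_lit 38733768721) (nat_lit 76) (nat_lit 16877573823) (nat_lit 19) (nat_lit 5) (nat_lit 22) (nat_lit 5) (nat_lit 20) (nat_lit 4) (nat_lit 346) (nat_lit 280) (nat_lit 154)) (XT.nd (nat_lit 78) (nat_lit 0) (nat_lit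 0) (XT.lf (nat_lit 0) (nat_lit 3231662369) (nat_lit 76) (nat_lit 58108417662) (nat_lit 152) (nat_lit 38999586423) (nat_lit 18) (nat_lit 5) (nat_lit 19) (nat_lit 5) (nat_lit 20) (nat_lit 4) (nat_lit 347) (nat_lit 280) (nat_lit 153)) (XT.lf (nat_lit 0) (nat_lit 48095945386) (nat_lit 76) (nat_lit 35350573642) (nat_lit 152) (nat_lit 21151651801) (nat_lit 18) (nat_lit 5) (nat_lit 19) (nat_lit 5) (nat_lit 20) (nat_lit 4) (nat_lit 348) (nat_lit 280) (nat_lit 152)))) (XT.nd (nat_lit 78) (nat_lit 228) (nat_lit 0) (XT.lf (nat_lit 0) (nat_lit 95195022106) (nat_lit 76) (nat_lit 11458542995) (nat_lit 152) (nat_lit 2416178713) (nat_lit 18) (nat_lit 5) (nat_lit 19) (nat_lit 5) (nat_lit 20) (nat_lit 4) (nat_lit 349) (nat_lit 280) (nat_lit 151)) (XT.nd (nat_lit 78) (nat_lit 0) (nat_lit 0) (XT.lf (nat_lit 0) (nat_lit 17351473946) (nat_lit 228) (nat_lit 82565252789) (nat_lit 76) (nat_lit 13830230214) (nat_lit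 15) (nat_lit 5) (nat_lit 18) (nat_lit 5) (nat_lit 16) (nat_lit 4) (nat_lit 350) (nat_lit 280) (nat_lit 150)) (XT.lf (nat_lit 0) (nat_lit 38313469662) (nat_lit 228) (nat_lit 40022287936) (nat_lit 76) (nat_lit 40313879255) (nat_lit 15) (nat_lit 5) (nat_lit 18) (nat_lit 5) (nat_lit 16) (nat_lit 4) (nat_lit 351) (nat_lit 280) (nat_lit 149))))) (XT.nd (nat_lit 234) (nat_lit 152) (nat_lit 0) (XT.nd (nat_lit 78) (nat_lit 0) (nat_lit 0) (XT.lf (nat_lit 0) (nat_lit 4732575549) (nat_lit 76) (nat_lit 55632263154) (nat_lit 152) (nat_lit 63431375473) (nat_lit 14) (nat_lit 5) (nat_lit 15) (nat_lit 5) (nat_lit 16) (nat_lit 4) (nat_lit 352) (nat_lit 280) (nat_lit 148)) (XT.nd (nat_lit 78) (nat_lit 0) (nat_lit 0) (XT.lf (nat_lit 0) (nat_lit 52554148937) (nat_lit 76) (nat_lit 31372532471) (nat_lit 152) (nat_lit 45261203353) (nat_lit 14) (nat_lit 5) (nat_lit 15) (nat_lit 5) (nat_lit 16) (nat_lit 4) (nat_lit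 353) (nat_lit 280) (nat_lit 147)) (XT.lf (nat_lit 0) (nat_lit 102759771113) (nat_lit 76) (nat_lit 5902950918) (nat_lit 152) (nat_lit 26186535148) (nat_lit 14) (nat_lit 5) (nat_lit 15) (nat_lit 5) (nat_lit 16) (nat_lit 4) (nat_lit 354) (nat_lit 280) (nat_lit 146)))) (XT.nd (nat_lit 34866) (nat_lit 0) (nat_lit 14440) (XT.nd (nat_lit 78) (nat_lit 76) (nat_lit 0) (XT.lf (nat_lit 0) (nat_lit 14762947483) (nat_lit 76) (nat_lit 120211118082) (nat_lit 76) (nat_lit 5809479035) (nat_lit 13) (nat_lit 4) (nat_lit 14) (nat_lit 5) (nat_lit 14) (nat_lit 4) (nat_lit 355) (nat_lit 280) (nat_lit 145)) (XT.lf (nat_lit 0) (nat_lit 15671805989) (nat_lit 152) (nat_lit 82595393562) (nat_lit 76) (nat_lit 48731167649) (nat_lit 12) (nat_lit 5) (nat_lit 14) (nat_lit 5) (nat_lit 13) (nat_lit 4) (nat_lit 356) (nat_lit 280) (nat_lit 144))) (XT.nd (nat_lit 78) (nat_lit 0) (nat_lit 0) (XT.lf (nat_lit 0) (nat_lit 2877202864)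 (nat_lit 1140) (nat_lit 1496030021) (nat_lit 1140) (nat_lit 1496030021) (nat_lit 202) (nat_lit 3) (nat_lit 217) (nat_lit 3) (nat_lit 217) (nat_lit 5) (nat_lit 281) (nat_lit 281) (nat_lit 218)) (XT.lf (nat_lit 76) (nat_lit 5906984788) (nat_lit 0) (nat_lit 817415764) (nat_lit 1140) (nat_lit 5281709816) (nat_lit 203) (nat_lit 5) (nat_lit 202) (nat_lit 3) (nat_lit 217) (nat_lit 5) (nat_lit 282) (nat_lit 281) (nat_lit 217)))))) (XT.nd (nat_lit 468) (nat_lit 2204) (nat_lit 0) (XT.nd (nat_lit 234) (nat_lit 912) (nat_lit 0) (XT.nd (nat_lit 78) (nat_lit 0) (nat_lit 76) (XT.lf (nat_lit 76) (nat_lit 2985451509) (nat_lit 0) (nat_lit 4840149083) (nat_lit 1140) (nat_lit 4459062459) (nat_lit 204) (nat_lit 5) (nat_lit 203) (nat_lit 5) (nat_lit 218) (nat_lit 5) (nat_lit 283) (nat_lit 281) (nat_lit 216)) (XT.nd (nat_lit 78) (nat_lit 0) (nat_lit 0) (XT.lf (nat_lit 76) (nat_lit 5302726) (nat_lit 0) (nat_lit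 9035089744) (nat_lit 1140) (nat_lit 3535061671) (nat_lit 205) (nat_lit 5) (nat_lit 204) (nat_lit 5) (nat_lit 219) (nat_lit 5) (nat_lit 284) (nat_lit 281) (nat_lit 215)) (XT.lf (nat_lit 76) (nat_lit 9891793953) (nat_lit 0) (nat_lit 523214127) (nat_lit 1140) (nat_lit 2462867732) (nat_lit 205) (nat_lit 5) (nat_lit 204) (nat_lit 5) (nat_lit 219) (nat_lit 5) (nat_lit 285) (nat_lit 281) (nat_lit 214)))) (XT.nd (nat_lit 78) (nat_lit 1064) (nat_lit 0) (XT.lf (nat_lit 76) (nat_lit 7107059290) (nat_lit 0) (nat_lit 4857780402) (nat_lit 1140) (nat_lit 1227444842) (nat_lit 206) (nat_lit 5) (nat_lit 205) (nat_lit 5) (nat_lit 220) (nat_lit 5) (nat_lit 286) (nat_lit 281) (nat_lit 213)) (XT.nd (nat_lit 78) (nat_lit 0) (nat_lit 0) (XT.lf (nat_lit 0) (nat_lit 144881627) (nat_lit 1140) (nat_lit 9266331881) (nat_lit 1216) (nat_lit 4108941231) (nat_lit 191) (nat_lit 5) (nat_lit 206) (nat_lit 5) (nat_lit 207) (nat_lit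 5) (nat_lit 287) (nat_lit 281) (nat_lit 212)) (XT.lf (nat_lit 76) (nat_lit 1309384765) (nat_lit 0) (nat_lit 336596065) (nat_lit 1216) (nat_lit 12215560078) (nat_lit 192) (nat_lit 5) (nat_lit 191) (nat_lit 5) (nat_lit 207) (nat_lit 5) (nat_lit 288) (nat_lit 281) (nat_lit 211))))) (XT.nd (nat_lit 234) (nat_lit 2280) (nat_lit 0) (XT.nd (nat_lit 78) (nat_lit 0) (nat_lit 76) (XT.lf (nat_lit 0) (nat_lit 3368966892) (nat_lit 1140) (nat_lit 1727951697) (nat_lit 1216) (nat_lit 9118723601) (nat_lit 192) (nat_lit 5) (nat_lit 207) (nat_lit 5) (nat_lit 208) (nat_lit 5) (nat_lit 289) (nat_lit 281) (nat_lit 210)) (XT.nd (nat_lit 78) (nat_lit 0) (nat_lit 0) (XT.lf (nat_lit 0) (nat_lit 5283438797) (nat_lit 1140) (nat_lit 4831872380) (nat_lit 1216) (nat_lit 4469025606) (nat_lit 193) (nat_lit 5) (nat_lit 208) (nat_lit 5) (nat_lit 209) (nat_lit 5) (nat_lit 290) (nat_lit 281) (nat_lit 209)) (XT.lf (nat_lit 76)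 (nat_lit 6927615571) (nat_lit 0) (nat_lit 467497224) (nat_lit 1216) (nat_lit 7573354998) (nat_lit 194) (nat_lit 5) (nat_lit 193) (nat_lit 5) (nat_lit 209) (nat_lit 5) (nat_lit 291) (nat_lit 281) (nat_lit 208)))) (XT.nd (nat_lit 156) (nat_lit 684) (nat_lit 0) (XT.nd (nat_lit 78) (nat_lit 608) (nat_lit 0) (XT.lf (nat_lit 0) (nat_lit 3961344268) (nat_lit 1140) (nat_lit 5799138156) (nat_lit 1216) (nat_lit 5606923420) (nat_lit 179) (nat_lit 5) (nat_lit 194) (nat_lit 5) (nat_lit 195) (nat_lit 5) (nat_lit 292) (nat_lit 281) (nat_lit 207)) (XT.lf (nat_lit 0) (nat_lit 889772739) (nat_lit 608) (nat_lit 11460865845) (nat_lit 684) (nat_lit 3432498434) (nat_lit 171) (nat_lit 5) (nat_lit 179) (nat_lit 5) (nat_lit 180) (nat_lit 5) (nat_lit 293) (nat_lit 281) (nat_lit 206))) (XT.nd (nat_lit 78) (nat_lit 684) (nat_lit 0) (XT.lf (nat_lit 0) (nat_lit 13951332556) (nat_lit 608) (nat_lit 1263857014) (nat_lit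 684) (nat_lit 1000158341) (nat_lit 171) (nat_lit 5) (nat_lit 179) (nat_lit 5) (nat_lit 180) (nat_lit 5) (nat_lit 294) (nat_lit 281) (nat_lit 205)) (XT.lf (nat_lit 0) (nat_lit 1693525122) (nat_lit 684) (nat_lit 5585557977) (nat_lit 76) (nat_lit 9384573546) (nat_lit 162) (nat_lit 5) (nat_lit 171) (nat_lit 5) (nat_lit 163) (nat_lit 5) (nat_lit 295) (nat_lit 281) (nat_lit 204))))))) (XT.nd (nat_lit 1014) (nat_lit 3116) (nat_lit 0) (XT.nd (nat_lit 468) (nat_lit 2356) (nat_lit 0) (XT.nd (nat_lit 234) (nat_lit 1064) (nat_lit 0) (XT.nd (nat_lit 78) (nat_lit 988) (nat_lit 0) (XT.lf (nat_lit 0) (nat_lit 4621297692) (nat_lit 608) (nat_lit 9056430613) (nat_lit 76) (nat_lit 3452787765) (nat_lit 155) (nat_lit 5) (nat_lit 163) (nat_lit 5) (nat_lit 156) (nat_lit 5) (nat_lit 296) (nat_lit 281) (nat_lit 203)) (XT.nd (nat_lit 78) (nat_lit 456) (nat_lit 0) (XT.lf (nat_lit 0) (nat_lit 4908967688) (nat_lit 532)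 (nat_lit 2938117802) (nat_lit 608) (nat_lit 9769117536) (nat_lit 148) (nat_lit 5) (nat_lit 155) (nat_lit 5) (nat_lit 156) (nat_lit 5) (nat_lit 297) (nat_lit 281) (nat_lit 202)) (XT.lf (nat_lit 0) (nat_lit 1560633213) (nat_lit 456) (nat_lit 9836770658) (nat_lit 532) (nat_lit 6723904990) (nat_lit 142) (nat_lit 5) (nat_lit 148) (nat_lit 5) (nat_lit 149) (nat_lit 5) (nat_lit 298) (nat_lit 281) (nat_lit 201)))) (XT.nd (nat_lit 78) (nat_lit 1064) (nat_lit 0) (XT.lf (nat_lit 0) (nat_lit 15274659550) (nat_lit 532) (nat_lit 1911252966) (nat_lit 76) (nat_lit 1461305086) (nat_lit 142) (nat_lit 5) (nat_lit 149) (nat_lit 5) (nat_lit 143) (nat_lit 5) (nat_lit 299) (nat_lit 281) (nat_lit 200)) (XT.nd (nat_lit 78) (nat_lit 456) (nat_lit 0) (XT.lf (nat_lit 0) (nat_lit 351738324) (nat_lit 608) (nat_lit 5585701242) (nat_lit 76) (nat_lit 13255720842) (nat_lit 134) (nat_lit 5) (nat_lit 142) (nat_lit 5) (nat_lit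 135) (nat_lit 5) (nat_lit 300) (nat_lit 281) (nat_lit 199)) (XT.lf (nat_lit 0) (nat_lit 4346892081) (nat_lit 532) (nat_lit 9502838244) (nat_lit 76) (nat_lit 5911063154) (nat_lit 128) (nat_lit 5) (nat_lit 135) (nat_lit 5) (nat_lit 129) (nat_lit 5) (nat_lit 301) (nat_lit 281) (nat_lit 198))))) (XT.nd (nat_lit 234) (nat_lit 1520) (nat_lit 0) (XT.nd (nat_lit 78) (nat_lit 380) (nat_lit 0) (XT.lf (nat_lit 0) (nat_lit 6700054396) (nat_lit 456) (nat_lit 2001737544) (nat_lit 532) (nat_lit 11650241985) (nat_lit 122) (nat_lit 5) (nat_lit 128) (nat_lit 5) (nat_lit 129) (nat_lit 5) (nat_lit 302) (nat_lit 281) (nat_lit 197)) (XT.nd (nat_lit 78) (nat_lit 0) (nat_lit 0) (XT.lf (nat_lit 0) (nat_lit 2870950740) (nat_lit 380) (nat_lit 10608600480) (nat_lit 456) (nat_lit 7487155908) (nat_lit 117) (nat_lit 5) (nat_lit 122) (nat_lit 5) (nat_lit 123) (nat_lit 5) (nat_lit 303) (nat_lit 281) (nat_lit 196)) (XT.lf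 (nat_lit 0) (nat_lit 18653446328) (nat_lit 456) (nat_lit 1165571342) (nat_lit 76) (nat_lit 1788401900) (nat_lit 117) (nat_lit 5) (nat_lit 123) (nat_lit 5) (nat_lit 118) (nat_lit 5) (nat_lit 304) (nat_lit 281) (nat_lit 195)))) (XT.nd (nat_lit 156) (nat_lit 684) (nat_lit 0) (XT.nd (nat_lit 78) (nat_lit 380) (nat_lit 0) (XT.lf (nat_lit 0) (nat_lit 2021842304) (nat_lit 456) (nat_lit 5484719004) (nat_lit 76) (nat_lit 14765570452) (nat_lit 111) (nat_lit 5) (nat_lit 117) (nat_lit 5) (nat_lit 112) (nat_lit 5) (nat_lit 305) (nat_lit 281) (nat_lit 194)) (XT.lf (nat_lit 0) (nat_lit 7356303607) (nat_lit 456) (nat_lit 10129043003) (nat_lit 76) (nat_lit 5478747367) (nat_lit 106) (nat_lit 5) (nat_lit 112) (nat_lit 5) (nat_lit 107) (nat_lit 5) (nat_lit 306) (nat_lit 281) (nat_lit 193))) (XT.nd (nat_lit 78) (nat_lit 304) (nat_lit 0) (XT.lf (nat_lit 0) (nat_lit 8563481810) (nat_lit 380) (nat_lit 4590402361)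 (nat_lit 456) (nat_lit 10530897551) (nat_lit 101) (nat_lit 5) (nat_lit 106) (nat_lit 5) (nat_lit 107) (nat_lit 5) (nat_lit 307) (nat_lit 281) (nat_lit 192)) (XT.lf (nat_lit 0) (nat_lit 3929962244) (nat_lit 304) (nat_lit 15522400995) (nat_lit 380) (nat_lit 4982828414) (nat_lit 97) (nat_lit 5) (nat_lit 101) (nat_lit 5) (nat_lit 102) (nat_lit 5) (nat_lit 308) (nat_lit 281) (nat_lit 191)))))) (XT.nd (nat_lit 546) (nat_lit 1368) (nat_lit 0) (XT.nd (nat_lit 234) (nat_lit 988) (nat_lit 0) (XT.nd (nat_lit 78) (nat_lit 684) (nat_lit 0) (XT.lf (nat_lit 0) (nat_lit 1012100195) (nat_lit 380) (nat_lit 1047930396) (nat_lit 76) (nat_lit 23157288517) (nat_lit 96) (nat_lit 5) (nat_lit 101) (nat_lit 5) (nat_lit 97) (nat_lit 5) (nat_lit 309) (nat_lit 281) (nat_lit 190)) (XT.nd (nat_lit 78) (nat_lit 304) (nat_lit 0) (XT.lf (nat_lit 0) (nat_lit 7495594503) (nat_lit 456) (nat_lit 6456213623) (nat_lit 76) (nat_lit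 12076524794) (nat_lit 91) (nat_lit 5) (nat_lit 97) (nat_lit 5) (nat_lit 92) (nat_lit 5) (nat_lit 310) (nat_lit 281) (nat_lit 189)) (XT.lf (nat_lit 0) (nat_lit 14460542365) (nat_lit 380) (nat_lit 12269008982) (nat_lit 76) (nat_lit 145643129) (nat_lit 87) (nat_lit 5) (nat_lit 92) (nat_lit 5) (nat_lit 88) (nat_lit 5) (nat_lit 311) (nat_lit 281) (nat_lit 188)))) (XT.nd (nat_lit 156) (nat_lit 304) (nat_lit 0) (XT.nd (nat_lit 78) (nat_lit 380) (nat_lit 0) (XT.lf (nat_lit 0) (nat_lit 9108692242) (nat_lit 304) (nat_lit 12944802378) (nat_lit 380) (nat_lit 5702526463) (nat_lit 83) (nat_lit 5) (nat_lit 87) (nat_lit 5) (nat_lit 88) (nat_lit 5) (nat_lit 312) (nat_lit 281) (nat_lit 187)) (XT.lf (nat_lit 0) (nat_lit 1477860941) (nat_lit 380) (nat_lit 25531996257) (nat_lit 76) (nat_lit 1665890313) (nat_lit 78) (nat_lit 5) (nat_lit 83) (nat_lit 5) (nat_lit 79) (nat_lit 5) (nat_lit 313) (nat_lit 281) (nat_lit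 186))) (XT.nd (nat_lit 78) (nat_lit 304) (nat_lit 0) (XT.lf (nat_lit 0) (nat_lit 9210055627) (nat_lit 380) (nat_lit 3433022190) (nat_lit 76) (nat_lit 16987379806) (nat_lit 78) (nat_lit 5) (nat_lit 83) (nat_lit 5) (nat_lit 79) (nat_lit 5) (nat_lit 314) (nat_lit 281) (nat_lit 185)) (XT.lf (nat_lit 0) (nat_lit 17533650934) (nat_lit 380) (nat_lit 10509142806) (nat_lit 76) (nat_lit 2583978090) (nat_lit 74) (nat_lit 5) (nat_lit 79) (nat_lit 5) (nat_lit 75) (nat_lit 5) (nat_lit 315) (nat_lit 281) (nat_lit 184))))) (XT.nd (nat_lit 234) (nat_lit 760) (nat_lit 0) (XT.nd (nat_lit 78) (nat_lit 380) (nat_lit 0) (XT.lf (nat_lit 0) (nat_lit 13358382613) (nat_lit 228) (nat_lit 13193004210) (nat_lit 304) (nat_lit 5113187826) (nat_lit 71) (nat_lit 5) (nat_lit 74) (nat_lit 5) (nat_lit 75) (nat_lit 5) (nat_lit 316) (nat_lit 281) (nat_lit 183)) (XT.nd (nat_lit 78) (nat_lit 0) (nat_lit 0) (XT.lf (nat_lit 0) (nat_lit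 3380020410) (nat_lit 380) (nat_lit 26821899678) (nat_lit 76) (nat_lit 2546076451) (nat_lit 66) (nat_lit 5) (nat_lit 71) (nat_lit 5) (nat_lit 67) (nat_lit 5) (nat_lit 317) (nat_lit 281) (nat_lit 182)) (XT.lf (nat_lit 0) (nat_lit 12503568228) (nat_lit 380) (nat_lit 2333541615) (nat_lit 76) (nat_lit 19037628407) (nat_lit 66) (nat_lit 5) (nat_lit 71) (nat_lit 5) (nat_lit 67) (nat_lit 5) (nat_lit 318) (nat_lit 281) (nat_lit 181)))) (XT.nd (nat_lit 156) (nat_lit 304) (nat_lit 0) (XT.nd (nat_lit 78) (nat_lit 228) (nat_lit 0) (XT.lf (nat_lit 0) (nat_lit 22314577923) (nat_lit 304) (nat_lit 11240424088) (nat_lit 76) (nat_lit 1495886337) (nat_lit 63) (nat_lit 5) (nat_lit 67) (nat_lit 5) (nat_lit 64) (nat_lit 5) (nat_lit 319) (nat_lit 281) (nat_lit 180)) (XT.lf (nat_lit 0) (nat_lit 15152634154) (nat_lit 228) (nat_lit 17771126416) (nat_lit 304) (nat_lit 3352866074) (nat_lit 60) (nat_lit 5) (nat_lit 63)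 (nat_lit 5) (nat_lit 64) (nat_lit 5) (nat_lit 320) (nat_lit 281) (nat_lit 179))) (XT.nd (nat_lit 78) (nat_lit 0) (nat_lit 0) (XT.lf (nat_lit 0) (nat_lit 5566981513) (nat_lit 228) (nat_lit 964534693) (nat_lit 304) (nat_lit 31025511945) (nat_lit 56) (nat_lit 5) (nat_lit 59) (nat_lit 5) (nat_lit 60) (nat_lit 5) (nat_lit 321) (nat_lit 281) (nat_lit 178)) (XT.lf (nat_lit 0) (nat_lit 17209949268) (nat_lit 304) (nat_lit 5075201733) (nat_lit 76) (nat_lit 16604235861) (nat_lit 56) (nat_lit 5) (nat_lit 60) (nat_lit 5) (nat_lit 57) (nat_lit 5) (nat_lit 322) (nat_lit 281) (nat_lit 177))))))))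
noncomputable def xc86 : XT := (XT.nd (nat_lit 2028) (nat_lit 380) (nat_lit 0) (XT.nd (nat_lit 1014) (nat_lit 1064) (nat_lit 0) (XT.nd (nat_lit 468) (nat_lit 684) (nat_lit 0) (XT.nd (nat_lit 234) (nat_lit 684) (nat_lit 0) (XT.nd (nat_lit 78) (nat_lit 228) (nat_lit 0) (XT.lf (nat_lit 0) (nat_lit 23619549262) (nat_lit 228) (nat_lit 5028642525) (nat_lit 304) (nat_lit 11633402942) (nat_lit 53) (nat_lit 5) (nat_lit 56) (nat_lit 5) (nat_lit 57) (nat_lit 5) (nat_lit 323) (nat_lit 281) (nat_lit 176)) (XT.nd (nat_lit 78) (nat_lit 76) (nat_lit 0) (XT.lf (nat_lit 0) (nat_lit 12208342760) (nat_lit 152) (nat_lit 28735364873) (nat_lit 228) (nat_lit 791152003) (nat_lit 51) (nat_lit 5) (nat_lit 53) (nat_lit 5) (nat_lit 54) (nat_lit 5) (nat_lit 324) (nat_lit 281) (nat_lit 175)) (XT.lf (nat_lit 0) (nat_lit 10600122990) (nat_lit 228) (nat_lit 555999777) (nat_lit 76) (nat_lit 32095208390) (nat_lit 50) (nat_lit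 5) (nat_lit 53) (nat_lit 5) (nat_lit 51) (nat_lit 5) (nat_lit 325) (nat_lit 281) (nat_lit 174)))) (XT.nd (nat_lit 78) (nat_lit 456) (nat_lit 0) (XT.lf (nat_lit 0) (nat_lit 22900546783) (nat_lit 304) (nat_lit 14474832303) (nat_lit 76) (nat_lit 7457340344) (nat_lit 47) (nat_lit 5) (nat_lit 51) (nat_lit 5) (nat_lit 48) (nat_lit 5) (nat_lit 326) (nat_lit 281) (nat_lit 173)) (XT.nd (nat_lit 78) (nat_lit 304) (nat_lit 0) (XT.lf (nat_lit 0) (nat_lit 16530479021) (nat_lit 152) (nat_lit 19553204435) (nat_lit 228) (nat_lit 10401469185) (nat_lit 45) (nat_lit 5) (nat_lit 47) (nat_lit 5) (nat_lit 48) (nat_lit 5) (nat_lit 327) (nat_lit 281) (nat_lit 172)) (XT.lf (nat_lit 0) (nat_lit 1162347888) (nat_lit 228) (nat_lit 662413082) (nat_lit 304) (nat_lit 46390392122) (nat_lit 41) (nat_lit 5) (nat_lit 44) (nat_lit 5) (nat_lit 45) (nat_lit 5) (nat_lit 328) (nat_lit 281) (nat_lit 171))))) (XT.nd (nat_lit 234)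 (nat_lit 532) (nat_lit 0) (XT.nd (nat_lit 78) (nat_lit 152) (nat_lit 0) (XT.lf (nat_lit 0) (nat_lit 14935767625) (nat_lit 304) (nat_lit 15868603666) (nat_lit 76) (nat_lit 19209540754) (nat_lit 41) (nat_lit 5) (nat_lit 45) (nat_lit 5) (nat_lit 42) (nat_lit 5) (nat_lit 329) (nat_lit 281) (nat_lit 170)) (XT.nd (nat_lit 78) (nat_lit 0) (nat_lit 0) (XT.lf (nat_lit 0) (nat_lit 17189215604) (nat_lit 152) (nat_lit 11676334669) (nat_lit 228) (nat_lit 23032167166) (nat_lit 39) (nat_lit 5) (nat_lit 41) (nat_lit 5) (nat_lit 42) (nat_lit 5) (nat_lit 330) (nat_lit 281) (nat_lit 169)) (XT.lf (nat_lit 0) (nat_lit 43729150285) (nat_lit 228) (nat_lit 1735844396) (nat_lit 76) (nat_lit 8403603588) (nat_lit 39) (nat_lit 5) (nat_lit 42) (nat_lit 5) (nat_lit 40) (nat_lit 5) (nat_lit 331) (nat_lit 281) (nat_lit 168)))) (XT.nd (nat_lit 156) (nat_lit 152) (nat_lit 0) (XT.nd (nat_lit 78) (nat_lit 152) (nat_lit 0) (XT.lf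 (nat_lit 0) (nat_lit 3766771520) (nat_lit 228) (nat_lit 22556015425) (nat_lit 76) (nat_lit 29601205854) (nat_lit 36) (nat_lit 5) (nat_lit 39) (nat_lit 5) (nat_lit 37) (nat_lit 5) (nat_lit 332) (nat_lit 281) (nat_lit 167)) (XT.lf (nat_lit 0) (nat_lit 12306034606) (nat_lit 152) (nat_lit 5982969971) (nat_lit 228) (nat_lit 39786233117) (nat_lit 34) (nat_lit 5) (nat_lit 36) (nat_lit 5) (nat_lit 37) (nat_lit 5) (nat_lit 333) (nat_lit 281) (nat_lit 166))) (XT.nd (nat_lit 78) (nat_lit 152) (nat_lit 0) (XT.lf (nat_lit 0) (nat_lit 33911940726) (nat_lit 228) (nat_lit 11107650067) (nat_lit 76) (nat_lit 15303220501) (nat_lit 34) (nat_lit 5) (nat_lit 37) (nat_lit 5) (nat_lit 35) (nat_lit 5) (nat_lit 334) (nat_lit 281) (nat_lit 165)) (XT.lf (nat_lit 0) (nat_lit 25715994340) (nat_lit 152) (nat_lit 24900296184) (nat_lit 228) (nat_lit 12057469049) (nat_lit 32) (nat_lit 5) (nat_lit 34) (nat_lit 5) (nat_lit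 35) (nat_lit 5) (nat_lit 335) (nat_lit 281) (nat_lit 164)))))) (XT.nd (nat_lit 468) (nat_lit 532) (nat_lit 0) (XT.nd (nat_lit 234) (nat_lit 152) (nat_lit 0) (XT.nd (nat_lit 78) (nat_lit 304) (nat_lit 0) (XT.lf (nat_lit 0) (nat_lit 3063112011) (nat_lit 228) (nat_lit 568188313) (nat_lit 76) (nat_lit 61506840114) (nat_lit 31) (nat_lit 5) (nat_lit 34) (nat_lit 5) (nat_lit 32) (nat_lit 5) (nat_lit 336) (nat_lit 281) (nat_lit 163)) (XT.nd (nat_lit 78) (nat_lit 152) (nat_lit 0) (XT.lf (nat_lit 0) (nat_lit 19238141833) (nat_lit 228) (nat_lit 29641809865) (nat_lit 76) (nat_lit 18825777149) (nat_lit 29) (nat_lit 5) (nat_lit 32) (nat_lit 5) (nat_lit 30) (nat_lit 5) (nat_lit 337) (nat_lit 281) (nat_lit 162)) (XT.lf (nat_lit 0) (nat_lit 8352824925) (nat_lit 152) (nat_lit 27985301458) (nat_lit 228) (nat_lit 34060087553) (nat_lit 27) (nat_lit 5) (nat_lit 29) (nat_lit 5) (nat_lit 30) (nat_lit 5) (nat_lit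 338) (nat_lit 281) (nat_lit 161)))) (XT.nd (nat_lit 78) (nat_lit 152) (nat_lit 0) (XT.lf (nat_lit 0) (nat_lit 48855502946) (nat_lit 152) (nat_lit 5736305478) (nat_lit 228) (nat_lit 18624557106) (nat_lit 27) (nat_lit 5) (nat_lit 29) (nat_lit 5) (nat_lit 30) (nat_lit 5) (nat_lit 339) (nat_lit 281) (nat_lit 160)) (XT.nd (nat_lit 78) (nat_lit 76) (nat_lit 0) (XT.lf (nat_lit 0) (nat_lit 15326817923) (nat_lit 76) (nat_lit 58741936764) (nat_lit 152) (nat_lit 2097355659) (nat_lit 26) (nat_lit 5) (nat_lit 27) (nat_lit 5) (nat_lit 28) (nat_lit 4) (nat_lit 340) (nat_lit 281) (nat_lit 159)) (XT.lf (nat_lit 0) (nat_lit 15263614253) (nat_lit 152) (nat_lit 21965444703) (nat_lit 76) (nat_lit 42020733345) (nat_lit 25) (nat_lit 5) (nat_lit 27) (nat_lit 5) (nat_lit 26) (nat_lit 5) (nat_lit 341) (nat_lit 281) (nat_lit 158))))) (XT.nd (nat_lit 234) (nat_lit 304) (nat_lit 0) (XT.nd (nat_lit 78) (nat_lit 76) (nat_lit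 0) (XT.lf (nat_lit 0) (nat_lit 19195455394) (nat_lit 152) (nat_lit 14432967661) (nat_lit 228) (nat_lit 48853239995) (nat_lit 23) (nat_lit 5) (nat_lit 25) (nat_lit 5) (nat_lit 26) (nat_lit 5) (nat_lit 342) (nat_lit 281) (nat_lit 157)) (XT.nd (nat_lit 78) (nat_lit 76) (nat_lit 0) (XT.lf (nat_lit 0) (nat_lit 53225559206) (nat_lit 228) (nat_lit 23098401996) (nat_lit 76) (nat_lit 9541746083) (nat_lit 23) (nat_lit 5) (nat_lit 26) (nat_lit 5) (nat_lit 24) (nat_lit 4) (nat_lit 343) (nat_lit 281) (nat_lit 156)) (XT.lf (nat_lit 0) (nat_lit 19320721010) (nat_lit 76) (nat_lit 54807881865) (nat_lit 152) (nat_lit 15280571767) (nat_lit 22) (nat_lit 5) (nat_lit 23) (nat_lit 5) (nat_lit 24) (nat_lit 4) (nat_lit 344) (nat_lit 281) (nat_lit 155)))) (XT.nd (nat_lit 156) (nat_lit 76) (nat_lit 0) (XT.nd (nat_lit 78) (nat_lit 152) (nat_lit 0) (XT.lf (nat_lit 0) (nat_lit 3124374850) (nat_lit 152) (nat_lit 28819126558)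 (nat_lit 76) (nat_lit 61178419430) (nat_lit 21) (nat_lit 5) (nat_lit 23) (nat_lit 5) (nat_lit 22) (nat_lit 5) (nat_lit 345) (nat_lit 281) (nat_lit 154)) (XT.lf (nat_lit 0) (nat_lit 14636231558) (nat_lit 152) (nat_lit 7635956804) (nat_lit 228) (nat_lit 74739419984) (nat_lit 19) (nat_lit 5) (nat_lit 21) (nat_lit 5) (nat_lit 22) (nat_lit 5) (nat_lit 346) (nat_lit 281) (nat_lit 153))) (XT.nd (nat_lit 78) (nat_lit 76) (nat_lit 0) (XT.lf (nat_lit 0) (nat_lit 42844072151) (nat_lit 228) (nat_lit 40403834334) (nat_lit 76) (nat_lit 17833875394) (nat_lit 19) (nat_lit 5) (nat_lit 22) (nat_lit 5) (nat_lit 20) (nat_lit 4) (nat_lit 347) (nat_lit 281) (nat_lit 152)) (XT.lf (nat_lit 0) (nat_lit 3652225620) (nat_lit 76) (nat_lit 60899869566) (nat_lit 152) (nat_lit 40800144496) (nat_lit 18) (nat_lit 5) (nat_lit 19) (nat_lit 5) (nat_lit 20) (nat_lit 4) (nat_lit 348) (nat_lit 281) (nat_lit 151))))))) (XT.nd (nat_lit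 35802) (nat_lit 0) (nat_lit 9804) (XT.nd (nat_lit 468) (nat_lit 76) (nat_lit 0) (XT.nd (nat_lit 234) (nat_lit 76) (nat_lit 0) (XT.nd (nat_lit 78) (nat_lit 228) (nat_lit 0) (XT.lf (nat_lit 0) (nat_lit 50747390401) (nat_lit 76) (nat_lit 37009560439) (nat_lit 152) (nat_lit 22066928441) (nat_lit 18) (nat_lit 5) (nat_lit 19) (nat_lit 5) (nat_lit 20) (nat_lit 4) (nat_lit 349) (nat_lit 281) (nat_lit 150)) (XT.nd (nat_lit 78) (nat_lit 228) (nat_lit 0) (XT.lf (nat_lit 0) (nat_lit 100189675826) (nat_lit 76) (nat_lit 11928096921) (nat_lit 152) (nat_lit 2401458172) (nat_lit 18) (nat_lit 5) (nat_lit 19) (nat_lit 5) (nat_lit 20) (nat_lit 4) (nat_lit 350) (nat_lit 281) (nat_lit 149)) (XT.lf (nat_lit 0) (nat_lit 18348803708) (nat_lit 228) (nat_lit 86459793511) (nat_lit 76) (nat_lit 14621764777) (nat_lit 15) (nat_lit 5) (nat_lit 18) (nat_lit 5) (nat_lit 16) (nat_lit 4) (nat_lit 351) (nat_lit 281) (nat_lit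 148)))) (XT.nd (nat_lit 78) (nat_lit 76) (nat_lit 0) (XT.lf (nat_lit 0) (nat_lit 40352720350) (nat_lit 228) (nat_lit 41800810029) (nat_lit 76) (nat_lit 42424833268) (nat_lit 15) (nat_lit 5) (nat_lit 18) (nat_lit 5) (nat_lit 16) (nat_lit 4) (nat_lit 352) (nat_lit 281) (nat_lit 147)) (XT.nd (nat_lit 78) (nat_lit 0) (nat_lit 0) (XT.lf (nat_lit 0) (nat_lit 5185416066) (nat_lit 76) (nat_lit 58317435508) (nat_lit 152) (nat_lit 66479534724) (nat_lit 14) (nat_lit 5) (nat_lit 15) (nat_lit 5) (nat_lit 16) (nat_lit 4) (nat_lit 353) (nat_lit 281) (nat_lit 146)) (XT.lf (nat_lit 0) (nat_lit 55387772327) (nat_lit 76) (nat_lit 32849310710) (nat_lit 152) (nat_lit 47406730642) (nat_lit 14) (nat_lit 5) (nat_lit 15) (nat_lit 5) (nat_lit 16) (nat_lit 4) (nat_lit 354) (nat_lit 281) (nat_lit 145))))) (XT.nd (nat_lit 35022) (nat_lit 0) (nat_lit 14364) (XT.nd (nat_lit 78) (nat_lit 76) (nat_lit 0) (XT.lf (nat_lit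 0) (nat_lit 108093870090) (nat_lit 76) (nat_lit 6110623811) (nat_lit 152) (nat_lit 27383925831) (nat_lit 14) (nat_lit 5) (nat_lit 15) (nat_lit 5) (nat_lit 16) (nat_lit 4) (nat_lit 355) (nat_lit 281) (nat_lit 144)) (XT.nd (nat_lit 34866) (nat_lit 0) (nat_lit 14364) (XT.lf (nat_lit 0) (nat_lit 15693972760) (nat_lit 76) (nat_lit 126134913601) (nat_lit 76) (nat_lit 5990612675) (nat_lit 13) (nat_lit 4) (nat_lit 14) (nat_lit 5) (nat_lit 14) (nat_lit 4) (nat_lit 356) (nat_lit 281) (nat_lit 143)) (XT.lf (nat_lit 0) (nat_lit 3778404378) (nat_lit 1140) (nat_lit 1180261985) (nat_lit 1140) (nat_lit 1180261985) (nat_lit 202) (nat_lit 3) (nat_lit 217) (nat_lit 3) (nat_lit 217) (nat_lit 5) (nat_lit 282) (nat_lit 282) (nat_lit 216)))) (XT.nd (nat_lit 156) (nat_lit 0) (nat_lit 152) (XT.nd (nat_lit 78) (nat_lit 0) (nat_lit 76) (XT.lf (nat_lit 76) (nat_lit 6961081907) (nat_lit 0) (nat_lit 1549387214) (nat_lit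 1140) (nat_lit 4050399001) (nat_lit 203) (nat_lit 5) (nat_lit 202) (nat_lit 3) (nat_lit 217) (nat_lit 5) (nat_lit 283) (nat_lit 282) (nat_lit 215)) (XT.lf (nat_lit 76) (nat_lit 3922417609) (nat_lit 0) (nat_lit 5676516003) (nat_lit 1140) (nat_lit 3256546422) (nat_lit 204) (nat_lit 5) (nat_lit 203) (nat_lit 5) (nat_lit 218) (nat_lit 5) (nat_lit 284) (nat_lit 282) (nat_lit 214))) (XT.nd (nat_lit 78) (nat_lit 0) (nat_lit 0) (XT.lf (nat_lit 76) (nat_lit 818403538) (nat_lit 0) (nat_lit 9992621690) (nat_lit 1140) (nat_lit 2351781721) (nat_lit 205) (nat_lit 5) (nat_lit 204) (nat_lit 5) (nat_lit 219) (nat_lit 5) (nat_lit 285) (nat_lit 282) (nat_lit 213)) (XT.lf (nat_lit 76) (nat_lit 11160512866) (nat_lit 0) (nat_lit 1031067652) (nat_lit 1140) (nat_lit 1290741563) (nat_lit 205) (nat_lit 5) (nat_lit 204) (nat_lit 5) (nat_lit 219) (nat_lit 5) (nat_lit 286) (nat_lit 282) (nat_lit 212)))))) (XT.nd (nat_lit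 546) (nat_lit 2812) (nat_lit 0) (XT.nd (nat_lit 234) (nat_lit 912) (nat_lit 0) (XT.nd (nat_lit 78) (nat_lit 1064) (nat_lit 0) (XT.lf (nat_lit 76) (nat_lit 8257165577) (nat_lit 0) (nat_lit 5505166906) (nat_lit 1140) (nat_lit 51900316) (nat_lit 206) (nat_lit 5) (nat_lit 205) (nat_lit 5) (nat_lit 220) (nat_lit 5) (nat_lit 287) (nat_lit 282) (nat_lit 211)) (XT.nd (nat_lit 78) (nat_lit 0) (nat_lit 0) (XT.lf (nat_lit 0) (nat_lit 1311300532) (nat_lit 1140) (nat_lit 8892682448) (nat_lit 1216) (nat_lit 3955843050) (nat_lit 191) (nat_lit 5) (nat_lit 206) (nat_lit 5) (nat_lit 207) (nat_lit 5) (nat_lit 288) (nat_lit 282) (nat_lit 210)) (XT.lf (nat_lit 76) (nat_lit 2187828567) (nat_lit 0) (nat_lit 652242136) (nat_lit 1216) (nat_lit 11679706668) (nat_lit 192) (nat_lit 5) (nat_lit 191) (nat_lit 5) (nat_lit 207) (nat_lit 5) (nat_lit 289) (nat_lit 282) (nat_lit 209)))) (XT.nd (nat_lit 156) (nat_lit 988) (nat_lit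 0) (XT.nd (nat_lit 78) (nat_lit 0) (nat_lit 76) (XT.lf (nat_lit 0) (nat_lit 4593528024) (nat_lit 1140) (nat_lit 1004170661) (nat_lit 1216) (nat_lit 9295626175) (nat_lit 192) (nat_lit 5) (nat_lit 207) (nat_lit 5) (nat_lit 208) (nat_lit 5) (nat_lit 290) (nat_lit 282) (nat_lit 208)) (XT.lf (nat_lit 0) (nat_lit 6558820535) (nat_lit 1140) (nat_lit 4252584173) (nat_lit 1216) (nat_lit 4470463997) (nat_lit 193) (nat_lit 5) (nat_lit 208) (nat_lit 5) (nat_lit 209) (nat_lit 5) (nat_lit 291) (nat_lit 282) (nat_lit 207))) (XT.nd (nat_lit 78) (nat_lit 1064) (nat_lit 0) (XT.lf (nat_lit 76) (nat_lit 8071347762) (nat_lit 0) (nat_lit 664242252) (nat_lit 1216) (nat_lit 6950895117) (nat_lit 194) (nat_lit 5) (nat_lit 193) (nat_lit 5) (nat_lit 209) (nat_lit 5) (nat_lit 292) (nat_lit 282) (nat_lit 206)) (XT.lf (nat_lit 0) (nat_lit 4965060214) (nat_lit 1140) (nat_lit 6214100282) (nat_lit 1216) (nat_lit 4927472780)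 (nat_lit 179) (nat_lit 5) (nat_lit 194) (nat_lit 5) (nat_lit 195) (nat_lit 5) (nat_lit 293) (nat_lit 282) (nat_lit 205))))) (XT.nd (nat_lit 234) (nat_lit 1520) (nat_lit 0) (XT.nd (nat_lit 78) (nat_lit 684) (nat_lit 0) (XT.lf (nat_lit 0) (nat_lit 1746291017) (nat_lit 608) (nat_lit 12114877910) (nat_lit 684) (nat_lit 2683169996) (nat_lit 171) (nat_lit 5) (nat_lit 179) (nat_lit 5) (nat_lit 180) (nat_lit 5) (nat_lit 294) (nat_lit 282) (nat_lit 204)) (XT.nd (nat_lit 78) (nat_lit 684) (nat_lit 0) (XT.lf (nat_lit 0) (nat_lit 15422260747) (nat_lit 608) (nat_lit 1404162982) (nat_lit 684) (nat_lit 173067820) (nat_lit 171) (nat_lit 5) (nat_lit 179) (nat_lit 5) (nat_lit 180) (nat_lit 5) (nat_lit 295) (nat_lit 282) (nat_lit 203)) (XT.lf (nat_lit 0) (nat_lit 2604070403) (nat_lit 684) (nat_lit 5069599646) (nat_lit 76) (nat_lit 9797367452) (nat_lit 162) (nat_lit 5) (nat_lit 171) (nat_lit 5) (nat_lit 163)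 (nat_lit 5) (nat_lit 296) (nat_lit 282) (nat_lit 202)))) (XT.nd (nat_lit 156) (nat_lit 456) (nat_lit 0) (XT.nd (nat_lit 78) (nat_lit 532) (nat_lit 0) (XT.lf (nat_lit 0) (nat_lit 5646122758) (nat_lit 608) (nat_lit 8711808212) (nat_lit 76) (nat_lit 3604321046) (nat_lit 155) (nat_lit 5) (nat_lit 163) (nat_lit 5) (nat_lit 156) (nat_lit 5) (nat_lit 297) (nat_lit 282) (nat_lit 201)) (XT.lf (nat_lit 0) (nat_lit 5929001434) (nat_lit 532) (nat_lit 3073846196) (nat_lit 608) (nat_lit 9470332785) (nat_lit 148) (nat_lit 5) (nat_lit 155) (nat_lit 5) (nat_lit 156) (nat_lit 5) (nat_lit 298) (nat_lit 282) (nat_lit 200))) (XT.nd (nat_lit 78) (nat_lit 0) (nat_lit 0) (XT.lf (nat_lit 0) (nat_lit 2414092137) (nat_lit 456) (nat_lit 10287793247) (nat_lit 532) (nat_lit 6302564365) (nat_lit 142) (nat_lit 5) (nat_lit 148) (nat_lit 5) (nat_lit 149) (nat_lit 5) (nat_lit 299) (nat_lit 282) (nat_lit 199)) (XT.lf (nat_lit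 0) (nat_lit 16738396020) (nat_lit 532) (nat_lit 1246854214) (nat_lit 76) (nat_lit 1572484129) (nat_lit 142) (nat_lit 5) (nat_lit 149) (nat_lit 5) (nat_lit 143) (nat_lit 5) (nat_lit 300) (nat_lit 282) (nat_lit 198))))))))
noncomputable def xc87 : XT := (XT.nd (nat_lit 2028) (nat_lit 2660) (nat_lit 0) (XT.nd (nat_lit 1014) (nat_lit 2508) (nat_lit 0) (XT.nd (nat_lit 468) (nat_lit 2128) (nat_lit 0) (XT.nd (nat_lit 234) (nat_lit 836) (nat_lit 0) (XT.nd (nat_lit 78) (nat_lit 912) (nat_lit 0) (XT.lf (nat_lit 0) (nat_lit 1050550131) (nat_lit 608) (nat_lit 5112470922) (nat_lit 76) (nat_lit 13968580217) (nat_lit 134) (nat_lit 5) (nat_lit 142) (nat_lit 5) (nat_lit 135) (nat_lit 5) (nat_lit 301) (nat_lit 282) (nat_lit 197)) (XT.nd (nat_lit 78) (nat_lit 456) (nat_lit 0) (XT.lf (nat_lit 0) (nat_lit 5220770805) (nat_lit 532) (nat_lit 9227340093) (nat_lit 76) (nat_lit 6280282982) (nat_lit 128) (nat_lit 5)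 (nat_lit 135) (nat_lit 5) (nat_lit 129) (nat_lit 5) (nat_lit 302) (nat_lit 282) (nat_lit 196)) (XT.lf (nat_lit 0) (nat_lit 7764180233) (nat_lit 456) (nat_lit 2004980673) (nat_lit 532) (nat_lit 11580798479) (nat_lit 122) (nat_lit 5) (nat_lit 128) (nat_lit 5) (nat_lit 129) (nat_lit 5) (nat_lit 303) (nat_lit 282) (nat_lit 195)))) (XT.nd (nat_lit 78) (nat_lit 456) (nat_lit 0) (XT.lf (nat_lit 0) (nat_lit 3740929211) (nat_lit 380) (nat_lit 11022639888) (nat_lit 456) (nat_lit 7232498029) (nat_lit 117) (nat_lit 5) (nat_lit 122) (nat_lit 5) (nat_lit 123) (nat_lit 5) (nat_lit 304) (nat_lit 282) (nat_lit 194)) (XT.nd (nat_lit 78) (nat_lit 456) (nat_lit 0) (XT.lf (nat_lit 0) (nat_lit 20168174963) (nat_lit 456) (nat_lit 515004696) (nat_lit 76) (nat_lit 1986507154) (nat_lit 117) (nat_lit 5) (nat_lit 123) (nat_lit 5) (nat_lit 118) (nat_lit 5) (nat_lit 305) (nat_lit 282) (nat_lit 193)) (XT.lf (nat_lit 0)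 (nat_lit 2690045886) (nat_lit 456) (nat_lit 5058548354) (nat_lit 76) (nat_lit 15619537101) (nat_lit 111) (nat_lit 5) (nat_lit 117) (nat_lit 5) (nat_lit 112) (nat_lit 5) (nat_lit 306) (nat_lit 282) (nat_lit 192))))) (XT.nd (nat_lit 234) (nat_lit 1064) (nat_lit 0) (XT.nd (nat_lit 78) (nat_lit 684) (nat_lit 0) (XT.lf (nat_lit 0) (nat_lit 8272049740) (nat_lit 456) (nat_lit 9939485847) (nat_lit 76) (nat_lit 5883759768) (nat_lit 106) (nat_lit 5) (nat_lit 112) (nat_lit 5) (nat_lit 107) (nat_lit 5) (nat_lit 307) (nat_lit 282) (nat_lit 191)) (XT.nd (nat_lit 78) (nat_lit 304) (nat_lit 0) (XT.lf (nat_lit 0) (nat_lit 9667714240) (nat_lit 380) (nat_lit 4672201828) (nat_lit 456) (nat_lit 10512716140) (nat_lit 101) (nat_lit 5) (nat_lit 106) (nat_lit 5) (nat_lit 107) (nat_lit 5) (nat_lit 308) (nat_lit 282) (nat_lit 190)) (XT.lf (nat_lit 0) (nat_lit 4797679166) (nat_lit 304) (nat_lit 16138285515) (nat_lit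 380) (nat_lit 4705144228) (nat_lit 97) (nat_lit 5) (nat_lit 101) (nat_lit 5) (nat_lit 102) (nat_lit 5) (nat_lit 309) (nat_lit 282) (nat_lit 189)))) (XT.nd (nat_lit 156) (nat_lit 608) (nat_lit 0) (XT.nd (nat_lit 78) (nat_lit 380) (nat_lit 0) (XT.lf (nat_lit 0) (nat_lit 1554653149) (nat_lit 380) (nat_lit 450805996) (nat_lit 76) (nat_lit 24457493298) (nat_lit 96) (nat_lit 5) (nat_lit 101) (nat_lit 5) (nat_lit 97) (nat_lit 5) (nat_lit 310) (nat_lit 282) (nat_lit 188)) (XT.lf (nat_lit 0) (nat_lit 8346463307) (nat_lit 456) (nat_lit 6134935181) (nat_lit 76) (nat_lit 12833616805) (nat_lit 91) (nat_lit 5) (nat_lit 97) (nat_lit 5) (nat_lit 92) (nat_lit 5) (nat_lit 311) (nat_lit 282) (nat_lit 187))) (XT.nd (nat_lit 78) (nat_lit 304) (nat_lit 0) (XT.lf (nat_lit 0) (nat_lit 15644599119) (nat_lit 380) (nat_lit 12244217495) (nat_lit 76) (nat_lit 315876600) (nat_lit 87) (nat_lit 5) (nat_lit 92) (nat_lit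 5) (nat_lit 88) (nat_lit 5) (nat_lit 312) (nat_lit 282) (nat_lit 186)) (XT.lf (nat_lit 0) (nat_lit 10184073714) (nat_lit 304) (nat_lit 13417130790) (nat_lit 380) (nat_lit 5528856963) (nat_lit 83) (nat_lit 5) (nat_lit 87) (nat_lit 5) (nat_lit 88) (nat_lit 5) (nat_lit 313) (nat_lit 282) (nat_lit 185)))))) (XT.nd (nat_lit 468) (nat_lit 1216) (nat_lit 0) (XT.nd (nat_lit 234) (nat_lit 608) (nat_lit 0) (XT.nd (nat_lit 78) (nat_lit 304) (nat_lit 0) (XT.lf (nat_lit 0) (nat_lit 1987752802) (nat_lit 380) (nat_lit 26185630821) (nat_lit 76) (nat_lit 1922692551) (nat_lit 78) (nat_lit 5) (nat_lit 83) (nat_lit 5) (nat_lit 79) (nat_lit 5) (nat_lit 314) (nat_lit 282) (nat_lit 184)) (XT.nd (nat_lit 78) (nat_lit 304) (nat_lit 0) (XT.lf (nat_lit 0) (nat_lit 10085795374) (nat_lit 380) (nat_lit 3011373063) (nat_lit 76) (nat_lit 18001994246) (nat_lit 78) (nat_lit 5) (nat_lit 83) (nat_lit 5) (nat_lit 79) (nat_lit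 5) (nat_lit 315) (nat_lit 282) (nat_lit 183)) (XT.lf (nat_lit 0) (nat_lit 18813021937) (nat_lit 380) (nat_lit 10447617896) (nat_lit 76) (nat_lit 2885046399) (nat_lit 74) (nat_lit 5) (nat_lit 79) (nat_lit 5) (nat_lit 75) (nat_lit 5) (nat_lit 316) (nat_lit 282) (nat_lit 182)))) (XT.nd (nat_lit 78) (nat_lit 380) (nat_lit 0) (XT.lf (nat_lit 0) (nat_lit 14596458071) (nat_lit 228) (nat_lit 13671491599) (nat_lit 304) (nat_lit 4967856729) (nat_lit 71) (nat_lit 5) (nat_lit 74) (nat_lit 5) (nat_lit 75) (nat_lit 5) (nat_lit 317) (nat_lit 282) (nat_lit 181)) (XT.nd (nat_lit 78) (nat_lit 0) (nat_lit 0) (XT.lf (nat_lit 0) (nat_lit 3930612918) (nat_lit 380) (nat_lit 27591323248) (nat_lit 76) (nat_lit 2851709933) (nat_lit 66) (nat_lit 5) (nat_lit 71) (nat_lit 5) (nat_lit 67) (nat_lit 5) (nat_lit 318) (nat_lit 282) (nat_lit 180)) (XT.lf (nat_lit 0) (nat_lit 13492167104) (nat_lit 380) (nat_lit 1905769730)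 (nat_lit 76) (nat_lit 20159347598) (nat_lit 66) (nat_lit 5) (nat_lit 71) (nat_lit 5) (nat_lit 67) (nat_lit 5) (nat_lit 319) (nat_lit 282) (nat_lit 179))))) (XT.nd (nat_lit 234) (nat_lit 456) (nat_lit 0) (XT.nd (nat_lit 78) (nat_lit 532) (nat_lit 0) (XT.lf (nat_lit 0) (nat_lit 23783212728) (nat_lit 304) (nat_lit 11264500127) (nat_lit 76) (nat_lit 1744858336) (nat_lit 63) (nat_lit 5) (nat_lit 67) (nat_lit 5) (nat_lit 64) (nat_lit 5) (nat_lit 320) (nat_lit 282) (nat_lit 178)) (XT.nd (nat_lit 78) (nat_lit 304) (nat_lit 0) (XT.lf (nat_lit 0) (nat_lit 16432790937) (nat_lit 228) (nat_lit 18478281358) (nat_lit 304) (nat_lit 3168890640) (nat_lit 60) (nat_lit 5) (nat_lit 63) (nat_lit 5) (nat_lit 64) (nat_lit 5) (nat_lit 321) (nat_lit 282) (nat_lit 177)) (XT.lf (nat_lit 0) (nat_lit 6359788701) (nat_lit 228) (nat_lit 831588972) (nat_lit 304) (nat_lit 32233261680) (nat_lit 56) (nat_lit 5) (nat_lit 59)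 (nat_lit 5) (nat_lit 60) (nat_lit 5) (nat_lit 322) (nat_lit 282) (nat_lit 176)))) (XT.nd (nat_lit 156) (nat_lit 228) (nat_lit 0) (XT.nd (nat_lit 78) (nat_lit 228) (nat_lit 0) (XT.lf (nat_lit 0) (nat_lit 18389520252) (nat_lit 304) (nat_lit 4830907745) (nat_lit 76) (nat_lit 17603625871) (nat_lit 56) (nat_lit 5) (nat_lit 60) (nat_lit 5) (nat_lit 57) (nat_lit 5) (nat_lit 323) (nat_lit 282) (nat_lit 175)) (XT.lf (nat_lit 0) (nat_lit 25284304179) (nat_lit 228) (nat_lit 5104827105) (nat_lit 304) (nat_lit 11897068112) (nat_lit 53) (nat_lit 5) (nat_lit 56) (nat_lit 5) (nat_lit 57) (nat_lit 5) (nat_lit 324) (nat_lit 282) (nat_lit 174))) (XT.nd (nat_lit 78) (nat_lit 76) (nat_lit 0) (XT.lf (nat_lit 0) (nat_lit 13296237138) (nat_lit 152) (nat_lit 29994688056) (nat_lit 228) (nat_lit 521467724) (nat_lit 51) (nat_lit 5) (nat_lit 53) (nat_lit 5) (nat_lit 54) (nat_lit 5) (nat_lit 325) (nat_lit 282) (nat_lit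 173)) (XT.lf (nat_lit 0) (nat_lit 11418898146) (nat_lit 228) (nat_lit 123119464) (nat_lit 76) (nat_lit 33863024031) (nat_lit 50) (nat_lit 5) (nat_lit 53) (nat_lit 5) (nat_lit 51) (nat_lit 5) (nat_lit 326) (nat_lit 282) (nat_lit 172))))))) (XT.nd (nat_lit 1014) (nat_lit 912) (nat_lit 0) (XT.nd (nat_lit 468) (nat_lit 912) (nat_lit 0) (XT.nd (nat_lit 234) (nat_lit 152) (nat_lit 0) (XT.nd (nat_lit 78) (nat_lit 456) (nat_lit 0) (XT.lf (nat_lit 0) (nat_lit 24326510040) (nat_lit 304) (nat_lit 14744151939) (nat_lit 76) (nat_lit 7995081531) (nat_lit 47) (nat_lit 5) (nat_lit 51) (nat_lit 5) (nat_lit 48) (nat_lit 5) (nat_lit 327) (nat_lit 282) (nat_lit 171)) (XT.nd (nat_lit 78) (nat_lit 304) (nat_lit 0) (XT.lf (nat_lit 0) (nat_lit 17798399038) (nat_lit 152) (nat_lit 20361269578) (nat_lit 228) (nat_lit 10641412568) (nat_lit 45) (nat_lit 5) (nat_lit 47) (nat_lit 5) (nat_lit 48) (nat_lit 5) (nat_lit 328)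 (nat_lit 282) (nat_lit 170)) (XT.lf (nat_lit 0) (nat_lit 1654683563) (nat_lit 228) (nat_lit 527073933) (nat_lit 304) (nat_lit 48436018628) (nat_lit 41) (nat_lit 5) (nat_lit 44) (nat_lit 5) (nat_lit 45) (nat_lit 5) (nat_lit 329) (nat_lit 282) (nat_lit 169)))) (XT.nd (nat_lit 78) (nat_lit 152) (nat_lit 0) (XT.lf (nat_lit 0) (nat_lit 15937201544) (nat_lit 304) (nat_lit 16242287597) (nat_lit 76) (nat_lit 20327324979) (nat_lit 41) (nat_lit 5) (nat_lit 45) (nat_lit 5) (nat_lit 42) (nat_lit 5) (nat_lit 330) (nat_lit 282) (nat_lit 168)) (XT.nd (nat_lit 78) (nat_lit 0) (nat_lit 0) (XT.lf (nat_lit 0) (nat_lit 18456390694) (nat_lit 152) (nat_lit 12098875852) (nat_lit 228) (nat_lit 23929796783) (nat_lit 39) (nat_lit 5) (nat_lit 41) (nat_lit 5) (nat_lit 42) (nat_lit 5) (nat_lit 331) (nat_lit 282) (nat_lit 167)) (XT.lf (nat_lit 0) (nat_lit 46151787836) (nat_lit 228) (nat_lit 1428632794) (nat_lit 76) (nat_lit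 8974382323) (nat_lit 39) (nat_lit 5) (nat_lit 42) (nat_lit 5) (nat_lit 40) (nat_lit 5) (nat_lit 332) (nat_lit 282) (nat_lit 166))))) (XT.nd (nat_lit 234) (nat_lit 532) (nat_lit 0) (XT.nd (nat_lit 78) (nat_lit 152) (nat_lit 0) (XT.lf (nat_lit 0) (nat_lit 4186116363) (nat_lit 228) (nat_lit 23296379646) (nat_lit 76) (nat_lit 31230636950) (nat_lit 36) (nat_lit 5) (nat_lit 39) (nat_lit 5) (nat_lit 37) (nat_lit 5) (nat_lit 333) (nat_lit 282) (nat_lit 165)) (XT.nd (nat_lit 78) (nat_lit 0) (nat_lit 0) (XT.lf (nat_lit 0) (nat_lit 13297667095) (nat_lit 152) (nat_lit 6129411200) (nat_lit 228) (nat_lit 41545089444) (nat_lit 34) (nat_lit 5) (nat_lit 36) (nat_lit 5) (nat_lit 37) (nat_lit 5) (nat_lit 334) (nat_lit 282) (nat_lit 164)) (XT.lf (nat_lit 0) (nat_lit 35821910531) (nat_lit 228) (nat_lit 11299513825) (nat_lit 76) (nat_lit 16210979050) (nat_lit 34) (nat_lit 5) (nat_lit 37) (nat_lit 5) (nat_lit 35)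 (nat_lit 5) (nat_lit 335) (nat_lit 282) (nat_lit 163)))) (XT.nd (nat_lit 156) (nat_lit 304) (nat_lit 0) (XT.nd (nat_lit 78) (nat_lit 76) (nat_lit 0) (XT.lf (nat_lit 0) (nat_lit 27354892610) (nat_lit 152) (nat_lit 25999771180) (nat_lit 228) (nat_lit 12446445313) (nat_lit 32) (nat_lit 5) (nat_lit 34) (nat_lit 5) (nat_lit 35) (nat_lit 5) (nat_lit 336) (nat_lit 282) (nat_lit 162)) (XT.lf (nat_lit 0) (nat_lit 3416004073) (nat_lit 228) (nat_lit 256234975) (nat_lit 76) (nat_lit 64716713049) (nat_lit 31) (nat_lit 5) (nat_lit 34) (nat_lit 5) (nat_lit 32) (nat_lit 5) (nat_lit 337) (nat_lit 282) (nat_lit 161))) (XT.nd (nat_lit 78) (nat_lit 152) (nat_lit 0) (XT.lf (nat_lit 0) (nat_lit 20394770997) (nat_lit 228) (nat_lit 30788712467) (nat_lit 76) (nat_lit 19901591811) (nat_lit 29) (nat_lit 5) (nat_lit 32) (nat_lit 5) (nat_lit 30) (nat_lit 5) (nat_lit 338) (nat_lit 282) (nat_lit 160)) (XT.lf (nat_lit 0)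 (nat_lit 9096045969) (nat_lit 152) (nat_lit 29247565998) (nat_lit 228) (nat_lit 35568761620) (nat_lit 27) (nat_lit 5) (nat_lit 29) (nat_lit 5) (nat_lit 30) (nat_lit 5) (nat_lit 339) (nat_lit 282) (nat_lit 159)))))) (XT.nd (nat_lit 546) (nat_lit 456) (nat_lit 0) (XT.nd (nat_lit 234) (nat_lit 304) (nat_lit 0) (XT.nd (nat_lit 78) (nat_lit 152) (nat_lit 0) (XT.lf (nat_lit 0) (nat_lit 51608354091) (nat_lit 152) (nat_lit 5892644054) (nat_lit 228) (nat_lit 19370708474) (nat_lit 27) (nat_lit 5) (nat_lit 29) (nat_lit 5) (nat_lit 30) (nat_lit 5) (nat_lit 340) (nat_lit 282) (nat_lit 158)) (XT.nd (nat_lit 78) (nat_lit 76) (nat_lit 0) (XT.lf (nat_lit 0) (nat_lit 16398448466) (nat_lit 76) (nat_lit 61548920035) (nat_lit 152) (nat_lit 2021707120) (nat_lit 26) (nat_lit 5) (nat_lit 27) (nat_lit 5) (nat_lit 28) (nat_lit 4) (nat_lit 341) (nat_lit 282) (nat_lit 157)) (XT.lf (nat_lit 0) (nat_lit 16195360488) (nat_lit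 152) (nat_lit 22769531551) (nat_lit 76) (nat_lit 44242254353) (nat_lit 25) (nat_lit 5) (nat_lit 27) (nat_lit 5) (nat_lit 26) (nat_lit 5) (nat_lit 342) (nat_lit 282) (nat_lit 156)))) (XT.nd (nat_lit 156) (nat_lit 152) (nat_lit 0) (XT.nd (nat_lit 78) (nat_lit 0) (nat_lit 0) (XT.lf (nat_lit 0) (nat_lit 20440980786) (nat_lit 152) (nat_lit 15032148844) (nat_lit 228) (nat_lit 51127643193) (nat_lit 23) (nat_lit 5) (nat_lit 25) (nat_lit 5) (nat_lit 26) (nat_lit 5) (nat_lit 343) (nat_lit 282) (nat_lit 155)) (XT.lf (nat_lit 0) (nat_lit 56043468263) (nat_lit 228) (nat_lit 23977561361) (nat_lit 76) (nat_lit 10133192838) (nat_lit 23) (nat_lit 5) (nat_lit 26) (nat_lit 5) (nat_lit 24) (nat_lit 4) (nat_lit 344) (nat_lit 282) (nat_lit 154))) (XT.nd (nat_lit 78) (nat_lit 76) (nat_lit 0) (XT.lf (nat_lit 0) (nat_lit 20554613170) (nat_lit 76) (nat_lit 57432167119) (nat_lit 152) (nat_lit 15888232806) (nat_lit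 22) (nat_lit 5) (nat_lit 23) (nat_lit 5) (nat_lit 24) (nat_lit 4) (nat_lit 345) (nat_lit 282) (nat_lit 153)) (XT.lf (nat_lit 0) (nat_lit 3426609074) (nat_lit 152) (nat_lit 30002013088) (nat_lit 76) (nat_lit 64344951506) (nat_lit 21) (nat_lit 5) (nat_lit 23) (nat_lit 5) (nat_lit 22) (nat_lit 5) (nat_lit 346) (nat_lit 282) (nat_lit 152))))) (XT.nd (nat_lit 234) (nat_lit 228) (nat_lit 0) (XT.nd (nat_lit 78) (nat_lit 76) (nat_lit 0) (XT.lf (nat_lit 0) (nat_lit 15618715415) (nat_lit 152) (nat_lit 7908554343) (nat_lit 228) (nat_lit 78330615086) (nat_lit 19) (nat_lit 5) (nat_lit 21) (nat_lit 5) (nat_lit 22) (nat_lit 5) (nat_lit 347) (nat_lit 282) (nat_lit 151)) (XT.nd (nat_lit 78) (nat_lit 76) (nat_lit 0) (XT.lf (nat_lit 0) (nat_lit 45122010690) (nat_lit 228) (nat_lit 42182191292) (nat_lit 76) (nat_lit 18827540030) (nat_lit 19) (nat_lit 5) (nat_lit 22) (nat_lit 5) (nat_lit 20) (nat_lit 4) (nat_lit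 348) (nat_lit 282) (nat_lit 150)) (XT.lf (nat_lit 0) (nat_lit 4069739516) (nat_lit 76) (nat_lit 63841489821) (nat_lit 152) (nat_lit 42704622245) (nat_lit 18) (nat_lit 5) (nat_lit 19) (nat_lit 5) (nat_lit 20) (nat_lit 4) (nat_lit 349) (nat_lit 282) (nat_lit 149)))) (XT.nd (nat_lit 156) (nat_lit 228) (nat_lit 0) (XT.nd (nat_lit 78) (nat_lit 0) (nat_lit 0) (XT.lf (nat_lit 0) (nat_lit 53508476697) (nat_lit 76) (nat_lit 38761587772) (nat_lit 152) (nat_lit 23041199171) (nat_lit 18) (nat_lit 5) (nat_lit 19) (nat_lit 5) (nat_lit 20) (nat_lit 4) (nat_lit 350) (nat_lit 282) (nat_lit 148)) (XT.lf (nat_lit 0) (nat_lit 105412223214) (nat_lit 76) (nat_lit 12430739206) (nat_lit 152) (nat_lit 2398601851) (nat_lit 18) (nat_lit 5) (nat_lit 19) (nat_lit 5) (nat_lit 20) (nat_lit 4) (nat_lit 351) (nat_lit 282) (nat_lit 147))) (XT.nd (nat_lit 78) (nat_lit 0) (nat_lit 0) (XT.lf (nat_lit 0) (nat_lit 19383936469)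 (nat_lit 228) (nat_lit 90570790517) (nat_lit 76) (nat_lit 15443576873) (nat_lit 15) (nat_lit 5) (nat_lit 18) (nat_lit 5) (nat_lit 16) (nat_lit 4) (nat_lit 352) (nat_lit 282) (nat_lit 146)) (XT.lf (nat_lit 0) (nat_lit 42482444535) (nat_lit 228) (nat_lit 43688952750) (nat_lit 76) (nat_lit 44632478605) (nat_lit 15) (nat_lit 5) (nat_lit 18) (nat_lit 5) (nat_lit 16) (nat_lit 4) (nat_lit 353) (nat_lit 282) (nat_lit 145))))))))
noncomputable def xc88 : XT := (XT.nd (nat_lit 36894) (nat_lit 0) (nat_lit 1900) (XT.nd (nat_lit 35880) (nat_lit 0) (nat_lit 7828) (XT.nd (nat_lit 35334) (nat_lit 0) (nat_lit 13376) (XT.nd (nat_lit 35100) (nat_lit 0) (nat_lit 14288) (XT.nd (nat_lit 78) (nat_lit 0) (nat_lit 0) (XT.lf (nat_lit 0) (nat_lit 5640797290) (nat_lit 76) (nat_lit 61145832631) (nat_lit 152) (nat_lit 69691575385) (nat_lit 14) (nat_lit 5) (nat_lit 15) (nat_lit 5) (nat_lit 16) (nat_lit 4) (nat_lit 354)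 (nat_lit 282) (nat_lit 144)) (XT.nd (nat_lit 78) (nat_lit 0) (nat_lit 0) (XT.lf (nat_lit 0) (nat_lit 58343932773) (nat_lit 76) (nat_lit 34408467052) (nat_lit 152) (nat_lit 49670461388) (nat_lit 14) (nat_lit 5) (nat_lit 15) (nat_lit 5) (nat_lit 16) (nat_lit 4) (nat_lit 355) (nat_lit 282) (nat_lit 143)) (XT.lf (nat_lit 0) (nat_lit 113676441528) (nat_lit 76) (nat_lit 6336812914) (nat_lit 152) (nat_lit 28651592803) (nat_lit 14) (nat_lit 5) (nat_lit 15) (nat_lit 5) (nat_lit 16) (nat_lit 4) (nat_lit 356) (nat_lit 282) (nat_lit 142)))) (XT.nd (nat_lit 78) (nat_lit 0) (nat_lit 0) (XT.lf (nat_lit 0) (nat_lit 4654255546) (nat_lit 1140) (nat_lit 885017001) (nat_lit 1140) (nat_lit 885017001) (nat_lit 202) (nat_lit 3) (nat_lit 217) (nat_lit 3) (nat_lit 217) (nat_lit 5) (nat_lit 283) (nat_lit 283) (nat_lit 214)) (XT.nd (nat_lit 78) (nat_lit 0) (nat_lit 76) (XT.lf (nat_lit 76) (nat_lit 7997342695) (nat_lit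 0) (nat_lit 2253705248) (nat_lit 1140) (nat_lit 2896550420) (nat_lit 203) (nat_lit 5) (nat_lit 202) (nat_lit 3) (nat_lit 217) (nat_lit 5) (nat_lit 284) (nat_lit 283) (nat_lit 213)) (XT.lf (nat_lit 76) (nat_lit 4832999736) (nat_lit 0) (nat_lit 6499443361) (nat_lit 1140) (nat_lit 2126431194) (nat_lit 204) (nat_lit 5) (nat_lit 203) (nat_lit 5) (nat_lit 218) (nat_lit 5) (nat_lit 285) (nat_lit 283) (nat_lit 212))))) (XT.nd (nat_lit 234) (nat_lit 0) (nat_lit 76) (XT.nd (nat_lit 78) (nat_lit 1064) (nat_lit 0) (XT.lf (nat_lit 76) (nat_lit 1596589634) (nat_lit 0) (nat_lit 10951007840) (nat_lit 1140) (nat_lit 1235780755) (nat_lit 205) (nat_lit 5) (nat_lit 204) (nat_lit 5) (nat_lit 219) (nat_lit 5) (nat_lit 286) (nat_lit 283) (nat_lit 211)) (XT.nd (nat_lit 78) (nat_lit 1064) (nat_lit 0) (XT.lf (nat_lit 76) (nat_lit 12420696527) (nat_lit 0) (nat_lit 1519530620) (nat_lit 1140) (nat_lit 180430972) (nat_lit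 205) (nat_lit 5) (nat_lit 204) (nat_lit 5) (nat_lit 219) (nat_lit 5) (nat_lit 287) (nat_lit 283) (nat_lit 210)) (XT.lf (nat_lit 0) (nat_lit 1046595339) (nat_lit 1140) (nat_lit 5090152492) (nat_lit 1216) (nat_lit 8333724647) (nat_lit 190) (nat_lit 5) (nat_lit 205) (nat_lit 5) (nat_lit 206) (nat_lit 5) (nat_lit 288) (nat_lit 283) (nat_lit 209)))) (XT.nd (nat_lit 156) (nat_lit 0) (nat_lit 76) (XT.nd (nat_lit 78) (nat_lit 0) (nat_lit 0) (XT.lf (nat_lit 0) (nat_lit 2428271294) (nat_lit 1140) (nat_lit 8578163712) (nat_lit 1216) (nat_lit 3828424098) (nat_lit 191) (nat_lit 5) (nat_lit 206) (nat_lit 5) (nat_lit 207) (nat_lit 5) (nat_lit 289) (nat_lit 283) (nat_lit 208)) (XT.lf (nat_lit 76) (nat_lit 3034611890) (nat_lit 0) (nat_lit 955889406) (nat_lit 1216) (nat_lit 11223663508) (nat_lit 192) (nat_lit 5) (nat_lit 191) (nat_lit 5) (nat_lit 207) (nat_lit 5) (nat_lit 290) (nat_lit 283) (nat_lit 207)))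 (XT.nd (nat_lit 78) (nat_lit 0) (nat_lit 76) (XT.lf (nat_lit 0) (nat_lit 5781129856) (nat_lit 1140) (nat_lit 319523303) (nat_lit 1216) (nat_lit 9507315779) (nat_lit 192) (nat_lit 5) (nat_lit 207) (nat_lit 5) (nat_lit 208) (nat_lit 5) (nat_lit 291) (nat_lit 283) (nat_lit 206)) (XT.lf (nat_lit 0) (nat_lit 7803958657) (nat_lit 1140) (nat_lit 3720649367) (nat_lit 1216) (nat_lit 4492614961) (nat_lit 193) (nat_lit 5) (nat_lit 208) (nat_lit 5) (nat_lit 209) (nat_lit 5) (nat_lit 292) (nat_lit 283) (nat_lit 205)))))) (XT.nd (nat_lit 468) (nat_lit 2888) (nat_lit 0) (XT.nd (nat_lit 234) (nat_lit 1216) (nat_lit 0) (XT.nd (nat_lit 78) (nat_lit 1672) (nat_lit 0) (XT.lf (nat_lit 76) (nat_lit 9198136387) (nat_lit 0) (nat_lit 854706216) (nat_lit 1216) (nat_lit 6390387600) (nat_lit 194) (nat_lit 5) (nat_lit 193) (nat_lit 5) (nat_lit 209) (nat_lit 5) (nat_lit 293) (nat_lit 283) (nat_lit 204)) (XT.nd (nat_lit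 78) (nat_lit 608) (nat_lit 0) (XT.lf (nat_lit 0) (nat_lit 5944060374) (nat_lit 1140) (nat_lit 6638188714) (nat_lit 1216) (nat_lit 4303282418) (nat_lit 179) (nat_lit 5) (nat_lit 194) (nat_lit 5) (nat_lit 195) (nat_lit 5) (nat_lit 294) (nat_lit 283) (nat_lit 203)) (XT.lf (nat_lit 0) (nat_lit 2570140390) (nat_lit 608) (nat_lit 12794062870) (nat_lit 684) (nat_lit 1981996650) (nat_lit 171) (nat_lit 5) (nat_lit 179) (nat_lit 5) (nat_lit 180) (nat_lit 5) (nat_lit 295) (nat_lit 283) (nat_lit 202)))) (XT.nd (nat_lit 78) (nat_lit 1140) (nat_lit 0) (XT.lf (nat_lit 0) (nat_lit 601854835) (nat_lit 684) (nat_lit 936382613) (nat_lit 76) (nat_lit 16286903131) (nat_lit 170) (nat_lit 5) (nat_lit 179) (nat_lit 5) (nat_lit 171) (nat_lit 5) (nat_lit 296) (nat_lit 283) (nat_lit 201)) (XT.nd (nat_lit 78) (nat_lit 532) (nat_lit 0) (XT.lf (nat_lit 0) (nat_lit 3483361474) (nat_lit 684) (nat_lit 4601776925) (nat_lit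 76) (nat_lit 10236047824) (nat_lit 162) (nat_lit 5) (nat_lit 171) (nat_lit 5) (nat_lit 163) (nat_lit 5) (nat_lit 297) (nat_lit 283) (nat_lit 200)) (XT.lf (nat_lit 0) (nat_lit 6648392778) (nat_lit 608) (nat_lit 8424093469) (nat_lit 76) (nat_lit 3765393237) (nat_lit 155) (nat_lit 5) (nat_lit 163) (nat_lit 5) (nat_lit 156) (nat_lit 5) (nat_lit 298) (nat_lit 283) (nat_lit 199))))) (XT.nd (nat_lit 234) (nat_lit 1900) (nat_lit 0) (XT.nd (nat_lit 78) (nat_lit 456) (nat_lit 0) (XT.lf (nat_lit 0) (nat_lit 6928023262) (nat_lit 532) (nat_lit 3217400187) (nat_lit 608) (nat_lit 9229798969) (nat_lit 148) (nat_lit 5) (nat_lit 155) (nat_lit 5) (nat_lit 156) (nat_lit 5) (nat_lit 299) (nat_lit 283) (nat_lit 198)) (XT.nd (nat_lit 78) (nat_lit 0) (nat_lit 0) (XT.lf (nat_lit 0) (nat_lit 3238132130) (nat_lit 456) (nat_lit 10765161645) (nat_lit 532) (nat_lit 5930585214) (nat_lit 142) (nat_lit 5) (nat_lit 148) (nat_lit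 5) (nat_lit 149) (nat_lit 5) (nat_lit 300) (nat_lit 283) (nat_lit 197)) (XT.lf (nat_lit 0) (nat_lit 18210239624) (nat_lit 532) (nat_lit 619889531) (nat_lit 76) (nat_lit 1685678665) (nat_lit 142) (nat_lit 5) (nat_lit 149) (nat_lit 5) (nat_lit 143) (nat_lit 5) (nat_lit 301) (nat_lit 283) (nat_lit 196)))) (XT.nd (nat_lit 156) (nat_lit 836) (nat_lit 0) (XT.nd (nat_lit 78) (nat_lit 456) (nat_lit 0) (XT.lf (nat_lit 0) (nat_lit 1720968695) (nat_lit 608) (nat_lit 4685540834) (nat_lit 76) (nat_lit 14712427216) (nat_lit 134) (nat_lit 5) (nat_lit 142) (nat_lit 5) (nat_lit 135) (nat_lit 5) (nat_lit 302) (nat_lit 283) (nat_lit 195)) (XT.lf (nat_lit 0) (nat_lit 6077305146) (nat_lit 532) (nat_lit 9007854433) (nat_lit 76) (nat_lit 6661114973) (nat_lit 128) (nat_lit 5) (nat_lit 135) (nat_lit 5) (nat_lit 129) (nat_lit 5) (nat_lit 303) (nat_lit 283) (nat_lit 194))) (XT.nd (nat_lit 78) (nat_lit 380) (nat_lit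 0) (XT.lf (nat_lit 0) (nat_lit 8813725404) (nat_lit 456) (nat_lit 2017389573) (nat_lit 532) (nat_lit 11568495451) (nat_lit 122) (nat_lit 5) (nat_lit 128) (nat_lit 5) (nat_lit 129) (nat_lit 5) (nat_lit 304) (nat_lit 283) (nat_lit 193)) (XT.lf (nat_lit 0) (nat_lit 4586869942) (nat_lit 380) (nat_lit 11468202162) (nat_lit 456) (nat_lit 7023587170) (nat_lit 117) (nat_lit 5) (nat_lit 122) (nat_lit 5) (nat_lit 123) (nat_lit 5) (nat_lit 305) (nat_lit 283) (nat_lit 192))))))) (XT.nd (nat_lit 1014) (nat_lit 2432) (nat_lit 0) (XT.nd (nat_lit 468) (nat_lit 1520) (nat_lit 0) (XT.nd (nat_lit 234) (nat_lit 1140) (nat_lit 0) (XT.nd (nat_lit 78) (nat_lit 456) (nat_lit 0) (XT.lf (nat_lit 0) (nat_lit 104222325) (nat_lit 380) (nat_lit 21601305474) (nat_lit 456) (nat_lit 2081192677) (nat_lit 112) (nat_lit 5) (nat_lit 117) (nat_lit 5) (nat_lit 118) (nat_lit 5) (nat_lit 306) (nat_lit 283) (nat_lit 191)) (XT.nd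 (nat_lit 78) (nat_lit 380) (nat_lit 0) (XT.lf (nat_lit 0) (nat_lit 3338934998) (nat_lit 456) (nat_lit 4676186338) (nat_lit 76) (nat_lit 16505446498) (nat_lit 111) (nat_lit 5) (nat_lit 117) (nat_lit 5) (nat_lit 112) (nat_lit 5) (nat_lit 307) (nat_lit 283) (nat_lit 190)) (XT.lf (nat_lit 0) (nat_lit 9182641753) (nat_lit 456) (nat_lit 9805159181) (nat_lit 76) (nat_lit 6296836675) (nat_lit 106) (nat_lit 5) (nat_lit 112) (nat_lit 5) (nat_lit 107) (nat_lit 5) (nat_lit 308) (nat_lit 283) (nat_lit 189)))) (XT.nd (nat_lit 78) (nat_lit 760) (nat_lit 0) (XT.lf (nat_lit 0) (nat_lit 10764304795) (nat_lit 380) (nat_lit 4771824935) (nat_lit 456) (nat_lit 10544269145) (nat_lit 101) (nat_lit 5) (nat_lit 106) (nat_lit 5) (nat_lit 107) (nat_lit 5) (nat_lit 309) (nat_lit 283) (nat_lit 188)) (XT.nd (nat_lit 78) (nat_lit 456) (nat_lit 0) (XT.lf (nat_lit 0) (nat_lit 5646378371) (nat_lit 304) (nat_lit 16799861442)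 (nat_lit 380) (nat_lit 4462555085) (nat_lit 97) (nat_lit 5) (nat_lit 101) (nat_lit 5) (nat_lit 102) (nat_lit 5) (nat_lit 310) (nat_lit 283) (nat_lit 187)) (XT.lf (nat_lit 0) (nat_lit 118092740) (nat_lit 380) (nat_lit 1961639533) (nat_lit 456) (nat_lit 25692517301) (nat_lit 91) (nat_lit 5) (nat_lit 96) (nat_lit 5) (nat_lit 97) (nat_lit 5) (nat_lit 311) (nat_lit 283) (nat_lit 186))))) (XT.nd (nat_lit 234) (nat_lit 912) (nat_lit 0) (XT.nd (nat_lit 78) (nat_lit 608) (nat_lit 0) (XT.lf (nat_lit 0) (nat_lit 9195613300) (nat_lit 456) (nat_lit 5857474117) (nat_lit 76) (nat_lit 13614314217) (nat_lit 91) (nat_lit 5) (nat_lit 97) (nat_lit 5) (nat_lit 92) (nat_lit 5) (nat_lit 312) (nat_lit 283) (nat_lit 185)) (XT.nd (nat_lit 78) (nat_lit 304) (nat_lit 0) (XT.lf (nat_lit 0) (nat_lit 16844996545) (nat_lit 380) (nat_lit 12277524119) (nat_lit 76) (nat_lit 479472075) (nat_lit 87) (nat_lit 5) (nat_lit 92)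 (nat_lit 5) (nat_lit 88) (nat_lit 5) (nat_lit 313) (nat_lit 283) (nat_lit 184)) (XT.lf (nat_lit 0) (nat_lit 11255587476) (nat_lit 304) (nat_lit 13929337255) (nat_lit 380) (nat_lit 5389158475) (nat_lit 83) (nat_lit 5) (nat_lit 87) (nat_lit 5) (nat_lit 88) (nat_lit 5) (nat_lit 314) (nat_lit 283) (nat_lit 183)))) (XT.nd (nat_lit 156) (nat_lit 532) (nat_lit 0) (XT.nd (nat_lit 78) (nat_lit 0) (nat_lit 0) (XT.lf (nat_lit 0) (nat_lit 2482604218) (nat_lit 380) (nat_lit 26929864518) (nat_lit 76) (nat_lit 2176203797) (nat_lit 78) (nat_lit 5) (nat_lit 83) (nat_lit 5) (nat_lit 79) (nat_lit 5) (nat_lit 315) (nat_lit 283) (nat_lit 182)) (XT.lf (nat_lit 0) (nat_lit 10966717311) (nat_lit 380) (nat_lit 2623800912) (nat_lit 76) (nat_lit 19051976452) (nat_lit 78) (nat_lit 5) (nat_lit 83) (nat_lit 5) (nat_lit 79) (nat_lit 5) (nat_lit 316) (nat_lit 283) (nat_lit 181))) (XT.nd (nat_lit 78) (nat_lit 228) (nat_lit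 0) (XT.lf (nat_lit 0) (nat_lit 20118923333) (nat_lit 380) (nat_lit 10437588768) (nat_lit 76) (nat_lit 3185189336) (nat_lit 74) (nat_lit 5) (nat_lit 79) (nat_lit 5) (nat_lit 75) (nat_lit 5) (nat_lit 317) (nat_lit 283) (nat_lit 180)) (XT.lf (nat_lit 0) (nat_lit 15843429571) (nat_lit 228) (nat_lit 14190746160) (nat_lit 304) (nat_lit 4852539372) (nat_lit 71) (nat_lit 5) (nat_lit 74) (nat_lit 5) (nat_lit 75) (nat_lit 5) (nat_lit 318) (nat_lit 283) (nat_lit 179)))))) (XT.nd (nat_lit 546) (nat_lit 1064) (nat_lit 0) (XT.nd (nat_lit 234) (nat_lit 760) (nat_lit 0) (XT.nd (nat_lit 78) (nat_lit 228) (nat_lit 0) (XT.lf (nat_lit 0) (nat_lit 4473258292) (nat_lit 380) (nat_lit 28452366587) (nat_lit 76) (nat_lit 3156045688) (nat_lit 66) (nat_lit 5) (nat_lit 71) (nat_lit 5) (nat_lit 67) (nat_lit 5) (nat_lit 319) (nat_lit 283) (nat_lit 178)) (XT.nd (nat_lit 78) (nat_lit 228) (nat_lit 0) (XT.lf (nat_lit 0) (nat_lit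 14496408533) (nat_lit 380) (nat_lit 1507226956) (nat_lit 76) (nat_lit 21321362843) (nat_lit 66) (nat_lit 5) (nat_lit 71) (nat_lit 5) (nat_lit 67) (nat_lit 5) (nat_lit 320) (nat_lit 283) (nat_lit 177)) (XT.lf (nat_lit 0) (nat_lit 25292469427) (nat_lit 304) (nat_lit 11339793011) (nat_lit 76) (nat_lit 1990085545) (nat_lit 63) (nat_lit 5) (nat_lit 67) (nat_lit 5) (nat_lit 64) (nat_lit 5) (nat_lit 321) (nat_lit 283) (nat_lit 176)))) (XT.nd (nat_lit 156) (nat_lit 228) (nat_lit 0) (XT.nd (nat_lit 78) (nat_lit 304) (nat_lit 0) (XT.lf (nat_lit 0) (nat_lit 17728376130) (nat_lit 228) (nat_lit 19237659029) (nat_lit 304) (nat_lit 3008406613) (nat_lit 60) (nat_lit 5) (nat_lit 63) (nat_lit 5) (nat_lit 64) (nat_lit 5) (nat_lit 322) (nat_lit 283) (nat_lit 175)) (XT.lf (nat_lit 0) (nat_lit 7144406810) (nat_lit 228) (nat_lit 708839663) (nat_lit 304) (nat_lit 33533336680) (nat_lit 56) (nat_lit 5) (nat_lit 59)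 (nat_lit 5) (nat_lit 60) (nat_lit 5) (nat_lit 323) (nat_lit 283) (nat_lit 174))) (XT.nd (nat_lit 78) (nat_lit 228) (nat_lit 0) (XT.lf (nat_lit 0) (nat_lit 19598405354) (nat_lit 304) (nat_lit 4620703405) (nat_lit 76) (nat_lit 18637256796) (nat_lit 56) (nat_lit 5) (nat_lit 60) (nat_lit 5) (nat_lit 57) (nat_lit 5) (nat_lit 324) (nat_lit 283) (nat_lit 173)) (XT.lf (nat_lit 0) (nat_lit 26987319800) (nat_lit 228) (nat_lit 5201113771) (nat_lit 304) (nat_lit 12203481629) (nat_lit 53) (nat_lit 5) (nat_lit 56) (nat_lit 5) (nat_lit 57) (nat_lit 5) (nat_lit 325) (nat_lit 283) (nat_lit 172))))) (XT.nd (nat_lit 234) (nat_lit 608) (nat_lit 0) (XT.nd (nat_lit 78) (nat_lit 304) (nat_lit 0) (XT.lf (nat_lit 0) (nat_lit 14394134927) (nat_lit 152) (nat_lit 31333474559) (nat_lit 228) (nat_lit 267049609) (nat_lit 51) (nat_lit 5) (nat_lit 53) (nat_lit 5) (nat_lit 54) (nat_lit 5) (nat_lit 326) (nat_lit 283) (nat_lit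 171)) (XT.nd (nat_lit 78) (nat_lit 0) (nat_lit 0) (XT.lf (nat_lit 0) (nat_lit 294318388) (nat_lit 228) (nat_lit 11960275835) (nat_lit 304) (nat_lit 35412581904) (nat_lit 47) (nat_lit 5) (nat_lit 50) (nat_lit 5) (nat_lit 51) (nat_lit 5) (nat_lit 327) (nat_lit 283) (nat_lit 170)) (XT.lf (nat_lit 0) (nat_lit 25797652702) (nat_lit 304) (nat_lit 15069185404) (nat_lit 76) (nat_lit 8544381340) (nat_lit 47) (nat_lit 5) (nat_lit 51) (nat_lit 5) (nat_lit 48) (nat_lit 5) (nat_lit 328) (nat_lit 283) (nat_lit 169)))) (XT.nd (nat_lit 156) (nat_lit 152) (nat_lit 0) (XT.nd (nat_lit 78) (nat_lit 304) (nat_lit 0) (XT.lf (nat_lit 0) (nat_lit 19088678232) (nat_lit 152) (nat_lit 21225505321) (nat_lit 228) (nat_lit 10919396959) (nat_lit 45) (nat_lit 5) (nat_lit 47) (nat_lit 5) (nat_lit 48) (nat_lit 5) (nat_lit 329) (nat_lit 283) (nat_lit 168)) (XT.lf (nat_lit 0) (nat_lit 2131266521) (nat_lit 228) (nat_lit 400629621)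 (nat_lit 304) (nat_lit 50609390445) (nat_lit 41) (nat_lit 5) (nat_lit 44) (nat_lit 5) (nat_lit 45) (nat_lit 5) (nat_lit 330) (nat_lit 283) (nat_lit 167))) (XT.nd (nat_lit 78) (nat_lit 152) (nat_lit 0) (XT.lf (nat_lit 0) (nat_lit 16965032631) (nat_lit 304) (nat_lit 16673679753) (nat_lit 76) (nat_lit 21486373484) (nat_lit 41) (nat_lit 5) (nat_lit 45) (nat_lit 5) (nat_lit 42) (nat_lit 5) (nat_lit 331) (nat_lit 283) (nat_lit 166)) (XT.lf (nat_lit 0) (nat_lit 19749019127) (nat_lit 152) (nat_lit 12557537966) (nat_lit 228) (nat_lit 24895920416) (nat_lit 39) (nat_lit 5) (nat_lit 41) (nat_lit 5) (nat_lit 42) (nat_lit 5) (nat_lit 332) (nat_lit 283) (nat_lit 165))))))))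
noncomputable def xc89 : XT := (XT.nd (nat_lit 36972) (nat_lit 0) (nat_lit 5852) (XT.nd (nat_lit 1014) (nat_lit 684) (nat_lit 0) (XT.nd (nat_lit 468) (nat_lit 456) (nat_lit 0) (XT.nd (nat_lit 234) (nat_lit 380) (nat_lit 0) (XT.nd (nat_lit 78) (nat_lit 380) (nat_lit 0) (XT.lf (nat_lit 0) (nat_lit 48673599484) (nat_lit 228) (nat_lit 1142691353) (nat_lit 76) (nat_lit 9559698769) (nat_lit 39) (nat_lit 5) (nat_lit 42) (nat_lit 5) (nat_lit 40) (nat_lit 5) (nat_lit 333) (nat_lit 283) (nat_lit 164)) (XT.nd (nat_lit 78) (nat_lit 152) (nat_lit 0) (XT.lf (nat_lit 0) (nat_lit 4604951676) (nat_lit 228) (nat_lit 24109782256) (nat_lit 76) (nat_lit 32927652520) (nat_lit 36) (nat_lit 5) (nat_lit 39) (nat_lit 5) (nat_lit 37) (nat_lit 5) (nat_lit 334) (nat_lit 283) (nat_lit 163)) (XT.lf (nat_lit 0) (nat_lit 14303893542) (nat_lit 152) (nat_lit 6297371766) (nat_lit 228) (nat_lit 43413314139) (nat_lit 34) (nat_lit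 5) (nat_lit 36) (nat_lit 5) (nat_lit 37) (nat_lit 5) (nat_lit 335) (nat_lit 283) (nat_lit 162)))) (XT.nd (nat_lit 78) (nat_lit 380) (nat_lit 0) (XT.lf (nat_lit 0) (nat_lit 37807448477) (nat_lit 228) (nat_lit 11534767298) (nat_lit 76) (nat_lit 17150868160) (nat_lit 34) (nat_lit 5) (nat_lit 37) (nat_lit 5) (nat_lit 35) (nat_lit 5) (nat_lit 336) (nat_lit 283) (nat_lit 161)) (XT.nd (nat_lit 78) (nat_lit 228) (nat_lit 0) (XT.lf (nat_lit 0) (nat_lit 29042908038) (nat_lit 152) (nat_lit 27167750838) (nat_lit 228) (nat_lit 12874756523) (nat_lit 32) (nat_lit 5) (nat_lit 34) (nat_lit 5) (nat_lit 35) (nat_lit 5) (nat_lit 337) (nat_lit 283) (nat_lit 160)) (XT.lf (nat_lit 0) (nat_lit 40461883) (nat_lit 152) (nat_lit 3727898195) (nat_lit 228) (nat_lit 68034499281) (nat_lit 29) (nat_lit 5) (nat_lit 31) (nat_lit 5) (nat_lit 32) (nat_lit 5) (nat_lit 338) (nat_lit 283) (nat_lit 159))))) (XT.nd (nat_lit 234)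 (nat_lit 304) (nat_lit 0) (XT.nd (nat_lit 78) (nat_lit 152) (nat_lit 0) (XT.lf (nat_lit 0) (nat_lit 21591128206) (nat_lit 228) (nat_lit 32024122792) (nat_lit 76) (nat_lit 21018690273) (nat_lit 29) (nat_lit 5) (nat_lit 32) (nat_lit 5) (nat_lit 30) (nat_lit 5) (nat_lit 339) (nat_lit 283) (nat_lit 158)) (XT.nd (nat_lit 78) (nat_lit 0) (nat_lit 0) (XT.lf (nat_lit 0) (nat_lit 9846158742) (nat_lit 152) (nat_lit 30585680775) (nat_lit 228) (nat_lit 37170936380) (nat_lit 27) (nat_lit 5) (nat_lit 29) (nat_lit 5) (nat_lit 30) (nat_lit 5) (nat_lit 340) (nat_lit 283) (nat_lit 157)) (XT.lf (nat_lit 0) (nat_lit 54470019866) (nat_lit 152) (nat_lit 6068930045) (nat_lit 228) (nat_lit 20171374069) (nat_lit 27) (nat_lit 5) (nat_lit 29) (nat_lit 5) (nat_lit 30) (nat_lit 5) (nat_lit 341) (nat_lit 283) (nat_lit 156)))) (XT.nd (nat_lit 156) (nat_lit 152) (nat_lit 0) (XT.nd (nat_lit 78) (nat_lit 76) (nat_lit 0) (XT.lf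 (nat_lit 0) (nat_lit 17495277598) (nat_lit 76) (nat_lit 64508349196) (nat_lit 152) (nat_lit 1959058850) (nat_lit 26) (nat_lit 5) (nat_lit 27) (nat_lit 5) (nat_lit 28) (nat_lit 4) (nat_lit 342) (nat_lit 283) (nat_lit 155)) (XT.lf (nat_lit 0) (nat_lit 17158022411) (nat_lit 152) (nat_lit 23641173311) (nat_lit 76) (nat_lit 46563649919) (nat_lit 25) (nat_lit 5) (nat_lit 27) (nat_lit 5) (nat_lit 26) (nat_lit 5) (nat_lit 343) (nat_lit 283) (nat_lit 154))) (XT.nd (nat_lit 78) (nat_lit 0) (nat_lit 0) (XT.lf (nat_lit 0) (nat_lit 21722215877) (nat_lit 152) (nat_lit 15672674926) (nat_lit 228) (nat_lit 53531409660) (nat_lit 23) (nat_lit 5) (nat_lit 25) (nat_lit 5) (nat_lit 26) (nat_lit 5) (nat_lit 344) (nat_lit 283) (nat_lit 153)) (XT.lf (nat_lit 0) (nat_lit 58987710698) (nat_lit 228) (nat_lit 24926316313) (nat_lit 76) (nat_lit 10743579873) (nat_lit 23) (nat_lit 5) (nat_lit 26) (nat_lit 5) (nat_lit 24)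 (nat_lit 4) (nat_lit 345) (nat_lit 283) (nat_lit 152)))))) (XT.nd (nat_lit 468) (nat_lit 304) (nat_lit 0) (XT.nd (nat_lit 234) (nat_lit 76) (nat_lit 0) (XT.nd (nat_lit 78) (nat_lit 228) (nat_lit 0) (XT.lf (nat_lit 0) (nat_lit 21825297215) (nat_lit 76) (nat_lit 60198461335) (nat_lit 152) (nat_lit 16540814470) (nat_lit 22) (nat_lit 5) (nat_lit 23) (nat_lit 5) (nat_lit 24) (nat_lit 4) (nat_lit 346) (nat_lit 283) (nat_lit 151)) (XT.nd (nat_lit 78) (nat_lit 152) (nat_lit 0) (XT.lf (nat_lit 0) (nat_lit 3730379873) (nat_lit 152) (nat_lit 31268036828) (nat_lit 76) (nat_lit 67659805526) (nat_lit 21) (nat_lit 5) (nat_lit 23) (nat_lit 5) (nat_lit 22) (nat_lit 5) (nat_lit 347) (nat_lit 283) (nat_lit 150)) (XT.lf (nat_lit 0) (nat_lit 16627018332) (nat_lit 152) (nat_lit 8204934168) (nat_lit 228) (nat_lit 82114922805) (nat_lit 19) (nat_lit 5) (nat_lit 21) (nat_lit 5) (nat_lit 22) (nat_lit 5) (nat_lit 348)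 (nat_lit 283) (nat_lit 149)))) (XT.nd (nat_lit 78) (nat_lit 76) (nat_lit 0) (XT.lf (nat_lit 0) (nat_lit 47501226809) (nat_lit 228) (nat_lit 44071949600) (nat_lit 76) (nat_lit 19861407614) (nat_lit 19) (nat_lit 5) (nat_lit 22) (nat_lit 5) (nat_lit 20) (nat_lit 4) (nat_lit 349) (nat_lit 283) (nat_lit 148)) (XT.nd (nat_lit 78) (nat_lit 0) (nat_lit 0) (XT.lf (nat_lit 0) (nat_lit 4486290088) (nat_lit 76) (nat_lit 66939801751) (nat_lit 152) (nat_lit 44716924127) (nat_lit 18) (nat_lit 5) (nat_lit 19) (nat_lit 5) (nat_lit 20) (nat_lit 4) (nat_lit 350) (nat_lit 283) (nat_lit 147)) (XT.lf (nat_lit 0) (nat_lit 56386818243) (nat_lit 76) (nat_lit 40610369484) (nat_lit 152) (nat_lit 24076183673) (nat_lit 18) (nat_lit 5) (nat_lit 19) (nat_lit 5) (nat_lit 20) (nat_lit 4) (nat_lit 351) (nat_lit 283) (nat_lit 146))))) (XT.nd (nat_lit 234) (nat_lit 76) (nat_lit 0) (XT.nd (nat_lit 78) (nat_lit 228) (nat_lit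 0) (XT.lf (nat_lit 0) (nat_lit 110876089337) (nat_lit 76) (nat_lit 12967230759) (nat_lit 152) (nat_lit 2407031507) (nat_lit 18) (nat_lit 5) (nat_lit 19) (nat_lit 5) (nat_lit 20) (nat_lit 4) (nat_lit 352) (nat_lit 283) (nat_lit 145)) (XT.nd (nat_lit 78) (nat_lit 0) (nat_lit 0) (XT.lf (nat_lit 0) (nat_lit 20459883928) (nat_lit 228) (nat_lit 94907046442) (nat_lit 76) (nat_lit 16298044930) (nat_lit 15) (nat_lit 5) (nat_lit 18) (nat_lit 5) (nat_lit 16) (nat_lit 4) (nat_lit 353) (nat_lit 283) (nat_lit 144)) (XT.lf (nat_lit 0) (nat_lit 44708234034) (nat_lit 228) (nat_lit 45690273149) (nat_lit 76) (nat_lit 46942473214) (nat_lit 15) (nat_lit 5) (nat_lit 18) (nat_lit 5) (nat_lit 16) (nat_lit 4) (nat_lit 354) (nat_lit 283) (nat_lit 143)))) (XT.nd (nat_lit 35100) (nat_lit 0) (nat_lit 14288) (XT.nd (nat_lit 78) (nat_lit 0) (nat_lit 0) (XT.lf (nat_lit 0) (nat_lit 6100715088) (nat_lit 76) (nat_lit 64123782175)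 (nat_lit 152) (nat_lit 73074624835) (nat_lit 14) (nat_lit 5) (nat_lit 15) (nat_lit 5) (nat_lit 16) (nat_lit 4) (nat_lit 355) (nat_lit 283) (nat_lit 142)) (XT.lf (nat_lit 0) (nat_lit 61430536967) (nat_lit 76) (nat_lit 36053326512) (nat_lit 152) (nat_lit 52057289867) (nat_lit 14) (nat_lit 5) (nat_lit 15) (nat_lit 5) (nat_lit 16) (nat_lit 4) (nat_lit 356) (nat_lit 283) (nat_lit 141))) (XT.nd (nat_lit 78) (nat_lit 0) (nat_lit 0) (XT.lf (nat_lit 0) (nat_lit 5510034943) (nat_lit 1140) (nat_lit 607945326) (nat_lit 1140) (nat_lit 607945326) (nat_lit 202) (nat_lit 3) (nat_lit 217) (nat_lit 3) (nat_lit 217) (nat_lit 5) (nat_lit 284) (nat_lit 284) (nat_lit 212)) (XT.lf (nat_lit 76) (nat_lit 9021433588) (nat_lit 0) (nat_lit 2934960735) (nat_lit 1140) (nat_lit 1811111699) (nat_lit 203) (nat_lit 5) (nat_lit 202) (nat_lit 3) (nat_lit 217) (nat_lit 5) (nat_lit 285) (nat_lit 284) (nat_lit 211))))))) (XT.nd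 (nat_lit 1014) (nat_lit 5396) (nat_lit 0) (XT.nd (nat_lit 468) (nat_lit 2052) (nat_lit 0) (XT.nd (nat_lit 234) (nat_lit 0) (nat_lit 76) (XT.nd (nat_lit 78) (nat_lit 1064) (nat_lit 0) (XT.lf (nat_lit 76) (nat_lit 5722687135) (nat_lit 0) (nat_lit 7313396533) (nat_lit 1140) (nat_lit 1060015748) (nat_lit 204) (nat_lit 5) (nat_lit 203) (nat_lit 5) (nat_lit 218) (nat_lit 5) (nat_lit 286) (nat_lit 284) (nat_lit 210)) (XT.nd (nat_lit 78) (nat_lit 1140) (nat_lit 0) (XT.lf (nat_lit 76) (nat_lit 2345141038) (nat_lit 0) (nat_lit 11914662599) (nat_lit 1140) (nat_lit 178667251) (nat_lit 205) (nat_lit 5) (nat_lit 204) (nat_lit 5) (nat_lit 219) (nat_lit 5) (nat_lit 287) (nat_lit 284) (nat_lit 209)) (XT.lf (nat_lit 0) (nat_lit 859071735) (nat_lit 1140) (nat_lit 1124050350) (nat_lit 1216) (nat_lit 12810862699) (nat_lit 189) (nat_lit 5) (nat_lit 204) (nat_lit 5) (nat_lit 205) (nat_lit 5) (nat_lit 288) (nat_lit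 284) (nat_lit 208)))) (XT.nd (nat_lit 78) (nat_lit 0) (nat_lit 76) (XT.lf (nat_lit 0) (nat_lit 2096682268) (nat_lit 1140) (nat_lit 4669608644) (nat_lit 1216) (nat_lit 8396423851) (nat_lit 190) (nat_lit 5) (nat_lit 205) (nat_lit 5) (nat_lit 206) (nat_lit 5) (nat_lit 289) (nat_lit 284) (nat_lit 207)) (XT.nd (nat_lit 78) (nat_lit 0) (nat_lit 0) (XT.lf (nat_lit 0) (nat_lit 3503340855) (nat_lit 1140) (nat_lit 8318497876) (nat_lit 1216) (nat_lit 3724869245) (nat_lit 191) (nat_lit 5) (nat_lit 206) (nat_lit 5) (nat_lit 207) (nat_lit 5) (nat_lit 290) (nat_lit 284) (nat_lit 206)) (XT.lf (nat_lit 76) (nat_lit 3855178669) (nat_lit 0) (nat_lit 1249520759) (nat_lit 1216) (nat_lit 10841510181) (nat_lit 192) (nat_lit 5) (nat_lit 191) (nat_lit 5) (nat_lit 207) (nat_lit 5) (nat_lit 291) (nat_lit 284) (nat_lit 205))))) (XT.nd (nat_lit 234) (nat_lit 2280) (nat_lit 0) (XT.nd (nat_lit 78) (nat_lit 0) (nat_lit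 76) (XT.lf (nat_lit 76) (nat_lit 337624763) (nat_lit 0) (nat_lit 6604673645) (nat_lit 1216) (nat_lit 9418740623) (nat_lit 193) (nat_lit 5) (nat_lit 192) (nat_lit 5) (nat_lit 208) (nat_lit 5) (nat_lit 292) (nat_lit 284) (nat_lit 204)) (XT.nd (nat_lit 78) (nat_lit 0) (nat_lit 0) (XT.lf (nat_lit 0) (nat_lit 9026081394) (nat_lit 1140) (nat_lit 3231340326) (nat_lit 1216) (nat_lit 4534595155) (nat_lit 193) (nat_lit 5) (nat_lit 208) (nat_lit 5) (nat_lit 209) (nat_lit 5) (nat_lit 293) (nat_lit 284) (nat_lit 203)) (XT.lf (nat_lit 76) (nat_lit 10314026187) (nat_lit 0) (nat_lit 1040073593) (nat_lit 1216) (nat_lit 5886276800) (nat_lit 194) (nat_lit 5) (nat_lit 193) (nat_lit 5) (nat_lit 209) (nat_lit 5) (nat_lit 294) (nat_lit 284) (nat_lit 202)))) (XT.nd (nat_lit 156) (nat_lit 684) (nat_lit 0) (XT.nd (nat_lit 78) (nat_lit 608) (nat_lit 0) (XT.lf (nat_lit 0) (nat_lit 6904072598) (nat_lit 1140) (nat_lit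 7072940252) (nat_lit 1216) (nat_lit 3728819328) (nat_lit 179) (nat_lit 5) (nat_lit 194) (nat_lit 5) (nat_lit 195) (nat_lit 5) (nat_lit 295) (nat_lit 284) (nat_lit 201)) (XT.lf (nat_lit 0) (nat_lit 3366706206) (nat_lit 608) (nat_lit 13500379224) (nat_lit 684) (nat_lit 1323425874) (nat_lit 171) (nat_lit 5) (nat_lit 179) (nat_lit 5) (nat_lit 180) (nat_lit 5) (nat_lit 296) (nat_lit 284) (nat_lit 200))) (XT.nd (nat_lit 78) (nat_lit 608) (nat_lit 0) (XT.lf (nat_lit 0) (nat_lit 1339457791) (nat_lit 684) (nat_lit 331988215) (nat_lit 76) (nat_lit 17022840079) (nat_lit 170) (nat_lit 5) (nat_lit 179) (nat_lit 5) (nat_lit 171) (nat_lit 5) (nat_lit 297) (nat_lit 284) (nat_lit 199)) (XT.lf (nat_lit 0) (nat_lit 4336974039) (nat_lit 684) (nat_lit 4177622957) (nat_lit 76) (nat_lit 10701421190) (nat_lit 162) (nat_lit 5) (nat_lit 171) (nat_lit 5) (nat_lit 163) (nat_lit 5) (nat_lit 298) (nat_lit 284) (nat_lit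 198)))))) (XT.nd (nat_lit 546) (nat_lit 2356) (nat_lit 0) (XT.nd (nat_lit 234) (nat_lit 1520) (nat_lit 0) (XT.nd (nat_lit 78) (nat_lit 988) (nat_lit 0) (XT.lf (nat_lit 0) (nat_lit 7633840883) (nat_lit 608) (nat_lit 8189239047) (nat_lit 76) (nat_lit 3936298853) (nat_lit 155) (nat_lit 5) (nat_lit 163) (nat_lit 5) (nat_lit 156) (nat_lit 5) (nat_lit 299) (nat_lit 284) (nat_lit 197)) (XT.nd (nat_lit 78) (nat_lit 456) (nat_lit 0) (XT.lf (nat_lit 0) (nat_lit 7911677719) (nat_lit 532) (nat_lit 3369074443) (nat_lit 608) (nat_lit 9043624104) (nat_lit 148) (nat_lit 5) (nat_lit 155) (nat_lit 5) (nat_lit 156) (nat_lit 5) (nat_lit 300) (nat_lit 284) (nat_lit 196)) (XT.lf (nat_lit 0) (nat_lit 4037984665) (nat_lit 456) (nat_lit 11269840349) (nat_lit 532) (nat_lit 5603887836) (nat_lit 142) (nat_lit 5) (nat_lit 148) (nat_lit 5) (nat_lit 149) (nat_lit 5) (nat_lit 301) (nat_lit 284) (nat_lit 195)))) (XT.nd (nat_lit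 156) (nat_lit 912) (nat_lit 0) (XT.nd (nat_lit 78) (nat_lit 608) (nat_lit 0) (XT.lf (nat_lit 0) (nat_lit 19696646211) (nat_lit 532) (nat_lit 25661883) (nat_lit 76) (nat_lit 1801318906) (nat_lit 142) (nat_lit 5) (nat_lit 149) (nat_lit 5) (nat_lit 143) (nat_lit 5) (nat_lit 302) (nat_lit 284) (nat_lit 194)) (XT.lf (nat_lit 0) (nat_lit 2367462534) (nat_lit 608) (nat_lit 4300721608) (nat_lit 76) (nat_lit 15489244032) (nat_lit 134) (nat_lit 5) (nat_lit 142) (nat_lit 5) (nat_lit 135) (nat_lit 5) (nat_lit 303) (nat_lit 284) (nat_lit 193))) (XT.nd (nat_lit 78) (nat_lit 456) (nat_lit 0) (XT.lf (nat_lit 0) (nat_lit 6921302649) (nat_lit 532) (nat_lit 8840693717) (nat_lit 76) (nat_lit 7054776474) (nat_lit 128) (nat_lit 5) (nat_lit 135) (nat_lit 5) (nat_lit 129) (nat_lit 5) (nat_lit 304) (nat_lit 284) (nat_lit 192)) (XT.lf (nat_lit 0) (nat_lit 9854263067) (nat_lit 456) (nat_lit 2038585460) (nat_lit 532)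 (nat_lit 11610554733) (nat_lit 122) (nat_lit 5) (nat_lit 128) (nat_lit 5) (nat_lit 129) (nat_lit 5) (nat_lit 305) (nat_lit 284) (nat_lit 191))))) (XT.nd (nat_lit 234) (nat_lit 1520) (nat_lit 0) (XT.nd (nat_lit 78) (nat_lit 456) (nat_lit 0) (XT.lf (nat_lit 0) (nat_lit 5413849966) (nat_lit 380) (nat_lit 11945857422) (nat_lit 456) (nat_lit 6857273776) (nat_lit 117) (nat_lit 5) (nat_lit 122) (nat_lit 5) (nat_lit 123) (nat_lit 5) (nat_lit 306) (nat_lit 284) (nat_lit 190)) (XT.nd (nat_lit 78) (nat_lit 76) (nat_lit 0) (XT.lf (nat_lit 0) (nat_lit 704208353) (nat_lit 380) (nat_lit 22571172351) (nat_lit 456) (nat_lit 1685610288) (nat_lit 112) (nat_lit 5) (nat_lit 117) (nat_lit 5) (nat_lit 118) (nat_lit 5) (nat_lit 307) (nat_lit 284) (nat_lit 189)) (XT.lf (nat_lit 0) (nat_lit 3972445755) (nat_lit 456) (nat_lit 4333769412) (nat_lit 76) (nat_lit 17425895731) (nat_lit 111) (nat_lit 5) (nat_lit 117) (nat_lit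 5) (nat_lit 112) (nat_lit 5) (nat_lit 308) (nat_lit 284) (nat_lit 188)))) (XT.nd (nat_lit 156) (nat_lit 760) (nat_lit 0) (XT.nd (nat_lit 78) (nat_lit 380) (nat_lit 0) (XT.lf (nat_lit 0) (nat_lit 10092557991) (nat_lit 456) (nat_lit 9722808561) (nat_lit 76) (nat_lit 6719514262) (nat_lit 106) (nat_lit 5) (nat_lit 112) (nat_lit 5) (nat_lit 107) (nat_lit 5) (nat_lit 309) (nat_lit 284) (nat_lit 187)) (XT.lf (nat_lit 0) (nat_lit 11858714904) (nat_lit 380) (nat_lit 4888886036) (nat_lit 456) (nat_lit 10623334937) (nat_lit 101) (nat_lit 5) (nat_lit 106) (nat_lit 5) (nat_lit 107) (nat_lit 5) (nat_lit 310) (nat_lit 284) (nat_lit 186))) (XT.nd (nat_lit 78) (nat_lit 456) (nat_lit 0) (XT.lf (nat_lit 0) (nat_lit 6480910665) (nat_lit 304) (nat_lit 17508028347) (nat_lit 380) (nat_lit 4252262109) (nat_lit 97) (nat_lit 5) (nat_lit 101) (nat_lit 5) (nat_lit 102) (nat_lit 5) (nat_lit 311) (nat_lit 284) (nat_lit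 185)) (XT.lf (nat_lit 0) (nat_lit 668994706) (nat_lit 380) (nat_lit 1924689819) (nat_lit 456) (nat_lit 26554488447) (nat_lit 91) (nat_lit 5) (nat_lit 96) (nat_lit 5) (nat_lit 97) (nat_lit 5) (nat_lit 312) (nat_lit 284) (nat_lit 184))))))))
noncomputable def xc90 : XT := (XT.nd (nat_lit 2028) (nat_lit 1368) (nat_lit 0) (XT.nd (nat_lit 1014) (nat_lit 1824) (nat_lit 0) (XT.nd (nat_lit 468) (nat_lit 1368) (nat_lit 0) (XT.nd (nat_lit 234) (nat_lit 684) (nat_lit 0) (XT.nd (nat_lit 78) (nat_lit 608) (nat_lit 0) (XT.lf (nat_lit 0) (nat_lit 10047073628) (nat_lit 456) (nat_lit 5620454107) (nat_lit 76) (nat_lit 14421122058) (nat_lit 91) (nat_lit 5) (nat_lit 97) (nat_lit 5) (nat_lit 92) (nat_lit 5) (nat_lit 313) (nat_lit 284) (nat_lit 183)) (XT.nd (nat_lit 78) (nat_lit 304) (nat_lit 0) (XT.lf (nat_lit 0) (nat_lit 18066536595) (nat_lit 380) (nat_lit 12366317104) (nat_lit 76) (nat_lit 637506129) (nat_lit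 87) (nat_lit 5) (nat_lit 92) (nat_lit 5) (nat_lit 88) (nat_lit 5) (nat_lit 314) (nat_lit 284) (nat_lit 182)) (XT.lf (nat_lit 0) (nat_lit 12328398665) (nat_lit 304) (nat_lit 14481903823) (nat_lit 380) (nat_lit 5281163940) (nat_lit 83) (nat_lit 5) (nat_lit 87) (nat_lit 5) (nat_lit 88) (nat_lit 5) (nat_lit 315) (nat_lit 284) (nat_lit 181)))) (XT.nd (nat_lit 78) (nat_lit 304) (nat_lit 0) (XT.lf (nat_lit 0) (nat_lit 2965431732) (nat_lit 380) (nat_lit 27763842692) (nat_lit 76) (nat_lit 2427759219) (nat_lit 78) (nat_lit 5) (nat_lit 83) (nat_lit 5) (nat_lit 79) (nat_lit 5) (nat_lit 316) (nat_lit 284) (nat_lit 180)) (XT.nd (nat_lit 78) (nat_lit 304) (nat_lit 0) (XT.lf (nat_lit 0) (nat_lit 11856669656) (nat_lit 380) (nat_lit 2266881384) (nat_lit 76) (nat_lit 20140523115) (nat_lit 78) (nat_lit 5) (nat_lit 83) (nat_lit 5) (nat_lit 79) (nat_lit 5) (nat_lit 317) (nat_lit 284) (nat_lit 179)) (XT.lf (nat_lit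 0) (nat_lit 21456162289) (nat_lit 380) (nat_lit 10476556621) (nat_lit 76) (nat_lit 3485846188) (nat_lit 74) (nat_lit 5) (nat_lit 79) (nat_lit 5) (nat_lit 75) (nat_lit 5) (nat_lit 318) (nat_lit 284) (nat_lit 178))))) (XT.nd (nat_lit 234) (nat_lit 760) (nat_lit 0) (XT.nd (nat_lit 78) (nat_lit 380) (nat_lit 0) (XT.lf (nat_lit 0) (nat_lit 17104670072) (nat_lit 228) (nat_lit 14751240366) (nat_lit 304) (nat_lit 4765270473) (nat_lit 71) (nat_lit 5) (nat_lit 74) (nat_lit 5) (nat_lit 75) (nat_lit 5) (nat_lit 319) (nat_lit 284) (nat_lit 177)) (XT.nd (nat_lit 78) (nat_lit 0) (nat_lit 0) (XT.lf (nat_lit 0) (nat_lit 5010857467) (nat_lit 380) (nat_lit 29404669430) (nat_lit 76) (nat_lit 3460560224) (nat_lit 66) (nat_lit 5) (nat_lit 71) (nat_lit 5) (nat_lit 67) (nat_lit 5) (nat_lit 320) (nat_lit 284) (nat_lit 176)) (XT.lf (nat_lit 0) (nat_lit 15520215875) (nat_lit 380) (nat_lit 1134668793) (nat_lit 76) (nat_lit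 22527156939) (nat_lit 66) (nat_lit 5) (nat_lit 71) (nat_lit 5) (nat_lit 67) (nat_lit 5) (nat_lit 321) (nat_lit 284) (nat_lit 175)))) (XT.nd (nat_lit 156) (nat_lit 304) (nat_lit 0) (XT.nd (nat_lit 78) (nat_lit 228) (nat_lit 0) (XT.lf (nat_lit 0) (nat_lit 26847429464) (nat_lit 304) (nat_lit 11464213844) (nat_lit 76) (nat_lit 2232886233) (nat_lit 63) (nat_lit 5) (nat_lit 67) (nat_lit 5) (nat_lit 64) (nat_lit 5) (nat_lit 322) (nat_lit 284) (nat_lit 174)) (XT.lf (nat_lit 0) (nat_lit 19044677608) (nat_lit 228) (nat_lit 20050302617) (nat_lit 304) (nat_lit 2869549338) (nat_lit 60) (nat_lit 5) (nat_lit 63) (nat_lit 5) (nat_lit 64) (nat_lit 5) (nat_lit 323) (nat_lit 284) (nat_lit 173))) (XT.nd (nat_lit 78) (nat_lit 0) (nat_lit 0) (XT.lf (nat_lit 0) (nat_lit 7924873113) (nat_lit 228) (nat_lit 595230618) (nat_lit 304) (nat_lit 34927383937) (nat_lit 56) (nat_lit 5) (nat_lit 59) (nat_lit 5) (nat_lit 60)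 (nat_lit 5) (nat_lit 324) (nat_lit 284) (nat_lit 172)) (XT.lf (nat_lit 0) (nat_lit 20840828198) (nat_lit 304) (nat_lit 4441988256) (nat_lit 76) (nat_lit 19708302974) (nat_lit 56) (nat_lit 5) (nat_lit 60) (nat_lit 5) (nat_lit 57) (nat_lit 5) (nat_lit 325) (nat_lit 284) (nat_lit 171)))))) (XT.nd (nat_lit 468) (nat_lit 684) (nat_lit 0) (XT.nd (nat_lit 234) (nat_lit 456) (nat_lit 0) (XT.nd (nat_lit 78) (nat_lit 456) (nat_lit 0) (XT.lf (nat_lit 0) (nat_lit 28734690699) (nat_lit 228) (nat_lit 5316992870) (nat_lit 304) (nat_lit 12552032229) (nat_lit 53) (nat_lit 5) (nat_lit 56) (nat_lit 5) (nat_lit 57) (nat_lit 5) (nat_lit 326) (nat_lit 284) (nat_lit 170)) (XT.nd (nat_lit 78) (nat_lit 304) (nat_lit 0) (XT.lf (nat_lit 0) (nat_lit 15506663381) (nat_lit 152) (nat_lit 32754163797) (nat_lit 228) (nat_lit 25988029) (nat_lit 51) (nat_lit 5) (nat_lit 53) (nat_lit 5) (nat_lit 54) (nat_lit 5) (nat_lit 327)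 (nat_lit 284) (nat_lit 169)) (XT.lf (nat_lit 0) (nat_lit 695580032) (nat_lit 228) (nat_lit 12413030592) (nat_lit 304) (nat_lit 36934526923) (nat_lit 47) (nat_lit 5) (nat_lit 50) (nat_lit 5) (nat_lit 51) (nat_lit 5) (nat_lit 328) (nat_lit 284) (nat_lit 168)))) (XT.nd (nat_lit 78) (nat_lit 456) (nat_lit 0) (XT.lf (nat_lit 0) (nat_lit 27318662012) (nat_lit 304) (nat_lit 15448790587) (nat_lit 76) (nat_lit 9107242795) (nat_lit 47) (nat_lit 5) (nat_lit 51) (nat_lit 5) (nat_lit 48) (nat_lit 5) (nat_lit 329) (nat_lit 284) (nat_lit 167)) (XT.nd (nat_lit 78) (nat_lit 304) (nat_lit 0) (XT.lf (nat_lit 0) (nat_lit 20406249779) (nat_lit 152) (nat_lit 22147254296) (nat_lit 228) (nat_lit 11234903099) (nat_lit 45) (nat_lit 5) (nat_lit 47) (nat_lit 5) (nat_lit 48) (nat_lit 5) (nat_lit 330) (nat_lit 284) (nat_lit 166)) (XT.lf (nat_lit 0) (nat_lit 2595062301) (nat_lit 228) (nat_lit 282068804) (nat_lit 304) (nat_lit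 52914527436) (nat_lit 41) (nat_lit 5) (nat_lit 44) (nat_lit 5) (nat_lit 45) (nat_lit 5) (nat_lit 331) (nat_lit 284) (nat_lit 165))))) (XT.nd (nat_lit 234) (nat_lit 532) (nat_lit 0) (XT.nd (nat_lit 78) (nat_lit 152) (nat_lit 0) (XT.lf (nat_lit 0) (nat_lit 18022781777) (nat_lit 304) (nat_lit 17162037460) (nat_lit 76) (nat_lit 22690109170) (nat_lit 41) (nat_lit 5) (nat_lit 45) (nat_lit 5) (nat_lit 42) (nat_lit 5) (nat_lit 332) (nat_lit 284) (nat_lit 164)) (XT.nd (nat_lit 78) (nat_lit 0) (nat_lit 0) (XT.lf (nat_lit 0) (nat_lit 21071897656) (nat_lit 152) (nat_lit 13052733070) (nat_lit 228) (nat_lit 25931767497) (nat_lit 39) (nat_lit 5) (nat_lit 41) (nat_lit 5) (nat_lit 42) (nat_lit 5) (nat_lit 333) (nat_lit 284) (nat_lit 163)) (XT.lf (nat_lit 0) (nat_lit 51301585359) (nat_lit 228) (nat_lit 875678001) (nat_lit 76) (nat_lit 10161581511) (nat_lit 39) (nat_lit 5) (nat_lit 42) (nat_lit 5) (nat_lit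 40) (nat_lit 5) (nat_lit 334) (nat_lit 284) (nat_lit 162)))) (XT.nd (nat_lit 156) (nat_lit 152) (nat_lit 0) (XT.nd (nat_lit 78) (nat_lit 152) (nat_lit 0) (XT.lf (nat_lit 0) (nat_lit 5025248687) (nat_lit 228) (nat_lit 24996526360) (nat_lit 76) (nat_lit 34696922876) (nat_lit 36) (nat_lit 5) (nat_lit 39) (nat_lit 5) (nat_lit 37) (nat_lit 5) (nat_lit 335) (nat_lit 284) (nat_lit 161)) (XT.lf (nat_lit 0) (nat_lit 15328696467) (nat_lit 152) (nat_lit 6486607706) (nat_lit 228) (nat_lit 45394383676) (nat_lit 34) (nat_lit 5) (nat_lit 36) (nat_lit 5) (nat_lit 37) (nat_lit 5) (nat_lit 336) (nat_lit 284) (nat_lit 160))) (XT.nd (nat_lit 78) (nat_lit 152) (nat_lit 0) (XT.lf (nat_lit 0) (nat_lit 39874185907) (nat_lit 228) (nat_lit 11812437891) (nat_lit 76) (nat_lit 18125726904) (nat_lit 34) (nat_lit 5) (nat_lit 37) (nat_lit 5) (nat_lit 35) (nat_lit 5) (nat_lit 337) (nat_lit 284) (nat_lit 159)) (XT.lf (nat_lit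 0) (nat_lit 30785548493) (nat_lit 152) (nat_lit 28406402415) (nat_lit 228) (nat_lit 13342520603) (nat_lit 32) (nat_lit 5) (nat_lit 34) (nat_lit 5) (nat_lit 35) (nat_lit 5) (nat_lit 338) (nat_lit 284) (nat_lit 158))))))) (XT.nd (nat_lit 1014) (nat_lit 304) (nat_lit 0) (XT.nd (nat_lit 468) (nat_lit 532) (nat_lit 0) (XT.nd (nat_lit 234) (nat_lit 152) (nat_lit 0) (XT.nd (nat_lit 78) (nat_lit 152) (nat_lit 0) (XT.lf (nat_lit 0) (nat_lit 328075150) (nat_lit 152) (nat_lit 3795771881) (nat_lit 228) (nat_lit 71264058268) (nat_lit 29) (nat_lit 5) (nat_lit 31) (nat_lit 5) (nat_lit 32) (nat_lit 5) (nat_lit 339) (nat_lit 284) (nat_lit 157)) (XT.nd (nat_lit 78) (nat_lit 152) (nat_lit 0) (XT.lf (nat_lit 0) (nat_lit 22830882946) (nat_lit 228) (nat_lit 33349569024) (nat_lit 76) (nat_lit 22180299500) (nat_lit 29) (nat_lit 5) (nat_lit 32) (nat_lit 5) (nat_lit 30) (nat_lit 5) (nat_lit 340) (nat_lit 284) (nat_lit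 156)) (XT.lf (nat_lit 0) (nat_lit 10606321985) (nat_lit 152) (nat_lit 32002254136) (nat_lit 228) (nat_lit 38869607171) (nat_lit 27) (nat_lit 5) (nat_lit 29) (nat_lit 5) (nat_lit 30) (nat_lit 5) (nat_lit 341) (nat_lit 284) (nat_lit 155)))) (XT.nd (nat_lit 78) (nat_lit 152) (nat_lit 0) (XT.lf (nat_lit 0) (nat_lit 57448621151) (nat_lit 152) (nat_lit 6265033044) (nat_lit 228) (nat_lit 21027679889) (nat_lit 27) (nat_lit 5) (nat_lit 29) (nat_lit 5) (nat_lit 30) (nat_lit 5) (nat_lit 342) (nat_lit 284) (nat_lit 154)) (XT.nd (nat_lit 78) (nat_lit 76) (nat_lit 0) (XT.lf (nat_lit 0) (nat_lit 18621204026) (nat_lit 76) (nat_lit 67626721902) (nat_lit 152) (nat_lit 1908500567) (nat_lit 26) (nat_lit 5) (nat_lit 27) (nat_lit 5) (nat_lit 28) (nat_lit 4) (nat_lit 343) (nat_lit 284) (nat_lit 153)) (XT.lf (nat_lit 0) (nat_lit 18154602804) (nat_lit 152) (nat_lit 24581204931) (nat_lit 76) (nat_lit 48990955180)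 (nat_lit 25) (nat_lit 5) (nat_lit 27) (nat_lit 5) (nat_lit 26) (nat_lit 5) (nat_lit 344) (nat_lit 284) (nat_lit 152))))) (XT.nd (nat_lit 234) (nat_lit 304) (nat_lit 0) (XT.nd (nat_lit 78) (nat_lit 76) (nat_lit 0) (XT.lf (nat_lit 0) (nat_lit 23043416060) (nat_lit 152) (nat_lit 16355554604) (nat_lit 228) (nat_lit 56069553210) (nat_lit 23) (nat_lit 5) (nat_lit 25) (nat_lit 5) (nat_lit 26) (nat_lit 5) (nat_lit 345) (nat_lit 284) (nat_lit 151)) (XT.nd (nat_lit 78) (nat_lit 76) (nat_lit 0) (XT.lf (nat_lit 0) (nat_lit 62065957024) (nat_lit 228) (nat_lit 25945763089) (nat_lit 76) (nat_lit 11374842670) (nat_lit 23) (nat_lit 5) (nat_lit 26) (nat_lit 5) (nat_lit 24) (nat_lit 4) (nat_lit 346) (nat_lit 284) (nat_lit 150)) (XT.lf (nat_lit 0) (nat_lit 23136927960) (nat_lit 76) (nat_lit 63112861373) (nat_lit 152) (nat_lit 17239211224) (nat_lit 22) (nat_lit 5) (nat_lit 23) (nat_lit 5) (nat_lit 24) (nat_lit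 4) (nat_lit 347) (nat_lit 284) (nat_lit 149)))) (XT.nd (nat_lit 156) (nat_lit 76) (nat_lit 0) (XT.nd (nat_lit 78) (nat_lit 152) (nat_lit 0) (XT.lf (nat_lit 0) (nat_lit 4037026165) (nat_lit 152) (nat_lit 32619124009) (nat_lit 76) (nat_lit 71131327725) (nat_lit 21) (nat_lit 5) (nat_lit 23) (nat_lit 5) (nat_lit 22) (nat_lit 5) (nat_lit 348) (nat_lit 284) (nat_lit 148)) (XT.lf (nat_lit 0) (nat_lit 17664597953) (nat_lit 152) (nat_lit 8525341519) (nat_lit 228) (nat_lit 86100738754) (nat_lit 19) (nat_lit 5) (nat_lit 21) (nat_lit 5) (nat_lit 22) (nat_lit 5) (nat_lit 349) (nat_lit 284) (nat_lit 147))) (XT.nd (nat_lit 78) (nat_lit 76) (nat_lit 0) (XT.lf (nat_lit 0) (nat_lit 49987957614) (nat_lit 228) (nat_lit 46076589025) (nat_lit 76) (nat_lit 20938369678) (nat_lit 19) (nat_lit 5) (nat_lit 22) (nat_lit 5) (nat_lit 20) (nat_lit 4) (nat_lit 350) (nat_lit 284) (nat_lit 146)) (XT.lf (nat_lit 0) (nat_lit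 4903859555) (nat_lit 76) (nat_lit 70201746432) (nat_lit 152) (nat_lit 46841269897) (nat_lit 18) (nat_lit 5) (nat_lit 19) (nat_lit 5) (nat_lit 20) (nat_lit 4) (nat_lit 351) (nat_lit 284) (nat_lit 145)))))) (XT.nd (nat_lit 35568) (nat_lit 0) (nat_lit 13300) (XT.nd (nat_lit 234) (nat_lit 76) (nat_lit 0) (XT.nd (nat_lit 78) (nat_lit 228) (nat_lit 0) (XT.lf (nat_lit 0) (nat_lit 59390211500) (nat_lit 76) (nat_lit 42559892332) (nat_lit 152) (nat_lit 25173801965) (nat_lit 18) (nat_lit 5) (nat_lit 19) (nat_lit 5) (nat_lit 20) (nat_lit 4) (nat_lit 352) (nat_lit 284) (nat_lit 144)) (XT.nd (nat_lit 78) (nat_lit 228) (nat_lit 0) (XT.lf (nat_lit 0) (nat_lit 116595181752) (nat_lit 76) (nat_lit 13538453606) (nat_lit 152) (nat_lit 2426248901) (nat_lit 18) (nat_lit 5) (nat_lit 19) (nat_lit 5) (nat_lit 20) (nat_lit 4) (nat_lit 353) (nat_lit 284) (nat_lit 143)) (XT.lf (nat_lit 0) (nat_lit 21579704098) (nat_lit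 228) (nat_lit 99477991870) (nat_lit 76) (nat_lit 17187585918) (nat_lit 15) (nat_lit 5) (nat_lit 18) (nat_lit 5) (nat_lit 16) (nat_lit 4) (nat_lit 354) (nat_lit 284) (nat_lit 142)))) (XT.nd (nat_lit 35178) (nat_lit 0) (nat_lit 14288) (XT.nd (nat_lit 78) (nat_lit 76) (nat_lit 0) (XT.lf (nat_lit 0) (nat_lit 47035860949) (nat_lit 228) (nat_lit 47808685003) (nat_lit 76) (nat_lit 49360681391) (nat_lit 15) (nat_lit 5) (nat_lit 18) (nat_lit 5) (nat_lit 16) (nat_lit 4) (nat_lit 355) (nat_lit 284) (nat_lit 141)) (XT.lf (nat_lit 0) (nat_lit 6567091371) (nat_lit 76) (nat_lit 67258005671) (nat_lit 152) (nat_lit 76636265991) (nat_lit 14) (nat_lit 5) (nat_lit 15) (nat_lit 5) (nat_lit 16) (nat_lit 4) (nat_lit 356) (nat_lit 284) (nat_lit 140))) (XT.nd (nat_lit 78) (nat_lit 0) (nat_lit 0) (XT.lf (nat_lit 0) (nat_lit 6350676482) (nat_lit 1140) (nat_lit 346893591) (nat_lit 1140) (nat_lit 346893591) (nat_lit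 202) (nat_lit 3) (nat_lit 217) (nat_lit 3) (nat_lit 217) (nat_lit 5) (nat_lit 285) (nat_lit 285) (nat_lit 210)) (XT.lf (nat_lit 76) (nat_lit 10038694617) (nat_lit 0) (nat_lit 3597418727) (nat_lit 1140) (nat_lit 785779537) (nat_lit 203) (nat_lit 5) (nat_lit 202) (nat_lit 3) (nat_lit 217) (nat_lit 5) (nat_lit 286) (nat_lit 285) (nat_lit 209))))) (XT.nd (nat_lit 234) (nat_lit 0) (nat_lit 76) (XT.nd (nat_lit 78) (nat_lit 1064) (nat_lit 0) (XT.lf (nat_lit 76) (nat_lit 6596610527) (nat_lit 0) (nat_lit 8122586544) (nat_lit 1140) (nat_lit 49309501) (nat_lit 204) (nat_lit 5) (nat_lit 203) (nat_lit 5) (nat_lit 218) (nat_lit 5) (nat_lit 287) (nat_lit 285) (nat_lit 208)) (XT.nd (nat_lit 78) (nat_lit 0) (nat_lit 0) (XT.lf (nat_lit 0) (nat_lit 811133821) (nat_lit 1140) (nat_lit 12068489973) (nat_lit 1216) (nat_lit 2249623903) (nat_lit 189) (nat_lit 5) (nat_lit 204) (nat_lit 5) (nat_lit 205) (nat_lit 5)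 (nat_lit 288) (nat_lit 285) (nat_lit 207)) (XT.lf (nat_lit 0) (nat_lit 1849714533) (nat_lit 1140) (nat_lit 582440450) (nat_lit 1216) (nat_lit 13071813959) (nat_lit 189) (nat_lit 5) (nat_lit 204) (nat_lit 5) (nat_lit 205) (nat_lit 5) (nat_lit 289) (nat_lit 285) (nat_lit 206)))) (XT.nd (nat_lit 156) (nat_lit 0) (nat_lit 76) (XT.nd (nat_lit 78) (nat_lit 0) (nat_lit 76) (XT.lf (nat_lit 0) (nat_lit 3106511540) (nat_lit 1140) (nat_lit 4290797491) (nat_lit 1216) (nat_lit 8495168373) (nat_lit 190) (nat_lit 5) (nat_lit 205) (nat_lit 5) (nat_lit 206) (nat_lit 5) (nat_lit 290) (nat_lit 285) (nat_lit 205)) (XT.lf (nat_lit 0) (nat_lit 4543501998) (nat_lit 1140) (nat_lit 8109865834) (nat_lit 1216) (nat_lit 3643560727) (nat_lit 191) (nat_lit 5) (nat_lit 206) (nat_lit 5) (nat_lit 207) (nat_lit 5) (nat_lit 291) (nat_lit 285) (nat_lit 204))) (XT.nd (nat_lit 78) (nat_lit 0) (nat_lit 76) (XT.lf (nat_lit 76)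 (nat_lit 4654591739) (nat_lit 0) (nat_lit 1534978097) (nat_lit 1216) (nat_lit 10527951675) (nat_lit 192) (nat_lit 5) (nat_lit 191) (nat_lit 5) (nat_lit 207) (nat_lit 5) (nat_lit 292) (nat_lit 285) (nat_lit 203)) (XT.lf (nat_lit 76) (nat_lit 971105845) (nat_lit 0) (nat_lit 7112322240) (nat_lit 1216) (nat_lit 9070785771) (nat_lit 193) (nat_lit 5) (nat_lit 192) (nat_lit 5) (nat_lit 208) (nat_lit 5) (nat_lit 293) (nat_lit 285) (nat_lit 202))))))))
noncomputable def xc91 : XT := (XT.nd (nat_lit 2028) (nat_lit 3876) (nat_lit 0) (XT.nd (nat_lit 1014) (nat_lit 3648) (nat_lit 0) (XT.nd (nat_lit 468) (nat_lit 3040) (nat_lit 0) (XT.nd (nat_lit 234) (nat_lit 1292) (nat_lit 0) (XT.nd (nat_lit 78) (nat_lit 1064) (nat_lit 0) (XT.lf (nat_lit 0) (nat_lit 10231965784) (nat_lit 1140) (nat_lit 2780352685) (nat_lit 1216) (nat_lit 4595655476) (nat_lit 193) (nat_lit 5) (nat_lit 208) (nat_lit 5) (nat_lit 209) (nat_lit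 5) (nat_lit 294) (nat_lit 285) (nat_lit 201)) (XT.nd (nat_lit 78) (nat_lit 1064) (nat_lit 0) (XT.lf (nat_lit 76) (nat_lit 11424723398) (nat_lit 0) (nat_lit 1221448760) (nat_lit 1216) (nat_lit 5433533787) (nat_lit 194) (nat_lit 5) (nat_lit 193) (nat_lit 5) (nat_lit 209) (nat_lit 5) (nat_lit 295) (nat_lit 285) (nat_lit 200)) (XT.lf (nat_lit 0) (nat_lit 7850463717) (nat_lit 1140) (nat_lit 7519868083) (nat_lit 1216) (nat_lit 3199045137) (nat_lit 179) (nat_lit 5) (nat_lit 194) (nat_lit 5) (nat_lit 195) (nat_lit 5) (nat_lit 296) (nat_lit 285) (nat_lit 199)))) (XT.nd (nat_lit 78) (nat_lit 684) (nat_lit 0) (XT.lf (nat_lit 0) (nat_lit 4140990537) (nat_lit 608) (nat_lit 14235818331) (nat_lit 684) (nat_lit 702367592) (nat_lit 171) (nat_lit 5) (nat_lit 179) (nat_lit 5) (nat_lit 180) (nat_lit 5) (nat_lit 297) (nat_lit 285) (nat_lit 198)) (XT.nd (nat_lit 78) (nat_lit 0) (nat_lit 0) (XT.lf (nat_lit 0) (nat_lit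 246900151) (nat_lit 608) (nat_lit 1803636506) (nat_lit 684) (nat_lit 17558336730) (nat_lit 162) (nat_lit 5) (nat_lit 170) (nat_lit 5) (nat_lit 171) (nat_lit 5) (nat_lit 298) (nat_lit 285) (nat_lit 197)) (XT.lf (nat_lit 0) (nat_lit 5170098923) (nat_lit 684) (nat_lit 3793086586) (nat_lit 76) (nat_lit 11194379755) (nat_lit 162) (nat_lit 5) (nat_lit 171) (nat_lit 5) (nat_lit 163) (nat_lit 5) (nat_lit 299) (nat_lit 285) (nat_lit 196))))) (XT.nd (nat_lit 234) (nat_lit 1520) (nat_lit 0) (XT.nd (nat_lit 78) (nat_lit 988) (nat_lit 0) (XT.lf (nat_lit 0) (nat_lit 8607848995) (nat_lit 608) (nat_lit 8003636060) (nat_lit 76) (nat_lit 4117364093) (nat_lit 155) (nat_lit 5) (nat_lit 163) (nat_lit 5) (nat_lit 156) (nat_lit 5) (nat_lit 300) (nat_lit 285) (nat_lit 195)) (XT.nd (nat_lit 78) (nat_lit 456) (nat_lit 0) (XT.lf (nat_lit 0) (nat_lit 8885269128) (nat_lit 532) (nat_lit 3529187346) (nat_lit 608) (nat_lit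 8908354233) (nat_lit 148) (nat_lit 5) (nat_lit 155) (nat_lit 5) (nat_lit 156) (nat_lit 5) (nat_lit 301) (nat_lit 285) (nat_lit 194)) (XT.lf (nat_lit 0) (nat_lit 4818519661) (nat_lit 456) (nat_lit 11802874881) (nat_lit 532) (nat_lit 5318797295) (nat_lit 142) (nat_lit 5) (nat_lit 148) (nat_lit 5) (nat_lit 149) (nat_lit 5) (nat_lit 302) (nat_lit 285) (nat_lit 193)))) (XT.nd (nat_lit 156) (nat_lit 912) (nat_lit 0) (XT.nd (nat_lit 78) (nat_lit 76) (nat_lit 0) (XT.lf (nat_lit 0) (nat_lit 550899962) (nat_lit 532) (nat_lit 20658227530) (nat_lit 608) (nat_lit 1374221571) (nat_lit 135) (nat_lit 5) (nat_lit 142) (nat_lit 5) (nat_lit 143) (nat_lit 5) (nat_lit 303) (nat_lit 285) (nat_lit 192)) (XT.lf (nat_lit 0) (nat_lit 2994176163) (nat_lit 608) (nat_lit 3954219125) (nat_lit 76) (nat_lit 16301071725) (nat_lit 134) (nat_lit 5) (nat_lit 142) (nat_lit 5) (nat_lit 135) (nat_lit 5) (nat_lit 304) (nat_lit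 285) (nat_lit 191))) (XT.nd (nat_lit 78) (nat_lit 456) (nat_lit 0) (XT.lf (nat_lit 0) (nat_lit 7757283650) (nat_lit 532) (nat_lit 8722589231) (nat_lit 76) (nat_lit 7462486501) (nat_lit 128) (nat_lit 5) (nat_lit 135) (nat_lit 5) (nat_lit 129) (nat_lit 5) (nat_lit 305) (nat_lit 285) (nat_lit 190)) (XT.lf (nat_lit 0) (nat_lit 10891059115) (nat_lit 456) (nat_lit 2068248437) (nat_lit 532) (nat_lit 11704583159) (nat_lit 122) (nat_lit 5) (nat_lit 128) (nat_lit 5) (nat_lit 129) (nat_lit 5) (nat_lit 306) (nat_lit 285) (nat_lit 189)))))) (XT.nd (nat_lit 468) (nat_lit 1748) (nat_lit 0) (XT.nd (nat_lit 234) (nat_lit 1064) (nat_lit 0) (XT.nd (nat_lit 78) (nat_lit 456) (nat_lit 0) (XT.lf (nat_lit 0) (nat_lit 6226616411) (nat_lit 380) (nat_lit 12456297823) (nat_lit 456) (nat_lit 6730756283) (nat_lit 117) (nat_lit 5) (nat_lit 122) (nat_lit 5) (nat_lit 123) (nat_lit 5) (nat_lit 307) (nat_lit 285) (nat_lit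 188)) (XT.nd (nat_lit 78) (nat_lit 76) (nat_lit 0) (XT.lf (nat_lit 0) (nat_lit 1278897149) (nat_lit 380) (nat_lit 23599777773) (nat_lit 456) (nat_lit 1316700759) (nat_lit 112) (nat_lit 5) (nat_lit 117) (nat_lit 5) (nat_lit 118) (nat_lit 5) (nat_lit 308) (nat_lit 285) (nat_lit 187)) (XT.lf (nat_lit 0) (nat_lit 4594255351) (nat_lit 456) (nat_lit 4027803693) (nat_lit 76) (nat_lit 18383518779) (nat_lit 111) (nat_lit 5) (nat_lit 117) (nat_lit 5) (nat_lit 112) (nat_lit 5) (nat_lit 309) (nat_lit 285) (nat_lit 186)))) (XT.nd (nat_lit 78) (nat_lit 684) (nat_lit 0) (XT.lf (nat_lit 0) (nat_lit 11006060403) (nat_lit 456) (nat_lit 9689576129) (nat_lit 76) (nat_lit 7153300183) (nat_lit 106) (nat_lit 5) (nat_lit 112) (nat_lit 5) (nat_lit 107) (nat_lit 5) (nat_lit 310) (nat_lit 285) (nat_lit 185)) (XT.nd (nat_lit 78) (nat_lit 304) (nat_lit 0) (XT.lf (nat_lit 0) (nat_lit 12956135791) (nat_lit 380) (nat_lit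 5023098914) (nat_lit 456) (nat_lit 10748018540) (nat_lit 101) (nat_lit 5) (nat_lit 106) (nat_lit 5) (nat_lit 107) (nat_lit 5) (nat_lit 311) (nat_lit 285) (nat_lit 184)) (XT.lf (nat_lit 0) (nat_lit 7305830009) (nat_lit 304) (nat_lit 18263859545) (nat_lit 380) (nat_lit 4071749836) (nat_lit 97) (nat_lit 5) (nat_lit 101) (nat_lit 5) (nat_lit 102) (nat_lit 5) (nat_lit 312) (nat_lit 285) (nat_lit 183))))) (XT.nd (nat_lit 234) (nat_lit 988) (nat_lit 0) (XT.nd (nat_lit 78) (nat_lit 304) (nat_lit 0) (XT.lf (nat_lit 0) (nat_lit 1196773084) (nat_lit 380) (nat_lit 1898446586) (nat_lit 456) (nat_lit 27498852580) (nat_lit 91) (nat_lit 5) (nat_lit 96) (nat_lit 5) (nat_lit 97) (nat_lit 5) (nat_lit 313) (nat_lit 285) (nat_lit 182)) (XT.nd (nat_lit 78) (nat_lit 304) (nat_lit 0) (XT.lf (nat_lit 0) (nat_lit 10904692310) (nat_lit 456) (nat_lit 5420847591) (nat_lit 76) (nat_lit 15256547439) (nat_lit 91) (nat_lit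 5) (nat_lit 97) (nat_lit 5) (nat_lit 92) (nat_lit 5) (nat_lit 314) (nat_lit 285) (nat_lit 181)) (XT.lf (nat_lit 0) (nat_lit 19313890837) (nat_lit 380) (nat_lit 12508367000) (nat_lit 76) (nat_lit 790978215) (nat_lit 87) (nat_lit 5) (nat_lit 92) (nat_lit 5) (nat_lit 88) (nat_lit 5) (nat_lit 315) (nat_lit 285) (nat_lit 180)))) (XT.nd (nat_lit 156) (nat_lit 304) (nat_lit 0) (XT.nd (nat_lit 78) (nat_lit 380) (nat_lit 0) (XT.lf (nat_lit 0) (nat_lit 13407432490) (nat_lit 304) (nat_lit 15075477205) (nat_lit 380) (nat_lit 5202861630) (nat_lit 83) (nat_lit 5) (nat_lit 87) (nat_lit 5) (nat_lit 88) (nat_lit 5) (nat_lit 316) (nat_lit 285) (nat_lit 179)) (XT.lf (nat_lit 0) (nat_lit 3439052347) (nat_lit 380) (nat_lit 28687168566) (nat_lit 76) (nat_lit 2678621314) (nat_lit 78) (nat_lit 5) (nat_lit 83) (nat_lit 5) (nat_lit 79) (nat_lit 5) (nat_lit 317) (nat_lit 285) (nat_lit 178))) (XT.nd (nat_lit 78) (nat_lit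 304) (nat_lit 0) (XT.lf (nat_lit 0) (nat_lit 12759359355) (nat_lit 380) (nat_lit 1937495682) (nat_lit 76) (nat_lit 21270857969) (nat_lit 78) (nat_lit 5) (nat_lit 83) (nat_lit 5) (nat_lit 79) (nat_lit 5) (nat_lit 318) (nat_lit 285) (nat_lit 177)) (XT.lf (nat_lit 0) (nat_lit 22829462729) (nat_lit 380) (nat_lit 10562369408) (nat_lit 76) (nat_lit 3788390093) (nat_lit 74) (nat_lit 5) (nat_lit 79) (nat_lit 5) (nat_lit 75) (nat_lit 5) (nat_lit 319) (nat_lit 285) (nat_lit 176))))))) (XT.nd (nat_lit 1014) (nat_lit 1368) (nat_lit 0) (XT.nd (nat_lit 468) (nat_lit 1140) (nat_lit 0) (XT.nd (nat_lit 234) (nat_lit 760) (nat_lit 0) (XT.nd (nat_lit 78) (nat_lit 380) (nat_lit 0) (XT.lf (nat_lit 0) (nat_lit 18385363005) (nat_lit 228) (nat_lit 15353615898) (nat_lit 304) (nat_lit 4704308721) (nat_lit 71) (nat_lit 5) (nat_lit 74) (nat_lit 5) (nat_lit 75) (nat_lit 5) (nat_lit 320) (nat_lit 285) (nat_lit 175)) (XT.nd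 (nat_lit 78) (nat_lit 0) (nat_lit 0) (XT.lf (nat_lit 0) (nat_lit 5546149784) (nat_lit 380) (nat_lit 30448312891) (nat_lit 76) (nat_lit 3766660573) (nat_lit 66) (nat_lit 5) (nat_lit 71) (nat_lit 5) (nat_lit 67) (nat_lit 5) (nat_lit 321) (nat_lit 285) (nat_lit 174)) (XT.lf (nat_lit 0) (nat_lit 16567416615) (nat_lit 380) (nat_lit 785126033) (nat_lit 76) (nat_lit 23780250346) (nat_lit 66) (nat_lit 5) (nat_lit 71) (nat_lit 5) (nat_lit 67) (nat_lit 5) (nat_lit 322) (nat_lit 285) (nat_lit 173)))) (XT.nd (nat_lit 78) (nat_lit 532) (nat_lit 0) (XT.lf (nat_lit 0) (nat_lit 28453144760) (nat_lit 304) (nat_lit 11636001571) (nat_lit 76) (nat_lit 2474504613) (nat_lit 63) (nat_lit 5) (nat_lit 67) (nat_lit 5) (nat_lit 64) (nat_lit 5) (nat_lit 323) (nat_lit 285) (nat_lit 172)) (XT.nd (nat_lit 78) (nat_lit 304) (nat_lit 0) (XT.lf (nat_lit 0) (nat_lit 20386827745) (nat_lit 228) (nat_lit 20917453247) (nat_lit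 304) (nat_lit 2750643490) (nat_lit 60) (nat_lit 5) (nat_lit 63) (nat_lit 5) (nat_lit 64) (nat_lit 5) (nat_lit 324) (nat_lit 285) (nat_lit 171)) (XT.lf (nat_lit 0) (nat_lit 8705013333) (nat_lit 228) (nat_lit 489798473) (nat_lit 304) (nat_lit 36417408846) (nat_lit 56) (nat_lit 5) (nat_lit 59) (nat_lit 5) (nat_lit 60) (nat_lit 5) (nat_lit 325) (nat_lit 285) (nat_lit 170))))) (XT.nd (nat_lit 234) (nat_lit 684) (nat_lit 0) (XT.nd (nat_lit 78) (nat_lit 456) (nat_lit 0) (XT.lf (nat_lit 0) (nat_lit 22120967182) (nat_lit 304) (nat_lit 4292432050) (nat_lit 76) (nat_lit 20819961514) (nat_lit 56) (nat_lit 5) (nat_lit 60) (nat_lit 5) (nat_lit 57) (nat_lit 5) (nat_lit 326) (nat_lit 285) (nat_lit 169)) (XT.nd (nat_lit 78) (nat_lit 228) (nat_lit 0) (XT.lf (nat_lit 0) (nat_lit 30532427419) (nat_lit 228) (nat_lit 5452070097) (nat_lit 304) (nat_lit 12942333630) (nat_lit 53) (nat_lit 5) (nat_lit 56) (nat_lit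 5) (nat_lit 57) (nat_lit 5) (nat_lit 327) (nat_lit 285) (nat_lit 168)) (XT.lf (nat_lit 0) (nat_lit 199503117) (nat_lit 228) (nat_lit 34057942043) (nat_lit 76) (nat_lit 16436779710) (nat_lit 50) (nat_lit 5) (nat_lit 53) (nat_lit 5) (nat_lit 51) (nat_lit 5) (nat_lit 328) (nat_lit 285) (nat_lit 167)))) (XT.nd (nat_lit 156) (nat_lit 456) (nat_lit 0) (XT.nd (nat_lit 78) (nat_lit 0) (nat_lit 0) (XT.lf (nat_lit 0) (nat_lit 1080967401) (nat_lit 228) (nat_lit 12901927896) (nat_lit 304) (nat_lit 38555689481) (nat_lit 47) (nat_lit 5) (nat_lit 50) (nat_lit 5) (nat_lit 51) (nat_lit 5) (nat_lit 329) (nat_lit 285) (nat_lit 166)) (XT.lf (nat_lit 0) (nat_lit 28894233821) (nat_lit 304) (nat_lit 15882133439) (nat_lit 76) (nat_lit 9685636579) (nat_lit 47) (nat_lit 5) (nat_lit 51) (nat_lit 5) (nat_lit 48) (nat_lit 5) (nat_lit 330) (nat_lit 285) (nat_lit 165))) (XT.nd (nat_lit 78) (nat_lit 304) (nat_lit 0) (XT.lf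 (nat_lit 0) (nat_lit 21755938807) (nat_lit 152) (nat_lit 23128062552) (nat_lit 228) (nat_lit 11587610878) (nat_lit 45) (nat_lit 5) (nat_lit 47) (nat_lit 5) (nat_lit 48) (nat_lit 5) (nat_lit 331) (nat_lit 285) (nat_lit 164)) (XT.lf (nat_lit 0) (nat_lit 3048835783) (nat_lit 228) (nat_lit 170464945) (nat_lit 304) (nat_lit 55355870560) (nat_lit 41) (nat_lit 5) (nat_lit 44) (nat_lit 5) (nat_lit 45) (nat_lit 5) (nat_lit 332) (nat_lit 285) (nat_lit 163)))))) (XT.nd (nat_lit 546) (nat_lit 684) (nat_lit 0) (XT.nd (nat_lit 234) (nat_lit 532) (nat_lit 0) (XT.nd (nat_lit 78) (nat_lit 152) (nat_lit 0) (XT.lf (nat_lit 0) (nat_lit 19113941288) (nat_lit 304) (nat_lit 17706918217) (nat_lit 76) (nat_lit 23941999674) (nat_lit 41) (nat_lit 5) (nat_lit 45) (nat_lit 5) (nat_lit 42) (nat_lit 5) (nat_lit 333) (nat_lit 285) (nat_lit 162)) (XT.nd (nat_lit 78) (nat_lit 0) (nat_lit 0) (XT.lf (nat_lit 0) (nat_lit 22429735234)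 (nat_lit 152) (nat_lit 13585023425) (nat_lit 228) (nat_lit 27038833024) (nat_lit 39) (nat_lit 5) (nat_lit 41) (nat_lit 5) (nat_lit 42) (nat_lit 5) (nat_lit 334) (nat_lit 285) (nat_lit 161)) (XT.lf (nat_lit 0) (nat_lit 54042905807) (nat_lit 228) (nat_lit 625450182) (nat_lit 76) (nat_lit 10782039548) (nat_lit 39) (nat_lit 5) (nat_lit 42) (nat_lit 5) (nat_lit 40) (nat_lit 5) (nat_lit 335) (nat_lit 285) (nat_lit 160)))) (XT.nd (nat_lit 156) (nat_lit 152) (nat_lit 0) (XT.nd (nat_lit 78) (nat_lit 152) (nat_lit 0) (XT.lf (nat_lit 0) (nat_lit 5448891555) (nat_lit 228) (nat_lit 25957241559) (nat_lit 76) (nat_lit 36543231813) (nat_lit 36) (nat_lit 5) (nat_lit 39) (nat_lit 5) (nat_lit 37) (nat_lit 5) (nat_lit 336) (nat_lit 285) (nat_lit 159)) (XT.lf (nat_lit 0) (nat_lit 16375955097) (nat_lit 152) (nat_lit 6696985577) (nat_lit 228) (nat_lit 47492133544) (nat_lit 34) (nat_lit 5) (nat_lit 36) (nat_lit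 5) (nat_lit 37) (nat_lit 5) (nat_lit 337) (nat_lit 285) (nat_lit 158))) (XT.nd (nat_lit 78) (nat_lit 152) (nat_lit 0) (XT.lf (nat_lit 0) (nat_lit 42027863463) (nat_lit 228) (nat_lit 12131796501) (nat_lit 76) (nat_lit 19138421717) (nat_lit 34) (nat_lit 5) (nat_lit 37) (nat_lit 5) (nat_lit 35) (nat_lit 5) (nat_lit 338) (nat_lit 285) (nat_lit 157)) (XT.lf (nat_lit 0) (nat_lit 32588313495) (nat_lit 152) (nat_lit 29718118486) (nat_lit 228) (nat_lit 13850033258) (nat_lit 32) (nat_lit 5) (nat_lit 34) (nat_lit 5) (nat_lit 35) (nat_lit 5) (nat_lit 339) (nat_lit 285) (nat_lit 156))))) (XT.nd (nat_lit 234) (nat_lit 304) (nat_lit 0) (XT.nd (nat_lit 78) (nat_lit 152) (nat_lit 0) (XT.lf (nat_lit 0) (nat_lit 603517613) (nat_lit 152) (nat_lit 3878058230) (nat_lit 228) (nat_lit 74671101565) (nat_lit 29) (nat_lit 5) (nat_lit 31) (nat_lit 5) (nat_lit 32) (nat_lit 5) (nat_lit 340) (nat_lit 285) (nat_lit 155))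 (XT.nd (nat_lit 78) (nat_lit 152) (nat_lit 0) (XT.lf (nat_lit 0) (nat_lit 24117731701) (nat_lit 228) (nat_lit 34766925110) (nat_lit 76) (nat_lit 23389699702) (nat_lit 29) (nat_lit 5) (nat_lit 32) (nat_lit 5) (nat_lit 30) (nat_lit 5) (nat_lit 341) (nat_lit 285) (nat_lit 154)) (XT.lf (nat_lit 0) (nat_lit 11379590742) (nat_lit 152) (nat_lit 33500134935) (nat_lit 228) (nat_lit 40668075260) (nat_lit 27) (nat_lit 5) (nat_lit 29) (nat_lit 5) (nat_lit 30) (nat_lit 5) (nat_lit 342) (nat_lit 285) (nat_lit 153)))) (XT.nd (nat_lit 156) (nat_lit 228) (nat_lit 0) (XT.nd (nat_lit 78) (nat_lit 76) (nat_lit 0) (XT.lf (nat_lit 0) (nat_lit 60552435692) (nat_lit 152) (nat_lit 6480920975) (nat_lit 228) (nat_lit 21940956959) (nat_lit 27) (nat_lit 5) (nat_lit 29) (nat_lit 5) (nat_lit 30) (nat_lit 5) (nat_lit 343) (nat_lit 285) (nat_lit 152)) (XT.lf (nat_lit 0) (nat_lit 19780076062) (nat_lit 76) (nat_lit 70910965250)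 (nat_lit 152) (nat_lit 1869221537) (nat_lit 26) (nat_lit 5) (nat_lit 27) (nat_lit 5) (nat_lit 28) (nat_lit 4) (nat_lit 344) (nat_lit 285) (nat_lit 151))) (XT.nd (nat_lit 78) (nat_lit 152) (nat_lit 0) (XT.lf (nat_lit 0) (nat_lit 19188119132) (nat_lit 152) (nat_lit 25590739512) (nat_lit 76) (nat_lit 51530410209) (nat_lit 25) (nat_lit 5) (nat_lit 27) (nat_lit 5) (nat_lit 26) (nat_lit 5) (nat_lit 345) (nat_lit 285) (nat_lit 150)) (XT.lf (nat_lit 0) (nat_lit 24408819869) (nat_lit 152) (nat_lit 17081945424) (nat_lit 228) (nat_lit 58747473563) (nat_lit 23) (nat_lit 5) (nat_lit 25) (nat_lit 5) (nat_lit 26) (nat_lit 5) (nat_lit 346) (nat_lit 285) (nat_lit 149))))))))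
noncomputable def xc92 : XT := (XT.nd (nat_lit 37206) (nat_lit 0) (nat_lit 2660) (XT.nd (nat_lit 36192) (nat_lit 0) (nat_lit 10108) (XT.nd (nat_lit 468) (nat_lit 228) (nat_lit 0) (XT.nd (nat_lit 234) (nat_lit 228) (nat_lit 0) (XT.nd (nat_lit 78) (nat_lit 152) (nat_lit 0) (XT.lf (nat_lit 0) (nat_lit 65286135411) (nat_lit 228) (nat_lit 27037274338) (nat_lit 76) (nat_lit 12028921587) (nat_lit 23) (nat_lit 5) (nat_lit 26) (nat_lit 5) (nat_lit 24) (nat_lit 4) (nat_lit 347) (nat_lit 285) (nat_lit 148)) (XT.nd (nat_lit 78) (nat_lit 76) (nat_lit 0) (XT.lf (nat_lit 0) (nat_lit 24493652710) (nat_lit 76) (nat_lit 66181862238) (nat_lit 152) (nat_lit 17984487912) (nat_lit 22) (nat_lit 5) (nat_lit 23) (nat_lit 5) (nat_lit 24) (nat_lit 4) (nat_lit 348) (nat_lit 285) (nat_lit 147)) (XT.lf (nat_lit 0) (nat_lit 4347836473) (nat_lit 152) (nat_lit 34057504552) (nat_lit 76) (nat_lit 74768195174) (nat_lit 21)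 (nat_lit 5) (nat_lit 23) (nat_lit 5) (nat_lit 22) (nat_lit 5) (nat_lit 349) (nat_lit 285) (nat_lit 146)))) (XT.nd (nat_lit 78) (nat_lit 76) (nat_lit 0) (XT.lf (nat_lit 0) (nat_lit 18734883364) (nat_lit 152) (nat_lit 8870121649) (nat_lit 228) (nat_lit 90296995473) (nat_lit 19) (nat_lit 5) (nat_lit 21) (nat_lit 5) (nat_lit 22) (nat_lit 5) (nat_lit 350) (nat_lit 285) (nat_lit 145)) (XT.nd (nat_lit 78) (nat_lit 76) (nat_lit 0) (XT.lf (nat_lit 0) (nat_lit 52588642991) (nat_lit 228) (nat_lit 48199957655) (nat_lit 76) (nat_lit 22061380393) (nat_lit 19) (nat_lit 5) (nat_lit 22) (nat_lit 5) (nat_lit 20) (nat_lit 4) (nat_lit 351) (nat_lit 285) (nat_lit 144)) (XT.lf (nat_lit 0) (nat_lit 5324340480) (nat_lit 76) (nat_lit 73634695062) (nat_lit 152) (nat_lit 49082199210) (nat_lit 18) (nat_lit 5) (nat_lit 19) (nat_lit 5) (nat_lit 20) (nat_lit 4) (nat_lit 352) (nat_lit 285) (nat_lit 143))))) (XT.nd (nat_lit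 35412) (nat_lit 0) (nat_lit 13072) (XT.nd (nat_lit 78) (nat_lit 228) (nat_lit 0) (XT.lf (nat_lit 0) (nat_lit 62526662978) (nat_lit 76) (nat_lit 44614421529) (nat_lit 152) (nat_lit 26336173795) (nat_lit 18) (nat_lit 5) (nat_lit 19) (nat_lit 5) (nat_lit 20) (nat_lit 4) (nat_lit 353) (nat_lit 285) (nat_lit 142)) (XT.nd (nat_lit 78) (nat_lit 228) (nat_lit 0) (XT.lf (nat_lit 0) (nat_lit 122583932176) (nat_lit 76) (nat_lit 14145409220) (nat_lit 152) (nat_lit 2455829661) (nat_lit 18) (nat_lit 5) (nat_lit 19) (nat_lit 5) (nat_lit 20) (nat_lit 4) (nat_lit 354) (nat_lit 285) (nat_lit 141)) (XT.lf (nat_lit 0) (nat_lit 22746513315) (nat_lit 228) (nat_lit 104293699269) (nat_lit 76) (nat_lit 18114664753) (nat_lit 15) (nat_lit 5) (nat_lit 18) (nat_lit 5) (nat_lit 16) (nat_lit 4) (nat_lit 355) (nat_lit 285) (nat_lit 140)))) (XT.nd (nat_lit 156) (nat_lit 0) (nat_lit 76) (XT.nd (nat_lit 78) (nat_lit 1140)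 (nat_lit 0) (XT.lf (nat_lit 0) (nat_lit 7180808757) (nat_lit 1140) (nat_lit 99885434) (nat_lit 1140) (nat_lit 99885434) (nat_lit 202) (nat_lit 3) (nat_lit 217) (nat_lit 3) (nat_lit 217) (nat_lit 5) (nat_lit 286) (nat_lit 286) (nat_lit 208)) (XT.lf (nat_lit 0) (nat_lit 183424068) (nat_lit 1140) (nat_lit 4059777502) (nat_lit 1216) (nat_lit 10868903487) (nat_lit 187) (nat_lit 5) (nat_lit 202) (nat_lit 3) (nat_lit 203) (nat_lit 5) (nat_lit 287) (nat_lit 286) (nat_lit 207))) (XT.nd (nat_lit 78) (nat_lit 0) (nat_lit 76) (XT.lf (nat_lit 0) (nat_lit 895221987) (nat_lit 1140) (nat_lit 8026739780) (nat_lit 1216) (nat_lit 6555321062) (nat_lit 188) (nat_lit 5) (nat_lit 203) (nat_lit 5) (nat_lit 204) (nat_lit 5) (nat_lit 288) (nat_lit 286) (nat_lit 206)) (XT.lf (nat_lit 0) (nat_lit 1754251666) (nat_lit 1140) (nat_lit 12102569313) (nat_lit 1216) (nat_lit 2000589026) (nat_lit 189) (nat_lit 5) (nat_lit 204)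 (nat_lit 5) (nat_lit 205) (nat_lit 5) (nat_lit 289) (nat_lit 286) (nat_lit 205)))))) (XT.nd (nat_lit 468) (nat_lit 3116) (nat_lit 0) (XT.nd (nat_lit 234) (nat_lit 0) (nat_lit 152) (XT.nd (nat_lit 78) (nat_lit 0) (nat_lit 76) (XT.lf (nat_lit 0) (nat_lit 2801782311) (nat_lit 1140) (nat_lit 69328988) (nat_lit 1216) (nat_lit 13381103636) (nat_lit 189) (nat_lit 5) (nat_lit 204) (nat_lit 5) (nat_lit 205) (nat_lit 5) (nat_lit 290) (nat_lit 286) (nat_lit 204)) (XT.nd (nat_lit 78) (nat_lit 0) (nat_lit 76) (XT.lf (nat_lit 0) (nat_lit 4082694403) (nat_lit 1140) (nat_lit 3949970848) (nat_lit 1216) (nat_lit 8628700787) (nat_lit 190) (nat_lit 5) (nat_lit 205) (nat_lit 5) (nat_lit 206) (nat_lit 5) (nat_lit 291) (nat_lit 286) (nat_lit 203)) (XT.lf (nat_lit 0) (nat_lit 5555252246) (nat_lit 1140) (nat_lit 7948867574) (nat_lit 1216) (nat_lit 3583061230) (nat_lit 191) (nat_lit 5) (nat_lit 206) (nat_lit 5) (nat_lit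 207) (nat_lit 5) (nat_lit 292) (nat_lit 286) (nat_lit 202)))) (XT.nd (nat_lit 78) (nat_lit 0) (nat_lit 76) (XT.lf (nat_lit 76) (nat_lit 5437574511) (nat_lit 0) (nat_lit 1813977613) (nat_lit 1216) (nat_lit 10278263984) (nat_lit 192) (nat_lit 5) (nat_lit 191) (nat_lit 5) (nat_lit 207) (nat_lit 5) (nat_lit 293) (nat_lit 286) (nat_lit 201)) (XT.nd (nat_lit 78) (nat_lit 0) (nat_lit 76) (XT.lf (nat_lit 76) (nat_lit 1578935373) (nat_lit 0) (nat_lit 7628858907) (nat_lit 1216) (nat_lit 8781565983) (nat_lit 193) (nat_lit 5) (nat_lit 192) (nat_lit 5) (nat_lit 208) (nat_lit 5) (nat_lit 294) (nat_lit 286) (nat_lit 200)) (XT.lf (nat_lit 0) (nat_lit 11427990667) (nat_lit 1140) (nat_lit 2363765188) (nat_lit 1216) (nat_lit 4675171187) (nat_lit 193) (nat_lit 5) (nat_lit 208) (nat_lit 5) (nat_lit 209) (nat_lit 5) (nat_lit 295) (nat_lit 286) (nat_lit 199))))) (XT.nd (nat_lit 234) (nat_lit 1748) (nat_lit 0) (XT.nd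 (nat_lit 78) (nat_lit 1672) (nat_lit 0) (XT.lf (nat_lit 76) (nat_lit 12535638390) (nat_lit 0) (nat_lit 1399864951) (nat_lit 1216) (nat_lit 5027607889) (nat_lit 194) (nat_lit 5) (nat_lit 193) (nat_lit 5) (nat_lit 209) (nat_lit 5) (nat_lit 296) (nat_lit 286) (nat_lit 198)) (XT.nd (nat_lit 78) (nat_lit 608) (nat_lit 0) (XT.lf (nat_lit 0) (nat_lit 8788281676) (nat_lit 1140) (nat_lit 7980469939) (nat_lit 1216) (nat_lit 2709369132) (nat_lit 179) (nat_lit 5) (nat_lit 194) (nat_lit 5) (nat_lit 195) (nat_lit 5) (nat_lit 297) (nat_lit 286) (nat_lit 197)) (XT.lf (nat_lit 0) (nat_lit 4897653688) (nat_lit 608) (nat_lit 15002412100) (nat_lit 684) (nat_lit 114148487) (nat_lit 171) (nat_lit 5) (nat_lit 179) (nat_lit 5) (nat_lit 180) (nat_lit 5) (nat_lit 298) (nat_lit 286) (nat_lit 196)))) (XT.nd (nat_lit 156) (nat_lit 1064) (nat_lit 0) (XT.nd (nat_lit 78) (nat_lit 0) (nat_lit 0) (XT.lf (nat_lit 0) (nat_lit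 805662714) (nat_lit 608) (nat_lit 1934723680) (nat_lit 684) (nat_lit 17830581884) (nat_lit 162) (nat_lit 5) (nat_lit 170) (nat_lit 5) (nat_lit 171) (nat_lit 5) (nat_lit 299) (nat_lit 286) (nat_lit 195)) (XT.lf (nat_lit 0) (nat_lit 5987584533) (nat_lit 684) (nat_lit 3444493732) (nat_lit 76) (nat_lit 11715901468) (nat_lit 162) (nat_lit 5) (nat_lit 171) (nat_lit 5) (nat_lit 163) (nat_lit 5) (nat_lit 300) (nat_lit 286) (nat_lit 194))) (XT.nd (nat_lit 78) (nat_lit 532) (nat_lit 0) (XT.lf (nat_lit 0) (nat_lit 9575489579) (nat_lit 608) (nat_lit 7864076421) (nat_lit 76) (nat_lit 4308946853) (nat_lit 155) (nat_lit 5) (nat_lit 163) (nat_lit 5) (nat_lit 156) (nat_lit 5) (nat_lit 301) (nat_lit 286) (nat_lit 193)) (XT.lf (nat_lit 0) (nat_lit 9853802446) (nat_lit 532) (nat_lit 3698081344) (nat_lit 608) (nat_lit 8820936500) (nat_lit 148) (nat_lit 5) (nat_lit 155) (nat_lit 5) (nat_lit 156) (nat_lit 5) (nat_lit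 302) (nat_lit 286) (nat_lit 192))))))) (XT.nd (nat_lit 1014) (nat_lit 3116) (nat_lit 0) (XT.nd (nat_lit 468) (nat_lit 1976) (nat_lit 0) (XT.nd (nat_lit 234) (nat_lit 1292) (nat_lit 0) (XT.nd (nat_lit 78) (nat_lit 608) (nat_lit 0) (XT.lf (nat_lit 0) (nat_lit 5584285339) (nat_lit 456) (nat_lit 12365392788) (nat_lit 532) (nat_lit 5072007061) (nat_lit 142) (nat_lit 5) (nat_lit 148) (nat_lit 5) (nat_lit 149) (nat_lit 5) (nat_lit 303) (nat_lit 286) (nat_lit 191)) (XT.nd (nat_lit 78) (nat_lit 76) (nat_lit 0) (XT.lf (nat_lit 0) (nat_lit 1103053757) (nat_lit 532) (nat_lit 21645362888) (nat_lit 608) (nat_lit 949163626) (nat_lit 135) (nat_lit 5) (nat_lit 142) (nat_lit 5) (nat_lit 143) (nat_lit 5) (nat_lit 304) (nat_lit 286) (nat_lit 190)) (XT.lf (nat_lit 0) (nat_lit 3604964792) (nat_lit 608) (nat_lit 3642598050) (nat_lit 76) (nat_lit 17150016914) (nat_lit 134) (nat_lit 5) (nat_lit 142) (nat_lit 5) (nat_lit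 135) (nat_lit 5) (nat_lit 305) (nat_lit 286) (nat_lit 189)))) (XT.nd (nat_lit 78) (nat_lit 836) (nat_lit 0) (XT.lf (nat_lit 0) (nat_lit 8589515968) (nat_lit 532) (nat_lit 8650655951) (nat_lit 76) (nat_lit 7885471328) (nat_lit 128) (nat_lit 5) (nat_lit 135) (nat_lit 5) (nat_lit 129) (nat_lit 5) (nat_lit 306) (nat_lit 286) (nat_lit 188)) (XT.nd (nat_lit 78) (nat_lit 380) (nat_lit 0) (XT.lf (nat_lit 0) (nat_lit 11929111296) (nat_lit 456) (nat_lit 2106113199) (nat_lit 532) (nat_lit 11848543102) (nat_lit 122) (nat_lit 5) (nat_lit 128) (nat_lit 5) (nat_lit 129) (nat_lit 5) (nat_lit 307) (nat_lit 286) (nat_lit 187)) (XT.lf (nat_lit 0) (nat_lit 7029624282) (nat_lit 380) (nat_lit 13000334964) (nat_lit 456) (nat_lit 6641551529) (nat_lit 117) (nat_lit 5) (nat_lit 122) (nat_lit 5) (nat_lit 123) (nat_lit 5) (nat_lit 308) (nat_lit 286) (nat_lit 186))))) (XT.nd (nat_lit 234) (nat_lit 1140) (nat_lit 0) (XT.nd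 (nat_lit 78) (nat_lit 456) (nat_lit 0) (XT.lf (nat_lit 0) (nat_lit 1832164798) (nat_lit 380) (nat_lit 24689106168) (nat_lit 456) (nat_lit 971479069) (nat_lit 112) (nat_lit 5) (nat_lit 117) (nat_lit 5) (nat_lit 118) (nat_lit 5) (nat_lit 309) (nat_lit 286) (nat_lit 185)) (XT.nd (nat_lit 78) (nat_lit 380) (nat_lit 0) (XT.lf (nat_lit 0) (nat_lit 5207811481) (nat_lit 456) (nat_lit 3755131121) (nat_lit 76) (nat_lit 19380996997) (nat_lit 111) (nat_lit 5) (nat_lit 117) (nat_lit 5) (nat_lit 112) (nat_lit 5) (nat_lit 310) (nat_lit 286) (nat_lit 184)) (XT.lf (nat_lit 0) (nat_lit 11927224659) (nat_lit 456) (nat_lit 9702968440) (nat_lit 76) (nat_lit 7599681934) (nat_lit 106) (nat_lit 5) (nat_lit 112) (nat_lit 5) (nat_lit 107) (nat_lit 5) (nat_lit 311) (nat_lit 286) (nat_lit 183)))) (XT.nd (nat_lit 156) (nat_lit 456) (nat_lit 0) (XT.nd (nat_lit 78) (nat_lit 304) (nat_lit 0) (XT.lf (nat_lit 0) (nat_lit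 14061525476) (nat_lit 380) (nat_lit 5174270708) (nat_lit 456) (nat_lit 10916727274) (nat_lit 101) (nat_lit 5) (nat_lit 106) (nat_lit 5) (nat_lit 107) (nat_lit 5) (nat_lit 312) (nat_lit 286) (nat_lit 182)) (XT.lf (nat_lit 0) (nat_lit 8125428820) (nat_lit 304) (nat_lit 19068598809) (nat_lit 380) (nat_lit 3918761020) (nat_lit 97) (nat_lit 5) (nat_lit 101) (nat_lit 5) (nat_lit 102) (nat_lit 5) (nat_lit 313) (nat_lit 286) (nat_lit 181))) (XT.nd (nat_lit 78) (nat_lit 0) (nat_lit 0) (XT.lf (nat_lit 0) (nat_lit 1704982390) (nat_lit 380) (nat_lit 1882278010) (nat_lit 456) (nat_lit 28526076126) (nat_lit 91) (nat_lit 5) (nat_lit 96) (nat_lit 5) (nat_lit 97) (nat_lit 5) (nat_lit 314) (nat_lit 286) (nat_lit 180)) (XT.lf (nat_lit 0) (nat_lit 11772162754) (nat_lit 456) (nat_lit 5255945099) (nat_lit 76) (nat_lit 16123111118) (nat_lit 91) (nat_lit 5) (nat_lit 97) (nat_lit 5) (nat_lit 92) (nat_lit 5) (nat_lit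 315) (nat_lit 286) (nat_lit 179)))))) (XT.nd (nat_lit 546) (nat_lit 1216) (nat_lit 0) (XT.nd (nat_lit 234) (nat_lit 912) (nat_lit 0) (XT.nd (nat_lit 78) (nat_lit 684) (nat_lit 0) (XT.lf (nat_lit 0) (nat_lit 20591628383) (nat_lit 380) (nat_lit 12701798085) (nat_lit 76) (nat_lit 940818989) (nat_lit 87) (nat_lit 5) (nat_lit 92) (nat_lit 5) (nat_lit 88) (nat_lit 5) (nat_lit 316) (nat_lit 286) (nat_lit 178)) (XT.nd (nat_lit 78) (nat_lit 380) (nat_lit 0) (XT.lf (nat_lit 0) (nat_lit 14497408551) (nat_lit 304) (nat_lit 15710863937) (nat_lit 380) (nat_lit 5152473639) (nat_lit 83) (nat_lit 5) (nat_lit 87) (nat_lit 5) (nat_lit 88) (nat_lit 5) (nat_lit 317) (nat_lit 286) (nat_lit 177)) (XT.lf (nat_lit 0) (nat_lit 3906106123) (nat_lit 380) (nat_lit 29699879593) (nat_lit 76) (nat_lit 2929989235) (nat_lit 78) (nat_lit 5) (nat_lit 83) (nat_lit 5) (nat_lit 79) (nat_lit 5) (nat_lit 318) (nat_lit 286) (nat_lit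 176)))) (XT.nd (nat_lit 156) (nat_lit 608) (nat_lit 0) (XT.nd (nat_lit 78) (nat_lit 304) (nat_lit 0) (XT.lf (nat_lit 0) (nat_lit 13678376046) (nat_lit 380) (nat_lit 1632801512) (nat_lit 76) (nat_lit 22446245493) (nat_lit 78) (nat_lit 5) (nat_lit 83) (nat_lit 5) (nat_lit 79) (nat_lit 5) (nat_lit 319) (nat_lit 286) (nat_lit 175)) (XT.lf (nat_lit 0) (nat_lit 24243491262) (nat_lit 380) (nat_lit 10693195322) (nat_lit 76) (nat_lit 4094137577) (nat_lit 74) (nat_lit 5) (nat_lit 79) (nat_lit 5) (nat_lit 75) (nat_lit 5) (nat_lit 320) (nat_lit 286) (nat_lit 174))) (XT.nd (nat_lit 78) (nat_lit 380) (nat_lit 0) (XT.lf (nat_lit 0) (nat_lit 19690535401) (nat_lit 228) (nat_lit 15998678564) (nat_lit 304) (nat_lit 4668118010) (nat_lit 71) (nat_lit 5) (nat_lit 74) (nat_lit 5) (nat_lit 75) (nat_lit 5) (nat_lit 321) (nat_lit 286) (nat_lit 173)) (XT.lf (nat_lit 0) (nat_lit 6081733412) (nat_lit 380) (nat_lit 31583798821)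 (nat_lit 76) (nat_lit 4075694135) (nat_lit 66) (nat_lit 5) (nat_lit 71) (nat_lit 5) (nat_lit 67) (nat_lit 5) (nat_lit 322) (nat_lit 286) (nat_lit 172))))) (XT.nd (nat_lit 234) (nat_lit 760) (nat_lit 0) (XT.nd (nat_lit 78) (nat_lit 456) (nat_lit 0) (XT.lf (nat_lit 0) (nat_lit 17641764721) (nat_lit 380) (nat_lit 455877844) (nat_lit 76) (nat_lit 25084215751) (nat_lit 66) (nat_lit 5) (nat_lit 71) (nat_lit 5) (nat_lit 67) (nat_lit 5) (nat_lit 323) (nat_lit 286) (nat_lit 171)) (XT.nd (nat_lit 78) (nat_lit 228) (nat_lit 0) (XT.lf (nat_lit 0) (nat_lit 30114662608) (nat_lit 304) (nat_lit 11853699187) (nat_lit 76) (nat_lit 2716120155) (nat_lit 63) (nat_lit 5) (nat_lit 67) (nat_lit 5) (nat_lit 64) (nat_lit 5) (nat_lit 324) (nat_lit 286) (nat_lit 170)) (XT.lf (nat_lit 0) (nat_lit 21759834670) (nat_lit 228) (nat_lit 21840546316) (nat_lit 304) (nat_lit 2650186262) (nat_lit 60) (nat_lit 5) (nat_lit 63)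 (nat_lit 5) (nat_lit 64) (nat_lit 5) (nat_lit 325) (nat_lit 286) (nat_lit 169)))) (XT.nd (nat_lit 156) (nat_lit 456) (nat_lit 0) (XT.nd (nat_lit 78) (nat_lit 0) (nat_lit 0) (XT.lf (nat_lit 0) (nat_lit 9488469501) (nat_lit 228) (nat_lit 391663747) (nat_lit 304) (nat_lit 38005767462) (nat_lit 56) (nat_lit 5) (nat_lit 59) (nat_lit 5) (nat_lit 60) (nat_lit 5) (nat_lit 326) (nat_lit 286) (nat_lit 168)) (XT.lf (nat_lit 0) (nat_lit 23442977059) (nat_lit 304) (nat_lit 4169951051) (nat_lit 76) (nat_lit 21975466066) (nat_lit 56) (nat_lit 5) (nat_lit 60) (nat_lit 5) (nat_lit 57) (nat_lit 5) (nat_lit 327) (nat_lit 286) (nat_lit 167))) (XT.nd (nat_lit 78) (nat_lit 228) (nat_lit 0) (XT.lf (nat_lit 0) (nat_lit 32386488414) (nat_lit 228) (nat_lit 5606059165) (nat_lit 304) (nat_lit 13374212026) (nat_lit 53) (nat_lit 5) (nat_lit 56) (nat_lit 5) (nat_lit 57) (nat_lit 5) (nat_lit 328) (nat_lit 286) (nat_lit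 166)) (XT.lf (nat_lit 0) (nat_lit 414701014) (nat_lit 228) (nat_lit 35433442255) (nat_lit 76) (nat_lit 17374498997) (nat_lit 50) (nat_lit 5) (nat_lit 53) (nat_lit 5) (nat_lit 51) (nat_lit 5) (nat_lit 329) (nat_lit 286) (nat_lit 165))))))))
noncomputable def xc93 : XT := (XT.nd (nat_lit 37284) (nat_lit 0) (nat_lit 6308) (XT.nd (nat_lit 1014) (nat_lit 836) (nat_lit 0) (XT.nd (nat_lit 468) (nat_lit 760) (nat_lit 0) (XT.nd (nat_lit 234) (nat_lit 456) (nat_lit 0) (XT.nd (nat_lit 78) (nat_lit 152) (nat_lit 0) (XT.lf (nat_lit 0) (nat_lit 1453027895) (nat_lit 228) (nat_lit 13427519324) (nat_lit 304) (nat_lit 40278880950) (nat_lit 47) (nat_lit 5) (nat_lit 50) (nat_lit 5) (nat_lit 51) (nat_lit 5) (nat_lit 330) (nat_lit 286) (nat_lit 164)) (XT.nd (nat_lit 78) (nat_lit 152) (nat_lit 0) (XT.lf (nat_lit 0) (nat_lit 30529093999) (nat_lit 304) (nat_lit 16368669428) (nat_lit 76) (nat_lit 10281511736) (nat_lit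 47) (nat_lit 5) (nat_lit 51) (nat_lit 5) (nat_lit 48) (nat_lit 5) (nat_lit 331) (nat_lit 286) (nat_lit 163)) (XT.lf (nat_lit 0) (nat_lit 23142489979) (nat_lit 152) (nat_lit 24169677055) (nat_lit 228) (nat_lit 11977388359) (nat_lit 45) (nat_lit 5) (nat_lit 47) (nat_lit 5) (nat_lit 48) (nat_lit 5) (nat_lit 332) (nat_lit 286) (nat_lit 162)))) (XT.nd (nat_lit 78) (nat_lit 152) (nat_lit 0) (XT.lf (nat_lit 0) (nat_lit 3495173596) (nat_lit 228) (nat_lit 64967966) (nat_lit 304) (nat_lit 57938282457) (nat_lit 41) (nat_lit 5) (nat_lit 44) (nat_lit 5) (nat_lit 45) (nat_lit 5) (nat_lit 333) (nat_lit 286) (nat_lit 161)) (XT.nd (nat_lit 78) (nat_lit 152) (nat_lit 0) (XT.lf (nat_lit 0) (nat_lit 20241992476) (nat_lit 304) (nat_lit 18308163343) (nat_lit 76) (nat_lit 25245571353) (nat_lit 41) (nat_lit 5) (nat_lit 45) (nat_lit 5) (nat_lit 42) (nat_lit 5) (nat_lit 334) (nat_lit 286) (nat_lit 160)) (XT.lf (nat_lit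 0) (nat_lit 23827179089) (nat_lit 152) (nat_lit 14155116955) (nat_lit 228) (nat_lit 28218871866) (nat_lit 39) (nat_lit 5) (nat_lit 41) (nat_lit 5) (nat_lit 42) (nat_lit 5) (nat_lit 335) (nat_lit 286) (nat_lit 159))))) (XT.nd (nat_lit 234) (nat_lit 380) (nat_lit 0) (XT.nd (nat_lit 78) (nat_lit 380) (nat_lit 0) (XT.lf (nat_lit 0) (nat_lit 56904907043) (nat_lit 228) (nat_lit 390045396) (nat_lit 76) (nat_lit 11423072556) (nat_lit 39) (nat_lit 5) (nat_lit 42) (nat_lit 5) (nat_lit 40) (nat_lit 5) (nat_lit 336) (nat_lit 286) (nat_lit 158)) (XT.nd (nat_lit 78) (nat_lit 152) (nat_lit 0) (XT.lf (nat_lit 0) (nat_lit 5877690268) (nat_lit 228) (nat_lit 26992871330) (nat_lit 76) (nat_lit 38471493444) (nat_lit 36) (nat_lit 5) (nat_lit 39) (nat_lit 5) (nat_lit 37) (nat_lit 5) (nat_lit 337) (nat_lit 286) (nat_lit 157)) (XT.lf (nat_lit 0) (nat_lit 17449468323) (nat_lit 152) (nat_lit 6928476565) (nat_lit 228)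 (nat_lit 49710758983) (nat_lit 34) (nat_lit 5) (nat_lit 36) (nat_lit 5) (nat_lit 37) (nat_lit 5) (nat_lit 338) (nat_lit 286) (nat_lit 156)))) (XT.nd (nat_lit 156) (nat_lit 228) (nat_lit 0) (XT.nd (nat_lit 78) (nat_lit 152) (nat_lit 0) (XT.lf (nat_lit 0) (nat_lit 44274352563) (nat_lit 228) (nat_lit 12492342531) (nat_lit 76) (nat_lit 20191858420) (nat_lit 34) (nat_lit 5) (nat_lit 37) (nat_lit 5) (nat_lit 35) (nat_lit 5) (nat_lit 339) (nat_lit 286) (nat_lit 155)) (XT.lf (nat_lit 0) (nat_lit 34456720170) (nat_lit 152) (nat_lit 31105517336) (nat_lit 228) (nat_lit 14397760884) (nat_lit 32) (nat_lit 5) (nat_lit 34) (nat_lit 5) (nat_lit 35) (nat_lit 5) (nat_lit 340) (nat_lit 286) (nat_lit 154))) (XT.nd (nat_lit 78) (nat_lit 0) (nat_lit 0) (XT.lf (nat_lit 0) (nat_lit 868649235) (nat_lit 152) (nat_lit 3974453437) (nat_lit 228) (nat_lit 78263015268) (nat_lit 29) (nat_lit 5) (nat_lit 31) (nat_lit 5)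 (nat_lit 32) (nat_lit 5) (nat_lit 341) (nat_lit 286) (nat_lit 153)) (XT.lf (nat_lit 0) (nat_lit 25455413849) (nat_lit 228) (nat_lit 36278403007) (nat_lit 76) (nat_lit 24650237047) (nat_lit 29) (nat_lit 5) (nat_lit 32) (nat_lit 5) (nat_lit 30) (nat_lit 5) (nat_lit 342) (nat_lit 286) (nat_lit 152)))))) (XT.nd (nat_lit 468) (nat_lit 380) (nat_lit 0) (XT.nd (nat_lit 234) (nat_lit 228) (nat_lit 0) (XT.nd (nat_lit 78) (nat_lit 76) (nat_lit 0) (XT.lf (nat_lit 0) (nat_lit 12168935501) (nat_lit 152) (nat_lit 35082414328) (nat_lit 228) (nat_lit 42569948619) (nat_lit 27) (nat_lit 5) (nat_lit 29) (nat_lit 5) (nat_lit 30) (nat_lit 5) (nat_lit 343) (nat_lit 286) (nat_lit 151)) (XT.nd (nat_lit 78) (nat_lit 76) (nat_lit 0) (XT.lf (nat_lit 0) (nat_lit 63789929117) (nat_lit 152) (nat_lit 6716655258) (nat_lit 228) (nat_lit 22912737756) (nat_lit 27) (nat_lit 5) (nat_lit 29) (nat_lit 5) (nat_lit 30) (nat_lit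 5) (nat_lit 344) (nat_lit 286) (nat_lit 150)) (XT.lf (nat_lit 0) (nat_lit 20975711914) (nat_lit 76) (nat_lit 74368447528) (nat_lit 152) (nat_lit 1840502061) (nat_lit 26) (nat_lit 5) (nat_lit 27) (nat_lit 5) (nat_lit 28) (nat_lit 4) (nat_lit 345) (nat_lit 286) (nat_lit 149)))) (XT.nd (nat_lit 78) (nat_lit 152) (nat_lit 0) (XT.lf (nat_lit 0) (nat_lit 20261616870) (nat_lit 152) (nat_lit 26671160238) (nat_lit 76) (nat_lit 54188479264) (nat_lit 25) (nat_lit 5) (nat_lit 27) (nat_lit 5) (nat_lit 26) (nat_lit 5) (nat_lit 346) (nat_lit 286) (nat_lit 148)) (XT.nd (nat_lit 78) (nat_lit 0) (nat_lit 0) (XT.lf (nat_lit 0) (nat_lit 25822669484) (nat_lit 152) (nat_lit 17853152074) (nat_lit 228) (nat_lit 61570963061) (nat_lit 23) (nat_lit 5) (nat_lit 25) (nat_lit 5) (nat_lit 26) (nat_lit 5) (nat_lit 347) (nat_lit 286) (nat_lit 147)) (XT.lf (nat_lit 0) (nat_lit 68656456274) (nat_lit 228) (nat_lit 28202492335)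 (nat_lit 76) (nat_lit 12707770644) (nat_lit 23) (nat_lit 5) (nat_lit 26) (nat_lit 5) (nat_lit 24) (nat_lit 4) (nat_lit 348) (nat_lit 286) (nat_lit 146))))) (XT.nd (nat_lit 234) (nat_lit 76) (nat_lit 0) (XT.nd (nat_lit 78) (nat_lit 228) (nat_lit 0) (XT.lf (nat_lit 0) (nat_lit 25899630904) (nat_lit 76) (nat_lit 69412368317) (nat_lit 152) (nat_lit 18777876596) (nat_lit 22) (nat_lit 5) (nat_lit 23) (nat_lit 5) (nat_lit 24) (nat_lit 4) (nat_lit 349) (nat_lit 286) (nat_lit 145)) (XT.nd (nat_lit 78) (nat_lit 152) (nat_lit 0) (XT.lf (nat_lit 0) (nat_lit 4664057322) (nat_lit 152) (nat_lit 35585707983) (nat_lit 76) (nat_lit 78579440365) (nat_lit 21) (nat_lit 5) (nat_lit 23) (nat_lit 5) (nat_lit 22) (nat_lit 5) (nat_lit 350) (nat_lit 286) (nat_lit 144)) (XT.lf (nat_lit 0) (nat_lit 19841292398) (nat_lit 152) (nat_lit 9239716670) (nat_lit 228) (nat_lit 94713178381) (nat_lit 19) (nat_lit 5) (nat_lit 21)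 (nat_lit 5) (nat_lit 22) (nat_lit 5) (nat_lit 351) (nat_lit 286) (nat_lit 143)))) (XT.nd (nat_lit 156) (nat_lit 0) (nat_lit 0) (XT.nd (nat_lit 78) (nat_lit 76) (nat_lit 0) (XT.lf (nat_lit 0) (nat_lit 55309945885) (nat_lit 228) (nat_lit 50446272254) (nat_lit 76) (nat_lit 23233467308) (nat_lit 19) (nat_lit 5) (nat_lit 22) (nat_lit 5) (nat_lit 20) (nat_lit 4) (nat_lit 352) (nat_lit 286) (nat_lit 142)) (XT.lf (nat_lit 0) (nat_lit 5749548840) (nat_lit 76) (nat_lit 77246462749) (nat_lit 152) (nat_lit 51444577486) (nat_lit 18) (nat_lit 5) (nat_lit 19) (nat_lit 5) (nat_lit 20) (nat_lit 4) (nat_lit 353) (nat_lit 286) (nat_lit 141))) (XT.nd (nat_lit 78) (nat_lit 0) (nat_lit 0) (XT.lf (nat_lit 0) (nat_lit 65804416447) (nat_lit 76) (nat_lit 46778507304) (nat_lit 152) (nat_lit 27565618976) (nat_lit 18) (nat_lit 5) (nat_lit 19) (nat_lit 5) (nat_lit 20) (nat_lit 4) (nat_lit 354) (nat_lit 286) (nat_lit 140))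 (XT.lf (nat_lit 0) (nat_lit 128857338613) (nat_lit 76) (nat_lit 14789217489) (nat_lit 152) (nat_lit 2495417803) (nat_lit 18) (nat_lit 5) (nat_lit 19) (nat_lit 5) (nat_lit 20) (nat_lit 4) (nat_lit 355) (nat_lit 286) (nat_lit 139))))))) (XT.nd (nat_lit 1014) (nat_lit 5244) (nat_lit 0) (XT.nd (nat_lit 468) (nat_lit 1292) (nat_lit 0) (XT.nd (nat_lit 234) (nat_lit 0) (nat_lit 152) (XT.nd (nat_lit 78) (nat_lit 0) (nat_lit 0) (XT.lf (nat_lit 0) (nat_lit 133573597) (nat_lit 0) (nat_lit 133573597) (nat_lit 1140) (nat_lit 7467695296) (nat_lit 187) (nat_lit 5) (nat_lit 187) (nat_lit 3) (nat_lit 202) (nat_lit 3) (nat_lit 287) (nat_lit 287) (nat_lit 206)) (XT.nd (nat_lit 78) (nat_lit 0) (nat_lit 76) (XT.lf (nat_lit 0) (nat_lit 1092724545) (nat_lit 1140) (nat_lit 3777823419) (nat_lit 1216) (nat_lit 10968935226) (nat_lit 187) (nat_lit 5) (nat_lit 202) (nat_lit 3) (nat_lit 203) (nat_lit 5) (nat_lit 288)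 (nat_lit 287) (nat_lit 205)) (XT.lf (nat_lit 0) (nat_lit 1798020862) (nat_lit 1140) (nat_lit 7926259648) (nat_lit 1216) (nat_lit 6499960335) (nat_lit 188) (nat_lit 5) (nat_lit 203) (nat_lit 5) (nat_lit 204) (nat_lit 5) (nat_lit 289) (nat_lit 287) (nat_lit 204)))) (XT.nd (nat_lit 78) (nat_lit 0) (nat_lit 0) (XT.lf (nat_lit 0) (nat_lit 2660613822) (nat_lit 1140) (nat_lit 12191284936) (nat_lit 1216) (nat_lit 1772712744) (nat_lit 189) (nat_lit 5) (nat_lit 204) (nat_lit 5) (nat_lit 205) (nat_lit 5) (nat_lit 290) (nat_lit 287) (nat_lit 203)) (XT.nd (nat_lit 78) (nat_lit 0) (nat_lit 76) (XT.lf (nat_lit 76) (nat_lit 427365761) (nat_lit 0) (nat_lit 3298280025) (nat_lit 1216) (nat_lit 13314609982) (nat_lit 190) (nat_lit 5) (nat_lit 189) (nat_lit 5) (nat_lit 205) (nat_lit 5) (nat_lit 291) (nat_lit 287) (nat_lit 202)) (XT.lf (nat_lit 0) (nat_lit 5031370880) (nat_lit 1140) (nat_lit 3643735588) (nat_lit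 1216) (nat_lit 8795985256) (nat_lit 190) (nat_lit 5) (nat_lit 205) (nat_lit 5) (nat_lit 206) (nat_lit 5) (nat_lit 292) (nat_lit 287) (nat_lit 201))))) (XT.nd (nat_lit 234) (nat_lit 1596) (nat_lit 0) (XT.nd (nat_lit 78) (nat_lit 0) (nat_lit 0) (XT.lf (nat_lit 0) (nat_lit 6544647646) (nat_lit 1140) (nat_lit 7832486416) (nat_lit 1216) (nat_lit 3542098615) (nat_lit 191) (nat_lit 5) (nat_lit 206) (nat_lit 5) (nat_lit 207) (nat_lit 5) (nat_lit 293) (nat_lit 287) (nat_lit 200)) (XT.nd (nat_lit 78) (nat_lit 0) (nat_lit 76) (XT.lf (nat_lit 76) (nat_lit 6208549097) (nat_lit 0) (nat_lit 2088123761) (nat_lit 1216) (nat_lit 10088244961) (nat_lit 192) (nat_lit 5) (nat_lit 191) (nat_lit 5) (nat_lit 207) (nat_lit 5) (nat_lit 294) (nat_lit 287) (nat_lit 199)) (XT.lf (nat_lit 76) (nat_lit 2165160360) (nat_lit 0) (nat_lit 8156261540) (nat_lit 1216) (nat_lit 8546939904) (nat_lit 193) (nat_lit 5) (nat_lit 192)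 (nat_lit 5) (nat_lit 208) (nat_lit 5) (nat_lit 295) (nat_lit 287) (nat_lit 198)))) (XT.nd (nat_lit 156) (nat_lit 1748) (nat_lit 0) (XT.nd (nat_lit 78) (nat_lit 0) (nat_lit 0) (XT.lf (nat_lit 0) (nat_lit 12620185298) (nat_lit 1140) (nat_lit 1978003214) (nat_lit 1216) (nat_lit 4772633090) (nat_lit 193) (nat_lit 5) (nat_lit 208) (nat_lit 5) (nat_lit 209) (nat_lit 5) (nat_lit 296) (nat_lit 287) (nat_lit 197)) (XT.lf (nat_lit 76) (nat_lit 13651924910) (nat_lit 0) (nat_lit 1576292442) (nat_lit 1216) (nat_lit 4664382762) (nat_lit 194) (nat_lit 5) (nat_lit 193) (nat_lit 5) (nat_lit 209) (nat_lit 5) (nat_lit 297) (nat_lit 287) (nat_lit 196))) (XT.nd (nat_lit 78) (nat_lit 684) (nat_lit 0) (XT.lf (nat_lit 0) (nat_lit 9722294195) (nat_lit 1140) (nat_lit 8456235796) (nat_lit 1216) (nat_lit 2255605606) (nat_lit 179) (nat_lit 5) (nat_lit 194) (nat_lit 5) (nat_lit 195) (nat_lit 5) (nat_lit 298) (nat_lit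 287) (nat_lit 195)) (XT.lf (nat_lit 0) (nat_lit 436835675) (nat_lit 684) (nat_lit 15360993649) (nat_lit 76) (nat_lit 5199805273) (nat_lit 170) (nat_lit 5) (nat_lit 179) (nat_lit 5) (nat_lit 171) (nat_lit 5) (nat_lit 299) (nat_lit 287) (nat_lit 194)))))) (XT.nd (nat_lit 546) (nat_lit 2508) (nat_lit 0) (XT.nd (nat_lit 234) (nat_lit 1596) (nat_lit 0) (XT.nd (nat_lit 78) (nat_lit 532) (nat_lit 0) (XT.lf (nat_lit 0) (nat_lit 1341562681) (nat_lit 608) (nat_lit 2068562221) (nat_lit 684) (nat_lit 18172748907) (nat_lit 162) (nat_lit 5) (nat_lit 170) (nat_lit 5) (nat_lit 171) (nat_lit 5) (nat_lit 300) (nat_lit 287) (nat_lit 193)) (XT.nd (nat_lit 78) (nat_lit 532) (nat_lit 0) (XT.lf (nat_lit 0) (nat_lit 6793975700) (nat_lit 684) (nat_lit 3128512358) (nat_lit 76) (nat_lit 12267050488) (nat_lit 162) (nat_lit 5) (nat_lit 171) (nat_lit 5) (nat_lit 163) (nat_lit 5) (nat_lit 301) (nat_lit 287) (nat_lit 192))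 (XT.lf (nat_lit 0) (nat_lit 10541563953) (nat_lit 608) (nat_lit 7767718843) (nat_lit 76) (nat_lit 4511436877) (nat_lit 155) (nat_lit 5) (nat_lit 163) (nat_lit 5) (nat_lit 156) (nat_lit 5) (nat_lit 302) (nat_lit 287) (nat_lit 191)))) (XT.nd (nat_lit 156) (nat_lit 608) (nat_lit 0) (XT.nd (nat_lit 78) (nat_lit 456) (nat_lit 0) (XT.lf (nat_lit 0) (nat_lit 10822020788) (nat_lit 532) (nat_lit 3876123398) (nat_lit 608) (nat_lit 8778685870) (nat_lit 148) (nat_lit 5) (nat_lit 155) (nat_lit 5) (nat_lit 156) (nat_lit 5) (nat_lit 303) (nat_lit 287) (nat_lit 190)) (XT.lf (nat_lit 0) (nat_lit 6339544680) (nat_lit 456) (nat_lit 12958604979) (nat_lit 532) (nat_lit 4860546101) (nat_lit 142) (nat_lit 5) (nat_lit 148) (nat_lit 5) (nat_lit 149) (nat_lit 5) (nat_lit 304) (nat_lit 287) (nat_lit 189))) (XT.nd (nat_lit 78) (nat_lit 76) (nat_lit 0) (XT.lf (nat_lit 0) (nat_lit 1634042088) (nat_lit 532) (nat_lit 22686110834)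 (nat_lit 608) (nat_lit 548758747) (nat_lit 135) (nat_lit 5) (nat_lit 142) (nat_lit 5) (nat_lit 143) (nat_lit 5) (nat_lit 305) (nat_lit 287) (nat_lit 188)) (XT.lf (nat_lit 0) (nat_lit 4203426021) (nat_lit 608) (nat_lit 3362748786) (nat_lit 76) (nat_lit 18038258443) (nat_lit 134) (nat_lit 5) (nat_lit 142) (nat_lit 5) (nat_lit 135) (nat_lit 5) (nat_lit 306) (nat_lit 287) (nat_lit 187))))) (XT.nd (nat_lit 234) (nat_lit 1216) (nat_lit 0) (XT.nd (nat_lit 78) (nat_lit 836) (nat_lit 0) (XT.lf (nat_lit 0) (nat_lit 9422046764) (nat_lit 532) (nat_lit 8622360865) (nat_lit 76) (nat_lit 8324969840) (nat_lit 128) (nat_lit 5) (nat_lit 135) (nat_lit 5) (nat_lit 129) (nat_lit 5) (nat_lit 307) (nat_lit 287) (nat_lit 186)) (XT.nd (nat_lit 78) (nat_lit 380) (nat_lit 0) (XT.lf (nat_lit 0) (nat_lit 12973185206) (nat_lit 456) (nat_lit 2151965198) (nat_lit 532) (nat_lit 12040726070) (nat_lit 122) (nat_lit 5) (nat_lit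 128) (nat_lit 5) (nat_lit 129) (nat_lit 5) (nat_lit 308) (nat_lit 287) (nat_lit 185)) (XT.lf (nat_lit 0) (nat_lit 7827071074) (nat_lit 380) (nat_lit 13578897970) (nat_lit 456) (nat_lit 6587468046) (nat_lit 117) (nat_lit 5) (nat_lit 122) (nat_lit 5) (nat_lit 123) (nat_lit 5) (nat_lit 309) (nat_lit 287) (nat_lit 184)))) (XT.nd (nat_lit 156) (nat_lit 760) (nat_lit 0) (XT.nd (nat_lit 78) (nat_lit 76) (nat_lit 0) (XT.lf (nat_lit 0) (nat_lit 2367603235) (nat_lit 380) (nat_lit 25841329735) (nat_lit 456) (nat_lit 647212452) (nat_lit 112) (nat_lit 5) (nat_lit 117) (nat_lit 5) (nat_lit 118) (nat_lit 5) (nat_lit 310) (nat_lit 287) (nat_lit 183)) (XT.lf (nat_lit 0) (nat_lit 5816359301) (nat_lit 456) (nat_lit 3512898783) (nat_lit 76) (nat_lit 20421069321) (nat_lit 111) (nat_lit 5) (nat_lit 117) (nat_lit 5) (nat_lit 112) (nat_lit 5) (nat_lit 311) (nat_lit 287) (nat_lit 182))) (XT.nd (nat_lit 78) (nat_lit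 380) (nat_lit 0) (XT.lf (nat_lit 0) (nat_lit 12859967966) (nat_lit 456) (nat_lit 9760827524) (nat_lit 76) (nat_lit 8060134730) (nat_lit 106) (nat_lit 5) (nat_lit 112) (nat_lit 5) (nat_lit 107) (nat_lit 5) (nat_lit 312) (nat_lit 287) (nat_lit 181)) (XT.lf (nat_lit 0) (nat_lit 15179642925) (nat_lit 380) (nat_lit 5342296578) (nat_lit 456) (nat_lit 11128148949) (nat_lit 101) (nat_lit 5) (nat_lit 106) (nat_lit 5) (nat_lit 107) (nat_lit 5) (nat_lit 313) (nat_lit 287) (nat_lit 180))))))))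
noncomputable def xc94 : XT := (XT.nd (nat_lit 2028) (nat_lit 1216) (nat_lit 0) (XT.nd (nat_lit 1014) (nat_lit 1976) (nat_lit 0) (XT.nd (nat_lit 468) (nat_lit 1368) (nat_lit 0) (XT.nd (nat_lit 234) (nat_lit 988) (nat_lit 0) (XT.nd (nat_lit 78) (nat_lit 456) (nat_lit 0) (XT.lf (nat_lit 0) (nat_lit 8943770384) (nat_lit 304) (nat_lit 19923658034) (nat_lit 380) (nat_lit 3791273849) (nat_lit 97) (nat_lit 5) (nat_lit 101) (nat_lit 5) (nat_lit 102) (nat_lit 5) (nat_lit 314) (nat_lit 287) (nat_lit 179)) (XT.nd (nat_lit 78) (nat_lit 0) (nat_lit 0) (XT.lf (nat_lit 0) (nat_lit 2196916908) (nat_lit 380) (nat_lit 1875629184) (nat_lit 456) (nat_lit 29636988473) (nat_lit 91) (nat_lit 5) (nat_lit 96) (nat_lit 5) (nat_lit 97) (nat_lit 5) (nat_lit 315) (nat_lit 287) (nat_lit 178)) (XT.lf (nat_lit 0) (nat_lit 12653048286) (nat_lit 456) (nat_lit 5123327504) (nat_lit 76) (nat_lit 17023358562) (nat_lit 91) (nat_lit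 5) (nat_lit 97) (nat_lit 5) (nat_lit 92) (nat_lit 5) (nat_lit 316) (nat_lit 287) (nat_lit 177)))) (XT.nd (nat_lit 78) (nat_lit 684) (nat_lit 0) (XT.lf (nat_lit 0) (nat_lit 21904242006) (nat_lit 380) (nat_lit 12945062806) (nat_lit 76) (nat_lit 1087897910) (nat_lit 87) (nat_lit 5) (nat_lit 92) (nat_lit 5) (nat_lit 88) (nat_lit 5) (nat_lit 317) (nat_lit 287) (nat_lit 176)) (XT.nd (nat_lit 78) (nat_lit 380) (nat_lit 0) (XT.lf (nat_lit 0) (nat_lit 15602872572) (nat_lit 304) (nat_lit 16389026518) (nat_lit 380) (nat_lit 5128436484) (nat_lit 83) (nat_lit 5) (nat_lit 87) (nat_lit 5) (nat_lit 88) (nat_lit 5) (nat_lit 318) (nat_lit 287) (nat_lit 175)) (XT.lf (nat_lit 0) (nat_lit 4369076879) (nat_lit 380) (nat_lit 30802426950) (nat_lit 76) (nat_lit 3183007387) (nat_lit 78) (nat_lit 5) (nat_lit 83) (nat_lit 5) (nat_lit 79) (nat_lit 5) (nat_lit 319) (nat_lit 287) (nat_lit 174))))) (XT.nd (nat_lit 234)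 (nat_lit 836) (nat_lit 0) (XT.nd (nat_lit 78) (nat_lit 532) (nat_lit 0) (XT.lf (nat_lit 0) (nat_lit 14617214324) (nat_lit 380) (nat_lit 1350206709) (nat_lit 76) (nat_lit 23670004139) (nat_lit 78) (nat_lit 5) (nat_lit 83) (nat_lit 5) (nat_lit 79) (nat_lit 5) (nat_lit 320) (nat_lit 287) (nat_lit 173)) (XT.nd (nat_lit 78) (nat_lit 228) (nat_lit 0) (XT.lf (nat_lit 0) (nat_lit 25702881605) (nat_lit 380) (nat_lit 10867499028) (nat_lit 76) (nat_lit 4404357361) (nat_lit 74) (nat_lit 5) (nat_lit 79) (nat_lit 5) (nat_lit 75) (nat_lit 5) (nat_lit 321) (nat_lit 287) (nat_lit 172)) (XT.lf (nat_lit 0) (nat_lit 21025088697) (nat_lit 228) (nat_lit 16687394235) (nat_lit 304) (nat_lit 4655350535) (nat_lit 71) (nat_lit 5) (nat_lit 74) (nat_lit 5) (nat_lit 75) (nat_lit 5) (nat_lit 322) (nat_lit 287) (nat_lit 171)))) (XT.nd (nat_lit 156) (nat_lit 456) (nat_lit 0) (XT.nd (nat_lit 78) (nat_lit 0) (nat_lit 0) (XT.lf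 (nat_lit 0) (nat_lit 6620084154) (nat_lit 380) (nat_lit 32812032105) (nat_lit 76) (nat_lit 4388957783) (nat_lit 66) (nat_lit 5) (nat_lit 71) (nat_lit 5) (nat_lit 67) (nat_lit 5) (nat_lit 323) (nat_lit 287) (nat_lit 170)) (XT.lf (nat_lit 0) (nat_lit 18746961596) (nat_lit 380) (nat_lit 144427301) (nat_lit 76) (nat_lit 26442692198) (nat_lit 66) (nat_lit 5) (nat_lit 71) (nat_lit 5) (nat_lit 67) (nat_lit 5) (nat_lit 324) (nat_lit 287) (nat_lit 169))) (XT.nd (nat_lit 78) (nat_lit 228) (nat_lit 0) (XT.lf (nat_lit 0) (nat_lit 31837049354) (nat_lit 304) (nat_lit 12116132480) (nat_lit 76) (nat_lit 2958856150) (nat_lit 63) (nat_lit 5) (nat_lit 67) (nat_lit 5) (nat_lit 64) (nat_lit 5) (nat_lit 325) (nat_lit 287) (nat_lit 168)) (XT.lf (nat_lit 0) (nat_lit 23168611473) (nat_lit 228) (nat_lit 22821208922) (nat_lit 304) (nat_lit 2566832173) (nat_lit 60) (nat_lit 5) (nat_lit 63) (nat_lit 5) (nat_lit 64) (nat_lit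 5) (nat_lit 326) (nat_lit 287) (nat_lit 167)))))) (XT.nd (nat_lit 468) (nat_lit 988) (nat_lit 0) (XT.nd (nat_lit 234) (nat_lit 456) (nat_lit 0) (XT.nd (nat_lit 78) (nat_lit 228) (nat_lit 0) (XT.lf (nat_lit 0) (nat_lit 10278725629) (nat_lit 228) (nat_lit 300022763) (nat_lit 304) (nat_lit 39695160755) (nat_lit 56) (nat_lit 5) (nat_lit 59) (nat_lit 5) (nat_lit 60) (nat_lit 5) (nat_lit 327) (nat_lit 287) (nat_lit 166)) (XT.nd (nat_lit 78) (nat_lit 228) (nat_lit 0) (XT.lf (nat_lit 0) (nat_lit 24811009376) (nat_lit 304) (nat_lit 4072686606) (nat_lit 76) (nat_lit 23178100120) (nat_lit 56) (nat_lit 5) (nat_lit 60) (nat_lit 5) (nat_lit 57) (nat_lit 5) (nat_lit 328) (nat_lit 287) (nat_lit 165)) (XT.lf (nat_lit 0) (nat_lit 34302810226) (nat_lit 228) (nat_lit 5778775332) (nat_lit 304) (nat_lit 13847695157) (nat_lit 53) (nat_lit 5) (nat_lit 56) (nat_lit 5) (nat_lit 57) (nat_lit 5) (nat_lit 329) (nat_lit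 287) (nat_lit 164)))) (XT.nd (nat_lit 78) (nat_lit 228) (nat_lit 0) (XT.lf (nat_lit 0) (nat_lit 621579141) (nat_lit 228) (nat_lit 36908155737) (nat_lit 76) (nat_lit 18348330796) (nat_lit 50) (nat_lit 5) (nat_lit 53) (nat_lit 5) (nat_lit 51) (nat_lit 5) (nat_lit 330) (nat_lit 287) (nat_lit 163)) (XT.nd (nat_lit 78) (nat_lit 0) (nat_lit 0) (XT.lf (nat_lit 0) (nat_lit 1814125661) (nat_lit 228) (nat_lit 13990500762) (nat_lit 304) (nat_lit 42107253111) (nat_lit 47) (nat_lit 5) (nat_lit 50) (nat_lit 5) (nat_lit 51) (nat_lit 5) (nat_lit 331) (nat_lit 287) (nat_lit 162)) (XT.lf (nat_lit 0) (nat_lit 32228018983) (nat_lit 304) (nat_lit 16908127223) (nat_lit 76) (nat_lit 10896805761) (nat_lit 47) (nat_lit 5) (nat_lit 51) (nat_lit 5) (nat_lit 48) (nat_lit 5) (nat_lit 332) (nat_lit 287) (nat_lit 161))))) (XT.nd (nat_lit 234) (nat_lit 532) (nat_lit 0) (XT.nd (nat_lit 78) (nat_lit 304) (nat_lit 0) (XT.lf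 (nat_lit 0) (nat_lit 24570593372) (nat_lit 152) (nat_lit 25274044241) (nat_lit 228) (nat_lit 12404282210) (nat_lit 45) (nat_lit 5) (nat_lit 47) (nat_lit 5) (nat_lit 48) (nat_lit 5) (nat_lit 333) (nat_lit 287) (nat_lit 160)) (XT.nd (nat_lit 78) (nat_lit 0) (nat_lit 0) (XT.lf (nat_lit 0) (nat_lit 3901639688) (nat_lit 304) (nat_lit 60632185031) (nat_lit 76) (nat_lit 34516397) (nat_lit 41) (nat_lit 5) (nat_lit 45) (nat_lit 5) (nat_lit 42) (nat_lit 5) (nat_lit 334) (nat_lit 287) (nat_lit 159)) (XT.lf (nat_lit 0) (nat_lit 21410422371) (nat_lit 304) (nat_lit 18965883723) (nat_lit 76) (nat_lit 26604422888) (nat_lit 41) (nat_lit 5) (nat_lit 45) (nat_lit 5) (nat_lit 42) (nat_lit 5) (nat_lit 335) (nat_lit 287) (nat_lit 158)))) (XT.nd (nat_lit 156) (nat_lit 380) (nat_lit 0) (XT.nd (nat_lit 78) (nat_lit 0) (nat_lit 0) (XT.lf (nat_lit 0) (nat_lit 25268839262) (nat_lit 152) (nat_lit 14763863605) (nat_lit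 228) (nat_lit 29473894543) (nat_lit 39) (nat_lit 5) (nat_lit 41) (nat_lit 5) (nat_lit 42) (nat_lit 5) (nat_lit 336) (nat_lit 287) (nat_lit 157)) (XT.lf (nat_lit 0) (nat_lit 59895146450) (nat_lit 228) (nat_lit 167663497) (nat_lit 76) (nat_lit 12086680633) (nat_lit 39) (nat_lit 5) (nat_lit 42) (nat_lit 5) (nat_lit 40) (nat_lit 5) (nat_lit 337) (nat_lit 287) (nat_lit 156))) (XT.nd (nat_lit 78) (nat_lit 152) (nat_lit 0) (XT.lf (nat_lit 0) (nat_lit 6313392591) (nat_lit 228) (nat_lit 28104662463) (nat_lit 76) (nat_lit 40486768832) (nat_lit 36) (nat_lit 5) (nat_lit 39) (nat_lit 5) (nat_lit 37) (nat_lit 5) (nat_lit 338) (nat_lit 287) (nat_lit 155)) (XT.lf (nat_lit 0) (nat_lit 18552976180) (nat_lit 152) (nat_lit 7181151377) (nat_lit 228) (nat_lit 52054817352) (nat_lit 34) (nat_lit 5) (nat_lit 36) (nat_lit 5) (nat_lit 37) (nat_lit 5) (nat_lit 339) (nat_lit 287) (nat_lit 154))))))) (XT.nd (nat_lit 1014)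 (nat_lit 76) (nat_lit 0) (XT.nd (nat_lit 468) (nat_lit 608) (nat_lit 0) (XT.nd (nat_lit 234) (nat_lit 152) (nat_lit 0) (XT.nd (nat_lit 78) (nat_lit 380) (nat_lit 0) (XT.lf (nat_lit 0) (nat_lit 46619676475) (nat_lit 228) (nat_lit 12893790682) (nat_lit 76) (nat_lit 21288993850) (nat_lit 34) (nat_lit 5) (nat_lit 37) (nat_lit 5) (nat_lit 35) (nat_lit 5) (nat_lit 340) (nat_lit 287) (nat_lit 153)) (XT.nd (nat_lit 78) (nat_lit 228) (nat_lit 0) (XT.lf (nat_lit 0) (nat_lit 36396328060) (nat_lit 152) (nat_lit 32571444382) (nat_lit 228) (nat_lit 14986334609) (nat_lit 32) (nat_lit 5) (nat_lit 34) (nat_lit 5) (nat_lit 35) (nat_lit 5) (nat_lit 341) (nat_lit 287) (nat_lit 152)) (XT.lf (nat_lit 0) (nat_lit 1125193481) (nat_lit 152) (nat_lit 4084733746) (nat_lit 228) (nat_lit 82047693128) (nat_lit 29) (nat_lit 5) (nat_lit 31) (nat_lit 5) (nat_lit 32) (nat_lit 5) (nat_lit 342) (nat_lit 287) (nat_lit 151))))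 (XT.nd (nat_lit 78) (nat_lit 152) (nat_lit 0) (XT.lf (nat_lit 0) (nat_lit 26847727002) (nat_lit 228) (nat_lit 37886546869) (nat_lit 76) (nat_lit 25965336074) (nat_lit 29) (nat_lit 5) (nat_lit 32) (nat_lit 5) (nat_lit 30) (nat_lit 5) (nat_lit 343) (nat_lit 287) (nat_lit 150)) (XT.nd (nat_lit 78) (nat_lit 0) (nat_lit 0) (XT.lf (nat_lit 0) (nat_lit 12977260029) (nat_lit 152) (nat_lit 36752428602) (nat_lit 228) (nat_lit 44579144096) (nat_lit 27) (nat_lit 5) (nat_lit 29) (nat_lit 5) (nat_lit 30) (nat_lit 5) (nat_lit 344) (nat_lit 287) (nat_lit 149)) (XT.lf (nat_lit 0) (nat_lit 67169785338) (nat_lit 152) (nat_lit 6972386647) (nat_lit 228) (nat_lit 23944753736) (nat_lit 27) (nat_lit 5) (nat_lit 29) (nat_lit 5) (nat_lit 30) (nat_lit 5) (nat_lit 345) (nat_lit 287) (nat_lit 148))))) (XT.nd (nat_lit 234) (nat_lit 304) (nat_lit 0) (XT.nd (nat_lit 78) (nat_lit 228) (nat_lit 0) (XT.lf (nat_lit 0) (nat_lit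 22211918870) (nat_lit 76) (nat_lit 78006991462) (nat_lit 152) (nat_lit 1821705802) (nat_lit 26) (nat_lit 5) (nat_lit 27) (nat_lit 5) (nat_lit 28) (nat_lit 4) (nat_lit 346) (nat_lit 287) (nat_lit 147)) (XT.nd (nat_lit 78) (nat_lit 152) (nat_lit 0) (XT.lf (nat_lit 0) (nat_lit 21378182322) (nat_lit 152) (nat_lit 27824113942) (nat_lit 76) (nat_lit 56971870161) (nat_lit 25) (nat_lit 5) (nat_lit 27) (nat_lit 5) (nat_lit 26) (nat_lit 5) (nat_lit 347) (nat_lit 287) (nat_lit 146)) (XT.lf (nat_lit 0) (nat_lit 27289230280) (nat_lit 152) (nat_lit 18670625440) (nat_lit 228) (nat_lit 64546214906) (nat_lit 23) (nat_lit 5) (nat_lit 25) (nat_lit 5) (nat_lit 26) (nat_lit 5) (nat_lit 348) (nat_lit 287) (nat_lit 145)))) (XT.nd (nat_lit 156) (nat_lit 228) (nat_lit 0) (XT.nd (nat_lit 78) (nat_lit 76) (nat_lit 0) (XT.lf (nat_lit 0) (nat_lit 72185436993) (nat_lit 228) (nat_lit 29443323781) (nat_lit 76) (nat_lit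 13413365959) (nat_lit 23) (nat_lit 5) (nat_lit 26) (nat_lit 5) (nat_lit 24) (nat_lit 4) (nat_lit 349) (nat_lit 287) (nat_lit 144)) (XT.lf (nat_lit 0) (nat_lit 27359052864) (nat_lit 76) (nat_lit 72811705978) (nat_lit 152) (nat_lit 19620774314) (nat_lit 22) (nat_lit 5) (nat_lit 23) (nat_lit 5) (nat_lit 24) (nat_lit 4) (nat_lit 350) (nat_lit 287) (nat_lit 143))) (XT.nd (nat_lit 78) (nat_lit 152) (nat_lit 0) (XT.lf (nat_lit 0) (nat_lit 4986901027) (nat_lit 152) (nat_lit 37206560913) (nat_lit 76) (nat_lit 82574476267) (nat_lit 21) (nat_lit 5) (nat_lit 23) (nat_lit 5) (nat_lit 22) (nat_lit 5) (nat_lit 351) (nat_lit 287) (nat_lit 142)) (XT.lf (nat_lit 0) (nat_lit 20987248052) (nat_lit 152) (nat_lit 9634662992) (nat_lit 228) (nat_lit 99359343545) (nat_lit 19) (nat_lit 5) (nat_lit 21) (nat_lit 5) (nat_lit 22) (nat_lit 5) (nat_lit 352) (nat_lit 287) (nat_lit 141)))))) (XT.nd (nat_lit 35880) (nat_lit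 0) (nat_lit 12996) (XT.nd (nat_lit 35568) (nat_lit 0) (nat_lit 12844) (XT.nd (nat_lit 78) (nat_lit 76) (nat_lit 0) (XT.lf (nat_lit 0) (nat_lit 58158772653) (nat_lit 228) (nat_lit 52820120302) (nat_lit 76) (nat_lit 24457741940) (nat_lit 19) (nat_lit 5) (nat_lit 22) (nat_lit 5) (nat_lit 20) (nat_lit 4) (nat_lit 353) (nat_lit 287) (nat_lit 140)) (XT.nd (nat_lit 78) (nat_lit 0) (nat_lit 0) (XT.lf (nat_lit 0) (nat_lit 6181236111) (nat_lit 76) (nat_lit 81045323694) (nat_lit 152) (nat_lit 53933603019) (nat_lit 18) (nat_lit 5) (nat_lit 19) (nat_lit 5) (nat_lit 20) (nat_lit 4) (nat_lit 354) (nat_lit 287) (nat_lit 139)) (XT.lf (nat_lit 0) (nat_lit 69231979963) (nat_lit 76) (nat_lit 49056992486) (nat_lit 152) (nat_lit 28864658646) (nat_lit 18) (nat_lit 5) (nat_lit 19) (nat_lit 5) (nat_lit 20) (nat_lit 4) (nat_lit 355) (nat_lit 287) (nat_lit 138)))) (XT.nd (nat_lit 156) (nat_lit 0) (nat_lit 76) (XT.nd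 (nat_lit 78) (nat_lit 0) (nat_lit 0) (XT.lf (nat_lit 0) (nat_lit 355603817) (nat_lit 0) (nat_lit 355603817) (nat_lit 1140) (nat_lit 7396873394) (nat_lit 187) (nat_lit 5) (nat_lit 187) (nat_lit 3) (nat_lit 202) (nat_lit 3) (nat_lit 288) (nat_lit 288) (nat_lit 204)) (XT.lf (nat_lit 0) (nat_lit 1963804558) (nat_lit 1140) (nat_lit 3526857031) (nat_lit 1216) (nat_lit 11115192930) (nat_lit 187) (nat_lit 5) (nat_lit 202) (nat_lit 3) (nat_lit 203) (nat_lit 5) (nat_lit 289) (nat_lit 288) (nat_lit 203))) (XT.nd (nat_lit 78) (nat_lit 0) (nat_lit 76) (XT.lf (nat_lit 0) (nat_lit 2666187461) (nat_lit 1140) (nat_lit 7867409709) (nat_lit 1216) (nat_lit 6477451068) (nat_lit 188) (nat_lit 5) (nat_lit 203) (nat_lit 5) (nat_lit 204) (nat_lit 5) (nat_lit 290) (nat_lit 288) (nat_lit 202)) (XT.lf (nat_lit 0) (nat_lit 3536183808) (nat_lit 1140) (nat_lit 12332447512) (nat_lit 1216) (nat_lit 1563928214) (nat_lit 189)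 (nat_lit 5) (nat_lit 204) (nat_lit 5) (nat_lit 205) (nat_lit 5) (nat_lit 291) (nat_lit 288) (nat_lit 201))))) (XT.nd (nat_lit 234) (nat_lit 0) (nat_lit 152) (XT.nd (nat_lit 78) (nat_lit 0) (nat_lit 76) (XT.lf (nat_lit 76) (nat_lit 903709081) (nat_lit 0) (nat_lit 3719772774) (nat_lit 1216) (nat_lit 13246481647) (nat_lit 190) (nat_lit 5) (nat_lit 189) (nat_lit 5) (nat_lit 205) (nat_lit 5) (nat_lit 292) (nat_lit 288) (nat_lit 200)) (XT.nd (nat_lit 78) (nat_lit 0) (nat_lit 76) (XT.lf (nat_lit 0) (nat_lit 5958260745) (nat_lit 1140) (nat_lit 3369020959) (nat_lit 1216) (nat_lit 8996192164) (nat_lit 190) (nat_lit 5) (nat_lit 205) (nat_lit 5) (nat_lit 206) (nat_lit 5) (nat_lit 293) (nat_lit 288) (nat_lit 199)) (XT.lf (nat_lit 0) (nat_lit 7517351944) (nat_lit 1140) (nat_lit 7758056735) (nat_lit 1216) (nat_lit 3519552139) (nat_lit 191) (nat_lit 5) (nat_lit 206) (nat_lit 5) (nat_lit 207) (nat_lit 5)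 (nat_lit 294) (nat_lit 288) (nat_lit 198)))) (XT.nd (nat_lit 156) (nat_lit 0) (nat_lit 152) (XT.nd (nat_lit 78) (nat_lit 0) (nat_lit 76) (XT.lf (nat_lit 76) (nat_lit 6971671208) (nat_lit 0) (nat_lit 2358922028) (nat_lit 1216) (nat_lit 9954169932) (nat_lit 192) (nat_lit 5) (nat_lit 191) (nat_lit 5) (nat_lit 207) (nat_lit 5) (nat_lit 295) (nat_lit 288) (nat_lit 197)) (XT.lf (nat_lit 76) (nat_lit 2733534675) (nat_lit 0) (nat_lit 8696464357) (nat_lit 1216) (nat_lit 8363217169) (nat_lit 193) (nat_lit 5) (nat_lit 192) (nat_lit 5) (nat_lit 208) (nat_lit 5) (nat_lit 296) (nat_lit 288) (nat_lit 196))) (XT.nd (nat_lit 78) (nat_lit 0) (nat_lit 0) (XT.lf (nat_lit 0) (nat_lit 13814274016) (nat_lit 1140) (nat_lit 1619805658) (nat_lit 1216) (nat_lit 4887639660) (nat_lit 193) (nat_lit 5) (nat_lit 208) (nat_lit 5) (nat_lit 209) (nat_lit 5) (nat_lit 297) (nat_lit 288) (nat_lit 195)) (XT.lf (nat_lit 76) (nat_lit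 14778516258) (nat_lit 0) (nat_lit 1751646060) (nat_lit 1216) (nat_lit 4340136575) (nat_lit 194) (nat_lit 5) (nat_lit 193) (nat_lit 5) (nat_lit 209) (nat_lit 5) (nat_lit 298) (nat_lit 288) (nat_lit 194))))))))
noncomputable def xc95 : XT := (XT.nd (nat_lit 2028) (nat_lit 3344) (nat_lit 0) (XT.nd (nat_lit 1014) (nat_lit 3496) (nat_lit 0) (XT.nd (nat_lit 468) (nat_lit 2736) (nat_lit 0) (XT.nd (nat_lit 234) (nat_lit 1064) (nat_lit 0) (XT.nd (nat_lit 78) (nat_lit 1292) (nat_lit 0) (XT.lf (nat_lit 0) (nat_lit 10657024264) (nat_lit 1140) (nat_lit 8948655169) (nat_lit 1216) (nat_lit 1833935109) (nat_lit 179) (nat_lit 5) (nat_lit 194) (nat_lit 5) (nat_lit 195) (nat_lit 5) (nat_lit 299) (nat_lit 288) (nat_lit 193)) (XT.nd (nat_lit 78) (nat_lit 608) (nat_lit 0) (XT.lf (nat_lit 0) (nat_lit 961491759) (nat_lit 684) (nat_lit 15666238035) (nat_lit 76) (nat_lit 5404072287) (nat_lit 170) (nat_lit 5) (nat_lit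 179) (nat_lit 5) (nat_lit 171) (nat_lit 5) (nat_lit 300) (nat_lit 288) (nat_lit 192)) (XT.lf (nat_lit 0) (nat_lit 1858179890) (nat_lit 608) (nat_lit 2205643264) (nat_lit 684) (nat_lit 18583098759) (nat_lit 162) (nat_lit 5) (nat_lit 170) (nat_lit 5) (nat_lit 171) (nat_lit 5) (nat_lit 301) (nat_lit 288) (nat_lit 191)))) (XT.nd (nat_lit 78) (nat_lit 1064) (nat_lit 0) (XT.lf (nat_lit 0) (nat_lit 7593549260) (nat_lit 684) (nat_lit 2842120686) (nat_lit 76) (nat_lit 12848978020) (nat_lit 162) (nat_lit 5) (nat_lit 171) (nat_lit 5) (nat_lit 163) (nat_lit 5) (nat_lit 302) (nat_lit 288) (nat_lit 190)) (XT.nd (nat_lit 78) (nat_lit 532) (nat_lit 0) (XT.lf (nat_lit 0) (nat_lit 11510637521) (nat_lit 608) (nat_lit 7712058165) (nat_lit 76) (nat_lit 4725256051) (nat_lit 155) (nat_lit 5) (nat_lit 163) (nat_lit 5) (nat_lit 156) (nat_lit 5) (nat_lit 303) (nat_lit 288) (nat_lit 189)) (XT.lf (nat_lit 0) (nat_lit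 11794439940) (nat_lit 532) (nat_lit 4063705520) (nat_lit 608) (nat_lit 8779255125) (nat_lit 148) (nat_lit 5) (nat_lit 155) (nat_lit 5) (nat_lit 156) (nat_lit 5) (nat_lit 304) (nat_lit 288) (nat_lit 188))))) (XT.nd (nat_lit 234) (nat_lit 1672) (nat_lit 0) (XT.nd (nat_lit 78) (nat_lit 608) (nat_lit 0) (XT.lf (nat_lit 0) (nat_lit 7088308829) (nat_lit 456) (nat_lit 13583807383) (nat_lit 532) (nat_lit 4681749085) (nat_lit 142) (nat_lit 5) (nat_lit 148) (nat_lit 5) (nat_lit 149) (nat_lit 5) (nat_lit 305) (nat_lit 288) (nat_lit 187)) (XT.nd (nat_lit 78) (nat_lit 76) (nat_lit 0) (XT.lf (nat_lit 0) (nat_lit 2147341148) (nat_lit 532) (nat_lit 23782756332) (nat_lit 608) (nat_lit 169971687) (nat_lit 135) (nat_lit 5) (nat_lit 142) (nat_lit 5) (nat_lit 143) (nat_lit 5) (nat_lit 306) (nat_lit 288) (nat_lit 186)) (XT.lf (nat_lit 0) (nat_lit 4792928831) (nat_lit 608) (nat_lit 3111857503) (nat_lit 76) (nat_lit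 18968054070) (nat_lit 134) (nat_lit 5) (nat_lit 142) (nat_lit 5) (nat_lit 135) (nat_lit 5) (nat_lit 307) (nat_lit 288) (nat_lit 185)))) (XT.nd (nat_lit 156) (nat_lit 760) (nat_lit 0) (XT.nd (nat_lit 78) (nat_lit 456) (nat_lit 0) (XT.lf (nat_lit 0) (nat_lit 10258731867) (nat_lit 532) (nat_lit 8635494434) (nat_lit 76) (nat_lit 8782238690) (nat_lit 128) (nat_lit 5) (nat_lit 135) (nat_lit 5) (nat_lit 129) (nat_lit 5) (nat_lit 308) (nat_lit 288) (nat_lit 184)) (XT.lf (nat_lit 0) (nat_lit 14027847499) (nat_lit 456) (nat_lit 2205637235) (nat_lit 532) (nat_lit 12279729097) (nat_lit 122) (nat_lit 5) (nat_lit 128) (nat_lit 5) (nat_lit 129) (nat_lit 5) (nat_lit 309) (nat_lit 288) (nat_lit 183))) (XT.nd (nat_lit 78) (nat_lit 380) (nat_lit 0) (XT.lf (nat_lit 0) (nat_lit 8622928553) (nat_lit 380) (nat_lit 14193032218) (nat_lit 456) (nat_lit 6566581984) (nat_lit 117) (nat_lit 5) (nat_lit 122) (nat_lit 5)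 (nat_lit 123) (nat_lit 5) (nat_lit 310) (nat_lit 288) (nat_lit 182)) (XT.lf (nat_lit 0) (nat_lit 2888550469) (nat_lit 380) (nat_lit 27058809609) (nat_lit 456) (nat_lit 341395686) (nat_lit 112) (nat_lit 5) (nat_lit 117) (nat_lit 5) (nat_lit 118) (nat_lit 5) (nat_lit 311) (nat_lit 288) (nat_lit 181)))))) (XT.nd (nat_lit 468) (nat_lit 1900) (nat_lit 0) (XT.nd (nat_lit 234) (nat_lit 760) (nat_lit 0) (XT.nd (nat_lit 78) (nat_lit 760) (nat_lit 0) (XT.lf (nat_lit 0) (nat_lit 6422966151) (nat_lit 456) (nat_lit 3298531119) (nat_lit 76) (nat_lit 21506542265) (nat_lit 111) (nat_lit 5) (nat_lit 117) (nat_lit 5) (nat_lit 112) (nat_lit 5) (nat_lit 312) (nat_lit 288) (nat_lit 180)) (XT.nd (nat_lit 78) (nat_lit 380) (nat_lit 0) (XT.lf (nat_lit 0) (nat_lit 13808074821) (nat_lit 456) (nat_lit 9861304875) (nat_lit 76) (nat_lit 8536128950) (nat_lit 106) (nat_lit 5) (nat_lit 112) (nat_lit 5) (nat_lit 107) (nat_lit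 5) (nat_lit 313) (nat_lit 288) (nat_lit 179)) (XT.lf (nat_lit 0) (nat_lit 16315079651) (nat_lit 380) (nat_lit 5527155021) (nat_lit 456) (nat_lit 11381232416) (nat_lit 101) (nat_lit 5) (nat_lit 106) (nat_lit 5) (nat_lit 107) (nat_lit 5) (nat_lit 314) (nat_lit 288) (nat_lit 178)))) (XT.nd (nat_lit 78) (nat_lit 456) (nat_lit 0) (XT.lf (nat_lit 0) (nat_lit 9764718652) (nat_lit 304) (nat_lit 20830615797) (nat_lit 380) (nat_lit 3687481331) (nat_lit 97) (nat_lit 5) (nat_lit 101) (nat_lit 5) (nat_lit 102) (nat_lit 5) (nat_lit 315) (nat_lit 288) (nat_lit 177)) (XT.nd (nat_lit 78) (nat_lit 0) (nat_lit 0) (XT.lf (nat_lit 0) (nat_lit 2675638398) (nat_lit 380) (nat_lit 1878015880) (nat_lit 456) (nat_lit 30832768547) (nat_lit 91) (nat_lit 5) (nat_lit 96) (nat_lit 5) (nat_lit 97) (nat_lit 5) (nat_lit 316) (nat_lit 288) (nat_lit 176)) (XT.lf (nat_lit 0) (nat_lit 13550804914) (nat_lit 456) (nat_lit 5020840954)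 (nat_lit 76) (nat_lit 17959870607) (nat_lit 91) (nat_lit 5) (nat_lit 97) (nat_lit 5) (nat_lit 92) (nat_lit 5) (nat_lit 317) (nat_lit 288) (nat_lit 175))))) (XT.nd (nat_lit 234) (nat_lit 912) (nat_lit 0) (XT.nd (nat_lit 78) (nat_lit 684) (nat_lit 0) (XT.lf (nat_lit 0) (nat_lit 23256172658) (nat_lit 380) (nat_lit 13236918954) (nat_lit 76) (nat_lit 1233030195) (nat_lit 87) (nat_lit 5) (nat_lit 92) (nat_lit 5) (nat_lit 88) (nat_lit 5) (nat_lit 318) (nat_lit 288) (nat_lit 174)) (XT.nd (nat_lit 78) (nat_lit 380) (nat_lit 0) (XT.lf (nat_lit 0) (nat_lit 16728225810) (nat_lit 304) (nat_lit 17111080461) (nat_lit 380) (nat_lit 5129383627) (nat_lit 83) (nat_lit 5) (nat_lit 87) (nat_lit 5) (nat_lit 88) (nat_lit 5) (nat_lit 319) (nat_lit 288) (nat_lit 173)) (XT.lf (nat_lit 0) (nat_lit 4830311177) (nat_lit 380) (nat_lit 31995657937) (nat_lit 76) (nat_lit 3438773349) (nat_lit 78) (nat_lit 5) (nat_lit 83)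 (nat_lit 5) (nat_lit 79) (nat_lit 5) (nat_lit 320) (nat_lit 288) (nat_lit 172)))) (XT.nd (nat_lit 156) (nat_lit 608) (nat_lit 0) (XT.nd (nat_lit 78) (nat_lit 304) (nat_lit 0) (XT.lf (nat_lit 0) (nat_lit 15579294520) (nat_lit 380) (nat_lit 1087345273) (nat_lit 76) (nat_lit 24945519195) (nat_lit 78) (nat_lit 5) (nat_lit 83) (nat_lit 5) (nat_lit 79) (nat_lit 5) (nat_lit 321) (nat_lit 288) (nat_lit 171)) (XT.lf (nat_lit 0) (nat_lit 27212257686) (nat_lit 380) (nat_lit 11084020410) (nat_lit 76) (nat_lit 4720278545) (nat_lit 74) (nat_lit 5) (nat_lit 79) (nat_lit 5) (nat_lit 75) (nat_lit 5) (nat_lit 322) (nat_lit 288) (nat_lit 170))) (XT.nd (nat_lit 78) (nat_lit 380) (nat_lit 0) (XT.lf (nat_lit 0) (nat_lit 22393827509) (nat_lit 228) (nat_lit 17420885709) (nat_lit 304) (nat_lit 4664831554) (nat_lit 71) (nat_lit 5) (nat_lit 74) (nat_lit 5) (nat_lit 75) (nat_lit 5) (nat_lit 323) (nat_lit 288) (nat_lit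 169)) (XT.lf (nat_lit 0) (nat_lit 7163572781) (nat_lit 380) (nat_lit 34134305677) (nat_lit 76) (nat_lit 4707706299) (nat_lit 66) (nat_lit 5) (nat_lit 71) (nat_lit 5) (nat_lit 67) (nat_lit 5) (nat_lit 324) (nat_lit 288) (nat_lit 168))))))) (XT.nd (nat_lit 1014) (nat_lit 1292) (nat_lit 0) (XT.nd (nat_lit 468) (nat_lit 1064) (nat_lit 0) (XT.nd (nat_lit 234) (nat_lit 532) (nat_lit 0) (XT.nd (nat_lit 78) (nat_lit 228) (nat_lit 0) (XT.lf (nat_lit 0) (nat_lit 154536452) (nat_lit 228) (nat_lit 19733624836) (nat_lit 304) (nat_lit 27706347880) (nat_lit 63) (nat_lit 5) (nat_lit 66) (nat_lit 5) (nat_lit 67) (nat_lit 5) (nat_lit 325) (nat_lit 288) (nat_lit 167)) (XT.nd (nat_lit 78) (nat_lit 228) (nat_lit 0) (XT.lf (nat_lit 0) (nat_lit 33625413037) (nat_lit 304) (nat_lit 12422391108) (nat_lit 76) (nat_lit 3203787608) (nat_lit 63) (nat_lit 5) (nat_lit 67) (nat_lit 5) (nat_lit 64) (nat_lit 5) (nat_lit 326)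 (nat_lit 288) (nat_lit 166)) (XT.lf (nat_lit 0) (nat_lit 24618003560) (nat_lit 228) (nat_lit 23861258293) (nat_lit 304) (nat_lit 2499379311) (nat_lit 60) (nat_lit 5) (nat_lit 63) (nat_lit 5) (nat_lit 64) (nat_lit 5) (nat_lit 327) (nat_lit 288) (nat_lit 165)))) (XT.nd (nat_lit 78) (nat_lit 228) (nat_lit 0) (XT.lf (nat_lit 0) (nat_lit 11079131438) (nat_lit 228) (nat_lit 214140298) (nat_lit 304) (nat_lit 41488630739) (nat_lit 56) (nat_lit 5) (nat_lit 59) (nat_lit 5) (nat_lit 60) (nat_lit 5) (nat_lit 328) (nat_lit 288) (nat_lit 164)) (XT.nd (nat_lit 78) (nat_lit 228) (nat_lit 0) (XT.lf (nat_lit 0) (nat_lit 26229231920) (nat_lit 304) (nat_lit 3998985792) (nat_lit 76) (nat_lit 24431209888) (nat_lit 56) (nat_lit 5) (nat_lit 60) (nat_lit 5) (nat_lit 57) (nat_lit 5) (nat_lit 329) (nat_lit 288) (nat_lit 163)) (XT.lf (nat_lit 0) (nat_lit 36287336126) (nat_lit 228) (nat_lit 5970129708) (nat_lit 304)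 (nat_lit 14363002844) (nat_lit 53) (nat_lit 5) (nat_lit 56) (nat_lit 5) (nat_lit 57) (nat_lit 5) (nat_lit 330) (nat_lit 288) (nat_lit 162))))) (XT.nd (nat_lit 234) (nat_lit 608) (nat_lit 0) (XT.nd (nat_lit 78) (nat_lit 228) (nat_lit 0) (XT.lf (nat_lit 0) (nat_lit 821495356) (nat_lit 228) (nat_lit 38484213292) (nat_lit 76) (nat_lit 19361082347) (nat_lit 50) (nat_lit 5) (nat_lit 53) (nat_lit 5) (nat_lit 51) (nat_lit 5) (nat_lit 331) (nat_lit 288) (nat_lit 161)) (XT.nd (nat_lit 78) (nat_lit 0) (nat_lit 0) (XT.lf (nat_lit 0) (nat_lit 2166461305) (nat_lit 228) (nat_lit 14591708768) (nat_lit 304) (nat_lit 44044296595) (nat_lit 47) (nat_lit 5) (nat_lit 50) (nat_lit 5) (nat_lit 51) (nat_lit 5) (nat_lit 332) (nat_lit 288) (nat_lit 160)) (XT.lf (nat_lit 0) (nat_lit 33995855564) (nat_lit 304) (nat_lit 17500494422) (nat_lit 76) (nat_lit 11533454157) (nat_lit 47) (nat_lit 5) (nat_lit 51) (nat_lit 5) (nat_lit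 48) (nat_lit 5) (nat_lit 333) (nat_lit 288) (nat_lit 159)))) (XT.nd (nat_lit 156) (nat_lit 152) (nat_lit 0) (XT.nd (nat_lit 78) (nat_lit 304) (nat_lit 0) (XT.lf (nat_lit 0) (nat_lit 26044908886) (nat_lit 152) (nat_lit 26443309568) (nat_lit 228) (nat_lit 12868509412) (nat_lit 45) (nat_lit 5) (nat_lit 47) (nat_lit 5) (nat_lit 48) (nat_lit 5) (nat_lit 334) (nat_lit 288) (nat_lit 158)) (XT.lf (nat_lit 0) (nat_lit 4245607645) (nat_lit 304) (nat_lit 63418377343) (nat_lit 76) (nat_lit 128216471) (nat_lit 41) (nat_lit 5) (nat_lit 45) (nat_lit 5) (nat_lit 42) (nat_lit 5) (nat_lit 335) (nat_lit 288) (nat_lit 157))) (XT.nd (nat_lit 78) (nat_lit 152) (nat_lit 0) (XT.lf (nat_lit 0) (nat_lit 22622739653) (nat_lit 304) (nat_lit 19680447490) (nat_lit 76) (nat_lit 28022238561) (nat_lit 41) (nat_lit 5) (nat_lit 45) (nat_lit 5) (nat_lit 42) (nat_lit 5) (nat_lit 336) (nat_lit 288) (nat_lit 156)) (XT.lf (nat_lit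 0) (nat_lit 26759311809) (nat_lit 152) (nat_lit 15412252525) (nat_lit 228) (nat_lit 30806164403) (nat_lit 39) (nat_lit 5) (nat_lit 41) (nat_lit 5) (nat_lit 42) (nat_lit 5) (nat_lit 337) (nat_lit 288) (nat_lit 155)))))) (XT.nd (nat_lit 546) (nat_lit 532) (nat_lit 0) (XT.nd (nat_lit 234) (nat_lit 380) (nat_lit 0) (XT.nd (nat_lit 78) (nat_lit 228) (nat_lit 0) (XT.lf (nat_lit 0) (nat_lit 44212136) (nat_lit 152) (nat_lit 62977630513) (nat_lit 228) (nat_lit 12731086434) (nat_lit 37) (nat_lit 5) (nat_lit 39) (nat_lit 5) (nat_lit 40) (nat_lit 5) (nat_lit 338) (nat_lit 288) (nat_lit 154)) (XT.nd (nat_lit 78) (nat_lit 152) (nat_lit 0) (XT.lf (nat_lit 0) (nat_lit 6757695154) (nat_lit 228) (nat_lit 29294156418) (nat_lit 76) (nat_lit 42594282526) (nat_lit 36) (nat_lit 5) (nat_lit 39) (nat_lit 5) (nat_lit 37) (nat_lit 5) (nat_lit 339) (nat_lit 288) (nat_lit 153)) (XT.lf (nat_lit 0) (nat_lit 19690180037)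 (nat_lit 152) (nat_lit 7455175825) (nat_lit 228) (nat_lit 54529232069) (nat_lit 34) (nat_lit 5) (nat_lit 36) (nat_lit 5) (nat_lit 37) (nat_lit 5) (nat_lit 340) (nat_lit 288) (nat_lit 152)))) (XT.nd (nat_lit 156) (nat_lit 228) (nat_lit 0) (XT.nd (nat_lit 78) (nat_lit 152) (nat_lit 0) (XT.lf (nat_lit 0) (nat_lit 49070031077) (nat_lit 228) (nat_lit 13336059376) (nat_lit 76) (nat_lit 22432847180) (nat_lit 34) (nat_lit 5) (nat_lit 37) (nat_lit 5) (nat_lit 35) (nat_lit 5) (nat_lit 341) (nat_lit 288) (nat_lit 151)) (XT.lf (nat_lit 0) (nat_lit 38412762950) (nat_lit 152) (nat_lit 34118974588) (nat_lit 228) (nat_lit 15616545382) (nat_lit 32) (nat_lit 5) (nat_lit 34) (nat_lit 5) (nat_lit 35) (nat_lit 5) (nat_lit 342) (nat_lit 288) (nat_lit 150))) (XT.nd (nat_lit 78) (nat_lit 0) (nat_lit 0) (XT.lf (nat_lit 0) (nat_lit 1374751826) (nat_lit 152) (nat_lit 4208750604) (nat_lit 228) (nat_lit 86033549075)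 (nat_lit 29) (nat_lit 5) (nat_lit 31) (nat_lit 5) (nat_lit 32) (nat_lit 5) (nat_lit 343) (nat_lit 288) (nat_lit 149)) (XT.lf (nat_lit 0) (nat_lit 28298541888) (nat_lit 228) (nat_lit 39594229052) (nat_lit 76) (nat_lit 27338511880) (nat_lit 29) (nat_lit 5) (nat_lit 32) (nat_lit 5) (nat_lit 30) (nat_lit 5) (nat_lit 344) (nat_lit 288) (nat_lit 148))))) (XT.nd (nat_lit 234) (nat_lit 304) (nat_lit 0) (XT.nd (nat_lit 78) (nat_lit 76) (nat_lit 0) (XT.lf (nat_lit 0) (nat_lit 13807418045) (nat_lit 152) (nat_lit 38513763008) (nat_lit 228) (nat_lit 46699890913) (nat_lit 27) (nat_lit 5) (nat_lit 29) (nat_lit 5) (nat_lit 30) (nat_lit 5) (nat_lit 345) (nat_lit 288) (nat_lit 147)) (XT.nd (nat_lit 78) (nat_lit 76) (nat_lit 0) (XT.lf (nat_lit 0) (nat_lit 70700936522) (nat_lit 152) (nat_lit 7248351671) (nat_lit 228) (nat_lit 25038933910) (nat_lit 27) (nat_lit 5) (nat_lit 29) (nat_lit 5) (nat_lit 30) (nat_lit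 5) (nat_lit 346) (nat_lit 288) (nat_lit 146)) (XT.lf (nat_lit 0) (nat_lit 23492511513) (nat_lit 76) (nat_lit 81834888932) (nat_lit 152) (nat_lit 1812272849) (nat_lit 26) (nat_lit 5) (nat_lit 27) (nat_lit 5) (nat_lit 28) (nat_lit 4) (nat_lit 347) (nat_lit 288) (nat_lit 145)))) (XT.nd (nat_lit 156) (nat_lit 76) (nat_lit 0) (XT.nd (nat_lit 78) (nat_lit 152) (nat_lit 0) (XT.lf (nat_lit 0) (nat_lit 22540955028) (nat_lit 152) (nat_lit 29051506208) (nat_lit 76) (nat_lit 59887553858) (nat_lit 25) (nat_lit 5) (nat_lit 27) (nat_lit 5) (nat_lit 26) (nat_lit 5) (nat_lit 348) (nat_lit 288) (nat_lit 144)) (XT.lf (nat_lit 0) (nat_lit 28812809546) (nat_lit 152) (nat_lit 19535962393) (nat_lit 228) (nat_lit 67679832854) (nat_lit 23) (nat_lit 5) (nat_lit 25) (nat_lit 5) (nat_lit 26) (nat_lit 5) (nat_lit 349) (nat_lit 288) (nat_lit 143))) (XT.nd (nat_lit 78) (nat_lit 76) (nat_lit 0) (XT.lf (nat_lit 0) (nat_lit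 75881926899) (nat_lit 228) (nat_lit 30761936075) (nat_lit 76) (nat_lit 14147713879) (nat_lit 23) (nat_lit 5) (nat_lit 26) (nat_lit 5) (nat_lit 24) (nat_lit 4) (nat_lit 350) (nat_lit 288) (nat_lit 142)) (XT.lf (nat_lit 0) (nat_lit 28876157811) (nat_lit 76) (nat_lit 76387637531) (nat_lit 152) (nat_lit 20514741728) (nat_lit 22) (nat_lit 5) (nat_lit 23) (nat_lit 5) (nat_lit 24) (nat_lit 4) (nat_lit 351) (nat_lit 288) (nat_lit 141))))))))
noncomputable def xc96 : XT := (XT.nd (nat_lit 37440) (nat_lit 0) (nat_lit 1748) (XT.nd (nat_lit 36426) (nat_lit 0) (nat_lit 7904) (XT.nd (nat_lit 35880) (nat_lit 0) (nat_lit 12920) (XT.nd (nat_lit 234) (nat_lit 76) (nat_lit 0) (XT.nd (nat_lit 78) (nat_lit 152) (nat_lit 0) (XT.lf (nat_lit 0) (nat_lit 5317552962) (nat_lit 152) (nat_lit 38923186038) (nat_lit 76) (nat_lit 86763121970) (nat_lit 21) (nat_lit 5) (nat_lit 23) (nat_lit 5) (nat_lit 22) (nat_lit 5) (nat_lit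 352) (nat_lit 288) (nat_lit 140)) (XT.nd (nat_lit 78) (nat_lit 0) (nat_lit 0) (XT.lf (nat_lit 0) (nat_lit 22176194159) (nat_lit 152) (nat_lit 10055589328) (nat_lit 228) (nat_lit 104246137248) (nat_lit 19) (nat_lit 5) (nat_lit 21) (nat_lit 5) (nat_lit 22) (nat_lit 5) (nat_lit 353) (nat_lit 288) (nat_lit 139)) (XT.lf (nat_lit 0) (nat_lit 61142293574) (nat_lit 228) (nat_lit 55326463674) (nat_lit 76) (nat_lit 25737410231) (nat_lit 19) (nat_lit 5) (nat_lit 22) (nat_lit 5) (nat_lit 20) (nat_lit 4) (nat_lit 354) (nat_lit 288) (nat_lit 138)))) (XT.nd (nat_lit 35490) (nat_lit 0) (nat_lit 12844) (XT.lf (nat_lit 0) (nat_lit 6621100482) (nat_lit 76) (nat_lit 85040027800) (nat_lit 152) (nat_lit 56554815286) (nat_lit 18) (nat_lit 5) (nat_lit 19) (nat_lit 5) (nat_lit 20) (nat_lit 4) (nat_lit 355) (nat_lit 288) (nat_lit 137)) (XT.nd (nat_lit 78) (nat_lit 0) (nat_lit 0) (XT.lf (nat_lit 0) (nat_lit 568714202)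 (nat_lit 0) (nat_lit 568714202) (nat_lit 1140) (nat_lit 7363808523) (nat_lit 187) (nat_lit 5) (nat_lit 187) (nat_lit 3) (nat_lit 202) (nat_lit 3) (nat_lit 289) (nat_lit 289) (nat_lit 202)) (XT.lf (nat_lit 0) (nat_lit 2802533368) (nat_lit 1140) (nat_lit 3304236110) (nat_lit 1216) (nat_lit 11306155246) (nat_lit 187) (nat_lit 5) (nat_lit 202) (nat_lit 3) (nat_lit 203) (nat_lit 5) (nat_lit 290) (nat_lit 289) (nat_lit 201))))) (XT.nd (nat_lit 234) (nat_lit 0) (nat_lit 152) (XT.nd (nat_lit 78) (nat_lit 0) (nat_lit 76) (XT.lf (nat_lit 0) (nat_lit 3505406636) (nat_lit 1140) (nat_lit 7847934007) (nat_lit 1216) (nat_lit 6486124271) (nat_lit 188) (nat_lit 5) (nat_lit 203) (nat_lit 5) (nat_lit 204) (nat_lit 5) (nat_lit 291) (nat_lit 289) (nat_lit 200)) (XT.nd (nat_lit 78) (nat_lit 0) (nat_lit 0) (XT.lf (nat_lit 0) (nat_lit 4386498028) (nat_lit 1140) (nat_lit 12524215764) (nat_lit 1216) (nat_lit 1372355767)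 (nat_lit 189) (nat_lit 5) (nat_lit 204) (nat_lit 5) (nat_lit 205) (nat_lit 5) (nat_lit 292) (nat_lit 289) (nat_lit 199)) (XT.lf (nat_lit 76) (nat_lit 1361570300) (nat_lit 0) (nat_lit 4138485901) (nat_lit 1216) (nat_lit 13243174134) (nat_lit 190) (nat_lit 5) (nat_lit 189) (nat_lit 5) (nat_lit 205) (nat_lit 5) (nat_lit 293) (nat_lit 289) (nat_lit 198)))) (XT.nd (nat_lit 156) (nat_lit 0) (nat_lit 76) (XT.nd (nat_lit 78) (nat_lit 0) (nat_lit 76) (XT.lf (nat_lit 0) (nat_lit 6868710128) (nat_lit 1140) (nat_lit 3123048961) (nat_lit 1216) (nat_lit 9228684444) (nat_lit 190) (nat_lit 5) (nat_lit 205) (nat_lit 5) (nat_lit 206) (nat_lit 5) (nat_lit 294) (nat_lit 289) (nat_lit 197)) (XT.lf (nat_lit 0) (nat_lit 8478681596) (nat_lit 1140) (nat_lit 7723234854) (nat_lit 1216) (nat_lit 3514440035) (nat_lit 191) (nat_lit 5) (nat_lit 206) (nat_lit 5) (nat_lit 207) (nat_lit 5) (nat_lit 295) (nat_lit 289) (nat_lit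 196))) (XT.nd (nat_lit 78) (nat_lit 0) (nat_lit 76) (XT.lf (nat_lit 76) (nat_lit 7730862168) (nat_lit 0) (nat_lit 2627790650) (nat_lit 1216) (nat_lit 9872751648) (nat_lit 192) (nat_lit 5) (nat_lit 191) (nat_lit 5) (nat_lit 207) (nat_lit 5) (nat_lit 296) (nat_lit 289) (nat_lit 195)) (XT.lf (nat_lit 76) (nat_lit 3287550454) (nat_lit 0) (nat_lit 9251368971) (nat_lit 1216) (nat_lit 8227119768) (nat_lit 193) (nat_lit 5) (nat_lit 192) (nat_lit 5) (nat_lit 208) (nat_lit 5) (nat_lit 297) (nat_lit 289) (nat_lit 194)))))) (XT.nd (nat_lit 468) (nat_lit 3040) (nat_lit 0) (XT.nd (nat_lit 234) (nat_lit 1292) (nat_lit 0) (XT.nd (nat_lit 78) (nat_lit 1064) (nat_lit 0) (XT.lf (nat_lit 0) (nat_lit 15015717379) (nat_lit 1140) (nat_lit 1286194838) (nat_lit 1216) (nat_lit 5019890047) (nat_lit 193) (nat_lit 5) (nat_lit 208) (nat_lit 5) (nat_lit 209) (nat_lit 5) (nat_lit 298) (nat_lit 289) (nat_lit 193)) (XT.nd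 (nat_lit 78) (nat_lit 1064) (nat_lit 0) (XT.lf (nat_lit 76) (nat_lit 15920158717) (nat_lit 0) (nat_lit 1926792078) (nat_lit 1216) (nat_lit 4051505920) (nat_lit 194) (nat_lit 5) (nat_lit 193) (nat_lit 5) (nat_lit 209) (nat_lit 5) (nat_lit 299) (nat_lit 289) (nat_lit 192)) (XT.lf (nat_lit 0) (nat_lit 11596782834) (nat_lit 1140) (nat_lit 9459224057) (nat_lit 1216) (nat_lit 1440869254) (nat_lit 179) (nat_lit 5) (nat_lit 194) (nat_lit 5) (nat_lit 195) (nat_lit 5) (nat_lit 300) (nat_lit 289) (nat_lit 191)))) (XT.nd (nat_lit 78) (nat_lit 608) (nat_lit 0) (XT.lf (nat_lit 0) (nat_lit 1465633740) (nat_lit 684) (nat_lit 16029771891) (nat_lit 76) (nat_lit 5623733271) (nat_lit 170) (nat_lit 5) (nat_lit 179) (nat_lit 5) (nat_lit 171) (nat_lit 5) (nat_lit 301) (nat_lit 289) (nat_lit 190)) (XT.nd (nat_lit 78) (nat_lit 0) (nat_lit 0) (XT.lf (nat_lit 0) (nat_lit 2358834078) (nat_lit 608) (nat_lit 2346449628)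 (nat_lit 684) (nat_lit 19060292162) (nat_lit 162) (nat_lit 5) (nat_lit 170) (nat_lit 5) (nat_lit 171) (nat_lit 5) (nat_lit 302) (nat_lit 289) (nat_lit 189)) (XT.lf (nat_lit 0) (nat_lit 8390346701) (nat_lit 684) (nat_lit 2582578386) (nat_lit 76) (nat_lit 13462923527) (nat_lit 162) (nat_lit 5) (nat_lit 171) (nat_lit 5) (nat_lit 163) (nat_lit 5) (nat_lit 303) (nat_lit 289) (nat_lit 188))))) (XT.nd (nat_lit 234) (nat_lit 1520) (nat_lit 0) (XT.nd (nat_lit 78) (nat_lit 988) (nat_lit 0) (XT.lf (nat_lit 0) (nat_lit 12487072226) (nat_lit 608) (nat_lit 7694897699) (nat_lit 76) (nat_lit 4950858835) (nat_lit 155) (nat_lit 5) (nat_lit 163) (nat_lit 5) (nat_lit 156) (nat_lit 5) (nat_lit 304) (nat_lit 289) (nat_lit 187)) (XT.nd (nat_lit 78) (nat_lit 456) (nat_lit 0) (XT.lf (nat_lit 0) (nat_lit 12775380180) (nat_lit 532) (nat_lit 4261245401) (nat_lit 608) (nat_lit 8820607869) (nat_lit 148) (nat_lit 5) (nat_lit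 155) (nat_lit 5) (nat_lit 156) (nat_lit 5) (nat_lit 305) (nat_lit 289) (nat_lit 186)) (XT.lf (nat_lit 0) (nat_lit 7834367731) (nat_lit 456) (nat_lit 14242382927) (nat_lit 532) (nat_lit 4533229446) (nat_lit 142) (nat_lit 5) (nat_lit 148) (nat_lit 5) (nat_lit 149) (nat_lit 5) (nat_lit 306) (nat_lit 289) (nat_lit 185)))) (XT.nd (nat_lit 156) (nat_lit 912) (nat_lit 0) (XT.nd (nat_lit 78) (nat_lit 0) (nat_lit 0) (XT.lf (nat_lit 0) (nat_lit 186280430) (nat_lit 608) (nat_lit 24749573881) (nat_lit 76) (nat_lit 2458017869) (nat_lit 134) (nat_lit 5) (nat_lit 142) (nat_lit 5) (nat_lit 135) (nat_lit 5) (nat_lit 307) (nat_lit 289) (nat_lit 184)) (XT.lf (nat_lit 0) (nat_lit 5376640134) (nat_lit 608) (nat_lit 2887378975) (nat_lit 76) (nat_lit 19941747209) (nat_lit 134) (nat_lit 5) (nat_lit 142) (nat_lit 5) (nat_lit 135) (nat_lit 5) (nat_lit 308) (nat_lit 289) (nat_lit 183))) (XT.nd (nat_lit 78) (nat_lit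 456) (nat_lit 0) (XT.lf (nat_lit 0) (nat_lit 11103262805) (nat_lit 532) (nat_lit 8688144915) (nat_lit 76) (nat_lit 9258557299) (nat_lit 128) (nat_lit 5) (nat_lit 135) (nat_lit 5) (nat_lit 129) (nat_lit 5) (nat_lit 309) (nat_lit 289) (nat_lit 182)) (XT.lf (nat_lit 0) (nat_lit 15097496594) (nat_lit 456) (nat_lit 2267006423) (nat_lit 532) (nat_lit 12564433669) (nat_lit 122) (nat_lit 5) (nat_lit 128) (nat_lit 5) (nat_lit 129) (nat_lit 5) (nat_lit 310) (nat_lit 289) (nat_lit 181))))))) (XT.nd (nat_lit 1014) (nat_lit 2508) (nat_lit 0) (XT.nd (nat_lit 468) (nat_lit 1748) (nat_lit 0) (XT.nd (nat_lit 234) (nat_lit 1064) (nat_lit 0) (XT.nd (nat_lit 78) (nat_lit 456) (nat_lit 0) (XT.lf (nat_lit 0) (nat_lit 9420971965) (nat_lit 380) (nat_lit 14843898659) (nat_lit 456) (nat_lit 6577215423) (nat_lit 117) (nat_lit 5) (nat_lit 122) (nat_lit 5) (nat_lit 123) (nat_lit 5) (nat_lit 311) (nat_lit 289) (nat_lit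 180)) (XT.nd (nat_lit 78) (nat_lit 76) (nat_lit 0) (XT.lf (nat_lit 0) (nat_lit 3398118194) (nat_lit 380) (nat_lit 28344097833) (nat_lit 456) (nat_lit 51728611) (nat_lit 112) (nat_lit 5) (nat_lit 117) (nat_lit 5) (nat_lit 118) (nat_lit 5) (nat_lit 312) (nat_lit 289) (nat_lit 179)) (XT.lf (nat_lit 0) (nat_lit 7030544286) (nat_lit 456) (nat_lit 3109704747) (nat_lit 76) (nat_lit 22640299744) (nat_lit 111) (nat_lit 5) (nat_lit 117) (nat_lit 5) (nat_lit 112) (nat_lit 5) (nat_lit 313) (nat_lit 289) (nat_lit 178)))) (XT.nd (nat_lit 78) (nat_lit 684) (nat_lit 0) (XT.lf (nat_lit 0) (nat_lit 14775220926) (nat_lit 456) (nat_lit 10002838123) (nat_lit 76) (nat_lit 9029137196) (nat_lit 106) (nat_lit 5) (nat_lit 112) (nat_lit 5) (nat_lit 107) (nat_lit 5) (nat_lit 314) (nat_lit 289) (nat_lit 177)) (XT.nd (nat_lit 78) (nat_lit 304) (nat_lit 0) (XT.lf (nat_lit 0) (nat_lit 17472289036) (nat_lit 380) (nat_lit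 5728903805) (nat_lit 456) (nat_lit 11675170246) (nat_lit 101) (nat_lit 5) (nat_lit 106) (nat_lit 5) (nat_lit 107) (nat_lit 5) (nat_lit 315) (nat_lit 289) (nat_lit 176)) (XT.lf (nat_lit 0) (nat_lit 10591965695) (nat_lit 304) (nat_lit 21791216756) (nat_lit 380) (nat_lit 3605772667) (nat_lit 97) (nat_lit 5) (nat_lit 101) (nat_lit 5) (nat_lit 102) (nat_lit 5) (nat_lit 316) (nat_lit 289) (nat_lit 175))))) (XT.nd (nat_lit 234) (nat_lit 988) (nat_lit 0) (XT.nd (nat_lit 78) (nat_lit 304) (nat_lit 0) (XT.lf (nat_lit 0) (nat_lit 3144001401) (nat_lit 380) (nat_lit 1889018929) (nat_lit 456) (nat_lit 32114933640) (nat_lit 91) (nat_lit 5) (nat_lit 96) (nat_lit 5) (nat_lit 97) (nat_lit 5) (nat_lit 317) (nat_lit 289) (nat_lit 174)) (XT.nd (nat_lit 78) (nat_lit 304) (nat_lit 0) (XT.lf (nat_lit 0) (nat_lit 14468802495) (nat_lit 456) (nat_lit 4946574227) (nat_lit 76) (nat_lit 18935273766) (nat_lit 91) (nat_lit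 5) (nat_lit 97) (nat_lit 5) (nat_lit 92) (nat_lit 5) (nat_lit 318) (nat_lit 289) (nat_lit 173)) (XT.lf (nat_lit 0) (nat_lit 24651832586) (nat_lit 380) (nat_lit 13576409353) (nat_lit 76) (nat_lit 1376983191) (nat_lit 87) (nat_lit 5) (nat_lit 92) (nat_lit 5) (nat_lit 88) (nat_lit 5) (nat_lit 319) (nat_lit 289) (nat_lit 172)))) (XT.nd (nat_lit 156) (nat_lit 304) (nat_lit 0) (XT.nd (nat_lit 78) (nat_lit 380) (nat_lit 0) (XT.lf (nat_lit 0) (nat_lit 17877752391) (nat_lit 304) (nat_lit 17878292186) (nat_lit 380) (nat_lit 5154129741) (nat_lit 83) (nat_lit 5) (nat_lit 87) (nat_lit 5) (nat_lit 88) (nat_lit 5) (nat_lit 320) (nat_lit 289) (nat_lit 171)) (XT.lf (nat_lit 0) (nat_lit 5292035764) (nat_lit 380) (nat_lit 33280801051) (nat_lit 76) (nat_lit 3698345206) (nat_lit 78) (nat_lit 5) (nat_lit 83) (nat_lit 5) (nat_lit 79) (nat_lit 5) (nat_lit 321) (nat_lit 289) (nat_lit 170))) (XT.nd (nat_lit 78) (nat_lit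 304) (nat_lit 0) (XT.lf (nat_lit 0) (nat_lit 16567982131) (nat_lit 380) (nat_lit 842055601) (nat_lit 76) (nat_lit 26276255336) (nat_lit 78) (nat_lit 5) (nat_lit 83) (nat_lit 5) (nat_lit 79) (nat_lit 5) (nat_lit 322) (nat_lit 289) (nat_lit 169)) (XT.lf (nat_lit 0) (nat_lit 28776255604) (nat_lit 380) (nat_lit 11341755608) (nat_lit 76) (nat_lit 5043098201) (nat_lit 74) (nat_lit 5) (nat_lit 79) (nat_lit 5) (nat_lit 75) (nat_lit 5) (nat_lit 323) (nat_lit 289) (nat_lit 168)))))) (XT.nd (nat_lit 468) (nat_lit 1140) (nat_lit 0) (XT.nd (nat_lit 234) (nat_lit 532) (nat_lit 0) (XT.nd (nat_lit 78) (nat_lit 608) (nat_lit 0) (XT.lf (nat_lit 0) (nat_lit 23801486574) (nat_lit 228) (nat_lit 18200430459) (nat_lit 304) (nat_lit 4695545686) (nat_lit 71) (nat_lit 5) (nat_lit 74) (nat_lit 5) (nat_lit 75) (nat_lit 5) (nat_lit 324) (nat_lit 289) (nat_lit 167)) (XT.nd (nat_lit 78) (nat_lit 228) (nat_lit 0) (XT.lf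 (nat_lit 0) (nat_lit 7714481051) (nat_lit 380) (nat_lit 35552288050) (nat_lit 76) (nat_lit 5033160210) (nat_lit 66) (nat_lit 5) (nat_lit 71) (nat_lit 5) (nat_lit 67) (nat_lit 5) (nat_lit 325) (nat_lit 289) (nat_lit 166)) (XT.lf (nat_lit 0) (nat_lit 442719714) (nat_lit 228) (nat_lit 20626097587) (nat_lit 304) (nat_lit 28899684369) (nat_lit 63) (nat_lit 5) (nat_lit 66) (nat_lit 5) (nat_lit 67) (nat_lit 5) (nat_lit 326) (nat_lit 289) (nat_lit 165)))) (XT.nd (nat_lit 78) (nat_lit 532) (nat_lit 0) (XT.lf (nat_lit 0) (nat_lit 35484925154) (nat_lit 304) (nat_lit 12771811800) (nat_lit 76) (nat_lit 3451948554) (nat_lit 63) (nat_lit 5) (nat_lit 67) (nat_lit 5) (nat_lit 64) (nat_lit 5) (nat_lit 327) (nat_lit 289) (nat_lit 164)) (XT.nd (nat_lit 78) (nat_lit 304) (nat_lit 0) (XT.lf (nat_lit 0) (nat_lit 26112814408) (nat_lit 228) (nat_lit 24962701185) (nat_lit 304) (nat_lit 2446756921) (nat_lit 60) (nat_lit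 5) (nat_lit 63) (nat_lit 5) (nat_lit 64) (nat_lit 5) (nat_lit 328) (nat_lit 289) (nat_lit 163)) (XT.lf (nat_lit 0) (nat_lit 11892924316) (nat_lit 228) (nat_lit 133342912) (nat_lit 304) (nat_lit 43389558371) (nat_lit 56) (nat_lit 5) (nat_lit 59) (nat_lit 5) (nat_lit 60) (nat_lit 5) (nat_lit 329) (nat_lit 289) (nat_lit 162))))) (XT.nd (nat_lit 234) (nat_lit 684) (nat_lit 0) (XT.nd (nat_lit 78) (nat_lit 456) (nat_lit 0) (XT.lf (nat_lit 0) (nat_lit 27701847326) (nat_lit 304) (nat_lit 3947383930) (nat_lit 76) (nat_lit 25738216879) (nat_lit 56) (nat_lit 5) (nat_lit 60) (nat_lit 5) (nat_lit 57) (nat_lit 5) (nat_lit 330) (nat_lit 289) (nat_lit 161)) (XT.nd (nat_lit 78) (nat_lit 228) (nat_lit 0) (XT.lf (nat_lit 0) (nat_lit 38346043420) (nat_lit 228) (nat_lit 6180124274) (nat_lit 304) (nat_lit 14920538863) (nat_lit 53) (nat_lit 5) (nat_lit 56) (nat_lit 5) (nat_lit 57) (nat_lit 5) (nat_lit 331) (nat_lit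 289) (nat_lit 160)) (XT.lf (nat_lit 0) (nat_lit 1015710493) (nat_lit 228) (nat_lit 40164115357) (nat_lit 76) (nat_lit 20415608130) (nat_lit 50) (nat_lit 5) (nat_lit 53) (nat_lit 5) (nat_lit 51) (nat_lit 5) (nat_lit 332) (nat_lit 289) (nat_lit 159)))) (XT.nd (nat_lit 156) (nat_lit 456) (nat_lit 0) (XT.nd (nat_lit 78) (nat_lit 0) (nat_lit 0) (XT.lf (nat_lit 0) (nat_lit 2512089914) (nat_lit 228) (nat_lit 15232117761) (nat_lit 304) (nat_lit 46093840974) (nat_lit 47) (nat_lit 5) (nat_lit 50) (nat_lit 5) (nat_lit 51) (nat_lit 5) (nat_lit 333) (nat_lit 289) (nat_lit 158)) (XT.lf (nat_lit 0) (nat_lit 35837540071) (nat_lit 304) (nat_lit 18146005164) (nat_lit 76) (nat_lit 12193399524) (nat_lit 47) (nat_lit 5) (nat_lit 51) (nat_lit 5) (nat_lit 48) (nat_lit 5) (nat_lit 334) (nat_lit 289) (nat_lit 157))) (XT.nd (nat_lit 78) (nat_lit 304) (nat_lit 0) (XT.lf (nat_lit 0) (nat_lit 27570089337) (nat_lit 152)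 (nat_lit 27679818007) (nat_lit 228) (nat_lit 13370450158) (nat_lit 45) (nat_lit 5) (nat_lit 47) (nat_lit 5) (nat_lit 48) (nat_lit 5) (nat_lit 335) (nat_lit 289) (nat_lit 156)) (XT.lf (nat_lit 0) (nat_lit 4592931993) (nat_lit 304) (nat_lit 66366695810) (nat_lit 76) (nat_lit 218050654) (nat_lit 41) (nat_lit 5) (nat_lit 45) (nat_lit 5) (nat_lit 42) (nat_lit 5) (nat_lit 336) (nat_lit 289) (nat_lit 155))))))))
noncomputable def xc97 : XT := (XT.nd (nat_lit 37518) (nat_lit 0) (nat_lit 4484) (XT.nd (nat_lit 1014) (nat_lit 456) (nat_lit 0) (XT.nd (nat_lit 468) (nat_lit 684) (nat_lit 0) (XT.nd (nat_lit 234) (nat_lit 228) (nat_lit 0) (XT.nd (nat_lit 78) (nat_lit 304) (nat_lit 0) (XT.lf (nat_lit 0) (nat_lit 23882489937) (nat_lit 304) (nat_lit 20452469484) (nat_lit 76) (nat_lit 29502801308) (nat_lit 41) (nat_lit 5) (nat_lit 45) (nat_lit 5) (nat_lit 42) (nat_lit 5) (nat_lit 337) (nat_lit 289) (nat_lit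 154)) (XT.nd (nat_lit 78) (nat_lit 152) (nat_lit 0) (XT.lf (nat_lit 0) (nat_lit 28303200832) (nat_lit 152) (nat_lit 16101410039) (nat_lit 228) (nat_lit 32218196100) (nat_lit 39) (nat_lit 5) (nat_lit 41) (nat_lit 5) (nat_lit 42) (nat_lit 5) (nat_lit 338) (nat_lit 289) (nat_lit 153)) (XT.lf (nat_lit 0) (nat_lit 249381911) (nat_lit 152) (nat_lit 66044790806) (nat_lit 228) (nat_lit 13242695059) (nat_lit 37) (nat_lit 5) (nat_lit 39) (nat_lit 5) (nat_lit 40) (nat_lit 5) (nat_lit 339) (nat_lit 289) (nat_lit 152)))) (XT.nd (nat_lit 78) (nat_lit 152) (nat_lit 0) (XT.lf (nat_lit 0) (nat_lit 7212253774) (nat_lit 228) (nat_lit 30563182453) (nat_lit 76) (nat_lit 44799439059) (nat_lit 36) (nat_lit 5) (nat_lit 39) (nat_lit 5) (nat_lit 37) (nat_lit 5) (nat_lit 340) (nat_lit 289) (nat_lit 151)) (XT.nd (nat_lit 78) (nat_lit 0) (nat_lit 0) (XT.lf (nat_lit 0) (nat_lit 20864761645) (nat_lit 152) (nat_lit 7750807068)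 (nat_lit 228) (nat_lit 57139298070) (nat_lit 34) (nat_lit 5) (nat_lit 36) (nat_lit 5) (nat_lit 37) (nat_lit 5) (nat_lit 341) (nat_lit 289) (nat_lit 150)) (XT.lf (nat_lit 0) (nat_lit 51631805446) (nat_lit 228) (nat_lit 13819260676) (nat_lit 76) (nat_lit 23626510978) (nat_lit 34) (nat_lit 5) (nat_lit 37) (nat_lit 5) (nat_lit 35) (nat_lit 5) (nat_lit 342) (nat_lit 289) (nat_lit 149))))) (XT.nd (nat_lit 234) (nat_lit 304) (nat_lit 0) (XT.nd (nat_lit 78) (nat_lit 228) (nat_lit 0) (XT.lf (nat_lit 0) (nat_lit 40511739861) (nat_lit 152) (nat_lit 35751415821) (nat_lit 228) (nat_lit 16289340035) (nat_lit 32) (nat_lit 5) (nat_lit 34) (nat_lit 5) (nat_lit 35) (nat_lit 5) (nat_lit 343) (nat_lit 289) (nat_lit 148)) (XT.nd (nat_lit 78) (nat_lit 0) (nat_lit 0) (XT.lf (nat_lit 0) (nat_lit 1618817009) (nat_lit 152) (nat_lit 4346426383) (nat_lit 228) (nat_lit 90229531553) (nat_lit 29) (nat_lit 5) (nat_lit 31)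 (nat_lit 5) (nat_lit 32) (nat_lit 5) (nat_lit 344) (nat_lit 289) (nat_lit 147)) (XT.lf (nat_lit 0) (nat_lit 29811816861) (nat_lit 228) (nat_lit 41404647843) (nat_lit 76) (nat_lit 28773382147) (nat_lit 29) (nat_lit 5) (nat_lit 32) (nat_lit 5) (nat_lit 30) (nat_lit 5) (nat_lit 345) (nat_lit 289) (nat_lit 146)))) (XT.nd (nat_lit 156) (nat_lit 152) (nat_lit 0) (XT.nd (nat_lit 78) (nat_lit 0) (nat_lit 0) (XT.lf (nat_lit 0) (nat_lit 14662228869) (nat_lit 152) (nat_lit 40370256580) (nat_lit 228) (nat_lit 48936735446) (nat_lit 27) (nat_lit 5) (nat_lit 29) (nat_lit 5) (nat_lit 30) (nat_lit 5) (nat_lit 346) (nat_lit 289) (nat_lit 145)) (XT.lf (nat_lit 0) (nat_lit 74392592798) (nat_lit 152) (nat_lit 7544869656) (nat_lit 228) (nat_lit 26197404403) (nat_lit 27) (nat_lit 5) (nat_lit 29) (nat_lit 5) (nat_lit 30) (nat_lit 5) (nat_lit 347) (nat_lit 289) (nat_lit 144))) (XT.nd (nat_lit 78) (nat_lit 76) (nat_lit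 0) (XT.lf (nat_lit 0) (nat_lit 24821329105) (nat_lit 76) (nat_lit 85860917186) (nat_lit 152) (nat_lit 1811713482) (nat_lit 26) (nat_lit 5) (nat_lit 27) (nat_lit 5) (nat_lit 28) (nat_lit 4) (nat_lit 348) (nat_lit 289) (nat_lit 143)) (XT.lf (nat_lit 0) (nat_lit 23753139823) (nat_lit 152) (nat_lit 30355497907) (nat_lit 76) (nat_lit 62942784330) (nat_lit 25) (nat_lit 5) (nat_lit 27) (nat_lit 5) (nat_lit 26) (nat_lit 5) (nat_lit 349) (nat_lit 289) (nat_lit 142)))))) (XT.nd (nat_lit 35958) (nat_lit 0) (nat_lit 12768) (XT.nd (nat_lit 234) (nat_lit 228) (nat_lit 0) (XT.nd (nat_lit 78) (nat_lit 76) (nat_lit 0) (XT.lf (nat_lit 0) (nat_lit 30397774515) (nat_lit 152) (nat_lit 20450906255) (nat_lit 228) (nat_lit 70978842368) (nat_lit 23) (nat_lit 5) (nat_lit 25) (nat_lit 5) (nat_lit 26) (nat_lit 5) (nat_lit 350) (nat_lit 289) (nat_lit 141)) (XT.nd (nat_lit 78) (nat_lit 76) (nat_lit 0) (XT.lf (nat_lit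 0) (nat_lit 79755132591) (nat_lit 228) (nat_lit 32160754968) (nat_lit 76) (nat_lit 14912858867) (nat_lit 23) (nat_lit 5) (nat_lit 26) (nat_lit 5) (nat_lit 24) (nat_lit 4) (nat_lit 351) (nat_lit 289) (nat_lit 140)) (XT.lf (nat_lit 0) (nat_lit 30455251239) (nat_lit 76) (nat_lit 80148376554) (nat_lit 152) (nat_lit 21461502576) (nat_lit 22) (nat_lit 5) (nat_lit 23) (nat_lit 5) (nat_lit 24) (nat_lit 4) (nat_lit 352) (nat_lit 289) (nat_lit 139)))) (XT.nd (nat_lit 78) (nat_lit 152) (nat_lit 0) (XT.lf (nat_lit 0) (nat_lit 5657178350) (nat_lit 152) (nat_lit 40739002556) (nat_lit 76) (nat_lit 91155628989) (nat_lit 21) (nat_lit 5) (nat_lit 23) (nat_lit 5) (nat_lit 22) (nat_lit 5) (nat_lit 353) (nat_lit 289) (nat_lit 138)) (XT.nd (nat_lit 78) (nat_lit 0) (nat_lit 0) (XT.lf (nat_lit 0) (nat_lit 23411610402) (nat_lit 152) (nat_lit 10503215222) (nat_lit 228) (nat_lit 109384817377) (nat_lit 19) (nat_lit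 5) (nat_lit 21) (nat_lit 5) (nat_lit 22) (nat_lit 5) (nat_lit 354) (nat_lit 289) (nat_lit 137)) (XT.lf (nat_lit 0) (nat_lit 64267963617) (nat_lit 228) (nat_lit 57970643871) (nat_lit 76) (nat_lit 27075782959) (nat_lit 19) (nat_lit 5) (nat_lit 22) (nat_lit 5) (nat_lit 20) (nat_lit 4) (nat_lit 355) (nat_lit 289) (nat_lit 136))))) (XT.nd (nat_lit 234) (nat_lit 0) (nat_lit 152) (XT.nd (nat_lit 78) (nat_lit 0) (nat_lit 0) (XT.lf (nat_lit 0) (nat_lit 774320156) (nat_lit 0) (nat_lit 774320156) (nat_lit 1140) (nat_lit 7366549025) (nat_lit 187) (nat_lit 5) (nat_lit 187) (nat_lit 3) (nat_lit 202) (nat_lit 3) (nat_lit 290) (nat_lit 290) (nat_lit 200)) (XT.nd (nat_lit 78) (nat_lit 0) (nat_lit 76) (XT.lf (nat_lit 0) (nat_lit 3614350359) (nat_lit 1140) (nat_lit 3107576013) (nat_lit 1216) (nat_lit 11540581076) (nat_lit 187) (nat_lit 5) (nat_lit 202) (nat_lit 3) (nat_lit 203) (nat_lit 5) (nat_lit 291) (nat_lit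 290) (nat_lit 199)) (XT.lf (nat_lit 0) (nat_lit 4320957966) (nat_lit 1140) (nat_lit 7865867046) (nat_lit 1216) (nat_lit 6524535382) (nat_lit 188) (nat_lit 5) (nat_lit 203) (nat_lit 5) (nat_lit 204) (nat_lit 5) (nat_lit 292) (nat_lit 290) (nat_lit 198)))) (XT.nd (nat_lit 156) (nat_lit 0) (nat_lit 76) (XT.nd (nat_lit 78) (nat_lit 0) (nat_lit 0) (XT.lf (nat_lit 0) (nat_lit 5216711845) (nat_lit 1140) (nat_lit 12765071338) (nat_lit 1216) (nat_lit 1196285248) (nat_lit 189) (nat_lit 5) (nat_lit 204) (nat_lit 5) (nat_lit 205) (nat_lit 5) (nat_lit 293) (nat_lit 290) (nat_lit 197)) (XT.lf (nat_lit 76) (nat_lit 1803957899) (nat_lit 0) (nat_lit 4556498167) (nat_lit 1216) (nat_lit 13301585361) (nat_lit 190) (nat_lit 5) (nat_lit 189) (nat_lit 5) (nat_lit 205) (nat_lit 5) (nat_lit 294) (nat_lit 290) (nat_lit 196))) (XT.nd (nat_lit 78) (nat_lit 0) (nat_lit 76) (XT.lf (nat_lit 0) (nat_lit 7767734157) (nat_lit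 1140) (nat_lit 2903307490) (nat_lit 1216) (nat_lit 9493005443) (nat_lit 190) (nat_lit 5) (nat_lit 205) (nat_lit 5) (nat_lit 206) (nat_lit 5) (nat_lit 295) (nat_lit 290) (nat_lit 195)) (XT.lf (nat_lit 0) (nat_lit 9433647019) (nat_lit 1140) (nat_lit 7725972816) (nat_lit 1216) (nat_lit 3525908330) (nat_lit 191) (nat_lit 5) (nat_lit 206) (nat_lit 5) (nat_lit 207) (nat_lit 5) (nat_lit 296) (nat_lit 290) (nat_lit 194))))))) (XT.nd (nat_lit 1014) (nat_lit 4256) (nat_lit 0) (XT.nd (nat_lit 468) (nat_lit 2736) (nat_lit 0) (XT.nd (nat_lit 234) (nat_lit 1596) (nat_lit 0) (XT.nd (nat_lit 78) (nat_lit 0) (nat_lit 76) (XT.lf (nat_lit 76) (nat_lit 8489838291) (nat_lit 0) (nat_lit 2896071357) (nat_lit 1216) (nat_lit 9841104168) (nat_lit 192) (nat_lit 5) (nat_lit 191) (nat_lit 5) (nat_lit 207) (nat_lit 5) (nat_lit 297) (nat_lit 290) (nat_lit 193)) (XT.nd (nat_lit 78) (nat_lit 0) (nat_lit 76) (XT.lf (nat_lit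 76) (nat_lit 3830466794) (nat_lit 0) (nat_lit 9822854786) (nat_lit 1216) (nat_lit 8135747177) (nat_lit 193) (nat_lit 5) (nat_lit 192) (nat_lit 5) (nat_lit 208) (nat_lit 5) (nat_lit 298) (nat_lit 290) (nat_lit 192)) (XT.lf (nat_lit 0) (nat_lit 16229750108) (nat_lit 1140) (nat_lit 974449157) (nat_lit 1216) (nat_lit 5169177887) (nat_lit 193) (nat_lit 5) (nat_lit 208) (nat_lit 5) (nat_lit 209) (nat_lit 5) (nat_lit 299) (nat_lit 290) (nat_lit 191)))) (XT.nd (nat_lit 78) (nat_lit 1748) (nat_lit 0) (XT.lf (nat_lit 76) (nat_lit 17081442522) (nat_lit 0) (nat_lit 2102554553) (nat_lit 1216) (nat_lit 3795453113) (nat_lit 194) (nat_lit 5) (nat_lit 193) (nat_lit 5) (nat_lit 209) (nat_lit 5) (nat_lit 300) (nat_lit 290) (nat_lit 190)) (XT.nd (nat_lit 78) (nat_lit 684) (nat_lit 0) (XT.lf (nat_lit 0) (nat_lit 12545698942) (nat_lit 1140) (nat_lit 9989451591) (nat_lit 1216) (nat_lit 1073218739) (nat_lit 179)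 (nat_lit 5) (nat_lit 194) (nat_lit 5) (nat_lit 195) (nat_lit 5) (nat_lit 301) (nat_lit 290) (nat_lit 189)) (XT.lf (nat_lit 0) (nat_lit 1952581996) (nat_lit 684) (nat_lit 16450509423) (nat_lit 76) (nat_lit 5859076279) (nat_lit 170) (nat_lit 5) (nat_lit 179) (nat_lit 5) (nat_lit 171) (nat_lit 5) (nat_lit 302) (nat_lit 290) (nat_lit 188))))) (XT.nd (nat_lit 234) (nat_lit 1596) (nat_lit 0) (XT.nd (nat_lit 78) (nat_lit 532) (nat_lit 0) (XT.lf (nat_lit 0) (nat_lit 2846612692) (nat_lit 608) (nat_lit 2491458459) (nat_lit 684) (nat_lit 19603364334) (nat_lit 162) (nat_lit 5) (nat_lit 170) (nat_lit 5) (nat_lit 171) (nat_lit 5) (nat_lit 303) (nat_lit 290) (nat_lit 187)) (XT.nd (nat_lit 78) (nat_lit 532) (nat_lit 0) (XT.lf (nat_lit 0) (nat_lit 9188204152) (nat_lit 684) (nat_lit 2347400425) (nat_lit 76) (nat_lit 14110216285) (nat_lit 162) (nat_lit 5) (nat_lit 171) (nat_lit 5) (nat_lit 163) (nat_lit 5)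 (nat_lit 304) (nat_lit 290) (nat_lit 186)) (XT.lf (nat_lit 0) (nat_lit 13475056522) (nat_lit 608) (nat_lit 7714324331) (nat_lit 76) (nat_lit 5188732826) (nat_lit 155) (nat_lit 5) (nat_lit 163) (nat_lit 5) (nat_lit 156) (nat_lit 5) (nat_lit 305) (nat_lit 290) (nat_lit 185)))) (XT.nd (nat_lit 156) (nat_lit 608) (nat_lit 0) (XT.nd (nat_lit 78) (nat_lit 456) (nat_lit 0) (XT.lf (nat_lit 0) (nat_lit 13768995668) (nat_lit 532) (nat_lit 4469187131) (nat_lit 608) (nat_lit 8900994260) (nat_lit 148) (nat_lit 5) (nat_lit 155) (nat_lit 5) (nat_lit 156) (nat_lit 5) (nat_lit 306) (nat_lit 290) (nat_lit 184)) (XT.lf (nat_lit 0) (nat_lit 8581318282) (nat_lit 456) (nat_lit 14935803819) (nat_lit 532) (nat_lit 4412855006) (nat_lit 142) (nat_lit 5) (nat_lit 148) (nat_lit 5) (nat_lit 149) (nat_lit 5) (nat_lit 307) (nat_lit 290) (nat_lit 183))) (XT.nd (nat_lit 78) (nat_lit 0) (nat_lit 0) (XT.lf (nat_lit 0) (nat_lit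 523275272) (nat_lit 608) (nat_lit 25625079810) (nat_lit 76) (nat_lit 2605004892) (nat_lit 134) (nat_lit 5) (nat_lit 142) (nat_lit 5) (nat_lit 135) (nat_lit 5) (nat_lit 308) (nat_lit 290) (nat_lit 182)) (XT.lf (nat_lit 0) (nat_lit 5957549113) (nat_lit 608) (nat_lit 2687011956) (nat_lit 76) (nat_lit 20961773741) (nat_lit 134) (nat_lit 5) (nat_lit 142) (nat_lit 5) (nat_lit 135) (nat_lit 5) (nat_lit 309) (nat_lit 290) (nat_lit 181)))))) (XT.nd (nat_lit 546) (nat_lit 1748) (nat_lit 0) (XT.nd (nat_lit 234) (nat_lit 1216) (nat_lit 0) (XT.nd (nat_lit 78) (nat_lit 836) (nat_lit 0) (XT.lf (nat_lit 0) (nat_lit 11959191790) (nat_lit 532) (nat_lit 8778675299) (nat_lit 76) (nat_lit 9755232715) (nat_lit 128) (nat_lit 5) (nat_lit 135) (nat_lit 5) (nat_lit 129) (nat_lit 5) (nat_lit 310) (nat_lit 290) (nat_lit 180)) (XT.nd (nat_lit 78) (nat_lit 380) (nat_lit 0) (XT.lf (nat_lit 0) (nat_lit 16186391125) (nat_lit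 456) (nat_lit 2335991508) (nat_lit 532) (nat_lit 12893986978) (nat_lit 122) (nat_lit 5) (nat_lit 128) (nat_lit 5) (nat_lit 129) (nat_lit 5) (nat_lit 311) (nat_lit 290) (nat_lit 179)) (XT.lf (nat_lit 0) (nat_lit 10224806944) (nat_lit 380) (nat_lit 15532773710) (nat_lit 456) (nat_lit 6617916866) (nat_lit 117) (nat_lit 5) (nat_lit 122) (nat_lit 5) (nat_lit 123) (nat_lit 5) (nat_lit 312) (nat_lit 290) (nat_lit 178)))) (XT.nd (nat_lit 156) (nat_lit 760) (nat_lit 0) (XT.nd (nat_lit 78) (nat_lit 0) (nat_lit 0) (XT.lf (nat_lit 0) (nat_lit 219535152) (nat_lit 456) (nat_lit 29478188106) (nat_lit 76) (nat_lit 3677465003) (nat_lit 111) (nat_lit 5) (nat_lit 117) (nat_lit 5) (nat_lit 112) (nat_lit 5) (nat_lit 313) (nat_lit 290) (nat_lit 177)) (XT.lf (nat_lit 0) (nat_lit 7641871798) (nat_lit 456) (nat_lit 2944325650) (nat_lit 76) (nat_lit 23825312795) (nat_lit 111) (nat_lit 5) (nat_lit 117) (nat_lit 5)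 (nat_lit 112) (nat_lit 5) (nat_lit 314) (nat_lit 290) (nat_lit 176))) (XT.nd (nat_lit 78) (nat_lit 380) (nat_lit 0) (XT.lf (nat_lit 0) (nat_lit 15764995455) (nat_lit 456) (nat_lit 10184130147) (nat_lit 76) (nat_lit 9540641038) (nat_lit 106) (nat_lit 5) (nat_lit 112) (nat_lit 5) (nat_lit 107) (nat_lit 5) (nat_lit 315) (nat_lit 290) (nat_lit 175)) (XT.lf (nat_lit 0) (nat_lit 18655613602) (nat_lit 380) (nat_lit 5947676463) (nat_lit 456) (nat_lit 12009383369) (nat_lit 101) (nat_lit 5) (nat_lit 106) (nat_lit 5) (nat_lit 107) (nat_lit 5) (nat_lit 316) (nat_lit 290) (nat_lit 174))))) (XT.nd (nat_lit 234) (nat_lit 988) (nat_lit 0) (XT.nd (nat_lit 78) (nat_lit 456) (nat_lit 0) (XT.lf (nat_lit 0) (nat_lit 11429057050) (nat_lit 304) (nat_lit 22807371851) (nat_lit 380) (nat_lit 3544716420) (nat_lit 97) (nat_lit 5) (nat_lit 101) (nat_lit 5) (nat_lit 102) (nat_lit 5) (nat_lit 317) (nat_lit 290) (nat_lit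 173)) (XT.nd (nat_lit 78) (nat_lit 0) (nat_lit 0) (XT.lf (nat_lit 0) (nat_lit 3604676377) (nat_lit 380) (nat_lit 1908279178) (nat_lit 456) (nat_lit 33485330360) (nat_lit 91) (nat_lit 5) (nat_lit 96) (nat_lit 5) (nat_lit 97) (nat_lit 5) (nat_lit 318) (nat_lit 290) (nat_lit 172)) (XT.lf (nat_lit 0) (nat_lit 15410344512) (nat_lit 456) (nat_lit 4898838289) (nat_lit 76) (nat_lit 19952250270) (nat_lit 91) (nat_lit 5) (nat_lit 97) (nat_lit 5) (nat_lit 92) (nat_lit 5) (nat_lit 319) (nat_lit 290) (nat_lit 171)))) (XT.nd (nat_lit 156) (nat_lit 380) (nat_lit 0) (XT.nd (nat_lit 78) (nat_lit 304) (nat_lit 0) (XT.lf (nat_lit 0) (nat_lit 26095627203) (nat_lit 380) (nat_lit 13962843836) (nat_lit 76) (nat_lit 1520482225) (nat_lit 87) (nat_lit 5) (nat_lit 92) (nat_lit 5) (nat_lit 88) (nat_lit 5) (nat_lit 320) (nat_lit 290) (nat_lit 170)) (XT.lf (nat_lit 0) (nat_lit 19055644810) (nat_lit 304) (nat_lit 18692077726)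 (nat_lit 380) (nat_lit 5201656576) (nat_lit 83) (nat_lit 5) (nat_lit 87) (nat_lit 5) (nat_lit 88) (nat_lit 5) (nat_lit 321) (nat_lit 290) (nat_lit 169))) (XT.nd (nat_lit 78) (nat_lit 0) (nat_lit 0) (XT.lf (nat_lit 0) (nat_lit 5756373633) (nat_lit 380) (nat_lit 34659453546) (nat_lit 76) (nat_lit 3962748353) (nat_lit 78) (nat_lit 5) (nat_lit 83) (nat_lit 5) (nat_lit 79) (nat_lit 5) (nat_lit 322) (nat_lit 290) (nat_lit 168)) (XT.lf (nat_lit 0) (nat_lit 17586606075) (nat_lit 380) (nat_lit 612360706) (nat_lit 76) (nat_lit 27665768947) (nat_lit 78) (nat_lit 5) (nat_lit 83) (nat_lit 5) (nat_lit 79) (nat_lit 5) (nat_lit 323) (nat_lit 290) (nat_lit 167))))))))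
noncomputable def xc98 : XT := (XT.nd (nat_lit 2028) (nat_lit 380) (nat_lit 0) (XT.nd (nat_lit 1014) (nat_lit 1444) (nat_lit 0) (XT.nd (nat_lit 468) (nat_lit 1140) (nat_lit 0) (XT.nd (nat_lit 234) (nat_lit 456) (nat_lit 0) (XT.nd (nat_lit 78) (nat_lit 608) (nat_lit 0) (XT.lf (nat_lit 0) (nat_lit 30399544605) (nat_lit 380) (nat_lit 11639940148) (nat_lit 76) (nat_lit 5373988466) (nat_lit 74) (nat_lit 5) (nat_lit 79) (nat_lit 5) (nat_lit 75) (nat_lit 5) (nat_lit 324) (nat_lit 290) (nat_lit 166)) (XT.nd (nat_lit 78) (nat_lit 380) (nat_lit 0) (XT.lf (nat_lit 0) (nat_lit 25252756086) (nat_lit 228) (nat_lit 19027459206) (nat_lit 304) (nat_lit 4746624608) (nat_lit 71) (nat_lit 5) (nat_lit 74) (nat_lit 5) (nat_lit 75) (nat_lit 5) (nat_lit 325) (nat_lit 290) (nat_lit 165)) (XT.lf (nat_lit 0) (nat_lit 8275016561) (nat_lit 380) (nat_lit 37068013192) (nat_lit 76) (nat_lit 5366513092) (nat_lit 66) (nat_lit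 5) (nat_lit 71) (nat_lit 5) (nat_lit 67) (nat_lit 5) (nat_lit 326) (nat_lit 290) (nat_lit 164)))) (XT.nd (nat_lit 78) (nat_lit 228) (nat_lit 0) (XT.lf (nat_lit 0) (nat_lit 719237958) (nat_lit 228) (nat_lit 21571952588) (nat_lit 304) (nat_lit 30170536247) (nat_lit 63) (nat_lit 5) (nat_lit 66) (nat_lit 5) (nat_lit 67) (nat_lit 5) (nat_lit 327) (nat_lit 290) (nat_lit 163)) (XT.nd (nat_lit 78) (nat_lit 228) (nat_lit 0) (XT.lf (nat_lit 0) (nat_lit 37420841675) (nat_lit 304) (nat_lit 13163963511) (nat_lit 76) (nat_lit 3704338785) (nat_lit 63) (nat_lit 5) (nat_lit 67) (nat_lit 5) (nat_lit 64) (nat_lit 5) (nat_lit 328) (nat_lit 290) (nat_lit 162)) (XT.lf (nat_lit 0) (nat_lit 27657829885) (nat_lit 228) (nat_lit 26127734183) (nat_lit 304) (nat_lit 2408014172) (nat_lit 60) (nat_lit 5) (nat_lit 63) (nat_lit 5) (nat_lit 64) (nat_lit 5) (nat_lit 329) (nat_lit 290) (nat_lit 161))))) (XT.nd (nat_lit 234)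 (nat_lit 608) (nat_lit 0) (XT.nd (nat_lit 78) (nat_lit 228) (nat_lit 0) (XT.lf (nat_lit 0) (nat_lit 12723249721) (nat_lit 228) (nat_lit 57012868) (nat_lit 304) (nat_lit 45401663134) (nat_lit 56) (nat_lit 5) (nat_lit 59) (nat_lit 5) (nat_lit 60) (nat_lit 5) (nat_lit 330) (nat_lit 290) (nat_lit 160)) (XT.nd (nat_lit 78) (nat_lit 228) (nat_lit 0) (XT.lf (nat_lit 0) (nat_lit 29233110949) (nat_lit 304) (nat_lit 3916588816) (nat_lit 76) (nat_lit 27102630213) (nat_lit 56) (nat_lit 5) (nat_lit 60) (nat_lit 5) (nat_lit 57) (nat_lit 5) (nat_lit 331) (nat_lit 290) (nat_lit 159)) (XT.lf (nat_lit 0) (nat_lit 40484969617) (nat_lit 228) (nat_lit 6408847568) (nat_lit 304) (nat_lit 15520884063) (nat_lit 53) (nat_lit 5) (nat_lit 56) (nat_lit 5) (nat_lit 57) (nat_lit 5) (nat_lit 332) (nat_lit 290) (nat_lit 158)))) (XT.nd (nat_lit 156) (nat_lit 152) (nat_lit 0) (XT.nd (nat_lit 78) (nat_lit 228) (nat_lit 0) (XT.lf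 (nat_lit 0) (nat_lit 1205398847) (nat_lit 228) (nat_lit 41950726022) (nat_lit 76) (nat_lit 21514820886) (nat_lit 50) (nat_lit 5) (nat_lit 53) (nat_lit 5) (nat_lit 51) (nat_lit 5) (nat_lit 333) (nat_lit 290) (nat_lit 157)) (XT.lf (nat_lit 0) (nat_lit 2852937533) (nat_lit 228) (nat_lit 15912837983) (nat_lit 304) (nat_lit 48260056424) (nat_lit 47) (nat_lit 5) (nat_lit 50) (nat_lit 5) (nat_lit 51) (nat_lit 5) (nat_lit 334) (nat_lit 290) (nat_lit 156))) (XT.nd (nat_lit 78) (nat_lit 152) (nat_lit 0) (XT.lf (nat_lit 0) (nat_lit 37758117056) (nat_lit 304) (nat_lit 18845129478) (nat_lit 76) (nat_lit 12878600257) (nat_lit 47) (nat_lit 5) (nat_lit 51) (nat_lit 5) (nat_lit 48) (nat_lit 5) (nat_lit 335) (nat_lit 290) (nat_lit 155)) (XT.lf (nat_lit 0) (nat_lit 29150802427) (nat_lit 152) (nat_lit 28986115448) (nat_lit 228) (nat_lit 13910641850) (nat_lit 45) (nat_lit 5) (nat_lit 47) (nat_lit 5) (nat_lit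 48) (nat_lit 5) (nat_lit 336) (nat_lit 290) (nat_lit 154)))))) (XT.nd (nat_lit 468) (nat_lit 608) (nat_lit 0) (XT.nd (nat_lit 234) (nat_lit 380) (nat_lit 0) (XT.nd (nat_lit 78) (nat_lit 152) (nat_lit 0) (XT.lf (nat_lit 0) (nat_lit 4945067450) (nat_lit 304) (nat_lit 69483125477) (nat_lit 76) (nat_lit 304620634) (nat_lit 41) (nat_lit 5) (nat_lit 45) (nat_lit 5) (nat_lit 42) (nat_lit 5) (nat_lit 337) (nat_lit 290) (nat_lit 153)) (XT.nd (nat_lit 78) (nat_lit 152) (nat_lit 0) (XT.lf (nat_lit 0) (nat_lit 25193270489) (nat_lit 304) (nat_lit 21282802364) (nat_lit 76) (nat_lit 31050005608) (nat_lit 41) (nat_lit 5) (nat_lit 45) (nat_lit 5) (nat_lit 42) (nat_lit 5) (nat_lit 338) (nat_lit 290) (nat_lit 152)) (XT.lf (nat_lit 0) (nat_lit 29905139496) (nat_lit 152) (nat_lit 16832598353) (nat_lit 228) (nat_lit 33712755317) (nat_lit 39) (nat_lit 5) (nat_lit 41) (nat_lit 5) (nat_lit 42) (nat_lit 5) (nat_lit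 339) (nat_lit 290) (nat_lit 151)))) (XT.nd (nat_lit 78) (nat_lit 228) (nat_lit 0) (XT.lf (nat_lit 0) (nat_lit 445940955) (nat_lit 152) (nat_lit 69272906779) (nat_lit 228) (nat_lit 13791500382) (nat_lit 37) (nat_lit 5) (nat_lit 39) (nat_lit 5) (nat_lit 40) (nat_lit 5) (nat_lit 340) (nat_lit 290) (nat_lit 150)) (XT.nd (nat_lit 78) (nat_lit 152) (nat_lit 0) (XT.lf (nat_lit 0) (nat_lit 7678693096) (nat_lit 228) (nat_lit 31913852428) (nat_lit 76) (nat_lit 47107839498) (nat_lit 36) (nat_lit 5) (nat_lit 39) (nat_lit 5) (nat_lit 37) (nat_lit 5) (nat_lit 341) (nat_lit 290) (nat_lit 149)) (XT.lf (nat_lit 0) (nat_lit 22080401184) (nat_lit 152) (nat_lit 8068390462) (nat_lit 228) (nat_lit 59890688732) (nat_lit 34) (nat_lit 5) (nat_lit 36) (nat_lit 5) (nat_lit 37) (nat_lit 5) (nat_lit 342) (nat_lit 290) (nat_lit 148))))) (XT.nd (nat_lit 234) (nat_lit 228) (nat_lit 0) (XT.nd (nat_lit 78) (nat_lit 380) (nat_lit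 0) (XT.lf (nat_lit 0) (nat_lit 54311602353) (nat_lit 228) (nat_lit 14343691584) (nat_lit 76) (nat_lit 24873162096) (nat_lit 34) (nat_lit 5) (nat_lit 37) (nat_lit 5) (nat_lit 35) (nat_lit 5) (nat_lit 343) (nat_lit 290) (nat_lit 147)) (XT.nd (nat_lit 78) (nat_lit 228) (nat_lit 0) (XT.lf (nat_lit 0) (nat_lit 42699085370) (nat_lit 152) (nat_lit 37472313147) (nat_lit 228) (nat_lit 17005818271) (nat_lit 32) (nat_lit 5) (nat_lit 34) (nat_lit 5) (nat_lit 35) (nat_lit 5) (nat_lit 344) (nat_lit 290) (nat_lit 146)) (XT.lf (nat_lit 0) (nat_lit 1858785154) (nat_lit 152) (nat_lit 4497750650) (nat_lit 228) (nat_lit 94645139673) (nat_lit 29) (nat_lit 5) (nat_lit 31) (nat_lit 5) (nat_lit 32) (nat_lit 5) (nat_lit 345) (nat_lit 290) (nat_lit 145)))) (XT.nd (nat_lit 156) (nat_lit 76) (nat_lit 0) (XT.nd (nat_lit 78) (nat_lit 152) (nat_lit 0) (XT.lf (nat_lit 0) (nat_lit 31391612128) (nat_lit 228) (nat_lit 43321326800)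 (nat_lit 76) (nat_lit 30273679076) (nat_lit 29) (nat_lit 5) (nat_lit 32) (nat_lit 5) (nat_lit 30) (nat_lit 5) (nat_lit 346) (nat_lit 290) (nat_lit 144)) (XT.lf (nat_lit 0) (nat_lit 15544492169) (nat_lit 152) (nat_lit 42326007886) (nat_lit 228) (nat_lit 51294547264) (nat_lit 27) (nat_lit 5) (nat_lit 29) (nat_lit 5) (nat_lit 30) (nat_lit 5) (nat_lit 347) (nat_lit 290) (nat_lit 143))) (XT.nd (nat_lit 78) (nat_lit 76) (nat_lit 0) (XT.lf (nat_lit 0) (nat_lit 78254271825) (nat_lit 152) (nat_lit 7862340260) (nat_lit 228) (nat_lit 27422488952) (nat_lit 27) (nat_lit 5) (nat_lit 29) (nat_lit 5) (nat_lit 30) (nat_lit 5) (nat_lit 348) (nat_lit 290) (nat_lit 142)) (XT.lf (nat_lit 0) (nat_lit 26202252265) (nat_lit 76) (nat_lit 90094356521) (nat_lit 152) (nat_lit 1819602549) (nat_lit 26) (nat_lit 5) (nat_lit 27) (nat_lit 5) (nat_lit 28) (nat_lit 4) (nat_lit 349) (nat_lit 290) (nat_lit 141))))))) (XT.nd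 (nat_lit 36660) (nat_lit 0) (nat_lit 7676) (XT.nd (nat_lit 36114) (nat_lit 0) (nat_lit 12616) (XT.nd (nat_lit 234) (nat_lit 152) (nat_lit 0) (XT.nd (nat_lit 78) (nat_lit 152) (nat_lit 0) (XT.lf (nat_lit 0) (nat_lit 25018018622) (nat_lit 152) (nat_lit 31738503087) (nat_lit 76) (nat_lit 66145118811) (nat_lit 25) (nat_lit 5) (nat_lit 27) (nat_lit 5) (nat_lit 26) (nat_lit 5) (nat_lit 350) (nat_lit 290) (nat_lit 140)) (XT.nd (nat_lit 78) (nat_lit 0) (nat_lit 0) (XT.lf (nat_lit 0) (nat_lit 32048569810) (nat_lit 152) (nat_lit 21417347932) (nat_lit 228) (nat_lit 74450703191) (nat_lit 23) (nat_lit 5) (nat_lit 25) (nat_lit 5) (nat_lit 26) (nat_lit 5) (nat_lit 351) (nat_lit 290) (nat_lit 139)) (XT.lf (nat_lit 0) (nat_lit 83814643731) (nat_lit 228) (nat_lit 33642463547) (nat_lit 76) (nat_lit 15710891192) (nat_lit 23) (nat_lit 5) (nat_lit 26) (nat_lit 5) (nat_lit 24) (nat_lit 4) (nat_lit 352) (nat_lit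 290) (nat_lit 138)))) (XT.nd (nat_lit 78) (nat_lit 76) (nat_lit 0) (XT.lf (nat_lit 0) (nat_lit 32100721770) (nat_lit 76) (nat_lit 84102604584) (nat_lit 152) (nat_lit 22462943929) (nat_lit 22) (nat_lit 5) (nat_lit 23) (nat_lit 5) (nat_lit 24) (nat_lit 4) (nat_lit 353) (nat_lit 290) (nat_lit 137)) (XT.nd (nat_lit 35724) (nat_lit 0) (nat_lit 12616) (XT.lf (nat_lit 0) (nat_lit 6006928642) (nat_lit 152) (nat_lit 42657727936) (nat_lit 76) (nat_lit 95762708325) (nat_lit 21) (nat_lit 5) (nat_lit 23) (nat_lit 5) (nat_lit 22) (nat_lit 5) (nat_lit 354) (nat_lit 290) (nat_lit 136)) (XT.lf (nat_lit 0) (nat_lit 973734798) (nat_lit 0) (nat_lit 973734798) (nat_lit 1140) (nat_lit 7403402622) (nat_lit 187) (nat_lit 5) (nat_lit 187) (nat_lit 3) (nat_lit 202) (nat_lit 3) (nat_lit 291) (nat_lit 291) (nat_lit 198))))) (XT.nd (nat_lit 234) (nat_lit 0) (nat_lit 152) (XT.nd (nat_lit 78) (nat_lit 0) (nat_lit 76) (XT.lf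 (nat_lit 0) (nat_lit 4404310801) (nat_lit 1140) (nat_lit 2934726331) (nat_lit 1216) (nat_lit 11817490463) (nat_lit 187) (nat_lit 5) (nat_lit 202) (nat_lit 3) (nat_lit 203) (nat_lit 5) (nat_lit 292) (nat_lit 291) (nat_lit 197)) (XT.nd (nat_lit 78) (nat_lit 0) (nat_lit 76) (XT.lf (nat_lit 0) (nat_lit 5117759605) (nat_lit 1140) (nat_lit 7919510818) (nat_lit 1216) (nat_lit 6591446866) (nat_lit 188) (nat_lit 5) (nat_lit 203) (nat_lit 5) (nat_lit 204) (nat_lit 5) (nat_lit 293) (nat_lit 291) (nat_lit 196)) (XT.lf (nat_lit 0) (nat_lit 6031641691) (nat_lit 1140) (nat_lit 13053796366) (nat_lit 1216) (nat_lit 1034160003) (nat_lit 189) (nat_lit 5) (nat_lit 204) (nat_lit 5) (nat_lit 205) (nat_lit 5) (nat_lit 294) (nat_lit 291) (nat_lit 195)))) (XT.nd (nat_lit 156) (nat_lit 0) (nat_lit 152) (XT.nd (nat_lit 78) (nat_lit 0) (nat_lit 76) (XT.lf (nat_lit 76) (nat_lit 2233665168) (nat_lit 0) (nat_lit 4975786087)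 (nat_lit 1216) (nat_lit 13419047868) (nat_lit 190) (nat_lit 5) (nat_lit 189) (nat_lit 5) (nat_lit 205) (nat_lit 5) (nat_lit 295) (nat_lit 291) (nat_lit 194)) (XT.lf (nat_lit 0) (nat_lit 8660056032) (nat_lit 1140) (nat_lit 2707525999) (nat_lit 1216) (nat_lit 9788868212) (nat_lit 190) (nat_lit 5) (nat_lit 205) (nat_lit 5) (nat_lit 206) (nat_lit 5) (nat_lit 296) (nat_lit 291) (nat_lit 193))) (XT.nd (nat_lit 78) (nat_lit 0) (nat_lit 0) (XT.lf (nat_lit 0) (nat_lit 10386990451) (nat_lit 1140) (nat_lit 7764494786) (nat_lit 1216) (nat_lit 3553220792) (nat_lit 191) (nat_lit 5) (nat_lit 206) (nat_lit 5) (nat_lit 207) (nat_lit 5) (nat_lit 297) (nat_lit 291) (nat_lit 192)) (XT.lf (nat_lit 76) (nat_lit 9252137928) (nat_lit 0) (nat_lit 3165039256) (nat_lit 1216) (nat_lit 9856710340) (nat_lit 192) (nat_lit 5) (nat_lit 191) (nat_lit 5) (nat_lit 207) (nat_lit 5) (nat_lit 298) (nat_lit 291) (nat_lit 191))))))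 (XT.nd (nat_lit 546) (nat_lit 3040) (nat_lit 0) (XT.nd (nat_lit 234) (nat_lit 2280) (nat_lit 0) (XT.nd (nat_lit 78) (nat_lit 0) (nat_lit 76) (XT.lf (nat_lit 76) (nat_lit 4365335999) (nat_lit 0) (nat_lit 10412788787) (nat_lit 1216) (nat_lit 8086544894) (nat_lit 193) (nat_lit 5) (nat_lit 192) (nat_lit 5) (nat_lit 208) (nat_lit 5) (nat_lit 299) (nat_lit 291) (nat_lit 190)) (XT.nd (nat_lit 78) (nat_lit 0) (nat_lit 0) (XT.lf (nat_lit 0) (nat_lit 17461416171) (nat_lit 1140) (nat_lit 682078261) (nat_lit 1216) (nat_lit 5335385840) (nat_lit 193) (nat_lit 5) (nat_lit 208) (nat_lit 5) (nat_lit 209) (nat_lit 5) (nat_lit 300) (nat_lit 291) (nat_lit 189)) (XT.lf (nat_lit 76) (nat_lit 18266830629) (nat_lit 0) (nat_lit 2279721166) (nat_lit 1216) (nat_lit 3569236560) (nat_lit 194) (nat_lit 5) (nat_lit 193) (nat_lit 5) (nat_lit 209) (nat_lit 5) (nat_lit 301) (nat_lit 291) (nat_lit 188)))) (XT.nd (nat_lit 156)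 (nat_lit 608) (nat_lit 0) (XT.nd (nat_lit 78) (nat_lit 684) (nat_lit 0) (XT.lf (nat_lit 0) (nat_lit 13507747578) (nat_lit 1140) (nat_lit 10540866420) (nat_lit 1216) (nat_lit 728064276) (nat_lit 179) (nat_lit 5) (nat_lit 194) (nat_lit 5) (nat_lit 195) (nat_lit 5) (nat_lit 302) (nat_lit 291) (nat_lit 187)) (XT.lf (nat_lit 0) (nat_lit 2425418869) (nat_lit 684) (nat_lit 16927682456) (nat_lit 76) (nat_lit 6110448545) (nat_lit 170) (nat_lit 5) (nat_lit 179) (nat_lit 5) (nat_lit 171) (nat_lit 5) (nat_lit 303) (nat_lit 291) (nat_lit 186))) (XT.nd (nat_lit 78) (nat_lit 0) (nat_lit 0) (XT.lf (nat_lit 0) (nat_lit 3324396306) (nat_lit 608) (nat_lit 2641143718) (nat_lit 684) (nat_lit 20211702677) (nat_lit 162) (nat_lit 5) (nat_lit 170) (nat_lit 5) (nat_lit 171) (nat_lit 5) (nat_lit 304) (nat_lit 291) (nat_lit 185)) (XT.lf (nat_lit 0) (nat_lit 9990779998) (nat_lit 684) (nat_lit 2134333367) (nat_lit 76)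 (nat_lit 14792277286) (nat_lit 162) (nat_lit 5) (nat_lit 171) (nat_lit 5) (nat_lit 163) (nat_lit 5) (nat_lit 305) (nat_lit 291) (nat_lit 184))))) (XT.nd (nat_lit 234) (nat_lit 1520) (nat_lit 0) (XT.nd (nat_lit 78) (nat_lit 988) (nat_lit 0) (XT.lf (nat_lit 0) (nat_lit 14478633099) (nat_lit 608) (nat_lit 7768686123) (nat_lit 76) (nat_lit 5439399444) (nat_lit 155) (nat_lit 5) (nat_lit 163) (nat_lit 5) (nat_lit 156) (nat_lit 5) (nat_lit 306) (nat_lit 291) (nat_lit 183)) (XT.nd (nat_lit 78) (nat_lit 456) (nat_lit 0) (XT.lf (nat_lit 0) (nat_lit 14779301668) (nat_lit 532) (nat_lit 4688002007) (nat_lit 608) (nat_lit 9018929232) (nat_lit 148) (nat_lit 5) (nat_lit 155) (nat_lit 5) (nat_lit 156) (nat_lit 5) (nat_lit 307) (nat_lit 291) (nat_lit 182)) (XT.lf (nat_lit 0) (nat_lit 9332590240) (nat_lit 456) (nat_lit 15665634142) (nat_lit 532) (nat_lit 4318725953) (nat_lit 142) (nat_lit 5) (nat_lit 148) (nat_lit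 5) (nat_lit 149) (nat_lit 5) (nat_lit 308) (nat_lit 291) (nat_lit 181)))) (XT.nd (nat_lit 156) (nat_lit 912) (nat_lit 0) (XT.nd (nat_lit 78) (nat_lit 0) (nat_lit 0) (XT.lf (nat_lit 0) (nat_lit 846655199) (nat_lit 608) (nat_lit 26578013832) (nat_lit 76) (nat_lit 2757101966) (nat_lit 134) (nat_lit 5) (nat_lit 142) (nat_lit 5) (nat_lit 135) (nat_lit 5) (nat_lit 309) (nat_lit 291) (nat_lit 180)) (XT.lf (nat_lit 0) (nat_lit 6538489581) (nat_lit 608) (nat_lit 2508676870) (nat_lit 76) (nat_lit 22030668932) (nat_lit 134) (nat_lit 5) (nat_lit 142) (nat_lit 5) (nat_lit 135) (nat_lit 5) (nat_lit 310) (nat_lit 291) (nat_lit 179))) (XT.nd (nat_lit 78) (nat_lit 456) (nat_lit 0) (XT.lf (nat_lit 0) (nat_lit 12829954867) (nat_lit 532) (nat_lit 8905702614) (nat_lit 76) (nat_lit 10273604373) (nat_lit 128) (nat_lit 5) (nat_lit 135) (nat_lit 5) (nat_lit 129) (nat_lit 5) (nat_lit 311) (nat_lit 291) (nat_lit 178))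 (XT.lf (nat_lit 0) (nat_lit 17298676396) (nat_lit 456) (nat_lit 2412550506) (nat_lit 532) (nat_lit 13267785307) (nat_lit 122) (nat_lit 5) (nat_lit 128) (nat_lit 5) (nat_lit 129) (nat_lit 5) (nat_lit 312) (nat_lit 291) (nat_lit 177))))))))
noncomputable def xc99 : XT := (XT.nd (nat_lit 2028) (nat_lit 1444) (nat_lit 0) (XT.nd (nat_lit 1014) (nat_lit 2508) (nat_lit 0) (XT.nd (nat_lit 468) (nat_lit 1748) (nat_lit 0) (XT.nd (nat_lit 234) (nat_lit 1064) (nat_lit 0) (XT.nd (nat_lit 78) (nat_lit 456) (nat_lit 0) (XT.lf (nat_lit 0) (nat_lit 11037894348) (nat_lit 380) (nat_lit 16261049690) (nat_lit 456) (nat_lit 6687443704) (nat_lit 117) (nat_lit 5) (nat_lit 122) (nat_lit 5) (nat_lit 123) (nat_lit 5) (nat_lit 313) (nat_lit 291) (nat_lit 176)) (XT.nd (nat_lit 78) (nat_lit 0) (nat_lit 0) (XT.lf (nat_lit 0) (nat_lit 477940764) (nat_lit 456) (nat_lit 30646512432) (nat_lit 76) (nat_lit 3911812600) (nat_lit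 111) (nat_lit 5) (nat_lit 117) (nat_lit 5) (nat_lit 112) (nat_lit 5) (nat_lit 314) (nat_lit 291) (nat_lit 175)) (XT.lf (nat_lit 0) (nat_lit 8259611915) (nat_lit 456) (nat_lit 2800508524) (nat_lit 76) (nat_lit 25064649241) (nat_lit 111) (nat_lit 5) (nat_lit 117) (nat_lit 5) (nat_lit 112) (nat_lit 5) (nat_lit 315) (nat_lit 291) (nat_lit 174)))) (XT.nd (nat_lit 78) (nat_lit 684) (nat_lit 0) (XT.lf (nat_lit 0) (nat_lit 16780921856) (nat_lit 456) (nat_lit 10404130411) (nat_lit 76) (nat_lit 10072137473) (nat_lit 106) (nat_lit 5) (nat_lit 112) (nat_lit 5) (nat_lit 107) (nat_lit 5) (nat_lit 316) (nat_lit 291) (nat_lit 173)) (XT.nd (nat_lit 78) (nat_lit 304) (nat_lit 0) (XT.lf (nat_lit 0) (nat_lit 19869310486) (nat_lit 380) (nat_lit 6183679304) (nat_lit 456) (nat_lit 12383507513) (nat_lit 101) (nat_lit 5) (nat_lit 106) (nat_lit 5) (nat_lit 107) (nat_lit 5) (nat_lit 317) (nat_lit 291) (nat_lit 172))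 (XT.lf (nat_lit 0) (nat_lit 12279415182) (nat_lit 304) (nat_lit 23881159272) (nat_lit 380) (nat_lit 3503045320) (nat_lit 97) (nat_lit 5) (nat_lit 101) (nat_lit 5) (nat_lit 102) (nat_lit 5) (nat_lit 318) (nat_lit 291) (nat_lit 171))))) (XT.nd (nat_lit 234) (nat_lit 988) (nat_lit 0) (XT.nd (nat_lit 78) (nat_lit 304) (nat_lit 0) (XT.lf (nat_lit 0) (nat_lit 4060170882) (nat_lit 380) (nat_lit 1935492957) (nat_lit 456) (nat_lit 34946127524) (nat_lit 91) (nat_lit 5) (nat_lit 96) (nat_lit 5) (nat_lit 97) (nat_lit 5) (nat_lit 319) (nat_lit 291) (nat_lit 170)) (XT.nd (nat_lit 78) (nat_lit 304) (nat_lit 0) (XT.lf (nat_lit 0) (nat_lit 16378686584) (nat_lit 456) (nat_lit 4876147869) (nat_lit 76) (nat_lit 21013547878) (nat_lit 91) (nat_lit 5) (nat_lit 97) (nat_lit 5) (nat_lit 92) (nat_lit 5) (nat_lit 320) (nat_lit 291) (nat_lit 169)) (XT.lf (nat_lit 0) (nat_lit 27591975899) (nat_lit 380) (nat_lit 14395783321)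 (nat_lit 76) (nat_lit 1664215973) (nat_lit 87) (nat_lit 5) (nat_lit 92) (nat_lit 5) (nat_lit 88) (nat_lit 5) (nat_lit 321) (nat_lit 291) (nat_lit 168)))) (XT.nd (nat_lit 156) (nat_lit 304) (nat_lit 0) (XT.nd (nat_lit 78) (nat_lit 380) (nat_lit 0) (XT.lf (nat_lit 0) (nat_lit 20266027776) (nat_lit 304) (nat_lit 19554002186) (nat_lit 380) (nat_lit 5271100264) (nat_lit 83) (nat_lit 5) (nat_lit 87) (nat_lit 5) (nat_lit 88) (nat_lit 5) (nat_lit 322) (nat_lit 291) (nat_lit 167)) (XT.lf (nat_lit 0) (nat_lit 6225358827) (nat_lit 380) (nat_lit 36133571295) (nat_lit 76) (nat_lit 4232981813) (nat_lit 78) (nat_lit 5) (nat_lit 83) (nat_lit 5) (nat_lit 79) (nat_lit 5) (nat_lit 323) (nat_lit 291) (nat_lit 166))) (XT.nd (nat_lit 78) (nat_lit 304) (nat_lit 0) (XT.lf (nat_lit 0) (nat_lit 18638475915) (nat_lit 380) (nat_lit 396450239) (nat_lit 76) (nat_lit 29117720292) (nat_lit 78) (nat_lit 5) (nat_lit 83) (nat_lit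 5) (nat_lit 79) (nat_lit 5) (nat_lit 324) (nat_lit 291) (nat_lit 165)) (XT.lf (nat_lit 0) (nat_lit 32086847206) (nat_lit 380) (nat_lit 11978033990) (nat_lit 76) (nat_lit 5714103177) (nat_lit 74) (nat_lit 5) (nat_lit 79) (nat_lit 5) (nat_lit 75) (nat_lit 5) (nat_lit 325) (nat_lit 291) (nat_lit 164)))))) (XT.nd (nat_lit 468) (nat_lit 1140) (nat_lit 0) (XT.nd (nat_lit 234) (nat_lit 532) (nat_lit 0) (XT.nd (nat_lit 78) (nat_lit 608) (nat_lit 0) (XT.lf (nat_lit 0) (nat_lit 26752305621) (nat_lit 228) (nat_lit 19903555273) (nat_lit 304) (nat_lit 4817336008) (nat_lit 71) (nat_lit 5) (nat_lit 74) (nat_lit 5) (nat_lit 75) (nat_lit 5) (nat_lit 326) (nat_lit 291) (nat_lit 163)) (XT.nd (nat_lit 78) (nat_lit 228) (nat_lit 0) (XT.lf (nat_lit 0) (nat_lit 8847326534) (nat_lit 380) (nat_lit 38683872571) (nat_lit 76) (nat_lit 5708938404) (nat_lit 66) (nat_lit 5) (nat_lit 71) (nat_lit 5) (nat_lit 67) (nat_lit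 5) (nat_lit 327) (nat_lit 291) (nat_lit 162)) (XT.lf (nat_lit 0) (nat_lit 985932063) (nat_lit 228) (nat_lit 22573044659) (nat_lit 304) (nat_lit 31521119893) (nat_lit 63) (nat_lit 5) (nat_lit 66) (nat_lit 5) (nat_lit 67) (nat_lit 5) (nat_lit 328) (nat_lit 291) (nat_lit 161)))) (XT.nd (nat_lit 78) (nat_lit 532) (nat_lit 0) (XT.lf (nat_lit 0) (nat_lit 39438523453) (nat_lit 304) (nat_lit 13598634360) (nat_lit 76) (nat_lit 3961930149) (nat_lit 63) (nat_lit 5) (nat_lit 67) (nat_lit 5) (nat_lit 64) (nat_lit 5) (nat_lit 329) (nat_lit 291) (nat_lit 160)) (XT.nd (nat_lit 78) (nat_lit 304) (nat_lit 0) (XT.lf (nat_lit 0) (nat_lit 29257841341) (nat_lit 228) (nat_lit 27358744872) (nat_lit 304) (nat_lit 2382310033) (nat_lit 60) (nat_lit 5) (nat_lit 63) (nat_lit 5) (nat_lit 64) (nat_lit 5) (nat_lit 330) (nat_lit 291) (nat_lit 159)) (XT.lf (nat_lit 0) (nat_lit 13557910994) (nat_lit 304) (nat_lit 47513735015)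 (nat_lit 76) (nat_lit 15116537) (nat_lit 56) (nat_lit 5) (nat_lit 60) (nat_lit 5) (nat_lit 57) (nat_lit 5) (nat_lit 331) (nat_lit 291) (nat_lit 158))))) (XT.nd (nat_lit 234) (nat_lit 684) (nat_lit 0) (XT.nd (nat_lit 78) (nat_lit 456) (nat_lit 0) (XT.lf (nat_lit 0) (nat_lit 30827348135) (nat_lit 304) (nat_lit 3905466502) (nat_lit 76) (nat_lit 28528058768) (nat_lit 56) (nat_lit 5) (nat_lit 60) (nat_lit 5) (nat_lit 57) (nat_lit 5) (nat_lit 332) (nat_lit 291) (nat_lit 157)) (XT.nd (nat_lit 78) (nat_lit 228) (nat_lit 0) (XT.lf (nat_lit 0) (nat_lit 42710237623) (nat_lit 228) (nat_lit 6656470972) (nat_lit 304) (nat_lit 16164790629) (nat_lit 53) (nat_lit 5) (nat_lit 56) (nat_lit 5) (nat_lit 57) (nat_lit 5) (nat_lit 333) (nat_lit 291) (nat_lit 156)) (XT.lf (nat_lit 0) (nat_lit 1391657751) (nat_lit 228) (nat_lit 43847269033) (nat_lit 76) (nat_lit 22661702383) (nat_lit 50) (nat_lit 5) (nat_lit 53) (nat_lit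 5) (nat_lit 51) (nat_lit 5) (nat_lit 334) (nat_lit 291) (nat_lit 155)))) (XT.nd (nat_lit 156) (nat_lit 456) (nat_lit 0) (XT.nd (nat_lit 78) (nat_lit 0) (nat_lit 0) (XT.lf (nat_lit 0) (nat_lit 3190816267) (nat_lit 228) (nat_lit 16635114199) (nat_lit 304) (nat_lit 50547456888) (nat_lit 47) (nat_lit 5) (nat_lit 50) (nat_lit 5) (nat_lit 51) (nat_lit 5) (nat_lit 335) (nat_lit 291) (nat_lit 154)) (XT.lf (nat_lit 0) (nat_lit 39762757585) (nat_lit 304) (nat_lit 19598564233) (nat_lit 76) (nat_lit 13591038893) (nat_lit 47) (nat_lit 5) (nat_lit 51) (nat_lit 5) (nat_lit 48) (nat_lit 5) (nat_lit 336) (nat_lit 291) (nat_lit 153))) (XT.nd (nat_lit 78) (nat_lit 304) (nat_lit 0) (XT.lf (nat_lit 0) (nat_lit 30791751731) (nat_lit 152) (nat_lit 30364950962) (nat_lit 228) (nat_lit 14489774110) (nat_lit 45) (nat_lit 5) (nat_lit 47) (nat_lit 5) (nat_lit 48) (nat_lit 5) (nat_lit 337) (nat_lit 291) (nat_lit 152))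 (XT.lf (nat_lit 0) (nat_lit 5303421828) (nat_lit 304) (nat_lit 72774147851) (nat_lit 76) (nat_lit 388484270) (nat_lit 41) (nat_lit 5) (nat_lit 45) (nat_lit 5) (nat_lit 42) (nat_lit 5) (nat_lit 338) (nat_lit 291) (nat_lit 151))))))) (XT.nd (nat_lit 1014) (nat_lit 228) (nat_lit 0) (XT.nd (nat_lit 468) (nat_lit 684) (nat_lit 0) (XT.nd (nat_lit 234) (nat_lit 228) (nat_lit 0) (XT.nd (nat_lit 78) (nat_lit 304) (nat_lit 0) (XT.lf (nat_lit 0) (nat_lit 26558744494) (nat_lit 304) (nat_lit 22172529244) (nat_lit 76) (nat_lit 32667870274) (nat_lit 41) (nat_lit 5) (nat_lit 45) (nat_lit 5) (nat_lit 42) (nat_lit 5) (nat_lit 339) (nat_lit 291) (nat_lit 150)) (XT.nd (nat_lit 78) (nat_lit 152) (nat_lit 0) (XT.lf (nat_lit 0) (nat_lit 31569810188) (nat_lit 152) (nat_lit 17607214948) (nat_lit 228) (nat_lit 35292859670) (nat_lit 39) (nat_lit 5) (nat_lit 41) (nat_lit 5) (nat_lit 42) (nat_lit 5) (nat_lit 340) (nat_lit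 291) (nat_lit 149)) (XT.lf (nat_lit 0) (nat_lit 635213013) (nat_lit 152) (nat_lit 72669319857) (nat_lit 228) (nat_lit 14378282268) (nat_lit 37) (nat_lit 5) (nat_lit 39) (nat_lit 5) (nat_lit 40) (nat_lit 5) (nat_lit 341) (nat_lit 291) (nat_lit 148)))) (XT.nd (nat_lit 78) (nat_lit 152) (nat_lit 0) (XT.lf (nat_lit 0) (nat_lit 8158615626) (nat_lit 228) (nat_lit 33348557161) (nat_lit 76) (nat_lit 49525298127) (nat_lit 36) (nat_lit 5) (nat_lit 39) (nat_lit 5) (nat_lit 37) (nat_lit 5) (nat_lit 342) (nat_lit 291) (nat_lit 147)) (XT.nd (nat_lit 78) (nat_lit 0) (nat_lit 0) (XT.lf (nat_lit 0) (nat_lit 23340794447) (nat_lit 152) (nat_lit 8408356961) (nat_lit 228) (nat_lit 62789464219) (nat_lit 34) (nat_lit 5) (nat_lit 36) (nat_lit 5) (nat_lit 37) (nat_lit 5) (nat_lit 343) (nat_lit 291) (nat_lit 146)) (XT.lf (nat_lit 0) (nat_lit 57116258784) (nat_lit 228) (nat_lit 14909826617) (nat_lit 76) (nat_lit 26176072417)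 (nat_lit 34) (nat_lit 5) (nat_lit 37) (nat_lit 5) (nat_lit 35) (nat_lit 5) (nat_lit 344) (nat_lit 291) (nat_lit 145))))) (XT.nd (nat_lit 234) (nat_lit 304) (nat_lit 0) (XT.nd (nat_lit 78) (nat_lit 228) (nat_lit 0) (XT.lf (nat_lit 0) (nat_lit 44980759380) (nat_lit 152) (nat_lit 39285454006) (nat_lit 228) (nat_lit 17767230484) (nat_lit 32) (nat_lit 5) (nat_lit 34) (nat_lit 5) (nat_lit 35) (nat_lit 5) (nat_lit 345) (nat_lit 291) (nat_lit 144)) (XT.nd (nat_lit 78) (nat_lit 0) (nat_lit 0) (XT.lf (nat_lit 0) (nat_lit 2095966856) (nat_lit 152) (nat_lit 4662776910) (nat_lit 228) (nat_lit 99290441139) (nat_lit 29) (nat_lit 5) (nat_lit 31) (nat_lit 5) (nat_lit 32) (nat_lit 5) (nat_lit 346) (nat_lit 291) (nat_lit 143)) (XT.lf (nat_lit 0) (nat_lit 33042103778) (nat_lit 228) (nat_lit 45348115648) (nat_lit 76) (nat_lit 31843261280) (nat_lit 29) (nat_lit 5) (nat_lit 32) (nat_lit 5) (nat_lit 30) (nat_lit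 5) (nat_lit 347) (nat_lit 291) (nat_lit 142)))) (XT.nd (nat_lit 156) (nat_lit 152) (nat_lit 0) (XT.nd (nat_lit 78) (nat_lit 0) (nat_lit 0) (XT.lf (nat_lit 0) (nat_lit 16457001908) (nat_lit 152) (nat_lit 44385381729) (nat_lit 228) (nat_lit 53778526369) (nat_lit 27) (nat_lit 5) (nat_lit 29) (nat_lit 5) (nat_lit 30) (nat_lit 5) (nat_lit 348) (nat_lit 291) (nat_lit 141)) (XT.lf (nat_lit 0) (nat_lit 82295828398) (nat_lit 152) (nat_lit 8201241509) (nat_lit 228) (nat_lit 28716710297) (nat_lit 27) (nat_lit 5) (nat_lit 29) (nat_lit 5) (nat_lit 30) (nat_lit 5) (nat_lit 349) (nat_lit 291) (nat_lit 140))) (XT.nd (nat_lit 78) (nat_lit 76) (nat_lit 0) (XT.lf (nat_lit 0) (nat_lit 27639219032) (nat_lit 76) (nat_lit 94545009472) (nat_lit 152) (nat_lit 1835574416) (nat_lit 26) (nat_lit 5) (nat_lit 27) (nat_lit 5) (nat_lit 28) (nat_lit 4) (nat_lit 350) (nat_lit 291) (nat_lit 139)) (XT.lf (nat_lit 0) (nat_lit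 26338962010) (nat_lit 152) (nat_lit 33203188137) (nat_lit 76) (nat_lit 69502438484) (nat_lit 25) (nat_lit 5) (nat_lit 27) (nat_lit 5) (nat_lit 26) (nat_lit 5) (nat_lit 351) (nat_lit 291) (nat_lit 138)))))) (XT.nd (nat_lit 36270) (nat_lit 0) (nat_lit 12692) (XT.nd (nat_lit 35958) (nat_lit 0) (nat_lit 12540) (XT.nd (nat_lit 78) (nat_lit 76) (nat_lit 0) (XT.lf (nat_lit 0) (nat_lit 33769734417) (nat_lit 152) (nat_lit 22437327678) (nat_lit 228) (nat_lit 78103323343) (nat_lit 23) (nat_lit 5) (nat_lit 25) (nat_lit 5) (nat_lit 26) (nat_lit 5) (nat_lit 352) (nat_lit 291) (nat_lit 137)) (XT.nd (nat_lit 78) (nat_lit 76) (nat_lit 0) (XT.lf (nat_lit 0) (nat_lit 88070459373) (nat_lit 228) (nat_lit 35210002443) (nat_lit 76) (nat_lit 16543954466) (nat_lit 23) (nat_lit 5) (nat_lit 26) (nat_lit 5) (nat_lit 24) (nat_lit 4) (nat_lit 353) (nat_lit 291) (nat_lit 136)) (XT.lf (nat_lit 0) (nat_lit 33817057605) (nat_lit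 76) (nat_lit 88259489193) (nat_lit 152) (nat_lit 23521117179) (nat_lit 22) (nat_lit 5) (nat_lit 23) (nat_lit 5) (nat_lit 24) (nat_lit 4) (nat_lit 354) (nat_lit 291) (nat_lit 135)))) (XT.nd (nat_lit 156) (nat_lit 0) (nat_lit 76) (XT.nd (nat_lit 78) (nat_lit 0) (nat_lit 0) (XT.lf (nat_lit 0) (nat_lit 1168179936) (nat_lit 0) (nat_lit 1168179936) (nat_lit 1140) (nat_lit 7472916196) (nat_lit 187) (nat_lit 5) (nat_lit 187) (nat_lit 3) (nat_lit 202) (nat_lit 3) (nat_lit 292) (nat_lit 292) (nat_lit 196)) (XT.lf (nat_lit 0) (nat_lit 5177127632) (nat_lit 1140) (nat_lit 2783749739) (nat_lit 1216) (nat_lit 12136147601) (nat_lit 187) (nat_lit 5) (nat_lit 202) (nat_lit 3) (nat_lit 203) (nat_lit 5) (nat_lit 293) (nat_lit 292) (nat_lit 195))) (XT.nd (nat_lit 78) (nat_lit 0) (nat_lit 76) (XT.lf (nat_lit 0) (nat_lit 5900408348) (nat_lit 1140) (nat_lit 8007414178) (nat_lit 1216) (nat_lit 6685812601) (nat_lit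 188) (nat_lit 5) (nat_lit 203) (nat_lit 5) (nat_lit 204) (nat_lit 5) (nat_lit 294) (nat_lit 292) (nat_lit 194)) (XT.lf (nat_lit 0) (nat_lit 6835803599) (nat_lit 1140) (nat_lit 13389453497) (nat_lit 1216) (nat_lit 884562327) (nat_lit 189) (nat_lit 5) (nat_lit 204) (nat_lit 5) (nat_lit 205) (nat_lit 5) (nat_lit 295) (nat_lit 292) (nat_lit 193))))) (XT.nd (nat_lit 234) (nat_lit 0) (nat_lit 152) (XT.nd (nat_lit 78) (nat_lit 0) (nat_lit 76) (XT.lf (nat_lit 76) (nat_lit 2653293436) (nat_lit 0) (nat_lit 5398237988) (nat_lit 1216) (nat_lit 13593295716) (nat_lit 190) (nat_lit 5) (nat_lit 189) (nat_lit 5) (nat_lit 205) (nat_lit 5) (nat_lit 296) (nat_lit 292) (nat_lit 192)) (XT.nd (nat_lit 78) (nat_lit 0) (nat_lit 76) (XT.lf (nat_lit 0) (nat_lit 9550142886) (nat_lit 1140) (nat_lit 2533653441) (nat_lit 1216) (nat_lit 10116146086) (nat_lit 190) (nat_lit 5) (nat_lit 205) (nat_lit 5) (nat_lit 206) (nat_lit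 5) (nat_lit 297) (nat_lit 292) (nat_lit 191)) (XT.lf (nat_lit 0) (nat_lit 11343220774) (nat_lit 1140) (nat_lit 7837275832) (nat_lit 1216) (nat_lit 3595749901) (nat_lit 191) (nat_lit 5) (nat_lit 206) (nat_lit 5) (nat_lit 207) (nat_lit 5) (nat_lit 298) (nat_lit 292) (nat_lit 190)))) (XT.nd (nat_lit 156) (nat_lit 0) (nat_lit 152) (XT.nd (nat_lit 78) (nat_lit 0) (nat_lit 76) (XT.lf (nat_lit 76) (nat_lit 10021146388) (nat_lit 0) (nat_lit 3435911928) (nat_lit 1216) (nat_lit 9917392536) (nat_lit 192) (nat_lit 5) (nat_lit 191) (nat_lit 5) (nat_lit 207) (nat_lit 5) (nat_lit 299) (nat_lit 292) (nat_lit 189)) (XT.lf (nat_lit 76) (nat_lit 4895027620) (nat_lit 0) (nat_lit 11023034813) (nat_lit 1216) (nat_lit 8077276092) (nat_lit 193) (nat_lit 5) (nat_lit 192) (nat_lit 5) (nat_lit 208) (nat_lit 5) (nat_lit 300) (nat_lit 292) (nat_lit 188))) (XT.nd (nat_lit 78) (nat_lit 0) (nat_lit 0) (XT.lf (nat_lit 0)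 (nat_lit 18715601317) (nat_lit 1140) (nat_lit 406800447) (nat_lit 1216) (nat_lit 5518480808) (nat_lit 193) (nat_lit 5) (nat_lit 208) (nat_lit 5) (nat_lit 209) (nat_lit 5) (nat_lit 301) (nat_lit 292) (nat_lit 187)) (XT.lf (nat_lit 76) (nat_lit 19480685523) (nat_lit 0) (nat_lit 2459048616) (nat_lit 1216) (nat_lit 3370383913) (nat_lit 194) (nat_lit 5) (nat_lit 193) (nat_lit 5) (nat_lit 209) (nat_lit 5) (nat_lit 302) (nat_lit 292) (nat_lit 186))))))))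
noncomputable def xc100 : XT := (XT.nd (nat_lit 2028) (nat_lit 3268) (nat_lit 0) (XT.nd (nat_lit 1014) (nat_lit 3420) (nat_lit 0) (XT.nd (nat_lit 468) (nat_lit 2812) (nat_lit 0) (XT.nd (nat_lit 234) (nat_lit 1064) (nat_lit 0) (XT.nd (nat_lit 78) (nat_lit 1292) (nat_lit 0) (XT.lf (nat_lit 0) (nat_lit 14486775491) (nat_lit 1140) (nat_lit 11115022893) (nat_lit 1216) (nat_lit 402730166) (nat_lit 179) (nat_lit 5) (nat_lit 194) (nat_lit 5) (nat_lit 195) (nat_lit 5) (nat_lit 303) (nat_lit 292) (nat_lit 185)) (XT.nd (nat_lit 78) (nat_lit 608) (nat_lit 0) (XT.lf (nat_lit 0) (nat_lit 2887014322) (nat_lit 684) (nat_lit 17460821737) (nat_lit 76) (nat_lit 6378255284) (nat_lit 170) (nat_lit 5) (nat_lit 179) (nat_lit 5) (nat_lit 171) (nat_lit 5) (nat_lit 304) (nat_lit 292) (nat_lit 184)) (XT.lf (nat_lit 0) (nat_lit 3794881862) (nat_lit 608) (nat_lit 2795978533) (nat_lit 684) (nat_lit 20885027155) (nat_lit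 162) (nat_lit 5) (nat_lit 170) (nat_lit 5) (nat_lit 171) (nat_lit 5) (nat_lit 305) (nat_lit 292) (nat_lit 183)))) (XT.nd (nat_lit 78) (nat_lit 1064) (nat_lit 0) (XT.lf (nat_lit 0) (nat_lit 10801580348) (nat_lit 684) (nat_lit 1941333864) (nat_lit 76) (nat_lit 15510621479) (nat_lit 162) (nat_lit 5) (nat_lit 171) (nat_lit 5) (nat_lit 163) (nat_lit 5) (nat_lit 306) (nat_lit 292) (nat_lit 182)) (XT.nd (nat_lit 78) (nat_lit 532) (nat_lit 0) (XT.lf (nat_lit 0) (nat_lit 15501724618) (nat_lit 608) (nat_lit 7856572198) (nat_lit 76) (nat_lit 5703414746) (nat_lit 155) (nat_lit 5) (nat_lit 163) (nat_lit 5) (nat_lit 156) (nat_lit 5) (nat_lit 307) (nat_lit 292) (nat_lit 181)) (XT.lf (nat_lit 0) (nat_lit 15810199827) (nat_lit 532) (nat_lit 4918189427) (nat_lit 608) (nat_lit 9173172981) (nat_lit 148) (nat_lit 5) (nat_lit 155) (nat_lit 5) (nat_lit 156) (nat_lit 5) (nat_lit 308) (nat_lit 292) (nat_lit 180)))))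 (XT.nd (nat_lit 234) (nat_lit 1748) (nat_lit 0) (XT.nd (nat_lit 78) (nat_lit 608) (nat_lit 0) (XT.lf (nat_lit 0) (nat_lit 10091470132) (nat_lit 456) (nat_lit 16433532750) (nat_lit 532) (nat_lit 4249154947) (nat_lit 142) (nat_lit 5) (nat_lit 148) (nat_lit 5) (nat_lit 149) (nat_lit 5) (nat_lit 309) (nat_lit 292) (nat_lit 179)) (XT.nd (nat_lit 78) (nat_lit 0) (nat_lit 0) (XT.lf (nat_lit 0) (nat_lit 1158571781) (nat_lit 608) (nat_lit 27609118634) (nat_lit 76) (nat_lit 2914772782) (nat_lit 134) (nat_lit 5) (nat_lit 142) (nat_lit 5) (nat_lit 135) (nat_lit 5) (nat_lit 310) (nat_lit 292) (nat_lit 178)) (XT.lf (nat_lit 0) (nat_lit 7122160557) (nat_lit 608) (nat_lit 2350495580) (nat_lit 76) (nat_lit 23151074491) (nat_lit 134) (nat_lit 5) (nat_lit 142) (nat_lit 5) (nat_lit 135) (nat_lit 5) (nat_lit 311) (nat_lit 292) (nat_lit 177)))) (XT.nd (nat_lit 156) (nat_lit 836) (nat_lit 0) (XT.nd (nat_lit 78)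 (nat_lit 456) (nat_lit 0) (XT.lf (nat_lit 0) (nat_lit 13718893416) (nat_lit 532) (nat_lit 9068079399) (nat_lit 76) (nat_lit 10815048785) (nat_lit 128) (nat_lit 5) (nat_lit 135) (nat_lit 5) (nat_lit 129) (nat_lit 5) (nat_lit 312) (nat_lit 292) (nat_lit 176)) (XT.lf (nat_lit 0) (nat_lit 18438409050) (nat_lit 456) (nat_lit 2496678641) (nat_lit 532) (nat_lit 13685459362) (nat_lit 122) (nat_lit 5) (nat_lit 128) (nat_lit 5) (nat_lit 129) (nat_lit 5) (nat_lit 313) (nat_lit 292) (nat_lit 175))) (XT.nd (nat_lit 78) (nat_lit 456) (nat_lit 0) (XT.lf (nat_lit 0) (nat_lit 11863573245) (nat_lit 380) (nat_lit 17030235775) (nat_lit 456) (nat_lit 6784746497) (nat_lit 117) (nat_lit 5) (nat_lit 122) (nat_lit 5) (nat_lit 123) (nat_lit 5) (nat_lit 314) (nat_lit 292) (nat_lit 174)) (XT.lf (nat_lit 0) (nat_lit 726263067) (nat_lit 456) (nat_lit 31901663378) (nat_lit 76) (nat_lit 4153184950) (nat_lit 111) (nat_lit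 5) (nat_lit 117) (nat_lit 5) (nat_lit 112) (nat_lit 5) (nat_lit 315) (nat_lit 292) (nat_lit 173)))))) (XT.nd (nat_lit 468) (nat_lit 1900) (nat_lit 0) (XT.nd (nat_lit 234) (nat_lit 760) (nat_lit 0) (XT.nd (nat_lit 78) (nat_lit 760) (nat_lit 0) (XT.lf (nat_lit 0) (nat_lit 8886330859) (nat_lit 456) (nat_lit 2676558069) (nat_lit 76) (nat_lit 26361483341) (nat_lit 111) (nat_lit 5) (nat_lit 117) (nat_lit 5) (nat_lit 112) (nat_lit 5) (nat_lit 316) (nat_lit 292) (nat_lit 172)) (XT.nd (nat_lit 78) (nat_lit 380) (nat_lit 0) (XT.lf (nat_lit 0) (nat_lit 17826477362) (nat_lit 456) (nat_lit 10662018344) (nat_lit 76) (nat_lit 10625145149) (nat_lit 106) (nat_lit 5) (nat_lit 112) (nat_lit 5) (nat_lit 107) (nat_lit 5) (nat_lit 317) (nat_lit 292) (nat_lit 171)) (XT.lf (nat_lit 0) (nat_lit 21117575289) (nat_lit 380) (nat_lit 6437188910) (nat_lit 456) (nat_lit 12797381280) (nat_lit 101) (nat_lit 5) (nat_lit 106)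 (nat_lit 5) (nat_lit 107) (nat_lit 5) (nat_lit 318) (nat_lit 292) (nat_lit 170)))) (XT.nd (nat_lit 78) (nat_lit 456) (nat_lit 0) (XT.lf (nat_lit 0) (nat_lit 13146361251) (nat_lit 304) (nat_lit 25014826149) (nat_lit 380) (nat_lit 3479642556) (nat_lit 97) (nat_lit 5) (nat_lit 101) (nat_lit 5) (nat_lit 102) (nat_lit 5) (nat_lit 319) (nat_lit 292) (nat_lit 169)) (XT.nd (nat_lit 78) (nat_lit 0) (nat_lit 0) (XT.lf (nat_lit 0) (nat_lit 4512848982) (nat_lit 380) (nat_lit 1970408032) (nat_lit 456) (nat_lit 36499810904) (nat_lit 91) (nat_lit 5) (nat_lit 96) (nat_lit 5) (nat_lit 97) (nat_lit 5) (nat_lit 320) (nat_lit 292) (nat_lit 168)) (XT.lf (nat_lit 0) (nat_lit 17377053879) (nat_lit 456) (nat_lit 4877204846) (nat_lit 76) (nat_lit 22121989529) (nat_lit 91) (nat_lit 5) (nat_lit 97) (nat_lit 5) (nat_lit 92) (nat_lit 5) (nat_lit 321) (nat_lit 292) (nat_lit 167))))) (XT.nd (nat_lit 234) (nat_lit 912)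 (nat_lit 0) (XT.nd (nat_lit 78) (nat_lit 684) (nat_lit 0) (XT.lf (nat_lit 0) (nat_lit 29145331915) (nat_lit 380) (nat_lit 14875025813) (nat_lit 76) (nat_lit 1808841408) (nat_lit 87) (nat_lit 5) (nat_lit 92) (nat_lit 5) (nat_lit 88) (nat_lit 5) (nat_lit 322) (nat_lit 292) (nat_lit 166)) (XT.nd (nat_lit 78) (nat_lit 380) (nat_lit 0) (XT.lf (nat_lit 0) (nat_lit 21512980616) (nat_lit 304) (nat_lit 20465779912) (nat_lit 380) (nat_lit 5361739956) (nat_lit 83) (nat_lit 5) (nat_lit 87) (nat_lit 5) (nat_lit 88) (nat_lit 5) (nat_lit 323) (nat_lit 292) (nat_lit 165)) (XT.lf (nat_lit 0) (nat_lit 6700950136) (nat_lit 380) (nat_lit 37705460809) (nat_lit 76) (nat_lit 4510024139) (nat_lit 78) (nat_lit 5) (nat_lit 83) (nat_lit 5) (nat_lit 79) (nat_lit 5) (nat_lit 324) (nat_lit 292) (nat_lit 164)))) (XT.nd (nat_lit 156) (nat_lit 608) (nat_lit 0) (XT.nd (nat_lit 78) (nat_lit 304) (nat_lit 0) (XT.lf (nat_lit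 0) (nat_lit 19726898156) (nat_lit 380) (nat_lit 192664131) (nat_lit 76) (nat_lit 30635885578) (nat_lit 78) (nat_lit 5) (nat_lit 83) (nat_lit 5) (nat_lit 79) (nat_lit 5) (nat_lit 325) (nat_lit 292) (nat_lit 163)) (XT.lf (nat_lit 0) (nat_lit 33842958610) (nat_lit 380) (nat_lit 12355708328) (nat_lit 76) (nat_lit 6064584107) (nat_lit 74) (nat_lit 5) (nat_lit 79) (nat_lit 5) (nat_lit 75) (nat_lit 5) (nat_lit 326) (nat_lit 292) (nat_lit 162))) (XT.nd (nat_lit 78) (nat_lit 380) (nat_lit 0) (XT.lf (nat_lit 0) (nat_lit 28304806825) (nat_lit 228) (nat_lit 20830454674) (nat_lit 304) (nat_lit 4907073710) (nat_lit 71) (nat_lit 5) (nat_lit 74) (nat_lit 5) (nat_lit 75) (nat_lit 5) (nat_lit 327) (nat_lit 292) (nat_lit 161)) (XT.lf (nat_lit 0) (nat_lit 9433510679) (nat_lit 380) (nat_lit 40402609256) (nat_lit 76) (nat_lit 6061595897) (nat_lit 66) (nat_lit 5) (nat_lit 71) (nat_lit 5) (nat_lit 67) (nat_lit 5)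 (nat_lit 328) (nat_lit 292) (nat_lit 160))))))) (XT.nd (nat_lit 1014) (nat_lit 1216) (nat_lit 0) (XT.nd (nat_lit 468) (nat_lit 1064) (nat_lit 0) (XT.nd (nat_lit 234) (nat_lit 532) (nat_lit 0) (XT.nd (nat_lit 78) (nat_lit 228) (nat_lit 0) (XT.lf (nat_lit 0) (nat_lit 1244509579) (nat_lit 228) (nat_lit 23631397066) (nat_lit 304) (nat_lit 32953916780) (nat_lit 63) (nat_lit 5) (nat_lit 66) (nat_lit 5) (nat_lit 67) (nat_lit 5) (nat_lit 329) (nat_lit 292) (nat_lit 159)) (XT.nd (nat_lit 78) (nat_lit 228) (nat_lit 0) (XT.lf (nat_lit 0) (nat_lit 41543456151) (nat_lit 304) (nat_lit 14075820203) (nat_lit 76) (nat_lit 4225672393) (nat_lit 63) (nat_lit 5) (nat_lit 67) (nat_lit 5) (nat_lit 64) (nat_lit 5) (nat_lit 330) (nat_lit 292) (nat_lit 158)) (XT.lf (nat_lit 0) (nat_lit 30917667613) (nat_lit 228) (nat_lit 28658313845) (nat_lit 304) (nat_lit 2368904131) (nat_lit 60) (nat_lit 5) (nat_lit 63) (nat_lit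 5) (nat_lit 64) (nat_lit 5) (nat_lit 331) (nat_lit 292) (nat_lit 157)))) (XT.nd (nat_lit 78) (nat_lit 228) (nat_lit 0) (XT.lf (nat_lit 0) (nat_lit 14362074771) (nat_lit 304) (nat_lit 49692324856) (nat_lit 76) (nat_lit 82821929) (nat_lit 56) (nat_lit 5) (nat_lit 60) (nat_lit 5) (nat_lit 57) (nat_lit 5) (nat_lit 332) (nat_lit 292) (nat_lit 156)) (XT.nd (nat_lit 78) (nat_lit 228) (nat_lit 0) (XT.lf (nat_lit 0) (nat_lit 32488970996) (nat_lit 304) (nat_lit 3913028484) (nat_lit 76) (nat_lit 30018223197) (nat_lit 56) (nat_lit 5) (nat_lit 60) (nat_lit 5) (nat_lit 57) (nat_lit 5) (nat_lit 333) (nat_lit 292) (nat_lit 155)) (XT.lf (nat_lit 0) (nat_lit 45028080139) (nat_lit 228) (nat_lit 6923245564) (nat_lit 304) (nat_lit 16853177429) (nat_lit 53) (nat_lit 5) (nat_lit 56) (nat_lit 5) (nat_lit 57) (nat_lit 5) (nat_lit 334) (nat_lit 292) (nat_lit 154))))) (XT.nd (nat_lit 234) (nat_lit 608) (nat_lit 0)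 (XT.nd (nat_lit 78) (nat_lit 228) (nat_lit 0) (XT.lf (nat_lit 0) (nat_lit 1575516340) (nat_lit 228) (nat_lit 45857325646) (nat_lit 76) (nat_lit 23859313990) (nat_lit 50) (nat_lit 5) (nat_lit 53) (nat_lit 5) (nat_lit 51) (nat_lit 5) (nat_lit 335) (nat_lit 292) (nat_lit 153)) (XT.nd (nat_lit 78) (nat_lit 0) (nat_lit 0) (XT.lf (nat_lit 0) (nat_lit 3527438131) (nat_lit 228) (nat_lit 17400325072) (nat_lit 304) (nat_lit 52960904692) (nat_lit 47) (nat_lit 5) (nat_lit 50) (nat_lit 5) (nat_lit 51) (nat_lit 5) (nat_lit 336) (nat_lit 292) (nat_lit 152)) (XT.lf (nat_lit 0) (nat_lit 41856777257) (nat_lit 304) (nat_lit 20407225580) (nat_lit 76) (nat_lit 14332730179) (nat_lit 47) (nat_lit 5) (nat_lit 51) (nat_lit 5) (nat_lit 48) (nat_lit 5) (nat_lit 337) (nat_lit 292) (nat_lit 151)))) (XT.nd (nat_lit 156) (nat_lit 152) (nat_lit 0) (XT.nd (nat_lit 78) (nat_lit 304) (nat_lit 0) (XT.lf (nat_lit 0) (nat_lit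 32497696852) (nat_lit 152) (nat_lit 31819279909) (nat_lit 228) (nat_lit 15108684735) (nat_lit 45) (nat_lit 5) (nat_lit 47) (nat_lit 5) (nat_lit 48) (nat_lit 5) (nat_lit 338) (nat_lit 292) (nat_lit 150)) (XT.lf (nat_lit 0) (nat_lit 5669364806) (nat_lit 304) (nat_lit 76246747399) (nat_lit 76) (nat_lit 470160279) (nat_lit 41) (nat_lit 5) (nat_lit 45) (nat_lit 5) (nat_lit 42) (nat_lit 5) (nat_lit 339) (nat_lit 292) (nat_lit 149))) (XT.nd (nat_lit 78) (nat_lit 152) (nat_lit 0) (XT.lf (nat_lit 0) (nat_lit 27982654944) (nat_lit 304) (nat_lit 23122957758) (nat_lit 76) (nat_lit 34360551212) (nat_lit 41) (nat_lit 5) (nat_lit 45) (nat_lit 5) (nat_lit 42) (nat_lit 5) (nat_lit 340) (nat_lit 292) (nat_lit 148)) (XT.lf (nat_lit 0) (nat_lit 33301963933) (nat_lit 152) (nat_lit 18426792637) (nat_lit 228) (nat_lit 36961780736) (nat_lit 39) (nat_lit 5) (nat_lit 41) (nat_lit 5) (nat_lit 42) (nat_lit 5) (nat_lit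 341) (nat_lit 292) (nat_lit 147)))))) (XT.nd (nat_lit 546) (nat_lit 456) (nat_lit 0) (XT.nd (nat_lit 234) (nat_lit 380) (nat_lit 0) (XT.nd (nat_lit 78) (nat_lit 228) (nat_lit 0) (XT.lf (nat_lit 0) (nat_lit 818424920) (nat_lit 152) (nat_lit 76241804208) (nat_lit 228) (nat_lit 15003959979) (nat_lit 37) (nat_lit 5) (nat_lit 39) (nat_lit 5) (nat_lit 40) (nat_lit 5) (nat_lit 342) (nat_lit 292) (nat_lit 146)) (XT.nd (nat_lit 78) (nat_lit 152) (nat_lit 0) (XT.lf (nat_lit 0) (nat_lit 8653610240) (nat_lit 228) (nat_lit 34869964258) (nat_lit 76) (nat_lit 52057859319) (nat_lit 36) (nat_lit 5) (nat_lit 39) (nat_lit 5) (nat_lit 37) (nat_lit 5) (nat_lit 343) (nat_lit 292) (nat_lit 145)) (XT.lf (nat_lit 0) (nat_lit 24649669275) (nat_lit 152) (nat_lit 8771221046) (nat_lit 228) (nat_lit 65842081241) (nat_lit 34) (nat_lit 5) (nat_lit 36) (nat_lit 5) (nat_lit 37) (nat_lit 5) (nat_lit 344) (nat_lit 292) (nat_lit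 144)))) (XT.nd (nat_lit 156) (nat_lit 228) (nat_lit 0) (XT.nd (nat_lit 78) (nat_lit 152) (nat_lit 0) (XT.lf (nat_lit 0) (nat_lit 60052866565) (nat_lit 228) (nat_lit 15518311556) (nat_lit 76) (nat_lit 27538619545) (nat_lit 34) (nat_lit 5) (nat_lit 37) (nat_lit 5) (nat_lit 35) (nat_lit 5) (nat_lit 345) (nat_lit 292) (nat_lit 143)) (XT.lf (nat_lit 0) (nat_lit 47362876481) (nat_lit 152) (nat_lit 41194874281) (nat_lit 228) (nat_lit 18574976408) (nat_lit 32) (nat_lit 5) (nat_lit 34) (nat_lit 5) (nat_lit 35) (nat_lit 5) (nat_lit 346) (nat_lit 292) (nat_lit 142))) (XT.nd (nat_lit 78) (nat_lit 0) (nat_lit 0) (XT.lf (nat_lit 0) (nat_lit 2331597347) (nat_lit 152) (nat_lit 4841619817) (nat_lit 228) (nat_lit 104176091978) (nat_lit 29) (nat_lit 5) (nat_lit 31) (nat_lit 5) (nat_lit 32) (nat_lit 5) (nat_lit 347) (nat_lit 292) (nat_lit 141)) (XT.lf (nat_lit 0) (nat_lit 34767597667) (nat_lit 228) (nat_lit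 47489192639) (nat_lit 76) (nat_lit 33486125705) (nat_lit 29) (nat_lit 5) (nat_lit 32) (nat_lit 5) (nat_lit 30) (nat_lit 5) (nat_lit 348) (nat_lit 292) (nat_lit 140))))) (XT.nd (nat_lit 234) (nat_lit 228) (nat_lit 0) (XT.nd (nat_lit 78) (nat_lit 76) (nat_lit 0) (XT.lf (nat_lit 0) (nat_lit 17402559605) (nat_lit 152) (nat_lit 46553016755) (nat_lit 228) (nat_lit 56394211637) (nat_lit 27) (nat_lit 5) (nat_lit 29) (nat_lit 5) (nat_lit 30) (nat_lit 5) (nat_lit 349) (nat_lit 292) (nat_lit 139)) (XT.nd (nat_lit 78) (nat_lit 76) (nat_lit 0) (XT.lf (nat_lit 0) (nat_lit 86527484201) (nat_lit 152) (nat_lit 8562128290) (nat_lit 228) (nat_lit 30082792430) (nat_lit 27) (nat_lit 5) (nat_lit 29) (nat_lit 5) (nat_lit 30) (nat_lit 5) (nat_lit 350) (nat_lit 292) (nat_lit 138)) (XT.lf (nat_lit 0) (nat_lit 29136240441) (nat_lit 76) (nat_lit 99223221511) (nat_lit 152) (nat_lit 1859318433) (nat_lit 26) (nat_lit 5)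 (nat_lit 27) (nat_lit 5) (nat_lit 28) (nat_lit 4) (nat_lit 351) (nat_lit 292) (nat_lit 137)))) (XT.nd (nat_lit 156) (nat_lit 0) (nat_lit 0) (XT.nd (nat_lit 78) (nat_lit 152) (nat_lit 0) (XT.lf (nat_lit 0) (nat_lit 27719440683) (nat_lit 152) (nat_lit 34752472166) (nat_lit 76) (nat_lit 73022969689) (nat_lit 25) (nat_lit 5) (nat_lit 27) (nat_lit 5) (nat_lit 26) (nat_lit 5) (nat_lit 352) (nat_lit 292) (nat_lit 136)) (XT.lf (nat_lit 0) (nat_lit 35565918295) (nat_lit 152) (nat_lit 23513037462) (nat_lit 228) (nat_lit 81945074538) (nat_lit 23) (nat_lit 5) (nat_lit 25) (nat_lit 5) (nat_lit 26) (nat_lit 5) (nat_lit 353) (nat_lit 292) (nat_lit 135))) (XT.nd (nat_lit 35880) (nat_lit 0) (nat_lit 12464) (XT.lf (nat_lit 0) (nat_lit 92533014955) (nat_lit 228) (nat_lit 36866571244) (nat_lit 76) (nat_lit 17414253063) (nat_lit 23) (nat_lit 5) (nat_lit 26) (nat_lit 5) (nat_lit 24) (nat_lit 4) (nat_lit 354) (nat_lit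 292) (nat_lit 134)) (XT.lf (nat_lit 0) (nat_lit 1358796097) (nat_lit 0) (nat_lit 1358796097) (nat_lit 1140) (nat_lit 7573857646) (nat_lit 187) (nat_lit 5) (nat_lit 187) (nat_lit 3) (nat_lit 202) (nat_lit 3) (nat_lit 293) (nat_lit 293) (nat_lit 194))))))))
noncomputable def xc101 : XT := (XT.nd (nat_lit 2028) (nat_lit 5092) (nat_lit 0) (XT.nd (nat_lit 1014) (nat_lit 4636) (nat_lit 0) (XT.nd (nat_lit 468) (nat_lit 1900) (nat_lit 0) (XT.nd (nat_lit 234) (nat_lit 0) (nat_lit 152) (XT.nd (nat_lit 78) (nat_lit 0) (nat_lit 76) (XT.lf (nat_lit 0) (nat_lit 5937209674) (nat_lit 1140) (nat_lit 2652902841) (nat_lit 1216) (nat_lit 12496045789) (nat_lit 187) (nat_lit 5) (nat_lit 202) (nat_lit 3) (nat_lit 203) (nat_lit 5) (nat_lit 294) (nat_lit 293) (nat_lit 193)) (XT.nd (nat_lit 78) (nat_lit 0) (nat_lit 76) (XT.lf (nat_lit 0) (nat_lit 6673216305) (nat_lit 1140) (nat_lit 8128354337) (nat_lit 1216) (nat_lit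 6806763904) (nat_lit 188) (nat_lit 5) (nat_lit 203) (nat_lit 5) (nat_lit 204) (nat_lit 5) (nat_lit 295) (nat_lit 293) (nat_lit 192)) (XT.lf (nat_lit 0) (nat_lit 7633448493) (nat_lit 1140) (nat_lit 13771368177) (nat_lit 1216) (nat_lit 746200261) (nat_lit 189) (nat_lit 5) (nat_lit 204) (nat_lit 5) (nat_lit 205) (nat_lit 5) (nat_lit 296) (nat_lit 293) (nat_lit 191)))) (XT.nd (nat_lit 78) (nat_lit 0) (nat_lit 76) (XT.lf (nat_lit 76) (nat_lit 3065273310) (nat_lit 0) (nat_lit 5825666981) (nat_lit 1216) (nat_lit 13822434837) (nat_lit 190) (nat_lit 5) (nat_lit 189) (nat_lit 5) (nat_lit 205) (nat_lit 5) (nat_lit 297) (nat_lit 293) (nat_lit 190)) (XT.nd (nat_lit 78) (nat_lit 0) (nat_lit 76) (XT.lf (nat_lit 0) (nat_lit 10442238740) (nat_lit 1140) (nat_lit 2379838283) (nat_lit 1216) (nat_lit 10474864468) (nat_lit 190) (nat_lit 5) (nat_lit 205) (nat_lit 5) (nat_lit 206) (nat_lit 5) (nat_lit 298) (nat_lit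 293) (nat_lit 189)) (XT.lf (nat_lit 0) (nat_lit 12306645576) (nat_lit 1140) (nat_lit 7943022895) (nat_lit 1216) (nat_lit 3652968751) (nat_lit 191) (nat_lit 5) (nat_lit 206) (nat_lit 5) (nat_lit 207) (nat_lit 5) (nat_lit 299) (nat_lit 293) (nat_lit 188))))) (XT.nd (nat_lit 234) (nat_lit 2204) (nat_lit 0) (XT.nd (nat_lit 78) (nat_lit 0) (nat_lit 76) (XT.lf (nat_lit 76) (nat_lit 10800118957) (nat_lit 0) (nat_lit 3709857827) (nat_lit 1216) (nat_lit 10021286362) (nat_lit 192) (nat_lit 5) (nat_lit 191) (nat_lit 5) (nat_lit 207) (nat_lit 5) (nat_lit 300) (nat_lit 293) (nat_lit 187)) (XT.nd (nat_lit 78) (nat_lit 0) (nat_lit 76) (XT.lf (nat_lit 76) (nat_lit 5422250495) (nat_lit 0) (nat_lit 11655462369) (nat_lit 1216) (nat_lit 8105996090) (nat_lit 193) (nat_lit 5) (nat_lit 192) (nat_lit 5) (nat_lit 208) (nat_lit 5) (nat_lit 301) (nat_lit 293) (nat_lit 186)) (XT.lf (nat_lit 0) (nat_lit 19997063322)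 (nat_lit 1140) (nat_lit 146522123) (nat_lit 1216) (nat_lit 5718509771) (nat_lit 193) (nat_lit 5) (nat_lit 208) (nat_lit 5) (nat_lit 209) (nat_lit 5) (nat_lit 302) (nat_lit 293) (nat_lit 185)))) (XT.nd (nat_lit 156) (nat_lit 1292) (nat_lit 0) (XT.nd (nat_lit 78) (nat_lit 1064) (nat_lit 0) (XT.lf (nat_lit 76) (nat_lit 20727294277) (nat_lit 0) (nat_lit 2641267616) (nat_lit 1216) (nat_lit 3196667757) (nat_lit 194) (nat_lit 5) (nat_lit 193) (nat_lit 5) (nat_lit 209) (nat_lit 5) (nat_lit 303) (nat_lit 293) (nat_lit 184)) (XT.lf (nat_lit 0) (nat_lit 15486525181) (nat_lit 1140) (nat_lit 11713507056) (nat_lit 1216) (nat_lit 94760259) (nat_lit 179) (nat_lit 5) (nat_lit 194) (nat_lit 5) (nat_lit 195) (nat_lit 5) (nat_lit 304) (nat_lit 293) (nat_lit 183))) (XT.nd (nat_lit 78) (nat_lit 608) (nat_lit 0) (XT.lf (nat_lit 0) (nat_lit 3340049402) (nat_lit 684) (nat_lit 18049740519) (nat_lit 76) (nat_lit 6662958806)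 (nat_lit 170) (nat_lit 5) (nat_lit 179) (nat_lit 5) (nat_lit 171) (nat_lit 5) (nat_lit 305) (nat_lit 293) (nat_lit 182)) (XT.lf (nat_lit 0) (nat_lit 4260603952) (nat_lit 608) (nat_lit 2956437440) (nat_lit 684) (nat_lit 21623373156) (nat_lit 162) (nat_lit 5) (nat_lit 170) (nat_lit 5) (nat_lit 171) (nat_lit 5) (nat_lit 306) (nat_lit 293) (nat_lit 181)))))) (XT.nd (nat_lit 468) (nat_lit 2508) (nat_lit 0) (XT.nd (nat_lit 234) (nat_lit 1064) (nat_lit 0) (XT.nd (nat_lit 78) (nat_lit 1064) (nat_lit 0) (XT.lf (nat_lit 0) (nat_lit 11623982585) (nat_lit 684) (nat_lit 1766549155) (nat_lit 76) (nat_lit 16266860334) (nat_lit 162) (nat_lit 5) (nat_lit 171) (nat_lit 5) (nat_lit 163) (nat_lit 5) (nat_lit 307) (nat_lit 293) (nat_lit 180)) (XT.nd (nat_lit 78) (nat_lit 532) (nat_lit 0) (XT.lf (nat_lit 0) (nat_lit 16548157664) (nat_lit 608) (nat_lit 7976794703) (nat_lit 76) (nat_lit 5981370363) (nat_lit 155)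 (nat_lit 5) (nat_lit 163) (nat_lit 5) (nat_lit 156) (nat_lit 5) (nat_lit 308) (nat_lit 293) (nat_lit 179)) (XT.lf (nat_lit 0) (nat_lit 16865501725) (nat_lit 532) (nat_lit 5160277873) (nat_lit 608) (nat_lit 9362713523) (nat_lit 148) (nat_lit 5) (nat_lit 155) (nat_lit 5) (nat_lit 156) (nat_lit 5) (nat_lit 309) (nat_lit 293) (nat_lit 178)))) (XT.nd (nat_lit 78) (nat_lit 608) (nat_lit 0) (XT.lf (nat_lit 0) (nat_lit 10861123349) (nat_lit 456) (nat_lit 17241256462) (nat_lit 532) (nat_lit 4202649153) (nat_lit 142) (nat_lit 5) (nat_lit 148) (nat_lit 5) (nat_lit 149) (nat_lit 5) (nat_lit 310) (nat_lit 293) (nat_lit 177)) (XT.nd (nat_lit 78) (nat_lit 0) (nat_lit 0) (XT.lf (nat_lit 0) (nat_lit 1461020843) (nat_lit 608) (nat_lit 28719464915) (nat_lit 76) (nat_lit 3078484862) (nat_lit 134) (nat_lit 5) (nat_lit 142) (nat_lit 5) (nat_lit 135) (nat_lit 5) (nat_lit 311) (nat_lit 293) (nat_lit 176)) (XT.lf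 (nat_lit 0) (nat_lit 7711145226) (nat_lit 608) (nat_lit 2210773073) (nat_lit 76) (nat_lit 24325745778) (nat_lit 134) (nat_lit 5) (nat_lit 142) (nat_lit 5) (nat_lit 135) (nat_lit 5) (nat_lit 312) (nat_lit 293) (nat_lit 175))))) (XT.nd (nat_lit 234) (nat_lit 1216) (nat_lit 0) (XT.nd (nat_lit 78) (nat_lit 836) (nat_lit 0) (XT.lf (nat_lit 0) (nat_lit 14629274191) (nat_lit 532) (nat_lit 9264877161) (nat_lit 76) (nat_lit 11380984166) (nat_lit 128) (nat_lit 5) (nat_lit 135) (nat_lit 5) (nat_lit 129) (nat_lit 5) (nat_lit 313) (nat_lit 293) (nat_lit 174)) (XT.nd (nat_lit 78) (nat_lit 380) (nat_lit 0) (XT.lf (nat_lit 0) (nat_lit 19609580145) (nat_lit 456) (nat_lit 2588406550) (nat_lit 532) (nat_lit 14146861390) (nat_lit 122) (nat_lit 5) (nat_lit 128) (nat_lit 5) (nat_lit 129) (nat_lit 5) (nat_lit 314) (nat_lit 293) (nat_lit 173)) (XT.lf (nat_lit 0) (nat_lit 12705082228) (nat_lit 380) (nat_lit 17841959447)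 (nat_lit 456) (nat_lit 6908954894) (nat_lit 117) (nat_lit 5) (nat_lit 122) (nat_lit 5) (nat_lit 123) (nat_lit 5) (nat_lit 315) (nat_lit 293) (nat_lit 172)))) (XT.nd (nat_lit 156) (nat_lit 760) (nat_lit 0) (XT.nd (nat_lit 78) (nat_lit 0) (nat_lit 0) (XT.lf (nat_lit 0) (nat_lit 966136551) (nat_lit 456) (nat_lit 33245340946) (nat_lit 76) (nat_lit 4402369567) (nat_lit 111) (nat_lit 5) (nat_lit 117) (nat_lit 5) (nat_lit 112) (nat_lit 5) (nat_lit 316) (nat_lit 293) (nat_lit 171)) (XT.lf (nat_lit 0) (nat_lit 9524514383) (nat_lit 456) (nat_lit 2570952066) (nat_lit 76) (nat_lit 27719105480) (nat_lit 111) (nat_lit 5) (nat_lit 117) (nat_lit 5) (nat_lit 112) (nat_lit 5) (nat_lit 317) (nat_lit 293) (nat_lit 170))) (XT.nd (nat_lit 78) (nat_lit 380) (nat_lit 0) (XT.lf (nat_lit 0) (nat_lit 18905111356) (nat_lit 456) (nat_lit 10957188569) (nat_lit 76) (nat_lit 11201210389) (nat_lit 106) (nat_lit 5) (nat_lit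 112) (nat_lit 5) (nat_lit 107) (nat_lit 5) (nat_lit 318) (nat_lit 293) (nat_lit 169)) (XT.lf (nat_lit 0) (nat_lit 22404564509) (nat_lit 380) (nat_lit 6708550070) (nat_lit 456) (nat_lit 13251035732) (nat_lit 101) (nat_lit 5) (nat_lit 106) (nat_lit 5) (nat_lit 107) (nat_lit 5) (nat_lit 319) (nat_lit 293) (nat_lit 168))))))) (XT.nd (nat_lit 1014) (nat_lit 1976) (nat_lit 0) (XT.nd (nat_lit 468) (nat_lit 1368) (nat_lit 0) (XT.nd (nat_lit 234) (nat_lit 988) (nat_lit 0) (XT.nd (nat_lit 78) (nat_lit 456) (nat_lit 0) (XT.lf (nat_lit 0) (nat_lit 14033135377) (nat_lit 304) (nat_lit 26210790962) (nat_lit 380) (nat_lit 3473529418) (nat_lit 97) (nat_lit 5) (nat_lit 101) (nat_lit 5) (nat_lit 102) (nat_lit 5) (nat_lit 320) (nat_lit 293) (nat_lit 167)) (XT.nd (nat_lit 78) (nat_lit 0) (nat_lit 0) (XT.lf (nat_lit 0) (nat_lit 4964949078) (nat_lit 380) (nat_lit 2012819977) (nat_lit 456) (nat_lit 38149179684)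 (nat_lit 91) (nat_lit 5) (nat_lit 96) (nat_lit 5) (nat_lit 97) (nat_lit 5) (nat_lit 321) (nat_lit 293) (nat_lit 166)) (XT.lf (nat_lit 0) (nat_lit 18408657563) (nat_lit 456) (nat_lit 4900883304) (nat_lit 76) (nat_lit 23280482889) (nat_lit 91) (nat_lit 5) (nat_lit 97) (nat_lit 5) (nat_lit 92) (nat_lit 5) (nat_lit 322) (nat_lit 293) (nat_lit 165)))) (XT.nd (nat_lit 78) (nat_lit 684) (nat_lit 0) (XT.lf (nat_lit 0) (nat_lit 30760201433) (nat_lit 380) (nat_lit 15400594180) (nat_lit 76) (nat_lit 1954988365) (nat_lit 87) (nat_lit 5) (nat_lit 92) (nat_lit 5) (nat_lit 88) (nat_lit 5) (nat_lit 323) (nat_lit 293) (nat_lit 164)) (XT.nd (nat_lit 78) (nat_lit 380) (nat_lit 0) (XT.lf (nat_lit 0) (nat_lit 22800558400) (nat_lit 304) (nat_lit 21429275363) (nat_lit 380) (nat_lit 5472987661) (nat_lit 83) (nat_lit 5) (nat_lit 87) (nat_lit 5) (nat_lit 88) (nat_lit 5) (nat_lit 324) (nat_lit 293) (nat_lit 163)) (XT.lf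 (nat_lit 0) (nat_lit 7185043781) (nat_lit 380) (nat_lit 39377773260) (nat_lit 76) (nat_lit 4794838938) (nat_lit 78) (nat_lit 5) (nat_lit 83) (nat_lit 5) (nat_lit 79) (nat_lit 5) (nat_lit 325) (nat_lit 293) (nat_lit 162))))) (XT.nd (nat_lit 234) (nat_lit 836) (nat_lit 0) (XT.nd (nat_lit 78) (nat_lit 228) (nat_lit 0) (XT.lf (nat_lit 0) (nat_lit 532665) (nat_lit 304) (nat_lit 20854664222) (nat_lit 380) (nat_lit 32223641448) (nat_lit 74) (nat_lit 5) (nat_lit 78) (nat_lit 5) (nat_lit 79) (nat_lit 5) (nat_lit 326) (nat_lit 293) (nat_lit 161)) (XT.nd (nat_lit 78) (nat_lit 228) (nat_lit 0) (XT.lf (nat_lit 0) (nat_lit 35672765537) (nat_lit 380) (nat_lit 12772834006) (nat_lit 76) (nat_lit 6426566846) (nat_lit 74) (nat_lit 5) (nat_lit 79) (nat_lit 5) (nat_lit 75) (nat_lit 5) (nat_lit 327) (nat_lit 293) (nat_lit 160)) (XT.lf (nat_lit 0) (nat_lit 29914955034) (nat_lit 228) (nat_lit 21810046921) (nat_lit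 304) (nat_lit 5015348849) (nat_lit 71) (nat_lit 5) (nat_lit 74) (nat_lit 5) (nat_lit 75) (nat_lit 5) (nat_lit 328) (nat_lit 293) (nat_lit 159)))) (XT.nd (nat_lit 156) (nat_lit 228) (nat_lit 0) (XT.nd (nat_lit 78) (nat_lit 228) (nat_lit 0) (XT.lf (nat_lit 0) (nat_lit 10035633213) (nat_lit 380) (nat_lit 42227313920) (nat_lit 76) (nat_lit 6425637663) (nat_lit 66) (nat_lit 5) (nat_lit 71) (nat_lit 5) (nat_lit 67) (nat_lit 5) (nat_lit 329) (nat_lit 293) (nat_lit 158)) (XT.lf (nat_lit 0) (nat_lit 1496559015) (nat_lit 228) (nat_lit 24749202904) (nat_lit 304) (nat_lit 34471672386) (nat_lit 63) (nat_lit 5) (nat_lit 66) (nat_lit 5) (nat_lit 67) (nat_lit 5) (nat_lit 330) (nat_lit 293) (nat_lit 157))) (XT.nd (nat_lit 78) (nat_lit 228) (nat_lit 0) (XT.lf (nat_lit 0) (nat_lit 43741269799) (nat_lit 304) (nat_lit 14595714728) (nat_lit 76) (nat_lit 4496498631) (nat_lit 63) (nat_lit 5) (nat_lit 67) (nat_lit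 5) (nat_lit 64) (nat_lit 5) (nat_lit 331) (nat_lit 293) (nat_lit 156)) (XT.lf (nat_lit 0) (nat_lit 32642176124) (nat_lit 228) (nat_lit 30029217499) (nat_lit 304) (nat_lit 2367148517) (nat_lit 60) (nat_lit 5) (nat_lit 63) (nat_lit 5) (nat_lit 64) (nat_lit 5) (nat_lit 332) (nat_lit 293) (nat_lit 155)))))) (XT.nd (nat_lit 546) (nat_lit 836) (nat_lit 0) (XT.nd (nat_lit 234) (nat_lit 608) (nat_lit 0) (XT.nd (nat_lit 78) (nat_lit 228) (nat_lit 0) (XT.lf (nat_lit 0) (nat_lit 15194707513) (nat_lit 304) (nat_lit 51998168392) (nat_lit 76) (nat_lit 147688255) (nat_lit 56) (nat_lit 5) (nat_lit 60) (nat_lit 5) (nat_lit 57) (nat_lit 5) (nat_lit 333) (nat_lit 293) (nat_lit 154)) (XT.nd (nat_lit 78) (nat_lit 228) (nat_lit 0) (XT.lf (nat_lit 0) (nat_lit 34222494788) (nat_lit 304) (nat_lit 3938420187) (nat_lit 76) (nat_lit 31576967909) (nat_lit 56) (nat_lit 5) (nat_lit 60) (nat_lit 5) (nat_lit 57) (nat_lit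 5) (nat_lit 334) (nat_lit 293) (nat_lit 153)) (XT.lf (nat_lit 0) (nat_lit 47444863406) (nat_lit 228) (nat_lit 7209499491) (nat_lit 304) (nat_lit 17587126340) (nat_lit 53) (nat_lit 5) (nat_lit 56) (nat_lit 5) (nat_lit 57) (nat_lit 5) (nat_lit 335) (nat_lit 293) (nat_lit 152)))) (XT.nd (nat_lit 156) (nat_lit 152) (nat_lit 0) (XT.nd (nat_lit 78) (nat_lit 228) (nat_lit 0) (XT.lf (nat_lit 0) (nat_lit 1757943587) (nat_lit 228) (nat_lit 47984834251) (nat_lit 76) (nat_lit 25110807116) (nat_lit 50) (nat_lit 5) (nat_lit 53) (nat_lit 5) (nat_lit 51) (nat_lit 5) (nat_lit 336) (nat_lit 293) (nat_lit 151)) (XT.lf (nat_lit 0) (nat_lit 3864427770) (nat_lit 228) (nat_lit 18209983197) (nat_lit 304) (nat_lit 55505616556) (nat_lit 47) (nat_lit 5) (nat_lit 50) (nat_lit 5) (nat_lit 51) (nat_lit 5) (nat_lit 337) (nat_lit 293) (nat_lit 150))) (XT.nd (nat_lit 78) (nat_lit 152) (nat_lit 0) (XT.lf (nat_lit 0) (nat_lit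 44045654028) (nat_lit 304) (nat_lit 21272242763) (nat_lit 76) (nat_lit 15105728902) (nat_lit 47) (nat_lit 5) (nat_lit 51) (nat_lit 5) (nat_lit 48) (nat_lit 5) (nat_lit 338) (nat_lit 293) (nat_lit 149)) (XT.lf (nat_lit 0) (nat_lit 34273472883) (nat_lit 152) (nat_lit 33352267848) (nat_lit 228) (nat_lit 15768356541) (nat_lit 45) (nat_lit 5) (nat_lit 47) (nat_lit 5) (nat_lit 48) (nat_lit 5) (nat_lit 339) (nat_lit 293) (nat_lit 148))))) (XT.nd (nat_lit 234) (nat_lit 380) (nat_lit 0) (XT.nd (nat_lit 78) (nat_lit 152) (nat_lit 0) (XT.lf (nat_lit 0) (nat_lit 6044236118) (nat_lit 304) (nat_lit 79908420056) (nat_lit 76) (nat_lit 550132507) (nat_lit 41) (nat_lit 5) (nat_lit 45) (nat_lit 5) (nat_lit 42) (nat_lit 5) (nat_lit 340) (nat_lit 293) (nat_lit 147)) (XT.nd (nat_lit 78) (nat_lit 152) (nat_lit 0) (XT.lf (nat_lit 0) (nat_lit 29468838236) (nat_lit 304) (nat_lit 24135615444) (nat_lit 76) (nat_lit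 36132354214) (nat_lit 41) (nat_lit 5) (nat_lit 45) (nat_lit 5) (nat_lit 42) (nat_lit 5) (nat_lit 341) (nat_lit 293) (nat_lit 146)) (XT.lf (nat_lit 0) (nat_lit 35106439214) (nat_lit 152) (nat_lit 19293000243) (nat_lit 228) (nat_lit 38723047173) (nat_lit 39) (nat_lit 5) (nat_lit 41) (nat_lit 5) (nat_lit 42) (nat_lit 5) (nat_lit 342) (nat_lit 293) (nat_lit 145)))) (XT.nd (nat_lit 156) (nat_lit 152) (nat_lit 0) (XT.nd (nat_lit 78) (nat_lit 76) (nat_lit 0) (XT.lf (nat_lit 0) (nat_lit 996716920) (nat_lit 152) (nat_lit 79998582271) (nat_lit 228) (nat_lit 15669589812) (nat_lit 37) (nat_lit 5) (nat_lit 39) (nat_lit 5) (nat_lit 40) (nat_lit 5) (nat_lit 343) (nat_lit 293) (nat_lit 144)) (XT.lf (nat_lit 0) (nat_lit 9165260215) (nat_lit 228) (nat_lit 36481017336) (nat_lit 76) (nat_lit 54711814675) (nat_lit 36) (nat_lit 5) (nat_lit 39) (nat_lit 5) (nat_lit 37) (nat_lit 5) (nat_lit 344) (nat_lit 293) (nat_lit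 143))) (XT.nd (nat_lit 78) (nat_lit 0) (nat_lit 0) (XT.lf (nat_lit 0) (nat_lit 26010801360) (nat_lit 152) (nat_lit 9157579138) (nat_lit 228) (nat_lit 69055404178) (nat_lit 34) (nat_lit 5) (nat_lit 36) (nat_lit 5) (nat_lit 37) (nat_lit 5) (nat_lit 345) (nat_lit 293) (nat_lit 142)) (XT.lf (nat_lit 0) (nat_lit 63128793196) (nat_lit 228) (nat_lit 16169958297) (nat_lit 76) (nat_lit 28964297468) (nat_lit 34) (nat_lit 5) (nat_lit 37) (nat_lit 5) (nat_lit 35) (nat_lit 5) (nat_lit 346) (nat_lit 293) (nat_lit 141))))))))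
noncomputable def xc102 : XT := (XT.nd (nat_lit 37908) (nat_lit 0) (nat_lit 1824) (XT.nd (nat_lit 36894) (nat_lit 0) (nat_lit 9044) (XT.nd (nat_lit 468) (nat_lit 228) (nat_lit 0) (XT.nd (nat_lit 234) (nat_lit 228) (nat_lit 0) (XT.nd (nat_lit 78) (nat_lit 228) (nat_lit 0) (XT.lf (nat_lit 0) (nat_lit 49851727000) (nat_lit 152) (nat_lit 43204865229) (nat_lit 228) (nat_lit 19430604502) (nat_lit 32) (nat_lit 5) (nat_lit 34) (nat_lit 5) (nat_lit 35) (nat_lit 5) (nat_lit 347) (nat_lit 293) (nat_lit 140)) (XT.nd (nat_lit 78) (nat_lit 0) (nat_lit 0) (XT.lf (nat_lit 0) (nat_lit 2566845830) (nat_lit 152) (nat_lit 5034452791) (nat_lit 228) (nat_lit 109313358057) (nat_lit 29) (nat_lit 5) (nat_lit 31) (nat_lit 5) (nat_lit 32) (nat_lit 5) (nat_lit 348) (nat_lit 293) (nat_lit 139)) (XT.lf (nat_lit 0) (nat_lit 36572543266) (nat_lit 228) (nat_lit 49749068334) (nat_lit 76) (nat_lit 35206419620) (nat_lit 29)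 (nat_lit 5) (nat_lit 32) (nat_lit 5) (nat_lit 30) (nat_lit 5) (nat_lit 349) (nat_lit 293) (nat_lit 138)))) (XT.nd (nat_lit 78) (nat_lit 76) (nat_lit 0) (XT.lf (nat_lit 0) (nat_lit 18383986997) (nat_lit 152) (nat_lit 48833833978) (nat_lit 228) (nat_lit 59147490427) (nat_lit 27) (nat_lit 5) (nat_lit 29) (nat_lit 5) (nat_lit 30) (nat_lit 5) (nat_lit 350) (nat_lit 293) (nat_lit 137)) (XT.nd (nat_lit 78) (nat_lit 76) (nat_lit 0) (XT.lf (nat_lit 0) (nat_lit 90959857851) (nat_lit 152) (nat_lit 8945631261) (nat_lit 228) (nat_lit 31523663679) (nat_lit 27) (nat_lit 5) (nat_lit 29) (nat_lit 5) (nat_lit 30) (nat_lit 5) (nat_lit 351) (nat_lit 293) (nat_lit 136)) (XT.lf (nat_lit 0) (nat_lit 30697415690) (nat_lit 76) (nat_lit 104139903280) (nat_lit 152) (nat_lit 1890574874) (nat_lit 26) (nat_lit 5) (nat_lit 27) (nat_lit 5) (nat_lit 28) (nat_lit 4) (nat_lit 352) (nat_lit 293) (nat_lit 135))))) (XT.nd (nat_lit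 36114) (nat_lit 0) (nat_lit 12464) (XT.nd (nat_lit 78) (nat_lit 152) (nat_lit 0) (XT.lf (nat_lit 0) (nat_lit 29163036819) (nat_lit 152) (nat_lit 36389528538) (nat_lit 76) (nat_lit 76715305730) (nat_lit 25) (nat_lit 5) (nat_lit 27) (nat_lit 5) (nat_lit 26) (nat_lit 5) (nat_lit 353) (nat_lit 293) (nat_lit 134)) (XT.nd (nat_lit 35958) (nat_lit 0) (nat_lit 12464) (XT.lf (nat_lit 0) (nat_lit 37441898707) (nat_lit 152) (nat_lit 24646823939) (nat_lit 228) (nat_lit 85984809015) (nat_lit 23) (nat_lit 5) (nat_lit 25) (nat_lit 5) (nat_lit 26) (nat_lit 5) (nat_lit 354) (nat_lit 293) (nat_lit 133)) (XT.lf (nat_lit 0) (nat_lit 1546651697) (nat_lit 0) (nat_lit 1546651697) (nat_lit 1140) (nat_lit 7705199635) (nat_lit 187) (nat_lit 5) (nat_lit 187) (nat_lit 3) (nat_lit 202) (nat_lit 3) (nat_lit 294) (nat_lit 294) (nat_lit 192)))) (XT.nd (nat_lit 156) (nat_lit 0) (nat_lit 152) (XT.nd (nat_lit 78) (nat_lit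 0) (nat_lit 76) (XT.lf (nat_lit 0) (nat_lit 6688696608) (nat_lit 1140) (nat_lit 2540618835) (nat_lit 1216) (nat_lit 12896894162) (nat_lit 187) (nat_lit 5) (nat_lit 202) (nat_lit 3) (nat_lit 203) (nat_lit 5) (nat_lit 295) (nat_lit 294) (nat_lit 191)) (XT.lf (nat_lit 0) (nat_lit 7440244504) (nat_lit 1140) (nat_lit 8281320308) (nat_lit 1216) (nat_lit 6953597040) (nat_lit 188) (nat_lit 5) (nat_lit 203) (nat_lit 5) (nat_lit 204) (nat_lit 5) (nat_lit 296) (nat_lit 294) (nat_lit 190))) (XT.nd (nat_lit 78) (nat_lit 0) (nat_lit 0) (XT.lf (nat_lit 0) (nat_lit 8428594581) (nat_lit 1140) (nat_lit 14199113009) (nat_lit 1216) (nat_lit 617895596) (nat_lit 189) (nat_lit 5) (nat_lit 204) (nat_lit 5) (nat_lit 205) (nat_lit 5) (nat_lit 297) (nat_lit 294) (nat_lit 189)) (XT.lf (nat_lit 76) (nat_lit 3471884097) (nat_lit 0) (nat_lit 6259822978) (nat_lit 1216) (nat_lit 14104916520) (nat_lit 190) (nat_lit 5) (nat_lit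 189) (nat_lit 5) (nat_lit 205) (nat_lit 5) (nat_lit 298) (nat_lit 294) (nat_lit 188)))))) (XT.nd (nat_lit 468) (nat_lit 3648) (nat_lit 0) (XT.nd (nat_lit 234) (nat_lit 0) (nat_lit 152) (XT.nd (nat_lit 78) (nat_lit 0) (nat_lit 76) (XT.lf (nat_lit 0) (nat_lit 11340394858) (nat_lit 1140) (nat_lit 2244410397) (nat_lit 1216) (nat_lit 10865193704) (nat_lit 190) (nat_lit 5) (nat_lit 205) (nat_lit 5) (nat_lit 206) (nat_lit 5) (nat_lit 299) (nat_lit 294) (nat_lit 187)) (XT.nd (nat_lit 78) (nat_lit 0) (nat_lit 0) (XT.lf (nat_lit 0) (nat_lit 13281400770) (nat_lit 1140) (nat_lit 8080657733) (nat_lit 1216) (nat_lit 3724443815) (nat_lit 191) (nat_lit 5) (nat_lit 206) (nat_lit 5) (nat_lit 207) (nat_lit 5) (nat_lit 300) (nat_lit 294) (nat_lit 186)) (XT.lf (nat_lit 76) (nat_lit 11592202229) (nat_lit 0) (nat_lit 3988004054) (nat_lit 1216) (nat_lit 10166817074) (nat_lit 192) (nat_lit 5) (nat_lit 191) (nat_lit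 5) (nat_lit 207) (nat_lit 5) (nat_lit 301) (nat_lit 294) (nat_lit 185)))) (XT.nd (nat_lit 78) (nat_lit 0) (nat_lit 76) (XT.lf (nat_lit 76) (nat_lit 5949572990) (nat_lit 0) (nat_lit 12311955049) (nat_lit 1216) (nat_lit 8171029404) (nat_lit 193) (nat_lit 5) (nat_lit 192) (nat_lit 5) (nat_lit 208) (nat_lit 5) (nat_lit 302) (nat_lit 294) (nat_lit 184)) (XT.nd (nat_lit 78) (nat_lit 0) (nat_lit 0) (XT.lf (nat_lit 76) (nat_lit 102684629) (nat_lit 0) (nat_lit 21208762635) (nat_lit 1216) (nat_lit 5833898625) (nat_lit 194) (nat_lit 5) (nat_lit 193) (nat_lit 5) (nat_lit 209) (nat_lit 5) (nat_lit 303) (nat_lit 294) (nat_lit 183)) (XT.lf (nat_lit 76) (nat_lit 22010892077) (nat_lit 0) (nat_lit 2827087522) (nat_lit 1216) (nat_lit 3046083592) (nat_lit 194) (nat_lit 5) (nat_lit 193) (nat_lit 5) (nat_lit 209) (nat_lit 5) (nat_lit 304) (nat_lit 294) (nat_lit 182))))) (XT.nd (nat_lit 234) (nat_lit 1520) (nat_lit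 0) (XT.nd (nat_lit 78) (nat_lit 1216) (nat_lit 0) (XT.lf (nat_lit 0) (nat_lit 194238198) (nat_lit 1216) (nat_lit 12141742892) (nat_lit 76) (nat_lit 16314457636) (nat_lit 178) (nat_lit 5) (nat_lit 194) (nat_lit 5) (nat_lit 179) (nat_lit 5) (nat_lit 305) (nat_lit 294) (nat_lit 181)) (XT.nd (nat_lit 78) (nat_lit 608) (nat_lit 0) (XT.lf (nat_lit 0) (nat_lit 3787037689) (nat_lit 684) (nat_lit 18694520239) (nat_lit 76) (nat_lit 6965077956) (nat_lit 170) (nat_lit 5) (nat_lit 179) (nat_lit 5) (nat_lit 171) (nat_lit 5) (nat_lit 306) (nat_lit 294) (nat_lit 180)) (XT.lf (nat_lit 0) (nat_lit 4723954327) (nat_lit 608) (nat_lit 3122998523) (nat_lit 684) (nat_lit 22427076637) (nat_lit 162) (nat_lit 5) (nat_lit 170) (nat_lit 5) (nat_lit 171) (nat_lit 5) (nat_lit 307) (nat_lit 294) (nat_lit 179)))) (XT.nd (nat_lit 156) (nat_lit 988) (nat_lit 0) (XT.nd (nat_lit 78) (nat_lit 532) (nat_lit 0) (XT.lf (nat_lit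 0) (nat_lit 12461257197) (nat_lit 684) (nat_lit 1608299376) (nat_lit 76) (nat_lit 17062704739) (nat_lit 162) (nat_lit 5) (nat_lit 171) (nat_lit 5) (nat_lit 163) (nat_lit 5) (nat_lit 308) (nat_lit 294) (nat_lit 178)) (XT.lf (nat_lit 0) (nat_lit 17621685108) (nat_lit 608) (nat_lit 8128372665) (nat_lit 76) (nat_lit 6273894555) (nat_lit 155) (nat_lit 5) (nat_lit 163) (nat_lit 5) (nat_lit 156) (nat_lit 5) (nat_lit 309) (nat_lit 294) (nat_lit 177))) (XT.nd (nat_lit 78) (nat_lit 456) (nat_lit 0) (XT.lf (nat_lit 0) (nat_lit 17948950875) (nat_lit 532) (nat_lit 5414825983) (nat_lit 608) (nat_lit 9586751143) (nat_lit 148) (nat_lit 5) (nat_lit 155) (nat_lit 5) (nat_lit 156) (nat_lit 5) (nat_lit 310) (nat_lit 294) (nat_lit 176)) (XT.lf (nat_lit 0) (nat_lit 11644614628) (nat_lit 456) (nat_lit 18090663571) (nat_lit 532) (nat_lit 4177894045) (nat_lit 142) (nat_lit 5) (nat_lit 148) (nat_lit 5) (nat_lit 149)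 (nat_lit 5) (nat_lit 311) (nat_lit 294) (nat_lit 175))))))) (XT.nd (nat_lit 1014) (nat_lit 3040) (nat_lit 0) (XT.nd (nat_lit 468) (nat_lit 1824) (nat_lit 0) (XT.nd (nat_lit 234) (nat_lit 1292) (nat_lit 0) (XT.nd (nat_lit 78) (nat_lit 456) (nat_lit 0) (XT.lf (nat_lit 0) (nat_lit 1755859163) (nat_lit 608) (nat_lit 29910440745) (nat_lit 76) (nat_lit 3248711545) (nat_lit 134) (nat_lit 5) (nat_lit 142) (nat_lit 5) (nat_lit 135) (nat_lit 5) (nat_lit 312) (nat_lit 294) (nat_lit 174)) (XT.nd (nat_lit 78) (nat_lit 456) (nat_lit 0) (XT.lf (nat_lit 0) (nat_lit 8307928466) (nat_lit 608) (nat_lit 2087980855) (nat_lit 76) (nat_lit 25557559200) (nat_lit 134) (nat_lit 5) (nat_lit 142) (nat_lit 5) (nat_lit 135) (nat_lit 5) (nat_lit 313) (nat_lit 294) (nat_lit 173)) (XT.lf (nat_lit 0) (nat_lit 15564308063) (nat_lit 532) (nat_lit 9495371623) (nat_lit 76) (nat_lit 11972875045) (nat_lit 128) (nat_lit 5) (nat_lit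 135) (nat_lit 5) (nat_lit 129) (nat_lit 5) (nat_lit 314) (nat_lit 294) (nat_lit 172)))) (XT.nd (nat_lit 78) (nat_lit 836) (nat_lit 0) (XT.lf (nat_lit 0) (nat_lit 20816136834) (nat_lit 456) (nat_lit 2687798739) (nat_lit 532) (nat_lit 14652053947) (nat_lit 122) (nat_lit 5) (nat_lit 128) (nat_lit 5) (nat_lit 129) (nat_lit 5) (nat_lit 315) (nat_lit 294) (nat_lit 171)) (XT.nd (nat_lit 78) (nat_lit 456) (nat_lit 0) (XT.lf (nat_lit 0) (nat_lit 13565579261) (nat_lit 380) (nat_lit 18697968424) (nat_lit 456) (nat_lit 7059365063) (nat_lit 117) (nat_lit 5) (nat_lit 122) (nat_lit 5) (nat_lit 123) (nat_lit 5) (nat_lit 316) (nat_lit 294) (nat_lit 170)) (XT.lf (nat_lit 0) (nat_lit 1199078599) (nat_lit 456) (nat_lit 34679575701) (nat_lit 76) (nat_lit 4660152780) (nat_lit 111) (nat_lit 5) (nat_lit 117) (nat_lit 5) (nat_lit 112) (nat_lit 5) (nat_lit 317) (nat_lit 294) (nat_lit 169))))) (XT.nd (nat_lit 234)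 (nat_lit 1064) (nat_lit 0) (XT.nd (nat_lit 78) (nat_lit 760) (nat_lit 0) (XT.lf (nat_lit 0) (nat_lit 10176583170) (nat_lit 456) (nat_lit 2482326058) (nat_lit 76) (nat_lit 29140931929) (nat_lit 111) (nat_lit 5) (nat_lit 117) (nat_lit 5) (nat_lit 112) (nat_lit 5) (nat_lit 318) (nat_lit 294) (nat_lit 168)) (XT.nd (nat_lit 78) (nat_lit 380) (nat_lit 0) (XT.lf (nat_lit 0) (nat_lit 20020262729) (nat_lit 456) (nat_lit 11289237847) (nat_lit 76) (nat_lit 11801913070) (nat_lit 106) (nat_lit 5) (nat_lit 112) (nat_lit 5) (nat_lit 107) (nat_lit 5) (nat_lit 319) (nat_lit 294) (nat_lit 167)) (XT.lf (nat_lit 0) (nat_lit 23734416732) (nat_lit 380) (nat_lit 6998174140) (nat_lit 456) (nat_lit 13744685377) (nat_lit 101) (nat_lit 5) (nat_lit 106) (nat_lit 5) (nat_lit 107) (nat_lit 5) (nat_lit 320) (nat_lit 294) (nat_lit 166)))) (XT.nd (nat_lit 156) (nat_lit 304) (nat_lit 0) (XT.nd (nat_lit 78) (nat_lit 456) (nat_lit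 0) (XT.lf (nat_lit 0) (nat_lit 14942915560) (nat_lit 304) (nat_lit 27471646614) (nat_lit 380) (nat_lit 3483854174) (nat_lit 97) (nat_lit 5) (nat_lit 101) (nat_lit 5) (nat_lit 102) (nat_lit 5) (nat_lit 321) (nat_lit 294) (nat_lit 165)) (XT.lf (nat_lit 0) (nat_lit 5418600293) (nat_lit 380) (nat_lit 2062568952) (nat_lit 456) (nat_lit 39897344549) (nat_lit 91) (nat_lit 5) (nat_lit 96) (nat_lit 5) (nat_lit 97) (nat_lit 5) (nat_lit 322) (nat_lit 294) (nat_lit 164))) (XT.nd (nat_lit 78) (nat_lit 304) (nat_lit 0) (XT.lf (nat_lit 0) (nat_lit 19476710387) (nat_lit 456) (nat_lit 4946216100) (nat_lit 76) (nat_lit 24492029831) (nat_lit 91) (nat_lit 5) (nat_lit 97) (nat_lit 5) (nat_lit 92) (nat_lit 5) (nat_lit 323) (nat_lit 294) (nat_lit 163)) (XT.lf (nat_lit 0) (nat_lit 32441162000) (nat_lit 380) (nat_lit 15972725546) (nat_lit 76) (nat_lit 2103263756) (nat_lit 87) (nat_lit 5) (nat_lit 92) (nat_lit 5)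 (nat_lit 88) (nat_lit 5) (nat_lit 324) (nat_lit 294) (nat_lit 162)))))) (XT.nd (nat_lit 546) (nat_lit 1216) (nat_lit 0) (XT.nd (nat_lit 234) (nat_lit 836) (nat_lit 0) (XT.nd (nat_lit 78) (nat_lit 684) (nat_lit 0) (XT.lf (nat_lit 0) (nat_lit 24132811948) (nat_lit 304) (nat_lit 22446504624) (nat_lit 380) (nat_lit 5604379182) (nat_lit 83) (nat_lit 5) (nat_lit 87) (nat_lit 5) (nat_lit 88) (nat_lit 5) (nat_lit 325) (nat_lit 294) (nat_lit 161)) (XT.nd (nat_lit 78) (nat_lit 304) (nat_lit 0) (XT.lf (nat_lit 0) (nat_lit 7679485211) (nat_lit 380) (nat_lit 41153500390) (nat_lit 76) (nat_lit 5088380062) (nat_lit 78) (nat_lit 5) (nat_lit 83) (nat_lit 5) (nat_lit 79) (nat_lit 5) (nat_lit 326) (nat_lit 294) (nat_lit 160)) (XT.lf (nat_lit 0) (nat_lit 188183894) (nat_lit 304) (nat_lit 21840328057) (nat_lit 380) (nat_lit 33700239798) (nat_lit 74) (nat_lit 5) (nat_lit 78) (nat_lit 5) (nat_lit 79) (nat_lit 5)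 (nat_lit 327) (nat_lit 294) (nat_lit 159)))) (XT.nd (nat_lit 156) (nat_lit 608) (nat_lit 0) (XT.nd (nat_lit 78) (nat_lit 228) (nat_lit 0) (XT.lf (nat_lit 0) (nat_lit 37581264582) (nat_lit 380) (nat_lit 13229471408) (nat_lit 76) (nat_lit 6801186376) (nat_lit 74) (nat_lit 5) (nat_lit 79) (nat_lit 5) (nat_lit 75) (nat_lit 5) (nat_lit 328) (nat_lit 294) (nat_lit 158)) (XT.lf (nat_lit 0) (nat_lit 31587489967) (nat_lit 228) (nat_lit 22844376489) (nat_lit 304) (nat_lit 5141782008) (nat_lit 71) (nat_lit 5) (nat_lit 74) (nat_lit 5) (nat_lit 75) (nat_lit 5) (nat_lit 329) (nat_lit 294) (nat_lit 157))) (XT.nd (nat_lit 78) (nat_lit 228) (nat_lit 0) (XT.lf (nat_lit 0) (nat_lit 10655734149) (nat_lit 380) (nat_lit 44161422656) (nat_lit 76) (nat_lit 6802213851) (nat_lit 66) (nat_lit 5) (nat_lit 71) (nat_lit 5) (nat_lit 67) (nat_lit 5) (nat_lit 330) (nat_lit 294) (nat_lit 156)) (XT.lf (nat_lit 0) (nat_lit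 1743562892) (nat_lit 228) (nat_lit 25928827209) (nat_lit 304) (nat_lit 36077396383) (nat_lit 63) (nat_lit 5) (nat_lit 66) (nat_lit 5) (nat_lit 67) (nat_lit 5) (nat_lit 331) (nat_lit 294) (nat_lit 155))))) (XT.nd (nat_lit 234) (nat_lit 684) (nat_lit 0) (XT.nd (nat_lit 78) (nat_lit 532) (nat_lit 0) (XT.lf (nat_lit 0) (nat_lit 46037758086) (nat_lit 304) (nat_lit 15158700931) (nat_lit 76) (nat_lit 4775330473) (nat_lit 63) (nat_lit 5) (nat_lit 67) (nat_lit 5) (nat_lit 64) (nat_lit 5) (nat_lit 332) (nat_lit 294) (nat_lit 154)) (XT.nd (nat_lit 78) (nat_lit 304) (nat_lit 0) (XT.lf (nat_lit 0) (nat_lit 34436303188) (nat_lit 228) (nat_lit 31474431628) (nat_lit 304) (nat_lit 2376480256) (nat_lit 60) (nat_lit 5) (nat_lit 63) (nat_lit 5) (nat_lit 64) (nat_lit 5) (nat_lit 333) (nat_lit 294) (nat_lit 153)) (XT.lf (nat_lit 0) (nat_lit 16058324072) (nat_lit 304) (nat_lit 54435924696) (nat_lit 76) (nat_lit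 210152241) (nat_lit 56) (nat_lit 5) (nat_lit 60) (nat_lit 5) (nat_lit 57) (nat_lit 5) (nat_lit 334) (nat_lit 294) (nat_lit 152)))) (XT.nd (nat_lit 156) (nat_lit 456) (nat_lit 0) (XT.nd (nat_lit 78) (nat_lit 228) (nat_lit 0) (XT.lf (nat_lit 0) (nat_lit 36032553987) (nat_lit 304) (nat_lit 3980910611) (nat_lit 76) (nat_lit 33208273041) (nat_lit 56) (nat_lit 5) (nat_lit 60) (nat_lit 5) (nat_lit 57) (nat_lit 5) (nat_lit 335) (nat_lit 294) (nat_lit 151)) (XT.lf (nat_lit 0) (nat_lit 49967110441) (nat_lit 228) (nat_lit 7515635825) (nat_lit 304) (nat_lit 18367879519) (nat_lit 53) (nat_lit 5) (nat_lit 56) (nat_lit 5) (nat_lit 57) (nat_lit 5) (nat_lit 336) (nat_lit 294) (nat_lit 150))) (XT.nd (nat_lit 78) (nat_lit 228) (nat_lit 0) (XT.lf (nat_lit 0) (nat_lit 1939855669) (nat_lit 228) (nat_lit 50234091676) (nat_lit 76) (nat_lit 26419433573) (nat_lit 50) (nat_lit 5) (nat_lit 53) (nat_lit 5) (nat_lit 51)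 (nat_lit 5) (nat_lit 337) (nat_lit 294) (nat_lit 149)) (XT.lf (nat_lit 0) (nat_lit 4203334176) (nat_lit 228) (nat_lit 19065735754) (nat_lit 304) (nat_lit 58187170971) (nat_lit 47) (nat_lit 5) (nat_lit 50) (nat_lit 5) (nat_lit 51) (nat_lit 5) (nat_lit 338) (nat_lit 294) (nat_lit 148))))))))
noncomputable def xc103 : XT := (XT.nd (nat_lit 38064) (nat_lit 0) (nat_lit 2812) (XT.nd (nat_lit 1014) (nat_lit 76) (nat_lit 0) (XT.nd (nat_lit 468) (nat_lit 760) (nat_lit 0) (XT.nd (nat_lit 234) (nat_lit 304) (nat_lit 0) (XT.nd (nat_lit 78) (nat_lit 456) (nat_lit 0) (XT.lf (nat_lit 0) (nat_lit 46335045942) (nat_lit 304) (nat_lit 22194953228) (nat_lit 76) (nat_lit 15912137536) (nat_lit 47) (nat_lit 5) (nat_lit 51) (nat_lit 5) (nat_lit 48) (nat_lit 5) (nat_lit 339) (nat_lit 294) (nat_lit 147)) (XT.nd (nat_lit 78) (nat_lit 304) (nat_lit 0) (XT.lf (nat_lit 0) (nat_lit 36124009282) (nat_lit 152) (nat_lit 34967295249)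 (nat_lit 228) (nat_lit 16469915021) (nat_lit 45) (nat_lit 5) (nat_lit 47) (nat_lit 5) (nat_lit 48) (nat_lit 5) (nat_lit 340) (nat_lit 294) (nat_lit 146)) (XT.lf (nat_lit 0) (nat_lit 6429353204) (nat_lit 304) (nat_lit 83767183724) (nat_lit 76) (nat_lit 628853839) (nat_lit 41) (nat_lit 5) (nat_lit 45) (nat_lit 5) (nat_lit 42) (nat_lit 5) (nat_lit 341) (nat_lit 294) (nat_lit 145)))) (XT.nd (nat_lit 78) (nat_lit 304) (nat_lit 0) (XT.lf (nat_lit 0) (nat_lit 31021237558) (nat_lit 304) (nat_lit 25212246373) (nat_lit 76) (nat_lit 37987747836) (nat_lit 41) (nat_lit 5) (nat_lit 45) (nat_lit 5) (nat_lit 42) (nat_lit 5) (nat_lit 342) (nat_lit 294) (nat_lit 144)) (XT.nd (nat_lit 78) (nat_lit 152) (nat_lit 0) (XT.lf (nat_lit 0) (nat_lit 36988180299) (nat_lit 152) (nat_lit 20207643882) (nat_lit 228) (nat_lit 40580448874) (nat_lit 39) (nat_lit 5) (nat_lit 41) (nat_lit 5) (nat_lit 42) (nat_lit 5) (nat_lit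 343) (nat_lit 294) (nat_lit 143)) (XT.lf (nat_lit 0) (nat_lit 1171152089) (nat_lit 152) (nat_lit 83948341637) (nat_lit 228) (nat_lit 16376363484) (nat_lit 37) (nat_lit 5) (nat_lit 39) (nat_lit 5) (nat_lit 40) (nat_lit 5) (nat_lit 344) (nat_lit 294) (nat_lit 142))))) (XT.nd (nat_lit 234) (nat_lit 532) (nat_lit 0) (XT.nd (nat_lit 78) (nat_lit 152) (nat_lit 0) (XT.lf (nat_lit 0) (nat_lit 9695150856) (nat_lit 228) (nat_lit 38184936561) (nat_lit 76) (nat_lit 57493720501) (nat_lit 36) (nat_lit 5) (nat_lit 39) (nat_lit 5) (nat_lit 37) (nat_lit 5) (nat_lit 345) (nat_lit 294) (nat_lit 141)) (XT.nd (nat_lit 78) (nat_lit 0) (nat_lit 0) (XT.lf (nat_lit 0) (nat_lit 27428029520) (nat_lit 152) (nat_lit 9568108471) (nat_lit 228) (nat_lit 72436717584) (nat_lit 34) (nat_lit 5) (nat_lit 36) (nat_lit 5) (nat_lit 37) (nat_lit 5) (nat_lit 346) (nat_lit 294) (nat_lit 140)) (XT.lf (nat_lit 0) (nat_lit 66351702972)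 (nat_lit 228) (nat_lit 16865740714) (nat_lit 76) (nat_lit 30456727257) (nat_lit 34) (nat_lit 5) (nat_lit 37) (nat_lit 5) (nat_lit 35) (nat_lit 5) (nat_lit 347) (nat_lit 294) (nat_lit 139)))) (XT.nd (nat_lit 156) (nat_lit 152) (nat_lit 0) (XT.nd (nat_lit 78) (nat_lit 228) (nat_lit 0) (XT.lf (nat_lit 0) (nat_lit 52453797880) (nat_lit 152) (nat_lit 45319981264) (nat_lit 228) (nat_lit 20335812072) (nat_lit 32) (nat_lit 5) (nat_lit 34) (nat_lit 5) (nat_lit 35) (nat_lit 5) (nat_lit 348) (nat_lit 294) (nat_lit 138)) (XT.lf (nat_lit 0) (nat_lit 2802824054) (nat_lit 152) (nat_lit 5241506028) (nat_lit 228) (nat_lit 114714138414) (nat_lit 29) (nat_lit 5) (nat_lit 31) (nat_lit 5) (nat_lit 32) (nat_lit 5) (nat_lit 349) (nat_lit 294) (nat_lit 137))) (XT.nd (nat_lit 78) (nat_lit 152) (nat_lit 0) (XT.lf (nat_lit 0) (nat_lit 38461547495) (nat_lit 228) (nat_lit 52132590741) (nat_lit 76) (nat_lit 37008452736)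 (nat_lit 29) (nat_lit 5) (nat_lit 32) (nat_lit 5) (nat_lit 30) (nat_lit 5) (nat_lit 350) (nat_lit 294) (nat_lit 136)) (XT.lf (nat_lit 0) (nat_lit 19404138195) (nat_lit 152) (nat_lit 51233046208) (nat_lit 228) (nat_lit 62044609355) (nat_lit 27) (nat_lit 5) (nat_lit 29) (nat_lit 5) (nat_lit 30) (nat_lit 5) (nat_lit 351) (nat_lit 294) (nat_lit 135)))))) (XT.nd (nat_lit 36504) (nat_lit 0) (nat_lit 12388) (XT.nd (nat_lit 36270) (nat_lit 0) (nat_lit 12236) (XT.nd (nat_lit 78) (nat_lit 76) (nat_lit 0) (XT.lf (nat_lit 0) (nat_lit 95603995360) (nat_lit 152) (nat_lit 9352456187) (nat_lit 228) (nat_lit 33042460583) (nat_lit 27) (nat_lit 5) (nat_lit 29) (nat_lit 5) (nat_lit 30) (nat_lit 5) (nat_lit 352) (nat_lit 294) (nat_lit 134)) (XT.nd (nat_lit 36114) (nat_lit 0) (nat_lit 12236) (XT.lf (nat_lit 0) (nat_lit 32326946997) (nat_lit 76) (nat_lit 109306554402) (nat_lit 152) (nat_lit 1929131298) (nat_lit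 26) (nat_lit 5) (nat_lit 27) (nat_lit 5) (nat_lit 28) (nat_lit 4) (nat_lit 353) (nat_lit 294) (nat_lit 133)) (XT.lf (nat_lit 0) (nat_lit 1732751443) (nat_lit 0) (nat_lit 1732751443) (nat_lit 1140) (nat_lit 7866105065) (nat_lit 187) (nat_lit 5) (nat_lit 187) (nat_lit 3) (nat_lit 202) (nat_lit 3) (nat_lit 295) (nat_lit 295) (nat_lit 190)))) (XT.nd (nat_lit 78) (nat_lit 0) (nat_lit 76) (XT.lf (nat_lit 0) (nat_lit 7435491030) (nat_lit 1140) (nat_lit 2445491820) (nat_lit 1216) (nat_lit 13338606066) (nat_lit 187) (nat_lit 5) (nat_lit 202) (nat_lit 3) (nat_lit 203) (nat_lit 5) (nat_lit 296) (nat_lit 295) (nat_lit 189)) (XT.nd (nat_lit 78) (nat_lit 0) (nat_lit 76) (XT.lf (nat_lit 0) (nat_lit 8205333720) (nat_lit 1140) (nat_lit 8465498118) (nat_lit 1216) (nat_lit 7125762100) (nat_lit 188) (nat_lit 5) (nat_lit 203) (nat_lit 5) (nat_lit 204) (nat_lit 5) (nat_lit 297) (nat_lit 295) (nat_lit 188)) (XT.lf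 (nat_lit 0) (nat_lit 9225057112) (nat_lit 1140) (nat_lit 14672493986) (nat_lit 1216) (nat_lit 498572982) (nat_lit 189) (nat_lit 5) (nat_lit 204) (nat_lit 5) (nat_lit 205) (nat_lit 5) (nat_lit 298) (nat_lit 295) (nat_lit 187))))) (XT.nd (nat_lit 234) (nat_lit 0) (nat_lit 152) (XT.nd (nat_lit 78) (nat_lit 0) (nat_lit 76) (XT.lf (nat_lit 76) (nat_lit 3875271610) (nat_lit 0) (nat_lit 6702403829) (nat_lit 1216) (nat_lit 14439513767) (nat_lit 190) (nat_lit 5) (nat_lit 189) (nat_lit 5) (nat_lit 205) (nat_lit 5) (nat_lit 299) (nat_lit 295) (nat_lit 186)) (XT.nd (nat_lit 78) (nat_lit 0) (nat_lit 76) (XT.lf (nat_lit 0) (nat_lit 12248497758) (nat_lit 1140) (nat_lit 2125864658) (nat_lit 1216) (nat_lit 11287442969) (nat_lit 190) (nat_lit 5) (nat_lit 205) (nat_lit 5) (nat_lit 206) (nat_lit 5) (nat_lit 300) (nat_lit 295) (nat_lit 185)) (XT.lf (nat_lit 0) (nat_lit 14271477988) (nat_lit 1140) (nat_lit 8249301679)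 (nat_lit 1216) (nat_lit 3809828478) (nat_lit 191) (nat_lit 5) (nat_lit 206) (nat_lit 5) (nat_lit 207) (nat_lit 5) (nat_lit 301) (nat_lit 295) (nat_lit 184)))) (XT.nd (nat_lit 156) (nat_lit 0) (nat_lit 152) (XT.nd (nat_lit 78) (nat_lit 0) (nat_lit 76) (XT.lf (nat_lit 76) (nat_lit 12400453904) (nat_lit 0) (nat_lit 4271443563) (nat_lit 1216) (nat_lit 10352678466) (nat_lit 192) (nat_lit 5) (nat_lit 191) (nat_lit 5) (nat_lit 207) (nat_lit 5) (nat_lit 302) (nat_lit 295) (nat_lit 183)) (XT.lf (nat_lit 76) (nat_lit 6479441637) (nat_lit 0) (nat_lit 12994418616) (nat_lit 1216) (nat_lit 8270949136) (nat_lit 193) (nat_lit 5) (nat_lit 192) (nat_lit 5) (nat_lit 208) (nat_lit 5) (nat_lit 303) (nat_lit 295) (nat_lit 182))) (XT.nd (nat_lit 78) (nat_lit 0) (nat_lit 0) (XT.lf (nat_lit 76) (nat_lit 343278943) (nat_lit 0) (nat_lit 22320397458) (nat_lit 1216) (nat_lit 5829957791) (nat_lit 194) (nat_lit 5) (nat_lit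 193) (nat_lit 5) (nat_lit 209) (nat_lit 5) (nat_lit 304) (nat_lit 295) (nat_lit 181)) (XT.lf (nat_lit 76) (nat_lit 23335684379) (nat_lit 0) (nat_lit 3017200652) (nat_lit 1216) (nat_lit 2916829901) (nat_lit 194) (nat_lit 5) (nat_lit 193) (nat_lit 5) (nat_lit 209) (nat_lit 5) (nat_lit 305) (nat_lit 295) (nat_lit 180))))))) (XT.nd (nat_lit 1014) (nat_lit 3648) (nat_lit 0) (XT.nd (nat_lit 468) (nat_lit 2812) (nat_lit 0) (XT.nd (nat_lit 234) (nat_lit 1064) (nat_lit 0) (XT.nd (nat_lit 78) (nat_lit 1216) (nat_lit 0) (XT.lf (nat_lit 0) (nat_lit 468616684) (nat_lit 1216) (nat_lit 12516647406) (nat_lit 76) (nat_lit 17089422569) (nat_lit 178) (nat_lit 5) (nat_lit 194) (nat_lit 5) (nat_lit 179) (nat_lit 5) (nat_lit 306) (nat_lit 295) (nat_lit 179)) (XT.nd (nat_lit 78) (nat_lit 608) (nat_lit 0) (XT.lf (nat_lit 0) (nat_lit 4230344963) (nat_lit 684) (nat_lit 19395498127) (nat_lit 76) (nat_lit 7285187826)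 (nat_lit 170) (nat_lit 5) (nat_lit 179) (nat_lit 5) (nat_lit 171) (nat_lit 5) (nat_lit 307) (nat_lit 295) (nat_lit 178)) (XT.lf (nat_lit 0) (nat_lit 5187199824) (nat_lit 608) (nat_lit 3296145467) (nat_lit 684) (nat_lit 23296761374) (nat_lit 162) (nat_lit 5) (nat_lit 170) (nat_lit 5) (nat_lit 171) (nat_lit 5) (nat_lit 308) (nat_lit 295) (nat_lit 177)))) (XT.nd (nat_lit 78) (nat_lit 1064) (nat_lit 0) (XT.lf (nat_lit 0) (nat_lit 13316588068) (nat_lit 684) (nat_lit 1465061523) (nat_lit 76) (nat_lit 17899968219) (nat_lit 162) (nat_lit 5) (nat_lit 171) (nat_lit 5) (nat_lit 163) (nat_lit 5) (nat_lit 309) (nat_lit 295) (nat_lit 176)) (XT.nd (nat_lit 78) (nat_lit 532) (nat_lit 0) (XT.lf (nat_lit 0) (nat_lit 18726007060) (nat_lit 608) (nat_lit 8310517581) (nat_lit 76) (nat_lit 6581653385) (nat_lit 155) (nat_lit 5) (nat_lit 163) (nat_lit 5) (nat_lit 156) (nat_lit 5) (nat_lit 310) (nat_lit 295) (nat_lit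 175)) (XT.lf (nat_lit 0) (nat_lit 19064243375) (nat_lit 532) (nat_lit 5682423715) (nat_lit 608) (nat_lit 9844684567) (nat_lit 148) (nat_lit 5) (nat_lit 155) (nat_lit 5) (nat_lit 156) (nat_lit 5) (nat_lit 311) (nat_lit 295) (nat_lit 174))))) (XT.nd (nat_lit 234) (nat_lit 1748) (nat_lit 0) (XT.nd (nat_lit 78) (nat_lit 608) (nat_lit 0) (XT.lf (nat_lit 0) (nat_lit 12444927092) (nat_lit 456) (nat_lit 18983717643) (nat_lit 532) (nat_lit 4173738801) (nat_lit 142) (nat_lit 5) (nat_lit 148) (nat_lit 5) (nat_lit 149) (nat_lit 5) (nat_lit 312) (nat_lit 295) (nat_lit 173)) (XT.nd (nat_lit 78) (nat_lit 0) (nat_lit 0) (XT.lf (nat_lit 0) (nat_lit 2044819720) (nat_lit 608) (nat_lit 31183742905) (nat_lit 76) (nat_lit 3425933916) (nat_lit 134) (nat_lit 5) (nat_lit 142) (nat_lit 5) (nat_lit 135) (nat_lit 5) (nat_lit 313) (nat_lit 295) (nat_lit 172)) (XT.lf (nat_lit 0) (nat_lit 8914913079) (nat_lit 608) (nat_lit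 1980741919) (nat_lit 76) (nat_lit 26849519821) (nat_lit 134) (nat_lit 5) (nat_lit 142) (nat_lit 5) (nat_lit 135) (nat_lit 5) (nat_lit 314) (nat_lit 295) (nat_lit 171)))) (XT.nd (nat_lit 156) (nat_lit 836) (nat_lit 0) (XT.nd (nat_lit 78) (nat_lit 456) (nat_lit 0) (XT.lf (nat_lit 0) (nat_lit 16527167605) (nat_lit 532) (nat_lit 9759029641) (nat_lit 76) (nat_lit 12592236866) (nat_lit 128) (nat_lit 5) (nat_lit 135) (nat_lit 5) (nat_lit 129) (nat_lit 5) (nat_lit 315) (nat_lit 295) (nat_lit 170)) (XT.lf (nat_lit 0) (nat_lit 22062002797) (nat_lit 456) (nat_lit 2794952269) (nat_lit 532) (nat_lit 15201300171) (nat_lit 122) (nat_lit 5) (nat_lit 128) (nat_lit 5) (nat_lit 129) (nat_lit 5) (nat_lit 316) (nat_lit 295) (nat_lit 169))) (XT.nd (nat_lit 78) (nat_lit 456) (nat_lit 0) (XT.lf (nat_lit 0) (nat_lit 14448160194) (nat_lit 380) (nat_lit 19600133063) (nat_lit 456) (nat_lit 7235428485) (nat_lit 117)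 (nat_lit 5) (nat_lit 122) (nat_lit 5) (nat_lit 123) (nat_lit 5) (nat_lit 317) (nat_lit 295) (nat_lit 168)) (XT.lf (nat_lit 0) (nat_lit 1426502117) (nat_lit 456) (nat_lit 36206722476) (nat_lit 76) (nat_lit 4927323444) (nat_lit 111) (nat_lit 5) (nat_lit 117) (nat_lit 5) (nat_lit 112) (nat_lit 5) (nat_lit 318) (nat_lit 295) (nat_lit 167)))))) (XT.nd (nat_lit 546) (nat_lit 1824) (nat_lit 0) (XT.nd (nat_lit 234) (nat_lit 1064) (nat_lit 0) (XT.nd (nat_lit 78) (nat_lit 760) (nat_lit 0) (XT.lf (nat_lit 0) (nat_lit 10844907174) (nat_lit 456) (nat_lit 2409459494) (nat_lit 76) (nat_lit 30630514740) (nat_lit 111) (nat_lit 5) (nat_lit 117) (nat_lit 5) (nat_lit 112) (nat_lit 5) (nat_lit 319) (nat_lit 295) (nat_lit 166)) (XT.nd (nat_lit 78) (nat_lit 380) (nat_lit 0) (XT.lf (nat_lit 0) (nat_lit 21175376369) (nat_lit 456) (nat_lit 11657953570) (nat_lit 76) (nat_lit 12428872362) (nat_lit 106) (nat_lit 5) (nat_lit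 112) (nat_lit 5) (nat_lit 107) (nat_lit 5) (nat_lit 320) (nat_lit 295) (nat_lit 165)) (XT.lf (nat_lit 0) (nat_lit 25111272712) (nat_lit 380) (nat_lit 7306537782) (nat_lit 456) (nat_lit 14278720424) (nat_lit 101) (nat_lit 5) (nat_lit 106) (nat_lit 5) (nat_lit 107) (nat_lit 5) (nat_lit 321) (nat_lit 295) (nat_lit 164)))) (XT.nd (nat_lit 156) (nat_lit 304) (nat_lit 0) (XT.nd (nat_lit 78) (nat_lit 456) (nat_lit 0) (XT.lf (nat_lit 0) (nat_lit 15878835409) (nat_lit 304) (nat_lit 28800164187) (nat_lit 380) (nat_lit 3509882062) (nat_lit 97) (nat_lit 5) (nat_lit 101) (nat_lit 5) (nat_lit 102) (nat_lit 5) (nat_lit 322) (nat_lit 295) (nat_lit 163)) (XT.lf (nat_lit 0) (nat_lit 5875837575) (nat_lit 380) (nat_lit 2119536834) (nat_lit 456) (nat_lit 41747727316) (nat_lit 91) (nat_lit 5) (nat_lit 96) (nat_lit 5) (nat_lit 97) (nat_lit 5) (nat_lit 323) (nat_lit 295) (nat_lit 162))) (XT.nd (nat_lit 78) (nat_lit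 304) (nat_lit 0) (XT.lf (nat_lit 0) (nat_lit 20584441549) (nat_lit 456) (nat_lit 5012382807) (nat_lit 76) (nat_lit 25759735901) (nat_lit 91) (nat_lit 5) (nat_lit 97) (nat_lit 5) (nat_lit 92) (nat_lit 5) (nat_lit 324) (nat_lit 295) (nat_lit 161)) (XT.lf (nat_lit 0) (nat_lit 34192880414) (nat_lit 380) (nat_lit 16591862192) (nat_lit 76) (nat_lit 2254255492) (nat_lit 87) (nat_lit 5) (nat_lit 92) (nat_lit 5) (nat_lit 88) (nat_lit 5) (nat_lit 325) (nat_lit 295) (nat_lit 160))))) (XT.nd (nat_lit 234) (nat_lit 836) (nat_lit 0) (XT.nd (nat_lit 78) (nat_lit 684) (nat_lit 0) (XT.lf (nat_lit 0) (nat_lit 25513806855) (nat_lit 304) (nat_lit 23519637558) (nat_lit 380) (nat_lit 5755566067) (nat_lit 83) (nat_lit 5) (nat_lit 87) (nat_lit 5) (nat_lit 88) (nat_lit 5) (nat_lit 326) (nat_lit 295) (nat_lit 159)) (XT.nd (nat_lit 78) (nat_lit 304) (nat_lit 0) (XT.lf (nat_lit 0) (nat_lit 8186080098) (nat_lit 380)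 (nat_lit 43035972205) (nat_lit 76) (nat_lit 5391596505) (nat_lit 78) (nat_lit 5) (nat_lit 83) (nat_lit 5) (nat_lit 79) (nat_lit 5) (nat_lit 327) (nat_lit 295) (nat_lit 158)) (XT.lf (nat_lit 0) (nat_lit 367774129) (nat_lit 304) (nat_lit 22880580854) (nat_lit 380) (nat_lit 35263180384) (nat_lit 74) (nat_lit 5) (nat_lit 78) (nat_lit 5) (nat_lit 79) (nat_lit 5) (nat_lit 328) (nat_lit 295) (nat_lit 157)))) (XT.nd (nat_lit 156) (nat_lit 608) (nat_lit 0) (XT.nd (nat_lit 78) (nat_lit 228) (nat_lit 0) (XT.lf (nat_lit 0) (nat_lit 39573580208) (nat_lit 380) (nat_lit 13725861716) (nat_lit 76) (nat_lit 7189582372) (nat_lit 74) (nat_lit 5) (nat_lit 79) (nat_lit 5) (nat_lit 75) (nat_lit 5) (nat_lit 329) (nat_lit 295) (nat_lit 156)) (XT.lf (nat_lit 0) (nat_lit 33327215650) (nat_lit 228) (nat_lit 23935644949) (nat_lit 304) (nat_lit 5286096249) (nat_lit 71) (nat_lit 5) (nat_lit 74) (nat_lit 5) (nat_lit 75)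 (nat_lit 5) (nat_lit 330) (nat_lit 295) (nat_lit 155))) (XT.nd (nat_lit 78) (nat_lit 228) (nat_lit 0) (XT.lf (nat_lit 0) (nat_lit 11295839927) (nat_lit 380) (nat_lit 46208716500) (nat_lit 76) (nat_lit 7192478108) (nat_lit 66) (nat_lit 5) (nat_lit 71) (nat_lit 5) (nat_lit 67) (nat_lit 5) (nat_lit 331) (nat_lit 295) (nat_lit 154)) (XT.lf (nat_lit 0) (nat_lit 1986909676) (nat_lit 228) (nat_lit 27172809756) (nat_lit 304) (nat_lit 37774364050) (nat_lit 63) (nat_lit 5) (nat_lit 66) (nat_lit 5) (nat_lit 67) (nat_lit 5) (nat_lit 332) (nat_lit 295) (nat_lit 153))))))))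
noncomputable def xc104 : XT := (XT.nd (nat_lit 38142) (nat_lit 0) (nat_lit 4256) (XT.nd (nat_lit 1014) (nat_lit 760) (nat_lit 0) (XT.nd (nat_lit 468) (nat_lit 988) (nat_lit 0) (XT.nd (nat_lit 234) (nat_lit 456) (nat_lit 0) (XT.nd (nat_lit 78) (nat_lit 532) (nat_lit 0) (XT.lf (nat_lit 0) (nat_lit 48438897508) (nat_lit 304) (nat_lit 15765343884) (nat_lit 76) (nat_lit 5063082856) (nat_lit 63) (nat_lit 5) (nat_lit 67) (nat_lit 5) (nat_lit 64) (nat_lit 5) (nat_lit 333) (nat_lit 295) (nat_lit 152)) (XT.nd (nat_lit 78) (nat_lit 304) (nat_lit 0) (XT.lf (nat_lit 0) (nat_lit 36305073683) (nat_lit 228) (nat_lit 32997135752) (nat_lit 304) (nat_lit 2396414757) (nat_lit 60) (nat_lit 5) (nat_lit 63) (nat_lit 5) (nat_lit 64) (nat_lit 5) (nat_lit 334) (nat_lit 295) (nat_lit 151)) (XT.lf (nat_lit 0) (nat_lit 16955463571) (nat_lit 304) (nat_lit 57010644182) (nat_lit 76) (nat_lit 270618650) (nat_lit 56) (nat_lit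 5) (nat_lit 60) (nat_lit 5) (nat_lit 57) (nat_lit 5) (nat_lit 335) (nat_lit 295) (nat_lit 150)))) (XT.nd (nat_lit 78) (nat_lit 456) (nat_lit 0) (XT.lf (nat_lit 0) (nat_lit 37923918158) (nat_lit 304) (nat_lit 4039883047) (nat_lit 76) (nat_lit 34916266500) (nat_lit 56) (nat_lit 5) (nat_lit 60) (nat_lit 5) (nat_lit 57) (nat_lit 5) (nat_lit 336) (nat_lit 295) (nat_lit 149)) (XT.nd (nat_lit 78) (nat_lit 228) (nat_lit 0) (XT.lf (nat_lit 0) (nat_lit 52601523889) (nat_lit 228) (nat_lit 7842130868) (nat_lit 304) (nat_lit 19196837541) (nat_lit 53) (nat_lit 5) (nat_lit 56) (nat_lit 5) (nat_lit 57) (nat_lit 5) (nat_lit 337) (nat_lit 295) (nat_lit 148)) (XT.lf (nat_lit 0) (nat_lit 2122122741) (nat_lit 228) (nat_lit 52609756090) (nat_lit 76) (nat_lit 27788555911) (nat_lit 50) (nat_lit 5) (nat_lit 53) (nat_lit 5) (nat_lit 51) (nat_lit 5) (nat_lit 338) (nat_lit 295) (nat_lit 147))))) (XT.nd (nat_lit 234)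 (nat_lit 608) (nat_lit 0) (XT.nd (nat_lit 78) (nat_lit 152) (nat_lit 0) (XT.lf (nat_lit 0) (nat_lit 4545641491) (nat_lit 228) (nat_lit 19969365760) (nat_lit 304) (nat_lit 61011516900) (nat_lit 47) (nat_lit 5) (nat_lit 50) (nat_lit 5) (nat_lit 51) (nat_lit 5) (nat_lit 339) (nat_lit 295) (nat_lit 146)) (XT.nd (nat_lit 78) (nat_lit 152) (nat_lit 0) (XT.lf (nat_lit 0) (nat_lit 48730808863) (nat_lit 304) (nat_lit 23176898918) (nat_lit 76) (nat_lit 16754113746) (nat_lit 47) (nat_lit 5) (nat_lit 51) (nat_lit 5) (nat_lit 48) (nat_lit 5) (nat_lit 340) (nat_lit 295) (nat_lit 145)) (XT.lf (nat_lit 0) (nat_lit 38054348300) (nat_lit 152) (nat_lit 36667962967) (nat_lit 228) (nat_lit 17214626783) (nat_lit 45) (nat_lit 5) (nat_lit 47) (nat_lit 5) (nat_lit 48) (nat_lit 5) (nat_lit 341) (nat_lit 295) (nat_lit 144)))) (XT.nd (nat_lit 156) (nat_lit 304) (nat_lit 0) (XT.nd (nat_lit 78) (nat_lit 0) (nat_lit 0)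 (XT.lf (nat_lit 0) (nat_lit 6826018398) (nat_lit 304) (nat_lit 87831590678) (nat_lit 76) (nat_lit 706749779) (nat_lit 41) (nat_lit 5) (nat_lit 45) (nat_lit 5) (nat_lit 42) (nat_lit 5) (nat_lit 342) (nat_lit 295) (nat_lit 143)) (XT.lf (nat_lit 0) (nat_lit 32643916134) (nat_lit 304) (nat_lit 26354808948) (nat_lit 76) (nat_lit 39931376416) (nat_lit 41) (nat_lit 5) (nat_lit 45) (nat_lit 5) (nat_lit 42) (nat_lit 5) (nat_lit 343) (nat_lit 295) (nat_lit 142))) (XT.nd (nat_lit 78) (nat_lit 152) (nat_lit 0) (XT.lf (nat_lit 0) (nat_lit 38952255186) (nat_lit 152) (nat_lit 21172668822) (nat_lit 228) (nat_lit 42538042149) (nat_lit 39) (nat_lit 5) (nat_lit 41) (nat_lit 5) (nat_lit 42) (nat_lit 5) (nat_lit 344) (nat_lit 295) (nat_lit 141)) (XT.lf (nat_lit 0) (nat_lit 1342724953) (nat_lit 152) (nat_lit 88100253279) (nat_lit 228) (nat_lit 17125607219) (nat_lit 37) (nat_lit 5) (nat_lit 39) (nat_lit 5) (nat_lit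 40) (nat_lit 5) (nat_lit 345) (nat_lit 295) (nat_lit 140)))))) (XT.nd (nat_lit 468) (nat_lit 152) (nat_lit 0) (XT.nd (nat_lit 234) (nat_lit 380) (nat_lit 0) (XT.nd (nat_lit 78) (nat_lit 152) (nat_lit 0) (XT.lf (nat_lit 0) (nat_lit 10244876771) (nat_lit 228) (nat_lit 39985220449) (nat_lit 76) (nat_lit 60410415681) (nat_lit 36) (nat_lit 5) (nat_lit 39) (nat_lit 5) (nat_lit 37) (nat_lit 5) (nat_lit 346) (nat_lit 295) (nat_lit 139)) (XT.nd (nat_lit 78) (nat_lit 0) (nat_lit 0) (XT.lf (nat_lit 0) (nat_lit 28905270536) (nat_lit 152) (nat_lit 10003566390) (nat_lit 228) (nat_lit 75993740037) (nat_lit 34) (nat_lit 5) (nat_lit 36) (nat_lit 5) (nat_lit 37) (nat_lit 5) (nat_lit 347) (nat_lit 295) (nat_lit 138)) (XT.lf (nat_lit 0) (nat_lit 69729578475) (nat_lit 228) (nat_lit 17606791471) (nat_lit 76) (nat_lit 32019667853) (nat_lit 34) (nat_lit 5) (nat_lit 37) (nat_lit 5) (nat_lit 35) (nat_lit 5) (nat_lit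 348) (nat_lit 295) (nat_lit 137)))) (XT.nd (nat_lit 78) (nat_lit 228) (nat_lit 0) (XT.lf (nat_lit 0) (nat_lit 55175793471) (nat_lit 152) (nat_lit 47545048604) (nat_lit 228) (nat_lit 21292446074) (nat_lit 32) (nat_lit 5) (nat_lit 34) (nat_lit 5) (nat_lit 35) (nat_lit 5) (nat_lit 349) (nat_lit 295) (nat_lit 136)) (XT.nd (nat_lit 78) (nat_lit 0) (nat_lit 0) (XT.lf (nat_lit 0) (nat_lit 3040594221) (nat_lit 152) (nat_lit 5463064864) (nat_lit 228) (nat_lit 120390990418) (nat_lit 29) (nat_lit 5) (nat_lit 31) (nat_lit 5) (nat_lit 32) (nat_lit 5) (nat_lit 350) (nat_lit 295) (nat_lit 135)) (XT.lf (nat_lit 0) (nat_lit 40439388648) (nat_lit 228) (nat_lit 54644951789) (nat_lit 76) (nat_lit 38896709509) (nat_lit 29) (nat_lit 5) (nat_lit 32) (nat_lit 5) (nat_lit 30) (nat_lit 5) (nat_lit 351) (nat_lit 295) (nat_lit 134))))) (XT.nd (nat_lit 36348) (nat_lit 0) (nat_lit 12160) (XT.nd (nat_lit 78) (nat_lit 0)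 (nat_lit 0) (XT.lf (nat_lit 0) (nat_lit 20465911406) (nat_lit 152) (nat_lit 53756168388) (nat_lit 228) (nat_lit 65092186223) (nat_lit 27) (nat_lit 5) (nat_lit 29) (nat_lit 5) (nat_lit 30) (nat_lit 5) (nat_lit 352) (nat_lit 295) (nat_lit 133)) (XT.nd (nat_lit 36192) (nat_lit 0) (nat_lit 12160) (XT.lf (nat_lit 0) (nat_lit 100471401129) (nat_lit 152) (nat_lit 9783383634) (nat_lit 228) (nat_lit 34642532565) (nat_lit 27) (nat_lit 5) (nat_lit 29) (nat_lit 5) (nat_lit 30) (nat_lit 5) (nat_lit 353) (nat_lit 295) (nat_lit 132)) (XT.lf (nat_lit 0) (nat_lit 1918044036) (nat_lit 0) (nat_lit 1918044036) (nat_lit 1140) (nat_lit 8055914126) (nat_lit 187) (nat_lit 5) (nat_lit 187) (nat_lit 3) (nat_lit 202) (nat_lit 3) (nat_lit 296) (nat_lit 296) (nat_lit 188)))) (XT.nd (nat_lit 156) (nat_lit 0) (nat_lit 152) (XT.nd (nat_lit 78) (nat_lit 0) (nat_lit 76) (XT.lf (nat_lit 0) (nat_lit 8181287887) (nat_lit 1140)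 (nat_lit 2366262595) (nat_lit 1216) (nat_lit 13821288928) (nat_lit 187) (nat_lit 5) (nat_lit 202) (nat_lit 3) (nat_lit 203) (nat_lit 5) (nat_lit 297) (nat_lit 296) (nat_lit 187)) (XT.lf (nat_lit 0) (nat_lit 8972132825) (nat_lit 1140) (nat_lit 8680257645) (nat_lit 1216) (nat_lit 7322853114) (nat_lit 188) (nat_lit 5) (nat_lit 203) (nat_lit 5) (nat_lit 204) (nat_lit 5) (nat_lit 298) (nat_lit 296) (nat_lit 186))) (XT.nd (nat_lit 78) (nat_lit 0) (nat_lit 0) (XT.lf (nat_lit 0) (nat_lit 10026475774) (nat_lit 1140) (nat_lit 15191538483) (nat_lit 1216) (nat_lit 387250025) (nat_lit 189) (nat_lit 5) (nat_lit 204) (nat_lit 5) (nat_lit 205) (nat_lit 5) (nat_lit 299) (nat_lit 296) (nat_lit 185)) (XT.lf (nat_lit 76) (nat_lit 4277464494) (nat_lit 0) (nat_lit 7155065702) (nat_lit 1216) (nat_lit 14825300267) (nat_lit 190) (nat_lit 5) (nat_lit 189) (nat_lit 5) (nat_lit 205) (nat_lit 5) (nat_lit 300) (nat_lit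 296) (nat_lit 184))))))) (XT.nd (nat_lit 1014) (nat_lit 4484) (nat_lit 0) (XT.nd (nat_lit 468) (nat_lit 3648) (nat_lit 0) (XT.nd (nat_lit 234) (nat_lit 0) (nat_lit 152) (XT.nd (nat_lit 78) (nat_lit 0) (nat_lit 76) (XT.lf (nat_lit 0) (nat_lit 13170295124) (nat_lit 1140) (nat_lit 2022846091) (nat_lit 1216) (nat_lit 11742055099) (nat_lit 190) (nat_lit 5) (nat_lit 205) (nat_lit 5) (nat_lit 206) (nat_lit 5) (nat_lit 301) (nat_lit 296) (nat_lit 183)) (XT.nd (nat_lit 78) (nat_lit 0) (nat_lit 0) (XT.lf (nat_lit 0) (nat_lit 15280750009) (nat_lit 1140) (nat_lit 8448262055) (nat_lit 1216) (nat_lit 3908857292) (nat_lit 191) (nat_lit 5) (nat_lit 206) (nat_lit 5) (nat_lit 207) (nat_lit 5) (nat_lit 302) (nat_lit 296) (nat_lit 182)) (XT.lf (nat_lit 76) (nat_lit 13227861238) (nat_lit 0) (nat_lit 4561241870) (nat_lit 1216) (nat_lit 10577814011) (nat_lit 192) (nat_lit 5) (nat_lit 191) (nat_lit 5) (nat_lit 207)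 (nat_lit 5) (nat_lit 303) (nat_lit 296) (nat_lit 181)))) (XT.nd (nat_lit 78) (nat_lit 0) (nat_lit 76) (XT.lf (nat_lit 76) (nat_lit 7014198296) (nat_lit 0) (nat_lit 13704788811) (nat_lit 1216) (nat_lit 8404558509) (nat_lit 193) (nat_lit 5) (nat_lit 192) (nat_lit 5) (nat_lit 208) (nat_lit 5) (nat_lit 304) (nat_lit 296) (nat_lit 180)) (XT.nd (nat_lit 78) (nat_lit 0) (nat_lit 0) (XT.lf (nat_lit 76) (nat_lit 574012126) (nat_lit 0) (nat_lit 23482854238) (nat_lit 1216) (nat_lit 5853305328) (nat_lit 194) (nat_lit 5) (nat_lit 193) (nat_lit 5) (nat_lit 209) (nat_lit 5) (nat_lit 305) (nat_lit 296) (nat_lit 179)) (XT.lf (nat_lit 76) (nat_lit 24705867870) (nat_lit 0) (nat_lit 3212286311) (nat_lit 1216) (nat_lit 2807290107) (nat_lit 194) (nat_lit 5) (nat_lit 193) (nat_lit 5) (nat_lit 209) (nat_lit 5) (nat_lit 306) (nat_lit 296) (nat_lit 178))))) (XT.nd (nat_lit 234) (nat_lit 1520) (nat_lit 0) (XT.nd (nat_lit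 78) (nat_lit 1216) (nat_lit 0) (XT.lf (nat_lit 0) (nat_lit 732107905) (nat_lit 1216) (nat_lit 12931883286) (nat_lit 76) (nat_lit 17906925037) (nat_lit 178) (nat_lit 5) (nat_lit 194) (nat_lit 5) (nat_lit 179) (nat_lit 5) (nat_lit 307) (nat_lit 296) (nat_lit 177)) (XT.nd (nat_lit 78) (nat_lit 608) (nat_lit 0) (XT.lf (nat_lit 0) (nat_lit 4672207235) (nat_lit 684) (nat_lit 20153256595) (nat_lit 76) (nat_lit 7623919754) (nat_lit 170) (nat_lit 5) (nat_lit 179) (nat_lit 5) (nat_lit 171) (nat_lit 5) (nat_lit 308) (nat_lit 296) (nat_lit 176)) (XT.lf (nat_lit 0) (nat_lit 5652498846) (nat_lit 608) (nat_lit 3476369536) (nat_lit 684) (nat_lit 24233328155) (nat_lit 162) (nat_lit 5) (nat_lit 170) (nat_lit 5) (nat_lit 171) (nat_lit 5) (nat_lit 309) (nat_lit 296) (nat_lit 175)))) (XT.nd (nat_lit 156) (nat_lit 988) (nat_lit 0) (XT.nd (nat_lit 78) (nat_lit 532) (nat_lit 0) (XT.lf (nat_lit 0) (nat_lit 14193091405)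 (nat_lit 684) (nat_lit 1335454897) (nat_lit 76) (nat_lit 18780570479) (nat_lit 162) (nat_lit 5) (nat_lit 171) (nat_lit 5) (nat_lit 163) (nat_lit 5) (nat_lit 310) (nat_lit 296) (nat_lit 174)) (XT.lf (nat_lit 0) (nat_lit 19864790585) (nat_lit 608) (nat_lit 8522620587) (nat_lit 76) (nat_lit 6905352021) (nat_lit 155) (nat_lit 5) (nat_lit 163) (nat_lit 5) (nat_lit 156) (nat_lit 5) (nat_lit 311) (nat_lit 296) (nat_lit 173))) (XT.nd (nat_lit 78) (nat_lit 456) (nat_lit 0) (XT.lf (nat_lit 0) (nat_lit 20215047341) (nat_lit 532) (nat_lit 5963693593) (nat_lit 608) (nat_lit 10136098721) (nat_lit 148) (nat_lit 5) (nat_lit 155) (nat_lit 5) (nat_lit 156) (nat_lit 5) (nat_lit 312) (nat_lit 296) (nat_lit 172)) (XT.lf (nat_lit 0) (nat_lit 13264980008) (nat_lit 456) (nat_lit 19922491638) (nat_lit 532) (nat_lit 4189183160) (nat_lit 142) (nat_lit 5) (nat_lit 148) (nat_lit 5) (nat_lit 149) (nat_lit 5) (nat_lit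 313) (nat_lit 296) (nat_lit 171)))))) (XT.nd (nat_lit 546) (nat_lit 2128) (nat_lit 0) (XT.nd (nat_lit 234) (nat_lit 1292) (nat_lit 0) (XT.nd (nat_lit 78) (nat_lit 456) (nat_lit 0) (XT.lf (nat_lit 0) (nat_lit 2329525648) (nat_lit 608) (nat_lit 32541370070) (nat_lit 76) (nat_lit 3610642670) (nat_lit 134) (nat_lit 5) (nat_lit 142) (nat_lit 5) (nat_lit 135) (nat_lit 5) (nat_lit 314) (nat_lit 296) (nat_lit 170)) (XT.nd (nat_lit 78) (nat_lit 456) (nat_lit 0) (XT.lf (nat_lit 0) (nat_lit 9534434868) (nat_lit 608) (nat_lit 1887817129) (nat_lit 76) (nat_lit 28204769201) (nat_lit 134) (nat_lit 5) (nat_lit 142) (nat_lit 5) (nat_lit 135) (nat_lit 5) (nat_lit 315) (nat_lit 296) (nat_lit 169)) (XT.lf (nat_lit 0) (nat_lit 17521003662) (nat_lit 532) (nat_lit 10055497619) (nat_lit 76) (nat_lit 13240640608) (nat_lit 128) (nat_lit 5) (nat_lit 135) (nat_lit 5) (nat_lit 129) (nat_lit 5) (nat_lit 316) (nat_lit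 296) (nat_lit 168)))) (XT.nd (nat_lit 156) (nat_lit 456) (nat_lit 0) (XT.nd (nat_lit 78) (nat_lit 380) (nat_lit 0) (XT.lf (nat_lit 0) (nat_lit 23351097604) (nat_lit 456) (nat_lit 2909995659) (nat_lit 532) (nat_lit 15795055453) (nat_lit 122) (nat_lit 5) (nat_lit 128) (nat_lit 5) (nat_lit 129) (nat_lit 5) (nat_lit 317) (nat_lit 296) (nat_lit 167)) (XT.lf (nat_lit 0) (nat_lit 15355876112) (nat_lit 380) (nat_lit 20550449210) (nat_lit 456) (nat_lit 7436742013) (nat_lit 117) (nat_lit 5) (nat_lit 122) (nat_lit 5) (nat_lit 123) (nat_lit 5) (nat_lit 318) (nat_lit 296) (nat_lit 166))) (XT.nd (nat_lit 78) (nat_lit 0) (nat_lit 0) (XT.lf (nat_lit 0) (nat_lit 1649727076) (nat_lit 456) (nat_lit 37829455869) (nat_lit 76) (nat_lit 5204676486) (nat_lit 111) (nat_lit 5) (nat_lit 117) (nat_lit 5) (nat_lit 112) (nat_lit 5) (nat_lit 319) (nat_lit 296) (nat_lit 165)) (XT.lf (nat_lit 0) (nat_lit 11531819059) (nat_lit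 456) (nat_lit 2351263202) (nat_lit 76) (nat_lit 32191551782) (nat_lit 111) (nat_lit 5) (nat_lit 117) (nat_lit 5) (nat_lit 112) (nat_lit 5) (nat_lit 320) (nat_lit 296) (nat_lit 164))))) (XT.nd (nat_lit 234) (nat_lit 1064) (nat_lit 0) (XT.nd (nat_lit 78) (nat_lit 684) (nat_lit 0) (XT.lf (nat_lit 0) (nat_lit 22373918887) (nat_lit 456) (nat_lit 12063303703) (nat_lit 76) (nat_lit 13083752387) (nat_lit 106) (nat_lit 5) (nat_lit 112) (nat_lit 5) (nat_lit 107) (nat_lit 5) (nat_lit 321) (nat_lit 296) (nat_lit 163)) (XT.nd (nat_lit 78) (nat_lit 304) (nat_lit 0) (XT.lf (nat_lit 0) (nat_lit 26539294529) (nat_lit 380) (nat_lit 7634182073) (nat_lit 456) (nat_lit 14853700235) (nat_lit 101) (nat_lit 5) (nat_lit 106) (nat_lit 5) (nat_lit 107) (nat_lit 5) (nat_lit 322) (nat_lit 296) (nat_lit 162)) (XT.lf (nat_lit 0) (nat_lit 16844000827) (nat_lit 304) (nat_lit 30199297332) (nat_lit 380) (nat_lit 3550986305)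 (nat_lit 97) (nat_lit 5) (nat_lit 101) (nat_lit 5) (nat_lit 102) (nat_lit 5) (nat_lit 323) (nat_lit 296) (nat_lit 161)))) (XT.nd (nat_lit 156) (nat_lit 608) (nat_lit 0) (XT.nd (nat_lit 78) (nat_lit 0) (nat_lit 0) (XT.lf (nat_lit 0) (nat_lit 6338615637) (nat_lit 380) (nat_lit 2183644681) (nat_lit 456) (nat_lit 43704062016) (nat_lit 91) (nat_lit 5) (nat_lit 96) (nat_lit 5) (nat_lit 97) (nat_lit 5) (nat_lit 324) (nat_lit 296) (nat_lit 160)) (XT.lf (nat_lit 0) (nat_lit 21735110921) (nat_lit 456) (nat_lit 5098698910) (nat_lit 76) (nat_lit 27086819819) (nat_lit 91) (nat_lit 5) (nat_lit 97) (nat_lit 5) (nat_lit 92) (nat_lit 5) (nat_lit 325) (nat_lit 296) (nat_lit 159))) (XT.nd (nat_lit 78) (nat_lit 304) (nat_lit 0) (XT.lf (nat_lit 0) (nat_lit 36020130161) (nat_lit 380) (nat_lit 17258643845) (nat_lit 76) (nat_lit 2408536110) (nat_lit 87) (nat_lit 5) (nat_lit 92) (nat_lit 5) (nat_lit 88) (nat_lit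 5) (nat_lit 326) (nat_lit 296) (nat_lit 158)) (XT.lf (nat_lit 0) (nat_lit 26947641697) (nat_lit 304) (nat_lit 24651000572) (nat_lit 380) (nat_lit 5926308475) (nat_lit 83) (nat_lit 5) (nat_lit 87) (nat_lit 5) (nat_lit 88) (nat_lit 5) (nat_lit 327) (nat_lit 296) (nat_lit 157))))))))
noncomputable def xc105 : XT := (XT.nd (nat_lit 38220) (nat_lit 0) (nat_lit 5624) (XT.nd (nat_lit 1014) (nat_lit 1520) (nat_lit 0) (XT.nd (nat_lit 468) (nat_lit 1216) (nat_lit 0) (XT.nd (nat_lit 234) (nat_lit 836) (nat_lit 0) (XT.nd (nat_lit 78) (nat_lit 304) (nat_lit 0) (XT.lf (nat_lit 0) (nat_lit 8706604626) (nat_lit 380) (nat_lit 45028856345) (nat_lit 76) (nat_lit 5705437046) (nat_lit 78) (nat_lit 5) (nat_lit 83) (nat_lit 5) (nat_lit 79) (nat_lit 5) (nat_lit 328) (nat_lit 296) (nat_lit 156)) (XT.nd (nat_lit 78) (nat_lit 0) (nat_lit 0) (XT.lf (nat_lit 0) (nat_lit 540522055) (nat_lit 304) (nat_lit 23977658780)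 (nat_lit 380) (nat_lit 36915617041) (nat_lit 74) (nat_lit 5) (nat_lit 78) (nat_lit 5) (nat_lit 79) (nat_lit 5) (nat_lit 329) (nat_lit 296) (nat_lit 155)) (XT.lf (nat_lit 0) (nat_lit 41654982482) (nat_lit 380) (nat_lit 14262419415) (nat_lit 76) (nat_lit 7592904283) (nat_lit 74) (nat_lit 5) (nat_lit 79) (nat_lit 5) (nat_lit 75) (nat_lit 5) (nat_lit 330) (nat_lit 296) (nat_lit 154)))) (XT.nd (nat_lit 78) (nat_lit 608) (nat_lit 0) (XT.lf (nat_lit 0) (nat_lit 35139019683) (nat_lit 228) (nat_lit 25086213713) (nat_lit 304) (nat_lit 5448110940) (nat_lit 71) (nat_lit 5) (nat_lit 74) (nat_lit 5) (nat_lit 75) (nat_lit 5) (nat_lit 331) (nat_lit 296) (nat_lit 153)) (XT.nd (nat_lit 78) (nat_lit 228) (nat_lit 0) (XT.lf (nat_lit 0) (nat_lit 11957973484) (nat_lit 380) (nat_lit 48373322585) (nat_lit 76) (nat_lit 7597592775) (nat_lit 66) (nat_lit 5) (nat_lit 71) (nat_lit 5) (nat_lit 67) (nat_lit 5) (nat_lit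 332) (nat_lit 296) (nat_lit 152)) (XT.lf (nat_lit 0) (nat_lit 2227904719) (nat_lit 228) (nat_lit 28483868555) (nat_lit 304) (nat_lit 39566118850) (nat_lit 63) (nat_lit 5) (nat_lit 66) (nat_lit 5) (nat_lit 67) (nat_lit 5) (nat_lit 333) (nat_lit 296) (nat_lit 151))))) (XT.nd (nat_lit 234) (nat_lit 684) (nat_lit 0) (XT.nd (nat_lit 78) (nat_lit 532) (nat_lit 0) (XT.lf (nat_lit 0) (nat_lit 50950866435) (nat_lit 304) (nat_lit 16416384689) (nat_lit 76) (nat_lit 5360668617) (nat_lit 63) (nat_lit 5) (nat_lit 67) (nat_lit 5) (nat_lit 64) (nat_lit 5) (nat_lit 334) (nat_lit 296) (nat_lit 150)) (XT.nd (nat_lit 78) (nat_lit 304) (nat_lit 0) (XT.lf (nat_lit 0) (nat_lit 38253620189) (nat_lit 228) (nat_lit 34600718203) (nat_lit 304) (nat_lit 2426539792) (nat_lit 60) (nat_lit 5) (nat_lit 63) (nat_lit 5) (nat_lit 64) (nat_lit 5) (nat_lit 335) (nat_lit 296) (nat_lit 149)) (XT.lf (nat_lit 0) (nat_lit 17888700056)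 (nat_lit 304) (nat_lit 59727773444) (nat_lit 76) (nat_lit 329463684) (nat_lit 56) (nat_lit 5) (nat_lit 60) (nat_lit 5) (nat_lit 57) (nat_lit 5) (nat_lit 336) (nat_lit 296) (nat_lit 148)))) (XT.nd (nat_lit 156) (nat_lit 456) (nat_lit 0) (XT.nd (nat_lit 78) (nat_lit 228) (nat_lit 0) (XT.lf (nat_lit 0) (nat_lit 39901507691) (nat_lit 304) (nat_lit 4114826774) (nat_lit 76) (nat_lit 36705236112) (nat_lit 56) (nat_lit 5) (nat_lit 60) (nat_lit 5) (nat_lit 57) (nat_lit 5) (nat_lit 337) (nat_lit 296) (nat_lit 147)) (XT.lf (nat_lit 0) (nat_lit 55355008634) (nat_lit 228) (nat_lit 8189532878) (nat_lit 304) (nat_lit 20075558372) (nat_lit 53) (nat_lit 5) (nat_lit 56) (nat_lit 5) (nat_lit 57) (nat_lit 5) (nat_lit 338) (nat_lit 296) (nat_lit 146))) (XT.nd (nat_lit 78) (nat_lit 228) (nat_lit 0) (XT.lf (nat_lit 0) (nat_lit 2305575171) (nat_lit 228) (nat_lit 55116851450) (nat_lit 76) (nat_lit 29221657773) (nat_lit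 50) (nat_lit 5) (nat_lit 53) (nat_lit 5) (nat_lit 51) (nat_lit 5) (nat_lit 339) (nat_lit 296) (nat_lit 145)) (XT.lf (nat_lit 0) (nat_lit 4892778991) (nat_lit 228) (nat_lit 20922793883) (nat_lit 304) (nat_lit 63984983793) (nat_lit 47) (nat_lit 5) (nat_lit 50) (nat_lit 5) (nat_lit 51) (nat_lit 5) (nat_lit 340) (nat_lit 296) (nat_lit 144)))))) (XT.nd (nat_lit 468) (nat_lit 760) (nat_lit 0) (XT.nd (nat_lit 234) (nat_lit 304) (nat_lit 0) (XT.nd (nat_lit 78) (nat_lit 456) (nat_lit 0) (XT.lf (nat_lit 0) (nat_lit 51239014272) (nat_lit 304) (nat_lit 24219823708) (nat_lit 76) (nat_lit 17633877785) (nat_lit 47) (nat_lit 5) (nat_lit 51) (nat_lit 5) (nat_lit 48) (nat_lit 5) (nat_lit 341) (nat_lit 296) (nat_lit 143)) (XT.nd (nat_lit 78) (nat_lit 304) (nat_lit 0) (XT.lf (nat_lit 0) (nat_lit 40069663043) (nat_lit 152) (nat_lit 38458098490) (nat_lit 228) (nat_lit 18003898722) (nat_lit 45) (nat_lit 5) (nat_lit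 47) (nat_lit 5) (nat_lit 48) (nat_lit 5) (nat_lit 342) (nat_lit 296) (nat_lit 142)) (XT.lf (nat_lit 0) (nat_lit 7235525697) (nat_lit 304) (nat_lit 92110741884) (nat_lit 76) (nat_lit 784221733) (nat_lit 41) (nat_lit 5) (nat_lit 45) (nat_lit 5) (nat_lit 42) (nat_lit 5) (nat_lit 343) (nat_lit 296) (nat_lit 141)))) (XT.nd (nat_lit 78) (nat_lit 304) (nat_lit 0) (XT.lf (nat_lit 0) (nat_lit 34341070397) (nat_lit 304) (nat_lit 27565474797) (nat_lit 76) (nat_lit 41968073300) (nat_lit 41) (nat_lit 5) (nat_lit 45) (nat_lit 5) (nat_lit 42) (nat_lit 5) (nat_lit 344) (nat_lit 296) (nat_lit 140)) (XT.nd (nat_lit 78) (nat_lit 152) (nat_lit 0) (XT.lf (nat_lit 0) (nat_lit 41003873272) (nat_lit 152) (nat_lit 22190161896) (nat_lit 228) (nat_lit 44600155896) (nat_lit 39) (nat_lit 5) (nat_lit 41) (nat_lit 5) (nat_lit 42) (nat_lit 5) (nat_lit 345) (nat_lit 296) (nat_lit 139)) (XT.lf (nat_lit 0) (nat_lit 1512369372)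 (nat_lit 152) (nat_lit 92463991167) (nat_lit 228) (nat_lit 17918781513) (nat_lit 37) (nat_lit 5) (nat_lit 39) (nat_lit 5) (nat_lit 40) (nat_lit 5) (nat_lit 346) (nat_lit 296) (nat_lit 138))))) (XT.nd (nat_lit 234) (nat_lit 532) (nat_lit 0) (XT.nd (nat_lit 78) (nat_lit 152) (nat_lit 0) (XT.lf (nat_lit 0) (nat_lit 10816048839) (nat_lit 228) (nat_lit 41885648873) (nat_lit 76) (nat_lit 63469040007) (nat_lit 36) (nat_lit 5) (nat_lit 39) (nat_lit 5) (nat_lit 37) (nat_lit 5) (nat_lit 347) (nat_lit 296) (nat_lit 137)) (XT.nd (nat_lit 78) (nat_lit 0) (nat_lit 0) (XT.lf (nat_lit 0) (nat_lit 30446533645) (nat_lit 152) (nat_lit 10464790057) (nat_lit 228) (nat_lit 79734639351) (nat_lit 34) (nat_lit 5) (nat_lit 36) (nat_lit 5) (nat_lit 37) (nat_lit 5) (nat_lit 348) (nat_lit 296) (nat_lit 136)) (XT.lf (nat_lit 0) (nat_lit 73270742528) (nat_lit 228) (nat_lit 18394399726) (nat_lit 76) (nat_lit 33657026966)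 (nat_lit 34) (nat_lit 5) (nat_lit 37) (nat_lit 5) (nat_lit 35) (nat_lit 5) (nat_lit 349) (nat_lit 296) (nat_lit 135)))) (XT.nd (nat_lit 156) (nat_lit 152) (nat_lit 0) (XT.nd (nat_lit 78) (nat_lit 228) (nat_lit 0) (XT.lf (nat_lit 0) (nat_lit 58024656339) (nat_lit 152) (nat_lit 49885174753) (nat_lit 228) (nat_lit 22302504565) (nat_lit 32) (nat_lit 5) (nat_lit 34) (nat_lit 5) (nat_lit 35) (nat_lit 5) (nat_lit 350) (nat_lit 296) (nat_lit 134)) (XT.lf (nat_lit 0) (nat_lit 3281176280) (nat_lit 152) (nat_lit 5699468479) (nat_lit 228) (nat_lit 126357156794) (nat_lit 29) (nat_lit 5) (nat_lit 31) (nat_lit 5) (nat_lit 32) (nat_lit 5) (nat_lit 351) (nat_lit 296) (nat_lit 133))) (XT.nd (nat_lit 78) (nat_lit 152) (nat_lit 0) (XT.lf (nat_lit 0) (nat_lit 42511030442) (nat_lit 228) (nat_lit 57291695081) (nat_lit 76) (nat_lit 40875861662) (nat_lit 29) (nat_lit 5) (nat_lit 32) (nat_lit 5) (nat_lit 30) (nat_lit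 5) (nat_lit 352) (nat_lit 296) (nat_lit 132)) (XT.lf (nat_lit 0) (nat_lit 21572260311) (nat_lit 152) (nat_lit 56409028843) (nat_lit 228) (nat_lit 68297223108) (nat_lit 27) (nat_lit 5) (nat_lit 29) (nat_lit 5) (nat_lit 30) (nat_lit 5) (nat_lit 353) (nat_lit 296) (nat_lit 131))))))) (XT.nd (nat_lit 1014) (nat_lit 5244) (nat_lit 0) (XT.nd (nat_lit 468) (nat_lit 1292) (nat_lit 0) (XT.nd (nat_lit 234) (nat_lit 0) (nat_lit 152) (XT.nd (nat_lit 78) (nat_lit 0) (nat_lit 0) (XT.lf (nat_lit 0) (nat_lit 2103429251) (nat_lit 0) (nat_lit 2103429251) (nat_lit 1140) (nat_lit 8274132787) (nat_lit 187) (nat_lit 5) (nat_lit 187) (nat_lit 3) (nat_lit 202) (nat_lit 3) (nat_lit 297) (nat_lit 297) (nat_lit 186)) (XT.nd (nat_lit 78) (nat_lit 0) (nat_lit 76) (XT.lf (nat_lit 0) (nat_lit 8929601538) (nat_lit 1140) (nat_lit 2301805824) (nat_lit 1216) (nat_lit 14345235515) (nat_lit 187) (nat_lit 5) (nat_lit 202) (nat_lit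 3) (nat_lit 203) (nat_lit 5) (nat_lit 298) (nat_lit 297) (nat_lit 185)) (XT.lf (nat_lit 0) (nat_lit 9744124879) (nat_lit 1140) (nat_lit 8925140932) (nat_lit 1216) (nat_lit 7544599316) (nat_lit 188) (nat_lit 5) (nat_lit 203) (nat_lit 5) (nat_lit 204) (nat_lit 5) (nat_lit 299) (nat_lit 297) (nat_lit 184)))) (XT.nd (nat_lit 78) (nat_lit 0) (nat_lit 0) (XT.lf (nat_lit 0) (nat_lit 10836339977) (nat_lit 1140) (nat_lit 15756484838) (nat_lit 1216) (nat_lit 283028304) (nat_lit 189) (nat_lit 5) (nat_lit 204) (nat_lit 5) (nat_lit 205) (nat_lit 5) (nat_lit 300) (nat_lit 297) (nat_lit 183)) (XT.nd (nat_lit 78) (nat_lit 0) (nat_lit 76) (XT.lf (nat_lit 76) (nat_lit 4680389242) (nat_lit 0) (nat_lit 7619432756) (nat_lit 1216) (nat_lit 15261631777) (nat_lit 190) (nat_lit 5) (nat_lit 189) (nat_lit 5) (nat_lit 205) (nat_lit 5) (nat_lit 301) (nat_lit 297) (nat_lit 182)) (XT.lf (nat_lit 0) (nat_lit 14109419838)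 (nat_lit 1140) (nat_lit 1934136424) (nat_lit 1216) (nat_lit 12229602282) (nat_lit 190) (nat_lit 5) (nat_lit 205) (nat_lit 5) (nat_lit 206) (nat_lit 5) (nat_lit 302) (nat_lit 297) (nat_lit 181))))) (XT.nd (nat_lit 234) (nat_lit 1596) (nat_lit 0) (XT.nd (nat_lit 78) (nat_lit 0) (nat_lit 0) (XT.lf (nat_lit 0) (nat_lit 16312994423) (nat_lit 1140) (nat_lit 8677020094) (nat_lit 1216) (nat_lit 4021340873) (nat_lit 191) (nat_lit 5) (nat_lit 206) (nat_lit 5) (nat_lit 207) (nat_lit 5) (nat_lit 303) (nat_lit 297) (nat_lit 180)) (XT.nd (nat_lit 78) (nat_lit 0) (nat_lit 76) (XT.lf (nat_lit 76) (nat_lit 14077358280) (nat_lit 0) (nat_lit 4858443309) (nat_lit 1216) (nat_lit 10841400061) (nat_lit 192) (nat_lit 5) (nat_lit 191) (nat_lit 5) (nat_lit 207) (nat_lit 5) (nat_lit 304) (nat_lit 297) (nat_lit 179)) (XT.lf (nat_lit 76) (nat_lit 7556096036) (nat_lit 0) (nat_lit 14445038923) (nat_lit 1216) (nat_lit 8570874339)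 (nat_lit 193) (nat_lit 5) (nat_lit 192) (nat_lit 5) (nat_lit 208) (nat_lit 5) (nat_lit 305) (nat_lit 297) (nat_lit 178)))) (XT.nd (nat_lit 156) (nat_lit 1748) (nat_lit 0) (XT.nd (nat_lit 78) (nat_lit 0) (nat_lit 0) (XT.lf (nat_lit 76) (nat_lit 796426325) (nat_lit 0) (nat_lit 24699116594) (nat_lit 1216) (nat_lit 5902750319) (nat_lit 194) (nat_lit 5) (nat_lit 193) (nat_lit 5) (nat_lit 209) (nat_lit 5) (nat_lit 306) (nat_lit 297) (nat_lit 177)) (XT.lf (nat_lit 76) (nat_lit 26125650399) (nat_lit 0) (nat_lit 3413014573) (nat_lit 1216) (nat_lit 2716016255) (nat_lit 194) (nat_lit 5) (nat_lit 193) (nat_lit 5) (nat_lit 209) (nat_lit 5) (nat_lit 307) (nat_lit 297) (nat_lit 176))) (XT.nd (nat_lit 78) (nat_lit 608) (nat_lit 0) (XT.lf (nat_lit 0) (nat_lit 986455148) (nat_lit 1216) (nat_lit 13387460225) (nat_lit 76) (nat_lit 18768739624) (nat_lit 178) (nat_lit 5) (nat_lit 194) (nat_lit 5) (nat_lit 179)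 (nat_lit 5) (nat_lit 308) (nat_lit 297) (nat_lit 175)) (XT.lf (nat_lit 0) (nat_lit 5114747325) (nat_lit 684) (nat_lit 20968614264) (nat_lit 76) (nat_lit 7981961581) (nat_lit 170) (nat_lit 5) (nat_lit 179) (nat_lit 5) (nat_lit 171) (nat_lit 5) (nat_lit 309) (nat_lit 297) (nat_lit 174)))))) (XT.nd (nat_lit 546) (nat_lit 2508) (nat_lit 0) (XT.nd (nat_lit 234) (nat_lit 1596) (nat_lit 0) (XT.nd (nat_lit 78) (nat_lit 532) (nat_lit 0) (XT.lf (nat_lit 0) (nat_lit 6121916559) (nat_lit 608) (nat_lit 3664171501) (nat_lit 684) (nat_lit 25237945776) (nat_lit 162) (nat_lit 5) (nat_lit 170) (nat_lit 5) (nat_lit 171) (nat_lit 5) (nat_lit 310) (nat_lit 297) (nat_lit 173)) (XT.nd (nat_lit 78) (nat_lit 532) (nat_lit 0) (XT.lf (nat_lit 0) (nat_lit 15093833443) (nat_lit 684) (nat_lit 1218227912) (nat_lit 76) (nat_lit 19706541270) (nat_lit 162) (nat_lit 5) (nat_lit 171) (nat_lit 5) (nat_lit 163) (nat_lit 5) (nat_lit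 311) (nat_lit 297) (nat_lit 172)) (XT.lf (nat_lit 0) (nat_lit 21041688319) (nat_lit 608) (nat_lit 8764241074) (nat_lit 76) (nat_lit 7245736145) (nat_lit 155) (nat_lit 5) (nat_lit 163) (nat_lit 5) (nat_lit 156) (nat_lit 5) (nat_lit 312) (nat_lit 297) (nat_lit 171)))) (XT.nd (nat_lit 156) (nat_lit 608) (nat_lit 0) (XT.nd (nat_lit 78) (nat_lit 456) (nat_lit 0) (XT.lf (nat_lit 0) (nat_lit 21405021293) (nat_lit 532) (nat_lit 6259292052) (nat_lit 608) (nat_lit 10460753929) (nat_lit 148) (nat_lit 5) (nat_lit 155) (nat_lit 5) (nat_lit 156) (nat_lit 5) (nat_lit 313) (nat_lit 297) (nat_lit 170)) (XT.lf (nat_lit 0) (nat_lit 14107645390) (nat_lit 456) (nat_lit 20909172331) (nat_lit 532) (nat_lit 4223365600) (nat_lit 142) (nat_lit 5) (nat_lit 148) (nat_lit 5) (nat_lit 149) (nat_lit 5) (nat_lit 314) (nat_lit 297) (nat_lit 169))) (XT.nd (nat_lit 78) (nat_lit 0) (nat_lit 0) (XT.lf (nat_lit 0) (nat_lit 2611503011)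 (nat_lit 608) (nat_lit 33985617730) (nat_lit 76) (nat_lit 3803339936) (nat_lit 134) (nat_lit 5) (nat_lit 142) (nat_lit 5) (nat_lit 135) (nat_lit 5) (nat_lit 315) (nat_lit 297) (nat_lit 168)) (XT.lf (nat_lit 0) (nat_lit 10168776689) (nat_lit 608) (nat_lit 1808092896) (nat_lit 76) (nat_lit 29626593501) (nat_lit 134) (nat_lit 5) (nat_lit 142) (nat_lit 5) (nat_lit 135) (nat_lit 5) (nat_lit 316) (nat_lit 297) (nat_lit 167))))) (XT.nd (nat_lit 234) (nat_lit 1216) (nat_lit 0) (XT.nd (nat_lit 78) (nat_lit 836) (nat_lit 0) (XT.lf (nat_lit 0) (nat_lit 18548961035) (nat_lit 532) (nat_lit 10384591318) (nat_lit 76) (nat_lit 13919717445) (nat_lit 128) (nat_lit 5) (nat_lit 135) (nat_lit 5) (nat_lit 129) (nat_lit 5) (nat_lit 317) (nat_lit 297) (nat_lit 166)) (XT.nd (nat_lit 78) (nat_lit 380) (nat_lit 0) (XT.lf (nat_lit 0) (nat_lit 24687355131) (nat_lit 456) (nat_lit 3033087982) (nat_lit 532) (nat_lit 16433960401)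 (nat_lit 122) (nat_lit 5) (nat_lit 128) (nat_lit 5) (nat_lit 129) (nat_lit 5) (nat_lit 318) (nat_lit 297) (nat_lit 165)) (XT.lf (nat_lit 0) (nat_lit 16291749654) (nat_lit 380) (nat_lit 21551041507) (nat_lit 456) (nat_lit 7663039072) (nat_lit 117) (nat_lit 5) (nat_lit 122) (nat_lit 5) (nat_lit 123) (nat_lit 5) (nat_lit 319) (nat_lit 297) (nat_lit 164)))) (XT.nd (nat_lit 156) (nat_lit 760) (nat_lit 0) (XT.nd (nat_lit 78) (nat_lit 0) (nat_lit 0) (XT.lf (nat_lit 0) (nat_lit 1869991074) (nat_lit 456) (nat_lit 39550767456) (nat_lit 76) (nat_lit 5493016316) (nat_lit 111) (nat_lit 5) (nat_lit 117) (nat_lit 5) (nat_lit 112) (nat_lit 5) (nat_lit 320) (nat_lit 297) (nat_lit 163)) (XT.lf (nat_lit 0) (nat_lit 12239626817) (nat_lit 456) (nat_lit 2306768070) (nat_lit 76) (nat_lit 33827896995) (nat_lit 111) (nat_lit 5) (nat_lit 117) (nat_lit 5) (nat_lit 112) (nat_lit 5) (nat_lit 321) (nat_lit 297) (nat_lit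 162))) (XT.nd (nat_lit 78) (nat_lit 380) (nat_lit 0) (XT.lf (nat_lit 0) (nat_lit 23619393697) (nat_lit 456) (nat_lit 12505428031) (nat_lit 76) (nat_lit 13768267813) (nat_lit 106) (nat_lit 5) (nat_lit 112) (nat_lit 5) (nat_lit 107) (nat_lit 5) (nat_lit 322) (nat_lit 297) (nat_lit 161)) (XT.lf (nat_lit 0) (nat_lit 28022683909) (nat_lit 380) (nat_lit 7981711950) (nat_lit 456) (nat_lit 15470347868) (nat_lit 101) (nat_lit 5) (nat_lit 106) (nat_lit 5) (nat_lit 107) (nat_lit 5) (nat_lit 323) (nat_lit 297) (nat_lit 160))))))))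
noncomputable def xc106 : XT := (XT.nd (nat_lit 2028) (nat_lit 380) (nat_lit 0) (XT.nd (nat_lit 1014) (nat_lit 1976) (nat_lit 0) (XT.nd (nat_lit 468) (nat_lit 1368) (nat_lit 0) (XT.nd (nat_lit 234) (nat_lit 988) (nat_lit 0) (XT.nd (nat_lit 78) (nat_lit 456) (nat_lit 0) (XT.lf (nat_lit 0) (nat_lit 17841505764) (nat_lit 304) (nat_lit 31672187310) (nat_lit 380) (nat_lit 3606640056) (nat_lit 97) (nat_lit 5) (nat_lit 101) (nat_lit 5) (nat_lit 102) (nat_lit 5) (nat_lit 324) (nat_lit 297) (nat_lit 159)) (XT.nd (nat_lit 78) (nat_lit 0) (nat_lit 0) (XT.lf (nat_lit 0) (nat_lit 6808821868) (nat_lit 380) (nat_lit 2254850504) (nat_lit 456) (nat_lit 45770397393) (nat_lit 91) (nat_lit 5) (nat_lit 96) (nat_lit 5) (nat_lit 97) (nat_lit 5) (nat_lit 325) (nat_lit 297) (nat_lit 158)) (XT.lf (nat_lit 0) (nat_lit 22932022743) (nat_lit 456) (nat_lit 5204606157) (nat_lit 76) (nat_lit 28476623053) (nat_lit 91) (nat_lit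 5) (nat_lit 97) (nat_lit 5) (nat_lit 92) (nat_lit 5) (nat_lit 326) (nat_lit 297) (nat_lit 157)))) (XT.nd (nat_lit 78) (nat_lit 684) (nat_lit 0) (XT.lf (nat_lit 0) (nat_lit 37927808530) (nat_lit 380) (nat_lit 17973901246) (nat_lit 76) (nat_lit 2566666174) (nat_lit 87) (nat_lit 5) (nat_lit 92) (nat_lit 5) (nat_lit 88) (nat_lit 5) (nat_lit 327) (nat_lit 297) (nat_lit 156)) (XT.nd (nat_lit 78) (nat_lit 380) (nat_lit 0) (XT.lf (nat_lit 0) (nat_lit 28438465505) (nat_lit 304) (nat_lit 25843079976) (nat_lit 380) (nat_lit 6116468892) (nat_lit 83) (nat_lit 5) (nat_lit 87) (nat_lit 5) (nat_lit 88) (nat_lit 5) (nat_lit 328) (nat_lit 297) (nat_lit 155)) (XT.lf (nat_lit 0) (nat_lit 9242815151) (nat_lit 380) (nat_lit 47136159052) (nat_lit 76) (nat_lit 6030854672) (nat_lit 78) (nat_lit 5) (nat_lit 83) (nat_lit 5) (nat_lit 79) (nat_lit 5) (nat_lit 329) (nat_lit 297) (nat_lit 154))))) (XT.nd (nat_lit 234)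 (nat_lit 836) (nat_lit 0) (XT.nd (nat_lit 78) (nat_lit 228) (nat_lit 0) (XT.lf (nat_lit 0) (nat_lit 707556520) (nat_lit 304) (nat_lit 25133955672) (nat_lit 380) (nat_lit 38660969448) (nat_lit 74) (nat_lit 5) (nat_lit 78) (nat_lit 5) (nat_lit 79) (nat_lit 5) (nat_lit 330) (nat_lit 297) (nat_lit 153)) (XT.nd (nat_lit 78) (nat_lit 228) (nat_lit 0) (XT.lf (nat_lit 0) (nat_lit 43830904633) (nat_lit 380) (nat_lit 14839725977) (nat_lit 76) (nat_lit 8012316201) (nat_lit 74) (nat_lit 5) (nat_lit 79) (nat_lit 5) (nat_lit 75) (nat_lit 5) (nat_lit 331) (nat_lit 297) (nat_lit 152)) (XT.lf (nat_lit 0) (nat_lit 37027891984) (nat_lit 228) (nat_lit 26298607407) (nat_lit 304) (nat_lit 5627736330) (nat_lit 71) (nat_lit 5) (nat_lit 74) (nat_lit 5) (nat_lit 75) (nat_lit 5) (nat_lit 332) (nat_lit 297) (nat_lit 151)))) (XT.nd (nat_lit 156) (nat_lit 228) (nat_lit 0) (XT.nd (nat_lit 78) (nat_lit 228) (nat_lit 0)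 (XT.lf (nat_lit 0) (nat_lit 12644163823) (nat_lit 380) (nat_lit 50659716842) (nat_lit 76) (nat_lit 8018733875) (nat_lit 66) (nat_lit 5) (nat_lit 71) (nat_lit 5) (nat_lit 67) (nat_lit 5) (nat_lit 333) (nat_lit 297) (nat_lit 150)) (XT.lf (nat_lit 0) (nat_lit 2467780282) (nat_lit 228) (nat_lit 29864903987) (nat_lit 304) (nat_lit 41456476128) (nat_lit 63) (nat_lit 5) (nat_lit 66) (nat_lit 5) (nat_lit 67) (nat_lit 5) (nat_lit 334) (nat_lit 297) (nat_lit 149))) (XT.nd (nat_lit 78) (nat_lit 228) (nat_lit 0) (XT.lf (nat_lit 0) (nat_lit 53580064226) (nat_lit 304) (nat_lit 17112735544) (nat_lit 76) (nat_lit 5669002836) (nat_lit 63) (nat_lit 5) (nat_lit 67) (nat_lit 5) (nat_lit 64) (nat_lit 5) (nat_lit 335) (nat_lit 297) (nat_lit 148)) (XT.lf (nat_lit 0) (nat_lit 40287201717) (nat_lit 228) (nat_lit 36288781925) (nat_lit 304) (nat_lit 2466510136) (nat_lit 60) (nat_lit 5) (nat_lit 63) (nat_lit 5) (nat_lit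 64) (nat_lit 5) (nat_lit 336) (nat_lit 297) (nat_lit 147)))))) (XT.nd (nat_lit 468) (nat_lit 988) (nat_lit 0) (XT.nd (nat_lit 234) (nat_lit 456) (nat_lit 0) (XT.nd (nat_lit 78) (nat_lit 228) (nat_lit 0) (XT.lf (nat_lit 0) (nat_lit 18860652797) (nat_lit 304) (nat_lit 62593161712) (nat_lit 76) (nat_lit 387038094) (nat_lit 56) (nat_lit 5) (nat_lit 60) (nat_lit 5) (nat_lit 57) (nat_lit 5) (nat_lit 337) (nat_lit 297) (nat_lit 146)) (XT.nd (nat_lit 78) (nat_lit 228) (nat_lit 0) (XT.lf (nat_lit 0) (nat_lit 41970409493) (nat_lit 304) (nat_lit 4205329632) (nat_lit 76) (nat_lit 38579641942) (nat_lit 56) (nat_lit 5) (nat_lit 60) (nat_lit 5) (nat_lit 57) (nat_lit 5) (nat_lit 338) (nat_lit 297) (nat_lit 145)) (XT.lf (nat_lit 0) (nat_lit 58234694259) (nat_lit 228) (nat_lit 8558461192) (nat_lit 304) (nat_lit 21005757110) (nat_lit 53) (nat_lit 5) (nat_lit 56) (nat_lit 5) (nat_lit 57) (nat_lit 5) (nat_lit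 339) (nat_lit 297) (nat_lit 144)))) (XT.nd (nat_lit 78) (nat_lit 228) (nat_lit 0) (XT.lf (nat_lit 0) (nat_lit 2491009297) (nat_lit 228) (nat_lit 57760773437) (nat_lit 76) (nat_lit 30722354328) (nat_lit 50) (nat_lit 5) (nat_lit 53) (nat_lit 5) (nat_lit 51) (nat_lit 5) (nat_lit 340) (nat_lit 297) (nat_lit 143)) (XT.nd (nat_lit 78) (nat_lit 0) (nat_lit 0) (XT.lf (nat_lit 0) (nat_lit 5246130344) (nat_lit 228) (nat_lit 21928080820) (nat_lit 304) (nat_lit 67114292890) (nat_lit 47) (nat_lit 5) (nat_lit 50) (nat_lit 5) (nat_lit 51) (nat_lit 5) (nat_lit 341) (nat_lit 297) (nat_lit 142)) (XT.lf (nat_lit 0) (nat_lit 53865967221) (nat_lit 304) (nat_lit 25325671895) (nat_lit 76) (nat_lit 18553719839) (nat_lit 47) (nat_lit 5) (nat_lit 51) (nat_lit 5) (nat_lit 48) (nat_lit 5) (nat_lit 342) (nat_lit 297) (nat_lit 141))))) (XT.nd (nat_lit 234) (nat_lit 532) (nat_lit 0) (XT.nd (nat_lit 78) (nat_lit 304) (nat_lit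 0) (XT.lf (nat_lit 0) (nat_lit 42175275290) (nat_lit 152) (nat_lit 40341762938) (nat_lit 228) (nat_lit 18839277876) (nat_lit 45) (nat_lit 5) (nat_lit 47) (nat_lit 5) (nat_lit 48) (nat_lit 5) (nat_lit 343) (nat_lit 297) (nat_lit 140)) (XT.nd (nat_lit 78) (nat_lit 0) (nat_lit 0) (XT.lf (nat_lit 0) (nat_lit 7659167179) (nat_lit 304) (nat_lit 96614303171) (nat_lit 76) (nat_lit 861650023) (nat_lit 41) (nat_lit 5) (nat_lit 45) (nat_lit 5) (nat_lit 42) (nat_lit 5) (nat_lit 344) (nat_lit 297) (nat_lit 139)) (XT.lf (nat_lit 0) (nat_lit 36117043152) (nat_lit 304) (nat_lit 28846628720) (nat_lit 76) (nat_lit 44102874300) (nat_lit 41) (nat_lit 5) (nat_lit 45) (nat_lit 5) (nat_lit 42) (nat_lit 5) (nat_lit 345) (nat_lit 297) (nat_lit 138)))) (XT.nd (nat_lit 156) (nat_lit 228) (nat_lit 0) (XT.nd (nat_lit 78) (nat_lit 152) (nat_lit 0) (XT.lf (nat_lit 0) (nat_lit 43148402833) (nat_lit 152) (nat_lit 23262354466)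 (nat_lit 228) (nat_lit 46771398737) (nat_lit 39) (nat_lit 5) (nat_lit 41) (nat_lit 5) (nat_lit 42) (nat_lit 5) (nat_lit 346) (nat_lit 297) (nat_lit 137)) (XT.lf (nat_lit 0) (nat_lit 1680965774) (nat_lit 152) (nat_lit 97049753287) (nat_lit 228) (nat_lit 18757481525) (nat_lit 37) (nat_lit 5) (nat_lit 39) (nat_lit 5) (nat_lit 40) (nat_lit 5) (nat_lit 347) (nat_lit 297) (nat_lit 136))) (XT.nd (nat_lit 78) (nat_lit 152) (nat_lit 0) (XT.lf (nat_lit 0) (nat_lit 11410300922) (nat_lit 228) (nat_lit 43890287236) (nat_lit 76) (nat_lit 66677053043) (nat_lit 36) (nat_lit 5) (nat_lit 39) (nat_lit 5) (nat_lit 37) (nat_lit 5) (nat_lit 348) (nat_lit 297) (nat_lit 135)) (XT.lf (nat_lit 0) (nat_lit 32055934778) (nat_lit 152) (nat_lit 10952696542) (nat_lit 228) (nat_lit 83668049153) (nat_lit 34) (nat_lit 5) (nat_lit 36) (nat_lit 5) (nat_lit 37) (nat_lit 5) (nat_lit 349) (nat_lit 297) (nat_lit 134))))))) (XT.nd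 (nat_lit 37284) (nat_lit 0) (nat_lit 6688) (XT.nd (nat_lit 36738) (nat_lit 0) (nat_lit 12084) (XT.nd (nat_lit 234) (nat_lit 0) (nat_lit 0) (XT.nd (nat_lit 78) (nat_lit 380) (nat_lit 0) (XT.lf (nat_lit 0) (nat_lit 76983880679) (nat_lit 228) (nat_lit 19230009672) (nat_lit 76) (nat_lit 35372872166) (nat_lit 34) (nat_lit 5) (nat_lit 37) (nat_lit 5) (nat_lit 35) (nat_lit 5) (nat_lit 350) (nat_lit 297) (nat_lit 133)) (XT.nd (nat_lit 78) (nat_lit 228) (nat_lit 0) (XT.lf (nat_lit 0) (nat_lit 61007588198) (nat_lit 152) (nat_lit 52345758860) (nat_lit 228) (nat_lit 23368138808) (nat_lit 32) (nat_lit 5) (nat_lit 34) (nat_lit 5) (nat_lit 35) (nat_lit 5) (nat_lit 351) (nat_lit 297) (nat_lit 132)) (XT.lf (nat_lit 0) (nat_lit 3525554684) (nat_lit 152) (nat_lit 5951108907) (nat_lit 228) (nat_lit 132626594548) (nat_lit 29) (nat_lit 5) (nat_lit 31) (nat_lit 5) (nat_lit 32) (nat_lit 5) (nat_lit 352) (nat_lit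 297) (nat_lit 131)))) (XT.nd (nat_lit 36348) (nat_lit 0) (nat_lit 12008) (XT.lf (nat_lit 0) (nat_lit 44681636261) (nat_lit 228) (nat_lit 60078724915) (nat_lit 76) (nat_lit 42950780982) (nat_lit 29) (nat_lit 5) (nat_lit 32) (nat_lit 5) (nat_lit 30) (nat_lit 5) (nat_lit 353) (nat_lit 297) (nat_lit 130)) (XT.nd (nat_lit 78) (nat_lit 0) (nat_lit 0) (XT.lf (nat_lit 0) (nat_lit 2289764444) (nat_lit 0) (nat_lit 2289764444) (nat_lit 1140) (nat_lit 8520422605) (nat_lit 187) (nat_lit 5) (nat_lit 187) (nat_lit 3) (nat_lit 202) (nat_lit 3) (nat_lit 298) (nat_lit 298) (nat_lit 184)) (XT.lf (nat_lit 0) (nat_lit 9683790691) (nat_lit 1140) (nat_lit 2251118428) (nat_lit 1216) (nat_lit 14910916465) (nat_lit 187) (nat_lit 5) (nat_lit 202) (nat_lit 3) (nat_lit 203) (nat_lit 5) (nat_lit 299) (nat_lit 298) (nat_lit 183))))) (XT.nd (nat_lit 234) (nat_lit 0) (nat_lit 152) (XT.nd (nat_lit 78) (nat_lit 0) (nat_lit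 76) (XT.lf (nat_lit 0) (nat_lit 10524651226) (nat_lit 1140) (nat_lit 9199851861) (nat_lit 1216) (nat_lit 7790857441) (nat_lit 188) (nat_lit 5) (nat_lit 203) (nat_lit 5) (nat_lit 204) (nat_lit 5) (nat_lit 300) (nat_lit 298) (nat_lit 182)) (XT.nd (nat_lit 78) (nat_lit 0) (nat_lit 0) (XT.lf (nat_lit 0) (nat_lit 11658012227) (nat_lit 1140) (nat_lit 16367773417) (nat_lit 1216) (nat_lit 185085187) (nat_lit 189) (nat_lit 5) (nat_lit 204) (nat_lit 5) (nat_lit 205) (nat_lit 5) (nat_lit 301) (nat_lit 298) (nat_lit 181)) (XT.lf (nat_lit 76) (nat_lit 5085884008) (nat_lit 0) (nat_lit 8097106225) (nat_lit 1216) (nat_lit 15748129689) (nat_lit 190) (nat_lit 5) (nat_lit 189) (nat_lit 5) (nat_lit 205) (nat_lit 5) (nat_lit 302) (nat_lit 298) (nat_lit 180)))) (XT.nd (nat_lit 156) (nat_lit 0) (nat_lit 76) (XT.nd (nat_lit 78) (nat_lit 0) (nat_lit 76) (XT.lf (nat_lit 0) (nat_lit 15069412334) (nat_lit 1140) (nat_lit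 1858641909) (nat_lit 1216) (nat_lit 12750782557) (nat_lit 190) (nat_lit 5) (nat_lit 205) (nat_lit 5) (nat_lit 206) (nat_lit 5) (nat_lit 303) (nat_lit 298) (nat_lit 179)) (XT.lf (nat_lit 0) (nat_lit 17371915721) (nat_lit 1140) (nat_lit 8935220247) (nat_lit 1216) (nat_lit 4147161401) (nat_lit 191) (nat_lit 5) (nat_lit 206) (nat_lit 5) (nat_lit 207) (nat_lit 5) (nat_lit 304) (nat_lit 298) (nat_lit 178))) (XT.nd (nat_lit 78) (nat_lit 0) (nat_lit 76) (XT.lf (nat_lit 76) (nat_lit 14951842049) (nat_lit 0) (nat_lit 5164076899) (nat_lit 1216) (nat_lit 11142830924) (nat_lit 192) (nat_lit 5) (nat_lit 191) (nat_lit 5) (nat_lit 207) (nat_lit 5) (nat_lit 305) (nat_lit 298) (nat_lit 177)) (XT.lf (nat_lit 76) (nat_lit 8107313831) (nat_lit 0) (nat_lit 15217187170) (nat_lit 1216) (nat_lit 8769112301) (nat_lit 193) (nat_lit 5) (nat_lit 192) (nat_lit 5) (nat_lit 208) (nat_lit 5) (nat_lit 306) (nat_lit 298) (nat_lit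 176)))))) (XT.nd (nat_lit 546) (nat_lit 2888) (nat_lit 0) (XT.nd (nat_lit 234) (nat_lit 1748) (nat_lit 0) (XT.nd (nat_lit 78) (nat_lit 1140) (nat_lit 0) (XT.lf (nat_lit 76) (nat_lit 1011951580) (nat_lit 0) (nat_lit 25972276183) (nat_lit 1216) (nat_lit 5977279876) (nat_lit 194) (nat_lit 5) (nat_lit 193) (nat_lit 5) (nat_lit 209) (nat_lit 5) (nat_lit 307) (nat_lit 298) (nat_lit 175)) (XT.nd (nat_lit 78) (nat_lit 1140) (nat_lit 0) (XT.lf (nat_lit 76) (nat_lit 27599270003) (nat_lit 0) (nat_lit 3620049834) (nat_lit 1216) (nat_lit 2641714250) (nat_lit 194) (nat_lit 5) (nat_lit 193) (nat_lit 5) (nat_lit 209) (nat_lit 5) (nat_lit 308) (nat_lit 298) (nat_lit 174)) (XT.lf (nat_lit 0) (nat_lit 1233276180) (nat_lit 1216) (nat_lit 13883574983) (nat_lit 76) (nat_lit 19676762396) (nat_lit 178) (nat_lit 5) (nat_lit 194) (nat_lit 5) (nat_lit 179) (nat_lit 5) (nat_lit 309) (nat_lit 298) (nat_lit 173)))) (XT.nd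 (nat_lit 156) (nat_lit 532) (nat_lit 0) (XT.nd (nat_lit 78) (nat_lit 608) (nat_lit 0) (XT.lf (nat_lit 0) (nat_lit 5559990112) (nat_lit 684) (nat_lit 21842618529) (nat_lit 76) (nat_lit 8360058153) (nat_lit 170) (nat_lit 5) (nat_lit 179) (nat_lit 5) (nat_lit 171) (nat_lit 5) (nat_lit 310) (nat_lit 298) (nat_lit 172)) (XT.lf (nat_lit 0) (nat_lit 6597438937) (nat_lit 608) (nat_lit 3860063512) (nat_lit 684) (nat_lit 26312043712) (nat_lit 162) (nat_lit 5) (nat_lit 170) (nat_lit 5) (nat_lit 171) (nat_lit 5) (nat_lit 311) (nat_lit 298) (nat_lit 171))) (XT.nd (nat_lit 78) (nat_lit 532) (nat_lit 0) (XT.lf (nat_lit 0) (nat_lit 16021847082) (nat_lit 684) (nat_lit 1112246129) (nat_lit 76) (nat_lit 20680024585) (nat_lit 162) (nat_lit 5) (nat_lit 171) (nat_lit 5) (nat_lit 163) (nat_lit 5) (nat_lit 312) (nat_lit 298) (nat_lit 170)) (XT.lf (nat_lit 0) (nat_lit 22260356142) (nat_lit 608) (nat_lit 9035096626)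 (nat_lit 76) (nat_lit 7603593494) (nat_lit 155) (nat_lit 5) (nat_lit 163) (nat_lit 5) (nat_lit 156) (nat_lit 5) (nat_lit 313) (nat_lit 298) (nat_lit 169))))) (XT.nd (nat_lit 234) (nat_lit 1292) (nat_lit 0) (XT.nd (nat_lit 78) (nat_lit 1064) (nat_lit 0) (XT.lf (nat_lit 0) (nat_lit 22637831618) (nat_lit 532) (nat_lit 6569910877) (nat_lit 608) (nat_lit 10818576453) (nat_lit 148) (nat_lit 5) (nat_lit 155) (nat_lit 5) (nat_lit 156) (nat_lit 5) (nat_lit 314) (nat_lit 298) (nat_lit 168)) (XT.nd (nat_lit 78) (nat_lit 608) (nat_lit 0) (XT.lf (nat_lit 0) (nat_lit 14975763607) (nat_lit 456) (nat_lit 21946065062) (nat_lit 532) (nat_lit 4275552730) (nat_lit 142) (nat_lit 5) (nat_lit 148) (nat_lit 5) (nat_lit 149) (nat_lit 5) (nat_lit 315) (nat_lit 298) (nat_lit 167)) (XT.lf (nat_lit 0) (nat_lit 2892192521) (nat_lit 608) (nat_lit 35519074722) (nat_lit 76) (nat_lit 4004541066) (nat_lit 134) (nat_lit 5)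 (nat_lit 142) (nat_lit 5) (nat_lit 135) (nat_lit 5) (nat_lit 316) (nat_lit 298) (nat_lit 166)))) (XT.nd (nat_lit 156) (nat_lit 836) (nat_lit 0) (XT.nd (nat_lit 78) (nat_lit 456) (nat_lit 0) (XT.lf (nat_lit 0) (nat_lit 10820181579) (nat_lit 608) (nat_lit 1740570022) (nat_lit 76) (nat_lit 31118431875) (nat_lit 134) (nat_lit 5) (nat_lit 142) (nat_lit 5) (nat_lit 135) (nat_lit 5) (nat_lit 317) (nat_lit 298) (nat_lit 165)) (XT.lf (nat_lit 0) (nat_lit 19614193385) (nat_lit 532) (nat_lit 10746286931) (nat_lit 76) (nat_lit 14631163459) (nat_lit 128) (nat_lit 5) (nat_lit 135) (nat_lit 5) (nat_lit 129) (nat_lit 5) (nat_lit 318) (nat_lit 298) (nat_lit 164))) (XT.nd (nat_lit 78) (nat_lit 380) (nat_lit 0) (XT.lf (nat_lit 0) (nat_lit 26074741161) (nat_lit 456) (nat_lit 3164418155) (nat_lit 532) (nat_lit 17118834998) (nat_lit 122) (nat_lit 5) (nat_lit 128) (nat_lit 5) (nat_lit 129) (nat_lit 5) (nat_lit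 319) (nat_lit 298) (nat_lit 163)) (XT.lf (nat_lit 0) (nat_lit 17258790412) (nat_lit 380) (nat_lit 22604167130) (nat_lit 456) (nat_lit 7914181917) (nat_lit 117) (nat_lit 5) (nat_lit 122) (nat_lit 5) (nat_lit 123) (nat_lit 5) (nat_lit 320) (nat_lit 298) (nat_lit 162))))))))
noncomputable def xc107 : XT := (XT.nd (nat_lit 2028) (nat_lit 912) (nat_lit 0) (XT.nd (nat_lit 1014) (nat_lit 2280) (nat_lit 0) (XT.nd (nat_lit 468) (nat_lit 1520) (nat_lit 0) (XT.nd (nat_lit 234) (nat_lit 1140) (nat_lit 0) (XT.nd (nat_lit 78) (nat_lit 380) (nat_lit 0) (XT.lf (nat_lit 0) (nat_lit 2088459013) (nat_lit 456) (nat_lit 41373964598) (nat_lit 76) (nat_lit 5793160106) (nat_lit 111) (nat_lit 5) (nat_lit 117) (nat_lit 5) (nat_lit 112) (nat_lit 5) (nat_lit 321) (nat_lit 298) (nat_lit 161)) (XT.nd (nat_lit 78) (nat_lit 380) (nat_lit 0) (XT.lf (nat_lit 0) (nat_lit 12970625667) (nat_lit 456) (nat_lit 2275114825) (nat_lit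 76) (nat_lit 35543570868) (nat_lit 111) (nat_lit 5) (nat_lit 117) (nat_lit 5) (nat_lit 112) (nat_lit 5) (nat_lit 322) (nat_lit 298) (nat_lit 160)) (XT.lf (nat_lit 0) (nat_lit 24915355550) (nat_lit 456) (nat_lit 12984630627) (nat_lit 76) (nat_lit 14484189418) (nat_lit 106) (nat_lit 5) (nat_lit 112) (nat_lit 5) (nat_lit 107) (nat_lit 5) (nat_lit 323) (nat_lit 298) (nat_lit 159)))) (XT.nd (nat_lit 78) (nat_lit 760) (nat_lit 0) (XT.lf (nat_lit 0) (nat_lit 29565699877) (nat_lit 380) (nat_lit 8349795980) (nat_lit 456) (nat_lit 16129545643) (nat_lit 101) (nat_lit 5) (nat_lit 106) (nat_lit 5) (nat_lit 107) (nat_lit 5) (nat_lit 324) (nat_lit 298) (nat_lit 158)) (XT.nd (nat_lit 78) (nat_lit 456) (nat_lit 0) (XT.lf (nat_lit 0) (nat_lit 18874447171) (nat_lit 304) (nat_lit 33222168660) (nat_lit 380) (nat_lit 3676409188) (nat_lit 97) (nat_lit 5) (nat_lit 101) (nat_lit 5) (nat_lit 102) (nat_lit 5) (nat_lit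 325) (nat_lit 298) (nat_lit 157)) (XT.lf (nat_lit 0) (nat_lit 7288288312) (nat_lit 380) (nat_lit 2333147304) (nat_lit 456) (nat_lit 47951100733) (nat_lit 91) (nat_lit 5) (nat_lit 96) (nat_lit 5) (nat_lit 97) (nat_lit 5) (nat_lit 326) (nat_lit 298) (nat_lit 156))))) (XT.nd (nat_lit 234) (nat_lit 912) (nat_lit 0) (XT.nd (nat_lit 78) (nat_lit 608) (nat_lit 0) (XT.lf (nat_lit 0) (nat_lit 24178538870) (nat_lit 456) (nat_lit 5329663950) (nat_lit 76) (nat_lit 29932619506) (nat_lit 91) (nat_lit 5) (nat_lit 97) (nat_lit 5) (nat_lit 92) (nat_lit 5) (nat_lit 327) (nat_lit 298) (nat_lit 155)) (XT.nd (nat_lit 78) (nat_lit 304) (nat_lit 0) (XT.lf (nat_lit 0) (nat_lit 39920953479) (nat_lit 380) (nat_lit 18738650920) (nat_lit 76) (nat_lit 2729197451) (nat_lit 87) (nat_lit 5) (nat_lit 92) (nat_lit 5) (nat_lit 88) (nat_lit 5) (nat_lit 328) (nat_lit 298) (nat_lit 154)) (XT.lf (nat_lit 0) (nat_lit 29990494651)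 (nat_lit 304) (nat_lit 27098525925) (nat_lit 380) (nat_lit 6326006616) (nat_lit 83) (nat_lit 5) (nat_lit 87) (nat_lit 5) (nat_lit 88) (nat_lit 5) (nat_lit 329) (nat_lit 298) (nat_lit 153)))) (XT.nd (nat_lit 156) (nat_lit 228) (nat_lit 0) (XT.nd (nat_lit 78) (nat_lit 304) (nat_lit 0) (XT.lf (nat_lit 0) (nat_lit 9796457308) (nat_lit 380) (nat_lit 49362227676) (nat_lit 76) (nat_lit 6368810806) (nat_lit 78) (nat_lit 5) (nat_lit 83) (nat_lit 5) (nat_lit 79) (nat_lit 5) (nat_lit 330) (nat_lit 298) (nat_lit 152)) (XT.lf (nat_lit 0) (nat_lit 869926058) (nat_lit 304) (nat_lit 26352026656) (nat_lit 380) (nat_lit 40502926359) (nat_lit 74) (nat_lit 5) (nat_lit 78) (nat_lit 5) (nat_lit 79) (nat_lit 5) (nat_lit 331) (nat_lit 298) (nat_lit 151))) (XT.nd (nat_lit 78) (nat_lit 228) (nat_lit 0) (XT.lf (nat_lit 0) (nat_lit 46106960547) (nat_lit 380) (nat_lit 15458524603) (nat_lit 76) (nat_lit 8449001585) (nat_lit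 74) (nat_lit 5) (nat_lit 79) (nat_lit 5) (nat_lit 75) (nat_lit 5) (nat_lit 332) (nat_lit 298) (nat_lit 150)) (XT.lf (nat_lit 0) (nat_lit 38998943106) (nat_lit 228) (nat_lit 27575517831) (nat_lit 304) (nat_lit 5824968810) (nat_lit 71) (nat_lit 5) (nat_lit 74) (nat_lit 5) (nat_lit 75) (nat_lit 5) (nat_lit 333) (nat_lit 298) (nat_lit 149)))))) (XT.nd (nat_lit 468) (nat_lit 1140) (nat_lit 0) (XT.nd (nat_lit 234) (nat_lit 532) (nat_lit 0) (XT.nd (nat_lit 78) (nat_lit 228) (nat_lit 0) (XT.lf (nat_lit 0) (nat_lit 13356455157) (nat_lit 380) (nat_lit 53072728196) (nat_lit 76) (nat_lit 8457095931) (nat_lit 66) (nat_lit 5) (nat_lit 71) (nat_lit 5) (nat_lit 67) (nat_lit 5) (nat_lit 334) (nat_lit 298) (nat_lit 148)) (XT.nd (nat_lit 78) (nat_lit 0) (nat_lit 0) (XT.lf (nat_lit 0) (nat_lit 2707704739) (nat_lit 228) (nat_lit 31319003613) (nat_lit 304) (nat_lit 43449527902) (nat_lit 63) (nat_lit 5) (nat_lit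 66) (nat_lit 5) (nat_lit 67) (nat_lit 5) (nat_lit 335) (nat_lit 298) (nat_lit 147)) (XT.lf (nat_lit 0) (nat_lit 56333130448) (nat_lit 304) (nat_lit 17855475832) (nat_lit 76) (nat_lit 5989006980) (nat_lit 63) (nat_lit 5) (nat_lit 67) (nat_lit 5) (nat_lit 64) (nat_lit 5) (nat_lit 336) (nat_lit 298) (nat_lit 146)))) (XT.nd (nat_lit 78) (nat_lit 304) (nat_lit 0) (XT.lf (nat_lit 0) (nat_lit 42411222138) (nat_lit 228) (nat_lit 38065151009) (nat_lit 304) (nat_lit 2516042766) (nat_lit 60) (nat_lit 5) (nat_lit 63) (nat_lit 5) (nat_lit 64) (nat_lit 5) (nat_lit 337) (nat_lit 298) (nat_lit 145)) (XT.nd (nat_lit 78) (nat_lit 0) (nat_lit 0) (XT.lf (nat_lit 0) (nat_lit 19873996310) (nat_lit 304) (nat_lit 65613068863) (nat_lit 76) (nat_lit 443670022) (nat_lit 56) (nat_lit 5) (nat_lit 60) (nat_lit 5) (nat_lit 57) (nat_lit 5) (nat_lit 338) (nat_lit 298) (nat_lit 144)) (XT.lf (nat_lit 0) (nat_lit 44135892705)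 (nat_lit 304) (nat_lit 4311071415) (nat_lit 76) (nat_lit 40544128823) (nat_lit 56) (nat_lit 5) (nat_lit 60) (nat_lit 5) (nat_lit 57) (nat_lit 5) (nat_lit 339) (nat_lit 298) (nat_lit 143))))) (XT.nd (nat_lit 234) (nat_lit 456) (nat_lit 0) (XT.nd (nat_lit 78) (nat_lit 456) (nat_lit 0) (XT.lf (nat_lit 0) (nat_lit 61247957492) (nat_lit 228) (nat_lit 8949605721) (nat_lit 304) (nat_lit 21989306480) (nat_lit 53) (nat_lit 5) (nat_lit 56) (nat_lit 5) (nat_lit 57) (nat_lit 5) (nat_lit 340) (nat_lit 298) (nat_lit 142)) (XT.nd (nat_lit 78) (nat_lit 228) (nat_lit 0) (XT.lf (nat_lit 0) (nat_lit 2679192748) (nat_lit 228) (nat_lit 60547296840) (nat_lit 76) (nat_lit 32294402807) (nat_lit 50) (nat_lit 5) (nat_lit 53) (nat_lit 5) (nat_lit 51) (nat_lit 5) (nat_lit 341) (nat_lit 298) (nat_lit 141)) (XT.lf (nat_lit 0) (nat_lit 5607042216) (nat_lit 228) (nat_lit 22987430205) (nat_lit 304) (nat_lit 70406569809)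 (nat_lit 47) (nat_lit 5) (nat_lit 50) (nat_lit 5) (nat_lit 51) (nat_lit 5) (nat_lit 342) (nat_lit 298) (nat_lit 140)))) (XT.nd (nat_lit 156) (nat_lit 304) (nat_lit 0) (XT.nd (nat_lit 78) (nat_lit 152) (nat_lit 0) (XT.lf (nat_lit 0) (nat_lit 56618224527) (nat_lit 304) (nat_lit 26496587691) (nat_lit 76) (nat_lit 19516007341) (nat_lit 47) (nat_lit 5) (nat_lit 51) (nat_lit 5) (nat_lit 48) (nat_lit 5) (nat_lit 343) (nat_lit 298) (nat_lit 139)) (XT.lf (nat_lit 0) (nat_lit 44376673155) (nat_lit 152) (nat_lit 42323258816) (nat_lit 228) (nat_lit 19722451945) (nat_lit 45) (nat_lit 5) (nat_lit 47) (nat_lit 5) (nat_lit 48) (nat_lit 5) (nat_lit 344) (nat_lit 298) (nat_lit 138))) (XT.nd (nat_lit 78) (nat_lit 0) (nat_lit 0) (XT.lf (nat_lit 0) (nat_lit 8098239095) (nat_lit 304) (nat_lit 101352523265) (nat_lit 76) (nat_lit 939396653) (nat_lit 41) (nat_lit 5) (nat_lit 45) (nat_lit 5) (nat_lit 42) (nat_lit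 5) (nat_lit 345) (nat_lit 298) (nat_lit 137)) (XT.lf (nat_lit 0) (nat_lit 37976336793) (nat_lit 304) (nat_lit 30200869619) (nat_lit 76) (nat_lit 46341031471) (nat_lit 41) (nat_lit 5) (nat_lit 45) (nat_lit 5) (nat_lit 42) (nat_lit 5) (nat_lit 346) (nat_lit 298) (nat_lit 136))))))) (XT.nd (nat_lit 37362) (nat_lit 0) (nat_lit 7980) (XT.nd (nat_lit 468) (nat_lit 228) (nat_lit 0) (XT.nd (nat_lit 234) (nat_lit 304) (nat_lit 0) (XT.nd (nat_lit 78) (nat_lit 228) (nat_lit 0) (XT.lf (nat_lit 0) (nat_lit 45391388413) (nat_lit 152) (nat_lit 24391625907) (nat_lit 228) (nat_lit 49056667129) (nat_lit 39) (nat_lit 5) (nat_lit 41) (nat_lit 5) (nat_lit 42) (nat_lit 5) (nat_lit 347) (nat_lit 298) (nat_lit 135)) (XT.nd (nat_lit 78) (nat_lit 76) (nat_lit 0) (XT.lf (nat_lit 0) (nat_lit 1849347789) (nat_lit 152) (nat_lit 101868284091) (nat_lit 228) (nat_lit 19643438084) (nat_lit 37) (nat_lit 5) (nat_lit 39) (nat_lit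 5) (nat_lit 40) (nat_lit 5) (nat_lit 348) (nat_lit 298) (nat_lit 134)) (XT.lf (nat_lit 0) (nat_lit 12029296368) (nat_lit 228) (nat_lit 46003491774) (nat_lit 76) (nat_lit 70042253573) (nat_lit 36) (nat_lit 5) (nat_lit 39) (nat_lit 5) (nat_lit 37) (nat_lit 5) (nat_lit 349) (nat_lit 298) (nat_lit 133)))) (XT.nd (nat_lit 78) (nat_lit 152) (nat_lit 0) (XT.lf (nat_lit 0) (nat_lit 33737710611) (nat_lit 152) (nat_lit 11468283280) (nat_lit 228) (nat_lit 87803086834) (nat_lit 34) (nat_lit 5) (nat_lit 36) (nat_lit 5) (nat_lit 37) (nat_lit 5) (nat_lit 350) (nat_lit 298) (nat_lit 132)) (XT.nd (nat_lit 78) (nat_lit 152) (nat_lit 0) (XT.lf (nat_lit 0) (nat_lit 80878064304) (nat_lit 228) (nat_lit 20115219870) (nat_lit 76) (nat_lit 37171442170) (nat_lit 34) (nat_lit 5) (nat_lit 37) (nat_lit 5) (nat_lit 35) (nat_lit 5) (nat_lit 351) (nat_lit 298) (nat_lit 131)) (XT.lf (nat_lit 0) (nat_lit 64132071048) (nat_lit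 152) (nat_lit 54932502921) (nat_lit 228) (nat_lit 24491655965) (nat_lit 32) (nat_lit 5) (nat_lit 34) (nat_lit 5) (nat_lit 35) (nat_lit 5) (nat_lit 352) (nat_lit 298) (nat_lit 130))))) (XT.nd (nat_lit 36582) (nat_lit 0) (nat_lit 12084) (XT.nd (nat_lit 36426) (nat_lit 0) (nat_lit 12008) (XT.lf (nat_lit 0) (nat_lit 3774684654) (nat_lit 152) (nat_lit 6218430342) (nat_lit 228) (nat_lit 139214005830) (nat_lit 29) (nat_lit 5) (nat_lit 31) (nat_lit 5) (nat_lit 32) (nat_lit 5) (nat_lit 353) (nat_lit 298) (nat_lit 129)) (XT.nd (nat_lit 78) (nat_lit 0) (nat_lit 0) (XT.lf (nat_lit 0) (nat_lit 2477870562) (nat_lit 0) (nat_lit 2477870562) (nat_lit 1140) (nat_lit 8794591744) (nat_lit 187) (nat_lit 5) (nat_lit 187) (nat_lit 3) (nat_lit 202) (nat_lit 3) (nat_lit 299) (nat_lit 299) (nat_lit 182)) (XT.lf (nat_lit 0) (nat_lit 10447081428) (nat_lit 1140) (nat_lit 2213309099) (nat_lit 1216) (nat_lit 15518974011)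 (nat_lit 187) (nat_lit 5) (nat_lit 202) (nat_lit 3) (nat_lit 203) (nat_lit 5) (nat_lit 300) (nat_lit 299) (nat_lit 181)))) (XT.nd (nat_lit 156) (nat_lit 0) (nat_lit 76) (XT.nd (nat_lit 78) (nat_lit 0) (nat_lit 76) (XT.lf (nat_lit 0) (nat_lit 11316933768) (nat_lit 1140) (nat_lit 9504247068) (nat_lit 1216) (nat_lit 8061604993) (nat_lit 188) (nat_lit 5) (nat_lit 203) (nat_lit 5) (nat_lit 204) (nat_lit 5) (nat_lit 301) (nat_lit 299) (nat_lit 180)) (XT.lf (nat_lit 0) (nat_lit 12494749800) (nat_lit 1140) (nat_lit 17026039037) (nat_lit 1216) (nat_lit 92666401) (nat_lit 189) (nat_lit 5) (nat_lit 204) (nat_lit 5) (nat_lit 205) (nat_lit 5) (nat_lit 302) (nat_lit 299) (nat_lit 179))) (XT.nd (nat_lit 78) (nat_lit 0) (nat_lit 76) (XT.lf (nat_lit 76) (nat_lit 5495711364) (nat_lit 0) (nat_lit 8589672949) (nat_lit 1216) (nat_lit 16284666626) (nat_lit 190) (nat_lit 5) (nat_lit 189) (nat_lit 5) (nat_lit 205)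 (nat_lit 5) (nat_lit 303) (nat_lit 299) (nat_lit 178)) (XT.lf (nat_lit 0) (nat_lit 16053741457) (nat_lit 1140) (nat_lit 1795382317) (nat_lit 1216) (nat_lit 13306417070) (nat_lit 190) (nat_lit 5) (nat_lit 205) (nat_lit 5) (nat_lit 206) (nat_lit 5) (nat_lit 304) (nat_lit 299) (nat_lit 177)))))) (XT.nd (nat_lit 546) (nat_lit 2736) (nat_lit 0) (XT.nd (nat_lit 234) (nat_lit 1596) (nat_lit 0) (XT.nd (nat_lit 78) (nat_lit 0) (nat_lit 0) (XT.lf (nat_lit 0) (nat_lit 18461165998) (nat_lit 1140) (nat_lit 9222660760) (nat_lit 1216) (nat_lit 4286268663) (nat_lit 191) (nat_lit 5) (nat_lit 206) (nat_lit 5) (nat_lit 207) (nat_lit 5) (nat_lit 305) (nat_lit 299) (nat_lit 176)) (XT.nd (nat_lit 78) (nat_lit 0) (nat_lit 76) (XT.lf (nat_lit 76) (nat_lit 15854187762) (nat_lit 0) (nat_lit 5479161854) (nat_lit 1216) (nat_lit 11481705677) (nat_lit 192) (nat_lit 5) (nat_lit 191) (nat_lit 5) (nat_lit 207) (nat_lit 5)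 (nat_lit 306) (nat_lit 299) (nat_lit 175)) (XT.lf (nat_lit 76) (nat_lit 8669970220) (nat_lit 0) (nat_lit 16023303944) (nat_lit 1216) (nat_lit 8998673808) (nat_lit 193) (nat_lit 5) (nat_lit 192) (nat_lit 5) (nat_lit 208) (nat_lit 5) (nat_lit 307) (nat_lit 299) (nat_lit 174)))) (XT.nd (nat_lit 156) (nat_lit 1748) (nat_lit 0) (XT.nd (nat_lit 78) (nat_lit 0) (nat_lit 0) (XT.lf (nat_lit 76) (nat_lit 1221917811) (nat_lit 0) (nat_lit 27305541928) (nat_lit 1216) (nat_lit 6076045948) (nat_lit 194) (nat_lit 5) (nat_lit 193) (nat_lit 5) (nat_lit 209) (nat_lit 5) (nat_lit 308) (nat_lit 299) (nat_lit 173)) (XT.lf (nat_lit 76) (nat_lit 29131013172) (nat_lit 0) (nat_lit 3834054169) (nat_lit 1216) (nat_lit 2583230512) (nat_lit 194) (nat_lit 5) (nat_lit 193) (nat_lit 5) (nat_lit 209) (nat_lit 5) (nat_lit 309) (nat_lit 299) (nat_lit 172))) (XT.nd (nat_lit 78) (nat_lit 608) (nat_lit 0) (XT.lf (nat_lit 0) (nat_lit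 1474076746) (nat_lit 1216) (nat_lit 14420603388) (nat_lit 76) (nat_lit 20633013932) (nat_lit 178) (nat_lit 5) (nat_lit 194) (nat_lit 5) (nat_lit 179) (nat_lit 5) (nat_lit 310) (nat_lit 299) (nat_lit 171)) (XT.lf (nat_lit 0) (nat_lit 6009876622) (nat_lit 684) (nat_lit 22776539525) (nat_lit 76) (nat_lit 8759012075) (nat_lit 170) (nat_lit 5) (nat_lit 179) (nat_lit 5) (nat_lit 171) (nat_lit 5) (nat_lit 311) (nat_lit 299) (nat_lit 170))))) (XT.nd (nat_lit 234) (nat_lit 1596) (nat_lit 0) (XT.nd (nat_lit 78) (nat_lit 532) (nat_lit 0) (XT.lf (nat_lit 0) (nat_lit 7080985758) (nat_lit 608) (nat_lit 4064570938) (nat_lit 684) (nat_lit 27457306348) (nat_lit 162) (nat_lit 5) (nat_lit 170) (nat_lit 5) (nat_lit 171) (nat_lit 5) (nat_lit 312) (nat_lit 299) (nat_lit 169)) (XT.nd (nat_lit 78) (nat_lit 532) (nat_lit 0) (XT.lf (nat_lit 0) (nat_lit 16980147569) (nat_lit 684) (nat_lit 1016481402) (nat_lit 76) (nat_lit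 21703283184) (nat_lit 162) (nat_lit 5) (nat_lit 171) (nat_lit 5) (nat_lit 163) (nat_lit 5) (nat_lit 313) (nat_lit 299) (nat_lit 168)) (XT.lf (nat_lit 0) (nat_lit 23524470009) (nat_lit 608) (nat_lit 9335054178) (nat_lit 76) (nat_lit 7979755520) (nat_lit 155) (nat_lit 5) (nat_lit 163) (nat_lit 5) (nat_lit 156) (nat_lit 5) (nat_lit 314) (nat_lit 299) (nat_lit 167)))) (XT.nd (nat_lit 156) (nat_lit 608) (nat_lit 0) (XT.nd (nat_lit 78) (nat_lit 456) (nat_lit 0) (XT.lf (nat_lit 0) (nat_lit 23917169240) (nat_lit 532) (nat_lit 6896278731) (nat_lit 608) (nat_lit 11209650243) (nat_lit 148) (nat_lit 5) (nat_lit 155) (nat_lit 5) (nat_lit 156) (nat_lit 5) (nat_lit 315) (nat_lit 299) (nat_lit 166)) (XT.lf (nat_lit 0) (nat_lit 15872158089) (nat_lit 456) (nat_lit 23035598804) (nat_lit 532) (nat_lit 4345129777) (nat_lit 142) (nat_lit 5) (nat_lit 148) (nat_lit 5) (nat_lit 149) (nat_lit 5) (nat_lit 316) (nat_lit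 299) (nat_lit 165))) (XT.nd (nat_lit 78) (nat_lit 0) (nat_lit 0) (XT.lf (nat_lit 0) (nat_lit 3172960296) (nat_lit 608) (nat_lit 37144621297) (nat_lit 76) (nat_lit 4214776403) (nat_lit 134) (nat_lit 5) (nat_lit 142) (nat_lit 5) (nat_lit 135) (nat_lit 5) (nat_lit 317) (nat_lit 299) (nat_lit 164)) (XT.lf (nat_lit 0) (nat_lit 11490865086) (nat_lit 608) (nat_lit 1684353609) (nat_lit 76) (nat_lit 32683885167) (nat_lit 134) (nat_lit 5) (nat_lit 142) (nat_lit 5) (nat_lit 135) (nat_lit 5) (nat_lit 318) (nat_lit 299) (nat_lit 163))))))))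
noncomputable def xc108 : XT := (XT.nd (nat_lit 2028) (nat_lit 988) (nat_lit 0) (XT.nd (nat_lit 1014) (nat_lit 2356) (nat_lit 0) (XT.nd (nat_lit 468) (nat_lit 2128) (nat_lit 0) (XT.nd (nat_lit 234) (nat_lit 836) (nat_lit 0) (XT.nd (nat_lit 78) (nat_lit 836) (nat_lit 0) (XT.lf (nat_lit 0) (nat_lit 20719877476) (nat_lit 532) (nat_lit 11140713339) (nat_lit 76) (nat_lit 15376744436) (nat_lit 128) (nat_lit 5) (nat_lit 135) (nat_lit 5) (nat_lit 129) (nat_lit 5) (nat_lit 319) (nat_lit 299) (nat_lit 162)) (XT.nd (nat_lit 78) (nat_lit 380) (nat_lit 0) (XT.lf (nat_lit 0) (nat_lit 27517270303) (nat_lit 456) (nat_lit 3304204391) (nat_lit 532) (nat_lit 17850673869) (nat_lit 122) (nat_lit 5) (nat_lit 128) (nat_lit 5) (nat_lit 129) (nat_lit 5) (nat_lit 320) (nat_lit 299) (nat_lit 161)) (XT.lf (nat_lit 0) (nat_lit 18260009547) (nat_lit 380) (nat_lit 23712219974) (nat_lit 456) (nat_lit 8190154860) (nat_lit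 117) (nat_lit 5) (nat_lit 122) (nat_lit 5) (nat_lit 123) (nat_lit 5) (nat_lit 321) (nat_lit 299) (nat_lit 160)))) (XT.nd (nat_lit 78) (nat_lit 380) (nat_lit 0) (XT.lf (nat_lit 0) (nat_lit 2306231973) (nat_lit 456) (nat_lit 43302670782) (nat_lit 76) (nat_lit 6105940992) (nat_lit 111) (nat_lit 5) (nat_lit 117) (nat_lit 5) (nat_lit 112) (nat_lit 5) (nat_lit 322) (nat_lit 299) (nat_lit 159)) (XT.nd (nat_lit 78) (nat_lit 380) (nat_lit 0) (XT.lf (nat_lit 0) (nat_lit 13727109340) (nat_lit 456) (nat_lit 2255544808) (nat_lit 76) (nat_lit 37342771202) (nat_lit 111) (nat_lit 5) (nat_lit 117) (nat_lit 5) (nat_lit 112) (nat_lit 5) (nat_lit 323) (nat_lit 299) (nat_lit 158)) (XT.lf (nat_lit 0) (nat_lit 26265424614) (nat_lit 456) (nat_lit 13501373447) (nat_lit 76) (nat_lit 15233349651) (nat_lit 106) (nat_lit 5) (nat_lit 112) (nat_lit 5) (nat_lit 107) (nat_lit 5) (nat_lit 324) (nat_lit 299) (nat_lit 157)))))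 (XT.nd (nat_lit 234) (nat_lit 988) (nat_lit 0) (XT.nd (nat_lit 78) (nat_lit 760) (nat_lit 0) (XT.lf (nat_lit 0) (nat_lit 31172675820) (nat_lit 380) (nat_lit 8739166444) (nat_lit 456) (nat_lit 16832331662) (nat_lit 101) (nat_lit 5) (nat_lit 106) (nat_lit 5) (nat_lit 107) (nat_lit 5) (nat_lit 325) (nat_lit 299) (nat_lit 156)) (XT.nd (nat_lit 78) (nat_lit 456) (nat_lit 0) (XT.lf (nat_lit 0) (nat_lit 19945939251) (nat_lit 304) (nat_lit 34852775490) (nat_lit 380) (nat_lit 3759945865) (nat_lit 97) (nat_lit 5) (nat_lit 101) (nat_lit 5) (nat_lit 102) (nat_lit 5) (nat_lit 326) (nat_lit 299) (nat_lit 155)) (XT.lf (nat_lit 0) (nat_lit 7778802819) (nat_lit 380) (nat_lit 2418561381) (nat_lit 456) (nat_lit 50250863000) (nat_lit 91) (nat_lit 5) (nat_lit 96) (nat_lit 5) (nat_lit 97) (nat_lit 5) (nat_lit 327) (nat_lit 299) (nat_lit 154)))) (XT.nd (nat_lit 156) (nat_lit 684) (nat_lit 0) (XT.nd (nat_lit 78)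 (nat_lit 304) (nat_lit 0) (XT.lf (nat_lit 0) (nat_lit 25478091655) (nat_lit 456) (nat_lit 5473541691) (nat_lit 76) (nat_lit 31458425357) (nat_lit 91) (nat_lit 5) (nat_lit 97) (nat_lit 5) (nat_lit 92) (nat_lit 5) (nat_lit 328) (nat_lit 299) (nat_lit 153)) (XT.lf (nat_lit 0) (nat_lit 42004760357) (nat_lit 380) (nat_lit 19554091050) (nat_lit 76) (nat_lit 2896675888) (nat_lit 87) (nat_lit 5) (nat_lit 92) (nat_lit 5) (nat_lit 88) (nat_lit 5) (nat_lit 329) (nat_lit 299) (nat_lit 152))) (XT.nd (nat_lit 78) (nat_lit 380) (nat_lit 0) (XT.lf (nat_lit 0) (nat_lit 31608029244) (nat_lit 304) (nat_lit 28420156939) (nat_lit 380) (nat_lit 6554972960) (nat_lit 83) (nat_lit 5) (nat_lit 87) (nat_lit 5) (nat_lit 88) (nat_lit 5) (nat_lit 330) (nat_lit 299) (nat_lit 151)) (XT.lf (nat_lit 0) (nat_lit 10369274640) (nat_lit 380) (nat_lit 51711754635) (nat_lit 76) (nat_lit 6720279374) (nat_lit 78) (nat_lit 5) (nat_lit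 83) (nat_lit 5) (nat_lit 79) (nat_lit 5) (nat_lit 331) (nat_lit 299) (nat_lit 150)))))) (XT.nd (nat_lit 468) (nat_lit 1216) (nat_lit 0) (XT.nd (nat_lit 234) (nat_lit 608) (nat_lit 0) (XT.nd (nat_lit 78) (nat_lit 228) (nat_lit 0) (XT.lf (nat_lit 0) (nat_lit 1028607588) (nat_lit 304) (nat_lit 27634592342) (nat_lit 380) (nat_lit 42445449946) (nat_lit 74) (nat_lit 5) (nat_lit 78) (nat_lit 5) (nat_lit 79) (nat_lit 5) (nat_lit 332) (nat_lit 299) (nat_lit 149)) (XT.nd (nat_lit 78) (nat_lit 228) (nat_lit 0) (XT.lf (nat_lit 0) (nat_lit 48488962255) (nat_lit 380) (nat_lit 16119715983) (nat_lit 76) (nat_lit 8904167830) (nat_lit 74) (nat_lit 5) (nat_lit 79) (nat_lit 5) (nat_lit 75) (nat_lit 5) (nat_lit 333) (nat_lit 299) (nat_lit 148)) (XT.lf (nat_lit 0) (nat_lit 41057422255) (nat_lit 228) (nat_lit 28919808510) (nat_lit 304) (nat_lit 6039886787) (nat_lit 71) (nat_lit 5) (nat_lit 74) (nat_lit 5) (nat_lit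 75) (nat_lit 5) (nat_lit 334) (nat_lit 299) (nat_lit 147)))) (XT.nd (nat_lit 78) (nat_lit 228) (nat_lit 0) (XT.lf (nat_lit 0) (nat_lit 14096915686) (nat_lit 380) (nat_lit 55617544208) (nat_lit 76) (nat_lit 8913896634) (nat_lit 66) (nat_lit 5) (nat_lit 71) (nat_lit 5) (nat_lit 67) (nat_lit 5) (nat_lit 335) (nat_lit 299) (nat_lit 146)) (XT.nd (nat_lit 78) (nat_lit 0) (nat_lit 0) (XT.lf (nat_lit 0) (nat_lit 2948791059) (nat_lit 228) (nat_lit 32849447604) (nat_lit 304) (nat_lit 45549648713) (nat_lit 63) (nat_lit 5) (nat_lit 66) (nat_lit 5) (nat_lit 67) (nat_lit 5) (nat_lit 336) (nat_lit 299) (nat_lit 145)) (XT.lf (nat_lit 0) (nat_lit 59216964304) (nat_lit 304) (nat_lit 18645849179) (nat_lit 76) (nat_lit 6321612887) (nat_lit 63) (nat_lit 5) (nat_lit 67) (nat_lit 5) (nat_lit 64) (nat_lit 5) (nat_lit 337) (nat_lit 299) (nat_lit 144))))) (XT.nd (nat_lit 234) (nat_lit 684) (nat_lit 0) (XT.nd (nat_lit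 78) (nat_lit 304) (nat_lit 0) (XT.lf (nat_lit 0) (nat_lit 44631248400) (nat_lit 228) (nat_lit 39933877937) (nat_lit 304) (nat_lit 2574912590) (nat_lit 60) (nat_lit 5) (nat_lit 63) (nat_lit 5) (nat_lit 64) (nat_lit 5) (nat_lit 338) (nat_lit 299) (nat_lit 143)) (XT.nd (nat_lit 78) (nat_lit 0) (nat_lit 0) (XT.lf (nat_lit 0) (nat_lit 20931470161) (nat_lit 304) (nat_lit 68794174973) (nat_lit 76) (nat_lit 499667603) (nat_lit 56) (nat_lit 5) (nat_lit 60) (nat_lit 5) (nat_lit 57) (nat_lit 5) (nat_lit 339) (nat_lit 299) (nat_lit 142)) (XT.lf (nat_lit 0) (nat_lit 46403424516) (nat_lit 304) (nat_lit 4431818002) (nat_lit 76) (nat_lit 42603539150) (nat_lit 56) (nat_lit 5) (nat_lit 60) (nat_lit 5) (nat_lit 57) (nat_lit 5) (nat_lit 340) (nat_lit 299) (nat_lit 141)))) (XT.nd (nat_lit 156) (nat_lit 228) (nat_lit 0) (XT.nd (nat_lit 78) (nat_lit 228) (nat_lit 0) (XT.lf (nat_lit 0) (nat_lit 64402444727) (nat_lit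 228) (nat_lit 9363726795) (nat_lit 304) (nat_lit 23028238031) (nat_lit 53) (nat_lit 5) (nat_lit 56) (nat_lit 5) (nat_lit 57) (nat_lit 5) (nat_lit 341) (nat_lit 299) (nat_lit 140)) (XT.lf (nat_lit 0) (nat_lit 2870869381) (nat_lit 228) (nat_lit 63482584340) (nat_lit 76) (nat_lit 33941713209) (nat_lit 50) (nat_lit 5) (nat_lit 53) (nat_lit 5) (nat_lit 51) (nat_lit 5) (nat_lit 342) (nat_lit 299) (nat_lit 139))) (XT.nd (nat_lit 78) (nat_lit 0) (nat_lit 0) (XT.lf (nat_lit 0) (nat_lit 5976832290) (nat_lit 228) (nat_lit 24103192051) (nat_lit 304) (nat_lit 73869358413) (nat_lit 47) (nat_lit 5) (nat_lit 50) (nat_lit 5) (nat_lit 51) (nat_lit 5) (nat_lit 343) (nat_lit 299) (nat_lit 138)) (XT.lf (nat_lit 0) (nat_lit 59502613254) (nat_lit 304) (nat_lit 27734915671) (nat_lit 76) (nat_lit 20523192297) (nat_lit 47) (nat_lit 5) (nat_lit 51) (nat_lit 5) (nat_lit 48) (nat_lit 5) (nat_lit 344) (nat_lit 299) (nat_lit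 137))))))) (XT.nd (nat_lit 37518) (nat_lit 0) (nat_lit 7600) (XT.nd (nat_lit 468) (nat_lit 152) (nat_lit 0) (XT.nd (nat_lit 234) (nat_lit 380) (nat_lit 0) (XT.nd (nat_lit 78) (nat_lit 304) (nat_lit 0) (XT.lf (nat_lit 0) (nat_lit 46679528672) (nat_lit 152) (nat_lit 44407138520) (nat_lit 228) (nat_lit 20655250437) (nat_lit 45) (nat_lit 5) (nat_lit 47) (nat_lit 5) (nat_lit 48) (nat_lit 5) (nat_lit 345) (nat_lit 299) (nat_lit 136)) (XT.nd (nat_lit 78) (nat_lit 0) (nat_lit 0) (XT.lf (nat_lit 0) (nat_lit 8554047700) (nat_lit 304) (nat_lit 106336253679) (nat_lit 76) (nat_lit 1017807872) (nat_lit 41) (nat_lit 5) (nat_lit 45) (nat_lit 5) (nat_lit 42) (nat_lit 5) (nat_lit 346) (nat_lit 299) (nat_lit 135)) (XT.lf (nat_lit 0) (nat_lit 39923626633) (nat_lit 304) (nat_lit 31631012386) (nat_lit 76) (nat_lit 48688027223) (nat_lit 41) (nat_lit 5) (nat_lit 45) (nat_lit 5) (nat_lit 42) (nat_lit 5) (nat_lit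 347) (nat_lit 299) (nat_lit 134)))) (XT.nd (nat_lit 78) (nat_lit 228) (nat_lit 0) (XT.lf (nat_lit 0) (nat_lit 47738568210) (nat_lit 152) (nat_lit 25580507628) (nat_lit 228) (nat_lit 51461154413) (nat_lit 39) (nat_lit 5) (nat_lit 41) (nat_lit 5) (nat_lit 42) (nat_lit 5) (nat_lit 348) (nat_lit 299) (nat_lit 133)) (XT.nd (nat_lit 78) (nat_lit 76) (nat_lit 0) (XT.lf (nat_lit 0) (nat_lit 2018308355) (nat_lit 152) (nat_lit 106930898423) (nat_lit 228) (nat_lit 20578519270) (nat_lit 37) (nat_lit 5) (nat_lit 39) (nat_lit 5) (nat_lit 40) (nat_lit 5) (nat_lit 349) (nat_lit 299) (nat_lit 132)) (XT.lf (nat_lit 0) (nat_lit 12674734338) (nat_lit 228) (nat_lit 48229915956) (nat_lit 76) (nat_lit 73572799701) (nat_lit 36) (nat_lit 5) (nat_lit 39) (nat_lit 5) (nat_lit 37) (nat_lit 5) (nat_lit 350) (nat_lit 299) (nat_lit 131))))) (XT.nd (nat_lit 36738) (nat_lit 0) (nat_lit 11628) (XT.nd (nat_lit 78) (nat_lit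 0) (nat_lit 0) (XT.lf (nat_lit 0) (nat_lit 35496232508) (nat_lit 152) (nat_lit 12012628882) (nat_lit 228) (nat_lit 92149372897) (nat_lit 34) (nat_lit 5) (nat_lit 36) (nat_lit 5) (nat_lit 37) (nat_lit 5) (nat_lit 351) (nat_lit 299) (nat_lit 130)) (XT.nd (nat_lit 36582) (nat_lit 0) (nat_lit 11628) (XT.lf (nat_lit 0) (nat_lit 84962774404) (nat_lit 228) (nat_lit 21051783326) (nat_lit 76) (nat_lit 39057158401) (nat_lit 34) (nat_lit 5) (nat_lit 37) (nat_lit 5) (nat_lit 35) (nat_lit 5) (nat_lit 352) (nat_lit 299) (nat_lit 129)) (XT.lf (nat_lit 0) (nat_lit 2668537692) (nat_lit 0) (nat_lit 2668537692) (nat_lit 1140) (nat_lit 9096587098) (nat_lit 187) (nat_lit 5) (nat_lit 187) (nat_lit 3) (nat_lit 202) (nat_lit 3) (nat_lit 300) (nat_lit 300) (nat_lit 180)))) (XT.nd (nat_lit 156) (nat_lit 0) (nat_lit 152) (XT.nd (nat_lit 78) (nat_lit 0) (nat_lit 76) (XT.lf (nat_lit 0) (nat_lit 11222588518) (nat_lit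 1140) (nat_lit 2187588840) (nat_lit 1216) (nat_lit 16170216791) (nat_lit 187) (nat_lit 5) (nat_lit 202) (nat_lit 3) (nat_lit 203) (nat_lit 5) (nat_lit 301) (nat_lit 300) (nat_lit 179)) (XT.lf (nat_lit 0) (nat_lit 12124095631) (nat_lit 1140) (nat_lit 9838328005) (nat_lit 1216) (nat_lit 8356934385) (nat_lit 188) (nat_lit 5) (nat_lit 203) (nat_lit 5) (nat_lit 204) (nat_lit 5) (nat_lit 302) (nat_lit 300) (nat_lit 178))) (XT.nd (nat_lit 78) (nat_lit 0) (nat_lit 0) (XT.lf (nat_lit 0) (nat_lit 13349724898) (nat_lit 1140) (nat_lit 17732104661) (nat_lit 1216) (nat_lit 5079271) (nat_lit 189) (nat_lit 5) (nat_lit 204) (nat_lit 5) (nat_lit 205) (nat_lit 5) (nat_lit 303) (nat_lit 300) (nat_lit 177)) (XT.lf (nat_lit 76) (nat_lit 5911570090) (nat_lit 0) (nat_lit 9098713432) (nat_lit 1216) (nat_lit 16871353882) (nat_lit 190) (nat_lit 5) (nat_lit 189) (nat_lit 5) (nat_lit 205) (nat_lit 5) (nat_lit 304) (nat_lit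 300) (nat_lit 176)))))) (XT.nd (nat_lit 546) (nat_lit 3344) (nat_lit 0) (XT.nd (nat_lit 234) (nat_lit 912) (nat_lit 0) (XT.nd (nat_lit 78) (nat_lit 0) (nat_lit 76) (XT.lf (nat_lit 0) (nat_lit 17065824001) (nat_lit 1140) (nat_lit 1743480968) (nat_lit 1216) (nat_lit 13897448023) (nat_lit 190) (nat_lit 5) (nat_lit 205) (nat_lit 5) (nat_lit 206) (nat_lit 5) (nat_lit 305) (nat_lit 300) (nat_lit 175)) (XT.nd (nat_lit 78) (nat_lit 0) (nat_lit 0) (XT.lf (nat_lit 0) (nat_lit 19584364426) (nat_lit 1140) (nat_lit 9539285407) (nat_lit 1216) (nat_lit 4438676602) (nat_lit 191) (nat_lit 5) (nat_lit 206) (nat_lit 5) (nat_lit 207) (nat_lit 5) (nat_lit 306) (nat_lit 300) (nat_lit 174)) (XT.lf (nat_lit 76) (nat_lit 16787263236) (nat_lit 0) (nat_lit 5804712791) (nat_lit 1216) (nat_lit 11857816546) (nat_lit 192) (nat_lit 5) (nat_lit 191) (nat_lit 5) (nat_lit 207) (nat_lit 5) (nat_lit 307) (nat_lit 300) (nat_lit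 173)))) (XT.nd (nat_lit 156) (nat_lit 1064) (nat_lit 0) (XT.nd (nat_lit 78) (nat_lit 0) (nat_lit 76) (XT.lf (nat_lit 76) (nat_lit 9246136030) (nat_lit 0) (nat_lit 16865518951) (nat_lit 1216) (nat_lit 9259134384) (nat_lit 193) (nat_lit 5) (nat_lit 192) (nat_lit 5) (nat_lit 208) (nat_lit 5) (nat_lit 308) (nat_lit 300) (nat_lit 172)) (XT.lf (nat_lit 76) (nat_lit 1427565766) (nat_lit 0) (nat_lit 28702249351) (nat_lit 1216) (nat_lit 6198353531) (nat_lit 194) (nat_lit 5) (nat_lit 193) (nat_lit 5) (nat_lit 209) (nat_lit 5) (nat_lit 309) (nat_lit 300) (nat_lit 171))) (XT.nd (nat_lit 78) (nat_lit 1140) (nat_lit 0) (XT.lf (nat_lit 76) (nat_lit 30725232464) (nat_lit 0) (nat_lit 4055690522) (nat_lit 1216) (nat_lit 2539539930) (nat_lit 194) (nat_lit 5) (nat_lit 193) (nat_lit 5) (nat_lit 209) (nat_lit 5) (nat_lit 310) (nat_lit 300) (nat_lit 170)) (XT.lf (nat_lit 0) (nat_lit 1710262903) (nat_lit 1216) (nat_lit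 14999093563) (nat_lit 76) (nat_lit 21639642784) (nat_lit 178) (nat_lit 5) (nat_lit 194) (nat_lit 5) (nat_lit 179) (nat_lit 5) (nat_lit 311) (nat_lit 300) (nat_lit 169))))) (XT.nd (nat_lit 234) (nat_lit 2128) (nat_lit 0) (XT.nd (nat_lit 78) (nat_lit 608) (nat_lit 0) (XT.lf (nat_lit 0) (nat_lit 6466277032) (nat_lit 684) (nat_lit 23771865430) (nat_lit 76) (nat_lit 9179684687) (nat_lit 170) (nat_lit 5) (nat_lit 179) (nat_lit 5) (nat_lit 171) (nat_lit 5) (nat_lit 312) (nat_lit 300) (nat_lit 168)) (XT.nd (nat_lit 78) (nat_lit 0) (nat_lit 0) (XT.lf (nat_lit 0) (nat_lit 7574422688) (nat_lit 608) (nat_lit 4278234179) (nat_lit 684) (nat_lit 28675668673) (nat_lit 162) (nat_lit 5) (nat_lit 170) (nat_lit 5) (nat_lit 171) (nat_lit 5) (nat_lit 313) (nat_lit 300) (nat_lit 167)) (XT.lf (nat_lit 0) (nat_lit 17971747358) (nat_lit 684) (nat_lit 930002040) (nat_lit 76) (nat_lit 22778703462) (nat_lit 162) (nat_lit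 5) (nat_lit 171) (nat_lit 5) (nat_lit 163) (nat_lit 5) (nat_lit 314) (nat_lit 300) (nat_lit 166)))) (XT.nd (nat_lit 156) (nat_lit 1064) (nat_lit 0) (XT.nd (nat_lit 78) (nat_lit 532) (nat_lit 0) (XT.lf (nat_lit 0) (nat_lit 24837742090) (nat_lit 608) (nat_lit 9664122279) (nat_lit 76) (nat_lit 8375099170) (nat_lit 155) (nat_lit 5) (nat_lit 163) (nat_lit 5) (nat_lit 156) (nat_lit 5) (nat_lit 315) (nat_lit 300) (nat_lit 165)) (XT.lf (nat_lit 0) (nat_lit 25246765608) (nat_lit 532) (nat_lit 7239162790) (nat_lit 608) (nat_lit 11634209824) (nat_lit 148) (nat_lit 5) (nat_lit 155) (nat_lit 5) (nat_lit 156) (nat_lit 5) (nat_lit 316) (nat_lit 300) (nat_lit 164))) (XT.nd (nat_lit 78) (nat_lit 608) (nat_lit 0) (XT.lf (nat_lit 0) (nat_lit 16799649260) (nat_lit 456) (nat_lit 24180331569) (nat_lit 532) (nat_lit 4431592080) (nat_lit 142) (nat_lit 5) (nat_lit 148) (nat_lit 5) (nat_lit 149) (nat_lit 5) (nat_lit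 317) (nat_lit 300) (nat_lit 163)) (XT.lf (nat_lit 0) (nat_lit 3455107766) (nat_lit 608) (nat_lit 38865428634) (nat_lit 76) (nat_lit 4434593032) (nat_lit 134) (nat_lit 5) (nat_lit 142) (nat_lit 5) (nat_lit 135) (nat_lit 5) (nat_lit 318) (nat_lit 300) (nat_lit 162))))))))
noncomputable def xc109 : XT := (XT.nd (nat_lit 2028) (nat_lit 988) (nat_lit 0) (XT.nd (nat_lit 1014) (nat_lit 2736) (nat_lit 0) (XT.nd (nat_lit 468) (nat_lit 2128) (nat_lit 0) (XT.nd (nat_lit 234) (nat_lit 836) (nat_lit 0) (XT.nd (nat_lit 78) (nat_lit 912) (nat_lit 0) (XT.lf (nat_lit 0) (nat_lit 12183026869) (nat_lit 608) (nat_lit 1638643929) (nat_lit 76) (nat_lit 34326724958) (nat_lit 134) (nat_lit 5) (nat_lit 142) (nat_lit 5) (nat_lit 135) (nat_lit 5) (nat_lit 319) (nat_lit 300) (nat_lit 161)) (XT.nd (nat_lit 78) (nat_lit 456) (nat_lit 0) (XT.lf (nat_lit 0) (nat_lit 21869226833) (nat_lit 532) (nat_lit 11568145433) (nat_lit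 76) (nat_lit 16158300755) (nat_lit 128) (nat_lit 5) (nat_lit 135) (nat_lit 5) (nat_lit 129) (nat_lit 5) (nat_lit 320) (nat_lit 300) (nat_lit 160)) (XT.lf (nat_lit 0) (nat_lit 29019022331) (nat_lit 456) (nat_lit 3452693819) (nat_lit 532) (nat_lit 18630642593) (nat_lit 122) (nat_lit 5) (nat_lit 128) (nat_lit 5) (nat_lit 129) (nat_lit 5) (nat_lit 321) (nat_lit 300) (nat_lit 159)))) (XT.nd (nat_lit 78) (nat_lit 456) (nat_lit 0) (XT.lf (nat_lit 0) (nat_lit 19298433712) (nat_lit 380) (nat_lit 24877735270) (nat_lit 456) (nat_lit 8491058383) (nat_lit 117) (nat_lit 5) (nat_lit 122) (nat_lit 5) (nat_lit 123) (nat_lit 5) (nat_lit 322) (nat_lit 300) (nat_lit 158)) (XT.nd (nat_lit 78) (nat_lit 0) (nat_lit 0) (XT.lf (nat_lit 0) (nat_lit 2524355371) (nat_lit 456) (nat_lit 45340827409) (nat_lit 76) (nat_lit 6432211175) (nat_lit 111) (nat_lit 5) (nat_lit 117) (nat_lit 5) (nat_lit 112) (nat_lit 5) (nat_lit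 323) (nat_lit 300) (nat_lit 157)) (XT.lf (nat_lit 0) (nat_lit 14511380807) (nat_lit 456) (nat_lit 2247391656) (nat_lit 76) (nat_lit 39229884175) (nat_lit 111) (nat_lit 5) (nat_lit 117) (nat_lit 5) (nat_lit 112) (nat_lit 5) (nat_lit 324) (nat_lit 300) (nat_lit 156))))) (XT.nd (nat_lit 234) (nat_lit 1064) (nat_lit 0) (XT.nd (nat_lit 78) (nat_lit 684) (nat_lit 0) (XT.lf (nat_lit 0) (nat_lit 27673300187) (nat_lit 456) (nat_lit 14056270952) (nat_lit 76) (nat_lit 16017648210) (nat_lit 106) (nat_lit 5) (nat_lit 112) (nat_lit 5) (nat_lit 107) (nat_lit 5) (nat_lit 325) (nat_lit 300) (nat_lit 155)) (XT.nd (nat_lit 78) (nat_lit 304) (nat_lit 0) (XT.lf (nat_lit 0) (nat_lit 32848036096) (nat_lit 380) (nat_lit 9150619701) (nat_lit 456) (nat_lit 17579897212) (nat_lit 101) (nat_lit 5) (nat_lit 106) (nat_lit 5) (nat_lit 107) (nat_lit 5) (nat_lit 326) (nat_lit 300) (nat_lit 154)) (XT.lf (nat_lit 0) (nat_lit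 21059127118) (nat_lit 304) (nat_lit 36567748413) (nat_lit 380) (nat_lit 3856982811) (nat_lit 97) (nat_lit 5) (nat_lit 101) (nat_lit 5) (nat_lit 102) (nat_lit 5) (nat_lit 327) (nat_lit 300) (nat_lit 153)))) (XT.nd (nat_lit 156) (nat_lit 608) (nat_lit 0) (XT.nd (nat_lit 78) (nat_lit 0) (nat_lit 0) (XT.lf (nat_lit 0) (nat_lit 8282119461) (nat_lit 380) (nat_lit 2511150867) (nat_lit 456) (nat_lit 52674705224) (nat_lit 91) (nat_lit 5) (nat_lit 96) (nat_lit 5) (nat_lit 97) (nat_lit 5) (nat_lit 328) (nat_lit 300) (nat_lit 152)) (XT.lf (nat_lit 0) (nat_lit 26834196547) (nat_lit 456) (nat_lit 5636012012) (nat_lit 76) (nat_lit 33057809096) (nat_lit 91) (nat_lit 5) (nat_lit 97) (nat_lit 5) (nat_lit 92) (nat_lit 5) (nat_lit 329) (nat_lit 300) (nat_lit 151))) (XT.nd (nat_lit 78) (nat_lit 304) (nat_lit 0) (XT.lf (nat_lit 0) (nat_lit 44184598559) (nat_lit 380) (nat_lit 20421598400) (nat_lit 76) (nat_lit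 3069644435) (nat_lit 87) (nat_lit 5) (nat_lit 92) (nat_lit 5) (nat_lit 88) (nat_lit 5) (nat_lit 330) (nat_lit 300) (nat_lit 150)) (XT.lf (nat_lit 0) (nat_lit 33295469128) (nat_lit 304) (nat_lit 29810964982) (nat_lit 380) (nat_lit 6803507107) (nat_lit 83) (nat_lit 5) (nat_lit 87) (nat_lit 5) (nat_lit 88) (nat_lit 5) (nat_lit 331) (nat_lit 300) (nat_lit 149)))))) (XT.nd (nat_lit 468) (nat_lit 1216) (nat_lit 0) (XT.nd (nat_lit 234) (nat_lit 836) (nat_lit 0) (XT.nd (nat_lit 78) (nat_lit 304) (nat_lit 0) (XT.lf (nat_lit 0) (nat_lit 10963016800) (nat_lit 380) (nat_lit 54189782798) (nat_lit 76) (nat_lit 7086250737) (nat_lit 78) (nat_lit 5) (nat_lit 83) (nat_lit 5) (nat_lit 79) (nat_lit 5) (nat_lit 332) (nat_lit 300) (nat_lit 148)) (XT.nd (nat_lit 78) (nat_lit 0) (nat_lit 0) (XT.lf (nat_lit 0) (nat_lit 1184514363) (nat_lit 304) (nat_lit 28984543596) (nat_lit 380) (nat_lit 44492781191) (nat_lit 74)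 (nat_lit 5) (nat_lit 78) (nat_lit 5) (nat_lit 79) (nat_lit 5) (nat_lit 333) (nat_lit 300) (nat_lit 147)) (XT.lf (nat_lit 0) (nat_lit 50982937515) (nat_lit 380) (nat_lit 16824354979) (nat_lit 76) (nat_lit 9379050749) (nat_lit 74) (nat_lit 5) (nat_lit 79) (nat_lit 5) (nat_lit 75) (nat_lit 5) (nat_lit 334) (nat_lit 300) (nat_lit 146)))) (XT.nd (nat_lit 78) (nat_lit 608) (nat_lit 0) (XT.lf (nat_lit 0) (nat_lit 43208735085) (nat_lit 228) (nat_lit 30334519831) (nat_lit 304) (nat_lit 6272647145) (nat_lit 71) (nat_lit 5) (nat_lit 74) (nat_lit 5) (nat_lit 75) (nat_lit 5) (nat_lit 335) (nat_lit 300) (nat_lit 145)) (XT.nd (nat_lit 78) (nat_lit 228) (nat_lit 0) (XT.lf (nat_lit 0) (nat_lit 14867646070) (nat_lit 380) (nat_lit 58299718110) (nat_lit 76) (nat_lit 9390381404) (nat_lit 66) (nat_lit 5) (nat_lit 71) (nat_lit 5) (nat_lit 67) (nat_lit 5) (nat_lit 336) (nat_lit 300) (nat_lit 144)) (XT.lf (nat_lit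 0) (nat_lit 3192104610) (nat_lit 228) (nat_lit 34459714824) (nat_lit 304) (nat_lit 47761502501) (nat_lit 63) (nat_lit 5) (nat_lit 66) (nat_lit 5) (nat_lit 67) (nat_lit 5) (nat_lit 337) (nat_lit 300) (nat_lit 143))))) (XT.nd (nat_lit 234) (nat_lit 684) (nat_lit 0) (XT.nd (nat_lit 78) (nat_lit 532) (nat_lit 0) (XT.lf (nat_lit 0) (nat_lit 62238744341) (nat_lit 304) (nat_lit 19485261417) (nat_lit 76) (nat_lit 6667766600) (nat_lit 63) (nat_lit 5) (nat_lit 67) (nat_lit 5) (nat_lit 64) (nat_lit 5) (nat_lit 338) (nat_lit 300) (nat_lit 142)) (XT.nd (nat_lit 78) (nat_lit 304) (nat_lit 0) (XT.lf (nat_lit 0) (nat_lit 46953028649) (nat_lit 228) (nat_lit 41899251540) (nat_lit 304) (nat_lit 2642948638) (nat_lit 60) (nat_lit 5) (nat_lit 63) (nat_lit 5) (nat_lit 64) (nat_lit 5) (nat_lit 339) (nat_lit 300) (nat_lit 141)) (XT.lf (nat_lit 0) (nat_lit 22035888598) (nat_lit 304) (nat_lit 72143591357) (nat_lit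 76) (nat_lit 555321350) (nat_lit 56) (nat_lit 5) (nat_lit 60) (nat_lit 5) (nat_lit 57) (nat_lit 5) (nat_lit 340) (nat_lit 300) (nat_lit 140)))) (XT.nd (nat_lit 156) (nat_lit 456) (nat_lit 0) (XT.nd (nat_lit 78) (nat_lit 228) (nat_lit 0) (XT.lf (nat_lit 0) (nat_lit 48778686151) (nat_lit 304) (nat_lit 4567416173) (nat_lit 76) (nat_lit 44762925981) (nat_lit 56) (nat_lit 5) (nat_lit 60) (nat_lit 5) (nat_lit 57) (nat_lit 5) (nat_lit 341) (nat_lit 300) (nat_lit 139)) (XT.lf (nat_lit 0) (nat_lit 67706094728) (nat_lit 228) (nat_lit 9801655347) (nat_lit 304) (nat_lit 24124744015) (nat_lit 53) (nat_lit 5) (nat_lit 56) (nat_lit 5) (nat_lit 57) (nat_lit 5) (nat_lit 342) (nat_lit 300) (nat_lit 138))) (XT.nd (nat_lit 78) (nat_lit 228) (nat_lit 0) (XT.lf (nat_lit 0) (nat_lit 3066763865) (nat_lit 228) (nat_lit 66573196693) (nat_lit 76) (nat_lit 35668359197) (nat_lit 50) (nat_lit 5) (nat_lit 53) (nat_lit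 5) (nat_lit 51) (nat_lit 5) (nat_lit 343) (nat_lit 300) (nat_lit 137)) (XT.lf (nat_lit 0) (nat_lit 6356796774) (nat_lit 228) (nat_lit 25277866697) (nat_lit 304) (nat_lit 77510635960) (nat_lit 47) (nat_lit 5) (nat_lit 50) (nat_lit 5) (nat_lit 51) (nat_lit 5) (nat_lit 344) (nat_lit 300) (nat_lit 136))))))) (XT.nd (nat_lit 37596) (nat_lit 0) (nat_lit 7600) (XT.nd (nat_lit 468) (nat_lit 228) (nat_lit 0) (XT.nd (nat_lit 234) (nat_lit 304) (nat_lit 0) (XT.nd (nat_lit 78) (nat_lit 456) (nat_lit 0) (XT.lf (nat_lit 0) (nat_lit 62526249586) (nat_lit 304) (nat_lit 29043202130) (nat_lit 76) (nat_lit 21577818660) (nat_lit 47) (nat_lit 5) (nat_lit 51) (nat_lit 5) (nat_lit 48) (nat_lit 5) (nat_lit 345) (nat_lit 300) (nat_lit 135)) (XT.nd (nat_lit 78) (nat_lit 304) (nat_lit 0) (XT.lf (nat_lit 0) (nat_lit 49089715409) (nat_lit 152) (nat_lit 46598213598) (nat_lit 228) (nat_lit 21639646424) (nat_lit 45) (nat_lit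 5) (nat_lit 47) (nat_lit 5) (nat_lit 48) (nat_lit 5) (nat_lit 346) (nat_lit 300) (nat_lit 134)) (XT.lf (nat_lit 0) (nat_lit 9027914847) (nat_lit 304) (nat_lit 111576970445) (nat_lit 76) (nat_lit 1097216531) (nat_lit 41) (nat_lit 5) (nat_lit 45) (nat_lit 5) (nat_lit 42) (nat_lit 5) (nat_lit 347) (nat_lit 300) (nat_lit 133)))) (XT.nd (nat_lit 78) (nat_lit 304) (nat_lit 0) (XT.lf (nat_lit 0) (nat_lit 41963774405) (nat_lit 304) (nat_lit 33140090703) (nat_lit 76) (nat_lit 51149588837) (nat_lit 41) (nat_lit 5) (nat_lit 45) (nat_lit 5) (nat_lit 42) (nat_lit 5) (nat_lit 348) (nat_lit 300) (nat_lit 132)) (XT.nd (nat_lit 78) (nat_lit 152) (nat_lit 0) (XT.lf (nat_lit 0) (nat_lit 50195891519) (nat_lit 152) (nat_lit 26831687590) (nat_lit 228) (nat_lit 53990360821) (nat_lit 39) (nat_lit 5) (nat_lit 41) (nat_lit 5) (nat_lit 42) (nat_lit 5) (nat_lit 349) (nat_lit 300) (nat_lit 131)) (XT.lf (nat_lit 0) (nat_lit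 2188605338) (nat_lit 152) (nat_lit 112249506951) (nat_lit 228) (nat_lit 21564732563) (nat_lit 37) (nat_lit 5) (nat_lit 39) (nat_lit 5) (nat_lit 40) (nat_lit 5) (nat_lit 350) (nat_lit 300) (nat_lit 130))))) (XT.nd (nat_lit 36816) (nat_lit 0) (nat_lit 11628) (XT.nd (nat_lit 78) (nat_lit 152) (nat_lit 0) (XT.lf (nat_lit 0) (nat_lit 13348356000) (nat_lit 228) (nat_lit 50574517961) (nat_lit 76) (nat_lit 77277229663) (nat_lit 36) (nat_lit 5) (nat_lit 39) (nat_lit 5) (nat_lit 37) (nat_lit 5) (nat_lit 351) (nat_lit 300) (nat_lit 129)) (XT.nd (nat_lit 36660) (nat_lit 0) (nat_lit 11628) (XT.lf (nat_lit 0) (nat_lit 37336020429) (nat_lit 152) (nat_lit 12586894284) (nat_lit 228) (nat_lit 96717051721) (nat_lit 34) (nat_lit 5) (nat_lit 36) (nat_lit 5) (nat_lit 37) (nat_lit 5) (nat_lit 352) (nat_lit 300) (nat_lit 128)) (XT.lf (nat_lit 0) (nat_lit 2862530201) (nat_lit 0) (nat_lit 2862530201) (nat_lit 1140)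 (nat_lit 9426487444) (nat_lit 187) (nat_lit 5) (nat_lit 187) (nat_lit 3) (nat_lit 202) (nat_lit 3) (nat_lit 301) (nat_lit 301) (nat_lit 178)))) (XT.nd (nat_lit 156) (nat_lit 0) (nat_lit 76) (XT.nd (nat_lit 78) (nat_lit 0) (nat_lit 76) (XT.lf (nat_lit 0) (nat_lit 12013335195) (nat_lit 1140) (nat_lit 2173262419) (nat_lit 1216) (nat_lit 16865615684) (nat_lit 187) (nat_lit 5) (nat_lit 202) (nat_lit 3) (nat_lit 203) (nat_lit 5) (nat_lit 302) (nat_lit 301) (nat_lit 177)) (XT.lf (nat_lit 0) (nat_lit 12949180389) (nat_lit 1140) (nat_lit 10202234051) (nat_lit 1216) (nat_lit 8677047901) (nat_lit 188) (nat_lit 5) (nat_lit 203) (nat_lit 5) (nat_lit 204) (nat_lit 5) (nat_lit 303) (nat_lit 301) (nat_lit 176))) (XT.nd (nat_lit 78) (nat_lit 0) (nat_lit 76) (XT.lf (nat_lit 76) (nat_lit 14146939196) (nat_lit 0) (nat_lit 79872021) (nat_lit 1216) (nat_lit 18407872021) (nat_lit 189) (nat_lit 5) (nat_lit 188)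 (nat_lit 5) (nat_lit 204) (nat_lit 5) (nat_lit 304) (nat_lit 301) (nat_lit 175)) (XT.lf (nat_lit 76) (nat_lit 6335106107) (nat_lit 0) (nat_lit 9625809499) (nat_lit 1216) (nat_lit 17508530578) (nat_lit 190) (nat_lit 5) (nat_lit 189) (nat_lit 5) (nat_lit 205) (nat_lit 5) (nat_lit 305) (nat_lit 301) (nat_lit 174)))))) (XT.nd (nat_lit 546) (nat_lit 3344) (nat_lit 0) (XT.nd (nat_lit 234) (nat_lit 912) (nat_lit 0) (XT.nd (nat_lit 78) (nat_lit 0) (nat_lit 76) (XT.lf (nat_lit 0) (nat_lit 18109043065) (nat_lit 1140) (nat_lit 1702155729) (nat_lit 1216) (nat_lit 14524937294) (nat_lit 190) (nat_lit 5) (nat_lit 205) (nat_lit 5) (nat_lit 206) (nat_lit 5) (nat_lit 306) (nat_lit 301) (nat_lit 173)) (XT.nd (nat_lit 78) (nat_lit 0) (nat_lit 0) (XT.lf (nat_lit 0) (nat_lit 20745115643) (nat_lit 1140) (nat_lit 9885176308) (nat_lit 1216) (nat_lit 4604460324) (nat_lit 191) (nat_lit 5) (nat_lit 206) (nat_lit 5)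 (nat_lit 207) (nat_lit 5) (nat_lit 307) (nat_lit 301) (nat_lit 172)) (XT.lf (nat_lit 76) (nat_lit 17753942576) (nat_lit 0) (nat_lit 6141744661) (nat_lit 1216) (nat_lit 12271138742) (nat_lit 192) (nat_lit 5) (nat_lit 191) (nat_lit 5) (nat_lit 207) (nat_lit 5) (nat_lit 308) (nat_lit 301) (nat_lit 171)))) (XT.nd (nat_lit 156) (nat_lit 1064) (nat_lit 0) (XT.nd (nat_lit 78) (nat_lit 0) (nat_lit 76) (XT.lf (nat_lit 76) (nat_lit 9837846277) (nat_lit 0) (nat_lit 17746028286) (nat_lit 1216) (nat_lit 9550233403) (nat_lit 193) (nat_lit 5) (nat_lit 192) (nat_lit 5) (nat_lit 208) (nat_lit 5) (nat_lit 309) (nat_lit 301) (nat_lit 170)) (XT.lf (nat_lit 76) (nat_lit 1630057039) (nat_lit 0) (nat_lit 30165870052) (nat_lit 1216) (nat_lit 6343650152) (nat_lit 194) (nat_lit 5) (nat_lit 193) (nat_lit 5) (nat_lit 209) (nat_lit 5) (nat_lit 310) (nat_lit 301) (nat_lit 169))) (XT.nd (nat_lit 78) (nat_lit 1140) (nat_lit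 0) (XT.lf (nat_lit 76) (nat_lit 32386363596) (nat_lit 0) (nat_lit 4285625747) (nat_lit 1216) (nat_lit 2509734968) (nat_lit 194) (nat_lit 5) (nat_lit 193) (nat_lit 5) (nat_lit 209) (nat_lit 5) (nat_lit 311) (nat_lit 301) (nat_lit 168)) (XT.lf (nat_lit 0) (nat_lit 1943152301) (nat_lit 1216) (nat_lit 15619760265) (nat_lit 76) (nat_lit 22698929372) (nat_lit 178) (nat_lit 5) (nat_lit 194) (nat_lit 5) (nat_lit 179) (nat_lit 5) (nat_lit 312) (nat_lit 301) (nat_lit 167))))) (XT.nd (nat_lit 234) (nat_lit 2128) (nat_lit 0) (XT.nd (nat_lit 78) (nat_lit 608) (nat_lit 0) (XT.lf (nat_lit 0) (nat_lit 6931002748) (nat_lit 684) (nat_lit 24830298999) (nat_lit 76) (nat_lit 9622997273) (nat_lit 170) (nat_lit 5) (nat_lit 179) (nat_lit 5) (nat_lit 171) (nat_lit 5) (nat_lit 313) (nat_lit 301) (nat_lit 166)) (XT.nd (nat_lit 78) (nat_lit 0) (nat_lit 0) (XT.lf (nat_lit 0) (nat_lit 8079572523) (nat_lit 608) (nat_lit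 4501610463) (nat_lit 684) (nat_lit 29969313338) (nat_lit 162) (nat_lit 5) (nat_lit 170) (nat_lit 5) (nat_lit 171) (nat_lit 5) (nat_lit 314) (nat_lit 301) (nat_lit 165)) (XT.lf (nat_lit 0) (nat_lit 18999670246) (nat_lit 684) (nat_lit 851963882) (nat_lit 76) (nat_lit 23908800647) (nat_lit 162) (nat_lit 5) (nat_lit 171) (nat_lit 5) (nat_lit 163) (nat_lit 5) (nat_lit 315) (nat_lit 301) (nat_lit 164)))) (XT.nd (nat_lit 156) (nat_lit 1064) (nat_lit 0) (XT.nd (nat_lit 78) (nat_lit 532) (nat_lit 0) (XT.lf (nat_lit 0) (nat_lit 26203936297) (nat_lit 608) (nat_lit 10022444396) (nat_lit 76) (nat_lit 8790548799) (nat_lit 155) (nat_lit 5) (nat_lit 163) (nat_lit 5) (nat_lit 156) (nat_lit 5) (nat_lit 316) (nat_lit 301) (nat_lit 163)) (XT.lf (nat_lit 0) (nat_lit 26630408112) (nat_lit 532) (nat_lit 7599370473) (nat_lit 608) (nat_lit 12092634210) (nat_lit 148) (nat_lit 5) (nat_lit 155) (nat_lit 5) (nat_lit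 156) (nat_lit 5) (nat_lit 317) (nat_lit 301) (nat_lit 162))) (XT.nd (nat_lit 78) (nat_lit 608) (nat_lit 0) (XT.lf (nat_lit 0) (nat_lit 17761067792) (nat_lit 456) (nat_lit 25382956152) (nat_lit 532) (nat_lit 4534537502) (nat_lit 142) (nat_lit 5) (nat_lit 148) (nat_lit 5) (nat_lit 149) (nat_lit 5) (nat_lit 318) (nat_lit 301) (nat_lit 161)) (XT.lf (nat_lit 0) (nat_lit 3739880800) (nat_lit 608) (nat_lit 40684959722) (nat_lit 76) (nat_lit 4664556524) (nat_lit 134) (nat_lit 5) (nat_lit 142) (nat_lit 5) (nat_lit 135) (nat_lit 5) (nat_lit 319) (nat_lit 301) (nat_lit 160))))))))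
noncomputable def xc110 : XT := (XT.nd (nat_lit 2028) (nat_lit 836) (nat_lit 0) (XT.nd (nat_lit 1014) (nat_lit 2736) (nat_lit 0) (XT.nd (nat_lit 468) (nat_lit 2128) (nat_lit 0) (XT.nd (nat_lit 234) (nat_lit 836) (nat_lit 0) (XT.nd (nat_lit 78) (nat_lit 912) (nat_lit 0) (XT.lf (nat_lit 0) (nat_lit 12898861685) (nat_lit 608) (nat_lit 1602728180) (nat_lit 76) (nat_lit 36050902959) (nat_lit 134) (nat_lit 5) (nat_lit 142) (nat_lit 5) (nat_lit 135) (nat_lit 5) (nat_lit 320) (nat_lit 301) (nat_lit 159)) (XT.nd (nat_lit 78) (nat_lit 456) (nat_lit 0) (XT.lf (nat_lit 0) (nat_lit 23065504940) (nat_lit 532) (nat_lit 12028998444) (nat_lit 76) (nat_lit 16977752388) (nat_lit 128) (nat_lit 5) (nat_lit 135) (nat_lit 5) (nat_lit 129) (nat_lit 5) (nat_lit 321) (nat_lit 301) (nat_lit 158)) (XT.lf (nat_lit 0) (nat_lit 30584158039) (nat_lit 456) (nat_lit 3610162260) (nat_lit 532) (nat_lit 19460074978) (nat_lit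 122) (nat_lit 5) (nat_lit 128) (nat_lit 5) (nat_lit 129) (nat_lit 5) (nat_lit 322) (nat_lit 301) (nat_lit 157)))) (XT.nd (nat_lit 78) (nat_lit 456) (nat_lit 0) (XT.lf (nat_lit 0) (nat_lit 20377118379) (nat_lit 380) (nat_lit 26103394638) (nat_lit 456) (nat_lit 8817104073) (nat_lit 117) (nat_lit 5) (nat_lit 122) (nat_lit 5) (nat_lit 123) (nat_lit 5) (nat_lit 323) (nat_lit 301) (nat_lit 156)) (XT.nd (nat_lit 78) (nat_lit 0) (nat_lit 0) (XT.lf (nat_lit 0) (nat_lit 2743826472) (nat_lit 456) (nat_lit 47492696977) (nat_lit 76) (nat_lit 6772844984) (nat_lit 111) (nat_lit 5) (nat_lit 117) (nat_lit 5) (nat_lit 112) (nat_lit 5) (nat_lit 324) (nat_lit 301) (nat_lit 155)) (XT.lf (nat_lit 0) (nat_lit 15325762545) (nat_lit 456) (nat_lit 2250073808) (nat_lit 76) (nat_lit 41209495765) (nat_lit 111) (nat_lit 5) (nat_lit 117) (nat_lit 5) (nat_lit 112) (nat_lit 5) (nat_lit 325) (nat_lit 301) (nat_lit 154)))))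 (XT.nd (nat_lit 234) (nat_lit 1064) (nat_lit 0) (XT.nd (nat_lit 78) (nat_lit 684) (nat_lit 0) (XT.lf (nat_lit 0) (nat_lit 29142774123) (nat_lit 456) (nat_lit 14650085708) (nat_lit 76) (nat_lit 16839057674) (nat_lit 106) (nat_lit 5) (nat_lit 112) (nat_lit 5) (nat_lit 107) (nat_lit 5) (nat_lit 326) (nat_lit 301) (nat_lit 153)) (XT.nd (nat_lit 78) (nat_lit 304) (nat_lit 0) (XT.lf (nat_lit 0) (nat_lit 34596312264) (nat_lit 380) (nat_lit 9585016840) (nat_lit 456) (nat_lit 18373585013) (nat_lit 101) (nat_lit 5) (nat_lit 106) (nat_lit 5) (nat_lit 107) (nat_lit 5) (nat_lit 327) (nat_lit 301) (nat_lit 152)) (XT.lf (nat_lit 0) (nat_lit 22217199941) (nat_lit 304) (nat_lit 38371042090) (nat_lit 380) (nat_lit 3967328236) (nat_lit 97) (nat_lit 5) (nat_lit 101) (nat_lit 5) (nat_lit 102) (nat_lit 5) (nat_lit 328) (nat_lit 301) (nat_lit 151)))) (XT.nd (nat_lit 156) (nat_lit 608) (nat_lit 0) (XT.nd (nat_lit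 78) (nat_lit 0) (nat_lit 0) (XT.lf (nat_lit 0) (nat_lit 8799968291) (nat_lit 380) (nat_lit 2611004480) (nat_lit 456) (nat_lit 55227986131) (nat_lit 91) (nat_lit 5) (nat_lit 96) (nat_lit 5) (nat_lit 97) (nat_lit 5) (nat_lit 329) (nat_lit 301) (nat_lit 150)) (XT.lf (nat_lit 0) (nat_lit 28250464478) (nat_lit 456) (nat_lit 5816944801) (nat_lit 76) (nat_lit 34734701793) (nat_lit 91) (nat_lit 5) (nat_lit 97) (nat_lit 5) (nat_lit 92) (nat_lit 5) (nat_lit 330) (nat_lit 301) (nat_lit 149))) (XT.nd (nat_lit 78) (nat_lit 304) (nat_lit 0) (XT.lf (nat_lit 0) (nat_lit 46466028202) (nat_lit 380) (nat_lit 21342726209) (nat_lit 76) (nat_lit 3248645707) (nat_lit 87) (nat_lit 5) (nat_lit 92) (nat_lit 5) (nat_lit 88) (nat_lit 5) (nat_lit 331) (nat_lit 301) (nat_lit 148)) (XT.lf (nat_lit 0) (nat_lit 35057329588) (nat_lit 304) (nat_lit 31274121120) (nat_lit 380) (nat_lit 7071832575) (nat_lit 83) (nat_lit 5) (nat_lit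 87) (nat_lit 5) (nat_lit 88) (nat_lit 5) (nat_lit 332) (nat_lit 301) (nat_lit 147)))))) (XT.nd (nat_lit 468) (nat_lit 1216) (nat_lit 0) (XT.nd (nat_lit 234) (nat_lit 836) (nat_lit 0) (XT.nd (nat_lit 78) (nat_lit 304) (nat_lit 0) (XT.lf (nat_lit 0) (nat_lit 11579447393) (nat_lit 380) (nat_lit 56801712237) (nat_lit 76) (nat_lit 7467735514) (nat_lit 78) (nat_lit 5) (nat_lit 83) (nat_lit 5) (nat_lit 79) (nat_lit 5) (nat_lit 333) (nat_lit 301) (nat_lit 146)) (XT.nd (nat_lit 78) (nat_lit 0) (nat_lit 0) (XT.lf (nat_lit 0) (nat_lit 1338503252) (nat_lit 304) (nat_lit 30404946863) (nat_lit 380) (nat_lit 46649446325) (nat_lit 74) (nat_lit 5) (nat_lit 78) (nat_lit 5) (nat_lit 79) (nat_lit 5) (nat_lit 334) (nat_lit 301) (nat_lit 145)) (XT.lf (nat_lit 0) (nat_lit 53595147563) (nat_lit 380) (nat_lit 17573648189) (nat_lit 76) (nat_lit 9874918957) (nat_lit 74) (nat_lit 5) (nat_lit 79) (nat_lit 5) (nat_lit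 75) (nat_lit 5) (nat_lit 335) (nat_lit 301) (nat_lit 144)))) (XT.nd (nat_lit 78) (nat_lit 608) (nat_lit 0) (XT.lf (nat_lit 0) (nat_lit 45458461379) (nat_lit 228) (nat_lit 31822874753) (nat_lit 304) (nat_lit 6523482241) (nat_lit 71) (nat_lit 5) (nat_lit 74) (nat_lit 5) (nat_lit 75) (nat_lit 5) (nat_lit 336) (nat_lit 301) (nat_lit 143)) (XT.nd (nat_lit 78) (nat_lit 228) (nat_lit 0) (XT.lf (nat_lit 0) (nat_lit 15670787647) (nat_lit 380) (nat_lit 61125177206) (nat_lit 76) (nat_lit 9887827856) (nat_lit 66) (nat_lit 5) (nat_lit 71) (nat_lit 5) (nat_lit 67) (nat_lit 5) (nat_lit 337) (nat_lit 301) (nat_lit 142)) (XT.lf (nat_lit 0) (nat_lit 3438670382) (nat_lit 228) (nat_lit 36153489536) (nat_lit 304) (nat_lit 50090050508) (nat_lit 63) (nat_lit 5) (nat_lit 66) (nat_lit 5) (nat_lit 67) (nat_lit 5) (nat_lit 338) (nat_lit 301) (nat_lit 141))))) (XT.nd (nat_lit 234) (nat_lit 684) (nat_lit 0) (XT.nd (nat_lit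 78) (nat_lit 532) (nat_lit 0) (XT.lf (nat_lit 0) (nat_lit 65405948517) (nat_lit 304) (nat_lit 20375279389) (nat_lit 76) (nat_lit 7028432089) (nat_lit 63) (nat_lit 5) (nat_lit 67) (nat_lit 5) (nat_lit 64) (nat_lit 5) (nat_lit 339) (nat_lit 301) (nat_lit 140)) (XT.nd (nat_lit 78) (nat_lit 304) (nat_lit 0) (XT.lf (nat_lit 0) (nat_lit 49382510311) (nat_lit 228) (nat_lit 43965805689) (nat_lit 304) (nat_lit 2720030689) (nat_lit 60) (nat_lit 5) (nat_lit 63) (nat_lit 5) (nat_lit 64) (nat_lit 5) (nat_lit 340) (nat_lit 301) (nat_lit 139)) (XT.lf (nat_lit 0) (nat_lit 23190150085) (nat_lit 304) (nat_lit 75668873088) (nat_lit 76) (nat_lit 610906345) (nat_lit 56) (nat_lit 5) (nat_lit 60) (nat_lit 5) (nat_lit 57) (nat_lit 5) (nat_lit 341) (nat_lit 301) (nat_lit 138)))) (XT.nd (nat_lit 156) (nat_lit 456) (nat_lit 0) (XT.nd (nat_lit 78) (nat_lit 228) (nat_lit 0) (XT.lf (nat_lit 0) (nat_lit 51267589084) (nat_lit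 304) (nat_lit 4717789042) (nat_lit 76) (nat_lit 47027566496) (nat_lit 56) (nat_lit 5) (nat_lit 60) (nat_lit 5) (nat_lit 57) (nat_lit 5) (nat_lit 342) (nat_lit 301) (nat_lit 137)) (XT.lf (nat_lit 0) (nat_lit 71167161609) (nat_lit 228) (nat_lit 10264293409) (nat_lit 304) (nat_lit 25281179930) (nat_lit 53) (nat_lit 5) (nat_lit 56) (nat_lit 5) (nat_lit 57) (nat_lit 5) (nat_lit 343) (nat_lit 301) (nat_lit 136))) (XT.nd (nat_lit 78) (nat_lit 228) (nat_lit 0) (XT.lf (nat_lit 0) (nat_lit 3267585973) (nat_lit 228) (nat_lit 69826104271) (nat_lit 76) (nat_lit 37478589245) (nat_lit 50) (nat_lit 5) (nat_lit 53) (nat_lit 5) (nat_lit 51) (nat_lit 5) (nat_lit 344) (nat_lit 301) (nat_lit 135)) (XT.lf (nat_lit 0) (nat_lit 6748217447) (nat_lit 228) (nat_lit 26514109277) (nat_lit 304) (nat_lit 81338829550) (nat_lit 47) (nat_lit 5) (nat_lit 50) (nat_lit 5) (nat_lit 51) (nat_lit 5) (nat_lit 345) (nat_lit 301)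 (nat_lit 134))))))) (XT.nd (nat_lit 37674) (nat_lit 0) (nat_lit 7448) (XT.nd (nat_lit 468) (nat_lit 76) (nat_lit 0) (XT.nd (nat_lit 234) (nat_lit 304) (nat_lit 0) (XT.nd (nat_lit 78) (nat_lit 456) (nat_lit 0) (XT.lf (nat_lit 0) (nat_lit 65696558137) (nat_lit 304) (nat_lit 30424197317) (nat_lit 76) (nat_lit 22682529773) (nat_lit 47) (nat_lit 5) (nat_lit 51) (nat_lit 5) (nat_lit 48) (nat_lit 5) (nat_lit 346) (nat_lit 301) (nat_lit 133)) (XT.nd (nat_lit 78) (nat_lit 304) (nat_lit 0) (XT.lf (nat_lit 0) (nat_lit 51613326171) (nat_lit 152) (nat_lit 48901564779) (nat_lit 228) (nat_lit 22677758873) (nat_lit 45) (nat_lit 5) (nat_lit 47) (nat_lit 5) (nat_lit 48) (nat_lit 5) (nat_lit 347) (nat_lit 301) (nat_lit 132)) (XT.lf (nat_lit 0) (nat_lit 9521183390) (nat_lit 304) (nat_lit 117086797727) (nat_lit 76) (nat_lit 1177944264) (nat_lit 41) (nat_lit 5) (nat_lit 45) (nat_lit 5) (nat_lit 42) (nat_lit 5)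 (nat_lit 348) (nat_lit 301) (nat_lit 131)))) (XT.nd (nat_lit 78) (nat_lit 304) (nat_lit 0) (XT.lf (nat_lit 0) (nat_lit 44101841982) (nat_lit 304) (nat_lit 34731360723) (nat_lit 76) (nat_lit 53731703428) (nat_lit 41) (nat_lit 5) (nat_lit 45) (nat_lit 5) (nat_lit 42) (nat_lit 5) (nat_lit 349) (nat_lit 301) (nat_lit 130)) (XT.nd (nat_lit 78) (nat_lit 152) (nat_lit 0) (XT.lf (nat_lit 0) (nat_lit 52769536343) (nat_lit 152) (nat_lit 28148015353) (nat_lit 228) (nat_lit 56650104428) (nat_lit 39) (nat_lit 5) (nat_lit 41) (nat_lit 5) (nat_lit 42) (nat_lit 5) (nat_lit 350) (nat_lit 301) (nat_lit 129)) (XT.lf (nat_lit 0) (nat_lit 2360966730) (nat_lit 152) (nat_lit 117836643167) (nat_lit 228) (nat_lit 22604227540) (nat_lit 37) (nat_lit 5) (nat_lit 39) (nat_lit 5) (nat_lit 40) (nat_lit 5) (nat_lit 351) (nat_lit 301) (nat_lit 128))))) (XT.nd (nat_lit 36894) (nat_lit 0) (nat_lit 11552) (XT.nd (nat_lit 36738)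 (nat_lit 0) (nat_lit 11476) (XT.lf (nat_lit 0) (nat_lit 14051950620) (nat_lit 228) (nat_lit 53042569217) (nat_lit 76) (nat_lit 81164483415) (nat_lit 36) (nat_lit 5) (nat_lit 39) (nat_lit 5) (nat_lit 37) (nat_lit 5) (nat_lit 352) (nat_lit 301) (nat_lit 127)) (XT.nd (nat_lit 78) (nat_lit 0) (nat_lit 0) (XT.lf (nat_lit 0) (nat_lit 3060591519) (nat_lit 0) (nat_lit 3060591519) (nat_lit 1140) (nat_lit 9784497522) (nat_lit 187) (nat_lit 5) (nat_lit 187) (nat_lit 3) (nat_lit 202) (nat_lit 3) (nat_lit 302) (nat_lit 302) (nat_lit 176)) (XT.lf (nat_lit 0) (nat_lit 12822271569) (nat_lit 1140) (nat_lit 2169720676) (nat_lit 1216) (nat_lit 17606300599) (nat_lit 187) (nat_lit 5) (nat_lit 202) (nat_lit 3) (nat_lit 203) (nat_lit 5) (nat_lit 303) (nat_lit 302) (nat_lit 175)))) (XT.nd (nat_lit 156) (nat_lit 0) (nat_lit 76) (XT.nd (nat_lit 78) (nat_lit 0) (nat_lit 0) (XT.lf (nat_lit 0) (nat_lit 13795170000) (nat_lit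 1140) (nat_lit 10596236589) (nat_lit 1216) (nat_lit 9022253399) (nat_lit 188) (nat_lit 5) (nat_lit 203) (nat_lit 5) (nat_lit 204) (nat_lit 5) (nat_lit 304) (nat_lit 302) (nat_lit 174)) (XT.lf (nat_lit 76) (nat_lit 14967067075) (nat_lit 0) (nat_lit 161245576) (nat_lit 1216) (nat_lit 19132143206) (nat_lit 189) (nat_lit 5) (nat_lit 188) (nat_lit 5) (nat_lit 204) (nat_lit 5) (nat_lit 305) (nat_lit 302) (nat_lit 173))) (XT.nd (nat_lit 78) (nat_lit 0) (nat_lit 76) (XT.lf (nat_lit 76) (nat_lit 6767922647) (nat_lit 0) (nat_lit 10172551580) (nat_lit 1216) (nat_lit 18196754388) (nat_lit 190) (nat_lit 5) (nat_lit 189) (nat_lit 5) (nat_lit 205) (nat_lit 5) (nat_lit 306) (nat_lit 302) (nat_lit 172)) (XT.lf (nat_lit 0) (nat_lit 19186765391) (nat_lit 1140) (nat_lit 1670710873) (nat_lit 1216) (nat_lit 15190065673) (nat_lit 190) (nat_lit 5) (nat_lit 205) (nat_lit 5) (nat_lit 206) (nat_lit 5) (nat_lit 307)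 (nat_lit 302) (nat_lit 171)))))) (XT.nd (nat_lit 546) (nat_lit 2736) (nat_lit 0) (XT.nd (nat_lit 234) (nat_lit 1596) (nat_lit 0) (XT.nd (nat_lit 78) (nat_lit 0) (nat_lit 0) (XT.lf (nat_lit 0) (nat_lit 21947027204) (nat_lit 1140) (nat_lit 10260547713) (nat_lit 1216) (nat_lit 4783753536) (nat_lit 191) (nat_lit 5) (nat_lit 206) (nat_lit 5) (nat_lit 207) (nat_lit 5) (nat_lit 308) (nat_lit 302) (nat_lit 170)) (XT.nd (nat_lit 78) (nat_lit 0) (nat_lit 76) (XT.lf (nat_lit 76) (nat_lit 18757119231) (nat_lit 0) (nat_lit 6491277455) (nat_lit 1216) (nat_lit 12721821638) (nat_lit 192) (nat_lit 5) (nat_lit 191) (nat_lit 5) (nat_lit 207) (nat_lit 5) (nat_lit 309) (nat_lit 302) (nat_lit 169)) (XT.lf (nat_lit 76) (nat_lit 10447111330) (nat_lit 0) (nat_lit 18667101480) (nat_lit 1216) (nat_lit 9871865073) (nat_lit 193) (nat_lit 5) (nat_lit 192) (nat_lit 5) (nat_lit 208) (nat_lit 5) (nat_lit 310) (nat_lit 302)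 (nat_lit 168)))) (XT.nd (nat_lit 156) (nat_lit 1748) (nat_lit 0) (XT.nd (nat_lit 78) (nat_lit 0) (nat_lit 0) (XT.lf (nat_lit 76) (nat_lit 1830483233) (nat_lit 0) (nat_lit 31700021362) (nat_lit 1216) (nat_lit 6511516509) (nat_lit 194) (nat_lit 5) (nat_lit 193) (nat_lit 5) (nat_lit 209) (nat_lit 5) (nat_lit 311) (nat_lit 302) (nat_lit 167)) (XT.lf (nat_lit 76) (nat_lit 34118942102) (nat_lit 0) (nat_lit 4524533518) (nat_lit 1216) (nat_lit 2493015859) (nat_lit 194) (nat_lit 5) (nat_lit 193) (nat_lit 5) (nat_lit 209) (nat_lit 5) (nat_lit 312) (nat_lit 302) (nat_lit 166))) (XT.nd (nat_lit 78) (nat_lit 608) (nat_lit 0) (XT.lf (nat_lit 0) (nat_lit 2173984522) (nat_lit 1216) (nat_lit 16283480272) (nat_lit 76) (nat_lit 23813290307) (nat_lit 178) (nat_lit 5) (nat_lit 194) (nat_lit 5) (nat_lit 179) (nat_lit 5) (nat_lit 313) (nat_lit 302) (nat_lit 165)) (XT.lf (nat_lit 0) (nat_lit 7405817614) (nat_lit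 684) (nat_lit 25953755263) (nat_lit 76) (nat_lit 10089932491) (nat_lit 170) (nat_lit 5) (nat_lit 179) (nat_lit 5) (nat_lit 171) (nat_lit 5) (nat_lit 314) (nat_lit 302) (nat_lit 164))))) (XT.nd (nat_lit 234) (nat_lit 1596) (nat_lit 0) (XT.nd (nat_lit 78) (nat_lit 532) (nat_lit 0) (XT.lf (nat_lit 0) (nat_lit 8598225706) (nat_lit 608) (nat_lit 4735275635) (nat_lit 684) (nat_lit 31340669010) (nat_lit 162) (nat_lit 5) (nat_lit 170) (nat_lit 5) (nat_lit 171) (nat_lit 5) (nat_lit 315) (nat_lit 302) (nat_lit 163)) (XT.nd (nat_lit 78) (nat_lit 532) (nat_lit 0) (XT.lf (nat_lit 0) (nat_lit 20066964887) (nat_lit 684) (nat_lit 781602204) (nat_lit 76) (nat_lit 25096224364) (nat_lit 162) (nat_lit 5) (nat_lit 171) (nat_lit 5) (nat_lit 163) (nat_lit 5) (nat_lit 316) (nat_lit 302) (nat_lit 162)) (XT.lf (nat_lit 0) (nat_lit 27626883319) (nat_lit 608) (nat_lit 10410293148) (nat_lit 76) (nat_lit 9227078208) (nat_lit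 155) (nat_lit 5) (nat_lit 163) (nat_lit 5) (nat_lit 156) (nat_lit 5) (nat_lit 317) (nat_lit 302) (nat_lit 161)))) (XT.nd (nat_lit 156) (nat_lit 608) (nat_lit 0) (XT.nd (nat_lit 78) (nat_lit 456) (nat_lit 0) (XT.lf (nat_lit 0) (nat_lit 28071955023) (nat_lit 532) (nat_lit 7977751282) (nat_lit 608) (nat_lit 12585441788) (nat_lit 148) (nat_lit 5) (nat_lit 155) (nat_lit 5) (nat_lit 156) (nat_lit 5) (nat_lit 318) (nat_lit 302) (nat_lit 160)) (XT.lf (nat_lit 0) (nat_lit 18759267276) (nat_lit 456) (nat_lit 26646306231) (nat_lit 532) (nat_lit 4653659677) (nat_lit 142) (nat_lit 5) (nat_lit 148) (nat_lit 5) (nat_lit 149) (nat_lit 5) (nat_lit 319) (nat_lit 302) (nat_lit 159))) (XT.nd (nat_lit 78) (nat_lit 0) (nat_lit 0) (XT.lf (nat_lit 0) (nat_lit 4028478148) (nat_lit 608) (nat_lit 42606971570) (nat_lit 76) (nat_lit 4905252686) (nat_lit 134) (nat_lit 5) (nat_lit 142) (nat_lit 5) (nat_lit 135) (nat_lit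 5) (nat_lit 320) (nat_lit 302) (nat_lit 158)) (XT.lf (nat_lit 0) (nat_lit 13640569824) (nat_lit 608) (nat_lit 1575973028) (nat_lit 76) (nat_lit 37860560807) (nat_lit 134) (nat_lit 5) (nat_lit 142) (nat_lit 5) (nat_lit 135) (nat_lit 5) (nat_lit 321) (nat_lit 302) (nat_lit 157))))))))
noncomputable def xc111 : XT := (XT.nd (nat_lit 2028) (nat_lit 608) (nat_lit 0) (XT.nd (nat_lit 1014) (nat_lit 2356) (nat_lit 0) (XT.nd (nat_lit 468) (nat_lit 2128) (nat_lit 0) (XT.nd (nat_lit 234) (nat_lit 836) (nat_lit 0) (XT.nd (nat_lit 78) (nat_lit 836) (nat_lit 0) (XT.lf (nat_lit 0) (nat_lit 24312038024) (nat_lit 532) (nat_lit 12523823186) (nat_lit 76) (nat_lit 17837104040) (nat_lit 128) (nat_lit 5) (nat_lit 135) (nat_lit 5) (nat_lit 129) (nat_lit 5) (nat_lit 322) (nat_lit 302) (nat_lit 156)) (XT.nd (nat_lit 78) (nat_lit 380) (nat_lit 0) (XT.lf (nat_lit 0) (nat_lit 32216934731) (nat_lit 456) (nat_lit 3776914136)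 (nat_lit 532) (nat_lit 20340471248) (nat_lit 122) (nat_lit 5) (nat_lit 128) (nat_lit 5) (nat_lit 129) (nat_lit 5) (nat_lit 323) (nat_lit 302) (nat_lit 155)) (XT.lf (nat_lit 0) (nat_lit 21499160675) (nat_lit 380) (nat_lit 27392031586) (nat_lit 456) (nat_lit 9168610316) (nat_lit 117) (nat_lit 5) (nat_lit 122) (nat_lit 5) (nat_lit 123) (nat_lit 5) (nat_lit 324) (nat_lit 302) (nat_lit 154)))) (XT.nd (nat_lit 78) (nat_lit 380) (nat_lit 0) (XT.lf (nat_lit 0) (nat_lit 2965601318) (nat_lit 456) (nat_lit 49762867606) (nat_lit 76) (nat_lit 7128741882) (nat_lit 111) (nat_lit 5) (nat_lit 117) (nat_lit 5) (nat_lit 112) (nat_lit 5) (nat_lit 325) (nat_lit 302) (nat_lit 153)) (XT.nd (nat_lit 78) (nat_lit 380) (nat_lit 0) (XT.lf (nat_lit 0) (nat_lit 16172606407) (nat_lit 456) (nat_lit 2263087765) (nat_lit 76) (nat_lit 43286403552) (nat_lit 111) (nat_lit 5) (nat_lit 117) (nat_lit 5) (nat_lit 112) (nat_lit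 5) (nat_lit 326) (nat_lit 302) (nat_lit 152)) (XT.lf (nat_lit 0) (nat_lit 30677744055) (nat_lit 456) (nat_lit 15283724876) (nat_lit 76) (nat_lit 17699629200) (nat_lit 106) (nat_lit 5) (nat_lit 112) (nat_lit 5) (nat_lit 107) (nat_lit 5) (nat_lit 327) (nat_lit 302) (nat_lit 151))))) (XT.nd (nat_lit 234) (nat_lit 988) (nat_lit 0) (XT.nd (nat_lit 78) (nat_lit 760) (nat_lit 0) (XT.lf (nat_lit 0) (nat_lit 36422159045) (nat_lit 380) (nat_lit 10043284601) (nat_lit 456) (nat_lit 19214888247) (nat_lit 101) (nat_lit 5) (nat_lit 106) (nat_lit 5) (nat_lit 107) (nat_lit 5) (nat_lit 328) (nat_lit 302) (nat_lit 150)) (XT.nd (nat_lit 78) (nat_lit 456) (nat_lit 0) (XT.lf (nat_lit 0) (nat_lit 23423403671) (nat_lit 304) (nat_lit 40266833429) (nat_lit 380) (nat_lit 4090861345) (nat_lit 97) (nat_lit 5) (nat_lit 101) (nat_lit 5) (nat_lit 102) (nat_lit 5) (nat_lit 329) (nat_lit 302) (nat_lit 149)) (XT.lf (nat_lit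 0) (nat_lit 9334064536) (nat_lit 380) (nat_lit 2718240481) (nat_lit 456) (nat_lit 57916410966) (nat_lit 91) (nat_lit 5) (nat_lit 96) (nat_lit 5) (nat_lit 97) (nat_lit 5) (nat_lit 330) (nat_lit 302) (nat_lit 148)))) (XT.nd (nat_lit 156) (nat_lit 684) (nat_lit 0) (XT.nd (nat_lit 78) (nat_lit 304) (nat_lit 0) (XT.lf (nat_lit 0) (nat_lit 29730614100) (nat_lit 456) (nat_lit 6016301962) (nat_lit 76) (nat_lit 36493207624) (nat_lit 91) (nat_lit 5) (nat_lit 97) (nat_lit 5) (nat_lit 92) (nat_lit 5) (nat_lit 331) (nat_lit 302) (nat_lit 147)) (XT.lf (nat_lit 0) (nat_lit 48854816881) (nat_lit 380) (nat_lit 22319203008) (nat_lit 76) (nat_lit 3434224523) (nat_lit 87) (nat_lit 5) (nat_lit 92) (nat_lit 5) (nat_lit 88) (nat_lit 5) (nat_lit 332) (nat_lit 302) (nat_lit 146))) (XT.nd (nat_lit 78) (nat_lit 380) (nat_lit 0) (XT.lf (nat_lit 0) (nat_lit 36898256842) (nat_lit 304) (nat_lit 32812981723) (nat_lit 380)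 (nat_lit 7360254238) (nat_lit 83) (nat_lit 5) (nat_lit 87) (nat_lit 5) (nat_lit 88) (nat_lit 5) (nat_lit 333) (nat_lit 302) (nat_lit 145)) (XT.lf (nat_lit 0) (nat_lit 12220351512) (nat_lit 380) (nat_lit 59553308326) (nat_lit 76) (nat_lit 7865768313) (nat_lit 78) (nat_lit 5) (nat_lit 83) (nat_lit 5) (nat_lit 79) (nat_lit 5) (nat_lit 334) (nat_lit 302) (nat_lit 144)))))) (XT.nd (nat_lit 468) (nat_lit 1216) (nat_lit 0) (XT.nd (nat_lit 234) (nat_lit 608) (nat_lit 0) (XT.nd (nat_lit 78) (nat_lit 228) (nat_lit 0) (XT.lf (nat_lit 0) (nat_lit 1491381404) (nat_lit 304) (nat_lit 31899050067) (nat_lit 380) (nat_lit 48920264287) (nat_lit 74) (nat_lit 5) (nat_lit 78) (nat_lit 5) (nat_lit 79) (nat_lit 5) (nat_lit 335) (nat_lit 302) (nat_lit 143)) (XT.nd (nat_lit 78) (nat_lit 228) (nat_lit 0) (XT.lf (nat_lit 0) (nat_lit 56332105098) (nat_lit 380) (nat_lit 18368952333) (nat_lit 76) (nat_lit 10393078212)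 (nat_lit 74) (nat_lit 5) (nat_lit 79) (nat_lit 5) (nat_lit 75) (nat_lit 5) (nat_lit 336) (nat_lit 302) (nat_lit 142)) (XT.lf (nat_lit 0) (nat_lit 47812372693) (nat_lit 228) (nat_lit 33388285094) (nat_lit 304) (nat_lit 6792697385) (nat_lit 71) (nat_lit 5) (nat_lit 74) (nat_lit 5) (nat_lit 75) (nat_lit 5) (nat_lit 337) (nat_lit 302) (nat_lit 141)))) (XT.nd (nat_lit 78) (nat_lit 228) (nat_lit 0) (XT.lf (nat_lit 0) (nat_lit 16508530453) (nat_lit 380) (nat_lit 64100232610) (nat_lit 76) (nat_lit 10407550207) (nat_lit 66) (nat_lit 5) (nat_lit 71) (nat_lit 5) (nat_lit 67) (nat_lit 5) (nat_lit 338) (nat_lit 302) (nat_lit 140)) (XT.nd (nat_lit 78) (nat_lit 0) (nat_lit 0) (XT.lf (nat_lit 0) (nat_lit 3689479676) (nat_lit 228) (nat_lit 37934668747) (nat_lit 304) (nat_lit 52540560183) (nat_lit 63) (nat_lit 5) (nat_lit 66) (nat_lit 5) (nat_lit 67) (nat_lit 5) (nat_lit 339) (nat_lit 302) (nat_lit 139)) (XT.lf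 (nat_lit 0) (nat_lit 68726374703) (nat_lit 304) (nat_lit 21317630571) (nat_lit 76) (nat_lit 7404594881) (nat_lit 63) (nat_lit 5) (nat_lit 67) (nat_lit 5) (nat_lit 64) (nat_lit 5) (nat_lit 340) (nat_lit 302) (nat_lit 138))))) (XT.nd (nat_lit 234) (nat_lit 684) (nat_lit 0) (XT.nd (nat_lit 78) (nat_lit 304) (nat_lit 0) (XT.lf (nat_lit 0) (nat_lit 51925858258) (nat_lit 228) (nat_lit 46138328690) (nat_lit 304) (nat_lit 2806086300) (nat_lit 60) (nat_lit 5) (nat_lit 63) (nat_lit 5) (nat_lit 64) (nat_lit 5) (nat_lit 341) (nat_lit 302) (nat_lit 137)) (XT.nd (nat_lit 78) (nat_lit 0) (nat_lit 0) (XT.lf (nat_lit 0) (nat_lit 24397246756) (nat_lit 304) (nat_lit 79378032990) (nat_lit 76) (nat_lit 666684250) (nat_lit 56) (nat_lit 5) (nat_lit 60) (nat_lit 5) (nat_lit 57) (nat_lit 5) (nat_lit 342) (nat_lit 302) (nat_lit 136)) (XT.lf (nat_lit 0) (nat_lit 53876291554) (nat_lit 304) (nat_lit 4882932063) (nat_lit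 76) (nat_lit 49402975857) (nat_lit 56) (nat_lit 5) (nat_lit 60) (nat_lit 5) (nat_lit 57) (nat_lit 5) (nat_lit 343) (nat_lit 302) (nat_lit 135)))) (XT.nd (nat_lit 156) (nat_lit 228) (nat_lit 0) (XT.nd (nat_lit 78) (nat_lit 228) (nat_lit 0) (XT.lf (nat_lit 0) (nat_lit 74794238188) (nat_lit 228) (nat_lit 10752614922) (nat_lit 304) (nat_lit 26500067693) (nat_lit 53) (nat_lit 5) (nat_lit 56) (nat_lit 5) (nat_lit 57) (nat_lit 5) (nat_lit 344) (nat_lit 302) (nat_lit 134)) (XT.lf (nat_lit 0) (nat_lit 3474034582) (nat_lit 228) (nat_lit 73248699954) (nat_lit 76) (nat_lit 39376838062) (nat_lit 50) (nat_lit 5) (nat_lit 53) (nat_lit 5) (nat_lit 51) (nat_lit 5) (nat_lit 345) (nat_lit 302) (nat_lit 133))) (XT.nd (nat_lit 78) (nat_lit 0) (nat_lit 0) (XT.lf (nat_lit 0) (nat_lit 7152368305) (nat_lit 228) (nat_lit 27814734692) (nat_lit 304) (nat_lit 85362833878) (nat_lit 47) (nat_lit 5) (nat_lit 50) (nat_lit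 5) (nat_lit 51) (nat_lit 5) (nat_lit 346) (nat_lit 302) (nat_lit 132)) (XT.lf (nat_lit 0) (nat_lit 69021291778) (nat_lit 304) (nat_lit 31880858502) (nat_lit 76) (nat_lit 23840075926) (nat_lit 47) (nat_lit 5) (nat_lit 51) (nat_lit 5) (nat_lit 48) (nat_lit 5) (nat_lit 347) (nat_lit 302) (nat_lit 131))))))) (XT.nd (nat_lit 37830) (nat_lit 0) (nat_lit 5928) (XT.nd (nat_lit 37284) (nat_lit 0) (nat_lit 11324) (XT.nd (nat_lit 234) (nat_lit 152) (nat_lit 0) (XT.nd (nat_lit 78) (nat_lit 304) (nat_lit 0) (XT.lf (nat_lit 0) (nat_lit 54256690885) (nat_lit 152) (nat_lit 51322552769) (nat_lit 228) (nat_lit 23771855548) (nat_lit 45) (nat_lit 5) (nat_lit 47) (nat_lit 5) (nat_lit 48) (nat_lit 5) (nat_lit 348) (nat_lit 302) (nat_lit 130)) (XT.nd (nat_lit 78) (nat_lit 0) (nat_lit 0) (XT.lf (nat_lit 0) (nat_lit 10035222424) (nat_lit 304) (nat_lit 122878533313) (nat_lit 76) (nat_lit 1260303525) (nat_lit 41) (nat_lit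 5) (nat_lit 45) (nat_lit 5) (nat_lit 42) (nat_lit 5) (nat_lit 349) (nat_lit 302) (nat_lit 129)) (XT.lf (nat_lit 0) (nat_lit 46343105381) (nat_lit 304) (nat_lit 36408305616) (nat_lit 76) (nat_lit 56440633406) (nat_lit 41) (nat_lit 5) (nat_lit 45) (nat_lit 5) (nat_lit 42) (nat_lit 5) (nat_lit 350) (nat_lit 302) (nat_lit 128)))) (XT.nd (nat_lit 36894) (nat_lit 0) (nat_lit 11248) (XT.lf (nat_lit 0) (nat_lit 55465927218) (nat_lit 152) (nat_lit 29532507625) (nat_lit 228) (nat_lit 59446533066) (nat_lit 39) (nat_lit 5) (nat_lit 41) (nat_lit 5) (nat_lit 42) (nat_lit 5) (nat_lit 351) (nat_lit 302) (nat_lit 127)) (XT.nd (nat_lit 78) (nat_lit 0) (nat_lit 0) (XT.lf (nat_lit 0) (nat_lit 3263448585) (nat_lit 0) (nat_lit 3263448585) (nat_lit 1140) (nat_lit 10170942992) (nat_lit 187) (nat_lit 5) (nat_lit 187) (nat_lit 3) (nat_lit 202) (nat_lit 3) (nat_lit 303) (nat_lit 303) (nat_lit 174)) (XT.lf (nat_lit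 0) (nat_lit 13652291828) (nat_lit 1140) (nat_lit 2176433590) (nat_lit 1216) (nat_lit 18393558151) (nat_lit 187) (nat_lit 5) (nat_lit 202) (nat_lit 3) (nat_lit 203) (nat_lit 5) (nat_lit 304) (nat_lit 303) (nat_lit 173))))) (XT.nd (nat_lit 234) (nat_lit 0) (nat_lit 152) (XT.nd (nat_lit 78) (nat_lit 0) (nat_lit 0) (XT.lf (nat_lit 0) (nat_lit 14665001599) (nat_lit 1140) (nat_lit 11020733983) (nat_lit 1216) (nat_lit 9392960720) (nat_lit 188) (nat_lit 5) (nat_lit 203) (nat_lit 5) (nat_lit 204) (nat_lit 5) (nat_lit 305) (nat_lit 303) (nat_lit 172)) (XT.nd (nat_lit 78) (nat_lit 0) (nat_lit 76) (XT.lf (nat_lit 76) (nat_lit 15817716048) (nat_lit 0) (nat_lit 239493754) (nat_lit 1216) (nat_lit 19910861553) (nat_lit 189) (nat_lit 5) (nat_lit 188) (nat_lit 5) (nat_lit 204) (nat_lit 5) (nat_lit 306) (nat_lit 303) (nat_lit 171)) (XT.lf (nat_lit 76) (nat_lit 7211589742) (nat_lit 0) (nat_lit 10740545695) (nat_lit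 1216) (nat_lit 18936793723) (nat_lit 190) (nat_lit 5) (nat_lit 189) (nat_lit 5) (nat_lit 205) (nat_lit 5) (nat_lit 307) (nat_lit 303) (nat_lit 170)))) (XT.nd (nat_lit 156) (nat_lit 0) (nat_lit 76) (XT.nd (nat_lit 78) (nat_lit 0) (nat_lit 76) (XT.lf (nat_lit 0) (nat_lit 20302357785) (nat_lit 1140) (nat_lit 1648529735) (nat_lit 1216) (nat_lit 15894132689) (nat_lit 190) (nat_lit 5) (nat_lit 205) (nat_lit 5) (nat_lit 206) (nat_lit 5) (nat_lit 308) (nat_lit 303) (nat_lit 169)) (XT.lf (nat_lit 0) (nat_lit 23193726209) (nat_lit 1140) (nat_lit 10665740713) (nat_lit 1216) (nat_lit 4976746380) (nat_lit 191) (nat_lit 5) (nat_lit 206) (nat_lit 5) (nat_lit 207) (nat_lit 5) (nat_lit 309) (nat_lit 303) (nat_lit 168))) (XT.nd (nat_lit 78) (nat_lit 0) (nat_lit 76) (XT.lf (nat_lit 76) (nat_lit 19799718528) (nat_lit 0) (nat_lit 6854340703) (nat_lit 1216) (nat_lit 13210181163) (nat_lit 192) (nat_lit 5) (nat_lit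 191) (nat_lit 5) (nat_lit 207) (nat_lit 5) (nat_lit 310) (nat_lit 303) (nat_lit 167)) (XT.lf (nat_lit 76) (nat_lit 11075927432) (nat_lit 0) (nat_lit 19631088555) (nat_lit 1216) (nat_lit 10224070571) (nat_lit 193) (nat_lit 5) (nat_lit 192) (nat_lit 5) (nat_lit 208) (nat_lit 5) (nat_lit 311) (nat_lit 303) (nat_lit 166)))))) (XT.nd (nat_lit 546) (nat_lit 2888) (nat_lit 0) (XT.nd (nat_lit 234) (nat_lit 1748) (nat_lit 0) (XT.nd (nat_lit 78) (nat_lit 1140) (nat_lit 0) (XT.lf (nat_lit 76) (nat_lit 2029874371) (nat_lit 0) (nat_lit 33308476224) (nat_lit 1216) (nat_lit 6701658185) (nat_lit 194) (nat_lit 5) (nat_lit 193) (nat_lit 5) (nat_lit 209) (nat_lit 5) (nat_lit 312) (nat_lit 303) (nat_lit 165)) (XT.nd (nat_lit 78) (nat_lit 1140) (nat_lit 0) (XT.lf (nat_lit 76) (nat_lit 35927619661) (nat_lit 0) (nat_lit 4773097140) (nat_lit 1216) (nat_lit 2488681747) (nat_lit 194) (nat_lit 5) (nat_lit 193) (nat_lit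 5) (nat_lit 209) (nat_lit 5) (nat_lit 313) (nat_lit 303) (nat_lit 164)) (XT.lf (nat_lit 0) (nat_lit 2403930556) (nat_lit 1216) (nat_lit 16991288747) (nat_lit 76) (nat_lit 24985283137) (nat_lit 178) (nat_lit 5) (nat_lit 194) (nat_lit 5) (nat_lit 179) (nat_lit 5) (nat_lit 314) (nat_lit 303) (nat_lit 163)))) (XT.nd (nat_lit 156) (nat_lit 532) (nat_lit 0) (XT.nd (nat_lit 78) (nat_lit 608) (nat_lit 0) (XT.lf (nat_lit 0) (nat_lit 7892448384) (nat_lit 684) (nat_lit 27144360318) (nat_lit 76) (nat_lit 10581536012) (nat_lit 170) (nat_lit 5) (nat_lit 179) (nat_lit 5) (nat_lit 171) (nat_lit 5) (nat_lit 315) (nat_lit 303) (nat_lit 162)) (XT.lf (nat_lit 0) (nat_lit 9132150196) (nat_lit 608) (nat_lit 4979825946) (nat_lit 684) (nat_lit 32792409949) (nat_lit 162) (nat_lit 5) (nat_lit 170) (nat_lit 5) (nat_lit 171) (nat_lit 5) (nat_lit 316) (nat_lit 303) (nat_lit 161))) (XT.nd (nat_lit 78) (nat_lit 532) (nat_lit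 0) (XT.lf (nat_lit 0) (nat_lit 21176717784) (nat_lit 684) (nat_lit 718224379) (nat_lit 76) (nat_lit 26343764548) (nat_lit 162) (nat_lit 5) (nat_lit 171) (nat_lit 5) (nat_lit 163) (nat_lit 5) (nat_lit 317) (nat_lit 303) (nat_lit 160)) (XT.lf (nat_lit 0) (nat_lit 29110495245) (nat_lit 608) (nat_lit 10828065432) (nat_lit 76) (nat_lit 9685712816) (nat_lit 155) (nat_lit 5) (nat_lit 163) (nat_lit 5) (nat_lit 156) (nat_lit 5) (nat_lit 318) (nat_lit 303) (nat_lit 159))))) (XT.nd (nat_lit 234) (nat_lit 1292) (nat_lit 0) (XT.nd (nat_lit 78) (nat_lit 1064) (nat_lit 0) (XT.lf (nat_lit 0) (nat_lit 29575350059) (nat_lit 532) (nat_lit 8375198742) (nat_lit 608) (nat_lit 13113286094) (nat_lit 148) (nat_lit 5) (nat_lit 155) (nat_lit 5) (nat_lit 156) (nat_lit 5) (nat_lit 319) (nat_lit 303) (nat_lit 158)) (XT.nd (nat_lit 78) (nat_lit 608) (nat_lit 0) (XT.lf (nat_lit 0) (nat_lit 19797136395) (nat_lit 456) (nat_lit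 27973362832) (nat_lit 532) (nat_lit 4788742026) (nat_lit 142) (nat_lit 5) (nat_lit 148) (nat_lit 5) (nat_lit 149) (nat_lit 5) (nat_lit 320) (nat_lit 303) (nat_lit 157)) (XT.lf (nat_lit 0) (nat_lit 4322059250) (nat_lit 608) (nat_lit 44635518662) (nat_lit 76) (nat_lit 5157289321) (nat_lit 134) (nat_lit 5) (nat_lit 142) (nat_lit 5) (nat_lit 135) (nat_lit 5) (nat_lit 321) (nat_lit 303) (nat_lit 156)))) (XT.nd (nat_lit 156) (nat_lit 836) (nat_lit 0) (XT.nd (nat_lit 78) (nat_lit 456) (nat_lit 0) (XT.lf (nat_lit 0) (nat_lit 14410367072) (nat_lit 608) (nat_lit 1557817882) (nat_lit 76) (nat_lit 39760040277) (nat_lit 134) (nat_lit 5) (nat_lit 142) (nat_lit 5) (nat_lit 135) (nat_lit 5) (nat_lit 322) (nat_lit 303) (nat_lit 155)) (XT.lf (nat_lit 0) (nat_lit 25612227533) (nat_lit 532) (nat_lit 13053302164) (nat_lit 76) (nat_lit 18738450428) (nat_lit 128) (nat_lit 5) (nat_lit 135) (nat_lit 5) (nat_lit 129)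 (nat_lit 5) (nat_lit 323) (nat_lit 303) (nat_lit 154))) (XT.nd (nat_lit 78) (nat_lit 380) (nat_lit 0) (XT.lf (nat_lit 0) (nat_lit 33921721414) (nat_lit 456) (nat_lit 3953282531) (nat_lit 532) (nat_lit 21273497097) (nat_lit 122) (nat_lit 5) (nat_lit 128) (nat_lit 5) (nat_lit 129) (nat_lit 5) (nat_lit 324) (nat_lit 303) (nat_lit 153)) (XT.lf (nat_lit 0) (nat_lit 22667711795) (nat_lit 380) (nat_lit 28746637442) (nat_lit 456) (nat_lit 9545998690) (nat_lit 117) (nat_lit 5) (nat_lit 122) (nat_lit 5) (nat_lit 123) (nat_lit 5) (nat_lit 325) (nat_lit 303) (nat_lit 152))))))))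
noncomputable def xc112 : XT := (XT.nd (nat_lit 38922) (nat_lit 0) (nat_lit 4940) (XT.nd (nat_lit 1014) (nat_lit 2280) (nat_lit 0) (XT.nd (nat_lit 468) (nat_lit 1520) (nat_lit 0) (XT.nd (nat_lit 234) (nat_lit 1140) (nat_lit 0) (XT.nd (nat_lit 78) (nat_lit 380) (nat_lit 0) (XT.lf (nat_lit 0) (nat_lit 3190601132) (nat_lit 456) (nat_lit 52156258859) (nat_lit 76) (nat_lit 7500829451) (nat_lit 111) (nat_lit 5) (nat_lit 117) (nat_lit 5) (nat_lit 112) (nat_lit 5) (nat_lit 326) (nat_lit 303) (nat_lit 151)) (XT.nd (nat_lit 78) (nat_lit 380) (nat_lit 0) (XT.lf (nat_lit 0) (nat_lit 17054303154) (nat_lit 456) (nat_lit 2286002032) (nat_lit 76) (nat_lit 45465628944) (nat_lit 111) (nat_lit 5) (nat_lit 117) (nat_lit 5) (nat_lit 112) (nat_lit 5) (nat_lit 327) (nat_lit 303) (nat_lit 150)) (XT.lf (nat_lit 0) (nat_lit 32282226474) (nat_lit 456) (nat_lit 15958237545) (nat_lit 76) (nat_lit 18601498317) (nat_lit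 106) (nat_lit 5) (nat_lit 112) (nat_lit 5) (nat_lit 107) (nat_lit 5) (nat_lit 328) (nat_lit 303) (nat_lit 149)))) (XT.nd (nat_lit 78) (nat_lit 760) (nat_lit 0) (XT.lf (nat_lit 0) (nat_lit 38330370098) (nat_lit 380) (nat_lit 10526416558) (nat_lit 456) (nat_lit 20105450331) (nat_lit 101) (nat_lit 5) (nat_lit 106) (nat_lit 5) (nat_lit 107) (nat_lit 5) (nat_lit 329) (nat_lit 303) (nat_lit 148)) (XT.nd (nat_lit 78) (nat_lit 456) (nat_lit 0) (XT.lf (nat_lit 0) (nat_lit 24681053432) (nat_lit 304) (nat_lit 42259530416) (nat_lit 380) (nat_lit 4227528400) (nat_lit 97) (nat_lit 5) (nat_lit 101) (nat_lit 5) (nat_lit 102) (nat_lit 5) (nat_lit 330) (nat_lit 303) (nat_lit 147)) (XT.lf (nat_lit 0) (nat_lit 9886117268) (nat_lit 380) (nat_lit 2833005818) (nat_lit 456) (nat_lit 60746041518) (nat_lit 91) (nat_lit 5) (nat_lit 96) (nat_lit 5) (nat_lit 97) (nat_lit 5) (nat_lit 331) (nat_lit 303) (nat_lit 146)))))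 (XT.nd (nat_lit 234) (nat_lit 912) (nat_lit 0) (XT.nd (nat_lit 78) (nat_lit 608) (nat_lit 0) (XT.lf (nat_lit 0) (nat_lit 31278483941) (nat_lit 456) (nat_lit 6234132861) (nat_lit 76) (nat_lit 38337614709) (nat_lit 91) (nat_lit 5) (nat_lit 97) (nat_lit 5) (nat_lit 92) (nat_lit 5) (nat_lit 332) (nat_lit 303) (nat_lit 145)) (XT.nd (nat_lit 78) (nat_lit 304) (nat_lit 0) (XT.lf (nat_lit 0) (nat_lit 51356956608) (nat_lit 380) (nat_lit 23352932309) (nat_lit 76) (nat_lit 3626930335) (nat_lit 87) (nat_lit 5) (nat_lit 92) (nat_lit 5) (nat_lit 88) (nat_lit 5) (nat_lit 333) (nat_lit 303) (nat_lit 144)) (XT.lf (nat_lit 0) (nat_lit 38823043403) (nat_lit 304) (nat_lit 34431095251) (nat_lit 380) (nat_lit 7669155870) (nat_lit 83) (nat_lit 5) (nat_lit 87) (nat_lit 5) (nat_lit 88) (nat_lit 5) (nat_lit 334) (nat_lit 303) (nat_lit 143)))) (XT.nd (nat_lit 156) (nat_lit 228) (nat_lit 0) (XT.nd (nat_lit 78) (nat_lit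 304) (nat_lit 0) (XT.lf (nat_lit 0) (nat_lit 12887543009) (nat_lit 380) (nat_lit 62450711135) (nat_lit 76) (nat_lit 8281411398) (nat_lit 78) (nat_lit 5) (nat_lit 83) (nat_lit 5) (nat_lit 79) (nat_lit 5) (nat_lit 335) (nat_lit 303) (nat_lit 142)) (XT.lf (nat_lit 0) (nat_lit 1643912369) (nat_lit 304) (nat_lit 33470289066) (nat_lit 380) (nat_lit 51310355185) (nat_lit 74) (nat_lit 5) (nat_lit 78) (nat_lit 5) (nat_lit 79) (nat_lit 5) (nat_lit 336) (nat_lit 303) (nat_lit 141))) (XT.nd (nat_lit 78) (nat_lit 228) (nat_lit 0) (XT.lf (nat_lit 0) (nat_lit 59200592581) (nat_lit 380) (nat_lit 19211773405) (nat_lit 76) (nat_lit 10934875711) (nat_lit 74) (nat_lit 5) (nat_lit 79) (nat_lit 5) (nat_lit 75) (nat_lit 5) (nat_lit 337) (nat_lit 303) (nat_lit 140)) (XT.lf (nat_lit 0) (nat_lit 50276450053) (nat_lit 228) (nat_lit 35034358399) (nat_lit 304) (nat_lit 7080668792) (nat_lit 71) (nat_lit 5) (nat_lit 74)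 (nat_lit 5) (nat_lit 75) (nat_lit 5) (nat_lit 338) (nat_lit 303) (nat_lit 139)))))) (XT.nd (nat_lit 468) (nat_lit 1140) (nat_lit 0) (XT.nd (nat_lit 234) (nat_lit 532) (nat_lit 0) (XT.nd (nat_lit 78) (nat_lit 228) (nat_lit 0) (XT.lf (nat_lit 0) (nat_lit 17383121078) (nat_lit 380) (nat_lit 67231590312) (nat_lit 76) (nat_lit 10950903643) (nat_lit 66) (nat_lit 5) (nat_lit 71) (nat_lit 5) (nat_lit 67) (nat_lit 5) (nat_lit 339) (nat_lit 303) (nat_lit 138)) (XT.nd (nat_lit 78) (nat_lit 0) (nat_lit 0) (XT.lf (nat_lit 0) (nat_lit 3945496314) (nat_lit 228) (nat_lit 39807370198) (nat_lit 304) (nat_lit 55118615085) (nat_lit 63) (nat_lit 5) (nat_lit 66) (nat_lit 5) (nat_lit 67) (nat_lit 5) (nat_lit 340) (nat_lit 303) (nat_lit 137)) (XT.lf (nat_lit 0) (nat_lit 72208161702) (nat_lit 304) (nat_lit 22314203448) (nat_lit 76) (nat_lit 7797265612) (nat_lit 63) (nat_lit 5) (nat_lit 67) (nat_lit 5) (nat_lit 64)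 (nat_lit 5) (nat_lit 341) (nat_lit 303) (nat_lit 136)))) (XT.nd (nat_lit 78) (nat_lit 304) (nat_lit 0) (XT.lf (nat_lit 0) (nat_lit 54589473103) (nat_lit 228) (nat_lit 48421873440) (nat_lit 304) (nat_lit 2901088190) (nat_lit 60) (nat_lit 5) (nat_lit 63) (nat_lit 5) (nat_lit 64) (nat_lit 5) (nat_lit 342) (nat_lit 303) (nat_lit 135)) (XT.nd (nat_lit 78) (nat_lit 0) (nat_lit 0) (XT.lf (nat_lit 0) (nat_lit 25660273871) (nat_lit 304) (nat_lit 83279557086) (nat_lit 76) (nat_lit 722905163) (nat_lit 56) (nat_lit 5) (nat_lit 60) (nat_lit 5) (nat_lit 57) (nat_lit 5) (nat_lit 343) (nat_lit 303) (nat_lit 134)) (XT.lf (nat_lit 0) (nat_lit 56611215443) (nat_lit 304) (nat_lit 5062909568) (nat_lit 76) (nat_lit 51894921507) (nat_lit 56) (nat_lit 5) (nat_lit 60) (nat_lit 5) (nat_lit 57) (nat_lit 5) (nat_lit 344) (nat_lit 303) (nat_lit 133))))) (XT.nd (nat_lit 234) (nat_lit 456) (nat_lit 0) (XT.nd (nat_lit 78)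 (nat_lit 456) (nat_lit 0) (XT.lf (nat_lit 0) (nat_lit 78596279801) (nat_lit 228) (nat_lit 11267666841) (nat_lit 304) (nat_lit 27784099437) (nat_lit 53) (nat_lit 5) (nat_lit 56) (nat_lit 5) (nat_lit 57) (nat_lit 5) (nat_lit 345) (nat_lit 303) (nat_lit 132)) (XT.nd (nat_lit 78) (nat_lit 228) (nat_lit 0) (XT.lf (nat_lit 0) (nat_lit 3686801445) (nat_lit 228) (nat_lit 76848813382) (nat_lit 76) (nat_lit 41367738337) (nat_lit 50) (nat_lit 5) (nat_lit 53) (nat_lit 5) (nat_lit 51) (nat_lit 5) (nat_lit 346) (nat_lit 303) (nat_lit 131)) (XT.lf (nat_lit 0) (nat_lit 7570521854) (nat_lit 228) (nat_lit 29182723082) (nat_lit 304) (nat_lit 89592030312) (nat_lit 47) (nat_lit 5) (nat_lit 50) (nat_lit 5) (nat_lit 51) (nat_lit 5) (nat_lit 347) (nat_lit 303) (nat_lit 130)))) (XT.nd (nat_lit 156) (nat_lit 304) (nat_lit 0) (XT.nd (nat_lit 78) (nat_lit 152) (nat_lit 0) (XT.lf (nat_lit 0) (nat_lit 72508552044) (nat_lit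 304) (nat_lit 33416353872) (nat_lit 76) (nat_lit 25053322047) (nat_lit 47) (nat_lit 5) (nat_lit 51) (nat_lit 5) (nat_lit 48) (nat_lit 5) (nat_lit 348) (nat_lit 303) (nat_lit 129)) (XT.lf (nat_lit 0) (nat_lit 57026394731) (nat_lit 152) (nat_lit 53866829842) (nat_lit 228) (nat_lit 24924356473) (nat_lit 45) (nat_lit 5) (nat_lit 47) (nat_lit 5) (nat_lit 48) (nat_lit 5) (nat_lit 349) (nat_lit 303) (nat_lit 128))) (XT.nd (nat_lit 78) (nat_lit 0) (nat_lit 0) (XT.lf (nat_lit 0) (nat_lit 10571432401) (nat_lit 304) (nat_lit 128965676034) (nat_lit 76) (nat_lit 1344599469) (nat_lit 41) (nat_lit 5) (nat_lit 45) (nat_lit 5) (nat_lit 42) (nat_lit 5) (nat_lit 350) (nat_lit 303) (nat_lit 127)) (XT.lf (nat_lit 0) (nat_lit 48693069084) (nat_lit 304) (nat_lit 38174640949) (nat_lit 76) (nat_lit 59282932475) (nat_lit 41) (nat_lit 5) (nat_lit 45) (nat_lit 5) (nat_lit 42) (nat_lit 5) (nat_lit 351) (nat_lit 303)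 (nat_lit 126))))))) (XT.nd (nat_lit 1014) (nat_lit 4864) (nat_lit 0) (XT.nd (nat_lit 468) (nat_lit 1292) (nat_lit 0) (XT.nd (nat_lit 234) (nat_lit 0) (nat_lit 76) (XT.nd (nat_lit 78) (nat_lit 0) (nat_lit 0) (XT.lf (nat_lit 0) (nat_lit 3471816016) (nat_lit 0) (nat_lit 3471816016) (nat_lit 1140) (nat_lit 10586266192) (nat_lit 187) (nat_lit 5) (nat_lit 187) (nat_lit 3) (nat_lit 202) (nat_lit 3) (nat_lit 304) (nat_lit 304) (nat_lit 172)) (XT.nd (nat_lit 78) (nat_lit 0) (nat_lit 76) (XT.lf (nat_lit 0) (nat_lit 14506250347) (nat_lit 1140) (nat_lit 2192944049) (nat_lit 1216) (nat_lit 19228830183) (nat_lit 187) (nat_lit 5) (nat_lit 202) (nat_lit 3) (nat_lit 203) (nat_lit 5) (nat_lit 305) (nat_lit 304) (nat_lit 171)) (XT.lf (nat_lit 0) (nat_lit 15561583288) (nat_lit 1140) (nat_lit 11476247384) (nat_lit 1216) (nat_lit 9789678735) (nat_lit 188) (nat_lit 5) (nat_lit 203) (nat_lit 5) (nat_lit 204) (nat_lit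 5) (nat_lit 306) (nat_lit 304) (nat_lit 170)))) (XT.nd (nat_lit 78) (nat_lit 0) (nat_lit 76) (XT.lf (nat_lit 76) (nat_lit 16701386991) (nat_lit 0) (nat_lit 315129121) (nat_lit 1216) (nat_lit 20745054234) (nat_lit 189) (nat_lit 5) (nat_lit 188) (nat_lit 5) (nat_lit 204) (nat_lit 5) (nat_lit 307) (nat_lit 304) (nat_lit 169)) (XT.nd (nat_lit 78) (nat_lit 0) (nat_lit 76) (XT.lf (nat_lit 76) (nat_lit 7667653095) (nat_lit 0) (nat_lit 11331420178) (nat_lit 1216) (nat_lit 19729621268) (nat_lit 190) (nat_lit 5) (nat_lit 189) (nat_lit 5) (nat_lit 205) (nat_lit 5) (nat_lit 308) (nat_lit 304) (nat_lit 168)) (XT.lf (nat_lit 0) (nat_lit 21459202771) (nat_lit 1140) (nat_lit 1635068075) (nat_lit 1216) (nat_lit 16638556995) (nat_lit 190) (nat_lit 5) (nat_lit 205) (nat_lit 5) (nat_lit 206) (nat_lit 5) (nat_lit 309) (nat_lit 304) (nat_lit 167))))) (XT.nd (nat_lit 234) (nat_lit 1596) (nat_lit 0) (XT.nd (nat_lit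 78) (nat_lit 0) (nat_lit 0) (XT.lf (nat_lit 0) (nat_lit 24488875237) (nat_lit 1140) (nat_lit 11101218782) (nat_lit 1216) (nat_lit 5183683624) (nat_lit 191) (nat_lit 5) (nat_lit 206) (nat_lit 5) (nat_lit 207) (nat_lit 5) (nat_lit 310) (nat_lit 304) (nat_lit 166)) (XT.nd (nat_lit 78) (nat_lit 0) (nat_lit 76) (XT.lf (nat_lit 76) (nat_lit 20884709747) (nat_lit 0) (nat_lit 7231977805) (nat_lit 1216) (nat_lit 13736693344) (nat_lit 192) (nat_lit 5) (nat_lit 191) (nat_lit 5) (nat_lit 207) (nat_lit 5) (nat_lit 311) (nat_lit 304) (nat_lit 165)) (XT.lf (nat_lit 76) (nat_lit 11726286647) (nat_lit 0) (nat_lit 20640427109) (nat_lit 1216) (nat_lit 10607031238) (nat_lit 193) (nat_lit 5) (nat_lit 192) (nat_lit 5) (nat_lit 208) (nat_lit 5) (nat_lit 312) (nat_lit 304) (nat_lit 164)))) (XT.nd (nat_lit 156) (nat_lit 1748) (nat_lit 0) (XT.nd (nat_lit 78) (nat_lit 0) (nat_lit 0) (XT.lf (nat_lit 76) (nat_lit 2229206617)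 (nat_lit 0) (nat_lit 34995173318) (nat_lit 1216) (nat_lit 6913898328) (nat_lit 194) (nat_lit 5) (nat_lit 193) (nat_lit 5) (nat_lit 209) (nat_lit 5) (nat_lit 313) (nat_lit 304) (nat_lit 163)) (XT.lf (nat_lit 76) (nat_lit 37817180194) (nat_lit 0) (nat_lit 5032012266) (nat_lit 1216) (nat_lit 2496122724) (nat_lit 194) (nat_lit 5) (nat_lit 193) (nat_lit 5) (nat_lit 209) (nat_lit 5) (nat_lit 314) (nat_lit 304) (nat_lit 162))) (XT.nd (nat_lit 78) (nat_lit 608) (nat_lit 0) (XT.lf (nat_lit 0) (nat_lit 2634101514) (nat_lit 1216) (nat_lit 17744376506) (nat_lit 76) (nat_lit 26217611524) (nat_lit 178) (nat_lit 5) (nat_lit 194) (nat_lit 5) (nat_lit 179) (nat_lit 5) (nat_lit 315) (nat_lit 304) (nat_lit 161)) (XT.lf (nat_lit 0) (nat_lit 8392594513) (nat_lit 684) (nat_lit 28404451160) (nat_lit 76) (nat_lit 11098918387) (nat_lit 170) (nat_lit 5) (nat_lit 179) (nat_lit 5) (nat_lit 171) (nat_lit 5) (nat_lit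 316) (nat_lit 304) (nat_lit 160)))))) (XT.nd (nat_lit 468) (nat_lit 2128) (nat_lit 0) (XT.nd (nat_lit 234) (nat_lit 1596) (nat_lit 0) (XT.nd (nat_lit 78) (nat_lit 532) (nat_lit 0) (XT.lf (nat_lit 0) (nat_lit 9683100748) (nat_lit 608) (nat_lit 5235879855) (nat_lit 684) (nat_lit 34327456740) (nat_lit 162) (nat_lit 5) (nat_lit 170) (nat_lit 5) (nat_lit 171) (nat_lit 5) (nat_lit 317) (nat_lit 304) (nat_lit 159)) (XT.nd (nat_lit 78) (nat_lit 532) (nat_lit 0) (XT.lf (nat_lit 0) (nat_lit 22332065830) (nat_lit 684) (nat_lit 661203231) (nat_lit 76) (nat_lit 27654357733) (nat_lit 162) (nat_lit 5) (nat_lit 171) (nat_lit 5) (nat_lit 163) (nat_lit 5) (nat_lit 318) (nat_lit 304) (nat_lit 158)) (XT.lf (nat_lit 0) (nat_lit 30658779882) (nat_lit 608) (nat_lit 11276278341) (nat_lit 76) (nat_lit 10167531968) (nat_lit 155) (nat_lit 5) (nat_lit 163) (nat_lit 5) (nat_lit 156) (nat_lit 5) (nat_lit 319) (nat_lit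 304) (nat_lit 157)))) (XT.nd (nat_lit 78) (nat_lit 1064) (nat_lit 0) (XT.lf (nat_lit 0) (nat_lit 31144636641) (nat_lit 532) (nat_lit 8792652462) (nat_lit 608) (nat_lit 13676952408) (nat_lit 148) (nat_lit 5) (nat_lit 155) (nat_lit 5) (nat_lit 156) (nat_lit 5) (nat_lit 320) (nat_lit 304) (nat_lit 156)) (XT.nd (nat_lit 78) (nat_lit 608) (nat_lit 0) (XT.lf (nat_lit 0) (nat_lit 20877610679) (nat_lit 456) (nat_lit 29367261168) (nat_lit 532) (nat_lit 4939652474) (nat_lit 142) (nat_lit 5) (nat_lit 148) (nat_lit 5) (nat_lit 149) (nat_lit 5) (nat_lit 321) (nat_lit 304) (nat_lit 155)) (XT.lf (nat_lit 0) (nat_lit 4621751505) (nat_lit 608) (nat_lit 46774957646) (nat_lit 76) (nat_lit 5421298005) (nat_lit 134) (nat_lit 5) (nat_lit 142) (nat_lit 5) (nat_lit 135) (nat_lit 5) (nat_lit 322) (nat_lit 304) (nat_lit 154))))) (XT.nd (nat_lit 234) (nat_lit 1216) (nat_lit 0) (XT.nd (nat_lit 78) (nat_lit 912) (nat_lit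 0) (XT.lf (nat_lit 0) (nat_lit 15210494275) (nat_lit 608) (nat_lit 1547768825) (nat_lit 76) (nat_lit 41753893927) (nat_lit 134) (nat_lit 5) (nat_lit 142) (nat_lit 5) (nat_lit 135) (nat_lit 5) (nat_lit 323) (nat_lit 304) (nat_lit 153)) (XT.nd (nat_lit 78) (nat_lit 456) (nat_lit 0) (XT.lf (nat_lit 0) (nat_lit 26969562363) (nat_lit 532) (nat_lit 13618246473) (nat_lit 76) (nat_lit 19683981735) (nat_lit 128) (nat_lit 5) (nat_lit 135) (nat_lit 5) (nat_lit 129) (nat_lit 5) (nat_lit 324) (nat_lit 304) (nat_lit 152)) (XT.lf (nat_lit 0) (nat_lit 35703013785) (nat_lit 456) (nat_lit 4139629368) (nat_lit 532) (nat_lit 22260983550) (nat_lit 122) (nat_lit 5) (nat_lit 128) (nat_lit 5) (nat_lit 129) (nat_lit 5) (nat_lit 325) (nat_lit 304) (nat_lit 151)))) (XT.nd (nat_lit 156) (nat_lit 380) (nat_lit 0) (XT.nd (nat_lit 78) (nat_lit 456) (nat_lit 0) (XT.lf (nat_lit 0) (nat_lit 23885989073) (nat_lit 380) (nat_lit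 30170367751) (nat_lit 456) (nat_lit 9949791014) (nat_lit 117) (nat_lit 5) (nat_lit 122) (nat_lit 5) (nat_lit 123) (nat_lit 5) (nat_lit 326) (nat_lit 304) (nat_lit 150)) (XT.lf (nat_lit 0) (nat_lit 3419718261) (nat_lit 456) (nat_lit 54678128829) (nat_lit 76) (nat_lit 7890066366) (nat_lit 111) (nat_lit 5) (nat_lit 117) (nat_lit 5) (nat_lit 112) (nat_lit 5) (nat_lit 327) (nat_lit 304) (nat_lit 149))) (XT.nd (nat_lit 78) (nat_lit 380) (nat_lit 0) (XT.lf (nat_lit 0) (nat_lit 17973291715) (nat_lit 456) (nat_lit 2318451683) (nat_lit 76) (nat_lit 47752429860) (nat_lit 111) (nat_lit 5) (nat_lit 117) (nat_lit 5) (nat_lit 112) (nat_lit 5) (nat_lit 328) (nat_lit 304) (nat_lit 148)) (XT.lf (nat_lit 0) (nat_lit 33960369740) (nat_lit 456) (nat_lit 16674812846) (nat_lit 76) (nat_lit 19546890836) (nat_lit 106) (nat_lit 5) (nat_lit 112) (nat_lit 5) (nat_lit 107) (nat_lit 5) (nat_lit 329) (nat_lit 304) (nat_lit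 147))))))))
noncomputable def xc113 : XT := (XT.nd (nat_lit 39000) (nat_lit 0) (nat_lit 3496) (XT.nd (nat_lit 1014) (nat_lit 1672) (nat_lit 0) (XT.nd (nat_lit 468) (nat_lit 1520) (nat_lit 0) (XT.nd (nat_lit 234) (nat_lit 608) (nat_lit 0) (XT.nd (nat_lit 78) (nat_lit 760) (nat_lit 0) (XT.lf (nat_lit 0) (nat_lit 40325893682) (nat_lit 380) (nat_lit 11035474554) (nat_lit 456) (nat_lit 21047065406) (nat_lit 101) (nat_lit 5) (nat_lit 106) (nat_lit 5) (nat_lit 107) (nat_lit 5) (nat_lit 330) (nat_lit 304) (nat_lit 146)) (XT.nd (nat_lit 78) (nat_lit 456) (nat_lit 0) (XT.lf (nat_lit 0) (nat_lit 25993545629) (nat_lit 304) (nat_lit 44353781599) (nat_lit 380) (nat_lit 4377339277) (nat_lit 97) (nat_lit 5) (nat_lit 101) (nat_lit 5) (nat_lit 102) (nat_lit 5) (nat_lit 331) (nat_lit 304) (nat_lit 145)) (XT.lf (nat_lit 0) (nat_lit 10457837649) (nat_lit 380) (nat_lit 2955475440) (nat_lit 456) (nat_lit 63723307316)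 (nat_lit 91) (nat_lit 5) (nat_lit 96) (nat_lit 5) (nat_lit 97) (nat_lit 5) (nat_lit 332) (nat_lit 304) (nat_lit 144)))) (XT.nd (nat_lit 78) (nat_lit 608) (nat_lit 0) (XT.lf (nat_lit 0) (nat_lit 32898044543) (nat_lit 456) (nat_lit 6470570390) (nat_lit 76) (nat_lit 40272406287) (nat_lit 91) (nat_lit 5) (nat_lit 97) (nat_lit 5) (nat_lit 92) (nat_lit 5) (nat_lit 333) (nat_lit 304) (nat_lit 143)) (XT.nd (nat_lit 78) (nat_lit 304) (nat_lit 0) (XT.lf (nat_lit 0) (nat_lit 53978680977) (nat_lit 380) (nat_lit 24445993120) (nat_lit 76) (nat_lit 3827319560) (nat_lit 87) (nat_lit 5) (nat_lit 92) (nat_lit 5) (nat_lit 88) (nat_lit 5) (nat_lit 334) (nat_lit 304) (nat_lit 142)) (XT.lf (nat_lit 0) (nat_lit 40836643390) (nat_lit 304) (nat_lit 36132209598) (nat_lit 380) (nat_lit 7998998172) (nat_lit 83) (nat_lit 5) (nat_lit 87) (nat_lit 5) (nat_lit 88) (nat_lit 5) (nat_lit 335) (nat_lit 304) (nat_lit 141)))))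 (XT.nd (nat_lit 234) (nat_lit 836) (nat_lit 0) (XT.nd (nat_lit 78) (nat_lit 304) (nat_lit 0) (XT.lf (nat_lit 0) (nat_lit 13582871563) (nat_lit 380) (nat_lit 65500446142) (nat_lit 76) (nat_lit 8715758312) (nat_lit 78) (nat_lit 5) (nat_lit 83) (nat_lit 5) (nat_lit 79) (nat_lit 5) (nat_lit 336) (nat_lit 304) (nat_lit 140)) (XT.nd (nat_lit 78) (nat_lit 0) (nat_lit 0) (XT.lf (nat_lit 0) (nat_lit 1796821724) (nat_lit 304) (nat_lit 35122294672) (nat_lit 380) (nat_lit 53825149755) (nat_lit 74) (nat_lit 5) (nat_lit 78) (nat_lit 5) (nat_lit 79) (nat_lit 5) (nat_lit 337) (nat_lit 304) (nat_lit 139)) (XT.lf (nat_lit 0) (nat_lit 62207680920) (nat_lit 380) (nat_lit 20103766569) (nat_lit 76) (nat_lit 11501704385) (nat_lit 74) (nat_lit 5) (nat_lit 79) (nat_lit 5) (nat_lit 75) (nat_lit 5) (nat_lit 338) (nat_lit 304) (nat_lit 138)))) (XT.nd (nat_lit 156) (nat_lit 228) (nat_lit 0) (XT.nd (nat_lit 78) (nat_lit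 380) (nat_lit 0) (XT.lf (nat_lit 0) (nat_lit 52856901784) (nat_lit 228) (nat_lit 36764905390) (nat_lit 304) (nat_lit 7387841948) (nat_lit 71) (nat_lit 5) (nat_lit 74) (nat_lit 5) (nat_lit 75) (nat_lit 5) (nat_lit 339) (nat_lit 304) (nat_lit 137)) (XT.lf (nat_lit 0) (nat_lit 18296870423) (nat_lit 380) (nat_lit 70526363544) (nat_lit 76) (nat_lit 11519288667) (nat_lit 66) (nat_lit 5) (nat_lit 71) (nat_lit 5) (nat_lit 67) (nat_lit 5) (nat_lit 340) (nat_lit 304) (nat_lit 136))) (XT.nd (nat_lit 78) (nat_lit 0) (nat_lit 0) (XT.lf (nat_lit 0) (nat_lit 4207662425) (nat_lit 228) (nat_lit 41775940988) (nat_lit 304) (nat_lit 57830125787) (nat_lit 63) (nat_lit 5) (nat_lit 66) (nat_lit 5) (nat_lit 67) (nat_lit 5) (nat_lit 341) (nat_lit 304) (nat_lit 135)) (XT.lf (nat_lit 0) (nat_lit 75859810843) (nat_lit 304) (nat_lit 23367048630) (nat_lit 76) (nat_lit 8207483529) (nat_lit 63) (nat_lit 5) (nat_lit 67)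 (nat_lit 5) (nat_lit 64) (nat_lit 5) (nat_lit 342) (nat_lit 304) (nat_lit 134)))))) (XT.nd (nat_lit 468) (nat_lit 456) (nat_lit 0) (XT.nd (nat_lit 234) (nat_lit 684) (nat_lit 0) (XT.nd (nat_lit 78) (nat_lit 304) (nat_lit 0) (XT.lf (nat_lit 0) (nat_lit 57380009736) (nat_lit 228) (nat_lit 50821768305) (nat_lit 304) (nat_lit 3005051965) (nat_lit 60) (nat_lit 5) (nat_lit 63) (nat_lit 5) (nat_lit 64) (nat_lit 5) (nat_lit 343) (nat_lit 304) (nat_lit 133)) (XT.nd (nat_lit 78) (nat_lit 0) (nat_lit 0) (XT.lf (nat_lit 0) (nat_lit 26982439290) (nat_lit 304) (nat_lit 87382421514) (nat_lit 76) (nat_lit 779809333) (nat_lit 56) (nat_lit 5) (nat_lit 60) (nat_lit 5) (nat_lit 57) (nat_lit 5) (nat_lit 344) (nat_lit 304) (nat_lit 132)) (XT.lf (nat_lit 0) (nat_lit 59479063573) (nat_lit 304) (nat_lit 5257851783) (nat_lit 76) (nat_lit 54509437975) (nat_lit 56) (nat_lit 5) (nat_lit 60) (nat_lit 5) (nat_lit 57) (nat_lit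 5) (nat_lit 345) (nat_lit 304) (nat_lit 131)))) (XT.nd (nat_lit 78) (nat_lit 456) (nat_lit 0) (XT.lf (nat_lit 0) (nat_lit 82582628670) (nat_lit 228) (nat_lit 11810570521) (nat_lit 304) (nat_lit 29136141923) (nat_lit 53) (nat_lit 5) (nat_lit 56) (nat_lit 5) (nat_lit 57) (nat_lit 5) (nat_lit 346) (nat_lit 304) (nat_lit 130)) (XT.nd (nat_lit 78) (nat_lit 228) (nat_lit 0) (XT.lf (nat_lit 0) (nat_lit 3906574745) (nat_lit 228) (nat_lit 80634726551) (nat_lit 76) (nat_lit 43456132847) (nat_lit 50) (nat_lit 5) (nat_lit 53) (nat_lit 5) (nat_lit 51) (nat_lit 5) (nat_lit 347) (nat_lit 304) (nat_lit 129)) (XT.lf (nat_lit 0) (nat_lit 8003955098) (nat_lit 228) (nat_lit 30621225818) (nat_lit 304) (nat_lit 94036307328) (nat_lit 47) (nat_lit 5) (nat_lit 50) (nat_lit 5) (nat_lit 51) (nat_lit 5) (nat_lit 348) (nat_lit 304) (nat_lit 128))))) (XT.nd (nat_lit 37206) (nat_lit 0) (nat_lit 11096) (XT.nd (nat_lit 78)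 (nat_lit 456) (nat_lit 0) (XT.lf (nat_lit 0) (nat_lit 76166810193) (nat_lit 304) (nat_lit 35034067207) (nat_lit 76) (nat_lit 26325255565) (nat_lit 47) (nat_lit 5) (nat_lit 51) (nat_lit 5) (nat_lit 48) (nat_lit 5) (nat_lit 349) (nat_lit 304) (nat_lit 127)) (XT.nd (nat_lit 78) (nat_lit 304) (nat_lit 0) (XT.lf (nat_lit 0) (nat_lit 59929296601) (nat_lit 152) (nat_lit 56540352227) (nat_lit 228) (nat_lit 26137837922) (nat_lit 45) (nat_lit 5) (nat_lit 47) (nat_lit 5) (nat_lit 48) (nat_lit 5) (nat_lit 350) (nat_lit 304) (nat_lit 126)) (XT.lf (nat_lit 0) (nat_lit 11131250150) (nat_lit 304) (nat_lit 135362455123) (nat_lit 76) (nat_lit 1431131727) (nat_lit 41) (nat_lit 5) (nat_lit 45) (nat_lit 5) (nat_lit 42) (nat_lit 5) (nat_lit 351) (nat_lit 304) (nat_lit 125)))) (XT.nd (nat_lit 156) (nat_lit 0) (nat_lit 76) (XT.nd (nat_lit 78) (nat_lit 0) (nat_lit 0) (XT.lf (nat_lit 0) (nat_lit 3686400016) (nat_lit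 0) (nat_lit 3686400016) (nat_lit 1140) (nat_lit 11031022630) (nat_lit 187) (nat_lit 5) (nat_lit 187) (nat_lit 3) (nat_lit 202) (nat_lit 3) (nat_lit 305) (nat_lit 305) (nat_lit 170)) (XT.lf (nat_lit 0) (nat_lit 15386976857) (nat_lit 1140) (nat_lit 2218862254) (nat_lit 1216) (nat_lit 20113713075) (nat_lit 187) (nat_lit 5) (nat_lit 202) (nat_lit 3) (nat_lit 203) (nat_lit 5) (nat_lit 306) (nat_lit 305) (nat_lit 169))) (XT.nd (nat_lit 78) (nat_lit 0) (nat_lit 0) (XT.lf (nat_lit 0) (nat_lit 16487809036) (nat_lit 1140) (nat_lit 11963417307) (nat_lit 1216) (nat_lit 10213012992) (nat_lit 188) (nat_lit 5) (nat_lit 203) (nat_lit 5) (nat_lit 204) (nat_lit 5) (nat_lit 307) (nat_lit 305) (nat_lit 168)) (XT.lf (nat_lit 76) (nat_lit 17620615199) (nat_lit 0) (nat_lit 388627690) (nat_lit 1216) (nat_lit 21635957379) (nat_lit 189) (nat_lit 5) (nat_lit 188) (nat_lit 5) (nat_lit 204) (nat_lit 5) (nat_lit 308)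 (nat_lit 305) (nat_lit 167))))))) (XT.nd (nat_lit 1014) (nat_lit 4636) (nat_lit 0) (XT.nd (nat_lit 468) (nat_lit 3116) (nat_lit 0) (XT.nd (nat_lit 234) (nat_lit 0) (nat_lit 152) (XT.nd (nat_lit 78) (nat_lit 0) (nat_lit 76) (XT.lf (nat_lit 76) (nat_lit 8137642430) (nat_lit 0) (nat_lit 11946832184) (nat_lit 1216) (nat_lit 20576408780) (nat_lit 190) (nat_lit 5) (nat_lit 189) (nat_lit 5) (nat_lit 205) (nat_lit 5) (nat_lit 309) (nat_lit 305) (nat_lit 166)) (XT.nd (nat_lit 78) (nat_lit 0) (nat_lit 76) (XT.lf (nat_lit 0) (nat_lit 22660713564) (nat_lit 1140) (nat_lit 1629848103) (nat_lit 1216) (nat_lit 17424877290) (nat_lit 190) (nat_lit 5) (nat_lit 205) (nat_lit 5) (nat_lit 206) (nat_lit 5) (nat_lit 310) (nat_lit 305) (nat_lit 165)) (XT.lf (nat_lit 0) (nat_lit 25836187676) (nat_lit 1140) (nat_lit 11567564105) (nat_lit 1216) (nat_lit 5404863201) (nat_lit 191) (nat_lit 5) (nat_lit 206) (nat_lit 5)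 (nat_lit 207) (nat_lit 5) (nat_lit 311) (nat_lit 305) (nat_lit 164)))) (XT.nd (nat_lit 78) (nat_lit 0) (nat_lit 76) (XT.lf (nat_lit 76) (nat_lit 22015117835) (nat_lit 0) (nat_lit 7625250227) (nat_lit 1216) (nat_lit 14301988894) (nat_lit 192) (nat_lit 5) (nat_lit 191) (nat_lit 5) (nat_lit 207) (nat_lit 5) (nat_lit 312) (nat_lit 305) (nat_lit 163)) (XT.nd (nat_lit 78) (nat_lit 0) (nat_lit 76) (XT.lf (nat_lit 76) (nat_lit 12400186325) (nat_lit 0) (nat_lit 21697649487) (nat_lit 1216) (nat_lit 11021062744) (nat_lit 193) (nat_lit 5) (nat_lit 192) (nat_lit 5) (nat_lit 208) (nat_lit 5) (nat_lit 313) (nat_lit 305) (nat_lit 162)) (XT.lf (nat_lit 76) (nat_lit 2429409377) (nat_lit 0) (nat_lit 36764227478) (nat_lit 1216) (nat_lit 7148171234) (nat_lit 194) (nat_lit 5) (nat_lit 193) (nat_lit 5) (nat_lit 209) (nat_lit 5) (nat_lit 314) (nat_lit 305) (nat_lit 161))))) (XT.nd (nat_lit 234) (nat_lit 1672) (nat_lit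 0) (XT.nd (nat_lit 78) (nat_lit 1748) (nat_lit 0) (XT.lf (nat_lit 76) (nat_lit 39792555802) (nat_lit 0) (nat_lit 5301989541) (nat_lit 1216) (nat_lit 2514812660) (nat_lit 194) (nat_lit 5) (nat_lit 193) (nat_lit 5) (nat_lit 209) (nat_lit 5) (nat_lit 315) (nat_lit 305) (nat_lit 160)) (XT.nd (nat_lit 78) (nat_lit 608) (nat_lit 0) (XT.lf (nat_lit 0) (nat_lit 2865556638) (nat_lit 1216) (nat_lit 18544088140) (nat_lit 76) (nat_lit 27513130858) (nat_lit 178) (nat_lit 5) (nat_lit 194) (nat_lit 5) (nat_lit 179) (nat_lit 5) (nat_lit 316) (nat_lit 305) (nat_lit 159)) (XT.lf (nat_lit 0) (nat_lit 8907937355) (nat_lit 684) (nat_lit 29736576509) (nat_lit 76) (nat_lit 11643257119) (nat_lit 170) (nat_lit 5) (nat_lit 179) (nat_lit 5) (nat_lit 171) (nat_lit 5) (nat_lit 317) (nat_lit 305) (nat_lit 158)))) (XT.nd (nat_lit 156) (nat_lit 1064) (nat_lit 0) (XT.nd (nat_lit 78) (nat_lit 0) (nat_lit 0) (XT.lf (nat_lit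 0) (nat_lit 10252827707) (nat_lit 608) (nat_lit 5504079845) (nat_lit 684) (nat_lit 35948978142) (nat_lit 162) (nat_lit 5) (nat_lit 170) (nat_lit 5) (nat_lit 171) (nat_lit 5) (nat_lit 318) (nat_lit 305) (nat_lit 157)) (XT.lf (nat_lit 0) (nat_lit 23536208492) (nat_lit 684) (nat_lit 609970997) (nat_lit 76) (nat_lit 29031093721) (nat_lit 162) (nat_lit 5) (nat_lit 171) (nat_lit 5) (nat_lit 163) (nat_lit 5) (nat_lit 319) (nat_lit 305) (nat_lit 156))) (XT.nd (nat_lit 78) (nat_lit 532) (nat_lit 0) (XT.lf (nat_lit 0) (nat_lit 32275854816) (nat_lit 608) (nat_lit 11755565853) (nat_lit 76) (nat_lit 10673671390) (nat_lit 155) (nat_lit 5) (nat_lit 163) (nat_lit 5) (nat_lit 156) (nat_lit 5) (nat_lit 320) (nat_lit 305) (nat_lit 155)) (XT.lf (nat_lit 0) (nat_lit 32783971946) (nat_lit 532) (nat_lit 9231100307) (nat_lit 608) (nat_lit 14277355139) (nat_lit 148) (nat_lit 5) (nat_lit 155) (nat_lit 5) (nat_lit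 156) (nat_lit 5) (nat_lit 321) (nat_lit 305) (nat_lit 154)))))) (XT.nd (nat_lit 546) (nat_lit 1824) (nat_lit 0) (XT.nd (nat_lit 234) (nat_lit 1748) (nat_lit 0) (XT.nd (nat_lit 78) (nat_lit 608) (nat_lit 0) (XT.lf (nat_lit 0) (nat_lit 22003683925) (nat_lit 456) (nat_lit 30831297872) (nat_lit 532) (nat_lit 5106338814) (nat_lit 142) (nat_lit 5) (nat_lit 148) (nat_lit 5) (nat_lit 149) (nat_lit 5) (nat_lit 322) (nat_lit 305) (nat_lit 153)) (XT.nd (nat_lit 78) (nat_lit 0) (nat_lit 0) (XT.lf (nat_lit 0) (nat_lit 4928657032) (nat_lit 608) (nat_lit 49029953193) (nat_lit 76) (nat_lit 5697935893) (nat_lit 134) (nat_lit 5) (nat_lit 142) (nat_lit 5) (nat_lit 135) (nat_lit 5) (nat_lit 323) (nat_lit 305) (nat_lit 152)) (XT.lf (nat_lit 0) (nat_lit 16043226562) (nat_lit 608) (nat_lit 1545393138) (nat_lit 76) (nat_lit 43846896230) (nat_lit 134) (nat_lit 5) (nat_lit 142) (nat_lit 5) (nat_lit 135) (nat_lit 5)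 (nat_lit 324) (nat_lit 305) (nat_lit 151)))) (XT.nd (nat_lit 156) (nat_lit 836) (nat_lit 0) (XT.nd (nat_lit 78) (nat_lit 456) (nat_lit 0) (XT.lf (nat_lit 0) (nat_lit 28387630915) (nat_lit 532) (nat_lit 14219593446) (nat_lit 76) (nat_lit 20675989244) (nat_lit 128) (nat_lit 5) (nat_lit 135) (nat_lit 5) (nat_lit 129) (nat_lit 5) (nat_lit 325) (nat_lit 305) (nat_lit 150)) (XT.lf (nat_lit 0) (nat_lit 37565449100) (nat_lit 456) (nat_lit 4336345721) (nat_lit 532) (nat_lit 23304927601) (nat_lit 122) (nat_lit 5) (nat_lit 128) (nat_lit 5) (nat_lit 129) (nat_lit 5) (nat_lit 326) (nat_lit 305) (nat_lit 149))) (XT.nd (nat_lit 78) (nat_lit 456) (nat_lit 0) (XT.lf (nat_lit 0) (nat_lit 25157287791) (nat_lit 380) (nat_lit 31666549121) (nat_lit 456) (nat_lit 10380606994) (nat_lit 117) (nat_lit 5) (nat_lit 122) (nat_lit 5) (nat_lit 123) (nat_lit 5) (nat_lit 327) (nat_lit 305) (nat_lit 148)) (XT.lf (nat_lit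 0) (nat_lit 3653821701) (nat_lit 456) (nat_lit 57334082461) (nat_lit 76) (nat_lit 8297445369) (nat_lit 111) (nat_lit 5) (nat_lit 117) (nat_lit 5) (nat_lit 112) (nat_lit 5) (nat_lit 328) (nat_lit 305) (nat_lit 147))))) (XT.nd (nat_lit 234) (nat_lit 1064) (nat_lit 0) (XT.nd (nat_lit 78) (nat_lit 760) (nat_lit 0) (XT.lf (nat_lit 0) (nat_lit 18932068231) (nat_lit 456) (nat_lit 2360133497) (nat_lit 76) (nat_lit 50152313910) (nat_lit 111) (nat_lit 5) (nat_lit 117) (nat_lit 5) (nat_lit 112) (nat_lit 5) (nat_lit 329) (nat_lit 305) (nat_lit 146)) (XT.nd (nat_lit 78) (nat_lit 380) (nat_lit 0) (XT.lf (nat_lit 0) (nat_lit 35716467086) (nat_lit 456) (nat_lit 17434778816) (nat_lit 76) (nat_lit 20538128896) (nat_lit 106) (nat_lit 5) (nat_lit 112) (nat_lit 5) (nat_lit 107) (nat_lit 5) (nat_lit 330) (nat_lit 305) (nat_lit 145)) (XT.lf (nat_lit 0) (nat_lit 42413848303) (nat_lit 380) (nat_lit 11571590384) (nat_lit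 456) (nat_lit 22041679501) (nat_lit 101) (nat_lit 5) (nat_lit 106) (nat_lit 5) (nat_lit 107) (nat_lit 5) (nat_lit 331) (nat_lit 305) (nat_lit 144)))) (XT.nd (nat_lit 156) (nat_lit 304) (nat_lit 0) (XT.nd (nat_lit 78) (nat_lit 456) (nat_lit 0) (XT.lf (nat_lit 0) (nat_lit 27364369873) (nat_lit 304) (nat_lit 46554486245) (nat_lit 380) (nat_lit 4540364478) (nat_lit 97) (nat_lit 5) (nat_lit 101) (nat_lit 5) (nat_lit 102) (nat_lit 5) (nat_lit 332) (nat_lit 305) (nat_lit 143)) (XT.lf (nat_lit 0) (nat_lit 11050946781) (nat_lit 380) (nat_lit 3085851781) (nat_lit 456) (nat_lit 66855018008) (nat_lit 91) (nat_lit 5) (nat_lit 96) (nat_lit 5) (nat_lit 97) (nat_lit 5) (nat_lit 333) (nat_lit 305) (nat_lit 142))) (XT.nd (nat_lit 78) (nat_lit 304) (nat_lit 0) (XT.lf (nat_lit 0) (nat_lit 34593410630) (nat_lit 456) (nat_lit 6725827604) (nat_lit 76) (nat_lit 42302272264) (nat_lit 91) (nat_lit 5) (nat_lit 97)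 (nat_lit 5) (nat_lit 92) (nat_lit 5) (nat_lit 334) (nat_lit 305) (nat_lit 141)) (XT.lf (nat_lit 0) (nat_lit 56726482635) (nat_lit 380) (nat_lit 25600641253) (nat_lit 76) (nat_lit 4035957835) (nat_lit 87) (nat_lit 5) (nat_lit 92) (nat_lit 5) (nat_lit 88) (nat_lit 5) (nat_lit 335) (nat_lit 305) (nat_lit 140))))))))
noncomputable def xc114 : XT := (XT.nd (nat_lit 39078) (nat_lit 0) (nat_lit 1596) (XT.nd (nat_lit 1014) (nat_lit 380) (nat_lit 0) (XT.nd (nat_lit 468) (nat_lit 1216) (nat_lit 0) (XT.nd (nat_lit 234) (nat_lit 608) (nat_lit 0) (XT.nd (nat_lit 78) (nat_lit 684) (nat_lit 0) (XT.lf (nat_lit 0) (nat_lit 42944187866) (nat_lit 304) (nat_lit 37920280018) (nat_lit 380) (nat_lit 8350317249) (nat_lit 83) (nat_lit 5) (nat_lit 87) (nat_lit 5) (nat_lit 88) (nat_lit 5) (nat_lit 336) (nat_lit 305) (nat_lit 139)) (XT.nd (nat_lit 78) (nat_lit 304) (nat_lit 0) (XT.lf (nat_lit 0) (nat_lit 14308229566)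 (nat_lit 380) (nat_lit 68709436204) (nat_lit 76) (nat_lit 9169937469) (nat_lit 78) (nat_lit 5) (nat_lit 83) (nat_lit 5) (nat_lit 79) (nat_lit 5) (nat_lit 337) (nat_lit 305) (nat_lit 138)) (XT.lf (nat_lit 0) (nat_lit 1950802255) (nat_lit 304) (nat_lit 36858900247) (nat_lit 380) (nat_lit 56470399814) (nat_lit 74) (nat_lit 5) (nat_lit 78) (nat_lit 5) (nat_lit 79) (nat_lit 5) (nat_lit 338) (nat_lit 305) (nat_lit 137)))) (XT.nd (nat_lit 78) (nat_lit 608) (nat_lit 0) (XT.lf (nat_lit 0) (nat_lit 65360748604) (nat_lit 380) (nat_lit 21046736752) (nat_lit 76) (nat_lit 12095007190) (nat_lit 74) (nat_lit 5) (nat_lit 79) (nat_lit 5) (nat_lit 75) (nat_lit 5) (nat_lit 339) (nat_lit 305) (nat_lit 136)) (XT.nd (nat_lit 78) (nat_lit 380) (nat_lit 0) (XT.lf (nat_lit 0) (nat_lit 55560181549) (nat_lit 228) (nat_lit 38583948003) (nat_lit 304) (nat_lit 7714730387) (nat_lit 71) (nat_lit 5) (nat_lit 74) (nat_lit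 5) (nat_lit 75) (nat_lit 5) (nat_lit 340) (nat_lit 305) (nat_lit 135)) (XT.lf (nat_lit 0) (nat_lit 19252161373) (nat_lit 380) (nat_lit 73992086452) (nat_lit 76) (nat_lit 12114155451) (nat_lit 66) (nat_lit 5) (nat_lit 71) (nat_lit 5) (nat_lit 67) (nat_lit 5) (nat_lit 341) (nat_lit 305) (nat_lit 134))))) (XT.nd (nat_lit 234) (nat_lit 760) (nat_lit 0) (XT.nd (nat_lit 78) (nat_lit 228) (nat_lit 0) (XT.lf (nat_lit 0) (nat_lit 4476903864) (nat_lit 228) (nat_lit 43844966862) (nat_lit 304) (nat_lit 60681341779) (nat_lit 63) (nat_lit 5) (nat_lit 66) (nat_lit 5) (nat_lit 67) (nat_lit 5) (nat_lit 342) (nat_lit 305) (nat_lit 133)) (XT.nd (nat_lit 78) (nat_lit 228) (nat_lit 0) (XT.lf (nat_lit 0) (nat_lit 79690208238) (nat_lit 304) (nat_lit 24478380663) (nat_lit 76) (nat_lit 8636319961) (nat_lit 63) (nat_lit 5) (nat_lit 67) (nat_lit 5) (nat_lit 64) (nat_lit 5) (nat_lit 343) (nat_lit 305) (nat_lit 132))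 (XT.lf (nat_lit 0) (nat_lit 60304396143) (nat_lit 228) (nat_lit 53343628777) (nat_lit 304) (nat_lit 3118034146) (nat_lit 60) (nat_lit 5) (nat_lit 63) (nat_lit 5) (nat_lit 64) (nat_lit 5) (nat_lit 344) (nat_lit 305) (nat_lit 131)))) (XT.nd (nat_lit 156) (nat_lit 456) (nat_lit 0) (XT.nd (nat_lit 78) (nat_lit 0) (nat_lit 0) (XT.lf (nat_lit 0) (nat_lit 28367073023) (nat_lit 304) (nat_lit 91696110910) (nat_lit 76) (nat_lit 837628744) (nat_lit 56) (nat_lit 5) (nat_lit 60) (nat_lit 5) (nat_lit 57) (nat_lit 5) (nat_lit 345) (nat_lit 305) (nat_lit 130)) (XT.lf (nat_lit 0) (nat_lit 62486837484) (nat_lit 304) (nat_lit 5467952296) (nat_lit 76) (nat_lit 57252842202) (nat_lit 56) (nat_lit 5) (nat_lit 60) (nat_lit 5) (nat_lit 57) (nat_lit 5) (nat_lit 346) (nat_lit 305) (nat_lit 129))) (XT.nd (nat_lit 78) (nat_lit 228) (nat_lit 0) (XT.lf (nat_lit 0) (nat_lit 86763038905) (nat_lit 228) (nat_lit 12382523390)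 (nat_lit 304) (nat_lit 30559241548) (nat_lit 53) (nat_lit 5) (nat_lit 56) (nat_lit 5) (nat_lit 57) (nat_lit 5) (nat_lit 347) (nat_lit 305) (nat_lit 128)) (XT.lf (nat_lit 0) (nat_lit 4134042464) (nat_lit 228) (nat_lit 84615190769) (nat_lit 76) (nat_lit 45647086966) (nat_lit 50) (nat_lit 5) (nat_lit 53) (nat_lit 5) (nat_lit 51) (nat_lit 5) (nat_lit 348) (nat_lit 305) (nat_lit 127)))))) (XT.nd (nat_lit 37518) (nat_lit 0) (nat_lit 10868) (XT.nd (nat_lit 37284) (nat_lit 0) (nat_lit 10792) (XT.nd (nat_lit 78) (nat_lit 152) (nat_lit 0) (XT.lf (nat_lit 0) (nat_lit 8453955258) (nat_lit 228) (nat_lit 32133571990) (nat_lit 304) (nat_lit 98706082332) (nat_lit 47) (nat_lit 5) (nat_lit 50) (nat_lit 5) (nat_lit 51) (nat_lit 5) (nat_lit 349) (nat_lit 305) (nat_lit 126)) (XT.nd (nat_lit 78) (nat_lit 152) (nat_lit 0) (XT.lf (nat_lit 0) (nat_lit 80004928976) (nat_lit 304) (nat_lit 36737603348) (nat_lit 76)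 (nat_lit 27658994458) (nat_lit 47) (nat_lit 5) (nat_lit 51) (nat_lit 5) (nat_lit 48) (nat_lit 5) (nat_lit 350) (nat_lit 305) (nat_lit 125)) (XT.lf (nat_lit 0) (nat_lit 62972547946) (nat_lit 152) (nat_lit 59349393324) (nat_lit 228) (nat_lit 27415036961) (nat_lit 45) (nat_lit 5) (nat_lit 47) (nat_lit 5) (nat_lit 48) (nat_lit 5) (nat_lit 351) (nat_lit 305) (nat_lit 124)))) (XT.nd (nat_lit 78) (nat_lit 0) (nat_lit 0) (XT.lf (nat_lit 0) (nat_lit 3907902056) (nat_lit 0) (nat_lit 3907902056) (nat_lit 1140) (nat_lit 11505878187) (nat_lit 187) (nat_lit 5) (nat_lit 187) (nat_lit 3) (nat_lit 202) (nat_lit 3) (nat_lit 306) (nat_lit 306) (nat_lit 168)) (XT.nd (nat_lit 78) (nat_lit 0) (nat_lit 76) (XT.lf (nat_lit 0) (nat_lit 16297290773) (nat_lit 1140) (nat_lit 2253860698) (nat_lit 1216) (nat_lit 21049957806) (nat_lit 187) (nat_lit 5) (nat_lit 202) (nat_lit 3) (nat_lit 203) (nat_lit 5) (nat_lit 307) (nat_lit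 306) (nat_lit 167)) (XT.lf (nat_lit 0) (nat_lit 17446572807) (nat_lit 1140) (nat_lit 12483000919) (nat_lit 1216) (nat_lit 10663663933) (nat_lit 188) (nat_lit 5) (nat_lit 203) (nat_lit 5) (nat_lit 204) (nat_lit 5) (nat_lit 308) (nat_lit 306) (nat_lit 166))))) (XT.nd (nat_lit 234) (nat_lit 0) (nat_lit 228) (XT.nd (nat_lit 78) (nat_lit 0) (nat_lit 76) (XT.lf (nat_lit 76) (nat_lit 18577980525) (nat_lit 0) (nat_lit 460432873) (nat_lit 1216) (nat_lit 22585011877) (nat_lit 189) (nat_lit 5) (nat_lit 188) (nat_lit 5) (nat_lit 204) (nat_lit 5) (nat_lit 309) (nat_lit 306) (nat_lit 165)) (XT.nd (nat_lit 78) (nat_lit 0) (nat_lit 76) (XT.lf (nat_lit 76) (nat_lit 8623079364) (nat_lit 0) (nat_lit 12588474016) (nat_lit 1216) (nat_lit 21478523050) (nat_lit 190) (nat_lit 5) (nat_lit 189) (nat_lit 5) (nat_lit 205) (nat_lit 5) (nat_lit 310) (nat_lit 306) (nat_lit 164)) (XT.lf (nat_lit 0) (nat_lit 23910348476)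 (nat_lit 1140) (nat_lit 1632453092) (nat_lit 1216) (nat_lit 18254753758) (nat_lit 190) (nat_lit 5) (nat_lit 205) (nat_lit 5) (nat_lit 206) (nat_lit 5) (nat_lit 311) (nat_lit 306) (nat_lit 163)))) (XT.nd (nat_lit 156) (nat_lit 0) (nat_lit 76) (XT.nd (nat_lit 78) (nat_lit 0) (nat_lit 0) (XT.lf (nat_lit 0) (nat_lit 27239442572) (nat_lit 1140) (nat_lit 12065474631) (nat_lit 1216) (nat_lit 5640635066) (nat_lit 191) (nat_lit 5) (nat_lit 206) (nat_lit 5) (nat_lit 207) (nat_lit 5) (nat_lit 312) (nat_lit 306) (nat_lit 162)) (XT.lf (nat_lit 76) (nat_lit 23194034816) (nat_lit 0) (nat_lit 8035241564) (nat_lit 1216) (nat_lit 14906848776) (nat_lit 192) (nat_lit 5) (nat_lit 191) (nat_lit 5) (nat_lit 207) (nat_lit 5) (nat_lit 313) (nat_lit 306) (nat_lit 161))) (XT.nd (nat_lit 78) (nat_lit 0) (nat_lit 76) (XT.lf (nat_lit 76) (nat_lit 13099638132) (nat_lit 0) (nat_lit 22805390032) (nat_lit 1216) (nat_lit 11466610161)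 (nat_lit 193) (nat_lit 5) (nat_lit 192) (nat_lit 5) (nat_lit 208) (nat_lit 5) (nat_lit 314) (nat_lit 306) (nat_lit 160)) (XT.lf (nat_lit 76) (nat_lit 2631371845) (nat_lit 0) (nat_lit 38619940434) (nat_lit 1216) (nat_lit 7404516748) (nat_lit 194) (nat_lit 5) (nat_lit 193) (nat_lit 5) (nat_lit 209) (nat_lit 5) (nat_lit 315) (nat_lit 306) (nat_lit 159))))))) (XT.nd (nat_lit 1014) (nat_lit 3876) (nat_lit 0) (XT.nd (nat_lit 468) (nat_lit 2888) (nat_lit 0) (XT.nd (nat_lit 234) (nat_lit 1140) (nat_lit 0) (XT.nd (nat_lit 78) (nat_lit 1748) (nat_lit 0) (XT.lf (nat_lit 76) (nat_lit 41858842639) (nat_lit 0) (nat_lit 5583757191) (nat_lit 1216) (nat_lit 2544302771) (nat_lit 194) (nat_lit 5) (nat_lit 193) (nat_lit 5) (nat_lit 209) (nat_lit 5) (nat_lit 316) (nat_lit 306) (nat_lit 158)) (XT.nd (nat_lit 78) (nat_lit 608) (nat_lit 0) (XT.lf (nat_lit 0) (nat_lit 3099310705) (nat_lit 1216) (nat_lit 19391920944)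 (nat_lit 76) (nat_lit 28874854302) (nat_lit 178) (nat_lit 5) (nat_lit 194) (nat_lit 5) (nat_lit 179) (nat_lit 5) (nat_lit 317) (nat_lit 306) (nat_lit 157)) (XT.lf (nat_lit 0) (nat_lit 9440148839) (nat_lit 684) (nat_lit 31143498568) (nat_lit 76) (nat_lit 12215798942) (nat_lit 170) (nat_lit 5) (nat_lit 179) (nat_lit 5) (nat_lit 171) (nat_lit 5) (nat_lit 318) (nat_lit 306) (nat_lit 156)))) (XT.nd (nat_lit 78) (nat_lit 532) (nat_lit 0) (XT.lf (nat_lit 0) (nat_lit 10843085346) (nat_lit 608) (nat_lit 5785094266) (nat_lit 684) (nat_lit 37660394001) (nat_lit 162) (nat_lit 5) (nat_lit 170) (nat_lit 5) (nat_lit 171) (nat_lit 5) (nat_lit 319) (nat_lit 306) (nat_lit 155)) (XT.nd (nat_lit 78) (nat_lit 532) (nat_lit 0) (XT.lf (nat_lit 0) (nat_lit 24792419706) (nat_lit 684) (nat_lit 564013858) (nat_lit 76) (nat_lit 30477222649) (nat_lit 162) (nat_lit 5) (nat_lit 171) (nat_lit 5) (nat_lit 163) (nat_lit 5)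 (nat_lit 320) (nat_lit 306) (nat_lit 154)) (XT.lf (nat_lit 0) (nat_lit 33965961334) (nat_lit 608) (nat_lit 12266676204) (nat_lit 76) (nat_lit 11205325774) (nat_lit 155) (nat_lit 5) (nat_lit 163) (nat_lit 5) (nat_lit 156) (nat_lit 5) (nat_lit 321) (nat_lit 306) (nat_lit 153))))) (XT.nd (nat_lit 234) (nat_lit 1292) (nat_lit 0) (XT.nd (nat_lit 78) (nat_lit 1064) (nat_lit 0) (XT.lf (nat_lit 0) (nat_lit 34497640814) (nat_lit 532) (nat_lit 9691580695) (nat_lit 608) (nat_lit 14915535922) (nat_lit 148) (nat_lit 5) (nat_lit 155) (nat_lit 5) (nat_lit 156) (nat_lit 5) (nat_lit 322) (nat_lit 306) (nat_lit 152)) (XT.nd (nat_lit 78) (nat_lit 608) (nat_lit 0) (XT.lf (nat_lit 0) (nat_lit 23178419334) (nat_lit 456) (nat_lit 32368938635) (nat_lit 532) (nat_lit 5288824658) (nat_lit 142) (nat_lit 5) (nat_lit 148) (nat_lit 5) (nat_lit 149) (nat_lit 5) (nat_lit 323) (nat_lit 306) (nat_lit 151)) (XT.lf (nat_lit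 0) (nat_lit 5243859001) (nat_lit 608) (nat_lit 51405485016) (nat_lit 76) (nat_lit 5987887551) (nat_lit 134) (nat_lit 5) (nat_lit 142) (nat_lit 5) (nat_lit 135) (nat_lit 5) (nat_lit 324) (nat_lit 306) (nat_lit 150)))) (XT.nd (nat_lit 156) (nat_lit 836) (nat_lit 0) (XT.nd (nat_lit 78) (nat_lit 456) (nat_lit 0) (XT.lf (nat_lit 0) (nat_lit 16910882288) (nat_lit 608) (nat_lit 1550314379) (nat_lit 76) (nat_lit 46044055198) (nat_lit 134) (nat_lit 5) (nat_lit 142) (nat_lit 5) (nat_lit 135) (nat_lit 5) (nat_lit 325) (nat_lit 306) (nat_lit 149)) (XT.lf (nat_lit 0) (nat_lit 29870133036) (nat_lit 532) (nat_lit 14858405000) (nat_lit 76) (nat_lit 21716871175) (nat_lit 128) (nat_lit 5) (nat_lit 135) (nat_lit 5) (nat_lit 129) (nat_lit 5) (nat_lit 326) (nat_lit 306) (nat_lit 148))) (XT.nd (nat_lit 78) (nat_lit 380) (nat_lit 0) (XT.lf (nat_lit 0) (nat_lit 39513820990) (nat_lit 456) (nat_lit 4543852245) (nat_lit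 532) (nat_lit 24407493594) (nat_lit 122) (nat_lit 5) (nat_lit 128) (nat_lit 5) (nat_lit 129) (nat_lit 5) (nat_lit 327) (nat_lit 306) (nat_lit 147)) (XT.lf (nat_lit 0) (nat_lit 26484992782) (nat_lit 380) (nat_lit 33238686537) (nat_lit 456) (nat_lit 10839162450) (nat_lit 117) (nat_lit 5) (nat_lit 122) (nat_lit 5) (nat_lit 123) (nat_lit 5) (nat_lit 328) (nat_lit 306) (nat_lit 146)))))) (XT.nd (nat_lit 546) (nat_lit 1900) (nat_lit 0) (XT.nd (nat_lit 234) (nat_lit 1140) (nat_lit 0) (XT.nd (nat_lit 78) (nat_lit 380) (nat_lit 0) (XT.lf (nat_lit 0) (nat_lit 3893762243) (nat_lit 456) (nat_lit 60130081088) (nat_lit 76) (nat_lit 8723996263) (nat_lit 111) (nat_lit 5) (nat_lit 117) (nat_lit 5) (nat_lit 112) (nat_lit 5) (nat_lit 329) (nat_lit 306) (nat_lit 145)) (XT.nd (nat_lit 78) (nat_lit 380) (nat_lit 0) (XT.lf (nat_lit 0) (nat_lit 19933194934) (nat_lit 456) (nat_lit 2410801604) (nat_lit 76) (nat_lit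 52671052106) (nat_lit 111) (nat_lit 5) (nat_lit 117) (nat_lit 5) (nat_lit 112) (nat_lit 5) (nat_lit 330) (nat_lit 306) (nat_lit 144)) (XT.lf (nat_lit 0) (nat_lit 37554969678) (nat_lit 456) (nat_lit 18239601954) (nat_lit 76) (nat_lit 21577637171) (nat_lit 106) (nat_lit 5) (nat_lit 112) (nat_lit 5) (nat_lit 107) (nat_lit 5) (nat_lit 331) (nat_lit 306) (nat_lit 143)))) (XT.nd (nat_lit 156) (nat_lit 456) (nat_lit 0) (XT.nd (nat_lit 78) (nat_lit 304) (nat_lit 0) (XT.lf (nat_lit 0) (nat_lit 44599538393) (nat_lit 380) (nat_lit 12135967728) (nat_lit 456) (nat_lit 23091392342) (nat_lit 101) (nat_lit 5) (nat_lit 106) (nat_lit 5) (nat_lit 107) (nat_lit 5) (nat_lit 332) (nat_lit 306) (nat_lit 142)) (XT.lf (nat_lit 0) (nat_lit 28797120759) (nat_lit 304) (nat_lit 48866805176) (nat_lit 380) (nat_lit 4716732577) (nat_lit 97) (nat_lit 5) (nat_lit 101) (nat_lit 5) (nat_lit 102) (nat_lit 5) (nat_lit 333) (nat_lit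 306) (nat_lit 141))) (XT.nd (nat_lit 78) (nat_lit 0) (nat_lit 0) (XT.lf (nat_lit 0) (nat_lit 11667183235) (nat_lit 380) (nat_lit 3224364386) (nat_lit 456) (nat_lit 70148376914) (nat_lit 91) (nat_lit 5) (nat_lit 96) (nat_lit 5) (nat_lit 97) (nat_lit 5) (nat_lit 334) (nat_lit 306) (nat_lit 140)) (XT.lf (nat_lit 0) (nat_lit 36368853369) (nat_lit 456) (nat_lit 7000194897) (nat_lit 76) (nat_lit 44432121171) (nat_lit 91) (nat_lit 5) (nat_lit 97) (nat_lit 5) (nat_lit 92) (nat_lit 5) (nat_lit 335) (nat_lit 306) (nat_lit 139))))) (XT.nd (nat_lit 234) (nat_lit 912) (nat_lit 0) (XT.nd (nat_lit 78) (nat_lit 684) (nat_lit 0) (XT.lf (nat_lit 0) (nat_lit 59607131128) (nat_lit 380) (nat_lit 26819311390) (nat_lit 76) (nat_lit 4253422210) (nat_lit 87) (nat_lit 5) (nat_lit 92) (nat_lit 5) (nat_lit 88) (nat_lit 5) (nat_lit 336) (nat_lit 306) (nat_lit 138)) (XT.nd (nat_lit 78) (nat_lit 380) (nat_lit 0) (XT.lf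 (nat_lit 0) (nat_lit 45151000258) (nat_lit 304) (nat_lit 39799477639) (nat_lit 380) (nat_lit 8723723513) (nat_lit 83) (nat_lit 5) (nat_lit 87) (nat_lit 5) (nat_lit 88) (nat_lit 5) (nat_lit 337) (nat_lit 306) (nat_lit 137)) (XT.lf (nat_lit 0) (nat_lit 15065558890) (nat_lit 380) (nat_lit 72085014821) (nat_lit 76) (nat_lit 9645115741) (nat_lit 78) (nat_lit 5) (nat_lit 83) (nat_lit 5) (nat_lit 79) (nat_lit 5) (nat_lit 338) (nat_lit 306) (nat_lit 136)))) (XT.nd (nat_lit 156) (nat_lit 608) (nat_lit 0) (XT.nd (nat_lit 78) (nat_lit 0) (nat_lit 0) (XT.lf (nat_lit 0) (nat_lit 2106518734) (nat_lit 304) (nat_lit 38684149878) (nat_lit 380) (nat_lit 59252189711) (nat_lit 74) (nat_lit 5) (nat_lit 78) (nat_lit 5) (nat_lit 79) (nat_lit 5) (nat_lit 339) (nat_lit 306) (nat_lit 135)) (XT.lf (nat_lit 0) (nat_lit 68667501351) (nat_lit 380) (nat_lit 22042639898) (nat_lit 76) (nat_lit 12716281436) (nat_lit 74) (nat_lit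 5) (nat_lit 79) (nat_lit 5) (nat_lit 75) (nat_lit 5) (nat_lit 340) (nat_lit 306) (nat_lit 134))) (XT.nd (nat_lit 78) (nat_lit 380) (nat_lit 0) (XT.lf (nat_lit 0) (nat_lit 58393006658) (nat_lit 228) (nat_lit 40495728027) (nat_lit 304) (nat_lit 8061914835) (nat_lit 71) (nat_lit 5) (nat_lit 74) (nat_lit 5) (nat_lit 75) (nat_lit 5) (nat_lit 341) (nat_lit 306) (nat_lit 133)) (XT.lf (nat_lit 0) (nat_lit 20251456452) (nat_lit 380) (nat_lit 77636729079) (nat_lit 76) (nat_lit 12737008213) (nat_lit 66) (nat_lit 5) (nat_lit 71) (nat_lit 5) (nat_lit 67) (nat_lit 5) (nat_lit 342) (nat_lit 306) (nat_lit 132))))))))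
noncomputable def xc115 : XT := (XT.nd (nat_lit 39234) (nat_lit 0) (nat_lit 228) (XT.nd (nat_lit 38220) (nat_lit 0) (nat_lit 7220) (XT.nd (nat_lit 468) (nat_lit 456) (nat_lit 0) (XT.nd (nat_lit 234) (nat_lit 532) (nat_lit 0) (XT.nd (nat_lit 78) (nat_lit 228) (nat_lit 0) (XT.lf (nat_lit 0) (nat_lit 4754135286) (nat_lit 228) (nat_lit 46019282167) (nat_lit 304) (nat_lit 63678864382) (nat_lit 63) (nat_lit 5) (nat_lit 66) (nat_lit 5) (nat_lit 67) (nat_lit 5) (nat_lit 343) (nat_lit 306) (nat_lit 131)) (XT.nd (nat_lit 78) (nat_lit 228) (nat_lit 0) (XT.lf (nat_lit 0) (nat_lit 83708647768) (nat_lit 304) (nat_lit 25650580514) (nat_lit 76) (nat_lit 9084881768) (nat_lit 63) (nat_lit 5) (nat_lit 67) (nat_lit 5) (nat_lit 64) (nat_lit 5) (nat_lit 344) (nat_lit 306) (nat_lit 130)) (XT.lf (nat_lit 0) (nat_lit 63369852613) (nat_lit 228) (nat_lit 55993369905) (nat_lit 304) (nat_lit 3240130486) (nat_lit 60)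 (nat_lit 5) (nat_lit 63) (nat_lit 5) (nat_lit 64) (nat_lit 5) (nat_lit 345) (nat_lit 306) (nat_lit 129)))) (XT.nd (nat_lit 78) (nat_lit 228) (nat_lit 0) (XT.lf (nat_lit 0) (nat_lit 29817636896) (nat_lit 304) (nat_lit 96230638288) (nat_lit 76) (nat_lit 896588590) (nat_lit 56) (nat_lit 5) (nat_lit 60) (nat_lit 5) (nat_lit 57) (nat_lit 5) (nat_lit 346) (nat_lit 306) (nat_lit 128)) (XT.nd (nat_lit 78) (nat_lit 228) (nat_lit 0) (XT.lf (nat_lit 0) (nat_lit 65641855759) (nat_lit 304) (nat_lit 5693465942) (nat_lit 76) (nat_lit 60131749463) (nat_lit 56) (nat_lit 5) (nat_lit 60) (nat_lit 5) (nat_lit 57) (nat_lit 5) (nat_lit 347) (nat_lit 306) (nat_lit 127)) (XT.lf (nat_lit 0) (nat_lit 91147702235) (nat_lit 228) (nat_lit 12984800891) (nat_lit 304) (nat_lit 32056629957) (nat_lit 53) (nat_lit 5) (nat_lit 56) (nat_lit 5) (nat_lit 57) (nat_lit 5) (nat_lit 348) (nat_lit 306) (nat_lit 126))))) (XT.nd (nat_lit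 37440) (nat_lit 0) (nat_lit 10640) (XT.nd (nat_lit 78) (nat_lit 228) (nat_lit 0) (XT.lf (nat_lit 0) (nat_lit 4369895592) (nat_lit 228) (nat_lit 88799444993) (nat_lit 76) (nat_lit 47945901611) (nat_lit 50) (nat_lit 5) (nat_lit 53) (nat_lit 5) (nat_lit 51) (nat_lit 5) (nat_lit 349) (nat_lit 306) (nat_lit 125)) (XT.nd (nat_lit 37284) (nat_lit 0) (nat_lit 10640) (XT.lf (nat_lit 0) (nat_lit 8921825270) (nat_lit 228) (nat_lit 33723275425) (nat_lit 304) (nat_lit 103612324896) (nat_lit 47) (nat_lit 5) (nat_lit 50) (nat_lit 5) (nat_lit 51) (nat_lit 5) (nat_lit 350) (nat_lit 306) (nat_lit 124)) (XT.lf (nat_lit 0) (nat_lit 4137022366) (nat_lit 0) (nat_lit 4137022366) (nat_lit 1140) (nat_lit 12011606949) (nat_lit 187) (nat_lit 5) (nat_lit 187) (nat_lit 3) (nat_lit 202) (nat_lit 3) (nat_lit 307) (nat_lit 307) (nat_lit 166)))) (XT.nd (nat_lit 156) (nat_lit 0) (nat_lit 76) (XT.nd (nat_lit 78) (nat_lit 0)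 (nat_lit 76) (XT.lf (nat_lit 0) (nat_lit 17240014789) (nat_lit 1140) (nat_lit 2297669680) (nat_lit 1216) (nat_lit 22039470732) (nat_lit 187) (nat_lit 5) (nat_lit 202) (nat_lit 3) (nat_lit 203) (nat_lit 5) (nat_lit 308) (nat_lit 307) (nat_lit 165)) (XT.lf (nat_lit 0) (nat_lit 18440782009) (nat_lit 1140) (nat_lit 13035870010) (nat_lit 1216) (nat_lit 11142425624) (nat_lit 188) (nat_lit 5) (nat_lit 203) (nat_lit 5) (nat_lit 204) (nat_lit 5) (nat_lit 309) (nat_lit 307) (nat_lit 164))) (XT.nd (nat_lit 78) (nat_lit 0) (nat_lit 76) (XT.lf (nat_lit 76) (nat_lit 19576117252) (nat_lit 0) (nat_lit 530959096) (nat_lit 1216) (nat_lit 23593860320) (nat_lit 189) (nat_lit 5) (nat_lit 188) (nat_lit 5) (nat_lit 204) (nat_lit 5) (nat_lit 310) (nat_lit 307) (nat_lit 163)) (XT.lf (nat_lit 76) (nat_lit 9125484863) (nat_lit 0) (nat_lit 13258079325) (nat_lit 1216) (nat_lit 22437522972) (nat_lit 190) (nat_lit 5) (nat_lit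 189) (nat_lit 5) (nat_lit 205) (nat_lit 5) (nat_lit 311) (nat_lit 307) (nat_lit 162)))))) (XT.nd (nat_lit 468) (nat_lit 3648) (nat_lit 0) (XT.nd (nat_lit 234) (nat_lit 0) (nat_lit 152) (XT.nd (nat_lit 78) (nat_lit 0) (nat_lit 76) (XT.lf (nat_lit 0) (nat_lit 25211624841) (nat_lit 1140) (nat_lit 1642522535) (nat_lit 1216) (nat_lit 19129969998) (nat_lit 190) (nat_lit 5) (nat_lit 205) (nat_lit 5) (nat_lit 206) (nat_lit 5) (nat_lit 312) (nat_lit 307) (nat_lit 161)) (XT.nd (nat_lit 78) (nat_lit 0) (nat_lit 0) (XT.lf (nat_lit 0) (nat_lit 28702499065) (nat_lit 1140) (nat_lit 12595761806) (nat_lit 1216) (nat_lit 5891400337) (nat_lit 191) (nat_lit 5) (nat_lit 206) (nat_lit 5) (nat_lit 207) (nat_lit 5) (nat_lit 313) (nat_lit 307) (nat_lit 160)) (XT.lf (nat_lit 76) (nat_lit 24424630968) (nat_lit 0) (nat_lit 8463061534) (nat_lit 1216) (nat_lit 15552200682) (nat_lit 192) (nat_lit 5) (nat_lit 191) (nat_lit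 5) (nat_lit 207) (nat_lit 5) (nat_lit 314) (nat_lit 307) (nat_lit 159)))) (XT.nd (nat_lit 78) (nat_lit 0) (nat_lit 76) (XT.lf (nat_lit 76) (nat_lit 13826676719) (nat_lit 0) (nat_lit 23966392477) (nat_lit 1216) (nat_lit 11944243871) (nat_lit 193) (nat_lit 5) (nat_lit 192) (nat_lit 5) (nat_lit 208) (nat_lit 5) (nat_lit 315) (nat_lit 307) (nat_lit 158)) (XT.nd (nat_lit 78) (nat_lit 0) (nat_lit 0) (XT.lf (nat_lit 76) (nat_lit 2835949053) (nat_lit 0) (nat_lit 40566811907) (nat_lit 1216) (nat_lit 7683075421) (nat_lit 194) (nat_lit 5) (nat_lit 193) (nat_lit 5) (nat_lit 209) (nat_lit 5) (nat_lit 316) (nat_lit 307) (nat_lit 157)) (XT.lf (nat_lit 76) (nat_lit 44021316786) (nat_lit 0) (nat_lit 5878063576) (nat_lit 1216) (nat_lit 2584215849) (nat_lit 194) (nat_lit 5) (nat_lit 193) (nat_lit 5) (nat_lit 209) (nat_lit 5) (nat_lit 317) (nat_lit 307) (nat_lit 156))))) (XT.nd (nat_lit 234) (nat_lit 1520) (nat_lit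 0) (XT.nd (nat_lit 78) (nat_lit 1216) (nat_lit 0) (XT.lf (nat_lit 0) (nat_lit 3336340853) (nat_lit 1216) (nat_lit 20289524609) (nat_lit 76) (nat_lit 30305959285) (nat_lit 178) (nat_lit 5) (nat_lit 194) (nat_lit 5) (nat_lit 179) (nat_lit 5) (nat_lit 318) (nat_lit 307) (nat_lit 155)) (XT.nd (nat_lit 78) (nat_lit 608) (nat_lit 0) (XT.lf (nat_lit 0) (nat_lit 9990899698) (nat_lit 684) (nat_lit 32628195704) (nat_lit 76) (nat_lit 12817862330) (nat_lit 170) (nat_lit 5) (nat_lit 179) (nat_lit 5) (nat_lit 171) (nat_lit 5) (nat_lit 319) (nat_lit 307) (nat_lit 154)) (XT.lf (nat_lit 0) (nat_lit 11455639845) (nat_lit 608) (nat_lit 6079619209) (nat_lit 684) (nat_lit 39465379191) (nat_lit 162) (nat_lit 5) (nat_lit 170) (nat_lit 5) (nat_lit 171) (nat_lit 5) (nat_lit 320) (nat_lit 307) (nat_lit 153)))) (XT.nd (nat_lit 156) (nat_lit 988) (nat_lit 0) (XT.nd (nat_lit 78) (nat_lit 532) (nat_lit 0) (XT.lf (nat_lit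 0) (nat_lit 26104059549) (nat_lit 684) (nat_lit 522866988) (nat_lit 76) (nat_lit 31996162460) (nat_lit 162) (nat_lit 5) (nat_lit 171) (nat_lit 5) (nat_lit 163) (nat_lit 5) (nat_lit 321) (nat_lit 307) (nat_lit 152)) (XT.lf (nat_lit 0) (nat_lit 35733478247) (nat_lit 608) (nat_lit 12810469932) (nat_lit 76) (nat_lit 11763751531) (nat_lit 155) (nat_lit 5) (nat_lit 163) (nat_lit 5) (nat_lit 156) (nat_lit 5) (nat_lit 322) (nat_lit 307) (nat_lit 151))) (XT.nd (nat_lit 78) (nat_lit 456) (nat_lit 0) (XT.lf (nat_lit 0) (nat_lit 36290069585) (nat_lit 532) (nat_lit 10175185010) (nat_lit 608) (nat_lit 15592662402) (nat_lit 148) (nat_lit 5) (nat_lit 155) (nat_lit 5) (nat_lit 156) (nat_lit 5) (nat_lit 323) (nat_lit 307) (nat_lit 150)) (XT.lf (nat_lit 0) (nat_lit 24404960448) (nat_lit 456) (nat_lit 33983826264) (nat_lit 532) (nat_lit 5487205939) (nat_lit 142) (nat_lit 5) (nat_lit 148) (nat_lit 5) (nat_lit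 149) (nat_lit 5) (nat_lit 324) (nat_lit 307) (nat_lit 149))))))) (XT.nd (nat_lit 1014) (nat_lit 2812) (nat_lit 0) (XT.nd (nat_lit 468) (nat_lit 1824) (nat_lit 0) (XT.nd (nat_lit 234) (nat_lit 1292) (nat_lit 0) (XT.nd (nat_lit 78) (nat_lit 456) (nat_lit 0) (XT.lf (nat_lit 0) (nat_lit 5568427568) (nat_lit 608) (nat_lit 53906856014) (nat_lit 76) (nat_lit 6291866839) (nat_lit 134) (nat_lit 5) (nat_lit 142) (nat_lit 5) (nat_lit 135) (nat_lit 5) (nat_lit 325) (nat_lit 307) (nat_lit 148)) (XT.nd (nat_lit 78) (nat_lit 456) (nat_lit 0) (XT.lf (nat_lit 0) (nat_lit 17815831752) (nat_lit 608) (nat_lit 1562207952) (nat_lit 76) (nat_lit 48350624539) (nat_lit 134) (nat_lit 5) (nat_lit 142) (nat_lit 5) (nat_lit 135) (nat_lit 5) (nat_lit 326) (nat_lit 307) (nat_lit 147)) (XT.lf (nat_lit 0) (nat_lit 31420891910) (nat_lit 532) (nat_lit 15535866639) (nat_lit 76) (nat_lit 22809138742) (nat_lit 128) (nat_lit 5)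 (nat_lit 135) (nat_lit 5) (nat_lit 129) (nat_lit 5) (nat_lit 327) (nat_lit 307) (nat_lit 146)))) (XT.nd (nat_lit 78) (nat_lit 836) (nat_lit 0) (XT.lf (nat_lit 0) (nat_lit 41553094292) (nat_lit 456) (nat_lit 4762599722) (nat_lit 532) (nat_lit 25571015315) (nat_lit 122) (nat_lit 5) (nat_lit 128) (nat_lit 5) (nat_lit 129) (nat_lit 5) (nat_lit 328) (nat_lit 307) (nat_lit 145)) (XT.nd (nat_lit 78) (nat_lit 456) (nat_lit 0) (XT.lf (nat_lit 0) (nat_lit 27872589906) (nat_lit 380) (nat_lit 34890471169) (nat_lit 456) (nat_lit 11326268062) (nat_lit 117) (nat_lit 5) (nat_lit 122) (nat_lit 5) (nat_lit 123) (nat_lit 5) (nat_lit 329) (nat_lit 307) (nat_lit 144)) (XT.lf (nat_lit 0) (nat_lit 4140377300) (nat_lit 456) (nat_lit 63072453174) (nat_lit 76) (nat_lit 9170788934) (nat_lit 111) (nat_lit 5) (nat_lit 117) (nat_lit 5) (nat_lit 112) (nat_lit 5) (nat_lit 330) (nat_lit 307) (nat_lit 143))))) (XT.nd (nat_lit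 234) (nat_lit 1064) (nat_lit 0) (XT.nd (nat_lit 78) (nat_lit 760) (nat_lit 0) (XT.lf (nat_lit 0) (nat_lit 20979308915) (nat_lit 456) (nat_lit 2470263618) (nat_lit 76) (nat_lit 55314693148) (nat_lit 111) (nat_lit 5) (nat_lit 117) (nat_lit 5) (nat_lit 112) (nat_lit 5) (nat_lit 331) (nat_lit 307) (nat_lit 142)) (XT.nd (nat_lit 78) (nat_lit 380) (nat_lit 0) (XT.lf (nat_lit 0) (nat_lit 39480499783) (nat_lit 456) (nat_lit 19090887446) (nat_lit 76) (nat_lit 22667949261) (nat_lit 106) (nat_lit 5) (nat_lit 112) (nat_lit 5) (nat_lit 107) (nat_lit 5) (nat_lit 332) (nat_lit 307) (nat_lit 141)) (XT.lf (nat_lit 0) (nat_lit 46888470119) (nat_lit 380) (nat_lit 12729884323) (nat_lit 456) (nat_lit 24198459796) (nat_lit 101) (nat_lit 5) (nat_lit 106) (nat_lit 5) (nat_lit 107) (nat_lit 5) (nat_lit 333) (nat_lit 307) (nat_lit 140)))) (XT.nd (nat_lit 156) (nat_lit 304) (nat_lit 0) (XT.nd (nat_lit 78) (nat_lit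 456) (nat_lit 0) (XT.lf (nat_lit 0) (nat_lit 30295509578) (nat_lit 304) (nat_lit 51296172299) (nat_lit 380) (nat_lit 4906628050) (nat_lit 97) (nat_lit 5) (nat_lit 101) (nat_lit 5) (nat_lit 102) (nat_lit 5) (nat_lit 334) (nat_lit 307) (nat_lit 139)) (XT.lf (nat_lit 0) (nat_lit 12308310302) (nat_lit 380) (nat_lit 3371269695) (nat_lit 456) (nat_lit 73610995765) (nat_lit 91) (nat_lit 5) (nat_lit 96) (nat_lit 5) (nat_lit 97) (nat_lit 5) (nat_lit 335) (nat_lit 307) (nat_lit 138))) (XT.nd (nat_lit 78) (nat_lit 304) (nat_lit 0) (XT.lf (nat_lit 0) (nat_lit 38228812780) (nat_lit 456) (nat_lit 7294037670) (nat_lit 76) (nat_lit 46667092576) (nat_lit 91) (nat_lit 5) (nat_lit 97) (nat_lit 5) (nat_lit 92) (nat_lit 5) (nat_lit 336) (nat_lit 307) (nat_lit 137)) (XT.lf (nat_lit 0) (nat_lit 62627691187) (nat_lit 380) (nat_lit 28104619884) (nat_lit 76) (nat_lit 4480303282) (nat_lit 87) (nat_lit 5) (nat_lit 92)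 (nat_lit 5) (nat_lit 88) (nat_lit 5) (nat_lit 337) (nat_lit 307) (nat_lit 136)))))) (XT.nd (nat_lit 546) (nat_lit 988) (nat_lit 0) (XT.nd (nat_lit 234) (nat_lit 836) (nat_lit 0) (XT.nd (nat_lit 78) (nat_lit 684) (nat_lit 0) (XT.lf (nat_lit 0) (nat_lit 47462611947) (nat_lit 304) (nat_lit 41774198568) (nat_lit 380) (nat_lit 9119900983) (nat_lit 83) (nat_lit 5) (nat_lit 87) (nat_lit 5) (nat_lit 88) (nat_lit 5) (nat_lit 338) (nat_lit 307) (nat_lit 135)) (XT.nd (nat_lit 78) (nat_lit 304) (nat_lit 0) (XT.lf (nat_lit 0) (nat_lit 15856857556) (nat_lit 380) (nat_lit 75634940671) (nat_lit 76) (nat_lit 10142502048) (nat_lit 78) (nat_lit 5) (nat_lit 83) (nat_lit 5) (nat_lit 79) (nat_lit 5) (nat_lit 339) (nat_lit 307) (nat_lit 134)) (XT.lf (nat_lit 0) (nat_lit 2264612350) (nat_lit 304) (nat_lit 40602307138) (nat_lit 380) (nat_lit 62176948772) (nat_lit 74) (nat_lit 5) (nat_lit 78) (nat_lit 5) (nat_lit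 79) (nat_lit 5) (nat_lit 340) (nat_lit 307) (nat_lit 133)))) (XT.nd (nat_lit 156) (nat_lit 608) (nat_lit 0) (XT.nd (nat_lit 78) (nat_lit 228) (nat_lit 0) (XT.lf (nat_lit 0) (nat_lit 72135992353) (nat_lit 380) (nat_lit 23093584870) (nat_lit 76) (nat_lit 13367083161) (nat_lit 74) (nat_lit 5) (nat_lit 79) (nat_lit 5) (nat_lit 75) (nat_lit 5) (nat_lit 341) (nat_lit 307) (nat_lit 132)) (XT.lf (nat_lit 0) (nat_lit 61362376748) (nat_lit 228) (nat_lit 42504716356) (nat_lit 304) (nat_lit 8430042711) (nat_lit 71) (nat_lit 5) (nat_lit 74) (nat_lit 5) (nat_lit 75) (nat_lit 5) (nat_lit 342) (nat_lit 307) (nat_lit 131))) (XT.nd (nat_lit 78) (nat_lit 228) (nat_lit 0) (XT.lf (nat_lit 0) (nat_lit 21297305474) (nat_lit 380) (nat_lit 81468713656) (nat_lit 76) (nat_lit 13389409635) (nat_lit 66) (nat_lit 5) (nat_lit 71) (nat_lit 5) (nat_lit 67) (nat_lit 5) (nat_lit 343) (nat_lit 307) (nat_lit 130)) (XT.lf (nat_lit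 0) (nat_lit 5040264934) (nat_lit 228) (nat_lit 48303980481) (nat_lit 304) (nat_lit 66829660674) (nat_lit 63) (nat_lit 5) (nat_lit 66) (nat_lit 5) (nat_lit 67) (nat_lit 5) (nat_lit 344) (nat_lit 307) (nat_lit 129))))) (XT.nd (nat_lit 234) (nat_lit 456) (nat_lit 0) (XT.nd (nat_lit 78) (nat_lit 532) (nat_lit 0) (XT.lf (nat_lit 0) (nat_lit 87924854867) (nat_lit 304) (nat_lit 26886198716) (nat_lit 76) (nat_lit 9554314800) (nat_lit 63) (nat_lit 5) (nat_lit 67) (nat_lit 5) (nat_lit 64) (nat_lit 5) (nat_lit 345) (nat_lit 307) (nat_lit 128)) (XT.nd (nat_lit 78) (nat_lit 304) (nat_lit 0) (XT.lf (nat_lit 0) (nat_lit 66583911378) (nat_lit 228) (nat_lit 58777219524) (nat_lit 304) (nat_lit 3371474546) (nat_lit 60) (nat_lit 5) (nat_lit 63) (nat_lit 5) (nat_lit 64) (nat_lit 5) (nat_lit 346) (nat_lit 307) (nat_lit 127)) (XT.lf (nat_lit 0) (nat_lit 31337734361) (nat_lit 304) (nat_lit 100996566422) (nat_lit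 76) (nat_lit 956908639) (nat_lit 56) (nat_lit 5) (nat_lit 60) (nat_lit 5) (nat_lit 57) (nat_lit 5) (nat_lit 347) (nat_lit 307) (nat_lit 126)))) (XT.nd (nat_lit 156) (nat_lit 228) (nat_lit 0) (XT.nd (nat_lit 78) (nat_lit 228) (nat_lit 0) (XT.lf (nat_lit 0) (nat_lit 68951772948) (nat_lit 304) (nat_lit 5934707067) (nat_lit 76) (nat_lit 63153089907) (nat_lit 56) (nat_lit 5) (nat_lit 60) (nat_lit 5) (nat_lit 57) (nat_lit 5) (nat_lit 348) (nat_lit 307) (nat_lit 125)) (XT.lf (nat_lit 0) (nat_lit 95747274544) (nat_lit 228) (nat_lit 13618758696) (nat_lit 304) (nat_lit 33631730235) (nat_lit 53) (nat_lit 5) (nat_lit 56) (nat_lit 5) (nat_lit 57) (nat_lit 5) (nat_lit 349) (nat_lit 307) (nat_lit 124))) (XT.nd (nat_lit 37362) (nat_lit 0) (nat_lit 10412) (XT.lf (nat_lit 0) (nat_lit 4614831192) (nat_lit 228) (nat_lit 93197235551) (nat_lit 76) (nat_lit 50358126666) (nat_lit 50) (nat_lit 5) (nat_lit 53) (nat_lit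 5) (nat_lit 51) (nat_lit 5) (nat_lit 350) (nat_lit 307) (nat_lit 123)) (XT.lf (nat_lit 0) (nat_lit 4374463240) (nat_lit 0) (nat_lit 4374463240) (nat_lit 1140) (nat_lit 12549089658) (nat_lit 187) (nat_lit 5) (nat_lit 187) (nat_lit 3) (nat_lit 202) (nat_lit 3) (nat_lit 308) (nat_lit 308) (nat_lit 164))))))))
noncomputable def xc116 : XT := (XT.nd (nat_lit 2028) (nat_lit 3648) (nat_lit 0) (XT.nd (nat_lit 1014) (nat_lit 4636) (nat_lit 0) (XT.nd (nat_lit 468) (nat_lit 1900) (nat_lit 0) (XT.nd (nat_lit 234) (nat_lit 0) (nat_lit 152) (XT.nd (nat_lit 78) (nat_lit 0) (nat_lit 76) (XT.lf (nat_lit 0) (nat_lit 18217987843) (nat_lit 1140) (nat_lit 2350073297) (nat_lit 1216) (nat_lit 23084315050) (nat_lit 187) (nat_lit 5) (nat_lit 202) (nat_lit 3) (nat_lit 203) (nat_lit 5) (nat_lit 309) (nat_lit 308) (nat_lit 163)) (XT.nd (nat_lit 78) (nat_lit 0) (nat_lit 0) (XT.lf (nat_lit 0) (nat_lit 19473370371) (nat_lit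 1140) (nat_lit 13623009582) (nat_lit 1216) (nat_lit 11650184996) (nat_lit 188) (nat_lit 5) (nat_lit 203) (nat_lit 5) (nat_lit 204) (nat_lit 5) (nat_lit 310) (nat_lit 308) (nat_lit 162)) (XT.lf (nat_lit 76) (nat_lit 20617723751) (nat_lit 0) (nat_lit 600595104) (nat_lit 1216) (nat_lit 24664345036) (nat_lit 189) (nat_lit 5) (nat_lit 188) (nat_lit 5) (nat_lit 204) (nat_lit 5) (nat_lit 311) (nat_lit 308) (nat_lit 161)))) (XT.nd (nat_lit 78) (nat_lit 0) (nat_lit 76) (XT.lf (nat_lit 76) (nat_lit 9646386345) (nat_lit 0) (nat_lit 13957429195) (nat_lit 1216) (nat_lit 23455157642) (nat_lit 190) (nat_lit 5) (nat_lit 189) (nat_lit 5) (nat_lit 205) (nat_lit 5) (nat_lit 312) (nat_lit 308) (nat_lit 160)) (XT.nd (nat_lit 78) (nat_lit 0) (nat_lit 76) (XT.lf (nat_lit 0) (nat_lit 26568132561) (nat_lit 1140) (nat_lit 1659747789) (nat_lit 1216) (nat_lit 20052435438) (nat_lit 190) (nat_lit 5) (nat_lit 205) (nat_lit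 5) (nat_lit 206) (nat_lit 5) (nat_lit 313) (nat_lit 308) (nat_lit 159)) (XT.lf (nat_lit 0) (nat_lit 30229310517) (nat_lit 1140) (nat_lit 13159348937) (nat_lit 1216) (nat_lit 6157610734) (nat_lit 191) (nat_lit 5) (nat_lit 206) (nat_lit 5) (nat_lit 207) (nat_lit 5) (nat_lit 314) (nat_lit 308) (nat_lit 158))))) (XT.nd (nat_lit 234) (nat_lit 2204) (nat_lit 0) (XT.nd (nat_lit 78) (nat_lit 0) (nat_lit 76) (XT.lf (nat_lit 76) (nat_lit 25710165838) (nat_lit 0) (nat_lit 8909849888) (nat_lit 1216) (nat_lit 16239116355) (nat_lit 192) (nat_lit 5) (nat_lit 191) (nat_lit 5) (nat_lit 207) (nat_lit 5) (nat_lit 315) (nat_lit 308) (nat_lit 157)) (XT.nd (nat_lit 78) (nat_lit 0) (nat_lit 76) (XT.lf (nat_lit 76) (nat_lit 14583368089) (nat_lit 0) (nat_lit 25183517492) (nat_lit 1216) (nat_lit 12454656248) (nat_lit 193) (nat_lit 5) (nat_lit 192) (nat_lit 5) (nat_lit 208) (nat_lit 5) (nat_lit 316) (nat_lit 308) (nat_lit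 156)) (XT.lf (nat_lit 76) (nat_lit 3043967472) (nat_lit 0) (nat_lit 42609551097) (nat_lit 1216) (nat_lit 7984084373) (nat_lit 194) (nat_lit 5) (nat_lit 193) (nat_lit 5) (nat_lit 209) (nat_lit 5) (nat_lit 317) (nat_lit 308) (nat_lit 155)))) (XT.nd (nat_lit 156) (nat_lit 1216) (nat_lit 0) (XT.nd (nat_lit 78) (nat_lit 1140) (nat_lit 0) (XT.lf (nat_lit 76) (nat_lit 46285450212) (nat_lit 0) (nat_lit 6185679702) (nat_lit 1216) (nat_lit 2634241099) (nat_lit 194) (nat_lit 5) (nat_lit 193) (nat_lit 5) (nat_lit 209) (nat_lit 5) (nat_lit 318) (nat_lit 308) (nat_lit 154)) (XT.lf (nat_lit 0) (nat_lit 3577592918) (nat_lit 1216) (nat_lit 21238701625) (nat_lit 76) (nat_lit 31809794454) (nat_lit 178) (nat_lit 5) (nat_lit 194) (nat_lit 5) (nat_lit 179) (nat_lit 5) (nat_lit 319) (nat_lit 308) (nat_lit 153))) (XT.nd (nat_lit 78) (nat_lit 608) (nat_lit 0) (XT.lf (nat_lit 0) (nat_lit 10561867284) (nat_lit 684)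 (nat_lit 34193865996) (nat_lit 76) (nat_lit 13450840199) (nat_lit 170) (nat_lit 5) (nat_lit 179) (nat_lit 5) (nat_lit 171) (nat_lit 5) (nat_lit 320) (nat_lit 308) (nat_lit 152)) (XT.lf (nat_lit 0) (nat_lit 12092276922) (nat_lit 608) (nat_lit 6388380423) (nat_lit 684) (nat_lit 41367868550) (nat_lit 162) (nat_lit 5) (nat_lit 170) (nat_lit 5) (nat_lit 171) (nat_lit 5) (nat_lit 321) (nat_lit 308) (nat_lit 151)))))) (XT.nd (nat_lit 468) (nat_lit 2508) (nat_lit 0) (XT.nd (nat_lit 234) (nat_lit 1064) (nat_lit 0) (XT.nd (nat_lit 78) (nat_lit 1064) (nat_lit 0) (XT.lf (nat_lit 0) (nat_lit 27474585752) (nat_lit 684) (nat_lit 486110053) (nat_lit 76) (nat_lit 33591506798) (nat_lit 162) (nat_lit 5) (nat_lit 171) (nat_lit 5) (nat_lit 163) (nat_lit 5) (nat_lit 322) (nat_lit 308) (nat_lit 150)) (XT.nd (nat_lit 78) (nat_lit 532) (nat_lit 0) (XT.lf (nat_lit 0) (nat_lit 37582935694) (nat_lit 608) (nat_lit 13387918523)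 (nat_lit 76) (nat_lit 12350269692) (nat_lit 155) (nat_lit 5) (nat_lit 163) (nat_lit 5) (nat_lit 156) (nat_lit 5) (nat_lit 323) (nat_lit 308) (nat_lit 149)) (XT.lf (nat_lit 0) (nat_lit 38165839940) (nat_lit 532) (nat_lit 10683060161) (nat_lit 608) (nat_lit 16310027661) (nat_lit 148) (nat_lit 5) (nat_lit 155) (nat_lit 5) (nat_lit 156) (nat_lit 5) (nat_lit 324) (nat_lit 308) (nat_lit 148)))) (XT.nd (nat_lit 78) (nat_lit 608) (nat_lit 0) (XT.lf (nat_lit 0) (nat_lit 25686541937) (nat_lit 456) (nat_lit 35679789185) (nat_lit 532) (nat_lit 5701647913) (nat_lit 142) (nat_lit 5) (nat_lit 148) (nat_lit 5) (nat_lit 149) (nat_lit 5) (nat_lit 325) (nat_lit 308) (nat_lit 147)) (XT.nd (nat_lit 78) (nat_lit 0) (nat_lit 0) (XT.lf (nat_lit 0) (nat_lit 5903425470) (nat_lit 608) (nat_lit 56539701532) (nat_lit 76) (nat_lit 6610618830) (nat_lit 134) (nat_lit 5) (nat_lit 142) (nat_lit 5) (nat_lit 135) (nat_lit 5)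 (nat_lit 326) (nat_lit 308) (nat_lit 146)) (XT.lf (nat_lit 0) (nat_lit 18760505743) (nat_lit 608) (nat_lit 1580797129) (nat_lit 76) (nat_lit 50772116384) (nat_lit 134) (nat_lit 5) (nat_lit 142) (nat_lit 5) (nat_lit 135) (nat_lit 5) (nat_lit 327) (nat_lit 308) (nat_lit 145))))) (XT.nd (nat_lit 234) (nat_lit 1216) (nat_lit 0) (XT.nd (nat_lit 78) (nat_lit 836) (nat_lit 0) (XT.lf (nat_lit 0) (nat_lit 33043865958) (nat_lit 532) (nat_lit 16253287081) (nat_lit 76) (nat_lit 23955422444) (nat_lit 128) (nat_lit 5) (nat_lit 135) (nat_lit 5) (nat_lit 129) (nat_lit 5) (nat_lit 328) (nat_lit 308) (nat_lit 144)) (XT.nd (nat_lit 78) (nat_lit 380) (nat_lit 0) (XT.lf (nat_lit 0) (nat_lit 43688419985) (nat_lit 456) (nat_lit 4993069721) (nat_lit 532) (nat_lit 26797998772) (nat_lit 122) (nat_lit 5) (nat_lit 128) (nat_lit 5) (nat_lit 129) (nat_lit 5) (nat_lit 329) (nat_lit 308) (nat_lit 143)) (XT.lf (nat_lit 0)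 (nat_lit 29323677438) (nat_lit 380) (nat_lit 36625788654) (nat_lit 456) (nat_lit 11842828620) (nat_lit 117) (nat_lit 5) (nat_lit 122) (nat_lit 5) (nat_lit 123) (nat_lit 5) (nat_lit 330) (nat_lit 308) (nat_lit 142)))) (XT.nd (nat_lit 156) (nat_lit 760) (nat_lit 0) (XT.nd (nat_lit 78) (nat_lit 0) (nat_lit 0) (XT.lf (nat_lit 0) (nat_lit 4394495435) (nat_lit 456) (nat_lit 66167906246) (nat_lit 76) (nat_lit 9638936415) (nat_lit 111) (nat_lit 5) (nat_lit 117) (nat_lit 5) (nat_lit 112) (nat_lit 5) (nat_lit 331) (nat_lit 308) (nat_lit 141)) (XT.lf (nat_lit 0) (nat_lit 22073130808) (nat_lit 456) (nat_lit 2538377193) (nat_lit 76) (nat_lit 58089578314) (nat_lit 111) (nat_lit 5) (nat_lit 117) (nat_lit 5) (nat_lit 112) (nat_lit 5) (nat_lit 332) (nat_lit 308) (nat_lit 140))) (XT.nd (nat_lit 78) (nat_lit 380) (nat_lit 0) (XT.lf (nat_lit 0) (nat_lit 41497864111) (nat_lit 456) (nat_lit 19990380022) (nat_lit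 76) (nat_lit 23811714281) (nat_lit 106) (nat_lit 5) (nat_lit 112) (nat_lit 5) (nat_lit 107) (nat_lit 5) (nat_lit 333) (nat_lit 308) (nat_lit 139)) (XT.lf (nat_lit 0) (nat_lit 49286367373) (nat_lit 380) (nat_lit 13354694375) (nat_lit 456) (nat_lit 25365296925) (nat_lit 101) (nat_lit 5) (nat_lit 106) (nat_lit 5) (nat_lit 107) (nat_lit 5) (nat_lit 334) (nat_lit 308) (nat_lit 138))))))) (XT.nd (nat_lit 1014) (nat_lit 532) (nat_lit 0) (XT.nd (nat_lit 468) (nat_lit 1368) (nat_lit 0) (XT.nd (nat_lit 234) (nat_lit 988) (nat_lit 0) (XT.nd (nat_lit 78) (nat_lit 456) (nat_lit 0) (XT.lf (nat_lit 0) (nat_lit 31863376016) (nat_lit 304) (nat_lit 53848306869) (nat_lit 380) (nat_lit 5110289469) (nat_lit 97) (nat_lit 5) (nat_lit 101) (nat_lit 5) (nat_lit 102) (nat_lit 5) (nat_lit 335) (nat_lit 308) (nat_lit 137)) (XT.nd (nat_lit 78) (nat_lit 0) (nat_lit 0) (XT.lf (nat_lit 0) (nat_lit 12976123009) (nat_lit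 380) (nat_lit 3526850948) (nat_lit 456) (nat_lit 77250910637) (nat_lit 91) (nat_lit 5) (nat_lit 96) (nat_lit 5) (nat_lit 97) (nat_lit 5) (nat_lit 336) (nat_lit 308) (nat_lit 136)) (XT.lf (nat_lit 0) (nat_lit 40177910328) (nat_lit 456) (nat_lit 7607794454) (nat_lit 76) (nat_lit 49012569968) (nat_lit 91) (nat_lit 5) (nat_lit 97) (nat_lit 5) (nat_lit 92) (nat_lit 5) (nat_lit 337) (nat_lit 308) (nat_lit 135)))) (XT.nd (nat_lit 78) (nat_lit 684) (nat_lit 0) (XT.lf (nat_lit 0) (nat_lit 65795541508) (nat_lit 380) (nat_lit 29459368270) (nat_lit 76) (nat_lit 4717207301) (nat_lit 87) (nat_lit 5) (nat_lit 92) (nat_lit 5) (nat_lit 88) (nat_lit 5) (nat_lit 338) (nat_lit 308) (nat_lit 134)) (XT.nd (nat_lit 78) (nat_lit 380) (nat_lit 0) (XT.lf (nat_lit 0) (nat_lit 49884778079) (nat_lit 304) (nat_lit 43849073619) (nat_lit 380) (nat_lit 9539606957) (nat_lit 83) (nat_lit 5) (nat_lit 87) (nat_lit 5) (nat_lit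 88) (nat_lit 5) (nat_lit 339) (nat_lit 308) (nat_lit 133)) (XT.lf (nat_lit 0) (nat_lit 16684186349) (nat_lit 380) (nat_lit 79367413427) (nat_lit 76) (nat_lit 10663350978) (nat_lit 78) (nat_lit 5) (nat_lit 83) (nat_lit 5) (nat_lit 79) (nat_lit 5) (nat_lit 340) (nat_lit 308) (nat_lit 132))))) (XT.nd (nat_lit 234) (nat_lit 836) (nat_lit 0) (XT.nd (nat_lit 78) (nat_lit 228) (nat_lit 0) (XT.lf (nat_lit 0) (nat_lit 2425704808) (nat_lit 304) (nat_lit 42617864461) (nat_lit 380) (nat_lit 65251464759) (nat_lit 74) (nat_lit 5) (nat_lit 78) (nat_lit 5) (nat_lit 79) (nat_lit 5) (nat_lit 341) (nat_lit 308) (nat_lit 131)) (XT.nd (nat_lit 78) (nat_lit 228) (nat_lit 0) (XT.lf (nat_lit 0) (nat_lit 75774643158) (nat_lit 380) (nat_lit 24201835975) (nat_lit 76) (nat_lit 14049031562) (nat_lit 74) (nat_lit 5) (nat_lit 79) (nat_lit 5) (nat_lit 75) (nat_lit 5) (nat_lit 342) (nat_lit 308) (nat_lit 130)) (XT.lf (nat_lit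 0) (nat_lit 64475592870) (nat_lit 228) (nat_lit 44615622855) (nat_lit 304) (nat_lit 8819827963) (nat_lit 71) (nat_lit 5) (nat_lit 74) (nat_lit 5) (nat_lit 75) (nat_lit 5) (nat_lit 343) (nat_lit 308) (nat_lit 129)))) (XT.nd (nat_lit 156) (nat_lit 228) (nat_lit 0) (XT.nd (nat_lit 78) (nat_lit 228) (nat_lit 0) (XT.lf (nat_lit 0) (nat_lit 22392353242) (nat_lit 380) (nat_lit 85496932216) (nat_lit 76) (nat_lit 14072985342) (nat_lit 66) (nat_lit 5) (nat_lit 71) (nat_lit 5) (nat_lit 67) (nat_lit 5) (nat_lit 344) (nat_lit 308) (nat_lit 128)) (XT.lf (nat_lit 0) (nat_lit 5336199164) (nat_lit 228) (nat_lit 50704425950) (nat_lit 304) (nat_lit 70141078468) (nat_lit 63) (nat_lit 5) (nat_lit 66) (nat_lit 5) (nat_lit 67) (nat_lit 5) (nat_lit 345) (nat_lit 308) (nat_lit 127))) (XT.nd (nat_lit 78) (nat_lit 228) (nat_lit 0) (XT.lf (nat_lit 0) (nat_lit 92349011180) (nat_lit 304) (nat_lit 28187959152) (nat_lit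 76) (nat_lit 10045807359) (nat_lit 63) (nat_lit 5) (nat_lit 67) (nat_lit 5) (nat_lit 64) (nat_lit 5) (nat_lit 346) (nat_lit 308) (nat_lit 126)) (XT.lf (nat_lit 0) (nat_lit 69954436774) (nat_lit 228) (nat_lit 61701732313) (nat_lit 304) (nat_lit 3512236515) (nat_lit 60) (nat_lit 5) (nat_lit 63) (nat_lit 5) (nat_lit 64) (nat_lit 5) (nat_lit 347) (nat_lit 308) (nat_lit 125)))))) (XT.nd (nat_lit 37908) (nat_lit 0) (nat_lit 10336) (XT.nd (nat_lit 37596) (nat_lit 0) (nat_lit 10184) (XT.nd (nat_lit 78) (nat_lit 228) (nat_lit 0) (XT.lf (nat_lit 0) (nat_lit 32931120507) (nat_lit 304) (nat_lit 106005030770) (nat_lit 76) (nat_lit 1018804520) (nat_lit 56) (nat_lit 5) (nat_lit 60) (nat_lit 5) (nat_lit 57) (nat_lit 5) (nat_lit 348) (nat_lit 308) (nat_lit 124)) (XT.nd (nat_lit 78) (nat_lit 228) (nat_lit 0) (XT.lf (nat_lit 0) (nat_lit 72424599146) (nat_lit 304) (nat_lit 6192048161) (nat_lit 76) (nat_lit 66324125782)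 (nat_lit 56) (nat_lit 5) (nat_lit 60) (nat_lit 5) (nat_lit 57) (nat_lit 5) (nat_lit 349) (nat_lit 308) (nat_lit 123)) (XT.lf (nat_lit 0) (nat_lit 100572903303) (nat_lit 228) (nat_lit 14285835189) (nat_lit 304) (nat_lit 35288163714) (nat_lit 53) (nat_lit 5) (nat_lit 56) (nat_lit 5) (nat_lit 57) (nat_lit 5) (nat_lit 350) (nat_lit 308) (nat_lit 122)))) (XT.nd (nat_lit 156) (nat_lit 0) (nat_lit 76) (XT.nd (nat_lit 78) (nat_lit 0) (nat_lit 0) (XT.lf (nat_lit 0) (nat_lit 4620932213) (nat_lit 0) (nat_lit 4620932213) (nat_lit 1140) (nat_lit 13119312722) (nat_lit 187) (nat_lit 5) (nat_lit 187) (nat_lit 3) (nat_lit 202) (nat_lit 3) (nat_lit 309) (nat_lit 309) (nat_lit 162)) (XT.lf (nat_lit 0) (nat_lit 19234077543) (nat_lit 1140) (nat_lit 2410905880) (nat_lit 1216) (nat_lit 24186712917) (nat_lit 187) (nat_lit 5) (nat_lit 202) (nat_lit 3) (nat_lit 203) (nat_lit 5) (nat_lit 310) (nat_lit 309) (nat_lit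 161))) (XT.nd (nat_lit 78) (nat_lit 0) (nat_lit 0) (XT.lf (nat_lit 0) (nat_lit 20547310329) (nat_lit 1140) (nat_lit 14245517043) (nat_lit 1216) (nat_lit 12187921539) (nat_lit 188) (nat_lit 5) (nat_lit 203) (nat_lit 5) (nat_lit 204) (nat_lit 5) (nat_lit 311) (nat_lit 309) (nat_lit 160)) (XT.lf (nat_lit 76) (nat_lit 21705571966) (nat_lit 0) (nat_lit 669706994) (nat_lit 1216) (nat_lit 25798507141) (nat_lit 189) (nat_lit 5) (nat_lit 188) (nat_lit 5) (nat_lit 204) (nat_lit 5) (nat_lit 312) (nat_lit 309) (nat_lit 159))))) (XT.nd (nat_lit 234) (nat_lit 0) (nat_lit 152) (XT.nd (nat_lit 78) (nat_lit 0) (nat_lit 76) (XT.lf (nat_lit 76) (nat_lit 10187324473) (nat_lit 0) (nat_lit 14688358163) (nat_lit 1216) (nat_lit 24533365430) (nat_lit 190) (nat_lit 5) (nat_lit 189) (nat_lit 5) (nat_lit 205) (nat_lit 5) (nat_lit 313) (nat_lit 309) (nat_lit 158)) (XT.nd (nat_lit 78) (nat_lit 0) (nat_lit 76) (XT.lf (nat_lit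 0) (nat_lit 27983547333) (nat_lit 1140) (nat_lit 1683868174) (nat_lit 1216) (nat_lit 21024188222) (nat_lit 190) (nat_lit 5) (nat_lit 205) (nat_lit 5) (nat_lit 206) (nat_lit 5) (nat_lit 314) (nat_lit 309) (nat_lit 157)) (XT.lf (nat_lit 0) (nat_lit 31823938400) (nat_lit 1140) (nat_lit 13757270163) (nat_lit 1216) (nat_lit 6439768259) (nat_lit 191) (nat_lit 5) (nat_lit 206) (nat_lit 5) (nat_lit 207) (nat_lit 5) (nat_lit 315) (nat_lit 309) (nat_lit 156)))) (XT.nd (nat_lit 156) (nat_lit 0) (nat_lit 152) (XT.nd (nat_lit 78) (nat_lit 0) (nat_lit 76) (XT.lf (nat_lit 76) (nat_lit 27053999138) (nat_lit 0) (nat_lit 9376780274) (nat_lit 1216) (nat_lit 16968809714) (nat_lit 192) (nat_lit 5) (nat_lit 191) (nat_lit 5) (nat_lit 207) (nat_lit 5) (nat_lit 316) (nat_lit 309) (nat_lit 155)) (XT.lf (nat_lit 76) (nat_lit 15371817702) (nat_lit 0) (nat_lit 26459750410) (nat_lit 1216) (nat_lit 12998659068) (nat_lit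 193) (nat_lit 5) (nat_lit 192) (nat_lit 5) (nat_lit 208) (nat_lit 5) (nat_lit 317) (nat_lit 309) (nat_lit 154))) (XT.nd (nat_lit 78) (nat_lit 0) (nat_lit 0) (XT.lf (nat_lit 76) (nat_lit 3256230214) (nat_lit 0) (nat_lit 44753088602) (nat_lit 1216) (nat_lit 8307873789) (nat_lit 194) (nat_lit 5) (nat_lit 193) (nat_lit 5) (nat_lit 209) (nat_lit 5) (nat_lit 318) (nat_lit 309) (nat_lit 153)) (XT.lf (nat_lit 76) (nat_lit 48656926884) (nat_lit 0) (nat_lit 6507401735) (nat_lit 1216) (nat_lit 2694129533) (nat_lit 194) (nat_lit 5) (nat_lit 193) (nat_lit 5) (nat_lit 209) (nat_lit 5) (nat_lit 319) (nat_lit 309) (nat_lit 152))))))))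
noncomputable def xc117 : XT := (XT.nd (nat_lit 2028) (nat_lit 760) (nat_lit 0) (XT.nd (nat_lit 1014) (nat_lit 3420) (nat_lit 0) (XT.nd (nat_lit 468) (nat_lit 2812) (nat_lit 0) (XT.nd (nat_lit 234) (nat_lit 1064) (nat_lit 0) (XT.nd (nat_lit 78) (nat_lit 1216) (nat_lit 0) (XT.lf (nat_lit 0) (nat_lit 3823987324) (nat_lit 1216) (nat_lit 22241408395) (nat_lit 76) (nat_lit 33389887083) (nat_lit 178) (nat_lit 5) (nat_lit 194) (nat_lit 5) (nat_lit 179) (nat_lit 5) (nat_lit 320) (nat_lit 309) (nat_lit 151)) (XT.nd (nat_lit 78) (nat_lit 608) (nat_lit 0) (XT.lf (nat_lit 0) (nat_lit 11154743052) (nat_lit 684) (nat_lit 35843931636) (nat_lit 76) (nat_lit 14116202847) (nat_lit 170) (nat_lit 5) (nat_lit 179) (nat_lit 5) (nat_lit 171) (nat_lit 5) (nat_lit 321) (nat_lit 309) (nat_lit 150)) (XT.lf (nat_lit 0) (nat_lit 12754809212) (nat_lit 608) (nat_lit 6712135275) (nat_lit 684) (nat_lit 43372062793) (nat_lit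 162) (nat_lit 5) (nat_lit 170) (nat_lit 5) (nat_lit 171) (nat_lit 5) (nat_lit 322) (nat_lit 309) (nat_lit 149)))) (XT.nd (nat_lit 78) (nat_lit 1064) (nat_lit 0) (XT.lf (nat_lit 0) (nat_lit 28907565132) (nat_lit 684) (nat_lit 453363144) (nat_lit 76) (nat_lit 35267033354) (nat_lit 162) (nat_lit 5) (nat_lit 171) (nat_lit 5) (nat_lit 163) (nat_lit 5) (nat_lit 323) (nat_lit 309) (nat_lit 148)) (XT.nd (nat_lit 78) (nat_lit 532) (nat_lit 0) (XT.lf (nat_lit 0) (nat_lit 39519028994) (nat_lit 608) (nat_lit 14000103651) (nat_lit 76) (nat_lit 12966268967) (nat_lit 155) (nat_lit 5) (nat_lit 163) (nat_lit 5) (nat_lit 156) (nat_lit 5) (nat_lit 324) (nat_lit 309) (nat_lit 147)) (XT.lf (nat_lit 0) (nat_lit 40129702799) (nat_lit 532) (nat_lit 11216411266) (nat_lit 608) (nat_lit 17069050258) (nat_lit 148) (nat_lit 5) (nat_lit 155) (nat_lit 5) (nat_lit 156) (nat_lit 5) (nat_lit 325) (nat_lit 309) (nat_lit 146)))))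 (XT.nd (nat_lit 234) (nat_lit 1748) (nat_lit 0) (XT.nd (nat_lit 78) (nat_lit 608) (nat_lit 0) (XT.lf (nat_lit 0) (nat_lit 27026500297) (nat_lit 456) (nat_lit 37460850397) (nat_lit 532) (nat_lit 5932382623) (nat_lit 142) (nat_lit 5) (nat_lit 148) (nat_lit 5) (nat_lit 149) (nat_lit 5) (nat_lit 326) (nat_lit 309) (nat_lit 145)) (XT.nd (nat_lit 78) (nat_lit 0) (nat_lit 0) (XT.lf (nat_lit 0) (nat_lit 6249913318) (nat_lit 608) (nat_lit 59309999732) (nat_lit 76) (nat_lit 6944921788) (nat_lit 134) (nat_lit 5) (nat_lit 142) (nat_lit 5) (nat_lit 135) (nat_lit 5) (nat_lit 327) (nat_lit 309) (nat_lit 144)) (XT.lf (nat_lit 0) (nat_lit 19747403958) (nat_lit 608) (nat_lit 1605849483) (nat_lit 76) (nat_lit 53314314600) (nat_lit 134) (nat_lit 5) (nat_lit 142) (nat_lit 5) (nat_lit 135) (nat_lit 5) (nat_lit 328) (nat_lit 309) (nat_lit 143)))) (XT.nd (nat_lit 156) (nat_lit 836) (nat_lit 0) (XT.nd (nat_lit 78)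 (nat_lit 456) (nat_lit 0) (XT.lf (nat_lit 0) (nat_lit 34743160801) (nat_lit 532) (nat_lit 17012098473) (nat_lit 76) (nat_lit 25158478614) (nat_lit 128) (nat_lit 5) (nat_lit 135) (nat_lit 5) (nat_lit 129) (nat_lit 5) (nat_lit 329) (nat_lit 309) (nat_lit 142)) (XT.lf (nat_lit 0) (nat_lit 45925150261) (nat_lit 456) (nat_lit 5235775373) (nat_lit 532) (nat_lit 28091125641) (nat_lit 122) (nat_lit 5) (nat_lit 128) (nat_lit 5) (nat_lit 129) (nat_lit 5) (nat_lit 330) (nat_lit 309) (nat_lit 141))) (XT.nd (nat_lit 78) (nat_lit 456) (nat_lit 0) (XT.lf (nat_lit 0) (nat_lit 30841977442) (nat_lit 380) (nat_lit 38448727907) (nat_lit 456) (nat_lit 12389842754) (nat_lit 117) (nat_lit 5) (nat_lit 122) (nat_lit 5) (nat_lit 123) (nat_lit 5) (nat_lit 331) (nat_lit 309) (nat_lit 140)) (XT.lf (nat_lit 0) (nat_lit 4656940633) (nat_lit 456) (nat_lit 69423540028) (nat_lit 76) (nat_lit 10129598006) (nat_lit 111) (nat_lit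 5) (nat_lit 117) (nat_lit 5) (nat_lit 112) (nat_lit 5) (nat_lit 332) (nat_lit 309) (nat_lit 139)))))) (XT.nd (nat_lit 468) (nat_lit 1900) (nat_lit 0) (XT.nd (nat_lit 234) (nat_lit 760) (nat_lit 0) (XT.nd (nat_lit 78) (nat_lit 760) (nat_lit 0) (XT.lf (nat_lit 0) (nat_lit 23217473469) (nat_lit 456) (nat_lit 2615046976) (nat_lit 76) (nat_lit 61002357010) (nat_lit 111) (nat_lit 5) (nat_lit 117) (nat_lit 5) (nat_lit 112) (nat_lit 5) (nat_lit 333) (nat_lit 309) (nat_lit 138)) (XT.nd (nat_lit 78) (nat_lit 380) (nat_lit 0) (XT.lf (nat_lit 0) (nat_lit 43612067374) (nat_lit 456) (nat_lit 20939965421) (nat_lit 76) (nat_lit 25011703674) (nat_lit 106) (nat_lit 5) (nat_lit 112) (nat_lit 5) (nat_lit 107) (nat_lit 5) (nat_lit 334) (nat_lit 309) (nat_lit 137)) (XT.lf (nat_lit 0) (nat_lit 51799188007) (nat_lit 380) (nat_lit 14011831212) (nat_lit 456) (nat_lit 26594481624) (nat_lit 101) (nat_lit 5) (nat_lit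 106) (nat_lit 5) (nat_lit 107) (nat_lit 5) (nat_lit 335) (nat_lit 309) (nat_lit 136)))) (XT.nd (nat_lit 78) (nat_lit 456) (nat_lit 0) (XT.lf (nat_lit 0) (nat_lit 33504699881) (nat_lit 304) (nat_lit 56529226479) (nat_lit 380) (nat_lit 5328008040) (nat_lit 97) (nat_lit 5) (nat_lit 101) (nat_lit 5) (nat_lit 102) (nat_lit 5) (nat_lit 336) (nat_lit 309) (nat_lit 135)) (XT.nd (nat_lit 78) (nat_lit 0) (nat_lit 0) (XT.lf (nat_lit 0) (nat_lit 13672454958) (nat_lit 380) (nat_lit 3691418229) (nat_lit 456) (nat_lit 81076599102) (nat_lit 91) (nat_lit 5) (nat_lit 96) (nat_lit 5) (nat_lit 97) (nat_lit 5) (nat_lit 337) (nat_lit 309) (nat_lit 134)) (XT.lf (nat_lit 0) (nat_lit 42220961770) (nat_lit 456) (nat_lit 7941975470) (nat_lit 76) (nat_lit 51474194170) (nat_lit 91) (nat_lit 5) (nat_lit 97) (nat_lit 5) (nat_lit 92) (nat_lit 5) (nat_lit 338) (nat_lit 309) (nat_lit 133))))) (XT.nd (nat_lit 234) (nat_lit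 912) (nat_lit 0) (XT.nd (nat_lit 78) (nat_lit 684) (nat_lit 0) (XT.lf (nat_lit 0) (nat_lit 69118394104) (nat_lit 380) (nat_lit 30886547470) (nat_lit 76) (nat_lit 4964758237) (nat_lit 87) (nat_lit 5) (nat_lit 92) (nat_lit 5) (nat_lit 88) (nat_lit 5) (nat_lit 339) (nat_lit 309) (nat_lit 132)) (XT.nd (nat_lit 78) (nat_lit 380) (nat_lit 0) (XT.lf (nat_lit 0) (nat_lit 52423493658) (nat_lit 304) (nat_lit 46028978658) (nat_lit 380) (nat_lit 9983672043) (nat_lit 83) (nat_lit 5) (nat_lit 87) (nat_lit 5) (nat_lit 88) (nat_lit 5) (nat_lit 340) (nat_lit 309) (nat_lit 131)) (XT.lf (nat_lit 0) (nat_lit 17549675408) (nat_lit 380) (nat_lit 83291090875) (nat_lit 76) (nat_lit 11208966443) (nat_lit 78) (nat_lit 5) (nat_lit 83) (nat_lit 5) (nat_lit 79) (nat_lit 5) (nat_lit 341) (nat_lit 309) (nat_lit 130)))) (XT.nd (nat_lit 156) (nat_lit 608) (nat_lit 0) (XT.nd (nat_lit 78) (nat_lit 0) (nat_lit 0) (XT.lf (nat_lit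 0) (nat_lit 2590402149) (nat_lit 304) (nat_lit 44735553117) (nat_lit 380) (nat_lit 68482898359) (nat_lit 74) (nat_lit 5) (nat_lit 78) (nat_lit 5) (nat_lit 79) (nat_lit 5) (nat_lit 342) (nat_lit 309) (nat_lit 129)) (XT.lf (nat_lit 0) (nat_lit 79592265282) (nat_lit 380) (nat_lit 25369816084) (nat_lit 76) (nat_lit 14763813519) (nat_lit 74) (nat_lit 5) (nat_lit 79) (nat_lit 5) (nat_lit 75) (nat_lit 5) (nat_lit 343) (nat_lit 309) (nat_lit 128))) (XT.nd (nat_lit 78) (nat_lit 380) (nat_lit 0) (XT.lf (nat_lit 0) (nat_lit 67740277080) (nat_lit 228) (nat_lit 46833406884) (nat_lit 304) (nat_lit 9232051212) (nat_lit 71) (nat_lit 5) (nat_lit 74) (nat_lit 5) (nat_lit 75) (nat_lit 5) (nat_lit 344) (nat_lit 309) (nat_lit 127)) (XT.lf (nat_lit 0) (nat_lit 23539347316) (nat_lit 380) (nat_lit 89730765563) (nat_lit 76) (nat_lit 14789428464) (nat_lit 66) (nat_lit 5) (nat_lit 71) (nat_lit 5) (nat_lit 67) (nat_lit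 5) (nat_lit 345) (nat_lit 309) (nat_lit 126))))))) (XT.nd (nat_lit 38532) (nat_lit 0) (nat_lit 4636) (XT.nd (nat_lit 37986) (nat_lit 0) (nat_lit 10032) (XT.nd (nat_lit 234) (nat_lit 304) (nat_lit 0) (XT.nd (nat_lit 78) (nat_lit 228) (nat_lit 0) (XT.lf (nat_lit 0) (nat_lit 5642846749) (nat_lit 228) (nat_lit 53226265338) (nat_lit 304) (nat_lit 73620862333) (nat_lit 63) (nat_lit 5) (nat_lit 66) (nat_lit 5) (nat_lit 67) (nat_lit 5) (nat_lit 346) (nat_lit 309) (nat_lit 125)) (XT.nd (nat_lit 78) (nat_lit 228) (nat_lit 0) (XT.lf (nat_lit 0) (nat_lit 96991780170) (nat_lit 304) (nat_lit 29558763459) (nat_lit 76) (nat_lit 10560593708) (nat_lit 63) (nat_lit 5) (nat_lit 67) (nat_lit 5) (nat_lit 64) (nat_lit 5) (nat_lit 347) (nat_lit 309) (nat_lit 124)) (XT.lf (nat_lit 0) (nat_lit 73489645984) (nat_lit 228) (nat_lit 64773804701) (nat_lit 304) (nat_lit 3662622255) (nat_lit 60) (nat_lit 5) (nat_lit 63)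 (nat_lit 5) (nat_lit 64) (nat_lit 5) (nat_lit 348) (nat_lit 309) (nat_lit 123)))) (XT.nd (nat_lit 37596) (nat_lit 0) (nat_lit 9956) (XT.lf (nat_lit 0) (nat_lit 34601712296) (nat_lit 304) (nat_lit 111267763966) (nat_lit 76) (nat_lit 1082488917) (nat_lit 56) (nat_lit 5) (nat_lit 60) (nat_lit 5) (nat_lit 57) (nat_lit 5) (nat_lit 349) (nat_lit 309) (nat_lit 122)) (XT.nd (nat_lit 78) (nat_lit 0) (nat_lit 0) (XT.lf (nat_lit 0) (nat_lit 4877145092) (nat_lit 0) (nat_lit 4877145092) (nat_lit 1140) (nat_lit 13723367774) (nat_lit 187) (nat_lit 5) (nat_lit 187) (nat_lit 3) (nat_lit 202) (nat_lit 3) (nat_lit 310) (nat_lit 310) (nat_lit 160)) (XT.lf (nat_lit 0) (nat_lit 20291192131) (nat_lit 1140) (nat_lit 2480048833) (nat_lit 1216) (nat_lit 25349048213) (nat_lit 187) (nat_lit 5) (nat_lit 202) (nat_lit 3) (nat_lit 203) (nat_lit 5) (nat_lit 311) (nat_lit 310) (nat_lit 159))))) (XT.nd (nat_lit 234) (nat_lit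 0) (nat_lit 152) (XT.nd (nat_lit 78) (nat_lit 0) (nat_lit 0) (XT.lf (nat_lit 0) (nat_lit 21665624997) (nat_lit 1140) (nat_lit 14904601949) (nat_lit 1216) (nat_lit 12756707452) (nat_lit 188) (nat_lit 5) (nat_lit 203) (nat_lit 5) (nat_lit 204) (nat_lit 5) (nat_lit 312) (nat_lit 310) (nat_lit 158)) (XT.nd (nat_lit 78) (nat_lit 0) (nat_lit 76) (XT.lf (nat_lit 76) (nat_lit 22842516803) (nat_lit 0) (nat_lit 738640993) (nat_lit 1216) (nat_lit 26998586559) (nat_lit 189) (nat_lit 5) (nat_lit 188) (nat_lit 5) (nat_lit 204) (nat_lit 5) (nat_lit 313) (nat_lit 310) (nat_lit 157)) (XT.lf (nat_lit 76) (nat_lit 10749859686) (nat_lit 0) (nat_lit 15452760206) (nat_lit 1216) (nat_lit 25674273979) (nat_lit 190) (nat_lit 5) (nat_lit 189) (nat_lit 5) (nat_lit 205) (nat_lit 5) (nat_lit 314) (nat_lit 310) (nat_lit 156)))) (XT.nd (nat_lit 156) (nat_lit 0) (nat_lit 76) (XT.nd (nat_lit 78) (nat_lit 0) (nat_lit 76)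 (XT.lf (nat_lit 0) (nat_lit 29461643650) (nat_lit 1140) (nat_lit 1714667475) (nat_lit 1216) (nat_lit 22047398551) (nat_lit 190) (nat_lit 5) (nat_lit 205) (nat_lit 5) (nat_lit 206) (nat_lit 5) (nat_lit 315) (nat_lit 310) (nat_lit 155)) (XT.lf (nat_lit 0) (nat_lit 33490566029) (nat_lit 1140) (nat_lit 14390669979) (nat_lit 1216) (nat_lit 6738425142) (nat_lit 191) (nat_lit 5) (nat_lit 206) (nat_lit 5) (nat_lit 207) (nat_lit 5) (nat_lit 316) (nat_lit 310) (nat_lit 154))) (XT.nd (nat_lit 78) (nat_lit 0) (nat_lit 76) (XT.lf (nat_lit 76) (nat_lit 28459601597) (nat_lit 0) (nat_lit 9865064089) (nat_lit 1216) (nat_lit 17742635725) (nat_lit 192) (nat_lit 5) (nat_lit 191) (nat_lit 5) (nat_lit 207) (nat_lit 5) (nat_lit 317) (nat_lit 310) (nat_lit 153)) (XT.lf (nat_lit 76) (nat_lit 16194178392) (nat_lit 0) (nat_lit 27798209172) (nat_lit 1216) (nat_lit 13577181597) (nat_lit 193) (nat_lit 5) (nat_lit 192)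 (nat_lit 5) (nat_lit 208) (nat_lit 5) (nat_lit 318) (nat_lit 310) (nat_lit 152)))))) (XT.nd (nat_lit 546) (nat_lit 2888) (nat_lit 0) (XT.nd (nat_lit 234) (nat_lit 1748) (nat_lit 0) (XT.nd (nat_lit 78) (nat_lit 1140) (nat_lit 0) (XT.lf (nat_lit 76) (nat_lit 3473521878) (nat_lit 0) (nat_lit 47002588792) (nat_lit 1216) (nat_lit 8654864030) (nat_lit 194) (nat_lit 5) (nat_lit 193) (nat_lit 5) (nat_lit 209) (nat_lit 5) (nat_lit 319) (nat_lit 310) (nat_lit 151)) (XT.nd (nat_lit 78) (nat_lit 1140) (nat_lit 0) (XT.lf (nat_lit 76) (nat_lit 51141659088) (nat_lit 0) (nat_lit 6844053497) (nat_lit 1216) (nat_lit 2763689867) (nat_lit 194) (nat_lit 5) (nat_lit 193) (nat_lit 5) (nat_lit 209) (nat_lit 5) (nat_lit 320) (nat_lit 310) (nat_lit 150)) (XT.lf (nat_lit 0) (nat_lit 4076424567) (nat_lit 1216) (nat_lit 23299756990) (nat_lit 76) (nat_lit 35049950967) (nat_lit 178) (nat_lit 5) (nat_lit 194) (nat_lit 5)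 (nat_lit 179) (nat_lit 5) (nat_lit 321) (nat_lit 310) (nat_lit 149)))) (XT.nd (nat_lit 156) (nat_lit 532) (nat_lit 0) (XT.nd (nat_lit 78) (nat_lit 608) (nat_lit 0) (XT.lf (nat_lit 0) (nat_lit 11771239755) (nat_lit 684) (nat_lit 37582044174) (nat_lit 76) (nat_lit 14815501096) (nat_lit 170) (nat_lit 5) (nat_lit 179) (nat_lit 5) (nat_lit 171) (nat_lit 5) (nat_lit 322) (nat_lit 310) (nat_lit 148)) (XT.lf (nat_lit 0) (nat_lit 13445083409) (nat_lit 608) (nat_lit 7051674765) (nat_lit 684) (nat_lit 45482435379) (nat_lit 162) (nat_lit 5) (nat_lit 170) (nat_lit 5) (nat_lit 171) (nat_lit 5) (nat_lit 323) (nat_lit 310) (nat_lit 147))) (XT.nd (nat_lit 78) (nat_lit 532) (nat_lit 0) (XT.lf (nat_lit 0) (nat_lit 30406684968) (nat_lit 684) (nat_lit 424283082) (nat_lit 76) (nat_lit 37026712655) (nat_lit 162) (nat_lit 5) (nat_lit 171) (nat_lit 5) (nat_lit 163) (nat_lit 5) (nat_lit 324) (nat_lit 310) (nat_lit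 146)) (XT.lf (nat_lit 0) (nat_lit 41546632613) (nat_lit 608) (nat_lit 14648216953) (nat_lit 76) (nat_lit 13613208982) (nat_lit 155) (nat_lit 5) (nat_lit 163) (nat_lit 5) (nat_lit 156) (nat_lit 5) (nat_lit 325) (nat_lit 310) (nat_lit 145))))) (XT.nd (nat_lit 234) (nat_lit 1292) (nat_lit 0) (XT.nd (nat_lit 78) (nat_lit 1064) (nat_lit 0) (XT.lf (nat_lit 0) (nat_lit 42186592349) (nat_lit 532) (nat_lit 11776504478) (nat_lit 608) (nat_lit 17871274848) (nat_lit 148) (nat_lit 5) (nat_lit 155) (nat_lit 5) (nat_lit 156) (nat_lit 5) (nat_lit 326) (nat_lit 310) (nat_lit 144)) (XT.nd (nat_lit 78) (nat_lit 608) (nat_lit 0) (XT.lf (nat_lit 0) (nat_lit 28428284507) (nat_lit 456) (nat_lit 39331236911) (nat_lit 532) (nat_lit 6179706801) (nat_lit 142) (nat_lit 5) (nat_lit 148) (nat_lit 5) (nat_lit 149) (nat_lit 5) (nat_lit 327) (nat_lit 310) (nat_lit 143)) (XT.lf (nat_lit 0) (nat_lit 6608954629) (nat_lit 608)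 (nat_lit 62224083050) (nat_lit 76) (nat_lit 7295589208) (nat_lit 134) (nat_lit 5) (nat_lit 142) (nat_lit 5) (nat_lit 135) (nat_lit 5) (nat_lit 328) (nat_lit 310) (nat_lit 142)))) (XT.nd (nat_lit 156) (nat_lit 836) (nat_lit 0) (XT.nd (nat_lit 78) (nat_lit 456) (nat_lit 0) (XT.lf (nat_lit 0) (nat_lit 20779103342) (nat_lit 608) (nat_lit 1637173702) (nat_lit 76) (nat_lit 55983288740) (nat_lit 134) (nat_lit 5) (nat_lit 142) (nat_lit 5) (nat_lit 135) (nat_lit 5) (nat_lit 329) (nat_lit 310) (nat_lit 141)) (XT.lf (nat_lit 0) (nat_lit 36523041331) (nat_lit 532) (nat_lit 17813857174) (nat_lit 76) (nat_lit 26421196238) (nat_lit 128) (nat_lit 5) (nat_lit 135) (nat_lit 5) (nat_lit 129) (nat_lit 5) (nat_lit 330) (nat_lit 310) (nat_lit 140))) (XT.nd (nat_lit 78) (nat_lit 380) (nat_lit 0) (XT.lf (nat_lit 0) (nat_lit 48268853831) (nat_lit 456) (nat_lit 5491262251) (nat_lit 532) (nat_lit 29453257370) (nat_lit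 122) (nat_lit 5) (nat_lit 128) (nat_lit 5) (nat_lit 129) (nat_lit 5) (nat_lit 331) (nat_lit 310) (nat_lit 139)) (XT.lf (nat_lit 0) (nat_lit 32431347183) (nat_lit 380) (nat_lit 40363590443) (nat_lit 456) (nat_lit 12968403104) (nat_lit 117) (nat_lit 5) (nat_lit 122) (nat_lit 5) (nat_lit 123) (nat_lit 5) (nat_lit 332) (nat_lit 310) (nat_lit 138))))))))
noncomputable def xc118 : XT := (XT.nd (nat_lit 39624) (nat_lit 0) (nat_lit 836) (XT.nd (nat_lit 1014) (nat_lit 836) (nat_lit 0) (XT.nd (nat_lit 468) (nat_lit 1520) (nat_lit 0) (XT.nd (nat_lit 234) (nat_lit 1140) (nat_lit 0) (XT.nd (nat_lit 78) (nat_lit 380) (nat_lit 0) (XT.lf (nat_lit 0) (nat_lit 4928536351) (nat_lit 456) (nat_lit 72846860767) (nat_lit 76) (nat_lit 10643982460) (nat_lit 111) (nat_lit 5) (nat_lit 117) (nat_lit 5) (nat_lit 112) (nat_lit 5) (nat_lit 333) (nat_lit 310) (nat_lit 137)) (XT.nd (nat_lit 78) (nat_lit 380) (nat_lit 0)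 (XT.lf (nat_lit 0) (nat_lit 24415250653) (nat_lit 456) (nat_lit 2700221932) (nat_lit 76) (nat_lit 64060003007) (nat_lit 111) (nat_lit 5) (nat_lit 117) (nat_lit 5) (nat_lit 112) (nat_lit 5) (nat_lit 334) (nat_lit 310) (nat_lit 136)) (XT.lf (nat_lit 0) (nat_lit 45828326124) (nat_lit 456) (nat_lit 21941672443) (nat_lit 76) (nat_lit 26270818273) (nat_lit 106) (nat_lit 5) (nat_lit 112) (nat_lit 5) (nat_lit 107) (nat_lit 5) (nat_lit 335) (nat_lit 310) (nat_lit 135)))) (XT.nd (nat_lit 78) (nat_lit 760) (nat_lit 0) (XT.lf (nat_lit 0) (nat_lit 54433140392) (nat_lit 380) (nat_lit 14702810181) (nat_lit 456) (nat_lit 27888758860) (nat_lit 101) (nat_lit 5) (nat_lit 106) (nat_lit 5) (nat_lit 107) (nat_lit 5) (nat_lit 336) (nat_lit 310) (nat_lit 134)) (XT.nd (nat_lit 78) (nat_lit 456) (nat_lit 0) (XT.lf (nat_lit 0) (nat_lit 35223612938) (nat_lit 304) (nat_lit 59345260834) (nat_lit 380) (nat_lit 5560126444)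 (nat_lit 97) (nat_lit 5) (nat_lit 101) (nat_lit 5) (nat_lit 102) (nat_lit 5) (nat_lit 337) (nat_lit 310) (nat_lit 133)) (XT.lf (nat_lit 0) (nat_lit 14399185006) (nat_lit 380) (nat_lit 3865308627) (nat_lit 456) (nat_lit 85096998612) (nat_lit 91) (nat_lit 5) (nat_lit 96) (nat_lit 5) (nat_lit 97) (nat_lit 5) (nat_lit 338) (nat_lit 310) (nat_lit 132))))) (XT.nd (nat_lit 234) (nat_lit 912) (nat_lit 0) (XT.nd (nat_lit 78) (nat_lit 608) (nat_lit 0) (XT.lf (nat_lit 0) (nat_lit 44362990291) (nat_lit 456) (nat_lit 8297161584) (nat_lit 76) (nat_lit 54057877306) (nat_lit 91) (nat_lit 5) (nat_lit 97) (nat_lit 5) (nat_lit 92) (nat_lit 5) (nat_lit 339) (nat_lit 310) (nat_lit 131)) (XT.nd (nat_lit 78) (nat_lit 304) (nat_lit 0) (XT.lf (nat_lit 0) (nat_lit 72604314282) (nat_lit 380) (nat_lit 32389342677) (nat_lit 76) (nat_lit 5223599841) (nat_lit 87) (nat_lit 5) (nat_lit 92) (nat_lit 5) (nat_lit 88) (nat_lit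 5) (nat_lit 340) (nat_lit 310) (nat_lit 130)) (XT.lf (nat_lit 0) (nat_lit 55085009996) (nat_lit 304) (nat_lit 48319045602) (nat_lit 380) (nat_lit 10453000533) (nat_lit 83) (nat_lit 5) (nat_lit 87) (nat_lit 5) (nat_lit 88) (nat_lit 5) (nat_lit 341) (nat_lit 310) (nat_lit 129)))) (XT.nd (nat_lit 156) (nat_lit 228) (nat_lit 0) (XT.nd (nat_lit 78) (nat_lit 304) (nat_lit 0) (XT.lf (nat_lit 0) (nat_lit 18455530826) (nat_lit 380) (nat_lit 87415107349) (nat_lit 76) (nat_lit 11780705392) (nat_lit 78) (nat_lit 5) (nat_lit 83) (nat_lit 5) (nat_lit 79) (nat_lit 5) (nat_lit 342) (nat_lit 310) (nat_lit 128)) (XT.lf (nat_lit 0) (nat_lit 2759298311) (nat_lit 304) (nat_lit 46960353842) (nat_lit 380) (nat_lit 71878798707) (nat_lit 74) (nat_lit 5) (nat_lit 78) (nat_lit 5) (nat_lit 79) (nat_lit 5) (nat_lit 343) (nat_lit 310) (nat_lit 127))) (XT.nd (nat_lit 78) (nat_lit 228) (nat_lit 0) (XT.lf (nat_lit 0) (nat_lit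 83598082597) (nat_lit 380) (nat_lit 26600110344) (nat_lit 76) (nat_lit 15513188212) (nat_lit 74) (nat_lit 5) (nat_lit 79) (nat_lit 5) (nat_lit 75) (nat_lit 5) (nat_lit 344) (nat_lit 310) (nat_lit 126)) (XT.lf (nat_lit 0) (nat_lit 71164392582) (nat_lit 228) (nat_lit 49163288463) (nat_lit 304) (nat_lit 9667560213) (nat_lit 71) (nat_lit 5) (nat_lit 74) (nat_lit 5) (nat_lit 75) (nat_lit 5) (nat_lit 345) (nat_lit 310) (nat_lit 125)))))) (XT.nd (nat_lit 38064) (nat_lit 0) (nat_lit 9728) (XT.nd (nat_lit 234) (nat_lit 228) (nat_lit 0) (XT.nd (nat_lit 78) (nat_lit 228) (nat_lit 0) (XT.lf (nat_lit 0) (nat_lit 24741145895) (nat_lit 380) (nat_lit 94180103603) (nat_lit 76) (nat_lit 15540504291) (nat_lit 66) (nat_lit 5) (nat_lit 71) (nat_lit 5) (nat_lit 67) (nat_lit 5) (nat_lit 346) (nat_lit 310) (nat_lit 124)) (XT.nd (nat_lit 78) (nat_lit 0) (nat_lit 0) (XT.lf (nat_lit 0) (nat_lit 5961122988) (nat_lit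 228) (nat_lit 55875440819) (nat_lit 304) (nat_lit 77277170702) (nat_lit 63) (nat_lit 5) (nat_lit 66) (nat_lit 5) (nat_lit 67) (nat_lit 5) (nat_lit 347) (nat_lit 310) (nat_lit 123)) (XT.lf (nat_lit 0) (nat_lit 101864333741) (nat_lit 304) (nat_lit 31001696054) (nat_lit 76) (nat_lit 11099957617) (nat_lit 63) (nat_lit 5) (nat_lit 67) (nat_lit 5) (nat_lit 64) (nat_lit 5) (nat_lit 348) (nat_lit 310) (nat_lit 122)))) (XT.nd (nat_lit 37674) (nat_lit 0) (nat_lit 9652) (XT.lf (nat_lit 0) (nat_lit 77198130433) (nat_lit 228) (nat_lit 68000690647) (nat_lit 304) (nat_lit 3822872565) (nat_lit 60) (nat_lit 5) (nat_lit 63) (nat_lit 5) (nat_lit 64) (nat_lit 5) (nat_lit 349) (nat_lit 310) (nat_lit 121)) (XT.nd (nat_lit 78) (nat_lit 0) (nat_lit 0) (XT.lf (nat_lit 0) (nat_lit 5143828894) (nat_lit 0) (nat_lit 5143828894) (nat_lit 1140) (nat_lit 14362451733) (nat_lit 187) (nat_lit 5) (nat_lit 187) (nat_lit 3) (nat_lit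 202) (nat_lit 3) (nat_lit 311) (nat_lit 311) (nat_lit 158)) (XT.lf (nat_lit 0) (nat_lit 21392292064) (nat_lit 1140) (nat_lit 2557427836) (nat_lit 1216) (nat_lit 26573869920) (nat_lit 187) (nat_lit 5) (nat_lit 202) (nat_lit 3) (nat_lit 203) (nat_lit 5) (nat_lit 312) (nat_lit 311) (nat_lit 157))))) (XT.nd (nat_lit 234) (nat_lit 0) (nat_lit 152) (XT.nd (nat_lit 78) (nat_lit 0) (nat_lit 0) (XT.lf (nat_lit 0) (nat_lit 22831399808) (nat_lit 1140) (nat_lit 15601586290) (nat_lit 1216) (nat_lit 13357708207) (nat_lit 188) (nat_lit 5) (nat_lit 203) (nat_lit 5) (nat_lit 204) (nat_lit 5) (nat_lit 313) (nat_lit 311) (nat_lit 156)) (XT.nd (nat_lit 78) (nat_lit 0) (nat_lit 76) (XT.lf (nat_lit 76) (nat_lit 24031505445) (nat_lit 0) (nat_lit 807726011) (nat_lit 1216) (nat_lit 28267022972) (nat_lit 189) (nat_lit 5) (nat_lit 188) (nat_lit 5) (nat_lit 204) (nat_lit 5) (nat_lit 314) (nat_lit 311) (nat_lit 155))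 (XT.lf (nat_lit 76) (nat_lit 11335578511) (nat_lit 0) (nat_lit 16252594711) (nat_lit 1216) (nat_lit 26880201081) (nat_lit 190) (nat_lit 5) (nat_lit 189) (nat_lit 5) (nat_lit 205) (nat_lit 5) (nat_lit 315) (nat_lit 311) (nat_lit 154)))) (XT.nd (nat_lit 156) (nat_lit 0) (nat_lit 76) (XT.nd (nat_lit 78) (nat_lit 0) (nat_lit 76) (XT.lf (nat_lit 0) (nat_lit 31006307647) (nat_lit 1140) (nat_lit 1751970819) (nat_lit 1216) (nat_lit 23124372486) (nat_lit 190) (nat_lit 5) (nat_lit 205) (nat_lit 5) (nat_lit 206) (nat_lit 5) (nat_lit 316) (nat_lit 311) (nat_lit 153)) (XT.lf (nat_lit 0) (nat_lit 35233512208) (nat_lit 1140) (nat_lit 15060803303) (nat_lit 1216) (nat_lit 7054184014) (nat_lit 191) (nat_lit 5) (nat_lit 206) (nat_lit 5) (nat_lit 207) (nat_lit 5) (nat_lit 317) (nat_lit 311) (nat_lit 152))) (XT.nd (nat_lit 78) (nat_lit 0) (nat_lit 76) (XT.lf (nat_lit 76) (nat_lit 29930565805) (nat_lit 0) (nat_lit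 10375954300) (nat_lit 1216) (nat_lit 18562089983) (nat_lit 192) (nat_lit 5) (nat_lit 191) (nat_lit 5) (nat_lit 207) (nat_lit 5) (nat_lit 318) (nat_lit 311) (nat_lit 151)) (XT.lf (nat_lit 76) (nat_lit 17052658109) (nat_lit 0) (nat_lit 29202152503) (nat_lit 1216) (nat_lit 14191269317) (nat_lit 193) (nat_lit 5) (nat_lit 192) (nat_lit 5) (nat_lit 208) (nat_lit 5) (nat_lit 319) (nat_lit 311) (nat_lit 150))))))) (XT.nd (nat_lit 1014) (nat_lit 3876) (nat_lit 0) (XT.nd (nat_lit 468) (nat_lit 3040) (nat_lit 0) (XT.nd (nat_lit 234) (nat_lit 1216) (nat_lit 0) (XT.nd (nat_lit 78) (nat_lit 1140) (nat_lit 0) (XT.lf (nat_lit 76) (nat_lit 3696613077) (nat_lit 0) (nat_lit 49363462685) (nat_lit 1216) (nat_lit 9025563287) (nat_lit 194) (nat_lit 5) (nat_lit 193) (nat_lit 5) (nat_lit 209) (nat_lit 5) (nat_lit 320) (nat_lit 311) (nat_lit 149)) (XT.nd (nat_lit 78) (nat_lit 1140) (nat_lit 0) (XT.lf (nat_lit 76)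 (nat_lit 53745804047) (nat_lit 0) (nat_lit 7196488985) (nat_lit 1216) (nat_lit 2842784890) (nat_lit 194) (nat_lit 5) (nat_lit 193) (nat_lit 5) (nat_lit 209) (nat_lit 5) (nat_lit 321) (nat_lit 311) (nat_lit 148)) (XT.lf (nat_lit 0) (nat_lit 4335790356) (nat_lit 1216) (nat_lit 24416017561) (nat_lit 76) (nat_lit 36793894801) (nat_lit 178) (nat_lit 5) (nat_lit 194) (nat_lit 5) (nat_lit 179) (nat_lit 5) (nat_lit 322) (nat_lit 311) (nat_lit 147)))) (XT.nd (nat_lit 78) (nat_lit 608) (nat_lit 0) (XT.lf (nat_lit 0) (nat_lit 12413098386) (nat_lit 684) (nat_lit 39412090560) (nat_lit 76) (nat_lit 15550369671) (nat_lit 170) (nat_lit 5) (nat_lit 179) (nat_lit 5) (nat_lit 171) (nat_lit 5) (nat_lit 323) (nat_lit 311) (nat_lit 146)) (XT.nd (nat_lit 78) (nat_lit 0) (nat_lit 0) (XT.lf (nat_lit 0) (nat_lit 14164987226) (nat_lit 608) (nat_lit 7407825602) (nat_lit 684) (nat_lit 47703740320) (nat_lit 162) (nat_lit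 5) (nat_lit 170) (nat_lit 5) (nat_lit 171) (nat_lit 5) (nat_lit 324) (nat_lit 311) (nat_lit 145)) (XT.lf (nat_lit 0) (nat_lit 31975764414) (nat_lit 684) (nat_lit 398560076) (nat_lit 76) (nat_lit 38874717343) (nat_lit 162) (nat_lit 5) (nat_lit 171) (nat_lit 5) (nat_lit 163) (nat_lit 5) (nat_lit 325) (nat_lit 311) (nat_lit 144))))) (XT.nd (nat_lit 234) (nat_lit 1520) (nat_lit 0) (XT.nd (nat_lit 78) (nat_lit 988) (nat_lit 0) (XT.lf (nat_lit 0) (nat_lit 43670814283) (nat_lit 608) (nat_lit 15333560335) (nat_lit 76) (nat_lit 14292623687) (nat_lit 155) (nat_lit 5) (nat_lit 163) (nat_lit 5) (nat_lit 156) (nat_lit 5) (nat_lit 326) (nat_lit 311) (nat_lit 143)) (XT.nd (nat_lit 78) (nat_lit 456) (nat_lit 0) (XT.lf (nat_lit 0) (nat_lit 44341640252) (nat_lit 532) (nat_lit 12364669974) (nat_lit 608) (nat_lit 18718373354) (nat_lit 148) (nat_lit 5) (nat_lit 155) (nat_lit 5) (nat_lit 156) (nat_lit 5) (nat_lit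 327) (nat_lit 311) (nat_lit 142)) (XT.lf (nat_lit 0) (nat_lit 29895466710) (nat_lit 456) (nat_lit 41295389680) (nat_lit 532) (nat_lit 6443980166) (nat_lit 142) (nat_lit 5) (nat_lit 148) (nat_lit 5) (nat_lit 149) (nat_lit 5) (nat_lit 328) (nat_lit 311) (nat_lit 141)))) (XT.nd (nat_lit 156) (nat_lit 912) (nat_lit 0) (XT.nd (nat_lit 78) (nat_lit 0) (nat_lit 0) (XT.lf (nat_lit 0) (nat_lit 6981620634) (nat_lit 608) (nat_lit 65288650769) (nat_lit 76) (nat_lit 7663471916) (nat_lit 134) (nat_lit 5) (nat_lit 142) (nat_lit 5) (nat_lit 135) (nat_lit 5) (nat_lit 329) (nat_lit 311) (nat_lit 140)) (XT.lf (nat_lit 0) (nat_lit 21858266388) (nat_lit 608) (nat_lit 1674616736) (nat_lit 76) (nat_lit 58785408651) (nat_lit 134) (nat_lit 5) (nat_lit 142) (nat_lit 5) (nat_lit 135) (nat_lit 5) (nat_lit 330) (nat_lit 311) (nat_lit 139))) (XT.nd (nat_lit 78) (nat_lit 456) (nat_lit 0) (XT.lf (nat_lit 0) (nat_lit 38387943955)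 (nat_lit 532) (nat_lit 18660245068) (nat_lit 76) (nat_lit 27746604072) (nat_lit 128) (nat_lit 5) (nat_lit 135) (nat_lit 5) (nat_lit 129) (nat_lit 5) (nat_lit 331) (nat_lit 311) (nat_lit 138)) (XT.lf (nat_lit 0) (nat_lit 50725331494) (nat_lit 456) (nat_lit 5760109363) (nat_lit 532) (nat_lit 30887439918) (nat_lit 122) (nat_lit 5) (nat_lit 128) (nat_lit 5) (nat_lit 129) (nat_lit 5) (nat_lit 332) (nat_lit 311) (nat_lit 137)))))) (XT.nd (nat_lit 546) (nat_lit 1520) (nat_lit 0) (XT.nd (nat_lit 234) (nat_lit 1520) (nat_lit 0) (XT.nd (nat_lit 78) (nat_lit 456) (nat_lit 0) (XT.lf (nat_lit 0) (nat_lit 34095790613) (nat_lit 380) (nat_lit 42374900252) (nat_lit 456) (nat_lit 13579696920) (nat_lit 117) (nat_lit 5) (nat_lit 122) (nat_lit 5) (nat_lit 123) (nat_lit 5) (nat_lit 333) (nat_lit 311) (nat_lit 136)) (XT.nd (nat_lit 78) (nat_lit 0) (nat_lit 0) (XT.lf (nat_lit 0) (nat_lit 5210109369) (nat_lit 456)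 (nat_lit 76445796764) (nat_lit 76) (nat_lit 11183351246) (nat_lit 111) (nat_lit 5) (nat_lit 117) (nat_lit 5) (nat_lit 112) (nat_lit 5) (nat_lit 334) (nat_lit 311) (nat_lit 135)) (XT.lf (nat_lit 0) (nat_lit 25669485757) (nat_lit 456) (nat_lit 2793892990) (nat_lit 76) (nat_lit 67269831408) (nat_lit 111) (nat_lit 5) (nat_lit 117) (nat_lit 5) (nat_lit 112) (nat_lit 5) (nat_lit 335) (nat_lit 311) (nat_lit 134)))) (XT.nd (nat_lit 156) (nat_lit 760) (nat_lit 0) (XT.nd (nat_lit 78) (nat_lit 380) (nat_lit 0) (XT.lf (nat_lit 0) (nat_lit 48152082912) (nat_lit 456) (nat_lit 22997675567) (nat_lit 76) (nat_lit 27592095617) (nat_lit 106) (nat_lit 5) (nat_lit 112) (nat_lit 5) (nat_lit 107) (nat_lit 5) (nat_lit 336) (nat_lit 311) (nat_lit 133)) (XT.lf (nat_lit 0) (nat_lit 57194700345) (nat_lit 380) (nat_lit 15429231787) (nat_lit 456) (nat_lit 29251045470) (nat_lit 101) (nat_lit 5) (nat_lit 106) (nat_lit 5)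 (nat_lit 107) (nat_lit 5) (nat_lit 337) (nat_lit 311) (nat_lit 132))) (XT.nd (nat_lit 78) (nat_lit 456) (nat_lit 0) (XT.lf (nat_lit 0) (nat_lit 37024410876) (nat_lit 304) (nat_lit 62303066308) (nat_lit 380) (nat_lit 5807037983) (nat_lit 97) (nat_lit 5) (nat_lit 101) (nat_lit 5) (nat_lit 102) (nat_lit 5) (nat_lit 338) (nat_lit 311) (nat_lit 131)) (XT.lf (nat_lit 0) (nat_lit 15158243848) (nat_lit 380) (nat_lit 4048886517) (nat_lit 456) (nat_lit 89321526142) (nat_lit 91) (nat_lit 5) (nat_lit 96) (nat_lit 5) (nat_lit 97) (nat_lit 5) (nat_lit 339) (nat_lit 311) (nat_lit 130))))) (XT.nd (nat_lit 234) (nat_lit 912) (nat_lit 0) (XT.nd (nat_lit 78) (nat_lit 608) (nat_lit 0) (XT.lf (nat_lit 0) (nat_lit 46609239971) (nat_lit 456) (nat_lit 8674003646) (nat_lit 76) (nat_lit 56769817364) (nat_lit 91) (nat_lit 5) (nat_lit 97) (nat_lit 5) (nat_lit 92) (nat_lit 5) (nat_lit 340) (nat_lit 311) (nat_lit 129))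 (XT.nd (nat_lit 78) (nat_lit 304) (nat_lit 0) (XT.lf (nat_lit 0) (nat_lit 76261741309) (nat_lit 380) (nat_lit 33971138911) (nat_lit 76) (nat_lit 5494397695) (nat_lit 87) (nat_lit 5) (nat_lit 92) (nat_lit 5) (nat_lit 88) (nat_lit 5) (nat_lit 341) (nat_lit 311) (nat_lit 128)) (XT.lf (nat_lit 0) (nat_lit 57875851567) (nat_lit 304) (nat_lit 50724674084) (nat_lit 380) (nat_lit 10948571093) (nat_lit 83) (nat_lit 5) (nat_lit 87) (nat_lit 5) (nat_lit 88) (nat_lit 5) (nat_lit 342) (nat_lit 311) (nat_lit 127)))) (XT.nd (nat_lit 156) (nat_lit 228) (nat_lit 0) (XT.nd (nat_lit 78) (nat_lit 304) (nat_lit 0) (XT.lf (nat_lit 0) (nat_lit 19404041288) (nat_lit 380) (nat_lit 91749093491) (nat_lit 76) (nat_lit 12379981593) (nat_lit 78) (nat_lit 5) (nat_lit 83) (nat_lit 5) (nat_lit 79) (nat_lit 5) (nat_lit 343) (nat_lit 311) (nat_lit 126)) (XT.lf (nat_lit 0) (nat_lit 2932978469) (nat_lit 304) (nat_lit 49297508104)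 (nat_lit 380) (nat_lit 75447119985) (nat_lit 74) (nat_lit 5) (nat_lit 78) (nat_lit 5) (nat_lit 79) (nat_lit 5) (nat_lit 344) (nat_lit 311) (nat_lit 125))) (XT.nd (nat_lit 78) (nat_lit 228) (nat_lit 0) (XT.lf (nat_lit 0) (nat_lit 87801754573) (nat_lit 380) (nat_lit 27895470470) (nat_lit 76) (nat_lit 16298991856) (nat_lit 74) (nat_lit 5) (nat_lit 79) (nat_lit 5) (nat_lit 75) (nat_lit 5) (nat_lit 345) (nat_lit 311) (nat_lit 124)) (XT.lf (nat_lit 0) (nat_lit 74756264500) (nat_lit 228) (nat_lit 51610760128) (nat_lit 304) (nat_lit 10127270596) (nat_lit 71) (nat_lit 5) (nat_lit 74) (nat_lit 5) (nat_lit 75) (nat_lit 5) (nat_lit 346) (nat_lit 311) (nat_lit 123))))))))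
noncomputable def xc119 : XT := (XT.nd (nat_lit 39780) (nat_lit 0) (nat_lit 228) (XT.nd (nat_lit 38766) (nat_lit 0) (nat_lit 3648) (XT.nd (nat_lit 38220) (nat_lit 0) (nat_lit 9576) (XT.nd (nat_lit 37986) (nat_lit 0) (nat_lit 9424) (XT.nd (nat_lit 78) (nat_lit 228) (nat_lit 0) (XT.lf (nat_lit 0) (nat_lit 26000725832) (nat_lit 380) (nat_lit 98855367070) (nat_lit 76) (nat_lit 16328055042) (nat_lit 66) (nat_lit 5) (nat_lit 71) (nat_lit 5) (nat_lit 67) (nat_lit 5) (nat_lit 347) (nat_lit 311) (nat_lit 122)) (XT.nd (nat_lit 37830) (nat_lit 0) (nat_lit 9424) (XT.lf (nat_lit 0) (nat_lit 6291953651) (nat_lit 228) (nat_lit 58658203530) (nat_lit 304) (nat_lit 81118594093) (nat_lit 63) (nat_lit 5) (nat_lit 66) (nat_lit 5) (nat_lit 67) (nat_lit 5) (nat_lit 348) (nat_lit 311) (nat_lit 121)) (XT.lf (nat_lit 0) (nat_lit 5421724690) (nat_lit 0) (nat_lit 5421724690) (nat_lit 1140) (nat_lit 15037867354) (nat_lit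 187) (nat_lit 5) (nat_lit 187) (nat_lit 3) (nat_lit 202) (nat_lit 3) (nat_lit 312) (nat_lit 312) (nat_lit 156)))) (XT.nd (nat_lit 78) (nat_lit 0) (nat_lit 76) (XT.lf (nat_lit 0) (nat_lit 22540401295) (nat_lit 1140) (nat_lit 2643010395) (nat_lit 1216) (nat_lit 27863896112) (nat_lit 187) (nat_lit 5) (nat_lit 202) (nat_lit 3) (nat_lit 203) (nat_lit 5) (nat_lit 313) (nat_lit 312) (nat_lit 155)) (XT.nd (nat_lit 78) (nat_lit 0) (nat_lit 0) (XT.lf (nat_lit 0) (nat_lit 24047793890) (nat_lit 1140) (nat_lit 16337905281) (nat_lit 1216) (nat_lit 13992183535) (nat_lit 188) (nat_lit 5) (nat_lit 203) (nat_lit 5) (nat_lit 204) (nat_lit 5) (nat_lit 314) (nat_lit 312) (nat_lit 154)) (XT.lf (nat_lit 76) (nat_lit 25275586659) (nat_lit 0) (nat_lit 877276003) (nat_lit 1216) (nat_lit 29606457645) (nat_lit 189) (nat_lit 5) (nat_lit 188) (nat_lit 5) (nat_lit 204) (nat_lit 5) (nat_lit 315) (nat_lit 312) (nat_lit 153)))))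 (XT.nd (nat_lit 234) (nat_lit 0) (nat_lit 152) (XT.nd (nat_lit 78) (nat_lit 0) (nat_lit 76) (XT.lf (nat_lit 76) (nat_lit 11946099696) (nat_lit 0) (nat_lit 17089892468) (nat_lit 1216) (nat_lit 28153656400) (nat_lit 190) (nat_lit 5) (nat_lit 189) (nat_lit 5) (nat_lit 205) (nat_lit 5) (nat_lit 316) (nat_lit 312) (nat_lit 152)) (XT.nd (nat_lit 78) (nat_lit 0) (nat_lit 76) (XT.lf (nat_lit 0) (nat_lit 32621549846) (nat_lit 1140) (nat_lit 1795641895) (nat_lit 1216) (nat_lit 24257556196) (nat_lit 190) (nat_lit 5) (nat_lit 205) (nat_lit 5) (nat_lit 206) (nat_lit 5) (nat_lit 317) (nat_lit 312) (nat_lit 151)) (XT.lf (nat_lit 0) (nat_lit 37057244850) (nat_lit 1140) (nat_lit 15769036054) (nat_lit 1216) (nat_lit 7387698307) (nat_lit 191) (nat_lit 5) (nat_lit 206) (nat_lit 5) (nat_lit 207) (nat_lit 5) (nat_lit 318) (nat_lit 312) (nat_lit 150)))) (XT.nd (nat_lit 156) (nat_lit 0) (nat_lit 152) (XT.nd (nat_lit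 78) (nat_lit 0) (nat_lit 76) (XT.lf (nat_lit 76) (nat_lit 31470617114) (nat_lit 0) (nat_lit 10910749301) (nat_lit 1216) (nat_lit 19428808969) (nat_lit 192) (nat_lit 5) (nat_lit 191) (nat_lit 5) (nat_lit 207) (nat_lit 5) (nat_lit 319) (nat_lit 312) (nat_lit 149)) (XT.lf (nat_lit 76) (nat_lit 17949527566) (nat_lit 0) (nat_lit 30674988357) (nat_lit 1216) (nat_lit 14842083251) (nat_lit 193) (nat_lit 5) (nat_lit 192) (nat_lit 5) (nat_lit 208) (nat_lit 5) (nat_lit 320) (nat_lit 312) (nat_lit 148))) (XT.nd (nat_lit 78) (nat_lit 0) (nat_lit 0) (XT.lf (nat_lit 76) (nat_lit 3926264688) (nat_lit 0) (nat_lit 51841381355) (nat_lit 1216) (nat_lit 9420565764) (nat_lit 194) (nat_lit 5) (nat_lit 193) (nat_lit 5) (nat_lit 209) (nat_lit 5) (nat_lit 321) (nat_lit 312) (nat_lit 147)) (XT.lf (nat_lit 76) (nat_lit 56475780875) (nat_lit 0) (nat_lit 7565594897) (nat_lit 1216) (nat_lit 2931328242) (nat_lit 194) (nat_lit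 5) (nat_lit 193) (nat_lit 5) (nat_lit 209) (nat_lit 5) (nat_lit 322) (nat_lit 312) (nat_lit 146)))))) (XT.nd (nat_lit 468) (nat_lit 2812) (nat_lit 0) (XT.nd (nat_lit 234) (nat_lit 1064) (nat_lit 0) (XT.nd (nat_lit 78) (nat_lit 1216) (nat_lit 0) (XT.lf (nat_lit 0) (nat_lit 4602960427) (nat_lit 1216) (nat_lit 25592621361) (nat_lit 76) (nat_lit 38625831070) (nat_lit 178) (nat_lit 5) (nat_lit 194) (nat_lit 5) (nat_lit 179) (nat_lit 5) (nat_lit 323) (nat_lit 312) (nat_lit 145)) (XT.nd (nat_lit 78) (nat_lit 608) (nat_lit 0) (XT.lf (nat_lit 0) (nat_lit 13082094933) (nat_lit 684) (nat_lit 41338200011) (nat_lit 76) (nat_lit 16322530804) (nat_lit 170) (nat_lit 5) (nat_lit 179) (nat_lit 5) (nat_lit 171) (nat_lit 5) (nat_lit 324) (nat_lit 312) (nat_lit 144)) (XT.lf (nat_lit 0) (nat_lit 14916456223) (nat_lit 608) (nat_lit 7781452346) (nat_lit 684) (nat_lit 50041020916) (nat_lit 162) (nat_lit 5) (nat_lit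 170) (nat_lit 5) (nat_lit 171) (nat_lit 5) (nat_lit 325) (nat_lit 312) (nat_lit 143)))) (XT.nd (nat_lit 78) (nat_lit 1064) (nat_lit 0) (XT.lf (nat_lit 0) (nat_lit 33618765965) (nat_lit 684) (nat_lit 375914692) (nat_lit 76) (nat_lit 40815431946) (nat_lit 162) (nat_lit 5) (nat_lit 171) (nat_lit 5) (nat_lit 163) (nat_lit 5) (nat_lit 326) (nat_lit 312) (nat_lit 142)) (XT.nd (nat_lit 78) (nat_lit 532) (nat_lit 0) (XT.lf (nat_lit 0) (nat_lit 45896849364) (nat_lit 608) (nat_lit 16057546774) (nat_lit 76) (nat_lit 15006124945) (nat_lit 155) (nat_lit 5) (nat_lit 163) (nat_lit 5) (nat_lit 156) (nat_lit 5) (nat_lit 327) (nat_lit 312) (nat_lit 141)) (XT.lf (nat_lit 0) (nat_lit 46600190098) (nat_lit 532) (nat_lit 12982305079) (nat_lit 608) (nat_lit 19612146682) (nat_lit 148) (nat_lit 5) (nat_lit 155) (nat_lit 5) (nat_lit 156) (nat_lit 5) (nat_lit 328) (nat_lit 312) (nat_lit 140))))) (XT.nd (nat_lit 234)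 (nat_lit 1748) (nat_lit 0) (XT.nd (nat_lit 78) (nat_lit 608) (nat_lit 0) (XT.lf (nat_lit 0) (nat_lit 31431752950) (nat_lit 456) (nat_lit 43357974062) (nat_lit 532) (nat_lit 6725624094) (nat_lit 142) (nat_lit 5) (nat_lit 148) (nat_lit 5) (nat_lit 149) (nat_lit 5) (nat_lit 329) (nat_lit 312) (nat_lit 139)) (XT.nd (nat_lit 78) (nat_lit 0) (nat_lit 0) (XT.lf (nat_lit 0) (nat_lit 7368994883) (nat_lit 608) (nat_lit 68510782687) (nat_lit 76) (nat_lit 8049460249) (nat_lit 134) (nat_lit 5) (nat_lit 142) (nat_lit 5) (nat_lit 135) (nat_lit 5) (nat_lit 330) (nat_lit 312) (nat_lit 138)) (XT.lf (nat_lit 0) (nat_lit 22987649439) (nat_lit 608) (nat_lit 1718061267) (nat_lit 76) (nat_lit 61727359786) (nat_lit 134) (nat_lit 5) (nat_lit 142) (nat_lit 5) (nat_lit 135) (nat_lit 5) (nat_lit 331) (nat_lit 312) (nat_lit 137)))) (XT.nd (nat_lit 156) (nat_lit 836) (nat_lit 0) (XT.nd (nat_lit 78) (nat_lit 456) (nat_lit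 0) (XT.lf (nat_lit 0) (nat_lit 40342489051) (nat_lit 532) (nat_lit 19553071412) (nat_lit 76) (nat_lit 29137878059) (nat_lit 128) (nat_lit 5) (nat_lit 135) (nat_lit 5) (nat_lit 129) (nat_lit 5) (nat_lit 332) (nat_lit 312) (nat_lit 136)) (XT.lf (nat_lit 0) (nat_lit 53300632056) (nat_lit 456) (nat_lit 6042930251) (nat_lit 532) (nat_lit 32396909129) (nat_lit 122) (nat_lit 5) (nat_lit 128) (nat_lit 5) (nat_lit 129) (nat_lit 5) (nat_lit 333) (nat_lit 312) (nat_lit 135))) (XT.nd (nat_lit 78) (nat_lit 456) (nat_lit 0) (XT.lf (nat_lit 0) (nat_lit 35839470004) (nat_lit 380) (nat_lit 44487414232) (nat_lit 456) (nat_lit 14225007083) (nat_lit 117) (nat_lit 5) (nat_lit 122) (nat_lit 5) (nat_lit 123) (nat_lit 5) (nat_lit 334) (nat_lit 312) (nat_lit 134)) (XT.lf (nat_lit 0) (nat_lit 5502493477) (nat_lit 456) (nat_lit 80228715136) (nat_lit 76) (nat_lit 11749021904) (nat_lit 111) (nat_lit 5) (nat_lit 117)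 (nat_lit 5) (nat_lit 112) (nat_lit 5) (nat_lit 335) (nat_lit 312) (nat_lit 133))))))) (XT.nd (nat_lit 38844) (nat_lit 0) (nat_lit 7296) (XT.nd (nat_lit 468) (nat_lit 1900) (nat_lit 0) (XT.nd (nat_lit 234) (nat_lit 760) (nat_lit 0) (XT.nd (nat_lit 78) (nat_lit 760) (nat_lit 0) (XT.lf (nat_lit 0) (nat_lit 26983320655) (nat_lit 456) (nat_lit 2896091005) (nat_lit 76) (nat_lit 70639516403) (nat_lit 111) (nat_lit 5) (nat_lit 117) (nat_lit 5) (nat_lit 112) (nat_lit 5) (nat_lit 336) (nat_lit 312) (nat_lit 132)) (XT.nd (nat_lit 78) (nat_lit 380) (nat_lit 0) (XT.lf (nat_lit 0) (nat_lit 50589020829) (nat_lit 456) (nat_lit 24110298123) (nat_lit 76) (nat_lit 28978717568) (nat_lit 106) (nat_lit 5) (nat_lit 112) (nat_lit 5) (nat_lit 107) (nat_lit 5) (nat_lit 337) (nat_lit 312) (nat_lit 131)) (XT.lf (nat_lit 0) (nat_lit 60090628500) (nat_lit 380) (nat_lit 16192785074) (nat_lit 456) (nat_lit 30684435536)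 (nat_lit 101) (nat_lit 5) (nat_lit 106) (nat_lit 5) (nat_lit 107) (nat_lit 5) (nat_lit 338) (nat_lit 312) (nat_lit 130)))) (XT.nd (nat_lit 78) (nat_lit 456) (nat_lit 0) (XT.lf (nat_lit 0) (nat_lit 38911565470) (nat_lit 304) (nat_lit 65409641330) (nat_lit 380) (nat_lit 6069185997) (nat_lit 97) (nat_lit 5) (nat_lit 101) (nat_lit 5) (nat_lit 102) (nat_lit 5) (nat_lit 339) (nat_lit 312) (nat_lit 129)) (XT.nd (nat_lit 78) (nat_lit 0) (nat_lit 0) (XT.lf (nat_lit 0) (nat_lit 15951620523) (nat_lit 380) (nat_lit 4242543958) (nat_lit 456) (nat_lit 93760099139) (nat_lit 91) (nat_lit 5) (nat_lit 96) (nat_lit 5) (nat_lit 97) (nat_lit 5) (nat_lit 340) (nat_lit 312) (nat_lit 128)) (XT.lf (nat_lit 0) (nat_lit 48965189647) (nat_lit 456) (nat_lit 9073222179) (nat_lit 76) (nat_lit 59616513396) (nat_lit 91) (nat_lit 5) (nat_lit 97) (nat_lit 5) (nat_lit 92) (nat_lit 5) (nat_lit 341) (nat_lit 312) (nat_lit 127)))))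 (XT.nd (nat_lit 234) (nat_lit 912) (nat_lit 0) (XT.nd (nat_lit 78) (nat_lit 684) (nat_lit 0) (XT.lf (nat_lit 0) (nat_lit 80099509838) (nat_lit 380) (nat_lit 35635527240) (nat_lit 76) (nat_lit 5777841263) (nat_lit 87) (nat_lit 5) (nat_lit 92) (nat_lit 5) (nat_lit 88) (nat_lit 5) (nat_lit 342) (nat_lit 312) (nat_lit 126)) (XT.nd (nat_lit 78) (nat_lit 380) (nat_lit 0) (XT.lf (nat_lit 0) (nat_lit 60802833325) (nat_lit 304) (nat_lit 53251543798) (nat_lit 380) (nat_lit 11471437773) (nat_lit 83) (nat_lit 5) (nat_lit 87) (nat_lit 5) (nat_lit 88) (nat_lit 5) (nat_lit 343) (nat_lit 312) (nat_lit 125)) (XT.lf (nat_lit 0) (nat_lit 20397584777) (nat_lit 380) (nat_lit 96303197395) (nat_lit 76) (nat_lit 13008269500) (nat_lit 78) (nat_lit 5) (nat_lit 83) (nat_lit 5) (nat_lit 79) (nat_lit 5) (nat_lit 344) (nat_lit 312) (nat_lit 124)))) (XT.nd (nat_lit 156) (nat_lit 608) (nat_lit 0) (XT.nd (nat_lit 78) (nat_lit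 0) (nat_lit 0) (XT.lf (nat_lit 0) (nat_lit 3112022170) (nat_lit 304) (nat_lit 51752530059) (nat_lit 380) (nat_lit 79196239106) (nat_lit 74) (nat_lit 5) (nat_lit 78) (nat_lit 5) (nat_lit 79) (nat_lit 5) (nat_lit 345) (nat_lit 312) (nat_lit 123)) (XT.lf (nat_lit 0) (nat_lit 92213400439) (nat_lit 380) (nat_lit 29258819602) (nat_lit 76) (nat_lit 17123142567) (nat_lit 74) (nat_lit 5) (nat_lit 79) (nat_lit 5) (nat_lit 75) (nat_lit 5) (nat_lit 346) (nat_lit 312) (nat_lit 122))) (XT.nd (nat_lit 78) (nat_lit 380) (nat_lit 0) (XT.lf (nat_lit 0) (nat_lit 78524601343) (nat_lit 228) (nat_lit 54181599488) (nat_lit 304) (nat_lit 10612166890) (nat_lit 71) (nat_lit 5) (nat_lit 74) (nat_lit 5) (nat_lit 75) (nat_lit 5) (nat_lit 347) (nat_lit 312) (nat_lit 121)) (XT.lf (nat_lit 0) (nat_lit 27321190823) (nat_lit 380) (nat_lit 103767530695) (nat_lit 76) (nat_lit 17154004766) (nat_lit 66) (nat_lit 5) (nat_lit 71)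 (nat_lit 5) (nat_lit 67) (nat_lit 5) (nat_lit 348) (nat_lit 312) (nat_lit 120)))))) (XT.nd (nat_lit 546) (nat_lit 1900) (nat_lit 0) (XT.nd (nat_lit 234) (nat_lit 0) (nat_lit 76) (XT.nd (nat_lit 78) (nat_lit 0) (nat_lit 0) (XT.lf (nat_lit 0) (nat_lit 5711590381) (nat_lit 0) (nat_lit 5711590381) (nat_lit 1140) (nat_lit 15751024245) (nat_lit 187) (nat_lit 5) (nat_lit 187) (nat_lit 3) (nat_lit 202) (nat_lit 3) (nat_lit 313) (nat_lit 313) (nat_lit 154)) (XT.nd (nat_lit 78) (nat_lit 0) (nat_lit 76) (XT.lf (nat_lit 0) (nat_lit 23738618301) (nat_lit 1140) (nat_lit 2736803696) (nat_lit 1216) (nat_lit 29222018533) (nat_lit 187) (nat_lit 5) (nat_lit 202) (nat_lit 3) (nat_lit 203) (nat_lit 5) (nat_lit 314) (nat_lit 313) (nat_lit 153)) (XT.lf (nat_lit 0) (nat_lit 25318051242) (nat_lit 1140) (nat_lit 17115108642) (nat_lit 1216) (nat_lit 14661488781) (nat_lit 188) (nat_lit 5) (nat_lit 203) (nat_lit 5) (nat_lit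 204) (nat_lit 5) (nat_lit 315) (nat_lit 313) (nat_lit 152)))) (XT.nd (nat_lit 156) (nat_lit 0) (nat_lit 152) (XT.nd (nat_lit 78) (nat_lit 0) (nat_lit 76) (XT.lf (nat_lit 76) (nat_lit 26577920135) (nat_lit 0) (nat_lit 947592130) (nat_lit 1216) (nat_lit 31019736104) (nat_lit 189) (nat_lit 5) (nat_lit 188) (nat_lit 5) (nat_lit 204) (nat_lit 5) (nat_lit 316) (nat_lit 313) (nat_lit 151)) (XT.lf (nat_lit 76) (nat_lit 12583080199) (nat_lit 0) (nat_lit 17966761715) (nat_lit 1216) (nat_lit 29497343994) (nat_lit 190) (nat_lit 5) (nat_lit 189) (nat_lit 5) (nat_lit 205) (nat_lit 5) (nat_lit 317) (nat_lit 313) (nat_lit 150))) (XT.nd (nat_lit 78) (nat_lit 0) (nat_lit 76) (XT.lf (nat_lit 0) (nat_lit 34311517874) (nat_lit 1140) (nat_lit 1845580484) (nat_lit 1216) (nat_lit 25449540659) (nat_lit 190) (nat_lit 5) (nat_lit 205) (nat_lit 5) (nat_lit 206) (nat_lit 5) (nat_lit 318) (nat_lit 313) (nat_lit 149))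 (XT.lf (nat_lit 0) (nat_lit 38966394649) (nat_lit 1140) (nat_lit 16516846211) (nat_lit 1216) (nat_lit 7739672876) (nat_lit 191) (nat_lit 5) (nat_lit 206) (nat_lit 5) (nat_lit 207) (nat_lit 5) (nat_lit 319) (nat_lit 313) (nat_lit 148))))) (XT.nd (nat_lit 234) (nat_lit 2204) (nat_lit 0) (XT.nd (nat_lit 78) (nat_lit 0) (nat_lit 76) (XT.lf (nat_lit 76) (nat_lit 33083624631) (nat_lit 0) (nat_lit 11470796775) (nat_lit 1216) (nat_lit 20344570947) (nat_lit 192) (nat_lit 5) (nat_lit 191) (nat_lit 5) (nat_lit 207) (nat_lit 5) (nat_lit 320) (nat_lit 313) (nat_lit 147)) (XT.nd (nat_lit 78) (nat_lit 0) (nat_lit 76) (XT.lf (nat_lit 76) (nat_lit 18887127800) (nat_lit 0) (nat_lit 32220282653) (nat_lit 1216) (nat_lit 15530899855) (nat_lit 193) (nat_lit 5) (nat_lit 192) (nat_lit 5) (nat_lit 208) (nat_lit 5) (nat_lit 321) (nat_lit 313) (nat_lit 146)) (XT.lf (nat_lit 76) (nat_lit 4163231851) (nat_lit 0) (nat_lit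 54442289911) (nat_lit 1216) (nat_lit 9840550346) (nat_lit 194) (nat_lit 5) (nat_lit 193) (nat_lit 5) (nat_lit 209) (nat_lit 5) (nat_lit 322) (nat_lit 313) (nat_lit 145)))) (XT.nd (nat_lit 156) (nat_lit 1216) (nat_lit 0) (XT.nd (nat_lit 78) (nat_lit 1140) (nat_lit 0) (XT.lf (nat_lit 76) (nat_lit 59338287947) (nat_lit 0) (nat_lit 7952293202) (nat_lit 1216) (nat_lit 3029281600) (nat_lit 194) (nat_lit 5) (nat_lit 193) (nat_lit 5) (nat_lit 209) (nat_lit 5) (nat_lit 323) (nat_lit 313) (nat_lit 144)) (XT.lf (nat_lit 0) (nat_lit 4878805095) (nat_lit 1216) (nat_lit 26832164376) (nat_lit 76) (nat_lit 40550085462) (nat_lit 178) (nat_lit 5) (nat_lit 194) (nat_lit 5) (nat_lit 179) (nat_lit 5) (nat_lit 324) (nat_lit 313) (nat_lit 143))) (XT.nd (nat_lit 78) (nat_lit 608) (nat_lit 0) (XT.lf (nat_lit 0) (nat_lit 13780046961) (nat_lit 684) (nat_lit 43364751664) (nat_lit 76) (nat_lit 17133798069) (nat_lit 170)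 (nat_lit 5) (nat_lit 179) (nat_lit 5) (nat_lit 171) (nat_lit 5) (nat_lit 325) (nat_lit 313) (nat_lit 142)) (XT.lf (nat_lit 0) (nat_lit 15701480517) (nat_lit 608) (nat_lit 8173459625) (nat_lit 684) (nat_lit 52499619427) (nat_lit 162) (nat_lit 5) (nat_lit 170) (nat_lit 5) (nat_lit 171) (nat_lit 5) (nat_lit 326) (nat_lit 313) (nat_lit 141))))))))
noncomputable def xc120 : XT := (XT.nd (nat_lit 39936) (nat_lit 0) (nat_lit 1216) (XT.nd (nat_lit 1014) (nat_lit 2280) (nat_lit 0) (XT.nd (nat_lit 468) (nat_lit 2508) (nat_lit 0) (XT.nd (nat_lit 234) (nat_lit 1064) (nat_lit 0) (XT.nd (nat_lit 78) (nat_lit 1064) (nat_lit 0) (XT.lf (nat_lit 0) (nat_lit 35339807058) (nat_lit 684) (nat_lit 356095108) (nat_lit 76) (nat_lit 42853463166) (nat_lit 162) (nat_lit 5) (nat_lit 171) (nat_lit 5) (nat_lit 163) (nat_lit 5) (nat_lit 327) (nat_lit 313) (nat_lit 140)) (XT.nd (nat_lit 78) (nat_lit 532) (nat_lit 0) (XT.lf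 (nat_lit 0) (nat_lit 48230235476) (nat_lit 608) (nat_lit 16821701592) (nat_lit 76) (nat_lit 15755406316) (nat_lit 155) (nat_lit 5) (nat_lit 163) (nat_lit 5) (nat_lit 156) (nat_lit 5) (nat_lit 328) (nat_lit 313) (nat_lit 139)) (XT.lf (nat_lit 0) (nat_lit 48967812150) (nat_lit 532) (nat_lit 13630877573) (nat_lit 608) (nat_lit 20554526951) (nat_lit 148) (nat_lit 5) (nat_lit 155) (nat_lit 5) (nat_lit 156) (nat_lit 5) (nat_lit 329) (nat_lit 313) (nat_lit 138)))) (XT.nd (nat_lit 78) (nat_lit 608) (nat_lit 0) (XT.lf (nat_lit 0) (nat_lit 33040994026) (nat_lit 456) (nat_lit 45523890812) (nat_lit 532) (nat_lit 7025120646) (nat_lit 142) (nat_lit 5) (nat_lit 148) (nat_lit 5) (nat_lit 149) (nat_lit 5) (nat_lit 330) (nat_lit 313) (nat_lit 137)) (XT.nd (nat_lit 78) (nat_lit 0) (nat_lit 0) (XT.lf (nat_lit 0) (nat_lit 7772177705) (nat_lit 608) (nat_lit 71897953912) (nat_lit 76) (nat_lit 8454486312) (nat_lit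 134) (nat_lit 5) (nat_lit 142) (nat_lit 5) (nat_lit 135) (nat_lit 5) (nat_lit 331) (nat_lit 313) (nat_lit 136)) (XT.lf (nat_lit 0) (nat_lit 24170111032) (nat_lit 608) (nat_lit 1767423464) (nat_lit 76) (nat_lit 64816159251) (nat_lit 134) (nat_lit 5) (nat_lit 142) (nat_lit 5) (nat_lit 135) (nat_lit 5) (nat_lit 332) (nat_lit 313) (nat_lit 135))))) (XT.nd (nat_lit 234) (nat_lit 1216) (nat_lit 0) (XT.nd (nat_lit 78) (nat_lit 836) (nat_lit 0) (XT.lf (nat_lit 0) (nat_lit 42391493683) (nat_lit 532) (nat_lit 20494275179) (nat_lit 76) (nat_lit 30598349091) (nat_lit 128) (nat_lit 5) (nat_lit 135) (nat_lit 5) (nat_lit 129) (nat_lit 5) (nat_lit 333) (nat_lit 313) (nat_lit 134)) (XT.nd (nat_lit 78) (nat_lit 380) (nat_lit 0) (XT.lf (nat_lit 0) (nat_lit 56001068637) (nat_lit 456) (nat_lit 6340374196) (nat_lit 532) (nat_lit 33985096731) (nat_lit 122) (nat_lit 5) (nat_lit 128) (nat_lit 5) (nat_lit 129) (nat_lit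 5) (nat_lit 334) (nat_lit 313) (nat_lit 133)) (XT.lf (nat_lit 0) (nat_lit 37666717754) (nat_lit 380) (nat_lit 46706133214) (nat_lit 456) (nat_lit 14905713506) (nat_lit 117) (nat_lit 5) (nat_lit 122) (nat_lit 5) (nat_lit 123) (nat_lit 5) (nat_lit 335) (nat_lit 313) (nat_lit 132)))) (XT.nd (nat_lit 156) (nat_lit 760) (nat_lit 0) (XT.nd (nat_lit 78) (nat_lit 0) (nat_lit 0) (XT.lf (nat_lit 0) (nat_lit 5806533017) (nat_lit 456) (nat_lit 84204439813) (nat_lit 76) (nat_lit 12342371498) (nat_lit 111) (nat_lit 5) (nat_lit 117) (nat_lit 5) (nat_lit 112) (nat_lit 5) (nat_lit 336) (nat_lit 313) (nat_lit 131)) (XT.lf (nat_lit 0) (nat_lit 28360024655) (nat_lit 456) (nat_lit 3006885003) (nat_lit 76) (nat_lit 74177109842) (nat_lit 111) (nat_lit 5) (nat_lit 117) (nat_lit 5) (nat_lit 112) (nat_lit 5) (nat_lit 337) (nat_lit 313) (nat_lit 130))) (XT.nd (nat_lit 78) (nat_lit 380) (nat_lit 0) (XT.lf (nat_lit 0)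 (nat_lit 53145078465) (nat_lit 456) (nat_lit 25282016001) (nat_lit 76) (nat_lit 30434018227) (nat_lit 106) (nat_lit 5) (nat_lit 112) (nat_lit 5) (nat_lit 107) (nat_lit 5) (nat_lit 338) (nat_lit 313) (nat_lit 129)) (XT.lf (nat_lit 0) (nat_lit 63127988167) (nat_lit 380) (nat_lit 16995251264) (nat_lit 456) (nat_lit 32192206332) (nat_lit 101) (nat_lit 5) (nat_lit 106) (nat_lit 5) (nat_lit 107) (nat_lit 5) (nat_lit 339) (nat_lit 313) (nat_lit 128)))))) (XT.nd (nat_lit 468) (nat_lit 532) (nat_lit 0) (XT.nd (nat_lit 234) (nat_lit 988) (nat_lit 0) (XT.nd (nat_lit 78) (nat_lit 456) (nat_lit 0) (XT.lf (nat_lit 0) (nat_lit 40889736987) (nat_lit 304) (nat_lit 68672342632) (nat_lit 380) (nat_lit 6347063542) (nat_lit 97) (nat_lit 5) (nat_lit 101) (nat_lit 5) (nat_lit 102) (nat_lit 5) (nat_lit 340) (nat_lit 313) (nat_lit 127)) (XT.nd (nat_lit 78) (nat_lit 0) (nat_lit 0) (XT.lf (nat_lit 0) (nat_lit 16781368880)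 (nat_lit 380) (nat_lit 4446701192) (nat_lit 456) (nat_lit 98423157782) (nat_lit 91) (nat_lit 5) (nat_lit 96) (nat_lit 5) (nat_lit 97) (nat_lit 5) (nat_lit 341) (nat_lit 313) (nat_lit 126)) (XT.lf (nat_lit 0) (nat_lit 51436567205) (nat_lit 456) (nat_lit 9495607417) (nat_lit 76) (nat_lit 62604781391) (nat_lit 91) (nat_lit 5) (nat_lit 97) (nat_lit 5) (nat_lit 92) (nat_lit 5) (nat_lit 342) (nat_lit 313) (nat_lit 125)))) (XT.nd (nat_lit 78) (nat_lit 684) (nat_lit 0) (XT.lf (nat_lit 0) (nat_lit 84126872144) (nat_lit 380) (nat_lit 37386311660) (nat_lit 76) (nat_lit 6074645965) (nat_lit 87) (nat_lit 5) (nat_lit 92) (nat_lit 5) (nat_lit 88) (nat_lit 5) (nat_lit 343) (nat_lit 313) (nat_lit 124)) (XT.nd (nat_lit 78) (nat_lit 380) (nat_lit 0) (XT.lf (nat_lit 0) (nat_lit 63873078556) (nat_lit 304) (nat_lit 55905627573) (nat_lit 380) (nat_lit 12022731318) (nat_lit 83) (nat_lit 5) (nat_lit 87) (nat_lit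 5) (nat_lit 88) (nat_lit 5) (nat_lit 344) (nat_lit 313) (nat_lit 123)) (XT.lf (nat_lit 0) (nat_lit 21438635377) (nat_lit 380) (nat_lit 101088107132) (nat_lit 76) (nat_lit 13667108215) (nat_lit 78) (nat_lit 5) (nat_lit 83) (nat_lit 5) (nat_lit 79) (nat_lit 5) (nat_lit 345) (nat_lit 313) (nat_lit 122))))) (XT.nd (nat_lit 38142) (nat_lit 0) (nat_lit 8816) (XT.nd (nat_lit 78) (nat_lit 228) (nat_lit 0) (XT.lf (nat_lit 0) (nat_lit 3297006297) (nat_lit 304) (nat_lit 54331219191) (nat_lit 380) (nat_lit 83134974529) (nat_lit 74) (nat_lit 5) (nat_lit 78) (nat_lit 5) (nat_lit 79) (nat_lit 5) (nat_lit 346) (nat_lit 313) (nat_lit 121)) (XT.nd (nat_lit 78) (nat_lit 228) (nat_lit 0) (XT.lf (nat_lit 0) (nat_lit 96843624327) (nat_lit 380) (nat_lit 30693257732) (nat_lit 76) (nat_lit 17987645381) (nat_lit 74) (nat_lit 5) (nat_lit 79) (nat_lit 5) (nat_lit 75) (nat_lit 5) (nat_lit 347) (nat_lit 313) (nat_lit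 120)) (XT.lf (nat_lit 0) (nat_lit 82478517231) (nat_lit 228) (nat_lit 56881882504) (nat_lit 304) (nat_lit 11123303819) (nat_lit 71) (nat_lit 5) (nat_lit 74) (nat_lit 5) (nat_lit 75) (nat_lit 5) (nat_lit 348) (nat_lit 313) (nat_lit 119)))) (XT.nd (nat_lit 156) (nat_lit 0) (nat_lit 76) (XT.nd (nat_lit 78) (nat_lit 0) (nat_lit 0) (XT.lf (nat_lit 0) (nat_lit 6014203421) (nat_lit 0) (nat_lit 6014203421) (nat_lit 1140) (nat_lit 16503440331) (nat_lit 187) (nat_lit 5) (nat_lit 187) (nat_lit 3) (nat_lit 202) (nat_lit 3) (nat_lit 314) (nat_lit 314) (nat_lit 152)) (XT.lf (nat_lit 0) (nat_lit 24990126940) (nat_lit 1140) (nat_lit 2838852753) (nat_lit 1216) (nat_lit 30651307773) (nat_lit 187) (nat_lit 5) (nat_lit 202) (nat_lit 3) (nat_lit 203) (nat_lit 5) (nat_lit 315) (nat_lit 314) (nat_lit 151))) (XT.nd (nat_lit 78) (nat_lit 0) (nat_lit 0) (XT.lf (nat_lit 0) (nat_lit 26645511770) (nat_lit 1140) (nat_lit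 17934862348) (nat_lit 1216) (nat_lit 15367076662) (nat_lit 188) (nat_lit 5) (nat_lit 203) (nat_lit 5) (nat_lit 204) (nat_lit 5) (nat_lit 316) (nat_lit 314) (nat_lit 150)) (XT.lf (nat_lit 76) (nat_lit 27941785885) (nat_lit 0) (nat_lit 1018964777) (nat_lit 1216) (nat_lit 32509911642) (nat_lit 189) (nat_lit 5) (nat_lit 188) (nat_lit 5) (nat_lit 204) (nat_lit 5) (nat_lit 317) (nat_lit 314) (nat_lit 149))))))) (XT.nd (nat_lit 1014) (nat_lit 4636) (nat_lit 0) (XT.nd (nat_lit 468) (nat_lit 3116) (nat_lit 0) (XT.nd (nat_lit 234) (nat_lit 0) (nat_lit 152) (XT.nd (nat_lit 78) (nat_lit 0) (nat_lit 76) (XT.lf (nat_lit 76) (nat_lit 13248221074) (nat_lit 0) (nat_lit 18885394243) (nat_lit 1216) (nat_lit 30914165638) (nat_lit 190) (nat_lit 5) (nat_lit 189) (nat_lit 5) (nat_lit 205) (nat_lit 5) (nat_lit 318) (nat_lit 314) (nat_lit 148)) (XT.nd (nat_lit 78) (nat_lit 0) (nat_lit 76) (XT.lf (nat_lit 0) (nat_lit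 36080509220) (nat_lit 1140) (nat_lit 1901720274) (nat_lit 1216) (nat_lit 26703066811) (nat_lit 190) (nat_lit 5) (nat_lit 205) (nat_lit 5) (nat_lit 206) (nat_lit 5) (nat_lit 319) (nat_lit 314) (nat_lit 147)) (XT.lf (nat_lit 0) (nat_lit 40965768855) (nat_lit 1140) (nat_lit 17305825350) (nat_lit 1216) (nat_lit 8110864822) (nat_lit 191) (nat_lit 5) (nat_lit 206) (nat_lit 5) (nat_lit 207) (nat_lit 5) (nat_lit 320) (nat_lit 314) (nat_lit 146)))) (XT.nd (nat_lit 78) (nat_lit 0) (nat_lit 76) (XT.lf (nat_lit 76) (nat_lit 34773612359) (nat_lit 0) (nat_lit 12057497620) (nat_lit 1216) (nat_lit 21311297481) (nat_lit 192) (nat_lit 5) (nat_lit 191) (nat_lit 5) (nat_lit 207) (nat_lit 5) (nat_lit 321) (nat_lit 314) (nat_lit 145)) (XT.nd (nat_lit 78) (nat_lit 0) (nat_lit 76) (XT.lf (nat_lit 76) (nat_lit 19867877711) (nat_lit 0) (nat_lit 33841768331) (nat_lit 1216) (nat_lit 16259111462) (nat_lit 193) (nat_lit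 5) (nat_lit 192) (nat_lit 5) (nat_lit 208) (nat_lit 5) (nat_lit 322) (nat_lit 314) (nat_lit 144)) (XT.lf (nat_lit 76) (nat_lit 4408267756) (nat_lit 0) (nat_lit 57172422083) (nat_lit 1216) (nat_lit 10286279716) (nat_lit 194) (nat_lit 5) (nat_lit 193) (nat_lit 5) (nat_lit 209) (nat_lit 5) (nat_lit 323) (nat_lit 314) (nat_lit 143))))) (XT.nd (nat_lit 234) (nat_lit 1672) (nat_lit 0) (XT.nd (nat_lit 78) (nat_lit 1748) (nat_lit 0) (XT.lf (nat_lit 76) (nat_lit 62340320736) (nat_lit 0) (nat_lit 8357543744) (nat_lit 1216) (nat_lit 3136652207) (nat_lit 194) (nat_lit 5) (nat_lit 193) (nat_lit 5) (nat_lit 209) (nat_lit 5) (nat_lit 324) (nat_lit 314) (nat_lit 142)) (XT.nd (nat_lit 78) (nat_lit 608) (nat_lit 0) (XT.lf (nat_lit 0) (nat_lit 5164193555) (nat_lit 1216) (nat_lit 28137411549) (nat_lit 76) (nat_lit 42571206822) (nat_lit 178) (nat_lit 5) (nat_lit 194) (nat_lit 5) (nat_lit 179) (nat_lit 5) (nat_lit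 325) (nat_lit 314) (nat_lit 141)) (XT.lf (nat_lit 0) (nat_lit 14508820085) (nat_lit 684) (nat_lit 45496383037) (nat_lit 76) (nat_lit 17986080467) (nat_lit 170) (nat_lit 5) (nat_lit 179) (nat_lit 5) (nat_lit 171) (nat_lit 5) (nat_lit 326) (nat_lit 314) (nat_lit 140)))) (XT.nd (nat_lit 156) (nat_lit 1064) (nat_lit 0) (XT.nd (nat_lit 78) (nat_lit 0) (nat_lit 0) (XT.lf (nat_lit 0) (nat_lit 16522111443) (nat_lit 608) (nat_lit 8584794430) (nat_lit 684) (nat_lit 55085187668) (nat_lit 162) (nat_lit 5) (nat_lit 170) (nat_lit 5) (nat_lit 171) (nat_lit 5) (nat_lit 327) (nat_lit 314) (nat_lit 139)) (XT.lf (nat_lit 0) (nat_lit 37143171828) (nat_lit 684) (nat_lit 338874632) (nat_lit 76) (nat_lit 44993650723) (nat_lit 162) (nat_lit 5) (nat_lit 171) (nat_lit 5) (nat_lit 163) (nat_lit 5) (nat_lit 328) (nat_lit 314) (nat_lit 138))) (XT.nd (nat_lit 78) (nat_lit 532) (nat_lit 0) (XT.lf (nat_lit 0) (nat_lit 50676707471)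 (nat_lit 608) (nat_lit 17627664204) (nat_lit 76) (nat_lit 16542247038) (nat_lit 155) (nat_lit 5) (nat_lit 163) (nat_lit 5) (nat_lit 156) (nat_lit 5) (nat_lit 329) (nat_lit 314) (nat_lit 137)) (XT.lf (nat_lit 0) (nat_lit 51450318446) (nat_lit 532) (nat_lit 14311929153) (nat_lit 608) (nat_lit 21547580224) (nat_lit 148) (nat_lit 5) (nat_lit 155) (nat_lit 5) (nat_lit 156) (nat_lit 5) (nat_lit 330) (nat_lit 314) (nat_lit 136)))))) (XT.nd (nat_lit 546) (nat_lit 1824) (nat_lit 0) (XT.nd (nat_lit 234) (nat_lit 1748) (nat_lit 0) (XT.nd (nat_lit 78) (nat_lit 608) (nat_lit 0) (XT.lf (nat_lit 0) (nat_lit 34727196496) (nat_lit 456) (nat_lit 47798287663) (nat_lit 532) (nat_lit 7343011914) (nat_lit 142) (nat_lit 5) (nat_lit 148) (nat_lit 5) (nat_lit 149) (nat_lit 5) (nat_lit 331) (nat_lit 314) (nat_lit 135)) (XT.nd (nat_lit 78) (nat_lit 0) (nat_lit 0) (XT.lf (nat_lit 0) (nat_lit 8192290515) (nat_lit 608)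 (nat_lit 75458050783) (nat_lit 76) (nat_lit 8879526318) (nat_lit 134) (nat_lit 5) (nat_lit 142) (nat_lit 5) (nat_lit 135) (nat_lit 5) (nat_lit 332) (nat_lit 314) (nat_lit 134)) (XT.lf (nat_lit 0) (nat_lit 25408620322) (nat_lit 608) (nat_lit 1822650995) (nat_lit 76) (nat_lit 68059172634) (nat_lit 134) (nat_lit 5) (nat_lit 142) (nat_lit 5) (nat_lit 135) (nat_lit 5) (nat_lit 333) (nat_lit 314) (nat_lit 133)))) (XT.nd (nat_lit 156) (nat_lit 836) (nat_lit 0) (XT.nd (nat_lit 78) (nat_lit 456) (nat_lit 0) (XT.lf (nat_lit 0) (nat_lit 44539984630) (nat_lit 532) (nat_lit 21485927891) (nat_lit 76) (nat_lit 32131511106) (nat_lit 128) (nat_lit 5) (nat_lit 135) (nat_lit 5) (nat_lit 129) (nat_lit 5) (nat_lit 334) (nat_lit 314) (nat_lit 132)) (XT.lf (nat_lit 0) (nat_lit 58833235427) (nat_lit 456) (nat_lit 6653127538) (nat_lit 532) (nat_lit 35655636960) (nat_lit 122) (nat_lit 5) (nat_lit 128) (nat_lit 5)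 (nat_lit 129) (nat_lit 5) (nat_lit 335) (nat_lit 314) (nat_lit 131))) (XT.nd (nat_lit 78) (nat_lit 456) (nat_lit 0) (XT.lf (nat_lit 0) (nat_lit 39582048426) (nat_lit 380) (nat_lit 49036313588) (nat_lit 456) (nat_lit 15623294936) (nat_lit 117) (nat_lit 5) (nat_lit 122) (nat_lit 5) (nat_lit 123) (nat_lit 5) (nat_lit 336) (nat_lit 314) (nat_lit 130)) (XT.lf (nat_lit 0) (nat_lit 6123086304) (nat_lit 456) (nat_lit 88382270801) (nat_lit 76) (nat_lit 12964840186) (nat_lit 111) (nat_lit 5) (nat_lit 117) (nat_lit 5) (nat_lit 112) (nat_lit 5) (nat_lit 337) (nat_lit 314) (nat_lit 129))))) (XT.nd (nat_lit 234) (nat_lit 1064) (nat_lit 0) (XT.nd (nat_lit 78) (nat_lit 760) (nat_lit 0) (XT.lf (nat_lit 0) (nat_lit 29803003636) (nat_lit 456) (nat_lit 3126380679) (nat_lit 76) (nat_lit 77891060679) (nat_lit 111) (nat_lit 5) (nat_lit 117) (nat_lit 5) (nat_lit 112) (nat_lit 5) (nat_lit 338) (nat_lit 314) (nat_lit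 128)) (XT.nd (nat_lit 78) (nat_lit 380) (nat_lit 0) (XT.lf (nat_lit 0) (nat_lit 55826465353) (nat_lit 456) (nat_lit 26515461901) (nat_lit 76) (nat_lit 31961492182) (nat_lit 106) (nat_lit 5) (nat_lit 112) (nat_lit 5) (nat_lit 107) (nat_lit 5) (nat_lit 339) (nat_lit 314) (nat_lit 127)) (XT.lf (nat_lit 0) (nat_lit 66314163759) (nat_lit 380) (nat_lit 17838507648) (nat_lit 456) (nat_lit 33777824828) (nat_lit 101) (nat_lit 5) (nat_lit 106) (nat_lit 5) (nat_lit 107) (nat_lit 5) (nat_lit 340) (nat_lit 314) (nat_lit 126)))) (XT.nd (nat_lit 156) (nat_lit 304) (nat_lit 0) (XT.nd (nat_lit 78) (nat_lit 456) (nat_lit 0) (XT.lf (nat_lit 0) (nat_lit 42963786868) (nat_lit 304) (nat_lit 72098902381) (nat_lit 380) (nat_lit 6641213314) (nat_lit 97) (nat_lit 5) (nat_lit 101) (nat_lit 5) (nat_lit 102) (nat_lit 5) (nat_lit 341) (nat_lit 314) (nat_lit 125)) (XT.lf (nat_lit 0) (nat_lit 17649614042) (nat_lit 380)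 (nat_lit 4661807259) (nat_lit 456) (nat_lit 103321688630) (nat_lit 91) (nat_lit 5) (nat_lit 96) (nat_lit 5) (nat_lit 97) (nat_lit 5) (nat_lit 342) (nat_lit 314) (nat_lit 124))) (XT.nd (nat_lit 78) (nat_lit 304) (nat_lit 0) (XT.lf (nat_lit 0) (nat_lit 54029364341) (nat_lit 456) (nat_lit 9942019650) (nat_lit 76) (nat_lit 65741770868) (nat_lit 91) (nat_lit 5) (nat_lit 97) (nat_lit 5) (nat_lit 92) (nat_lit 5) (nat_lit 343) (nat_lit 314) (nat_lit 123)) (XT.lf (nat_lit 0) (nat_lit 88353521252) (nat_lit 380) (nat_lit 39227516638) (nat_lit 76) (nat_lit 6385555260) (nat_lit 87) (nat_lit 5) (nat_lit 92) (nat_lit 5) (nat_lit 88) (nat_lit 5) (nat_lit 344) (nat_lit 314) (nat_lit 122))))))))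
noncomputable def xc121 : XT := (XT.nd (nat_lit 40092) (nat_lit 0) (nat_lit 304) (XT.nd (nat_lit 39078) (nat_lit 0) (nat_lit 3268) (XT.nd (nat_lit 38532) (nat_lit 0) (nat_lit 8664) (XT.nd (nat_lit 38298) (nat_lit 0) (nat_lit 8588) (XT.nd (nat_lit 78) (nat_lit 684) (nat_lit 0) (XT.lf (nat_lit 0) (nat_lit 67094037304) (nat_lit 304) (nat_lit 58693205174) (nat_lit 380) (nat_lit 12603660768) (nat_lit 83) (nat_lit 5) (nat_lit 87) (nat_lit 5) (nat_lit 88) (nat_lit 5) (nat_lit 345) (nat_lit 314) (nat_lit 121)) (XT.nd (nat_lit 78) (nat_lit 304) (nat_lit 0) (XT.lf (nat_lit 0) (nat_lit 22529770194) (nat_lit 380) (nat_lit 106115074727) (nat_lit 76) (nat_lit 14358105566) (nat_lit 78) (nat_lit 5) (nat_lit 83) (nat_lit 5) (nat_lit 79) (nat_lit 5) (nat_lit 346) (nat_lit 314) (nat_lit 120)) (XT.lf (nat_lit 0) (nat_lit 3488507876) (nat_lit 304) (nat_lit 57039673693) (nat_lit 380) (nat_lit 87272606218) (nat_lit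 74) (nat_lit 5) (nat_lit 78) (nat_lit 5) (nat_lit 79) (nat_lit 5) (nat_lit 347) (nat_lit 314) (nat_lit 119)))) (XT.nd (nat_lit 78) (nat_lit 0) (nat_lit 0) (XT.lf (nat_lit 0) (nat_lit 6330363498) (nat_lit 0) (nat_lit 6330363498) (nat_lit 1140) (nat_lit 17296743752) (nat_lit 187) (nat_lit 5) (nat_lit 187) (nat_lit 3) (nat_lit 202) (nat_lit 3) (nat_lit 315) (nat_lit 315) (nat_lit 150)) (XT.nd (nat_lit 78) (nat_lit 0) (nat_lit 76) (XT.lf (nat_lit 0) (nat_lit 26298207186) (nat_lit 1140) (nat_lit 2949238812) (nat_lit 1216) (nat_lit 32155019024) (nat_lit 187) (nat_lit 5) (nat_lit 202) (nat_lit 3) (nat_lit 203) (nat_lit 5) (nat_lit 316) (nat_lit 315) (nat_lit 149)) (XT.lf (nat_lit 0) (nat_lit 28033622248) (nat_lit 1140) (nat_lit 18798950839) (nat_lit 1216) (nat_lit 16110499377) (nat_lit 188) (nat_lit 5) (nat_lit 203) (nat_lit 5) (nat_lit 204) (nat_lit 5) (nat_lit 317) (nat_lit 315) (nat_lit 148)))))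 (XT.nd (nat_lit 234) (nat_lit 0) (nat_lit 228) (XT.nd (nat_lit 78) (nat_lit 0) (nat_lit 76) (XT.lf (nat_lit 76) (nat_lit 29370593768) (nat_lit 0) (nat_lit 1091675411) (nat_lit 1216) (nat_lit 34080249612) (nat_lit 189) (nat_lit 5) (nat_lit 188) (nat_lit 5) (nat_lit 204) (nat_lit 5) (nat_lit 318) (nat_lit 315) (nat_lit 147)) (XT.nd (nat_lit 78) (nat_lit 0) (nat_lit 76) (XT.lf (nat_lit 76) (nat_lit 13943273275) (nat_lit 0) (nat_lit 19848071613) (nat_lit 1216) (nat_lit 32407224889) (nat_lit 190) (nat_lit 5) (nat_lit 189) (nat_lit 5) (nat_lit 205) (nat_lit 5) (nat_lit 319) (nat_lit 315) (nat_lit 146)) (XT.lf (nat_lit 0) (nat_lit 37932984071) (nat_lit 1140) (nat_lit 1964026937) (nat_lit 1216) (nat_lit 28021031144) (nat_lit 190) (nat_lit 5) (nat_lit 205) (nat_lit 5) (nat_lit 206) (nat_lit 5) (nat_lit 320) (nat_lit 315) (nat_lit 145)))) (XT.nd (nat_lit 156) (nat_lit 0) (nat_lit 76) (XT.nd (nat_lit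 78) (nat_lit 0) (nat_lit 0) (XT.lf (nat_lit 0) (nat_lit 43060365209) (nat_lit 1140) (nat_lit 18137680635) (nat_lit 1216) (nat_lit 8502084528) (nat_lit 191) (nat_lit 5) (nat_lit 206) (nat_lit 5) (nat_lit 207) (nat_lit 5) (nat_lit 321) (nat_lit 315) (nat_lit 144)) (XT.lf (nat_lit 76) (nat_lit 36544770523) (nat_lit 0) (nat_lit 12672309922) (nat_lit 1216) (nat_lit 22331055539) (nat_lit 192) (nat_lit 5) (nat_lit 191) (nat_lit 5) (nat_lit 207) (nat_lit 5) (nat_lit 322) (nat_lit 315) (nat_lit 143))) (XT.nd (nat_lit 78) (nat_lit 0) (nat_lit 76) (XT.lf (nat_lit 76) (nat_lit 20894281592) (nat_lit 0) (nat_lit 35543354748) (nat_lit 1216) (nat_lit 17028227229) (nat_lit 193) (nat_lit 5) (nat_lit 192) (nat_lit 5) (nat_lit 208) (nat_lit 5) (nat_lit 323) (nat_lit 315) (nat_lit 142)) (XT.lf (nat_lit 76) (nat_lit 4662127232) (nat_lit 0) (nat_lit 60038315456) (nat_lit 1216) (nat_lit 10758599918) (nat_lit 194)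 (nat_lit 5) (nat_lit 193) (nat_lit 5) (nat_lit 209) (nat_lit 5) (nat_lit 324) (nat_lit 315) (nat_lit 141)))))) (XT.nd (nat_lit 468) (nat_lit 2888) (nat_lit 0) (XT.nd (nat_lit 234) (nat_lit 1140) (nat_lit 0) (XT.nd (nat_lit 78) (nat_lit 1748) (nat_lit 0) (XT.lf (nat_lit 76) (nat_lit 65489190191) (nat_lit 0) (nat_lit 8782346902) (nat_lit 1216) (nat_lit 3253490738) (nat_lit 194) (nat_lit 5) (nat_lit 193) (nat_lit 5) (nat_lit 209) (nat_lit 5) (nat_lit 325) (nat_lit 315) (nat_lit 140)) (XT.nd (nat_lit 78) (nat_lit 608) (nat_lit 0) (XT.lf (nat_lit 0) (nat_lit 5459997978) (nat_lit 1216) (nat_lit 29511301587) (nat_lit 76) (nat_lit 44693977672) (nat_lit 178) (nat_lit 5) (nat_lit 194) (nat_lit 5) (nat_lit 179) (nat_lit 5) (nat_lit 326) (nat_lit 315) (nat_lit 139)) (XT.lf (nat_lit 0) (nat_lit 15270334356) (nat_lit 684) (nat_lit 47737999278) (nat_lit 76) (nat_lit 18881386753) (nat_lit 170) (nat_lit 5)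 (nat_lit 179) (nat_lit 5) (nat_lit 171) (nat_lit 5) (nat_lit 327) (nat_lit 315) (nat_lit 138)))) (XT.nd (nat_lit 78) (nat_lit 532) (nat_lit 0) (XT.lf (nat_lit 0) (nat_lit 17380468172) (nat_lit 608) (nat_lit 9016448504) (nat_lit 684) (nat_lit 57803698543) (nat_lit 162) (nat_lit 5) (nat_lit 170) (nat_lit 5) (nat_lit 171) (nat_lit 5) (nat_lit 328) (nat_lit 315) (nat_lit 137)) (XT.nd (nat_lit 78) (nat_lit 532) (nat_lit 0) (XT.lf (nat_lit 0) (nat_lit 39033323087) (nat_lit 684) (nat_lit 324049446) (nat_lit 76) (nat_lit 47241078744) (nat_lit 162) (nat_lit 5) (nat_lit 171) (nat_lit 5) (nat_lit 163) (nat_lit 5) (nat_lit 329) (nat_lit 315) (nat_lit 136)) (XT.lf (nat_lit 0) (nat_lit 53242252795) (nat_lit 608) (nat_lit 18477190301) (nat_lit 76) (nat_lit 17368516222) (nat_lit 155) (nat_lit 5) (nat_lit 163) (nat_lit 5) (nat_lit 156) (nat_lit 5) (nat_lit 330) (nat_lit 315) (nat_lit 135))))) (XT.nd (nat_lit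 234) (nat_lit 1292) (nat_lit 0) (XT.nd (nat_lit 78) (nat_lit 1064) (nat_lit 0) (XT.lf (nat_lit 0) (nat_lit 54053778304) (nat_lit 532) (nat_lit 15027079080) (nat_lit 608) (nat_lit 22593509734) (nat_lit 148) (nat_lit 5) (nat_lit 155) (nat_lit 5) (nat_lit 156) (nat_lit 5) (nat_lit 331) (nat_lit 315) (nat_lit 134)) (XT.nd (nat_lit 78) (nat_lit 608) (nat_lit 0) (XT.lf (nat_lit 0) (nat_lit 36494533890) (nat_lit 456) (nat_lit 50186571489) (nat_lit 532) (nat_lit 7679899685) (nat_lit 142) (nat_lit 5) (nat_lit 148) (nat_lit 5) (nat_lit 149) (nat_lit 5) (nat_lit 332) (nat_lit 315) (nat_lit 133)) (XT.lf (nat_lit 0) (nat_lit 8630480030) (nat_lit 608) (nat_lit 79199387947) (nat_lit 76) (nat_lit 9325603035) (nat_lit 134) (nat_lit 5) (nat_lit 142) (nat_lit 5) (nat_lit 135) (nat_lit 5) (nat_lit 333) (nat_lit 315) (nat_lit 132)))) (XT.nd (nat_lit 156) (nat_lit 836) (nat_lit 0) (XT.nd (nat_lit 78) (nat_lit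 456) (nat_lit 0) (XT.lf (nat_lit 0) (nat_lit 26706265613) (nat_lit 608) (nat_lit 1883721283) (nat_lit 76) (nat_lit 71464131647) (nat_lit 134) (nat_lit 5) (nat_lit 142) (nat_lit 5) (nat_lit 135) (nat_lit 5) (nat_lit 334) (nat_lit 315) (nat_lit 131)) (XT.lf (nat_lit 0) (nat_lit 46793211764) (nat_lit 532) (nat_lit 22530236942) (nat_lit 76) (nat_lit 33741029573) (nat_lit 128) (nat_lit 5) (nat_lit 135) (nat_lit 5) (nat_lit 129) (nat_lit 5) (nat_lit 335) (nat_lit 315) (nat_lit 130))) (XT.nd (nat_lit 78) (nat_lit 380) (nat_lit 0) (XT.lf (nat_lit 0) (nat_lit 61804024961) (nat_lit 456) (nat_lit 6981915101) (nat_lit 532) (nat_lit 37412373813) (nat_lit 122) (nat_lit 5) (nat_lit 128) (nat_lit 5) (nat_lit 129) (nat_lit 5) (nat_lit 336) (nat_lit 315) (nat_lit 129)) (XT.lf (nat_lit 0) (nat_lit 41590171060) (nat_lit 380) (nat_lit 51483479575) (nat_lit 456) (nat_lit 16379331115) (nat_lit 117) (nat_lit 5)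 (nat_lit 122) (nat_lit 5) (nat_lit 123) (nat_lit 5) (nat_lit 337) (nat_lit 315) (nat_lit 128))))))) (XT.nd (nat_lit 39156) (nat_lit 0) (nat_lit 5320) (XT.nd (nat_lit 468) (nat_lit 988) (nat_lit 0) (XT.nd (nat_lit 234) (nat_lit 1140) (nat_lit 0) (XT.nd (nat_lit 78) (nat_lit 380) (nat_lit 0) (XT.lf (nat_lit 0) (nat_lit 6453028951) (nat_lit 456) (nat_lit 92772004747) (nat_lit 76) (nat_lit 13617934906) (nat_lit 111) (nat_lit 5) (nat_lit 117) (nat_lit 5) (nat_lit 112) (nat_lit 5) (nat_lit 338) (nat_lit 315) (nat_lit 127)) (XT.nd (nat_lit 78) (nat_lit 380) (nat_lit 0) (XT.lf (nat_lit 0) (nat_lit 31315809372) (nat_lit 456) (nat_lit 3254719147) (nat_lit 76) (nat_lit 81790235342) (nat_lit 111) (nat_lit 5) (nat_lit 117) (nat_lit 5) (nat_lit 112) (nat_lit 5) (nat_lit 339) (nat_lit 315) (nat_lit 126)) (XT.lf (nat_lit 0) (nat_lit 58639677932) (nat_lit 456) (nat_lit 27813430098) (nat_lit 76) (nat_lit 33564803112)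 (nat_lit 106) (nat_lit 5) (nat_lit 112) (nat_lit 5) (nat_lit 107) (nat_lit 5) (nat_lit 340) (nat_lit 315) (nat_lit 125)))) (XT.nd (nat_lit 78) (nat_lit 760) (nat_lit 0) (XT.lf (nat_lit 0) (nat_lit 69656879824) (nat_lit 380) (nat_lit 18724531733) (nat_lit 456) (nat_lit 35444954782) (nat_lit 101) (nat_lit 5) (nat_lit 106) (nat_lit 5) (nat_lit 107) (nat_lit 5) (nat_lit 341) (nat_lit 315) (nat_lit 124)) (XT.nd (nat_lit 78) (nat_lit 456) (nat_lit 0) (XT.lf (nat_lit 0) (nat_lit 45138790754) (nat_lit 304) (nat_lit 75697446246) (nat_lit 380) (nat_lit 6952227806) (nat_lit 97) (nat_lit 5) (nat_lit 101) (nat_lit 5) (nat_lit 102) (nat_lit 5) (nat_lit 342) (nat_lit 315) (nat_lit 123)) (XT.lf (nat_lit 0) (nat_lit 18558558887) (nat_lit 380) (nat_lit 4888340713) (nat_lit 456) (nat_lit 108467249667) (nat_lit 91) (nat_lit 5) (nat_lit 96) (nat_lit 5) (nat_lit 97) (nat_lit 5) (nat_lit 343) (nat_lit 315) (nat_lit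 122))))) (XT.nd (nat_lit 234) (nat_lit 380) (nat_lit 0) (XT.nd (nat_lit 78) (nat_lit 608) (nat_lit 0) (XT.lf (nat_lit 0) (nat_lit 56749851856) (nat_lit 456) (nat_lit 10413389895) (nat_lit 76) (nat_lit 69034982231) (nat_lit 91) (nat_lit 5) (nat_lit 97) (nat_lit 5) (nat_lit 92) (nat_lit 5) (nat_lit 344) (nat_lit 315) (nat_lit 121)) (XT.nd (nat_lit 78) (nat_lit 304) (nat_lit 0) (XT.lf (nat_lit 0) (nat_lit 92789615003) (nat_lit 380) (nat_lit 41163395322) (nat_lit 76) (nat_lit 6711342770) (nat_lit 87) (nat_lit 5) (nat_lit 92) (nat_lit 5) (nat_lit 88) (nat_lit 5) (nat_lit 345) (nat_lit 315) (nat_lit 120)) (XT.lf (nat_lit 0) (nat_lit 70473505446) (nat_lit 304) (nat_lit 61620877880) (nat_lit 380) (nat_lit 13215515358) (nat_lit 83) (nat_lit 5) (nat_lit 87) (nat_lit 5) (nat_lit 88) (nat_lit 5) (nat_lit 346) (nat_lit 315) (nat_lit 119)))) (XT.nd (nat_lit 38298) (nat_lit 0) (nat_lit 8284) (XT.nd (nat_lit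 38220) (nat_lit 0) (nat_lit 8284) (XT.lf (nat_lit 0) (nat_lit 23673676434) (nat_lit 380) (nat_lit 111395941605) (nat_lit 76) (nat_lit 15082942310) (nat_lit 78) (nat_lit 5) (nat_lit 83) (nat_lit 5) (nat_lit 79) (nat_lit 5) (nat_lit 347) (nat_lit 315) (nat_lit 118)) (XT.lf (nat_lit 0) (nat_lit 6660895192) (nat_lit 0) (nat_lit 6660895192) (nat_lit 1140) (nat_lit 18132675184) (nat_lit 187) (nat_lit 5) (nat_lit 187) (nat_lit 3) (nat_lit 202) (nat_lit 3) (nat_lit 316) (nat_lit 316) (nat_lit 148))) (XT.nd (nat_lit 78) (nat_lit 0) (nat_lit 76) (XT.lf (nat_lit 0) (nat_lit 27666245799) (nat_lit 1140) (nat_lit 3068078006) (nat_lit 1216) (nat_lit 33736598422) (nat_lit 187) (nat_lit 5) (nat_lit 202) (nat_lit 3) (nat_lit 203) (nat_lit 5) (nat_lit 317) (nat_lit 316) (nat_lit 147)) (XT.lf (nat_lit 0) (nat_lit 29485947251) (nat_lit 1140) (nat_lit 19709279672) (nat_lit 1216) (nat_lit 16893411086) (nat_lit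 188) (nat_lit 5) (nat_lit 203) (nat_lit 5) (nat_lit 204) (nat_lit 5) (nat_lit 318) (nat_lit 316) (nat_lit 146)))))) (XT.nd (nat_lit 546) (nat_lit 3040) (nat_lit 0) (XT.nd (nat_lit 234) (nat_lit 0) (nat_lit 228) (XT.nd (nat_lit 78) (nat_lit 0) (nat_lit 76) (XT.lf (nat_lit 76) (nat_lit 30867893152) (nat_lit 0) (nat_lit 1165998315) (nat_lit 1216) (nat_lit 35734232512) (nat_lit 189) (nat_lit 5) (nat_lit 188) (nat_lit 5) (nat_lit 204) (nat_lit 5) (nat_lit 319) (nat_lit 316) (nat_lit 145)) (XT.nd (nat_lit 78) (nat_lit 0) (nat_lit 76) (XT.lf (nat_lit 76) (nat_lit 14670043421) (nat_lit 0) (nat_lit 20857171482) (nat_lit 1216) (nat_lit 33979831911) (nat_lit 190) (nat_lit 5) (nat_lit 189) (nat_lit 5) (nat_lit 205) (nat_lit 5) (nat_lit 320) (nat_lit 316) (nat_lit 144)) (XT.lf (nat_lit 0) (nat_lit 39873578299) (nat_lit 1140) (nat_lit 2032496446) (nat_lit 1216) (nat_lit 29406491765) (nat_lit 190) (nat_lit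 5) (nat_lit 205) (nat_lit 5) (nat_lit 206) (nat_lit 5) (nat_lit 321) (nat_lit 316) (nat_lit 143)))) (XT.nd (nat_lit 156) (nat_lit 0) (nat_lit 76) (XT.nd (nat_lit 78) (nat_lit 0) (nat_lit 0) (XT.lf (nat_lit 0) (nat_lit 45255386111) (nat_lit 1140) (nat_lit 19014237245) (nat_lit 1216) (nat_lit 8914196885) (nat_lit 191) (nat_lit 5) (nat_lit 206) (nat_lit 5) (nat_lit 207) (nat_lit 5) (nat_lit 322) (nat_lit 316) (nat_lit 142)) (XT.lf (nat_lit 76) (nat_lit 38401467142) (nat_lit 0) (nat_lit 13316753010) (nat_lit 1216) (nat_lit 23406060185) (nat_lit 192) (nat_lit 5) (nat_lit 191) (nat_lit 5) (nat_lit 207) (nat_lit 5) (nat_lit 323) (nat_lit 316) (nat_lit 141))) (XT.nd (nat_lit 78) (nat_lit 0) (nat_lit 76) (XT.lf (nat_lit 76) (nat_lit 21968936711) (nat_lit 0) (nat_lit 37329137452) (nat_lit 1216) (nat_lit 17839874595) (nat_lit 193) (nat_lit 5) (nat_lit 192) (nat_lit 5) (nat_lit 208) (nat_lit 5) (nat_lit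 324) (nat_lit 316) (nat_lit 140)) (XT.lf (nat_lit 76) (nat_lit 4925570181) (nat_lit 0) (nat_lit 63046827391) (nat_lit 1216) (nat_lit 11258440314) (nat_lit 194) (nat_lit 5) (nat_lit 193) (nat_lit 5) (nat_lit 209) (nat_lit 5) (nat_lit 325) (nat_lit 316) (nat_lit 139))))) (XT.nd (nat_lit 234) (nat_lit 1672) (nat_lit 0) (XT.nd (nat_lit 78) (nat_lit 1748) (nat_lit 0) (XT.lf (nat_lit 76) (nat_lit 68792541688) (nat_lit 0) (nat_lit 9227746306) (nat_lit 1216) (nat_lit 3379889465) (nat_lit 194) (nat_lit 5) (nat_lit 193) (nat_lit 5) (nat_lit 209) (nat_lit 5) (nat_lit 326) (nat_lit 316) (nat_lit 138)) (XT.nd (nat_lit 78) (nat_lit 608) (nat_lit 0) (XT.lf (nat_lit 0) (nat_lit 5767097418) (nat_lit 1216) (nat_lit 30956952344) (nat_lit 76) (nat_lit 46923425317) (nat_lit 178) (nat_lit 5) (nat_lit 194) (nat_lit 5) (nat_lit 179) (nat_lit 5) (nat_lit 327) (nat_lit 316) (nat_lit 137)) (XT.lf (nat_lit 0) (nat_lit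 16066570590) (nat_lit 684) (nat_lit 50094783222) (nat_lit 76) (nat_lit 19821830025) (nat_lit 170) (nat_lit 5) (nat_lit 179) (nat_lit 5) (nat_lit 171) (nat_lit 5) (nat_lit 328) (nat_lit 316) (nat_lit 136)))) (XT.nd (nat_lit 156) (nat_lit 1064) (nat_lit 0) (XT.nd (nat_lit 78) (nat_lit 0) (nat_lit 0) (XT.lf (nat_lit 0) (nat_lit 18278744331) (nat_lit 608) (nat_lit 9469460819) (nat_lit 684) (nat_lit 60661458519) (nat_lit 162) (nat_lit 5) (nat_lit 170) (nat_lit 5) (nat_lit 171) (nat_lit 5) (nat_lit 329) (nat_lit 316) (nat_lit 135)) (XT.lf (nat_lit 0) (nat_lit 41014914564) (nat_lit 684) (nat_lit 311436573) (nat_lit 76) (nat_lit 49601087770) (nat_lit 162) (nat_lit 5) (nat_lit 171) (nat_lit 5) (nat_lit 163) (nat_lit 5) (nat_lit 330) (nat_lit 316) (nat_lit 134))) (XT.nd (nat_lit 78) (nat_lit 532) (nat_lit 0) (XT.lf (nat_lit 0) (nat_lit 55933127295) (nat_lit 608) (nat_lit 19372154476) (nat_lit 76) (nat_lit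 18236177254) (nat_lit 155) (nat_lit 5) (nat_lit 163) (nat_lit 5) (nat_lit 156) (nat_lit 5) (nat_lit 331) (nat_lit 316) (nat_lit 133)) (XT.lf (nat_lit 0) (nat_lit 56784534281) (nat_lit 532) (nat_lit 15778028018) (nat_lit 608) (nat_lit 23694659596) (nat_lit 148) (nat_lit 5) (nat_lit 155) (nat_lit 5) (nat_lit 156) (nat_lit 5) (nat_lit 332) (nat_lit 316) (nat_lit 132))))))))
noncomputable def xc122 : XT := (XT.nd (nat_lit 40326) (nat_lit 0) (nat_lit 304) (XT.nd (nat_lit 1014) (nat_lit 304) (nat_lit 0) (XT.nd (nat_lit 468) (nat_lit 1976) (nat_lit 0) (XT.nd (nat_lit 234) (nat_lit 1292) (nat_lit 0) (XT.nd (nat_lit 78) (nat_lit 608) (nat_lit 0) (XT.lf (nat_lit 0) (nat_lit 38347358152) (nat_lit 456) (nat_lit 52694421099) (nat_lit 532) (nat_lit 8036445394) (nat_lit 142) (nat_lit 5) (nat_lit 148) (nat_lit 5) (nat_lit 149) (nat_lit 5) (nat_lit 333) (nat_lit 316) (nat_lit 131)) (XT.nd (nat_lit 78) (nat_lit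 0) (nat_lit 0) (XT.lf (nat_lit 0) (nat_lit 9087922389) (nat_lit 608) (nat_lit 83130726620) (nat_lit 76) (nat_lit 9793788311) (nat_lit 134) (nat_lit 5) (nat_lit 142) (nat_lit 5) (nat_lit 135) (nat_lit 5) (nat_lit 334) (nat_lit 316) (nat_lit 130)) (XT.lf (nat_lit 0) (nat_lit 28066263044) (nat_lit 608) (nat_lit 1950639990) (nat_lit 76) (nat_lit 75039152634) (nat_lit 134) (nat_lit 5) (nat_lit 142) (nat_lit 5) (nat_lit 135) (nat_lit 5) (nat_lit 335) (nat_lit 316) (nat_lit 129)))) (XT.nd (nat_lit 78) (nat_lit 836) (nat_lit 0) (XT.lf (nat_lit 0) (nat_lit 49156661833) (nat_lit 532) (nat_lit 23629549384) (nat_lit 76) (nat_lit 35430750360) (nat_lit 128) (nat_lit 5) (nat_lit 135) (nat_lit 5) (nat_lit 129) (nat_lit 5) (nat_lit 336) (nat_lit 316) (nat_lit 128)) (XT.nd (nat_lit 78) (nat_lit 380) (nat_lit 0) (XT.lf (nat_lit 0) (nat_lit 64920645949) (nat_lit 456) (nat_lit 7327501728) (nat_lit 532) (nat_lit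 39259368925) (nat_lit 122) (nat_lit 5) (nat_lit 128) (nat_lit 5) (nat_lit 129) (nat_lit 5) (nat_lit 337) (nat_lit 316) (nat_lit 127)) (XT.lf (nat_lit 0) (nat_lit 43696001802) (nat_lit 380) (nat_lit 54053436146) (nat_lit 456) (nat_lit 17175505320) (nat_lit 117) (nat_lit 5) (nat_lit 122) (nat_lit 5) (nat_lit 123) (nat_lit 5) (nat_lit 338) (nat_lit 316) (nat_lit 126))))) (XT.nd (nat_lit 234) (nat_lit 1140) (nat_lit 0) (XT.nd (nat_lit 78) (nat_lit 380) (nat_lit 0) (XT.lf (nat_lit 0) (nat_lit 6797257117) (nat_lit 456) (nat_lit 97383956827) (nat_lit 76) (nat_lit 14303233202) (nat_lit 111) (nat_lit 5) (nat_lit 117) (nat_lit 5) (nat_lit 112) (nat_lit 5) (nat_lit 339) (nat_lit 316) (nat_lit 125)) (XT.nd (nat_lit 78) (nat_lit 380) (nat_lit 0) (XT.lf (nat_lit 0) (nat_lit 32902149096) (nat_lit 456) (nat_lit 3392075907) (nat_lit 76) (nat_lit 85883939063) (nat_lit 111) (nat_lit 5) (nat_lit 117) (nat_lit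 5) (nat_lit 112) (nat_lit 5) (nat_lit 340) (nat_lit 316) (nat_lit 124)) (XT.lf (nat_lit 0) (nat_lit 61591516080) (nat_lit 456) (nat_lit 29178881741) (nat_lit 76) (nat_lit 35247792765) (nat_lit 106) (nat_lit 5) (nat_lit 112) (nat_lit 5) (nat_lit 107) (nat_lit 5) (nat_lit 341) (nat_lit 316) (nat_lit 123)))) (XT.nd (nat_lit 156) (nat_lit 456) (nat_lit 0) (XT.nd (nat_lit 78) (nat_lit 304) (nat_lit 0) (XT.lf (nat_lit 0) (nat_lit 73164220755) (nat_lit 380) (nat_lit 19655405669) (nat_lit 456) (nat_lit 37197464391) (nat_lit 101) (nat_lit 5) (nat_lit 106) (nat_lit 5) (nat_lit 107) (nat_lit 5) (nat_lit 342) (nat_lit 316) (nat_lit 122)) (XT.lf (nat_lit 0) (nat_lit 47420051871) (nat_lit 304) (nat_lit 79476512432) (nat_lit 380) (nat_lit 7280749697) (nat_lit 97) (nat_lit 5) (nat_lit 101) (nat_lit 5) (nat_lit 102) (nat_lit 5) (nat_lit 343) (nat_lit 316) (nat_lit 121))) (XT.nd (nat_lit 78) (nat_lit 0) (nat_lit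 0) (XT.lf (nat_lit 0) (nat_lit 19510490589) (nat_lit 380) (nat_lit 5126810439) (nat_lit 456) (nat_lit 113871996827) (nat_lit 91) (nat_lit 5) (nat_lit 96) (nat_lit 5) (nat_lit 97) (nat_lit 5) (nat_lit 344) (nat_lit 316) (nat_lit 120)) (XT.lf (nat_lit 0) (nat_lit 59604595513) (nat_lit 456) (nat_lit 10910720853) (nat_lit 76) (nat_lit 72492284920) (nat_lit 91) (nat_lit 5) (nat_lit 97) (nat_lit 5) (nat_lit 92) (nat_lit 5) (nat_lit 345) (nat_lit 316) (nat_lit 119)))))) (XT.nd (nat_lit 38766) (nat_lit 0) (nat_lit 6916) (XT.nd (nat_lit 38532) (nat_lit 0) (nat_lit 7676) (XT.nd (nat_lit 38376) (nat_lit 0) (nat_lit 7600) (XT.lf (nat_lit 0) (nat_lit 97445801138) (nat_lit 380) (nat_lit 43198438424) (nat_lit 76) (nat_lit 7052814441) (nat_lit 87) (nat_lit 5) (nat_lit 92) (nat_lit 5) (nat_lit 88) (nat_lit 5) (nat_lit 346) (nat_lit 316) (nat_lit 118)) (XT.nd (nat_lit 78) (nat_lit 0) (nat_lit 0) (XT.lf (nat_lit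 0) (nat_lit 7006650627) (nat_lit 0) (nat_lit 7006650627) (nat_lit 1140) (nat_lit 19013090571) (nat_lit 187) (nat_lit 5) (nat_lit 187) (nat_lit 3) (nat_lit 202) (nat_lit 3) (nat_lit 317) (nat_lit 317) (nat_lit 146)) (XT.lf (nat_lit 0) (nat_lit 29097746981) (nat_lit 1140) (nat_lit 3195520231) (nat_lit 1216) (nat_lit 35399689972) (nat_lit 187) (nat_lit 5) (nat_lit 202) (nat_lit 3) (nat_lit 203) (nat_lit 5) (nat_lit 318) (nat_lit 317) (nat_lit 145)))) (XT.nd (nat_lit 78) (nat_lit 0) (nat_lit 0) (XT.lf (nat_lit 0) (nat_lit 31006180115) (nat_lit 1140) (nat_lit 20667878613) (nat_lit 1216) (nat_lit 17717570748) (nat_lit 188) (nat_lit 5) (nat_lit 203) (nat_lit 5) (nat_lit 204) (nat_lit 5) (nat_lit 319) (nat_lit 317) (nat_lit 144)) (XT.nd (nat_lit 78) (nat_lit 0) (nat_lit 76) (XT.lf (nat_lit 76) (nat_lit 32437382771) (nat_lit 0) (nat_lit 1242202207) (nat_lit 1216) (nat_lit 37475565833) (nat_lit 189)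 (nat_lit 5) (nat_lit 188) (nat_lit 5) (nat_lit 204) (nat_lit 5) (nat_lit 320) (nat_lit 317) (nat_lit 143)) (XT.lf (nat_lit 76) (nat_lit 15430399545) (nat_lit 0) (nat_lit 21915174082) (nat_lit 1216) (nat_lit 35635509019) (nat_lit 190) (nat_lit 5) (nat_lit 189) (nat_lit 5) (nat_lit 205) (nat_lit 5) (nat_lit 321) (nat_lit 317) (nat_lit 142))))) (XT.nd (nat_lit 234) (nat_lit 912) (nat_lit 0) (XT.nd (nat_lit 78) (nat_lit 0) (nat_lit 76) (XT.lf (nat_lit 0) (nat_lit 41907116647) (nat_lit 1140) (nat_lit 2107153616) (nat_lit 1216) (nat_lit 30862674914) (nat_lit 190) (nat_lit 5) (nat_lit 205) (nat_lit 5) (nat_lit 206) (nat_lit 5) (nat_lit 322) (nat_lit 317) (nat_lit 141)) (XT.nd (nat_lit 78) (nat_lit 0) (nat_lit 0) (XT.lf (nat_lit 0) (nat_lit 47556253051) (nat_lit 1140) (nat_lit 19937441242) (nat_lit 1216) (nat_lit 9348122722) (nat_lit 191) (nat_lit 5) (nat_lit 206) (nat_lit 5) (nat_lit 207) (nat_lit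 5) (nat_lit 323) (nat_lit 317) (nat_lit 140)) (XT.lf (nat_lit 76) (nat_lit 40348259857) (nat_lit 0) (nat_lit 13992411606) (nat_lit 1216) (nat_lit 24538677814) (nat_lit 192) (nat_lit 5) (nat_lit 191) (nat_lit 5) (nat_lit 207) (nat_lit 5) (nat_lit 324) (nat_lit 317) (nat_lit 139)))) (XT.nd (nat_lit 156) (nat_lit 1064) (nat_lit 0) (XT.nd (nat_lit 78) (nat_lit 0) (nat_lit 76) (XT.lf (nat_lit 76) (nat_lit 23094540951) (nat_lit 0) (nat_lit 39203408353) (nat_lit 1216) (nat_lit 18695801208) (nat_lit 193) (nat_lit 5) (nat_lit 192) (nat_lit 5) (nat_lit 208) (nat_lit 5) (nat_lit 325) (nat_lit 317) (nat_lit 138)) (XT.lf (nat_lit 76) (nat_lit 5199364869) (nat_lit 0) (nat_lit 66205151674) (nat_lit 1216) (nat_lit 11786813940) (nat_lit 194) (nat_lit 5) (nat_lit 193) (nat_lit 5) (nat_lit 209) (nat_lit 5) (nat_lit 326) (nat_lit 317) (nat_lit 137))) (XT.nd (nat_lit 78) (nat_lit 1140) (nat_lit 0) (XT.lf (nat_lit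 76) (nat_lit 72258374658) (nat_lit 0) (nat_lit 9694831635) (nat_lit 1216) (nat_lit 3515980710) (nat_lit 194) (nat_lit 5) (nat_lit 193) (nat_lit 5) (nat_lit 209) (nat_lit 5) (nat_lit 327) (nat_lit 317) (nat_lit 136)) (XT.lf (nat_lit 0) (nat_lit 6086381578) (nat_lit 1216) (nat_lit 32477666789) (nat_lit 76) (nat_lit 49264833555) (nat_lit 178) (nat_lit 5) (nat_lit 194) (nat_lit 5) (nat_lit 179) (nat_lit 5) (nat_lit 328) (nat_lit 317) (nat_lit 135))))))) (XT.nd (nat_lit 1014) (nat_lit 1520) (nat_lit 0) (XT.nd (nat_lit 468) (nat_lit 2356) (nat_lit 0) (XT.nd (nat_lit 234) (nat_lit 1520) (nat_lit 0) (XT.nd (nat_lit 78) (nat_lit 608) (nat_lit 0) (XT.lf (nat_lit 0) (nat_lit 16899576685) (nat_lit 684) (nat_lit 52572206265) (nat_lit 76) (nat_lit 20809632577) (nat_lit 170) (nat_lit 5) (nat_lit 179) (nat_lit 5) (nat_lit 171) (nat_lit 5) (nat_lit 329) (nat_lit 317) (nat_lit 134)) (XT.nd (nat_lit 78) (nat_lit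 0) (nat_lit 0) (XT.lf (nat_lit 0) (nat_lit 19219214654) (nat_lit 608) (nat_lit 9944920154) (nat_lit 684) (nat_lit 63665121059) (nat_lit 162) (nat_lit 5) (nat_lit 170) (nat_lit 5) (nat_lit 171) (nat_lit 5) (nat_lit 330) (nat_lit 317) (nat_lit 133)) (XT.lf (nat_lit 0) (nat_lit 43092803442) (nat_lit 684) (nat_lit 300872035) (nat_lit 76) (nat_lit 52079287364) (nat_lit 162) (nat_lit 5) (nat_lit 171) (nat_lit 5) (nat_lit 163) (nat_lit 5) (nat_lit 331) (nat_lit 317) (nat_lit 132)))) (XT.nd (nat_lit 78) (nat_lit 988) (nat_lit 0) (XT.lf (nat_lit 0) (nat_lit 58755871515) (nat_lit 608) (nat_lit 20314553274) (nat_lit 76) (nat_lit 19147292440) (nat_lit 155) (nat_lit 5) (nat_lit 163) (nat_lit 5) (nat_lit 156) (nat_lit 5) (nat_lit 332) (nat_lit 317) (nat_lit 131)) (XT.nd (nat_lit 78) (nat_lit 456) (nat_lit 0) (XT.lf (nat_lit 0) (nat_lit 59649218647) (nat_lit 532) (nat_lit 16566562057) (nat_lit 608) (nat_lit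 24853518993) (nat_lit 148) (nat_lit 5) (nat_lit 155) (nat_lit 5) (nat_lit 156) (nat_lit 5) (nat_lit 333) (nat_lit 317) (nat_lit 130)) (XT.lf (nat_lit 0) (nat_lit 40290211382) (nat_lit 456) (nat_lit 55327800691) (nat_lit 532) (nat_lit 8413370363) (nat_lit 142) (nat_lit 5) (nat_lit 148) (nat_lit 5) (nat_lit 149) (nat_lit 5) (nat_lit 334) (nat_lit 317) (nat_lit 129))))) (XT.nd (nat_lit 234) (nat_lit 1292) (nat_lit 0) (XT.nd (nat_lit 78) (nat_lit 456) (nat_lit 0) (XT.lf (nat_lit 0) (nat_lit 9565827222) (nat_lit 608) (nat_lit 87261294040) (nat_lit 76) (nat_lit 10285205731) (nat_lit 134) (nat_lit 5) (nat_lit 142) (nat_lit 5) (nat_lit 135) (nat_lit 5) (nat_lit 335) (nat_lit 317) (nat_lit 128)) (XT.nd (nat_lit 78) (nat_lit 456) (nat_lit 0) (XT.lf (nat_lit 0) (nat_lit 29491965448) (nat_lit 608) (nat_lit 2023439693) (nat_lit 76) (nat_lit 78792755984) (nat_lit 134) (nat_lit 5) (nat_lit 142) (nat_lit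 5) (nat_lit 135) (nat_lit 5) (nat_lit 336) (nat_lit 317) (nat_lit 127)) (XT.lf (nat_lit 0) (nat_lit 51636072685) (nat_lit 532) (nat_lit 24786356191) (nat_lit 76) (nat_lit 37204709019) (nat_lit 128) (nat_lit 5) (nat_lit 135) (nat_lit 5) (nat_lit 129) (nat_lit 5) (nat_lit 337) (nat_lit 317) (nat_lit 126)))) (XT.nd (nat_lit 156) (nat_lit 456) (nat_lit 0) (XT.nd (nat_lit 78) (nat_lit 380) (nat_lit 0) (XT.lf (nat_lit 0) (nat_lit 68190641729) (nat_lit 456) (nat_lit 7690693931) (nat_lit 532) (nat_lit 41200910089) (nat_lit 122) (nat_lit 5) (nat_lit 128) (nat_lit 5) (nat_lit 129) (nat_lit 5) (nat_lit 338) (nat_lit 317) (nat_lit 125)) (XT.lf (nat_lit 0) (nat_lit 45904676893) (nat_lit 380) (nat_lit 56752282640) (nat_lit 456) (nat_lit 18013607251) (nat_lit 117) (nat_lit 5) (nat_lit 122) (nat_lit 5) (nat_lit 123) (nat_lit 5) (nat_lit 339) (nat_lit 317) (nat_lit 124))) (XT.nd (nat_lit 78) (nat_lit 0) (nat_lit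 0) (XT.lf (nat_lit 0) (nat_lit 7156690692) (nat_lit 456) (nat_lit 102228984003) (nat_lit 76) (nat_lit 15022387199) (nat_lit 111) (nat_lit 5) (nat_lit 117) (nat_lit 5) (nat_lit 112) (nat_lit 5) (nat_lit 340) (nat_lit 317) (nat_lit 123)) (XT.lf (nat_lit 0) (nat_lit 34565895332) (nat_lit 456) (nat_lit 3538660021) (nat_lit 76) (nat_lit 90181938241) (nat_lit 111) (nat_lit 5) (nat_lit 117) (nat_lit 5) (nat_lit 112) (nat_lit 5) (nat_lit 341) (nat_lit 317) (nat_lit 122)))))) (XT.nd (nat_lit 38922) (nat_lit 0) (nat_lit 7372) (XT.nd (nat_lit 234) (nat_lit 456) (nat_lit 0) (XT.nd (nat_lit 78) (nat_lit 684) (nat_lit 0) (XT.lf (nat_lit 0) (nat_lit 64689100274) (nat_lit 456) (nat_lit 30614950670) (nat_lit 76) (nat_lit 37014490337) (nat_lit 106) (nat_lit 5) (nat_lit 112) (nat_lit 5) (nat_lit 107) (nat_lit 5) (nat_lit 342) (nat_lit 317) (nat_lit 121)) (XT.nd (nat_lit 78) (nat_lit 304) (nat_lit 0) (XT.lf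 (nat_lit 0) (nat_lit 76844651239) (nat_lit 380) (nat_lit 20633320941) (nat_lit 456) (nat_lit 39039434545) (nat_lit 101) (nat_lit 5) (nat_lit 106) (nat_lit 5) (nat_lit 107) (nat_lit 5) (nat_lit 343) (nat_lit 317) (nat_lit 120)) (XT.lf (nat_lit 0) (nat_lit 49813114855) (nat_lit 304) (nat_lit 83445071725) (nat_lit 380) (nat_lit 7627472444) (nat_lit 97) (nat_lit 5) (nat_lit 101) (nat_lit 5) (nat_lit 102) (nat_lit 5) (nat_lit 344) (nat_lit 317) (nat_lit 119)))) (XT.nd (nat_lit 38532) (nat_lit 0) (nat_lit 7296) (XT.nd (nat_lit 78) (nat_lit 0) (nat_lit 0) (XT.lf (nat_lit 0) (nat_lit 20507787234) (nat_lit 380) (nat_lit 5377756575) (nat_lit 456) (nat_lit 119548712022) (nat_lit 91) (nat_lit 5) (nat_lit 96) (nat_lit 5) (nat_lit 97) (nat_lit 5) (nat_lit 345) (nat_lit 317) (nat_lit 118)) (XT.lf (nat_lit 0) (nat_lit 62600472512) (nat_lit 456) (nat_lit 11435088155) (nat_lit 76) (nat_lit 76121936425) (nat_lit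 91) (nat_lit 5) (nat_lit 97) (nat_lit 5) (nat_lit 92) (nat_lit 5) (nat_lit 346) (nat_lit 317) (nat_lit 117))) (XT.nd (nat_lit 78) (nat_lit 0) (nat_lit 0) (XT.lf (nat_lit 0) (nat_lit 7368512116) (nat_lit 0) (nat_lit 7368512116) (nat_lit 1140) (nat_lit 19939964263) (nat_lit 187) (nat_lit 5) (nat_lit 187) (nat_lit 3) (nat_lit 202) (nat_lit 3) (nat_lit 318) (nat_lit 318) (nat_lit 144)) (XT.lf (nat_lit 0) (nat_lit 30596343076) (nat_lit 1140) (nat_lit 3331748237) (nat_lit 1216) (nat_lit 37148143069) (nat_lit 187) (nat_lit 5) (nat_lit 202) (nat_lit 3) (nat_lit 203) (nat_lit 5) (nat_lit 319) (nat_lit 318) (nat_lit 143))))) (XT.nd (nat_lit 234) (nat_lit 0) (nat_lit 152) (XT.nd (nat_lit 78) (nat_lit 0) (nat_lit 0) (XT.lf (nat_lit 0) (nat_lit 32598153975) (nat_lit 1140) (nat_lit 21676905158) (nat_lit 1216) (nat_lit 18584845301) (nat_lit 188) (nat_lit 5) (nat_lit 203) (nat_lit 5) (nat_lit 204) (nat_lit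 5) (nat_lit 320) (nat_lit 318) (nat_lit 142)) (XT.nd (nat_lit 78) (nat_lit 0) (nat_lit 76) (XT.lf (nat_lit 76) (nat_lit 34082920808) (nat_lit 0) (nat_lit 1320551752) (nat_lit 1216) (nat_lit 39308184665) (nat_lit 189) (nat_lit 5) (nat_lit 188) (nat_lit 5) (nat_lit 204) (nat_lit 5) (nat_lit 321) (nat_lit 318) (nat_lit 141)) (XT.lf (nat_lit 76) (nat_lit 16226276849) (nat_lit 0) (nat_lit 23024668864) (nat_lit 1216) (nat_lit 37377996953) (nat_lit 190) (nat_lit 5) (nat_lit 189) (nat_lit 5) (nat_lit 205) (nat_lit 5) (nat_lit 322) (nat_lit 318) (nat_lit 140)))) (XT.nd (nat_lit 156) (nat_lit 0) (nat_lit 76) (XT.nd (nat_lit 78) (nat_lit 0) (nat_lit 76) (XT.lf (nat_lit 0) (nat_lit 44038626160) (nat_lit 1140) (nat_lit 2188050840) (nat_lit 1216) (nat_lit 32392981957) (nat_lit 190) (nat_lit 5) (nat_lit 205) (nat_lit 5) (nat_lit 206) (nat_lit 5) (nat_lit 323) (nat_lit 318) (nat_lit 139)) (XT.lf (nat_lit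 0) (nat_lit 49968621381) (nat_lit 1140) (nat_lit 20909362859) (nat_lit 1216) (nat_lit 9804840415) (nat_lit 191) (nat_lit 5) (nat_lit 206) (nat_lit 5) (nat_lit 207) (nat_lit 5) (nat_lit 324) (nat_lit 318) (nat_lit 138))) (XT.nd (nat_lit 78) (nat_lit 0) (nat_lit 76) (XT.lf (nat_lit 76) (nat_lit 42389908096) (nat_lit 0) (nat_lit 14700940074) (nat_lit 1216) (nat_lit 25731429954) (nat_lit 192) (nat_lit 5) (nat_lit 191) (nat_lit 5) (nat_lit 207) (nat_lit 5) (nat_lit 325) (nat_lit 318) (nat_lit 137)) (XT.lf (nat_lit 76) (nat_lit 24273900566) (nat_lit 0) (nat_lit 41170666325) (nat_lit 1216) (nat_lit 19597877330) (nat_lit 193) (nat_lit 5) (nat_lit 192) (nat_lit 5) (nat_lit 208) (nat_lit 5) (nat_lit 326) (nat_lit 318) (nat_lit 136))))))))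
noncomputable def xc123 : XT := (XT.nd (nat_lit 40482) (nat_lit 0) (nat_lit 760) (XT.nd (nat_lit 1014) (nat_lit 2356) (nat_lit 0) (XT.nd (nat_lit 468) (nat_lit 3040) (nat_lit 0) (XT.nd (nat_lit 234) (nat_lit 1216) (nat_lit 0) (XT.nd (nat_lit 78) (nat_lit 1140) (nat_lit 0) (XT.lf (nat_lit 76) (nat_lit 5484291099) (nat_lit 0) (nat_lit 69520835937) (nat_lit 1216) (nat_lit 12344818229) (nat_lit 194) (nat_lit 5) (nat_lit 193) (nat_lit 5) (nat_lit 209) (nat_lit 5) (nat_lit 327) (nat_lit 318) (nat_lit 135)) (XT.nd (nat_lit 78) (nat_lit 1140) (nat_lit 0) (XT.lf (nat_lit 76) (nat_lit 75895062901) (nat_lit 0) (nat_lit 10184741482) (nat_lit 1216) (nat_lit 3661935547) (nat_lit 194) (nat_lit 5) (nat_lit 193) (nat_lit 5) (nat_lit 209) (nat_lit 5) (nat_lit 328) (nat_lit 318) (nat_lit 134)) (XT.lf (nat_lit 0) (nat_lit 6418754434) (nat_lit 1216) (nat_lit 34076939542) (nat_lit 76) (nat_lit 51723755026) (nat_lit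 178) (nat_lit 5) (nat_lit 194) (nat_lit 5) (nat_lit 179) (nat_lit 5) (nat_lit 329) (nat_lit 318) (nat_lit 133)))) (XT.nd (nat_lit 78) (nat_lit 608) (nat_lit 0) (XT.lf (nat_lit 0) (nat_lit 17771473946) (nat_lit 684) (nat_lit 55176040055) (nat_lit 76) (nat_lit 21847131033) (nat_lit 170) (nat_lit 5) (nat_lit 179) (nat_lit 5) (nat_lit 171) (nat_lit 5) (nat_lit 330) (nat_lit 318) (nat_lit 132)) (XT.nd (nat_lit 78) (nat_lit 0) (nat_lit 0) (XT.lf (nat_lit 0) (nat_lit 20204241696) (nat_lit 608) (nat_lit 10443967789) (nat_lit 684) (nat_lit 66821701025) (nat_lit 162) (nat_lit 5) (nat_lit 170) (nat_lit 5) (nat_lit 171) (nat_lit 5) (nat_lit 331) (nat_lit 318) (nat_lit 131)) (XT.lf (nat_lit 0) (nat_lit 45272063251) (nat_lit 684) (nat_lit 292209181) (nat_lit 76) (nat_lit 54681569379) (nat_lit 162) (nat_lit 5) (nat_lit 171) (nat_lit 5) (nat_lit 163) (nat_lit 5) (nat_lit 332) (nat_lit 318) (nat_lit 130)))))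 (XT.nd (nat_lit 234) (nat_lit 1520) (nat_lit 0) (XT.nd (nat_lit 78) (nat_lit 988) (nat_lit 0) (XT.lf (nat_lit 0) (nat_lit 61717327545) (nat_lit 608) (nat_lit 21306508669) (nat_lit 76) (nat_lit 20104027877) (nat_lit 155) (nat_lit 5) (nat_lit 163) (nat_lit 5) (nat_lit 156) (nat_lit 5) (nat_lit 333) (nat_lit 318) (nat_lit 129)) (XT.nd (nat_lit 78) (nat_lit 456) (nat_lit 0) (XT.lf (nat_lit 0) (nat_lit 62654770421) (nat_lit 532) (nat_lit 17394556953) (nat_lit 608) (nat_lit 26072726841) (nat_lit 148) (nat_lit 5) (nat_lit 155) (nat_lit 5) (nat_lit 156) (nat_lit 5) (nat_lit 334) (nat_lit 318) (nat_lit 128)) (XT.lf (nat_lit 0) (nat_lit 42327837890) (nat_lit 456) (nat_lit 58092973978) (nat_lit 532) (nat_lit 8811456295) (nat_lit 142) (nat_lit 5) (nat_lit 148) (nat_lit 5) (nat_lit 149) (nat_lit 5) (nat_lit 335) (nat_lit 318) (nat_lit 127)))) (XT.nd (nat_lit 156) (nat_lit 912) (nat_lit 0) (XT.nd (nat_lit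 78) (nat_lit 0) (nat_lit 0) (XT.lf (nat_lit 0) (nat_lit 10065441680) (nat_lit 608) (nat_lit 91600804173) (nat_lit 76) (nat_lit 10801033369) (nat_lit 134) (nat_lit 5) (nat_lit 142) (nat_lit 5) (nat_lit 135) (nat_lit 5) (nat_lit 336) (nat_lit 318) (nat_lit 126)) (XT.lf (nat_lit 0) (nat_lit 30986871431) (nat_lit 608) (nat_lit 2102178756) (nat_lit 76) (nat_lit 82733886499) (nat_lit 134) (nat_lit 5) (nat_lit 142) (nat_lit 5) (nat_lit 135) (nat_lit 5) (nat_lit 337) (nat_lit 318) (nat_lit 125))) (XT.nd (nat_lit 78) (nat_lit 456) (nat_lit 0) (XT.lf (nat_lit 0) (nat_lit 54237447984) (nat_lit 532) (nat_lit 26003296983) (nat_lit 76) (nat_lit 39067140517) (nat_lit 128) (nat_lit 5) (nat_lit 135) (nat_lit 5) (nat_lit 129) (nat_lit 5) (nat_lit 338) (nat_lit 318) (nat_lit 124)) (XT.lf (nat_lit 0) (nat_lit 71621909400) (nat_lit 456) (nat_lit 8072341659) (nat_lit 532) (nat_lit 43241520417) (nat_lit 122) (nat_lit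 5) (nat_lit 128) (nat_lit 5) (nat_lit 129) (nat_lit 5) (nat_lit 339) (nat_lit 318) (nat_lit 123)))))) (XT.nd (nat_lit 468) (nat_lit 456) (nat_lit 0) (XT.nd (nat_lit 234) (nat_lit 1064) (nat_lit 0) (XT.nd (nat_lit 78) (nat_lit 456) (nat_lit 0) (XT.lf (nat_lit 0) (nat_lit 48221566067) (nat_lit 380) (nat_lit 59586427100) (nat_lit 456) (nat_lit 18895536290) (nat_lit 117) (nat_lit 5) (nat_lit 122) (nat_lit 5) (nat_lit 123) (nat_lit 5) (nat_lit 340) (nat_lit 318) (nat_lit 122)) (XT.nd (nat_lit 78) (nat_lit 0) (nat_lit 0) (XT.lf (nat_lit 0) (nat_lit 7532276447) (nat_lit 456) (nat_lit 107318509698) (nat_lit 76) (nat_lit 15777127726) (nat_lit 111) (nat_lit 5) (nat_lit 117) (nat_lit 5) (nat_lit 112) (nat_lit 5) (nat_lit 341) (nat_lit 318) (nat_lit 121)) (XT.lf (nat_lit 0) (nat_lit 36311096022) (nat_lit 456) (nat_lit 3694713493) (nat_lit 76) (nat_lit 94694483884) (nat_lit 111) (nat_lit 5) (nat_lit 117)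 (nat_lit 5) (nat_lit 112) (nat_lit 5) (nat_lit 342) (nat_lit 318) (nat_lit 120)))) (XT.nd (nat_lit 78) (nat_lit 684) (nat_lit 0) (XT.lf (nat_lit 0) (nat_lit 67939889429) (nat_lit 456) (nat_lit 32124949760) (nat_lit 76) (nat_lit 38869122277) (nat_lit 106) (nat_lit 5) (nat_lit 112) (nat_lit 5) (nat_lit 107) (nat_lit 5) (nat_lit 343) (nat_lit 318) (nat_lit 119)) (XT.nd (nat_lit 78) (nat_lit 304) (nat_lit 0) (XT.lf (nat_lit 0) (nat_lit 80707037494) (nat_lit 380) (nat_lit 21660583350) (nat_lit 456) (nat_lit 40975167664) (nat_lit 101) (nat_lit 5) (nat_lit 106) (nat_lit 5) (nat_lit 107) (nat_lit 5) (nat_lit 344) (nat_lit 318) (nat_lit 118)) (XT.lf (nat_lit 0) (nat_lit 52323780021) (nat_lit 304) (nat_lit 87612548597) (nat_lit 380) (nat_lit 7993141088) (nat_lit 97) (nat_lit 5) (nat_lit 101) (nat_lit 5) (nat_lit 102) (nat_lit 5) (nat_lit 345) (nat_lit 318) (nat_lit 117))))) (XT.nd (nat_lit 38688) (nat_lit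 0) (nat_lit 7372) (XT.nd (nat_lit 38532) (nat_lit 0) (nat_lit 7296) (XT.lf (nat_lit 0) (nat_lit 21552924547) (nat_lit 380) (nat_lit 5641751538) (nat_lit 456) (nat_lit 125510832750) (nat_lit 91) (nat_lit 5) (nat_lit 96) (nat_lit 5) (nat_lit 97) (nat_lit 5) (nat_lit 346) (nat_lit 318) (nat_lit 116)) (XT.nd (nat_lit 78) (nat_lit 0) (nat_lit 0) (XT.lf (nat_lit 0) (nat_lit 7747394826) (nat_lit 0) (nat_lit 7747394826) (nat_lit 1140) (nat_lit 20915392557) (nat_lit 187) (nat_lit 5) (nat_lit 187) (nat_lit 3) (nat_lit 202) (nat_lit 3) (nat_lit 319) (nat_lit 319) (nat_lit 142)) (XT.lf (nat_lit 0) (nat_lit 32165805351) (nat_lit 1140) (nat_lit 3476976915) (nat_lit 1216) (nat_lit 38986020607) (nat_lit 187) (nat_lit 5) (nat_lit 202) (nat_lit 3) (nat_lit 203) (nat_lit 5) (nat_lit 320) (nat_lit 319) (nat_lit 141)))) (XT.nd (nat_lit 156) (nat_lit 0) (nat_lit 76) (XT.nd (nat_lit 78) (nat_lit 0) (nat_lit 0)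 (XT.lf (nat_lit 0) (nat_lit 34265852925) (nat_lit 1140) (nat_lit 22738648479) (nat_lit 1216) (nat_lit 19497213204) (nat_lit 188) (nat_lit 5) (nat_lit 203) (nat_lit 5) (nat_lit 204) (nat_lit 5) (nat_lit 321) (nat_lit 319) (nat_lit 140)) (XT.lf (nat_lit 76) (nat_lit 35808535238) (nat_lit 0) (nat_lit 1401308985) (nat_lit 1216) (nat_lit 41236261055) (nat_lit 189) (nat_lit 5) (nat_lit 188) (nat_lit 5) (nat_lit 204) (nat_lit 5) (nat_lit 322) (nat_lit 319) (nat_lit 139))) (XT.nd (nat_lit 78) (nat_lit 0) (nat_lit 76) (XT.lf (nat_lit 76) (nat_lit 17059683504) (nat_lit 0) (nat_lit 24188361334) (nat_lit 1216) (nat_lit 39211261865) (nat_lit 190) (nat_lit 5) (nat_lit 189) (nat_lit 5) (nat_lit 205) (nat_lit 5) (nat_lit 323) (nat_lit 319) (nat_lit 138)) (XT.lf (nat_lit 0) (nat_lit 46273349922) (nat_lit 1140) (nat_lit 2275267027) (nat_lit 1216) (nat_lit 34000996858) (nat_lit 190) (nat_lit 5) (nat_lit 205)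 (nat_lit 5) (nat_lit 206) (nat_lit 5) (nat_lit 324) (nat_lit 319) (nat_lit 137))))))) (XT.nd (nat_lit 1014) (nat_lit 2508) (nat_lit 0) (XT.nd (nat_lit 468) (nat_lit 3344) (nat_lit 0) (XT.nd (nat_lit 234) (nat_lit 988) (nat_lit 0) (XT.nd (nat_lit 78) (nat_lit 0) (nat_lit 0) (XT.lf (nat_lit 0) (nat_lit 52498395467) (nat_lit 1140) (nat_lit 21932200213) (nat_lit 1216) (nat_lit 10285387703) (nat_lit 191) (nat_lit 5) (nat_lit 206) (nat_lit 5) (nat_lit 207) (nat_lit 5) (nat_lit 325) (nat_lit 319) (nat_lit 136)) (XT.nd (nat_lit 78) (nat_lit 0) (nat_lit 76) (XT.lf (nat_lit 76) (nat_lit 44531385583) (nat_lit 0) (nat_lit 15444066794) (nat_lit 1216) (nat_lit 26986997596) (nat_lit 192) (nat_lit 5) (nat_lit 191) (nat_lit 5) (nat_lit 207) (nat_lit 5) (nat_lit 326) (nat_lit 319) (nat_lit 135)) (XT.lf (nat_lit 76) (nat_lit 25509938058) (nat_lit 0) (nat_lit 43235628261) (nat_lit 1216) (nat_lit 20548098690)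 (nat_lit 193) (nat_lit 5) (nat_lit 192) (nat_lit 5) (nat_lit 208) (nat_lit 5) (nat_lit 327) (nat_lit 319) (nat_lit 134)))) (XT.nd (nat_lit 78) (nat_lit 1140) (nat_lit 0) (XT.lf (nat_lit 76) (nat_lit 5781143283) (nat_lit 0) (nat_lit 73001799892) (nat_lit 1216) (nat_lit 12933636095) (nat_lit 194) (nat_lit 5) (nat_lit 193) (nat_lit 5) (nat_lit 209) (nat_lit 5) (nat_lit 328) (nat_lit 319) (nat_lit 133)) (XT.nd (nat_lit 78) (nat_lit 1140) (nat_lit 0) (XT.lf (nat_lit 76) (nat_lit 79711375693) (nat_lit 0) (nat_lit 10698666325) (nat_lit 1216) (nat_lit 3817962757) (nat_lit 194) (nat_lit 5) (nat_lit 193) (nat_lit 5) (nat_lit 209) (nat_lit 5) (nat_lit 329) (nat_lit 319) (nat_lit 132)) (XT.lf (nat_lit 0) (nat_lit 6765137759) (nat_lit 1216) (nat_lit 35758463991) (nat_lit 76) (nat_lit 54306024222) (nat_lit 178) (nat_lit 5) (nat_lit 194) (nat_lit 5) (nat_lit 179) (nat_lit 5) (nat_lit 330) (nat_lit 319)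 (nat_lit 131))))) (XT.nd (nat_lit 234) (nat_lit 2128) (nat_lit 0) (XT.nd (nat_lit 78) (nat_lit 608) (nat_lit 0) (XT.lf (nat_lit 0) (nat_lit 18684463451) (nat_lit 684) (nat_lit 57912369020) (nat_lit 76) (nat_lit 22936781758) (nat_lit 170) (nat_lit 5) (nat_lit 179) (nat_lit 5) (nat_lit 171) (nat_lit 5) (nat_lit 331) (nat_lit 319) (nat_lit 130)) (XT.nd (nat_lit 78) (nat_lit 0) (nat_lit 0) (XT.lf (nat_lit 0) (nat_lit 21236282634) (nat_lit 608) (nat_lit 10967800308) (nat_lit 684) (nat_lit 70138590079) (nat_lit 162) (nat_lit 5) (nat_lit 170) (nat_lit 5) (nat_lit 171) (nat_lit 5) (nat_lit 332) (nat_lit 319) (nat_lit 129)) (XT.lf (nat_lit 0) (nat_lit 47557997151) (nat_lit 684) (nat_lit 285317186) (nat_lit 76) (nat_lit 57414121904) (nat_lit 162) (nat_lit 5) (nat_lit 171) (nat_lit 5) (nat_lit 163) (nat_lit 5) (nat_lit 333) (nat_lit 319) (nat_lit 128)))) (XT.nd (nat_lit 156) (nat_lit 1064) (nat_lit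 0) (XT.nd (nat_lit 78) (nat_lit 532) (nat_lit 0) (XT.lf (nat_lit 0) (nat_lit 64824656465) (nat_lit 608) (nat_lit 22350271954) (nat_lit 76) (nat_lit 21108658581) (nat_lit 155) (nat_lit 5) (nat_lit 163) (nat_lit 5) (nat_lit 156) (nat_lit 5) (nat_lit 334) (nat_lit 319) (nat_lit 127)) (XT.lf (nat_lit 0) (nat_lit 65808453015) (nat_lit 532) (nat_lit 18263982571) (nat_lit 608) (nat_lit 27355076923) (nat_lit 148) (nat_lit 5) (nat_lit 155) (nat_lit 5) (nat_lit 156) (nat_lit 5) (nat_lit 335) (nat_lit 319) (nat_lit 126))) (XT.nd (nat_lit 78) (nat_lit 608) (nat_lit 0) (XT.lf (nat_lit 0) (nat_lit 44465196622) (nat_lit 456) (nat_lit 60996519052) (nat_lit 532) (nat_lit 9231546039) (nat_lit 142) (nat_lit 5) (nat_lit 148) (nat_lit 5) (nat_lit 149) (nat_lit 5) (nat_lit 336) (nat_lit 319) (nat_lit 125)) (XT.lf (nat_lit 0) (nat_lit 10588054441) (nat_lit 608) (nat_lit 96159479694) (nat_lit 76) (nat_lit 11342506671)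 (nat_lit 134) (nat_lit 5) (nat_lit 142) (nat_lit 5) (nat_lit 135) (nat_lit 5) (nat_lit 337) (nat_lit 319) (nat_lit 124)))))) (XT.nd (nat_lit 546) (nat_lit 380) (nat_lit 0) (XT.nd (nat_lit 234) (nat_lit 1216) (nat_lit 0) (XT.nd (nat_lit 78) (nat_lit 912) (nat_lit 0) (XT.lf (nat_lit 0) (nat_lit 32554634695) (nat_lit 608) (nat_lit 2186940372) (nat_lit 76) (nat_lit 86871934760) (nat_lit 134) (nat_lit 5) (nat_lit 142) (nat_lit 5) (nat_lit 135) (nat_lit 5) (nat_lit 338) (nat_lit 319) (nat_lit 123)) (XT.nd (nat_lit 78) (nat_lit 456) (nat_lit 0) (XT.lf (nat_lit 0) (nat_lit 56967072460) (nat_lit 532) (nat_lit 27283165217) (nat_lit 76) (nat_lit 41022489421) (nat_lit 128) (nat_lit 5) (nat_lit 135) (nat_lit 5) (nat_lit 129) (nat_lit 5) (nat_lit 339) (nat_lit 319) (nat_lit 122)) (XT.lf (nat_lit 0) (nat_lit 75222719687) (nat_lit 456) (nat_lit 8473340177) (nat_lit 532) (nat_lit 45385968160) (nat_lit 122)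 (nat_lit 5) (nat_lit 128) (nat_lit 5) (nat_lit 129) (nat_lit 5) (nat_lit 340) (nat_lit 319) (nat_lit 121)))) (XT.nd (nat_lit 156) (nat_lit 380) (nat_lit 0) (XT.nd (nat_lit 78) (nat_lit 456) (nat_lit 0) (XT.lf (nat_lit 0) (nat_lit 50652286393) (nat_lit 380) (nat_lit 62562601360) (nat_lit 456) (nat_lit 19823305101) (nat_lit 117) (nat_lit 5) (nat_lit 122) (nat_lit 5) (nat_lit 123) (nat_lit 5) (nat_lit 341) (nat_lit 319) (nat_lit 120)) (XT.lf (nat_lit 0) (nat_lit 7924991148) (nat_lit 456) (nat_lit 112664549917) (nat_lit 76) (nat_lit 16569268617) (nat_lit 111) (nat_lit 5) (nat_lit 117) (nat_lit 5) (nat_lit 112) (nat_lit 5) (nat_lit 342) (nat_lit 319) (nat_lit 119))) (XT.nd (nat_lit 78) (nat_lit 380) (nat_lit 0) (XT.lf (nat_lit 0) (nat_lit 38141984994) (nat_lit 456) (nat_lit 3860510820) (nat_lit 76) (nat_lit 99432336178) (nat_lit 111) (nat_lit 5) (nat_lit 117) (nat_lit 5) (nat_lit 112) (nat_lit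 5) (nat_lit 343) (nat_lit 319) (nat_lit 118)) (XT.lf (nat_lit 0) (nat_lit 71351699448) (nat_lit 456) (nat_lit 33712377799) (nat_lit 76) (nat_lit 40816122539) (nat_lit 106) (nat_lit 5) (nat_lit 112) (nat_lit 5) (nat_lit 107) (nat_lit 5) (nat_lit 344) (nat_lit 319) (nat_lit 117))))) (XT.nd (nat_lit 38844) (nat_lit 0) (nat_lit 6612) (XT.nd (nat_lit 38688) (nat_lit 0) (nat_lit 6536) (XT.lf (nat_lit 0) (nat_lit 84760669363) (nat_lit 380) (nat_lit 22739618287) (nat_lit 456) (nat_lit 43009197151) (nat_lit 101) (nat_lit 5) (nat_lit 106) (nat_lit 5) (nat_lit 107) (nat_lit 5) (nat_lit 345) (nat_lit 319) (nat_lit 116)) (XT.nd (nat_lit 78) (nat_lit 0) (nat_lit 0) (XT.lf (nat_lit 0) (nat_lit 8144249470) (nat_lit 0) (nat_lit 8144249470) (nat_lit 1140) (nat_lit 21941597632) (nat_lit 187) (nat_lit 5) (nat_lit 187) (nat_lit 3) (nat_lit 202) (nat_lit 3) (nat_lit 320) (nat_lit 320) (nat_lit 140)) (XT.lf (nat_lit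 0) (nat_lit 33810054912) (nat_lit 1140) (nat_lit 3631452759) (nat_lit 1216) (nat_lit 40917607699) (nat_lit 187) (nat_lit 5) (nat_lit 202) (nat_lit 3) (nat_lit 203) (nat_lit 5) (nat_lit 321) (nat_lit 320) (nat_lit 139)))) (XT.nd (nat_lit 156) (nat_lit 0) (nat_lit 76) (XT.nd (nat_lit 78) (nat_lit 0) (nat_lit 0) (XT.lf (nat_lit 0) (nat_lit 36013423350) (nat_lit 1140) (nat_lit 23855533795) (nat_lit 1216) (nat_lit 20456768320) (nat_lit 188) (nat_lit 5) (nat_lit 203) (nat_lit 5) (nat_lit 204) (nat_lit 5) (nat_lit 322) (nat_lit 320) (nat_lit 138)) (XT.lf (nat_lit 76) (nat_lit 37618434462) (nat_lit 0) (nat_lit 1484734657) (nat_lit 1216) (nat_lit 43264212119) (nat_lit 189) (nat_lit 5) (nat_lit 188) (nat_lit 5) (nat_lit 204) (nat_lit 5) (nat_lit 323) (nat_lit 320) (nat_lit 137))) (XT.nd (nat_lit 78) (nat_lit 0) (nat_lit 76) (XT.lf (nat_lit 76) (nat_lit 17932706513) (nat_lit 0) (nat_lit 25409080106)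 (nat_lit 1216) (nat_lit 41139503021) (nat_lit 190) (nat_lit 5) (nat_lit 189) (nat_lit 5) (nat_lit 205) (nat_lit 5) (nat_lit 324) (nat_lit 320) (nat_lit 136)) (XT.lf (nat_lit 0) (nat_lit 48616761141) (nat_lit 1140) (nat_lit 2368906701) (nat_lit 1216) (nat_lit 35690494141) (nat_lit 190) (nat_lit 5) (nat_lit 205) (nat_lit 5) (nat_lit 206) (nat_lit 5) (nat_lit 325) (nat_lit 320) (nat_lit 135))))))))
noncomputable def xc124 : XT := (XT.nd (nat_lit 40716) (nat_lit 0) (nat_lit 380) (XT.nd (nat_lit 1014) (nat_lit 2128) (nat_lit 0) (XT.nd (nat_lit 468) (nat_lit 3344) (nat_lit 0) (XT.nd (nat_lit 234) (nat_lit 988) (nat_lit 0) (XT.nd (nat_lit 78) (nat_lit 0) (nat_lit 0) (XT.lf (nat_lit 0) (nat_lit 55151744282) (nat_lit 1140) (nat_lit 23008283430) (nat_lit 1216) (nat_lit 10790863680) (nat_lit 191) (nat_lit 5) (nat_lit 206) (nat_lit 5) (nat_lit 207) (nat_lit 5) (nat_lit 326) (nat_lit 320) (nat_lit 134))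 (XT.nd (nat_lit 78) (nat_lit 0) (nat_lit 76) (XT.lf (nat_lit 76) (nat_lit 46777893259) (nat_lit 0) (nat_lit 16223598674) (nat_lit 1216) (nat_lit 28308226065) (nat_lit 192) (nat_lit 5) (nat_lit 191) (nat_lit 5) (nat_lit 207) (nat_lit 5) (nat_lit 327) (nat_lit 320) (nat_lit 133)) (XT.lf (nat_lit 76) (nat_lit 26805700235) (nat_lit 0) (nat_lit 45403240623) (nat_lit 1216) (nat_lit 21548589787) (nat_lit 193) (nat_lit 5) (nat_lit 192) (nat_lit 5) (nat_lit 208) (nat_lit 5) (nat_lit 328) (nat_lit 320) (nat_lit 132)))) (XT.nd (nat_lit 78) (nat_lit 1140) (nat_lit 0) (XT.lf (nat_lit 76) (nat_lit 6090733444) (nat_lit 0) (nat_lit 76656354428) (nat_lit 1216) (nat_lit 13554537359) (nat_lit 194) (nat_lit 5) (nat_lit 193) (nat_lit 5) (nat_lit 209) (nat_lit 5) (nat_lit 329) (nat_lit 320) (nat_lit 131)) (XT.nd (nat_lit 78) (nat_lit 1140) (nat_lit 0) (XT.lf (nat_lit 76) (nat_lit 83716499713) (nat_lit 0) (nat_lit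 11237851587) (nat_lit 1216) (nat_lit 3984308000) (nat_lit 194) (nat_lit 5) (nat_lit 193) (nat_lit 5) (nat_lit 209) (nat_lit 5) (nat_lit 330) (nat_lit 320) (nat_lit 130)) (XT.lf (nat_lit 0) (nat_lit 7126474559) (nat_lit 1216) (nat_lit 37526140000) (nat_lit 76) (nat_lit 57017771188) (nat_lit 178) (nat_lit 5) (nat_lit 194) (nat_lit 5) (nat_lit 179) (nat_lit 5) (nat_lit 331) (nat_lit 320) (nat_lit 129))))) (XT.nd (nat_lit 234) (nat_lit 2128) (nat_lit 0) (XT.nd (nat_lit 78) (nat_lit 608) (nat_lit 0) (XT.lf (nat_lit 0) (nat_lit 19640832480) (nat_lit 684) (nat_lit 60787603763) (nat_lit 76) (nat_lit 24081166582) (nat_lit 170) (nat_lit 5) (nat_lit 179) (nat_lit 5) (nat_lit 171) (nat_lit 5) (nat_lit 332) (nat_lit 320) (nat_lit 128)) (XT.nd (nat_lit 78) (nat_lit 0) (nat_lit 0) (XT.lf (nat_lit 0) (nat_lit 22317896178) (nat_lit 608) (nat_lit 11517672526) (nat_lit 684) (nat_lit 73623573100) (nat_lit 162)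 (nat_lit 5) (nat_lit 170) (nat_lit 5) (nat_lit 171) (nat_lit 5) (nat_lit 333) (nat_lit 320) (nat_lit 127)) (XT.lf (nat_lit 0) (nat_lit 49956151644) (nat_lit 684) (nat_lit 280079686) (nat_lit 76) (nat_lit 60283443923) (nat_lit 162) (nat_lit 5) (nat_lit 171) (nat_lit 5) (nat_lit 163) (nat_lit 5) (nat_lit 334) (nat_lit 320) (nat_lit 126)))) (XT.nd (nat_lit 156) (nat_lit 1064) (nat_lit 0) (XT.nd (nat_lit 78) (nat_lit 532) (nat_lit 0) (XT.lf (nat_lit 0) (nat_lit 68085356447) (nat_lit 608) (nat_lit 23448228048) (nat_lit 76) (nat_lit 22163573878) (nat_lit 155) (nat_lit 5) (nat_lit 163) (nat_lit 5) (nat_lit 156) (nat_lit 5) (nat_lit 335) (nat_lit 320) (nat_lit 125)) (XT.lf (nat_lit 0) (nat_lit 69117872558) (nat_lit 532) (nat_lit 19176907569) (nat_lit 608) (nat_lit 28703523503) (nat_lit 148) (nat_lit 5) (nat_lit 155) (nat_lit 5) (nat_lit 156) (nat_lit 5) (nat_lit 336) (nat_lit 320) (nat_lit 124)))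 (XT.nd (nat_lit 78) (nat_lit 608) (nat_lit 0) (XT.lf (nat_lit 0) (nat_lit 46707473993) (nat_lit 456) (nat_lit 64045343984) (nat_lit 532) (nat_lit 9674544592) (nat_lit 142) (nat_lit 5) (nat_lit 148) (nat_lit 5) (nat_lit 149) (nat_lit 5) (nat_lit 337) (nat_lit 320) (nat_lit 123)) (XT.lf (nat_lit 0) (nat_lit 11134999727) (nat_lit 608) (nat_lit 100948075277) (nat_lit 76) (nat_lit 11910921468) (nat_lit 134) (nat_lit 5) (nat_lit 142) (nat_lit 5) (nat_lit 135) (nat_lit 5) (nat_lit 338) (nat_lit 320) (nat_lit 122)))))) (XT.nd (nat_lit 468) (nat_lit 380) (nat_lit 0) (XT.nd (nat_lit 234) (nat_lit 836) (nat_lit 0) (XT.nd (nat_lit 78) (nat_lit 912) (nat_lit 0) (XT.lf (nat_lit 0) (nat_lit 34199073634) (nat_lit 608) (nat_lit 2277831770) (nat_lit 76) (nat_lit 91216759559) (nat_lit 134) (nat_lit 5) (nat_lit 142) (nat_lit 5) (nat_lit 135) (nat_lit 5) (nat_lit 339) (nat_lit 320) (nat_lit 121)) (XT.nd (nat_lit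 78) (nat_lit 456) (nat_lit 0) (XT.lf (nat_lit 0) (nat_lit 59831527741) (nat_lit 532) (nat_lit 28628913850) (nat_lit 76) (nat_lit 43075420585) (nat_lit 128) (nat_lit 5) (nat_lit 135) (nat_lit 5) (nat_lit 129) (nat_lit 5) (nat_lit 340) (nat_lit 320) (nat_lit 120)) (XT.lf (nat_lit 0) (nat_lit 79001737591) (nat_lit 456) (nat_lit 8894632069) (nat_lit 532) (nat_lit 47639277200) (nat_lit 122) (nat_lit 5) (nat_lit 128) (nat_lit 5) (nat_lit 129) (nat_lit 5) (nat_lit 341) (nat_lit 320) (nat_lit 119)))) (XT.nd (nat_lit 78) (nat_lit 456) (nat_lit 0) (XT.lf (nat_lit 0) (nat_lit 53202716605) (nat_lit 380) (nat_lit 65687876920) (nat_lit 456) (nat_lit 20799043595) (nat_lit 117) (nat_lit 5) (nat_lit 122) (nat_lit 5) (nat_lit 123) (nat_lit 5) (nat_lit 342) (nat_lit 320) (nat_lit 118)) (XT.nd (nat_lit 78) (nat_lit 0) (nat_lit 0) (XT.lf (nat_lit 0) (nat_lit 8335844678) (nat_lit 456) (nat_lit 118279740891) (nat_lit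 76) (nat_lit 17400711191) (nat_lit 111) (nat_lit 5) (nat_lit 117) (nat_lit 5) (nat_lit 112) (nat_lit 5) (nat_lit 343) (nat_lit 320) (nat_lit 117)) (XT.lf (nat_lit 0) (nat_lit 40062992788) (nat_lit 456) (nat_lit 4036358721) (nat_lit 76) (nat_lit 104406790266) (nat_lit 111) (nat_lit 5) (nat_lit 117) (nat_lit 5) (nat_lit 112) (nat_lit 5) (nat_lit 344) (nat_lit 320) (nat_lit 116))))) (XT.nd (nat_lit 38922) (nat_lit 0) (nat_lit 6232) (XT.nd (nat_lit 38766) (nat_lit 0) (nat_lit 6156) (XT.lf (nat_lit 0) (nat_lit 74932722558) (nat_lit 456) (nat_lit 35380926893) (nat_lit 76) (nat_lit 42860143313) (nat_lit 106) (nat_lit 5) (nat_lit 112) (nat_lit 5) (nat_lit 107) (nat_lit 5) (nat_lit 345) (nat_lit 320) (nat_lit 115)) (XT.nd (nat_lit 78) (nat_lit 0) (nat_lit 0) (XT.lf (nat_lit 0) (nat_lit 8560065029) (nat_lit 0) (nat_lit 8560065029) (nat_lit 1140) (nat_lit 23020931887) (nat_lit 187) (nat_lit 5) (nat_lit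 187) (nat_lit 3) (nat_lit 202) (nat_lit 3) (nat_lit 321) (nat_lit 321) (nat_lit 138)) (XT.lf (nat_lit 0) (nat_lit 35533173796) (nat_lit 1140) (nat_lit 3795453513) (nat_lit 1216) (nat_lit 42947421021) (nat_lit 187) (nat_lit 5) (nat_lit 202) (nat_lit 3) (nat_lit 203) (nat_lit 5) (nat_lit 322) (nat_lit 321) (nat_lit 137)))) (XT.nd (nat_lit 156) (nat_lit 0) (nat_lit 76) (XT.nd (nat_lit 78) (nat_lit 0) (nat_lit 0) (XT.lf (nat_lit 0) (nat_lit 37845185473) (nat_lit 1140) (nat_lit 25030127167) (nat_lit 1216) (nat_lit 21465724156) (nat_lit 188) (nat_lit 5) (nat_lit 203) (nat_lit 5) (nat_lit 204) (nat_lit 5) (nat_lit 323) (nat_lit 321) (nat_lit 136)) (XT.lf (nat_lit 76) (nat_lit 39517018282) (nat_lit 0) (nat_lit 1571089506) (nat_lit 1216) (nat_lit 45396708902) (nat_lit 189) (nat_lit 5) (nat_lit 188) (nat_lit 5) (nat_lit 204) (nat_lit 5) (nat_lit 324) (nat_lit 321) (nat_lit 135))) (XT.nd (nat_lit 78)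 (nat_lit 0) (nat_lit 76) (XT.lf (nat_lit 76) (nat_lit 18847517650) (nat_lit 0) (nat_lit 26689784184) (nat_lit 1216) (nat_lit 43167161222) (nat_lit 190) (nat_lit 5) (nat_lit 189) (nat_lit 5) (nat_lit 205) (nat_lit 5) (nat_lit 325) (nat_lit 321) (nat_lit 134)) (XT.lf (nat_lit 0) (nat_lit 51074577631) (nat_lit 1140) (nat_lit 2469099267) (nat_lit 1216) (nat_lit 37465447366) (nat_lit 190) (nat_lit 5) (nat_lit 205) (nat_lit 5) (nat_lit 206) (nat_lit 5) (nat_lit 326) (nat_lit 321) (nat_lit 133))))))) (XT.nd (nat_lit 1014) (nat_lit 1748) (nat_lit 0) (XT.nd (nat_lit 468) (nat_lit 3344) (nat_lit 0) (XT.nd (nat_lit 234) (nat_lit 988) (nat_lit 0) (XT.nd (nat_lit 78) (nat_lit 0) (nat_lit 0) (XT.lf (nat_lit 0) (nat_lit 57935117474) (nat_lit 1140) (nat_lit 24140079196) (nat_lit 1216) (nat_lit 11322430984) (nat_lit 191) (nat_lit 5) (nat_lit 206) (nat_lit 5) (nat_lit 207) (nat_lit 5) (nat_lit 327) (nat_lit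 321) (nat_lit 132)) (XT.nd (nat_lit 78) (nat_lit 0) (nat_lit 76) (XT.lf (nat_lit 76) (nat_lit 49134872635) (nat_lit 0) (nat_lit 17041425810) (nat_lit 1216) (nat_lit 29698130419) (nat_lit 192) (nat_lit 5) (nat_lit 191) (nat_lit 5) (nat_lit 207) (nat_lit 5) (nat_lit 328) (nat_lit 321) (nat_lit 131)) (XT.lf (nat_lit 76) (nat_lit 28164366448) (nat_lit 0) (nat_lit 47678691496) (nat_lit 1216) (nat_lit 22601607632) (nat_lit 193) (nat_lit 5) (nat_lit 192) (nat_lit 5) (nat_lit 208) (nat_lit 5) (nat_lit 329) (nat_lit 321) (nat_lit 130)))) (XT.nd (nat_lit 78) (nat_lit 1140) (nat_lit 0) (XT.lf (nat_lit 76) (nat_lit 6413894149) (nat_lit 0) (nat_lit 80493221621) (nat_lit 1216) (nat_lit 14208880517) (nat_lit 194) (nat_lit 5) (nat_lit 193) (nat_lit 5) (nat_lit 209) (nat_lit 5) (nat_lit 330) (nat_lit 321) (nat_lit 129)) (XT.nd (nat_lit 78) (nat_lit 1140) (nat_lit 0) (XT.lf (nat_lit 76) (nat_lit 87920061873)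 (nat_lit 0) (nat_lit 11803600806) (nat_lit 1216) (nat_lit 4161253199) (nat_lit 194) (nat_lit 5) (nat_lit 193) (nat_lit 5) (nat_lit 209) (nat_lit 5) (nat_lit 331) (nat_lit 321) (nat_lit 128)) (XT.lf (nat_lit 0) (nat_lit 7503732447) (nat_lit 1216) (nat_lit 39384082201) (nat_lit 76) (nat_lit 59865435942) (nat_lit 178) (nat_lit 5) (nat_lit 194) (nat_lit 5) (nat_lit 179) (nat_lit 5) (nat_lit 332) (nat_lit 321) (nat_lit 127))))) (XT.nd (nat_lit 234) (nat_lit 2128) (nat_lit 0) (XT.nd (nat_lit 78) (nat_lit 608) (nat_lit 0) (XT.lf (nat_lit 0) (nat_lit 20642961048) (nat_lit 684) (nat_lit 63808495328) (nat_lit 76) (nat_lit 25282998821) (nat_lit 170) (nat_lit 5) (nat_lit 179) (nat_lit 5) (nat_lit 171) (nat_lit 5) (nat_lit 333) (nat_lit 321) (nat_lit 126)) (XT.nd (nat_lit 78) (nat_lit 0) (nat_lit 0) (XT.lf (nat_lit 0) (nat_lit 23451749638) (nat_lit 608) (nat_lit 12094900555) (nat_lit 684) (nat_lit 77284845648)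 (nat_lit 162) (nat_lit 5) (nat_lit 170) (nat_lit 5) (nat_lit 171) (nat_lit 5) (nat_lit 334) (nat_lit 321) (nat_lit 125)) (XT.lf (nat_lit 0) (nat_lit 52472330779) (nat_lit 684) (nat_lit 276393548) (nat_lit 76) (nat_lit 63296360721) (nat_lit 162) (nat_lit 5) (nat_lit 171) (nat_lit 5) (nat_lit 163) (nat_lit 5) (nat_lit 335) (nat_lit 321) (nat_lit 124)))) (XT.nd (nat_lit 156) (nat_lit 1064) (nat_lit 0) (XT.nd (nat_lit 78) (nat_lit 532) (nat_lit 0) (XT.lf (nat_lit 0) (nat_lit 71507281557) (nat_lit 608) (nat_lit 24602900218) (nat_lit 76) (nat_lit 23271283064) (nat_lit 155) (nat_lit 5) (nat_lit 163) (nat_lit 5) (nat_lit 156) (nat_lit 5) (nat_lit 336) (nat_lit 321) (nat_lit 123)) (XT.lf (nat_lit 0) (nat_lit 72590996927) (nat_lit 532) (nat_lit 20135504303) (nat_lit 608) (nat_lit 30121187420) (nat_lit 148) (nat_lit 5) (nat_lit 155) (nat_lit 5) (nat_lit 156) (nat_lit 5) (nat_lit 337) (nat_lit 321) (nat_lit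 122))) (XT.nd (nat_lit 78) (nat_lit 608) (nat_lit 0) (XT.lf (nat_lit 0) (nat_lit 49060097163) (nat_lit 456) (nat_lit 67246703227) (nat_lit 532) (nat_lit 10141420348) (nat_lit 142) (nat_lit 5) (nat_lit 148) (nat_lit 5) (nat_lit 149) (nat_lit 5) (nat_lit 338) (nat_lit 321) (nat_lit 121)) (XT.lf (nat_lit 0) (nat_lit 11707661337) (nat_lit 608) (nat_lit 105977902260) (nat_lit 76) (nat_lit 12507637123) (nat_lit 134) (nat_lit 5) (nat_lit 142) (nat_lit 5) (nat_lit 135) (nat_lit 5) (nat_lit 339) (nat_lit 321) (nat_lit 120)))))) (XT.nd (nat_lit 39390) (nat_lit 0) (nat_lit 5852) (XT.nd (nat_lit 234) (nat_lit 836) (nat_lit 0) (XT.nd (nat_lit 78) (nat_lit 912) (nat_lit 0) (XT.lf (nat_lit 0) (nat_lit 35924181242) (nat_lit 608) (nat_lit 2374983567) (nat_lit 76) (nat_lit 95778711424) (nat_lit 134) (nat_lit 5) (nat_lit 142) (nat_lit 5) (nat_lit 135) (nat_lit 5) (nat_lit 340) (nat_lit 321) (nat_lit 119)) (XT.nd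 (nat_lit 78) (nat_lit 456) (nat_lit 0) (XT.lf (nat_lit 0) (nat_lit 62837708805) (nat_lit 532) (nat_lit 30043661467) (nat_lit 76) (nat_lit 45230830338) (nat_lit 128) (nat_lit 5) (nat_lit 135) (nat_lit 5) (nat_lit 129) (nat_lit 5) (nat_lit 341) (nat_lit 321) (nat_lit 118)) (XT.lf (nat_lit 0) (nat_lit 82968043899) (nat_lit 456) (nat_lit 9337209373) (nat_lit 532) (nat_lit 50006738232) (nat_lit 122) (nat_lit 5) (nat_lit 128) (nat_lit 5) (nat_lit 129) (nat_lit 5) (nat_lit 342) (nat_lit 321) (nat_lit 117)))) (XT.nd (nat_lit 39000) (nat_lit 0) (nat_lit 5776) (XT.nd (nat_lit 78) (nat_lit 456) (nat_lit 0) (XT.lf (nat_lit 0) (nat_lit 55879011976) (nat_lit 380) (nat_lit 68969681643) (nat_lit 456) (nat_lit 21825003249) (nat_lit 117) (nat_lit 5) (nat_lit 122) (nat_lit 5) (nat_lit 123) (nat_lit 5) (nat_lit 343) (nat_lit 321) (nat_lit 116)) (XT.lf (nat_lit 0) (nat_lit 8765883145) (nat_lit 456) (nat_lit 124177368278)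 (nat_lit 76) (nat_lit 18273448921) (nat_lit 111) (nat_lit 5) (nat_lit 117) (nat_lit 5) (nat_lit 112) (nat_lit 5) (nat_lit 344) (nat_lit 321) (nat_lit 115))) (XT.nd (nat_lit 78) (nat_lit 0) (nat_lit 0) (XT.lf (nat_lit 0) (nat_lit 8995871532) (nat_lit 0) (nat_lit 8995871532) (nat_lit 1140) (nat_lit 24155882675) (nat_lit 187) (nat_lit 5) (nat_lit 187) (nat_lit 3) (nat_lit 202) (nat_lit 3) (nat_lit 322) (nat_lit 322) (nat_lit 136)) (XT.lf (nat_lit 0) (nat_lit 37339416286) (nat_lit 1140) (nat_lit 3969287972) (nat_lit 1216) (nat_lit 45080218772) (nat_lit 187) (nat_lit 5) (nat_lit 202) (nat_lit 3) (nat_lit 203) (nat_lit 5) (nat_lit 323) (nat_lit 322) (nat_lit 135))))) (XT.nd (nat_lit 234) (nat_lit 0) (nat_lit 152) (XT.nd (nat_lit 78) (nat_lit 0) (nat_lit 0) (XT.lf (nat_lit 0) (nat_lit 39765645160) (nat_lit 1140) (nat_lit 26265140719) (nat_lit 1216) (nat_lit 22526418455) (nat_lit 188) (nat_lit 5)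 (nat_lit 203) (nat_lit 5) (nat_lit 204) (nat_lit 5) (nat_lit 324) (nat_lit 322) (nat_lit 134)) (XT.nd (nat_lit 78) (nat_lit 0) (nat_lit 76) (XT.lf (nat_lit 76) (nat_lit 41508889239) (nat_lit 0) (nat_lit 1660635470) (nat_lit 1216) (nat_lit 47638686005) (nat_lit 189) (nat_lit 5) (nat_lit 188) (nat_lit 5) (nat_lit 204) (nat_lit 5) (nat_lit 325) (nat_lit 322) (nat_lit 133)) (XT.lf (nat_lit 76) (nat_lit 19806379530) (nat_lit 0) (nat_lit 28033570511) (nat_lit 1216) (nat_lit 45298927945) (nat_lit 190) (nat_lit 5) (nat_lit 189) (nat_lit 5) (nat_lit 205) (nat_lit 5) (nat_lit 326) (nat_lit 322) (nat_lit 132)))) (XT.nd (nat_lit 156) (nat_lit 0) (nat_lit 76) (XT.nd (nat_lit 78) (nat_lit 0) (nat_lit 76) (XT.lf (nat_lit 0) (nat_lit 53652776747) (nat_lit 1140) (nat_lit 2575998431) (nat_lit 1216) (nat_lit 39330038117) (nat_lit 190) (nat_lit 5) (nat_lit 205) (nat_lit 5) (nat_lit 206) (nat_lit 5) (nat_lit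 327) (nat_lit 322) (nat_lit 131)) (XT.lf (nat_lit 0) (nat_lit 60855261990) (nat_lit 1140) (nat_lit 25330195712) (nat_lit 1216) (nat_lit 11881318174) (nat_lit 191) (nat_lit 5) (nat_lit 206) (nat_lit 5) (nat_lit 207) (nat_lit 5) (nat_lit 328) (nat_lit 322) (nat_lit 130))) (XT.nd (nat_lit 78) (nat_lit 0) (nat_lit 76) (XT.lf (nat_lit 76) (nat_lit 51608019635) (nat_lit 0) (nat_lit 17899526309) (nat_lit 1216) (nat_lit 31159901386) (nat_lit 192) (nat_lit 5) (nat_lit 191) (nat_lit 5) (nat_lit 207) (nat_lit 5) (nat_lit 329) (nat_lit 322) (nat_lit 129)) (XT.lf (nat_lit 76) (nat_lit 29589257061) (nat_lit 0) (nat_lit 50067423206) (nat_lit 1216) (nat_lit 23709545933) (nat_lit 193) (nat_lit 5) (nat_lit 192) (nat_lit 5) (nat_lit 208) (nat_lit 5) (nat_lit 330) (nat_lit 322) (nat_lit 128))))))))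
noncomputable def xc125 : XT := (XT.nd (nat_lit 40950) (nat_lit 0) (nat_lit 836) (XT.nd (nat_lit 1014) (nat_lit 380) (nat_lit 0) (XT.nd (nat_lit 468) (nat_lit 3040) (nat_lit 0) (XT.nd (nat_lit 234) (nat_lit 1216) (nat_lit 0) (XT.nd (nat_lit 78) (nat_lit 1140) (nat_lit 0) (XT.lf (nat_lit 76) (nat_lit 6751481404) (nat_lit 0) (nat_lit 84521555692) (nat_lit 1216) (nat_lit 14898114828) (nat_lit 194) (nat_lit 5) (nat_lit 193) (nat_lit 5) (nat_lit 209) (nat_lit 5) (nat_lit 331) (nat_lit 322) (nat_lit 127)) (XT.nd (nat_lit 78) (nat_lit 1140) (nat_lit 0) (XT.lf (nat_lit 76) (nat_lit 92332153107) (nat_lit 0) (nat_lit 12397278932) (nat_lit 1216) (nat_lit 4349116131) (nat_lit 194) (nat_lit 5) (nat_lit 193) (nat_lit 5) (nat_lit 209) (nat_lit 5) (nat_lit 332) (nat_lit 322) (nat_lit 126)) (XT.lf (nat_lit 0) (nat_lit 7897906970) (nat_lit 1216) (nat_lit 41336628897) (nat_lit 76) (nat_lit 62855783653) (nat_lit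 178) (nat_lit 5) (nat_lit 194) (nat_lit 5) (nat_lit 179) (nat_lit 5) (nat_lit 333) (nat_lit 322) (nat_lit 125)))) (XT.nd (nat_lit 78) (nat_lit 608) (nat_lit 0) (XT.lf (nat_lit 0) (nat_lit 21693328551) (nat_lit 684) (nat_lit 66982150368) (nat_lit 76) (nat_lit 26545129633) (nat_lit 170) (nat_lit 5) (nat_lit 179) (nat_lit 5) (nat_lit 171) (nat_lit 5) (nat_lit 334) (nat_lit 322) (nat_lit 124)) (XT.nd (nat_lit 78) (nat_lit 0) (nat_lit 0) (XT.lf (nat_lit 0) (nat_lit 24640626146) (nat_lit 608) (nat_lit 12700864995) (nat_lit 684) (nat_lit 81131032504) (nat_lit 162) (nat_lit 5) (nat_lit 170) (nat_lit 5) (nat_lit 171) (nat_lit 5) (nat_lit 335) (nat_lit 322) (nat_lit 123)) (XT.lf (nat_lit 0) (nat_lit 55112610857) (nat_lit 684) (nat_lit 274167763) (nat_lit 76) (nat_lit 66460040074) (nat_lit 162) (nat_lit 5) (nat_lit 171) (nat_lit 5) (nat_lit 163) (nat_lit 5) (nat_lit 336) (nat_lit 322) (nat_lit 122)))))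 (XT.nd (nat_lit 234) (nat_lit 1520) (nat_lit 0) (XT.nd (nat_lit 78) (nat_lit 988) (nat_lit 0) (XT.lf (nat_lit 0) (nat_lit 75098661315) (nat_lit 608) (nat_lit 25816955222) (nat_lit 76) (nat_lit 24434421359) (nat_lit 155) (nat_lit 5) (nat_lit 163) (nat_lit 5) (nat_lit 156) (nat_lit 5) (nat_lit 337) (nat_lit 322) (nat_lit 121)) (XT.nd (nat_lit 78) (nat_lit 456) (nat_lit 0) (XT.lf (nat_lit 0) (nat_lit 76236175564) (nat_lit 532) (nat_lit 21142053990) (nat_lit 608) (nat_lit 31611362656) (nat_lit 148) (nat_lit 5) (nat_lit 155) (nat_lit 5) (nat_lit 156) (nat_lit 5) (nat_lit 338) (nat_lit 322) (nat_lit 120)) (XT.lf (nat_lit 0) (nat_lit 51528747798) (nat_lit 456) (nat_lit 70608214847) (nat_lit 532) (nat_lit 10633206582) (nat_lit 142) (nat_lit 5) (nat_lit 148) (nat_lit 5) (nat_lit 149) (nat_lit 5) (nat_lit 339) (nat_lit 322) (nat_lit 119)))) (XT.nd (nat_lit 156) (nat_lit 912) (nat_lit 0) (XT.nd (nat_lit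 78) (nat_lit 0) (nat_lit 0) (XT.lf (nat_lit 0) (nat_lit 12307476715) (nat_lit 608) (nat_lit 111260854714) (nat_lit 76) (nat_lit 13134079824) (nat_lit 134) (nat_lit 5) (nat_lit 142) (nat_lit 5) (nat_lit 135) (nat_lit 5) (nat_lit 340) (nat_lit 322) (nat_lit 118)) (XT.lf (nat_lit 0) (nat_lit 37734135363) (nat_lit 608) (nat_lit 2478549261) (nat_lit 76) (nat_lit 100568657324) (nat_lit 134) (nat_lit 5) (nat_lit 142) (nat_lit 5) (nat_lit 135) (nat_lit 5) (nat_lit 341) (nat_lit 322) (nat_lit 117))) (XT.nd (nat_lit 78) (nat_lit 456) (nat_lit 0) (XT.lf (nat_lit 0) (nat_lit 65992841119) (nat_lit 532) (nat_lit 31530698894) (nat_lit 76) (nat_lit 47493858226) (nat_lit 128) (nat_lit 5) (nat_lit 135) (nat_lit 5) (nat_lit 129) (nat_lit 5) (nat_lit 342) (nat_lit 322) (nat_lit 116)) (XT.lf (nat_lit 0) (nat_lit 87131157593) (nat_lit 456) (nat_lit 9802115827) (nat_lit 532) (nat_lit 52493920651) (nat_lit 122)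 (nat_lit 5) (nat_lit 128) (nat_lit 5) (nat_lit 129) (nat_lit 5) (nat_lit 343) (nat_lit 322) (nat_lit 115)))))) (XT.nd (nat_lit 39390) (nat_lit 0) (nat_lit 4636) (XT.nd (nat_lit 39156) (nat_lit 0) (nat_lit 5396) (XT.nd (nat_lit 39000) (nat_lit 0) (nat_lit 5320) (XT.lf (nat_lit 0) (nat_lit 58687619754) (nat_lit 380) (nat_lit 72415817315) (nat_lit 456) (nat_lit 22903561777) (nat_lit 117) (nat_lit 5) (nat_lit 122) (nat_lit 5) (nat_lit 123) (nat_lit 5) (nat_lit 344) (nat_lit 322) (nat_lit 114)) (XT.nd (nat_lit 78) (nat_lit 0) (nat_lit 0) (XT.lf (nat_lit 0) (nat_lit 9452742889) (nat_lit 0) (nat_lit 9452742889) (nat_lit 1140) (nat_lit 25349077438) (nat_lit 187) (nat_lit 5) (nat_lit 187) (nat_lit 3) (nat_lit 202) (nat_lit 3) (nat_lit 323) (nat_lit 323) (nat_lit 134)) (XT.lf (nat_lit 0) (nat_lit 39233220478) (nat_lit 1140) (nat_lit 4153295938) (nat_lit 1216) (nat_lit 47321011297) (nat_lit 187) (nat_lit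 5) (nat_lit 202) (nat_lit 3) (nat_lit 203) (nat_lit 5) (nat_lit 324) (nat_lit 323) (nat_lit 133)))) (XT.nd (nat_lit 78) (nat_lit 0) (nat_lit 0) (XT.lf (nat_lit 0) (nat_lit 41779506024) (nat_lit 1140) (nat_lit 27563438295) (nat_lit 1216) (nat_lit 23641318145) (nat_lit 188) (nat_lit 5) (nat_lit 203) (nat_lit 5) (nat_lit 204) (nat_lit 5) (nat_lit 325) (nat_lit 323) (nat_lit 132)) (XT.nd (nat_lit 78) (nat_lit 0) (nat_lit 76) (XT.lf (nat_lit 76) (nat_lit 43598864352) (nat_lit 0) (nat_lit 1753636847) (nat_lit 1216) (nat_lit 49995351967) (nat_lit 189) (nat_lit 5) (nat_lit 188) (nat_lit 5) (nat_lit 204) (nat_lit 5) (nat_lit 326) (nat_lit 323) (nat_lit 131)) (XT.lf (nat_lit 76) (nat_lit 20811651792) (nat_lit 0) (nat_lit 29443681797) (nat_lit 1216) (nat_lit 47539755215) (nat_lit 190) (nat_lit 5) (nat_lit 189) (nat_lit 5) (nat_lit 205) (nat_lit 5) (nat_lit 327) (nat_lit 323) (nat_lit 130))))) (XT.nd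 (nat_lit 234) (nat_lit 912) (nat_lit 0) (XT.nd (nat_lit 78) (nat_lit 0) (nat_lit 76) (XT.lf (nat_lit 0) (nat_lit 56357610808) (nat_lit 1140) (nat_lit 2689781754) (nat_lit 1216) (nat_lit 41288665541) (nat_lit 190) (nat_lit 5) (nat_lit 205) (nat_lit 5) (nat_lit 206) (nat_lit 5) (nat_lit 328) (nat_lit 323) (nat_lit 129)) (XT.nd (nat_lit 78) (nat_lit 0) (nat_lit 0) (XT.lf (nat_lit 0) (nat_lit 63919239278) (nat_lit 1140) (nat_lit 26581388089) (nat_lit 1216) (nat_lit 12468822306) (nat_lit 191) (nat_lit 5) (nat_lit 206) (nat_lit 5) (nat_lit 207) (nat_lit 5) (nat_lit 329) (nat_lit 323) (nat_lit 128)) (XT.lf (nat_lit 76) (nat_lit 54203298955) (nat_lit 0) (nat_lit 18799971295) (nat_lit 1216) (nat_lit 32696911826) (nat_lit 192) (nat_lit 5) (nat_lit 191) (nat_lit 5) (nat_lit 207) (nat_lit 5) (nat_lit 330) (nat_lit 323) (nat_lit 127)))) (XT.nd (nat_lit 156) (nat_lit 1064) (nat_lit 0) (XT.nd (nat_lit 78)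 (nat_lit 0) (nat_lit 76) (XT.lf (nat_lit 76) (nat_lit 31083842173) (nat_lit 0) (nat_lit 52575145510) (nat_lit 1216) (nat_lit 24874939709) (nat_lit 193) (nat_lit 5) (nat_lit 192) (nat_lit 5) (nat_lit 208) (nat_lit 5) (nat_lit 331) (nat_lit 323) (nat_lit 126)) (XT.lf (nat_lit 76) (nat_lit 7104377512) (nat_lit 0) (nat_lit 88750964987) (nat_lit 1216) (nat_lit 15623782734) (nat_lit 194) (nat_lit 5) (nat_lit 193) (nat_lit 5) (nat_lit 209) (nat_lit 5) (nat_lit 332) (nat_lit 323) (nat_lit 125))) (XT.nd (nat_lit 78) (nat_lit 1140) (nat_lit 0) (XT.lf (nat_lit 76) (nat_lit 96963353180) (nat_lit 0) (nat_lit 13020315745) (nat_lit 1216) (nat_lit 4548250189) (nat_lit 194) (nat_lit 5) (nat_lit 193) (nat_lit 5) (nat_lit 209) (nat_lit 5) (nat_lit 333) (nat_lit 323) (nat_lit 124)) (XT.lf (nat_lit 0) (nat_lit 8310024904) (nat_lit 1216) (nat_lit 43388351576) (nat_lit 76) (nat_lit 65995920603) (nat_lit 178) (nat_lit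 5) (nat_lit 194) (nat_lit 5) (nat_lit 179) (nat_lit 5) (nat_lit 334) (nat_lit 323) (nat_lit 123))))))) (XT.nd (nat_lit 40092) (nat_lit 0) (nat_lit 1064) (XT.nd (nat_lit 468) (nat_lit 1064) (nat_lit 0) (XT.nd (nat_lit 234) (nat_lit 1520) (nat_lit 0) (XT.nd (nat_lit 78) (nat_lit 608) (nat_lit 0) (XT.lf (nat_lit 0) (nat_lit 22794520558) (nat_lit 684) (nat_lit 70316047250) (nat_lit 76) (nat_lit 27870554705) (nat_lit 170) (nat_lit 5) (nat_lit 179) (nat_lit 5) (nat_lit 171) (nat_lit 5) (nat_lit 335) (nat_lit 323) (nat_lit 122)) (XT.nd (nat_lit 78) (nat_lit 0) (nat_lit 0) (XT.lf (nat_lit 0) (nat_lit 25887432080) (nat_lit 608) (nat_lit 13337014287) (nat_lit 684) (nat_lit 85171207326) (nat_lit 162) (nat_lit 5) (nat_lit 170) (nat_lit 5) (nat_lit 171) (nat_lit 5) (nat_lit 336) (nat_lit 323) (nat_lit 121)) (XT.lf (nat_lit 0) (nat_lit 57883355721) (nat_lit 684) (nat_lit 273322444) (nat_lit 76) (nat_lit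 69782009259) (nat_lit 162) (nat_lit 5) (nat_lit 171) (nat_lit 5) (nat_lit 163) (nat_lit 5) (nat_lit 337) (nat_lit 323) (nat_lit 120)))) (XT.nd (nat_lit 78) (nat_lit 988) (nat_lit 0) (XT.lf (nat_lit 0) (nat_lit 78868121074) (nat_lit 608) (nat_lit 27093208872) (nat_lit 76) (nat_lit 25655756162) (nat_lit 155) (nat_lit 5) (nat_lit 163) (nat_lit 5) (nat_lit 156) (nat_lit 5) (nat_lit 338) (nat_lit 323) (nat_lit 119)) (XT.nd (nat_lit 78) (nat_lit 456) (nat_lit 0) (XT.lf (nat_lit 0) (nat_lit 80062160115) (nat_lit 532) (nat_lit 22198952129) (nat_lit 608) (nat_lit 33177523410) (nat_lit 148) (nat_lit 5) (nat_lit 155) (nat_lit 5) (nat_lit 156) (nat_lit 5) (nat_lit 339) (nat_lit 323) (nat_lit 118)) (XT.lf (nat_lit 0) (nat_lit 54119376369) (nat_lit 456) (nat_lit 74137878612) (nat_lit 532) (nat_lit 11151003163) (nat_lit 142) (nat_lit 5) (nat_lit 148) (nat_lit 5) (nat_lit 149) (nat_lit 5) (nat_lit 340) (nat_lit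 323) (nat_lit 117))))) (XT.nd (nat_lit 39312) (nat_lit 0) (nat_lit 4484) (XT.nd (nat_lit 78) (nat_lit 456) (nat_lit 0) (XT.lf (nat_lit 0) (nat_lit 12935941082) (nat_lit 608) (nat_lit 116809436988) (nat_lit 76) (nat_lit 13791746033) (nat_lit 134) (nat_lit 5) (nat_lit 142) (nat_lit 5) (nat_lit 135) (nat_lit 5) (nat_lit 341) (nat_lit 323) (nat_lit 116)) (XT.nd (nat_lit 78) (nat_lit 456) (nat_lit 0) (XT.lf (nat_lit 0) (nat_lit 39633309304) (nat_lit 608) (nat_lit 2588704855) (nat_lit 76) (nat_lit 105598006588) (nat_lit 134) (nat_lit 5) (nat_lit 142) (nat_lit 5) (nat_lit 135) (nat_lit 5) (nat_lit 342) (nat_lit 323) (nat_lit 115)) (XT.lf (nat_lit 0) (nat_lit 69304498479) (nat_lit 532) (nat_lit 33093496291) (nat_lit 76) (nat_lit 49869899319) (nat_lit 128) (nat_lit 5) (nat_lit 135) (nat_lit 5) (nat_lit 129) (nat_lit 5) (nat_lit 343) (nat_lit 323) (nat_lit 114)))) (XT.nd (nat_lit 156) (nat_lit 0) (nat_lit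 76) (XT.nd (nat_lit 78) (nat_lit 0) (nat_lit 0) (XT.lf (nat_lit 0) (nat_lit 9931799788) (nat_lit 0) (nat_lit 9931799788) (nat_lit 1140) (nat_lit 26603289250) (nat_lit 187) (nat_lit 5) (nat_lit 187) (nat_lit 3) (nat_lit 202) (nat_lit 3) (nat_lit 324) (nat_lit 324) (nat_lit 132)) (XT.lf (nat_lit 0) (nat_lit 41219220167) (nat_lit 1140) (nat_lit 4347848325) (nat_lit 1216) (nat_lit 49675072372) (nat_lit 187) (nat_lit 5) (nat_lit 202) (nat_lit 3) (nat_lit 203) (nat_lit 5) (nat_lit 325) (nat_lit 324) (nat_lit 131))) (XT.nd (nat_lit 78) (nat_lit 0) (nat_lit 0) (XT.lf (nat_lit 0) (nat_lit 43891681875) (nat_lit 1140) (nat_lit 28928041537) (nat_lit 1216) (nat_lit 24813024658) (nat_lit 188) (nat_lit 5) (nat_lit 203) (nat_lit 5) (nat_lit 204) (nat_lit 5) (nat_lit 326) (nat_lit 324) (nat_lit 130)) (XT.lf (nat_lit 76) (nat_lit 45791987298) (nat_lit 0) (nat_lit 1850361414) (nat_lit 1216) (nat_lit 52472200438)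 (nat_lit 189) (nat_lit 5) (nat_lit 188) (nat_lit 5) (nat_lit 204) (nat_lit 5) (nat_lit 327) (nat_lit 324) (nat_lit 129)))))) (XT.nd (nat_lit 546) (nat_lit 3572) (nat_lit 0) (XT.nd (nat_lit 234) (nat_lit 0) (nat_lit 152) (XT.nd (nat_lit 78) (nat_lit 0) (nat_lit 76) (XT.lf (nat_lit 76) (nat_lit 21865797453) (nat_lit 0) (nat_lit 30923514649) (nat_lit 1216) (nat_lit 49894866216) (nat_lit 190) (nat_lit 5) (nat_lit 189) (nat_lit 5) (nat_lit 205) (nat_lit 5) (nat_lit 328) (nat_lit 324) (nat_lit 128)) (XT.nd (nat_lit 78) (nat_lit 0) (nat_lit 76) (XT.lf (nat_lit 0) (nat_lit 59195623070) (nat_lit 1140) (nat_lit 2810650345) (nat_lit 1216) (nat_lit 43345956430) (nat_lit 190) (nat_lit 5) (nat_lit 205) (nat_lit 5) (nat_lit 206) (nat_lit 5) (nat_lit 329) (nat_lit 324) (nat_lit 127)) (XT.lf (nat_lit 0) (nat_lit 67134443136) (nat_lit 1140) (nat_lit 27896564152) (nat_lit 1216) (nat_lit 13086311697) (nat_lit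 191) (nat_lit 5) (nat_lit 206) (nat_lit 5) (nat_lit 207) (nat_lit 5) (nat_lit 330) (nat_lit 324) (nat_lit 126)))) (XT.nd (nat_lit 156) (nat_lit 0) (nat_lit 152) (XT.nd (nat_lit 78) (nat_lit 0) (nat_lit 76) (XT.lf (nat_lit 76) (nat_lit 56926958994) (nat_lit 0) (nat_lit 19744930105) (nat_lit 1216) (nat_lit 34312723739) (nat_lit 192) (nat_lit 5) (nat_lit 191) (nat_lit 5) (nat_lit 207) (nat_lit 5) (nat_lit 331) (nat_lit 324) (nat_lit 125)) (XT.lf (nat_lit 76) (nat_lit 32651750617) (nat_lit 0) (nat_lit 55207849401) (nat_lit 1216) (nat_lit 26100470350) (nat_lit 193) (nat_lit 5) (nat_lit 192) (nat_lit 5) (nat_lit 208) (nat_lit 5) (nat_lit 332) (nat_lit 324) (nat_lit 124))) (XT.nd (nat_lit 78) (nat_lit 0) (nat_lit 0) (XT.lf (nat_lit 76) (nat_lit 7473493928) (nat_lit 0) (nat_lit 93191535014) (nat_lit 1216) (nat_lit 16387522586) (nat_lit 194) (nat_lit 5) (nat_lit 193) (nat_lit 5) (nat_lit 209) (nat_lit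 5) (nat_lit 333) (nat_lit 324) (nat_lit 123)) (XT.lf (nat_lit 76) (nat_lit 101824756591) (nat_lit 0) (nat_lit 13674209416) (nat_lit 1216) (nat_lit 4759044332) (nat_lit 194) (nat_lit 5) (nat_lit 193) (nat_lit 5) (nat_lit 209) (nat_lit 5) (nat_lit 334) (nat_lit 324) (nat_lit 122))))) (XT.nd (nat_lit 234) (nat_lit 1520) (nat_lit 0) (XT.nd (nat_lit 78) (nat_lit 1216) (nat_lit 0) (XT.lf (nat_lit 0) (nat_lit 8741147542) (nat_lit 1216) (nat_lit 45544065060) (nat_lit 76) (nat_lit 69293310981) (nat_lit 178) (nat_lit 5) (nat_lit 194) (nat_lit 5) (nat_lit 179) (nat_lit 5) (nat_lit 335) (nat_lit 324) (nat_lit 121)) (XT.nd (nat_lit 78) (nat_lit 608) (nat_lit 0) (XT.lf (nat_lit 0) (nat_lit 23949235773) (nat_lit 684) (nat_lit 73818053117) (nat_lit 76) (nat_lit 29262421298) (nat_lit 170) (nat_lit 5) (nat_lit 179) (nat_lit 5) (nat_lit 171) (nat_lit 5) (nat_lit 336) (nat_lit 324) (nat_lit 120)) (XT.lf (nat_lit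 0) (nat_lit 27195204705) (nat_lit 608) (nat_lit 14004868215) (nat_lit 684) (nat_lit 89414913449) (nat_lit 162) (nat_lit 5) (nat_lit 170) (nat_lit 5) (nat_lit 171) (nat_lit 5) (nat_lit 337) (nat_lit 324) (nat_lit 119)))) (XT.nd (nat_lit 156) (nat_lit 988) (nat_lit 0) (XT.nd (nat_lit 78) (nat_lit 532) (nat_lit 0) (XT.lf (nat_lit 0) (nat_lit 60791232643) (nat_lit 684) (nat_lit 273787925) (nat_lit 76) (nat_lit 73270172924) (nat_lit 162) (nat_lit 5) (nat_lit 171) (nat_lit 5) (nat_lit 163) (nat_lit 5) (nat_lit 338) (nat_lit 324) (nat_lit 118)) (XT.lf (nat_lit 0) (nat_lit 82824703268) (nat_lit 608) (nat_lit 28434632027) (nat_lit 76) (nat_lit 26938193616) (nat_lit 155) (nat_lit 5) (nat_lit 163) (nat_lit 5) (nat_lit 156) (nat_lit 5) (nat_lit 339) (nat_lit 324) (nat_lit 117))) (XT.nd (nat_lit 78) (nat_lit 456) (nat_lit 0) (XT.lf (nat_lit 0) (nat_lit 84078125966) (nat_lit 532) (nat_lit 23308714193)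 (nat_lit 608) (nat_lit 34823331663) (nat_lit 148) (nat_lit 5) (nat_lit 155) (nat_lit 5) (nat_lit 156) (nat_lit 5) (nat_lit 340) (nat_lit 324) (nat_lit 116)) (XT.lf (nat_lit 0) (nat_lit 56838217007) (nat_lit 456) (nat_lit 77844095012) (nat_lit 532) (nat_lit 11695978492) (nat_lit 142) (nat_lit 5) (nat_lit 148) (nat_lit 5) (nat_lit 149) (nat_lit 5) (nat_lit 341) (nat_lit 324) (nat_lit 115))))))))
noncomputable def xc126 : XT := (XT.nd (nat_lit 80496) (nat_lit 0) (nat_lit 1596) (XT.nd (nat_lit 40170) (nat_lit 0) (nat_lit 608) (XT.nd (nat_lit 39624) (nat_lit 0) (nat_lit 4180) (XT.nd (nat_lit 39390) (nat_lit 0) (nat_lit 4028) (XT.nd (nat_lit 78) (nat_lit 0) (nat_lit 0) (XT.lf (nat_lit 0) (nat_lit 13594611634) (nat_lit 608) (nat_lit 122636792773) (nat_lit 76) (nat_lit 14482206094) (nat_lit 134) (nat_lit 5) (nat_lit 142) (nat_lit 5) (nat_lit 135) (nat_lit 5) (nat_lit 342) (nat_lit 324) (nat_lit 114))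 (XT.nd (nat_lit 39234) (nat_lit 0) (nat_lit 4028) (XT.lf (nat_lit 0) (nat_lit 41626282862) (nat_lit 608) (nat_lit 2705648608) (nat_lit 76) (nat_lit 110878738117) (nat_lit 134) (nat_lit 5) (nat_lit 142) (nat_lit 5) (nat_lit 135) (nat_lit 5) (nat_lit 343) (nat_lit 324) (nat_lit 113)) (XT.lf (nat_lit 0) (nat_lit 10434212684) (nat_lit 0) (nat_lit 10434212684) (nat_lit 1140) (nat_lit 27921442774) (nat_lit 187) (nat_lit 5) (nat_lit 187) (nat_lit 3) (nat_lit 202) (nat_lit 3) (nat_lit 325) (nat_lit 325) (nat_lit 130)))) (XT.nd (nat_lit 78) (nat_lit 0) (nat_lit 76) (XT.lf (nat_lit 0) (nat_lit 43302257062) (nat_lit 1140) (nat_lit 4553347399) (nat_lit 1216) (nat_lit 52147951170) (nat_lit 187) (nat_lit 5) (nat_lit 202) (nat_lit 3) (nat_lit 203) (nat_lit 5) (nat_lit 326) (nat_lit 325) (nat_lit 129)) (XT.nd (nat_lit 78) (nat_lit 0) (nat_lit 0) (XT.lf (nat_lit 0) (nat_lit 46107309551) (nat_lit 1140) (nat_lit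 30362136429) (nat_lit 1216) (nat_lit 26044279614) (nat_lit 188) (nat_lit 5) (nat_lit 203) (nat_lit 5) (nat_lit 204) (nat_lit 5) (nat_lit 327) (nat_lit 325) (nat_lit 128)) (XT.lf (nat_lit 76) (nat_lit 48093541065) (nat_lit 0) (nat_lit 1951081502) (nat_lit 1216) (nat_lit 55075022136) (nat_lit 189) (nat_lit 5) (nat_lit 188) (nat_lit 5) (nat_lit 204) (nat_lit 5) (nat_lit 328) (nat_lit 325) (nat_lit 127))))) (XT.nd (nat_lit 234) (nat_lit 0) (nat_lit 152) (XT.nd (nat_lit 78) (nat_lit 0) (nat_lit 76) (XT.lf (nat_lit 76) (nat_lit 22971389431) (nat_lit 0) (nat_lit 32476628034) (nat_lit 1216) (nat_lit 52369766661) (nat_lit 190) (nat_lit 5) (nat_lit 189) (nat_lit 5) (nat_lit 205) (nat_lit 5) (nat_lit 329) (nat_lit 325) (nat_lit 126)) (XT.nd (nat_lit 78) (nat_lit 0) (nat_lit 76) (XT.lf (nat_lit 0) (nat_lit 62173664289) (nat_lit 1140) (nat_lit 2938828669) (nat_lit 1216) (nat_lit 45506775895) (nat_lit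 190) (nat_lit 5) (nat_lit 205) (nat_lit 5) (nat_lit 206) (nat_lit 5) (nat_lit 330) (nat_lit 325) (nat_lit 125)) (XT.lf (nat_lit 0) (nat_lit 70508618258) (nat_lit 1140) (nat_lit 29278790689) (nat_lit 1216) (nat_lit 13735228892) (nat_lit 191) (nat_lit 5) (nat_lit 206) (nat_lit 5) (nat_lit 207) (nat_lit 5) (nat_lit 331) (nat_lit 325) (nat_lit 124)))) (XT.nd (nat_lit 156) (nat_lit 0) (nat_lit 152) (XT.nd (nat_lit 78) (nat_lit 0) (nat_lit 76) (XT.lf (nat_lit 76) (nat_lit 59785547390) (nat_lit 0) (nat_lit 20736675698) (nat_lit 1216) (nat_lit 36011095819) (nat_lit 192) (nat_lit 5) (nat_lit 191) (nat_lit 5) (nat_lit 207) (nat_lit 5) (nat_lit 332) (nat_lit 325) (nat_lit 123)) (XT.lf (nat_lit 76) (nat_lit 34296779268) (nat_lit 0) (nat_lit 57971821567) (nat_lit 1216) (nat_lit 27388971106) (nat_lit 193) (nat_lit 5) (nat_lit 192) (nat_lit 5) (nat_lit 208) (nat_lit 5) (nat_lit 333) (nat_lit 325) (nat_lit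 122))) (XT.nd (nat_lit 78) (nat_lit 0) (nat_lit 0) (XT.lf (nat_lit 76) (nat_lit 7859774104) (nat_lit 0) (nat_lit 97853852607) (nat_lit 1216) (nat_lit 17191071699) (nat_lit 194) (nat_lit 5) (nat_lit 193) (nat_lit 5) (nat_lit 209) (nat_lit 5) (nat_lit 334) (nat_lit 325) (nat_lit 121)) (XT.lf (nat_lit 76) (nat_lit 106927999639) (nat_lit 0) (nat_lit 14360530212) (nat_lit 1216) (nat_lit 4981923201) (nat_lit 194) (nat_lit 5) (nat_lit 193) (nat_lit 5) (nat_lit 209) (nat_lit 5) (nat_lit 335) (nat_lit 325) (nat_lit 120)))))) (XT.nd (nat_lit 468) (nat_lit 456) (nat_lit 0) (XT.nd (nat_lit 234) (nat_lit 1064) (nat_lit 0) (XT.nd (nat_lit 78) (nat_lit 1216) (nat_lit 0) (XT.lf (nat_lit 0) (nat_lit 9192373983) (nat_lit 1216) (nat_lit 47808838294) (nat_lit 76) (nat_lit 72755794532) (nat_lit 178) (nat_lit 5) (nat_lit 194) (nat_lit 5) (nat_lit 179) (nat_lit 5) (nat_lit 336) (nat_lit 325) (nat_lit 119)) (XT.nd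 (nat_lit 78) (nat_lit 608) (nat_lit 0) (XT.lf (nat_lit 0) (nat_lit 25160293197) (nat_lit 684) (nat_lit 77496441944) (nat_lit 76) (nat_lit 30724035657) (nat_lit 170) (nat_lit 5) (nat_lit 179) (nat_lit 5) (nat_lit 171) (nat_lit 5) (nat_lit 337) (nat_lit 325) (nat_lit 118)) (XT.lf (nat_lit 0) (nat_lit 28567120063) (nat_lit 608) (nat_lit 14706021570) (nat_lit 684) (nat_lit 93872185884) (nat_lit 162) (nat_lit 5) (nat_lit 170) (nat_lit 5) (nat_lit 171) (nat_lit 5) (nat_lit 338) (nat_lit 325) (nat_lit 117)))) (XT.nd (nat_lit 78) (nat_lit 1064) (nat_lit 0) (XT.lf (nat_lit 0) (nat_lit 63843228864) (nat_lit 684) (nat_lit 275503951) (nat_lit 76) (nat_lit 76932831868) (nat_lit 162) (nat_lit 5) (nat_lit 171) (nat_lit 5) (nat_lit 163) (nat_lit 5) (nat_lit 339) (nat_lit 325) (nat_lit 116)) (XT.nd (nat_lit 78) (nat_lit 532) (nat_lit 0) (XT.lf (nat_lit 0) (nat_lit 86977889578) (nat_lit 608) (nat_lit 29844357018)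 (nat_lit 76) (nat_lit 28284785516) (nat_lit 155) (nat_lit 5) (nat_lit 163) (nat_lit 5) (nat_lit 156) (nat_lit 5) (nat_lit 340) (nat_lit 325) (nat_lit 115)) (XT.lf (nat_lit 0) (nat_lit 88293694708) (nat_lit 532) (nat_lit 24473981610) (nat_lit 608) (nat_lit 36552645260) (nat_lit 148) (nat_lit 5) (nat_lit 155) (nat_lit 5) (nat_lit 156) (nat_lit 5) (nat_lit 341) (nat_lit 325) (nat_lit 114))))) (XT.nd (nat_lit 39546) (nat_lit 0) (nat_lit 3496) (XT.nd (nat_lit 39390) (nat_lit 0) (nat_lit 3420) (XT.lf (nat_lit 0) (nat_lit 59691802977) (nat_lit 456) (nat_lit 81735685223) (nat_lit 532) (nat_lit 12269371676) (nat_lit 142) (nat_lit 5) (nat_lit 148) (nat_lit 5) (nat_lit 149) (nat_lit 5) (nat_lit 342) (nat_lit 325) (nat_lit 113)) (XT.nd (nat_lit 78) (nat_lit 0) (nat_lit 0) (XT.lf (nat_lit 0) (nat_lit 10961204867) (nat_lit 0) (nat_lit 10961204867) (nat_lit 1140) (nat_lit 29306620638) (nat_lit 187) (nat_lit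 5) (nat_lit 187) (nat_lit 3) (nat_lit 202) (nat_lit 3) (nat_lit 326) (nat_lit 326) (nat_lit 128)) (XT.lf (nat_lit 0) (nat_lit 45487393395) (nat_lit 1140) (nat_lit 4770227156) (nat_lit 1216) (nat_lit 54745484945) (nat_lit 187) (nat_lit 5) (nat_lit 202) (nat_lit 3) (nat_lit 203) (nat_lit 5) (nat_lit 327) (nat_lit 326) (nat_lit 127)))) (XT.nd (nat_lit 156) (nat_lit 0) (nat_lit 76) (XT.nd (nat_lit 78) (nat_lit 0) (nat_lit 0) (XT.lf (nat_lit 0) (nat_lit 48431762179) (nat_lit 1140) (nat_lit 31869080270) (nat_lit 1216) (nat_lit 27337970896) (nat_lit 188) (nat_lit 5) (nat_lit 203) (nat_lit 5) (nat_lit 204) (nat_lit 5) (nat_lit 328) (nat_lit 326) (nat_lit 126)) (XT.lf (nat_lit 76) (nat_lit 50509061114) (nat_lit 0) (nat_lit 2056075050) (nat_lit 1216) (nat_lit 57809917620) (nat_lit 189) (nat_lit 5) (nat_lit 188) (nat_lit 5) (nat_lit 204) (nat_lit 5) (nat_lit 329) (nat_lit 326) (nat_lit 125))) (XT.nd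 (nat_lit 78) (nat_lit 0) (nat_lit 76) (XT.lf (nat_lit 76) (nat_lit 24131117274) (nat_lit 0) (nat_lit 34106752091) (nat_lit 1216) (nat_lit 54970256930) (nat_lit 190) (nat_lit 5) (nat_lit 189) (nat_lit 5) (nat_lit 205) (nat_lit 5) (nat_lit 330) (nat_lit 326) (nat_lit 124)) (XT.lf (nat_lit 0) (nat_lit 65298909921) (nat_lit 1140) (nat_lit 3074564486) (nat_lit 1216) (nat_lit 47776238630) (nat_lit 190) (nat_lit 5) (nat_lit 205) (nat_lit 5) (nat_lit 206) (nat_lit 5) (nat_lit 331) (nat_lit 326) (nat_lit 123))))))) (XT.nd (nat_lit 40482) (nat_lit 0) (nat_lit 532) (XT.nd (nat_lit 468) (nat_lit 1748) (nat_lit 0) (XT.nd (nat_lit 234) (nat_lit 988) (nat_lit 0) (XT.nd (nat_lit 78) (nat_lit 0) (nat_lit 0) (XT.lf (nat_lit 0) (nat_lit 74049879525) (nat_lit 1140) (nat_lit 30731300137) (nat_lit 1216) (nat_lit 14417093838) (nat_lit 191) (nat_lit 5) (nat_lit 206) (nat_lit 5) (nat_lit 207) (nat_lit 5) (nat_lit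 332) (nat_lit 326) (nat_lit 122)) (XT.nd (nat_lit 78) (nat_lit 0) (nat_lit 76) (XT.lf (nat_lit 76) (nat_lit 62785927205) (nat_lit 0) (nat_lit 21777590289) (nat_lit 1216) (nat_lit 37795991556) (nat_lit 192) (nat_lit 5) (nat_lit 191) (nat_lit 5) (nat_lit 207) (nat_lit 5) (nat_lit 333) (nat_lit 326) (nat_lit 121)) (XT.lf (nat_lit 76) (nat_lit 36022902694) (nat_lit 0) (nat_lit 60873659536) (nat_lit 1216) (nat_lit 28743433029) (nat_lit 193) (nat_lit 5) (nat_lit 192) (nat_lit 5) (nat_lit 208) (nat_lit 5) (nat_lit 334) (nat_lit 326) (nat_lit 120)))) (XT.nd (nat_lit 78) (nat_lit 1140) (nat_lit 0) (XT.lf (nat_lit 76) (nat_lit 8264196350) (nat_lit 0) (nat_lit 102749031261) (nat_lit 1216) (nat_lit 18036269715) (nat_lit 194) (nat_lit 5) (nat_lit 193) (nat_lit 5) (nat_lit 209) (nat_lit 5) (nat_lit 335) (nat_lit 326) (nat_lit 119)) (XT.nd (nat_lit 78) (nat_lit 1140) (nat_lit 0) (XT.lf (nat_lit 76) (nat_lit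 112285288707) (nat_lit 0) (nat_lit 15080924365) (nat_lit 1216) (nat_lit 5217347390) (nat_lit 194) (nat_lit 5) (nat_lit 193) (nat_lit 5) (nat_lit 209) (nat_lit 5) (nat_lit 336) (nat_lit 326) (nat_lit 118)) (XT.lf (nat_lit 0) (nat_lit 9664844441) (nat_lit 1216) (nat_lit 50188005815) (nat_lit 76) (nat_lit 76391605122) (nat_lit 178) (nat_lit 5) (nat_lit 194) (nat_lit 5) (nat_lit 179) (nat_lit 5) (nat_lit 337) (nat_lit 326) (nat_lit 117))))) (XT.nd (nat_lit 234) (nat_lit 532) (nat_lit 0) (XT.nd (nat_lit 78) (nat_lit 608) (nat_lit 0) (XT.lf (nat_lit 0) (nat_lit 26430639498) (nat_lit 684) (nat_lit 81359913630) (nat_lit 76) (nat_lit 32258870814) (nat_lit 170) (nat_lit 5) (nat_lit 179) (nat_lit 5) (nat_lit 171) (nat_lit 5) (nat_lit 338) (nat_lit 326) (nat_lit 116)) (XT.nd (nat_lit 78) (nat_lit 0) (nat_lit 0) (XT.lf (nat_lit 0) (nat_lit 30006501120) (nat_lit 608) (nat_lit 15442147995) (nat_lit 684)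 (nat_lit 98553574556) (nat_lit 162) (nat_lit 5) (nat_lit 170) (nat_lit 5) (nat_lit 171) (nat_lit 5) (nat_lit 339) (nat_lit 326) (nat_lit 115)) (XT.lf (nat_lit 0) (nat_lit 67046668847) (nat_lit 684) (nat_lit 278418948) (nat_lit 76) (nat_lit 80778702756) (nat_lit 162) (nat_lit 5) (nat_lit 171) (nat_lit 5) (nat_lit 163) (nat_lit 5) (nat_lit 340) (nat_lit 326) (nat_lit 114)))) (XT.nd (nat_lit 39624) (nat_lit 0) (nat_lit 2432) (XT.nd (nat_lit 39546) (nat_lit 0) (nat_lit 2432) (XT.lf (nat_lit 0) (nat_lit 91337624100) (nat_lit 608) (nat_lit 31325684518) (nat_lit 76) (nat_lit 29698736555) (nat_lit 155) (nat_lit 5) (nat_lit 163) (nat_lit 5) (nat_lit 156) (nat_lit 5) (nat_lit 341) (nat_lit 326) (nat_lit 113)) (XT.lf (nat_lit 0) (nat_lit 11514055630) (nat_lit 0) (nat_lit 11514055630) (nat_lit 1140) (nat_lit 30762070241) (nat_lit 187) (nat_lit 5) (nat_lit 187) (nat_lit 3) (nat_lit 202) (nat_lit 3) (nat_lit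 327) (nat_lit 327) (nat_lit 126))) (XT.nd (nat_lit 78) (nat_lit 0) (nat_lit 76) (XT.lf (nat_lit 0) (nat_lit 47779924952) (nat_lit 1140) (nat_lit 4998953832) (nat_lit 1216) (nat_lit 57473812450) (nat_lit 187) (nat_lit 5) (nat_lit 202) (nat_lit 3) (nat_lit 203) (nat_lit 5) (nat_lit 328) (nat_lit 327) (nat_lit 125)) (XT.lf (nat_lit 0) (nat_lit 50870662895) (nat_lit 1140) (nat_lit 33452409132) (nat_lit 1216) (nat_lit 28697139101) (nat_lit 188) (nat_lit 5) (nat_lit 203) (nat_lit 5) (nat_lit 204) (nat_lit 5) (nat_lit 329) (nat_lit 327) (nat_lit 124)))))) (XT.nd (nat_lit 546) (nat_lit 1976) (nat_lit 0) (XT.nd (nat_lit 234) (nat_lit 0) (nat_lit 228) (XT.nd (nat_lit 78) (nat_lit 0) (nat_lit 76) (XT.lf (nat_lit 76) (nat_lit 53044349086) (nat_lit 0) (nat_lit 2165626622) (nat_lit 1216) (nat_lit 60683310896) (nat_lit 189) (nat_lit 5) (nat_lit 188) (nat_lit 5) (nat_lit 204) (nat_lit 5) (nat_lit 330) (nat_lit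 327) (nat_lit 123)) (XT.nd (nat_lit 78) (nat_lit 0) (nat_lit 76) (XT.lf (nat_lit 76) (nat_lit 25347794110) (nat_lit 0) (nat_lit 35817797319) (nat_lit 1216) (nat_lit 57702445001) (nat_lit 190) (nat_lit 5) (nat_lit 189) (nat_lit 5) (nat_lit 205) (nat_lit 5) (nat_lit 331) (nat_lit 327) (nat_lit 122)) (XT.lf (nat_lit 0) (nat_lit 68578878019) (nat_lit 1140) (nat_lit 3218128886) (nat_lit 1216) (nat_lit 50159720802) (nat_lit 190) (nat_lit 5) (nat_lit 205) (nat_lit 5) (nat_lit 206) (nat_lit 5) (nat_lit 332) (nat_lit 327) (nat_lit 121)))) (XT.nd (nat_lit 156) (nat_lit 0) (nat_lit 76) (XT.nd (nat_lit 78) (nat_lit 0) (nat_lit 0) (XT.lf (nat_lit 0) (nat_lit 77766732099) (nat_lit 1140) (nat_lit 32257497719) (nat_lit 1216) (nat_lit 15133507261) (nat_lit 191) (nat_lit 5) (nat_lit 206) (nat_lit 5) (nat_lit 207) (nat_lit 5) (nat_lit 333) (nat_lit 327) (nat_lit 120)) (XT.lf (nat_lit 76) (nat_lit 65935293810)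 (nat_lit 0) (nat_lit 22870171214) (nat_lit 1216) (nat_lit 39671587911) (nat_lit 192) (nat_lit 5) (nat_lit 191) (nat_lit 5) (nat_lit 207) (nat_lit 5) (nat_lit 334) (nat_lit 327) (nat_lit 119))) (XT.nd (nat_lit 78) (nat_lit 0) (nat_lit 76) (XT.lf (nat_lit 76) (nat_lit 37834283170) (nat_lit 0) (nat_lit 63920287538) (nat_lit 1216) (nat_lit 30167011364) (nat_lit 193) (nat_lit 5) (nat_lit 192) (nat_lit 5) (nat_lit 208) (nat_lit 5) (nat_lit 335) (nat_lit 327) (nat_lit 118)) (XT.lf (nat_lit 76) (nat_lit 8687776726) (nat_lit 0) (nat_lit 107888737722) (nat_lit 1216) (nat_lit 18925062276) (nat_lit 194) (nat_lit 5) (nat_lit 193) (nat_lit 5) (nat_lit 209) (nat_lit 5) (nat_lit 336) (nat_lit 327) (nat_lit 117))))) (XT.nd (nat_lit 234) (nat_lit 608) (nat_lit 0) (XT.nd (nat_lit 78) (nat_lit 1748) (nat_lit 0) (XT.lf (nat_lit 76) (nat_lit 117909429865) (nat_lit 0) (nat_lit 15837118104) (nat_lit 1216) (nat_lit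 5465813879) (nat_lit 194) (nat_lit 5) (nat_lit 193) (nat_lit 5) (nat_lit 209) (nat_lit 5) (nat_lit 337) (nat_lit 327) (nat_lit 116)) (XT.nd (nat_lit 78) (nat_lit 608) (nat_lit 0) (XT.lf (nat_lit 0) (nat_lit 10159743587) (nat_lit 1216) (nat_lit 52687179899) (nat_lit 76) (nat_lit 80209390243) (nat_lit 178) (nat_lit 5) (nat_lit 194) (nat_lit 5) (nat_lit 179) (nat_lit 5) (nat_lit 338) (nat_lit 327) (nat_lit 115)) (XT.lf (nat_lit 0) (nat_lit 27763356636) (nat_lit 684) (nat_lit 85417614154) (nat_lit 76) (nat_lit 33870574785) (nat_lit 170) (nat_lit 5) (nat_lit 179) (nat_lit 5) (nat_lit 171) (nat_lit 5) (nat_lit 339) (nat_lit 327) (nat_lit 114)))) (XT.nd (nat_lit 39702) (nat_lit 0) (nat_lit 1900) (XT.nd (nat_lit 78) (nat_lit 0) (nat_lit 0) (XT.lf (nat_lit 0) (nat_lit 31516826224) (nat_lit 608) (nat_lit 16215004008) (nat_lit 684) (nat_lit 103470168818) (nat_lit 162) (nat_lit 5) (nat_lit 170) (nat_lit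 5) (nat_lit 171) (nat_lit 5) (nat_lit 340) (nat_lit 327) (nat_lit 113)) (XT.lf (nat_lit 0) (nat_lit 70409232257) (nat_lit 684) (nat_lit 282489373) (nat_lit 76) (nat_lit 84816938841) (nat_lit 162) (nat_lit 5) (nat_lit 171) (nat_lit 5) (nat_lit 163) (nat_lit 5) (nat_lit 341) (nat_lit 327) (nat_lit 112))) (XT.nd (nat_lit 78) (nat_lit 0) (nat_lit 0) (XT.lf (nat_lit 0) (nat_lit 12094103554) (nat_lit 0) (nat_lit 12094103554) (nat_lit 1140) (nat_lit 32291211006) (nat_lit 187) (nat_lit 5) (nat_lit 187) (nat_lit 3) (nat_lit 202) (nat_lit 3) (nat_lit 328) (nat_lit 328) (nat_lit 124)) (XT.lf (nat_lit 0) (nat_lit 50185394566) (nat_lit 1140) (nat_lit 5240026528) (nat_lit 1216) (nat_lit 60339388114) (nat_lit 187) (nat_lit 5) (nat_lit 202) (nat_lit 3) (nat_lit 203) (nat_lit 5) (nat_lit 329) (nat_lit 328) (nat_lit 123))))))))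
noncomputable def xc127 : XT := (XT.nd (nat_lit 81588) (nat_lit 0) (nat_lit 1292) (XT.nd (nat_lit 40716) (nat_lit 0) (nat_lit 1292) (XT.nd (nat_lit 468) (nat_lit 1368) (nat_lit 0) (XT.nd (nat_lit 234) (nat_lit 0) (nat_lit 152) (XT.nd (nat_lit 78) (nat_lit 0) (nat_lit 0) (XT.lf (nat_lit 0) (nat_lit 53429899085) (nat_lit 1140) (nat_lit 35115845777) (nat_lit 1216) (nat_lit 30124984410) (nat_lit 188) (nat_lit 5) (nat_lit 203) (nat_lit 5) (nat_lit 204) (nat_lit 5) (nat_lit 330) (nat_lit 328) (nat_lit 122)) (XT.nd (nat_lit 78) (nat_lit 0) (nat_lit 76) (XT.lf (nat_lit 76) (nat_lit 55705487100) (nat_lit 0) (nat_lit 2280028426) (nat_lit 1216) (nat_lit 63701963873) (nat_lit 189) (nat_lit 5) (nat_lit 188) (nat_lit 5) (nat_lit 204) (nat_lit 5) (nat_lit 331) (nat_lit 328) (nat_lit 121)) (XT.lf (nat_lit 76) (nat_lit 26624363836) (nat_lit 0) (nat_lit 37613864169) (nat_lit 1216) (nat_lit 60572760199) (nat_lit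 190) (nat_lit 5) (nat_lit 189) (nat_lit 5) (nat_lit 205) (nat_lit 5) (nat_lit 332) (nat_lit 328) (nat_lit 120)))) (XT.nd (nat_lit 78) (nat_lit 0) (nat_lit 76) (XT.lf (nat_lit 0) (nat_lit 72021447862) (nat_lit 1140) (nat_lit 3369816441) (nat_lit 1216) (nat_lit 52662872593) (nat_lit 190) (nat_lit 5) (nat_lit 205) (nat_lit 5) (nat_lit 206) (nat_lit 5) (nat_lit 333) (nat_lit 328) (nat_lit 119)) (XT.nd (nat_lit 78) (nat_lit 0) (nat_lit 0) (XT.lf (nat_lit 0) (nat_lit 81668092375) (nat_lit 1140) (nat_lit 33860969045) (nat_lit 1216) (nat_lit 15886154263) (nat_lit 191) (nat_lit 5) (nat_lit 206) (nat_lit 5) (nat_lit 207) (nat_lit 5) (nat_lit 334) (nat_lit 328) (nat_lit 118)) (XT.lf (nat_lit 76) (nat_lit 69241192510) (nat_lit 0) (nat_lit 24017037064) (nat_lit 1216) (nat_lit 41642284564) (nat_lit 192) (nat_lit 5) (nat_lit 191) (nat_lit 5) (nat_lit 207) (nat_lit 5) (nat_lit 335) (nat_lit 328) (nat_lit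 117))))) (XT.nd (nat_lit 234) (nat_lit 1672) (nat_lit 0) (XT.nd (nat_lit 78) (nat_lit 0) (nat_lit 76) (XT.lf (nat_lit 76) (nat_lit 39735281083) (nat_lit 0) (nat_lit 67118973139) (nat_lit 1216) (nat_lit 31663032393) (nat_lit 193) (nat_lit 5) (nat_lit 192) (nat_lit 5) (nat_lit 208) (nat_lit 5) (nat_lit 336) (nat_lit 328) (nat_lit 116)) (XT.nd (nat_lit 78) (nat_lit 0) (nat_lit 0) (XT.lf (nat_lit 76) (nat_lit 9131571965) (nat_lit 0) (nat_lit 113285219866) (nat_lit 1216) (nat_lit 19859505027) (nat_lit 194) (nat_lit 5) (nat_lit 193) (nat_lit 5) (nat_lit 209) (nat_lit 5) (nat_lit 337) (nat_lit 328) (nat_lit 115)) (XT.lf (nat_lit 76) (nat_lit 123813859837) (nat_lit 0) (nat_lit 16630921875) (nat_lit 1216) (nat_lit 5727856608) (nat_lit 194) (nat_lit 5) (nat_lit 193) (nat_lit 5) (nat_lit 209) (nat_lit 5) (nat_lit 338) (nat_lit 328) (nat_lit 114)))) (XT.nd (nat_lit 39858) (nat_lit 0) (nat_lit 1292) (XT.nd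 (nat_lit 78) (nat_lit 608) (nat_lit 0) (XT.lf (nat_lit 0) (nat_lit 10678303940) (nat_lit 1216) (nat_lit 55312263422) (nat_lit 76) (nat_lit 84218231514) (nat_lit 178) (nat_lit 5) (nat_lit 194) (nat_lit 5) (nat_lit 179) (nat_lit 5) (nat_lit 339) (nat_lit 328) (nat_lit 113)) (XT.lf (nat_lit 0) (nat_lit 29161669739) (nat_lit 684) (nat_lit 89679156851) (nat_lit 76) (nat_lit 35562979197) (nat_lit 170) (nat_lit 5) (nat_lit 179) (nat_lit 5) (nat_lit 171) (nat_lit 5) (nat_lit 340) (nat_lit 328) (nat_lit 112))) (XT.nd (nat_lit 78) (nat_lit 0) (nat_lit 0) (XT.lf (nat_lit 0) (nat_lit 12702749905) (nat_lit 0) (nat_lit 12702749905) (nat_lit 1140) (nat_lit 33897642080) (nat_lit 187) (nat_lit 5) (nat_lit 187) (nat_lit 3) (nat_lit 202) (nat_lit 3) (nat_lit 329) (nat_lit 329) (nat_lit 122)) (XT.lf (nat_lit 0) (nat_lit 52709606123) (nat_lit 1140) (nat_lit 5493977972) (nat_lit 1216) (nat_lit 63348997012) (nat_lit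 187) (nat_lit 5) (nat_lit 202) (nat_lit 3) (nat_lit 203) (nat_lit 5) (nat_lit 330) (nat_lit 329) (nat_lit 121)))))) (XT.nd (nat_lit 468) (nat_lit 76) (nat_lit 0) (XT.nd (nat_lit 234) (nat_lit 0) (nat_lit 152) (XT.nd (nat_lit 78) (nat_lit 0) (nat_lit 0) (XT.lf (nat_lit 0) (nat_lit 56115637165) (nat_lit 1140) (nat_lit 36863308078) (nat_lit 1216) (nat_lit 31624873860) (nat_lit 188) (nat_lit 5) (nat_lit 203) (nat_lit 5) (nat_lit 204) (nat_lit 5) (nat_lit 331) (nat_lit 329) (nat_lit 120)) (XT.nd (nat_lit 78) (nat_lit 0) (nat_lit 76) (XT.lf (nat_lit 76) (nat_lit 58498852665) (nat_lit 0) (nat_lit 2399581295) (nat_lit 1216) (nat_lit 66872991711) (nat_lit 189) (nat_lit 5) (nat_lit 188) (nat_lit 5) (nat_lit 204) (nat_lit 5) (nat_lit 332) (nat_lit 329) (nat_lit 119)) (XT.lf (nat_lit 76) (nat_lit 27963908577) (nat_lit 0) (nat_lit 39499253053) (nat_lit 1216) (nat_lit 63587967777) (nat_lit 190) (nat_lit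 5) (nat_lit 189) (nat_lit 5) (nat_lit 205) (nat_lit 5) (nat_lit 333) (nat_lit 329) (nat_lit 118)))) (XT.nd (nat_lit 78) (nat_lit 0) (nat_lit 76) (XT.lf (nat_lit 0) (nat_lit 75634879386) (nat_lit 1140) (nat_lit 3529945459) (nat_lit 1216) (nat_lit 55291631416) (nat_lit 190) (nat_lit 5) (nat_lit 205) (nat_lit 5) (nat_lit 206) (nat_lit 5) (nat_lit 334) (nat_lit 329) (nat_lit 117)) (XT.nd (nat_lit 78) (nat_lit 0) (nat_lit 0) (XT.lf (nat_lit 0) (nat_lit 85763309847) (nat_lit 1140) (nat_lit 35545488191) (nat_lit 1216) (nat_lit 16676808133) (nat_lit 191) (nat_lit 5) (nat_lit 206) (nat_lit 5) (nat_lit 207) (nat_lit 5) (nat_lit 335) (nat_lit 329) (nat_lit 116)) (XT.lf (nat_lit 76) (nat_lit 72711536951) (nat_lit 0) (nat_lit 25220934077) (nat_lit 1216) (nat_lit 43712713765) (nat_lit 192) (nat_lit 5) (nat_lit 191) (nat_lit 5) (nat_lit 207) (nat_lit 5) (nat_lit 336) (nat_lit 329) (nat_lit 115))))) (XT.nd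 (nat_lit 40092) (nat_lit 380) (nat_lit 0) (XT.nd (nat_lit 78) (nat_lit 0) (nat_lit 76) (XT.lf (nat_lit 76) (nat_lit 41730465778) (nat_lit 0) (nat_lit 70477344675) (nat_lit 1216) (nat_lit 33235000757) (nat_lit 193) (nat_lit 5) (nat_lit 192) (nat_lit 5) (nat_lit 208) (nat_lit 5) (nat_lit 337) (nat_lit 329) (nat_lit 114)) (XT.nd (nat_lit 78) (nat_lit 0) (nat_lit 0) (XT.lf (nat_lit 76) (nat_lit 9596682447) (nat_lit 0) (nat_lit 118951335969) (nat_lit 1216) (nat_lit 20841767931) (nat_lit 194) (nat_lit 5) (nat_lit 193) (nat_lit 5) (nat_lit 209) (nat_lit 5) (nat_lit 338) (nat_lit 329) (nat_lit 113)) (XT.lf (nat_lit 76) (nat_lit 130012678433) (nat_lit 0) (nat_lit 17464234739) (nat_lit 1216) (nat_lit 6004047203) (nat_lit 194) (nat_lit 5) (nat_lit 193) (nat_lit 5) (nat_lit 209) (nat_lit 5) (nat_lit 339) (nat_lit 329) (nat_lit 112)))) (XT.nd (nat_lit 156) (nat_lit 0) (nat_lit 76) (XT.nd (nat_lit 78)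 (nat_lit 0) (nat_lit 0) (XT.lf (nat_lit 0) (nat_lit 13341462160) (nat_lit 0) (nat_lit 13341462160) (nat_lit 1140) (nat_lit 35585150510) (nat_lit 187) (nat_lit 5) (nat_lit 187) (nat_lit 3) (nat_lit 202) (nat_lit 3) (nat_lit 330) (nat_lit 330) (nat_lit 120)) (XT.lf (nat_lit 0) (nat_lit 55358639109) (nat_lit 1140) (nat_lit 5761375390) (nat_lit 1216) (nat_lit 66509770666) (nat_lit 187) (nat_lit 5) (nat_lit 202) (nat_lit 3) (nat_lit 203) (nat_lit 5) (nat_lit 331) (nat_lit 330) (nat_lit 119))) (XT.nd (nat_lit 78) (nat_lit 0) (nat_lit 0) (XT.lf (nat_lit 0) (nat_lit 58934337957) (nat_lit 1140) (nat_lit 38698917938) (nat_lit 1216) (nat_lit 33200349055) (nat_lit 188) (nat_lit 5) (nat_lit 203) (nat_lit 5) (nat_lit 204) (nat_lit 5) (nat_lit 332) (nat_lit 330) (nat_lit 118)) (XT.lf (nat_lit 76) (nat_lit 61431134264) (nat_lit 0) (nat_lit 2524595688) (nat_lit 1216) (nat_lit 70203879069) (nat_lit 189) (nat_lit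 5) (nat_lit 188) (nat_lit 5) (nat_lit 204) (nat_lit 5) (nat_lit 333) (nat_lit 330) (nat_lit 117))))))) (XT.nd (nat_lit 40950) (nat_lit 0) (nat_lit 0) (XT.nd (nat_lit 40404) (nat_lit 152) (nat_lit 0) (XT.nd (nat_lit 234) (nat_lit 0) (nat_lit 152) (XT.nd (nat_lit 78) (nat_lit 0) (nat_lit 76) (XT.lf (nat_lit 76) (nat_lit 29369656431) (nat_lit 0) (nat_lit 41478474823) (nat_lit 1216) (nat_lit 66755184367) (nat_lit 190) (nat_lit 5) (nat_lit 189) (nat_lit 5) (nat_lit 205) (nat_lit 5) (nat_lit 334) (nat_lit 330) (nat_lit 116)) (XT.nd (nat_lit 78) (nat_lit 0) (nat_lit 76) (XT.lf (nat_lit 0) (nat_lit 79427833451) (nat_lit 1140) (nat_lit 3698858330) (nat_lit 1216) (nat_lit 58052235838) (nat_lit 190) (nat_lit 5) (nat_lit 205) (nat_lit 5) (nat_lit 206) (nat_lit 5) (nat_lit 335) (nat_lit 330) (nat_lit 115)) (XT.lf (nat_lit 0) (nat_lit 90062189946) (nat_lit 1140) (nat_lit 37315026268) (nat_lit 1216) (nat_lit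 17507334397) (nat_lit 191) (nat_lit 5) (nat_lit 206) (nat_lit 5) (nat_lit 207) (nat_lit 5) (nat_lit 336) (nat_lit 330) (nat_lit 114)))) (XT.nd (nat_lit 78) (nat_lit 0) (nat_lit 76) (XT.lf (nat_lit 76) (nat_lit 76354628370) (nat_lit 0) (nat_lit 26484742831) (nat_lit 1216) (nat_lit 45887750789) (nat_lit 192) (nat_lit 5) (nat_lit 191) (nat_lit 5) (nat_lit 207) (nat_lit 5) (nat_lit 337) (nat_lit 330) (nat_lit 113)) (XT.nd (nat_lit 78) (nat_lit 0) (nat_lit 76) (XT.lf (nat_lit 76) (nat_lit 43824626835) (nat_lit 0) (nat_lit 74003409532) (nat_lit 1216) (nat_lit 34886607252) (nat_lit 193) (nat_lit 5) (nat_lit 192) (nat_lit 5) (nat_lit 208) (nat_lit 5) (nat_lit 338) (nat_lit 330) (nat_lit 112)) (XT.lf (nat_lit 76) (nat_lit 10084255240) (nat_lit 0) (nat_lit 124900585406) (nat_lit 1216) (nat_lit 21874139913) (nat_lit 194) (nat_lit 5) (nat_lit 193) (nat_lit 5) (nat_lit 209) (nat_lit 5) (nat_lit 339) (nat_lit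 330) (nat_lit 111))))) (XT.nd (nat_lit 234) (nat_lit 0) (nat_lit 76) (XT.nd (nat_lit 78) (nat_lit 0) (nat_lit 0) (XT.lf (nat_lit 0) (nat_lit 14011777680) (nat_lit 0) (nat_lit 14011777680) (nat_lit 1140) (nat_lit 37357719896) (nat_lit 187) (nat_lit 5) (nat_lit 187) (nat_lit 3) (nat_lit 202) (nat_lit 3) (nat_lit 331) (nat_lit 331) (nat_lit 118)) (XT.nd (nat_lit 78) (nat_lit 0) (nat_lit 76) (XT.lf (nat_lit 0) (nat_lit 58138863744) (nat_lit 1140) (nat_lit 6042821502) (nat_lit 1216) (nat_lit 69829203692) (nat_lit 187) (nat_lit 5) (nat_lit 202) (nat_lit 3) (nat_lit 203) (nat_lit 5) (nat_lit 332) (nat_lit 331) (nat_lit 117)) (XT.lf (nat_lit 0) (nat_lit 61892772709) (nat_lit 1140) (nat_lit 40627010734) (nat_lit 1216) (nat_lit 34855134309) (nat_lit 188) (nat_lit 5) (nat_lit 203) (nat_lit 5) (nat_lit 204) (nat_lit 5) (nat_lit 333) (nat_lit 331) (nat_lit 116)))) (XT.nd (nat_lit 156) (nat_lit 0) (nat_lit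 152) (XT.nd (nat_lit 78) (nat_lit 0) (nat_lit 76) (XT.lf (nat_lit 76) (nat_lit 64509347636) (nat_lit 0) (nat_lit 2655392662) (nat_lit 1216) (nat_lit 73702497306) (nat_lit 189) (nat_lit 5) (nat_lit 188) (nat_lit 5) (nat_lit 204) (nat_lit 5) (nat_lit 334) (nat_lit 331) (nat_lit 115)) (XT.lf (nat_lit 76) (nat_lit 30844989525) (nat_lit 0) (nat_lit 43556261709) (nat_lit 1216) (nat_lit 70081894335) (nat_lit 190) (nat_lit 5) (nat_lit 189) (nat_lit 5) (nat_lit 205) (nat_lit 5) (nat_lit 335) (nat_lit 331) (nat_lit 114))) (XT.nd (nat_lit 78) (nat_lit 0) (nat_lit 76) (XT.lf (nat_lit 0) (nat_lit 83409393011) (nat_lit 1140) (nat_lit 3876921970) (nat_lit 1216) (nat_lit 60951240239) (nat_lit 190) (nat_lit 5) (nat_lit 205) (nat_lit 5) (nat_lit 206) (nat_lit 5) (nat_lit 336) (nat_lit 331) (nat_lit 113)) (XT.lf (nat_lit 0) (nat_lit 94575017908) (nat_lit 1140) (nat_lit 39173760500) (nat_lit 1216) (nat_lit 18379695091)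 (nat_lit 191) (nat_lit 5) (nat_lit 206) (nat_lit 5) (nat_lit 207) (nat_lit 5) (nat_lit 337) (nat_lit 331) (nat_lit 112)))))) (XT.nd (nat_lit 80886) (nat_lit 0) (nat_lit 0) (XT.nd (nat_lit 40326) (nat_lit 0) (nat_lit 76) (XT.nd (nat_lit 40170) (nat_lit 304) (nat_lit 0) (XT.lf (nat_lit 76) (nat_lit 80179175727) (nat_lit 0) (nat_lit 27811485233) (nat_lit 1216) (nat_lit 48172525028) (nat_lit 192) (nat_lit 5) (nat_lit 191) (nat_lit 5) (nat_lit 207) (nat_lit 5) (nat_lit 338) (nat_lit 331) (nat_lit 111)) (XT.nd (nat_lit 78) (nat_lit 0) (nat_lit 0) (XT.lf (nat_lit 0) (nat_lit 14715307528) (nat_lit 0) (nat_lit 14715307528) (nat_lit 1140) (nat_lit 39219539550) (nat_lit 187) (nat_lit 5) (nat_lit 187) (nat_lit 3) (nat_lit 202) (nat_lit 3) (nat_lit 332) (nat_lit 332) (nat_lit 116)) (XT.lf (nat_lit 0) (nat_lit 61056956754) (nat_lit 1140) (nat_lit 6338955631) (nat_lit 1216) (nat_lit 73315171353) (nat_lit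 187) (nat_lit 5) (nat_lit 202) (nat_lit 3) (nat_lit 203) (nat_lit 5) (nat_lit 333) (nat_lit 332) (nat_lit 115)))) (XT.nd (nat_lit 156) (nat_lit 0) (nat_lit 76) (XT.nd (nat_lit 78) (nat_lit 0) (nat_lit 0) (XT.lf (nat_lit 0) (nat_lit 64998039784) (nat_lit 1140) (nat_lit 42652145305) (nat_lit 1216) (nat_lit 36593145267) (nat_lit 188) (nat_lit 5) (nat_lit 203) (nat_lit 5) (nat_lit 204) (nat_lit 5) (nat_lit 334) (nat_lit 332) (nat_lit 114)) (XT.lf (nat_lit 76) (nat_lit 67740852804) (nat_lit 0) (nat_lit 2792304872) (nat_lit 1216) (nat_lit 77377122655) (nat_lit 189) (nat_lit 5) (nat_lit 188) (nat_lit 5) (nat_lit 204) (nat_lit 5) (nat_lit 335) (nat_lit 332) (nat_lit 113))) (XT.nd (nat_lit 78) (nat_lit 0) (nat_lit 76) (XT.lf (nat_lit 76) (nat_lit 32393452400) (nat_lit 0) (nat_lit 45737578780) (nat_lit 1216) (nat_lit 73575967057) (nat_lit 190) (nat_lit 5) (nat_lit 189) (nat_lit 5) (nat_lit 205) (nat_lit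 5) (nat_lit 336) (nat_lit 332) (nat_lit 112)) (XT.lf (nat_lit 0) (nat_lit 87589085236) (nat_lit 1140) (nat_lit 4064528362) (nat_lit 1216) (nat_lit 63995530241) (nat_lit 190) (nat_lit 5) (nat_lit 205) (nat_lit 5) (nat_lit 206) (nat_lit 5) (nat_lit 337) (nat_lit 332) (nat_lit 111))))) (XT.nd (nat_lit 234) (nat_lit 0) (nat_lit 0) (XT.nd (nat_lit 78) (nat_lit 0) (nat_lit 0) (XT.lf (nat_lit 0) (nat_lit 15453740445) (nat_lit 0) (nat_lit 15453740445) (nat_lit 1140) (nat_lit 41175014179) (nat_lit 187) (nat_lit 5) (nat_lit 187) (nat_lit 3) (nat_lit 202) (nat_lit 3) (nat_lit 333) (nat_lit 333) (nat_lit 114)) (XT.nd (nat_lit 78) (nat_lit 0) (nat_lit 76) (XT.lf (nat_lit 0) (nat_lit 64119917810) (nat_lit 1140) (nat_lit 6650454935) (nat_lit 1216) (nat_lit 76975948040) (nat_lit 187) (nat_lit 5) (nat_lit 202) (nat_lit 3) (nat_lit 203) (nat_lit 5) (nat_lit 334) (nat_lit 333) (nat_lit 113)) (XT.lf (nat_lit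 0) (nat_lit 68257582081) (nat_lit 1140) (nat_lit 44779114507) (nat_lit 1216) (nat_lit 38418497988) (nat_lit 188) (nat_lit 5) (nat_lit 203) (nat_lit 5) (nat_lit 204) (nat_lit 5) (nat_lit 335) (nat_lit 333) (nat_lit 112)))) (XT.nd (nat_lit 40560) (nat_lit 76) (nat_lit 0) (XT.nd (nat_lit 78) (nat_lit 0) (nat_lit 76) (XT.lf (nat_lit 76) (nat_lit 71133371893) (nat_lit 0) (nat_lit 2935677554) (nat_lit 1216) (nat_lit 81236455417) (nat_lit 189) (nat_lit 5) (nat_lit 188) (nat_lit 5) (nat_lit 204) (nat_lit 5) (nat_lit 336) (nat_lit 333) (nat_lit 111)) (XT.lf (nat_lit 76) (nat_lit 34018760756) (nat_lit 0) (nat_lit 48027635938) (nat_lit 1216) (nat_lit 77245675164) (nat_lit 190) (nat_lit 5) (nat_lit 189) (nat_lit 5) (nat_lit 205) (nat_lit 5) (nat_lit 337) (nat_lit 333) (nat_lit 110))) (XT.nd (nat_lit 78) (nat_lit 0) (nat_lit 76) (XT.lf (nat_lit 0) (nat_lit 67335086688) (nat_lit 1140) (nat_lit 6978035752)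 (nat_lit 1216) (nat_lit 80820226729) (nat_lit 187) (nat_lit 5) (nat_lit 202) (nat_lit 3) (nat_lit 203) (nat_lit 5) (nat_lit 335) (nat_lit 334) (nat_lit 111)) (XT.lf (nat_lit 0) (nat_lit 71679205228) (nat_lit 1140) (nat_lit 47012956343) (nat_lit 1216) (nat_lit 40335518540) (nat_lit 188) (nat_lit 5) (nat_lit 203) (nat_lit 5) (nat_lit 204) (nat_lit 5) (nat_lit 336) (nat_lit 334) (nat_lit 110))))))))

set_option maxRecDepth 10000000 in
noncomputable def Tp : PT := (PT.nd (nat_lit 5415228) (PT.nd (nat_lit 5009160) (PT.nd (nat_lit 4643418) (PT.nd (nat_lit 4318626) pc0 pc1) (PT.nd (nat_lit 203346) pc2 pc3)) (PT.nd (nat_lit 243516) (PT.nd (nat_lit 161538) pc4 pc5) (PT.nd (nat_lit 81432) pc6 pc7))) (PT.nd (nat_lit 243360) (PT.nd (nat_lit 122382) (PT.nd (nat_lit 80574) pc8 pc9) (PT.nd (nat_lit 79638) pc10 pc11)) (PT.nd (nat_lit 123318) (PT.nd (nat_lit 41730) pc12 pc13) (PT.nd (nat_lit 158730) pc14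 pc15))))

set_option maxRecDepth 10000000 in
noncomputable def Tx : XT := (XT.nd (nat_lit 8521656) (nat_lit 0) (nat_lit 76) XT.nil (XT.nd (nat_lit 5077722) (nat_lit 0) (nat_lit 0) (XT.nd (nat_lit 2355834) (nat_lit 0) (nat_lit 456) (XT.nd (nat_lit 1624350) (nat_lit 0) (nat_lit 152) (XT.nd (nat_lit 1136148) (nat_lit 0) (nat_lit 76) (XT.nd (nat_lit 809874) (nat_lit 0) (nat_lit 76) (XT.nd (nat_lit 566826) (nat_lit 0) (nat_lit 76) (XT.nd (nat_lit 365508) (nat_lit 0) (nat_lit 0) (XT.nd (nat_lit 243672) (nat_lit 0) (nat_lit 0) xc0 xc1) (XT.nd (nat_lit 120432) (nat_lit 0) (nat_lit 76) xc2 xc3)) (XT.nd (nat_lit 122226) (nat_lit 0) (nat_lit 0) (XT.nd (nat_lit 42276) (nat_lit 0) (nat_lit 0) xc4 xc5) (XT.nd (nat_lit 41808) (nat_lit 0) (nat_lit 0) xc6 xc7))) (XT.nd (nat_lit 164346) (nat_lit 0) (nat_lit 0) (XT.nd (nat_lit 82446) (nat_lit 0) (nat_lit 0) (XT.nd (nat_lit 41262) (nat_lit 0) (nat_lit 0) xc8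 xc9) (XT.nd (nat_lit 41028) (nat_lit 0) (nat_lit 0) xc10 xc11)) (XT.nd (nat_lit 81276) (nat_lit 0) (nat_lit 0) (XT.nd (nat_lit 40716) (nat_lit 0) (nat_lit 0) xc12 xc13) (XT.nd (nat_lit 40404) (nat_lit 0) (nat_lit 0) xc14 xc15)))) (XT.nd (nat_lit 281970) (nat_lit 0) (nat_lit 0) (XT.nd (nat_lit 159666) (nat_lit 0) (nat_lit 0) (XT.nd (nat_lit 80106) (nat_lit 0) (nat_lit 0) (XT.nd (nat_lit 40092) (nat_lit 0) (nat_lit 0) xc16 xc17) (XT.nd (nat_lit 39858) (nat_lit 0) (nat_lit 0) xc18 xc19)) (XT.nd (nat_lit 43680) (nat_lit 0) (nat_lit 0) (XT.nd (nat_lit 4134) (nat_lit 0) (nat_lit 0) xc20 xc21) (XT.nd (nat_lit 39390) (nat_lit 0) (nat_lit 0) xc22 xc23))) (XT.nd (nat_lit 120900) (nat_lit 0) (nat_lit 0) (XT.nd (nat_lit 43212) (nat_lit 0) (nat_lit 0) (XT.nd (nat_lit 4134) (nat_lit 0) (nat_lit 0) xc24 xc25) (XT.nd (nat_lit 38922) (nat_lit 0) (nat_lit 0) xc26 xc27)) (XT.nd (nat_lit 42744) (nat_lit 0) (nat_lit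 76) (XT.nd (nat_lit 4134) (nat_lit 228) (nat_lit 0) xc28 xc29) (XT.nd (nat_lit 38454) (nat_lit 0) (nat_lit 152) xc30 xc31))))) (XT.nd (nat_lit 401154) (nat_lit 0) (nat_lit 152) (XT.nd (nat_lit 202410) (nat_lit 0) (nat_lit 76) (XT.nd (nat_lit 118482) (nat_lit 0) (nat_lit 76) (XT.nd (nat_lit 76362) (nat_lit 0) (nat_lit 76) (XT.nd (nat_lit 38220) (nat_lit 0) (nat_lit 76) xc32 xc33) (XT.nd (nat_lit 4134) (nat_lit 380) (nat_lit 0) xc34 xc35)) (XT.nd (nat_lit 42042) (nat_lit 0) (nat_lit 0) (XT.nd (nat_lit 4134) (nat_lit 0) (nat_lit 0) xc36 xc37) (XT.nd (nat_lit 37752) (nat_lit 0) (nat_lit 456) xc38 xc39))) (XT.nd (nat_lit 116376) (nat_lit 0) (nat_lit 0) (XT.nd (nat_lit 41652) (nat_lit 0) (nat_lit 0) (XT.nd (nat_lit 37518) (nat_lit 0) (nat_lit 152) xc40 xc41) (XT.nd (nat_lit 37440) (nat_lit 0) (nat_lit 0) xc42 xc43)) (XT.nd (nat_lit 41262) (nat_lit 0) (nat_lit 0) (XT.nd (nat_lit 4134) (nat_lit 1444)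 (nat_lit 0) xc44 xc45) (XT.nd (nat_lit 4134) (nat_lit 1064) (nat_lit 0) xc46 xc47)))) (XT.nd (nat_lit 164190) (nat_lit 0) (nat_lit 0) (XT.nd (nat_lit 81900) (nat_lit 0) (nat_lit 0) (XT.nd (nat_lit 40872) (nat_lit 0) (nat_lit 0) (XT.nd (nat_lit 4056) (nat_lit 684) (nat_lit 0) xc48 xc49) (XT.nd (nat_lit 4134) (nat_lit 532) (nat_lit 0) xc50 xc51)) (XT.nd (nat_lit 41106) (nat_lit 0) (nat_lit 0) (XT.nd (nat_lit 4134) (nat_lit 456) (nat_lit 0) xc52 xc53) (XT.nd (nat_lit 4134) (nat_lit 304) (nat_lit 0) xc54 xc55))) (XT.nd (nat_lit 82914) (nat_lit 0) (nat_lit 76) (XT.nd (nat_lit 41418) (nat_lit 0) (nat_lit 0) (XT.nd (nat_lit 4134) (nat_lit 152) (nat_lit 0) xc56 xc57) (XT.nd (nat_lit 37362) (nat_lit 0) (nat_lit 1824) xc58 xc59)) (XT.nd (nat_lit 41574) (nat_lit 0) (nat_lit 0) (XT.nd (nat_lit 37440) (nat_lit 0) (nat_lit 912) xc60 xc61) (XT.nd (nat_lit 37518) (nat_lit 0) (nat_lit 380) xc62 xc63))))))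 (XT.nd (nat_lit 853710) (nat_lit 0) (nat_lit 836) (XT.nd (nat_lit 404196) (nat_lit 0) (nat_lit 228) (XT.nd (nat_lit 200772) (nat_lit 0) (nat_lit 76) (XT.nd (nat_lit 116844) (nat_lit 0) (nat_lit 0) (XT.nd (nat_lit 41574) (nat_lit 0) (nat_lit 0) (XT.nd (nat_lit 37440) (nat_lit 0) (nat_lit 0) xc64 xc65) (XT.nd (nat_lit 37596) (nat_lit 0) (nat_lit 0) xc66 xc67)) (XT.nd (nat_lit 41886) (nat_lit 0) (nat_lit 76) (XT.nd (nat_lit 4134) (nat_lit 912) (nat_lit 0) xc68 xc69) (XT.nd (nat_lit 4134) (nat_lit 228) (nat_lit 0) xc70 xc71))) (XT.nd (nat_lit 84396) (nat_lit 0) (nat_lit 76) (XT.nd (nat_lit 42120) (nat_lit 0) (nat_lit 0) (XT.nd (nat_lit 37986) (nat_lit 0) (nat_lit 1140) xc72 xc73) (XT.nd (nat_lit 38142) (nat_lit 0) (nat_lit 152) xc74 xc75)) (XT.nd (nat_lit 76518) (nat_lit 0) (nat_lit 0) (XT.nd (nat_lit 38220) (nat_lit 0) (nat_lit 0) xc76 xc77) (XT.nd (nat_lit 4134) (nat_lit 380) (nat_lit 0) xc78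 xc79)))) (XT.nd (nat_lit 205842) (nat_lit 0) (nat_lit 304) (XT.nd (nat_lit 119808) (nat_lit 0) (nat_lit 152) (XT.nd (nat_lit 42510) (nat_lit 0) (nat_lit 76) (XT.nd (nat_lit 38376) (nat_lit 0) (nat_lit 684) xc80 xc81) (XT.nd (nat_lit 38532) (nat_lit 0) (nat_lit 76) xc82 xc83)) (XT.nd (nat_lit 42978) (nat_lit 0) (nat_lit 76) (XT.nd (nat_lit 4134) (nat_lit 532) (nat_lit 0) xc84 xc85) (XT.nd (nat_lit 38922) (nat_lit 0) (nat_lit 152) xc86 xc87))) (XT.nd (nat_lit 121368) (nat_lit 0) (nat_lit 76) (XT.nd (nat_lit 78078) (nat_lit 0) (nat_lit 0) (XT.nd (nat_lit 39000) (nat_lit 0) (nat_lit 0) xc88 xc89) (XT.nd (nat_lit 39156) (nat_lit 0) (nat_lit 684) xc90 xc91)) (XT.nd (nat_lit 78702) (nat_lit 0) (nat_lit 228) (XT.nd (nat_lit 39312) (nat_lit 0) (nat_lit 228) xc92 xc93) (XT.nd (nat_lit 39468) (nat_lit 0) (nat_lit 304) xc94 xc95))))) (XT.nd (nat_lit 607542) (nat_lit 0) (nat_lit 1748) (XT.nd (nat_lit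 282984) (nat_lit 0) (nat_lit 684) (XT.nd (nat_lit 158730) (nat_lit 0) (nat_lit 380) (XT.nd (nat_lit 79092) (nat_lit 0) (nat_lit 228) (XT.nd (nat_lit 39468) (nat_lit 0) (nat_lit 76) xc96 xc97) (XT.nd (nat_lit 39780) (nat_lit 0) (nat_lit 76) xc98 xc99)) (XT.nd (nat_lit 44070) (nat_lit 0) (nat_lit 0) (XT.nd (nat_lit 39936) (nat_lit 0) (nat_lit 836) xc100 xc101) (XT.nd (nat_lit 40014) (nat_lit 0) (nat_lit 228) xc102 xc103))) (XT.nd (nat_lit 161460) (nat_lit 0) (nat_lit 532) (XT.nd (nat_lit 80574) (nat_lit 0) (nat_lit 152) (XT.nd (nat_lit 40248) (nat_lit 0) (nat_lit 0) xc104 xc105) (XT.nd (nat_lit 40404) (nat_lit 0) (nat_lit 0) xc106 xc107)) (XT.nd (nat_lit 81354) (nat_lit 0) (nat_lit 152) (XT.nd (nat_lit 40638) (nat_lit 0) (nat_lit 0) xc108 xc109) (XT.nd (nat_lit 40794) (nat_lit 0) (nat_lit 228) xc110 xc111)))) (XT.nd (nat_lit 406458) (nat_lit 0) (nat_lit 2280) (XT.nd (nat_lit 201864) (nat_lit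 0) (nat_lit 912) (XT.nd (nat_lit 82056) (nat_lit 0) (nat_lit 304) (XT.nd (nat_lit 40950) (nat_lit 0) (nat_lit 0) xc112 xc113) (XT.nd (nat_lit 41184) (nat_lit 0) (nat_lit 152) xc114 xc115)) (XT.nd (nat_lit 83148) (nat_lit 0) (nat_lit 532) (XT.nd (nat_lit 41496) (nat_lit 0) (nat_lit 228) xc116 xc117) (XT.nd (nat_lit 41730) (nat_lit 0) (nat_lit 228) xc118 xc119))) (XT.nd (nat_lit 284388) (nat_lit 0) (nat_lit 2660) (XT.nd (nat_lit 122382) (nat_lit 0) (nat_lit 1216) (XT.nd (nat_lit 42042) (nat_lit 0) (nat_lit 228) xc120 xc121) (XT.nd (nat_lit 80808) (nat_lit 0) (nat_lit 304) xc122 xc123)) (XT.nd (nat_lit 163800) (nat_lit 0) (nat_lit 2128) (XT.nd (nat_lit 81666) (nat_lit 0) (nat_lit 836) xc124 xc125) (XT.nd (nat_lit 161616) (nat_lit 0) (nat_lit 2736) xc126 xc127))))))) XT.nil))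

set_option maxRecDepth 10000000 in
noncomputable def Te : XT := XT.nil

set_option maxRecDepth 10000000 in
noncomputable def Tz : ZL := (ZL.cons (nat_lit 76) (nat_lit 3) (nat_lit 100509687784488651695) (ZL.cons (nat_lit 152) (nat_lit 6) (nat_lit 196620003249683696682) (ZL.cons (nat_lit 228) (nat_lit 6) (nat_lit 192455703777564765512) (ZL.cons (nat_lit 304) (nat_lit 3) (nat_lit 96116866166065466689) (ZL.cons (nat_lit 380) (nat_lit 6) (nat_lit 188083189331839887782) (ZL.cons (nat_lit 456) (nat_lit 6) (nat_lit 184158492003571771692) (ZL.cons (nat_lit 532) (nat_lit 3) (nat_lit 91973545313484061020) (ZL.cons (nat_lit 608) (nat_lit 6) (nat_lit 180037559808890249798) (ZL.cons (nat_lit 684) (nat_lit 6) (nat_lit 176345288470896561830) (ZL.cons (nat_lit 760) (nat_lit 3) (nat_lit 88071976913256066796) (ZL.cons (nat_lit 836) (nat_lit 6) (nat_lit 172468403566003189466) (ZL.cons (nat_lit 912) (nat_lit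 6) (nat_lit 169002157717219348504) (ZL.cons (nat_lit 988) (nat_lit 3) (nat_lit 84405205218426613186) (ZL.cons (nat_lit 1064) (nat_lit 6) (nat_lit 165362599575996315494) (ZL.cons (nat_lit 1140) (nat_lit 6) (nat_lit 162116761909954226092) (ZL.cons (nat_lit 1216) (nat_lit 3) (nat_lit 80967072726231340602) (ZL.cons (nat_lit 1292) (nat_lit 6) (nat_lit 159065169253807810334) (ZL.cons (nat_lit 1368) (nat_lit 6) (nat_lit 158708632360610032220) (ZL.cons (nat_lit 1444) (nat_lit 6) (nat_lit 155678380507362528902) (ZL.cons (nat_lit 1520) (nat_lit 3) (nat_lit 77752230035828147838) (ZL.cons (nat_lit 1596) (nat_lit 6) (nat_lit 152836175007355296240) (ZL.cons (nat_lit 1672) (nat_lit 6) (nat_lit 152496616061452650416) (ZL.cons (nat_lit 1748) (nat_lit 6) (nat_lit 149677938796641468720) (ZL.cons (nat_lit 1824) (nat_lit 3) (nat_lit 74756150143222528061) (ZL.cons (nat_lit 1900) (nat_lit 6) (nat_lit 147041717140877962052)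 (ZL.cons (nat_lit 1976) (nat_lit 6) (nat_lit 146718327668589727936) (ZL.cons (nat_lit 2052) (nat_lit 6) (nat_lit 144581674375934122070) (ZL.cons (nat_lit 2128) (nat_lit 6) (nat_lit 144108045892129867456) (ZL.cons (nat_lit 2204) (nat_lit 3) (nat_lit 71975147465019022969) (ZL.cons (nat_lit 2280) (nat_lit 6) (nat_lit 141675240000454855970) (ZL.cons (nat_lit 2356) (nat_lit 6) (nat_lit 141367250026847013954) (ZL.cons (nat_lit 2432) (nat_lit 6) (nat_lit 139414117598584514880) (ZL.cons (nat_lit 2508) (nat_lit 6) (nat_lit 138963042852104272392) (ZL.cons (nat_lit 2584) (nat_lit 3) (nat_lit 69406401920294125947) (ZL.cons (nat_lit 2660) (nat_lit 6) (nat_lit 137319295061752486226) (ZL.cons (nat_lit 2736) (nat_lit 6) (nat_lit 136731949103012814718) (ZL.cons (nat_lit 2812) (nat_lit 6) (nat_lit 136438625318624393748) (ZL.cons (nat_lit 2888) (nat_lit 6) (nat_lit 134668656651598613652) (ZL.cons (nat_lit 2964)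 (nat_lit 6) (nat_lit 134239061654950763662) (ZL.cons (nat_lit 3040) (nat_lit 3) (nat_lit 67047988441039181595) (ZL.cons (nat_lit 3116) (nat_lit 6) (nat_lit 132768252896786873480) (ZL.cons (nat_lit 3192) (nat_lit 6) (nat_lit 132208875793225281564) (ZL.cons (nat_lit 3268) (nat_lit 6) (nat_lit 131929519808093452072) (ZL.cons (nat_lit 3344) (nat_lit 6) (nat_lit 131026213067732804344) (ZL.cons (nat_lit 3420) (nat_lit 6) (nat_lit 130343233957586696308) (ZL.cons (nat_lit 3496) (nat_lit 6) (nat_lit 129934095865541124890) (ZL.cons (nat_lit 3572) (nat_lit 3) (nat_lit 64898912326640847935) (ZL.cons (nat_lit 3648) (nat_lit 6) (nat_lit 128637694143664439834) (ZL.cons (nat_lit 3724) (nat_lit 6) (nat_lit 128104954045034352296) (ZL.cons (nat_lit 3800) (nat_lit 6) (nat_lit 127838900725861181350) (ZL.cons (nat_lit 3876) (nat_lit 6) (nat_lit 127088195542377744862) (ZL.cons (nat_lit 3952) (nat_lit 6) (nat_lit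 126437739247000499118) (ZL.cons (nat_lit 4028) (nat_lit 6) (nat_lit 126048083921242812052) (ZL.cons (nat_lit 4104) (nat_lit 3) (nat_lit 62959150907164535063) (ZL.cons (nat_lit 4180) (nat_lit 6) (nat_lit 125691048871342595454) (ZL.cons (nat_lit 4256) (nat_lit 6) (nat_lit 124928481912396627606) (ZL.cons (nat_lit 4332) (nat_lit 6) (nat_lit 124421110389891782334) (ZL.cons (nat_lit 4408) (nat_lit 6) (nat_lit 124167726276393524288) (ZL.cons (nat_lit 4484) (nat_lit 6) (nat_lit 123573588571378442832) (ZL.cons (nat_lit 4560) (nat_lit 6) (nat_lit 122954106385304875456) (ZL.cons (nat_lit 4636) (nat_lit 6) (nat_lit 122583006075059459204) (ZL.cons (nat_lit 4712) (nat_lit 3) (nat_lit 61229702034237471542) (ZL.cons (nat_lit 4788) (nat_lit 6) (nat_lit 122369833287419711020) (ZL.cons (nat_lit 4864) (nat_lit 6) (nat_lit 121643579040804503544) (ZL.cons (nat_lit 4940) (nat_lit 6) (nat_lit 121160368066990365188)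 (ZL.cons (nat_lit 5016) (nat_lit 6) (nat_lit 120919049863658690862) (ZL.cons (nat_lit 5092) (nat_lit 6) (nat_lit 121314349976511006620) (ZL.cons (nat_lit 5168) (nat_lit 6) (nat_lit 120486408053189475242) (ZL.cons (nat_lit 5244) (nat_lit 6) (nat_lit 119896425018833696786) (ZL.cons (nat_lit 5320) (nat_lit 6) (nat_lit 119542996151933300356) (ZL.cons (nat_lit 5396) (nat_lit 3) (nat_lit 59712639977593071075) (ZL.cons (nat_lit 5472) (nat_lit 6) (nat_lit 120404625583150166048) (ZL.cons (nat_lit 5548) (nat_lit 6) (nat_lit 119479838253441659524) (ZL.cons (nat_lit 5624) (nat_lit 6) (nat_lit 118788167542379557166) (ZL.cons (nat_lit 5700) (nat_lit 6) (nat_lit 118327966614937520636) (ZL.cons (nat_lit 5776) (nat_lit 6) (nat_lit 118098139754621640326) (ZL.cons (nat_lit 5852) (nat_lit 6) (nat_lit 119014131395104562392) (ZL.cons (nat_lit 5928) (nat_lit 6) (nat_lit 119638494096876806356) (ZL.cons (nat_lit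 6004) (nat_lit 6) (nat_lit 118621473046799752072) (ZL.cons (nat_lit 6080) (nat_lit 6) (nat_lit 117832956929350674568) (ZL.cons (nat_lit 6156) (nat_lit 6) (nat_lit 117271068325202314136) (ZL.cons (nat_lit 6232) (nat_lit 6) (nat_lit 116934469404344793726) (ZL.cons (nat_lit 6308) (nat_lit 3) (nat_lit 58411179370388035811) (ZL.cons (nat_lit 6384) (nat_lit 6) (nat_lit 116493286487343670884) (ZL.cons (nat_lit 6460) (nat_lit 6) (nat_lit 116634380242911250604) (ZL.cons (nat_lit 6536) (nat_lit 6) (nat_lit 116916903691559666186) (ZL.cons (nat_lit 6612) (nat_lit 6) (nat_lit 117341529508166651950) (ZL.cons (nat_lit 6688) (nat_lit 6) (nat_lit 117909268706581272150) (ZL.cons (nat_lit 6764) (nat_lit 6) (nat_lit 117028518868763646886) (ZL.cons (nat_lit 6840) (nat_lit 6) (nat_lit 116369784858228311308) (ZL.cons (nat_lit 6916) (nat_lit 6) (nat_lit 115931498260664466996) (ZL.cons (nat_lit 6992) (nat_lit 6)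 (nat_lit 115712615536554104792) (ZL.cons (nat_lit 7068) (nat_lit 3) (nat_lit 57606606454472465742) (ZL.cons (nat_lit 7144) (nat_lit 6) (nat_lit 115285480442284423536) (ZL.cons (nat_lit 7220) (nat_lit 6) (nat_lit 115502455107858469910) (ZL.cons (nat_lit 7296) (nat_lit 6) (nat_lit 115864653512013675478) (ZL.cons (nat_lit 7372) (nat_lit 6) (nat_lit 116372938031902790728) (ZL.cons (nat_lit 7448) (nat_lit 6) (nat_lit 115621970300998907390) (ZL.cons (nat_lit 7524) (nat_lit 6) (nat_lit 115086838297048087932) (ZL.cons (nat_lit 7600) (nat_lit 6) (nat_lit 114766267896231401826) (ZL.cons (nat_lit 7676) (nat_lit 3) (nat_lit 57329747917844880863) (ZL.cons (nat_lit 7752) (nat_lit 6) (nat_lit 114135188970799426062) (ZL.cons (nat_lit 7828) (nat_lit 6) (nat_lit 114283337414145384768) (ZL.cons (nat_lit 7904) (nat_lit 6) (nat_lit 114579987035226221128) (ZL.cons (nat_lit 7980) (nat_lit 6) (nat_lit 115025844142663556182)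 (ZL.cons (nat_lit 8056) (nat_lit 6) (nat_lit 114398478418344188964) (ZL.cons (nat_lit 8132) (nat_lit 6) (nat_lit 113981062611140527712) (ZL.cons (nat_lit 8208) (nat_lit 6) (nat_lit 113772602873892563710) (ZL.cons (nat_lit 8284) (nat_lit 3) (nat_lit 56590383519619218380) (ZL.cons (nat_lit 8360) (nat_lit 6) (nat_lit 113256647949244903414) (ZL.cons (nat_lit 8436) (nat_lit 6) (nat_lit 113484471348097652106) (ZL.cons (nat_lit 8512) (nat_lit 6) (nat_lit 113864779672460617952) (ZL.cons (nat_lit 8588) (nat_lit 6) (nat_lit 113355130144888408940) (ZL.cons (nat_lit 8664) (nat_lit 6) (nat_lit 113049825001253469792) (ZL.cons (nat_lit 8740) (nat_lit 3) (nat_lit 56474068662273572945) (ZL.cons (nat_lit 8816) (nat_lit 6) (nat_lit 112419942214431072318) (ZL.cons (nat_lit 8892) (nat_lit 6) (nat_lit 112575498079944328958) (ZL.cons (nat_lit 8968) (nat_lit 6) (nat_lit 112886980182079207136) (ZL.cons (nat_lit 9044)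 (nat_lit 6) (nat_lit 112489441318075720228) (ZL.cons (nat_lit 9120) (nat_lit 6) (nat_lit 112290908234982421180) (ZL.cons (nat_lit 9196) (nat_lit 3) (nat_lit 55885614026596214990) (ZL.cons (nat_lit 9272) (nat_lit 6) (nat_lit 111850903008699219966) (ZL.cons (nat_lit 9348) (nat_lit 6) (nat_lit 112090117577494606092) (ZL.cons (nat_lit 9424) (nat_lit 6) (nat_lit 111799350774032759284) (ZL.cons (nat_lit 9500) (nat_lit 3) (nat_lit 55851252683822892069) (ZL.cons (nat_lit 9576) (nat_lit 6) (nat_lit 111308960908002217728) (ZL.cons (nat_lit 9652) (nat_lit 6) (nat_lit 111472294566791137200) (ZL.cons (nat_lit 9728) (nat_lit 6) (nat_lit 111283215440035614294) (ZL.cons (nat_lit 9804) (nat_lit 3) (nat_lit 55474190719759164689) (ZL.cons (nat_lit 9880) (nat_lit 6) (nat_lit 111032040142800458864) (ZL.cons (nat_lit 9956) (nat_lit 3) (nat_lit 55469903211215955552) (ZL.cons (nat_lit 10032) (nat_lit 6) (nat_lit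 110768306080703545660) (ZL.cons (nat_lit 10108) (nat_lit 1) (nat_lit 18446744073709551617) ZL.nil)))))))))))))))))))))))))))))))))))))))))))))))))))))))))))))))))))))))))))))))))))))))))))))))))))))))))))))))))))))))))))))))))))))

noncomputable def vl : XL := ⟨(nat_lit 0), (nat_lit 76), (nat_lit 298233451), (nat_lit 152), (nat_lit 148572004), (nat_lit 152), (nat_lit 148572004), (nat_lit 1), (nat_lit 4), (nat_lit 2), (nat_lit 5), (nat_lit 2), (nat_lit 4), (nat_lit 0), (nat_lit 0), (nat_lit 0)⟩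

noncomputable def cp0 : Nat := (nat_lit 2362644255512347686597239125919094791727039887569135920151982898838618229826587851997932343546000836652911349685016527967143722756337833518544193280821284125856308872147047437958539885124251686661015953591087022442017786745558698136145754682840656476846961557221753161751555179323360772450066563085427847460729481642009155894965114034771624723993553972723978866368584029032764702208317182849478941832133896257448095158686574349720489041216163118926120808824286741106283626397868313286264909934426922898610262915090055207709390720912428212728404877473589504353602272032608291379016043068952439155065206615446208170420523785567562595848685444855662478153260167377029580708324696652380978381854344874138938020785084873393444299837346782173146690678090413304292467209112136815118718303847200052766666914891824793293321814570490801012780088118290374497715580402048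4188363141305711628300787903268635442187477684050282803228610581291755279226072402941251055454519085101291305143953778803232496219579105714148533596217333006359553748231629935182097566926141660606659973819271958648833733392987027873904757993101990882811119489733141725870298154056070741144818768295575532850590115923959166129162079598659441209821829953046856769843607486334273270548621040554479558863050196381807019137578651875537991750350393064135057738362770222002195532644775257180183032991226262420048421903900833540570541038175906523912526619453585395061086037303353747014236118023188124970921783584502740302899466471357313671032843549531947241410145001277632078357443436536349990770095264848915902673451519343890482671116652484238586060341999737344314819977064918296513312044980214769634294944458395240705451362889097526322956796853957368645302508724951191082969467144021023962553847092953611491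882618755958441518463150161861764262580436971010368222491776165716049122648354041497417606643922461227382003717309485383245164462269176429792008470183273391957634187692723569647107346275434275415320223379505620985363835439420979593609172001840809119046709763023456041682467205108677697778791750005234320438517613444880279062708069133874017286204891475759488473294243219756215476188100043271328844238522298061448411195086089113281746451983200478605168695809472841400975406667332704901304121402376316046842819279763428333865020484732313335294823168079378074847127313423258332057407787343763649468327384017756858784994680656120553529007196418887013958468402334905513676591854992853200973532390450972380877493400091772852346177857141978519005637347643307655131342164076023445896074010762455208479338837186243379274886501244944648630676560118257204962310526181269943470357668415854781358753656566332290517334329396115056304085630098579225736252087490094004741170726862245357013160450835556136444095428525573522925445093741494459016125906839899343570265463923593397237321319613590047723243609944455725734204186634777398882865562015553883006439512481126516479336150250442331945829109954470774914175610147768716447538589444098649639543494275212050209063086960059795701923354281158452269584592348333803799838720)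

noncomputable def cp1 : Nat := (nat_lit 1888031629225864502692704899798278030516570088445798128181766431940477545924703478405665067399221275194145692180047537469396624329505399408049260826717552421226216685131144677081903302318946532274916451386087845036488482231884426534891681000575430835189645085105543298013491650438249873539523666349681231356968370414502051351197389218897205419338561746242222676278624920683394390857548852009880281401540324796211101181492727517275764613940569518516100815574000443313642228629752228277482821901695094487198097749104142291735477746666301742243681974440977045308869081119405407085694441039718336405289762264747830080106715381168792030498374686007310179781963294210292397842118270114167199653927741171757639443150403494215083383256391097655459941231167504815453317359221102571547235396532957268070561559053214284437651556594272510802839661329295720063114385245067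6717522805245093470232414693387367502864124676614673864786549904740706557550469318521258718397431067590505613019184647959300229289134110475120053687473227521074986888562798365719986038688234637033715934664546345901989950310184301122373604639461537452350292113806035044963010804458600641157804534264115351318621391602801155971219289603480848450174636312427606865139337913683800010679821167198052791558787233303739537477671684896968176796913172157926099481735857591470091395518996142920971322401303502748017929453091055961257238303286207021374693218787675937387419559094834898909369014329574859578139065863815050316637694371087967541300749562574797012014774594199374229183593658264902784900129217277853896027135243259411204431643608998288416079174910474448643350098117575108587764186707232717407395479455835537822600754424565258789966819241152746417194243160432317739861119661718364792499015270518154908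8720321587910697340409700325167023456657844183935079758692602114258526420230928852474193301018518064206213355715881289990877452154697072916502747914591378088088778740375804128812488399270331086506922777357936362290446594397273036539571201080086123204351983037613919878502490695777753909824736813907896037010407261351530901789438734532927090086611320142858865516762040638543681868501454865756057403677149946618490013095940078211737402099222106378830688559897270643987826326367608066857445661184909783168056341753384718507379771260694654866397307533441465639704768825936687782451595702974148153035862394192371184499253895360594737447886655290785918704174829455693664952528175855856220371591914880528070490504137703347775831025419948369649687078986466734536469155198574487048982705149078141724761717277818655459419073198039040588236693175943649992089128940840942466645099404504806549983654688292293478600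8899394095430708631515357093778746441839869724283848085077690998421223025633961225301779145362886356434944828294748873826700053475425436364543918685947506810894763936010238479786945911366969330532752243038228761394623001353096664886703944350516296279004722222745890646207385014160584399856372402737134724408614771933235739291889241942016437106213832980303461634077976159491396071206934448220165337127620220535876356152462366640029243995326853755307540137914239277535600952770571799210180068521982054272603557755417335888033085118544450541193438767623611455519992140781441117694532923149453863838284009391200631745829064463004169013797292099665215960781448511079556738154450453967576929853003917704364930028382879678360574391423194987135059846349075419552136023296510852715976085847666455950343584163118973150609580241841909369566546101097383028999939152466527557547712441530764426749483985823536423166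3524484375530130169109004835359972563268846356704999516411621546510406149338811855591591984174787765279905181060196728437438406438203334609278243594121870597019652499524281239929141423065425319930071975929455034467294744881874472451351035908370534791800263970170973019703127404492023580144545205421373637904075051278245863259523803774843841960717122913319811554691864679691784112554558050044603989847418731307799575942020605943028481932686663317647558247850094306567601964661697812518227903420825742894820884994686543622139880551018809255975553500659313257667208705762191321369835979416746027871953237387563034647893121941799249925163597678210260587201733048204966381621647318553813026033712346852056179263503411369335813909116163323585061357877271312418275822802276756435448424652503844074859211987507190040165707952511984998766580015857982901048641947289724077710713269332813722044521785412206983261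8537671037566297558500183993417233119700472180152818489068707987566255501882136592252579504330962540225902969554475207282567783596249697858621010587113856058972962959081475581696812481614014283070244649021723932723568058569409859870780766137307439285399710834288022044593151567169250693878941517174071025187285914311482314469191266890804747581486566669809865708989761835023386599509624244017528201425008139531669334108967120244141686218477584455784859540034452345289361148745383239468625909460096428553534440433423522530551121393497226486849152884877521830310845881917461302279319394606650363800574234055846241264736636136949782487962159816967886038784594462448995794983270736293974681978070063516548621027710783908149756816780072034218800295148504428581168650529920727575016047055097249023252487565363068128027149837279038149994128538859617843050580568393565511161023756042849783086590969459958958414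9714465738802288733374519668165935419161064595428871651922660137751849049143723345698260110885727404709779757858325802973323232699331601076837259126429294813736776042868037893568630635502491947358681418087910305749859888030524534480744129922011725440861728313374526534266504101683674864974359387712802132352432868406414404179273417668201000100931218337062728848109364501059431883967493660849750183192509681141297103094288016216576575222753227485251205261697796211341917250732161301738969206509878159476257097432482961248537125885353172414111670877416331856819705351779681337550547778202129545766329841650052568340838589306987890854116077447027061928450331927763175933203717538765602372585288451886682452838658417998966655013712715885671945608895596439004115378475014966760995645463793480418191985223262704692499981689028904456615864153257450602352439150439429041218320945930291657228660826905035382594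35365056737854098983294091102938164008995765687865252835932667191441686553275576326649872388446533695423763614091178967216360700688091949219781530448154510783513342506057156275563561079880019318861641381527388475129743659246489237787149523398522707507008581863527732996088157115622299057431164921176465834103846073716623648149787993735495928122505731703362162839680895124760817614821964379865076722454691755889960657560819445250963120320480962556235962145650637918999507356246556675115593830018188717959708032594265881836449195379322533319106838963571010535363884790398320854042673960061309144217491685755215697209744761593620927455082808042741532589150101364211775550153916027247593564774226923912020414763945399879987469807103800406723849235040608113638067753818626138267023883028806741601100481721297541690345734895945724420723205230284226309478966412062339450619579534695709310061999044316323526614622476702697693302427978520265228288)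

noncomputable def rc0 : Nat := (nat_lit 1888031629225864502692704899798278030516570088445798128181766431940477545924703478405665067399221275194145692180047537469396624329505399408049260826717552421226216685131144677081903302318946532274916451386087845036488482231884426534891681000575430835189645085105543298013491650438249873539523666349681231356968370414502051351197389218897205419338561746242222676278624920683394390857548852009880281401540324796211101181492727517275764613940569518516100815574000443313642228629752228277482821901695094487198097749104142291735477746666301742243681974440977045308869081119405407085694441039718336405289762264747830080106715381168792030498374686007310179781963294210292397842118270114167199653927741171757639443150403494215083383256391097655459941231167504815453317359221102571547235396532957268070561559053214284437651556594272510802839661329295720063114385245067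6717522805245093470232414693387367502864124676614673864786549904740706557550469318521258718397431067590505613019184647959300229289134110475120053687473227521074986888562798365719986038688234637033715934664546345901989950310184301122373604639461537452350292113806035044963010804458600641157804534264115351318621391602801155971219289603480848450174636312427606865139337913683800010679821167198052791558787233303739537477671684896968176796913172157926099481735857591470091395518996142920971322401303502748017929453091055961257238303286207021374693218787675937387419559094834898909369014329574859578139065863815050316637694371087967541300749562574797012014774594199374229183593658264902784900129217277853896027135243259411204431643608998288416079174910474448643350098117575108587764186707232717407395479455835537822600754424565258789966819241152746417194243160432317739861119661718364792499015270518154908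8720321587910697340409700325167023456657844183935079758692602114258526420230928852474193301018518064206213355715881289990877452154697072916502747914591378088088778740375804128812488399270331086506922777357936362290446594397273036539571201080086123204351983037613919878502490695777753909824736813907896037010407261351530901789438734532927090086611320142858865516762040638543681868501454865756057403677149946618490013095940078211737402099222106378830688559897270643987826326367608066857445661184909783168056341753384718507379771260694654866397307533441465639704768825936687782451595702974148153035862394192371184499253895360594737447886655290785918704174829455693664952528175855856220371591914880528070490504137703347775831025419948369649687078986466734536469155198574487048982705149078141724761717277818655459419073198039040588236693175943649992089128940840942466645099404504806549983654688292293478600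8899394095430708631515357093778746441839869724283848085077690998421223025633961225301779145362886356434944828294748873826700053475425436364543918685947506810894763936010238479786945911366969330532752243038228761394623001353096664886703944350516296279004722222745890646207385014160584399856372402737134724408614771933235739291889241942016437106213832980303461634077976159491396071206934448220165337127620220535876356152462366640029243995326853755307540137914239277535600952770571799210180068521982054272603557755417335888033085118544450541193438767623611455519992140781441117694532923149453863838284009391200631745829064463004169013797292099665215960781448511079556738154450453967576929853003917704364930028382879678360574391423194987135059846349075419552136023296510852715976085847666455950343584163118973150609580241841909369566546101097383028999939152466527557547712441530764426749483985823536423166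3524484375530130169109004835359972563268846356704999516411621546510406149338811855591591984174787765279905181060196728437438406438203334609278243594121870597019652499524281239929141423065425319930071975929455034467294744881874472451351035908370534791800263970170973019703127404492023580144545205421373637904075051278245863259523803774843841960717122913319811554691864679691784112554558050044603989847418731307799575942020605943028481932686663317647558247850094306567601964661697812518227903420825742894820884994686543622139880551018809255975553500659313257667208705762191321369835979416746027871953237387563034647893121941799249925163597678210260587201733048204966381621647318553813026033712346852056179263503411369335813909116163323585061357877271312418275822802276756435448424652503844074859211987507190040165707952511984998766580015857982901048641947289724077710713269332813722044521785412206983261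8537671037566297558500183993417233119700472180152818489068707987566255501882136592252579504330962540225902969554475207282567783596249697858621010587113856058972962959081475581696812481614014283070244649021723932723568058569409859870780766137307439285399710834288022044593151567169250693878941517174071025187285914311482314469191266890804747581486566669809865708989761835023386599509624244017528201425008139531669334108967120244141686218477584455784859540034452345289361148745383239468625909460096428553534440433423522530551121393497226486849152884877521830310845881917461302279319394606650363800574234055846241264736636136949782487962159816967886038784594462448995794983270736293974681978070063516548621027710783908149756816780072034218800295148504428581168650529920727575016047055097249023252487565363068128027149837279038149994128538859617843050580568393565511161023756042849783086590969459958958414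9714465738802288733374519668165935419161064595428871651922660137751849049143723345698260110885727404709779757858325802973323232699331601076837259126429294813736776042868037893568630635502491947358681418087910305749859888030524534480744129922011725440861728313374526534266504101683674864974359387712802132352432868406414404179273417668201000100931218337062728848109364501059431883967493660849750183192509681141297103094288016216576575222753227485251205261697796211341917250732161301738969206509878159476257097432482961248537125885353172414111670877416331856819705351779681337550547778202129545766329841650052568340838589306987890854116077447027061928450331927763175933203717538765602372585288451886682452838658417998966655013712715885671945608895596439004115378475014966760995645463793480418191985223262704692499981689028904456615864153257450602352439150439429041218320945930291657228660826905035382594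35365056737854098983294091102938164008995765687865252835932667191441686553275576326649872388446533695423763614091178967216360700688091949219781530448154510783513342506057156275563561079880019318861641381527388475129743659246489237787149523398522707507008581863527732996088157115622299057431164921176465834103846073716623648149787993735495928122505731703362162839680895124760817614821964379865076722454691755889960657560819445250963120320480962556235962145650637918999507356246556675115593830018188717959708032594265881836449195379322533319106838963571010535363884790398320854042673960061309144217491685755215697209744761593620927455082808042741532589150101364211775550153916027247593564774226923912020414763945399879987469807103800406723849235040608113638067753818626138267023883028806741601100481721297541690345734895945724420723205230284226309478966412062339450619579534695709310061999044316323526614622476702697693302427978520265228288)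

end Vale.Agent.Lib.P154.PChain.BP.S5
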